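import Vale.Agent.Lib.P154.PChain.BS.L

set_option linter.all false

namespace Vale.Agent.Lib.P154.PChain.BS.S0

open Vale.Agent.Lib.P154.Chain

noncomputable def pc0 : PT := (PT.nd (nat_lit 2916966) (PT.nd (nat_lit 2823210) (PT.nd (nat_lit 2760810) (PT.nd (nat_lit 2760654) (PT.nd (nat_lit 2729532) (PT.nd (nat_lit 2729454) PT.nil (PT.lf (nat_lit 76) (nat_lit 6) (nat_lit 1) (nat_lit 3) (nat_lit 106) (nat_lit 87) (nat_lit 107))) (PT.lf (nat_lit 76) (nat_lit 6) (nat_lit 1) (nat_lit 1) (nat_lit 107) (nat_lit 87) (nat_lit 106))) (PT.nd (nat_lit 78) (PT.lf (nat_lit 152) (nat_lit 6) (nat_lit 2) (nat_lit 3) (nat_lit 105) (nat_lit 88) (nat_lit 107)) (PT.lf (nat_lit 228) (nat_lit 3) (nat_lit 3) (nat_lit 1) (nat_lit 106) (nat_lit 88) (nat_lit 106)))) (PT.nd (nat_lit 31200) (PT.nd (nat_lit 31122) (PT.lf (nat_lit 152) (nat_lit 6) (nat_lit 2) (nat_lit 1) (nat_lit 107) (nat_lit 88) (nat_lit 105))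 (PT.lf (nat_lit 304) (nat_lit 6) (nat_lit 4) (nat_lit 3) (nat_lit 105) (nat_lit 89) (nat_lit 106))) (PT.nd (nat_lit 31122) (PT.lf (nat_lit 304) (nat_lit 6) (nat_lit 4) (nat_lit 1) (nat_lit 106) (nat_lit 89) (nat_lit 105)) (PT.lf (nat_lit 380) (nat_lit 6) (nat_lit 5) (nat_lit 3) (nat_lit 104) (nat_lit 90) (nat_lit 106))))) (PT.nd (nat_lit 62400) (PT.nd (nat_lit 31200) (PT.nd (nat_lit 78) (PT.lf (nat_lit 456) (nat_lit 3) (nat_lit 6) (nat_lit 1) (nat_lit 105) (nat_lit 90) (nat_lit 105)) (PT.lf (nat_lit 380) (nat_lit 6) (nat_lit 5) (nat_lit 1) (nat_lit 106) (nat_lit 90) (nat_lit 104))) (PT.nd (nat_lit 78) (PT.lf (nat_lit 532) (nat_lit 6) (nat_lit 7) (nat_lit 3) (nat_lit 104) (nat_lit 91) (nat_lit 105)) (PT.lf (nat_lit 532) (nat_lit 6) (nat_lit 7) (nat_lit 1) (nat_lit 105) (nat_lit 91) (nat_lit 104)))) (PT.nd (nat_lit 156) (PT.nd (nat_lit 78) (PT.lf (nat_lit 608) (nat_lit 6) (nat_lit 8)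 (nat_lit 3) (nat_lit 103) (nat_lit 92) (nat_lit 105)) (PT.lf (nat_lit 684) (nat_lit 3) (nat_lit 9) (nat_lit 1) (nat_lit 104) (nat_lit 92) (nat_lit 104))) (PT.nd (nat_lit 31122) (PT.lf (nat_lit 608) (nat_lit 6) (nat_lit 8) (nat_lit 1) (nat_lit 105) (nat_lit 92) (nat_lit 103)) (PT.lf (nat_lit 760) (nat_lit 6) (nat_lit 10) (nat_lit 3) (nat_lit 103) (nat_lit 93) (nat_lit 104)))))) (PT.nd (nat_lit 93522) (PT.nd (nat_lit 62322) (PT.nd (nat_lit 31200) (PT.nd (nat_lit 31122) (PT.lf (nat_lit 760) (nat_lit 6) (nat_lit 10) (nat_lit 1) (nat_lit 104) (nat_lit 93) (nat_lit 103)) (PT.lf (nat_lit 836) (nat_lit 6) (nat_lit 11) (nat_lit 3) (nat_lit 102) (nat_lit 94) (nat_lit 104))) (PT.nd (nat_lit 78) (PT.lf (nat_lit 912) (nat_lit 3) (nat_lit 12) (nat_lit 1) (nat_lit 103) (nat_lit 94) (nat_lit 103)) (PT.lf (nat_lit 836) (nat_lit 6) (nat_lit 11) (nat_lit 1) (nat_lit 104) (nat_lit 94) (nat_lit 102))))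 (PT.nd (nat_lit 156) (PT.nd (nat_lit 78) (PT.lf (nat_lit 988) (nat_lit 6) (nat_lit 13) (nat_lit 3) (nat_lit 101) (nat_lit 95) (nat_lit 104)) (PT.lf (nat_lit 1064) (nat_lit 6) (nat_lit 14) (nat_lit 3) (nat_lit 102) (nat_lit 95) (nat_lit 103))) (PT.nd (nat_lit 78) (PT.lf (nat_lit 1064) (nat_lit 6) (nat_lit 14) (nat_lit 1) (nat_lit 103) (nat_lit 95) (nat_lit 102)) (PT.lf (nat_lit 988) (nat_lit 6) (nat_lit 13) (nat_lit 1) (nat_lit 104) (nat_lit 95) (nat_lit 101))))) (PT.nd (nat_lit 312) (PT.nd (nat_lit 156) (PT.nd (nat_lit 78) (PT.lf (nat_lit 1216) (nat_lit 6) (nat_lit 16) (nat_lit 3) (nat_lit 100) (nat_lit 96) (nat_lit 104)) (PT.lf (nat_lit 1292) (nat_lit 6) (nat_lit 17) (nat_lit 3) (nat_lit 101) (nat_lit 96) (nat_lit 103))) (PT.nd (nat_lit 78) (PT.lf (nat_lit 1368) (nat_lit 3) (nat_lit 18) (nat_lit 1) (nat_lit 102) (nat_lit 96) (nat_lit 102)) (PT.lf (nat_lit 1292) (nat_lit 6) (nat_lit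 17) (nat_lit 1) (nat_lit 103) (nat_lit 96) (nat_lit 101)))) (PT.nd (nat_lit 30966) (PT.nd (nat_lit 30888) (PT.lf (nat_lit 1216) (nat_lit 6) (nat_lit 16) (nat_lit 1) (nat_lit 104) (nat_lit 96) (nat_lit 100)) (PT.lf (nat_lit 1140) (nat_lit 6) (nat_lit 15) (nat_lit 3) (nat_lit 99) (nat_lit 97) (nat_lit 104))) (PT.nd (nat_lit 78) (PT.lf (nat_lit 1520) (nat_lit 6) (nat_lit 20) (nat_lit 3) (nat_lit 100) (nat_lit 97) (nat_lit 103)) (PT.lf (nat_lit 1596) (nat_lit 6) (nat_lit 21) (nat_lit 3) (nat_lit 101) (nat_lit 97) (nat_lit 102)))))))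
noncomputable def pc1 : PT := (PT.nd (nat_lit 93366) (PT.nd (nat_lit 62166) (PT.nd (nat_lit 31122) (PT.nd (nat_lit 156) (PT.nd (nat_lit 78) (PT.lf (nat_lit 1596) (nat_lit 6) (nat_lit 21) (nat_lit 1) (nat_lit 102) (nat_lit 97) (nat_lit 101)) (PT.lf (nat_lit 1520) (nat_lit 6) (nat_lit 20) (nat_lit 1) (nat_lit 103) (nat_lit 97) (nat_lit 100))) (PT.nd (nat_lit 30888) (PT.lf (nat_lit 1140) (nat_lit 6) (nat_lit 15) (nat_lit 1) (nat_lit 104) (nat_lit 97) (nat_lit 99)) (PT.lf (nat_lit 1444) (nat_lit 6) (nat_lit 19) (nat_lit 3) (nat_lit 99) (nat_lit 98) (nat_lit 103)))) (PT.nd (nat_lit 156) (PT.nd (nat_lit 78) (PT.lf (nat_lit 1748) (nat_lit 6) (nat_lit 23) (nat_lit 3) (nat_lit 100) (nat_lit 98) (nat_lit 102)) (PT.lf (nat_lit 1824) (nat_lit 3) (nat_lit 24) (nat_lit 1) (nat_lit 101) (nat_lit 98) (nat_lit 101))) (PT.nd (nat_lit 78) (PT.lf (nat_lit 1748) (nat_lit 6) (nat_lit 23) (nat_lit 1) (nat_lit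 102) (nat_lit 98) (nat_lit 100)) (PT.lf (nat_lit 1444) (nat_lit 6) (nat_lit 19) (nat_lit 1) (nat_lit 103) (nat_lit 98) (nat_lit 99))))) (PT.nd (nat_lit 312) (PT.nd (nat_lit 156) (PT.nd (nat_lit 78) (PT.lf (nat_lit 1140) (nat_lit 6) (nat_lit 15) (nat_lit 5) (nat_lit 97) (nat_lit 99) (nat_lit 104)) (PT.lf (nat_lit 1444) (nat_lit 6) (nat_lit 19) (nat_lit 5) (nat_lit 98) (nat_lit 99) (nat_lit 103))) (PT.nd (nat_lit 78) (PT.lf (nat_lit 1672) (nat_lit 3) (nat_lit 22) (nat_lit 3) (nat_lit 99) (nat_lit 99) (nat_lit 102)) (PT.lf (nat_lit 1900) (nat_lit 6) (nat_lit 25) (nat_lit 3) (nat_lit 100) (nat_lit 99) (nat_lit 101)))) (PT.nd (nat_lit 156) (PT.nd (nat_lit 78) (PT.lf (nat_lit 1900) (nat_lit 6) (nat_lit 25) (nat_lit 1) (nat_lit 101) (nat_lit 99) (nat_lit 100)) (PT.lf (nat_lit 1672) (nat_lit 3) (nat_lit 22) (nat_lit 0) (nat_lit 102) (nat_lit 99) (nat_lit 99))) (PT.nd (nat_lit 78) (PT.lf (nat_lit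 1444) (nat_lit 6) (nat_lit 19) (nat_lit 0) (nat_lit 103) (nat_lit 99) (nat_lit 98)) (PT.lf (nat_lit 1140) (nat_lit 6) (nat_lit 15) (nat_lit 0) (nat_lit 104) (nat_lit 99) (nat_lit 97)))))) (PT.nd (nat_lit 624) (PT.nd (nat_lit 312) (PT.nd (nat_lit 156) (PT.nd (nat_lit 78) (PT.lf (nat_lit 1216) (nat_lit 6) (nat_lit 16) (nat_lit 5) (nat_lit 96) (nat_lit 100) (nat_lit 104)) (PT.lf (nat_lit 1520) (nat_lit 6) (nat_lit 20) (nat_lit 5) (nat_lit 97) (nat_lit 100) (nat_lit 103))) (PT.nd (nat_lit 78) (PT.lf (nat_lit 1748) (nat_lit 6) (nat_lit 23) (nat_lit 5) (nat_lit 98) (nat_lit 100) (nat_lit 102)) (PT.lf (nat_lit 1900) (nat_lit 6) (nat_lit 25) (nat_lit 5) (nat_lit 99) (nat_lit 100) (nat_lit 101)))) (PT.nd (nat_lit 156) (PT.nd (nat_lit 78) (PT.lf (nat_lit 1976) (nat_lit 1) (nat_lit 26) (nat_lit 0) (nat_lit 100) (nat_lit 100) (nat_lit 100)) (PT.lf (nat_lit 1900) (nat_lit 6) (nat_lit 25) (nat_lit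 0) (nat_lit 101) (nat_lit 100) (nat_lit 99))) (PT.nd (nat_lit 78) (PT.lf (nat_lit 1748) (nat_lit 6) (nat_lit 23) (nat_lit 0) (nat_lit 102) (nat_lit 100) (nat_lit 98)) (PT.lf (nat_lit 1520) (nat_lit 6) (nat_lit 20) (nat_lit 0) (nat_lit 103) (nat_lit 100) (nat_lit 97))))) (PT.nd (nat_lit 30810) (PT.nd (nat_lit 30654) (PT.nd (nat_lit 30576) (PT.lf (nat_lit 1216) (nat_lit 6) (nat_lit 16) (nat_lit 0) (nat_lit 104) (nat_lit 100) (nat_lit 96)) (PT.lf (nat_lit 988) (nat_lit 6) (nat_lit 13) (nat_lit 5) (nat_lit 95) (nat_lit 101) (nat_lit 104))) (PT.nd (nat_lit 78) (PT.lf (nat_lit 1292) (nat_lit 6) (nat_lit 17) (nat_lit 5) (nat_lit 96) (nat_lit 101) (nat_lit 103)) (PT.lf (nat_lit 1596) (nat_lit 6) (nat_lit 21) (nat_lit 5) (nat_lit 97) (nat_lit 101) (nat_lit 102)))) (PT.nd (nat_lit 156) (PT.nd (nat_lit 78) (PT.lf (nat_lit 1824) (nat_lit 3) (nat_lit 24) (nat_lit 4) (nat_lit 98) (nat_lit 101) (nat_lit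 101)) (PT.lf (nat_lit 1900) (nat_lit 6) (nat_lit 25) (nat_lit 4) (nat_lit 99) (nat_lit 101) (nat_lit 100))) (PT.nd (nat_lit 78) (PT.lf (nat_lit 1900) (nat_lit 6) (nat_lit 25) (nat_lit 2) (nat_lit 100) (nat_lit 101) (nat_lit 99)) (PT.nd (nat_lit 78) (PT.lf (nat_lit 1824) (nat_lit 3) (nat_lit 24) (nat_lit 0) (nat_lit 101) (nat_lit 101) (nat_lit 98)) (PT.lf (nat_lit 1596) (nat_lit 6) (nat_lit 21) (nat_lit 0) (nat_lit 102) (nat_lit 101) (nat_lit 97))))))))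
noncomputable def pc2 : PT := (PT.nd (nat_lit 61932) (PT.nd (nat_lit 31044) (PT.nd (nat_lit 30732) (PT.nd (nat_lit 30576) (PT.nd (nat_lit 78) (PT.lf (nat_lit 1292) (nat_lit 6) (nat_lit 17) (nat_lit 0) (nat_lit 103) (nat_lit 101) (nat_lit 96)) (PT.lf (nat_lit 988) (nat_lit 6) (nat_lit 13) (nat_lit 0) (nat_lit 104) (nat_lit 101) (nat_lit 95))) (PT.nd (nat_lit 78) (PT.lf (nat_lit 836) (nat_lit 6) (nat_lit 11) (nat_lit 5) (nat_lit 94) (nat_lit 102) (nat_lit 104)) (PT.lf (nat_lit 1064) (nat_lit 6) (nat_lit 14) (nat_lit 5) (nat_lit 95) (nat_lit 102) (nat_lit 103)))) (PT.nd (nat_lit 156) (PT.nd (nat_lit 78) (PT.lf (nat_lit 1368) (nat_lit 3) (nat_lit 18) (nat_lit 4) (nat_lit 96) (nat_lit 102) (nat_lit 102)) (PT.lf (nat_lit 1596) (nat_lit 6) (nat_lit 21) (nat_lit 4) (nat_lit 97) (nat_lit 102) (nat_lit 101))) (PT.nd (nat_lit 78) (PT.lf (nat_lit 1748) (nat_lit 6) (nat_lit 23) (nat_lit 4) (nat_lit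 98) (nat_lit 102) (nat_lit 100)) (PT.lf (nat_lit 1672) (nat_lit 3) (nat_lit 22) (nat_lit 2) (nat_lit 99) (nat_lit 102) (nat_lit 99))))) (PT.nd (nat_lit 312) (PT.nd (nat_lit 156) (PT.nd (nat_lit 78) (PT.lf (nat_lit 1748) (nat_lit 6) (nat_lit 23) (nat_lit 2) (nat_lit 100) (nat_lit 102) (nat_lit 98)) (PT.lf (nat_lit 1596) (nat_lit 6) (nat_lit 21) (nat_lit 2) (nat_lit 101) (nat_lit 102) (nat_lit 97))) (PT.nd (nat_lit 78) (PT.lf (nat_lit 1368) (nat_lit 3) (nat_lit 18) (nat_lit 0) (nat_lit 102) (nat_lit 102) (nat_lit 96)) (PT.lf (nat_lit 1064) (nat_lit 6) (nat_lit 14) (nat_lit 0) (nat_lit 103) (nat_lit 102) (nat_lit 95)))) (PT.nd (nat_lit 30420) (PT.nd (nat_lit 30342) (PT.lf (nat_lit 836) (nat_lit 6) (nat_lit 11) (nat_lit 0) (nat_lit 104) (nat_lit 102) (nat_lit 94)) (PT.lf (nat_lit 608) (nat_lit 6) (nat_lit 8) (nat_lit 5) (nat_lit 92) (nat_lit 103) (nat_lit 105))) (PT.nd (nat_lit 78) (PT.lf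 (nat_lit 760) (nat_lit 6) (nat_lit 10) (nat_lit 5) (nat_lit 93) (nat_lit 103) (nat_lit 104)) (PT.lf (nat_lit 912) (nat_lit 3) (nat_lit 12) (nat_lit 4) (nat_lit 94) (nat_lit 103) (nat_lit 103)))))) (PT.nd (nat_lit 624) (PT.nd (nat_lit 312) (PT.nd (nat_lit 156) (PT.nd (nat_lit 78) (PT.lf (nat_lit 1064) (nat_lit 6) (nat_lit 14) (nat_lit 4) (nat_lit 95) (nat_lit 103) (nat_lit 102)) (PT.lf (nat_lit 1292) (nat_lit 6) (nat_lit 17) (nat_lit 4) (nat_lit 96) (nat_lit 103) (nat_lit 101))) (PT.nd (nat_lit 78) (PT.lf (nat_lit 1520) (nat_lit 6) (nat_lit 20) (nat_lit 4) (nat_lit 97) (nat_lit 103) (nat_lit 100)) (PT.lf (nat_lit 1444) (nat_lit 6) (nat_lit 19) (nat_lit 4) (nat_lit 98) (nat_lit 103) (nat_lit 99)))) (PT.nd (nat_lit 156) (PT.nd (nat_lit 78) (PT.lf (nat_lit 1444) (nat_lit 6) (nat_lit 19) (nat_lit 2) (nat_lit 99) (nat_lit 103) (nat_lit 98)) (PT.lf (nat_lit 1520) (nat_lit 6) (nat_lit 20)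 (nat_lit 2) (nat_lit 100) (nat_lit 103) (nat_lit 97))) (PT.nd (nat_lit 78) (PT.lf (nat_lit 1292) (nat_lit 6) (nat_lit 17) (nat_lit 2) (nat_lit 101) (nat_lit 103) (nat_lit 96)) (PT.lf (nat_lit 1064) (nat_lit 6) (nat_lit 14) (nat_lit 2) (nat_lit 102) (nat_lit 103) (nat_lit 95))))) (PT.nd (nat_lit 30342) (PT.nd (nat_lit 156) (PT.nd (nat_lit 78) (PT.lf (nat_lit 912) (nat_lit 3) (nat_lit 12) (nat_lit 0) (nat_lit 103) (nat_lit 103) (nat_lit 94)) (PT.lf (nat_lit 760) (nat_lit 6) (nat_lit 10) (nat_lit 0) (nat_lit 104) (nat_lit 103) (nat_lit 93))) (PT.nd (nat_lit 30108) (PT.lf (nat_lit 608) (nat_lit 6) (nat_lit 8) (nat_lit 0) (nat_lit 105) (nat_lit 103) (nat_lit 92)) (PT.lf (nat_lit 380) (nat_lit 6) (nat_lit 5) (nat_lit 5) (nat_lit 90) (nat_lit 104) (nat_lit 106)))) (PT.nd (nat_lit 156) (PT.nd (nat_lit 78) (PT.lf (nat_lit 532) (nat_lit 6) (nat_lit 7) (nat_lit 5) (nat_lit 91) (nat_lit 104) (nat_lit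 105)) (PT.lf (nat_lit 684) (nat_lit 3) (nat_lit 9) (nat_lit 4) (nat_lit 92) (nat_lit 104) (nat_lit 104))) (PT.nd (nat_lit 78) (PT.lf (nat_lit 760) (nat_lit 6) (nat_lit 10) (nat_lit 4) (nat_lit 93) (nat_lit 104) (nat_lit 103)) (PT.lf (nat_lit 836) (nat_lit 6) (nat_lit 11) (nat_lit 4) (nat_lit 94) (nat_lit 104) (nat_lit 102)))))))
noncomputable def pc3 : PT := (PT.nd (nat_lit 31902) (PT.nd (nat_lit 702) (PT.nd (nat_lit 390) (PT.nd (nat_lit 156) (PT.nd (nat_lit 78) (PT.lf (nat_lit 988) (nat_lit 6) (nat_lit 13) (nat_lit 4) (nat_lit 95) (nat_lit 104) (nat_lit 101)) (PT.lf (nat_lit 1216) (nat_lit 6) (nat_lit 16) (nat_lit 4) (nat_lit 96) (nat_lit 104) (nat_lit 100))) (PT.nd (nat_lit 156) (PT.lf (nat_lit 1140) (nat_lit 6) (nat_lit 15) (nat_lit 4) (nat_lit 97) (nat_lit 104) (nat_lit 99)) (PT.lf (nat_lit 1140) (nat_lit 6) (nat_lit 15) (nat_lit 2) (nat_lit 99) (nat_lit 104) (nat_lit 97)))) (PT.nd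 (nat_lit 156) (PT.nd (nat_lit 78) (PT.lf (nat_lit 1216) (nat_lit 6) (nat_lit 16) (nat_lit 2) (nat_lit 100) (nat_lit 104) (nat_lit 96)) (PT.lf (nat_lit 988) (nat_lit 6) (nat_lit 13) (nat_lit 2) (nat_lit 101) (nat_lit 104) (nat_lit 95))) (PT.nd (nat_lit 78) (PT.lf (nat_lit 836) (nat_lit 6) (nat_lit 11) (nat_lit 2) (nat_lit 102) (nat_lit 104) (nat_lit 94)) (PT.lf (nat_lit 760) (nat_lit 6) (nat_lit 10) (nat_lit 2) (nat_lit 103) (nat_lit 104) (nat_lit 93))))) (PT.nd (nat_lit 30108) (PT.nd (nat_lit 156) (PT.nd (nat_lit 78) (PT.lf (nat_lit 684) (nat_lit 3) (nat_lit 9) (nat_lit 0) (nat_lit 104) (nat_lit 104) (nat_lit 92)) (PT.lf (nat_lit 532) (nat_lit 6) (nat_lit 7) (nat_lit 0) (nat_lit 105) (nat_lit 104) (nat_lit 91))) (PT.nd (nat_lit 29874) (PT.lf (nat_lit 380) (nat_lit 6) (nat_lit 5) (nat_lit 0) (nat_lit 106) (nat_lit 104) (nat_lit 90)) (PT.lf (nat_lit 152) (nat_lit 6) (nat_lit 2) (nat_lit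 5) (nat_lit 88) (nat_lit 105) (nat_lit 107)))) (PT.nd (nat_lit 156) (PT.nd (nat_lit 78) (PT.lf (nat_lit 304) (nat_lit 6) (nat_lit 4) (nat_lit 5) (nat_lit 89) (nat_lit 105) (nat_lit 106)) (PT.lf (nat_lit 456) (nat_lit 3) (nat_lit 6) (nat_lit 4) (nat_lit 90) (nat_lit 105) (nat_lit 105))) (PT.nd (nat_lit 78) (PT.lf (nat_lit 532) (nat_lit 6) (nat_lit 7) (nat_lit 4) (nat_lit 91) (nat_lit 105) (nat_lit 104)) (PT.lf (nat_lit 608) (nat_lit 6) (nat_lit 8) (nat_lit 4) (nat_lit 92) (nat_lit 105) (nat_lit 103)))))) (PT.nd (nat_lit 30264) (PT.nd (nat_lit 312) (PT.nd (nat_lit 156) (PT.nd (nat_lit 78) (PT.lf (nat_lit 608) (nat_lit 6) (nat_lit 8) (nat_lit 2) (nat_lit 103) (nat_lit 105) (nat_lit 92)) (PT.lf (nat_lit 532) (nat_lit 6) (nat_lit 7) (nat_lit 2) (nat_lit 104) (nat_lit 105) (nat_lit 91))) (PT.nd (nat_lit 78) (PT.lf (nat_lit 456) (nat_lit 3) (nat_lit 6) (nat_lit 0) (nat_lit 105) (nat_lit 105)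 (nat_lit 90)) (PT.lf (nat_lit 304) (nat_lit 6) (nat_lit 4) (nat_lit 0) (nat_lit 106) (nat_lit 105) (nat_lit 89)))) (PT.nd (nat_lit 29796) (PT.nd (nat_lit 29718) (PT.lf (nat_lit 152) (nat_lit 6) (nat_lit 2) (nat_lit 0) (nat_lit 107) (nat_lit 105) (nat_lit 88)) (PT.lf (nat_lit 76) (nat_lit 6) (nat_lit 1) (nat_lit 5) (nat_lit 87) (nat_lit 106) (nat_lit 107))) (PT.nd (nat_lit 78) (PT.lf (nat_lit 228) (nat_lit 3) (nat_lit 3) (nat_lit 4) (nat_lit 88) (nat_lit 106) (nat_lit 106)) (PT.lf (nat_lit 304) (nat_lit 6) (nat_lit 4) (nat_lit 4) (nat_lit 89) (nat_lit 106) (nat_lit 105))))) (PT.nd (nat_lit 1326) (PT.nd (nat_lit 1170) (PT.nd (nat_lit 1092) (PT.lf (nat_lit 380) (nat_lit 6) (nat_lit 5) (nat_lit 4) (nat_lit 90) (nat_lit 106) (nat_lit 104)) (PT.lf (nat_lit 380) (nat_lit 6) (nat_lit 5) (nat_lit 2) (nat_lit 104) (nat_lit 106) (nat_lit 90))) (PT.nd (nat_lit 78) (PT.lf (nat_lit 304) (nat_lit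 6) (nat_lit 4) (nat_lit 2) (nat_lit 105) (nat_lit 106) (nat_lit 89)) (PT.lf (nat_lit 228) (nat_lit 3) (nat_lit 3) (nat_lit 0) (nat_lit 106) (nat_lit 106) (nat_lit 88)))) (PT.nd (nat_lit 29796) (PT.nd (nat_lit 29718) (PT.lf (nat_lit 76) (nat_lit 6) (nat_lit 1) (nat_lit 0) (nat_lit 107) (nat_lit 106) (nat_lit 87)) (PT.lf (nat_lit 76) (nat_lit 6) (nat_lit 1) (nat_lit 4) (nat_lit 87) (nat_lit 107) (nat_lit 106))) (PT.nd (nat_lit 1326) (PT.lf (nat_lit 152) (nat_lit 6) (nat_lit 2) (nat_lit 4) (nat_lit 88) (nat_lit 107) (nat_lit 105)) (PT.nd (nat_lit 78) (PT.lf (nat_lit 152) (nat_lit 6) (nat_lit 2) (nat_lit 2) (nat_lit 105) (nat_lit 107) (nat_lit 88)) (PT.lf (nat_lit 76) (nat_lit 6) (nat_lit 1) (nat_lit 2) (nat_lit 106) (nat_lit 107) (nat_lit 87))))))))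
noncomputable def xc0 : XT := (XT.nd (nat_lit 280332) (nat_lit 0) (nat_lit 0) (XT.nd (nat_lit 186810) (nat_lit 0) (nat_lit 0) (XT.nd (nat_lit 62478) (nat_lit 0) (nat_lit 0) (XT.nd (nat_lit 31278) (nat_lit 0) (nat_lit 0) (XT.nd (nat_lit 31122) (nat_lit 0) (nat_lit 0) (XT.lf (nat_lit 0) (nat_lit 20755971935774) (nat_lit 152) (nat_lit 102602734254710) (nat_lit 0) (nat_lit 20755971935774) (nat_lit 1) (nat_lit 5) (nat_lit 3) (nat_lit 4) (nat_lit 1) (nat_lit 4) (nat_lit 288) (nat_lit 156) (nat_lit 156)) (XT.nd (nat_lit 78) (nat_lit 0) (nat_lit 0) (XT.lf (nat_lit 0) (nat_lit 15694464244395) (nat_lit 152) (nat_lit 77582478221752) (nat_lit 0) (nat_lit 15694464244395) (nat_lit 1) (nat_lit 5) (nat_lit 3) (nat_lit 4) (nat_lit 1) (nat_lit 4) (nat_lit 286) (nat_lit 157) (nat_lit 157)) (XT.lf (nat_lit 0) (nat_lit 36097309922750) (nat_lit 152) (nat_lit 178439611345959) (nat_lit 0) (nat_lit 36097307277181)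 (nat_lit 1) (nat_lit 5) (nat_lit 3) (nat_lit 4) (nat_lit 1) (nat_lit 4) (nat_lit 287) (nat_lit 157) (nat_lit 156)))) (XT.nd (nat_lit 31044) (nat_lit 0) (nat_lit 0) (XT.nd (nat_lit 30966) (nat_lit 0) (nat_lit 0) (XT.lf (nat_lit 0) (nat_lit 41511944730437) (nat_lit 152) (nat_lit 205205472009977) (nat_lit 0) (nat_lit 41511939784373) (nat_lit 1) (nat_lit 5) (nat_lit 3) (nat_lit 4) (nat_lit 1) (nat_lit 4) (nat_lit 288) (nat_lit 157) (nat_lit 155)) (XT.lf (nat_lit 0) (nat_lit 11867232382570) (nat_lit 152) (nat_lit 58663580638443) (nat_lit 0) (nat_lit 11867232382571) (nat_lit 1) (nat_lit 5) (nat_lit 3) (nat_lit 4) (nat_lit 1) (nat_lit 4) (nat_lit 284) (nat_lit 158) (nat_lit 158))) (XT.nd (nat_lit 78) (nat_lit 0) (nat_lit 0) (XT.lf (nat_lit 0) (nat_lit 27294682964649) (nat_lit 152) (nat_lit 134926133619739) (nat_lit 0) (nat_lit 27294679922244) (nat_lit 1) (nat_lit 5) (nat_lit 3) (nat_lit 4)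 (nat_lit 1) (nat_lit 4) (nat_lit 285) (nat_lit 158) (nat_lit 157)) (XT.lf (nat_lit 0) (nat_lit 31388929476512) (nat_lit 152) (nat_lit 155164960469143) (nat_lit 0) (nat_lit 31388923788538) (nat_lit 1) (nat_lit 5) (nat_lit 3) (nat_lit 4) (nat_lit 1) (nat_lit 4) (nat_lit 286) (nat_lit 158) (nat_lit 156))))) (XT.nd (nat_lit 62322) (nat_lit 0) (nat_lit 0) (XT.nd (nat_lit 31122) (nat_lit 0) (nat_lit 0) (XT.nd (nat_lit 31044) (nat_lit 0) (nat_lit 0) (XT.lf (nat_lit 0) (nat_lit 36097309123789) (nat_lit 152) (nat_lit 178439618872154) (nat_lit 0) (nat_lit 36097301135320) (nat_lit 1) (nat_lit 5) (nat_lit 3) (nat_lit 4) (nat_lit 1) (nat_lit 4) (nat_lit 287) (nat_lit 158) (nat_lit 155)) (XT.lf (nat_lit 0) (nat_lit 23734465901020) (nat_lit 152) (nat_lit 117327165906373) (nat_lit 0) (nat_lit 23734459359851) (nat_lit 1) (nat_lit 5) (nat_lit 3) (nat_lit 4) (nat_lit 1) (nat_lit 4) (nat_lit 284) (nat_lit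 159) (nat_lit 157))) (XT.nd (nat_lit 78) (nat_lit 0) (nat_lit 0) (XT.lf (nat_lit 0) (nat_lit 27294682045844) (nat_lit 152) (nat_lit 134926142274864) (nat_lit 0) (nat_lit 27294672859105) (nat_lit 1) (nat_lit 5) (nat_lit 3) (nat_lit 4) (nat_lit 1) (nat_lit 4) (nat_lit 285) (nat_lit 159) (nat_lit 156)) (XT.lf (nat_lit 0) (nat_lit 31388926771025) (nat_lit 152) (nat_lit 155164972624825) (nat_lit 0) (nat_lit 31388915283791) (nat_lit 1) (nat_lit 5) (nat_lit 3) (nat_lit 4) (nat_lit 1) (nat_lit 4) (nat_lit 286) (nat_lit 159) (nat_lit 155)))) (XT.nd (nat_lit 30810) (nat_lit 0) (nat_lit 0) (XT.nd (nat_lit 78) (nat_lit 0) (nat_lit 0) (XT.lf (nat_lit 0) (nat_lit 23734462789710) (nat_lit 152) (nat_lit 117327179885406) (nat_lit 0) (nat_lit 23734449579392) (nat_lit 1) (nat_lit 5) (nat_lit 3) (nat_lit 4) (nat_lit 1) (nat_lit 4) (nat_lit 284) (nat_lit 160) (nat_lit 156)) (XT.lf (nat_lit 0) (nat_lit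 27294677147852) (nat_lit 152) (nat_lit 134926159754453) (nat_lit 0) (nat_lit 27294661637039) (nat_lit 1) (nat_lit 5) (nat_lit 3) (nat_lit 4) (nat_lit 1) (nat_lit 4) (nat_lit 285) (nat_lit 160) (nat_lit 155))) (XT.nd (nat_lit 31122) (nat_lit 0) (nat_lit 0) (XT.lf (nat_lit 0) (nat_lit 5130413277722) (nat_lit 152) (nat_lit 25362142355053) (nat_lit 0) (nat_lit 5130413277722) (nat_lit 1) (nat_lit 5) (nat_lit 3) (nat_lit 4) (nat_lit 1) (nat_lit 4) (nat_lit 278) (nat_lit 161) (nat_lit 161)) (XT.lf (nat_lit 0) (nat_lit 3879264154670) (nat_lit 152) (nat_lit 19177565066603) (nat_lit 0) (nat_lit 3879264154670) (nat_lit 1) (nat_lit 5) (nat_lit 3) (nat_lit 4) (nat_lit 1) (nat_lit 4) (nat_lit 276) (nat_lit 162) (nat_lit 162)))))) (XT.nd (nat_lit 62244) (nat_lit 0) (nat_lit 0) (XT.nd (nat_lit 31122) (nat_lit 0) (nat_lit 0) (XT.nd (nat_lit 78) (nat_lit 0) (nat_lit 0) (XT.lf (nat_lit 0) (nat_lit 8922392355848)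 (nat_lit 152) (nat_lit 44108221519207) (nat_lit 0) (nat_lit 8922387034663) (nat_lit 1) (nat_lit 5) (nat_lit 3) (nat_lit 4) (nat_lit 1) (nat_lit 4) (nat_lit 277) (nat_lit 162) (nat_lit 161)) (XT.nd (nat_lit 30966) (nat_lit 0) (nat_lit 0) (XT.lf (nat_lit 0) (nat_lit 10260828282973) (nat_lit 152) (nat_lit 50724291750976) (nat_lit 0) (nat_lit 10260818334672) (nat_lit 1) (nat_lit 5) (nat_lit 3) (nat_lit 4) (nat_lit 1) (nat_lit 4) (nat_lit 278) (nat_lit 162) (nat_lit 160)) (XT.lf (nat_lit 0) (nat_lit 2933205865047) (nat_lit 152) (nat_lit 14501157375396) (nat_lit 0) (nat_lit 2933205865047) (nat_lit 1) (nat_lit 5) (nat_lit 3) (nat_lit 4) (nat_lit 1) (nat_lit 4) (nat_lit 274) (nat_lit 163) (nat_lit 163)))) (XT.nd (nat_lit 156) (nat_lit 0) (nat_lit 0) (XT.nd (nat_lit 78) (nat_lit 0) (nat_lit 0) (XT.lf (nat_lit 0) (nat_lit 6746471009730) (nat_lit 152) (nat_lit 33352457109335) (nat_lit 0) (nat_lit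 6746464890368) (nat_lit 1) (nat_lit 5) (nat_lit 3) (nat_lit 4) (nat_lit 1) (nat_lit 4) (nat_lit 275) (nat_lit 163) (nat_lit 162)) (XT.lf (nat_lit 0) (nat_lit 7758530296000) (nat_lit 152) (nat_lit 38355138230206) (nat_lit 0) (nat_lit 7758518855453) (nat_lit 1) (nat_lit 5) (nat_lit 3) (nat_lit 4) (nat_lit 1) (nat_lit 4) (nat_lit 276) (nat_lit 163) (nat_lit 161))) (XT.nd (nat_lit 30888) (nat_lit 0) (nat_lit 0) (XT.lf (nat_lit 0) (nat_lit 8922390748852) (nat_lit 152) (nat_lit 44108236657075) (nat_lit 0) (nat_lit 8922374681189) (nat_lit 1) (nat_lit 5) (nat_lit 3) (nat_lit 4) (nat_lit 1) (nat_lit 4) (nat_lit 277) (nat_lit 163) (nat_lit 160)) (XT.lf (nat_lit 0) (nat_lit 2217838606562) (nat_lit 152) (nat_lit 10965145763409) (nat_lit 0) (nat_lit 2217838606562) (nat_lit 1) (nat_lit 5) (nat_lit 3) (nat_lit 4) (nat_lit 1) (nat_lit 4) (nat_lit 272) (nat_lit 164) (nat_lit 164))))) (XT.nd (nat_lit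 312) (nat_lit 0) (nat_lit 0) (XT.nd (nat_lit 156) (nat_lit 0) (nat_lit 0) (XT.nd (nat_lit 78) (nat_lit 0) (nat_lit 0) (XT.lf (nat_lit 0) (nat_lit 5101140943235) (nat_lit 152) (nat_lit 25219599673653) (nat_lit 0) (nat_lit 5101133905968) (nat_lit 1) (nat_lit 5) (nat_lit 3) (nat_lit 4) (nat_lit 1) (nat_lit 4) (nat_lit 273) (nat_lit 164) (nat_lit 163)) (XT.lf (nat_lit 0) (nat_lit 5866414014752) (nat_lit 152) (nat_lit 29002324062342) (nat_lit 0) (nat_lit 5866400858123) (nat_lit 1) (nat_lit 5) (nat_lit 3) (nat_lit 4) (nat_lit 1) (nat_lit 4) (nat_lit 274) (nat_lit 164) (nat_lit 162))) (XT.nd (nat_lit 78) (nat_lit 0) (nat_lit 0) (XT.lf (nat_lit 0) (nat_lit 6746469161685) (nat_lit 152) (nat_lit 33352474517883) (nat_lit 0) (nat_lit 6746450683872) (nat_lit 1) (nat_lit 5) (nat_lit 3) (nat_lit 4) (nat_lit 1) (nat_lit 4) (nat_lit 275) (nat_lit 164) (nat_lit 161)) (XT.lf (nat_lit 0) (nat_lit 7758524854300)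 (nat_lit 152) (nat_lit 38355162679623) (nat_lit 0) (nat_lit 7758501749370) (nat_lit 1) (nat_lit 5) (nat_lit 3) (nat_lit 4) (nat_lit 1) (nat_lit 4) (nat_lit 276) (nat_lit 164) (nat_lit 160)))) (XT.nd (nat_lit 30810) (nat_lit 0) (nat_lit 0) (XT.nd (nat_lit 30732) (nat_lit 0) (nat_lit 0) (XT.lf (nat_lit 0) (nat_lit 8922382182235) (nat_lit 152) (nat_lit 44108267228987) (nat_lit 0) (nat_lit 8922355053725) (nat_lit 1) (nat_lit 5) (nat_lit 3) (nat_lit 4) (nat_lit 1) (nat_lit 4) (nat_lit 277) (nat_lit 164) (nat_lit 159)) (XT.lf (nat_lit 0) (nat_lit 1676905219293) (nat_lit 152) (nat_lit 8291441092347) (nat_lit 0) (nat_lit 1676905219293) (nat_lit 1) (nat_lit 5) (nat_lit 3) (nat_lit 4) (nat_lit 1) (nat_lit 4) (nat_lit 270) (nat_lit 165) (nat_lit 165))) (XT.nd (nat_lit 78) (nat_lit 0) (nat_lit 0) (XT.lf (nat_lit 0) (nat_lit 3857010974735) (nat_lit 152) (nat_lit 19070043592881) (nat_lit 0) (nat_lit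 3857002881879) (nat_lit 1) (nat_lit 5) (nat_lit 3) (nat_lit 4) (nat_lit 1) (nat_lit 4) (nat_lit 271) (nat_lit 165) (nat_lit 164)) (XT.lf (nat_lit 0) (nat_lit 4435679840482) (nat_lit 152) (nat_lit 21930302235101) (nat_lit 0) (nat_lit 4435664710359) (nat_lit 1) (nat_lit 5) (nat_lit 3) (nat_lit 4) (nat_lit 1) (nat_lit 4) (nat_lit 272) (nat_lit 165) (nat_lit 163))))))) (XT.nd (nat_lit 31980) (nat_lit 0) (nat_lit 0) (XT.nd (nat_lit 31122) (nat_lit 0) (nat_lit 0) (XT.nd (nat_lit 234) (nat_lit 0) (nat_lit 0) (XT.nd (nat_lit 78) (nat_lit 0) (nat_lit 0) (XT.lf (nat_lit 0) (nat_lit 5101138817983) (nat_lit 152) (nat_lit 25219619693484) (nat_lit 0) (nat_lit 5101117568498) (nat_lit 1) (nat_lit 5) (nat_lit 3) (nat_lit 4) (nat_lit 1) (nat_lit 4) (nat_lit 273) (nat_lit 165) (nat_lit 162)) (XT.nd (nat_lit 78) (nat_lit 0) (nat_lit 0) (XT.lf (nat_lit 0) (nat_lit 5866407756797) (nat_lit 152) (nat_lit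 29002352179172) (nat_lit 0) (nat_lit 5866381186127) (nat_lit 1) (nat_lit 5) (nat_lit 3) (nat_lit 4) (nat_lit 1) (nat_lit 4) (nat_lit 274) (nat_lit 165) (nat_lit 161)) (XT.lf (nat_lit 0) (nat_lit 6746459310075) (nat_lit 152) (nat_lit 33352509675581) (nat_lit 0) (nat_lit 6746428112288) (nat_lit 1) (nat_lit 5) (nat_lit 3) (nat_lit 4) (nat_lit 1) (nat_lit 4) (nat_lit 275) (nat_lit 165) (nat_lit 160)))) (XT.nd (nat_lit 30732) (nat_lit 0) (nat_lit 0) (XT.nd (nat_lit 30654) (nat_lit 0) (nat_lit 0) (XT.lf (nat_lit 0) (nat_lit 7758511877772) (nat_lit 152) (nat_lit 38355203959816) (nat_lit 0) (nat_lit 7758476656406) (nat_lit 1) (nat_lit 5) (nat_lit 3) (nat_lit 4) (nat_lit 1) (nat_lit 4) (nat_lit 276) (nat_lit 165) (nat_lit 159)) (XT.lf (nat_lit 0) (nat_lit 1267866954357) (nat_lit 152) (nat_lit 6269768571455) (nat_lit 0) (nat_lit 1267866954357) (nat_lit 1) (nat_lit 5) (nat_lit 3) (nat_lit 4)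 (nat_lit 1) (nat_lit 4) (nat_lit 268) (nat_lit 166) (nat_lit 166))) (XT.nd (nat_lit 78) (nat_lit 0) (nat_lit 0) (XT.lf (nat_lit 0) (nat_lit 2916242310938) (nat_lit 152) (nat_lit 14420156156902) (nat_lit 0) (nat_lit 2916233004153) (nat_lit 1) (nat_lit 5) (nat_lit 3) (nat_lit 4) (nat_lit 1) (nat_lit 4) (nat_lit 269) (nat_lit 166) (nat_lit 165)) (XT.lf (nat_lit 0) (nat_lit 3353813460046) (nat_lit 152) (nat_lit 16582894499218) (nat_lit 0) (nat_lit 3353796060405) (nat_lit 1) (nat_lit 5) (nat_lit 3) (nat_lit 4) (nat_lit 1) (nat_lit 4) (nat_lit 270) (nat_lit 166) (nat_lit 164))))) (XT.nd (nat_lit 312) (nat_lit 0) (nat_lit 0) (XT.nd (nat_lit 156) (nat_lit 0) (nat_lit 0) (XT.nd (nat_lit 78) (nat_lit 0) (nat_lit 0) (XT.lf (nat_lit 0) (nat_lit 3857008530695) (nat_lit 152) (nat_lit 19070066615686) (nat_lit 0) (nat_lit 3856984093787) (nat_lit 1) (nat_lit 5) (nat_lit 3) (nat_lit 4) (nat_lit 1) (nat_lit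 4) (nat_lit 271) (nat_lit 166) (nat_lit 163)) (XT.lf (nat_lit 0) (nat_lit 4435672643834) (nat_lit 152) (nat_lit 21930334569455) (nat_lit 0) (nat_lit 4435642087564) (nat_lit 1) (nat_lit 5) (nat_lit 3) (nat_lit 4) (nat_lit 1) (nat_lit 4) (nat_lit 272) (nat_lit 166) (nat_lit 162))) (XT.nd (nat_lit 78) (nat_lit 0) (nat_lit 0) (XT.lf (nat_lit 0) (nat_lit 5101127488631) (nat_lit 152) (nat_lit 25219660124837) (nat_lit 0) (nat_lit 5101091611177) (nat_lit 1) (nat_lit 5) (nat_lit 3) (nat_lit 4) (nat_lit 1) (nat_lit 4) (nat_lit 273) (nat_lit 166) (nat_lit 161)) (XT.lf (nat_lit 0) (nat_lit 5866392833790) (nat_lit 152) (nat_lit 29002399651394) (nat_lit 0) (nat_lit 5866352329219) (nat_lit 1) (nat_lit 5) (nat_lit 3) (nat_lit 4) (nat_lit 1) (nat_lit 4) (nat_lit 274) (nat_lit 166) (nat_lit 160)))) (XT.nd (nat_lit 390) (nat_lit 0) (nat_lit 0) (XT.nd (nat_lit 312) (nat_lit 0) (nat_lit 0) (XT.lf (nat_lit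 0) (nat_lit 6746441262151) (nat_lit 152) (nat_lit 33352563270298) (nat_lit 0) (nat_lit 6746396734000) (nat_lit 1) (nat_lit 5) (nat_lit 3) (nat_lit 4) (nat_lit 1) (nat_lit 4) (nat_lit 275) (nat_lit 166) (nat_lit 159)) (XT.lf (nat_lit 0) (nat_lit 11799954703628) (nat_lit 152) (nat_lit 58332979123982) (nat_lit 0) (nat_lit 11799898688243) (nat_lit 1) (nat_lit 5) (nat_lit 3) (nat_lit 4) (nat_lit 1) (nat_lit 4) (nat_lit 279) (nat_lit 166) (nat_lit 155))) (XT.nd (nat_lit 78) (nat_lit 0) (nat_lit 0) (XT.lf (nat_lit 0) (nat_lit 13570014890769) (nat_lit 152) (nat_lit 67082773789410) (nat_lit 0) (nat_lit 13569956874953) (nat_lit 1) (nat_lit 5) (nat_lit 3) (nat_lit 4) (nat_lit 1) (nat_lit 4) (nat_lit 280) (nat_lit 166) (nat_lit 154)) (XT.lf (nat_lit 0) (nat_lit 15605581201356) (nat_lit 152) (nat_lit 77145043345537) (nat_lit 0) (nat_lit 15605521446036) (nat_lit 1) (nat_lit 5) (nat_lit 3) (nat_lit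 4) (nat_lit 1) (nat_lit 4) (nat_lit 281) (nat_lit 166) (nat_lit 153)))))) (XT.nd (nat_lit 30498) (nat_lit 0) (nat_lit 0) (XT.nd (nat_lit 30186) (nat_lit 0) (nat_lit 0) (XT.nd (nat_lit 30030) (nat_lit 0) (nat_lit 0) (XT.nd (nat_lit 78) (nat_lit 0) (nat_lit 0) (XT.lf (nat_lit 0) (nat_lit 17946479932772) (nat_lit 152) (nat_lit 88716658283680) (nat_lit 0) (nat_lit 17946418664839) (nat_lit 1) (nat_lit 5) (nat_lit 3) (nat_lit 4) (nat_lit 1) (nat_lit 4) (nat_lit 282) (nat_lit 166) (nat_lit 152)) (XT.lf (nat_lit 0) (nat_lit 20638511277587) (nat_lit 152) (nat_lit 102024019765670) (nat_lit 0) (nat_lit 20638448694339) (nat_lit 1) (nat_lit 5) (nat_lit 3) (nat_lit 4) (nat_lit 1) (nat_lit 4) (nat_lit 283) (nat_lit 166) (nat_lit 151))) (XT.nd (nat_lit 78) (nat_lit 0) (nat_lit 0) (XT.lf (nat_lit 0) (nat_lit 958558114464) (nat_lit 152) (nat_lit 4741130881942) (nat_lit 0) (nat_lit 958558114464) (nat_lit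 1) (nat_lit 5) (nat_lit 3) (nat_lit 4) (nat_lit 1) (nat_lit 4) (nat_lit 266) (nat_lit 167) (nat_lit 167)) (XT.lf (nat_lit 0) (nat_lit 2204854226571) (nat_lit 152) (nat_lit 10904242737405) (nat_lit 0) (nat_lit 2204843523769) (nat_lit 1) (nat_lit 5) (nat_lit 3) (nat_lit 4) (nat_lit 1) (nat_lit 4) (nat_lit 267) (nat_lit 167) (nat_lit 166)))) (XT.nd (nat_lit 156) (nat_lit 0) (nat_lit 0) (XT.nd (nat_lit 78) (nat_lit 0) (nat_lit 0) (XT.lf (nat_lit 0) (nat_lit 2535737383394) (nat_lit 152) (nat_lit 12539551304613) (nat_lit 0) (nat_lit 2535717373807) (nat_lit 1) (nat_lit 5) (nat_lit 3) (nat_lit 4) (nat_lit 1) (nat_lit 4) (nat_lit 268) (nat_lit 167) (nat_lit 165)) (XT.lf (nat_lit 0) (nat_lit 2916239500292) (nat_lit 152) (nat_lit 14420182633128) (nat_lit 0) (nat_lit 2916211397848) (nat_lit 1) (nat_lit 5) (nat_lit 3) (nat_lit 4) (nat_lit 1) (nat_lit 4) (nat_lit 269) (nat_lit 167) (nat_lit 164)))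 (XT.nd (nat_lit 78) (nat_lit 0) (nat_lit 0) (XT.lf (nat_lit 0) (nat_lit 3353805183900) (nat_lit 152) (nat_lit 16582931683725) (nat_lit 0) (nat_lit 3353770044190) (nat_lit 1) (nat_lit 5) (nat_lit 3) (nat_lit 4) (nat_lit 1) (nat_lit 4) (nat_lit 270) (nat_lit 167) (nat_lit 163)) (XT.lf (nat_lit 0) (nat_lit 3856995501941) (nat_lit 152) (nat_lit 19070113111742) (nat_lit 0) (nat_lit 3856954242868) (nat_lit 1) (nat_lit 5) (nat_lit 3) (nat_lit 4) (nat_lit 1) (nat_lit 4) (nat_lit 271) (nat_lit 167) (nat_lit 162))))) (XT.nd (nat_lit 546) (nat_lit 0) (nat_lit 0) (XT.nd (nat_lit 156) (nat_lit 0) (nat_lit 0) (XT.nd (nat_lit 78) (nat_lit 0) (nat_lit 0) (XT.lf (nat_lit 0) (nat_lit 4435655482376) (nat_lit 152) (nat_lit 21930389162510) (nat_lit 0) (nat_lit 4435608902119) (nat_lit 1) (nat_lit 5) (nat_lit 3) (nat_lit 4) (nat_lit 1) (nat_lit 4) (nat_lit 272) (nat_lit 167) (nat_lit 161)) (XT.lf (nat_lit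 0) (nat_lit 5101106733519) (nat_lit 152) (nat_lit 25219721758760) (nat_lit 0) (nat_lit 5101055526145) (nat_lit 1) (nat_lit 5) (nat_lit 3) (nat_lit 4) (nat_lit 1) (nat_lit 4) (nat_lit 273) (nat_lit 167) (nat_lit 160))) (XT.nd (nat_lit 312) (nat_lit 0) (nat_lit 0) (XT.lf (nat_lit 0) (nat_lit 5866368953761) (nat_lit 152) (nat_lit 29002467407812) (nat_lit 0) (nat_lit 5866313722807) (nat_lit 1) (nat_lit 5) (nat_lit 3) (nat_lit 4) (nat_lit 1) (nat_lit 4) (nat_lit 274) (nat_lit 167) (nat_lit 159)) (XT.lf (nat_lit 0) (nat_lit 10260736225977) (nat_lit 152) (nat_lit 50724552950503) (nat_lit 0) (nat_lit 10260669507789) (nat_lit 1) (nat_lit 5) (nat_lit 3) (nat_lit 4) (nat_lit 1) (nat_lit 4) (nat_lit 278) (nat_lit 167) (nat_lit 155)))) (XT.nd (nat_lit 156) (nat_lit 0) (nat_lit 0) (XT.nd (nat_lit 78) (nat_lit 0) (nat_lit 0) (XT.lf (nat_lit 0) (nat_lit 11799920348391) (nat_lit 152) (nat_lit 58333067403952)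 (nat_lit 0) (nat_lit 11799851629773) (nat_lit 1) (nat_lit 5) (nat_lit 3) (nat_lit 4) (nat_lit 1) (nat_lit 4) (nat_lit 279) (nat_lit 167) (nat_lit 154)) (XT.lf (nat_lit 0) (nat_lit 13569979184544) (nat_lit 152) (nat_lit 67082864716303) (nat_lit 0) (nat_lit 13569908726421) (nat_lit 1) (nat_lit 5) (nat_lit 3) (nat_lit 4) (nat_lit 1) (nat_lit 4) (nat_lit 280) (nat_lit 167) (nat_lit 153))) (XT.nd (nat_lit 78) (nat_lit 0) (nat_lit 0) (XT.lf (nat_lit 0) (nat_lit 15605544320359) (nat_lit 152) (nat_lit 77145136574103) (nat_lit 0) (nat_lit 15605472349624) (nat_lit 1) (nat_lit 5) (nat_lit 3) (nat_lit 4) (nat_lit 1) (nat_lit 4) (nat_lit 281) (nat_lit 167) (nat_lit 152)) (XT.lf (nat_lit 0) (nat_lit 17946442030234) (nat_lit 152) (nat_lit 88716753513700) (nat_lit 0) (nat_lit 17946368744183) (nat_lit 1) (nat_lit 5) (nat_lit 3) (nat_lit 4) (nat_lit 1) (nat_lit 4) (nat_lit 282) (nat_lit 167) (nat_lit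 151))))))))
noncomputable def xc1 : XT := (XT.nd (nat_lit 61854) (nat_lit 0) (nat_lit 0) (XT.nd (nat_lit 31044) (nat_lit 0) (nat_lit 0) (XT.nd (nat_lit 30186) (nat_lit 0) (nat_lit 0) (XT.nd (nat_lit 29874) (nat_lit 0) (nat_lit 0) (XT.nd (nat_lit 78) (nat_lit 0) (nat_lit 0) (XT.lf (nat_lit 0) (nat_lit 20638472486752) (nat_lit 152) (nat_lit 102024116736086) (nat_lit 0) (nat_lit 20638398056949) (nat_lit 1) (nat_lit 5) (nat_lit 3) (nat_lit 4) (nat_lit 1) (nat_lit 4) (nat_lit 283) (nat_lit 167) (nat_lit 150)) (XT.nd (nat_lit 29718) (nat_lit 0) (nat_lit 0) (XT.lf (nat_lit 0) (nat_lit 23734305851020) (nat_lit 152) (nat_lit 117327587695611) (nat_lit 0) (nat_lit 23734230426649) (nat_lit 1) (nat_lit 5) (nat_lit 3) (nat_lit 4) (nat_lit 1) (nat_lit 4) (nat_lit 284) (nat_lit 167) (nat_lit 149)) (XT.lf (nat_lit 0) (nat_lit 724656475833) (nat_lit 152) (nat_lit 3585303935608) (nat_lit 0) (nat_lit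 724656475833) (nat_lit 1) (nat_lit 5) (nat_lit 3) (nat_lit 4) (nat_lit 1) (nat_lit 4) (nat_lit 264) (nat_lit 168) (nat_lit 168)))) (XT.nd (nat_lit 156) (nat_lit 0) (nat_lit 0) (XT.nd (nat_lit 78) (nat_lit 0) (nat_lit 0) (XT.lf (nat_lit 0) (nat_lit 1666906042215) (nat_lit 152) (nat_lit 8245787017177) (nat_lit 0) (nat_lit 1666893733992) (nat_lit 1) (nat_lit 5) (nat_lit 3) (nat_lit 4) (nat_lit 1) (nat_lit 4) (nat_lit 265) (nat_lit 168) (nat_lit 167)) (XT.lf (nat_lit 0) (nat_lit 1917120224810) (nat_lit 152) (nat_lit 9482278049841) (nat_lit 0) (nat_lit 1917097213784) (nat_lit 1) (nat_lit 5) (nat_lit 3) (nat_lit 4) (nat_lit 1) (nat_lit 4) (nat_lit 266) (nat_lit 168) (nat_lit 166))) (XT.nd (nat_lit 78) (nat_lit 0) (nat_lit 0) (XT.lf (nat_lit 0) (nat_lit 2204850994329) (nat_lit 152) (nat_lit 10904273185064) (nat_lit 0) (nat_lit 2204818676518) (nat_lit 1) (nat_lit 5) (nat_lit 3) (nat_lit 4)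 (nat_lit 1) (nat_lit 4) (nat_lit 267) (nat_lit 168) (nat_lit 165)) (XT.lf (nat_lit 0) (nat_lit 2535727865827) (nat_lit 152) (nat_lit 12539594066796) (nat_lit 0) (nat_lit 2535687455160) (nat_lit 1) (nat_lit 5) (nat_lit 3) (nat_lit 4) (nat_lit 1) (nat_lit 4) (nat_lit 268) (nat_lit 168) (nat_lit 164))))) (XT.nd (nat_lit 312) (nat_lit 0) (nat_lit 0) (XT.nd (nat_lit 156) (nat_lit 0) (nat_lit 0) (XT.nd (nat_lit 78) (nat_lit 0) (nat_lit 0) (XT.lf (nat_lit 0) (nat_lit 2916224517225) (nat_lit 152) (nat_lit 14420236103592) (nat_lit 0) (nat_lit 2916177069291) (nat_lit 1) (nat_lit 5) (nat_lit 3) (nat_lit 4) (nat_lit 1) (nat_lit 4) (nat_lit 269) (nat_lit 168) (nat_lit 163)) (XT.lf (nat_lit 0) (nat_lit 3353785448224) (nat_lit 152) (nat_lit 16582994465738) (nat_lit 0) (nat_lit 3353731880929) (nat_lit 1) (nat_lit 5) (nat_lit 3) (nat_lit 4) (nat_lit 1) (nat_lit 4) (nat_lit 270) (nat_lit 168) (nat_lit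 162))) (XT.nd (nat_lit 78) (nat_lit 0) (nat_lit 0) (XT.lf (nat_lit 0) (nat_lit 3856971633562) (nat_lit 152) (nat_lit 19070183990754) (nat_lit 0) (nat_lit 3856912745082) (nat_lit 1) (nat_lit 5) (nat_lit 3) (nat_lit 4) (nat_lit 1) (nat_lit 4) (nat_lit 271) (nat_lit 168) (nat_lit 161)) (XT.lf (nat_lit 0) (nat_lit 4435628020343) (nat_lit 152) (nat_lit 21930467082391) (nat_lit 0) (nat_lit 4435564504746) (nat_lit 1) (nat_lit 5) (nat_lit 3) (nat_lit 4) (nat_lit 1) (nat_lit 4) (nat_lit 272) (nat_lit 168) (nat_lit 160)))) (XT.nd (nat_lit 390) (nat_lit 0) (nat_lit 0) (XT.nd (nat_lit 78) (nat_lit 0) (nat_lit 0) (XT.lf (nat_lit 0) (nat_lit 5101076146568) (nat_lit 152) (nat_lit 25219805801136) (nat_lit 0) (nat_lit 5101008607391) (nat_lit 1) (nat_lit 5) (nat_lit 3) (nat_lit 4) (nat_lit 1) (nat_lit 4) (nat_lit 273) (nat_lit 168) (nat_lit 159)) (XT.lf (nat_lit 0) (nat_lit 5866335649490) (nat_lit 152)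 (nat_lit 29002556774096) (nat_lit 0) (nat_lit 5866264611548) (nat_lit 1) (nat_lit 5) (nat_lit 3) (nat_lit 4) (nat_lit 1) (nat_lit 4) (nat_lit 274) (nat_lit 168) (nat_lit 158))) (XT.nd (nat_lit 78) (nat_lit 0) (nat_lit 0) (XT.lf (nat_lit 0) (nat_lit 10260695163818) (nat_lit 152) (nat_lit 50724657516430) (nat_lit 0) (nat_lit 10260614136977) (nat_lit 1) (nat_lit 5) (nat_lit 3) (nat_lit 4) (nat_lit 1) (nat_lit 4) (nat_lit 278) (nat_lit 168) (nat_lit 154)) (XT.lf (nat_lit 0) (nat_lit 11799877935245) (nat_lit 152) (nat_lit 58333174616802) (nat_lit 0) (nat_lit 11799795168899) (nat_lit 1) (nat_lit 5) (nat_lit 3) (nat_lit 4) (nat_lit 1) (nat_lit 4) (nat_lit 279) (nat_lit 168) (nat_lit 153)))))) (XT.nd (nat_lit 30186) (nat_lit 0) (nat_lit 0) (XT.nd (nat_lit 29874) (nat_lit 0) (nat_lit 0) (XT.nd (nat_lit 156) (nat_lit 0) (nat_lit 0) (XT.nd (nat_lit 78) (nat_lit 0) (nat_lit 0) (XT.lf (nat_lit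 0) (nat_lit 13569935596625) (nat_lit 152) (nat_lit 67082974230826) (nat_lit 0) (nat_lit 13569851317667) (nat_lit 1) (nat_lit 5) (nat_lit 3) (nat_lit 4) (nat_lit 1) (nat_lit 4) (nat_lit 280) (nat_lit 168) (nat_lit 152)) (XT.lf (nat_lit 0) (nat_lit 15605499710900) (nat_lit 152) (nat_lit 77145248090080) (nat_lit 0) (nat_lit 15605414116626) (nat_lit 1) (nat_lit 5) (nat_lit 3) (nat_lit 4) (nat_lit 1) (nat_lit 4) (nat_lit 281) (nat_lit 168) (nat_lit 151))) (XT.nd (nat_lit 78) (nat_lit 0) (nat_lit 0) (XT.lf (nat_lit 0) (nat_lit 17946396532478) (nat_lit 152) (nat_lit 88716866770072) (nat_lit 0) (nat_lit 17946309794452) (nat_lit 1) (nat_lit 5) (nat_lit 3) (nat_lit 4) (nat_lit 1) (nat_lit 4) (nat_lit 282) (nat_lit 168) (nat_lit 150)) (XT.lf (nat_lit 0) (nat_lit 20638426216564) (nat_lit 152) (nat_lit 102024231505845) (nat_lit 0) (nat_lit 20638338483971) (nat_lit 1) (nat_lit 5) (nat_lit 3) (nat_lit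 4) (nat_lit 1) (nat_lit 4) (nat_lit 283) (nat_lit 168) (nat_lit 149)))) (XT.nd (nat_lit 156) (nat_lit 0) (nat_lit 0) (XT.nd (nat_lit 78) (nat_lit 0) (nat_lit 0) (XT.lf (nat_lit 0) (nat_lit 547770557188) (nat_lit 152) (nat_lit 2711381886157) (nat_lit 0) (nat_lit 547770557188) (nat_lit 1) (nat_lit 5) (nat_lit 3) (nat_lit 4) (nat_lit 1) (nat_lit 4) (nat_lit 262) (nat_lit 169) (nat_lit 169)) (XT.lf (nat_lit 0) (nat_lit 1260097851502) (nat_lit 152) (nat_lit 6235704498232) (nat_lit 0) (nat_lit 1260083697046) (nat_lit 1) (nat_lit 5) (nat_lit 3) (nat_lit 4) (nat_lit 1) (nat_lit 4) (nat_lit 263) (nat_lit 169) (nat_lit 168))) (XT.nd (nat_lit 78) (nat_lit 0) (nat_lit 0) (XT.lf (nat_lit 0) (nat_lit 1449317546930) (nat_lit 152) (nat_lit 7170626600067) (nat_lit 0) (nat_lit 1449291084250) (nat_lit 1) (nat_lit 5) (nat_lit 3) (nat_lit 4) (nat_lit 1) (nat_lit 4) (nat_lit 264) (nat_lit 169) (nat_lit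 167)) (XT.lf (nat_lit 0) (nat_lit 1666902325136) (nat_lit 152) (nat_lit 8245822031986) (nat_lit 0) (nat_lit 1666865159654) (nat_lit 1) (nat_lit 5) (nat_lit 3) (nat_lit 4) (nat_lit 1) (nat_lit 4) (nat_lit 265) (nat_lit 169) (nat_lit 166))))) (XT.nd (nat_lit 312) (nat_lit 0) (nat_lit 0) (XT.nd (nat_lit 156) (nat_lit 0) (nat_lit 0) (XT.nd (nat_lit 78) (nat_lit 0) (nat_lit 0) (XT.lf (nat_lit 0) (nat_lit 1917109279607) (nat_lit 152) (nat_lit 9482327226352) (nat_lit 0) (nat_lit 1917062807340) (nat_lit 1) (nat_lit 5) (nat_lit 3) (nat_lit 4) (nat_lit 1) (nat_lit 4) (nat_lit 266) (nat_lit 169) (nat_lit 165)) (XT.lf (nat_lit 0) (nat_lit 2204833763801) (nat_lit 152) (nat_lit 10904334676098) (nat_lit 0) (nat_lit 2204779198678) (nat_lit 1) (nat_lit 5) (nat_lit 3) (nat_lit 4) (nat_lit 1) (nat_lit 4) (nat_lit 267) (nat_lit 169) (nat_lit 164))) (XT.nd (nat_lit 78) (nat_lit 0) (nat_lit 0) (XT.lf (nat_lit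 0) (nat_lit 2535705169800) (nat_lit 152) (nat_lit 12539666266111) (nat_lit 0) (nat_lit 2535643567410) (nat_lit 1) (nat_lit 5) (nat_lit 3) (nat_lit 4) (nat_lit 1) (nat_lit 4) (nat_lit 268) (nat_lit 169) (nat_lit 163)) (XT.lf (nat_lit 0) (nat_lit 2916197068589) (nat_lit 152) (nat_lit 14420317614456) (nat_lit 0) (nat_lit 2916129346837) (nat_lit 1) (nat_lit 5) (nat_lit 3) (nat_lit 4) (nat_lit 1) (nat_lit 4) (nat_lit 269) (nat_lit 169) (nat_lit 162)))) (XT.nd (nat_lit 156) (nat_lit 0) (nat_lit 0) (XT.nd (nat_lit 78) (nat_lit 0) (nat_lit 0) (XT.lf (nat_lit 0) (nat_lit 3353753866886) (nat_lit 152) (nat_lit 16583084073602) (nat_lit 0) (nat_lit 3353680823949) (nat_lit 1) (nat_lit 5) (nat_lit 3) (nat_lit 4) (nat_lit 1) (nat_lit 4) (nat_lit 270) (nat_lit 169) (nat_lit 161)) (XT.lf (nat_lit 0) (nat_lit 3856936458568) (nat_lit 152) (nat_lit 19070280639486) (nat_lit 0) (nat_lit 3856858788515) (nat_lit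 1) (nat_lit 5) (nat_lit 3) (nat_lit 4) (nat_lit 1) (nat_lit 4) (nat_lit 271) (nat_lit 169) (nat_lit 160))) (XT.nd (nat_lit 78) (nat_lit 0) (nat_lit 0) (XT.lf (nat_lit 0) (nat_lit 4435589720432) (nat_lit 152) (nat_lit 21930569853617) (nat_lit 0) (nat_lit 4435508026798) (nat_lit 1) (nat_lit 5) (nat_lit 3) (nat_lit 4) (nat_lit 1) (nat_lit 4) (nat_lit 272) (nat_lit 169) (nat_lit 159)) (XT.lf (nat_lit 0) (nat_lit 5101035129338) (nat_lit 152) (nat_lit 25219913896271) (nat_lit 0) (nat_lit 5100949936939) (nat_lit 1) (nat_lit 5) (nat_lit 3) (nat_lit 4) (nat_lit 1) (nat_lit 4) (nat_lit 273) (nat_lit 169) (nat_lit 158))))))) (XT.nd (nat_lit 30810) (nat_lit 0) (nat_lit 0) (XT.nd (nat_lit 30186) (nat_lit 0) (nat_lit 0) (XT.nd (nat_lit 468) (nat_lit 0) (nat_lit 0) (XT.nd (nat_lit 312) (nat_lit 0) (nat_lit 0) (XT.lf (nat_lit 0) (nat_lit 5866292269374) (nat_lit 152) (nat_lit 29002669498717) (nat_lit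 0) (nat_lit 5866204034570) (nat_lit 1) (nat_lit 5) (nat_lit 3) (nat_lit 4) (nat_lit 1) (nat_lit 4) (nat_lit 274) (nat_lit 169) (nat_lit 157)) (XT.nd (nat_lit 78) (nat_lit 0) (nat_lit 0) (XT.lf (nat_lit 0) (nat_lit 10260645037712) (nat_lit 152) (nat_lit 50724783458132) (nat_lit 0) (nat_lit 10260548116910) (nat_lit 1) (nat_lit 5) (nat_lit 3) (nat_lit 4) (nat_lit 1) (nat_lit 4) (nat_lit 278) (nat_lit 169) (nat_lit 153)) (XT.lf (nat_lit 0) (nat_lit 11799826634366) (nat_lit 152) (nat_lit 58333302860177) (nat_lit 0) (nat_lit 11799728200951) (nat_lit 1) (nat_lit 5) (nat_lit 3) (nat_lit 4) (nat_lit 1) (nat_lit 4) (nat_lit 279) (nat_lit 169) (nat_lit 152)))) (XT.nd (nat_lit 156) (nat_lit 0) (nat_lit 0) (XT.nd (nat_lit 78) (nat_lit 0) (nat_lit 0) (XT.lf (nat_lit 0) (nat_lit 13569883274206) (nat_lit 152) (nat_lit 67083104475655) (nat_lit 0) (nat_lit 13569783525476) (nat_lit 1) (nat_lit 5) (nat_lit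 3) (nat_lit 4) (nat_lit 1) (nat_lit 4) (nat_lit 280) (nat_lit 169) (nat_lit 151)) (XT.lf (nat_lit 0) (nat_lit 15605446500184) (nat_lit 152) (nat_lit 77145380075304) (nat_lit 0) (nat_lit 15605345607701) (nat_lit 1) (nat_lit 5) (nat_lit 3) (nat_lit 4) (nat_lit 1) (nat_lit 4) (nat_lit 281) (nat_lit 169) (nat_lit 150))) (XT.nd (nat_lit 78) (nat_lit 0) (nat_lit 0) (XT.lf (nat_lit 0) (nat_lit 17946342549330) (nat_lit 152) (nat_lit 88717000268683) (nat_lit 0) (nat_lit 17946240662280) (nat_lit 1) (nat_lit 5) (nat_lit 3) (nat_lit 4) (nat_lit 1) (nat_lit 4) (nat_lit 282) (nat_lit 169) (nat_lit 149)) (XT.lf (nat_lit 0) (nat_lit 20638371561737) (nat_lit 152) (nat_lit 102024366320444) (nat_lit 0) (nat_lit 20638268809845) (nat_lit 1) (nat_lit 5) (nat_lit 3) (nat_lit 4) (nat_lit 1) (nat_lit 4) (nat_lit 283) (nat_lit 169) (nat_lit 148))))) (XT.nd (nat_lit 312) (nat_lit 0) (nat_lit 0) (XT.nd (nat_lit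 156) (nat_lit 0) (nat_lit 0) (XT.nd (nat_lit 78) (nat_lit 0) (nat_lit 0) (XT.lf (nat_lit 0) (nat_lit 413993312775) (nat_lit 152) (nat_lit 2050627815740) (nat_lit 0) (nat_lit 413993312775) (nat_lit 1) (nat_lit 5) (nat_lit 3) (nat_lit 4) (nat_lit 1) (nat_lit 4) (nat_lit 260) (nat_lit 170) (nat_lit 170)) (XT.lf (nat_lit 0) (nat_lit 952444024846) (nat_lit 152) (nat_lit 4715899060285) (nat_lit 0) (nat_lit 952427747221) (nat_lit 1) (nat_lit 5) (nat_lit 3) (nat_lit 4) (nat_lit 1) (nat_lit 4) (nat_lit 261) (nat_lit 170) (nat_lit 169))) (XT.nd (nat_lit 78) (nat_lit 0) (nat_lit 0) (XT.lf (nat_lit 0) (nat_lit 1095546398930) (nat_lit 152) (nat_lit 5422785310493) (nat_lit 0) (nat_lit 1095515966848) (nat_lit 1) (nat_lit 5) (nat_lit 3) (nat_lit 4) (nat_lit 1) (nat_lit 4) (nat_lit 262) (nat_lit 170) (nat_lit 168)) (XT.lf (nat_lit 0) (nat_lit 1260093576861) (nat_lit 152) (nat_lit 6235744765262) (nat_lit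 0) (nat_lit 1260050836557) (nat_lit 1) (nat_lit 5) (nat_lit 3) (nat_lit 4) (nat_lit 1) (nat_lit 4) (nat_lit 263) (nat_lit 170) (nat_lit 167)))) (XT.nd (nat_lit 156) (nat_lit 0) (nat_lit 0) (XT.nd (nat_lit 78) (nat_lit 0) (nat_lit 0) (XT.lf (nat_lit 0) (nat_lit 1449304959947) (nat_lit 152) (nat_lit 7170683153054) (nat_lit 0) (nat_lit 1449251516840) (nat_lit 1) (nat_lit 5) (nat_lit 3) (nat_lit 4) (nat_lit 1) (nat_lit 4) (nat_lit 264) (nat_lit 170) (nat_lit 166)) (XT.lf (nat_lit 0) (nat_lit 1666882510029) (nat_lit 152) (nat_lit 8245892746675) (nat_lit 0) (nat_lit 1666819760137) (nat_lit 1) (nat_lit 5) (nat_lit 3) (nat_lit 4) (nat_lit 1) (nat_lit 4) (nat_lit 265) (nat_lit 170) (nat_lit 165))) (XT.nd (nat_lit 78) (nat_lit 0) (nat_lit 0) (XT.lf (nat_lit 0) (nat_lit 1917083179176) (nat_lit 152) (nat_lit 9482410255564) (nat_lit 0) (nat_lit 1917012336428) (nat_lit 1) (nat_lit 5) (nat_lit 3)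 (nat_lit 4) (nat_lit 1) (nat_lit 4) (nat_lit 266) (nat_lit 170) (nat_lit 164)) (XT.lf (nat_lit 0) (nat_lit 2204802197870) (nat_lit 152) (nat_lit 10904428413592) (nat_lit 0) (nat_lit 2204724317855) (nat_lit 1) (nat_lit 5) (nat_lit 3) (nat_lit 4) (nat_lit 1) (nat_lit 4) (nat_lit 267) (nat_lit 170) (nat_lit 163)))))) (XT.nd (nat_lit 858) (nat_lit 0) (nat_lit 0) (XT.nd (nat_lit 312) (nat_lit 0) (nat_lit 0) (XT.nd (nat_lit 156) (nat_lit 0) (nat_lit 0) (XT.nd (nat_lit 78) (nat_lit 0) (nat_lit 0) (XT.lf (nat_lit 0) (nat_lit 2535668851260) (nat_lit 152) (nat_lit 12539769315154) (nat_lit 0) (nat_lit 2535584851883) (nat_lit 1) (nat_lit 5) (nat_lit 3) (nat_lit 4) (nat_lit 1) (nat_lit 4) (nat_lit 268) (nat_lit 170) (nat_lit 162)) (XT.lf (nat_lit 0) (nat_lit 2916156617346) (nat_lit 152) (nat_lit 14420428760498) (nat_lit 0) (nat_lit 2916067296785) (nat_lit 1) (nat_lit 5) (nat_lit 3) (nat_lit 4)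 (nat_lit 1) (nat_lit 4) (nat_lit 269) (nat_lit 170) (nat_lit 161))) (XT.nd (nat_lit 78) (nat_lit 0) (nat_lit 0) (XT.lf (nat_lit 0) (nat_lit 3353709821988) (nat_lit 152) (nat_lit 16583202260512) (nat_lit 0) (nat_lit 3353615874309) (nat_lit 1) (nat_lit 5) (nat_lit 3) (nat_lit 4) (nat_lit 1) (nat_lit 4) (nat_lit 270) (nat_lit 170) (nat_lit 160)) (XT.lf (nat_lit 0) (nat_lit 3856889288753) (nat_lit 152) (nat_lit 19070404948892) (nat_lit 0) (nat_lit 3856791317495) (nat_lit 1) (nat_lit 5) (nat_lit 3) (nat_lit 4) (nat_lit 1) (nat_lit 4) (nat_lit 271) (nat_lit 170) (nat_lit 159)))) (XT.nd (nat_lit 156) (nat_lit 0) (nat_lit 0) (XT.nd (nat_lit 78) (nat_lit 0) (nat_lit 0) (XT.lf (nat_lit 0) (nat_lit 4435539833297) (nat_lit 152) (nat_lit 21930699486931) (nat_lit 0) (nat_lit 4435438363274) (nat_lit 1) (nat_lit 5) (nat_lit 3) (nat_lit 4) (nat_lit 1) (nat_lit 4) (nat_lit 272) (nat_lit 170) (nat_lit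 158)) (XT.lf (nat_lit 0) (nat_lit 5100982879317) (nat_lit 152) (nat_lit 25220048159070) (nat_lit 0) (nat_lit 5100878366889) (nat_lit 1) (nat_lit 5) (nat_lit 3) (nat_lit 4) (nat_lit 1) (nat_lit 4) (nat_lit 273) (nat_lit 170) (nat_lit 157))) (XT.nd (nat_lit 312) (nat_lit 0) (nat_lit 0) (XT.lf (nat_lit 0) (nat_lit 5866237964669) (nat_lit 152) (nat_lit 29002807787155) (nat_lit 0) (nat_lit 5866130806672) (nat_lit 1) (nat_lit 5) (nat_lit 3) (nat_lit 4) (nat_lit 1) (nat_lit 4) (nat_lit 274) (nat_lit 170) (nat_lit 156)) (XT.lf (nat_lit 0) (nat_lit 10260584866929) (nat_lit 152) (nat_lit 50724933239684) (nat_lit 0) (nat_lit 10260470155889) (nat_lit 1) (nat_lit 5) (nat_lit 3) (nat_lit 4) (nat_lit 1) (nat_lit 4) (nat_lit 278) (nat_lit 170) (nat_lit 152))))) (XT.nd (nat_lit 29640) (nat_lit 0) (nat_lit 0) (XT.nd (nat_lit 156) (nat_lit 0) (nat_lit 0) (XT.nd (nat_lit 78) (nat_lit 0) (nat_lit 0) (XT.lf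 (nat_lit 0) (nat_lit 11799765442043) (nat_lit 152) (nat_lit 58333454643183) (nat_lit 0) (nat_lit 11799649415688) (nat_lit 1) (nat_lit 5) (nat_lit 3) (nat_lit 4) (nat_lit 1) (nat_lit 4) (nat_lit 279) (nat_lit 170) (nat_lit 151)) (XT.lf (nat_lit 0) (nat_lit 13569821193586) (nat_lit 152) (nat_lit 67083257999057) (nat_lit 0) (nat_lit 13569704023478) (nat_lit 1) (nat_lit 5) (nat_lit 3) (nat_lit 4) (nat_lit 1) (nat_lit 4) (nat_lit 280) (nat_lit 170) (nat_lit 150))) (XT.nd (nat_lit 78) (nat_lit 0) (nat_lit 0) (XT.lf (nat_lit 0) (nat_lit 15605383647132) (nat_lit 152) (nat_lit 77145535112093) (nat_lit 0) (nat_lit 15605265482457) (nat_lit 1) (nat_lit 5) (nat_lit 3) (nat_lit 4) (nat_lit 1) (nat_lit 4) (nat_lit 281) (nat_lit 170) (nat_lit 149)) (XT.lf (nat_lit 0) (nat_lit 17946279024599) (nat_lit 152) (nat_lit 88717156621461) (nat_lit 0) (nat_lit 17946159995082) (nat_lit 1) (nat_lit 5) (nat_lit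 3) (nat_lit 4) (nat_lit 1) (nat_lit 4) (nat_lit 282) (nat_lit 170) (nat_lit 148)))) (XT.nd (nat_lit 156) (nat_lit 0) (nat_lit 0) (XT.nd (nat_lit 78) (nat_lit 0) (nat_lit 0) (XT.lf (nat_lit 0) (nat_lit 312808507806) (nat_lit 152) (nat_lit 1551067845690) (nat_lit 0) (nat_lit 312808507806) (nat_lit 1) (nat_lit 5) (nat_lit 3) (nat_lit 4) (nat_lit 1) (nat_lit 4) (nat_lit 258) (nat_lit 171) (nat_lit 171)) (XT.lf (nat_lit 0) (nat_lit 719757884238) (nat_lit 152) (nat_lit 3566829391780) (nat_lit 0) (nat_lit 719739164970) (nat_lit 1) (nat_lit 5) (nat_lit 3) (nat_lit 4) (nat_lit 1) (nat_lit 4) (nat_lit 259) (nat_lit 171) (nat_lit 170))) (XT.nd (nat_lit 78) (nat_lit 0) (nat_lit 0) (XT.lf (nat_lit 0) (nat_lit 827992702785) (nat_lit 152) (nat_lit 4101280400387) (nat_lit 0) (nat_lit 827957705892) (nat_lit 1) (nat_lit 5) (nat_lit 3) (nat_lit 4) (nat_lit 1) (nat_lit 4) (nat_lit 260) (nat_lit 171) (nat_lit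 169)) (XT.lf (nat_lit 0) (nat_lit 952439109009) (nat_lit 152) (nat_lit 4715945367369) (nat_lit 0) (nat_lit 952389957658) (nat_lit 1) (nat_lit 5) (nat_lit 3) (nat_lit 4) (nat_lit 1) (nat_lit 4) (nat_lit 261) (nat_lit 171) (nat_lit 168))))))))
noncomputable def xc2 : XT := (XT.nd (nat_lit 31824) (nat_lit 0) (nat_lit 0) (XT.nd (nat_lit 1404) (nat_lit 0) (nat_lit 0) (XT.nd (nat_lit 546) (nat_lit 0) (nat_lit 0) (XT.nd (nat_lit 234) (nat_lit 0) (nat_lit 0) (XT.nd (nat_lit 78) (nat_lit 0) (nat_lit 0) (XT.lf (nat_lit 0) (nat_lit 1095531923900) (nat_lit 152) (nat_lit 5422850346428) (nat_lit 0) (nat_lit 1095470464326) (nat_lit 1) (nat_lit 5) (nat_lit 3) (nat_lit 4) (nat_lit 1) (nat_lit 4) (nat_lit 262) (nat_lit 171) (nat_lit 167)) (XT.nd (nat_lit 78) (nat_lit 0) (nat_lit 0) (XT.lf (nat_lit 0) (nat_lit 1260070789489) (nat_lit 152) (nat_lit 6235826087154) (nat_lit 0) (nat_lit 1259998627113) (nat_lit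 1) (nat_lit 5) (nat_lit 3) (nat_lit 4) (nat_lit 1) (nat_lit 4) (nat_lit 263) (nat_lit 171) (nat_lit 166)) (XT.lf (nat_lit 0) (nat_lit 1449274944451) (nat_lit 152) (nat_lit 7170778636648) (nat_lit 0) (nat_lit 1449193475290) (nat_lit 1) (nat_lit 5) (nat_lit 3) (nat_lit 4) (nat_lit 1) (nat_lit 4) (nat_lit 264) (nat_lit 171) (nat_lit 165)))) (XT.nd (nat_lit 156) (nat_lit 0) (nat_lit 0) (XT.nd (nat_lit 78) (nat_lit 0) (nat_lit 0) (XT.lf (nat_lit 0) (nat_lit 1666846209209) (nat_lit 152) (nat_lit 8246000544793) (nat_lit 0) (nat_lit 1666756647191) (nat_lit 1) (nat_lit 5) (nat_lit 3) (nat_lit 4) (nat_lit 1) (nat_lit 4) (nat_lit 265) (nat_lit 171) (nat_lit 164)) (XT.lf (nat_lit 0) (nat_lit 1917041412855) (nat_lit 152) (nat_lit 9482528761963) (nat_lit 0) (nat_lit 1916944813572) (nat_lit 1) (nat_lit 5) (nat_lit 3) (nat_lit 4) (nat_lit 1) (nat_lit 4) (nat_lit 266) (nat_lit 171) (nat_lit 163)))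 (XT.nd (nat_lit 78) (nat_lit 0) (nat_lit 0) (XT.lf (nat_lit 0) (nat_lit 2204755678941) (nat_lit 152) (nat_lit 10904556231540) (nat_lit 0) (nat_lit 2204652960295) (nat_lit 1) (nat_lit 5) (nat_lit 3) (nat_lit 4) (nat_lit 1) (nat_lit 4) (nat_lit 267) (nat_lit 171) (nat_lit 162)) (XT.lf (nat_lit 0) (nat_lit 2535618199627) (nat_lit 152) (nat_lit 12539905230101) (nat_lit 0) (nat_lit 2535510159797) (nat_lit 1) (nat_lit 5) (nat_lit 3) (nat_lit 4) (nat_lit 1) (nat_lit 4) (nat_lit 268) (nat_lit 171) (nat_lit 161))))) (XT.nd (nat_lit 312) (nat_lit 0) (nat_lit 0) (XT.nd (nat_lit 156) (nat_lit 0) (nat_lit 0) (XT.nd (nat_lit 78) (nat_lit 0) (nat_lit 0) (XT.lf (nat_lit 0) (nat_lit 2916102372059) (nat_lit 152) (nat_lit 14420571716314) (nat_lit 0) (nat_lit 2915989705112) (nat_lit 1) (nat_lit 5) (nat_lit 3) (nat_lit 4) (nat_lit 1) (nat_lit 4) (nat_lit 269) (nat_lit 171) (nat_lit 160)) (XT.lf (nat_lit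 0) (nat_lit 3353652451783) (nat_lit 152) (nat_lit 16583351338823) (nat_lit 0) (nat_lit 3353535761256) (nat_lit 1) (nat_lit 5) (nat_lit 3) (nat_lit 4) (nat_lit 1) (nat_lit 4) (nat_lit 270) (nat_lit 171) (nat_lit 159))) (XT.nd (nat_lit 78) (nat_lit 0) (nat_lit 0) (XT.lf (nat_lit 0) (nat_lit 3856829201230) (nat_lit 152) (nat_lit 19070559351111) (nat_lit 0) (nat_lit 3856709011937) (nat_lit 1) (nat_lit 5) (nat_lit 3) (nat_lit 4) (nat_lit 1) (nat_lit 4) (nat_lit 271) (nat_lit 171) (nat_lit 158)) (XT.lf (nat_lit 0) (nat_lit 4435477382887) (nat_lit 152) (nat_lit 21930858518636) (nat_lit 0) (nat_lit 4435354151190) (nat_lit 1) (nat_lit 5) (nat_lit 3) (nat_lit 4) (nat_lit 1) (nat_lit 4) (nat_lit 272) (nat_lit 171) (nat_lit 157)))) (XT.nd (nat_lit 390) (nat_lit 0) (nat_lit 0) (XT.nd (nat_lit 78) (nat_lit 0) (nat_lit 0) (XT.lf (nat_lit 0) (nat_lit 5100918374223) (nat_lit 152) (nat_lit 25220211216415)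 (nat_lit 0) (nat_lit 5100792496957) (nat_lit 1) (nat_lit 5) (nat_lit 3) (nat_lit 4) (nat_lit 1) (nat_lit 4) (nat_lit 273) (nat_lit 171) (nat_lit 156)) (XT.lf (nat_lit 0) (nat_lit 5866171672893) (nat_lit 152) (nat_lit 29002974345056) (nat_lit 0) (nat_lit 5866043495132) (nat_lit 1) (nat_lit 5) (nat_lit 3) (nat_lit 4) (nat_lit 1) (nat_lit 4) (nat_lit 274) (nat_lit 171) (nat_lit 155))) (XT.nd (nat_lit 78) (nat_lit 0) (nat_lit 0) (XT.lf (nat_lit 0) (nat_lit 10260513474216) (nat_lit 152) (nat_lit 50725109791597) (nat_lit 0) (nat_lit 10260378728592) (nat_lit 1) (nat_lit 5) (nat_lit 3) (nat_lit 4) (nat_lit 1) (nat_lit 4) (nat_lit 278) (nat_lit 171) (nat_lit 151)) (XT.lf (nat_lit 0) (nat_lit 11799693161033) (nat_lit 152) (nat_lit 58333632935491) (nat_lit 0) (nat_lit 11799557271657) (nat_lit 1) (nat_lit 5) (nat_lit 3) (nat_lit 4) (nat_lit 1) (nat_lit 4) (nat_lit 279) (nat_lit 171) (nat_lit 150))))))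 (XT.nd (nat_lit 29796) (nat_lit 0) (nat_lit 0) (XT.nd (nat_lit 29484) (nat_lit 0) (nat_lit 0) (XT.nd (nat_lit 156) (nat_lit 0) (nat_lit 0) (XT.nd (nat_lit 78) (nat_lit 0) (nat_lit 0) (XT.lf (nat_lit 0) (nat_lit 13569748140144) (nat_lit 152) (nat_lit 67083437804751) (nat_lit 0) (nat_lit 13569611256201) (nat_lit 1) (nat_lit 5) (nat_lit 3) (nat_lit 4) (nat_lit 1) (nat_lit 4) (nat_lit 280) (nat_lit 171) (nat_lit 149)) (XT.lf (nat_lit 0) (nat_lit 15605309922011) (nat_lit 152) (nat_lit 77145716233777) (nat_lit 0) (nat_lit 15605172173226) (nat_lit 1) (nat_lit 5) (nat_lit 3) (nat_lit 4) (nat_lit 1) (nat_lit 4) (nat_lit 281) (nat_lit 171) (nat_lit 148))) (XT.nd (nat_lit 29250) (nat_lit 0) (nat_lit 0) (XT.lf (nat_lit 0) (nat_lit 17946204715408) (nat_lit 152) (nat_lit 88717338887482) (nat_lit 0) (nat_lit 17946066214587) (nat_lit 1) (nat_lit 5) (nat_lit 3) (nat_lit 4) (nat_lit 1) (nat_lit 4) (nat_lit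 282) (nat_lit 171) (nat_lit 147)) (XT.lf (nat_lit 0) (nat_lit 236263771210) (nat_lit 152) (nat_lit 1173403529226) (nat_lit 0) (nat_lit 236263771210) (nat_lit 1) (nat_lit 5) (nat_lit 3) (nat_lit 4) (nat_lit 1) (nat_lit 4) (nat_lit 256) (nat_lit 172) (nat_lit 172)))) (XT.nd (nat_lit 156) (nat_lit 0) (nat_lit 0) (XT.nd (nat_lit 78) (nat_lit 0) (nat_lit 0) (XT.lf (nat_lit 0) (nat_lit 543749737510) (nat_lit 152) (nat_lit 2698107465917) (nat_lit 0) (nat_lit 543728210351) (nat_lit 1) (nat_lit 5) (nat_lit 3) (nat_lit 4) (nat_lit 1) (nat_lit 4) (nat_lit 257) (nat_lit 172) (nat_lit 171)) (XT.lf (nat_lit 0) (nat_lit 625624004434) (nat_lit 152) (nat_lit 3102164175621) (nat_lit 0) (nat_lit 625583758007) (nat_lit 1) (nat_lit 5) (nat_lit 3) (nat_lit 4) (nat_lit 1) (nat_lit 4) (nat_lit 258) (nat_lit 172) (nat_lit 170))) (XT.nd (nat_lit 78) (nat_lit 0) (nat_lit 0) (XT.lf (nat_lit 0) (nat_lit 719752231026)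 (nat_lit 152) (nat_lit 3566882644927) (nat_lit 0) (nat_lit 719695706973) (nat_lit 1) (nat_lit 5) (nat_lit 3) (nat_lit 4) (nat_lit 1) (nat_lit 4) (nat_lit 259) (nat_lit 172) (nat_lit 169)) (XT.lf (nat_lit 0) (nat_lit 827976056500) (nat_lit 152) (nat_lit 4101355191712) (nat_lit 0) (nat_lit 827905377991) (nat_lit 1) (nat_lit 5) (nat_lit 3) (nat_lit 4) (nat_lit 1) (nat_lit 4) (nat_lit 260) (nat_lit 172) (nat_lit 168))))) (XT.nd (nat_lit 312) (nat_lit 0) (nat_lit 0) (XT.nd (nat_lit 156) (nat_lit 0) (nat_lit 0) (XT.nd (nat_lit 78) (nat_lit 0) (nat_lit 0) (XT.lf (nat_lit 0) (nat_lit 952412903530) (nat_lit 152) (nat_lit 4716038887545) (nat_lit 0) (nat_lit 952329916798) (nat_lit 1) (nat_lit 5) (nat_lit 3) (nat_lit 4) (nat_lit 1) (nat_lit 4) (nat_lit 261) (nat_lit 172) (nat_lit 167)) (XT.lf (nat_lit 0) (nat_lit 1095497406079) (nat_lit 152) (nat_lit 5422960152561) (nat_lit 0) (nat_lit 1095403716544)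 (nat_lit 1) (nat_lit 5) (nat_lit 3) (nat_lit 4) (nat_lit 1) (nat_lit 4) (nat_lit 262) (nat_lit 172) (nat_lit 166))) (XT.nd (nat_lit 78) (nat_lit 0) (nat_lit 0) (XT.lf (nat_lit 0) (nat_lit 1260029043545) (nat_lit 152) (nat_lit 6235950054990) (nat_lit 0) (nat_lit 1259926047225) (nat_lit 1) (nat_lit 5) (nat_lit 3) (nat_lit 4) (nat_lit 1) (nat_lit 4) (nat_lit 263) (nat_lit 172) (nat_lit 165)) (XT.lf (nat_lit 0) (nat_lit 1449226913182) (nat_lit 152) (nat_lit 7170914919008) (nat_lit 0) (nat_lit 1449115824006) (nat_lit 1) (nat_lit 5) (nat_lit 3) (nat_lit 4) (nat_lit 1) (nat_lit 4) (nat_lit 264) (nat_lit 172) (nat_lit 164)))) (XT.nd (nat_lit 156) (nat_lit 0) (nat_lit 0) (XT.nd (nat_lit 78) (nat_lit 0) (nat_lit 0) (XT.lf (nat_lit 0) (nat_lit 1666792712440) (nat_lit 152) (nat_lit 8246147535433) (nat_lit 0) (nat_lit 1666674585997) (nat_lit 1) (nat_lit 5) (nat_lit 3) (nat_lit 4) (nat_lit 1) (nat_lit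 4) (nat_lit 265) (nat_lit 172) (nat_lit 163)) (XT.lf (nat_lit 0) (nat_lit 1916983163478) (nat_lit 152) (nat_lit 9482685064153) (nat_lit 0) (nat_lit 1916858917673) (nat_lit 1) (nat_lit 5) (nat_lit 3) (nat_lit 4) (nat_lit 1) (nat_lit 4) (nat_lit 266) (nat_lit 172) (nat_lit 162))) (XT.nd (nat_lit 78) (nat_lit 0) (nat_lit 0) (XT.lf (nat_lit 0) (nat_lit 2204693296861) (nat_lit 152) (nat_lit 10904720630728) (nat_lit 0) (nat_lit 2204563729871) (nat_lit 1) (nat_lit 5) (nat_lit 3) (nat_lit 4) (nat_lit 1) (nat_lit 4) (nat_lit 267) (nat_lit 172) (nat_lit 161)) (XT.lf (nat_lit 0) (nat_lit 2535552223892) (nat_lit 152) (nat_lit 12540076670158) (nat_lit 0) (nat_lit 2535418029786) (nat_lit 1) (nat_lit 5) (nat_lit 3) (nat_lit 4) (nat_lit 1) (nat_lit 4) (nat_lit 268) (nat_lit 172) (nat_lit 160))))))) (XT.nd (nat_lit 30498) (nat_lit 0) (nat_lit 0) (XT.nd (nat_lit 780) (nat_lit 0) (nat_lit 0) (XT.nd (nat_lit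 234) (nat_lit 0) (nat_lit 0) (XT.nd (nat_lit 78) (nat_lit 0) (nat_lit 0) (XT.lf (nat_lit 0) (nat_lit 2916033271407) (nat_lit 152) (nat_lit 14420749278866) (nat_lit 0) (nat_lit 2915895053720) (nat_lit 1) (nat_lit 5) (nat_lit 3) (nat_lit 4) (nat_lit 1) (nat_lit 4) (nat_lit 269) (nat_lit 172) (nat_lit 159)) (XT.nd (nat_lit 78) (nat_lit 0) (nat_lit 0) (XT.lf (nat_lit 0) (nat_lit 3353580633812) (nat_lit 152) (nat_lit 16583534225283) (nat_lit 0) (nat_lit 3353438917360) (nat_lit 1) (nat_lit 5) (nat_lit 3) (nat_lit 4) (nat_lit 1) (nat_lit 4) (nat_lit 270) (nat_lit 172) (nat_lit 158)) (XT.lf (nat_lit 0) (nat_lit 3856755020371) (nat_lit 152) (nat_lit 19070746867057) (nat_lit 0) (nat_lit 3856610261515) (nat_lit 1) (nat_lit 5) (nat_lit 3) (nat_lit 4) (nat_lit 1) (nat_lit 4) (nat_lit 271) (nat_lit 172) (nat_lit 157)))) (XT.nd (nat_lit 156) (nat_lit 0) (nat_lit 0) (XT.nd (nat_lit 78) (nat_lit 0)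 (nat_lit 0) (XT.lf (nat_lit 0) (nat_lit 4435401147345) (nat_lit 152) (nat_lit 21931050060221) (nat_lit 0) (nat_lit 4435253742920) (nat_lit 1) (nat_lit 5) (nat_lit 3) (nat_lit 4) (nat_lit 1) (nat_lit 4) (nat_lit 272) (nat_lit 172) (nat_lit 156)) (XT.lf (nat_lit 0) (nat_lit 5100840351999) (nat_lit 152) (nat_lit 25220406258556) (nat_lit 0) (nat_lit 5100690647079) (nat_lit 1) (nat_lit 5) (nat_lit 3) (nat_lit 4) (nat_lit 1) (nat_lit 4) (nat_lit 273) (nat_lit 172) (nat_lit 155))) (XT.nd (nat_lit 312) (nat_lit 0) (nat_lit 0) (XT.lf (nat_lit 0) (nat_lit 5866092097033) (nat_lit 152) (nat_lit 29003172431159) (nat_lit 0) (nat_lit 5865940391683) (nat_lit 1) (nat_lit 5) (nat_lit 3) (nat_lit 4) (nat_lit 1) (nat_lit 4) (nat_lit 274) (nat_lit 172) (nat_lit 154)) (XT.lf (nat_lit 0) (nat_lit 10260429462759) (nat_lit 152) (nat_lit 50725316568146) (nat_lit 0) (nat_lit 10260272046223) (nat_lit 1) (nat_lit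 5) (nat_lit 3) (nat_lit 4) (nat_lit 1) (nat_lit 4) (nat_lit 278) (nat_lit 172) (nat_lit 150))))) (XT.nd (nat_lit 29406) (nat_lit 0) (nat_lit 0) (XT.nd (nat_lit 156) (nat_lit 0) (nat_lit 0) (XT.nd (nat_lit 78) (nat_lit 0) (nat_lit 0) (XT.lf (nat_lit 0) (nat_lit 11799608377144) (nat_lit 152) (nat_lit 58333841225427) (nat_lit 0) (nat_lit 11799449966041) (nat_lit 1) (nat_lit 5) (nat_lit 3) (nat_lit 4) (nat_lit 1) (nat_lit 4) (nat_lit 279) (nat_lit 172) (nat_lit 149)) (XT.lf (nat_lit 0) (nat_lit 13569662684576) (nat_lit 152) (nat_lit 67083647410676) (nat_lit 0) (nat_lit 13569503408631) (nat_lit 1) (nat_lit 5) (nat_lit 3) (nat_lit 4) (nat_lit 1) (nat_lit 4) (nat_lit 280) (nat_lit 172) (nat_lit 148))) (XT.nd (nat_lit 29172) (nat_lit 0) (nat_lit 0) (XT.lf (nat_lit 0) (nat_lit 15605223882373) (nat_lit 152) (nat_lit 77145926984039) (nat_lit 0) (nat_lit 15605063854392) (nat_lit 1) (nat_lit 5)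 (nat_lit 3) (nat_lit 4) (nat_lit 1) (nat_lit 4) (nat_lit 281) (nat_lit 172) (nat_lit 147)) (XT.lf (nat_lit 0) (nat_lit 178345293212) (nat_lit 152) (nat_lit 887921057992) (nat_lit 0) (nat_lit 178345293212) (nat_lit 1) (nat_lit 5) (nat_lit 3) (nat_lit 4) (nat_lit 1) (nat_lit 4) (nat_lit 254) (nat_lit 173) (nat_lit 173)))) (XT.nd (nat_lit 156) (nat_lit 0) (nat_lit 0) (XT.nd (nat_lit 78) (nat_lit 0) (nat_lit 0) (XT.lf (nat_lit 0) (nat_lit 410588697672) (nat_lit 152) (nat_lit 2041389684383) (nat_lit 0) (nat_lit 410563941439) (nat_lit 1) (nat_lit 5) (nat_lit 3) (nat_lit 4) (nat_lit 1) (nat_lit 4) (nat_lit 255) (nat_lit 173) (nat_lit 172)) (XT.lf (nat_lit 0) (nat_lit 472535579565) (nat_lit 152) (nat_lit 2346839815329) (nat_lit 0) (nat_lit 472489296173) (nat_lit 1) (nat_lit 5) (nat_lit 3) (nat_lit 4) (nat_lit 1) (nat_lit 4) (nat_lit 256) (nat_lit 173) (nat_lit 171))) (XT.nd (nat_lit 78) (nat_lit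 0) (nat_lit 0) (XT.lf (nat_lit 0) (nat_lit 543743236315) (nat_lit 152) (nat_lit 2698168707036) (nat_lit 0) (nat_lit 543678233655) (nat_lit 1) (nat_lit 5) (nat_lit 3) (nat_lit 4) (nat_lit 1) (nat_lit 4) (nat_lit 257) (nat_lit 173) (nat_lit 170)) (XT.lf (nat_lit 0) (nat_lit 625604861207) (nat_lit 152) (nat_lit 3102250185645) (nat_lit 0) (nat_lit 625523580921) (nat_lit 1) (nat_lit 5) (nat_lit 3) (nat_lit 4) (nat_lit 1) (nat_lit 4) (nat_lit 258) (nat_lit 173) (nat_lit 169)))))) (XT.nd (nat_lit 624) (nat_lit 0) (nat_lit 0) (XT.nd (nat_lit 312) (nat_lit 0) (nat_lit 0) (XT.nd (nat_lit 156) (nat_lit 0) (nat_lit 0) (XT.nd (nat_lit 78) (nat_lit 0) (nat_lit 0) (XT.lf (nat_lit 0) (nat_lit 719722094726) (nat_lit 152) (nat_lit 3566990193129) (nat_lit 0) (nat_lit 719626659984) (nat_lit 1) (nat_lit 5) (nat_lit 3) (nat_lit 4) (nat_lit 1) (nat_lit 4) (nat_lit 259) (nat_lit 173) (nat_lit 168)) (XT.lf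 (nat_lit 0) (nat_lit 827936361007) (nat_lit 152) (nat_lit 4101481468766) (nat_lit 0) (nat_lit 827828618042) (nat_lit 1) (nat_lit 5) (nat_lit 3) (nat_lit 4) (nat_lit 1) (nat_lit 4) (nat_lit 260) (nat_lit 173) (nat_lit 167))) (XT.nd (nat_lit 78) (nat_lit 0) (nat_lit 0) (XT.lf (nat_lit 0) (nat_lit 952364895695) (nat_lit 152) (nat_lit 4716181450556) (nat_lit 0) (nat_lit 952246449927) (nat_lit 1) (nat_lit 5) (nat_lit 3) (nat_lit 4) (nat_lit 1) (nat_lit 4) (nat_lit 261) (nat_lit 173) (nat_lit 166)) (XT.lf (nat_lit 0) (nat_lit 1095442170120) (nat_lit 152) (nat_lit 5423116877274) (nat_lit 0) (nat_lit 1095314417567) (nat_lit 1) (nat_lit 5) (nat_lit 3) (nat_lit 4) (nat_lit 1) (nat_lit 4) (nat_lit 262) (nat_lit 173) (nat_lit 165)))) (XT.nd (nat_lit 156) (nat_lit 0) (nat_lit 0) (XT.nd (nat_lit 78) (nat_lit 0) (nat_lit 0) (XT.lf (nat_lit 0) (nat_lit 1259967522261) (nat_lit 152) (nat_lit 6236119094226)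 (nat_lit 0) (nat_lit 1259831676852) (nat_lit 1) (nat_lit 5) (nat_lit 3) (nat_lit 4) (nat_lit 1) (nat_lit 4) (nat_lit 263) (nat_lit 173) (nat_lit 164)) (XT.lf (nat_lit 0) (nat_lit 1449159926398) (nat_lit 152) (nat_lit 7171094666525) (nat_lit 0) (nat_lit 1449017043723) (nat_lit 1) (nat_lit 5) (nat_lit 3) (nat_lit 4) (nat_lit 1) (nat_lit 4) (nat_lit 264) (nat_lit 173) (nat_lit 163))) (XT.nd (nat_lit 78) (nat_lit 0) (nat_lit 0) (XT.lf (nat_lit 0) (nat_lit 1666720973048) (nat_lit 152) (nat_lit 8246336594500) (nat_lit 0) (nat_lit 1666571971010) (nat_lit 1) (nat_lit 5) (nat_lit 3) (nat_lit 4) (nat_lit 1) (nat_lit 4) (nat_lit 265) (nat_lit 173) (nat_lit 162)) (XT.lf (nat_lit 0) (nat_lit 1916907291383) (nat_lit 152) (nat_lit 9482882220219) (nat_lit 0) (nat_lit 1916752968161) (nat_lit 1) (nat_lit 5) (nat_lit 3) (nat_lit 4) (nat_lit 1) (nat_lit 4) (nat_lit 266) (nat_lit 173) (nat_lit 161)))))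 (XT.nd (nat_lit 312) (nat_lit 0) (nat_lit 0) (XT.nd (nat_lit 156) (nat_lit 0) (nat_lit 0) (XT.nd (nat_lit 78) (nat_lit 0) (nat_lit 0) (XT.lf (nat_lit 0) (nat_lit 2204613831110) (nat_lit 152) (nat_lit 10904924827663) (nat_lit 0) (nat_lit 2204454880771) (nat_lit 1) (nat_lit 5) (nat_lit 3) (nat_lit 4) (nat_lit 1) (nat_lit 4) (nat_lit 267) (nat_lit 173) (nat_lit 160)) (XT.lf (nat_lit 0) (nat_lit 2535469633225) (nat_lit 152) (nat_lit 12540286989588) (nat_lit 0) (nat_lit 2535306659306) (nat_lit 1) (nat_lit 5) (nat_lit 3) (nat_lit 4) (nat_lit 1) (nat_lit 4) (nat_lit 268) (nat_lit 173) (nat_lit 159))) (XT.nd (nat_lit 78) (nat_lit 0) (nat_lit 0) (XT.lf (nat_lit 0) (nat_lit 2915947963420) (nat_lit 152) (nat_lit 14420964922204) (nat_lit 0) (nat_lit 2915781490735) (nat_lit 1) (nat_lit 5) (nat_lit 3) (nat_lit 4) (nat_lit 1) (nat_lit 4) (nat_lit 269) (nat_lit 173) (nat_lit 158)) (XT.lf (nat_lit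 0) (nat_lit 3353492962938) (nat_lit 152) (nat_lit 16583754498106) (nat_lit 0) (nat_lit 3353323447849) (nat_lit 1) (nat_lit 5) (nat_lit 3) (nat_lit 4) (nat_lit 1) (nat_lit 4) (nat_lit 270) (nat_lit 173) (nat_lit 157)))) (XT.nd (nat_lit 156) (nat_lit 0) (nat_lit 0) (XT.nd (nat_lit 78) (nat_lit 0) (nat_lit 0) (XT.lf (nat_lit 0) (nat_lit 3856665294814) (nat_lit 152) (nat_lit 19070971165519) (nat_lit 0) (nat_lit 3856493134156) (nat_lit 1) (nat_lit 5) (nat_lit 3) (nat_lit 4) (nat_lit 1) (nat_lit 4) (nat_lit 271) (nat_lit 173) (nat_lit 156)) (XT.lf (nat_lit 0) (nat_lit 4435309635106) (nat_lit 152) (nat_lit 21931277859240) (nat_lit 0) (nat_lit 4435135173953) (nat_lit 1) (nat_lit 5) (nat_lit 3) (nat_lit 4) (nat_lit 1) (nat_lit 4) (nat_lit 272) (nat_lit 173) (nat_lit 155))) (XT.nd (nat_lit 390) (nat_lit 0) (nat_lit 0) (XT.lf (nat_lit 0) (nat_lit 5100747286124) (nat_lit 152) (nat_lit 25220637101537)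 (nat_lit 0) (nat_lit 5100570824541) (nat_lit 1) (nat_lit 5) (nat_lit 3) (nat_lit 4) (nat_lit 1) (nat_lit 4) (nat_lit 273) (nat_lit 173) (nat_lit 154)) (XT.lf (nat_lit 0) (nat_lit 10260331188854) (nat_lit 152) (nat_lit 50725557614959) (nat_lit 0) (nat_lit 10260148021519) (nat_lit 1) (nat_lit 5) (nat_lit 3) (nat_lit 4) (nat_lit 1) (nat_lit 4) (nat_lit 278) (nat_lit 173) (nat_lit 149))))))))
noncomputable def xc3 : XT := (XT.nd (nat_lit 60372) (nat_lit 0) (nat_lit 0) (XT.nd (nat_lit 30030) (nat_lit 0) (nat_lit 0) (XT.nd (nat_lit 29406) (nat_lit 0) (nat_lit 0) (XT.nd (nat_lit 702) (nat_lit 0) (nat_lit 0) (XT.nd (nat_lit 546) (nat_lit 0) (nat_lit 0) (XT.lf (nat_lit 0) (nat_lit 11799509431560) (nat_lit 152) (nat_lit 58334083588229) (nat_lit 0) (nat_lit 11799325399383) (nat_lit 1) (nat_lit 5) (nat_lit 3) (nat_lit 4) (nat_lit 1) (nat_lit 4) (nat_lit 279) (nat_lit 173) (nat_lit 148)) (XT.nd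 (nat_lit 78) (nat_lit 0) (nat_lit 0) (XT.lf (nat_lit 0) (nat_lit 31388314104693) (nat_lit 152) (nat_lit 155166492298091) (nat_lit 0) (nat_lit 31388126474414) (nat_lit 1) (nat_lit 5) (nat_lit 3) (nat_lit 4) (nat_lit 1) (nat_lit 4) (nat_lit 286) (nat_lit 173) (nat_lit 141)) (XT.lf (nat_lit 0) (nat_lit 36096683304582) (nat_lit 152) (nat_lit 178441171170150) (nat_lit 0) (nat_lit 36096495391584) (nat_lit 1) (nat_lit 5) (nat_lit 3) (nat_lit 4) (nat_lit 1) (nat_lit 4) (nat_lit 287) (nat_lit 173) (nat_lit 140)))) (XT.nd (nat_lit 28548) (nat_lit 0) (nat_lit 0) (XT.nd (nat_lit 28470) (nat_lit 0) (nat_lit 0) (XT.lf (nat_lit 0) (nat_lit 41511307473947) (nat_lit 152) (nat_lit 205207052677302) (nat_lit 0) (nat_lit 41511119315108) (nat_lit 1) (nat_lit 5) (nat_lit 3) (nat_lit 4) (nat_lit 1) (nat_lit 4) (nat_lit 288) (nat_lit 173) (nat_lit 139)) (XT.lf (nat_lit 0) (nat_lit 134504993674) (nat_lit 152)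 (nat_lit 672154206771) (nat_lit 0) (nat_lit 134504993674) (nat_lit 1) (nat_lit 5) (nat_lit 3) (nat_lit 4) (nat_lit 1) (nat_lit 4) (nat_lit 252) (nat_lit 174) (nat_lit 174))) (XT.nd (nat_lit 78) (nat_lit 0) (nat_lit 0) (XT.lf (nat_lit 0) (nat_lit 309815187227) (nat_lit 152) (nat_lit 1545001614227) (nat_lit 0) (nat_lit 309786717559) (nat_lit 1) (nat_lit 5) (nat_lit 3) (nat_lit 4) (nat_lit 1) (nat_lit 4) (nat_lit 253) (nat_lit 174) (nat_lit 173)) (XT.lf (nat_lit 0) (nat_lit 356699829140) (nat_lit 152) (nat_lit 1775879786393) (nat_lit 0) (nat_lit 356646603239) (nat_lit 1) (nat_lit 5) (nat_lit 3) (nat_lit 4) (nat_lit 1) (nat_lit 4) (nat_lit 254) (nat_lit 174) (nat_lit 172))))) (XT.nd (nat_lit 312) (nat_lit 0) (nat_lit 0) (XT.nd (nat_lit 156) (nat_lit 0) (nat_lit 0) (XT.nd (nat_lit 78) (nat_lit 0) (nat_lit 0) (XT.lf (nat_lit 0) (nat_lit 410581221298) (nat_lit 152) (nat_lit 2041460111670)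 (nat_lit 0) (nat_lit 410506468239) (nat_lit 1) (nat_lit 5) (nat_lit 3) (nat_lit 4) (nat_lit 1) (nat_lit 4) (nat_lit 255) (nat_lit 174) (nat_lit 171)) (XT.lf (nat_lit 0) (nat_lit 472513564854) (nat_lit 152) (nat_lit 2346938726857) (nat_lit 0) (nat_lit 472420092525) (nat_lit 1) (nat_lit 5) (nat_lit 3) (nat_lit 4) (nat_lit 1) (nat_lit 4) (nat_lit 256) (nat_lit 174) (nat_lit 170))) (XT.nd (nat_lit 78) (nat_lit 0) (nat_lit 0) (XT.lf (nat_lit 0) (nat_lit 543708579570) (nat_lit 152) (nat_lit 2698292387469) (nat_lit 0) (nat_lit 543598829617) (nat_lit 1) (nat_lit 5) (nat_lit 3) (nat_lit 4) (nat_lit 1) (nat_lit 4) (nat_lit 257) (nat_lit 174) (nat_lit 169)) (XT.lf (nat_lit 0) (nat_lit 625559211389) (nat_lit 152) (nat_lit 3102395404256) (nat_lit 0) (nat_lit 625435306979) (nat_lit 1) (nat_lit 5) (nat_lit 3) (nat_lit 4) (nat_lit 1) (nat_lit 4) (nat_lit 258) (nat_lit 174) (nat_lit 168)))) (XT.nd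 (nat_lit 156) (nat_lit 0) (nat_lit 0) (XT.nd (nat_lit 78) (nat_lit 0) (nat_lit 0) (XT.lf (nat_lit 0) (nat_lit 719666885715) (nat_lit 152) (nat_lit 3567154140592) (nat_lit 0) (nat_lit 719530673082) (nat_lit 1) (nat_lit 5) (nat_lit 3) (nat_lit 4) (nat_lit 1) (nat_lit 4) (nat_lit 259) (nat_lit 174) (nat_lit 167)) (XT.lf (nat_lit 0) (nat_lit 827872839654) (nat_lit 152) (nat_lit 4101661702186) (nat_lit 0) (nat_lit 827725924218) (nat_lit 1) (nat_lit 5) (nat_lit 3) (nat_lit 4) (nat_lit 1) (nat_lit 4) (nat_lit 260) (nat_lit 174) (nat_lit 166))) (XT.nd (nat_lit 78) (nat_lit 0) (nat_lit 0) (XT.lf (nat_lit 0) (nat_lit 952294146218) (nat_lit 152) (nat_lit 4716375845678) (nat_lit 0) (nat_lit 952137923998) (nat_lit 1) (nat_lit 5) (nat_lit 3) (nat_lit 4) (nat_lit 1) (nat_lit 4) (nat_lit 261) (nat_lit 174) (nat_lit 165)) (XT.lf (nat_lit 0) (nat_lit 1095365135319) (nat_lit 152) (nat_lit 5423323586920)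 (nat_lit 0) (nat_lit 1095200820242) (nat_lit 1) (nat_lit 5) (nat_lit 3) (nat_lit 4) (nat_lit 1) (nat_lit 4) (nat_lit 262) (nat_lit 174) (nat_lit 164)))))) (XT.nd (nat_lit 624) (nat_lit 0) (nat_lit 0) (XT.nd (nat_lit 312) (nat_lit 0) (nat_lit 0) (XT.nd (nat_lit 156) (nat_lit 0) (nat_lit 0) (XT.nd (nat_lit 78) (nat_lit 0) (nat_lit 0) (XT.lf (nat_lit 0) (nat_lit 1259885021960) (nat_lit 152) (nat_lit 6236336512153) (nat_lit 0) (nat_lit 1259713669616) (nat_lit 1) (nat_lit 5) (nat_lit 3) (nat_lit 4) (nat_lit 1) (nat_lit 4) (nat_lit 263) (nat_lit 174) (nat_lit 163)) (XT.lf (nat_lit 0) (nat_lit 1449072673488) (nat_lit 152) (nat_lit 7171321396001) (nat_lit 0) (nat_lit 1448895201783) (nat_lit 1) (nat_lit 5) (nat_lit 3) (nat_lit 4) (nat_lit 1) (nat_lit 4) (nat_lit 264) (nat_lit 174) (nat_lit 162))) (XT.nd (nat_lit 78) (nat_lit 0) (nat_lit 0) (XT.lf (nat_lit 0) (nat_lit 1666629587435) (nat_lit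 152) (nat_lit 8246571420975) (nat_lit 0) (nat_lit 1666446794545) (nat_lit 1) (nat_lit 5) (nat_lit 3) (nat_lit 4) (nat_lit 1) (nat_lit 4) (nat_lit 265) (nat_lit 174) (nat_lit 161)) (XT.lf (nat_lit 0) (nat_lit 1916812312115) (nat_lit 152) (nat_lit 9483124087562) (nat_lit 0) (nat_lit 1916624892108) (nat_lit 1) (nat_lit 5) (nat_lit 3) (nat_lit 4) (nat_lit 1) (nat_lit 4) (nat_lit 266) (nat_lit 174) (nat_lit 160)))) (XT.nd (nat_lit 156) (nat_lit 0) (nat_lit 0) (XT.nd (nat_lit 78) (nat_lit 0) (nat_lit 0) (XT.lf (nat_lit 0) (nat_lit 2204515726925) (nat_lit 152) (nat_lit 10905172817502) (nat_lit 0) (nat_lit 2204324283338) (nat_lit 1) (nat_lit 5) (nat_lit 3) (nat_lit 4) (nat_lit 1) (nat_lit 4) (nat_lit 267) (nat_lit 174) (nat_lit 159)) (XT.lf (nat_lit 0) (nat_lit 2535368811720) (nat_lit 152) (nat_lit 12540540303334) (nat_lit 0) (nat_lit 2535173869368) (nat_lit 1) (nat_lit 5) (nat_lit 3) (nat_lit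 4) (nat_lit 1) (nat_lit 4) (nat_lit 268) (nat_lit 174) (nat_lit 158))) (XT.nd (nat_lit 78) (nat_lit 0) (nat_lit 0) (XT.lf (nat_lit 0) (nat_lit 2915844779029) (nat_lit 152) (nat_lit 14421222865436) (nat_lit 0) (nat_lit 2915646794272) (nat_lit 1) (nat_lit 5) (nat_lit 3) (nat_lit 4) (nat_lit 1) (nat_lit 4) (nat_lit 269) (nat_lit 174) (nat_lit 157)) (XT.lf (nat_lit 0) (nat_lit 3353387723864) (nat_lit 152) (nat_lit 16584016466978) (nat_lit 0) (nat_lit 3353187093538) (nat_lit 1) (nat_lit 5) (nat_lit 3) (nat_lit 4) (nat_lit 1) (nat_lit 4) (nat_lit 270) (nat_lit 174) (nat_lit 156))))) (XT.nd (nat_lit 1170) (nat_lit 0) (nat_lit 0) (XT.nd (nat_lit 156) (nat_lit 0) (nat_lit 0) (XT.nd (nat_lit 78) (nat_lit 0) (nat_lit 0) (XT.lf (nat_lit 0) (nat_lit 3856558269058) (nat_lit 152) (nat_lit 19071236634947) (nat_lit 0) (nat_lit 3856355338237) (nat_lit 1) (nat_lit 5) (nat_lit 3) (nat_lit 4) (nat_lit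 1) (nat_lit 4) (nat_lit 271) (nat_lit 174) (nat_lit 155)) (XT.lf (nat_lit 0) (nat_lit 4435201055714) (nat_lit 152) (nat_lit 21931546372630) (nat_lit 0) (nat_lit 4434996124463) (nat_lit 1) (nat_lit 5) (nat_lit 3) (nat_lit 4) (nat_lit 1) (nat_lit 4) (nat_lit 272) (nat_lit 174) (nat_lit 154))) (XT.nd (nat_lit 936) (nat_lit 0) (nat_lit 0) (XT.lf (nat_lit 0) (nat_lit 5100637355744) (nat_lit 152) (nat_lit 25220908261850) (nat_lit 0) (nat_lit 5100430684988) (nat_lit 1) (nat_lit 5) (nat_lit 3) (nat_lit 4) (nat_lit 1) (nat_lit 4) (nat_lit 273) (nat_lit 174) (nat_lit 153)) (XT.lf (nat_lit 0) (nat_lit 27293962353756) (nat_lit 152) (nat_lit 134927927417558) (nat_lit 0) (nat_lit 27293746253808) (nat_lit 1) (nat_lit 5) (nat_lit 3) (nat_lit 4) (nat_lit 1) (nat_lit 4) (nat_lit 285) (nat_lit 174) (nat_lit 141)))) (XT.nd (nat_lit 156) (nat_lit 0) (nat_lit 0) (XT.nd (nat_lit 78) (nat_lit 0) (nat_lit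 0) (XT.lf (nat_lit 0) (nat_lit 31388196631549) (nat_lit 152) (nat_lit 155166778236566) (nat_lit 0) (nat_lit 31387980248883) (nat_lit 1) (nat_lit 5) (nat_lit 3) (nat_lit 4) (nat_lit 1) (nat_lit 4) (nat_lit 286) (nat_lit 174) (nat_lit 140)) (XT.lf (nat_lit 0) (nat_lit 36096565640504) (nat_lit 152) (nat_lit 178441457482711) (nat_lit 0) (nat_lit 36096349011997) (nat_lit 1) (nat_lit 5) (nat_lit 3) (nat_lit 4) (nat_lit 1) (nat_lit 4) (nat_lit 287) (nat_lit 174) (nat_lit 139))) (XT.nd (nat_lit 28314) (nat_lit 0) (nat_lit 0) (XT.lf (nat_lit 0) (nat_lit 41511189643840) (nat_lit 152) (nat_lit 205207339315155) (nat_lit 0) (nat_lit 41510972801557) (nat_lit 1) (nat_lit 5) (nat_lit 3) (nat_lit 4) (nat_lit 1) (nat_lit 4) (nat_lit 288) (nat_lit 174) (nat_lit 138)) (XT.lf (nat_lit 0) (nat_lit 101302978249) (nat_lit 152) (nat_lit 509117216865) (nat_lit 0) (nat_lit 101302978249) (nat_lit 1) (nat_lit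 5) (nat_lit 3) (nat_lit 4) (nat_lit 1) (nat_lit 4) (nat_lit 250) (nat_lit 175) (nat_lit 175))))))) (XT.nd (nat_lit 1170) (nat_lit 0) (nat_lit 0) (XT.nd (nat_lit 546) (nat_lit 0) (nat_lit 0) (XT.nd (nat_lit 234) (nat_lit 0) (nat_lit 0) (XT.nd (nat_lit 78) (nat_lit 0) (nat_lit 0) (XT.lf (nat_lit 0) (nat_lit 233518607015) (nat_lit 152) (nat_lit 1169873578241) (nat_lit 0) (nat_lit 233485866897) (nat_lit 1) (nat_lit 5) (nat_lit 3) (nat_lit 4) (nat_lit 1) (nat_lit 4) (nat_lit 251) (nat_lit 175) (nat_lit 174)) (XT.nd (nat_lit 78) (nat_lit 0) (nat_lit 0) (XT.lf (nat_lit 0) (nat_lit 269020616471) (nat_lit 152) (nat_lit 1344351734514) (nat_lit 0) (nat_lit 268959406685) (nat_lit 1) (nat_lit 5) (nat_lit 3) (nat_lit 4) (nat_lit 1) (nat_lit 4) (nat_lit 252) (nat_lit 175) (nat_lit 173)) (XT.lf (nat_lit 0) (nat_lit 309806589397) (nat_lit 152) (nat_lit 1545082605607) (nat_lit 0) (nat_lit 309720623379)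 (nat_lit 1) (nat_lit 5) (nat_lit 3) (nat_lit 4) (nat_lit 1) (nat_lit 4) (nat_lit 253) (nat_lit 175) (nat_lit 172)))) (XT.nd (nat_lit 156) (nat_lit 0) (nat_lit 0) (XT.nd (nat_lit 78) (nat_lit 0) (nat_lit 0) (XT.lf (nat_lit 0) (nat_lit 356674512221) (nat_lit 152) (nat_lit 1775993534650) (nat_lit 0) (nat_lit 356567019044) (nat_lit 1) (nat_lit 5) (nat_lit 3) (nat_lit 4) (nat_lit 1) (nat_lit 4) (nat_lit 254) (nat_lit 175) (nat_lit 171)) (XT.lf (nat_lit 0) (nat_lit 410541366042) (nat_lit 152) (nat_lit 2041602344168) (nat_lit 0) (nat_lit 410415153595) (nat_lit 1) (nat_lit 5) (nat_lit 3) (nat_lit 4) (nat_lit 1) (nat_lit 4) (nat_lit 255) (nat_lit 175) (nat_lit 170))) (XT.nd (nat_lit 78) (nat_lit 0) (nat_lit 0) (XT.lf (nat_lit 0) (nat_lit 472461067563) (nat_lit 152) (nat_lit 2347105728260) (nat_lit 0) (nat_lit 472318577492) (nat_lit 1) (nat_lit 5) (nat_lit 3) (nat_lit 4) (nat_lit 1) (nat_lit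 4) (nat_lit 256) (nat_lit 175) (nat_lit 169)) (XT.lf (nat_lit 0) (nat_lit 543645089208) (nat_lit 152) (nat_lit 2698480927051) (nat_lit 0) (nat_lit 543488444680) (nat_lit 1) (nat_lit 5) (nat_lit 3) (nat_lit 4) (nat_lit 1) (nat_lit 4) (nat_lit 257) (nat_lit 175) (nat_lit 168))))) (XT.nd (nat_lit 312) (nat_lit 0) (nat_lit 0) (XT.nd (nat_lit 156) (nat_lit 0) (nat_lit 0) (XT.nd (nat_lit 78) (nat_lit 0) (nat_lit 0) (XT.lf (nat_lit 0) (nat_lit 625486161833) (nat_lit 152) (nat_lit 3102602672689) (nat_lit 0) (nat_lit 625317209082) (nat_lit 1) (nat_lit 5) (nat_lit 3) (nat_lit 4) (nat_lit 1) (nat_lit 4) (nat_lit 258) (nat_lit 175) (nat_lit 167)) (XT.lf (nat_lit 0) (nat_lit 719585523817) (nat_lit 152) (nat_lit 3567377694982) (nat_lit 0) (nat_lit 719405868263) (nat_lit 1) (nat_lit 5) (nat_lit 3) (nat_lit 4) (nat_lit 1) (nat_lit 4) (nat_lit 259) (nat_lit 175) (nat_lit 166))) (XT.nd (nat_lit 78)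 (nat_lit 0) (nat_lit 0) (XT.lf (nat_lit 0) (nat_lit 827784249632) (nat_lit 152) (nat_lit 4101899418278) (nat_lit 0) (nat_lit 827595287294) (nat_lit 1) (nat_lit 5) (nat_lit 3) (nat_lit 4) (nat_lit 1) (nat_lit 4) (nat_lit 260) (nat_lit 175) (nat_lit 165)) (XT.lf (nat_lit 0) (nat_lit 952199270872) (nat_lit 152) (nat_lit 4716625876294) (nat_lit 0) (nat_lit 952002215677) (nat_lit 1) (nat_lit 5) (nat_lit 3) (nat_lit 4) (nat_lit 1) (nat_lit 4) (nat_lit 261) (nat_lit 175) (nat_lit 164)))) (XT.nd (nat_lit 156) (nat_lit 0) (nat_lit 0) (XT.nd (nat_lit 78) (nat_lit 0) (nat_lit 0) (XT.lf (nat_lit 0) (nat_lit 1095264794473) (nat_lit 152) (nat_lit 5423584325817) (nat_lit 0) (nat_lit 1095060702011) (nat_lit 1) (nat_lit 5) (nat_lit 3) (nat_lit 4) (nat_lit 1) (nat_lit 4) (nat_lit 262) (nat_lit 175) (nat_lit 163)) (XT.lf (nat_lit 0) (nat_lit 1259779928505) (nat_lit 152) (nat_lit 6236606562599) (nat_lit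 0) (nat_lit 1259569716681) (nat_lit 1) (nat_lit 5) (nat_lit 3) (nat_lit 4) (nat_lit 1) (nat_lit 4) (nat_lit 263) (nat_lit 175) (nat_lit 162))) (XT.nd (nat_lit 78) (nat_lit 0) (nat_lit 0) (XT.lf (nat_lit 0) (nat_lit 1448963447331) (nat_lit 152) (nat_lit 7171599543447) (nat_lit 0) (nat_lit 1448747914323) (nat_lit 1) (nat_lit 5) (nat_lit 3) (nat_lit 4) (nat_lit 1) (nat_lit 4) (nat_lit 264) (nat_lit 175) (nat_lit 161)) (XT.lf (nat_lit 0) (nat_lit 1666516767622) (nat_lit 152) (nat_lit 8246856609289) (nat_lit 0) (nat_lit 1666296607497) (nat_lit 1) (nat_lit 5) (nat_lit 3) (nat_lit 4) (nat_lit 1) (nat_lit 4) (nat_lit 265) (nat_lit 175) (nat_lit 160)))))) (XT.nd (nat_lit 1404) (nat_lit 0) (nat_lit 0) (XT.nd (nat_lit 312) (nat_lit 0) (nat_lit 0) (XT.nd (nat_lit 156) (nat_lit 0) (nat_lit 0) (XT.nd (nat_lit 78) (nat_lit 0) (nat_lit 0) (XT.lf (nat_lit 0) (nat_lit 1916696367385) (nat_lit 152) (nat_lit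 9483415398371) (nat_lit 0) (nat_lit 1916472183680) (nat_lit 1) (nat_lit 5) (nat_lit 3) (nat_lit 4) (nat_lit 1) (nat_lit 4) (nat_lit 266) (nat_lit 175) (nat_lit 159)) (XT.lf (nat_lit 0) (nat_lit 2204397064876) (nat_lit 152) (nat_lit 10905469452219) (nat_lit 0) (nat_lit 2204169382406) (nat_lit 1) (nat_lit 5) (nat_lit 3) (nat_lit 4) (nat_lit 1) (nat_lit 4) (nat_lit 267) (nat_lit 175) (nat_lit 158))) (XT.nd (nat_lit 78) (nat_lit 0) (nat_lit 0) (XT.lf (nat_lit 0) (nat_lit 2535247786785) (nat_lit 152) (nat_lit 12540841567537) (nat_lit 0) (nat_lit 2535017061910) (nat_lit 1) (nat_lit 5) (nat_lit 3) (nat_lit 4) (nat_lit 1) (nat_lit 4) (nat_lit 268) (nat_lit 175) (nat_lit 157)) (XT.lf (nat_lit 0) (nat_lit 2915721699409) (nat_lit 152) (nat_lit 14421528155278) (nat_lit 0) (nat_lit 2915488328966) (nat_lit 1) (nat_lit 5) (nat_lit 3) (nat_lit 4) (nat_lit 1) (nat_lit 4) (nat_lit 269) (nat_lit 175)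 (nat_lit 156)))) (XT.nd (nat_lit 156) (nat_lit 0) (nat_lit 0) (XT.nd (nat_lit 78) (nat_lit 0) (nat_lit 0) (XT.lf (nat_lit 0) (nat_lit 3353262857562) (nat_lit 152) (nat_lit 16584325257377) (nat_lit 0) (nat_lit 3353027186624) (nat_lit 1) (nat_lit 5) (nat_lit 3) (nat_lit 4) (nat_lit 1) (nat_lit 4) (nat_lit 270) (nat_lit 175) (nat_lit 155)) (XT.lf (nat_lit 0) (nat_lit 3856431849120) (nat_lit 152) (nat_lit 19071548469308) (nat_lit 0) (nat_lit 3856194177752) (nat_lit 1) (nat_lit 5) (nat_lit 3) (nat_lit 4) (nat_lit 1) (nat_lit 4) (nat_lit 271) (nat_lit 175) (nat_lit 154))) (XT.nd (nat_lit 78) (nat_lit 0) (nat_lit 0) (XT.lf (nat_lit 0) (nat_lit 4435073284788) (nat_lit 152) (nat_lit 21931860853913) (nat_lit 0) (nat_lit 4434833873915) (nat_lit 1) (nat_lit 5) (nat_lit 3) (nat_lit 4) (nat_lit 1) (nat_lit 4) (nat_lit 272) (nat_lit 175) (nat_lit 153)) (XT.lf (nat_lit 0) (nat_lit 5100508410046) (nat_lit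 152) (nat_lit 25221225044806) (nat_lit 0) (nat_lit 5100267486560) (nat_lit 1) (nat_lit 5) (nat_lit 3) (nat_lit 4) (nat_lit 1) (nat_lit 4) (nat_lit 273) (nat_lit 175) (nat_lit 152))))) (XT.nd (nat_lit 312) (nat_lit 0) (nat_lit 0) (XT.nd (nat_lit 156) (nat_lit 0) (nat_lit 0) (XT.nd (nat_lit 78) (nat_lit 0) (nat_lit 0) (XT.lf (nat_lit 0) (nat_lit 23733623129313) (nat_lit 152) (nat_lit 117329256338909) (nat_lit 0) (nat_lit 23733374289247) (nat_lit 1) (nat_lit 5) (nat_lit 3) (nat_lit 4) (nat_lit 1) (nat_lit 4) (nat_lit 284) (nat_lit 175) (nat_lit 141)) (XT.lf (nat_lit 0) (nat_lit 27293827040066) (nat_lit 152) (nat_lit 134928256677004) (nat_lit 0) (nat_lit 27293577917283) (nat_lit 1) (nat_lit 5) (nat_lit 3) (nat_lit 4) (nat_lit 1) (nat_lit 4) (nat_lit 285) (nat_lit 175) (nat_lit 140))) (XT.nd (nat_lit 78) (nat_lit 0) (nat_lit 0) (XT.lf (nat_lit 0) (nat_lit 31388061126926) (nat_lit 152) (nat_lit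 155167107870098) (nat_lit 0) (nat_lit 31387811758300) (nat_lit 1) (nat_lit 5) (nat_lit 3) (nat_lit 4) (nat_lit 1) (nat_lit 4) (nat_lit 286) (nat_lit 175) (nat_lit 139)) (XT.lf (nat_lit 0) (nat_lit 36096429969852) (nat_lit 152) (nat_lit 178441787441535) (nat_lit 0) (nat_lit 36096180387451) (nat_lit 1) (nat_lit 5) (nat_lit 3) (nat_lit 4) (nat_lit 1) (nat_lit 4) (nat_lit 287) (nat_lit 175) (nat_lit 138)))) (XT.nd (nat_lit 28236) (nat_lit 0) (nat_lit 0) (XT.nd (nat_lit 28158) (nat_lit 0) (nat_lit 0) (XT.lf (nat_lit 0) (nat_lit 41511053828815) (nat_lit 152) (nat_lit 205207669556842) (nat_lit 0) (nat_lit 41510804060522) (nat_lit 1) (nat_lit 5) (nat_lit 3) (nat_lit 4) (nat_lit 1) (nat_lit 4) (nat_lit 288) (nat_lit 175) (nat_lit 137)) (XT.lf (nat_lit 0) (nat_lit 76137166403) (nat_lit 152) (nat_lit 385968639908) (nat_lit 0) (nat_lit 76137166403) (nat_lit 1) (nat_lit 5) (nat_lit 3) (nat_lit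 4) (nat_lit 1) (nat_lit 4) (nat_lit 248) (nat_lit 176) (nat_lit 176))) (XT.nd (nat_lit 78) (nat_lit 0) (nat_lit 0) (XT.lf (nat_lit 0) (nat_lit 175715503326) (nat_lit 152) (nat_lit 886467448157) (nat_lit 0) (nat_lit 175677852191) (nat_lit 1) (nat_lit 5) (nat_lit 3) (nat_lit 4) (nat_lit 1) (nat_lit 4) (nat_lit 249) (nat_lit 176) (nat_lit 175)) (XT.lf (nat_lit 0) (nat_lit 202618179989) (nat_lit 152) (nat_lit 1018284252847) (nat_lit 0) (nat_lit 202547788735) (nat_lit 1) (nat_lit 5) (nat_lit 3) (nat_lit 4) (nat_lit 1) (nat_lit 4) (nat_lit 250) (nat_lit 176) (nat_lit 174))))))))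
noncomputable def xc4 : XT := (XT.nd (nat_lit 31122) (nat_lit 0) (nat_lit 0) (XT.nd (nat_lit 1170) (nat_lit 0) (nat_lit 0) (XT.nd (nat_lit 546) (nat_lit 0) (nat_lit 0) (XT.nd (nat_lit 234) (nat_lit 0) (nat_lit 0) (XT.nd (nat_lit 78) (nat_lit 0) (nat_lit 0) (XT.lf (nat_lit 0) (nat_lit 233508719511) (nat_lit 152) (nat_lit 1169966718327) (nat_lit 0) (nat_lit 233409858590) (nat_lit 1) (nat_lit 5) (nat_lit 3) (nat_lit 4) (nat_lit 1) (nat_lit 4) (nat_lit 251) (nat_lit 176) (nat_lit 173)) (XT.nd (nat_lit 78) (nat_lit 0) (nat_lit 0) (XT.lf (nat_lit 0) (nat_lit 268991502015) (nat_lit 152) (nat_lit 1344482545009) (nat_lit 0) (nat_lit 268867884860) (nat_lit 1) (nat_lit 5) (nat_lit 3) (nat_lit 4) (nat_lit 1) (nat_lit 4) (nat_lit 252) (nat_lit 176) (nat_lit 172)) (XT.lf (nat_lit 0) (nat_lit 309760755852) (nat_lit 152) (nat_lit 1545246172979) (nat_lit 0) (nat_lit 309615611539) (nat_lit 1) (nat_lit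 5) (nat_lit 3) (nat_lit 4) (nat_lit 1) (nat_lit 4) (nat_lit 253) (nat_lit 176) (nat_lit 171)))) (XT.nd (nat_lit 156) (nat_lit 0) (nat_lit 0) (XT.nd (nat_lit 78) (nat_lit 0) (nat_lit 0) (XT.lf (nat_lit 0) (nat_lit 356614140338) (nat_lit 152) (nat_lit 1776185586263) (nat_lit 0) (nat_lit 356450276756) (nat_lit 1) (nat_lit 5) (nat_lit 3) (nat_lit 4) (nat_lit 1) (nat_lit 4) (nat_lit 254) (nat_lit 176) (nat_lit 170)) (XT.lf (nat_lit 0) (nat_lit 410468352125) (nat_lit 152) (nat_lit 2041819164687) (nat_lit 0) (nat_lit 410288210918) (nat_lit 1) (nat_lit 5) (nat_lit 3) (nat_lit 4) (nat_lit 1) (nat_lit 4) (nat_lit 255) (nat_lit 176) (nat_lit 169))) (XT.nd (nat_lit 78) (nat_lit 0) (nat_lit 0) (XT.lf (nat_lit 0) (nat_lit 472377060574) (nat_lit 152) (nat_lit 2347344086958) (nat_lit 0) (nat_lit 472182764911) (nat_lit 1) (nat_lit 5) (nat_lit 3) (nat_lit 4) (nat_lit 1) (nat_lit 4) (nat_lit 256) (nat_lit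 176) (nat_lit 168)) (XT.lf (nat_lit 0) (nat_lit 543551523025) (nat_lit 152) (nat_lit 2698738014600) (nat_lit 0) (nat_lit 543344919139) (nat_lit 1) (nat_lit 5) (nat_lit 3) (nat_lit 4) (nat_lit 1) (nat_lit 4) (nat_lit 257) (nat_lit 176) (nat_lit 167))))) (XT.nd (nat_lit 312) (nat_lit 0) (nat_lit 0) (XT.nd (nat_lit 156) (nat_lit 0) (nat_lit 0) (XT.nd (nat_lit 78) (nat_lit 0) (nat_lit 0) (XT.lf (nat_lit 0) (nat_lit 625384283308) (nat_lit 152) (nat_lit 3102876046196) (nat_lit 0) (nat_lit 625166976619) (nat_lit 1) (nat_lit 5) (nat_lit 3) (nat_lit 4) (nat_lit 1) (nat_lit 4) (nat_lit 258) (nat_lit 176) (nat_lit 166)) (XT.lf (nat_lit 0) (nat_lit 719476417168) (nat_lit 152) (nat_lit 3567665230190) (nat_lit 0) (nat_lit 719249803694) (nat_lit 1) (nat_lit 5) (nat_lit 3) (nat_lit 4) (nat_lit 1) (nat_lit 4) (nat_lit 259) (nat_lit 176) (nat_lit 165))) (XT.nd (nat_lit 78) (nat_lit 0) (nat_lit 0) (XT.lf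 (nat_lit 0) (nat_lit 827668857659) (nat_lit 152) (nat_lit 4102199268010) (nat_lit 0) (nat_lit 827434151329) (nat_lit 1) (nat_lit 5) (nat_lit 3) (nat_lit 4) (nat_lit 1) (nat_lit 4) (nat_lit 260) (nat_lit 176) (nat_lit 164)) (XT.lf (nat_lit 0) (nat_lit 952078413399) (nat_lit 152) (nat_lit 4716936434307) (nat_lit 0) (nat_lit 951836669802) (nat_lit 1) (nat_lit 5) (nat_lit 3) (nat_lit 4) (nat_lit 1) (nat_lit 4) (nat_lit 261) (nat_lit 176) (nat_lit 163)))) (XT.nd (nat_lit 156) (nat_lit 0) (nat_lit 0) (XT.nd (nat_lit 78) (nat_lit 0) (nat_lit 0) (XT.lf (nat_lit 0) (nat_lit 1095139184391) (nat_lit 152) (nat_lit 5423904195379) (nat_lit 0) (nat_lit 1094891321432) (nat_lit 1) (nat_lit 5) (nat_lit 3) (nat_lit 4) (nat_lit 1) (nat_lit 4) (nat_lit 262) (nat_lit 176) (nat_lit 162)) (XT.lf (nat_lit 0) (nat_lit 1259650185720) (nat_lit 152) (nat_lit 6236934529160) (nat_lit 0) (nat_lit 1259397001577) (nat_lit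 1) (nat_lit 5) (nat_lit 3) (nat_lit 4) (nat_lit 1) (nat_lit 4) (nat_lit 263) (nat_lit 176) (nat_lit 161))) (XT.nd (nat_lit 78) (nat_lit 0) (nat_lit 0) (XT.lf (nat_lit 0) (nat_lit 1448830110891) (nat_lit 152) (nat_lit 7171934550877) (nat_lit 0) (nat_lit 1448572299630) (nat_lit 1) (nat_lit 5) (nat_lit 3) (nat_lit 4) (nat_lit 1) (nat_lit 4) (nat_lit 264) (nat_lit 176) (nat_lit 160)) (XT.lf (nat_lit 0) (nat_lit 1666380306265) (nat_lit 152) (nat_lit 8247197739214) (nat_lit 0) (nat_lit 1666118471425) (nat_lit 1) (nat_lit 5) (nat_lit 3) (nat_lit 4) (nat_lit 1) (nat_lit 4) (nat_lit 265) (nat_lit 176) (nat_lit 159)))))) (XT.nd (nat_lit 1404) (nat_lit 0) (nat_lit 0) (XT.nd (nat_lit 312) (nat_lit 0) (nat_lit 0) (XT.nd (nat_lit 156) (nat_lit 0) (nat_lit 0) (XT.nd (nat_lit 78) (nat_lit 0) (nat_lit 0) (XT.lf (nat_lit 0) (nat_lit 1916557188709) (nat_lit 152) (nat_lit 9483761852204) (nat_lit 0) (nat_lit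 1916291855103) (nat_lit 1) (nat_lit 5) (nat_lit 3) (nat_lit 4) (nat_lit 1) (nat_lit 4) (nat_lit 266) (nat_lit 176) (nat_lit 158)) (XT.lf (nat_lit 0) (nat_lit 2204255523313) (nat_lit 152) (nat_lit 10905820535537) (nat_lit 0) (nat_lit 2203987147303) (nat_lit 1) (nat_lit 5) (nat_lit 3) (nat_lit 4) (nat_lit 1) (nat_lit 4) (nat_lit 267) (nat_lit 176) (nat_lit 157))) (XT.nd (nat_lit 78) (nat_lit 0) (nat_lit 0) (XT.lf (nat_lit 0) (nat_lit 2535104190538) (nat_lit 152) (nat_lit 12541196676495) (nat_lit 0) (nat_lit 2534833168959) (nat_lit 1) (nat_lit 5) (nat_lit 3) (nat_lit 4) (nat_lit 1) (nat_lit 4) (nat_lit 268) (nat_lit 176) (nat_lit 156)) (XT.lf (nat_lit 0) (nat_lit 2915576316481) (nat_lit 152) (nat_lit 14421886764793) (nat_lit 0) (nat_lit 2915302994407) (nat_lit 1) (nat_lit 5) (nat_lit 3) (nat_lit 4) (nat_lit 1) (nat_lit 4) (nat_lit 269) (nat_lit 176) (nat_lit 155)))) (XT.nd (nat_lit 156)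 (nat_lit 0) (nat_lit 0) (XT.nd (nat_lit 78) (nat_lit 0) (nat_lit 0) (XT.lf (nat_lit 0) (nat_lit 3353115920998) (nat_lit 152) (nat_lit 16584686910853) (nat_lit 0) (nat_lit 3352840598494) (nat_lit 1) (nat_lit 5) (nat_lit 3) (nat_lit 4) (nat_lit 1) (nat_lit 4) (nat_lit 270) (nat_lit 176) (nat_lit 154)) (XT.lf (nat_lit 0) (nat_lit 3856283561568) (nat_lit 152) (nat_lit 19071912769707) (nat_lit 0) (nat_lit 3856006499559) (nat_lit 1) (nat_lit 5) (nat_lit 3) (nat_lit 4) (nat_lit 1) (nat_lit 4) (nat_lit 271) (nat_lit 176) (nat_lit 153))) (XT.nd (nat_lit 78) (nat_lit 0) (nat_lit 0) (XT.lf (nat_lit 0) (nat_lit 4434923822464) (nat_lit 152) (nat_lit 21932227455985) (nat_lit 0) (nat_lit 4434645247842) (nat_lit 1) (nat_lit 5) (nat_lit 3) (nat_lit 4) (nat_lit 1) (nat_lit 4) (nat_lit 272) (nat_lit 176) (nat_lit 152)) (XT.lf (nat_lit 0) (nat_lit 5100357926181) (nat_lit 152) (nat_lit 25221593648332)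 (nat_lit 0) (nat_lit 5100078036243) (nat_lit 1) (nat_lit 5) (nat_lit 3) (nat_lit 4) (nat_lit 1) (nat_lit 4) (nat_lit 273) (nat_lit 176) (nat_lit 151))))) (XT.nd (nat_lit 312) (nat_lit 0) (nat_lit 0) (XT.nd (nat_lit 156) (nat_lit 0) (nat_lit 0) (XT.nd (nat_lit 78) (nat_lit 0) (nat_lit 0) (XT.lf (nat_lit 0) (nat_lit 23733467298996) (nat_lit 152) (nat_lit 117329635417471) (nat_lit 0) (nat_lit 23733180525077) (nat_lit 1) (nat_lit 5) (nat_lit 3) (nat_lit 4) (nat_lit 1) (nat_lit 4) (nat_lit 284) (nat_lit 176) (nat_lit 140)) (XT.lf (nat_lit 0) (nat_lit 27293671018816) (nat_lit 152) (nat_lit 134928636129652) (nat_lit 0) (nat_lit 27293383999055) (nat_lit 1) (nat_lit 5) (nat_lit 3) (nat_lit 4) (nat_lit 1) (nat_lit 4) (nat_lit 285) (nat_lit 176) (nat_lit 139))) (XT.nd (nat_lit 78) (nat_lit 0) (nat_lit 0) (XT.lf (nat_lit 0) (nat_lit 31387904939647) (nat_lit 152) (nat_lit 155167487648038) (nat_lit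 0) (nat_lit 31387617706110) (nat_lit 1) (nat_lit 5) (nat_lit 3) (nat_lit 4) (nat_lit 1) (nat_lit 4) (nat_lit 286) (nat_lit 176) (nat_lit 138)) (XT.lf (nat_lit 0) (nat_lit 36096273638200) (nat_lit 152) (nat_lit 178442167502338) (nat_lit 0) (nat_lit 36095986218771) (nat_lit 1) (nat_lit 5) (nat_lit 3) (nat_lit 4) (nat_lit 1) (nat_lit 4) (nat_lit 287) (nat_lit 176) (nat_lit 137)))) (XT.nd (nat_lit 28080) (nat_lit 0) (nat_lit 0) (XT.nd (nat_lit 28002) (nat_lit 0) (nat_lit 0) (XT.lf (nat_lit 0) (nat_lit 41510897371621) (nat_lit 152) (nat_lit 205208049863613) (nat_lit 0) (nat_lit 41510609790548) (nat_lit 1) (nat_lit 5) (nat_lit 3) (nat_lit 4) (nat_lit 1) (nat_lit 4) (nat_lit 288) (nat_lit 176) (nat_lit 136)) (XT.lf (nat_lit 0) (nat_lit 57038831281) (nat_lit 152) (nat_lit 293001055375) (nat_lit 0) (nat_lit 57038831281) (nat_lit 1) (nat_lit 5) (nat_lit 3) (nat_lit 4) (nat_lit 1) (nat_lit 4)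 (nat_lit 246) (nat_lit 177) (nat_lit 177))) (XT.nd (nat_lit 78) (nat_lit 0) (nat_lit 0) (XT.lf (nat_lit 0) (nat_lit 131879335637) (nat_lit 152) (nat_lit 672452940185) (nat_lit 0) (nat_lit 131836036831) (nat_lit 1) (nat_lit 5) (nat_lit 3) (nat_lit 4) (nat_lit 1) (nat_lit 4) (nat_lit 247) (nat_lit 177) (nat_lit 176)) (XT.lf (nat_lit 0) (nat_lit 152288389821) (nat_lit 152) (nat_lit 771994571800) (nat_lit 0) (nat_lit 152207439879) (nat_lit 1) (nat_lit 5) (nat_lit 3) (nat_lit 4) (nat_lit 1) (nat_lit 4) (nat_lit 248) (nat_lit 177) (nat_lit 175))))))) (XT.nd (nat_lit 1170) (nat_lit 0) (nat_lit 0) (XT.nd (nat_lit 546) (nat_lit 0) (nat_lit 0) (XT.nd (nat_lit 234) (nat_lit 0) (nat_lit 0) (XT.nd (nat_lit 78) (nat_lit 0) (nat_lit 0) (XT.lf (nat_lit 0) (nat_lit 175704132697) (nat_lit 152) (nat_lit 886574559256) (nat_lit 0) (nat_lit 175590442637) (nat_lit 1) (nat_lit 5) (nat_lit 3) (nat_lit 4) (nat_lit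 1) (nat_lit 4) (nat_lit 249) (nat_lit 177) (nat_lit 174)) (XT.nd (nat_lit 78) (nat_lit 0) (nat_lit 0) (XT.lf (nat_lit 0) (nat_lit 202584698364) (nat_lit 152) (nat_lit 1018434684917) (nat_lit 0) (nat_lit 202442538637) (nat_lit 1) (nat_lit 5) (nat_lit 3) (nat_lit 4) (nat_lit 1) (nat_lit 4) (nat_lit 250) (nat_lit 177) (nat_lit 173)) (XT.lf (nat_lit 0) (nat_lit 233456010934) (nat_lit 152) (nat_lit 1170154820806) (nat_lit 0) (nat_lit 233289094974) (nat_lit 1) (nat_lit 5) (nat_lit 3) (nat_lit 4) (nat_lit 1) (nat_lit 4) (nat_lit 251) (nat_lit 177) (nat_lit 172)))) (XT.nd (nat_lit 156) (nat_lit 0) (nat_lit 0) (XT.nd (nat_lit 78) (nat_lit 0) (nat_lit 0) (XT.lf (nat_lit 0) (nat_lit 268922074348) (nat_lit 152) (nat_lit 1344703404365) (nat_lit 0) (nat_lit 268733631229) (nat_lit 1) (nat_lit 5) (nat_lit 3) (nat_lit 4) (nat_lit 1) (nat_lit 4) (nat_lit 252) (nat_lit 177) (nat_lit 171)) (XT.lf (nat_lit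 0) (nat_lit 309676789848) (nat_lit 152) (nat_lit 1545495516576) (nat_lit 0) (nat_lit 309469627459) (nat_lit 1) (nat_lit 5) (nat_lit 3) (nat_lit 4) (nat_lit 1) (nat_lit 4) (nat_lit 253) (nat_lit 177) (nat_lit 170))) (XT.nd (nat_lit 78) (nat_lit 0) (nat_lit 0) (XT.lf (nat_lit 0) (nat_lit 356517532300) (nat_lit 152) (nat_lit 1776459698766) (nat_lit 0) (nat_lit 356294092287) (nat_lit 1) (nat_lit 5) (nat_lit 3) (nat_lit 4) (nat_lit 1) (nat_lit 4) (nat_lit 254) (nat_lit 177) (nat_lit 169)) (XT.lf (nat_lit 0) (nat_lit 410360751015) (nat_lit 152) (nat_lit 2042114815368) (nat_lit 0) (nat_lit 410123156545) (nat_lit 1) (nat_lit 5) (nat_lit 3) (nat_lit 4) (nat_lit 1) (nat_lit 4) (nat_lit 255) (nat_lit 177) (nat_lit 168))))) (XT.nd (nat_lit 312) (nat_lit 0) (nat_lit 0) (XT.nd (nat_lit 156) (nat_lit 0) (nat_lit 0) (XT.nd (nat_lit 78) (nat_lit 0) (nat_lit 0) (XT.lf (nat_lit 0) (nat_lit 472259900271)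 (nat_lit 152) (nat_lit 2347658466490) (nat_lit 0) (nat_lit 472009997578) (nat_lit 1) (nat_lit 5) (nat_lit 3) (nat_lit 4) (nat_lit 1) (nat_lit 4) (nat_lit 256) (nat_lit 177) (nat_lit 167)) (XT.lf (nat_lit 0) (nat_lit 543426050380) (nat_lit 152) (nat_lit 2699068680089) (nat_lit 0) (nat_lit 543165444884) (nat_lit 1) (nat_lit 5) (nat_lit 3) (nat_lit 4) (nat_lit 1) (nat_lit 4) (nat_lit 257) (nat_lit 177) (nat_lit 166))) (XT.nd (nat_lit 78) (nat_lit 0) (nat_lit 0) (XT.lf (nat_lit 0) (nat_lit 625251582539) (nat_lit 152) (nat_lit 3103220873387) (nat_lit 0) (nat_lit 624981670259) (nat_lit 1) (nat_lit 5) (nat_lit 3) (nat_lit 4) (nat_lit 1) (nat_lit 4) (nat_lit 258) (nat_lit 177) (nat_lit 165)) (XT.lf (nat_lit 0) (nat_lit 719337431075) (nat_lit 152) (nat_lit 3568022371905) (nat_lit 0) (nat_lit 719059425938) (nat_lit 1) (nat_lit 5) (nat_lit 3) (nat_lit 4) (nat_lit 1) (nat_lit 4) (nat_lit 259)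 (nat_lit 177) (nat_lit 164)))) (XT.nd (nat_lit 156) (nat_lit 0) (nat_lit 0) (XT.nd (nat_lit 78) (nat_lit 0) (nat_lit 0) (XT.lf (nat_lit 0) (nat_lit 827524406065) (nat_lit 152) (nat_lit 4102567118006) (nat_lit 0) (nat_lit 827239363662) (nat_lit 1) (nat_lit 5) (nat_lit 3) (nat_lit 4) (nat_lit 1) (nat_lit 4) (nat_lit 260) (nat_lit 177) (nat_lit 163)) (XT.lf (nat_lit 0) (nat_lit 951929209196) (nat_lit 152) (nat_lit 4717313595852) (nat_lit 0) (nat_lit 951638047431) (nat_lit 1) (nat_lit 5) (nat_lit 3) (nat_lit 4) (nat_lit 1) (nat_lit 4) (nat_lit 261) (nat_lit 177) (nat_lit 162))) (XT.nd (nat_lit 78) (nat_lit 0) (nat_lit 0) (XT.lf (nat_lit 0) (nat_lit 1094985847485) (nat_lit 152) (nat_lit 5424289453924) (nat_lit 0) (nat_lit 1094689364536) (nat_lit 1) (nat_lit 5) (nat_lit 3) (nat_lit 4) (nat_lit 1) (nat_lit 4) (nat_lit 262) (nat_lit 177) (nat_lit 161)) (XT.lf (nat_lit 0) (nat_lit 1259493255160)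 (nat_lit 152) (nat_lit 6237326828574) (nat_lit 0) (nat_lit 1259192145093) (nat_lit 1) (nat_lit 5) (nat_lit 3) (nat_lit 4) (nat_lit 1) (nat_lit 4) (nat_lit 263) (nat_lit 177) (nat_lit 160)))))) (XT.nd (nat_lit 624) (nat_lit 0) (nat_lit 0) (XT.nd (nat_lit 312) (nat_lit 0) (nat_lit 0) (XT.nd (nat_lit 156) (nat_lit 0) (nat_lit 0) (XT.nd (nat_lit 78) (nat_lit 0) (nat_lit 0) (XT.lf (nat_lit 0) (nat_lit 1448670055413) (nat_lit 152) (nat_lit 7172332972784) (nat_lit 0) (nat_lit 1448364921767) (nat_lit 1) (nat_lit 5) (nat_lit 3) (nat_lit 4) (nat_lit 1) (nat_lit 4) (nat_lit 264) (nat_lit 177) (nat_lit 159)) (XT.lf (nat_lit 0) (nat_lit 1666217533468) (nat_lit 152) (nat_lit 8247601485030) (nat_lit 0) (nat_lit 1665908901056) (nat_lit 1) (nat_lit 5) (nat_lit 3) (nat_lit 4) (nat_lit 1) (nat_lit 4) (nat_lit 265) (nat_lit 177) (nat_lit 158))) (XT.nd (nat_lit 78) (nat_lit 0) (nat_lit 0) (XT.lf (nat_lit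 0) (nat_lit 1916392053025) (nat_lit 152) (nat_lit 9484170227506) (nat_lit 0) (nat_lit 1916080378209) (nat_lit 1) (nat_lit 5) (nat_lit 3) (nat_lit 4) (nat_lit 1) (nat_lit 4) (nat_lit 266) (nat_lit 177) (nat_lit 157)) (XT.lf (nat_lit 0) (nat_lit 2204088332946) (nat_lit 152) (nat_lit 10906232936478) (nat_lit 0) (nat_lit 2203774012561) (nat_lit 1) (nat_lit 5) (nat_lit 3) (nat_lit 4) (nat_lit 1) (nat_lit 4) (nat_lit 267) (nat_lit 177) (nat_lit 156)))) (XT.nd (nat_lit 156) (nat_lit 0) (nat_lit 0) (XT.nd (nat_lit 78) (nat_lit 0) (nat_lit 0) (XT.lf (nat_lit 0) (nat_lit 2534935213489) (nat_lit 152) (nat_lit 12541612577993) (nat_lit 0) (nat_lit 2534618592609) (nat_lit 1) (nat_lit 5) (nat_lit 3) (nat_lit 4) (nat_lit 1) (nat_lit 4) (nat_lit 268) (nat_lit 177) (nat_lit 155)) (XT.lf (nat_lit 0) (nat_lit 2915405785796) (nat_lit 152) (nat_lit 14422305710252) (nat_lit 0) (nat_lit 2915087164486) (nat_lit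 1) (nat_lit 5) (nat_lit 3) (nat_lit 4) (nat_lit 1) (nat_lit 4) (nat_lit 269) (nat_lit 177) (nat_lit 154))) (XT.nd (nat_lit 78) (nat_lit 0) (nat_lit 0) (XT.lf (nat_lit 0) (nat_lit 3352944039325) (nat_lit 152) (nat_lit 16585108503235) (nat_lit 0) (nat_lit 3352623678510) (nat_lit 1) (nat_lit 5) (nat_lit 3) (nat_lit 4) (nat_lit 1) (nat_lit 4) (nat_lit 270) (nat_lit 177) (nat_lit 153)) (XT.lf (nat_lit 0) (nat_lit 3856110505123) (nat_lit 152) (nat_lit 19072336663762) (nat_lit 0) (nat_lit 3855788631695) (nat_lit 1) (nat_lit 5) (nat_lit 3) (nat_lit 4) (nat_lit 1) (nat_lit 4) (nat_lit 271) (nat_lit 177) (nat_lit 152))))) (XT.nd (nat_lit 1092) (nat_lit 0) (nat_lit 0) (XT.nd (nat_lit 936) (nat_lit 0) (nat_lit 0) (XT.nd (nat_lit 78) (nat_lit 0) (nat_lit 0) (XT.lf (nat_lit 0) (nat_lit 4434749744478) (nat_lit 152) (nat_lit 21932653351495) (nat_lit 0) (nat_lit 4434426555734) (nat_lit 1) (nat_lit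 5) (nat_lit 3) (nat_lit 4) (nat_lit 1) (nat_lit 4) (nat_lit 272) (nat_lit 177) (nat_lit 151)) (XT.lf (nat_lit 0) (nat_lit 5100182959898) (nat_lit 152) (nat_lit 25222021284237) (nat_lit 0) (nat_lit 5099858627402) (nat_lit 1) (nat_lit 5) (nat_lit 3) (nat_lit 4) (nat_lit 1) (nat_lit 4) (nat_lit 273) (nat_lit 177) (nat_lit 150))) (XT.nd (nat_lit 78) (nat_lit 0) (nat_lit 0) (XT.lf (nat_lit 0) (nat_lit 23733287683626) (nat_lit 152) (nat_lit 117330072162102) (nat_lit 0) (nat_lit 23732957365059) (nat_lit 1) (nat_lit 5) (nat_lit 3) (nat_lit 4) (nat_lit 1) (nat_lit 4) (nat_lit 284) (nat_lit 177) (nat_lit 139)) (XT.lf (nat_lit 0) (nat_lit 27293491237416) (nat_lit 152) (nat_lit 134929073199575) (nat_lit 0) (nat_lit 27293160705074) (nat_lit 1) (nat_lit 5) (nat_lit 3) (nat_lit 4) (nat_lit 1) (nat_lit 4) (nat_lit 285) (nat_lit 177) (nat_lit 138)))) (XT.nd (nat_lit 28002) (nat_lit 0) (nat_lit 0) (XT.nd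 (nat_lit 78) (nat_lit 0) (nat_lit 0) (XT.lf (nat_lit 0) (nat_lit 31387725013874) (nat_lit 152) (nat_lit 155167925000824) (nat_lit 0) (nat_lit 31387394295640) (nat_lit 1) (nat_lit 5) (nat_lit 3) (nat_lit 4) (nat_lit 1) (nat_lit 4) (nat_lit 286) (nat_lit 177) (nat_lit 137)) (XT.lf (nat_lit 0) (nat_lit 36096093586886) (nat_lit 152) (nat_lit 178442605101092) (nat_lit 0) (nat_lit 36095762707006) (nat_lit 1) (nat_lit 5) (nat_lit 3) (nat_lit 4) (nat_lit 1) (nat_lit 4) (nat_lit 287) (nat_lit 177) (nat_lit 136))) (XT.nd (nat_lit 78) (nat_lit 0) (nat_lit 0) (XT.lf (nat_lit 0) (nat_lit 42517975382) (nat_lit 152) (nat_lit 222877201946) (nat_lit 0) (nat_lit 42517975382) (nat_lit 1) (nat_lit 5) (nat_lit 3) (nat_lit 4) (nat_lit 1) (nat_lit 4) (nat_lit 244) (nat_lit 178) (nat_lit 178)) (XT.lf (nat_lit 0) (nat_lit 98584870623) (nat_lit 152) (nat_lit 510950654223) (nat_lit 0) (nat_lit 98535076996) (nat_lit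 1) (nat_lit 5) (nat_lit 3) (nat_lit 4) (nat_lit 1) (nat_lit 4) (nat_lit 245) (nat_lit 178) (nat_lit 177))))))))
noncomputable def xc5 : XT := (XT.nd (nat_lit 2418) (nat_lit 0) (nat_lit 0) (XT.nd (nat_lit 1170) (nat_lit 0) (nat_lit 0) (XT.nd (nat_lit 546) (nat_lit 0) (nat_lit 0) (XT.nd (nat_lit 234) (nat_lit 0) (nat_lit 0) (XT.nd (nat_lit 78) (nat_lit 0) (nat_lit 0) (XT.lf (nat_lit 0) (nat_lit 114093828130) (nat_lit 152) (nat_lit 586067996531) (nat_lit 0) (nat_lit 114000735697) (nat_lit 1) (nat_lit 5) (nat_lit 3) (nat_lit 4) (nat_lit 1) (nat_lit 4) (nat_lit 246) (nat_lit 178) (nat_lit 176)) (XT.nd (nat_lit 78) (nat_lit 0) (nat_lit 0) (XT.lf (nat_lit 0) (nat_lit 131866259413) (nat_lit 152) (nat_lit 672576117949) (nat_lit 0) (nat_lit 131735515844) (nat_lit 1) (nat_lit 5) (nat_lit 3) (nat_lit 4) (nat_lit 1) (nat_lit 4) (nat_lit 247) (nat_lit 178) (nat_lit 175)) (XT.lf (nat_lit 0) (nat_lit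 152249885952) (nat_lit 152) (nat_lit 772167568680) (nat_lit 0) (nat_lit 152086402266) (nat_lit 1) (nat_lit 5) (nat_lit 3) (nat_lit 4) (nat_lit 1) (nat_lit 4) (nat_lit 248) (nat_lit 178) (nat_lit 174)))) (XT.nd (nat_lit 156) (nat_lit 0) (nat_lit 0) (XT.nd (nat_lit 78) (nat_lit 0) (nat_lit 0) (XT.lf (nat_lit 0) (nat_lit 175643517833) (nat_lit 152) (nat_lit 886790877106) (nat_lit 0) (nat_lit 175451564479) (nat_lit 1) (nat_lit 5) (nat_lit 3) (nat_lit 4) (nat_lit 1) (nat_lit 4) (nat_lit 249) (nat_lit 178) (nat_lit 173)) (XT.lf (nat_lit 0) (nat_lit 202504856548) (nat_lit 152) (nat_lit 1018688673176) (nat_lit 0) (nat_lit 202288146961) (nat_lit 1) (nat_lit 5) (nat_lit 3) (nat_lit 4) (nat_lit 1) (nat_lit 4) (nat_lit 250) (nat_lit 178) (nat_lit 172))) (XT.nd (nat_lit 78) (nat_lit 0) (nat_lit 0) (XT.lf (nat_lit 0) (nat_lit 233359450029) (nat_lit 152) (nat_lit 1170441565943) (nat_lit 0) (nat_lit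 233121213283) (nat_lit 1) (nat_lit 5) (nat_lit 3) (nat_lit 4) (nat_lit 1) (nat_lit 4) (nat_lit 251) (nat_lit 178) (nat_lit 171)) (XT.lf (nat_lit 0) (nat_lit 268810975105) (nat_lit 152) (nat_lit 1345018633743) (nat_lit 0) (nat_lit 268554019090) (nat_lit 1) (nat_lit 5) (nat_lit 3) (nat_lit 4) (nat_lit 1) (nat_lit 4) (nat_lit 252) (nat_lit 178) (nat_lit 170))))) (XT.nd (nat_lit 312) (nat_lit 0) (nat_lit 0) (XT.nd (nat_lit 156) (nat_lit 0) (nat_lit 0) (XT.nd (nat_lit 78) (nat_lit 0) (nat_lit 0) (XT.lf (nat_lit 0) (nat_lit 309553048571) (nat_lit 152) (nat_lit 1545835514860) (nat_lit 0) (nat_lit 309279814931) (nat_lit 1) (nat_lit 5) (nat_lit 3) (nat_lit 4) (nat_lit 1) (nat_lit 4) (nat_lit 253) (nat_lit 178) (nat_lit 169)) (XT.lf (nat_lit 0) (nat_lit 356382797951) (nat_lit 152) (nat_lit 1776821235228) (nat_lit 0) (nat_lit 356095409855) (nat_lit 1) (nat_lit 5) (nat_lit 3) (nat_lit 4) (nat_lit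 1) (nat_lit 4) (nat_lit 254) (nat_lit 178) (nat_lit 168))) (XT.nd (nat_lit 78) (nat_lit 0) (nat_lit 0) (XT.lf (nat_lit 0) (nat_lit 410216457472) (nat_lit 152) (nat_lit 2042495080681) (nat_lit 0) (nat_lit 409916761153) (nat_lit 1) (nat_lit 5) (nat_lit 3) (nat_lit 4) (nat_lit 1) (nat_lit 4) (nat_lit 255) (nat_lit 178) (nat_lit 167)) (XT.lf (nat_lit 0) (nat_lit 472107294386) (nat_lit 152) (nat_lit 2348055017761) (nat_lit 0) (nat_lit 471796895264) (nat_lit 1) (nat_lit 5) (nat_lit 3) (nat_lit 4) (nat_lit 1) (nat_lit 4) (nat_lit 256) (nat_lit 178) (nat_lit 166)))) (XT.nd (nat_lit 156) (nat_lit 0) (nat_lit 0) (XT.nd (nat_lit 78) (nat_lit 0) (nat_lit 0) (XT.lf (nat_lit 0) (nat_lit 543266216372) (nat_lit 152) (nat_lit 2699479393061) (nat_lit 0) (nat_lit 542946510465) (nat_lit 1) (nat_lit 5) (nat_lit 3) (nat_lit 4) (nat_lit 1) (nat_lit 4) (nat_lit 257) (nat_lit 178) (nat_lit 165)) (XT.lf (nat_lit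 0) (nat_lit 625085463206) (nat_lit 152) (nat_lit 3103643900883) (nat_lit 0) (nat_lit 624757664443) (nat_lit 1) (nat_lit 5) (nat_lit 3) (nat_lit 4) (nat_lit 1) (nat_lit 4) (nat_lit 258) (nat_lit 178) (nat_lit 164))) (XT.nd (nat_lit 78) (nat_lit 0) (nat_lit 0) (XT.lf (nat_lit 0) (nat_lit 719165846242) (nat_lit 152) (nat_lit 3568456107683) (nat_lit 0) (nat_lit 718831010212) (nat_lit 1) (nat_lit 5) (nat_lit 3) (nat_lit 4) (nat_lit 1) (nat_lit 4) (nat_lit 259) (nat_lit 178) (nat_lit 163)) (XT.lf (nat_lit 0) (nat_lit 827348068624) (nat_lit 152) (nat_lit 4103010165332) (nat_lit 0) (nat_lit 827007113232) (nat_lit 1) (nat_lit 5) (nat_lit 3) (nat_lit 4) (nat_lit 1) (nat_lit 4) (nat_lit 260) (nat_lit 178) (nat_lit 162)))))) (XT.nd (nat_lit 624) (nat_lit 0) (nat_lit 0) (XT.nd (nat_lit 312) (nat_lit 0) (nat_lit 0) (XT.nd (nat_lit 156) (nat_lit 0) (nat_lit 0) (XT.nd (nat_lit 78) (nat_lit 0) (nat_lit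 0) (XT.lf (nat_lit 0) (nat_lit 951748739052) (nat_lit 152) (nat_lit 4717764740178) (nat_lit 0) (nat_lit 951402462475) (nat_lit 1) (nat_lit 5) (nat_lit 3) (nat_lit 4) (nat_lit 1) (nat_lit 4) (nat_lit 261) (nat_lit 178) (nat_lit 161)) (XT.lf (nat_lit 0) (nat_lit 1094801783686) (nat_lit 152) (nat_lit 5424747639118) (nat_lit 0) (nat_lit 1094450879993) (nat_lit 1) (nat_lit 5) (nat_lit 3) (nat_lit 4) (nat_lit 1) (nat_lit 4) (nat_lit 262) (nat_lit 178) (nat_lit 160))) (XT.nd (nat_lit 78) (nat_lit 0) (nat_lit 0) (XT.lf (nat_lit 0) (nat_lit 1259306066443) (nat_lit 152) (nat_lit 6237791136262) (nat_lit 0) (nat_lit 1258951139170) (nat_lit 1) (nat_lit 5) (nat_lit 3) (nat_lit 4) (nat_lit 1) (nat_lit 4) (nat_lit 263) (nat_lit 178) (nat_lit 159)) (XT.lf (nat_lit 0) (nat_lit 1448480149377) (nat_lit 152) (nat_lit 7172802604381) (nat_lit 0) (nat_lit 1448121723339) (nat_lit 1) (nat_lit 5) (nat_lit 3)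 (nat_lit 4) (nat_lit 1) (nat_lit 4) (nat_lit 264) (nat_lit 178) (nat_lit 158)))) (XT.nd (nat_lit 156) (nat_lit 0) (nat_lit 0) (XT.nd (nat_lit 78) (nat_lit 0) (nat_lit 0) (XT.lf (nat_lit 0) (nat_lit 1666025264546) (nat_lit 152) (nat_lit 8248075746112) (nat_lit 0) (nat_lit 1665663796103) (nat_lit 1) (nat_lit 5) (nat_lit 3) (nat_lit 4) (nat_lit 1) (nat_lit 4) (nat_lit 265) (nat_lit 178) (nat_lit 157)) (XT.lf (nat_lit 0) (nat_lit 1916197729419) (nat_lit 152) (nat_lit 9484648514228) (nat_lit 0) (nat_lit 1915833615407) (nat_lit 1) (nat_lit 5) (nat_lit 3) (nat_lit 4) (nat_lit 1) (nat_lit 4) (nat_lit 266) (nat_lit 178) (nat_lit 156))) (XT.nd (nat_lit 78) (nat_lit 0) (nat_lit 0) (XT.lf (nat_lit 0) (nat_lit 2203892222658) (nat_lit 152) (nat_lit 10906714723757) (nat_lit 0) (nat_lit 2203525808151) (nat_lit 1) (nat_lit 5) (nat_lit 3) (nat_lit 4) (nat_lit 1) (nat_lit 4) (nat_lit 267) (nat_lit 178)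 (nat_lit 155)) (XT.lf (nat_lit 0) (nat_lit 2534737549565) (nat_lit 152) (nat_lit 12542097409233) (nat_lit 0) (nat_lit 2534369134628) (nat_lit 1) (nat_lit 5) (nat_lit 3) (nat_lit 4) (nat_lit 1) (nat_lit 4) (nat_lit 268) (nat_lit 178) (nat_lit 154))))) (XT.nd (nat_lit 312) (nat_lit 0) (nat_lit 0) (XT.nd (nat_lit 156) (nat_lit 0) (nat_lit 0) (XT.nd (nat_lit 78) (nat_lit 0) (nat_lit 0) (XT.lf (nat_lit 0) (nat_lit 2915206770884) (nat_lit 152) (nat_lit 14422793188415) (nat_lit 0) (nat_lit 2914836616442) (nat_lit 1) (nat_lit 5) (nat_lit 3) (nat_lit 4) (nat_lit 1) (nat_lit 4) (nat_lit 269) (nat_lit 178) (nat_lit 153)) (XT.lf (nat_lit 0) (nat_lit 3352743849641) (nat_lit 152) (nat_lit 16585598283071) (nat_lit 0) (nat_lit 3352372182586) (nat_lit 1) (nat_lit 5) (nat_lit 3) (nat_lit 4) (nat_lit 1) (nat_lit 4) (nat_lit 270) (nat_lit 178) (nat_lit 152))) (XT.nd (nat_lit 78) (nat_lit 0) (nat_lit 0)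 (XT.lf (nat_lit 0) (nat_lit 3855909293898) (nat_lit 152) (nat_lit 19072828445053) (nat_lit 0) (nat_lit 3855536311528) (nat_lit 1) (nat_lit 5) (nat_lit 3) (nat_lit 4) (nat_lit 1) (nat_lit 4) (nat_lit 271) (nat_lit 178) (nat_lit 151)) (XT.lf (nat_lit 0) (nat_lit 4434547644956) (nat_lit 152) (nat_lit 21933146873181) (nat_lit 0) (nat_lit 4434173518833) (nat_lit 1) (nat_lit 5) (nat_lit 3) (nat_lit 4) (nat_lit 1) (nat_lit 4) (nat_lit 272) (nat_lit 178) (nat_lit 150)))) (XT.nd (nat_lit 156) (nat_lit 0) (nat_lit 0) (XT.nd (nat_lit 78) (nat_lit 0) (nat_lit 0) (XT.lf (nat_lit 0) (nat_lit 5099980087945) (nat_lit 152) (nat_lit 25222516319310) (nat_lit 0) (nat_lit 5099604967255) (nat_lit 1) (nat_lit 5) (nat_lit 3) (nat_lit 4) (nat_lit 1) (nat_lit 4) (nat_lit 273) (nat_lit 178) (nat_lit 149)) (XT.lf (nat_lit 0) (nat_lit 5865225953270) (nat_lit 152) (nat_lit 29005294011734) (nat_lit 0) (nat_lit 5864849967739)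 (nat_lit 1) (nat_lit 5) (nat_lit 3) (nat_lit 4) (nat_lit 1) (nat_lit 4) (nat_lit 274) (nat_lit 178) (nat_lit 148))) (XT.nd (nat_lit 78) (nat_lit 0) (nat_lit 0) (XT.lf (nat_lit 0) (nat_lit 6745257442645) (nat_lit 152) (nat_lit 33355490818349) (nat_lit 0) (nat_lit 6744880705078) (nat_lit 1) (nat_lit 5) (nat_lit 3) (nat_lit 4) (nat_lit 1) (nat_lit 4) (nat_lit 275) (nat_lit 178) (nat_lit 147)) (XT.lf (nat_lit 0) (nat_lit 7757292563470) (nat_lit 152) (nat_lit 38358219285370) (nat_lit 0) (nat_lit 7756915171959) (nat_lit 1) (nat_lit 5) (nat_lit 3) (nat_lit 4) (nat_lit 1) (nat_lit 4) (nat_lit 276) (nat_lit 178) (nat_lit 146))))))) (XT.nd (nat_lit 29328) (nat_lit 0) (nat_lit 0) (XT.nd (nat_lit 28704) (nat_lit 0) (nat_lit 0) (XT.nd (nat_lit 624) (nat_lit 0) (nat_lit 0) (XT.nd (nat_lit 78) (nat_lit 0) (nat_lit 0) (XT.lf (nat_lit 0) (nat_lit 8921132002893) (nat_lit 152) (nat_lit 44111358882805)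 (nat_lit 0) (nat_lit 8920754042734) (nat_lit 1) (nat_lit 5) (nat_lit 3) (nat_lit 4) (nat_lit 1) (nat_lit 4) (nat_lit 277) (nat_lit 178) (nat_lit 145)) (XT.nd (nat_lit 468) (nat_lit 0) (nat_lit 0) (XT.lf (nat_lit 0) (nat_lit 10259546532553) (nat_lit 152) (nat_lit 50727471037560) (nat_lit 0) (nat_lit 10259168077918) (nat_lit 1) (nat_lit 5) (nat_lit 3) (nat_lit 4) (nat_lit 1) (nat_lit 4) (nat_lit 278) (nat_lit 178) (nat_lit 144)) (XT.lf (nat_lit 0) (nat_lit 23733080768987) (nat_lit 152) (nat_lit 117330575117806) (nat_lit 0) (nat_lit 23732700443018) (nat_lit 1) (nat_lit 5) (nat_lit 3) (nat_lit 4) (nat_lit 1) (nat_lit 4) (nat_lit 284) (nat_lit 178) (nat_lit 138)))) (XT.nd (nat_lit 27924) (nat_lit 0) (nat_lit 0) (XT.nd (nat_lit 78) (nat_lit 0) (nat_lit 0) (XT.lf (nat_lit 0) (nat_lit 27293284178405) (nat_lit 152) (nat_lit 134929576438142) (nat_lit 0) (nat_lit 27292903666543) (nat_lit 1) (nat_lit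 5) (nat_lit 3) (nat_lit 4) (nat_lit 1) (nat_lit 4) (nat_lit 285) (nat_lit 178) (nat_lit 137)) (XT.lf (nat_lit 0) (nat_lit 31387517829321) (nat_lit 152) (nat_lit 155168428485359) (nat_lit 0) (nat_lit 31387137155814) (nat_lit 1) (nat_lit 5) (nat_lit 3) (nat_lit 4) (nat_lit 1) (nat_lit 4) (nat_lit 286) (nat_lit 178) (nat_lit 136))) (XT.nd (nat_lit 78) (nat_lit 0) (nat_lit 0) (XT.lf (nat_lit 0) (nat_lit 31446385799) (nat_lit 152) (nat_lit 170052440661) (nat_lit 0) (nat_lit 31446385799) (nat_lit 1) (nat_lit 5) (nat_lit 3) (nat_lit 4) (nat_lit 1) (nat_lit 4) (nat_lit 242) (nat_lit 179) (nat_lit 179)) (XT.lf (nat_lit 0) (nat_lit 73239243666) (nat_lit 152) (nat_lit 389203666730) (nat_lit 0) (nat_lit 73181980995) (nat_lit 1) (nat_lit 5) (nat_lit 3) (nat_lit 4) (nat_lit 1) (nat_lit 4) (nat_lit 243) (nat_lit 179) (nat_lit 178))))) (XT.nd (nat_lit 312) (nat_lit 0) (nat_lit 0) (XT.nd (nat_lit 156)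 (nat_lit 0) (nat_lit 0) (XT.nd (nat_lit 78) (nat_lit 0) (nat_lit 0) (XT.lf (nat_lit 0) (nat_lit 85054541168) (nat_lit 152) (nat_lit 445830172540) (nat_lit 0) (nat_lit 84947484870) (nat_lit 1) (nat_lit 5) (nat_lit 3) (nat_lit 4) (nat_lit 1) (nat_lit 4) (nat_lit 244) (nat_lit 179) (nat_lit 177)) (XT.lf (nat_lit 0) (nat_lit 98569832965) (nat_lit 152) (nat_lit 511092308651) (nat_lit 0) (nat_lit 98419477861) (nat_lit 1) (nat_lit 5) (nat_lit 3) (nat_lit 4) (nat_lit 1) (nat_lit 4) (nat_lit 245) (nat_lit 179) (nat_lit 176))) (XT.nd (nat_lit 78) (nat_lit 0) (nat_lit 0) (XT.lf (nat_lit 0) (nat_lit 114049548681) (nat_lit 152) (nat_lit 586266942943) (nat_lit 0) (nat_lit 113861542442) (nat_lit 1) (nat_lit 5) (nat_lit 3) (nat_lit 4) (nat_lit 1) (nat_lit 4) (nat_lit 246) (nat_lit 179) (nat_lit 175)) (XT.lf (nat_lit 0) (nat_lit 131796552320) (nat_lit 152) (nat_lit 672824883477) (nat_lit 0) (nat_lit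 131575805962) (nat_lit 1) (nat_lit 5) (nat_lit 3) (nat_lit 4) (nat_lit 1) (nat_lit 4) (nat_lit 247) (nat_lit 179) (nat_lit 174)))) (XT.nd (nat_lit 156) (nat_lit 0) (nat_lit 0) (XT.nd (nat_lit 78) (nat_lit 0) (nat_lit 0) (XT.lf (nat_lit 0) (nat_lit 152158067864) (nat_lit 152) (nat_lit 772459655178) (nat_lit 0) (nat_lit 151908851838) (nat_lit 1) (nat_lit 5) (nat_lit 3) (nat_lit 4) (nat_lit 1) (nat_lit 4) (nat_lit 248) (nat_lit 179) (nat_lit 173)) (XT.lf (nat_lit 0) (nat_lit 175532472792) (nat_lit 152) (nat_lit 887120634014) (nat_lit 0) (nat_lit 175258500534) (nat_lit 1) (nat_lit 5) (nat_lit 3) (nat_lit 4) (nat_lit 1) (nat_lit 4) (nat_lit 249) (nat_lit 179) (nat_lit 172))) (XT.nd (nat_lit 78) (nat_lit 0) (nat_lit 0) (XT.lf (nat_lit 0) (nat_lit 202377092418) (nat_lit 152) (nat_lit 1019051186961) (nat_lit 0) (nat_lit 202081593001) (nat_lit 1) (nat_lit 5) (nat_lit 3) (nat_lit 4) (nat_lit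 1) (nat_lit 4) (nat_lit 250) (nat_lit 179) (nat_lit 171)) (XT.lf (nat_lit 0) (nat_lit 233217147561) (nat_lit 152) (nat_lit 1170832563969) (nat_lit 0) (nat_lit 232902928875) (nat_lit 1) (nat_lit 5) (nat_lit 3) (nat_lit 4) (nat_lit 1) (nat_lit 4) (nat_lit 251) (nat_lit 179) (nat_lit 170)))))) (XT.nd (nat_lit 624) (nat_lit 0) (nat_lit 0) (XT.nd (nat_lit 312) (nat_lit 0) (nat_lit 0) (XT.nd (nat_lit 156) (nat_lit 0) (nat_lit 0) (XT.nd (nat_lit 78) (nat_lit 0) (nat_lit 0) (XT.lf (nat_lit 0) (nat_lit 268656030604) (nat_lit 152) (nat_lit 1345434400674) (nat_lit 0) (nat_lit 268325534293) (nat_lit 1) (nat_lit 5) (nat_lit 3) (nat_lit 4) (nat_lit 1) (nat_lit 4) (nat_lit 252) (nat_lit 179) (nat_lit 169)) (XT.lf (nat_lit 0) (nat_lit 309387110997) (nat_lit 152) (nat_lit 1546272819970) (nat_lit 0) (nat_lit 309042460230) (nat_lit 1) (nat_lit 5) (nat_lit 3) (nat_lit 4) (nat_lit 1) (nat_lit 4) (nat_lit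 253) (nat_lit 179) (nat_lit 168))) (XT.nd (nat_lit 78) (nat_lit 0) (nat_lit 0) (XT.lf (nat_lit 0) (nat_lit 356207301184) (nat_lit 152) (nat_lit 1777277269189) (nat_lit 0) (nat_lit 355850342193) (nat_lit 1) (nat_lit 5) (nat_lit 3) (nat_lit 4) (nat_lit 1) (nat_lit 4) (nat_lit 254) (nat_lit 179) (nat_lit 167)) (XT.lf (nat_lit 0) (nat_lit 410032648363) (nat_lit 152) (nat_lit 2042967400599) (nat_lit 0) (nat_lit 409664986570) (nat_lit 1) (nat_lit 5) (nat_lit 3) (nat_lit 4) (nat_lit 1) (nat_lit 4) (nat_lit 255) (nat_lit 179) (nat_lit 166)))) (XT.nd (nat_lit 156) (nat_lit 0) (nat_lit 0) (XT.nd (nat_lit 78) (nat_lit 0) (nat_lit 0) (XT.lf (nat_lit 0) (nat_lit 471916257153) (nat_lit 152) (nat_lit 2348541499381) (nat_lit 0) (nat_lit 471539288575) (nat_lit 1) (nat_lit 5) (nat_lit 3) (nat_lit 4) (nat_lit 1) (nat_lit 4) (nat_lit 256) (nat_lit 179) (nat_lit 165)) (XT.lf (nat_lit 0) (nat_lit 543068893814)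 (nat_lit 152) (nat_lit 2699978189205) (nat_lit 0) (nat_lit 542683832380) (nat_lit 1) (nat_lit 5) (nat_lit 3) (nat_lit 4) (nat_lit 1) (nat_lit 4) (nat_lit 257) (nat_lit 179) (nat_lit 164))) (XT.nd (nat_lit 78) (nat_lit 0) (nat_lit 0) (XT.lf (nat_lit 0) (nat_lit 624882675149) (nat_lit 152) (nat_lit 3104153405308) (nat_lit 0) (nat_lit 624490576448) (nat_lit 1) (nat_lit 5) (nat_lit 3) (nat_lit 4) (nat_lit 1) (nat_lit 4) (nat_lit 258) (nat_lit 179) (nat_lit 163)) (XT.lf (nat_lit 0) (nat_lit 718958305576) (nat_lit 152) (nat_lit 3568974923657) (nat_lit 0) (nat_lit 718560087513) (nat_lit 1) (nat_lit 5) (nat_lit 3) (nat_lit 4) (nat_lit 1) (nat_lit 4) (nat_lit 259) (nat_lit 179) (nat_lit 162))))) (XT.nd (nat_lit 312) (nat_lit 0) (nat_lit 0) (XT.nd (nat_lit 156) (nat_lit 0) (nat_lit 0) (XT.nd (nat_lit 78) (nat_lit 0) (nat_lit 0) (XT.lf (nat_lit 0) (nat_lit 827136395255) (nat_lit 152) (nat_lit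 4103537078306) (nat_lit 0) (nat_lit 826732856007) (nat_lit 1) (nat_lit 5) (nat_lit 3) (nat_lit 4) (nat_lit 1) (nat_lit 4) (nat_lit 260) (nat_lit 179) (nat_lit 161)) (XT.lf (nat_lit 0) (nat_lit 951533472028) (nat_lit 152) (nat_lit 4718298694020) (nat_lit 0) (nat_lit 951125305664) (nat_lit 1) (nat_lit 5) (nat_lit 3) (nat_lit 4) (nat_lit 1) (nat_lit 4) (nat_lit 261) (nat_lit 179) (nat_lit 160))) (XT.nd (nat_lit 78) (nat_lit 0) (nat_lit 0) (XT.lf (nat_lit 0) (nat_lit 1094583391745) (nat_lit 152) (nat_lit 5425287715454) (nat_lit 0) (nat_lit 1094171201801) (nat_lit 1) (nat_lit 5) (nat_lit 3) (nat_lit 4) (nat_lit 1) (nat_lit 4) (nat_lit 262) (nat_lit 179) (nat_lit 159)) (XT.lf (nat_lit 0) (nat_lit 1259084957183) (nat_lit 152) (nat_lit 6238336536507) (nat_lit 0) (nat_lit 1258669268473) (nat_lit 1) (nat_lit 5) (nat_lit 3) (nat_lit 4) (nat_lit 1) (nat_lit 4) (nat_lit 263) (nat_lit 179) (nat_lit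 158)))) (XT.nd (nat_lit 156) (nat_lit 0) (nat_lit 0) (XT.nd (nat_lit 78) (nat_lit 0) (nat_lit 0) (XT.lf (nat_lit 0) (nat_lit 1448256677230) (nat_lit 152) (nat_lit 7173352634112) (nat_lit 0) (nat_lit 1447837946116) (nat_lit 1) (nat_lit 5) (nat_lit 3) (nat_lit 4) (nat_lit 1) (nat_lit 4) (nat_lit 264) (nat_lit 179) (nat_lit 157)) (XT.lf (nat_lit 0) (nat_lit 1665799737715) (nat_lit 152) (nat_lit 8248629801482) (nat_lit 0) (nat_lit 1665378361032) (nat_lit 1) (nat_lit 5) (nat_lit 3) (nat_lit 4) (nat_lit 1) (nat_lit 4) (nat_lit 265) (nat_lit 179) (nat_lit 156))) (XT.nd (nat_lit 78) (nat_lit 0) (nat_lit 0) (XT.lf (nat_lit 0) (nat_lit 1915970415907) (nat_lit 152) (nat_lit 9485206070154) (nat_lit 0) (nat_lit 1915546738729) (nat_lit 1) (nat_lit 5) (nat_lit 3) (nat_lit 4) (nat_lit 1) (nat_lit 4) (nat_lit 266) (nat_lit 179) (nat_lit 155)) (XT.lf (nat_lit 0) (nat_lit 2203663355510) (nat_lit 152)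 (nat_lit 10907275323645) (nat_lit 0) (nat_lit 2203237677901) (nat_lit 1) (nat_lit 5) (nat_lit 3) (nat_lit 4) (nat_lit 1) (nat_lit 4) (nat_lit 267) (nat_lit 179) (nat_lit 154))))))))
noncomputable def xc6 : XT := (XT.nd (nat_lit 30654) (nat_lit 0) (nat_lit 0) (XT.nd (nat_lit 29406) (nat_lit 0) (nat_lit 0) (XT.nd (nat_lit 546) (nat_lit 0) (nat_lit 0) (XT.nd (nat_lit 234) (nat_lit 0) (nat_lit 0) (XT.nd (nat_lit 78) (nat_lit 0) (nat_lit 0) (XT.lf (nat_lit 0) (nat_lit 2534507331429) (nat_lit 152) (nat_lit 12542660656044) (nat_lit 0) (nat_lit 2534079914316) (nat_lit 1) (nat_lit 5) (nat_lit 3) (nat_lit 4) (nat_lit 1) (nat_lit 4) (nat_lit 268) (nat_lit 179) (nat_lit 153)) (XT.nd (nat_lit 78) (nat_lit 0) (nat_lit 0) (XT.lf (nat_lit 0) (nat_lit 2914975377975) (nat_lit 152) (nat_lit 14423358736899) (nat_lit 0) (nat_lit 2914546448250) (nat_lit 1) (nat_lit 5) (nat_lit 3) (nat_lit 4) (nat_lit 1)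 (nat_lit 4) (nat_lit 269) (nat_lit 179) (nat_lit 152)) (XT.lf (nat_lit 0) (nat_lit 3352511435191) (nat_lit 152) (nat_lit 16586165833010) (nat_lit 0) (nat_lit 3352081190150) (nat_lit 1) (nat_lit 5) (nat_lit 3) (nat_lit 4) (nat_lit 1) (nat_lit 4) (nat_lit 270) (nat_lit 179) (nat_lit 151)))) (XT.nd (nat_lit 156) (nat_lit 0) (nat_lit 0) (XT.nd (nat_lit 78) (nat_lit 0) (nat_lit 0) (XT.lf (nat_lit 0) (nat_lit 3855675991152) (nat_lit 152) (nat_lit 19073397735386) (nat_lit 0) (nat_lit 3855244602358) (nat_lit 1) (nat_lit 5) (nat_lit 3) (nat_lit 4) (nat_lit 1) (nat_lit 4) (nat_lit 271) (nat_lit 179) (nat_lit 150)) (XT.lf (nat_lit 0) (nat_lit 4434313569778) (nat_lit 152) (nat_lit 21933717676901) (nat_lit 0) (nat_lit 4433881186417) (nat_lit 1) (nat_lit 5) (nat_lit 3) (nat_lit 4) (nat_lit 1) (nat_lit 4) (nat_lit 272) (nat_lit 179) (nat_lit 149))) (XT.nd (nat_lit 78) (nat_lit 0) (nat_lit 0) (XT.lf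 (nat_lit 0) (nat_lit 5099745341087) (nat_lit 152) (nat_lit 25223088439019) (nat_lit 0) (nat_lit 5099312092884) (nat_lit 1) (nat_lit 5) (nat_lit 3) (nat_lit 4) (nat_lit 1) (nat_lit 4) (nat_lit 273) (nat_lit 179) (nat_lit 148)) (XT.lf (nat_lit 0) (nat_lit 5864990622343) (nat_lit 152) (nat_lit 29005867275781) (nat_lit 0) (nat_lit 5864556622104) (nat_lit 1) (nat_lit 5) (nat_lit 3) (nat_lit 4) (nat_lit 1) (nat_lit 4) (nat_lit 274) (nat_lit 179) (nat_lit 147))))) (XT.nd (nat_lit 28548) (nat_lit 0) (nat_lit 0) (XT.nd (nat_lit 156) (nat_lit 0) (nat_lit 0) (XT.nd (nat_lit 78) (nat_lit 0) (nat_lit 0) (XT.lf (nat_lit 0) (nat_lit 6745021603831) (nat_lit 152) (nat_lit 33356065077472) (nat_lit 0) (nat_lit 6744586949649) (nat_lit 1) (nat_lit 5) (nat_lit 3) (nat_lit 4) (nat_lit 1) (nat_lit 4) (nat_lit 275) (nat_lit 179) (nat_lit 146)) (XT.lf (nat_lit 0) (nat_lit 7757056283016) (nat_lit 152) (nat_lit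 38358794409778) (nat_lit 0) (nat_lit 7756621060187) (nat_lit 1) (nat_lit 5) (nat_lit 3) (nat_lit 4) (nat_lit 1) (nat_lit 4) (nat_lit 276) (nat_lit 179) (nat_lit 145))) (XT.nd (nat_lit 78) (nat_lit 0) (nat_lit 0) (XT.lf (nat_lit 0) (nat_lit 8920895338403) (nat_lit 152) (nat_lit 44111934759633) (nat_lit 0) (nat_lit 8920459621098) (nat_lit 1) (nat_lit 5) (nat_lit 3) (nat_lit 4) (nat_lit 1) (nat_lit 4) (nat_lit 277) (nat_lit 179) (nat_lit 144)) (XT.lf (nat_lit 0) (nat_lit 10259309534120) (nat_lit 152) (nat_lit 50728047568668) (nat_lit 0) (nat_lit 10258873386836) (nat_lit 1) (nat_lit 5) (nat_lit 3) (nat_lit 4) (nat_lit 1) (nat_lit 4) (nat_lit 278) (nat_lit 179) (nat_lit 143)))) (XT.nd (nat_lit 156) (nat_lit 0) (nat_lit 0) (XT.nd (nat_lit 78) (nat_lit 0) (nat_lit 0) (XT.lf (nat_lit 0) (nat_lit 22969176643) (nat_lit 152) (nat_lit 130338120313) (nat_lit 0) (nat_lit 22969176643) (nat_lit 1)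 (nat_lit 5) (nat_lit 3) (nat_lit 4) (nat_lit 1) (nat_lit 4) (nat_lit 240) (nat_lit 180) (nat_lit 180)) (XT.lf (nat_lit 0) (nat_lit 53878546058) (nat_lit 152) (nat_lit 297573187911) (nat_lit 0) (nat_lit 53812693986) (nat_lit 1) (nat_lit 5) (nat_lit 3) (nat_lit 4) (nat_lit 1) (nat_lit 4) (nat_lit 241) (nat_lit 180) (nat_lit 179))) (XT.nd (nat_lit 78) (nat_lit 0) (nat_lit 0) (XT.lf (nat_lit 0) (nat_lit 62914150560) (nat_lit 152) (nat_lit 340192015268) (nat_lit 0) (nat_lit 62791035818) (nat_lit 1) (nat_lit 5) (nat_lit 3) (nat_lit 4) (nat_lit 1) (nat_lit 4) (nat_lit 242) (nat_lit 180) (nat_lit 178)) (XT.lf (nat_lit 0) (nat_lit 73221950360) (nat_lit 152) (nat_lit 389366569323) (nat_lit 0) (nat_lit 73049041991) (nat_lit 1) (nat_lit 5) (nat_lit 3) (nat_lit 4) (nat_lit 1) (nat_lit 4) (nat_lit 243) (nat_lit 180) (nat_lit 177)))))) (XT.nd (nat_lit 624) (nat_lit 0) (nat_lit 0) (XT.nd (nat_lit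 312) (nat_lit 0) (nat_lit 0) (XT.nd (nat_lit 156) (nat_lit 0) (nat_lit 0) (XT.nd (nat_lit 78) (nat_lit 0) (nat_lit 0) (XT.lf (nat_lit 0) (nat_lit 85003619801) (nat_lit 152) (nat_lit 446058960914) (nat_lit 0) (nat_lit 84787412626) (nat_lit 1) (nat_lit 5) (nat_lit 3) (nat_lit 4) (nat_lit 1) (nat_lit 4) (nat_lit 244) (nat_lit 180) (nat_lit 176)) (XT.lf (nat_lit 0) (nat_lit 98489669808) (nat_lit 152) (nat_lit 511378389008) (nat_lit 0) (nat_lit 98235811497) (nat_lit 1) (nat_lit 5) (nat_lit 3) (nat_lit 4) (nat_lit 1) (nat_lit 4) (nat_lit 245) (nat_lit 180) (nat_lit 175))) (XT.nd (nat_lit 78) (nat_lit 0) (nat_lit 0) (XT.lf (nat_lit 0) (nat_lit 113943957880) (nat_lit 152) (nat_lit 586602842416) (nat_lit 0) (nat_lit 113657359451) (nat_lit 1) (nat_lit 5) (nat_lit 3) (nat_lit 4) (nat_lit 1) (nat_lit 4) (nat_lit 246) (nat_lit 180) (nat_lit 174)) (XT.lf (nat_lit 0) (nat_lit 131668850523) (nat_lit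 152) (nat_lit 673204103921) (nat_lit 0) (nat_lit 131353782426) (nat_lit 1) (nat_lit 5) (nat_lit 3) (nat_lit 4) (nat_lit 1) (nat_lit 4) (nat_lit 247) (nat_lit 180) (nat_lit 173)))) (XT.nd (nat_lit 156) (nat_lit 0) (nat_lit 0) (XT.nd (nat_lit 78) (nat_lit 0) (nat_lit 0) (XT.lf (nat_lit 0) (nat_lit 152011139114) (nat_lit 152) (nat_lit 772876546031) (nat_lit 0) (nat_lit 151671314785) (nat_lit 1) (nat_lit 5) (nat_lit 3) (nat_lit 4) (nat_lit 1) (nat_lit 4) (nat_lit 248) (nat_lit 180) (nat_lit 172)) (XT.lf (nat_lit 0) (nat_lit 175368824954) (nat_lit 152) (nat_lit 887570281743) (nat_lit 0) (nat_lit 175007473465) (nat_lit 1) (nat_lit 5) (nat_lit 3) (nat_lit 4) (nat_lit 1) (nat_lit 4) (nat_lit 249) (nat_lit 180) (nat_lit 171))) (XT.nd (nat_lit 78) (nat_lit 0) (nat_lit 0) (XT.lf (nat_lit 0) (nat_lit 202198906242) (nat_lit 152) (nat_lit 1019529318932) (nat_lit 0) (nat_lit 201818835484) (nat_lit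 1) (nat_lit 5) (nat_lit 3) (nat_lit 4) (nat_lit 1) (nat_lit 4) (nat_lit 250) (nat_lit 180) (nat_lit 170)) (XT.lf (nat_lit 0) (nat_lit 233026319351) (nat_lit 152) (nat_lit 1171335464845) (nat_lit 0) (nat_lit 232629970969) (nat_lit 1) (nat_lit 5) (nat_lit 3) (nat_lit 4) (nat_lit 1) (nat_lit 4) (nat_lit 251) (nat_lit 180) (nat_lit 169))))) (XT.nd (nat_lit 312) (nat_lit 0) (nat_lit 0) (XT.nd (nat_lit 156) (nat_lit 0) (nat_lit 0) (XT.nd (nat_lit 78) (nat_lit 0) (nat_lit 0) (XT.lf (nat_lit 0) (nat_lit 268454209321) (nat_lit 152) (nat_lit 1345958839729) (nat_lit 0) (nat_lit 268043706482) (nat_lit 1) (nat_lit 5) (nat_lit 3) (nat_lit 4) (nat_lit 1) (nat_lit 4) (nat_lit 252) (nat_lit 180) (nat_lit 168)) (XT.lf (nat_lit 0) (nat_lit 309175730522) (nat_lit 152) (nat_lit 1546815987875) (nat_lit 0) (nat_lit 308752919459) (nat_lit 1) (nat_lit 5) (nat_lit 3) (nat_lit 4) (nat_lit 1) (nat_lit 4) (nat_lit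 253) (nat_lit 180) (nat_lit 167))) (XT.nd (nat_lit 78) (nat_lit 0) (nat_lit 0) (XT.lf (nat_lit 0) (nat_lit 355987608366) (nat_lit 152) (nat_lit 1777836723052) (nat_lit 0) (nat_lit 355554094501) (nat_lit 1) (nat_lit 5) (nat_lit 3) (nat_lit 4) (nat_lit 1) (nat_lit 4) (nat_lit 254) (nat_lit 180) (nat_lit 166)) (XT.lf (nat_lit 0) (nat_lit 409805727422) (nat_lit 152) (nat_lit 2043541016165) (nat_lit 0) (nat_lit 409362906772) (nat_lit 1) (nat_lit 5) (nat_lit 3) (nat_lit 4) (nat_lit 1) (nat_lit 4) (nat_lit 255) (nat_lit 180) (nat_lit 165)))) (XT.nd (nat_lit 156) (nat_lit 0) (nat_lit 0) (XT.nd (nat_lit 78) (nat_lit 0) (nat_lit 0) (XT.lf (nat_lit 0) (nat_lit 471683050887) (nat_lit 152) (nat_lit 2349127429470) (nat_lit 0) (nat_lit 471232137381) (nat_lit 1) (nat_lit 5) (nat_lit 3) (nat_lit 4) (nat_lit 1) (nat_lit 4) (nat_lit 256) (nat_lit 180) (nat_lit 164)) (XT.lf (nat_lit 0) (nat_lit 542830222048)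 (nat_lit 152) (nat_lit 2700574827575) (nat_lit 0) (nat_lit 542372271275) (nat_lit 1) (nat_lit 5) (nat_lit 3) (nat_lit 4) (nat_lit 1) (nat_lit 4) (nat_lit 257) (nat_lit 180) (nat_lit 163))) (XT.nd (nat_lit 78) (nat_lit 0) (nat_lit 0) (XT.lf (nat_lit 0) (nat_lit 624639250774) (nat_lit 152) (nat_lit 3104759355227) (nat_lit 0) (nat_lit 624175180640) (nat_lit 1) (nat_lit 5) (nat_lit 3) (nat_lit 4) (nat_lit 1) (nat_lit 4) (nat_lit 258) (nat_lit 180) (nat_lit 162)) (XT.lf (nat_lit 0) (nat_lit 718710748498) (nat_lit 152) (nat_lit 3569588970575) (nat_lit 0) (nat_lit 718241357179) (nat_lit 1) (nat_lit 5) (nat_lit 3) (nat_lit 4) (nat_lit 1) (nat_lit 4) (nat_lit 259) (nat_lit 180) (nat_lit 161))))))) (XT.nd (nat_lit 1170) (nat_lit 0) (nat_lit 0) (XT.nd (nat_lit 546) (nat_lit 0) (nat_lit 0) (XT.nd (nat_lit 234) (nat_lit 0) (nat_lit 0) (XT.nd (nat_lit 78) (nat_lit 0) (nat_lit 0) (XT.lf (nat_lit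 0) (nat_lit 826885244522) (nat_lit 152) (nat_lit 4104158166093) (nat_lit 0) (nat_lit 826411226086) (nat_lit 1) (nat_lit 5) (nat_lit 3) (nat_lit 4) (nat_lit 1) (nat_lit 4) (nat_lit 260) (nat_lit 180) (nat_lit 160)) (XT.nd (nat_lit 78) (nat_lit 0) (nat_lit 0) (XT.lf (nat_lit 0) (nat_lit 951279196378) (nat_lit 152) (nat_lit 4718925904301) (nat_lit 0) (nat_lit 950801154362) (nat_lit 1) (nat_lit 5) (nat_lit 3) (nat_lit 4) (nat_lit 1) (nat_lit 4) (nat_lit 261) (nat_lit 180) (nat_lit 159)) (XT.lf (nat_lit 0) (nat_lit 1094326398776) (nat_lit 152) (nat_lit 5425920249644) (nat_lit 0) (nat_lit 1093844857995) (nat_lit 1) (nat_lit 5) (nat_lit 3) (nat_lit 4) (nat_lit 1) (nat_lit 4) (nat_lit 262) (nat_lit 180) (nat_lit 158)))) (XT.nd (nat_lit 156) (nat_lit 0) (nat_lit 0) (XT.nd (nat_lit 78) (nat_lit 0) (nat_lit 0) (XT.lf (nat_lit 0) (nat_lit 1258825601327) (nat_lit 152) (nat_lit 6238973700183) (nat_lit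 0) (nat_lit 1258341018141) (nat_lit 1) (nat_lit 5) (nat_lit 3) (nat_lit 4) (nat_lit 1) (nat_lit 4) (nat_lit 263) (nat_lit 180) (nat_lit 157)) (XT.lf (nat_lit 0) (nat_lit 1447995266691) (nat_lit 152) (nat_lit 7173993823427) (nat_lit 0) (nat_lit 1447508037936) (nat_lit 1) (nat_lit 5) (nat_lit 3) (nat_lit 4) (nat_lit 1) (nat_lit 4) (nat_lit 264) (nat_lit 180) (nat_lit 156))) (XT.nd (nat_lit 78) (nat_lit 0) (nat_lit 0) (XT.lf (nat_lit 0) (nat_lit 1665536540494) (nat_lit 152) (nat_lit 8249274491354) (nat_lit 0) (nat_lit 1665047011244) (nat_lit 1) (nat_lit 5) (nat_lit 3) (nat_lit 4) (nat_lit 1) (nat_lit 4) (nat_lit 265) (nat_lit 180) (nat_lit 155)) (XT.lf (nat_lit 0) (nat_lit 1915705665050) (nat_lit 152) (nat_lit 9485853803987) (nat_lit 0) (nat_lit 1915214135370) (nat_lit 1) (nat_lit 5) (nat_lit 3) (nat_lit 4) (nat_lit 1) (nat_lit 4) (nat_lit 266) (nat_lit 180) (nat_lit 154))))) (XT.nd (nat_lit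 312) (nat_lit 0) (nat_lit 0) (XT.nd (nat_lit 156) (nat_lit 0) (nat_lit 0) (XT.nd (nat_lit 78) (nat_lit 0) (nat_lit 0) (XT.lf (nat_lit 0) (nat_lit 2203397253664) (nat_lit 152) (nat_lit 10907925704401) (nat_lit 0) (nat_lit 2202903984480) (nat_lit 1) (nat_lit 5) (nat_lit 3) (nat_lit 4) (nat_lit 1) (nat_lit 4) (nat_lit 267) (nat_lit 180) (nat_lit 153)) (XT.lf (nat_lit 0) (nat_lit 2534240054811) (nat_lit 152) (nat_lit 12543313338473) (nat_lit 0) (nat_lit 2533745273014) (nat_lit 1) (nat_lit 5) (nat_lit 3) (nat_lit 4) (nat_lit 1) (nat_lit 4) (nat_lit 268) (nat_lit 180) (nat_lit 152))) (XT.nd (nat_lit 78) (nat_lit 0) (nat_lit 0) (XT.lf (nat_lit 0) (nat_lit 2914707079817) (nat_lit 152) (nat_lit 14424013420783) (nat_lit 0) (nat_lit 2914210982704) (nat_lit 1) (nat_lit 5) (nat_lit 3) (nat_lit 4) (nat_lit 1) (nat_lit 4) (nat_lit 269) (nat_lit 180) (nat_lit 151)) (XT.lf (nat_lit 0) (nat_lit 3352242248736)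 (nat_lit 152) (nat_lit 16586822257288) (nat_lit 0) (nat_lit 3351745007871) (nat_lit 1) (nat_lit 5) (nat_lit 3) (nat_lit 4) (nat_lit 1) (nat_lit 4) (nat_lit 270) (nat_lit 180) (nat_lit 150)))) (XT.nd (nat_lit 156) (nat_lit 0) (nat_lit 0) (XT.nd (nat_lit 78) (nat_lit 0) (nat_lit 0) (XT.lf (nat_lit 0) (nat_lit 3855406032265) (nat_lit 152) (nat_lit 19074055673052) (nat_lit 0) (nat_lit 3854907796832) (nat_lit 1) (nat_lit 5) (nat_lit 3) (nat_lit 4) (nat_lit 1) (nat_lit 4) (nat_lit 271) (nat_lit 180) (nat_lit 149)) (XT.lf (nat_lit 0) (nat_lit 4434042939212) (nat_lit 152) (nat_lit 21934376930555) (nat_lit 0) (nat_lit 4433543838938) (nat_lit 1) (nat_lit 5) (nat_lit 3) (nat_lit 4) (nat_lit 1) (nat_lit 4) (nat_lit 272) (nat_lit 180) (nat_lit 148))) (XT.nd (nat_lit 78) (nat_lit 0) (nat_lit 0) (XT.lf (nat_lit 0) (nat_lit 5099474126451) (nat_lit 152) (nat_lit 25223748837011) (nat_lit 0) (nat_lit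 5098974274141) (nat_lit 1) (nat_lit 5) (nat_lit 3) (nat_lit 4) (nat_lit 1) (nat_lit 4) (nat_lit 273) (nat_lit 180) (nat_lit 147)) (XT.lf (nat_lit 0) (nat_lit 5864718899821) (nat_lit 152) (nat_lit 29006528668850) (nat_lit 0) (nat_lit 5864218393567) (nat_lit 1) (nat_lit 5) (nat_lit 3) (nat_lit 4) (nat_lit 1) (nat_lit 4) (nat_lit 274) (nat_lit 180) (nat_lit 146)))))) (XT.nd (nat_lit 28704) (nat_lit 0) (nat_lit 0) (XT.nd (nat_lit 28392) (nat_lit 0) (nat_lit 0) (XT.nd (nat_lit 156) (nat_lit 0) (nat_lit 0) (XT.nd (nat_lit 78) (nat_lit 0) (nat_lit 0) (XT.lf (nat_lit 0) (nat_lit 6744749439669) (nat_lit 152) (nat_lit 33356727335825) (nat_lit 0) (nat_lit 6744248364767) (nat_lit 1) (nat_lit 5) (nat_lit 3) (nat_lit 4) (nat_lit 1) (nat_lit 4) (nat_lit 275) (nat_lit 180) (nat_lit 145)) (XT.lf (nat_lit 0) (nat_lit 7756783734819) (nat_lit 152) (nat_lit 38359457420551) (nat_lit 0) (nat_lit 7756282165442)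 (nat_lit 1) (nat_lit 5) (nat_lit 3) (nat_lit 4) (nat_lit 1) (nat_lit 4) (nat_lit 276) (nat_lit 180) (nat_lit 144))) (XT.nd (nat_lit 78) (nat_lit 0) (nat_lit 0) (XT.lf (nat_lit 0) (nat_lit 8920622456262) (nat_lit 152) (nat_lit 44112598424686) (nat_lit 0) (nat_lit 8920120456906) (nat_lit 1) (nat_lit 5) (nat_lit 3) (nat_lit 4) (nat_lit 1) (nat_lit 4) (nat_lit 277) (nat_lit 180) (nat_lit 143)) (XT.lf (nat_lit 0) (nat_lit 10259036361593) (nat_lit 152) (nat_lit 50728711802658) (nat_lit 0) (nat_lit 10258533988343) (nat_lit 1) (nat_lit 5) (nat_lit 3) (nat_lit 4) (nat_lit 1) (nat_lit 4) (nat_lit 278) (nat_lit 180) (nat_lit 142)))) (XT.nd (nat_lit 156) (nat_lit 0) (nat_lit 0) (XT.nd (nat_lit 78) (nat_lit 0) (nat_lit 0) (XT.lf (nat_lit 0) (nat_lit 16437867298) (nat_lit 152) (nat_lit 100571495111) (nat_lit 0) (nat_lit 16437867298) (nat_lit 1) (nat_lit 5) (nat_lit 3) (nat_lit 4) (nat_lit 1) (nat_lit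 4) (nat_lit 238) (nat_lit 181) (nat_lit 181)) (XT.lf (nat_lit 0) (nat_lit 39013950531) (nat_lit 152) (nat_lit 228779276624) (nat_lit 0) (nat_lit 38938220648) (nat_lit 1) (nat_lit 5) (nat_lit 3) (nat_lit 4) (nat_lit 1) (nat_lit 4) (nat_lit 239) (nat_lit 181) (nat_lit 180))) (XT.nd (nat_lit 78) (nat_lit 0) (nat_lit 0) (XT.lf (nat_lit 0) (nat_lit 45962939093) (nat_lit 152) (nat_lit 260776444664) (nat_lit 0) (nat_lit 45821357139) (nat_lit 1) (nat_lit 5) (nat_lit 3) (nat_lit 4) (nat_lit 1) (nat_lit 4) (nat_lit 240) (nat_lit 181) (nat_lit 179)) (XT.lf (nat_lit 0) (nat_lit 53858658755) (nat_lit 152) (nat_lit 297760525893) (nat_lit 0) (nat_lit 53659814131) (nat_lit 1) (nat_lit 5) (nat_lit 3) (nat_lit 4) (nat_lit 1) (nat_lit 4) (nat_lit 241) (nat_lit 181) (nat_lit 178))))) (XT.nd (nat_lit 312) (nat_lit 0) (nat_lit 0) (XT.nd (nat_lit 156) (nat_lit 0) (nat_lit 0) (XT.nd (nat_lit 78) (nat_lit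 0) (nat_lit 0) (XT.lf (nat_lit 0) (nat_lit 62855590989) (nat_lit 152) (nat_lit 340455121898) (nat_lit 0) (nat_lit 62606952737) (nat_lit 1) (nat_lit 5) (nat_lit 3) (nat_lit 4) (nat_lit 1) (nat_lit 4) (nat_lit 242) (nat_lit 181) (nat_lit 177)) (XT.lf (nat_lit 0) (nat_lit 73129762729) (nat_lit 152) (nat_lit 389695561734) (nat_lit 0) (nat_lit 72837825671) (nat_lit 1) (nat_lit 5) (nat_lit 3) (nat_lit 4) (nat_lit 1) (nat_lit 4) (nat_lit 243) (nat_lit 181) (nat_lit 176))) (XT.nd (nat_lit 78) (nat_lit 0) (nat_lit 0) (XT.lf (nat_lit 0) (nat_lit 84882190379) (nat_lit 152) (nat_lit 446445245308) (nat_lit 0) (nat_lit 84552602186) (nat_lit 1) (nat_lit 5) (nat_lit 3) (nat_lit 4) (nat_lit 1) (nat_lit 4) (nat_lit 244) (nat_lit 181) (nat_lit 175)) (XT.lf (nat_lit 0) (nat_lit 98342812741) (nat_lit 152) (nat_lit 511814492518) (nat_lit 0) (nat_lit 97980484430) (nat_lit 1) (nat_lit 5) (nat_lit 3) (nat_lit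 4) (nat_lit 1) (nat_lit 4) (nat_lit 245) (nat_lit 181) (nat_lit 174)))) (XT.nd (nat_lit 156) (nat_lit 0) (nat_lit 0) (XT.nd (nat_lit 78) (nat_lit 0) (nat_lit 0) (XT.lf (nat_lit 0) (nat_lit 113774989818) (nat_lit 152) (nat_lit 587082266896) (nat_lit 0) (nat_lit 113384191839) (nat_lit 1) (nat_lit 5) (nat_lit 3) (nat_lit 4) (nat_lit 1) (nat_lit 4) (nat_lit 246) (nat_lit 181) (nat_lit 173)) (XT.lf (nat_lit 0) (nat_lit 131480655509) (nat_lit 152) (nat_lit 673721198810) (nat_lit 0) (nat_lit 131065101296) (nat_lit 1) (nat_lit 5) (nat_lit 3) (nat_lit 4) (nat_lit 1) (nat_lit 4) (nat_lit 247) (nat_lit 181) (nat_lit 172))) (XT.nd (nat_lit 78) (nat_lit 0) (nat_lit 0) (XT.lf (nat_lit 0) (nat_lit 151806225011) (nat_lit 152) (nat_lit 773426397797) (nat_lit 0) (nat_lit 151369143640) (nat_lit 1) (nat_lit 5) (nat_lit 3) (nat_lit 4) (nat_lit 1) (nat_lit 4) (nat_lit 248) (nat_lit 181) (nat_lit 171)) (XT.lf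 (nat_lit 0) (nat_lit 175149372512) (nat_lit 152) (nat_lit 888148617751) (nat_lit 0) (nat_lit 174693571873) (nat_lit 1) (nat_lit 5) (nat_lit 3) (nat_lit 4) (nat_lit 1) (nat_lit 4) (nat_lit 249) (nat_lit 181) (nat_lit 170))))))))
noncomputable def xc7 : XT := (XT.nd (nat_lit 30342) (nat_lit 0) (nat_lit 0) (XT.nd (nat_lit 1170) (nat_lit 0) (nat_lit 0) (XT.nd (nat_lit 546) (nat_lit 0) (nat_lit 0) (XT.nd (nat_lit 234) (nat_lit 0) (nat_lit 0) (XT.nd (nat_lit 78) (nat_lit 0) (nat_lit 0) (XT.lf (nat_lit 0) (nat_lit 201966811767) (nat_lit 152) (nat_lit 1020132423845) (nat_lit 0) (nat_lit 201494733502) (nat_lit 1) (nat_lit 5) (nat_lit 3) (nat_lit 4) (nat_lit 1) (nat_lit 4) (nat_lit 250) (nat_lit 181) (nat_lit 169)) (XT.nd (nat_lit 78) (nat_lit 0) (nat_lit 0) (XT.lf (nat_lit 0) (nat_lit 232783231804) (nat_lit 152) (nat_lit 1171960107937) (nat_lit 0) (nat_lit 232296999083) (nat_lit 1) (nat_lit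 5) (nat_lit 3) (nat_lit 4) (nat_lit 1) (nat_lit 4) (nat_lit 251) (nat_lit 181) (nat_lit 168)) (XT.lf (nat_lit 0) (nat_lit 268201562581) (nat_lit 152) (nat_lit 1346602211672) (nat_lit 0) (nat_lit 267703021637) (nat_lit 1) (nat_lit 5) (nat_lit 3) (nat_lit 4) (nat_lit 1) (nat_lit 4) (nat_lit 252) (nat_lit 181) (nat_lit 167)))) (XT.nd (nat_lit 156) (nat_lit 0) (nat_lit 0) (XT.nd (nat_lit 78) (nat_lit 0) (nat_lit 0) (XT.lf (nat_lit 0) (nat_lit 308914771439) (nat_lit 152) (nat_lit 1547475645776) (nat_lit 0) (nat_lit 308405527692) (nat_lit 1) (nat_lit 5) (nat_lit 3) (nat_lit 4) (nat_lit 1) (nat_lit 4) (nat_lit 253) (nat_lit 181) (nat_lit 166)) (XT.lf (nat_lit 0) (nat_lit 355719421160) (nat_lit 152) (nat_lit 1778510542654) (nat_lit 0) (nat_lit 355200870628) (nat_lit 1) (nat_lit 5) (nat_lit 3) (nat_lit 4) (nat_lit 1) (nat_lit 4) (nat_lit 254) (nat_lit 181) (nat_lit 165))) (XT.nd (nat_lit 78)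 (nat_lit 0) (nat_lit 0) (XT.lf (nat_lit 0) (nat_lit 409531254891) (nat_lit 152) (nat_lit 2044227150290) (nat_lit 0) (nat_lit 409004611502) (nat_lit 1) (nat_lit 5) (nat_lit 3) (nat_lit 4) (nat_lit 1) (nat_lit 4) (nat_lit 255) (nat_lit 181) (nat_lit 164)) (XT.lf (nat_lit 0) (nat_lit 471403112857) (nat_lit 152) (nat_lit 2349824271877) (nat_lit 0) (nat_lit 470869432202) (nat_lit 1) (nat_lit 5) (nat_lit 3) (nat_lit 4) (nat_lit 1) (nat_lit 4) (nat_lit 256) (nat_lit 181) (nat_lit 163))))) (XT.nd (nat_lit 312) (nat_lit 0) (nat_lit 0) (XT.nd (nat_lit 156) (nat_lit 0) (nat_lit 0) (XT.nd (nat_lit 78) (nat_lit 0) (nat_lit 0) (XT.lf (nat_lit 0) (nat_lit 542545531409) (nat_lit 152) (nat_lit 2701280981531) (nat_lit 0) (nat_lit 542005731392) (nat_lit 1) (nat_lit 5) (nat_lit 3) (nat_lit 4) (nat_lit 1) (nat_lit 4) (nat_lit 257) (nat_lit 181) (nat_lit 162)) (XT.lf (nat_lit 0) (nat_lit 624350427432) (nat_lit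 152) (nat_lit 3105473606182) (nat_lit 0) (nat_lit 623805306231) (nat_lit 1) (nat_lit 5) (nat_lit 3) (nat_lit 4) (nat_lit 1) (nat_lit 4) (nat_lit 258) (nat_lit 181) (nat_lit 161))) (XT.nd (nat_lit 78) (nat_lit 0) (nat_lit 0) (XT.lf (nat_lit 0) (nat_lit 718418331501) (nat_lit 152) (nat_lit 3570310262399) (nat_lit 0) (nat_lit 717868583182) (nat_lit 1) (nat_lit 5) (nat_lit 3) (nat_lit 4) (nat_lit 1) (nat_lit 4) (nat_lit 259) (nat_lit 181) (nat_lit 160)) (XT.lf (nat_lit 0) (nat_lit 826589702608) (nat_lit 152) (nat_lit 4104885580411) (nat_lit 0) (nat_lit 826035930710) (nat_lit 1) (nat_lit 5) (nat_lit 3) (nat_lit 4) (nat_lit 1) (nat_lit 4) (nat_lit 260) (nat_lit 181) (nat_lit 159)))) (XT.nd (nat_lit 156) (nat_lit 0) (nat_lit 0) (XT.nd (nat_lit 78) (nat_lit 0) (nat_lit 0) (XT.lf (nat_lit 0) (nat_lit 950980937144) (nat_lit 152) (nat_lit 4719658642528) (nat_lit 0) (nat_lit 950423666481) (nat_lit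 1) (nat_lit 5) (nat_lit 3) (nat_lit 4) (nat_lit 1) (nat_lit 4) (nat_lit 261) (nat_lit 181) (nat_lit 158)) (XT.lf (nat_lit 0) (nat_lit 1094025776655) (nat_lit 152) (nat_lit 5426657617357) (nat_lit 0) (nat_lit 1093465463587) (nat_lit 1) (nat_lit 5) (nat_lit 3) (nat_lit 4) (nat_lit 1) (nat_lit 4) (nat_lit 262) (nat_lit 181) (nat_lit 157))) (XT.nd (nat_lit 78) (nat_lit 0) (nat_lit 0) (XT.lf (nat_lit 0) (nat_lit 1258522924523) (nat_lit 152) (nat_lit 6239715093535) (nat_lit 0) (nat_lit 1257959965886) (nat_lit 1) (nat_lit 5) (nat_lit 3) (nat_lit 4) (nat_lit 1) (nat_lit 4) (nat_lit 263) (nat_lit 181) (nat_lit 156)) (XT.lf (nat_lit 0) (nat_lit 1447690803205) (nat_lit 152) (nat_lit 7174738717335) (nat_lit 0) (nat_lit 1447125544073) (nat_lit 1) (nat_lit 5) (nat_lit 3) (nat_lit 4) (nat_lit 1) (nat_lit 4) (nat_lit 264) (nat_lit 181) (nat_lit 155)))))) (XT.nd (nat_lit 624) (nat_lit 0) (nat_lit 0)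 (XT.nd (nat_lit 312) (nat_lit 0) (nat_lit 0) (XT.nd (nat_lit 156) (nat_lit 0) (nat_lit 0) (XT.nd (nat_lit 78) (nat_lit 0) (nat_lit 0) (XT.lf (nat_lit 0) (nat_lit 1665230523372) (nat_lit 152) (nat_lit 8250022429224) (nat_lit 0) (nat_lit 1664663263810) (nat_lit 1) (nat_lit 5) (nat_lit 3) (nat_lit 4) (nat_lit 1) (nat_lit 4) (nat_lit 265) (nat_lit 181) (nat_lit 154)) (XT.lf (nat_lit 0) (nat_lit 1915398296940) (nat_lit 152) (nat_lit 9486604388781) (nat_lit 0) (nat_lit 1914829297873) (nat_lit 1) (nat_lit 5) (nat_lit 3) (nat_lit 4) (nat_lit 1) (nat_lit 4) (nat_lit 266) (nat_lit 181) (nat_lit 153))) (XT.nd (nat_lit 78) (nat_lit 0) (nat_lit 0) (XT.lf (nat_lit 0) (nat_lit 2203088710782) (nat_lit 152) (nat_lit 10908678590867) (nat_lit 0) (nat_lit 2202518199103) (nat_lit 1) (nat_lit 5) (nat_lit 3) (nat_lit 4) (nat_lit 1) (nat_lit 4) (nat_lit 267) (nat_lit 181) (nat_lit 152)) (XT.lf (nat_lit 0)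 (nat_lit 2533930490388) (nat_lit 152) (nat_lit 12544068226394) (nat_lit 0) (nat_lit 2533358663393) (nat_lit 1) (nat_lit 5) (nat_lit 3) (nat_lit 4) (nat_lit 1) (nat_lit 4) (nat_lit 268) (nat_lit 181) (nat_lit 151)))) (XT.nd (nat_lit 156) (nat_lit 0) (nat_lit 0) (XT.nd (nat_lit 78) (nat_lit 0) (nat_lit 0) (XT.lf (nat_lit 0) (nat_lit 2914396627098) (nat_lit 152) (nat_lit 14424770049098) (nat_lit 0) (nat_lit 2913823656350) (nat_lit 1) (nat_lit 5) (nat_lit 3) (nat_lit 4) (nat_lit 1) (nat_lit 4) (nat_lit 269) (nat_lit 181) (nat_lit 150)) (XT.lf (nat_lit 0) (nat_lit 3351931023585) (nat_lit 152) (nat_lit 16587580398991) (nat_lit 0) (nat_lit 3351357058270) (nat_lit 1) (nat_lit 5) (nat_lit 3) (nat_lit 4) (nat_lit 1) (nat_lit 4) (nat_lit 270) (nat_lit 181) (nat_lit 149))) (XT.nd (nat_lit 78) (nat_lit 0) (nat_lit 0) (XT.lf (nat_lit 0) (nat_lit 3855094135434) (nat_lit 152) (nat_lit 19074815130743)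 (nat_lit 0) (nat_lit 3854519305278) (nat_lit 1) (nat_lit 5) (nat_lit 3) (nat_lit 4) (nat_lit 1) (nat_lit 4) (nat_lit 271) (nat_lit 181) (nat_lit 148)) (XT.lf (nat_lit 0) (nat_lit 4433730458311) (nat_lit 152) (nat_lit 21935137532584) (nat_lit 0) (nat_lit 4433154876119) (nat_lit 1) (nat_lit 5) (nat_lit 3) (nat_lit 4) (nat_lit 1) (nat_lit 4) (nat_lit 272) (nat_lit 181) (nat_lit 147))))) (XT.nd (nat_lit 312) (nat_lit 0) (nat_lit 0) (XT.nd (nat_lit 156) (nat_lit 0) (nat_lit 0) (XT.nd (nat_lit 78) (nat_lit 0) (nat_lit 0) (XT.lf (nat_lit 0) (nat_lit 5099161137664) (nat_lit 152) (nat_lit 25224510434117) (nat_lit 0) (nat_lit 5098584901528) (nat_lit 1) (nat_lit 5) (nat_lit 3) (nat_lit 4) (nat_lit 1) (nat_lit 4) (nat_lit 273) (nat_lit 181) (nat_lit 146)) (XT.lf (nat_lit 0) (nat_lit 5864405469393) (nat_lit 152) (nat_lit 29007291131239) (nat_lit 0) (nat_lit 5863828664610) (nat_lit 1) (nat_lit 5)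 (nat_lit 3) (nat_lit 4) (nat_lit 1) (nat_lit 4) (nat_lit 274) (nat_lit 181) (nat_lit 145))) (XT.nd (nat_lit 78) (nat_lit 0) (nat_lit 0) (XT.lf (nat_lit 0) (nat_lit 6744435625206) (nat_lit 152) (nat_lit 33357490550635) (nat_lit 0) (nat_lit 6743858325947) (nat_lit 1) (nat_lit 5) (nat_lit 3) (nat_lit 4) (nat_lit 1) (nat_lit 4) (nat_lit 275) (nat_lit 181) (nat_lit 144)) (XT.lf (nat_lit 0) (nat_lit 7756469586413) (nat_lit 152) (nat_lit 38360221289640) (nat_lit 0) (nat_lit 7755891857174) (nat_lit 1) (nat_lit 5) (nat_lit 3) (nat_lit 4) (nat_lit 1) (nat_lit 4) (nat_lit 276) (nat_lit 181) (nat_lit 143)))) (XT.nd (nat_lit 28080) (nat_lit 0) (nat_lit 0) (XT.nd (nat_lit 78) (nat_lit 0) (nat_lit 0) (XT.lf (nat_lit 0) (nat_lit 8920308017471) (nat_lit 152) (nat_lit 44113362862714) (nat_lit 0) (nat_lit 8919729914338) (nat_lit 1) (nat_lit 5) (nat_lit 3) (nat_lit 4) (nat_lit 1) (nat_lit 4) (nat_lit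 277) (nat_lit 181) (nat_lit 142)) (XT.lf (nat_lit 0) (nat_lit 10258721670292) (nat_lit 152) (nat_lit 50729476735415) (nat_lit 0) (nat_lit 10258143242033) (nat_lit 1) (nat_lit 5) (nat_lit 3) (nat_lit 4) (nat_lit 1) (nat_lit 4) (nat_lit 278) (nat_lit 181) (nat_lit 141))) (XT.nd (nat_lit 78) (nat_lit 0) (nat_lit 0) (XT.lf (nat_lit 0) (nat_lit 11359739573) (nat_lit 152) (nat_lit 78366222592) (nat_lit 0) (nat_lit 11359739573) (nat_lit 1) (nat_lit 5) (nat_lit 3) (nat_lit 4) (nat_lit 1) (nat_lit 4) (nat_lit 236) (nat_lit 182) (nat_lit 182)) (XT.lf (nat_lit 0) (nat_lit 27515285125) (nat_lit 152) (nat_lit 177326875510) (nat_lit 0) (nat_lit 27428195760) (nat_lit 1) (nat_lit 5) (nat_lit 3) (nat_lit 4) (nat_lit 1) (nat_lit 4) (nat_lit 237) (nat_lit 182) (nat_lit 181))))))) (XT.nd (nat_lit 1170) (nat_lit 0) (nat_lit 0) (XT.nd (nat_lit 546) (nat_lit 0) (nat_lit 0) (XT.nd (nat_lit 234) (nat_lit 0)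 (nat_lit 0) (XT.nd (nat_lit 78) (nat_lit 0) (nat_lit 0) (XT.lf (nat_lit 0) (nat_lit 32904008274) (nat_lit 152) (nat_lit 201258224865) (nat_lit 0) (nat_lit 32741189027) (nat_lit 1) (nat_lit 5) (nat_lit 3) (nat_lit 4) (nat_lit 1) (nat_lit 4) (nat_lit 238) (nat_lit 182) (nat_lit 180)) (XT.nd (nat_lit 78) (nat_lit 0) (nat_lit 0) (XT.lf (nat_lit 0) (nat_lit 38991080133) (nat_lit 152) (nat_lit 228994715303) (nat_lit 0) (nat_lit 38762408815) (nat_lit 1) (nat_lit 5) (nat_lit 3) (nat_lit 4) (nat_lit 1) (nat_lit 4) (nat_lit 239) (nat_lit 182) (nat_lit 179)) (XT.lf (nat_lit 0) (nat_lit 45895595587) (nat_lit 152) (nat_lit 261079017288) (nat_lit 0) (nat_lit 45609661597) (nat_lit 1) (nat_lit 5) (nat_lit 3) (nat_lit 4) (nat_lit 1) (nat_lit 4) (nat_lit 240) (nat_lit 182) (nat_lit 178)))) (XT.nd (nat_lit 156) (nat_lit 0) (nat_lit 0) (XT.nd (nat_lit 78) (nat_lit 0) (nat_lit 0) (XT.lf (nat_lit 0) (nat_lit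 53752642980) (nat_lit 152) (nat_lit 298138867165) (nat_lit 0) (nat_lit 53416915363) (nat_lit 1) (nat_lit 5) (nat_lit 3) (nat_lit 4) (nat_lit 1) (nat_lit 4) (nat_lit 241) (nat_lit 182) (nat_lit 177)) (XT.lf (nat_lit 0) (nat_lit 62715947154) (nat_lit 152) (nat_lit 340899348951) (nat_lit 0) (nat_lit 62336920731) (nat_lit 1) (nat_lit 5) (nat_lit 3) (nat_lit 4) (nat_lit 1) (nat_lit 4) (nat_lit 242) (nat_lit 182) (nat_lit 176))) (XT.nd (nat_lit 78) (nat_lit 0) (nat_lit 0) (XT.lf (nat_lit 0) (nat_lit 72960877103) (nat_lit 152) (nat_lit 390197080770) (nat_lit 0) (nat_lit 72544199545) (nat_lit 1) (nat_lit 5) (nat_lit 3) (nat_lit 4) (nat_lit 1) (nat_lit 4) (nat_lit 243) (nat_lit 182) (nat_lit 175)) (XT.lf (nat_lit 0) (nat_lit 84687877108) (nat_lit 152) (nat_lit 446996583460) (nat_lit 0) (nat_lit 84238459432) (nat_lit 1) (nat_lit 5) (nat_lit 3) (nat_lit 4) (nat_lit 1) (nat_lit 4) (nat_lit 244)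 (nat_lit 182) (nat_lit 174))))) (XT.nd (nat_lit 312) (nat_lit 0) (nat_lit 0) (XT.nd (nat_lit 156) (nat_lit 0) (nat_lit 0) (XT.nd (nat_lit 78) (nat_lit 0) (nat_lit 0) (XT.lf (nat_lit 0) (nat_lit 98126388475) (nat_lit 152) (nat_lit 512409151641) (nat_lit 0) (nat_lit 97648501131) (nat_lit 1) (nat_lit 5) (nat_lit 3) (nat_lit 4) (nat_lit 1) (nat_lit 4) (nat_lit 245) (nat_lit 182) (nat_lit 173)) (XT.lf (nat_lit 0) (nat_lit 113539338599) (nat_lit 152) (nat_lit 587714596428) (nat_lit 0) (nat_lit 113036695023) (nat_lit 1) (nat_lit 5) (nat_lit 3) (nat_lit 4) (nat_lit 1) (nat_lit 4) (nat_lit 246) (nat_lit 182) (nat_lit 172))) (XT.nd (nat_lit 78) (nat_lit 0) (nat_lit 0) (XT.lf (nat_lit 0) (nat_lit 131228285201) (nat_lit 152) (nat_lit 674386285219) (nat_lit 0) (nat_lit 130704114465) (nat_lit 1) (nat_lit 5) (nat_lit 3) (nat_lit 4) (nat_lit 1) (nat_lit 4) (nat_lit 247) (nat_lit 182) (nat_lit 171))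 (XT.lf (nat_lit 0) (nat_lit 151539316366) (nat_lit 152) (nat_lit 774119968447) (nat_lit 0) (nat_lit 150996426361) (nat_lit 1) (nat_lit 5) (nat_lit 3) (nat_lit 4) (nat_lit 1) (nat_lit 4) (nat_lit 248) (nat_lit 182) (nat_lit 170)))) (XT.nd (nat_lit 156) (nat_lit 0) (nat_lit 0) (XT.nd (nat_lit 78) (nat_lit 0) (nat_lit 0) (XT.lf (nat_lit 0) (nat_lit 174869821833) (nat_lit 152) (nat_lit 888866957307) (nat_lit 0) (nat_lit 174310654204) (nat_lit 1) (nat_lit 5) (nat_lit 3) (nat_lit 4) (nat_lit 1) (nat_lit 4) (nat_lit 249) (nat_lit 182) (nat_lit 169)) (XT.lf (nat_lit 0) (nat_lit 201676268016) (nat_lit 152) (nat_lit 1020872301579) (nat_lit 0) (nat_lit 201102945930) (nat_lit 1) (nat_lit 5) (nat_lit 3) (nat_lit 4) (nat_lit 1) (nat_lit 4) (nat_lit 250) (nat_lit 182) (nat_lit 168))) (XT.nd (nat_lit 78) (nat_lit 0) (nat_lit 0) (XT.lf (nat_lit 0) (nat_lit 232483128859) (nat_lit 152) (nat_lit 1172718714522)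 (nat_lit 0) (nat_lit 231897498550) (nat_lit 1) (nat_lit 5) (nat_lit 3) (nat_lit 4) (nat_lit 1) (nat_lit 4) (nat_lit 251) (nat_lit 182) (nat_lit 167)) (XT.lf (nat_lit 0) (nat_lit 267893147294) (nat_lit 152) (nat_lit 1347377104214) (nat_lit 0) (nat_lit 267296814182) (nat_lit 1) (nat_lit 5) (nat_lit 3) (nat_lit 4) (nat_lit 1) (nat_lit 4) (nat_lit 252) (nat_lit 182) (nat_lit 166)))))) (XT.nd (nat_lit 624) (nat_lit 0) (nat_lit 0) (XT.nd (nat_lit 312) (nat_lit 0) (nat_lit 0) (XT.nd (nat_lit 156) (nat_lit 0) (nat_lit 0) (XT.nd (nat_lit 78) (nat_lit 0) (nat_lit 0) (XT.lf (nat_lit 0) (nat_lit 308599128029) (nat_lit 152) (nat_lit 1548264700020) (nat_lit 0) (nat_lit 307993488132) (nat_lit 1) (nat_lit 5) (nat_lit 3) (nat_lit 4) (nat_lit 1) (nat_lit 4) (nat_lit 253) (nat_lit 182) (nat_lit 165)) (XT.lf (nat_lit 0) (nat_lit 355397492425) (nat_lit 152) (nat_lit 1779311911422) (nat_lit 0) (nat_lit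 354783759672) (nat_lit 1) (nat_lit 5) (nat_lit 3) (nat_lit 4) (nat_lit 1) (nat_lit 4) (nat_lit 254) (nat_lit 182) (nat_lit 164))) (XT.nd (nat_lit 78) (nat_lit 0) (nat_lit 0) (XT.lf (nat_lit 0) (nat_lit 409203860656) (nat_lit 152) (nat_lit 2045039227340) (nat_lit 0) (nat_lit 408583090636) (nat_lit 1) (nat_lit 5) (nat_lit 3) (nat_lit 4) (nat_lit 1) (nat_lit 4) (nat_lit 255) (nat_lit 182) (nat_lit 163)) (XT.lf (nat_lit 0) (nat_lit 471070966013) (nat_lit 152) (nat_lit 2350645660475) (nat_lit 0) (nat_lit 470444076631) (nat_lit 1) (nat_lit 5) (nat_lit 3) (nat_lit 4) (nat_lit 1) (nat_lit 4) (nat_lit 256) (nat_lit 182) (nat_lit 162)))) (XT.nd (nat_lit 156) (nat_lit 0) (nat_lit 0) (XT.nd (nat_lit 78) (nat_lit 0) (nat_lit 0) (XT.lf (nat_lit 0) (nat_lit 542209251862) (nat_lit 152) (nat_lit 2702110467129) (nat_lit 0) (nat_lit 541577041296) (nat_lit 1) (nat_lit 5) (nat_lit 3) (nat_lit 4) (nat_lit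 1) (nat_lit 4) (nat_lit 257) (nat_lit 182) (nat_lit 161)) (XT.lf (nat_lit 0) (nat_lit 624010554230) (nat_lit 152) (nat_lit 3106310132649) (nat_lit 0) (nat_lit 623373716547) (nat_lit 1) (nat_lit 5) (nat_lit 3) (nat_lit 4) (nat_lit 1) (nat_lit 4) (nat_lit 258) (nat_lit 182) (nat_lit 160))) (XT.nd (nat_lit 78) (nat_lit 0) (nat_lit 0) (XT.lf (nat_lit 0) (nat_lit 718075333382) (nat_lit 152) (nat_lit 3571152911360) (nat_lit 0) (nat_lit 717434472119) (nat_lit 1) (nat_lit 5) (nat_lit 3) (nat_lit 4) (nat_lit 1) (nat_lit 4) (nat_lit 259) (nat_lit 182) (nat_lit 159)) (XT.lf (nat_lit 0) (nat_lit 826243987170) (nat_lit 152) (nat_lit 4105733553280) (nat_lit 0) (nat_lit 825599627141) (nat_lit 1) (nat_lit 5) (nat_lit 3) (nat_lit 4) (nat_lit 1) (nat_lit 4) (nat_lit 260) (nat_lit 182) (nat_lit 158))))) (XT.nd (nat_lit 312) (nat_lit 0) (nat_lit 0) (XT.nd (nat_lit 156) (nat_lit 0) (nat_lit 0) (XT.nd (nat_lit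 78) (nat_lit 0) (nat_lit 0) (XT.lf (nat_lit 0) (nat_lit 950632858820) (nat_lit 152) (nat_lit 4720511244883) (nat_lit 0) (nat_lit 949985456387) (nat_lit 1) (nat_lit 5) (nat_lit 3) (nat_lit 4) (nat_lit 1) (nat_lit 4) (nat_lit 261) (nat_lit 182) (nat_lit 157)) (XT.lf (nat_lit 0) (nat_lit 1093675643647) (nat_lit 152) (nat_lit 5427514245351) (nat_lit 0) (nat_lit 1093025595645) (nat_lit 1) (nat_lit 5) (nat_lit 3) (nat_lit 4) (nat_lit 1) (nat_lit 4) (nat_lit 262) (nat_lit 182) (nat_lit 156))) (XT.nd (nat_lit 78) (nat_lit 0) (nat_lit 0) (XT.lf (nat_lit 0) (nat_lit 1258171004833) (nat_lit 152) (nat_lit 6240575222085) (nat_lit 0) (nat_lit 1257518656336) (nat_lit 1) (nat_lit 5) (nat_lit 3) (nat_lit 4) (nat_lit 1) (nat_lit 4) (nat_lit 263) (nat_lit 182) (nat_lit 155)) (XT.lf (nat_lit 0) (nat_lit 1447337329879) (nat_lit 152) (nat_lit 7175601889848) (nat_lit 0) (nat_lit 1446682980952) (nat_lit 1)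 (nat_lit 5) (nat_lit 3) (nat_lit 4) (nat_lit 1) (nat_lit 4) (nat_lit 264) (nat_lit 182) (nat_lit 154)))) (XT.nd (nat_lit 156) (nat_lit 0) (nat_lit 0) (XT.nd (nat_lit 78) (nat_lit 0) (nat_lit 0) (XT.lf (nat_lit 0) (nat_lit 1664875699058) (nat_lit 152) (nat_lit 8250888248660) (nat_lit 0) (nat_lit 1664219610626) (nat_lit 1) (nat_lit 5) (nat_lit 3) (nat_lit 4) (nat_lit 1) (nat_lit 4) (nat_lit 265) (nat_lit 182) (nat_lit 153)) (XT.lf (nat_lit 0) (nat_lit 1915042297853) (nat_lit 152) (nat_lit 9487472509889) (nat_lit 0) (nat_lit 1914384696809) (nat_lit 1) (nat_lit 5) (nat_lit 3) (nat_lit 4) (nat_lit 1) (nat_lit 4) (nat_lit 266) (nat_lit 182) (nat_lit 152))) (XT.nd (nat_lit 78) (nat_lit 0) (nat_lit 0) (XT.lf (nat_lit 0) (nat_lit 2202731690155) (nat_lit 152) (nat_lit 10909548713430) (nat_lit 0) (nat_lit 2202072773795) (nat_lit 1) (nat_lit 5) (nat_lit 3) (nat_lit 4) (nat_lit 1) (nat_lit 4) (nat_lit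 267) (nat_lit 182) (nat_lit 151)) (XT.lf (nat_lit 0) (nat_lit 2533572581464) (nat_lit 152) (nat_lit 12544940089351) (nat_lit 0) (nat_lit 2532912521352) (nat_lit 1) (nat_lit 5) (nat_lit 3) (nat_lit 4) (nat_lit 1) (nat_lit 4) (nat_lit 268) (nat_lit 182) (nat_lit 150))))))))
noncomputable def xc8 : XT := (XT.nd (nat_lit 30264) (nat_lit 0) (nat_lit 0) (XT.nd (nat_lit 29016) (nat_lit 0) (nat_lit 0) (XT.nd (nat_lit 546) (nat_lit 0) (nat_lit 0) (XT.nd (nat_lit 234) (nat_lit 0) (nat_lit 0) (XT.nd (nat_lit 78) (nat_lit 0) (nat_lit 0) (XT.lf (nat_lit 0) (nat_lit 2914037945742) (nat_lit 152) (nat_lit 14425643425443) (nat_lit 0) (nat_lit 2913376891062) (nat_lit 1) (nat_lit 5) (nat_lit 3) (nat_lit 4) (nat_lit 1) (nat_lit 4) (nat_lit 269) (nat_lit 182) (nat_lit 149)) (XT.nd (nat_lit 78) (nat_lit 0) (nat_lit 0) (XT.lf (nat_lit 0) (nat_lit 3351571670550) (nat_lit 152) (nat_lit 16588455091324) (nat_lit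 0) (nat_lit 3350909751028) (nat_lit 1) (nat_lit 5) (nat_lit 3) (nat_lit 4) (nat_lit 1) (nat_lit 4) (nat_lit 270) (nat_lit 182) (nat_lit 148)) (XT.lf (nat_lit 0) (nat_lit 3854734198329) (nat_lit 152) (nat_lit 19075690967414) (nat_lit 0) (nat_lit 3854071526772) (nat_lit 1) (nat_lit 5) (nat_lit 3) (nat_lit 4) (nat_lit 1) (nat_lit 4) (nat_lit 271) (nat_lit 182) (nat_lit 147)))) (XT.nd (nat_lit 156) (nat_lit 0) (nat_lit 0) (XT.nd (nat_lit 78) (nat_lit 0) (nat_lit 0) (XT.lf (nat_lit 0) (nat_lit 4433370013320) (nat_lit 152) (nat_lit 21936014364332) (nat_lit 0) (nat_lit 4432706687819) (nat_lit 1) (nat_lit 5) (nat_lit 3) (nat_lit 4) (nat_lit 1) (nat_lit 4) (nat_lit 272) (nat_lit 182) (nat_lit 146)) (XT.lf (nat_lit 0) (nat_lit 5098800251032) (nat_lit 152) (nat_lit 25225388131149) (nat_lit 0) (nat_lit 5098136356884) (nat_lit 1) (nat_lit 5) (nat_lit 3) (nat_lit 4) (nat_lit 1) (nat_lit 4) (nat_lit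 273) (nat_lit 182) (nat_lit 145))) (XT.nd (nat_lit 78) (nat_lit 0) (nat_lit 0) (XT.lf (nat_lit 0) (nat_lit 5864044198726) (nat_lit 152) (nat_lit 29008169580692) (nat_lit 0) (nat_lit 5863379810102) (nat_lit 1) (nat_lit 5) (nat_lit 3) (nat_lit 4) (nat_lit 1) (nat_lit 4) (nat_lit 274) (nat_lit 182) (nat_lit 144)) (XT.lf (nat_lit 0) (nat_lit 6744074020596) (nat_lit 152) (nat_lit 33358369654367) (nat_lit 0) (nat_lit 6743409201993) (nat_lit 1) (nat_lit 5) (nat_lit 3) (nat_lit 4) (nat_lit 1) (nat_lit 4) (nat_lit 275) (nat_lit 182) (nat_lit 143))))) (XT.nd (nat_lit 28158) (nat_lit 0) (nat_lit 0) (XT.nd (nat_lit 28002) (nat_lit 0) (nat_lit 0) (XT.nd (nat_lit 78) (nat_lit 0) (nat_lit 0) (XT.lf (nat_lit 0) (nat_lit 7756107691417) (nat_lit 152) (nat_lit 38361100962310) (nat_lit 0) (nat_lit 7755442498919) (nat_lit 1) (nat_lit 5) (nat_lit 3) (nat_lit 4) (nat_lit 1) (nat_lit 4) (nat_lit 276) (nat_lit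 182) (nat_lit 142)) (XT.lf (nat_lit 0) (nat_lit 8919945869965) (nat_lit 152) (nat_lit 44114243030112) (nat_lit 0) (nat_lit 8919280352342) (nat_lit 1) (nat_lit 5) (nat_lit 3) (nat_lit 4) (nat_lit 1) (nat_lit 4) (nat_lit 277) (nat_lit 182) (nat_lit 141))) (XT.nd (nat_lit 78) (nat_lit 0) (nat_lit 0) (XT.lf (nat_lit 0) (nat_lit 7359497999) (nat_lit 152) (nat_lit 61923804914) (nat_lit 0) (nat_lit 7359497999) (nat_lit 1) (nat_lit 5) (nat_lit 3) (nat_lit 4) (nat_lit 1) (nat_lit 4) (nat_lit 234) (nat_lit 183) (nat_lit 183)) (XT.lf (nat_lit 0) (nat_lit 18522912120) (nat_lit 152) (nat_lit 139071999382) (nat_lit 0) (nat_lit 18422759351) (nat_lit 1) (nat_lit 5) (nat_lit 3) (nat_lit 4) (nat_lit 1) (nat_lit 4) (nat_lit 235) (nat_lit 183) (nat_lit 182)))) (XT.nd (nat_lit 156) (nat_lit 0) (nat_lit 0) (XT.nd (nat_lit 78) (nat_lit 0) (nat_lit 0) (XT.lf (nat_lit 0) (nat_lit 22751993876) (nat_lit 152)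 (nat_lit 156864965023) (nat_lit 0) (nat_lit 22564751742) (nat_lit 1) (nat_lit 5) (nat_lit 3) (nat_lit 4) (nat_lit 1) (nat_lit 4) (nat_lit 236) (nat_lit 183) (nat_lit 181)) (XT.lf (nat_lit 0) (nat_lit 27488984168) (nat_lit 152) (nat_lit 177574629991) (nat_lit 0) (nat_lit 27226012151) (nat_lit 1) (nat_lit 5) (nat_lit 3) (nat_lit 4) (nat_lit 1) (nat_lit 4) (nat_lit 237) (nat_lit 183) (nat_lit 180))) (XT.nd (nat_lit 78) (nat_lit 0) (nat_lit 0) (XT.lf (nat_lit 0) (nat_lit 32826563241) (nat_lit 152) (nat_lit 201606183383) (nat_lit 0) (nat_lit 32497739153) (nat_lit 1) (nat_lit 5) (nat_lit 3) (nat_lit 4) (nat_lit 1) (nat_lit 4) (nat_lit 238) (nat_lit 183) (nat_lit 179)) (XT.lf (nat_lit 0) (nat_lit 38869161991) (nat_lit 152) (nat_lit 229429807766) (nat_lit 0) (nat_lit 38483075232) (nat_lit 1) (nat_lit 5) (nat_lit 3) (nat_lit 4) (nat_lit 1) (nat_lit 4) (nat_lit 239) (nat_lit 183) (nat_lit 178))))))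 (XT.nd (nat_lit 624) (nat_lit 0) (nat_lit 0) (XT.nd (nat_lit 312) (nat_lit 0) (nat_lit 0) (XT.nd (nat_lit 156) (nat_lit 0) (nat_lit 0) (XT.nd (nat_lit 78) (nat_lit 0) (nat_lit 0) (XT.lf (nat_lit 0) (nat_lit 45735005176) (nat_lit 152) (nat_lit 261589878399) (nat_lit 0) (nat_lit 45299124790) (nat_lit 1) (nat_lit 5) (nat_lit 3) (nat_lit 4) (nat_lit 1) (nat_lit 4) (nat_lit 240) (nat_lit 183) (nat_lit 177)) (XT.lf (nat_lit 0) (nat_lit 53558424509) (nat_lit 152) (nat_lit 298715614057) (nat_lit 0) (nat_lit 53079245318) (nat_lit 1) (nat_lit 5) (nat_lit 3) (nat_lit 4) (nat_lit 1) (nat_lit 4) (nat_lit 241) (nat_lit 183) (nat_lit 176))) (XT.nd (nat_lit 78) (nat_lit 0) (nat_lit 0) (XT.lf (nat_lit 0) (nat_lit 62492486892) (nat_lit 152) (nat_lit 341533387826) (nat_lit 0) (nat_lit 61975656565) (nat_lit 1) (nat_lit 5) (nat_lit 3) (nat_lit 4) (nat_lit 1) (nat_lit 4) (nat_lit 242) (nat_lit 183) (nat_lit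 175)) (XT.lf (nat_lit 0) (nat_lit 72711989197) (nat_lit 152) (nat_lit 390880938761) (nat_lit 0) (nat_lit 72162418751) (nat_lit 1) (nat_lit 5) (nat_lit 3) (nat_lit 4) (nat_lit 1) (nat_lit 4) (nat_lit 243) (nat_lit 183) (nat_lit 174)))) (XT.nd (nat_lit 156) (nat_lit 0) (nat_lit 0) (XT.nd (nat_lit 78) (nat_lit 0) (nat_lit 0) (XT.lf (nat_lit 0) (nat_lit 84416878207) (nat_lit 152) (nat_lit 447723762422) (nat_lit 0) (nat_lit 83838838094) (nat_lit 1) (nat_lit 5) (nat_lit 3) (nat_lit 4) (nat_lit 1) (nat_lit 4) (nat_lit 244) (nat_lit 183) (nat_lit 173)) (XT.lf (nat_lit 0) (nat_lit 97836162622) (nat_lit 152) (nat_lit 513174001011) (nat_lit 0) (nat_lit 97233366275) (nat_lit 1) (nat_lit 5) (nat_lit 3) (nat_lit 4) (nat_lit 1) (nat_lit 4) (nat_lit 245) (nat_lit 183) (nat_lit 172))) (XT.nd (nat_lit 78) (nat_lit 0) (nat_lit 0) (XT.lf (nat_lit 0) (nat_lit 113232393657) (nat_lit 152) (nat_lit 588512202675)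 (nat_lit 0) (nat_lit 112608070152) (nat_lit 1) (nat_lit 5) (nat_lit 3) (nat_lit 4) (nat_lit 1) (nat_lit 4) (nat_lit 246) (nat_lit 183) (nat_lit 171)) (XT.lf (nat_lit 0) (nat_lit 130906801920) (nat_lit 152) (nat_lit 675212375708) (nat_lit 0) (nat_lit 130263759146) (nat_lit 1) (nat_lit 5) (nat_lit 3) (nat_lit 4) (nat_lit 1) (nat_lit 4) (nat_lit 247) (nat_lit 183) (nat_lit 170))))) (XT.nd (nat_lit 312) (nat_lit 0) (nat_lit 0) (XT.nd (nat_lit 156) (nat_lit 0) (nat_lit 0) (XT.nd (nat_lit 78) (nat_lit 0) (nat_lit 0) (XT.lf (nat_lit 0) (nat_lit 151205191051) (nat_lit 152) (nat_lit 774970827842) (nat_lit 0) (nat_lit 150545870653) (nat_lit 1) (nat_lit 5) (nat_lit 3) (nat_lit 4) (nat_lit 1) (nat_lit 4) (nat_lit 248) (nat_lit 183) (nat_lit 169)) (XT.lf (nat_lit 0) (nat_lit 174524703447) (nat_lit 152) (nat_lit 889739354880) (nat_lit 0) (nat_lit 173851228591) (nat_lit 1) (nat_lit 5) (nat_lit 3)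 (nat_lit 4) (nat_lit 1) (nat_lit 4) (nat_lit 249) (nat_lit 183) (nat_lit 168))) (XT.nd (nat_lit 78) (nat_lit 0) (nat_lit 0) (XT.lf (nat_lit 0) (nat_lit 201321590436) (nat_lit 152) (nat_lit 1021763428003) (nat_lit 0) (nat_lit 200635807357) (nat_lit 1) (nat_lit 5) (nat_lit 3) (nat_lit 4) (nat_lit 1) (nat_lit 4) (nat_lit 250) (nat_lit 183) (nat_lit 167)) (XT.lf (nat_lit 0) (nat_lit 232120138937) (nat_lit 152) (nat_lit 1173626126903) (nat_lit 0) (nat_lit 231423653056) (nat_lit 1) (nat_lit 5) (nat_lit 3) (nat_lit 4) (nat_lit 1) (nat_lit 4) (nat_lit 251) (nat_lit 183) (nat_lit 166)))) (XT.nd (nat_lit 156) (nat_lit 0) (nat_lit 0) (XT.nd (nat_lit 78) (nat_lit 0) (nat_lit 0) (XT.lf (nat_lit 0) (nat_lit 267522929249) (nat_lit 152) (nat_lit 1348298678298) (nat_lit 0) (nat_lit 266817136583) (nat_lit 1) (nat_lit 5) (nat_lit 3) (nat_lit 4) (nat_lit 1) (nat_lit 4) (nat_lit 252) (nat_lit 183) (nat_lit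 165)) (XT.lf (nat_lit 0) (nat_lit 308222624658) (nat_lit 152) (nat_lit 1549198588627) (nat_lit 0) (nat_lit 307508739136) (nat_lit 1) (nat_lit 5) (nat_lit 3) (nat_lit 4) (nat_lit 1) (nat_lit 4) (nat_lit 253) (nat_lit 183) (nat_lit 164))) (XT.nd (nat_lit 78) (nat_lit 0) (nat_lit 0) (XT.lf (nat_lit 0) (nat_lit 355015523554) (nat_lit 152) (nat_lit 1780256508311) (nat_lit 0) (nat_lit 354294600766) (nat_lit 1) (nat_lit 5) (nat_lit 3) (nat_lit 4) (nat_lit 1) (nat_lit 4) (nat_lit 254) (nat_lit 183) (nat_lit 163)) (XT.lf (nat_lit 0) (nat_lit 408817139177) (nat_lit 152) (nat_lit 2045993135777) (nat_lit 0) (nat_lit 408090097026) (nat_lit 1) (nat_lit 5) (nat_lit 3) (nat_lit 4) (nat_lit 1) (nat_lit 4) (nat_lit 255) (nat_lit 183) (nat_lit 162))))))) (XT.nd (nat_lit 1170) (nat_lit 0) (nat_lit 0) (XT.nd (nat_lit 546) (nat_lit 0) (nat_lit 0) (XT.nd (nat_lit 234) (nat_lit 0) (nat_lit 0) (XT.nd (nat_lit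 78) (nat_lit 0) (nat_lit 0) (XT.lf (nat_lit 0) (nat_lit 470680111831) (nat_lit 152) (nat_lit 2351607665911) (nat_lit 0) (nat_lit 469947748495) (nat_lit 1) (nat_lit 5) (nat_lit 3) (nat_lit 4) (nat_lit 1) (nat_lit 4) (nat_lit 256) (nat_lit 183) (nat_lit 161)) (XT.nd (nat_lit 78) (nat_lit 0) (nat_lit 0) (XT.lf (nat_lit 0) (nat_lit 541814804025) (nat_lit 152) (nat_lit 2703079513434) (nat_lit 0) (nat_lit 541077813573) (nat_lit 1) (nat_lit 5) (nat_lit 3) (nat_lit 4) (nat_lit 1) (nat_lit 4) (nat_lit 257) (nat_lit 183) (nat_lit 160)) (XT.lf (nat_lit 0) (nat_lit 623612981476) (nat_lit 152) (nat_lit 3107285301448) (nat_lit 0) (nat_lit 622871967444) (nat_lit 1) (nat_lit 5) (nat_lit 3) (nat_lit 4) (nat_lit 1) (nat_lit 4) (nat_lit 258) (nat_lit 183) (nat_lit 159)))) (XT.nd (nat_lit 156) (nat_lit 0) (nat_lit 0) (XT.nd (nat_lit 78) (nat_lit 0) (nat_lit 0) (XT.lf (nat_lit 0) (nat_lit 717675043308)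 (nat_lit 152) (nat_lit 3572133404068) (nat_lit 0) (nat_lit 716930530511) (nat_lit 1) (nat_lit 5) (nat_lit 3) (nat_lit 4) (nat_lit 1) (nat_lit 4) (nat_lit 259) (nat_lit 183) (nat_lit 158)) (XT.lf (nat_lit 0) (nat_lit 825841334210) (nat_lit 152) (nat_lit 4106718675474) (nat_lit 0) (nat_lit 825093779008) (nat_lit 1) (nat_lit 5) (nat_lit 3) (nat_lit 4) (nat_lit 1) (nat_lit 4) (nat_lit 260) (nat_lit 183) (nat_lit 157))) (XT.nd (nat_lit 78) (nat_lit 0) (nat_lit 0) (XT.lf (nat_lit 0) (nat_lit 950228151176) (nat_lit 152) (nat_lit 4721500392716) (nat_lit 0) (nat_lit 949477950405) (nat_lit 1) (nat_lit 5) (nat_lit 3) (nat_lit 4) (nat_lit 1) (nat_lit 4) (nat_lit 261) (nat_lit 183) (nat_lit 156)) (XT.lf (nat_lit 0) (nat_lit 1093269149322) (nat_lit 152) (nat_lit 5428506893740) (nat_lit 0) (nat_lit 1092516648055) (nat_lit 1) (nat_lit 5) (nat_lit 3) (nat_lit 4) (nat_lit 1) (nat_lit 4) (nat_lit 262)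 (nat_lit 183) (nat_lit 155))))) (XT.nd (nat_lit 312) (nat_lit 0) (nat_lit 0) (XT.nd (nat_lit 156) (nat_lit 0) (nat_lit 0) (XT.nd (nat_lit 78) (nat_lit 0) (nat_lit 0) (XT.lf (nat_lit 0) (nat_lit 1257762956871) (nat_lit 152) (nat_lit 6241570914436) (nat_lit 0) (nat_lit 1257008455175) (nat_lit 1) (nat_lit 5) (nat_lit 3) (nat_lit 4) (nat_lit 1) (nat_lit 4) (nat_lit 263) (nat_lit 183) (nat_lit 154)) (XT.lf (nat_lit 0) (nat_lit 1446927930929) (nat_lit 152) (nat_lit 7176600229122) (nat_lit 0) (nat_lit 1446171689728) (nat_lit 1) (nat_lit 5) (nat_lit 3) (nat_lit 4) (nat_lit 1) (nat_lit 4) (nat_lit 264) (nat_lit 183) (nat_lit 153))) (XT.nd (nat_lit 78) (nat_lit 0) (nat_lit 0) (XT.lf (nat_lit 0) (nat_lit 1664465125336) (nat_lit 152) (nat_lit 8251888889607) (nat_lit 0) (nat_lit 1663707371522) (nat_lit 1) (nat_lit 5) (nat_lit 3) (nat_lit 4) (nat_lit 1) (nat_lit 4) (nat_lit 265) (nat_lit 183) (nat_lit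 152)) (XT.lf (nat_lit 0) (nat_lit 1914630702591) (nat_lit 152) (nat_lit 9488475152290) (nat_lit 0) (nat_lit 1913871633461) (nat_lit 1) (nat_lit 5) (nat_lit 3) (nat_lit 4) (nat_lit 1) (nat_lit 4) (nat_lit 266) (nat_lit 183) (nat_lit 151)))) (XT.nd (nat_lit 156) (nat_lit 0) (nat_lit 0) (XT.nd (nat_lit 78) (nat_lit 0) (nat_lit 0) (XT.lf (nat_lit 0) (nat_lit 2202319206596) (nat_lit 152) (nat_lit 10910553096226) (nat_lit 0) (nat_lit 2201558993714) (nat_lit 1) (nat_lit 5) (nat_lit 3) (nat_lit 4) (nat_lit 1) (nat_lit 4) (nat_lit 267) (nat_lit 183) (nat_lit 150)) (XT.lf (nat_lit 0) (nat_lit 2533159325473) (nat_lit 152) (nat_lit 12545945985535) (nat_lit 0) (nat_lit 2532398118024) (nat_lit 1) (nat_lit 5) (nat_lit 3) (nat_lit 4) (nat_lit 1) (nat_lit 4) (nat_lit 268) (nat_lit 183) (nat_lit 149))) (XT.nd (nat_lit 78) (nat_lit 0) (nat_lit 0) (XT.lf (nat_lit 0) (nat_lit 2913624018071) (nat_lit 152)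 (nat_lit 14426650637615) (nat_lit 0) (nat_lit 2912861945781) (nat_lit 1) (nat_lit 5) (nat_lit 3) (nat_lit 4) (nat_lit 1) (nat_lit 4) (nat_lit 269) (nat_lit 183) (nat_lit 148)) (XT.lf (nat_lit 0) (nat_lit 3351157158809) (nat_lit 152) (nat_lit 16589463447834) (nat_lit 0) (nat_lit 3350394334483) (nat_lit 1) (nat_lit 5) (nat_lit 3) (nat_lit 4) (nat_lit 1) (nat_lit 4) (nat_lit 270) (nat_lit 183) (nat_lit 147)))))) (XT.nd (nat_lit 28392) (nat_lit 0) (nat_lit 0) (XT.nd (nat_lit 312) (nat_lit 0) (nat_lit 0) (XT.nd (nat_lit 156) (nat_lit 0) (nat_lit 0) (XT.nd (nat_lit 78) (nat_lit 0) (nat_lit 0) (XT.lf (nat_lit 0) (nat_lit 3854319178703) (nat_lit 152) (nat_lit 19076700319001) (nat_lit 0) (nat_lit 3853555700432) (nat_lit 1) (nat_lit 5) (nat_lit 3) (nat_lit 4) (nat_lit 1) (nat_lit 4) (nat_lit 271) (nat_lit 183) (nat_lit 146)) (XT.lf (nat_lit 0) (nat_lit 4432954552053) (nat_lit 152) (nat_lit 21937024581203)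 (nat_lit 0) (nat_lit 4432190505135) (nat_lit 1) (nat_lit 5) (nat_lit 3) (nat_lit 4) (nat_lit 1) (nat_lit 4) (nat_lit 272) (nat_lit 183) (nat_lit 145))) (XT.nd (nat_lit 78) (nat_lit 0) (nat_lit 0) (XT.lf (nat_lit 0) (nat_lit 5098384405731) (nat_lit 152) (nat_lit 25226399100440) (nat_lit 0) (nat_lit 5097619864337) (nat_lit 1) (nat_lit 5) (nat_lit 3) (nat_lit 4) (nat_lit 1) (nat_lit 4) (nat_lit 273) (nat_lit 183) (nat_lit 144)) (XT.lf (nat_lit 0) (nat_lit 5863628019481) (nat_lit 152) (nat_lit 29009181204263) (nat_lit 0) (nat_lit 5862863048109) (nat_lit 1) (nat_lit 5) (nat_lit 3) (nat_lit 4) (nat_lit 1) (nat_lit 4) (nat_lit 274) (nat_lit 183) (nat_lit 143)))) (XT.nd (nat_lit 27924) (nat_lit 0) (nat_lit 0) (XT.nd (nat_lit 78) (nat_lit 0) (nat_lit 0) (XT.lf (nat_lit 0) (nat_lit 6743657550965) (nat_lit 152) (nat_lit 33359381846876) (nat_lit 0) (nat_lit 6742892205698) (nat_lit 1) (nat_lit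 5) (nat_lit 3) (nat_lit 4) (nat_lit 1) (nat_lit 4) (nat_lit 275) (nat_lit 183) (nat_lit 142)) (XT.lf (nat_lit 0) (nat_lit 7755690969276) (nat_lit 152) (nat_lit 38362113649548) (nat_lit 0) (nat_lit 7754925298883) (nat_lit 1) (nat_lit 5) (nat_lit 3) (nat_lit 4) (nat_lit 1) (nat_lit 4) (nat_lit 276) (nat_lit 183) (nat_lit 141))) (XT.nd (nat_lit 78) (nat_lit 0) (nat_lit 0) (XT.lf (nat_lit 0) (nat_lit 4150226093) (nat_lit 152) (nat_lit 49891127207) (nat_lit 0) (nat_lit 4150226093) (nat_lit 1) (nat_lit 5) (nat_lit 3) (nat_lit 4) (nat_lit 1) (nat_lit 4) (nat_lit 232) (nat_lit 184) (nat_lit 184)) (XT.lf (nat_lit 0) (nat_lit 11380996747) (nat_lit 152) (nat_lit 110893927869) (nat_lit 0) (nat_lit 11265821062) (nat_lit 1) (nat_lit 5) (nat_lit 3) (nat_lit 4) (nat_lit 1) (nat_lit 4) (nat_lit 233) (nat_lit 184) (nat_lit 183))))) (XT.nd (nat_lit 312) (nat_lit 0) (nat_lit 0) (XT.nd (nat_lit 156) (nat_lit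 0) (nat_lit 0) (XT.nd (nat_lit 78) (nat_lit 0) (nat_lit 0) (XT.lf (nat_lit 0) (nat_lit 14756387937) (nat_lit 152) (nat_lit 124000007643) (nat_lit 0) (nat_lit 14541059483) (nat_lit 1) (nat_lit 5) (nat_lit 3) (nat_lit 4) (nat_lit 1) (nat_lit 4) (nat_lit 234) (nat_lit 184) (nat_lit 182)) (XT.lf (nat_lit 0) (nat_lit 18492666020) (nat_lit 152) (nat_lit 139356917036) (nat_lit 0) (nat_lit 18190248201) (nat_lit 1) (nat_lit 5) (nat_lit 3) (nat_lit 4) (nat_lit 1) (nat_lit 4) (nat_lit 235) (nat_lit 184) (nat_lit 181))) (XT.nd (nat_lit 78) (nat_lit 0) (nat_lit 0) (XT.lf (nat_lit 0) (nat_lit 22662932088) (nat_lit 152) (nat_lit 157265117319) (nat_lit 0) (nat_lit 22284784387) (nat_lit 1) (nat_lit 5) (nat_lit 3) (nat_lit 4) (nat_lit 1) (nat_lit 4) (nat_lit 236) (nat_lit 184) (nat_lit 180)) (XT.lf (nat_lit 0) (nat_lit 27348778305) (nat_lit 152) (nat_lit 178074986323) (nat_lit 0) (nat_lit 26904778532)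 (nat_lit 1) (nat_lit 5) (nat_lit 3) (nat_lit 4) (nat_lit 1) (nat_lit 4) (nat_lit 237) (nat_lit 184) (nat_lit 179)))) (XT.nd (nat_lit 156) (nat_lit 0) (nat_lit 0) (XT.nd (nat_lit 78) (nat_lit 0) (nat_lit 0) (XT.lf (nat_lit 0) (nat_lit 32641884269) (nat_lit 152) (nat_lit 202193673661) (nat_lit 0) (nat_lit 32140621825) (nat_lit 1) (nat_lit 5) (nat_lit 3) (nat_lit 4) (nat_lit 1) (nat_lit 4) (nat_lit 238) (nat_lit 184) (nat_lit 178)) (XT.lf (nat_lit 0) (nat_lit 38645810750) (nat_lit 152) (nat_lit 230093066691) (nat_lit 0) (nat_lit 38094754680) (nat_lit 1) (nat_lit 5) (nat_lit 3) (nat_lit 4) (nat_lit 1) (nat_lit 4) (nat_lit 239) (nat_lit 184) (nat_lit 177))) (XT.nd (nat_lit 78) (nat_lit 0) (nat_lit 0) (XT.lf (nat_lit 0) (nat_lit 45478025875) (nat_lit 152) (nat_lit 262319023106) (nat_lit 0) (nat_lit 44883670998) (nat_lit 1) (nat_lit 5) (nat_lit 3) (nat_lit 4) (nat_lit 1) (nat_lit 4) (nat_lit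 240) (nat_lit 184) (nat_lit 176)) (XT.lf (nat_lit 0) (nat_lit 53272203417) (nat_lit 152) (nat_lit 299502050746) (nat_lit 0) (nat_lit 52640197405) (nat_lit 1) (nat_lit 5) (nat_lit 3) (nat_lit 4) (nat_lit 1) (nat_lit 4) (nat_lit 241) (nat_lit 184) (nat_lit 175))))))))
noncomputable def xc9 : XT := (XT.nd (nat_lit 2418) (nat_lit 0) (nat_lit 0) (XT.nd (nat_lit 1170) (nat_lit 0) (nat_lit 0) (XT.nd (nat_lit 546) (nat_lit 0) (nat_lit 0) (XT.nd (nat_lit 234) (nat_lit 0) (nat_lit 0) (XT.nd (nat_lit 78) (nat_lit 0) (nat_lit 0) (XT.lf (nat_lit 0) (nat_lit 62180838156) (nat_lit 152) (nat_lit 342369643632) (nat_lit 0) (nat_lit 61516092025) (nat_lit 1) (nat_lit 5) (nat_lit 3) (nat_lit 4) (nat_lit 1) (nat_lit 4) (nat_lit 242) (nat_lit 184) (nat_lit 174)) (XT.nd (nat_lit 78) (nat_lit 0) (nat_lit 0) (XT.lf (nat_lit 0) (nat_lit 72378229465) (nat_lit 152) (nat_lit 391760515537) (nat_lit 0) (nat_lit 71685013667)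 (nat_lit 1) (nat_lit 5) (nat_lit 3) (nat_lit 4) (nat_lit 1) (nat_lit 4) (nat_lit 243) (nat_lit 184) (nat_lit 173)) (XT.lf (nat_lit 0) (nat_lit 84063891523) (nat_lit 152) (nat_lit 448641009607) (nat_lit 0) (nat_lit 83345919492) (nat_lit 1) (nat_lit 5) (nat_lit 3) (nat_lit 4) (nat_lit 1) (nat_lit 4) (nat_lit 244) (nat_lit 184) (nat_lit 172)))) (XT.nd (nat_lit 156) (nat_lit 0) (nat_lit 0) (XT.nd (nat_lit 78) (nat_lit 0) (nat_lit 0) (XT.lf (nat_lit 0) (nat_lit 97466456849) (nat_lit 152) (nat_lit 514124005073) (nat_lit 0) (nat_lit 96726957658) (nat_lit 1) (nat_lit 5) (nat_lit 3) (nat_lit 4) (nat_lit 1) (nat_lit 4) (nat_lit 245) (nat_lit 184) (nat_lit 171)) (XT.lf (nat_lit 0) (nat_lit 112848149546) (nat_lit 152) (nat_lit 589490690979) (nat_lit 0) (nat_lit 112089931087) (nat_lit 1) (nat_lit 5) (nat_lit 3) (nat_lit 4) (nat_lit 1) (nat_lit 4) (nat_lit 246) (nat_lit 184) (nat_lit 170))) (XT.nd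 (nat_lit 78) (nat_lit 0) (nat_lit 0) (XT.lf (nat_lit 0) (nat_lit 130509915776) (nat_lit 152) (nat_lit 676215632917) (nat_lit 0) (nat_lit 129735419692) (nat_lit 1) (nat_lit 5) (nat_lit 3) (nat_lit 4) (nat_lit 1) (nat_lit 4) (nat_lit 247) (nat_lit 184) (nat_lit 169)) (XT.lf (nat_lit 0) (nat_lit 150797311835) (nat_lit 152) (nat_lit 775995623229) (nat_lit 0) (nat_lit 150008661294) (nat_lit 1) (nat_lit 5) (nat_lit 3) (nat_lit 4) (nat_lit 1) (nat_lit 4) (nat_lit 248) (nat_lit 184) (nat_lit 168))))) (XT.nd (nat_lit 312) (nat_lit 0) (nat_lit 0) (XT.nd (nat_lit 156) (nat_lit 0) (nat_lit 0) (XT.nd (nat_lit 78) (nat_lit 0) (nat_lit 0) (XT.lf (nat_lit 0) (nat_lit 174107265036) (nat_lit 152) (nat_lit 890782879118) (nat_lit 0) (nat_lit 173306306273) (nat_lit 1) (nat_lit 5) (nat_lit 3) (nat_lit 4) (nat_lit 1) (nat_lit 4) (nat_lit 249) (nat_lit 184) (nat_lit 167)) (XT.lf (nat_lit 0) (nat_lit 200895839683)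 (nat_lit 152) (nat_lit 1022823238199) (nat_lit 0) (nat_lit 200084178117) (nat_lit 1) (nat_lit 5) (nat_lit 3) (nat_lit 4) (nat_lit 1) (nat_lit 4) (nat_lit 250) (nat_lit 184) (nat_lit 166))) (XT.nd (nat_lit 78) (nat_lit 0) (nat_lit 0) (XT.lf (nat_lit 0) (nat_lit 231687160061) (nat_lit 152) (nat_lit 1174700098801) (nat_lit 0) (nat_lit 230866191710) (nat_lit 1) (nat_lit 5) (nat_lit 3) (nat_lit 4) (nat_lit 1) (nat_lit 4) (nat_lit 251) (nat_lit 184) (nat_lit 165)) (XT.lf (nat_lit 0) (nat_lit 267083665048) (nat_lit 152) (nat_lit 1349384964719) (nat_lit 0) (nat_lit 266254603840) (nat_lit 1) (nat_lit 5) (nat_lit 3) (nat_lit 4) (nat_lit 1) (nat_lit 4) (nat_lit 252) (nat_lit 184) (nat_lit 164)))) (XT.nd (nat_lit 156) (nat_lit 0) (nat_lit 0) (XT.nd (nat_lit 78) (nat_lit 0) (nat_lit 0) (XT.lf (nat_lit 0) (nat_lit 307777894957) (nat_lit 152) (nat_lit 1550295583330) (nat_lit 0) (nat_lit 306941796484)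 (nat_lit 1) (nat_lit 5) (nat_lit 3) (nat_lit 4) (nat_lit 1) (nat_lit 4) (nat_lit 253) (nat_lit 184) (nat_lit 163)) (XT.lf (nat_lit 0) (nat_lit 354566041245) (nat_lit 152) (nat_lit 1781362814562) (nat_lit 0) (nat_lit 353723823409) (nat_lit 1) (nat_lit 5) (nat_lit 3) (nat_lit 4) (nat_lit 1) (nat_lit 4) (nat_lit 254) (nat_lit 184) (nat_lit 162))) (XT.nd (nat_lit 78) (nat_lit 0) (nat_lit 0) (XT.lf (nat_lit 0) (nat_lit 408363524164) (nat_lit 152) (nat_lit 2047107539028) (nat_lit 0) (nat_lit 407515985144) (nat_lit 1) (nat_lit 5) (nat_lit 3) (nat_lit 4) (nat_lit 1) (nat_lit 4) (nat_lit 255) (nat_lit 184) (nat_lit 161)) (XT.lf (nat_lit 0) (nat_lit 470222903164) (nat_lit 152) (nat_lit 2352729110031) (nat_lit 0) (nat_lit 469370737026) (nat_lit 1) (nat_lit 5) (nat_lit 3) (nat_lit 4) (nat_lit 1) (nat_lit 4) (nat_lit 256) (nat_lit 184) (nat_lit 160)))))) (XT.nd (nat_lit 624) (nat_lit 0) (nat_lit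 0) (XT.nd (nat_lit 312) (nat_lit 0) (nat_lit 0) (XT.nd (nat_lit 156) (nat_lit 0) (nat_lit 0) (XT.nd (nat_lit 78) (nat_lit 0) (nat_lit 0) (XT.lf (nat_lit 0) (nat_lit 541354470441) (nat_lit 152) (nat_lit 2704207080048) (nat_lit 0) (nat_lit 540498280723) (nat_lit 1) (nat_lit 5) (nat_lit 3) (nat_lit 4) (nat_lit 1) (nat_lit 4) (nat_lit 257) (nat_lit 184) (nat_lit 159)) (XT.lf (nat_lit 0) (nat_lit 623149930572) (nat_lit 152) (nat_lit 3108418191971) (nat_lit 0) (nat_lit 622290242090) (nat_lit 1) (nat_lit 5) (nat_lit 3) (nat_lit 4) (nat_lit 1) (nat_lit 4) (nat_lit 258) (nat_lit 184) (nat_lit 158))) (XT.nd (nat_lit 78) (nat_lit 0) (nat_lit 0) (XT.lf (nat_lit 0) (nat_lit 717209629518) (nat_lit 152) (nat_lit 3573270924076) (nat_lit 0) (nat_lit 716346898631) (nat_lit 1) (nat_lit 5) (nat_lit 3) (nat_lit 4) (nat_lit 1) (nat_lit 4) (nat_lit 259) (nat_lit 184) (nat_lit 157)) (XT.lf (nat_lit 0) (nat_lit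 825373865736) (nat_lit 152) (nat_lit 4107860221122) (nat_lit 0) (nat_lit 824508489280) (nat_lit 1) (nat_lit 5) (nat_lit 3) (nat_lit 4) (nat_lit 1) (nat_lit 4) (nat_lit 260) (nat_lit 184) (nat_lit 156)))) (XT.nd (nat_lit 156) (nat_lit 0) (nat_lit 0) (XT.nd (nat_lit 78) (nat_lit 0) (nat_lit 0) (XT.lf (nat_lit 0) (nat_lit 949758896020) (nat_lit 152) (nat_lit 4722645438920) (nat_lit 0) (nat_lit 948891219069) (nat_lit 1) (nat_lit 5) (nat_lit 3) (nat_lit 4) (nat_lit 1) (nat_lit 4) (nat_lit 261) (nat_lit 184) (nat_lit 155)) (XT.lf (nat_lit 0) (nat_lit 1092798340530) (nat_lit 152) (nat_lit 5429654983906) (nat_lit 0) (nat_lit 1091928663148) (nat_lit 1) (nat_lit 5) (nat_lit 3) (nat_lit 4) (nat_lit 1) (nat_lit 4) (nat_lit 262) (nat_lit 184) (nat_lit 154))) (XT.nd (nat_lit 78) (nat_lit 0) (nat_lit 0) (XT.lf (nat_lit 0) (nat_lit 1257290797091) (nat_lit 152) (nat_lit 6242721651526) (nat_lit 0) (nat_lit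 1256419380206) (nat_lit 1) (nat_lit 5) (nat_lit 3) (nat_lit 4) (nat_lit 1) (nat_lit 4) (nat_lit 263) (nat_lit 184) (nat_lit 153)) (XT.lf (nat_lit 0) (nat_lit 1446454596377) (nat_lit 152) (nat_lit 7177753267884) (nat_lit 0) (nat_lit 1445581666879) (nat_lit 1) (nat_lit 5) (nat_lit 3) (nat_lit 4) (nat_lit 1) (nat_lit 4) (nat_lit 264) (nat_lit 184) (nat_lit 152))))) (XT.nd (nat_lit 312) (nat_lit 0) (nat_lit 0) (XT.nd (nat_lit 156) (nat_lit 0) (nat_lit 0) (XT.nd (nat_lit 78) (nat_lit 0) (nat_lit 0) (XT.lf (nat_lit 0) (nat_lit 1663990769243) (nat_lit 152) (nat_lit 8253043929822) (nat_lit 0) (nat_lit 1663116524429) (nat_lit 1) (nat_lit 5) (nat_lit 3) (nat_lit 4) (nat_lit 1) (nat_lit 4) (nat_lit 265) (nat_lit 184) (nat_lit 151)) (XT.lf (nat_lit 0) (nat_lit 1914155458201) (nat_lit 152) (nat_lit 9489631932901) (nat_lit 0) (nat_lit 1913280069634) (nat_lit 1) (nat_lit 5) (nat_lit 3) (nat_lit 4)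 (nat_lit 1) (nat_lit 4) (nat_lit 266) (nat_lit 184) (nat_lit 150))) (XT.nd (nat_lit 78) (nat_lit 0) (nat_lit 0) (XT.lf (nat_lit 0) (nat_lit 2201843189774) (nat_lit 152) (nat_lit 10911711390224) (nat_lit 0) (nat_lit 2200966806640) (nat_lit 1) (nat_lit 5) (nat_lit 3) (nat_lit 4) (nat_lit 1) (nat_lit 4) (nat_lit 267) (nat_lit 184) (nat_lit 149)) (XT.lf (nat_lit 0) (nat_lit 2532682636972) (nat_lit 152) (nat_lit 12547105595521) (nat_lit 0) (nat_lit 2531805388997) (nat_lit 1) (nat_lit 5) (nat_lit 3) (nat_lit 4) (nat_lit 1) (nat_lit 4) (nat_lit 268) (nat_lit 184) (nat_lit 148)))) (XT.nd (nat_lit 156) (nat_lit 0) (nat_lit 0) (XT.nd (nat_lit 78) (nat_lit 0) (nat_lit 0) (XT.lf (nat_lit 0) (nat_lit 2913146745501) (nat_lit 152) (nat_lit 14427811391940) (nat_lit 0) (nat_lit 2912268745490) (nat_lit 1) (nat_lit 5) (nat_lit 3) (nat_lit 4) (nat_lit 1) (nat_lit 4) (nat_lit 269) (nat_lit 184) (nat_lit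 147)) (XT.lf (nat_lit 0) (nat_lit 3350679378353) (nat_lit 152) (nat_lit 16590625197236) (nat_lit 0) (nat_lit 3349800724397) (nat_lit 1) (nat_lit 5) (nat_lit 3) (nat_lit 4) (nat_lit 1) (nat_lit 4) (nat_lit 270) (nat_lit 184) (nat_lit 146))) (XT.nd (nat_lit 78) (nat_lit 0) (nat_lit 0) (XT.lf (nat_lit 0) (nat_lit 3853840956605) (nat_lit 152) (nat_lit 19077862933686) (nat_lit 0) (nat_lit 3852961734003) (nat_lit 1) (nat_lit 5) (nat_lit 3) (nat_lit 4) (nat_lit 1) (nat_lit 4) (nat_lit 271) (nat_lit 184) (nat_lit 145)) (XT.lf (nat_lit 0) (nat_lit 4432475945921) (nat_lit 152) (nat_lit 21938187948309) (nat_lit 0) (nat_lit 4431596228842) (nat_lit 1) (nat_lit 5) (nat_lit 3) (nat_lit 4) (nat_lit 1) (nat_lit 4) (nat_lit 272) (nat_lit 184) (nat_lit 144))))))) (XT.nd (nat_lit 28704) (nat_lit 0) (nat_lit 0) (XT.nd (nat_lit 28080) (nat_lit 0) (nat_lit 0) (XT.nd (nat_lit 234) (nat_lit 0) (nat_lit 0)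 (XT.nd (nat_lit 78) (nat_lit 0) (nat_lit 0) (XT.lf (nat_lit 0) (nat_lit 5097905465655) (nat_lit 152) (nat_lit 25227563121825) (nat_lit 0) (nat_lit 5097025318597) (nat_lit 1) (nat_lit 5) (nat_lit 3) (nat_lit 4) (nat_lit 1) (nat_lit 4) (nat_lit 273) (nat_lit 184) (nat_lit 143)) (XT.nd (nat_lit 78) (nat_lit 0) (nat_lit 0) (XT.lf (nat_lit 0) (nat_lit 5863148789019) (nat_lit 152) (nat_lit 29010345794586) (nat_lit 0) (nat_lit 5862268268067) (nat_lit 1) (nat_lit 5) (nat_lit 3) (nat_lit 4) (nat_lit 1) (nat_lit 4) (nat_lit 274) (nat_lit 184) (nat_lit 142)) (XT.lf (nat_lit 0) (nat_lit 6743178067994) (nat_lit 152) (nat_lit 33360546931928) (nat_lit 0) (nat_lit 6742297221916) (nat_lit 1) (nat_lit 5) (nat_lit 3) (nat_lit 4) (nat_lit 1) (nat_lit 4) (nat_lit 275) (nat_lit 184) (nat_lit 141)))) (XT.nd (nat_lit 27690) (nat_lit 0) (nat_lit 0) (XT.nd (nat_lit 390) (nat_lit 0) (nat_lit 0) (XT.lf (nat_lit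 0) (nat_lit 7755211266732) (nat_lit 152) (nat_lit 38363279164799) (nat_lit 0) (nat_lit 7754330137936) (nat_lit 1) (nat_lit 5) (nat_lit 3) (nat_lit 4) (nat_lit 1) (nat_lit 4) (nat_lit 276) (nat_lit 184) (nat_lit 140)) (XT.lf (nat_lit 0) (nat_lit 15602245536677) (nat_lit 152) (nat_lit 77153168995047) (nat_lit 0) (nat_lit 15601363460166) (nat_lit 1) (nat_lit 5) (nat_lit 3) (nat_lit 4) (nat_lit 1) (nat_lit 4) (nat_lit 281) (nat_lit 184) (nat_lit 135))) (XT.nd (nat_lit 78) (nat_lit 0) (nat_lit 0) (XT.lf (nat_lit 0) (nat_lit 1511363709) (nat_lit 152) (nat_lit 41252869299) (nat_lit 0) (nat_lit 1511363709) (nat_lit 1) (nat_lit 5) (nat_lit 3) (nat_lit 4) (nat_lit 1) (nat_lit 4) (nat_lit 230) (nat_lit 185) (nat_lit 185)) (XT.lf (nat_lit 0) (nat_lit 5586934772) (nat_lit 152) (nat_lit 90447584973) (nat_lit 0) (nat_lit 5454482734) (nat_lit 1) (nat_lit 5) (nat_lit 3) (nat_lit 4) (nat_lit 1) (nat_lit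 4) (nat_lit 231) (nat_lit 185) (nat_lit 184))))) (XT.nd (nat_lit 312) (nat_lit 0) (nat_lit 0) (XT.nd (nat_lit 156) (nat_lit 0) (nat_lit 0) (XT.nd (nat_lit 78) (nat_lit 0) (nat_lit 0) (XT.lf (nat_lit 0) (nat_lit 8343452917) (nat_lit 152) (nat_lit 99957511902) (nat_lit 0) (nat_lit 8095825195) (nat_lit 1) (nat_lit 5) (nat_lit 3) (nat_lit 4) (nat_lit 1) (nat_lit 4) (nat_lit 232) (nat_lit 185) (nat_lit 183)) (XT.lf (nat_lit 0) (nat_lit 11346213731) (nat_lit 152) (nat_lit 111221583170) (nat_lit 0) (nat_lit 10998433239) (nat_lit 1) (nat_lit 5) (nat_lit 3) (nat_lit 4) (nat_lit 1) (nat_lit 4) (nat_lit 233) (nat_lit 185) (nat_lit 182))) (XT.nd (nat_lit 78) (nat_lit 0) (nat_lit 0) (XT.lf (nat_lit 0) (nat_lit 14653966881) (nat_lit 152) (nat_lit 124460182783) (nat_lit 0) (nat_lit 14219097025) (nat_lit 1) (nat_lit 5) (nat_lit 3) (nat_lit 4) (nat_lit 1) (nat_lit 4) (nat_lit 234) (nat_lit 185) (nat_lit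 181)) (XT.lf (nat_lit 0) (nat_lit 18331429277) (nat_lit 152) (nat_lit 139932326818) (nat_lit 0) (nat_lit 17820829538) (nat_lit 1) (nat_lit 5) (nat_lit 3) (nat_lit 4) (nat_lit 1) (nat_lit 4) (nat_lit 235) (nat_lit 185) (nat_lit 180)))) (XT.nd (nat_lit 156) (nat_lit 0) (nat_lit 0) (XT.nd (nat_lit 78) (nat_lit 0) (nat_lit 0) (XT.lf (nat_lit 0) (nat_lit 22450551270) (nat_lit 152) (nat_lit 157940731138) (nat_lit 0) (nat_lit 21874099460) (nat_lit 1) (nat_lit 5) (nat_lit 3) (nat_lit 4) (nat_lit 1) (nat_lit 4) (nat_lit 236) (nat_lit 185) (nat_lit 179)) (XT.lf (nat_lit 0) (nat_lit 27091924377) (nat_lit 152) (nat_lit 178837734088) (nat_lit 0) (nat_lit 26458209896) (nat_lit 1) (nat_lit 5) (nat_lit 3) (nat_lit 4) (nat_lit 1) (nat_lit 4) (nat_lit 237) (nat_lit 185) (nat_lit 178))) (XT.nd (nat_lit 78) (nat_lit 0) (nat_lit 0) (XT.lf (nat_lit 0) (nat_lit 32346358073) (nat_lit 152) (nat_lit 203032190073)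 (nat_lit 0) (nat_lit 31662849965) (nat_lit 1) (nat_lit 5) (nat_lit 3) (nat_lit 4) (nat_lit 1) (nat_lit 4) (nat_lit 238) (nat_lit 185) (nat_lit 177)) (XT.lf (nat_lit 0) (nat_lit 38316656494) (nat_lit 152) (nat_lit 230997468884) (nat_lit 0) (nat_lit 37589849580) (nat_lit 1) (nat_lit 5) (nat_lit 3) (nat_lit 4) (nat_lit 1) (nat_lit 4) (nat_lit 239) (nat_lit 185) (nat_lit 176)))))) (XT.nd (nat_lit 624) (nat_lit 0) (nat_lit 0) (XT.nd (nat_lit 312) (nat_lit 0) (nat_lit 0) (XT.nd (nat_lit 156) (nat_lit 0) (nat_lit 0) (XT.nd (nat_lit 78) (nat_lit 0) (nat_lit 0) (XT.lf (nat_lit 0) (nat_lit 45119629828) (nat_lit 152) (nat_lit 263280717282) (nat_lit 0) (nat_lit 44355171778) (nat_lit 1) (nat_lit 5) (nat_lit 3) (nat_lit 4) (nat_lit 1) (nat_lit 4) (nat_lit 240) (nat_lit 185) (nat_lit 175)) (XT.lf (nat_lit 0) (nat_lit 52888379726) (nat_lit 152) (nat_lit 300513564038) (nat_lit 0) (nat_lit 52091181558)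 (nat_lit 1) (nat_lit 5) (nat_lit 3) (nat_lit 4) (nat_lit 1) (nat_lit 4) (nat_lit 241) (nat_lit 185) (nat_lit 174))) (XT.nd (nat_lit 78) (nat_lit 0) (nat_lit 0) (XT.lf (nat_lit 0) (nat_lit 61774903469) (nat_lit 152) (nat_lit 343424477894) (nat_lit 0) (nat_lit 60949235633) (nat_lit 1) (nat_lit 5) (nat_lit 3) (nat_lit 4) (nat_lit 1) (nat_lit 4) (nat_lit 242) (nat_lit 185) (nat_lit 173)) (XT.lf (nat_lit 0) (nat_lit 71953067826) (nat_lit 152) (nat_lit 392853020208) (nat_lit 0) (nat_lit 71102643757) (nat_lit 1) (nat_lit 5) (nat_lit 3) (nat_lit 4) (nat_lit 1) (nat_lit 4) (nat_lit 243) (nat_lit 185) (nat_lit 172)))) (XT.nd (nat_lit 156) (nat_lit 0) (nat_lit 0) (XT.nd (nat_lit 78) (nat_lit 0) (nat_lit 0) (XT.lf (nat_lit 0) (nat_lit 83622010795) (nat_lit 152) (nat_lit 449766271156) (nat_lit 0) (nat_lit 82750059567) (nat_lit 1) (nat_lit 5) (nat_lit 3) (nat_lit 4) (nat_lit 1) (nat_lit 4) (nat_lit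 244) (nat_lit 185) (nat_lit 171)) (XT.lf (nat_lit 0) (nat_lit 97010037782) (nat_lit 152) (nat_lit 515277750864) (nat_lit 0) (nat_lit 96119367286) (nat_lit 1) (nat_lit 5) (nat_lit 3) (nat_lit 4) (nat_lit 1) (nat_lit 4) (nat_lit 245) (nat_lit 185) (nat_lit 170))) (XT.nd (nat_lit 78) (nat_lit 0) (nat_lit 0) (XT.lf (nat_lit 0) (nat_lit 112379088446) (nat_lit 152) (nat_lit 590669205674) (nat_lit 0) (nat_lit 111472140325) (nat_lit 1) (nat_lit 5) (nat_lit 3) (nat_lit 4) (nat_lit 1) (nat_lit 4) (nat_lit 246) (nat_lit 185) (nat_lit 169)) (XT.lf (nat_lit 0) (nat_lit 130029861604) (nat_lit 152) (nat_lit 677415685791) (nat_lit 0) (nat_lit 129108759026) (nat_lit 1) (nat_lit 5) (nat_lit 3) (nat_lit 4) (nat_lit 1) (nat_lit 4) (nat_lit 247) (nat_lit 185) (nat_lit 168))))) (XT.nd (nat_lit 312) (nat_lit 0) (nat_lit 0) (XT.nd (nat_lit 156) (nat_lit 0) (nat_lit 0) (XT.nd (nat_lit 78) (nat_lit 0) (nat_lit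 0) (XT.lf (nat_lit 0) (nat_lit 150307698469) (nat_lit 152) (nat_lit 777214404954) (nat_lit 0) (nat_lit 149374287668) (nat_lit 1) (nat_lit 5) (nat_lit 3) (nat_lit 4) (nat_lit 1) (nat_lit 4) (nat_lit 248) (nat_lit 185) (nat_lit 167)) (XT.lf (nat_lit 0) (nat_lit 173609339329) (nat_lit 152) (nat_lit 892017946801) (nat_lit 0) (nat_lit 172665225726) (nat_lit 1) (nat_lit 5) (nat_lit 3) (nat_lit 4) (nat_lit 1) (nat_lit 4) (nat_lit 249) (nat_lit 185) (nat_lit 166))) (XT.nd (nat_lit 78) (nat_lit 0) (nat_lit 0) (XT.lf (nat_lit 0) (nat_lit 200390685852) (nat_lit 152) (nat_lit 1024072467583) (nat_lit 0) (nat_lit 199437265464) (nat_lit 1) (nat_lit 5) (nat_lit 3) (nat_lit 4) (nat_lit 1) (nat_lit 4) (nat_lit 250) (nat_lit 185) (nat_lit 165)) (XT.lf (nat_lit 0) (nat_lit 231175720905) (nat_lit 152) (nat_lit 1175961642709) (nat_lit 0) (nat_lit 230214207661) (nat_lit 1) (nat_lit 5) (nat_lit 3) (nat_lit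 4) (nat_lit 1) (nat_lit 4) (nat_lit 251) (nat_lit 185) (nat_lit 164)))) (XT.nd (nat_lit 156) (nat_lit 0) (nat_lit 0) (XT.nd (nat_lit 78) (nat_lit 0) (nat_lit 0) (XT.lf (nat_lit 0) (nat_lit 266566760392) (nat_lit 152) (nat_lit 1350657216909) (nat_lit 0) (nat_lit 265598209881) (nat_lit 1) (nat_lit 5) (nat_lit 3) (nat_lit 4) (nat_lit 1) (nat_lit 4) (nat_lit 252) (nat_lit 185) (nat_lit 163)) (XT.lf (nat_lit 0) (nat_lit 307256237693) (nat_lit 152) (nat_lit 1551577147068) (nat_lit 0) (nat_lit 306281567820) (nat_lit 1) (nat_lit 5) (nat_lit 3) (nat_lit 4) (nat_lit 1) (nat_lit 4) (nat_lit 253) (nat_lit 185) (nat_lit 162))) (XT.nd (nat_lit 78) (nat_lit 0) (nat_lit 0) (XT.lf (nat_lit 0) (nat_lit 354040251278) (nat_lit 152) (nat_lit 1782652475300) (nat_lit 0) (nat_lit 353060260220) (nat_lit 1) (nat_lit 5) (nat_lit 3) (nat_lit 4) (nat_lit 1) (nat_lit 4) (nat_lit 254) (nat_lit 185) (nat_lit 161))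 (XT.lf (nat_lit 0) (nat_lit 407834140542) (nat_lit 152) (nat_lit 2048404240634) (nat_lit 0) (nat_lit 406849522367) (nat_lit 1) (nat_lit 5) (nat_lit 3) (nat_lit 4) (nat_lit 1) (nat_lit 4) (nat_lit 255) (nat_lit 185) (nat_lit 160))))))))
noncomputable def xc10 : XT := (XT.nd (nat_lit 29562) (nat_lit 0) (nat_lit 0) (XT.nd (nat_lit 1170) (nat_lit 0) (nat_lit 0) (XT.nd (nat_lit 546) (nat_lit 0) (nat_lit 0) (XT.nd (nat_lit 234) (nat_lit 0) (nat_lit 0) (XT.nd (nat_lit 78) (nat_lit 0) (nat_lit 0) (XT.lf (nat_lit 0) (nat_lit 469690394624) (nat_lit 152) (nat_lit 2354031934132) (nat_lit 0) (nat_lit 468701752869) (nat_lit 1) (nat_lit 5) (nat_lit 3) (nat_lit 4) (nat_lit 1) (nat_lit 4) (nat_lit 256) (nat_lit 185) (nat_lit 159)) (XT.nd (nat_lit 78) (nat_lit 0) (nat_lit 0) (XT.lf (nat_lit 0) (nat_lit 540819244582) (nat_lit 152) (nat_lit 2705515228057) (nat_lit 0) (nat_lit 539827104062) (nat_lit 1)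 (nat_lit 5) (nat_lit 3) (nat_lit 4) (nat_lit 1) (nat_lit 4) (nat_lit 257) (nat_lit 185) (nat_lit 158)) (XT.lf (nat_lit 0) (nat_lit 622612341827) (nat_lit 152) (nat_lit 3109730969466) (nat_lit 0) (nat_lit 621617158903) (nat_lit 1) (nat_lit 5) (nat_lit 3) (nat_lit 4) (nat_lit 1) (nat_lit 4) (nat_lit 258) (nat_lit 185) (nat_lit 157)))) (XT.nd (nat_lit 156) (nat_lit 0) (nat_lit 0) (XT.nd (nat_lit 78) (nat_lit 0) (nat_lit 0) (XT.lf (nat_lit 0) (nat_lit 716669986089) (nat_lit 152) (nat_lit 3574587727210) (nat_lit 0) (nat_lit 715672157596) (nat_lit 1) (nat_lit 5) (nat_lit 3) (nat_lit 4) (nat_lit 1) (nat_lit 4) (nat_lit 259) (nat_lit 185) (nat_lit 156)) (XT.lf (nat_lit 0) (nat_lit 824832435625) (nat_lit 152) (nat_lit 4109180524812) (nat_lit 0) (nat_lit 823832306636) (nat_lit 1) (nat_lit 5) (nat_lit 3) (nat_lit 4) (nat_lit 1) (nat_lit 4) (nat_lit 260) (nat_lit 185) (nat_lit 155))) (XT.nd (nat_lit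 78) (nat_lit 0) (nat_lit 0) (XT.lf (nat_lit 0) (nat_lit 949215912273) (nat_lit 152) (nat_lit 4723968786572) (nat_lit 0) (nat_lit 948213782855) (nat_lit 1) (nat_lit 5) (nat_lit 3) (nat_lit 4) (nat_lit 1) (nat_lit 4) (nat_lit 261) (nat_lit 185) (nat_lit 154)) (XT.lf (nat_lit 0) (nat_lit 1092254005795) (nat_lit 152) (nat_lit 5430980978482) (nat_lit 0) (nat_lit 1091250136871) (nat_lit 1) (nat_lit 5) (nat_lit 3) (nat_lit 4) (nat_lit 1) (nat_lit 4) (nat_lit 262) (nat_lit 185) (nat_lit 153))))) (XT.nd (nat_lit 312) (nat_lit 0) (nat_lit 0) (XT.nd (nat_lit 156) (nat_lit 0) (nat_lit 0) (XT.nd (nat_lit 78) (nat_lit 0) (nat_lit 0) (XT.lf (nat_lit 0) (nat_lit 1256745287584) (nat_lit 152) (nat_lit 6244049947774) (nat_lit 0) (nat_lit 1255739906048) (nat_lit 1) (nat_lit 5) (nat_lit 3) (nat_lit 4) (nat_lit 1) (nat_lit 4) (nat_lit 263) (nat_lit 185) (nat_lit 152)) (XT.lf (nat_lit 0) (nat_lit 1445908065329)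 (nat_lit 152) (nat_lit 7179083565586) (nat_lit 0) (nat_lit 1444901368478) (nat_lit 1) (nat_lit 5) (nat_lit 3) (nat_lit 4) (nat_lit 1) (nat_lit 4) (nat_lit 264) (nat_lit 185) (nat_lit 151))) (XT.nd (nat_lit 78) (nat_lit 0) (nat_lit 0) (XT.lf (nat_lit 0) (nat_lit 1663443349899) (nat_lit 152) (nat_lit 8254375967920) (nat_lit 0) (nat_lit 1662435509294) (nat_lit 1) (nat_lit 5) (nat_lit 3) (nat_lit 4) (nat_lit 1) (nat_lit 4) (nat_lit 265) (nat_lit 185) (nat_lit 150)) (XT.lf (nat_lit 0) (nat_lit 1913607266425) (nat_lit 152) (nat_lit 9490965484386) (nat_lit 0) (nat_lit 1912598431253) (nat_lit 1) (nat_lit 5) (nat_lit 3) (nat_lit 4) (nat_lit 1) (nat_lit 4) (nat_lit 266) (nat_lit 185) (nat_lit 149)))) (XT.nd (nat_lit 156) (nat_lit 0) (nat_lit 0) (XT.nd (nat_lit 78) (nat_lit 0) (nat_lit 0) (XT.lf (nat_lit 0) (nat_lit 2201294326318) (nat_lit 152) (nat_lit 10913046257698) (nat_lit 0) (nat_lit 2200284626306)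 (nat_lit 1) (nat_lit 5) (nat_lit 3) (nat_lit 4) (nat_lit 1) (nat_lit 4) (nat_lit 267) (nat_lit 185) (nat_lit 148)) (XT.lf (nat_lit 0) (nat_lit 2532133189447) (nat_lit 152) (nat_lit 12548441607333) (nat_lit 0) (nat_lit 2531122737398) (nat_lit 1) (nat_lit 5) (nat_lit 3) (nat_lit 4) (nat_lit 1) (nat_lit 4) (nat_lit 268) (nat_lit 185) (nat_lit 147))) (XT.nd (nat_lit 78) (nat_lit 0) (nat_lit 0) (XT.lf (nat_lit 0) (nat_lit 2912596790089) (nat_lit 152) (nat_lit 14429148398828) (nat_lit 0) (nat_lit 2911585684096) (nat_lit 1) (nat_lit 5) (nat_lit 3) (nat_lit 4) (nat_lit 1) (nat_lit 4) (nat_lit 269) (nat_lit 185) (nat_lit 146)) (XT.lf (nat_lit 0) (nat_lit 3350128981300) (nat_lit 152) (nat_lit 16591963069408) (nat_lit 0) (nat_lit 3349117306660) (nat_lit 1) (nat_lit 5) (nat_lit 3) (nat_lit 4) (nat_lit 1) (nat_lit 4) (nat_lit 270) (nat_lit 185) (nat_lit 145)))))) (XT.nd (nat_lit 858) (nat_lit 0)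 (nat_lit 0) (XT.nd (nat_lit 312) (nat_lit 0) (nat_lit 0) (XT.nd (nat_lit 156) (nat_lit 0) (nat_lit 0) (XT.nd (nat_lit 78) (nat_lit 0) (nat_lit 0) (XT.lf (nat_lit 0) (nat_lit 3853290175518) (nat_lit 152) (nat_lit 19079201558279) (nat_lit 0) (nat_lit 3852278006402) (nat_lit 1) (nat_lit 5) (nat_lit 3) (nat_lit 4) (nat_lit 1) (nat_lit 4) (nat_lit 271) (nat_lit 185) (nat_lit 144)) (XT.lf (nat_lit 0) (nat_lit 4431924830890) (nat_lit 152) (nat_lit 21939527227181) (nat_lit 0) (nat_lit 4430912231795) (nat_lit 1) (nat_lit 5) (nat_lit 3) (nat_lit 4) (nat_lit 1) (nat_lit 4) (nat_lit 272) (nat_lit 185) (nat_lit 143))) (XT.nd (nat_lit 78) (nat_lit 0) (nat_lit 0) (XT.lf (nat_lit 0) (nat_lit 5097354060238) (nat_lit 152) (nat_lit 25228902969635) (nat_lit 0) (nat_lit 5096341087249) (nat_lit 1) (nat_lit 5) (nat_lit 3) (nat_lit 4) (nat_lit 1) (nat_lit 4) (nat_lit 273) (nat_lit 185) (nat_lit 142)) (XT.lf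 (nat_lit 0) (nat_lit 5862597131093) (nat_lit 152) (nat_lit 29011686137125) (nat_lit 0) (nat_lit 5861583832978) (nat_lit 1) (nat_lit 5) (nat_lit 3) (nat_lit 4) (nat_lit 1) (nat_lit 4) (nat_lit 274) (nat_lit 185) (nat_lit 141)))) (XT.nd (nat_lit 390) (nat_lit 0) (nat_lit 0) (XT.nd (nat_lit 312) (nat_lit 0) (nat_lit 0) (XT.lf (nat_lit 0) (nat_lit 6742626190495) (nat_lit 152) (nat_lit 33361887704666) (nat_lit 0) (nat_lit 6741612609661) (nat_lit 1) (nat_lit 5) (nat_lit 3) (nat_lit 4) (nat_lit 1) (nat_lit 4) (nat_lit 275) (nat_lit 185) (nat_lit 140)) (XT.lf (nat_lit 0) (nat_lit 11796084334011) (nat_lit 152) (nat_lit 58342411900888) (nat_lit 0) (nat_lit 11795069946023) (nat_lit 1) (nat_lit 5) (nat_lit 3) (nat_lit 4) (nat_lit 1) (nat_lit 4) (nat_lit 279) (nat_lit 185) (nat_lit 136))) (XT.nd (nat_lit 78) (nat_lit 0) (nat_lit 0) (XT.lf (nat_lit 0) (nat_lit 13566134891355) (nat_lit 152) (nat_lit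 67092225433495) (nat_lit 0) (nat_lit 13565120362806) (nat_lit 1) (nat_lit 5) (nat_lit 3) (nat_lit 4) (nat_lit 1) (nat_lit 4) (nat_lit 280) (nat_lit 185) (nat_lit 135)) (XT.lf (nat_lit 0) (nat_lit 15601692828207) (nat_lit 152) (nat_lit 77154511395866) (nat_lit 0) (nat_lit 15600678177431) (nat_lit 1) (nat_lit 5) (nat_lit 3) (nat_lit 4) (nat_lit 1) (nat_lit 4) (nat_lit 281) (nat_lit 185) (nat_lit 134))))) (XT.nd (nat_lit 27222) (nat_lit 0) (nat_lit 0) (XT.nd (nat_lit 27066) (nat_lit 0) (nat_lit 0) (XT.nd (nat_lit 78) (nat_lit 0) (nat_lit 0) (XT.lf (nat_lit 0) (nat_lit 17942584278113) (nat_lit 152) (nat_lit 88726140600307) (nat_lit 0) (nat_lit 17941569521054) (nat_lit 1) (nat_lit 5) (nat_lit 3) (nat_lit 4) (nat_lit 1) (nat_lit 4) (nat_lit 282) (nat_lit 185) (nat_lit 133)) (XT.lf (nat_lit 0) (nat_lit 20634609291181) (nat_lit 152) (nat_lit 102033514487774) (nat_lit 0) (nat_lit 20633594441700)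 (nat_lit 1) (nat_lit 5) (nat_lit 3) (nat_lit 4) (nat_lit 1) (nat_lit 4) (nat_lit 283) (nat_lit 185) (nat_lit 132))) (XT.nd (nat_lit 78) (nat_lit 152) (nat_lit 0) (XT.lf (nat_lit 0) (nat_lit 32385866301) (nat_lit 76) (nat_lit 694924260) (nat_lit 76) (nat_lit 694924260) (nat_lit 3) (nat_lit 4) (nat_lit 4) (nat_lit 5) (nat_lit 4) (nat_lit 4) (nat_lit 228) (nat_lit 186) (nat_lit 186)) (XT.lf (nat_lit 0) (nat_lit 752981425) (nat_lit 152) (nat_lit 75976588824) (nat_lit 0) (nat_lit 600661582) (nat_lit 1) (nat_lit 5) (nat_lit 3) (nat_lit 4) (nat_lit 1) (nat_lit 4) (nat_lit 229) (nat_lit 186) (nat_lit 185)))) (XT.nd (nat_lit 156) (nat_lit 0) (nat_lit 0) (XT.nd (nat_lit 78) (nat_lit 0) (nat_lit 0) (XT.lf (nat_lit 0) (nat_lit 3072178257) (nat_lit 152) (nat_lit 82707284708) (nat_lit 0) (nat_lit 2787406377) (nat_lit 1) (nat_lit 5) (nat_lit 3) (nat_lit 4) (nat_lit 1) (nat_lit 4) (nat_lit 230) (nat_lit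 186) (nat_lit 184)) (XT.lf (nat_lit 0) (nat_lit 5546934304) (nat_lit 152) (nat_lit 90824388570) (nat_lit 0) (nat_lit 5146986738) (nat_lit 1) (nat_lit 5) (nat_lit 3) (nat_lit 4) (nat_lit 1) (nat_lit 4) (nat_lit 231) (nat_lit 186) (nat_lit 183))) (XT.nd (nat_lit 78) (nat_lit 0) (nat_lit 0) (XT.lf (nat_lit 0) (nat_lit 8225668703) (nat_lit 152) (nat_lit 100486713313) (nat_lit 0) (nat_lit 7725568368) (nat_lit 1) (nat_lit 5) (nat_lit 3) (nat_lit 4) (nat_lit 1) (nat_lit 4) (nat_lit 232) (nat_lit 186) (nat_lit 182)) (XT.lf (nat_lit 0) (nat_lit 11160791477) (nat_lit 152) (nat_lit 111883304420) (nat_lit 0) (nat_lit 10573601777) (nat_lit 1) (nat_lit 5) (nat_lit 3) (nat_lit 4) (nat_lit 1) (nat_lit 4) (nat_lit 233) (nat_lit 186) (nat_lit 181))))))) (XT.nd (nat_lit 1170) (nat_lit 0) (nat_lit 0) (XT.nd (nat_lit 546) (nat_lit 0) (nat_lit 0) (XT.nd (nat_lit 234) (nat_lit 0) (nat_lit 0) (XT.nd (nat_lit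 78) (nat_lit 0) (nat_lit 0) (XT.lf (nat_lit 0) (nat_lit 14409728940) (nat_lit 152) (nat_lit 125237138675) (nat_lit 0) (nat_lit 13746809358) (nat_lit 1) (nat_lit 5) (nat_lit 3) (nat_lit 4) (nat_lit 1) (nat_lit 4) (nat_lit 234) (nat_lit 186) (nat_lit 180)) (XT.nd (nat_lit 78) (nat_lit 0) (nat_lit 0) (XT.lf (nat_lit 0) (nat_lit 18036047261) (nat_lit 152) (nat_lit 140809486747) (nat_lit 0) (nat_lit 17307275607) (nat_lit 1) (nat_lit 5) (nat_lit 3) (nat_lit 4) (nat_lit 1) (nat_lit 4) (nat_lit 235) (nat_lit 186) (nat_lit 179)) (XT.lf (nat_lit 0) (nat_lit 22110696145) (nat_lit 152) (nat_lit 158905025012) (nat_lit 0) (nat_lit 21324661820) (nat_lit 1) (nat_lit 5) (nat_lit 3) (nat_lit 4) (nat_lit 1) (nat_lit 4) (nat_lit 236) (nat_lit 186) (nat_lit 178)))) (XT.nd (nat_lit 156) (nat_lit 0) (nat_lit 0) (XT.nd (nat_lit 78) (nat_lit 0) (nat_lit 0) (XT.lf (nat_lit 0) (nat_lit 26713396983) (nat_lit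 152) (nat_lit 179877796610) (nat_lit 0) (nat_lit 25877569032) (nat_lit 1) (nat_lit 5) (nat_lit 3) (nat_lit 4) (nat_lit 1) (nat_lit 4) (nat_lit 237) (nat_lit 186) (nat_lit 177)) (XT.lf (nat_lit 0) (nat_lit 31934202619) (nat_lit 152) (nat_lit 204138138376) (nat_lit 0) (nat_lit 31055075862) (nat_lit 1) (nat_lit 5) (nat_lit 3) (nat_lit 4) (nat_lit 1) (nat_lit 4) (nat_lit 238) (nat_lit 186) (nat_lit 176))) (XT.nd (nat_lit 78) (nat_lit 0) (nat_lit 0) (XT.lf (nat_lit 0) (nat_lit 37875259249) (nat_lit 152) (nat_lit 232160709171) (nat_lit 0) (nat_lit 36958481356) (nat_lit 1) (nat_lit 5) (nat_lit 3) (nat_lit 4) (nat_lit 1) (nat_lit 4) (nat_lit 239) (nat_lit 186) (nat_lit 175)) (XT.lf (nat_lit 0) (nat_lit 44652804938) (nat_lit 152) (nat_lit 264493776684) (nat_lit 0) (nat_lit 43703286927) (nat_lit 1) (nat_lit 5) (nat_lit 3) (nat_lit 4) (nat_lit 1) (nat_lit 4) (nat_lit 240) (nat_lit 186) (nat_lit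 174))))) (XT.nd (nat_lit 312) (nat_lit 0) (nat_lit 0) (XT.nd (nat_lit 156) (nat_lit 0) (nat_lit 0) (XT.nd (nat_lit 78) (nat_lit 0) (nat_lit 0) (XT.lf (nat_lit 0) (nat_lit 52399443841) (nat_lit 152) (nat_lit 301769944411) (nat_lit 0) (nat_lit 51421456162) (nat_lit 1) (nat_lit 5) (nat_lit 3) (nat_lit 4) (nat_lit 1) (nat_lit 4) (nat_lit 241) (nat_lit 186) (nat_lit 173)) (XT.lf (nat_lit 0) (nat_lit 61266740632) (nat_lit 152) (nat_lit 344718528676) (nat_lit 0) (nat_lit 60263996720) (nat_lit 1) (nat_lit 5) (nat_lit 3) (nat_lit 4) (nat_lit 1) (nat_lit 4) (nat_lit 242) (nat_lit 186) (nat_lit 172))) (XT.nd (nat_lit 78) (nat_lit 0) (nat_lit 0) (XT.lf (nat_lit 0) (nat_lit 71428185900) (nat_lit 152) (nat_lit 394179827867) (nat_lit 0) (nat_lit 70403914829) (nat_lit 1) (nat_lit 5) (nat_lit 3) (nat_lit 4) (nat_lit 1) (nat_lit 4) (nat_lit 243) (nat_lit 186) (nat_lit 171)) (XT.lf (nat_lit 0) (nat_lit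 83082590531) (nat_lit 152) (nat_lit 451121563055) (nat_lit 0) (nat_lit 82039600191) (nat_lit 1) (nat_lit 5) (nat_lit 3) (nat_lit 4) (nat_lit 1) (nat_lit 4) (nat_lit 244) (nat_lit 186) (nat_lit 170)))) (XT.nd (nat_lit 156) (nat_lit 0) (nat_lit 0) (XT.nd (nat_lit 78) (nat_lit 0) (nat_lit 0) (XT.lf (nat_lit 0) (nat_lit 96457975485) (nat_lit 152) (nat_lit 516657811669) (nat_lit 0) (nat_lit 95398707520) (nat_lit 1) (nat_lit 5) (nat_lit 3) (nat_lit 4) (nat_lit 1) (nat_lit 4) (nat_lit 245) (nat_lit 186) (nat_lit 169)) (XT.lf (nat_lit 0) (nat_lit 111816033076) (nat_lit 152) (nat_lit 592070804658) (nat_lit 0) (nat_lit 110742610655) (nat_lit 1) (nat_lit 5) (nat_lit 3) (nat_lit 4) (nat_lit 1) (nat_lit 4) (nat_lit 246) (nat_lit 186) (nat_lit 168))) (XT.nd (nat_lit 78) (nat_lit 0) (nat_lit 0) (XT.lf (nat_lit 0) (nat_lit 129457247040) (nat_lit 152) (nat_lit 678836013626) (nat_lit 0) (nat_lit 128371516396)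 (nat_lit 1) (nat_lit 5) (nat_lit 3) (nat_lit 4) (nat_lit 1) (nat_lit 4) (nat_lit 247) (nat_lit 186) (nat_lit 167)) (XT.lf (nat_lit 0) (nat_lit 149726771564) (nat_lit 152) (nat_lit 778651018747) (nat_lit 0) (nat_lit 148630338117) (nat_lit 1) (nat_lit 5) (nat_lit 3) (nat_lit 4) (nat_lit 1) (nat_lit 4) (nat_lit 248) (nat_lit 186) (nat_lit 166)))))) (XT.nd (nat_lit 624) (nat_lit 0) (nat_lit 0) (XT.nd (nat_lit 312) (nat_lit 0) (nat_lit 0) (XT.nd (nat_lit 156) (nat_lit 0) (nat_lit 0) (XT.nd (nat_lit 78) (nat_lit 0) (nat_lit 0) (XT.lf (nat_lit 0) (nat_lit 173021184300) (nat_lit 152) (nat_lit 893468722295) (nat_lit 0) (nat_lit 171915444068) (nat_lit 1) (nat_lit 5) (nat_lit 3) (nat_lit 4) (nat_lit 1) (nat_lit 4) (nat_lit 249) (nat_lit 186) (nat_lit 165)) (XT.lf (nat_lit 0) (nat_lit 199796245498) (nat_lit 152) (nat_lit 1025535557601) (nat_lit 0) (nat_lit 198682412410) (nat_lit 1) (nat_lit 5)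 (nat_lit 3) (nat_lit 4) (nat_lit 1) (nat_lit 4) (nat_lit 250) (nat_lit 186) (nat_lit 164))) (XT.nd (nat_lit 78) (nat_lit 0) (nat_lit 0) (XT.lf (nat_lit 0) (nat_lit 230575815052) (nat_lit 152) (nat_lit 1177435441008) (nat_lit 0) (nat_lit 229454944697) (nat_lit 1) (nat_lit 5) (nat_lit 3) (nat_lit 4) (nat_lit 1) (nat_lit 4) (nat_lit 251) (nat_lit 186) (nat_lit 163)) (XT.lf (nat_lit 0) (nat_lit 265962101930) (nat_lit 152) (nat_lit 1352140326757) (nat_lit 0) (nat_lit 264835112213) (nat_lit 1) (nat_lit 5) (nat_lit 3) (nat_lit 4) (nat_lit 1) (nat_lit 4) (nat_lit 252) (nat_lit 186) (nat_lit 162)))) (XT.nd (nat_lit 156) (nat_lit 0) (nat_lit 0) (XT.nd (nat_lit 78) (nat_lit 0) (nat_lit 0) (XT.lf (nat_lit 0) (nat_lit 306647446528) (nat_lit 152) (nat_lit 1553068353915) (nat_lit 0) (nat_lit 305515135627) (nat_lit 1) (nat_lit 5) (nat_lit 3) (nat_lit 4) (nat_lit 1) (nat_lit 4) (nat_lit 253) (nat_lit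 186) (nat_lit 161)) (XT.lf (nat_lit 0) (nat_lit 353427866458) (nat_lit 152) (nat_lit 1784150723016) (nat_lit 0) (nat_lit 352290928440) (nat_lit 1) (nat_lit 5) (nat_lit 3) (nat_lit 4) (nat_lit 1) (nat_lit 4) (nat_lit 254) (nat_lit 186) (nat_lit 160))) (XT.nd (nat_lit 78) (nat_lit 0) (nat_lit 0) (XT.lf (nat_lit 0) (nat_lit 407218630805) (nat_lit 152) (nat_lit 2049908610845) (nat_lit 0) (nat_lit 406077669207) (nat_lit 1) (nat_lit 5) (nat_lit 3) (nat_lit 4) (nat_lit 1) (nat_lit 4) (nat_lit 255) (nat_lit 186) (nat_lit 159)) (XT.lf (nat_lit 0) (nat_lit 469072167567) (nat_lit 152) (nat_lit 2355541628251) (nat_lit 0) (nat_lit 467927707204) (nat_lit 1) (nat_lit 5) (nat_lit 3) (nat_lit 4) (nat_lit 1) (nat_lit 4) (nat_lit 256) (nat_lit 186) (nat_lit 158))))) (XT.nd (nat_lit 312) (nat_lit 0) (nat_lit 0) (XT.nd (nat_lit 156) (nat_lit 0) (nat_lit 0) (XT.nd (nat_lit 78) (nat_lit 0) (nat_lit 0) (XT.lf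 (nat_lit 0) (nat_lit 540198654638) (nat_lit 152) (nat_lit 2707029551662) (nat_lit 0) (nat_lit 539051151871) (nat_lit 1) (nat_lit 5) (nat_lit 3) (nat_lit 4) (nat_lit 1) (nat_lit 4) (nat_lit 257) (nat_lit 186) (nat_lit 157)) (XT.lf (nat_lit 0) (nat_lit 621989697200) (nat_lit 152) (nat_lit 3111249318710) (nat_lit 0) (nat_lit 620839548863) (nat_lit 1) (nat_lit 5) (nat_lit 3) (nat_lit 4) (nat_lit 1) (nat_lit 4) (nat_lit 258) (nat_lit 186) (nat_lit 156))) (XT.nd (nat_lit 78) (nat_lit 0) (nat_lit 0) (XT.lf (nat_lit 0) (nat_lit 716045554780) (nat_lit 152) (nat_lit 3576109577010) (nat_lit 0) (nat_lit 714893105949) (nat_lit 1) (nat_lit 5) (nat_lit 3) (nat_lit 4) (nat_lit 1) (nat_lit 4) (nat_lit 259) (nat_lit 186) (nat_lit 155)) (XT.lf (nat_lit 0) (nat_lit 824206450680) (nat_lit 152) (nat_lit 4110705418574) (nat_lit 0) (nat_lit 823052001418) (nat_lit 1) (nat_lit 5) (nat_lit 3) (nat_lit 4) (nat_lit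 1) (nat_lit 4) (nat_lit 260) (nat_lit 186) (nat_lit 154)))) (XT.nd (nat_lit 156) (nat_lit 0) (nat_lit 0) (XT.nd (nat_lit 78) (nat_lit 0) (nat_lit 0) (XT.lf (nat_lit 0) (nat_lit 948588576340) (nat_lit 152) (nat_lit 4725496327258) (nat_lit 0) (nat_lit 947432387574) (nat_lit 1) (nat_lit 5) (nat_lit 3) (nat_lit 4) (nat_lit 1) (nat_lit 4) (nat_lit 261) (nat_lit 186) (nat_lit 153)) (XT.lf (nat_lit 0) (nat_lit 1091625495090) (nat_lit 152) (nat_lit 5432510820840) (nat_lit 0) (nat_lit 1090467793710) (nat_lit 1) (nat_lit 5) (nat_lit 3) (nat_lit 4) (nat_lit 1) (nat_lit 4) (nat_lit 262) (nat_lit 186) (nat_lit 152))) (XT.nd (nat_lit 78) (nat_lit 0) (nat_lit 0) (XT.lf (nat_lit 0) (nat_lit 1256115755338) (nat_lit 152) (nat_lit 6245581791586) (nat_lit 0) (nat_lit 1254956738644) (nat_lit 1) (nat_lit 5) (nat_lit 3) (nat_lit 4) (nat_lit 1) (nat_lit 4) (nat_lit 263) (nat_lit 186) (nat_lit 151)) (XT.lf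 (nat_lit 0) (nat_lit 1445277644787) (nat_lit 152) (nat_lit 7180617149794) (nat_lit 0) (nat_lit 1444117484339) (nat_lit 1) (nat_lit 5) (nat_lit 3) (nat_lit 4) (nat_lit 1) (nat_lit 4) (nat_lit 264) (nat_lit 186) (nat_lit 150))))))))
noncomputable def xc11 : XT := (XT.nd (nat_lit 29484) (nat_lit 0) (nat_lit 0) (XT.nd (nat_lit 28236) (nat_lit 0) (nat_lit 0) (XT.nd (nat_lit 546) (nat_lit 0) (nat_lit 0) (XT.nd (nat_lit 234) (nat_lit 0) (nat_lit 0) (XT.nd (nat_lit 78) (nat_lit 0) (nat_lit 0) (XT.lf (nat_lit 0) (nat_lit 1662812156924) (nat_lit 152) (nat_lit 8255911065515) (nat_lit 0) (nat_lit 1661651001909) (nat_lit 1) (nat_lit 5) (nat_lit 3) (nat_lit 4) (nat_lit 1) (nat_lit 4) (nat_lit 265) (nat_lit 186) (nat_lit 149)) (XT.nd (nat_lit 78) (nat_lit 0) (nat_lit 0) (XT.lf (nat_lit 0) (nat_lit 1912975401771) (nat_lit 152) (nat_lit 9492501897969) (nat_lit 0) (nat_lit 1911813381915) (nat_lit 1)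 (nat_lit 5) (nat_lit 3) (nat_lit 4) (nat_lit 1) (nat_lit 4) (nat_lit 266) (nat_lit 186) (nat_lit 148)) (XT.lf (nat_lit 0) (nat_lit 2200661877595) (nat_lit 152) (nat_lit 10914583815619) (nat_lit 0) (nat_lit 2199499105703) (nat_lit 1) (nat_lit 5) (nat_lit 3) (nat_lit 4) (nat_lit 1) (nat_lit 4) (nat_lit 267) (nat_lit 186) (nat_lit 147)))) (XT.nd (nat_lit 156) (nat_lit 0) (nat_lit 0) (XT.nd (nat_lit 78) (nat_lit 0) (nat_lit 0) (XT.lf (nat_lit 0) (nat_lit 2531500232837) (nat_lit 152) (nat_lit 12549980160331) (nat_lit 0) (nat_lit 2530336807001) (nat_lit 1) (nat_lit 5) (nat_lit 3) (nat_lit 4) (nat_lit 1) (nat_lit 4) (nat_lit 268) (nat_lit 186) (nat_lit 146)) (XT.lf (nat_lit 0) (nat_lit 2911963391838) (nat_lit 152) (nat_lit 14430687817110) (nat_lit 0) (nat_lit 2910799397355) (nat_lit 1) (nat_lit 5) (nat_lit 3) (nat_lit 4) (nat_lit 1) (nat_lit 4) (nat_lit 269) (nat_lit 186) (nat_lit 145)))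 (XT.nd (nat_lit 78) (nat_lit 0) (nat_lit 0) (XT.lf (nat_lit 0) (nat_lit 3349495199015) (nat_lit 152) (nat_lit 16593503240110) (nat_lit 0) (nat_lit 3348330710056) (nat_lit 1) (nat_lit 5) (nat_lit 3) (nat_lit 4) (nat_lit 1) (nat_lit 4) (nat_lit 270) (nat_lit 186) (nat_lit 144)) (XT.lf (nat_lit 0) (nat_lit 3852656059289) (nat_lit 152) (nat_lit 19080742383260) (nat_lit 0) (nat_lit 3851491140351) (nat_lit 1) (nat_lit 5) (nat_lit 3) (nat_lit 4) (nat_lit 1) (nat_lit 4) (nat_lit 271) (nat_lit 186) (nat_lit 143))))) (XT.nd (nat_lit 624) (nat_lit 0) (nat_lit 0) (XT.nd (nat_lit 468) (nat_lit 0) (nat_lit 0) (XT.nd (nat_lit 78) (nat_lit 0) (nat_lit 0) (XT.lf (nat_lit 0) (nat_lit 4431290424275) (nat_lit 152) (nat_lit 21941068621101) (nat_lit 0) (nat_lit 4430125131442) (nat_lit 1) (nat_lit 5) (nat_lit 3) (nat_lit 4) (nat_lit 1) (nat_lit 4) (nat_lit 272) (nat_lit 186) (nat_lit 142)) (XT.lf (nat_lit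 0) (nat_lit 5096719401114) (nat_lit 152) (nat_lit 25230444858284) (nat_lit 0) (nat_lit 5095553783155) (nat_lit 1) (nat_lit 5) (nat_lit 3) (nat_lit 4) (nat_lit 1) (nat_lit 4) (nat_lit 273) (nat_lit 186) (nat_lit 141))) (XT.nd (nat_lit 78) (nat_lit 0) (nat_lit 0) (XT.lf (nat_lit 0) (nat_lit 10256274226651) (nat_lit 152) (nat_lit 50735422341201) (nat_lit 0) (nat_lit 10255107518820) (nat_lit 1) (nat_lit 5) (nat_lit 3) (nat_lit 4) (nat_lit 1) (nat_lit 4) (nat_lit 278) (nat_lit 186) (nat_lit 136)) (XT.lf (nat_lit 0) (nat_lit 11795448719269) (nat_lit 152) (nat_lit 58343955661829) (nat_lit 0) (nat_lit 11794281870878) (nat_lit 1) (nat_lit 5) (nat_lit 3) (nat_lit 4) (nat_lit 1) (nat_lit 4) (nat_lit 279) (nat_lit 186) (nat_lit 135)))) (XT.nd (nat_lit 156) (nat_lit 0) (nat_lit 0) (XT.nd (nat_lit 78) (nat_lit 0) (nat_lit 0) (XT.lf (nat_lit 0) (nat_lit 13565499181686) (nat_lit 152) (nat_lit 67093769380424)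 (nat_lit 0) (nat_lit 13564332211068) (nat_lit 1) (nat_lit 5) (nat_lit 3) (nat_lit 4) (nat_lit 1) (nat_lit 4) (nat_lit 280) (nat_lit 186) (nat_lit 134)) (XT.lf (nat_lit 0) (nat_lit 15601057035992) (nat_lit 152) (nat_lit 77156055504522) (nat_lit 0) (nat_lit 15599889959089) (nat_lit 1) (nat_lit 5) (nat_lit 3) (nat_lit 4) (nat_lit 1) (nat_lit 4) (nat_lit 281) (nat_lit 186) (nat_lit 133))) (XT.nd (nat_lit 78) (nat_lit 0) (nat_lit 0) (XT.lf (nat_lit 0) (nat_lit 17941948414120) (nat_lit 152) (nat_lit 88727684849596) (nat_lit 0) (nat_lit 17940781244796) (nat_lit 1) (nat_lit 5) (nat_lit 3) (nat_lit 4) (nat_lit 1) (nat_lit 4) (nat_lit 282) (nat_lit 186) (nat_lit 132)) (XT.lf (nat_lit 0) (nat_lit 20633973364771) (nat_lit 152) (nat_lit 102035058859352) (nat_lit 0) (nat_lit 20632806115081) (nat_lit 1) (nat_lit 5) (nat_lit 3) (nat_lit 4) (nat_lit 1) (nat_lit 4) (nat_lit 283) (nat_lit 186) (nat_lit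 131)))))) (XT.nd (nat_lit 624) (nat_lit 0) (nat_lit 0) (XT.nd (nat_lit 312) (nat_lit 0) (nat_lit 0) (XT.nd (nat_lit 156) (nat_lit 152) (nat_lit 0) (XT.nd (nat_lit 78) (nat_lit 0) (nat_lit 0) (XT.lf (nat_lit 0) (nat_lit 20689106787) (nat_lit 76) (nat_lit 2579117095) (nat_lit 76) (nat_lit 2579117095) (nat_lit 3) (nat_lit 4) (nat_lit 4) (nat_lit 5) (nat_lit 4) (nat_lit 4) (nat_lit 226) (nat_lit 187) (nat_lit 187)) (XT.lf (nat_lit 0) (nat_lit 52359869872) (nat_lit 76) (nat_lit 3451650722) (nat_lit 76) (nat_lit 3250207729) (nat_lit 3) (nat_lit 4) (nat_lit 4) (nat_lit 5) (nat_lit 4) (nat_lit 4) (nat_lit 227) (nat_lit 187) (nat_lit 186))) (XT.nd (nat_lit 78) (nat_lit 152) (nat_lit 0) (XT.lf (nat_lit 0) (nat_lit 64583000419) (nat_lit 76) (nat_lit 1680171322) (nat_lit 76) (nat_lit 1303560510) (nat_lit 3) (nat_lit 4) (nat_lit 4) (nat_lit 5) (nat_lit 4) (nat_lit 4) (nat_lit 228) (nat_lit 187)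 (nat_lit 185)) (XT.lf (nat_lit 0) (nat_lit 706980886) (nat_lit 152) (nat_lit 76409912960) (nat_lit 0) (nat_lit 247041186) (nat_lit 1) (nat_lit 5) (nat_lit 3) (nat_lit 4) (nat_lit 1) (nat_lit 4) (nat_lit 229) (nat_lit 187) (nat_lit 184)))) (XT.nd (nat_lit 156) (nat_lit 0) (nat_lit 0) (XT.nd (nat_lit 78) (nat_lit 0) (nat_lit 0) (XT.lf (nat_lit 0) (nat_lit 2936726411) (nat_lit 152) (nat_lit 83315866330) (nat_lit 0) (nat_lit 2361611026) (nat_lit 1) (nat_lit 5) (nat_lit 3) (nat_lit 4) (nat_lit 1) (nat_lit 4) (nat_lit 230) (nat_lit 187) (nat_lit 183)) (XT.lf (nat_lit 0) (nat_lit 5333698711) (nat_lit 152) (nat_lit 91585368007) (nat_lit 0) (nat_lit 4658430557) (nat_lit 1) (nat_lit 5) (nat_lit 3) (nat_lit 4) (nat_lit 1) (nat_lit 4) (nat_lit 231) (nat_lit 187) (nat_lit 182))) (XT.nd (nat_lit 78) (nat_lit 0) (nat_lit 0) (XT.lf (nat_lit 0) (nat_lit 7944795071) (nat_lit 152) (nat_lit 101380212589)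 (nat_lit 0) (nat_lit 7182437552) (nat_lit 1) (nat_lit 5) (nat_lit 3) (nat_lit 4) (nat_lit 1) (nat_lit 4) (nat_lit 232) (nat_lit 187) (nat_lit 181)) (XT.lf (nat_lit 0) (nat_lit 10821102158) (nat_lit 152) (nat_lit 112892038338) (nat_lit 0) (nat_lit 9983014757) (nat_lit 1) (nat_lit 5) (nat_lit 3) (nat_lit 4) (nat_lit 1) (nat_lit 4) (nat_lit 233) (nat_lit 187) (nat_lit 180))))) (XT.nd (nat_lit 312) (nat_lit 0) (nat_lit 0) (XT.nd (nat_lit 156) (nat_lit 0) (nat_lit 0) (XT.nd (nat_lit 78) (nat_lit 0) (nat_lit 0) (XT.lf (nat_lit 0) (nat_lit 14018895546) (nat_lit 152) (nat_lit 126346076630) (nat_lit 0) (nat_lit 13114956073) (nat_lit 1) (nat_lit 5) (nat_lit 3) (nat_lit 4) (nat_lit 1) (nat_lit 4) (nat_lit 234) (nat_lit 187) (nat_lit 179)) (XT.lf (nat_lit 0) (nat_lit 17600740757) (nat_lit 152) (nat_lit 142005558647) (nat_lit 0) (nat_lit 16639538613) (nat_lit 1) (nat_lit 5) (nat_lit 3) (nat_lit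 4) (nat_lit 1) (nat_lit 4) (nat_lit 235) (nat_lit 187) (nat_lit 178))) (XT.nd (nat_lit 78) (nat_lit 0) (nat_lit 0) (XT.lf (nat_lit 0) (nat_lit 21636717373) (nat_lit 152) (nat_lit 160176865560) (nat_lit 0) (nat_lit 20625721602) (nat_lit 1) (nat_lit 5) (nat_lit 3) (nat_lit 4) (nat_lit 1) (nat_lit 4) (nat_lit 236) (nat_lit 187) (nat_lit 177)) (XT.lf (nat_lit 0) (nat_lit 26205790151) (nat_lit 152) (nat_lit 181215522939) (nat_lit 0) (nat_lit 25151495574) (nat_lit 1) (nat_lit 5) (nat_lit 3) (nat_lit 4) (nat_lit 1) (nat_lit 4) (nat_lit 237) (nat_lit 187) (nat_lit 176)))) (XT.nd (nat_lit 156) (nat_lit 0) (nat_lit 0) (XT.nd (nat_lit 78) (nat_lit 0) (nat_lit 0) (XT.lf (nat_lit 0) (nat_lit 31397353996) (nat_lit 152) (nat_lit 205533156688) (nat_lit 0) (nat_lit 30305408283) (nat_lit 1) (nat_lit 5) (nat_lit 3) (nat_lit 4) (nat_lit 1) (nat_lit 4) (nat_lit 238) (nat_lit 187) (nat_lit 175)) (XT.lf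 (nat_lit 0) (nat_lit 37312982982) (nat_lit 152) (nat_lit 233605546599) (nat_lit 0) (nat_lit 36188297151) (nat_lit 1) (nat_lit 5) (nat_lit 3) (nat_lit 4) (nat_lit 1) (nat_lit 4) (nat_lit 239) (nat_lit 187) (nat_lit 174))) (XT.nd (nat_lit 78) (nat_lit 0) (nat_lit 0) (XT.lf (nat_lit 0) (nat_lit 44068417676) (nat_lit 152) (nat_lit 265981935083) (nat_lit 0) (nat_lit 42915262177) (nat_lit 1) (nat_lit 5) (nat_lit 3) (nat_lit 4) (nat_lit 1) (nat_lit 4) (nat_lit 240) (nat_lit 187) (nat_lit 173)) (XT.lf (nat_lit 0) (nat_lit 51795829626) (nat_lit 152) (nat_lit 303295773218) (nat_lit 0) (nat_lit 50617917895) (nat_lit 1) (nat_lit 5) (nat_lit 3) (nat_lit 4) (nat_lit 1) (nat_lit 4) (nat_lit 241) (nat_lit 187) (nat_lit 172))))))) (XT.nd (nat_lit 1170) (nat_lit 0) (nat_lit 0) (XT.nd (nat_lit 546) (nat_lit 0) (nat_lit 0) (XT.nd (nat_lit 234) (nat_lit 0) (nat_lit 0) (XT.nd (nat_lit 78) (nat_lit 0) (nat_lit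 0) (XT.lf (nat_lit 0) (nat_lit 60646407328) (nat_lit 152) (nat_lit 346277114361) (nat_lit 0) (nat_lit 59446968437) (nat_lit 1) (nat_lit 5) (nat_lit 3) (nat_lit 4) (nat_lit 1) (nat_lit 4) (nat_lit 242) (nat_lit 187) (nat_lit 171)) (XT.nd (nat_lit 78) (nat_lit 0) (nat_lit 0) (XT.lf (nat_lit 0) (nat_lit 70793314257) (nat_lit 152) (nat_lit 395766897793) (nat_lit 0) (nat_lit 69575156098) (nat_lit 1) (nat_lit 5) (nat_lit 3) (nat_lit 4) (nat_lit 1) (nat_lit 4) (nat_lit 243) (nat_lit 187) (nat_lit 170)) (XT.lf (nat_lit 0) (nat_lit 82435076855) (nat_lit 152) (nat_lit 452733401887) (nat_lit 0) (nat_lit 81200641071) (nat_lit 1) (nat_lit 5) (nat_lit 3) (nat_lit 4) (nat_lit 1) (nat_lit 4) (nat_lit 244) (nat_lit 187) (nat_lit 169)))) (XT.nd (nat_lit 156) (nat_lit 0) (nat_lit 0) (XT.nd (nat_lit 78) (nat_lit 0) (nat_lit 0) (XT.lf (nat_lit 0) (nat_lit 95799468737) (nat_lit 152) (nat_lit 518291188679)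 (nat_lit 0) (nat_lit 94550878496) (nat_lit 1) (nat_lit 5) (nat_lit 3) (nat_lit 4) (nat_lit 1) (nat_lit 4) (nat_lit 245) (nat_lit 187) (nat_lit 168)) (XT.lf (nat_lit 0) (nat_lit 111147967134) (nat_lit 152) (nat_lit 593722910519) (nat_lit 0) (nat_lit 109887068671) (nat_lit 1) (nat_lit 5) (nat_lit 3) (nat_lit 4) (nat_lit 1) (nat_lit 4) (nat_lit 246) (nat_lit 187) (nat_lit 167))) (XT.nd (nat_lit 78) (nat_lit 0) (nat_lit 0) (XT.lf (nat_lit 0) (nat_lit 128780868757) (nat_lit 152) (nat_lit 680504405444) (nat_lit 0) (nat_lit 127509267490) (nat_lit 1) (nat_lit 5) (nat_lit 3) (nat_lit 4) (nat_lit 1) (nat_lit 4) (nat_lit 247) (nat_lit 187) (nat_lit 166)) (XT.lf (nat_lit 0) (nat_lit 149043165157) (nat_lit 152) (nat_lit 780333572267) (nat_lit 0) (nat_lit 147762257105) (nat_lit 1) (nat_lit 5) (nat_lit 3) (nat_lit 4) (nat_lit 1) (nat_lit 4) (nat_lit 248) (nat_lit 187) (nat_lit 165))))) (XT.nd (nat_lit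 312) (nat_lit 0) (nat_lit 0) (XT.nd (nat_lit 156) (nat_lit 0) (nat_lit 0) (XT.nd (nat_lit 78) (nat_lit 0) (nat_lit 0) (XT.lf (nat_lit 0) (nat_lit 172331292568) (nat_lit 152) (nat_lit 895163590339) (nat_lit 0) (nat_lit 171042291660) (nat_lit 1) (nat_lit 5) (nat_lit 3) (nat_lit 4) (nat_lit 1) (nat_lit 4) (nat_lit 249) (nat_lit 187) (nat_lit 164)) (XT.lf (nat_lit 0) (nat_lit 199100888266) (nat_lit 152) (nat_lit 1027241133927) (nat_lit 0) (nat_lit 197804850092) (nat_lit 1) (nat_lit 5) (nat_lit 3) (nat_lit 4) (nat_lit 1) (nat_lit 4) (nat_lit 250) (nat_lit 187) (nat_lit 163))) (XT.nd (nat_lit 78) (nat_lit 0) (nat_lit 0) (XT.lf (nat_lit 0) (nat_lit 229875705211) (nat_lit 152) (nat_lit 1179150328883) (nat_lit 0) (nat_lit 228573547675) (nat_lit 1) (nat_lit 5) (nat_lit 3) (nat_lit 4) (nat_lit 1) (nat_lit 4) (nat_lit 251) (nat_lit 187) (nat_lit 162)) (XT.lf (nat_lit 0) (nat_lit 265257859386)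 (nat_lit 152) (nat_lit 1353863311630) (nat_lit 0) (nat_lit 263950380666) (nat_lit 1) (nat_lit 5) (nat_lit 3) (nat_lit 4) (nat_lit 1) (nat_lit 4) (nat_lit 252) (nat_lit 187) (nat_lit 161)))) (XT.nd (nat_lit 156) (nat_lit 0) (nat_lit 0) (XT.nd (nat_lit 78) (nat_lit 0) (nat_lit 0) (XT.lf (nat_lit 0) (nat_lit 305939610329) (nat_lit 152) (nat_lit 1554798379658) (nat_lit 0) (nat_lit 304627504492) (nat_lit 1) (nat_lit 5) (nat_lit 3) (nat_lit 4) (nat_lit 1) (nat_lit 4) (nat_lit 253) (nat_lit 187) (nat_lit 160)) (XT.lf (nat_lit 0) (nat_lit 352716905342) (nat_lit 152) (nat_lit 1785886871253) (nat_lit 0) (nat_lit 351400775924) (nat_lit 1) (nat_lit 5) (nat_lit 3) (nat_lit 4) (nat_lit 1) (nat_lit 4) (nat_lit 254) (nat_lit 187) (nat_lit 159))) (XT.nd (nat_lit 78) (nat_lit 0) (nat_lit 0) (XT.lf (nat_lit 0) (nat_lit 406504952370) (nat_lit 152) (nat_lit 2051650082990) (nat_lit 0) (nat_lit 405185324187)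 (nat_lit 1) (nat_lit 5) (nat_lit 3) (nat_lit 4) (nat_lit 1) (nat_lit 4) (nat_lit 255) (nat_lit 187) (nat_lit 158)) (XT.lf (nat_lit 0) (nat_lit 468356126246) (nat_lit 152) (nat_lit 2357287729882) (nat_lit 0) (nat_lit 467033455659) (nat_lit 1) (nat_lit 5) (nat_lit 3) (nat_lit 4) (nat_lit 1) (nat_lit 4) (nat_lit 256) (nat_lit 187) (nat_lit 157)))))) (XT.nd (nat_lit 624) (nat_lit 0) (nat_lit 0) (XT.nd (nat_lit 312) (nat_lit 0) (nat_lit 0) (XT.nd (nat_lit 156) (nat_lit 0) (nat_lit 0) (XT.nd (nat_lit 78) (nat_lit 0) (nat_lit 0) (XT.lf (nat_lit 0) (nat_lit 539480558633) (nat_lit 152) (nat_lit 2708779678932) (nat_lit 0) (nat_lit 538155242477) (nat_lit 1) (nat_lit 5) (nat_lit 3) (nat_lit 4) (nat_lit 1) (nat_lit 4) (nat_lit 257) (nat_lit 187) (nat_lit 156)) (XT.lf (nat_lit 0) (nat_lit 621269814513) (nat_lit 152) (nat_lit 3113002946536) (nat_lit 0) (nat_lit 619942197862) (nat_lit 1) (nat_lit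 5) (nat_lit 3) (nat_lit 4) (nat_lit 1) (nat_lit 4) (nat_lit 258) (nat_lit 187) (nat_lit 155))) (XT.nd (nat_lit 78) (nat_lit 0) (nat_lit 0) (XT.lf (nat_lit 0) (nat_lit 715324118457) (nat_lit 152) (nat_lit 3577866248799) (nat_lit 0) (nat_lit 713994501376) (nat_lit 1) (nat_lit 5) (nat_lit 3) (nat_lit 4) (nat_lit 1) (nat_lit 4) (nat_lit 259) (nat_lit 187) (nat_lit 154)) (XT.lf (nat_lit 0) (nat_lit 823483663369) (nat_lit 152) (nat_lit 4112464737286) (nat_lit 0) (nat_lit 822152306783) (nat_lit 1) (nat_lit 5) (nat_lit 3) (nat_lit 4) (nat_lit 1) (nat_lit 4) (nat_lit 260) (nat_lit 187) (nat_lit 153)))) (XT.nd (nat_lit 156) (nat_lit 0) (nat_lit 0) (XT.nd (nat_lit 78) (nat_lit 0) (nat_lit 0) (XT.lf (nat_lit 0) (nat_lit 947864614257) (nat_lit 152) (nat_lit 4727257947642) (nat_lit 0) (nat_lit 946531745058) (nat_lit 1) (nat_lit 5) (nat_lit 3) (nat_lit 4) (nat_lit 1) (nat_lit 4) (nat_lit 261) (nat_lit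 187) (nat_lit 152)) (XT.lf (nat_lit 0) (nat_lit 1090900511466) (nat_lit 152) (nat_lit 5434274442679) (nat_lit 0) (nat_lit 1089566326951) (nat_lit 1) (nat_lit 5) (nat_lit 3) (nat_lit 4) (nat_lit 1) (nat_lit 4) (nat_lit 262) (nat_lit 187) (nat_lit 151))) (XT.nd (nat_lit 78) (nat_lit 0) (nat_lit 0) (XT.lf (nat_lit 0) (nat_lit 1255389883418) (nat_lit 152) (nat_lit 6247347153820) (nat_lit 0) (nat_lit 1254054555151) (nat_lit 1) (nat_lit 5) (nat_lit 3) (nat_lit 4) (nat_lit 1) (nat_lit 4) (nat_lit 263) (nat_lit 187) (nat_lit 150)) (XT.lf (nat_lit 0) (nat_lit 1444551000434) (nat_lit 152) (nat_lit 7182384025415) (nat_lit 0) (nat_lit 1443214677600) (nat_lit 1) (nat_lit 5) (nat_lit 3) (nat_lit 4) (nat_lit 1) (nat_lit 4) (nat_lit 264) (nat_lit 187) (nat_lit 149))))) (XT.nd (nat_lit 312) (nat_lit 0) (nat_lit 0) (XT.nd (nat_lit 156) (nat_lit 0) (nat_lit 0) (XT.nd (nat_lit 78) (nat_lit 0) (nat_lit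 0) (XT.lf (nat_lit 0) (nat_lit 1662084840892) (nat_lit 152) (nat_lit 8257679257124) (nat_lit 0) (nat_lit 1660747653216) (nat_lit 1) (nat_lit 5) (nat_lit 3) (nat_lit 4) (nat_lit 1) (nat_lit 4) (nat_lit 265) (nat_lit 187) (nat_lit 148)) (XT.lf (nat_lit 0) (nat_lit 1912247501669) (nat_lit 152) (nat_lit 9494271233917) (nat_lit 0) (nat_lit 1910909561958) (nat_lit 1) (nat_lit 5) (nat_lit 3) (nat_lit 4) (nat_lit 1) (nat_lit 4) (nat_lit 266) (nat_lit 187) (nat_lit 147))) (XT.nd (nat_lit 78) (nat_lit 0) (nat_lit 0) (XT.lf (nat_lit 0) (nat_lit 2199933469607) (nat_lit 152) (nat_lit 10916354146643) (nat_lit 0) (nat_lit 2198594875951) (nat_lit 1) (nat_lit 5) (nat_lit 3) (nat_lit 4) (nat_lit 1) (nat_lit 4) (nat_lit 267) (nat_lit 187) (nat_lit 146)) (XT.lf (nat_lit 0) (nat_lit 2530771383209) (nat_lit 152) (nat_lit 12551751356639) (nat_lit 0) (nat_lit 2529432220906) (nat_lit 1) (nat_lit 5) (nat_lit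 3) (nat_lit 4) (nat_lit 1) (nat_lit 4) (nat_lit 268) (nat_lit 187) (nat_lit 145)))) (XT.nd (nat_lit 156) (nat_lit 0) (nat_lit 0) (XT.nd (nat_lit 78) (nat_lit 0) (nat_lit 0) (XT.lf (nat_lit 0) (nat_lit 2911234158175) (nat_lit 152) (nat_lit 14432459765838) (nat_lit 0) (nat_lit 2909894501396) (nat_lit 1) (nat_lit 5) (nat_lit 3) (nat_lit 4) (nat_lit 1) (nat_lit 4) (nat_lit 269) (nat_lit 187) (nat_lit 144)) (XT.lf (nat_lit 0) (nat_lit 3348765631408) (nat_lit 152) (nat_lit 16595275843118) (nat_lit 0) (nat_lit 3347425544650) (nat_lit 1) (nat_lit 5) (nat_lit 3) (nat_lit 4) (nat_lit 1) (nat_lit 4) (nat_lit 270) (nat_lit 187) (nat_lit 143))) (XT.nd (nat_lit 78) (nat_lit 0) (nat_lit 0) (XT.lf (nat_lit 0) (nat_lit 3851926201296) (nat_lit 152) (nat_lit 19082515555206) (nat_lit 0) (nat_lit 3850585740644) (nat_lit 1) (nat_lit 5) (nat_lit 3) (nat_lit 4) (nat_lit 1) (nat_lit 4) (nat_lit 271) (nat_lit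 187) (nat_lit 142)) (XT.lf (nat_lit 0) (nat_lit 4430560313773) (nat_lit 152) (nat_lit 21942842287775) (nat_lit 0) (nat_lit 4429219527995) (nat_lit 1) (nat_lit 5) (nat_lit 3) (nat_lit 4) (nat_lit 1) (nat_lit 4) (nat_lit 272) (nat_lit 187) (nat_lit 141))))))))
noncomputable def xc12 : XT := (XT.nd (nat_lit 29328) (nat_lit 0) (nat_lit 0) (XT.nd (nat_lit 28080) (nat_lit 0) (nat_lit 0) (XT.nd (nat_lit 27456) (nat_lit 0) (nat_lit 0) (XT.nd (nat_lit 546) (nat_lit 0) (nat_lit 0) (XT.nd (nat_lit 390) (nat_lit 0) (nat_lit 0) (XT.lf (nat_lit 0) (nat_lit 5095989071039) (nat_lit 152) (nat_lit 25232218955158) (nat_lit 0) (nat_lit 5094648002542) (nat_lit 1) (nat_lit 5) (nat_lit 3) (nat_lit 4) (nat_lit 1) (nat_lit 4) (nat_lit 273) (nat_lit 187) (nat_lit 140)) (XT.nd (nat_lit 78) (nat_lit 0) (nat_lit 0) (XT.lf (nat_lit 0) (nat_lit 10255543160532) (nat_lit 152) (nat_lit 50737197880169) (nat_lit 0) (nat_lit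 10254201144320) (nat_lit 1) (nat_lit 5) (nat_lit 3) (nat_lit 4) (nat_lit 1) (nat_lit 4) (nat_lit 278) (nat_lit 187) (nat_lit 135)) (XT.lf (nat_lit 0) (nat_lit 11794717558223) (nat_lit 152) (nat_lit 58345731386784) (nat_lit 0) (nat_lit 11793375419784) (nat_lit 1) (nat_lit 5) (nat_lit 3) (nat_lit 4) (nat_lit 1) (nat_lit 4) (nat_lit 279) (nat_lit 187) (nat_lit 134)))) (XT.nd (nat_lit 156) (nat_lit 0) (nat_lit 0) (XT.nd (nat_lit 78) (nat_lit 0) (nat_lit 0) (XT.lf (nat_lit 0) (nat_lit 13564767938094) (nat_lit 152) (nat_lit 67095545267106) (nat_lit 0) (nat_lit 13563425693371) (nat_lit 1) (nat_lit 5) (nat_lit 3) (nat_lit 4) (nat_lit 1) (nat_lit 4) (nat_lit 280) (nat_lit 187) (nat_lit 133)) (XT.lf (nat_lit 0) (nat_lit 15600325720621) (nat_lit 152) (nat_lit 77157831531837) (nat_lit 0) (nat_lit 15598983383477) (nat_lit 1) (nat_lit 5) (nat_lit 3) (nat_lit 4) (nat_lit 1) (nat_lit 4) (nat_lit 281)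 (nat_lit 187) (nat_lit 132))) (XT.nd (nat_lit 78) (nat_lit 0) (nat_lit 0) (XT.lf (nat_lit 0) (nat_lit 17941217036332) (nat_lit 152) (nat_lit 88729460999200) (nat_lit 0) (nat_lit 17939874618822) (nat_lit 1) (nat_lit 5) (nat_lit 3) (nat_lit 4) (nat_lit 1) (nat_lit 4) (nat_lit 282) (nat_lit 187) (nat_lit 131)) (XT.lf (nat_lit 0) (nat_lit 20633241932708) (nat_lit 152) (nat_lit 102036835115296) (nat_lit 0) (nat_lit 20631899445314) (nat_lit 1) (nat_lit 5) (nat_lit 3) (nat_lit 4) (nat_lit 1) (nat_lit 4) (nat_lit 283) (nat_lit 187) (nat_lit 130))))) (XT.nd (nat_lit 312) (nat_lit 152) (nat_lit 0) (XT.nd (nat_lit 156) (nat_lit 0) (nat_lit 0) (XT.nd (nat_lit 78) (nat_lit 0) (nat_lit 0) (XT.lf (nat_lit 0) (nat_lit 11274787013) (nat_lit 76) (nat_lit 4311885752) (nat_lit 76) (nat_lit 4311885752) (nat_lit 3) (nat_lit 4) (nat_lit 4) (nat_lit 5) (nat_lit 4) (nat_lit 4) (nat_lit 224) (nat_lit 188) (nat_lit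 188)) (XT.lf (nat_lit 0) (nat_lit 31423173032) (nat_lit 76) (nat_lit 7064970844) (nat_lit 76) (nat_lit 6833311402) (nat_lit 3) (nat_lit 4) (nat_lit 4) (nat_lit 5) (nat_lit 4) (nat_lit 4) (nat_lit 225) (nat_lit 188) (nat_lit 187))) (XT.nd (nat_lit 78) (nat_lit 0) (nat_lit 0) (XT.lf (nat_lit 0) (nat_lit 41161171563) (nat_lit 76) (nat_lit 5492105411) (nat_lit 76) (nat_lit 5059002977) (nat_lit 3) (nat_lit 4) (nat_lit 4) (nat_lit 5) (nat_lit 4) (nat_lit 4) (nat_lit 226) (nat_lit 188) (nat_lit 186)) (XT.lf (nat_lit 0) (nat_lit 51954095676) (nat_lit 76) (nat_lit 3874401752) (nat_lit 76) (nat_lit 3266131498) (nat_lit 3) (nat_lit 4) (nat_lit 4) (nat_lit 5) (nat_lit 4) (nat_lit 4) (nat_lit 227) (nat_lit 188) (nat_lit 185)))) (XT.nd (nat_lit 156) (nat_lit 0) (nat_lit 0) (XT.nd (nat_lit 78) (nat_lit 152) (nat_lit 0) (XT.lf (nat_lit 0) (nat_lit 64013111280) (nat_lit 76) (nat_lit 2180209142) (nat_lit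 76) (nat_lit 1419619045) (nat_lit 3) (nat_lit 4) (nat_lit 4) (nat_lit 5) (nat_lit 4) (nat_lit 4) (nat_lit 228) (nat_lit 188) (nat_lit 184)) (XT.lf (nat_lit 0) (nat_lit 130506161) (nat_lit 76) (nat_lit 345562813) (nat_lit 152) (nat_lit 76953785519) (nat_lit 1) (nat_lit 5) (nat_lit 2) (nat_lit 5) (nat_lit 3) (nat_lit 4) (nat_lit 229) (nat_lit 188) (nat_lit 183))) (XT.nd (nat_lit 78) (nat_lit 0) (nat_lit 0) (XT.lf (nat_lit 0) (nat_lit 2613721734) (nat_lit 152) (nat_lit 84343390498) (nat_lit 0) (nat_lit 1737010587) (nat_lit 1) (nat_lit 5) (nat_lit 3) (nat_lit 4) (nat_lit 1) (nat_lit 4) (nat_lit 230) (nat_lit 188) (nat_lit 182)) (XT.lf (nat_lit 0) (nat_lit 4943055995) (nat_lit 152) (nat_lit 92745412013) (nat_lit 0) (nat_lit 3979255483) (nat_lit 1) (nat_lit 5) (nat_lit 3) (nat_lit 4) (nat_lit 1) (nat_lit 4) (nat_lit 231) (nat_lit 188) (nat_lit 181)))))) (XT.nd (nat_lit 624) (nat_lit 0) (nat_lit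 0) (XT.nd (nat_lit 312) (nat_lit 0) (nat_lit 0) (XT.nd (nat_lit 156) (nat_lit 0) (nat_lit 0) (XT.nd (nat_lit 78) (nat_lit 0) (nat_lit 0) (XT.lf (nat_lit 0) (nat_lit 7495336668) (nat_lit 152) (nat_lit 102655491237) (nat_lit 0) (nat_lit 6455806274) (nat_lit 1) (nat_lit 5) (nat_lit 3) (nat_lit 4) (nat_lit 1) (nat_lit 4) (nat_lit 232) (nat_lit 188) (nat_lit 180)) (XT.lf (nat_lit 0) (nat_lit 10320499679) (nat_lit 152) (nat_lit 114267521024) (nat_lit 0) (nat_lit 9215117214) (nat_lit 1) (nat_lit 5) (nat_lit 3) (nat_lit 4) (nat_lit 1) (nat_lit 4) (nat_lit 233) (nat_lit 188) (nat_lit 179))) (XT.nd (nat_lit 78) (nat_lit 0) (nat_lit 0) (XT.lf (nat_lit 0) (nat_lit 13473819958) (nat_lit 152) (nat_lit 127808693260) (nat_lit 0) (nat_lit 12311174821) (nat_lit 1) (nat_lit 5) (nat_lit 3) (nat_lit 4) (nat_lit 1) (nat_lit 4) (nat_lit 234) (nat_lit 188) (nat_lit 178)) (XT.lf (nat_lit 0) (nat_lit 17016992901)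 (nat_lit 152) (nat_lit 143543943926) (nat_lit 0) (nat_lit 15804554137) (nat_lit 1) (nat_lit 5) (nat_lit 3) (nat_lit 4) (nat_lit 1) (nat_lit 4) (nat_lit 235) (nat_lit 188) (nat_lit 177)))) (XT.nd (nat_lit 156) (nat_lit 0) (nat_lit 0) (XT.nd (nat_lit 78) (nat_lit 0) (nat_lit 0) (XT.lf (nat_lit 0) (nat_lit 21019341456) (nat_lit 152) (nat_lit 161781136619) (nat_lit 0) (nat_lit 19763603886) (nat_lit 1) (nat_lit 5) (nat_lit 3) (nat_lit 4) (nat_lit 1) (nat_lit 4) (nat_lit 236) (nat_lit 188) (nat_lit 176)) (XT.lf (nat_lit 0) (nat_lit 25559172444) (nat_lit 152) (nat_lit 182877085981) (nat_lit 0) (nat_lit 24265783738) (nat_lit 1) (nat_lit 5) (nat_lit 3) (nat_lit 4) (nat_lit 1) (nat_lit 4) (nat_lit 237) (nat_lit 188) (nat_lit 175))) (XT.nd (nat_lit 78) (nat_lit 0) (nat_lit 0) (XT.lf (nat_lit 0) (nat_lit 30725308644) (nat_lit 152) (nat_lit 207244538846) (nat_lit 0) (nat_lit 29399179821) (nat_lit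 1) (nat_lit 5) (nat_lit 3) (nat_lit 4) (nat_lit 1) (nat_lit 4) (nat_lit 238) (nat_lit 188) (nat_lit 174)) (XT.lf (nat_lit 0) (nat_lit 36618826634) (nat_lit 152) (nat_lit 235360249727) (nat_lit 0) (nat_lit 35264228143) (nat_lit 1) (nat_lit 5) (nat_lit 3) (nat_lit 4) (nat_lit 1) (nat_lit 4) (nat_lit 239) (nat_lit 188) (nat_lit 173))))) (XT.nd (nat_lit 312) (nat_lit 0) (nat_lit 0) (XT.nd (nat_lit 156) (nat_lit 0) (nat_lit 0) (XT.nd (nat_lit 78) (nat_lit 0) (nat_lit 0) (XT.lf (nat_lit 0) (nat_lit 43355034376) (nat_lit 152) (nat_lit 267774308620) (nat_lit 0) (nat_lit 41975679652) (nat_lit 1) (nat_lit 5) (nat_lit 3) (nat_lit 4) (nat_lit 1) (nat_lit 4) (nat_lit 240) (nat_lit 188) (nat_lit 172)) (XT.lf (nat_lit 0) (nat_lit 51065727237) (nat_lit 152) (nat_lit 305120903633) (nat_lit 0) (nat_lit 49664845354) (nat_lit 1) (nat_lit 5) (nat_lit 3) (nat_lit 4) (nat_lit 1) (nat_lit 4) (nat_lit 241)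 (nat_lit 188) (nat_lit 171))) (XT.nd (nat_lit 78) (nat_lit 0) (nat_lit 0) (XT.lf (nat_lit 0) (nat_lit 59901766601) (nat_lit 152) (nat_lit 348130729017) (nat_lit 0) (nat_lit 58482165449) (nat_lit 1) (nat_lit 5) (nat_lit 3) (nat_lit 4) (nat_lit 1) (nat_lit 4) (nat_lit 242) (nat_lit 188) (nat_lit 170)) (XT.lf (nat_lit 0) (nat_lit 70036031497) (nat_lit 152) (nat_lit 397645281355) (nat_lit 0) (nat_lit 68600152721) (nat_lit 1) (nat_lit 5) (nat_lit 3) (nat_lit 4) (nat_lit 1) (nat_lit 4) (nat_lit 243) (nat_lit 188) (nat_lit 169)))) (XT.nd (nat_lit 156) (nat_lit 0) (nat_lit 0) (XT.nd (nat_lit 78) (nat_lit 0) (nat_lit 0) (XT.lf (nat_lit 0) (nat_lit 81666801022) (nat_lit 152) (nat_lit 454633323627) (nat_lit 0) (nat_lit 80216767789) (nat_lit 1) (nat_lit 5) (nat_lit 3) (nat_lit 4) (nat_lit 1) (nat_lit 4) (nat_lit 244) (nat_lit 188) (nat_lit 168)) (XT.lf (nat_lit 0) (nat_lit 95021633710) (nat_lit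 152) (nat_lit 520209839270) (nat_lit 0) (nat_lit 93559292254) (nat_lit 1) (nat_lit 5) (nat_lit 3) (nat_lit 4) (nat_lit 1) (nat_lit 4) (nat_lit 245) (nat_lit 188) (nat_lit 167))) (XT.nd (nat_lit 78) (nat_lit 0) (nat_lit 0) (XT.lf (nat_lit 0) (nat_lit 110361819766) (nat_lit 152) (nat_lit 595657847068) (nat_lit 0) (nat_lit 108888775508) (nat_lit 1) (nat_lit 5) (nat_lit 3) (nat_lit 4) (nat_lit 1) (nat_lit 4) (nat_lit 246) (nat_lit 188) (nat_lit 166)) (XT.lf (nat_lit 0) (nat_lit 127987493265) (nat_lit 152) (nat_lit 682453503695) (nat_lit 0) (nat_lit 126505142221) (nat_lit 1) (nat_lit 5) (nat_lit 3) (nat_lit 4) (nat_lit 1) (nat_lit 4) (nat_lit 247) (nat_lit 188) (nat_lit 165))))))) (XT.nd (nat_lit 1170) (nat_lit 0) (nat_lit 0) (XT.nd (nat_lit 546) (nat_lit 0) (nat_lit 0) (XT.nd (nat_lit 234) (nat_lit 0) (nat_lit 0) (XT.nd (nat_lit 78) (nat_lit 0) (nat_lit 0) (XT.lf (nat_lit 0) (nat_lit 148243504340)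 (nat_lit 152) (nat_lit 782294985041) (nat_lit 0) (nat_lit 146753060440) (nat_lit 1) (nat_lit 5) (nat_lit 3) (nat_lit 4) (nat_lit 1) (nat_lit 4) (nat_lit 248) (nat_lit 188) (nat_lit 164)) (XT.nd (nat_lit 78) (nat_lit 0) (nat_lit 0) (XT.lf (nat_lit 0) (nat_lit 171526166252) (nat_lit 152) (nat_lit 897135711395) (nat_lit 0) (nat_lit 170028685085) (nat_lit 1) (nat_lit 5) (nat_lit 3) (nat_lit 4) (nat_lit 1) (nat_lit 4) (nat_lit 249) (nat_lit 188) (nat_lit 163)) (XT.lf (nat_lit 0) (nat_lit 198291009342) (nat_lit 152) (nat_lit 1029222566531) (nat_lit 0) (nat_lit 196787408813) (nat_lit 1) (nat_lit 5) (nat_lit 3) (nat_lit 4) (nat_lit 1) (nat_lit 4) (nat_lit 250) (nat_lit 188) (nat_lit 162)))) (XT.nd (nat_lit 156) (nat_lit 0) (nat_lit 0) (XT.nd (nat_lit 78) (nat_lit 0) (nat_lit 0) (XT.lf (nat_lit 0) (nat_lit 229061693583) (nat_lit 152) (nat_lit 1181139858486) (nat_lit 0) (nat_lit 227552771870)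 (nat_lit 1) (nat_lit 5) (nat_lit 3) (nat_lit 4) (nat_lit 1) (nat_lit 4) (nat_lit 251) (nat_lit 188) (nat_lit 161)) (XT.lf (nat_lit 0) (nat_lit 264440254103) (nat_lit 152) (nat_lit 1355859882103) (nat_lit 0) (nat_lit 262926705273) (nat_lit 1) (nat_lit 5) (nat_lit 3) (nat_lit 4) (nat_lit 1) (nat_lit 4) (nat_lit 252) (nat_lit 188) (nat_lit 160))) (XT.nd (nat_lit 78) (nat_lit 0) (nat_lit 0) (XT.lf (nat_lit 0) (nat_lit 305118880129) (nat_lit 152) (nat_lit 1556801072625) (nat_lit 0) (nat_lit 303601307719) (nat_lit 1) (nat_lit 5) (nat_lit 3) (nat_lit 4) (nat_lit 1) (nat_lit 4) (nat_lit 253) (nat_lit 188) (nat_lit 159)) (XT.lf (nat_lit 0) (nat_lit 351893457822) (nat_lit 152) (nat_lit 1787894888128) (nat_lit 0) (nat_lit 350372386647) (nat_lit 1) (nat_lit 5) (nat_lit 3) (nat_lit 4) (nat_lit 1) (nat_lit 4) (nat_lit 254) (nat_lit 188) (nat_lit 158))))) (XT.nd (nat_lit 312) (nat_lit 0) (nat_lit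 0) (XT.nd (nat_lit 156) (nat_lit 0) (nat_lit 0) (XT.nd (nat_lit 78) (nat_lit 0) (nat_lit 0) (XT.lf (nat_lit 0) (nat_lit 405679141964) (nat_lit 152) (nat_lit 2053662729351) (nat_lit 0) (nat_lit 404155028384) (nat_lit 1) (nat_lit 5) (nat_lit 3) (nat_lit 4) (nat_lit 1) (nat_lit 4) (nat_lit 255) (nat_lit 188) (nat_lit 157)) (XT.lf (nat_lit 0) (nat_lit 467528261156) (nat_lit 152) (nat_lit 2359304401882) (nat_lit 0) (nat_lit 466001502007) (nat_lit 1) (nat_lit 5) (nat_lit 3) (nat_lit 4) (nat_lit 1) (nat_lit 4) (nat_lit 256) (nat_lit 188) (nat_lit 156))) (XT.nd (nat_lit 78) (nat_lit 0) (nat_lit 0) (XT.lf (nat_lit 0) (nat_lit 538650906862) (nat_lit 152) (nat_lit 2710799851489) (nat_lit 0) (nat_lit 537121847218) (nat_lit 1) (nat_lit 5) (nat_lit 3) (nat_lit 4) (nat_lit 1) (nat_lit 4) (nat_lit 257) (nat_lit 188) (nat_lit 155)) (XT.lf (nat_lit 0) (nat_lit 620438609106) (nat_lit 152) (nat_lit 3115026163055)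 (nat_lit 0) (nat_lit 618907549031) (nat_lit 1) (nat_lit 5) (nat_lit 3) (nat_lit 4) (nat_lit 1) (nat_lit 4) (nat_lit 258) (nat_lit 188) (nat_lit 154)))) (XT.nd (nat_lit 156) (nat_lit 0) (nat_lit 0) (XT.nd (nat_lit 78) (nat_lit 0) (nat_lit 0) (XT.lf (nat_lit 0) (nat_lit 714491562062) (nat_lit 152) (nat_lit 3579892112241) (nat_lit 0) (nat_lit 712958762483) (nat_lit 1) (nat_lit 5) (nat_lit 3) (nat_lit 4) (nat_lit 1) (nat_lit 4) (nat_lit 259) (nat_lit 188) (nat_lit 153)) (XT.lf (nat_lit 0) (nat_lit 822649932201) (nat_lit 152) (nat_lit 4114492902400) (nat_lit 0) (nat_lit 821115620010) (nat_lit 1) (nat_lit 5) (nat_lit 3) (nat_lit 4) (nat_lit 1) (nat_lit 4) (nat_lit 260) (nat_lit 188) (nat_lit 152))) (XT.nd (nat_lit 78) (nat_lit 0) (nat_lit 0) (XT.lf (nat_lit 0) (nat_lit 947029861549) (nat_lit 152) (nat_lit 4729288114211) (nat_lit 0) (nat_lit 945494234042) (nat_lit 1) (nat_lit 5) (nat_lit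 3) (nat_lit 4) (nat_lit 1) (nat_lit 4) (nat_lit 261) (nat_lit 188) (nat_lit 151)) (XT.lf (nat_lit 0) (nat_lit 1090064870460) (nat_lit 152) (nat_lit 5436306349642) (nat_lit 0) (nat_lit 1088528099201) (nat_lit 1) (nat_lit 5) (nat_lit 3) (nat_lit 4) (nat_lit 1) (nat_lit 4) (nat_lit 262) (nat_lit 188) (nat_lit 150)))))) (XT.nd (nat_lit 624) (nat_lit 0) (nat_lit 0) (XT.nd (nat_lit 312) (nat_lit 0) (nat_lit 0) (XT.nd (nat_lit 156) (nat_lit 0) (nat_lit 0) (XT.nd (nat_lit 78) (nat_lit 0) (nat_lit 0) (XT.lf (nat_lit 0) (nat_lit 1254553469981) (nat_lit 152) (nat_lit 6249380574171) (nat_lit 0) (nat_lit 1253015704154) (nat_lit 1) (nat_lit 5) (nat_lit 3) (nat_lit 4) (nat_lit 1) (nat_lit 4) (nat_lit 263) (nat_lit 188) (nat_lit 149)) (XT.lf (nat_lit 0) (nat_lit 1443713915318) (nat_lit 152) (nat_lit 7184418761754) (nat_lit 0) (nat_lit 1442175284649) (nat_lit 1) (nat_lit 5) (nat_lit 3) (nat_lit 4)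 (nat_lit 1) (nat_lit 4) (nat_lit 264) (nat_lit 188) (nat_lit 148))) (XT.nd (nat_lit 78) (nat_lit 0) (nat_lit 0) (XT.lf (nat_lit 0) (nat_lit 1661247171706) (nat_lit 152) (nat_lit 8259715137802) (nat_lit 0) (nat_lit 1659707789002) (nat_lit 1) (nat_lit 5) (nat_lit 3) (nat_lit 4) (nat_lit 1) (nat_lit 4) (nat_lit 265) (nat_lit 188) (nat_lit 147)) (XT.lf (nat_lit 0) (nat_lit 1911409324596) (nat_lit 152) (nat_lit 9496308109671) (nat_lit 0) (nat_lit 1909869287948) (nat_lit 1) (nat_lit 5) (nat_lit 3) (nat_lit 4) (nat_lit 1) (nat_lit 4) (nat_lit 266) (nat_lit 188) (nat_lit 146)))) (XT.nd (nat_lit 156) (nat_lit 0) (nat_lit 0) (XT.nd (nat_lit 78) (nat_lit 0) (nat_lit 0) (XT.lf (nat_lit 0) (nat_lit 2199094850894) (nat_lit 152) (nat_lit 10918391887681) (nat_lit 0) (nat_lit 2197554245599) (nat_lit 1) (nat_lit 5) (nat_lit 3) (nat_lit 4) (nat_lit 1) (nat_lit 4) (nat_lit 267) (nat_lit 188) (nat_lit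 145)) (XT.lf (nat_lit 0) (nat_lit 2529932380461) (nat_lit 152) (nat_lit 12553789850098) (nat_lit 0) (nat_lit 2528391280689) (nat_lit 1) (nat_lit 5) (nat_lit 3) (nat_lit 4) (nat_lit 1) (nat_lit 4) (nat_lit 268) (nat_lit 188) (nat_lit 144))) (XT.nd (nat_lit 78) (nat_lit 0) (nat_lit 0) (XT.lf (nat_lit 0) (nat_lit 2910394821483) (nat_lit 152) (nat_lit 14434498913576) (nat_lit 0) (nat_lit 2908853291733) (nat_lit 1) (nat_lit 5) (nat_lit 3) (nat_lit 4) (nat_lit 1) (nat_lit 4) (nat_lit 269) (nat_lit 188) (nat_lit 143)) (XT.lf (nat_lit 0) (nat_lit 3347926004331) (nat_lit 152) (nat_lit 16597315559794) (nat_lit 0) (nat_lit 3346384100686) (nat_lit 1) (nat_lit 5) (nat_lit 3) (nat_lit 4) (nat_lit 1) (nat_lit 4) (nat_lit 270) (nat_lit 188) (nat_lit 142))))) (XT.nd (nat_lit 624) (nat_lit 0) (nat_lit 0) (XT.nd (nat_lit 156) (nat_lit 0) (nat_lit 0) (XT.nd (nat_lit 78) (nat_lit 0) (nat_lit 0) (XT.lf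 (nat_lit 0) (nat_lit 3851086321710) (nat_lit 152) (nat_lit 19084555766611) (nat_lit 0) (nat_lit 3849544092939) (nat_lit 1) (nat_lit 5) (nat_lit 3) (nat_lit 4) (nat_lit 1) (nat_lit 4) (nat_lit 271) (nat_lit 188) (nat_lit 141)) (XT.lf (nat_lit 0) (nat_lit 4429720214613) (nat_lit 152) (nat_lit 21944882929379) (nat_lit 0) (nat_lit 4428177703124) (nat_lit 1) (nat_lit 5) (nat_lit 3) (nat_lit 4) (nat_lit 1) (nat_lit 4) (nat_lit 272) (nat_lit 188) (nat_lit 140))) (XT.nd (nat_lit 390) (nat_lit 0) (nat_lit 0) (XT.lf (nat_lit 0) (nat_lit 5095148780945) (nat_lit 152) (nat_lit 25234259970848) (nat_lit 0) (nat_lit 5093606023615) (nat_lit 1) (nat_lit 5) (nat_lit 3) (nat_lit 4) (nat_lit 1) (nat_lit 4) (nat_lit 273) (nat_lit 188) (nat_lit 139)) (XT.lf (nat_lit 0) (nat_lit 10254702230400) (nat_lit 152) (nat_lit 50739240149854) (nat_lit 0) (nat_lit 10253158648970) (nat_lit 1) (nat_lit 5) (nat_lit 3)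 (nat_lit 4) (nat_lit 1) (nat_lit 4) (nat_lit 278) (nat_lit 188) (nat_lit 134)))) (XT.nd (nat_lit 156) (nat_lit 0) (nat_lit 0) (XT.nd (nat_lit 78) (nat_lit 0) (nat_lit 0) (XT.lf (nat_lit 0) (nat_lit 11793876545545) (nat_lit 152) (nat_lit 58347773818197) (nat_lit 0) (nat_lit 11792332857830) (nat_lit 1) (nat_lit 5) (nat_lit 3) (nat_lit 4) (nat_lit 1) (nat_lit 4) (nat_lit 279) (nat_lit 188) (nat_lit 133)) (XT.lf (nat_lit 0) (nat_lit 13563926853638) (nat_lit 152) (nat_lit 67097587839152) (nat_lit 0) (nat_lit 13562383073502) (nat_lit 1) (nat_lit 5) (nat_lit 3) (nat_lit 4) (nat_lit 1) (nat_lit 4) (nat_lit 280) (nat_lit 188) (nat_lit 132))) (XT.nd (nat_lit 78) (nat_lit 0) (nat_lit 0) (XT.lf (nat_lit 0) (nat_lit 15599484573748) (nat_lit 152) (nat_lit 77159874226172) (nat_lit 0) (nat_lit 15597940713246) (nat_lit 1) (nat_lit 5) (nat_lit 3) (nat_lit 4) (nat_lit 1) (nat_lit 4) (nat_lit 281) (nat_lit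 188) (nat_lit 131)) (XT.lf (nat_lit 0) (nat_lit 17940375835184) (nat_lit 152) (nat_lit 88731503799874) (nat_lit 0) (nat_lit 17938831904798) (nat_lit 1) (nat_lit 5) (nat_lit 3) (nat_lit 4) (nat_lit 1) (nat_lit 4) (nat_lit 282) (nat_lit 188) (nat_lit 130))))))))
noncomputable def xc13 : XT := (XT.nd (nat_lit 28860) (nat_lit 0) (nat_lit 0) (XT.nd (nat_lit 27612) (nat_lit 0) (nat_lit 0) (XT.nd (nat_lit 26988) (nat_lit 0) (nat_lit 0) (XT.nd (nat_lit 26676) (nat_lit 0) (nat_lit 152) (XT.nd (nat_lit 26520) (nat_lit 0) (nat_lit 152) (XT.lf (nat_lit 0) (nat_lit 20632400684364) (nat_lit 152) (nat_lit 102038878008438) (nat_lit 0) (nat_lit 20630856693210) (nat_lit 1) (nat_lit 5) (nat_lit 3) (nat_lit 4) (nat_lit 1) (nat_lit 4) (nat_lit 283) (nat_lit 188) (nat_lit 129)) (XT.nd (nat_lit 78) (nat_lit 0) (nat_lit 0) (XT.lf (nat_lit 0) (nat_lit 3500836225) (nat_lit 76) (nat_lit 5976363203) (nat_lit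 76) (nat_lit 5976363203) (nat_lit 3) (nat_lit 4) (nat_lit 4) (nat_lit 5) (nat_lit 4) (nat_lit 4) (nat_lit 222) (nat_lit 189) (nat_lit 189)) (XT.lf (nat_lit 0) (nat_lit 14366760654) (nat_lit 76) (nat_lit 10465414023) (nat_lit 76) (nat_lit 10199005666) (nat_lit 3) (nat_lit 4) (nat_lit 4) (nat_lit 5) (nat_lit 4) (nat_lit 4) (nat_lit 223) (nat_lit 189) (nat_lit 188)))) (XT.nd (nat_lit 156) (nat_lit 0) (nat_lit 0) (XT.nd (nat_lit 78) (nat_lit 0) (nat_lit 0) (XT.lf (nat_lit 0) (nat_lit 22299975714) (nat_lit 76) (nat_lit 9007723409) (nat_lit 76) (nat_lit 8509655609) (nat_lit 3) (nat_lit 4) (nat_lit 4) (nat_lit 5) (nat_lit 4) (nat_lit 4) (nat_lit 224) (nat_lit 189) (nat_lit 187)) (XT.lf (nat_lit 0) (nat_lit 30956532707) (nat_lit 76) (nat_lit 7551134528) (nat_lit 76) (nat_lit 6851623736) (nat_lit 3) (nat_lit 4) (nat_lit 4) (nat_lit 5) (nat_lit 4) (nat_lit 4) (nat_lit 225) (nat_lit 189) (nat_lit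 186))) (XT.nd (nat_lit 78) (nat_lit 0) (nat_lit 0) (XT.lf (nat_lit 0) (nat_lit 40505799053) (nat_lit 76) (nat_lit 6067148904) (nat_lit 76) (nat_lit 5192470292) (nat_lit 3) (nat_lit 4) (nat_lit 4) (nat_lit 5) (nat_lit 4) (nat_lit 4) (nat_lit 226) (nat_lit 189) (nat_lit 185)) (XT.lf (nat_lit 0) (nat_lit 51134608224) (nat_lit 76) (nat_lit 4526732034) (nat_lit 76) (nat_lit 3499733580) (nat_lit 3) (nat_lit 4) (nat_lit 4) (nat_lit 5) (nat_lit 4) (nat_lit 4) (nat_lit 227) (nat_lit 189) (nat_lit 184))))) (XT.nd (nat_lit 312) (nat_lit 0) (nat_lit 0) (XT.nd (nat_lit 156) (nat_lit 76) (nat_lit 0) (XT.nd (nat_lit 78) (nat_lit 76) (nat_lit 0) (XT.lf (nat_lit 0) (nat_lit 63050915181) (nat_lit 76) (nat_lit 2899745329) (nat_lit 76) (nat_lit 1740294837) (nat_lit 3) (nat_lit 4) (nat_lit 4) (nat_lit 5) (nat_lit 4) (nat_lit 4) (nat_lit 228) (nat_lit 189) (nat_lit 183)) (XT.lf (nat_lit 0) (nat_lit 109562494)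 (nat_lit 152) (nat_lit 1039066814) (nat_lit 76) (nat_lit 76372575437) (nat_lit 2) (nat_lit 5) (nat_lit 4) (nat_lit 5) (nat_lit 3) (nat_lit 4) (nat_lit 229) (nat_lit 189) (nat_lit 182))) (XT.nd (nat_lit 78) (nat_lit 0) (nat_lit 0) (XT.lf (nat_lit 0) (nat_lit 2096844571) (nat_lit 152) (nat_lit 85809960943) (nat_lit 0) (nat_lit 901384617) (nat_lit 1) (nat_lit 5) (nat_lit 3) (nat_lit 4) (nat_lit 1) (nat_lit 4) (nat_lit 230) (nat_lit 189) (nat_lit 181)) (XT.lf (nat_lit 0) (nat_lit 4367363144) (nat_lit 152) (nat_lit 94327217101) (nat_lit 0) (nat_lit 3096173309) (nat_lit 1) (nat_lit 5) (nat_lit 3) (nat_lit 4) (nat_lit 1) (nat_lit 4) (nat_lit 231) (nat_lit 189) (nat_lit 180)))) (XT.nd (nat_lit 156) (nat_lit 0) (nat_lit 0) (XT.nd (nat_lit 78) (nat_lit 0) (nat_lit 0) (XT.lf (nat_lit 0) (nat_lit 6868499742) (nat_lit 152) (nat_lit 104337500362) (nat_lit 0) (nat_lit 5531457835) (nat_lit 1) (nat_lit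 5) (nat_lit 3) (nat_lit 4) (nat_lit 1) (nat_lit 4) (nat_lit 232) (nat_lit 189) (nat_lit 179)) (XT.lf (nat_lit 0) (nat_lit 9649189644) (nat_lit 152) (nat_lit 116036664094) (nat_lit 0) (nat_lit 8254885066) (nat_lit 1) (nat_lit 5) (nat_lit 3) (nat_lit 4) (nat_lit 1) (nat_lit 4) (nat_lit 233) (nat_lit 189) (nat_lit 178))) (XT.nd (nat_lit 78) (nat_lit 0) (nat_lit 0) (XT.lf (nat_lit 0) (nat_lit 12763837654) (nat_lit 152) (nat_lit 129653604978) (nat_lit 0) (nat_lit 11319739449) (nat_lit 1) (nat_lit 5) (nat_lit 3) (nat_lit 4) (nat_lit 1) (nat_lit 4) (nat_lit 234) (nat_lit 189) (nat_lit 177)) (XT.lf (nat_lit 0) (nat_lit 16273382537) (nat_lit 152) (nat_lit 145454741424) (nat_lit 0) (nat_lit 14785985526) (nat_lit 1) (nat_lit 5) (nat_lit 3) (nat_lit 4) (nat_lit 1) (nat_lit 4) (nat_lit 235) (nat_lit 189) (nat_lit 176)))))) (XT.nd (nat_lit 624) (nat_lit 0) (nat_lit 0) (XT.nd (nat_lit 312) (nat_lit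 0) (nat_lit 0) (XT.nd (nat_lit 156) (nat_lit 0) (nat_lit 0) (XT.nd (nat_lit 78) (nat_lit 0) (nat_lit 0) (XT.lf (nat_lit 0) (nat_lit 20246489301) (nat_lit 152) (nat_lit 163749226101) (nat_lit 0) (nat_lit 18721441154) (nat_lit 1) (nat_lit 5) (nat_lit 3) (nat_lit 4) (nat_lit 1) (nat_lit 4) (nat_lit 236) (nat_lit 189) (nat_lit 175)) (XT.lf (nat_lit 0) (nat_lit 24760892644) (nat_lit 152) (nat_lit 184894994579) (nat_lit 0) (nat_lit 23203104379) (nat_lit 1) (nat_lit 5) (nat_lit 3) (nat_lit 4) (nat_lit 1) (nat_lit 4) (nat_lit 237) (nat_lit 189) (nat_lit 174))) (XT.nd (nat_lit 78) (nat_lit 0) (nat_lit 0) (XT.lf (nat_lit 0) (nat_lit 29904917849) (nat_lit 152) (nat_lit 209305768415) (nat_lit 0) (nat_lit 28318659917) (nat_lit 1) (nat_lit 5) (nat_lit 3) (nat_lit 4) (nat_lit 1) (nat_lit 4) (nat_lit 238) (nat_lit 189) (nat_lit 173)) (XT.lf (nat_lit 0) (nat_lit 35779208887) (nat_lit 152) (nat_lit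 237459149705) (nat_lit 0) (nat_lit 34168194722) (nat_lit 1) (nat_lit 5) (nat_lit 3) (nat_lit 4) (nat_lit 1) (nat_lit 4) (nat_lit 239) (nat_lit 189) (nat_lit 172)))) (XT.nd (nat_lit 156) (nat_lit 0) (nat_lit 0) (XT.nd (nat_lit 78) (nat_lit 0) (nat_lit 0) (XT.lf (nat_lit 0) (nat_lit 42498697540) (nat_lit 152) (nat_lit 269905965475) (nat_lit 0) (nat_lit 40866156215) (nat_lit 1) (nat_lit 5) (nat_lit 3) (nat_lit 4) (nat_lit 1) (nat_lit 4) (nat_lit 240) (nat_lit 189) (nat_lit 171)) (XT.lf (nat_lit 0) (nat_lit 50194852063) (nat_lit 152) (nat_lit 307281044729) (nat_lit 0) (nat_lit 48543591470) (nat_lit 1) (nat_lit 5) (nat_lit 3) (nat_lit 4) (nat_lit 1) (nat_lit 4) (nat_lit 241) (nat_lit 189) (nat_lit 170))) (XT.nd (nat_lit 78) (nat_lit 0) (nat_lit 0) (XT.lf (nat_lit 0) (nat_lit 59018249393) (nat_lit 152) (nat_lit 350315639018) (nat_lit 0) (nat_lit 57350711175) (nat_lit 1) (nat_lit 5) (nat_lit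 3) (nat_lit 4) (nat_lit 1) (nat_lit 4) (nat_lit 242) (nat_lit 189) (nat_lit 169)) (XT.lf (nat_lit 0) (nat_lit 69141521217) (nat_lit 152) (nat_lit 399851729535) (nat_lit 0) (nat_lit 67459828543) (nat_lit 1) (nat_lit 5) (nat_lit 3) (nat_lit 4) (nat_lit 1) (nat_lit 4) (nat_lit 243) (nat_lit 189) (nat_lit 168))))) (XT.nd (nat_lit 312) (nat_lit 0) (nat_lit 0) (XT.nd (nat_lit 156) (nat_lit 0) (nat_lit 0) (XT.nd (nat_lit 78) (nat_lit 0) (nat_lit 0) (XT.lf (nat_lit 0) (nat_lit 80762731549) (nat_lit 152) (nat_lit 456858500658) (nat_lit 0) (nat_lit 79068730651) (nat_lit 1) (nat_lit 5) (nat_lit 3) (nat_lit 4) (nat_lit 1) (nat_lit 4) (nat_lit 244) (nat_lit 189) (nat_lit 167)) (XT.lf (nat_lit 0) (nat_lit 94109251895) (nat_lit 152) (nat_lit 522451302259) (nat_lit 0) (nat_lit 92404548195) (nat_lit 1) (nat_lit 5) (nat_lit 3) (nat_lit 4) (nat_lit 1) (nat_lit 4) (nat_lit 245) (nat_lit 189) (nat_lit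 166))) (XT.nd (nat_lit 78) (nat_lit 0) (nat_lit 0) (XT.lf (nat_lit 0) (nat_lit 109442209827) (nat_lit 152) (nat_lit 597913471758) (nat_lit 0) (nat_lit 107728199342) (nat_lit 1) (nat_lit 5) (nat_lit 3) (nat_lit 4) (nat_lit 1) (nat_lit 4) (nat_lit 246) (nat_lit 189) (nat_lit 165)) (XT.lf (nat_lit 0) (nat_lit 127061598001) (nat_lit 152) (nat_lit 684721442909) (nat_lit 0) (nat_lit 125339494660) (nat_lit 1) (nat_lit 5) (nat_lit 3) (nat_lit 4) (nat_lit 1) (nat_lit 4) (nat_lit 247) (nat_lit 189) (nat_lit 164)))) (XT.nd (nat_lit 156) (nat_lit 0) (nat_lit 0) (XT.nd (nat_lit 78) (nat_lit 0) (nat_lit 0) (XT.lf (nat_lit 0) (nat_lit 147312143576) (nat_lit 152) (nat_lit 784573632537) (nat_lit 0) (nat_lit 145583002968) (nat_lit 1) (nat_lit 5) (nat_lit 3) (nat_lit 4) (nat_lit 1) (nat_lit 4) (nat_lit 248) (nat_lit 189) (nat_lit 163)) (XT.lf (nat_lit 0) (nat_lit 170590052879) (nat_lit 152) (nat_lit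 899423670439) (nat_lit 0) (nat_lit 168854792909) (nat_lit 1) (nat_lit 5) (nat_lit 3) (nat_lit 4) (nat_lit 1) (nat_lit 4) (nat_lit 249) (nat_lit 189) (nat_lit 162))) (XT.nd (nat_lit 78) (nat_lit 0) (nat_lit 0) (XT.lf (nat_lit 0) (nat_lit 197350763266) (nat_lit 152) (nat_lit 1031518622574) (nat_lit 0) (nat_lit 195610182111) (nat_lit 1) (nat_lit 5) (nat_lit 3) (nat_lit 4) (nat_lit 1) (nat_lit 4) (nat_lit 250) (nat_lit 189) (nat_lit 161)) (XT.lf (nat_lit 0) (nat_lit 228117853853) (nat_lit 152) (nat_lit 1183442955398) (nat_lit 0) (nat_lit 226372645581) (nat_lit 1) (nat_lit 5) (nat_lit 3) (nat_lit 4) (nat_lit 1) (nat_lit 4) (nat_lit 251) (nat_lit 189) (nat_lit 160))))))) (XT.nd (nat_lit 1170) (nat_lit 0) (nat_lit 0) (XT.nd (nat_lit 546) (nat_lit 0) (nat_lit 0) (XT.nd (nat_lit 234) (nat_lit 0) (nat_lit 0) (XT.nd (nat_lit 78) (nat_lit 0) (nat_lit 0) (XT.lf (nat_lit 0) (nat_lit 263493289456)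 (nat_lit 152) (nat_lit 1358169101509) (nat_lit 0) (nat_lit 261744057604) (nat_lit 1) (nat_lit 5) (nat_lit 3) (nat_lit 4) (nat_lit 1) (nat_lit 4) (nat_lit 252) (nat_lit 189) (nat_lit 159)) (XT.nd (nat_lit 78) (nat_lit 0) (nat_lit 0) (XT.lf (nat_lit 0) (nat_lit 304169198162) (nat_lit 152) (nat_lit 1559115615940) (nat_lit 0) (nat_lit 302416467546) (nat_lit 1) (nat_lit 5) (nat_lit 3) (nat_lit 4) (nat_lit 1) (nat_lit 4) (nat_lit 253) (nat_lit 189) (nat_lit 158)) (XT.lf (nat_lit 0) (nat_lit 350941412969) (nat_lit 152) (nat_lit 1790214060929) (nat_lit 0) (nat_lit 349185639948) (nat_lit 1) (nat_lit 5) (nat_lit 3) (nat_lit 4) (nat_lit 1) (nat_lit 4) (nat_lit 254) (nat_lit 189) (nat_lit 157)))) (XT.nd (nat_lit 156) (nat_lit 0) (nat_lit 0) (XT.nd (nat_lit 78) (nat_lit 0) (nat_lit 0) (XT.lf (nat_lit 0) (nat_lit 404725042427) (nat_lit 152) (nat_lit 2055985927791) (nat_lit 0) (nat_lit 402966623836)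 (nat_lit 1) (nat_lit 5) (nat_lit 3) (nat_lit 4) (nat_lit 1) (nat_lit 4) (nat_lit 255) (nat_lit 189) (nat_lit 156)) (XT.lf (nat_lit 0) (nat_lit 466572374937) (nat_lit 152) (nat_lit 2361631100879) (nat_lit 0) (nat_lit 464811655852) (nat_lit 1) (nat_lit 5) (nat_lit 3) (nat_lit 4) (nat_lit 1) (nat_lit 4) (nat_lit 256) (nat_lit 189) (nat_lit 155))) (XT.nd (nat_lit 78) (nat_lit 0) (nat_lit 0) (XT.lf (nat_lit 0) (nat_lit 537693467007) (nat_lit 152) (nat_lit 2713129594447) (nat_lit 0) (nat_lit 535930747491) (nat_lit 1) (nat_lit 5) (nat_lit 3) (nat_lit 4) (nat_lit 1) (nat_lit 4) (nat_lit 257) (nat_lit 189) (nat_lit 154)) (XT.lf (nat_lit 0) (nat_lit 619479818263) (nat_lit 152) (nat_lit 3117358552936) (nat_lit 0) (nat_lit 617715359242) (nat_lit 1) (nat_lit 5) (nat_lit 3) (nat_lit 4) (nat_lit 1) (nat_lit 4) (nat_lit 258) (nat_lit 189) (nat_lit 153))))) (XT.nd (nat_lit 312) (nat_lit 0) (nat_lit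 0) (XT.nd (nat_lit 156) (nat_lit 0) (nat_lit 0) (XT.nd (nat_lit 78) (nat_lit 0) (nat_lit 0) (XT.lf (nat_lit 0) (nat_lit 713531596447) (nat_lit 152) (nat_lit 3582226803795) (nat_lit 0) (nat_lit 711765624814) (nat_lit 1) (nat_lit 5) (nat_lit 3) (nat_lit 4) (nat_lit 1) (nat_lit 4) (nat_lit 259) (nat_lit 189) (nat_lit 152)) (XT.lf (nat_lit 0) (nat_lit 821688945045) (nat_lit 152) (nat_lit 4116829595409) (nat_lit 0) (nat_lit 819921658097) (nat_lit 1) (nat_lit 5) (nat_lit 3) (nat_lit 4) (nat_lit 1) (nat_lit 4) (nat_lit 260) (nat_lit 189) (nat_lit 151))) (XT.nd (nat_lit 78) (nat_lit 0) (nat_lit 0) (XT.lf (nat_lit 0) (nat_lit 946067986096) (nat_lit 152) (nat_lit 4731626547614) (nat_lit 0) (nat_lit 944299555395) (nat_lit 1) (nat_lit 5) (nat_lit 3) (nat_lit 4) (nat_lit 1) (nat_lit 4) (nat_lit 261) (nat_lit 189) (nat_lit 150)) (XT.lf (nat_lit 0) (nat_lit 1089102222576) (nat_lit 152) (nat_lit 5438646296433)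 (nat_lit 0) (nat_lit 1087332797308) (nat_lit 1) (nat_lit 5) (nat_lit 3) (nat_lit 4) (nat_lit 1) (nat_lit 4) (nat_lit 262) (nat_lit 189) (nat_lit 149)))) (XT.nd (nat_lit 156) (nat_lit 0) (nat_lit 0) (XT.nd (nat_lit 78) (nat_lit 0) (nat_lit 0) (XT.lf (nat_lit 0) (nat_lit 1253590150417) (nat_lit 152) (nat_lit 6251721836950) (nat_lit 0) (nat_lit 1251819860307) (nat_lit 1) (nat_lit 5) (nat_lit 3) (nat_lit 4) (nat_lit 1) (nat_lit 4) (nat_lit 263) (nat_lit 189) (nat_lit 148)) (XT.lf (nat_lit 0) (nat_lit 1442750011684) (nat_lit 152) (nat_lit 7186761168871) (nat_lit 0) (nat_lit 1440978969539) (nat_lit 1) (nat_lit 5) (nat_lit 3) (nat_lit 4) (nat_lit 1) (nat_lit 4) (nat_lit 264) (nat_lit 189) (nat_lit 147))) (XT.nd (nat_lit 78) (nat_lit 0) (nat_lit 0) (XT.lf (nat_lit 0) (nat_lit 1660282760186) (nat_lit 152) (nat_lit 8262058539995) (nat_lit 0) (nat_lit 1658511064096) (nat_lit 1) (nat_lit 5) (nat_lit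 3) (nat_lit 4) (nat_lit 1) (nat_lit 4) (nat_lit 265) (nat_lit 189) (nat_lit 146)) (XT.lf (nat_lit 0) (nat_lit 1910444471436) (nat_lit 152) (nat_lit 9498652377149) (nat_lit 0) (nat_lit 1908672206699) (nat_lit 1) (nat_lit 5) (nat_lit 3) (nat_lit 4) (nat_lit 1) (nat_lit 4) (nat_lit 266) (nat_lit 189) (nat_lit 145)))))) (XT.nd (nat_lit 936) (nat_lit 0) (nat_lit 0) (XT.nd (nat_lit 312) (nat_lit 0) (nat_lit 0) (XT.nd (nat_lit 156) (nat_lit 0) (nat_lit 0) (XT.nd (nat_lit 78) (nat_lit 0) (nat_lit 0) (XT.lf (nat_lit 0) (nat_lit 2198129613699) (nat_lit 152) (nat_lit 10920736907580) (nat_lit 0) (nat_lit 2196356854486) (nat_lit 1) (nat_lit 5) (nat_lit 3) (nat_lit 4) (nat_lit 1) (nat_lit 4) (nat_lit 267) (nat_lit 189) (nat_lit 144)) (XT.lf (nat_lit 0) (nat_lit 2528966809322) (nat_lit 152) (nat_lit 12556135524275) (nat_lit 0) (nat_lit 2527193620130) (nat_lit 1) (nat_lit 5) (nat_lit 3) (nat_lit 4)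 (nat_lit 1) (nat_lit 4) (nat_lit 268) (nat_lit 189) (nat_lit 143))) (XT.nd (nat_lit 78) (nat_lit 0) (nat_lit 0) (XT.lf (nat_lit 0) (nat_lit 2909428959959) (nat_lit 152) (nat_lit 14436845156692) (nat_lit 0) (nat_lit 2907655396873) (nat_lit 1) (nat_lit 5) (nat_lit 3) (nat_lit 4) (nat_lit 1) (nat_lit 4) (nat_lit 269) (nat_lit 189) (nat_lit 142)) (XT.lf (nat_lit 0) (nat_lit 3346959890297) (nat_lit 152) (nat_lit 16599662297639) (nat_lit 0) (nat_lit 3345186002084) (nat_lit 1) (nat_lit 5) (nat_lit 3) (nat_lit 4) (nat_lit 1) (nat_lit 4) (nat_lit 270) (nat_lit 189) (nat_lit 141)))) (XT.nd (nat_lit 156) (nat_lit 0) (nat_lit 0) (XT.nd (nat_lit 78) (nat_lit 0) (nat_lit 0) (XT.lf (nat_lit 0) (nat_lit 3850119988102) (nat_lit 152) (nat_lit 19086902934655) (nat_lit 0) (nat_lit 3848345817172) (nat_lit 1) (nat_lit 5) (nat_lit 3) (nat_lit 4) (nat_lit 1) (nat_lit 4) (nat_lit 271) (nat_lit 189) (nat_lit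 140)) (XT.lf (nat_lit 0) (nat_lit 4428753690073) (nat_lit 152) (nat_lit 21947230471509) (nat_lit 0) (nat_lit 4426979273300) (nat_lit 1) (nat_lit 5) (nat_lit 3) (nat_lit 4) (nat_lit 1) (nat_lit 4) (nat_lit 272) (nat_lit 189) (nat_lit 139))) (XT.nd (nat_lit 390) (nat_lit 0) (nat_lit 0) (XT.lf (nat_lit 0) (nat_lit 5094182090376) (nat_lit 152) (nat_lit 25236607838270) (nat_lit 0) (nat_lit 5092407459828) (nat_lit 1) (nat_lit 5) (nat_lit 3) (nat_lit 4) (nat_lit 1) (nat_lit 4) (nat_lit 273) (nat_lit 189) (nat_lit 138)) (XT.lf (nat_lit 0) (nat_lit 10253734983276) (nat_lit 152) (nat_lit 50741589107706) (nat_lit 0) (nat_lit 10251959636120) (nat_lit 1) (nat_lit 5) (nat_lit 3) (nat_lit 4) (nat_lit 1) (nat_lit 4) (nat_lit 278) (nat_lit 189) (nat_lit 133))))) (XT.nd (nat_lit 26676) (nat_lit 0) (nat_lit 152) (XT.nd (nat_lit 156) (nat_lit 0) (nat_lit 0) (XT.nd (nat_lit 78) (nat_lit 0) (nat_lit 0)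 (XT.lf (nat_lit 0) (nat_lit 11792909226642) (nat_lit 152) (nat_lit 58350122916682) (nat_lit 0) (nat_lit 11791133787065) (nat_lit 1) (nat_lit 5) (nat_lit 3) (nat_lit 4) (nat_lit 1) (nat_lit 4) (nat_lit 279) (nat_lit 189) (nat_lit 132)) (XT.lf (nat_lit 0) (nat_lit 13562959472318) (nat_lit 152) (nat_lit 67099937059926) (nat_lit 0) (nat_lit 13561183952374) (nat_lit 1) (nat_lit 5) (nat_lit 3) (nat_lit 4) (nat_lit 1) (nat_lit 4) (nat_lit 280) (nat_lit 189) (nat_lit 131))) (XT.nd (nat_lit 78) (nat_lit 0) (nat_lit 0) (XT.lf (nat_lit 0) (nat_lit 15598517138153) (nat_lit 152) (nat_lit 77162223553286) (nat_lit 0) (nat_lit 15596741548326) (nat_lit 1) (nat_lit 5) (nat_lit 3) (nat_lit 4) (nat_lit 1) (nat_lit 4) (nat_lit 281) (nat_lit 189) (nat_lit 130)) (XT.lf (nat_lit 0) (nat_lit 17939408352393) (nat_lit 152) (nat_lit 88733853219456) (nat_lit 0) (nat_lit 17937632701798) (nat_lit 1) (nat_lit 5)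 (nat_lit 3) (nat_lit 4) (nat_lit 1) (nat_lit 4) (nat_lit 282) (nat_lit 189) (nat_lit 129)))) (XT.nd (nat_lit 156) (nat_lit 0) (nat_lit 0) (XT.nd (nat_lit 78) (nat_lit 76) (nat_lit 0) (XT.lf (nat_lit 0) (nat_lit 4640925941) (nat_lit 152) (nat_lit 2852316688) (nat_lit 0) (nat_lit 4640925941) (nat_lit 4) (nat_lit 5) (nat_lit 6) (nat_lit 4) (nat_lit 4) (nat_lit 4) (nat_lit 220) (nat_lit 190) (nat_lit 190)) (XT.lf (nat_lit 0) (nat_lit 60611551) (nat_lit 76) (nat_lit 13805129759) (nat_lit 76) (nat_lit 13498760147) (nat_lit 3) (nat_lit 4) (nat_lit 4) (nat_lit 5) (nat_lit 4) (nat_lit 4) (nat_lit 221) (nat_lit 190) (nat_lit 189))) (XT.nd (nat_lit 78) (nat_lit 0) (nat_lit 0) (XT.lf (nat_lit 0) (nat_lit 6714634390) (nat_lit 76) (nat_lit 12394271096) (nat_lit 76) (nat_lit 11821493127) (nat_lit 3) (nat_lit 4) (nat_lit 4) (nat_lit 5) (nat_lit 4) (nat_lit 4) (nat_lit 222) (nat_lit 190) (nat_lit 188))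 (XT.lf (nat_lit 0) (nat_lit 13830124279) (nat_lit 76) (nat_lit 11024502260) (nat_lit 76) (nat_lit 10220064850) (nat_lit 3) (nat_lit 4) (nat_lit 4) (nat_lit 5) (nat_lit 4) (nat_lit 4) (nat_lit 223) (nat_lit 190) (nat_lit 187))))))))
noncomputable def xc14 : XT := (XT.nd (nat_lit 2418) (nat_lit 0) (nat_lit 0) (XT.nd (nat_lit 1170) (nat_lit 0) (nat_lit 0) (XT.nd (nat_lit 546) (nat_lit 0) (nat_lit 0) (XT.nd (nat_lit 234) (nat_lit 152) (nat_lit 0) (XT.nd (nat_lit 78) (nat_lit 0) (nat_lit 0) (XT.lf (nat_lit 0) (nat_lit 21546297327) (nat_lit 76) (nat_lit 9669023425) (nat_lit 76) (nat_lit 8663143022) (nat_lit 3) (nat_lit 4) (nat_lit 4) (nat_lit 5) (nat_lit 4) (nat_lit 4) (nat_lit 224) (nat_lit 190) (nat_lit 186)) (XT.nd (nat_lit 78) (nat_lit 0) (nat_lit 0) (XT.lf (nat_lit 0) (nat_lit 30014122136) (nat_lit 76) (nat_lit 8301314353) (nat_lit 76) (nat_lit 7120266130) (nat_lit 3) (nat_lit 4) (nat_lit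 4) (nat_lit 5) (nat_lit 4) (nat_lit 4) (nat_lit 225) (nat_lit 190) (nat_lit 185)) (XT.lf (nat_lit 0) (nat_lit 39399273539) (nat_lit 76) (nat_lit 6894615519) (nat_lit 76) (nat_lit 5561247453) (nat_lit 3) (nat_lit 4) (nat_lit 4) (nat_lit 5) (nat_lit 4) (nat_lit 4) (nat_lit 226) (nat_lit 190) (nat_lit 184)))) (XT.nd (nat_lit 156) (nat_lit 152) (nat_lit 0) (XT.nd (nat_lit 78) (nat_lit 0) (nat_lit 0) (XT.lf (nat_lit 0) (nat_lit 49885374064) (nat_lit 76) (nat_lit 5421404554) (nat_lit 76) (nat_lit 3955584450) (nat_lit 3) (nat_lit 4) (nat_lit 4) (nat_lit 5) (nat_lit 4) (nat_lit 4) (nat_lit 227) (nat_lit 190) (nat_lit 183)) (XT.lf (nat_lit 0) (nat_lit 61677586547) (nat_lit 76) (nat_lit 3852857765) (nat_lit 76) (nat_lit 2271861977) (nat_lit 3) (nat_lit 4) (nat_lit 4) (nat_lit 5) (nat_lit 4) (nat_lit 4) (nat_lit 228) (nat_lit 190) (nat_lit 182))) (XT.nd (nat_lit 78) (nat_lit 152) (nat_lit 0)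 (XT.lf (nat_lit 0) (nat_lit 75006628189) (nat_lit 76) (nat_lit 2158286194) (nat_lit 76) (nat_lit 477137636) (nat_lit 3) (nat_lit 4) (nat_lit 4) (nat_lit 5) (nat_lit 4) (nat_lit 4) (nat_lit 229) (nat_lit 190) (nat_lit 181)) (XT.lf (nat_lit 0) (nat_lit 1205917905) (nat_lit 76) (nat_lit 177410386) (nat_lit 152) (nat_lit 87574207236) (nat_lit 1) (nat_lit 5) (nat_lit 2) (nat_lit 5) (nat_lit 3) (nat_lit 4) (nat_lit 230) (nat_lit 190) (nat_lit 180))))) (XT.nd (nat_lit 312) (nat_lit 0) (nat_lit 0) (XT.nd (nat_lit 156) (nat_lit 0) (nat_lit 0) (XT.nd (nat_lit 78) (nat_lit 0) (nat_lit 0) (XT.lf (nat_lit 0) (nat_lit 3595356604) (nat_lit 152) (nat_lit 96361731632) (nat_lit 0) (nat_lit 1991906339) (nat_lit 1) (nat_lit 5) (nat_lit 3) (nat_lit 4) (nat_lit 1) (nat_lit 4) (nat_lit 231) (nat_lit 190) (nat_lit 179)) (XT.lf (nat_lit 0) (nat_lit 6052020092) (nat_lit 152) (nat_lit 106459148838) (nat_lit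 0) (nat_lit 4391307156) (nat_lit 1) (nat_lit 5) (nat_lit 3) (nat_lit 4) (nat_lit 1) (nat_lit 4) (nat_lit 232) (nat_lit 190) (nat_lit 178))) (XT.nd (nat_lit 78) (nat_lit 0) (nat_lit 0) (XT.lf (nat_lit 0) (nat_lit 8794037726) (nat_lit 152) (nat_lit 118234081217) (nat_lit 0) (nat_lit 7083531163) (nat_lit 1) (nat_lit 5) (nat_lit 3) (nat_lit 4) (nat_lit 1) (nat_lit 4) (nat_lit 233) (nat_lit 190) (nat_lit 177)) (XT.lf (nat_lit 0) (nat_lit 11875057676) (nat_lit 152) (nat_lit 131916907883) (nat_lit 0) (nat_lit 10121252307) (nat_lit 1) (nat_lit 5) (nat_lit 3) (nat_lit 4) (nat_lit 1) (nat_lit 4) (nat_lit 234) (nat_lit 190) (nat_lit 176)))) (XT.nd (nat_lit 156) (nat_lit 0) (nat_lit 0) (XT.nd (nat_lit 78) (nat_lit 0) (nat_lit 0) (XT.lf (nat_lit 0) (nat_lit 15355360767) (nat_lit 152) (nat_lit 147775336312) (nat_lit 0) (nat_lit 13563904263) (nat_lit 1) (nat_lit 5) (nat_lit 3) (nat_lit 4) (nat_lit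 1) (nat_lit 4) (nat_lit 235) (nat_lit 190) (nat_lit 175)) (XT.lf (nat_lit 0) (nat_lit 19303039887) (nat_lit 152) (nat_lit 166119640105) (nat_lit 0) (nat_lit 17478843265) (nat_lit 1) (nat_lit 5) (nat_lit 3) (nat_lit 4) (nat_lit 1) (nat_lit 4) (nat_lit 236) (nat_lit 190) (nat_lit 174))) (XT.nd (nat_lit 78) (nat_lit 0) (nat_lit 0) (XT.lf (nat_lit 0) (nat_lit 23795332235) (nat_lit 152) (nat_lit 187308729553) (nat_lit 0) (nat_lit 21942665945) (nat_lit 1) (nat_lit 5) (nat_lit 3) (nat_lit 4) (nat_lit 1) (nat_lit 4) (nat_lit 237) (nat_lit 190) (nat_lit 173)) (XT.lf (nat_lit 0) (nat_lit 28920130488) (nat_lit 152) (nat_lit 211757173797) (nat_lit 0) (nat_lit 27042707965) (nat_lit 1) (nat_lit 5) (nat_lit 3) (nat_lit 4) (nat_lit 1) (nat_lit 4) (nat_lit 238) (nat_lit 190) (nat_lit 172)))))) (XT.nd (nat_lit 624) (nat_lit 0) (nat_lit 0) (XT.nd (nat_lit 312) (nat_lit 0) (nat_lit 0) (XT.nd (nat_lit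 156) (nat_lit 0) (nat_lit 0) (XT.nd (nat_lit 78) (nat_lit 0) (nat_lit 0) (XT.lf (nat_lit 0) (nat_lit 34777702437) (nat_lit 152) (nat_lit 239943311965) (nat_lit 0) (nat_lit 32878752755) (nat_lit 1) (nat_lit 5) (nat_lit 3) (nat_lit 4) (nat_lit 1) (nat_lit 4) (nat_lit 239) (nat_lit 190) (nat_lit 171)) (XT.lf (nat_lit 0) (nat_lit 41482652751) (nat_lit 152) (nat_lit 272418611976) (nat_lit 0) (nat_lit 39564983800) (nat_lit 1) (nat_lit 5) (nat_lit 3) (nat_lit 4) (nat_lit 1) (nat_lit 4) (nat_lit 240) (nat_lit 190) (nat_lit 170))) (XT.nd (nat_lit 78) (nat_lit 0) (nat_lit 0) (XT.lf (nat_lit 0) (nat_lit 49166165241) (nat_lit 152) (nat_lit 309818460136) (nat_lit 0) (nat_lit 47232218665) (nat_lit 1) (nat_lit 5) (nat_lit 3) (nat_lit 4) (nat_lit 1) (nat_lit 4) (nat_lit 241) (nat_lit 190) (nat_lit 169)) (XT.lf (nat_lit 0) (nat_lit 57978569499) (nat_lit 152) (nat_lit 352874592604) (nat_lit 0) (nat_lit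 56030468467) (nat_lit 1) (nat_lit 5) (nat_lit 3) (nat_lit 4) (nat_lit 1) (nat_lit 4) (nat_lit 242) (nat_lit 190) (nat_lit 168)))) (XT.nd (nat_lit 156) (nat_lit 0) (nat_lit 0) (XT.nd (nat_lit 78) (nat_lit 0) (nat_lit 0) (XT.lf (nat_lit 0) (nat_lit 68092282129) (nat_lit 152) (nat_lit 402429411971) (nat_lit 0) (nat_lit 66131872874) (nat_lit 1) (nat_lit 5) (nat_lit 3) (nat_lit 4) (nat_lit 1) (nat_lit 4) (nat_lit 243) (nat_lit 190) (nat_lit 167)) (XT.lf (nat_lit 0) (nat_lit 79705180119) (nat_lit 152) (nat_lit 459452469052) (nat_lit 0) (nat_lit 77734068061) (nat_lit 1) (nat_lit 5) (nat_lit 3) (nat_lit 4) (nat_lit 1) (nat_lit 4) (nat_lit 244) (nat_lit 190) (nat_lit 166))) (XT.nd (nat_lit 78) (nat_lit 0) (nat_lit 0) (XT.lf (nat_lit 0) (nat_lit 93044472342) (nat_lit 152) (nat_lit 525059432355) (nat_lit 0) (nat_lit 91064053499) (nat_lit 1) (nat_lit 5) (nat_lit 3) (nat_lit 4) (nat_lit 1) (nat_lit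 4) (nat_lit 245) (nat_lit 190) (nat_lit 165)) (XT.lf (nat_lit 0) (nat_lit 108371144949) (nat_lit 152) (nat_lit 600533916378) (nat_lit 0) (nat_lit 106382633250) (nat_lit 1) (nat_lit 5) (nat_lit 3) (nat_lit 4) (nat_lit 1) (nat_lit 4) (nat_lit 246) (nat_lit 190) (nat_lit 164))))) (XT.nd (nat_lit 312) (nat_lit 0) (nat_lit 0) (XT.nd (nat_lit 156) (nat_lit 0) (nat_lit 0) (XT.nd (nat_lit 78) (nat_lit 0) (nat_lit 0) (XT.lf (nat_lit 0) (nat_lit 125985067623) (nat_lit 152) (nat_lit 687352595810) (nat_lit 0) (nat_lit 123989518657) (nat_lit 1) (nat_lit 5) (nat_lit 3) (nat_lit 4) (nat_lit 1) (nat_lit 4) (nat_lit 247) (nat_lit 190) (nat_lit 163)) (XT.lf (nat_lit 0) (nat_lit 146230860590) (nat_lit 152) (nat_lit 787214096986) (nat_lit 0) (nat_lit 144229192262) (nat_lit 1) (nat_lit 5) (nat_lit 3) (nat_lit 4) (nat_lit 1) (nat_lit 4) (nat_lit 248) (nat_lit 190) (nat_lit 162))) (XT.nd (nat_lit 78) (nat_lit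 0) (nat_lit 0) (XT.lf (nat_lit 0) (nat_lit 169504637190) (nat_lit 152) (nat_lit 902072231888) (nat_lit 0) (nat_lit 167497647677) (nat_lit 1) (nat_lit 5) (nat_lit 3) (nat_lit 4) (nat_lit 1) (nat_lit 4) (nat_lit 249) (nat_lit 190) (nat_lit 161)) (XT.lf (nat_lit 0) (nat_lit 196261753922) (nat_lit 152) (nat_lit 1034174224892) (nat_lit 0) (nat_lit 194250137292) (nat_lit 1) (nat_lit 5) (nat_lit 3) (nat_lit 4) (nat_lit 1) (nat_lit 4) (nat_lit 250) (nat_lit 190) (nat_lit 160)))) (XT.nd (nat_lit 156) (nat_lit 0) (nat_lit 0) (XT.nd (nat_lit 78) (nat_lit 0) (nat_lit 0) (XT.lf (nat_lit 0) (nat_lit 227025719591) (nat_lit 152) (nat_lit 1186104680211) (nat_lit 0) (nat_lit 225010079382) (nat_lit 1) (nat_lit 5) (nat_lit 3) (nat_lit 4) (nat_lit 1) (nat_lit 4) (nat_lit 251) (nat_lit 190) (nat_lit 159)) (XT.lf (nat_lit 0) (nat_lit 262398437875) (nat_lit 152) (nat_lit 1360836150230) (nat_lit 0) (nat_lit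 260379298900) (nat_lit 1) (nat_lit 5) (nat_lit 3) (nat_lit 4) (nat_lit 1) (nat_lit 4) (nat_lit 252) (nat_lit 190) (nat_lit 158))) (XT.nd (nat_lit 78) (nat_lit 0) (nat_lit 0) (XT.lf (nat_lit 0) (nat_lit 303071983695) (nat_lit 152) (nat_lit 1561787294146) (nat_lit 0) (nat_lit 301049802316) (nat_lit 1) (nat_lit 5) (nat_lit 3) (nat_lit 4) (nat_lit 1) (nat_lit 4) (nat_lit 253) (nat_lit 190) (nat_lit 157)) (XT.lf (nat_lit 0) (nat_lit 349842143818) (nat_lit 152) (nat_lit 1792889764774) (nat_lit 0) (nat_lit 347817316870) (nat_lit 1) (nat_lit 5) (nat_lit 3) (nat_lit 4) (nat_lit 1) (nat_lit 4) (nat_lit 254) (nat_lit 190) (nat_lit 156))))))) (XT.nd (nat_lit 1170) (nat_lit 0) (nat_lit 0) (XT.nd (nat_lit 546) (nat_lit 0) (nat_lit 0) (XT.nd (nat_lit 234) (nat_lit 0) (nat_lit 0) (XT.nd (nat_lit 78) (nat_lit 0) (nat_lit 0) (XT.lf (nat_lit 0) (nat_lit 403623986594) (nat_lit 152) (nat_lit 2058665132193)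 (nat_lit 0) (nat_lit 401596859151) (nat_lit 1) (nat_lit 5) (nat_lit 3) (nat_lit 4) (nat_lit 1) (nat_lit 4) (nat_lit 255) (nat_lit 190) (nat_lit 155)) (XT.nd (nat_lit 78) (nat_lit 0) (nat_lit 0) (XT.lf (nat_lit 0) (nat_lit 465469765468) (nat_lit 152) (nat_lit 2364313349242) (nat_lit 0) (nat_lit 463440637595) (nat_lit 1) (nat_lit 5) (nat_lit 3) (nat_lit 4) (nat_lit 1) (nat_lit 4) (nat_lit 256) (nat_lit 190) (nat_lit 154)) (XT.lf (nat_lit 0) (nat_lit 536589506550) (nat_lit 152) (nat_lit 2715814489734) (nat_lit 0) (nat_lit 534558639172) (nat_lit 1) (nat_lit 5) (nat_lit 3) (nat_lit 4) (nat_lit 1) (nat_lit 4) (nat_lit 257) (nat_lit 190) (nat_lit 153)))) (XT.nd (nat_lit 156) (nat_lit 0) (nat_lit 0) (XT.nd (nat_lit 78) (nat_lit 0) (nat_lit 0) (XT.lf (nat_lit 0) (nat_lit 618374683033) (nat_lit 152) (nat_lit 3120045749896) (nat_lit 0) (nat_lit 616342303043) (nat_lit 1) (nat_lit 5) (nat_lit 3)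 (nat_lit 4) (nat_lit 1) (nat_lit 4) (nat_lit 258) (nat_lit 190) (nat_lit 152)) (XT.lf (nat_lit 0) (nat_lit 712425439676) (nat_lit 152) (nat_lit 3584916002209) (nat_lit 0) (nat_lit 710391744370) (nat_lit 1) (nat_lit 5) (nat_lit 3) (nat_lit 4) (nat_lit 1) (nat_lit 4) (nat_lit 259) (nat_lit 190) (nat_lit 151))) (XT.nd (nat_lit 78) (nat_lit 0) (nat_lit 0) (XT.lf (nat_lit 0) (nat_lit 820581899978) (nat_lit 152) (nat_lit 4119520534218) (nat_lit 0) (nat_lit 818547060920) (nat_lit 1) (nat_lit 5) (nat_lit 3) (nat_lit 4) (nat_lit 1) (nat_lit 4) (nat_lit 260) (nat_lit 190) (nat_lit 150)) (XT.lf (nat_lit 0) (nat_lit 944960168597) (nat_lit 152) (nat_lit 4734318999810) (nat_lit 0) (nat_lit 942924334971) (nat_lit 1) (nat_lit 5) (nat_lit 3) (nat_lit 4) (nat_lit 1) (nat_lit 4) (nat_lit 261) (nat_lit 190) (nat_lit 149))))) (XT.nd (nat_lit 312) (nat_lit 0) (nat_lit 0) (XT.nd (nat_lit 156) (nat_lit 0)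 (nat_lit 0) (XT.nd (nat_lit 78) (nat_lit 0) (nat_lit 0) (XT.lf (nat_lit 0) (nat_lit 1087993733398) (nat_lit 152) (nat_lit 5441340064618) (nat_lit 0) (nat_lit 1085957034930) (nat_lit 1) (nat_lit 5) (nat_lit 3) (nat_lit 4) (nat_lit 1) (nat_lit 4) (nat_lit 262) (nat_lit 190) (nat_lit 148)) (XT.lf (nat_lit 0) (nat_lit 1252481077169) (nat_lit 152) (nat_lit 6254416749473) (nat_lit 0) (nat_lit 1250443626666) (nat_lit 1) (nat_lit 5) (nat_lit 3) (nat_lit 4) (nat_lit 1) (nat_lit 4) (nat_lit 263) (nat_lit 190) (nat_lit 147))) (XT.nd (nat_lit 78) (nat_lit 0) (nat_lit 0) (XT.lf (nat_lit 0) (nat_lit 1441640430550) (nat_lit 152) (nat_lit 7189457076471) (nat_lit 0) (nat_lit 1439602326102) (nat_lit 1) (nat_lit 5) (nat_lit 3) (nat_lit 4) (nat_lit 1) (nat_lit 4) (nat_lit 264) (nat_lit 190) (nat_lit 146)) (XT.lf (nat_lit 0) (nat_lit 1659172737411) (nat_lit 152) (nat_lit 8264755312879) (nat_lit 0) (nat_lit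 1657134064317) (nat_lit 1) (nat_lit 5) (nat_lit 3) (nat_lit 4) (nat_lit 1) (nat_lit 4) (nat_lit 265) (nat_lit 190) (nat_lit 145)))) (XT.nd (nat_lit 156) (nat_lit 0) (nat_lit 0) (XT.nd (nat_lit 78) (nat_lit 0) (nat_lit 0) (XT.lf (nat_lit 0) (nat_lit 1909334064626) (nat_lit 152) (nat_lit 9501349902453) (nat_lit 0) (nat_lit 1907294897056) (nat_lit 1) (nat_lit 5) (nat_lit 3) (nat_lit 4) (nat_lit 1) (nat_lit 4) (nat_lit 266) (nat_lit 190) (nat_lit 144)) (XT.lf (nat_lit 0) (nat_lit 2197018872945) (nat_lit 152) (nat_lit 10923435087163) (nat_lit 0) (nat_lit 2194979275396) (nat_lit 1) (nat_lit 5) (nat_lit 3) (nat_lit 4) (nat_lit 1) (nat_lit 4) (nat_lit 267) (nat_lit 190) (nat_lit 143))) (XT.nd (nat_lit 78) (nat_lit 0) (nat_lit 0) (XT.lf (nat_lit 0) (nat_lit 2527855778183) (nat_lit 152) (nat_lit 12558834272796) (nat_lit 0) (nat_lit 2525815806739) (nat_lit 1) (nat_lit 5) (nat_lit 3) (nat_lit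 4) (nat_lit 1) (nat_lit 4) (nat_lit 268) (nat_lit 190) (nat_lit 142)) (XT.lf (nat_lit 0) (nat_lit 2908317676311) (nat_lit 152) (nat_lit 14439544399942) (nat_lit 0) (nat_lit 2906277379741) (nat_lit 1) (nat_lit 5) (nat_lit 3) (nat_lit 4) (nat_lit 1) (nat_lit 4) (nat_lit 269) (nat_lit 190) (nat_lit 141)))))) (XT.nd (nat_lit 27222) (nat_lit 0) (nat_lit 152) (XT.nd (nat_lit 624) (nat_lit 0) (nat_lit 0) (XT.nd (nat_lit 156) (nat_lit 0) (nat_lit 0) (XT.nd (nat_lit 78) (nat_lit 0) (nat_lit 0) (XT.lf (nat_lit 0) (nat_lit 3345848387075) (nat_lit 152) (nat_lit 16602361971088) (nat_lit 0) (nat_lit 3343807807787) (nat_lit 1) (nat_lit 5) (nat_lit 3) (nat_lit 4) (nat_lit 1) (nat_lit 4) (nat_lit 270) (nat_lit 190) (nat_lit 140)) (XT.lf (nat_lit 0) (nat_lit 3849008293948) (nat_lit 152) (nat_lit 19089602982191) (nat_lit 0) (nat_lit 3846967468818) (nat_lit 1) (nat_lit 5) (nat_lit 3) (nat_lit 4) (nat_lit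 1) (nat_lit 4) (nat_lit 271) (nat_lit 190) (nat_lit 139))) (XT.nd (nat_lit 78) (nat_lit 0) (nat_lit 0) (XT.lf (nat_lit 0) (nat_lit 4427641829889) (nat_lit 152) (nat_lit 21949930844337) (nat_lit 0) (nat_lit 4425600790983) (nat_lit 1) (nat_lit 5) (nat_lit 3) (nat_lit 4) (nat_lit 1) (nat_lit 4) (nat_lit 272) (nat_lit 190) (nat_lit 138)) (XT.lf (nat_lit 0) (nat_lit 5093070085819) (nat_lit 152) (nat_lit 25239308493961) (nat_lit 0) (nat_lit 5091028861022) (nat_lit 1) (nat_lit 5) (nat_lit 3) (nat_lit 4) (nat_lit 1) (nat_lit 4) (nat_lit 273) (nat_lit 190) (nat_lit 137)))) (XT.nd (nat_lit 156) (nat_lit 0) (nat_lit 0) (XT.nd (nat_lit 78) (nat_lit 0) (nat_lit 0) (XT.lf (nat_lit 0) (nat_lit 10252622494758) (nat_lit 152) (nat_lit 50744290711597) (nat_lit 0) (nat_lit 10250580646823) (nat_lit 1) (nat_lit 5) (nat_lit 3) (nat_lit 4) (nat_lit 1) (nat_lit 4) (nat_lit 278) (nat_lit 190) (nat_lit 132))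 (XT.lf (nat_lit 0) (nat_lit 11791796675708) (nat_lit 152) (nat_lit 58352824642862) (nat_lit 0) (nat_lit 11789754747407) (nat_lit 1) (nat_lit 5) (nat_lit 3) (nat_lit 4) (nat_lit 1) (nat_lit 4) (nat_lit 279) (nat_lit 190) (nat_lit 131))) (XT.nd (nat_lit 78) (nat_lit 0) (nat_lit 0) (XT.lf (nat_lit 0) (nat_lit 13561846867109) (nat_lit 152) (nat_lit 67102638892445) (nat_lit 0) (nat_lit 13559804868924) (nat_lit 1) (nat_lit 5) (nat_lit 3) (nat_lit 4) (nat_lit 1) (nat_lit 4) (nat_lit 280) (nat_lit 190) (nat_lit 130)) (XT.lf (nat_lit 0) (nat_lit 15597404485748) (nat_lit 152) (nat_lit 77164925478273) (nat_lit 0) (nat_lit 15595362426795) (nat_lit 1) (nat_lit 5) (nat_lit 3) (nat_lit 4) (nat_lit 1) (nat_lit 4) (nat_lit 281) (nat_lit 190) (nat_lit 129))))) (XT.nd (nat_lit 312) (nat_lit 76) (nat_lit 0) (XT.nd (nat_lit 156) (nat_lit 0) (nat_lit 0) (XT.nd (nat_lit 78) (nat_lit 0) (nat_lit 0) (XT.lf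 (nat_lit 0) (nat_lit 731282665) (nat_lit 152) (nat_lit 8210114589) (nat_lit 0) (nat_lit 731282665) (nat_lit 4) (nat_lit 5) (nat_lit 6) (nat_lit 4) (nat_lit 4) (nat_lit 4) (nat_lit 218) (nat_lit 191) (nat_lit 191)) (XT.lf (nat_lit 0) (nat_lit 5349417260) (nat_lit 152) (nat_lit 11275388098) (nat_lit 0) (nat_lit 4997092207) (nat_lit 4) (nat_lit 5) (nat_lit 6) (nat_lit 4) (nat_lit 4) (nat_lit 4) (nat_lit 219) (nat_lit 191) (nat_lit 190))) (XT.nd (nat_lit 78) (nat_lit 0) (nat_lit 0) (XT.lf (nat_lit 0) (nat_lit 9473202984) (nat_lit 152) (nat_lit 6005339917) (nat_lit 0) (nat_lit 8814508320) (nat_lit 4) (nat_lit 5) (nat_lit 6) (nat_lit 4) (nat_lit 4) (nat_lit 4) (nat_lit 220) (nat_lit 191) (nat_lit 189)) (XT.lf (nat_lit 0) (nat_lit 13914605270) (nat_lit 152) (nat_lit 506974995) (nat_lit 0) (nat_lit 12989502248) (nat_lit 4) (nat_lit 5) (nat_lit 6) (nat_lit 4) (nat_lit 4) (nat_lit 4) (nat_lit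 221) (nat_lit 191) (nat_lit 188)))) (XT.nd (nat_lit 156) (nat_lit 0) (nat_lit 0) (XT.nd (nat_lit 78) (nat_lit 0) (nat_lit 0) (XT.lf (nat_lit 0) (nat_lit 5847904245) (nat_lit 76) (nat_lit 13154766115) (nat_lit 76) (nat_lit 11998003652) (nat_lit 3) (nat_lit 4) (nat_lit 4) (nat_lit 5) (nat_lit 4) (nat_lit 4) (nat_lit 222) (nat_lit 191) (nat_lit 187)) (XT.lf (nat_lit 0) (nat_lit 12746352123) (nat_lit 76) (nat_lit 11887209059) (nat_lit 76) (nat_lit 10529003603) (nat_lit 3) (nat_lit 4) (nat_lit 4) (nat_lit 5) (nat_lit 4) (nat_lit 4) (nat_lit 223) (nat_lit 191) (nat_lit 186))) (XT.nd (nat_lit 78) (nat_lit 0) (nat_lit 0) (XT.lf (nat_lit 0) (nat_lit 20273792987) (nat_lit 76) (nat_lit 10620610033) (nat_lit 76) (nat_lit 9087236757) (nat_lit 3) (nat_lit 4) (nat_lit 4) (nat_lit 5) (nat_lit 4) (nat_lit 4) (nat_lit 224) (nat_lit 191) (nat_lit 185)) (XT.lf (nat_lit 0) (nat_lit 28577502853) (nat_lit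 76) (nat_lit 9330187751) (nat_lit 76) (nat_lit 7644494632) (nat_lit 3) (nat_lit 4) (nat_lit 4) (nat_lit 5) (nat_lit 4) (nat_lit 4) (nat_lit 225) (nat_lit 191) (nat_lit 184))))))))
noncomputable def xc15 : XT := (XT.nd (nat_lit 2418) (nat_lit 0) (nat_lit 0) (XT.nd (nat_lit 1170) (nat_lit 0) (nat_lit 0) (XT.nd (nat_lit 546) (nat_lit 0) (nat_lit 0) (XT.nd (nat_lit 234) (nat_lit 152) (nat_lit 0) (XT.nd (nat_lit 78) (nat_lit 0) (nat_lit 0) (XT.lf (nat_lit 0) (nat_lit 37819945610) (nat_lit 76) (nat_lit 7990694821) (nat_lit 76) (nat_lit 6172549664) (nat_lit 3) (nat_lit 4) (nat_lit 4) (nat_lit 5) (nat_lit 4) (nat_lit 4) (nat_lit 226) (nat_lit 191) (nat_lit 183)) (XT.nd (nat_lit 78) (nat_lit 0) (nat_lit 0) (XT.lf (nat_lit 0) (nat_lit 48181951660) (nat_lit 76) (nat_lit 6575923772) (nat_lit 76) (nat_lit 4642602931) (nat_lit 3) (nat_lit 4) (nat_lit 4) (nat_lit 5) (nat_lit 4) (nat_lit 4) (nat_lit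 227) (nat_lit 191) (nat_lit 182)) (XT.lf (nat_lit 0) (nat_lit 59866255904) (nat_lit 76) (nat_lit 5058194303) (nat_lit 76) (nat_lit 3024720692) (nat_lit 3) (nat_lit 4) (nat_lit 4) (nat_lit 5) (nat_lit 4) (nat_lit 4) (nat_lit 228) (nat_lit 191) (nat_lit 181)))) (XT.nd (nat_lit 156) (nat_lit 76) (nat_lit 0) (XT.nd (nat_lit 78) (nat_lit 76) (nat_lit 0) (XT.lf (nat_lit 0) (nat_lit 73101464295) (nat_lit 76) (nat_lit 3407811704) (nat_lit 76) (nat_lit 1287248729) (nat_lit 3) (nat_lit 4) (nat_lit 4) (nat_lit 5) (nat_lit 4) (nat_lit 4) (nat_lit 229) (nat_lit 191) (nat_lit 180)) (XT.lf (nat_lit 0) (nat_lit 550051901) (nat_lit 152) (nat_lit 1013681269) (nat_lit 76) (nat_lit 87567721947) (nat_lit 2) (nat_lit 5) (nat_lit 4) (nat_lit 5) (nat_lit 3) (nat_lit 4) (nat_lit 230) (nat_lit 191) (nat_lit 179))) (XT.nd (nat_lit 78) (nat_lit 0) (nat_lit 0) (XT.lf (nat_lit 0) (nat_lit 2611931898) (nat_lit 152)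 (nat_lit 98888761324) (nat_lit 0) (nat_lit 644849350) (nat_lit 1) (nat_lit 5) (nat_lit 3) (nat_lit 4) (nat_lit 1) (nat_lit 4) (nat_lit 231) (nat_lit 191) (nat_lit 178)) (XT.lf (nat_lit 0) (nat_lit 5029923117) (nat_lit 152) (nat_lit 109061947178) (nat_lit 0) (nat_lit 3013046943) (nat_lit 1) (nat_lit 5) (nat_lit 3) (nat_lit 4) (nat_lit 1) (nat_lit 4) (nat_lit 232) (nat_lit 191) (nat_lit 177))))) (XT.nd (nat_lit 312) (nat_lit 0) (nat_lit 0) (XT.nd (nat_lit 156) (nat_lit 0) (nat_lit 0) (XT.nd (nat_lit 78) (nat_lit 0) (nat_lit 0) (XT.lf (nat_lit 0) (nat_lit 7738312691) (nat_lit 152) (nat_lit 120902765338) (nat_lit 0) (nat_lit 5678137711) (nat_lit 1) (nat_lit 5) (nat_lit 3) (nat_lit 4) (nat_lit 1) (nat_lit 4) (nat_lit 233) (nat_lit 191) (nat_lit 176)) (XT.lf (nat_lit 0) (nat_lit 10790090850) (nat_lit 152) (nat_lit 134642883987) (nat_lit 0) (nat_lit 8692264734) (nat_lit 1) (nat_lit 5) (nat_lit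 3) (nat_lit 4) (nat_lit 1) (nat_lit 4) (nat_lit 234) (nat_lit 191) (nat_lit 175))) (XT.nd (nat_lit 78) (nat_lit 0) (nat_lit 0) (XT.lf (nat_lit 0) (nat_lit 14244966297) (nat_lit 152) (nat_lit 150551131532) (nat_lit 0) (nat_lit 12114400063) (nat_lit 1) (nat_lit 5) (nat_lit 3) (nat_lit 4) (nat_lit 1) (nat_lit 4) (nat_lit 235) (nat_lit 191) (nat_lit 174)) (XT.lf (nat_lit 0) (nat_lit 18170534421) (nat_lit 152) (nat_lit 168938756295) (nat_lit 0) (nat_lit 16011498520) (nat_lit 1) (nat_lit 5) (nat_lit 3) (nat_lit 4) (nat_lit 1) (nat_lit 4) (nat_lit 236) (nat_lit 191) (nat_lit 173)))) (XT.nd (nat_lit 156) (nat_lit 0) (nat_lit 0) (XT.nd (nat_lit 78) (nat_lit 0) (nat_lit 0) (XT.lf (nat_lit 0) (nat_lit 22643599817) (nat_lit 152) (nat_lit 190165516152) (nat_lit 0) (nat_lit 20459807683) (nat_lit 1) (nat_lit 5) (nat_lit 3) (nat_lit 4) (nat_lit 1) (nat_lit 4) (nat_lit 237) (nat_lit 191) (nat_lit 172))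 (XT.lf (nat_lit 0) (nat_lit 27751678981) (nat_lit 152) (nat_lit 214646717274) (nat_lit 0) (nat_lit 25546359687) (nat_lit 1) (nat_lit 5) (nat_lit 3) (nat_lit 4) (nat_lit 1) (nat_lit 4) (nat_lit 238) (nat_lit 191) (nat_lit 171))) (XT.nd (nat_lit 78) (nat_lit 0) (nat_lit 0) (XT.lf (nat_lit 0) (nat_lit 33594712592) (nat_lit 152) (nat_lit 242861339683) (nat_lit 0) (nat_lit 31370674030) (nat_lit 1) (nat_lit 5) (nat_lit 3) (nat_lit 4) (nat_lit 1) (nat_lit 4) (nat_lit 239) (nat_lit 191) (nat_lit 170)) (XT.lf (nat_lit 0) (nat_lit 40287020873) (nat_lit 152) (nat_lit 275361408600) (nat_lit 0) (nat_lit 38046704686) (nat_lit 1) (nat_lit 5) (nat_lit 3) (nat_lit 4) (nat_lit 1) (nat_lit 4) (nat_lit 240) (nat_lit 191) (nat_lit 169)))))) (XT.nd (nat_lit 624) (nat_lit 0) (nat_lit 0) (XT.nd (nat_lit 312) (nat_lit 0) (nat_lit 0) (XT.nd (nat_lit 156) (nat_lit 0) (nat_lit 0) (XT.nd (nat_lit 78) (nat_lit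 0) (nat_lit 0) (XT.lf (nat_lit 0) (nat_lit 47959540290) (nat_lit 152) (nat_lit 312782794938) (nat_lit 0) (nat_lit 45705069647) (nat_lit 1) (nat_lit 5) (nat_lit 3) (nat_lit 4) (nat_lit 1) (nat_lit 4) (nat_lit 241) (nat_lit 191) (nat_lit 168)) (XT.lf (nat_lit 0) (nat_lit 56762385355) (nat_lit 152) (nat_lit 355857656257) (nat_lit 0) (nat_lit 54495606488) (nat_lit 1) (nat_lit 5) (nat_lit 3) (nat_lit 4) (nat_lit 1) (nat_lit 4) (nat_lit 242) (nat_lit 191) (nat_lit 167))) (XT.nd (nat_lit 78) (nat_lit 0) (nat_lit 0) (XT.lf (nat_lit 0) (nat_lit 66867785643) (nat_lit 152) (nat_lit 405428761582) (nat_lit 0) (nat_lit 64590303974) (nat_lit 1) (nat_lit 5) (nat_lit 3) (nat_lit 4) (nat_lit 1) (nat_lit 4) (nat_lit 243) (nat_lit 191) (nat_lit 166)) (XT.lf (nat_lit 0) (nat_lit 78473455509) (nat_lit 152) (nat_lit 462465980365) (nat_lit 0) (nat_lit 76186667055) (nat_lit 1) (nat_lit 5) (nat_lit 3) (nat_lit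 4) (nat_lit 1) (nat_lit 4) (nat_lit 244) (nat_lit 191) (nat_lit 165)))) (XT.nd (nat_lit 156) (nat_lit 0) (nat_lit 0) (XT.nd (nat_lit 78) (nat_lit 0) (nat_lit 0) (XT.lf (nat_lit 0) (nat_lit 91806462407) (nat_lit 152) (nat_lit 528085258190) (nat_lit 0) (nat_lit 89511581096) (nat_lit 1) (nat_lit 5) (nat_lit 3) (nat_lit 4) (nat_lit 1) (nat_lit 4) (nat_lit 245) (nat_lit 191) (nat_lit 164)) (XT.lf (nat_lit 0) (nat_lit 107127669514) (nat_lit 152) (nat_lit 603570450495) (nat_lit 0) (nat_lit 104825750937) (nat_lit 1) (nat_lit 5) (nat_lit 3) (nat_lit 4) (nat_lit 1) (nat_lit 4) (nat_lit 246) (nat_lit 191) (nat_lit 163))) (XT.nd (nat_lit 78) (nat_lit 0) (nat_lit 0) (XT.lf (nat_lit 0) (nat_lit 124736839580) (nat_lit 152) (nat_lit 690398441476) (nat_lit 0) (nat_lit 122428801641) (nat_lit 1) (nat_lit 5) (nat_lit 3) (nat_lit 4) (nat_lit 1) (nat_lit 4) (nat_lit 247) (nat_lit 191) (nat_lit 162)) (XT.lf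 (nat_lit 0) (nat_lit 144978499843) (nat_lit 152) (nat_lit 790268039652) (nat_lit 0) (nat_lit 142665140720) (nat_lit 1) (nat_lit 5) (nat_lit 3) (nat_lit 4) (nat_lit 1) (nat_lit 4) (nat_lit 248) (nat_lit 191) (nat_lit 161))))) (XT.nd (nat_lit 312) (nat_lit 0) (nat_lit 0) (XT.nd (nat_lit 156) (nat_lit 0) (nat_lit 0) (XT.nd (nat_lit 78) (nat_lit 0) (nat_lit 0) (XT.lf (nat_lit 0) (nat_lit 168248682788) (nat_lit 152) (nat_lit 905133215422) (nat_lit 0) (nat_lit 165930696548) (nat_lit 1) (nat_lit 5) (nat_lit 3) (nat_lit 4) (nat_lit 1) (nat_lit 4) (nat_lit 249) (nat_lit 191) (nat_lit 160)) (XT.lf (nat_lit 0) (nat_lit 195002674603) (nat_lit 152) (nat_lit 1037241330921) (nat_lit 0) (nat_lit 192680664783) (nat_lit 1) (nat_lit 5) (nat_lit 3) (nat_lit 4) (nat_lit 1) (nat_lit 4) (nat_lit 250) (nat_lit 191) (nat_lit 159))) (XT.nd (nat_lit 78) (nat_lit 0) (nat_lit 0) (XT.lf (nat_lit 0) (nat_lit 225763922953)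 (nat_lit 152) (nat_lit 1189177110148) (nat_lit 0) (nat_lit 223438414368) (nat_lit 1) (nat_lit 5) (nat_lit 3) (nat_lit 4) (nat_lit 1) (nat_lit 4) (nat_lit 251) (nat_lit 191) (nat_lit 158)) (XT.lf (nat_lit 0) (nat_lit 261134278350) (nat_lit 152) (nat_lit 1363913209652) (nat_lit 0) (nat_lit 258805727360) (nat_lit 1) (nat_lit 5) (nat_lit 3) (nat_lit 4) (nat_lit 1) (nat_lit 4) (nat_lit 252) (nat_lit 191) (nat_lit 157)))) (XT.nd (nat_lit 156) (nat_lit 0) (nat_lit 0) (XT.nd (nat_lit 78) (nat_lit 0) (nat_lit 0) (XT.lf (nat_lit 0) (nat_lit 301805769487) (nat_lit 152) (nat_lit 1564868379208) (nat_lit 0) (nat_lit 299474572927) (nat_lit 1) (nat_lit 5) (nat_lit 3) (nat_lit 4) (nat_lit 1) (nat_lit 4) (nat_lit 253) (nat_lit 191) (nat_lit 156)) (XT.lf (nat_lit 0) (nat_lit 348574142928) (nat_lit 152) (nat_lit 1795974350393) (nat_lit 0) (nat_lit 346240645874) (nat_lit 1) (nat_lit 5) (nat_lit 3) (nat_lit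 4) (nat_lit 1) (nat_lit 4) (nat_lit 254) (nat_lit 191) (nat_lit 155))) (XT.nd (nat_lit 78) (nat_lit 0) (nat_lit 0) (XT.lf (nat_lit 0) (nat_lit 402354432068) (nat_lit 152) (nat_lit 2061752761773) (nat_lit 0) (nat_lit 400018934583) (nat_lit 1) (nat_lit 5) (nat_lit 3) (nat_lit 4) (nat_lit 1) (nat_lit 4) (nat_lit 255) (nat_lit 191) (nat_lit 154)) (XT.lf (nat_lit 0) (nat_lit 464198859954) (nat_lit 152) (nat_lit 2367403625746) (nat_lit 0) (nat_lit 461861622965) (nat_lit 1) (nat_lit 5) (nat_lit 3) (nat_lit 4) (nat_lit 1) (nat_lit 4) (nat_lit 256) (nat_lit 191) (nat_lit 153))))))) (XT.nd (nat_lit 1170) (nat_lit 0) (nat_lit 0) (XT.nd (nat_lit 546) (nat_lit 0) (nat_lit 0) (XT.nd (nat_lit 234) (nat_lit 0) (nat_lit 0) (XT.nd (nat_lit 78) (nat_lit 0) (nat_lit 0) (XT.lf (nat_lit 0) (nat_lit 535317426264) (nat_lit 152) (nat_lit 2718907067910) (nat_lit 0) (nat_lit 532978676662) (nat_lit 1) (nat_lit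 5) (nat_lit 3) (nat_lit 4) (nat_lit 1) (nat_lit 4) (nat_lit 257) (nat_lit 191) (nat_lit 152)) (XT.nd (nat_lit 78) (nat_lit 0) (nat_lit 0) (XT.lf (nat_lit 0) (nat_lit 617101581206) (nat_lit 152) (nat_lit 3123140329526) (nat_lit 0) (nat_lit 614761516289) (nat_lit 1) (nat_lit 5) (nat_lit 3) (nat_lit 4) (nat_lit 1) (nat_lit 4) (nat_lit 258) (nat_lit 191) (nat_lit 151)) (XT.lf (nat_lit 0) (nat_lit 711151449553) (nat_lit 152) (nat_lit 3588012322234) (nat_lit 0) (nat_lit 708810240883) (nat_lit 1) (nat_lit 5) (nat_lit 3) (nat_lit 4) (nat_lit 1) (nat_lit 4) (nat_lit 259) (nat_lit 191) (nat_lit 150)))) (XT.nd (nat_lit 156) (nat_lit 0) (nat_lit 0) (XT.nd (nat_lit 78) (nat_lit 0) (nat_lit 0) (XT.lf (nat_lit 0) (nat_lit 819307137423) (nat_lit 152) (nat_lit 4122618367630) (nat_lit 0) (nat_lit 816964934186) (nat_lit 1) (nat_lit 5) (nat_lit 3) (nat_lit 4) (nat_lit 1) (nat_lit 4) (nat_lit 260) (nat_lit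 191) (nat_lit 149)) (XT.lf (nat_lit 0) (nat_lit 943684734362) (nat_lit 152) (nat_lit 4737418149212) (nat_lit 0) (nat_lit 941341666284) (nat_lit 1) (nat_lit 5) (nat_lit 3) (nat_lit 4) (nat_lit 1) (nat_lit 4) (nat_lit 261) (nat_lit 191) (nat_lit 148))) (XT.nd (nat_lit 78) (nat_lit 0) (nat_lit 0) (XT.lf (nat_lit 0) (nat_lit 1086717715093) (nat_lit 152) (nat_lit 5444440358357) (nat_lit 0) (nat_lit 1084373894979) (nat_lit 1) (nat_lit 5) (nat_lit 3) (nat_lit 4) (nat_lit 1) (nat_lit 4) (nat_lit 262) (nat_lit 191) (nat_lit 147)) (XT.lf (nat_lit 0) (nat_lit 1251204550978) (nat_lit 152) (nat_lit 6257518038289) (nat_lit 0) (nat_lit 1248860076919) (nat_lit 1) (nat_lit 5) (nat_lit 3) (nat_lit 4) (nat_lit 1) (nat_lit 4) (nat_lit 263) (nat_lit 191) (nat_lit 146))))) (XT.nd (nat_lit 312) (nat_lit 0) (nat_lit 0) (XT.nd (nat_lit 156) (nat_lit 0) (nat_lit 0) (XT.nd (nat_lit 78) (nat_lit 0) (nat_lit 0)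 (XT.lf (nat_lit 0) (nat_lit 1440363462719) (nat_lit 152) (nat_lit 7192559230570) (nat_lit 0) (nat_lit 1438018420013) (nat_lit 1) (nat_lit 5) (nat_lit 3) (nat_lit 4) (nat_lit 1) (nat_lit 4) (nat_lit 264) (nat_lit 191) (nat_lit 145)) (XT.lf (nat_lit 0) (nat_lit 1657895385545) (nat_lit 152) (nat_lit 8267858219399) (nat_lit 0) (nat_lit 1655549848363) (nat_lit 1) (nat_lit 5) (nat_lit 3) (nat_lit 4) (nat_lit 1) (nat_lit 4) (nat_lit 265) (nat_lit 191) (nat_lit 144))) (XT.nd (nat_lit 78) (nat_lit 0) (nat_lit 0) (XT.lf (nat_lit 0) (nat_lit 1908056378817) (nat_lit 152) (nat_lit 9504453463252) (nat_lit 0) (nat_lit 1905710411656) (nat_lit 1) (nat_lit 5) (nat_lit 3) (nat_lit 4) (nat_lit 1) (nat_lit 4) (nat_lit 266) (nat_lit 191) (nat_lit 143)) (XT.lf (nat_lit 0) (nat_lit 2195740896750) (nat_lit 152) (nat_lit 10926539216901) (nat_lit 0) (nat_lit 2193394555694) (nat_lit 1) (nat_lit 5) (nat_lit 3)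 (nat_lit 4) (nat_lit 1) (nat_lit 4) (nat_lit 267) (nat_lit 191) (nat_lit 142)))) (XT.nd (nat_lit 156) (nat_lit 0) (nat_lit 0) (XT.nd (nat_lit 78) (nat_lit 0) (nat_lit 0) (XT.lf (nat_lit 0) (nat_lit 2526577549478) (nat_lit 152) (nat_lit 12561938897263) (nat_lit 0) (nat_lit 2524230883297) (nat_lit 1) (nat_lit 5) (nat_lit 3) (nat_lit 4) (nat_lit 1) (nat_lit 4) (nat_lit 268) (nat_lit 191) (nat_lit 141)) (XT.lf (nat_lit 0) (nat_lit 2907039228032) (nat_lit 152) (nat_lit 14442649454608) (nat_lit 0) (nat_lit 2904692279133) (nat_lit 1) (nat_lit 5) (nat_lit 3) (nat_lit 4) (nat_lit 1) (nat_lit 4) (nat_lit 269) (nat_lit 191) (nat_lit 140))) (XT.nd (nat_lit 78) (nat_lit 0) (nat_lit 0) (XT.lf (nat_lit 0) (nat_lit 3344569747863) (nat_lit 152) (nat_lit 16605467399840) (nat_lit 0) (nat_lit 3342222553122) (nat_lit 1) (nat_lit 5) (nat_lit 3) (nat_lit 4) (nat_lit 1) (nat_lit 4) (nat_lit 270) (nat_lit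 191) (nat_lit 139)) (XT.lf (nat_lit 0) (nat_lit 3847729488707) (nat_lit 152) (nat_lit 19092708736235) (nat_lit 0) (nat_lit 3845382080190) (nat_lit 1) (nat_lit 5) (nat_lit 3) (nat_lit 4) (nat_lit 1) (nat_lit 4) (nat_lit 271) (nat_lit 191) (nat_lit 138)))))) (XT.nd (nat_lit 27144) (nat_lit 0) (nat_lit 152) (XT.nd (nat_lit 624) (nat_lit 0) (nat_lit 0) (XT.nd (nat_lit 468) (nat_lit 0) (nat_lit 0) (XT.nd (nat_lit 78) (nat_lit 0) (nat_lit 0) (XT.lf (nat_lit 0) (nat_lit 4426362880275) (nat_lit 152) (nat_lit 21953036881244) (nat_lit 0) (nat_lit 4424015285867) (nat_lit 1) (nat_lit 5) (nat_lit 3) (nat_lit 4) (nat_lit 1) (nat_lit 4) (nat_lit 272) (nat_lit 191) (nat_lit 137)) (XT.lf (nat_lit 0) (nat_lit 5091791010664) (nat_lit 152) (nat_lit 25242414776835) (nat_lit 0) (nat_lit 5089443254610) (nat_lit 1) (nat_lit 5) (nat_lit 3) (nat_lit 4) (nat_lit 1) (nat_lit 4) (nat_lit 273) (nat_lit 191) (nat_lit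 136))) (XT.nd (nat_lit 78) (nat_lit 0) (nat_lit 0) (XT.lf (nat_lit 0) (nat_lit 10251342998768) (nat_lit 152) (nat_lit 50747397818994) (nat_lit 0) (nat_lit 10248994700855) (nat_lit 1) (nat_lit 5) (nat_lit 3) (nat_lit 4) (nat_lit 1) (nat_lit 4) (nat_lit 278) (nat_lit 191) (nat_lit 131)) (XT.lf (nat_lit 0) (nat_lit 11790517125442) (nat_lit 152) (nat_lit 58355931856597) (nat_lit 0) (nat_lit 11788168757646) (nat_lit 1) (nat_lit 5) (nat_lit 3) (nat_lit 4) (nat_lit 1) (nat_lit 4) (nat_lit 279) (nat_lit 191) (nat_lit 130)))) (XT.nd (nat_lit 26364) (nat_lit 0) (nat_lit 228) (XT.nd (nat_lit 26286) (nat_lit 0) (nat_lit 380) (XT.lf (nat_lit 0) (nat_lit 13560567269647) (nat_lit 152) (nat_lit 67105746198649) (nat_lit 0) (nat_lit 13558218841082) (nat_lit 1) (nat_lit 5) (nat_lit 3) (nat_lit 4) (nat_lit 1) (nat_lit 4) (nat_lit 280) (nat_lit 191) (nat_lit 129)) (XT.lf (nat_lit 0) (nat_lit 2775554848)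 (nat_lit 76) (nat_lit 2521582590) (nat_lit 76) (nat_lit 2521582590) (nat_lit 6) (nat_lit 4) (nat_lit 7) (nat_lit 5) (nat_lit 7) (nat_lit 4) (nat_lit 216) (nat_lit 192) (nat_lit 192))) (XT.nd (nat_lit 78) (nat_lit 152) (nat_lit 0) (XT.lf (nat_lit 0) (nat_lit 13432079223) (nat_lit 76) (nat_lit 2200114621) (nat_lit 76) (nat_lit 1734164738) (nat_lit 6) (nat_lit 4) (nat_lit 7) (nat_lit 5) (nat_lit 7) (nat_lit 4) (nat_lit 217) (nat_lit 192) (nat_lit 191)) (XT.lf (nat_lit 0) (nat_lit 1682619099) (nat_lit 152) (nat_lit 16766041699) (nat_lit 0) (nat_lit 925120235) (nat_lit 4) (nat_lit 5) (nat_lit 6) (nat_lit 4) (nat_lit 4) (nat_lit 4) (nat_lit 218) (nat_lit 192) (nat_lit 190))))) (XT.nd (nat_lit 312) (nat_lit 0) (nat_lit 0) (XT.nd (nat_lit 156) (nat_lit 76) (nat_lit 0) (XT.nd (nat_lit 78) (nat_lit 0) (nat_lit 0) (XT.lf (nat_lit 0) (nat_lit 5408497078) (nat_lit 152) (nat_lit 11921907159) (nat_lit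 0) (nat_lit 4344628602) (nat_lit 4) (nat_lit 5) (nat_lit 6) (nat_lit 4) (nat_lit 4) (nat_lit 4) (nat_lit 219) (nat_lit 192) (nat_lit 189)) (XT.lf (nat_lit 0) (nat_lit 9392305455) (nat_lit 152) (nat_lit 6913342925) (nat_lit 0) (nat_lit 8062028622) (nat_lit 4) (nat_lit 5) (nat_lit 6) (nat_lit 4) (nat_lit 4) (nat_lit 4) (nat_lit 220) (nat_lit 192) (nat_lit 188))) (XT.nd (nat_lit 78) (nat_lit 76) (nat_lit 0) (XT.lf (nat_lit 0) (nat_lit 13711988307) (nat_lit 152) (nat_lit 1642355349) (nat_lit 0) (nat_lit 12150052032) (nat_lit 4) (nat_lit 5) (nat_lit 6) (nat_lit 4) (nat_lit 4) (nat_lit 4) (nat_lit 221) (nat_lit 192) (nat_lit 187)) (XT.lf (nat_lit 0) (nat_lit 4384524254) (nat_lit 76) (nat_lit 14249090714) (nat_lit 76) (nat_lit 12485711447) (nat_lit 3) (nat_lit 4) (nat_lit 4) (nat_lit 5) (nat_lit 4) (nat_lit 4) (nat_lit 222) (nat_lit 192) (nat_lit 186)))) (XT.nd (nat_lit 156) (nat_lit 0) (nat_lit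 0) (XT.nd (nat_lit 78) (nat_lit 0) (nat_lit 0) (XT.lf (nat_lit 0) (nat_lit 11094239948) (nat_lit 76) (nat_lit 13070413466) (nat_lit 76) (nat_lit 11131866379) (nat_lit 3) (nat_lit 4) (nat_lit 4) (nat_lit 5) (nat_lit 4) (nat_lit 4) (nat_lit 223) (nat_lit 192) (nat_lit 185)) (XT.lf (nat_lit 0) (nat_lit 18457565868) (nat_lit 76) (nat_lit 11881101230) (nat_lit 76) (nat_lit 9790234300) (nat_lit 3) (nat_lit 4) (nat_lit 4) (nat_lit 5) (nat_lit 4) (nat_lit 4) (nat_lit 224) (nat_lit 192) (nat_lit 184))) (XT.nd (nat_lit 78) (nat_lit 0) (nat_lit 0) (XT.lf (nat_lit 0) (nat_lit 26618567089) (nat_lit 76) (nat_lit 10657884852) (nat_lit 76) (nat_lit 8434565884) (nat_lit 3) (nat_lit 4) (nat_lit 4) (nat_lit 5) (nat_lit 4) (nat_lit 4) (nat_lit 225) (nat_lit 192) (nat_lit 183)) (XT.lf (nat_lit 0) (nat_lit 35736915371) (nat_lit 76) (nat_lit 9376831839) (nat_lit 76) (nat_lit 7038337187) (nat_lit 3) (nat_lit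 4) (nat_lit 4) (nat_lit 5) (nat_lit 4) (nat_lit 4) (nat_lit 226) (nat_lit 192) (nat_lit 182))))))))
noncomputable def xc16 : XT := (XT.nd (nat_lit 2418) (nat_lit 0) (nat_lit 0) (XT.nd (nat_lit 1170) (nat_lit 0) (nat_lit 0) (XT.nd (nat_lit 546) (nat_lit 0) (nat_lit 0) (XT.nd (nat_lit 234) (nat_lit 152) (nat_lit 0) (XT.nd (nat_lit 78) (nat_lit 0) (nat_lit 0) (XT.lf (nat_lit 0) (nat_lit 45991013182) (nat_lit 76) (nat_lit 8012878109) (nat_lit 76) (nat_lit 5574230688) (nat_lit 3) (nat_lit 4) (nat_lit 4) (nat_lit 5) (nat_lit 4) (nat_lit 4) (nat_lit 227) (nat_lit 192) (nat_lit 181)) (XT.nd (nat_lit 78) (nat_lit 0) (nat_lit 0) (XT.lf (nat_lit 0) (nat_lit 57581484175) (nat_lit 76) (nat_lit 6539337613) (nat_lit 76) (nat_lit 4013600826) (nat_lit 3) (nat_lit 4) (nat_lit 4) (nat_lit 5) (nat_lit 4) (nat_lit 4) (nat_lit 228) (nat_lit 192) (nat_lit 180)) (XT.lf (nat_lit 0) (nat_lit 70735098434) (nat_lit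 76) (nat_lit 4927380208) (nat_lit 76) (nat_lit 2325913540) (nat_lit 3) (nat_lit 4) (nat_lit 4) (nat_lit 5) (nat_lit 4) (nat_lit 4) (nat_lit 229) (nat_lit 192) (nat_lit 179)))) (XT.nd (nat_lit 156) (nat_lit 0) (nat_lit 0) (XT.nd (nat_lit 78) (nat_lit 152) (nat_lit 0) (XT.lf (nat_lit 0) (nat_lit 85709209282) (nat_lit 76) (nat_lit 3145467600) (nat_lit 76) (nat_lit 478148859) (nat_lit 3) (nat_lit 4) (nat_lit 4) (nat_lit 5) (nat_lit 4) (nat_lit 4) (nat_lit 230) (nat_lit 192) (nat_lit 178)) (XT.lf (nat_lit 0) (nat_lit 375719712) (nat_lit 76) (nat_lit 1066280810) (nat_lit 152) (nat_lit 100935619667) (nat_lit 1) (nat_lit 5) (nat_lit 2) (nat_lit 5) (nat_lit 3) (nat_lit 4) (nat_lit 231) (nat_lit 192) (nat_lit 177))) (XT.nd (nat_lit 78) (nat_lit 0) (nat_lit 0) (XT.lf (nat_lit 0) (nat_lit 3782211267) (nat_lit 152) (nat_lit 112196819698) (nat_lit 0) (nat_lit 1369711234) (nat_lit 1) (nat_lit 5)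 (nat_lit 3) (nat_lit 4) (nat_lit 1) (nat_lit 4) (nat_lit 232) (nat_lit 192) (nat_lit 176)) (XT.lf (nat_lit 0) (nat_lit 6461359050) (nat_lit 152) (nat_lit 124094929841) (nat_lit 0) (nat_lit 4011207881) (nat_lit 1) (nat_lit 5) (nat_lit 3) (nat_lit 4) (nat_lit 1) (nat_lit 4) (nat_lit 233) (nat_lit 192) (nat_lit 175))))) (XT.nd (nat_lit 312) (nat_lit 0) (nat_lit 0) (XT.nd (nat_lit 156) (nat_lit 0) (nat_lit 0) (XT.nd (nat_lit 78) (nat_lit 0) (nat_lit 0) (XT.lf (nat_lit 0) (nat_lit 9487709564) (nat_lit 152) (nat_lit 137884867606) (nat_lit 0) (nat_lit 7004818278) (nat_lit 1) (nat_lit 5) (nat_lit 3) (nat_lit 4) (nat_lit 1) (nat_lit 4) (nat_lit 234) (nat_lit 192) (nat_lit 174)) (XT.lf (nat_lit 0) (nat_lit 12920474016) (nat_lit 152) (nat_lit 153836436121) (nat_lit 0) (nat_lit 10409113062) (nat_lit 1) (nat_lit 5) (nat_lit 3) (nat_lit 4) (nat_lit 1) (nat_lit 4) (nat_lit 235) (nat_lit 192) (nat_lit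 173))) (XT.nd (nat_lit 78) (nat_lit 0) (nat_lit 0) (XT.lf (nat_lit 0) (nat_lit 16826815188) (nat_lit 152) (nat_lit 172261731294) (nat_lit 0) (nat_lit 14290698001) (nat_lit 1) (nat_lit 5) (nat_lit 3) (nat_lit 4) (nat_lit 1) (nat_lit 4) (nat_lit 236) (nat_lit 192) (nat_lit 172)) (XT.lf (nat_lit 0) (nat_lit 21283161495) (nat_lit 152) (nat_lit 193521248028) (nat_lit 0) (nat_lit 18725517149) (nat_lit 1) (nat_lit 5) (nat_lit 3) (nat_lit 4) (nat_lit 1) (nat_lit 4) (nat_lit 237) (nat_lit 192) (nat_lit 171)))) (XT.nd (nat_lit 156) (nat_lit 0) (nat_lit 0) (XT.nd (nat_lit 78) (nat_lit 0) (nat_lit 0) (XT.lf (nat_lit 0) (nat_lit 26376702320) (nat_lit 152) (nat_lit 218030933391) (nat_lit 0) (nat_lit 23800338705) (nat_lit 1) (nat_lit 5) (nat_lit 3) (nat_lit 4) (nat_lit 1) (nat_lit 4) (nat_lit 238) (nat_lit 192) (nat_lit 170)) (XT.lf (nat_lit 0) (nat_lit 32207093898) (nat_lit 152) (nat_lit 246270324705)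 (nat_lit 0) (nat_lit 29614452658) (nat_lit 1) (nat_lit 5) (nat_lit 3) (nat_lit 4) (nat_lit 1) (nat_lit 4) (nat_lit 239) (nat_lit 192) (nat_lit 169))) (XT.nd (nat_lit 78) (nat_lit 0) (nat_lit 0) (XT.lf (nat_lit 0) (nat_lit 38888409107) (nat_lit 152) (nat_lit 278791931801) (nat_lit 0) (nat_lit 36281613410) (nat_lit 1) (nat_lit 5) (nat_lit 3) (nat_lit 4) (nat_lit 1) (nat_lit 4) (nat_lit 240) (nat_lit 192) (nat_lit 168)) (XT.lf (nat_lit 0) (nat_lit 46551369331) (nat_lit 152) (nat_lit 316232046990) (nat_lit 0) (nat_lit 43932265411) (nat_lit 1) (nat_lit 5) (nat_lit 3) (nat_lit 4) (nat_lit 1) (nat_lit 4) (nat_lit 241) (nat_lit 192) (nat_lit 167)))))) (XT.nd (nat_lit 624) (nat_lit 0) (nat_lit 0) (XT.nd (nat_lit 312) (nat_lit 0) (nat_lit 0) (XT.nd (nat_lit 156) (nat_lit 0) (nat_lit 0) (XT.nd (nat_lit 78) (nat_lit 0) (nat_lit 0) (XT.lf (nat_lit 0) (nat_lit 55345902053) (nat_lit 152) (nat_lit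 359323194266) (nat_lit 0) (nat_lit 52716095331) (nat_lit 1) (nat_lit 5) (nat_lit 3) (nat_lit 4) (nat_lit 1) (nat_lit 4) (nat_lit 242) (nat_lit 192) (nat_lit 166)) (XT.lf (nat_lit 0) (nat_lit 65444074218) (nat_lit 152) (nat_lit 408908461293) (nat_lit 0) (nat_lit 62804960711) (nat_lit 1) (nat_lit 5) (nat_lit 3) (nat_lit 4) (nat_lit 1) (nat_lit 4) (nat_lit 243) (nat_lit 192) (nat_lit 165))) (XT.nd (nat_lit 78) (nat_lit 0) (nat_lit 0) (XT.lf (nat_lit 0) (nat_lit 77043458759) (nat_lit 152) (nat_lit 465957994599) (nat_lit 0) (nat_lit 74396252396) (nat_lit 1) (nat_lit 5) (nat_lit 3) (nat_lit 4) (nat_lit 1) (nat_lit 4) (nat_lit 244) (nat_lit 192) (nat_lit 164)) (XT.lf (nat_lit 0) (nat_lit 90371000157) (nat_lit 152) (nat_lit 531587980707) (nat_lit 0) (nat_lit 87716756527) (nat_lit 1) (nat_lit 5) (nat_lit 3) (nat_lit 4) (nat_lit 1) (nat_lit 4) (nat_lit 245) (nat_lit 192) (nat_lit 163)))) (XT.nd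 (nat_lit 156) (nat_lit 0) (nat_lit 0) (XT.nd (nat_lit 78) (nat_lit 0) (nat_lit 0) (XT.lf (nat_lit 0) (nat_lit 105687454656) (nat_lit 152) (nat_lit 607082484560) (nat_lit 0) (nat_lit 103027091664) (nat_lit 1) (nat_lit 5) (nat_lit 3) (nat_lit 4) (nat_lit 1) (nat_lit 4) (nat_lit 246) (nat_lit 192) (nat_lit 162)) (XT.lf (nat_lit 0) (nat_lit 123292492019) (nat_lit 152) (nat_lit 693918572540) (nat_lit 0) (nat_lit 120626807842) (nat_lit 1) (nat_lit 5) (nat_lit 3) (nat_lit 4) (nat_lit 1) (nat_lit 4) (nat_lit 247) (nat_lit 192) (nat_lit 161))) (XT.nd (nat_lit 78) (nat_lit 0) (nat_lit 0) (XT.lf (nat_lit 0) (nat_lit 143530558627) (nat_lit 152) (nat_lit 793795211585) (nat_lit 0) (nat_lit 140860247333) (nat_lit 1) (nat_lit 5) (nat_lit 3) (nat_lit 4) (nat_lit 1) (nat_lit 4) (nat_lit 248) (nat_lit 192) (nat_lit 160)) (XT.lf (nat_lit 0) (nat_lit 166797616655) (nat_lit 152) (nat_lit 908666509849) (nat_lit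 0) (nat_lit 164123281781) (nat_lit 1) (nat_lit 5) (nat_lit 3) (nat_lit 4) (nat_lit 1) (nat_lit 4) (nat_lit 249) (nat_lit 192) (nat_lit 159))))) (XT.nd (nat_lit 312) (nat_lit 0) (nat_lit 0) (XT.nd (nat_lit 156) (nat_lit 0) (nat_lit 0) (XT.nd (nat_lit 78) (nat_lit 0) (nat_lit 0) (XT.lf (nat_lit 0) (nat_lit 193548891150) (nat_lit 152) (nat_lit 1040779949257) (nat_lit 0) (nat_lit 190871057511) (nat_lit 1) (nat_lit 5) (nat_lit 3) (nat_lit 4) (nat_lit 1) (nat_lit 4) (nat_lit 250) (nat_lit 192) (nat_lit 158)) (XT.lf (nat_lit 0) (nat_lit 224307776614) (nat_lit 152) (nat_lit 1192720357969) (nat_lit 0) (nat_lit 221626900571) (nat_lit 1) (nat_lit 5) (nat_lit 3) (nat_lit 4) (nat_lit 1) (nat_lit 4) (nat_lit 251) (nat_lit 192) (nat_lit 157))) (XT.nd (nat_lit 78) (nat_lit 0) (nat_lit 0) (XT.lf (nat_lit 0) (nat_lit 259676077327) (nat_lit 152) (nat_lit 1367460483114) (nat_lit 0) (nat_lit 256992555715)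 (nat_lit 1) (nat_lit 5) (nat_lit 3) (nat_lit 4) (nat_lit 1) (nat_lit 4) (nat_lit 252) (nat_lit 192) (nat_lit 156)) (XT.lf (nat_lit 0) (nat_lit 300345781782) (nat_lit 152) (nat_lit 1568419153225) (nat_lit 0) (nat_lit 297659959675) (nat_lit 1) (nat_lit 5) (nat_lit 3) (nat_lit 4) (nat_lit 1) (nat_lit 4) (nat_lit 253) (nat_lit 192) (nat_lit 155)))) (XT.nd (nat_lit 156) (nat_lit 0) (nat_lit 0) (XT.nd (nat_lit 78) (nat_lit 0) (nat_lit 0) (XT.lf (nat_lit 0) (nat_lit 347112601587) (nat_lit 152) (nat_lit 1799528168372) (nat_lit 0) (nat_lit 344424779049) (nat_lit 1) (nat_lit 5) (nat_lit 3) (nat_lit 4) (nat_lit 1) (nat_lit 4) (nat_lit 254) (nat_lit 192) (nat_lit 154)) (XT.lf (nat_lit 0) (nat_lit 400891539739) (nat_lit 152) (nat_lit 2065309226676) (nat_lit 0) (nat_lit 398201977697) (nat_lit 1) (nat_lit 5) (nat_lit 3) (nat_lit 4) (nat_lit 1) (nat_lit 4) (nat_lit 255) (nat_lit 192) (nat_lit 153)))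 (XT.nd (nat_lit 78) (nat_lit 0) (nat_lit 0) (XT.lf (nat_lit 0) (nat_lit 462734792853) (nat_lit 152) (nat_lit 2370962392321) (nat_lit 0) (nat_lit 460043718198) (nat_lit 1) (nat_lit 5) (nat_lit 3) (nat_lit 4) (nat_lit 1) (nat_lit 4) (nat_lit 256) (nat_lit 192) (nat_lit 152)) (XT.lf (nat_lit 0) (nat_lit 533852337622) (nat_lit 152) (nat_lit 2722467835940) (nat_lit 0) (nat_lit 531159947651) (nat_lit 1) (nat_lit 5) (nat_lit 3) (nat_lit 4) (nat_lit 1) (nat_lit 4) (nat_lit 257) (nat_lit 192) (nat_lit 151))))))) (XT.nd (nat_lit 1170) (nat_lit 0) (nat_lit 0) (XT.nd (nat_lit 546) (nat_lit 0) (nat_lit 0) (XT.nd (nat_lit 234) (nat_lit 0) (nat_lit 0) (XT.nd (nat_lit 78) (nat_lit 0) (nat_lit 0) (XT.lf (nat_lit 0) (nat_lit 615635604268) (nat_lit 152) (nat_lit 3126702837951) (nat_lit 0) (nat_lit 612942070545) (nat_lit 1) (nat_lit 5) (nat_lit 3) (nat_lit 4) (nat_lit 1) (nat_lit 4) (nat_lit 258) (nat_lit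 192) (nat_lit 150)) (XT.nd (nat_lit 78) (nat_lit 0) (nat_lit 0) (XT.lf (nat_lit 0) (nat_lit 709684700183) (nat_lit 152) (nat_lit 3591576344046) (nat_lit 0) (nat_lit 706990171892) (nat_lit 1) (nat_lit 5) (nat_lit 3) (nat_lit 4) (nat_lit 1) (nat_lit 4) (nat_lit 259) (nat_lit 192) (nat_lit 149)) (XT.lf (nat_lit 0) (nat_lit 817839716373) (nat_lit 152) (nat_lit 4126183705431) (nat_lit 0) (nat_lit 815144323241) (nat_lit 1) (nat_lit 5) (nat_lit 3) (nat_lit 4) (nat_lit 1) (nat_lit 4) (nat_lit 260) (nat_lit 192) (nat_lit 148)))) (XT.nd (nat_lit 156) (nat_lit 0) (nat_lit 0) (XT.nd (nat_lit 78) (nat_lit 0) (nat_lit 0) (XT.lf (nat_lit 0) (nat_lit 942216729243) (nat_lit 152) (nat_lit 4740984631350) (nat_lit 0) (nat_lit 939520584075) (nat_lit 1) (nat_lit 5) (nat_lit 3) (nat_lit 4) (nat_lit 1) (nat_lit 4) (nat_lit 261) (nat_lit 192) (nat_lit 147)) (XT.lf (nat_lit 0) (nat_lit 1085249202087) (nat_lit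 152) (nat_lit 5448007835572) (nat_lit 0) (nat_lit 1082552402976) (nat_lit 1) (nat_lit 5) (nat_lit 3) (nat_lit 4) (nat_lit 1) (nat_lit 4) (nat_lit 262) (nat_lit 192) (nat_lit 146))) (XT.nd (nat_lit 78) (nat_lit 0) (nat_lit 0) (XT.lf (nat_lit 0) (nat_lit 1249735596332) (nat_lit 152) (nat_lit 6261086380787) (nat_lit 0) (nat_lit 1247038228573) (nat_lit 1) (nat_lit 5) (nat_lit 3) (nat_lit 4) (nat_lit 1) (nat_lit 4) (nat_lit 263) (nat_lit 192) (nat_lit 145)) (XT.lf (nat_lit 0) (nat_lit 1438894124037) (nat_lit 152) (nat_lit 7196128325490) (nat_lit 0) (nat_lit 1436196261803) (nat_lit 1) (nat_lit 5) (nat_lit 3) (nat_lit 4) (nat_lit 1) (nat_lit 4) (nat_lit 264) (nat_lit 192) (nat_lit 144))))) (XT.nd (nat_lit 312) (nat_lit 0) (nat_lit 0) (XT.nd (nat_lit 156) (nat_lit 0) (nat_lit 0) (XT.nd (nat_lit 78) (nat_lit 0) (nat_lit 0) (XT.lf (nat_lit 0) (nat_lit 1656425712920) (nat_lit 152) (nat_lit 8271427968598)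 (nat_lit 0) (nat_lit 1653727420706) (nat_lit 1) (nat_lit 5) (nat_lit 3) (nat_lit 4) (nat_lit 1) (nat_lit 4) (nat_lit 265) (nat_lit 192) (nat_lit 143)) (XT.lf (nat_lit 0) (nat_lit 1906586415806) (nat_lit 152) (nat_lit 9508023781389) (nat_lit 0) (nat_lit 1903887749698) (nat_lit 1) (nat_lit 5) (nat_lit 3) (nat_lit 4) (nat_lit 1) (nat_lit 4) (nat_lit 266) (nat_lit 192) (nat_lit 142))) (XT.nd (nat_lit 78) (nat_lit 0) (nat_lit 0) (XT.lf (nat_lit 0) (nat_lit 2194270681230) (nat_lit 152) (nat_lit 10930110029766) (nat_lit 0) (nat_lit 2191571689996) (nat_lit 1) (nat_lit 5) (nat_lit 3) (nat_lit 4) (nat_lit 1) (nat_lit 4) (nat_lit 267) (nat_lit 192) (nat_lit 141)) (XT.lf (nat_lit 0) (nat_lit 2525107114384) (nat_lit 152) (nat_lit 12565510140328) (nat_lit 0) (nat_lit 2522407840432) (nat_lit 1) (nat_lit 5) (nat_lit 3) (nat_lit 4) (nat_lit 1) (nat_lit 4) (nat_lit 268) (nat_lit 192) (nat_lit 140))))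 (XT.nd (nat_lit 156) (nat_lit 0) (nat_lit 0) (XT.nd (nat_lit 78) (nat_lit 0) (nat_lit 0) (XT.lf (nat_lit 0) (nat_lit 2905568602006) (nat_lit 152) (nat_lit 14446221071759) (nat_lit 0) (nat_lit 2902869082212) (nat_lit 1) (nat_lit 5) (nat_lit 3) (nat_lit 4) (nat_lit 1) (nat_lit 4) (nat_lit 269) (nat_lit 192) (nat_lit 139)) (XT.lf (nat_lit 0) (nat_lit 3343098955808) (nat_lit 152) (nat_lit 16609039342283) (nat_lit 0) (nat_lit 3340399222238) (nat_lit 1) (nat_lit 5) (nat_lit 3) (nat_lit 4) (nat_lit 1) (nat_lit 4) (nat_lit 270) (nat_lit 192) (nat_lit 138))) (XT.nd (nat_lit 78) (nat_lit 0) (nat_lit 0) (XT.lf (nat_lit 0) (nat_lit 3846258552278) (nat_lit 152) (nat_lit 19096280961541) (nat_lit 0) (nat_lit 3843558632817) (nat_lit 1) (nat_lit 5) (nat_lit 3) (nat_lit 4) (nat_lit 1) (nat_lit 4) (nat_lit 271) (nat_lit 192) (nat_lit 137)) (XT.lf (nat_lit 0) (nat_lit 4424891818305) (nat_lit 152) (nat_lit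 21956609352518) (nat_lit 0) (nat_lit 4422191737198) (nat_lit 1) (nat_lit 5) (nat_lit 3) (nat_lit 4) (nat_lit 1) (nat_lit 4) (nat_lit 272) (nat_lit 192) (nat_lit 136)))))) (XT.nd (nat_lit 26910) (nat_lit 0) (nat_lit 152) (XT.nd (nat_lit 1170) (nat_lit 0) (nat_lit 0) (XT.nd (nat_lit 1014) (nat_lit 0) (nat_lit 0) (XT.nd (nat_lit 936) (nat_lit 0) (nat_lit 0) (XT.lf (nat_lit 0) (nat_lit 5090319839527) (nat_lit 152) (nat_lit 25245987461994) (nat_lit 0) (nat_lit 5087619617859) (nat_lit 1) (nat_lit 5) (nat_lit 3) (nat_lit 4) (nat_lit 1) (nat_lit 4) (nat_lit 273) (nat_lit 192) (nat_lit 135)) (XT.lf (nat_lit 0) (nat_lit 27283599961274) (nat_lit 152) (nat_lit 134953094541530) (nat_lit 0) (nat_lit 27280898977679) (nat_lit 1) (nat_lit 5) (nat_lit 3) (nat_lit 4) (nat_lit 1) (nat_lit 4) (nat_lit 285) (nat_lit 192) (nat_lit 123))) (XT.nd (nat_lit 78) (nat_lit 0) (nat_lit 0) (XT.lf (nat_lit 0) (nat_lit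 31377832893529) (nat_lit 152) (nat_lit 155191947996784) (nat_lit 0) (nat_lit 31375131887089) (nat_lit 1) (nat_lit 5) (nat_lit 3) (nat_lit 4) (nat_lit 1) (nat_lit 4) (nat_lit 286) (nat_lit 192) (nat_lit 122)) (XT.lf (nat_lit 0) (nat_lit 36086200732451) (nat_lit 152) (nat_lit 178466629535315) (nat_lit 0) (nat_lit 36083499706147) (nat_lit 1) (nat_lit 5) (nat_lit 3) (nat_lit 4) (nat_lit 1) (nat_lit 4) (nat_lit 287) (nat_lit 192) (nat_lit 121)))) (XT.nd (nat_lit 25584) (nat_lit 0) (nat_lit 380) (XT.nd (nat_lit 25506) (nat_lit 0) (nat_lit 456) (XT.lf (nat_lit 0) (nat_lit 41500823718367) (nat_lit 152) (nat_lit 205232513361140) (nat_lit 0) (nat_lit 41498122674789) (nat_lit 1) (nat_lit 5) (nat_lit 3) (nat_lit 4) (nat_lit 1) (nat_lit 4) (nat_lit 288) (nat_lit 192) (nat_lit 120)) (XT.lf (nat_lit 0) (nat_lit 1243023651) (nat_lit 152) (nat_lit 3963296249) (nat_lit 0) (nat_lit 1243023651) (nat_lit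 7) (nat_lit 5) (nat_lit 9) (nat_lit 4) (nat_lit 7) (nat_lit 4) (nat_lit 214) (nat_lit 193) (nat_lit 193))) (XT.nd (nat_lit 78) (nat_lit 76) (nat_lit 0) (XT.lf (nat_lit 0) (nat_lit 6489415311) (nat_lit 152) (nat_lit 1731644822) (nat_lit 0) (nat_lit 5953572946) (nat_lit 7) (nat_lit 5) (nat_lit 9) (nat_lit 4) (nat_lit 7) (nat_lit 4) (nat_lit 215) (nat_lit 193) (nat_lit 192)) (XT.lf (nat_lit 0) (nat_lit 5230732285) (nat_lit 76) (nat_lit 5718265863) (nat_lit 76) (nat_lit 4716473616) (nat_lit 6) (nat_lit 4) (nat_lit 7) (nat_lit 5) (nat_lit 7) (nat_lit 4) (nat_lit 216) (nat_lit 193) (nat_lit 191))))) (XT.nd (nat_lit 312) (nat_lit 76) (nat_lit 0) (XT.nd (nat_lit 156) (nat_lit 0) (nat_lit 0) (XT.nd (nat_lit 78) (nat_lit 152) (nat_lit 0) (XT.lf (nat_lit 0) (nat_lit 12833112756) (nat_lit 76) (nat_lit 2996309491) (nat_lit 76) (nat_lit 1589343433) (nat_lit 6) (nat_lit 4) (nat_lit 7) (nat_lit 5)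 (nat_lit 7) (nat_lit 4) (nat_lit 217) (nat_lit 193) (nat_lit 190)) (XT.lf (nat_lit 0) (nat_lit 1589586940) (nat_lit 152) (nat_lit 17810245159) (nat_lit 0) (nat_lit 59768582) (nat_lit 4) (nat_lit 5) (nat_lit 6) (nat_lit 4) (nat_lit 4) (nat_lit 4) (nat_lit 218) (nat_lit 193) (nat_lit 189))) (XT.nd (nat_lit 78) (nat_lit 0) (nat_lit 0) (XT.lf (nat_lit 0) (nat_lit 5175487570) (nat_lit 152) (nat_lit 13227594566) (nat_lit 0) (nat_lit 3379260855) (nat_lit 4) (nat_lit 5) (nat_lit 6) (nat_lit 4) (nat_lit 4) (nat_lit 4) (nat_lit 219) (nat_lit 193) (nat_lit 188)) (XT.lf (nat_lit 0) (nat_lit 9037576514) (nat_lit 152) (nat_lit 8446407678) (nat_lit 0) (nat_lit 7009690357) (nat_lit 4) (nat_lit 5) (nat_lit 6) (nat_lit 4) (nat_lit 4) (nat_lit 4) (nat_lit 220) (nat_lit 193) (nat_lit 187)))) (XT.nd (nat_lit 156) (nat_lit 0) (nat_lit 0) (XT.nd (nat_lit 78) (nat_lit 76) (nat_lit 0) (XT.lf (nat_lit 0) (nat_lit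 13251416381) (nat_lit 152) (nat_lit 3373139533) (nat_lit 0) (nat_lit 11022087232) (nat_lit 4) (nat_lit 5) (nat_lit 6) (nat_lit 4) (nat_lit 4) (nat_lit 4) (nat_lit 221) (nat_lit 193) (nat_lit 186)) (XT.lf (nat_lit 0) (nat_lit 2295863068) (nat_lit 76) (nat_lit 15698655590) (nat_lit 76) (nat_lit 13294158621) (nat_lit 3) (nat_lit 4) (nat_lit 4) (nat_lit 5) (nat_lit 4) (nat_lit 4) (nat_lit 222) (nat_lit 193) (nat_lit 185))) (XT.nd (nat_lit 78) (nat_lit 0) (nat_lit 0) (XT.lf (nat_lit 0) (nat_lit 8841463818) (nat_lit 76) (nat_lit 14597265133) (nat_lit 76) (nat_lit 12040448320) (nat_lit 3) (nat_lit 4) (nat_lit 4) (nat_lit 5) (nat_lit 4) (nat_lit 4) (nat_lit 223) (nat_lit 193) (nat_lit 184)) (XT.lf (nat_lit 0) (nat_lit 16062081093) (nat_lit 76) (nat_lit 13475158800) (nat_lit 76) (nat_lit 10785889950) (nat_lit 3) (nat_lit 4) (nat_lit 4) (nat_lit 5) (nat_lit 4) (nat_lit 4) (nat_lit 224) (nat_lit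 193) (nat_lit 183))))))))
noncomputable def xc17 : XT := (XT.nd (nat_lit 2418) (nat_lit 0) (nat_lit 0) (XT.nd (nat_lit 1170) (nat_lit 0) (nat_lit 0) (XT.nd (nat_lit 546) (nat_lit 76) (nat_lit 0) (XT.nd (nat_lit 234) (nat_lit 76) (nat_lit 0) (XT.nd (nat_lit 78) (nat_lit 0) (nat_lit 0) (XT.lf (nat_lit 0) (nat_lit 24098987839) (nat_lit 76) (nat_lit 12310382340) (nat_lit 76) (nat_lit 9505937805) (nat_lit 3) (nat_lit 4) (nat_lit 4) (nat_lit 5) (nat_lit 4) (nat_lit 4) (nat_lit 225) (nat_lit 193) (nat_lit 182)) (XT.nd (nat_lit 78) (nat_lit 0) (nat_lit 0) (XT.lf (nat_lit 0) (nat_lit 33109427882) (nat_lit 76) (nat_lit 11080146645) (nat_lit 76) (nat_lit 8175549341) (nat_lit 3) (nat_lit 4) (nat_lit 4) (nat_lit 5) (nat_lit 4) (nat_lit 4) (nat_lit 226) (nat_lit 193) (nat_lit 181)) (XT.lf (nat_lit 0) (nat_lit 43269692442) (nat_lit 76) (nat_lit 9760381889) (nat_lit 76) (nat_lit 6768695220) (nat_lit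 3) (nat_lit 4) (nat_lit 4) (nat_lit 5) (nat_lit 4) (nat_lit 4) (nat_lit 227) (nat_lit 193) (nat_lit 180)))) (XT.nd (nat_lit 156) (nat_lit 76) (nat_lit 0) (XT.nd (nat_lit 78) (nat_lit 0) (nat_lit 0) (XT.lf (nat_lit 0) (nat_lit 54778569304) (nat_lit 76) (nat_lit 8325266586) (nat_lit 76) (nat_lit 5257850035) (nat_lit 3) (nat_lit 4) (nat_lit 4) (nat_lit 5) (nat_lit 4) (nat_lit 4) (nat_lit 228) (nat_lit 193) (nat_lit 179)) (XT.lf (nat_lit 0) (nat_lit 67861232144) (nat_lit 76) (nat_lit 6746722394) (nat_lit 76) (nat_lit 3613453771) (nat_lit 3) (nat_lit 4) (nat_lit 4) (nat_lit 5) (nat_lit 4) (nat_lit 4) (nat_lit 229) (nat_lit 193) (nat_lit 178))) (XT.nd (nat_lit 78) (nat_lit 76) (nat_lit 0) (XT.lf (nat_lit 0) (nat_lit 82773646106) (nat_lit 76) (nat_lit 4993864752) (nat_lit 76) (nat_lit 1803333458) (nat_lit 3) (nat_lit 4) (nat_lit 4) (nat_lit 5) (nat_lit 4) (nat_lit 4) (nat_lit 230) (nat_lit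 193) (nat_lit 177)) (XT.lf (nat_lit 0) (nat_lit 189415263) (nat_lit 152) (nat_lit 2833082105) (nat_lit 76) (nat_lit 99608259295) (nat_lit 2) (nat_lit 5) (nat_lit 4) (nat_lit 5) (nat_lit 3) (nat_lit 4) (nat_lit 231) (nat_lit 193) (nat_lit 176))))) (XT.nd (nat_lit 312) (nat_lit 0) (nat_lit 0) (XT.nd (nat_lit 156) (nat_lit 0) (nat_lit 0) (XT.nd (nat_lit 78) (nat_lit 0) (nat_lit 0) (XT.lf (nat_lit 0) (nat_lit 1683780598) (nat_lit 76) (nat_lit 626640018) (nat_lit 152) (nat_lit 115324408668) (nat_lit 1) (nat_lit 5) (nat_lit 2) (nat_lit 5) (nat_lit 3) (nat_lit 4) (nat_lit 232) (nat_lit 193) (nat_lit 175)) (XT.lf (nat_lit 0) (nat_lit 4938192927) (nat_lit 152) (nat_lit 127873030119) (nat_lit 0) (nat_lit 2050127829) (nat_lit 1) (nat_lit 5) (nat_lit 3) (nat_lit 4) (nat_lit 1) (nat_lit 4) (nat_lit 233) (nat_lit 193) (nat_lit 174))) (XT.nd (nat_lit 78) (nat_lit 0) (nat_lit 0) (XT.lf (nat_lit 0)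 (nat_lit 7942432446) (nat_lit 152) (nat_lit 141706288854) (nat_lit 0) (nat_lit 5025897681) (nat_lit 1) (nat_lit 5) (nat_lit 3) (nat_lit 4) (nat_lit 1) (nat_lit 4) (nat_lit 234) (nat_lit 193) (nat_lit 173)) (XT.lf (nat_lit 0) (nat_lit 11355969946) (nat_lit 152) (nat_lit 157695527778) (nat_lit 0) (nat_lit 8414678947) (nat_lit 1) (nat_lit 5) (nat_lit 3) (nat_lit 4) (nat_lit 1) (nat_lit 4) (nat_lit 235) (nat_lit 193) (nat_lit 172)))) (XT.nd (nat_lit 156) (nat_lit 0) (nat_lit 0) (XT.nd (nat_lit 78) (nat_lit 0) (nat_lit 0) (XT.lf (nat_lit 0) (nat_lit 15245592029) (nat_lit 152) (nat_lit 176153579828) (nat_lit 0) (nat_lit 12282773872) (nat_lit 1) (nat_lit 5) (nat_lit 3) (nat_lit 4) (nat_lit 1) (nat_lit 4) (nat_lit 236) (nat_lit 193) (nat_lit 171)) (XT.lf (nat_lit 0) (nat_lit 19687399997) (nat_lit 152) (nat_lit 197441580804) (nat_lit 0) (nat_lit 16705862571) (nat_lit 1) (nat_lit 5) (nat_lit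 3) (nat_lit 4) (nat_lit 1) (nat_lit 4) (nat_lit 237) (nat_lit 193) (nat_lit 170))) (XT.nd (nat_lit 78) (nat_lit 0) (nat_lit 0) (XT.lf (nat_lit 0) (nat_lit 24768298790) (nat_lit 152) (nat_lit 221976035072) (nat_lit 0) (nat_lit 21770483738) (nat_lit 1) (nat_lit 5) (nat_lit 3) (nat_lit 4) (nat_lit 1) (nat_lit 4) (nat_lit 238) (nat_lit 193) (nat_lit 169)) (XT.lf (nat_lit 0) (nat_lit 30587697295) (nat_lit 152) (nat_lit 250236964565) (nat_lit 0) (nat_lit 27575727787) (nat_lit 1) (nat_lit 5) (nat_lit 3) (nat_lit 4) (nat_lit 1) (nat_lit 4) (nat_lit 239) (nat_lit 193) (nat_lit 168)))))) (XT.nd (nat_lit 624) (nat_lit 0) (nat_lit 0) (XT.nd (nat_lit 312) (nat_lit 0) (nat_lit 0) (XT.nd (nat_lit 156) (nat_lit 0) (nat_lit 0) (XT.nd (nat_lit 78) (nat_lit 0) (nat_lit 0) (XT.lf (nat_lit 0) (nat_lit 37259453310) (nat_lit 152) (nat_lit 282777300511) (nat_lit 0) (nat_lit 34235175579) (nat_lit 1) (nat_lit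 5) (nat_lit 3) (nat_lit 4) (nat_lit 1) (nat_lit 4) (nat_lit 240) (nat_lit 193) (nat_lit 167)) (XT.lf (nat_lit 0) (nat_lit 44914101192) (nat_lit 152) (nat_lit 320233701658) (nat_lit 0) (nat_lit 41879120659) (nat_lit 1) (nat_lit 5) (nat_lit 3) (nat_lit 4) (nat_lit 1) (nat_lit 4) (nat_lit 241) (nat_lit 193) (nat_lit 166))) (XT.nd (nat_lit 78) (nat_lit 0) (nat_lit 0) (XT.lf (nat_lit 0) (nat_lit 53701405791) (nat_lit 152) (nat_lit 363339010636) (nat_lit 0) (nat_lit 50657118473) (nat_lit 1) (nat_lit 5) (nat_lit 3) (nat_lit 4) (nat_lit 1) (nat_lit 4) (nat_lit 242) (nat_lit 193) (nat_lit 165)) (XT.lf (nat_lit 0) (nat_lit 63793292631) (nat_lit 152) (nat_lit 412936592186) (nat_lit 0) (nat_lit 60740912456) (nat_lit 1) (nat_lit 5) (nat_lit 3) (nat_lit 4) (nat_lit 1) (nat_lit 4) (nat_lit 243) (nat_lit 193) (nat_lit 164)))) (XT.nd (nat_lit 156) (nat_lit 0) (nat_lit 0) (XT.nd (nat_lit 78) (nat_lit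 0) (nat_lit 0) (XT.lf (nat_lit 0) (nat_lit 75387211672) (nat_lit 152) (nat_lit 469996833774) (nat_lit 0) (nat_lit 72327794231) (nat_lit 1) (nat_lit 5) (nat_lit 3) (nat_lit 4) (nat_lit 1) (nat_lit 4) (nat_lit 244) (nat_lit 193) (nat_lit 163)) (XT.lf (nat_lit 0) (nat_lit 88710000462) (nat_lit 152) (nat_lit 535636131430) (nat_lit 0) (nat_lit 85644463658) (nat_lit 1) (nat_lit 5) (nat_lit 3) (nat_lit 4) (nat_lit 1) (nat_lit 4) (nat_lit 245) (nat_lit 193) (nat_lit 162))) (XT.nd (nat_lit 78) (nat_lit 0) (nat_lit 0) (XT.lf (nat_lit 0) (nat_lit 104022322258) (nat_lit 152) (nat_lit 611138732283) (nat_lit 0) (nat_lit 100951464270) (nat_lit 1) (nat_lit 5) (nat_lit 3) (nat_lit 4) (nat_lit 1) (nat_lit 4) (nat_lit 246) (nat_lit 193) (nat_lit 161)) (XT.lf (nat_lit 0) (nat_lit 121623765965) (nat_lit 152) (nat_lit 697981861132) (nat_lit 0) (nat_lit 118548280860) (nat_lit 1) (nat_lit 5) (nat_lit 3) (nat_lit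 4) (nat_lit 1) (nat_lit 4) (nat_lit 247) (nat_lit 193) (nat_lit 160))))) (XT.nd (nat_lit 312) (nat_lit 0) (nat_lit 0) (XT.nd (nat_lit 156) (nat_lit 0) (nat_lit 0) (XT.nd (nat_lit 78) (nat_lit 0) (nat_lit 0) (XT.lf (nat_lit 0) (nat_lit 141858707656) (nat_lit 152) (nat_lit 797864622671) (nat_lit 0) (nat_lit 138779198972) (nat_lit 1) (nat_lit 5) (nat_lit 3) (nat_lit 4) (nat_lit 1) (nat_lit 4) (nat_lit 248) (nat_lit 193) (nat_lit 159)) (XT.lf (nat_lit 0) (nat_lit 165123048365) (nat_lit 152) (nat_lit 912741244844) (nat_lit 0) (nat_lit 162040040915) (nat_lit 1) (nat_lit 5) (nat_lit 3) (nat_lit 4) (nat_lit 1) (nat_lit 4) (nat_lit 249) (nat_lit 193) (nat_lit 158))) (XT.nd (nat_lit 78) (nat_lit 0) (nat_lit 0) (XT.lf (nat_lit 0) (nat_lit 191871959974) (nat_lit 152) (nat_lit 1044859313737) (nat_lit 0) (nat_lit 188785910119) (nat_lit 1) (nat_lit 5) (nat_lit 3) (nat_lit 4) (nat_lit 1) (nat_lit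 4) (nat_lit 250) (nat_lit 193) (nat_lit 157)) (XT.lf (nat_lit 0) (nat_lit 222628790754) (nat_lit 152) (nat_lit 1196803748089) (nat_lit 0) (nat_lit 219540095330) (nat_lit 1) (nat_lit 5) (nat_lit 3) (nat_lit 4) (nat_lit 1) (nat_lit 4) (nat_lit 251) (nat_lit 193) (nat_lit 156)))) (XT.nd (nat_lit 156) (nat_lit 0) (nat_lit 0) (XT.nd (nat_lit 78) (nat_lit 0) (nat_lit 0) (XT.lf (nat_lit 0) (nat_lit 257995304785) (nat_lit 152) (nat_lit 1371547373790) (nat_lit 0) (nat_lit 254904308867) (nat_lit 1) (nat_lit 5) (nat_lit 3) (nat_lit 4) (nat_lit 1) (nat_lit 4) (nat_lit 252) (nat_lit 193) (nat_lit 155)) (XT.lf (nat_lit 0) (nat_lit 298663455604) (nat_lit 152) (nat_lit 1572509087863) (nat_lit 0) (nat_lit 295570459255) (nat_lit 1) (nat_lit 5) (nat_lit 3) (nat_lit 4) (nat_lit 1) (nat_lit 4) (nat_lit 253) (nat_lit 193) (nat_lit 154))) (XT.nd (nat_lit 78) (nat_lit 0) (nat_lit 0) (XT.lf (nat_lit 0) (nat_lit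 345428924421) (nat_lit 152) (nat_lit 1803620749933) (nat_lit 0) (nat_lit 342334188568) (nat_lit 1) (nat_lit 5) (nat_lit 3) (nat_lit 4) (nat_lit 1) (nat_lit 4) (nat_lit 254) (nat_lit 193) (nat_lit 153)) (XT.lf (nat_lit 0) (nat_lit 399206687801) (nat_lit 152) (nat_lit 2069404109909) (nat_lit 0) (nat_lit 396110439334) (nat_lit 1) (nat_lit 5) (nat_lit 3) (nat_lit 4) (nat_lit 1) (nat_lit 4) (nat_lit 255) (nat_lit 193) (nat_lit 152))))))) (XT.nd (nat_lit 1170) (nat_lit 0) (nat_lit 0) (XT.nd (nat_lit 546) (nat_lit 0) (nat_lit 0) (XT.nd (nat_lit 234) (nat_lit 0) (nat_lit 0) (XT.nd (nat_lit 78) (nat_lit 0) (nat_lit 0) (XT.lf (nat_lit 0) (nat_lit 461048919374) (nat_lit 152) (nat_lit 2375059277009) (nat_lit 0) (nat_lit 457951355592) (nat_lit 1) (nat_lit 5) (nat_lit 3) (nat_lit 4) (nat_lit 1) (nat_lit 4) (nat_lit 256) (nat_lit 193) (nat_lit 151)) (XT.nd (nat_lit 78) (nat_lit 0) (nat_lit 0) (XT.lf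 (nat_lit 0) (nat_lit 532165575846) (nat_lit 152) (nat_lit 2726566461023) (nat_lit 0) (nat_lit 529066868312) (nat_lit 1) (nat_lit 5) (nat_lit 3) (nat_lit 4) (nat_lit 1) (nat_lit 4) (nat_lit 257) (nat_lit 193) (nat_lit 150)) (XT.lf (nat_lit 0) (nat_lit 613948070060) (nat_lit 152) (nat_lit 3130802976421) (nat_lit 0) (nat_lit 610848367959) (nat_lit 1) (nat_lit 5) (nat_lit 3) (nat_lit 4) (nat_lit 1) (nat_lit 4) (nat_lit 258) (nat_lit 193) (nat_lit 149)))) (XT.nd (nat_lit 156) (nat_lit 0) (nat_lit 0) (XT.nd (nat_lit 78) (nat_lit 0) (nat_lit 0) (XT.lf (nat_lit 0) (nat_lit 707996494295) (nat_lit 152) (nat_lit 3595677798505) (nat_lit 0) (nat_lit 704895927352) (nat_lit 1) (nat_lit 5) (nat_lit 3) (nat_lit 4) (nat_lit 1) (nat_lit 4) (nat_lit 259) (nat_lit 193) (nat_lit 148)) (XT.lf (nat_lit 0) (nat_lit 816150926416) (nat_lit 152) (nat_lit 4130286304228) (nat_lit 0) (nat_lit 813049607438) (nat_lit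 1) (nat_lit 5) (nat_lit 3) (nat_lit 4) (nat_lit 1) (nat_lit 4) (nat_lit 260) (nat_lit 193) (nat_lit 147))) (XT.nd (nat_lit 78) (nat_lit 0) (nat_lit 0) (XT.lf (nat_lit 0) (nat_lit 940527431400) (nat_lit 152) (nat_lit 4745088225223) (nat_lit 0) (nat_lit 937425458477) (nat_lit 1) (nat_lit 5) (nat_lit 3) (nat_lit 4) (nat_lit 1) (nat_lit 4) (nat_lit 261) (nat_lit 193) (nat_lit 146)) (XT.lf (nat_lit 0) (nat_lit 1083559462604) (nat_lit 152) (nat_lit 5452112294729) (nat_lit 0) (nat_lit 1080456921034) (nat_lit 1) (nat_lit 5) (nat_lit 3) (nat_lit 4) (nat_lit 1) (nat_lit 4) (nat_lit 262) (nat_lit 193) (nat_lit 145))))) (XT.nd (nat_lit 312) (nat_lit 0) (nat_lit 0) (XT.nd (nat_lit 156) (nat_lit 0) (nat_lit 0) (XT.nd (nat_lit 78) (nat_lit 0) (nat_lit 0) (XT.lf (nat_lit 0) (nat_lit 1248045472813) (nat_lit 152) (nat_lit 6265191592366) (nat_lit 0) (nat_lit 1244942436767) (nat_lit 1) (nat_lit 5) (nat_lit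 3) (nat_lit 4) (nat_lit 1) (nat_lit 4) (nat_lit 263) (nat_lit 193) (nat_lit 144)) (XT.lf (nat_lit 0) (nat_lit 1437203666575) (nat_lit 152) (nat_lit 7200234191347) (nat_lit 0) (nat_lit 1434100200550) (nat_lit 1) (nat_lit 5) (nat_lit 3) (nat_lit 4) (nat_lit 1) (nat_lit 4) (nat_lit 264) (nat_lit 193) (nat_lit 143))) (XT.nd (nat_lit 78) (nat_lit 0) (nat_lit 0) (XT.lf (nat_lit 0) (nat_lit 1654734965072) (nat_lit 152) (nat_lit 8275534403393) (nat_lit 0) (nat_lit 1651631125153) (nat_lit 1) (nat_lit 5) (nat_lit 3) (nat_lit 4) (nat_lit 1) (nat_lit 4) (nat_lit 265) (nat_lit 193) (nat_lit 142)) (XT.lf (nat_lit 0) (nat_lit 1904895415449) (nat_lit 152) (nat_lit 9512130710913) (nat_lit 0) (nat_lit 1901791250404) (nat_lit 1) (nat_lit 5) (nat_lit 3) (nat_lit 4) (nat_lit 1) (nat_lit 4) (nat_lit 266) (nat_lit 193) (nat_lit 141)))) (XT.nd (nat_lit 156) (nat_lit 0) (nat_lit 0) (XT.nd (nat_lit 78) (nat_lit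 0) (nat_lit 0) (XT.lf (nat_lit 0) (nat_lit 2192579461299) (nat_lit 152) (nat_lit 10934217389490) (nat_lit 0) (nat_lit 2189475013536) (nat_lit 1) (nat_lit 5) (nat_lit 3) (nat_lit 4) (nat_lit 1) (nat_lit 4) (nat_lit 267) (nat_lit 193) (nat_lit 140)) (XT.lf (nat_lit 0) (nat_lit 2523415703521) (nat_lit 152) (nat_lit 12569617874137) (nat_lit 0) (nat_lit 2520311009915) (nat_lit 1) (nat_lit 5) (nat_lit 3) (nat_lit 4) (nat_lit 1) (nat_lit 4) (nat_lit 268) (nat_lit 193) (nat_lit 139))) (XT.nd (nat_lit 78) (nat_lit 0) (nat_lit 0) (XT.lf (nat_lit 0) (nat_lit 2903877025113) (nat_lit 152) (nat_lit 14450329130861) (nat_lit 0) (nat_lit 2900772117732) (nat_lit 1) (nat_lit 5) (nat_lit 3) (nat_lit 4) (nat_lit 1) (nat_lit 4) (nat_lit 269) (nat_lit 193) (nat_lit 138)) (XT.lf (nat_lit 0) (nat_lit 3341407234542) (nat_lit 152) (nat_lit 16613147684247) (nat_lit 0) (nat_lit 3338302141270) (nat_lit 1) (nat_lit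 5) (nat_lit 3) (nat_lit 4) (nat_lit 1) (nat_lit 4) (nat_lit 270) (nat_lit 193) (nat_lit 137)))))) (XT.nd (nat_lit 26832) (nat_lit 0) (nat_lit 228) (XT.nd (nat_lit 1248) (nat_lit 0) (nat_lit 0) (XT.nd (nat_lit 1092) (nat_lit 0) (nat_lit 0) (XT.nd (nat_lit 78) (nat_lit 0) (nat_lit 0) (XT.lf (nat_lit 0) (nat_lit 3844566705471) (nat_lit 152) (nat_lit 19100389549473) (nat_lit 0) (nat_lit 3841461450553) (nat_lit 1) (nat_lit 5) (nat_lit 3) (nat_lit 4) (nat_lit 1) (nat_lit 4) (nat_lit 271) (nat_lit 193) (nat_lit 136)) (XT.lf (nat_lit 0) (nat_lit 4423199862330) (nat_lit 152) (nat_lit 21960718154335) (nat_lit 0) (nat_lit 4420094466852) (nat_lit 1) (nat_lit 5) (nat_lit 3) (nat_lit 4) (nat_lit 1) (nat_lit 4) (nat_lit 272) (nat_lit 193) (nat_lit 135))) (XT.nd (nat_lit 78) (nat_lit 0) (nat_lit 0) (XT.lf (nat_lit 0) (nat_lit 27281907395805) (nat_lit 152) (nat_lit 134957204537499) (nat_lit 0) (nat_lit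 27278801215555) (nat_lit 1) (nat_lit 5) (nat_lit 3) (nat_lit 4) (nat_lit 1) (nat_lit 4) (nat_lit 285) (nat_lit 193) (nat_lit 122)) (XT.lf (nat_lit 0) (nat_lit 31376140312632) (nat_lit 152) (nat_lit 155196058022980) (nat_lit 0) (nat_lit 31373034112516) (nat_lit 1) (nat_lit 5) (nat_lit 3) (nat_lit 4) (nat_lit 1) (nat_lit 4) (nat_lit 286) (nat_lit 193) (nat_lit 121)))) (XT.nd (nat_lit 25428) (nat_lit 0) (nat_lit 608) (XT.nd (nat_lit 78) (nat_lit 0) (nat_lit 0) (XT.lf (nat_lit 0) (nat_lit 36084508138138) (nat_lit 152) (nat_lit 178470739587797) (nat_lit 0) (nat_lit 36081401920749) (nat_lit 1) (nat_lit 5) (nat_lit 3) (nat_lit 4) (nat_lit 1) (nat_lit 4) (nat_lit 287) (nat_lit 193) (nat_lit 120)) (XT.lf (nat_lit 0) (nat_lit 41499131112389) (nat_lit 152) (nat_lit 205236623436478) (nat_lit 0) (nat_lit 41496024879978) (nat_lit 1) (nat_lit 5) (nat_lit 3) (nat_lit 4) (nat_lit 1) (nat_lit 4) (nat_lit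 288) (nat_lit 193) (nat_lit 119))) (XT.nd (nat_lit 78) (nat_lit 0) (nat_lit 0) (XT.lf (nat_lit 0) (nat_lit 1345510281) (nat_lit 76) (nat_lit 2039754670) (nat_lit 76) (nat_lit 2039754670) (nat_lit 9) (nat_lit 4) (nat_lit 10) (nat_lit 5) (nat_lit 10) (nat_lit 4) (nat_lit 212) (nat_lit 194) (nat_lit 194)) (XT.lf (nat_lit 0) (nat_lit 9817874684) (nat_lit 76) (nat_lit 1354609936) (nat_lit 76) (nat_lit 645958409) (nat_lit 9) (nat_lit 4) (nat_lit 10) (nat_lit 5) (nat_lit 10) (nat_lit 4) (nat_lit 213) (nat_lit 194) (nat_lit 193))))) (XT.nd (nat_lit 312) (nat_lit 152) (nat_lit 0) (XT.nd (nat_lit 156) (nat_lit 76) (nat_lit 0) (XT.nd (nat_lit 78) (nat_lit 0) (nat_lit 0) (XT.lf (nat_lit 0) (nat_lit 2909235130) (nat_lit 152) (nat_lit 8262225977) (nat_lit 0) (nat_lit 1757174045) (nat_lit 7) (nat_lit 5) (nat_lit 9) (nat_lit 4) (nat_lit 7) (nat_lit 4) (nat_lit 214) (nat_lit 194) (nat_lit 192)) (XT.lf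 (nat_lit 0) (nat_lit 6744750189) (nat_lit 152) (nat_lit 2359133501) (nat_lit 0) (nat_lit 5126739221) (nat_lit 7) (nat_lit 5) (nat_lit 9) (nat_lit 4) (nat_lit 7) (nat_lit 4) (nat_lit 215) (nat_lit 194) (nat_lit 191))) (XT.nd (nat_lit 78) (nat_lit 0) (nat_lit 0) (XT.lf (nat_lit 0) (nat_lit 4263331794) (nat_lit 76) (nat_lit 6754984153) (nat_lit 76) (nat_lit 4731799375) (nat_lit 6) (nat_lit 4) (nat_lit 7) (nat_lit 5) (nat_lit 7) (nat_lit 4) (nat_lit 216) (nat_lit 194) (nat_lit 190)) (XT.lf (nat_lit 0) (nat_lit 11623460914) (nat_lit 76) (nat_lit 4138327076) (nat_lit 76) (nat_lit 1762817244) (nat_lit 6) (nat_lit 4) (nat_lit 7) (nat_lit 5) (nat_lit 7) (nat_lit 4) (nat_lit 217) (nat_lit 194) (nat_lit 189)))) (XT.nd (nat_lit 156) (nat_lit 0) (nat_lit 0) (XT.nd (nat_lit 78) (nat_lit 76) (nat_lit 0) (XT.lf (nat_lit 0) (nat_lit 1235137489) (nat_lit 152) (nat_lit 26333841) (nat_lit 76) (nat_lit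 18335003207) (nat_lit 5) (nat_lit 5) (nat_lit 7) (nat_lit 5) (nat_lit 6) (nat_lit 4) (nat_lit 218) (nat_lit 194) (nat_lit 188)) (XT.lf (nat_lit 0) (nat_lit 4645829856) (nat_lit 152) (nat_lit 15217996378) (nat_lit 0) (nat_lit 2082101334) (nat_lit 4) (nat_lit 5) (nat_lit 6) (nat_lit 4) (nat_lit 4) (nat_lit 4) (nat_lit 219) (nat_lit 194) (nat_lit 187))) (XT.nd (nat_lit 78) (nat_lit 0) (nat_lit 0) (XT.lf (nat_lit 0) (nat_lit 8402075814) (nat_lit 152) (nat_lit 10634528920) (nat_lit 0) (nat_lit 5636904300) (nat_lit 4) (nat_lit 5) (nat_lit 6) (nat_lit 4) (nat_lit 4) (nat_lit 4) (nat_lit 220) (nat_lit 194) (nat_lit 186)) (XT.lf (nat_lit 0) (nat_lit 12523878303) (nat_lit 152) (nat_lit 5733190716) (nat_lit 0) (nat_lit 9583538969) (nat_lit 4) (nat_lit 5) (nat_lit 6) (nat_lit 4) (nat_lit 4) (nat_lit 4) (nat_lit 221) (nat_lit 194) (nat_lit 185))))))))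
noncomputable def xc18 : XT := (XT.nd (nat_lit 2418) (nat_lit 0) (nat_lit 0) (XT.nd (nat_lit 1170) (nat_lit 0) (nat_lit 0) (XT.nd (nat_lit 546) (nat_lit 152) (nat_lit 0) (XT.nd (nat_lit 234) (nat_lit 0) (nat_lit 0) (XT.nd (nat_lit 78) (nat_lit 76) (nat_lit 0) (XT.lf (nat_lit 0) (nat_lit 17091881284) (nat_lit 152) (nat_lit 418086017) (nat_lit 0) (nat_lit 13999222106) (nat_lit 4) (nat_lit 5) (nat_lit 6) (nat_lit 4) (nat_lit 4) (nat_lit 4) (nat_lit 222) (nat_lit 194) (nat_lit 184)) (XT.nd (nat_lit 78) (nat_lit 0) (nat_lit 0) (XT.lf (nat_lit 0) (nat_lit 5943947681) (nat_lit 76) (nat_lit 16497637243) (nat_lit 76) (nat_lit 13272526028) (nat_lit 3) (nat_lit 4) (nat_lit 4) (nat_lit 5) (nat_lit 4) (nat_lit 4) (nat_lit 223) (nat_lit 194) (nat_lit 183)) (XT.lf (nat_lit 0) (nat_lit 13040470481) (nat_lit 76) (nat_lit 15433970828) (nat_lit 76) (nat_lit 12093683928) (nat_lit 3) (nat_lit 4) (nat_lit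 4) (nat_lit 5) (nat_lit 4) (nat_lit 4) (nat_lit 224) (nat_lit 194) (nat_lit 182)))) (XT.nd (nat_lit 156) (nat_lit 0) (nat_lit 0) (XT.nd (nat_lit 78) (nat_lit 0) (nat_lit 0) (XT.lf (nat_lit 0) (nat_lit 20969468988) (nat_lit 76) (nat_lit 14320011686) (nat_lit 76) (nat_lit 10879572017) (nat_lit 3) (nat_lit 4) (nat_lit 4) (nat_lit 5) (nat_lit 4) (nat_lit 4) (nat_lit 225) (nat_lit 194) (nat_lit 181)) (XT.lf (nat_lit 0) (nat_lit 29886075780) (nat_lit 76) (nat_lit 13133964965) (nat_lit 76) (nat_lit 9606435931) (nat_lit 3) (nat_lit 4) (nat_lit 4) (nat_lit 5) (nat_lit 4) (nat_lit 4) (nat_lit 226) (nat_lit 194) (nat_lit 180))) (XT.nd (nat_lit 78) (nat_lit 0) (nat_lit 0) (XT.lf (nat_lit 0) (nat_lit 39964746209) (nat_lit 76) (nat_lit 11852625403) (nat_lit 76) (nat_lit 8249366486) (nat_lit 3) (nat_lit 4) (nat_lit 4) (nat_lit 5) (nat_lit 4) (nat_lit 4) (nat_lit 227) (nat_lit 194) (nat_lit 179))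 (XT.lf (nat_lit 0) (nat_lit 51402671651) (nat_lit 76) (nat_lit 10450923312) (nat_lit 76) (nat_lit 6781812324) (nat_lit 3) (nat_lit 4) (nat_lit 4) (nat_lit 5) (nat_lit 4) (nat_lit 4) (nat_lit 228) (nat_lit 194) (nat_lit 178))))) (XT.nd (nat_lit 312) (nat_lit 76) (nat_lit 0) (XT.nd (nat_lit 156) (nat_lit 76) (nat_lit 0) (XT.nd (nat_lit 78) (nat_lit 0) (nat_lit 0) (XT.lf (nat_lit 0) (nat_lit 64423637606) (nat_lit 76) (nat_lit 8901434087) (nat_lit 76) (nat_lit 5175060428) (nat_lit 3) (nat_lit 4) (nat_lit 4) (nat_lit 5) (nat_lit 4) (nat_lit 4) (nat_lit 229) (nat_lit 194) (nat_lit 177)) (XT.lf (nat_lit 0) (nat_lit 79282402102) (nat_lit 76) (nat_lit 7173841634) (nat_lit 76) (nat_lit 3397674348) (nat_lit 3) (nat_lit 4) (nat_lit 4) (nat_lit 5) (nat_lit 4) (nat_lit 4) (nat_lit 230) (nat_lit 194) (nat_lit 176))) (XT.nd (nat_lit 78) (nat_lit 76) (nat_lit 0) (XT.lf (nat_lit 0) (nat_lit 96269680097)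 (nat_lit 76) (nat_lit 5234345231) (nat_lit 76) (nat_lit 1414879139) (nat_lit 3) (nat_lit 4) (nat_lit 4) (nat_lit 5) (nat_lit 4) (nat_lit 4) (nat_lit 231) (nat_lit 194) (nat_lit 175)) (XT.lf (nat_lit 0) (nat_lit 739818566) (nat_lit 152) (nat_lit 2266507308) (nat_lit 76) (nat_lit 114939340476) (nat_lit 2) (nat_lit 5) (nat_lit 4) (nat_lit 5) (nat_lit 3) (nat_lit 4) (nat_lit 232) (nat_lit 194) (nat_lit 174)))) (XT.nd (nat_lit 156) (nat_lit 0) (nat_lit 0) (XT.nd (nat_lit 78) (nat_lit 0) (nat_lit 0) (XT.lf (nat_lit 0) (nat_lit 2882814931) (nat_lit 76) (nat_lit 267265197) (nat_lit 152) (nat_lit 132054787209) (nat_lit 1) (nat_lit 5) (nat_lit 2) (nat_lit 5) (nat_lit 3) (nat_lit 4) (nat_lit 233) (nat_lit 194) (nat_lit 173)) (XT.lf (nat_lit 0) (nat_lit 6124025813) (nat_lit 152) (nat_lit 146181914668) (nat_lit 0) (nat_lit 2716784932) (nat_lit 1) (nat_lit 5) (nat_lit 3) (nat_lit 4) (nat_lit 1)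 (nat_lit 4) (nat_lit 234) (nat_lit 194) (nat_lit 172))) (XT.nd (nat_lit 78) (nat_lit 0) (nat_lit 0) (XT.lf (nat_lit 0) (nat_lit 9520844224) (nat_lit 152) (nat_lit 162203910470) (nat_lit 0) (nat_lit 6092076184) (nat_lit 1) (nat_lit 5) (nat_lit 3) (nat_lit 4) (nat_lit 1) (nat_lit 4) (nat_lit 235) (nat_lit 194) (nat_lit 171)) (XT.lf (nat_lit 0) (nat_lit 13395927969) (nat_lit 152) (nat_lit 180690446761) (nat_lit 0) (nat_lit 9948440660) (nat_lit 1) (nat_lit 5) (nat_lit 3) (nat_lit 4) (nat_lit 1) (nat_lit 4) (nat_lit 236) (nat_lit 194) (nat_lit 170)))))) (XT.nd (nat_lit 624) (nat_lit 0) (nat_lit 0) (XT.nd (nat_lit 312) (nat_lit 0) (nat_lit 0) (XT.nd (nat_lit 156) (nat_lit 0) (nat_lit 0) (XT.nd (nat_lit 78) (nat_lit 0) (nat_lit 0) (XT.lf (nat_lit 0) (nat_lit 17825093904) (nat_lit 152) (nat_lit 202003216642) (nat_lit 0) (nat_lit 14361328970) (nat_lit 1) (nat_lit 5) (nat_lit 3) (nat_lit 4)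 (nat_lit 1) (nat_lit 4) (nat_lit 237) (nat_lit 194) (nat_lit 169)) (XT.lf (nat_lit 0) (nat_lit 22894999623) (nat_lit 152) (nat_lit 226559209089) (nat_lit 0) (nat_lit 19417080233) (nat_lit 1) (nat_lit 5) (nat_lit 3) (nat_lit 4) (nat_lit 1) (nat_lit 4) (nat_lit 238) (nat_lit 194) (nat_lit 168))) (XT.nd (nat_lit 78) (nat_lit 0) (nat_lit 0) (XT.lf (nat_lit 0) (nat_lit 28704838935) (nat_lit 152) (nat_lit 254838867433) (nat_lit 0) (nat_lit 25214611322) (nat_lit 1) (nat_lit 5) (nat_lit 3) (nat_lit 4) (nat_lit 1) (nat_lit 4) (nat_lit 239) (nat_lit 194) (nat_lit 167)) (XT.lf (nat_lit 0) (nat_lit 35368282608) (nat_lit 152) (nat_lit 287395489337) (nat_lit 0) (nat_lit 31867352192) (nat_lit 1) (nat_lit 5) (nat_lit 3) (nat_lit 4) (nat_lit 1) (nat_lit 4) (nat_lit 240) (nat_lit 194) (nat_lit 166)))) (XT.nd (nat_lit 156) (nat_lit 0) (nat_lit 0) (XT.nd (nat_lit 78) (nat_lit 0) (nat_lit 0) (XT.lf (nat_lit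 0) (nat_lit 43015702367) (nat_lit 152) (nat_lit 324866052186) (nat_lit 0) (nat_lit 39505465166) (nat_lit 1) (nat_lit 5) (nat_lit 3) (nat_lit 4) (nat_lit 1) (nat_lit 4) (nat_lit 241) (nat_lit 194) (nat_lit 165)) (XT.lf (nat_lit 0) (nat_lit 51796721641) (nat_lit 152) (nat_lit 367983675687) (nat_lit 0) (nat_lit 48278391583) (nat_lit 1) (nat_lit 5) (nat_lit 3) (nat_lit 4) (nat_lit 1) (nat_lit 4) (nat_lit 242) (nat_lit 194) (nat_lit 164))) (XT.nd (nat_lit 78) (nat_lit 0) (nat_lit 0) (XT.lf (nat_lit 0) (nat_lit 61883142981) (nat_lit 152) (nat_lit 417591965519) (nat_lit 0) (nat_lit 58357775657) (nat_lit 1) (nat_lit 5) (nat_lit 3) (nat_lit 4) (nat_lit 1) (nat_lit 4) (nat_lit 243) (nat_lit 194) (nat_lit 163)) (XT.lf (nat_lit 0) (nat_lit 73472309414) (nat_lit 152) (nat_lit 474661518656) (nat_lit 0) (nat_lit 69940822728) (nat_lit 1) (nat_lit 5) (nat_lit 3) (nat_lit 4) (nat_lit 1) (nat_lit 4)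 (nat_lit 244) (nat_lit 194) (nat_lit 162))))) (XT.nd (nat_lit 312) (nat_lit 0) (nat_lit 0) (XT.nd (nat_lit 156) (nat_lit 0) (nat_lit 0) (XT.nd (nat_lit 78) (nat_lit 0) (nat_lit 0) (XT.lf (nat_lit 0) (nat_lit 86790965500) (nat_lit 152) (nat_lit 540308913311) (nat_lit 0) (nat_lit 83254157630) (nat_lit 1) (nat_lit 5) (nat_lit 3) (nat_lit 4) (nat_lit 1) (nat_lit 4) (nat_lit 245) (nat_lit 194) (nat_lit 161)) (XT.lf (nat_lit 0) (nat_lit 102099693641) (nat_lit 152) (nat_lit 615818555033) (nat_lit 0) (nat_lit 98558258654) (nat_lit 1) (nat_lit 5) (nat_lit 3) (nat_lit 4) (nat_lit 1) (nat_lit 4) (nat_lit 246) (nat_lit 194) (nat_lit 160))) (XT.nd (nat_lit 78) (nat_lit 0) (nat_lit 0) (XT.lf (nat_lit 0) (nat_lit 119698012431) (nat_lit 152) (nat_lit 702667806376) (nat_lit 0) (nat_lit 116152553864) (nat_lit 1) (nat_lit 5) (nat_lit 3) (nat_lit 4) (nat_lit 1) (nat_lit 4) (nat_lit 247) (nat_lit 194)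 (nat_lit 159)) (XT.lf (nat_lit 0) (nat_lit 139930236803) (nat_lit 152) (nat_lit 802555891823) (nat_lit 0) (nat_lit 136381279471) (nat_lit 1) (nat_lit 5) (nat_lit 3) (nat_lit 4) (nat_lit 1) (nat_lit 4) (nat_lit 248) (nat_lit 194) (nat_lit 158)))) (XT.nd (nat_lit 156) (nat_lit 0) (nat_lit 0) (XT.nd (nat_lit 78) (nat_lit 0) (nat_lit 0) (XT.lf (nat_lit 0) (nat_lit 163192214625) (nat_lit 152) (nat_lit 917437143482) (nat_lit 0) (nat_lit 159640214888) (nat_lit 1) (nat_lit 5) (nat_lit 3) (nat_lit 4) (nat_lit 1) (nat_lit 4) (nat_lit 249) (nat_lit 194) (nat_lit 157)) (XT.lf (nat_lit 0) (nat_lit 189939071550) (nat_lit 152) (nat_lit 1049559238014) (nat_lit 0) (nat_lit 186384426244) (nat_lit 1) (nat_lit 5) (nat_lit 3) (nat_lit 4) (nat_lit 1) (nat_lit 4) (nat_lit 250) (nat_lit 194) (nat_lit 156))) (XT.nd (nat_lit 78) (nat_lit 0) (nat_lit 0) (XT.lf (nat_lit 0) (nat_lit 220694115649) (nat_lit 152)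 (nat_lit 1201507172923) (nat_lit 0) (nat_lit 217137169848) (nat_lit 1) (nat_lit 5) (nat_lit 3) (nat_lit 4) (nat_lit 1) (nat_lit 4) (nat_lit 251) (nat_lit 194) (nat_lit 155)) (XT.lf (nat_lit 0) (nat_lit 256059076044) (nat_lit 152) (nat_lit 1376253842585) (nat_lit 0) (nat_lit 252500129813) (nat_lit 1) (nat_lit 5) (nat_lit 3) (nat_lit 4) (nat_lit 1) (nat_lit 4) (nat_lit 252) (nat_lit 194) (nat_lit 154))))))) (XT.nd (nat_lit 1170) (nat_lit 0) (nat_lit 0) (XT.nd (nat_lit 546) (nat_lit 0) (nat_lit 0) (XT.nd (nat_lit 234) (nat_lit 0) (nat_lit 0) (XT.nd (nat_lit 78) (nat_lit 0) (nat_lit 0) (XT.lf (nat_lit 0) (nat_lit 296725875875) (nat_lit 152) (nat_lit 1577218203582) (nat_lit 0) (nat_lit 293165190139) (nat_lit 1) (nat_lit 5) (nat_lit 3) (nat_lit 4) (nat_lit 1) (nat_lit 4) (nat_lit 253) (nat_lit 194) (nat_lit 153)) (XT.nd (nat_lit 78) (nat_lit 0) (nat_lit 0) (XT.lf (nat_lit 0) (nat_lit 343490169920)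 (nat_lit 152) (nat_lit 1808332167324) (nat_lit 0) (nat_lit 339927971571) (nat_lit 1) (nat_lit 5) (nat_lit 3) (nat_lit 4) (nat_lit 1) (nat_lit 4) (nat_lit 254) (nat_lit 194) (nat_lit 152)) (XT.lf (nat_lit 0) (nat_lit 397266911758) (nat_lit 152) (nat_lit 2074117528755) (nat_lit 0) (nat_lit 393703398094) (nat_lit 1) (nat_lit 5) (nat_lit 3) (nat_lit 4) (nat_lit 1) (nat_lit 4) (nat_lit 255) (nat_lit 194) (nat_lit 151)))) (XT.nd (nat_lit 156) (nat_lit 0) (nat_lit 0) (XT.nd (nat_lit 78) (nat_lit 0) (nat_lit 0) (XT.lf (nat_lit 0) (nat_lit 459108255035) (nat_lit 152) (nat_lit 2379774436250) (nat_lit 0) (nat_lit 455543597619) (nat_lit 1) (nat_lit 5) (nat_lit 3) (nat_lit 4) (nat_lit 1) (nat_lit 4) (nat_lit 256) (nat_lit 194) (nat_lit 150)) (XT.lf (nat_lit 0) (nat_lit 530224139075) (nat_lit 152) (nat_lit 2731283133651) (nat_lit 0) (nat_lit 526658487091) (nat_lit 1) (nat_lit 5) (nat_lit 3) (nat_lit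 4) (nat_lit 1) (nat_lit 4) (nat_lit 257) (nat_lit 194) (nat_lit 149))) (XT.nd (nat_lit 78) (nat_lit 0) (nat_lit 0) (XT.lf (nat_lit 0) (nat_lit 612005961610) (nat_lit 152) (nat_lit 3135520965038) (nat_lit 0) (nat_lit 608439444785) (nat_lit 1) (nat_lit 5) (nat_lit 3) (nat_lit 4) (nat_lit 1) (nat_lit 4) (nat_lit 258) (nat_lit 194) (nat_lit 148)) (XT.lf (nat_lit 0) (nat_lit 706053801775) (nat_lit 152) (nat_lit 3600396931459) (nat_lit 0) (nat_lit 702486532914) (nat_lit 1) (nat_lit 5) (nat_lit 3) (nat_lit 4) (nat_lit 1) (nat_lit 4) (nat_lit 259) (nat_lit 194) (nat_lit 147))))) (XT.nd (nat_lit 312) (nat_lit 0) (nat_lit 0) (XT.nd (nat_lit 156) (nat_lit 0) (nat_lit 0) (XT.nd (nat_lit 78) (nat_lit 0) (nat_lit 0) (XT.lf (nat_lit 0) (nat_lit 814207726010) (nat_lit 152) (nat_lit 4135006432259) (nat_lit 0) (nat_lit 810639803205) (nat_lit 1) (nat_lit 5) (nat_lit 3) (nat_lit 4) (nat_lit 1) (nat_lit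 4) (nat_lit 260) (nat_lit 194) (nat_lit 146)) (XT.lf (nat_lit 0) (nat_lit 938583789353) (nat_lit 152) (nat_lit 4749809218538) (nat_lit 0) (nat_lit 935015297901) (nat_lit 1) (nat_lit 5) (nat_lit 3) (nat_lit 4) (nat_lit 1) (nat_lit 4) (nat_lit 261) (nat_lit 194) (nat_lit 145))) (XT.nd (nat_lit 78) (nat_lit 0) (nat_lit 0) (XT.lf (nat_lit 0) (nat_lit 1081615436522) (nat_lit 152) (nat_lit 5456834040465) (nat_lit 0) (nat_lit 1078046450594) (nat_lit 1) (nat_lit 5) (nat_lit 3) (nat_lit 4) (nat_lit 1) (nat_lit 4) (nat_lit 262) (nat_lit 194) (nat_lit 144)) (XT.lf (nat_lit 0) (nat_lit 1246101112788) (nat_lit 152) (nat_lit 6269913992380) (nat_lit 0) (nat_lit 1242531696881) (nat_lit 1) (nat_lit 5) (nat_lit 3) (nat_lit 4) (nat_lit 1) (nat_lit 4) (nat_lit 263) (nat_lit 194) (nat_lit 143)))) (XT.nd (nat_lit 156) (nat_lit 0) (nat_lit 0) (XT.nd (nat_lit 78) (nat_lit 0) (nat_lit 0) (XT.lf (nat_lit 0)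 (nat_lit 1435259016164) (nat_lit 152) (nat_lit 7204957160300) (nat_lit 0) (nat_lit 1431689226362) (nat_lit 1) (nat_lit 5) (nat_lit 3) (nat_lit 4) (nat_lit 1) (nat_lit 4) (nat_lit 264) (nat_lit 194) (nat_lit 142)) (XT.lf (nat_lit 0) (nat_lit 1652790062152) (nat_lit 152) (nat_lit 8280257867075) (nat_lit 0) (nat_lit 1649219947224) (nat_lit 1) (nat_lit 5) (nat_lit 3) (nat_lit 4) (nat_lit 1) (nat_lit 4) (nat_lit 265) (nat_lit 194) (nat_lit 141))) (XT.nd (nat_lit 78) (nat_lit 0) (nat_lit 0) (XT.lf (nat_lit 0) (nat_lit 1902950292955) (nat_lit 152) (nat_lit 9516854604794) (nat_lit 0) (nat_lit 1899379895309) (nat_lit 1) (nat_lit 5) (nat_lit 3) (nat_lit 4) (nat_lit 1) (nat_lit 4) (nat_lit 266) (nat_lit 194) (nat_lit 140)) (XT.lf (nat_lit 0) (nat_lit 2190634147872) (nat_lit 152) (nat_lit 10938941657457) (nat_lit 0) (nat_lit 2187063504385) (nat_lit 1) (nat_lit 5) (nat_lit 3) (nat_lit 4) (nat_lit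 1) (nat_lit 4) (nat_lit 267) (nat_lit 194) (nat_lit 139)))))) (XT.nd (nat_lit 1482) (nat_lit 0) (nat_lit 0) (XT.nd (nat_lit 312) (nat_lit 0) (nat_lit 0) (XT.nd (nat_lit 156) (nat_lit 0) (nat_lit 0) (XT.nd (nat_lit 78) (nat_lit 0) (nat_lit 0) (XT.lf (nat_lit 0) (nat_lit 2521470224065) (nat_lit 152) (nat_lit 12574342467397) (nat_lit 0) (nat_lit 2517899366801) (nat_lit 1) (nat_lit 5) (nat_lit 3) (nat_lit 4) (nat_lit 1) (nat_lit 4) (nat_lit 268) (nat_lit 194) (nat_lit 138)) (XT.lf (nat_lit 0) (nat_lit 2901931401284) (nat_lit 152) (nat_lit 14455054006983) (nat_lit 0) (nat_lit 2898360358129) (nat_lit 1) (nat_lit 5) (nat_lit 3) (nat_lit 4) (nat_lit 1) (nat_lit 4) (nat_lit 269) (nat_lit 194) (nat_lit 137))) (XT.nd (nat_lit 78) (nat_lit 0) (nat_lit 0) (XT.lf (nat_lit 0) (nat_lit 3339461485172) (nat_lit 152) (nat_lit 16617872806337) (nat_lit 0) (nat_lit 3335890280371) (nat_lit 1) (nat_lit 5)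 (nat_lit 3) (nat_lit 4) (nat_lit 1) (nat_lit 4) (nat_lit 270) (nat_lit 194) (nat_lit 136)) (XT.lf (nat_lit 0) (nat_lit 3842620846934) (nat_lit 152) (nat_lit 19105114885448) (nat_lit 0) (nat_lit 3839049501573) (nat_lit 1) (nat_lit 5) (nat_lit 3) (nat_lit 4) (nat_lit 1) (nat_lit 4) (nat_lit 271) (nat_lit 194) (nat_lit 135)))) (XT.nd (nat_lit 1014) (nat_lit 0) (nat_lit 0) (XT.nd (nat_lit 936) (nat_lit 0) (nat_lit 0) (XT.lf (nat_lit 0) (nat_lit 4421253908866) (nat_lit 152) (nat_lit 21965443676297) (nat_lit 0) (nat_lit 4417682441278) (nat_lit 1) (nat_lit 5) (nat_lit 3) (nat_lit 4) (nat_lit 1) (nat_lit 4) (nat_lit 272) (nat_lit 194) (nat_lit 134)) (XT.lf (nat_lit 0) (nat_lit 23719758362559) (nat_lit 152) (nat_lit 117362928093285) (nat_lit 0) (nat_lit 23716186232426) (nat_lit 1) (nat_lit 5) (nat_lit 3) (nat_lit 4) (nat_lit 1) (nat_lit 4) (nat_lit 284) (nat_lit 194) (nat_lit 122))) (XT.nd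 (nat_lit 78) (nat_lit 0) (nat_lit 0) (XT.lf (nat_lit 0) (nat_lit 27279960912346) (nat_lit 152) (nat_lit 134961931097853) (nat_lit 0) (nat_lit 27276388762347) (nat_lit 1) (nat_lit 5) (nat_lit 3) (nat_lit 4) (nat_lit 1) (nat_lit 4) (nat_lit 285) (nat_lit 194) (nat_lit 121)) (XT.lf (nat_lit 0) (nat_lit 31374193815757) (nat_lit 152) (nat_lit 155200784609620) (nat_lit 0) (nat_lit 31370621648484) (nat_lit 1) (nat_lit 5) (nat_lit 3) (nat_lit 4) (nat_lit 1) (nat_lit 4) (nat_lit 286) (nat_lit 194) (nat_lit 120))))) (XT.nd (nat_lit 25428) (nat_lit 0) (nat_lit 456) (XT.nd (nat_lit 25272) (nat_lit 0) (nat_lit 684) (XT.nd (nat_lit 78) (nat_lit 0) (nat_lit 0) (XT.lf (nat_lit 0) (nat_lit 36082561629597) (nat_lit 152) (nat_lit 178475466197293) (nat_lit 0) (nat_lit 36078989447303) (nat_lit 1) (nat_lit 5) (nat_lit 3) (nat_lit 4) (nat_lit 1) (nat_lit 4) (nat_lit 287) (nat_lit 194) (nat_lit 119)) (XT.lf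 (nat_lit 0) (nat_lit 41497184593702) (nat_lit 152) (nat_lit 205241350065850) (nat_lit 0) (nat_lit 41493612398347) (nat_lit 1) (nat_lit 5) (nat_lit 3) (nat_lit 4) (nat_lit 1) (nat_lit 4) (nat_lit 288) (nat_lit 194) (nat_lit 118))) (XT.nd (nat_lit 78) (nat_lit 152) (nat_lit 0) (XT.lf (nat_lit 0) (nat_lit 4669364736) (nat_lit 152) (nat_lit 1939041) (nat_lit 152) (nat_lit 1939041) (nat_lit 12) (nat_lit 4) (nat_lit 14) (nat_lit 5) (nat_lit 14) (nat_lit 4) (nat_lit 210) (nat_lit 195) (nat_lit 195)) (XT.lf (nat_lit 0) (nat_lit 3569506920) (nat_lit 152) (nat_lit 3714568462) (nat_lit 0) (nat_lit 2754557663) (nat_lit 10) (nat_lit 5) (nat_lit 12) (nat_lit 4) (nat_lit 10) (nat_lit 4) (nat_lit 211) (nat_lit 195) (nat_lit 194)))) (XT.nd (nat_lit 156) (nat_lit 152) (nat_lit 0) (XT.nd (nat_lit 78) (nat_lit 0) (nat_lit 0) (XT.lf (nat_lit 0) (nat_lit 2385420516) (nat_lit 76) (nat_lit 5009089349) (nat_lit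 76) (nat_lit 3485488564) (nat_lit 9) (nat_lit 4) (nat_lit 10) (nat_lit 5) (nat_lit 10) (nat_lit 4) (nat_lit 212) (nat_lit 195) (nat_lit 193)) (XT.lf (nat_lit 0) (nat_lit 9246535465) (nat_lit 76) (nat_lit 2383868860) (nat_lit 76) (nat_lit 244049356) (nat_lit 9) (nat_lit 4) (nat_lit 10) (nat_lit 5) (nat_lit 10) (nat_lit 4) (nat_lit 213) (nat_lit 195) (nat_lit 192))) (XT.nd (nat_lit 78) (nat_lit 0) (nat_lit 0) (XT.lf (nat_lit 0) (nat_lit 3035017289) (nat_lit 152) (nat_lit 9275693158) (nat_lit 0) (nat_lit 708354794) (nat_lit 7) (nat_lit 5) (nat_lit 9) (nat_lit 4) (nat_lit 7) (nat_lit 4) (nat_lit 214) (nat_lit 195) (nat_lit 191)) (XT.lf (nat_lit 0) (nat_lit 6724573261) (nat_lit 152) (nat_lit 3626387812) (nat_lit 0) (nat_lit 3992736955) (nat_lit 7) (nat_lit 5) (nat_lit 9) (nat_lit 4) (nat_lit 7) (nat_lit 4) (nat_lit 215) (nat_lit 195) (nat_lit 190))))))))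
noncomputable def xc19 : XT := (XT.nd (nat_lit 2418) (nat_lit 0) (nat_lit 0) (XT.nd (nat_lit 1170) (nat_lit 152) (nat_lit 0) (XT.nd (nat_lit 546) (nat_lit 76) (nat_lit 0) (XT.nd (nat_lit 234) (nat_lit 76) (nat_lit 0) (XT.nd (nat_lit 78) (nat_lit 76) (nat_lit 0) (XT.lf (nat_lit 0) (nat_lit 2629980824) (nat_lit 76) (nat_lit 8173603670) (nat_lit 76) (nat_lit 5089442311) (nat_lit 6) (nat_lit 4) (nat_lit 7) (nat_lit 5) (nat_lit 7) (nat_lit 4) (nat_lit 216) (nat_lit 195) (nat_lit 189)) (XT.nd (nat_lit 78) (nat_lit 76) (nat_lit 0) (XT.lf (nat_lit 0) (nat_lit 9779456595) (nat_lit 76) (nat_lit 5648511196) (nat_lit 76) (nat_lit 2257980226) (nat_lit 6) (nat_lit 4) (nat_lit 7) (nat_lit 5) (nat_lit 7) (nat_lit 4) (nat_lit 217) (nat_lit 195) (nat_lit 188)) (XT.lf (nat_lit 0) (nat_lit 675120766) (nat_lit 152) (nat_lit 2205429680) (nat_lit 76) (nat_lit 16897112387) (nat_lit 5) (nat_lit 5) (nat_lit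 7) (nat_lit 5) (nat_lit 6) (nat_lit 4) (nat_lit 218) (nat_lit 195) (nat_lit 187)))) (XT.nd (nat_lit 156) (nat_lit 0) (nat_lit 0) (XT.nd (nat_lit 78) (nat_lit 0) (nat_lit 0) (XT.lf (nat_lit 0) (nat_lit 3809161066) (nat_lit 152) (nat_lit 17932055238) (nat_lit 0) (nat_lit 427770831) (nat_lit 4) (nat_lit 5) (nat_lit 6) (nat_lit 4) (nat_lit 4) (nat_lit 4) (nat_lit 219) (nat_lit 195) (nat_lit 186)) (XT.lf (nat_lit 0) (nat_lit 7473369646) (nat_lit 152) (nat_lit 13520517721) (nat_lit 0) (nat_lit 3916811592) (nat_lit 4) (nat_lit 5) (nat_lit 6) (nat_lit 4) (nat_lit 4) (nat_lit 4) (nat_lit 220) (nat_lit 195) (nat_lit 185))) (XT.nd (nat_lit 78) (nat_lit 0) (nat_lit 0) (XT.lf (nat_lit 0) (nat_lit 11515139632) (nat_lit 152) (nat_lit 8768683812) (nat_lit 0) (nat_lit 7806261734) (nat_lit 4) (nat_lit 5) (nat_lit 6) (nat_lit 4) (nat_lit 4) (nat_lit 4) (nat_lit 221) (nat_lit 195) (nat_lit 184)) (XT.lf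 (nat_lit 0) (nat_lit 16013549131) (nat_lit 152) (nat_lit 3583582848) (nat_lit 0) (nat_lit 12172219196) (nat_lit 4) (nat_lit 5) (nat_lit 6) (nat_lit 4) (nat_lit 4) (nat_lit 4) (nat_lit 222) (nat_lit 195) (nat_lit 183))))) (XT.nd (nat_lit 312) (nat_lit 0) (nat_lit 0) (XT.nd (nat_lit 156) (nat_lit 0) (nat_lit 0) (XT.nd (nat_lit 78) (nat_lit 0) (nat_lit 0) (XT.lf (nat_lit 0) (nat_lit 2345001003) (nat_lit 76) (nat_lit 18808710992) (nat_lit 76) (nat_lit 14852205372) (nat_lit 3) (nat_lit 4) (nat_lit 4) (nat_lit 5) (nat_lit 4) (nat_lit 4) (nat_lit 223) (nat_lit 195) (nat_lit 182)) (XT.lf (nat_lit 0) (nat_lit 9333615564) (nat_lit 76) (nat_lit 17795861896) (nat_lit 76) (nat_lit 13739203507) (nat_lit 3) (nat_lit 4) (nat_lit 4) (nat_lit 5) (nat_lit 4) (nat_lit 4) (nat_lit 224) (nat_lit 195) (nat_lit 181))) (XT.nd (nat_lit 78) (nat_lit 0) (nat_lit 0) (XT.lf (nat_lit 0) (nat_lit 17168780819) (nat_lit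 76) (nat_lit 16726091727) (nat_lit 76) (nat_lit 12582343973) (nat_lit 3) (nat_lit 4) (nat_lit 4) (nat_lit 5) (nat_lit 4) (nat_lit 4) (nat_lit 225) (nat_lit 195) (nat_lit 180)) (XT.lf (nat_lit 0) (nat_lit 26003793480) (nat_lit 76) (nat_lit 15578470200) (nat_lit 76) (nat_lit 11358992564) (nat_lit 3) (nat_lit 4) (nat_lit 4) (nat_lit 5) (nat_lit 4) (nat_lit 4) (nat_lit 226) (nat_lit 195) (nat_lit 179)))) (XT.nd (nat_lit 156) (nat_lit 0) (nat_lit 0) (XT.nd (nat_lit 78) (nat_lit 0) (nat_lit 0) (XT.lf (nat_lit 0) (nat_lit 36011512490) (nat_lit 76) (nat_lit 14330543849) (nat_lit 76) (nat_lit 10045214142) (nat_lit 3) (nat_lit 4) (nat_lit 4) (nat_lit 5) (nat_lit 4) (nat_lit 4) (nat_lit 227) (nat_lit 195) (nat_lit 178)) (XT.lf (nat_lit 0) (nat_lit 47387741047) (nat_lit 76) (nat_lit 12957896726) (nat_lit 76) (nat_lit 8615304347) (nat_lit 3) (nat_lit 4) (nat_lit 4) (nat_lit 5) (nat_lit 4) (nat_lit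 4) (nat_lit 228) (nat_lit 195) (nat_lit 177))) (XT.nd (nat_lit 78) (nat_lit 0) (nat_lit 0) (XT.lf (nat_lit 0) (nat_lit 60355057535) (nat_lit 76) (nat_lit 11433672689) (nat_lit 76) (nat_lit 7041286684) (nat_lit 3) (nat_lit 4) (nat_lit 4) (nat_lit 5) (nat_lit 4) (nat_lit 4) (nat_lit 229) (nat_lit 195) (nat_lit 176)) (XT.lf (nat_lit 0) (nat_lit 75167170322) (nat_lit 76) (nat_lit 9728049966) (nat_lit 76) (nat_lit 5292365154) (nat_lit 3) (nat_lit 4) (nat_lit 4) (nat_lit 5) (nat_lit 4) (nat_lit 4) (nat_lit 230) (nat_lit 195) (nat_lit 175)))))) (XT.nd (nat_lit 624) (nat_lit 0) (nat_lit 0) (XT.nd (nat_lit 312) (nat_lit 0) (nat_lit 0) (XT.nd (nat_lit 156) (nat_lit 152) (nat_lit 0) (XT.nd (nat_lit 78) (nat_lit 0) (nat_lit 0) (XT.lf (nat_lit 0) (nat_lit 92113881613) (nat_lit 76) (nat_lit 7807657675) (nat_lit 76) (nat_lit 3334321728) (nat_lit 3) (nat_lit 4) (nat_lit 4) (nat_lit 5) (nat_lit 4)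 (nat_lit 4) (nat_lit 231) (nat_lit 195) (nat_lit 174)) (XT.lf (nat_lit 0) (nat_lit 111526757499) (nat_lit 76) (nat_lit 5634922925) (nat_lit 76) (nat_lit 1128846860) (nat_lit 3) (nat_lit 4) (nat_lit 4) (nat_lit 5) (nat_lit 4) (nat_lit 4) (nat_lit 232) (nat_lit 195) (nat_lit 173))) (XT.nd (nat_lit 78) (nat_lit 76) (nat_lit 0) (XT.lf (nat_lit 0) (nat_lit 1245491551) (nat_lit 152) (nat_lit 1856738897) (nat_lit 76) (nat_lit 132475018325) (nat_lit 2) (nat_lit 5) (nat_lit 4) (nat_lit 5) (nat_lit 3) (nat_lit 4) (nat_lit 233) (nat_lit 195) (nat_lit 172)) (XT.lf (nat_lit 0) (nat_lit 3996912144) (nat_lit 152) (nat_lit 151399311642) (nat_lit 0) (nat_lit 32301738) (nat_lit 1) (nat_lit 5) (nat_lit 3) (nat_lit 4) (nat_lit 1) (nat_lit 4) (nat_lit 234) (nat_lit 195) (nat_lit 171)))) (XT.nd (nat_lit 156) (nat_lit 0) (nat_lit 0) (XT.nd (nat_lit 78) (nat_lit 0) (nat_lit 0) (XT.lf (nat_lit 0) (nat_lit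 7379192216) (nat_lit 152) (nat_lit 167449791685) (nat_lit 0) (nat_lit 3395862542) (nat_lit 1) (nat_lit 5) (nat_lit 3) (nat_lit 4) (nat_lit 1) (nat_lit 4) (nat_lit 235) (nat_lit 195) (nat_lit 170)) (XT.lf (nat_lit 0) (nat_lit 11241633928) (nat_lit 152) (nat_lit 185961096881) (nat_lit 0) (nat_lit 7242026629) (nat_lit 1) (nat_lit 5) (nat_lit 3) (nat_lit 4) (nat_lit 1) (nat_lit 4) (nat_lit 236) (nat_lit 195) (nat_lit 169))) (XT.nd (nat_lit 78) (nat_lit 0) (nat_lit 0) (XT.lf (nat_lit 0) (nat_lit 15659806790) (nat_lit 152) (nat_lit 207295404941) (nat_lit 0) (nat_lit 11646045035) (nat_lit 1) (nat_lit 5) (nat_lit 3) (nat_lit 4) (nat_lit 1) (nat_lit 4) (nat_lit 237) (nat_lit 195) (nat_lit 168)) (XT.lf (nat_lit 0) (nat_lit 20720153317) (nat_lit 152) (nat_lit 231870126239) (nat_lit 0) (nat_lit 16694083338) (nat_lit 1) (nat_lit 5) (nat_lit 3) (nat_lit 4) (nat_lit 1) (nat_lit 4) (nat_lit 238) (nat_lit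 195) (nat_lit 167))))) (XT.nd (nat_lit 312) (nat_lit 0) (nat_lit 0) (XT.nd (nat_lit 156) (nat_lit 0) (nat_lit 0) (XT.nd (nat_lit 78) (nat_lit 0) (nat_lit 0) (XT.lf (nat_lit 0) (nat_lit 26521680286) (nat_lit 152) (nat_lit 260166070540) (nat_lit 0) (nat_lit 22484907505) (nat_lit 1) (nat_lit 5) (nat_lit 3) (nat_lit 4) (nat_lit 1) (nat_lit 4) (nat_lit 239) (nat_lit 195) (nat_lit 166)) (XT.lf (nat_lit 0) (nat_lit 33177895836) (nat_lit 152) (nat_lit 292736854146) (nat_lit 0) (nat_lit 29131816270) (nat_lit 1) (nat_lit 5) (nat_lit 3) (nat_lit 4) (nat_lit 1) (nat_lit 4) (nat_lit 240) (nat_lit 195) (nat_lit 165))) (XT.nd (nat_lit 78) (nat_lit 0) (nat_lit 0) (XT.lf (nat_lit 0) (nat_lit 40819030269) (nat_lit 152) (nat_lit 330219731518) (nat_lit 0) (nat_lit 36764857847) (nat_lit 1) (nat_lit 5) (nat_lit 3) (nat_lit 4) (nat_lit 1) (nat_lit 4) (nat_lit 241) (nat_lit 195) (nat_lit 164)) (XT.lf (nat_lit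 0) (nat_lit 49594584044) (nat_lit 152) (nat_lit 373348063301) (nat_lit 0) (nat_lit 45533374355) (nat_lit 1) (nat_lit 5) (nat_lit 3) (nat_lit 4) (nat_lit 1) (nat_lit 4) (nat_lit 242) (nat_lit 195) (nat_lit 163)))) (XT.nd (nat_lit 156) (nat_lit 0) (nat_lit 0) (XT.nd (nat_lit 78) (nat_lit 0) (nat_lit 0) (XT.lf (nat_lit 0) (nat_lit 59676252775) (nat_lit 152) (nat_lit 422965664682) (nat_lit 0) (nat_lit 55608923724) (nat_lit 1) (nat_lit 5) (nat_lit 3) (nat_lit 4) (nat_lit 1) (nat_lit 4) (nat_lit 243) (nat_lit 195) (nat_lit 162)) (XT.lf (nat_lit 0) (nat_lit 71261286505) (nat_lit 152) (nat_lit 480043314817) (nat_lit 0) (nat_lit 67188636270) (nat_lit 1) (nat_lit 5) (nat_lit 3) (nat_lit 4) (nat_lit 1) (nat_lit 4) (nat_lit 244) (nat_lit 195) (nat_lit 161))) (XT.nd (nat_lit 78) (nat_lit 0) (nat_lit 0) (XT.lf (nat_lit 0) (nat_lit 84576348936) (nat_lit 152) (nat_lit 545697750342) (nat_lit 0) (nat_lit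 80499071584) (nat_lit 1) (nat_lit 5) (nat_lit 3) (nat_lit 4) (nat_lit 1) (nat_lit 4) (nat_lit 245) (nat_lit 195) (nat_lit 160)) (XT.lf (nat_lit 0) (nat_lit 99881952160) (nat_lit 152) (nat_lit 621213514558) (nat_lit 0) (nat_lit 95800651228) (nat_lit 1) (nat_lit 5) (nat_lit 3) (nat_lit 4) (nat_lit 1) (nat_lit 4) (nat_lit 246) (nat_lit 195) (nat_lit 159))))))) (XT.nd (nat_lit 1170) (nat_lit 0) (nat_lit 0) (XT.nd (nat_lit 546) (nat_lit 0) (nat_lit 0) (XT.nd (nat_lit 234) (nat_lit 0) (nat_lit 0) (XT.nd (nat_lit 78) (nat_lit 0) (nat_lit 0) (XT.lf (nat_lit 0) (nat_lit 117477553631) (nat_lit 152) (nat_lit 708068089809) (nat_lit 0) (nat_lit 113392753933) (nat_lit 1) (nat_lit 5) (nat_lit 3) (nat_lit 4) (nat_lit 1) (nat_lit 4) (nat_lit 247) (nat_lit 195) (nat_lit 158)) (XT.nd (nat_lit 78) (nat_lit 0) (nat_lit 0) (XT.lf (nat_lit 0) (nat_lit 137707415116) (nat_lit 152) (nat_lit 807960804742) (nat_lit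 0) (nat_lit 133619573014) (nat_lit 1) (nat_lit 5) (nat_lit 3) (nat_lit 4) (nat_lit 1) (nat_lit 4) (nat_lit 248) (nat_lit 195) (nat_lit 157)) (XT.lf (nat_lit 0) (nat_lit 160967338255) (nat_lit 152) (nat_lit 922846082041) (nat_lit 0) (nat_lit 156876850584) (nat_lit 1) (nat_lit 5) (nat_lit 3) (nat_lit 4) (nat_lit 1) (nat_lit 4) (nat_lit 249) (nat_lit 195) (nat_lit 156)))) (XT.nd (nat_lit 156) (nat_lit 0) (nat_lit 0) (XT.nd (nat_lit 78) (nat_lit 0) (nat_lit 0) (XT.lf (nat_lit 0) (nat_lit 187712408498) (nat_lit 152) (nat_lit 1054971677129) (nat_lit 0) (nat_lit 183619620332) (nat_lit 1) (nat_lit 5) (nat_lit 3) (nat_lit 4) (nat_lit 1) (nat_lit 4) (nat_lit 250) (nat_lit 195) (nat_lit 155)) (XT.lf (nat_lit 0) (nat_lit 218465898960) (nat_lit 152) (nat_lit 1206922655999) (nat_lit 0) (nat_lit 214371110364) (nat_lit 1) (nat_lit 5) (nat_lit 3) (nat_lit 4) (nat_lit 1) (nat_lit 4) (nat_lit 251) (nat_lit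 195) (nat_lit 154))) (XT.nd (nat_lit 78) (nat_lit 0) (nat_lit 0) (XT.lf (nat_lit 0) (nat_lit 253829508368) (nat_lit 152) (nat_lit 1381671972585) (nat_lit 0) (nat_lit 249732980267) (nat_lit 1) (nat_lit 5) (nat_lit 3) (nat_lit 4) (nat_lit 1) (nat_lit 4) (nat_lit 252) (nat_lit 195) (nat_lit 153)) (XT.lf (nat_lit 0) (nat_lit 294495133426) (nat_lit 152) (nat_lit 1582638635254) (nat_lit 0) (nat_lit 290397092712) (nat_lit 1) (nat_lit 5) (nat_lit 3) (nat_lit 4) (nat_lit 1) (nat_lit 4) (nat_lit 253) (nat_lit 195) (nat_lit 152))))) (XT.nd (nat_lit 312) (nat_lit 0) (nat_lit 0) (XT.nd (nat_lit 156) (nat_lit 0) (nat_lit 0) (XT.nd (nat_lit 78) (nat_lit 0) (nat_lit 0) (XT.lf (nat_lit 0) (nat_lit 341258405930) (nat_lit 152) (nat_lit 1813754600451) (nat_lit 0) (nat_lit 337159049901) (nat_lit 1) (nat_lit 5) (nat_lit 3) (nat_lit 4) (nat_lit 1) (nat_lit 4) (nat_lit 254) (nat_lit 195) (nat_lit 151)) (XT.lf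 (nat_lit 0) (nat_lit 395034259472) (nat_lit 152) (nat_lit 2079541702277) (nat_lit 0) (nat_lit 390933759691) (nat_lit 1) (nat_lit 5) (nat_lit 3) (nat_lit 4) (nat_lit 1) (nat_lit 4) (nat_lit 255) (nat_lit 195) (nat_lit 150))) (XT.nd (nat_lit 78) (nat_lit 0) (nat_lit 0) (XT.lf (nat_lit 0) (nat_lit 456874830317) (nat_lit 152) (nat_lit 2385200123159) (nat_lit 0) (nat_lit 452773335968) (nat_lit 1) (nat_lit 5) (nat_lit 3) (nat_lit 4) (nat_lit 1) (nat_lit 4) (nat_lit 256) (nat_lit 195) (nat_lit 149)) (XT.lf (nat_lit 0) (nat_lit 527990042678) (nat_lit 152) (nat_lit 2736710136548) (nat_lit 0) (nat_lit 523887683487) (nat_lit 1) (nat_lit 5) (nat_lit 3) (nat_lit 4) (nat_lit 1) (nat_lit 4) (nat_lit 257) (nat_lit 195) (nat_lit 148)))) (XT.nd (nat_lit 156) (nat_lit 0) (nat_lit 0) (XT.nd (nat_lit 78) (nat_lit 0) (nat_lit 0) (XT.lf (nat_lit 0) (nat_lit 609771281143) (nat_lit 152) (nat_lit 3140949112273)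 (nat_lit 0) (nat_lit 605668169917) (nat_lit 1) (nat_lit 5) (nat_lit 3) (nat_lit 4) (nat_lit 1) (nat_lit 4) (nat_lit 258) (nat_lit 195) (nat_lit 147)) (XT.lf (nat_lit 0) (nat_lit 703818613422) (nat_lit 152) (nat_lit 3605826073771) (nat_lit 0) (nat_lit 699714848252) (nat_lit 1) (nat_lit 5) (nat_lit 3) (nat_lit 4) (nat_lit 1) (nat_lit 4) (nat_lit 259) (nat_lit 195) (nat_lit 146))) (XT.nd (nat_lit 78) (nat_lit 0) (nat_lit 0) (XT.lf (nat_lit 0) (nat_lit 811972096016) (nat_lit 152) (nat_lit 4140436439855) (nat_lit 0) (nat_lit 807867762199) (nat_lit 1) (nat_lit 5) (nat_lit 3) (nat_lit 4) (nat_lit 1) (nat_lit 4) (nat_lit 260) (nat_lit 195) (nat_lit 145)) (XT.lf (nat_lit 0) (nat_lit 936347775324) (nat_lit 152) (nat_lit 4755239978555) (nat_lit 0) (nat_lit 932242947031) (nat_lit 1) (nat_lit 5) (nat_lit 3) (nat_lit 4) (nat_lit 1) (nat_lit 4) (nat_lit 261) (nat_lit 195) (nat_lit 144)))))) (XT.nd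 (nat_lit 624) (nat_lit 0) (nat_lit 0) (XT.nd (nat_lit 312) (nat_lit 0) (nat_lit 0) (XT.nd (nat_lit 156) (nat_lit 0) (nat_lit 0) (XT.nd (nat_lit 78) (nat_lit 0) (nat_lit 0) (XT.lf (nat_lit 0) (nat_lit 1079379088550) (nat_lit 152) (nat_lit 5462265454761) (nat_lit 0) (nat_lit 1075273830277) (nat_lit 1) (nat_lit 5) (nat_lit 3) (nat_lit 4) (nat_lit 1) (nat_lit 4) (nat_lit 262) (nat_lit 195) (nat_lit 143)) (XT.lf (nat_lit 0) (nat_lit 1243864474430) (nat_lit 152) (nat_lit 6275345975615) (nat_lit 0) (nat_lit 1239758842263) (nat_lit 1) (nat_lit 5) (nat_lit 3) (nat_lit 4) (nat_lit 1) (nat_lit 4) (nat_lit 263) (nat_lit 195) (nat_lit 142))) (XT.nd (nat_lit 78) (nat_lit 0) (nat_lit 0) (XT.lf (nat_lit 0) (nat_lit 1433022125297) (nat_lit 152) (nat_lit 7210389638263) (nat_lit 0) (nat_lit 1428916168004) (nat_lit 1) (nat_lit 5) (nat_lit 3) (nat_lit 4) (nat_lit 1) (nat_lit 4) (nat_lit 264) (nat_lit 195)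 (nat_lit 141)) (XT.lf (nat_lit 0) (nat_lit 1650552951711) (nat_lit 152) (nat_lit 8285690775237) (nat_lit 0) (nat_lit 1646446711700) (nat_lit 1) (nat_lit 5) (nat_lit 3) (nat_lit 4) (nat_lit 1) (nat_lit 4) (nat_lit 265) (nat_lit 195) (nat_lit 140)))) (XT.nd (nat_lit 156) (nat_lit 0) (nat_lit 0) (XT.nd (nat_lit 78) (nat_lit 0) (nat_lit 0) (XT.lf (nat_lit 0) (nat_lit 1900712991581) (nat_lit 152) (nat_lit 9522287887043) (nat_lit 0) (nat_lit 1896606505728) (nat_lit 1) (nat_lit 5) (nat_lit 3) (nat_lit 4) (nat_lit 1) (nat_lit 4) (nat_lit 266) (nat_lit 195) (nat_lit 139)) (XT.lf (nat_lit 0) (nat_lit 2188396680469) (nat_lit 152) (nat_lit 10944375264997) (nat_lit 0) (nat_lit 2184289980841) (nat_lit 1) (nat_lit 5) (nat_lit 3) (nat_lit 4) (nat_lit 1) (nat_lit 4) (nat_lit 267) (nat_lit 195) (nat_lit 138))) (XT.nd (nat_lit 78) (nat_lit 0) (nat_lit 0) (XT.lf (nat_lit 0) (nat_lit 2519232612289) (nat_lit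 152) (nat_lit 12579776357800) (nat_lit 0) (nat_lit 2515125726769) (nat_lit 1) (nat_lit 5) (nat_lit 3) (nat_lit 4) (nat_lit 1) (nat_lit 4) (nat_lit 268) (nat_lit 195) (nat_lit 137)) (XT.lf (nat_lit 0) (nat_lit 2899693663966) (nat_lit 152) (nat_lit 14460488143354) (nat_lit 0) (nat_lit 2895586616801) (nat_lit 1) (nat_lit 5) (nat_lit 3) (nat_lit 4) (nat_lit 1) (nat_lit 4) (nat_lit 269) (nat_lit 195) (nat_lit 136))))) (XT.nd (nat_lit 1170) (nat_lit 0) (nat_lit 0) (XT.nd (nat_lit 156) (nat_lit 0) (nat_lit 0) (XT.nd (nat_lit 78) (nat_lit 0) (nat_lit 0) (XT.lf (nat_lit 0) (nat_lit 3337223638687) (nat_lit 152) (nat_lit 16623307156594) (nat_lit 0) (nat_lit 3333116450961) (nat_lit 1) (nat_lit 5) (nat_lit 3) (nat_lit 4) (nat_lit 1) (nat_lit 4) (nat_lit 270) (nat_lit 195) (nat_lit 135)) (XT.lf (nat_lit 0) (nat_lit 3840382905521) (nat_lit 152) (nat_lit 19110549421691) (nat_lit 0) (nat_lit 3836275595568)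 (nat_lit 1) (nat_lit 5) (nat_lit 3) (nat_lit 4) (nat_lit 1) (nat_lit 4) (nat_lit 271) (nat_lit 195) (nat_lit 134))) (XT.nd (nat_lit 936) (nat_lit 0) (nat_lit 0) (XT.lf (nat_lit 0) (nat_lit 4419015884908) (nat_lit 152) (nat_lit 21970878374268) (nat_lit 0) (nat_lit 4414908468670) (nat_lit 1) (nat_lit 5) (nat_lit 3) (nat_lit 4) (nat_lit 1) (nat_lit 4) (nat_lit 272) (nat_lit 195) (nat_lit 133)) (XT.lf (nat_lit 0) (nat_lit 23717519891152) (nat_lit 152) (nat_lit 117368363667920) (nat_lit 0) (nat_lit 23713411898789) (nat_lit 1) (nat_lit 5) (nat_lit 3) (nat_lit 4) (nat_lit 1) (nat_lit 4) (nat_lit 284) (nat_lit 195) (nat_lit 121)))) (XT.nd (nat_lit 156) (nat_lit 0) (nat_lit 0) (XT.nd (nat_lit 78) (nat_lit 0) (nat_lit 0) (XT.lf (nat_lit 0) (nat_lit 27277722427523) (nat_lit 152) (nat_lit 134967366698774) (nat_lit 0) (nat_lit 27273614417885) (nat_lit 1) (nat_lit 5) (nat_lit 3) (nat_lit 4) (nat_lit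 1) (nat_lit 4) (nat_lit 285) (nat_lit 195) (nat_lit 120)) (XT.lf (nat_lit 0) (nat_lit 31371955319268) (nat_lit 152) (nat_lit 155206220233397) (nat_lit 0) (nat_lit 31367847294609) (nat_lit 1) (nat_lit 5) (nat_lit 3) (nat_lit 4) (nat_lit 1) (nat_lit 4) (nat_lit 286) (nat_lit 195) (nat_lit 119))) (XT.nd (nat_lit 25116) (nat_lit 0) (nat_lit 988) (XT.lf (nat_lit 0) (nat_lit 36080323122963) (nat_lit 152) (nat_lit 178480901840946) (nat_lit 0) (nat_lit 36076215085243) (nat_lit 1) (nat_lit 5) (nat_lit 3) (nat_lit 4) (nat_lit 1) (nat_lit 4) (nat_lit 287) (nat_lit 195) (nat_lit 118)) (XT.lf (nat_lit 0) (nat_lit 1401049947) (nat_lit 304) (nat_lit 1298431871) (nat_lit 0) (nat_lit 1401049947) (nat_lit 14) (nat_lit 5) (nat_lit 18) (nat_lit 4) (nat_lit 14) (nat_lit 4) (nat_lit 208) (nat_lit 196) (nat_lit 196))))))))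
noncomputable def xc20 : XT := (XT.nd (nat_lit 2418) (nat_lit 0) (nat_lit 0) (XT.nd (nat_lit 1170) (nat_lit 228) (nat_lit 0) (XT.nd (nat_lit 546) (nat_lit 228) (nat_lit 0) (XT.nd (nat_lit 234) (nat_lit 228) (nat_lit 0) (XT.nd (nat_lit 78) (nat_lit 152) (nat_lit 0) (XT.lf (nat_lit 0) (nat_lit 2950516101) (nat_lit 152) (nat_lit 3427622453) (nat_lit 152) (nat_lit 2349852061) (nat_lit 12) (nat_lit 4) (nat_lit 14) (nat_lit 5) (nat_lit 14) (nat_lit 4) (nat_lit 209) (nat_lit 196) (nat_lit 195)) (XT.nd (nat_lit 78) (nat_lit 76) (nat_lit 0) (XT.lf (nat_lit 0) (nat_lit 789089078) (nat_lit 228) (nat_lit 318420517) (nat_lit 76) (nat_lit 8262196450) (nat_lit 11) (nat_lit 5) (nat_lit 14) (nat_lit 5) (nat_lit 12) (nat_lit 4) (nat_lit 210) (nat_lit 196) (nat_lit 194)) (XT.lf (nat_lit 0) (nat_lit 4123321210) (nat_lit 152) (nat_lit 4313114310) (nat_lit 0) (nat_lit 1662528780) (nat_lit 10) (nat_lit 5)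 (nat_lit 12) (nat_lit 4) (nat_lit 10) (nat_lit 4) (nat_lit 211) (nat_lit 196) (nat_lit 193)))) (XT.nd (nat_lit 156) (nat_lit 152) (nat_lit 0) (XT.nd (nat_lit 78) (nat_lit 0) (nat_lit 0) (XT.lf (nat_lit 0) (nat_lit 1462641243) (nat_lit 76) (nat_lit 6292416026) (nat_lit 76) (nat_lit 3215404877) (nat_lit 9) (nat_lit 4) (nat_lit 10) (nat_lit 5) (nat_lit 10) (nat_lit 4) (nat_lit 212) (nat_lit 196) (nat_lit 192)) (XT.lf (nat_lit 0) (nat_lit 8092678652) (nat_lit 76) (nat_lit 3753872855) (nat_lit 76) (nat_lit 141019340) (nat_lit 9) (nat_lit 4) (nat_lit 10) (nat_lit 5) (nat_lit 10) (nat_lit 4) (nat_lit 213) (nat_lit 196) (nat_lit 191))) (XT.nd (nat_lit 78) (nat_lit 0) (nat_lit 0) (XT.lf (nat_lit 0) (nat_lit 2149329796) (nat_lit 76) (nat_lit 747476340) (nat_lit 152) (nat_lit 10270297806) (nat_lit 7) (nat_lit 5) (nat_lit 8) (nat_lit 5) (nat_lit 9) (nat_lit 4) (nat_lit 214) (nat_lit 196) (nat_lit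 190)) (XT.lf (nat_lit 0) (nat_lit 6428489762) (nat_lit 152) (nat_lit 5558201860) (nat_lit 0) (nat_lit 2529379146) (nat_lit 7) (nat_lit 5) (nat_lit 9) (nat_lit 4) (nat_lit 7) (nat_lit 4) (nat_lit 215) (nat_lit 196) (nat_lit 189))))) (XT.nd (nat_lit 312) (nat_lit 0) (nat_lit 0) (XT.nd (nat_lit 156) (nat_lit 152) (nat_lit 0) (XT.nd (nat_lit 78) (nat_lit 0) (nat_lit 0) (XT.lf (nat_lit 0) (nat_lit 298722508) (nat_lit 76) (nat_lit 10001880012) (nat_lit 76) (nat_lit 5796399785) (nat_lit 6) (nat_lit 4) (nat_lit 7) (nat_lit 5) (nat_lit 7) (nat_lit 4) (nat_lit 216) (nat_lit 196) (nat_lit 188)) (XT.lf (nat_lit 0) (nat_lit 7265021454) (nat_lit 76) (nat_lit 7556408933) (nat_lit 76) (nat_lit 3084520348) (nat_lit 6) (nat_lit 4) (nat_lit 7) (nat_lit 5) (nat_lit 7) (nat_lit 4) (nat_lit 217) (nat_lit 196) (nat_lit 187))) (XT.nd (nat_lit 78) (nat_lit 152) (nat_lit 0) (XT.lf (nat_lit 0) (nat_lit 14933804220)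 (nat_lit 76) (nat_lit 4892974582) (nat_lit 76) (nat_lit 189426556) (nat_lit 6) (nat_lit 4) (nat_lit 7) (nat_lit 5) (nat_lit 7) (nat_lit 4) (nat_lit 218) (nat_lit 196) (nat_lit 186)) (XT.lf (nat_lit 0) (nat_lit 948535756) (nat_lit 76) (nat_lit 1774034836) (nat_lit 152) (nat_lit 19722296461) (nat_lit 4) (nat_lit 5) (nat_lit 5) (nat_lit 5) (nat_lit 6) (nat_lit 4) (nat_lit 219) (nat_lit 196) (nat_lit 185)))) (XT.nd (nat_lit 156) (nat_lit 0) (nat_lit 0) (XT.nd (nat_lit 78) (nat_lit 0) (nat_lit 0) (XT.lf (nat_lit 0) (nat_lit 6233287671) (nat_lit 152) (nat_lit 17160839077) (nat_lit 0) (nat_lit 1815758246) (nat_lit 4) (nat_lit 5) (nat_lit 6) (nat_lit 4) (nat_lit 4) (nat_lit 4) (nat_lit 220) (nat_lit 196) (nat_lit 184)) (XT.lf (nat_lit 0) (nat_lit 10205464176) (nat_lit 152) (nat_lit 12539008904) (nat_lit 0) (nat_lit 5655482713) (nat_lit 4) (nat_lit 5) (nat_lit 6) (nat_lit 4) (nat_lit 4) (nat_lit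 4) (nat_lit 221) (nat_lit 196) (nat_lit 183))) (XT.nd (nat_lit 78) (nat_lit 0) (nat_lit 0) (XT.lf (nat_lit 0) (nat_lit 14643357605) (nat_lit 152) (nat_lit 7466954666) (nat_lit 0) (nat_lit 9978200457) (nat_lit 4) (nat_lit 5) (nat_lit 6) (nat_lit 4) (nat_lit 4) (nat_lit 4) (nat_lit 222) (nat_lit 196) (nat_lit 182)) (XT.lf (nat_lit 0) (nat_lit 19633796308) (nat_lit 152) (nat_lit 1845440521) (nat_lit 0) (nat_lit 14868486391) (nat_lit 4) (nat_lit 5) (nat_lit 6) (nat_lit 4) (nat_lit 4) (nat_lit 4) (nat_lit 223) (nat_lit 196) (nat_lit 181)))))) (XT.nd (nat_lit 624) (nat_lit 152) (nat_lit 0) (XT.nd (nat_lit 312) (nat_lit 0) (nat_lit 0) (XT.nd (nat_lit 156) (nat_lit 0) (nat_lit 0) (XT.nd (nat_lit 78) (nat_lit 0) (nat_lit 0) (XT.lf (nat_lit 0) (nat_lit 4868990919) (nat_lit 76) (nat_lit 20607042916) (nat_lit 76) (nat_lit 15754643634) (nat_lit 3) (nat_lit 4) (nat_lit 4) (nat_lit 5) (nat_lit 4)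 (nat_lit 4) (nat_lit 224) (nat_lit 196) (nat_lit 180)) (XT.lf (nat_lit 0) (nat_lit 12622562043) (nat_lit 76) (nat_lit 19575697941) (nat_lit 76) (nat_lit 14647568777) (nat_lit 3) (nat_lit 4) (nat_lit 4) (nat_lit 5) (nat_lit 4) (nat_lit 4) (nat_lit 225) (nat_lit 196) (nat_lit 179))) (XT.nd (nat_lit 78) (nat_lit 0) (nat_lit 0) (XT.lf (nat_lit 0) (nat_lit 21386623285) (nat_lit 76) (nat_lit 18461489625) (nat_lit 76) (nat_lit 13467508390) (nat_lit 3) (nat_lit 4) (nat_lit 4) (nat_lit 5) (nat_lit 4) (nat_lit 4) (nat_lit 226) (nat_lit 196) (nat_lit 178)) (XT.lf (nat_lit 0) (nat_lit 31332645409) (nat_lit 76) (nat_lit 17242618242) (nat_lit 76) (nat_lit 12191374336) (nat_lit 3) (nat_lit 4) (nat_lit 4) (nat_lit 5) (nat_lit 4) (nat_lit 4) (nat_lit 227) (nat_lit 196) (nat_lit 177)))) (XT.nd (nat_lit 156) (nat_lit 0) (nat_lit 0) (XT.nd (nat_lit 78) (nat_lit 0) (nat_lit 0) (XT.lf (nat_lit 0) (nat_lit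 42655224500) (nat_lit 76) (nat_lit 15895236307) (nat_lit 76) (nat_lit 10794198774) (nat_lit 3) (nat_lit 4) (nat_lit 4) (nat_lit 5) (nat_lit 4) (nat_lit 4) (nat_lit 228) (nat_lit 196) (nat_lit 176)) (XT.lf (nat_lit 0) (nat_lit 55575889279) (nat_lit 76) (nat_lit 14392982000) (nat_lit 76) (nat_lit 9248645661) (nat_lit 3) (nat_lit 4) (nat_lit 4) (nat_lit 5) (nat_lit 4) (nat_lit 4) (nat_lit 229) (nat_lit 196) (nat_lit 175))) (XT.nd (nat_lit 78) (nat_lit 0) (nat_lit 0) (XT.lf (nat_lit 0) (nat_lit 70347435361) (nat_lit 76) (nat_lit 12706463389) (nat_lit 76) (nat_lit 7524475914) (nat_lit 3) (nat_lit 4) (nat_lit 4) (nat_lit 5) (nat_lit 4) (nat_lit 4) (nat_lit 230) (nat_lit 196) (nat_lit 174)) (XT.lf (nat_lit 0) (nat_lit 87258871258) (nat_lit 76) (nat_lit 10802683370) (nat_lit 76) (nat_lit 5587955777) (nat_lit 3) (nat_lit 4) (nat_lit 4) (nat_lit 5) (nat_lit 4) (nat_lit 4) (nat_lit 231) (nat_lit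 196) (nat_lit 173))))) (XT.nd (nat_lit 312) (nat_lit 0) (nat_lit 0) (XT.nd (nat_lit 156) (nat_lit 152) (nat_lit 0) (XT.nd (nat_lit 78) (nat_lit 0) (nat_lit 0) (XT.lf (nat_lit 0) (nat_lit 106641072887) (nat_lit 76) (nat_lit 8644394074) (nat_lit 76) (nat_lit 3401196813) (nat_lit 3) (nat_lit 4) (nat_lit 4) (nat_lit 5) (nat_lit 4) (nat_lit 4) (nat_lit 232) (nat_lit 196) (nat_lit 172)) (XT.lf (nat_lit 0) (nat_lit 128873257239) (nat_lit 76) (nat_lit 6189368101) (nat_lit 76) (nat_lit 921414608) (nat_lit 3) (nat_lit 4) (nat_lit 4) (nat_lit 5) (nat_lit 4) (nat_lit 4) (nat_lit 233) (nat_lit 196) (nat_lit 171))) (XT.nd (nat_lit 78) (nat_lit 76) (nat_lit 0) (XT.lf (nat_lit 0) (nat_lit 1730765340) (nat_lit 152) (nat_lit 1568335170) (nat_lit 76) (nat_lit 152569164667) (nat_lit 2) (nat_lit 5) (nat_lit 4) (nat_lit 5) (nat_lit 3) (nat_lit 4) (nat_lit 234) (nat_lit 196) (nat_lit 170)) (XT.lf (nat_lit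 0) (nat_lit 4889112035) (nat_lit 152) (nat_lit 173535808228) (nat_lit 0) (nat_lit 273286017) (nat_lit 1) (nat_lit 5) (nat_lit 3) (nat_lit 4) (nat_lit 1) (nat_lit 4) (nat_lit 235) (nat_lit 196) (nat_lit 169)))) (XT.nd (nat_lit 156) (nat_lit 0) (nat_lit 0) (XT.nd (nat_lit 78) (nat_lit 0) (nat_lit 0) (XT.lf (nat_lit 0) (nat_lit 8740560675) (nat_lit 152) (nat_lit 192068651603) (nat_lit 0) (nat_lit 4110580199) (nat_lit 1) (nat_lit 5) (nat_lit 3) (nat_lit 4) (nat_lit 1) (nat_lit 4) (nat_lit 236) (nat_lit 196) (nat_lit 168)) (XT.lf (nat_lit 0) (nat_lit 13149174344) (nat_lit 152) (nat_lit 213421688513) (nat_lit 0) (nat_lit 8506885646) (nat_lit 1) (nat_lit 5) (nat_lit 3) (nat_lit 4) (nat_lit 1) (nat_lit 4) (nat_lit 237) (nat_lit 196) (nat_lit 167))) (XT.nd (nat_lit 78) (nat_lit 0) (nat_lit 0) (XT.lf (nat_lit 0) (nat_lit 18201208528) (nat_lit 152) (nat_lit 238012695769) (nat_lit 0) (nat_lit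 13548217027) (nat_lit 1) (nat_lit 5) (nat_lit 3) (nat_lit 4) (nat_lit 1) (nat_lit 4) (nat_lit 238) (nat_lit 196) (nat_lit 166)) (XT.lf (nat_lit 0) (nat_lit 23995507374) (nat_lit 152) (nat_lit 266322801772) (nat_lit 0) (nat_lit 19333209089) (nat_lit 1) (nat_lit 5) (nat_lit 3) (nat_lit 4) (nat_lit 1) (nat_lit 4) (nat_lit 239) (nat_lit 196) (nat_lit 165))))))) (XT.nd (nat_lit 1170) (nat_lit 0) (nat_lit 0) (XT.nd (nat_lit 546) (nat_lit 0) (nat_lit 0) (XT.nd (nat_lit 234) (nat_lit 0) (nat_lit 0) (XT.nd (nat_lit 78) (nat_lit 0) (nat_lit 0) (XT.lf (nat_lit 0) (nat_lit 30645437599) (nat_lit 152) (nat_lit 298905899901) (nat_lit 0) (nat_lit 25975046457) (nat_lit 1) (nat_lit 5) (nat_lit 3) (nat_lit 4) (nat_lit 1) (nat_lit 4) (nat_lit 240) (nat_lit 196) (nat_lit 164)) (XT.nd (nat_lit 78) (nat_lit 0) (nat_lit 0) (XT.lf (nat_lit 0) (nat_lit 38281106533) (nat_lit 152) (nat_lit 336399485555) (nat_lit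 0) (nat_lit 33603678124) (nat_lit 1) (nat_lit 5) (nat_lit 3) (nat_lit 4) (nat_lit 1) (nat_lit 4) (nat_lit 241) (nat_lit 196) (nat_lit 163)) (XT.lf (nat_lit 0) (nat_lit 47051907698) (nat_lit 152) (nat_lit 379537128887) (nat_lit 0) (nat_lit 42368359928) (nat_lit 1) (nat_lit 5) (nat_lit 3) (nat_lit 4) (nat_lit 1) (nat_lit 4) (nat_lit 242) (nat_lit 196) (nat_lit 162)))) (XT.nd (nat_lit 156) (nat_lit 0) (nat_lit 0) (XT.nd (nat_lit 78) (nat_lit 0) (nat_lit 0) (XT.lf (nat_lit 0) (nat_lit 57129443727) (nat_lit 152) (nat_lit 429162827267) (nat_lit 0) (nat_lit 52440574772) (nat_lit 1) (nat_lit 5) (nat_lit 3) (nat_lit 4) (nat_lit 1) (nat_lit 4) (nat_lit 243) (nat_lit 196) (nat_lit 161)) (XT.lf (nat_lit 0) (nat_lit 68710883802) (nat_lit 152) (nat_lit 486247518271) (nat_lit 0) (nat_lit 64017387730) (nat_lit 1) (nat_lit 5) (nat_lit 3) (nat_lit 4) (nat_lit 1) (nat_lit 4) (nat_lit 244) (nat_lit 196)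 (nat_lit 160))) (XT.nd (nat_lit 78) (nat_lit 0) (nat_lit 0) (XT.lf (nat_lit 0) (nat_lit 82022821316) (nat_lit 152) (nat_lit 551908076290) (nat_lit 0) (nat_lit 77325301664) (nat_lit 1) (nat_lit 5) (nat_lit 3) (nat_lit 4) (nat_lit 1) (nat_lit 4) (nat_lit 245) (nat_lit 196) (nat_lit 159)) (XT.lf (nat_lit 0) (nat_lit 97325707220) (nat_lit 152) (nat_lit 627429164414) (nat_lit 0) (nat_lit 92624688803) (nat_lit 1) (nat_lit 5) (nat_lit 3) (nat_lit 4) (nat_lit 1) (nat_lit 4) (nat_lit 246) (nat_lit 196) (nat_lit 158))))) (XT.nd (nat_lit 312) (nat_lit 0) (nat_lit 0) (XT.nd (nat_lit 156) (nat_lit 0) (nat_lit 0) (XT.nd (nat_lit 78) (nat_lit 0) (nat_lit 0) (XT.lf (nat_lit 0) (nat_lit 114918945805) (nat_lit 152) (nat_lit 714288369152) (nat_lit 0) (nat_lit 110214884983) (nat_lit 1) (nat_lit 5) (nat_lit 3) (nat_lit 4) (nat_lit 1) (nat_lit 4) (nat_lit 247) (nat_lit 196) (nat_lit 157)) (XT.lf (nat_lit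 0) (nat_lit 135146752606) (nat_lit 152) (nat_lit 814185109724) (nat_lit 0) (nat_lit 130440046215) (nat_lit 1) (nat_lit 5) (nat_lit 3) (nat_lit 4) (nat_lit 1) (nat_lit 4) (nat_lit 248) (nat_lit 196) (nat_lit 156))) (XT.nd (nat_lit 78) (nat_lit 0) (nat_lit 0) (XT.lf (nat_lit 0) (nat_lit 158404889063) (nat_lit 152) (nat_lit 929073887579) (nat_lit 0) (nat_lit 153695882177) (nat_lit 1) (nat_lit 5) (nat_lit 3) (nat_lit 4) (nat_lit 1) (nat_lit 4) (nat_lit 249) (nat_lit 196) (nat_lit 155)) (XT.lf (nat_lit 0) (nat_lit 185148405670) (nat_lit 152) (nat_lit 1061202526629) (nat_lit 0) (nat_lit 180437398354) (nat_lit 1) (nat_lit 5) (nat_lit 3) (nat_lit 4) (nat_lit 1) (nat_lit 4) (nat_lit 250) (nat_lit 196) (nat_lit 154)))) (XT.nd (nat_lit 156) (nat_lit 0) (nat_lit 0) (XT.nd (nat_lit 78) (nat_lit 0) (nat_lit 0) (XT.lf (nat_lit 0) (nat_lit 215900545144) (nat_lit 152) (nat_lit 1213156152423) (nat_lit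 0) (nat_lit 211187798324) (nat_lit 1) (nat_lit 5) (nat_lit 3) (nat_lit 4) (nat_lit 1) (nat_lit 4) (nat_lit 251) (nat_lit 196) (nat_lit 153)) (XT.lf (nat_lit 0) (nat_lit 251262979780) (nat_lit 152) (nat_lit 1387907770681) (nat_lit 0) (nat_lit 246548720346) (nat_lit 1) (nat_lit 5) (nat_lit 3) (nat_lit 4) (nat_lit 1) (nat_lit 4) (nat_lit 252) (nat_lit 196) (nat_lit 152))) (XT.nd (nat_lit 78) (nat_lit 0) (nat_lit 0) (XT.lf (nat_lit 0) (nat_lit 291927583297) (nat_lit 152) (nat_lit 1588876434805) (nat_lit 0) (nat_lit 287212008548) (nat_lit 1) (nat_lit 5) (nat_lit 3) (nat_lit 4) (nat_lit 1) (nat_lit 4) (nat_lit 253) (nat_lit 196) (nat_lit 151)) (XT.lf (nat_lit 0) (nat_lit 338689967505) (nat_lit 152) (nat_lit 1819994140397) (nat_lit 0) (nat_lit 333973249003) (nat_lit 1) (nat_lit 5) (nat_lit 3) (nat_lit 4) (nat_lit 1) (nat_lit 4) (nat_lit 254) (nat_lit 196) (nat_lit 150)))))) (XT.nd (nat_lit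 624) (nat_lit 0) (nat_lit 0) (XT.nd (nat_lit 312) (nat_lit 0) (nat_lit 0) (XT.nd (nat_lit 156) (nat_lit 0) (nat_lit 0) (XT.nd (nat_lit 78) (nat_lit 0) (nat_lit 0) (XT.lf (nat_lit 0) (nat_lit 392465048615) (nat_lit 152) (nat_lit 2085782755609) (nat_lit 0) (nat_lit 387747335546) (nat_lit 1) (nat_lit 5) (nat_lit 3) (nat_lit 4) (nat_lit 1) (nat_lit 4) (nat_lit 255) (nat_lit 196) (nat_lit 149)) (XT.lf (nat_lit 0) (nat_lit 454304947780) (nat_lit 152) (nat_lit 2391442492480) (nat_lit 0) (nat_lit 449586369870) (nat_lit 1) (nat_lit 5) (nat_lit 3) (nat_lit 4) (nat_lit 1) (nat_lit 4) (nat_lit 256) (nat_lit 196) (nat_lit 148))) (XT.nd (nat_lit 78) (nat_lit 0) (nat_lit 0) (XT.lf (nat_lit 0) (nat_lit 525419576071) (nat_lit 152) (nat_lit 2742953650207) (nat_lit 0) (nat_lit 520700246125) (nat_lit 1) (nat_lit 5) (nat_lit 3) (nat_lit 4) (nat_lit 1) (nat_lit 4) (nat_lit 257) (nat_lit 196) (nat_lit 147))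 (XT.lf (nat_lit 0) (nat_lit 607200306650) (nat_lit 152) (nat_lit 3147193621009) (nat_lit 0) (nat_lit 602480322760) (nat_lit 1) (nat_lit 5) (nat_lit 3) (nat_lit 4) (nat_lit 1) (nat_lit 4) (nat_lit 258) (nat_lit 196) (nat_lit 146)))) (XT.nd (nat_lit 156) (nat_lit 0) (nat_lit 0) (XT.nd (nat_lit 78) (nat_lit 0) (nat_lit 0) (XT.lf (nat_lit 0) (nat_lit 701247197289) (nat_lit 152) (nat_lit 3612071447791) (nat_lit 0) (nat_lit 696526644751) (nat_lit 1) (nat_lit 5) (nat_lit 3) (nat_lit 4) (nat_lit 1) (nat_lit 4) (nat_lit 259) (nat_lit 196) (nat_lit 145)) (XT.lf (nat_lit 0) (nat_lit 809400295848) (nat_lit 152) (nat_lit 4146682566295) (nat_lit 0) (nat_lit 804679248835) (nat_lit 1) (nat_lit 5) (nat_lit 3) (nat_lit 4) (nat_lit 1) (nat_lit 4) (nat_lit 260) (nat_lit 196) (nat_lit 144))) (XT.nd (nat_lit 78) (nat_lit 0) (nat_lit 0) (XT.lf (nat_lit 0) (nat_lit 933775641212) (nat_lit 152) (nat_lit 4761486759275)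 (nat_lit 0) (nat_lit 929054164220) (nat_lit 1) (nat_lit 5) (nat_lit 3) (nat_lit 4) (nat_lit 1) (nat_lit 4) (nat_lit 261) (nat_lit 196) (nat_lit 143)) (XT.lf (nat_lit 0) (nat_lit 1076806664052) (nat_lit 152) (nat_lit 5468512804419) (nat_lit 0) (nat_lit 1072084813165) (nat_lit 1) (nat_lit 5) (nat_lit 3) (nat_lit 4) (nat_lit 1) (nat_lit 4) (nat_lit 262) (nat_lit 196) (nat_lit 142))))) (XT.nd (nat_lit 312) (nat_lit 0) (nat_lit 0) (XT.nd (nat_lit 156) (nat_lit 0) (nat_lit 0) (XT.nd (nat_lit 78) (nat_lit 0) (nat_lit 0) (XT.lf (nat_lit 0) (nat_lit 1241291797423) (nat_lit 152) (nat_lit 6281593820001) (nat_lit 0) (nat_lit 1236569621410) (nat_lit 1) (nat_lit 5) (nat_lit 3) (nat_lit 4) (nat_lit 1) (nat_lit 4) (nat_lit 263) (nat_lit 196) (nat_lit 141)) (XT.lf (nat_lit 0) (nat_lit 1430449228717) (nat_lit 152) (nat_lit 7216637912849) (nat_lit 0) (nat_lit 1425726769986) (nat_lit 1) (nat_lit 5) (nat_lit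 3) (nat_lit 4) (nat_lit 1) (nat_lit 4) (nat_lit 264) (nat_lit 196) (nat_lit 140))) (XT.nd (nat_lit 78) (nat_lit 0) (nat_lit 0) (XT.lf (nat_lit 0) (nat_lit 1647979864198) (nat_lit 152) (nat_lit 8291939423909) (nat_lit 0) (nat_lit 1643257159625) (nat_lit 1) (nat_lit 5) (nat_lit 3) (nat_lit 4) (nat_lit 1) (nat_lit 4) (nat_lit 265) (nat_lit 196) (nat_lit 139)) (XT.lf (nat_lit 0) (nat_lit 1898139738039) (nat_lit 152) (nat_lit 9528536861007) (nat_lit 0) (nat_lit 1893416819690) (nat_lit 1) (nat_lit 5) (nat_lit 3) (nat_lit 4) (nat_lit 1) (nat_lit 4) (nat_lit 266) (nat_lit 196) (nat_lit 138)))) (XT.nd (nat_lit 156) (nat_lit 0) (nat_lit 0) (XT.nd (nat_lit 78) (nat_lit 0) (nat_lit 0) (XT.lf (nat_lit 0) (nat_lit 2185823282554) (nat_lit 152) (nat_lit 10950624521824) (nat_lit 0) (nat_lit 2181100178314) (nat_lit 1) (nat_lit 5) (nat_lit 3) (nat_lit 4) (nat_lit 1) (nat_lit 4) (nat_lit 267) (nat_lit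 196) (nat_lit 137)) (XT.lf (nat_lit 0) (nat_lit 2516659088831) (nat_lit 152) (nat_lit 12586025860595) (nat_lit 0) (nat_lit 2511935822946) (nat_lit 1) (nat_lit 5) (nat_lit 3) (nat_lit 4) (nat_lit 1) (nat_lit 4) (nat_lit 268) (nat_lit 196) (nat_lit 136))) (XT.nd (nat_lit 78) (nat_lit 0) (nat_lit 0) (XT.lf (nat_lit 0) (nat_lit 2897120031342) (nat_lit 152) (nat_lit 14466737860033) (nat_lit 0) (nat_lit 2892396624896) (nat_lit 1) (nat_lit 5) (nat_lit 3) (nat_lit 4) (nat_lit 1) (nat_lit 4) (nat_lit 269) (nat_lit 196) (nat_lit 135)) (XT.lf (nat_lit 0) (nat_lit 3334649911135) (nat_lit 152) (nat_lit 16629557059260) (nat_lit 0) (nat_lit 3329926382463) (nat_lit 1) (nat_lit 5) (nat_lit 3) (nat_lit 4) (nat_lit 1) (nat_lit 4) (nat_lit 270) (nat_lit 196) (nat_lit 134))))))))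
noncomputable def xc21 : XT := (XT.nd (nat_lit 28080) (nat_lit 0) (nat_lit 0) (XT.nd (nat_lit 26832) (nat_lit 0) (nat_lit 152) (XT.nd (nat_lit 26208) (nat_lit 0) (nat_lit 608) (XT.nd (nat_lit 390) (nat_lit 0) (nat_lit 0) (XT.nd (nat_lit 78) (nat_lit 0) (nat_lit 0) (XT.lf (nat_lit 0) (nat_lit 3837809095424) (nat_lit 152) (nat_lit 19116799486085) (nat_lit 0) (nat_lit 3833085460467) (nat_lit 1) (nat_lit 5) (nat_lit 3) (nat_lit 4) (nat_lit 1) (nat_lit 4) (nat_lit 271) (nat_lit 196) (nat_lit 133)) (XT.nd (nat_lit 234) (nat_lit 0) (nat_lit 0) (XT.lf (nat_lit 0) (nat_lit 4416442003031) (nat_lit 152) (nat_lit 21977128579295) (nat_lit 0) (nat_lit 4411718275653) (nat_lit 1) (nat_lit 5) (nat_lit 3) (nat_lit 4) (nat_lit 1) (nat_lit 4) (nat_lit 272) (nat_lit 196) (nat_lit 132)) (XT.lf (nat_lit 0) (nat_lit 6727139372096) (nat_lit 152) (nat_lit 33399496875245) (nat_lit 0) (nat_lit 6722415433700)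 (nat_lit 1) (nat_lit 5) (nat_lit 3) (nat_lit 4) (nat_lit 1) (nat_lit 4) (nat_lit 275) (nat_lit 196) (nat_lit 129)))) (XT.nd (nat_lit 702) (nat_lit 0) (nat_lit 0) (XT.nd (nat_lit 624) (nat_lit 0) (nat_lit 0) (XT.lf (nat_lit 0) (nat_lit 7739171380611) (nat_lit 152) (nat_lit 38402231440061) (nat_lit 0) (nat_lit 7734447389373) (nat_lit 1) (nat_lit 5) (nat_lit 3) (nat_lit 4) (nat_lit 1) (nat_lit 4) (nat_lit 276) (nat_lit 196) (nat_lit 128)) (XT.lf (nat_lit 0) (nat_lit 23714945620189) (nat_lit 152) (nat_lit 117374614635265) (nat_lit 0) (nat_lit 23710221391832) (nat_lit 1) (nat_lit 5) (nat_lit 3) (nat_lit 4) (nat_lit 1) (nat_lit 4) (nat_lit 284) (nat_lit 196) (nat_lit 120))) (XT.nd (nat_lit 78) (nat_lit 0) (nat_lit 0) (XT.lf (nat_lit 0) (nat_lit 27275148144895) (nat_lit 152) (nat_lit 134973617688974) (nat_lit 0) (nat_lit 27270423901516) (nat_lit 1) (nat_lit 5) (nat_lit 3) (nat_lit 4) (nat_lit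 1) (nat_lit 4) (nat_lit 285) (nat_lit 196) (nat_lit 119)) (XT.lf (nat_lit 0) (nat_lit 31369381026495) (nat_lit 152) (nat_lit 155212471243473) (nat_lit 0) (nat_lit 31364656770054) (nat_lit 1) (nat_lit 5) (nat_lit 3) (nat_lit 4) (nat_lit 1) (nat_lit 4) (nat_lit 286) (nat_lit 196) (nat_lit 118))))) (XT.nd (nat_lit 312) (nat_lit 228) (nat_lit 0) (XT.nd (nat_lit 156) (nat_lit 152) (nat_lit 0) (XT.nd (nat_lit 78) (nat_lit 304) (nat_lit 0) (XT.lf (nat_lit 0) (nat_lit 1360770781) (nat_lit 228) (nat_lit 1167668465) (nat_lit 228) (nat_lit 1167668465) (nat_lit 18) (nat_lit 4) (nat_lit 21) (nat_lit 5) (nat_lit 21) (nat_lit 4) (nat_lit 206) (nat_lit 197) (nat_lit 197)) (XT.lf (nat_lit 0) (nat_lit 81175380) (nat_lit 228) (nat_lit 619534723) (nat_lit 304) (nat_lit 7080575601) (nat_lit 14) (nat_lit 5) (nat_lit 17) (nat_lit 5) (nat_lit 18) (nat_lit 4) (nat_lit 207) (nat_lit 197) (nat_lit 196))) (XT.nd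 (nat_lit 78) (nat_lit 152) (nat_lit 0) (XT.lf (nat_lit 0) (nat_lit 3847309252) (nat_lit 304) (nat_lit 2854783472) (nat_lit 0) (nat_lit 1530102909) (nat_lit 14) (nat_lit 5) (nat_lit 18) (nat_lit 4) (nat_lit 14) (nat_lit 4) (nat_lit 208) (nat_lit 197) (nat_lit 195)) (XT.lf (nat_lit 0) (nat_lit 2421194474) (nat_lit 152) (nat_lit 4811342669) (nat_lit 152) (nat_lit 1556944680) (nat_lit 12) (nat_lit 4) (nat_lit 14) (nat_lit 5) (nat_lit 14) (nat_lit 4) (nat_lit 209) (nat_lit 197) (nat_lit 194)))) (XT.nd (nat_lit 156) (nat_lit 76) (nat_lit 0) (XT.nd (nat_lit 78) (nat_lit 76) (nat_lit 0) (XT.lf (nat_lit 0) (nat_lit 1346886438) (nat_lit 228) (nat_lit 1173541403) (nat_lit 76) (nat_lit 6931836304) (nat_lit 11) (nat_lit 5) (nat_lit 14) (nat_lit 5) (nat_lit 12) (nat_lit 4) (nat_lit 210) (nat_lit 197) (nat_lit 193)) (XT.lf (nat_lit 0) (nat_lit 4426836032) (nat_lit 152) (nat_lit 5521916685) (nat_lit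 0) (nat_lit 272054490) (nat_lit 10) (nat_lit 5) (nat_lit 12) (nat_lit 4) (nat_lit 10) (nat_lit 4) (nat_lit 211) (nat_lit 197) (nat_lit 192))) (XT.nd (nat_lit 78) (nat_lit 76) (nat_lit 0) (XT.lf (nat_lit 0) (nat_lit 7863175442) (nat_lit 152) (nat_lit 86880989) (nat_lit 0) (nat_lit 3172551535) (nat_lit 10) (nat_lit 5) (nat_lit 12) (nat_lit 4) (nat_lit 10) (nat_lit 4) (nat_lit 212) (nat_lit 197) (nat_lit 191)) (XT.lf (nat_lit 0) (nat_lit 6333728785) (nat_lit 76) (nat_lit 5491426347) (nat_lit 76) (nat_lit 334852557) (nat_lit 9) (nat_lit 4) (nat_lit 10) (nat_lit 5) (nat_lit 10) (nat_lit 4) (nat_lit 213) (nat_lit 197) (nat_lit 190)))))) (XT.nd (nat_lit 624) (nat_lit 76) (nat_lit 0) (XT.nd (nat_lit 312) (nat_lit 152) (nat_lit 0) (XT.nd (nat_lit 156) (nat_lit 76) (nat_lit 0) (XT.nd (nat_lit 78) (nat_lit 76) (nat_lit 0) (XT.lf (nat_lit 0) (nat_lit 2516159128) (nat_lit 152) (nat_lit 152005474)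 (nat_lit 76) (nat_lit 10703843826) (nat_lit 8) (nat_lit 5) (nat_lit 10) (nat_lit 5) (nat_lit 9) (nat_lit 4) (nat_lit 214) (nat_lit 197) (nat_lit 189)) (XT.lf (nat_lit 0) (nat_lit 5850706754) (nat_lit 152) (nat_lit 8192372008) (nat_lit 0) (nat_lit 708034881) (nat_lit 7) (nat_lit 5) (nat_lit 9) (nat_lit 4) (nat_lit 7) (nat_lit 4) (nat_lit 215) (nat_lit 197) (nat_lit 188))) (XT.nd (nat_lit 78) (nat_lit 76) (nat_lit 0) (XT.lf (nat_lit 0) (nat_lit 9614479581) (nat_lit 152) (nat_lit 2528911140) (nat_lit 0) (nat_lit 4205399351) (nat_lit 7) (nat_lit 5) (nat_lit 9) (nat_lit 4) (nat_lit 7) (nat_lit 4) (nat_lit 216) (nat_lit 197) (nat_lit 187)) (XT.lf (nat_lit 0) (nat_lit 4030960020) (nat_lit 76) (nat_lit 9899348721) (nat_lit 76) (nat_lit 4258609049) (nat_lit 6) (nat_lit 4) (nat_lit 7) (nat_lit 5) (nat_lit 7) (nat_lit 4) (nat_lit 217) (nat_lit 197) (nat_lit 186)))) (XT.nd (nat_lit 156) (nat_lit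 76) (nat_lit 0) (XT.nd (nat_lit 78) (nat_lit 76) (nat_lit 0) (XT.lf (nat_lit 0) (nat_lit 11561234790) (nat_lit 76) (nat_lit 7296119584) (nat_lit 76) (nat_lit 1453936919) (nat_lit 6) (nat_lit 4) (nat_lit 7) (nat_lit 5) (nat_lit 7) (nat_lit 4) (nat_lit 218) (nat_lit 197) (nat_lit 185)) (XT.lf (nat_lit 0) (nat_lit 1459731278) (nat_lit 152) (nat_lit 2878928235) (nat_lit 76) (nat_lit 18426065629) (nat_lit 5) (nat_lit 5) (nat_lit 7) (nat_lit 5) (nat_lit 6) (nat_lit 4) (nat_lit 219) (nat_lit 197) (nat_lit 184))) (XT.nd (nat_lit 78) (nat_lit 0) (nat_lit 0) (XT.lf (nat_lit 0) (nat_lit 3913228303) (nat_lit 76) (nat_lit 776491990) (nat_lit 152) (nat_lit 20882377556) (nat_lit 4) (nat_lit 5) (nat_lit 5) (nat_lit 5) (nat_lit 6) (nat_lit 4) (nat_lit 220) (nat_lit 197) (nat_lit 183)) (XT.lf (nat_lit 0) (nat_lit 8569227850) (nat_lit 152) (nat_lit 17117933221) (nat_lit 0) (nat_lit 3089121445) (nat_lit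 4) (nat_lit 5) (nat_lit 6) (nat_lit 4) (nat_lit 4) (nat_lit 4) (nat_lit 221) (nat_lit 197) (nat_lit 182))))) (XT.nd (nat_lit 312) (nat_lit 0) (nat_lit 0) (XT.nd (nat_lit 156) (nat_lit 76) (nat_lit 0) (XT.nd (nat_lit 78) (nat_lit 0) (nat_lit 0) (XT.lf (nat_lit 0) (nat_lit 12954498609) (nat_lit 152) (nat_lit 12144180485) (nat_lit 0) (nat_lit 7374239435) (nat_lit 4) (nat_lit 5) (nat_lit 6) (nat_lit 4) (nat_lit 4) (nat_lit 4) (nat_lit 222) (nat_lit 197) (nat_lit 181)) (XT.lf (nat_lit 0) (nat_lit 17899178469) (nat_lit 152) (nat_lit 6608145906) (nat_lit 0) (nat_lit 12231829931) (nat_lit 4) (nat_lit 5) (nat_lit 6) (nat_lit 4) (nat_lit 4) (nat_lit 4) (nat_lit 223) (nat_lit 197) (nat_lit 180))) (XT.nd (nat_lit 78) (nat_lit 76) (nat_lit 0) (XT.lf (nat_lit 0) (nat_lit 23500011166) (nat_lit 152) (nat_lit 401515764) (nat_lit 0) (nat_lit 17756932746) (nat_lit 4) (nat_lit 5) (nat_lit 6) (nat_lit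 4) (nat_lit 4) (nat_lit 4) (nat_lit 224) (nat_lit 197) (nat_lit 179)) (XT.lf (nat_lit 0) (nat_lit 7241864899) (nat_lit 76) (nat_lit 22924583492) (nat_lit 76) (nat_lit 17115653000) (nat_lit 3) (nat_lit 4) (nat_lit 4) (nat_lit 5) (nat_lit 4) (nat_lit 4) (nat_lit 225) (nat_lit 197) (nat_lit 178)))) (XT.nd (nat_lit 156) (nat_lit 0) (nat_lit 0) (XT.nd (nat_lit 78) (nat_lit 0) (nat_lit 0) (XT.lf (nat_lit 0) (nat_lit 15944229256) (nat_lit 76) (nat_lit 21839430144) (nat_lit 76) (nat_lit 15973236981) (nat_lit 3) (nat_lit 4) (nat_lit 4) (nat_lit 5) (nat_lit 4) (nat_lit 4) (nat_lit 226) (nat_lit 197) (nat_lit 177)) (XT.lf (nat_lit 0) (nat_lit 25836601914) (nat_lit 76) (nat_lit 20645823950) (nat_lit 76) (nat_lit 14729837160) (nat_lit 3) (nat_lit 4) (nat_lit 4) (nat_lit 5) (nat_lit 4) (nat_lit 4) (nat_lit 227) (nat_lit 197) (nat_lit 176))) (XT.nd (nat_lit 78) (nat_lit 0) (nat_lit 0) (XT.lf (nat_lit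 0) (nat_lit 37112529295) (nat_lit 76) (nat_lit 19320411744) (nat_lit 76) (nat_lit 13361126148) (nat_lit 3) (nat_lit 4) (nat_lit 4) (nat_lit 5) (nat_lit 4) (nat_lit 4) (nat_lit 228) (nat_lit 197) (nat_lit 175)) (XT.lf (nat_lit 0) (nat_lit 49992627370) (nat_lit 76) (nat_lit 17837261550) (nat_lit 76) (nat_lit 11840324818) (nat_lit 3) (nat_lit 4) (nat_lit 4) (nat_lit 5) (nat_lit 4) (nat_lit 4) (nat_lit 229) (nat_lit 197) (nat_lit 174))))))) (XT.nd (nat_lit 1170) (nat_lit 0) (nat_lit 0) (XT.nd (nat_lit 546) (nat_lit 0) (nat_lit 0) (XT.nd (nat_lit 234) (nat_lit 152) (nat_lit 0) (XT.nd (nat_lit 78) (nat_lit 0) (nat_lit 0) (XT.lf (nat_lit 0) (nat_lit 64728898058) (nat_lit 76) (nat_lit 16167355210) (nat_lit 76) (nat_lit 10137678360) (nat_lit 3) (nat_lit 4) (nat_lit 4) (nat_lit 5) (nat_lit 4) (nat_lit 4) (nat_lit 230) (nat_lit 197) (nat_lit 173)) (XT.nd (nat_lit 78) (nat_lit 0) (nat_lit 0) (XT.lf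 (nat_lit 0) (nat_lit 81609659698) (nat_lit 76) (nat_lit 14278020645) (nat_lit 76) (nat_lit 8219874128) (nat_lit 3) (nat_lit 4) (nat_lit 4) (nat_lit 5) (nat_lit 4) (nat_lit 4) (nat_lit 231) (nat_lit 197) (nat_lit 172)) (XT.lf (nat_lit 0) (nat_lit 100965188062) (nat_lit 76) (nat_lit 12132292613) (nat_lit 76) (nat_lit 6049389863) (nat_lit 3) (nat_lit 4) (nat_lit 4) (nat_lit 5) (nat_lit 4) (nat_lit 4) (nat_lit 232) (nat_lit 197) (nat_lit 171)))) (XT.nd (nat_lit 156) (nat_lit 152) (nat_lit 0) (XT.nd (nat_lit 78) (nat_lit 0) (nat_lit 0) (XT.lf (nat_lit 0) (nat_lit 123174178269) (nat_lit 76) (nat_lit 9688189479) (nat_lit 76) (nat_lit 3583759569) (nat_lit 3) (nat_lit 4) (nat_lit 4) (nat_lit 5) (nat_lit 4) (nat_lit 4) (nat_lit 233) (nat_lit 197) (nat_lit 170)) (XT.lf (nat_lit 0) (nat_lit 148671154041) (nat_lit 76) (nat_lit 6897891832) (nat_lit 76) (nat_lit 774742654) (nat_lit 3) (nat_lit 4)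 (nat_lit 4) (nat_lit 5) (nat_lit 4) (nat_lit 4) (nat_lit 234) (nat_lit 197) (nat_lit 169))) (XT.nd (nat_lit 78) (nat_lit 76) (nat_lit 0) (XT.lf (nat_lit 0) (nat_lit 2216051262) (nat_lit 152) (nat_lit 1374916589) (nat_lit 76) (nat_lit 175623078946) (nat_lit 2) (nat_lit 5) (nat_lit 4) (nat_lit 5) (nat_lit 3) (nat_lit 4) (nat_lit 235) (nat_lit 197) (nat_lit 168)) (XT.lf (nat_lit 0) (nat_lit 5843774168) (nat_lit 152) (nat_lit 199132606562) (nat_lit 0) (nat_lit 492833942) (nat_lit 1) (nat_lit 5) (nat_lit 3) (nat_lit 4) (nat_lit 1) (nat_lit 4) (nat_lit 236) (nat_lit 197) (nat_lit 167))))) (XT.nd (nat_lit 312) (nat_lit 0) (nat_lit 0) (XT.nd (nat_lit 156) (nat_lit 0) (nat_lit 0) (XT.nd (nat_lit 78) (nat_lit 0) (nat_lit 0) (XT.lf (nat_lit 0) (nat_lit 10244075495) (nat_lit 152) (nat_lit 220501929430) (nat_lit 0) (nat_lit 4882432467) (nat_lit 1) (nat_lit 5) (nat_lit 3) (nat_lit 4) (nat_lit 1)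 (nat_lit 4) (nat_lit 237) (nat_lit 197) (nat_lit 166)) (XT.lf (nat_lit 0) (nat_lit 15288881556) (nat_lit 152) (nat_lit 245107098388) (nat_lit 0) (nat_lit 9917931742) (nat_lit 1) (nat_lit 5) (nat_lit 3) (nat_lit 4) (nat_lit 1) (nat_lit 4) (nat_lit 238) (nat_lit 197) (nat_lit 165))) (XT.nd (nat_lit 78) (nat_lit 0) (nat_lit 0) (XT.lf (nat_lit 0) (nat_lit 21076895077) (nat_lit 152) (nat_lit 273429518915) (nat_lit 0) (nat_lit 15697852407) (nat_lit 1) (nat_lit 5) (nat_lit 3) (nat_lit 4) (nat_lit 1) (nat_lit 4) (nat_lit 239) (nat_lit 197) (nat_lit 164)) (XT.lf (nat_lit 0) (nat_lit 27721359802) (nat_lit 152) (nat_lit 306023325325) (nat_lit 0) (nat_lit 22335279866) (nat_lit 1) (nat_lit 5) (nat_lit 3) (nat_lit 4) (nat_lit 1) (nat_lit 4) (nat_lit 240) (nat_lit 197) (nat_lit 163)))) (XT.nd (nat_lit 156) (nat_lit 0) (nat_lit 0) (XT.nd (nat_lit 78) (nat_lit 0) (nat_lit 0) (XT.lf (nat_lit 0) (nat_lit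 35352276127) (nat_lit 152) (nat_lit 343526222528) (nat_lit 0) (nat_lit 29960076829) (nat_lit 1) (nat_lit 5) (nat_lit 3) (nat_lit 4) (nat_lit 1) (nat_lit 4) (nat_lit 241) (nat_lit 197) (nat_lit 162)) (XT.lf (nat_lit 0) (nat_lit 44118944590) (nat_lit 152) (nat_lit 386671962859) (nat_lit 0) (nat_lit 38721424107) (nat_lit 1) (nat_lit 5) (nat_lit 3) (nat_lit 4) (nat_lit 1) (nat_lit 4) (nat_lit 242) (nat_lit 197) (nat_lit 161))) (XT.nd (nat_lit 78) (nat_lit 0) (nat_lit 0) (XT.lf (nat_lit 0) (nat_lit 54192886963) (nat_lit 152) (nat_lit 436304702107) (nat_lit 0) (nat_lit 48790739363) (nat_lit 1) (nat_lit 5) (nat_lit 3) (nat_lit 4) (nat_lit 1) (nat_lit 4) (nat_lit 243) (nat_lit 197) (nat_lit 160)) (XT.lf (nat_lit 0) (nat_lit 65771202121) (nat_lit 152) (nat_lit 493395515607) (nat_lit 0) (nat_lit 60365030941) (nat_lit 1) (nat_lit 5) (nat_lit 3) (nat_lit 4) (nat_lit 1) (nat_lit 4) (nat_lit 244)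 (nat_lit 197) (nat_lit 159)))))) (XT.nd (nat_lit 624) (nat_lit 0) (nat_lit 0) (XT.nd (nat_lit 312) (nat_lit 0) (nat_lit 0) (XT.nd (nat_lit 156) (nat_lit 0) (nat_lit 0) (XT.nd (nat_lit 78) (nat_lit 0) (nat_lit 0) (XT.lf (nat_lit 0) (nat_lit 79080422316) (nat_lit 152) (nat_lit 559061397534) (nat_lit 0) (nat_lit 73670752371) (nat_lit 1) (nat_lit 5) (nat_lit 3) (nat_lit 4) (nat_lit 1) (nat_lit 4) (nat_lit 245) (nat_lit 197) (nat_lit 158)) (XT.lf (nat_lit 0) (nat_lit 94380945334) (nat_lit 152) (nat_lit 634587115144) (nat_lit 0) (nat_lit 88968232984) (nat_lit 1) (nat_lit 5) (nat_lit 3) (nat_lit 4) (nat_lit 1) (nat_lit 4) (nat_lit 246) (nat_lit 197) (nat_lit 157))) (XT.nd (nat_lit 78) (nat_lit 0) (nat_lit 0) (XT.lf (nat_lit 0) (nat_lit 111972129234) (nat_lit 152) (nat_lit 721450345520) (nat_lit 0) (nat_lit 106556771316) (nat_lit 1) (nat_lit 5) (nat_lit 3) (nat_lit 4) (nat_lit 1) (nat_lit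 4) (nat_lit 247) (nat_lit 197) (nat_lit 156)) (XT.lf (nat_lit 0) (nat_lit 132198149354) (nat_lit 152) (nat_lit 821350586649) (nat_lit 0) (nat_lit 126780490941) (nat_lit 1) (nat_lit 5) (nat_lit 3) (nat_lit 4) (nat_lit 1) (nat_lit 4) (nat_lit 248) (nat_lit 197) (nat_lit 155)))) (XT.nd (nat_lit 156) (nat_lit 0) (nat_lit 0) (XT.nd (nat_lit 78) (nat_lit 0) (nat_lit 0) (XT.lf (nat_lit 0) (nat_lit 155454732175) (nat_lit 152) (nat_lit 936242408465) (nat_lit 0) (nat_lit 150035073331) (nat_lit 1) (nat_lit 5) (nat_lit 3) (nat_lit 4) (nat_lit 1) (nat_lit 4) (nat_lit 249) (nat_lit 197) (nat_lit 154)) (XT.lf (nat_lit 0) (nat_lit 182196897794) (nat_lit 152) (nat_lit 1068373694439) (nat_lit 0) (nat_lit 176775499446) (nat_lit 1) (nat_lit 5) (nat_lit 3) (nat_lit 4) (nat_lit 1) (nat_lit 4) (nat_lit 250) (nat_lit 197) (nat_lit 153))) (XT.nd (nat_lit 78) (nat_lit 0) (nat_lit 0) (XT.lf (nat_lit 0) (nat_lit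 212947862496) (nat_lit 152) (nat_lit 1220329621905) (nat_lit 0) (nat_lit 207524951535) (nat_lit 1) (nat_lit 5) (nat_lit 3) (nat_lit 4) (nat_lit 1) (nat_lit 4) (nat_lit 251) (nat_lit 197) (nat_lit 152)) (XT.lf (nat_lit 0) (nat_lit 248309275590) (nat_lit 152) (nat_lit 1395083241618) (nat_lit 0) (nat_lit 242885049314) (nat_lit 1) (nat_lit 5) (nat_lit 3) (nat_lit 4) (nat_lit 1) (nat_lit 4) (nat_lit 252) (nat_lit 197) (nat_lit 151))))) (XT.nd (nat_lit 312) (nat_lit 0) (nat_lit 0) (XT.nd (nat_lit 156) (nat_lit 0) (nat_lit 0) (XT.nd (nat_lit 78) (nat_lit 0) (nat_lit 0) (XT.lf (nat_lit 0) (nat_lit 288972990811) (nat_lit 152) (nat_lit 1596053646137) (nat_lit 0) (nat_lit 283547620782) (nat_lit 1) (nat_lit 5) (nat_lit 3) (nat_lit 4) (nat_lit 1) (nat_lit 4) (nat_lit 253) (nat_lit 197) (nat_lit 150)) (XT.lf (nat_lit 0) (nat_lit 335734602587) (nat_lit 152) (nat_lit 1827172865116) (nat_lit 0) (nat_lit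 330308237990) (nat_lit 1) (nat_lit 5) (nat_lit 3) (nat_lit 4) (nat_lit 1) (nat_lit 4) (nat_lit 254) (nat_lit 197) (nat_lit 149))) (XT.nd (nat_lit 78) (nat_lit 0) (nat_lit 0) (XT.lf (nat_lit 0) (nat_lit 389509012018) (nat_lit 152) (nat_lit 2092962796317) (nat_lit 0) (nat_lit 384081782580) (nat_lit 1) (nat_lit 5) (nat_lit 3) (nat_lit 4) (nat_lit 1) (nat_lit 4) (nat_lit 255) (nat_lit 197) (nat_lit 148)) (XT.lf (nat_lit 0) (nat_lit 451348327113) (nat_lit 152) (nat_lit 2398623677526) (nat_lit 0) (nat_lit 445920345640) (nat_lit 1) (nat_lit 5) (nat_lit 3) (nat_lit 4) (nat_lit 1) (nat_lit 4) (nat_lit 256) (nat_lit 197) (nat_lit 147)))) (XT.nd (nat_lit 156) (nat_lit 0) (nat_lit 0) (XT.nd (nat_lit 78) (nat_lit 0) (nat_lit 0) (XT.lf (nat_lit 0) (nat_lit 522462447518) (nat_lit 152) (nat_lit 2750135830330) (nat_lit 0) (nat_lit 517033812100) (nat_lit 1) (nat_lit 5) (nat_lit 3) (nat_lit 4) (nat_lit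 1) (nat_lit 4) (nat_lit 257) (nat_lit 197) (nat_lit 146)) (XT.lf (nat_lit 0) (nat_lit 604242736456) (nat_lit 152) (nat_lit 3154376666415) (nat_lit 0) (nat_lit 598813532391) (nat_lit 1) (nat_lit 5) (nat_lit 3) (nat_lit 4) (nat_lit 1) (nat_lit 4) (nat_lit 258) (nat_lit 197) (nat_lit 145))) (XT.nd (nat_lit 78) (nat_lit 0) (nat_lit 0) (XT.lf (nat_lit 0) (nat_lit 698289243060) (nat_lit 152) (nat_lit 3619255245618) (nat_lit 0) (nat_lit 692859544519) (nat_lit 1) (nat_lit 5) (nat_lit 3) (nat_lit 4) (nat_lit 1) (nat_lit 4) (nat_lit 259) (nat_lit 197) (nat_lit 144)) (XT.lf (nat_lit 0) (nat_lit 806442007676) (nat_lit 152) (nat_lit 4153867018401) (nat_lit 0) (nat_lit 801011879156) (nat_lit 1) (nat_lit 5) (nat_lit 3) (nat_lit 4) (nat_lit 1) (nat_lit 4) (nat_lit 260) (nat_lit 197) (nat_lit 143))))))))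
noncomputable def xc22 : XT := (XT.nd (nat_lit 27846) (nat_lit 0) (nat_lit 0) (XT.nd (nat_lit 1170) (nat_lit 0) (nat_lit 0) (XT.nd (nat_lit 546) (nat_lit 0) (nat_lit 0) (XT.nd (nat_lit 234) (nat_lit 0) (nat_lit 0) (XT.nd (nat_lit 78) (nat_lit 0) (nat_lit 0) (XT.lf (nat_lit 0) (nat_lit 930817062654) (nat_lit 152) (nat_lit 4768671780319) (nat_lit 0) (nat_lit 925386560240) (nat_lit 1) (nat_lit 5) (nat_lit 3) (nat_lit 4) (nat_lit 1) (nat_lit 4) (nat_lit 261) (nat_lit 197) (nat_lit 142)) (XT.nd (nat_lit 78) (nat_lit 0) (nat_lit 0) (XT.lf (nat_lit 0) (nat_lit 1073847832985) (nat_lit 152) (nat_lit 5475698320192) (nat_lit 0) (nat_lit 1068417005444) (nat_lit 1) (nat_lit 5) (nat_lit 3) (nat_lit 4) (nat_lit 1) (nat_lit 4) (nat_lit 262) (nat_lit 197) (nat_lit 141)) (XT.lf (nat_lit 0) (nat_lit 1238332746782) (nat_lit 152) (nat_lit 6288779765973) (nat_lit 0) (nat_lit 1232901636524) (nat_lit 1) (nat_lit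 5) (nat_lit 3) (nat_lit 4) (nat_lit 1) (nat_lit 4) (nat_lit 263) (nat_lit 197) (nat_lit 140)))) (XT.nd (nat_lit 156) (nat_lit 0) (nat_lit 0) (XT.nd (nat_lit 78) (nat_lit 0) (nat_lit 0) (XT.lf (nat_lit 0) (nat_lit 1427489987143) (nat_lit 152) (nat_lit 7223824232907) (nat_lit 0) (nat_lit 1422058631042) (nat_lit 1) (nat_lit 5) (nat_lit 3) (nat_lit 4) (nat_lit 1) (nat_lit 4) (nat_lit 264) (nat_lit 197) (nat_lit 139)) (XT.lf (nat_lit 0) (nat_lit 1645020456595) (nat_lit 152) (nat_lit 8299126069260) (nat_lit 0) (nat_lit 1639588886719) (nat_lit 1) (nat_lit 5) (nat_lit 3) (nat_lit 4) (nat_lit 1) (nat_lit 4) (nat_lit 265) (nat_lit 197) (nat_lit 138))) (XT.nd (nat_lit 78) (nat_lit 0) (nat_lit 0) (XT.lf (nat_lit 0) (nat_lit 1895180186063) (nat_lit 152) (nat_lit 9535723789220) (nat_lit 0) (nat_lit 1889748430295) (nat_lit 1) (nat_lit 5) (nat_lit 3) (nat_lit 4) (nat_lit 1) (nat_lit 4) (nat_lit 266)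 (nat_lit 197) (nat_lit 137)) (XT.lf (nat_lit 0) (nat_lit 2182863605036) (nat_lit 152) (nat_lit 10957811696005) (nat_lit 0) (nat_lit 2177431687623) (nat_lit 1) (nat_lit 5) (nat_lit 3) (nat_lit 4) (nat_lit 1) (nat_lit 4) (nat_lit 267) (nat_lit 197) (nat_lit 136))))) (XT.nd (nat_lit 312) (nat_lit 0) (nat_lit 0) (XT.nd (nat_lit 156) (nat_lit 0) (nat_lit 0) (XT.nd (nat_lit 78) (nat_lit 0) (nat_lit 0) (XT.lf (nat_lit 0) (nat_lit 2513699302147) (nat_lit 152) (nat_lit 12593213248661) (nat_lit 0) (nat_lit 2508267244173) (nat_lit 1) (nat_lit 5) (nat_lit 3) (nat_lit 4) (nat_lit 1) (nat_lit 4) (nat_lit 268) (nat_lit 197) (nat_lit 135)) (XT.lf (nat_lit 0) (nat_lit 2894160149730) (nat_lit 152) (nat_lit 14473925434087) (nat_lit 0) (nat_lit 2888727969530) (nat_lit 1) (nat_lit 5) (nat_lit 3) (nat_lit 4) (nat_lit 1) (nat_lit 4) (nat_lit 269) (nat_lit 197) (nat_lit 134))) (XT.nd (nat_lit 78) (nat_lit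 0) (nat_lit 0) (XT.lf (nat_lit 0) (nat_lit 3331689946978) (nat_lit 152) (nat_lit 16636744795041) (nat_lit 0) (nat_lit 3326257660493) (nat_lit 1) (nat_lit 5) (nat_lit 3) (nat_lit 4) (nat_lit 1) (nat_lit 4) (nat_lit 270) (nat_lit 197) (nat_lit 133)) (XT.lf (nat_lit 0) (nat_lit 3834849059487) (nat_lit 152) (nat_lit 19123987362499) (nat_lit 0) (nat_lit 3829416680582) (nat_lit 1) (nat_lit 5) (nat_lit 3) (nat_lit 4) (nat_lit 1) (nat_lit 4) (nat_lit 271) (nat_lit 197) (nat_lit 132)))) (XT.nd (nat_lit 156) (nat_lit 0) (nat_lit 0) (XT.nd (nat_lit 78) (nat_lit 0) (nat_lit 0) (XT.lf (nat_lit 0) (nat_lit 4413481904678) (nat_lit 152) (nat_lit 21984316577998) (nat_lit 0) (nat_lit 4408049445406) (nat_lit 1) (nat_lit 5) (nat_lit 3) (nat_lit 4) (nat_lit 1) (nat_lit 4) (nat_lit 272) (nat_lit 197) (nat_lit 131)) (XT.lf (nat_lit 0) (nat_lit 5078909559956) (nat_lit 152) (nat_lit 25273695404450) (nat_lit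 0) (nat_lit 5073477030801) (nat_lit 1) (nat_lit 5) (nat_lit 3) (nat_lit 4) (nat_lit 1) (nat_lit 4) (nat_lit 273) (nat_lit 197) (nat_lit 130))) (XT.nd (nat_lit 78) (nat_lit 0) (nat_lit 0) (XT.lf (nat_lit 0) (nat_lit 5844151262055) (nat_lit 152) (nat_lit 29056481253676) (nat_lit 0) (nat_lit 5838718672131) (nat_lit 1) (nat_lit 5) (nat_lit 3) (nat_lit 4) (nat_lit 1) (nat_lit 4) (nat_lit 274) (nat_lit 197) (nat_lit 129)) (XT.lf (nat_lit 0) (nat_lit 6724179131233) (nat_lit 152) (nat_lit 33406685153163) (nat_lit 0) (nat_lit 6718746488467) (nat_lit 1) (nat_lit 5) (nat_lit 3) (nat_lit 4) (nat_lit 1) (nat_lit 4) (nat_lit 275) (nat_lit 197) (nat_lit 128)))))) (XT.nd (nat_lit 26052) (nat_lit 0) (nat_lit 456) (XT.nd (nat_lit 25740) (nat_lit 0) (nat_lit 988) (XT.nd (nat_lit 156) (nat_lit 0) (nat_lit 0) (XT.nd (nat_lit 78) (nat_lit 0) (nat_lit 0) (XT.lf (nat_lit 0) (nat_lit 7736211104061) (nat_lit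 152) (nat_lit 38409419787898) (nat_lit 0) (nat_lit 7730778415345) (nat_lit 1) (nat_lit 5) (nat_lit 3) (nat_lit 4) (nat_lit 1) (nat_lit 4) (nat_lit 276) (nat_lit 197) (nat_lit 127)) (XT.lf (nat_lit 0) (nat_lit 8900047806094) (nat_lit 152) (nat_lit 44162564748563) (nat_lit 0) (nat_lit 8894615077422) (nat_lit 1) (nat_lit 5) (nat_lit 3) (nat_lit 4) (nat_lit 1) (nat_lit 4) (nat_lit 277) (nat_lit 197) (nat_lit 126))) (XT.nd (nat_lit 25506) (nat_lit 0) (nat_lit 1520) (XT.lf (nat_lit 0) (nat_lit 10238459955416) (nat_lit 152) (nat_lit 50778681566997) (nat_lit 0) (nat_lit 10233027192000) (nat_lit 1) (nat_lit 5) (nat_lit 3) (nat_lit 4) (nat_lit 1) (nat_lit 4) (nat_lit 278) (nat_lit 197) (nat_lit 125)) (XT.lf (nat_lit 0) (nat_lit 197739492) (nat_lit 228) (nat_lit 3032418411) (nat_lit 0) (nat_lit 197739492) (nat_lit 21) (nat_lit 5) (nat_lit 24) (nat_lit 4) (nat_lit 21) (nat_lit 4) (nat_lit 204)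 (nat_lit 198) (nat_lit 198)))) (XT.nd (nat_lit 156) (nat_lit 304) (nat_lit 0) (XT.nd (nat_lit 78) (nat_lit 228) (nat_lit 0) (XT.lf (nat_lit 0) (nat_lit 3375147070) (nat_lit 228) (nat_lit 1985362522) (nat_lit 0) (nat_lit 1735993025) (nat_lit 21) (nat_lit 5) (nat_lit 24) (nat_lit 4) (nat_lit 21) (nat_lit 4) (nat_lit 205) (nat_lit 198) (nat_lit 197)) (XT.lf (nat_lit 0) (nat_lit 2505068016) (nat_lit 228) (nat_lit 3992065107) (nat_lit 228) (nat_lit 927559717) (nat_lit 18) (nat_lit 4) (nat_lit 21) (nat_lit 5) (nat_lit 21) (nat_lit 4) (nat_lit 206) (nat_lit 198) (nat_lit 196))) (XT.nd (nat_lit 78) (nat_lit 228) (nat_lit 0) (XT.lf (nat_lit 0) (nat_lit 1796510679) (nat_lit 304) (nat_lit 441443379) (nat_lit 76) (nat_lit 5597060206) (nat_lit 17) (nat_lit 5) (nat_lit 21) (nat_lit 5) (nat_lit 18) (nat_lit 4) (nat_lit 207) (nat_lit 198) (nat_lit 195)) (XT.lf (nat_lit 0) (nat_lit 4686180731) (nat_lit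 304) (nat_lit 3633588917) (nat_lit 0) (nat_lit 6431398) (nat_lit 14) (nat_lit 5) (nat_lit 18) (nat_lit 4) (nat_lit 14) (nat_lit 4) (nat_lit 208) (nat_lit 198) (nat_lit 194))))) (XT.nd (nat_lit 312) (nat_lit 228) (nat_lit 0) (XT.nd (nat_lit 156) (nat_lit 76) (nat_lit 0) (XT.nd (nat_lit 78) (nat_lit 76) (nat_lit 0) (XT.lf (nat_lit 0) (nat_lit 1352194926) (nat_lit 152) (nat_lit 6528085496) (nat_lit 152) (nat_lit 1033386907) (nat_lit 12) (nat_lit 4) (nat_lit 14) (nat_lit 5) (nat_lit 14) (nat_lit 4) (nat_lit 209) (nat_lit 198) (nat_lit 193)) (XT.lf (nat_lit 0) (nat_lit 1680772676) (nat_lit 228) (nat_lit 2589688863) (nat_lit 76) (nat_lit 5325337747) (nat_lit 11) (nat_lit 5) (nat_lit 14) (nat_lit 5) (nat_lit 12) (nat_lit 4) (nat_lit 210) (nat_lit 198) (nat_lit 192))) (XT.nd (nat_lit 78) (nat_lit 0) (nat_lit 0) (XT.lf (nat_lit 0) (nat_lit 2966434094) (nat_lit 76) (nat_lit 1585195176) (nat_lit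 152) (nat_lit 5845070445) (nat_lit 10) (nat_lit 5) (nat_lit 11) (nat_lit 5) (nat_lit 12) (nat_lit 4) (nat_lit 211) (nat_lit 198) (nat_lit 191)) (XT.lf (nat_lit 0) (nat_lit 7805084090) (nat_lit 152) (nat_lit 2112638564) (nat_lit 0) (nat_lit 1409074348) (nat_lit 10) (nat_lit 5) (nat_lit 12) (nat_lit 4) (nat_lit 10) (nat_lit 4) (nat_lit 212) (nat_lit 198) (nat_lit 190)))) (XT.nd (nat_lit 156) (nat_lit 76) (nat_lit 0) (XT.nd (nat_lit 78) (nat_lit 76) (nat_lit 0) (XT.lf (nat_lit 0) (nat_lit 3935271628) (nat_lit 76) (nat_lit 7630524947) (nat_lit 76) (nat_lit 829341395) (nat_lit 9) (nat_lit 4) (nat_lit 10) (nat_lit 5) (nat_lit 10) (nat_lit 4) (nat_lit 213) (nat_lit 198) (nat_lit 189)) (XT.lf (nat_lit 0) (nat_lit 1965631366) (nat_lit 152) (nat_lit 2927401167) (nat_lit 76) (nat_lit 8732754785) (nat_lit 8) (nat_lit 5) (nat_lit 10) (nat_lit 5) (nat_lit 9) (nat_lit 4) (nat_lit 214) (nat_lit 198)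 (nat_lit 188))) (XT.nd (nat_lit 78) (nat_lit 0) (nat_lit 0) (XT.lf (nat_lit 0) (nat_lit 3394217565) (nat_lit 76) (nat_lit 1654199077) (nat_lit 152) (nat_lit 9994734147) (nat_lit 7) (nat_lit 5) (nat_lit 8) (nat_lit 5) (nat_lit 9) (nat_lit 4) (nat_lit 215) (nat_lit 198) (nat_lit 187)) (XT.lf (nat_lit 0) (nat_lit 8660240032) (nat_lit 152) (nat_lit 6062079115) (nat_lit 0) (nat_lit 1941729968) (nat_lit 7) (nat_lit 5) (nat_lit 9) (nat_lit 4) (nat_lit 7) (nat_lit 4) (nat_lit 216) (nat_lit 198) (nat_lit 186))))))) (XT.nd (nat_lit 1170) (nat_lit 152) (nat_lit 0) (XT.nd (nat_lit 546) (nat_lit 76) (nat_lit 0) (XT.nd (nat_lit 234) (nat_lit 152) (nat_lit 0) (XT.nd (nat_lit 78) (nat_lit 0) (nat_lit 0) (XT.lf (nat_lit 0) (nat_lit 13997179) (nat_lit 76) (nat_lit 12723170685) (nat_lit 76) (nat_lit 5803217629) (nat_lit 6) (nat_lit 4) (nat_lit 7) (nat_lit 5) (nat_lit 7) (nat_lit 4) (nat_lit 217) (nat_lit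 198) (nat_lit 185)) (XT.nd (nat_lit 78) (nat_lit 0) (nat_lit 0) (XT.lf (nat_lit 0) (nat_lit 7423830212) (nat_lit 76) (nat_lit 10172293908) (nat_lit 76) (nat_lit 3077173031) (nat_lit 6) (nat_lit 4) (nat_lit 7) (nat_lit 5) (nat_lit 7) (nat_lit 4) (nat_lit 218) (nat_lit 198) (nat_lit 184)) (XT.lf (nat_lit 0) (nat_lit 15719964521) (nat_lit 76) (nat_lit 7336661763) (nat_lit 76) (nat_lit 89221044) (nat_lit 6) (nat_lit 4) (nat_lit 7) (nat_lit 5) (nat_lit 7) (nat_lit 4) (nat_lit 219) (nat_lit 198) (nat_lit 183)))) (XT.nd (nat_lit 156) (nat_lit 0) (nat_lit 0) (XT.nd (nat_lit 78) (nat_lit 76) (nat_lit 0) (XT.lf (nat_lit 0) (nat_lit 2932511875) (nat_lit 152) (nat_lit 1074992224) (nat_lit 76) (nat_lit 21978913506) (nat_lit 5) (nat_lit 5) (nat_lit 7) (nat_lit 5) (nat_lit 6) (nat_lit 4) (nat_lit 220) (nat_lit 198) (nat_lit 182)) (XT.lf (nat_lit 0) (nat_lit 6574417335) (nat_lit 152) (nat_lit 22595044414)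 (nat_lit 0) (nat_lit 56966516) (nat_lit 4) (nat_lit 5) (nat_lit 6) (nat_lit 4) (nat_lit 4) (nat_lit 4) (nat_lit 221) (nat_lit 198) (nat_lit 181))) (XT.nd (nat_lit 78) (nat_lit 0) (nat_lit 0) (XT.lf (nat_lit 0) (nat_lit 10913929251) (nat_lit 152) (nat_lit 17706771244) (nat_lit 0) (nat_lit 4309389067) (nat_lit 4) (nat_lit 5) (nat_lit 6) (nat_lit 4) (nat_lit 4) (nat_lit 4) (nat_lit 222) (nat_lit 198) (nat_lit 180)) (XT.lf (nat_lit 0) (nat_lit 15818818813) (nat_lit 152) (nat_lit 12245066723) (nat_lit 0) (nat_lit 9138548746) (nat_lit 4) (nat_lit 5) (nat_lit 6) (nat_lit 4) (nat_lit 4) (nat_lit 4) (nat_lit 223) (nat_lit 198) (nat_lit 179))))) (XT.nd (nat_lit 312) (nat_lit 0) (nat_lit 0) (XT.nd (nat_lit 156) (nat_lit 0) (nat_lit 0) (XT.nd (nat_lit 78) (nat_lit 76) (nat_lit 0) (XT.lf (nat_lit 0) (nat_lit 21385051250) (nat_lit 152) (nat_lit 6103071414) (nat_lit 0) (nat_lit 14638929112) (nat_lit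 4) (nat_lit 5) (nat_lit 6) (nat_lit 4) (nat_lit 4) (nat_lit 4) (nat_lit 224) (nat_lit 198) (nat_lit 178)) (XT.lf (nat_lit 0) (nat_lit 921414880) (nat_lit 76) (nat_lit 26838270056) (nat_lit 76) (nat_lit 20034885247) (nat_lit 3) (nat_lit 4) (nat_lit 4) (nat_lit 5) (nat_lit 4) (nat_lit 4) (nat_lit 225) (nat_lit 198) (nat_lit 177))) (XT.nd (nat_lit 78) (nat_lit 0) (nat_lit 0) (XT.lf (nat_lit 0) (nat_lit 9570129770) (nat_lit 76) (nat_lit 25778381897) (nat_lit 76) (nat_lit 18925203461) (nat_lit 3) (nat_lit 4) (nat_lit 4) (nat_lit 5) (nat_lit 4) (nat_lit 4) (nat_lit 226) (nat_lit 198) (nat_lit 176)) (XT.lf (nat_lit 0) (nat_lit 19415850719) (nat_lit 76) (nat_lit 24606745432) (nat_lit 76) (nat_lit 17710268190) (nat_lit 3) (nat_lit 4) (nat_lit 4) (nat_lit 5) (nat_lit 4) (nat_lit 4) (nat_lit 227) (nat_lit 198) (nat_lit 175)))) (XT.nd (nat_lit 156) (nat_lit 0) (nat_lit 0) (XT.nd (nat_lit 78) (nat_lit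 0) (nat_lit 0) (XT.lf (nat_lit 0) (nat_lit 30651211396) (nat_lit 76) (nat_lit 23300437339) (nat_lit 76) (nat_lit 16366308961) (nat_lit 3) (nat_lit 4) (nat_lit 4) (nat_lit 5) (nat_lit 4) (nat_lit 4) (nat_lit 228) (nat_lit 198) (nat_lit 174)) (XT.lf (nat_lit 0) (nat_lit 43496034077) (nat_lit 76) (nat_lit 21833899416) (nat_lit 76) (nat_lit 14867030921) (nat_lit 3) (nat_lit 4) (nat_lit 4) (nat_lit 5) (nat_lit 4) (nat_lit 4) (nat_lit 229) (nat_lit 198) (nat_lit 173))) (XT.nd (nat_lit 78) (nat_lit 0) (nat_lit 0) (XT.lf (nat_lit 0) (nat_lit 58201630508) (nat_lit 76) (nat_lit 20178438530) (nat_lit 76) (nat_lit 13183100367) (nat_lit 3) (nat_lit 4) (nat_lit 4) (nat_lit 5) (nat_lit 4) (nat_lit 4) (nat_lit 230) (nat_lit 198) (nat_lit 172)) (XT.lf (nat_lit 0) (nat_lit 75055718882) (nat_lit 76) (nat_lit 18301665229) (nat_lit 76) (nat_lit 11281570833) (nat_lit 3) (nat_lit 4) (nat_lit 4) (nat_lit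 5) (nat_lit 4) (nat_lit 4) (nat_lit 231) (nat_lit 198) (nat_lit 171)))))) (XT.nd (nat_lit 624) (nat_lit 0) (nat_lit 0) (XT.nd (nat_lit 312) (nat_lit 152) (nat_lit 0) (XT.nd (nat_lit 156) (nat_lit 0) (nat_lit 0) (XT.nd (nat_lit 78) (nat_lit 0) (nat_lit 0) (XT.lf (nat_lit 0) (nat_lit 94388053101) (nat_lit 76) (nat_lit 16166860035) (nat_lit 76) (nat_lit 9125238480) (nat_lit 3) (nat_lit 4) (nat_lit 4) (nat_lit 5) (nat_lit 4) (nat_lit 4) (nat_lit 232) (nat_lit 198) (nat_lit 170)) (XT.lf (nat_lit 0) (nat_lit 116576874487) (nat_lit 76) (nat_lit 13732255021) (nat_lit 76) (nat_lit 6671914197) (nat_lit 3) (nat_lit 4) (nat_lit 4) (nat_lit 5) (nat_lit 4) (nat_lit 4) (nat_lit 233) (nat_lit 198) (nat_lit 169))) (XT.nd (nat_lit 78) (nat_lit 0) (nat_lit 0) (XT.lf (nat_lit 0) (nat_lit 142056312153) (nat_lit 76) (nat_lit 10950216610) (nat_lit 76) (nat_lit 3873598161) (nat_lit 3) (nat_lit 4) (nat_lit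 4) (nat_lit 5) (nat_lit 4) (nat_lit 4) (nat_lit 234) (nat_lit 198) (nat_lit 168)) (XT.lf (nat_lit 0) (nat_lit 171324876837) (nat_lit 76) (nat_lit 7766313615) (nat_lit 76) (nat_lit 675540710) (nat_lit 3) (nat_lit 4) (nat_lit 4) (nat_lit 5) (nat_lit 4) (nat_lit 4) (nat_lit 235) (nat_lit 198) (nat_lit 167)))) (XT.nd (nat_lit 156) (nat_lit 0) (nat_lit 0) (XT.nd (nat_lit 78) (nat_lit 76) (nat_lit 0) (XT.lf (nat_lit 0) (nat_lit 2719098739) (nat_lit 152) (nat_lit 1257018837) (nat_lit 76) (nat_lit 202093980923) (nat_lit 2) (nat_lit 5) (nat_lit 4) (nat_lit 5) (nat_lit 3) (nat_lit 4) (nat_lit 236) (nat_lit 198) (nat_lit 166)) (XT.lf (nat_lit 0) (nat_lit 6887671353) (nat_lit 152) (nat_lit 228674654144) (nat_lit 0) (nat_lit 701772283) (nat_lit 1) (nat_lit 5) (nat_lit 3) (nat_lit 4) (nat_lit 1) (nat_lit 4) (nat_lit 237) (nat_lit 198) (nat_lit 165))) (XT.nd (nat_lit 78) (nat_lit 0) (nat_lit 0) (XT.lf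 (nat_lit 0) (nat_lit 11926192089) (nat_lit 152) (nat_lit 253292137625) (nat_lit 0) (nat_lit 5732200162) (nat_lit 1) (nat_lit 5) (nat_lit 3) (nat_lit 4) (nat_lit 1) (nat_lit 4) (nat_lit 238) (nat_lit 198) (nat_lit 164)) (XT.lf (nat_lit 0) (nat_lit 17708740111) (nat_lit 152) (nat_lit 281625266433) (nat_lit 0) (nat_lit 11507710917) (nat_lit 1) (nat_lit 5) (nat_lit 3) (nat_lit 4) (nat_lit 1) (nat_lit 4) (nat_lit 239) (nat_lit 198) (nat_lit 163))))) (XT.nd (nat_lit 312) (nat_lit 0) (nat_lit 0) (XT.nd (nat_lit 156) (nat_lit 0) (nat_lit 0) (XT.nd (nat_lit 78) (nat_lit 0) (nat_lit 0) (XT.lf (nat_lit 0) (nat_lit 24348452227) (nat_lit 152) (nat_lit 314228384393) (nat_lit 0) (nat_lit 18141303672) (nat_lit 1) (nat_lit 5) (nat_lit 3) (nat_lit 4) (nat_lit 1) (nat_lit 4) (nat_lit 240) (nat_lit 198) (nat_lit 162)) (XT.lf (nat_lit 0) (nat_lit 31975235849) (nat_lit 152) (nat_lit 351739378595) (nat_lit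 0) (nat_lit 25762766109) (nat_lit 1) (nat_lit 5) (nat_lit 3) (nat_lit 4) (nat_lit 1) (nat_lit 4) (nat_lit 241) (nat_lit 198) (nat_lit 161))) (XT.nd (nat_lit 78) (nat_lit 0) (nat_lit 0) (XT.lf (nat_lit 0) (nat_lit 40738310657) (nat_lit 152) (nat_lit 394892159795) (nat_lit 0) (nat_lit 34521213800) (nat_lit 1) (nat_lit 5) (nat_lit 3) (nat_lit 4) (nat_lit 1) (nat_lit 4) (nat_lit 242) (nat_lit 198) (nat_lit 160)) (XT.lf (nat_lit 0) (nat_lit 50809128113) (nat_lit 152) (nat_lit 444531021538) (nat_lit 0) (nat_lit 44588007676) (nat_lit 1) (nat_lit 5) (nat_lit 3) (nat_lit 4) (nat_lit 1) (nat_lit 4) (nat_lit 243) (nat_lit 198) (nat_lit 159)))) (XT.nd (nat_lit 156) (nat_lit 0) (nat_lit 0) (XT.nd (nat_lit 78) (nat_lit 0) (nat_lit 0) (XT.lf (nat_lit 0) (nat_lit 62384725951) (nat_lit 152) (nat_lit 501627158945) (nat_lit 0) (nat_lit 56160106749) (nat_lit 1) (nat_lit 5) (nat_lit 3) (nat_lit 4) (nat_lit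 1) (nat_lit 4) (nat_lit 244) (nat_lit 198) (nat_lit 158)) (XT.lf (nat_lit 0) (nat_lit 75691583260) (nat_lit 152) (nat_lit 567297670358) (nat_lit 0) (nat_lit 69463921653) (nat_lit 1) (nat_lit 5) (nat_lit 3) (nat_lit 4) (nat_lit 1) (nat_lit 4) (nat_lit 245) (nat_lit 198) (nat_lit 157))) (XT.nd (nat_lit 78) (nat_lit 0) (nat_lit 0) (XT.lf (nat_lit 0) (nat_lit 90990051594) (nat_lit 152) (nat_lit 642827413607) (nat_lit 0) (nat_lit 84759744418) (nat_lit 1) (nat_lit 5) (nat_lit 3) (nat_lit 4) (nat_lit 1) (nat_lit 4) (nat_lit 246) (nat_lit 198) (nat_lit 156)) (XT.lf (nat_lit 0) (nat_lit 108579448813) (nat_lit 152) (nat_lit 729694144540) (nat_lit 0) (nat_lit 102346841142) (nat_lit 1) (nat_lit 5) (nat_lit 3) (nat_lit 4) (nat_lit 1) (nat_lit 4) (nat_lit 247) (nat_lit 198) (nat_lit 155))))))))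
noncomputable def xc23 : XT := (XT.nd (nat_lit 27690) (nat_lit 0) (nat_lit 152) (XT.nd (nat_lit 1170) (nat_lit 0) (nat_lit 0) (XT.nd (nat_lit 546) (nat_lit 0) (nat_lit 0) (XT.nd (nat_lit 234) (nat_lit 0) (nat_lit 0) (XT.nd (nat_lit 78) (nat_lit 0) (nat_lit 0) (XT.lf (nat_lit 0) (nat_lit 128803915297) (nat_lit 152) (nat_lit 829597429631) (nat_lit 0) (nat_lit 122569307196) (nat_lit 1) (nat_lit 5) (nat_lit 3) (nat_lit 4) (nat_lit 1) (nat_lit 4) (nat_lit 248) (nat_lit 198) (nat_lit 154)) (XT.nd (nat_lit 78) (nat_lit 0) (nat_lit 0) (XT.lf (nat_lit 0) (nat_lit 152059147129) (nat_lit 152) (nat_lit 944491898371) (nat_lit 0) (nat_lit 145822799524) (nat_lit 1) (nat_lit 5) (nat_lit 3) (nat_lit 4) (nat_lit 1) (nat_lit 4) (nat_lit 249) (nat_lit 198) (nat_lit 153)) (XT.lf (nat_lit 0) (nat_lit 178800137976) (nat_lit 152) (nat_lit 1076625486017) (nat_lit 0) (nat_lit 172562277758) (nat_lit 1) (nat_lit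 5) (nat_lit 3) (nat_lit 4) (nat_lit 1) (nat_lit 4) (nat_lit 250) (nat_lit 198) (nat_lit 152)))) (XT.nd (nat_lit 156) (nat_lit 0) (nat_lit 0) (XT.nd (nat_lit 78) (nat_lit 0) (nat_lit 0) (XT.lf (nat_lit 0) (nat_lit 209550081137) (nat_lit 152) (nat_lit 1228583414937) (nat_lit 0) (nat_lit 203310905604) (nat_lit 1) (nat_lit 5) (nat_lit 3) (nat_lit 4) (nat_lit 1) (nat_lit 4) (nat_lit 251) (nat_lit 198) (nat_lit 151)) (XT.lf (nat_lit 0) (nat_lit 244910605935) (nat_lit 152) (nat_lit 1403338775045) (nat_lit 0) (nat_lit 238670286649) (nat_lit 1) (nat_lit 5) (nat_lit 3) (nat_lit 4) (nat_lit 1) (nat_lit 4) (nat_lit 252) (nat_lit 198) (nat_lit 150))) (XT.nd (nat_lit 78) (nat_lit 0) (nat_lit 0) (XT.lf (nat_lit 0) (nat_lit 285573548724) (nat_lit 152) (nat_lit 1604310692951) (nat_lit 0) (nat_lit 279332234871) (nat_lit 1) (nat_lit 5) (nat_lit 3) (nat_lit 4) (nat_lit 1) (nat_lit 4) (nat_lit 253) (nat_lit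 198) (nat_lit 149)) (XT.lf (nat_lit 0) (nat_lit 332334488820) (nat_lit 152) (nat_lit 1835431227919) (nat_lit 0) (nat_lit 326092310125) (nat_lit 1) (nat_lit 5) (nat_lit 3) (nat_lit 4) (nat_lit 1) (nat_lit 4) (nat_lit 254) (nat_lit 198) (nat_lit 148))))) (XT.nd (nat_lit 312) (nat_lit 0) (nat_lit 0) (XT.nd (nat_lit 156) (nat_lit 0) (nat_lit 0) (XT.nd (nat_lit 78) (nat_lit 0) (nat_lit 0) (XT.lf (nat_lit 0) (nat_lit 386108314181) (nat_lit 152) (nat_lit 2101222303458) (nat_lit 0) (nat_lit 379865383451) (nat_lit 1) (nat_lit 5) (nat_lit 3) (nat_lit 4) (nat_lit 1) (nat_lit 4) (nat_lit 255) (nat_lit 198) (nat_lit 147)) (XT.lf (nat_lit 0) (nat_lit 447947121391) (nat_lit 152) (nat_lit 2406884179743) (nat_lit 0) (nat_lit 441703536716) (nat_lit 1) (nat_lit 5) (nat_lit 3) (nat_lit 4) (nat_lit 1) (nat_lit 4) (nat_lit 256) (nat_lit 198) (nat_lit 146))) (XT.nd (nat_lit 78) (nat_lit 0) (nat_lit 0) (XT.lf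 (nat_lit 0) (nat_lit 519060800155) (nat_lit 152) (nat_lit 2758397197831) (nat_lit 0) (nat_lit 512816646833) (nat_lit 1) (nat_lit 5) (nat_lit 3) (nat_lit 4) (nat_lit 1) (nat_lit 4) (nat_lit 257) (nat_lit 198) (nat_lit 145)) (XT.lf (nat_lit 0) (nat_lit 600840705058) (nat_lit 152) (nat_lit 3162638786337) (nat_lit 0) (nat_lit 594596057261) (nat_lit 1) (nat_lit 5) (nat_lit 3) (nat_lit 4) (nat_lit 1) (nat_lit 4) (nat_lit 258) (nat_lit 198) (nat_lit 144)))) (XT.nd (nat_lit 156) (nat_lit 0) (nat_lit 0) (XT.nd (nat_lit 78) (nat_lit 0) (nat_lit 0) (XT.lf (nat_lit 0) (nat_lit 694886877719) (nat_lit 152) (nat_lit 3627518019819) (nat_lit 0) (nat_lit 688641799942) (nat_lit 1) (nat_lit 5) (nat_lit 3) (nat_lit 4) (nat_lit 1) (nat_lit 4) (nat_lit 259) (nat_lit 198) (nat_lit 143)) (XT.lf (nat_lit 0) (nat_lit 803039351948) (nat_lit 152) (nat_lit 4162130361541) (nat_lit 0) (nat_lit 796793900277) (nat_lit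 1) (nat_lit 5) (nat_lit 3) (nat_lit 4) (nat_lit 1) (nat_lit 4) (nat_lit 260) (nat_lit 198) (nat_lit 142))) (XT.nd (nat_lit 78) (nat_lit 0) (nat_lit 0) (XT.lf (nat_lit 0) (nat_lit 927414154418) (nat_lit 152) (nat_lit 4776935618187) (nat_lit 0) (nat_lit 921168377620) (nat_lit 1) (nat_lit 5) (nat_lit 3) (nat_lit 4) (nat_lit 1) (nat_lit 4) (nat_lit 261) (nat_lit 198) (nat_lit 141)) (XT.lf (nat_lit 0) (nat_lit 1070444705175) (nat_lit 152) (nat_lit 5483962588259) (nat_lit 0) (nat_lit 1064198645659) (nat_lit 1) (nat_lit 5) (nat_lit 3) (nat_lit 4) (nat_lit 1) (nat_lit 4) (nat_lit 262) (nat_lit 198) (nat_lit 140)))))) (XT.nd (nat_lit 624) (nat_lit 0) (nat_lit 0) (XT.nd (nat_lit 312) (nat_lit 0) (nat_lit 0) (XT.nd (nat_lit 156) (nat_lit 0) (nat_lit 0) (XT.nd (nat_lit 78) (nat_lit 0) (nat_lit 0) (XT.lf (nat_lit 0) (nat_lit 1234929428039) (nat_lit 152) (nat_lit 6297044408127) (nat_lit 0) (nat_lit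 1228683122682) (nat_lit 1) (nat_lit 5) (nat_lit 3) (nat_lit 4) (nat_lit 1) (nat_lit 4) (nat_lit 263) (nat_lit 198) (nat_lit 139)) (XT.lf (nat_lit 0) (nat_lit 1424086502370) (nat_lit 152) (nat_lit 7232089200353) (nat_lit 0) (nat_lit 1417839983238) (nat_lit 1) (nat_lit 5) (nat_lit 3) (nat_lit 4) (nat_lit 1) (nat_lit 4) (nat_lit 264) (nat_lit 198) (nat_lit 138))) (XT.nd (nat_lit 78) (nat_lit 0) (nat_lit 0) (XT.lf (nat_lit 0) (nat_lit 1641616827450) (nat_lit 152) (nat_lit 8307391319568) (nat_lit 0) (nat_lit 1635370122425) (nat_lit 1) (nat_lit 5) (nat_lit 3) (nat_lit 4) (nat_lit 1) (nat_lit 4) (nat_lit 265) (nat_lit 198) (nat_lit 137)) (XT.lf (nat_lit 0) (nat_lit 1891776431376) (nat_lit 152) (nat_lit 9543989285497) (nat_lit 0) (nat_lit 1885529564706) (nat_lit 1) (nat_lit 5) (nat_lit 3) (nat_lit 4) (nat_lit 1) (nat_lit 4) (nat_lit 266) (nat_lit 198) (nat_lit 136)))) (XT.nd (nat_lit 156)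 (nat_lit 0) (nat_lit 0) (XT.nd (nat_lit 78) (nat_lit 0) (nat_lit 0) (XT.lf (nat_lit 0) (nat_lit 2179459741182) (nat_lit 152) (nat_lit 10966077406167) (nat_lit 0) (nat_lit 2173212733952) (nat_lit 1) (nat_lit 5) (nat_lit 3) (nat_lit 4) (nat_lit 1) (nat_lit 4) (nat_lit 267) (nat_lit 198) (nat_lit 135)) (XT.lf (nat_lit 0) (nat_lit 2510295343366) (nat_lit 152) (nat_lit 12601479144809) (nat_lit 0) (nat_lit 2504048213908) (nat_lit 1) (nat_lit 5) (nat_lit 3) (nat_lit 4) (nat_lit 1) (nat_lit 4) (nat_lit 268) (nat_lit 198) (nat_lit 134))) (XT.nd (nat_lit 78) (nat_lit 0) (nat_lit 0) (XT.lf (nat_lit 0) (nat_lit 2890756108403) (nat_lit 152) (nat_lit 14482191491963) (nat_lit 0) (nat_lit 2884508872662) (nat_lit 1) (nat_lit 5) (nat_lit 3) (nat_lit 4) (nat_lit 1) (nat_lit 4) (nat_lit 269) (nat_lit 198) (nat_lit 133)) (XT.lf (nat_lit 0) (nat_lit 3328285833872) (nat_lit 152) (nat_lit 16645010993550)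 (nat_lit 0) (nat_lit 3322038505709) (nat_lit 1) (nat_lit 5) (nat_lit 3) (nat_lit 4) (nat_lit 1) (nat_lit 4) (nat_lit 270) (nat_lit 198) (nat_lit 132))))) (XT.nd (nat_lit 312) (nat_lit 0) (nat_lit 0) (XT.nd (nat_lit 156) (nat_lit 0) (nat_lit 0) (XT.nd (nat_lit 78) (nat_lit 0) (nat_lit 0) (XT.lf (nat_lit 0) (nat_lit 3831444883965) (nat_lit 152) (nat_lit 19132253683297) (nat_lit 0) (nat_lit 3825197475436) (nat_lit 1) (nat_lit 5) (nat_lit 3) (nat_lit 4) (nat_lit 1) (nat_lit 4) (nat_lit 271) (nat_lit 198) (nat_lit 131)) (XT.lf (nat_lit 0) (nat_lit 4410077674881) (nat_lit 152) (nat_lit 21992583005135) (nat_lit 0) (nat_lit 4403830196468) (nat_lit 1) (nat_lit 5) (nat_lit 3) (nat_lit 4) (nat_lit 1) (nat_lit 4) (nat_lit 272) (nat_lit 198) (nat_lit 130))) (XT.nd (nat_lit 78) (nat_lit 0) (nat_lit 0) (XT.lf (nat_lit 0) (nat_lit 5075505282963) (nat_lit 152) (nat_lit 25281961924055) (nat_lit 0) (nat_lit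 5069257743782) (nat_lit 1) (nat_lit 5) (nat_lit 3) (nat_lit 4) (nat_lit 1) (nat_lit 4) (nat_lit 273) (nat_lit 198) (nat_lit 129)) (XT.lf (nat_lit 0) (nat_lit 5840746944022) (nat_lit 152) (nat_lit 29064747853689) (nat_lit 0) (nat_lit 5834499351999) (nat_lit 1) (nat_lit 5) (nat_lit 3) (nat_lit 4) (nat_lit 1) (nat_lit 4) (nat_lit 274) (nat_lit 198) (nat_lit 128)))) (XT.nd (nat_lit 156) (nat_lit 0) (nat_lit 0) (XT.nd (nat_lit 78) (nat_lit 0) (nat_lit 0) (XT.lf (nat_lit 0) (nat_lit 6720774777513) (nat_lit 152) (nat_lit 33414951823094) (nat_lit 0) (nat_lit 6714527139540) (nat_lit 1) (nat_lit 5) (nat_lit 3) (nat_lit 4) (nat_lit 1) (nat_lit 4) (nat_lit 275) (nat_lit 198) (nat_lit 127)) (XT.lf (nat_lit 0) (nat_lit 7732806719308) (nat_lit 152) (nat_lit 38417686518630) (nat_lit 0) (nat_lit 7726559041380) (nat_lit 1) (nat_lit 5) (nat_lit 3) (nat_lit 4) (nat_lit 1) (nat_lit 4) (nat_lit 276) (nat_lit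 198) (nat_lit 126))) (XT.nd (nat_lit 78) (nat_lit 0) (nat_lit 0) (XT.lf (nat_lit 0) (nat_lit 8896643394357) (nat_lit 152) (nat_lit 44170831532164) (nat_lit 0) (nat_lit 8890395681684) (nat_lit 1) (nat_lit 5) (nat_lit 3) (nat_lit 4) (nat_lit 1) (nat_lit 4) (nat_lit 277) (nat_lit 198) (nat_lit 125)) (XT.lf (nat_lit 0) (nat_lit 10235055520215) (nat_lit 152) (nat_lit 50786948396570) (nat_lit 0) (nat_lit 10228807777329) (nat_lit 1) (nat_lit 5) (nat_lit 3) (nat_lit 4) (nat_lit 1) (nat_lit 4) (nat_lit 278) (nat_lit 198) (nat_lit 124))))))) (XT.nd (nat_lit 1170) (nat_lit 304) (nat_lit 0) (XT.nd (nat_lit 546) (nat_lit 532) (nat_lit 0) (XT.nd (nat_lit 234) (nat_lit 532) (nat_lit 0) (XT.nd (nat_lit 78) (nat_lit 304) (nat_lit 0) (XT.lf (nat_lit 0) (nat_lit 1580202833) (nat_lit 76) (nat_lit 106383638) (nat_lit 0) (nat_lit 1580202833) (nat_lit 25) (nat_lit 5) (nat_lit 26) (nat_lit 0) (nat_lit 25)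 (nat_lit 4) (nat_lit 202) (nat_lit 199) (nat_lit 199)) (XT.nd (nat_lit 78) (nat_lit 228) (nat_lit 0) (XT.lf (nat_lit 0) (nat_lit 3499328945) (nat_lit 76) (nat_lit 2669758052) (nat_lit 76) (nat_lit 501976827) (nat_lit 24) (nat_lit 4) (nat_lit 25) (nat_lit 5) (nat_lit 25) (nat_lit 4) (nat_lit 203) (nat_lit 199) (nat_lit 198)) (XT.lf (nat_lit 0) (nat_lit 523550935) (nat_lit 152) (nat_lit 1604988279) (nat_lit 228) (nat_lit 4753089496) (nat_lit 21) (nat_lit 5) (nat_lit 23) (nat_lit 5) (nat_lit 24) (nat_lit 4) (nat_lit 204) (nat_lit 199) (nat_lit 197)))) (XT.nd (nat_lit 156) (nat_lit 228) (nat_lit 0) (XT.nd (nat_lit 78) (nat_lit 304) (nat_lit 0) (XT.lf (nat_lit 0) (nat_lit 4748984267) (nat_lit 152) (nat_lit 107270006) (nat_lit 228) (nat_lit 2306517722) (nat_lit 21) (nat_lit 5) (nat_lit 23) (nat_lit 5) (nat_lit 24) (nat_lit 4) (nat_lit 205) (nat_lit 199) (nat_lit 196)) (XT.lf (nat_lit 0)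 (nat_lit 235768942) (nat_lit 304) (nat_lit 5682065265) (nat_lit 76) (nat_lit 1603318798) (nat_lit 17) (nat_lit 5) (nat_lit 21) (nat_lit 5) (nat_lit 18) (nat_lit 4) (nat_lit 206) (nat_lit 199) (nat_lit 195))) (XT.nd (nat_lit 78) (nat_lit 228) (nat_lit 0) (XT.lf (nat_lit 0) (nat_lit 2717883059) (nat_lit 304) (nat_lit 1423290307) (nat_lit 76) (nat_lit 3810184088) (nat_lit 17) (nat_lit 5) (nat_lit 21) (nat_lit 5) (nat_lit 18) (nat_lit 4) (nat_lit 207) (nat_lit 199) (nat_lit 194)) (XT.lf (nat_lit 0) (nat_lit 3442377141) (nat_lit 228) (nat_lit 1974510147) (nat_lit 304) (nat_lit 3055767683) (nat_lit 14) (nat_lit 5) (nat_lit 17) (nat_lit 5) (nat_lit 18) (nat_lit 4) (nat_lit 208) (nat_lit 199) (nat_lit 193))))) (XT.nd (nat_lit 312) (nat_lit 228) (nat_lit 0) (XT.nd (nat_lit 156) (nat_lit 76) (nat_lit 0) (XT.nd (nat_lit 78) (nat_lit 228) (nat_lit 0) (XT.lf (nat_lit 0) (nat_lit 8345528079) (nat_lit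 304) (nat_lit 252701884) (nat_lit 0) (nat_lit 503023916) (nat_lit 14) (nat_lit 5) (nat_lit 18) (nat_lit 4) (nat_lit 14) (nat_lit 4) (nat_lit 209) (nat_lit 199) (nat_lit 192)) (XT.lf (nat_lit 0) (nat_lit 1797280349) (nat_lit 228) (nat_lit 4594570132) (nat_lit 76) (nat_lit 3411269288) (nat_lit 11) (nat_lit 5) (nat_lit 14) (nat_lit 5) (nat_lit 12) (nat_lit 4) (nat_lit 210) (nat_lit 199) (nat_lit 191))) (XT.nd (nat_lit 78) (nat_lit 0) (nat_lit 0) (XT.lf (nat_lit 0) (nat_lit 598548404) (nat_lit 76) (nat_lit 3863364922) (nat_lit 152) (nat_lit 6173904253) (nat_lit 10) (nat_lit 5) (nat_lit 11) (nat_lit 5) (nat_lit 12) (nat_lit 4) (nat_lit 211) (nat_lit 199) (nat_lit 190)) (XT.lf (nat_lit 0) (nat_lit 6774648175) (nat_lit 76) (nat_lit 776590571) (nat_lit 152) (nat_lit 4040046695) (nat_lit 10) (nat_lit 5) (nat_lit 11) (nat_lit 5) (nat_lit 12) (nat_lit 4) (nat_lit 212) (nat_lit 199) (nat_lit 189))))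 (XT.nd (nat_lit 156) (nat_lit 76) (nat_lit 0) (XT.nd (nat_lit 78) (nat_lit 76) (nat_lit 0) (XT.lf (nat_lit 0) (nat_lit 850380845) (nat_lit 76) (nat_lit 10213020585) (nat_lit 76) (nat_lit 1634160637) (nat_lit 9) (nat_lit 4) (nat_lit 10) (nat_lit 5) (nat_lit 10) (nat_lit 4) (nat_lit 213) (nat_lit 199) (nat_lit 188)) (XT.lf (nat_lit 0) (nat_lit 1145452490) (nat_lit 152) (nat_lit 6422506705) (nat_lit 76) (nat_lit 6378796531) (nat_lit 8) (nat_lit 5) (nat_lit 10) (nat_lit 5) (nat_lit 9) (nat_lit 4) (nat_lit 214) (nat_lit 199) (nat_lit 187))) (XT.nd (nat_lit 78) (nat_lit 76) (nat_lit 0) (XT.lf (nat_lit 0) (nat_lit 4012029404) (nat_lit 152) (nat_lit 525774697) (nat_lit 76) (nat_lit 10859175830) (nat_lit 8) (nat_lit 5) (nat_lit 10) (nat_lit 5) (nat_lit 9) (nat_lit 4) (nat_lit 215) (nat_lit 199) (nat_lit 186)) (XT.lf (nat_lit 0) (nat_lit 6614962452) (nat_lit 76) (nat_lit 826088622) (nat_lit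 152) (nat_lit 9604620903) (nat_lit 7) (nat_lit 5) (nat_lit 8) (nat_lit 5) (nat_lit 9) (nat_lit 4) (nat_lit 216) (nat_lit 199) (nat_lit 185)))))) (XT.nd (nat_lit 624) (nat_lit 76) (nat_lit 0) (XT.nd (nat_lit 312) (nat_lit 76) (nat_lit 0) (XT.nd (nat_lit 156) (nat_lit 76) (nat_lit 0) (XT.nd (nat_lit 78) (nat_lit 76) (nat_lit 0) (XT.lf (nat_lit 0) (nat_lit 11420090604) (nat_lit 152) (nat_lit 4431391969) (nat_lit 0) (nat_lit 3085533777) (nat_lit 7) (nat_lit 5) (nat_lit 9) (nat_lit 4) (nat_lit 7) (nat_lit 4) (nat_lit 217) (nat_lit 199) (nat_lit 184)) (XT.lf (nat_lit 0) (nat_lit 2440641268) (nat_lit 76) (nat_lit 13577770531) (nat_lit 76) (nat_lit 5090893860) (nat_lit 6) (nat_lit 4) (nat_lit 7) (nat_lit 5) (nat_lit 7) (nat_lit 4) (nat_lit 218) (nat_lit 199) (nat_lit 183))) (XT.nd (nat_lit 78) (nat_lit 76) (nat_lit 0) (XT.lf (nat_lit 0) (nat_lit 10645704320) (nat_lit 76) (nat_lit 10781724291)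 (nat_lit 76) (nat_lit 2162395583) (nat_lit 6) (nat_lit 4) (nat_lit 7) (nat_lit 5) (nat_lit 7) (nat_lit 4) (nat_lit 219) (nat_lit 199) (nat_lit 182)) (XT.lf (nat_lit 0) (nat_lit 996809382) (nat_lit 152) (nat_lit 6591364220) (nat_lit 76) (nat_lit 18862347850) (nat_lit 5) (nat_lit 5) (nat_lit 7) (nat_lit 5) (nat_lit 6) (nat_lit 4) (nat_lit 220) (nat_lit 199) (nat_lit 181)))) (XT.nd (nat_lit 156) (nat_lit 0) (nat_lit 0) (XT.nd (nat_lit 78) (nat_lit 0) (nat_lit 0) (XT.lf (nat_lit 0) (nat_lit 498726299) (nat_lit 76) (nat_lit 3842382287) (nat_lit 152) (nat_lit 25394225922) (nat_lit 4) (nat_lit 5) (nat_lit 5) (nat_lit 5) (nat_lit 6) (nat_lit 4) (nat_lit 221) (nat_lit 199) (nat_lit 180)) (XT.lf (nat_lit 0) (nat_lit 8481725347) (nat_lit 152) (nat_lit 24263560241) (nat_lit 0) (nat_lit 723684889) (nat_lit 4) (nat_lit 5) (nat_lit 6) (nat_lit 4) (nat_lit 4) (nat_lit 4) (nat_lit 222) (nat_lit 199)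 (nat_lit 179))) (XT.nd (nat_lit 78) (nat_lit 0) (nat_lit 0) (XT.lf (nat_lit 0) (nat_lit 13352014649) (nat_lit 152) (nat_lit 18866490553) (nat_lit 0) (nat_lit 5528122119) (nat_lit 4) (nat_lit 5) (nat_lit 6) (nat_lit 4) (nat_lit 4) (nat_lit 4) (nat_lit 223) (nat_lit 199) (nat_lit 178)) (XT.lf (nat_lit 0) (nat_lit 18888159904) (nat_lit 152) (nat_lit 12780699446) (nat_lit 0) (nat_lit 11007004703) (nat_lit 4) (nat_lit 5) (nat_lit 6) (nat_lit 4) (nat_lit 4) (nat_lit 4) (nat_lit 224) (nat_lit 199) (nat_lit 177))))) (XT.nd (nat_lit 312) (nat_lit 0) (nat_lit 0) (XT.nd (nat_lit 156) (nat_lit 0) (nat_lit 0) (XT.nd (nat_lit 78) (nat_lit 76) (nat_lit 0) (XT.lf (nat_lit 0) (nat_lit 25198476998) (nat_lit 152) (nat_lit 5887117095) (nat_lit 0) (nat_lit 17267528170) (nat_lit 4) (nat_lit 5) (nat_lit 6) (nat_lit 4) (nat_lit 4) (nat_lit 4) (nat_lit 225) (nat_lit 199) (nat_lit 176)) (XT.lf (nat_lit 0) (nat_lit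 2139614187) (nat_lit 76) (nat_lit 30355411330) (nat_lit 76) (nat_lit 22381163696) (nat_lit 3) (nat_lit 4) (nat_lit 4) (nat_lit 5) (nat_lit 4) (nat_lit 4) (nat_lit 226) (nat_lit 199) (nat_lit 175))) (XT.nd (nat_lit 78) (nat_lit 0) (nat_lit 0) (XT.lf (nat_lit 0) (nat_lit 11944768432) (nat_lit 76) (nat_lit 29202878978) (nat_lit 76) (nat_lit 21190980208) (nat_lit 3) (nat_lit 4) (nat_lit 4) (nat_lit 5) (nat_lit 4) (nat_lit 4) (nat_lit 227) (nat_lit 199) (nat_lit 174)) (XT.lf (nat_lit 0) (nat_lit 23144853714) (nat_lit 76) (nat_lit 27913183156) (nat_lit 76) (nat_lit 19868544269) (nat_lit 3) (nat_lit 4) (nat_lit 4) (nat_lit 5) (nat_lit 4) (nat_lit 4) (nat_lit 228) (nat_lit 199) (nat_lit 173)))) (XT.nd (nat_lit 156) (nat_lit 0) (nat_lit 0) (XT.nd (nat_lit 78) (nat_lit 0) (nat_lit 0) (XT.lf (nat_lit 0) (nat_lit 35959002139) (nat_lit 76) (nat_lit 26461090687) (nat_lit 76) (nat_lit 18387982132)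 (nat_lit 3) (nat_lit 4) (nat_lit 4) (nat_lit 5) (nat_lit 4) (nat_lit 4) (nat_lit 229) (nat_lit 199) (nat_lit 172)) (XT.lf (nat_lit 0) (nat_lit 50637925304) (nat_lit 76) (nat_lit 24818191065) (nat_lit 76) (nat_lit 16720326277) (nat_lit 3) (nat_lit 4) (nat_lit 4) (nat_lit 5) (nat_lit 4) (nat_lit 4) (nat_lit 230) (nat_lit 199) (nat_lit 171))) (XT.nd (nat_lit 78) (nat_lit 0) (nat_lit 0) (XT.lf (nat_lit 0) (nat_lit 67468819533) (nat_lit 76) (nat_lit 22952340603) (nat_lit 76) (nat_lit 14832948655) (nat_lit 3) (nat_lit 4) (nat_lit 4) (nat_lit 5) (nat_lit 4) (nat_lit 4) (nat_lit 231) (nat_lit 199) (nat_lit 170)) (XT.lf (nat_lit 0) (nat_lit 86780984930) (nat_lit 76) (nat_lit 20827033529) (nat_lit 76) (nat_lit 12688922313) (nat_lit 3) (nat_lit 4) (nat_lit 4) (nat_lit 5) (nat_lit 4) (nat_lit 4) (nat_lit 232) (nat_lit 199) (nat_lit 169))))))))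
noncomputable def xc24 : XT := (XT.nd (nat_lit 2418) (nat_lit 0) (nat_lit 0) (XT.nd (nat_lit 1170) (nat_lit 0) (nat_lit 0) (XT.nd (nat_lit 546) (nat_lit 0) (nat_lit 0) (XT.nd (nat_lit 234) (nat_lit 152) (nat_lit 0) (XT.nd (nat_lit 78) (nat_lit 0) (nat_lit 0) (XT.lf (nat_lit 0) (nat_lit 108952268210) (nat_lit 76) (nat_lit 18400687750) (nat_lit 76) (nat_lit 10246298909) (nat_lit 3) (nat_lit 4) (nat_lit 4) (nat_lit 5) (nat_lit 4) (nat_lit 4) (nat_lit 233) (nat_lit 199) (nat_lit 168)) (XT.nd (nat_lit 78) (nat_lit 0) (nat_lit 0) (XT.lf (nat_lit 0) (nat_lit 134416455350) (nat_lit 76) (nat_lit 15625831282) (nat_lit 76) (nat_lit 7457287985) (nat_lit 3) (nat_lit 4) (nat_lit 4) (nat_lit 5) (nat_lit 4) (nat_lit 4) (nat_lit 234) (nat_lit 199) (nat_lit 167)) (XT.lf (nat_lit 0) (nat_lit 163671758707) (nat_lit 76) (nat_lit 12448173456) (nat_lit 76) (nat_lit 4267321936) (nat_lit 3) (nat_lit 4) (nat_lit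 4) (nat_lit 5) (nat_lit 4) (nat_lit 4) (nat_lit 235) (nat_lit 199) (nat_lit 166)))) (XT.nd (nat_lit 156) (nat_lit 76) (nat_lit 0) (XT.nd (nat_lit 78) (nat_lit 76) (nat_lit 0) (XT.lf (nat_lit 0) (nat_lit 197290564651) (nat_lit 76) (nat_lit 8805542706) (nat_lit 76) (nat_lit 613988382) (nat_lit 3) (nat_lit 4) (nat_lit 4) (nat_lit 5) (nat_lit 4) (nat_lit 4) (nat_lit 236) (nat_lit 199) (nat_lit 165)) (XT.lf (nat_lit 0) (nat_lit 3255991746) (nat_lit 152) (nat_lit 1200478853) (nat_lit 76) (nat_lit 232504441113) (nat_lit 2) (nat_lit 5) (nat_lit 4) (nat_lit 5) (nat_lit 3) (nat_lit 4) (nat_lit 237) (nat_lit 199) (nat_lit 164))) (XT.nd (nat_lit 78) (nat_lit 0) (nat_lit 0) (XT.lf (nat_lit 0) (nat_lit 8047348378) (nat_lit 152) (nat_lit 262727955553) (nat_lit 0) (nat_lit 909127539) (nat_lit 1) (nat_lit 5) (nat_lit 3) (nat_lit 4) (nat_lit 1) (nat_lit 4) (nat_lit 238) (nat_lit 199) (nat_lit 163))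 (XT.lf (nat_lit 0) (nat_lit 13825143791) (nat_lit 152) (nat_lit 291070395910) (nat_lit 0) (nat_lit 6680803590) (nat_lit 1) (nat_lit 5) (nat_lit 3) (nat_lit 4) (nat_lit 1) (nat_lit 4) (nat_lit 239) (nat_lit 199) (nat_lit 162))))) (XT.nd (nat_lit 312) (nat_lit 0) (nat_lit 0) (XT.nd (nat_lit 156) (nat_lit 0) (nat_lit 0) (XT.nd (nat_lit 78) (nat_lit 0) (nat_lit 0) (XT.lf (nat_lit 0) (nat_lit 20460723204) (nat_lit 152) (nat_lit 323681610869) (nat_lit 0) (nat_lit 13311061819) (nat_lit 1) (nat_lit 5) (nat_lit 3) (nat_lit 4) (nat_lit 1) (nat_lit 4) (nat_lit 240) (nat_lit 199) (nat_lit 161)) (XT.lf (nat_lit 0) (nat_lit 28083913171) (nat_lit 152) (nat_lit 361199645940) (nat_lit 0) (nat_lit 20929624669) (nat_lit 1) (nat_lit 5) (nat_lit 3) (nat_lit 4) (nat_lit 1) (nat_lit 4) (nat_lit 241) (nat_lit 199) (nat_lit 160))) (XT.nd (nat_lit 78) (nat_lit 0) (nat_lit 0) (XT.lf (nat_lit 0) (nat_lit 36843863062)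 (nat_lit 152) (nat_lit 404358549634) (nat_lit 0) (nat_lit 29685550979) (nat_lit 1) (nat_lit 5) (nat_lit 3) (nat_lit 4) (nat_lit 1) (nat_lit 4) (nat_lit 242) (nat_lit 199) (nat_lit 159)) (XT.lf (nat_lit 0) (nat_lit 46911963199) (nat_lit 152) (nat_lit 454002735285) (nat_lit 0) (nat_lit 39750152351) (nat_lit 1) (nat_lit 5) (nat_lit 3) (nat_lit 4) (nat_lit 1) (nat_lit 4) (nat_lit 243) (nat_lit 199) (nat_lit 158)))) (XT.nd (nat_lit 156) (nat_lit 0) (nat_lit 0) (XT.nd (nat_lit 78) (nat_lit 0) (nat_lit 0) (XT.lf (nat_lit 0) (nat_lit 58485198151) (nat_lit 152) (nat_lit 511103502179) (nat_lit 0) (nat_lit 51320344899) (nat_lit 1) (nat_lit 5) (nat_lit 3) (nat_lit 4) (nat_lit 1) (nat_lit 4) (nat_lit 244) (nat_lit 199) (nat_lit 157)) (XT.lf (nat_lit 0) (nat_lit 71790000775) (nat_lit 152) (nat_lit 576778039231) (nat_lit 0) (nat_lit 64622501954) (nat_lit 1) (nat_lit 5) (nat_lit 3) (nat_lit 4) (nat_lit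 1) (nat_lit 4) (nat_lit 245) (nat_lit 199) (nat_lit 156))) (XT.nd (nat_lit 78) (nat_lit 0) (nat_lit 0) (XT.lf (nat_lit 0) (nat_lit 87086682428) (nat_lit 152) (nat_lit 652311283037) (nat_lit 0) (nat_lit 79916883112) (nat_lit 1) (nat_lit 5) (nat_lit 3) (nat_lit 4) (nat_lit 1) (nat_lit 4) (nat_lit 246) (nat_lit 199) (nat_lit 155)) (XT.lf (nat_lit 0) (nat_lit 104674526010) (nat_lit 152) (nat_lit 739181057931) (nat_lit 0) (nat_lit 97502726264) (nat_lit 1) (nat_lit 5) (nat_lit 3) (nat_lit 4) (nat_lit 1) (nat_lit 4) (nat_lit 247) (nat_lit 199) (nat_lit 154)))))) (XT.nd (nat_lit 624) (nat_lit 0) (nat_lit 0) (XT.nd (nat_lit 312) (nat_lit 0) (nat_lit 0) (XT.nd (nat_lit 156) (nat_lit 0) (nat_lit 0) (XT.nd (nat_lit 78) (nat_lit 0) (nat_lit 0) (XT.lf (nat_lit 0) (nat_lit 124897641506) (nat_lit 152) (nat_lit 839086989945) (nat_lit 0) (nat_lit 117724102255) (nat_lit 1) (nat_lit 5) (nat_lit 3) (nat_lit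 4) (nat_lit 1) (nat_lit 4) (nat_lit 248) (nat_lit 199) (nat_lit 153)) (XT.lf (nat_lit 0) (nat_lit 148151698567) (nat_lit 152) (nat_lit 953983760357) (nat_lit 0) (nat_lit 140976646703) (nat_lit 1) (nat_lit 5) (nat_lit 3) (nat_lit 4) (nat_lit 1) (nat_lit 4) (nat_lit 249) (nat_lit 199) (nat_lit 152))) (XT.nd (nat_lit 78) (nat_lit 0) (nat_lit 0) (XT.lf (nat_lit 0) (nat_lit 174891667873) (nat_lit 152) (nat_lit 1086119349458) (nat_lit 0) (nat_lit 167715300694) (nat_lit 1) (nat_lit 5) (nat_lit 3) (nat_lit 4) (nat_lit 1) (nat_lit 4) (nat_lit 250) (nat_lit 199) (nat_lit 151)) (XT.lf (nat_lit 0) (nat_lit 205640722737) (nat_lit 152) (nat_lit 1238079018773) (nat_lit 0) (nat_lit 198463211806) (nat_lit 1) (nat_lit 5) (nat_lit 3) (nat_lit 4) (nat_lit 1) (nat_lit 4) (nat_lit 251) (nat_lit 199) (nat_lit 150)))) (XT.nd (nat_lit 156) (nat_lit 0) (nat_lit 0) (XT.nd (nat_lit 78) (nat_lit 0) (nat_lit 0)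 (XT.lf (nat_lit 0) (nat_lit 241000475103) (nat_lit 152) (nat_lit 1412835892268) (nat_lit 0) (nat_lit 233821969604) (nat_lit 1) (nat_lit 5) (nat_lit 3) (nat_lit 4) (nat_lit 1) (nat_lit 4) (nat_lit 252) (nat_lit 199) (nat_lit 149)) (XT.lf (nat_lit 0) (nat_lit 281662746213) (nat_lit 152) (nat_lit 1613809126163) (nat_lit 0) (nat_lit 274483375872) (nat_lit 1) (nat_lit 5) (nat_lit 3) (nat_lit 4) (nat_lit 1) (nat_lit 4) (nat_lit 253) (nat_lit 199) (nat_lit 148))) (XT.nd (nat_lit 78) (nat_lit 0) (nat_lit 0) (XT.lf (nat_lit 0) (nat_lit 328423102239) (nat_lit 152) (nat_lit 1844930805469) (nat_lit 0) (nat_lit 321242979863) (nat_lit 1) (nat_lit 5) (nat_lit 3) (nat_lit 4) (nat_lit 1) (nat_lit 4) (nat_lit 254) (nat_lit 199) (nat_lit 147)) (XT.lf (nat_lit 0) (nat_lit 382196419714) (nat_lit 152) (nat_lit 2110722876085) (nat_lit 0) (nat_lit 375015643394) (nat_lit 1) (nat_lit 5) (nat_lit 3) (nat_lit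 4) (nat_lit 1) (nat_lit 4) (nat_lit 255) (nat_lit 199) (nat_lit 146))))) (XT.nd (nat_lit 312) (nat_lit 0) (nat_lit 0) (XT.nd (nat_lit 156) (nat_lit 0) (nat_lit 0) (XT.nd (nat_lit 78) (nat_lit 0) (nat_lit 0) (XT.lf (nat_lit 0) (nat_lit 444034785283) (nat_lit 152) (nat_lit 2416385617653) (nat_lit 0) (nat_lit 436853440316) (nat_lit 1) (nat_lit 5) (nat_lit 3) (nat_lit 4) (nat_lit 1) (nat_lit 4) (nat_lit 256) (nat_lit 199) (nat_lit 145)) (XT.lf (nat_lit 0) (nat_lit 515148080012) (nat_lit 152) (nat_lit 2767899388162) (nat_lit 0) (nat_lit 507966240569) (nat_lit 1) (nat_lit 5) (nat_lit 3) (nat_lit 4) (nat_lit 1) (nat_lit 4) (nat_lit 257) (nat_lit 199) (nat_lit 144))) (XT.nd (nat_lit 78) (nat_lit 0) (nat_lit 0) (XT.lf (nat_lit 0) (nat_lit 596927650972) (nat_lit 152) (nat_lit 3172141630948) (nat_lit 0) (nat_lit 589745381550) (nat_lit 1) (nat_lit 5) (nat_lit 3) (nat_lit 4) (nat_lit 1) (nat_lit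 4) (nat_lit 258) (nat_lit 199) (nat_lit 143)) (XT.lf (nat_lit 0) (nat_lit 690973533246) (nat_lit 152) (nat_lit 3637021433368) (nat_lit 0) (nat_lit 683790889929) (nat_lit 1) (nat_lit 5) (nat_lit 3) (nat_lit 4) (nat_lit 1) (nat_lit 4) (nat_lit 259) (nat_lit 199) (nat_lit 142)))) (XT.nd (nat_lit 156) (nat_lit 0) (nat_lit 0) (XT.nd (nat_lit 78) (nat_lit 0) (nat_lit 0) (XT.lf (nat_lit 0) (nat_lit 799125754967) (nat_lit 152) (nat_lit 4171634269818) (nat_lit 0) (nat_lit 791942786524) (nat_lit 1) (nat_lit 5) (nat_lit 3) (nat_lit 4) (nat_lit 1) (nat_lit 4) (nat_lit 260) (nat_lit 199) (nat_lit 141)) (XT.lf (nat_lit 0) (nat_lit 923500337863) (nat_lit 152) (nat_lit 4786439956664) (nat_lit 0) (nat_lit 916317086702) (nat_lit 1) (nat_lit 5) (nat_lit 3) (nat_lit 4) (nat_lit 1) (nat_lit 4) (nat_lit 261) (nat_lit 199) (nat_lit 140))) (XT.nd (nat_lit 78) (nat_lit 0) (nat_lit 0) (XT.lf (nat_lit 0) (nat_lit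 1066530697687) (nat_lit 152) (nat_lit 5493467300822) (nat_lit 0) (nat_lit 1059347200684) (nat_lit 1) (nat_lit 5) (nat_lit 3) (nat_lit 4) (nat_lit 1) (nat_lit 4) (nat_lit 262) (nat_lit 199) (nat_lit 139)) (XT.lf (nat_lit 0) (nat_lit 1231015254522) (nat_lit 152) (nat_lit 6306549445982) (nat_lit 0) (nat_lit 1223831543744) (nat_lit 1) (nat_lit 5) (nat_lit 3) (nat_lit 4) (nat_lit 1) (nat_lit 4) (nat_lit 263) (nat_lit 199) (nat_lit 138))))))) (XT.nd (nat_lit 26286) (nat_lit 0) (nat_lit 532) (XT.nd (nat_lit 546) (nat_lit 0) (nat_lit 0) (XT.nd (nat_lit 234) (nat_lit 0) (nat_lit 0) (XT.nd (nat_lit 78) (nat_lit 0) (nat_lit 0) (XT.lf (nat_lit 0) (nat_lit 1420172184480) (nat_lit 152) (nat_lit 7241594521071) (nat_lit 0) (nat_lit 1412988287810) (nat_lit 1) (nat_lit 5) (nat_lit 3) (nat_lit 4) (nat_lit 1) (nat_lit 4) (nat_lit 264) (nat_lit 199) (nat_lit 137)) (XT.nd (nat_lit 78) (nat_lit 0) (nat_lit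 0) (XT.lf (nat_lit 0) (nat_lit 1637702384018) (nat_lit 152) (nat_lit 8316896886254) (nat_lit 0) (nat_lit 1630518325703) (nat_lit 1) (nat_lit 5) (nat_lit 3) (nat_lit 4) (nat_lit 1) (nat_lit 4) (nat_lit 265) (nat_lit 199) (nat_lit 136)) (XT.lf (nat_lit 0) (nat_lit 1887861878777) (nat_lit 152) (nat_lit 9553495066067) (nat_lit 0) (nat_lit 1880677679901) (nat_lit 1) (nat_lit 5) (nat_lit 3) (nat_lit 4) (nat_lit 1) (nat_lit 4) (nat_lit 266) (nat_lit 199) (nat_lit 135)))) (XT.nd (nat_lit 156) (nat_lit 0) (nat_lit 0) (XT.nd (nat_lit 78) (nat_lit 0) (nat_lit 0) (XT.lf (nat_lit 0) (nat_lit 2175545093656) (nat_lit 152) (nat_lit 10975583372724) (nat_lit 0) (nat_lit 2168360772553) (nat_lit 1) (nat_lit 5) (nat_lit 3) (nat_lit 4) (nat_lit 1) (nat_lit 4) (nat_lit 267) (nat_lit 199) (nat_lit 134)) (XT.lf (nat_lit 0) (nat_lit 2506380613294) (nat_lit 152) (nat_lit 12610985273094) (nat_lit 0) (nat_lit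 2499196185907) (nat_lit 1) (nat_lit 5) (nat_lit 3) (nat_lit 4) (nat_lit 1) (nat_lit 4) (nat_lit 268) (nat_lit 199) (nat_lit 133))) (XT.nd (nat_lit 78) (nat_lit 0) (nat_lit 0) (XT.lf (nat_lit 0) (nat_lit 2886841306552) (nat_lit 152) (nat_lit 14491697760880) (nat_lit 0) (nat_lit 2879656786744) (nat_lit 1) (nat_lit 5) (nat_lit 3) (nat_lit 4) (nat_lit 1) (nat_lit 4) (nat_lit 269) (nat_lit 199) (nat_lit 132)) (XT.lf (nat_lit 0) (nat_lit 3324370969604) (nat_lit 152) (nat_lit 16654517384757) (nat_lit 0) (nat_lit 3317186369430) (nat_lit 1) (nat_lit 5) (nat_lit 3) (nat_lit 4) (nat_lit 1) (nat_lit 4) (nat_lit 270) (nat_lit 199) (nat_lit 131))))) (XT.nd (nat_lit 312) (nat_lit 0) (nat_lit 0) (XT.nd (nat_lit 156) (nat_lit 0) (nat_lit 0) (XT.nd (nat_lit 78) (nat_lit 0) (nat_lit 0) (XT.lf (nat_lit 0) (nat_lit 3827529965422) (nat_lit 152) (nat_lit 19141760180843) (nat_lit 0) (nat_lit 3820345295365)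 (nat_lit 1) (nat_lit 5) (nat_lit 3) (nat_lit 4) (nat_lit 1) (nat_lit 4) (nat_lit 271) (nat_lit 199) (nat_lit 130)) (XT.lf (nat_lit 0) (nat_lit 4406162709142) (nat_lit 152) (nat_lit 22002089595149) (nat_lit 0) (nat_lit 4398977978316) (nat_lit 1) (nat_lit 5) (nat_lit 3) (nat_lit 4) (nat_lit 1) (nat_lit 4) (nat_lit 272) (nat_lit 199) (nat_lit 129))) (XT.nd (nat_lit 78) (nat_lit 0) (nat_lit 0) (XT.lf (nat_lit 0) (nat_lit 5071590276185) (nat_lit 152) (nat_lit 25291468594476) (nat_lit 0) (nat_lit 5064405492516) (nat_lit 1) (nat_lit 5) (nat_lit 3) (nat_lit 4) (nat_lit 1) (nat_lit 4) (nat_lit 273) (nat_lit 199) (nat_lit 128)) (XT.lf (nat_lit 0) (nat_lit 5836831901557) (nat_lit 152) (nat_lit 29074254594030) (nat_lit 0) (nat_lit 5829647071939) (nat_lit 1) (nat_lit 5) (nat_lit 3) (nat_lit 4) (nat_lit 1) (nat_lit 4) (nat_lit 274) (nat_lit 199) (nat_lit 127)))) (XT.nd (nat_lit 156) (nat_lit 0)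 (nat_lit 0) (XT.nd (nat_lit 78) (nat_lit 0) (nat_lit 0) (XT.lf (nat_lit 0) (nat_lit 6716859704016) (nat_lit 152) (nat_lit 33424458624235) (nat_lit 0) (nat_lit 6709674834442) (nat_lit 1) (nat_lit 5) (nat_lit 3) (nat_lit 4) (nat_lit 1) (nat_lit 4) (nat_lit 275) (nat_lit 199) (nat_lit 126)) (XT.lf (nat_lit 0) (nat_lit 7728891618827) (nat_lit 152) (nat_lit 38427193372639) (nat_lit 0) (nat_lit 7721706714509) (nat_lit 1) (nat_lit 5) (nat_lit 3) (nat_lit 4) (nat_lit 1) (nat_lit 4) (nat_lit 276) (nat_lit 199) (nat_lit 125))) (XT.nd (nat_lit 78) (nat_lit 0) (nat_lit 0) (XT.lf (nat_lit 0) (nat_lit 8892728270411) (nat_lit 152) (nat_lit 44180338432146) (nat_lit 0) (nat_lit 8885543335880) (nat_lit 1) (nat_lit 5) (nat_lit 3) (nat_lit 4) (nat_lit 1) (nat_lit 4) (nat_lit 277) (nat_lit 199) (nat_lit 124)) (XT.lf (nat_lit 0) (nat_lit 10231140375865) (nat_lit 152) (nat_lit 50796455336529) (nat_lit 0)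 (nat_lit 10223955415062) (nat_lit 1) (nat_lit 5) (nat_lit 3) (nat_lit 4) (nat_lit 1) (nat_lit 4) (nat_lit 278) (nat_lit 199) (nat_lit 123)))))) (XT.nd (nat_lit 624) (nat_lit 684) (nat_lit 0) (XT.nd (nat_lit 312) (nat_lit 456) (nat_lit 0) (XT.nd (nat_lit 156) (nat_lit 152) (nat_lit 0) (XT.nd (nat_lit 78) (nat_lit 76) (nat_lit 0) (XT.lf (nat_lit 0) (nat_lit 1073741823) (nat_lit 0) (nat_lit 0) (nat_lit 0) (nat_lit 0) (nat_lit 26) (nat_lit 0) (nat_lit 1) (nat_lit 0) (nat_lit 1) (nat_lit 0) (nat_lit 200) (nat_lit 200) (nat_lit 200)) (XT.lf (nat_lit 0) (nat_lit 2748178841) (nat_lit 76) (nat_lit 3461470203) (nat_lit 0) (nat_lit 255230432) (nat_lit 25) (nat_lit 5) (nat_lit 26) (nat_lit 0) (nat_lit 25) (nat_lit 4) (nat_lit 201) (nat_lit 200) (nat_lit 199))) (XT.nd (nat_lit 78) (nat_lit 152) (nat_lit 0) (XT.lf (nat_lit 0) (nat_lit 5431414569) (nat_lit 76) (nat_lit 368788952) (nat_lit 0) (nat_lit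 770684935) (nat_lit 25) (nat_lit 5) (nat_lit 26) (nat_lit 0) (nat_lit 25) (nat_lit 4) (nat_lit 202) (nat_lit 200) (nat_lit 198)) (XT.lf (nat_lit 0) (nat_lit 1358297706) (nat_lit 152) (nat_lit 3625416717) (nat_lit 76) (nat_lit 1749830285) (nat_lit 23) (nat_lit 5) (nat_lit 25) (nat_lit 5) (nat_lit 24) (nat_lit 4) (nat_lit 203) (nat_lit 200) (nat_lit 197)))) (XT.nd (nat_lit 156) (nat_lit 304) (nat_lit 0) (XT.nd (nat_lit 78) (nat_lit 152) (nat_lit 0) (XT.lf (nat_lit 0) (nat_lit 3738249493) (nat_lit 152) (nat_lit 147674420) (nat_lit 76) (nat_lit 3088591539) (nat_lit 23) (nat_lit 5) (nat_lit 25) (nat_lit 5) (nat_lit 24) (nat_lit 4) (nat_lit 204) (nat_lit 200) (nat_lit 196)) (XT.lf (nat_lit 0) (nat_lit 3920004379) (nat_lit 152) (nat_lit 2373142855) (nat_lit 228) (nat_lit 990731932) (nat_lit 21) (nat_lit 5) (nat_lit 23) (nat_lit 5) (nat_lit 24) (nat_lit 4) (nat_lit 205) (nat_lit 200) (nat_lit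 195))) (XT.nd (nat_lit 78) (nat_lit 0) (nat_lit 0) (XT.lf (nat_lit 0) (nat_lit 665009088) (nat_lit 228) (nat_lit 491303416) (nat_lit 304) (nat_lit 6521227860) (nat_lit 17) (nat_lit 5) (nat_lit 20) (nat_lit 5) (nat_lit 21) (nat_lit 5) (nat_lit 206) (nat_lit 200) (nat_lit 194)) (XT.lf (nat_lit 0) (nat_lit 3479492794) (nat_lit 304) (nat_lit 2890802246) (nat_lit 76) (nat_lit 1762800708) (nat_lit 17) (nat_lit 5) (nat_lit 21) (nat_lit 5) (nat_lit 18) (nat_lit 4) (nat_lit 207) (nat_lit 200) (nat_lit 193))))) (XT.nd (nat_lit 312) (nat_lit 228) (nat_lit 0) (XT.nd (nat_lit 156) (nat_lit 228) (nat_lit 0) (XT.nd (nat_lit 78) (nat_lit 0) (nat_lit 0) (XT.lf (nat_lit 0) (nat_lit 1681213588) (nat_lit 228) (nat_lit 4303844365) (nat_lit 304) (nat_lit 2699664965) (nat_lit 14) (nat_lit 5) (nat_lit 17) (nat_lit 5) (nat_lit 18) (nat_lit 4) (nat_lit 208) (nat_lit 200) (nat_lit 192)) (XT.lf (nat_lit 0) (nat_lit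 6983043159) (nat_lit 228) (nat_lit 1797587398) (nat_lit 304) (nat_lit 553793926) (nat_lit 14) (nat_lit 5) (nat_lit 17) (nat_lit 5) (nat_lit 18) (nat_lit 4) (nat_lit 209) (nat_lit 200) (nat_lit 191))) (XT.nd (nat_lit 78) (nat_lit 0) (nat_lit 0) (XT.lf (nat_lit 0) (nat_lit 1698688955) (nat_lit 228) (nat_lit 7227411146) (nat_lit 76) (nat_lit 1152181760) (nat_lit 11) (nat_lit 5) (nat_lit 14) (nat_lit 5) (nat_lit 12) (nat_lit 4) (nat_lit 210) (nat_lit 200) (nat_lit 190)) (XT.lf (nat_lit 0) (nat_lit 4244472519) (nat_lit 228) (nat_lit 2219926365) (nat_lit 76) (nat_lit 4465159364) (nat_lit 11) (nat_lit 5) (nat_lit 14) (nat_lit 5) (nat_lit 12) (nat_lit 4) (nat_lit 211) (nat_lit 200) (nat_lit 189)))) (XT.nd (nat_lit 156) (nat_lit 152) (nat_lit 0) (XT.nd (nat_lit 78) (nat_lit 0) (nat_lit 0) (XT.lf (nat_lit 0) (nat_lit 3612894984) (nat_lit 76) (nat_lit 3532970633) (nat_lit 152) (nat_lit 4768003529)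 (nat_lit 10) (nat_lit 5) (nat_lit 11) (nat_lit 5) (nat_lit 12) (nat_lit 4) (nat_lit 212) (nat_lit 200) (nat_lit 188)) (XT.lf (nat_lit 0) (nat_lit 10333944809) (nat_lit 76) (nat_lit 101862611) (nat_lit 152) (nat_lit 2618239471) (nat_lit 10) (nat_lit 5) (nat_lit 11) (nat_lit 5) (nat_lit 12) (nat_lit 4) (nat_lit 213) (nat_lit 200) (nat_lit 187))) (XT.nd (nat_lit 78) (nat_lit 0) (nat_lit 0) (XT.lf (nat_lit 0) (nat_lit 39575523) (nat_lit 152) (nat_lit 10705704588) (nat_lit 76) (nat_lit 3595913358) (nat_lit 8) (nat_lit 5) (nat_lit 10) (nat_lit 5) (nat_lit 9) (nat_lit 4) (nat_lit 214) (nat_lit 200) (nat_lit 186)) (XT.lf (nat_lit 0) (nat_lit 2840360219) (nat_lit 152) (nat_lit 4915676933) (nat_lit 76) (nat_lit 8045622816) (nat_lit 8) (nat_lit 5) (nat_lit 10) (nat_lit 5) (nat_lit 9) (nat_lit 4) (nat_lit 215) (nat_lit 200) (nat_lit 185))))))))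
noncomputable def xc25 : XT := (XT.nd (nat_lit 2418) (nat_lit 0) (nat_lit 0) (XT.nd (nat_lit 1170) (nat_lit 152) (nat_lit 0) (XT.nd (nat_lit 546) (nat_lit 76) (nat_lit 0) (XT.nd (nat_lit 234) (nat_lit 228) (nat_lit 0) (XT.nd (nat_lit 78) (nat_lit 0) (nat_lit 0) (XT.lf (nat_lit 0) (nat_lit 1694192888) (nat_lit 76) (nat_lit 4314219802) (nat_lit 152) (nat_lit 11481409453) (nat_lit 7) (nat_lit 5) (nat_lit 8) (nat_lit 5) (nat_lit 9) (nat_lit 4) (nat_lit 216) (nat_lit 200) (nat_lit 184)) (XT.nd (nat_lit 78) (nat_lit 0) (nat_lit 0) (XT.lf (nat_lit 0) (nat_lit 9657575253) (nat_lit 76) (nat_lit 136209616) (nat_lit 152) (nat_lit 9616714140) (nat_lit 7) (nat_lit 5) (nat_lit 8) (nat_lit 5) (nat_lit 9) (nat_lit 4) (nat_lit 217) (nat_lit 200) (nat_lit 183)) (XT.lf (nat_lit 0) (nat_lit 14237689879) (nat_lit 152) (nat_lit 3175496595) (nat_lit 0) (nat_lit 4193009827) (nat_lit 7) (nat_lit 5) (nat_lit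 9) (nat_lit 4) (nat_lit 7) (nat_lit 4) (nat_lit 218) (nat_lit 200) (nat_lit 182)))) (XT.nd (nat_lit 156) (nat_lit 152) (nat_lit 0) (XT.nd (nat_lit 78) (nat_lit 0) (nat_lit 0) (XT.lf (nat_lit 0) (nat_lit 4640041438) (nat_lit 76) (nat_lit 14817554630) (nat_lit 76) (nat_lit 4657698893) (nat_lit 6) (nat_lit 4) (nat_lit 7) (nat_lit 5) (nat_lit 7) (nat_lit 4) (nat_lit 219) (nat_lit 200) (nat_lit 181)) (XT.lf (nat_lit 0) (nat_lit 13836737342) (nat_lit 76) (nat_lit 11706042517) (nat_lit 76) (nat_lit 1446034011) (nat_lit 6) (nat_lit 4) (nat_lit 7) (nat_lit 5) (nat_lit 7) (nat_lit 4) (nat_lit 220) (nat_lit 200) (nat_lit 180))) (XT.nd (nat_lit 78) (nat_lit 76) (nat_lit 0) (XT.lf (nat_lit 0) (nat_lit 1970738387) (nat_lit 152) (nat_lit 6110010337) (nat_lit 76) (nat_lit 22210439591) (nat_lit 5) (nat_lit 5) (nat_lit 7) (nat_lit 5) (nat_lit 6) (nat_lit 4) (nat_lit 221) (nat_lit 200) (nat_lit 179))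 (XT.lf (nat_lit 0) (nat_lit 1976772918) (nat_lit 76) (nat_lit 3790483207) (nat_lit 152) (nat_lit 28309305097) (nat_lit 4) (nat_lit 5) (nat_lit 5) (nat_lit 5) (nat_lit 6) (nat_lit 4) (nat_lit 222) (nat_lit 200) (nat_lit 178))))) (XT.nd (nat_lit 312) (nat_lit 76) (nat_lit 0) (XT.nd (nat_lit 156) (nat_lit 0) (nat_lit 0) (XT.nd (nat_lit 78) (nat_lit 0) (nat_lit 0) (XT.lf (nat_lit 0) (nat_lit 10450502419) (nat_lit 152) (nat_lit 26601966992) (nat_lit 0) (nat_lit 1329911267) (nat_lit 4) (nat_lit 5) (nat_lit 6) (nat_lit 4) (nat_lit 4) (nat_lit 4) (nat_lit 223) (nat_lit 200) (nat_lit 177)) (XT.lf (nat_lit 0) (nat_lit 15960484907) (nat_lit 152) (nat_lit 20565049105) (nat_lit 0) (nat_lit 6790100128) (nat_lit 4) (nat_lit 5) (nat_lit 6) (nat_lit 4) (nat_lit 4) (nat_lit 4) (nat_lit 224) (nat_lit 200) (nat_lit 176))) (XT.nd (nat_lit 78) (nat_lit 0) (nat_lit 0) (XT.lf (nat_lit 0) (nat_lit 22248051769)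 (nat_lit 152) (nat_lit 13713965206) (nat_lit 0) (nat_lit 13034368184) (nat_lit 4) (nat_lit 5) (nat_lit 6) (nat_lit 4) (nat_lit 4) (nat_lit 4) (nat_lit 225) (nat_lit 200) (nat_lit 175)) (XT.lf (nat_lit 0) (nat_lit 29436220617) (nat_lit 152) (nat_lit 5914672349) (nat_lit 0) (nat_lit 20184885896) (nat_lit 4) (nat_lit 5) (nat_lit 6) (nat_lit 4) (nat_lit 4) (nat_lit 4) (nat_lit 226) (nat_lit 200) (nat_lit 174)))) (XT.nd (nat_lit 156) (nat_lit 0) (nat_lit 0) (XT.nd (nat_lit 78) (nat_lit 0) (nat_lit 0) (XT.lf (nat_lit 0) (nat_lit 3277181703) (nat_lit 76) (nat_lit 34524148940) (nat_lit 76) (nat_lit 25240074101) (nat_lit 3) (nat_lit 4) (nat_lit 4) (nat_lit 5) (nat_lit 4) (nat_lit 4) (nat_lit 227) (nat_lit 200) (nat_lit 173)) (XT.lf (nat_lit 0) (nat_lit 14446592729) (nat_lit 76) (nat_lit 33248898572) (nat_lit 76) (nat_lit 23936354065) (nat_lit 3) (nat_lit 4) (nat_lit 4) (nat_lit 5) (nat_lit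 4) (nat_lit 4) (nat_lit 228) (nat_lit 200) (nat_lit 172))) (XT.nd (nat_lit 78) (nat_lit 0) (nat_lit 0) (XT.lf (nat_lit 0) (nat_lit 27234067887) (nat_lit 76) (nat_lit 31809367367) (nat_lit 76) (nat_lit 22472066628) (nat_lit 3) (nat_lit 4) (nat_lit 4) (nat_lit 5) (nat_lit 4) (nat_lit 4) (nat_lit 229) (nat_lit 200) (nat_lit 171)) (XT.lf (nat_lit 0) (nat_lit 41889796907) (nat_lit 76) (nat_lit 30177390584) (nat_lit 76) (nat_lit 20818562685) (nat_lit 3) (nat_lit 4) (nat_lit 4) (nat_lit 5) (nat_lit 4) (nat_lit 4) (nat_lit 230) (nat_lit 200) (nat_lit 170)))))) (XT.nd (nat_lit 624) (nat_lit 76) (nat_lit 0) (XT.nd (nat_lit 312) (nat_lit 76) (nat_lit 0) (XT.nd (nat_lit 156) (nat_lit 0) (nat_lit 0) (XT.nd (nat_lit 78) (nat_lit 0) (nat_lit 0) (XT.lf (nat_lit 0) (nat_lit 58700522315) (nat_lit 76) (nat_lit 28321038241) (nat_lit 76) (nat_lit 18943491074) (nat_lit 3) (nat_lit 4) (nat_lit 4) (nat_lit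 5) (nat_lit 4) (nat_lit 4) (nat_lit 231) (nat_lit 200) (nat_lit 169)) (XT.lf (nat_lit 0) (nat_lit 77995149607) (nat_lit 76) (nat_lit 26203990403) (nat_lit 76) (nat_lit 16810165610) (nat_lit 3) (nat_lit 4) (nat_lit 4) (nat_lit 5) (nat_lit 4) (nat_lit 4) (nat_lit 232) (nat_lit 200) (nat_lit 168))) (XT.nd (nat_lit 78) (nat_lit 0) (nat_lit 0) (XT.lf (nat_lit 0) (nat_lit 100151182360) (nat_lit 76) (nat_lit 23784826567) (nat_lit 76) (nat_lit 14376847318) (nat_lit 3) (nat_lit 4) (nat_lit 4) (nat_lit 5) (nat_lit 4) (nat_lit 4) (nat_lit 233) (nat_lit 200) (nat_lit 167)) (XT.lf (nat_lit 0) (nat_lit 125602108173) (nat_lit 76) (nat_lit 21016215267) (nat_lit 76) (nat_lit 11595927796) (nat_lit 3) (nat_lit 4) (nat_lit 4) (nat_lit 5) (nat_lit 4) (nat_lit 4) (nat_lit 234) (nat_lit 200) (nat_lit 166)))) (XT.nd (nat_lit 156) (nat_lit 76) (nat_lit 0) (XT.nd (nat_lit 78) (nat_lit 0) (nat_lit 0) (XT.lf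 (nat_lit 0) (nat_lit 154845879940) (nat_lit 76) (nat_lit 17843988022) (nat_lit 76) (nat_lit 8412997748) (nat_lit 3) (nat_lit 4) (nat_lit 4) (nat_lit 5) (nat_lit 4) (nat_lit 4) (nat_lit 235) (nat_lit 200) (nat_lit 165)) (XT.lf (nat_lit 0) (nat_lit 188454658415) (nat_lit 76) (nat_lit 14206079516) (nat_lit 76) (nat_lit 4765782457) (nat_lit 3) (nat_lit 4) (nat_lit 4) (nat_lit 5) (nat_lit 4) (nat_lit 4) (nat_lit 236) (nat_lit 200) (nat_lit 164))) (XT.nd (nat_lit 78) (nat_lit 76) (nat_lit 0) (XT.lf (nat_lit 0) (nat_lit 227086006655) (nat_lit 76) (nat_lit 10031313278) (nat_lit 76) (nat_lit 582923362) (nat_lit 3) (nat_lit 4) (nat_lit 4) (nat_lit 5) (nat_lit 4) (nat_lit 4) (nat_lit 237) (nat_lit 200) (nat_lit 163)) (XT.lf (nat_lit 0) (nat_lit 3841954361) (nat_lit 152) (nat_lit 1195225305) (nat_lit 76) (nat_lit 267452971591) (nat_lit 2) (nat_lit 5) (nat_lit 4) (nat_lit 5) (nat_lit 3) (nat_lit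 4) (nat_lit 238) (nat_lit 200) (nat_lit 162))))) (XT.nd (nat_lit 312) (nat_lit 0) (nat_lit 0) (XT.nd (nat_lit 156) (nat_lit 0) (nat_lit 0) (XT.nd (nat_lit 78) (nat_lit 0) (nat_lit 0) (XT.lf (nat_lit 0) (nat_lit 9350122712) (nat_lit 152) (nat_lit 301949703357) (nat_lit 0) (nat_lit 1122690934) (nat_lit 1) (nat_lit 5) (nat_lit 3) (nat_lit 4) (nat_lit 1) (nat_lit 4) (nat_lit 239) (nat_lit 200) (nat_lit 161)) (XT.lf (nat_lit 0) (nat_lit 15982108470) (nat_lit 152) (nat_lit 334567959184) (nat_lit 0) (nat_lit 7750049575) (nat_lit 1) (nat_lit 5) (nat_lit 3) (nat_lit 4) (nat_lit 1) (nat_lit 4) (nat_lit 240) (nat_lit 200) (nat_lit 160))) (XT.nd (nat_lit 78) (nat_lit 0) (nat_lit 0) (XT.lf (nat_lit 0) (nat_lit 23602173520) (nat_lit 152) (nat_lit 372092116749) (nat_lit 0) (nat_lit 15366091045) (nat_lit 1) (nat_lit 5) (nat_lit 3) (nat_lit 4) (nat_lit 1) (nat_lit 4) (nat_lit 241) (nat_lit 200) (nat_lit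 159)) (XT.lf (nat_lit 0) (nat_lit 32359406091) (nat_lit 152) (nat_lit 415256344352) (nat_lit 0) (nat_lit 24119824851) (nat_lit 1) (nat_lit 5) (nat_lit 3) (nat_lit 4) (nat_lit 1) (nat_lit 4) (nat_lit 242) (nat_lit 200) (nat_lit 158)))) (XT.nd (nat_lit 156) (nat_lit 0) (nat_lit 0) (XT.nd (nat_lit 78) (nat_lit 0) (nat_lit 0) (XT.lf (nat_lit 0) (nat_lit 42425143341) (nat_lit 152) (nat_lit 464905159489) (nat_lit 0) (nat_lit 34182519697) (nat_lit 1) (nat_lit 5) (nat_lit 3) (nat_lit 4) (nat_lit 1) (nat_lit 4) (nat_lit 243) (nat_lit 200) (nat_lit 157)) (XT.lf (nat_lit 0) (nat_lit 53996323609) (nat_lit 152) (nat_lit 522009952022) (nat_lit 0) (nat_lit 45751054396) (nat_lit 1) (nat_lit 5) (nat_lit 3) (nat_lit 4) (nat_lit 1) (nat_lit 4) (nat_lit 244) (nat_lit 200) (nat_lit 156))) (XT.nd (nat_lit 78) (nat_lit 0) (nat_lit 0) (XT.lf (nat_lit 0) (nat_lit 67299339552) (nat_lit 152) (nat_lit 587687989630)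 (nat_lit 0) (nat_lit 59051769844) (nat_lit 1) (nat_lit 5) (nat_lit 3) (nat_lit 4) (nat_lit 1) (nat_lit 4) (nat_lit 245) (nat_lit 200) (nat_lit 155)) (XT.lf (nat_lit 0) (nat_lit 82594467569) (nat_lit 152) (nat_lit 663224277398) (nat_lit 0) (nat_lit 74344897430) (nat_lit 1) (nat_lit 5) (nat_lit 3) (nat_lit 4) (nat_lit 1) (nat_lit 4) (nat_lit 246) (nat_lit 200) (nat_lit 154))))))) (XT.nd (nat_lit 1170) (nat_lit 0) (nat_lit 0) (XT.nd (nat_lit 546) (nat_lit 0) (nat_lit 0) (XT.nd (nat_lit 234) (nat_lit 0) (nat_lit 0) (XT.nd (nat_lit 78) (nat_lit 0) (nat_lit 0) (XT.lf (nat_lit 0) (nat_lit 100180960163) (nat_lit 152) (nat_lit 750096699216) (nat_lit 0) (nat_lit 91929650520) (nat_lit 1) (nat_lit 5) (nat_lit 3) (nat_lit 4) (nat_lit 1) (nat_lit 4) (nat_lit 247) (nat_lit 200) (nat_lit 153)) (XT.nd (nat_lit 78) (nat_lit 0) (nat_lit 0) (XT.lf (nat_lit 0) (nat_lit 120402900887) (nat_lit 152) (nat_lit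 850004932903) (nat_lit 0) (nat_lit 112150078631) (nat_lit 1) (nat_lit 5) (nat_lit 3) (nat_lit 4) (nat_lit 1) (nat_lit 4) (nat_lit 248) (nat_lit 200) (nat_lit 152)) (XT.lf (nat_lit 0) (nat_lit 143655936407) (nat_lit 152) (nat_lit 964903704769) (nat_lit 0) (nat_lit 135401798835) (nat_lit 1) (nat_lit 5) (nat_lit 3) (nat_lit 4) (nat_lit 1) (nat_lit 4) (nat_lit 249) (nat_lit 200) (nat_lit 151)))) (XT.nd (nat_lit 156) (nat_lit 0) (nat_lit 0) (XT.nd (nat_lit 78) (nat_lit 0) (nat_lit 0) (XT.lf (nat_lit 0) (nat_lit 170395017416) (nat_lit 152) (nat_lit 1097041034265) (nat_lit 0) (nat_lit 162139736092) (nat_lit 1) (nat_lit 5) (nat_lit 3) (nat_lit 4) (nat_lit 1) (nat_lit 4) (nat_lit 250) (nat_lit 200) (nat_lit 150)) (XT.lf (nat_lit 0) (nat_lit 201143299849) (nat_lit 152) (nat_lit 1249002216967) (nat_lit 0) (nat_lit 192887023958) (nat_lit 1) (nat_lit 5) (nat_lit 3) (nat_lit 4) (nat_lit 1) (nat_lit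 4) (nat_lit 251) (nat_lit 200) (nat_lit 149))) (XT.nd (nat_lit 78) (nat_lit 0) (nat_lit 0) (XT.lf (nat_lit 0) (nat_lit 236502380535) (nat_lit 152) (nat_lit 1423760406451) (nat_lit 0) (nat_lit 228245239803) (nat_lit 1) (nat_lit 5) (nat_lit 3) (nat_lit 4) (nat_lit 1) (nat_lit 4) (nat_lit 252) (nat_lit 200) (nat_lit 148)) (XT.lf (nat_lit 0) (nat_lit 277164067575) (nat_lit 152) (nat_lit 1624734784683) (nat_lit 0) (nat_lit 268906174807) (nat_lit 1) (nat_lit 5) (nat_lit 3) (nat_lit 4) (nat_lit 1) (nat_lit 4) (nat_lit 253) (nat_lit 200) (nat_lit 147))))) (XT.nd (nat_lit 312) (nat_lit 0) (nat_lit 0) (XT.nd (nat_lit 156) (nat_lit 0) (nat_lit 0) (XT.nd (nat_lit 78) (nat_lit 0) (nat_lit 0) (XT.lf (nat_lit 0) (nat_lit 323923915715) (nat_lit 152) (nat_lit 1855857459066) (nat_lit 0) (nat_lit 315665369003) (nat_lit 1) (nat_lit 5) (nat_lit 3) (nat_lit 4) (nat_lit 1) (nat_lit 4) (nat_lit 254) (nat_lit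 200) (nat_lit 146)) (XT.lf (nat_lit 0) (nat_lit 377696791550) (nat_lit 152) (nat_lit 2121650394966) (nat_lit 0) (nat_lit 369437676190) (nat_lit 1) (nat_lit 5) (nat_lit 3) (nat_lit 4) (nat_lit 1) (nat_lit 4) (nat_lit 255) (nat_lit 200) (nat_lit 145))) (XT.nd (nat_lit 78) (nat_lit 0) (nat_lit 0) (XT.lf (nat_lit 0) (nat_lit 439534773084) (nat_lit 152) (nat_lit 2427313888955) (nat_lit 0) (nat_lit 431275163248) (nat_lit 1) (nat_lit 5) (nat_lit 3) (nat_lit 4) (nat_lit 1) (nat_lit 4) (nat_lit 256) (nat_lit 200) (nat_lit 144)) (XT.lf (nat_lit 0) (nat_lit 510647733869) (nat_lit 152) (nat_lit 2778828313743) (nat_lit 0) (nat_lit 502387694055) (nat_lit 1) (nat_lit 5) (nat_lit 3) (nat_lit 4) (nat_lit 1) (nat_lit 4) (nat_lit 257) (nat_lit 200) (nat_lit 143)))) (XT.nd (nat_lit 156) (nat_lit 0) (nat_lit 0) (XT.nd (nat_lit 78) (nat_lit 0) (nat_lit 0) (XT.lf (nat_lit 0) (nat_lit 592427014443) (nat_lit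 152) (nat_lit 3183071125467) (nat_lit 0) (nat_lit 584166600734) (nat_lit 1) (nat_lit 5) (nat_lit 3) (nat_lit 4) (nat_lit 1) (nat_lit 4) (nat_lit 258) (nat_lit 200) (nat_lit 142)) (XT.lf (nat_lit 0) (nat_lit 686472644208) (nat_lit 152) (nat_lit 3647951422616) (nat_lit 0) (nat_lit 678211905373) (nat_lit 1) (nat_lit 5) (nat_lit 3) (nat_lit 4) (nat_lit 1) (nat_lit 4) (nat_lit 259) (nat_lit 200) (nat_lit 141))) (XT.nd (nat_lit 78) (nat_lit 0) (nat_lit 0) (XT.lf (nat_lit 0) (nat_lit 794624646356) (nat_lit 152) (nat_lit 4182564689265) (nat_lit 0) (nat_lit 786363624802) (nat_lit 1) (nat_lit 5) (nat_lit 3) (nat_lit 4) (nat_lit 1) (nat_lit 4) (nat_lit 260) (nat_lit 200) (nat_lit 140)) (XT.lf (nat_lit 0) (nat_lit 918999038318) (nat_lit 152) (nat_lit 4797370750197) (nat_lit 0) (nat_lit 910737770923) (nat_lit 1) (nat_lit 5) (nat_lit 3) (nat_lit 4) (nat_lit 1) (nat_lit 4) (nat_lit 261) (nat_lit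 200) (nat_lit 139)))))) (XT.nd (nat_lit 624) (nat_lit 0) (nat_lit 0) (XT.nd (nat_lit 312) (nat_lit 0) (nat_lit 0) (XT.nd (nat_lit 156) (nat_lit 0) (nat_lit 0) (XT.nd (nat_lit 78) (nat_lit 0) (nat_lit 0) (XT.lf (nat_lit 0) (nat_lit 1062029232113) (nat_lit 152) (nat_lit 5504398419647) (nat_lit 0) (nat_lit 1053767750943) (nat_lit 1) (nat_lit 5) (nat_lit 3) (nat_lit 4) (nat_lit 1) (nat_lit 4) (nat_lit 262) (nat_lit 200) (nat_lit 138)) (XT.lf (nat_lit 0) (nat_lit 1226513644575) (nat_lit 152) (nat_lit 6317480847670) (nat_lit 0) (nat_lit 1218251977513) (nat_lit 1) (nat_lit 5) (nat_lit 3) (nat_lit 4) (nat_lit 1) (nat_lit 4) (nat_lit 263) (nat_lit 200) (nat_lit 137))) (XT.nd (nat_lit 78) (nat_lit 0) (nat_lit 0) (XT.lf (nat_lit 0) (nat_lit 1415670448992) (nat_lit 152) (nat_lit 7252526168727) (nat_lit 0) (nat_lit 1407408620285) (nat_lit 1) (nat_lit 5) (nat_lit 3) (nat_lit 4) (nat_lit 1) (nat_lit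 4) (nat_lit 264) (nat_lit 200) (nat_lit 136)) (XT.lf (nat_lit 0) (nat_lit 1633200539363) (nat_lit 152) (nat_lit 8327828747795) (nat_lit 0) (nat_lit 1624938570094) (nat_lit 1) (nat_lit 5) (nat_lit 3) (nat_lit 4) (nat_lit 1) (nat_lit 4) (nat_lit 265) (nat_lit 200) (nat_lit 135)))) (XT.nd (nat_lit 156) (nat_lit 0) (nat_lit 0) (XT.nd (nat_lit 78) (nat_lit 0) (nat_lit 0) (XT.lf (nat_lit 0) (nat_lit 1883359939194) (nat_lit 152) (nat_lit 9564427113595) (nat_lit 0) (nat_lit 1875097847699) (nat_lit 1) (nat_lit 5) (nat_lit 3) (nat_lit 4) (nat_lit 1) (nat_lit 4) (nat_lit 266) (nat_lit 200) (nat_lit 134)) (XT.lf (nat_lit 0) (nat_lit 2171043071528) (nat_lit 152) (nat_lit 10986515581980) (nat_lit 0) (nat_lit 2162780873748) (nat_lit 1) (nat_lit 5) (nat_lit 3) (nat_lit 4) (nat_lit 1) (nat_lit 4) (nat_lit 267) (nat_lit 200) (nat_lit 133))) (XT.nd (nat_lit 78) (nat_lit 0) (nat_lit 0) (XT.lf (nat_lit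 0) (nat_lit 2501878519386) (nat_lit 152) (nat_lit 12621917622983) (nat_lit 0) (nat_lit 2493616229186) (nat_lit 1) (nat_lit 5) (nat_lit 3) (nat_lit 4) (nat_lit 1) (nat_lit 4) (nat_lit 268) (nat_lit 200) (nat_lit 132)) (XT.lf (nat_lit 0) (nat_lit 2882339150228) (nat_lit 152) (nat_lit 14502630233058) (nat_lit 0) (nat_lit 2874076779662) (nat_lit 1) (nat_lit 5) (nat_lit 3) (nat_lit 4) (nat_lit 1) (nat_lit 4) (nat_lit 269) (nat_lit 200) (nat_lit 131))))) (XT.nd (nat_lit 312) (nat_lit 0) (nat_lit 0) (XT.nd (nat_lit 156) (nat_lit 0) (nat_lit 0) (XT.nd (nat_lit 78) (nat_lit 0) (nat_lit 0) (XT.lf (nat_lit 0) (nat_lit 3319868759005) (nat_lit 152) (nat_lit 16665449963273) (nat_lit 0) (nat_lit 3311606318555) (nat_lit 1) (nat_lit 5) (nat_lit 3) (nat_lit 4) (nat_lit 1) (nat_lit 4) (nat_lit 270) (nat_lit 200) (nat_lit 130)) (XT.lf (nat_lit 0) (nat_lit 3823027707628) (nat_lit 152) (nat_lit 19152692851828)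 (nat_lit 0) (nat_lit 3814765206409) (nat_lit 1) (nat_lit 5) (nat_lit 3) (nat_lit 4) (nat_lit 1) (nat_lit 4) (nat_lit 271) (nat_lit 200) (nat_lit 129))) (XT.nd (nat_lit 78) (nat_lit 0) (nat_lit 0) (XT.lf (nat_lit 0) (nat_lit 4401660410308) (nat_lit 152) (nat_lit 22013022346541) (nat_lit 0) (nat_lit 4393397856247) (nat_lit 1) (nat_lit 5) (nat_lit 3) (nat_lit 4) (nat_lit 1) (nat_lit 4) (nat_lit 272) (nat_lit 200) (nat_lit 128)) (XT.lf (nat_lit 0) (nat_lit 5067087941663) (nat_lit 152) (nat_lit 25302401415788) (nat_lit 0) (nat_lit 5058825341653) (nat_lit 1) (nat_lit 5) (nat_lit 3) (nat_lit 4) (nat_lit 1) (nat_lit 4) (nat_lit 273) (nat_lit 200) (nat_lit 127)))) (XT.nd (nat_lit 156) (nat_lit 0) (nat_lit 0) (XT.nd (nat_lit 78) (nat_lit 0) (nat_lit 0) (XT.lf (nat_lit 0) (nat_lit 5832329536003) (nat_lit 152) (nat_lit 29085187476141) (nat_lit 0) (nat_lit 5824066896037) (nat_lit 1) (nat_lit 5)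 (nat_lit 3) (nat_lit 4) (nat_lit 1) (nat_lit 4) (nat_lit 274) (nat_lit 200) (nat_lit 126)) (XT.lf (nat_lit 0) (nat_lit 6712357311478) (nat_lit 152) (nat_lit 33435391559215) (nat_lit 0) (nat_lit 6704094636767) (nat_lit 1) (nat_lit 5) (nat_lit 3) (nat_lit 4) (nat_lit 1) (nat_lit 4) (nat_lit 275) (nat_lit 200) (nat_lit 125))) (XT.nd (nat_lit 78) (nat_lit 0) (nat_lit 0) (XT.lf (nat_lit 0) (nat_lit 7724389202825) (nat_lit 152) (nat_lit 38438126353592) (nat_lit 0) (nat_lit 7716126497901) (nat_lit 1) (nat_lit 5) (nat_lit 3) (nat_lit 4) (nat_lit 1) (nat_lit 4) (nat_lit 276) (nat_lit 200) (nat_lit 124)) (XT.lf (nat_lit 0) (nat_lit 8888225834005) (nat_lit 152) (nat_lit 44191271453076) (nat_lit 0) (nat_lit 8879963102810) (nat_lit 1) (nat_lit 5) (nat_lit 3) (nat_lit 4) (nat_lit 1) (nat_lit 4) (nat_lit 277) (nat_lit 200) (nat_lit 123))))))))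
noncomputable def xc26 : XT := (XT.nd (nat_lit 2418) (nat_lit 152) (nat_lit 0) (XT.nd (nat_lit 1170) (nat_lit 380) (nat_lit 0) (XT.nd (nat_lit 546) (nat_lit 684) (nat_lit 0) (XT.nd (nat_lit 234) (nat_lit 380) (nat_lit 0) (XT.nd (nat_lit 78) (nat_lit 228) (nat_lit 0) (XT.lf (nat_lit 0) (nat_lit 1311630810) (nat_lit 0) (nat_lit 1311630810) (nat_lit 76) (nat_lit 641139426) (nat_lit 25) (nat_lit 5) (nat_lit 25) (nat_lit 3) (nat_lit 26) (nat_lit 0) (nat_lit 201) (nat_lit 201) (nat_lit 198)) (XT.nd (nat_lit 78) (nat_lit 0) (nat_lit 0) (XT.lf (nat_lit 0) (nat_lit 945478280) (nat_lit 228) (nat_lit 963996636) (nat_lit 228) (nat_lit 4755459547) (nat_lit 22) (nat_lit 3) (nat_lit 25) (nat_lit 3) (nat_lit 25) (nat_lit 5) (nat_lit 202) (nat_lit 201) (nat_lit 197)) (XT.lf (nat_lit 76) (nat_lit 2337627046) (nat_lit 0) (nat_lit 743353479) (nat_lit 228) (nat_lit 3781299041) (nat_lit 23) (nat_lit 5)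 (nat_lit 22) (nat_lit 3) (nat_lit 25) (nat_lit 5) (nat_lit 203) (nat_lit 201) (nat_lit 196)))) (XT.nd (nat_lit 156) (nat_lit 228) (nat_lit 0) (XT.nd (nat_lit 78) (nat_lit 228) (nat_lit 0) (XT.lf (nat_lit 0) (nat_lit 5269981474) (nat_lit 152) (nat_lit 1146692675) (nat_lit 76) (nat_lit 717516618) (nat_lit 23) (nat_lit 5) (nat_lit 25) (nat_lit 5) (nat_lit 24) (nat_lit 4) (nat_lit 204) (nat_lit 201) (nat_lit 195)) (XT.lf (nat_lit 0) (nat_lit 146667001) (nat_lit 228) (nat_lit 4781970265) (nat_lit 76) (nat_lit 2544392663) (nat_lit 20) (nat_lit 5) (nat_lit 23) (nat_lit 5) (nat_lit 21) (nat_lit 5) (nat_lit 205) (nat_lit 201) (nat_lit 194))) (XT.nd (nat_lit 78) (nat_lit 228) (nat_lit 0) (XT.lf (nat_lit 0) (nat_lit 2044810180) (nat_lit 228) (nat_lit 976211257) (nat_lit 76) (nat_lit 4865131855) (nat_lit 20) (nat_lit 5) (nat_lit 23) (nat_lit 5) (nat_lit 21) (nat_lit 5) (nat_lit 206) (nat_lit 201)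 (nat_lit 193)) (XT.lf (nat_lit 0) (nat_lit 3480506259) (nat_lit 228) (nat_lit 642332297) (nat_lit 304) (nat_lit 4256956698) (nat_lit 17) (nat_lit 5) (nat_lit 20) (nat_lit 5) (nat_lit 21) (nat_lit 5) (nat_lit 207) (nat_lit 201) (nat_lit 192))))) (XT.nd (nat_lit 312) (nat_lit 228) (nat_lit 0) (XT.nd (nat_lit 156) (nat_lit 228) (nat_lit 0) (XT.nd (nat_lit 78) (nat_lit 228) (nat_lit 0) (XT.lf (nat_lit 0) (nat_lit 6427396684) (nat_lit 304) (nat_lit 569358076) (nat_lit 76) (nat_lit 1965961147) (nat_lit 17) (nat_lit 5) (nat_lit 21) (nat_lit 5) (nat_lit 18) (nat_lit 4) (nat_lit 208) (nat_lit 201) (nat_lit 191)) (XT.lf (nat_lit 0) (nat_lit 4563229928) (nat_lit 228) (nat_lit 4538030349) (nat_lit 304) (nat_lit 530406963) (nat_lit 14) (nat_lit 5) (nat_lit 17) (nat_lit 5) (nat_lit 18) (nat_lit 4) (nat_lit 209) (nat_lit 201) (nat_lit 190))) (XT.nd (nat_lit 78) (nat_lit 152) (nat_lit 0) (XT.lf (nat_lit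 0) (nat_lit 1458994909) (nat_lit 304) (nat_lit 174233937) (nat_lit 76) (nat_lit 8782051516) (nat_lit 13) (nat_lit 5) (nat_lit 17) (nat_lit 5) (nat_lit 14) (nat_lit 5) (nat_lit 210) (nat_lit 201) (nat_lit 189)) (XT.lf (nat_lit 0) (nat_lit 3847057618) (nat_lit 228) (nat_lit 5647323438) (nat_lit 76) (nat_lit 1796487009) (nat_lit 11) (nat_lit 5) (nat_lit 14) (nat_lit 5) (nat_lit 12) (nat_lit 4) (nat_lit 211) (nat_lit 201) (nat_lit 188)))) (XT.nd (nat_lit 156) (nat_lit 152) (nat_lit 0) (XT.nd (nat_lit 78) (nat_lit 76) (nat_lit 0) (XT.lf (nat_lit 0) (nat_lit 6527721936) (nat_lit 228) (nat_lit 236220207) (nat_lit 76) (nat_lit 5544914125) (nat_lit 11) (nat_lit 5) (nat_lit 14) (nat_lit 5) (nat_lit 12) (nat_lit 4) (nat_lit 212) (nat_lit 201) (nat_lit 187)) (XT.lf (nat_lit 0) (nat_lit 6366220021) (nat_lit 76) (nat_lit 3374901840) (nat_lit 152) (nat_lit 3719887338) (nat_lit 10) (nat_lit 5) (nat_lit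 11) (nat_lit 5) (nat_lit 12) (nat_lit 4) (nat_lit 213) (nat_lit 201) (nat_lit 186))) (XT.nd (nat_lit 78) (nat_lit 152) (nat_lit 0) (XT.lf (nat_lit 0) (nat_lit 13345776291) (nat_lit 152) (nat_lit 1016447752) (nat_lit 0) (nat_lit 438297734) (nat_lit 10) (nat_lit 5) (nat_lit 12) (nat_lit 4) (nat_lit 10) (nat_lit 4) (nat_lit 214) (nat_lit 201) (nat_lit 185)) (XT.lf (nat_lit 0) (nat_lit 1369937812) (nat_lit 152) (nat_lit 10163555251) (nat_lit 76) (nat_lit 4752697584) (nat_lit 8) (nat_lit 5) (nat_lit 10) (nat_lit 5) (nat_lit 9) (nat_lit 4) (nat_lit 215) (nat_lit 201) (nat_lit 184)))))) (XT.nd (nat_lit 624) (nat_lit 76) (nat_lit 0) (XT.nd (nat_lit 312) (nat_lit 228) (nat_lit 0) (XT.nd (nat_lit 156) (nat_lit 0) (nat_lit 0) (XT.nd (nat_lit 78) (nat_lit 76) (nat_lit 0) (XT.lf (nat_lit 0) (nat_lit 4418089000) (nat_lit 152) (nat_lit 3785198017) (nat_lit 76) (nat_lit 9789333389) (nat_lit 8) (nat_lit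 5) (nat_lit 10) (nat_lit 5) (nat_lit 9) (nat_lit 4) (nat_lit 216) (nat_lit 201) (nat_lit 183)) (XT.lf (nat_lit 0) (nat_lit 3731250893) (nat_lit 76) (nat_lit 4253707295) (nat_lit 152) (nat_lit 11961360090) (nat_lit 7) (nat_lit 5) (nat_lit 8) (nat_lit 5) (nat_lit 9) (nat_lit 4) (nat_lit 217) (nat_lit 201) (nat_lit 182))) (XT.nd (nat_lit 78) (nat_lit 0) (nat_lit 0) (XT.lf (nat_lit 0) (nat_lit 12216875718) (nat_lit 152) (nat_lit 9539285567) (nat_lit 0) (nat_lit 417865936) (nat_lit 7) (nat_lit 5) (nat_lit 9) (nat_lit 4) (nat_lit 7) (nat_lit 4) (nat_lit 218) (nat_lit 201) (nat_lit 181)) (XT.lf (nat_lit 0) (nat_lit 17208568832) (nat_lit 152) (nat_lit 2199568405) (nat_lit 0) (nat_lit 5309406280) (nat_lit 7) (nat_lit 5) (nat_lit 9) (nat_lit 4) (nat_lit 7) (nat_lit 4) (nat_lit 219) (nat_lit 201) (nat_lit 180)))) (XT.nd (nat_lit 156) (nat_lit 152) (nat_lit 0) (XT.nd (nat_lit 78) (nat_lit 0) (nat_lit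 0) (XT.lf (nat_lit 0) (nat_lit 6722288847) (nat_lit 76) (nat_lit 16437630939) (nat_lit 76) (nat_lit 4451379023) (nat_lit 6) (nat_lit 4) (nat_lit 7) (nat_lit 5) (nat_lit 7) (nat_lit 4) (nat_lit 220) (nat_lit 201) (nat_lit 179)) (XT.lf (nat_lit 0) (nat_lit 17117675069) (nat_lit 76) (nat_lit 12937986386) (nat_lit 76) (nat_lit 876004588) (nat_lit 6) (nat_lit 4) (nat_lit 7) (nat_lit 5) (nat_lit 7) (nat_lit 4) (nat_lit 221) (nat_lit 201) (nat_lit 178))) (XT.nd (nat_lit 78) (nat_lit 76) (nat_lit 0) (XT.lf (nat_lit 0) (nat_lit 2889719730) (nat_lit 152) (nat_lit 5914936449) (nat_lit 76) (nat_lit 25934247165) (nat_lit 5) (nat_lit 5) (nat_lit 7) (nat_lit 5) (nat_lit 6) (nat_lit 4) (nat_lit 222) (nat_lit 201) (nat_lit 177)) (XT.lf (nat_lit 0) (nat_lit 3334338137) (nat_lit 76) (nat_lit 3884003573) (nat_lit 152) (nat_lit 31879667051) (nat_lit 4) (nat_lit 5) (nat_lit 5) (nat_lit 5) (nat_lit 6) (nat_lit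 4) (nat_lit 223) (nat_lit 201) (nat_lit 176))))) (XT.nd (nat_lit 312) (nat_lit 76) (nat_lit 0) (XT.nd (nat_lit 156) (nat_lit 0) (nat_lit 0) (XT.nd (nat_lit 78) (nat_lit 0) (nat_lit 0) (XT.lf (nat_lit 0) (nat_lit 12544745661) (nat_lit 152) (nat_lit 29608422884) (nat_lit 0) (nat_lit 1905710732) (nat_lit 4) (nat_lit 5) (nat_lit 6) (nat_lit 4) (nat_lit 4) (nat_lit 4) (nat_lit 224) (nat_lit 201) (nat_lit 175)) (XT.lf (nat_lit 0) (nat_lit 18812529712) (nat_lit 152) (nat_lit 22794294160) (nat_lit 0) (nat_lit 8135843647) (nat_lit 4) (nat_lit 5) (nat_lit 6) (nat_lit 4) (nat_lit 4) (nat_lit 4) (nat_lit 225) (nat_lit 201) (nat_lit 174))) (XT.nd (nat_lit 78) (nat_lit 0) (nat_lit 0) (XT.lf (nat_lit 0) (nat_lit 25983496116) (nat_lit 152) (nat_lit 15027136238) (nat_lit 0) (nat_lit 15274069933) (nat_lit 4) (nat_lit 5) (nat_lit 6) (nat_lit 4) (nat_lit 4) (nat_lit 4) (nat_lit 226) (nat_lit 201) (nat_lit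 173)) (XT.lf (nat_lit 0) (nat_lit 34197946389) (nat_lit 152) (nat_lit 6154982985) (nat_lit 0) (nat_lit 23460050539) (nat_lit 4) (nat_lit 5) (nat_lit 6) (nat_lit 4) (nat_lit 4) (nat_lit 4) (nat_lit 227) (nat_lit 201) (nat_lit 172)))) (XT.nd (nat_lit 156) (nat_lit 0) (nat_lit 0) (XT.nd (nat_lit 78) (nat_lit 0) (nat_lit 0) (XT.lf (nat_lit 0) (nat_lit 4386245073) (nat_lit 76) (nat_lit 39411978018) (nat_lit 76) (nat_lit 28649325935) (nat_lit 3) (nat_lit 4) (nat_lit 4) (nat_lit 5) (nat_lit 4) (nat_lit 4) (nat_lit 228) (nat_lit 201) (nat_lit 171)) (XT.lf (nat_lit 0) (nat_lit 17150526087) (nat_lit 76) (nat_lit 37983369651) (nat_lit 76) (nat_lit 27199190409) (nat_lit 3) (nat_lit 4) (nat_lit 4) (nat_lit 5) (nat_lit 4) (nat_lit 4) (nat_lit 229) (nat_lit 201) (nat_lit 170))) (XT.nd (nat_lit 78) (nat_lit 0) (nat_lit 0) (XT.lf (nat_lit 0) (nat_lit 31786086286) (nat_lit 76) (nat_lit 36360890988)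 (nat_lit 76) (nat_lit 25557992477) (nat_lit 3) (nat_lit 4) (nat_lit 4) (nat_lit 5) (nat_lit 4) (nat_lit 4) (nat_lit 230) (nat_lit 201) (nat_lit 169)) (XT.lf (nat_lit 0) (nat_lit 48579273588) (nat_lit 76) (nat_lit 34512797880) (nat_lit 76) (nat_lit 23693621744) (nat_lit 3) (nat_lit 4) (nat_lit 4) (nat_lit 5) (nat_lit 4) (nat_lit 4) (nat_lit 231) (nat_lit 201) (nat_lit 168))))))) (XT.nd (nat_lit 1170) (nat_lit 0) (nat_lit 0) (XT.nd (nat_lit 546) (nat_lit 152) (nat_lit 0) (XT.nd (nat_lit 234) (nat_lit 0) (nat_lit 0) (XT.nd (nat_lit 78) (nat_lit 0) (nat_lit 0) (XT.lf (nat_lit 0) (nat_lit 67858650353) (nat_lit 76) (nat_lit 32402931985) (nat_lit 76) (nat_lit 21569601393) (nat_lit 3) (nat_lit 4) (nat_lit 4) (nat_lit 5) (nat_lit 4) (nat_lit 4) (nat_lit 232) (nat_lit 201) (nat_lit 167)) (XT.nd (nat_lit 78) (nat_lit 0) (nat_lit 0) (XT.lf (nat_lit 0) (nat_lit 90001421779) (nat_lit 76) (nat_lit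 29990013318) (nat_lit 76) (nat_lit 19144374502) (nat_lit 3) (nat_lit 4) (nat_lit 4) (nat_lit 5) (nat_lit 4) (nat_lit 4) (nat_lit 233) (nat_lit 201) (nat_lit 166)) (XT.lf (nat_lit 0) (nat_lit 115440816002) (nat_lit 76) (nat_lit 27226832600) (nat_lit 76) (nat_lit 16370490981) (nat_lit 3) (nat_lit 4) (nat_lit 4) (nat_lit 5) (nat_lit 4) (nat_lit 4) (nat_lit 234) (nat_lit 201) (nat_lit 165)))) (XT.nd (nat_lit 156) (nat_lit 0) (nat_lit 0) (XT.nd (nat_lit 78) (nat_lit 0) (nat_lit 0) (XT.lf (nat_lit 0) (nat_lit 144674560301) (nat_lit 76) (nat_lit 24059327599) (nat_lit 76) (nat_lit 13193679196) (nat_lit 3) (nat_lit 4) (nat_lit 4) (nat_lit 5) (nat_lit 4) (nat_lit 4) (nat_lit 235) (nat_lit 201) (nat_lit 164)) (XT.lf (nat_lit 0) (nat_lit 178274619238) (nat_lit 76) (nat_lit 20425525392) (nat_lit 76) (nat_lit 9551784133) (nat_lit 3) (nat_lit 4) (nat_lit 4) (nat_lit 5) (nat_lit 4) (nat_lit 4) (nat_lit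 236) (nat_lit 201) (nat_lit 163))) (XT.nd (nat_lit 78) (nat_lit 0) (nat_lit 0) (XT.lf (nat_lit 0) (nat_lit 216898385270) (nat_lit 76) (nat_lit 16254329849) (nat_lit 76) (nat_lit 5373551323) (nat_lit 3) (nat_lit 4) (nat_lit 4) (nat_lit 5) (nat_lit 4) (nat_lit 4) (nat_lit 237) (nat_lit 201) (nat_lit 162)) (XT.lf (nat_lit 0) (nat_lit 261301540777) (nat_lit 76) (nat_lit 11464130623) (nat_lit 76) (nat_lit 577232735) (nat_lit 3) (nat_lit 4) (nat_lit 4) (nat_lit 5) (nat_lit 4) (nat_lit 4) (nat_lit 238) (nat_lit 201) (nat_lit 161))))) (XT.nd (nat_lit 312) (nat_lit 0) (nat_lit 0) (XT.nd (nat_lit 156) (nat_lit 0) (nat_lit 0) (XT.nd (nat_lit 78) (nat_lit 76) (nat_lit 0) (XT.lf (nat_lit 0) (nat_lit 4492019804) (nat_lit 152) (nat_lit 1234376492) (nat_lit 76) (nat_lit 307626013217) (nat_lit 2) (nat_lit 5) (nat_lit 4) (nat_lit 5) (nat_lit 3) (nat_lit 4) (nat_lit 239) (nat_lit 201) (nat_lit 160))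 (XT.lf (nat_lit 0) (nat_lit 10824982953) (nat_lit 152) (nat_lit 347100423110) (nat_lit 0) (nat_lit 1349464528) (nat_lit 1) (nat_lit 5) (nat_lit 3) (nat_lit 4) (nat_lit 1) (nat_lit 4) (nat_lit 240) (nat_lit 201) (nat_lit 159))) (XT.nd (nat_lit 78) (nat_lit 0) (nat_lit 0) (XT.lf (nat_lit 0) (nat_lit 18442330684) (nat_lit 152) (nat_lit 384629904584) (nat_lit 0) (nat_lit 8963313493) (nat_lit 1) (nat_lit 5) (nat_lit 3) (nat_lit 4) (nat_lit 1) (nat_lit 4) (nat_lit 241) (nat_lit 201) (nat_lit 158)) (XT.lf (nat_lit 0) (nat_lit 27197200368) (nat_lit 152) (nat_lit 427798761672) (nat_lit 0) (nat_lit 17715140773) (nat_lit 1) (nat_lit 5) (nat_lit 3) (nat_lit 4) (nat_lit 1) (nat_lit 4) (nat_lit 242) (nat_lit 201) (nat_lit 157)))) (XT.nd (nat_lit 156) (nat_lit 0) (nat_lit 0) (XT.nd (nat_lit 78) (nat_lit 0) (nat_lit 0) (XT.lf (nat_lit 0) (nat_lit 37260882935) (nat_lit 152) (nat_lit 477451602449) (nat_lit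 0) (nat_lit 27776177771) (nat_lit 1) (nat_lit 5) (nat_lit 3) (nat_lit 4) (nat_lit 1) (nat_lit 4) (nat_lit 243) (nat_lit 201) (nat_lit 156)) (XT.lf (nat_lit 0) (nat_lit 48830276522) (nat_lit 152) (nat_lit 534559895538) (nat_lit 0) (nat_lit 39343270862) (nat_lit 1) (nat_lit 5) (nat_lit 3) (nat_lit 4) (nat_lit 1) (nat_lit 4) (nat_lit 244) (nat_lit 201) (nat_lit 155))) (XT.nd (nat_lit 78) (nat_lit 0) (nat_lit 0) (XT.lf (nat_lit 0) (nat_lit 62131738828) (nat_lit 152) (nat_lit 600240977108) (nat_lit 0) (nat_lit 52642732739) (nat_lit 1) (nat_lit 5) (nat_lit 3) (nat_lit 4) (nat_lit 1) (nat_lit 4) (nat_lit 245) (nat_lit 201) (nat_lit 154)) (XT.lf (nat_lit 0) (nat_lit 77425515857) (nat_lit 152) (nat_lit 675779911799) (nat_lit 0) (nat_lit 67934770262) (nat_lit 1) (nat_lit 5) (nat_lit 3) (nat_lit 4) (nat_lit 1) (nat_lit 4) (nat_lit 246) (nat_lit 201) (nat_lit 153)))))) (XT.nd (nat_lit 624) (nat_lit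 0) (nat_lit 0) (XT.nd (nat_lit 312) (nat_lit 0) (nat_lit 0) (XT.nd (nat_lit 156) (nat_lit 0) (nat_lit 0) (XT.nd (nat_lit 78) (nat_lit 0) (nat_lit 0) (XT.lf (nat_lit 0) (nat_lit 95010833679) (nat_lit 152) (nat_lit 762654635289) (nat_lit 0) (nat_lit 85518575472) (nat_lit 1) (nat_lit 5) (nat_lit 3) (nat_lit 4) (nat_lit 1) (nat_lit 4) (nat_lit 247) (nat_lit 201) (nat_lit 152)) (XT.lf (nat_lit 0) (nat_lit 115231752862) (nat_lit 152) (nat_lit 862564870430) (nat_lit 0) (nat_lit 105738179340) (nat_lit 1) (nat_lit 5) (nat_lit 3) (nat_lit 4) (nat_lit 1) (nat_lit 4) (nat_lit 248) (nat_lit 201) (nat_lit 151))) (XT.nd (nat_lit 78) (nat_lit 0) (nat_lit 0) (XT.lf (nat_lit 0) (nat_lit 138483900085) (nat_lit 152) (nat_lit 977465382692) (nat_lit 0) (nat_lit 128989182810) (nat_lit 1) (nat_lit 5) (nat_lit 3) (nat_lit 4) (nat_lit 1) (nat_lit 4) (nat_lit 249) (nat_lit 201) (nat_lit 150)) (XT.lf (nat_lit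 0) (nat_lit 165222208663) (nat_lit 152) (nat_lit 1109604225575) (nat_lit 0) (nat_lit 155726496820) (nat_lit 1) (nat_lit 5) (nat_lit 3) (nat_lit 4) (nat_lit 1) (nat_lit 4) (nat_lit 250) (nat_lit 201) (nat_lit 149)))) (XT.nd (nat_lit 156) (nat_lit 0) (nat_lit 0) (XT.nd (nat_lit 78) (nat_lit 0) (nat_lit 0) (XT.lf (nat_lit 0) (nat_lit 195969819416) (nat_lit 152) (nat_lit 1261566724266) (nat_lit 0) (nat_lit 186473242732) (nat_lit 1) (nat_lit 5) (nat_lit 3) (nat_lit 4) (nat_lit 1) (nat_lit 4) (nat_lit 251) (nat_lit 201) (nat_lit 148)) (XT.lf (nat_lit 0) (nat_lit 231328316033) (nat_lit 152) (nat_lit 1436326058087) (nat_lit 0) (nat_lit 221830987313) (nat_lit 1) (nat_lit 5) (nat_lit 3) (nat_lit 4) (nat_lit 1) (nat_lit 4) (nat_lit 252) (nat_lit 201) (nat_lit 147))) (XT.nd (nat_lit 78) (nat_lit 0) (nat_lit 0) (XT.lf (nat_lit 0) (nat_lit 271989495186) (nat_lit 152) (nat_lit 1637301431397) (nat_lit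 0) (nat_lit 262491512522) (nat_lit 1) (nat_lit 5) (nat_lit 3) (nat_lit 4) (nat_lit 1) (nat_lit 4) (nat_lit 253) (nat_lit 201) (nat_lit 146)) (XT.lf (nat_lit 0) (nat_lit 318748901686) (nat_lit 152) (nat_lit 1868424971063) (nat_lit 0) (nat_lit 309250350375) (nat_lit 1) (nat_lit 5) (nat_lit 3) (nat_lit 4) (nat_lit 1) (nat_lit 4) (nat_lit 254) (nat_lit 201) (nat_lit 145))))) (XT.nd (nat_lit 312) (nat_lit 0) (nat_lit 0) (XT.nd (nat_lit 156) (nat_lit 0) (nat_lit 0) (XT.nd (nat_lit 78) (nat_lit 0) (nat_lit 0) (XT.lf (nat_lit 0) (nat_lit 372521393485) (nat_lit 152) (nat_lit 2134218659383) (nat_lit 0) (nat_lit 363022347698) (nat_lit 1) (nat_lit 5) (nat_lit 3) (nat_lit 4) (nat_lit 1) (nat_lit 4) (nat_lit 255) (nat_lit 201) (nat_lit 144)) (XT.lf (nat_lit 0) (nat_lit 434359041076) (nat_lit 152) (nat_lit 2439882807652) (nat_lit 0) (nat_lit 424859565310) (nat_lit 1) (nat_lit 5) (nat_lit 3) (nat_lit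 4) (nat_lit 1) (nat_lit 4) (nat_lit 256) (nat_lit 201) (nat_lit 143))) (XT.nd (nat_lit 78) (nat_lit 0) (nat_lit 0) (XT.lf (nat_lit 0) (nat_lit 505471711475) (nat_lit 152) (nat_lit 2791397801378) (nat_lit 0) (nat_lit 495971861815) (nat_lit 1) (nat_lit 5) (nat_lit 3) (nat_lit 4) (nat_lit 1) (nat_lit 4) (nat_lit 257) (nat_lit 201) (nat_lit 142)) (XT.lf (nat_lit 0) (nat_lit 587250739540) (nat_lit 152) (nat_lit 3195641107831) (nat_lit 0) (nat_lit 577750564754) (nat_lit 1) (nat_lit 5) (nat_lit 3) (nat_lit 4) (nat_lit 1) (nat_lit 4) (nat_lit 258) (nat_lit 201) (nat_lit 141)))) (XT.nd (nat_lit 156) (nat_lit 0) (nat_lit 0) (XT.nd (nat_lit 78) (nat_lit 0) (nat_lit 0) (XT.lf (nat_lit 0) (nat_lit 681296149732) (nat_lit 152) (nat_lit 3660521835179) (nat_lit 0) (nat_lit 671795692228) (nat_lit 1) (nat_lit 5) (nat_lit 3) (nat_lit 4) (nat_lit 1) (nat_lit 4) (nat_lit 259) (nat_lit 201) (nat_lit 140))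 (XT.lf (nat_lit 0) (nat_lit 789447960946) (nat_lit 152) (nat_lit 4195135475914) (nat_lit 0) (nat_lit 779947257600) (nat_lit 1) (nat_lit 5) (nat_lit 3) (nat_lit 4) (nat_lit 1) (nat_lit 4) (nat_lit 260) (nat_lit 201) (nat_lit 139))) (XT.nd (nat_lit 78) (nat_lit 0) (nat_lit 0) (XT.lf (nat_lit 0) (nat_lit 913822186880) (nat_lit 152) (nat_lit 4809941862139) (nat_lit 0) (nat_lit 904321269758) (nat_lit 1) (nat_lit 5) (nat_lit 3) (nat_lit 4) (nat_lit 1) (nat_lit 4) (nat_lit 261) (nat_lit 201) (nat_lit 138)) (XT.lf (nat_lit 0) (nat_lit 1056852236302) (nat_lit 152) (nat_lit 5516969814452) (nat_lit 0) (nat_lit 1047351133288) (nat_lit 1) (nat_lit 5) (nat_lit 3) (nat_lit 4) (nat_lit 1) (nat_lit 4) (nat_lit 262) (nat_lit 201) (nat_lit 137))))))))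
noncomputable def xc27 : XT := (XT.nd (nat_lit 27768) (nat_lit 0) (nat_lit 0) (XT.nd (nat_lit 26520) (nat_lit 0) (nat_lit 532) (XT.nd (nat_lit 546) (nat_lit 0) (nat_lit 0) (XT.nd (nat_lit 234) (nat_lit 0) (nat_lit 0) (XT.nd (nat_lit 78) (nat_lit 0) (nat_lit 0) (XT.lf (nat_lit 0) (nat_lit 1221336523222) (nat_lit 152) (nat_lit 6330052488442) (nat_lit 0) (nat_lit 1211835258563) (nat_lit 1) (nat_lit 5) (nat_lit 3) (nat_lit 4) (nat_lit 1) (nat_lit 4) (nat_lit 263) (nat_lit 201) (nat_lit 136)) (XT.nd (nat_lit 78) (nat_lit 0) (nat_lit 0) (XT.lf (nat_lit 0) (nat_lit 1410493218472) (nat_lit 152) (nat_lit 7265098023384) (nat_lit 0) (nat_lit 1400991813252) (nat_lit 1) (nat_lit 5) (nat_lit 3) (nat_lit 4) (nat_lit 1) (nat_lit 4) (nat_lit 264) (nat_lit 201) (nat_lit 135)) (XT.lf (nat_lit 0) (nat_lit 1628023213915) (nat_lit 152) (nat_lit 8340400788439) (nat_lit 0) (nat_lit 1618521686469) (nat_lit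 1) (nat_lit 5) (nat_lit 3) (nat_lit 4) (nat_lit 1) (nat_lit 4) (nat_lit 265) (nat_lit 201) (nat_lit 134)))) (XT.nd (nat_lit 156) (nat_lit 0) (nat_lit 0) (XT.nd (nat_lit 78) (nat_lit 0) (nat_lit 0) (XT.lf (nat_lit 0) (nat_lit 1878182531201) (nat_lit 152) (nat_lit 9576999315966) (nat_lit 0) (nat_lit 1868680897470) (nat_lit 1) (nat_lit 5) (nat_lit 3) (nat_lit 4) (nat_lit 1) (nat_lit 4) (nat_lit 266) (nat_lit 201) (nat_lit 133)) (XT.lf (nat_lit 0) (nat_lit 2165865591755) (nat_lit 152) (nat_lit 10999087924984) (nat_lit 0) (nat_lit 2156363865604) (nat_lit 1) (nat_lit 5) (nat_lit 3) (nat_lit 4) (nat_lit 1) (nat_lit 4) (nat_lit 267) (nat_lit 201) (nat_lit 132))) (XT.nd (nat_lit 78) (nat_lit 0) (nat_lit 0) (XT.lf (nat_lit 0) (nat_lit 2496700977198) (nat_lit 152) (nat_lit 12634490088277) (nat_lit 0) (nat_lit 2487199170680) (nat_lit 1) (nat_lit 5) (nat_lit 3) (nat_lit 4) (nat_lit 1) (nat_lit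 4) (nat_lit 268) (nat_lit 201) (nat_lit 131)) (XT.lf (nat_lit 0) (nat_lit 2877161553764) (nat_lit 152) (nat_lit 14515202804691) (nat_lit 0) (nat_lit 2867659677363) (nat_lit 1) (nat_lit 5) (nat_lit 3) (nat_lit 4) (nat_lit 1) (nat_lit 4) (nat_lit 269) (nat_lit 201) (nat_lit 130))))) (XT.nd (nat_lit 312) (nat_lit 0) (nat_lit 0) (XT.nd (nat_lit 156) (nat_lit 0) (nat_lit 0) (XT.nd (nat_lit 78) (nat_lit 0) (nat_lit 0) (XT.lf (nat_lit 0) (nat_lit 3314691115346) (nat_lit 152) (nat_lit 16678022627374) (nat_lit 0) (nat_lit 3305189178176) (nat_lit 1) (nat_lit 5) (nat_lit 3) (nat_lit 4) (nat_lit 1) (nat_lit 4) (nat_lit 270) (nat_lit 201) (nat_lit 129)) (XT.lf (nat_lit 0) (nat_lit 3817850022928) (nat_lit 152) (nat_lit 19165265596336) (nat_lit 0) (nat_lit 3808348032916) (nat_lit 1) (nat_lit 5) (nat_lit 3) (nat_lit 4) (nat_lit 1) (nat_lit 4) (nat_lit 271) (nat_lit 201) (nat_lit 128))) (XT.nd (nat_lit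 78) (nat_lit 0) (nat_lit 0) (XT.lf (nat_lit 0) (nat_lit 4396482689921) (nat_lit 152) (nat_lit 22025595160969) (nat_lit 0) (nat_lit 4386980653960) (nat_lit 1) (nat_lit 5) (nat_lit 3) (nat_lit 4) (nat_lit 1) (nat_lit 4) (nat_lit 272) (nat_lit 201) (nat_lit 127)) (XT.lf (nat_lit 0) (nat_lit 5061910190245) (nat_lit 152) (nat_lit 25314974291015) (nat_lit 0) (nat_lit 5052408114327) (nat_lit 1) (nat_lit 5) (nat_lit 3) (nat_lit 4) (nat_lit 1) (nat_lit 4) (nat_lit 273) (nat_lit 201) (nat_lit 126)))) (XT.nd (nat_lit 156) (nat_lit 0) (nat_lit 0) (XT.nd (nat_lit 78) (nat_lit 0) (nat_lit 0) (XT.lf (nat_lit 0) (nat_lit 5827151757601) (nat_lit 152) (nat_lit 29097760404237) (nat_lit 0) (nat_lit 5817649646939) (nat_lit 1) (nat_lit 5) (nat_lit 3) (nat_lit 4) (nat_lit 1) (nat_lit 4) (nat_lit 274) (nat_lit 201) (nat_lit 125)) (XT.lf (nat_lit 0) (nat_lit 6707179509611) (nat_lit 152) (nat_lit 33447964533284)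 (nat_lit 0) (nat_lit 6697677368736) (nat_lit 1) (nat_lit 5) (nat_lit 3) (nat_lit 4) (nat_lit 1) (nat_lit 4) (nat_lit 275) (nat_lit 201) (nat_lit 124))) (XT.nd (nat_lit 78) (nat_lit 0) (nat_lit 0) (XT.lf (nat_lit 0) (nat_lit 7719211380553) (nat_lit 152) (nat_lit 38450699367638) (nat_lit 0) (nat_lit 7709709213407) (nat_lit 1) (nat_lit 5) (nat_lit 3) (nat_lit 4) (nat_lit 1) (nat_lit 4) (nat_lit 276) (nat_lit 201) (nat_lit 123)) (XT.lf (nat_lit 0) (nat_lit 8883047993991) (nat_lit 152) (nat_lit 44203844501884) (nat_lit 0) (nat_lit 8873545803999) (nat_lit 1) (nat_lit 5) (nat_lit 3) (nat_lit 4) (nat_lit 1) (nat_lit 4) (nat_lit 277) (nat_lit 201) (nat_lit 122)))))) (XT.nd (nat_lit 624) (nat_lit 456) (nat_lit 0) (XT.nd (nat_lit 312) (nat_lit 380) (nat_lit 0) (XT.nd (nat_lit 156) (nat_lit 228) (nat_lit 0) (XT.nd (nat_lit 78) (nat_lit 0) (nat_lit 0) (XT.lf (nat_lit 0) (nat_lit 1438391674) (nat_lit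 228) (nat_lit 986576433) (nat_lit 228) (nat_lit 986576433) (nat_lit 22) (nat_lit 3) (nat_lit 25) (nat_lit 3) (nat_lit 25) (nat_lit 5) (nat_lit 202) (nat_lit 202) (nat_lit 196)) (XT.lf (nat_lit 76) (nat_lit 1128532583) (nat_lit 0) (nat_lit 3675169827) (nat_lit 228) (nat_lit 2250317083) (nat_lit 23) (nat_lit 5) (nat_lit 22) (nat_lit 3) (nat_lit 25) (nat_lit 5) (nat_lit 203) (nat_lit 202) (nat_lit 195))) (XT.nd (nat_lit 78) (nat_lit 228) (nat_lit 0) (XT.lf (nat_lit 76) (nat_lit 4727809182) (nat_lit 0) (nat_lit 2090790701) (nat_lit 228) (nat_lit 535444445) (nat_lit 23) (nat_lit 5) (nat_lit 22) (nat_lit 3) (nat_lit 25) (nat_lit 5) (nat_lit 204) (nat_lit 202) (nat_lit 194)) (XT.lf (nat_lit 76) (nat_lit 1002270872) (nat_lit 0) (nat_lit 67466348) (nat_lit 304) (nat_lit 6659513753) (nat_lit 20) (nat_lit 5) (nat_lit 19) (nat_lit 5) (nat_lit 23) (nat_lit 5) (nat_lit 205) (nat_lit 202) (nat_lit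 193)))) (XT.nd (nat_lit 156) (nat_lit 228) (nat_lit 0) (XT.nd (nat_lit 78) (nat_lit 228) (nat_lit 0) (XT.lf (nat_lit 0) (nat_lit 2849292985) (nat_lit 228) (nat_lit 3025294468) (nat_lit 76) (nat_lit 2286888787) (nat_lit 20) (nat_lit 5) (nat_lit 23) (nat_lit 5) (nat_lit 21) (nat_lit 5) (nat_lit 206) (nat_lit 202) (nat_lit 192)) (XT.lf (nat_lit 0) (nat_lit 1129162313) (nat_lit 228) (nat_lit 3600104669) (nat_lit 304) (nat_lit 3956701805) (nat_lit 17) (nat_lit 5) (nat_lit 20) (nat_lit 5) (nat_lit 21) (nat_lit 5) (nat_lit 207) (nat_lit 202) (nat_lit 191))) (XT.nd (nat_lit 78) (nat_lit 228) (nat_lit 0) (XT.lf (nat_lit 0) (nat_lit 6056076192) (nat_lit 228) (nat_lit 797157279) (nat_lit 304) (nat_lit 2443738130) (nat_lit 17) (nat_lit 5) (nat_lit 20) (nat_lit 5) (nat_lit 21) (nat_lit 5) (nat_lit 208) (nat_lit 202) (nat_lit 190)) (XT.lf (nat_lit 0) (nat_lit 1568062564) (nat_lit 228) (nat_lit 7722763141)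 (nat_lit 304) (nat_lit 711401772) (nat_lit 14) (nat_lit 5) (nat_lit 17) (nat_lit 5) (nat_lit 18) (nat_lit 4) (nat_lit 209) (nat_lit 202) (nat_lit 189))))) (XT.nd (nat_lit 312) (nat_lit 152) (nat_lit 0) (XT.nd (nat_lit 156) (nat_lit 76) (nat_lit 0) (XT.nd (nat_lit 78) (nat_lit 152) (nat_lit 0) (XT.lf (nat_lit 0) (nat_lit 1217518149) (nat_lit 304) (nat_lit 3626503306) (nat_lit 76) (nat_lit 5955085826) (nat_lit 13) (nat_lit 5) (nat_lit 17) (nat_lit 5) (nat_lit 14) (nat_lit 5) (nat_lit 210) (nat_lit 202) (nat_lit 188)) (XT.lf (nat_lit 0) (nat_lit 1858039666) (nat_lit 152) (nat_lit 1438639842) (nat_lit 228) (nat_lit 8424918667) (nat_lit 11) (nat_lit 5) (nat_lit 13) (nat_lit 5) (nat_lit 14) (nat_lit 5) (nat_lit 211) (nat_lit 202) (nat_lit 187))) (XT.nd (nat_lit 78) (nat_lit 76) (nat_lit 0) (XT.lf (nat_lit 0) (nat_lit 5855923686) (nat_lit 228) (nat_lit 4479904464) (nat_lit 76) (nat_lit 2422465152)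 (nat_lit 11) (nat_lit 5) (nat_lit 14) (nat_lit 5) (nat_lit 12) (nat_lit 4) (nat_lit 212) (nat_lit 202) (nat_lit 186)) (XT.lf (nat_lit 0) (nat_lit 1624747344) (nat_lit 76) (nat_lit 7194460140) (nat_lit 152) (nat_lit 5129185650) (nat_lit 10) (nat_lit 5) (nat_lit 11) (nat_lit 5) (nat_lit 12) (nat_lit 4) (nat_lit 213) (nat_lit 202) (nat_lit 185)))) (XT.nd (nat_lit 156) (nat_lit 76) (nat_lit 0) (XT.nd (nat_lit 78) (nat_lit 76) (nat_lit 0) (XT.lf (nat_lit 0) (nat_lit 8993282166) (nat_lit 76) (nat_lit 3360899395) (nat_lit 152) (nat_lit 2944549667) (nat_lit 10) (nat_lit 5) (nat_lit 11) (nat_lit 5) (nat_lit 12) (nat_lit 4) (nat_lit 214) (nat_lit 202) (nat_lit 184)) (XT.lf (nat_lit 0) (nat_lit 465593296) (nat_lit 76) (nat_lit 15921705494) (nat_lit 76) (nat_lit 469834900) (nat_lit 9) (nat_lit 4) (nat_lit 10) (nat_lit 5) (nat_lit 10) (nat_lit 4) (nat_lit 215) (nat_lit 202) (nat_lit 183))) (XT.nd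 (nat_lit 78) (nat_lit 0) (nat_lit 0) (XT.lf (nat_lit 0) (nat_lit 2576884788) (nat_lit 152) (nat_lit 10063888142) (nat_lit 76) (nat_lit 5932443222) (nat_lit 8) (nat_lit 5) (nat_lit 10) (nat_lit 5) (nat_lit 9) (nat_lit 4) (nat_lit 216) (nat_lit 202) (nat_lit 182)) (XT.lf (nat_lit 0) (nat_lit 5951633919) (nat_lit 152) (nat_lit 2940629548) (nat_lit 76) (nat_lit 11663682093) (nat_lit 8) (nat_lit 5) (nat_lit 10) (nat_lit 5) (nat_lit 9) (nat_lit 4) (nat_lit 217) (nat_lit 202) (nat_lit 181))))))) (XT.nd (nat_lit 1170) (nat_lit 152) (nat_lit 0) (XT.nd (nat_lit 546) (nat_lit 76) (nat_lit 0) (XT.nd (nat_lit 234) (nat_lit 228) (nat_lit 0) (XT.nd (nat_lit 78) (nat_lit 0) (nat_lit 0) (XT.lf (nat_lit 0) (nat_lit 5639089054) (nat_lit 76) (nat_lit 4356681742) (nat_lit 152) (nat_lit 12816236481) (nat_lit 7) (nat_lit 5) (nat_lit 8) (nat_lit 5) (nat_lit 9) (nat_lit 4) (nat_lit 218) (nat_lit 202) (nat_lit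 180)) (XT.nd (nat_lit 78) (nat_lit 0) (nat_lit 0) (XT.lf (nat_lit 0) (nat_lit 14775690093) (nat_lit 152) (nat_lit 9707349985) (nat_lit 0) (nat_lit 904411025) (nat_lit 7) (nat_lit 5) (nat_lit 9) (nat_lit 4) (nat_lit 7) (nat_lit 4) (nat_lit 219) (nat_lit 202) (nat_lit 179)) (XT.lf (nat_lit 0) (nat_lit 20421404606) (nat_lit 152) (nat_lit 1431391999) (nat_lit 0) (nat_lit 6474395655) (nat_lit 7) (nat_lit 5) (nat_lit 9) (nat_lit 4) (nat_lit 7) (nat_lit 4) (nat_lit 220) (nat_lit 202) (nat_lit 178)))) (XT.nd (nat_lit 156) (nat_lit 152) (nat_lit 0) (XT.nd (nat_lit 78) (nat_lit 0) (nat_lit 0) (XT.lf (nat_lit 0) (nat_lit 8778829675) (nat_lit 76) (nat_lit 18447656008) (nat_lit 76) (nat_lit 4434794985) (nat_lit 6) (nat_lit 4) (nat_lit 7) (nat_lit 5) (nat_lit 7) (nat_lit 4) (nat_lit 221) (nat_lit 202) (nat_lit 177)) (XT.lf (nat_lit 0) (nat_lit 20596802416) (nat_lit 76) (nat_lit 14482493412) (nat_lit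 76) (nat_lit 412369718) (nat_lit 6) (nat_lit 4) (nat_lit 7) (nat_lit 5) (nat_lit 7) (nat_lit 4) (nat_lit 222) (nat_lit 202) (nat_lit 176))) (XT.nd (nat_lit 78) (nat_lit 76) (nat_lit 0) (XT.lf (nat_lit 0) (nat_lit 3794535409) (nat_lit 152) (nat_lit 5961666189) (nat_lit 76) (nat_lit 30120975269) (nat_lit 5) (nat_lit 5) (nat_lit 7) (nat_lit 5) (nat_lit 6) (nat_lit 4) (nat_lit 223) (nat_lit 202) (nat_lit 175)) (XT.lf (nat_lit 0) (nat_lit 4636794553) (nat_lit 76) (nat_lit 4107396460) (nat_lit 152) (nat_lit 36150438424) (nat_lit 4) (nat_lit 5) (nat_lit 5) (nat_lit 5) (nat_lit 6) (nat_lit 4) (nat_lit 224) (nat_lit 202) (nat_lit 174))))) (XT.nd (nat_lit 312) (nat_lit 76) (nat_lit 0) (XT.nd (nat_lit 156) (nat_lit 0) (nat_lit 0) (XT.nd (nat_lit 78) (nat_lit 0) (nat_lit 0) (XT.lf (nat_lit 0) (nat_lit 14824694092) (nat_lit 152) (nat_lit 33305762568) (nat_lit 0) (nat_lit 2476113864) (nat_lit 4)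 (nat_lit 5) (nat_lit 6) (nat_lit 4) (nat_lit 4) (nat_lit 4) (nat_lit 225) (nat_lit 202) (nat_lit 173)) (XT.lf (nat_lit 0) (nat_lit 21980701848) (nat_lit 152) (nat_lit 25566548068) (nat_lit 0) (nat_lit 9603651953) (nat_lit 4) (nat_lit 5) (nat_lit 6) (nat_lit 4) (nat_lit 4) (nat_lit 4) (nat_lit 226) (nat_lit 202) (nat_lit 172))) (XT.nd (nat_lit 78) (nat_lit 0) (nat_lit 0) (XT.lf (nat_lit 0) (nat_lit 30182144602) (nat_lit 152) (nat_lit 16718693443) (nat_lit 0) (nat_lit 17780338474) (nat_lit 4) (nat_lit 5) (nat_lit 6) (nat_lit 4) (nat_lit 4) (nat_lit 4) (nat_lit 227) (nat_lit 202) (nat_lit 171)) (XT.lf (nat_lit 0) (nat_lit 39589485364) (nat_lit 152) (nat_lit 6589088493) (nat_lit 0) (nat_lit 27166152076) (nat_lit 4) (nat_lit 5) (nat_lit 6) (nat_lit 4) (nat_lit 4) (nat_lit 4) (nat_lit 228) (nat_lit 202) (nat_lit 170)))) (XT.nd (nat_lit 156) (nat_lit 0) (nat_lit 0) (XT.nd (nat_lit 78) (nat_lit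 0) (nat_lit 0) (XT.lf (nat_lit 0) (nat_lit 5511090050) (nat_lit 76) (nat_lit 45103893236) (nat_lit 76) (nat_lit 32661840680) (nat_lit 3) (nat_lit 4) (nat_lit 4) (nat_lit 5) (nat_lit 4) (nat_lit 4) (nat_lit 229) (nat_lit 202) (nat_lit 169)) (XT.lf (nat_lit 0) (nat_lit 20129112144) (nat_lit 76) (nat_lit 43489673808) (nat_lit 76) (nat_lit 31031343627) (nat_lit 3) (nat_lit 4) (nat_lit 4) (nat_lit 5) (nat_lit 4) (nat_lit 4) (nat_lit 230) (nat_lit 202) (nat_lit 168))) (XT.nd (nat_lit 78) (nat_lit 0) (nat_lit 0) (XT.lf (nat_lit 0) (nat_lit 36907048919) (nat_lit 76) (nat_lit 41648762644) (nat_lit 76) (nat_lit 29176278006) (nat_lit 3) (nat_lit 4) (nat_lit 4) (nat_lit 5) (nat_lit 4) (nat_lit 4) (nat_lit 231) (nat_lit 202) (nat_lit 167)) (XT.lf (nat_lit 0) (nat_lit 56173164357) (nat_lit 76) (nat_lit 39545141917) (nat_lit 76) (nat_lit 27060349057) (nat_lit 3) (nat_lit 4) (nat_lit 4) (nat_lit 5)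 (nat_lit 4) (nat_lit 4) (nat_lit 232) (nat_lit 202) (nat_lit 166)))))) (XT.nd (nat_lit 624) (nat_lit 76) (nat_lit 0) (XT.nd (nat_lit 312) (nat_lit 76) (nat_lit 0) (XT.nd (nat_lit 156) (nat_lit 0) (nat_lit 0) (XT.nd (nat_lit 78) (nat_lit 0) (nat_lit 0) (XT.lf (nat_lit 0) (nat_lit 78304404194) (nat_lit 76) (nat_lit 37137653831) (nat_lit 76) (nat_lit 24642158168) (nat_lit 3) (nat_lit 4) (nat_lit 4) (nat_lit 5) (nat_lit 4) (nat_lit 4) (nat_lit 233) (nat_lit 202) (nat_lit 165)) (XT.lf (nat_lit 0) (nat_lit 103733770948) (nat_lit 76) (nat_lit 34379195357) (nat_lit 76) (nat_lit 21874392909) (nat_lit 3) (nat_lit 4) (nat_lit 4) (nat_lit 5) (nat_lit 4) (nat_lit 4) (nat_lit 234) (nat_lit 202) (nat_lit 164))) (XT.nd (nat_lit 78) (nat_lit 0) (nat_lit 0) (XT.lf (nat_lit 0) (nat_lit 132958795709) (nat_lit 76) (nat_lit 31215796656) (nat_lit 76) (nat_lit 18702901351) (nat_lit 3) (nat_lit 4) (nat_lit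 4) (nat_lit 5) (nat_lit 4) (nat_lit 4) (nat_lit 235) (nat_lit 202) (nat_lit 163)) (XT.lf (nat_lit 0) (nat_lit 166551272439) (nat_lit 76) (nat_lit 27585565145) (nat_lit 76) (nat_lit 15065632573) (nat_lit 3) (nat_lit 4) (nat_lit 4) (nat_lit 5) (nat_lit 4) (nat_lit 4) (nat_lit 236) (nat_lit 202) (nat_lit 162)))) (XT.nd (nat_lit 156) (nat_lit 76) (nat_lit 0) (XT.nd (nat_lit 78) (nat_lit 0) (nat_lit 0) (XT.lf (nat_lit 0) (nat_lit 205168445248) (nat_lit 76) (nat_lit 23417474554) (nat_lit 76) (nat_lit 10891422621) (nat_lit 3) (nat_lit 4) (nat_lit 4) (nat_lit 5) (nat_lit 4) (nat_lit 4) (nat_lit 237) (nat_lit 202) (nat_lit 161)) (XT.lf (nat_lit 0) (nat_lit 249565867517) (nat_lit 76) (nat_lit 18629975286) (nat_lit 76) (nat_lit 6098602168) (nat_lit 3) (nat_lit 4) (nat_lit 4) (nat_lit 5) (nat_lit 4) (nat_lit 4) (nat_lit 238) (nat_lit 202) (nat_lit 160))) (XT.nd (nat_lit 78) (nat_lit 76) (nat_lit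 0) (XT.lf (nat_lit 0) (nat_lit 300612184464) (nat_lit 76) (nat_lit 13129398876) (nat_lit 76) (nat_lit 593398641) (nat_lit 3) (nat_lit 4) (nat_lit 4) (nat_lit 5) (nat_lit 4) (nat_lit 4) (nat_lit 239) (nat_lit 202) (nat_lit 159)) (XT.lf (nat_lit 0) (nat_lit 5221605225) (nat_lit 152) (nat_lit 1313572580) (nat_lit 76) (nat_lit 353811575606) (nat_lit 2) (nat_lit 5) (nat_lit 4) (nat_lit 5) (nat_lit 3) (nat_lit 4) (nat_lit 240) (nat_lit 202) (nat_lit 158))))) (XT.nd (nat_lit 312) (nat_lit 0) (nat_lit 0) (XT.nd (nat_lit 156) (nat_lit 0) (nat_lit 0) (XT.nd (nat_lit 78) (nat_lit 0) (nat_lit 0) (XT.lf (nat_lit 0) (nat_lit 12503431217) (nat_lit 152) (nat_lit 399058313987) (nat_lit 0) (nat_lit 1596020278) (nat_lit 1) (nat_lit 5) (nat_lit 3) (nat_lit 4) (nat_lit 1) (nat_lit 4) (nat_lit 241) (nat_lit 202) (nat_lit 157)) (XT.lf (nat_lit 0) (nat_lit 21256246217) (nat_lit 152) (nat_lit 442231196715)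 (nat_lit 0) (nat_lit 10346189709) (nat_lit 1) (nat_lit 5) (nat_lit 3) (nat_lit 4) (nat_lit 1) (nat_lit 4) (nat_lit 242) (nat_lit 202) (nat_lit 156))) (XT.nd (nat_lit 78) (nat_lit 0) (nat_lit 0) (XT.lf (nat_lit 0) (nat_lit 31318142103) (nat_lit 152) (nat_lit 491887538048) (nat_lit 0) (nat_lit 20405785100) (nat_lit 1) (nat_lit 5) (nat_lit 3) (nat_lit 4) (nat_lit 1) (nat_lit 4) (nat_lit 243) (nat_lit 202) (nat_lit 155)) (XT.lf (nat_lit 0) (nat_lit 42885982053) (nat_lit 152) (nat_lit 548998875099) (nat_lit 0) (nat_lit 31971624619) (nat_lit 1) (nat_lit 5) (nat_lit 3) (nat_lit 4) (nat_lit 1) (nat_lit 4) (nat_lit 244) (nat_lit 202) (nat_lit 154)))) (XT.nd (nat_lit 156) (nat_lit 0) (nat_lit 0) (XT.nd (nat_lit 78) (nat_lit 0) (nat_lit 0) (XT.lf (nat_lit 0) (nat_lit 56186093372) (nat_lit 152) (nat_lit 614682603592) (nat_lit 0) (nat_lit 45269996433) (nat_lit 1) (nat_lit 5) (nat_lit 3) (nat_lit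 4) (nat_lit 1) (nat_lit 4) (nat_lit 245) (nat_lit 202) (nat_lit 153)) (XT.lf (nat_lit 0) (nat_lit 71478695628) (nat_lit 152) (nat_lit 690223839956) (nat_lit 0) (nat_lit 60561086077) (nat_lit 1) (nat_lit 5) (nat_lit 3) (nat_lit 4) (nat_lit 1) (nat_lit 4) (nat_lit 246) (nat_lit 202) (nat_lit 152))) (XT.nd (nat_lit 78) (nat_lit 0) (nat_lit 0) (XT.lf (nat_lit 0) (nat_lit 89062991909) (nat_lit 152) (nat_lit 777100564901) (nat_lit 0) (nat_lit 78144067043) (nat_lit 1) (nat_lit 5) (nat_lit 3) (nat_lit 4) (nat_lit 1) (nat_lit 4) (nat_lit 247) (nat_lit 202) (nat_lit 151)) (XT.lf (nat_lit 0) (nat_lit 109283022796) (nat_lit 152) (nat_lit 877012540437) (nat_lit 0) (nat_lit 98362954177) (nat_lit 1) (nat_lit 5) (nat_lit 3) (nat_lit 4) (nat_lit 1) (nat_lit 4) (nat_lit 248) (nat_lit 202) (nat_lit 150))))))))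
noncomputable def xc28 : XT := (XT.nd (nat_lit 27924) (nat_lit 0) (nat_lit 152) (XT.nd (nat_lit 1170) (nat_lit 0) (nat_lit 0) (XT.nd (nat_lit 546) (nat_lit 0) (nat_lit 0) (XT.nd (nat_lit 234) (nat_lit 0) (nat_lit 0) (XT.nd (nat_lit 78) (nat_lit 0) (nat_lit 0) (XT.lf (nat_lit 0) (nat_lit 132534397587) (nat_lit 152) (nat_lit 991914566085) (nat_lit 0) (nat_lit 121613334401) (nat_lit 1) (nat_lit 5) (nat_lit 3) (nat_lit 4) (nat_lit 1) (nat_lit 4) (nat_lit 249) (nat_lit 202) (nat_lit 149)) (XT.nd (nat_lit 78) (nat_lit 0) (nat_lit 0) (XT.lf (nat_lit 0) (nat_lit 159272034485) (nat_lit 152) (nat_lit 1124054724957) (nat_lit 0) (nat_lit 148350106457) (nat_lit 1) (nat_lit 5) (nat_lit 3) (nat_lit 4) (nat_lit 1) (nat_lit 4) (nat_lit 250) (nat_lit 202) (nat_lit 148)) (XT.lf (nat_lit 0) (nat_lit 190019061169) (nat_lit 152) (nat_lit 1276018367986) (nat_lit 0) (nat_lit 179096381105) (nat_lit 1) (nat_lit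 5) (nat_lit 3) (nat_lit 4) (nat_lit 1) (nat_lit 4) (nat_lit 251) (nat_lit 202) (nat_lit 147)))) (XT.nd (nat_lit 156) (nat_lit 0) (nat_lit 0) (XT.nd (nat_lit 78) (nat_lit 0) (nat_lit 0) (XT.lf (nat_lit 0) (nat_lit 225377049899) (nat_lit 152) (nat_lit 1450778696884) (nat_lit 0) (nat_lit 214453715891) (nat_lit 1) (nat_lit 5) (nat_lit 3) (nat_lit 4) (nat_lit 1) (nat_lit 4) (nat_lit 252) (nat_lit 202) (nat_lit 146)) (XT.lf (nat_lit 0) (nat_lit 266037787412) (nat_lit 152) (nat_lit 1651754935477) (nat_lit 0) (nat_lit 255113884757) (nat_lit 1) (nat_lit 5) (nat_lit 3) (nat_lit 4) (nat_lit 1) (nat_lit 4) (nat_lit 253) (nat_lit 202) (nat_lit 145))) (XT.nd (nat_lit 78) (nat_lit 0) (nat_lit 0) (XT.lf (nat_lit 0) (nat_lit 312796809877) (nat_lit 152) (nat_lit 1882879227564) (nat_lit 0) (nat_lit 301872412746) (nat_lit 1) (nat_lit 5) (nat_lit 3) (nat_lit 4) (nat_lit 1) (nat_lit 4) (nat_lit 254) (nat_lit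 202) (nat_lit 144)) (XT.lf (nat_lit 0) (nat_lit 366568967732) (nat_lit 152) (nat_lit 2148673570164) (nat_lit 0) (nat_lit 355644140623) (nat_lit 1) (nat_lit 5) (nat_lit 3) (nat_lit 4) (nat_lit 1) (nat_lit 4) (nat_lit 255) (nat_lit 202) (nat_lit 143))))) (XT.nd (nat_lit 312) (nat_lit 0) (nat_lit 0) (XT.nd (nat_lit 156) (nat_lit 0) (nat_lit 0) (XT.nd (nat_lit 78) (nat_lit 0) (nat_lit 0) (XT.lf (nat_lit 0) (nat_lit 428406324937) (nat_lit 152) (nat_lit 2454338287371) (nat_lit 0) (nat_lit 417481123933) (nat_lit 1) (nat_lit 5) (nat_lit 3) (nat_lit 4) (nat_lit 1) (nat_lit 4) (nat_lit 256) (nat_lit 202) (nat_lit 142)) (XT.lf (nat_lit 0) (nat_lit 499518742828) (nat_lit 152) (nat_lit 2805853775826) (nat_lit 0) (nat_lit 488593216698) (nat_lit 1) (nat_lit 5) (nat_lit 3) (nat_lit 4) (nat_lit 1) (nat_lit 4) (nat_lit 257) (nat_lit 202) (nat_lit 141))) (XT.nd (nat_lit 78) (nat_lit 0) (nat_lit 0) (XT.lf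 (nat_lit 0) (nat_lit 581297551319) (nat_lit 152) (nat_lit 3210097512477) (nat_lit 0) (nat_lit 570371742471) (nat_lit 1) (nat_lit 5) (nat_lit 3) (nat_lit 4) (nat_lit 1) (nat_lit 4) (nat_lit 258) (nat_lit 202) (nat_lit 140)) (XT.lf (nat_lit 0) (nat_lit 675342770578) (nat_lit 152) (nat_lit 3674978613911) (nat_lit 0) (nat_lit 664416715888) (nat_lit 1) (nat_lit 5) (nat_lit 3) (nat_lit 4) (nat_lit 1) (nat_lit 4) (nat_lit 259) (nat_lit 202) (nat_lit 139)))) (XT.nd (nat_lit 156) (nat_lit 0) (nat_lit 0) (XT.nd (nat_lit 78) (nat_lit 0) (nat_lit 0) (XT.lf (nat_lit 0) (nat_lit 783494415763) (nat_lit 152) (nat_lit 4209592579939) (nat_lit 0) (nat_lit 772568147297) (nat_lit 1) (nat_lit 5) (nat_lit 3) (nat_lit 4) (nat_lit 1) (nat_lit 4) (nat_lit 260) (nat_lit 202) (nat_lit 138)) (XT.lf (nat_lit 0) (nat_lit 907868497323) (nat_lit 152) (nat_lit 4824399249026) (nat_lit 0) (nat_lit 896942042966) (nat_lit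 1) (nat_lit 5) (nat_lit 3) (nat_lit 4) (nat_lit 1) (nat_lit 4) (nat_lit 261) (nat_lit 202) (nat_lit 137))) (XT.nd (nat_lit 78) (nat_lit 0) (nat_lit 0) (XT.lf (nat_lit 0) (nat_lit 1050898421203) (nat_lit 152) (nat_lit 5531427447307) (nat_lit 0) (nat_lit 1039971805201) (nat_lit 1) (nat_lit 5) (nat_lit 3) (nat_lit 4) (nat_lit 1) (nat_lit 4) (nat_lit 262) (nat_lit 202) (nat_lit 136)) (XT.lf (nat_lit 0) (nat_lit 1215382598957) (nat_lit 152) (nat_lit 6344510335183) (nat_lit 0) (nat_lit 1204455842394) (nat_lit 1) (nat_lit 5) (nat_lit 3) (nat_lit 4) (nat_lit 1) (nat_lit 4) (nat_lit 263) (nat_lit 202) (nat_lit 135)))))) (XT.nd (nat_lit 624) (nat_lit 0) (nat_lit 0) (XT.nd (nat_lit 312) (nat_lit 0) (nat_lit 0) (XT.nd (nat_lit 156) (nat_lit 0) (nat_lit 0) (XT.nd (nat_lit 78) (nat_lit 0) (nat_lit 0) (XT.lf (nat_lit 0) (nat_lit 1404539199279) (nat_lit 152) (nat_lit 7279556056111) (nat_lit 0) (nat_lit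 1393612320489) (nat_lit 1) (nat_lit 5) (nat_lit 3) (nat_lit 4) (nat_lit 1) (nat_lit 4) (nat_lit 264) (nat_lit 202) (nat_lit 134)) (XT.lf (nat_lit 0) (nat_lit 1622069112177) (nat_lit 152) (nat_lit 8354858982894) (nat_lit 0) (nat_lit 1611142127102) (nat_lit 1) (nat_lit 5) (nat_lit 3) (nat_lit 4) (nat_lit 1) (nat_lit 4) (nat_lit 265) (nat_lit 202) (nat_lit 133))) (XT.nd (nat_lit 78) (nat_lit 0) (nat_lit 0) (XT.lf (nat_lit 0) (nat_lit 1872228357684) (nat_lit 152) (nat_lit 9591457651055) (nat_lit 0) (nat_lit 1861301280188) (nat_lit 1) (nat_lit 5) (nat_lit 3) (nat_lit 4) (nat_lit 1) (nat_lit 4) (nat_lit 266) (nat_lit 202) (nat_lit 132)) (XT.lf (nat_lit 0) (nat_lit 2159911355822) (nat_lit 152) (nat_lit 11013546382361) (nat_lit 0) (nat_lit 2148984197960) (nat_lit 1) (nat_lit 5) (nat_lit 3) (nat_lit 4) (nat_lit 1) (nat_lit 4) (nat_lit 267) (nat_lit 202) (nat_lit 131)))) (XT.nd (nat_lit 156)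 (nat_lit 0) (nat_lit 0) (XT.nd (nat_lit 78) (nat_lit 0) (nat_lit 0) (XT.lf (nat_lit 0) (nat_lit 2490746686989) (nat_lit 152) (nat_lit 12648948651993) (nat_lit 0) (nat_lit 2479819459244) (nat_lit 1) (nat_lit 5) (nat_lit 3) (nat_lit 4) (nat_lit 1) (nat_lit 4) (nat_lit 268) (nat_lit 202) (nat_lit 130)) (XT.lf (nat_lit 0) (nat_lit 2871207216360) (nat_lit 152) (nat_lit 14529661460875) (nat_lit 0) (nat_lit 2860279927846) (nat_lit 1) (nat_lit 5) (nat_lit 3) (nat_lit 4) (nat_lit 1) (nat_lit 4) (nat_lit 269) (nat_lit 202) (nat_lit 129))) (XT.nd (nat_lit 78) (nat_lit 0) (nat_lit 0) (XT.lf (nat_lit 0) (nat_lit 3308736736901) (nat_lit 152) (nat_lit 16692481363966) (nat_lit 0) (nat_lit 3297809395546) (nat_lit 1) (nat_lit 5) (nat_lit 3) (nat_lit 4) (nat_lit 1) (nat_lit 4) (nat_lit 270) (nat_lit 202) (nat_lit 128)) (XT.lf (nat_lit 0) (nat_lit 3811895608797) (nat_lit 152) (nat_lit 19179724402847)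 (nat_lit 0) (nat_lit 3800968221492) (nat_lit 1) (nat_lit 5) (nat_lit 3) (nat_lit 4) (nat_lit 1) (nat_lit 4) (nat_lit 271) (nat_lit 202) (nat_lit 127))))) (XT.nd (nat_lit 312) (nat_lit 0) (nat_lit 0) (XT.nd (nat_lit 156) (nat_lit 0) (nat_lit 0) (XT.nd (nat_lit 78) (nat_lit 0) (nat_lit 0) (XT.lf (nat_lit 0) (nat_lit 4390528244758) (nat_lit 152) (nat_lit 22040054028279) (nat_lit 0) (nat_lit 4379600817497) (nat_lit 1) (nat_lit 5) (nat_lit 3) (nat_lit 4) (nat_lit 1) (nat_lit 4) (nat_lit 272) (nat_lit 202) (nat_lit 126)) (XT.lf (nat_lit 0) (nat_lit 5055955718097) (nat_lit 152) (nat_lit 25329433211195) (nat_lit 0) (nat_lit 5045028256092) (nat_lit 1) (nat_lit 5) (nat_lit 3) (nat_lit 4) (nat_lit 1) (nat_lit 4) (nat_lit 273) (nat_lit 202) (nat_lit 125))) (XT.nd (nat_lit 78) (nat_lit 0) (nat_lit 0) (XT.lf (nat_lit 0) (nat_lit 5821197261988) (nat_lit 152) (nat_lit 29112219370389) (nat_lit 0) (nat_lit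 5810269769770) (nat_lit 1) (nat_lit 5) (nat_lit 3) (nat_lit 4) (nat_lit 1) (nat_lit 4) (nat_lit 274) (nat_lit 202) (nat_lit 124)) (XT.lf (nat_lit 0) (nat_lit 6701224993594) (nat_lit 152) (nat_lit 33462423539413) (nat_lit 0) (nat_lit 6690297475104) (nat_lit 1) (nat_lit 5) (nat_lit 3) (nat_lit 4) (nat_lit 1) (nat_lit 4) (nat_lit 275) (nat_lit 202) (nat_lit 123)))) (XT.nd (nat_lit 25662) (nat_lit 0) (nat_lit 1368) (XT.nd (nat_lit 25584) (nat_lit 0) (nat_lit 1596) (XT.lf (nat_lit 0) (nat_lit 7713256846795) (nat_lit 152) (nat_lit 38465158408530) (nat_lit 0) (nat_lit 7702329305459) (nat_lit 1) (nat_lit 5) (nat_lit 3) (nat_lit 4) (nat_lit 1) (nat_lit 4) (nat_lit 276) (nat_lit 202) (nat_lit 122)) (XT.lf (nat_lit 0) (nat_lit 3249660103) (nat_lit 228) (nat_lit 205580750) (nat_lit 228) (nat_lit 205580750) (nat_lit 22) (nat_lit 3) (nat_lit 25) (nat_lit 3) (nat_lit 25) (nat_lit 5) (nat_lit 203)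 (nat_lit 203) (nat_lit 194))) (XT.nd (nat_lit 78) (nat_lit 0) (nat_lit 0) (XT.lf (nat_lit 0) (nat_lit 663034023) (nat_lit 228) (nat_lit 4603478073) (nat_lit 304) (nat_lit 2373631224) (nat_lit 19) (nat_lit 5) (nat_lit 22) (nat_lit 3) (nat_lit 23) (nat_lit 5) (nat_lit 204) (nat_lit 203) (nat_lit 193)) (XT.lf (nat_lit 0) (nat_lit 2065587819) (nat_lit 228) (nat_lit 1165391396) (nat_lit 304) (nat_lit 4805602634) (nat_lit 19) (nat_lit 5) (nat_lit 22) (nat_lit 3) (nat_lit 23) (nat_lit 5) (nat_lit 205) (nat_lit 203) (nat_lit 192))))))) (XT.nd (nat_lit 1170) (nat_lit 304) (nat_lit 0) (XT.nd (nat_lit 546) (nat_lit 304) (nat_lit 0) (XT.nd (nat_lit 234) (nat_lit 456) (nat_lit 0) (XT.nd (nat_lit 78) (nat_lit 152) (nat_lit 0) (XT.lf (nat_lit 76) (nat_lit 2898744004) (nat_lit 0) (nat_lit 687696222) (nat_lit 304) (nat_lit 4922314822) (nat_lit 20) (nat_lit 5) (nat_lit 19) (nat_lit 5) (nat_lit 23) (nat_lit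 5) (nat_lit 206) (nat_lit 203) (nat_lit 191)) (XT.nd (nat_lit 78) (nat_lit 228) (nat_lit 0) (XT.lf (nat_lit 0) (nat_lit 5303625256) (nat_lit 228) (nat_lit 1608410880) (nat_lit 76) (nat_lit 2146623220) (nat_lit 20) (nat_lit 5) (nat_lit 23) (nat_lit 5) (nat_lit 21) (nat_lit 5) (nat_lit 207) (nat_lit 203) (nat_lit 190)) (XT.lf (nat_lit 0) (nat_lit 3084183612) (nat_lit 228) (nat_lit 4190968314) (nat_lit 304) (nat_lit 2418240057) (nat_lit 17) (nat_lit 5) (nat_lit 20) (nat_lit 5) (nat_lit 21) (nat_lit 5) (nat_lit 208) (nat_lit 203) (nat_lit 189)))) (XT.nd (nat_lit 156) (nat_lit 152) (nat_lit 0) (XT.nd (nat_lit 78) (nat_lit 304) (nat_lit 0) (XT.lf (nat_lit 0) (nat_lit 8517224101) (nat_lit 228) (nat_lit 960946475) (nat_lit 304) (nat_lit 956414485) (nat_lit 17) (nat_lit 5) (nat_lit 20) (nat_lit 5) (nat_lit 21) (nat_lit 5) (nat_lit 209) (nat_lit 203) (nat_lit 188)) (XT.lf (nat_lit 0) (nat_lit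 796619854) (nat_lit 304) (nat_lit 7772420221) (nat_lit 76) (nat_lit 2694169343) (nat_lit 13) (nat_lit 5) (nat_lit 17) (nat_lit 5) (nat_lit 14) (nat_lit 5) (nat_lit 210) (nat_lit 203) (nat_lit 187))) (XT.nd (nat_lit 78) (nat_lit 152) (nat_lit 0) (XT.lf (nat_lit 0) (nat_lit 2740926657) (nat_lit 304) (nat_lit 2524397798) (nat_lit 76) (nat_lit 6941097944) (nat_lit 13) (nat_lit 5) (nat_lit 17) (nat_lit 5) (nat_lit 14) (nat_lit 5) (nat_lit 211) (nat_lit 203) (nat_lit 186)) (XT.lf (nat_lit 0) (nat_lit 3708004757) (nat_lit 152) (nat_lit 1314135503) (nat_lit 228) (nat_lit 8263111334) (nat_lit 11) (nat_lit 5) (nat_lit 13) (nat_lit 5) (nat_lit 14) (nat_lit 5) (nat_lit 212) (nat_lit 203) (nat_lit 185))))) (XT.nd (nat_lit 312) (nat_lit 76) (nat_lit 0) (XT.nd (nat_lit 156) (nat_lit 152) (nat_lit 0) (XT.nd (nat_lit 78) (nat_lit 76) (nat_lit 0) (XT.lf (nat_lit 0) (nat_lit 7816964357) (nat_lit 228)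 (nat_lit 3628625492) (nat_lit 76) (nat_lit 3055403994) (nat_lit 11) (nat_lit 5) (nat_lit 14) (nat_lit 5) (nat_lit 12) (nat_lit 4) (nat_lit 213) (nat_lit 203) (nat_lit 184)) (XT.lf (nat_lit 0) (nat_lit 3322484786) (nat_lit 76) (nat_lit 7821248534) (nat_lit 152) (nat_lit 4739154131) (nat_lit 10) (nat_lit 5) (nat_lit 11) (nat_lit 5) (nat_lit 12) (nat_lit 4) (nat_lit 214) (nat_lit 203) (nat_lit 183))) (XT.nd (nat_lit 78) (nat_lit 152) (nat_lit 0) (XT.lf (nat_lit 0) (nat_lit 11606644352) (nat_lit 76) (nat_lit 3471659845) (nat_lit 152) (nat_lit 2378050059) (nat_lit 10) (nat_lit 5) (nat_lit 11) (nat_lit 5) (nat_lit 12) (nat_lit 4) (nat_lit 215) (nat_lit 203) (nat_lit 182)) (XT.lf (nat_lit 0) (nat_lit 378623577) (nat_lit 152) (nat_lit 17415550191) (nat_lit 76) (nat_lit 1459318030) (nat_lit 8) (nat_lit 5) (nat_lit 10) (nat_lit 5) (nat_lit 9) (nat_lit 4) (nat_lit 216) (nat_lit 203) (nat_lit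 181)))) (XT.nd (nat_lit 156) (nat_lit 76) (nat_lit 0) (XT.nd (nat_lit 78) (nat_lit 0) (nat_lit 0) (XT.lf (nat_lit 0) (nat_lit 3720662348) (nat_lit 152) (nat_lit 10345342519) (nat_lit 76) (nat_lit 7175308571) (nat_lit 8) (nat_lit 5) (nat_lit 10) (nat_lit 5) (nat_lit 9) (nat_lit 4) (nat_lit 217) (nat_lit 203) (nat_lit 180)) (XT.lf (nat_lit 0) (nat_lit 7502852782) (nat_lit 152) (nat_lit 2313785855) (nat_lit 76) (nat_lit 13720189942) (nat_lit 8) (nat_lit 5) (nat_lit 10) (nat_lit 5) (nat_lit 9) (nat_lit 4) (nat_lit 218) (nat_lit 203) (nat_lit 179))) (XT.nd (nat_lit 78) (nat_lit 0) (nat_lit 0) (XT.lf (nat_lit 0) (nat_lit 7504347896) (nat_lit 76) (nat_lit 4605585405) (nat_lit 152) (nat_lit 14028405319) (nat_lit 7) (nat_lit 5) (nat_lit 8) (nat_lit 5) (nat_lit 9) (nat_lit 4) (nat_lit 219) (nat_lit 203) (nat_lit 178)) (XT.lf (nat_lit 0) (nat_lit 17541217912) (nat_lit 152) (nat_lit 10208572772)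 (nat_lit 0) (nat_lit 1360575664) (nat_lit 7) (nat_lit 5) (nat_lit 9) (nat_lit 4) (nat_lit 7) (nat_lit 4) (nat_lit 220) (nat_lit 203) (nat_lit 177)))))) (XT.nd (nat_lit 624) (nat_lit 76) (nat_lit 0) (XT.nd (nat_lit 312) (nat_lit 76) (nat_lit 0) (XT.nd (nat_lit 156) (nat_lit 76) (nat_lit 0) (XT.nd (nat_lit 78) (nat_lit 76) (nat_lit 0) (XT.lf (nat_lit 0) (nat_lit 23962158171) (nat_lit 152) (nat_lit 815770616) (nat_lit 0) (nat_lit 7724253252) (nat_lit 7) (nat_lit 5) (nat_lit 9) (nat_lit 4) (nat_lit 7) (nat_lit 4) (nat_lit 221) (nat_lit 203) (nat_lit 176)) (XT.lf (nat_lit 0) (nat_lit 10888242028) (nat_lit 76) (nat_lit 20870290554) (nat_lit 76) (nat_lit 4582592009) (nat_lit 6) (nat_lit 4) (nat_lit 7) (nat_lit 5) (nat_lit 7) (nat_lit 4) (nat_lit 222) (nat_lit 203) (nat_lit 175))) (XT.nd (nat_lit 78) (nat_lit 76) (nat_lit 0) (XT.lf (nat_lit 0) (nat_lit 24375529650) (nat_lit 76) (nat_lit 16355290159)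 (nat_lit 76) (nat_lit 24292807) (nat_lit 6) (nat_lit 4) (nat_lit 7) (nat_lit 5) (nat_lit 7) (nat_lit 4) (nat_lit 223) (nat_lit 203) (nat_lit 174)) (XT.lf (nat_lit 0) (nat_lit 4720129875) (nat_lit 152) (nat_lit 6220369253) (nat_lit 76) (nat_lit 34863386987) (nat_lit 5) (nat_lit 5) (nat_lit 7) (nat_lit 5) (nat_lit 6) (nat_lit 4) (nat_lit 224) (nat_lit 203) (nat_lit 173)))) (XT.nd (nat_lit 156) (nat_lit 0) (nat_lit 0) (XT.nd (nat_lit 78) (nat_lit 0) (nat_lit 0) (XT.lf (nat_lit 0) (nat_lit 5938972106) (nat_lit 76) (nat_lit 4451893340) (nat_lit 152) (nat_lit 41186479663) (nat_lit 4) (nat_lit 5) (nat_lit 5) (nat_lit 5) (nat_lit 6) (nat_lit 4) (nat_lit 225) (nat_lit 203) (nat_lit 172)) (XT.lf (nat_lit 0) (nat_lit 17349522275) (nat_lit 152) (nat_lit 37739113722) (nat_lit 0) (nat_lit 3062688994) (nat_lit 4) (nat_lit 5) (nat_lit 6) (nat_lit 4) (nat_lit 4) (nat_lit 4) (nat_lit 226) (nat_lit 203)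 (nat_lit 171))) (XT.nd (nat_lit 78) (nat_lit 0) (nat_lit 0) (XT.lf (nat_lit 0) (nat_lit 25539654142) (nat_lit 152) (nat_lit 28912388338) (nat_lit 0) (nat_lit 11231293703) (nat_lit 4) (nat_lit 5) (nat_lit 6) (nat_lit 4) (nat_lit 4) (nat_lit 4) (nat_lit 227) (nat_lit 203) (nat_lit 170)) (XT.lf (nat_lit 0) (nat_lit 34937159351) (nat_lit 152) (nat_lit 18801156641) (nat_lit 0) (nat_lit 20610079642) (nat_lit 4) (nat_lit 5) (nat_lit 6) (nat_lit 4) (nat_lit 4) (nat_lit 4) (nat_lit 228) (nat_lit 203) (nat_lit 169))))) (XT.nd (nat_lit 312) (nat_lit 0) (nat_lit 0) (XT.nd (nat_lit 156) (nat_lit 0) (nat_lit 0) (XT.nd (nat_lit 78) (nat_lit 76) (nat_lit 0) (XT.lf (nat_lit 0) (nat_lit 45725902132) (nat_lit 152) (nat_lit 7207590186) (nat_lit 0) (nat_lit 31382544799) (nat_lit 4) (nat_lit 5) (nat_lit 6) (nat_lit 4) (nat_lit 4) (nat_lit 4) (nat_lit 229) (nat_lit 203) (nat_lit 168)) (XT.lf (nat_lit 0)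 (nat_lit 6690803248) (nat_lit 76) (nat_lit 51703215230) (nat_lit 76) (nat_lit 37345703440) (nat_lit 3) (nat_lit 4) (nat_lit 4) (nat_lit 5) (nat_lit 4) (nat_lit 4) (nat_lit 230) (nat_lit 203) (nat_lit 167))) (XT.nd (nat_lit 78) (nat_lit 0) (nat_lit 0) (XT.lf (nat_lit 0) (nat_lit 23455478696) (nat_lit 76) (nat_lit 49868549234) (nat_lit 76) (nat_lit 35498729221) (nat_lit 3) (nat_lit 4) (nat_lit 4) (nat_lit 5) (nat_lit 4) (nat_lit 4) (nat_lit 231) (nat_lit 203) (nat_lit 166)) (XT.lf (nat_lit 0) (nat_lit 42710062545) (nat_lit 76) (nat_lit 47770359089) (nat_lit 76) (nat_lit 33389836273) (nat_lit 3) (nat_lit 4) (nat_lit 4) (nat_lit 5) (nat_lit 4) (nat_lit 4) (nat_lit 232) (nat_lit 203) (nat_lit 165)))) (XT.nd (nat_lit 156) (nat_lit 0) (nat_lit 0) (XT.nd (nat_lit 78) (nat_lit 0) (nat_lit 0) (XT.lf (nat_lit 0) (nat_lit 64831274913) (nat_lit 76) (nat_lit 45367593247) (nat_lit 76) (nat_lit 30977763646)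 (nat_lit 3) (nat_lit 4) (nat_lit 4) (nat_lit 5) (nat_lit 4) (nat_lit 4) (nat_lit 233) (nat_lit 203) (nat_lit 164)) (XT.lf (nat_lit 0) (nat_lit 90251922129) (nat_lit 76) (nat_lit 42613241072) (nat_lit 76) (nat_lit 28215318615) (nat_lit 3) (nat_lit 4) (nat_lit 4) (nat_lit 5) (nat_lit 4) (nat_lit 4) (nat_lit 234) (nat_lit 203) (nat_lit 163))) (XT.nd (nat_lit 78) (nat_lit 0) (nat_lit 0) (XT.lf (nat_lit 0) (nat_lit 119469364683) (nat_lit 76) (nat_lit 39453413066) (nat_lit 76) (nat_lit 25048453343) (nat_lit 3) (nat_lit 4) (nat_lit 4) (nat_lit 5) (nat_lit 4) (nat_lit 4) (nat_lit 235) (nat_lit 203) (nat_lit 162)) (XT.lf (nat_lit 0) (nat_lit 153055248189) (nat_lit 76) (nat_lit 35826286507) (nat_lit 76) (nat_lit 21415207422) (nat_lit 3) (nat_lit 4) (nat_lit 4) (nat_lit 5) (nat_lit 4) (nat_lit 4) (nat_lit 236) (nat_lit 203) (nat_lit 161))))))))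
noncomputable def xc29 : XT := (XT.nd (nat_lit 2418) (nat_lit 0) (nat_lit 0) (XT.nd (nat_lit 1170) (nat_lit 0) (nat_lit 0) (XT.nd (nat_lit 546) (nat_lit 0) (nat_lit 0) (XT.nd (nat_lit 234) (nat_lit 152) (nat_lit 0) (XT.nd (nat_lit 78) (nat_lit 0) (nat_lit 0) (XT.lf (nat_lit 0) (nat_lit 191666687760) (nat_lit 76) (nat_lit 31660895875) (nat_lit 76) (nat_lit 17244495605) (nat_lit 3) (nat_lit 4) (nat_lit 4) (nat_lit 5) (nat_lit 4) (nat_lit 4) (nat_lit 237) (nat_lit 203) (nat_lit 160)) (XT.nd (nat_lit 78) (nat_lit 0) (nat_lit 0) (XT.lf (nat_lit 0) (nat_lit 236059124605) (nat_lit 76) (nat_lit 26875744397) (nat_lit 76) (nat_lit 12454717010) (nat_lit 3) (nat_lit 4) (nat_lit 4) (nat_lit 5) (nat_lit 4) (nat_lit 4) (nat_lit 238) (nat_lit 203) (nat_lit 159)) (XT.lf (nat_lit 0) (nat_lit 287101106401) (nat_lit 76) (nat_lit 21377209544) (nat_lit 76) (nat_lit 6952158577) (nat_lit 3) (nat_lit 4) (nat_lit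 4) (nat_lit 5) (nat_lit 4) (nat_lit 4) (nat_lit 239) (nat_lit 203) (nat_lit 158)))) (XT.nd (nat_lit 156) (nat_lit 76) (nat_lit 0) (XT.nd (nat_lit 78) (nat_lit 76) (nat_lit 0) (XT.lf (nat_lit 0) (nat_lit 345791280617) (nat_lit 76) (nat_lit 15057711286) (nat_lit 76) (nat_lit 629161554) (nat_lit 3) (nat_lit 4) (nat_lit 4) (nat_lit 5) (nat_lit 4) (nat_lit 4) (nat_lit 240) (nat_lit 203) (nat_lit 157)) (XT.lf (nat_lit 0) (nat_lit 6047025554) (nat_lit 152) (nat_lit 1430487193) (nat_lit 76) (nat_lit 406914813200) (nat_lit 2) (nat_lit 5) (nat_lit 4) (nat_lit 5) (nat_lit 3) (nat_lit 4) (nat_lit 241) (nat_lit 203) (nat_lit 156))) (XT.nd (nat_lit 78) (nat_lit 0) (nat_lit 0) (XT.lf (nat_lit 0) (nat_lit 14420307578) (nat_lit 152) (nat_lit 458836023210) (nat_lit 0) (nat_lit 1868796530) (nat_lit 1) (nat_lit 5) (nat_lit 3) (nat_lit 4) (nat_lit 1) (nat_lit 4) (nat_lit 242) (nat_lit 203) (nat_lit 155))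 (XT.lf (nat_lit 0) (nat_lit 24480649827) (nat_lit 152) (nat_lit 508495408505) (nat_lit 0) (nat_lit 11927138349) (nat_lit 1) (nat_lit 5) (nat_lit 3) (nat_lit 4) (nat_lit 1) (nat_lit 4) (nat_lit 243) (nat_lit 203) (nat_lit 154))))) (XT.nd (nat_lit 312) (nat_lit 0) (nat_lit 0) (XT.nd (nat_lit 156) (nat_lit 0) (nat_lit 0) (XT.nd (nat_lit 78) (nat_lit 0) (nat_lit 0) (XT.lf (nat_lit 0) (nat_lit 36047138790) (nat_lit 152) (nat_lit 565609392479) (nat_lit 0) (nat_lit 23491887806) (nat_lit 1) (nat_lit 5) (nat_lit 3) (nat_lit 4) (nat_lit 1) (nat_lit 4) (nat_lit 244) (nat_lit 203) (nat_lit 153)) (XT.lf (nat_lit 0) (nat_lit 49346075336) (nat_lit 152) (nat_lit 631295422645) (nat_lit 0) (nat_lit 36789311740) (nat_lit 1) (nat_lit 5) (nat_lit 3) (nat_lit 4) (nat_lit 1) (nat_lit 4) (nat_lit 245) (nat_lit 203) (nat_lit 152))) (XT.nd (nat_lit 78) (nat_lit 0) (nat_lit 0) (XT.lf (nat_lit 0) (nat_lit 64637656052)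 (nat_lit 152) (nat_lit 706838660463) (nat_lit 0) (nat_lit 52079577140) (nat_lit 1) (nat_lit 5) (nat_lit 3) (nat_lit 4) (nat_lit 1) (nat_lit 4) (nat_lit 246) (nat_lit 203) (nat_lit 151)) (XT.lf (nat_lit 0) (nat_lit 82221064037) (nat_lit 152) (nat_lit 793717125803) (nat_lit 0) (nat_lit 69661841372) (nat_lit 1) (nat_lit 5) (nat_lit 3) (nat_lit 4) (nat_lit 1) (nat_lit 4) (nat_lit 247) (nat_lit 203) (nat_lit 150)))) (XT.nd (nat_lit 156) (nat_lit 0) (nat_lit 0) (XT.nd (nat_lit 78) (nat_lit 0) (nat_lit 0) (XT.lf (nat_lit 0) (nat_lit 102440322491) (nat_lit 152) (nat_lit 893630614726) (nat_lit 0) (nat_lit 89880105260) (nat_lit 1) (nat_lit 5) (nat_lit 3) (nat_lit 4) (nat_lit 1) (nat_lit 4) (nat_lit 248) (nat_lit 203) (nat_lit 149)) (XT.lf (nat_lit 0) (nat_lit 125691025602) (nat_lit 152) (nat_lit 1008533956363) (nat_lit 0) (nat_lit 113129943530) (nat_lit 1) (nat_lit 5) (nat_lit 3) (nat_lit 4)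 (nat_lit 1) (nat_lit 4) (nat_lit 249) (nat_lit 203) (nat_lit 148))) (XT.nd (nat_lit 78) (nat_lit 0) (nat_lit 0) (XT.lf (nat_lit 0) (nat_lit 152428078431) (nat_lit 152) (nat_lit 1140675259573) (nat_lit 0) (nat_lit 139866244322) (nat_lit 1) (nat_lit 5) (nat_lit 3) (nat_lit 4) (nat_lit 1) (nat_lit 4) (nat_lit 250) (nat_lit 203) (nat_lit 147)) (XT.lf (nat_lit 0) (nat_lit 183174597228) (nat_lit 152) (nat_lit 1292639897679) (nat_lit 0) (nat_lit 170612109175) (nat_lit 1) (nat_lit 5) (nat_lit 3) (nat_lit 4) (nat_lit 1) (nat_lit 4) (nat_lit 251) (nat_lit 203) (nat_lit 146)))))) (XT.nd (nat_lit 624) (nat_lit 0) (nat_lit 0) (XT.nd (nat_lit 312) (nat_lit 0) (nat_lit 0) (XT.nd (nat_lit 156) (nat_lit 0) (nat_lit 0) (XT.nd (nat_lit 78) (nat_lit 0) (nat_lit 0) (XT.lf (nat_lit 0) (nat_lit 218532144318) (nat_lit 152) (nat_lit 1467401091861) (nat_lit 0) (nat_lit 205969087618) (nat_lit 1) (nat_lit 5)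 (nat_lit 3) (nat_lit 4) (nat_lit 1) (nat_lit 4) (nat_lit 252) (nat_lit 203) (nat_lit 145)) (XT.lf (nat_lit 0) (nat_lit 259192497796) (nat_lit 152) (nat_lit 1668378082875) (nat_lit 0) (nat_lit 246628946621) (nat_lit 1) (nat_lit 5) (nat_lit 3) (nat_lit 4) (nat_lit 1) (nat_lit 4) (nat_lit 253) (nat_lit 203) (nat_lit 144))) (XT.nd (nat_lit 78) (nat_lit 0) (nat_lit 0) (XT.lf (nat_lit 0) (nat_lit 305951186318) (nat_lit 152) (nat_lit 1899503029240) (nat_lit 0) (nat_lit 293387205163) (nat_lit 1) (nat_lit 5) (nat_lit 3) (nat_lit 4) (nat_lit 1) (nat_lit 4) (nat_lit 254) (nat_lit 203) (nat_lit 143)) (XT.lf (nat_lit 0) (nat_lit 359723053788) (nat_lit 152) (nat_lit 2165297940778) (nat_lit 0) (nat_lit 347158698738) (nat_lit 1) (nat_lit 5) (nat_lit 3) (nat_lit 4) (nat_lit 1) (nat_lit 4) (nat_lit 255) (nat_lit 203) (nat_lit 142)))) (XT.nd (nat_lit 156) (nat_lit 0) (nat_lit 0) (XT.nd (nat_lit 78) (nat_lit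 0) (nat_lit 0) (XT.lf (nat_lit 0) (nat_lit 421560158483) (nat_lit 152) (nat_lit 2470963152714) (nat_lit 0) (nat_lit 408995478308) (nat_lit 1) (nat_lit 5) (nat_lit 3) (nat_lit 4) (nat_lit 1) (nat_lit 4) (nat_lit 256) (nat_lit 203) (nat_lit 141)) (XT.lf (nat_lit 0) (nat_lit 492672356800) (nat_lit 152) (nat_lit 2822479071369) (nat_lit 0) (nat_lit 480107393907) (nat_lit 1) (nat_lit 5) (nat_lit 3) (nat_lit 4) (nat_lit 1) (nat_lit 4) (nat_lit 257) (nat_lit 203) (nat_lit 140))) (XT.nd (nat_lit 78) (nat_lit 0) (nat_lit 0) (XT.lf (nat_lit 0) (nat_lit 574450974358) (nat_lit 152) (nat_lit 3226723182106) (nat_lit 0) (nat_lit 561885765623) (nat_lit 1) (nat_lit 5) (nat_lit 3) (nat_lit 4) (nat_lit 1) (nat_lit 4) (nat_lit 258) (nat_lit 203) (nat_lit 139)) (XT.lf (nat_lit 0) (nat_lit 668496027588) (nat_lit 152) (nat_lit 3691604608833) (nat_lit 0) (nat_lit 655930605077) (nat_lit 1) (nat_lit 5) (nat_lit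 3) (nat_lit 4) (nat_lit 1) (nat_lit 4) (nat_lit 259) (nat_lit 203) (nat_lit 138))))) (XT.nd (nat_lit 312) (nat_lit 0) (nat_lit 0) (XT.nd (nat_lit 156) (nat_lit 0) (nat_lit 0) (XT.nd (nat_lit 78) (nat_lit 0) (nat_lit 0) (XT.lf (nat_lit 0) (nat_lit 776647528400) (nat_lit 152) (nat_lit 4226218857723) (nat_lit 0) (nat_lit 764081919997) (nat_lit 1) (nat_lit 5) (nat_lit 3) (nat_lit 4) (nat_lit 1) (nat_lit 4) (nat_lit 260) (nat_lit 203) (nat_lit 137)) (XT.lf (nat_lit 0) (nat_lit 901021484419) (nat_lit 152) (nat_lit 4841025772778) (nat_lit 0) (nat_lit 888455714371) (nat_lit 1) (nat_lit 5) (nat_lit 3) (nat_lit 4) (nat_lit 1) (nat_lit 4) (nat_lit 261) (nat_lit 203) (nat_lit 136))) (XT.nd (nat_lit 78) (nat_lit 0) (nat_lit 0) (XT.lf (nat_lit 0) (nat_lit 1044051299132) (nat_lit 152) (nat_lit 5548054184944) (nat_lit 0) (nat_lit 1031485388523) (nat_lit 1) (nat_lit 5) (nat_lit 3) (nat_lit 4) (nat_lit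 1) (nat_lit 4) (nat_lit 262) (nat_lit 203) (nat_lit 135)) (XT.lf (nat_lit 0) (nat_lit 1208535381958) (nat_lit 152) (nat_lit 6361137258806) (nat_lit 0) (nat_lit 1195969349123) (nat_lit 1) (nat_lit 5) (nat_lit 3) (nat_lit 4) (nat_lit 1) (nat_lit 4) (nat_lit 263) (nat_lit 203) (nat_lit 134)))) (XT.nd (nat_lit 156) (nat_lit 0) (nat_lit 0) (XT.nd (nat_lit 78) (nat_lit 0) (nat_lit 0) (XT.lf (nat_lit 0) (nat_lit 1397691899735) (nat_lit 152) (nat_lit 7296183141462) (nat_lit 0) (nat_lit 1385125760615) (nat_lit 1) (nat_lit 5) (nat_lit 3) (nat_lit 4) (nat_lit 1) (nat_lit 4) (nat_lit 264) (nat_lit 203) (nat_lit 133)) (XT.lf (nat_lit 0) (nat_lit 1615221740853) (nat_lit 152) (nat_lit 8371486208878) (nat_lit 0) (nat_lit 1602655509312) (nat_lit 1) (nat_lit 5) (nat_lit 3) (nat_lit 4) (nat_lit 1) (nat_lit 4) (nat_lit 265) (nat_lit 203) (nat_lit 132))) (XT.nd (nat_lit 78) (nat_lit 0) (nat_lit 0) (XT.lf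 (nat_lit 0) (nat_lit 1865380923944) (nat_lit 152) (nat_lit 9608084999328) (nat_lit 0) (nat_lit 1852814612037) (nat_lit 1) (nat_lit 5) (nat_lit 3) (nat_lit 4) (nat_lit 1) (nat_lit 4) (nat_lit 266) (nat_lit 203) (nat_lit 131)) (XT.lf (nat_lit 0) (nat_lit 2153063867807) (nat_lit 152) (nat_lit 11030173836974) (nat_lit 0) (nat_lit 2140497486016) (nat_lit 1) (nat_lit 5) (nat_lit 3) (nat_lit 4) (nat_lit 1) (nat_lit 4) (nat_lit 267) (nat_lit 203) (nat_lit 130))))))) (XT.nd (nat_lit 26598) (nat_lit 0) (nat_lit 380) (XT.nd (nat_lit 546) (nat_lit 0) (nat_lit 0) (XT.nd (nat_lit 234) (nat_lit 0) (nat_lit 0) (XT.nd (nat_lit 78) (nat_lit 0) (nat_lit 0) (XT.lf (nat_lit 0) (nat_lit 2483899151778) (nat_lit 152) (nat_lit 12665576199073) (nat_lit 0) (nat_lit 2471332709219) (nat_lit 1) (nat_lit 5) (nat_lit 3) (nat_lit 4) (nat_lit 1) (nat_lit 4) (nat_lit 268) (nat_lit 203) (nat_lit 129)) (XT.nd (nat_lit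 78) (nat_lit 0) (nat_lit 0) (XT.lf (nat_lit 0) (nat_lit 2864359640109) (nat_lit 152) (nat_lit 14546289088363) (nat_lit 0) (nat_lit 2851793144708) (nat_lit 1) (nat_lit 5) (nat_lit 3) (nat_lit 4) (nat_lit 1) (nat_lit 4) (nat_lit 269) (nat_lit 203) (nat_lit 128)) (XT.lf (nat_lit 0) (nat_lit 3301889124963) (nat_lit 152) (nat_lit 16709109061373) (nat_lit 0) (nat_lit 3289322583613) (nat_lit 1) (nat_lit 5) (nat_lit 3) (nat_lit 4) (nat_lit 1) (nat_lit 4) (nat_lit 270) (nat_lit 203) (nat_lit 127)))) (XT.nd (nat_lit 156) (nat_lit 0) (nat_lit 0) (XT.nd (nat_lit 78) (nat_lit 0) (nat_lit 0) (XT.lf (nat_lit 0) (nat_lit 3805047965827) (nat_lit 152) (nat_lit 19196352161054) (nat_lit 0) (nat_lit 3792481384521) (nat_lit 1) (nat_lit 5) (nat_lit 3) (nat_lit 4) (nat_lit 1) (nat_lit 4) (nat_lit 271) (nat_lit 203) (nat_lit 126)) (XT.lf (nat_lit 0) (nat_lit 4383680574804) (nat_lit 152) (nat_lit 22056681839355)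 (nat_lit 0) (nat_lit 4371113958753) (nat_lit 1) (nat_lit 5) (nat_lit 3) (nat_lit 4) (nat_lit 1) (nat_lit 4) (nat_lit 272) (nat_lit 203) (nat_lit 125))) (XT.nd (nat_lit 78) (nat_lit 0) (nat_lit 0) (XT.lf (nat_lit 0) (nat_lit 5049108024679) (nat_lit 152) (nat_lit 25346061068243) (nat_lit 0) (nat_lit 5036541378415) (nat_lit 1) (nat_lit 5) (nat_lit 3) (nat_lit 4) (nat_lit 1) (nat_lit 4) (nat_lit 273) (nat_lit 203) (nat_lit 124)) (XT.lf (nat_lit 0) (nat_lit 5814349548166) (nat_lit 152) (nat_lit 29128847267415) (nat_lit 0) (nat_lit 5801782875630) (nat_lit 1) (nat_lit 5) (nat_lit 3) (nat_lit 4) (nat_lit 1) (nat_lit 4) (nat_lit 274) (nat_lit 203) (nat_lit 123))))) (XT.nd (nat_lit 25740) (nat_lit 0) (nat_lit 1368) (XT.nd (nat_lit 468) (nat_lit 0) (nat_lit 0) (XT.nd (nat_lit 390) (nat_lit 0) (nat_lit 0) (XT.lf (nat_lit 0) (nat_lit 6694377262029) (nat_lit 152) (nat_lit 33479051471201) (nat_lit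 0) (nat_lit 6681810566648) (nat_lit 1) (nat_lit 5) (nat_lit 3) (nat_lit 4) (nat_lit 1) (nat_lit 4) (nat_lit 275) (nat_lit 203) (nat_lit 122)) (XT.lf (nat_lit 0) (nat_lit 13517881452438) (nat_lit 152) (nat_lit 67209398037133) (nat_lit 0) (nat_lit 13505314680477) (nat_lit 1) (nat_lit 5) (nat_lit 3) (nat_lit 4) (nat_lit 1) (nat_lit 4) (nat_lit 280) (nat_lit 203) (nat_lit 117))) (XT.nd (nat_lit 78) (nat_lit 0) (nat_lit 0) (XT.lf (nat_lit 0) (nat_lit 15553438807577) (nat_lit 152) (nat_lit 77271685139225) (nat_lit 0) (nat_lit 15540872025739) (nat_lit 1) (nat_lit 5) (nat_lit 3) (nat_lit 4) (nat_lit 1) (nat_lit 4) (nat_lit 281) (nat_lit 203) (nat_lit 116)) (XT.lf (nat_lit 0) (nat_lit 17894329751645) (nat_lit 152) (nat_lit 88843315334728) (nat_lit 0) (nat_lit 17881762961220) (nat_lit 1) (nat_lit 5) (nat_lit 3) (nat_lit 4) (nat_lit 1) (nat_lit 4) (nat_lit 282) (nat_lit 203) (nat_lit 115))))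 (XT.nd (nat_lit 156) (nat_lit 0) (nat_lit 0) (XT.nd (nat_lit 78) (nat_lit 0) (nat_lit 0) (XT.lf (nat_lit 0) (nat_lit 444843100) (nat_lit 0) (nat_lit 444843100) (nat_lit 228) (nat_lit 3109924345) (nat_lit 19) (nat_lit 5) (nat_lit 19) (nat_lit 3) (nat_lit 22) (nat_lit 3) (nat_lit 204) (nat_lit 204) (nat_lit 192)) (XT.lf (nat_lit 0) (nat_lit 3046427926) (nat_lit 228) (nat_lit 3703320072) (nat_lit 304) (nat_lit 1667378791) (nat_lit 19) (nat_lit 5) (nat_lit 22) (nat_lit 3) (nat_lit 23) (nat_lit 5) (nat_lit 205) (nat_lit 204) (nat_lit 191))) (XT.nd (nat_lit 78) (nat_lit 0) (nat_lit 0) (XT.lf (nat_lit 76) (nat_lit 47201880) (nat_lit 0) (nat_lit 4316212380) (nat_lit 304) (nat_lit 4557459055) (nat_lit 20) (nat_lit 5) (nat_lit 19) (nat_lit 5) (nat_lit 23) (nat_lit 5) (nat_lit 206) (nat_lit 204) (nat_lit 190)) (XT.lf (nat_lit 76) (nat_lit 4653882638) (nat_lit 0) (nat_lit 1252181410) (nat_lit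 304) (nat_lit 3591757702) (nat_lit 20) (nat_lit 5) (nat_lit 19) (nat_lit 5) (nat_lit 23) (nat_lit 5) (nat_lit 207) (nat_lit 204) (nat_lit 189)))))) (XT.nd (nat_lit 624) (nat_lit 304) (nat_lit 0) (XT.nd (nat_lit 312) (nat_lit 228) (nat_lit 0) (XT.nd (nat_lit 156) (nat_lit 304) (nat_lit 0) (XT.nd (nat_lit 78) (nat_lit 228) (nat_lit 0) (XT.lf (nat_lit 0) (nat_lit 7631825622) (nat_lit 228) (nat_lit 435171371) (nat_lit 76) (nat_lit 2103173312) (nat_lit 20) (nat_lit 5) (nat_lit 23) (nat_lit 5) (nat_lit 21) (nat_lit 5) (nat_lit 208) (nat_lit 204) (nat_lit 188)) (XT.lf (nat_lit 0) (nat_lit 4897016788) (nat_lit 228) (nat_lit 4858061913) (nat_lit 304) (nat_lit 1168902704) (nat_lit 17) (nat_lit 5) (nat_lit 20) (nat_lit 5) (nat_lit 21) (nat_lit 5) (nat_lit 209) (nat_lit 204) (nat_lit 187))) (XT.nd (nat_lit 78) (nat_lit 228) (nat_lit 0) (XT.lf (nat_lit 0) (nat_lit 275046699) (nat_lit 304) (nat_lit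 849097654) (nat_lit 76) (nat_lit 10679475431) (nat_lit 16) (nat_lit 5) (nat_lit 20) (nat_lit 5) (nat_lit 17) (nat_lit 5) (nat_lit 210) (nat_lit 204) (nat_lit 186)) (XT.lf (nat_lit 0) (nat_lit 2082009167) (nat_lit 304) (nat_lit 7506908468) (nat_lit 76) (nat_lit 3178946262) (nat_lit 13) (nat_lit 5) (nat_lit 17) (nat_lit 5) (nat_lit 14) (nat_lit 5) (nat_lit 211) (nat_lit 204) (nat_lit 185)))) (XT.nd (nat_lit 156) (nat_lit 76) (nat_lit 0) (XT.nd (nat_lit 78) (nat_lit 152) (nat_lit 0) (XT.lf (nat_lit 0) (nat_lit 4165888555) (nat_lit 304) (nat_lit 1658383741) (nat_lit 76) (nat_lit 8052394390) (nat_lit 13) (nat_lit 5) (nat_lit 17) (nat_lit 5) (nat_lit 14) (nat_lit 5) (nat_lit 212) (nat_lit 204) (nat_lit 184)) (XT.lf (nat_lit 0) (nat_lit 5452303119) (nat_lit 152) (nat_lit 1253939899) (nat_lit 228) (nat_lit 8424661109) (nat_lit 11) (nat_lit 5) (nat_lit 13) (nat_lit 5) (nat_lit 14) (nat_lit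 5) (nat_lit 213) (nat_lit 204) (nat_lit 183))) (XT.nd (nat_lit 78) (nat_lit 76) (nat_lit 0) (XT.lf (nat_lit 0) (nat_lit 9808149553) (nat_lit 228) (nat_lit 3021112403) (nat_lit 76) (nat_lit 3717547536) (nat_lit 11) (nat_lit 5) (nat_lit 14) (nat_lit 5) (nat_lit 12) (nat_lit 4) (nat_lit 214) (nat_lit 204) (nat_lit 182)) (XT.lf (nat_lit 0) (nat_lit 4920309557) (nat_lit 76) (nat_lit 8652371067) (nat_lit 152) (nat_lit 4573347201) (nat_lit 10) (nat_lit 5) (nat_lit 11) (nat_lit 5) (nat_lit 12) (nat_lit 4) (nat_lit 215) (nat_lit 204) (nat_lit 181))))) (XT.nd (nat_lit 312) (nat_lit 152) (nat_lit 0) (XT.nd (nat_lit 156) (nat_lit 0) (nat_lit 0) (XT.nd (nat_lit 78) (nat_lit 152) (nat_lit 0) (XT.lf (nat_lit 0) (nat_lit 14303686269) (nat_lit 76) (nat_lit 3694961216) (nat_lit 152) (nat_lit 1972427090) (nat_lit 10) (nat_lit 5) (nat_lit 11) (nat_lit 5) (nat_lit 12) (nat_lit 4) (nat_lit 216) (nat_lit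 204) (nat_lit 180)) (XT.lf (nat_lit 0) (nat_lit 1093890889) (nat_lit 152) (nat_lit 18959944594) (nat_lit 76) (nat_lit 1985171270) (nat_lit 8) (nat_lit 5) (nat_lit 10) (nat_lit 5) (nat_lit 9) (nat_lit 4) (nat_lit 217) (nat_lit 204) (nat_lit 179))) (XT.nd (nat_lit 78) (nat_lit 0) (nat_lit 0) (XT.lf (nat_lit 0) (nat_lit 4851347592) (nat_lit 152) (nat_lit 10968502049) (nat_lit 76) (nat_lit 8518522713) (nat_lit 8) (nat_lit 5) (nat_lit 10) (nat_lit 5) (nat_lit 9) (nat_lit 4) (nat_lit 218) (nat_lit 204) (nat_lit 178)) (XT.lf (nat_lit 0) (nat_lit 9126181475) (nat_lit 152) (nat_lit 1853339082) (nat_lit 76) (nat_lit 16010320918) (nat_lit 8) (nat_lit 5) (nat_lit 10) (nat_lit 5) (nat_lit 9) (nat_lit 4) (nat_lit 219) (nat_lit 204) (nat_lit 177)))) (XT.nd (nat_lit 156) (nat_lit 76) (nat_lit 0) (XT.nd (nat_lit 78) (nat_lit 0) (nat_lit 0) (XT.lf (nat_lit 0) (nat_lit 9400809520) (nat_lit 76) (nat_lit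 4990488547) (nat_lit 152) (nat_lit 15595602500) (nat_lit 7) (nat_lit 5) (nat_lit 8) (nat_lit 5) (nat_lit 9) (nat_lit 4) (nat_lit 220) (nat_lit 204) (nat_lit 176)) (XT.lf (nat_lit 0) (nat_lit 20587655271) (nat_lit 152) (nat_lit 11017832442) (nat_lit 0) (nat_lit 1807008317) (nat_lit 7) (nat_lit 5) (nat_lit 9) (nat_lit 4) (nat_lit 7) (nat_lit 4) (nat_lit 221) (nat_lit 204) (nat_lit 175))) (XT.nd (nat_lit 78) (nat_lit 76) (nat_lit 0) (XT.lf (nat_lit 0) (nat_lit 27917572916) (nat_lit 152) (nat_lit 310287299) (nat_lit 0) (nat_lit 9093627156) (nat_lit 7) (nat_lit 5) (nat_lit 9) (nat_lit 4) (nat_lit 7) (nat_lit 4) (nat_lit 222) (nat_lit 204) (nat_lit 174)) (XT.lf (nat_lit 0) (nat_lit 13120788655) (nat_lit 76) (nat_lit 23740332168) (nat_lit 76) (nat_lit 4878735272) (nat_lit 6) (nat_lit 4) (nat_lit 7) (nat_lit 5) (nat_lit 7) (nat_lit 4) (nat_lit 223) (nat_lit 204) (nat_lit 173))))))))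
noncomputable def xc30 : XT := (XT.nd (nat_lit 2418) (nat_lit 0) (nat_lit 0) (XT.nd (nat_lit 1170) (nat_lit 152) (nat_lit 0) (XT.nd (nat_lit 546) (nat_lit 76) (nat_lit 0) (XT.nd (nat_lit 234) (nat_lit 0) (nat_lit 0) (XT.nd (nat_lit 78) (nat_lit 76) (nat_lit 0) (XT.lf (nat_lit 0) (nat_lit 284475744) (nat_lit 152) (nat_lit 18282714164) (nat_lit 76) (nat_lit 28253652442) (nat_lit 5) (nat_lit 5) (nat_lit 7) (nat_lit 5) (nat_lit 6) (nat_lit 4) (nat_lit 224) (nat_lit 204) (nat_lit 172)) (XT.nd (nat_lit 78) (nat_lit 76) (nat_lit 0) (XT.lf (nat_lit 0) (nat_lit 5697649663) (nat_lit 152) (nat_lit 6672859905) (nat_lit 76) (nat_lit 40262471918) (nat_lit 5) (nat_lit 5) (nat_lit 7) (nat_lit 5) (nat_lit 6) (nat_lit 4) (nat_lit 225) (nat_lit 204) (nat_lit 171)) (XT.lf (nat_lit 0) (nat_lit 7288538807) (nat_lit 76) (nat_lit 4914299202) (nat_lit 152) (nat_lit 47072183540) (nat_lit 4) (nat_lit 5) (nat_lit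 5) (nat_lit 5) (nat_lit 6) (nat_lit 4) (nat_lit 226) (nat_lit 204) (nat_lit 170)))) (XT.nd (nat_lit 156) (nat_lit 0) (nat_lit 0) (XT.nd (nat_lit 78) (nat_lit 0) (nat_lit 0) (XT.lf (nat_lit 0) (nat_lit 20179643674) (nat_lit 152) (nat_lit 42974639962) (nat_lit 0) (nat_lit 3684782740) (nat_lit 4) (nat_lit 5) (nat_lit 6) (nat_lit 4) (nat_lit 4) (nat_lit 4) (nat_lit 227) (nat_lit 204) (nat_lit 169)) (XT.lf (nat_lit 0) (nat_lit 29568596227) (nat_lit 152) (nat_lit 32879385008) (nat_lit 0) (nat_lit 13057457669) (nat_lit 4) (nat_lit 5) (nat_lit 6) (nat_lit 4) (nat_lit 4) (nat_lit 4) (nat_lit 228) (nat_lit 204) (nat_lit 168))) (XT.nd (nat_lit 78) (nat_lit 0) (nat_lit 0) (XT.lf (nat_lit 0) (nat_lit 40349901917) (nat_lit 152) (nat_lit 21299711372) (nat_lit 0) (nat_lit 23824608902) (nat_lit 4) (nat_lit 5) (nat_lit 6) (nat_lit 4) (nat_lit 4) (nat_lit 4) (nat_lit 229) (nat_lit 204) (nat_lit 167))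 (XT.lf (nat_lit 0) (nat_lit 52734499334) (nat_lit 152) (nat_lit 8009060222) (nat_lit 0) (nat_lit 36196898096) (nat_lit 4) (nat_lit 5) (nat_lit 6) (nat_lit 4) (nat_lit 4) (nat_lit 4) (nat_lit 230) (nat_lit 204) (nat_lit 166))))) (XT.nd (nat_lit 312) (nat_lit 0) (nat_lit 0) (XT.nd (nat_lit 156) (nat_lit 0) (nat_lit 0) (XT.nd (nat_lit 78) (nat_lit 0) (nat_lit 0) (XT.lf (nat_lit 0) (nat_lit 7961380023) (nat_lit 76) (nat_lit 59332979562) (nat_lit 76) (nat_lit 42784675522) (nat_lit 3) (nat_lit 4) (nat_lit 4) (nat_lit 5) (nat_lit 4) (nat_lit 4) (nat_lit 231) (nat_lit 204) (nat_lit 165)) (XT.lf (nat_lit 0) (nat_lit 27205936403) (nat_lit 76) (nat_lit 57239511661) (nat_lit 76) (nat_lit 40681900836) (nat_lit 3) (nat_lit 4) (nat_lit 4) (nat_lit 5) (nat_lit 4) (nat_lit 4) (nat_lit 232) (nat_lit 204) (nat_lit 164))) (XT.nd (nat_lit 78) (nat_lit 0) (nat_lit 0) (XT.lf (nat_lit 0) (nat_lit 49318429233)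 (nat_lit 76) (nat_lit 54840852119) (nat_lit 76) (nat_lit 38275148437) (nat_lit 3) (nat_lit 4) (nat_lit 4) (nat_lit 5) (nat_lit 4) (nat_lit 4) (nat_lit 233) (nat_lit 204) (nat_lit 163)) (XT.lf (nat_lit 0) (nat_lit 74731494242) (nat_lit 76) (nat_lit 52090070639) (nat_lit 76) (nat_lit 35517329691) (nat_lit 3) (nat_lit 4) (nat_lit 4) (nat_lit 5) (nat_lit 4) (nat_lit 4) (nat_lit 234) (nat_lit 204) (nat_lit 162)))) (XT.nd (nat_lit 156) (nat_lit 0) (nat_lit 0) (XT.nd (nat_lit 78) (nat_lit 0) (nat_lit 0) (XT.lf (nat_lit 0) (nat_lit 103942343573) (nat_lit 76) (nat_lit 48933347586) (nat_lit 76) (nat_lit 32354487275) (nat_lit 3) (nat_lit 4) (nat_lit 4) (nat_lit 5) (nat_lit 4) (nat_lit 4) (nat_lit 235) (nat_lit 204) (nat_lit 161)) (XT.lf (nat_lit 0) (nat_lit 137522493841) (nat_lit 76) (nat_lit 45308920985) (nat_lit 76) (nat_lit 28724739490) (nat_lit 3) (nat_lit 4) (nat_lit 4) (nat_lit 5) (nat_lit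 4) (nat_lit 4) (nat_lit 236) (nat_lit 204) (nat_lit 160))) (XT.nd (nat_lit 78) (nat_lit 0) (nat_lit 0) (XT.lf (nat_lit 0) (nat_lit 176128947988) (nat_lit 76) (nat_lit 41145878144) (nat_lit 76) (nat_lit 24557069531) (nat_lit 3) (nat_lit 4) (nat_lit 4) (nat_lit 5) (nat_lit 4) (nat_lit 4) (nat_lit 237) (nat_lit 204) (nat_lit 159)) (XT.lf (nat_lit 0) (nat_lit 220517049681) (nat_lit 76) (nat_lit 36362768222) (nat_lit 76) (nat_lit 19769936030) (nat_lit 3) (nat_lit 4) (nat_lit 4) (nat_lit 5) (nat_lit 4) (nat_lit 4) (nat_lit 238) (nat_lit 204) (nat_lit 158)))))) (XT.nd (nat_lit 624) (nat_lit 0) (nat_lit 0) (XT.nd (nat_lit 312) (nat_lit 76) (nat_lit 0) (XT.nd (nat_lit 156) (nat_lit 76) (nat_lit 0) (XT.nd (nat_lit 78) (nat_lit 0) (nat_lit 0) (XT.lf (nat_lit 0) (nat_lit 271555261780) (nat_lit 76) (nat_lit 30866008635) (nat_lit 76) (nat_lit 14269677678) (nat_lit 3) (nat_lit 4) (nat_lit 4) (nat_lit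 5) (nat_lit 4) (nat_lit 4) (nat_lit 239) (nat_lit 204) (nat_lit 157)) (XT.lf (nat_lit 0) (nat_lit 330242157999) (nat_lit 76) (nat_lit 24548054087) (nat_lit 76) (nat_lit 7948680726) (nat_lit 3) (nat_lit 4) (nat_lit 4) (nat_lit 5) (nat_lit 4) (nat_lit 4) (nat_lit 240) (nat_lit 204) (nat_lit 156))) (XT.nd (nat_lit 78) (nat_lit 76) (nat_lit 0) (XT.lf (nat_lit 0) (nat_lit 397725960221) (nat_lit 76) (nat_lit 17285292424) (nat_lit 76) (nat_lit 683273493) (nat_lit 3) (nat_lit 4) (nat_lit 4) (nat_lit 5) (nat_lit 4) (nat_lit 4) (nat_lit 241) (nat_lit 204) (nat_lit 155)) (XT.lf (nat_lit 0) (nat_lit 6985973184) (nat_lit 152) (nat_lit 1584477078) (nat_lit 76) (nat_lit 467975854652) (nat_lit 2) (nat_lit 5) (nat_lit 4) (nat_lit 5) (nat_lit 3) (nat_lit 4) (nat_lit 242) (nat_lit 204) (nat_lit 154)))) (XT.nd (nat_lit 156) (nat_lit 0) (nat_lit 0) (XT.nd (nat_lit 78) (nat_lit 0) (nat_lit 0) (XT.lf (nat_lit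 0) (nat_lit 16614629087) (nat_lit 152) (nat_lit 527600150416) (nat_lit 0) (nat_lit 2174350951) (nat_lit 1) (nat_lit 5) (nat_lit 3) (nat_lit 4) (nat_lit 1) (nat_lit 4) (nat_lit 243) (nat_lit 204) (nat_lit 153)) (XT.lf (nat_lit 0) (nat_lit 28179943277) (nat_lit 152) (nat_lit 584716436062) (nat_lit 0) (nat_lit 13738152529) (nat_lit 1) (nat_lit 5) (nat_lit 3) (nat_lit 4) (nat_lit 1) (nat_lit 4) (nat_lit 244) (nat_lit 204) (nat_lit 152))) (XT.nd (nat_lit 78) (nat_lit 0) (nat_lit 0) (XT.lf (nat_lit 0) (nat_lit 41477858282) (nat_lit 152) (nat_lit 650404467683) (nat_lit 0) (nat_lit 27034752219) (nat_lit 1) (nat_lit 5) (nat_lit 3) (nat_lit 4) (nat_lit 1) (nat_lit 4) (nat_lit 245) (nat_lit 204) (nat_lit 151)) (XT.lf (nat_lit 0) (nat_lit 56768550701) (nat_lit 152) (nat_lit 725949445896) (nat_lit 0) (nat_lit 42324300885) (nat_lit 1) (nat_lit 5) (nat_lit 3) (nat_lit 4) (nat_lit 1) (nat_lit 4) (nat_lit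 246) (nat_lit 204) (nat_lit 150))))) (XT.nd (nat_lit 312) (nat_lit 0) (nat_lit 0) (XT.nd (nat_lit 156) (nat_lit 0) (nat_lit 0) (XT.nd (nat_lit 78) (nat_lit 0) (nat_lit 0) (XT.lf (nat_lit 0) (nat_lit 74351186255) (nat_lit 152) (nat_lit 812829424623) (nat_lit 0) (nat_lit 59905941871) (nat_lit 1) (nat_lit 5) (nat_lit 3) (nat_lit 4) (nat_lit 1) (nat_lit 4) (nat_lit 247) (nat_lit 204) (nat_lit 149)) (XT.lf (nat_lit 0) (nat_lit 94569773029) (nat_lit 152) (nat_lit 912744229535) (nat_lit 0) (nat_lit 80123663804) (nat_lit 1) (nat_lit 5) (nat_lit 3) (nat_lit 4) (nat_lit 1) (nat_lit 4) (nat_lit 248) (nat_lit 204) (nat_lit 148))) (XT.nd (nat_lit 78) (nat_lit 0) (nat_lit 0) (XT.lf (nat_lit 0) (nat_lit 117819892071) (nat_lit 152) (nat_lit 1027648715510) (nat_lit 0) (nat_lit 103373030810) (nat_lit 1) (nat_lit 5) (nat_lit 3) (nat_lit 4) (nat_lit 1) (nat_lit 4) (nat_lit 249) (nat_lit 204) (nat_lit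 147)) (XT.lf (nat_lit 0) (nat_lit 144556437013) (nat_lit 152) (nat_lit 1159791013796) (nat_lit 0) (nat_lit 130108921808) (nat_lit 1) (nat_lit 5) (nat_lit 3) (nat_lit 4) (nat_lit 1) (nat_lit 4) (nat_lit 250) (nat_lit 204) (nat_lit 146)))) (XT.nd (nat_lit 156) (nat_lit 0) (nat_lit 0) (XT.nd (nat_lit 78) (nat_lit 0) (nat_lit 0) (XT.lf (nat_lit 0) (nat_lit 175302514170) (nat_lit 152) (nat_lit 1311756517186) (nat_lit 0) (nat_lit 160854430318) (nat_lit 1) (nat_lit 5) (nat_lit 3) (nat_lit 4) (nat_lit 1) (nat_lit 4) (nat_lit 251) (nat_lit 204) (nat_lit 145)) (XT.lf (nat_lit 0) (nat_lit 210659677225) (nat_lit 152) (nat_lit 1486518463788) (nat_lit 0) (nat_lit 196211098897) (nat_lit 1) (nat_lit 5) (nat_lit 3) (nat_lit 4) (nat_lit 1) (nat_lit 4) (nat_lit 252) (nat_lit 204) (nat_lit 144))) (XT.nd (nat_lit 78) (nat_lit 0) (nat_lit 0) (XT.lf (nat_lit 0) (nat_lit 251319696760) (nat_lit 152) (nat_lit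 1687496109081) (nat_lit 0) (nat_lit 236870688453) (nat_lit 1) (nat_lit 5) (nat_lit 3) (nat_lit 4) (nat_lit 1) (nat_lit 4) (nat_lit 253) (nat_lit 204) (nat_lit 143)) (XT.lf (nat_lit 0) (nat_lit 298078094895) (nat_lit 152) (nat_lit 1918621624386) (nat_lit 0) (nat_lit 283628712693) (nat_lit 1) (nat_lit 5) (nat_lit 3) (nat_lit 4) (nat_lit 1) (nat_lit 4) (nat_lit 254) (nat_lit 204) (nat_lit 142))))))) (XT.nd (nat_lit 1170) (nat_lit 0) (nat_lit 0) (XT.nd (nat_lit 546) (nat_lit 0) (nat_lit 0) (XT.nd (nat_lit 234) (nat_lit 0) (nat_lit 0) (XT.nd (nat_lit 78) (nat_lit 0) (nat_lit 0) (XT.lf (nat_lit 0) (nat_lit 351849709856) (nat_lit 152) (nat_lit 2184417030652) (nat_lit 0) (nat_lit 337400002528) (nat_lit 1) (nat_lit 5) (nat_lit 3) (nat_lit 4) (nat_lit 1) (nat_lit 4) (nat_lit 255) (nat_lit 204) (nat_lit 141)) (XT.nd (nat_lit 78) (nat_lit 0) (nat_lit 0) (XT.lf (nat_lit 0) (nat_lit 413686594978)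 (nat_lit 152) (nat_lit 2490082672787) (nat_lit 0) (nat_lit 399236604932) (nat_lit 1) (nat_lit 5) (nat_lit 3) (nat_lit 4) (nat_lit 1) (nat_lit 4) (nat_lit 256) (nat_lit 204) (nat_lit 140)) (XT.lf (nat_lit 0) (nat_lit 484798602362) (nat_lit 152) (nat_lit 2841598965528) (nat_lit 0) (nat_lit 470348366474) (nat_lit 1) (nat_lit 5) (nat_lit 3) (nat_lit 4) (nat_lit 1) (nat_lit 4) (nat_lit 257) (nat_lit 204) (nat_lit 139)))) (XT.nd (nat_lit 156) (nat_lit 0) (nat_lit 0) (XT.nd (nat_lit 78) (nat_lit 0) (nat_lit 0) (XT.lf (nat_lit 0) (nat_lit 566577053891) (nat_lit 152) (nat_lit 3245843401557) (nat_lit 0) (nat_lit 552126604228) (nat_lit 1) (nat_lit 5) (nat_lit 3) (nat_lit 4) (nat_lit 1) (nat_lit 4) (nat_lit 258) (nat_lit 204) (nat_lit 138)) (XT.lf (nat_lit 0) (nat_lit 660621962747) (nat_lit 152) (nat_lit 3710725111147) (nat_lit 0) (nat_lit 646171327193) (nat_lit 1) (nat_lit 5) (nat_lit 3) (nat_lit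 4) (nat_lit 1) (nat_lit 4) (nat_lit 259) (nat_lit 204) (nat_lit 137))) (XT.nd (nat_lit 78) (nat_lit 0) (nat_lit 0) (XT.lf (nat_lit 0) (nat_lit 768773338018) (nat_lit 152) (nat_lit 4245339606005) (nat_lit 0) (nat_lit 754322540818) (nat_lit 1) (nat_lit 5) (nat_lit 3) (nat_lit 4) (nat_lit 1) (nat_lit 4) (nat_lit 260) (nat_lit 204) (nat_lit 136)) (XT.lf (nat_lit 0) (nat_lit 893147184870) (nat_lit 152) (nat_lit 4860146734945) (nat_lit 0) (nat_lit 878696247109) (nat_lit 1) (nat_lit 5) (nat_lit 3) (nat_lit 4) (nat_lit 1) (nat_lit 4) (nat_lit 261) (nat_lit 204) (nat_lit 135))))) (XT.nd (nat_lit 312) (nat_lit 0) (nat_lit 0) (XT.nd (nat_lit 156) (nat_lit 0) (nat_lit 0) (XT.nd (nat_lit 78) (nat_lit 0) (nat_lit 0) (XT.lf (nat_lit 0) (nat_lit 1036176904656) (nat_lit 152) (nat_lit 5567175333098) (nat_lit 0) (nat_lit 1021725844668) (nat_lit 1) (nat_lit 5) (nat_lit 3) (nat_lit 4) (nat_lit 1) (nat_lit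 4) (nat_lit 262) (nat_lit 204) (nat_lit 134)) (XT.lf (nat_lit 0) (nat_lit 1200660904936) (nat_lit 152) (nat_lit 6380258568688) (nat_lit 0) (nat_lit 1186209738664) (nat_lit 1) (nat_lit 5) (nat_lit 3) (nat_lit 4) (nat_lit 1) (nat_lit 4) (nat_lit 263) (nat_lit 204) (nat_lit 133))) (XT.nd (nat_lit 78) (nat_lit 0) (nat_lit 0) (XT.lf (nat_lit 0) (nat_lit 1389817350933) (nat_lit 152) (nat_lit 7315304591977) (nat_lit 0) (nat_lit 1375366092241) (nat_lit 1) (nat_lit 5) (nat_lit 3) (nat_lit 4) (nat_lit 1) (nat_lit 4) (nat_lit 264) (nat_lit 204) (nat_lit 132)) (XT.lf (nat_lit 0) (nat_lit 1607347129635) (nat_lit 152) (nat_lit 8390607781682) (nat_lit 0) (nat_lit 1592895790576) (nat_lit 1) (nat_lit 5) (nat_lit 3) (nat_lit 4) (nat_lit 1) (nat_lit 4) (nat_lit 265) (nat_lit 204) (nat_lit 131)))) (XT.nd (nat_lit 156) (nat_lit 0) (nat_lit 0) (XT.nd (nat_lit 78) (nat_lit 0) (nat_lit 0) (XT.lf (nat_lit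 0) (nat_lit 1857506258451) (nat_lit 152) (nat_lit 9627206678471) (nat_lit 0) (nat_lit 1843054849508) (nat_lit 1) (nat_lit 5) (nat_lit 3) (nat_lit 4) (nat_lit 1) (nat_lit 4) (nat_lit 266) (nat_lit 204) (nat_lit 130)) (XT.lf (nat_lit 0) (nat_lit 2145189155118) (nat_lit 152) (nat_lit 11049295608584) (nat_lit 0) (nat_lit 2130737685407) (nat_lit 1) (nat_lit 5) (nat_lit 3) (nat_lit 4) (nat_lit 1) (nat_lit 4) (nat_lit 267) (nat_lit 204) (nat_lit 129))) (XT.nd (nat_lit 78) (nat_lit 0) (nat_lit 0) (XT.lf (nat_lit 0) (nat_lit 2476024398049) (nat_lit 152) (nat_lit 12684698051091) (nat_lit 0) (nat_lit 2461572875496) (nat_lit 1) (nat_lit 5) (nat_lit 3) (nat_lit 4) (nat_lit 1) (nat_lit 4) (nat_lit 268) (nat_lit 204) (nat_lit 128)) (XT.lf (nat_lit 0) (nat_lit 2856484850694) (nat_lit 152) (nat_lit 14565411010301) (nat_lit 0) (nat_lit 2842033282191) (nat_lit 1) (nat_lit 5) (nat_lit 3) (nat_lit 4) (nat_lit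 1) (nat_lit 4) (nat_lit 269) (nat_lit 204) (nat_lit 127)))))) (XT.nd (nat_lit 936) (nat_lit 0) (nat_lit 0) (XT.nd (nat_lit 312) (nat_lit 0) (nat_lit 0) (XT.nd (nat_lit 156) (nat_lit 0) (nat_lit 0) (XT.nd (nat_lit 78) (nat_lit 0) (nat_lit 0) (XT.lf (nat_lit 0) (nat_lit 3294014304516) (nat_lit 152) (nat_lit 16728231044110) (nat_lit 0) (nat_lit 3279562696058) (nat_lit 1) (nat_lit 5) (nat_lit 3) (nat_lit 4) (nat_lit 1) (nat_lit 4) (nat_lit 270) (nat_lit 204) (nat_lit 126)) (XT.lf (nat_lit 0) (nat_lit 3797173118396) (nat_lit 152) (nat_lit 19215474196660) (nat_lit 0) (nat_lit 3782721475192) (nat_lit 1) (nat_lit 5) (nat_lit 3) (nat_lit 4) (nat_lit 1) (nat_lit 4) (nat_lit 271) (nat_lit 204) (nat_lit 125))) (XT.nd (nat_lit 78) (nat_lit 0) (nat_lit 0) (XT.lf (nat_lit 0) (nat_lit 4375805703908) (nat_lit 152) (nat_lit 22075803920934) (nat_lit 0) (nat_lit 4361354030492) (nat_lit 1) (nat_lit 5)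 (nat_lit 3) (nat_lit 4) (nat_lit 1) (nat_lit 4) (nat_lit 272) (nat_lit 204) (nat_lit 124)) (XT.lf (nat_lit 0) (nat_lit 5041233133379) (nat_lit 152) (nat_lit 25365183189799) (nat_lit 0) (nat_lit 5026781433691) (nat_lit 1) (nat_lit 5) (nat_lit 3) (nat_lit 4) (nat_lit 1) (nat_lit 4) (nat_lit 273) (nat_lit 204) (nat_lit 123)))) (XT.nd (nat_lit 468) (nat_lit 0) (nat_lit 0) (XT.nd (nat_lit 390) (nat_lit 0) (nat_lit 0) (XT.lf (nat_lit 0) (nat_lit 5806474639123) (nat_lit 152) (nat_lit 29147969423733) (nat_lit 0) (nat_lit 5792022916590) (nat_lit 1) (nat_lit 5) (nat_lit 3) (nat_lit 4) (nat_lit 1) (nat_lit 4) (nat_lit 274) (nat_lit 204) (nat_lit 122)) (XT.lf (nat_lit 0) (nat_lit 11739956595545) (nat_lit 152) (nat_lit 58478705466692) (nat_lit 0) (nat_lit 11725504796432) (nat_lit 1) (nat_lit 5) (nat_lit 3) (nat_lit 4) (nat_lit 1) (nat_lit 4) (nat_lit 279) (nat_lit 204) (nat_lit 117))) (XT.nd (nat_lit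 78) (nat_lit 0) (nat_lit 0) (XT.lf (nat_lit 0) (nat_lit 13510006476248) (nat_lit 152) (nat_lit 67228520325008) (nat_lit 0) (nat_lit 13495554667259) (nat_lit 1) (nat_lit 5) (nat_lit 3) (nat_lit 4) (nat_lit 1) (nat_lit 4) (nat_lit 280) (nat_lit 204) (nat_lit 116)) (XT.lf (nat_lit 0) (nat_lit 15545563824717) (nat_lit 152) (nat_lit 77290807440169) (nat_lit 0) (nat_lit 15531112007139) (nat_lit 1) (nat_lit 5) (nat_lit 3) (nat_lit 4) (nat_lit 1) (nat_lit 4) (nat_lit 281) (nat_lit 204) (nat_lit 115))))) (XT.nd (nat_lit 25428) (nat_lit 0) (nat_lit 1216) (XT.nd (nat_lit 25272) (nat_lit 0) (nat_lit 1368) (XT.nd (nat_lit 78) (nat_lit 0) (nat_lit 0) (XT.lf (nat_lit 0) (nat_lit 17886454762986) (nat_lit 152) (nat_lit 88862437647035) (nat_lit 0) (nat_lit 17872002937940) (nat_lit 1) (nat_lit 5) (nat_lit 3) (nat_lit 4) (nat_lit 1) (nat_lit 4) (nat_lit 282) (nat_lit 204) (nat_lit 114)) (XT.lf (nat_lit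 0) (nat_lit 20578479331151) (nat_lit 152) (nat_lit 102169812406178) (nat_lit 0) (nat_lit 20564027499611) (nat_lit 1) (nat_lit 5) (nat_lit 3) (nat_lit 4) (nat_lit 1) (nat_lit 4) (nat_lit 283) (nat_lit 204) (nat_lit 113))) (XT.nd (nat_lit 78) (nat_lit 0) (nat_lit 0) (XT.lf (nat_lit 0) (nat_lit 1018575007) (nat_lit 0) (nat_lit 1018575007) (nat_lit 228) (nat_lit 2398801694) (nat_lit 19) (nat_lit 5) (nat_lit 19) (nat_lit 3) (nat_lit 22) (nat_lit 3) (nat_lit 205) (nat_lit 205) (nat_lit 190)) (XT.lf (nat_lit 0) (nat_lit 5230377975) (nat_lit 228) (nat_lit 3056035693) (nat_lit 304) (nat_lit 1114236372) (nat_lit 19) (nat_lit 5) (nat_lit 22) (nat_lit 3) (nat_lit 23) (nat_lit 5) (nat_lit 206) (nat_lit 205) (nat_lit 189)))) (XT.nd (nat_lit 156) (nat_lit 152) (nat_lit 0) (XT.nd (nat_lit 78) (nat_lit 0) (nat_lit 0) (XT.lf (nat_lit 76) (nat_lit 1202392625) (nat_lit 0) (nat_lit 5364801415) (nat_lit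 304) (nat_lit 3442030658) (nat_lit 20) (nat_lit 5) (nat_lit 19) (nat_lit 5) (nat_lit 23) (nat_lit 5) (nat_lit 207) (nat_lit 205) (nat_lit 188)) (XT.lf (nat_lit 76) (nat_lit 6350321958) (nat_lit 0) (nat_lit 1788840950) (nat_lit 304) (nat_lit 2566132439) (nat_lit 20) (nat_lit 5) (nat_lit 19) (nat_lit 5) (nat_lit 23) (nat_lit 5) (nat_lit 208) (nat_lit 205) (nat_lit 187))) (XT.nd (nat_lit 78) (nat_lit 0) (nat_lit 0) (XT.lf (nat_lit 0) (nat_lit 624737451) (nat_lit 228) (nat_lit 9336639626) (nat_lit 304) (nat_lit 1543453197) (nat_lit 17) (nat_lit 5) (nat_lit 20) (nat_lit 5) (nat_lit 21) (nat_lit 5) (nat_lit 209) (nat_lit 205) (nat_lit 186)) (XT.lf (nat_lit 0) (nat_lit 6652518747) (nat_lit 228) (nat_lit 5615843677) (nat_lit 304) (nat_lit 125279047) (nat_lit 17) (nat_lit 5) (nat_lit 20) (nat_lit 5) (nat_lit 21) (nat_lit 5) (nat_lit 210) (nat_lit 205) (nat_lit 185))))))))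
noncomputable def xc31 : XT := (XT.nd (nat_lit 2418) (nat_lit 152) (nat_lit 0) (XT.nd (nat_lit 1170) (nat_lit 152) (nat_lit 0) (XT.nd (nat_lit 546) (nat_lit 380) (nat_lit 0) (XT.nd (nat_lit 234) (nat_lit 228) (nat_lit 0) (XT.nd (nat_lit 78) (nat_lit 0) (nat_lit 0) (XT.lf (nat_lit 0) (nat_lit 15731330) (nat_lit 228) (nat_lit 1266822816) (nat_lit 304) (nat_lit 12138025401) (nat_lit 13) (nat_lit 5) (nat_lit 16) (nat_lit 5) (nat_lit 17) (nat_lit 5) (nat_lit 211) (nat_lit 205) (nat_lit 184)) (XT.nd (nat_lit 78) (nat_lit 0) (nat_lit 0) (XT.lf (nat_lit 0) (nat_lit 3275895672) (nat_lit 304) (nat_lit 7550619758) (nat_lit 76) (nat_lit 3716772335) (nat_lit 13) (nat_lit 5) (nat_lit 17) (nat_lit 5) (nat_lit 14) (nat_lit 5) (nat_lit 212) (nat_lit 205) (nat_lit 183)) (XT.lf (nat_lit 0) (nat_lit 5557367603) (nat_lit 304) (nat_lit 965989145) (nat_lit 76) (nat_lit 9313283230) (nat_lit 13) (nat_lit 5)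 (nat_lit 17) (nat_lit 5) (nat_lit 14) (nat_lit 5) (nat_lit 213) (nat_lit 205) (nat_lit 182)))) (XT.nd (nat_lit 156) (nat_lit 76) (nat_lit 0) (XT.nd (nat_lit 78) (nat_lit 0) (nat_lit 0) (XT.lf (nat_lit 0) (nat_lit 7168521100) (nat_lit 152) (nat_lit 1247463074) (nat_lit 228) (nat_lit 8873300219) (nat_lit 11) (nat_lit 5) (nat_lit 13) (nat_lit 5) (nat_lit 14) (nat_lit 5) (nat_lit 214) (nat_lit 205) (nat_lit 181)) (XT.lf (nat_lit 0) (nat_lit 11898381848) (nat_lit 228) (nat_lit 2603347760) (nat_lit 76) (nat_lit 4429306657) (nat_lit 11) (nat_lit 5) (nat_lit 14) (nat_lit 5) (nat_lit 12) (nat_lit 4) (nat_lit 215) (nat_lit 205) (nat_lit 180))) (XT.nd (nat_lit 78) (nat_lit 0) (nat_lit 0) (XT.lf (nat_lit 0) (nat_lit 6489699698) (nat_lit 76) (nat_lit 9691576635) (nat_lit 152) (nat_lit 4596453213) (nat_lit 10) (nat_lit 5) (nat_lit 11) (nat_lit 5) (nat_lit 12) (nat_lit 4) (nat_lit 216) (nat_lit 205)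 (nat_lit 179)) (XT.lf (nat_lit 0) (nat_lit 17172146781) (nat_lit 76) (nat_lit 4024292274) (nat_lit 152) (nat_lit 1691859790) (nat_lit 10) (nat_lit 5) (nat_lit 11) (nat_lit 5) (nat_lit 12) (nat_lit 4) (nat_lit 217) (nat_lit 205) (nat_lit 178))))) (XT.nd (nat_lit 312) (nat_lit 152) (nat_lit 0) (XT.nd (nat_lit 156) (nat_lit 76) (nat_lit 0) (XT.nd (nat_lit 78) (nat_lit 0) (nat_lit 0) (XT.lf (nat_lit 0) (nat_lit 1755875298) (nat_lit 152) (nat_lit 20996421633) (nat_lit 76) (nat_lit 2515049445) (nat_lit 8) (nat_lit 5) (nat_lit 10) (nat_lit 5) (nat_lit 9) (nat_lit 4) (nat_lit 218) (nat_lit 205) (nat_lit 177)) (XT.lf (nat_lit 0) (nat_lit 6012006927) (nat_lit 152) (nat_lit 11911590703) (nat_lit 76) (nat_lit 9998129367) (nat_lit 8) (nat_lit 5) (nat_lit 10) (nat_lit 5) (nat_lit 9) (nat_lit 4) (nat_lit 219) (nat_lit 205) (nat_lit 176))) (XT.nd (nat_lit 78) (nat_lit 76) (nat_lit 0) (XT.lf (nat_lit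 0) (nat_lit 10871593214) (nat_lit 152) (nat_lit 1520742855) (nat_lit 76) (nat_lit 18587371879) (nat_lit 8) (nat_lit 5) (nat_lit 10) (nat_lit 5) (nat_lit 9) (nat_lit 4) (nat_lit 220) (nat_lit 205) (nat_lit 175)) (XT.lf (nat_lit 0) (nat_lit 11393773624) (nat_lit 76) (nat_lit 5507731268) (nat_lit 152) (nat_lit 17528845622) (nat_lit 7) (nat_lit 5) (nat_lit 8) (nat_lit 5) (nat_lit 9) (nat_lit 4) (nat_lit 221) (nat_lit 205) (nat_lit 174)))) (XT.nd (nat_lit 156) (nat_lit 76) (nat_lit 0) (XT.nd (nat_lit 78) (nat_lit 76) (nat_lit 0) (XT.lf (nat_lit 0) (nat_lit 23989795753) (nat_lit 152) (nat_lit 12124551735) (nat_lit 0) (nat_lit 2261308187) (nat_lit 7) (nat_lit 5) (nat_lit 9) (nat_lit 4) (nat_lit 7) (nat_lit 4) (nat_lit 222) (nat_lit 205) (nat_lit 173)) (XT.lf (nat_lit 0) (nat_lit 129436955) (nat_lit 76) (nat_lit 32254168294) (nat_lit 76) (nat_lit 10492940610) (nat_lit 6) (nat_lit 4) (nat_lit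 7) (nat_lit 5) (nat_lit 7) (nat_lit 4) (nat_lit 223) (nat_lit 205) (nat_lit 172))) (XT.nd (nat_lit 78) (nat_lit 76) (nat_lit 0) (XT.lf (nat_lit 0) (nat_lit 15542071659) (nat_lit 76) (nat_lit 27104405079) (nat_lit 76) (nat_lit 5314707727) (nat_lit 6) (nat_lit 4) (nat_lit 7) (nat_lit 5) (nat_lit 7) (nat_lit 4) (nat_lit 224) (nat_lit 205) (nat_lit 171)) (XT.lf (nat_lit 0) (nat_lit 561495197) (nat_lit 152) (nat_lit 20607238909) (nat_lit 76) (nat_lit 32639158467) (nat_lit 5) (nat_lit 5) (nat_lit 7) (nat_lit 5) (nat_lit 6) (nat_lit 4) (nat_lit 225) (nat_lit 205) (nat_lit 170)))))) (XT.nd (nat_lit 624) (nat_lit 0) (nat_lit 0) (XT.nd (nat_lit 312) (nat_lit 76) (nat_lit 0) (XT.nd (nat_lit 156) (nat_lit 0) (nat_lit 0) (XT.nd (nat_lit 78) (nat_lit 76) (nat_lit 0) (XT.lf (nat_lit 0) (nat_lit 6756078062) (nat_lit 152) (nat_lit 7310412908) (nat_lit 76) (nat_lit 46430067193) (nat_lit 5) (nat_lit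 5) (nat_lit 7) (nat_lit 5) (nat_lit 6) (nat_lit 4) (nat_lit 226) (nat_lit 205) (nat_lit 169)) (XT.lf (nat_lit 0) (nat_lit 8728678520) (nat_lit 76) (nat_lit 5496148703) (nat_lit 152) (nat_lit 53912014420) (nat_lit 4) (nat_lit 5) (nat_lit 5) (nat_lit 5) (nat_lit 6) (nat_lit 4) (nat_lit 227) (nat_lit 205) (nat_lit 168))) (XT.nd (nat_lit 78) (nat_lit 0) (nat_lit 0) (XT.lf (nat_lit 0) (nat_lit 23378758889) (nat_lit 152) (nat_lit 49099217191) (nat_lit 0) (nat_lit 4360517465) (nat_lit 4) (nat_lit 5) (nat_lit 6) (nat_lit 4) (nat_lit 4) (nat_lit 4) (nat_lit 228) (nat_lit 205) (nat_lit 167)) (XT.lf (nat_lit 0) (nat_lit 34153597543) (nat_lit 152) (nat_lit 37531624267) (nat_lit 0) (nat_lit 15123047896) (nat_lit 4) (nat_lit 5) (nat_lit 6) (nat_lit 4) (nat_lit 4) (nat_lit 4) (nat_lit 229) (nat_lit 205) (nat_lit 166)))) (XT.nd (nat_lit 156) (nat_lit 76) (nat_lit 0) (XT.nd (nat_lit 78) (nat_lit 0)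 (nat_lit 0) (XT.lf (nat_lit 0) (nat_lit 46532571450) (nat_lit 152) (nat_lit 24251478085) (nat_lit 0) (nat_lit 27491319000) (nat_lit 4) (nat_lit 5) (nat_lit 6) (nat_lit 4) (nat_lit 4) (nat_lit 4) (nat_lit 230) (nat_lit 205) (nat_lit 165)) (XT.lf (nat_lit 0) (nat_lit 60757877925) (nat_lit 152) (nat_lit 8998949696) (nat_lit 0) (nat_lit 41707318691) (nat_lit 4) (nat_lit 5) (nat_lit 6) (nat_lit 4) (nat_lit 4) (nat_lit 4) (nat_lit 231) (nat_lit 205) (nat_lit 164))) (XT.nd (nat_lit 78) (nat_lit 0) (nat_lit 0) (XT.lf (nat_lit 0) (nat_lit 9357444333) (nat_lit 76) (nat_lit 68137865663) (nat_lit 76) (nat_lit 49079213573) (nat_lit 3) (nat_lit 4) (nat_lit 4) (nat_lit 5) (nat_lit 4) (nat_lit 4) (nat_lit 232) (nat_lit 205) (nat_lit 163)) (XT.lf (nat_lit 0) (nat_lit 31462354956) (nat_lit 76) (nat_lit 65742776816) (nat_lit 76) (nat_lit 46677087459) (nat_lit 3) (nat_lit 4) (nat_lit 4) (nat_lit 5) (nat_lit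 4) (nat_lit 4) (nat_lit 233) (nat_lit 205) (nat_lit 162))))) (XT.nd (nat_lit 312) (nat_lit 0) (nat_lit 0) (XT.nd (nat_lit 156) (nat_lit 0) (nat_lit 0) (XT.nd (nat_lit 78) (nat_lit 0) (nat_lit 0) (XT.lf (nat_lit 0) (nat_lit 56868826742) (nat_lit 76) (nat_lit 62995100289) (nat_lit 76) (nat_lit 43923291570) (nat_lit 3) (nat_lit 4) (nat_lit 4) (nat_lit 5) (nat_lit 4) (nat_lit 4) (nat_lit 234) (nat_lit 205) (nat_lit 161)) (XT.lf (nat_lit 0) (nat_lit 86073942835) (nat_lit 76) (nat_lit 59841077194) (nat_lit 76) (nat_lit 40763947291) (nat_lit 3) (nat_lit 4) (nat_lit 4) (nat_lit 5) (nat_lit 4) (nat_lit 4) (nat_lit 235) (nat_lit 205) (nat_lit 160))) (XT.nd (nat_lit 78) (nat_lit 0) (nat_lit 0) (XT.lf (nat_lit 0) (nat_lit 119649107679) (nat_lit 76) (nat_lit 56218998384) (nat_lit 76) (nat_lit 37137241363) (nat_lit 3) (nat_lit 4) (nat_lit 4) (nat_lit 5) (nat_lit 4) (nat_lit 4) (nat_lit 236) (nat_lit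 205) (nat_lit 159)) (XT.lf (nat_lit 0) (nat_lit 158251226674) (nat_lit 76) (nat_lit 52057997099) (nat_lit 76) (nat_lit 32972216498) (nat_lit 3) (nat_lit 4) (nat_lit 4) (nat_lit 5) (nat_lit 4) (nat_lit 4) (nat_lit 237) (nat_lit 205) (nat_lit 158)))) (XT.nd (nat_lit 156) (nat_lit 0) (nat_lit 0) (XT.nd (nat_lit 78) (nat_lit 0) (nat_lit 0) (XT.lf (nat_lit 0) (nat_lit 202635558670) (nat_lit 76) (nat_lit 47276662444) (nat_lit 76) (nat_lit 28187383078) (nat_lit 3) (nat_lit 4) (nat_lit 4) (nat_lit 5) (nat_lit 4) (nat_lit 4) (nat_lit 238) (nat_lit 205) (nat_lit 157)) (XT.lf (nat_lit 0) (nat_lit 253670492772) (nat_lit 76) (nat_lit 41781446567) (nat_lit 76) (nat_lit 22689124797) (nat_lit 3) (nat_lit 4) (nat_lit 4) (nat_lit 5) (nat_lit 4) (nat_lit 4) (nat_lit 239) (nat_lit 205) (nat_lit 156))) (XT.nd (nat_lit 78) (nat_lit 0) (nat_lit 0) (XT.lf (nat_lit 0) (nat_lit 312354538558) (nat_lit 76) (nat_lit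 35464834376) (nat_lit 76) (nat_lit 16369867036) (nat_lit 3) (nat_lit 4) (nat_lit 4) (nat_lit 5) (nat_lit 4) (nat_lit 4) (nat_lit 240) (nat_lit 205) (nat_lit 155)) (XT.lf (nat_lit 0) (nat_lit 379835862144) (nat_lit 76) (nat_lit 28203239979) (nat_lit 76) (nat_lit 9105972144) (nat_lit 3) (nat_lit 4) (nat_lit 4) (nat_lit 5) (nat_lit 4) (nat_lit 4) (nat_lit 241) (nat_lit 205) (nat_lit 154))))))) (XT.nd (nat_lit 1170) (nat_lit 0) (nat_lit 0) (XT.nd (nat_lit 546) (nat_lit 0) (nat_lit 0) (XT.nd (nat_lit 234) (nat_lit 0) (nat_lit 0) (XT.nd (nat_lit 78) (nat_lit 152) (nat_lit 0) (XT.lf (nat_lit 0) (nat_lit 457434750294) (nat_lit 76) (nat_lit 19854588703) (nat_lit 76) (nat_lit 755320438) (nat_lit 3) (nat_lit 4) (nat_lit 4) (nat_lit 5) (nat_lit 4) (nat_lit 4) (nat_lit 242) (nat_lit 205) (nat_lit 153)) (XT.nd (nat_lit 78) (nat_lit 76) (nat_lit 0) (XT.lf (nat_lit 0) (nat_lit 8057985454) (nat_lit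 152) (nat_lit 1776339042) (nat_lit 76) (nat_lit 538190243793) (nat_lit 2) (nat_lit 5) (nat_lit 4) (nat_lit 5) (nat_lit 3) (nat_lit 4) (nat_lit 243) (nat_lit 205) (nat_lit 152)) (XT.lf (nat_lit 0) (nat_lit 19130472124) (nat_lit 152) (nat_lit 606693839310) (nat_lit 0) (nat_lit 2519584835) (nat_lit 1) (nat_lit 5) (nat_lit 3) (nat_lit 4) (nat_lit 1) (nat_lit 4) (nat_lit 244) (nat_lit 205) (nat_lit 151)))) (XT.nd (nat_lit 156) (nat_lit 0) (nat_lit 0) (XT.nd (nat_lit 78) (nat_lit 0) (nat_lit 0) (XT.lf (nat_lit 0) (nat_lit 32427498833) (nat_lit 152) (nat_lit 672383611326) (nat_lit 0) (nat_lit 15815467792) (nat_lit 1) (nat_lit 5) (nat_lit 3) (nat_lit 4) (nat_lit 1) (nat_lit 4) (nat_lit 245) (nat_lit 205) (nat_lit 150)) (XT.lf (nat_lit 0) (nat_lit 47717418820) (nat_lit 152) (nat_lit 747930102926) (nat_lit 0) (nat_lit 31104393211) (nat_lit 1) (nat_lit 5) (nat_lit 3) (nat_lit 4) (nat_lit 1) (nat_lit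 4) (nat_lit 246) (nat_lit 205) (nat_lit 149))) (XT.nd (nat_lit 78) (nat_lit 0) (nat_lit 0) (XT.lf (nat_lit 0) (nat_lit 65299382694) (nat_lit 152) (nat_lit 834811397641) (nat_lit 0) (nat_lit 48685492244) (nat_lit 1) (nat_lit 5) (nat_lit 3) (nat_lit 4) (nat_lit 1) (nat_lit 4) (nat_lit 247) (nat_lit 205) (nat_lit 148)) (XT.lf (nat_lit 0) (nat_lit 85517385399) (nat_lit 152) (nat_lit 934727346891) (nat_lit 0) (nat_lit 68902742913) (nat_lit 1) (nat_lit 5) (nat_lit 3) (nat_lit 4) (nat_lit 1) (nat_lit 4) (nat_lit 248) (nat_lit 205) (nat_lit 147))))) (XT.nd (nat_lit 312) (nat_lit 0) (nat_lit 0) (XT.nd (nat_lit 156) (nat_lit 0) (nat_lit 0) (XT.nd (nat_lit 78) (nat_lit 0) (nat_lit 0) (XT.lf (nat_lit 0) (nat_lit 108766996554) (nat_lit 152) (nat_lit 1049632827943) (nat_lit 0) (nat_lit 92151700124) (nat_lit 1) (nat_lit 5) (nat_lit 3) (nat_lit 4) (nat_lit 1) (nat_lit 4) (nat_lit 249) (nat_lit 205)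 (nat_lit 146)) (XT.lf (nat_lit 0) (nat_lit 135503099856) (nat_lit 152) (nat_lit 1181775991513) (nat_lit 0) (nat_lit 118887234779) (nat_lit 1) (nat_lit 5) (nat_lit 3) (nat_lit 4) (nat_lit 1) (nat_lit 4) (nat_lit 250) (nat_lit 205) (nat_lit 145))) (XT.nd (nat_lit 78) (nat_lit 0) (nat_lit 0) (XT.lf (nat_lit 0) (nat_lit 166248792978) (nat_lit 152) (nat_lit 1333742247324) (nat_lit 0) (nat_lit 149632433425) (nat_lit 1) (nat_lit 5) (nat_lit 3) (nat_lit 4) (nat_lit 1) (nat_lit 4) (nat_lit 251) (nat_lit 205) (nat_lit 144)) (XT.lf (nat_lit 0) (nat_lit 201605622089) (nat_lit 152) (nat_lit 1508504848205) (nat_lit 0) (nat_lit 184988832558) (nat_lit 1) (nat_lit 5) (nat_lit 3) (nat_lit 4) (nat_lit 1) (nat_lit 4) (nat_lit 252) (nat_lit 205) (nat_lit 143)))) (XT.nd (nat_lit 156) (nat_lit 0) (nat_lit 0) (XT.nd (nat_lit 78) (nat_lit 0) (nat_lit 0) (XT.lf (nat_lit 0) (nat_lit 242265351238) (nat_lit 152)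 (nat_lit 1709483062437) (nat_lit 0) (nat_lit 225648187812) (nat_lit 1) (nat_lit 5) (nat_lit 3) (nat_lit 4) (nat_lit 1) (nat_lit 4) (nat_lit 253) (nat_lit 205) (nat_lit 142)) (XT.lf (nat_lit 0) (nat_lit 289023496864) (nat_lit 152) (nat_lit 1940609072470) (nat_lit 0) (nat_lit 272406008312) (nat_lit 1) (nat_lit 5) (nat_lit 3) (nat_lit 4) (nat_lit 1) (nat_lit 4) (nat_lit 254) (nat_lit 205) (nat_lit 141))) (XT.nd (nat_lit 78) (nat_lit 0) (nat_lit 0) (XT.lf (nat_lit 0) (nat_lit 342794892252) (nat_lit 152) (nat_lit 2206404908936) (nat_lit 0) (nat_lit 326177120981) (nat_lit 1) (nat_lit 5) (nat_lit 3) (nat_lit 4) (nat_lit 1) (nat_lit 4) (nat_lit 255) (nat_lit 205) (nat_lit 140)) (XT.lf (nat_lit 0) (nat_lit 404631586441) (nat_lit 152) (nat_lit 2512070925157) (nat_lit 0) (nat_lit 388013569328) (nat_lit 1) (nat_lit 5) (nat_lit 3) (nat_lit 4) (nat_lit 1) (nat_lit 4) (nat_lit 256) (nat_lit 205)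 (nat_lit 139)))))) (XT.nd (nat_lit 624) (nat_lit 0) (nat_lit 0) (XT.nd (nat_lit 312) (nat_lit 0) (nat_lit 0) (XT.nd (nat_lit 156) (nat_lit 0) (nat_lit 0) (XT.nd (nat_lit 78) (nat_lit 0) (nat_lit 0) (XT.lf (nat_lit 0) (nat_lit 475743427795) (nat_lit 152) (nat_lit 2863587543189) (nat_lit 0) (nat_lit 459125196907) (nat_lit 1) (nat_lit 5) (nat_lit 3) (nat_lit 4) (nat_lit 1) (nat_lit 4) (nat_lit 257) (nat_lit 205) (nat_lit 138)) (XT.lf (nat_lit 0) (nat_lit 557521734952) (nat_lit 152) (nat_lit 3267832262082) (nat_lit 0) (nat_lit 540903318172) (nat_lit 1) (nat_lit 5) (nat_lit 3) (nat_lit 4) (nat_lit 1) (nat_lit 4) (nat_lit 258) (nat_lit 205) (nat_lit 137))) (XT.nd (nat_lit 78) (nat_lit 0) (nat_lit 0) (XT.lf (nat_lit 0) (nat_lit 651566518266) (nat_lit 152) (nat_lit 3732714217639) (nat_lit 0) (nat_lit 634947939841) (nat_lit 1) (nat_lit 5) (nat_lit 3) (nat_lit 4) (nat_lit 1) (nat_lit 4) (nat_lit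 259) (nat_lit 205) (nat_lit 136)) (XT.lf (nat_lit 0) (nat_lit 759717784370) (nat_lit 152) (nat_lit 4267328926382) (nat_lit 0) (nat_lit 743099065384) (nat_lit 1) (nat_lit 5) (nat_lit 3) (nat_lit 4) (nat_lit 1) (nat_lit 4) (nat_lit 260) (nat_lit 205) (nat_lit 135)))) (XT.nd (nat_lit 156) (nat_lit 0) (nat_lit 0) (XT.nd (nat_lit 78) (nat_lit 0) (nat_lit 0) (XT.lf (nat_lit 0) (nat_lit 884091536294) (nat_lit 152) (nat_lit 4882136241309) (nat_lit 0) (nat_lit 867472695082) (nat_lit 1) (nat_lit 5) (nat_lit 3) (nat_lit 4) (nat_lit 1) (nat_lit 4) (nat_lit 261) (nat_lit 205) (nat_lit 134)) (XT.lf (nat_lit 0) (nat_lit 1027121173534) (nat_lit 152) (nat_lit 5589165001189) (nat_lit 0) (nat_lit 1010502226038) (nat_lit 1) (nat_lit 5) (nat_lit 3) (nat_lit 4) (nat_lit 1) (nat_lit 4) (nat_lit 262) (nat_lit 205) (nat_lit 133))) (XT.nd (nat_lit 78) (nat_lit 0) (nat_lit 0) (XT.lf (nat_lit 0) (nat_lit 1191605102036)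 (nat_lit 152) (nat_lit 6402248377412) (nat_lit 0) (nat_lit 1174986062118) (nat_lit 1) (nat_lit 5) (nat_lit 3) (nat_lit 4) (nat_lit 1) (nat_lit 4) (nat_lit 263) (nat_lit 205) (nat_lit 132)) (XT.lf (nat_lit 0) (nat_lit 1380761485617) (nat_lit 152) (nat_lit 7337294522991) (nat_lit 0) (nat_lit 1364142365333) (nat_lit 1) (nat_lit 5) (nat_lit 3) (nat_lit 4) (nat_lit 1) (nat_lit 4) (nat_lit 264) (nat_lit 205) (nat_lit 131))))) (XT.nd (nat_lit 312) (nat_lit 0) (nat_lit 0) (XT.nd (nat_lit 156) (nat_lit 0) (nat_lit 0) (XT.nd (nat_lit 78) (nat_lit 0) (nat_lit 0) (XT.lf (nat_lit 0) (nat_lit 1598291210044) (nat_lit 152) (nat_lit 8412597819034) (nat_lit 0) (nat_lit 1581672019876) (nat_lit 1) (nat_lit 5) (nat_lit 3) (nat_lit 4) (nat_lit 1) (nat_lit 4) (nat_lit 265) (nat_lit 205) (nat_lit 130)) (XT.lf (nat_lit 0) (nat_lit 1848450291663) (nat_lit 152) (nat_lit 9649196808291) (nat_lit 0) (nat_lit 1831831040728)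 (nat_lit 1) (nat_lit 5) (nat_lit 3) (nat_lit 4) (nat_lit 1) (nat_lit 4) (nat_lit 266) (nat_lit 205) (nat_lit 129))) (XT.nd (nat_lit 78) (nat_lit 0) (nat_lit 0) (XT.lf (nat_lit 0) (nat_lit 2136133147291) (nat_lit 152) (nat_lit 11071285818813) (nat_lit 0) (nat_lit 2119513843513) (nat_lit 1) (nat_lit 5) (nat_lit 3) (nat_lit 4) (nat_lit 1) (nat_lit 4) (nat_lit 267) (nat_lit 205) (nat_lit 128)) (XT.lf (nat_lit 0) (nat_lit 2466968354535) (nat_lit 152) (nat_lit 12706688331239) (nat_lit 0) (nat_lit 2450349004808) (nat_lit 1) (nat_lit 5) (nat_lit 3) (nat_lit 4) (nat_lit 1) (nat_lit 4) (nat_lit 268) (nat_lit 205) (nat_lit 127)))) (XT.nd (nat_lit 156) (nat_lit 0) (nat_lit 0) (XT.nd (nat_lit 78) (nat_lit 0) (nat_lit 0) (XT.lf (nat_lit 0) (nat_lit 2847428776148) (nat_lit 152) (nat_lit 14587401351248) (nat_lit 0) (nat_lit 2830809386464) (nat_lit 1) (nat_lit 5) (nat_lit 3) (nat_lit 4) (nat_lit 1)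 (nat_lit 4) (nat_lit 269) (nat_lit 205) (nat_lit 126)) (XT.lf (nat_lit 0) (nat_lit 3284958202986) (nat_lit 152) (nat_lit 16750221437926) (nat_lit 0) (nat_lit 3268338778558) (nat_lit 1) (nat_lit 5) (nat_lit 3) (nat_lit 4) (nat_lit 1) (nat_lit 4) (nat_lit 270) (nat_lit 205) (nat_lit 125))) (XT.nd (nat_lit 546) (nat_lit 0) (nat_lit 0) (XT.lf (nat_lit 0) (nat_lit 3788116993401) (nat_lit 152) (nat_lit 19237464636449) (nat_lit 0) (nat_lit 3771497538760) (nat_lit 1) (nat_lit 5) (nat_lit 3) (nat_lit 4) (nat_lit 1) (nat_lit 4) (nat_lit 271) (nat_lit 205) (nat_lit 124)) (XT.lf (nat_lit 0) (nat_lit 10191726549278) (nat_lit 152) (nat_lit 50892161466441) (nat_lit 0) (nat_lit 10175106968940) (nat_lit 1) (nat_lit 5) (nat_lit 3) (nat_lit 4) (nat_lit 1) (nat_lit 4) (nat_lit 278) (nat_lit 205) (nat_lit 117))))))))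
noncomputable def xc32 : XT := (XT.nd (nat_lit 27612) (nat_lit 0) (nat_lit 0) (XT.nd (nat_lit 26364) (nat_lit 0) (nat_lit 228) (XT.nd (nat_lit 25740) (nat_lit 0) (nat_lit 760) (XT.nd (nat_lit 234) (nat_lit 0) (nat_lit 0) (XT.nd (nat_lit 78) (nat_lit 0) (nat_lit 0) (XT.lf (nat_lit 0) (nat_lit 11730900365256) (nat_lit 152) (nat_lit 58500696112778) (nat_lit 0) (nat_lit 11714280775042) (nat_lit 1) (nat_lit 5) (nat_lit 3) (nat_lit 4) (nat_lit 1) (nat_lit 4) (nat_lit 279) (nat_lit 205) (nat_lit 116)) (XT.nd (nat_lit 78) (nat_lit 0) (nat_lit 0) (XT.lf (nat_lit 0) (nat_lit 13500950239290) (nat_lit 152) (nat_lit 67250510984162) (nat_lit 0) (nat_lit 13484330640487) (nat_lit 1) (nat_lit 5) (nat_lit 3) (nat_lit 4) (nat_lit 1) (nat_lit 4) (nat_lit 280) (nat_lit 205) (nat_lit 115)) (XT.lf (nat_lit 0) (nat_lit 15536507581958) (nat_lit 152) (nat_lit 77312798110686) (nat_lit 0) (nat_lit 15519887975687)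 (nat_lit 1) (nat_lit 5) (nat_lit 3) (nat_lit 4) (nat_lit 1) (nat_lit 4) (nat_lit 281) (nat_lit 205) (nat_lit 114)))) (XT.nd (nat_lit 25350) (nat_lit 0) (nat_lit 1368) (XT.nd (nat_lit 78) (nat_lit 0) (nat_lit 0) (XT.lf (nat_lit 0) (nat_lit 17877398515183) (nat_lit 152) (nat_lit 88884428327435) (nat_lit 0) (nat_lit 17860778902418) (nat_lit 1) (nat_lit 5) (nat_lit 3) (nat_lit 4) (nat_lit 1) (nat_lit 4) (nat_lit 282) (nat_lit 205) (nat_lit 113)) (XT.lf (nat_lit 0) (nat_lit 20569423078963) (nat_lit 152) (nat_lit 102191803095169) (nat_lit 0) (nat_lit 20552803460551) (nat_lit 1) (nat_lit 5) (nat_lit 3) (nat_lit 4) (nat_lit 1) (nat_lit 4) (nat_lit 283) (nat_lit 205) (nat_lit 112))) (XT.nd (nat_lit 78) (nat_lit 0) (nat_lit 0) (XT.lf (nat_lit 0) (nat_lit 1554730212) (nat_lit 0) (nat_lit 1554730212) (nat_lit 228) (nat_lit 1868178620) (nat_lit 19) (nat_lit 5) (nat_lit 19) (nat_lit 3) (nat_lit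 22) (nat_lit 3) (nat_lit 206) (nat_lit 206) (nat_lit 188)) (XT.lf (nat_lit 0) (nat_lit 7320784093) (nat_lit 228) (nat_lit 2604964760) (nat_lit 304) (nat_lit 674000004) (nat_lit 19) (nat_lit 5) (nat_lit 22) (nat_lit 3) (nat_lit 23) (nat_lit 5) (nat_lit 207) (nat_lit 206) (nat_lit 187))))) (XT.nd (nat_lit 312) (nat_lit 380) (nat_lit 0) (XT.nd (nat_lit 156) (nat_lit 228) (nat_lit 0) (XT.nd (nat_lit 78) (nat_lit 0) (nat_lit 0) (XT.lf (nat_lit 76) (nat_lit 2250887976) (nat_lit 0) (nat_lit 6472854087) (nat_lit 304) (nat_lit 2597997067) (nat_lit 20) (nat_lit 5) (nat_lit 19) (nat_lit 5) (nat_lit 23) (nat_lit 5) (nat_lit 208) (nat_lit 206) (nat_lit 186)) (XT.lf (nat_lit 76) (nat_lit 8057771518) (nat_lit 0) (nat_lit 2320934448) (nat_lit 304) (nat_lit 1768149532) (nat_lit 20) (nat_lit 5) (nat_lit 19) (nat_lit 5) (nat_lit 23) (nat_lit 5) (nat_lit 209) (nat_lit 206) (nat_lit 185))) (XT.nd (nat_lit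 78) (nat_lit 76) (nat_lit 0) (XT.lf (nat_lit 0) (nat_lit 1606230190) (nat_lit 228) (nat_lit 10762415985) (nat_lit 304) (nat_lit 715006774) (nat_lit 17) (nat_lit 5) (nat_lit 20) (nat_lit 5) (nat_lit 21) (nat_lit 5) (nat_lit 210) (nat_lit 206) (nat_lit 184)) (XT.lf (nat_lit 0) (nat_lit 708406623) (nat_lit 304) (nat_lit 5734766229) (nat_lit 76) (nat_lit 7676944043) (nat_lit 16) (nat_lit 5) (nat_lit 20) (nat_lit 5) (nat_lit 17) (nat_lit 5) (nat_lit 211) (nat_lit 206) (nat_lit 183)))) (XT.nd (nat_lit 156) (nat_lit 152) (nat_lit 0) (XT.nd (nat_lit 78) (nat_lit 0) (nat_lit 0) (XT.lf (nat_lit 0) (nat_lit 840488483) (nat_lit 228) (nat_lit 1398634111) (nat_lit 304) (nat_lit 13073378742) (nat_lit 13) (nat_lit 5) (nat_lit 16) (nat_lit 5) (nat_lit 17) (nat_lit 5) (nat_lit 212) (nat_lit 206) (nat_lit 182)) (XT.lf (nat_lit 0) (nat_lit 4433885036) (nat_lit 304) (nat_lit 7864819542) (nat_lit 76) (nat_lit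 4320400951) (nat_lit 13) (nat_lit 5) (nat_lit 17) (nat_lit 5) (nat_lit 14) (nat_lit 5) (nat_lit 213) (nat_lit 206) (nat_lit 181))) (XT.nd (nat_lit 78) (nat_lit 152) (nat_lit 0) (XT.lf (nat_lit 0) (nat_lit 6970629277) (nat_lit 304) (nat_lit 399241274) (nat_lit 76) (nat_lit 10750373772) (nat_lit 13) (nat_lit 5) (nat_lit 17) (nat_lit 5) (nat_lit 14) (nat_lit 5) (nat_lit 214) (nat_lit 206) (nat_lit 180)) (XT.lf (nat_lit 0) (nat_lit 8923097952) (nat_lit 152) (nat_lit 1287461318) (nat_lit 228) (nat_lit 9587992752) (nat_lit 11) (nat_lit 5) (nat_lit 13) (nat_lit 5) (nat_lit 14) (nat_lit 5) (nat_lit 215) (nat_lit 206) (nat_lit 179)))))) (XT.nd (nat_lit 624) (nat_lit 228) (nat_lit 0) (XT.nd (nat_lit 312) (nat_lit 76) (nat_lit 0) (XT.nd (nat_lit 156) (nat_lit 152) (nat_lit 0) (XT.nd (nat_lit 78) (nat_lit 76) (nat_lit 0) (XT.lf (nat_lit 0) (nat_lit 14151199513) (nat_lit 228) (nat_lit 2335300583)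 (nat_lit 76) (nat_lit 5210244802) (nat_lit 11) (nat_lit 5) (nat_lit 14) (nat_lit 5) (nat_lit 12) (nat_lit 4) (nat_lit 216) (nat_lit 206) (nat_lit 178)) (XT.lf (nat_lit 0) (nat_lit 8091769933) (nat_lit 76) (nat_lit 10949736501) (nat_lit 152) (nat_lit 4784676531) (nat_lit 10) (nat_lit 5) (nat_lit 11) (nat_lit 5) (nat_lit 12) (nat_lit 4) (nat_lit 217) (nat_lit 206) (nat_lit 177))) (XT.nd (nat_lit 78) (nat_lit 152) (nat_lit 0) (XT.lf (nat_lit 0) (nat_lit 20294590780) (nat_lit 76) (nat_lit 4457869482) (nat_lit 152) (nat_lit 1509773833) (nat_lit 10) (nat_lit 5) (nat_lit 11) (nat_lit 5) (nat_lit 12) (nat_lit 4) (nat_lit 218) (nat_lit 206) (nat_lit 176)) (XT.lf (nat_lit 0) (nat_lit 2395741111) (nat_lit 152) (nat_lit 23535287789) (nat_lit 76) (nat_lit 3067809686) (nat_lit 8) (nat_lit 5) (nat_lit 10) (nat_lit 5) (nat_lit 9) (nat_lit 4) (nat_lit 219) (nat_lit 206) (nat_lit 175)))) (XT.nd (nat_lit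 156) (nat_lit 76) (nat_lit 0) (XT.nd (nat_lit 78) (nat_lit 0) (nat_lit 0) (XT.lf (nat_lit 0) (nat_lit 7241185808) (nat_lit 152) (nat_lit 13167375318) (nat_lit 76) (nat_lit 11650459924) (nat_lit 8) (nat_lit 5) (nat_lit 10) (nat_lit 5) (nat_lit 9) (nat_lit 4) (nat_lit 220) (nat_lit 206) (nat_lit 174)) (XT.lf (nat_lit 0) (nat_lit 12787008581) (nat_lit 152) (nat_lit 1287155161) (nat_lit 76) (nat_lit 21508183010) (nat_lit 8) (nat_lit 5) (nat_lit 10) (nat_lit 5) (nat_lit 9) (nat_lit 4) (nat_lit 221) (nat_lit 206) (nat_lit 173))) (XT.nd (nat_lit 78) (nat_lit 0) (nat_lit 0) (XT.lf (nat_lit 0) (nat_lit 13543552466) (nat_lit 76) (nat_lit 6158971818) (nat_lit 152) (nat_lit 19851104600) (nat_lit 7) (nat_lit 5) (nat_lit 8) (nat_lit 5) (nat_lit 9) (nat_lit 4) (nat_lit 222) (nat_lit 206) (nat_lit 172)) (XT.lf (nat_lit 0) (nat_lit 27825688323) (nat_lit 152) (nat_lit 13530413646) (nat_lit 0) (nat_lit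 2739066700) (nat_lit 7) (nat_lit 5) (nat_lit 9) (nat_lit 4) (nat_lit 7) (nat_lit 4) (nat_lit 223) (nat_lit 206) (nat_lit 171))))) (XT.nd (nat_lit 312) (nat_lit 76) (nat_lit 0) (XT.nd (nat_lit 156) (nat_lit 76) (nat_lit 0) (XT.nd (nat_lit 78) (nat_lit 0) (nat_lit 0) (XT.lf (nat_lit 0) (nat_lit 542908764) (nat_lit 76) (nat_lit 36921009265) (nat_lit 76) (nat_lit 11809631409) (nat_lit 6) (nat_lit 4) (nat_lit 7) (nat_lit 5) (nat_lit 7) (nat_lit 4) (nat_lit 224) (nat_lit 206) (nat_lit 170)) (XT.lf (nat_lit 0) (nat_lit 18216040030) (nat_lit 76) (nat_lit 31021122994) (nat_lit 76) (nat_lit 5888217980) (nat_lit 6) (nat_lit 4) (nat_lit 7) (nat_lit 5) (nat_lit 7) (nat_lit 4) (nat_lit 225) (nat_lit 206) (nat_lit 169))) (XT.nd (nat_lit 78) (nat_lit 0) (nat_lit 0) (XT.lf (nat_lit 0) (nat_lit 822920303) (nat_lit 152) (nat_lit 23382345630) (nat_lit 76) (nat_lit 37646531791) (nat_lit 5) (nat_lit 5)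 (nat_lit 7) (nat_lit 5) (nat_lit 6) (nat_lit 4) (nat_lit 226) (nat_lit 206) (nat_lit 168)) (XT.lf (nat_lit 0) (nat_lit 7923577446) (nat_lit 152) (nat_lit 8132210397) (nat_lit 76) (nat_lit 53491533405) (nat_lit 5) (nat_lit 5) (nat_lit 7) (nat_lit 5) (nat_lit 6) (nat_lit 4) (nat_lit 227) (nat_lit 206) (nat_lit 167)))) (XT.nd (nat_lit 156) (nat_lit 0) (nat_lit 0) (XT.nd (nat_lit 78) (nat_lit 0) (nat_lit 0) (XT.lf (nat_lit 0) (nat_lit 10300255453) (nat_lit 76) (nat_lit 6203145391) (nat_lit 152) (nat_lit 61831711364) (nat_lit 4) (nat_lit 5) (nat_lit 5) (nat_lit 5) (nat_lit 6) (nat_lit 4) (nat_lit 228) (nat_lit 206) (nat_lit 166)) (XT.lf (nat_lit 0) (nat_lit 27015756967) (nat_lit 152) (nat_lit 56220909777) (nat_lit 0) (nat_lit 5107613848) (nat_lit 4) (nat_lit 5) (nat_lit 6) (nat_lit 4) (nat_lit 4) (nat_lit 4) (nat_lit 229) (nat_lit 206) (nat_lit 165))) (XT.nd (nat_lit 78) (nat_lit 0) (nat_lit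 0) (XT.lf (nat_lit 0) (nat_lit 39389840866) (nat_lit 152) (nat_lit 42949898349) (nat_lit 0) (nat_lit 17472390961) (nat_lit 4) (nat_lit 5) (nat_lit 6) (nat_lit 4) (nat_lit 4) (nat_lit 4) (nat_lit 230) (nat_lit 206) (nat_lit 164)) (XT.lf (nat_lit 0) (nat_lit 53610895160) (nat_lit 152) (nat_lit 27705313225) (nat_lit 0) (nat_lit 31685352399) (nat_lit 4) (nat_lit 5) (nat_lit 6) (nat_lit 4) (nat_lit 4) (nat_lit 4) (nat_lit 231) (nat_lit 206) (nat_lit 163))))))) (XT.nd (nat_lit 1170) (nat_lit 0) (nat_lit 0) (XT.nd (nat_lit 546) (nat_lit 152) (nat_lit 0) (XT.nd (nat_lit 234) (nat_lit 0) (nat_lit 0) (XT.nd (nat_lit 78) (nat_lit 76) (nat_lit 0) (XT.lf (nat_lit 0) (nat_lit 69957157868) (nat_lit 152) (nat_lit 10188890783) (nat_lit 0) (nat_lit 48024577841) (nat_lit 4) (nat_lit 5) (nat_lit 6) (nat_lit 4) (nat_lit 4) (nat_lit 4) (nat_lit 232) (nat_lit 206) (nat_lit 162)) (XT.nd (nat_lit 78) (nat_lit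 0) (nat_lit 0) (XT.lf (nat_lit 0) (nat_lit 10913694107) (nat_lit 76) (nat_lit 78286665866) (nat_lit 76) (nat_lit 56347966476) (nat_lit 3) (nat_lit 4) (nat_lit 4) (nat_lit 5) (nat_lit 4) (nat_lit 4) (nat_lit 233) (nat_lit 206) (nat_lit 161)) (XT.lf (nat_lit 0) (nat_lit 36314432655) (nat_lit 76) (nat_lit 75541689297) (nat_lit 76) (nat_lit 53597668724) (nat_lit 3) (nat_lit 4) (nat_lit 4) (nat_lit 5) (nat_lit 4) (nat_lit 4) (nat_lit 234) (nat_lit 206) (nat_lit 160)))) (XT.nd (nat_lit 156) (nat_lit 0) (nat_lit 0) (XT.nd (nat_lit 78) (nat_lit 0) (nat_lit 0) (XT.lf (nat_lit 0) (nat_lit 65514563324) (nat_lit 76) (nat_lit 72390013993) (nat_lit 76) (nat_lit 50441366302) (nat_lit 3) (nat_lit 4) (nat_lit 4) (nat_lit 5) (nat_lit 4) (nat_lit 4) (nat_lit 235) (nat_lit 206) (nat_lit 159)) (XT.lf (nat_lit 0) (nat_lit 99085393016) (nat_lit 76) (nat_lit 68769976739) (nat_lit 76) (nat_lit 46817305468)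 (nat_lit 3) (nat_lit 4) (nat_lit 4) (nat_lit 5) (nat_lit 4) (nat_lit 4) (nat_lit 236) (nat_lit 206) (nat_lit 158))) (XT.nd (nat_lit 78) (nat_lit 0) (nat_lit 0) (XT.lf (nat_lit 0) (nat_lit 137683742315) (nat_lit 76) (nat_lit 64610750720) (nat_lit 76) (nat_lit 42654580684) (nat_lit 3) (nat_lit 4) (nat_lit 4) (nat_lit 5) (nat_lit 4) (nat_lit 4) (nat_lit 237) (nat_lit 206) (nat_lit 157)) (XT.lf (nat_lit 0) (nat_lit 182064796314) (nat_lit 76) (nat_lit 59830959775) (nat_lit 76) (nat_lit 37871747335) (nat_lit 3) (nat_lit 4) (nat_lit 4) (nat_lit 5) (nat_lit 4) (nat_lit 4) (nat_lit 238) (nat_lit 206) (nat_lit 156))))) (XT.nd (nat_lit 312) (nat_lit 152) (nat_lit 0) (XT.nd (nat_lit 156) (nat_lit 0) (nat_lit 0) (XT.nd (nat_lit 78) (nat_lit 0) (nat_lit 0) (XT.lf (nat_lit 0) (nat_lit 233096879983) (nat_lit 76) (nat_lit 54337086255) (nat_lit 76) (nat_lit 32375228245) (nat_lit 3) (nat_lit 4) (nat_lit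 4) (nat_lit 5) (nat_lit 4) (nat_lit 4) (nat_lit 239) (nat_lit 206) (nat_lit 155)) (XT.lf (nat_lit 0) (nat_lit 291778447132) (nat_lit 76) (nat_lit 48021641330) (nat_lit 76) (nat_lit 26057482826) (nat_lit 3) (nat_lit 4) (nat_lit 4) (nat_lit 5) (nat_lit 4) (nat_lit 4) (nat_lit 240) (nat_lit 206) (nat_lit 154))) (XT.nd (nat_lit 78) (nat_lit 0) (nat_lit 0) (XT.lf (nat_lit 0) (nat_lit 359257615381) (nat_lit 76) (nat_lit 40761061948) (nat_lit 76) (nat_lit 18794903013) (nat_lit 3) (nat_lit 4) (nat_lit 4) (nat_lit 5) (nat_lit 4) (nat_lit 4) (nat_lit 241) (nat_lit 206) (nat_lit 153)) (XT.lf (nat_lit 0) (nat_lit 436854629326) (nat_lit 76) (nat_lit 32413293294) (nat_lit 76) (nat_lit 10445394854) (nat_lit 3) (nat_lit 4) (nat_lit 4) (nat_lit 5) (nat_lit 4) (nat_lit 4) (nat_lit 242) (nat_lit 206) (nat_lit 152)))) (XT.nd (nat_lit 156) (nat_lit 76) (nat_lit 0) (XT.nd (nat_lit 78) (nat_lit 76) (nat_lit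 0) (XT.lf (nat_lit 0) (nat_lit 526087691412) (nat_lit 76) (nat_lit 22815009459) (nat_lit 76) (nat_lit 845598407) (nat_lit 3) (nat_lit 4) (nat_lit 4) (nat_lit 5) (nat_lit 4) (nat_lit 4) (nat_lit 243) (nat_lit 206) (nat_lit 151)) (XT.lf (nat_lit 0) (nat_lit 9284918654) (nat_lit 152) (nat_lit 2008151260) (nat_lit 76) (nat_lit 618932399223) (nat_lit 2) (nat_lit 5) (nat_lit 4) (nat_lit 5) (nat_lit 3) (nat_lit 4) (nat_lit 244) (nat_lit 206) (nat_lit 150))) (XT.nd (nat_lit 78) (nat_lit 0) (nat_lit 0) (XT.lf (nat_lit 0) (nat_lit 22017924738) (nat_lit 152) (nat_lit 697662880297) (nat_lit 0) (nat_lit 2911950721) (nat_lit 1) (nat_lit 5) (nat_lit 3) (nat_lit 4) (nat_lit 1) (nat_lit 4) (nat_lit 245) (nat_lit 206) (nat_lit 149)) (XT.lf (nat_lit 0) (nat_lit 37307173045) (nat_lit 152) (nat_lit 773210687886) (nat_lit 0) (nat_lit 18200334187) (nat_lit 1) (nat_lit 5) (nat_lit 3) (nat_lit 4) (nat_lit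 1) (nat_lit 4) (nat_lit 246) (nat_lit 206) (nat_lit 148)))))) (XT.nd (nat_lit 624) (nat_lit 0) (nat_lit 0) (XT.nd (nat_lit 312) (nat_lit 0) (nat_lit 0) (XT.nd (nat_lit 156) (nat_lit 0) (nat_lit 0) (XT.nd (nat_lit 78) (nat_lit 0) (nat_lit 0) (XT.lf (nat_lit 0) (nat_lit 54888552849) (nat_lit 152) (nat_lit 860093126940) (nat_lit 0) (nat_lit 35780961955) (nat_lit 1) (nat_lit 5) (nat_lit 3) (nat_lit 4) (nat_lit 1) (nat_lit 4) (nat_lit 247) (nat_lit 206) (nat_lit 147)) (XT.lf (nat_lit 0) (nat_lit 75106047668) (nat_lit 152) (nat_lit 960010071266) (nat_lit 0) (nat_lit 55997802830) (nat_lit 1) (nat_lit 5) (nat_lit 3) (nat_lit 4) (nat_lit 1) (nat_lit 4) (nat_lit 248) (nat_lit 206) (nat_lit 146))) (XT.nd (nat_lit 78) (nat_lit 0) (nat_lit 0) (XT.lf (nat_lit 0) (nat_lit 98355217183) (nat_lit 152) (nat_lit 1074916417602) (nat_lit 0) (nat_lit 79246403697) (nat_lit 1) (nat_lit 5) (nat_lit 3) (nat_lit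 4) (nat_lit 1) (nat_lit 4) (nat_lit 249) (nat_lit 206) (nat_lit 145)) (XT.lf (nat_lit 0) (nat_lit 125090936450) (nat_lit 152) (nat_lit 1207060333593) (nat_lit 0) (nat_lit 105981628488) (nat_lit 1) (nat_lit 5) (nat_lit 3) (nat_lit 4) (nat_lit 1) (nat_lit 4) (nat_lit 250) (nat_lit 206) (nat_lit 144)))) (XT.nd (nat_lit 156) (nat_lit 0) (nat_lit 0) (XT.nd (nat_lit 78) (nat_lit 0) (nat_lit 0) (XT.lf (nat_lit 0) (nat_lit 155836295628) (nat_lit 152) (nat_lit 1359027243682) (nat_lit 0) (nat_lit 136726557688) (nat_lit 1) (nat_lit 5) (nat_lit 3) (nat_lit 4) (nat_lit 1) (nat_lit 4) (nat_lit 251) (nat_lit 206) (nat_lit 143)) (XT.lf (nat_lit 0) (nat_lit 191192834354) (nat_lit 152) (nat_lit 1533790413502) (nat_lit 0) (nat_lit 172082722519) (nat_lit 1) (nat_lit 5) (nat_lit 3) (nat_lit 4) (nat_lit 1) (nat_lit 4) (nat_lit 252) (nat_lit 206) (nat_lit 142))) (XT.nd (nat_lit 78) (nat_lit 0) (nat_lit 0)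 (XT.lf (nat_lit 0) (nat_lit 231852310994) (nat_lit 152) (nat_lit 1734769122462) (nat_lit 0) (nat_lit 212741874032) (nat_lit 1) (nat_lit 5) (nat_lit 3) (nat_lit 4) (nat_lit 1) (nat_lit 4) (nat_lit 253) (nat_lit 206) (nat_lit 141)) (XT.lf (nat_lit 0) (nat_lit 278610237046) (nat_lit 152) (nat_lit 1965895562694) (nat_lit 0) (nat_lit 259499517367) (nat_lit 1) (nat_lit 5) (nat_lit 3) (nat_lit 4) (nat_lit 1) (nat_lit 4) (nat_lit 254) (nat_lit 206) (nat_lit 140))))) (XT.nd (nat_lit 312) (nat_lit 0) (nat_lit 0) (XT.nd (nat_lit 156) (nat_lit 0) (nat_lit 0) (XT.nd (nat_lit 78) (nat_lit 0) (nat_lit 0) (XT.lf (nat_lit 0) (nat_lit 332381441500) (nat_lit 152) (nat_lit 2231691773246) (nat_lit 0) (nat_lit 313270475979) (nat_lit 1) (nat_lit 5) (nat_lit 3) (nat_lit 4) (nat_lit 1) (nat_lit 4) (nat_lit 255) (nat_lit 206) (nat_lit 139)) (XT.lf (nat_lit 0) (nat_lit 394217969660) (nat_lit 152) (nat_lit 2537358114760)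 (nat_lit 0) (nat_lit 375106790363) (nat_lit 1) (nat_lit 5) (nat_lit 3) (nat_lit 4) (nat_lit 1) (nat_lit 4) (nat_lit 256) (nat_lit 206) (nat_lit 138))) (XT.nd (nat_lit 78) (nat_lit 0) (nat_lit 0) (XT.lf (nat_lit 0) (nat_lit 465329666642) (nat_lit 152) (nat_lit 2888875015655) (nat_lit 0) (nat_lit 446218301454) (nat_lit 1) (nat_lit 5) (nat_lit 3) (nat_lit 4) (nat_lit 1) (nat_lit 4) (nat_lit 257) (nat_lit 206) (nat_lit 137)) (XT.lf (nat_lit 0) (nat_lit 547107848256) (nat_lit 152) (nat_lit 3293119980515) (nat_lit 0) (nat_lit 527996321423) (nat_lit 1) (nat_lit 5) (nat_lit 3) (nat_lit 4) (nat_lit 1) (nat_lit 4) (nat_lit 258) (nat_lit 206) (nat_lit 136)))) (XT.nd (nat_lit 156) (nat_lit 0) (nat_lit 0) (XT.nd (nat_lit 78) (nat_lit 0) (nat_lit 0) (XT.lf (nat_lit 0) (nat_lit 641152522404) (nat_lit 152) (nat_lit 3758002149957) (nat_lit 0) (nat_lit 622040855010) (nat_lit 1) (nat_lit 5) (nat_lit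 3) (nat_lit 4) (nat_lit 1) (nat_lit 4) (nat_lit 259) (nat_lit 206) (nat_lit 135)) (XT.lf (nat_lit 0) (nat_lit 749303693580) (nat_lit 152) (nat_lit 4292617044688) (nat_lit 0) (nat_lit 730191903959) (nat_lit 1) (nat_lit 5) (nat_lit 3) (nat_lit 4) (nat_lit 1) (nat_lit 4) (nat_lit 260) (nat_lit 206) (nat_lit 134))) (XT.nd (nat_lit 78) (nat_lit 0) (nat_lit 0) (XT.lf (nat_lit 0) (nat_lit 873677362959) (nat_lit 152) (nat_lit 4907424521342) (nat_lit 0) (nat_lit 854565467054) (nat_lit 1) (nat_lit 5) (nat_lit 3) (nat_lit 4) (nat_lit 1) (nat_lit 4) (nat_lit 261) (nat_lit 206) (nat_lit 133)) (XT.lf (nat_lit 0) (nat_lit 1016706928420) (nat_lit 152) (nat_lit 5614453421855) (nat_lit 0) (nat_lit 997594940094) (nat_lit 1) (nat_lit 5) (nat_lit 3) (nat_lit 4) (nat_lit 1) (nat_lit 4) (nat_lit 262) (nat_lit 206) (nat_lit 132))))))))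
noncomputable def xc33 : XT := (XT.nd (nat_lit 28158) (nat_lit 0) (nat_lit 0) (XT.nd (nat_lit 26910) (nat_lit 0) (nat_lit 532) (XT.nd (nat_lit 546) (nat_lit 0) (nat_lit 0) (XT.nd (nat_lit 234) (nat_lit 0) (nat_lit 0) (XT.nd (nat_lit 78) (nat_lit 0) (nat_lit 0) (XT.lf (nat_lit 0) (nat_lit 1181190794505) (nat_lit 152) (nat_lit 6427536920368) (nat_lit 0) (nat_lit 1162078725812) (nat_lit 1) (nat_lit 5) (nat_lit 3) (nat_lit 4) (nat_lit 1) (nat_lit 4) (nat_lit 263) (nat_lit 206) (nat_lit 131)) (XT.nd (nat_lit 78) (nat_lit 0) (nat_lit 0) (XT.lf (nat_lit 0) (nat_lit 1370347123811) (nat_lit 152) (nat_lit 7362583172285) (nat_lit 0) (nat_lit 1351234985235) (nat_lit 1) (nat_lit 5) (nat_lit 3) (nat_lit 4) (nat_lit 1) (nat_lit 4) (nat_lit 264) (nat_lit 206) (nat_lit 130)) (XT.lf (nat_lit 0) (nat_lit 1587876801042) (nat_lit 152) (nat_lit 8437886560797) (nat_lit 0) (nat_lit 1568764601697) (nat_lit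 1) (nat_lit 5) (nat_lit 3) (nat_lit 4) (nat_lit 1) (nat_lit 4) (nat_lit 265) (nat_lit 206) (nat_lit 129)))) (XT.nd (nat_lit 156) (nat_lit 0) (nat_lit 0) (XT.nd (nat_lit 78) (nat_lit 0) (nat_lit 0) (XT.lf (nat_lit 0) (nat_lit 1838035841622) (nat_lit 152) (nat_lit 9674485630461) (nat_lit 0) (nat_lit 1818923589435) (nat_lit 1) (nat_lit 5) (nat_lit 3) (nat_lit 4) (nat_lit 1) (nat_lit 4) (nat_lit 266) (nat_lit 206) (nat_lit 128)) (XT.lf (nat_lit 0) (nat_lit 2125718661563) (nat_lit 152) (nat_lit 11096574710902) (nat_lit 0) (nat_lit 2106606363426) (nat_lit 1) (nat_lit 5) (nat_lit 3) (nat_lit 4) (nat_lit 1) (nat_lit 4) (nat_lit 267) (nat_lit 206) (nat_lit 127))) (XT.nd (nat_lit 78) (nat_lit 0) (nat_lit 0) (XT.lf (nat_lit 0) (nat_lit 2456553837775) (nat_lit 152) (nat_lit 12731977284127) (nat_lit 0) (nat_lit 2437441499683) (nat_lit 1) (nat_lit 5) (nat_lit 3) (nat_lit 4) (nat_lit 1) (nat_lit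 4) (nat_lit 268) (nat_lit 206) (nat_lit 126)) (XT.lf (nat_lit 0) (nat_lit 2837014232403) (nat_lit 152) (nat_lit 14612690357005) (nat_lit 0) (nat_lit 2817901859566) (nat_lit 1) (nat_lit 5) (nat_lit 3) (nat_lit 4) (nat_lit 1) (nat_lit 4) (nat_lit 269) (nat_lit 206) (nat_lit 125))))) (XT.nd (nat_lit 780) (nat_lit 0) (nat_lit 0) (XT.nd (nat_lit 624) (nat_lit 0) (nat_lit 0) (XT.nd (nat_lit 78) (nat_lit 0) (nat_lit 0) (XT.lf (nat_lit 0) (nat_lit 3274543635777) (nat_lit 152) (nat_lit 16775510489657) (nat_lit 0) (nat_lit 3255431232727) (nat_lit 1) (nat_lit 5) (nat_lit 3) (nat_lit 4) (nat_lit 1) (nat_lit 4) (nat_lit 270) (nat_lit 206) (nat_lit 124)) (XT.lf (nat_lit 0) (nat_lit 3777702405787) (nat_lit 152) (nat_lit 19262753728156) (nat_lit 0) (nat_lit 3758589976466) (nat_lit 1) (nat_lit 5) (nat_lit 3) (nat_lit 4) (nat_lit 1) (nat_lit 4) (nat_lit 271) (nat_lit 206) (nat_lit 123))) (XT.nd (nat_lit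 78) (nat_lit 0) (nat_lit 0) (XT.lf (nat_lit 0) (nat_lit 10181311876776) (nat_lit 152) (nat_lit 50917450724468) (nat_lit 0) (nat_lit 10162199338152) (nat_lit 1) (nat_lit 5) (nat_lit 3) (nat_lit 4) (nat_lit 1) (nat_lit 4) (nat_lit 278) (nat_lit 206) (nat_lit 116)) (XT.lf (nat_lit 0) (nat_lit 11720485686083) (nat_lit 152) (nat_lit 58525985383873) (nat_lit 0) (nat_lit 11701373138872) (nat_lit 1) (nat_lit 5) (nat_lit 3) (nat_lit 4) (nat_lit 1) (nat_lit 4) (nat_lit 279) (nat_lit 206) (nat_lit 115)))) (XT.nd (nat_lit 156) (nat_lit 0) (nat_lit 0) (XT.nd (nat_lit 78) (nat_lit 0) (nat_lit 0) (XT.lf (nat_lit 0) (nat_lit 13490535554317) (nat_lit 152) (nat_lit 67275800266621) (nat_lit 0) (nat_lit 13471422999637) (nat_lit 1) (nat_lit 5) (nat_lit 3) (nat_lit 4) (nat_lit 1) (nat_lit 4) (nat_lit 280) (nat_lit 206) (nat_lit 114)) (XT.lf (nat_lit 0) (nat_lit 15526092891942) (nat_lit 152) (nat_lit 77338087403027)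 (nat_lit 0) (nat_lit 15506980330768) (nat_lit 1) (nat_lit 5) (nat_lit 3) (nat_lit 4) (nat_lit 1) (nat_lit 4) (nat_lit 281) (nat_lit 206) (nat_lit 113))) (XT.nd (nat_lit 78) (nat_lit 0) (nat_lit 0) (XT.lf (nat_lit 0) (nat_lit 17866983820781) (nat_lit 152) (nat_lit 88909717628368) (nat_lit 0) (nat_lit 17847871253961) (nat_lit 1) (nat_lit 5) (nat_lit 3) (nat_lit 4) (nat_lit 1) (nat_lit 4) (nat_lit 282) (nat_lit 206) (nat_lit 112)) (XT.lf (nat_lit 0) (nat_lit 20559008380747) (nat_lit 152) (nat_lit 102217092403575) (nat_lit 0) (nat_lit 20539895809016) (nat_lit 1) (nat_lit 5) (nat_lit 3) (nat_lit 4) (nat_lit 1) (nat_lit 4) (nat_lit 283) (nat_lit 206) (nat_lit 111)))))) (XT.nd (nat_lit 624) (nat_lit 380) (nat_lit 0) (XT.nd (nat_lit 312) (nat_lit 456) (nat_lit 0) (XT.nd (nat_lit 156) (nat_lit 0) (nat_lit 0) (XT.nd (nat_lit 78) (nat_lit 0) (nat_lit 0) (XT.lf (nat_lit 0) (nat_lit 2077821751)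 (nat_lit 0) (nat_lit 2077821751) (nat_lit 228) (nat_lit 1475102329) (nat_lit 19) (nat_lit 5) (nat_lit 19) (nat_lit 3) (nat_lit 22) (nat_lit 3) (nat_lit 207) (nat_lit 207) (nat_lit 186)) (XT.lf (nat_lit 0) (nat_lit 9406311478) (nat_lit 228) (nat_lit 2308014738) (nat_lit 304) (nat_lit 315839646) (nat_lit 19) (nat_lit 5) (nat_lit 22) (nat_lit 3) (nat_lit 23) (nat_lit 5) (nat_lit 208) (nat_lit 207) (nat_lit 185))) (XT.nd (nat_lit 78) (nat_lit 0) (nat_lit 0) (XT.lf (nat_lit 76) (nat_lit 3244957056) (nat_lit 0) (nat_lit 7673145118) (nat_lit 304) (nat_lit 1959085520) (nat_lit 20) (nat_lit 5) (nat_lit 19) (nat_lit 5) (nat_lit 23) (nat_lit 5) (nat_lit 209) (nat_lit 207) (nat_lit 184)) (XT.lf (nat_lit 76) (nat_lit 9837251058) (nat_lit 0) (nat_lit 2868520631) (nat_lit 304) (nat_lit 1138927521) (nat_lit 20) (nat_lit 5) (nat_lit 19) (nat_lit 5) (nat_lit 23) (nat_lit 5) (nat_lit 210) (nat_lit 207)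 (nat_lit 183)))) (XT.nd (nat_lit 156) (nat_lit 228) (nat_lit 0) (XT.nd (nat_lit 78) (nat_lit 76) (nat_lit 0) (XT.lf (nat_lit 0) (nat_lit 2518455548) (nat_lit 228) (nat_lit 12395894009) (nat_lit 304) (nat_lit 20772420) (nat_lit 17) (nat_lit 5) (nat_lit 20) (nat_lit 5) (nat_lit 21) (nat_lit 5) (nat_lit 211) (nat_lit 207) (nat_lit 182)) (XT.lf (nat_lit 0) (nat_lit 1449564661) (nat_lit 304) (nat_lit 5943518603) (nat_lit 76) (nat_lit 8744131961) (nat_lit 16) (nat_lit 5) (nat_lit 20) (nat_lit 5) (nat_lit 17) (nat_lit 5) (nat_lit 212) (nat_lit 207) (nat_lit 181))) (XT.nd (nat_lit 78) (nat_lit 0) (nat_lit 0) (XT.lf (nat_lit 0) (nat_lit 1588412381) (nat_lit 228) (nat_lit 1564412496) (nat_lit 304) (nat_lit 14364933403) (nat_lit 13) (nat_lit 5) (nat_lit 16) (nat_lit 5) (nat_lit 17) (nat_lit 5) (nat_lit 213) (nat_lit 207) (nat_lit 180)) (XT.lf (nat_lit 0) (nat_lit 5603016951) (nat_lit 304) (nat_lit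 8425719653) (nat_lit 76) (nat_lit 5003328970) (nat_lit 13) (nat_lit 5) (nat_lit 17) (nat_lit 5) (nat_lit 14) (nat_lit 5) (nat_lit 214) (nat_lit 207) (nat_lit 179))))) (XT.nd (nat_lit 312) (nat_lit 152) (nat_lit 0) (XT.nd (nat_lit 156) (nat_lit 76) (nat_lit 0) (XT.nd (nat_lit 78) (nat_lit 0) (nat_lit 0) (XT.lf (nat_lit 0) (nat_lit 86697769) (nat_lit 152) (nat_lit 8371419486) (nat_lit 228) (nat_lit 12310141930) (nat_lit 11) (nat_lit 5) (nat_lit 13) (nat_lit 5) (nat_lit 14) (nat_lit 5) (nat_lit 215) (nat_lit 207) (nat_lit 178)) (XT.lf (nat_lit 0) (nat_lit 10775210045) (nat_lit 152) (nat_lit 1369335739) (nat_lit 228) (nat_lit 10560178432) (nat_lit 11) (nat_lit 5) (nat_lit 13) (nat_lit 5) (nat_lit 14) (nat_lit 5) (nat_lit 216) (nat_lit 207) (nat_lit 177))) (XT.nd (nat_lit 78) (nat_lit 76) (nat_lit 0) (XT.lf (nat_lit 0) (nat_lit 16627800337) (nat_lit 228) (nat_lit 2187637757) (nat_lit 76)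 (nat_lit 6079904129) (nat_lit 11) (nat_lit 5) (nat_lit 14) (nat_lit 5) (nat_lit 12) (nat_lit 4) (nat_lit 217) (nat_lit 207) (nat_lit 176)) (XT.lf (nat_lit 0) (nat_lit 9780858886) (nat_lit 76) (nat_lit 12444312947) (nat_lit 152) (nat_lit 5123365032) (nat_lit 10) (nat_lit 5) (nat_lit 11) (nat_lit 5) (nat_lit 12) (nat_lit 4) (nat_lit 218) (nat_lit 207) (nat_lit 175)))) (XT.nd (nat_lit 156) (nat_lit 0) (nat_lit 0) (XT.nd (nat_lit 78) (nat_lit 152) (nat_lit 0) (XT.lf (nat_lit 0) (nat_lit 23752104148) (nat_lit 76) (nat_lit 4997955095) (nat_lit 152) (nat_lit 1406663405) (nat_lit 10) (nat_lit 5) (nat_lit 11) (nat_lit 5) (nat_lit 12) (nat_lit 4) (nat_lit 219) (nat_lit 207) (nat_lit 174)) (XT.lf (nat_lit 0) (nat_lit 3039778662) (nat_lit 152) (nat_lit 26603881834) (nat_lit 76) (nat_lit 3660686488) (nat_lit 8) (nat_lit 5) (nat_lit 10) (nat_lit 5) (nat_lit 9) (nat_lit 4) (nat_lit 220) (nat_lit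 207) (nat_lit 173))) (XT.nd (nat_lit 78) (nat_lit 0) (nat_lit 0) (XT.lf (nat_lit 0) (nat_lit 8574908361) (nat_lit 152) (nat_lit 14741004118) (nat_lit 76) (nat_lit 13513424868) (nat_lit 8) (nat_lit 5) (nat_lit 10) (nat_lit 5) (nat_lit 9) (nat_lit 4) (nat_lit 221) (nat_lit 207) (nat_lit 172)) (XT.lf (nat_lit 0) (nat_lit 14920316113) (nat_lit 152) (nat_lit 1131117568) (nat_lit 76) (nat_lit 24834754771) (nat_lit 8) (nat_lit 5) (nat_lit 10) (nat_lit 5) (nat_lit 9) (nat_lit 4) (nat_lit 222) (nat_lit 207) (nat_lit 171))))))) (XT.nd (nat_lit 1170) (nat_lit 152) (nat_lit 0) (XT.nd (nat_lit 546) (nat_lit 76) (nat_lit 0) (XT.nd (nat_lit 234) (nat_lit 152) (nat_lit 0) (XT.nd (nat_lit 78) (nat_lit 76) (nat_lit 0) (XT.lf (nat_lit 0) (nat_lit 15908327528) (nat_lit 76) (nat_lit 6950553592) (nat_lit 152) (nat_lit 22596582867) (nat_lit 7) (nat_lit 5) (nat_lit 8) (nat_lit 5) (nat_lit 9) (nat_lit 4) (nat_lit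 223) (nat_lit 207) (nat_lit 170)) (XT.nd (nat_lit 78) (nat_lit 76) (nat_lit 0) (XT.lf (nat_lit 0) (nat_lit 32179067625) (nat_lit 152) (nat_lit 15247823821) (nat_lit 0) (nat_lit 3254699700) (nat_lit 7) (nat_lit 5) (nat_lit 9) (nat_lit 4) (nat_lit 7) (nat_lit 4) (nat_lit 224) (nat_lit 207) (nat_lit 169)) (XT.lf (nat_lit 0) (nat_lit 922308228) (nat_lit 76) (nat_lit 42329645136) (nat_lit 76) (nat_lit 13386557942) (nat_lit 6) (nat_lit 4) (nat_lit 7) (nat_lit 5) (nat_lit 7) (nat_lit 4) (nat_lit 225) (nat_lit 207) (nat_lit 168)))) (XT.nd (nat_lit 156) (nat_lit 76) (nat_lit 0) (XT.nd (nat_lit 78) (nat_lit 76) (nat_lit 0) (XT.lf (nat_lit 0) (nat_lit 21207544426) (nat_lit 76) (nat_lit 35561669253) (nat_lit 76) (nat_lit 6602304434) (nat_lit 6) (nat_lit 4) (nat_lit 7) (nat_lit 5) (nat_lit 7) (nat_lit 4) (nat_lit 226) (nat_lit 207) (nat_lit 167)) (XT.lf (nat_lit 0) (nat_lit 1080347631) (nat_lit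 152) (nat_lit 26650771868) (nat_lit 76) (nat_lit 43377821241) (nat_lit 5) (nat_lit 5) (nat_lit 7) (nat_lit 5) (nat_lit 6) (nat_lit 4) (nat_lit 227) (nat_lit 207) (nat_lit 166))) (XT.nd (nat_lit 78) (nat_lit 76) (nat_lit 0) (XT.lf (nat_lit 0) (nat_lit 9228626483) (nat_lit 152) (nat_lit 9144280559) (nat_lit 76) (nat_lit 61588576182) (nat_lit 5) (nat_lit 5) (nat_lit 7) (nat_lit 5) (nat_lit 6) (nat_lit 4) (nat_lit 228) (nat_lit 207) (nat_lit 165)) (XT.lf (nat_lit 0) (nat_lit 12043611469) (nat_lit 76) (nat_lit 7044826563) (nat_lit 152) (nat_lit 70980112516) (nat_lit 4) (nat_lit 5) (nat_lit 5) (nat_lit 5) (nat_lit 6) (nat_lit 4) (nat_lit 229) (nat_lit 207) (nat_lit 164))))) (XT.nd (nat_lit 312) (nat_lit 76) (nat_lit 0) (XT.nd (nat_lit 156) (nat_lit 0) (nat_lit 0) (XT.nd (nat_lit 78) (nat_lit 0) (nat_lit 0) (XT.lf (nat_lit 0) (nat_lit 31166558505) (nat_lit 152) (nat_lit 64470159671) (nat_lit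 0) (nat_lit 5944091473) (nat_lit 4) (nat_lit 5) (nat_lit 6) (nat_lit 4) (nat_lit 4) (nat_lit 4) (nat_lit 230) (nat_lit 207) (nat_lit 163)) (XT.lf (nat_lit 0) (nat_lit 45383915250) (nat_lit 152) (nat_lit 49232481733) (nat_lit 0) (nat_lit 20154410952) (nat_lit 4) (nat_lit 5) (nat_lit 6) (nat_lit 4) (nat_lit 4) (nat_lit 4) (nat_lit 231) (nat_lit 207) (nat_lit 162))) (XT.nd (nat_lit 78) (nat_lit 0) (nat_lit 0) (XT.lf (nat_lit 0) (nat_lit 61726962698) (nat_lit 152) (nat_lit 31722065541) (nat_lit 0) (nat_lit 36491339038) (nat_lit 4) (nat_lit 5) (nat_lit 6) (nat_lit 4) (nat_lit 4) (nat_lit 4) (nat_lit 232) (nat_lit 207) (nat_lit 161)) (XT.lf (nat_lit 0) (nat_lit 80515456126) (nat_lit 152) (nat_lit 11596315994) (nat_lit 0) (nat_lit 55274511282) (nat_lit 4) (nat_lit 5) (nat_lit 6) (nat_lit 4) (nat_lit 4) (nat_lit 4) (nat_lit 233) (nat_lit 207) (nat_lit 160)))) (XT.nd (nat_lit 156) (nat_lit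 0) (nat_lit 0) (XT.nd (nat_lit 78) (nat_lit 0) (nat_lit 0) (XT.lf (nat_lit 0) (nat_lit 12666160793) (nat_lit 76) (nat_lit 89975314405) (nat_lit 76) (nat_lit 64729742444) (nat_lit 3) (nat_lit 4) (nat_lit 4) (nat_lit 5) (nat_lit 4) (nat_lit 4) (nat_lit 234) (nat_lit 207) (nat_lit 159)) (XT.lf (nat_lit 0) (nat_lit 41861956310) (nat_lit 76) (nat_lit 86825680657) (nat_lit 76) (nat_lit 61576085116) (nat_lit 3) (nat_lit 4) (nat_lit 4) (nat_lit 5) (nat_lit 4) (nat_lit 4) (nat_lit 235) (nat_lit 207) (nat_lit 158))) (XT.nd (nat_lit 78) (nat_lit 0) (nat_lit 0) (XT.lf (nat_lit 0) (nat_lit 75429016306) (nat_lit 76) (nat_lit 83207418670) (nat_lit 76) (nat_lit 57954324363) (nat_lit 3) (nat_lit 4) (nat_lit 4) (nat_lit 5) (nat_lit 4) (nat_lit 4) (nat_lit 236) (nat_lit 207) (nat_lit 157)) (XT.lf (nat_lit 0) (nat_lit 114024087607) (nat_lit 76) (nat_lit 79049736361) (nat_lit 76) (nat_lit 53793599650)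 (nat_lit 3) (nat_lit 4) (nat_lit 4) (nat_lit 5) (nat_lit 4) (nat_lit 4) (nat_lit 237) (nat_lit 207) (nat_lit 156)))))) (XT.nd (nat_lit 624) (nat_lit 76) (nat_lit 0) (XT.nd (nat_lit 312) (nat_lit 76) (nat_lit 0) (XT.nd (nat_lit 156) (nat_lit 0) (nat_lit 0) (XT.nd (nat_lit 78) (nat_lit 0) (nat_lit 0) (XT.lf (nat_lit 0) (nat_lit 158402291174) (nat_lit 76) (nat_lit 74271287773) (nat_lit 76) (nat_lit 49012505493) (nat_lit 3) (nat_lit 4) (nat_lit 4) (nat_lit 5) (nat_lit 4) (nat_lit 4) (nat_lit 238) (nat_lit 207) (nat_lit 155)) (XT.lf (nat_lit 0) (nat_lit 209431896206) (nat_lit 76) (nat_lit 68778581520) (nat_lit 76) (nat_lit 43517498745) (nat_lit 3) (nat_lit 4) (nat_lit 4) (nat_lit 5) (nat_lit 4) (nat_lit 4) (nat_lit 239) (nat_lit 207) (nat_lit 154))) (XT.nd (nat_lit 78) (nat_lit 0) (nat_lit 0) (XT.lf (nat_lit 0) (nat_lit 268111308019) (nat_lit 76) (nat_lit 62464151609) (nat_lit 76) (nat_lit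 37201068404) (nat_lit 3) (nat_lit 4) (nat_lit 4) (nat_lit 5) (nat_lit 4) (nat_lit 4) (nat_lit 240) (nat_lit 207) (nat_lit 153)) (XT.lf (nat_lit 0) (nat_lit 335588602062) (nat_lit 76) (nat_lit 55204454848) (nat_lit 76) (nat_lit 29939632138) (nat_lit 3) (nat_lit 4) (nat_lit 4) (nat_lit 5) (nat_lit 4) (nat_lit 4) (nat_lit 241) (nat_lit 207) (nat_lit 152)))) (XT.nd (nat_lit 156) (nat_lit 76) (nat_lit 0) (XT.nd (nat_lit 78) (nat_lit 0) (nat_lit 0) (XT.lf (nat_lit 0) (nat_lit 413183986262) (nat_lit 76) (nat_lit 46857453691) (nat_lit 76) (nat_lit 21591118368) (nat_lit 3) (nat_lit 4) (nat_lit 4) (nat_lit 5) (nat_lit 4) (nat_lit 4) (nat_lit 242) (nat_lit 207) (nat_lit 151)) (XT.lf (nat_lit 0) (nat_lit 502415631180) (nat_lit 76) (nat_lit 37259837245) (nat_lit 76) (nat_lit 11992186607) (nat_lit 3) (nat_lit 4) (nat_lit 4) (nat_lit 5) (nat_lit 4) (nat_lit 4) (nat_lit 243) (nat_lit 207) (nat_lit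 150))) (XT.nd (nat_lit 78) (nat_lit 76) (nat_lit 0) (XT.lf (nat_lit 0) (nat_lit 605029373346) (nat_lit 76) (nat_lit 26223826058) (nat_lit 76) (nat_lit 955031668) (nat_lit 3) (nat_lit 4) (nat_lit 4) (nat_lit 5) (nat_lit 4) (nat_lit 4) (nat_lit 244) (nat_lit 207) (nat_lit 149)) (XT.lf (nat_lit 0) (nat_lit 10691445021) (nat_lit 152) (nat_lit 2283182162) (nat_lit 76) (nat_lit 711782556922) (nat_lit 2) (nat_lit 5) (nat_lit 4) (nat_lit 5) (nat_lit 3) (nat_lit 4) (nat_lit 245) (nat_lit 207) (nat_lit 148))))) (XT.nd (nat_lit 312) (nat_lit 0) (nat_lit 0) (XT.nd (nat_lit 156) (nat_lit 0) (nat_lit 0) (XT.nd (nat_lit 78) (nat_lit 0) (nat_lit 0) (XT.lf (nat_lit 0) (nat_lit 25334134655) (nat_lit 152) (nat_lit 802285820917) (nat_lit 0) (nat_lit 3359653090) (nat_lit 1) (nat_lit 5) (nat_lit 3) (nat_lit 4) (nat_lit 1) (nat_lit 4) (nat_lit 246) (nat_lit 207) (nat_lit 147)) (XT.lf (nat_lit 0) (nat_lit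 42915006573) (nat_lit 152) (nat_lit 889169255047) (nat_lit 0) (nat_lit 20939871064) (nat_lit 1) (nat_lit 5) (nat_lit 3) (nat_lit 4) (nat_lit 1) (nat_lit 4) (nat_lit 247) (nat_lit 207) (nat_lit 146))) (XT.nd (nat_lit 78) (nat_lit 0) (nat_lit 0) (XT.lf (nat_lit 0) (nat_lit 63132059751) (nat_lit 152) (nat_lit 989087064657) (nat_lit 0) (nat_lit 41156355595) (nat_lit 1) (nat_lit 5) (nat_lit 3) (nat_lit 4) (nat_lit 1) (nat_lit 4) (nat_lit 248) (nat_lit 207) (nat_lit 145)) (XT.lf (nat_lit 0) (nat_lit 86380845231) (nat_lit 152) (nat_lit 1103994163414) (nat_lit 0) (nat_lit 64404646599) (nat_lit 1) (nat_lit 5) (nat_lit 3) (nat_lit 4) (nat_lit 1) (nat_lit 4) (nat_lit 249) (nat_lit 207) (nat_lit 144)))) (XT.nd (nat_lit 156) (nat_lit 0) (nat_lit 0) (XT.nd (nat_lit 78) (nat_lit 0) (nat_lit 0) (XT.lf (nat_lit 0) (nat_lit 113116230555) (nat_lit 152) (nat_lit 1236138733684) (nat_lit 0) (nat_lit 91139601944)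 (nat_lit 1) (nat_lit 5) (nat_lit 3) (nat_lit 4) (nat_lit 1) (nat_lit 4) (nat_lit 250) (nat_lit 207) (nat_lit 143)) (XT.lf (nat_lit 0) (nat_lit 143861299347) (nat_lit 152) (nat_lit 1388106212711) (nat_lit 0) (nat_lit 121884296842) (nat_lit 1) (nat_lit 5) (nat_lit 3) (nat_lit 4) (nat_lit 1) (nat_lit 4) (nat_lit 251) (nat_lit 207) (nat_lit 142))) (XT.nd (nat_lit 78) (nat_lit 0) (nat_lit 0) (XT.lf (nat_lit 0) (nat_lit 179217585563) (nat_lit 152) (nat_lit 1562869877260) (nat_lit 0) (nat_lit 157240257932) (nat_lit 1) (nat_lit 5) (nat_lit 3) (nat_lit 4) (nat_lit 1) (nat_lit 4) (nat_lit 252) (nat_lit 207) (nat_lit 141)) (XT.lf (nat_lit 0) (nat_lit 219876842630) (nat_lit 152) (nat_lit 1763849016419) (nat_lit 0) (nat_lit 197899232280) (nat_lit 1) (nat_lit 5) (nat_lit 3) (nat_lit 4) (nat_lit 1) (nat_lit 4) (nat_lit 253) (nat_lit 207) (nat_lit 140))))))))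
noncomputable def xc34 : XT := (XT.nd (nat_lit 28314) (nat_lit 0) (nat_lit 76) (XT.nd (nat_lit 1170) (nat_lit 0) (nat_lit 0) (XT.nd (nat_lit 546) (nat_lit 0) (nat_lit 0) (XT.nd (nat_lit 234) (nat_lit 0) (nat_lit 0) (XT.nd (nat_lit 78) (nat_lit 0) (nat_lit 0) (XT.lf (nat_lit 0) (nat_lit 266634577749) (nat_lit 152) (nat_lit 1994975830738) (nat_lit 0) (nat_lit 244656721558) (nat_lit 1) (nat_lit 5) (nat_lit 3) (nat_lit 4) (nat_lit 1) (nat_lit 4) (nat_lit 254) (nat_lit 207) (nat_lit 139)) (XT.nd (nat_lit 78) (nat_lit 0) (nat_lit 0) (XT.lf (nat_lit 0) (nat_lit 320405616174) (nat_lit 152) (nat_lit 2260772366582) (nat_lit 0) (nat_lit 298427546207) (nat_lit 1) (nat_lit 5) (nat_lit 3) (nat_lit 4) (nat_lit 1) (nat_lit 4) (nat_lit 255) (nat_lit 207) (nat_lit 138)) (XT.lf (nat_lit 0) (nat_lit 382241999961) (nat_lit 152) (nat_lit 2566438990958) (nat_lit 0) (nat_lit 360263744102) (nat_lit 1) (nat_lit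 5) (nat_lit 3) (nat_lit 4) (nat_lit 1) (nat_lit 4) (nat_lit 256) (nat_lit 207) (nat_lit 137)))) (XT.nd (nat_lit 156) (nat_lit 0) (nat_lit 0) (XT.nd (nat_lit 78) (nat_lit 0) (nat_lit 0) (XT.lf (nat_lit 0) (nat_lit 453353571401) (nat_lit 152) (nat_lit 2917956137821) (nat_lit 0) (nat_lit 431375153897) (nat_lit 1) (nat_lit 5) (nat_lit 3) (nat_lit 4) (nat_lit 1) (nat_lit 4) (nat_lit 257) (nat_lit 207) (nat_lit 136)) (XT.lf (nat_lit 0) (nat_lit 535131643849) (nat_lit 152) (nat_lit 3322201316567) (nat_lit 0) (nat_lit 513153085784) (nat_lit 1) (nat_lit 5) (nat_lit 3) (nat_lit 4) (nat_lit 1) (nat_lit 4) (nat_lit 258) (nat_lit 207) (nat_lit 135))) (XT.nd (nat_lit 78) (nat_lit 0) (nat_lit 0) (XT.lf (nat_lit 0) (nat_lit 629176223069) (nat_lit 152) (nat_lit 3787083671996) (nat_lit 0) (nat_lit 607197542778) (nat_lit 1) (nat_lit 5) (nat_lit 3) (nat_lit 4) (nat_lit 1) (nat_lit 4) (nat_lit 259) (nat_lit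 207) (nat_lit 134)) (XT.lf (nat_lit 0) (nat_lit 737327311699) (nat_lit 152) (nat_lit 4321698728453) (nat_lit 0) (nat_lit 715348525124) (nat_lit 1) (nat_lit 5) (nat_lit 3) (nat_lit 4) (nat_lit 1) (nat_lit 4) (nat_lit 260) (nat_lit 207) (nat_lit 133))))) (XT.nd (nat_lit 312) (nat_lit 0) (nat_lit 0) (XT.nd (nat_lit 156) (nat_lit 0) (nat_lit 0) (XT.nd (nat_lit 78) (nat_lit 0) (nat_lit 0) (XT.lf (nat_lit 0) (nat_lit 861700909299) (nat_lit 152) (nat_lit 4936506345741) (nat_lit 0) (nat_lit 839722030302) (nat_lit 1) (nat_lit 5) (nat_lit 3) (nat_lit 4) (nat_lit 1) (nat_lit 4) (nat_lit 261) (nat_lit 207) (nat_lit 132)) (XT.lf (nat_lit 0) (nat_lit 1004730412344) (nat_lit 152) (nat_lit 5643535368543) (nat_lit 0) (nat_lit 982751452981) (nat_lit 1) (nat_lit 5) (nat_lit 3) (nat_lit 4) (nat_lit 1) (nat_lit 4) (nat_lit 262) (nat_lit 207) (nat_lit 131))) (XT.nd (nat_lit 78) (nat_lit 0) (nat_lit 0) (XT.lf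 (nat_lit 0) (nat_lit 1169214224153) (nat_lit 152) (nat_lit 6456618973394) (nat_lit 0) (nat_lit 1147235194907) (nat_lit 1) (nat_lit 5) (nat_lit 3) (nat_lit 4) (nat_lit 1) (nat_lit 4) (nat_lit 263) (nat_lit 207) (nat_lit 130)) (XT.lf (nat_lit 0) (nat_lit 1358370506264) (nat_lit 152) (nat_lit 7391665317780) (nat_lit 0) (nat_lit 1336391416249) (nat_lit 1) (nat_lit 5) (nat_lit 3) (nat_lit 4) (nat_lit 1) (nat_lit 4) (nat_lit 264) (nat_lit 207) (nat_lit 129)))) (XT.nd (nat_lit 156) (nat_lit 0) (nat_lit 0) (XT.nd (nat_lit 78) (nat_lit 0) (nat_lit 0) (XT.lf (nat_lit 0) (nat_lit 1575900142455) (nat_lit 152) (nat_lit 8466968786699) (nat_lit 0) (nat_lit 1553920999598) (nat_lit 1) (nat_lit 5) (nat_lit 3) (nat_lit 4) (nat_lit 1) (nat_lit 4) (nat_lit 265) (nat_lit 207) (nat_lit 128)) (XT.lf (nat_lit 0) (nat_lit 1826059147348) (nat_lit 152) (nat_lit 9703567926283) (nat_lit 0) (nat_lit 1804079958542)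 (nat_lit 1) (nat_lit 5) (nat_lit 3) (nat_lit 4) (nat_lit 1) (nat_lit 4) (nat_lit 266) (nat_lit 207) (nat_lit 127))) (XT.nd (nat_lit 78) (nat_lit 0) (nat_lit 0) (XT.lf (nat_lit 0) (nat_lit 2113741936256) (nat_lit 152) (nat_lit 11125657067523) (nat_lit 0) (nat_lit 2091762707494) (nat_lit 1) (nat_lit 5) (nat_lit 3) (nat_lit 4) (nat_lit 1) (nat_lit 4) (nat_lit 267) (nat_lit 207) (nat_lit 126)) (XT.lf (nat_lit 0) (nat_lit 2444577085485) (nat_lit 152) (nat_lit 12761059693618) (nat_lit 0) (nat_lit 2422597821978) (nat_lit 1) (nat_lit 5) (nat_lit 3) (nat_lit 4) (nat_lit 1) (nat_lit 4) (nat_lit 268) (nat_lit 207) (nat_lit 125)))))) (XT.nd (nat_lit 26520) (nat_lit 0) (nat_lit 912) (XT.nd (nat_lit 780) (nat_lit 0) (nat_lit 0) (XT.nd (nat_lit 156) (nat_lit 0) (nat_lit 0) (XT.nd (nat_lit 78) (nat_lit 0) (nat_lit 0) (XT.lf (nat_lit 0) (nat_lit 2825037456648) (nat_lit 152) (nat_lit 14641772812469)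 (nat_lit 0) (nat_lit 2803058162929) (nat_lit 1) (nat_lit 5) (nat_lit 3) (nat_lit 4) (nat_lit 1) (nat_lit 4) (nat_lit 269) (nat_lit 207) (nat_lit 124)) (XT.lf (nat_lit 0) (nat_lit 3262566839618) (nat_lit 152) (nat_lit 16804592985097) (nat_lit 0) (nat_lit 3240587519626) (nat_lit 1) (nat_lit 5) (nat_lit 3) (nat_lit 4) (nat_lit 1) (nat_lit 4) (nat_lit 270) (nat_lit 207) (nat_lit 123))) (XT.nd (nat_lit 546) (nat_lit 0) (nat_lit 0) (XT.lf (nat_lit 0) (nat_lit 3765725591886) (nat_lit 152) (nat_lit 19291836258359) (nat_lit 0) (nat_lit 3743746249049) (nat_lit 1) (nat_lit 5) (nat_lit 3) (nat_lit 4) (nat_lit 1) (nat_lit 4) (nat_lit 271) (nat_lit 207) (nat_lit 122)) (XT.lf (nat_lit 0) (nat_lit 10169334989057) (nat_lit 152) (nat_lit 50946533399296) (nat_lit 0) (nat_lit 10147355551175) (nat_lit 1) (nat_lit 5) (nat_lit 3) (nat_lit 4) (nat_lit 1) (nat_lit 4) (nat_lit 278) (nat_lit 207) (nat_lit 115))))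 (XT.nd (nat_lit 156) (nat_lit 0) (nat_lit 0) (XT.nd (nat_lit 78) (nat_lit 0) (nat_lit 0) (XT.lf (nat_lit 0) (nat_lit 11708508792565) (nat_lit 152) (nat_lit 58555068070065) (nat_lit 0) (nat_lit 11686529347215) (nat_lit 1) (nat_lit 5) (nat_lit 3) (nat_lit 4) (nat_lit 1) (nat_lit 4) (nat_lit 279) (nat_lit 207) (nat_lit 114)) (XT.lf (nat_lit 0) (nat_lit 13478558655755) (nat_lit 152) (nat_lit 67304882962695) (nat_lit 0) (nat_lit 13456579203911) (nat_lit 1) (nat_lit 5) (nat_lit 3) (nat_lit 4) (nat_lit 1) (nat_lit 4) (nat_lit 280) (nat_lit 207) (nat_lit 113))) (XT.nd (nat_lit 78) (nat_lit 0) (nat_lit 0) (XT.lf (nat_lit 0) (nat_lit 15514115988994) (nat_lit 152) (nat_lit 77367170107693) (nat_lit 0) (nat_lit 15492136531503) (nat_lit 1) (nat_lit 5) (nat_lit 3) (nat_lit 4) (nat_lit 1) (nat_lit 4) (nat_lit 281) (nat_lit 207) (nat_lit 112)) (XT.lf (nat_lit 0) (nat_lit 17855006914020) (nat_lit 152)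 (nat_lit 88938800340506) (nat_lit 0) (nat_lit 17833027451618) (nat_lit 1) (nat_lit 5) (nat_lit 3) (nat_lit 4) (nat_lit 1) (nat_lit 4) (nat_lit 282) (nat_lit 207) (nat_lit 111))))) (XT.nd (nat_lit 312) (nat_lit 456) (nat_lit 0) (XT.nd (nat_lit 156) (nat_lit 0) (nat_lit 0) (XT.nd (nat_lit 78) (nat_lit 0) (nat_lit 0) (XT.lf (nat_lit 0) (nat_lit 2608687457) (nat_lit 0) (nat_lit 2608687457) (nat_lit 228) (nat_lit 1187253815) (nat_lit 19) (nat_lit 5) (nat_lit 19) (nat_lit 3) (nat_lit 22) (nat_lit 3) (nat_lit 208) (nat_lit 208) (nat_lit 184)) (XT.lf (nat_lit 0) (nat_lit 11563881845) (nat_lit 228) (nat_lit 2134220930) (nat_lit 304) (nat_lit 15948782) (nat_lit 19) (nat_lit 5) (nat_lit 22) (nat_lit 3) (nat_lit 23) (nat_lit 5) (nat_lit 209) (nat_lit 208) (nat_lit 183))) (XT.nd (nat_lit 78) (nat_lit 0) (nat_lit 0) (XT.lf (nat_lit 76) (nat_lit 4228060451) (nat_lit 0) (nat_lit 8997548204) (nat_lit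 304) (nat_lit 1475170574) (nat_lit 20) (nat_lit 5) (nat_lit 19) (nat_lit 5) (nat_lit 23) (nat_lit 5) (nat_lit 210) (nat_lit 208) (nat_lit 182)) (XT.lf (nat_lit 76) (nat_lit 11744455966) (nat_lit 0) (nat_lit 3449608568) (nat_lit 304) (nat_lit 633438149) (nat_lit 20) (nat_lit 5) (nat_lit 19) (nat_lit 5) (nat_lit 23) (nat_lit 5) (nat_lit 211) (nat_lit 208) (nat_lit 181)))) (XT.nd (nat_lit 156) (nat_lit 228) (nat_lit 0) (XT.nd (nat_lit 78) (nat_lit 0) (nat_lit 0) (XT.lf (nat_lit 0) (nat_lit 530322803) (nat_lit 304) (nat_lit 13711688047) (nat_lit 76) (nat_lit 2845771967) (nat_lit 16) (nat_lit 5) (nat_lit 20) (nat_lit 5) (nat_lit 17) (nat_lit 5) (nat_lit 212) (nat_lit 208) (nat_lit 180)) (XT.lf (nat_lit 0) (nat_lit 2147072739) (nat_lit 304) (nat_lit 6342447104) (nat_lit 76) (nat_lit 9991968249) (nat_lit 16) (nat_lit 5) (nat_lit 20) (nat_lit 5) (nat_lit 17) (nat_lit 5) (nat_lit 213) (nat_lit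 208) (nat_lit 179))) (XT.nd (nat_lit 78) (nat_lit 0) (nat_lit 0) (XT.lf (nat_lit 0) (nat_lit 2296882651) (nat_lit 228) (nat_lit 1765791398) (nat_lit 304) (nat_lit 16013471410) (nat_lit 13) (nat_lit 5) (nat_lit 16) (nat_lit 5) (nat_lit 17) (nat_lit 5) (nat_lit 214) (nat_lit 208) (nat_lit 178)) (XT.lf (nat_lit 0) (nat_lit 6824603074) (nat_lit 304) (nat_lit 9221658645) (nat_lit 76) (nat_lit 5780193440) (nat_lit 13) (nat_lit 5) (nat_lit 17) (nat_lit 5) (nat_lit 14) (nat_lit 5) (nat_lit 215) (nat_lit 208) (nat_lit 177))))))) (XT.nd (nat_lit 1170) (nat_lit 152) (nat_lit 0) (XT.nd (nat_lit 546) (nat_lit 304) (nat_lit 0) (XT.nd (nat_lit 234) (nat_lit 228) (nat_lit 0) (XT.nd (nat_lit 78) (nat_lit 0) (nat_lit 0) (XT.lf (nat_lit 0) (nat_lit 546352348) (nat_lit 152) (nat_lit 9530397820) (nat_lit 228) (nat_lit 13751434322) (nat_lit 11) (nat_lit 5) (nat_lit 13) (nat_lit 5) (nat_lit 14) (nat_lit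 5) (nat_lit 216) (nat_lit 208) (nat_lit 176)) (XT.nd (nat_lit 78) (nat_lit 0) (nat_lit 0) (XT.lf (nat_lit 0) (nat_lit 12779882781) (nat_lit 152) (nat_lit 1490619067) (nat_lit 228) (nat_lit 11791832242) (nat_lit 11) (nat_lit 5) (nat_lit 13) (nat_lit 5) (nat_lit 14) (nat_lit 5) (nat_lit 217) (nat_lit 208) (nat_lit 175)) (XT.lf (nat_lit 0) (nat_lit 19389585434) (nat_lit 228) (nat_lit 2139255698) (nat_lit 76) (nat_lit 7058523100) (nat_lit 11) (nat_lit 5) (nat_lit 14) (nat_lit 5) (nat_lit 12) (nat_lit 4) (nat_lit 218) (nat_lit 208) (nat_lit 174)))) (XT.nd (nat_lit 156) (nat_lit 152) (nat_lit 0) (XT.nd (nat_lit 78) (nat_lit 0) (nat_lit 0) (XT.lf (nat_lit 0) (nat_lit 11607400546) (nat_lit 76) (nat_lit 14199138316) (nat_lit 152) (nat_lit 5605281523) (nat_lit 10) (nat_lit 5) (nat_lit 11) (nat_lit 5) (nat_lit 12) (nat_lit 4) (nat_lit 219) (nat_lit 208) (nat_lit 173)) (XT.lf (nat_lit 0) (nat_lit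 27627452663) (nat_lit 76) (nat_lit 5650412210) (nat_lit 152) (nat_lit 1368455730) (nat_lit 10) (nat_lit 5) (nat_lit 11) (nat_lit 5) (nat_lit 12) (nat_lit 4) (nat_lit 220) (nat_lit 208) (nat_lit 172))) (XT.nd (nat_lit 78) (nat_lit 0) (nat_lit 0) (XT.lf (nat_lit 0) (nat_lit 3711001707) (nat_lit 152) (nat_lit 30245353242) (nat_lit 76) (nat_lit 4310133770) (nat_lit 8) (nat_lit 5) (nat_lit 10) (nat_lit 5) (nat_lit 9) (nat_lit 4) (nat_lit 221) (nat_lit 208) (nat_lit 171)) (XT.lf (nat_lit 0) (nat_lit 10048323959) (nat_lit 152) (nat_lit 16648580069) (nat_lit 76) (nat_lit 15627694519) (nat_lit 8) (nat_lit 5) (nat_lit 10) (nat_lit 5) (nat_lit 9) (nat_lit 4) (nat_lit 222) (nat_lit 208) (nat_lit 170))))) (XT.nd (nat_lit 312) (nat_lit 152) (nat_lit 0) (XT.nd (nat_lit 156) (nat_lit 76) (nat_lit 0) (XT.nd (nat_lit 78) (nat_lit 76) (nat_lit 0) (XT.lf (nat_lit 0) (nat_lit 17321128177) (nat_lit 152)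 (nat_lit 1036807232) (nat_lit 76) (nat_lit 28635842700) (nat_lit 8) (nat_lit 5) (nat_lit 10) (nat_lit 5) (nat_lit 9) (nat_lit 4) (nat_lit 223) (nat_lit 208) (nat_lit 169)) (XT.lf (nat_lit 0) (nat_lit 18546555631) (nat_lit 76) (nat_lit 7893126045) (nat_lit 152) (nat_lit 25810503248) (nat_lit 7) (nat_lit 5) (nat_lit 8) (nat_lit 5) (nat_lit 9) (nat_lit 4) (nat_lit 224) (nat_lit 208) (nat_lit 168))) (XT.nd (nat_lit 78) (nat_lit 76) (nat_lit 0) (XT.lf (nat_lit 0) (nat_lit 37141675258) (nat_lit 152) (nat_lit 17298965734) (nat_lit 0) (nat_lit 3822128091) (nat_lit 7) (nat_lit 5) (nat_lit 9) (nat_lit 4) (nat_lit 7) (nat_lit 4) (nat_lit 225) (nat_lit 208) (nat_lit 167)) (XT.lf (nat_lit 0) (nat_lit 1285957411) (nat_lit 76) (nat_lit 48581159567) (nat_lit 76) (nat_lit 15247457943) (nat_lit 6) (nat_lit 4) (nat_lit 7) (nat_lit 5) (nat_lit 7) (nat_lit 4) (nat_lit 226) (nat_lit 208) (nat_lit 166))))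 (XT.nd (nat_lit 156) (nat_lit 76) (nat_lit 0) (XT.nd (nat_lit 78) (nat_lit 76) (nat_lit 0) (XT.lf (nat_lit 0) (nat_lit 24584591697) (nat_lit 76) (nat_lit 40810761085) (nat_lit 76) (nat_lit 7464751239) (nat_lit 6) (nat_lit 4) (nat_lit 7) (nat_lit 5) (nat_lit 7) (nat_lit 4) (nat_lit 227) (nat_lit 208) (nat_lit 165)) (XT.lf (nat_lit 0) (nat_lit 1343714923) (nat_lit 152) (nat_lit 30467725563) (nat_lit 76) (nat_lit 49948244658) (nat_lit 5) (nat_lit 5) (nat_lit 7) (nat_lit 5) (nat_lit 6) (nat_lit 4) (nat_lit 228) (nat_lit 208) (nat_lit 164))) (XT.nd (nat_lit 78) (nat_lit 76) (nat_lit 0) (XT.lf (nat_lit 0) (nat_lit 10701020583) (nat_lit 152) (nat_lit 10358825178) (nat_lit 76) (nat_lit 70882297594) (nat_lit 5) (nat_lit 5) (nat_lit 7) (nat_lit 5) (nat_lit 6) (nat_lit 4) (nat_lit 229) (nat_lit 208) (nat_lit 163)) (XT.lf (nat_lit 0) (nat_lit 14000109860) (nat_lit 76) (nat_lit 8034412070) (nat_lit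 152) (nat_lit 81531586442) (nat_lit 4) (nat_lit 5) (nat_lit 5) (nat_lit 5) (nat_lit 6) (nat_lit 4) (nat_lit 230) (nat_lit 208) (nat_lit 162)))))) (XT.nd (nat_lit 624) (nat_lit 76) (nat_lit 0) (XT.nd (nat_lit 312) (nat_lit 76) (nat_lit 0) (XT.nd (nat_lit 156) (nat_lit 0) (nat_lit 0) (XT.nd (nat_lit 78) (nat_lit 0) (nat_lit 0) (XT.lf (nat_lit 0) (nat_lit 35915975545) (nat_lit 152) (nat_lit 74001638953) (nat_lit 0) (nat_lit 6888888974) (nat_lit 4) (nat_lit 5) (nat_lit 6) (nat_lit 4) (nat_lit 4) (nat_lit 4) (nat_lit 231) (nat_lit 208) (nat_lit 161)) (XT.lf (nat_lit 0) (nat_lit 52256227115) (nat_lit 152) (nat_lit 56496445586) (nat_lit 0) (nat_lit 23223819360) (nat_lit 4) (nat_lit 5) (nat_lit 6) (nat_lit 4) (nat_lit 4) (nat_lit 4) (nat_lit 232) (nat_lit 208) (nat_lit 160))) (XT.nd (nat_lit 78) (nat_lit 0) (nat_lit 0) (XT.lf (nat_lit 0) (nat_lit 71042289345) (nat_lit 152) (nat_lit 36375237627)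 (nat_lit 0) (nat_lit 42005254472) (nat_lit 4) (nat_lit 5) (nat_lit 6) (nat_lit 4) (nat_lit 4) (nat_lit 4) (nat_lit 233) (nat_lit 208) (nat_lit 159)) (XT.lf (nat_lit 0) (nat_lit 92641715625) (nat_lit 152) (nat_lit 13244339267) (nat_lit 0) (nat_lit 63600657172) (nat_lit 4) (nat_lit 5) (nat_lit 6) (nat_lit 4) (nat_lit 4) (nat_lit 4) (nat_lit 234) (nat_lit 208) (nat_lit 158)))) (XT.nd (nat_lit 156) (nat_lit 0) (nat_lit 0) (XT.nd (nat_lit 78) (nat_lit 0) (nat_lit 0) (XT.lf (nat_lit 0) (nat_lit 14653353397) (nat_lit 76) (nat_lit 103430514145) (nat_lit 76) (nat_lit 74385956927) (nat_lit 3) (nat_lit 4) (nat_lit 4) (nat_lit 5) (nat_lit 4) (nat_lit 4) (nat_lit 235) (nat_lit 208) (nat_lit 157)) (XT.lf (nat_lit 0) (nat_lit 48217135395) (nat_lit 76) (nat_lit 99813795868) (nat_lit 76) (nat_lit 70766196245) (nat_lit 3) (nat_lit 4) (nat_lit 4) (nat_lit 5) (nat_lit 4) (nat_lit 4) (nat_lit 236) (nat_lit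 208) (nat_lit 156))) (XT.nd (nat_lit 78) (nat_lit 0) (nat_lit 0) (XT.lf (nat_lit 0) (nat_lit 86809356264) (nat_lit 76) (nat_lit 95657455915) (nat_lit 76) (nat_lit 66607210724) (nat_lit 3) (nat_lit 4) (nat_lit 4) (nat_lit 5) (nat_lit 4) (nat_lit 4) (nat_lit 237) (nat_lit 208) (nat_lit 155)) (XT.lf (nat_lit 0) (nat_lit 131185081193) (nat_lit 76) (nat_lit 90880174594) (nat_lit 76) (nat_lit 61827628908) (nat_lit 3) (nat_lit 4) (nat_lit 4) (nat_lit 5) (nat_lit 4) (nat_lit 4) (nat_lit 238) (nat_lit 208) (nat_lit 154))))) (XT.nd (nat_lit 312) (nat_lit 76) (nat_lit 0) (XT.nd (nat_lit 156) (nat_lit 0) (nat_lit 0) (XT.nd (nat_lit 78) (nat_lit 0) (nat_lit 0) (XT.lf (nat_lit 0) (nat_lit 182212530889) (nat_lit 76) (nat_lit 85388483355) (nat_lit 76) (nat_lit 56333937238) (nat_lit 3) (nat_lit 4) (nat_lit 4) (nat_lit 5) (nat_lit 4) (nat_lit 4) (nat_lit 239) (nat_lit 208) (nat_lit 153)) (XT.lf (nat_lit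 0) (nat_lit 240890068496) (nat_lit 76) (nat_lit 79074936066) (nat_lit 76) (nat_lit 50018650445) (nat_lit 3) (nat_lit 4) (nat_lit 4) (nat_lit 5) (nat_lit 4) (nat_lit 4) (nat_lit 240) (nat_lit 208) (nat_lit 152))) (XT.nd (nat_lit 78) (nat_lit 0) (nat_lit 0) (XT.lf (nat_lit 0) (nat_lit 308365732796) (nat_lit 76) (nat_lit 71816006801) (nat_lit 76) (nat_lit 42758208567) (nat_lit 3) (nat_lit 4) (nat_lit 4) (nat_lit 5) (nat_lit 4) (nat_lit 4) (nat_lit 241) (nat_lit 208) (nat_lit 151)) (XT.lf (nat_lit 0) (nat_lit 385959699827) (nat_lit 76) (nat_lit 63469673032) (nat_lit 76) (nat_lit 34410559483) (nat_lit 3) (nat_lit 4) (nat_lit 4) (nat_lit 5) (nat_lit 4) (nat_lit 4) (nat_lit 242) (nat_lit 208) (nat_lit 150)))) (XT.nd (nat_lit 156) (nat_lit 76) (nat_lit 0) (XT.nd (nat_lit 78) (nat_lit 0) (nat_lit 0) (XT.lf (nat_lit 0) (nat_lit 475190112424) (nat_lit 76) (nat_lit 53872636924) (nat_lit 76) (nat_lit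 24812379622) (nat_lit 3) (nat_lit 4) (nat_lit 4) (nat_lit 5) (nat_lit 4) (nat_lit 4) (nat_lit 243) (nat_lit 208) (nat_lit 149)) (XT.lf (nat_lit 0) (nat_lit 577802783007) (nat_lit 76) (nat_lit 42837130379) (nat_lit 76) (nat_lit 13775878510) (nat_lit 3) (nat_lit 4) (nat_lit 4) (nat_lit 5) (nat_lit 4) (nat_lit 4) (nat_lit 244) (nat_lit 208) (nat_lit 148))) (XT.nd (nat_lit 78) (nat_lit 76) (nat_lit 0) (XT.lf (nat_lit 0) (nat_lit 695805350782) (nat_lit 76) (nat_lit 30147241313) (nat_lit 76) (nat_lit 1085124602) (nat_lit 3) (nat_lit 4) (nat_lit 4) (nat_lit 5) (nat_lit 4) (nat_lit 4) (nat_lit 245) (nat_lit 208) (nat_lit 147)) (XT.lf (nat_lit 0) (nat_lit 12305587912) (nat_lit 152) (nat_lit 2605854733) (nat_lit 76) (nat_lit 818557727088) (nat_lit 2) (nat_lit 5) (nat_lit 4) (nat_lit 5) (nat_lit 3) (nat_lit 4) (nat_lit 246) (nat_lit 208) (nat_lit 146))))))))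
noncomputable def xc35 : XT := (XT.nd (nat_lit 28470) (nat_lit 0) (nat_lit 152) (XT.nd (nat_lit 1170) (nat_lit 0) (nat_lit 0) (XT.nd (nat_lit 546) (nat_lit 0) (nat_lit 0) (XT.nd (nat_lit 234) (nat_lit 0) (nat_lit 0) (XT.nd (nat_lit 78) (nat_lit 0) (nat_lit 0) (XT.lf (nat_lit 0) (nat_lit 29144478828) (nat_lit 152) (nat_lit 922608662731) (nat_lit 0) (nat_lit 3871850401) (nat_lit 1) (nat_lit 5) (nat_lit 3) (nat_lit 4) (nat_lit 1) (nat_lit 4) (nat_lit 247) (nat_lit 208) (nat_lit 145)) (XT.nd (nat_lit 78) (nat_lit 0) (nat_lit 0) (XT.lf (nat_lit 0) (nat_lit 49361147971) (nat_lit 152) (nat_lit 1022527224762) (nat_lit 0) (nat_lit 24088025069) (nat_lit 1) (nat_lit 5) (nat_lit 3) (nat_lit 4) (nat_lit 1) (nat_lit 4) (nat_lit 248) (nat_lit 208) (nat_lit 144)) (XT.lf (nat_lit 0) (nat_lit 72609599508) (nat_lit 152) (nat_lit 1137434977798) (nat_lit 0) (nat_lit 47336046626) (nat_lit 1) (nat_lit 5)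 (nat_lit 3) (nat_lit 4) (nat_lit 1) (nat_lit 4) (nat_lit 249) (nat_lit 208) (nat_lit 143)))) (XT.nd (nat_lit 156) (nat_lit 0) (nat_lit 0) (XT.nd (nat_lit 78) (nat_lit 0) (nat_lit 0) (XT.lf (nat_lit 0) (nat_lit 99344694445) (nat_lit 152) (nat_lit 1269580117006) (nat_lit 0) (nat_lit 74070767669) (nat_lit 1) (nat_lit 5) (nat_lit 3) (nat_lit 4) (nat_lit 1) (nat_lit 4) (nat_lit 250) (nat_lit 208) (nat_lit 142)) (XT.lf (nat_lit 0) (nat_lit 130089510728) (nat_lit 152) (nat_lit 1421548090762) (nat_lit 0) (nat_lit 104815258826) (nat_lit 1) (nat_lit 5) (nat_lit 3) (nat_lit 4) (nat_lit 1) (nat_lit 4) (nat_lit 251) (nat_lit 208) (nat_lit 141))) (XT.nd (nat_lit 78) (nat_lit 0) (nat_lit 0) (XT.lf (nat_lit 0) (nat_lit 165445577371) (nat_lit 152) (nat_lit 1596312185510) (nat_lit 0) (nat_lit 140171042751) (nat_lit 1) (nat_lit 5) (nat_lit 3) (nat_lit 4) (nat_lit 1) (nat_lit 4) (nat_lit 252) (nat_lit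 208) (nat_lit 140)) (XT.lf (nat_lit 0) (nat_lit 206104643504) (nat_lit 152) (nat_lit 1797291698755) (nat_lit 0) (nat_lit 180829863042) (nat_lit 1) (nat_lit 5) (nat_lit 3) (nat_lit 4) (nat_lit 1) (nat_lit 4) (nat_lit 253) (nat_lit 208) (nat_lit 139))))) (XT.nd (nat_lit 312) (nat_lit 0) (nat_lit 0) (XT.nd (nat_lit 156) (nat_lit 0) (nat_lit 0) (XT.nd (nat_lit 78) (nat_lit 0) (nat_lit 0) (XT.lf (nat_lit 0) (nat_lit 252862212595) (nat_lit 152) (nat_lit 2028418838366) (nat_lit 0) (nat_lit 227587218357) (nat_lit 1) (nat_lit 5) (nat_lit 3) (nat_lit 4) (nat_lit 1) (nat_lit 4) (nat_lit 254) (nat_lit 208) (nat_lit 138)) (XT.lf (nat_lit 0) (nat_lit 306633106647) (nat_lit 152) (nat_lit 2294215657073) (nat_lit 0) (nat_lit 281357926518) (nat_lit 1) (nat_lit 5) (nat_lit 3) (nat_lit 4) (nat_lit 1) (nat_lit 4) (nat_lit 255) (nat_lit 208) (nat_lit 137))) (XT.nd (nat_lit 78) (nat_lit 0) (nat_lit 0) (XT.lf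 (nat_lit 0) (nat_lit 368469364892) (nat_lit 152) (nat_lit 2599882527417) (nat_lit 0) (nat_lit 343194023118) (nat_lit 1) (nat_lit 5) (nat_lit 3) (nat_lit 4) (nat_lit 1) (nat_lit 4) (nat_lit 256) (nat_lit 208) (nat_lit 136)) (XT.lf (nat_lit 0) (nat_lit 439580827165) (nat_lit 152) (nat_lit 2951399888165) (nat_lit 0) (nat_lit 414305344830) (nat_lit 1) (nat_lit 5) (nat_lit 3) (nat_lit 4) (nat_lit 1) (nat_lit 4) (nat_lit 257) (nat_lit 208) (nat_lit 135)))) (XT.nd (nat_lit 156) (nat_lit 0) (nat_lit 0) (XT.nd (nat_lit 78) (nat_lit 0) (nat_lit 0) (XT.lf (nat_lit 0) (nat_lit 521358804685) (nat_lit 152) (nat_lit 3355645252897) (nat_lit 0) (nat_lit 496083200123) (nat_lit 1) (nat_lit 5) (nat_lit 3) (nat_lit 4) (nat_lit 1) (nat_lit 4) (nat_lit 258) (nat_lit 208) (nat_lit 134)) (XT.lf (nat_lit 0) (nat_lit 615403301360) (nat_lit 152) (nat_lit 3820527770054) (nat_lit 0) (nat_lit 590127590514) (nat_lit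 1) (nat_lit 5) (nat_lit 3) (nat_lit 4) (nat_lit 1) (nat_lit 4) (nat_lit 259) (nat_lit 208) (nat_lit 133))) (XT.nd (nat_lit 78) (nat_lit 0) (nat_lit 0) (XT.lf (nat_lit 0) (nat_lit 723554318211) (nat_lit 152) (nat_lit 4355142967145) (nat_lit 0) (nat_lit 698278514944) (nat_lit 1) (nat_lit 5) (nat_lit 3) (nat_lit 4) (nat_lit 1) (nat_lit 4) (nat_lit 260) (nat_lit 208) (nat_lit 132)) (XT.lf (nat_lit 0) (nat_lit 847927853395) (nat_lit 152) (nat_lit 4969950706722) (nat_lit 0) (nat_lit 822651969761) (nat_lit 1) (nat_lit 5) (nat_lit 3) (nat_lit 4) (nat_lit 1) (nat_lit 4) (nat_lit 261) (nat_lit 208) (nat_lit 131)))))) (XT.nd (nat_lit 624) (nat_lit 0) (nat_lit 0) (XT.nd (nat_lit 312) (nat_lit 0) (nat_lit 0) (XT.nd (nat_lit 156) (nat_lit 0) (nat_lit 0) (XT.nd (nat_lit 78) (nat_lit 0) (nat_lit 0) (XT.lf (nat_lit 0) (nat_lit 990957302164) (nat_lit 152) (nat_lit 5676979835863) (nat_lit 0) (nat_lit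 965681348647) (nat_lit 1) (nat_lit 5) (nat_lit 3) (nat_lit 4) (nat_lit 1) (nat_lit 4) (nat_lit 262) (nat_lit 208) (nat_lit 130)) (XT.lf (nat_lit 0) (nat_lit 1155441066778) (nat_lit 152) (nat_lit 6490063533182) (nat_lit 0) (nat_lit 1130165052493) (nat_lit 1) (nat_lit 5) (nat_lit 3) (nat_lit 4) (nat_lit 1) (nat_lit 4) (nat_lit 263) (nat_lit 208) (nat_lit 129))) (XT.nd (nat_lit 78) (nat_lit 0) (nat_lit 0) (XT.lf (nat_lit 0) (nat_lit 1344597307848) (nat_lit 152) (nat_lit 7425109957975) (nat_lit 0) (nat_lit 1319321240721) (nat_lit 1) (nat_lit 5) (nat_lit 3) (nat_lit 4) (nat_lit 1) (nat_lit 4) (nat_lit 264) (nat_lit 208) (nat_lit 128)) (XT.lf (nat_lit 0) (nat_lit 1562126908353) (nat_lit 152) (nat_lit 8500413496814) (nat_lit 0) (nat_lit 1536850795276) (nat_lit 1) (nat_lit 5) (nat_lit 3) (nat_lit 4) (nat_lit 1) (nat_lit 4) (nat_lit 265) (nat_lit 208) (nat_lit 127)))) (XT.nd (nat_lit 156) (nat_lit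 0) (nat_lit 0) (XT.nd (nat_lit 78) (nat_lit 0) (nat_lit 0) (XT.lf (nat_lit 0) (nat_lit 1812285882214) (nat_lit 152) (nat_lit 9737012697197) (nat_lit 0) (nat_lit 1787009729181) (nat_lit 1) (nat_lit 5) (nat_lit 3) (nat_lit 4) (nat_lit 1) (nat_lit 4) (nat_lit 266) (nat_lit 208) (nat_lit 126)) (XT.lf (nat_lit 0) (nat_lit 2099968644138) (nat_lit 152) (nat_lit 11159101891306) (nat_lit 0) (nat_lit 2074692456360) (nat_lit 1) (nat_lit 5) (nat_lit 3) (nat_lit 4) (nat_lit 1) (nat_lit 4) (nat_lit 267) (nat_lit 208) (nat_lit 125))) (XT.nd (nat_lit 78) (nat_lit 0) (nat_lit 0) (XT.lf (nat_lit 0) (nat_lit 2430803769902) (nat_lit 152) (nat_lit 12794504563374) (nat_lit 0) (nat_lit 2405527551911) (nat_lit 1) (nat_lit 5) (nat_lit 3) (nat_lit 4) (nat_lit 1) (nat_lit 4) (nat_lit 268) (nat_lit 208) (nat_lit 124)) (XT.lf (nat_lit 0) (nat_lit 2811264120661) (nat_lit 152) (nat_lit 14675217722201) (nat_lit 0)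 (nat_lit 2785987876399) (nat_lit 1) (nat_lit 5) (nat_lit 3) (nat_lit 4) (nat_lit 1) (nat_lit 4) (nat_lit 269) (nat_lit 208) (nat_lit 123))))) (XT.nd (nat_lit 780) (nat_lit 0) (nat_lit 0) (XT.nd (nat_lit 624) (nat_lit 0) (nat_lit 0) (XT.nd (nat_lit 78) (nat_lit 0) (nat_lit 0) (XT.lf (nat_lit 0) (nat_lit 3248793485888) (nat_lit 152) (nat_lit 16838037929592) (nat_lit 0) (nat_lit 3223517218781) (nat_lit 1) (nat_lit 5) (nat_lit 3) (nat_lit 4) (nat_lit 1) (nat_lit 4) (nat_lit 270) (nat_lit 208) (nat_lit 122)) (XT.lf (nat_lit 0) (nat_lit 3751952222727) (nat_lit 152) (nat_lit 19325281233082) (nat_lit 0) (nat_lit 3726675935755) (nat_lit 1) (nat_lit 5) (nat_lit 3) (nat_lit 4) (nat_lit 1) (nat_lit 4) (nat_lit 271) (nat_lit 208) (nat_lit 121))) (XT.nd (nat_lit 78) (nat_lit 0) (nat_lit 0) (XT.lf (nat_lit 0) (nat_lit 10155561555710) (nat_lit 152) (nat_lit 50979978499781) (nat_lit 0) (nat_lit 10130285186090)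 (nat_lit 1) (nat_lit 5) (nat_lit 3) (nat_lit 4) (nat_lit 1) (nat_lit 4) (nat_lit 278) (nat_lit 208) (nat_lit 114)) (XT.lf (nat_lit 0) (nat_lit 11694735354174) (nat_lit 152) (nat_lit 58588513180431) (nat_lit 0) (nat_lit 11669458978060) (nat_lit 1) (nat_lit 5) (nat_lit 3) (nat_lit 4) (nat_lit 1) (nat_lit 4) (nat_lit 279) (nat_lit 208) (nat_lit 113)))) (XT.nd (nat_lit 25740) (nat_lit 0) (nat_lit 1368) (XT.nd (nat_lit 78) (nat_lit 0) (nat_lit 0) (XT.lf (nat_lit 0) (nat_lit 13464785212979) (nat_lit 152) (nat_lit 67338328081654) (nat_lit 0) (nat_lit 13439508831217) (nat_lit 1) (nat_lit 5) (nat_lit 3) (nat_lit 4) (nat_lit 1) (nat_lit 4) (nat_lit 280) (nat_lit 208) (nat_lit 112)) (XT.lf (nat_lit 0) (nat_lit 15500342542404) (nat_lit 152) (nat_lit 77400615234124) (nat_lit 0) (nat_lit 15475066155733) (nat_lit 1) (nat_lit 5) (nat_lit 3) (nat_lit 4) (nat_lit 1) (nat_lit 4) (nat_lit 281) (nat_lit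 208) (nat_lit 111))) (XT.nd (nat_lit 78) (nat_lit 0) (nat_lit 0) (XT.lf (nat_lit 0) (nat_lit 3165731554) (nat_lit 0) (nat_lit 3165731554) (nat_lit 228) (nat_lit 980378664) (nat_lit 19) (nat_lit 5) (nat_lit 19) (nat_lit 3) (nat_lit 22) (nat_lit 3) (nat_lit 209) (nat_lit 209) (nat_lit 182)) (XT.lf (nat_lit 0) (nat_lit 13606009141) (nat_lit 0) (nat_lit 268111654) (nat_lit 228) (nat_lit 1804152650) (nat_lit 19) (nat_lit 5) (nat_lit 19) (nat_lit 3) (nat_lit 22) (nat_lit 3) (nat_lit 210) (nat_lit 209) (nat_lit 181))))))) (XT.nd (nat_lit 1170) (nat_lit 304) (nat_lit 0) (XT.nd (nat_lit 546) (nat_lit 304) (nat_lit 0) (XT.nd (nat_lit 234) (nat_lit 380) (nat_lit 0) (XT.nd (nat_lit 78) (nat_lit 228) (nat_lit 0) (XT.lf (nat_lit 76) (nat_lit 5237588866) (nat_lit 0) (nat_lit 10478319427) (nat_lit 304) (nat_lit 1108334421) (nat_lit 20) (nat_lit 5) (nat_lit 19) (nat_lit 5) (nat_lit 23) (nat_lit 5)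 (nat_lit 211) (nat_lit 209) (nat_lit 180)) (XT.nd (nat_lit 78) (nat_lit 228) (nat_lit 0) (XT.lf (nat_lit 76) (nat_lit 13832489011) (nat_lit 0) (nat_lit 4081083760) (nat_lit 304) (nat_lit 217052360) (nat_lit 20) (nat_lit 5) (nat_lit 19) (nat_lit 5) (nat_lit 23) (nat_lit 5) (nat_lit 212) (nat_lit 209) (nat_lit 179)) (XT.lf (nat_lit 0) (nat_lit 1027326335) (nat_lit 304) (nat_lit 15340094046) (nat_lit 76) (nat_lit 3217173844) (nat_lit 16) (nat_lit 5) (nat_lit 20) (nat_lit 5) (nat_lit 17) (nat_lit 5) (nat_lit 213) (nat_lit 209) (nat_lit 178)))) (XT.nd (nat_lit 156) (nat_lit 152) (nat_lit 0) (XT.nd (nat_lit 78) (nat_lit 228) (nat_lit 0) (XT.lf (nat_lit 0) (nat_lit 2832138096) (nat_lit 304) (nat_lit 6921338336) (nat_lit 76) (nat_lit 11442533991) (nat_lit 16) (nat_lit 5) (nat_lit 20) (nat_lit 5) (nat_lit 17) (nat_lit 5) (nat_lit 214) (nat_lit 209) (nat_lit 177)) (XT.lf (nat_lit 0) (nat_lit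 2996960162) (nat_lit 228) (nat_lit 2005493398) (nat_lit 304) (nat_lit 18032730681) (nat_lit 13) (nat_lit 5) (nat_lit 16) (nat_lit 5) (nat_lit 17) (nat_lit 5) (nat_lit 215) (nat_lit 209) (nat_lit 176))) (XT.nd (nat_lit 78) (nat_lit 152) (nat_lit 0) (XT.lf (nat_lit 0) (nat_lit 8136485278) (nat_lit 304) (nat_lit 10251093486) (nat_lit 76) (nat_lit 6667158277) (nat_lit 13) (nat_lit 5) (nat_lit 17) (nat_lit 5) (nat_lit 14) (nat_lit 5) (nat_lit 216) (nat_lit 209) (nat_lit 175)) (XT.lf (nat_lit 0) (nat_lit 966036704) (nat_lit 152) (nat_lit 10886812247) (nat_lit 228) (nat_lit 15507738205) (nat_lit 11) (nat_lit 5) (nat_lit 13) (nat_lit 5) (nat_lit 14) (nat_lit 5) (nat_lit 217) (nat_lit 209) (nat_lit 174))))) (XT.nd (nat_lit 312) (nat_lit 228) (nat_lit 0) (XT.nd (nat_lit 156) (nat_lit 76) (nat_lit 0) (XT.nd (nat_lit 78) (nat_lit 0) (nat_lit 0) (XT.lf (nat_lit 0) (nat_lit 14990544767) (nat_lit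 152) (nat_lit 1650607365) (nat_lit 228) (nat_lit 13294162500) (nat_lit 11) (nat_lit 5) (nat_lit 13) (nat_lit 5) (nat_lit 14) (nat_lit 5) (nat_lit 218) (nat_lit 209) (nat_lit 173)) (XT.lf (nat_lit 0) (nat_lit 22500378671) (nat_lit 228) (nat_lit 2175434999) (nat_lit 76) (nat_lit 8167685951) (nat_lit 11) (nat_lit 5) (nat_lit 14) (nat_lit 5) (nat_lit 12) (nat_lit 4) (nat_lit 219) (nat_lit 209) (nat_lit 172))) (XT.nd (nat_lit 78) (nat_lit 0) (nat_lit 0) (XT.lf (nat_lit 0) (nat_lit 13620278360) (nat_lit 76) (nat_lit 16244455890) (nat_lit 152) (nat_lit 6229371851) (nat_lit 10) (nat_lit 5) (nat_lit 11) (nat_lit 5) (nat_lit 12) (nat_lit 4) (nat_lit 220) (nat_lit 209) (nat_lit 171)) (XT.lf (nat_lit 0) (nat_lit 32007890330) (nat_lit 76) (nat_lit 6424449542) (nat_lit 152) (nat_lit 1385287654) (nat_lit 10) (nat_lit 5) (nat_lit 11) (nat_lit 5) (nat_lit 12) (nat_lit 4) (nat_lit 221) (nat_lit 209)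 (nat_lit 170)))) (XT.nd (nat_lit 156) (nat_lit 76) (nat_lit 0) (XT.nd (nat_lit 78) (nat_lit 0) (nat_lit 0) (XT.lf (nat_lit 0) (nat_lit 4430416610) (nat_lit 152) (nat_lit 34518178257) (nat_lit 76) (nat_lit 5032528549) (nat_lit 8) (nat_lit 5) (nat_lit 10) (nat_lit 5) (nat_lit 9) (nat_lit 4) (nat_lit 222) (nat_lit 209) (nat_lit 169)) (XT.lf (nat_lit 0) (nat_lit 11697107028) (nat_lit 152) (nat_lit 18916321017) (nat_lit 76) (nat_lit 18037826709) (nat_lit 8) (nat_lit 5) (nat_lit 10) (nat_lit 5) (nat_lit 9) (nat_lit 4) (nat_lit 223) (nat_lit 209) (nat_lit 168))) (XT.nd (nat_lit 78) (nat_lit 76) (nat_lit 0) (XT.lf (nat_lit 0) (nat_lit 20042370861) (nat_lit 152) (nat_lit 992723045) (nat_lit 76) (nat_lit 32988591290) (nat_lit 8) (nat_lit 5) (nat_lit 10) (nat_lit 5) (nat_lit 9) (nat_lit 4) (nat_lit 224) (nat_lit 209) (nat_lit 167)) (XT.lf (nat_lit 0) (nat_lit 21519071280) (nat_lit 76) (nat_lit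 9001472581) (nat_lit 152) (nat_lit 29549324823) (nat_lit 7) (nat_lit 5) (nat_lit 8) (nat_lit 5) (nat_lit 9) (nat_lit 4) (nat_lit 225) (nat_lit 209) (nat_lit 166)))))) (XT.nd (nat_lit 624) (nat_lit 76) (nat_lit 0) (XT.nd (nat_lit 312) (nat_lit 76) (nat_lit 0) (XT.nd (nat_lit 156) (nat_lit 76) (nat_lit 0) (XT.nd (nat_lit 78) (nat_lit 76) (nat_lit 0) (XT.lf (nat_lit 0) (nat_lit 42815571151) (nat_lit 152) (nat_lit 19715336749) (nat_lit 0) (nat_lit 4455351605) (nat_lit 7) (nat_lit 5) (nat_lit 9) (nat_lit 4) (nat_lit 7) (nat_lit 4) (nat_lit 226) (nat_lit 209) (nat_lit 165)) (XT.lf (nat_lit 0) (nat_lit 1649212421) (nat_lit 76) (nat_lit 55794282584) (nat_lit 76) (nat_lit 17423360235) (nat_lit 6) (nat_lit 4) (nat_lit 7) (nat_lit 5) (nat_lit 7) (nat_lit 4) (nat_lit 227) (nat_lit 209) (nat_lit 164))) (XT.nd (nat_lit 78) (nat_lit 76) (nat_lit 0) (XT.lf (nat_lit 0) (nat_lit 28420420798) (nat_lit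 76) (nat_lit 46867983145) (nat_lit 76) (nat_lit 8487754011) (nat_lit 6) (nat_lit 4) (nat_lit 7) (nat_lit 5) (nat_lit 7) (nat_lit 4) (nat_lit 228) (nat_lit 209) (nat_lit 163)) (XT.lf (nat_lit 0) (nat_lit 1621880968) (nat_lit 152) (nat_lit 34901277907) (nat_lit 76) (nat_lit 57488685691) (nat_lit 5) (nat_lit 5) (nat_lit 7) (nat_lit 5) (nat_lit 6) (nat_lit 4) (nat_lit 229) (nat_lit 209) (nat_lit 162)))) (XT.nd (nat_lit 156) (nat_lit 0) (nat_lit 0) (XT.nd (nat_lit 78) (nat_lit 76) (nat_lit 0) (XT.lf (nat_lit 0) (nat_lit 12372790025) (nat_lit 152) (nat_lit 11793860702) (nat_lit 76) (nat_lit 81556559045) (nat_lit 5) (nat_lit 5) (nat_lit 7) (nat_lit 5) (nat_lit 6) (nat_lit 4) (nat_lit 230) (nat_lit 209) (nat_lit 161)) (XT.lf (nat_lit 0) (nat_lit 16213515126) (nat_lit 76) (nat_lit 9188807545) (nat_lit 152) (nat_lit 93689080211) (nat_lit 4) (nat_lit 5) (nat_lit 5) (nat_lit 5) (nat_lit 6) (nat_lit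 4) (nat_lit 231) (nat_lit 209) (nat_lit 160))) (XT.nd (nat_lit 78) (nat_lit 0) (nat_lit 0) (XT.lf (nat_lit 0) (nat_lit 41359654119) (nat_lit 152) (nat_lit 84996747051) (nat_lit 0) (nat_lit 7962436898) (nat_lit 4) (nat_lit 5) (nat_lit 6) (nat_lit 4) (nat_lit 4) (nat_lit 4) (nat_lit 232) (nat_lit 209) (nat_lit 159)) (XT.lf (nat_lit 0) (nat_lit 60143602262) (nat_lit 152) (nat_lit 64879488298) (nat_lit 0) (nat_lit 26742361462) (nat_lit 4) (nat_lit 5) (nat_lit 6) (nat_lit 4) (nat_lit 4) (nat_lit 4) (nat_lit 233) (nat_lit 209) (nat_lit 158))))) (XT.nd (nat_lit 312) (nat_lit 0) (nat_lit 0) (XT.nd (nat_lit 156) (nat_lit 76) (nat_lit 0) (XT.nd (nat_lit 78) (nat_lit 0) (nat_lit 0) (XT.lf (nat_lit 0) (nat_lit 81741190207) (nat_lit 152) (nat_lit 41752024031) (nat_lit 0) (nat_lit 48336450642) (nat_lit 4) (nat_lit 5) (nat_lit 6) (nat_lit 4) (nat_lit 4) (nat_lit 4) (nat_lit 234) (nat_lit 209) (nat_lit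 157)) (XT.lf (nat_lit 0) (nat_lit 106574979456) (nat_lit 152) (nat_lit 15161860383) (nat_lit 0) (nat_lit 73167197486) (nat_lit 4) (nat_lit 5) (nat_lit 6) (nat_lit 4) (nat_lit 4) (nat_lit 4) (nat_lit 235) (nat_lit 209) (nat_lit 156))) (XT.nd (nat_lit 78) (nat_lit 0) (nat_lit 0) (XT.lf (nat_lit 0) (nat_lit 16917343918) (nat_lit 76) (nat_lit 118914015711) (nat_lit 76) (nat_lit 85503588172) (nat_lit 3) (nat_lit 4) (nat_lit 4) (nat_lit 5) (nat_lit 4) (nat_lit 4) (nat_lit 236) (nat_lit 209) (nat_lit 155)) (XT.lf (nat_lit 0) (nat_lit 55507086149) (nat_lit 76) (nat_lit 114758843026) (nat_lit 76) (nat_lit 81346114992) (nat_lit 3) (nat_lit 4) (nat_lit 4) (nat_lit 5) (nat_lit 4) (nat_lit 4) (nat_lit 237) (nat_lit 209) (nat_lit 154)))) (XT.nd (nat_lit 156) (nat_lit 0) (nat_lit 0) (XT.nd (nat_lit 78) (nat_lit 0) (nat_lit 0) (XT.lf (nat_lit 0) (nat_lit 99880655742) (nat_lit 76) (nat_lit 109982576719)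 (nat_lit 76) (nat_lit 76567848254) (nat_lit 3) (nat_lit 4) (nat_lit 4) (nat_lit 5) (nat_lit 4) (nat_lit 4) (nat_lit 238) (nat_lit 209) (nat_lit 153)) (XT.lf (nat_lit 0) (nat_lit 150906231232) (nat_lit 76) (nat_lit 104491768101) (nat_lit 76) (nat_lit 71075300132) (nat_lit 3) (nat_lit 4) (nat_lit 4) (nat_lit 5) (nat_lit 4) (nat_lit 4) (nat_lit 239) (nat_lit 209) (nat_lit 152))) (XT.nd (nat_lit 78) (nat_lit 0) (nat_lit 0) (XT.lf (nat_lit 0) (nat_lit 209582139096) (nat_lit 76) (nat_lit 98178988309) (nat_lit 76) (nat_lit 64761007727) (nat_lit 3) (nat_lit 4) (nat_lit 4) (nat_lit 5) (nat_lit 4) (nat_lit 4) (nat_lit 240) (nat_lit 209) (nat_lit 151)) (XT.lf (nat_lit 0) (nat_lit 277056386227) (nat_lit 76) (nat_lit 90920726433) (nat_lit 76) (nat_lit 57501430535) (nat_lit 3) (nat_lit 4) (nat_lit 4) (nat_lit 5) (nat_lit 4) (nat_lit 4) (nat_lit 241) (nat_lit 209) (nat_lit 150))))))))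
noncomputable def xc36 : XT := (XT.nd (nat_lit 2808) (nat_lit 0) (nat_lit 0) (XT.nd (nat_lit 1170) (nat_lit 0) (nat_lit 0) (XT.nd (nat_lit 546) (nat_lit 0) (nat_lit 0) (XT.nd (nat_lit 234) (nat_lit 152) (nat_lit 0) (XT.nd (nat_lit 78) (nat_lit 0) (nat_lit 0) (XT.lf (nat_lit 0) (nat_lit 354649120937) (nat_lit 76) (nat_lit 82574973001) (nat_lit 76) (nat_lit 49154533352) (nat_lit 3) (nat_lit 4) (nat_lit 4) (nat_lit 5) (nat_lit 4) (nat_lit 4) (nat_lit 242) (nat_lit 209) (nat_lit 149)) (XT.nd (nat_lit 78) (nat_lit 0) (nat_lit 0) (XT.lf (nat_lit 0) (nat_lit 443878461951) (nat_lit 76) (nat_lit 72978441535) (nat_lit 76) (nat_lit 39557007318) (nat_lit 3) (nat_lit 4) (nat_lit 4) (nat_lit 5) (nat_lit 4) (nat_lit 4) (nat_lit 243) (nat_lit 209) (nat_lit 148)) (XT.lf (nat_lit 0) (nat_lit 546490200722) (nat_lit 76) (nat_lit 61943373809) (nat_lit 76) (nat_lit 28521074750) (nat_lit 3) (nat_lit 4) (nat_lit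 4) (nat_lit 5) (nat_lit 4) (nat_lit 4) (nat_lit 244) (nat_lit 209) (nat_lit 147)))) (XT.nd (nat_lit 156) (nat_lit 152) (nat_lit 0) (XT.nd (nat_lit 78) (nat_lit 0) (nat_lit 0) (XT.lf (nat_lit 0) (nat_lit 664491958227) (nat_lit 76) (nat_lit 49253866324) (nat_lit 76) (nat_lit 15830815230) (nat_lit 3) (nat_lit 4) (nat_lit 4) (nat_lit 5) (nat_lit 4) (nat_lit 4) (nat_lit 245) (nat_lit 209) (nat_lit 146)) (XT.lf (nat_lit 0) (nat_lit 800192464503) (nat_lit 76) (nat_lit 34661646108) (nat_lit 76) (nat_lit 1237941070) (nat_lit 3) (nat_lit 4) (nat_lit 4) (nat_lit 5) (nat_lit 4) (nat_lit 4) (nat_lit 246) (nat_lit 209) (nat_lit 145))) (XT.nd (nat_lit 78) (nat_lit 76) (nat_lit 0) (XT.lf (nat_lit 0) (nat_lit 14159309758) (nat_lit 152) (nat_lit 2981757704) (nat_lit 76) (nat_lit 941347273961) (nat_lit 2) (nat_lit 5) (nat_lit 4) (nat_lit 5) (nat_lit 3) (nat_lit 4) (nat_lit 247) (nat_lit 209) (nat_lit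 144)) (XT.lf (nat_lit 0) (nat_lit 33523881446) (nat_lit 152) (nat_lit 1060984815582) (nat_lit 0) (nat_lit 4458865653) (nat_lit 1) (nat_lit 5) (nat_lit 3) (nat_lit 4) (nat_lit 1) (nat_lit 4) (nat_lit 248) (nat_lit 209) (nat_lit 143))))) (XT.nd (nat_lit 312) (nat_lit 0) (nat_lit 0) (XT.nd (nat_lit 156) (nat_lit 0) (nat_lit 0) (XT.nd (nat_lit 78) (nat_lit 0) (nat_lit 0) (XT.lf (nat_lit 0) (nat_lit 56772042596) (nat_lit 152) (nat_lit 1175893137556) (nat_lit 0) (nat_lit 27706652909) (nat_lit 1) (nat_lit 5) (nat_lit 3) (nat_lit 4) (nat_lit 1) (nat_lit 4) (nat_lit 249) (nat_lit 209) (nat_lit 142)) (XT.lf (nat_lit 0) (nat_lit 83506885024) (nat_lit 152) (nat_lit 1308038771493) (nat_lit 0) (nat_lit 54441170211) (nat_lit 1) (nat_lit 5) (nat_lit 3) (nat_lit 4) (nat_lit 1) (nat_lit 4) (nat_lit 250) (nat_lit 209) (nat_lit 141))) (XT.nd (nat_lit 78) (nat_lit 0) (nat_lit 0) (XT.lf (nat_lit 0) (nat_lit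 114251481734) (nat_lit 152) (nat_lit 1460007175449) (nat_lit 0) (nat_lit 85185484203) (nat_lit 1) (nat_lit 5) (nat_lit 3) (nat_lit 4) (nat_lit 1) (nat_lit 4) (nat_lit 251) (nat_lit 209) (nat_lit 140)) (XT.lf (nat_lit 0) (nat_lit 149607357444) (nat_lit 152) (nat_lit 1634771644283) (nat_lit 0) (nat_lit 120541114071) (nat_lit 1) (nat_lit 5) (nat_lit 3) (nat_lit 4) (nat_lit 1) (nat_lit 4) (nat_lit 252) (nat_lit 209) (nat_lit 139)))) (XT.nd (nat_lit 156) (nat_lit 0) (nat_lit 0) (XT.nd (nat_lit 78) (nat_lit 0) (nat_lit 0) (XT.lf (nat_lit 0) (nat_lit 190266257548) (nat_lit 152) (nat_lit 1835751482820) (nat_lit 0) (nat_lit 161199800399) (nat_lit 1) (nat_lit 5) (nat_lit 3) (nat_lit 4) (nat_lit 1) (nat_lit 4) (nat_lit 253) (nat_lit 209) (nat_lit 138)) (XT.lf (nat_lit 0) (nat_lit 237023682265) (nat_lit 152) (nat_lit 2066878905294) (nat_lit 0) (nat_lit 207957039225) (nat_lit 1) (nat_lit 5) (nat_lit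 3) (nat_lit 4) (nat_lit 1) (nat_lit 4) (nat_lit 254) (nat_lit 209) (nat_lit 137))) (XT.nd (nat_lit 78) (nat_lit 0) (nat_lit 0) (XT.lf (nat_lit 0) (nat_lit 290794450776) (nat_lit 152) (nat_lit 2332675969969) (nat_lit 0) (nat_lit 261727646090) (nat_lit 1) (nat_lit 5) (nat_lit 3) (nat_lit 4) (nat_lit 1) (nat_lit 4) (nat_lit 255) (nat_lit 209) (nat_lit 136)) (XT.lf (nat_lit 0) (nat_lit 352630599854) (nat_lit 152) (nat_lit 2638343054197) (nat_lit 0) (nat_lit 323563654608) (nat_lit 1) (nat_lit 5) (nat_lit 3) (nat_lit 4) (nat_lit 1) (nat_lit 4) (nat_lit 256) (nat_lit 209) (nat_lit 135)))))) (XT.nd (nat_lit 624) (nat_lit 0) (nat_lit 0) (XT.nd (nat_lit 312) (nat_lit 0) (nat_lit 0) (XT.nd (nat_lit 156) (nat_lit 0) (nat_lit 0) (XT.nd (nat_lit 78) (nat_lit 0) (nat_lit 0) (XT.lf (nat_lit 0) (nat_lit 423741967200) (nat_lit 152) (nat_lit 2989860600932) (nat_lit 0) (nat_lit 394674899727) (nat_lit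 1) (nat_lit 5) (nat_lit 3) (nat_lit 4) (nat_lit 1) (nat_lit 4) (nat_lit 257) (nat_lit 209) (nat_lit 134)) (XT.lf (nat_lit 0) (nat_lit 505519862174) (nat_lit 152) (nat_lit 3394106127392) (nat_lit 0) (nat_lit 476452688417) (nat_lit 1) (nat_lit 5) (nat_lit 3) (nat_lit 4) (nat_lit 1) (nat_lit 4) (nat_lit 258) (nat_lit 209) (nat_lit 133))) (XT.nd (nat_lit 78) (nat_lit 0) (nat_lit 0) (XT.lf (nat_lit 0) (nat_lit 599564287070) (nat_lit 152) (nat_lit 3858988785182) (nat_lit 0) (nat_lit 570497020891) (nat_lit 1) (nat_lit 5) (nat_lit 3) (nat_lit 4) (nat_lit 1) (nat_lit 4) (nat_lit 259) (nat_lit 209) (nat_lit 132)) (XT.lf (nat_lit 0) (nat_lit 707715241505) (nat_lit 152) (nat_lit 4393604104562) (nat_lit 0) (nat_lit 678647894960) (nat_lit 1) (nat_lit 5) (nat_lit 3) (nat_lit 4) (nat_lit 1) (nat_lit 4) (nat_lit 260) (nat_lit 209) (nat_lit 131)))) (XT.nd (nat_lit 156) (nat_lit 0) (nat_lit 0) (XT.nd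 (nat_lit 78) (nat_lit 0) (nat_lit 0) (XT.lf (nat_lit 0) (nat_lit 832088722413) (nat_lit 152) (nat_lit 5008411950478) (nat_lit 0) (nat_lit 803021305985) (nat_lit 1) (nat_lit 5) (nat_lit 3) (nat_lit 4) (nat_lit 1) (nat_lit 4) (nat_lit 261) (nat_lit 209) (nat_lit 130)) (XT.lf (nat_lit 0) (nat_lit 975118123987) (nat_lit 152) (nat_lit 5715441172087) (nat_lit 0) (nat_lit 946050646790) (nat_lit 1) (nat_lit 5) (nat_lit 3) (nat_lit 4) (nat_lit 1) (nat_lit 4) (nat_lit 262) (nat_lit 209) (nat_lit 129))) (XT.nd (nat_lit 78) (nat_lit 0) (nat_lit 0) (XT.lf (nat_lit 0) (nat_lit 1139601847561) (nat_lit 152) (nat_lit 6528524949814) (nat_lit 0) (nat_lit 1110534317522) (nat_lit 1) (nat_lit 5) (nat_lit 3) (nat_lit 4) (nat_lit 1) (nat_lit 4) (nat_lit 263) (nat_lit 209) (nat_lit 128)) (XT.lf (nat_lit 0) (nat_lit 1328758052944) (nat_lit 152) (nat_lit 7463571444526) (nat_lit 0) (nat_lit 1299690476956) (nat_lit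 1) (nat_lit 5) (nat_lit 3) (nat_lit 4) (nat_lit 1) (nat_lit 4) (nat_lit 264) (nat_lit 209) (nat_lit 127))))) (XT.nd (nat_lit 312) (nat_lit 0) (nat_lit 0) (XT.nd (nat_lit 156) (nat_lit 0) (nat_lit 0) (XT.nd (nat_lit 78) (nat_lit 0) (nat_lit 0) (XT.lf (nat_lit 0) (nat_lit 1546287622417) (nat_lit 152) (nat_lit 8538875044164) (nat_lit 0) (nat_lit 1517220006472) (nat_lit 1) (nat_lit 5) (nat_lit 3) (nat_lit 4) (nat_lit 1) (nat_lit 4) (nat_lit 265) (nat_lit 209) (nat_lit 126)) (XT.lf (nat_lit 0) (nat_lit 1796446569294) (nat_lit 152) (nat_lit 9775474297416) (nat_lit 0) (nat_lit 1767378918605) (nat_lit 1) (nat_lit 5) (nat_lit 3) (nat_lit 4) (nat_lit 1) (nat_lit 4) (nat_lit 266) (nat_lit 209) (nat_lit 125))) (XT.nd (nat_lit 78) (nat_lit 0) (nat_lit 0) (XT.lf (nat_lit 0) (nat_lit 2084129307753) (nat_lit 152) (nat_lit 11197563537499) (nat_lit 0) (nat_lit 2055061626851) (nat_lit 1) (nat_lit 5)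 (nat_lit 3) (nat_lit 4) (nat_lit 1) (nat_lit 4) (nat_lit 267) (nat_lit 209) (nat_lit 124)) (XT.lf (nat_lit 0) (nat_lit 2414964413112) (nat_lit 152) (nat_lit 12832966249543) (nat_lit 0) (nat_lit 2385896705939) (nat_lit 1) (nat_lit 5) (nat_lit 3) (nat_lit 4) (nat_lit 1) (nat_lit 4) (nat_lit 268) (nat_lit 209) (nat_lit 123)))) (XT.nd (nat_lit 156) (nat_lit 0) (nat_lit 0) (XT.nd (nat_lit 78) (nat_lit 0) (nat_lit 0) (XT.lf (nat_lit 0) (nat_lit 2795424746129) (nat_lit 152) (nat_lit 14713679443133) (nat_lit 0) (nat_lit 2766357016111) (nat_lit 1) (nat_lit 5) (nat_lit 3) (nat_lit 4) (nat_lit 1) (nat_lit 4) (nat_lit 269) (nat_lit 209) (nat_lit 122)) (XT.lf (nat_lit 0) (nat_lit 3232954095928) (nat_lit 152) (nat_lit 16876499680752) (nat_lit 0) (nat_lit 3203886346044) (nat_lit 1) (nat_lit 5) (nat_lit 3) (nat_lit 4) (nat_lit 1) (nat_lit 4) (nat_lit 270) (nat_lit 209) (nat_lit 121))) (XT.nd (nat_lit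 78) (nat_lit 0) (nat_lit 0) (XT.lf (nat_lit 0) (nat_lit 3736112819351) (nat_lit 152) (nat_lit 19363743010527) (nat_lit 0) (nat_lit 3707045052194) (nat_lit 1) (nat_lit 5) (nat_lit 3) (nat_lit 4) (nat_lit 1) (nat_lit 4) (nat_lit 271) (nat_lit 209) (nat_lit 120)) (XT.lf (nat_lit 0) (nat_lit 4314745326206) (nat_lit 152) (nat_lit 22224072888910) (nat_lit 0) (nat_lit 4285677544028) (nat_lit 1) (nat_lit 5) (nat_lit 3) (nat_lit 4) (nat_lit 1) (nat_lit 4) (nat_lit 272) (nat_lit 209) (nat_lit 119))))))) (XT.nd (nat_lit 26910) (nat_lit 0) (nat_lit 152) (XT.nd (nat_lit 26286) (nat_lit 0) (nat_lit 684) (XT.nd (nat_lit 25974) (nat_lit 0) (nat_lit 1064) (XT.nd (nat_lit 78) (nat_lit 0) (nat_lit 0) (XT.lf (nat_lit 0) (nat_lit 10139722096518) (nat_lit 152) (nat_lit 51018440386583) (nat_lit 0) (nat_lit 10110654257493) (nat_lit 1) (nat_lit 5) (nat_lit 3) (nat_lit 4) (nat_lit 1) (nat_lit 4) (nat_lit 278)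 (nat_lit 209) (nat_lit 113)) (XT.nd (nat_lit 78) (nat_lit 0) (nat_lit 0) (XT.lf (nat_lit 0) (nat_lit 11678895890596) (nat_lit 152) (nat_lit 58626975075827) (nat_lit 0) (nat_lit 11649828045924) (nat_lit 1) (nat_lit 5) (nat_lit 3) (nat_lit 4) (nat_lit 1) (nat_lit 4) (nat_lit 279) (nat_lit 209) (nat_lit 112)) (XT.lf (nat_lit 0) (nat_lit 13448945745587) (nat_lit 152) (nat_lit 67376789984521) (nat_lit 0) (nat_lit 13419877896004) (nat_lit 1) (nat_lit 5) (nat_lit 3) (nat_lit 4) (nat_lit 1) (nat_lit 4) (nat_lit 280) (nat_lit 209) (nat_lit 111)))) (XT.nd (nat_lit 156) (nat_lit 304) (nat_lit 0) (XT.nd (nat_lit 78) (nat_lit 0) (nat_lit 0) (XT.lf (nat_lit 0) (nat_lit 3765915279) (nat_lit 0) (nat_lit 3765915279) (nat_lit 228) (nat_lit 836347960) (nat_lit 19) (nat_lit 5) (nat_lit 19) (nat_lit 3) (nat_lit 22) (nat_lit 3) (nat_lit 210) (nat_lit 210) (nat_lit 180)) (XT.lf (nat_lit 0) (nat_lit 15864865279)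 (nat_lit 0) (nat_lit 526283169) (nat_lit 228) (nat_lit 1568536411) (nat_lit 19) (nat_lit 5) (nat_lit 19) (nat_lit 3) (nat_lit 22) (nat_lit 3) (nat_lit 211) (nat_lit 210) (nat_lit 179))) (XT.nd (nat_lit 78) (nat_lit 304) (nat_lit 0) (XT.lf (nat_lit 76) (nat_lit 6307022543) (nat_lit 0) (nat_lit 12149227260) (nat_lit 304) (nat_lit 829887617) (nat_lit 20) (nat_lit 5) (nat_lit 19) (nat_lit 5) (nat_lit 23) (nat_lit 5) (nat_lit 212) (nat_lit 210) (nat_lit 178)) (XT.lf (nat_lit 0) (nat_lit 124878741) (nat_lit 304) (nat_lit 4648065846) (nat_lit 380) (nat_lit 16022734431) (nat_lit 15) (nat_lit 5) (nat_lit 19) (nat_lit 5) (nat_lit 20) (nat_lit 5) (nat_lit 213) (nat_lit 210) (nat_lit 177))))) (XT.nd (nat_lit 312) (nat_lit 228) (nat_lit 0) (XT.nd (nat_lit 156) (nat_lit 228) (nat_lit 0) (XT.nd (nat_lit 78) (nat_lit 0) (nat_lit 0) (XT.lf (nat_lit 0) (nat_lit 1497081325) (nat_lit 304) (nat_lit 17317216124)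 (nat_lit 76) (nat_lit 3657811229) (nat_lit 16) (nat_lit 5) (nat_lit 20) (nat_lit 5) (nat_lit 17) (nat_lit 5) (nat_lit 214) (nat_lit 210) (nat_lit 176)) (XT.lf (nat_lit 0) (nat_lit 3531442323) (nat_lit 304) (nat_lit 7677893844) (nat_lit 76) (nat_lit 13122445663) (nat_lit 16) (nat_lit 5) (nat_lit 20) (nat_lit 5) (nat_lit 17) (nat_lit 5) (nat_lit 215) (nat_lit 210) (nat_lit 175))) (XT.nd (nat_lit 78) (nat_lit 0) (nat_lit 0) (XT.lf (nat_lit 0) (nat_lit 3715347373) (nat_lit 228) (nat_lit 2287287761) (nat_lit 304) (nat_lit 20448217645) (nat_lit 13) (nat_lit 5) (nat_lit 16) (nat_lit 5) (nat_lit 17) (nat_lit 5) (nat_lit 216) (nat_lit 210) (nat_lit 174)) (XT.lf (nat_lit 0) (nat_lit 9574872431) (nat_lit 304) (nat_lit 11521223326) (nat_lit 76) (nat_lit 7682306364) (nat_lit 13) (nat_lit 5) (nat_lit 17) (nat_lit 5) (nat_lit 14) (nat_lit 5) (nat_lit 217) (nat_lit 210) (nat_lit 173)))) (XT.nd (nat_lit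 156) (nat_lit 76) (nat_lit 0) (XT.nd (nat_lit 78) (nat_lit 0) (nat_lit 0) (XT.lf (nat_lit 0) (nat_lit 1366315747) (nat_lit 152) (nat_lit 12464525769) (nat_lit 228) (nat_lit 17602207998) (nat_lit 11) (nat_lit 5) (nat_lit 13) (nat_lit 5) (nat_lit 14) (nat_lit 5) (nat_lit 218) (nat_lit 210) (nat_lit 172)) (XT.lf (nat_lit 0) (nat_lit 17461190427) (nat_lit 152) (nat_lit 1850104283) (nat_lit 228) (nat_lit 15086816494) (nat_lit 11) (nat_lit 5) (nat_lit 13) (nat_lit 5) (nat_lit 14) (nat_lit 5) (nat_lit 219) (nat_lit 210) (nat_lit 171))) (XT.nd (nat_lit 78) (nat_lit 76) (nat_lit 0) (XT.lf (nat_lit 0) (nat_lit 26028445242) (nat_lit 228) (nat_lit 2286469302) (nat_lit 76) (nat_lit 9430936678) (nat_lit 11) (nat_lit 5) (nat_lit 14) (nat_lit 5) (nat_lit 12) (nat_lit 4) (nat_lit 220) (nat_lit 210) (nat_lit 170)) (XT.lf (nat_lit 0) (nat_lit 15868815564) (nat_lit 76) (nat_lit 18617189926) (nat_lit 152)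 (nat_lit 6999919859) (nat_lit 10) (nat_lit 5) (nat_lit 11) (nat_lit 5) (nat_lit 12) (nat_lit 4) (nat_lit 221) (nat_lit 210) (nat_lit 169)))))) (XT.nd (nat_lit 624) (nat_lit 228) (nat_lit 0) (XT.nd (nat_lit 312) (nat_lit 152) (nat_lit 0) (XT.nd (nat_lit 156) (nat_lit 0) (nat_lit 0) (XT.nd (nat_lit 78) (nat_lit 152) (nat_lit 0) (XT.lf (nat_lit 0) (nat_lit 36987765575) (nat_lit 76) (nat_lit 7332521889) (nat_lit 152) (nat_lit 1450595785) (nat_lit 10) (nat_lit 5) (nat_lit 11) (nat_lit 5) (nat_lit 12) (nat_lit 4) (nat_lit 222) (nat_lit 210) (nat_lit 168)) (XT.lf (nat_lit 0) (nat_lit 5218052558) (nat_lit 152) (nat_lit 39496299724) (nat_lit 76) (nat_lit 5844780016) (nat_lit 8) (nat_lit 5) (nat_lit 10) (nat_lit 5) (nat_lit 9) (nat_lit 4) (nat_lit 223) (nat_lit 210) (nat_lit 167))) (XT.nd (nat_lit 78) (nat_lit 0) (nat_lit 0) (XT.lf (nat_lit 0) (nat_lit 13558693479) (nat_lit 152) (nat_lit 21580199368)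 (nat_lit 76) (nat_lit 20793389571) (nat_lit 8) (nat_lit 5) (nat_lit 10) (nat_lit 5) (nat_lit 9) (nat_lit 4) (nat_lit 224) (nat_lit 210) (nat_lit 166)) (XT.lf (nat_lit 0) (nat_lit 23141787705) (nat_lit 152) (nat_lit 990701240) (nat_lit 76) (nat_lit 37980261597) (nat_lit 8) (nat_lit 5) (nat_lit 10) (nat_lit 5) (nat_lit 9) (nat_lit 4) (nat_lit 225) (nat_lit 210) (nat_lit 165)))) (XT.nd (nat_lit 156) (nat_lit 76) (nat_lit 0) (XT.nd (nat_lit 78) (nat_lit 0) (nat_lit 0) (XT.lf (nat_lit 0) (nat_lit 24891001768) (nat_lit 76) (nat_lit 10294512091) (nat_lit 152) (nat_lit 33881342517) (nat_lit 7) (nat_lit 5) (nat_lit 8) (nat_lit 5) (nat_lit 9) (nat_lit 4) (nat_lit 226) (nat_lit 210) (nat_lit 164)) (XT.lf (nat_lit 0) (nat_lit 49315520891) (nat_lit 152) (nat_lit 22537685393) (nat_lit 0) (nat_lit 5168950603) (nat_lit 7) (nat_lit 5) (nat_lit 9) (nat_lit 4) (nat_lit 7) (nat_lit 4) (nat_lit 227) (nat_lit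 210) (nat_lit 163))) (XT.nd (nat_lit 78) (nat_lit 0) (nat_lit 0) (XT.lf (nat_lit 0) (nat_lit 2025411977) (nat_lit 76) (nat_lit 64107431838) (nat_lit 76) (nat_lit 19952768693) (nat_lit 6) (nat_lit 4) (nat_lit 7) (nat_lit 5) (nat_lit 7) (nat_lit 4) (nat_lit 228) (nat_lit 210) (nat_lit 162)) (XT.lf (nat_lit 0) (nat_lit 32795499302) (nat_lit 76) (nat_lit 53849490936) (nat_lit 76) (nat_lit 9687790525) (nat_lit 6) (nat_lit 4) (nat_lit 7) (nat_lit 5) (nat_lit 7) (nat_lit 4) (nat_lit 229) (nat_lit 210) (nat_lit 161))))) (XT.nd (nat_lit 312) (nat_lit 76) (nat_lit 0) (XT.nd (nat_lit 156) (nat_lit 76) (nat_lit 0) (XT.nd (nat_lit 78) (nat_lit 0) (nat_lit 0) (XT.lf (nat_lit 0) (nat_lit 1923090378) (nat_lit 152) (nat_lit 40033175460) (nat_lit 76) (nat_lit 66148437947) (nat_lit 5) (nat_lit 5) (nat_lit 7) (nat_lit 5) (nat_lit 6) (nat_lit 4) (nat_lit 230) (nat_lit 210) (nat_lit 160)) (XT.lf (nat_lit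 0) (nat_lit 14279080063) (nat_lit 152) (nat_lit 13473118822) (nat_lit 76) (nat_lit 93821738033) (nat_lit 5) (nat_lit 5) (nat_lit 7) (nat_lit 5) (nat_lit 6) (nat_lit 4) (nat_lit 231) (nat_lit 210) (nat_lit 159))) (XT.nd (nat_lit 78) (nat_lit 0) (nat_lit 0) (XT.lf (nat_lit 0) (nat_lit 18731280609) (nat_lit 76) (nat_lit 10528742034) (nat_lit 152) (nat_lit 107687815250) (nat_lit 4) (nat_lit 5) (nat_lit 5) (nat_lit 5) (nat_lit 6) (nat_lit 4) (nat_lit 232) (nat_lit 210) (nat_lit 158)) (XT.lf (nat_lit 0) (nat_lit 47606159697) (nat_lit 152) (nat_lit 97666759869) (nat_lit 0) (nat_lit 9187210432) (nat_lit 4) (nat_lit 5) (nat_lit 6) (nat_lit 4) (nat_lit 4) (nat_lit 4) (nat_lit 233) (nat_lit 210) (nat_lit 157)))) (XT.nd (nat_lit 156) (nat_lit 76) (nat_lit 0) (XT.nd (nat_lit 78) (nat_lit 0) (nat_lit 0) (XT.lf (nat_lit 0) (nat_lit 69202149089) (nat_lit 152) (nat_lit 74542281769) (nat_lit 0) (nat_lit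 30780157419) (nat_lit 4) (nat_lit 5) (nat_lit 6) (nat_lit 4) (nat_lit 4) (nat_lit 4) (nat_lit 234) (nat_lit 210) (nat_lit 156)) (XT.lf (nat_lit 0) (nat_lit 94034548293) (nat_lit 152) (nat_lit 47954714788) (nat_lit 0) (nat_lit 55609911054) (nat_lit 4) (nat_lit 5) (nat_lit 6) (nat_lit 4) (nat_lit 4) (nat_lit 4) (nat_lit 235) (nat_lit 210) (nat_lit 155))) (XT.nd (nat_lit 78) (nat_lit 76) (nat_lit 0) (XT.lf (nat_lit 0) (nat_lit 122589208596) (nat_lit 152) (nat_lit 17383867399) (nat_lit 0) (nat_lit 84162270862) (nat_lit 4) (nat_lit 5) (nat_lit 6) (nat_lit 4) (nat_lit 4) (nat_lit 4) (nat_lit 236) (nat_lit 210) (nat_lit 154)) (XT.lf (nat_lit 0) (nat_lit 19504841544) (nat_lit 76) (nat_lit 136727620484) (nat_lit 76) (nat_lit 98298682320) (nat_lit 3) (nat_lit 4) (nat_lit 4) (nat_lit 5) (nat_lit 4) (nat_lit 4) (nat_lit 237) (nat_lit 210) (nat_lit 153))))))))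
noncomputable def xc37 : XT := (XT.nd (nat_lit 2418) (nat_lit 0) (nat_lit 0) (XT.nd (nat_lit 1170) (nat_lit 0) (nat_lit 0) (XT.nd (nat_lit 546) (nat_lit 152) (nat_lit 0) (XT.nd (nat_lit 234) (nat_lit 0) (nat_lit 0) (XT.nd (nat_lit 78) (nat_lit 0) (nat_lit 0) (XT.lf (nat_lit 0) (nat_lit 63876536932) (nat_lit 76) (nat_lit 131952236798) (nat_lit 76) (nat_lit 93521559129) (nat_lit 3) (nat_lit 4) (nat_lit 4) (nat_lit 5) (nat_lit 4) (nat_lit 4) (nat_lit 238) (nat_lit 210) (nat_lit 152)) (XT.nd (nat_lit 78) (nat_lit 0) (nat_lit 0) (XT.lf (nat_lit 0) (nat_lit 114900482678) (nat_lit 76) (nat_lit 126462195677) (nat_lit 76) (nat_lit 88030005395) (nat_lit 3) (nat_lit 4) (nat_lit 4) (nat_lit 5) (nat_lit 4) (nat_lit 4) (nat_lit 239) (nat_lit 210) (nat_lit 151)) (XT.lf (nat_lit 0) (nat_lit 173574973373) (nat_lit 76) (nat_lit 120150083273) (nat_lit 76) (nat_lit 81716577676) (nat_lit 3) (nat_lit 4)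 (nat_lit 4) (nat_lit 5) (nat_lit 4) (nat_lit 4) (nat_lit 240) (nat_lit 210) (nat_lit 150)))) (XT.nd (nat_lit 156) (nat_lit 0) (nat_lit 0) (XT.nd (nat_lit 78) (nat_lit 0) (nat_lit 0) (XT.lf (nat_lit 0) (nat_lit 241047988183) (nat_lit 76) (nat_lit 112892401735) (nat_lit 76) (nat_lit 74457752385) (nat_lit 3) (nat_lit 4) (nat_lit 4) (nat_lit 5) (nat_lit 4) (nat_lit 4) (nat_lit 241) (nat_lit 210) (nat_lit 149)) (XT.lf (nat_lit 0) (nat_lit 318639651310) (nat_lit 76) (nat_lit 104547152945) (nat_lit 76) (nat_lit 66111509028) (nat_lit 3) (nat_lit 4) (nat_lit 4) (nat_lit 5) (nat_lit 4) (nat_lit 4) (nat_lit 242) (nat_lit 210) (nat_lit 148))) (XT.nd (nat_lit 78) (nat_lit 0) (nat_lit 0) (XT.lf (nat_lit 0) (nat_lit 407868060513) (nat_lit 76) (nat_lit 94951060298) (nat_lit 76) (nat_lit 56514551539) (nat_lit 3) (nat_lit 4) (nat_lit 4) (nat_lit 5) (nat_lit 4) (nat_lit 4) (nat_lit 243) (nat_lit 210)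 (nat_lit 147)) (XT.lf (nat_lit 0) (nat_lit 510478989013) (nat_lit 76) (nat_lit 83916374153) (nat_lit 76) (nat_lit 45479113359) (nat_lit 3) (nat_lit 4) (nat_lit 4) (nat_lit 5) (nat_lit 4) (nat_lit 4) (nat_lit 244) (nat_lit 210) (nat_lit 146))))) (XT.nd (nat_lit 312) (nat_lit 76) (nat_lit 0) (XT.nd (nat_lit 156) (nat_lit 76) (nat_lit 0) (XT.nd (nat_lit 78) (nat_lit 0) (nat_lit 0) (XT.lf (nat_lit 0) (nat_lit 628480041934) (nat_lit 76) (nat_lit 71227198478) (nat_lit 76) (nat_lit 32789283740) (nat_lit 3) (nat_lit 4) (nat_lit 4) (nat_lit 5) (nat_lit 4) (nat_lit 4) (nat_lit 245) (nat_lit 210) (nat_lit 145)) (XT.lf (nat_lit 0) (nat_lit 764179935530) (nat_lit 76) (nat_lit 56635266793) (nat_lit 76) (nat_lit 18196783407) (nat_lit 3) (nat_lit 4) (nat_lit 4) (nat_lit 5) (nat_lit 4) (nat_lit 4) (nat_lit 246) (nat_lit 210) (nat_lit 144))) (XT.nd (nat_lit 78) (nat_lit 76) (nat_lit 0) (XT.lf (nat_lit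 0) (nat_lit 920233667717) (nat_lit 76) (nat_lit 39855084781) (nat_lit 76) (nat_lit 1416106920) (nat_lit 3) (nat_lit 4) (nat_lit 4) (nat_lit 5) (nat_lit 4) (nat_lit 4) (nat_lit 247) (nat_lit 210) (nat_lit 143)) (XT.lf (nat_lit 0) (nat_lit 16289167400) (nat_lit 152) (nat_lit 3417697928) (nat_lit 76) (nat_lit 1082553817085) (nat_lit 2) (nat_lit 5) (nat_lit 4) (nat_lit 5) (nat_lit 3) (nat_lit 4) (nat_lit 248) (nat_lit 210) (nat_lit 142)))) (XT.nd (nat_lit 156) (nat_lit 0) (nat_lit 0) (XT.nd (nat_lit 78) (nat_lit 0) (nat_lit 0) (XT.lf (nat_lit 0) (nat_lit 38558309253) (nat_lit 152) (nat_lit 1220121084946) (nat_lit 0) (nat_lit 5132412092) (nat_lit 1) (nat_lit 5) (nat_lit 3) (nat_lit 4) (nat_lit 1) (nat_lit 4) (nat_lit 249) (nat_lit 210) (nat_lit 141)) (XT.lf (nat_lit 0) (nat_lit 65292932108) (nat_lit 152) (nat_lit 1352267149082) (nat_lit 0) (nat_lit 31866752229) (nat_lit 1) (nat_lit 5) (nat_lit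 3) (nat_lit 4) (nat_lit 1) (nat_lit 4) (nat_lit 250) (nat_lit 210) (nat_lit 140))) (XT.nd (nat_lit 78) (nat_lit 0) (nat_lit 0) (XT.lf (nat_lit 0) (nat_lit 96037337885) (nat_lit 152) (nat_lit 1504235927123) (nat_lit 0) (nat_lit 62610912164) (nat_lit 1) (nat_lit 5) (nat_lit 3) (nat_lit 4) (nat_lit 1) (nat_lit 4) (nat_lit 251) (nat_lit 210) (nat_lit 139)) (XT.lf (nat_lit 0) (nat_lit 131393047565) (nat_lit 152) (nat_lit 1679000721250) (nat_lit 0) (nat_lit 97966408069) (nat_lit 1) (nat_lit 5) (nat_lit 3) (nat_lit 4) (nat_lit 1) (nat_lit 4) (nat_lit 252) (nat_lit 210) (nat_lit 138)))))) (XT.nd (nat_lit 624) (nat_lit 0) (nat_lit 0) (XT.nd (nat_lit 312) (nat_lit 0) (nat_lit 0) (XT.nd (nat_lit 156) (nat_lit 0) (nat_lit 0) (XT.nd (nat_lit 78) (nat_lit 0) (nat_lit 0) (XT.lf (nat_lit 0) (nat_lit 172051803296) (nat_lit 152) (nat_lit 1879980842650) (nat_lit 0) (nat_lit 138624977908) (nat_lit 1)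 (nat_lit 5) (nat_lit 3) (nat_lit 4) (nat_lit 1) (nat_lit 4) (nat_lit 253) (nat_lit 210) (nat_lit 137)) (XT.lf (nat_lit 0) (nat_lit 218809102472) (nat_lit 152) (nat_lit 2111108511091) (nat_lit 0) (nat_lit 185382115439) (nat_lit 1) (nat_lit 5) (nat_lit 3) (nat_lit 4) (nat_lit 1) (nat_lit 4) (nat_lit 254) (nat_lit 210) (nat_lit 136))) (XT.nd (nat_lit 78) (nat_lit 0) (nat_lit 0) (XT.lf (nat_lit 0) (nat_lit 272579761815) (nat_lit 152) (nat_lit 2376905789651) (nat_lit 0) (nat_lit 239152634221) (nat_lit 1) (nat_lit 5) (nat_lit 3) (nat_lit 4) (nat_lit 1) (nat_lit 4) (nat_lit 255) (nat_lit 210) (nat_lit 135)) (XT.lf (nat_lit 0) (nat_lit 334415815966) (nat_lit 152) (nat_lit 2682573059867) (nat_lit 0) (nat_lit 300988566145) (nat_lit 1) (nat_lit 5) (nat_lit 3) (nat_lit 4) (nat_lit 1) (nat_lit 4) (nat_lit 256) (nat_lit 210) (nat_lit 134)))) (XT.nd (nat_lit 156) (nat_lit 0) (nat_lit 0) (XT.nd (nat_lit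 78) (nat_lit 0) (nat_lit 0) (XT.lf (nat_lit 0) (nat_lit 405527100766) (nat_lit 152) (nat_lit 3034090768330) (nat_lit 0) (nat_lit 372099744661) (nat_lit 1) (nat_lit 5) (nat_lit 3) (nat_lit 4) (nat_lit 1) (nat_lit 4) (nat_lit 257) (nat_lit 210) (nat_lit 133)) (XT.lf (nat_lit 0) (nat_lit 487304923961) (nat_lit 152) (nat_lit 3438336435422) (nat_lit 0) (nat_lit 453877475435) (nat_lit 1) (nat_lit 5) (nat_lit 3) (nat_lit 4) (nat_lit 1) (nat_lit 4) (nat_lit 258) (nat_lit 210) (nat_lit 132))) (XT.nd (nat_lit 78) (nat_lit 0) (nat_lit 0) (XT.lf (nat_lit 0) (nat_lit 581349286441) (nat_lit 152) (nat_lit 3903219215501) (nat_lit 0) (nat_lit 547921757548) (nat_lit 1) (nat_lit 5) (nat_lit 3) (nat_lit 4) (nat_lit 1) (nat_lit 4) (nat_lit 259) (nat_lit 210) (nat_lit 131)) (XT.lf (nat_lit 0) (nat_lit 689500186600) (nat_lit 152) (nat_lit 4437834641220) (nat_lit 0) (nat_lit 656072587824) (nat_lit 1) (nat_lit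 5) (nat_lit 3) (nat_lit 4) (nat_lit 1) (nat_lit 4) (nat_lit 260) (nat_lit 210) (nat_lit 130))))) (XT.nd (nat_lit 312) (nat_lit 0) (nat_lit 0) (XT.nd (nat_lit 156) (nat_lit 0) (nat_lit 0) (XT.nd (nat_lit 78) (nat_lit 0) (nat_lit 0) (XT.lf (nat_lit 0) (nat_lit 813873620313) (nat_lit 152) (nat_lit 5052642579604) (nat_lit 0) (nat_lit 780445960769) (nat_lit 1) (nat_lit 5) (nat_lit 3) (nat_lit 4) (nat_lit 1) (nat_lit 4) (nat_lit 261) (nat_lit 210) (nat_lit 129)) (XT.lf (nat_lit 0) (nat_lit 956902980847) (nat_lit 152) (nat_lit 5759671881621) (nat_lit 0) (nat_lit 923475268461) (nat_lit 1) (nat_lit 5) (nat_lit 3) (nat_lit 4) (nat_lit 1) (nat_lit 4) (nat_lit 262) (nat_lit 210) (nat_lit 128))) (XT.nd (nat_lit 78) (nat_lit 0) (nat_lit 0) (XT.lf (nat_lit 0) (nat_lit 1121386668734) (nat_lit 152) (nat_lit 6572755729267) (nat_lit 0) (nat_lit 1087958910398) (nat_lit 1) (nat_lit 5) (nat_lit 3) (nat_lit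 4) (nat_lit 1) (nat_lit 4) (nat_lit 263) (nat_lit 210) (nat_lit 127)) (XT.lf (nat_lit 0) (nat_lit 1310542843086) (nat_lit 152) (nat_lit 7507802284779) (nat_lit 0) (nat_lit 1277115044794) (nat_lit 1) (nat_lit 5) (nat_lit 3) (nat_lit 4) (nat_lit 1) (nat_lit 4) (nat_lit 264) (nat_lit 210) (nat_lit 126)))) (XT.nd (nat_lit 156) (nat_lit 0) (nat_lit 0) (XT.nd (nat_lit 78) (nat_lit 0) (nat_lit 0) (XT.lf (nat_lit 0) (nat_lit 1528072385574) (nat_lit 152) (nat_lit 8583105937286) (nat_lit 0) (nat_lit 1494644552537) (nat_lit 1) (nat_lit 5) (nat_lit 3) (nat_lit 4) (nat_lit 1) (nat_lit 4) (nat_lit 265) (nat_lit 210) (nat_lit 125)) (XT.lf (nat_lit 0) (nat_lit 1778231308986) (nat_lit 152) (nat_lit 9819705236511) (nat_lit 0) (nat_lit 1744803445737) (nat_lit 1) (nat_lit 5) (nat_lit 3) (nat_lit 4) (nat_lit 1) (nat_lit 4) (nat_lit 266) (nat_lit 210) (nat_lit 124))) (XT.nd (nat_lit 78) (nat_lit 0) (nat_lit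 0) (XT.lf (nat_lit 0) (nat_lit 2065914027041) (nat_lit 152) (nat_lit 11241794516570) (nat_lit 0) (nat_lit 2032486137520) (nat_lit 1) (nat_lit 5) (nat_lit 3) (nat_lit 4) (nat_lit 1) (nat_lit 4) (nat_lit 267) (nat_lit 210) (nat_lit 123)) (XT.lf (nat_lit 0) (nat_lit 2396749114658) (nat_lit 152) (nat_lit 12877197263377) (nat_lit 0) (nat_lit 2363321202292) (nat_lit 1) (nat_lit 5) (nat_lit 3) (nat_lit 4) (nat_lit 1) (nat_lit 4) (nat_lit 268) (nat_lit 210) (nat_lit 122))))))) (XT.nd (nat_lit 27612) (nat_lit 0) (nat_lit 228) (XT.nd (nat_lit 26988) (nat_lit 0) (nat_lit 760) (XT.nd (nat_lit 234) (nat_lit 0) (nat_lit 0) (XT.nd (nat_lit 78) (nat_lit 0) (nat_lit 0) (XT.lf (nat_lit 0) (nat_lit 2777209432247) (nat_lit 152) (nat_lit 14757910487195) (nat_lit 0) (nat_lit 2743781500015) (nat_lit 1) (nat_lit 5) (nat_lit 3) (nat_lit 4) (nat_lit 1) (nat_lit 4) (nat_lit 269) (nat_lit 210) (nat_lit 121))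 (XT.nd (nat_lit 78) (nat_lit 0) (nat_lit 0) (XT.lf (nat_lit 0) (nat_lit 3214738768629) (nat_lit 152) (nat_lit 16920730751099) (nat_lit 0) (nat_lit 3181310819123) (nat_lit 1) (nat_lit 5) (nat_lit 3) (nat_lit 4) (nat_lit 1) (nat_lit 4) (nat_lit 270) (nat_lit 210) (nat_lit 120)) (XT.lf (nat_lit 0) (nat_lit 3717897480387) (nat_lit 152) (nat_lit 19407974103730) (nat_lit 0) (nat_lit 3684469515860) (nat_lit 1) (nat_lit 5) (nat_lit 3) (nat_lit 4) (nat_lit 1) (nat_lit 4) (nat_lit 271) (nat_lit 210) (nat_lit 119)))) (XT.nd (nat_lit 26598) (nat_lit 0) (nat_lit 1368) (XT.nd (nat_lit 26520) (nat_lit 0) (nat_lit 1368) (XT.lf (nat_lit 0) (nat_lit 4296529977097) (nat_lit 152) (nat_lit 22268304001989) (nat_lit 0) (nat_lit 4263101999509) (nat_lit 1) (nat_lit 5) (nat_lit 3) (nat_lit 4) (nat_lit 1) (nat_lit 4) (nat_lit 272) (nat_lit 210) (nat_lit 118)) (XT.lf (nat_lit 0) (nat_lit 4425565513) (nat_lit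 0) (nat_lit 4425565513) (nat_lit 228) (nat_lit 741696181) (nat_lit 19) (nat_lit 5) (nat_lit 19) (nat_lit 3) (nat_lit 22) (nat_lit 3) (nat_lit 211) (nat_lit 211) (nat_lit 178))) (XT.nd (nat_lit 78) (nat_lit 0) (nat_lit 0) (XT.lf (nat_lit 0) (nat_lit 18409400188) (nat_lit 0) (nat_lit 770030762) (nat_lit 228) (nat_lit 1421027355) (nat_lit 19) (nat_lit 5) (nat_lit 19) (nat_lit 3) (nat_lit 22) (nat_lit 3) (nat_lit 212) (nat_lit 211) (nat_lit 177)) (XT.lf (nat_lit 76) (nat_lit 7467665979) (nat_lit 0) (nat_lit 14046590494) (nat_lit 304) (nat_lit 618115964) (nat_lit 20) (nat_lit 5) (nat_lit 19) (nat_lit 5) (nat_lit 23) (nat_lit 5) (nat_lit 213) (nat_lit 211) (nat_lit 176))))) (XT.nd (nat_lit 312) (nat_lit 152) (nat_lit 0) (XT.nd (nat_lit 156) (nat_lit 152) (nat_lit 0) (XT.nd (nat_lit 78) (nat_lit 0) (nat_lit 76) (XT.lf (nat_lit 0) (nat_lit 409974960) (nat_lit 304) (nat_lit 5130186978) (nat_lit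 380) (nat_lit 18332456643) (nat_lit 15) (nat_lit 5) (nat_lit 19) (nat_lit 5) (nat_lit 20) (nat_lit 5) (nat_lit 214) (nat_lit 211) (nat_lit 175)) (XT.lf (nat_lit 0) (nat_lit 1960324839) (nat_lit 304) (nat_lit 19669889636) (nat_lit 76) (nat_lit 4174771238) (nat_lit 16) (nat_lit 5) (nat_lit 20) (nat_lit 5) (nat_lit 17) (nat_lit 5) (nat_lit 215) (nat_lit 211) (nat_lit 174))) (XT.nd (nat_lit 78) (nat_lit 228) (nat_lit 0) (XT.lf (nat_lit 0) (nat_lit 4268707641) (nat_lit 304) (nat_lit 8616613654) (nat_lit 76) (nat_lit 15063237142) (nat_lit 16) (nat_lit 5) (nat_lit 20) (nat_lit 5) (nat_lit 17) (nat_lit 5) (nat_lit 216) (nat_lit 211) (nat_lit 173)) (XT.lf (nat_lit 0) (nat_lit 4475933552) (nat_lit 228) (nat_lit 2615991777) (nat_lit 304) (nat_lit 23296605196) (nat_lit 13) (nat_lit 5) (nat_lit 16) (nat_lit 5) (nat_lit 17) (nat_lit 5) (nat_lit 217) (nat_lit 211) (nat_lit 172)))) (XT.nd (nat_lit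 156) (nat_lit 0) (nat_lit 0) (XT.nd (nat_lit 78) (nat_lit 152) (nat_lit 0) (XT.lf (nat_lit 0) (nat_lit 11175877860) (nat_lit 304) (nat_lit 13047112548) (nat_lit 76) (nat_lit 8846050690) (nat_lit 13) (nat_lit 5) (nat_lit 17) (nat_lit 5) (nat_lit 14) (nat_lit 5) (nat_lit 218) (nat_lit 211) (nat_lit 171)) (XT.lf (nat_lit 0) (nat_lit 1764362192) (nat_lit 152) (nat_lit 14292383602) (nat_lit 228) (nat_lit 20067347563) (nat_lit 11) (nat_lit 5) (nat_lit 13) (nat_lit 5) (nat_lit 14) (nat_lit 5) (nat_lit 219) (nat_lit 211) (nat_lit 170))) (XT.nd (nat_lit 78) (nat_lit 0) (nat_lit 0) (XT.lf (nat_lit 0) (nat_lit 20248281238) (nat_lit 152) (nat_lit 2091253810) (nat_lit 228) (nat_lit 17197498416) (nat_lit 11) (nat_lit 5) (nat_lit 13) (nat_lit 5) (nat_lit 14) (nat_lit 5) (nat_lit 220) (nat_lit 211) (nat_lit 169)) (XT.lf (nat_lit 0) (nat_lit 30048409398) (nat_lit 228) (nat_lit 2466656372) (nat_lit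 76) (nat_lit 10874384616) (nat_lit 11) (nat_lit 5) (nat_lit 14) (nat_lit 5) (nat_lit 12) (nat_lit 4) (nat_lit 221) (nat_lit 211) (nat_lit 168)))))) (XT.nd (nat_lit 624) (nat_lit 152) (nat_lit 0) (XT.nd (nat_lit 312) (nat_lit 152) (nat_lit 0) (XT.nd (nat_lit 156) (nat_lit 152) (nat_lit 0) (XT.nd (nat_lit 78) (nat_lit 0) (nat_lit 0) (XT.lf (nat_lit 0) (nat_lit 18404521982) (nat_lit 76) (nat_lit 21361424864) (nat_lit 152) (nat_lit 7926007823) (nat_lit 10) (nat_lit 5) (nat_lit 11) (nat_lit 5) (nat_lit 12) (nat_lit 4) (nat_lit 222) (nat_lit 211) (nat_lit 167)) (XT.lf (nat_lit 0) (nat_lit 42671047005) (nat_lit 76) (nat_lit 8390362302) (nat_lit 152) (nat_lit 1560446010) (nat_lit 10) (nat_lit 5) (nat_lit 11) (nat_lit 5) (nat_lit 12) (nat_lit 4) (nat_lit 223) (nat_lit 211) (nat_lit 166))) (XT.nd (nat_lit 78) (nat_lit 0) (nat_lit 0) (XT.lf (nat_lit 0) (nat_lit 6093821657) (nat_lit 152) (nat_lit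 45269814420) (nat_lit 76) (nat_lit 6764878632) (nat_lit 8) (nat_lit 5) (nat_lit 10) (nat_lit 5) (nat_lit 9) (nat_lit 4) (nat_lit 224) (nat_lit 211) (nat_lit 165)) (XT.lf (nat_lit 0) (nat_lit 15673420297) (nat_lit 152) (nat_lit 24685985567) (nat_lit 76) (nat_lit 23950121149) (nat_lit 8) (nat_lit 5) (nat_lit 10) (nat_lit 5) (nat_lit 9) (nat_lit 4) (nat_lit 225) (nat_lit 211) (nat_lit 164)))) (XT.nd (nat_lit 156) (nat_lit 76) (nat_lit 0) (XT.nd (nat_lit 78) (nat_lit 76) (nat_lit 0) (XT.lf (nat_lit 0) (nat_lit 26683423509) (nat_lit 152) (nat_lit 1025181464) (nat_lit 76) (nat_lit 43710103569) (nat_lit 8) (nat_lit 5) (nat_lit 10) (nat_lit 5) (nat_lit 9) (nat_lit 4) (nat_lit 226) (nat_lit 211) (nat_lit 163)) (XT.lf (nat_lit 0) (nat_lit 28733589497) (nat_lit 76) (nat_lit 11795451568) (nat_lit 152) (nat_lit 38887641414) (nat_lit 7) (nat_lit 5) (nat_lit 8) (nat_lit 5) (nat_lit 9) (nat_lit 4)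 (nat_lit 227) (nat_lit 211) (nat_lit 162))) (XT.nd (nat_lit 78) (nat_lit 76) (nat_lit 0) (XT.lf (nat_lit 0) (nat_lit 56771536411) (nat_lit 152) (nat_lit 25816295202) (nat_lit 0) (nat_lit 5978543671) (nat_lit 7) (nat_lit 5) (nat_lit 9) (nat_lit 4) (nat_lit 7) (nat_lit 4) (nat_lit 228) (nat_lit 211) (nat_lit 161)) (XT.lf (nat_lit 0) (nat_lit 2426628455) (nat_lit 76) (nat_lit 73681207761) (nat_lit 76) (nat_lit 22882095659) (nat_lit 6) (nat_lit 4) (nat_lit 7) (nat_lit 5) (nat_lit 7) (nat_lit 4) (nat_lit 229) (nat_lit 211) (nat_lit 160))))) (XT.nd (nat_lit 312) (nat_lit 0) (nat_lit 0) (XT.nd (nat_lit 156) (nat_lit 76) (nat_lit 0) (XT.nd (nat_lit 78) (nat_lit 76) (nat_lit 0) (XT.lf (nat_lit 0) (nat_lit 37799523922) (nat_lit 76) (nat_lit 61890098183) (nat_lit 76) (nat_lit 11085664896) (nat_lit 6) (nat_lit 4) (nat_lit 7) (nat_lit 5) (nat_lit 7) (nat_lit 4) (nat_lit 230) (nat_lit 211) (nat_lit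 159)) (XT.lf (nat_lit 0) (nat_lit 2255355269) (nat_lit 152) (nat_lit 45960046574) (nat_lit 76) (nat_lit 76098264623) (nat_lit 5) (nat_lit 5) (nat_lit 7) (nat_lit 5) (nat_lit 6) (nat_lit 4) (nat_lit 231) (nat_lit 211) (nat_lit 158))) (XT.nd (nat_lit 78) (nat_lit 76) (nat_lit 0) (XT.lf (nat_lit 0) (nat_lit 16459030189) (nat_lit 152) (nat_lit 15426169076) (nat_lit 76) (nat_lit 107918964812) (nat_lit 5) (nat_lit 5) (nat_lit 7) (nat_lit 5) (nat_lit 6) (nat_lit 4) (nat_lit 232) (nat_lit 211) (nat_lit 157)) (XT.lf (nat_lit 0) (nat_lit 21605803107) (nat_lit 76) (nat_lit 12079027523) (nat_lit 152) (nat_lit 123799681684) (nat_lit 4) (nat_lit 5) (nat_lit 5) (nat_lit 5) (nat_lit 6) (nat_lit 4) (nat_lit 233) (nat_lit 211) (nat_lit 156)))) (XT.nd (nat_lit 156) (nat_lit 0) (nat_lit 0) (XT.nd (nat_lit 78) (nat_lit 0) (nat_lit 0) (XT.lf (nat_lit 0) (nat_lit 54779263206) (nat_lit 152) (nat_lit 112256661003)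 (nat_lit 0) (nat_lit 10588284812) (nat_lit 4) (nat_lit 5) (nat_lit 6) (nat_lit 4) (nat_lit 4) (nat_lit 4) (nat_lit 234) (nat_lit 211) (nat_lit 155)) (XT.lf (nat_lit 0) (nat_lit 79610453674) (nat_lit 152) (nat_lit 85671351994) (nat_lit 0) (nat_lit 35417174785) (nat_lit 4) (nat_lit 5) (nat_lit 6) (nat_lit 4) (nat_lit 4) (nat_lit 4) (nat_lit 235) (nat_lit 211) (nat_lit 154))) (XT.nd (nat_lit 78) (nat_lit 0) (nat_lit 0) (XT.lf (nat_lit 0) (nat_lit 108164062903) (nat_lit 152) (nat_lit 55102468058) (nat_lit 0) (nat_lit 63968783584) (nat_lit 4) (nat_lit 5) (nat_lit 6) (nat_lit 4) (nat_lit 4) (nat_lit 4) (nat_lit 236) (nat_lit 211) (nat_lit 153)) (XT.lf (nat_lit 0) (nat_lit 140998748464) (nat_lit 152) (nat_lit 19951922337) (nat_lit 0) (nat_lit 96801729640) (nat_lit 4) (nat_lit 5) (nat_lit 6) (nat_lit 4) (nat_lit 4) (nat_lit 4) (nat_lit 237) (nat_lit 211) (nat_lit 152))))))))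
noncomputable def xc38 : XT := (XT.nd (nat_lit 2418) (nat_lit 0) (nat_lit 0) (XT.nd (nat_lit 1170) (nat_lit 0) (nat_lit 0) (XT.nd (nat_lit 546) (nat_lit 152) (nat_lit 0) (XT.nd (nat_lit 234) (nat_lit 0) (nat_lit 0) (XT.nd (nat_lit 78) (nat_lit 0) (nat_lit 0) (XT.lf (nat_lit 0) (nat_lit 22468296350) (nat_lit 76) (nat_lit 157218996007) (nat_lit 76) (nat_lit 113020464571) (nat_lit 3) (nat_lit 4) (nat_lit 4) (nat_lit 5) (nat_lit 4) (nat_lit 4) (nat_lit 238) (nat_lit 211) (nat_lit 151)) (XT.nd (nat_lit 78) (nat_lit 0) (nat_lit 0) (XT.lf (nat_lit 0) (nat_lit 73490824927) (nat_lit 76) (nat_lit 151729622275) (nat_lit 76) (nat_lit 107529775523) (nat_lit 3) (nat_lit 4) (nat_lit 4) (nat_lit 5) (nat_lit 4) (nat_lit 4) (nat_lit 239) (nat_lit 211) (nat_lit 150)) (XT.lf (nat_lit 0) (nat_lit 132164083301) (nat_lit 76) (nat_lit 145418090209) (nat_lit 76) (nat_lit 101217099704) (nat_lit 3) (nat_lit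 4) (nat_lit 4) (nat_lit 5) (nat_lit 4) (nat_lit 4) (nat_lit 240) (nat_lit 211) (nat_lit 149)))) (XT.nd (nat_lit 156) (nat_lit 0) (nat_lit 0) (XT.nd (nat_lit 78) (nat_lit 0) (nat_lit 0) (XT.lf (nat_lit 0) (nat_lit 199636026528) (nat_lit 76) (nat_lit 138160913312) (nat_lit 76) (nat_lit 93958928240) (nat_lit 3) (nat_lit 4) (nat_lit 4) (nat_lit 5) (nat_lit 4) (nat_lit 4) (nat_lit 241) (nat_lit 211) (nat_lit 148)) (XT.lf (nat_lit 0) (nat_lit 277226757845) (nat_lit 76) (nat_lit 129816103341) (nat_lit 76) (nat_lit 85613253428) (nat_lit 3) (nat_lit 4) (nat_lit 4) (nat_lit 5) (nat_lit 4) (nat_lit 4) (nat_lit 242) (nat_lit 211) (nat_lit 147))) (XT.nd (nat_lit 78) (nat_lit 0) (nat_lit 0) (XT.lf (nat_lit 0) (nat_lit 366454356776) (nat_lit 76) (nat_lit 120220392275) (nat_lit 76) (nat_lit 76016790326) (nat_lit 3) (nat_lit 4) (nat_lit 4) (nat_lit 5) (nat_lit 4) (nat_lit 4) (nat_lit 243) (nat_lit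 211) (nat_lit 146)) (XT.lf (nat_lit 0) (nat_lit 469064580693) (nat_lit 76) (nat_lit 109186037940) (nat_lit 76) (nat_lit 64981782047) (nat_lit 3) (nat_lit 4) (nat_lit 4) (nat_lit 5) (nat_lit 4) (nat_lit 4) (nat_lit 244) (nat_lit 211) (nat_lit 145))))) (XT.nd (nat_lit 312) (nat_lit 152) (nat_lit 0) (XT.nd (nat_lit 156) (nat_lit 0) (nat_lit 0) (XT.nd (nat_lit 78) (nat_lit 0) (nat_lit 0) (XT.lf (nat_lit 0) (nat_lit 587065020934) (nat_lit 76) (nat_lit 96497150796) (nat_lit 76) (nat_lit 52292326256) (nat_lit 3) (nat_lit 4) (nat_lit 4) (nat_lit 5) (nat_lit 4) (nat_lit 4) (nat_lit 245) (nat_lit 211) (nat_lit 144)) (XT.lf (nat_lit 0) (nat_lit 722764381762) (nat_lit 76) (nat_lit 81905470007) (nat_lit 76) (nat_lit 37700150990) (nat_lit 3) (nat_lit 4) (nat_lit 4) (nat_lit 5) (nat_lit 4) (nat_lit 4) (nat_lit 246) (nat_lit 211) (nat_lit 143))) (XT.nd (nat_lit 78) (nat_lit 0) (nat_lit 0) (XT.lf (nat_lit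 0) (nat_lit 878817650675) (nat_lit 76) (nat_lit 65125506165) (nat_lit 76) (nat_lit 20919757170) (nat_lit 3) (nat_lit 4) (nat_lit 4) (nat_lit 5) (nat_lit 4) (nat_lit 4) (nat_lit 247) (nat_lit 211) (nat_lit 142)) (XT.lf (nat_lit 0) (nat_lit 1058278043801) (nat_lit 76) (nat_lit 45828955632) (nat_lit 76) (nat_lit 1622832742) (nat_lit 3) (nat_lit 4) (nat_lit 4) (nat_lit 5) (nat_lit 4) (nat_lit 4) (nat_lit 248) (nat_lit 211) (nat_lit 141)))) (XT.nd (nat_lit 156) (nat_lit 0) (nat_lit 0) (XT.nd (nat_lit 78) (nat_lit 76) (nat_lit 0) (XT.lf (nat_lit 0) (nat_lit 18737050018) (nat_lit 152) (nat_lit 3921790476) (nat_lit 76) (nat_lit 1244940256022) (nat_lit 2) (nat_lit 5) (nat_lit 4) (nat_lit 5) (nat_lit 3) (nat_lit 4) (nat_lit 249) (nat_lit 211) (nat_lit 140)) (XT.lf (nat_lit 0) (nat_lit 44346475747) (nat_lit 152) (nat_lit 1403130587594) (nat_lit 0) (nat_lit 5905840327) (nat_lit 1) (nat_lit 5)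 (nat_lit 3) (nat_lit 4) (nat_lit 1) (nat_lit 4) (nat_lit 250) (nat_lit 211) (nat_lit 139))) (XT.nd (nat_lit 78) (nat_lit 0) (nat_lit 0) (XT.lf (nat_lit 0) (nat_lit 75090715495) (nat_lit 152) (nat_lit 1555099690928) (nat_lit 0) (nat_lit 36649866299) (nat_lit 1) (nat_lit 5) (nat_lit 3) (nat_lit 4) (nat_lit 1) (nat_lit 4) (nat_lit 251) (nat_lit 211) (nat_lit 138)) (XT.lf (nat_lit 0) (nat_lit 110446280803) (nat_lit 152) (nat_lit 1729864767917) (nat_lit 0) (nat_lit 72005245715) (nat_lit 1) (nat_lit 5) (nat_lit 3) (nat_lit 4) (nat_lit 1) (nat_lit 4) (nat_lit 252) (nat_lit 211) (nat_lit 137)))))) (XT.nd (nat_lit 624) (nat_lit 0) (nat_lit 0) (XT.nd (nat_lit 312) (nat_lit 0) (nat_lit 0) (XT.nd (nat_lit 156) (nat_lit 0) (nat_lit 0) (XT.nd (nat_lit 78) (nat_lit 0) (nat_lit 0) (XT.lf (nat_lit 0) (nat_lit 151104910992) (nat_lit 152) (nat_lit 1930845135285) (nat_lit 0) (nat_lit 112663714259) (nat_lit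 1) (nat_lit 5) (nat_lit 3) (nat_lit 4) (nat_lit 1) (nat_lit 4) (nat_lit 253) (nat_lit 211) (nat_lit 136)) (XT.lf (nat_lit 0) (nat_lit 197862101001) (nat_lit 152) (nat_lit 2161973017611) (nat_lit 0) (nat_lit 159420763707) (nat_lit 1) (nat_lit 5) (nat_lit 3) (nat_lit 4) (nat_lit 1) (nat_lit 4) (nat_lit 254) (nat_lit 211) (nat_lit 135))) (XT.nd (nat_lit 78) (nat_lit 0) (nat_lit 0) (XT.lf (nat_lit 0) (nat_lit 251632665417) (nat_lit 152) (nat_lit 2427770482158) (nat_lit 0) (nat_lit 213191205896) (nat_lit 1) (nat_lit 5) (nat_lit 3) (nat_lit 4) (nat_lit 1) (nat_lit 4) (nat_lit 255) (nat_lit 211) (nat_lit 134)) (XT.lf (nat_lit 0) (nat_lit 313468637022) (nat_lit 152) (nat_lit 2733437914101) (nat_lit 0) (nat_lit 275027071217) (nat_lit 1) (nat_lit 5) (nat_lit 3) (nat_lit 4) (nat_lit 1) (nat_lit 4) (nat_lit 256) (nat_lit 211) (nat_lit 133)))) (XT.nd (nat_lit 156) (nat_lit 0) (nat_lit 0) (XT.nd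 (nat_lit 78) (nat_lit 0) (nat_lit 0) (XT.lf (nat_lit 0) (nat_lit 384579850043) (nat_lit 152) (nat_lit 3084955763197) (nat_lit 0) (nat_lit 346138191817) (nat_lit 1) (nat_lit 5) (nat_lit 3) (nat_lit 4) (nat_lit 1) (nat_lit 4) (nat_lit 257) (nat_lit 211) (nat_lit 132)) (XT.lf (nat_lit 0) (nat_lit 466357610822) (nat_lit 152) (nat_lit 3489201552579) (nat_lit 0) (nat_lit 427915872229) (nat_lit 1) (nat_lit 5) (nat_lit 3) (nat_lit 4) (nat_lit 1) (nat_lit 4) (nat_lit 258) (nat_lit 211) (nat_lit 131))) (XT.nd (nat_lit 78) (nat_lit 0) (nat_lit 0) (XT.lf (nat_lit 0) (nat_lit 560401919026) (nat_lit 152) (nat_lit 3954084438997) (nat_lit 0) (nat_lit 521960110550) (nat_lit 1) (nat_lit 5) (nat_lit 3) (nat_lit 4) (nat_lit 1) (nat_lit 4) (nat_lit 259) (nat_lit 211) (nat_lit 130)) (XT.lf (nat_lit 0) (nat_lit 668552771990) (nat_lit 152) (nat_lit 4488699957184) (nat_lit 0) (nat_lit 630110902745) (nat_lit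 1) (nat_lit 5) (nat_lit 3) (nat_lit 4) (nat_lit 1) (nat_lit 4) (nat_lit 260) (nat_lit 211) (nat_lit 129))))) (XT.nd (nat_lit 312) (nat_lit 0) (nat_lit 0) (XT.nd (nat_lit 156) (nat_lit 0) (nat_lit 0) (XT.nd (nat_lit 78) (nat_lit 0) (nat_lit 0) (XT.lf (nat_lit 0) (nat_lit 792926164662) (nat_lit 152) (nat_lit 5103507975975) (nat_lit 0) (nat_lit 754484242576) (nat_lit 1) (nat_lit 5) (nat_lit 3) (nat_lit 4) (nat_lit 1) (nat_lit 4) (nat_lit 261) (nat_lit 211) (nat_lit 128)) (XT.lf (nat_lit 0) (nat_lit 935955489509) (nat_lit 152) (nat_lit 5810537347911) (nat_lit 0) (nat_lit 897513521474) (nat_lit 1) (nat_lit 5) (nat_lit 3) (nat_lit 4) (nat_lit 1) (nat_lit 4) (nat_lit 262) (nat_lit 211) (nat_lit 127))) (XT.nd (nat_lit 78) (nat_lit 0) (nat_lit 0) (XT.lf (nat_lit 0) (nat_lit 1100439146365) (nat_lit 152) (nat_lit 6623621256357) (nat_lit 0) (nat_lit 1061997138373) (nat_lit 1) (nat_lit 5) (nat_lit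 3) (nat_lit 4) (nat_lit 1) (nat_lit 4) (nat_lit 263) (nat_lit 211) (nat_lit 126)) (XT.lf (nat_lit 0) (nat_lit 1289595293732) (nat_lit 152) (nat_lit 7558667864737) (nat_lit 0) (nat_lit 1251153250995) (nat_lit 1) (nat_lit 5) (nat_lit 3) (nat_lit 4) (nat_lit 1) (nat_lit 4) (nat_lit 264) (nat_lit 211) (nat_lit 125)))) (XT.nd (nat_lit 156) (nat_lit 0) (nat_lit 0) (XT.nd (nat_lit 78) (nat_lit 0) (nat_lit 0) (XT.lf (nat_lit 0) (nat_lit 1507124812755) (nat_lit 152) (nat_lit 8633971563218) (nat_lit 0) (nat_lit 1468682739806) (nat_lit 1) (nat_lit 5) (nat_lit 3) (nat_lit 4) (nat_lit 1) (nat_lit 4) (nat_lit 265) (nat_lit 211) (nat_lit 124)) (XT.lf (nat_lit 0) (nat_lit 1757283715764) (nat_lit 152) (nat_lit 9870570902420) (nat_lit 0) (nat_lit 1718841616542) (nat_lit 1) (nat_lit 5) (nat_lit 3) (nat_lit 4) (nat_lit 1) (nat_lit 4) (nat_lit 266) (nat_lit 211) (nat_lit 123))) (XT.nd (nat_lit 78) (nat_lit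 0) (nat_lit 0) (XT.lf (nat_lit 0) (nat_lit 2044966416076) (nat_lit 152) (nat_lit 11292660217241) (nat_lit 0) (nat_lit 2006524294010) (nat_lit 1) (nat_lit 5) (nat_lit 3) (nat_lit 4) (nat_lit 1) (nat_lit 4) (nat_lit 267) (nat_lit 211) (nat_lit 122)) (XT.lf (nat_lit 0) (nat_lit 2375801488265) (nat_lit 152) (nat_lit 12928062994276) (nat_lit 0) (nat_lit 2337359346333) (nat_lit 1) (nat_lit 5) (nat_lit 3) (nat_lit 4) (nat_lit 1) (nat_lit 4) (nat_lit 268) (nat_lit 211) (nat_lit 121))))))) (XT.nd (nat_lit 27612) (nat_lit 0) (nat_lit 228) (XT.nd (nat_lit 26988) (nat_lit 0) (nat_lit 760) (XT.nd (nat_lit 234) (nat_lit 0) (nat_lit 0) (XT.nd (nat_lit 78) (nat_lit 0) (nat_lit 0) (XT.lf (nat_lit 0) (nat_lit 2756261792437) (nat_lit 152) (nat_lit 14808776244379) (nat_lit 0) (nat_lit 2717819633232) (nat_lit 1) (nat_lit 5) (nat_lit 3) (nat_lit 4) (nat_lit 1) (nat_lit 4) (nat_lit 269) (nat_lit 211) (nat_lit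 120)) (XT.nd (nat_lit 78) (nat_lit 0) (nat_lit 0) (XT.lf (nat_lit 0) (nat_lit 3193791117153) (nat_lit 152) (nat_lit 16971596531140) (nat_lit 0) (nat_lit 3155348942927) (nat_lit 1) (nat_lit 5) (nat_lit 3) (nat_lit 4) (nat_lit 1) (nat_lit 4) (nat_lit 270) (nat_lit 211) (nat_lit 119)) (XT.lf (nat_lit 0) (nat_lit 3696949818767) (nat_lit 152) (nat_lit 19458839903647) (nat_lit 0) (nat_lit 3658507631478) (nat_lit 1) (nat_lit 5) (nat_lit 3) (nat_lit 4) (nat_lit 1) (nat_lit 4) (nat_lit 271) (nat_lit 211) (nat_lit 118)))) (XT.nd (nat_lit 26598) (nat_lit 0) (nat_lit 1368) (XT.nd (nat_lit 1092) (nat_lit 0) (nat_lit 0) (XT.lf (nat_lit 0) (nat_lit 4275582306656) (nat_lit 152) (nat_lit 22319169819189) (nat_lit 0) (nat_lit 4237140108010) (nat_lit 1) (nat_lit 5) (nat_lit 3) (nat_lit 4) (nat_lit 1) (nat_lit 4) (nat_lit 272) (nat_lit 211) (nat_lit 117)) (XT.lf (nat_lit 0) (nat_lit 31228518927455) (nat_lit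 152) (nat_lit 155554517190788) (nat_lit 0) (nat_lit 31190076663790) (nat_lit 1) (nat_lit 5) (nat_lit 3) (nat_lit 4) (nat_lit 1) (nat_lit 4) (nat_lit 286) (nat_lit 211) (nat_lit 103))) (XT.nd (nat_lit 78) (nat_lit 0) (nat_lit 0) (XT.lf (nat_lit 0) (nat_lit 5161054739) (nat_lit 0) (nat_lit 5161054739) (nat_lit 228) (nat_lit 686520384) (nat_lit 19) (nat_lit 5) (nat_lit 19) (nat_lit 3) (nat_lit 22) (nat_lit 3) (nat_lit 212) (nat_lit 212) (nat_lit 176)) (XT.lf (nat_lit 0) (nat_lit 21295426562) (nat_lit 0) (nat_lit 1010151721) (nat_lit 228) (nat_lit 1344737589) (nat_lit 19) (nat_lit 5) (nat_lit 19) (nat_lit 3) (nat_lit 22) (nat_lit 3) (nat_lit 213) (nat_lit 212) (nat_lit 175))))) (XT.nd (nat_lit 312) (nat_lit 304) (nat_lit 0) (XT.nd (nat_lit 156) (nat_lit 0) (nat_lit 76) (XT.nd (nat_lit 78) (nat_lit 304) (nat_lit 0) (XT.lf (nat_lit 76) (nat_lit 8750076787) (nat_lit 0) (nat_lit 16210274074)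 (nat_lit 304) (nat_lit 456576425) (nat_lit 20) (nat_lit 5) (nat_lit 19) (nat_lit 5) (nat_lit 23) (nat_lit 5) (nat_lit 214) (nat_lit 212) (nat_lit 174)) (XT.lf (nat_lit 0) (nat_lit 672880963) (nat_lit 304) (nat_lit 5737077033) (nat_lit 380) (nat_lit 21011483586) (nat_lit 15) (nat_lit 5) (nat_lit 19) (nat_lit 5) (nat_lit 20) (nat_lit 5) (nat_lit 215) (nat_lit 212) (nat_lit 173))) (XT.nd (nat_lit 78) (nat_lit 0) (nat_lit 0) (XT.lf (nat_lit 0) (nat_lit 2434850931) (nat_lit 304) (nat_lit 22435186762) (nat_lit 76) (nat_lit 4777008341) (nat_lit 16) (nat_lit 5) (nat_lit 20) (nat_lit 5) (nat_lit 17) (nat_lit 5) (nat_lit 216) (nat_lit 212) (nat_lit 172)) (XT.lf (nat_lit 0) (nat_lit 5065950626) (nat_lit 304) (nat_lit 9748074120) (nat_lit 76) (nat_lit 17301871772) (nat_lit 16) (nat_lit 5) (nat_lit 20) (nat_lit 5) (nat_lit 17) (nat_lit 5) (nat_lit 217) (nat_lit 212) (nat_lit 171)))) (XT.nd (nat_lit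 156) (nat_lit 152) (nat_lit 0) (XT.nd (nat_lit 78) (nat_lit 0) (nat_lit 0) (XT.lf (nat_lit 0) (nat_lit 5301035549) (nat_lit 228) (nat_lit 2997510281) (nat_lit 304) (nat_lit 26625617642) (nat_lit 13) (nat_lit 5) (nat_lit 16) (nat_lit 5) (nat_lit 17) (nat_lit 5) (nat_lit 218) (nat_lit 212) (nat_lit 170)) (XT.lf (nat_lit 0) (nat_lit 12976852783) (nat_lit 304) (nat_lit 14851215893) (nat_lit 76) (nat_lit 10181577099) (nat_lit 13) (nat_lit 5) (nat_lit 17) (nat_lit 5) (nat_lit 14) (nat_lit 5) (nat_lit 219) (nat_lit 212) (nat_lit 169))) (XT.nd (nat_lit 78) (nat_lit 0) (nat_lit 0) (XT.lf (nat_lit 0) (nat_lit 2175027170) (nat_lit 152) (nat_lit 16404618434) (nat_lit 228) (nat_lit 22944979652) (nat_lit 11) (nat_lit 5) (nat_lit 13) (nat_lit 5) (nat_lit 14) (nat_lit 5) (nat_lit 220) (nat_lit 212) (nat_lit 168)) (XT.lf (nat_lit 0) (nat_lit 23412489205) (nat_lit 152) (nat_lit 2377443874) (nat_lit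 228) (nat_lit 19661931834) (nat_lit 11) (nat_lit 5) (nat_lit 13) (nat_lit 5) (nat_lit 14) (nat_lit 5) (nat_lit 221) (nat_lit 212) (nat_lit 167)))))) (XT.nd (nat_lit 624) (nat_lit 228) (nat_lit 0) (XT.nd (nat_lit 312) (nat_lit 76) (nat_lit 0) (XT.nd (nat_lit 156) (nat_lit 152) (nat_lit 0) (XT.nd (nat_lit 78) (nat_lit 76) (nat_lit 0) (XT.lf (nat_lit 0) (nat_lit 34643154641) (nat_lit 228) (nat_lit 2713567247) (nat_lit 76) (nat_lit 12527324869) (nat_lit 11) (nat_lit 5) (nat_lit 14) (nat_lit 5) (nat_lit 12) (nat_lit 4) (nat_lit 222) (nat_lit 212) (nat_lit 166)) (XT.lf (nat_lit 0) (nat_lit 21282692970) (nat_lit 76) (nat_lit 24529083923) (nat_lit 152) (nat_lit 9021222785) (nat_lit 10) (nat_lit 5) (nat_lit 11) (nat_lit 5) (nat_lit 12) (nat_lit 4) (nat_lit 223) (nat_lit 212) (nat_lit 165))) (XT.nd (nat_lit 78) (nat_lit 152) (nat_lit 0) (XT.lf (nat_lit 0) (nat_lit 49173871613) (nat_lit 76) (nat_lit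 9617129977) (nat_lit 152) (nat_lit 1713046640) (nat_lit 10) (nat_lit 5) (nat_lit 11) (nat_lit 5) (nat_lit 12) (nat_lit 4) (nat_lit 224) (nat_lit 212) (nat_lit 164)) (XT.lf (nat_lit 0) (nat_lit 7078262554) (nat_lit 152) (nat_lit 51946161621) (nat_lit 76) (nat_lit 7812413160) (nat_lit 8) (nat_lit 5) (nat_lit 10) (nat_lit 5) (nat_lit 9) (nat_lit 4) (nat_lit 225) (nat_lit 212) (nat_lit 163)))) (XT.nd (nat_lit 156) (nat_lit 76) (nat_lit 0) (XT.nd (nat_lit 78) (nat_lit 0) (nat_lit 0) (XT.lf (nat_lit 0) (nat_lit 18085622601) (nat_lit 152) (nat_lit 28289644305) (nat_lit 76) (nat_lit 27571163437) (nat_lit 8) (nat_lit 5) (nat_lit 10) (nat_lit 5) (nat_lit 9) (nat_lit 4) (nat_lit 226) (nat_lit 212) (nat_lit 162)) (XT.lf (nat_lit 0) (nat_lit 30739145087) (nat_lit 152) (nat_lit 1092663816) (nat_lit 76) (nat_lit 50291422683) (nat_lit 8) (nat_lit 5) (nat_lit 10) (nat_lit 5) (nat_lit 9) (nat_lit 4)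 (nat_lit 227) (nat_lit 212) (nat_lit 161))) (XT.nd (nat_lit 78) (nat_lit 0) (nat_lit 0) (XT.lf (nat_lit 0) (nat_lit 33126000294) (nat_lit 76) (nat_lit 13532075666) (nat_lit 152) (nat_lit 44663394447) (nat_lit 7) (nat_lit 5) (nat_lit 8) (nat_lit 5) (nat_lit 9) (nat_lit 4) (nat_lit 228) (nat_lit 212) (nat_lit 160)) (XT.lf (nat_lit 0) (nat_lit 65331642967) (nat_lit 152) (nat_lit 29611580314) (nat_lit 0) (nat_lit 6901223503) (nat_lit 7) (nat_lit 5) (nat_lit 9) (nat_lit 4) (nat_lit 7) (nat_lit 4) (nat_lit 229) (nat_lit 212) (nat_lit 159))))) (XT.nd (nat_lit 312) (nat_lit 76) (nat_lit 0) (XT.nd (nat_lit 156) (nat_lit 76) (nat_lit 0) (XT.nd (nat_lit 78) (nat_lit 0) (nat_lit 0) (XT.lf (nat_lit 0) (nat_lit 2864274657) (nat_lit 76) (nat_lit 84701374670) (nat_lit 76) (nat_lit 26266328089) (nat_lit 6) (nat_lit 4) (nat_lit 7) (nat_lit 5) (nat_lit 7) (nat_lit 4) (nat_lit 230) (nat_lit 212) (nat_lit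 158)) (XT.lf (nat_lit 0) (nat_lit 43533497669) (nat_lit 76) (nat_lit 71145774428) (nat_lit 76) (nat_lit 12706704267) (nat_lit 6) (nat_lit 4) (nat_lit 7) (nat_lit 5) (nat_lit 7) (nat_lit 4) (nat_lit 231) (nat_lit 212) (nat_lit 157))) (XT.nd (nat_lit 78) (nat_lit 0) (nat_lit 0) (XT.lf (nat_lit 0) (nat_lit 2626778661) (nat_lit 152) (nat_lit 52794994804) (nat_lit 76) (nat_lit 87533844380) (nat_lit 5) (nat_lit 5) (nat_lit 7) (nat_lit 5) (nat_lit 6) (nat_lit 4) (nat_lit 232) (nat_lit 212) (nat_lit 156)) (XT.lf (nat_lit 0) (nat_lit 18956684806) (nat_lit 152) (nat_lit 17688738997) (nat_lit 76) (nat_lit 124124931328) (nat_lit 5) (nat_lit 5) (nat_lit 7) (nat_lit 5) (nat_lit 6) (nat_lit 4) (nat_lit 233) (nat_lit 212) (nat_lit 155)))) (XT.nd (nat_lit 156) (nat_lit 0) (nat_lit 0) (XT.nd (nat_lit 78) (nat_lit 0) (nat_lit 0) (XT.lf (nat_lit 0) (nat_lit 24895694675) (nat_lit 76) (nat_lit 13868933964)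 (nat_lit 152) (nat_lit 142338400776) (nat_lit 4) (nat_lit 5) (nat_lit 5) (nat_lit 5) (nat_lit 6) (nat_lit 4) (nat_lit 234) (nat_lit 212) (nat_lit 154)) (XT.lf (nat_lit 0) (nat_lit 63020485053) (nat_lit 152) (nat_lit 129049706205) (nat_lit 0) (nat_lit 12193913406) (nat_lit 4) (nat_lit 5) (nat_lit 6) (nat_lit 4) (nat_lit 4) (nat_lit 4) (nat_lit 235) (nat_lit 212) (nat_lit 153))) (XT.nd (nat_lit 78) (nat_lit 0) (nat_lit 0) (XT.lf (nat_lit 0) (nat_lit 91573180304) (nat_lit 152) (nat_lit 98482529620) (nat_lit 0) (nat_lit 40744869152) (nat_lit 4) (nat_lit 5) (nat_lit 6) (nat_lit 4) (nat_lit 4) (nat_lit 4) (nat_lit 236) (nat_lit 212) (nat_lit 152)) (XT.lf (nat_lit 0) (nat_lit 124407071103) (nat_lit 152) (nat_lit 63333468552) (nat_lit 0) (nat_lit 73577247338) (nat_lit 4) (nat_lit 5) (nat_lit 6) (nat_lit 4) (nat_lit 4) (nat_lit 4) (nat_lit 237) (nat_lit 212) (nat_lit 151))))))))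
noncomputable def xc39 : XT := (XT.nd (nat_lit 2418) (nat_lit 0) (nat_lit 0) (XT.nd (nat_lit 1170) (nat_lit 0) (nat_lit 0) (XT.nd (nat_lit 546) (nat_lit 152) (nat_lit 0) (XT.nd (nat_lit 234) (nat_lit 0) (nat_lit 0) (XT.nd (nat_lit 78) (nat_lit 76) (nat_lit 0) (XT.lf (nat_lit 0) (nat_lit 162164559660) (nat_lit 152) (nat_lit 22914823978) (nat_lit 0) (nat_lit 111333420580) (nat_lit 4) (nat_lit 5) (nat_lit 6) (nat_lit 4) (nat_lit 4) (nat_lit 4) (nat_lit 238) (nat_lit 212) (nat_lit 150)) (XT.nd (nat_lit 78) (nat_lit 0) (nat_lit 0) (XT.lf (nat_lit 0) (nat_lit 25867069025) (nat_lit 76) (nat_lit 180788410588) (nat_lit 76) (nat_lit 129956127756) (nat_lit 3) (nat_lit 4) (nat_lit 4) (nat_lit 5) (nat_lit 4) (nat_lit 4) (nat_lit 239) (nat_lit 212) (nat_lit 149)) (XT.lf (nat_lit 0) (nat_lit 84539255816) (nat_lit 76) (nat_lit 174477383164) (nat_lit 76) (nat_lit 123644105764) (nat_lit 3) (nat_lit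 4) (nat_lit 4) (nat_lit 5) (nat_lit 4) (nat_lit 4) (nat_lit 240) (nat_lit 212) (nat_lit 148)))) (XT.nd (nat_lit 156) (nat_lit 0) (nat_lit 0) (XT.nd (nat_lit 78) (nat_lit 0) (nat_lit 0) (XT.lf (nat_lit 0) (nat_lit 152010267231) (nat_lit 76) (nat_lit 167220645086) (nat_lit 76) (nat_lit 116386502844) (nat_lit 3) (nat_lit 4) (nat_lit 4) (nat_lit 5) (nat_lit 4) (nat_lit 4) (nat_lit 241) (nat_lit 212) (nat_lit 147)) (XT.lf (nat_lit 0) (nat_lit 229600188277) (nat_lit 76) (nat_lit 158876216697) (nat_lit 76) (nat_lit 108041322419) (nat_lit 3) (nat_lit 4) (nat_lit 4) (nat_lit 5) (nat_lit 4) (nat_lit 4) (nat_lit 242) (nat_lit 212) (nat_lit 146))) (XT.nd (nat_lit 78) (nat_lit 0) (nat_lit 0) (XT.lf (nat_lit 0) (nat_lit 318827082625) (nat_lit 76) (nat_lit 149280837440) (nat_lit 76) (nat_lit 98445289219) (nat_lit 3) (nat_lit 4) (nat_lit 4) (nat_lit 5) (nat_lit 4) (nat_lit 4) (nat_lit 243) (nat_lit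 212) (nat_lit 145)) (XT.lf (nat_lit 0) (nat_lit 421436693861) (nat_lit 76) (nat_lit 138246771636) (nat_lit 76) (nat_lit 87410654768) (nat_lit 3) (nat_lit 4) (nat_lit 4) (nat_lit 5) (nat_lit 4) (nat_lit 4) (nat_lit 244) (nat_lit 212) (nat_lit 144))))) (XT.nd (nat_lit 312) (nat_lit 152) (nat_lit 0) (XT.nd (nat_lit 156) (nat_lit 0) (nat_lit 0) (XT.nd (nat_lit 78) (nat_lit 0) (nat_lit 0) (XT.lf (nat_lit 0) (nat_lit 539436601335) (nat_lit 76) (nat_lit 125558135388) (nat_lit 76) (nat_lit 74721524043) (nat_lit 3) (nat_lit 4) (nat_lit 4) (nat_lit 5) (nat_lit 4) (nat_lit 4) (nat_lit 245) (nat_lit 212) (nat_lit 143)) (XT.lf (nat_lit 0) (nat_lit 675135498889) (nat_lit 76) (nat_lit 110966672769) (nat_lit 76) (nat_lit 60129631446) (nat_lit 3) (nat_lit 4) (nat_lit 4) (nat_lit 5) (nat_lit 4) (nat_lit 4) (nat_lit 246) (nat_lit 212) (nat_lit 142))) (XT.nd (nat_lit 78) (nat_lit 0) (nat_lit 0) (XT.lf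 (nat_lit 0) (nat_lit 831188364953) (nat_lit 76) (nat_lit 94186898641) (nat_lit 76) (nat_lit 43349483423) (nat_lit 3) (nat_lit 4) (nat_lit 4) (nat_lit 5) (nat_lit 4) (nat_lit 4) (nat_lit 247) (nat_lit 212) (nat_lit 141)) (XT.lf (nat_lit 0) (nat_lit 1010648407777) (nat_lit 76) (nat_lit 74890513076) (nat_lit 76) (nat_lit 24052772732) (nat_lit 3) (nat_lit 4) (nat_lit 4) (nat_lit 5) (nat_lit 4) (nat_lit 4) (nat_lit 248) (nat_lit 212) (nat_lit 140)))) (XT.nd (nat_lit 156) (nat_lit 76) (nat_lit 0) (XT.nd (nat_lit 78) (nat_lit 76) (nat_lit 0) (XT.lf (nat_lit 0) (nat_lit 1217026802111) (nat_lit 76) (nat_lit 52699978094) (nat_lit 76) (nat_lit 1861955032) (nat_lit 3) (nat_lit 4) (nat_lit 4) (nat_lit 5) (nat_lit 4) (nat_lit 4) (nat_lit 249) (nat_lit 212) (nat_lit 139)) (XT.lf (nat_lit 0) (nat_lit 21551015844) (nat_lit 152) (nat_lit 4503584838) (nat_lit 76) (nat_lit 1431683839887) (nat_lit 2) (nat_lit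 5) (nat_lit 4) (nat_lit 5) (nat_lit 3) (nat_lit 4) (nat_lit 250) (nat_lit 212) (nat_lit 138))) (XT.nd (nat_lit 78) (nat_lit 0) (nat_lit 0) (XT.lf (nat_lit 0) (nat_lit 51001789345) (nat_lit 152) (nat_lit 1613593627458) (nat_lit 0) (nat_lit 6794413102) (nat_lit 1) (nat_lit 5) (nat_lit 3) (nat_lit 4) (nat_lit 1) (nat_lit 4) (nat_lit 251) (nat_lit 212) (nat_lit 137)) (XT.lf (nat_lit 0) (nat_lit 86357229111) (nat_lit 152) (nat_lit 1788358950414) (nat_lit 0) (nat_lit 42149691223) (nat_lit 1) (nat_lit 5) (nat_lit 3) (nat_lit 4) (nat_lit 1) (nat_lit 4) (nat_lit 252) (nat_lit 212) (nat_lit 136)))))) (XT.nd (nat_lit 624) (nat_lit 0) (nat_lit 0) (XT.nd (nat_lit 312) (nat_lit 0) (nat_lit 0) (XT.nd (nat_lit 156) (nat_lit 0) (nat_lit 0) (XT.nd (nat_lit 78) (nat_lit 0) (nat_lit 0) (XT.lf (nat_lit 0) (nat_lit 127015750133) (nat_lit 152) (nat_lit 1989339531668) (nat_lit 0) (nat_lit 82808071684) (nat_lit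 1) (nat_lit 5) (nat_lit 3) (nat_lit 4) (nat_lit 1) (nat_lit 4) (nat_lit 253) (nat_lit 212) (nat_lit 135)) (XT.lf (nat_lit 0) (nat_lit 173772845215) (nat_lit 152) (nat_lit 2220467599981) (nat_lit 0) (nat_lit 129565044539) (nat_lit 1) (nat_lit 5) (nat_lit 3) (nat_lit 4) (nat_lit 1) (nat_lit 4) (nat_lit 254) (nat_lit 212) (nat_lit 134))) (XT.nd (nat_lit 78) (nat_lit 0) (nat_lit 0) (XT.lf (nat_lit 0) (nat_lit 227543327085) (nat_lit 152) (nat_lit 2486265226255) (nat_lit 0) (nat_lit 183335420125) (nat_lit 1) (nat_lit 5) (nat_lit 3) (nat_lit 4) (nat_lit 1) (nat_lit 4) (nat_lit 255) (nat_lit 212) (nat_lit 133)) (XT.lf (nat_lit 0) (nat_lit 289379226911) (nat_lit 152) (nat_lit 2791932798831) (nat_lit 0) (nat_lit 245171227530) (nat_lit 1) (nat_lit 5) (nat_lit 3) (nat_lit 4) (nat_lit 1) (nat_lit 4) (nat_lit 256) (nat_lit 212) (nat_lit 132)))) (XT.nd (nat_lit 156) (nat_lit 0) (nat_lit 0) (XT.nd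 (nat_lit 78) (nat_lit 0) (nat_lit 0) (XT.lf (nat_lit 0) (nat_lit 360490377516) (nat_lit 152) (nat_lit 3143450770216) (nat_lit 0) (nat_lit 316282297768) (nat_lit 1) (nat_lit 5) (nat_lit 3) (nat_lit 4) (nat_lit 1) (nat_lit 4) (nat_lit 257) (nat_lit 212) (nat_lit 131)) (XT.lf (nat_lit 0) (nat_lit 442268084019) (nat_lit 152) (nat_lit 3547696665937) (nat_lit 0) (nat_lit 398059934388) (nat_lit 1) (nat_lit 5) (nat_lit 3) (nat_lit 4) (nat_lit 1) (nat_lit 4) (nat_lit 258) (nat_lit 212) (nat_lit 130))) (XT.nd (nat_lit 78) (nat_lit 0) (nat_lit 0) (XT.lf (nat_lit 0) (nat_lit 536312345028) (nat_lit 152) (nat_lit 4012579644823) (nat_lit 0) (nat_lit 492104134628) (nat_lit 1) (nat_lit 5) (nat_lit 3) (nat_lit 4) (nat_lit 1) (nat_lit 4) (nat_lit 259) (nat_lit 212) (nat_lit 129)) (XT.lf (nat_lit 0) (nat_lit 644463156952) (nat_lit 152) (nat_lit 4547195243418) (nat_lit 0) (nat_lit 600254893710) (nat_lit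 1) (nat_lit 5) (nat_lit 3) (nat_lit 4) (nat_lit 1) (nat_lit 4) (nat_lit 260) (nat_lit 212) (nat_lit 128))))) (XT.nd (nat_lit 312) (nat_lit 0) (nat_lit 0) (XT.nd (nat_lit 156) (nat_lit 0) (nat_lit 0) (XT.nd (nat_lit 78) (nat_lit 0) (nat_lit 0) (XT.lf (nat_lit 0) (nat_lit 768836513938) (nat_lit 152) (nat_lit 5162003332128) (nat_lit 0) (nat_lit 724628204747) (nat_lit 1) (nat_lit 5) (nat_lit 3) (nat_lit 4) (nat_lit 1) (nat_lit 4) (nat_lit 261) (nat_lit 212) (nat_lit 127)) (XT.lf (nat_lit 0) (nat_lit 911865807753) (nat_lit 152) (nat_lit 5869032764864) (nat_lit 0) (nat_lit 867657458606) (nat_lit 1) (nat_lit 5) (nat_lit 3) (nat_lit 4) (nat_lit 1) (nat_lit 4) (nat_lit 262) (nat_lit 212) (nat_lit 126))) (XT.nd (nat_lit 78) (nat_lit 0) (nat_lit 0) (XT.lf (nat_lit 0) (nat_lit 1076349437624) (nat_lit 152) (nat_lit 6682116726178) (nat_lit 0) (nat_lit 1032141053732) (nat_lit 1) (nat_lit 5) (nat_lit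 3) (nat_lit 4) (nat_lit 1) (nat_lit 4) (nat_lit 263) (nat_lit 212) (nat_lit 125)) (XT.lf (nat_lit 0) (nat_lit 1265505561526) (nat_lit 152) (nat_lit 7617163380532) (nat_lit 0) (nat_lit 1221297147422) (nat_lit 1) (nat_lit 5) (nat_lit 3) (nat_lit 4) (nat_lit 1) (nat_lit 4) (nat_lit 264) (nat_lit 212) (nat_lit 124)))) (XT.nd (nat_lit 156) (nat_lit 0) (nat_lit 0) (XT.nd (nat_lit 78) (nat_lit 0) (nat_lit 0) (XT.lf (nat_lit 0) (nat_lit 1483035060146) (nat_lit 152) (nat_lit 8692467118989) (nat_lit 0) (nat_lit 1438826619770) (nat_lit 1) (nat_lit 5) (nat_lit 3) (nat_lit 4) (nat_lit 1) (nat_lit 4) (nat_lit 265) (nat_lit 212) (nat_lit 123)) (XT.lf (nat_lit 0) (nat_lit 1733193945411) (nat_lit 152) (nat_lit 9929066492953) (nat_lit 0) (nat_lit 1688985482190) (nat_lit 1) (nat_lit 5) (nat_lit 3) (nat_lit 4) (nat_lit 1) (nat_lit 4) (nat_lit 266) (nat_lit 212) (nat_lit 122))) (XT.nd (nat_lit 78) (nat_lit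 0) (nat_lit 0) (XT.lf (nat_lit 0) (nat_lit 2020876630295) (nat_lit 152) (nat_lit 11351155838003) (nat_lit 0) (nat_lit 1976668147209) (nat_lit 1) (nat_lit 5) (nat_lit 3) (nat_lit 4) (nat_lit 1) (nat_lit 4) (nat_lit 267) (nat_lit 212) (nat_lit 121)) (XT.lf (nat_lit 0) (nat_lit 2351711689068) (nat_lit 152) (nat_lit 12986558641323) (nat_lit 0) (nat_lit 2307503188707) (nat_lit 1) (nat_lit 5) (nat_lit 3) (nat_lit 4) (nat_lit 1) (nat_lit 4) (nat_lit 268) (nat_lit 212) (nat_lit 120))))))) (XT.nd (nat_lit 27534) (nat_lit 0) (nat_lit 228) (XT.nd (nat_lit 26910) (nat_lit 0) (nat_lit 912) (XT.nd (nat_lit 234) (nat_lit 0) (nat_lit 0) (XT.nd (nat_lit 78) (nat_lit 0) (nat_lit 0) (XT.lf (nat_lit 0) (nat_lit 2732171981574) (nat_lit 152) (nat_lit 14867271914283) (nat_lit 0) (nat_lit 2687963466193) (nat_lit 1) (nat_lit 5) (nat_lit 3) (nat_lit 4) (nat_lit 1) (nat_lit 4) (nat_lit 269) (nat_lit 212) (nat_lit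 119)) (XT.nd (nat_lit 78) (nat_lit 0) (nat_lit 0) (XT.lf (nat_lit 0) (nat_lit 3169701296146) (nat_lit 152) (nat_lit 17030092220919) (nat_lit 0) (nat_lit 3125492767703) (nat_lit 1) (nat_lit 5) (nat_lit 3) (nat_lit 4) (nat_lit 1) (nat_lit 4) (nat_lit 270) (nat_lit 212) (nat_lit 118)) (XT.lf (nat_lit 0) (nat_lit 3672859988938) (nat_lit 152) (nat_lit 19517335610709) (nat_lit 0) (nat_lit 3628651449137) (nat_lit 1) (nat_lit 5) (nat_lit 3) (nat_lit 4) (nat_lit 1) (nat_lit 4) (nat_lit 271) (nat_lit 212) (nat_lit 117)))) (XT.nd (nat_lit 1092) (nat_lit 0) (nat_lit 0) (XT.nd (nat_lit 1014) (nat_lit 0) (nat_lit 0) (XT.lf (nat_lit 0) (nat_lit 4251492469157) (nat_lit 152) (nat_lit 22377665541280) (nat_lit 0) (nat_lit 4207283919479) (nat_lit 1) (nat_lit 5) (nat_lit 3) (nat_lit 4) (nat_lit 1) (nat_lit 4) (nat_lit 272) (nat_lit 212) (nat_lit 116)) (XT.lf (nat_lit 0) (nat_lit 27110196224847) (nat_lit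 152) (nat_lit 135374159326069) (nat_lit 0) (nat_lit 27065987620027) (nat_lit 1) (nat_lit 5) (nat_lit 3) (nat_lit 4) (nat_lit 1) (nat_lit 4) (nat_lit 285) (nat_lit 212) (nat_lit 103))) (XT.nd (nat_lit 78) (nat_lit 0) (nat_lit 0) (XT.lf (nat_lit 0) (nat_lit 31204429046045) (nat_lit 152) (nat_lit 155613012998911) (nat_lit 0) (nat_lit 31160220439829) (nat_lit 1) (nat_lit 5) (nat_lit 3) (nat_lit 4) (nat_lit 1) (nat_lit 4) (nat_lit 286) (nat_lit 212) (nat_lit 102)) (XT.lf (nat_lit 0) (nat_lit 35912796788396) (nat_lit 152) (nat_lit 178887694726650) (nat_lit 0) (nat_lit 35868588180966) (nat_lit 1) (nat_lit 5) (nat_lit 3) (nat_lit 4) (nat_lit 1) (nat_lit 4) (nat_lit 287) (nat_lit 212) (nat_lit 101))))) (XT.nd (nat_lit 312) (nat_lit 152) (nat_lit 0) (XT.nd (nat_lit 156) (nat_lit 304) (nat_lit 0) (XT.nd (nat_lit 78) (nat_lit 0) (nat_lit 0) (XT.lf (nat_lit 0) (nat_lit 5989393969) (nat_lit 0) (nat_lit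 5989393969) (nat_lit 228) (nat_lit 663653281) (nat_lit 19) (nat_lit 5) (nat_lit 19) (nat_lit 3) (nat_lit 22) (nat_lit 3) (nat_lit 213) (nat_lit 213) (nat_lit 174)) (XT.lf (nat_lit 0) (nat_lit 24583968407) (nat_lit 0) (nat_lit 1255902340) (nat_lit 228) (nat_lit 1327587078) (nat_lit 19) (nat_lit 5) (nat_lit 19) (nat_lit 3) (nat_lit 22) (nat_lit 3) (nat_lit 214) (nat_lit 213) (nat_lit 173))) (XT.nd (nat_lit 78) (nat_lit 304) (nat_lit 0) (XT.lf (nat_lit 76) (nat_lit 10185280866) (nat_lit 0) (nat_lit 18684684755) (nat_lit 304) (nat_lit 332808118) (nat_lit 20) (nat_lit 5) (nat_lit 19) (nat_lit 5) (nat_lit 23) (nat_lit 5) (nat_lit 215) (nat_lit 213) (nat_lit 172)) (XT.lf (nat_lit 0) (nat_lit 926107822) (nat_lit 304) (nat_lit 6474660900) (nat_lit 380) (nat_lit 24109639733) (nat_lit 15) (nat_lit 5) (nat_lit 19) (nat_lit 5) (nat_lit 20) (nat_lit 5) (nat_lit 216) (nat_lit 213) (nat_lit 171))))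 (XT.nd (nat_lit 156) (nat_lit 228) (nat_lit 0) (XT.nd (nat_lit 78) (nat_lit 0) (nat_lit 0) (XT.lf (nat_lit 0) (nat_lit 2936545387) (nat_lit 304) (nat_lit 25660437315) (nat_lit 76) (nat_lit 5475428338) (nat_lit 16) (nat_lit 5) (nat_lit 20) (nat_lit 5) (nat_lit 17) (nat_lit 5) (nat_lit 217) (nat_lit 213) (nat_lit 170)) (XT.lf (nat_lit 0) (nat_lit 5944510017) (nat_lit 304) (nat_lit 11088522228) (nat_lit 76) (nat_lit 19881386230) (nat_lit 16) (nat_lit 5) (nat_lit 20) (nat_lit 5) (nat_lit 17) (nat_lit 5) (nat_lit 218) (nat_lit 213) (nat_lit 169))) (XT.nd (nat_lit 78) (nat_lit 0) (nat_lit 0) (XT.lf (nat_lit 0) (nat_lit 6212419209) (nat_lit 228) (nat_lit 3438909781) (nat_lit 304) (nat_lit 30494334895) (nat_lit 13) (nat_lit 5) (nat_lit 16) (nat_lit 5) (nat_lit 17) (nat_lit 5) (nat_lit 219) (nat_lit 213) (nat_lit 168)) (XT.lf (nat_lit 0) (nat_lit 15017591092) (nat_lit 304) (nat_lit 16963235867)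 (nat_lit 76) (nat_lit 11715330719) (nat_lit 13) (nat_lit 5) (nat_lit 17) (nat_lit 5) (nat_lit 14) (nat_lit 5) (nat_lit 220) (nat_lit 213) (nat_lit 167)))))) (XT.nd (nat_lit 624) (nat_lit 304) (nat_lit 0) (XT.nd (nat_lit 312) (nat_lit 152) (nat_lit 0) (XT.nd (nat_lit 156) (nat_lit 76) (nat_lit 0) (XT.nd (nat_lit 78) (nat_lit 0) (nat_lit 0) (XT.lf (nat_lit 0) (nat_lit 2611686273) (nat_lit 152) (nat_lit 18841399888) (nat_lit 228) (nat_lit 26286560213) (nat_lit 11) (nat_lit 5) (nat_lit 13) (nat_lit 5) (nat_lit 14) (nat_lit 5) (nat_lit 221) (nat_lit 213) (nat_lit 166)) (XT.lf (nat_lit 0) (nat_lit 27020366958) (nat_lit 152) (nat_lit 2713268011) (nat_lit 228) (nat_lit 22524120404) (nat_lit 11) (nat_lit 5) (nat_lit 13) (nat_lit 5) (nat_lit 14) (nat_lit 5) (nat_lit 222) (nat_lit 213) (nat_lit 165))) (XT.nd (nat_lit 78) (nat_lit 76) (nat_lit 0) (XT.lf (nat_lit 0) (nat_lit 39905778183) (nat_lit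 228) (nat_lit 3027530440) (nat_lit 76) (nat_lit 14422894345) (nat_lit 11) (nat_lit 5) (nat_lit 14) (nat_lit 5) (nat_lit 12) (nat_lit 4) (nat_lit 223) (nat_lit 213) (nat_lit 164)) (XT.lf (nat_lit 0) (nat_lit 24563938270) (nat_lit 76) (nat_lit 28180805929) (nat_lit 152) (nat_lit 10303565967) (nat_lit 10) (nat_lit 5) (nat_lit 11) (nat_lit 5) (nat_lit 12) (nat_lit 4) (nat_lit 224) (nat_lit 213) (nat_lit 163)))) (XT.nd (nat_lit 156) (nat_lit 0) (nat_lit 0) (XT.nd (nat_lit 78) (nat_lit 152) (nat_lit 0) (XT.lf (nat_lit 0) (nat_lit 56627205706) (nat_lit 76) (nat_lit 11035664185) (nat_lit 152) (nat_lit 1908403432) (nat_lit 10) (nat_lit 5) (nat_lit 11) (nat_lit 5) (nat_lit 12) (nat_lit 4) (nat_lit 225) (nat_lit 213) (nat_lit 162)) (XT.lf (nat_lit 0) (nat_lit 8193209989) (nat_lit 152) (nat_lit 59651790998) (nat_lit 76) (nat_lit 9009078712) (nat_lit 8) (nat_lit 5) (nat_lit 10) (nat_lit 5) (nat_lit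 9) (nat_lit 4) (nat_lit 226) (nat_lit 213) (nat_lit 161))) (XT.nd (nat_lit 78) (nat_lit 0) (nat_lit 0) (XT.lf (nat_lit 0) (nat_lit 20844733862) (nat_lit 152) (nat_lit 32458051935) (nat_lit 76) (nat_lit 31728406282) (nat_lit 8) (nat_lit 5) (nat_lit 10) (nat_lit 5) (nat_lit 9) (nat_lit 4) (nat_lit 227) (nat_lit 213) (nat_lit 160)) (XT.lf (nat_lit 0) (nat_lit 35390249782) (nat_lit 152) (nat_lit 1191312071) (nat_lit 76) (nat_lit 57853891155) (nat_lit 8) (nat_lit 5) (nat_lit 10) (nat_lit 5) (nat_lit 9) (nat_lit 4) (nat_lit 228) (nat_lit 213) (nat_lit 159))))) (XT.nd (nat_lit 312) (nat_lit 152) (nat_lit 0) (XT.nd (nat_lit 156) (nat_lit 76) (nat_lit 0) (XT.nd (nat_lit 78) (nat_lit 0) (nat_lit 0) (XT.lf (nat_lit 0) (nat_lit 38157185687) (nat_lit 76) (nat_lit 15537165928) (nat_lit 152) (nat_lit 51319506124) (nat_lit 7) (nat_lit 5) (nat_lit 8) (nat_lit 5) (nat_lit 9) (nat_lit 4) (nat_lit 229)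 (nat_lit 213) (nat_lit 158)) (XT.lf (nat_lit 0) (nat_lit 75164944116) (nat_lit 152) (nat_lit 33994973944) (nat_lit 0) (nat_lit 7955989851) (nat_lit 7) (nat_lit 5) (nat_lit 9) (nat_lit 4) (nat_lit 7) (nat_lit 4) (nat_lit 230) (nat_lit 213) (nat_lit 157))) (XT.nd (nat_lit 78) (nat_lit 0) (nat_lit 0) (XT.lf (nat_lit 0) (nat_lit 3349607299) (nat_lit 76) (nat_lit 97382373494) (nat_lit 76) (nat_lit 30169920464) (nat_lit 6) (nat_lit 4) (nat_lit 7) (nat_lit 5) (nat_lit 7) (nat_lit 4) (nat_lit 231) (nat_lit 213) (nat_lit 156)) (XT.lf (nat_lit 0) (nat_lit 50111949662) (nat_lit 76) (nat_lit 81796590699) (nat_lit 76) (nat_lit 14581095265) (nat_lit 6) (nat_lit 4) (nat_lit 7) (nat_lit 5) (nat_lit 7) (nat_lit 4) (nat_lit 232) (nat_lit 213) (nat_lit 155)))) (XT.nd (nat_lit 156) (nat_lit 76) (nat_lit 0) (XT.nd (nat_lit 78) (nat_lit 0) (nat_lit 0) (XT.lf (nat_lit 0) (nat_lit 3045839015) (nat_lit 152)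 (nat_lit 60669587121) (nat_lit 76) (nat_lit 100679679120) (nat_lit 5) (nat_lit 5) (nat_lit 7) (nat_lit 5) (nat_lit 6) (nat_lit 4) (nat_lit 233) (nat_lit 213) (nat_lit 154)) (XT.lf (nat_lit 0) (nat_lit 21821964531) (nat_lit 152) (nat_lit 20303217756) (nat_lit 76) (nat_lit 142757373708) (nat_lit 5) (nat_lit 5) (nat_lit 7) (nat_lit 5) (nat_lit 6) (nat_lit 4) (nat_lit 234) (nat_lit 213) (nat_lit 153))) (XT.nd (nat_lit 78) (nat_lit 0) (nat_lit 0) (XT.lf (nat_lit 0) (nat_lit 28667115872) (nat_lit 76) (nat_lit 15932678453) (nat_lit 152) (nat_lit 163665544136) (nat_lit 4) (nat_lit 5) (nat_lit 5) (nat_lit 5) (nat_lit 6) (nat_lit 4) (nat_lit 235) (nat_lit 213) (nat_lit 152)) (XT.lf (nat_lit 0) (nat_lit 72491956576) (nat_lit 152) (nat_lit 148372792420) (nat_lit 0) (nat_lit 14036146633) (nat_lit 4) (nat_lit 5) (nat_lit 6) (nat_lit 4) (nat_lit 4) (nat_lit 4) (nat_lit 236) (nat_lit 213) (nat_lit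 151))))))))
noncomputable def xc40 : XT := (XT.nd (nat_lit 2418) (nat_lit 0) (nat_lit 0) (XT.nd (nat_lit 1170) (nat_lit 76) (nat_lit 0) (XT.nd (nat_lit 546) (nat_lit 76) (nat_lit 0) (XT.nd (nat_lit 234) (nat_lit 76) (nat_lit 0) (XT.nd (nat_lit 78) (nat_lit 0) (nat_lit 0) (XT.lf (nat_lit 0) (nat_lit 105325156276) (nat_lit 152) (nat_lit 113225022354) (nat_lit 0) (nat_lit 46868031018) (nat_lit 4) (nat_lit 5) (nat_lit 6) (nat_lit 4) (nat_lit 4) (nat_lit 4) (nat_lit 237) (nat_lit 213) (nat_lit 150)) (XT.nd (nat_lit 78) (nat_lit 0) (nat_lit 0) (XT.lf (nat_lit 0) (nat_lit 143082043878) (nat_lit 152) (nat_lit 72807500392) (nat_lit 0) (nat_lit 84623774867) (nat_lit 4) (nat_lit 5) (nat_lit 6) (nat_lit 4) (nat_lit 4) (nat_lit 4) (nat_lit 238) (nat_lit 213) (nat_lit 149)) (XT.lf (nat_lit 0) (nat_lit 186501341095) (nat_lit 152) (nat_lit 26329448930) (nat_lit 0) (nat_lit 128042077518) (nat_lit 4)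 (nat_lit 5) (nat_lit 6) (nat_lit 4) (nat_lit 4) (nat_lit 4) (nat_lit 239) (nat_lit 213) (nat_lit 148)))) (XT.nd (nat_lit 156) (nat_lit 0) (nat_lit 0) (XT.nd (nat_lit 78) (nat_lit 0) (nat_lit 0) (XT.lf (nat_lit 0) (nat_lit 29768700813) (nat_lit 76) (nat_lit 207896513523) (nat_lit 76) (nat_lit 149436385104) (nat_lit 3) (nat_lit 4) (nat_lit 4) (nat_lit 5) (nat_lit 4) (nat_lit 4) (nat_lit 240) (nat_lit 213) (nat_lit 147)) (XT.lf (nat_lit 0) (nat_lit 97238901958) (nat_lit 76) (nat_lit 200640157026) (nat_lit 76) (nat_lit 142179276571) (nat_lit 3) (nat_lit 4) (nat_lit 4) (nat_lit 5) (nat_lit 4) (nat_lit 4) (nat_lit 241) (nat_lit 213) (nat_lit 146))) (XT.nd (nat_lit 78) (nat_lit 0) (nat_lit 0) (XT.lf (nat_lit 0) (nat_lit 174828118420) (nat_lit 76) (nat_lit 192296060447) (nat_lit 76) (nat_lit 133834526048) (nat_lit 3) (nat_lit 4) (nat_lit 4) (nat_lit 5) (nat_lit 4) (nat_lit 4) (nat_lit 242)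 (nat_lit 213) (nat_lit 145)) (XT.lf (nat_lit 0) (nat_lit 264054400087) (nat_lit 76) (nat_lit 182700969721) (nat_lit 76) (nat_lit 124238866675) (nat_lit 3) (nat_lit 4) (nat_lit 4) (nat_lit 5) (nat_lit 4) (nat_lit 4) (nat_lit 243) (nat_lit 213) (nat_lit 144))))) (XT.nd (nat_lit 312) (nat_lit 76) (nat_lit 0) (XT.nd (nat_lit 156) (nat_lit 0) (nat_lit 0) (XT.nd (nat_lit 78) (nat_lit 0) (nat_lit 0) (XT.lf (nat_lit 0) (nat_lit 366663478557) (nat_lit 76) (nat_lit 171667154813) (nat_lit 76) (nat_lit 113204557291) (nat_lit 3) (nat_lit 4) (nat_lit 4) (nat_lit 5) (nat_lit 4) (nat_lit 4) (nat_lit 244) (nat_lit 213) (nat_lit 143)) (XT.lf (nat_lit 0) (nat_lit 484662922756) (nat_lit 76) (nat_lit 158978736735) (nat_lit 76) (nat_lit 100515709234) (nat_lit 3) (nat_lit 4) (nat_lit 4) (nat_lit 5) (nat_lit 4) (nat_lit 4) (nat_lit 245) (nat_lit 213) (nat_lit 142))) (XT.nd (nat_lit 78) (nat_lit 0) (nat_lit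 0) (XT.lf (nat_lit 0) (nat_lit 620361417462) (nat_lit 76) (nat_lit 144387463830) (nat_lit 76) (nat_lit 85924062434) (nat_lit 3) (nat_lit 4) (nat_lit 4) (nat_lit 5) (nat_lit 4) (nat_lit 4) (nat_lit 246) (nat_lit 213) (nat_lit 141)) (XT.lf (nat_lit 0) (nat_lit 776413933224) (nat_lit 76) (nat_lit 127607854670) (nat_lit 76) (nat_lit 69144128149) (nat_lit 3) (nat_lit 4) (nat_lit 4) (nat_lit 5) (nat_lit 4) (nat_lit 4) (nat_lit 247) (nat_lit 213) (nat_lit 140)))) (XT.nd (nat_lit 156) (nat_lit 76) (nat_lit 0) (XT.nd (nat_lit 78) (nat_lit 0) (nat_lit 0) (XT.lf (nat_lit 0) (nat_lit 955873671437) (nat_lit 76) (nat_lit 108311612555) (nat_lit 76) (nat_lit 49847603316) (nat_lit 3) (nat_lit 4) (nat_lit 4) (nat_lit 5) (nat_lit 4) (nat_lit 4) (nat_lit 248) (nat_lit 213) (nat_lit 139)) (XT.lf (nat_lit 0) (nat_lit 1162251800892) (nat_lit 76) (nat_lit 86121202314) (nat_lit 76) (nat_lit 27656947232) (nat_lit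 3) (nat_lit 4) (nat_lit 4) (nat_lit 5) (nat_lit 4) (nat_lit 4) (nat_lit 249) (nat_lit 213) (nat_lit 138))) (XT.nd (nat_lit 78) (nat_lit 76) (nat_lit 0) (XT.lf (nat_lit 0) (nat_lit 1399586154557) (nat_lit 76) (nat_lit 60602463745) (nat_lit 76) (nat_lit 2137994888) (nat_lit 3) (nat_lit 4) (nat_lit 4) (nat_lit 5) (nat_lit 4) (nat_lit 4) (nat_lit 250) (nat_lit 213) (nat_lit 137)) (XT.lf (nat_lit 0) (nat_lit 24786245403) (nat_lit 152) (nat_lit 5174227131) (nat_lit 76) (nat_lit 1646438340606) (nat_lit 2) (nat_lit 5) (nat_lit 4) (nat_lit 5) (nat_lit 3) (nat_lit 4) (nat_lit 251) (nat_lit 213) (nat_lit 136)))))) (XT.nd (nat_lit 624) (nat_lit 0) (nat_lit 0) (XT.nd (nat_lit 312) (nat_lit 0) (nat_lit 0) (XT.nd (nat_lit 156) (nat_lit 0) (nat_lit 0) (XT.nd (nat_lit 78) (nat_lit 0) (nat_lit 0) (XT.lf (nat_lit 0) (nat_lit 58654584957) (nat_lit 152) (nat_lit 1855627720139) (nat_lit 0) (nat_lit 7815614180)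 (nat_lit 1) (nat_lit 5) (nat_lit 3) (nat_lit 4) (nat_lit 1) (nat_lit 4) (nat_lit 252) (nat_lit 213) (nat_lit 135)) (XT.lf (nat_lit 0) (nat_lit 99313011052) (nat_lit 152) (nat_lit 2056608487380) (nat_lit 0) (nat_lit 48473918048) (nat_lit 1) (nat_lit 5) (nat_lit 3) (nat_lit 4) (nat_lit 1) (nat_lit 4) (nat_lit 253) (nat_lit 213) (nat_lit 134))) (XT.nd (nat_lit 78) (nat_lit 0) (nat_lit 0) (XT.lf (nat_lit 0) (nat_lit 146070023587) (nat_lit 152) (nat_lit 2287736717420) (nat_lit 0) (nat_lit 95230824299) (nat_lit 1) (nat_lit 5) (nat_lit 3) (nat_lit 4) (nat_lit 1) (nat_lit 4) (nat_lit 254) (nat_lit 213) (nat_lit 133)) (XT.lf (nat_lit 0) (nat_lit 199840433679) (nat_lit 152) (nat_lit 2553534484328) (nat_lit 0) (nat_lit 149001141969) (nat_lit 1) (nat_lit 5) (nat_lit 3) (nat_lit 4) (nat_lit 1) (nat_lit 4) (nat_lit 255) (nat_lit 213) (nat_lit 132)))) (XT.nd (nat_lit 156) (nat_lit 0) (nat_lit 0)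 (XT.nd (nat_lit 78) (nat_lit 0) (nat_lit 0) (XT.lf (nat_lit 0) (nat_lit 261676271088) (nat_lit 152) (nat_lit 2859202179193) (nat_lit 0) (nat_lit 210836899013) (nat_lit 1) (nat_lit 5) (nat_lit 3) (nat_lit 4) (nat_lit 1) (nat_lit 4) (nat_lit 256) (nat_lit 213) (nat_lit 131)) (XT.lf (nat_lit 0) (nat_lit 332787367418) (nat_lit 152) (nat_lit 3210720256917) (nat_lit 0) (nat_lit 281947925459) (nat_lit 1) (nat_lit 5) (nat_lit 3) (nat_lit 4) (nat_lit 1) (nat_lit 4) (nat_lit 257) (nat_lit 213) (nat_lit 130))) (XT.nd (nat_lit 78) (nat_lit 0) (nat_lit 0) (XT.lf (nat_lit 0) (nat_lit 414565026726) (nat_lit 152) (nat_lit 3614966245106) (nat_lit 0) (nat_lit 363725523998) (nat_lit 1) (nat_lit 5) (nat_lit 3) (nat_lit 4) (nat_lit 1) (nat_lit 4) (nat_lit 258) (nat_lit 213) (nat_lit 129)) (XT.lf (nat_lit 0) (nat_lit 508609246694) (nat_lit 152) (nat_lit 4079849304399) (nat_lit 0) (nat_lit 457769691125)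 (nat_lit 1) (nat_lit 5) (nat_lit 3) (nat_lit 4) (nat_lit 1) (nat_lit 4) (nat_lit 259) (nat_lit 213) (nat_lit 128))))) (XT.nd (nat_lit 312) (nat_lit 0) (nat_lit 0) (XT.nd (nat_lit 156) (nat_lit 0) (nat_lit 0) (XT.nd (nat_lit 78) (nat_lit 0) (nat_lit 0) (XT.lf (nat_lit 0) (nat_lit 616760022931) (nat_lit 152) (nat_lit 4614464972913) (nat_lit 0) (nat_lit 565920421412) (nat_lit 1) (nat_lit 5) (nat_lit 3) (nat_lit 4) (nat_lit 1) (nat_lit 4) (nat_lit 260) (nat_lit 213) (nat_lit 127)) (XT.lf (nat_lit 0) (nat_lit 741133348885) (nat_lit 152) (nat_lit 5229273122423) (nat_lit 0) (nat_lit 690293707410) (nat_lit 1) (nat_lit 5) (nat_lit 3) (nat_lit 4) (nat_lit 1) (nat_lit 4) (nat_lit 261) (nat_lit 213) (nat_lit 126))) (XT.nd (nat_lit 78) (nat_lit 0) (nat_lit 0) (XT.lf (nat_lit 0) (nat_lit 884162615716) (nat_lit 152) (nat_lit 5936302608028) (nat_lit 0) (nat_lit 833322939496) (nat_lit 1) (nat_lit 5)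 (nat_lit 3) (nat_lit 4) (nat_lit 1) (nat_lit 4) (nat_lit 262) (nat_lit 213) (nat_lit 125)) (XT.lf (nat_lit 0) (nat_lit 1048646222122) (nat_lit 152) (nat_lit 6749386615316) (nat_lit 0) (nat_lit 997806515690) (nat_lit 1) (nat_lit 5) (nat_lit 3) (nat_lit 4) (nat_lit 1) (nat_lit 4) (nat_lit 263) (nat_lit 213) (nat_lit 124)))) (XT.nd (nat_lit 156) (nat_lit 0) (nat_lit 0) (XT.nd (nat_lit 78) (nat_lit 0) (nat_lit 0) (XT.lf (nat_lit 0) (nat_lit 1237802325621) (nat_lit 152) (nat_lit 7684433309646) (nat_lit 0) (nat_lit 1186962592917) (nat_lit 1) (nat_lit 5) (nat_lit 3) (nat_lit 4) (nat_lit 1) (nat_lit 4) (nat_lit 264) (nat_lit 213) (nat_lit 123)) (XT.lf (nat_lit 0) (nat_lit 1455331806498) (nat_lit 152) (nat_lit 8759737082865) (nat_lit 0) (nat_lit 1404492050948) (nat_lit 1) (nat_lit 5) (nat_lit 3) (nat_lit 4) (nat_lit 1) (nat_lit 4) (nat_lit 265) (nat_lit 213) (nat_lit 122))) (XT.nd (nat_lit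 78) (nat_lit 0) (nat_lit 0) (XT.lf (nat_lit 0) (nat_lit 1705490676335) (nat_lit 152) (nat_lit 9996336487058) (nat_lit 0) (nat_lit 1654650900920) (nat_lit 1) (nat_lit 5) (nat_lit 3) (nat_lit 4) (nat_lit 1) (nat_lit 4) (nat_lit 266) (nat_lit 213) (nat_lit 121)) (XT.lf (nat_lit 0) (nat_lit 1993173347803) (nat_lit 152) (nat_lit 11418425858392) (nat_lit 0) (nat_lit 1942333555114) (nat_lit 1) (nat_lit 5) (nat_lit 3) (nat_lit 4) (nat_lit 1) (nat_lit 4) (nat_lit 267) (nat_lit 213) (nat_lit 120))))))) (XT.nd (nat_lit 27768) (nat_lit 0) (nat_lit 228) (XT.nd (nat_lit 27144) (nat_lit 0) (nat_lit 760) (XT.nd (nat_lit 234) (nat_lit 0) (nat_lit 0) (XT.nd (nat_lit 78) (nat_lit 0) (nat_lit 0) (XT.lf (nat_lit 0) (nat_lit 2324008394909) (nat_lit 152) (nat_lit 13053828684569) (nat_lit 0) (nat_lit 2273168587200) (nat_lit 1) (nat_lit 5) (nat_lit 3) (nat_lit 4) (nat_lit 1) (nat_lit 4) (nat_lit 268) (nat_lit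 213) (nat_lit 119)) (XT.nd (nat_lit 78) (nat_lit 0) (nat_lit 0) (XT.lf (nat_lit 0) (nat_lit 2704468677271) (nat_lit 152) (nat_lit 14934541977405) (nat_lit 0) (nat_lit 2653628856500) (nat_lit 1) (nat_lit 5) (nat_lit 3) (nat_lit 4) (nat_lit 1) (nat_lit 4) (nat_lit 269) (nat_lit 213) (nat_lit 118)) (XT.lf (nat_lit 0) (nat_lit 3141997983022) (nat_lit 152) (nat_lit 17097362301324) (nat_lit 0) (nat_lit 3091158150892) (nat_lit 1) (nat_lit 5) (nat_lit 3) (nat_lit 4) (nat_lit 1) (nat_lit 4) (nat_lit 270) (nat_lit 213) (nat_lit 117)))) (XT.nd (nat_lit 1170) (nat_lit 0) (nat_lit 0) (XT.nd (nat_lit 1092) (nat_lit 0) (nat_lit 0) (XT.lf (nat_lit 0) (nat_lit 3645156668143) (nat_lit 152) (nat_lit 19584605706143) (nat_lit 0) (nat_lit 3594316826137) (nat_lit 1) (nat_lit 5) (nat_lit 3) (nat_lit 4) (nat_lit 1) (nat_lit 4) (nat_lit 271) (nat_lit 213) (nat_lit 116)) (XT.lf (nat_lit 0) (nat_lit 27082492860142)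 (nat_lit 152) (nat_lit 135441429507533) (nat_lit 0) (nat_lit 27031652961598) (nat_lit 1) (nat_lit 5) (nat_lit 3) (nat_lit 4) (nat_lit 1) (nat_lit 4) (nat_lit 285) (nat_lit 213) (nat_lit 102))) (XT.nd (nat_lit 25662) (nat_lit 0) (nat_lit 1368) (XT.lf (nat_lit 0) (nat_lit 31176725680398) (nat_lit 152) (nat_lit 155680283182222) (nat_lit 0) (nat_lit 31125885780639) (nat_lit 1) (nat_lit 5) (nat_lit 3) (nat_lit 4) (nat_lit 1) (nat_lit 4) (nat_lit 286) (nat_lit 213) (nat_lit 101)) (XT.lf (nat_lit 0) (nat_lit 6928771700) (nat_lit 0) (nat_lit 6928771700) (nat_lit 228) (nat_lit 668044252) (nat_lit 19) (nat_lit 5) (nat_lit 19) (nat_lit 3) (nat_lit 22) (nat_lit 3) (nat_lit 214) (nat_lit 214) (nat_lit 172))))) (XT.nd (nat_lit 312) (nat_lit 304) (nat_lit 0) (XT.nd (nat_lit 156) (nat_lit 304) (nat_lit 0) (XT.nd (nat_lit 78) (nat_lit 0) (nat_lit 0) (XT.lf (nat_lit 0) (nat_lit 28342813468) (nat_lit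 0) (nat_lit 1515537491) (nat_lit 228) (nat_lit 1361234669) (nat_lit 19) (nat_lit 5) (nat_lit 19) (nat_lit 3) (nat_lit 22) (nat_lit 3) (nat_lit 215) (nat_lit 214) (nat_lit 171)) (XT.lf (nat_lit 76) (nat_lit 11805846198) (nat_lit 0) (nat_lit 21519803021) (nat_lit 304) (nat_lit 237357108) (nat_lit 20) (nat_lit 5) (nat_lit 19) (nat_lit 5) (nat_lit 23) (nat_lit 5) (nat_lit 216) (nat_lit 214) (nat_lit 170))) (XT.nd (nat_lit 78) (nat_lit 0) (nat_lit 76) (XT.lf (nat_lit 0) (nat_lit 1180180680) (nat_lit 304) (nat_lit 7352871235) (nat_lit 380) (nat_lit 27685581805) (nat_lit 15) (nat_lit 5) (nat_lit 19) (nat_lit 5) (nat_lit 20) (nat_lit 5) (nat_lit 217) (nat_lit 214) (nat_lit 169)) (XT.lf (nat_lit 0) (nat_lit 3480215714) (nat_lit 304) (nat_lit 29403622033) (nat_lit 76) (nat_lit 6283032757) (nat_lit 16) (nat_lit 5) (nat_lit 20) (nat_lit 5) (nat_lit 17) (nat_lit 5) (nat_lit 218) (nat_lit 214) (nat_lit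 168)))) (XT.nd (nat_lit 156) (nat_lit 152) (nat_lit 0) (XT.nd (nat_lit 78) (nat_lit 228) (nat_lit 0) (XT.lf (nat_lit 0) (nat_lit 6925915667) (nat_lit 304) (nat_lit 12659730233) (nat_lit 76) (nat_lit 22851672571) (nat_lit 16) (nat_lit 5) (nat_lit 20) (nat_lit 5) (nat_lit 17) (nat_lit 5) (nat_lit 219) (nat_lit 214) (nat_lit 167)) (XT.lf (nat_lit 0) (nat_lit 7232167405) (nat_lit 228) (nat_lit 3948525423) (nat_lit 304) (nat_lit 34973872355) (nat_lit 13) (nat_lit 5) (nat_lit 16) (nat_lit 5) (nat_lit 17) (nat_lit 5) (nat_lit 220) (nat_lit 214) (nat_lit 166))) (XT.nd (nat_lit 78) (nat_lit 152) (nat_lit 0) (XT.lf (nat_lit 0) (nat_lit 17341466347) (nat_lit 304) (nat_lit 19420263849) (nat_lit 76) (nat_lit 13477558157) (nat_lit 13) (nat_lit 5) (nat_lit 17) (nat_lit 5) (nat_lit 14) (nat_lit 5) (nat_lit 221) (nat_lit 214) (nat_lit 165)) (XT.lf (nat_lit 0) (nat_lit 3086921277) (nat_lit 152) (nat_lit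 21649529486) (nat_lit 228) (nat_lit 30153804067) (nat_lit 11) (nat_lit 5) (nat_lit 13) (nat_lit 5) (nat_lit 14) (nat_lit 5) (nat_lit 222) (nat_lit 214) (nat_lit 164)))))) (XT.nd (nat_lit 624) (nat_lit 228) (nat_lit 0) (XT.nd (nat_lit 312) (nat_lit 228) (nat_lit 0) (XT.nd (nat_lit 156) (nat_lit 76) (nat_lit 0) (XT.nd (nat_lit 78) (nat_lit 0) (nat_lit 0) (XT.lf (nat_lit 0) (nat_lit 31146015099) (nat_lit 152) (nat_lit 3104536138) (nat_lit 228) (nat_lit 25836877440) (nat_lit 11) (nat_lit 5) (nat_lit 13) (nat_lit 5) (nat_lit 14) (nat_lit 5) (nat_lit 223) (nat_lit 214) (nat_lit 163)) (XT.lf (nat_lit 0) (nat_lit 45941664076) (nat_lit 228) (nat_lit 3411284282) (nat_lit 76) (nat_lit 16598782747) (nat_lit 11) (nat_lit 5) (nat_lit 14) (nat_lit 5) (nat_lit 12) (nat_lit 4) (nat_lit 224) (nat_lit 214) (nat_lit 162))) (XT.nd (nat_lit 78) (nat_lit 0) (nat_lit 0) (XT.lf (nat_lit 0) (nat_lit 28315705837)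 (nat_lit 76) (nat_lit 32387026567) (nat_lit 152) (nat_lit 11795535467) (nat_lit 10) (nat_lit 5) (nat_lit 11) (nat_lit 5) (nat_lit 12) (nat_lit 4) (nat_lit 225) (nat_lit 214) (nat_lit 161)) (XT.lf (nat_lit 0) (nat_lit 65179701195) (nat_lit 76) (nat_lit 12672839681) (nat_lit 152) (nat_lit 2148085341) (nat_lit 10) (nat_lit 5) (nat_lit 11) (nat_lit 5) (nat_lit 12) (nat_lit 4) (nat_lit 226) (nat_lit 214) (nat_lit 160)))) (XT.nd (nat_lit 156) (nat_lit 76) (nat_lit 0) (XT.nd (nat_lit 78) (nat_lit 0) (nat_lit 0) (XT.lf (nat_lit 0) (nat_lit 9462424418) (nat_lit 152) (nat_lit 68534308330) (nat_lit 76) (nat_lit 10379195588) (nat_lit 8) (nat_lit 5) (nat_lit 10) (nat_lit 5) (nat_lit 9) (nat_lit 4) (nat_lit 227) (nat_lit 214) (nat_lit 159)) (XT.lf (nat_lit 0) (nat_lit 24006429100) (nat_lit 152) (nat_lit 37270019450) (nat_lit 76) (nat_lit 36503975980) (nat_lit 8) (nat_lit 5) (nat_lit 10) (nat_lit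 5) (nat_lit 9) (nat_lit 4) (nat_lit 228) (nat_lit 214) (nat_lit 158))) (XT.nd (nat_lit 78) (nat_lit 76) (nat_lit 0) (XT.lf (nat_lit 0) (nat_lit 40729209125) (nat_lit 152) (nat_lit 1320669512) (nat_lit 76) (nat_lit 66546156355) (nat_lit 8) (nat_lit 5) (nat_lit 10) (nat_lit 5) (nat_lit 9) (nat_lit 4) (nat_lit 229) (nat_lit 214) (nat_lit 157)) (XT.lf (nat_lit 0) (nat_lit 43927860212) (nat_lit 76) (nat_lit 17849048124) (nat_lit 152) (nat_lit 58984617306) (nat_lit 7) (nat_lit 5) (nat_lit 8) (nat_lit 5) (nat_lit 9) (nat_lit 4) (nat_lit 230) (nat_lit 214) (nat_lit 156))))) (XT.nd (nat_lit 312) (nat_lit 76) (nat_lit 0) (XT.nd (nat_lit 156) (nat_lit 76) (nat_lit 0) (XT.nd (nat_lit 78) (nat_lit 76) (nat_lit 0) (XT.lf (nat_lit 0) (nat_lit 86465057910) (nat_lit 152) (nat_lit 39050104031) (nat_lit 0) (nat_lit 9164195755) (nat_lit 7) (nat_lit 5) (nat_lit 9) (nat_lit 4) (nat_lit 7) (nat_lit 4) (nat_lit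 231) (nat_lit 214) (nat_lit 155)) (XT.lf (nat_lit 0) (nat_lit 3894159126) (nat_lit 76) (nat_lit 111971425264) (nat_lit 76) (nat_lit 34667917541) (nat_lit 6) (nat_lit 4) (nat_lit 7) (nat_lit 5) (nat_lit 7) (nat_lit 4) (nat_lit 232) (nat_lit 214) (nat_lit 154))) (XT.nd (nat_lit 78) (nat_lit 76) (nat_lit 0) (XT.lf (nat_lit 0) (nat_lit 57665360139) (nat_lit 76) (nat_lit 94050162561) (nat_lit 76) (nat_lit 16744354343) (nat_lit 6) (nat_lit 4) (nat_lit 7) (nat_lit 5) (nat_lit 7) (nat_lit 4) (nat_lit 233) (nat_lit 214) (nat_lit 153)) (XT.lf (nat_lit 0) (nat_lit 3521651392) (nat_lit 152) (nat_lit 69736258153) (nat_lit 76) (nat_lit 115793546362) (nat_lit 5) (nat_lit 5) (nat_lit 7) (nat_lit 5) (nat_lit 6) (nat_lit 4) (nat_lit 234) (nat_lit 214) (nat_lit 152)))) (XT.nd (nat_lit 156) (nat_lit 0) (nat_lit 0) (XT.nd (nat_lit 78) (nat_lit 76) (nat_lit 0) (XT.lf (nat_lit 0) (nat_lit 25111725754) (nat_lit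 152) (nat_lit 23319337780) (nat_lit 76) (nat_lit 164181340959) (nat_lit 5) (nat_lit 5) (nat_lit 7) (nat_lit 5) (nat_lit 6) (nat_lit 4) (nat_lit 235) (nat_lit 214) (nat_lit 151)) (XT.lf (nat_lit 0) (nat_lit 32995211227) (nat_lit 76) (nat_lit 18310031560) (nat_lit 152) (nat_lit 188197518096) (nat_lit 4) (nat_lit 5) (nat_lit 5) (nat_lit 5) (nat_lit 6) (nat_lit 4) (nat_lit 236) (nat_lit 214) (nat_lit 150))) (XT.nd (nat_lit 78) (nat_lit 0) (nat_lit 0) (XT.lf (nat_lit 0) (nat_lit 83379662172) (nat_lit 152) (nat_lit 170602722841) (nat_lit 0) (nat_lit 16151509057) (nat_lit 4) (nat_lit 5) (nat_lit 6) (nat_lit 4) (nat_lit 4) (nat_lit 4) (nat_lit 237) (nat_lit 214) (nat_lit 149)) (XT.lf (nat_lit 0) (nat_lit 121136027204) (nat_lit 152) (nat_lit 130186177062) (nat_lit 0) (nat_lit 53906879522) (nat_lit 4) (nat_lit 5) (nat_lit 6) (nat_lit 4) (nat_lit 4) (nat_lit 4) (nat_lit 238) (nat_lit 214) (nat_lit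 148))))))))
noncomputable def xc41 : XT := (XT.nd (nat_lit 2418) (nat_lit 0) (nat_lit 0) (XT.nd (nat_lit 1170) (nat_lit 0) (nat_lit 0) (XT.nd (nat_lit 546) (nat_lit 152) (nat_lit 0) (XT.nd (nat_lit 234) (nat_lit 0) (nat_lit 0) (XT.nd (nat_lit 78) (nat_lit 76) (nat_lit 0) (XT.lf (nat_lit 0) (nat_lit 164554870013) (nat_lit 152) (nat_lit 83708974454) (nat_lit 0) (nat_lit 97324857490) (nat_lit 4) (nat_lit 5) (nat_lit 6) (nat_lit 4) (nat_lit 4) (nat_lit 4) (nat_lit 239) (nat_lit 214) (nat_lit 147)) (XT.nd (nat_lit 78) (nat_lit 76) (nat_lit 0) (XT.lf (nat_lit 0) (nat_lit 214485689697) (nat_lit 152) (nat_lit 30261778446) (nat_lit 0) (nat_lit 147254925138) (nat_lit 4) (nat_lit 5) (nat_lit 6) (nat_lit 4) (nat_lit 4) (nat_lit 4) (nat_lit 240) (nat_lit 214) (nat_lit 146)) (XT.lf (nat_lit 0) (nat_lit 34250317039) (nat_lit 76) (nat_lit 239073309149) (nat_lit 76) (nat_lit 171841890646) (nat_lit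 3) (nat_lit 4) (nat_lit 4) (nat_lit 5) (nat_lit 4) (nat_lit 4) (nat_lit 241) (nat_lit 214) (nat_lit 145)))) (XT.nd (nat_lit 156) (nat_lit 0) (nat_lit 0) (XT.nd (nat_lit 78) (nat_lit 0) (nat_lit 0) (XT.lf (nat_lit 0) (nat_lit 111838920820) (nat_lit 76) (nat_lit 230729501100) (nat_lit 76) (nat_lit 163497513950) (nat_lit 3) (nat_lit 4) (nat_lit 4) (nat_lit 5) (nat_lit 4) (nat_lit 4) (nat_lit 242) (nat_lit 214) (nat_lit 144)) (XT.lf (nat_lit 0) (nat_lit 201064669721) (nat_lit 76) (nat_lit 221134661271) (nat_lit 76) (nat_lit 153902179645) (nat_lit 3) (nat_lit 4) (nat_lit 4) (nat_lit 5) (nat_lit 4) (nat_lit 4) (nat_lit 243) (nat_lit 214) (nat_lit 143))) (XT.nd (nat_lit 78) (nat_lit 0) (nat_lit 0) (XT.lf (nat_lit 0) (nat_lit 303673284915) (nat_lit 76) (nat_lit 210101064533) (nat_lit 76) (nat_lit 142868152928) (nat_lit 3) (nat_lit 4) (nat_lit 4) (nat_lit 5) (nat_lit 4) (nat_lit 4) (nat_lit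 244) (nat_lit 214) (nat_lit 142)) (XT.lf (nat_lit 0) (nat_lit 421672326267) (nat_lit 76) (nat_lit 197412836169) (nat_lit 76) (nat_lit 130179550669) (nat_lit 3) (nat_lit 4) (nat_lit 4) (nat_lit 5) (nat_lit 4) (nat_lit 4) (nat_lit 245) (nat_lit 214) (nat_lit 141))))) (XT.nd (nat_lit 312) (nat_lit 152) (nat_lit 0) (XT.nd (nat_lit 156) (nat_lit 0) (nat_lit 0) (XT.nd (nat_lit 78) (nat_lit 0) (nat_lit 0) (XT.lf (nat_lit 0) (nat_lit 557370470670) (nat_lit 76) (nat_lit 182821728231) (nat_lit 76) (nat_lit 115588117606) (nat_lit 3) (nat_lit 4) (nat_lit 4) (nat_lit 5) (nat_lit 4) (nat_lit 4) (nat_lit 246) (nat_lit 214) (nat_lit 140)) (XT.lf (nat_lit 0) (nat_lit 713422681821) (nat_lit 76) (nat_lit 166042262522) (nat_lit 76) (nat_lit 98808369179) (nat_lit 3) (nat_lit 4) (nat_lit 4) (nat_lit 5) (nat_lit 4) (nat_lit 4) (nat_lit 247) (nat_lit 214) (nat_lit 139))) (XT.nd (nat_lit 78) (nat_lit 0) (nat_lit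 0) (XT.lf (nat_lit 0) (nat_lit 892882155155) (nat_lit 76) (nat_lit 146746145147) (nat_lit 76) (nat_lit 79512005962) (nat_lit 3) (nat_lit 4) (nat_lit 4) (nat_lit 5) (nat_lit 4) (nat_lit 4) (nat_lit 248) (nat_lit 214) (nat_lit 138)) (XT.lf (nat_lit 0) (nat_lit 1099260054281) (nat_lit 76) (nat_lit 124555843375) (nat_lit 76) (nat_lit 57321490414) (nat_lit 3) (nat_lit 4) (nat_lit 4) (nat_lit 5) (nat_lit 4) (nat_lit 4) (nat_lit 249) (nat_lit 214) (nat_lit 137)))) (XT.nd (nat_lit 156) (nat_lit 152) (nat_lit 0) (XT.nd (nat_lit 78) (nat_lit 0) (nat_lit 0) (XT.lf (nat_lit 0) (nat_lit 1336594207659) (nat_lit 76) (nat_lit 99037199127) (nat_lit 76) (nat_lit 31802660274) (nat_lit 3) (nat_lit 4) (nat_lit 4) (nat_lit 5) (nat_lit 4) (nat_lit 4) (nat_lit 250) (nat_lit 214) (nat_lit 136)) (XT.lf (nat_lit 0) (nat_lit 1609528109595) (nat_lit 76) (nat_lit 69690934581) (nat_lit 76) (nat_lit 2456234083) (nat_lit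 3) (nat_lit 4) (nat_lit 4) (nat_lit 5) (nat_lit 4) (nat_lit 4) (nat_lit 251) (nat_lit 214) (nat_lit 135))) (XT.nd (nat_lit 78) (nat_lit 76) (nat_lit 0) (XT.lf (nat_lit 0) (nat_lit 28506130933) (nat_lit 152) (nat_lit 5946659551) (nat_lit 76) (nat_lit 1893405547073) (nat_lit 2) (nat_lit 5) (nat_lit 4) (nat_lit 5) (nat_lit 3) (nat_lit 4) (nat_lit 252) (nat_lit 214) (nat_lit 134)) (XT.lf (nat_lit 0) (nat_lit 67454683634) (nat_lit 152) (nat_lit 2133968134163) (nat_lit 0) (nat_lit 8989498169) (nat_lit 1) (nat_lit 5) (nat_lit 3) (nat_lit 4) (nat_lit 1) (nat_lit 4) (nat_lit 253) (nat_lit 214) (nat_lit 133)))))) (XT.nd (nat_lit 624) (nat_lit 0) (nat_lit 0) (XT.nd (nat_lit 312) (nat_lit 0) (nat_lit 0) (XT.nd (nat_lit 156) (nat_lit 0) (nat_lit 0) (XT.nd (nat_lit 78) (nat_lit 0) (nat_lit 0) (XT.lf (nat_lit 0) (nat_lit 114211624391) (nat_lit 152) (nat_lit 2365096504836) (nat_lit 0) (nat_lit 55746346504)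 (nat_lit 1) (nat_lit 5) (nat_lit 3) (nat_lit 4) (nat_lit 1) (nat_lit 4) (nat_lit 254) (nat_lit 214) (nat_lit 132)) (XT.lf (nat_lit 0) (nat_lit 167981972066) (nat_lit 152) (nat_lit 2630894394033) (nat_lit 0) (nat_lit 109516613813) (nat_lit 1) (nat_lit 5) (nat_lit 3) (nat_lit 4) (nat_lit 1) (nat_lit 4) (nat_lit 255) (nat_lit 214) (nat_lit 131))) (XT.nd (nat_lit 78) (nat_lit 0) (nat_lit 0) (XT.lf (nat_lit 0) (nat_lit 229817755200) (nat_lit 152) (nat_lit 2936562195238) (nat_lit 0) (nat_lit 171352327064) (nat_lit 1) (nat_lit 5) (nat_lit 3) (nat_lit 4) (nat_lit 1) (nat_lit 4) (nat_lit 256) (nat_lit 214) (nat_lit 130)) (XT.lf (nat_lit 0) (nat_lit 300928804334) (nat_lit 152) (nat_lit 3288080365430) (nat_lit 0) (nat_lit 242463315429) (nat_lit 1) (nat_lit 5) (nat_lit 3) (nat_lit 4) (nat_lit 1) (nat_lit 4) (nat_lit 257) (nat_lit 214) (nat_lit 129)))) (XT.nd (nat_lit 156) (nat_lit 0) (nat_lit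 0) (XT.nd (nat_lit 78) (nat_lit 0) (nat_lit 0) (XT.lf (nat_lit 0) (nat_lit 382706422602) (nat_lit 152) (nat_lit 3692326434026) (nat_lit 0) (nat_lit 324240880855) (nat_lit 1) (nat_lit 5) (nat_lit 3) (nat_lit 4) (nat_lit 1) (nat_lit 4) (nat_lit 258) (nat_lit 214) (nat_lit 128)) (XT.lf (nat_lit 0) (nat_lit 476750606884) (nat_lit 152) (nat_lit 4157209563239) (nat_lit 0) (nat_lit 418285019187) (nat_lit 1) (nat_lit 5) (nat_lit 3) (nat_lit 4) (nat_lit 1) (nat_lit 4) (nat_lit 259) (nat_lit 214) (nat_lit 127))) (XT.nd (nat_lit 78) (nat_lit 0) (nat_lit 0) (XT.lf (nat_lit 0) (nat_lit 584901352089) (nat_lit 152) (nat_lit 4691825292552) (nat_lit 0) (nat_lit 526435724436) (nat_lit 1) (nat_lit 5) (nat_lit 3) (nat_lit 4) (nat_lit 1) (nat_lit 4) (nat_lit 260) (nat_lit 214) (nat_lit 126)) (XT.lf (nat_lit 0) (nat_lit 709274651059) (nat_lit 152) (nat_lit 5306633494931) (nat_lit 0) (nat_lit 650808988662)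 (nat_lit 1) (nat_lit 5) (nat_lit 3) (nat_lit 4) (nat_lit 1) (nat_lit 4) (nat_lit 261) (nat_lit 214) (nat_lit 125))))) (XT.nd (nat_lit 312) (nat_lit 0) (nat_lit 0) (XT.nd (nat_lit 156) (nat_lit 0) (nat_lit 0) (XT.nd (nat_lit 78) (nat_lit 0) (nat_lit 0) (XT.lf (nat_lit 0) (nat_lit 852303894425) (nat_lit 152) (nat_lit 6013663026509) (nat_lit 0) (nat_lit 793838201815) (nat_lit 1) (nat_lit 5) (nat_lit 3) (nat_lit 4) (nat_lit 1) (nat_lit 4) (nat_lit 262) (nat_lit 214) (nat_lit 124)) (XT.lf (nat_lit 0) (nat_lit 1016787480427) (nat_lit 152) (nat_lit 6826747073773) (nat_lit 0) (nat_lit 958321761545) (nat_lit 1) (nat_lit 5) (nat_lit 3) (nat_lit 4) (nat_lit 1) (nat_lit 4) (nat_lit 263) (nat_lit 214) (nat_lit 123))) (XT.nd (nat_lit 78) (nat_lit 0) (nat_lit 0) (XT.lf (nat_lit 0) (nat_lit 1205943566183) (nat_lit 152) (nat_lit 7761793802866) (nat_lit 0) (nat_lit 1147477824456) (nat_lit 1) (nat_lit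 5) (nat_lit 3) (nat_lit 4) (nat_lit 1) (nat_lit 4) (nat_lit 264) (nat_lit 214) (nat_lit 122)) (XT.lf (nat_lit 0) (nat_lit 1423473031631) (nat_lit 152) (nat_lit 8837097606313) (nat_lit 0) (nat_lit 1365007270039) (nat_lit 1) (nat_lit 5) (nat_lit 3) (nat_lit 4) (nat_lit 1) (nat_lit 4) (nat_lit 265) (nat_lit 214) (nat_lit 121)))) (XT.nd (nat_lit 156) (nat_lit 0) (nat_lit 0) (XT.nd (nat_lit 78) (nat_lit 0) (nat_lit 0) (XT.lf (nat_lit 0) (nat_lit 1673631888052) (nat_lit 152) (nat_lit 10073697036791) (nat_lit 0) (nat_lit 1615166109186) (nat_lit 1) (nat_lit 5) (nat_lit 3) (nat_lit 4) (nat_lit 1) (nat_lit 4) (nat_lit 266) (nat_lit 214) (nat_lit 120)) (XT.lf (nat_lit 0) (nat_lit 1961314547855) (nat_lit 152) (nat_lit 11495786430982) (nat_lit 0) (nat_lit 1902848753967) (nat_lit 1) (nat_lit 5) (nat_lit 3) (nat_lit 4) (nat_lit 1) (nat_lit 4) (nat_lit 267) (nat_lit 214) (nat_lit 119))) (XT.nd (nat_lit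 78) (nat_lit 0) (nat_lit 0) (XT.lf (nat_lit 0) (nat_lit 2292149584817) (nat_lit 152) (nat_lit 13131189277035) (nat_lit 0) (nat_lit 2233683777868) (nat_lit 1) (nat_lit 5) (nat_lit 3) (nat_lit 4) (nat_lit 1) (nat_lit 4) (nat_lit 268) (nat_lit 214) (nat_lit 118)) (XT.lf (nat_lit 0) (nat_lit 2672609858357) (nat_lit 152) (nat_lit 15011902587153) (nat_lit 0) (nat_lit 2614144040050) (nat_lit 1) (nat_lit 5) (nat_lit 3) (nat_lit 4) (nat_lit 1) (nat_lit 4) (nat_lit 269) (nat_lit 214) (nat_lit 117))))))) (XT.nd (nat_lit 28002) (nat_lit 0) (nat_lit 152) (XT.nd (nat_lit 27378) (nat_lit 0) (nat_lit 684) (XT.nd (nat_lit 27066) (nat_lit 0) (nat_lit 1064) (XT.nd (nat_lit 78) (nat_lit 0) (nat_lit 0) (XT.lf (nat_lit 0) (nat_lit 3110139156437) (nat_lit 152) (nat_lit 17174722926101) (nat_lit 0) (nat_lit 3051673328254) (nat_lit 1) (nat_lit 5) (nat_lit 3) (nat_lit 4) (nat_lit 1) (nat_lit 4) (nat_lit 270)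 (nat_lit 214) (nat_lit 116)) (XT.nd (nat_lit 26910) (nat_lit 0) (nat_lit 1368) (XT.lf (nat_lit 0) (nat_lit 3613297834889) (nat_lit 152) (nat_lit 19661966343988) (nat_lit 0) (nat_lit 3554831998117) (nat_lit 1) (nat_lit 5) (nat_lit 3) (nat_lit 4) (nat_lit 1) (nat_lit 4) (nat_lit 271) (nat_lit 214) (nat_lit 115)) (XT.lf (nat_lit 0) (nat_lit 7999065629) (nat_lit 0) (nat_lit 7999065629) (nat_lit 228) (nat_lit 696298510) (nat_lit 19) (nat_lit 5) (nat_lit 19) (nat_lit 3) (nat_lit 22) (nat_lit 3) (nat_lit 215) (nat_lit 215) (nat_lit 170)))) (XT.nd (nat_lit 156) (nat_lit 304) (nat_lit 0) (XT.nd (nat_lit 78) (nat_lit 0) (nat_lit 0) (XT.lf (nat_lit 0) (nat_lit 32648110573) (nat_lit 0) (nat_lit 1796743200) (nat_lit 228) (nat_lit 1440285297) (nat_lit 19) (nat_lit 5) (nat_lit 19) (nat_lit 3) (nat_lit 22) (nat_lit 3) (nat_lit 216) (nat_lit 215) (nat_lit 169)) (XT.lf (nat_lit 76) (nat_lit 13646872998)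 (nat_lit 0) (nat_lit 24772284290) (nat_lit 304) (nat_lit 163038385) (nat_lit 20) (nat_lit 5) (nat_lit 19) (nat_lit 5) (nat_lit 23) (nat_lit 5) (nat_lit 217) (nat_lit 215) (nat_lit 168))) (XT.nd (nat_lit 78) (nat_lit 0) (nat_lit 76) (XT.lf (nat_lit 0) (nat_lit 1444282779) (nat_lit 304) (nat_lit 8385489028) (nat_lit 380) (nat_lit 31807792317) (nat_lit 15) (nat_lit 5) (nat_lit 19) (nat_lit 5) (nat_lit 20) (nat_lit 5) (nat_lit 218) (nat_lit 215) (nat_lit 167)) (XT.lf (nat_lit 0) (nat_lit 4080273417) (nat_lit 304) (nat_lit 33734104182) (nat_lit 76) (nat_lit 7215121067) (nat_lit 16) (nat_lit 5) (nat_lit 20) (nat_lit 5) (nat_lit 17) (nat_lit 5) (nat_lit 219) (nat_lit 215) (nat_lit 166))))) (XT.nd (nat_lit 312) (nat_lit 76) (nat_lit 0) (XT.nd (nat_lit 156) (nat_lit 152) (nat_lit 0) (XT.nd (nat_lit 78) (nat_lit 228) (nat_lit 0) (XT.lf (nat_lit 0) (nat_lit 8032651144) (nat_lit 304) (nat_lit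 14489071371) (nat_lit 76) (nat_lit 26270409020) (nat_lit 16) (nat_lit 5) (nat_lit 20) (nat_lit 5) (nat_lit 17) (nat_lit 5) (nat_lit 220) (nat_lit 215) (nat_lit 165)) (XT.lf (nat_lit 0) (nat_lit 8383446440) (nat_lit 228) (nat_lit 4536100398) (nat_lit 304) (nat_lit 40148412358) (nat_lit 13) (nat_lit 5) (nat_lit 16) (nat_lit 5) (nat_lit 17) (nat_lit 5) (nat_lit 221) (nat_lit 215) (nat_lit 164))) (XT.nd (nat_lit 78) (nat_lit 152) (nat_lit 0) (XT.lf (nat_lit 0) (nat_lit 19996551397) (nat_lit 304) (nat_lit 22267173068) (nat_lit 76) (nat_lit 15502918029) (nat_lit 13) (nat_lit 5) (nat_lit 17) (nat_lit 5) (nat_lit 14) (nat_lit 5) (nat_lit 222) (nat_lit 215) (nat_lit 163)) (XT.lf (nat_lit 0) (nat_lit 3613083901) (nat_lit 152) (nat_lit 24883287539) (nat_lit 228) (nat_lit 34619604221) (nat_lit 11) (nat_lit 5) (nat_lit 13) (nat_lit 5) (nat_lit 14) (nat_lit 5) (nat_lit 223) (nat_lit 215) (nat_lit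 162)))) (XT.nd (nat_lit 156) (nat_lit 76) (nat_lit 0) (XT.nd (nat_lit 78) (nat_lit 0) (nat_lit 0) (XT.lf (nat_lit 0) (nat_lit 35872808176) (nat_lit 152) (nat_lit 3558328411) (nat_lit 228) (nat_lit 29662608659) (nat_lit 11) (nat_lit 5) (nat_lit 13) (nat_lit 5) (nat_lit 14) (nat_lit 5) (nat_lit 224) (nat_lit 215) (nat_lit 161)) (XT.lf (nat_lit 0) (nat_lit 52870735363) (nat_lit 228) (nat_lit 3869762767) (nat_lit 76) (nat_lit 19098017361) (nat_lit 11) (nat_lit 5) (nat_lit 14) (nat_lit 5) (nat_lit 12) (nat_lit 4) (nat_lit 225) (nat_lit 215) (nat_lit 160))) (XT.nd (nat_lit 78) (nat_lit 0) (nat_lit 0) (XT.lf (nat_lit 0) (nat_lit 32613857045) (nat_lit 76) (nat_lit 37229276959) (nat_lit 152) (nat_lit 13524362652) (nat_lit 10) (nat_lit 5) (nat_lit 11) (nat_lit 5) (nat_lit 12) (nat_lit 4) (nat_lit 226) (nat_lit 215) (nat_lit 159)) (XT.lf (nat_lit 0) (nat_lit 75000826228) (nat_lit 76) (nat_lit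 14560023378) (nat_lit 152) (nat_lit 2435078026) (nat_lit 10) (nat_lit 5) (nat_lit 11) (nat_lit 5) (nat_lit 12) (nat_lit 4) (nat_lit 227) (nat_lit 215) (nat_lit 158)))))) (XT.nd (nat_lit 624) (nat_lit 152) (nat_lit 0) (XT.nd (nat_lit 312) (nat_lit 152) (nat_lit 0) (XT.nd (nat_lit 156) (nat_lit 76) (nat_lit 0) (XT.nd (nat_lit 78) (nat_lit 0) (nat_lit 0) (XT.lf (nat_lit 0) (nat_lit 10912209958) (nat_lit 152) (nat_lit 78765115209) (nat_lit 76) (nat_lit 11950256453) (nat_lit 8) (nat_lit 5) (nat_lit 10) (nat_lit 5) (nat_lit 9) (nat_lit 4) (nat_lit 228) (nat_lit 215) (nat_lit 157)) (XT.lf (nat_lit 0) (nat_lit 27633847270) (nat_lit 152) (nat_lit 42817618567) (nat_lit 76) (nat_lit 41991904139) (nat_lit 8) (nat_lit 5) (nat_lit 10) (nat_lit 5) (nat_lit 9) (nat_lit 4) (nat_lit 229) (nat_lit 215) (nat_lit 156))) (XT.nd (nat_lit 78) (nat_lit 76) (nat_lit 0) (XT.lf (nat_lit 0) (nat_lit 46861593803)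 (nat_lit 152) (nat_lit 1481462286) (nat_lit 76) (nat_lit 76538803079) (nat_lit 8) (nat_lit 5) (nat_lit 10) (nat_lit 5) (nat_lit 9) (nat_lit 4) (nat_lit 230) (nat_lit 215) (nat_lit 155)) (XT.lf (nat_lit 0) (nat_lit 50552651094) (nat_lit 76) (nat_lit 20512270981) (nat_lit 152) (nat_lit 67807497247) (nat_lit 7) (nat_lit 5) (nat_lit 8) (nat_lit 5) (nat_lit 9) (nat_lit 4) (nat_lit 231) (nat_lit 215) (nat_lit 154)))) (XT.nd (nat_lit 156) (nat_lit 76) (nat_lit 0) (XT.nd (nat_lit 78) (nat_lit 76) (nat_lit 0) (XT.lf (nat_lit 0) (nat_lit 99454001607) (nat_lit 152) (nat_lit 44874261598) (nat_lit 0) (nat_lit 10550021661) (nat_lit 7) (nat_lit 5) (nat_lit 9) (nat_lit 4) (nat_lit 7) (nat_lit 4) (nat_lit 232) (nat_lit 215) (nat_lit 153)) (XT.lf (nat_lit 0) (nat_lit 4510124759) (nat_lit 76) (nat_lit 128753298408) (nat_lit 76) (nat_lit 39847318031) (nat_lit 6) (nat_lit 4) (nat_lit 7) (nat_lit 5) (nat_lit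 7) (nat_lit 4) (nat_lit 233) (nat_lit 215) (nat_lit 152))) (XT.nd (nat_lit 78) (nat_lit 76) (nat_lit 0) (XT.lf (nat_lit 0) (nat_lit 66342852650) (nat_lit 76) (nat_lit 108145651601) (nat_lit 76) (nat_lit 19237931720) (nat_lit 6) (nat_lit 4) (nat_lit 7) (nat_lit 5) (nat_lit 7) (nat_lit 4) (nat_lit 234) (nat_lit 215) (nat_lit 151)) (XT.lf (nat_lit 0) (nat_lit 4064217835) (nat_lit 152) (nat_lit 80171164147) (nat_lit 76) (nat_lit 133171588051) (nat_lit 5) (nat_lit 5) (nat_lit 7) (nat_lit 5) (nat_lit 6) (nat_lit 4) (nat_lit 235) (nat_lit 215) (nat_lit 150))))) (XT.nd (nat_lit 312) (nat_lit 76) (nat_lit 0) (XT.nd (nat_lit 156) (nat_lit 0) (nat_lit 0) (XT.nd (nat_lit 78) (nat_lit 76) (nat_lit 0) (XT.lf (nat_lit 0) (nat_lit 28890935690) (nat_lit 152) (nat_lit 26795036073) (nat_lit 76) (nat_lit 188816376655) (nat_lit 5) (nat_lit 5) (nat_lit 7) (nat_lit 5) (nat_lit 6) (nat_lit 4) (nat_lit 236)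 (nat_lit 215) (nat_lit 149)) (XT.lf (nat_lit 0) (nat_lit 37965686086) (nat_lit 76) (nat_lit 21047047703) (nat_lit 152) (nat_lit 216413642853) (nat_lit 4) (nat_lit 5) (nat_lit 5) (nat_lit 5) (nat_lit 6) (nat_lit 4) (nat_lit 237) (nat_lit 215) (nat_lit 148))) (XT.nd (nat_lit 78) (nat_lit 0) (nat_lit 0) (XT.lf (nat_lit 0) (nat_lit 95897131051) (nat_lit 152) (nat_lit 196173480270) (nat_lit 0) (nat_lit 18581751808) (nat_lit 4) (nat_lit 5) (nat_lit 6) (nat_lit 4) (nat_lit 4) (nat_lit 4) (nat_lit 238) (nat_lit 215) (nat_lit 147)) (XT.lf (nat_lit 0) (nat_lit 139315578722) (nat_lit 152) (nat_lit 149697015798) (nat_lit 0) (nat_lit 61999447444) (nat_lit 4) (nat_lit 5) (nat_lit 6) (nat_lit 4) (nat_lit 4) (nat_lit 4) (nat_lit 239) (nat_lit 215) (nat_lit 146)))) (XT.nd (nat_lit 156) (nat_lit 76) (nat_lit 0) (XT.nd (nat_lit 78) (nat_lit 0) (nat_lit 0) (XT.lf (nat_lit 0) (nat_lit 189246054809) (nat_lit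 152) (nat_lit 96250461646) (nat_lit 0) (nat_lit 111929269586) (nat_lit 4) (nat_lit 5) (nat_lit 6) (nat_lit 4) (nat_lit 4) (nat_lit 4) (nat_lit 240) (nat_lit 215) (nat_lit 145)) (XT.lf (nat_lit 0) (nat_lit 246665459929) (nat_lit 152) (nat_lit 34788124364) (nat_lit 0) (nat_lit 169348106059) (nat_lit 4) (nat_lit 5) (nat_lit 6) (nat_lit 4) (nat_lit 4) (nat_lit 4) (nat_lit 241) (nat_lit 215) (nat_lit 144))) (XT.nd (nat_lit 78) (nat_lit 0) (nat_lit 0) (XT.lf (nat_lit 0) (nat_lit 39400198132) (nat_lit 76) (nat_lit 274928497278) (nat_lit 76) (nat_lit 197610648932) (nat_lit 3) (nat_lit 4) (nat_lit 4) (nat_lit 5) (nat_lit 4) (nat_lit 4) (nat_lit 242) (nat_lit 215) (nat_lit 143)) (XT.lf (nat_lit 0) (nat_lit 128625483758) (nat_lit 76) (nat_lit 265333875619) (nat_lit 76) (nat_lit 188015597294) (nat_lit 3) (nat_lit 4) (nat_lit 4) (nat_lit 5) (nat_lit 4) (nat_lit 4) (nat_lit 243) (nat_lit 215) (nat_lit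 142))))))))
noncomputable def xc42 : XT := (XT.nd (nat_lit 29172) (nat_lit 0) (nat_lit 152) (XT.nd (nat_lit 1170) (nat_lit 0) (nat_lit 0) (XT.nd (nat_lit 546) (nat_lit 152) (nat_lit 0) (XT.nd (nat_lit 234) (nat_lit 0) (nat_lit 0) (XT.nd (nat_lit 78) (nat_lit 0) (nat_lit 0) (XT.lf (nat_lit 0) (nat_lit 231233696105) (nat_lit 76) (nat_lit 254300468595) (nat_lit 76) (nat_lit 176981816375) (nat_lit 3) (nat_lit 4) (nat_lit 4) (nat_lit 5) (nat_lit 4) (nat_lit 4) (nat_lit 244) (nat_lit 215) (nat_lit 141)) (XT.nd (nat_lit 78) (nat_lit 0) (nat_lit 0) (XT.lf (nat_lit 0) (nat_lit 349232387154) (nat_lit 76) (nat_lit 241612405199) (nat_lit 76) (nat_lit 164293427853) (nat_lit 3) (nat_lit 4) (nat_lit 4) (nat_lit 5) (nat_lit 4) (nat_lit 4) (nat_lit 245) (nat_lit 215) (nat_lit 140)) (XT.lf (nat_lit 0) (nat_lit 484930226947) (nat_lit 76) (nat_lit 227021440712) (nat_lit 76) (nat_lit 149702180649) (nat_lit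 3) (nat_lit 4) (nat_lit 4) (nat_lit 5) (nat_lit 4) (nat_lit 4) (nat_lit 246) (nat_lit 215) (nat_lit 139)))) (XT.nd (nat_lit 156) (nat_lit 0) (nat_lit 0) (XT.nd (nat_lit 78) (nat_lit 0) (nat_lit 0) (XT.lf (nat_lit 0) (nat_lit 640982173219) (nat_lit 76) (nat_lit 210242099743) (nat_lit 76) (nat_lit 132922593837) (nat_lit 3) (nat_lit 4) (nat_lit 4) (nat_lit 5) (nat_lit 4) (nat_lit 4) (nat_lit 247) (nat_lit 215) (nat_lit 138)) (XT.lf (nat_lit 0) (nat_lit 820441416223) (nat_lit 76) (nat_lit 190946090837) (nat_lit 76) (nat_lit 113626371156) (nat_lit 3) (nat_lit 4) (nat_lit 4) (nat_lit 5) (nat_lit 4) (nat_lit 4) (nat_lit 248) (nat_lit 215) (nat_lit 137))) (XT.nd (nat_lit 78) (nat_lit 0) (nat_lit 0) (XT.lf (nat_lit 0) (nat_lit 1026819115062) (nat_lit 76) (nat_lit 168755883386) (nat_lit 76) (nat_lit 91435977813) (nat_lit 3) (nat_lit 4) (nat_lit 4) (nat_lit 5) (nat_lit 4) (nat_lit 4) (nat_lit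 249) (nat_lit 215) (nat_lit 136)) (XT.lf (nat_lit 0) (nat_lit 1264153094278) (nat_lit 76) (nat_lit 143237321156) (nat_lit 76) (nat_lit 65917253938) (nat_lit 3) (nat_lit 4) (nat_lit 4) (nat_lit 5) (nat_lit 4) (nat_lit 4) (nat_lit 250) (nat_lit 215) (nat_lit 135))))) (XT.nd (nat_lit 312) (nat_lit 0) (nat_lit 0) (XT.nd (nat_lit 156) (nat_lit 152) (nat_lit 0) (XT.nd (nat_lit 78) (nat_lit 0) (nat_lit 0) (XT.lf (nat_lit 0) (nat_lit 1537086844769) (nat_lit 76) (nat_lit 113891127931) (nat_lit 76) (nat_lit 36570920152) (nat_lit 3) (nat_lit 4) (nat_lit 4) (nat_lit 5) (nat_lit 4) (nat_lit 4) (nat_lit 251) (nat_lit 215) (nat_lit 134)) (XT.lf (nat_lit 0) (nat_lit 1850960374697) (nat_lit 76) (nat_lit 80143139060) (nat_lit 76) (nat_lit 2822809054) (nat_lit 3) (nat_lit 4) (nat_lit 4) (nat_lit 5) (nat_lit 4) (nat_lit 4) (nat_lit 252) (nat_lit 215) (nat_lit 133))) (XT.nd (nat_lit 78) (nat_lit 76) (nat_lit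 0) (XT.lf (nat_lit 0) (nat_lit 32783524085) (nat_lit 152) (nat_lit 6835859505) (nat_lit 76) (nat_lit 2177417479608) (nat_lit 2) (nat_lit 5) (nat_lit 4) (nat_lit 5) (nat_lit 3) (nat_lit 4) (nat_lit 253) (nat_lit 215) (nat_lit 132)) (XT.lf (nat_lit 0) (nat_lit 77574331120) (nat_lit 152) (nat_lit 2454060523287) (nat_lit 0) (nat_lit 10339088763) (nat_lit 1) (nat_lit 5) (nat_lit 3) (nat_lit 4) (nat_lit 1) (nat_lit 4) (nat_lit 254) (nat_lit 215) (nat_lit 131)))) (XT.nd (nat_lit 156) (nat_lit 0) (nat_lit 0) (XT.nd (nat_lit 78) (nat_lit 0) (nat_lit 0) (XT.lf (nat_lit 0) (nat_lit 131344624520) (nat_lit 152) (nat_lit 2719858518823) (nat_lit 0) (nat_lit 64109312279) (nat_lit 1) (nat_lit 5) (nat_lit 3) (nat_lit 4) (nat_lit 1) (nat_lit 4) (nat_lit 255) (nat_lit 215) (nat_lit 130)) (XT.lf (nat_lit 0) (nat_lit 193180360459) (nat_lit 152) (nat_lit 3025526412496) (nat_lit 0) (nat_lit 125944987450)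 (nat_lit 1) (nat_lit 5) (nat_lit 3) (nat_lit 4) (nat_lit 1) (nat_lit 4) (nat_lit 256) (nat_lit 215) (nat_lit 129))) (XT.nd (nat_lit 78) (nat_lit 0) (nat_lit 0) (XT.lf (nat_lit 0) (nat_lit 264291368553) (nat_lit 152) (nat_lit 3377044663095) (nat_lit 0) (nat_lit 197055942701) (nat_lit 1) (nat_lit 5) (nat_lit 3) (nat_lit 4) (nat_lit 1) (nat_lit 4) (nat_lit 257) (nat_lit 215) (nat_lit 128)) (XT.lf (nat_lit 0) (nat_lit 346068951134) (nat_lit 152) (nat_lit 3781290801611) (nat_lit 0) (nat_lit 278833479333) (nat_lit 1) (nat_lit 5) (nat_lit 3) (nat_lit 4) (nat_lit 1) (nat_lit 4) (nat_lit 258) (nat_lit 215) (nat_lit 127)))))) (XT.nd (nat_lit 624) (nat_lit 0) (nat_lit 0) (XT.nd (nat_lit 312) (nat_lit 0) (nat_lit 0) (XT.nd (nat_lit 156) (nat_lit 0) (nat_lit 0) (XT.nd (nat_lit 78) (nat_lit 0) (nat_lit 0) (XT.lf (nat_lit 0) (nat_lit 440113104384) (nat_lit 152) (nat_lit 4246173991623) (nat_lit 0)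 (nat_lit 372877592627) (nat_lit 1) (nat_lit 5) (nat_lit 3) (nat_lit 4) (nat_lit 1) (nat_lit 4) (nat_lit 259) (nat_lit 215) (nat_lit 126)) (XT.lf (nat_lit 0) (nat_lit 548263822604) (nat_lit 152) (nat_lit 4780789773805) (nat_lit 0) (nat_lit 481028276103) (nat_lit 1) (nat_lit 5) (nat_lit 3) (nat_lit 4) (nat_lit 1) (nat_lit 4) (nat_lit 260) (nat_lit 215) (nat_lit 125))) (XT.nd (nat_lit 78) (nat_lit 0) (nat_lit 0) (XT.lf (nat_lit 0) (nat_lit 672637098109) (nat_lit 152) (nat_lit 5395598022157) (nat_lit 0) (nat_lit 605401521395) (nat_lit 1) (nat_lit 5) (nat_lit 3) (nat_lit 4) (nat_lit 1) (nat_lit 4) (nat_lit 261) (nat_lit 215) (nat_lit 124)) (XT.lf (nat_lit 0) (nat_lit 815666321071) (nat_lit 152) (nat_lit 6102627593712) (nat_lit 0) (nat_lit 748430718086) (nat_lit 1) (nat_lit 5) (nat_lit 3) (nat_lit 4) (nat_lit 1) (nat_lit 4) (nat_lit 262) (nat_lit 215) (nat_lit 123)))) (XT.nd (nat_lit 156)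 (nat_lit 0) (nat_lit 0) (XT.nd (nat_lit 78) (nat_lit 0) (nat_lit 0) (XT.lf (nat_lit 0) (nat_lit 980149889331) (nat_lit 152) (nat_lit 6915711675738) (nat_lit 0) (nat_lit 912914263500) (nat_lit 1) (nat_lit 5) (nat_lit 3) (nat_lit 4) (nat_lit 1) (nat_lit 4) (nat_lit 263) (nat_lit 215) (nat_lit 122)) (XT.lf (nat_lit 0) (nat_lit 1169305959659) (nat_lit 152) (nat_lit 7850758435059) (nat_lit 0) (nat_lit 1102070313962) (nat_lit 1) (nat_lit 5) (nat_lit 3) (nat_lit 4) (nat_lit 1) (nat_lit 4) (nat_lit 264) (nat_lit 215) (nat_lit 121))) (XT.nd (nat_lit 78) (nat_lit 0) (nat_lit 0) (XT.lf (nat_lit 0) (nat_lit 1386835411691) (nat_lit 152) (nat_lit 8926062264792) (nat_lit 0) (nat_lit 1319599748721) (nat_lit 1) (nat_lit 5) (nat_lit 3) (nat_lit 4) (nat_lit 1) (nat_lit 4) (nat_lit 265) (nat_lit 215) (nat_lit 120)) (XT.lf (nat_lit 0) (nat_lit 1636994256446) (nat_lit 152) (nat_lit 10162661718126) (nat_lit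 0) (nat_lit 1569758578455) (nat_lit 1) (nat_lit 5) (nat_lit 3) (nat_lit 4) (nat_lit 1) (nat_lit 4) (nat_lit 266) (nat_lit 215) (nat_lit 119))))) (XT.nd (nat_lit 546) (nat_lit 0) (nat_lit 0) (XT.nd (nat_lit 156) (nat_lit 0) (nat_lit 0) (XT.nd (nat_lit 78) (nat_lit 0) (nat_lit 0) (XT.lf (nat_lit 0) (nat_lit 1924676906104) (nat_lit 152) (nat_lit 11584751132193) (nat_lit 0) (nat_lit 1857441215051) (nat_lit 1) (nat_lit 5) (nat_lit 3) (nat_lit 4) (nat_lit 1) (nat_lit 4) (nat_lit 267) (nat_lit 215) (nat_lit 118)) (XT.lf (nat_lit 0) (nat_lit 2255511934244) (nat_lit 152) (nat_lit 13220153995528) (nat_lit 0) (nat_lit 2188276231833) (nat_lit 1) (nat_lit 5) (nat_lit 3) (nat_lit 4) (nat_lit 1) (nat_lit 4) (nat_lit 268) (nat_lit 215) (nat_lit 117))) (XT.nd (nat_lit 78) (nat_lit 0) (nat_lit 0) (XT.lf (nat_lit 0) (nat_lit 2635972200115) (nat_lit 152) (nat_lit 15100867320675) (nat_lit 0) (nat_lit 2568736487827)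 (nat_lit 1) (nat_lit 5) (nat_lit 3) (nat_lit 4) (nat_lit 1) (nat_lit 4) (nat_lit 269) (nat_lit 215) (nat_lit 116)) (XT.lf (nat_lit 0) (nat_lit 3073501491524) (nat_lit 152) (nat_lit 17263687672692) (nat_lit 0) (nat_lit 3006265770648) (nat_lit 1) (nat_lit 5) (nat_lit 3) (nat_lit 4) (nat_lit 1) (nat_lit 4) (nat_lit 270) (nat_lit 215) (nat_lit 115)))) (XT.nd (nat_lit 156) (nat_lit 0) (nat_lit 0) (XT.nd (nat_lit 78) (nat_lit 0) (nat_lit 0) (XT.lf (nat_lit 0) (nat_lit 5585961362446) (nat_lit 152) (nat_lit 29683426960788) (nat_lit 0) (nat_lit 5518725617051) (nat_lit 1) (nat_lit 5) (nat_lit 3) (nat_lit 4) (nat_lit 1) (nat_lit 4) (nat_lit 274) (nat_lit 215) (nat_lit 111)) (XT.lf (nat_lit 0) (nat_lit 6465988980134) (nat_lit 152) (nat_lit 34033631353008) (nat_lit 0) (nat_lit 6398753230468) (nat_lit 1) (nat_lit 5) (nat_lit 3) (nat_lit 4) (nat_lit 1) (nat_lit 4) (nat_lit 275) (nat_lit 215) (nat_lit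 110))) (XT.nd (nat_lit 26598) (nat_lit 0) (nat_lit 1368) (XT.lf (nat_lit 0) (nat_lit 7478020734274) (nat_lit 152) (nat_lit 39036366416207) (nat_lit 0) (nat_lit 7410784980896) (nat_lit 1) (nat_lit 5) (nat_lit 3) (nat_lit 4) (nat_lit 1) (nat_lit 4) (nat_lit 276) (nat_lit 215) (nat_lit 109)) (XT.lf (nat_lit 0) (nat_lit 9222349423) (nat_lit 0) (nat_lit 9222349423) (nat_lit 228) (nat_lit 746336951) (nat_lit 19) (nat_lit 5) (nat_lit 19) (nat_lit 3) (nat_lit 22) (nat_lit 3) (nat_lit 216) (nat_lit 216) (nat_lit 168))))))) (XT.nd (nat_lit 1170) (nat_lit 380) (nat_lit 0) (XT.nd (nat_lit 546) (nat_lit 380) (nat_lit 0) (XT.nd (nat_lit 234) (nat_lit 152) (nat_lit 0) (XT.nd (nat_lit 78) (nat_lit 304) (nat_lit 0) (XT.lf (nat_lit 0) (nat_lit 37586064463) (nat_lit 0) (nat_lit 2106991985) (nat_lit 228) (nat_lit 1561708377) (nat_lit 19) (nat_lit 5) (nat_lit 19) (nat_lit 3) (nat_lit 22) (nat_lit 3) (nat_lit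 217) (nat_lit 216) (nat_lit 167)) (XT.nd (nat_lit 78) (nat_lit 304) (nat_lit 0) (XT.lf (nat_lit 76) (nat_lit 15746947327) (nat_lit 0) (nat_lit 28506660632) (nat_lit 304) (nat_lit 104377100) (nat_lit 20) (nat_lit 5) (nat_lit 19) (nat_lit 5) (nat_lit 23) (nat_lit 5) (nat_lit 218) (nat_lit 216) (nat_lit 166)) (XT.lf (nat_lit 0) (nat_lit 1726766404) (nat_lit 304) (nat_lit 9590145734) (nat_lit 380) (nat_lit 36555802936) (nat_lit 15) (nat_lit 5) (nat_lit 19) (nat_lit 5) (nat_lit 20) (nat_lit 5) (nat_lit 219) (nat_lit 216) (nat_lit 165)))) (XT.nd (nat_lit 156) (nat_lit 228) (nat_lit 0) (XT.nd (nat_lit 78) (nat_lit 0) (nat_lit 0) (XT.lf (nat_lit 0) (nat_lit 4751312800) (nat_lit 304) (nat_lit 38733682074) (nat_lit 76) (nat_lit 8289550586) (nat_lit 16) (nat_lit 5) (nat_lit 20) (nat_lit 5) (nat_lit 17) (nat_lit 5) (nat_lit 220) (nat_lit 216) (nat_lit 164)) (XT.lf (nat_lit 0) (nat_lit 9288851747)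 (nat_lit 304) (nat_lit 16609790567) (nat_lit 76) (nat_lit 30204154163) (nat_lit 16) (nat_lit 5) (nat_lit 20) (nat_lit 5) (nat_lit 17) (nat_lit 5) (nat_lit 221) (nat_lit 216) (nat_lit 163))) (XT.nd (nat_lit 78) (nat_lit 0) (nat_lit 0) (XT.lf (nat_lit 0) (nat_lit 9691212120) (nat_lit 228) (nat_lit 5212958681) (nat_lit 304) (nat_lit 46116579052) (nat_lit 13) (nat_lit 5) (nat_lit 16) (nat_lit 5) (nat_lit 17) (nat_lit 5) (nat_lit 222) (nat_lit 216) (nat_lit 162)) (XT.lf (nat_lit 0) (nat_lit 23036763859) (nat_lit 304) (nat_lit 25557244977) (nat_lit 76) (nat_lit 17831173236) (nat_lit 13) (nat_lit 5) (nat_lit 17) (nat_lit 5) (nat_lit 14) (nat_lit 5) (nat_lit 223) (nat_lit 216) (nat_lit 161))))) (XT.nd (nat_lit 312) (nat_lit 152) (nat_lit 0) (XT.nd (nat_lit 156) (nat_lit 76) (nat_lit 0) (XT.nd (nat_lit 78) (nat_lit 0) (nat_lit 0) (XT.lf (nat_lit 0) (nat_lit 4202777626) (nat_lit 152) (nat_lit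 28605443150) (nat_lit 228) (nat_lit 39769240161) (nat_lit 11) (nat_lit 5) (nat_lit 13) (nat_lit 5) (nat_lit 14) (nat_lit 5) (nat_lit 224) (nat_lit 216) (nat_lit 160)) (XT.lf (nat_lit 0) (nat_lit 41295234741) (nat_lit 152) (nat_lit 4083088526) (nat_lit 228) (nat_lit 34074343703) (nat_lit 11) (nat_lit 5) (nat_lit 13) (nat_lit 5) (nat_lit 14) (nat_lit 5) (nat_lit 225) (nat_lit 216) (nat_lit 159))) (XT.nd (nat_lit 78) (nat_lit 76) (nat_lit 0) (XT.lf (nat_lit 0) (nat_lit 60829944288) (nat_lit 228) (nat_lit 4409989633) (nat_lit 76) (nat_lit 21969840723) (nat_lit 11) (nat_lit 5) (nat_lit 14) (nat_lit 5) (nat_lit 12) (nat_lit 4) (nat_lit 226) (nat_lit 216) (nat_lit 158)) (XT.lf (nat_lit 0) (nat_lit 37544344171) (nat_lit 76) (nat_lit 42801718716) (nat_lit 152) (nat_lit 15522390861) (nat_lit 10) (nat_lit 5) (nat_lit 11) (nat_lit 5) (nat_lit 12) (nat_lit 4) (nat_lit 227) (nat_lit 216) (nat_lit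 157)))) (XT.nd (nat_lit 156) (nat_lit 0) (nat_lit 0) (XT.nd (nat_lit 78) (nat_lit 152) (nat_lit 0) (XT.lf (nat_lit 0) (nat_lit 86284348918) (nat_lit 76) (nat_lit 16733635766) (nat_lit 152) (nat_lit 2773708261) (nat_lit 10) (nat_lit 5) (nat_lit 11) (nat_lit 5) (nat_lit 12) (nat_lit 4) (nat_lit 228) (nat_lit 216) (nat_lit 156)) (XT.lf (nat_lit 0) (nat_lit 12572044760) (nat_lit 152) (nat_lit 90542574838) (nat_lit 76) (nat_lit 13753518193) (nat_lit 8) (nat_lit 5) (nat_lit 10) (nat_lit 5) (nat_lit 9) (nat_lit 4) (nat_lit 229) (nat_lit 216) (nat_lit 155))) (XT.nd (nat_lit 78) (nat_lit 0) (nat_lit 0) (XT.lf (nat_lit 0) (nat_lit 31798927238) (nat_lit 152) (nat_lit 49207819915) (nat_lit 76) (nat_lit 48300014343) (nat_lit 8) (nat_lit 5) (nat_lit 10) (nat_lit 5) (nat_lit 9) (nat_lit 4) (nat_lit 230) (nat_lit 216) (nat_lit 154)) (XT.lf (nat_lit 0) (nat_lit 53908226680) (nat_lit 152) (nat_lit 1675471684)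 (nat_lit 76) (nat_lit 88027731875) (nat_lit 8) (nat_lit 5) (nat_lit 10) (nat_lit 5) (nat_lit 9) (nat_lit 4) (nat_lit 231) (nat_lit 216) (nat_lit 153)))))) (XT.nd (nat_lit 624) (nat_lit 76) (nat_lit 0) (XT.nd (nat_lit 312) (nat_lit 152) (nat_lit 0) (XT.nd (nat_lit 156) (nat_lit 76) (nat_lit 0) (XT.nd (nat_lit 78) (nat_lit 0) (nat_lit 0) (XT.lf (nat_lit 0) (nat_lit 58162476433) (nat_lit 76) (nat_lit 23578424020) (nat_lit 152) (nat_lit 77959859902) (nat_lit 7) (nat_lit 5) (nat_lit 8) (nat_lit 5) (nat_lit 9) (nat_lit 4) (nat_lit 232) (nat_lit 216) (nat_lit 152)) (XT.lf (nat_lit 0) (nat_lit 114386608472) (nat_lit 152) (nat_lit 51580177368) (nat_lit 0) (nat_lit 12140991104) (nat_lit 7) (nat_lit 5) (nat_lit 9) (nat_lit 4) (nat_lit 7) (nat_lit 4) (nat_lit 233) (nat_lit 216) (nat_lit 151))) (XT.nd (nat_lit 78) (nat_lit 0) (nat_lit 0) (XT.lf (nat_lit 0) (nat_lit 5210720420) (nat_lit 76) (nat_lit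 148055827652) (nat_lit 76) (nat_lit 45808697672) (nat_lit 6) (nat_lit 4) (nat_lit 7) (nat_lit 5) (nat_lit 7) (nat_lit 4) (nat_lit 234) (nat_lit 216) (nat_lit 150)) (XT.lf (nat_lit 0) (nat_lit 76315217024) (nat_lit 76) (nat_lit 124358398892) (nat_lit 76) (nat_lit 22109953596) (nat_lit 6) (nat_lit 4) (nat_lit 7) (nat_lit 5) (nat_lit 7) (nat_lit 4) (nat_lit 235) (nat_lit 216) (nat_lit 149)))) (XT.nd (nat_lit 156) (nat_lit 76) (nat_lit 0) (XT.nd (nat_lit 78) (nat_lit 0) (nat_lit 0) (XT.lf (nat_lit 0) (nat_lit 4684677530) (nat_lit 152) (nat_lit 92177532356) (nat_lit 76) (nat_lit 153154138912) (nat_lit 5) (nat_lit 5) (nat_lit 7) (nat_lit 5) (nat_lit 6) (nat_lit 4) (nat_lit 236) (nat_lit 216) (nat_lit 148)) (XT.lf (nat_lit 0) (nat_lit 33233990844) (nat_lit 152) (nat_lit 30797503300) (nat_lit 76) (nat_lit 217144757200) (nat_lit 5) (nat_lit 5) (nat_lit 7) (nat_lit 5) (nat_lit 6) (nat_lit 4)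 (nat_lit 237) (nat_lit 216) (nat_lit 147))) (XT.nd (nat_lit 78) (nat_lit 0) (nat_lit 0) (XT.lf (nat_lit 0) (nat_lit 43676564084) (nat_lit 76) (nat_lit 24196930120) (nat_lit 152) (nat_lit 248865479106) (nat_lit 4) (nat_lit 5) (nat_lit 5) (nat_lit 5) (nat_lit 6) (nat_lit 4) (nat_lit 238) (nat_lit 216) (nat_lit 146)) (XT.lf (nat_lit 0) (nat_lit 110289655002) (nat_lit 152) (nat_lit 225584643335) (nat_lit 0) (nat_lit 21374698052) (nat_lit 4) (nat_lit 5) (nat_lit 6) (nat_lit 4) (nat_lit 4) (nat_lit 4) (nat_lit 239) (nat_lit 216) (nat_lit 145))))) (XT.nd (nat_lit 312) (nat_lit 0) (nat_lit 0) (XT.nd (nat_lit 156) (nat_lit 76) (nat_lit 0) (XT.nd (nat_lit 78) (nat_lit 0) (nat_lit 0) (XT.lf (nat_lit 0) (nat_lit 160219832308) (nat_lit 152) (nat_lit 172138647319) (nat_lit 0) (nat_lit 71304306710) (nat_lit 4) (nat_lit 5) (nat_lit 6) (nat_lit 4) (nat_lit 4) (nat_lit 4) (nat_lit 240) (nat_lit 216)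 (nat_lit 144)) (XT.lf (nat_lit 0) (nat_lit 217638977619) (nat_lit 152) (nat_lit 110676795372) (nat_lit 0) (nat_lit 128722957545) (nat_lit 4) (nat_lit 5) (nat_lit 6) (nat_lit 4) (nat_lit 4) (nat_lit 4) (nat_lit 241) (nat_lit 216) (nat_lit 143))) (XT.nd (nat_lit 78) (nat_lit 76) (nat_lit 0) (XT.lf (nat_lit 0) (nat_lit 283670508996) (nat_lit 152) (nat_lit 39996573001) (nat_lit 0) (nat_lit 194754058943) (nat_lit 4) (nat_lit 5) (nat_lit 6) (nat_lit 4) (nat_lit 4) (nat_lit 4) (nat_lit 242) (nat_lit 216) (nat_lit 142)) (XT.lf (nat_lit 0) (nat_lit 45319553779) (nat_lit 76) (nat_lit 316163380003) (nat_lit 76) (nat_lit 227246556056) (nat_lit 3) (nat_lit 4) (nat_lit 4) (nat_lit 5) (nat_lit 4) (nat_lit 4) (nat_lit 243) (nat_lit 216) (nat_lit 141)))) (XT.nd (nat_lit 156) (nat_lit 0) (nat_lit 0) (XT.nd (nat_lit 78) (nat_lit 0) (nat_lit 0) (XT.lf (nat_lit 0) (nat_lit 147927415823) (nat_lit 76) (nat_lit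 305130137948) (nat_lit 76) (nat_lit 216212988875) (nat_lit 3) (nat_lit 4) (nat_lit 4) (nat_lit 5) (nat_lit 4) (nat_lit 4) (nat_lit 244) (nat_lit 216) (nat_lit 140)) (XT.lf (nat_lit 0) (nat_lit 265925802261) (nat_lit 76) (nat_lit 292442218002) (nat_lit 76) (nat_lit 203524786211) (nat_lit 3) (nat_lit 4) (nat_lit 4) (nat_lit 5) (nat_lit 4) (nat_lit 4) (nat_lit 245) (nat_lit 216) (nat_lit 139))) (XT.nd (nat_lit 78) (nat_lit 0) (nat_lit 0) (XT.lf (nat_lit 0) (nat_lit 401623377175) (nat_lit 76) (nat_lit 277851378255) (nat_lit 76) (nat_lit 188933700622) (nat_lit 3) (nat_lit 4) (nat_lit 4) (nat_lit 5) (nat_lit 4) (nat_lit 4) (nat_lit 246) (nat_lit 216) (nat_lit 138)) (XT.lf (nat_lit 0) (nat_lit 557675093118) (nat_lit 76) (nat_lit 261072145755) (nat_lit 76) (nat_lit 172154254346) (nat_lit 3) (nat_lit 4) (nat_lit 4) (nat_lit 5) (nat_lit 4) (nat_lit 4) (nat_lit 247) (nat_lit 216) (nat_lit 137))))))))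
noncomputable def xc43 : XT := (XT.nd (nat_lit 29016) (nat_lit 0) (nat_lit 152) (XT.nd (nat_lit 1170) (nat_lit 0) (nat_lit 0) (XT.nd (nat_lit 546) (nat_lit 76) (nat_lit 0) (XT.nd (nat_lit 234) (nat_lit 76) (nat_lit 0) (XT.nd (nat_lit 78) (nat_lit 0) (nat_lit 0) (XT.lf (nat_lit 0) (nat_lit 737134135836) (nat_lit 76) (nat_lit 241776231170) (nat_lit 76) (nat_lit 152858153870) (nat_lit 3) (nat_lit 4) (nat_lit 4) (nat_lit 5) (nat_lit 4) (nat_lit 4) (nat_lit 248) (nat_lit 216) (nat_lit 136)) (XT.nd (nat_lit 78) (nat_lit 0) (nat_lit 0) (XT.lf (nat_lit 0) (nat_lit 943511660512) (nat_lit 76) (nat_lit 219586105737) (nat_lit 76) (nat_lit 130667866792) (nat_lit 3) (nat_lit 4) (nat_lit 4) (nat_lit 5) (nat_lit 4) (nat_lit 4) (nat_lit 249) (nat_lit 216) (nat_lit 135)) (XT.lf (nat_lit 0) (nat_lit 1180845488283) (nat_lit 76) (nat_lit 194067614828) (nat_lit 76) (nat_lit 105149235322) (nat_lit 3) (nat_lit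 4) (nat_lit 4) (nat_lit 5) (nat_lit 4) (nat_lit 4) (nat_lit 250) (nat_lit 216) (nat_lit 134)))) (XT.nd (nat_lit 156) (nat_lit 76) (nat_lit 0) (XT.nd (nat_lit 78) (nat_lit 0) (nat_lit 0) (XT.lf (nat_lit 0) (nat_lit 1453779107082) (nat_lit 76) (nat_lit 164721483621) (nat_lit 76) (nat_lit 75802981888) (nat_lit 3) (nat_lit 4) (nat_lit 4) (nat_lit 5) (nat_lit 4) (nat_lit 4) (nat_lit 251) (nat_lit 216) (nat_lit 133)) (XT.lf (nat_lit 0) (nat_lit 1767652522495) (nat_lit 76) (nat_lit 130973548678) (nat_lit 76) (nat_lit 42054940661) (nat_lit 3) (nat_lit 4) (nat_lit 4) (nat_lit 5) (nat_lit 4) (nat_lit 4) (nat_lit 252) (nat_lit 216) (nat_lit 132))) (XT.nd (nat_lit 78) (nat_lit 76) (nat_lit 0) (XT.lf (nat_lit 0) (nat_lit 2128606736128) (nat_lit 76) (nat_lit 92163524316) (nat_lit 76) (nat_lit 3244823878) (nat_lit 3) (nat_lit 4) (nat_lit 4) (nat_lit 5) (nat_lit 4) (nat_lit 4) (nat_lit 253) (nat_lit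 216) (nat_lit 131)) (XT.lf (nat_lit 0) (nat_lit 37702166885) (nat_lit 152) (nat_lit 7859122000) (nat_lit 76) (nat_lit 2504030933665) (nat_lit 2) (nat_lit 5) (nat_lit 4) (nat_lit 5) (nat_lit 3) (nat_lit 4) (nat_lit 254) (nat_lit 216) (nat_lit 130))))) (XT.nd (nat_lit 312) (nat_lit 0) (nat_lit 0) (XT.nd (nat_lit 156) (nat_lit 0) (nat_lit 0) (XT.nd (nat_lit 78) (nat_lit 0) (nat_lit 0) (XT.lf (nat_lit 0) (nat_lit 89211573371) (nat_lit 152) (nat_lit 2822167461138) (nat_lit 0) (nat_lit 11890833642) (nat_lit 1) (nat_lit 5) (nat_lit 3) (nat_lit 4) (nat_lit 1) (nat_lit 4) (nat_lit 255) (nat_lit 216) (nat_lit 129)) (XT.lf (nat_lit 0) (nat_lit 151047268270) (nat_lit 152) (nat_lit 3127835435218) (nat_lit 0) (nat_lit 73726475699) (nat_lit 1) (nat_lit 5) (nat_lit 3) (nat_lit 4) (nat_lit 1) (nat_lit 4) (nat_lit 256) (nat_lit 216) (nat_lit 128))) (XT.nd (nat_lit 78) (nat_lit 0) (nat_lit 0) (XT.lf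 (nat_lit 0) (nat_lit 222158240677) (nat_lit 152) (nat_lit 3479353755737) (nat_lit 0) (nat_lit 144837402157) (nat_lit 1) (nat_lit 5) (nat_lit 3) (nat_lit 4) (nat_lit 1) (nat_lit 4) (nat_lit 257) (nat_lit 216) (nat_lit 127)) (XT.lf (nat_lit 0) (nat_lit 303935792226) (nat_lit 152) (nat_lit 3883599955052) (nat_lit 0) (nat_lit 226614913750) (nat_lit 1) (nat_lit 5) (nat_lit 3) (nat_lit 4) (nat_lit 1) (nat_lit 4) (nat_lit 258) (nat_lit 216) (nat_lit 126)))) (XT.nd (nat_lit 156) (nat_lit 0) (nat_lit 0) (XT.nd (nat_lit 78) (nat_lit 0) (nat_lit 0) (XT.lf (nat_lit 0) (nat_lit 397979918492) (nat_lit 152) (nat_lit 4348483197933) (nat_lit 0) (nat_lit 320659005271) (nat_lit 1) (nat_lit 5) (nat_lit 3) (nat_lit 4) (nat_lit 1) (nat_lit 4) (nat_lit 259) (nat_lit 216) (nat_lit 125)) (XT.lf (nat_lit 0) (nat_lit 506130613248) (nat_lit 152) (nat_lit 4883099026089) (nat_lit 0) (nat_lit 428809669814) (nat_lit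 1) (nat_lit 5) (nat_lit 3) (nat_lit 4) (nat_lit 1) (nat_lit 4) (nat_lit 260) (nat_lit 216) (nat_lit 124))) (XT.nd (nat_lit 78) (nat_lit 0) (nat_lit 0) (XT.lf (nat_lit 0) (nat_lit 630503868349) (nat_lit 152) (nat_lit 5497907314417) (nat_lit 0) (nat_lit 553182898643) (nat_lit 1) (nat_lit 5) (nat_lit 3) (nat_lit 4) (nat_lit 1) (nat_lit 4) (nat_lit 261) (nat_lit 216) (nat_lit 123)) (XT.lf (nat_lit 0) (nat_lit 773533073568) (nat_lit 152) (nat_lit 6204936920734) (nat_lit 0) (nat_lit 696212081018) (nat_lit 1) (nat_lit 5) (nat_lit 3) (nat_lit 4) (nat_lit 1) (nat_lit 4) (nat_lit 262) (nat_lit 216) (nat_lit 122)))))) (XT.nd (nat_lit 702) (nat_lit 0) (nat_lit 0) (XT.nd (nat_lit 312) (nat_lit 0) (nat_lit 0) (XT.nd (nat_lit 156) (nat_lit 0) (nat_lit 0) (XT.nd (nat_lit 78) (nat_lit 0) (nat_lit 0) (XT.lf (nat_lit 0) (nat_lit 938016626399) (nat_lit 152) (nat_lit 7018021032989) (nat_lit 0) (nat_lit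 860695613984) (nat_lit 1) (nat_lit 5) (nat_lit 3) (nat_lit 4) (nat_lit 1) (nat_lit 4) (nat_lit 263) (nat_lit 216) (nat_lit 121)) (XT.lf (nat_lit 0) (nat_lit 1127172683311) (nat_lit 152) (nat_lit 7953067818595) (nat_lit 0) (nat_lit 1049851653621) (nat_lit 1) (nat_lit 5) (nat_lit 3) (nat_lit 4) (nat_lit 1) (nat_lit 4) (nat_lit 264) (nat_lit 216) (nat_lit 120))) (XT.nd (nat_lit 78) (nat_lit 0) (nat_lit 0) (XT.lf (nat_lit 0) (nat_lit 1344702123677) (nat_lit 152) (nat_lit 9028371671184) (nat_lit 0) (nat_lit 1267381078966) (nat_lit 1) (nat_lit 5) (nat_lit 3) (nat_lit 4) (nat_lit 1) (nat_lit 4) (nat_lit 265) (nat_lit 216) (nat_lit 119)) (XT.lf (nat_lit 0) (nat_lit 1594860958288) (nat_lit 152) (nat_lit 10264971144394) (nat_lit 0) (nat_lit 1517539900515) (nat_lit 1) (nat_lit 5) (nat_lit 3) (nat_lit 4) (nat_lit 1) (nat_lit 4) (nat_lit 266) (nat_lit 216) (nat_lit 118)))) (XT.nd (nat_lit 156)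 (nat_lit 0) (nat_lit 0) (XT.nd (nat_lit 78) (nat_lit 0) (nat_lit 0) (XT.lf (nat_lit 0) (nat_lit 1882543599124) (nat_lit 152) (nat_lit 11687060575744) (nat_lit 0) (nat_lit 1805222529994) (nat_lit 1) (nat_lit 5) (nat_lit 3) (nat_lit 4) (nat_lit 1) (nat_lit 4) (nat_lit 267) (nat_lit 216) (nat_lit 117)) (XT.lf (nat_lit 0) (nat_lit 2213378619594) (nat_lit 152) (nat_lit 13322463454108) (nat_lit 0) (nat_lit 2136057540587) (nat_lit 1) (nat_lit 5) (nat_lit 3) (nat_lit 4) (nat_lit 1) (nat_lit 4) (nat_lit 268) (nat_lit 216) (nat_lit 116))) (XT.nd (nat_lit 78) (nat_lit 0) (nat_lit 0) (XT.lf (nat_lit 0) (nat_lit 2593838878794) (nat_lit 152) (nat_lit 15203176792323) (nat_lit 0) (nat_lit 2516517791199) (nat_lit 1) (nat_lit 5) (nat_lit 3) (nat_lit 4) (nat_lit 1) (nat_lit 4) (nat_lit 269) (nat_lit 216) (nat_lit 115)) (XT.lf (nat_lit 0) (nat_lit 3031368164404) (nat_lit 152) (nat_lit 17365997155704)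 (nat_lit 0) (nat_lit 2954047069340) (nat_lit 1) (nat_lit 5) (nat_lit 3) (nat_lit 4) (nat_lit 1) (nat_lit 4) (nat_lit 270) (nat_lit 216) (nat_lit 114))))) (XT.nd (nat_lit 312) (nat_lit 0) (nat_lit 0) (XT.nd (nat_lit 156) (nat_lit 0) (nat_lit 0) (XT.nd (nat_lit 78) (nat_lit 0) (nat_lit 0) (XT.lf (nat_lit 0) (nat_lit 4113159290331) (nat_lit 152) (nat_lit 22713570568314) (nat_lit 0) (nat_lit 4035838183126) (nat_lit 1) (nat_lit 5) (nat_lit 3) (nat_lit 4) (nat_lit 1) (nat_lit 4) (nat_lit 272) (nat_lit 216) (nat_lit 112)) (XT.lf (nat_lit 0) (nat_lit 4778586609199) (nat_lit 152) (nat_lit 26002950053877) (nat_lit 0) (nat_lit 4701265497084) (nat_lit 1) (nat_lit 5) (nat_lit 3) (nat_lit 4) (nat_lit 1) (nat_lit 4) (nat_lit 273) (nat_lit 216) (nat_lit 111))) (XT.nd (nat_lit 78) (nat_lit 0) (nat_lit 0) (XT.lf (nat_lit 0) (nat_lit 5543828018767) (nat_lit 152) (nat_lit 29785736476244) (nat_lit 0) (nat_lit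 5466506902382) (nat_lit 1) (nat_lit 5) (nat_lit 3) (nat_lit 4) (nat_lit 1) (nat_lit 4) (nat_lit 274) (nat_lit 216) (nat_lit 110)) (XT.lf (nat_lit 0) (nat_lit 6423855633571) (nat_lit 152) (nat_lit 34135940874113) (nat_lit 0) (nat_lit 6346534513473) (nat_lit 1) (nat_lit 5) (nat_lit 3) (nat_lit 4) (nat_lit 1) (nat_lit 4) (nat_lit 275) (nat_lit 216) (nat_lit 109)))) (XT.nd (nat_lit 26676) (nat_lit 0) (nat_lit 1368) (XT.nd (nat_lit 78) (nat_lit 0) (nat_lit 0) (XT.lf (nat_lit 0) (nat_lit 7435887385204) (nat_lit 152) (nat_lit 39138675942225) (nat_lit 0) (nat_lit 7358566261877) (nat_lit 1) (nat_lit 5) (nat_lit 3) (nat_lit 4) (nat_lit 1) (nat_lit 4) (nat_lit 276) (nat_lit 216) (nat_lit 108)) (XT.lf (nat_lit 0) (nat_lit 8599723894893) (nat_lit 152) (nat_lit 44891821279739) (nat_lit 0) (nat_lit 8522402768759) (nat_lit 1) (nat_lit 5) (nat_lit 3) (nat_lit 4) (nat_lit 1) (nat_lit 4) (nat_lit 277)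 (nat_lit 216) (nat_lit 107))) (XT.nd (nat_lit 78) (nat_lit 0) (nat_lit 0) (XT.lf (nat_lit 0) (nat_lit 10623413709) (nat_lit 0) (nat_lit 10623413709) (nat_lit 228) (nat_lit 817148488) (nat_lit 19) (nat_lit 5) (nat_lit 19) (nat_lit 3) (nat_lit 22) (nat_lit 3) (nat_lit 217) (nat_lit 217) (nat_lit 166)) (XT.lf (nat_lit 0) (nat_lit 43254777388) (nat_lit 0) (nat_lit 2453844037) (nat_lit 228) (nat_lit 1724418536) (nat_lit 19) (nat_lit 5) (nat_lit 19) (nat_lit 3) (nat_lit 22) (nat_lit 3) (nat_lit 218) (nat_lit 217) (nat_lit 165))))))) (XT.nd (nat_lit 1170) (nat_lit 304) (nat_lit 0) (XT.nd (nat_lit 546) (nat_lit 304) (nat_lit 0) (XT.nd (nat_lit 234) (nat_lit 304) (nat_lit 0) (XT.nd (nat_lit 78) (nat_lit 304) (nat_lit 0) (XT.lf (nat_lit 76) (nat_lit 18149097842) (nat_lit 0) (nat_lit 32796673865) (nat_lit 304) (nat_lit 57185240) (nat_lit 20) (nat_lit 5) (nat_lit 19) (nat_lit 5) (nat_lit 23) (nat_lit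 5) (nat_lit 219) (nat_lit 217) (nat_lit 164)) (XT.nd (nat_lit 78) (nat_lit 0) (nat_lit 76) (XT.lf (nat_lit 0) (nat_lit 2035566776) (nat_lit 304) (nat_lit 10988465969) (nat_lit 380) (nat_lit 42021662428) (nat_lit 15) (nat_lit 5) (nat_lit 19) (nat_lit 5) (nat_lit 20) (nat_lit 5) (nat_lit 220) (nat_lit 217) (nat_lit 163)) (XT.lf (nat_lit 0) (nat_lit 5508620965) (nat_lit 304) (nat_lit 44497959159) (nat_lit 76) (nat_lit 9527056035) (nat_lit 16) (nat_lit 5) (nat_lit 20) (nat_lit 5) (nat_lit 17) (nat_lit 5) (nat_lit 221) (nat_lit 217) (nat_lit 162)))) (XT.nd (nat_lit 156) (nat_lit 152) (nat_lit 0) (XT.nd (nat_lit 78) (nat_lit 228) (nat_lit 0) (XT.lf (nat_lit 0) (nat_lit 10720971895) (nat_lit 304) (nat_lit 19061454608) (nat_lit 76) (nat_lit 34729623253) (nat_lit 16) (nat_lit 5) (nat_lit 20) (nat_lit 5) (nat_lit 17) (nat_lit 5) (nat_lit 222) (nat_lit 217) (nat_lit 161)) (XT.lf (nat_lit 0) (nat_lit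 11182889185) (nat_lit 228) (nat_lit 5992213049) (nat_lit 304) (nat_lit 52993162196) (nat_lit 13) (nat_lit 5) (nat_lit 16) (nat_lit 5) (nat_lit 17) (nat_lit 5) (nat_lit 223) (nat_lit 217) (nat_lit 160))) (XT.nd (nat_lit 78) (nat_lit 152) (nat_lit 0) (XT.lf (nat_lit 0) (nat_lit 26523075982) (nat_lit 304) (nat_lit 29353021476) (nat_lit 76) (nat_lit 20507979658) (nat_lit 13) (nat_lit 5) (nat_lit 17) (nat_lit 5) (nat_lit 14) (nat_lit 5) (nat_lit 224) (nat_lit 217) (nat_lit 159)) (XT.lf (nat_lit 0) (nat_lit 4869285870) (nat_lit 152) (nat_lit 32888442973) (nat_lit 228) (nat_lit 45701881616) (nat_lit 11) (nat_lit 5) (nat_lit 13) (nat_lit 5) (nat_lit 14) (nat_lit 5) (nat_lit 225) (nat_lit 217) (nat_lit 158))))) (XT.nd (nat_lit 312) (nat_lit 228) (nat_lit 0) (XT.nd (nat_lit 156) (nat_lit 76) (nat_lit 0) (XT.nd (nat_lit 78) (nat_lit 0) (nat_lit 0) (XT.lf (nat_lit 0) (nat_lit 47520903952) (nat_lit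 152) (nat_lit 4688754718) (nat_lit 228) (nat_lit 39157021720) (nat_lit 11) (nat_lit 5) (nat_lit 13) (nat_lit 5) (nat_lit 14) (nat_lit 5) (nat_lit 226) (nat_lit 217) (nat_lit 157)) (XT.lf (nat_lit 0) (nat_lit 69976060597) (nat_lit 228) (nat_lit 5041062711) (nat_lit 76) (nat_lit 25270701147) (nat_lit 11) (nat_lit 5) (nat_lit 14) (nat_lit 5) (nat_lit 12) (nat_lit 4) (nat_lit 227) (nat_lit 217) (nat_lit 156))) (XT.nd (nat_lit 78) (nat_lit 0) (nat_lit 0) (XT.lf (nat_lit 0) (nat_lit 43205038193) (nat_lit 76) (nat_lit 49212940768) (nat_lit 152) (nat_lit 17827591692) (nat_lit 10) (nat_lit 5) (nat_lit 11) (nat_lit 5) (nat_lit 12) (nat_lit 4) (nat_lit 228) (nat_lit 217) (nat_lit 155)) (XT.lf (nat_lit 0) (nat_lit 99252255514) (nat_lit 76) (nat_lit 19235823953) (nat_lit 152) (nat_lit 3169627284) (nat_lit 10) (nat_lit 5) (nat_lit 11) (nat_lit 5) (nat_lit 12) (nat_lit 4) (nat_lit 229) (nat_lit 217)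 (nat_lit 154)))) (XT.nd (nat_lit 156) (nat_lit 76) (nat_lit 0) (XT.nd (nat_lit 78) (nat_lit 0) (nat_lit 0) (XT.lf (nat_lit 0) (nat_lit 14475245281) (nat_lit 152) (nat_lit 104095751119) (nat_lit 76) (nat_lit 15824654255) (nat_lit 8) (nat_lit 5) (nat_lit 10) (nat_lit 5) (nat_lit 9) (nat_lit 4) (nat_lit 230) (nat_lit 217) (nat_lit 153)) (XT.lf (nat_lit 0) (nat_lit 36583891373) (nat_lit 152) (nat_lit 56564462515) (nat_lit 76) (nat_lit 55552067220) (nat_lit 8) (nat_lit 5) (nat_lit 10) (nat_lit 5) (nat_lit 9) (nat_lit 4) (nat_lit 231) (nat_lit 217) (nat_lit 152))) (XT.nd (nat_lit 78) (nat_lit 76) (nat_lit 0) (XT.lf (nat_lit 0) (nat_lit 62007612899) (nat_lit 152) (nat_lit 1905461665) (nat_lit 76) (nat_lit 101238022722) (nat_lit 8) (nat_lit 5) (nat_lit 10) (nat_lit 5) (nat_lit 9) (nat_lit 4) (nat_lit 232) (nat_lit 217) (nat_lit 151)) (XT.lf (nat_lit 0) (nat_lit 66907209089) (nat_lit 76) (nat_lit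 27107106256) (nat_lit 152) (nat_lit 89639652171) (nat_lit 7) (nat_lit 5) (nat_lit 8) (nat_lit 5) (nat_lit 9) (nat_lit 4) (nat_lit 233) (nat_lit 217) (nat_lit 150)))))) (XT.nd (nat_lit 624) (nat_lit 76) (nat_lit 0) (XT.nd (nat_lit 312) (nat_lit 76) (nat_lit 0) (XT.nd (nat_lit 156) (nat_lit 76) (nat_lit 0) (XT.nd (nat_lit 78) (nat_lit 76) (nat_lit 0) (XT.lf (nat_lit 0) (nat_lit 131555568835) (nat_lit 152) (nat_lit 59298131407) (nat_lit 0) (nat_lit 13968541429) (nat_lit 7) (nat_lit 5) (nat_lit 9) (nat_lit 4) (nat_lit 7) (nat_lit 4) (nat_lit 234) (nat_lit 217) (nat_lit 149)) (XT.lf (nat_lit 0) (nat_lit 6010534115) (nat_lit 76) (nat_lit 170256288366) (nat_lit 76) (nat_lit 52668117207) (nat_lit 6) (nat_lit 4) (nat_lit 7) (nat_lit 5) (nat_lit 7) (nat_lit 4) (nat_lit 235) (nat_lit 217) (nat_lit 148))) (XT.nd (nat_lit 78) (nat_lit 76) (nat_lit 0) (XT.lf (nat_lit 0) (nat_lit 87778330561) (nat_lit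 76) (nat_lit 143005277478) (nat_lit 76) (nat_lit 25416111753) (nat_lit 6) (nat_lit 4) (nat_lit 7) (nat_lit 5) (nat_lit 7) (nat_lit 4) (nat_lit 236) (nat_lit 217) (nat_lit 147)) (XT.lf (nat_lit 0) (nat_lit 5395565943) (nat_lit 152) (nat_lit 105989563789) (nat_lit 76) (nat_lit 176132411094) (nat_lit 5) (nat_lit 5) (nat_lit 7) (nat_lit 5) (nat_lit 6) (nat_lit 4) (nat_lit 237) (nat_lit 217) (nat_lit 146)))) (XT.nd (nat_lit 156) (nat_lit 0) (nat_lit 0) (XT.nd (nat_lit 78) (nat_lit 76) (nat_lit 0) (XT.lf (nat_lit 0) (nat_lit 38226208412) (nat_lit 152) (nat_lit 35404434516) (nat_lit 76) (nat_lit 249720950211) (nat_lit 5) (nat_lit 5) (nat_lit 7) (nat_lit 5) (nat_lit 6) (nat_lit 4) (nat_lit 238) (nat_lit 217) (nat_lit 145)) (XT.lf (nat_lit 0) (nat_lit 50240165963) (nat_lit 76) (nat_lit 27821044506) (nat_lit 152) (nat_lit 286187580612) (nat_lit 4) (nat_lit 5) (nat_lit 5) (nat_lit 5) (nat_lit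 6) (nat_lit 4) (nat_lit 239) (nat_lit 217) (nat_lit 144))) (XT.nd (nat_lit 78) (nat_lit 0) (nat_lit 0) (XT.lf (nat_lit 0) (nat_lit 126839117841) (nat_lit 152) (nat_lit 259411104314) (nat_lit 0) (nat_lit 24585200281) (nat_lit 4) (nat_lit 5) (nat_lit 6) (nat_lit 4) (nat_lit 4) (nat_lit 4) (nat_lit 240) (nat_lit 217) (nat_lit 143)) (XT.lf (nat_lit 0) (nat_lit 184258037231) (nat_lit 152) (nat_lit 197949674399) (nat_lit 0) (nat_lit 82003689692) (nat_lit 4) (nat_lit 5) (nat_lit 6) (nat_lit 4) (nat_lit 4) (nat_lit 4) (nat_lit 241) (nat_lit 217) (nat_lit 142))))) (XT.nd (nat_lit 312) (nat_lit 0) (nat_lit 0) (XT.nd (nat_lit 156) (nat_lit 76) (nat_lit 0) (XT.nd (nat_lit 78) (nat_lit 0) (nat_lit 0) (XT.lf (nat_lit 0) (nat_lit 250289372155) (nat_lit 152) (nat_lit 127269819010) (nat_lit 0) (nat_lit 148034650721) (nat_lit 4) (nat_lit 5) (nat_lit 6) (nat_lit 4) (nat_lit 4) (nat_lit 4) (nat_lit 242)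 (nat_lit 217) (nat_lit 141)) (XT.lf (nat_lit 0) (nat_lit 326225040035) (nat_lit 152) (nat_lit 45988671413) (nat_lit 0) (nat_lit 223969993475) (nat_lit 4) (nat_lit 5) (nat_lit 6) (nat_lit 4) (nat_lit 4) (nat_lit 4) (nat_lit 243) (nat_lit 217) (nat_lit 140))) (XT.nd (nat_lit 78) (nat_lit 0) (nat_lit 0) (XT.lf (nat_lit 0) (nat_lit 52124538586) (nat_lit 76) (nat_lit 363584566122) (nat_lit 76) (nat_lit 261329236844) (nat_lit 3) (nat_lit 4) (nat_lit 4) (nat_lit 5) (nat_lit 4) (nat_lit 4) (nat_lit 244) (nat_lit 217) (nat_lit 139)) (XT.lf (nat_lit 0) (nat_lit 170122660145) (nat_lit 76) (nat_lit 350896770916) (nat_lit 76) (nat_lit 248641195796) (nat_lit 3) (nat_lit 4) (nat_lit 4) (nat_lit 5) (nat_lit 4) (nat_lit 4) (nat_lit 245) (nat_lit 217) (nat_lit 138)))) (XT.nd (nat_lit 156) (nat_lit 0) (nat_lit 0) (XT.nd (nat_lit 78) (nat_lit 0) (nat_lit 0) (XT.lf (nat_lit 0) (nat_lit 305820004729) (nat_lit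 76) (nat_lit 336306039639) (nat_lit 76) (nat_lit 234050250743) (nat_lit 3) (nat_lit 4) (nat_lit 4) (nat_lit 5) (nat_lit 4) (nat_lit 4) (nat_lit 246) (nat_lit 217) (nat_lit 137)) (XT.lf (nat_lit 0) (nat_lit 461871520385) (nat_lit 76) (nat_lit 319526901460) (nat_lit 76) (nat_lit 217270926672) (nat_lit 3) (nat_lit 4) (nat_lit 4) (nat_lit 5) (nat_lit 4) (nat_lit 4) (nat_lit 247) (nat_lit 217) (nat_lit 136))) (XT.nd (nat_lit 78) (nat_lit 0) (nat_lit 0) (XT.lf (nat_lit 0) (nat_lit 641330388941) (nat_lit 76) (nat_lit 300231068893) (nat_lit 76) (nat_lit 197974932461) (nat_lit 3) (nat_lit 4) (nat_lit 4) (nat_lit 5) (nat_lit 4) (nat_lit 4) (nat_lit 248) (nat_lit 217) (nat_lit 135)) (XT.lf (nat_lit 0) (nat_lit 847707762172) (nat_lit 76) (nat_lit 278041014781) (nat_lit 76) (nat_lit 175784737788) (nat_lit 3) (nat_lit 4) (nat_lit 4) (nat_lit 5) (nat_lit 4) (nat_lit 4) (nat_lit 249) (nat_lit 217)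 (nat_lit 134))))))))
noncomputable def xc44 : XT := (XT.nd (nat_lit 29094) (nat_lit 0) (nat_lit 152) (XT.nd (nat_lit 1170) (nat_lit 0) (nat_lit 0) (XT.nd (nat_lit 546) (nat_lit 0) (nat_lit 0) (XT.nd (nat_lit 234) (nat_lit 152) (nat_lit 0) (XT.nd (nat_lit 78) (nat_lit 0) (nat_lit 0) (XT.lf (nat_lit 0) (nat_lit 1085041458251) (nat_lit 76) (nat_lit 252522585889) (nat_lit 76) (nat_lit 150266186669) (nat_lit 3) (nat_lit 4) (nat_lit 4) (nat_lit 5) (nat_lit 4) (nat_lit 4) (nat_lit 250) (nat_lit 217) (nat_lit 133)) (XT.nd (nat_lit 78) (nat_lit 0) (nat_lit 0) (XT.lf (nat_lit 0) (nat_lit 1357974962536) (nat_lit 76) (nat_lit 223176508610) (nat_lit 76) (nat_lit 120920003106) (nat_lit 3) (nat_lit 4) (nat_lit 4) (nat_lit 5) (nat_lit 4) (nat_lit 4) (nat_lit 251) (nat_lit 217) (nat_lit 132)) (XT.lf (nat_lit 0) (nat_lit 1671848278371) (nat_lit 76) (nat_lit 189428620561) (nat_lit 76) (nat_lit 87172022636)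 (nat_lit 3) (nat_lit 4) (nat_lit 4) (nat_lit 5) (nat_lit 4) (nat_lit 4) (nat_lit 252) (nat_lit 217) (nat_lit 131)))) (XT.nd (nat_lit 156) (nat_lit 152) (nat_lit 0) (XT.nd (nat_lit 78) (nat_lit 0) (nat_lit 0) (XT.lf (nat_lit 0) (nat_lit 2032802405414) (nat_lit 76) (nat_lit 150618636978) (nat_lit 76) (nat_lit 48361958686) (nat_lit 3) (nat_lit 4) (nat_lit 4) (nat_lit 5) (nat_lit 4) (nat_lit 4) (nat_lit 253) (nat_lit 217) (nat_lit 130)) (XT.lf (nat_lit 0) (nat_lit 2447899489629) (nat_lit 76) (nat_lit 105987232093) (nat_lit 76) (nat_lit 3730483918) (nat_lit 3) (nat_lit 4) (nat_lit 4) (nat_lit 5) (nat_lit 4) (nat_lit 4) (nat_lit 254) (nat_lit 217) (nat_lit 129))) (XT.nd (nat_lit 78) (nat_lit 76) (nat_lit 0) (XT.lf (nat_lit 0) (nat_lit 43358334403) (nat_lit 152) (nat_lit 9036389975) (nat_lit 76) (nat_lit 2879636202914) (nat_lit 2) (nat_lit 5) (nat_lit 4) (nat_lit 5) (nat_lit 3) (nat_lit 4)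 (nat_lit 255) (nat_lit 217) (nat_lit 128)) (XT.lf (nat_lit 0) (nat_lit 102594135526) (nat_lit 152) (nat_lit 3245490961675) (nat_lit 0) (nat_lit 13675125278) (nat_lit 1) (nat_lit 5) (nat_lit 3) (nat_lit 4) (nat_lit 1) (nat_lit 4) (nat_lit 256) (nat_lit 217) (nat_lit 127))))) (XT.nd (nat_lit 312) (nat_lit 0) (nat_lit 0) (XT.nd (nat_lit 156) (nat_lit 0) (nat_lit 0) (XT.nd (nat_lit 78) (nat_lit 0) (nat_lit 0) (XT.lf (nat_lit 0) (nat_lit 173705076901) (nat_lit 152) (nat_lit 3597009342993) (nat_lit 0) (nat_lit 84786026697) (nat_lit 1) (nat_lit 5) (nat_lit 3) (nat_lit 4) (nat_lit 1) (nat_lit 4) (nat_lit 257) (nat_lit 217) (nat_lit 126)) (XT.lf (nat_lit 0) (nat_lit 255482601466) (nat_lit 152) (nat_lit 4001255595178) (nat_lit 0) (nat_lit 166563516518) (nat_lit 1) (nat_lit 5) (nat_lit 3) (nat_lit 4) (nat_lit 1) (nat_lit 4) (nat_lit 258) (nat_lit 217) (nat_lit 125))) (XT.nd (nat_lit 78) (nat_lit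 0) (nat_lit 0) (XT.lf (nat_lit 0) (nat_lit 349526704267) (nat_lit 152) (nat_lit 4466138884032) (nat_lit 0) (nat_lit 260607589106) (nat_lit 1) (nat_lit 5) (nat_lit 3) (nat_lit 4) (nat_lit 1) (nat_lit 4) (nat_lit 259) (nat_lit 217) (nat_lit 124)) (XT.lf (nat_lit 0) (nat_lit 457677378619) (nat_lit 152) (nat_lit 5000754752164) (nat_lit 0) (nat_lit 368758237186) (nat_lit 1) (nat_lit 5) (nat_lit 3) (nat_lit 4) (nat_lit 1) (nat_lit 4) (nat_lit 260) (nat_lit 217) (nat_lit 123)))) (XT.nd (nat_lit 156) (nat_lit 0) (nat_lit 0) (XT.nd (nat_lit 78) (nat_lit 0) (nat_lit 0) (XT.lf (nat_lit 0) (nat_lit 582050615977) (nat_lit 152) (nat_lit 5615563075255) (nat_lit 0) (nat_lit 493131451699) (nat_lit 1) (nat_lit 5) (nat_lit 3) (nat_lit 4) (nat_lit 1) (nat_lit 4) (nat_lit 261) (nat_lit 217) (nat_lit 122)) (XT.lf (nat_lit 0) (nat_lit 725079805768) (nat_lit 152) (nat_lit 6322592711800) (nat_lit 0) (nat_lit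 636160621625) (nat_lit 1) (nat_lit 5) (nat_lit 3) (nat_lit 4) (nat_lit 1) (nat_lit 4) (nat_lit 262) (nat_lit 217) (nat_lit 121))) (XT.nd (nat_lit 78) (nat_lit 0) (nat_lit 0) (XT.lf (nat_lit 0) (nat_lit 889563345184) (nat_lit 152) (nat_lit 7135676850340) (nat_lit 0) (nat_lit 800644143766) (nat_lit 1) (nat_lit 5) (nat_lit 3) (nat_lit 4) (nat_lit 1) (nat_lit 4) (nat_lit 263) (nat_lit 217) (nat_lit 120)) (XT.lf (nat_lit 0) (nat_lit 1078719390429) (nat_lit 152) (nat_lit 8070723658803) (nat_lit 0) (nat_lit 989800173990) (nat_lit 1) (nat_lit 5) (nat_lit 3) (nat_lit 4) (nat_lit 1) (nat_lit 4) (nat_lit 264) (nat_lit 217) (nat_lit 119)))))) (XT.nd (nat_lit 702) (nat_lit 0) (nat_lit 0) (XT.nd (nat_lit 312) (nat_lit 0) (nat_lit 0) (XT.nd (nat_lit 156) (nat_lit 0) (nat_lit 0) (XT.nd (nat_lit 78) (nat_lit 0) (nat_lit 0) (XT.lf (nat_lit 0) (nat_lit 1296248820651) (nat_lit 152) (nat_lit 9146027531268)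 (nat_lit 0) (nat_lit 1207329591150) (nat_lit 1) (nat_lit 5) (nat_lit 3) (nat_lit 4) (nat_lit 1) (nat_lit 4) (nat_lit 265) (nat_lit 217) (nat_lit 118)) (XT.lf (nat_lit 0) (nat_lit 1546407646440) (nat_lit 152) (nat_lit 10382627021760) (nat_lit 0) (nat_lit 1457488405582) (nat_lit 1) (nat_lit 5) (nat_lit 3) (nat_lit 4) (nat_lit 1) (nat_lit 4) (nat_lit 266) (nat_lit 217) (nat_lit 117))) (XT.nd (nat_lit 78) (nat_lit 0) (nat_lit 0) (XT.lf (nat_lit 0) (nat_lit 1834090279606) (nat_lit 152) (nat_lit 11804716468139) (nat_lit 0) (nat_lit 1745171028871) (nat_lit 1) (nat_lit 5) (nat_lit 3) (nat_lit 4) (nat_lit 1) (nat_lit 4) (nat_lit 267) (nat_lit 217) (nat_lit 116)) (XT.lf (nat_lit 0) (nat_lit 2164925293406) (nat_lit 152) (nat_lit 13440119359571) (nat_lit 0) (nat_lit 2076006034083) (nat_lit 1) (nat_lit 5) (nat_lit 3) (nat_lit 4) (nat_lit 1) (nat_lit 4) (nat_lit 268) (nat_lit 217) (nat_lit 115))))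 (XT.nd (nat_lit 234) (nat_lit 0) (nat_lit 0) (XT.nd (nat_lit 78) (nat_lit 0) (nat_lit 0) (XT.lf (nat_lit 0) (nat_lit 2545385546806) (nat_lit 152) (nat_lit 15320832709151) (nat_lit 0) (nat_lit 2456466280015) (nat_lit 1) (nat_lit 5) (nat_lit 3) (nat_lit 4) (nat_lit 1) (nat_lit 4) (nat_lit 269) (nat_lit 217) (nat_lit 114)) (XT.lf (nat_lit 0) (nat_lit 2982914827372) (nat_lit 152) (nat_lit 17483653082413) (nat_lit 0) (nat_lit 2893995554087) (nat_lit 1) (nat_lit 5) (nat_lit 3) (nat_lit 4) (nat_lit 1) (nat_lit 4) (nat_lit 270) (nat_lit 217) (nat_lit 113))) (XT.nd (nat_lit 78) (nat_lit 0) (nat_lit 0) (XT.lf (nat_lit 0) (nat_lit 4064705945100) (nat_lit 152) (nat_lit 22831226511087) (nat_lit 0) (nat_lit 3975786661257) (nat_lit 1) (nat_lit 5) (nat_lit 3) (nat_lit 4) (nat_lit 1) (nat_lit 4) (nat_lit 272) (nat_lit 217) (nat_lit 111)) (XT.lf (nat_lit 0) (nat_lit 4730133260651) (nat_lit 152) (nat_lit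 26120606003148) (nat_lit 0) (nat_lit 4641213972539) (nat_lit 1) (nat_lit 5) (nat_lit 3) (nat_lit 4) (nat_lit 1) (nat_lit 4) (nat_lit 273) (nat_lit 217) (nat_lit 110))))) (XT.nd (nat_lit 26910) (nat_lit 0) (nat_lit 1064) (XT.nd (nat_lit 156) (nat_lit 0) (nat_lit 0) (XT.nd (nat_lit 78) (nat_lit 0) (nat_lit 0) (XT.lf (nat_lit 0) (nat_lit 5495374667336) (nat_lit 152) (nat_lit 29903392431164) (nat_lit 0) (nat_lit 5406455375510) (nat_lit 1) (nat_lit 5) (nat_lit 3) (nat_lit 4) (nat_lit 1) (nat_lit 4) (nat_lit 274) (nat_lit 217) (nat_lit 109)) (XT.lf (nat_lit 0) (nat_lit 6375402279632) (nat_lit 152) (nat_lit 34253596833946) (nat_lit 0) (nat_lit 6286482984578) (nat_lit 1) (nat_lit 5) (nat_lit 3) (nat_lit 4) (nat_lit 1) (nat_lit 4) (nat_lit 275) (nat_lit 217) (nat_lit 108))) (XT.nd (nat_lit 78) (nat_lit 0) (nat_lit 0) (XT.lf (nat_lit 0) (nat_lit 7387434029084) (nat_lit 152) (nat_lit 39256331906331)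 (nat_lit 0) (nat_lit 7298514731223) (nat_lit 1) (nat_lit 5) (nat_lit 3) (nat_lit 4) (nat_lit 1) (nat_lit 4) (nat_lit 276) (nat_lit 217) (nat_lit 107)) (XT.lf (nat_lit 0) (nat_lit 8551270536878) (nat_lit 152) (nat_lit 45009477247560) (nat_lit 0) (nat_lit 8462351236575) (nat_lit 1) (nat_lit 5) (nat_lit 3) (nat_lit 4) (nat_lit 1) (nat_lit 4) (nat_lit 277) (nat_lit 217) (nat_lit 106)))) (XT.nd (nat_lit 156) (nat_lit 304) (nat_lit 0) (XT.nd (nat_lit 78) (nat_lit 0) (nat_lit 0) (XT.lf (nat_lit 0) (nat_lit 12230318484) (nat_lit 0) (nat_lit 12230318484) (nat_lit 228) (nat_lit 908613762) (nat_lit 19) (nat_lit 5) (nat_lit 19) (nat_lit 3) (nat_lit 22) (nat_lit 3) (nat_lit 218) (nat_lit 218) (nat_lit 164)) (XT.lf (nat_lit 0) (nat_lit 49766285682) (nat_lit 0) (nat_lit 2845212329) (nat_lit 228) (nat_lit 1928982187) (nat_lit 19) (nat_lit 5) (nat_lit 19) (nat_lit 3) (nat_lit 22) (nat_lit 3) (nat_lit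 219) (nat_lit 218) (nat_lit 163))) (XT.nd (nat_lit 78) (nat_lit 304) (nat_lit 0) (XT.lf (nat_lit 76) (nat_lit 20901790243) (nat_lit 0) (nat_lit 37726771646) (nat_lit 304) (nat_lit 18240587) (nat_lit 20) (nat_lit 5) (nat_lit 19) (nat_lit 5) (nat_lit 23) (nat_lit 5) (nat_lit 220) (nat_lit 218) (nat_lit 162)) (XT.lf (nat_lit 0) (nat_lit 2378546717) (nat_lit 304) (nat_lit 12606337661) (nat_lit 380) (nat_lit 48311670999) (nat_lit 15) (nat_lit 5) (nat_lit 19) (nat_lit 5) (nat_lit 20) (nat_lit 5) (nat_lit 221) (nat_lit 218) (nat_lit 161))))))) (XT.nd (nat_lit 1170) (nat_lit 228) (nat_lit 0) (XT.nd (nat_lit 546) (nat_lit 380) (nat_lit 0) (XT.nd (nat_lit 234) (nat_lit 152) (nat_lit 0) (XT.nd (nat_lit 78) (nat_lit 228) (nat_lit 0) (XT.lf (nat_lit 0) (nat_lit 6368646620) (nat_lit 304) (nat_lit 51138040386) (nat_lit 76) (nat_lit 10951632672) (nat_lit 16) (nat_lit 5) (nat_lit 20) (nat_lit 5) (nat_lit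 17) (nat_lit 5) (nat_lit 222) (nat_lit 218) (nat_lit 160)) (XT.nd (nat_lit 78) (nat_lit 228) (nat_lit 0) (XT.lf (nat_lit 0) (nat_lit 12358450297) (nat_lit 304) (nat_lit 21890574845) (nat_lit 76) (nat_lit 39935169551) (nat_lit 16) (nat_lit 5) (nat_lit 20) (nat_lit 5) (nat_lit 17) (nat_lit 5) (nat_lit 223) (nat_lit 218) (nat_lit 159)) (XT.lf (nat_lit 0) (nat_lit 12889052428) (nat_lit 228) (nat_lit 6889011407) (nat_lit 304) (nat_lit 60911207442) (nat_lit 13) (nat_lit 5) (nat_lit 16) (nat_lit 5) (nat_lit 17) (nat_lit 5) (nat_lit 224) (nat_lit 218) (nat_lit 158)))) (XT.nd (nat_lit 156) (nat_lit 0) (nat_lit 0) (XT.nd (nat_lit 78) (nat_lit 152) (nat_lit 0) (XT.lf (nat_lit 0) (nat_lit 30524824747) (nat_lit 304) (nat_lit 33727384719) (nat_lit 76) (nat_lit 23585787524) (nat_lit 13) (nat_lit 5) (nat_lit 17) (nat_lit 5) (nat_lit 14) (nat_lit 5) (nat_lit 225) (nat_lit 218) (nat_lit 157)) (XT.lf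 (nat_lit 0) (nat_lit 5626969185) (nat_lit 152) (nat_lit 37815798909) (nat_lit 228) (nat_lit 52532404260) (nat_lit 11) (nat_lit 5) (nat_lit 13) (nat_lit 5) (nat_lit 14) (nat_lit 5) (nat_lit 226) (nat_lit 218) (nat_lit 156))) (XT.nd (nat_lit 78) (nat_lit 0) (nat_lit 0) (XT.lf (nat_lit 0) (nat_lit 54672770357) (nat_lit 152) (nat_lit 5386928351) (nat_lit 228) (nat_lit 45009044893) (nat_lit 11) (nat_lit 5) (nat_lit 13) (nat_lit 5) (nat_lit 14) (nat_lit 5) (nat_lit 227) (nat_lit 218) (nat_lit 155)) (XT.lf (nat_lit 0) (nat_lit 80488821040) (nat_lit 228) (nat_lit 5774216169) (nat_lit 76) (nat_lit 29065377636) (nat_lit 11) (nat_lit 5) (nat_lit 14) (nat_lit 5) (nat_lit 12) (nat_lit 4) (nat_lit 228) (nat_lit 218) (nat_lit 154))))) (XT.nd (nat_lit 312) (nat_lit 152) (nat_lit 0) (XT.nd (nat_lit 156) (nat_lit 152) (nat_lit 0) (XT.nd (nat_lit 78) (nat_lit 0) (nat_lit 0) (XT.lf (nat_lit 0) (nat_lit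 49707754146) (nat_lit 76) (nat_lit 56588049554) (nat_lit 152) (nat_lit 20484219823) (nat_lit 10) (nat_lit 5) (nat_lit 11) (nat_lit 5) (nat_lit 12) (nat_lit 4) (nat_lit 229) (nat_lit 218) (nat_lit 153)) (XT.lf (nat_lit 0) (nat_lit 114159189688) (nat_lit 76) (nat_lit 22115256390) (nat_lit 152) (nat_lit 3629844748) (nat_lit 10) (nat_lit 5) (nat_lit 11) (nat_lit 5) (nat_lit 12) (nat_lit 4) (nat_lit 230) (nat_lit 218) (nat_lit 152))) (XT.nd (nat_lit 78) (nat_lit 0) (nat_lit 0) (XT.lf (nat_lit 0) (nat_lit 16659684290) (nat_lit 152) (nat_lit 119688783015) (nat_lit 76) (nat_lit 18204483459) (nat_lit 8) (nat_lit 5) (nat_lit 10) (nat_lit 5) (nat_lit 9) (nat_lit 4) (nat_lit 231) (nat_lit 218) (nat_lit 151)) (XT.lf (nat_lit 0) (nat_lit 42082911789) (nat_lit 152) (nat_lit 65030583396) (nat_lit 76) (nat_lit 63890208664) (nat_lit 8) (nat_lit 5) (nat_lit 10) (nat_lit 5) (nat_lit 9) (nat_lit 4) (nat_lit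 232) (nat_lit 218) (nat_lit 150)))) (XT.nd (nat_lit 156) (nat_lit 76) (nat_lit 0) (XT.nd (nat_lit 78) (nat_lit 76) (nat_lit 0) (XT.lf (nat_lit 0) (nat_lit 71318699799) (nat_lit 152) (nat_lit 2175151787) (nat_lit 76) (nat_lit 116428362096) (nat_lit 8) (nat_lit 5) (nat_lit 10) (nat_lit 5) (nat_lit 9) (nat_lit 4) (nat_lit 233) (nat_lit 218) (nat_lit 149)) (XT.lf (nat_lit 0) (nat_lit 76958686438) (nat_lit 76) (nat_lit 31167061520) (nat_lit 152) (nat_lit 103074872801) (nat_lit 7) (nat_lit 5) (nat_lit 8) (nat_lit 5) (nat_lit 9) (nat_lit 4) (nat_lit 234) (nat_lit 218) (nat_lit 148))) (XT.nd (nat_lit 78) (nat_lit 76) (nat_lit 0) (XT.lf (nat_lit 0) (nat_lit 151297198369) (nat_lit 152) (nat_lit 68178429518) (nat_lit 0) (nat_lit 16068663217) (nat_lit 7) (nat_lit 5) (nat_lit 9) (nat_lit 4) (nat_lit 7) (nat_lit 4) (nat_lit 235) (nat_lit 218) (nat_lit 147)) (XT.lf (nat_lit 0) (nat_lit 6925880305)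 (nat_lit 76) (nat_lit 195788747927) (nat_lit 76) (nat_lit 60559347934) (nat_lit 6) (nat_lit 4) (nat_lit 7) (nat_lit 5) (nat_lit 7) (nat_lit 4) (nat_lit 236) (nat_lit 218) (nat_lit 146)))))) (XT.nd (nat_lit 624) (nat_lit 76) (nat_lit 0) (XT.nd (nat_lit 312) (nat_lit 0) (nat_lit 0) (XT.nd (nat_lit 156) (nat_lit 76) (nat_lit 0) (XT.nd (nat_lit 78) (nat_lit 76) (nat_lit 0) (XT.lf (nat_lit 0) (nat_lit 100957050644) (nat_lit 76) (nat_lit 164450865889) (nat_lit 76) (nat_lit 29220713860) (nat_lit 6) (nat_lit 4) (nat_lit 7) (nat_lit 5) (nat_lit 7) (nat_lit 4) (nat_lit 237) (nat_lit 218) (nat_lit 145)) (XT.lf (nat_lit 0) (nat_lit 6211091218) (nat_lit 152) (nat_lit 121876959853) (nat_lit 76) (nat_lit 202556167915) (nat_lit 5) (nat_lit 5) (nat_lit 7) (nat_lit 5) (nat_lit 6) (nat_lit 4) (nat_lit 238) (nat_lit 218) (nat_lit 144))) (XT.nd (nat_lit 78) (nat_lit 76) (nat_lit 0) (XT.lf (nat_lit 0) (nat_lit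 43965522616) (nat_lit 152) (nat_lit 40705500994) (nat_lit 76) (nat_lit 287182479835) (nat_lit 5) (nat_lit 5) (nat_lit 7) (nat_lit 5) (nat_lit 6) (nat_lit 4) (nat_lit 239) (nat_lit 218) (nat_lit 143)) (XT.lf (nat_lit 0) (nat_lit 57785353252) (nat_lit 76) (nat_lit 31990099002) (nat_lit 152) (nat_lit 329109880003) (nat_lit 4) (nat_lit 5) (nat_lit 5) (nat_lit 5) (nat_lit 6) (nat_lit 4) (nat_lit 240) (nat_lit 218) (nat_lit 142)))) (XT.nd (nat_lit 156) (nat_lit 0) (nat_lit 0) (XT.nd (nat_lit 78) (nat_lit 0) (nat_lit 0) (XT.lf (nat_lit 0) (nat_lit 145869533411) (nat_lit 152) (nat_lit 298314274293) (nat_lit 0) (nat_lit 28276229867) (nat_lit 4) (nat_lit 5) (nat_lit 6) (nat_lit 4) (nat_lit 4) (nat_lit 4) (nat_lit 241) (nat_lit 218) (nat_lit 141)) (XT.lf (nat_lit 0) (nat_lit 211900697506) (nat_lit 152) (nat_lit 227634738021) (nat_lit 0) (nat_lit 94307068836) (nat_lit 4) (nat_lit 5) (nat_lit 6)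 (nat_lit 4) (nat_lit 4) (nat_lit 4) (nat_lit 242) (nat_lit 218) (nat_lit 140))) (XT.nd (nat_lit 78) (nat_lit 0) (nat_lit 0) (XT.lf (nat_lit 0) (nat_lit 287836216839) (nat_lit 152) (nat_lit 146353867916) (nat_lit 0) (nat_lit 170242305451) (nat_lit 4) (nat_lit 5) (nat_lit 6) (nat_lit 4) (nat_lit 4) (nat_lit 4) (nat_lit 243) (nat_lit 218) (nat_lit 139)) (XT.lf (nat_lit 0) (nat_lit 375161786354) (nat_lit 152) (nat_lit 52881386086) (nat_lit 0) (nat_lit 257567629124) (nat_lit 4) (nat_lit 5) (nat_lit 6) (nat_lit 4) (nat_lit 4) (nat_lit 4) (nat_lit 244) (nat_lit 218) (nat_lit 138))))) (XT.nd (nat_lit 312) (nat_lit 0) (nat_lit 0) (XT.nd (nat_lit 156) (nat_lit 0) (nat_lit 0) (XT.nd (nat_lit 78) (nat_lit 0) (nat_lit 0) (XT.lf (nat_lit 0) (nat_lit 59948551502) (nat_lit 76) (nat_lit 418119739976) (nat_lit 76) (nat_lit 300525368971) (nat_lit 3) (nat_lit 4) (nat_lit 4) (nat_lit 5) (nat_lit 4) (nat_lit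 4) (nat_lit 245) (nat_lit 218) (nat_lit 137)) (XT.lf (nat_lit 0) (nat_lit 195645695800) (nat_lit 76) (nat_lit 403529103020) (nat_lit 76) (nat_lit 285934546123) (nat_lit 3) (nat_lit 4) (nat_lit 4) (nat_lit 5) (nat_lit 4) (nat_lit 4) (nat_lit 246) (nat_lit 218) (nat_lit 136))) (XT.nd (nat_lit 78) (nat_lit 0) (nat_lit 0) (XT.lf (nat_lit 0) (nat_lit 351697037294) (nat_lit 76) (nat_lit 386750046859) (nat_lit 76) (nat_lit 269155328317) (nat_lit 3) (nat_lit 4) (nat_lit 4) (nat_lit 5) (nat_lit 4) (nat_lit 4) (nat_lit 247) (nat_lit 218) (nat_lit 135)) (XT.lf (nat_lit 0) (nat_lit 531155754404) (nat_lit 76) (nat_lit 367454285613) (nat_lit 76) (nat_lit 249859426510) (nat_lit 3) (nat_lit 4) (nat_lit 4) (nat_lit 5) (nat_lit 4) (nat_lit 4) (nat_lit 248) (nat_lit 218) (nat_lit 134)))) (XT.nd (nat_lit 156) (nat_lit 0) (nat_lit 0) (XT.nd (nat_lit 78) (nat_lit 0) (nat_lit 0) (XT.lf (nat_lit 0) (nat_lit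 737532995944) (nat_lit 76) (nat_lit 345264293518) (nat_lit 76) (nat_lit 227669312189) (nat_lit 3) (nat_lit 4) (nat_lit 4) (nat_lit 5) (nat_lit 4) (nat_lit 4) (nat_lit 249) (nat_lit 218) (nat_lit 133)) (XT.lf (nat_lit 0) (nat_lit 974866577508) (nat_lit 76) (nat_lit 319745918555) (nat_lit 76) (nat_lit 202150830941) (nat_lit 3) (nat_lit 4) (nat_lit 4) (nat_lit 5) (nat_lit 4) (nat_lit 4) (nat_lit 250) (nat_lit 218) (nat_lit 132))) (XT.nd (nat_lit 78) (nat_lit 0) (nat_lit 0) (XT.lf (nat_lit 0) (nat_lit 1247799982215) (nat_lit 76) (nat_lit 290399888170) (nat_lit 76) (nat_lit 172804708135) (nat_lit 3) (nat_lit 4) (nat_lit 4) (nat_lit 5) (nat_lit 4) (nat_lit 4) (nat_lit 251) (nat_lit 218) (nat_lit 131)) (XT.lf (nat_lit 0) (nat_lit 1561673211461) (nat_lit 76) (nat_lit 256652040899) (nat_lit 76) (nat_lit 139056780498) (nat_lit 3) (nat_lit 4) (nat_lit 4) (nat_lit 5) (nat_lit 4) (nat_lit 4) (nat_lit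 252) (nat_lit 218) (nat_lit 130))))))))
noncomputable def xc45 : XT := (XT.nd (nat_lit 29172) (nat_lit 0) (nat_lit 152) (XT.nd (nat_lit 1170) (nat_lit 0) (nat_lit 0) (XT.nd (nat_lit 546) (nat_lit 0) (nat_lit 0) (XT.nd (nat_lit 234) (nat_lit 152) (nat_lit 0) (XT.nd (nat_lit 78) (nat_lit 0) (nat_lit 0) (XT.lf (nat_lit 0) (nat_lit 1922627263209) (nat_lit 76) (nat_lit 217842092775) (nat_lit 76) (nat_lit 100246762490) (nat_lit 3) (nat_lit 4) (nat_lit 4) (nat_lit 5) (nat_lit 4) (nat_lit 4) (nat_lit 253) (nat_lit 218) (nat_lit 129)) (XT.nd (nat_lit 78) (nat_lit 0) (nat_lit 0) (XT.lf (nat_lit 0) (nat_lit 2337724281950) (nat_lit 76) (nat_lit 173210718723) (nat_lit 76) (nat_lit 55615327670) (nat_lit 3) (nat_lit 4) (nat_lit 4) (nat_lit 5) (nat_lit 4) (nat_lit 4) (nat_lit 254) (nat_lit 218) (nat_lit 128)) (XT.lf (nat_lit 0) (nat_lit 2815085731094) (nat_lit 76) (nat_lit 121884696210) (nat_lit 76)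 (nat_lit 4289252315) (nat_lit 3) (nat_lit 4) (nat_lit 4) (nat_lit 5) (nat_lit 4) (nat_lit 4) (nat_lit 255) (nat_lit 218) (nat_lit 127)))) (XT.nd (nat_lit 156) (nat_lit 0) (nat_lit 0) (XT.nd (nat_lit 78) (nat_lit 76) (nat_lit 0) (XT.lf (nat_lit 0) (nat_lit 49862721604) (nat_lit 152) (nat_lit 10390638395) (nat_lit 76) (nat_lit 3311582109117) (nat_lit 2) (nat_lit 5) (nat_lit 4) (nat_lit 5) (nat_lit 3) (nat_lit 4) (nat_lit 256) (nat_lit 218) (nat_lit 126)) (XT.lf (nat_lit 0) (nat_lit 117983880543) (nat_lit 152) (nat_lit 3732313382007) (nat_lit 0) (nat_lit 15726898107) (nat_lit 1) (nat_lit 5) (nat_lit 3) (nat_lit 4) (nat_lit 1) (nat_lit 4) (nat_lit 257) (nat_lit 218) (nat_lit 125))) (XT.nd (nat_lit 78) (nat_lit 0) (nat_lit 0) (XT.lf (nat_lit 0) (nat_lit 199761381643) (nat_lit 152) (nat_lit 4136559680165) (nat_lit 0) (nat_lit 97504368995) (nat_lit 1) (nat_lit 5) (nat_lit 3) (nat_lit 4) (nat_lit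 1) (nat_lit 4) (nat_lit 258) (nat_lit 218) (nat_lit 124)) (XT.lf (nat_lit 0) (nat_lit 293805464040) (nat_lit 152) (nat_lit 4601443008995) (nat_lit 0) (nat_lit 191548425120) (nat_lit 1) (nat_lit 5) (nat_lit 3) (nat_lit 4) (nat_lit 1) (nat_lit 4) (nat_lit 259) (nat_lit 218) (nat_lit 123))))) (XT.nd (nat_lit 312) (nat_lit 0) (nat_lit 0) (XT.nd (nat_lit 156) (nat_lit 0) (nat_lit 0) (XT.nd (nat_lit 78) (nat_lit 0) (nat_lit 0) (XT.lf (nat_lit 0) (nat_lit 401956120649) (nat_lit 152) (nat_lit 5136058911890) (nat_lit 0) (nat_lit 299699058884) (nat_lit 1) (nat_lit 5) (nat_lit 3) (nat_lit 4) (nat_lit 1) (nat_lit 4) (nat_lit 260) (nat_lit 218) (nat_lit 122)) (XT.lf (nat_lit 0) (nat_lit 526329342579) (nat_lit 152) (nat_lit 5750867265209) (nat_lit 0) (nat_lit 424072260949) (nat_lit 1) (nat_lit 5) (nat_lit 3) (nat_lit 4) (nat_lit 1) (nat_lit 4) (nat_lit 261) (nat_lit 218) (nat_lit 121))) (XT.nd (nat_lit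 78) (nat_lit 0) (nat_lit 0) (XT.lf (nat_lit 0) (nat_lit 669358518954) (nat_lit 152) (nat_lit 6457896928039) (nat_lit 0) (nat_lit 567101420050) (nat_lit 1) (nat_lit 5) (nat_lit 3) (nat_lit 4) (nat_lit 1) (nat_lit 4) (nat_lit 262) (nat_lit 218) (nat_lit 120)) (XT.lf (nat_lit 0) (nat_lit 833842046703) (nat_lit 152) (nat_lit 7270981089436) (nat_lit 0) (nat_lit 731584932778) (nat_lit 1) (nat_lit 5) (nat_lit 3) (nat_lit 4) (nat_lit 1) (nat_lit 4) (nat_lit 263) (nat_lit 218) (nat_lit 119)))) (XT.nd (nat_lit 156) (nat_lit 0) (nat_lit 0) (XT.nd (nat_lit 78) (nat_lit 0) (nat_lit 0) (XT.lf (nat_lit 0) (nat_lit 1022998081805) (nat_lit 152) (nat_lit 8206027917774) (nat_lit 0) (nat_lit 920740954817) (nat_lit 1) (nat_lit 5) (nat_lit 3) (nat_lit 4) (nat_lit 1) (nat_lit 4) (nat_lit 264) (nat_lit 218) (nat_lit 118)) (XT.lf (nat_lit 0) (nat_lit 1240527503205) (nat_lit 152) (nat_lit 9281331807522) (nat_lit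 0) (nat_lit 1138270364860) (nat_lit 1) (nat_lit 5) (nat_lit 3) (nat_lit 4) (nat_lit 1) (nat_lit 4) (nat_lit 265) (nat_lit 218) (nat_lit 117))) (XT.nd (nat_lit 78) (nat_lit 0) (nat_lit 0) (XT.lf (nat_lit 0) (nat_lit 1490686321324) (nat_lit 152) (nat_lit 10517931313043) (nat_lit 0) (nat_lit 1388429173102) (nat_lit 1) (nat_lit 5) (nat_lit 3) (nat_lit 4) (nat_lit 1) (nat_lit 4) (nat_lit 266) (nat_lit 218) (nat_lit 116)) (XT.lf (nat_lit 0) (nat_lit 1778368947820) (nat_lit 152) (nat_lit 11940020772490) (nat_lit 0) (nat_lit 1676111791010) (nat_lit 1) (nat_lit 5) (nat_lit 3) (nat_lit 4) (nat_lit 1) (nat_lit 4) (nat_lit 267) (nat_lit 218) (nat_lit 115)))))) (XT.nd (nat_lit 702) (nat_lit 0) (nat_lit 0) (XT.nd (nat_lit 390) (nat_lit 0) (nat_lit 0) (XT.nd (nat_lit 156) (nat_lit 0) (nat_lit 0) (XT.nd (nat_lit 78) (nat_lit 0) (nat_lit 0) (XT.lf (nat_lit 0) (nat_lit 2109203955820) (nat_lit 152) (nat_lit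 13575423675287) (nat_lit 0) (nat_lit 2006946791541) (nat_lit 1) (nat_lit 5) (nat_lit 3) (nat_lit 4) (nat_lit 1) (nat_lit 4) (nat_lit 268) (nat_lit 218) (nat_lit 114)) (XT.lf (nat_lit 0) (nat_lit 2489664204176) (nat_lit 152) (nat_lit 15456137034748) (nat_lit 0) (nat_lit 2387407033404) (nat_lit 1) (nat_lit 5) (nat_lit 3) (nat_lit 4) (nat_lit 1) (nat_lit 4) (nat_lit 269) (nat_lit 218) (nat_lit 113))) (XT.nd (nat_lit 156) (nat_lit 0) (nat_lit 0) (XT.lf (nat_lit 0) (nat_lit 2927193480356) (nat_lit 152) (nat_lit 17618957416602) (nat_lit 0) (nat_lit 2824936303937) (nat_lit 1) (nat_lit 5) (nat_lit 3) (nat_lit 4) (nat_lit 1) (nat_lit 4) (nat_lit 270) (nat_lit 218) (nat_lit 112)) (XT.lf (nat_lit 0) (nat_lit 4008984590954) (nat_lit 152) (nat_lit 22966530859246) (nat_lit 0) (nat_lit 3906727405355) (nat_lit 1) (nat_lit 5) (nat_lit 3) (nat_lit 4) (nat_lit 1) (nat_lit 4) (nat_lit 272) (nat_lit 218)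 (nat_lit 110)))) (XT.nd (nat_lit 156) (nat_lit 0) (nat_lit 0) (XT.nd (nat_lit 78) (nat_lit 0) (nat_lit 0) (XT.lf (nat_lit 0) (nat_lit 4674411903622) (nat_lit 152) (nat_lit 26255910356956) (nat_lit 0) (nat_lit 4572154714310) (nat_lit 1) (nat_lit 5) (nat_lit 3) (nat_lit 4) (nat_lit 1) (nat_lit 4) (nat_lit 273) (nat_lit 218) (nat_lit 109)) (XT.lf (nat_lit 0) (nat_lit 5439653307799) (nat_lit 152) (nat_lit 30038696789886) (nat_lit 0) (nat_lit 5337396115258) (nat_lit 1) (nat_lit 5) (nat_lit 3) (nat_lit 4) (nat_lit 1) (nat_lit 4) (nat_lit 274) (nat_lit 218) (nat_lit 108))) (XT.nd (nat_lit 78) (nat_lit 0) (nat_lit 0) (XT.lf (nat_lit 0) (nat_lit 6319680917914) (nat_lit 152) (nat_lit 34388901196940) (nat_lit 0) (nat_lit 6217423722566) (nat_lit 1) (nat_lit 5) (nat_lit 3) (nat_lit 4) (nat_lit 1) (nat_lit 4) (nat_lit 275) (nat_lit 218) (nat_lit 107)) (XT.lf (nat_lit 0) (nat_lit 7331712665471) (nat_lit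 152) (nat_lit 39391636273039) (nat_lit 0) (nat_lit 7229455467681) (nat_lit 1) (nat_lit 5) (nat_lit 3) (nat_lit 4) (nat_lit 1) (nat_lit 4) (nat_lit 276) (nat_lit 218) (nat_lit 106))))) (XT.nd (nat_lit 26988) (nat_lit 0) (nat_lit 912) (XT.nd (nat_lit 26832) (nat_lit 0) (nat_lit 1064) (XT.nd (nat_lit 26754) (nat_lit 0) (nat_lit 1368) (XT.lf (nat_lit 0) (nat_lit 8495549171616) (nat_lit 152) (nat_lit 45144781617499) (nat_lit 0) (nat_lit 8393291971703) (nat_lit 1) (nat_lit 5) (nat_lit 3) (nat_lit 4) (nat_lit 1) (nat_lit 4) (nat_lit 277) (nat_lit 218) (nat_lit 105)) (XT.lf (nat_lit 0) (nat_lit 14074993077) (nat_lit 0) (nat_lit 14074993077) (nat_lit 228) (nat_lit 1021384466) (nat_lit 19) (nat_lit 5) (nat_lit 19) (nat_lit 3) (nat_lit 22) (nat_lit 3) (nat_lit 219) (nat_lit 219) (nat_lit 162))) (XT.nd (nat_lit 78) (nat_lit 304) (nat_lit 0) (XT.lf (nat_lit 0) (nat_lit 57248840395) (nat_lit 0)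 (nat_lit 3289606039) (nat_lit 228) (nat_lit 2177422802) (nat_lit 19) (nat_lit 5) (nat_lit 19) (nat_lit 3) (nat_lit 22) (nat_lit 3) (nat_lit 220) (nat_lit 219) (nat_lit 161)) (XT.lf (nat_lit 0) (nat_lit 13625530) (nat_lit 304) (nat_lit 43379462249) (nat_lit 380) (nat_lit 24045653122) (nat_lit 15) (nat_lit 5) (nat_lit 19) (nat_lit 5) (nat_lit 20) (nat_lit 5) (nat_lit 221) (nat_lit 219) (nat_lit 160)))) (XT.nd (nat_lit 156) (nat_lit 152) (nat_lit 0) (XT.nd (nat_lit 78) (nat_lit 0) (nat_lit 76) (XT.lf (nat_lit 0) (nat_lit 2763793696) (nat_lit 304) (nat_lit 14474302901) (nat_lit 380) (nat_lit 55548409708) (nat_lit 15) (nat_lit 5) (nat_lit 19) (nat_lit 5) (nat_lit 20) (nat_lit 5) (nat_lit 222) (nat_lit 219) (nat_lit 159)) (XT.lf (nat_lit 0) (nat_lit 7349450236) (nat_lit 304) (nat_lit 58782574310) (nat_lit 76) (nat_lit 12590988712) (nat_lit 16) (nat_lit 5) (nat_lit 20) (nat_lit 5) (nat_lit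 17) (nat_lit 5) (nat_lit 223) (nat_lit 219) (nat_lit 158))) (XT.nd (nat_lit 78) (nat_lit 228) (nat_lit 0) (XT.lf (nat_lit 0) (nat_lit 14234397515) (nat_lit 304) (nat_lit 25151402695) (nat_lit 76) (nat_lit 45922498149) (nat_lit 16) (nat_lit 5) (nat_lit 20) (nat_lit 5) (nat_lit 17) (nat_lit 5) (nat_lit 224) (nat_lit 219) (nat_lit 157)) (XT.lf (nat_lit 0) (nat_lit 14844134198) (nat_lit 228) (nat_lit 7920825425) (nat_lit 304) (nat_lit 70024501728) (nat_lit 13) (nat_lit 5) (nat_lit 16) (nat_lit 5) (nat_lit 17) (nat_lit 5) (nat_lit 225) (nat_lit 219) (nat_lit 156))))))) (XT.nd (nat_lit 1170) (nat_lit 152) (nat_lit 0) (XT.nd (nat_lit 546) (nat_lit 228) (nat_lit 0) (XT.nd (nat_lit 234) (nat_lit 228) (nat_lit 0) (XT.nd (nat_lit 78) (nat_lit 152) (nat_lit 0) (XT.lf (nat_lit 0) (nat_lit 35121157055) (nat_lit 304) (nat_lit 38764874296) (nat_lit 76) (nat_lit 27124873736) (nat_lit 13) (nat_lit 5)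 (nat_lit 17) (nat_lit 5) (nat_lit 14) (nat_lit 5) (nat_lit 226) (nat_lit 219) (nat_lit 155)) (XT.nd (nat_lit 78) (nat_lit 0) (nat_lit 0) (XT.lf (nat_lit 0) (nat_lit 6491650051) (nat_lit 152) (nat_lit 43483699550) (nat_lit 228) (nat_lit 60393543085) (nat_lit 11) (nat_lit 5) (nat_lit 13) (nat_lit 5) (nat_lit 14) (nat_lit 5) (nat_lit 227) (nat_lit 219) (nat_lit 154)) (XT.lf (nat_lit 0) (nat_lit 62891629814) (nat_lit 152) (nat_lit 6191081348) (nat_lit 228) (nat_lit 51744121788) (nat_lit 11) (nat_lit 5) (nat_lit 13) (nat_lit 5) (nat_lit 14) (nat_lit 5) (nat_lit 228) (nat_lit 219) (nat_lit 153)))) (XT.nd (nat_lit 156) (nat_lit 152) (nat_lit 0) (XT.nd (nat_lit 78) (nat_lit 76) (nat_lit 0) (XT.lf (nat_lit 0) (nat_lit 92574508169) (nat_lit 228) (nat_lit 6622952792) (nat_lit 76) (nat_lit 33428262781) (nat_lit 11) (nat_lit 5) (nat_lit 14) (nat_lit 5) (nat_lit 12) (nat_lit 4) (nat_lit 229) (nat_lit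 219) (nat_lit 152)) (XT.lf (nat_lit 0) (nat_lit 57180522353) (nat_lit 76) (nat_lit 65071090765) (nat_lit 152) (nat_lit 23543612250) (nat_lit 10) (nat_lit 5) (nat_lit 11) (nat_lit 5) (nat_lit 12) (nat_lit 4) (nat_lit 230) (nat_lit 219) (nat_lit 151))) (XT.nd (nat_lit 78) (nat_lit 152) (nat_lit 0) (XT.lf (nat_lit 0) (nat_lit 131297507345) (nat_lit 76) (nat_lit 25428052481) (nat_lit 152) (nat_lit 4162807942) (nat_lit 10) (nat_lit 5) (nat_lit 11) (nat_lit 5) (nat_lit 12) (nat_lit 4) (nat_lit 231) (nat_lit 219) (nat_lit 150)) (XT.lf (nat_lit 0) (nat_lit 19168581899) (nat_lit 152) (nat_lit 137625971340) (nat_lit 76) (nat_lit 20939791944) (nat_lit 8) (nat_lit 5) (nat_lit 10) (nat_lit 5) (nat_lit 9) (nat_lit 4) (nat_lit 232) (nat_lit 219) (nat_lit 149))))) (XT.nd (nat_lit 312) (nat_lit 152) (nat_lit 0) (XT.nd (nat_lit 156) (nat_lit 76) (nat_lit 0) (XT.nd (nat_lit 78) (nat_lit 0) (nat_lit 0)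 (XT.lf (nat_lit 0) (nat_lit 48403996354) (nat_lit 152) (nat_lit 74771145577) (nat_lit 76) (nat_lit 73477771239) (nat_lit 8) (nat_lit 5) (nat_lit 10) (nat_lit 5) (nat_lit 9) (nat_lit 4) (nat_lit 233) (nat_lit 219) (nat_lit 148)) (XT.lf (nat_lit 0) (nat_lit 82024024592) (nat_lit 152) (nat_lit 2489228618) (nat_lit 76) (nat_lit 133896121867) (nat_lit 8) (nat_lit 5) (nat_lit 10) (nat_lit 5) (nat_lit 9) (nat_lit 4) (nat_lit 234) (nat_lit 219) (nat_lit 147))) (XT.nd (nat_lit 78) (nat_lit 0) (nat_lit 0) (XT.lf (nat_lit 0) (nat_lit 88514130981) (nat_lit 76) (nat_lit 35837500200) (nat_lit 152) (nat_lit 118527992420) (nat_lit 7) (nat_lit 5) (nat_lit 8) (nat_lit 5) (nat_lit 9) (nat_lit 4) (nat_lit 235) (nat_lit 219) (nat_lit 146)) (XT.lf (nat_lit 0) (nat_lit 173998049739) (nat_lit 152) (nat_lit 78394289144) (nat_lit 0) (nat_lit 18482622869) (nat_lit 7) (nat_lit 5) (nat_lit 9) (nat_lit 4) (nat_lit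 7) (nat_lit 4) (nat_lit 236) (nat_lit 219) (nat_lit 145)))) (XT.nd (nat_lit 156) (nat_lit 76) (nat_lit 0) (XT.nd (nat_lit 78) (nat_lit 0) (nat_lit 0) (XT.lf (nat_lit 0) (nat_lit 7975171480) (nat_lit 76) (nat_lit 225152535585) (nat_lit 76) (nat_lit 69636454771) (nat_lit 6) (nat_lit 4) (nat_lit 7) (nat_lit 5) (nat_lit 7) (nat_lit 4) (nat_lit 237) (nat_lit 219) (nat_lit 144)) (XT.lf (nat_lit 0) (nat_lit 116109659657) (nat_lit 76) (nat_lit 189114561397) (nat_lit 76) (nat_lit 33597911936) (nat_lit 6) (nat_lit 4) (nat_lit 7) (nat_lit 5) (nat_lit 7) (nat_lit 4) (nat_lit 238) (nat_lit 219) (nat_lit 143))) (XT.nd (nat_lit 78) (nat_lit 0) (nat_lit 0) (XT.lf (nat_lit 0) (nat_lit 7147435720) (nat_lit 152) (nat_lit 140150157137) (nat_lit 76) (nat_lit 232942538401) (nat_lit 5) (nat_lit 5) (nat_lit 7) (nat_lit 5) (nat_lit 6) (nat_lit 4) (nat_lit 239) (nat_lit 219) (nat_lit 142)) (XT.lf (nat_lit 0)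 (nat_lit 50564421286) (nat_lit 152) (nat_lit 46804068148) (nat_lit 76) (nat_lit 330262412939) (nat_lit 5) (nat_lit 5) (nat_lit 7) (nat_lit 5) (nat_lit 6) (nat_lit 4) (nat_lit 240) (nat_lit 219) (nat_lit 141)))))) (XT.nd (nat_lit 624) (nat_lit 0) (nat_lit 0) (XT.nd (nat_lit 312) (nat_lit 76) (nat_lit 0) (XT.nd (nat_lit 156) (nat_lit 0) (nat_lit 0) (XT.nd (nat_lit 78) (nat_lit 0) (nat_lit 0) (XT.lf (nat_lit 0) (nat_lit 66460084327) (nat_lit 76) (nat_lit 36785512015) (nat_lit 152) (nat_lit 378471947863) (nat_lit 4) (nat_lit 5) (nat_lit 5) (nat_lit 5) (nat_lit 6) (nat_lit 4) (nat_lit 241) (nat_lit 219) (nat_lit 140)) (XT.lf (nat_lit 0) (nat_lit 167753402283) (nat_lit 152) (nat_lit 343054991492) (nat_lit 0) (nat_lit 32520121469) (nat_lit 4) (nat_lit 5) (nat_lit 6) (nat_lit 4) (nat_lit 4) (nat_lit 4) (nat_lit 242) (nat_lit 219) (nat_lit 139))) (XT.nd (nat_lit 78) (nat_lit 0) (nat_lit 0)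 (XT.lf (nat_lit 0) (nat_lit 243688792445) (nat_lit 152) (nat_lit 261774362685) (nat_lit 0) (nat_lit 108455265789) (nat_lit 4) (nat_lit 5) (nat_lit 6) (nat_lit 4) (nat_lit 4) (nat_lit 4) (nat_lit 243) (nat_lit 219) (nat_lit 138)) (XT.lf (nat_lit 0) (nat_lit 331014249637) (nat_lit 152) (nat_lit 168302090678) (nat_lit 0) (nat_lit 195780509206) (nat_lit 4) (nat_lit 5) (nat_lit 6) (nat_lit 4) (nat_lit 4) (nat_lit 4) (nat_lit 244) (nat_lit 219) (nat_lit 137)))) (XT.nd (nat_lit 156) (nat_lit 0) (nat_lit 0) (XT.nd (nat_lit 78) (nat_lit 76) (nat_lit 0) (XT.lf (nat_lit 0) (nat_lit 431438315414) (nat_lit 152) (nat_lit 60809370150) (nat_lit 0) (nat_lit 296204389091) (nat_lit 4) (nat_lit 5) (nat_lit 6) (nat_lit 4) (nat_lit 4) (nat_lit 4) (nat_lit 245) (nat_lit 219) (nat_lit 136)) (XT.lf (nat_lit 0) (nat_lit 68944866083) (nat_lit 76) (nat_lit 480835802248) (nat_lit 76) (nat_lit 345601714280) (nat_lit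 3) (nat_lit 4) (nat_lit 4) (nat_lit 5) (nat_lit 4) (nat_lit 4) (nat_lit 246) (nat_lit 219) (nat_lit 135))) (XT.nd (nat_lit 78) (nat_lit 0) (nat_lit 0) (XT.lf (nat_lit 0) (nat_lit 224996056132) (nat_lit 76) (nat_lit 464056817408) (nat_lit 76) (nat_lit 328822588879) (nat_lit 3) (nat_lit 4) (nat_lit 4) (nat_lit 5) (nat_lit 4) (nat_lit 4) (nat_lit 247) (nat_lit 219) (nat_lit 134)) (XT.lf (nat_lit 0) (nat_lit 404454641550) (nat_lit 76) (nat_lit 444761118179) (nat_lit 76) (nat_lit 309526767423) (nat_lit 3) (nat_lit 4) (nat_lit 4) (nat_lit 5) (nat_lit 4) (nat_lit 4) (nat_lit 248) (nat_lit 219) (nat_lit 133))))) (XT.nd (nat_lit 312) (nat_lit 0) (nat_lit 0) (XT.nd (nat_lit 156) (nat_lit 0) (nat_lit 0) (XT.nd (nat_lit 78) (nat_lit 0) (nat_lit 0) (XT.lf (nat_lit 0) (nat_lit 610831768575) (nat_lit 76) (nat_lit 422571180013) (nat_lit 76) (nat_lit 287336722973) (nat_lit 3) (nat_lit 4) (nat_lit 4)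 (nat_lit 5) (nat_lit 4) (nat_lit 4) (nat_lit 249) (nat_lit 219) (nat_lit 132)) (XT.lf (nat_lit 0) (nat_lit 848165250562) (nat_lit 76) (nat_lit 397052851944) (nat_lit 76) (nat_lit 261818302483) (nat_lit 3) (nat_lit 4) (nat_lit 4) (nat_lit 5) (nat_lit 4) (nat_lit 4) (nat_lit 250) (nat_lit 219) (nat_lit 131))) (XT.nd (nat_lit 78) (nat_lit 0) (nat_lit 0) (XT.lf (nat_lit 0) (nat_lit 1121098568680) (nat_lit 76) (nat_lit 367706862337) (nat_lit 76) (nat_lit 232472232509) (nat_lit 3) (nat_lit 4) (nat_lit 4) (nat_lit 5) (nat_lit 4) (nat_lit 4) (nat_lit 251) (nat_lit 219) (nat_lit 130)) (XT.lf (nat_lit 0) (nat_lit 1434971722630) (nat_lit 76) (nat_lit 333959050525) (nat_lit 76) (nat_lit 198724350814) (nat_lit 3) (nat_lit 4) (nat_lit 4) (nat_lit 5) (nat_lit 4) (nat_lit 4) (nat_lit 252) (nat_lit 219) (nat_lit 129)))) (XT.nd (nat_lit 156) (nat_lit 0) (nat_lit 0) (XT.nd (nat_lit 78) (nat_lit 0) (nat_lit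 0) (XT.lf (nat_lit 0) (nat_lit 1795925708904) (nat_lit 76) (nat_lit 295149133233) (nat_lit 76) (nat_lit 159914372754) (nat_lit 3) (nat_lit 4) (nat_lit 4) (nat_lit 5) (nat_lit 4) (nat_lit 4) (nat_lit 253) (nat_lit 219) (nat_lit 128)) (XT.lf (nat_lit 0) (nat_lit 2211022670711) (nat_lit 76) (nat_lit 250517785994) (nat_lit 76) (nat_lit 115282972673) (nat_lit 3) (nat_lit 4) (nat_lit 4) (nat_lit 5) (nat_lit 4) (nat_lit 4) (nat_lit 254) (nat_lit 219) (nat_lit 127))) (XT.nd (nat_lit 78) (nat_lit 0) (nat_lit 0) (XT.lf (nat_lit 0) (nat_lit 2688384070348) (nat_lit 76) (nat_lit 199191786796) (nat_lit 76) (nat_lit 63956927525) (nat_lit 3) (nat_lit 4) (nat_lit 4) (nat_lit 5) (nat_lit 4) (nat_lit 4) (nat_lit 255) (nat_lit 219) (nat_lit 126)) (XT.lf (nat_lit 0) (nat_lit 3237349587372) (nat_lit 76) (nat_lit 140166931306) (nat_lit 76) (nat_lit 4932032079) (nat_lit 3) (nat_lit 4) (nat_lit 4) (nat_lit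 5) (nat_lit 4) (nat_lit 4) (nat_lit 256) (nat_lit 219) (nat_lit 125))))))))
noncomputable def xc46 : XT := (XT.nd (nat_lit 29328) (nat_lit 0) (nat_lit 0) (XT.nd (nat_lit 1326) (nat_lit 0) (nat_lit 0) (XT.nd (nat_lit 546) (nat_lit 0) (nat_lit 0) (XT.nd (nat_lit 234) (nat_lit 0) (nat_lit 0) (XT.nd (nat_lit 78) (nat_lit 76) (nat_lit 0) (XT.lf (nat_lit 0) (nat_lit 57342611538) (nat_lit 152) (nat_lit 11948319163) (nat_lit 76) (nat_lit 3808319785231) (nat_lit 2) (nat_lit 5) (nat_lit 4) (nat_lit 5) (nat_lit 3) (nat_lit 4) (nat_lit 257) (nat_lit 219) (nat_lit 124)) (XT.nd (nat_lit 78) (nat_lit 0) (nat_lit 0) (XT.lf (nat_lit 0) (nat_lit 135681934978) (nat_lit 152) (nat_lit 4292159463849) (nat_lit 0) (nat_lit 18086313948) (nat_lit 1) (nat_lit 5) (nat_lit 3) (nat_lit 4) (nat_lit 1) (nat_lit 4) (nat_lit 258) (nat_lit 219) (nat_lit 123)) (XT.lf (nat_lit 0) (nat_lit 229725999632) (nat_lit 152) (nat_lit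 4757042827442) (nat_lit 0) (nat_lit 112130355757) (nat_lit 1) (nat_lit 5) (nat_lit 3) (nat_lit 4) (nat_lit 1) (nat_lit 4) (nat_lit 259) (nat_lit 219) (nat_lit 122)))) (XT.nd (nat_lit 156) (nat_lit 0) (nat_lit 0) (XT.nd (nat_lit 78) (nat_lit 0) (nat_lit 0) (XT.lf (nat_lit 0) (nat_lit 337876640813) (nat_lit 152) (nat_lit 5291658760565) (nat_lit 0) (nat_lit 220280977073) (nat_lit 1) (nat_lit 5) (nat_lit 3) (nat_lit 4) (nat_lit 1) (nat_lit 4) (nat_lit 260) (nat_lit 219) (nat_lit 121)) (XT.lf (nat_lit 0) (nat_lit 462249849327) (nat_lit 152) (nat_lit 5906467140169) (nat_lit 0) (nat_lit 344654168313) (nat_lit 1) (nat_lit 5) (nat_lit 3) (nat_lit 4) (nat_lit 1) (nat_lit 4) (nat_lit 261) (nat_lit 219) (nat_lit 120))) (XT.nd (nat_lit 78) (nat_lit 0) (nat_lit 0) (XT.lf (nat_lit 0) (nat_lit 605279014036) (nat_lit 152) (nat_lit 6613496825856) (nat_lit 0) (nat_lit 487683318001) (nat_lit 1) (nat_lit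 5) (nat_lit 3) (nat_lit 4) (nat_lit 1) (nat_lit 4) (nat_lit 262) (nat_lit 219) (nat_lit 119)) (XT.lf (nat_lit 0) (nat_lit 769762531641) (nat_lit 152) (nat_lit 7426581007128) (nat_lit 0) (nat_lit 652166822544) (nat_lit 1) (nat_lit 5) (nat_lit 3) (nat_lit 4) (nat_lit 1) (nat_lit 4) (nat_lit 263) (nat_lit 219) (nat_lit 118))))) (XT.nd (nat_lit 312) (nat_lit 0) (nat_lit 0) (XT.nd (nat_lit 156) (nat_lit 0) (nat_lit 0) (XT.nd (nat_lit 78) (nat_lit 0) (nat_lit 0) (XT.lf (nat_lit 0) (nat_lit 958918557921) (nat_lit 152) (nat_lit 8361627852750) (nat_lit 0) (nat_lit 841322837466) (nat_lit 1) (nat_lit 5) (nat_lit 3) (nat_lit 4) (nat_lit 1) (nat_lit 4) (nat_lit 264) (nat_lit 219) (nat_lit 117)) (XT.lf (nat_lit 0) (nat_lit 1176447971651) (nat_lit 152) (nat_lit 9436931757526) (nat_lit 0) (nat_lit 1058852241319) (nat_lit 1) (nat_lit 5) (nat_lit 3) (nat_lit 4) (nat_lit 1) (nat_lit 4) (nat_lit 265)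 (nat_lit 219) (nat_lit 116))) (XT.nd (nat_lit 78) (nat_lit 0) (nat_lit 0) (XT.lf (nat_lit 0) (nat_lit 1426606783099) (nat_lit 152) (nat_lit 10673531276116) (nat_lit 0) (nat_lit 1309011044179) (nat_lit 1) (nat_lit 5) (nat_lit 3) (nat_lit 4) (nat_lit 1) (nat_lit 4) (nat_lit 266) (nat_lit 219) (nat_lit 115)) (XT.lf (nat_lit 0) (nat_lit 1714289403795) (nat_lit 152) (nat_lit 12095620746927) (nat_lit 0) (nat_lit 1596693657407) (nat_lit 1) (nat_lit 5) (nat_lit 3) (nat_lit 4) (nat_lit 1) (nat_lit 4) (nat_lit 267) (nat_lit 219) (nat_lit 114)))) (XT.nd (nat_lit 312) (nat_lit 0) (nat_lit 0) (XT.nd (nat_lit 78) (nat_lit 0) (nat_lit 0) (XT.lf (nat_lit 0) (nat_lit 2045124406751) (nat_lit 152) (nat_lit 13731023659605) (nat_lit 0) (nat_lit 1927528653869) (nat_lit 1) (nat_lit 5) (nat_lit 3) (nat_lit 4) (nat_lit 1) (nat_lit 4) (nat_lit 268) (nat_lit 219) (nat_lit 113)) (XT.lf (nat_lit 0) (nat_lit 2425584650722)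 (nat_lit 152) (nat_lit 15611737027659) (nat_lit 0) (nat_lit 2307988892193) (nat_lit 1) (nat_lit 5) (nat_lit 3) (nat_lit 4) (nat_lit 1) (nat_lit 4) (nat_lit 269) (nat_lit 219) (nat_lit 112))) (XT.nd (nat_lit 78) (nat_lit 0) (nat_lit 0) (XT.lf (nat_lit 0) (nat_lit 3944905027486) (nat_lit 152) (nat_lit 23122130871776) (nat_lit 0) (nat_lit 3827309256064) (nat_lit 1) (nat_lit 5) (nat_lit 3) (nat_lit 4) (nat_lit 1) (nat_lit 4) (nat_lit 272) (nat_lit 219) (nat_lit 109)) (XT.lf (nat_lit 0) (nat_lit 4610332337647) (nat_lit 152) (nat_lit 26411510374399) (nat_lit 0) (nat_lit 4492736562996) (nat_lit 1) (nat_lit 5) (nat_lit 3) (nat_lit 4) (nat_lit 1) (nat_lit 4) (nat_lit 273) (nat_lit 219) (nat_lit 108)))))) (XT.nd (nat_lit 27378) (nat_lit 0) (nat_lit 684) (XT.nd (nat_lit 27066) (nat_lit 0) (nat_lit 1064) (XT.nd (nat_lit 156) (nat_lit 0) (nat_lit 0) (XT.nd (nat_lit 78) (nat_lit 0) (nat_lit 0) (XT.lf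 (nat_lit 0) (nat_lit 5375573739643) (nat_lit 152) (nat_lit 30194296811601) (nat_lit 0) (nat_lit 5257977962185) (nat_lit 1) (nat_lit 5) (nat_lit 3) (nat_lit 4) (nat_lit 1) (nat_lit 4) (nat_lit 274) (nat_lit 219) (nat_lit 107)) (XT.lf (nat_lit 0) (nat_lit 6255601347863) (nat_lit 152) (nat_lit 34544501222370) (nat_lit 0) (nat_lit 6138005567963) (nat_lit 1) (nat_lit 5) (nat_lit 3) (nat_lit 4) (nat_lit 1) (nat_lit 4) (nat_lit 275) (nat_lit 219) (nat_lit 106))) (XT.nd (nat_lit 78) (nat_lit 0) (nat_lit 0) (XT.lf (nat_lit 0) (nat_lit 7267633093770) (nat_lit 152) (nat_lit 39547236301700) (nat_lit 0) (nat_lit 7150037311748) (nat_lit 1) (nat_lit 5) (nat_lit 3) (nat_lit 4) (nat_lit 1) (nat_lit 4) (nat_lit 276) (nat_lit 219) (nat_lit 105)) (XT.lf (nat_lit 0) (nat_lit 8431469598481) (nat_lit 152) (nat_lit 45300381648968) (nat_lit 0) (nat_lit 8313873814613) (nat_lit 1) (nat_lit 5) (nat_lit 3) (nat_lit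 4) (nat_lit 1) (nat_lit 4) (nat_lit 277) (nat_lit 219) (nat_lit 104)))) (XT.nd (nat_lit 156) (nat_lit 304) (nat_lit 0) (XT.nd (nat_lit 78) (nat_lit 0) (nat_lit 0) (XT.lf (nat_lit 0) (nat_lit 16193899370) (nat_lit 0) (nat_lit 16193899370) (nat_lit 228) (nat_lit 1156806608) (nat_lit 19) (nat_lit 5) (nat_lit 19) (nat_lit 3) (nat_lit 22) (nat_lit 3) (nat_lit 220) (nat_lit 220) (nat_lit 160)) (XT.lf (nat_lit 0) (nat_lit 65849483552) (nat_lit 0) (nat_lit 3796364042) (nat_lit 228) (nat_lit 2473104870) (nat_lit 19) (nat_lit 5) (nat_lit 19) (nat_lit 3) (nat_lit 22) (nat_lit 3) (nat_lit 221) (nat_lit 220) (nat_lit 159))) (XT.nd (nat_lit 78) (nat_lit 0) (nat_lit 0) (XT.lf (nat_lit 0) (nat_lit 40421508) (nat_lit 304) (nat_lit 49866394274) (nat_lit 380) (nat_lit 27643795054) (nat_lit 15) (nat_lit 5) (nat_lit 19) (nat_lit 5) (nat_lit 20) (nat_lit 5) (nat_lit 222) (nat_lit 220) (nat_lit 158)) (XT.lf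 (nat_lit 0) (nat_lit 3199886358) (nat_lit 304) (nat_lit 16628068065) (nat_lit 380) (nat_lit 63873100698) (nat_lit 15) (nat_lit 5) (nat_lit 19) (nat_lit 5) (nat_lit 20) (nat_lit 5) (nat_lit 223) (nat_lit 220) (nat_lit 157))))) (XT.nd (nat_lit 312) (nat_lit 228) (nat_lit 0) (XT.nd (nat_lit 156) (nat_lit 228) (nat_lit 0) (XT.nd (nat_lit 78) (nat_lit 0) (nat_lit 0) (XT.lf (nat_lit 0) (nat_lit 8471154444) (nat_lit 304) (nat_lit 67580170563) (nat_lit 76) (nat_lit 14477074553) (nat_lit 16) (nat_lit 5) (nat_lit 20) (nat_lit 5) (nat_lit 17) (nat_lit 5) (nat_lit 224) (nat_lit 220) (nat_lit 156)) (XT.lf (nat_lit 0) (nat_lit 16386328161) (nat_lit 304) (nat_lit 28906904496) (nat_lit 76) (nat_lit 52808644640) (nat_lit 16) (nat_lit 5) (nat_lit 20) (nat_lit 5) (nat_lit 17) (nat_lit 5) (nat_lit 225) (nat_lit 220) (nat_lit 155))) (XT.nd (nat_lit 78) (nat_lit 0) (nat_lit 0) (XT.lf (nat_lit 0) (nat_lit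 17087180721) (nat_lit 228) (nat_lit 9107786522) (nat_lit 304) (nat_lit 80510493183) (nat_lit 13) (nat_lit 5) (nat_lit 16) (nat_lit 5) (nat_lit 17) (nat_lit 5) (nat_lit 226) (nat_lit 220) (nat_lit 154)) (XT.lf (nat_lit 0) (nat_lit 40402645242) (nat_lit 304) (nat_lit 44563259027) (nat_lit 76) (nat_lit 31194525844) (nat_lit 13) (nat_lit 5) (nat_lit 17) (nat_lit 5) (nat_lit 14) (nat_lit 5) (nat_lit 227) (nat_lit 220) (nat_lit 153)))) (XT.nd (nat_lit 156) (nat_lit 76) (nat_lit 0) (XT.nd (nat_lit 78) (nat_lit 0) (nat_lit 0) (XT.lf (nat_lit 0) (nat_lit 7481000954) (nat_lit 152) (nat_lit 50002875129) (nat_lit 228) (nat_lit 69438418167) (nat_lit 11) (nat_lit 5) (nat_lit 13) (nat_lit 5) (nat_lit 14) (nat_lit 5) (nat_lit 228) (nat_lit 220) (nat_lit 152)) (XT.lf (nat_lit 0) (nat_lit 72338942456) (nat_lit 152) (nat_lit 7116804982) (nat_lit 228) (nat_lit 59493430160) (nat_lit 11) (nat_lit 5) (nat_lit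 13) (nat_lit 5) (nat_lit 14) (nat_lit 5) (nat_lit 229) (nat_lit 220) (nat_lit 151))) (XT.nd (nat_lit 78) (nat_lit 76) (nat_lit 0) (XT.lf (nat_lit 0) (nat_lit 106470033334) (nat_lit 228) (nat_lit 7603241985) (nat_lit 76) (nat_lit 38444829987) (nat_lit 11) (nat_lit 5) (nat_lit 14) (nat_lit 5) (nat_lit 12) (nat_lit 4) (nat_lit 230) (nat_lit 220) (nat_lit 150)) (XT.lf (nat_lit 0) (nat_lit 65770156535) (nat_lit 76) (nat_lit 74827847973) (nat_lit 152) (nat_lit 27065142332) (nat_lit 10) (nat_lit 5) (nat_lit 11) (nat_lit 5) (nat_lit 12) (nat_lit 4) (nat_lit 231) (nat_lit 220) (nat_lit 149))))))) (XT.nd (nat_lit 1170) (nat_lit 228) (nat_lit 0) (XT.nd (nat_lit 546) (nat_lit 152) (nat_lit 0) (XT.nd (nat_lit 234) (nat_lit 152) (nat_lit 0) (XT.nd (nat_lit 78) (nat_lit 152) (nat_lit 0) (XT.lf (nat_lit 0) (nat_lit 151003051559) (nat_lit 76) (nat_lit 29238863478) (nat_lit 152) (nat_lit 4778523259)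 (nat_lit 10) (nat_lit 5) (nat_lit 11) (nat_lit 5) (nat_lit 12) (nat_lit 4) (nat_lit 232) (nat_lit 220) (nat_lit 148)) (XT.nd (nat_lit 78) (nat_lit 0) (nat_lit 0) (XT.lf (nat_lit 0) (nat_lit 22051389006) (nat_lit 152) (nat_lit 158257671103) (nat_lit 76) (nat_lit 24084266192) (nat_lit 8) (nat_lit 5) (nat_lit 10) (nat_lit 5) (nat_lit 9) (nat_lit 4) (nat_lit 233) (nat_lit 220) (nat_lit 147)) (XT.lf (nat_lit 0) (nat_lit 55671134783) (nat_lit 152) (nat_lit 85976212250) (nat_lit 76) (nat_lit 84502485148) (nat_lit 8) (nat_lit 5) (nat_lit 10) (nat_lit 5) (nat_lit 9) (nat_lit 4) (nat_lit 234) (nat_lit 220) (nat_lit 146)))) (XT.nd (nat_lit 156) (nat_lit 76) (nat_lit 0) (XT.nd (nat_lit 78) (nat_lit 76) (nat_lit 0) (XT.lf (nat_lit 0) (nat_lit 94333314347) (nat_lit 152) (nat_lit 2853391030) (nat_lit 76) (nat_lit 153983190776) (nat_lit 8) (nat_lit 5) (nat_lit 10) (nat_lit 5) (nat_lit 9) (nat_lit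 4) (nat_lit 235) (nat_lit 220) (nat_lit 145)) (XT.lf (nat_lit 0) (nat_lit 101800053332) (nat_lit 76) (nat_lit 41209631432) (nat_lit 152) (nat_lit 136301057974) (nat_lit 7) (nat_lit 5) (nat_lit 8) (nat_lit 5) (nat_lit 9) (nat_lit 4) (nat_lit 236) (nat_lit 220) (nat_lit 144))) (XT.nd (nat_lit 78) (nat_lit 76) (nat_lit 0) (XT.lf (nat_lit 0) (nat_lit 200102499441) (nat_lit 152) (nat_lit 90145186919) (nat_lit 0) (nat_lit 21257783914) (nat_lit 7) (nat_lit 5) (nat_lit 9) (nat_lit 4) (nat_lit 7) (nat_lit 4) (nat_lit 237) (nat_lit 220) (nat_lit 143)) (XT.lf (nat_lit 0) (nat_lit 9179317999) (nat_lit 76) (nat_lit 258921994727) (nat_lit 76) (nat_lit 80076784724) (nat_lit 6) (nat_lit 4) (nat_lit 7) (nat_lit 5) (nat_lit 7) (nat_lit 4) (nat_lit 238) (nat_lit 220) (nat_lit 142))))) (XT.nd (nat_lit 312) (nat_lit 0) (nat_lit 0) (XT.nd (nat_lit 156) (nat_lit 76) (nat_lit 0) (XT.nd (nat_lit 78) (nat_lit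 76) (nat_lit 0) (XT.lf (nat_lit 0) (nat_lit 133532952777) (nat_lit 76) (nat_lit 217478770653) (nat_lit 76) (nat_lit 38633130671) (nat_lit 6) (nat_lit 4) (nat_lit 7) (nat_lit 5) (nat_lit 7) (nat_lit 4) (nat_lit 239) (nat_lit 220) (nat_lit 141)) (XT.lf (nat_lit 0) (nat_lit 8223090450) (nat_lit 152) (nat_lit 161166369407) (nat_lit 76) (nat_lit 267886146230) (nat_lit 5) (nat_lit 5) (nat_lit 7) (nat_lit 5) (nat_lit 6) (nat_lit 4) (nat_lit 240) (nat_lit 220) (nat_lit 140))) (XT.nd (nat_lit 78) (nat_lit 76) (nat_lit 0) (XT.lf (nat_lit 0) (nat_lit 58152162194) (nat_lit 152) (nat_lit 53819190283) (nat_lit 76) (nat_lit 379803711462) (nat_lit 5) (nat_lit 5) (nat_lit 7) (nat_lit 5) (nat_lit 6) (nat_lit 4) (nat_lit 241) (nat_lit 220) (nat_lit 139)) (XT.lf (nat_lit 0) (nat_lit 76434335605) (nat_lit 76) (nat_lit 42300993383) (nat_lit 152) (nat_lit 435239402318) (nat_lit 4) (nat_lit 5) (nat_lit 5)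 (nat_lit 5) (nat_lit 6) (nat_lit 4) (nat_lit 242) (nat_lit 220) (nat_lit 138)))) (XT.nd (nat_lit 156) (nat_lit 0) (nat_lit 0) (XT.nd (nat_lit 78) (nat_lit 0) (nat_lit 0) (XT.lf (nat_lit 0) (nat_lit 192919012899) (nat_lit 152) (nat_lit 394508382790) (nat_lit 0) (nat_lit 37399997627) (nat_lit 4) (nat_lit 5) (nat_lit 6) (nat_lit 4) (nat_lit 4) (nat_lit 4) (nat_lit 243) (nat_lit 220) (nat_lit 137)) (XT.lf (nat_lit 0) (nat_lit 280244372419) (nat_lit 152) (nat_lit 301036293239) (nat_lit 0) (nat_lit 124725171255) (nat_lit 4) (nat_lit 5) (nat_lit 6) (nat_lit 4) (nat_lit 4) (nat_lit 4) (nat_lit 244) (nat_lit 220) (nat_lit 136))) (XT.nd (nat_lit 78) (nat_lit 0) (nat_lit 0) (XT.lf (nat_lit 0) (nat_lit 380668353263) (nat_lit 152) (nat_lit 193543731368) (nat_lit 0) (nat_lit 225148990454) (nat_lit 4) (nat_lit 5) (nat_lit 6) (nat_lit 4) (nat_lit 4) (nat_lit 4) (nat_lit 245) (nat_lit 220) (nat_lit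 135)) (XT.lf (nat_lit 0) (nat_lit 496155772447) (nat_lit 152) (nat_lit 69927581837) (nat_lit 0) (nat_lit 340636269078) (nat_lit 4) (nat_lit 5) (nat_lit 6) (nat_lit 4) (nat_lit 4) (nat_lit 4) (nat_lit 246) (nat_lit 220) (nat_lit 134)))))) (XT.nd (nat_lit 624) (nat_lit 152) (nat_lit 0) (XT.nd (nat_lit 312) (nat_lit 0) (nat_lit 0) (XT.nd (nat_lit 156) (nat_lit 0) (nat_lit 0) (XT.nd (nat_lit 78) (nat_lit 0) (nat_lit 0) (XT.lf (nat_lit 0) (nat_lit 79289644658) (nat_lit 76) (nat_lit 552959736876) (nat_lit 76) (nat_lit 397440111280) (nat_lit 3) (nat_lit 4) (nat_lit 4) (nat_lit 5) (nat_lit 4) (nat_lit 4) (nat_lit 247) (nat_lit 220) (nat_lit 133)) (XT.lf (nat_lit 0) (nat_lit 258748115562) (nat_lit 76) (nat_lit 533664091576) (nat_lit 76) (nat_lit 378144359696) (nat_lit 3) (nat_lit 4) (nat_lit 4) (nat_lit 5) (nat_lit 4) (nat_lit 4) (nat_lit 248) (nat_lit 220) (nat_lit 132))) (XT.nd (nat_lit 78)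 (nat_lit 0) (nat_lit 0) (XT.lf (nat_lit 0) (nat_lit 465125143009) (nat_lit 76) (nat_lit 511474200304) (nat_lit 76) (nat_lit 355954376003) (nat_lit 3) (nat_lit 4) (nat_lit 4) (nat_lit 5) (nat_lit 4) (nat_lit 4) (nat_lit 249) (nat_lit 220) (nat_lit 131)) (XT.lf (nat_lit 0) (nat_lit 702458538406) (nat_lit 76) (nat_lit 485955913013) (nat_lit 76) (nat_lit 330436008345) (nat_lit 3) (nat_lit 4) (nat_lit 4) (nat_lit 5) (nat_lit 4) (nat_lit 4) (nat_lit 250) (nat_lit 220) (nat_lit 130)))) (XT.nd (nat_lit 156) (nat_lit 0) (nat_lit 0) (XT.nd (nat_lit 78) (nat_lit 0) (nat_lit 0) (XT.lf (nat_lit 0) (nat_lit 975391781229) (nat_lit 76) (nat_lit 456609958864) (nat_lit 76) (nat_lit 301089984313) (nat_lit 3) (nat_lit 4) (nat_lit 4) (nat_lit 5) (nat_lit 4) (nat_lit 4) (nat_lit 251) (nat_lit 220) (nat_lit 129)) (XT.lf (nat_lit 0) (nat_lit 1289264869705) (nat_lit 76) (nat_lit 422862177886) (nat_lit 76)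 (nat_lit 267342142567) (nat_lit 3) (nat_lit 4) (nat_lit 4) (nat_lit 5) (nat_lit 4) (nat_lit 4) (nat_lit 252) (nat_lit 220) (nat_lit 128))) (XT.nd (nat_lit 78) (nat_lit 0) (nat_lit 0) (XT.lf (nat_lit 0) (nat_lit 1650218799045) (nat_lit 76) (nat_lit 384052287407) (nat_lit 76) (nat_lit 228532199245) (nat_lit 3) (nat_lit 4) (nat_lit 4) (nat_lit 5) (nat_lit 4) (nat_lit 4) (nat_lit 253) (nat_lit 220) (nat_lit 127)) (XT.lf (nat_lit 0) (nat_lit 2065315711345) (nat_lit 76) (nat_lit 339420963482) (nat_lit 76) (nat_lit 183900829371) (nat_lit 3) (nat_lit 4) (nat_lit 4) (nat_lit 5) (nat_lit 4) (nat_lit 4) (nat_lit 254) (nat_lit 220) (nat_lit 126))))) (XT.nd (nat_lit 312) (nat_lit 76) (nat_lit 0) (XT.nd (nat_lit 156) (nat_lit 76) (nat_lit 0) (XT.nd (nat_lit 78) (nat_lit 0) (nat_lit 0) (XT.lf (nat_lit 0) (nat_lit 2542677067931) (nat_lit 76) (nat_lit 288094984558) (nat_lit 76) (nat_lit 132574810490)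 (nat_lit 3) (nat_lit 4) (nat_lit 4) (nat_lit 5) (nat_lit 4) (nat_lit 4) (nat_lit 255) (nat_lit 220) (nat_lit 125)) (XT.lf (nat_lit 0) (nat_lit 3091642547520) (nat_lit 76) (nat_lit 229070146697) (nat_lit 76) (nat_lit 73549937885) (nat_lit 3) (nat_lit 4) (nat_lit 4) (nat_lit 5) (nat_lit 4) (nat_lit 4) (nat_lit 256) (nat_lit 220) (nat_lit 124))) (XT.nd (nat_lit 78) (nat_lit 76) (nat_lit 0) (XT.lf (nat_lit 0) (nat_lit 3722952779060) (nat_lit 76) (nat_lit 161191616117) (nat_lit 76) (nat_lit 5671377092) (nat_lit 3) (nat_lit 4) (nat_lit 4) (nat_lit 5) (nat_lit 4) (nat_lit 4) (nat_lit 257) (nat_lit 220) (nat_lit 123)) (XT.lf (nat_lit 0) (nat_lit 65944367499) (nat_lit 152) (nat_lit 13739875173) (nat_lit 76) (nat_lit 4379568025036) (nat_lit 2) (nat_lit 5) (nat_lit 4) (nat_lit 5) (nat_lit 3) (nat_lit 4) (nat_lit 258) (nat_lit 220) (nat_lit 122)))) (XT.nd (nat_lit 156) (nat_lit 0) (nat_lit 0)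 (XT.nd (nat_lit 78) (nat_lit 0) (nat_lit 0) (XT.lf (nat_lit 0) (nat_lit 156034582392) (nat_lit 152) (nat_lit 4935982683647) (nat_lit 0) (nat_lit 20799549226) (nat_lit 1) (nat_lit 5) (nat_lit 3) (nat_lit 4) (nat_lit 1) (nat_lit 4) (nat_lit 259) (nat_lit 220) (nat_lit 121)) (XT.lf (nat_lit 0) (nat_lit 264185210157) (nat_lit 152) (nat_lit 5470598643055) (nat_lit 0) (nat_lit 128950159717) (nat_lit 1) (nat_lit 5) (nat_lit 3) (nat_lit 4) (nat_lit 1) (nat_lit 4) (nat_lit 260) (nat_lit 220) (nat_lit 120))) (XT.nd (nat_lit 78) (nat_lit 0) (nat_lit 0) (XT.lf (nat_lit 0) (nat_lit 388558407005) (nat_lit 152) (nat_lit 6085407045516) (nat_lit 0) (nat_lit 253323341543) (nat_lit 1) (nat_lit 5) (nat_lit 3) (nat_lit 4) (nat_lit 1) (nat_lit 4) (nat_lit 261) (nat_lit 220) (nat_lit 119)) (XT.lf (nat_lit 0) (nat_lit 531587561570) (nat_lit 152) (nat_lit 6792436751078) (nat_lit 0) (nat_lit 396352483046) (nat_lit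 1) (nat_lit 5) (nat_lit 3) (nat_lit 4) (nat_lit 1) (nat_lit 4) (nat_lit 262) (nat_lit 220) (nat_lit 118))))))))
noncomputable def xc47 : XT := (XT.nd (nat_lit 29484) (nat_lit 0) (nat_lit 0) (XT.nd (nat_lit 28236) (nat_lit 0) (nat_lit 380) (XT.nd (nat_lit 702) (nat_lit 0) (nat_lit 0) (XT.nd (nat_lit 234) (nat_lit 0) (nat_lit 0) (XT.nd (nat_lit 78) (nat_lit 0) (nat_lit 0) (XT.lf (nat_lit 0) (nat_lit 696071070353) (nat_lit 152) (nat_lit 7605520949633) (nat_lit 0) (nat_lit 560835980472) (nat_lit 1) (nat_lit 5) (nat_lit 3) (nat_lit 4) (nat_lit 1) (nat_lit 4) (nat_lit 263) (nat_lit 220) (nat_lit 117)) (XT.nd (nat_lit 78) (nat_lit 0) (nat_lit 0) (XT.lf (nat_lit 0) (nat_lit 885227088962) (nat_lit 152) (nat_lit 8540567810283) (nat_lit 0) (nat_lit 749991989204) (nat_lit 1) (nat_lit 5) (nat_lit 3) (nat_lit 4) (nat_lit 1) (nat_lit 4) (nat_lit 264) (nat_lit 220) (nat_lit 116)) (XT.lf (nat_lit 0)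 (nat_lit 1102756496022) (nat_lit 152) (nat_lit 9615871728128) (nat_lit 0) (nat_lit 967521387676) (nat_lit 1) (nat_lit 5) (nat_lit 3) (nat_lit 4) (nat_lit 1) (nat_lit 4) (nat_lit 265) (nat_lit 220) (nat_lit 115)))) (XT.nd (nat_lit 156) (nat_lit 0) (nat_lit 0) (XT.nd (nat_lit 78) (nat_lit 0) (nat_lit 0) (XT.lf (nat_lit 0) (nat_lit 1352915301671) (nat_lit 152) (nat_lit 10852471258082) (nat_lit 0) (nat_lit 1217680185856) (nat_lit 1) (nat_lit 5) (nat_lit 3) (nat_lit 4) (nat_lit 1) (nat_lit 4) (nat_lit 266) (nat_lit 220) (nat_lit 114)) (XT.lf (nat_lit 0) (nat_lit 1640597917323) (nat_lit 152) (nat_lit 12274560738774) (nat_lit 0) (nat_lit 1505362795014) (nat_lit 1) (nat_lit 5) (nat_lit 3) (nat_lit 4) (nat_lit 1) (nat_lit 4) (nat_lit 267) (nat_lit 220) (nat_lit 113))) (XT.nd (nat_lit 78) (nat_lit 0) (nat_lit 0) (XT.lf (nat_lit 0) (nat_lit 1971432915893) (nat_lit 152) (nat_lit 13909963660045)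 (nat_lit 0) (nat_lit 1836197787938) (nat_lit 1) (nat_lit 5) (nat_lit 3) (nat_lit 4) (nat_lit 1) (nat_lit 4) (nat_lit 268) (nat_lit 220) (nat_lit 112)) (XT.lf (nat_lit 0) (nat_lit 2351893156050) (nat_lit 152) (nat_lit 15790677035571) (nat_lit 0) (nat_lit 2216658023185) (nat_lit 1) (nat_lit 5) (nat_lit 3) (nat_lit 4) (nat_lit 1) (nat_lit 4) (nat_lit 269) (nat_lit 220) (nat_lit 111))))) (XT.nd (nat_lit 312) (nat_lit 0) (nat_lit 0) (XT.nd (nat_lit 156) (nat_lit 0) (nat_lit 0) (XT.nd (nat_lit 78) (nat_lit 0) (nat_lit 0) (XT.lf (nat_lit 0) (nat_lit 3871213524107) (nat_lit 152) (nat_lit 23301070896748) (nat_lit 0) (nat_lit 3735978380030) (nat_lit 1) (nat_lit 5) (nat_lit 3) (nat_lit 4) (nat_lit 1) (nat_lit 4) (nat_lit 272) (nat_lit 220) (nat_lit 108)) (XT.lf (nat_lit 0) (nat_lit 4536640832087) (nat_lit 152) (nat_lit 26590450403643) (nat_lit 0) (nat_lit 4401405685203) (nat_lit 1) (nat_lit 5)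 (nat_lit 3) (nat_lit 4) (nat_lit 1) (nat_lit 4) (nat_lit 273) (nat_lit 220) (nat_lit 107))) (XT.nd (nat_lit 78) (nat_lit 0) (nat_lit 0) (XT.lf (nat_lit 0) (nat_lit 5301882232188) (nat_lit 152) (nat_lit 30373236844560) (nat_lit 0) (nat_lit 5166647082862) (nat_lit 1) (nat_lit 5) (nat_lit 3) (nat_lit 4) (nat_lit 1) (nat_lit 4) (nat_lit 274) (nat_lit 220) (nat_lit 106)) (XT.lf (nat_lit 0) (nat_lit 6181909838758) (nat_lit 152) (nat_lit 34723441258559) (nat_lit 0) (nat_lit 6046674687309) (nat_lit 1) (nat_lit 5) (nat_lit 3) (nat_lit 4) (nat_lit 1) (nat_lit 4) (nat_lit 275) (nat_lit 220) (nat_lit 105)))) (XT.nd (nat_lit 27066) (nat_lit 0) (nat_lit 1064) (XT.nd (nat_lit 26988) (nat_lit 0) (nat_lit 1368) (XT.lf (nat_lit 0) (nat_lit 7193941583232) (nat_lit 152) (nat_lit 39726176340698) (nat_lit 0) (nat_lit 7058706429937) (nat_lit 1) (nat_lit 5) (nat_lit 3) (nat_lit 4) (nat_lit 1) (nat_lit 4)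 (nat_lit 276) (nat_lit 220) (nat_lit 104)) (XT.lf (nat_lit 0) (nat_lit 18628774317) (nat_lit 0) (nat_lit 18628774317) (nat_lit 228) (nat_lit 1316879186) (nat_lit 19) (nat_lit 5) (nat_lit 19) (nat_lit 3) (nat_lit 22) (nat_lit 3) (nat_lit 221) (nat_lit 221) (nat_lit 158))) (XT.nd (nat_lit 78) (nat_lit 304) (nat_lit 0) (XT.lf (nat_lit 0) (nat_lit 75736975723) (nat_lit 0) (nat_lit 4375888288) (nat_lit 228) (nat_lit 2820682054) (nat_lit 19) (nat_lit 5) (nat_lit 19) (nat_lit 3) (nat_lit 22) (nat_lit 3) (nat_lit 222) (nat_lit 221) (nat_lit 157)) (XT.lf (nat_lit 0) (nat_lit 65200915) (nat_lit 304) (nat_lit 57331240135) (nat_lit 380) (nat_lit 31783781299) (nat_lit 15) (nat_lit 5) (nat_lit 19) (nat_lit 5) (nat_lit 20) (nat_lit 5) (nat_lit 223) (nat_lit 221) (nat_lit 156)))))) (XT.nd (nat_lit 624) (nat_lit 380) (nat_lit 0) (XT.nd (nat_lit 312) (nat_lit 152) (nat_lit 0) (XT.nd (nat_lit 156) (nat_lit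 152) (nat_lit 0) (XT.nd (nat_lit 78) (nat_lit 0) (nat_lit 76) (XT.lf (nat_lit 0) (nat_lit 3696144251) (nat_lit 304) (nat_lit 19109136293) (nat_lit 380) (nat_lit 73448341442) (nat_lit 15) (nat_lit 5) (nat_lit 19) (nat_lit 5) (nat_lit 20) (nat_lit 5) (nat_lit 224) (nat_lit 221) (nat_lit 155)) (XT.lf (nat_lit 0) (nat_lit 9756411106) (nat_lit 304) (nat_lit 77702232145) (nat_lit 76) (nat_lit 16646698143) (nat_lit 16) (nat_lit 5) (nat_lit 20) (nat_lit 5) (nat_lit 17) (nat_lit 5) (nat_lit 225) (nat_lit 221) (nat_lit 154))) (XT.nd (nat_lit 78) (nat_lit 228) (nat_lit 0) (XT.lf (nat_lit 0) (nat_lit 18856958685) (nat_lit 304) (nat_lit 33229927995) (nat_lit 76) (nat_lit 60728256473) (nat_lit 16) (nat_lit 5) (nat_lit 20) (nat_lit 5) (nat_lit 17) (nat_lit 5) (nat_lit 226) (nat_lit 221) (nat_lit 153)) (XT.lf (nat_lit 0) (nat_lit 19662678543) (nat_lit 228) (nat_lit 10473075320) (nat_lit 304) (nat_lit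 92573695664) (nat_lit 13) (nat_lit 5) (nat_lit 16) (nat_lit 5) (nat_lit 17) (nat_lit 5) (nat_lit 227) (nat_lit 221) (nat_lit 152)))) (XT.nd (nat_lit 156) (nat_lit 0) (nat_lit 0) (XT.nd (nat_lit 78) (nat_lit 152) (nat_lit 0) (XT.lf (nat_lit 0) (nat_lit 46473109800) (nat_lit 304) (nat_lit 51235387644) (nat_lit 76) (nat_lit 35874401164) (nat_lit 13) (nat_lit 5) (nat_lit 17) (nat_lit 5) (nat_lit 14) (nat_lit 5) (nat_lit 228) (nat_lit 221) (nat_lit 151)) (XT.lf (nat_lit 0) (nat_lit 8614949505) (nat_lit 152) (nat_lit 57500751122) (nat_lit 228) (nat_lit 79843476634) (nat_lit 11) (nat_lit 5) (nat_lit 13) (nat_lit 5) (nat_lit 14) (nat_lit 5) (nat_lit 229) (nat_lit 221) (nat_lit 150))) (XT.nd (nat_lit 78) (nat_lit 0) (nat_lit 0) (XT.lf (nat_lit 0) (nat_lit 83200043309) (nat_lit 152) (nat_lit 8182103749) (nat_lit 228) (nat_lit 68408136634) (nat_lit 11) (nat_lit 5) (nat_lit 13) (nat_lit 5) (nat_lit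 14) (nat_lit 5) (nat_lit 230) (nat_lit 221) (nat_lit 149)) (XT.lf (nat_lit 0) (nat_lit 122447607476) (nat_lit 228) (nat_lit 8733782176) (nat_lit 76) (nat_lit 44213314627) (nat_lit 11) (nat_lit 5) (nat_lit 14) (nat_lit 5) (nat_lit 12) (nat_lit 4) (nat_lit 231) (nat_lit 221) (nat_lit 148))))) (XT.nd (nat_lit 312) (nat_lit 152) (nat_lit 0) (XT.nd (nat_lit 156) (nat_lit 152) (nat_lit 0) (XT.nd (nat_lit 78) (nat_lit 0) (nat_lit 0) (XT.lf (nat_lit 0) (nat_lit 75645174026) (nat_lit 76) (nat_lit 86049071365) (nat_lit 152) (nat_lit 31117343356) (nat_lit 10) (nat_lit 5) (nat_lit 11) (nat_lit 5) (nat_lit 12) (nat_lit 4) (nat_lit 232) (nat_lit 221) (nat_lit 147)) (XT.lf (nat_lit 0) (nat_lit 173661764954) (nat_lit 76) (nat_lit 33622124474) (nat_lit 152) (nat_lit 5488718856) (nat_lit 10) (nat_lit 5) (nat_lit 11) (nat_lit 5) (nat_lit 12) (nat_lit 4) (nat_lit 233) (nat_lit 221) (nat_lit 146))) (XT.nd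 (nat_lit 78) (nat_lit 0) (nat_lit 0) (XT.lf (nat_lit 0) (nat_lit 25364783423) (nat_lit 152) (nat_lit 181987099887) (nat_lit 76) (nat_lit 27699556750) (nat_lit 8) (nat_lit 5) (nat_lit 10) (nat_lit 5) (nat_lit 9) (nat_lit 4) (nat_lit 234) (nat_lit 221) (nat_lit 145)) (XT.lf (nat_lit 0) (nat_lit 64026749406) (nat_lit 152) (nat_lit 98864625061) (nat_lit 76) (nat_lit 97180162815) (nat_lit 8) (nat_lit 5) (nat_lit 10) (nat_lit 5) (nat_lit 9) (nat_lit 4) (nat_lit 235) (nat_lit 221) (nat_lit 144)))) (XT.nd (nat_lit 156) (nat_lit 76) (nat_lit 0) (XT.nd (nat_lit 78) (nat_lit 76) (nat_lit 0) (XT.lf (nat_lit 0) (nat_lit 108487610982) (nat_lit 152) (nat_lit 3274426617) (nat_lit 76) (nat_lit 177082673649) (nat_lit 8) (nat_lit 5) (nat_lit 10) (nat_lit 5) (nat_lit 9) (nat_lit 4) (nat_lit 236) (nat_lit 221) (nat_lit 143)) (XT.lf (nat_lit 0) (nat_lit 117076717442) (nat_lit 76) (nat_lit 47388434333) (nat_lit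 152) (nat_lit 156741579007) (nat_lit 7) (nat_lit 5) (nat_lit 8) (nat_lit 5) (nat_lit 9) (nat_lit 4) (nat_lit 237) (nat_lit 221) (nat_lit 142))) (XT.nd (nat_lit 78) (nat_lit 76) (nat_lit 0) (XT.lf (nat_lit 0) (nat_lit 230121460173) (nat_lit 152) (nat_lit 103660730101) (nat_lit 0) (nat_lit 24448544215) (nat_lit 7) (nat_lit 5) (nat_lit 9) (nat_lit 4) (nat_lit 7) (nat_lit 4) (nat_lit 238) (nat_lit 221) (nat_lit 141)) (XT.lf (nat_lit 0) (nat_lit 10562167152) (nat_lit 76) (nat_lit 297757707020) (nat_lit 76) (nat_lit 92084417167) (nat_lit 6) (nat_lit 4) (nat_lit 7) (nat_lit 5) (nat_lit 7) (nat_lit 4) (nat_lit 239) (nat_lit 221) (nat_lit 140))))))) (XT.nd (nat_lit 1170) (nat_lit 152) (nat_lit 0) (XT.nd (nat_lit 546) (nat_lit 76) (nat_lit 0) (XT.nd (nat_lit 234) (nat_lit 76) (nat_lit 0) (XT.nd (nat_lit 78) (nat_lit 76) (nat_lit 0) (XT.lf (nat_lit 0) (nat_lit 153568070870) (nat_lit 76) (nat_lit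 250098336759) (nat_lit 76) (nat_lit 44424721781) (nat_lit 6) (nat_lit 4) (nat_lit 7) (nat_lit 5) (nat_lit 7) (nat_lit 4) (nat_lit 240) (nat_lit 221) (nat_lit 139)) (XT.nd (nat_lit 78) (nat_lit 0) (nat_lit 0) (XT.lf (nat_lit 0) (nat_lit 9459230292) (nat_lit 152) (nat_lit 185336552568) (nat_lit 76) (nat_lit 308070752148) (nat_lit 5) (nat_lit 5) (nat_lit 7) (nat_lit 5) (nat_lit 6) (nat_lit 4) (nat_lit 241) (nat_lit 221) (nat_lit 138)) (XT.lf (nat_lit 0) (nat_lit 66877313718) (nat_lit 152) (nat_lit 61887919043) (nat_lit 76) (nat_lit 436775732515) (nat_lit 5) (nat_lit 5) (nat_lit 7) (nat_lit 5) (nat_lit 6) (nat_lit 4) (nat_lit 242) (nat_lit 221) (nat_lit 137)))) (XT.nd (nat_lit 156) (nat_lit 0) (nat_lit 0) (XT.nd (nat_lit 78) (nat_lit 0) (nat_lit 0) (XT.lf (nat_lit 0) (nat_lit 87903447102) (nat_lit 76) (nat_lit 48644368905) (nat_lit 152) (nat_lit 500522788867) (nat_lit 4) (nat_lit 5) (nat_lit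 5) (nat_lit 5) (nat_lit 6) (nat_lit 4) (nat_lit 243) (nat_lit 221) (nat_lit 136)) (XT.lf (nat_lit 0) (nat_lit 221858831013) (nat_lit 152) (nat_lit 453680967297) (nat_lit 0) (nat_lit 43011402138) (nat_lit 4) (nat_lit 5) (nat_lit 6) (nat_lit 4) (nat_lit 4) (nat_lit 4) (nat_lit 244) (nat_lit 221) (nat_lit 135))) (XT.nd (nat_lit 78) (nat_lit 0) (nat_lit 0) (XT.lf (nat_lit 0) (nat_lit 322282738003) (nat_lit 152) (nat_lit 346188543389) (nat_lit 0) (nat_lit 143435168568) (nat_lit 4) (nat_lit 5) (nat_lit 6) (nat_lit 4) (nat_lit 4) (nat_lit 4) (nat_lit 245) (nat_lit 221) (nat_lit 134)) (XT.lf (nat_lit 0) (nat_lit 437770092967) (nat_lit 152) (nat_lit 222572513825) (nat_lit 0) (nat_lit 258922401304) (nat_lit 4) (nat_lit 5) (nat_lit 6) (nat_lit 4) (nat_lit 4) (nat_lit 4) (nat_lit 246) (nat_lit 221) (nat_lit 133))))) (XT.nd (nat_lit 312) (nat_lit 0) (nat_lit 0) (XT.nd (nat_lit 156) (nat_lit 0)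 (nat_lit 0) (XT.nd (nat_lit 78) (nat_lit 76) (nat_lit 0) (XT.lf (nat_lit 0) (nat_lit 570580431110) (nat_lit 152) (nat_lit 80414304113) (nat_lit 0) (nat_lit 391732633163) (nat_lit 4) (nat_lit 5) (nat_lit 6) (nat_lit 4) (nat_lit 4) (nat_lit 4) (nat_lit 247) (nat_lit 221) (nat_lit 132)) (XT.lf (nat_lit 0) (nat_lit 91185396583) (nat_lit 76) (nat_lit 635902611806) (nat_lit 76) (nat_lit 457054721438) (nat_lit 3) (nat_lit 4) (nat_lit 4) (nat_lit 5) (nat_lit 4) (nat_lit 4) (nat_lit 248) (nat_lit 221) (nat_lit 131))) (XT.nd (nat_lit 78) (nat_lit 0) (nat_lit 0) (XT.lf (nat_lit 0) (nat_lit 297562337441) (nat_lit 76) (nat_lit 613712761311) (nat_lit 76) (nat_lit 434864790577) (nat_lit 3) (nat_lit 4) (nat_lit 4) (nat_lit 5) (nat_lit 4) (nat_lit 4) (nat_lit 249) (nat_lit 221) (nat_lit 130)) (XT.lf (nat_lit 0) (nat_lit 534895657543) (nat_lit 76) (nat_lit 588194509478) (nat_lit 76) (nat_lit 409346468861)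 (nat_lit 3) (nat_lit 4) (nat_lit 4) (nat_lit 5) (nat_lit 4) (nat_lit 4) (nat_lit 250) (nat_lit 221) (nat_lit 129)))) (XT.nd (nat_lit 156) (nat_lit 0) (nat_lit 0) (XT.nd (nat_lit 78) (nat_lit 0) (nat_lit 0) (XT.lf (nat_lit 0) (nat_lit 807828834891) (nat_lit 76) (nat_lit 558848586164) (nat_lit 76) (nat_lit 380000484778) (nat_lit 3) (nat_lit 4) (nat_lit 4) (nat_lit 5) (nat_lit 4) (nat_lit 4) (nat_lit 251) (nat_lit 221) (nat_lit 128)) (XT.lf (nat_lit 0) (nat_lit 1121701866434) (nat_lit 76) (nat_lit 525100831997) (nat_lit 76) (nat_lit 346252677770) (nat_lit 3) (nat_lit 4) (nat_lit 4) (nat_lit 5) (nat_lit 4) (nat_lit 4) (nat_lit 252) (nat_lit 221) (nat_lit 127))) (XT.nd (nat_lit 78) (nat_lit 0) (nat_lit 0) (XT.lf (nat_lit 0) (nat_lit 1482655746266) (nat_lit 76) (nat_lit 486290964833) (nat_lit 76) (nat_lit 307442764655) (nat_lit 3) (nat_lit 4) (nat_lit 4) (nat_lit 5) (nat_lit 4) (nat_lit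 4) (nat_lit 253) (nat_lit 221) (nat_lit 126)) (XT.lf (nat_lit 0) (nat_lit 1897752615515) (nat_lit 76) (nat_lit 441659661182) (nat_lit 76) (nat_lit 262811421048) (nat_lit 3) (nat_lit 4) (nat_lit 4) (nat_lit 5) (nat_lit 4) (nat_lit 4) (nat_lit 254) (nat_lit 221) (nat_lit 125)))))) (XT.nd (nat_lit 624) (nat_lit 0) (nat_lit 0) (XT.nd (nat_lit 312) (nat_lit 152) (nat_lit 0) (XT.nd (nat_lit 156) (nat_lit 0) (nat_lit 0) (XT.nd (nat_lit 78) (nat_lit 0) (nat_lit 0) (XT.lf (nat_lit 0) (nat_lit 2375113934666) (nat_lit 76) (nat_lit 390333699887) (nat_lit 76) (nat_lit 211485425008) (nat_lit 3) (nat_lit 4) (nat_lit 4) (nat_lit 5) (nat_lit 4) (nat_lit 4) (nat_lit 255) (nat_lit 221) (nat_lit 124)) (XT.lf (nat_lit 0) (nat_lit 2924079381703) (nat_lit 76) (nat_lit 331308877356) (nat_lit 76) (nat_lit 152460572265) (nat_lit 3) (nat_lit 4) (nat_lit 4) (nat_lit 5) (nat_lit 4) (nat_lit 4) (nat_lit 256) (nat_lit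 221) (nat_lit 123))) (XT.nd (nat_lit 78) (nat_lit 0) (nat_lit 0) (XT.lf (nat_lit 0) (nat_lit 3555389584937) (nat_lit 76) (nat_lit 263430360106) (nat_lit 76) (nat_lit 84582028743) (nat_lit 3) (nat_lit 4) (nat_lit 4) (nat_lit 5) (nat_lit 4) (nat_lit 4) (nat_lit 257) (nat_lit 221) (nat_lit 122)) (XT.lf (nat_lit 0) (nat_lit 4281396265736) (nat_lit 76) (nat_lit 185370090190) (nat_lit 76) (nat_lit 6521735982) (nat_lit 3) (nat_lit 4) (nat_lit 4) (nat_lit 5) (nat_lit 4) (nat_lit 4) (nat_lit 258) (nat_lit 221) (nat_lit 121)))) (XT.nd (nat_lit 156) (nat_lit 0) (nat_lit 0) (XT.nd (nat_lit 78) (nat_lit 76) (nat_lit 0) (XT.lf (nat_lit 0) (nat_lit 75836298033) (nat_lit 152) (nat_lit 15800333299) (nat_lit 76) (nat_lit 5036503434478) (nat_lit 2) (nat_lit 5) (nat_lit 4) (nat_lit 5) (nat_lit 3) (nat_lit 4) (nat_lit 259) (nat_lit 221) (nat_lit 120)) (XT.lf (nat_lit 0) (nat_lit 179440039821) (nat_lit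 152) (nat_lit 5676379557060) (nat_lit 0) (nat_lit 23919699519) (nat_lit 1) (nat_lit 5) (nat_lit 3) (nat_lit 4) (nat_lit 1) (nat_lit 4) (nat_lit 260) (nat_lit 221) (nat_lit 119))) (XT.nd (nat_lit 78) (nat_lit 0) (nat_lit 0) (XT.lf (nat_lit 0) (nat_lit 303813226524) (nat_lit 152) (nat_lit 6291187979396) (nat_lit 0) (nat_lit 148292873161) (nat_lit 1) (nat_lit 5) (nat_lit 3) (nat_lit 4) (nat_lit 1) (nat_lit 4) (nat_lit 261) (nat_lit 221) (nat_lit 118)) (XT.lf (nat_lit 0) (nat_lit 446842372267) (nat_lit 152) (nat_lit 6998217702242) (nat_lit 0) (nat_lit 291322007546) (nat_lit 1) (nat_lit 5) (nat_lit 3) (nat_lit 4) (nat_lit 1) (nat_lit 4) (nat_lit 262) (nat_lit 221) (nat_lit 117))))) (XT.nd (nat_lit 312) (nat_lit 0) (nat_lit 0) (XT.nd (nat_lit 156) (nat_lit 0) (nat_lit 0) (XT.nd (nat_lit 78) (nat_lit 0) (nat_lit 0) (XT.lf (nat_lit 0) (nat_lit 611325873380) (nat_lit 152) (nat_lit 7811301915825)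 (nat_lit 0) (nat_lit 455805498782) (nat_lit 1) (nat_lit 5) (nat_lit 3) (nat_lit 4) (nat_lit 1) (nat_lit 4) (nat_lit 263) (nat_lit 221) (nat_lit 116)) (XT.lf (nat_lit 0) (nat_lit 800481885319) (nat_lit 152) (nat_lit 8746348789544) (nat_lit 0) (nat_lit 644961502133) (nat_lit 1) (nat_lit 5) (nat_lit 3) (nat_lit 4) (nat_lit 1) (nat_lit 4) (nat_lit 264) (nat_lit 221) (nat_lit 115))) (XT.nd (nat_lit 78) (nat_lit 0) (nat_lit 0) (XT.lf (nat_lit 0) (nat_lit 1018011286579) (nat_lit 152) (nat_lit 9821652718753) (nat_lit 0) (nat_lit 862490895924) (nat_lit 1) (nat_lit 5) (nat_lit 3) (nat_lit 4) (nat_lit 1) (nat_lit 4) (nat_lit 265) (nat_lit 221) (nat_lit 114)) (XT.lf (nat_lit 0) (nat_lit 1268170087184) (nat_lit 152) (nat_lit 11058252258588) (nat_lit 0) (nat_lit 1112649690035) (nat_lit 1) (nat_lit 5) (nat_lit 3) (nat_lit 4) (nat_lit 1) (nat_lit 4) (nat_lit 266) (nat_lit 221) (nat_lit 113)))) (XT.nd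 (nat_lit 156) (nat_lit 0) (nat_lit 0) (XT.nd (nat_lit 78) (nat_lit 0) (nat_lit 0) (XT.lf (nat_lit 0) (nat_lit 1555852698450) (nat_lit 152) (nat_lit 12480341747873) (nat_lit 0) (nat_lit 1400332295655) (nat_lit 1) (nat_lit 5) (nat_lit 3) (nat_lit 4) (nat_lit 1) (nat_lit 4) (nat_lit 267) (nat_lit 221) (nat_lit 112)) (XT.lf (nat_lit 0) (nat_lit 1886687693207) (nat_lit 152) (nat_lit 14115744676616) (nat_lit 0) (nat_lit 1731167285502) (nat_lit 1) (nat_lit 5) (nat_lit 3) (nat_lit 4) (nat_lit 1) (nat_lit 4) (nat_lit 268) (nat_lit 221) (nat_lit 111))) (XT.nd (nat_lit 234) (nat_lit 0) (nat_lit 0) (XT.lf (nat_lit 0) (nat_lit 2267147930048) (nat_lit 152) (nat_lit 15996458058639) (nat_lit 0) (nat_lit 2111627518072) (nat_lit 1) (nat_lit 5) (nat_lit 3) (nat_lit 4) (nat_lit 1) (nat_lit 4) (nat_lit 269) (nat_lit 221) (nat_lit 110)) (XT.lf (nat_lit 0) (nat_lit 3786468290534) (nat_lit 152) (nat_lit 23506851934651)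 (nat_lit 0) (nat_lit 3630947868808) (nat_lit 1) (nat_lit 5) (nat_lit 3) (nat_lit 4) (nat_lit 1) (nat_lit 4) (nat_lit 272) (nat_lit 221) (nat_lit 107))))))))
noncomputable def xc48 : XT := (XT.nd (nat_lit 29484) (nat_lit 0) (nat_lit 0) (XT.nd (nat_lit 28236) (nat_lit 0) (nat_lit 152) (XT.nd (nat_lit 27612) (nat_lit 0) (nat_lit 684) (XT.nd (nat_lit 27300) (nat_lit 0) (nat_lit 1064) (XT.nd (nat_lit 78) (nat_lit 0) (nat_lit 0) (XT.lf (nat_lit 0) (nat_lit 4451895596617) (nat_lit 152) (nat_lit 26796231445261) (nat_lit 0) (nat_lit 4296375172451) (nat_lit 1) (nat_lit 5) (nat_lit 3) (nat_lit 4) (nat_lit 1) (nat_lit 4) (nat_lit 273) (nat_lit 221) (nat_lit 106)) (XT.nd (nat_lit 78) (nat_lit 0) (nat_lit 0) (XT.lf (nat_lit 0) (nat_lit 5217136995069) (nat_lit 152) (nat_lit 30579017889408) (nat_lit 0) (nat_lit 5061616568780) (nat_lit 1) (nat_lit 5) (nat_lit 3) (nat_lit 4) (nat_lit 1) (nat_lit 4)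 (nat_lit 274) (nat_lit 221) (nat_lit 105)) (XT.lf (nat_lit 0) (nat_lit 6097164600206) (nat_lit 152) (nat_lit 34929222306216) (nat_lit 0) (nat_lit 5941644172071) (nat_lit 1) (nat_lit 5) (nat_lit 3) (nat_lit 4) (nat_lit 1) (nat_lit 4) (nat_lit 275) (nat_lit 221) (nat_lit 104)))) (XT.nd (nat_lit 156) (nat_lit 304) (nat_lit 0) (XT.nd (nat_lit 78) (nat_lit 0) (nat_lit 0) (XT.lf (nat_lit 0) (nat_lit 21427468569) (nat_lit 0) (nat_lit 21427468569) (nat_lit 228) (nat_lit 1504242130) (nat_lit 19) (nat_lit 5) (nat_lit 19) (nat_lit 3) (nat_lit 22) (nat_lit 3) (nat_lit 222) (nat_lit 222) (nat_lit 156)) (XT.lf (nat_lit 0) (nat_lit 87105136175) (nat_lit 0) (nat_lit 5039885624) (nat_lit 228) (nat_lit 3226099261) (nat_lit 19) (nat_lit 5) (nat_lit 19) (nat_lit 3) (nat_lit 22) (nat_lit 3) (nat_lit 223) (nat_lit 222) (nat_lit 155))) (XT.nd (nat_lit 78) (nat_lit 0) (nat_lit 0) (XT.lf (nat_lit 0) (nat_lit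 89133173) (nat_lit 304) (nat_lit 65919498345) (nat_lit 380) (nat_lit 36546370789) (nat_lit 15) (nat_lit 5) (nat_lit 19) (nat_lit 5) (nat_lit 20) (nat_lit 5) (nat_lit 224) (nat_lit 222) (nat_lit 154)) (XT.lf (nat_lit 0) (nat_lit 4262872082) (nat_lit 304) (nat_lit 21965569510) (nat_lit 380) (nat_lit 84461264220) (nat_lit 15) (nat_lit 5) (nat_lit 19) (nat_lit 5) (nat_lit 20) (nat_lit 5) (nat_lit 225) (nat_lit 222) (nat_lit 153))))) (XT.nd (nat_lit 312) (nat_lit 228) (nat_lit 0) (XT.nd (nat_lit 156) (nat_lit 228) (nat_lit 0) (XT.nd (nat_lit 78) (nat_lit 0) (nat_lit 0) (XT.lf (nat_lit 0) (nat_lit 11230899989) (nat_lit 304) (nat_lit 89346252031) (nat_lit 76) (nat_lit 19142237767) (nat_lit 16) (nat_lit 5) (nat_lit 20) (nat_lit 5) (nat_lit 17) (nat_lit 5) (nat_lit 226) (nat_lit 222) (nat_lit 152)) (XT.lf (nat_lit 0) (nat_lit 21695091373) (nat_lit 304) (nat_lit 38204578120) (nat_lit 76) (nat_lit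 69836220946) (nat_lit 16) (nat_lit 5) (nat_lit 20) (nat_lit 5) (nat_lit 17) (nat_lit 5) (nat_lit 227) (nat_lit 222) (nat_lit 151))) (XT.nd (nat_lit 78) (nat_lit 0) (nat_lit 0) (XT.lf (nat_lit 0) (nat_lit 22621472168) (nat_lit 228) (nat_lit 12043371831) (nat_lit 304) (nat_lit 106449639242) (nat_lit 13) (nat_lit 5) (nat_lit 16) (nat_lit 5) (nat_lit 17) (nat_lit 5) (nat_lit 228) (nat_lit 222) (nat_lit 150)) (XT.lf (nat_lit 0) (nat_lit 53451688952) (nat_lit 304) (nat_lit 58911349676) (nat_lit 76) (nat_lit 41256087950) (nat_lit 13) (nat_lit 5) (nat_lit 17) (nat_lit 5) (nat_lit 14) (nat_lit 5) (nat_lit 229) (nat_lit 222) (nat_lit 149)))) (XT.nd (nat_lit 156) (nat_lit 76) (nat_lit 0) (XT.nd (nat_lit 78) (nat_lit 0) (nat_lit 0) (XT.lf (nat_lit 0) (nat_lit 9916113222) (nat_lit 152) (nat_lit 66123931634) (nat_lit 228) (nat_lit 91811904173) (nat_lit 11) (nat_lit 5) (nat_lit 13) (nat_lit 5) (nat_lit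 14) (nat_lit 5) (nat_lit 230) (nat_lit 222) (nat_lit 148)) (XT.lf (nat_lit 0) (nat_lit 95687807450) (nat_lit 152) (nat_lit 9407739176) (nat_lit 228) (nat_lit 78662318906) (nat_lit 11) (nat_lit 5) (nat_lit 13) (nat_lit 5) (nat_lit 14) (nat_lit 5) (nat_lit 231) (nat_lit 222) (nat_lit 147))) (XT.nd (nat_lit 78) (nat_lit 76) (nat_lit 0) (XT.lf (nat_lit 0) (nat_lit 140820093884) (nat_lit 228) (nat_lit 10036328817) (nat_lit 76) (nat_lit 50846642742) (nat_lit 11) (nat_lit 5) (nat_lit 14) (nat_lit 5) (nat_lit 12) (nat_lit 4) (nat_lit 232) (nat_lit 222) (nat_lit 146)) (XT.lf (nat_lit 0) (nat_lit 86999128966) (nat_lit 76) (nat_lit 98954198569) (nat_lit 152) (nat_lit 35779220606) (nat_lit 10) (nat_lit 5) (nat_lit 11) (nat_lit 5) (nat_lit 12) (nat_lit 4) (nat_lit 233) (nat_lit 222) (nat_lit 145)))))) (XT.nd (nat_lit 624) (nat_lit 228) (nat_lit 0) (XT.nd (nat_lit 312) (nat_lit 152) (nat_lit 0)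 (XT.nd (nat_lit 156) (nat_lit 0) (nat_lit 0) (XT.nd (nat_lit 78) (nat_lit 152) (nat_lit 0) (XT.lf (nat_lit 0) (nat_lit 199717272164) (nat_lit 76) (nat_lit 38663500971) (nat_lit 152) (nat_lit 6307049072) (nat_lit 10) (nat_lit 5) (nat_lit 11) (nat_lit 5) (nat_lit 12) (nat_lit 4) (nat_lit 234) (nat_lit 222) (nat_lit 144)) (XT.lf (nat_lit 0) (nat_lit 29173800420) (nat_lit 152) (nat_lit 209278191804) (nat_lit 76) (nat_lit 31856494519) (nat_lit 8) (nat_lit 5) (nat_lit 10) (nat_lit 5) (nat_lit 9) (nat_lit 4) (nat_lit 235) (nat_lit 222) (nat_lit 143))) (XT.nd (nat_lit 78) (nat_lit 0) (nat_lit 0) (XT.lf (nat_lit 0) (nat_lit 73634500497) (nat_lit 152) (nat_lit 113688255284) (nat_lit 76) (nat_lit 111758930068) (nat_lit 8) (nat_lit 5) (nat_lit 10) (nat_lit 5) (nat_lit 9) (nat_lit 4) (nat_lit 236) (nat_lit 222) (nat_lit 142)) (XT.lf (nat_lit 0) (nat_lit 124764003656) (nat_lit 152) (nat_lit 3760317969)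 (nat_lit 76) (nat_lit 203646590202) (nat_lit 8) (nat_lit 5) (nat_lit 10) (nat_lit 5) (nat_lit 9) (nat_lit 4) (nat_lit 237) (nat_lit 222) (nat_lit 141)))) (XT.nd (nat_lit 156) (nat_lit 76) (nat_lit 0) (XT.nd (nat_lit 78) (nat_lit 0) (nat_lit 0) (XT.lf (nat_lit 0) (nat_lit 134643258033) (nat_lit 76) (nat_lit 54494701893) (nat_lit 152) (nat_lit 180249309119) (nat_lit 7) (nat_lit 5) (nat_lit 8) (nat_lit 5) (nat_lit 9) (nat_lit 4) (nat_lit 238) (nat_lit 222) (nat_lit 140)) (XT.lf (nat_lit 0) (nat_lit 264642390591) (nat_lit 152) (nat_lit 119205125169) (nat_lit 0) (nat_lit 28117408239) (nat_lit 7) (nat_lit 5) (nat_lit 9) (nat_lit 4) (nat_lit 7) (nat_lit 4) (nat_lit 239) (nat_lit 222) (nat_lit 139))) (XT.nd (nat_lit 78) (nat_lit 0) (nat_lit 0) (XT.lf (nat_lit 0) (nat_lit 12150992379) (nat_lit 76) (nat_lit 342419406993) (nat_lit 76) (nat_lit 105894141924) (nat_lit 6) (nat_lit 4) (nat_lit 7)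 (nat_lit 5) (nat_lit 7) (nat_lit 4) (nat_lit 240) (nat_lit 222) (nat_lit 138)) (XT.lf (nat_lit 0) (nat_lit 176607194678) (nat_lit 76) (nat_lit 287611386334) (nat_lit 76) (nat_lit 51085875423) (nat_lit 6) (nat_lit 4) (nat_lit 7) (nat_lit 5) (nat_lit 7) (nat_lit 4) (nat_lit 241) (nat_lit 222) (nat_lit 137))))) (XT.nd (nat_lit 312) (nat_lit 76) (nat_lit 0) (XT.nd (nat_lit 156) (nat_lit 76) (nat_lit 0) (XT.nd (nat_lit 78) (nat_lit 0) (nat_lit 0) (XT.lf (nat_lit 0) (nat_lit 10880138483) (nat_lit 152) (nat_lit 213133426947) (nat_lit 76) (nat_lit 354282638304) (nat_lit 5) (nat_lit 5) (nat_lit 7) (nat_lit 5) (nat_lit 6) (nat_lit 4) (nat_lit 242) (nat_lit 222) (nat_lit 136)) (XT.lf (nat_lit 0) (nat_lit 76910670469) (nat_lit 152) (nat_lit 71167969068) (nat_lit 76) (nat_lit 502293199639) (nat_lit 5) (nat_lit 5) (nat_lit 7) (nat_lit 5) (nat_lit 6) (nat_lit 4) (nat_lit 243) (nat_lit 222) (nat_lit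 135))) (XT.nd (nat_lit 78) (nat_lit 0) (nat_lit 0) (XT.lf (nat_lit 0) (nat_lit 101091959370) (nat_lit 76) (nat_lit 55939683231) (nat_lit 152) (nat_lit 575599298842) (nat_lit 4) (nat_lit 5) (nat_lit 5) (nat_lit 5) (nat_lit 6) (nat_lit 4) (nat_lit 244) (nat_lit 222) (nat_lit 134)) (XT.lf (nat_lit 0) (nat_lit 255139142380) (nat_lit 152) (nat_lit 521730335142) (nat_lit 0) (nat_lit 49464174741) (nat_lit 4) (nat_lit 5) (nat_lit 6) (nat_lit 4) (nat_lit 4) (nat_lit 4) (nat_lit 245) (nat_lit 222) (nat_lit 133)))) (XT.nd (nat_lit 156) (nat_lit 76) (nat_lit 0) (XT.nd (nat_lit 78) (nat_lit 0) (nat_lit 0) (XT.lf (nat_lit 0) (nat_lit 370626441499) (nat_lit 152) (nat_lit 398114409898) (nat_lit 0) (nat_lit 164951367576) (nat_lit 4) (nat_lit 5) (nat_lit 6) (nat_lit 4) (nat_lit 4) (nat_lit 4) (nat_lit 246) (nat_lit 222) (nat_lit 132)) (XT.lf (nat_lit 0) (nat_lit 503436731082) (nat_lit 152) (nat_lit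 255956290899) (nat_lit 0) (nat_lit 297761564738) (nat_lit 4) (nat_lit 5) (nat_lit 6) (nat_lit 4) (nat_lit 4) (nat_lit 4) (nat_lit 247) (nat_lit 222) (nat_lit 131))) (XT.nd (nat_lit 78) (nat_lit 76) (nat_lit 0) (XT.lf (nat_lit 0) (nat_lit 656168473315) (nat_lit 152) (nat_lit 92474623644) (nat_lit 0) (nat_lit 450493226605) (nat_lit 4) (nat_lit 5) (nat_lit 6) (nat_lit 4) (nat_lit 4) (nat_lit 4) (nat_lit 248) (nat_lit 222) (nat_lit 130)) (XT.lf (nat_lit 0) (nat_lit 104864949153) (nat_lit 76) (nat_lit 731287182705) (nat_lit 76) (nat_lit 525611866112) (nat_lit 3) (nat_lit 4) (nat_lit 4) (nat_lit 5) (nat_lit 4) (nat_lit 4) (nat_lit 249) (nat_lit 222) (nat_lit 129))))))) (XT.nd (nat_lit 1170) (nat_lit 0) (nat_lit 0) (XT.nd (nat_lit 546) (nat_lit 152) (nat_lit 0) (XT.nd (nat_lit 234) (nat_lit 0) (nat_lit 0) (XT.nd (nat_lit 78) (nat_lit 0) (nat_lit 0) (XT.lf (nat_lit 0) (nat_lit 342198203781)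 (nat_lit 76) (nat_lit 705768961707) (nat_lit 76) (nat_lit 500093584344) (nat_lit 3) (nat_lit 4) (nat_lit 4) (nat_lit 5) (nat_lit 4) (nat_lit 4) (nat_lit 250) (nat_lit 222) (nat_lit 128)) (XT.nd (nat_lit 78) (nat_lit 0) (nat_lit 0) (XT.lf (nat_lit 0) (nat_lit 615131324195) (nat_lit 76) (nat_lit 676423065204) (nat_lit 76) (nat_lit 470747635000) (nat_lit 3) (nat_lit 4) (nat_lit 4) (nat_lit 5) (nat_lit 4) (nat_lit 4) (nat_lit 251) (nat_lit 222) (nat_lit 127)) (XT.lf (nat_lit 0) (nat_lit 929004306230) (nat_lit 76) (nat_lit 642675334352) (nat_lit 76) (nat_lit 436999858198) (nat_lit 3) (nat_lit 4) (nat_lit 4) (nat_lit 5) (nat_lit 4) (nat_lit 4) (nat_lit 252) (nat_lit 222) (nat_lit 126)))) (XT.nd (nat_lit 156) (nat_lit 0) (nat_lit 0) (XT.nd (nat_lit 78) (nat_lit 0) (nat_lit 0) (XT.lf (nat_lit 0) (nat_lit 1289958143012) (nat_lit 76) (nat_lit 603865487461) (nat_lit 76) (nat_lit 398189971351)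 (nat_lit 3) (nat_lit 4) (nat_lit 4) (nat_lit 5) (nat_lit 4) (nat_lit 4) (nat_lit 253) (nat_lit 222) (nat_lit 125)) (XT.lf (nat_lit 0) (nat_lit 1705054974826) (nat_lit 76) (nat_lit 559234201440) (nat_lit 76) (nat_lit 353558650585) (nat_lit 3) (nat_lit 4) (nat_lit 4) (nat_lit 5) (nat_lit 4) (nat_lit 4) (nat_lit 254) (nat_lit 222) (nat_lit 124))) (XT.nd (nat_lit 78) (nat_lit 0) (nat_lit 0) (XT.lf (nat_lit 0) (nat_lit 2182416261425) (nat_lit 76) (nat_lit 507908255474) (nat_lit 76) (nat_lit 302232674407) (nat_lit 3) (nat_lit 4) (nat_lit 4) (nat_lit 5) (nat_lit 4) (nat_lit 4) (nat_lit 255) (nat_lit 222) (nat_lit 123)) (XT.lf (nat_lit 0) (nat_lit 2731381680156) (nat_lit 76) (nat_lit 448883446274) (nat_lit 76) (nat_lit 243207838935) (nat_lit 3) (nat_lit 4) (nat_lit 4) (nat_lit 5) (nat_lit 4) (nat_lit 4) (nat_lit 256) (nat_lit 222) (nat_lit 122))))) (XT.nd (nat_lit 312) (nat_lit 76) (nat_lit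 0) (XT.nd (nat_lit 156) (nat_lit 76) (nat_lit 0) (XT.nd (nat_lit 78) (nat_lit 0) (nat_lit 0) (XT.lf (nat_lit 0) (nat_lit 3362691858776) (nat_lit 76) (nat_lit 381004940615) (nat_lit 76) (nat_lit 175329310431) (nat_lit 3) (nat_lit 4) (nat_lit 4) (nat_lit 5) (nat_lit 4) (nat_lit 4) (nat_lit 257) (nat_lit 222) (nat_lit 121)) (XT.lf (nat_lit 0) (nat_lit 4088698518171) (nat_lit 76) (nat_lit 302944680779) (nat_lit 76) (nat_lit 97269030730) (nat_lit 3) (nat_lit 4) (nat_lit 4) (nat_lit 5) (nat_lit 4) (nat_lit 4) (nat_lit 258) (nat_lit 222) (nat_lit 120))) (XT.nd (nat_lit 78) (nat_lit 76) (nat_lit 0) (XT.lf (nat_lit 0) (nat_lit 4923606136460) (nat_lit 76) (nat_lit 213175400812) (nat_lit 76) (nat_lit 7499733488) (nat_lit 3) (nat_lit 4) (nat_lit 4) (nat_lit 5) (nat_lit 4) (nat_lit 4) (nat_lit 259) (nat_lit 222) (nat_lit 119)) (XT.lf (nat_lit 0) (nat_lit 87211950988) (nat_lit 152) (nat_lit 18169987718)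 (nat_lit 76) (nat_lit 5791979105178) (nat_lit 2) (nat_lit 5) (nat_lit 4) (nat_lit 5) (nat_lit 3) (nat_lit 4) (nat_lit 260) (nat_lit 222) (nat_lit 118)))) (XT.nd (nat_lit 156) (nat_lit 0) (nat_lit 0) (XT.nd (nat_lit 78) (nat_lit 0) (nat_lit 0) (XT.lf (nat_lit 0) (nat_lit 206356250005) (nat_lit 152) (nat_lit 6527836090517) (nat_lit 0) (nat_lit 27507819218) (nat_lit 1) (nat_lit 5) (nat_lit 3) (nat_lit 4) (nat_lit 1) (nat_lit 4) (nat_lit 261) (nat_lit 222) (nat_lit 117)) (XT.lf (nat_lit 0) (nat_lit 349385388078) (nat_lit 152) (nat_lit 7234865828391) (nat_lit 0) (nat_lit 170536947414) (nat_lit 1) (nat_lit 5) (nat_lit 3) (nat_lit 4) (nat_lit 1) (nat_lit 4) (nat_lit 262) (nat_lit 222) (nat_lit 116))) (XT.nd (nat_lit 78) (nat_lit 0) (nat_lit 0) (XT.lf (nat_lit 0) (nat_lit 513868882521) (nat_lit 152) (nat_lit 8047950055044) (nat_lit 0) (nat_lit 335020433268) (nat_lit 1) (nat_lit 5) (nat_lit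 3) (nat_lit 4) (nat_lit 1) (nat_lit 4) (nat_lit 263) (nat_lit 222) (nat_lit 115)) (XT.lf (nat_lit 0) (nat_lit 703024888660) (nat_lit 152) (nat_lit 8982996940126) (nat_lit 0) (nat_lit 524176431939) (nat_lit 1) (nat_lit 5) (nat_lit 3) (nat_lit 4) (nat_lit 1) (nat_lit 4) (nat_lit 264) (nat_lit 222) (nat_lit 114)))))) (XT.nd (nat_lit 28002) (nat_lit 0) (nat_lit 912) (XT.nd (nat_lit 546) (nat_lit 0) (nat_lit 0) (XT.nd (nat_lit 156) (nat_lit 0) (nat_lit 0) (XT.nd (nat_lit 78) (nat_lit 0) (nat_lit 0) (XT.lf (nat_lit 0) (nat_lit 920554284876) (nat_lit 152) (nat_lit 10058300879216) (nat_lit 0) (nat_lit 741705821661) (nat_lit 1) (nat_lit 5) (nat_lit 3) (nat_lit 4) (nat_lit 1) (nat_lit 4) (nat_lit 265) (nat_lit 222) (nat_lit 113)) (XT.lf (nat_lit 0) (nat_lit 1170713081095) (nat_lit 152) (nat_lit 11294900427645) (nat_lit 0) (nat_lit 991864612233) (nat_lit 1) (nat_lit 5) (nat_lit 3) (nat_lit 4)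 (nat_lit 1) (nat_lit 4) (nat_lit 266) (nat_lit 222) (nat_lit 112))) (XT.nd (nat_lit 78) (nat_lit 0) (nat_lit 0) (XT.lf (nat_lit 0) (nat_lit 1458395688548) (nat_lit 152) (nat_lit 12716989924402) (nat_lit 0) (nat_lit 1279547214776) (nat_lit 1) (nat_lit 5) (nat_lit 3) (nat_lit 4) (nat_lit 1) (nat_lit 4) (nat_lit 267) (nat_lit 222) (nat_lit 111)) (XT.lf (nat_lit 0) (nat_lit 1789230679989) (nat_lit 152) (nat_lit 14352392859641) (nat_lit 0) (nat_lit 1610382201947) (nat_lit 1) (nat_lit 5) (nat_lit 3) (nat_lit 4) (nat_lit 1) (nat_lit 4) (nat_lit 268) (nat_lit 222) (nat_lit 110)))) (XT.nd (nat_lit 156) (nat_lit 0) (nat_lit 0) (XT.nd (nat_lit 78) (nat_lit 0) (nat_lit 0) (XT.lf (nat_lit 0) (nat_lit 3689011267847) (nat_lit 152) (nat_lit 23743500136226) (nat_lit 0) (nat_lit 3510162777614) (nat_lit 1) (nat_lit 5) (nat_lit 3) (nat_lit 4) (nat_lit 1) (nat_lit 4) (nat_lit 272) (nat_lit 222) (nat_lit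 106)) (XT.lf (nat_lit 0) (nat_lit 4354438572282) (nat_lit 152) (nat_lit 27032879650067) (nat_lit 0) (nat_lit 4175590079927) (nat_lit 1) (nat_lit 5) (nat_lit 3) (nat_lit 4) (nat_lit 1) (nat_lit 4) (nat_lit 273) (nat_lit 222) (nat_lit 105))) (XT.nd (nat_lit 546) (nat_lit 0) (nat_lit 0) (XT.lf (nat_lit 0) (nat_lit 5119679969300) (nat_lit 152) (nat_lit 30815666097023) (nat_lit 0) (nat_lit 4940831475099) (nat_lit 1) (nat_lit 5) (nat_lit 3) (nat_lit 4) (nat_lit 1) (nat_lit 4) (nat_lit 274) (nat_lit 222) (nat_lit 104)) (XT.lf (nat_lit 0) (nat_lit 14858768702547) (nat_lit 152) (nat_lit 78958504999720) (nat_lit 0) (nat_lit 14679920200666) (nat_lit 1) (nat_lit 5) (nat_lit 3) (nat_lit 4) (nat_lit 1) (nat_lit 4) (nat_lit 281) (nat_lit 222) (nat_lit 97))))) (XT.nd (nat_lit 312) (nat_lit 152) (nat_lit 0) (XT.nd (nat_lit 156) (nat_lit 304) (nat_lit 0) (XT.nd (nat_lit 78) (nat_lit 0) (nat_lit 0) (XT.lf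 (nat_lit 0) (nat_lit 24644899329) (nat_lit 0) (nat_lit 24644899329) (nat_lit 228) (nat_lit 1722189276) (nat_lit 19) (nat_lit 5) (nat_lit 19) (nat_lit 3) (nat_lit 22) (nat_lit 3) (nat_lit 223) (nat_lit 223) (nat_lit 154)) (XT.lf (nat_lit 0) (nat_lit 100176663950) (nat_lit 0) (nat_lit 5801625816) (nat_lit 228) (nat_lit 3696641673) (nat_lit 19) (nat_lit 5) (nat_lit 19) (nat_lit 3) (nat_lit 22) (nat_lit 3) (nat_lit 224) (nat_lit 223) (nat_lit 153))) (XT.nd (nat_lit 78) (nat_lit 0) (nat_lit 0) (XT.lf (nat_lit 0) (nat_lit 113204186) (nat_lit 304) (nat_lit 75798782030) (nat_lit 380) (nat_lit 42024562548) (nat_lit 15) (nat_lit 5) (nat_lit 19) (nat_lit 5) (nat_lit 20) (nat_lit 5) (nat_lit 225) (nat_lit 223) (nat_lit 152)) (XT.lf (nat_lit 0) (nat_lit 4911608144) (nat_lit 304) (nat_lit 25252890965) (nat_lit 380) (nat_lit 97127180931) (nat_lit 15) (nat_lit 5) (nat_lit 19) (nat_lit 5) (nat_lit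 20) (nat_lit 5) (nat_lit 226) (nat_lit 223) (nat_lit 151)))) (XT.nd (nat_lit 156) (nat_lit 228) (nat_lit 0) (XT.nd (nat_lit 78) (nat_lit 0) (nat_lit 0) (XT.lf (nat_lit 0) (nat_lit 12923873148) (nat_lit 304) (nat_lit 102739634119) (nat_lit 76) (nat_lit 22012465607) (nat_lit 16) (nat_lit 5) (nat_lit 20) (nat_lit 5) (nat_lit 17) (nat_lit 5) (nat_lit 227) (nat_lit 223) (nat_lit 150)) (XT.lf (nat_lit 0) (nat_lit 24956605653) (nat_lit 304) (nat_lit 43927825084) (nat_lit 76) (nat_lit 80310690762) (nat_lit 16) (nat_lit 5) (nat_lit 20) (nat_lit 5) (nat_lit 17) (nat_lit 5) (nat_lit 228) (nat_lit 223) (nat_lit 149))) (XT.nd (nat_lit 78) (nat_lit 0) (nat_lit 0) (XT.lf (nat_lit 0) (nat_lit 26021794577) (nat_lit 228) (nat_lit 13849374931) (nat_lit 304) (nat_lit 122409439932) (nat_lit 13) (nat_lit 5) (nat_lit 16) (nat_lit 5) (nat_lit 17) (nat_lit 5) (nat_lit 229) (nat_lit 223) (nat_lit 148)) (XT.lf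 (nat_lit 0) (nat_lit 61475198576) (nat_lit 304) (nat_lit 67740985122) (nat_lit 76) (nat_lit 47444899336) (nat_lit 13) (nat_lit 5) (nat_lit 17) (nat_lit 5) (nat_lit 14) (nat_lit 5) (nat_lit 230) (nat_lit 223) (nat_lit 147))))))))
noncomputable def xc49 : XT := (XT.nd (nat_lit 2418) (nat_lit 76) (nat_lit 0) (XT.nd (nat_lit 1170) (nat_lit 152) (nat_lit 0) (XT.nd (nat_lit 546) (nat_lit 304) (nat_lit 0) (XT.nd (nat_lit 234) (nat_lit 228) (nat_lit 0) (XT.nd (nat_lit 78) (nat_lit 0) (nat_lit 0) (XT.lf (nat_lit 0) (nat_lit 11410275983) (nat_lit 152) (nat_lit 76041060391) (nat_lit 228) (nat_lit 105577569605) (nat_lit 11) (nat_lit 5) (nat_lit 13) (nat_lit 5) (nat_lit 14) (nat_lit 5) (nat_lit 231) (nat_lit 223) (nat_lit 146)) (XT.nd (nat_lit 78) (nat_lit 0) (nat_lit 0) (XT.lf (nat_lit 0) (nat_lit 110046844462) (nat_lit 152) (nat_lit 10817629628) (nat_lit 228) (nat_lit 90456344834) (nat_lit 11)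 (nat_lit 5) (nat_lit 13) (nat_lit 5) (nat_lit 14) (nat_lit 5) (nat_lit 232) (nat_lit 223) (nat_lit 145)) (XT.lf (nat_lit 0) (nat_lit 161947149771) (nat_lit 228) (nat_lit 11536091421) (nat_lit 76) (nat_lit 58474645520) (nat_lit 11) (nat_lit 5) (nat_lit 14) (nat_lit 5) (nat_lit 12) (nat_lit 4) (nat_lit 233) (nat_lit 223) (nat_lit 144)))) (XT.nd (nat_lit 156) (nat_lit 152) (nat_lit 0) (XT.nd (nat_lit 78) (nat_lit 0) (nat_lit 0) (XT.lf (nat_lit 0) (nat_lit 100054426543) (nat_lit 76) (nat_lit 113795639507) (nat_lit 152) (nat_lit 41141775339) (nat_lit 10) (nat_lit 5) (nat_lit 11) (nat_lit 5) (nat_lit 12) (nat_lit 4) (nat_lit 234) (nat_lit 223) (nat_lit 143)) (XT.lf (nat_lit 0) (nat_lit 229679583190) (nat_lit 76) (nat_lit 44461557554) (nat_lit 152) (nat_lit 7249342644) (nat_lit 10) (nat_lit 5) (nat_lit 11) (nat_lit 5) (nat_lit 12) (nat_lit 4) (nat_lit 235) (nat_lit 223) (nat_lit 142))) (XT.nd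 (nat_lit 78) (nat_lit 0) (nat_lit 0) (XT.lf (nat_lit 0) (nat_lit 33553121509) (nat_lit 152) (nat_lit 240664647934) (nat_lit 76) (nat_lit 36636484202) (nat_lit 8) (nat_lit 5) (nat_lit 10) (nat_lit 5) (nat_lit 9) (nat_lit 4) (nat_lit 236) (nat_lit 223) (nat_lit 141)) (XT.lf (nat_lit 0) (nat_lit 84682502552) (nat_lit 152) (nat_lit 130736908671) (nat_lit 76) (nat_lit 128524087410) (nat_lit 8) (nat_lit 5) (nat_lit 10) (nat_lit 5) (nat_lit 9) (nat_lit 4) (nat_lit 237) (nat_lit 223) (nat_lit 140))))) (XT.nd (nat_lit 312) (nat_lit 152) (nat_lit 0) (XT.nd (nat_lit 156) (nat_lit 76) (nat_lit 0) (XT.nd (nat_lit 78) (nat_lit 76) (nat_lit 0) (XT.lf (nat_lit 0) (nat_lit 143481062447) (nat_lit 152) (nat_lit 4320378791) (nat_lit 76) (nat_lit 234194724672) (nat_lit 8) (nat_lit 5) (nat_lit 10) (nat_lit 5) (nat_lit 9) (nat_lit 4) (nat_lit 238) (nat_lit 223) (nat_lit 139)) (XT.lf (nat_lit 0) (nat_lit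 154843552390) (nat_lit 76) (nat_lit 62667396711) (nat_lit 152) (nat_lit 207284053888) (nat_lit 7) (nat_lit 5) (nat_lit 8) (nat_lit 5) (nat_lit 9) (nat_lit 4) (nat_lit 239) (nat_lit 223) (nat_lit 138))) (XT.nd (nat_lit 78) (nat_lit 76) (nat_lit 0) (XT.lf (nat_lit 0) (nat_lit 304340799381) (nat_lit 152) (nat_lit 137082329146) (nat_lit 0) (nat_lit 32336215991) (nat_lit 7) (nat_lit 5) (nat_lit 9) (nat_lit 4) (nat_lit 7) (nat_lit 4) (nat_lit 240) (nat_lit 223) (nat_lit 137)) (XT.lf (nat_lit 0) (nat_lit 13977043998) (nat_lit 76) (nat_lit 393780838965) (nat_lit 76) (nat_lit 121776041799) (nat_lit 6) (nat_lit 4) (nat_lit 7) (nat_lit 5) (nat_lit 7) (nat_lit 4) (nat_lit 241) (nat_lit 223) (nat_lit 136)))) (XT.nd (nat_lit 156) (nat_lit 76) (nat_lit 0) (XT.nd (nat_lit 78) (nat_lit 76) (nat_lit 0) (XT.lf (nat_lit 0) (nat_lit 203101232804) (nat_lit 76) (nat_lit 330751808130) (nat_lit 76) (nat_lit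 58746825073) (nat_lit 6) (nat_lit 4) (nat_lit 7) (nat_lit 5) (nat_lit 7) (nat_lit 4) (nat_lit 242) (nat_lit 223) (nat_lit 135)) (XT.lf (nat_lit 0) (nat_lit 12513689423) (nat_lit 152) (nat_lit 245100712440) (nat_lit 76) (nat_lit 407425996873) (nat_lit 5) (nat_lit 5) (nat_lit 7) (nat_lit 5) (nat_lit 6) (nat_lit 4) (nat_lit 243) (nat_lit 223) (nat_lit 134))) (XT.nd (nat_lit 78) (nat_lit 76) (nat_lit 0) (XT.lf (nat_lit 0) (nat_lit 88448601621) (nat_lit 152) (nat_lit 81840791777) (nat_lit 76) (nat_lit 577638016822) (nat_lit 5) (nat_lit 5) (nat_lit 7) (nat_lit 5) (nat_lit 6) (nat_lit 4) (nat_lit 244) (nat_lit 223) (nat_lit 133)) (XT.lf (nat_lit 0) (nat_lit 116258018079) (nat_lit 76) (nat_lit 64329621720) (nat_lit 152) (nat_lit 661937750678) (nat_lit 4) (nat_lit 5) (nat_lit 5) (nat_lit 5) (nat_lit 6) (nat_lit 4) (nat_lit 245) (nat_lit 223) (nat_lit 132)))))) (XT.nd (nat_lit 624) (nat_lit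 76) (nat_lit 0) (XT.nd (nat_lit 312) (nat_lit 76) (nat_lit 0) (XT.nd (nat_lit 156) (nat_lit 0) (nat_lit 0) (XT.nd (nat_lit 78) (nat_lit 0) (nat_lit 0) (XT.lf (nat_lit 0) (nat_lit 293411137906) (nat_lit 152) (nat_lit 599987785414) (nat_lit 0) (nat_lit 56884604190) (nat_lit 4) (nat_lit 5) (nat_lit 6) (nat_lit 4) (nat_lit 4) (nat_lit 4) (nat_lit 246) (nat_lit 223) (nat_lit 131)) (XT.lf (nat_lit 0) (nat_lit 426221385263) (nat_lit 152) (nat_lit 457829745296) (nat_lit 0) (nat_lit 189694771180) (nat_lit 4) (nat_lit 5) (nat_lit 6) (nat_lit 4) (nat_lit 4) (nat_lit 4) (nat_lit 247) (nat_lit 223) (nat_lit 130))) (XT.nd (nat_lit 78) (nat_lit 0) (nat_lit 0) (XT.lf (nat_lit 0) (nat_lit 578953090778) (nat_lit 152) (nat_lit 294348146633) (nat_lit 0) (nat_lit 342426406811) (nat_lit 4) (nat_lit 5) (nat_lit 6) (nat_lit 4) (nat_lit 4) (nat_lit 4) (nat_lit 248) (nat_lit 223) (nat_lit 129)) (XT.lf (nat_lit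 0) (nat_lit 754594483472) (nat_lit 152) (nat_lit 106344436407) (nat_lit 0) (nat_lit 518067738738) (nat_lit 4) (nat_lit 5) (nat_lit 6) (nat_lit 4) (nat_lit 4) (nat_lit 4) (nat_lit 249) (nat_lit 223) (nat_lit 128)))) (XT.nd (nat_lit 156) (nat_lit 0) (nat_lit 0) (XT.nd (nat_lit 78) (nat_lit 0) (nat_lit 0) (XT.lf (nat_lit 0) (nat_lit 120596009546) (nat_lit 76) (nat_lit 840979639414) (nat_lit 76) (nat_lit 604452841838) (nat_lit 3) (nat_lit 4) (nat_lit 4) (nat_lit 5) (nat_lit 4) (nat_lit 4) (nat_lit 250) (nat_lit 223) (nat_lit 127)) (XT.lf (nat_lit 0) (nat_lit 393529080453) (nat_lit 76) (nat_lit 811633766226) (nat_lit 76) (nat_lit 575106922700) (nat_lit 3) (nat_lit 4) (nat_lit 4) (nat_lit 5) (nat_lit 4) (nat_lit 4) (nat_lit 251) (nat_lit 223) (nat_lit 126))) (XT.nd (nat_lit 78) (nat_lit 0) (nat_lit 0) (XT.lf (nat_lit 0) (nat_lit 707402019437) (nat_lit 76) (nat_lit 777886055649) (nat_lit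 76) (nat_lit 541359172166) (nat_lit 3) (nat_lit 4) (nat_lit 4) (nat_lit 5) (nat_lit 4) (nat_lit 4) (nat_lit 252) (nat_lit 223) (nat_lit 125)) (XT.lf (nat_lit 0) (nat_lit 1068355818784) (nat_lit 76) (nat_lit 739076226387) (nat_lit 76) (nat_lit 502549308160) (nat_lit 3) (nat_lit 4) (nat_lit 4) (nat_lit 5) (nat_lit 4) (nat_lit 4) (nat_lit 253) (nat_lit 223) (nat_lit 124))))) (XT.nd (nat_lit 312) (nat_lit 76) (nat_lit 0) (XT.nd (nat_lit 156) (nat_lit 0) (nat_lit 0) (XT.nd (nat_lit 78) (nat_lit 0) (nat_lit 0) (XT.lf (nat_lit 0) (nat_lit 1483452618046) (nat_lit 76) (nat_lit 694444955695) (nat_lit 76) (nat_lit 457918007256) (nat_lit 3) (nat_lit 4) (nat_lit 4) (nat_lit 5) (nat_lit 4) (nat_lit 4) (nat_lit 254) (nat_lit 223) (nat_lit 123)) (XT.lf (nat_lit 0) (nat_lit 1960813876339) (nat_lit 76) (nat_lit 643119023060) (nat_lit 76) (nat_lit 406592048348) (nat_lit 3) (nat_lit 4) (nat_lit 4) (nat_lit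 5) (nat_lit 4) (nat_lit 4) (nat_lit 255) (nat_lit 223) (nat_lit 122))) (XT.nd (nat_lit 78) (nat_lit 0) (nat_lit 0) (XT.lf (nat_lit 0) (nat_lit 2509779270456) (nat_lit 76) (nat_lit 584094225451) (nat_lit 76) (nat_lit 347567227895) (nat_lit 3) (nat_lit 4) (nat_lit 4) (nat_lit 5) (nat_lit 4) (nat_lit 4) (nat_lit 256) (nat_lit 223) (nat_lit 121)) (XT.lf (nat_lit 0) (nat_lit 3141089427672) (nat_lit 76) (nat_lit 516215729872) (nat_lit 76) (nat_lit 279688712450) (nat_lit 3) (nat_lit 4) (nat_lit 4) (nat_lit 5) (nat_lit 4) (nat_lit 4) (nat_lit 257) (nat_lit 223) (nat_lit 120)))) (XT.nd (nat_lit 156) (nat_lit 76) (nat_lit 0) (XT.nd (nat_lit 78) (nat_lit 0) (nat_lit 0) (XT.lf (nat_lit 0) (nat_lit 3867096068455) (nat_lit 76) (nat_lit 438155478801) (nat_lit 76) (nat_lit 201628444105) (nat_lit 3) (nat_lit 4) (nat_lit 4) (nat_lit 5) (nat_lit 4) (nat_lit 4) (nat_lit 258) (nat_lit 223) (nat_lit 119))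 (XT.lf (nat_lit 0) (nat_lit 4702003670560) (nat_lit 76) (nat_lit 348386206455) (nat_lit 76) (nat_lit 111859156738) (nat_lit 3) (nat_lit 4) (nat_lit 4) (nat_lit 5) (nat_lit 4) (nat_lit 4) (nat_lit 259) (nat_lit 223) (nat_lit 118))) (XT.nd (nat_lit 78) (nat_lit 76) (nat_lit 0) (XT.lf (nat_lit 0) (nat_lit 5662147382723) (nat_lit 76) (nat_lit 245151557507) (nat_lit 76) (nat_lit 8624494728) (nat_lit 3) (nat_lit 4) (nat_lit 4) (nat_lit 5) (nat_lit 4) (nat_lit 4) (nat_lit 260) (nat_lit 223) (nat_lit 117)) (XT.lf (nat_lit 0) (nat_lit 100293901103) (nat_lit 152) (nat_lit 20895186764) (nat_lit 76) (nat_lit 6660776088557) (nat_lit 2) (nat_lit 5) (nat_lit 4) (nat_lit 5) (nat_lit 3) (nat_lit 4) (nat_lit 261) (nat_lit 223) (nat_lit 116))))))) (XT.nd (nat_lit 28626) (nat_lit 0) (nat_lit 380) (XT.nd (nat_lit 1326) (nat_lit 0) (nat_lit 0) (XT.nd (nat_lit 234) (nat_lit 0) (nat_lit 0) (XT.nd (nat_lit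 78) (nat_lit 0) (nat_lit 0) (XT.lf (nat_lit 0) (nat_lit 237309841920) (nat_lit 152) (nat_lit 7507011201561) (nat_lit 0) (nat_lit 31634116691) (nat_lit 1) (nat_lit 5) (nat_lit 3) (nat_lit 4) (nat_lit 1) (nat_lit 4) (nat_lit 262) (nat_lit 223) (nat_lit 115)) (XT.nd (nat_lit 78) (nat_lit 0) (nat_lit 0) (XT.lf (nat_lit 0) (nat_lit 401793330562) (nat_lit 152) (nat_lit 8320095439577) (nat_lit 0) (nat_lit 196117597865) (nat_lit 1) (nat_lit 5) (nat_lit 3) (nat_lit 4) (nat_lit 1) (nat_lit 4) (nat_lit 263) (nat_lit 223) (nat_lit 114)) (XT.lf (nat_lit 0) (nat_lit 590949331658) (nat_lit 152) (nat_lit 9255142334541) (nat_lit 0) (nat_lit 385273592467) (nat_lit 1) (nat_lit 5) (nat_lit 3) (nat_lit 4) (nat_lit 1) (nat_lit 4) (nat_lit 264) (nat_lit 223) (nat_lit 113)))) (XT.nd (nat_lit 156) (nat_lit 0) (nat_lit 0) (XT.nd (nat_lit 78) (nat_lit 0) (nat_lit 0) (XT.lf (nat_lit 0) (nat_lit 808478723488)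 (nat_lit 152) (nat_lit 10330446282224) (nat_lit 0) (nat_lit 602802978650) (nat_lit 1) (nat_lit 5) (nat_lit 3) (nat_lit 4) (nat_lit 1) (nat_lit 4) (nat_lit 265) (nat_lit 223) (nat_lit 112)) (XT.lf (nat_lit 0) (nat_lit 1058637515894) (nat_lit 152) (nat_lit 11567045838124) (nat_lit 0) (nat_lit 852961766145) (nat_lit 1) (nat_lit 5) (nat_lit 3) (nat_lit 4) (nat_lit 1) (nat_lit 4) (nat_lit 266) (nat_lit 223) (nat_lit 111))) (XT.nd (nat_lit 78) (nat_lit 0) (nat_lit 0) (XT.lf (nat_lit 0) (nat_lit 1346320120030) (nat_lit 152) (nat_lit 12989135341378) (nat_lit 0) (nat_lit 1140644366012) (nat_lit 1) (nat_lit 5) (nat_lit 3) (nat_lit 4) (nat_lit 1) (nat_lit 4) (nat_lit 267) (nat_lit 223) (nat_lit 110)) (XT.lf (nat_lit 0) (nat_lit 1677155108587) (nat_lit 152) (nat_lit 14624538282268) (nat_lit 0) (nat_lit 1471479350856) (nat_lit 1) (nat_lit 5) (nat_lit 3) (nat_lit 4) (nat_lit 1) (nat_lit 4) (nat_lit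 268) (nat_lit 223) (nat_lit 109))))) (XT.nd (nat_lit 26988) (nat_lit 0) (nat_lit 1064) (XT.nd (nat_lit 156) (nat_lit 0) (nat_lit 0) (XT.nd (nat_lit 78) (nat_lit 0) (nat_lit 0) (XT.lf (nat_lit 0) (nat_lit 10941085974761) (nat_lit 152) (nat_lit 60418548306262) (nat_lit 0) (nat_lit 10735410197597) (nat_lit 1) (nat_lit 5) (nat_lit 3) (nat_lit 4) (nat_lit 1) (nat_lit 4) (nat_lit 279) (nat_lit 223) (nat_lit 98)) (XT.lf (nat_lit 0) (nat_lit 12711135807920) (nat_lit 152) (nat_lit 69168363257729) (nat_lit 0) (nat_lit 12505460030062) (nat_lit 1) (nat_lit 5) (nat_lit 3) (nat_lit 4) (nat_lit 1) (nat_lit 4) (nat_lit 280) (nat_lit 223) (nat_lit 97))) (XT.nd (nat_lit 78) (nat_lit 0) (nat_lit 0) (XT.lf (nat_lit 0) (nat_lit 14746693115046) (nat_lit 152) (nat_lit 79230650453890) (nat_lit 0) (nat_lit 14541017336584) (nat_lit 1) (nat_lit 5) (nat_lit 3) (nat_lit 4) (nat_lit 1) (nat_lit 4) (nat_lit 281)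 (nat_lit 223) (nat_lit 96)) (XT.lf (nat_lit 0) (nat_lit 17087584017364) (nat_lit 152) (nat_lit 90802280731193) (nat_lit 0) (nat_lit 16881908238378) (nat_lit 1) (nat_lit 5) (nat_lit 3) (nat_lit 4) (nat_lit 1) (nat_lit 4) (nat_lit 282) (nat_lit 223) (nat_lit 95)))) (XT.nd (nat_lit 156) (nat_lit 304) (nat_lit 0) (XT.nd (nat_lit 78) (nat_lit 0) (nat_lit 0) (XT.lf (nat_lit 0) (nat_lit 28344137424) (nat_lit 0) (nat_lit 28344137424) (nat_lit 228) (nat_lit 1974703547) (nat_lit 19) (nat_lit 5) (nat_lit 19) (nat_lit 3) (nat_lit 22) (nat_lit 3) (nat_lit 224) (nat_lit 224) (nat_lit 152)) (XT.lf (nat_lit 0) (nat_lit 115207516925) (nat_lit 0) (nat_lit 6676223072) (nat_lit 228) (nat_lit 4241026410) (nat_lit 19) (nat_lit 5) (nat_lit 19) (nat_lit 3) (nat_lit 22) (nat_lit 3) (nat_lit 225) (nat_lit 224) (nat_lit 151))) (XT.nd (nat_lit 78) (nat_lit 0) (nat_lit 0) (XT.lf (nat_lit 0) (nat_lit 138276336)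 (nat_lit 304) (nat_lit 87162065447) (nat_lit 380) (nat_lit 48325400911) (nat_lit 15) (nat_lit 5) (nat_lit 19) (nat_lit 5) (nat_lit 20) (nat_lit 5) (nat_lit 226) (nat_lit 224) (nat_lit 150)) (XT.lf (nat_lit 0) (nat_lit 5655385471) (nat_lit 304) (nat_lit 29035142969) (nat_lit 380) (nat_lit 111693783272) (nat_lit 15) (nat_lit 5) (nat_lit 19) (nat_lit 5) (nat_lit 20) (nat_lit 5) (nat_lit 227) (nat_lit 224) (nat_lit 149)))))) (XT.nd (nat_lit 624) (nat_lit 304) (nat_lit 0) (XT.nd (nat_lit 312) (nat_lit 228) (nat_lit 0) (XT.nd (nat_lit 156) (nat_lit 228) (nat_lit 0) (XT.nd (nat_lit 78) (nat_lit 0) (nat_lit 0) (XT.lf (nat_lit 0) (nat_lit 14868758968) (nat_lit 304) (nat_lit 118144109885) (nat_lit 76) (nat_lit 25313497774) (nat_lit 16) (nat_lit 5) (nat_lit 20) (nat_lit 5) (nat_lit 17) (nat_lit 5) (nat_lit 228) (nat_lit 224) (nat_lit 148)) (XT.lf (nat_lit 0) (nat_lit 28705578977) (nat_lit 304)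 (nat_lit 50511373324) (nat_lit 76) (nat_lit 92356565964) (nat_lit 16) (nat_lit 5) (nat_lit 20) (nat_lit 5) (nat_lit 17) (nat_lit 5) (nat_lit 229) (nat_lit 224) (nat_lit 147))) (XT.nd (nat_lit 78) (nat_lit 0) (nat_lit 0) (XT.lf (nat_lit 0) (nat_lit 29930433581) (nat_lit 228) (nat_lit 15926401076) (nat_lit 304) (nat_lit 140765075054) (nat_lit 13) (nat_lit 5) (nat_lit 16) (nat_lit 5) (nat_lit 17) (nat_lit 5) (nat_lit 230) (nat_lit 224) (nat_lit 146)) (XT.lf (nat_lit 0) (nat_lit 70700830939) (nat_lit 304) (nat_lit 77896789219) (nat_lit 76) (nat_lit 54561935329) (nat_lit 13) (nat_lit 5) (nat_lit 17) (nat_lit 5) (nat_lit 14) (nat_lit 5) (nat_lit 231) (nat_lit 224) (nat_lit 145)))) (XT.nd (nat_lit 156) (nat_lit 76) (nat_lit 0) (XT.nd (nat_lit 78) (nat_lit 0) (nat_lit 0) (XT.lf (nat_lit 0) (nat_lit 13126918158) (nat_lit 152) (nat_lit 87446114733) (nat_lit 228) (nat_lit 121409577299) (nat_lit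 11) (nat_lit 5) (nat_lit 13) (nat_lit 5) (nat_lit 14) (nat_lit 5) (nat_lit 232) (nat_lit 224) (nat_lit 144)) (XT.lf (nat_lit 0) (nat_lit 126558306589) (nat_lit 152) (nat_lit 12439313449) (nat_lit 228) (nat_lit 104020772433) (nat_lit 11) (nat_lit 5) (nat_lit 13) (nat_lit 5) (nat_lit 14) (nat_lit 5) (nat_lit 233) (nat_lit 224) (nat_lit 143))) (XT.nd (nat_lit 78) (nat_lit 76) (nat_lit 0) (XT.lf (nat_lit 0) (nat_lit 186242278422) (nat_lit 228) (nat_lit 13262205158) (nat_lit 76) (nat_lit 67246603307) (nat_lit 11) (nat_lit 5) (nat_lit 14) (nat_lit 5) (nat_lit 12) (nat_lit 4) (nat_lit 234) (nat_lit 224) (nat_lit 142)) (XT.lf (nat_lit 0) (nat_lit 115066695047) (nat_lit 76) (nat_lit 130863708422) (nat_lit 152) (nat_lit 47309768779) (nat_lit 10) (nat_lit 5) (nat_lit 11) (nat_lit 5) (nat_lit 12) (nat_lit 4) (nat_lit 235) (nat_lit 224) (nat_lit 141))))) (XT.nd (nat_lit 312) (nat_lit 152) (nat_lit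 0) (XT.nd (nat_lit 156) (nat_lit 0) (nat_lit 0) (XT.nd (nat_lit 78) (nat_lit 152) (nat_lit 0) (XT.lf (nat_lit 0) (nat_lit 264135089818) (nat_lit 76) (nat_lit 51129680743) (nat_lit 152) (nat_lit 8333898074) (nat_lit 10) (nat_lit 5) (nat_lit 11) (nat_lit 5) (nat_lit 12) (nat_lit 4) (nat_lit 236) (nat_lit 224) (nat_lit 140)) (XT.lf (nat_lit 0) (nat_lit 38588547979) (nat_lit 152) (nat_lit 276760358250) (nat_lit 76) (nat_lit 42133102772) (nat_lit 8) (nat_lit 5) (nat_lit 10) (nat_lit 5) (nat_lit 9) (nat_lit 4) (nat_lit 237) (nat_lit 224) (nat_lit 139))) (XT.nd (nat_lit 78) (nat_lit 0) (nat_lit 0) (XT.lf (nat_lit 0) (nat_lit 97387015538) (nat_lit 152) (nat_lit 150343978125) (nat_lit 76) (nat_lit 147803696991) (nat_lit 8) (nat_lit 5) (nat_lit 10) (nat_lit 5) (nat_lit 9) (nat_lit 4) (nat_lit 238) (nat_lit 224) (nat_lit 138)) (XT.lf (nat_lit 0) (nat_lit 165005080600) (nat_lit 152) (nat_lit 4965420960)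 (nat_lit 76) (nat_lit 269324799868) (nat_lit 8) (nat_lit 5) (nat_lit 10) (nat_lit 5) (nat_lit 9) (nat_lit 4) (nat_lit 239) (nat_lit 224) (nat_lit 137)))) (XT.nd (nat_lit 156) (nat_lit 76) (nat_lit 0) (XT.nd (nat_lit 78) (nat_lit 0) (nat_lit 0) (XT.lf (nat_lit 0) (nat_lit 178072962869) (nat_lit 76) (nat_lit 72066364090) (nat_lit 152) (nat_lit 238374656982) (nat_lit 7) (nat_lit 5) (nat_lit 8) (nat_lit 5) (nat_lit 9) (nat_lit 4) (nat_lit 240) (nat_lit 224) (nat_lit 136)) (XT.lf (nat_lit 0) (nat_lit 349993469535) (nat_lit 152) (nat_lit 157641983018) (nat_lit 0) (nat_lit 37187553128) (nat_lit 7) (nat_lit 5) (nat_lit 9) (nat_lit 4) (nat_lit 7) (nat_lit 4) (nat_lit 241) (nat_lit 224) (nat_lit 135))) (XT.nd (nat_lit 78) (nat_lit 0) (nat_lit 0) (XT.lf (nat_lit 0) (nat_lit 16076173576) (nat_lit 76) (nat_lit 452846846415) (nat_lit 76) (nat_lit 140040768362) (nat_lit 6) (nat_lit 4) (nat_lit 7)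 (nat_lit 5) (nat_lit 7) (nat_lit 4) (nat_lit 242) (nat_lit 224) (nat_lit 134)) (XT.lf (nat_lit 0) (nat_lit 233568655096) (nat_lit 76) (nat_lit 380363606832) (nat_lit 76) (nat_lit 67557388219) (nat_lit 6) (nat_lit 4) (nat_lit 7) (nat_lit 5) (nat_lit 7) (nat_lit 4) (nat_lit 243) (nat_lit 224) (nat_lit 133))))))))
noncomputable def xc50 : XT := (XT.nd (nat_lit 29874) (nat_lit 0) (nat_lit 152) (XT.nd (nat_lit 1170) (nat_lit 152) (nat_lit 0) (XT.nd (nat_lit 546) (nat_lit 76) (nat_lit 0) (XT.nd (nat_lit 234) (nat_lit 0) (nat_lit 0) (XT.nd (nat_lit 78) (nat_lit 76) (nat_lit 0) (XT.lf (nat_lit 0) (nat_lit 14391899864) (nat_lit 152) (nat_lit 281863756131) (nat_lit 76) (nat_lit 468540624437) (nat_lit 5) (nat_lit 5) (nat_lit 7) (nat_lit 5) (nat_lit 6) (nat_lit 4) (nat_lit 244) (nat_lit 224) (nat_lit 132)) (XT.nd (nat_lit 78) (nat_lit 76) (nat_lit 0) (XT.lf (nat_lit 0) (nat_lit 101716897974) (nat_lit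 152) (nat_lit 94115116478) (nat_lit 76) (nat_lit 664284352418) (nat_lit 5) (nat_lit 5) (nat_lit 7) (nat_lit 5) (nat_lit 6) (nat_lit 4) (nat_lit 245) (nat_lit 224) (nat_lit 131)) (XT.lf (nat_lit 0) (nat_lit 133698433308) (nat_lit 76) (nat_lit 73978298251) (nat_lit 152) (nat_lit 761227322172) (nat_lit 4) (nat_lit 5) (nat_lit 5) (nat_lit 5) (nat_lit 6) (nat_lit 4) (nat_lit 246) (nat_lit 224) (nat_lit 130)))) (XT.nd (nat_lit 156) (nat_lit 0) (nat_lit 0) (XT.nd (nat_lit 78) (nat_lit 0) (nat_lit 0) (XT.lf (nat_lit 0) (nat_lit 337423658626) (nat_lit 152) (nat_lit 689984365325) (nat_lit 0) (nat_lit 65417902181) (nat_lit 4) (nat_lit 5) (nat_lit 6) (nat_lit 4) (nat_lit 4) (nat_lit 4) (nat_lit 247) (nat_lit 224) (nat_lit 129)) (XT.lf (nat_lit 0) (nat_lit 490155332212) (nat_lit 152) (nat_lit 526502826307) (nat_lit 0) (nat_lit 218149514999) (nat_lit 4) (nat_lit 5) (nat_lit 6) (nat_lit 4) (nat_lit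 4) (nat_lit 4) (nat_lit 248) (nat_lit 224) (nat_lit 128))) (XT.nd (nat_lit 78) (nat_lit 0) (nat_lit 0) (XT.lf (nat_lit 0) (nat_lit 665796697142) (nat_lit 152) (nat_lit 338499167947) (nat_lit 0) (nat_lit 393790827087) (nat_lit 4) (nat_lit 5) (nat_lit 6) (nat_lit 4) (nat_lit 4) (nat_lit 4) (nat_lit 249) (nat_lit 224) (nat_lit 127)) (XT.lf (nat_lit 0) (nat_lit 867784214904) (nat_lit 152) (nat_lit 122295057798) (nat_lit 0) (nat_lit 595778298899) (nat_lit 4) (nat_lit 5) (nat_lit 6) (nat_lit 4) (nat_lit 4) (nat_lit 4) (nat_lit 250) (nat_lit 224) (nat_lit 126))))) (XT.nd (nat_lit 312) (nat_lit 0) (nat_lit 0) (XT.nd (nat_lit 156) (nat_lit 0) (nat_lit 0) (XT.nd (nat_lit 78) (nat_lit 0) (nat_lit 0) (XT.lf (nat_lit 0) (nat_lit 138686407591) (nat_lit 76) (nat_lit 967126115991) (nat_lit 76) (nat_lit 695120160030) (nat_lit 3) (nat_lit 4) (nat_lit 4) (nat_lit 5) (nat_lit 4) (nat_lit 4) (nat_lit 251)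 (nat_lit 224) (nat_lit 125)) (XT.lf (nat_lit 0) (nat_lit 452559309141) (nat_lit 76) (nat_lit 933378423042) (nat_lit 76) (nat_lit 661372432337) (nat_lit 3) (nat_lit 4) (nat_lit 4) (nat_lit 5) (nat_lit 4) (nat_lit 4) (nat_lit 252) (nat_lit 224) (nat_lit 124))) (XT.nd (nat_lit 78) (nat_lit 0) (nat_lit 0) (XT.lf (nat_lit 0) (nat_lit 813513075936) (nat_lit 76) (nat_lit 894568609111) (nat_lit 76) (nat_lit 622562588192) (nat_lit 3) (nat_lit 4) (nat_lit 4) (nat_lit 5) (nat_lit 4) (nat_lit 4) (nat_lit 253) (nat_lit 224) (nat_lit 123)) (XT.lf (nat_lit 0) (nat_lit 1228609846891) (nat_lit 76) (nat_lit 849937351749) (nat_lit 76) (nat_lit 577931304559) (nat_lit 3) (nat_lit 4) (nat_lit 4) (nat_lit 5) (nat_lit 4) (nat_lit 4) (nat_lit 254) (nat_lit 224) (nat_lit 122)))) (XT.nd (nat_lit 156) (nat_lit 0) (nat_lit 0) (XT.nd (nat_lit 78) (nat_lit 0) (nat_lit 0) (XT.lf (nat_lit 0) (nat_lit 1705971080570)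 (nat_lit 76) (nat_lit 798611430705) (nat_lit 76) (nat_lit 526605360670) (nat_lit 3) (nat_lit 4) (nat_lit 4) (nat_lit 5) (nat_lit 4) (nat_lit 4) (nat_lit 255) (nat_lit 224) (nat_lit 121)) (XT.lf (nat_lit 0) (nat_lit 2254936453283) (nat_lit 76) (nat_lit 739586643176) (nat_lit 76) (nat_lit 467580553276) (nat_lit 3) (nat_lit 4) (nat_lit 4) (nat_lit 5) (nat_lit 4) (nat_lit 4) (nat_lit 256) (nat_lit 224) (nat_lit 120))) (XT.nd (nat_lit 78) (nat_lit 0) (nat_lit 0) (XT.lf (nat_lit 0) (nat_lit 2886246591887) (nat_lit 76) (nat_lit 671708156362) (nat_lit 76) (nat_lit 399702049188) (nat_lit 3) (nat_lit 4) (nat_lit 4) (nat_lit 5) (nat_lit 4) (nat_lit 4) (nat_lit 257) (nat_lit 224) (nat_lit 119)) (XT.lf (nat_lit 0) (nat_lit 3612253216487) (nat_lit 76) (nat_lit 593647912912) (nat_lit 76) (nat_lit 321641790717) (nat_lit 3) (nat_lit 4) (nat_lit 4) (nat_lit 5) (nat_lit 4) (nat_lit 4) (nat_lit 258) (nat_lit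 224) (nat_lit 118)))))) (XT.nd (nat_lit 624) (nat_lit 0) (nat_lit 0) (XT.nd (nat_lit 312) (nat_lit 76) (nat_lit 0) (XT.nd (nat_lit 156) (nat_lit 76) (nat_lit 0) (XT.nd (nat_lit 78) (nat_lit 0) (nat_lit 0) (XT.lf (nat_lit 0) (nat_lit 4447160804518) (nat_lit 76) (nat_lit 503878647194) (nat_lit 76) (nat_lit 231872511937) (nat_lit 3) (nat_lit 4) (nat_lit 4) (nat_lit 5) (nat_lit 4) (nat_lit 4) (nat_lit 259) (nat_lit 224) (nat_lit 117)) (XT.lf (nat_lit 0) (nat_lit 5407304504444) (nat_lit 76) (nat_lit 400644004009) (nat_lit 76) (nat_lit 128637857394) (nat_lit 3) (nat_lit 4) (nat_lit 4) (nat_lit 5) (nat_lit 4) (nat_lit 4) (nat_lit 260) (nat_lit 224) (nat_lit 116))) (XT.nd (nat_lit 78) (nat_lit 76) (nat_lit 0) (XT.lf (nat_lit 0) (nat_lit 6511469736479) (nat_lit 76) (nat_lit 281924175120) (nat_lit 76) (nat_lit 9918018628) (nat_lit 3) (nat_lit 4) (nat_lit 4) (nat_lit 5) (nat_lit 4) (nat_lit 4)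 (nat_lit 261) (nat_lit 224) (nat_lit 115)) (XT.lf (nat_lit 0) (nat_lit 115338105336) (nat_lit 152) (nat_lit 24029238607) (nat_lit 76) (nat_lit 7659892590765) (nat_lit 2) (nat_lit 5) (nat_lit 4) (nat_lit 5) (nat_lit 3) (nat_lit 4) (nat_lit 262) (nat_lit 224) (nat_lit 114)))) (XT.nd (nat_lit 156) (nat_lit 0) (nat_lit 0) (XT.nd (nat_lit 78) (nat_lit 0) (nat_lit 0) (XT.lf (nat_lit 0) (nat_lit 272906434966) (nat_lit 152) (nat_lit 8633062653036) (nat_lit 0) (nat_lit 36379328403) (nat_lit 1) (nat_lit 5) (nat_lit 3) (nat_lit 4) (nat_lit 1) (nat_lit 4) (nat_lit 263) (nat_lit 224) (nat_lit 113)) (XT.lf (nat_lit 0) (nat_lit 462062431676) (nat_lit 152) (nat_lit 9568109556592) (nat_lit 0) (nat_lit 225535319465) (nat_lit 1) (nat_lit 5) (nat_lit 3) (nat_lit 4) (nat_lit 1) (nat_lit 4) (nat_lit 264) (nat_lit 224) (nat_lit 112))) (XT.nd (nat_lit 78) (nat_lit 0) (nat_lit 0) (XT.lf (nat_lit 0) (nat_lit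 679591819693) (nat_lit 152) (nat_lit 10643413511747) (nat_lit 0) (nat_lit 443064702572) (nat_lit 1) (nat_lit 5) (nat_lit 3) (nat_lit 4) (nat_lit 1) (nat_lit 4) (nat_lit 265) (nat_lit 224) (nat_lit 111)) (XT.lf (nat_lit 0) (nat_lit 929750608782) (nat_lit 152) (nat_lit 11880013074145) (nat_lit 0) (nat_lit 693223487391) (nat_lit 1) (nat_lit 5) (nat_lit 3) (nat_lit 4) (nat_lit 1) (nat_lit 4) (nat_lit 266) (nat_lit 224) (nat_lit 110))))) (XT.nd (nat_lit 1014) (nat_lit 0) (nat_lit 0) (XT.nd (nat_lit 858) (nat_lit 0) (nat_lit 0) (XT.nd (nat_lit 78) (nat_lit 0) (nat_lit 0) (XT.lf (nat_lit 0) (nat_lit 1217433210035) (nat_lit 152) (nat_lit 13302102583049) (nat_lit 0) (nat_lit 980906084931) (nat_lit 1) (nat_lit 5) (nat_lit 3) (nat_lit 4) (nat_lit 1) (nat_lit 4) (nat_lit 267) (nat_lit 224) (nat_lit 109)) (XT.lf (nat_lit 0) (nat_lit 1548268196084) (nat_lit 152) (nat_lit 14937505528851) (nat_lit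 0) (nat_lit 1311741067752) (nat_lit 1) (nat_lit 5) (nat_lit 3) (nat_lit 4) (nat_lit 1) (nat_lit 4) (nat_lit 268) (nat_lit 224) (nat_lit 108))) (XT.nd (nat_lit 78) (nat_lit 0) (nat_lit 0) (XT.lf (nat_lit 0) (nat_lit 9273025280701) (nat_lit 152) (nat_lit 53122980839070) (nat_lit 0) (nat_lit 9036498136164) (nat_lit 1) (nat_lit 5) (nat_lit 3) (nat_lit 4) (nat_lit 1) (nat_lit 4) (nat_lit 278) (nat_lit 224) (nat_lit 98)) (XT.lf (nat_lit 0) (nat_lit 10812199049134) (nat_lit 152) (nat_lit 60731515578558) (nat_lit 0) (nat_lit 10575671903904) (nat_lit 1) (nat_lit 5) (nat_lit 3) (nat_lit 4) (nat_lit 1) (nat_lit 4) (nat_lit 279) (nat_lit 224) (nat_lit 97)))) (XT.nd (nat_lit 156) (nat_lit 0) (nat_lit 0) (XT.nd (nat_lit 78) (nat_lit 0) (nat_lit 0) (XT.lf (nat_lit 0) (nat_lit 12582248881825) (nat_lit 152) (nat_lit 69481330530943) (nat_lit 0) (nat_lit 12345721735991) (nat_lit 1) (nat_lit 5) (nat_lit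 3) (nat_lit 4) (nat_lit 1) (nat_lit 4) (nat_lit 280) (nat_lit 224) (nat_lit 96)) (XT.lf (nat_lit 0) (nat_lit 14617806188543) (nat_lit 152) (nat_lit 79543617727903) (nat_lit 0) (nat_lit 14381279042184) (nat_lit 1) (nat_lit 5) (nat_lit 3) (nat_lit 4) (nat_lit 1) (nat_lit 4) (nat_lit 281) (nat_lit 224) (nat_lit 95))) (XT.nd (nat_lit 26832) (nat_lit 0) (nat_lit 1368) (XT.lf (nat_lit 0) (nat_lit 16958697090507) (nat_lit 152) (nat_lit 91115248005900) (nat_lit 0) (nat_lit 16722169943692) (nat_lit 1) (nat_lit 5) (nat_lit 3) (nat_lit 4) (nat_lit 1) (nat_lit 4) (nat_lit 282) (nat_lit 224) (nat_lit 94)) (XT.lf (nat_lit 0) (nat_lit 32597650813) (nat_lit 0) (nat_lit 32597650813) (nat_lit 228) (nat_lit 2266512768) (nat_lit 19) (nat_lit 5) (nat_lit 19) (nat_lit 3) (nat_lit 22) (nat_lit 3) (nat_lit 225) (nat_lit 225) (nat_lit 150))))))) (XT.nd (nat_lit 1170) (nat_lit 380) (nat_lit 0) (XT.nd (nat_lit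 546) (nat_lit 380) (nat_lit 0) (XT.nd (nat_lit 234) (nat_lit 152) (nat_lit 0) (XT.nd (nat_lit 78) (nat_lit 304) (nat_lit 0) (XT.lf (nat_lit 0) (nat_lit 132491936247) (nat_lit 0) (nat_lit 7680948315) (nat_lit 228) (nat_lit 4869534614) (nat_lit 19) (nat_lit 5) (nat_lit 19) (nat_lit 3) (nat_lit 22) (nat_lit 3) (nat_lit 226) (nat_lit 225) (nat_lit 149)) (XT.nd (nat_lit 78) (nat_lit 0) (nat_lit 0) (XT.lf (nat_lit 0) (nat_lit 165136139) (nat_lit 304) (nat_lit 100231434706) (nat_lit 380) (nat_lit 55572059049) (nat_lit 15) (nat_lit 5) (nat_lit 19) (nat_lit 5) (nat_lit 20) (nat_lit 5) (nat_lit 227) (nat_lit 225) (nat_lit 148)) (XT.lf (nat_lit 0) (nat_lit 6509013598) (nat_lit 304) (nat_lit 33386118277) (nat_lit 380) (nat_lit 128445979460) (nat_lit 15) (nat_lit 5) (nat_lit 19) (nat_lit 5) (nat_lit 20) (nat_lit 5) (nat_lit 228) (nat_lit 225) (nat_lit 147)))) (XT.nd (nat_lit 156) (nat_lit 228)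 (nat_lit 0) (XT.nd (nat_lit 78) (nat_lit 0) (nat_lit 0) (XT.lf (nat_lit 0) (nat_lit 17103840183) (nat_lit 304) (nat_lit 135860834609) (nat_lit 76) (nat_lit 29109889038) (nat_lit 16) (nat_lit 5) (nat_lit 20) (nat_lit 5) (nat_lit 17) (nat_lit 5) (nat_lit 229) (nat_lit 225) (nat_lit 146)) (XT.lf (nat_lit 0) (nat_lit 33015561363) (nat_lit 304) (nat_lit 58083825619) (nat_lit 76) (nat_lit 106209500074) (nat_lit 16) (nat_lit 5) (nat_lit 20) (nat_lit 5) (nat_lit 17) (nat_lit 5) (nat_lit 230) (nat_lit 225) (nat_lit 145))) (XT.nd (nat_lit 78) (nat_lit 0) (nat_lit 0) (XT.lf (nat_lit 0) (nat_lit 34424058971) (nat_lit 228) (nat_lit 18315073832) (nat_lit 304) (nat_lit 161875465147) (nat_lit 13) (nat_lit 5) (nat_lit 16) (nat_lit 5) (nat_lit 17) (nat_lit 5) (nat_lit 231) (nat_lit 225) (nat_lit 144)) (XT.lf (nat_lit 0) (nat_lit 81309246752) (nat_lit 304) (nat_lit 89577267019) (nat_lit 76) (nat_lit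 62746453297) (nat_lit 13) (nat_lit 5) (nat_lit 17) (nat_lit 5) (nat_lit 14) (nat_lit 5) (nat_lit 232) (nat_lit 225) (nat_lit 143))))) (XT.nd (nat_lit 312) (nat_lit 152) (nat_lit 0) (XT.nd (nat_lit 156) (nat_lit 76) (nat_lit 0) (XT.nd (nat_lit 78) (nat_lit 0) (nat_lit 0) (XT.lf (nat_lit 0) (nat_lit 15099812802) (nat_lit 152) (nat_lit 100562196619) (nat_lit 228) (nat_lit 139617514653) (nat_lit 11) (nat_lit 5) (nat_lit 13) (nat_lit 5) (nat_lit 14) (nat_lit 5) (nat_lit 233) (nat_lit 225) (nat_lit 142)) (XT.lf (nat_lit 0) (nat_lit 145545406422) (nat_lit 152) (nat_lit 14304484097) (nat_lit 228) (nat_lit 119620845479) (nat_lit 11) (nat_lit 5) (nat_lit 13) (nat_lit 5) (nat_lit 14) (nat_lit 5) (nat_lit 234) (nat_lit 225) (nat_lit 141))) (XT.nd (nat_lit 78) (nat_lit 76) (nat_lit 0) (XT.lf (nat_lit 0) (nat_lit 214180931100) (nat_lit 228) (nat_lit 15248284531) (nat_lit 76) (nat_lit 77334169196)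 (nat_lit 11) (nat_lit 5) (nat_lit 14) (nat_lit 5) (nat_lit 12) (nat_lit 4) (nat_lit 235) (nat_lit 225) (nat_lit 140)) (XT.lf (nat_lit 0) (nat_lit 132329802913) (nat_lit 76) (nat_lit 150492299082) (nat_lit 152) (nat_lit 54403759343) (nat_lit 10) (nat_lit 5) (nat_lit 11) (nat_lit 5) (nat_lit 12) (nat_lit 4) (nat_lit 236) (nat_lit 225) (nat_lit 139)))) (XT.nd (nat_lit 156) (nat_lit 0) (nat_lit 0) (XT.nd (nat_lit 78) (nat_lit 152) (nat_lit 0) (XT.lf (nat_lit 0) (nat_lit 303758052082) (nat_lit 76) (nat_lit 58798293198) (nat_lit 152) (nat_lit 9581830827) (nat_lit 10) (nat_lit 5) (nat_lit 11) (nat_lit 5) (nat_lit 12) (nat_lit 4) (nat_lit 237) (nat_lit 225) (nat_lit 138)) (XT.lf (nat_lit 0) (nat_lit 44378688961) (nat_lit 152) (nat_lit 318271397338) (nat_lit 76) (nat_lit 48453934683) (nat_lit 8) (nat_lit 5) (nat_lit 10) (nat_lit 5) (nat_lit 9) (nat_lit 4) (nat_lit 238) (nat_lit 225) (nat_lit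 137))) (XT.nd (nat_lit 78) (nat_lit 0) (nat_lit 0) (XT.lf (nat_lit 0) (nat_lit 111996684203) (nat_lit 152) (nat_lit 172892953410) (nat_lit 76) (nat_lit 169975005014) (nat_lit 8) (nat_lit 5) (nat_lit 10) (nat_lit 5) (nat_lit 9) (nat_lit 4) (nat_lit 239) (nat_lit 225) (nat_lit 136)) (XT.lf (nat_lit 0) (nat_lit 189757248198) (nat_lit 152) (nat_lit 5707954596) (nat_lit 76) (nat_lit 309724175043) (nat_lit 8) (nat_lit 5) (nat_lit 10) (nat_lit 5) (nat_lit 9) (nat_lit 4) (nat_lit 240) (nat_lit 225) (nat_lit 135)))))) (XT.nd (nat_lit 624) (nat_lit 76) (nat_lit 0) (XT.nd (nat_lit 312) (nat_lit 152) (nat_lit 0) (XT.nd (nat_lit 156) (nat_lit 76) (nat_lit 0) (XT.nd (nat_lit 78) (nat_lit 0) (nat_lit 0) (XT.lf (nat_lit 0) (nat_lit 204786083193) (nat_lit 76) (nat_lit 82875455090) (nat_lit 152) (nat_lit 274129339469) (nat_lit 7) (nat_lit 5) (nat_lit 8) (nat_lit 5) (nat_lit 9) (nat_lit 4) (nat_lit 241)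 (nat_lit 225) (nat_lit 134)) (XT.lf (nat_lit 0) (nat_lit 402493662175) (nat_lit 152) (nat_lit 181286242285) (nat_lit 0) (nat_lit 42766370209) (nat_lit 7) (nat_lit 5) (nat_lit 9) (nat_lit 4) (nat_lit 7) (nat_lit 4) (nat_lit 242) (nat_lit 225) (nat_lit 133))) (XT.nd (nat_lit 78) (nat_lit 0) (nat_lit 0) (XT.lf (nat_lit 0) (nat_lit 18489545153) (nat_lit 76) (nat_lit 520773027709) (nat_lit 76) (nat_lit 161045613516) (nat_lit 6) (nat_lit 4) (nat_lit 7) (nat_lit 5) (nat_lit 7) (nat_lit 4) (nat_lit 243) (nat_lit 225) (nat_lit 132)) (XT.lf (nat_lit 0) (nat_lit 268605645135) (nat_lit 76) (nat_lit 437417412494) (nat_lit 76) (nat_lit 77689892017) (nat_lit 6) (nat_lit 4) (nat_lit 7) (nat_lit 5) (nat_lit 7) (nat_lit 4) (nat_lit 244) (nat_lit 225) (nat_lit 131)))) (XT.nd (nat_lit 156) (nat_lit 76) (nat_lit 0) (XT.nd (nat_lit 78) (nat_lit 0) (nat_lit 0) (XT.lf (nat_lit 0) (nat_lit 16551559722) (nat_lit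 152) (nat_lit 324141759494) (nat_lit 76) (nat_lit 538822268600) (nat_lit 5) (nat_lit 5) (nat_lit 7) (nat_lit 5) (nat_lit 6) (nat_lit 4) (nat_lit 245) (nat_lit 225) (nat_lit 130)) (XT.lf (nat_lit 0) (nat_lit 116975193435) (nat_lit 152) (nat_lit 108231027379) (nat_lit 76) (nat_lit 763927483974) (nat_lit 5) (nat_lit 5) (nat_lit 7) (nat_lit 5) (nat_lit 6) (nat_lit 4) (nat_lit 246) (nat_lit 225) (nat_lit 129))) (XT.nd (nat_lit 78) (nat_lit 0) (nat_lit 0) (XT.lf (nat_lit 0) (nat_lit 153754493213) (nat_lit 76) (nat_lit 85074463233) (nat_lit 152) (nat_lit 875410595463) (nat_lit 4) (nat_lit 5) (nat_lit 5) (nat_lit 5) (nat_lit 6) (nat_lit 4) (nat_lit 247) (nat_lit 225) (nat_lit 128)) (XT.lf (nat_lit 0) (nat_lit 388037850168) (nat_lit 152) (nat_lit 793480819443) (nat_lit 0) (nat_lit 75231046762) (nat_lit 4) (nat_lit 5) (nat_lit 6) (nat_lit 4) (nat_lit 4) (nat_lit 4) (nat_lit 248) (nat_lit 225)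 (nat_lit 127))))) (XT.nd (nat_lit 312) (nat_lit 0) (nat_lit 0) (XT.nd (nat_lit 156) (nat_lit 76) (nat_lit 0) (XT.nd (nat_lit 78) (nat_lit 0) (nat_lit 0) (XT.lf (nat_lit 0) (nat_lit 563679190955) (nat_lit 152) (nat_lit 605477206183) (nat_lit 0) (nat_lit 250872341599) (nat_lit 4) (nat_lit 5) (nat_lit 6) (nat_lit 4) (nat_lit 4) (nat_lit 4) (nat_lit 249) (nat_lit 225) (nat_lit 126)) (XT.lf (nat_lit 0) (nat_lit 765666687723) (nat_lit 152) (nat_lit 389273135251) (nat_lit 0) (nat_lit 452859798412) (nat_lit 4) (nat_lit 5) (nat_lit 6) (nat_lit 4) (nat_lit 4) (nat_lit 4) (nat_lit 250) (nat_lit 225) (nat_lit 125))) (XT.nd (nat_lit 78) (nat_lit 76) (nat_lit 0) (XT.lf (nat_lit 0) (nat_lit 997952269757) (nat_lit 152) (nat_lit 140638527000) (nat_lit 0) (nat_lit 685145345701) (nat_lit 4) (nat_lit 5) (nat_lit 6) (nat_lit 4) (nat_lit 4) (nat_lit 4) (nat_lit 251) (nat_lit 225) (nat_lit 124)) (XT.lf (nat_lit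 0) (nat_lit 159490122313) (nat_lit 76) (nat_lit 1112194678504) (nat_lit 76) (nat_lit 799387724236) (nat_lit 3) (nat_lit 4) (nat_lit 4) (nat_lit 5) (nat_lit 4) (nat_lit 4) (nat_lit 252) (nat_lit 225) (nat_lit 123)))) (XT.nd (nat_lit 156) (nat_lit 0) (nat_lit 0) (XT.nd (nat_lit 78) (nat_lit 0) (nat_lit 0) (XT.lf (nat_lit 0) (nat_lit 520443860801) (nat_lit 76) (nat_lit 1073384877903) (nat_lit 76) (nat_lit 760577897363) (nat_lit 3) (nat_lit 4) (nat_lit 4) (nat_lit 5) (nat_lit 4) (nat_lit 4) (nat_lit 253) (nat_lit 225) (nat_lit 122)) (XT.lf (nat_lit 0) (nat_lit 935540607143) (nat_lit 76) (nat_lit 1028753632133) (nat_lit 76) (nat_lit 715946628748) (nat_lit 3) (nat_lit 4) (nat_lit 4) (nat_lit 5) (nat_lit 4) (nat_lit 4) (nat_lit 254) (nat_lit 225) (nat_lit 121))) (XT.nd (nat_lit 78) (nat_lit 0) (nat_lit 0) (XT.lf (nat_lit 0) (nat_lit 1412901819418) (nat_lit 76) (nat_lit 977427721169) (nat_lit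 76) (nat_lit 664620697918) (nat_lit 3) (nat_lit 4) (nat_lit 4) (nat_lit 5) (nat_lit 4) (nat_lit 4) (nat_lit 255) (nat_lit 225) (nat_lit 120)) (XT.lf (nat_lit 0) (nat_lit 1961867173519) (nat_lit 76) (nat_lit 918402942404) (nat_lit 76) (nat_lit 605595901880) (nat_lit 3) (nat_lit 4) (nat_lit 4) (nat_lit 5) (nat_lit 4) (nat_lit 4) (nat_lit 256) (nat_lit 225) (nat_lit 119))))))))
noncomputable def xc51 : XT := (XT.nd (nat_lit 29952) (nat_lit 0) (nat_lit 0) (XT.nd (nat_lit 1872) (nat_lit 0) (nat_lit 0) (XT.nd (nat_lit 546) (nat_lit 76) (nat_lit 0) (XT.nd (nat_lit 234) (nat_lit 76) (nat_lit 0) (XT.nd (nat_lit 78) (nat_lit 0) (nat_lit 0) (XT.lf (nat_lit 0) (nat_lit 2593177295939) (nat_lit 76) (nat_lit 850524463212) (nat_lit 76) (nat_lit 537717407666) (nat_lit 3) (nat_lit 4) (nat_lit 4) (nat_lit 5) (nat_lit 4) (nat_lit 4) (nat_lit 257) (nat_lit 225) (nat_lit 118)) (XT.nd (nat_lit 78) (nat_lit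 0) (nat_lit 0) (XT.lf (nat_lit 0) (nat_lit 3319183906465) (nat_lit 76) (nat_lit 772464226390) (nat_lit 76) (nat_lit 459657157782) (nat_lit 3) (nat_lit 4) (nat_lit 4) (nat_lit 5) (nat_lit 4) (nat_lit 4) (nat_lit 258) (nat_lit 225) (nat_lit 117)) (XT.lf (nat_lit 0) (nat_lit 4154091482259) (nat_lit 76) (nat_lit 682694966435) (nat_lit 76) (nat_lit 369887886469) (nat_lit 3) (nat_lit 4) (nat_lit 4) (nat_lit 5) (nat_lit 4) (nat_lit 4) (nat_lit 259) (nat_lit 225) (nat_lit 116)))) (XT.nd (nat_lit 156) (nat_lit 76) (nat_lit 0) (XT.nd (nat_lit 78) (nat_lit 0) (nat_lit 0) (XT.lf (nat_lit 0) (nat_lit 5114235171543) (nat_lit 76) (nat_lit 579460328261) (nat_lit 76) (nat_lit 266653238419) (nat_lit 3) (nat_lit 4) (nat_lit 4) (nat_lit 5) (nat_lit 4) (nat_lit 4) (nat_lit 260) (nat_lit 225) (nat_lit 115)) (XT.lf (nat_lit 0) (nat_lit 6218400394325) (nat_lit 76) (nat_lit 460740503730) (nat_lit 76) (nat_lit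 147933405299) (nat_lit 3) (nat_lit 4) (nat_lit 4) (nat_lit 5) (nat_lit 4) (nat_lit 4) (nat_lit 261) (nat_lit 225) (nat_lit 114))) (XT.nd (nat_lit 78) (nat_lit 76) (nat_lit 0) (XT.lf (nat_lit 0) (nat_lit 7488190383225) (nat_lit 76) (nat_lit 324212713666) (nat_lit 76) (nat_lit 11405607768) (nat_lit 3) (nat_lit 4) (nat_lit 4) (nat_lit 5) (nat_lit 4) (nat_lit 4) (nat_lit 262) (nat_lit 225) (nat_lit 113)) (XT.lf (nat_lit 0) (nat_lit 132638911168) (nat_lit 152) (nat_lit 27633453379) (nat_lit 76) (nat_lit 8808876546619) (nat_lit 2) (nat_lit 5) (nat_lit 4) (nat_lit 5) (nat_lit 3) (nat_lit 4) (nat_lit 263) (nat_lit 225) (nat_lit 112))))) (XT.nd (nat_lit 312) (nat_lit 0) (nat_lit 0) (XT.nd (nat_lit 156) (nat_lit 0) (nat_lit 0) (XT.nd (nat_lit 78) (nat_lit 0) (nat_lit 0) (XT.lf (nat_lit 0) (nat_lit 313842488497) (nat_lit 152) (nat_lit 9928021878016) (nat_lit 0) (nat_lit 41836298898) (nat_lit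 1) (nat_lit 5) (nat_lit 3) (nat_lit 4) (nat_lit 1) (nat_lit 4) (nat_lit 264) (nat_lit 225) (nat_lit 111)) (XT.lf (nat_lit 0) (nat_lit 531371873198) (nat_lit 152) (nat_lit 11003325839668) (nat_lit 0) (nat_lit 259365679328) (nat_lit 1) (nat_lit 5) (nat_lit 3) (nat_lit 4) (nat_lit 1) (nat_lit 4) (nat_lit 265) (nat_lit 225) (nat_lit 110))) (XT.nd (nat_lit 78) (nat_lit 0) (nat_lit 0) (XT.lf (nat_lit 0) (nat_lit 781530659404) (nat_lit 152) (nat_lit 12239925407716) (nat_lit 0) (nat_lit 509524461821) (nat_lit 1) (nat_lit 5) (nat_lit 3) (nat_lit 4) (nat_lit 1) (nat_lit 4) (nat_lit 266) (nat_lit 225) (nat_lit 109)) (XT.lf (nat_lit 0) (nat_lit 1069213258149) (nat_lit 152) (nat_lit 13662014921533) (nat_lit 0) (nat_lit 797207057338) (nat_lit 1) (nat_lit 5) (nat_lit 3) (nat_lit 4) (nat_lit 1) (nat_lit 4) (nat_lit 267) (nat_lit 225) (nat_lit 108)))) (XT.nd (nat_lit 858) (nat_lit 0) (nat_lit 0) (XT.nd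 (nat_lit 780) (nat_lit 0) (nat_lit 0) (XT.lf (nat_lit 0) (nat_lit 1400048242018) (nat_lit 152) (nat_lit 15297417871607) (nat_lit 0) (nat_lit 1128042038399) (nat_lit 1) (nat_lit 5) (nat_lit 3) (nat_lit 4) (nat_lit 1) (nat_lit 4) (nat_lit 268) (nat_lit 225) (nat_lit 107)) (XT.lf (nat_lit 0) (nat_lit 9124805315691) (nat_lit 152) (nat_lit 53482893203266) (nat_lit 0) (nat_lit 8852799097982) (nat_lit 1) (nat_lit 5) (nat_lit 3) (nat_lit 4) (nat_lit 1) (nat_lit 4) (nat_lit 278) (nat_lit 225) (nat_lit 97))) (XT.nd (nat_lit 78) (nat_lit 0) (nat_lit 0) (XT.lf (nat_lit 0) (nat_lit 10663979083656) (nat_lit 152) (nat_lit 61091427943672) (nat_lit 0) (nat_lit 10391972865343) (nat_lit 1) (nat_lit 5) (nat_lit 3) (nat_lit 4) (nat_lit 1) (nat_lit 4) (nat_lit 279) (nat_lit 225) (nat_lit 96)) (XT.lf (nat_lit 0) (nat_lit 12434028915939) (nat_lit 152) (nat_lit 69841242896856) (nat_lit 0) (nat_lit 12162022697102)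 (nat_lit 1) (nat_lit 5) (nat_lit 3) (nat_lit 4) (nat_lit 1) (nat_lit 4) (nat_lit 280) (nat_lit 225) (nat_lit 95)))))) (XT.nd (nat_lit 27456) (nat_lit 0) (nat_lit 532) (XT.nd (nat_lit 27144) (nat_lit 0) (nat_lit 1064) (XT.nd (nat_lit 26988) (nat_lit 0) (nat_lit 1368) (XT.nd (nat_lit 78) (nat_lit 0) (nat_lit 0) (XT.lf (nat_lit 0) (nat_lit 14469586222303) (nat_lit 152) (nat_lit 79903530094511) (nat_lit 0) (nat_lit 14197580003009) (nat_lit 1) (nat_lit 5) (nat_lit 3) (nat_lit 4) (nat_lit 1) (nat_lit 4) (nat_lit 281) (nat_lit 225) (nat_lit 94)) (XT.lf (nat_lit 0) (nat_lit 16810477123958) (nat_lit 152) (nat_lit 91475160373112) (nat_lit 0) (nat_lit 16538470904268) (nat_lit 1) (nat_lit 5) (nat_lit 3) (nat_lit 4) (nat_lit 1) (nat_lit 4) (nat_lit 282) (nat_lit 225) (nat_lit 93))) (XT.nd (nat_lit 78) (nat_lit 0) (nat_lit 0) (XT.lf (nat_lit 0) (nat_lit 37488729645) (nat_lit 0) (nat_lit 37488729645)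 (nat_lit 228) (nat_lit 2603165441) (nat_lit 19) (nat_lit 5) (nat_lit 19) (nat_lit 3) (nat_lit 22) (nat_lit 3) (nat_lit 226) (nat_lit 226) (nat_lit 148)) (XT.lf (nat_lit 0) (nat_lit 152368215745) (nat_lit 0) (nat_lit 8835579623) (nat_lit 228) (nat_lit 5594183515) (nat_lit 19) (nat_lit 5) (nat_lit 19) (nat_lit 3) (nat_lit 22) (nat_lit 3) (nat_lit 227) (nat_lit 226) (nat_lit 147)))) (XT.nd (nat_lit 156) (nat_lit 0) (nat_lit 76) (XT.nd (nat_lit 78) (nat_lit 0) (nat_lit 0) (XT.lf (nat_lit 0) (nat_lit 194532913) (nat_lit 304) (nat_lit 115262414140) (nat_lit 380) (nat_lit 63906240686) (nat_lit 15) (nat_lit 5) (nat_lit 19) (nat_lit 5) (nat_lit 20) (nat_lit 5) (nat_lit 228) (nat_lit 226) (nat_lit 146)) (XT.lf (nat_lit 0) (nat_lit 7489388554) (nat_lit 304) (nat_lit 38390787521) (nat_lit 380) (nat_lit 147711461405) (nat_lit 15) (nat_lit 5) (nat_lit 19) (nat_lit 5) (nat_lit 20) (nat_lit 5) (nat_lit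 229) (nat_lit 226) (nat_lit 145))) (XT.nd (nat_lit 78) (nat_lit 0) (nat_lit 0) (XT.lf (nat_lit 0) (nat_lit 19673021028) (nat_lit 304) (nat_lit 156236260928) (nat_lit 76) (nat_lit 33475893450) (nat_lit 16) (nat_lit 5) (nat_lit 20) (nat_lit 5) (nat_lit 17) (nat_lit 5) (nat_lit 230) (nat_lit 226) (nat_lit 144)) (XT.lf (nat_lit 0) (nat_lit 37971030191) (nat_lit 304) (nat_lit 66793183051) (nat_lit 76) (nat_lit 122140508613) (nat_lit 16) (nat_lit 5) (nat_lit 20) (nat_lit 5) (nat_lit 17) (nat_lit 5) (nat_lit 231) (nat_lit 226) (nat_lit 143))))) (XT.nd (nat_lit 312) (nat_lit 228) (nat_lit 0) (XT.nd (nat_lit 156) (nat_lit 152) (nat_lit 0) (XT.nd (nat_lit 78) (nat_lit 0) (nat_lit 0) (XT.lf (nat_lit 0) (nat_lit 39590738028) (nat_lit 228) (nat_lit 21062117587) (nat_lit 304) (nat_lit 186153479690) (nat_lit 13) (nat_lit 5) (nat_lit 16) (nat_lit 5) (nat_lit 17) (nat_lit 5) (nat_lit 232) (nat_lit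 226) (nat_lit 142)) (XT.lf (nat_lit 0) (nat_lit 93508122364) (nat_lit 304) (nat_lit 103010801810) (nat_lit 76) (nat_lit 72158593442) (nat_lit 13) (nat_lit 5) (nat_lit 17) (nat_lit 5) (nat_lit 14) (nat_lit 5) (nat_lit 233) (nat_lit 226) (nat_lit 141))) (XT.nd (nat_lit 78) (nat_lit 0) (nat_lit 0) (XT.lf (nat_lit 0) (nat_lit 17367701108) (nat_lit 152) (nat_lit 115645894487) (nat_lit 228) (nat_lit 160557495923) (nat_lit 11) (nat_lit 5) (nat_lit 13) (nat_lit 5) (nat_lit 14) (nat_lit 5) (nat_lit 234) (nat_lit 226) (nat_lit 140)) (XT.lf (nat_lit 0) (nat_lit 167379753373) (nat_lit 152) (nat_lit 16449607473) (nat_lit 228) (nat_lit 137561671494) (nat_lit 11) (nat_lit 5) (nat_lit 13) (nat_lit 5) (nat_lit 14) (nat_lit 5) (nat_lit 235) (nat_lit 226) (nat_lit 139)))) (XT.nd (nat_lit 156) (nat_lit 152) (nat_lit 0) (XT.nd (nat_lit 78) (nat_lit 76) (nat_lit 0) (XT.lf (nat_lit 0) (nat_lit 246309818149)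 (nat_lit 228) (nat_lit 17533068686) (nat_lit 76) (nat_lit 88934729656) (nat_lit 11) (nat_lit 5) (nat_lit 14) (nat_lit 5) (nat_lit 12) (nat_lit 4) (nat_lit 236) (nat_lit 226) (nat_lit 138)) (XT.lf (nat_lit 0) (nat_lit 152181620124) (nat_lit 76) (nat_lit 173065413809) (nat_lit 152) (nat_lit 62562451976) (nat_lit 10) (nat_lit 5) (nat_lit 11) (nat_lit 5) (nat_lit 12) (nat_lit 4) (nat_lit 237) (nat_lit 226) (nat_lit 137))) (XT.nd (nat_lit 78) (nat_lit 152) (nat_lit 0) (XT.lf (nat_lit 0) (nat_lit 349323800567) (nat_lit 76) (nat_lit 67617402278) (nat_lit 152) (nat_lit 11017478261) (nat_lit 10) (nat_lit 5) (nat_lit 11) (nat_lit 5) (nat_lit 12) (nat_lit 4) (nat_lit 238) (nat_lit 226) (nat_lit 136)) (XT.lf (nat_lit 0) (nat_lit 51036897814) (nat_lit 152) (nat_lit 366009827431) (nat_lit 76) (nat_lit 55722680081) (nat_lit 8) (nat_lit 5) (nat_lit 10) (nat_lit 5) (nat_lit 9) (nat_lit 4) (nat_lit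 239) (nat_lit 226) (nat_lit 135))))))) (XT.nd (nat_lit 1170) (nat_lit 152) (nat_lit 0) (XT.nd (nat_lit 546) (nat_lit 152) (nat_lit 0) (XT.nd (nat_lit 234) (nat_lit 152) (nat_lit 0) (XT.nd (nat_lit 78) (nat_lit 76) (nat_lit 0) (XT.lf (nat_lit 0) (nat_lit 128797409015) (nat_lit 152) (nat_lit 198824914241) (nat_lit 76) (nat_lit 195471825500) (nat_lit 8) (nat_lit 5) (nat_lit 10) (nat_lit 5) (nat_lit 9) (nat_lit 4) (nat_lit 240) (nat_lit 226) (nat_lit 134)) (XT.nd (nat_lit 78) (nat_lit 76) (nat_lit 0) (XT.lf (nat_lit 0) (nat_lit 218221898195) (nat_lit 152) (nat_lit 6562424151) (nat_lit 76) (nat_lit 356183296722) (nat_lit 8) (nat_lit 5) (nat_lit 10) (nat_lit 5) (nat_lit 9) (nat_lit 4) (nat_lit 241) (nat_lit 226) (nat_lit 133)) (XT.lf (nat_lit 0) (nat_lit 235505640961) (nat_lit 76) (nat_lit 95306120337) (nat_lit 152) (nat_lit 315247594031) (nat_lit 7) (nat_lit 5) (nat_lit 8) (nat_lit 5) (nat_lit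 9) (nat_lit 4) (nat_lit 242) (nat_lit 226) (nat_lit 132)))) (XT.nd (nat_lit 156) (nat_lit 76) (nat_lit 0) (XT.nd (nat_lit 78) (nat_lit 76) (nat_lit 0) (XT.lf (nat_lit 0) (nat_lit 462868597860) (nat_lit 152) (nat_lit 208477637467) (nat_lit 0) (nat_lit 49181843027) (nat_lit 7) (nat_lit 5) (nat_lit 9) (nat_lit 4) (nat_lit 7) (nat_lit 4) (nat_lit 243) (nat_lit 226) (nat_lit 131)) (XT.lf (nat_lit 0) (nat_lit 21264448034) (nat_lit 76) (nat_lit 598888342420) (nat_lit 76) (nat_lit 185201495166) (nat_lit 6) (nat_lit 4) (nat_lit 7) (nat_lit 5) (nat_lit 7) (nat_lit 4) (nat_lit 244) (nat_lit 226) (nat_lit 130))) (XT.nd (nat_lit 78) (nat_lit 76) (nat_lit 0) (XT.lf (nat_lit 0) (nat_lit 308897771130) (nat_lit 76) (nat_lit 503029468329) (nat_lit 76) (nat_lit 89342540708) (nat_lit 6) (nat_lit 4) (nat_lit 7) (nat_lit 5) (nat_lit 7) (nat_lit 4) (nat_lit 245) (nat_lit 226) (nat_lit 129)) (XT.lf (nat_lit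 0) (nat_lit 19034955215) (nat_lit 152) (nat_lit 372761843791) (nat_lit 76) (nat_lit 619646025145) (nat_lit 5) (nat_lit 5) (nat_lit 7) (nat_lit 5) (nat_lit 6) (nat_lit 4) (nat_lit 246) (nat_lit 226) (nat_lit 128))))) (XT.nd (nat_lit 312) (nat_lit 76) (nat_lit 0) (XT.nd (nat_lit 156) (nat_lit 0) (nat_lit 0) (XT.nd (nat_lit 78) (nat_lit 76) (nat_lit 0) (XT.lf (nat_lit 0) (nat_lit 134522047697) (nat_lit 152) (nat_lit 124464655723) (nat_lit 76) (nat_lit 878516968531) (nat_lit 5) (nat_lit 5) (nat_lit 7) (nat_lit 5) (nat_lit 6) (nat_lit 4) (nat_lit 247) (nat_lit 226) (nat_lit 127)) (XT.lf (nat_lit 0) (nat_lit 176818646333) (nat_lit 76) (nat_lit 97835194340) (nat_lit 152) (nat_lit 1006721560938) (nat_lit 4) (nat_lit 5) (nat_lit 5) (nat_lit 5) (nat_lit 6) (nat_lit 4) (nat_lit 248) (nat_lit 226) (nat_lit 126))) (XT.nd (nat_lit 78) (nat_lit 0) (nat_lit 0) (XT.lf (nat_lit 0) (nat_lit 446244013702)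 (nat_lit 152) (nat_lit 912502034472) (nat_lit 0) (nat_lit 86516051038) (nat_lit 4) (nat_lit 5) (nat_lit 6) (nat_lit 4) (nat_lit 4) (nat_lit 4) (nat_lit 249) (nat_lit 226) (nat_lit 125)) (XT.lf (nat_lit 0) (nat_lit 648231492215) (nat_lit 152) (nat_lit 696297997643) (nat_lit 0) (nat_lit 288503494806) (nat_lit 4) (nat_lit 5) (nat_lit 6) (nat_lit 4) (nat_lit 4) (nat_lit 4) (nat_lit 250) (nat_lit 226) (nat_lit 124)))) (XT.nd (nat_lit 156) (nat_lit 76) (nat_lit 0) (XT.nd (nat_lit 78) (nat_lit 0) (nat_lit 0) (XT.lf (nat_lit 0) (nat_lit 880517058374) (nat_lit 152) (nat_lit 447663419045) (nat_lit 0) (nat_lit 520789030753) (nat_lit 4) (nat_lit 5) (nat_lit 6) (nat_lit 4) (nat_lit 4) (nat_lit 4) (nat_lit 251) (nat_lit 226) (nat_lit 123)) (XT.lf (nat_lit 0) (nat_lit 1147645429780) (nat_lit 152) (nat_lit 161733709099) (nat_lit 0) (nat_lit 787917375886) (nat_lit 4) (nat_lit 5) (nat_lit 6) (nat_lit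 4) (nat_lit 4) (nat_lit 4) (nat_lit 252) (nat_lit 226) (nat_lit 122))) (XT.nd (nat_lit 78) (nat_lit 0) (nat_lit 0) (XT.lf (nat_lit 0) (nat_lit 183414210476) (nat_lit 76) (nat_lit 1279023611936) (nat_lit 76) (nat_lit 919295535198) (nat_lit 3) (nat_lit 4) (nat_lit 4) (nat_lit 5) (nat_lit 4) (nat_lit 4) (nat_lit 253) (nat_lit 226) (nat_lit 121)) (XT.lf (nat_lit 0) (nat_lit 598510935414) (nat_lit 76) (nat_lit 1234392376246) (nat_lit 76) (nat_lit 874664279642) (nat_lit 3) (nat_lit 4) (nat_lit 4) (nat_lit 5) (nat_lit 4) (nat_lit 4) (nat_lit 254) (nat_lit 226) (nat_lit 120)))))) (XT.nd (nat_lit 624) (nat_lit 152) (nat_lit 0) (XT.nd (nat_lit 312) (nat_lit 0) (nat_lit 0) (XT.nd (nat_lit 156) (nat_lit 0) (nat_lit 0) (XT.nd (nat_lit 78) (nat_lit 0) (nat_lit 0) (XT.lf (nat_lit 0) (nat_lit 1075872129078) (nat_lit 76) (nat_lit 1183066474046) (nat_lit 76) (nat_lit 823338360168) (nat_lit 3) (nat_lit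 4) (nat_lit 4) (nat_lit 5) (nat_lit 4) (nat_lit 4) (nat_lit 255) (nat_lit 226) (nat_lit 119)) (XT.lf (nat_lit 0) (nat_lit 1624837466994) (nat_lit 76) (nat_lit 1124041702903) (nat_lit 76) (nat_lit 764313574005) (nat_lit 3) (nat_lit 4) (nat_lit 4) (nat_lit 5) (nat_lit 4) (nat_lit 4) (nat_lit 256) (nat_lit 226) (nat_lit 118))) (XT.nd (nat_lit 78) (nat_lit 0) (nat_lit 0) (XT.lf (nat_lit 0) (nat_lit 2256147575341) (nat_lit 76) (nat_lit 1056163230338) (nat_lit 76) (nat_lit 696435088378) (nat_lit 3) (nat_lit 4) (nat_lit 4) (nat_lit 5) (nat_lit 4) (nat_lit 4) (nat_lit 257) (nat_lit 226) (nat_lit 117)) (XT.lf (nat_lit 0) (nat_lit 2982154173630) (nat_lit 76) (nat_lit 978102999279) (nat_lit 76) (nat_lit 618374845961) (nat_lit 3) (nat_lit 4) (nat_lit 4) (nat_lit 5) (nat_lit 4) (nat_lit 4) (nat_lit 258) (nat_lit 226) (nat_lit 116)))) (XT.nd (nat_lit 156) (nat_lit 0) (nat_lit 0) (XT.nd (nat_lit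 78) (nat_lit 0) (nat_lit 0) (XT.lf (nat_lit 0) (nat_lit 3817061738782) (nat_lit 76) (nat_lit 888333744336) (nat_lit 76) (nat_lit 528605581141) (nat_lit 3) (nat_lit 4) (nat_lit 4) (nat_lit 5) (nat_lit 4) (nat_lit 4) (nat_lit 259) (nat_lit 226) (nat_lit 115)) (XT.lf (nat_lit 0) (nat_lit 4777205418813) (nat_lit 76) (nat_lit 785099110519) (nat_lit 76) (nat_lit 425370938736) (nat_lit 3) (nat_lit 4) (nat_lit 4) (nat_lit 5) (nat_lit 4) (nat_lit 4) (nat_lit 260) (nat_lit 226) (nat_lit 114))) (XT.nd (nat_lit 78) (nat_lit 0) (nat_lit 0) (XT.lf (nat_lit 0) (nat_lit 5881370633549) (nat_lit 76) (nat_lit 666379289778) (nat_lit 76) (nat_lit 306651110526) (nat_lit 3) (nat_lit 4) (nat_lit 4) (nat_lit 5) (nat_lit 4) (nat_lit 4) (nat_lit 261) (nat_lit 226) (nat_lit 113)) (XT.lf (nat_lit 0) (nat_lit 7151160615452) (nat_lit 76) (nat_lit 529851503009) (nat_lit 76) (nat_lit 170123317264) (nat_lit 3) (nat_lit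 4) (nat_lit 4) (nat_lit 5) (nat_lit 4) (nat_lit 4) (nat_lit 262) (nat_lit 226) (nat_lit 112))))) (XT.nd (nat_lit 312) (nat_lit 0) (nat_lit 0) (XT.nd (nat_lit 156) (nat_lit 76) (nat_lit 0) (XT.nd (nat_lit 78) (nat_lit 76) (nat_lit 0) (XT.lf (nat_lit 0) (nat_lit 8611419081559) (nat_lit 76) (nat_lit 372844554386) (nat_lit 76) (nat_lit 13116362993) (nat_lit 3) (nat_lit 4) (nat_lit 4) (nat_lit 5) (nat_lit 4) (nat_lit 4) (nat_lit 263) (nat_lit 226) (nat_lit 111)) (XT.lf (nat_lit 0) (nat_lit 152534815921) (nat_lit 152) (nat_lit 31778342072) (nat_lit 76) (nat_lit 10130208079454) (nat_lit 2) (nat_lit 5) (nat_lit 4) (nat_lit 5) (nat_lit 3) (nat_lit 4) (nat_lit 264) (nat_lit 226) (nat_lit 110))) (XT.nd (nat_lit 78) (nat_lit 0) (nat_lit 0) (XT.lf (nat_lit 0) (nat_lit 360918928529) (nat_lit 152) (nat_lit 11417225028925) (nat_lit 0) (nat_lit 48111797596) (nat_lit 1) (nat_lit 5) (nat_lit 3) (nat_lit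 4) (nat_lit 1) (nat_lit 4) (nat_lit 265) (nat_lit 226) (nat_lit 109)) (XT.lf (nat_lit 0) (nat_lit 611077712227) (nat_lit 152) (nat_lit 12653824601885) (nat_lit 0) (nat_lit 298270578066) (nat_lit 1) (nat_lit 5) (nat_lit 3) (nat_lit 4) (nat_lit 1) (nat_lit 4) (nat_lit 266) (nat_lit 226) (nat_lit 108)))) (XT.nd (nat_lit 936) (nat_lit 0) (nat_lit 0) (XT.nd (nat_lit 858) (nat_lit 0) (nat_lit 0) (XT.lf (nat_lit 0) (nat_lit 898760308792) (nat_lit 152) (nat_lit 14075914119974) (nat_lit 0) (nat_lit 585953171823) (nat_lit 1) (nat_lit 5) (nat_lit 3) (nat_lit 4) (nat_lit 1) (nat_lit 4) (nat_lit 267) (nat_lit 226) (nat_lit 107)) (XT.lf (nat_lit 0) (nat_lit 8954352354922) (nat_lit 152) (nat_lit 53896792424066) (nat_lit 0) (nat_lit 8641545203260) (nat_lit 1) (nat_lit 5) (nat_lit 3) (nat_lit 4) (nat_lit 1) (nat_lit 4) (nat_lit 278) (nat_lit 226) (nat_lit 96))) (XT.nd (nat_lit 78) (nat_lit 0) (nat_lit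 0) (XT.lf (nat_lit 0) (nat_lit 10493526122480) (nat_lit 152) (nat_lit 61505327165271) (nat_lit 0) (nat_lit 10180718970292) (nat_lit 1) (nat_lit 5) (nat_lit 3) (nat_lit 4) (nat_lit 1) (nat_lit 4) (nat_lit 279) (nat_lit 226) (nat_lit 95)) (XT.lf (nat_lit 0) (nat_lit 12263575954408) (nat_lit 152) (nat_lit 70255142119150) (nat_lit 0) (nat_lit 11950768801765) (nat_lit 1) (nat_lit 5) (nat_lit 3) (nat_lit 4) (nat_lit 1) (nat_lit 4) (nat_lit 280) (nat_lit 226) (nat_lit 94))))))))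
noncomputable def xc52 : XT := (XT.nd (nat_lit 29406) (nat_lit 0) (nat_lit 0) (XT.nd (nat_lit 28158) (nat_lit 0) (nat_lit 152) (XT.nd (nat_lit 27534) (nat_lit 0) (nat_lit 532) (XT.nd (nat_lit 27222) (nat_lit 0) (nat_lit 1064) (XT.nd (nat_lit 27066) (nat_lit 0) (nat_lit 1368) (XT.lf (nat_lit 0) (nat_lit 14299133260464) (nat_lit 152) (nat_lit 80317429317408) (nat_lit 0) (nat_lit 13986326107423) (nat_lit 1) (nat_lit 5) (nat_lit 3) (nat_lit 4) (nat_lit 1) (nat_lit 4) (nat_lit 281) (nat_lit 226) (nat_lit 93)) (XT.nd (nat_lit 78) (nat_lit 0) (nat_lit 0) (XT.lf (nat_lit 0) (nat_lit 43113121292) (nat_lit 0) (nat_lit 43113121292) (nat_lit 228) (nat_lit 2991126653) (nat_lit 19) (nat_lit 5) (nat_lit 19) (nat_lit 3) (nat_lit 22) (nat_lit 3) (nat_lit 227) (nat_lit 227) (nat_lit 146)) (XT.lf (nat_lit 0) (nat_lit 175225330194) (nat_lit 0) (nat_lit 10162798654) (nat_lit 228) (nat_lit 6428939556) (nat_lit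 19) (nat_lit 5) (nat_lit 19) (nat_lit 3) (nat_lit 22) (nat_lit 3) (nat_lit 228) (nat_lit 227) (nat_lit 145)))) (XT.nd (nat_lit 156) (nat_lit 0) (nat_lit 76) (XT.nd (nat_lit 78) (nat_lit 0) (nat_lit 0) (XT.lf (nat_lit 0) (nat_lit 227211038) (nat_lit 304) (nat_lit 132548951481) (nat_lit 380) (nat_lit 73490946377) (nat_lit 15) (nat_lit 5) (nat_lit 19) (nat_lit 5) (nat_lit 20) (nat_lit 5) (nat_lit 229) (nat_lit 227) (nat_lit 144)) (XT.lf (nat_lit 0) (nat_lit 8615838740) (nat_lit 304) (nat_lit 44146949319) (nat_lit 380) (nat_lit 169867110692) (nat_lit 15) (nat_lit 5) (nat_lit 19) (nat_lit 5) (nat_lit 20) (nat_lit 5) (nat_lit 230) (nat_lit 227) (nat_lit 143))) (XT.nd (nat_lit 78) (nat_lit 0) (nat_lit 0) (XT.lf (nat_lit 0) (nat_lit 22626699941) (nat_lit 304) (nat_lit 179668903188) (nat_lit 76) (nat_lit 38496915318) (nat_lit 16) (nat_lit 5) (nat_lit 20) (nat_lit 5) (nat_lit 17) (nat_lit 5)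 (nat_lit 231) (nat_lit 227) (nat_lit 142)) (XT.lf (nat_lit 0) (nat_lit 43669054945) (nat_lit 304) (nat_lit 76809728440) (nat_lit 76) (nat_lit 140461269992) (nat_lit 16) (nat_lit 5) (nat_lit 20) (nat_lit 5) (nat_lit 17) (nat_lit 5) (nat_lit 232) (nat_lit 227) (nat_lit 141))))) (XT.nd (nat_lit 312) (nat_lit 228) (nat_lit 0) (XT.nd (nat_lit 156) (nat_lit 152) (nat_lit 0) (XT.nd (nat_lit 78) (nat_lit 0) (nat_lit 0) (XT.lf (nat_lit 0) (nat_lit 45531670252) (nat_lit 228) (nat_lit 24221270900) (nat_lit 304) (nat_lit 214074002415) (nat_lit 13) (nat_lit 5) (nat_lit 16) (nat_lit 5) (nat_lit 17) (nat_lit 5) (nat_lit 233) (nat_lit 227) (nat_lit 140)) (XT.lf (nat_lit 0) (nat_lit 107536222457) (nat_lit 304) (nat_lit 118460111865) (nat_lit 76) (nat_lit 82982512628) (nat_lit 13) (nat_lit 5) (nat_lit 17) (nat_lit 5) (nat_lit 14) (nat_lit 5) (nat_lit 234) (nat_lit 227) (nat_lit 139))) (XT.nd (nat_lit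 78) (nat_lit 0) (nat_lit 0) (XT.lf (nat_lit 0) (nat_lit 19975061481) (nat_lit 152) (nat_lit 132992301060) (nat_lit 228) (nat_lit 184639119609) (nat_lit 11) (nat_lit 5) (nat_lit 13) (nat_lit 5) (nat_lit 14) (nat_lit 5) (nat_lit 235) (nat_lit 227) (nat_lit 138)) (XT.lf (nat_lit 0) (nat_lit 192488633950) (nat_lit 152) (nat_lit 18916633290) (nat_lit 228) (nat_lit 158194182477) (nat_lit 11) (nat_lit 5) (nat_lit 13) (nat_lit 5) (nat_lit 14) (nat_lit 5) (nat_lit 236) (nat_lit 227) (nat_lit 137)))) (XT.nd (nat_lit 156) (nat_lit 152) (nat_lit 0) (XT.nd (nat_lit 78) (nat_lit 76) (nat_lit 0) (XT.lf (nat_lit 0) (nat_lit 283257612145) (nat_lit 228) (nat_lit 20161169990) (nat_lit 76) (nat_lit 102275268088) (nat_lit 11) (nat_lit 5) (nat_lit 14) (nat_lit 5) (nat_lit 12) (nat_lit 4) (nat_lit 237) (nat_lit 227) (nat_lit 136)) (XT.lf (nat_lit 0) (nat_lit 175010637641) (nat_lit 76) (nat_lit 199024673793)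 (nat_lit 152) (nat_lit 71945404824) (nat_lit 10) (nat_lit 5) (nat_lit 11) (nat_lit 5) (nat_lit 12) (nat_lit 4) (nat_lit 238) (nat_lit 227) (nat_lit 135))) (XT.nd (nat_lit 78) (nat_lit 152) (nat_lit 0) (XT.lf (nat_lit 0) (nat_lit 401723913695) (nat_lit 76) (nat_lit 77759532544) (nat_lit 152) (nat_lit 12668869610) (nat_lit 10) (nat_lit 5) (nat_lit 11) (nat_lit 5) (nat_lit 12) (nat_lit 4) (nat_lit 239) (nat_lit 227) (nat_lit 134)) (XT.lf (nat_lit 0) (nat_lit 58693495253) (nat_lit 152) (nat_lit 420909577911) (nat_lit 76) (nat_lit 64081577515) (nat_lit 8) (nat_lit 5) (nat_lit 10) (nat_lit 5) (nat_lit 9) (nat_lit 4) (nat_lit 240) (nat_lit 227) (nat_lit 133)))))) (XT.nd (nat_lit 624) (nat_lit 152) (nat_lit 0) (XT.nd (nat_lit 312) (nat_lit 152) (nat_lit 0) (XT.nd (nat_lit 156) (nat_lit 76) (nat_lit 0) (XT.nd (nat_lit 78) (nat_lit 0) (nat_lit 0) (XT.lf (nat_lit 0) (nat_lit 148117944512) (nat_lit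 152) (nat_lit 228647152564) (nat_lit 76) (nat_lit 224793030127) (nat_lit 8) (nat_lit 5) (nat_lit 10) (nat_lit 5) (nat_lit 9) (nat_lit 4) (nat_lit 241) (nat_lit 227) (nat_lit 132)) (XT.lf (nat_lit 0) (nat_lit 250955986528) (nat_lit 152) (nat_lit 7545484457) (nat_lit 76) (nat_lit 409611165840) (nat_lit 8) (nat_lit 5) (nat_lit 10) (nat_lit 5) (nat_lit 9) (nat_lit 4) (nat_lit 242) (nat_lit 227) (nat_lit 131))) (XT.nd (nat_lit 78) (nat_lit 0) (nat_lit 0) (XT.lf (nat_lit 0) (nat_lit 270832731179) (nat_lit 76) (nat_lit 109601544614) (nat_lit 152) (nat_lit 362533866323) (nat_lit 7) (nat_lit 5) (nat_lit 8) (nat_lit 5) (nat_lit 9) (nat_lit 4) (nat_lit 243) (nat_lit 227) (nat_lit 130)) (XT.lf (nat_lit 0) (nat_lit 532299557754) (nat_lit 152) (nat_lit 239748117748) (nat_lit 0) (nat_lit 56559510624) (nat_lit 7) (nat_lit 5) (nat_lit 9) (nat_lit 4) (nat_lit 7) (nat_lit 4) (nat_lit 244) (nat_lit 227)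 (nat_lit 129)))) (XT.nd (nat_lit 156) (nat_lit 76) (nat_lit 0) (XT.nd (nat_lit 78) (nat_lit 0) (nat_lit 0) (XT.lf (nat_lit 0) (nat_lit 24455227608) (nat_lit 76) (nat_lit 688721110270) (nat_lit 76) (nat_lit 212980993257) (nat_lit 6) (nat_lit 4) (nat_lit 7) (nat_lit 5) (nat_lit 7) (nat_lit 4) (nat_lit 245) (nat_lit 227) (nat_lit 128)) (XT.lf (nat_lit 0) (nat_lit 355233404077) (nat_lit 76) (nat_lit 578483468132) (nat_lit 76) (nat_lit 102743290350) (nat_lit 6) (nat_lit 4) (nat_lit 7) (nat_lit 5) (nat_lit 7) (nat_lit 4) (nat_lit 246) (nat_lit 227) (nat_lit 127))) (XT.nd (nat_lit 78) (nat_lit 0) (nat_lit 0) (XT.lf (nat_lit 0) (nat_lit 21890698712) (nat_lit 152) (nat_lit 428675228392) (nat_lit 76) (nat_lit 712593243665) (nat_lit 5) (nat_lit 5) (nat_lit 7) (nat_lit 5) (nat_lit 6) (nat_lit 4) (nat_lit 247) (nat_lit 227) (nat_lit 126)) (XT.lf (nat_lit 0) (nat_lit 154700789821) (nat_lit 152)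 (nat_lit 143133578457) (nat_lit 76) (nat_lit 1010294787505) (nat_lit 5) (nat_lit 5) (nat_lit 7) (nat_lit 5) (nat_lit 6) (nat_lit 4) (nat_lit 248) (nat_lit 227) (nat_lit 125))))) (XT.nd (nat_lit 312) (nat_lit 76) (nat_lit 0) (XT.nd (nat_lit 156) (nat_lit 0) (nat_lit 0) (XT.nd (nat_lit 78) (nat_lit 0) (nat_lit 0) (XT.lf (nat_lit 0) (nat_lit 203342183651) (nat_lit 76) (nat_lit 112510142014) (nat_lit 152) (nat_lit 1157729323363) (nat_lit 4) (nat_lit 5) (nat_lit 5) (nat_lit 5) (nat_lit 6) (nat_lit 4) (nat_lit 249) (nat_lit 227) (nat_lit 124)) (XT.lf (nat_lit 0) (nat_lit 513180983251) (nat_lit 152) (nat_lit 1049376653149) (nat_lit 0) (nat_lit 99493721274) (nat_lit 4) (nat_lit 5) (nat_lit 6) (nat_lit 4) (nat_lit 4) (nat_lit 4) (nat_lit 250) (nat_lit 227) (nat_lit 123))) (XT.nd (nat_lit 78) (nat_lit 0) (nat_lit 0) (XT.lf (nat_lit 0) (nat_lit 745466535606) (nat_lit 152) (nat_lit 800742100338)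 (nat_lit 0) (nat_lit 331779247357) (nat_lit 4) (nat_lit 5) (nat_lit 6) (nat_lit 4) (nat_lit 4) (nat_lit 4) (nat_lit 251) (nat_lit 227) (nat_lit 122)) (XT.lf (nat_lit 0) (nat_lit 1012594895008) (nat_lit 152) (nat_lit 514812412815) (nat_lit 0) (nat_lit 598907583914) (nat_lit 4) (nat_lit 5) (nat_lit 6) (nat_lit 4) (nat_lit 4) (nat_lit 4) (nat_lit 252) (nat_lit 227) (nat_lit 121)))) (XT.nd (nat_lit 156) (nat_lit 0) (nat_lit 0) (XT.nd (nat_lit 78) (nat_lit 76) (nat_lit 0) (XT.lf (nat_lit 0) (nat_lit 1319792485879) (nat_lit 152) (nat_lit 185993314083) (nat_lit 0) (nat_lit 906105154920) (nat_lit 4) (nat_lit 5) (nat_lit 6) (nat_lit 4) (nat_lit 4) (nat_lit 4) (nat_lit 253) (nat_lit 227) (nat_lit 120)) (XT.lf (nat_lit 0) (nat_lit 210926772911) (nat_lit 76) (nat_lit 1470876950819) (nat_lit 76) (nat_lit 1057189602586) (nat_lit 3) (nat_lit 4) (nat_lit 4) (nat_lit 5) (nat_lit 4) (nat_lit 4) (nat_lit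 254) (nat_lit 227) (nat_lit 119))) (XT.nd (nat_lit 78) (nat_lit 0) (nat_lit 0) (XT.lf (nat_lit 0) (nat_lit 688287950390) (nat_lit 76) (nat_lit 1419551056242) (nat_lit 76) (nat_lit 1005863692987) (nat_lit 3) (nat_lit 4) (nat_lit 4) (nat_lit 5) (nat_lit 4) (nat_lit 4) (nat_lit 255) (nat_lit 227) (nat_lit 118)) (XT.lf (nat_lit 0) (nat_lit 1237253274234) (nat_lit 76) (nat_lit 1360526291727) (nat_lit 76) (nat_lit 946838915410) (nat_lit 3) (nat_lit 4) (nat_lit 4) (nat_lit 5) (nat_lit 4) (nat_lit 4) (nat_lit 256) (nat_lit 227) (nat_lit 117))))))) (XT.nd (nat_lit 29094) (nat_lit 0) (nat_lit 456) (XT.nd (nat_lit 546) (nat_lit 152) (nat_lit 0) (XT.nd (nat_lit 234) (nat_lit 0) (nat_lit 0) (XT.nd (nat_lit 78) (nat_lit 0) (nat_lit 0) (XT.lf (nat_lit 0) (nat_lit 1868563370343) (nat_lit 76) (nat_lit 1292647824925) (nat_lit 76) (nat_lit 878960437250) (nat_lit 3) (nat_lit 4) (nat_lit 4) (nat_lit 5)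 (nat_lit 4) (nat_lit 4) (nat_lit 257) (nat_lit 227) (nat_lit 116)) (XT.nd (nat_lit 78) (nat_lit 0) (nat_lit 0) (XT.lf (nat_lit 0) (nat_lit 2594569957990) (nat_lit 76) (nat_lit 1214587598877) (nat_lit 76) (nat_lit 800900201326) (nat_lit 3) (nat_lit 4) (nat_lit 4) (nat_lit 5) (nat_lit 4) (nat_lit 4) (nat_lit 258) (nat_lit 227) (nat_lit 115)) (XT.lf (nat_lit 0) (nat_lit 3429477513890) (nat_lit 76) (nat_lit 1124818348291) (nat_lit 76) (nat_lit 711130942152) (nat_lit 3) (nat_lit 4) (nat_lit 4) (nat_lit 5) (nat_lit 4) (nat_lit 4) (nat_lit 259) (nat_lit 227) (nat_lit 114)))) (XT.nd (nat_lit 156) (nat_lit 0) (nat_lit 0) (XT.nd (nat_lit 78) (nat_lit 0) (nat_lit 0) (XT.lf (nat_lit 0) (nat_lit 4389621185874) (nat_lit 76) (nat_lit 1021583718264) (nat_lit 76) (nat_lit 607896304657) (nat_lit 3) (nat_lit 4) (nat_lit 4) (nat_lit 5) (nat_lit 4) (nat_lit 4) (nat_lit 260) (nat_lit 227) (nat_lit 113))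 (XT.lf (nat_lit 0) (nat_lit 5493786393613) (nat_lit 76) (nat_lit 902863900817) (nat_lit 76) (nat_lit 489176480716) (nat_lit 3) (nat_lit 4) (nat_lit 4) (nat_lit 5) (nat_lit 4) (nat_lit 4) (nat_lit 261) (nat_lit 227) (nat_lit 112))) (XT.nd (nat_lit 78) (nat_lit 0) (nat_lit 0) (XT.lf (nat_lit 0) (nat_lit 6763576369431) (nat_lit 76) (nat_lit 766336116914) (nat_lit 76) (nat_lit 352648691166) (nat_lit 3) (nat_lit 4) (nat_lit 4) (nat_lit 5) (nat_lit 4) (nat_lit 4) (nat_lit 262) (nat_lit 227) (nat_lit 111)) (XT.lf (nat_lit 0) (nat_lit 8223834830248) (nat_lit 76) (nat_lit 609329170782) (nat_lit 76) (nat_lit 195641740123) (nat_lit 3) (nat_lit 4) (nat_lit 4) (nat_lit 5) (nat_lit 4) (nat_lit 4) (nat_lit 263) (nat_lit 227) (nat_lit 110))))) (XT.nd (nat_lit 1092) (nat_lit 0) (nat_lit 0) (XT.nd (nat_lit 156) (nat_lit 76) (nat_lit 0) (XT.nd (nat_lit 78) (nat_lit 76) (nat_lit 0) (XT.lf (nat_lit 0)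 (nat_lit 9903132050296) (nat_lit 76) (nat_lit 428771187388) (nat_lit 76) (nat_lit 15083752460) (nat_lit 3) (nat_lit 4) (nat_lit 4) (nat_lit 5) (nat_lit 4) (nat_lit 4) (nat_lit 264) (nat_lit 227) (nat_lit 109)) (XT.lf (nat_lit 0) (nat_lit 175415089785) (nat_lit 152) (nat_lit 36544995602) (nat_lit 76) (nat_lit 11649739329816) (nat_lit 2) (nat_lit 5) (nat_lit 4) (nat_lit 5) (nat_lit 3) (nat_lit 4) (nat_lit 265) (nat_lit 227) (nat_lit 108))) (XT.nd (nat_lit 78) (nat_lit 0) (nat_lit 0) (XT.lf (nat_lit 0) (nat_lit 415056818287) (nat_lit 152) (nat_lit 13129808684365) (nat_lit 0) (nat_lit 55328607965) (nat_lit 1) (nat_lit 5) (nat_lit 3) (nat_lit 4) (nat_lit 1) (nat_lit 4) (nat_lit 266) (nat_lit 227) (nat_lit 107)) (XT.lf (nat_lit 0) (nat_lit 702739412956) (nat_lit 152) (nat_lit 14551898206169) (nat_lit 0) (nat_lit 343011200192) (nat_lit 1) (nat_lit 5) (nat_lit 3) (nat_lit 4) (nat_lit 1) (nat_lit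 4) (nat_lit 267) (nat_lit 227) (nat_lit 106)))) (XT.nd (nat_lit 156) (nat_lit 0) (nat_lit 0) (XT.nd (nat_lit 78) (nat_lit 0) (nat_lit 0) (XT.lf (nat_lit 0) (nat_lit 8758331449162) (nat_lit 152) (nat_lit 54372776529704) (nat_lit 0) (nat_lit 8398603223622) (nat_lit 1) (nat_lit 5) (nat_lit 3) (nat_lit 4) (nat_lit 1) (nat_lit 4) (nat_lit 278) (nat_lit 227) (nat_lit 95)) (XT.lf (nat_lit 0) (nat_lit 10297505216365) (nat_lit 152) (nat_lit 61981311271603) (nat_lit 0) (nat_lit 9937776990368) (nat_lit 1) (nat_lit 5) (nat_lit 3) (nat_lit 4) (nat_lit 1) (nat_lit 4) (nat_lit 279) (nat_lit 227) (nat_lit 94))) (XT.nd (nat_lit 27222) (nat_lit 0) (nat_lit 1368) (XT.lf (nat_lit 0) (nat_lit 12067555047986) (nat_lit 152) (nat_lit 70731126226085) (nat_lit 0) (nat_lit 11707826821592) (nat_lit 1) (nat_lit 5) (nat_lit 3) (nat_lit 4) (nat_lit 1) (nat_lit 4) (nat_lit 280) (nat_lit 227) (nat_lit 93)) (XT.lf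 (nat_lit 0) (nat_lit 49580907784) (nat_lit 0) (nat_lit 49580907784) (nat_lit 228) (nat_lit 3437895004) (nat_lit 19) (nat_lit 5) (nat_lit 19) (nat_lit 3) (nat_lit 22) (nat_lit 3) (nat_lit 228) (nat_lit 228) (nat_lit 144)))))) (XT.nd (nat_lit 624) (nat_lit 304) (nat_lit 0) (XT.nd (nat_lit 312) (nat_lit 304) (nat_lit 0) (XT.nd (nat_lit 156) (nat_lit 0) (nat_lit 0) (XT.nd (nat_lit 78) (nat_lit 304) (nat_lit 0) (XT.lf (nat_lit 0) (nat_lit 201510552851) (nat_lit 0) (nat_lit 11688641581) (nat_lit 228) (nat_lit 7389975018) (nat_lit 19) (nat_lit 5) (nat_lit 19) (nat_lit 3) (nat_lit 22) (nat_lit 3) (nat_lit 229) (nat_lit 228) (nat_lit 143)) (XT.lf (nat_lit 0) (nat_lit 263937827) (nat_lit 304) (nat_lit 152429158264) (nat_lit 380) (nat_lit 84513657965) (nat_lit 15) (nat_lit 5) (nat_lit 19) (nat_lit 5) (nat_lit 20) (nat_lit 5) (nat_lit 230) (nat_lit 228) (nat_lit 142))) (XT.nd (nat_lit 78) (nat_lit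 0) (nat_lit 76) (XT.lf (nat_lit 0) (nat_lit 9910514666) (nat_lit 304) (nat_lit 50767134378) (nat_lit 380) (nat_lit 195346368279) (nat_lit 15) (nat_lit 5) (nat_lit 19) (nat_lit 5) (nat_lit 20) (nat_lit 5) (nat_lit 231) (nat_lit 228) (nat_lit 141)) (XT.lf (nat_lit 0) (nat_lit 26022765998) (nat_lit 304) (nat_lit 206617123824) (nat_lit 76) (nat_lit 44271178778) (nat_lit 16) (nat_lit 5) (nat_lit 20) (nat_lit 5) (nat_lit 17) (nat_lit 5) (nat_lit 232) (nat_lit 228) (nat_lit 140)))) (XT.nd (nat_lit 156) (nat_lit 152) (nat_lit 0) (XT.nd (nat_lit 78) (nat_lit 228) (nat_lit 0) (XT.lf (nat_lit 0) (nat_lit 50221205418) (nat_lit 304) (nat_lit 88329348712) (nat_lit 76) (nat_lit 161530222371) (nat_lit 16) (nat_lit 5) (nat_lit 20) (nat_lit 5) (nat_lit 17) (nat_lit 5) (nat_lit 233) (nat_lit 228) (nat_lit 139)) (XT.lf (nat_lit 0) (nat_lit 52363176193) (nat_lit 228) (nat_lit 27854337282) (nat_lit 304)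 (nat_lit 246183213001) (nat_lit 13) (nat_lit 5) (nat_lit 16) (nat_lit 5) (nat_lit 17) (nat_lit 5) (nat_lit 234) (nat_lit 228) (nat_lit 138))) (XT.nd (nat_lit 78) (nat_lit 152) (nat_lit 0) (XT.lf (nat_lit 0) (nat_lit 123668078690) (nat_lit 304) (nat_lit 136227381790) (nat_lit 76) (nat_lit 95429987950) (nat_lit 13) (nat_lit 5) (nat_lit 17) (nat_lit 5) (nat_lit 14) (nat_lit 5) (nat_lit 235) (nat_lit 228) (nat_lit 137)) (XT.lf (nat_lit 0) (nat_lit 22972988157) (nat_lit 152) (nat_lit 152940785085) (nat_lit 228) (nat_lit 212333474732) (nat_lit 11) (nat_lit 5) (nat_lit 13) (nat_lit 5) (nat_lit 14) (nat_lit 5) (nat_lit 236) (nat_lit 228) (nat_lit 136))))) (XT.nd (nat_lit 312) (nat_lit 228) (nat_lit 0) (XT.nd (nat_lit 156) (nat_lit 76) (nat_lit 0) (XT.nd (nat_lit 78) (nat_lit 0) (nat_lit 0) (XT.lf (nat_lit 0) (nat_lit 221363379002) (nat_lit 152) (nat_lit 21753814254) (nat_lit 228) (nat_lit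 181921994354) (nat_lit 11) (nat_lit 5) (nat_lit 13) (nat_lit 5) (nat_lit 14) (nat_lit 5) (nat_lit 237) (nat_lit 228) (nat_lit 135)) (XT.lf (nat_lit 0) (nat_lit 325747253039) (nat_lit 228) (nat_lit 23183939819) (nat_lit 76) (nat_lit 117616807060) (nat_lit 11) (nat_lit 5) (nat_lit 14) (nat_lit 5) (nat_lit 12) (nat_lit 4) (nat_lit 238) (nat_lit 228) (nat_lit 134))) (XT.nd (nat_lit 78) (nat_lit 0) (nat_lit 0) (XT.lf (nat_lit 0) (nat_lit 201263575064) (nat_lit 76) (nat_lit 228877957405) (nat_lit 152) (nat_lit 82736145644) (nat_lit 10) (nat_lit 5) (nat_lit 11) (nat_lit 5) (nat_lit 12) (nat_lit 4) (nat_lit 239) (nat_lit 228) (nat_lit 133)) (XT.lf (nat_lit 0) (nat_lit 461983667511) (nat_lit 76) (nat_lit 89423099419) (nat_lit 152) (nat_lit 14568269701) (nat_lit 10) (nat_lit 5) (nat_lit 11) (nat_lit 5) (nat_lit 12) (nat_lit 4) (nat_lit 240) (nat_lit 228) (nat_lit 132)))) (XT.nd (nat_lit 156)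 (nat_lit 76) (nat_lit 0) (XT.nd (nat_lit 78) (nat_lit 0) (nat_lit 0) (XT.lf (nat_lit 0) (nat_lit 67498323145) (nat_lit 152) (nat_lit 484044711281) (nat_lit 76) (nat_lit 73694188752) (nat_lit 8) (nat_lit 5) (nat_lit 10) (nat_lit 5) (nat_lit 9) (nat_lit 4) (nat_lit 241) (nat_lit 228) (nat_lit 131)) (XT.lf (nat_lit 0) (nat_lit 170336334975) (nat_lit 152) (nat_lit 262943092130) (nat_lit 76) (nat_lit 258512310393) (nat_lit 8) (nat_lit 5) (nat_lit 10) (nat_lit 5) (nat_lit 9) (nat_lit 4) (nat_lit 242) (nat_lit 228) (nat_lit 130))) (XT.nd (nat_lit 78) (nat_lit 76) (nat_lit 0) (XT.lf (nat_lit 0) (nat_lit 288599992147) (nat_lit 152) (nat_lit 8676321632) (nat_lit 76) (nat_lit 471053123975) (nat_lit 8) (nat_lit 5) (nat_lit 10) (nat_lit 5) (nat_lit 9) (nat_lit 4) (nat_lit 243) (nat_lit 228) (nat_lit 129)) (XT.lf (nat_lit 0) (nat_lit 311458581555) (nat_lit 76) (nat_lit 126041402942) (nat_lit 152)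 (nat_lit 416913290837) (nat_lit 7) (nat_lit 5) (nat_lit 8) (nat_lit 5) (nat_lit 9) (nat_lit 4) (nat_lit 244) (nat_lit 228) (nat_lit 128))))))))
noncomputable def xc53 : XT := (XT.nd (nat_lit 30342) (nat_lit 0) (nat_lit 152) (XT.nd (nat_lit 1170) (nat_lit 152) (nat_lit 0) (XT.nd (nat_lit 546) (nat_lit 76) (nat_lit 0) (XT.nd (nat_lit 234) (nat_lit 152) (nat_lit 0) (XT.nd (nat_lit 78) (nat_lit 76) (nat_lit 0) (XT.lf (nat_lit 0) (nat_lit 612144998195) (nat_lit 152) (nat_lit 275709454246) (nat_lit 0) (nat_lit 65043732978) (nat_lit 7) (nat_lit 5) (nat_lit 9) (nat_lit 4) (nat_lit 7) (nat_lit 4) (nat_lit 245) (nat_lit 228) (nat_lit 127)) (XT.nd (nat_lit 78) (nat_lit 0) (nat_lit 0) (XT.lf (nat_lit 0) (nat_lit 28124352860) (nat_lit 76) (nat_lit 792028911205) (nat_lit 76) (nat_lit 244927593146) (nat_lit 6) (nat_lit 4) (nat_lit 7) (nat_lit 5) (nat_lit 7) (nat_lit 4) (nat_lit 246) (nat_lit 228)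 (nat_lit 126)) (XT.lf (nat_lit 0) (nat_lit 408519146090) (nat_lit 76) (nat_lit 665255670434) (nat_lit 76) (nat_lit 118154306425) (nat_lit 6) (nat_lit 4) (nat_lit 7) (nat_lit 5) (nat_lit 7) (nat_lit 4) (nat_lit 247) (nat_lit 228) (nat_lit 125)))) (XT.nd (nat_lit 156) (nat_lit 76) (nat_lit 0) (XT.nd (nat_lit 78) (nat_lit 0) (nat_lit 0) (XT.lf (nat_lit 0) (nat_lit 25174681753) (nat_lit 152) (nat_lit 492975838195) (nat_lit 76) (nat_lit 819482468210) (nat_lit 5) (nat_lit 5) (nat_lit 7) (nat_lit 5) (nat_lit 6) (nat_lit 4) (nat_lit 248) (nat_lit 228) (nat_lit 124)) (XT.lf (nat_lit 0) (nat_lit 177906237193) (nat_lit 152) (nat_lit 164603028743) (nat_lit 76) (nat_lit 1161839212583) (nat_lit 5) (nat_lit 5) (nat_lit 7) (nat_lit 5) (nat_lit 6) (nat_lit 4) (nat_lit 249) (nat_lit 228) (nat_lit 123))) (XT.nd (nat_lit 78) (nat_lit 0) (nat_lit 0) (XT.lf (nat_lit 0) (nat_lit 233844071023) (nat_lit 76)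 (nat_lit 129386412671) (nat_lit 152) (nat_lit 1331388365182) (nat_lit 4) (nat_lit 5) (nat_lit 5) (nat_lit 5) (nat_lit 6) (nat_lit 4) (nat_lit 250) (nat_lit 228) (nat_lit 122)) (XT.lf (nat_lit 0) (nat_lit 590158408616) (nat_lit 152) (nat_lit 1206782632034) (nat_lit 0) (nat_lit 114417978013) (nat_lit 4) (nat_lit 5) (nat_lit 6) (nat_lit 4) (nat_lit 4) (nat_lit 4) (nat_lit 251) (nat_lit 228) (nat_lit 121))))) (XT.nd (nat_lit 312) (nat_lit 0) (nat_lit 0) (XT.nd (nat_lit 156) (nat_lit 76) (nat_lit 0) (XT.nd (nat_lit 78) (nat_lit 0) (nat_lit 0) (XT.lf (nat_lit 0) (nat_lit 857286757580) (nat_lit 152) (nat_lit 920852964009) (nat_lit 0) (nat_lit 381546307112) (nat_lit 4) (nat_lit 5) (nat_lit 6) (nat_lit 4) (nat_lit 4) (nat_lit 4) (nat_lit 252) (nat_lit 228) (nat_lit 120)) (XT.lf (nat_lit 0) (nat_lit 1164484339375) (nat_lit 152) (nat_lit 592033882232) (nat_lit 0) (nat_lit 688743871632) (nat_lit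 4) (nat_lit 5) (nat_lit 6) (nat_lit 4) (nat_lit 4) (nat_lit 4) (nat_lit 253) (nat_lit 228) (nat_lit 119))) (XT.nd (nat_lit 78) (nat_lit 76) (nat_lit 0) (XT.lf (nat_lit 0) (nat_lit 1517761541470) (nat_lit 152) (nat_lit 213891969887) (nat_lit 0) (nat_lit 1042021058707) (nat_lit 4) (nat_lit 5) (nat_lit 6) (nat_lit 4) (nat_lit 4) (nat_lit 4) (nat_lit 254) (nat_lit 228) (nat_lit 118)) (XT.lf (nat_lit 0) (nat_lit 242566114642) (nat_lit 76) (nat_lit 1691508340016) (nat_lit 76) (nat_lit 1215767844190) (nat_lit 3) (nat_lit 4) (nat_lit 4) (nat_lit 5) (nat_lit 4) (nat_lit 4) (nat_lit 255) (nat_lit 228) (nat_lit 117)))) (XT.nd (nat_lit 156) (nat_lit 0) (nat_lit 0) (XT.nd (nat_lit 78) (nat_lit 0) (nat_lit 0) (XT.lf (nat_lit 0) (nat_lit 791531426248) (nat_lit 76) (nat_lit 1632483581264) (nat_lit 76) (nat_lit 1156743074080) (nat_lit 3) (nat_lit 4) (nat_lit 4) (nat_lit 5) (nat_lit 4) (nat_lit 4) (nat_lit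 256) (nat_lit 228) (nat_lit 116)) (XT.lf (nat_lit 0) (nat_lit 1422841511716) (nat_lit 76) (nat_lit 1564605119473) (nat_lit 76) (nat_lit 1088864602413) (nat_lit 3) (nat_lit 4) (nat_lit 4) (nat_lit 5) (nat_lit 4) (nat_lit 4) (nat_lit 257) (nat_lit 228) (nat_lit 115))) (XT.nd (nat_lit 78) (nat_lit 0) (nat_lit 0) (XT.lf (nat_lit 0) (nat_lit 2148848090110) (nat_lit 76) (nat_lit 1486544897783) (nat_lit 76) (nat_lit 1010804372134) (nat_lit 3) (nat_lit 4) (nat_lit 4) (nat_lit 5) (nat_lit 4) (nat_lit 4) (nat_lit 258) (nat_lit 228) (nat_lit 114)) (XT.lf (nat_lit 0) (nat_lit 2983755637963) (nat_lit 76) (nat_lit 1396775650986) (nat_lit 76) (nat_lit 921035117870) (nat_lit 3) (nat_lit 4) (nat_lit 4) (nat_lit 5) (nat_lit 4) (nat_lit 4) (nat_lit 259) (nat_lit 228) (nat_lit 113)))))) (XT.nd (nat_lit 624) (nat_lit 0) (nat_lit 0) (XT.nd (nat_lit 312) (nat_lit 152) (nat_lit 0) (XT.nd (nat_lit 156) (nat_lit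 0) (nat_lit 0) (XT.nd (nat_lit 78) (nat_lit 0) (nat_lit 0) (XT.lf (nat_lit 0) (nat_lit 3943899302951) (nat_lit 76) (nat_lit 1293541024254) (nat_lit 76) (nat_lit 817800484644) (nat_lit 3) (nat_lit 4) (nat_lit 4) (nat_lit 5) (nat_lit 4) (nat_lit 4) (nat_lit 260) (nat_lit 228) (nat_lit 112)) (XT.lf (nat_lit 0) (nat_lit 5048064504605) (nat_lit 76) (nat_lit 1174821209673) (nat_lit 76) (nat_lit 699080664415) (nat_lit 3) (nat_lit 4) (nat_lit 4) (nat_lit 5) (nat_lit 4) (nat_lit 4) (nat_lit 261) (nat_lit 228) (nat_lit 111))) (XT.nd (nat_lit 78) (nat_lit 0) (nat_lit 0) (XT.lf (nat_lit 0) (nat_lit 6317854475133) (nat_lit 76) (nat_lit 1038293428261) (nat_lit 76) (nat_lit 562552878093) (nat_lit 3) (nat_lit 4) (nat_lit 4) (nat_lit 5) (nat_lit 4) (nat_lit 4) (nat_lit 262) (nat_lit 228) (nat_lit 110)) (XT.lf (nat_lit 0) (nat_lit 7778112931349) (nat_lit 76) (nat_lit 881286484296) (nat_lit 76) (nat_lit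 405545929858) (nat_lit 3) (nat_lit 4) (nat_lit 4) (nat_lit 5) (nat_lit 4) (nat_lit 4) (nat_lit 263) (nat_lit 228) (nat_lit 109)))) (XT.nd (nat_lit 156) (nat_lit 152) (nat_lit 0) (XT.nd (nat_lit 78) (nat_lit 0) (nat_lit 0) (XT.lf (nat_lit 0) (nat_lit 9457410147396) (nat_lit 76) (nat_lit 700728502786) (nat_lit 76) (nat_lit 224987944635) (nat_lit 3) (nat_lit 4) (nat_lit 4) (nat_lit 5) (nat_lit 4) (nat_lit 4) (nat_lit 264) (nat_lit 228) (nat_lit 108)) (XT.lf (nat_lit 0) (nat_lit 11388601938372) (nat_lit 76) (nat_lit 493086827572) (nat_lit 76) (nat_lit 17346266192) (nat_lit 3) (nat_lit 4) (nat_lit 4) (nat_lit 5) (nat_lit 4) (nat_lit 4) (nat_lit 265) (nat_lit 228) (nat_lit 107))) (XT.nd (nat_lit 78) (nat_lit 76) (nat_lit 0) (XT.lf (nat_lit 0) (nat_lit 201727392176) (nat_lit 152) (nat_lit 42026671007) (nat_lit 76) (nat_lit 13397200258358) (nat_lit 2) (nat_lit 5) (nat_lit 4) (nat_lit 5) (nat_lit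 3) (nat_lit 4) (nat_lit 266) (nat_lit 228) (nat_lit 106)) (XT.lf (nat_lit 0) (nat_lit 477315379198) (nat_lit 152) (nat_lit 15099279912238) (nat_lit 0) (nat_lit 63627929956) (nat_lit 1) (nat_lit 5) (nat_lit 3) (nat_lit 4) (nat_lit 1) (nat_lit 4) (nat_lit 267) (nat_lit 228) (nat_lit 105))))) (XT.nd (nat_lit 28236) (nat_lit 0) (nat_lit 1064) (XT.nd (nat_lit 156) (nat_lit 0) (nat_lit 0) (XT.nd (nat_lit 78) (nat_lit 0) (nat_lit 0) (XT.lf (nat_lit 0) (nat_lit 808150358089) (nat_lit 152) (nat_lit 16734682872066) (nat_lit 0) (nat_lit 394462907001) (nat_lit 1) (nat_lit 5) (nat_lit 3) (nat_lit 4) (nat_lit 1) (nat_lit 4) (nat_lit 268) (nat_lit 228) (nat_lit 104)) (XT.lf (nat_lit 0) (nat_lit 1188610581133) (nat_lit 152) (nat_lit 18615396281121) (nat_lit 0) (nat_lit 774923128440) (nat_lit 1) (nat_lit 5) (nat_lit 3) (nat_lit 4) (nat_lit 1) (nat_lit 4) (nat_lit 269) (nat_lit 228) (nat_lit 103)))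 (XT.nd (nat_lit 78) (nat_lit 0) (nat_lit 0) (XT.lf (nat_lit 0) (nat_lit 1626139835302) (nat_lit 152) (nat_lit 20778216706100) (nat_lit 0) (nat_lit 1212452381213) (nat_lit 1) (nat_lit 5) (nat_lit 3) (nat_lit 4) (nat_lit 1) (nat_lit 4) (nat_lit 270) (nat_lit 228) (nat_lit 102)) (XT.lf (nat_lit 0) (nat_lit 2129298475571) (nat_lit 152) (nat_lit 23265460198798) (nat_lit 0) (nat_lit 1715611020268) (nat_lit 1) (nat_lit 5) (nat_lit 3) (nat_lit 4) (nat_lit 1) (nat_lit 4) (nat_lit 271) (nat_lit 228) (nat_lit 101)))) (XT.nd (nat_lit 156) (nat_lit 304) (nat_lit 0) (XT.nd (nat_lit 78) (nat_lit 0) (nat_lit 0) (XT.lf (nat_lit 0) (nat_lit 57018662704) (nat_lit 0) (nat_lit 57018662704) (nat_lit 228) (nat_lit 3952142093) (nat_lit 19) (nat_lit 5) (nat_lit 19) (nat_lit 3) (nat_lit 22) (nat_lit 3) (nat_lit 229) (nat_lit 229) (nat_lit 142)) (XT.lf (nat_lit 0) (nat_lit 231738211869) (nat_lit 0) (nat_lit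 13443013908) (nat_lit 228) (nat_lit 8495971859) (nat_lit 19) (nat_lit 5) (nat_lit 19) (nat_lit 3) (nat_lit 22) (nat_lit 3) (nat_lit 230) (nat_lit 229) (nat_lit 141))) (XT.nd (nat_lit 78) (nat_lit 0) (nat_lit 0) (XT.lf (nat_lit 0) (nat_lit 305528601) (nat_lit 304) (nat_lit 175291916926) (nat_lit 380) (nat_lit 97190003167) (nat_lit 15) (nat_lit 5) (nat_lit 19) (nat_lit 5) (nat_lit 20) (nat_lit 5) (nat_lit 231) (nat_lit 229) (nat_lit 140)) (XT.lf (nat_lit 0) (nat_lit 11398831084) (nat_lit 304) (nat_lit 58380800120) (nat_lit 380) (nat_lit 224647711789) (nat_lit 15) (nat_lit 5) (nat_lit 19) (nat_lit 5) (nat_lit 20) (nat_lit 5) (nat_lit 232) (nat_lit 229) (nat_lit 139))))))) (XT.nd (nat_lit 1170) (nat_lit 228) (nat_lit 0) (XT.nd (nat_lit 546) (nat_lit 380) (nat_lit 0) (XT.nd (nat_lit 234) (nat_lit 152) (nat_lit 0) (XT.nd (nat_lit 78) (nat_lit 228) (nat_lit 0) (XT.lf (nat_lit 0) (nat_lit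 29927739360) (nat_lit 304) (nat_lit 237608093273) (nat_lit 76) (nat_lit 50911648535) (nat_lit 16) (nat_lit 5) (nat_lit 20) (nat_lit 5) (nat_lit 17) (nat_lit 5) (nat_lit 233) (nat_lit 229) (nat_lit 138)) (XT.nd (nat_lit 78) (nat_lit 228) (nat_lit 0) (XT.lf (nat_lit 0) (nat_lit 57755741416) (nat_lit 304) (nat_lit 101577360476) (nat_lit 76) (nat_lit 185759575675) (nat_lit 16) (nat_lit 5) (nat_lit 20) (nat_lit 5) (nat_lit 17) (nat_lit 5) (nat_lit 234) (nat_lit 229) (nat_lit 137)) (XT.lf (nat_lit 0) (nat_lit 60218979958) (nat_lit 228) (nat_lit 32032393920) (nat_lit 304) (nat_lit 283109266010) (nat_lit 13) (nat_lit 5) (nat_lit 16) (nat_lit 5) (nat_lit 17) (nat_lit 5) (nat_lit 235) (nat_lit 229) (nat_lit 136)))) (XT.nd (nat_lit 156) (nat_lit 0) (nat_lit 0) (XT.nd (nat_lit 78) (nat_lit 152) (nat_lit 0) (XT.lf (nat_lit 0) (nat_lit 142219366384) (nat_lit 304) (nat_lit 156660168184) (nat_lit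 76) (nat_lit 109744560568) (nat_lit 13) (nat_lit 5) (nat_lit 17) (nat_lit 5) (nat_lit 14) (nat_lit 5) (nat_lit 236) (nat_lit 229) (nat_lit 135)) (XT.lf (nat_lit 0) (nat_lit 26420197215) (nat_lit 152) (nat_lit 175881629779) (nat_lit 228) (nat_lit 244182352034) (nat_lit 11) (nat_lit 5) (nat_lit 13) (nat_lit 5) (nat_lit 14) (nat_lit 5) (nat_lit 237) (nat_lit 229) (nat_lit 134))) (XT.nd (nat_lit 78) (nat_lit 0) (nat_lit 0) (XT.lf (nat_lit 0) (nat_lit 254568982230) (nat_lit 152) (nat_lit 25016648941) (nat_lit 228) (nat_lit 209209298804) (nat_lit 11) (nat_lit 5) (nat_lit 13) (nat_lit 5) (nat_lit 14) (nat_lit 5) (nat_lit 238) (nat_lit 229) (nat_lit 133)) (XT.lf (nat_lit 0) (nat_lit 374610096437) (nat_lit 228) (nat_lit 26660467904) (nat_lit 76) (nat_lit 135259516216) (nat_lit 11) (nat_lit 5) (nat_lit 14) (nat_lit 5) (nat_lit 12) (nat_lit 4) (nat_lit 239) (nat_lit 229) (nat_lit 132))))) (XT.nd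 (nat_lit 312) (nat_lit 152) (nat_lit 0) (XT.nd (nat_lit 156) (nat_lit 152) (nat_lit 0) (XT.nd (nat_lit 78) (nat_lit 0) (nat_lit 0) (XT.lf (nat_lit 0) (nat_lit 231454125898) (nat_lit 76) (nat_lit 263209335358) (nat_lit 152) (nat_lit 95145758490) (nat_lit 10) (nat_lit 5) (nat_lit 11) (nat_lit 5) (nat_lit 12) (nat_lit 4) (nat_lit 240) (nat_lit 229) (nat_lit 131)) (XT.lf (nat_lit 0) (nat_lit 531282099877) (nat_lit 76) (nat_lit 102836289847) (nat_lit 152) (nat_lit 16752806677) (nat_lit 10) (nat_lit 5) (nat_lit 11) (nat_lit 5) (nat_lit 12) (nat_lit 4) (nat_lit 241) (nat_lit 229) (nat_lit 130))) (XT.nd (nat_lit 78) (nat_lit 0) (nat_lit 0) (XT.lf (nat_lit 0) (nat_lit 77623679257) (nat_lit 152) (nat_lit 556650432479) (nat_lit 76) (nat_lit 84748600323) (nat_lit 8) (nat_lit 5) (nat_lit 10) (nat_lit 5) (nat_lit 9) (nat_lit 4) (nat_lit 242) (nat_lit 229) (nat_lit 129)) (XT.lf (nat_lit 0) (nat_lit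 195887313605) (nat_lit 152) (nat_lit 302383698998) (nat_lit 76) (nat_lit 297289403265) (nat_lit 8) (nat_lit 5) (nat_lit 10) (nat_lit 5) (nat_lit 9) (nat_lit 4) (nat_lit 243) (nat_lit 229) (nat_lit 128)))) (XT.nd (nat_lit 156) (nat_lit 76) (nat_lit 0) (XT.nd (nat_lit 78) (nat_lit 76) (nat_lit 0) (XT.lf (nat_lit 0) (nat_lit 331890450433) (nat_lit 152) (nat_lit 9977024701) (nat_lit 76) (nat_lit 541711306755) (nat_lit 8) (nat_lit 5) (nat_lit 10) (nat_lit 5) (nat_lit 9) (nat_lit 4) (nat_lit 244) (nat_lit 229) (nat_lit 127)) (XT.lf (nat_lit 0) (nat_lit 358178080092) (nat_lit 76) (nat_lit 144947331067) (nat_lit 152) (nat_lit 479449788860) (nat_lit 7) (nat_lit 5) (nat_lit 8) (nat_lit 5) (nat_lit 9) (nat_lit 4) (nat_lit 245) (nat_lit 229) (nat_lit 126))) (XT.nd (nat_lit 78) (nat_lit 76) (nat_lit 0) (XT.lf (nat_lit 0) (nat_lit 703967131122) (nat_lit 152) (nat_lit 317065206097) (nat_lit 0) (nat_lit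 74800516563) (nat_lit 7) (nat_lit 5) (nat_lit 9) (nat_lit 4) (nat_lit 7) (nat_lit 4) (nat_lit 246) (nat_lit 229) (nat_lit 125)) (XT.lf (nat_lit 0) (nat_lit 32343641790) (nat_lit 76) (nat_lit 910832971436) (nat_lit 76) (nat_lit 281666316920) (nat_lit 6) (nat_lit 4) (nat_lit 7) (nat_lit 5) (nat_lit 7) (nat_lit 4) (nat_lit 247) (nat_lit 229) (nat_lit 124)))))) (XT.nd (nat_lit 624) (nat_lit 76) (nat_lit 0) (XT.nd (nat_lit 312) (nat_lit 0) (nat_lit 0) (XT.nd (nat_lit 156) (nat_lit 76) (nat_lit 0) (XT.nd (nat_lit 78) (nat_lit 76) (nat_lit 0) (XT.lf (nat_lit 0) (nat_lit 469797571048) (nat_lit 76) (nat_lit 765043780608) (nat_lit 76) (nat_lit 135877091347) (nat_lit 6) (nat_lit 4) (nat_lit 7) (nat_lit 5) (nat_lit 7) (nat_lit 4) (nat_lit 248) (nat_lit 229) (nat_lit 123)) (XT.lf (nat_lit 0) (nat_lit 28951170015) (nat_lit 152) (nat_lit 566921703939) (nat_lit 76) (nat_lit 942405018401) (nat_lit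 5) (nat_lit 5) (nat_lit 7) (nat_lit 5) (nat_lit 6) (nat_lit 4) (nat_lit 249) (nat_lit 229) (nat_lit 122))) (XT.nd (nat_lit 78) (nat_lit 76) (nat_lit 0) (XT.lf (nat_lit 0) (nat_lit 204592421467) (nat_lit 152) (nat_lit 189293039589) (nat_lit 76) (nat_lit 1336115250956) (nat_lit 5) (nat_lit 5) (nat_lit 7) (nat_lit 5) (nat_lit 6) (nat_lit 4) (nat_lit 250) (nat_lit 229) (nat_lit 121)) (XT.lf (nat_lit 0) (nat_lit 268921104985) (nat_lit 76) (nat_lit 148794185049) (nat_lit 152) (nat_lit 1531096350254) (nat_lit 4) (nat_lit 5) (nat_lit 5) (nat_lit 5) (nat_lit 6) (nat_lit 4) (nat_lit 251) (nat_lit 229) (nat_lit 120)))) (XT.nd (nat_lit 156) (nat_lit 0) (nat_lit 0) (XT.nd (nat_lit 78) (nat_lit 0) (nat_lit 0) (XT.lf (nat_lit 0) (nat_lit 678682380024) (nat_lit 152) (nat_lit 1387799634334) (nat_lit 0) (nat_lit 131580824846) (nat_lit 4) (nat_lit 5) (nat_lit 6) (nat_lit 4) (nat_lit 4) (nat_lit 4) (nat_lit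 252) (nat_lit 229) (nat_lit 119)) (XT.lf (nat_lit 0) (nat_lit 985879953926) (nat_lit 152) (nat_lit 1058980567301) (nat_lit 0) (nat_lit 438778383727) (nat_lit 4) (nat_lit 5) (nat_lit 6) (nat_lit 4) (nat_lit 4) (nat_lit 4) (nat_lit 253) (nat_lit 229) (nat_lit 118))) (XT.nd (nat_lit 78) (nat_lit 0) (nat_lit 0) (XT.lf (nat_lit 0) (nat_lit 1339157149159) (nat_lit 152) (nat_lit 680838667777) (nat_lit 0) (nat_lit 792055565898) (nat_lit 4) (nat_lit 5) (nat_lit 6) (nat_lit 4) (nat_lit 4) (nat_lit 4) (nat_lit 254) (nat_lit 229) (nat_lit 117)) (XT.lf (nat_lit 0) (nat_lit 1745425910845) (nat_lit 152) (nat_lit 245975507292) (nat_lit 0) (nat_lit 1198324316226) (nat_lit 4) (nat_lit 5) (nat_lit 6) (nat_lit 4) (nat_lit 4) (nat_lit 4) (nat_lit 255) (nat_lit 229) (nat_lit 116))))) (XT.nd (nat_lit 312) (nat_lit 0) (nat_lit 0) (XT.nd (nat_lit 156) (nat_lit 0) (nat_lit 0) (XT.nd (nat_lit 78) (nat_lit 0)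 (nat_lit 0) (XT.lf (nat_lit 0) (nat_lit 278951278186) (nat_lit 76) (nat_lit 1945234475006) (nat_lit 76) (nat_lit 1398132870510) (nat_lit 3) (nat_lit 4) (nat_lit 4) (nat_lit 5) (nat_lit 4) (nat_lit 4) (nat_lit 256) (nat_lit 229) (nat_lit 115)) (XT.lf (nat_lit 0) (nat_lit 910261354401) (nat_lit 76) (nat_lit 1877356017573) (nat_lit 76) (nat_lit 1330254404489) (nat_lit 3) (nat_lit 4) (nat_lit 4) (nat_lit 5) (nat_lit 4) (nat_lit 4) (nat_lit 257) (nat_lit 229) (nat_lit 114))) (XT.nd (nat_lit 78) (nat_lit 0) (nat_lit 0) (XT.lf (nat_lit 0) (nat_lit 1636267924748) (nat_lit 76) (nat_lit 1799295799672) (nat_lit 76) (nat_lit 1252194179120) (nat_lit 3) (nat_lit 4) (nat_lit 4) (nat_lit 5) (nat_lit 4) (nat_lit 4) (nat_lit 258) (nat_lit 229) (nat_lit 113)) (XT.lf (nat_lit 0) (nat_lit 2471175465604) (nat_lit 76) (nat_lit 1709526556170) (nat_lit 76) (nat_lit 1162424929124) (nat_lit 3) (nat_lit 4) (nat_lit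 4) (nat_lit 5) (nat_lit 4) (nat_lit 4) (nat_lit 259) (nat_lit 229) (nat_lit 112)))) (XT.nd (nat_lit 156) (nat_lit 0) (nat_lit 0) (XT.nd (nat_lit 78) (nat_lit 0) (nat_lit 0) (XT.lf (nat_lit 0) (nat_lit 3431319124507) (nat_lit 76) (nat_lit 1606291932303) (nat_lit 76) (nat_lit 1059190299610) (nat_lit 3) (nat_lit 4) (nat_lit 4) (nat_lit 5) (nat_lit 4) (nat_lit 4) (nat_lit 260) (nat_lit 229) (nat_lit 111)) (XT.lf (nat_lit 0) (nat_lit 4535484320871) (nat_lit 76) (nat_lit 1487572120214) (nat_lit 76) (nat_lit 940470482610) (nat_lit 3) (nat_lit 4) (nat_lit 4) (nat_lit 5) (nat_lit 4) (nat_lit 4) (nat_lit 261) (nat_lit 229) (nat_lit 110))) (XT.nd (nat_lit 78) (nat_lit 0) (nat_lit 0) (XT.lf (nat_lit 0) (nat_lit 5805274286799) (nat_lit 76) (nat_lit 1351044340968) (nat_lit 76) (nat_lit 803942699095) (nat_lit 3) (nat_lit 4) (nat_lit 4) (nat_lit 5) (nat_lit 4) (nat_lit 4) (nat_lit 262) (nat_lit 229)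 (nat_lit 109)) (XT.lf (nat_lit 0) (nat_lit 7265532739014) (nat_lit 76) (nat_lit 1194037398887) (nat_lit 76) (nat_lit 646935753301) (nat_lit 3) (nat_lit 4) (nat_lit 4) (nat_lit 5) (nat_lit 4) (nat_lit 4) (nat_lit 263) (nat_lit 229) (nat_lit 108))))))))
noncomputable def xc54 : XT := (XT.nd (nat_lit 30342) (nat_lit 0) (nat_lit 0) (XT.nd (nat_lit 29094) (nat_lit 0) (nat_lit 304) (XT.nd (nat_lit 546) (nat_lit 0) (nat_lit 0) (XT.nd (nat_lit 234) (nat_lit 152) (nat_lit 0) (XT.nd (nat_lit 78) (nat_lit 0) (nat_lit 0) (XT.lf (nat_lit 0) (nat_lit 8944829951583) (nat_lit 76) (nat_lit 1013479419015) (nat_lit 76) (nat_lit 466377770200) (nat_lit 3) (nat_lit 4) (nat_lit 4) (nat_lit 5) (nat_lit 4) (nat_lit 4) (nat_lit 264) (nat_lit 229) (nat_lit 107)) (XT.nd (nat_lit 78) (nat_lit 0) (nat_lit 0) (XT.lf (nat_lit 0) (nat_lit 10876021739533) (nat_lit 76) (nat_lit 805837745226) (nat_lit 76) (nat_lit 258736093603)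 (nat_lit 3) (nat_lit 4) (nat_lit 4) (nat_lit 5) (nat_lit 4) (nat_lit 4) (nat_lit 265) (nat_lit 229) (nat_lit 106)) (XT.lf (nat_lit 0) (nat_lit 13096892290021) (nat_lit 76) (nat_lit 567049823031) (nat_lit 76) (nat_lit 19948168967) (nat_lit 3) (nat_lit 4) (nat_lit 4) (nat_lit 5) (nat_lit 4) (nat_lit 4) (nat_lit 266) (nat_lit 229) (nat_lit 105)))) (XT.nd (nat_lit 156) (nat_lit 0) (nat_lit 0) (XT.nd (nat_lit 78) (nat_lit 76) (nat_lit 0) (XT.lf (nat_lit 0) (nat_lit 231986530434) (nat_lit 152) (nat_lit 48330615752) (nat_lit 76) (nat_lit 15406780319093) (nat_lit 2) (nat_lit 5) (nat_lit 4) (nat_lit 5) (nat_lit 3) (nat_lit 4) (nat_lit 267) (nat_lit 229) (nat_lit 104)) (XT.lf (nat_lit 0) (nat_lit 548912714939) (nat_lit 152) (nat_lit 17364171842527) (nat_lit 0) (nat_lit 73172142737) (nat_lit 1) (nat_lit 5) (nat_lit 3) (nat_lit 4) (nat_lit 1) (nat_lit 4) (nat_lit 268) (nat_lit 229) (nat_lit 103)))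 (XT.nd (nat_lit 78) (nat_lit 0) (nat_lit 0) (XT.lf (nat_lit 0) (nat_lit 929372936899) (nat_lit 152) (nat_lit 19244885253706) (nat_lit 0) (nat_lit 453632363301) (nat_lit 1) (nat_lit 5) (nat_lit 3) (nat_lit 4) (nat_lit 1) (nat_lit 4) (nat_lit 269) (nat_lit 229) (nat_lit 102)) (XT.lf (nat_lit 0) (nat_lit 1366902190126) (nat_lit 152) (nat_lit 21407705680532) (nat_lit 0) (nat_lit 891161615314) (nat_lit 1) (nat_lit 5) (nat_lit 3) (nat_lit 4) (nat_lit 1) (nat_lit 4) (nat_lit 270) (nat_lit 229) (nat_lit 101))))) (XT.nd (nat_lit 28236) (nat_lit 0) (nat_lit 1064) (XT.nd (nat_lit 28080) (nat_lit 0) (nat_lit 1368) (XT.nd (nat_lit 78) (nat_lit 0) (nat_lit 0) (XT.lf (nat_lit 0) (nat_lit 1870060829574) (nat_lit 152) (nat_lit 23894949174836) (nat_lit 0) (nat_lit 1394320253707) (nat_lit 1) (nat_lit 5) (nat_lit 3) (nat_lit 4) (nat_lit 1) (nat_lit 4) (nat_lit 271) (nat_lit 229) (nat_lit 100)) (XT.lf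 (nat_lit 0) (nat_lit 2448693263408) (nat_lit 152) (nat_lit 26755279196287) (nat_lit 0) (nat_lit 1972952686622) (nat_lit 1) (nat_lit 5) (nat_lit 3) (nat_lit 4) (nat_lit 1) (nat_lit 4) (nat_lit 272) (nat_lit 229) (nat_lit 99))) (XT.nd (nat_lit 78) (nat_lit 0) (nat_lit 0) (XT.lf (nat_lit 0) (nat_lit 65571929974) (nat_lit 0) (nat_lit 65571929974) (nat_lit 228) (nat_lit 4543876707) (nat_lit 19) (nat_lit 5) (nat_lit 19) (nat_lit 3) (nat_lit 22) (nat_lit 3) (nat_lit 230) (nat_lit 230) (nat_lit 140)) (XT.lf (nat_lit 0) (nat_lit 266499757328) (nat_lit 0) (nat_lit 15460279672) (nat_lit 228) (nat_lit 9768477724) (nat_lit 19) (nat_lit 5) (nat_lit 19) (nat_lit 3) (nat_lit 22) (nat_lit 3) (nat_lit 231) (nat_lit 230) (nat_lit 139)))) (XT.nd (nat_lit 156) (nat_lit 0) (nat_lit 76) (XT.nd (nat_lit 78) (nat_lit 0) (nat_lit 0) (XT.lf (nat_lit 0) (nat_lit 352870254) (nat_lit 304) (nat_lit 201584483235)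 (nat_lit 380) (nat_lit 111767971701) (nat_lit 15) (nat_lit 5) (nat_lit 19) (nat_lit 5) (nat_lit 20) (nat_lit 5) (nat_lit 232) (nat_lit 230) (nat_lit 138)) (XT.lf (nat_lit 0) (nat_lit 13109970845) (nat_lit 304) (nat_lit 67136858199) (nat_lit 380) (nat_lit 258344406000) (nat_lit 15) (nat_lit 5) (nat_lit 19) (nat_lit 5) (nat_lit 20) (nat_lit 5) (nat_lit 233) (nat_lit 230) (nat_lit 137))) (XT.nd (nat_lit 78) (nat_lit 0) (nat_lit 0) (XT.lf (nat_lit 0) (nat_lit 34418078685) (nat_lit 304) (nat_lit 273248098096) (nat_lit 76) (nat_lit 58548239248) (nat_lit 16) (nat_lit 5) (nat_lit 20) (nat_lit 5) (nat_lit 17) (nat_lit 5) (nat_lit 234) (nat_lit 230) (nat_lit 136)) (XT.lf (nat_lit 0) (nat_lit 66420127342) (nat_lit 304) (nat_lit 116812913097) (nat_lit 76) (nat_lit 213623375880) (nat_lit 16) (nat_lit 5) (nat_lit 20) (nat_lit 5) (nat_lit 17) (nat_lit 5) (nat_lit 235) (nat_lit 230) (nat_lit 135))))))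 (XT.nd (nat_lit 624) (nat_lit 228) (nat_lit 0) (XT.nd (nat_lit 312) (nat_lit 228) (nat_lit 0) (XT.nd (nat_lit 156) (nat_lit 152) (nat_lit 0) (XT.nd (nat_lit 78) (nat_lit 0) (nat_lit 0) (XT.lf (nat_lit 0) (nat_lit 69252830610) (nat_lit 228) (nat_lit 36837181966) (nat_lit 304) (nat_lit 325574575426) (nat_lit 13) (nat_lit 5) (nat_lit 16) (nat_lit 5) (nat_lit 17) (nat_lit 5) (nat_lit 236) (nat_lit 230) (nat_lit 134)) (XT.lf (nat_lit 0) (nat_lit 163553084869) (nat_lit 304) (nat_lit 180158194641) (nat_lit 76) (nat_lit 126206300929) (nat_lit 13) (nat_lit 5) (nat_lit 17) (nat_lit 5) (nat_lit 14) (nat_lit 5) (nat_lit 237) (nat_lit 230) (nat_lit 133))) (XT.nd (nat_lit 78) (nat_lit 0) (nat_lit 0) (XT.lf (nat_lit 0) (nat_lit 30384180169) (nat_lit 152) (nat_lit 202263667767) (nat_lit 228) (nat_lit 280808839880) (nat_lit 11) (nat_lit 5) (nat_lit 13) (nat_lit 5) (nat_lit 14) (nat_lit 5) (nat_lit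 238) (nat_lit 230) (nat_lit 132)) (XT.lf (nat_lit 0) (nat_lit 292755158583) (nat_lit 152) (nat_lit 28768966735) (nat_lit 228) (nat_lit 240589941487) (nat_lit 11) (nat_lit 5) (nat_lit 13) (nat_lit 5) (nat_lit 14) (nat_lit 5) (nat_lit 239) (nat_lit 230) (nat_lit 131)))) (XT.nd (nat_lit 156) (nat_lit 152) (nat_lit 0) (XT.nd (nat_lit 78) (nat_lit 76) (nat_lit 0) (XT.lf (nat_lit 0) (nat_lit 430802182125) (nat_lit 228) (nat_lit 30658734393) (nat_lit 76) (nat_lit 155548585877) (nat_lit 11) (nat_lit 5) (nat_lit 14) (nat_lit 5) (nat_lit 12) (nat_lit 4) (nat_lit 240) (nat_lit 230) (nat_lit 130)) (XT.lf (nat_lit 0) (nat_lit 266173011948) (nat_lit 76) (nat_lit 302690496979) (nat_lit 152) (nat_lit 109417010542) (nat_lit 10) (nat_lit 5) (nat_lit 11) (nat_lit 5) (nat_lit 12) (nat_lit 4) (nat_lit 241) (nat_lit 230) (nat_lit 129))) (XT.nd (nat_lit 78) (nat_lit 152) (nat_lit 0) (XT.lf (nat_lit 0) (nat_lit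 610975081958) (nat_lit 76) (nat_lit 118261525775) (nat_lit 152) (nat_lit 19265195747) (nat_lit 10) (nat_lit 5) (nat_lit 11) (nat_lit 5) (nat_lit 12) (nat_lit 4) (nat_lit 242) (nat_lit 230) (nat_lit 128)) (XT.lf (nat_lit 0) (nat_lit 89267690609) (nat_lit 152) (nat_lit 640147252176) (nat_lit 76) (nat_lit 97461104556) (nat_lit 8) (nat_lit 5) (nat_lit 10) (nat_lit 5) (nat_lit 9) (nat_lit 4) (nat_lit 243) (nat_lit 230) (nat_lit 127))))) (XT.nd (nat_lit 312) (nat_lit 152) (nat_lit 0) (XT.nd (nat_lit 156) (nat_lit 76) (nat_lit 0) (XT.nd (nat_lit 78) (nat_lit 0) (nat_lit 0) (XT.lf (nat_lit 0) (nat_lit 225270810179) (nat_lit 152) (nat_lit 347740605869) (nat_lit 76) (nat_lit 341883000002) (nat_lit 8) (nat_lit 5) (nat_lit 10) (nat_lit 5) (nat_lit 9) (nat_lit 4) (nat_lit 244) (nat_lit 230) (nat_lit 126)) (XT.lf (nat_lit 0) (nat_lit 381674365418) (nat_lit 152) (nat_lit 11473014947) (nat_lit 76)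 (nat_lit 622968164723) (nat_lit 8) (nat_lit 5) (nat_lit 10) (nat_lit 5) (nat_lit 9) (nat_lit 4) (nat_lit 245) (nat_lit 230) (nat_lit 125))) (XT.nd (nat_lit 78) (nat_lit 0) (nat_lit 0) (XT.lf (nat_lit 0) (nat_lit 411905329954) (nat_lit 76) (nat_lit 166689217255) (nat_lit 152) (nat_lit 551366882442) (nat_lit 7) (nat_lit 5) (nat_lit 8) (nat_lit 5) (nat_lit 9) (nat_lit 4) (nat_lit 246) (nat_lit 230) (nat_lit 124)) (XT.lf (nat_lit 0) (nat_lit 809562490543) (nat_lit 152) (nat_lit 364624483203) (nat_lit 0) (nat_lit 86020763149) (nat_lit 7) (nat_lit 5) (nat_lit 9) (nat_lit 4) (nat_lit 7) (nat_lit 4) (nat_lit 247) (nat_lit 230) (nat_lit 123)))) (XT.nd (nat_lit 156) (nat_lit 76) (nat_lit 0) (XT.nd (nat_lit 78) (nat_lit 0) (nat_lit 0) (XT.lf (nat_lit 0) (nat_lit 37195668967) (nat_lit 76) (nat_lit 1047457708115) (nat_lit 76) (nat_lit 323915950509) (nat_lit 6) (nat_lit 4) (nat_lit 7) (nat_lit 5)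 (nat_lit 7) (nat_lit 4) (nat_lit 248) (nat_lit 230) (nat_lit 122)) (XT.lf (nat_lit 0) (nat_lit 540267624886) (nat_lit 76) (nat_lit 879800165928) (nat_lit 76) (nat_lit 156258382050) (nat_lit 6) (nat_lit 4) (nat_lit 7) (nat_lit 5) (nat_lit 7) (nat_lit 4) (nat_lit 249) (nat_lit 230) (nat_lit 121))) (XT.nd (nat_lit 78) (nat_lit 0) (nat_lit 0) (XT.lf (nat_lit 0) (nat_lit 33294061774) (nat_lit 152) (nat_lit 651959573908) (nat_lit 76) (nat_lit 1083765907235) (nat_lit 5) (nat_lit 5) (nat_lit 7) (nat_lit 5) (nat_lit 6) (nat_lit 4) (nat_lit 250) (nat_lit 230) (nat_lit 120)) (XT.lf (nat_lit 0) (nat_lit 235281472736) (nat_lit 152) (nat_lit 217686660204) (nat_lit 76) (nat_lit 1536532656926) (nat_lit 5) (nat_lit 5) (nat_lit 7) (nat_lit 5) (nat_lit 6) (nat_lit 4) (nat_lit 251) (nat_lit 230) (nat_lit 119))))))) (XT.nd (nat_lit 1170) (nat_lit 152) (nat_lit 0) (XT.nd (nat_lit 546) (nat_lit 0) (nat_lit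 0) (XT.nd (nat_lit 234) (nat_lit 76) (nat_lit 0) (XT.nd (nat_lit 78) (nat_lit 0) (nat_lit 0) (XT.lf (nat_lit 0) (nat_lit 309259590815) (nat_lit 76) (nat_lit 171113169500) (nat_lit 152) (nat_lit 1760760598857) (nat_lit 4) (nat_lit 5) (nat_lit 5) (nat_lit 5) (nat_lit 6) (nat_lit 4) (nat_lit 252) (nat_lit 230) (nat_lit 118)) (XT.nd (nat_lit 78) (nat_lit 0) (nat_lit 0) (XT.lf (nat_lit 0) (nat_lit 780484895905) (nat_lit 152) (nat_lit 1595969282695) (nat_lit 0) (nat_lit 151318062093) (nat_lit 4) (nat_lit 5) (nat_lit 6) (nat_lit 4) (nat_lit 4) (nat_lit 4) (nat_lit 253) (nat_lit 230) (nat_lit 117)) (XT.lf (nat_lit 0) (nat_lit 1133762085170) (nat_lit 152) (nat_lit 1217827394318) (nat_lit 0) (nat_lit 504595240000) (nat_lit 4) (nat_lit 5) (nat_lit 6) (nat_lit 4) (nat_lit 4) (nat_lit 4) (nat_lit 254) (nat_lit 230) (nat_lit 116)))) (XT.nd (nat_lit 156) (nat_lit 76) (nat_lit 0) (XT.nd (nat_lit 78)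 (nat_lit 0) (nat_lit 0) (XT.lf (nat_lit 0) (nat_lit 1540030841667) (nat_lit 152) (nat_lit 782964243528) (nat_lit 0) (nat_lit 910863986620) (nat_lit 4) (nat_lit 5) (nat_lit 6) (nat_lit 4) (nat_lit 4) (nat_lit 4) (nat_lit 255) (nat_lit 230) (nat_lit 115)) (XT.lf (nat_lit 0) (nat_lit 2007239901936) (nat_lit 152) (nat_lit 282871638242) (nat_lit 0) (nat_lit 1378073038302) (nat_lit 4) (nat_lit 5) (nat_lit 6) (nat_lit 4) (nat_lit 4) (nat_lit 4) (nat_lit 256) (nat_lit 230) (nat_lit 114))) (XT.nd (nat_lit 78) (nat_lit 0) (nat_lit 0) (XT.lf (nat_lit 0) (nat_lit 320794156188) (nat_lit 76) (nat_lit 2237019558534) (nat_lit 76) (nat_lit 1607852687431) (nat_lit 3) (nat_lit 4) (nat_lit 4) (nat_lit 5) (nat_lit 4) (nat_lit 4) (nat_lit 257) (nat_lit 230) (nat_lit 113)) (XT.lf (nat_lit 0) (nat_lit 1046800719539) (nat_lit 76) (nat_lit 2158959343928) (nat_lit 76) (nat_lit 1529792466331) (nat_lit 3) (nat_lit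 4) (nat_lit 4) (nat_lit 5) (nat_lit 4) (nat_lit 4) (nat_lit 258) (nat_lit 230) (nat_lit 112))))) (XT.nd (nat_lit 312) (nat_lit 0) (nat_lit 0) (XT.nd (nat_lit 156) (nat_lit 0) (nat_lit 0) (XT.nd (nat_lit 78) (nat_lit 0) (nat_lit 0) (XT.lf (nat_lit 0) (nat_lit 1881708254310) (nat_lit 76) (nat_lit 2069190103292) (nat_lit 76) (nat_lit 1440023220048) (nat_lit 3) (nat_lit 4) (nat_lit 4) (nat_lit 5) (nat_lit 4) (nat_lit 4) (nat_lit 259) (nat_lit 230) (nat_lit 111)) (XT.lf (nat_lit 0) (nat_lit 2841851907923) (nat_lit 76) (nat_lit 1965955481917) (nat_lit 76) (nat_lit 1336788593763) (nat_lit 3) (nat_lit 4) (nat_lit 4) (nat_lit 5) (nat_lit 4) (nat_lit 4) (nat_lit 260) (nat_lit 230) (nat_lit 110))) (XT.nd (nat_lit 78) (nat_lit 0) (nat_lit 0) (XT.lf (nat_lit 0) (nat_lit 3946017099687) (nat_lit 76) (nat_lit 1847235671994) (nat_lit 76) (nat_lit 1218068779569) (nat_lit 3) (nat_lit 4) (nat_lit 4) (nat_lit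 5) (nat_lit 4) (nat_lit 4) (nat_lit 261) (nat_lit 230) (nat_lit 109)) (XT.lf (nat_lit 0) (nat_lit 5215807061613) (nat_lit 76) (nat_lit 1710707894632) (nat_lit 76) (nat_lit 1081540998495) (nat_lit 3) (nat_lit 4) (nat_lit 4) (nat_lit 5) (nat_lit 4) (nat_lit 4) (nat_lit 262) (nat_lit 230) (nat_lit 108)))) (XT.nd (nat_lit 156) (nat_lit 0) (nat_lit 0) (XT.nd (nat_lit 78) (nat_lit 0) (nat_lit 0) (XT.lf (nat_lit 0) (nat_lit 6676065510350) (nat_lit 76) (nat_lit 1553700954189) (nat_lit 76) (nat_lit 924534054823) (nat_lit 3) (nat_lit 4) (nat_lit 4) (nat_lit 5) (nat_lit 4) (nat_lit 4) (nat_lit 263) (nat_lit 230) (nat_lit 107)) (XT.lf (nat_lit 0) (nat_lit 8355362719894) (nat_lit 76) (nat_lit 1373142975742) (nat_lit 76) (nat_lit 743976073569) (nat_lit 3) (nat_lit 4) (nat_lit 4) (nat_lit 5) (nat_lit 4) (nat_lit 4) (nat_lit 264) (nat_lit 230) (nat_lit 106))) (XT.nd (nat_lit 78) (nat_lit 0) (nat_lit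 0) (XT.lf (nat_lit 0) (nat_lit 10286554505214) (nat_lit 76) (nat_lit 1165501303191) (nat_lit 76) (nat_lit 536334398576) (nat_lit 3) (nat_lit 4) (nat_lit 4) (nat_lit 5) (nat_lit 4) (nat_lit 4) (nat_lit 265) (nat_lit 230) (nat_lit 105)) (XT.lf (nat_lit 0) (nat_lit 12507425053414) (nat_lit 76) (nat_lit 926713382073) (nat_lit 76) (nat_lit 297546475336) (nat_lit 3) (nat_lit 4) (nat_lit 4) (nat_lit 5) (nat_lit 4) (nat_lit 4) (nat_lit 266) (nat_lit 230) (nat_lit 104)))))) (XT.nd (nat_lit 28626) (nat_lit 0) (nat_lit 760) (XT.nd (nat_lit 312) (nat_lit 0) (nat_lit 0) (XT.nd (nat_lit 156) (nat_lit 76) (nat_lit 0) (XT.nd (nat_lit 78) (nat_lit 76) (nat_lit 0) (XT.lf (nat_lit 0) (nat_lit 15061426179568) (nat_lit 76) (nat_lit 652107274802) (nat_lit 76) (nat_lit 22940366218) (nat_lit 3) (nat_lit 4) (nat_lit 4) (nat_lit 5) (nat_lit 4) (nat_lit 4) (nat_lit 267) (nat_lit 230) (nat_lit 103)) (XT.lf (nat_lit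 0) (nat_lit 266784532254) (nat_lit 152) (nat_lit 55580165842) (nat_lit 76) (nat_lit 17717797383577) (nat_lit 2) (nat_lit 5) (nat_lit 4) (nat_lit 5) (nat_lit 3) (nat_lit 4) (nat_lit 268) (nat_lit 230) (nat_lit 102))) (XT.nd (nat_lit 78) (nat_lit 0) (nat_lit 0) (XT.lf (nat_lit 0) (nat_lit 631249644003) (nat_lit 152) (nat_lit 19968797576150) (nat_lit 0) (nat_lit 84147981756) (nat_lit 1) (nat_lit 5) (nat_lit 3) (nat_lit 4) (nat_lit 1) (nat_lit 4) (nat_lit 269) (nat_lit 230) (nat_lit 101)) (XT.lf (nat_lit 0) (nat_lit 1068778896410) (nat_lit 152) (nat_lit 22131618004582) (nat_lit 0) (nat_lit 521677233107) (nat_lit 1) (nat_lit 5) (nat_lit 3) (nat_lit 4) (nat_lit 1) (nat_lit 4) (nat_lit 270) (nat_lit 230) (nat_lit 100)))) (XT.nd (nat_lit 28158) (nat_lit 0) (nat_lit 1368) (XT.nd (nat_lit 78) (nat_lit 0) (nat_lit 0) (XT.lf (nat_lit 0) (nat_lit 1571937535146) (nat_lit 152) (nat_lit 24618861500282)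 (nat_lit 0) (nat_lit 1024835870925) (nat_lit 1) (nat_lit 5) (nat_lit 3) (nat_lit 4) (nat_lit 1) (nat_lit 4) (nat_lit 271) (nat_lit 230) (nat_lit 99)) (XT.lf (nat_lit 0) (nat_lit 2150569968360) (nat_lit 152) (nat_lit 27479191522948) (nat_lit 0) (nat_lit 1603468303341) (nat_lit 1) (nat_lit 5) (nat_lit 3) (nat_lit 4) (nat_lit 1) (nat_lit 4) (nat_lit 272) (nat_lit 230) (nat_lit 98))) (XT.nd (nat_lit 78) (nat_lit 0) (nat_lit 0) (XT.lf (nat_lit 0) (nat_lit 75408073244) (nat_lit 0) (nat_lit 75408073244) (nat_lit 228) (nat_lit 5224636511) (nat_lit 19) (nat_lit 5) (nat_lit 19) (nat_lit 3) (nat_lit 22) (nat_lit 3) (nat_lit 231) (nat_lit 231) (nat_lit 138)) (XT.lf (nat_lit 0) (nat_lit 306475336185) (nat_lit 0) (nat_lit 17779936881) (nat_lit 228) (nat_lit 11232320336) (nat_lit 19) (nat_lit 5) (nat_lit 19) (nat_lit 3) (nat_lit 22) (nat_lit 3) (nat_lit 232) (nat_lit 231) (nat_lit 137))))) (XT.nd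 (nat_lit 312) (nat_lit 304) (nat_lit 0) (XT.nd (nat_lit 156) (nat_lit 0) (nat_lit 76) (XT.nd (nat_lit 78) (nat_lit 0) (nat_lit 0) (XT.lf (nat_lit 0) (nat_lit 406944356) (nat_lit 304) (nat_lit 231821232295) (nat_lit 380) (nat_lit 128532765232) (nat_lit 15) (nat_lit 5) (nat_lit 19) (nat_lit 5) (nat_lit 20) (nat_lit 5) (nat_lit 233) (nat_lit 231) (nat_lit 136)) (XT.lf (nat_lit 0) (nat_lit 15077460875) (nat_lit 304) (nat_lit 77206583950) (nat_lit 380) (nat_lit 297095717140) (nat_lit 15) (nat_lit 5) (nat_lit 19) (nat_lit 5) (nat_lit 20) (nat_lit 5) (nat_lit 234) (nat_lit 231) (nat_lit 135))) (XT.nd (nat_lit 78) (nat_lit 0) (nat_lit 0) (XT.lf (nat_lit 0) (nat_lit 39581681543) (nat_lit 304) (nat_lit 314234398506) (nat_lit 76) (nat_lit 67330356748) (nat_lit 16) (nat_lit 5) (nat_lit 20) (nat_lit 5) (nat_lit 17) (nat_lit 5) (nat_lit 235) (nat_lit 231) (nat_lit 134)) (XT.lf (nat_lit 0) (nat_lit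 76383921274) (nat_lit 304) (nat_lit 134334055014) (nat_lit 76) (nat_lit 245666779317) (nat_lit 16) (nat_lit 5) (nat_lit 20) (nat_lit 5) (nat_lit 17) (nat_lit 5) (nat_lit 236) (nat_lit 231) (nat_lit 133)))) (XT.nd (nat_lit 156) (nat_lit 152) (nat_lit 0) (XT.nd (nat_lit 78) (nat_lit 0) (nat_lit 0) (XT.lf (nat_lit 0) (nat_lit 79641514110) (nat_lit 228) (nat_lit 42362705543) (nat_lit 304) (nat_lit 374409944738) (nat_lit 13) (nat_lit 5) (nat_lit 16) (nat_lit 5) (nat_lit 17) (nat_lit 5) (nat_lit 237) (nat_lit 231) (nat_lit 132)) (XT.lf (nat_lit 0) (nat_lit 188086662744) (nat_lit 304) (nat_lit 207181168624) (nat_lit 76) (nat_lit 145137288622) (nat_lit 13) (nat_lit 5) (nat_lit 17) (nat_lit 5) (nat_lit 14) (nat_lit 5) (nat_lit 238) (nat_lit 231) (nat_lit 131))) (XT.nd (nat_lit 78) (nat_lit 0) (nat_lit 0) (XT.lf (nat_lit 0) (nat_lit 34942528080) (nat_lit 152) (nat_lit 232603061804) (nat_lit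 228) (nat_lit 322929511829) (nat_lit 11) (nat_lit 5) (nat_lit 13) (nat_lit 5) (nat_lit 14) (nat_lit 5) (nat_lit 239) (nat_lit 231) (nat_lit 130)) (XT.lf (nat_lit 0) (nat_lit 336669059228) (nat_lit 152) (nat_lit 33084175981) (nat_lit 228) (nat_lit 276677863986) (nat_lit 11) (nat_lit 5) (nat_lit 13) (nat_lit 5) (nat_lit 14) (nat_lit 5) (nat_lit 240) (nat_lit 231) (nat_lit 129))))))))
noncomputable def xc55 : XT := (XT.nd (nat_lit 30576) (nat_lit 0) (nat_lit 152) (XT.nd (nat_lit 1170) (nat_lit 228) (nat_lit 0) (XT.nd (nat_lit 546) (nat_lit 228) (nat_lit 0) (XT.nd (nat_lit 234) (nat_lit 228) (nat_lit 0) (XT.nd (nat_lit 78) (nat_lit 76) (nat_lit 0) (XT.lf (nat_lit 0) (nat_lit 495422941370) (nat_lit 228) (nat_lit 35256936842) (nat_lit 76) (nat_lit 178880981303) (nat_lit 11) (nat_lit 5) (nat_lit 14) (nat_lit 5) (nat_lit 12) (nat_lit 4) (nat_lit 241) (nat_lit 231) (nat_lit 128)) (XT.nd (nat_lit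 78) (nat_lit 0) (nat_lit 0) (XT.lf (nat_lit 0) (nat_lit 306099543827) (nat_lit 76) (nat_lit 348093891048) (nat_lit 152) (nat_lit 125829099575) (nat_lit 10) (nat_lit 5) (nat_lit 11) (nat_lit 5) (nat_lit 12) (nat_lit 4) (nat_lit 242) (nat_lit 231) (nat_lit 127)) (XT.lf (nat_lit 0) (nat_lit 702621848675) (nat_lit 76) (nat_lit 136000597703) (nat_lit 152) (nat_lit 22154572892) (nat_lit 10) (nat_lit 5) (nat_lit 11) (nat_lit 5) (nat_lit 12) (nat_lit 4) (nat_lit 243) (nat_lit 231) (nat_lit 126)))) (XT.nd (nat_lit 156) (nat_lit 76) (nat_lit 0) (XT.nd (nat_lit 78) (nat_lit 0) (nat_lit 0) (XT.lf (nat_lit 0) (nat_lit 102658191621) (nat_lit 152) (nat_lit 736168776543) (nat_lit 76) (nat_lit 112080432194) (nat_lit 8) (nat_lit 5) (nat_lit 10) (nat_lit 5) (nat_lit 9) (nat_lit 4) (nat_lit 244) (nat_lit 231) (nat_lit 125)) (XT.lf (nat_lit 0) (nat_lit 259061733810) (nat_lit 152) (nat_lit 399901206785)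 (nat_lit 76) (nat_lit 393165590832) (nat_lit 8) (nat_lit 5) (nat_lit 10) (nat_lit 5) (nat_lit 9) (nat_lit 4) (nat_lit 245) (nat_lit 231) (nat_lit 124))) (XT.nd (nat_lit 78) (nat_lit 76) (nat_lit 0) (XT.lf (nat_lit 0) (nat_lit 438925782930) (nat_lit 152) (nat_lit 13193541133) (nat_lit 76) (nat_lit 716413511892) (nat_lit 8) (nat_lit 5) (nat_lit 10) (nat_lit 5) (nat_lit 9) (nat_lit 4) (nat_lit 246) (nat_lit 231) (nat_lit 123)) (XT.lf (nat_lit 0) (nat_lit 473691536137) (nat_lit 76) (nat_lit 191692438428) (nat_lit 152) (nat_lit 634071631446) (nat_lit 7) (nat_lit 5) (nat_lit 8) (nat_lit 5) (nat_lit 9) (nat_lit 4) (nat_lit 247) (nat_lit 231) (nat_lit 122))))) (XT.nd (nat_lit 312) (nat_lit 76) (nat_lit 0) (XT.nd (nat_lit 156) (nat_lit 76) (nat_lit 0) (XT.nd (nat_lit 78) (nat_lit 76) (nat_lit 0) (XT.lf (nat_lit 0) (nat_lit 930997083219) (nat_lit 152) (nat_lit 419317774732) (nat_lit 0) (nat_lit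 98924005487) (nat_lit 7) (nat_lit 5) (nat_lit 9) (nat_lit 4) (nat_lit 7) (nat_lit 4) (nat_lit 248) (nat_lit 231) (nat_lit 121)) (XT.lf (nat_lit 0) (nat_lit 42775382947) (nat_lit 76) (nat_lit 1204576206272) (nat_lit 76) (nat_lit 372503105695) (nat_lit 6) (nat_lit 4) (nat_lit 7) (nat_lit 5) (nat_lit 7) (nat_lit 4) (nat_lit 249) (nat_lit 231) (nat_lit 120))) (XT.nd (nat_lit 78) (nat_lit 76) (nat_lit 0) (XT.lf (nat_lit 0) (nat_lit 621308084823) (nat_lit 76) (nat_lit 1011770053373) (nat_lit 76) (nat_lit 179696932931) (nat_lit 6) (nat_lit 4) (nat_lit 7) (nat_lit 5) (nat_lit 7) (nat_lit 4) (nat_lit 250) (nat_lit 231) (nat_lit 119)) (XT.lf (nat_lit 0) (nat_lit 38288334561) (nat_lit 152) (nat_lit 749753218408) (nat_lit 76) (nat_lit 1246330896213) (nat_lit 5) (nat_lit 5) (nat_lit 7) (nat_lit 5) (nat_lit 6) (nat_lit 4) (nat_lit 251) (nat_lit 231) (nat_lit 118)))) (XT.nd (nat_lit 156) (nat_lit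 0) (nat_lit 0) (XT.nd (nat_lit 78) (nat_lit 76) (nat_lit 0) (XT.lf (nat_lit 0) (nat_lit 270573835839) (nat_lit 152) (nat_lit 250339405681) (nat_lit 76) (nat_lit 1767012644936) (nat_lit 5) (nat_lit 5) (nat_lit 7) (nat_lit 5) (nat_lit 6) (nat_lit 4) (nat_lit 252) (nat_lit 231) (nat_lit 117)) (XT.lf (nat_lit 0) (nat_lit 355648771465) (nat_lit 76) (nat_lit 196780036564) (nat_lit 152) (nat_lit 2024874534480) (nat_lit 4) (nat_lit 5) (nat_lit 5) (nat_lit 5) (nat_lit 6) (nat_lit 4) (nat_lit 253) (nat_lit 231) (nat_lit 116))) (XT.nd (nat_lit 78) (nat_lit 0) (nat_lit 0) (XT.lf (nat_lit 0) (nat_lit 897557750425) (nat_lit 152) (nat_lit 1835364450683) (nat_lit 0) (nat_lit 174015857245) (nat_lit 4) (nat_lit 5) (nat_lit 6) (nat_lit 4) (nat_lit 4) (nat_lit 4) (nat_lit 254) (nat_lit 231) (nat_lit 115)) (XT.lf (nat_lit 0) (nat_lit 1303826502409) (nat_lit 152) (nat_lit 1400501308322) (nat_lit 0) (nat_lit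 580284600641) (nat_lit 4) (nat_lit 5) (nat_lit 6) (nat_lit 4) (nat_lit 4) (nat_lit 4) (nat_lit 255) (nat_lit 231) (nat_lit 114)))))) (XT.nd (nat_lit 624) (nat_lit 152) (nat_lit 0) (XT.nd (nat_lit 312) (nat_lit 0) (nat_lit 0) (XT.nd (nat_lit 156) (nat_lit 76) (nat_lit 0) (XT.nd (nat_lit 78) (nat_lit 0) (nat_lit 0) (XT.lf (nat_lit 0) (nat_lit 1771035558755) (nat_lit 152) (nat_lit 900408710366) (nat_lit 0) (nat_lit 1047493649519) (nat_lit 4) (nat_lit 5) (nat_lit 6) (nat_lit 4) (nat_lit 4) (nat_lit 4) (nat_lit 256) (nat_lit 231) (nat_lit 113)) (XT.lf (nat_lit 0) (nat_lit 2308325966217) (nat_lit 152) (nat_lit 325302236421) (nat_lit 0) (nat_lit 1584784050487) (nat_lit 4) (nat_lit 5) (nat_lit 6) (nat_lit 4) (nat_lit 4) (nat_lit 4) (nat_lit 257) (nat_lit 231) (nat_lit 112))) (XT.nd (nat_lit 78) (nat_lit 0) (nat_lit 0) (XT.lf (nat_lit 0) (nat_lit 368913420466) (nat_lit 76) (nat_lit 2572572425984)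 (nat_lit 76) (nat_lit 1849030504606) (nat_lit 3) (nat_lit 4) (nat_lit 4) (nat_lit 5) (nat_lit 4) (nat_lit 4) (nat_lit 258) (nat_lit 231) (nat_lit 111)) (XT.lf (nat_lit 0) (nat_lit 1203820949948) (nat_lit 76) (nat_lit 2482803187839) (nat_lit 76) (nat_lit 1759261261551) (nat_lit 3) (nat_lit 4) (nat_lit 4) (nat_lit 5) (nat_lit 4) (nat_lit 4) (nat_lit 259) (nat_lit 231) (nat_lit 110)))) (XT.nd (nat_lit 156) (nat_lit 0) (nat_lit 0) (XT.nd (nat_lit 78) (nat_lit 0) (nat_lit 0) (XT.lf (nat_lit 0) (nat_lit 2163964598960) (nat_lit 76) (nat_lit 2379568568630) (nat_lit 76) (nat_lit 1656026638073) (nat_lit 3) (nat_lit 4) (nat_lit 4) (nat_lit 5) (nat_lit 4) (nat_lit 4) (nat_lit 260) (nat_lit 231) (nat_lit 109)) (XT.lf (nat_lit 0) (nat_lit 3268129786723) (nat_lit 76) (nat_lit 2260848760591) (nat_lit 76) (nat_lit 1537306826320) (nat_lit 3) (nat_lit 4) (nat_lit 4) (nat_lit 5) (nat_lit 4) (nat_lit 4)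 (nat_lit 261) (nat_lit 231) (nat_lit 108))) (XT.nd (nat_lit 78) (nat_lit 0) (nat_lit 0) (XT.lf (nat_lit 0) (nat_lit 4537919745171) (nat_lit 76) (nat_lit 2124320984868) (nat_lit 76) (nat_lit 1400779047369) (nat_lit 3) (nat_lit 4) (nat_lit 4) (nat_lit 5) (nat_lit 4) (nat_lit 4) (nat_lit 262) (nat_lit 231) (nat_lit 107)) (XT.lf (nat_lit 0) (nat_lit 5998178190883) (nat_lit 76) (nat_lit 1967314045849) (nat_lit 76) (nat_lit 1243772105542) (nat_lit 3) (nat_lit 4) (nat_lit 4) (nat_lit 5) (nat_lit 4) (nat_lit 4) (nat_lit 263) (nat_lit 231) (nat_lit 106))))) (XT.nd (nat_lit 312) (nat_lit 152) (nat_lit 0) (XT.nd (nat_lit 156) (nat_lit 0) (nat_lit 0) (XT.nd (nat_lit 78) (nat_lit 0) (nat_lit 0) (XT.lf (nat_lit 0) (nat_lit 7677475397796) (nat_lit 76) (nat_lit 1786756068641) (nat_lit 76) (nat_lit 1063214125893) (nat_lit 3) (nat_lit 4) (nat_lit 4) (nat_lit 5) (nat_lit 4) (nat_lit 4) (nat_lit 264)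 (nat_lit 231) (nat_lit 105)) (XT.lf (nat_lit 0) (nat_lit 9608667180829) (nat_lit 76) (nat_lit 1579114397167) (nat_lit 76) (nat_lit 855572452296) (nat_lit 3) (nat_lit 4) (nat_lit 4) (nat_lit 5) (nat_lit 4) (nat_lit 4) (nat_lit 265) (nat_lit 231) (nat_lit 104))) (XT.nd (nat_lit 78) (nat_lit 0) (nat_lit 0) (XT.lf (nat_lit 0) (nat_lit 11829537727040) (nat_lit 76) (nat_lit 1340326476986) (nat_lit 76) (nat_lit 616784530269) (nat_lit 3) (nat_lit 4) (nat_lit 4) (nat_lit 5) (nat_lit 4) (nat_lit 4) (nat_lit 266) (nat_lit 231) (nat_lit 103)) (XT.lf (nat_lit 0) (nat_lit 14383538851465) (nat_lit 76) (nat_lit 1065720370529) (nat_lit 76) (nat_lit 342178422207) (nat_lit 3) (nat_lit 4) (nat_lit 4) (nat_lit 5) (nat_lit 4) (nat_lit 4) (nat_lit 267) (nat_lit 231) (nat_lit 102)))) (XT.nd (nat_lit 156) (nat_lit 76) (nat_lit 0) (XT.nd (nat_lit 78) (nat_lit 76) (nat_lit 0) (XT.lf (nat_lit 0) (nat_lit 17320640141319)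 (nat_lit 76) (nat_lit 749923349626) (nat_lit 76) (nat_lit 26381399908) (nat_lit 3) (nat_lit 4) (nat_lit 4) (nat_lit 5) (nat_lit 4) (nat_lit 4) (nat_lit 268) (nat_lit 231) (nat_lit 101)) (XT.lf (nat_lit 0) (nat_lit 306802228920) (nat_lit 152) (nat_lit 63917158753) (nat_lit 76) (nat_lit 20375467003681) (nat_lit 2) (nat_lit 5) (nat_lit 4) (nat_lit 5) (nat_lit 3) (nat_lit 4) (nat_lit 269) (nat_lit 231) (nat_lit 100))) (XT.nd (nat_lit 78) (nat_lit 0) (nat_lit 0) (XT.lf (nat_lit 0) (nat_lit 725937107105) (nat_lit 152) (nat_lit 22964117180242) (nat_lit 0) (nat_lit 96770192333) (nat_lit 1) (nat_lit 5) (nat_lit 3) (nat_lit 4) (nat_lit 1) (nat_lit 4) (nat_lit 270) (nat_lit 231) (nat_lit 99)) (XT.lf (nat_lit 0) (nat_lit 1229095745221) (nat_lit 152) (nat_lit 25451360677156) (nat_lit 0) (nat_lit 599928829651) (nat_lit 1) (nat_lit 5) (nat_lit 3) (nat_lit 4) (nat_lit 1) (nat_lit 4) (nat_lit 271)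 (nat_lit 231) (nat_lit 98))))))) (XT.nd (nat_lit 1170) (nat_lit 380) (nat_lit 0) (XT.nd (nat_lit 546) (nat_lit 380) (nat_lit 0) (XT.nd (nat_lit 234) (nat_lit 152) (nat_lit 0) (XT.nd (nat_lit 78) (nat_lit 304) (nat_lit 0) (XT.lf (nat_lit 0) (nat_lit 86719551734) (nat_lit 0) (nat_lit 86719551734) (nat_lit 228) (nat_lit 6007710663) (nat_lit 19) (nat_lit 5) (nat_lit 19) (nat_lit 3) (nat_lit 22) (nat_lit 3) (nat_lit 232) (nat_lit 232) (nat_lit 136)) (XT.nd (nat_lit 78) (nat_lit 304) (nat_lit 0) (XT.lf (nat_lit 0) (nat_lit 352447101836) (nat_lit 0) (nat_lit 20447392637) (nat_lit 228) (nat_lit 12916087821) (nat_lit 19) (nat_lit 5) (nat_lit 19) (nat_lit 3) (nat_lit 22) (nat_lit 3) (nat_lit 233) (nat_lit 232) (nat_lit 135)) (XT.lf (nat_lit 0) (nat_lit 468850708) (nat_lit 304) (nat_lit 266593718896) (nat_lit 380) (nat_lit 147812375878) (nat_lit 15) (nat_lit 5) (nat_lit 19) (nat_lit 5) (nat_lit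 20) (nat_lit 5) (nat_lit 234) (nat_lit 232) (nat_lit 134)))) (XT.nd (nat_lit 156) (nat_lit 152) (nat_lit 0) (XT.nd (nat_lit 78) (nat_lit 0) (nat_lit 76) (XT.lf (nat_lit 0) (nat_lit 17339831918) (nat_lit 304) (nat_lit 88786964375) (nat_lit 380) (nat_lit 341659810242) (nat_lit 15) (nat_lit 5) (nat_lit 19) (nat_lit 5) (nat_lit 20) (nat_lit 5) (nat_lit 235) (nat_lit 232) (nat_lit 133)) (XT.lf (nat_lit 0) (nat_lit 45519607541) (nat_lit 304) (nat_lit 361368866936) (nat_lit 76) (nat_lit 77429820742) (nat_lit 16) (nat_lit 5) (nat_lit 20) (nat_lit 5) (nat_lit 17) (nat_lit 5) (nat_lit 236) (nat_lit 232) (nat_lit 132))) (XT.nd (nat_lit 78) (nat_lit 228) (nat_lit 0) (XT.lf (nat_lit 0) (nat_lit 87842095349) (nat_lit 304) (nat_lit 154483562096) (nat_lit 76) (nat_lit 282516718373) (nat_lit 16) (nat_lit 5) (nat_lit 20) (nat_lit 5) (nat_lit 17) (nat_lit 5) (nat_lit 237) (nat_lit 232) (nat_lit 131))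 (XT.lf (nat_lit 0) (nat_lit 91588315071) (nat_lit 228) (nat_lit 48717070756) (nat_lit 304) (nat_lit 430570818678) (nat_lit 13) (nat_lit 5) (nat_lit 16) (nat_lit 5) (nat_lit 17) (nat_lit 5) (nat_lit 238) (nat_lit 232) (nat_lit 130))))) (XT.nd (nat_lit 312) (nat_lit 228) (nat_lit 0) (XT.nd (nat_lit 156) (nat_lit 0) (nat_lit 0) (XT.nd (nat_lit 78) (nat_lit 152) (nat_lit 0) (XT.lf (nat_lit 0) (nat_lit 216300127292) (nat_lit 304) (nat_lit 238257772867) (nat_lit 76) (nat_lit 166907914091) (nat_lit 13) (nat_lit 5) (nat_lit 17) (nat_lit 5) (nat_lit 14) (nat_lit 5) (nat_lit 239) (nat_lit 232) (nat_lit 129)) (XT.lf (nat_lit 0) (nat_lit 40184452385) (nat_lit 152) (nat_lit 267493403019) (nat_lit 228) (nat_lit 371368444060) (nat_lit 11) (nat_lit 5) (nat_lit 13) (nat_lit 5) (nat_lit 14) (nat_lit 5) (nat_lit 240) (nat_lit 232) (nat_lit 128))) (XT.nd (nat_lit 78) (nat_lit 0) (nat_lit 0) (XT.lf (nat_lit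 0) (nat_lit 387169892107) (nat_lit 152) (nat_lit 38046699722) (nat_lit 228) (nat_lit 318179113546) (nat_lit 11) (nat_lit 5) (nat_lit 13) (nat_lit 5) (nat_lit 14) (nat_lit 5) (nat_lit 241) (nat_lit 232) (nat_lit 127)) (XT.lf (nat_lit 0) (nat_lit 569736709175) (nat_lit 228) (nat_lit 40545017852) (nat_lit 76) (nat_lit 205713209819) (nat_lit 11) (nat_lit 5) (nat_lit 14) (nat_lit 5) (nat_lit 12) (nat_lit 4) (nat_lit 242) (nat_lit 232) (nat_lit 126)))) (XT.nd (nat_lit 156) (nat_lit 152) (nat_lit 0) (XT.nd (nat_lit 78) (nat_lit 0) (nat_lit 0) (XT.lf (nat_lit 0) (nat_lit 352014914030) (nat_lit 76) (nat_lit 400307838238) (nat_lit 152) (nat_lit 144703114758) (nat_lit 10) (nat_lit 5) (nat_lit 11) (nat_lit 5) (nat_lit 12) (nat_lit 4) (nat_lit 243) (nat_lit 232) (nat_lit 125)) (XT.lf (nat_lit 0) (nat_lit 808015507393) (nat_lit 76) (nat_lit 156400568691) (nat_lit 152) (nat_lit 25477454693) (nat_lit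 10) (nat_lit 5) (nat_lit 11) (nat_lit 5) (nat_lit 12) (nat_lit 4) (nat_lit 244) (nat_lit 232) (nat_lit 124))) (XT.nd (nat_lit 78) (nat_lit 0) (nat_lit 0) (XT.lf (nat_lit 0) (nat_lit 118057183063) (nat_lit 152) (nat_lit 846593666968) (nat_lit 76) (nat_lit 128892619484) (nat_lit 8) (nat_lit 5) (nat_lit 10) (nat_lit 5) (nat_lit 9) (nat_lit 4) (nat_lit 245) (nat_lit 232) (nat_lit 123)) (XT.lf (nat_lit 0) (nat_lit 297921222316) (nat_lit 152) (nat_lit 459886017319) (nat_lit 76) (nat_lit 452140535944) (nat_lit 8) (nat_lit 5) (nat_lit 10) (nat_lit 5) (nat_lit 9) (nat_lit 4) (nat_lit 246) (nat_lit 232) (nat_lit 122)))))) (XT.nd (nat_lit 624) (nat_lit 76) (nat_lit 0) (XT.nd (nat_lit 312) (nat_lit 152) (nat_lit 0) (XT.nd (nat_lit 156) (nat_lit 76) (nat_lit 0) (XT.nd (nat_lit 78) (nat_lit 76) (nat_lit 0) (XT.lf (nat_lit 0) (nat_lit 504764849009) (nat_lit 152) (nat_lit 15172250143) (nat_lit 76)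 (nat_lit 823875631273) (nat_lit 8) (nat_lit 5) (nat_lit 10) (nat_lit 5) (nat_lit 9) (nat_lit 4) (nat_lit 247) (nat_lit 232) (nat_lit 121)) (XT.lf (nat_lit 0) (nat_lit 544745574074) (nat_lit 76) (nat_lit 220446182139) (nat_lit 152) (nat_lit 729182161900) (nat_lit 7) (nat_lit 5) (nat_lit 8) (nat_lit 5) (nat_lit 9) (nat_lit 4) (nat_lit 248) (nat_lit 232) (nat_lit 120))) (XT.nd (nat_lit 78) (nat_lit 76) (nat_lit 0) (XT.lf (nat_lit 0) (nat_lit 1070646811368) (nat_lit 152) (nat_lit 482215152888) (nat_lit 0) (nat_lit 113762702995) (nat_lit 7) (nat_lit 5) (nat_lit 9) (nat_lit 4) (nat_lit 7) (nat_lit 4) (nat_lit 249) (nat_lit 232) (nat_lit 119)) (XT.lf (nat_lit 0) (nat_lit 49191965350) (nat_lit 76) (nat_lit 1385262517695) (nat_lit 76) (nat_lit 428378392047) (nat_lit 6) (nat_lit 4) (nat_lit 7) (nat_lit 5) (nat_lit 7) (nat_lit 4) (nat_lit 250) (nat_lit 232) (nat_lit 118)))) (XT.nd (nat_lit 156)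 (nat_lit 76) (nat_lit 0) (XT.nd (nat_lit 78) (nat_lit 76) (nat_lit 0) (XT.lf (nat_lit 0) (nat_lit 714504536643) (nat_lit 76) (nat_lit 1163535457451) (nat_lit 76) (nat_lit 206651316783) (nat_lit 6) (nat_lit 4) (nat_lit 7) (nat_lit 5) (nat_lit 7) (nat_lit 4) (nat_lit 251) (nat_lit 232) (nat_lit 117)) (XT.lf (nat_lit 0) (nat_lit 44031708391) (nat_lit 152) (nat_lit 862215980689) (nat_lit 76) (nat_lit 1433280608446) (nat_lit 5) (nat_lit 5) (nat_lit 7) (nat_lit 5) (nat_lit 6) (nat_lit 4) (nat_lit 252) (nat_lit 232) (nat_lit 116))) (XT.nd (nat_lit 78) (nat_lit 76) (nat_lit 0) (XT.lf (nat_lit 0) (nat_lit 311160018733) (nat_lit 152) (nat_lit 287890124811) (nat_lit 76) (nat_lit 2032064609329) (nat_lit 5) (nat_lit 5) (nat_lit 7) (nat_lit 5) (nat_lit 6) (nat_lit 4) (nat_lit 253) (nat_lit 232) (nat_lit 115)) (XT.lf (nat_lit 0) (nat_lit 408996270192) (nat_lit 76) (nat_lit 226296960113) (nat_lit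 152) (nat_lit 2328605598051) (nat_lit 4) (nat_lit 5) (nat_lit 5) (nat_lit 5) (nat_lit 6) (nat_lit 4) (nat_lit 254) (nat_lit 232) (nat_lit 114))))) (XT.nd (nat_lit 312) (nat_lit 76) (nat_lit 0) (XT.nd (nat_lit 156) (nat_lit 0) (nat_lit 0) (XT.nd (nat_lit 78) (nat_lit 0) (nat_lit 0) (XT.lf (nat_lit 0) (nat_lit 1032191503827) (nat_lit 152) (nat_lit 2110668948595) (nat_lit 0) (nat_lit 200118300737) (nat_lit 4) (nat_lit 5) (nat_lit 6) (nat_lit 4) (nat_lit 4) (nat_lit 4) (nat_lit 255) (nat_lit 232) (nat_lit 113)) (XT.lf (nat_lit 0) (nat_lit 1499400556761) (nat_lit 152) (nat_lit 1610576357013) (nat_lit 0) (nat_lit 667327347177) (nat_lit 4) (nat_lit 5) (nat_lit 6) (nat_lit 4) (nat_lit 4) (nat_lit 4) (nat_lit 256) (nat_lit 232) (nat_lit 112))) (XT.nd (nat_lit 78) (nat_lit 0) (nat_lit 0) (XT.lf (nat_lit 0) (nat_lit 2036690961256) (nat_lit 152) (nat_lit 1035469888611) (nat_lit 0) (nat_lit 1204617746025)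 (nat_lit 4) (nat_lit 5) (nat_lit 6) (nat_lit 4) (nat_lit 4) (nat_lit 4) (nat_lit 257) (nat_lit 232) (nat_lit 111)) (XT.lf (nat_lit 0) (nat_lit 2654574920878) (nat_lit 152) (nat_lit 374097460310) (nat_lit 0) (nat_lit 1822501700736) (nat_lit 4) (nat_lit 5) (nat_lit 6) (nat_lit 4) (nat_lit 4) (nat_lit 4) (nat_lit 258) (nat_lit 232) (nat_lit 110)))) (XT.nd (nat_lit 156) (nat_lit 0) (nat_lit 0) (XT.nd (nat_lit 78) (nat_lit 0) (nat_lit 0) (XT.lf (nat_lit 0) (nat_lit 424250540039) (nat_lit 76) (nat_lit 2958458239726) (nat_lit 76) (nat_lit 2126385015315) (nat_lit 3) (nat_lit 4) (nat_lit 4) (nat_lit 5) (nat_lit 4) (nat_lit 4) (nat_lit 259) (nat_lit 232) (nat_lit 109)) (XT.lf (nat_lit 0) (nat_lit 1384394185051) (nat_lit 76) (nat_lit 2855223622401) (nat_lit 76) (nat_lit 2023150394277) (nat_lit 3) (nat_lit 4) (nat_lit 4) (nat_lit 5) (nat_lit 4) (nat_lit 4) (nat_lit 260) (nat_lit 232) (nat_lit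 108))) (XT.nd (nat_lit 78) (nat_lit 0) (nat_lit 0) (XT.lf (nat_lit 0) (nat_lit 2488559369335) (nat_lit 76) (nat_lit 2736503816000) (nat_lit 76) (nat_lit 1904430584647) (nat_lit 3) (nat_lit 4) (nat_lit 4) (nat_lit 5) (nat_lit 4) (nat_lit 4) (nat_lit 261) (nat_lit 232) (nat_lit 107)) (XT.lf (nat_lit 0) (nat_lit 3758349324759) (nat_lit 76) (nat_lit 2599976041702) (nat_lit 76) (nat_lit 1767902807541) (nat_lit 3) (nat_lit 4) (nat_lit 4) (nat_lit 5) (nat_lit 4) (nat_lit 4) (nat_lit 262) (nat_lit 232) (nat_lit 106))))))))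
noncomputable def xc56 : XT := (XT.nd (nat_lit 30654) (nat_lit 0) (nat_lit 152) (XT.nd (nat_lit 29406) (nat_lit 0) (nat_lit 304) (XT.nd (nat_lit 546) (nat_lit 152) (nat_lit 0) (XT.nd (nat_lit 234) (nat_lit 0) (nat_lit 0) (XT.nd (nat_lit 78) (nat_lit 0) (nat_lit 0) (XT.lf (nat_lit 0) (nat_lit 5218607767840) (nat_lit 76) (nat_lit 2442969103922) (nat_lit 76) (nat_lit 1610895867320) (nat_lit 3) (nat_lit 4) (nat_lit 4) (nat_lit 5) (nat_lit 4) (nat_lit 4) (nat_lit 263) (nat_lit 232) (nat_lit 105)) (XT.nd (nat_lit 78) (nat_lit 0) (nat_lit 0) (XT.lf (nat_lit 0) (nat_lit 6897904972466) (nat_lit 76) (nat_lit 2262411127790) (nat_lit 76) (nat_lit 1430337889066) (nat_lit 3) (nat_lit 4) (nat_lit 4) (nat_lit 5) (nat_lit 4) (nat_lit 4) (nat_lit 264) (nat_lit 232) (nat_lit 104)) (XT.lf (nat_lit 0) (nat_lit 8829096753510) (nat_lit 76) (nat_lit 2054769457253) (nat_lit 76) (nat_lit 1222696216683) (nat_lit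 3) (nat_lit 4) (nat_lit 4) (nat_lit 5) (nat_lit 4) (nat_lit 4) (nat_lit 265) (nat_lit 232) (nat_lit 103)))) (XT.nd (nat_lit 156) (nat_lit 0) (nat_lit 0) (XT.nd (nat_lit 78) (nat_lit 0) (nat_lit 0) (XT.lf (nat_lit 0) (nat_lit 11049967297991) (nat_lit 76) (nat_lit 1815981537887) (nat_lit 76) (nat_lit 983908295711) (nat_lit 3) (nat_lit 4) (nat_lit 4) (nat_lit 5) (nat_lit 4) (nat_lit 4) (nat_lit 266) (nat_lit 232) (nat_lit 102)) (XT.lf (nat_lit 0) (nat_lit 13603968420912) (nat_lit 76) (nat_lit 1541375432138) (nat_lit 76) (nat_lit 709302188567) (nat_lit 3) (nat_lit 4) (nat_lit 4) (nat_lit 5) (nat_lit 4) (nat_lit 4) (nat_lit 267) (nat_lit 232) (nat_lit 101))) (XT.nd (nat_lit 78) (nat_lit 0) (nat_lit 0) (XT.lf (nat_lit 0) (nat_lit 16541069709459) (nat_lit 76) (nat_lit 1225578411851) (nat_lit 76) (nat_lit 393505167066) (nat_lit 3) (nat_lit 4) (nat_lit 4) (nat_lit 5) (nat_lit 4) (nat_lit 4)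 (nat_lit 268) (nat_lit 232) (nat_lit 100)) (XT.lf (nat_lit 0) (nat_lit 19918736188843) (nat_lit 76) (nat_lit 862411839673) (nat_lit 76) (nat_lit 30338593832) (nat_lit 3) (nat_lit 4) (nat_lit 4) (nat_lit 5) (nat_lit 4) (nat_lit 4) (nat_lit 269) (nat_lit 232) (nat_lit 99))))) (XT.nd (nat_lit 28548) (nat_lit 0) (nat_lit 1064) (XT.nd (nat_lit 28392) (nat_lit 0) (nat_lit 1368) (XT.nd (nat_lit 78) (nat_lit 76) (nat_lit 0) (XT.lf (nat_lit 0) (nat_lit 352822575982) (nat_lit 152) (nat_lit 73504708397) (nat_lit 76) (nat_lit 23431787063737) (nat_lit 2) (nat_lit 5) (nat_lit 4) (nat_lit 5) (nat_lit 3) (nat_lit 4) (nat_lit 270) (nat_lit 232) (nat_lit 98)) (XT.lf (nat_lit 0) (nat_lit 834827685648) (nat_lit 152) (nat_lit 26408734732832) (nat_lit 0) (nat_lit 111285731251) (nat_lit 1) (nat_lit 5) (nat_lit 3) (nat_lit 4) (nat_lit 1) (nat_lit 4) (nat_lit 271) (nat_lit 232) (nat_lit 97))) (XT.nd (nat_lit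 78) (nat_lit 0) (nat_lit 0) (XT.lf (nat_lit 0) (nat_lit 99727686765) (nat_lit 0) (nat_lit 99727686765) (nat_lit 228) (nat_lit 6908397452) (nat_lit 19) (nat_lit 5) (nat_lit 19) (nat_lit 3) (nat_lit 22) (nat_lit 3) (nat_lit 233) (nat_lit 233) (nat_lit 134)) (XT.lf (nat_lit 0) (nat_lit 405314518887) (nat_lit 0) (nat_lit 23514853308) (nat_lit 228) (nat_lit 14852683933) (nat_lit 19) (nat_lit 5) (nat_lit 19) (nat_lit 3) (nat_lit 22) (nat_lit 3) (nat_lit 234) (nat_lit 233) (nat_lit 133)))) (XT.nd (nat_lit 156) (nat_lit 0) (nat_lit 76) (XT.nd (nat_lit 78) (nat_lit 0) (nat_lit 0) (XT.lf (nat_lit 0) (nat_lit 539832151) (nat_lit 304) (nat_lit 306582248759) (nat_lit 380) (nat_lit 169984002287) (nat_lit 15) (nat_lit 5) (nat_lit 19) (nat_lit 5) (nat_lit 20) (nat_lit 5) (nat_lit 235) (nat_lit 233) (nat_lit 132)) (XT.lf (nat_lit 0) (nat_lit 19941375259) (nat_lit 304) (nat_lit 102104549926) (nat_lit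 380) (nat_lit 392908581802) (nat_lit 15) (nat_lit 5) (nat_lit 19) (nat_lit 5) (nat_lit 20) (nat_lit 5) (nat_lit 236) (nat_lit 233) (nat_lit 131))) (XT.nd (nat_lit 78) (nat_lit 0) (nat_lit 0) (XT.lf (nat_lit 0) (nat_lit 52348058136) (nat_lit 304) (nat_lit 415573674220) (nat_lit 76) (nat_lit 89044226165) (nat_lit 16) (nat_lit 5) (nat_lit 20) (nat_lit 5) (nat_lit 17) (nat_lit 5) (nat_lit 237) (nat_lit 233) (nat_lit 130)) (XT.lf (nat_lit 0) (nat_lit 101018852663) (nat_lit 304) (nat_lit 177655641839) (nat_lit 76) (nat_lit 324894167269) (nat_lit 16) (nat_lit 5) (nat_lit 20) (nat_lit 5) (nat_lit 17) (nat_lit 5) (nat_lit 238) (nat_lit 233) (nat_lit 129)))))) (XT.nd (nat_lit 624) (nat_lit 228) (nat_lit 0) (XT.nd (nat_lit 312) (nat_lit 228) (nat_lit 0) (XT.nd (nat_lit 156) (nat_lit 152) (nat_lit 0) (XT.nd (nat_lit 78) (nat_lit 0) (nat_lit 0) (XT.lf (nat_lit 0) (nat_lit 105326996240) (nat_lit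 228) (nat_lit 56024600656) (nat_lit 304) (nat_lit 495155974356) (nat_lit 13) (nat_lit 5) (nat_lit 16) (nat_lit 5) (nat_lit 17) (nat_lit 5) (nat_lit 239) (nat_lit 233) (nat_lit 128)) (XT.lf (nat_lit 0) (nat_lit 248745498096) (nat_lit 304) (nat_lit 273996007001) (nat_lit 76) (nat_lit 191944125534) (nat_lit 13) (nat_lit 5) (nat_lit 17) (nat_lit 5) (nat_lit 14) (nat_lit 5) (nat_lit 240) (nat_lit 233) (nat_lit 127))) (XT.nd (nat_lit 78) (nat_lit 0) (nat_lit 0) (XT.lf (nat_lit 0) (nat_lit 46212532412) (nat_lit 152) (nat_lit 307617324205) (nat_lit 228) (nat_lit 427073336724) (nat_lit 11) (nat_lit 5) (nat_lit 13) (nat_lit 5) (nat_lit 14) (nat_lit 5) (nat_lit 241) (nat_lit 233) (nat_lit 126)) (XT.lf (nat_lit 0) (nat_lit 445245734331) (nat_lit 152) (nat_lit 43753627057) (nat_lit 228) (nat_lit 365905655408) (nat_lit 11) (nat_lit 5) (nat_lit 13) (nat_lit 5) (nat_lit 14) (nat_lit 5) (nat_lit 242)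 (nat_lit 233) (nat_lit 125)))) (XT.nd (nat_lit 156) (nat_lit 152) (nat_lit 0) (XT.nd (nat_lit 78) (nat_lit 76) (nat_lit 0) (XT.lf (nat_lit 0) (nat_lit 655197462506) (nat_lit 228) (nat_lit 46626423070) (nat_lit 76) (nat_lit 236570252781) (nat_lit 11) (nat_lit 5) (nat_lit 14) (nat_lit 5) (nat_lit 12) (nat_lit 4) (nat_lit 243) (nat_lit 233) (nat_lit 124)) (XT.lf (nat_lit 0) (nat_lit 404817482801) (nat_lit 76) (nat_lit 460353910785) (nat_lit 152) (nat_lit 166408317508) (nat_lit 10) (nat_lit 5) (nat_lit 11) (nat_lit 5) (nat_lit 12) (nat_lit 4) (nat_lit 244) (nat_lit 233) (nat_lit 123))) (XT.nd (nat_lit 78) (nat_lit 152) (nat_lit 0) (XT.lf (nat_lit 0) (nat_lit 929218121907) (nat_lit 76) (nat_lit 179860564266) (nat_lit 152) (nat_lit 29298842928) (nat_lit 10) (nat_lit 5) (nat_lit 11) (nat_lit 5) (nat_lit 12) (nat_lit 4) (nat_lit 245) (nat_lit 233) (nat_lit 122)) (XT.lf (nat_lit 0) (nat_lit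 135765959162) (nat_lit 152) (nat_lit 973582394854) (nat_lit 76) (nat_lit 148226605004) (nat_lit 8) (nat_lit 5) (nat_lit 10) (nat_lit 5) (nat_lit 9) (nat_lit 4) (nat_lit 246) (nat_lit 233) (nat_lit 121))))) (XT.nd (nat_lit 312) (nat_lit 152) (nat_lit 0) (XT.nd (nat_lit 156) (nat_lit 76) (nat_lit 0) (XT.nd (nat_lit 78) (nat_lit 0) (nat_lit 0) (XT.lf (nat_lit 0) (nat_lit 342609578393) (nat_lit 152) (nat_lit 528868639778) (nat_lit 76) (nat_lit 519961696855) (nat_lit 8) (nat_lit 5) (nat_lit 10) (nat_lit 5) (nat_lit 9) (nat_lit 4) (nat_lit 247) (nat_lit 233) (nat_lit 120)) (XT.lf (nat_lit 0) (nat_lit 580479726559) (nat_lit 152) (nat_lit 17447844065) (nat_lit 76) (nat_lit 947457045982) (nat_lit 8) (nat_lit 5) (nat_lit 10) (nat_lit 5) (nat_lit 9) (nat_lit 4) (nat_lit 248) (nat_lit 233) (nat_lit 119))) (XT.nd (nat_lit 78) (nat_lit 0) (nat_lit 0) (XT.lf (nat_lit 0) (nat_lit 626457642711) (nat_lit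 76) (nat_lit 253513017170) (nat_lit 152) (nat_lit 838559324171) (nat_lit 7) (nat_lit 5) (nat_lit 8) (nat_lit 5) (nat_lit 9) (nat_lit 4) (nat_lit 249) (nat_lit 233) (nat_lit 118)) (XT.lf (nat_lit 0) (nat_lit 1231243958341) (nat_lit 152) (nat_lit 554547208011) (nat_lit 0) (nat_lit 130827181551) (nat_lit 7) (nat_lit 5) (nat_lit 9) (nat_lit 4) (nat_lit 7) (nat_lit 4) (nat_lit 250) (nat_lit 233) (nat_lit 117)))) (XT.nd (nat_lit 156) (nat_lit 76) (nat_lit 0) (XT.nd (nat_lit 78) (nat_lit 0) (nat_lit 0) (XT.lf (nat_lit 0) (nat_lit 56570968062) (nat_lit 76) (nat_lit 1593051804978) (nat_lit 76) (nat_lit 492635015126) (nat_lit 6) (nat_lit 4) (nat_lit 7) (nat_lit 5) (nat_lit 7) (nat_lit 4) (nat_lit 251) (nat_lit 233) (nat_lit 116)) (XT.lf (nat_lit 0) (nat_lit 821680397931) (nat_lit 76) (nat_lit 1338065697485) (nat_lit 76) (nat_lit 237648896275) (nat_lit 6) (nat_lit 4) (nat_lit 7) (nat_lit 5) (nat_lit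 7) (nat_lit 4) (nat_lit 252) (nat_lit 233) (nat_lit 115))) (XT.nd (nat_lit 78) (nat_lit 0) (nat_lit 0) (XT.lf (nat_lit 0) (nat_lit 50636558143) (nat_lit 152) (nat_lit 991548211077) (nat_lit 76) (nat_lit 1648272758541) (nat_lit 5) (nat_lit 5) (nat_lit 7) (nat_lit 5) (nat_lit 6) (nat_lit 4) (nat_lit 253) (nat_lit 233) (nat_lit 114)) (XT.lf (nat_lit 0) (nat_lit 357834102842) (nat_lit 152) (nat_lit 331073498563) (nat_lit 76) (nat_lit 2336874351884) (nat_lit 5) (nat_lit 5) (nat_lit 7) (nat_lit 5) (nat_lit 6) (nat_lit 4) (nat_lit 254) (nat_lit 233) (nat_lit 113))))))) (XT.nd (nat_lit 1170) (nat_lit 0) (nat_lit 0) (XT.nd (nat_lit 546) (nat_lit 0) (nat_lit 0) (XT.nd (nat_lit 234) (nat_lit 76) (nat_lit 0) (XT.nd (nat_lit 78) (nat_lit 0) (nat_lit 0) (XT.lf (nat_lit 0) (nat_lit 470345849101) (nat_lit 76) (nat_lit 260241442174) (nat_lit 152) (nat_lit 2677896349592) (nat_lit 4) (nat_lit 5) (nat_lit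 5) (nat_lit 5) (nat_lit 6) (nat_lit 4) (nat_lit 255) (nat_lit 233) (nat_lit 112)) (XT.nd (nat_lit 78) (nat_lit 0) (nat_lit 0) (XT.lf (nat_lit 0) (nat_lit 1187020298089) (nat_lit 152) (nat_lit 2427269162574) (nat_lit 0) (nat_lit 230136094926) (nat_lit 4) (nat_lit 5) (nat_lit 6) (nat_lit 4) (nat_lit 4) (nat_lit 4) (nat_lit 256) (nat_lit 233) (nat_lit 111)) (XT.lf (nat_lit 0) (nat_lit 1724310700003) (nat_lit 152) (nat_lit 1852162698991) (nat_lit 0) (nat_lit 767426491930) (nat_lit 4) (nat_lit 5) (nat_lit 6) (nat_lit 4) (nat_lit 4) (nat_lit 4) (nat_lit 257) (nat_lit 233) (nat_lit 110)))) (XT.nd (nat_lit 156) (nat_lit 76) (nat_lit 0) (XT.nd (nat_lit 78) (nat_lit 0) (nat_lit 0) (XT.lf (nat_lit 0) (nat_lit 2342194657382) (nat_lit 152) (nat_lit 1190790274881) (nat_lit 0) (nat_lit 1385310445039) (nat_lit 4) (nat_lit 5) (nat_lit 6) (nat_lit 4) (nat_lit 4) (nat_lit 4) (nat_lit 258) (nat_lit 233)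 (nat_lit 109)) (XT.lf (nat_lit 0) (nat_lit 3052761204172) (nat_lit 152) (nat_lit 430211994990) (nat_lit 0) (nat_lit 2095876988116) (nat_lit 4) (nat_lit 5) (nat_lit 6) (nat_lit 4) (nat_lit 4) (nat_lit 4) (nat_lit 259) (nat_lit 233) (nat_lit 108))) (XT.nd (nat_lit 78) (nat_lit 0) (nat_lit 0) (XT.lf (nat_lit 0) (nat_lit 487888201577) (nat_lit 76) (nat_lit 3402226937760) (nat_lit 76) (nat_lit 2445342718476) (nat_lit 3) (nat_lit 4) (nat_lit 4) (nat_lit 5) (nat_lit 4) (nat_lit 4) (nat_lit 260) (nat_lit 233) (nat_lit 107)) (XT.lf (nat_lit 0) (nat_lit 1592053382836) (nat_lit 76) (nat_lit 3283507132784) (nat_lit 76) (nat_lit 2326622910692) (nat_lit 3) (nat_lit 4) (nat_lit 4) (nat_lit 5) (nat_lit 4) (nat_lit 4) (nat_lit 261) (nat_lit 233) (nat_lit 106))))) (XT.nd (nat_lit 312) (nat_lit 0) (nat_lit 0) (XT.nd (nat_lit 156) (nat_lit 0) (nat_lit 0) (XT.nd (nat_lit 78) (nat_lit 0) (nat_lit 0) (XT.lf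 (nat_lit 0) (nat_lit 2861843335629) (nat_lit 76) (nat_lit 3146979359724) (nat_lit 76) (nat_lit 2190095135190) (nat_lit 3) (nat_lit 4) (nat_lit 4) (nat_lit 5) (nat_lit 4) (nat_lit 4) (nat_lit 262) (nat_lit 233) (nat_lit 105)) (XT.lf (nat_lit 0) (nat_lit 4322101776423) (nat_lit 76) (nat_lit 2989972423021) (nat_lit 76) (nat_lit 2033088196365) (nat_lit 3) (nat_lit 4) (nat_lit 4) (nat_lit 5) (nat_lit 4) (nat_lit 4) (nat_lit 263) (nat_lit 233) (nat_lit 104))) (XT.nd (nat_lit 78) (nat_lit 0) (nat_lit 0) (XT.lf (nat_lit 0) (nat_lit 6001398979060) (nat_lit 76) (nat_lit 2809414447826) (nat_lit 76) (nat_lit 1852530219324) (nat_lit 3) (nat_lit 4) (nat_lit 4) (nat_lit 5) (nat_lit 4) (nat_lit 4) (nat_lit 264) (nat_lit 233) (nat_lit 103)) (XT.lf (nat_lit 0) (nat_lit 7932590758374) (nat_lit 76) (nat_lit 2601772778104) (nat_lit 76) (nat_lit 1644888547996) (nat_lit 3) (nat_lit 4) (nat_lit 4) (nat_lit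 5) (nat_lit 4) (nat_lit 4) (nat_lit 265) (nat_lit 233) (nat_lit 102)))) (XT.nd (nat_lit 156) (nat_lit 0) (nat_lit 0) (XT.nd (nat_lit 78) (nat_lit 0) (nat_lit 0) (XT.lf (nat_lit 0) (nat_lit 10153461301352) (nat_lit 76) (nat_lit 2362984859446) (nat_lit 76) (nat_lit 1406100627942) (nat_lit 3) (nat_lit 4) (nat_lit 4) (nat_lit 5) (nat_lit 4) (nat_lit 4) (nat_lit 266) (nat_lit 233) (nat_lit 101)) (XT.lf (nat_lit 0) (nat_lit 12707462422965) (nat_lit 76) (nat_lit 2088378754313) (nat_lit 76) (nat_lit 1131494521596) (nat_lit 3) (nat_lit 4) (nat_lit 4) (nat_lit 5) (nat_lit 4) (nat_lit 4) (nat_lit 267) (nat_lit 233) (nat_lit 100))) (XT.nd (nat_lit 78) (nat_lit 0) (nat_lit 0) (XT.lf (nat_lit 0) (nat_lit 15644563710375) (nat_lit 76) (nat_lit 1772581734561) (nat_lit 76) (nat_lit 815697500789) (nat_lit 3) (nat_lit 4) (nat_lit 4) (nat_lit 5) (nat_lit 4) (nat_lit 4) (nat_lit 268) (nat_lit 233) (nat_lit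 99)) (XT.lf (nat_lit 0) (nat_lit 19022230188770) (nat_lit 76) (nat_lit 1409415162849) (nat_lit 76) (nat_lit 452530928158) (nat_lit 3) (nat_lit 4) (nat_lit 4) (nat_lit 5) (nat_lit 4) (nat_lit 4) (nat_lit 269) (nat_lit 233) (nat_lit 98)))))) (XT.nd (nat_lit 29016) (nat_lit 0) (nat_lit 380) (XT.nd (nat_lit 28704) (nat_lit 0) (nat_lit 760) (XT.nd (nat_lit 28548) (nat_lit 0) (nat_lit 912) (XT.nd (nat_lit 28470) (nat_lit 0) (nat_lit 1216) (XT.lf (nat_lit 0) (nat_lit 22906546637076) (nat_lit 76) (nat_lit 991773606249) (nat_lit 76) (nat_lit 34889370761) (nat_lit 3) (nat_lit 4) (nat_lit 4) (nat_lit 5) (nat_lit 4) (nat_lit 4) (nat_lit 270) (nat_lit 233) (nat_lit 97)) (XT.lf (nat_lit 0) (nat_lit 114686992725) (nat_lit 0) (nat_lit 114686992725) (nat_lit 228) (nat_lit 7944301825) (nat_lit 19) (nat_lit 5) (nat_lit 19) (nat_lit 3) (nat_lit 22) (nat_lit 3) (nat_lit 234) (nat_lit 234) (nat_lit 132)))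 (XT.nd (nat_lit 78) (nat_lit 304) (nat_lit 0) (XT.lf (nat_lit 0) (nat_lit 466111962713) (nat_lit 0) (nat_lit 27042347297) (nat_lit 228) (nat_lit 17079968706) (nat_lit 19) (nat_lit 5) (nat_lit 19) (nat_lit 3) (nat_lit 22) (nat_lit 3) (nat_lit 235) (nat_lit 234) (nat_lit 131)) (XT.lf (nat_lit 0) (nat_lit 621301368) (nat_lit 304) (nat_lit 352569186851) (nat_lit 380) (nat_lit 195481428738) (nat_lit 15) (nat_lit 5) (nat_lit 19) (nat_lit 5) (nat_lit 20) (nat_lit 5) (nat_lit 236) (nat_lit 234) (nat_lit 130)))) (XT.nd (nat_lit 156) (nat_lit 152) (nat_lit 0) (XT.nd (nat_lit 78) (nat_lit 0) (nat_lit 76) (XT.lf (nat_lit 0) (nat_lit 22933011456) (nat_lit 304) (nat_lit 117419885265) (nat_lit 380) (nat_lit 451844717861) (nat_lit 15) (nat_lit 5) (nat_lit 19) (nat_lit 5) (nat_lit 20) (nat_lit 5) (nat_lit 237) (nat_lit 234) (nat_lit 129)) (XT.lf (nat_lit 0) (nat_lit 60200652085) (nat_lit 304) (nat_lit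 477909330074) (nat_lit 76) (nat_lit 102400808908) (nat_lit 16) (nat_lit 5) (nat_lit 20) (nat_lit 5) (nat_lit 17) (nat_lit 5) (nat_lit 238) (nat_lit 234) (nat_lit 128))) (XT.nd (nat_lit 78) (nat_lit 228) (nat_lit 0) (XT.lf (nat_lit 0) (nat_lit 116172015544) (nat_lit 304) (nat_lit 204303644394) (nat_lit 76) (nat_lit 373628247854) (nat_lit 16) (nat_lit 5) (nat_lit 20) (nat_lit 5) (nat_lit 17) (nat_lit 5) (nat_lit 239) (nat_lit 234) (nat_lit 127)) (XT.lf (nat_lit 0) (nat_lit 121126373774) (nat_lit 228) (nat_lit 64428267530) (nat_lit 304) (nat_lit 569429017297) (nat_lit 13) (nat_lit 5) (nat_lit 16) (nat_lit 5) (nat_lit 17) (nat_lit 5) (nat_lit 240) (nat_lit 234) (nat_lit 126))))) (XT.nd (nat_lit 312) (nat_lit 228) (nat_lit 0) (XT.nd (nat_lit 156) (nat_lit 0) (nat_lit 0) (XT.nd (nat_lit 78) (nat_lit 152) (nat_lit 0) (XT.lf (nat_lit 0) (nat_lit 286057588755) (nat_lit 304) (nat_lit 315095081552)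 (nat_lit 76) (nat_lit 220735762761) (nat_lit 13) (nat_lit 5) (nat_lit 17) (nat_lit 5) (nat_lit 14) (nat_lit 5) (nat_lit 241) (nat_lit 234) (nat_lit 125)) (XT.lf (nat_lit 0) (nat_lit 53144723933) (nat_lit 152) (nat_lit 353759855337) (nat_lit 228) (nat_lit 491134054476) (nat_lit 11) (nat_lit 5) (nat_lit 13) (nat_lit 5) (nat_lit 14) (nat_lit 5) (nat_lit 242) (nat_lit 234) (nat_lit 124))) (XT.nd (nat_lit 78) (nat_lit 0) (nat_lit 0) (XT.lf (nat_lit 0) (nat_lit 512032865488) (nat_lit 152) (nat_lit 50316612421) (nat_lit 228) (nat_lit 420791257844) (nat_lit 11) (nat_lit 5) (nat_lit 13) (nat_lit 5) (nat_lit 14) (nat_lit 5) (nat_lit 243) (nat_lit 234) (nat_lit 123)) (XT.lf (nat_lit 0) (nat_lit 753477268616) (nat_lit 228) (nat_lit 53620123801) (nat_lit 76) (nat_lit 272055837193) (nat_lit 11) (nat_lit 5) (nat_lit 14) (nat_lit 5) (nat_lit 12) (nat_lit 4) (nat_lit 244) (nat_lit 234) (nat_lit 122))))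 (XT.nd (nat_lit 156) (nat_lit 152) (nat_lit 0) (XT.nd (nat_lit 78) (nat_lit 0) (nat_lit 0) (XT.lf (nat_lit 0) (nat_lit 465540356009) (nat_lit 76) (nat_lit 529406919377) (nat_lit 152) (nat_lit 191369365161) (nat_lit 10) (nat_lit 5) (nat_lit 11) (nat_lit 5) (nat_lit 12) (nat_lit 4) (nat_lit 245) (nat_lit 234) (nat_lit 121)) (XT.lf (nat_lit 0) (nat_lit 1068601058269) (nat_lit 76) (nat_lit 206839581057) (nat_lit 152) (nat_lit 33693495478) (nat_lit 10) (nat_lit 5) (nat_lit 11) (nat_lit 5) (nat_lit 12) (nat_lit 4) (nat_lit 246) (nat_lit 234) (nat_lit 120))) (XT.nd (nat_lit 78) (nat_lit 0) (nat_lit 0) (XT.lf (nat_lit 0) (nat_lit 156131003235) (nat_lit 152) (nat_lit 1119619510483) (nat_lit 76) (nat_lit 170460665772) (nat_lit 8) (nat_lit 5) (nat_lit 10) (nat_lit 5) (nat_lit 9) (nat_lit 4) (nat_lit 247) (nat_lit 234) (nat_lit 119)) (XT.lf (nat_lit 0) (nat_lit 394001145760) (nat_lit 152) (nat_lit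 608198723920) (nat_lit 76) (nat_lit 597956012268) (nat_lit 8) (nat_lit 5) (nat_lit 10) (nat_lit 5) (nat_lit 9) (nat_lit 4) (nat_lit 248) (nat_lit 234) (nat_lit 118))))))))
noncomputable def xc57 : XT := (XT.nd (nat_lit 30810) (nat_lit 0) (nat_lit 0) (XT.nd (nat_lit 1170) (nat_lit 152) (nat_lit 0) (XT.nd (nat_lit 546) (nat_lit 152) (nat_lit 0) (XT.nd (nat_lit 234) (nat_lit 152) (nat_lit 0) (XT.nd (nat_lit 78) (nat_lit 76) (nat_lit 0) (XT.lf (nat_lit 0) (nat_lit 667551799116) (nat_lit 152) (nat_lit 20064836479) (nat_lit 76) (nat_lit 1089575655822) (nat_lit 8) (nat_lit 5) (nat_lit 10) (nat_lit 5) (nat_lit 9) (nat_lit 4) (nat_lit 249) (nat_lit 234) (nat_lit 117)) (XT.nd (nat_lit 78) (nat_lit 0) (nat_lit 0) (XT.lf (nat_lit 0) (nat_lit 720426464941) (nat_lit 76) (nat_lit 291539899961) (nat_lit 152) (nat_lit 964343100292) (nat_lit 7) (nat_lit 5) (nat_lit 8) (nat_lit 5) (nat_lit 9) (nat_lit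 4) (nat_lit 250) (nat_lit 234) (nat_lit 116)) (XT.lf (nat_lit 0) (nat_lit 1415930646813) (nat_lit 152) (nat_lit 637729124517) (nat_lit 0) (nat_lit 150451314064) (nat_lit 7) (nat_lit 5) (nat_lit 9) (nat_lit 4) (nat_lit 7) (nat_lit 4) (nat_lit 251) (nat_lit 234) (nat_lit 115)))) (XT.nd (nat_lit 156) (nat_lit 76) (nat_lit 0) (XT.nd (nat_lit 78) (nat_lit 0) (nat_lit 0) (XT.lf (nat_lit 0) (nat_lit 65056770481) (nat_lit 76) (nat_lit 1832009507390) (nat_lit 76) (nat_lit 566530164764) (nat_lit 6) (nat_lit 4) (nat_lit 7) (nat_lit 5) (nat_lit 7) (nat_lit 4) (nat_lit 252) (nat_lit 234) (nat_lit 114)) (XT.lf (nat_lit 0) (nat_lit 944932594324) (nat_lit 76) (nat_lit 1538775492687) (nat_lit 76) (nat_lit 273296141472) (nat_lit 6) (nat_lit 4) (nat_lit 7) (nat_lit 5) (nat_lit 7) (nat_lit 4) (nat_lit 253) (nat_lit 234) (nat_lit 113))) (XT.nd (nat_lit 78) (nat_lit 0) (nat_lit 0) (XT.lf (nat_lit 0) (nat_lit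 58232112560) (nat_lit 152) (nat_lit 1140280316678) (nat_lit 76) (nat_lit 1895513716805) (nat_lit 5) (nat_lit 5) (nat_lit 7) (nat_lit 5) (nat_lit 6) (nat_lit 4) (nat_lit 254) (nat_lit 234) (nat_lit 112)) (XT.lf (nat_lit 0) (nat_lit 411509279742) (nat_lit 152) (nat_lit 380734413730) (nat_lit 76) (nat_lit 2687405543348) (nat_lit 5) (nat_lit 5) (nat_lit 7) (nat_lit 5) (nat_lit 6) (nat_lit 4) (nat_lit 255) (nat_lit 234) (nat_lit 111))))) (XT.nd (nat_lit 312) (nat_lit 76) (nat_lit 0) (XT.nd (nat_lit 156) (nat_lit 0) (nat_lit 0) (XT.nd (nat_lit 78) (nat_lit 0) (nat_lit 0) (XT.lf (nat_lit 0) (nat_lit 540897831102) (nat_lit 76) (nat_lit 299277611654) (nat_lit 152) (nat_lit 3079580735364) (nat_lit 4) (nat_lit 5) (nat_lit 5) (nat_lit 5) (nat_lit 6) (nat_lit 4) (nat_lit 256) (nat_lit 234) (nat_lit 110)) (XT.lf (nat_lit 0) (nat_lit 1365073394739) (nat_lit 152) (nat_lit 2791359439938) (nat_lit 0)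 (nat_lit 264656546275) (nat_lit 4) (nat_lit 5) (nat_lit 6) (nat_lit 4) (nat_lit 4) (nat_lit 4) (nat_lit 257) (nat_lit 234) (nat_lit 109))) (XT.nd (nat_lit 78) (nat_lit 0) (nat_lit 0) (XT.lf (nat_lit 0) (nat_lit 1982957350167) (nat_lit 152) (nat_lit 2129987019473) (nat_lit 0) (nat_lit 882540497989) (nat_lit 4) (nat_lit 5) (nat_lit 6) (nat_lit 4) (nat_lit 4) (nat_lit 4) (nat_lit 258) (nat_lit 234) (nat_lit 108)) (XT.lf (nat_lit 0) (nat_lit 2693523895261) (nat_lit 152) (nat_lit 1369408742751) (nat_lit 0) (nat_lit 1593107039855) (nat_lit 4) (nat_lit 5) (nat_lit 6) (nat_lit 4) (nat_lit 4) (nat_lit 4) (nat_lit 259) (nat_lit 234) (nat_lit 107)))) (XT.nd (nat_lit 156) (nat_lit 0) (nat_lit 0) (XT.nd (nat_lit 78) (nat_lit 76) (nat_lit 0) (XT.lf (nat_lit 0) (nat_lit 3510675418948) (nat_lit 152) (nat_lit 494743730446) (nat_lit 0) (nat_lit 2410258560734) (nat_lit 4) (nat_lit 5) (nat_lit 6) (nat_lit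 4) (nat_lit 4) (nat_lit 4) (nat_lit 260) (nat_lit 234) (nat_lit 106)) (XT.lf (nat_lit 0) (nat_lit 561071492707) (nat_lit 76) (nat_lit 3912560949748) (nat_lit 76) (nat_lit 2812144089093) (nat_lit 3) (nat_lit 4) (nat_lit 4) (nat_lit 5) (nat_lit 4) (nat_lit 4) (nat_lit 261) (nat_lit 234) (nat_lit 105))) (XT.nd (nat_lit 78) (nat_lit 0) (nat_lit 0) (XT.lf (nat_lit 0) (nat_lit 1830861443212) (nat_lit 76) (nat_lit 3776033177765) (nat_lit 76) (nat_lit 2675616314988) (nat_lit 3) (nat_lit 4) (nat_lit 4) (nat_lit 5) (nat_lit 4) (nat_lit 4) (nat_lit 262) (nat_lit 234) (nat_lit 104)) (XT.lf (nat_lit 0) (nat_lit 3291119882018) (nat_lit 76) (nat_lit 3619026241999) (nat_lit 76) (nat_lit 2518609377375) (nat_lit 3) (nat_lit 4) (nat_lit 4) (nat_lit 5) (nat_lit 4) (nat_lit 4) (nat_lit 263) (nat_lit 234) (nat_lit 103)))))) (XT.nd (nat_lit 29016) (nat_lit 0) (nat_lit 912) (XT.nd (nat_lit 312) (nat_lit 152)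 (nat_lit 0) (XT.nd (nat_lit 156) (nat_lit 0) (nat_lit 0) (XT.nd (nat_lit 78) (nat_lit 0) (nat_lit 0) (XT.lf (nat_lit 0) (nat_lit 4970417082925) (nat_lit 76) (nat_lit 3438468267619) (nat_lit 76) (nat_lit 2338051401390) (nat_lit 3) (nat_lit 4) (nat_lit 4) (nat_lit 5) (nat_lit 4) (nat_lit 4) (nat_lit 264) (nat_lit 234) (nat_lit 102)) (XT.lf (nat_lit 0) (nat_lit 6901608860735) (nat_lit 76) (nat_lit 3230826598605) (nat_lit 76) (nat_lit 2130409730980) (nat_lit 3) (nat_lit 4) (nat_lit 4) (nat_lit 5) (nat_lit 4) (nat_lit 4) (nat_lit 265) (nat_lit 234) (nat_lit 101))) (XT.nd (nat_lit 78) (nat_lit 0) (nat_lit 0) (XT.lf (nat_lit 0) (nat_lit 9122479402405) (nat_lit 76) (nat_lit 2992038680562) (nat_lit 76) (nat_lit 1891621811724) (nat_lit 3) (nat_lit 4) (nat_lit 4) (nat_lit 5) (nat_lit 4) (nat_lit 4) (nat_lit 266) (nat_lit 234) (nat_lit 100)) (XT.lf (nat_lit 0) (nat_lit 11676480522881) (nat_lit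 76) (nat_lit 2717432575965) (nat_lit 76) (nat_lit 1617015706071) (nat_lit 3) (nat_lit 4) (nat_lit 4) (nat_lit 5) (nat_lit 4) (nat_lit 4) (nat_lit 267) (nat_lit 234) (nat_lit 99)))) (XT.nd (nat_lit 468) (nat_lit 152) (nat_lit 0) (XT.nd (nat_lit 78) (nat_lit 0) (nat_lit 0) (XT.lf (nat_lit 0) (nat_lit 14613581809302) (nat_lit 76) (nat_lit 2401635556679) (nat_lit 76) (nat_lit 1301218685867) (nat_lit 3) (nat_lit 4) (nat_lit 4) (nat_lit 5) (nat_lit 4) (nat_lit 4) (nat_lit 268) (nat_lit 234) (nat_lit 98)) (XT.lf (nat_lit 0) (nat_lit 17991248286837) (nat_lit 76) (nat_lit 2038468985371) (nat_lit 76) (nat_lit 938052113761) (nat_lit 3) (nat_lit 4) (nat_lit 4) (nat_lit 5) (nat_lit 4) (nat_lit 4) (nat_lit 269) (nat_lit 234) (nat_lit 97))) (XT.nd (nat_lit 78) (nat_lit 0) (nat_lit 0) (XT.lf (nat_lit 0) (nat_lit 1869301021500) (nat_lit 152) (nat_lit 38708338111118) (nat_lit 0) (nat_lit 912416782992)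 (nat_lit 1) (nat_lit 5) (nat_lit 3) (nat_lit 4) (nat_lit 1) (nat_lit 4) (nat_lit 274) (nat_lit 234) (nat_lit 92)) (XT.lf (nat_lit 0) (nat_lit 2749328618633) (nat_lit 152) (nat_lit 43058542543609) (nat_lit 0) (nat_lit 1792444379824) (nat_lit 1) (nat_lit 5) (nat_lit 3) (nat_lit 4) (nat_lit 1) (nat_lit 4) (nat_lit 275) (nat_lit 234) (nat_lit 91))))) (XT.nd (nat_lit 312) (nat_lit 152) (nat_lit 0) (XT.nd (nat_lit 156) (nat_lit 304) (nat_lit 0) (XT.nd (nat_lit 78) (nat_lit 0) (nat_lit 0) (XT.lf (nat_lit 0) (nat_lit 131890157283) (nat_lit 0) (nat_lit 131890157283) (nat_lit 228) (nat_lit 9135678484) (nat_lit 19) (nat_lit 5) (nat_lit 19) (nat_lit 3) (nat_lit 22) (nat_lit 3) (nat_lit 235) (nat_lit 235) (nat_lit 130)) (XT.lf (nat_lit 0) (nat_lit 536028958248) (nat_lit 0) (nat_lit 31098900520) (nat_lit 228) (nat_lit 19641496854) (nat_lit 19) (nat_lit 5) (nat_lit 19) (nat_lit 3) (nat_lit 22) (nat_lit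 3) (nat_lit 236) (nat_lit 235) (nat_lit 129))) (XT.nd (nat_lit 78) (nat_lit 0) (nat_lit 0) (XT.lf (nat_lit 0) (nat_lit 714870406) (nat_lit 304) (nat_lit 405454263009) (nat_lit 380) (nat_lit 224803511561) (nat_lit 15) (nat_lit 5) (nat_lit 19) (nat_lit 5) (nat_lit 20) (nat_lit 5) (nat_lit 237) (nat_lit 235) (nat_lit 128)) (XT.lf (nat_lit 0) (nat_lit 26373288246) (nat_lit 304) (nat_lit 135032605559) (nat_lit 380) (nat_lit 519621311203) (nat_lit 15) (nat_lit 5) (nat_lit 19) (nat_lit 5) (nat_lit 20) (nat_lit 5) (nat_lit 238) (nat_lit 235) (nat_lit 127)))) (XT.nd (nat_lit 156) (nat_lit 228) (nat_lit 0) (XT.nd (nat_lit 78) (nat_lit 0) (nat_lit 0) (XT.lf (nat_lit 0) (nat_lit 69231041185) (nat_lit 304) (nat_lit 549595430697) (nat_lit 76) (nat_lit 117760891543) (nat_lit 16) (nat_lit 5) (nat_lit 20) (nat_lit 5) (nat_lit 17) (nat_lit 5) (nat_lit 239) (nat_lit 235) (nat_lit 126)) (XT.lf (nat_lit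 0) (nat_lit 133598071169) (nat_lit 304) (nat_lit 234948931151) (nat_lit 76) (nat_lit 429672451379) (nat_lit 16) (nat_lit 5) (nat_lit 20) (nat_lit 5) (nat_lit 17) (nat_lit 5) (nat_lit 240) (nat_lit 235) (nat_lit 125))) (XT.nd (nat_lit 78) (nat_lit 0) (nat_lit 0) (XT.lf (nat_lit 0) (nat_lit 139295577929) (nat_lit 228) (nat_lit 74092490099) (nat_lit 304) (nat_lit 654843102812) (nat_lit 13) (nat_lit 5) (nat_lit 16) (nat_lit 5) (nat_lit 17) (nat_lit 5) (nat_lit 241) (nat_lit 235) (nat_lit 124)) (XT.lf (nat_lit 0) (nat_lit 328966428159) (nat_lit 304) (nat_lit 362359096904) (nat_lit 76) (nat_lit 253846141086) (nat_lit 13) (nat_lit 5) (nat_lit 17) (nat_lit 5) (nat_lit 14) (nat_lit 5) (nat_lit 242) (nat_lit 235) (nat_lit 123))))))) (XT.nd (nat_lit 1170) (nat_lit 228) (nat_lit 0) (XT.nd (nat_lit 546) (nat_lit 304) (nat_lit 0) (XT.nd (nat_lit 234) (nat_lit 228) (nat_lit 0) (XT.nd (nat_lit 78)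 (nat_lit 0) (nat_lit 0) (XT.lf (nat_lit 0) (nat_lit 61116668182) (nat_lit 152) (nat_lit 406823782600) (nat_lit 228) (nat_lit 564803948842) (nat_lit 11) (nat_lit 5) (nat_lit 13) (nat_lit 5) (nat_lit 14) (nat_lit 5) (nat_lit 243) (nat_lit 235) (nat_lit 122)) (XT.nd (nat_lit 78) (nat_lit 0) (nat_lit 0) (XT.lf (nat_lit 0) (nat_lit 588838000232) (nat_lit 152) (nat_lit 57864059903) (nat_lit 228) (nat_lit 483909760604) (nat_lit 11) (nat_lit 5) (nat_lit 13) (nat_lit 5) (nat_lit 14) (nat_lit 5) (nat_lit 244) (nat_lit 235) (nat_lit 121)) (XT.lf (nat_lit 0) (nat_lit 866499000106) (nat_lit 228) (nat_lit 61662943710) (nat_lit 76) (nat_lit 312864247929) (nat_lit 11) (nat_lit 5) (nat_lit 14) (nat_lit 5) (nat_lit 12) (nat_lit 4) (nat_lit 245) (nat_lit 235) (nat_lit 120)))) (XT.nd (nat_lit 156) (nat_lit 152) (nat_lit 0) (XT.nd (nat_lit 78) (nat_lit 0) (nat_lit 0) (XT.lf (nat_lit 0) (nat_lit 535371599041)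 (nat_lit 76) (nat_lit 608817898285) (nat_lit 152) (nat_lit 220074618727) (nat_lit 10) (nat_lit 5) (nat_lit 11) (nat_lit 5) (nat_lit 12) (nat_lit 4) (nat_lit 246) (nat_lit 235) (nat_lit 119)) (XT.lf (nat_lit 0) (nat_lit 1228891381907) (nat_lit 76) (nat_lit 237865466912) (nat_lit 152) (nat_lit 38747388315) (nat_lit 10) (nat_lit 5) (nat_lit 11) (nat_lit 5) (nat_lit 12) (nat_lit 4) (nat_lit 247) (nat_lit 235) (nat_lit 118))) (XT.nd (nat_lit 78) (nat_lit 0) (nat_lit 0) (XT.lf (nat_lit 0) (nat_lit 179550767293) (nat_lit 152) (nat_lit 1287562252859) (nat_lit 76) (nat_lit 196029818581) (nat_lit 8) (nat_lit 5) (nat_lit 10) (nat_lit 5) (nat_lit 9) (nat_lit 4) (nat_lit 248) (nat_lit 235) (nat_lit 117)) (XT.lf (nat_lit 0) (nat_lit 453101416382) (nat_lit 152) (nat_lit 699428372337) (nat_lit 76) (nat_lit 687649460146) (nat_lit 8) (nat_lit 5) (nat_lit 10) (nat_lit 5) (nat_lit 9) (nat_lit 4) (nat_lit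 249) (nat_lit 235) (nat_lit 116))))) (XT.nd (nat_lit 312) (nat_lit 152) (nat_lit 0) (XT.nd (nat_lit 156) (nat_lit 76) (nat_lit 0) (XT.nd (nat_lit 78) (nat_lit 76) (nat_lit 0) (XT.lf (nat_lit 0) (nat_lit 767684654860) (nat_lit 152) (nat_lit 23074422673) (nat_lit 76) (nat_lit 1253012044228) (nat_lit 8) (nat_lit 5) (nat_lit 10) (nat_lit 5) (nat_lit 9) (nat_lit 4) (nat_lit 250) (nat_lit 235) (nat_lit 115)) (XT.lf (nat_lit 0) (nat_lit 828490567630) (nat_lit 76) (nat_lit 335270832188) (nat_lit 152) (nat_lit 1108994472704) (nat_lit 7) (nat_lit 5) (nat_lit 8) (nat_lit 5) (nat_lit 9) (nat_lit 4) (nat_lit 251) (nat_lit 235) (nat_lit 114))) (XT.nd (nat_lit 78) (nat_lit 76) (nat_lit 0) (XT.lf (nat_lit 0) (nat_lit 1628320315458) (nat_lit 152) (nat_lit 733388368661) (nat_lit 0) (nat_lit 173019052973) (nat_lit 7) (nat_lit 5) (nat_lit 9) (nat_lit 4) (nat_lit 7) (nat_lit 4) (nat_lit 252) (nat_lit 235)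 (nat_lit 113)) (XT.lf (nat_lit 0) (nat_lit 74815404927) (nat_lit 76) (nat_lit 2106810881828) (nat_lit 76) (nat_lit 651509611875) (nat_lit 6) (nat_lit 4) (nat_lit 7) (nat_lit 5) (nat_lit 7) (nat_lit 4) (nat_lit 253) (nat_lit 235) (nat_lit 112)))) (XT.nd (nat_lit 156) (nat_lit 76) (nat_lit 0) (XT.nd (nat_lit 78) (nat_lit 76) (nat_lit 0) (XT.lf (nat_lit 0) (nat_lit 1086672586841) (nat_lit 76) (nat_lit 1769591771659) (nat_lit 76) (nat_lit 314290495212) (nat_lit 6) (nat_lit 4) (nat_lit 7) (nat_lit 5) (nat_lit 7) (nat_lit 4) (nat_lit 254) (nat_lit 235) (nat_lit 111)) (XT.lf (nat_lit 0) (nat_lit 66966982899) (nat_lit 152) (nat_lit 1311322268860) (nat_lit 76) (nat_lit 2179840807962) (nat_lit 5) (nat_lit 5) (nat_lit 7) (nat_lit 5) (nat_lit 6) (nat_lit 4) (nat_lit 255) (nat_lit 235) (nat_lit 110))) (XT.nd (nat_lit 78) (nat_lit 76) (nat_lit 0) (XT.lf (nat_lit 0) (nat_lit 473235718186) (nat_lit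 152) (nat_lit 437844492903) (nat_lit 76) (nat_lit 3090516404098) (nat_lit 5) (nat_lit 5) (nat_lit 7) (nat_lit 5) (nat_lit 6) (nat_lit 4) (nat_lit 256) (nat_lit 235) (nat_lit 109)) (XT.lf (nat_lit 0) (nat_lit 622032584886) (nat_lit 76) (nat_lit 344169217978) (nat_lit 152) (nat_lit 3541517795259) (nat_lit 4) (nat_lit 5) (nat_lit 5) (nat_lit 5) (nat_lit 6) (nat_lit 4) (nat_lit 257) (nat_lit 235) (nat_lit 108)))))) (XT.nd (nat_lit 624) (nat_lit 152) (nat_lit 0) (XT.nd (nat_lit 312) (nat_lit 76) (nat_lit 0) (XT.nd (nat_lit 156) (nat_lit 0) (nat_lit 0) (XT.nd (nat_lit 78) (nat_lit 0) (nat_lit 0) (XT.lf (nat_lit 0) (nat_lit 1569834443222) (nat_lit 152) (nat_lit 3210063282567) (nat_lit 0) (nat_lit 304355056277) (nat_lit 4) (nat_lit 5) (nat_lit 6) (nat_lit 4) (nat_lit 4) (nat_lit 4) (nat_lit 258) (nat_lit 235) (nat_lit 107)) (XT.lf (nat_lit 0) (nat_lit 2280400986841) (nat_lit 152) (nat_lit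 2449485008601) (nat_lit 0) (nat_lit 1014921597088) (nat_lit 4) (nat_lit 5) (nat_lit 6) (nat_lit 4) (nat_lit 4) (nat_lit 4) (nat_lit 259) (nat_lit 235) (nat_lit 106))) (XT.nd (nat_lit 78) (nat_lit 0) (nat_lit 0) (XT.lf (nat_lit 0) (nat_lit 3097552509245) (nat_lit 152) (nat_lit 1574819998692) (nat_lit 0) (nat_lit 1832073117051) (nat_lit 4) (nat_lit 5) (nat_lit 6) (nat_lit 4) (nat_lit 4) (nat_lit 4) (nat_lit 260) (nat_lit 235) (nat_lit 105)) (XT.lf (nat_lit 0) (nat_lit 4037276757612) (nat_lit 152) (nat_lit 568955241776) (nat_lit 0) (nat_lit 2771797363295) (nat_lit 4) (nat_lit 5) (nat_lit 6) (nat_lit 4) (nat_lit 4) (nat_lit 4) (nat_lit 261) (nat_lit 235) (nat_lit 104)))) (XT.nd (nat_lit 156) (nat_lit 0) (nat_lit 0) (XT.nd (nat_lit 78) (nat_lit 0) (nat_lit 0) (XT.lf (nat_lit 0) (nat_lit 645232262657) (nat_lit 76) (nat_lit 4499445070526) (nat_lit 76) (nat_lit 3233965674363) (nat_lit 3) (nat_lit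 4) (nat_lit 4) (nat_lit 5) (nat_lit 4) (nat_lit 4) (nat_lit 262) (nat_lit 235) (nat_lit 103)) (XT.lf (nat_lit 0) (nat_lit 2105490699733) (nat_lit 76) (nat_lit 4342438135575) (nat_lit 76) (nat_lit 3076958737806) (nat_lit 3) (nat_lit 4) (nat_lit 4) (nat_lit 5) (nat_lit 4) (nat_lit 4) (nat_lit 263) (nat_lit 235) (nat_lit 102))) (XT.nd (nat_lit 78) (nat_lit 0) (nat_lit 0) (XT.lf (nat_lit 0) (nat_lit 3784787899136) (nat_lit 76) (nat_lit 4161880161903) (nat_lit 76) (nat_lit 2896400762739) (nat_lit 3) (nat_lit 4) (nat_lit 4) (nat_lit 5) (nat_lit 4) (nat_lit 4) (nat_lit 264) (nat_lit 235) (nat_lit 101)) (XT.lf (nat_lit 0) (nat_lit 5715979675639) (nat_lit 76) (nat_lit 3954238493504) (nat_lit 76) (nat_lit 2688759093126) (nat_lit 3) (nat_lit 4) (nat_lit 4) (nat_lit 5) (nat_lit 4) (nat_lit 4) (nat_lit 265) (nat_lit 235) (nat_lit 100))))) (XT.nd (nat_lit 624) (nat_lit 76) (nat_lit 0) (XT.nd (nat_lit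 468) (nat_lit 76) (nat_lit 0) (XT.nd (nat_lit 78) (nat_lit 0) (nat_lit 0) (XT.lf (nat_lit 0) (nat_lit 7936850216172) (nat_lit 76) (nat_lit 3715450575998) (nat_lit 76) (nat_lit 2449971174564) (nat_lit 3) (nat_lit 4) (nat_lit 4) (nat_lit 5) (nat_lit 4) (nat_lit 4) (nat_lit 266) (nat_lit 235) (nat_lit 99)) (XT.lf (nat_lit 0) (nat_lit 10490851335658) (nat_lit 76) (nat_lit 3440844471866) (nat_lit 76) (nat_lit 2175365069515) (nat_lit 3) (nat_lit 4) (nat_lit 4) (nat_lit 5) (nat_lit 4) (nat_lit 4) (nat_lit 267) (nat_lit 235) (nat_lit 98))) (XT.nd (nat_lit 78) (nat_lit 76) (nat_lit 0) (XT.lf (nat_lit 0) (nat_lit 30293907956224) (nat_lit 76) (nat_lit 1311620580753) (nat_lit 76) (nat_lit 46141175326) (nat_lit 3) (nat_lit 4) (nat_lit 4) (nat_lit 5) (nat_lit 4) (nat_lit 4) (nat_lit 272) (nat_lit 235) (nat_lit 93)) (XT.lf (nat_lit 0) (nat_lit 536599061838) (nat_lit 152) (nat_lit 111791422872) (nat_lit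 76) (nat_lit 35636819170420) (nat_lit 2) (nat_lit 5) (nat_lit 4) (nat_lit 5) (nat_lit 3) (nat_lit 4) (nat_lit 273) (nat_lit 235) (nat_lit 92)))) (XT.nd (nat_lit 156) (nat_lit 0) (nat_lit 0) (XT.nd (nat_lit 78) (nat_lit 0) (nat_lit 0) (XT.lf (nat_lit 0) (nat_lit 1269668582486) (nat_lit 152) (nat_lit 40164384385708) (nat_lit 0) (nat_lit 169251707556) (nat_lit 1) (nat_lit 5) (nat_lit 3) (nat_lit 4) (nat_lit 1) (nat_lit 4) (nat_lit 274) (nat_lit 235) (nat_lit 91)) (XT.lf (nat_lit 0) (nat_lit 2149696179416) (nat_lit 152) (nat_lit 44514588818596) (nat_lit 0) (nat_lit 1049279304225) (nat_lit 1) (nat_lit 5) (nat_lit 3) (nat_lit 4) (nat_lit 1) (nat_lit 4) (nat_lit 275) (nat_lit 235) (nat_lit 90))) (XT.nd (nat_lit 78) (nat_lit 0) (nat_lit 0) (XT.lf (nat_lit 0) (nat_lit 3161727915507) (nat_lit 152) (nat_lit 49517323917159) (nat_lit 0) (nat_lit 2061311040089) (nat_lit 1) (nat_lit 5) (nat_lit 3)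 (nat_lit 4) (nat_lit 1) (nat_lit 4) (nat_lit 276) (nat_lit 235) (nat_lit 89)) (XT.lf (nat_lit 0) (nat_lit 4325564411681) (nat_lit 152) (nat_lit 55270469281153) (nat_lit 0) (nat_lit 3225147536066) (nat_lit 1) (nat_lit 5) (nat_lit 3) (nat_lit 4) (nat_lit 1) (nat_lit 4) (nat_lit 277) (nat_lit 235) (nat_lit 88))))))))
noncomputable def xc58 : XT := (XT.nd (nat_lit 2886) (nat_lit 152) (nat_lit 0) (XT.nd (nat_lit 1170) (nat_lit 380) (nat_lit 0) (XT.nd (nat_lit 546) (nat_lit 380) (nat_lit 0) (XT.nd (nat_lit 234) (nat_lit 152) (nat_lit 0) (XT.nd (nat_lit 78) (nat_lit 304) (nat_lit 0) (XT.lf (nat_lit 0) (nat_lit 151673768323) (nat_lit 0) (nat_lit 151673768323) (nat_lit 228) (nat_lit 10505827144) (nat_lit 19) (nat_lit 5) (nat_lit 19) (nat_lit 3) (nat_lit 22) (nat_lit 3) (nat_lit 236) (nat_lit 236) (nat_lit 128)) (XT.nd (nat_lit 78) (nat_lit 304) (nat_lit 0) (XT.lf (nat_lit 0) (nat_lit 616433454068)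 (nat_lit 0) (nat_lit 35763887681) (nat_lit 228) (nat_lit 22587368144) (nat_lit 19) (nat_lit 5) (nat_lit 19) (nat_lit 3) (nat_lit 22) (nat_lit 3) (nat_lit 237) (nat_lit 236) (nat_lit 127)) (XT.lf (nat_lit 0) (nat_lit 822383639) (nat_lit 304) (nat_lit 466272174204) (nat_lit 380) (nat_lit 258523938871) (nat_lit 15) (nat_lit 5) (nat_lit 19) (nat_lit 5) (nat_lit 20) (nat_lit 5) (nat_lit 238) (nat_lit 236) (nat_lit 126)))) (XT.nd (nat_lit 156) (nat_lit 152) (nat_lit 0) (XT.nd (nat_lit 78) (nat_lit 0) (nat_lit 76) (XT.lf (nat_lit 0) (nat_lit 30329527285) (nat_lit 304) (nat_lit 155287297909) (nat_lit 380) (nat_lit 597564421429) (nat_lit 15) (nat_lit 5) (nat_lit 19) (nat_lit 5) (nat_lit 20) (nat_lit 5) (nat_lit 239) (nat_lit 236) (nat_lit 125)) (XT.lf (nat_lit 0) (nat_lit 79615917618) (nat_lit 304) (nat_lit 632034519300) (nat_lit 76) (nat_lit 135424996011) (nat_lit 16) (nat_lit 5) (nat_lit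 20) (nat_lit 5) (nat_lit 17) (nat_lit 5) (nat_lit 240) (nat_lit 236) (nat_lit 124))) (XT.nd (nat_lit 78) (nat_lit 228) (nat_lit 0) (XT.lf (nat_lit 0) (nat_lit 153637973371) (nat_lit 304) (nat_lit 270191074300) (nat_lit 76) (nat_lit 494123293639) (nat_lit 16) (nat_lit 5) (nat_lit 20) (nat_lit 5) (nat_lit 17) (nat_lit 5) (nat_lit 241) (nat_lit 236) (nat_lit 123)) (XT.lf (nat_lit 0) (nat_lit 160190102209) (nat_lit 228) (nat_lit 85206350336) (nat_lit 304) (nat_lit 753069366283) (nat_lit 13) (nat_lit 5) (nat_lit 16) (nat_lit 5) (nat_lit 17) (nat_lit 5) (nat_lit 242) (nat_lit 236) (nat_lit 122))))) (XT.nd (nat_lit 312) (nat_lit 228) (nat_lit 0) (XT.nd (nat_lit 156) (nat_lit 0) (nat_lit 0) (XT.nd (nat_lit 78) (nat_lit 152) (nat_lit 0) (XT.lf (nat_lit 0) (nat_lit 378311544437) (nat_lit 304) (nat_lit 416712774762) (nat_lit 76) (nat_lit 291923072768) (nat_lit 13) (nat_lit 5) (nat_lit 17) (nat_lit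 5) (nat_lit 14) (nat_lit 5) (nat_lit 243) (nat_lit 236) (nat_lit 121)) (XT.lf (nat_lit 0) (nat_lit 70284346601) (nat_lit 152) (nat_lit 467847311397) (nat_lit 228) (nat_lit 649524379502) (nat_lit 11) (nat_lit 5) (nat_lit 13) (nat_lit 5) (nat_lit 14) (nat_lit 5) (nat_lit 244) (nat_lit 236) (nat_lit 120))) (XT.nd (nat_lit 78) (nat_lit 0) (nat_lit 0) (XT.lf (nat_lit 0) (nat_lit 677163855216) (nat_lit 152) (nat_lit 66543635330) (nat_lit 228) (nat_lit 556496084115) (nat_lit 11) (nat_lit 5) (nat_lit 13) (nat_lit 5) (nat_lit 14) (nat_lit 5) (nat_lit 245) (nat_lit 236) (nat_lit 119)) (XT.lf (nat_lit 0) (nat_lit 996473956888) (nat_lit 228) (nat_lit 70912235050) (nat_lit 76) (nat_lit 359793911701) (nat_lit 11) (nat_lit 5) (nat_lit 14) (nat_lit 5) (nat_lit 12) (nat_lit 4) (nat_lit 246) (nat_lit 236) (nat_lit 118)))) (XT.nd (nat_lit 156) (nat_lit 152) (nat_lit 0) (XT.nd (nat_lit 78) (nat_lit 0)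 (nat_lit 0) (XT.lf (nat_lit 0) (nat_lit 615677482286) (nat_lit 76) (nat_lit 700140538416) (nat_lit 152) (nat_lit 253085697201) (nat_lit 10) (nat_lit 5) (nat_lit 11) (nat_lit 5) (nat_lit 12) (nat_lit 4) (nat_lit 247) (nat_lit 236) (nat_lit 117)) (XT.lf (nat_lit 0) (nat_lit 1413225213879) (nat_lit 76) (nat_lit 273545248157) (nat_lit 152) (nat_lit 44559397140) (nat_lit 10) (nat_lit 5) (nat_lit 11) (nat_lit 5) (nat_lit 12) (nat_lit 4) (nat_lit 248) (nat_lit 236) (nat_lit 116))) (XT.nd (nat_lit 78) (nat_lit 0) (nat_lit 0) (XT.lf (nat_lit 0) (nat_lit 206483468264) (nat_lit 152) (nat_lit 1480696451510) (nat_lit 76) (nat_lit 225434331401) (nat_lit 8) (nat_lit 5) (nat_lit 10) (nat_lit 5) (nat_lit 9) (nat_lit 4) (nat_lit 249) (nat_lit 236) (nat_lit 115)) (XT.lf (nat_lit 0) (nat_lit 521066703516) (nat_lit 152) (nat_lit 804342507076) (nat_lit 76) (nat_lit 790796913979) (nat_lit 8) (nat_lit 5)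 (nat_lit 10) (nat_lit 5) (nat_lit 9) (nat_lit 4) (nat_lit 250) (nat_lit 236) (nat_lit 114)))))) (XT.nd (nat_lit 624) (nat_lit 76) (nat_lit 0) (XT.nd (nat_lit 312) (nat_lit 152) (nat_lit 0) (XT.nd (nat_lit 156) (nat_lit 76) (nat_lit 0) (XT.nd (nat_lit 78) (nat_lit 76) (nat_lit 0) (XT.lf (nat_lit 0) (nat_lit 882837418024) (nat_lit 152) (nat_lit 26535480759) (nat_lit 76) (nat_lit 1440963881133) (nat_lit 8) (nat_lit 5) (nat_lit 10) (nat_lit 5) (nat_lit 9) (nat_lit 4) (nat_lit 251) (nat_lit 236) (nat_lit 113)) (XT.lf (nat_lit 0) (nat_lit 952764253302) (nat_lit 76) (nat_lit 385561417117) (nat_lit 152) (nat_lit 1275343573566) (nat_lit 7) (nat_lit 5) (nat_lit 8) (nat_lit 5) (nat_lit 9) (nat_lit 4) (nat_lit 252) (nat_lit 236) (nat_lit 112))) (XT.nd (nat_lit 78) (nat_lit 76) (nat_lit 0) (XT.lf (nat_lit 0) (nat_lit 1872568416933) (nat_lit 152) (nat_lit 843396529795) (nat_lit 0) (nat_lit 198971942525)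 (nat_lit 7) (nat_lit 5) (nat_lit 9) (nat_lit 4) (nat_lit 7) (nat_lit 4) (nat_lit 253) (nat_lit 236) (nat_lit 111)) (XT.lf (nat_lit 0) (nat_lit 86037805551) (nat_lit 76) (nat_lit 2422832475032) (nat_lit 76) (nat_lit 749235994977) (nat_lit 6) (nat_lit 4) (nat_lit 7) (nat_lit 5) (nat_lit 7) (nat_lit 4) (nat_lit 254) (nat_lit 236) (nat_lit 110)))) (XT.nd (nat_lit 156) (nat_lit 76) (nat_lit 0) (XT.nd (nat_lit 78) (nat_lit 76) (nat_lit 0) (XT.lf (nat_lit 0) (nat_lit 1249673553028) (nat_lit 76) (nat_lit 2035030503433) (nat_lit 76) (nat_lit 361434018468) (nat_lit 6) (nat_lit 4) (nat_lit 7) (nat_lit 5) (nat_lit 7) (nat_lit 4) (nat_lit 255) (nat_lit 236) (nat_lit 109)) (XT.lf (nat_lit 0) (nat_lit 77012070754) (nat_lit 152) (nat_lit 1508020537113) (nat_lit 76) (nat_lit 2506816954590) (nat_lit 5) (nat_lit 5) (nat_lit 7) (nat_lit 5) (nat_lit 6) (nat_lit 4) (nat_lit 256) (nat_lit 236) (nat_lit 108)))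 (XT.nd (nat_lit 78) (nat_lit 76) (nat_lit 0) (XT.lf (nat_lit 0) (nat_lit 544221111062) (nat_lit 152) (nat_lit 503521104164) (nat_lit 76) (nat_lit 3554093886829) (nat_lit 5) (nat_lit 5) (nat_lit 7) (nat_lit 5) (nat_lit 6) (nat_lit 4) (nat_lit 257) (nat_lit 236) (nat_lit 107)) (XT.lf (nat_lit 0) (nat_lit 715337532445) (nat_lit 76) (nat_lit 395794573890) (nat_lit 152) (nat_lit 4072745426431) (nat_lit 4) (nat_lit 5) (nat_lit 5) (nat_lit 5) (nat_lit 6) (nat_lit 4) (nat_lit 258) (nat_lit 236) (nat_lit 106))))) (XT.nd (nat_lit 312) (nat_lit 76) (nat_lit 0) (XT.nd (nat_lit 156) (nat_lit 0) (nat_lit 0) (XT.nd (nat_lit 78) (nat_lit 0) (nat_lit 0) (XT.lf (nat_lit 0) (nat_lit 1805309639401) (nat_lit 152) (nat_lit 3691572719480) (nat_lit 0) (nat_lit 350008335936) (nat_lit 4) (nat_lit 5) (nat_lit 6) (nat_lit 4) (nat_lit 4) (nat_lit 4) (nat_lit 259) (nat_lit 236) (nat_lit 105)) (XT.lf (nat_lit 0)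 (nat_lit 2622461160690) (nat_lit 152) (nat_lit 2816907711655) (nat_lit 0) (nat_lit 1167159855102) (nat_lit 4) (nat_lit 5) (nat_lit 6) (nat_lit 4) (nat_lit 4) (nat_lit 4) (nat_lit 260) (nat_lit 236) (nat_lit 104))) (XT.nd (nat_lit 78) (nat_lit 0) (nat_lit 0) (XT.lf (nat_lit 0) (nat_lit 3562185408086) (nat_lit 152) (nat_lit 1811042956551) (nat_lit 0) (nat_lit 2106884100653) (nat_lit 4) (nat_lit 5) (nat_lit 6) (nat_lit 4) (nat_lit 4) (nat_lit 4) (nat_lit 261) (nat_lit 236) (nat_lit 103)) (XT.lf (nat_lit 0) (nat_lit 4642868290779) (nat_lit 152) (nat_lit 654298491569) (nat_lit 0) (nat_lit 3187566981740) (nat_lit 4) (nat_lit 5) (nat_lit 6) (nat_lit 4) (nat_lit 4) (nat_lit 4) (nat_lit 262) (nat_lit 236) (nat_lit 102)))) (XT.nd (nat_lit 156) (nat_lit 0) (nat_lit 0) (XT.nd (nat_lit 78) (nat_lit 0) (nat_lit 0) (XT.lf (nat_lit 0) (nat_lit 742017136871) (nat_lit 76) (nat_lit 5174361814710) (nat_lit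 76) (nat_lit 3719060504275) (nat_lit 3) (nat_lit 4) (nat_lit 4) (nat_lit 5) (nat_lit 4) (nat_lit 4) (nat_lit 263) (nat_lit 236) (nat_lit 101)) (XT.lf (nat_lit 0) (nat_lit 2421314334967) (nat_lit 76) (nat_lit 4993803841654) (nat_lit 76) (nat_lit 3538502530005) (nat_lit 3) (nat_lit 4) (nat_lit 4) (nat_lit 5) (nat_lit 4) (nat_lit 4) (nat_lit 264) (nat_lit 236) (nat_lit 100))) (XT.nd (nat_lit 546) (nat_lit 0) (nat_lit 0) (XT.lf (nat_lit 0) (nat_lit 4352506110333) (nat_lit 76) (nat_lit 4786162173791) (nat_lit 76) (nat_lit 3330860861087) (nat_lit 3) (nat_lit 4) (nat_lit 4) (nat_lit 5) (nat_lit 4) (nat_lit 4) (nat_lit 265) (nat_lit 236) (nat_lit 99)) (XT.lf (nat_lit 0) (nat_lit 28930434386187) (nat_lit 76) (nat_lit 2143544263268) (nat_lit 76) (nat_lit 688242946173) (nat_lit 3) (nat_lit 4) (nat_lit 4) (nat_lit 5) (nat_lit 4) (nat_lit 4) (nat_lit 272) (nat_lit 236) (nat_lit 92))))))) (XT.nd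 (nat_lit 29328) (nat_lit 0) (nat_lit 228) (XT.nd (nat_lit 28704) (nat_lit 0) (nat_lit 760) (XT.nd (nat_lit 234) (nat_lit 0) (nat_lit 0) (XT.nd (nat_lit 78) (nat_lit 152) (nat_lit 0) (XT.lf (nat_lit 0) (nat_lit 34837994158264) (nat_lit 76) (nat_lit 1508363663814) (nat_lit 76) (nat_lit 53062346374) (nat_lit 3) (nat_lit 4) (nat_lit 4) (nat_lit 5) (nat_lit 4) (nat_lit 4) (nat_lit 273) (nat_lit 236) (nat_lit 91)) (XT.nd (nat_lit 78) (nat_lit 76) (nat_lit 0) (XT.lf (nat_lit 0) (nat_lit 617088925273) (nat_lit 152) (nat_lit 128560128401) (nat_lit 76) (nat_lit 40982342049090) (nat_lit 2) (nat_lit 5) (nat_lit 4) (nat_lit 5) (nat_lit 3) (nat_lit 4) (nat_lit 274) (nat_lit 236) (nat_lit 90)) (XT.lf (nat_lit 0) (nat_lit 1460118873938) (nat_lit 152) (nat_lit 46189042035572) (nat_lit 0) (nat_lit 194639466981) (nat_lit 1) (nat_lit 5) (nat_lit 3) (nat_lit 4) (nat_lit 1) (nat_lit 4) (nat_lit 275) (nat_lit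 236) (nat_lit 89)))) (XT.nd (nat_lit 28314) (nat_lit 0) (nat_lit 1064) (XT.nd (nat_lit 28236) (nat_lit 0) (nat_lit 1368) (XT.lf (nat_lit 0) (nat_lit 2472150609875) (nat_lit 152) (nat_lit 51191777134436) (nat_lit 0) (nat_lit 1206671202721) (nat_lit 1) (nat_lit 5) (nat_lit 3) (nat_lit 4) (nat_lit 1) (nat_lit 4) (nat_lit 276) (nat_lit 236) (nat_lit 88)) (XT.lf (nat_lit 0) (nat_lit 174424899694) (nat_lit 0) (nat_lit 174424899694) (nat_lit 228) (nat_lit 12081547634) (nat_lit 19) (nat_lit 5) (nat_lit 19) (nat_lit 3) (nat_lit 22) (nat_lit 3) (nat_lit 237) (nat_lit 237) (nat_lit 126))) (XT.nd (nat_lit 78) (nat_lit 304) (nat_lit 0) (XT.lf (nat_lit 0) (nat_lit 708898587174) (nat_lit 0) (nat_lit 41128585829) (nat_lit 228) (nat_lit 25975206267) (nat_lit 19) (nat_lit 5) (nat_lit 19) (nat_lit 3) (nat_lit 22) (nat_lit 3) (nat_lit 238) (nat_lit 237) (nat_lit 125)) (XT.lf (nat_lit 0) (nat_lit 945954925)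 (nat_lit 304) (nat_lit 536212827740) (nat_lit 380) (nat_lit 297302454524) (nat_lit 15) (nat_lit 5) (nat_lit 19) (nat_lit 5) (nat_lit 20) (nat_lit 5) (nat_lit 239) (nat_lit 237) (nat_lit 124))))) (XT.nd (nat_lit 312) (nat_lit 152) (nat_lit 0) (XT.nd (nat_lit 156) (nat_lit 152) (nat_lit 0) (XT.nd (nat_lit 78) (nat_lit 0) (nat_lit 76) (XT.lf (nat_lit 0) (nat_lit 34879142239) (nat_lit 304) (nat_lit 178580242513) (nat_lit 380) (nat_lit 687199019270) (nat_lit 15) (nat_lit 5) (nat_lit 19) (nat_lit 5) (nat_lit 20) (nat_lit 5) (nat_lit 240) (nat_lit 237) (nat_lit 123)) (XT.lf (nat_lit 0) (nat_lit 91558471806) (nat_lit 304) (nat_lit 726839526305) (nat_lit 76) (nat_lit 155738723285) (nat_lit 16) (nat_lit 5) (nat_lit 20) (nat_lit 5) (nat_lit 17) (nat_lit 5) (nat_lit 241) (nat_lit 237) (nat_lit 122))) (XT.nd (nat_lit 78) (nat_lit 228) (nat_lit 0) (XT.lf (nat_lit 0) (nat_lit 176683814198) (nat_lit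 304) (nat_lit 310719586845) (nat_lit 76) (nat_lit 568241768443) (nat_lit 16) (nat_lit 5) (nat_lit 20) (nat_lit 5) (nat_lit 17) (nat_lit 5) (nat_lit 242) (nat_lit 237) (nat_lit 121)) (XT.lf (nat_lit 0) (nat_lit 184218759386) (nat_lit 228) (nat_lit 97987292846) (nat_lit 304) (nat_lit 866029618522) (nat_lit 13) (nat_lit 5) (nat_lit 16) (nat_lit 5) (nat_lit 17) (nat_lit 5) (nat_lit 243) (nat_lit 237) (nat_lit 120)))) (XT.nd (nat_lit 156) (nat_lit 0) (nat_lit 0) (XT.nd (nat_lit 78) (nat_lit 152) (nat_lit 0) (XT.lf (nat_lit 0) (nat_lit 435058391078) (nat_lit 304) (nat_lit 479219549822) (nat_lit 76) (nat_lit 335711541637) (nat_lit 13) (nat_lit 5) (nat_lit 17) (nat_lit 5) (nat_lit 14) (nat_lit 5) (nat_lit 244) (nat_lit 237) (nat_lit 119)) (XT.lf (nat_lit 0) (nat_lit 80827133330) (nat_lit 152) (nat_lit 538024378925) (nat_lit 228) (nat_lit 746952914184) (nat_lit 11) (nat_lit 5) (nat_lit 13)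 (nat_lit 5) (nat_lit 14) (nat_lit 5) (nat_lit 245) (nat_lit 237) (nat_lit 118))) (XT.nd (nat_lit 78) (nat_lit 0) (nat_lit 0) (XT.lf (nat_lit 0) (nat_lit 778738550663) (nat_lit 152) (nat_lit 76525155254) (nat_lit 228) (nat_lit 639970390433) (nat_lit 11) (nat_lit 5) (nat_lit 13) (nat_lit 5) (nat_lit 14) (nat_lit 5) (nat_lit 246) (nat_lit 237) (nat_lit 117)) (XT.lf (nat_lit 0) (nat_lit 1145945131151) (nat_lit 228) (nat_lit 81548956722) (nat_lit 76) (nat_lit 413763018558) (nat_lit 11) (nat_lit 5) (nat_lit 14) (nat_lit 5) (nat_lit 12) (nat_lit 4) (nat_lit 247) (nat_lit 237) (nat_lit 116)))))) (XT.nd (nat_lit 624) (nat_lit 152) (nat_lit 0) (XT.nd (nat_lit 312) (nat_lit 152) (nat_lit 0) (XT.nd (nat_lit 156) (nat_lit 152) (nat_lit 0) (XT.nd (nat_lit 78) (nat_lit 0) (nat_lit 0) (XT.lf (nat_lit 0) (nat_lit 708029213052) (nat_lit 76) (nat_lit 805161585446) (nat_lit 152) (nat_lit 291048465328)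 (nat_lit 10) (nat_lit 5) (nat_lit 11) (nat_lit 5) (nat_lit 12) (nat_lit 4) (nat_lit 248) (nat_lit 237) (nat_lit 115)) (XT.lf (nat_lit 0) (nat_lit 1625209090241) (nat_lit 76) (nat_lit 314577006048) (nat_lit 152) (nat_lit 51243231534) (nat_lit 10) (nat_lit 5) (nat_lit 11) (nat_lit 5) (nat_lit 12) (nat_lit 4) (nat_lit 249) (nat_lit 237) (nat_lit 114))) (XT.nd (nat_lit 78) (nat_lit 0) (nat_lit 0) (XT.lf (nat_lit 0) (nat_lit 237456053439) (nat_lit 152) (nat_lit 1702800813921) (nat_lit 76) (nat_lit 259249511381) (nat_lit 8) (nat_lit 5) (nat_lit 10) (nat_lit 5) (nat_lit 9) (nat_lit 4) (nat_lit 250) (nat_lit 237) (nat_lit 113)) (XT.lf (nat_lit 0) (nat_lit 599226765508) (nat_lit 152) (nat_lit 924993791560) (nat_lit 76) (nat_lit 909416477398) (nat_lit 8) (nat_lit 5) (nat_lit 10) (nat_lit 5) (nat_lit 9) (nat_lit 4) (nat_lit 251) (nat_lit 237) (nat_lit 112)))) (XT.nd (nat_lit 156) (nat_lit 76)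 (nat_lit 0) (XT.nd (nat_lit 78) (nat_lit 76) (nat_lit 0) (XT.lf (nat_lit 0) (nat_lit 1015263079829) (nat_lit 152) (nat_lit 30515723240) (nat_lit 76) (nat_lit 1657108486191) (nat_lit 8) (nat_lit 5) (nat_lit 10) (nat_lit 5) (nat_lit 9) (nat_lit 4) (nat_lit 252) (nat_lit 237) (nat_lit 111)) (XT.lf (nat_lit 0) (nat_lit 1095678967311) (nat_lit 76) (nat_lit 443395599515) (nat_lit 152) (nat_lit 1466645056639) (nat_lit 7) (nat_lit 5) (nat_lit 8) (nat_lit 5) (nat_lit 9) (nat_lit 4) (nat_lit 253) (nat_lit 237) (nat_lit 110))) (XT.nd (nat_lit 78) (nat_lit 76) (nat_lit 0) (XT.lf (nat_lit 0) (nat_lit 2153453720424) (nat_lit 152) (nat_lit 969905938062) (nat_lit 0) (nat_lit 228817757803) (nat_lit 7) (nat_lit 5) (nat_lit 9) (nat_lit 4) (nat_lit 7) (nat_lit 4) (nat_lit 254) (nat_lit 237) (nat_lit 109)) (XT.lf (nat_lit 0) (nat_lit 98943544350) (nat_lit 76) (nat_lit 2786257316744) (nat_lit 76) (nat_lit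 861621349854) (nat_lit 6) (nat_lit 4) (nat_lit 7) (nat_lit 5) (nat_lit 7) (nat_lit 4) (nat_lit 255) (nat_lit 237) (nat_lit 108))))) (XT.nd (nat_lit 312) (nat_lit 0) (nat_lit 0) (XT.nd (nat_lit 156) (nat_lit 76) (nat_lit 0) (XT.nd (nat_lit 78) (nat_lit 76) (nat_lit 0) (XT.lf (nat_lit 0) (nat_lit 1437124645083) (nat_lit 76) (nat_lit 2340285053259) (nat_lit 76) (nat_lit 415649082656) (nat_lit 6) (nat_lit 4) (nat_lit 7) (nat_lit 5) (nat_lit 7) (nat_lit 4) (nat_lit 256) (nat_lit 237) (nat_lit 107)) (XT.lf (nat_lit 0) (nat_lit 88563911930) (nat_lit 152) (nat_lit 1734223563181) (nat_lit 76) (nat_lit 2882839517009) (nat_lit 5) (nat_lit 5) (nat_lit 7) (nat_lit 5) (nat_lit 6) (nat_lit 4) (nat_lit 257) (nat_lit 237) (nat_lit 106))) (XT.nd (nat_lit 78) (nat_lit 76) (nat_lit 0) (XT.lf (nat_lit 0) (nat_lit 625854304298) (nat_lit 152) (nat_lit 579049222397) (nat_lit 76) (nat_lit 4087207986576) (nat_lit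 5) (nat_lit 5) (nat_lit 7) (nat_lit 5) (nat_lit 6) (nat_lit 4) (nat_lit 258) (nat_lit 237) (nat_lit 105)) (XT.lf (nat_lit 0) (nat_lit 822638207548) (nat_lit 76) (nat_lit 455163739720) (nat_lit 152) (nat_lit 4683657211573) (nat_lit 4) (nat_lit 5) (nat_lit 5) (nat_lit 5) (nat_lit 6) (nat_lit 4) (nat_lit 259) (nat_lit 237) (nat_lit 104)))) (XT.nd (nat_lit 156) (nat_lit 0) (nat_lit 0) (XT.nd (nat_lit 78) (nat_lit 0) (nat_lit 0) (XT.lf (nat_lit 0) (nat_lit 2076106107765) (nat_lit 152) (nat_lit 4245308585458) (nat_lit 0) (nat_lit 402509602370) (nat_lit 4) (nat_lit 5) (nat_lit 6) (nat_lit 4) (nat_lit 4) (nat_lit 4) (nat_lit 260) (nat_lit 237) (nat_lit 103)) (XT.lf (nat_lit 0) (nat_lit 3015830354318) (nat_lit 152) (nat_lit 3239443831929) (nat_lit 0) (nat_lit 1342233847318) (nat_lit 4) (nat_lit 5) (nat_lit 6) (nat_lit 4) (nat_lit 4) (nat_lit 4) (nat_lit 261) (nat_lit 237) (nat_lit 102))) (XT.nd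 (nat_lit 78) (nat_lit 0) (nat_lit 0) (XT.lf (nat_lit 0) (nat_lit 4096513236278) (nat_lit 152) (nat_lit 2082699368317) (nat_lit 0) (nat_lit 2422916727882) (nat_lit 4) (nat_lit 5) (nat_lit 6) (nat_lit 4) (nat_lit 4) (nat_lit 4) (nat_lit 262) (nat_lit 237) (nat_lit 101)) (XT.lf (nat_lit 0) (nat_lit 5339298549160) (nat_lit 152) (nat_lit 752443237725) (nat_lit 0) (nat_lit 3665702039550) (nat_lit 4) (nat_lit 5) (nat_lit 6) (nat_lit 4) (nat_lit 4) (nat_lit 4) (nat_lit 263) (nat_lit 237) (nat_lit 100))))))))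
noncomputable def xc59 : XT := (XT.nd (nat_lit 31122) (nat_lit 0) (nat_lit 152) (XT.nd (nat_lit 29874) (nat_lit 0) (nat_lit 228) (XT.nd (nat_lit 29250) (nat_lit 0) (nat_lit 912) (XT.nd (nat_lit 702) (nat_lit 152) (nat_lit 0) (XT.nd (nat_lit 78) (nat_lit 0) (nat_lit 0) (XT.lf (nat_lit 0) (nat_lit 853319733728) (nat_lit 76) (nat_lit 5950516074518) (nat_lit 76) (nat_lit 4276919563853) (nat_lit 3) (nat_lit 4) (nat_lit 4) (nat_lit 5) (nat_lit 4) (nat_lit 4) (nat_lit 264) (nat_lit 237) (nat_lit 99)) (XT.nd (nat_lit 546) (nat_lit 0) (nat_lit 0) (XT.lf (nat_lit 0) (nat_lit 2784511508105) (nat_lit 76) (nat_lit 5742874407121) (nat_lit 76) (nat_lit 4069277895538) (nat_lit 3) (nat_lit 4) (nat_lit 4) (nat_lit 5) (nat_lit 4) (nat_lit 4) (nat_lit 265) (nat_lit 237) (nat_lit 98)) (XT.lf (nat_lit 0) (nat_lit 27362439779845) (nat_lit 76) (nat_lit 3100256498536) (nat_lit 76) (nat_lit 1426659983135) (nat_lit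 3) (nat_lit 4) (nat_lit 4) (nat_lit 5) (nat_lit 4) (nat_lit 4) (nat_lit 272) (nat_lit 237) (nat_lit 91)))) (XT.nd (nat_lit 156) (nat_lit 152) (nat_lit 0) (XT.nd (nat_lit 78) (nat_lit 0) (nat_lit 0) (XT.lf (nat_lit 0) (nat_lit 33269999551598) (nat_lit 76) (nat_lit 2465075899234) (nat_lit 76) (nat_lit 791479383533) (nat_lit 3) (nat_lit 4) (nat_lit 4) (nat_lit 5) (nat_lit 4) (nat_lit 4) (nat_lit 273) (nat_lit 237) (nat_lit 90)) (XT.lf (nat_lit 0) (nat_lit 40063693288511) (nat_lit 76) (nat_lit 1734618210321) (nat_lit 76) (nat_lit 61021694359) (nat_lit 3) (nat_lit 4) (nat_lit 4) (nat_lit 5) (nat_lit 4) (nat_lit 4) (nat_lit 274) (nat_lit 237) (nat_lit 89))) (XT.nd (nat_lit 78) (nat_lit 76) (nat_lit 0) (XT.lf (nat_lit 0) (nat_lit 709652267209) (nat_lit 152) (nat_lit 147844141687) (nat_lit 76) (nat_lit 47129693358802) (nat_lit 2) (nat_lit 5) (nat_lit 4) (nat_lit 5) (nat_lit 3) (nat_lit 4)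 (nat_lit 275) (nat_lit 237) (nat_lit 88)) (XT.lf (nat_lit 0) (nat_lit 1679136708113) (nat_lit 152) (nat_lit 53117398334865) (nat_lit 0) (nat_lit 223835389517) (nat_lit 1) (nat_lit 5) (nat_lit 3) (nat_lit 4) (nat_lit 1) (nat_lit 4) (nat_lit 276) (nat_lit 237) (nat_lit 87))))) (XT.nd (nat_lit 312) (nat_lit 152) (nat_lit 0) (XT.nd (nat_lit 156) (nat_lit 304) (nat_lit 0) (XT.nd (nat_lit 78) (nat_lit 0) (nat_lit 0) (XT.lf (nat_lit 0) (nat_lit 200588684647) (nat_lit 0) (nat_lit 200588684647) (nat_lit 228) (nat_lit 13893663649) (nat_lit 19) (nat_lit 5) (nat_lit 19) (nat_lit 3) (nat_lit 22) (nat_lit 3) (nat_lit 238) (nat_lit 238) (nat_lit 124)) (XT.lf (nat_lit 0) (nat_lit 815233462204) (nat_lit 0) (nat_lit 47297960657) (nat_lit 228) (nat_lit 29871285242) (nat_lit 19) (nat_lit 5) (nat_lit 19) (nat_lit 3) (nat_lit 22) (nat_lit 3) (nat_lit 239) (nat_lit 238) (nat_lit 123))) (XT.nd (nat_lit 78)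 (nat_lit 0) (nat_lit 0) (XT.lf (nat_lit 0) (nat_lit 1088009782) (nat_lit 304) (nat_lit 616644621395) (nat_lit 380) (nat_lit 341897765856) (nat_lit 15) (nat_lit 5) (nat_lit 19) (nat_lit 5) (nat_lit 20) (nat_lit 5) (nat_lit 240) (nat_lit 238) (nat_lit 122)) (XT.lf (nat_lit 0) (nat_lit 40111154112) (nat_lit 304) (nat_lit 205367165406) (nat_lit 380) (nat_lit 790278822730) (nat_lit 15) (nat_lit 5) (nat_lit 19) (nat_lit 5) (nat_lit 20) (nat_lit 5) (nat_lit 241) (nat_lit 238) (nat_lit 121)))) (XT.nd (nat_lit 156) (nat_lit 228) (nat_lit 0) (XT.nd (nat_lit 78) (nat_lit 0) (nat_lit 0) (XT.lf (nat_lit 0) (nat_lit 105292368508) (nat_lit 304) (nat_lit 835865326033) (nat_lit 76) (nat_lit 179099515046) (nat_lit 16) (nat_lit 5) (nat_lit 20) (nat_lit 5) (nat_lit 17) (nat_lit 5) (nat_lit 242) (nat_lit 238) (nat_lit 120)) (XT.lf (nat_lit 0) (nat_lit 203186495834) (nat_lit 304) (nat_lit 357327412509)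 (nat_lit 76) (nat_lit 653478019161) (nat_lit 16) (nat_lit 5) (nat_lit 20) (nat_lit 5) (nat_lit 17) (nat_lit 5) (nat_lit 243) (nat_lit 238) (nat_lit 119))) (XT.nd (nat_lit 78) (nat_lit 0) (nat_lit 0) (XT.lf (nat_lit 0) (nat_lit 211851680549) (nat_lit 228) (nat_lit 112685379181) (nat_lit 304) (nat_lit 995933945835) (nat_lit 13) (nat_lit 5) (nat_lit 16) (nat_lit 5) (nat_lit 17) (nat_lit 5) (nat_lit 244) (nat_lit 238) (nat_lit 118)) (XT.lf (nat_lit 0) (nat_lit 500317236677) (nat_lit 304) (nat_lit 551102375562) (nat_lit 76) (nat_lit 386068278896) (nat_lit 13) (nat_lit 5) (nat_lit 17) (nat_lit 5) (nat_lit 14) (nat_lit 5) (nat_lit 245) (nat_lit 238) (nat_lit 117)))))) (XT.nd (nat_lit 624) (nat_lit 304) (nat_lit 0) (XT.nd (nat_lit 312) (nat_lit 152) (nat_lit 0) (XT.nd (nat_lit 156) (nat_lit 76) (nat_lit 0) (XT.nd (nat_lit 78) (nat_lit 0) (nat_lit 0) (XT.lf (nat_lit 0) (nat_lit 92951305212)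 (nat_lit 152) (nat_lit 618728013699) (nat_lit 228) (nat_lit 858995758878) (nat_lit 11) (nat_lit 5) (nat_lit 13) (nat_lit 5) (nat_lit 14) (nat_lit 5) (nat_lit 246) (nat_lit 238) (nat_lit 116)) (XT.lf (nat_lit 0) (nat_lit 895549421856) (nat_lit 152) (nat_lit 88003909355) (nat_lit 228) (nat_lit 735965868621) (nat_lit 11) (nat_lit 5) (nat_lit 13) (nat_lit 5) (nat_lit 14) (nat_lit 5) (nat_lit 247) (nat_lit 238) (nat_lit 115))) (XT.nd (nat_lit 78) (nat_lit 76) (nat_lit 0) (XT.lf (nat_lit 0) (nat_lit 1317836961867) (nat_lit 228) (nat_lit 93781214344) (nat_lit 76) (nat_lit 475827486541) (nat_lit 11) (nat_lit 5) (nat_lit 14) (nat_lit 5) (nat_lit 12) (nat_lit 4) (nat_lit 248) (nat_lit 238) (nat_lit 114)) (XT.lf (nat_lit 0) (nat_lit 814233676992) (nat_lit 76) (nat_lit 925935797756) (nat_lit 152) (nat_lit 334705669756) (nat_lit 10) (nat_lit 5) (nat_lit 11) (nat_lit 5) (nat_lit 12) (nat_lit 4)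 (nat_lit 249) (nat_lit 238) (nat_lit 113)))) (XT.nd (nat_lit 156) (nat_lit 0) (nat_lit 0) (XT.nd (nat_lit 78) (nat_lit 152) (nat_lit 0) (XT.lf (nat_lit 0) (nat_lit 1868990525066) (nat_lit 76) (nat_lit 361763534775) (nat_lit 152) (nat_lit 58929659420) (nat_lit 10) (nat_lit 5) (nat_lit 11) (nat_lit 5) (nat_lit 12) (nat_lit 4) (nat_lit 250) (nat_lit 238) (nat_lit 112)) (XT.lf (nat_lit 0) (nat_lit 273074510555) (nat_lit 152) (nat_lit 1958220856377) (nat_lit 76) (nat_lit 298136960978) (nat_lit 8) (nat_lit 5) (nat_lit 10) (nat_lit 5) (nat_lit 9) (nat_lit 4) (nat_lit 251) (nat_lit 238) (nat_lit 111))) (XT.nd (nat_lit 78) (nat_lit 0) (nat_lit 0) (XT.lf (nat_lit 0) (nat_lit 689110823031) (nat_lit 152) (nat_lit 1063742791048) (nat_lit 76) (nat_lit 1045828968911) (nat_lit 8) (nat_lit 5) (nat_lit 10) (nat_lit 5) (nat_lit 9) (nat_lit 4) (nat_lit 252) (nat_lit 238) (nat_lit 110)) (XT.lf (nat_lit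 0) (nat_lit 1167552578930) (nat_lit 152) (nat_lit 35093021512) (nat_lit 76) (nat_lit 1905674776427) (nat_lit 8) (nat_lit 5) (nat_lit 10) (nat_lit 5) (nat_lit 9) (nat_lit 4) (nat_lit 253) (nat_lit 238) (nat_lit 109))))) (XT.nd (nat_lit 312) (nat_lit 152) (nat_lit 0) (XT.nd (nat_lit 156) (nat_lit 76) (nat_lit 0) (XT.nd (nat_lit 78) (nat_lit 0) (nat_lit 0) (XT.lf (nat_lit 0) (nat_lit 1260030869885) (nat_lit 76) (nat_lit 509904916630) (nat_lit 152) (nat_lit 1686641775088) (nat_lit 7) (nat_lit 5) (nat_lit 8) (nat_lit 5) (nat_lit 9) (nat_lit 4) (nat_lit 254) (nat_lit 238) (nat_lit 108)) (XT.lf (nat_lit 0) (nat_lit 2476471809452) (nat_lit 152) (nat_lit 1115391774932) (nat_lit 0) (nat_lit 263140439545) (nat_lit 7) (nat_lit 5) (nat_lit 9) (nat_lit 4) (nat_lit 7) (nat_lit 4) (nat_lit 255) (nat_lit 238) (nat_lit 107))) (XT.nd (nat_lit 78) (nat_lit 0) (nat_lit 0) (XT.lf (nat_lit 0) (nat_lit 113785127394)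 (nat_lit 76) (nat_lit 3204195891917) (nat_lit 76) (nat_lit 990864518782) (nat_lit 6) (nat_lit 4) (nat_lit 7) (nat_lit 5) (nat_lit 7) (nat_lit 4) (nat_lit 256) (nat_lit 238) (nat_lit 106)) (XT.lf (nat_lit 0) (nat_lit 1652693386535) (nat_lit 76) (nat_lit 2691327791823) (nat_lit 76) (nat_lit 477996415880) (nat_lit 6) (nat_lit 4) (nat_lit 7) (nat_lit 5) (nat_lit 7) (nat_lit 4) (nat_lit 257) (nat_lit 238) (nat_lit 105)))) (XT.nd (nat_lit 156) (nat_lit 76) (nat_lit 0) (XT.nd (nat_lit 78) (nat_lit 0) (nat_lit 0) (XT.lf (nat_lit 0) (nat_lit 101848521830) (nat_lit 152) (nat_lit 1994357056449) (nat_lit 76) (nat_lit 3315265459102) (nat_lit 5) (nat_lit 5) (nat_lit 7) (nat_lit 5) (nat_lit 6) (nat_lit 4) (nat_lit 258) (nat_lit 238) (nat_lit 104)) (XT.lf (nat_lit 0) (nat_lit 719732470039) (nat_lit 152) (nat_lit 665906569923) (nat_lit 76) (nat_lit 4700289197207) (nat_lit 5) (nat_lit 5) (nat_lit 7)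 (nat_lit 5) (nat_lit 6) (nat_lit 4) (nat_lit 259) (nat_lit 238) (nat_lit 103))) (XT.nd (nat_lit 78) (nat_lit 0) (nat_lit 0) (XT.lf (nat_lit 0) (nat_lit 946033972886) (nat_lit 76) (nat_lit 523438285364) (nat_lit 152) (nat_lit 5386205771516) (nat_lit 4) (nat_lit 5) (nat_lit 5) (nat_lit 5) (nat_lit 6) (nat_lit 4) (nat_lit 260) (nat_lit 238) (nat_lit 102)) (XT.lf (nat_lit 0) (nat_lit 2387522040908) (nat_lit 152) (nat_lit 4882104841560) (nat_lit 0) (nat_lit 462886054857) (nat_lit 4) (nat_lit 5) (nat_lit 6) (nat_lit 4) (nat_lit 4) (nat_lit 4) (nat_lit 261) (nat_lit 238) (nat_lit 101))))))) (XT.nd (nat_lit 30108) (nat_lit 0) (nat_lit 76) (XT.nd (nat_lit 29484) (nat_lit 0) (nat_lit 760) (XT.nd (nat_lit 780) (nat_lit 76) (nat_lit 0) (XT.nd (nat_lit 78) (nat_lit 0) (nat_lit 0) (XT.lf (nat_lit 0) (nat_lit 3468204922230) (nat_lit 152) (nat_lit 3725360379139) (nat_lit 0) (nat_lit 1543568934965)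 (nat_lit 4) (nat_lit 5) (nat_lit 6) (nat_lit 4) (nat_lit 4) (nat_lit 4) (nat_lit 262) (nat_lit 238) (nat_lit 100)) (XT.nd (nat_lit 78) (nat_lit 0) (nat_lit 0) (XT.lf (nat_lit 0) (nat_lit 4710990234558) (nat_lit 152) (nat_lit 2395104249583) (nat_lit 0) (nat_lit 2786354246237) (nat_lit 4) (nat_lit 5) (nat_lit 6) (nat_lit 4) (nat_lit 4) (nat_lit 4) (nat_lit 263) (nat_lit 238) (nat_lit 99)) (XT.lf (nat_lit 0) (nat_lit 6140193342698) (nat_lit 152) (nat_lit 865309702529) (nat_lit 0) (nat_lit 4215557353460) (nat_lit 4) (nat_lit 5) (nat_lit 6) (nat_lit 4) (nat_lit 4) (nat_lit 4) (nat_lit 264) (nat_lit 238) (nat_lit 98)))) (XT.nd (nat_lit 156) (nat_lit 0) (nat_lit 0) (XT.nd (nat_lit 78) (nat_lit 0) (nat_lit 0) (XT.lf (nat_lit 0) (nat_lit 25559245981856) (nat_lit 76) (nat_lit 4200475569421) (nat_lit 76) (nat_lit 2275839576065) (nat_lit 3) (nat_lit 4) (nat_lit 4) (nat_lit 5) (nat_lit 4) (nat_lit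 4) (nat_lit 272) (nat_lit 238) (nat_lit 90)) (XT.lf (nat_lit 0) (nat_lit 31466805753329) (nat_lit 76) (nat_lit 3565294970252) (nat_lit 76) (nat_lit 1640658976634) (nat_lit 3) (nat_lit 4) (nat_lit 4) (nat_lit 5) (nat_lit 4) (nat_lit 4) (nat_lit 273) (nat_lit 238) (nat_lit 89))) (XT.nd (nat_lit 78) (nat_lit 0) (nat_lit 0) (XT.lf (nat_lit 0) (nat_lit 38260499489997) (nat_lit 76) (nat_lit 2834837281454) (nat_lit 76) (nat_lit 910201287610) (nat_lit 3) (nat_lit 4) (nat_lit 4) (nat_lit 5) (nat_lit 4) (nat_lit 4) (nat_lit 274) (nat_lit 238) (nat_lit 88)) (XT.lf (nat_lit 0) (nat_lit 46073247286708) (nat_lit 76) (nat_lit 1994810939552) (nat_lit 76) (nat_lit 70174945511) (nat_lit 3) (nat_lit 4) (nat_lit 4) (nat_lit 5) (nat_lit 4) (nat_lit 4) (nat_lit 275) (nat_lit 238) (nat_lit 87))))) (XT.nd (nat_lit 312) (nat_lit 152) (nat_lit 0) (XT.nd (nat_lit 156) (nat_lit 304) (nat_lit 0) (XT.nd (nat_lit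 78) (nat_lit 0) (nat_lit 0) (XT.lf (nat_lit 0) (nat_lit 230677025150) (nat_lit 0) (nat_lit 230677025150) (nat_lit 228) (nat_lit 15977625385) (nat_lit 19) (nat_lit 5) (nat_lit 19) (nat_lit 3) (nat_lit 22) (nat_lit 3) (nat_lit 239) (nat_lit 239) (nat_lit 122)) (XT.lf (nat_lit 0) (nat_lit 937518547284) (nat_lit 0) (nat_lit 54392720505) (nat_lit 228) (nat_lit 34351825313) (nat_lit 19) (nat_lit 5) (nat_lit 19) (nat_lit 3) (nat_lit 22) (nat_lit 3) (nat_lit 240) (nat_lit 239) (nat_lit 121))) (XT.nd (nat_lit 78) (nat_lit 0) (nat_lit 0) (XT.lf (nat_lit 0) (nat_lit 1251333456) (nat_lit 304) (nat_lit 709141215922) (nat_lit 380) (nat_lit 393182387751) (nat_lit 15) (nat_lit 5) (nat_lit 19) (nat_lit 5) (nat_lit 20) (nat_lit 5) (nat_lit 241) (nat_lit 239) (nat_lit 120)) (XT.lf (nat_lit 0) (nat_lit 46127933496) (nat_lit 304) (nat_lit 236172154407) (nat_lit 380) (nat_lit 908820608762) (nat_lit 15)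 (nat_lit 5) (nat_lit 19) (nat_lit 5) (nat_lit 20) (nat_lit 5) (nat_lit 242) (nat_lit 239) (nat_lit 119)))) (XT.nd (nat_lit 156) (nat_lit 228) (nat_lit 0) (XT.nd (nat_lit 78) (nat_lit 0) (nat_lit 0) (XT.lf (nat_lit 0) (nat_lit 121086319007) (nat_lit 304) (nat_lit 961245027231) (nat_lit 76) (nat_lit 205964429652) (nat_lit 16) (nat_lit 5) (nat_lit 20) (nat_lit 5) (nat_lit 17) (nat_lit 5) (nat_lit 243) (nat_lit 239) (nat_lit 118)) (XT.lf (nat_lit 0) (nat_lit 233664553011) (nat_lit 304) (nat_lit 410926439423) (nat_lit 76) (nat_lit 751499711034) (nat_lit 16) (nat_lit 5) (nat_lit 20) (nat_lit 5) (nat_lit 17) (nat_lit 5) (nat_lit 244) (nat_lit 239) (nat_lit 117))) (XT.nd (nat_lit 78) (nat_lit 0) (nat_lit 0) (XT.lf (nat_lit 0) (nat_lit 243629513732) (nat_lit 228) (nat_lit 129588180318) (nat_lit 304) (nat_lit 1145323950401) (nat_lit 13) (nat_lit 5) (nat_lit 16) (nat_lit 5) (nat_lit 17) (nat_lit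 5) (nat_lit 245) (nat_lit 239) (nat_lit 116)) (XT.lf (nat_lit 0) (nat_lit 575364887916) (nat_lit 304) (nat_lit 633767651190) (nat_lit 76) (nat_lit 443978525278) (nat_lit 13) (nat_lit 5) (nat_lit 17) (nat_lit 5) (nat_lit 14) (nat_lit 5) (nat_lit 246) (nat_lit 239) (nat_lit 115)))))) (XT.nd (nat_lit 624) (nat_lit 304) (nat_lit 0) (XT.nd (nat_lit 312) (nat_lit 152) (nat_lit 0) (XT.nd (nat_lit 156) (nat_lit 76) (nat_lit 0) (XT.nd (nat_lit 78) (nat_lit 0) (nat_lit 0) (XT.lf (nat_lit 0) (nat_lit 106894078031) (nat_lit 152) (nat_lit 711537199069) (nat_lit 228) (nat_lit 987845052816) (nat_lit 11) (nat_lit 5) (nat_lit 13) (nat_lit 5) (nat_lit 14) (nat_lit 5) (nat_lit 247) (nat_lit 239) (nat_lit 114)) (XT.lf (nat_lit 0) (nat_lit 1029881902123) (nat_lit 152) (nat_lit 101204481250) (nat_lit 228) (nat_lit 846360688138) (nat_lit 11) (nat_lit 5) (nat_lit 13) (nat_lit 5) (nat_lit 14) (nat_lit 5) (nat_lit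 248) (nat_lit 239) (nat_lit 113))) (XT.nd (nat_lit 78) (nat_lit 76) (nat_lit 0) (XT.lf (nat_lit 0) (nat_lit 1515512552305) (nat_lit 228) (nat_lit 107848331552) (nat_lit 76) (nat_lit 547201621015) (nat_lit 11) (nat_lit 5) (nat_lit 14) (nat_lit 5) (nat_lit 12) (nat_lit 4) (nat_lit 249) (nat_lit 239) (nat_lit 112)) (XT.lf (nat_lit 0) (nat_lit 936368790532) (nat_lit 76) (nat_lit 1064826148132) (nat_lit 152) (nat_lit 384911470789) (nat_lit 10) (nat_lit 5) (nat_lit 11) (nat_lit 5) (nat_lit 12) (nat_lit 4) (nat_lit 250) (nat_lit 239) (nat_lit 111)))) (XT.nd (nat_lit 156) (nat_lit 0) (nat_lit 0) (XT.nd (nat_lit 78) (nat_lit 152) (nat_lit 0) (XT.lf (nat_lit 0) (nat_lit 2149339157732) (nat_lit 76) (nat_lit 416028048220) (nat_lit 152) (nat_lit 67769065350) (nat_lit 10) (nat_lit 5) (nat_lit 11) (nat_lit 5) (nat_lit 12) (nat_lit 4) (nat_lit 251) (nat_lit 239) (nat_lit 110)) (XT.lf (nat_lit 0) (nat_lit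 314035724265) (nat_lit 152) (nat_lit 2251953924619) (nat_lit 76) (nat_lit 342857522431) (nat_lit 8) (nat_lit 5) (nat_lit 10) (nat_lit 5) (nat_lit 9) (nat_lit 4) (nat_lit 252) (nat_lit 239) (nat_lit 109))) (XT.nd (nat_lit 78) (nat_lit 0) (nat_lit 0) (XT.lf (nat_lit 0) (nat_lit 792477478770) (nat_lit 152) (nat_lit 1223304157345) (nat_lit 76) (nat_lit 1202703329298) (nat_lit 8) (nat_lit 5) (nat_lit 10) (nat_lit 5) (nat_lit 9) (nat_lit 4) (nat_lit 253) (nat_lit 239) (nat_lit 108)) (XT.lf (nat_lit 0) (nat_lit 1342685493843) (nat_lit 152) (nat_lit 40356929208) (nat_lit 76) (nat_lit 2191526005978) (nat_lit 8) (nat_lit 5) (nat_lit 10) (nat_lit 5) (nat_lit 9) (nat_lit 4) (nat_lit 254) (nat_lit 239) (nat_lit 107))))) (XT.nd (nat_lit 312) (nat_lit 152) (nat_lit 0) (XT.nd (nat_lit 156) (nat_lit 76) (nat_lit 0) (XT.nd (nat_lit 78) (nat_lit 0) (nat_lit 0) (XT.lf (nat_lit 0) (nat_lit 1449035543829)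 (nat_lit 76) (nat_lit 586390636875) (nat_lit 152) (nat_lit 1939638011070) (nat_lit 7) (nat_lit 5) (nat_lit 8) (nat_lit 5) (nat_lit 9) (nat_lit 4) (nat_lit 255) (nat_lit 239) (nat_lit 106)) (XT.lf (nat_lit 0) (nat_lit 2847942604283) (nat_lit 152) (nat_lit 1282700500462) (nat_lit 0) (nat_lit 302611519141) (nat_lit 7) (nat_lit 5) (nat_lit 9) (nat_lit 4) (nat_lit 7) (nat_lit 4) (nat_lit 256) (nat_lit 239) (nat_lit 105))) (XT.nd (nat_lit 78) (nat_lit 0) (nat_lit 0) (XT.lf (nat_lit 0) (nat_lit 130852935363) (nat_lit 76) (nat_lit 3684825258814) (nat_lit 76) (nat_lit 1139494171230) (nat_lit 6) (nat_lit 4) (nat_lit 7) (nat_lit 5) (nat_lit 7) (nat_lit 4) (nat_lit 257) (nat_lit 239) (nat_lit 104)) (XT.lf (nat_lit 0) (nat_lit 1900597428306) (nat_lit 76) (nat_lit 3095026945909) (nat_lit 76) (nat_lit 549695856203) (nat_lit 6) (nat_lit 4) (nat_lit 7) (nat_lit 5) (nat_lit 7) (nat_lit 4) (nat_lit 258)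 (nat_lit 239) (nat_lit 103)))) (XT.nd (nat_lit 156) (nat_lit 76) (nat_lit 0) (XT.nd (nat_lit 78) (nat_lit 0) (nat_lit 0) (XT.lf (nat_lit 0) (nat_lit 117125817579) (nat_lit 152) (nat_lit 2293510583756) (nat_lit 76) (nat_lit 3812555288963) (nat_lit 5) (nat_lit 5) (nat_lit 7) (nat_lit 5) (nat_lit 6) (nat_lit 4) (nat_lit 259) (nat_lit 239) (nat_lit 102)) (XT.lf (nat_lit 0) (nat_lit 827692355740) (nat_lit 152) (nat_lit 765792528316) (nat_lit 76) (nat_lit 5405332586350) (nat_lit 5) (nat_lit 5) (nat_lit 7) (nat_lit 5) (nat_lit 6) (nat_lit 4) (nat_lit 260) (nat_lit 239) (nat_lit 101))) (XT.nd (nat_lit 78) (nat_lit 0) (nat_lit 0) (XT.lf (nat_lit 0) (nat_lit 1087939094683) (nat_lit 76) (nat_lit 601954016589) (nat_lit 152) (nat_lit 6194136620764) (nat_lit 4) (nat_lit 5) (nat_lit 5) (nat_lit 5) (nat_lit 6) (nat_lit 4) (nat_lit 261) (nat_lit 239) (nat_lit 100)) (XT.lf (nat_lit 0) (nat_lit 2745650359883)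 (nat_lit 152) (nat_lit 5614420543812) (nat_lit 0) (nat_lit 532318972259) (nat_lit 4) (nat_lit 5) (nat_lit 6) (nat_lit 4) (nat_lit 4) (nat_lit 4) (nat_lit 262) (nat_lit 239) (nat_lit 99))))))))
noncomputable def xc60 : XT := (XT.nd (nat_lit 32058) (nat_lit 0) (nat_lit 0) (XT.nd (nat_lit 30264) (nat_lit 0) (nat_lit 0) (XT.nd (nat_lit 29640) (nat_lit 0) (nat_lit 608) (XT.nd (nat_lit 780) (nat_lit 0) (nat_lit 0) (XT.nd (nat_lit 78) (nat_lit 76) (nat_lit 0) (XT.lf (nat_lit 0) (nat_lit 3988435671728) (nat_lit 152) (nat_lit 4284164415156) (nat_lit 0) (nat_lit 1775104283187) (nat_lit 4) (nat_lit 5) (nat_lit 6) (nat_lit 4) (nat_lit 4) (nat_lit 4) (nat_lit 263) (nat_lit 239) (nat_lit 98)) (XT.nd (nat_lit 624) (nat_lit 76) (nat_lit 0) (XT.lf (nat_lit 0) (nat_lit 5417638779449) (nat_lit 152) (nat_lit 2754369868886) (nat_lit 0) (nat_lit 3204307390109) (nat_lit 4) (nat_lit 5) (nat_lit 6) (nat_lit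 4) (nat_lit 4) (nat_lit 4) (nat_lit 264) (nat_lit 239) (nat_lit 97)) (XT.lf (nat_lit 0) (nat_lit 23485573113565) (nat_lit 76) (nat_lit 5465727501224) (nat_lit 76) (nat_lit 3252396108303) (nat_lit 3) (nat_lit 4) (nat_lit 4) (nat_lit 5) (nat_lit 4) (nat_lit 4) (nat_lit 272) (nat_lit 239) (nat_lit 89)))) (XT.nd (nat_lit 28704) (nat_lit 0) (nat_lit 1216) (XT.nd (nat_lit 78) (nat_lit 0) (nat_lit 0) (XT.lf (nat_lit 0) (nat_lit 29393132884793) (nat_lit 76) (nat_lit 4830546902170) (nat_lit 76) (nat_lit 2617215509022) (nat_lit 3) (nat_lit 4) (nat_lit 4) (nat_lit 5) (nat_lit 4) (nat_lit 4) (nat_lit 273) (nat_lit 239) (nat_lit 88)) (XT.lf (nat_lit 0) (nat_lit 36186826621249) (nat_lit 76) (nat_lit 4100089213472) (nat_lit 76) (nat_lit 1886757820127) (nat_lit 3) (nat_lit 4) (nat_lit 4) (nat_lit 5) (nat_lit 4) (nat_lit 4) (nat_lit 274) (nat_lit 239) (nat_lit 87))) (XT.nd (nat_lit 78) (nat_lit 0)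 (nat_lit 0) (XT.lf (nat_lit 0) (nat_lit 265278607509) (nat_lit 0) (nat_lit 265278607509) (nat_lit 228) (nat_lit 18374202795) (nat_lit 19) (nat_lit 5) (nat_lit 19) (nat_lit 3) (nat_lit 22) (nat_lit 3) (nat_lit 240) (nat_lit 240) (nat_lit 120)) (XT.lf (nat_lit 0) (nat_lit 1078146379093) (nat_lit 0) (nat_lit 62551678297) (nat_lit 228) (nat_lit 39504483636) (nat_lit 19) (nat_lit 5) (nat_lit 19) (nat_lit 3) (nat_lit 22) (nat_lit 3) (nat_lit 241) (nat_lit 240) (nat_lit 119))))) (XT.nd (nat_lit 312) (nat_lit 304) (nat_lit 0) (XT.nd (nat_lit 156) (nat_lit 0) (nat_lit 76) (XT.nd (nat_lit 78) (nat_lit 0) (nat_lit 0) (XT.lf (nat_lit 0) (nat_lit 1439125881) (nat_lit 304) (nat_lit 815512323693) (nat_lit 380) (nat_lit 452159713412) (nat_lit 15) (nat_lit 5) (nat_lit 19) (nat_lit 5) (nat_lit 20) (nat_lit 5) (nat_lit 242) (nat_lit 240) (nat_lit 118)) (XT.lf (nat_lit 0) (nat_lit 53047203873) (nat_lit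 304) (nat_lit 271597912684) (nat_lit 380) (nat_lit 1045143671814) (nat_lit 15) (nat_lit 5) (nat_lit 19) (nat_lit 5) (nat_lit 20) (nat_lit 5) (nat_lit 243) (nat_lit 240) (nat_lit 117))) (XT.nd (nat_lit 78) (nat_lit 0) (nat_lit 0) (XT.lf (nat_lit 0) (nat_lit 139249338860) (nat_lit 304) (nat_lit 1105431707435) (nat_lit 76) (nat_lit 236859084534) (nat_lit 16) (nat_lit 5) (nat_lit 20) (nat_lit 5) (nat_lit 17) (nat_lit 5) (nat_lit 244) (nat_lit 240) (nat_lit 116)) (XT.lf (nat_lit 0) (nat_lit 268714298573) (nat_lit 304) (nat_lit 472565341092) (nat_lit 76) (nat_lit 864224659370) (nat_lit 16) (nat_lit 5) (nat_lit 20) (nat_lit 5) (nat_lit 17) (nat_lit 5) (nat_lit 245) (nat_lit 240) (nat_lit 115)))) (XT.nd (nat_lit 156) (nat_lit 152) (nat_lit 0) (XT.nd (nat_lit 78) (nat_lit 0) (nat_lit 0) (XT.lf (nat_lit 0) (nat_lit 280174002116) (nat_lit 228) (nat_lit 149026403025) (nat_lit 304) (nat_lit 1317122476943)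 (nat_lit 13) (nat_lit 5) (nat_lit 16) (nat_lit 5) (nat_lit 17) (nat_lit 5) (nat_lit 246) (nat_lit 240) (nat_lit 114)) (XT.lf (nat_lit 0) (nat_lit 661669670810) (nat_lit 304) (nat_lit 728832737844) (nat_lit 76) (nat_lit 510575307508) (nat_lit 13) (nat_lit 5) (nat_lit 17) (nat_lit 5) (nat_lit 14) (nat_lit 5) (nat_lit 247) (nat_lit 240) (nat_lit 113))) (XT.nd (nat_lit 78) (nat_lit 0) (nat_lit 0) (XT.lf (nat_lit 0) (nat_lit 122928247987) (nat_lit 152) (nat_lit 818267766314) (nat_lit 228) (nat_lit 1136021757890) (nat_lit 11) (nat_lit 5) (nat_lit 13) (nat_lit 5) (nat_lit 14) (nat_lit 5) (nat_lit 248) (nat_lit 240) (nat_lit 112)) (XT.lf (nat_lit 0) (nat_lit 1184364238095) (nat_lit 152) (nat_lit 116385142468) (nat_lit 228) (nat_lit 973314745403) (nat_lit 11) (nat_lit 5) (nat_lit 13) (nat_lit 5) (nat_lit 14) (nat_lit 5) (nat_lit 249) (nat_lit 240) (nat_lit 111)))))) (XT.nd (nat_lit 624) (nat_lit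 304) (nat_lit 0) (XT.nd (nat_lit 312) (nat_lit 76) (nat_lit 0) (XT.nd (nat_lit 156) (nat_lit 152) (nat_lit 0) (XT.nd (nat_lit 78) (nat_lit 76) (nat_lit 0) (XT.lf (nat_lit 0) (nat_lit 1742839470053) (nat_lit 228) (nat_lit 124025532179) (nat_lit 76) (nat_lit 629281872857) (nat_lit 11) (nat_lit 5) (nat_lit 14) (nat_lit 5) (nat_lit 12) (nat_lit 4) (nat_lit 250) (nat_lit 240) (nat_lit 110)) (XT.lf (nat_lit 0) (nat_lit 1076824155986) (nat_lit 76) (nat_lit 1224550055769) (nat_lit 152) (nat_lit 442648154031) (nat_lit 10) (nat_lit 5) (nat_lit 11) (nat_lit 5) (nat_lit 12) (nat_lit 4) (nat_lit 251) (nat_lit 240) (nat_lit 109))) (XT.nd (nat_lit 78) (nat_lit 152) (nat_lit 0) (XT.lf (nat_lit 0) (nat_lit 2471740072151) (nat_lit 76) (nat_lit 478432242772) (nat_lit 152) (nat_lit 77934392651) (nat_lit 10) (nat_lit 5) (nat_lit 11) (nat_lit 5) (nat_lit 12) (nat_lit 4) (nat_lit 252) (nat_lit 240) (nat_lit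 108)) (XT.lf (nat_lit 0) (nat_lit 361141110979) (nat_lit 152) (nat_lit 2589746967782) (nat_lit 76) (nat_lit 394286163883) (nat_lit 8) (nat_lit 5) (nat_lit 10) (nat_lit 5) (nat_lit 9) (nat_lit 4) (nat_lit 253) (nat_lit 240) (nat_lit 107)))) (XT.nd (nat_lit 156) (nat_lit 76) (nat_lit 0) (XT.nd (nat_lit 78) (nat_lit 0) (nat_lit 0) (XT.lf (nat_lit 0) (nat_lit 911349124997) (nat_lit 152) (nat_lit 1406799741355) (nat_lit 76) (nat_lit 1383108840072) (nat_lit 8) (nat_lit 5) (nat_lit 10) (nat_lit 5) (nat_lit 9) (nat_lit 4) (nat_lit 254) (nat_lit 240) (nat_lit 106)) (XT.lf (nat_lit 0) (nat_lit 1544088339147) (nat_lit 152) (nat_lit 46410434162) (nat_lit 76) (nat_lit 2520254916771) (nat_lit 8) (nat_lit 5) (nat_lit 10) (nat_lit 5) (nat_lit 9) (nat_lit 4) (nat_lit 255) (nat_lit 240) (nat_lit 105))) (XT.nd (nat_lit 78) (nat_lit 0) (nat_lit 0) (XT.lf (nat_lit 0) (nat_lit 1666390908266) (nat_lit 76)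 (nat_lit 674349219363) (nat_lit 152) (nat_lit 2230583689833) (nat_lit 7) (nat_lit 5) (nat_lit 8) (nat_lit 5) (nat_lit 9) (nat_lit 4) (nat_lit 256) (nat_lit 240) (nat_lit 104)) (XT.lf (nat_lit 0) (nat_lit 3275134012629) (nat_lit 152) (nat_lit 1475105544748) (nat_lit 0) (nat_lit 348003257344) (nat_lit 7) (nat_lit 5) (nat_lit 9) (nat_lit 4) (nat_lit 7) (nat_lit 4) (nat_lit 257) (nat_lit 240) (nat_lit 103))))) (XT.nd (nat_lit 312) (nat_lit 152) (nat_lit 0) (XT.nd (nat_lit 156) (nat_lit 76) (nat_lit 0) (XT.nd (nat_lit 78) (nat_lit 0) (nat_lit 0) (XT.lf (nat_lit 0) (nat_lit 150480905051) (nat_lit 76) (nat_lit 4237549034864) (nat_lit 76) (nat_lit 1310418277733) (nat_lit 6) (nat_lit 4) (nat_lit 7) (nat_lit 5) (nat_lit 7) (nat_lit 4) (nat_lit 258) (nat_lit 240) (nat_lit 102)) (XT.lf (nat_lit 0) (nat_lit 2185687068103) (nat_lit 76) (nat_lit 3559280976689) (nat_lit 76) (nat_lit 632150217953)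 (nat_lit 6) (nat_lit 4) (nat_lit 7) (nat_lit 5) (nat_lit 7) (nat_lit 4) (nat_lit 259) (nat_lit 240) (nat_lit 101))) (XT.nd (nat_lit 78) (nat_lit 0) (nat_lit 0) (XT.lf (nat_lit 0) (nat_lit 134694703429) (nat_lit 152) (nat_lit 2637537147758) (nat_lit 76) (nat_lit 4384438590622) (nat_lit 5) (nat_lit 5) (nat_lit 7) (nat_lit 5) (nat_lit 6) (nat_lit 4) (nat_lit 260) (nat_lit 240) (nat_lit 100)) (XT.lf (nat_lit 0) (nat_lit 951846220591) (nat_lit 152) (nat_lit 880661387075) (nat_lit 76) (nat_lit 6216132481532) (nat_lit 5) (nat_lit 5) (nat_lit 7) (nat_lit 5) (nat_lit 6) (nat_lit 4) (nat_lit 261) (nat_lit 240) (nat_lit 99)))) (XT.nd (nat_lit 156) (nat_lit 76) (nat_lit 0) (XT.nd (nat_lit 78) (nat_lit 0) (nat_lit 0) (XT.lf (nat_lit 0) (nat_lit 1251129978443) (nat_lit 76) (nat_lit 692247110321) (nat_lit 152) (nat_lit 7123257101418) (nat_lit 4) (nat_lit 5) (nat_lit 5) (nat_lit 5) (nat_lit 6) (nat_lit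 4) (nat_lit 262) (nat_lit 240) (nat_lit 98)) (XT.lf (nat_lit 0) (nat_lit 3157497923573) (nat_lit 152) (nat_lit 6456583607250) (nat_lit 0) (nat_lit 612166825034) (nat_lit 4) (nat_lit 5) (nat_lit 6) (nat_lit 4) (nat_lit 4) (nat_lit 4) (nat_lit 263) (nat_lit 240) (nat_lit 97))) (XT.nd (nat_lit 624) (nat_lit 76) (nat_lit 0) (XT.lf (nat_lit 0) (nat_lit 4586701030929) (nat_lit 152) (nat_lit 4926789061661) (nat_lit 0) (nat_lit 2041369931696) (nat_lit 4) (nat_lit 5) (nat_lit 6) (nat_lit 4) (nat_lit 4) (nat_lit 4) (nat_lit 264) (nat_lit 240) (nat_lit 96)) (XT.lf (nat_lit 0) (nat_lit 21100849314505) (nat_lit 76) (nat_lit 6920767223045) (nat_lit 76) (nat_lit 4375436120698) (nat_lit 3) (nat_lit 4) (nat_lit 4) (nat_lit 5) (nat_lit 4) (nat_lit 4) (nat_lit 272) (nat_lit 240) (nat_lit 88))))))) (XT.nd (nat_lit 29874) (nat_lit 0) (nat_lit 76) (XT.nd (nat_lit 29250) (nat_lit 0) (nat_lit 380) (XT.nd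 (nat_lit 28938) (nat_lit 0) (nat_lit 912) (XT.nd (nat_lit 28782) (nat_lit 0) (nat_lit 1216) (XT.lf (nat_lit 0) (nat_lit 27008409085520) (nat_lit 76) (nat_lit 6285586624090) (nat_lit 76) (nat_lit 3740255521547) (nat_lit 3) (nat_lit 4) (nat_lit 4) (nat_lit 5) (nat_lit 4) (nat_lit 4) (nat_lit 273) (nat_lit 240) (nat_lit 87)) (XT.nd (nat_lit 78) (nat_lit 0) (nat_lit 0) (XT.lf (nat_lit 0) (nat_lit 305070420251) (nat_lit 0) (nat_lit 305070420251) (nat_lit 228) (nat_lit 21130283009) (nat_lit 19) (nat_lit 5) (nat_lit 19) (nat_lit 3) (nat_lit 22) (nat_lit 3) (nat_lit 241) (nat_lit 241) (nat_lit 118)) (XT.lf (nat_lit 0) (nat_lit 1239868373549) (nat_lit 0) (nat_lit 71934467634) (nat_lit 228) (nat_lit 45430068866) (nat_lit 19) (nat_lit 5) (nat_lit 19) (nat_lit 3) (nat_lit 22) (nat_lit 3) (nat_lit 242) (nat_lit 241) (nat_lit 117)))) (XT.nd (nat_lit 156) (nat_lit 0) (nat_lit 76) (XT.nd (nat_lit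 78) (nat_lit 0) (nat_lit 0) (XT.lf (nat_lit 0) (nat_lit 1655064635) (nat_lit 304) (nat_lit 937839115826) (nat_lit 380) (nat_lit 519983645848) (nat_lit 15) (nat_lit 5) (nat_lit 19) (nat_lit 5) (nat_lit 20) (nat_lit 5) (nat_lit 243) (nat_lit 241) (nat_lit 116)) (XT.lf (nat_lit 0) (nat_lit 61004345212) (nat_lit 304) (nat_lit 312337550524) (nat_lit 380) (nat_lit 1201915201216) (nat_lit 15) (nat_lit 5) (nat_lit 19) (nat_lit 5) (nat_lit 20) (nat_lit 5) (nat_lit 244) (nat_lit 241) (nat_lit 115))) (XT.nd (nat_lit 78) (nat_lit 0) (nat_lit 0) (XT.lf (nat_lit 0) (nat_lit 160136794133) (nat_lit 304) (nat_lit 1271246407686) (nat_lit 76) (nat_lit 272387939980) (nat_lit 16) (nat_lit 5) (nat_lit 20) (nat_lit 5) (nat_lit 17) (nat_lit 5) (nat_lit 245) (nat_lit 241) (nat_lit 114)) (XT.lf (nat_lit 0) (nat_lit 309021490701) (nat_lit 304) (nat_lit 543450093679) (nat_lit 76) (nat_lit 993858351986) (nat_lit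 16) (nat_lit 5) (nat_lit 20) (nat_lit 5) (nat_lit 17) (nat_lit 5) (nat_lit 246) (nat_lit 241) (nat_lit 113))))) (XT.nd (nat_lit 312) (nat_lit 228) (nat_lit 0) (XT.nd (nat_lit 156) (nat_lit 152) (nat_lit 0) (XT.nd (nat_lit 78) (nat_lit 0) (nat_lit 0) (XT.lf (nat_lit 0) (nat_lit 322200148803) (nat_lit 228) (nat_lit 171380360197) (nat_lit 304) (nat_lit 1514690798566) (nat_lit 13) (nat_lit 5) (nat_lit 16) (nat_lit 5) (nat_lit 17) (nat_lit 5) (nat_lit 247) (nat_lit 241) (nat_lit 112)) (XT.lf (nat_lit 0) (nat_lit 760920159017) (nat_lit 304) (nat_lit 838157602377) (nat_lit 76) (nat_lit 587161606235) (nat_lit 13) (nat_lit 5) (nat_lit 17) (nat_lit 5) (nat_lit 14) (nat_lit 5) (nat_lit 248) (nat_lit 241) (nat_lit 111))) (XT.nd (nat_lit 78) (nat_lit 0) (nat_lit 0) (XT.lf (nat_lit 0) (nat_lit 141367529231) (nat_lit 152) (nat_lit 941007921721) (nat_lit 228) (nat_lit 1306424981612) (nat_lit 11) (nat_lit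 5) (nat_lit 13) (nat_lit 5) (nat_lit 14) (nat_lit 5) (nat_lit 249) (nat_lit 241) (nat_lit 110)) (XT.lf (nat_lit 0) (nat_lit 1362018912110) (nat_lit 152) (nat_lit 133842905543) (nat_lit 228) (nat_lit 1119311922464) (nat_lit 11) (nat_lit 5) (nat_lit 13) (nat_lit 5) (nat_lit 14) (nat_lit 5) (nat_lit 250) (nat_lit 241) (nat_lit 109)))) (XT.nd (nat_lit 156) (nat_lit 152) (nat_lit 0) (XT.nd (nat_lit 78) (nat_lit 76) (nat_lit 0) (XT.lf (nat_lit 0) (nat_lit 2004265416952) (nat_lit 228) (nat_lit 142629324875) (nat_lit 76) (nat_lit 723674160357) (nat_lit 11) (nat_lit 5) (nat_lit 14) (nat_lit 5) (nat_lit 12) (nat_lit 4) (nat_lit 251) (nat_lit 241) (nat_lit 108)) (XT.lf (nat_lit 0) (nat_lit 1238347814827) (nat_lit 76) (nat_lit 1408232553107) (nat_lit 152) (nat_lit 509045348874) (nat_lit 10) (nat_lit 5) (nat_lit 11) (nat_lit 5) (nat_lit 12) (nat_lit 4) (nat_lit 252) (nat_lit 241) (nat_lit 107)))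 (XT.nd (nat_lit 78) (nat_lit 152) (nat_lit 0) (XT.lf (nat_lit 0) (nat_lit 2842501113794) (nat_lit 76) (nat_lit 550197069599) (nat_lit 152) (nat_lit 89624526974) (nat_lit 10) (nat_lit 5) (nat_lit 11) (nat_lit 5) (nat_lit 12) (nat_lit 4) (nat_lit 253) (nat_lit 241) (nat_lit 106)) (XT.lf (nat_lit 0) (nat_lit 415312298853) (nat_lit 152) (nat_lit 2978208978522) (nat_lit 76) (nat_lit 453429098361) (nat_lit 8) (nat_lit 5) (nat_lit 10) (nat_lit 5) (nat_lit 9) (nat_lit 4) (nat_lit 254) (nat_lit 241) (nat_lit 105)))))) (XT.nd (nat_lit 624) (nat_lit 76) (nat_lit 0) (XT.nd (nat_lit 312) (nat_lit 152) (nat_lit 0) (XT.nd (nat_lit 156) (nat_lit 76) (nat_lit 0) (XT.nd (nat_lit 78) (nat_lit 0) (nat_lit 0) (XT.lf (nat_lit 0) (nat_lit 1048051512205) (nat_lit 152) (nat_lit 1617819672622) (nat_lit 76) (nat_lit 1590575174688) (nat_lit 8) (nat_lit 5) (nat_lit 10) (nat_lit 5) (nat_lit 9) (nat_lit 4) (nat_lit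 255) (nat_lit 241) (nat_lit 104)) (XT.lf (nat_lit 0) (nat_lit 1775701606070) (nat_lit 152) (nat_lit 53371973254) (nat_lit 76) (nat_lit 2898293161769) (nat_lit 8) (nat_lit 5) (nat_lit 10) (nat_lit 5) (nat_lit 9) (nat_lit 4) (nat_lit 256) (nat_lit 241) (nat_lit 103))) (XT.nd (nat_lit 78) (nat_lit 0) (nat_lit 0) (XT.lf (nat_lit 0) (nat_lit 1916349569354) (nat_lit 76) (nat_lit 775501592405) (nat_lit 152) (nat_lit 2565171225994) (nat_lit 7) (nat_lit 5) (nat_lit 8) (nat_lit 5) (nat_lit 9) (nat_lit 4) (nat_lit 257) (nat_lit 241) (nat_lit 102)) (XT.lf (nat_lit 0) (nat_lit 3766404127910) (nat_lit 152) (nat_lit 1696371353184) (nat_lit 0) (nat_lit 400203753758) (nat_lit 7) (nat_lit 5) (nat_lit 9) (nat_lit 4) (nat_lit 7) (nat_lit 4) (nat_lit 258) (nat_lit 241) (nat_lit 101)))) (XT.nd (nat_lit 156) (nat_lit 76) (nat_lit 0) (XT.nd (nat_lit 78) (nat_lit 0) (nat_lit 0) (XT.lf (nat_lit 0) (nat_lit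 173053063027) (nat_lit 76) (nat_lit 4873181380436) (nat_lit 76) (nat_lit 1506981004888) (nat_lit 6) (nat_lit 4) (nat_lit 7) (nat_lit 5) (nat_lit 7) (nat_lit 4) (nat_lit 259) (nat_lit 241) (nat_lit 100)) (XT.lf (nat_lit 0) (nat_lit 2513540147639) (nat_lit 76) (nat_lit 4093173114795) (nat_lit 76) (nat_lit 726972738033) (nat_lit 6) (nat_lit 4) (nat_lit 7) (nat_lit 5) (nat_lit 7) (nat_lit 4) (nat_lit 260) (nat_lit 241) (nat_lit 99))) (XT.nd (nat_lit 78) (nat_lit 0) (nat_lit 0) (XT.lf (nat_lit 0) (nat_lit 154898918935) (nat_lit 152) (nat_lit 3033167702106) (nat_lit 76) (nat_lit 5042104385502) (nat_lit 5) (nat_lit 5) (nat_lit 7) (nat_lit 5) (nat_lit 6) (nat_lit 4) (nat_lit 261) (nat_lit 241) (nat_lit 98)) (XT.lf (nat_lit 0) (nat_lit 1094623162367) (nat_lit 152) (nat_lit 1012760579644) (nat_lit 76) (nat_lit 7148552359229) (nat_lit 5) (nat_lit 5) (nat_lit 7) (nat_lit 5) (nat_lit 6) (nat_lit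 4) (nat_lit 262) (nat_lit 241) (nat_lit 97))))) (XT.nd (nat_lit 29640) (nat_lit 0) (nat_lit 836) (XT.nd (nat_lit 156) (nat_lit 0) (nat_lit 0) (XT.nd (nat_lit 78) (nat_lit 0) (nat_lit 0) (XT.lf (nat_lit 0) (nat_lit 1438799489997) (nat_lit 76) (nat_lit 796084170249) (nat_lit 152) (nat_lit 8191745657209) (nat_lit 4) (nat_lit 5) (nat_lit 5) (nat_lit 5) (nat_lit 6) (nat_lit 4) (nat_lit 263) (nat_lit 241) (nat_lit 96)) (XT.lf (nat_lit 0) (nat_lit 3631122619449) (nat_lit 152) (nat_lit 7425071134625) (nat_lit 0) (nat_lit 703991854034) (nat_lit 4) (nat_lit 5) (nat_lit 6) (nat_lit 4) (nat_lit 4) (nat_lit 4) (nat_lit 264) (nat_lit 241) (nat_lit 95))) (XT.nd (nat_lit 78) (nat_lit 0) (nat_lit 0) (XT.lf (nat_lit 0) (nat_lit 5274706191951) (nat_lit 152) (nat_lit 5665807408987) (nat_lit 0) (nat_lit 2347575426011) (nat_lit 4) (nat_lit 5) (nat_lit 6) (nat_lit 4) (nat_lit 4) (nat_lit 4) (nat_lit 265)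 (nat_lit 241) (nat_lit 94)) (XT.lf (nat_lit 0) (nat_lit 7164827299813) (nat_lit 152) (nat_lit 3642654125465) (nat_lit 0) (nat_lit 4237696533417) (nat_lit 4) (nat_lit 5) (nat_lit 6) (nat_lit 4) (nat_lit 4) (nat_lit 4) (nat_lit 266) (nat_lit 241) (nat_lit 93)))) (XT.nd (nat_lit 156) (nat_lit 304) (nat_lit 0) (XT.nd (nat_lit 78) (nat_lit 0) (nat_lit 0) (XT.lf (nat_lit 0) (nat_lit 350830999634) (nat_lit 0) (nat_lit 350830999634) (nat_lit 228) (nat_lit 24299787497) (nat_lit 19) (nat_lit 5) (nat_lit 19) (nat_lit 3) (nat_lit 22) (nat_lit 3) (nat_lit 242) (nat_lit 242) (nat_lit 116)) (XT.lf (nat_lit 0) (nat_lit 1425848658007) (nat_lit 0) (nat_lit 82724666204) (nat_lit 228) (nat_lit 52244513173) (nat_lit 19) (nat_lit 5) (nat_lit 19) (nat_lit 3) (nat_lit 22) (nat_lit 3) (nat_lit 243) (nat_lit 242) (nat_lit 115))) (XT.nd (nat_lit 78) (nat_lit 0) (nat_lit 0) (XT.lf (nat_lit 0) (nat_lit 1903377164)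 (nat_lit 304) (nat_lit 1078514940537) (nat_lit 380) (nat_lit 597981174143) (nat_lit 15) (nat_lit 5) (nat_lit 19) (nat_lit 5) (nat_lit 20) (nat_lit 5) (nat_lit 244) (nat_lit 242) (nat_lit 114)) (XT.lf (nat_lit 0) (nat_lit 70155042936) (nat_lit 304) (nat_lit 359188146004) (nat_lit 380) (nat_lit 1382202465239) (nat_lit 15) (nat_lit 5) (nat_lit 19) (nat_lit 5) (nat_lit 20) (nat_lit 5) (nat_lit 245) (nat_lit 242) (nat_lit 113))))))))
noncomputable def xc61 : XT := (XT.nd (nat_lit 31824) (nat_lit 0) (nat_lit 0) (XT.nd (nat_lit 1170) (nat_lit 152) (nat_lit 0) (XT.nd (nat_lit 546) (nat_lit 380) (nat_lit 0) (XT.nd (nat_lit 234) (nat_lit 152) (nat_lit 0) (XT.nd (nat_lit 78) (nat_lit 228) (nat_lit 0) (XT.lf (nat_lit 0) (nat_lit 184157354420) (nat_lit 304) (nat_lit 1461933326598) (nat_lit 76) (nat_lit 313246125508) (nat_lit 16) (nat_lit 5) (nat_lit 20) (nat_lit 5) (nat_lit 17) (nat_lit 5) (nat_lit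 246) (nat_lit 242) (nat_lit 112)) (XT.nd (nat_lit 78) (nat_lit 228) (nat_lit 0) (XT.lf (nat_lit 0) (nat_lit 355374750104) (nat_lit 304) (nat_lit 624967570999) (nat_lit 76) (nat_lit 1142937100028) (nat_lit 16) (nat_lit 5) (nat_lit 20) (nat_lit 5) (nat_lit 17) (nat_lit 5) (nat_lit 247) (nat_lit 242) (nat_lit 111)) (XT.lf (nat_lit 0) (nat_lit 370530206186) (nat_lit 228) (nat_lit 197087411744) (nat_lit 304) (nat_lit 1741894380605) (nat_lit 13) (nat_lit 5) (nat_lit 16) (nat_lit 5) (nat_lit 17) (nat_lit 5) (nat_lit 248) (nat_lit 242) (nat_lit 110)))) (XT.nd (nat_lit 156) (nat_lit 0) (nat_lit 0) (XT.nd (nat_lit 78) (nat_lit 152) (nat_lit 0) (XT.lf (nat_lit 0) (nat_lit 875058211290) (nat_lit 304) (nat_lit 963881207842) (nat_lit 76) (nat_lit 675235849136) (nat_lit 13) (nat_lit 5) (nat_lit 17) (nat_lit 5) (nat_lit 14) (nat_lit 5) (nat_lit 249) (nat_lit 242) (nat_lit 109)) (XT.lf (nat_lit 0)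 (nat_lit 162572691922) (nat_lit 152) (nat_lit 1082159102766) (nat_lit 228) (nat_lit 1502388698637) (nat_lit 11) (nat_lit 5) (nat_lit 13) (nat_lit 5) (nat_lit 14) (nat_lit 5) (nat_lit 250) (nat_lit 242) (nat_lit 108))) (XT.nd (nat_lit 78) (nat_lit 0) (nat_lit 0) (XT.lf (nat_lit 0) (nat_lit 1566321777888) (nat_lit 152) (nat_lit 153919335102) (nat_lit 228) (nat_lit 1287208684559) (nat_lit 11) (nat_lit 5) (nat_lit 13) (nat_lit 5) (nat_lit 14) (nat_lit 5) (nat_lit 251) (nat_lit 242) (nat_lit 107)) (XT.lf (nat_lit 0) (nat_lit 2304905249450) (nat_lit 228) (nat_lit 164023695530) (nat_lit 76) (nat_lit 832225289379) (nat_lit 11) (nat_lit 5) (nat_lit 14) (nat_lit 5) (nat_lit 12) (nat_lit 4) (nat_lit 252) (nat_lit 242) (nat_lit 106))))) (XT.nd (nat_lit 312) (nat_lit 152) (nat_lit 0) (XT.nd (nat_lit 156) (nat_lit 152) (nat_lit 0) (XT.nd (nat_lit 78) (nat_lit 0) (nat_lit 0) (XT.lf (nat_lit 0) (nat_lit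 1424100013852) (nat_lit 76) (nat_lit 1619467427735) (nat_lit 152) (nat_lit 585402129835) (nat_lit 10) (nat_lit 5) (nat_lit 11) (nat_lit 5) (nat_lit 12) (nat_lit 4) (nat_lit 253) (nat_lit 242) (nat_lit 105)) (XT.lf (nat_lit 0) (nat_lit 3268876304168) (nat_lit 76) (nat_lit 632726622788) (nat_lit 152) (nat_lit 103068187437) (nat_lit 10) (nat_lit 5) (nat_lit 11) (nat_lit 5) (nat_lit 12) (nat_lit 4) (nat_lit 254) (nat_lit 242) (nat_lit 104))) (XT.nd (nat_lit 78) (nat_lit 0) (nat_lit 0) (XT.lf (nat_lit 0) (nat_lit 477609159732) (nat_lit 152) (nat_lit 3424940299268) (nat_lit 76) (nat_lit 521443470597) (nat_lit 8) (nat_lit 5) (nat_lit 10) (nat_lit 5) (nat_lit 9) (nat_lit 4) (nat_lit 255) (nat_lit 242) (nat_lit 103)) (XT.lf (nat_lit 0) (nat_lit 1205259252994) (nat_lit 152) (nat_lit 1860492600878) (nat_lit 76) (nat_lit 1829161457397) (nat_lit 8) (nat_lit 5) (nat_lit 10) (nat_lit 5) (nat_lit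 9) (nat_lit 4) (nat_lit 256) (nat_lit 242) (nat_lit 102)))) (XT.nd (nat_lit 156) (nat_lit 76) (nat_lit 0) (XT.nd (nat_lit 78) (nat_lit 76) (nat_lit 0) (XT.lf (nat_lit 0) (nat_lit 2042056859117) (nat_lit 152) (nat_lit 61377749559) (nat_lit 76) (nat_lit 3333037141692) (nat_lit 8) (nat_lit 5) (nat_lit 10) (nat_lit 5) (nat_lit 9) (nat_lit 4) (nat_lit 257) (nat_lit 242) (nat_lit 101)) (XT.lf (nat_lit 0) (nat_lit 2203802023547) (nat_lit 76) (nat_lit 891826823808) (nat_lit 152) (nat_lit 2949946896802) (nat_lit 7) (nat_lit 5) (nat_lit 8) (nat_lit 5) (nat_lit 9) (nat_lit 4) (nat_lit 258) (nat_lit 242) (nat_lit 100))) (XT.nd (nat_lit 78) (nat_lit 76) (nat_lit 0) (XT.lf (nat_lit 0) (nat_lit 4331364757219) (nat_lit 152) (nat_lit 1950827038562) (nat_lit 0) (nat_lit 460234322730) (nat_lit 7) (nat_lit 5) (nat_lit 9) (nat_lit 4) (nat_lit 7) (nat_lit 4) (nat_lit 259) (nat_lit 242) (nat_lit 99)) (XT.lf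 (nat_lit 0) (nat_lit 199011039282) (nat_lit 76) (nat_lit 5604158580199) (nat_lit 76) (nat_lit 1733028144654) (nat_lit 6) (nat_lit 4) (nat_lit 7) (nat_lit 5) (nat_lit 7) (nat_lit 4) (nat_lit 260) (nat_lit 242) (nat_lit 98)))))) (XT.nd (nat_lit 30030) (nat_lit 0) (nat_lit 532) (XT.nd (nat_lit 312) (nat_lit 0) (nat_lit 0) (XT.nd (nat_lit 156) (nat_lit 76) (nat_lit 0) (XT.nd (nat_lit 78) (nat_lit 76) (nat_lit 0) (XT.lf (nat_lit 0) (nat_lit 2890571184394) (nat_lit 76) (nat_lit 4707149075664) (nat_lit 76) (nat_lit 836018639201) (nat_lit 6) (nat_lit 4) (nat_lit 7) (nat_lit 5) (nat_lit 7) (nat_lit 4) (nat_lit 261) (nat_lit 242) (nat_lit 97)) (XT.lf (nat_lit 0) (nat_lit 178133764330) (nat_lit 152) (nat_lit 3488142843950) (nat_lit 76) (nat_lit 5798420048081) (nat_lit 5) (nat_lit 5) (nat_lit 7) (nat_lit 5) (nat_lit 6) (nat_lit 4) (nat_lit 262) (nat_lit 242) (nat_lit 96))) (XT.nd (nat_lit 78)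 (nat_lit 76) (nat_lit 0) (XT.lf (nat_lit 0) (nat_lit 1258816643292) (nat_lit 152) (nat_lit 1164674654876) (nat_lit 76) (nat_lit 8220835217247) (nat_lit 5) (nat_lit 5) (nat_lit 7) (nat_lit 5) (nat_lit 6) (nat_lit 4) (nat_lit 263) (nat_lit 242) (nat_lit 95)) (XT.lf (nat_lit 0) (nat_lit 1654619424679) (nat_lit 76) (nat_lit 915496790780) (nat_lit 152) (nat_lit 9420507498666) (nat_lit 4) (nat_lit 5) (nat_lit 5) (nat_lit 5) (nat_lit 6) (nat_lit 4) (nat_lit 264) (nat_lit 242) (nat_lit 94)))) (XT.nd (nat_lit 29562) (nat_lit 0) (nat_lit 1140) (XT.nd (nat_lit 78) (nat_lit 0) (nat_lit 0) (XT.lf (nat_lit 0) (nat_lit 4175791017917) (nat_lit 152) (nat_lit 8538831794451) (nat_lit 0) (nat_lit 809590636105) (nat_lit 4) (nat_lit 5) (nat_lit 6) (nat_lit 4) (nat_lit 4) (nat_lit 4) (nat_lit 265) (nat_lit 242) (nat_lit 93)) (XT.lf (nat_lit 0) (nat_lit 6065912125570) (nat_lit 152) (nat_lit 6515678511319)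 (nat_lit 0) (nat_lit 2699711743362) (nat_lit 4) (nat_lit 5) (nat_lit 6) (nat_lit 4) (nat_lit 4) (nat_lit 4) (nat_lit 266) (nat_lit 242) (nat_lit 92))) (XT.nd (nat_lit 78) (nat_lit 0) (nat_lit 0) (XT.lf (nat_lit 0) (nat_lit 403455661938) (nat_lit 0) (nat_lit 403455661938) (nat_lit 228) (nat_lit 27944726916) (nat_lit 19) (nat_lit 5) (nat_lit 19) (nat_lit 3) (nat_lit 22) (nat_lit 3) (nat_lit 243) (nat_lit 243) (nat_lit 114)) (XT.lf (nat_lit 0) (nat_lit 1639725978202) (nat_lit 0) (nat_lit 95133387628) (nat_lit 228) (nat_lit 60081140227) (nat_lit 19) (nat_lit 5) (nat_lit 19) (nat_lit 3) (nat_lit 22) (nat_lit 3) (nat_lit 244) (nat_lit 243) (nat_lit 113))))) (XT.nd (nat_lit 312) (nat_lit 304) (nat_lit 0) (XT.nd (nat_lit 156) (nat_lit 0) (nat_lit 76) (XT.nd (nat_lit 78) (nat_lit 0) (nat_lit 0) (XT.lf (nat_lit 0) (nat_lit 2188923688) (nat_lit 304) (nat_lit 1240292149358) (nat_lit 380) (nat_lit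 687678336213) (nat_lit 15) (nat_lit 5) (nat_lit 19) (nat_lit 5) (nat_lit 20) (nat_lit 5) (nat_lit 245) (nat_lit 243) (nat_lit 112)) (XT.lf (nat_lit 0) (nat_lit 80678334116) (nat_lit 304) (nat_lit 413066339854) (nat_lit 380) (nat_lit 1589532822807) (nat_lit 15) (nat_lit 5) (nat_lit 19) (nat_lit 5) (nat_lit 20) (nat_lit 5) (nat_lit 246) (nat_lit 243) (nat_lit 111))) (XT.nd (nat_lit 78) (nat_lit 0) (nat_lit 0) (XT.lf (nat_lit 0) (nat_lit 211780988712) (nat_lit 304) (nat_lit 1681223293647) (nat_lit 76) (nat_lit 360233040198) (nat_lit 16) (nat_lit 5) (nat_lit 20) (nat_lit 5) (nat_lit 17) (nat_lit 5) (nat_lit 247) (nat_lit 243) (nat_lit 110)) (XT.lf (nat_lit 0) (nat_lit 408680989688) (nat_lit 304) (nat_lit 718712678874) (nat_lit 76) (nat_lit 1314377661436) (nat_lit 16) (nat_lit 5) (nat_lit 20) (nat_lit 5) (nat_lit 17) (nat_lit 5) (nat_lit 248) (nat_lit 243) (nat_lit 109)))) (XT.nd (nat_lit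 156) (nat_lit 152) (nat_lit 0) (XT.nd (nat_lit 78) (nat_lit 0) (nat_lit 0) (XT.lf (nat_lit 0) (nat_lit 426109763626) (nat_lit 228) (nat_lit 226650521630) (nat_lit 304) (nat_lit 2003178509154) (nat_lit 13) (nat_lit 5) (nat_lit 16) (nat_lit 5) (nat_lit 17) (nat_lit 5) (nat_lit 249) (nat_lit 243) (nat_lit 108)) (XT.lf (nat_lit 0) (nat_lit 1006316964473) (nat_lit 304) (nat_lit 1108463362636) (nat_lit 76) (nat_lit 776521227993) (nat_lit 13) (nat_lit 5) (nat_lit 17) (nat_lit 5) (nat_lit 14) (nat_lit 5) (nat_lit 250) (nat_lit 243) (nat_lit 107))) (XT.nd (nat_lit 78) (nat_lit 0) (nat_lit 0) (XT.lf (nat_lit 0) (nat_lit 186958620894) (nat_lit 152) (nat_lit 1244482962727) (nat_lit 228) (nat_lit 1727746980584) (nat_lit 11) (nat_lit 5) (nat_lit 13) (nat_lit 5) (nat_lit 14) (nat_lit 5) (nat_lit 251) (nat_lit 243) (nat_lit 106)) (XT.lf (nat_lit 0) (nat_lit 1801270066470) (nat_lit 152) (nat_lit 177007230624)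 (nat_lit 228) (nat_lit 1480289967374) (nat_lit 11) (nat_lit 5) (nat_lit 13) (nat_lit 5) (nat_lit 14) (nat_lit 5) (nat_lit 252) (nat_lit 243) (nat_lit 105))))))) (XT.nd (nat_lit 30732) (nat_lit 0) (nat_lit 228) (XT.nd (nat_lit 546) (nat_lit 228) (nat_lit 0) (XT.nd (nat_lit 234) (nat_lit 228) (nat_lit 0) (XT.nd (nat_lit 78) (nat_lit 76) (nat_lit 0) (XT.lf (nat_lit 0) (nat_lit 2650641051956) (nat_lit 228) (nat_lit 188627228629) (nat_lit 76) (nat_lit 957059086543) (nat_lit 11) (nat_lit 5) (nat_lit 14) (nat_lit 5) (nat_lit 12) (nat_lit 4) (nat_lit 253) (nat_lit 243) (nat_lit 104)) (XT.nd (nat_lit 78) (nat_lit 0) (nat_lit 0) (XT.lf (nat_lit 0) (nat_lit 1637715036195) (nat_lit 76) (nat_lit 1862387535590) (nat_lit 152) (nat_lit 673212433151) (nat_lit 10) (nat_lit 5) (nat_lit 11) (nat_lit 5) (nat_lit 12) (nat_lit 4) (nat_lit 254) (nat_lit 243) (nat_lit 103)) (XT.lf (nat_lit 0) (nat_lit 3759207767415)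 (nat_lit 76) (nat_lit 727635610724) (nat_lit 152) (nat_lit 118528401502) (nat_lit 10) (nat_lit 5) (nat_lit 11) (nat_lit 5) (nat_lit 12) (nat_lit 4) (nat_lit 255) (nat_lit 243) (nat_lit 102)))) (XT.nd (nat_lit 156) (nat_lit 76) (nat_lit 0) (XT.nd (nat_lit 78) (nat_lit 0) (nat_lit 0) (XT.lf (nat_lit 0) (nat_lit 549250545829) (nat_lit 152) (nat_lit 3938681324474) (nat_lit 76) (nat_lit 599659996845) (nat_lit 8) (nat_lit 5) (nat_lit 10) (nat_lit 5) (nat_lit 9) (nat_lit 4) (nat_lit 256) (nat_lit 243) (nat_lit 101)) (XT.lf (nat_lit 0) (nat_lit 1386048151497) (nat_lit 152) (nat_lit 2139566473894) (nat_lit 76) (nat_lit 2103535680927) (nat_lit 8) (nat_lit 5) (nat_lit 10) (nat_lit 5) (nat_lit 9) (nat_lit 4) (nat_lit 257) (nat_lit 243) (nat_lit 100))) (XT.nd (nat_lit 78) (nat_lit 76) (nat_lit 0) (XT.lf (nat_lit 0) (nat_lit 2348365397162) (nat_lit 152) (nat_lit 70584397108) (nat_lit 76) (nat_lit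 3832992717224) (nat_lit 8) (nat_lit 5) (nat_lit 10) (nat_lit 5) (nat_lit 9) (nat_lit 4) (nat_lit 258) (nat_lit 243) (nat_lit 99)) (XT.lf (nat_lit 0) (nat_lit 2534372341286) (nat_lit 76) (nat_lit 1025600841740) (nat_lit 152) (nat_lit 3392438921423) (nat_lit 7) (nat_lit 5) (nat_lit 8) (nat_lit 5) (nat_lit 9) (nat_lit 4) (nat_lit 259) (nat_lit 243) (nat_lit 98))))) (XT.nd (nat_lit 312) (nat_lit 76) (nat_lit 0) (XT.nd (nat_lit 156) (nat_lit 76) (nat_lit 0) (XT.nd (nat_lit 78) (nat_lit 76) (nat_lit 0) (XT.lf (nat_lit 0) (nat_lit 4981069478456) (nat_lit 152) (nat_lit 2243451081038) (nat_lit 0) (nat_lit 529269475606) (nat_lit 7) (nat_lit 5) (nat_lit 9) (nat_lit 4) (nat_lit 7) (nat_lit 4) (nat_lit 260) (nat_lit 243) (nat_lit 97)) (XT.lf (nat_lit 0) (nat_lit 228862707877) (nat_lit 76) (nat_lit 6444782361707) (nat_lit 76) (nat_lit 1992982358059) (nat_lit 6) (nat_lit 4) (nat_lit 7) (nat_lit 5)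 (nat_lit 7) (nat_lit 4) (nat_lit 261) (nat_lit 243) (nat_lit 96))) (XT.nd (nat_lit 78) (nat_lit 76) (nat_lit 0) (XT.lf (nat_lit 0) (nat_lit 3324156873099) (nat_lit 76) (nat_lit 5413221432212) (nat_lit 76) (nat_lit 961421427870) (nat_lit 6) (nat_lit 4) (nat_lit 7) (nat_lit 5) (nat_lit 7) (nat_lit 4) (nat_lit 262) (nat_lit 243) (nat_lit 95)) (XT.lf (nat_lit 0) (nat_lit 204853834692) (nat_lit 152) (nat_lit 4011364260356) (nat_lit 76) (nat_lit 6668183058888) (nat_lit 5) (nat_lit 5) (nat_lit 7) (nat_lit 5) (nat_lit 6) (nat_lit 4) (nat_lit 263) (nat_lit 243) (nat_lit 94)))) (XT.nd (nat_lit 29718) (nat_lit 0) (nat_lit 1140) (XT.nd (nat_lit 78) (nat_lit 76) (nat_lit 0) (XT.lf (nat_lit 0) (nat_lit 1447639144753) (nat_lit 152) (nat_lit 1339375844250) (nat_lit 76) (nat_lit 9453960502960) (nat_lit 5) (nat_lit 5) (nat_lit 7) (nat_lit 5) (nat_lit 6) (nat_lit 4) (nat_lit 264) (nat_lit 243) (nat_lit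 93)) (XT.lf (nat_lit 0) (nat_lit 1902812346836) (nat_lit 76) (nat_lit 1052821305611) (nat_lit 152) (nat_lit 10833583618079) (nat_lit 4) (nat_lit 5) (nat_lit 5) (nat_lit 5) (nat_lit 6) (nat_lit 4) (nat_lit 265) (nat_lit 243) (nat_lit 92))) (XT.nd (nat_lit 78) (nat_lit 0) (nat_lit 0) (XT.lf (nat_lit 0) (nat_lit 463974020573) (nat_lit 0) (nat_lit 463974020573) (nat_lit 228) (nat_lit 32136414248) (nat_lit 19) (nat_lit 5) (nat_lit 19) (nat_lit 3) (nat_lit 22) (nat_lit 3) (nat_lit 244) (nat_lit 244) (nat_lit 112)) (XT.lf (nat_lit 0) (nat_lit 1885684891184) (nat_lit 0) (nat_lit 109403412025) (nat_lit 228) (nat_lit 69093273512) (nat_lit 19) (nat_lit 5) (nat_lit 19) (nat_lit 3) (nat_lit 22) (nat_lit 3) (nat_lit 245) (nat_lit 244) (nat_lit 111)))))) (XT.nd (nat_lit 624) (nat_lit 304) (nat_lit 0) (XT.nd (nat_lit 312) (nat_lit 304) (nat_lit 0) (XT.nd (nat_lit 156) (nat_lit 0) (nat_lit 76) (XT.nd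 (nat_lit 78) (nat_lit 0) (nat_lit 0) (XT.lf (nat_lit 0) (nat_lit 2517292449) (nat_lit 304) (nat_lit 1426335947369) (nat_lit 380) (nat_lit 790830076020) (nat_lit 15) (nat_lit 5) (nat_lit 19) (nat_lit 5) (nat_lit 20) (nat_lit 5) (nat_lit 246) (nat_lit 244) (nat_lit 110)) (XT.lf (nat_lit 0) (nat_lit 92780110501) (nat_lit 304) (nat_lit 475026269621) (nat_lit 380) (nat_lit 1827962736989) (nat_lit 15) (nat_lit 5) (nat_lit 19) (nat_lit 5) (nat_lit 20) (nat_lit 5) (nat_lit 247) (nat_lit 244) (nat_lit 109))) (XT.nd (nat_lit 78) (nat_lit 0) (nat_lit 0) (XT.lf (nat_lit 0) (nat_lit 243548160556) (nat_lit 304) (nat_lit 1933406763542) (nat_lit 76) (nat_lit 414267993101) (nat_lit 16) (nat_lit 5) (nat_lit 20) (nat_lit 5) (nat_lit 17) (nat_lit 5) (nat_lit 248) (nat_lit 244) (nat_lit 108)) (XT.lf (nat_lit 0) (nat_lit 469983158609) (nat_lit 304) (nat_lit 826519559704) (nat_lit 76) (nat_lit 1511534307932)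 (nat_lit 16) (nat_lit 5) (nat_lit 20) (nat_lit 5) (nat_lit 17) (nat_lit 5) (nat_lit 249) (nat_lit 244) (nat_lit 107)))) (XT.nd (nat_lit 156) (nat_lit 152) (nat_lit 0) (XT.nd (nat_lit 78) (nat_lit 0) (nat_lit 0) (XT.lf (nat_lit 0) (nat_lit 490026248216) (nat_lit 228) (nat_lit 260648098455) (nat_lit 304) (nat_lit 2303655263946) (nat_lit 13) (nat_lit 5) (nat_lit 16) (nat_lit 5) (nat_lit 17) (nat_lit 5) (nat_lit 250) (nat_lit 244) (nat_lit 106)) (XT.lf (nat_lit 0) (nat_lit 1157264525393) (nat_lit 304) (nat_lit 1274732847082) (nat_lit 76) (nat_lit 892999413316) (nat_lit 13) (nat_lit 5) (nat_lit 17) (nat_lit 5) (nat_lit 14) (nat_lit 5) (nat_lit 251) (nat_lit 244) (nat_lit 105))) (XT.nd (nat_lit 78) (nat_lit 0) (nat_lit 0) (XT.lf (nat_lit 0) (nat_lit 215002433070) (nat_lit 152) (nat_lit 1431155403012) (nat_lit 228) (nat_lit 1986909010396) (nat_lit 11) (nat_lit 5) (nat_lit 13) (nat_lit 5)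 (nat_lit 14) (nat_lit 5) (nat_lit 252) (nat_lit 244) (nat_lit 104)) (XT.lf (nat_lit 0) (nat_lit 2071460592999) (nat_lit 152) (nat_lit 203558311632) (nat_lit 228) (nat_lit 1702333447458) (nat_lit 11) (nat_lit 5) (nat_lit 13) (nat_lit 5) (nat_lit 14) (nat_lit 5) (nat_lit 253) (nat_lit 244) (nat_lit 103))))) (XT.nd (nat_lit 312) (nat_lit 76) (nat_lit 0) (XT.nd (nat_lit 156) (nat_lit 152) (nat_lit 0) (XT.nd (nat_lit 78) (nat_lit 76) (nat_lit 0) (XT.lf (nat_lit 0) (nat_lit 3048237221159) (nat_lit 228) (nat_lit 216921296871) (nat_lit 76) (nat_lit 1100617952365) (nat_lit 11) (nat_lit 5) (nat_lit 14) (nat_lit 5) (nat_lit 12) (nat_lit 4) (nat_lit 254) (nat_lit 244) (nat_lit 102)) (XT.lf (nat_lit 0) (nat_lit 1883372306947) (nat_lit 76) (nat_lit 2141745661161) (nat_lit 152) (nat_lit 774194285906) (nat_lit 10) (nat_lit 5) (nat_lit 11) (nat_lit 5) (nat_lit 12) (nat_lit 4) (nat_lit 255) (nat_lit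 244) (nat_lit 101))) (XT.nd (nat_lit 78) (nat_lit 152) (nat_lit 0) (XT.lf (nat_lit 0) (nat_lit 4323088945852) (nat_lit 76) (nat_lit 836780948187) (nat_lit 152) (nat_lit 136307651102) (nat_lit 10) (nat_lit 5) (nat_lit 11) (nat_lit 5) (nat_lit 12) (nat_lit 4) (nat_lit 256) (nat_lit 244) (nat_lit 100)) (XT.lf (nat_lit 0) (nat_lit 631638136880) (nat_lit 152) (nat_lit 4529483508261) (nat_lit 76) (nat_lit 689609000650) (nat_lit 8) (nat_lit 5) (nat_lit 10) (nat_lit 5) (nat_lit 9) (nat_lit 4) (nat_lit 257) (nat_lit 244) (nat_lit 99)))) (XT.nd (nat_lit 156) (nat_lit 76) (nat_lit 0) (XT.nd (nat_lit 78) (nat_lit 0) (nat_lit 0) (XT.lf (nat_lit 0) (nat_lit 1593955382201) (nat_lit 152) (nat_lit 2460501432035) (nat_lit 76) (nat_lit 2419066036786) (nat_lit 8) (nat_lit 5) (nat_lit 10) (nat_lit 5) (nat_lit 9) (nat_lit 4) (nat_lit 258) (nat_lit 244) (nat_lit 98)) (XT.lf (nat_lit 0) (nat_lit 2700620213676)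 (nat_lit 152) (nat_lit 81172045420) (nat_lit 76) (nat_lit 4407941628042) (nat_lit 8) (nat_lit 5) (nat_lit 10) (nat_lit 5) (nat_lit 9) (nat_lit 4) (nat_lit 259) (nat_lit 244) (nat_lit 97))) (XT.nd (nat_lit 78) (nat_lit 0) (nat_lit 0) (XT.lf (nat_lit 0) (nat_lit 2914528203222) (nat_lit 76) (nat_lit 1179440963737) (nat_lit 152) (nat_lit 3901304752152) (nat_lit 7) (nat_lit 5) (nat_lit 8) (nat_lit 5) (nat_lit 9) (nat_lit 4) (nat_lit 260) (nat_lit 244) (nat_lit 96)) (XT.lf (nat_lit 0) (nat_lit 5728229906012) (nat_lit 152) (nat_lit 2579968733131) (nat_lit 0) (nat_lit 608659900324) (nat_lit 7) (nat_lit 5) (nat_lit 9) (nat_lit 4) (nat_lit 7) (nat_lit 4) (nat_lit 261) (nat_lit 244) (nat_lit 95))))))))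
noncomputable def xc62 : XT := (XT.nd (nat_lit 61854) (nat_lit 0) (nat_lit 152) (XT.nd (nat_lit 30810) (nat_lit 0) (nat_lit 76) (XT.nd (nat_lit 30186) (nat_lit 0) (nat_lit 456) (XT.nd (nat_lit 234) (nat_lit 0) (nat_lit 0) (XT.nd (nat_lit 78) (nat_lit 76) (nat_lit 0) (XT.lf (nat_lit 0) (nat_lit 263192123665) (nat_lit 76) (nat_lit 7411499711788) (nat_lit 76) (nat_lit 2291929705497) (nat_lit 6) (nat_lit 4) (nat_lit 7) (nat_lit 5) (nat_lit 7) (nat_lit 4) (nat_lit 262) (nat_lit 244) (nat_lit 94)) (XT.nd (nat_lit 78) (nat_lit 76) (nat_lit 0) (XT.lf (nat_lit 0) (nat_lit 3822780412417) (nat_lit 76) (nat_lit 6225204643413) (nat_lit 76) (nat_lit 1105634636597) (nat_lit 6) (nat_lit 4) (nat_lit 7) (nat_lit 5) (nat_lit 7) (nat_lit 4) (nat_lit 263) (nat_lit 244) (nat_lit 93)) (XT.lf (nat_lit 0) (nat_lit 235581914215) (nat_lit 152) (nat_lit 4613068891707) (nat_lit 76) (nat_lit 7668410520439) (nat_lit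 5) (nat_lit 5) (nat_lit 7) (nat_lit 5) (nat_lit 6) (nat_lit 4) (nat_lit 264) (nat_lit 244) (nat_lit 92)))) (XT.nd (nat_lit 29796) (nat_lit 0) (nat_lit 760) (XT.nd (nat_lit 29718) (nat_lit 0) (nat_lit 1064) (XT.lf (nat_lit 0) (nat_lit 1664785020222) (nat_lit 152) (nat_lit 1540282214190) (nat_lit 76) (nat_lit 10872054580767) (nat_lit 5) (nat_lit 5) (nat_lit 7) (nat_lit 5) (nat_lit 6) (nat_lit 4) (nat_lit 265) (nat_lit 244) (nat_lit 91)) (XT.lf (nat_lit 0) (nat_lit 533570130726) (nat_lit 0) (nat_lit 533570130726) (nat_lit 228) (nat_lit 36956859973) (nat_lit 19) (nat_lit 5) (nat_lit 19) (nat_lit 3) (nat_lit 22) (nat_lit 3) (nat_lit 245) (nat_lit 245) (nat_lit 110))) (XT.nd (nat_lit 78) (nat_lit 304) (nat_lit 0) (XT.lf (nat_lit 0) (nat_lit 2168537637151) (nat_lit 0) (nat_lit 125813936118) (nat_lit 228) (nat_lit 79457235995) (nat_lit 19) (nat_lit 5) (nat_lit 19) (nat_lit 3) (nat_lit 22)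 (nat_lit 3) (nat_lit 246) (nat_lit 245) (nat_lit 109)) (XT.lf (nat_lit 0) (nat_lit 2894909157) (nat_lit 304) (nat_lit 1640286321030) (nat_lit 380) (nat_lit 909454579389) (nat_lit 15) (nat_lit 5) (nat_lit 19) (nat_lit 5) (nat_lit 20) (nat_lit 5) (nat_lit 247) (nat_lit 245) (nat_lit 108))))) (XT.nd (nat_lit 312) (nat_lit 152) (nat_lit 0) (XT.nd (nat_lit 156) (nat_lit 152) (nat_lit 0) (XT.nd (nat_lit 78) (nat_lit 0) (nat_lit 76) (XT.lf (nat_lit 0) (nat_lit 106697146938) (nat_lit 304) (nat_lit 546280194026) (nat_lit 380) (nat_lit 2102157140551) (nat_lit 15) (nat_lit 5) (nat_lit 19) (nat_lit 5) (nat_lit 20) (nat_lit 5) (nat_lit 248) (nat_lit 245) (nat_lit 107)) (XT.lf (nat_lit 0) (nat_lit 280080402437) (nat_lit 304) (nat_lit 2223417759812) (nat_lit 76) (nat_lit 476408189701) (nat_lit 16) (nat_lit 5) (nat_lit 20) (nat_lit 5) (nat_lit 17) (nat_lit 5) (nat_lit 249) (nat_lit 245) (nat_lit 106)))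 (XT.nd (nat_lit 78) (nat_lit 228) (nat_lit 0) (XT.lf (nat_lit 0) (nat_lit 540480647877) (nat_lit 304) (nat_lit 950497477780) (nat_lit 76) (nat_lit 1738264452066) (nat_lit 16) (nat_lit 5) (nat_lit 20) (nat_lit 5) (nat_lit 17) (nat_lit 5) (nat_lit 250) (nat_lit 245) (nat_lit 105)) (XT.lf (nat_lit 0) (nat_lit 563530200607) (nat_lit 228) (nat_lit 299745312150) (nat_lit 304) (nat_lit 2649203537219) (nat_lit 13) (nat_lit 5) (nat_lit 16) (nat_lit 5) (nat_lit 17) (nat_lit 5) (nat_lit 251) (nat_lit 245) (nat_lit 104)))) (XT.nd (nat_lit 156) (nat_lit 0) (nat_lit 0) (XT.nd (nat_lit 78) (nat_lit 152) (nat_lit 0) (XT.lf (nat_lit 0) (nat_lit 1330854216489) (nat_lit 304) (nat_lit 1465942759060) (nat_lit 76) (nat_lit 1026949326163) (nat_lit 13) (nat_lit 5) (nat_lit 17) (nat_lit 5) (nat_lit 14) (nat_lit 5) (nat_lit 252) (nat_lit 245) (nat_lit 103)) (XT.lf (nat_lit 0) (nat_lit 247252812429) (nat_lit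 152) (nat_lit 1645828710345) (nat_lit 228) (nat_lit 2284945348891) (nat_lit 11) (nat_lit 5) (nat_lit 13) (nat_lit 5) (nat_lit 14) (nat_lit 5) (nat_lit 253) (nat_lit 245) (nat_lit 102))) (XT.nd (nat_lit 78) (nat_lit 0) (nat_lit 0) (XT.lf (nat_lit 0) (nat_lit 2382179694470) (nat_lit 152) (nat_lit 234092055665) (nat_lit 228) (nat_lit 1957683453217) (nat_lit 11) (nat_lit 5) (nat_lit 13) (nat_lit 5) (nat_lit 14) (nat_lit 5) (nat_lit 254) (nat_lit 245) (nat_lit 101)) (XT.lf (nat_lit 0) (nat_lit 3505472812960) (nat_lit 228) (nat_lit 249459479263) (nat_lit 76) (nat_lit 1265710647368) (nat_lit 11) (nat_lit 5) (nat_lit 14) (nat_lit 5) (nat_lit 12) (nat_lit 4) (nat_lit 255) (nat_lit 245) (nat_lit 100)))))) (XT.nd (nat_lit 624) (nat_lit 0) (nat_lit 0) (XT.nd (nat_lit 312) (nat_lit 152) (nat_lit 0) (XT.nd (nat_lit 156) (nat_lit 152) (nat_lit 0) (XT.nd (nat_lit 78) (nat_lit 0) (nat_lit 0) (XT.lf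 (nat_lit 0) (nat_lit 2165878164576) (nat_lit 76) (nat_lit 2463007506731) (nat_lit 152) (nat_lit 890323419553) (nat_lit 10) (nat_lit 5) (nat_lit 11) (nat_lit 5) (nat_lit 12) (nat_lit 4) (nat_lit 256) (nat_lit 245) (nat_lit 99)) (XT.lf (nat_lit 0) (nat_lit 4971552297805) (nat_lit 76) (nat_lit 962298087281) (nat_lit 152) (nat_lit 156753790734) (nat_lit 10) (nat_lit 5) (nat_lit 11) (nat_lit 5) (nat_lit 12) (nat_lit 4) (nat_lit 257) (nat_lit 245) (nat_lit 98))) (XT.nd (nat_lit 78) (nat_lit 0) (nat_lit 0) (XT.lf (nat_lit 0) (nat_lit 726383864352) (nat_lit 152) (nat_lit 5208906023246) (nat_lit 76) (nat_lit 793050353982) (nat_lit 8) (nat_lit 5) (nat_lit 10) (nat_lit 5) (nat_lit 9) (nat_lit 4) (nat_lit 258) (nat_lit 245) (nat_lit 97)) (XT.lf (nat_lit 0) (nat_lit 1833048695566) (nat_lit 152) (nat_lit 2829576637054) (nat_lit 76) (nat_lit 2781925945117) (nat_lit 8) (nat_lit 5) (nat_lit 10) (nat_lit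 5) (nat_lit 9) (nat_lit 4) (nat_lit 259) (nat_lit 245) (nat_lit 96)))) (XT.nd (nat_lit 156) (nat_lit 76) (nat_lit 0) (XT.nd (nat_lit 78) (nat_lit 76) (nat_lit 0) (XT.lf (nat_lit 0) (nat_lit 3105713250974) (nat_lit 152) (nat_lit 93347843723) (nat_lit 76) (nat_lit 5069132874695) (nat_lit 8) (nat_lit 5) (nat_lit 10) (nat_lit 5) (nat_lit 9) (nat_lit 4) (nat_lit 260) (nat_lit 245) (nat_lit 95)) (XT.lf (nat_lit 0) (nat_lit 3351707441829) (nat_lit 76) (nat_lit 1356357105074) (nat_lit 152) (nat_lit 4486500459315) (nat_lit 7) (nat_lit 5) (nat_lit 8) (nat_lit 5) (nat_lit 9) (nat_lit 4) (nat_lit 261) (nat_lit 245) (nat_lit 94))) (XT.nd (nat_lit 78) (nat_lit 76) (nat_lit 0) (XT.lf (nat_lit 0) (nat_lit 6587464396290) (nat_lit 152) (nat_lit 2966964035491) (nat_lit 0) (nat_lit 699958887927) (nat_lit 7) (nat_lit 5) (nat_lit 9) (nat_lit 4) (nat_lit 7) (nat_lit 4) (nat_lit 262) (nat_lit 245) (nat_lit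 93)) (XT.lf (nat_lit 0) (nat_lit 302670949477) (nat_lit 76) (nat_lit 8523224665399) (nat_lit 76) (nat_lit 2635719156580) (nat_lit 6) (nat_lit 4) (nat_lit 7) (nat_lit 5) (nat_lit 7) (nat_lit 4) (nat_lit 263) (nat_lit 245) (nat_lit 92))))) (XT.nd (nat_lit 30108) (nat_lit 0) (nat_lit 532) (XT.nd (nat_lit 29952) (nat_lit 0) (nat_lit 684) (XT.nd (nat_lit 29874) (nat_lit 0) (nat_lit 988) (XT.lf (nat_lit 0) (nat_lit 4396197480595) (nat_lit 76) (nat_lit 7158985337180) (nat_lit 76) (nat_lit 1271479827964) (nat_lit 6) (nat_lit 4) (nat_lit 7) (nat_lit 5) (nat_lit 7) (nat_lit 4) (nat_lit 264) (nat_lit 245) (nat_lit 91)) (XT.lf (nat_lit 0) (nat_lit 613605655678) (nat_lit 0) (nat_lit 613605655678) (nat_lit 228) (nat_lit 42500376558) (nat_lit 19) (nat_lit 5) (nat_lit 19) (nat_lit 3) (nat_lit 22) (nat_lit 3) (nat_lit 246) (nat_lit 246) (nat_lit 108))) (XT.nd (nat_lit 78) (nat_lit 304) (nat_lit 0)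 (XT.lf (nat_lit 0) (nat_lit 2493818292016) (nat_lit 0) (nat_lit 144686035828) (nat_lit 228) (nat_lit 91375799812) (nat_lit 19) (nat_lit 5) (nat_lit 19) (nat_lit 3) (nat_lit 22) (nat_lit 3) (nat_lit 247) (nat_lit 246) (nat_lit 107)) (XT.lf (nat_lit 0) (nat_lit 3329162802) (nat_lit 304) (nat_lit 1886329255238) (nat_lit 380) (nat_lit 1045872760222) (nat_lit 15) (nat_lit 5) (nat_lit 19) (nat_lit 5) (nat_lit 20) (nat_lit 5) (nat_lit 248) (nat_lit 246) (nat_lit 106)))) (XT.nd (nat_lit 156) (nat_lit 152) (nat_lit 0) (XT.nd (nat_lit 78) (nat_lit 0) (nat_lit 76) (XT.lf (nat_lit 0) (nat_lit 122701733997) (nat_lit 304) (nat_lit 628222211002) (nat_lit 380) (nat_lit 2417480706352) (nat_lit 15) (nat_lit 5) (nat_lit 19) (nat_lit 5) (nat_lit 20) (nat_lit 5) (nat_lit 249) (nat_lit 246) (nat_lit 105)) (XT.lf (nat_lit 0) (nat_lit 322092476261) (nat_lit 304) (nat_lit 2556930409975) (nat_lit 76) (nat_lit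 547869416368) (nat_lit 16) (nat_lit 5) (nat_lit 20) (nat_lit 5) (nat_lit 17) (nat_lit 5) (nat_lit 250) (nat_lit 246) (nat_lit 104))) (XT.nd (nat_lit 78) (nat_lit 228) (nat_lit 0) (XT.lf (nat_lit 0) (nat_lit 621552756760) (nat_lit 304) (nat_lit 1093072087439) (nat_lit 76) (nat_lit 1999004118321) (nat_lit 16) (nat_lit 5) (nat_lit 20) (nat_lit 5) (nat_lit 17) (nat_lit 5) (nat_lit 251) (nat_lit 246) (nat_lit 103)) (XT.lf (nat_lit 0) (nat_lit 648059742160) (nat_lit 228) (nat_lit 344707108162) (nat_lit 304) (nat_lit 3046584055463) (nat_lit 13) (nat_lit 5) (nat_lit 16) (nat_lit 5) (nat_lit 17) (nat_lit 5) (nat_lit 252) (nat_lit 246) (nat_lit 102))))))) (XT.nd (nat_lit 31122) (nat_lit 0) (nat_lit 76) (XT.nd (nat_lit 546) (nat_lit 76) (nat_lit 0) (XT.nd (nat_lit 234) (nat_lit 228) (nat_lit 0) (XT.nd (nat_lit 78) (nat_lit 152) (nat_lit 0) (XT.lf (nat_lit 0) (nat_lit 1530482358253) (nat_lit 304)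 (nat_lit 1685834161513) (nat_lit 76) (nat_lit 1180991725730) (nat_lit 13) (nat_lit 5) (nat_lit 17) (nat_lit 5) (nat_lit 14) (nat_lit 5) (nat_lit 253) (nat_lit 246) (nat_lit 101)) (XT.nd (nat_lit 78) (nat_lit 0) (nat_lit 0) (XT.lf (nat_lit 0) (nat_lit 284340745182) (nat_lit 152) (nat_lit 1892703014539) (nat_lit 228) (nat_lit 2627687141347) (nat_lit 11) (nat_lit 5) (nat_lit 13) (nat_lit 5) (nat_lit 14) (nat_lit 5) (nat_lit 254) (nat_lit 246) (nat_lit 100)) (XT.lf (nat_lit 0) (nat_lit 2739506658108) (nat_lit 152) (nat_lit 269205861964) (nat_lit 228) (nat_lit 2251335962610) (nat_lit 11) (nat_lit 5) (nat_lit 13) (nat_lit 5) (nat_lit 14) (nat_lit 5) (nat_lit 255) (nat_lit 246) (nat_lit 99)))) (XT.nd (nat_lit 156) (nat_lit 152) (nat_lit 0) (XT.nd (nat_lit 78) (nat_lit 76) (nat_lit 0) (XT.lf (nat_lit 0) (nat_lit 4031293741428) (nat_lit 228) (nat_lit 286878391975) (nat_lit 76) (nat_lit 1455567246098)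 (nat_lit 11) (nat_lit 5) (nat_lit 14) (nat_lit 5) (nat_lit 12) (nat_lit 4) (nat_lit 256) (nat_lit 246) (nat_lit 98)) (XT.lf (nat_lit 0) (nat_lit 2490759898023) (nat_lit 76) (nat_lit 2832458630015) (nat_lit 152) (nat_lit 1023871925500) (nat_lit 10) (nat_lit 5) (nat_lit 11) (nat_lit 5) (nat_lit 12) (nat_lit 4) (nat_lit 257) (nat_lit 246) (nat_lit 97))) (XT.nd (nat_lit 78) (nat_lit 152) (nat_lit 0) (XT.lf (nat_lit 0) (nat_lit 5717285150095) (nat_lit 76) (nat_lit 1106642798002) (nat_lit 152) (nat_lit 180266853269) (nat_lit 10) (nat_lit 5) (nat_lit 11) (nat_lit 5) (nat_lit 12) (nat_lit 4) (nat_lit 258) (nat_lit 246) (nat_lit 96)) (XT.lf (nat_lit 0) (nat_lit 835341449252) (nat_lit 152) (nat_lit 5990241918223) (nat_lit 76) (nat_lit 912007909526) (nat_lit 8) (nat_lit 5) (nat_lit 10) (nat_lit 5) (nat_lit 9) (nat_lit 4) (nat_lit 259) (nat_lit 246) (nat_lit 95))))) (XT.nd (nat_lit 30264) (nat_lit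 0) (nat_lit 608) (XT.nd (nat_lit 156) (nat_lit 76) (nat_lit 0) (XT.nd (nat_lit 78) (nat_lit 0) (nat_lit 0) (XT.lf (nat_lit 0) (nat_lit 2108006004463) (nat_lit 152) (nat_lit 3254013125212) (nat_lit 76) (nat_lit 3199214839011) (nat_lit 8) (nat_lit 5) (nat_lit 10) (nat_lit 5) (nat_lit 9) (nat_lit 4) (nat_lit 260) (nat_lit 246) (nat_lit 94)) (XT.lf (nat_lit 0) (nat_lit 3571570242588) (nat_lit 152) (nat_lit 107350013847) (nat_lit 76) (nat_lit 5829502807749) (nat_lit 8) (nat_lit 5) (nat_lit 10) (nat_lit 5) (nat_lit 9) (nat_lit 4) (nat_lit 261) (nat_lit 246) (nat_lit 93))) (XT.nd (nat_lit 78) (nat_lit 0) (nat_lit 0) (XT.lf (nat_lit 0) (nat_lit 3854463564246) (nat_lit 76) (nat_lit 1559810668397) (nat_lit 152) (nat_lit 5159475523933) (nat_lit 7) (nat_lit 5) (nat_lit 8) (nat_lit 5) (nat_lit 9) (nat_lit 4) (nat_lit 262) (nat_lit 246) (nat_lit 92)) (XT.lf (nat_lit 0) (nat_lit 7575584059043) (nat_lit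 152) (nat_lit 3412008635062) (nat_lit 0) (nat_lit 804952723047) (nat_lit 7) (nat_lit 5) (nat_lit 9) (nat_lit 4) (nat_lit 7) (nat_lit 4) (nat_lit 263) (nat_lit 246) (nat_lit 91)))) (XT.nd (nat_lit 156) (nat_lit 304) (nat_lit 0) (XT.nd (nat_lit 78) (nat_lit 0) (nat_lit 0) (XT.lf (nat_lit 0) (nat_lit 705646508069) (nat_lit 0) (nat_lit 705646508069) (nat_lit 228) (nat_lit 48875423658) (nat_lit 19) (nat_lit 5) (nat_lit 19) (nat_lit 3) (nat_lit 22) (nat_lit 3) (nat_lit 247) (nat_lit 247) (nat_lit 106)) (XT.lf (nat_lit 0) (nat_lit 2867891042845) (nat_lit 0) (nat_lit 166388948229) (nat_lit 228) (nat_lit 105082153464) (nat_lit 19) (nat_lit 5) (nat_lit 19) (nat_lit 3) (nat_lit 22) (nat_lit 3) (nat_lit 248) (nat_lit 247) (nat_lit 105))) (XT.nd (nat_lit 78) (nat_lit 0) (nat_lit 0) (XT.lf (nat_lit 0) (nat_lit 3828550282) (nat_lit 304) (nat_lit 2169278632979) (nat_lit 380) (nat_lit 1202753669662)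 (nat_lit 15) (nat_lit 5) (nat_lit 19) (nat_lit 5) (nat_lit 20) (nat_lit 5) (nat_lit 249) (nat_lit 247) (nat_lit 104)) (XT.lf (nat_lit 0) (nat_lit 141107005453) (nat_lit 304) (nat_lit 722455533482) (nat_lit 380) (nat_lit 2780102808310) (nat_lit 15) (nat_lit 5) (nat_lit 19) (nat_lit 5) (nat_lit 20) (nat_lit 5) (nat_lit 250) (nat_lit 247) (nat_lit 103)))))) (XT.nd (nat_lit 624) (nat_lit 152) (nat_lit 0) (XT.nd (nat_lit 312) (nat_lit 228) (nat_lit 0) (XT.nd (nat_lit 156) (nat_lit 228) (nat_lit 0) (XT.nd (nat_lit 78) (nat_lit 0) (nat_lit 0) (XT.lf (nat_lit 0) (nat_lit 370406357876) (nat_lit 304) (nat_lit 2940469961030) (nat_lit 76) (nat_lit 630049827472) (nat_lit 16) (nat_lit 5) (nat_lit 20) (nat_lit 5) (nat_lit 17) (nat_lit 5) (nat_lit 251) (nat_lit 247) (nat_lit 102)) (XT.lf (nat_lit 0) (nat_lit 714785679123) (nat_lit 304) (nat_lit 1257032891476) (nat_lit 76) (nat_lit 2298854734893) (nat_lit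 16) (nat_lit 5) (nat_lit 20) (nat_lit 5) (nat_lit 17) (nat_lit 5) (nat_lit 252) (nat_lit 247) (nat_lit 101))) (XT.nd (nat_lit 78) (nat_lit 0) (nat_lit 0) (XT.lf (nat_lit 0) (nat_lit 745268712151) (nat_lit 228) (nat_lit 396413173773) (nat_lit 304) (nat_lit 3503571654452) (nat_lit 13) (nat_lit 5) (nat_lit 16) (nat_lit 5) (nat_lit 17) (nat_lit 5) (nat_lit 253) (nat_lit 247) (nat_lit 100)) (XT.lf (nat_lit 0) (nat_lit 1760054719016) (nat_lit 304) (nat_lit 1938709277115) (nat_lit 76) (nat_lit 1358140485076) (nat_lit 13) (nat_lit 5) (nat_lit 17) (nat_lit 5) (nat_lit 14) (nat_lit 5) (nat_lit 254) (nat_lit 247) (nat_lit 99)))) (XT.nd (nat_lit 156) (nat_lit 76) (nat_lit 0) (XT.nd (nat_lit 78) (nat_lit 0) (nat_lit 0) (XT.lf (nat_lit 0) (nat_lit 326991865191) (nat_lit 152) (nat_lit 2176608464937) (nat_lit 228) (nat_lit 3021840205080) (nat_lit 11) (nat_lit 5) (nat_lit 13) (nat_lit 5) (nat_lit 14)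 (nat_lit 5) (nat_lit 255) (nat_lit 247) (nat_lit 98)) (XT.lf (nat_lit 0) (nat_lit 3150432663983) (nat_lit 152) (nat_lit 309586739709) (nat_lit 228) (nat_lit 2589036350507) (nat_lit 11) (nat_lit 5) (nat_lit 13) (nat_lit 5) (nat_lit 14) (nat_lit 5) (nat_lit 256) (nat_lit 247) (nat_lit 97))) (XT.nd (nat_lit 78) (nat_lit 76) (nat_lit 0) (XT.lf (nat_lit 0) (nat_lit 4635987807575) (nat_lit 228) (nat_lit 329910143831) (nat_lit 76) (nat_lit 1673902334241) (nat_lit 11) (nat_lit 5) (nat_lit 14) (nat_lit 5) (nat_lit 12) (nat_lit 4) (nat_lit 257) (nat_lit 247) (nat_lit 96)) (XT.lf (nat_lit 0) (nat_lit 2864373889352) (nat_lit 76) (nat_lit 3257327422456) (nat_lit 152) (nat_lit 1177452709043) (nat_lit 10) (nat_lit 5) (nat_lit 11) (nat_lit 5) (nat_lit 12) (nat_lit 4) (nat_lit 258) (nat_lit 247) (nat_lit 95))))) (XT.nd (nat_lit 30420) (nat_lit 0) (nat_lit 532) (XT.nd (nat_lit 156) (nat_lit 0) (nat_lit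 0) (XT.nd (nat_lit 78) (nat_lit 152) (nat_lit 0) (XT.lf (nat_lit 0) (nat_lit 6574877928369) (nat_lit 76) (nat_lit 1272639215911) (nat_lit 152) (nat_lit 207306876666) (nat_lit 10) (nat_lit 5) (nat_lit 11) (nat_lit 5) (nat_lit 12) (nat_lit 4) (nat_lit 259) (nat_lit 247) (nat_lit 94)) (XT.lf (nat_lit 0) (nat_lit 960642670607) (nat_lit 152) (nat_lit 6888778199522) (nat_lit 76) (nat_lit 1048809097804) (nat_lit 8) (nat_lit 5) (nat_lit 10) (nat_lit 5) (nat_lit 9) (nat_lit 4) (nat_lit 260) (nat_lit 247) (nat_lit 93))) (XT.nd (nat_lit 78) (nat_lit 0) (nat_lit 0) (XT.lf (nat_lit 0) (nat_lit 2424206908583) (nat_lit 152) (nat_lit 3742115088399) (nat_lit 76) (nat_lit 3679097066472) (nat_lit 8) (nat_lit 5) (nat_lit 10) (nat_lit 5) (nat_lit 9) (nat_lit 4) (nat_lit 261) (nat_lit 247) (nat_lit 92)) (XT.lf (nat_lit 0) (nat_lit 4107305781977) (nat_lit 152) (nat_lit 123452511059) (nat_lit 76) (nat_lit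 6703928230309) (nat_lit 8) (nat_lit 5) (nat_lit 10) (nat_lit 5) (nat_lit 9) (nat_lit 4) (nat_lit 262) (nat_lit 247) (nat_lit 91)))) (XT.nd (nat_lit 156) (nat_lit 304) (nat_lit 0) (XT.nd (nat_lit 78) (nat_lit 0) (nat_lit 0) (XT.lf (nat_lit 0) (nat_lit 811493487335) (nat_lit 0) (nat_lit 811493487335) (nat_lit 228) (nat_lit 56206730112) (nat_lit 19) (nat_lit 5) (nat_lit 19) (nat_lit 3) (nat_lit 22) (nat_lit 3) (nat_lit 248) (nat_lit 248) (nat_lit 104)) (XT.lf (nat_lit 0) (nat_lit 3298074704584) (nat_lit 0) (nat_lit 191347295776) (nat_lit 228) (nat_lit 120844464143) (nat_lit 19) (nat_lit 5) (nat_lit 19) (nat_lit 3) (nat_lit 22) (nat_lit 3) (nat_lit 249) (nat_lit 248) (nat_lit 103))) (XT.nd (nat_lit 78) (nat_lit 0) (nat_lit 0) (XT.lf (nat_lit 0) (nat_lit 4402842700) (nat_lit 304) (nat_lit 2494670419951) (nat_lit 380) (nat_lit 1383166716639) (nat_lit 15) (nat_lit 5) (nat_lit 19) (nat_lit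 5) (nat_lit 20) (nat_lit 5) (nat_lit 250) (nat_lit 248) (nat_lit 102)) (XT.lf (nat_lit 0) (nat_lit 162273064858) (nat_lit 304) (nat_lit 830823856571) (nat_lit 380) (nat_lit 3197118226536) (nat_lit 15) (nat_lit 5) (nat_lit 19) (nat_lit 5) (nat_lit 20) (nat_lit 5) (nat_lit 251) (nat_lit 248) (nat_lit 101))))))))
noncomputable def xc63 : XT := (XT.nd (nat_lit 93756) (nat_lit 0) (nat_lit 380) (XT.nd (nat_lit 31434) (nat_lit 0) (nat_lit 152) (XT.nd (nat_lit 546) (nat_lit 228) (nat_lit 0) (XT.nd (nat_lit 234) (nat_lit 152) (nat_lit 0) (XT.nd (nat_lit 78) (nat_lit 228) (nat_lit 0) (XT.lf (nat_lit 0) (nat_lit 425967319252) (nat_lit 304) (nat_lit 3381540447289) (nat_lit 76) (nat_lit 724557300570) (nat_lit 16) (nat_lit 5) (nat_lit 20) (nat_lit 5) (nat_lit 17) (nat_lit 5) (nat_lit 252) (nat_lit 248) (nat_lit 100)) (XT.nd (nat_lit 78) (nat_lit 228) (nat_lit 0) (XT.lf (nat_lit 0) (nat_lit 822003537683)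 (nat_lit 304) (nat_lit 1445587818332) (nat_lit 76) (nat_lit 2643682944238) (nat_lit 16) (nat_lit 5) (nat_lit 20) (nat_lit 5) (nat_lit 17) (nat_lit 5) (nat_lit 253) (nat_lit 248) (nat_lit 99)) (XT.lf (nat_lit 0) (nat_lit 857059025527) (nat_lit 228) (nat_lit 455875149375) (nat_lit 304) (nat_lit 4029107395565) (nat_lit 13) (nat_lit 5) (nat_lit 16) (nat_lit 5) (nat_lit 17) (nat_lit 5) (nat_lit 254) (nat_lit 248) (nat_lit 98)))) (XT.nd (nat_lit 156) (nat_lit 0) (nat_lit 0) (XT.nd (nat_lit 78) (nat_lit 152) (nat_lit 0) (XT.lf (nat_lit 0) (nat_lit 2024062932181) (nat_lit 304) (nat_lit 2229515662161) (nat_lit 76) (nat_lit 1561861558205) (nat_lit 13) (nat_lit 5) (nat_lit 17) (nat_lit 5) (nat_lit 14) (nat_lit 5) (nat_lit 255) (nat_lit 248) (nat_lit 97)) (XT.lf (nat_lit 0) (nat_lit 376040651195) (nat_lit 152) (nat_lit 2503099733330) (nat_lit 228) (nat_lit 3475116230195) (nat_lit 11) (nat_lit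 5) (nat_lit 13) (nat_lit 5) (nat_lit 14) (nat_lit 5) (nat_lit 256) (nat_lit 248) (nat_lit 96))) (XT.nd (nat_lit 78) (nat_lit 0) (nat_lit 0) (XT.lf (nat_lit 0) (nat_lit 3622997568994) (nat_lit 152) (nat_lit 356024749493) (nat_lit 228) (nat_lit 2977391798172) (nat_lit 11) (nat_lit 5) (nat_lit 13) (nat_lit 5) (nat_lit 14) (nat_lit 5) (nat_lit 257) (nat_lit 248) (nat_lit 95)) (XT.lf (nat_lit 0) (nat_lit 5331385982441) (nat_lit 228) (nat_lit 379396660158) (nat_lit 76) (nat_lit 1924987685306) (nat_lit 11) (nat_lit 5) (nat_lit 14) (nat_lit 5) (nat_lit 12) (nat_lit 4) (nat_lit 258) (nat_lit 248) (nat_lit 94))))) (XT.nd (nat_lit 30576) (nat_lit 0) (nat_lit 532) (XT.nd (nat_lit 156) (nat_lit 152) (nat_lit 0) (XT.nd (nat_lit 78) (nat_lit 0) (nat_lit 0) (XT.lf (nat_lit 0) (nat_lit 3294029977764) (nat_lit 76) (nat_lit 3745926534266) (nat_lit 152) (nat_lit 1354070611405) (nat_lit 10) (nat_lit 5)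 (nat_lit 11) (nat_lit 5) (nat_lit 12) (nat_lit 4) (nat_lit 259) (nat_lit 248) (nat_lit 93)) (XT.lf (nat_lit 0) (nat_lit 7561109621981) (nat_lit 76) (nat_lit 1463535096942) (nat_lit 152) (nat_lit 238402904693) (nat_lit 10) (nat_lit 5) (nat_lit 11) (nat_lit 5) (nat_lit 12) (nat_lit 4) (nat_lit 260) (nat_lit 248) (nat_lit 92))) (XT.nd (nat_lit 30342) (nat_lit 0) (nat_lit 836) (XT.lf (nat_lit 0) (nat_lit 1104739074198) (nat_lit 152) (nat_lit 7922094924585) (nat_lit 76) (nat_lit 1206130463873) (nat_lit 8) (nat_lit 5) (nat_lit 10) (nat_lit 5) (nat_lit 9) (nat_lit 4) (nat_lit 261) (nat_lit 248) (nat_lit 91)) (XT.lf (nat_lit 0) (nat_lit 933217512745) (nat_lit 0) (nat_lit 933217512745) (nat_lit 228) (nat_lit 64637734263) (nat_lit 19) (nat_lit 5) (nat_lit 19) (nat_lit 3) (nat_lit 22) (nat_lit 3) (nat_lit 249) (nat_lit 249) (nat_lit 102)))) (XT.nd (nat_lit 156) (nat_lit 0) (nat_lit 0) (XT.nd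 (nat_lit 78) (nat_lit 304) (nat_lit 0) (XT.lf (nat_lit 0) (nat_lit 3792785914290) (nat_lit 0) (nat_lit 220049394159) (nat_lit 228) (nat_lit 138971124434) (nat_lit 19) (nat_lit 5) (nat_lit 19) (nat_lit 3) (nat_lit 22) (nat_lit 3) (nat_lit 250) (nat_lit 249) (nat_lit 101)) (XT.lf (nat_lit 0) (nat_lit 5063276572) (nat_lit 304) (nat_lit 2868870976915) (nat_lit 380) (nat_lit 1590641721508) (nat_lit 15) (nat_lit 5) (nat_lit 19) (nat_lit 5) (nat_lit 20) (nat_lit 5) (nat_lit 251) (nat_lit 249) (nat_lit 100))) (XT.nd (nat_lit 78) (nat_lit 0) (nat_lit 76) (XT.lf (nat_lit 0) (nat_lit 186614031079) (nat_lit 304) (nat_lit 955447429814) (nat_lit 380) (nat_lit 3676685958233) (nat_lit 15) (nat_lit 5) (nat_lit 19) (nat_lit 5) (nat_lit 20) (nat_lit 5) (nat_lit 252) (nat_lit 249) (nat_lit 99)) (XT.lf (nat_lit 0) (nat_lit 489862422958) (nat_lit 304) (nat_lit 3888771508412) (nat_lit 76) (nat_lit 833240894883)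 (nat_lit 16) (nat_lit 5) (nat_lit 20) (nat_lit 5) (nat_lit 17) (nat_lit 5) (nat_lit 253) (nat_lit 249) (nat_lit 98)))))) (XT.nd (nat_lit 31044) (nat_lit 0) (nat_lit 76) (XT.nd (nat_lit 312) (nat_lit 76) (nat_lit 0) (XT.nd (nat_lit 156) (nat_lit 152) (nat_lit 0) (XT.nd (nat_lit 78) (nat_lit 228) (nat_lit 0) (XT.lf (nat_lit 0) (nat_lit 945304073394) (nat_lit 304) (nat_lit 1662425985890) (nat_lit 76) (nat_lit 3040235385202) (nat_lit 16) (nat_lit 5) (nat_lit 20) (nat_lit 5) (nat_lit 17) (nat_lit 5) (nat_lit 254) (nat_lit 249) (nat_lit 97)) (XT.lf (nat_lit 0) (nat_lit 985617884311) (nat_lit 228) (nat_lit 524256421430) (nat_lit 304) (nat_lit 4633473499566) (nat_lit 13) (nat_lit 5) (nat_lit 16) (nat_lit 5) (nat_lit 17) (nat_lit 5) (nat_lit 255) (nat_lit 249) (nat_lit 96))) (XT.nd (nat_lit 78) (nat_lit 152) (nat_lit 0) (XT.lf (nat_lit 0) (nat_lit 2327672376024) (nat_lit 304) (nat_lit 2563943006554)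 (nat_lit 76) (nat_lit 1796140792214) (nat_lit 13) (nat_lit 5) (nat_lit 17) (nat_lit 5) (nat_lit 14) (nat_lit 5) (nat_lit 256) (nat_lit 249) (nat_lit 95)) (XT.lf (nat_lit 0) (nat_lit 432446753582) (nat_lit 152) (nat_lit 2878564692310) (nat_lit 228) (nat_lit 3996383660454) (nat_lit 11) (nat_lit 5) (nat_lit 13) (nat_lit 5) (nat_lit 14) (nat_lit 5) (nat_lit 257) (nat_lit 249) (nat_lit 94)))) (XT.nd (nat_lit 156) (nat_lit 76) (nat_lit 0) (XT.nd (nat_lit 78) (nat_lit 0) (nat_lit 0) (XT.lf (nat_lit 0) (nat_lit 4166447208436) (nat_lit 152) (nat_lit 409428461030) (nat_lit 228) (nat_lit 3424000564184) (nat_lit 11) (nat_lit 5) (nat_lit 13) (nat_lit 5) (nat_lit 14) (nat_lit 5) (nat_lit 258) (nat_lit 249) (nat_lit 93)) (XT.lf (nat_lit 0) (nat_lit 6131093882628) (nat_lit 228) (nat_lit 436306155214) (nat_lit 76) (nat_lit 2213735838804) (nat_lit 11) (nat_lit 5) (nat_lit 14) (nat_lit 5) (nat_lit 12)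 (nat_lit 4) (nat_lit 259) (nat_lit 249) (nat_lit 92))) (XT.nd (nat_lit 30498) (nat_lit 0) (nat_lit 684) (XT.lf (nat_lit 0) (nat_lit 3788134478216) (nat_lit 76) (nat_lit 4307815513228) (nat_lit 152) (nat_lit 1557181200096) (nat_lit 10) (nat_lit 5) (nat_lit 11) (nat_lit 5) (nat_lit 12) (nat_lit 4) (nat_lit 260) (nat_lit 249) (nat_lit 91)) (XT.lf (nat_lit 0) (nat_lit 1073200141404) (nat_lit 0) (nat_lit 1073200141404) (nat_lit 228) (nat_lit 74333390346) (nat_lit 19) (nat_lit 5) (nat_lit 19) (nat_lit 3) (nat_lit 22) (nat_lit 3) (nat_lit 250) (nat_lit 250) (nat_lit 100))))) (XT.nd (nat_lit 312) (nat_lit 304) (nat_lit 0) (XT.nd (nat_lit 156) (nat_lit 0) (nat_lit 0) (XT.nd (nat_lit 78) (nat_lit 304) (nat_lit 0) (XT.lf (nat_lit 0) (nat_lit 4361703804471) (nat_lit 0) (nat_lit 253056806321) (nat_lit 228) (nat_lit 159816786044) (nat_lit 19) (nat_lit 5) (nat_lit 19) (nat_lit 3) (nat_lit 22) (nat_lit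 3) (nat_lit 251) (nat_lit 250) (nat_lit 99)) (XT.lf (nat_lit 0) (nat_lit 5822773704) (nat_lit 304) (nat_lit 3299201618893) (nat_lit 380) (nat_lit 1829237977749) (nat_lit 15) (nat_lit 5) (nat_lit 19) (nat_lit 5) (nat_lit 20) (nat_lit 5) (nat_lit 252) (nat_lit 250) (nat_lit 98))) (XT.nd (nat_lit 78) (nat_lit 0) (nat_lit 76) (XT.lf (nat_lit 0) (nat_lit 214606140651) (nat_lit 304) (nat_lit 1098764540321) (nat_lit 380) (nat_lit 4228188850241) (nat_lit 15) (nat_lit 5) (nat_lit 19) (nat_lit 5) (nat_lit 20) (nat_lit 5) (nat_lit 253) (nat_lit 250) (nat_lit 97)) (XT.lf (nat_lit 0) (nat_lit 563341790801) (nat_lit 304) (nat_lit 4472087230160) (nat_lit 76) (nat_lit 958227028531) (nat_lit 16) (nat_lit 5) (nat_lit 20) (nat_lit 5) (nat_lit 17) (nat_lit 5) (nat_lit 254) (nat_lit 250) (nat_lit 96)))) (XT.nd (nat_lit 156) (nat_lit 152) (nat_lit 0) (XT.nd (nat_lit 78) (nat_lit 228) (nat_lit 0) (XT.lf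 (nat_lit 0) (nat_lit 1087099688229) (nat_lit 304) (nat_lit 1911789879849) (nat_lit 76) (nat_lit 3496270692474) (nat_lit 16) (nat_lit 5) (nat_lit 20) (nat_lit 5) (nat_lit 17) (nat_lit 5) (nat_lit 255) (nat_lit 250) (nat_lit 95)) (XT.lf (nat_lit 0) (nat_lit 1133460570705) (nat_lit 228) (nat_lit 602894884380) (nat_lit 304) (nat_lit 5328494520467) (nat_lit 13) (nat_lit 5) (nat_lit 16) (nat_lit 5) (nat_lit 17) (nat_lit 5) (nat_lit 256) (nat_lit 250) (nat_lit 94))) (XT.nd (nat_lit 156) (nat_lit 152) (nat_lit 0) (XT.lf (nat_lit 0) (nat_lit 2676823235465) (nat_lit 304) (nat_lit 2948534453808) (nat_lit 76) (nat_lit 2065561911256) (nat_lit 13) (nat_lit 5) (nat_lit 17) (nat_lit 5) (nat_lit 14) (nat_lit 5) (nat_lit 257) (nat_lit 250) (nat_lit 93)) (XT.lf (nat_lit 0) (nat_lit 4791414292796) (nat_lit 152) (nat_lit 470842729515) (nat_lit 228) (nat_lit 3937600646004) (nat_lit 11) (nat_lit 5) (nat_lit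 13) (nat_lit 5) (nat_lit 14) (nat_lit 5) (nat_lit 259) (nat_lit 250) (nat_lit 91))))))) (XT.nd (nat_lit 62868) (nat_lit 0) (nat_lit 152) (XT.nd (nat_lit 31356) (nat_lit 0) (nat_lit 152) (XT.nd (nat_lit 234) (nat_lit 152) (nat_lit 0) (XT.nd (nat_lit 78) (nat_lit 304) (nat_lit 0) (XT.lf (nat_lit 0) (nat_lit 1234180163935) (nat_lit 0) (nat_lit 1234180163935) (nat_lit 228) (nat_lit 85483395830) (nat_lit 19) (nat_lit 5) (nat_lit 19) (nat_lit 3) (nat_lit 22) (nat_lit 3) (nat_lit 251) (nat_lit 251) (nat_lit 98)) (XT.nd (nat_lit 78) (nat_lit 304) (nat_lit 0) (XT.lf (nat_lit 0) (nat_lit 5015959377438) (nat_lit 0) (nat_lit 291015329566) (nat_lit 228) (nat_lit 183789298615) (nat_lit 19) (nat_lit 5) (nat_lit 19) (nat_lit 3) (nat_lit 22) (nat_lit 3) (nat_lit 252) (nat_lit 251) (nat_lit 97)) (XT.lf (nat_lit 0) (nat_lit 6696194028) (nat_lit 304) (nat_lit 3794081858280) (nat_lit 380) (nat_lit 2103623672909)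 (nat_lit 15) (nat_lit 5) (nat_lit 19) (nat_lit 5) (nat_lit 20) (nat_lit 5) (nat_lit 253) (nat_lit 251) (nat_lit 96)))) (XT.nd (nat_lit 156) (nat_lit 152) (nat_lit 0) (XT.nd (nat_lit 78) (nat_lit 0) (nat_lit 76) (XT.lf (nat_lit 0) (nat_lit 246797065461) (nat_lit 304) (nat_lit 1263579218372) (nat_lit 380) (nat_lit 4862417176472) (nat_lit 15) (nat_lit 5) (nat_lit 19) (nat_lit 5) (nat_lit 20) (nat_lit 5) (nat_lit 254) (nat_lit 251) (nat_lit 95)) (XT.lf (nat_lit 0) (nat_lit 647843062747) (nat_lit 304) (nat_lit 5142900311271) (nat_lit 76) (nat_lit 1101961082369) (nat_lit 16) (nat_lit 5) (nat_lit 20) (nat_lit 5) (nat_lit 17) (nat_lit 5) (nat_lit 255) (nat_lit 251) (nat_lit 94))) (XT.nd (nat_lit 78) (nat_lit 228) (nat_lit 0) (XT.lf (nat_lit 0) (nat_lit 1250164644356) (nat_lit 304) (nat_lit 2198558358858) (nat_lit 76) (nat_lit 4020711295961) (nat_lit 16) (nat_lit 5) (nat_lit 20) (nat_lit 5)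 (nat_lit 17) (nat_lit 5) (nat_lit 256) (nat_lit 251) (nat_lit 93)) (XT.lf (nat_lit 0) (nat_lit 1303479659144) (nat_lit 228) (nat_lit 693329116836) (nat_lit 304) (nat_lit 6127768695487) (nat_lit 13) (nat_lit 5) (nat_lit 16) (nat_lit 5) (nat_lit 17) (nat_lit 5) (nat_lit 257) (nat_lit 251) (nat_lit 92))))) (XT.nd (nat_lit 312) (nat_lit 0) (nat_lit 76) (XT.nd (nat_lit 156) (nat_lit 304) (nat_lit 0) (XT.nd (nat_lit 78) (nat_lit 0) (nat_lit 0) (XT.lf (nat_lit 0) (nat_lit 1419307189524) (nat_lit 0) (nat_lit 1419307189524) (nat_lit 228) (nat_lit 98305902885) (nat_lit 19) (nat_lit 5) (nat_lit 19) (nat_lit 3) (nat_lit 22) (nat_lit 3) (nat_lit 252) (nat_lit 252) (nat_lit 96)) (XT.lf (nat_lit 0) (nat_lit 5768353285791) (nat_lit 0) (nat_lit 334667630738) (nat_lit 228) (nat_lit 211357689374) (nat_lit 19) (nat_lit 5) (nat_lit 19) (nat_lit 3) (nat_lit 22) (nat_lit 3) (nat_lit 253) (nat_lit 252) (nat_lit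 95))) (XT.nd (nat_lit 78) (nat_lit 0) (nat_lit 0) (XT.lf (nat_lit 0) (nat_lit 7700626361) (nat_lit 304) (nat_lit 4363194134415) (nat_lit 380) (nat_lit 2419167222710) (nat_lit 15) (nat_lit 5) (nat_lit 19) (nat_lit 5) (nat_lit 20) (nat_lit 5) (nat_lit 254) (nat_lit 252) (nat_lit 94)) (XT.lf (nat_lit 0) (nat_lit 283816628087) (nat_lit 304) (nat_lit 1453116098861) (nat_lit 380) (nat_lit 5591779751955) (nat_lit 15) (nat_lit 5) (nat_lit 19) (nat_lit 5) (nat_lit 20) (nat_lit 5) (nat_lit 255) (nat_lit 252) (nat_lit 93)))) (XT.nd (nat_lit 31044) (nat_lit 0) (nat_lit 228) (XT.nd (nat_lit 78) (nat_lit 0) (nat_lit 0) (XT.lf (nat_lit 0) (nat_lit 745019524675) (nat_lit 304) (nat_lit 5914335355381) (nat_lit 76) (nat_lit 1267255244390) (nat_lit 16) (nat_lit 5) (nat_lit 20) (nat_lit 5) (nat_lit 17) (nat_lit 5) (nat_lit 256) (nat_lit 252) (nat_lit 92)) (XT.lf (nat_lit 0) (nat_lit 1437689343197) (nat_lit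 304) (nat_lit 2528342110442) (nat_lit 76) (nat_lit 4623817990065) (nat_lit 16) (nat_lit 5) (nat_lit 20) (nat_lit 5) (nat_lit 17) (nat_lit 5) (nat_lit 257) (nat_lit 252) (nat_lit 91))) (XT.nd (nat_lit 78) (nat_lit 0) (nat_lit 0) (XT.lf (nat_lit 0) (nat_lit 1632203268708) (nat_lit 0) (nat_lit 1632203268708) (nat_lit 228) (nat_lit 113051786564) (nat_lit 19) (nat_lit 5) (nat_lit 19) (nat_lit 3) (nat_lit 22) (nat_lit 3) (nat_lit 253) (nat_lit 253) (nat_lit 94)) (XT.lf (nat_lit 0) (nat_lit 6633606279973) (nat_lit 0) (nat_lit 384867776662) (nat_lit 228) (nat_lit 243061339730) (nat_lit 19) (nat_lit 5) (nat_lit 19) (nat_lit 3) (nat_lit 22) (nat_lit 3) (nat_lit 254) (nat_lit 253) (nat_lit 93)))))) (XT.nd (nat_lit 31512) (nat_lit 0) (nat_lit 0) (XT.nd (nat_lit 31200) (nat_lit 0) (nat_lit 0) (XT.nd (nat_lit 156) (nat_lit 0) (nat_lit 76) (XT.nd (nat_lit 78) (nat_lit 0) (nat_lit 0) (XT.lf (nat_lit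 0) (nat_lit 8855722756) (nat_lit 304) (nat_lit 5017673252606) (nat_lit 380) (nat_lit 2782042305258) (nat_lit 15) (nat_lit 5) (nat_lit 19) (nat_lit 5) (nat_lit 20) (nat_lit 5) (nat_lit 255) (nat_lit 253) (nat_lit 92)) (XT.lf (nat_lit 0) (nat_lit 326389124423) (nat_lit 304) (nat_lit 1671083511976) (nat_lit 380) (nat_lit 6430546714002) (nat_lit 15) (nat_lit 5) (nat_lit 19) (nat_lit 5) (nat_lit 20) (nat_lit 5) (nat_lit 256) (nat_lit 253) (nat_lit 91))) (XT.nd (nat_lit 78) (nat_lit 0) (nat_lit 0) (XT.lf (nat_lit 0) (nat_lit 856772455278) (nat_lit 304) (nat_lit 6801485656737) (nat_lit 76) (nat_lit 1457343530796) (nat_lit 16) (nat_lit 5) (nat_lit 20) (nat_lit 5) (nat_lit 17) (nat_lit 5) (nat_lit 257) (nat_lit 253) (nat_lit 90)) (XT.lf (nat_lit 0) (nat_lit 1653342746330) (nat_lit 304) (nat_lit 2907593425312) (nat_lit 76) (nat_lit 5317390688355) (nat_lit 16) (nat_lit 5) (nat_lit 20) (nat_lit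 5) (nat_lit 17) (nat_lit 5) (nat_lit 258) (nat_lit 253) (nat_lit 89)))) (XT.nd (nat_lit 156) (nat_lit 304) (nat_lit 0) (XT.nd (nat_lit 78) (nat_lit 0) (nat_lit 0) (XT.lf (nat_lit 0) (nat_lit 1877033759585) (nat_lit 0) (nat_lit 1877033759585) (nat_lit 228) (nat_lit 130009553222) (nat_lit 19) (nat_lit 5) (nat_lit 19) (nat_lit 3) (nat_lit 22) (nat_lit 3) (nat_lit 254) (nat_lit 254) (nat_lit 92)) (XT.lf (nat_lit 0) (nat_lit 7628647222962) (nat_lit 0) (nat_lit 442597944155) (nat_lit 228) (nat_lit 279520538383) (nat_lit 19) (nat_lit 5) (nat_lit 19) (nat_lit 3) (nat_lit 22) (nat_lit 3) (nat_lit 255) (nat_lit 254) (nat_lit 91))) (XT.nd (nat_lit 78) (nat_lit 0) (nat_lit 0) (XT.lf (nat_lit 0) (nat_lit 10184083015) (nat_lit 304) (nat_lit 5770324239007) (nat_lit 380) (nat_lit 3199348650398) (nat_lit 15) (nat_lit 5) (nat_lit 19) (nat_lit 5) (nat_lit 20) (nat_lit 5) (nat_lit 256) (nat_lit 254) (nat_lit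 90)) (XT.lf (nat_lit 0) (nat_lit 375347494692) (nat_lit 304) (nat_lit 1921746037477) (nat_lit 380) (nat_lit 7395128720538) (nat_lit 15) (nat_lit 5) (nat_lit 19) (nat_lit 5) (nat_lit 20) (nat_lit 5) (nat_lit 257) (nat_lit 254) (nat_lit 89))))) (XT.nd (nat_lit 31200) (nat_lit 76) (nat_lit 0) (XT.nd (nat_lit 31044) (nat_lit 0) (nat_lit 228) (XT.nd (nat_lit 78) (nat_lit 0) (nat_lit 0) (XT.lf (nat_lit 0) (nat_lit 985288325008) (nat_lit 304) (nat_lit 7821708503771) (nat_lit 76) (nat_lit 1675945060224) (nat_lit 16) (nat_lit 5) (nat_lit 20) (nat_lit 5) (nat_lit 17) (nat_lit 5) (nat_lit 258) (nat_lit 254) (nat_lit 88)) (XT.lf (nat_lit 0) (nat_lit 1901344159531) (nat_lit 304) (nat_lit 3343732437825) (nat_lit 76) (nat_lit 6114999291442) (nat_lit 16) (nat_lit 5) (nat_lit 20) (nat_lit 5) (nat_lit 17) (nat_lit 5) (nat_lit 259) (nat_lit 254) (nat_lit 87))) (XT.nd (nat_lit 78) (nat_lit 0) (nat_lit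 0) (XT.lf (nat_lit 0) (nat_lit 2158588823954) (nat_lit 0) (nat_lit 2158588823954) (nat_lit 228) (nat_lit 149510985203) (nat_lit 19) (nat_lit 5) (nat_lit 19) (nat_lit 3) (nat_lit 22) (nat_lit 3) (nat_lit 255) (nat_lit 255) (nat_lit 90)) (XT.lf (nat_lit 0) (nat_lit 8772944307157) (nat_lit 0) (nat_lit 508987636529) (nat_lit 228) (nat_lit 321448617396) (nat_lit 19) (nat_lit 5) (nat_lit 19) (nat_lit 3) (nat_lit 22) (nat_lit 3) (nat_lit 256) (nat_lit 255) (nat_lit 89)))) (XT.nd (nat_lit 31200) (nat_lit 0) (nat_lit 304) (XT.nd (nat_lit 78) (nat_lit 0) (nat_lit 0) (XT.lf (nat_lit 0) (nat_lit 11711696863) (nat_lit 304) (nat_lit 6635872873731) (nat_lit 380) (nat_lit 3679250947467) (nat_lit 15) (nat_lit 5) (nat_lit 19) (nat_lit 5) (nat_lit 20) (nat_lit 5) (nat_lit 257) (nat_lit 255) (nat_lit 88)) (XT.lf (nat_lit 0) (nat_lit 431649620109) (nat_lit 304) (nat_lit 2210007942118) (nat_lit 380) (nat_lit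 8504398028192) (nat_lit 15) (nat_lit 5) (nat_lit 19) (nat_lit 5) (nat_lit 20) (nat_lit 5) (nat_lit 258) (nat_lit 255) (nat_lit 87))) (XT.nd (nat_lit 78) (nat_lit 0) (nat_lit 0) (XT.lf (nat_lit 0) (nat_lit 2482377147874) (nat_lit 0) (nat_lit 2482377147874) (nat_lit 228) (nat_lit 171937632225) (nat_lit 19) (nat_lit 5) (nat_lit 19) (nat_lit 3) (nat_lit 22) (nat_lit 3) (nat_lit 256) (nat_lit 256) (nat_lit 88)) (XT.lf (nat_lit 0) (nat_lit 10088885953799) (nat_lit 0) (nat_lit 585335782576) (nat_lit 228) (nat_lit 369665908687) (nat_lit 19) (nat_lit 5) (nat_lit 19) (nat_lit 3) (nat_lit 22) (nat_lit 3) (nat_lit 257) (nat_lit 256) (nat_lit 87))))))))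

set_option maxRecDepth 10000000 in
noncomputable def Tp : PT := (PT.nd (nat_lit 3167112) (PT.nd (nat_lit 3041922) pc0 pc1) (PT.nd (nat_lit 93210) pc2 pc3))

set_option maxRecDepth 10000000 in
noncomputable def Tx : XT := (XT.nd (nat_lit 4901832) (nat_lit 0) (nat_lit 76) XT.nil (XT.nd (nat_lit 3125460) (nat_lit 0) (nat_lit 0) (XT.nd (nat_lit 1531920) (nat_lit 0) (nat_lit 0) (XT.nd (nat_lit 1121250) (nat_lit 0) (nat_lit 0) (XT.nd (nat_lit 811746) (nat_lit 0) (nat_lit 0) (XT.nd (nat_lit 622674) (nat_lit 0) (nat_lit 0) (XT.nd (nat_lit 467142) (nat_lit 0) (nat_lit 0) (XT.nd (nat_lit 343668) (nat_lit 0) (nat_lit 0) xc0 xc1) (XT.nd (nat_lit 63882) (nat_lit 0) (nat_lit 0) xc2 xc3)) (XT.nd (nat_lit 95160) (nat_lit 0) (nat_lit 0) (XT.nd (nat_lit 62166) (nat_lit 0) (nat_lit 0) xc4 xc5) (XT.nd (nat_lit 61152) (nat_lit 0) (nat_lit 0) xc6 xc7))) (XT.nd (nat_lit 156702) (nat_lit 0) (nat_lit 0) (XT.nd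 (nat_lit 92820) (nat_lit 0) (nat_lit 0) (XT.nd (nat_lit 60450) (nat_lit 0) (nat_lit 0) xc8 xc9) (XT.nd (nat_lit 31980) (nat_lit 0) (nat_lit 0) xc10 xc11)) (XT.nd (nat_lit 90012) (nat_lit 0) (nat_lit 0) (XT.nd (nat_lit 32058) (nat_lit 0) (nat_lit 0) xc12 xc13) (XT.nd (nat_lit 31434) (nat_lit 0) (nat_lit 0) xc14 xc15)))) (XT.nd (nat_lit 219414) (nat_lit 0) (nat_lit 0) (XT.nd (nat_lit 123708) (nat_lit 0) (nat_lit 0) (XT.nd (nat_lit 62166) (nat_lit 0) (nat_lit 0) (XT.nd (nat_lit 31122) (nat_lit 0) (nat_lit 0) xc16 xc17) (XT.nd (nat_lit 30810) (nat_lit 0) (nat_lit 0) xc18 xc19)) (XT.nd (nat_lit 35334) (nat_lit 0) (nat_lit 0) (XT.nd (nat_lit 4836) (nat_lit 0) (nat_lit 0) xc20 xc21) (XT.nd (nat_lit 30264) (nat_lit 0) (nat_lit 0) xc22 xc23))) (XT.nd (nat_lit 95082) (nat_lit 0) (nat_lit 0) (XT.nd (nat_lit 60060) (nat_lit 0) (nat_lit 0) (XT.nd (nat_lit 29952) (nat_lit 0) (nat_lit 0) xc24 xc25)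 (XT.nd (nat_lit 4836) (nat_lit 0) (nat_lit 0) xc26 xc27)) (XT.nd (nat_lit 60606) (nat_lit 0) (nat_lit 0) (XT.nd (nat_lit 30342) (nat_lit 0) (nat_lit 0) xc28 xc29) (XT.nd (nat_lit 30264) (nat_lit 0) (nat_lit 0) xc30 xc31))))) (XT.nd (nat_lit 499980) (nat_lit 0) (nat_lit 0) (XT.nd (nat_lit 246948) (nat_lit 0) (nat_lit 0) (XT.nd (nat_lit 122226) (nat_lit 0) (nat_lit 0) (XT.nd (nat_lit 60606) (nat_lit 0) (nat_lit 0) (XT.nd (nat_lit 30030) (nat_lit 0) (nat_lit 0) xc32 xc33) (XT.nd (nat_lit 30732) (nat_lit 0) (nat_lit 0) xc34 xc35)) (XT.nd (nat_lit 62244) (nat_lit 0) (nat_lit 0) (XT.nd (nat_lit 30966) (nat_lit 0) (nat_lit 0) xc36 xc37) (XT.nd (nat_lit 31278) (nat_lit 0) (nat_lit 0) xc38 xc39))) (XT.nd (nat_lit 126126) (nat_lit 0) (nat_lit 0) (XT.nd (nat_lit 63102) (nat_lit 0) (nat_lit 0) (XT.nd (nat_lit 31434) (nat_lit 0) (nat_lit 0) xc40 xc41) (XT.nd (nat_lit 31590) (nat_lit 0) (nat_lit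 0) xc42 xc43)) (XT.nd (nat_lit 63102) (nat_lit 0) (nat_lit 0) (XT.nd (nat_lit 31512) (nat_lit 0) (nat_lit 0) xc44 xc45) (XT.nd (nat_lit 31746) (nat_lit 0) (nat_lit 0) xc46 xc47)))) (XT.nd (nat_lit 343278) (nat_lit 0) (nat_lit 0) (XT.nd (nat_lit 157014) (nat_lit 0) (nat_lit 0) (XT.nd (nat_lit 91572) (nat_lit 0) (nat_lit 0) (XT.nd (nat_lit 59280) (nat_lit 0) (nat_lit 0) xc48 xc49) (XT.nd (nat_lit 32292) (nat_lit 0) (nat_lit 0) xc50 xc51)) (XT.nd (nat_lit 92508) (nat_lit 0) (nat_lit 0) (XT.nd (nat_lit 59748) (nat_lit 0) (nat_lit 0) xc52 xc53) (XT.nd (nat_lit 60762) (nat_lit 0) (nat_lit 0) xc54 xc55))) (XT.nd (nat_lit 218946) (nat_lit 0) (nat_lit 152) (XT.nd (nat_lit 123006) (nat_lit 0) (nat_lit 0) (XT.nd (nat_lit 61464) (nat_lit 0) (nat_lit 0) xc56 xc57) (XT.nd (nat_lit 33462) (nat_lit 0) (nat_lit 0) xc58 xc59)) (XT.nd (nat_lit 156312) (nat_lit 0) (nat_lit 152) (XT.nd (nat_lit 92508)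 (nat_lit 0) (nat_lit 76) xc60 xc61) (XT.nd (nat_lit 124332) (nat_lit 0) (nat_lit 228) xc62 xc63)))))) XT.nil))

set_option maxRecDepth 10000000 in
noncomputable def Te : XT := XT.nil

set_option maxRecDepth 10000000 in
noncomputable def Tz : ZL := (ZL.cons (nat_lit 76) (nat_lit 6) (nat_lit 189470515116366615174) (ZL.cons (nat_lit 152) (nat_lit 6) (nat_lit 179239051219310121276) (ZL.cons (nat_lit 228) (nat_lit 3) (nat_lit 88784708305885914068) (ZL.cons (nat_lit 304) (nat_lit 6) (nat_lit 167472867737695153290) (ZL.cons (nat_lit 380) (nat_lit 6) (nat_lit 158983327320513351348) (ZL.cons (nat_lit 456) (nat_lit 3) (nat_lit 78765735570022635179) (ZL.cons (nat_lit 532) (nat_lit 6) (nat_lit 149220355840754279116) (ZL.cons (nat_lit 608) (nat_lit 6) (nat_lit 142376913062227355818) (ZL.cons (nat_lit 684) (nat_lit 3) (nat_lit 70557214713518860088) (ZL.cons (nat_lit 760) (nat_lit 6) (nat_lit 134506953866921394030)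 (ZL.cons (nat_lit 836) (nat_lit 6) (nat_lit 129268652464663894298) (ZL.cons (nat_lit 912) (nat_lit 3) (nat_lit 64085420303988627302) (ZL.cons (nat_lit 988) (nat_lit 6) (nat_lit 125297036714568878594) (ZL.cons (nat_lit 1064) (nat_lit 6) (nat_lit 123244605852067769606) (ZL.cons (nat_lit 1140) (nat_lit 6) (nat_lit 120866302723336155254) (ZL.cons (nat_lit 1216) (nat_lit 6) (nat_lit 122514401091091009652) (ZL.cons (nat_lit 1292) (nat_lit 6) (nat_lit 119631866745272970840) (ZL.cons (nat_lit 1368) (nat_lit 3) (nat_lit 59338623869729250773) (ZL.cons (nat_lit 1444) (nat_lit 6) (nat_lit 116088455254600033884) (ZL.cons (nat_lit 1520) (nat_lit 6) (nat_lit 117261939261590351380) (ZL.cons (nat_lit 1596) (nat_lit 6) (nat_lit 115477216772458952262) (ZL.cons (nat_lit 1672) (nat_lit 3) (nat_lit 56477113078714884825) (ZL.cons (nat_lit 1748) (nat_lit 6) (nat_lit 113581903649540869704) (ZL.cons (nat_lit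 1824) (nat_lit 3) (nat_lit 56375900083111969940) (ZL.cons (nat_lit 1900) (nat_lit 6) (nat_lit 111402293558185074764) (ZL.cons (nat_lit 1976) (nat_lit 1) (nat_lit 18446744073709551617) ZL.nil))))))))))))))))))))))))))

noncomputable def vl : XL := ⟨(nat_lit 0), (nat_lit 76), (nat_lit 94565963), (nat_lit 228), (nat_lit 467464059), (nat_lit 76), (nat_lit 94565963), (nat_lit 1), (nat_lit 5), (nat_lit 3), (nat_lit 4), (nat_lit 1), (nat_lit 4), (nat_lit 0), (nat_lit 0), (nat_lit 0)⟩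

noncomputable def cp0 : Nat := (nat_lit 55427727395805228010639070133032345261370944981508246623430467009608642415624062983208960)

noncomputable def cp1 : Nat := (nat_lit 17903035526107536498207950100062163786332298175280115851279874825741085433084490228042402084808518035816469940724606367216396916308200218014034108067465754154425186153255800553213930605354903266671042731169200234737986608050697171718720857283576840396206569776402804274249659914683783300490010742221882475223102658497685309968226363454354178128102876564321902680495060349369737312779721345620795675057523998421801616652955115543978121851861447450981499955648827573170261807653583933199411295982702384532326077782332824674575453902455122216111671811798993298361190058638736065252928383192819828479457273691506737152)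

noncomputable def rc0 : Nat := (nat_lit 17903035526107536498207950100062163786332298175280115851279874825741085433084490228042402084808518035816469940724606367216396916308200218014034108067465754154425186153255800553213930605354903266671042731169200234737986608050697171718720857283576840396206569776402804274249659914683783300490010742221882475223102658497685309968226363454354178128102876564321902680495060349369737312779721345620795675057523998421801616652955115543978121851861447450981499955648827573170261807653583933199411295982702384532326077782332824674575453902455122216111671811798993298361190058638736065252928383192819828479457273691506737152)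

end Vale.Agent.Lib.P154.PChain.BS.S0
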