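import Vale.Agent.Lib.P154.PChain.BS.R0_0

set_option linter.all false

namespace Vale.Agent.Lib.P154.PChain.BS.S1

open Vale.Agent.Lib.P154.Chain

noncomputable def pc0 : PT := (PT.nd (nat_lit 2916966) (PT.nd (nat_lit 2823210) (PT.nd (nat_lit 2760810) (PT.nd (nat_lit 2760654) (PT.nd (nat_lit 2729532) (PT.nd (nat_lit 2729454) PT.nil (PT.lf (nat_lit 76) (nat_lit 6) (nat_lit 1) (nat_lit 3) (nat_lit 106) (nat_lit 87) (nat_lit 107))) (PT.lf (nat_lit 76) (nat_lit 6) (nat_lit 1) (nat_lit 1) (nat_lit 107) (nat_lit 87) (nat_lit 106))) (PT.nd (nat_lit 78) (PT.lf (nat_lit 152) (nat_lit 6) (nat_lit 2) (nat_lit 3) (nat_lit 105) (nat_lit 88) (nat_lit 107)) (PT.lf (nat_lit 228) (nat_lit 3) (nat_lit 3) (nat_lit 1) (nat_lit 106) (nat_lit 88) (nat_lit 106)))) (PT.nd (nat_lit 31200) (PT.nd (nat_lit 31122) (PT.lf (nat_lit 152) (nat_lit 6) (nat_lit 2) (nat_lit 1) (nat_lit 107) (nat_lit 88) (nat_lit 105))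 (PT.lf (nat_lit 304) (nat_lit 6) (nat_lit 4) (nat_lit 3) (nat_lit 105) (nat_lit 89) (nat_lit 106))) (PT.nd (nat_lit 31122) (PT.lf (nat_lit 304) (nat_lit 6) (nat_lit 4) (nat_lit 1) (nat_lit 106) (nat_lit 89) (nat_lit 105)) (PT.lf (nat_lit 380) (nat_lit 6) (nat_lit 5) (nat_lit 3) (nat_lit 104) (nat_lit 90) (nat_lit 106))))) (PT.nd (nat_lit 62400) (PT.nd (nat_lit 31200) (PT.nd (nat_lit 78) (PT.lf (nat_lit 456) (nat_lit 3) (nat_lit 6) (nat_lit 1) (nat_lit 105) (nat_lit 90) (nat_lit 105)) (PT.lf (nat_lit 380) (nat_lit 6) (nat_lit 5) (nat_lit 1) (nat_lit 106) (nat_lit 90) (nat_lit 104))) (PT.nd (nat_lit 78) (PT.lf (nat_lit 532) (nat_lit 6) (nat_lit 7) (nat_lit 3) (nat_lit 104) (nat_lit 91) (nat_lit 105)) (PT.lf (nat_lit 532) (nat_lit 6) (nat_lit 7) (nat_lit 1) (nat_lit 105) (nat_lit 91) (nat_lit 104)))) (PT.nd (nat_lit 156) (PT.nd (nat_lit 78) (PT.lf (nat_lit 608) (nat_lit 6) (nat_lit 8) (nat_lit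 3) (nat_lit 103) (nat_lit 92) (nat_lit 105)) (PT.lf (nat_lit 684) (nat_lit 3) (nat_lit 9) (nat_lit 1) (nat_lit 104) (nat_lit 92) (nat_lit 104))) (PT.nd (nat_lit 31122) (PT.lf (nat_lit 608) (nat_lit 6) (nat_lit 8) (nat_lit 1) (nat_lit 105) (nat_lit 92) (nat_lit 103)) (PT.lf (nat_lit 760) (nat_lit 6) (nat_lit 10) (nat_lit 3) (nat_lit 103) (nat_lit 93) (nat_lit 104)))))) (PT.nd (nat_lit 93522) (PT.nd (nat_lit 62322) (PT.nd (nat_lit 31200) (PT.nd (nat_lit 31122) (PT.lf (nat_lit 760) (nat_lit 6) (nat_lit 10) (nat_lit 1) (nat_lit 104) (nat_lit 93) (nat_lit 103)) (PT.lf (nat_lit 836) (nat_lit 6) (nat_lit 11) (nat_lit 3) (nat_lit 102) (nat_lit 94) (nat_lit 104))) (PT.nd (nat_lit 78) (PT.lf (nat_lit 912) (nat_lit 3) (nat_lit 12) (nat_lit 1) (nat_lit 103) (nat_lit 94) (nat_lit 103)) (PT.lf (nat_lit 836) (nat_lit 6) (nat_lit 11) (nat_lit 1) (nat_lit 104) (nat_lit 94) (nat_lit 102)))) (PT.nd (nat_lit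 156) (PT.nd (nat_lit 78) (PT.lf (nat_lit 988) (nat_lit 6) (nat_lit 13) (nat_lit 3) (nat_lit 101) (nat_lit 95) (nat_lit 104)) (PT.lf (nat_lit 1064) (nat_lit 6) (nat_lit 14) (nat_lit 3) (nat_lit 102) (nat_lit 95) (nat_lit 103))) (PT.nd (nat_lit 78) (PT.lf (nat_lit 1064) (nat_lit 6) (nat_lit 14) (nat_lit 1) (nat_lit 103) (nat_lit 95) (nat_lit 102)) (PT.lf (nat_lit 988) (nat_lit 6) (nat_lit 13) (nat_lit 1) (nat_lit 104) (nat_lit 95) (nat_lit 101))))) (PT.nd (nat_lit 312) (PT.nd (nat_lit 156) (PT.nd (nat_lit 78) (PT.lf (nat_lit 1216) (nat_lit 6) (nat_lit 16) (nat_lit 3) (nat_lit 100) (nat_lit 96) (nat_lit 104)) (PT.lf (nat_lit 1292) (nat_lit 6) (nat_lit 17) (nat_lit 3) (nat_lit 101) (nat_lit 96) (nat_lit 103))) (PT.nd (nat_lit 78) (PT.lf (nat_lit 1368) (nat_lit 3) (nat_lit 18) (nat_lit 1) (nat_lit 102) (nat_lit 96) (nat_lit 102)) (PT.lf (nat_lit 1292) (nat_lit 6) (nat_lit 17) (nat_lit 1) (nat_lit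 103) (nat_lit 96) (nat_lit 101)))) (PT.nd (nat_lit 30966) (PT.nd (nat_lit 30888) (PT.lf (nat_lit 1216) (nat_lit 6) (nat_lit 16) (nat_lit 1) (nat_lit 104) (nat_lit 96) (nat_lit 100)) (PT.lf (nat_lit 1140) (nat_lit 6) (nat_lit 15) (nat_lit 3) (nat_lit 99) (nat_lit 97) (nat_lit 104))) (PT.nd (nat_lit 78) (PT.lf (nat_lit 1520) (nat_lit 6) (nat_lit 20) (nat_lit 3) (nat_lit 100) (nat_lit 97) (nat_lit 103)) (PT.lf (nat_lit 1596) (nat_lit 6) (nat_lit 21) (nat_lit 3) (nat_lit 101) (nat_lit 97) (nat_lit 102)))))))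
noncomputable def pc1 : PT := (PT.nd (nat_lit 93366) (PT.nd (nat_lit 62166) (PT.nd (nat_lit 31122) (PT.nd (nat_lit 156) (PT.nd (nat_lit 78) (PT.lf (nat_lit 1596) (nat_lit 6) (nat_lit 21) (nat_lit 1) (nat_lit 102) (nat_lit 97) (nat_lit 101)) (PT.lf (nat_lit 1520) (nat_lit 6) (nat_lit 20) (nat_lit 1) (nat_lit 103) (nat_lit 97) (nat_lit 100))) (PT.nd (nat_lit 30888) (PT.lf (nat_lit 1140) (nat_lit 6) (nat_lit 15) (nat_lit 1) (nat_lit 104) (nat_lit 97) (nat_lit 99)) (PT.lf (nat_lit 1444) (nat_lit 6) (nat_lit 19) (nat_lit 3) (nat_lit 99) (nat_lit 98) (nat_lit 103)))) (PT.nd (nat_lit 156) (PT.nd (nat_lit 78) (PT.lf (nat_lit 1748) (nat_lit 6) (nat_lit 23) (nat_lit 3) (nat_lit 100) (nat_lit 98) (nat_lit 102)) (PT.lf (nat_lit 1824) (nat_lit 3) (nat_lit 24) (nat_lit 1) (nat_lit 101) (nat_lit 98) (nat_lit 101))) (PT.nd (nat_lit 78) (PT.lf (nat_lit 1748) (nat_lit 6) (nat_lit 23) (nat_lit 1) (nat_lit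 102) (nat_lit 98) (nat_lit 100)) (PT.lf (nat_lit 1444) (nat_lit 6) (nat_lit 19) (nat_lit 1) (nat_lit 103) (nat_lit 98) (nat_lit 99))))) (PT.nd (nat_lit 312) (PT.nd (nat_lit 156) (PT.nd (nat_lit 78) (PT.lf (nat_lit 1140) (nat_lit 6) (nat_lit 15) (nat_lit 5) (nat_lit 97) (nat_lit 99) (nat_lit 104)) (PT.lf (nat_lit 1444) (nat_lit 6) (nat_lit 19) (nat_lit 5) (nat_lit 98) (nat_lit 99) (nat_lit 103))) (PT.nd (nat_lit 78) (PT.lf (nat_lit 1672) (nat_lit 3) (nat_lit 22) (nat_lit 3) (nat_lit 99) (nat_lit 99) (nat_lit 102)) (PT.lf (nat_lit 1900) (nat_lit 6) (nat_lit 25) (nat_lit 3) (nat_lit 100) (nat_lit 99) (nat_lit 101)))) (PT.nd (nat_lit 156) (PT.nd (nat_lit 78) (PT.lf (nat_lit 1900) (nat_lit 6) (nat_lit 25) (nat_lit 1) (nat_lit 101) (nat_lit 99) (nat_lit 100)) (PT.lf (nat_lit 1672) (nat_lit 3) (nat_lit 22) (nat_lit 0) (nat_lit 102) (nat_lit 99) (nat_lit 99))) (PT.nd (nat_lit 78) (PT.lf (nat_lit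 1444) (nat_lit 6) (nat_lit 19) (nat_lit 0) (nat_lit 103) (nat_lit 99) (nat_lit 98)) (PT.lf (nat_lit 1140) (nat_lit 6) (nat_lit 15) (nat_lit 0) (nat_lit 104) (nat_lit 99) (nat_lit 97)))))) (PT.nd (nat_lit 624) (PT.nd (nat_lit 312) (PT.nd (nat_lit 156) (PT.nd (nat_lit 78) (PT.lf (nat_lit 1216) (nat_lit 6) (nat_lit 16) (nat_lit 5) (nat_lit 96) (nat_lit 100) (nat_lit 104)) (PT.lf (nat_lit 1520) (nat_lit 6) (nat_lit 20) (nat_lit 5) (nat_lit 97) (nat_lit 100) (nat_lit 103))) (PT.nd (nat_lit 78) (PT.lf (nat_lit 1748) (nat_lit 6) (nat_lit 23) (nat_lit 5) (nat_lit 98) (nat_lit 100) (nat_lit 102)) (PT.lf (nat_lit 1900) (nat_lit 6) (nat_lit 25) (nat_lit 5) (nat_lit 99) (nat_lit 100) (nat_lit 101)))) (PT.nd (nat_lit 156) (PT.nd (nat_lit 78) (PT.lf (nat_lit 1976) (nat_lit 1) (nat_lit 26) (nat_lit 0) (nat_lit 100) (nat_lit 100) (nat_lit 100)) (PT.lf (nat_lit 1900) (nat_lit 6) (nat_lit 25) (nat_lit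 0) (nat_lit 101) (nat_lit 100) (nat_lit 99))) (PT.nd (nat_lit 78) (PT.lf (nat_lit 1748) (nat_lit 6) (nat_lit 23) (nat_lit 0) (nat_lit 102) (nat_lit 100) (nat_lit 98)) (PT.lf (nat_lit 1520) (nat_lit 6) (nat_lit 20) (nat_lit 0) (nat_lit 103) (nat_lit 100) (nat_lit 97))))) (PT.nd (nat_lit 30810) (PT.nd (nat_lit 30654) (PT.nd (nat_lit 30576) (PT.lf (nat_lit 1216) (nat_lit 6) (nat_lit 16) (nat_lit 0) (nat_lit 104) (nat_lit 100) (nat_lit 96)) (PT.lf (nat_lit 988) (nat_lit 6) (nat_lit 13) (nat_lit 5) (nat_lit 95) (nat_lit 101) (nat_lit 104))) (PT.nd (nat_lit 78) (PT.lf (nat_lit 1292) (nat_lit 6) (nat_lit 17) (nat_lit 5) (nat_lit 96) (nat_lit 101) (nat_lit 103)) (PT.lf (nat_lit 1596) (nat_lit 6) (nat_lit 21) (nat_lit 5) (nat_lit 97) (nat_lit 101) (nat_lit 102)))) (PT.nd (nat_lit 156) (PT.nd (nat_lit 78) (PT.lf (nat_lit 1824) (nat_lit 3) (nat_lit 24) (nat_lit 4) (nat_lit 98) (nat_lit 101) (nat_lit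 101)) (PT.lf (nat_lit 1900) (nat_lit 6) (nat_lit 25) (nat_lit 4) (nat_lit 99) (nat_lit 101) (nat_lit 100))) (PT.nd (nat_lit 78) (PT.lf (nat_lit 1900) (nat_lit 6) (nat_lit 25) (nat_lit 2) (nat_lit 100) (nat_lit 101) (nat_lit 99)) (PT.nd (nat_lit 78) (PT.lf (nat_lit 1824) (nat_lit 3) (nat_lit 24) (nat_lit 0) (nat_lit 101) (nat_lit 101) (nat_lit 98)) (PT.lf (nat_lit 1596) (nat_lit 6) (nat_lit 21) (nat_lit 0) (nat_lit 102) (nat_lit 101) (nat_lit 97))))))))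
noncomputable def pc2 : PT := (PT.nd (nat_lit 61932) (PT.nd (nat_lit 31044) (PT.nd (nat_lit 30732) (PT.nd (nat_lit 30576) (PT.nd (nat_lit 78) (PT.lf (nat_lit 1292) (nat_lit 6) (nat_lit 17) (nat_lit 0) (nat_lit 103) (nat_lit 101) (nat_lit 96)) (PT.lf (nat_lit 988) (nat_lit 6) (nat_lit 13) (nat_lit 0) (nat_lit 104) (nat_lit 101) (nat_lit 95))) (PT.nd (nat_lit 78) (PT.lf (nat_lit 836) (nat_lit 6) (nat_lit 11) (nat_lit 5) (nat_lit 94) (nat_lit 102) (nat_lit 104)) (PT.lf (nat_lit 1064) (nat_lit 6) (nat_lit 14) (nat_lit 5) (nat_lit 95) (nat_lit 102) (nat_lit 103)))) (PT.nd (nat_lit 156) (PT.nd (nat_lit 78) (PT.lf (nat_lit 1368) (nat_lit 3) (nat_lit 18) (nat_lit 4) (nat_lit 96) (nat_lit 102) (nat_lit 102)) (PT.lf (nat_lit 1596) (nat_lit 6) (nat_lit 21) (nat_lit 4) (nat_lit 97) (nat_lit 102) (nat_lit 101))) (PT.nd (nat_lit 78) (PT.lf (nat_lit 1748) (nat_lit 6) (nat_lit 23) (nat_lit 4) (nat_lit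 98) (nat_lit 102) (nat_lit 100)) (PT.lf (nat_lit 1672) (nat_lit 3) (nat_lit 22) (nat_lit 2) (nat_lit 99) (nat_lit 102) (nat_lit 99))))) (PT.nd (nat_lit 312) (PT.nd (nat_lit 156) (PT.nd (nat_lit 78) (PT.lf (nat_lit 1748) (nat_lit 6) (nat_lit 23) (nat_lit 2) (nat_lit 100) (nat_lit 102) (nat_lit 98)) (PT.lf (nat_lit 1596) (nat_lit 6) (nat_lit 21) (nat_lit 2) (nat_lit 101) (nat_lit 102) (nat_lit 97))) (PT.nd (nat_lit 78) (PT.lf (nat_lit 1368) (nat_lit 3) (nat_lit 18) (nat_lit 0) (nat_lit 102) (nat_lit 102) (nat_lit 96)) (PT.lf (nat_lit 1064) (nat_lit 6) (nat_lit 14) (nat_lit 0) (nat_lit 103) (nat_lit 102) (nat_lit 95)))) (PT.nd (nat_lit 30420) (PT.nd (nat_lit 30342) (PT.lf (nat_lit 836) (nat_lit 6) (nat_lit 11) (nat_lit 0) (nat_lit 104) (nat_lit 102) (nat_lit 94)) (PT.lf (nat_lit 608) (nat_lit 6) (nat_lit 8) (nat_lit 5) (nat_lit 92) (nat_lit 103) (nat_lit 105))) (PT.nd (nat_lit 78) (PT.lf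 (nat_lit 760) (nat_lit 6) (nat_lit 10) (nat_lit 5) (nat_lit 93) (nat_lit 103) (nat_lit 104)) (PT.lf (nat_lit 912) (nat_lit 3) (nat_lit 12) (nat_lit 4) (nat_lit 94) (nat_lit 103) (nat_lit 103)))))) (PT.nd (nat_lit 624) (PT.nd (nat_lit 312) (PT.nd (nat_lit 156) (PT.nd (nat_lit 78) (PT.lf (nat_lit 1064) (nat_lit 6) (nat_lit 14) (nat_lit 4) (nat_lit 95) (nat_lit 103) (nat_lit 102)) (PT.lf (nat_lit 1292) (nat_lit 6) (nat_lit 17) (nat_lit 4) (nat_lit 96) (nat_lit 103) (nat_lit 101))) (PT.nd (nat_lit 78) (PT.lf (nat_lit 1520) (nat_lit 6) (nat_lit 20) (nat_lit 4) (nat_lit 97) (nat_lit 103) (nat_lit 100)) (PT.lf (nat_lit 1444) (nat_lit 6) (nat_lit 19) (nat_lit 4) (nat_lit 98) (nat_lit 103) (nat_lit 99)))) (PT.nd (nat_lit 156) (PT.nd (nat_lit 78) (PT.lf (nat_lit 1444) (nat_lit 6) (nat_lit 19) (nat_lit 2) (nat_lit 99) (nat_lit 103) (nat_lit 98)) (PT.lf (nat_lit 1520) (nat_lit 6) (nat_lit 20) (nat_lit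 2) (nat_lit 100) (nat_lit 103) (nat_lit 97))) (PT.nd (nat_lit 78) (PT.lf (nat_lit 1292) (nat_lit 6) (nat_lit 17) (nat_lit 2) (nat_lit 101) (nat_lit 103) (nat_lit 96)) (PT.lf (nat_lit 1064) (nat_lit 6) (nat_lit 14) (nat_lit 2) (nat_lit 102) (nat_lit 103) (nat_lit 95))))) (PT.nd (nat_lit 30342) (PT.nd (nat_lit 156) (PT.nd (nat_lit 78) (PT.lf (nat_lit 912) (nat_lit 3) (nat_lit 12) (nat_lit 0) (nat_lit 103) (nat_lit 103) (nat_lit 94)) (PT.lf (nat_lit 760) (nat_lit 6) (nat_lit 10) (nat_lit 0) (nat_lit 104) (nat_lit 103) (nat_lit 93))) (PT.nd (nat_lit 30108) (PT.lf (nat_lit 608) (nat_lit 6) (nat_lit 8) (nat_lit 0) (nat_lit 105) (nat_lit 103) (nat_lit 92)) (PT.lf (nat_lit 380) (nat_lit 6) (nat_lit 5) (nat_lit 5) (nat_lit 90) (nat_lit 104) (nat_lit 106)))) (PT.nd (nat_lit 156) (PT.nd (nat_lit 78) (PT.lf (nat_lit 532) (nat_lit 6) (nat_lit 7) (nat_lit 5) (nat_lit 91) (nat_lit 104) (nat_lit 105))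 (PT.lf (nat_lit 684) (nat_lit 3) (nat_lit 9) (nat_lit 4) (nat_lit 92) (nat_lit 104) (nat_lit 104))) (PT.nd (nat_lit 78) (PT.lf (nat_lit 760) (nat_lit 6) (nat_lit 10) (nat_lit 4) (nat_lit 93) (nat_lit 104) (nat_lit 103)) (PT.lf (nat_lit 836) (nat_lit 6) (nat_lit 11) (nat_lit 4) (nat_lit 94) (nat_lit 104) (nat_lit 102)))))))
noncomputable def pc3 : PT := (PT.nd (nat_lit 31902) (PT.nd (nat_lit 702) (PT.nd (nat_lit 390) (PT.nd (nat_lit 156) (PT.nd (nat_lit 78) (PT.lf (nat_lit 988) (nat_lit 6) (nat_lit 13) (nat_lit 4) (nat_lit 95) (nat_lit 104) (nat_lit 101)) (PT.lf (nat_lit 1216) (nat_lit 6) (nat_lit 16) (nat_lit 4) (nat_lit 96) (nat_lit 104) (nat_lit 100))) (PT.nd (nat_lit 156) (PT.lf (nat_lit 1140) (nat_lit 6) (nat_lit 15) (nat_lit 4) (nat_lit 97) (nat_lit 104) (nat_lit 99)) (PT.lf (nat_lit 1140) (nat_lit 6) (nat_lit 15) (nat_lit 2) (nat_lit 99) (nat_lit 104) (nat_lit 97)))) (PT.nd (nat_lit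 156) (PT.nd (nat_lit 78) (PT.lf (nat_lit 1216) (nat_lit 6) (nat_lit 16) (nat_lit 2) (nat_lit 100) (nat_lit 104) (nat_lit 96)) (PT.lf (nat_lit 988) (nat_lit 6) (nat_lit 13) (nat_lit 2) (nat_lit 101) (nat_lit 104) (nat_lit 95))) (PT.nd (nat_lit 78) (PT.lf (nat_lit 836) (nat_lit 6) (nat_lit 11) (nat_lit 2) (nat_lit 102) (nat_lit 104) (nat_lit 94)) (PT.lf (nat_lit 760) (nat_lit 6) (nat_lit 10) (nat_lit 2) (nat_lit 103) (nat_lit 104) (nat_lit 93))))) (PT.nd (nat_lit 30108) (PT.nd (nat_lit 156) (PT.nd (nat_lit 78) (PT.lf (nat_lit 684) (nat_lit 3) (nat_lit 9) (nat_lit 0) (nat_lit 104) (nat_lit 104) (nat_lit 92)) (PT.lf (nat_lit 532) (nat_lit 6) (nat_lit 7) (nat_lit 0) (nat_lit 105) (nat_lit 104) (nat_lit 91))) (PT.nd (nat_lit 29874) (PT.lf (nat_lit 380) (nat_lit 6) (nat_lit 5) (nat_lit 0) (nat_lit 106) (nat_lit 104) (nat_lit 90)) (PT.lf (nat_lit 152) (nat_lit 6) (nat_lit 2) (nat_lit 5) (nat_lit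 88) (nat_lit 105) (nat_lit 107)))) (PT.nd (nat_lit 156) (PT.nd (nat_lit 78) (PT.lf (nat_lit 304) (nat_lit 6) (nat_lit 4) (nat_lit 5) (nat_lit 89) (nat_lit 105) (nat_lit 106)) (PT.lf (nat_lit 456) (nat_lit 3) (nat_lit 6) (nat_lit 4) (nat_lit 90) (nat_lit 105) (nat_lit 105))) (PT.nd (nat_lit 78) (PT.lf (nat_lit 532) (nat_lit 6) (nat_lit 7) (nat_lit 4) (nat_lit 91) (nat_lit 105) (nat_lit 104)) (PT.lf (nat_lit 608) (nat_lit 6) (nat_lit 8) (nat_lit 4) (nat_lit 92) (nat_lit 105) (nat_lit 103)))))) (PT.nd (nat_lit 30264) (PT.nd (nat_lit 312) (PT.nd (nat_lit 156) (PT.nd (nat_lit 78) (PT.lf (nat_lit 608) (nat_lit 6) (nat_lit 8) (nat_lit 2) (nat_lit 103) (nat_lit 105) (nat_lit 92)) (PT.lf (nat_lit 532) (nat_lit 6) (nat_lit 7) (nat_lit 2) (nat_lit 104) (nat_lit 105) (nat_lit 91))) (PT.nd (nat_lit 78) (PT.lf (nat_lit 456) (nat_lit 3) (nat_lit 6) (nat_lit 0) (nat_lit 105) (nat_lit 105) (nat_lit 90))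 (PT.lf (nat_lit 304) (nat_lit 6) (nat_lit 4) (nat_lit 0) (nat_lit 106) (nat_lit 105) (nat_lit 89)))) (PT.nd (nat_lit 29796) (PT.nd (nat_lit 29718) (PT.lf (nat_lit 152) (nat_lit 6) (nat_lit 2) (nat_lit 0) (nat_lit 107) (nat_lit 105) (nat_lit 88)) (PT.lf (nat_lit 76) (nat_lit 6) (nat_lit 1) (nat_lit 5) (nat_lit 87) (nat_lit 106) (nat_lit 107))) (PT.nd (nat_lit 78) (PT.lf (nat_lit 228) (nat_lit 3) (nat_lit 3) (nat_lit 4) (nat_lit 88) (nat_lit 106) (nat_lit 106)) (PT.lf (nat_lit 304) (nat_lit 6) (nat_lit 4) (nat_lit 4) (nat_lit 89) (nat_lit 106) (nat_lit 105))))) (PT.nd (nat_lit 1326) (PT.nd (nat_lit 1170) (PT.nd (nat_lit 1092) (PT.lf (nat_lit 380) (nat_lit 6) (nat_lit 5) (nat_lit 4) (nat_lit 90) (nat_lit 106) (nat_lit 104)) (PT.lf (nat_lit 380) (nat_lit 6) (nat_lit 5) (nat_lit 2) (nat_lit 104) (nat_lit 106) (nat_lit 90))) (PT.nd (nat_lit 78) (PT.lf (nat_lit 304) (nat_lit 6) (nat_lit 4) (nat_lit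 2) (nat_lit 105) (nat_lit 106) (nat_lit 89)) (PT.lf (nat_lit 228) (nat_lit 3) (nat_lit 3) (nat_lit 0) (nat_lit 106) (nat_lit 106) (nat_lit 88)))) (PT.nd (nat_lit 29796) (PT.nd (nat_lit 29718) (PT.lf (nat_lit 76) (nat_lit 6) (nat_lit 1) (nat_lit 0) (nat_lit 107) (nat_lit 106) (nat_lit 87)) (PT.lf (nat_lit 76) (nat_lit 6) (nat_lit 1) (nat_lit 4) (nat_lit 87) (nat_lit 107) (nat_lit 106))) (PT.nd (nat_lit 1326) (PT.lf (nat_lit 152) (nat_lit 6) (nat_lit 2) (nat_lit 4) (nat_lit 88) (nat_lit 107) (nat_lit 105)) (PT.nd (nat_lit 78) (PT.lf (nat_lit 152) (nat_lit 6) (nat_lit 2) (nat_lit 2) (nat_lit 105) (nat_lit 107) (nat_lit 88)) (PT.lf (nat_lit 76) (nat_lit 6) (nat_lit 1) (nat_lit 2) (nat_lit 106) (nat_lit 107) (nat_lit 87))))))))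
noncomputable def xc0 : XT := (XT.nd (nat_lit 124800) (nat_lit 0) (nat_lit 0) (XT.nd (nat_lit 93444) (nat_lit 0) (nat_lit 0) (XT.nd (nat_lit 62322) (nat_lit 0) (nat_lit 0) (XT.nd (nat_lit 31200) (nat_lit 0) (nat_lit 0) (XT.nd (nat_lit 31122) (nat_lit 0) (nat_lit 0) (XT.lf (nat_lit 0) (nat_lit 591633179413) (nat_lit 152) (nat_lit 2627503760274) (nat_lit 0) (nat_lit 591633179413) (nat_lit 1) (nat_lit 5) (nat_lit 3) (nat_lit 4) (nat_lit 1) (nat_lit 4) (nat_lit 262) (nat_lit 169) (nat_lit 169)) (XT.lf (nat_lit 0) (nat_lit 446993437640) (nat_lit 152) (nat_lit 1987535821371) (nat_lit 0) (nat_lit 446993437640) (nat_lit 1) (nat_lit 5) (nat_lit 3) (nat_lit 4) (nat_lit 1) (nat_lit 4) (nat_lit 260) (nat_lit 170) (nat_lit 170))) (XT.nd (nat_lit 78) (nat_lit 0) (nat_lit 0) (XT.lf (nat_lit 0) (nat_lit 1028560342401) (nat_lit 152) (nat_lit 4570370315859) (nat_lit 0) (nat_lit 1028530065038) (nat_lit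 1) (nat_lit 5) (nat_lit 3) (nat_lit 4) (nat_lit 1) (nat_lit 4) (nat_lit 261) (nat_lit 170) (nat_lit 169)) (XT.nd (nat_lit 30966) (nat_lit 0) (nat_lit 0) (XT.lf (nat_lit 0) (nat_lit 1183276468016) (nat_lit 152) (nat_lit 5255045547160) (nat_lit 0) (nat_lit 1183219862512) (nat_lit 1) (nat_lit 5) (nat_lit 3) (nat_lit 4) (nat_lit 1) (nat_lit 4) (nat_lit 262) (nat_lit 170) (nat_lit 168)) (XT.lf (nat_lit 0) (nat_lit 337570076209) (nat_lit 152) (nat_lit 1503742940933) (nat_lit 0) (nat_lit 337570076209) (nat_lit 1) (nat_lit 5) (nat_lit 3) (nat_lit 4) (nat_lit 1) (nat_lit 4) (nat_lit 258) (nat_lit 171) (nat_lit 171))))) (XT.nd (nat_lit 156) (nat_lit 0) (nat_lit 0) (XT.nd (nat_lit 78) (nat_lit 0) (nat_lit 0) (XT.lf (nat_lit 0) (nat_lit 776957926483) (nat_lit 152) (nat_lit 3457502379858) (nat_lit 0) (nat_lit 776923107516) (nat_lit 1) (nat_lit 5) (nat_lit 3) (nat_lit 4) (nat_lit 1) (nat_lit 4) (nat_lit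 259) (nat_lit 171) (nat_lit 170)) (XT.lf (nat_lit 0) (nat_lit 893998500848) (nat_lit 152) (nat_lit 3975115373347) (nat_lit 0) (nat_lit 893933404518) (nat_lit 1) (nat_lit 5) (nat_lit 3) (nat_lit 4) (nat_lit 1) (nat_lit 4) (nat_lit 260) (nat_lit 171) (nat_lit 169))) (XT.nd (nat_lit 78) (nat_lit 0) (nat_lit 0) (XT.lf (nat_lit 0) (nat_lit 1028551799794) (nat_lit 152) (nat_lit 4570452073076) (nat_lit 0) (nat_lit 1028460375323) (nat_lit 1) (nat_lit 5) (nat_lit 3) (nat_lit 4) (nat_lit 1) (nat_lit 4) (nat_lit 261) (nat_lit 171) (nat_lit 168)) (XT.nd (nat_lit 30810) (nat_lit 0) (nat_lit 0) (XT.lf (nat_lit 0) (nat_lit 1183250387867) (nat_lit 152) (nat_lit 5255160370997) (nat_lit 0) (nat_lit 1183136069360) (nat_lit 1) (nat_lit 5) (nat_lit 3) (nat_lit 4) (nat_lit 1) (nat_lit 4) (nat_lit 262) (nat_lit 171) (nat_lit 167)) (XT.lf (nat_lit 0) (nat_lit 254767117260) (nat_lit 152) (nat_lit 1138058065519)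 (nat_lit 0) (nat_lit 254767117260) (nat_lit 1) (nat_lit 5) (nat_lit 3) (nat_lit 4) (nat_lit 1) (nat_lit 4) (nat_lit 256) (nat_lit 172) (nat_lit 172)))))) (XT.nd (nat_lit 390) (nat_lit 0) (nat_lit 0) (XT.nd (nat_lit 156) (nat_lit 0) (nat_lit 0) (XT.nd (nat_lit 78) (nat_lit 0) (nat_lit 0) (XT.lf (nat_lit 0) (nat_lit 586593133581) (nat_lit 152) (nat_lit 2616261208761) (nat_lit 0) (nat_lit 586553091769) (nat_lit 1) (nat_lit 5) (nat_lit 3) (nat_lit 4) (nat_lit 1) (nat_lit 4) (nat_lit 257) (nat_lit 172) (nat_lit 171)) (XT.lf (nat_lit 0) (nat_lit 675153521820) (nat_lit 152) (nat_lit 3007536172062) (nat_lit 0) (nat_lit 675078661041) (nat_lit 1) (nat_lit 5) (nat_lit 3) (nat_lit 4) (nat_lit 1) (nat_lit 4) (nat_lit 258) (nat_lit 172) (nat_lit 170))) (XT.nd (nat_lit 78) (nat_lit 0) (nat_lit 0) (XT.lf (nat_lit 0) (nat_lit 776948102485) (nat_lit 152) (nat_lit 3457596400657) (nat_lit 0) (nat_lit 776842964343)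 (nat_lit 1) (nat_lit 5) (nat_lit 3) (nat_lit 4) (nat_lit 1) (nat_lit 4) (nat_lit 259) (nat_lit 172) (nat_lit 169)) (XT.nd (nat_lit 78) (nat_lit 0) (nat_lit 0) (XT.lf (nat_lit 0) (nat_lit 893968508677) (nat_lit 152) (nat_lit 3975247420759) (nat_lit 0) (nat_lit 893837042394) (nat_lit 1) (nat_lit 5) (nat_lit 3) (nat_lit 4) (nat_lit 1) (nat_lit 4) (nat_lit 260) (nat_lit 172) (nat_lit 168)) (XT.lf (nat_lit 0) (nat_lit 1028504270081) (nat_lit 152) (nat_lit 4570617187107) (nat_lit 0) (nat_lit 1028349909762) (nat_lit 1) (nat_lit 5) (nat_lit 3) (nat_lit 4) (nat_lit 1) (nat_lit 4) (nat_lit 261) (nat_lit 172) (nat_lit 167))))) (XT.nd (nat_lit 30732) (nat_lit 0) (nat_lit 0) (XT.nd (nat_lit 30654) (nat_lit 0) (nat_lit 0) (XT.lf (nat_lit 0) (nat_lit 1183187608116) (nat_lit 152) (nat_lit 5255354238610) (nat_lit 0) (nat_lit 1183013339940) (nat_lit 1) (nat_lit 5) (nat_lit 3) (nat_lit 4) (nat_lit 1) (nat_lit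 4) (nat_lit 262) (nat_lit 172) (nat_lit 166)) (XT.lf (nat_lit 0) (nat_lit 192083530497) (nat_lit 152) (nat_lit 861699617271) (nat_lit 0) (nat_lit 192083530497) (nat_lit 1) (nat_lit 5) (nat_lit 3) (nat_lit 4) (nat_lit 1) (nat_lit 4) (nat_lit 254) (nat_lit 173) (nat_lit 173))) (XT.nd (nat_lit 78) (nat_lit 0) (nat_lit 0) (XT.lf (nat_lit 0) (nat_lit 442515198609) (nat_lit 152) (nat_lit 1980445926502) (nat_lit 0) (nat_lit 442469150526) (nat_lit 1) (nat_lit 5) (nat_lit 3) (nat_lit 4) (nat_lit 1) (nat_lit 4) (nat_lit 255) (nat_lit 173) (nat_lit 172)) (XT.nd (nat_lit 78) (nat_lit 0) (nat_lit 0) (XT.lf (nat_lit 0) (nat_lit 509549609333) (nat_lit 152) (nat_lit 2276173964762) (nat_lit 0) (nat_lit 509463519437) (nat_lit 1) (nat_lit 5) (nat_lit 3) (nat_lit 4) (nat_lit 1) (nat_lit 4) (nat_lit 256) (nat_lit 173) (nat_lit 171)) (XT.lf (nat_lit 0) (nat_lit 586581835984) (nat_lit 152) (nat_lit 2616369332680)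 (nat_lit 0) (nat_lit 586460927121) (nat_lit 1) (nat_lit 5) (nat_lit 3) (nat_lit 4) (nat_lit 1) (nat_lit 4) (nat_lit 257) (nat_lit 173) (nat_lit 170))))))) (XT.nd (nat_lit 31200) (nat_lit 0) (nat_lit 0) (XT.nd (nat_lit 30810) (nat_lit 0) (nat_lit 0) (XT.nd (nat_lit 156) (nat_lit 0) (nat_lit 0) (XT.nd (nat_lit 78) (nat_lit 0) (nat_lit 0) (XT.lf (nat_lit 0) (nat_lit 675119030823) (nat_lit 152) (nat_lit 3007688026586) (nat_lit 0) (nat_lit 674967844598) (nat_lit 1) (nat_lit 5) (nat_lit 3) (nat_lit 4) (nat_lit 1) (nat_lit 4) (nat_lit 258) (nat_lit 173) (nat_lit 169)) (XT.lf (nat_lit 0) (nat_lit 776893443315) (nat_lit 152) (nat_lit 3457786281793) (nat_lit 0) (nat_lit 776715928948) (nat_lit 1) (nat_lit 5) (nat_lit 3) (nat_lit 4) (nat_lit 1) (nat_lit 4) (nat_lit 259) (nat_lit 173) (nat_lit 168))) (XT.nd (nat_lit 78) (nat_lit 0) (nat_lit 0) (XT.lf (nat_lit 0) (nat_lit 893896311964) (nat_lit 152)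 (nat_lit 3975470368514) (nat_lit 0) (nat_lit 893695903561) (nat_lit 1) (nat_lit 5) (nat_lit 3) (nat_lit 4) (nat_lit 1) (nat_lit 4) (nat_lit 260) (nat_lit 173) (nat_lit 167)) (XT.nd (nat_lit 78) (nat_lit 0) (nat_lit 0) (XT.lf (nat_lit 0) (nat_lit 1028416823331) (nat_lit 152) (nat_lit 4570868888445) (nat_lit 0) (nat_lit 1028196507071) (nat_lit 1) (nat_lit 5) (nat_lit 3) (nat_lit 4) (nat_lit 1) (nat_lit 4) (nat_lit 261) (nat_lit 173) (nat_lit 166)) (XT.lf (nat_lit 0) (nat_lit 1183086900465) (nat_lit 152) (nat_lit 5255630943063) (nat_lit 0) (nat_lit 1182849273024) (nat_lit 1) (nat_lit 5) (nat_lit 3) (nat_lit 4) (nat_lit 1) (nat_lit 4) (nat_lit 262) (nat_lit 173) (nat_lit 165))))) (XT.nd (nat_lit 156) (nat_lit 0) (nat_lit 0) (XT.nd (nat_lit 78) (nat_lit 0) (nat_lit 0) (XT.lf (nat_lit 0) (nat_lit 144602181545) (nat_lit 152) (nat_lit 652907559427) (nat_lit 0) (nat_lit 144602181545) (nat_lit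 1) (nat_lit 5) (nat_lit 3) (nat_lit 4) (nat_lit 1) (nat_lit 4) (nat_lit 252) (nat_lit 174) (nat_lit 174)) (XT.lf (nat_lit 0) (nat_lit 333416557789) (nat_lit 152) (nat_lit 1500004714477) (nat_lit 0) (nat_lit 333363602493) (nat_lit 1) (nat_lit 5) (nat_lit 3) (nat_lit 4) (nat_lit 1) (nat_lit 4) (nat_lit 253) (nat_lit 174) (nat_lit 173))) (XT.nd (nat_lit 78) (nat_lit 0) (nat_lit 0) (XT.lf (nat_lit 0) (nat_lit 384184742030) (nat_lit 152) (nat_lit 1723465743326) (nat_lit 0) (nat_lit 384085738649) (nat_lit 1) (nat_lit 5) (nat_lit 3) (nat_lit 4) (nat_lit 1) (nat_lit 4) (nat_lit 254) (nat_lit 174) (nat_lit 172)) (XT.nd (nat_lit 78) (nat_lit 0) (nat_lit 0) (XT.lf (nat_lit 0) (nat_lit 442502206373) (nat_lit 152) (nat_lit 1980570269009) (nat_lit 0) (nat_lit 442363161180) (nat_lit 1) (nat_lit 5) (nat_lit 3) (nat_lit 4) (nat_lit 1) (nat_lit 4) (nat_lit 255) (nat_lit 174) (nat_lit 171)) (XT.lf (nat_lit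 0) (nat_lit 509509944686) (nat_lit 152) (nat_lit 2276348597464) (nat_lit 0) (nat_lit 509336080527) (nat_lit 1) (nat_lit 5) (nat_lit 3) (nat_lit 4) (nat_lit 1) (nat_lit 4) (nat_lit 256) (nat_lit 174) (nat_lit 170)))))) (XT.nd (nat_lit 390) (nat_lit 0) (nat_lit 0) (XT.nd (nat_lit 156) (nat_lit 0) (nat_lit 0) (XT.nd (nat_lit 78) (nat_lit 0) (nat_lit 0) (XT.lf (nat_lit 0) (nat_lit 586518977938) (nat_lit 152) (nat_lit 2616587695987) (nat_lit 0) (nat_lit 586314836416) (nat_lit 1) (nat_lit 5) (nat_lit 3) (nat_lit 4) (nat_lit 1) (nat_lit 4) (nat_lit 257) (nat_lit 174) (nat_lit 169)) (XT.lf (nat_lit 0) (nat_lit 675036004603) (nat_lit 152) (nat_lit 3007944416504) (nat_lit 0) (nat_lit 674805534940) (nat_lit 1) (nat_lit 5) (nat_lit 3) (nat_lit 4) (nat_lit 1) (nat_lit 4) (nat_lit 258) (nat_lit 174) (nat_lit 168))) (XT.nd (nat_lit 78) (nat_lit 0) (nat_lit 0) (XT.lf (nat_lit 0) (nat_lit 776792879552)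 (nat_lit 152) (nat_lit 3458075738332) (nat_lit 0) (nat_lit 776539515853) (nat_lit 1) (nat_lit 5) (nat_lit 3) (nat_lit 4) (nat_lit 1) (nat_lit 4) (nat_lit 259) (nat_lit 174) (nat_lit 167)) (XT.nd (nat_lit 78) (nat_lit 0) (nat_lit 0) (XT.lf (nat_lit 0) (nat_lit 893780498165) (nat_lit 152) (nat_lit 3975788578635) (nat_lit 0) (nat_lit 893507226608) (nat_lit 1) (nat_lit 5) (nat_lit 3) (nat_lit 4) (nat_lit 1) (nat_lit 4) (nat_lit 260) (nat_lit 174) (nat_lit 166)) (XT.lf (nat_lit 0) (nat_lit 1028287748630) (nat_lit 152) (nat_lit 4571212101680) (nat_lit 0) (nat_lit 1027997165893) (nat_lit 1) (nat_lit 5) (nat_lit 3) (nat_lit 4) (nat_lit 1) (nat_lit 4) (nat_lit 261) (nat_lit 174) (nat_lit 165))))) (XT.nd (nat_lit 30420) (nat_lit 0) (nat_lit 0) (XT.nd (nat_lit 30342) (nat_lit 0) (nat_lit 0) (XT.lf (nat_lit 0) (nat_lit 1182946294546) (nat_lit 152) (nat_lit 5255995898137) (nat_lit 0) (nat_lit 1182640658608)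 (nat_lit 1) (nat_lit 5) (nat_lit 3) (nat_lit 4) (nat_lit 1) (nat_lit 4) (nat_lit 262) (nat_lit 174) (nat_lit 164)) (XT.lf (nat_lit 0) (nat_lit 108603375676) (nat_lit 152) (nat_lit 495231594713) (nat_lit 0) (nat_lit 108603375676) (nat_lit 1) (nat_lit 5) (nat_lit 3) (nat_lit 4) (nat_lit 1) (nat_lit 4) (nat_lit 250) (nat_lit 175) (nat_lit 175))) (XT.nd (nat_lit 78) (nat_lit 0) (nat_lit 0) (XT.lf (nat_lit 0) (nat_lit 250744035324) (nat_lit 152) (nat_lit 1137097594805) (nat_lit 0) (nat_lit 250683136733) (nat_lit 1) (nat_lit 5) (nat_lit 3) (nat_lit 4) (nat_lit 1) (nat_lit 4) (nat_lit 251) (nat_lit 175) (nat_lit 174)) (XT.nd (nat_lit 78) (nat_lit 0) (nat_lit 0) (XT.lf (nat_lit 0) (nat_lit 289224696281) (nat_lit 152) (nat_lit 1305891603954) (nat_lit 0) (nat_lit 289110842393) (nat_lit 1) (nat_lit 5) (nat_lit 3) (nat_lit 4) (nat_lit 1) (nat_lit 4) (nat_lit 252) (nat_lit 175) (nat_lit 173)) (XT.lf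 (nat_lit 0) (nat_lit 333401616717) (nat_lit 152) (nat_lit 1500147708360) (nat_lit 0) (nat_lit 333241714746) (nat_lit 1) (nat_lit 5) (nat_lit 3) (nat_lit 4) (nat_lit 1) (nat_lit 4) (nat_lit 253) (nat_lit 175) (nat_lit 172))))))))
noncomputable def xc1 : XT := (XT.nd (nat_lit 31668) (nat_lit 0) (nat_lit 0) (XT.nd (nat_lit 30888) (nat_lit 0) (nat_lit 0) (XT.nd (nat_lit 390) (nat_lit 0) (nat_lit 0) (XT.nd (nat_lit 156) (nat_lit 0) (nat_lit 0) (XT.nd (nat_lit 78) (nat_lit 0) (nat_lit 0) (XT.lf (nat_lit 0) (nat_lit 384139127686) (nat_lit 152) (nat_lit 1723666570933) (nat_lit 0) (nat_lit 383939183903) (nat_lit 1) (nat_lit 5) (nat_lit 3) (nat_lit 4) (nat_lit 1) (nat_lit 4) (nat_lit 254) (nat_lit 175) (nat_lit 171)) (XT.lf (nat_lit 0) (nat_lit 442429919620) (nat_lit 152) (nat_lit 1980821386811) (nat_lit 0) (nat_lit 442195156869) (nat_lit 1) (nat_lit 5) (nat_lit 3) (nat_lit 4) (nat_lit 1) (nat_lit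 4) (nat_lit 255) (nat_lit 175) (nat_lit 170))) (XT.nd (nat_lit 78) (nat_lit 0) (nat_lit 0) (XT.lf (nat_lit 0) (nat_lit 509414464534) (nat_lit 152) (nat_lit 2276643445871) (nat_lit 0) (nat_lit 509149424421) (nat_lit 1) (nat_lit 5) (nat_lit 3) (nat_lit 4) (nat_lit 1) (nat_lit 4) (nat_lit 256) (nat_lit 175) (nat_lit 169)) (XT.nd (nat_lit 78) (nat_lit 0) (nat_lit 0) (XT.lf (nat_lit 0) (nat_lit 586403329611) (nat_lit 152) (nat_lit 2616920571006) (nat_lit 0) (nat_lit 586111961357) (nat_lit 1) (nat_lit 5) (nat_lit 3) (nat_lit 4) (nat_lit 1) (nat_lit 4) (nat_lit 257) (nat_lit 175) (nat_lit 168)) (XT.lf (nat_lit 0) (nat_lit 674902818734) (nat_lit 152) (nat_lit 3008310358143) (nat_lit 0) (nat_lit 674588556444) (nat_lit 1) (nat_lit 5) (nat_lit 3) (nat_lit 4) (nat_lit 1) (nat_lit 4) (nat_lit 258) (nat_lit 175) (nat_lit 167))))) (XT.nd (nat_lit 156) (nat_lit 0) (nat_lit 0) (XT.nd (nat_lit 78) (nat_lit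 0) (nat_lit 0) (XT.lf (nat_lit 0) (nat_lit 776644443646) (nat_lit 152) (nat_lit 3458470433552) (nat_lit 0) (nat_lit 776310273499) (nat_lit 1) (nat_lit 5) (nat_lit 3) (nat_lit 4) (nat_lit 1) (nat_lit 4) (nat_lit 259) (nat_lit 175) (nat_lit 166)) (XT.lf (nat_lit 0) (nat_lit 893618801357) (nat_lit 152) (nat_lit 3976208276970) (nat_lit 0) (nat_lit 893267320029) (nat_lit 1) (nat_lit 5) (nat_lit 3) (nat_lit 4) (nat_lit 1) (nat_lit 4) (nat_lit 260) (nat_lit 175) (nat_lit 165))) (XT.nd (nat_lit 78) (nat_lit 0) (nat_lit 0) (XT.lf (nat_lit 0) (nat_lit 1028114520604) (nat_lit 152) (nat_lit 4571653541855) (nat_lit 0) (nat_lit 1027747986076) (nat_lit 1) (nat_lit 5) (nat_lit 3) (nat_lit 4) (nat_lit 1) (nat_lit 4) (nat_lit 261) (nat_lit 175) (nat_lit 164)) (XT.nd (nat_lit 30186) (nat_lit 0) (nat_lit 0) (XT.lf (nat_lit 0) (nat_lit 1182763039373) (nat_lit 152) (nat_lit 5256456244259) (nat_lit 0) (nat_lit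 1182383415105) (nat_lit 1) (nat_lit 5) (nat_lit 3) (nat_lit 4) (nat_lit 1) (nat_lit 4) (nat_lit 262) (nat_lit 175) (nat_lit 163)) (XT.lf (nat_lit 0) (nat_lit 81272609360) (nat_lit 152) (nat_lit 376236864259) (nat_lit 0) (nat_lit 81272609360) (nat_lit 1) (nat_lit 5) (nat_lit 3) (nat_lit 4) (nat_lit 1) (nat_lit 4) (nat_lit 248) (nat_lit 176) (nat_lit 176)))))) (XT.nd (nat_lit 390) (nat_lit 0) (nat_lit 0) (XT.nd (nat_lit 156) (nat_lit 0) (nat_lit 0) (XT.nd (nat_lit 78) (nat_lit 0) (nat_lit 0) (XT.lf (nat_lit 0) (nat_lit 188026713490) (nat_lit 152) (nat_lit 863119453803) (nat_lit 0) (nat_lit 187956680110) (nat_lit 1) (nat_lit 5) (nat_lit 3) (nat_lit 4) (nat_lit 1) (nat_lit 4) (nat_lit 249) (nat_lit 176) (nat_lit 175)) (XT.lf (nat_lit 0) (nat_lit 217230134520) (nat_lit 152) (nat_lit 990551147292) (nat_lit 0) (nat_lit 217099202549) (nat_lit 1) (nat_lit 5) (nat_lit 3) (nat_lit 4) (nat_lit 1)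 (nat_lit 4) (nat_lit 250) (nat_lit 176) (nat_lit 174))) (XT.nd (nat_lit 78) (nat_lit 0) (nat_lit 0) (XT.lf (nat_lit 0) (nat_lit 250726853091) (nat_lit 152) (nat_lit 1137262037770) (nat_lit 0) (nat_lit 250542965825) (nat_lit 1) (nat_lit 5) (nat_lit 3) (nat_lit 4) (nat_lit 1) (nat_lit 4) (nat_lit 251) (nat_lit 176) (nat_lit 173)) (XT.nd (nat_lit 78) (nat_lit 0) (nat_lit 0) (XT.lf (nat_lit 0) (nat_lit 289172239786) (nat_lit 152) (nat_lit 1306122555703) (nat_lit 0) (nat_lit 288942304435) (nat_lit 1) (nat_lit 5) (nat_lit 3) (nat_lit 4) (nat_lit 1) (nat_lit 4) (nat_lit 252) (nat_lit 176) (nat_lit 172)) (XT.lf (nat_lit 0) (nat_lit 333318486951) (nat_lit 152) (nat_lit 1500436493832) (nat_lit 0) (nat_lit 333048509788) (nat_lit 1) (nat_lit 5) (nat_lit 3) (nat_lit 4) (nat_lit 1) (nat_lit 4) (nat_lit 253) (nat_lit 176) (nat_lit 171))))) (XT.nd (nat_lit 156) (nat_lit 0) (nat_lit 0) (XT.nd (nat_lit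 78) (nat_lit 0) (nat_lit 0) (XT.lf (nat_lit 0) (nat_lit 384029325510) (nat_lit 152) (nat_lit 1724005646600) (nat_lit 0) (nat_lit 383724529381) (nat_lit 1) (nat_lit 5) (nat_lit 3) (nat_lit 4) (nat_lit 1) (nat_lit 4) (nat_lit 254) (nat_lit 176) (nat_lit 170)) (XT.lf (nat_lit 0) (nat_lit 442296924044) (nat_lit 152) (nat_lit 1981204193083) (nat_lit 0) (nat_lit 441961850552) (nat_lit 1) (nat_lit 5) (nat_lit 3) (nat_lit 4) (nat_lit 1) (nat_lit 4) (nat_lit 255) (nat_lit 176) (nat_lit 169))) (XT.nd (nat_lit 78) (nat_lit 0) (nat_lit 0) (XT.lf (nat_lit 0) (nat_lit 509261300784) (nat_lit 152) (nat_lit 2277064278755) (nat_lit 0) (nat_lit 508899899151) (nat_lit 1) (nat_lit 5) (nat_lit 3) (nat_lit 4) (nat_lit 1) (nat_lit 4) (nat_lit 256) (nat_lit 176) (nat_lit 168)) (XT.nd (nat_lit 78) (nat_lit 0) (nat_lit 0) (XT.lf (nat_lit 0) (nat_lit 586232628319) (nat_lit 152) (nat_lit 2617374470509) (nat_lit 0)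 (nat_lit 585848332650) (nat_lit 1) (nat_lit 5) (nat_lit 3) (nat_lit 4) (nat_lit 1) (nat_lit 4) (nat_lit 257) (nat_lit 176) (nat_lit 167)) (XT.lf (nat_lit 0) (nat_lit 674716867406) (nat_lit 152) (nat_lit 3008793011229) (nat_lit 0) (nat_lit 674312663879) (nat_lit 1) (nat_lit 5) (nat_lit 3) (nat_lit 4) (nat_lit 1) (nat_lit 4) (nat_lit 258) (nat_lit 176) (nat_lit 166))))))) (XT.nd (nat_lit 30732) (nat_lit 0) (nat_lit 0) (XT.nd (nat_lit 30342) (nat_lit 0) (nat_lit 0) (XT.nd (nat_lit 156) (nat_lit 0) (nat_lit 0) (XT.nd (nat_lit 78) (nat_lit 0) (nat_lit 0) (XT.lf (nat_lit 0) (nat_lit 776445231416) (nat_lit 152) (nat_lit 3458978089753) (nat_lit 0) (nat_lit 776023716709) (nat_lit 1) (nat_lit 5) (nat_lit 3) (nat_lit 4) (nat_lit 1) (nat_lit 4) (nat_lit 259) (nat_lit 176) (nat_lit 165)) (XT.lf (nat_lit 0) (nat_lit 893408057908) (nat_lit 152) (nat_lit 3976737675010) (nat_lit 0) (nat_lit 892971490001)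 (nat_lit 1) (nat_lit 5) (nat_lit 3) (nat_lit 4) (nat_lit 1) (nat_lit 4) (nat_lit 260) (nat_lit 176) (nat_lit 164))) (XT.nd (nat_lit 78) (nat_lit 0) (nat_lit 0) (XT.lf (nat_lit 0) (nat_lit 1027893750008) (nat_lit 152) (nat_lit 4572201845842) (nat_lit 0) (nat_lit 1027444092361) (nat_lit 1) (nat_lit 5) (nat_lit 3) (nat_lit 4) (nat_lit 1) (nat_lit 4) (nat_lit 261) (nat_lit 176) (nat_lit 163)) (XT.nd (nat_lit 30030) (nat_lit 0) (nat_lit 0) (XT.lf (nat_lit 0) (nat_lit 1182533549519) (nat_lit 152) (nat_lit 5257020988200) (nat_lit 0) (nat_lit 1182072509490) (nat_lit 1) (nat_lit 5) (nat_lit 3) (nat_lit 4) (nat_lit 1) (nat_lit 4) (nat_lit 262) (nat_lit 176) (nat_lit 162)) (XT.lf (nat_lit 0) (nat_lit 60479551678) (nat_lit 152) (nat_lit 286525346894) (nat_lit 0) (nat_lit 60479551678) (nat_lit 1) (nat_lit 5) (nat_lit 3) (nat_lit 4) (nat_lit 1) (nat_lit 4) (nat_lit 246) (nat_lit 177) (nat_lit 177)))))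 (XT.nd (nat_lit 156) (nat_lit 0) (nat_lit 0) (XT.nd (nat_lit 78) (nat_lit 0) (nat_lit 0) (XT.lf (nat_lit 0) (nat_lit 140367637615) (nat_lit 152) (nat_lit 656449163767) (nat_lit 0) (nat_lit 140287099229) (nat_lit 1) (nat_lit 5) (nat_lit 3) (nat_lit 4) (nat_lit 1) (nat_lit 4) (nat_lit 247) (nat_lit 177) (nat_lit 176)) (XT.lf (nat_lit 0) (nat_lit 162572109365) (nat_lit 152) (nat_lit 752574880063) (nat_lit 0) (nat_lit 162421537599) (nat_lit 1) (nat_lit 5) (nat_lit 3) (nat_lit 4) (nat_lit 1) (nat_lit 4) (nat_lit 248) (nat_lit 177) (nat_lit 175))) (XT.nd (nat_lit 78) (nat_lit 0) (nat_lit 0) (XT.lf (nat_lit 0) (nat_lit 188006953922) (nat_lit 152) (nat_lit 863308563214) (nat_lit 0) (nat_lit 187795483565) (nat_lit 1) (nat_lit 5) (nat_lit 3) (nat_lit 4) (nat_lit 1) (nat_lit 4) (nat_lit 249) (nat_lit 177) (nat_lit 174)) (XT.nd (nat_lit 78) (nat_lit 0) (nat_lit 0) (XT.lf (nat_lit 0) (nat_lit 217169809551)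 (nat_lit 152) (nat_lit 990816741803) (nat_lit 0) (nat_lit 216905383897) (nat_lit 1) (nat_lit 5) (nat_lit 3) (nat_lit 4) (nat_lit 1) (nat_lit 4) (nat_lit 250) (nat_lit 177) (nat_lit 173)) (XT.lf (nat_lit 0) (nat_lit 250631253860) (nat_lit 152) (nat_lit 1137594141064) (nat_lit 0) (nat_lit 250320780123) (nat_lit 1) (nat_lit 5) (nat_lit 3) (nat_lit 4) (nat_lit 1) (nat_lit 4) (nat_lit 251) (nat_lit 177) (nat_lit 172)))))) (XT.nd (nat_lit 390) (nat_lit 0) (nat_lit 0) (XT.nd (nat_lit 156) (nat_lit 0) (nat_lit 0) (XT.nd (nat_lit 78) (nat_lit 0) (nat_lit 0) (XT.lf (nat_lit 0) (nat_lit 289045967284) (nat_lit 152) (nat_lit 1306512492720) (nat_lit 0) (nat_lit 288695451734) (nat_lit 1) (nat_lit 5) (nat_lit 3) (nat_lit 4) (nat_lit 1) (nat_lit 4) (nat_lit 252) (nat_lit 177) (nat_lit 171)) (XT.lf (nat_lit 0) (nat_lit 333165542039) (nat_lit 152) (nat_lit 1500876721045) (nat_lit 0) (nat_lit 332780207523)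 (nat_lit 1) (nat_lit 5) (nat_lit 3) (nat_lit 4) (nat_lit 1) (nat_lit 4) (nat_lit 253) (nat_lit 177) (nat_lit 170))) (XT.nd (nat_lit 78) (nat_lit 0) (nat_lit 0) (XT.lf (nat_lit 0) (nat_lit 383853187199) (nat_lit 152) (nat_lit 1724489604417) (nat_lit 0) (nat_lit 383437575320) (nat_lit 1) (nat_lit 5) (nat_lit 3) (nat_lit 4) (nat_lit 1) (nat_lit 4) (nat_lit 254) (nat_lit 177) (nat_lit 169)) (XT.nd (nat_lit 78) (nat_lit 0) (nat_lit 0) (XT.lf (nat_lit 0) (nat_lit 442100617559) (nat_lit 152) (nat_lit 1981726177512) (nat_lit 0) (nat_lit 441658677538) (nat_lit 1) (nat_lit 5) (nat_lit 3) (nat_lit 4) (nat_lit 1) (nat_lit 4) (nat_lit 255) (nat_lit 177) (nat_lit 168)) (XT.lf (nat_lit 0) (nat_lit 509047456756) (nat_lit 152) (nat_lit 2277619329804) (nat_lit 0) (nat_lit 508582622700) (nat_lit 1) (nat_lit 5) (nat_lit 3) (nat_lit 4) (nat_lit 1) (nat_lit 4) (nat_lit 256) (nat_lit 177) (nat_lit 167)))))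 (XT.nd (nat_lit 234) (nat_lit 0) (nat_lit 0) (XT.nd (nat_lit 78) (nat_lit 0) (nat_lit 0) (XT.lf (nat_lit 0) (nat_lit 586003534255) (nat_lit 152) (nat_lit 2617958275141) (nat_lit 0) (nat_lit 585518792341) (nat_lit 1) (nat_lit 5) (nat_lit 3) (nat_lit 4) (nat_lit 1) (nat_lit 4) (nat_lit 257) (nat_lit 177) (nat_lit 166)) (XT.nd (nat_lit 78) (nat_lit 0) (nat_lit 0) (XT.lf (nat_lit 0) (nat_lit 674474512439) (nat_lit 152) (nat_lit 3009401818975) (nat_lit 0) (nat_lit 673972459345) (nat_lit 1) (nat_lit 5) (nat_lit 3) (nat_lit 4) (nat_lit 1) (nat_lit 4) (nat_lit 258) (nat_lit 177) (nat_lit 165)) (XT.lf (nat_lit 0) (nat_lit 776191345231) (nat_lit 152) (nat_lit 3459608639338) (nat_lit 0) (nat_lit 775674238937) (nat_lit 1) (nat_lit 5) (nat_lit 3) (nat_lit 4) (nat_lit 1) (nat_lit 4) (nat_lit 259) (nat_lit 177) (nat_lit 164)))) (XT.nd (nat_lit 78) (nat_lit 0) (nat_lit 0) (XT.lf (nat_lit 0) (nat_lit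 893144144577) (nat_lit 152) (nat_lit 3977387130543) (nat_lit 0) (nat_lit 892613948543) (nat_lit 1) (nat_lit 5) (nat_lit 3) (nat_lit 4) (nat_lit 1) (nat_lit 4) (nat_lit 260) (nat_lit 177) (nat_lit 163)) (XT.nd (nat_lit 78) (nat_lit 0) (nat_lit 0) (XT.lf (nat_lit 0) (nat_lit 1027621117419) (nat_lit 152) (nat_lit 4572867741328) (nat_lit 0) (nat_lit 1027079539003) (nat_lit 1) (nat_lit 5) (nat_lit 3) (nat_lit 4) (nat_lit 1) (nat_lit 4) (nat_lit 261) (nat_lit 177) (nat_lit 162)) (XT.lf (nat_lit 0) (nat_lit 1182253334966) (nat_lit 152) (nat_lit 5257701179298) (nat_lit 0) (nat_lit 1181701858826) (nat_lit 1) (nat_lit 5) (nat_lit 3) (nat_lit 4) (nat_lit 1) (nat_lit 4) (nat_lit 262) (nat_lit 177) (nat_lit 161))))))))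
noncomputable def xc2 : XT := (XT.nd (nat_lit 31200) (nat_lit 0) (nat_lit 0) (XT.nd (nat_lit 780) (nat_lit 0) (nat_lit 0) (XT.nd (nat_lit 390) (nat_lit 0) (nat_lit 0) (XT.nd (nat_lit 156) (nat_lit 0) (nat_lit 0) (XT.nd (nat_lit 78) (nat_lit 0) (nat_lit 0) (XT.lf (nat_lit 0) (nat_lit 44610880206) (nat_lit 152) (nat_lit 218995984843) (nat_lit 0) (nat_lit 44610880206) (nat_lit 1) (nat_lit 5) (nat_lit 3) (nat_lit 4) (nat_lit 1) (nat_lit 4) (nat_lit 244) (nat_lit 178) (nat_lit 178)) (XT.lf (nat_lit 0) (nat_lit 104059393542) (nat_lit 152) (nat_lit 500747760935) (nat_lit 0) (nat_lit 103966774398) (nat_lit 1) (nat_lit 5) (nat_lit 3) (nat_lit 4) (nat_lit 1) (nat_lit 4) (nat_lit 245) (nat_lit 178) (nat_lit 177))) (XT.nd (nat_lit 78) (nat_lit 0) (nat_lit 0) (XT.lf (nat_lit 0) (nat_lit 120990027597) (nat_lit 152) (nat_lit 573167018066) (nat_lit 0) (nat_lit 120816870066) (nat_lit 1) (nat_lit 5) (nat_lit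 3) (nat_lit 4) (nat_lit 1) (nat_lit 4) (nat_lit 246) (nat_lit 178) (nat_lit 176)) (XT.nd (nat_lit 78) (nat_lit 0) (nat_lit 0) (XT.lf (nat_lit 0) (nat_lit 140344914112) (nat_lit 152) (nat_lit 656666639588) (nat_lit 0) (nat_lit 140101723202) (nat_lit 1) (nat_lit 5) (nat_lit 3) (nat_lit 4) (nat_lit 1) (nat_lit 4) (nat_lit 247) (nat_lit 178) (nat_lit 175)) (XT.lf (nat_lit 0) (nat_lit 162502735650) (nat_lit 152) (nat_lit 752880313750) (nat_lit 0) (nat_lit 162198646149) (nat_lit 1) (nat_lit 5) (nat_lit 3) (nat_lit 4) (nat_lit 1) (nat_lit 4) (nat_lit 248) (nat_lit 178) (nat_lit 174))))) (XT.nd (nat_lit 156) (nat_lit 0) (nat_lit 0) (XT.nd (nat_lit 78) (nat_lit 0) (nat_lit 0) (XT.lf (nat_lit 0) (nat_lit 187897014806) (nat_lit 152) (nat_lit 863690482001) (nat_lit 0) (nat_lit 187539970009) (nat_lit 1) (nat_lit 5) (nat_lit 3) (nat_lit 4) (nat_lit 1) (nat_lit 4) (nat_lit 249) (nat_lit 178) (nat_lit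 173)) (XT.lf (nat_lit 0) (nat_lit 217024596173) (nat_lit 152) (nat_lit 991265169373) (nat_lit 0) (nat_lit 216621503292) (nat_lit 1) (nat_lit 5) (nat_lit 3) (nat_lit 4) (nat_lit 1) (nat_lit 4) (nat_lit 250) (nat_lit 178) (nat_lit 172))) (XT.nd (nat_lit 78) (nat_lit 0) (nat_lit 0) (XT.lf (nat_lit 0) (nat_lit 250455367212) (nat_lit 152) (nat_lit 1138100402358) (nat_lit 0) (nat_lit 250012232518) (nat_lit 1) (nat_lit 5) (nat_lit 3) (nat_lit 4) (nat_lit 1) (nat_lit 4) (nat_lit 251) (nat_lit 178) (nat_lit 171)) (XT.nd (nat_lit 78) (nat_lit 0) (nat_lit 0) (XT.lf (nat_lit 0) (nat_lit 288843408225) (nat_lit 152) (nat_lit 1307069044210) (nat_lit 0) (nat_lit 288365454564) (nat_lit 1) (nat_lit 5) (nat_lit 3) (nat_lit 4) (nat_lit 1) (nat_lit 4) (nat_lit 252) (nat_lit 178) (nat_lit 170)) (XT.lf (nat_lit 0) (nat_lit 332939789581) (nat_lit 152) (nat_lit 1501477003139) (nat_lit 0) (nat_lit 332431558558)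 (nat_lit 1) (nat_lit 5) (nat_lit 3) (nat_lit 4) (nat_lit 1) (nat_lit 4) (nat_lit 253) (nat_lit 178) (nat_lit 169)))))) (XT.nd (nat_lit 390) (nat_lit 0) (nat_lit 0) (XT.nd (nat_lit 156) (nat_lit 0) (nat_lit 0) (XT.nd (nat_lit 78) (nat_lit 0) (nat_lit 0) (XT.lf (nat_lit 0) (nat_lit 383607266567) (nat_lit 152) (nat_lit 1725127913124) (nat_lit 0) (nat_lit 383072707402) (nat_lit 1) (nat_lit 5) (nat_lit 3) (nat_lit 4) (nat_lit 1) (nat_lit 4) (nat_lit 254) (nat_lit 178) (nat_lit 168)) (XT.lf (nat_lit 0) (nat_lit 441837159384) (nat_lit 152) (nat_lit 1982397552838) (nat_lit 0) (nat_lit 441279706184) (nat_lit 1) (nat_lit 5) (nat_lit 3) (nat_lit 4) (nat_lit 1) (nat_lit 4) (nat_lit 255) (nat_lit 178) (nat_lit 167))) (XT.nd (nat_lit 78) (nat_lit 0) (nat_lit 0) (XT.lf (nat_lit 0) (nat_lit 508768748545) (nat_lit 152) (nat_lit 2278319458712) (nat_lit 0) (nat_lit 508191387487) (nat_lit 1) (nat_lit 5)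 (nat_lit 3) (nat_lit 4) (nat_lit 1) (nat_lit 4) (nat_lit 256) (nat_lit 178) (nat_lit 166)) (XT.nd (nat_lit 78) (nat_lit 0) (nat_lit 0) (XT.lf (nat_lit 0) (nat_lit 585711565142) (nat_lit 152) (nat_lit 2618683407163) (nat_lit 0) (nat_lit 585116892904) (nat_lit 1) (nat_lit 5) (nat_lit 3) (nat_lit 4) (nat_lit 1) (nat_lit 4) (nat_lit 257) (nat_lit 178) (nat_lit 165)) (XT.lf (nat_lit 0) (nat_lit 674171012108) (nat_lit 152) (nat_lit 3010148692837) (nat_lit 0) (nat_lit 673561286669) (nat_lit 1) (nat_lit 5) (nat_lit 3) (nat_lit 4) (nat_lit 1) (nat_lit 4) (nat_lit 258) (nat_lit 178) (nat_lit 164))))) (XT.nd (nat_lit 156) (nat_lit 0) (nat_lit 0) (XT.nd (nat_lit 78) (nat_lit 0) (nat_lit 0) (XT.lf (nat_lit 0) (nat_lit 775877817753) (nat_lit 152) (nat_lit 3460374419147) (nat_lit 0) (nat_lit 775255002575) (nat_lit 1) (nat_lit 5) (nat_lit 3) (nat_lit 4) (nat_lit 1) (nat_lit 4) (nat_lit 259) (nat_lit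 178) (nat_lit 163)) (XT.lf (nat_lit 0) (nat_lit 892821897840) (nat_lit 152) (nat_lit 3978169350306) (nat_lit 0) (nat_lit 892187700280) (nat_lit 1) (nat_lit 5) (nat_lit 3) (nat_lit 4) (nat_lit 1) (nat_lit 4) (nat_lit 260) (nat_lit 178) (nat_lit 162))) (XT.nd (nat_lit 78) (nat_lit 0) (nat_lit 0) (XT.lf (nat_lit 0) (nat_lit 1027291288719) (nat_lit 152) (nat_lit 4573664256703) (nat_lit 0) (nat_lit 1026647193435) (nat_lit 1) (nat_lit 5) (nat_lit 3) (nat_lit 4) (nat_lit 1) (nat_lit 4) (nat_lit 261) (nat_lit 178) (nat_lit 161)) (XT.nd (nat_lit 29718) (nat_lit 0) (nat_lit 0) (XT.lf (nat_lit 0) (nat_lit 1181916913254) (nat_lit 152) (nat_lit 5258510125640) (nat_lit 0) (nat_lit 1181264211254) (nat_lit 1) (nat_lit 5) (nat_lit 3) (nat_lit 4) (nat_lit 1) (nat_lit 4) (nat_lit 262) (nat_lit 178) (nat_lit 160)) (XT.lf (nat_lit 0) (nat_lit 32443832295) (nat_lit 152) (nat_lit 168285334111) (nat_lit 0) (nat_lit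 32443832295) (nat_lit 1) (nat_lit 5) (nat_lit 3) (nat_lit 4) (nat_lit 1) (nat_lit 4) (nat_lit 242) (nat_lit 179) (nat_lit 179))))))) (XT.nd (nat_lit 780) (nat_lit 0) (nat_lit 0) (XT.nd (nat_lit 390) (nat_lit 0) (nat_lit 0) (XT.nd (nat_lit 156) (nat_lit 0) (nat_lit 0) (XT.nd (nat_lit 78) (nat_lit 0) (nat_lit 0) (XT.lf (nat_lit 0) (nat_lit 76293338706) (nat_lit 152) (nat_lit 383671813622) (nat_lit 0) (nat_lit 76186826690) (nat_lit 1) (nat_lit 5) (nat_lit 3) (nat_lit 4) (nat_lit 1) (nat_lit 4) (nat_lit 243) (nat_lit 179) (nat_lit 178)) (XT.lf (nat_lit 0) (nat_lit 89257323289) (nat_lit 152) (nat_lit 438125742604) (nat_lit 0) (nat_lit 89058192128) (nat_lit 1) (nat_lit 5) (nat_lit 3) (nat_lit 4) (nat_lit 1) (nat_lit 4) (nat_lit 244) (nat_lit 179) (nat_lit 177))) (XT.nd (nat_lit 78) (nat_lit 0) (nat_lit 0) (XT.lf (nat_lit 0) (nat_lit 104033261514) (nat_lit 152) (nat_lit 500997858130) (nat_lit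 0) (nat_lit 103753591967) (nat_lit 1) (nat_lit 5) (nat_lit 3) (nat_lit 4) (nat_lit 1) (nat_lit 4) (nat_lit 245) (nat_lit 179) (nat_lit 176)) (XT.nd (nat_lit 78) (nat_lit 0) (nat_lit 0) (XT.lf (nat_lit 0) (nat_lit 120910247825) (nat_lit 152) (nat_lit 573518266806) (nat_lit 0) (nat_lit 120560544899) (nat_lit 1) (nat_lit 5) (nat_lit 3) (nat_lit 4) (nat_lit 1) (nat_lit 4) (nat_lit 246) (nat_lit 179) (nat_lit 175)) (XT.lf (nat_lit 0) (nat_lit 140218484129) (nat_lit 152) (nat_lit 657105846194) (nat_lit 0) (nat_lit 139807882612) (nat_lit 1) (nat_lit 5) (nat_lit 3) (nat_lit 4) (nat_lit 1) (nat_lit 4) (nat_lit 247) (nat_lit 179) (nat_lit 174))))) (XT.nd (nat_lit 156) (nat_lit 0) (nat_lit 0) (XT.nd (nat_lit 78) (nat_lit 0) (nat_lit 0) (XT.lf (nat_lit 0) (nat_lit 162335740266) (nat_lit 152) (nat_lit 753396005456) (nat_lit 0) (nat_lit 161872183452) (nat_lit 1) (nat_lit 5) (nat_lit 3) (nat_lit 4)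 (nat_lit 1) (nat_lit 4) (nat_lit 248) (nat_lit 179) (nat_lit 173)) (XT.lf (nat_lit 0) (nat_lit 187694745160) (nat_lit 152) (nat_lit 864272682490) (nat_lit 0) (nat_lit 187185140263) (nat_lit 1) (nat_lit 5) (nat_lit 3) (nat_lit 4) (nat_lit 1) (nat_lit 4) (nat_lit 249) (nat_lit 179) (nat_lit 172))) (XT.nd (nat_lit 78) (nat_lit 0) (nat_lit 0) (XT.lf (nat_lit 0) (nat_lit 216791653256) (nat_lit 152) (nat_lit 991905203586) (nat_lit 0) (nat_lit 216242006546) (nat_lit 1) (nat_lit 5) (nat_lit 3) (nat_lit 4) (nat_lit 1) (nat_lit 4) (nat_lit 250) (nat_lit 179) (nat_lit 171)) (XT.nd (nat_lit 78) (nat_lit 0) (nat_lit 0) (XT.lf (nat_lit 0) (nat_lit 250195751885) (nat_lit 152) (nat_lit 1138790726766) (nat_lit 0) (nat_lit 249611286208) (nat_lit 1) (nat_lit 5) (nat_lit 3) (nat_lit 4) (nat_lit 1) (nat_lit 4) (nat_lit 251) (nat_lit 179) (nat_lit 170)) (XT.lf (nat_lit 0) (nat_lit 288560599498) (nat_lit 152)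 (nat_lit 1307803099222) (nat_lit 0) (nat_lit 287945856459) (nat_lit 1) (nat_lit 5) (nat_lit 3) (nat_lit 4) (nat_lit 1) (nat_lit 4) (nat_lit 252) (nat_lit 179) (nat_lit 169)))))) (XT.nd (nat_lit 390) (nat_lit 0) (nat_lit 0) (XT.nd (nat_lit 156) (nat_lit 0) (nat_lit 0) (XT.nd (nat_lit 78) (nat_lit 0) (nat_lit 0) (XT.lf (nat_lit 0) (nat_lit 332636812680) (nat_lit 152) (nat_lit 1502249084763) (nat_lit 0) (nat_lit 331995741500) (nat_lit 1) (nat_lit 5) (nat_lit 3) (nat_lit 4) (nat_lit 1) (nat_lit 4) (nat_lit 253) (nat_lit 179) (nat_lit 168)) (XT.lf (nat_lit 0) (nat_lit 383286752124) (nat_lit 152) (nat_lit 1725933061368) (nat_lit 0) (nat_lit 382622786907) (nat_lit 1) (nat_lit 5) (nat_lit 3) (nat_lit 4) (nat_lit 1) (nat_lit 4) (nat_lit 254) (nat_lit 179) (nat_lit 167))) (XT.nd (nat_lit 78) (nat_lit 0) (nat_lit 0) (XT.lf (nat_lit 0) (nat_lit 441501394905) (nat_lit 152) (nat_lit 1983231454665)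 (nat_lit 0) (nat_lit 440817521831) (nat_lit 1) (nat_lit 5) (nat_lit 3) (nat_lit 4) (nat_lit 1) (nat_lit 4) (nat_lit 255) (nat_lit 179) (nat_lit 166)) (XT.nd (nat_lit 78) (nat_lit 0) (nat_lit 0) (XT.lf (nat_lit 0) (nat_lit 508419723164) (nat_lit 152) (nat_lit 2279178363653) (nat_lit 0) (nat_lit 507718538910) (nat_lit 1) (nat_lit 5) (nat_lit 3) (nat_lit 4) (nat_lit 1) (nat_lit 4) (nat_lit 256) (nat_lit 179) (nat_lit 165)) (XT.lf (nat_lit 0) (nat_lit 585351008542) (nat_lit 152) (nat_lit 2619564053944) (nat_lit 0) (nat_lit 584634771087) (nat_lit 1) (nat_lit 5) (nat_lit 3) (nat_lit 4) (nat_lit 1) (nat_lit 4) (nat_lit 257) (nat_lit 179) (nat_lit 164))))) (XT.nd (nat_lit 156) (nat_lit 0) (nat_lit 0) (XT.nd (nat_lit 78) (nat_lit 0) (nat_lit 0) (XT.lf (nat_lit 0) (nat_lit 673800428361) (nat_lit 152) (nat_lit 3011048245564) (nat_lit 0) (nat_lit 673071101167) (nat_lit 1) (nat_lit 5) (nat_lit 3)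 (nat_lit 4) (nat_lit 1) (nat_lit 4) (nat_lit 258) (nat_lit 179) (nat_lit 163)) (XT.lf (nat_lit 0) (nat_lit 775498514748) (nat_lit 152) (nat_lit 3461290411829) (nat_lit 0) (nat_lit 774757805172) (nat_lit 1) (nat_lit 5) (nat_lit 3) (nat_lit 4) (nat_lit 1) (nat_lit 4) (nat_lit 259) (nat_lit 179) (nat_lit 162))) (XT.nd (nat_lit 78) (nat_lit 0) (nat_lit 0) (XT.lf (nat_lit 0) (nat_lit 892435012872) (nat_lit 152) (nat_lit 3979099638599) (nat_lit 0) (nat_lit 891684405572) (nat_lit 1) (nat_lit 5) (nat_lit 3) (nat_lit 4) (nat_lit 1) (nat_lit 4) (nat_lit 260) (nat_lit 179) (nat_lit 161)) (XT.nd (nat_lit 78) (nat_lit 0) (nat_lit 0) (XT.lf (nat_lit 0) (nat_lit 1026897810739) (nat_lit 152) (nat_lit 4574606975964) (nat_lit 0) (nat_lit 1026138596723) (nat_lit 1) (nat_lit 5) (nat_lit 3) (nat_lit 4) (nat_lit 1) (nat_lit 4) (nat_lit 261) (nat_lit 179) (nat_lit 160)) (XT.lf (nat_lit 0) (nat_lit 1181517702220)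 (nat_lit 152) (nat_lit 5259463654437) (nat_lit 0) (nat_lit 1180751004103) (nat_lit 1) (nat_lit 5) (nat_lit 3) (nat_lit 4) (nat_lit 1) (nat_lit 4) (nat_lit 262) (nat_lit 179) (nat_lit 159))))))))
noncomputable def xc3 : XT := (XT.nd (nat_lit 1560) (nat_lit 0) (nat_lit 0) (XT.nd (nat_lit 780) (nat_lit 0) (nat_lit 0) (XT.nd (nat_lit 390) (nat_lit 0) (nat_lit 0) (XT.nd (nat_lit 156) (nat_lit 0) (nat_lit 0) (XT.nd (nat_lit 78) (nat_lit 0) (nat_lit 0) (XT.lf (nat_lit 0) (nat_lit 23050535727) (nat_lit 152) (nat_lit 130344732748) (nat_lit 0) (nat_lit 23050535727) (nat_lit 1) (nat_lit 5) (nat_lit 3) (nat_lit 4) (nat_lit 1) (nat_lit 4) (nat_lit 240) (nat_lit 180) (nat_lit 180)) (XT.lf (nat_lit 0) (nat_lit 54939635264) (nat_lit 152) (nat_lit 295900762260) (nat_lit 0) (nat_lit 54817146446) (nat_lit 1) (nat_lit 5) (nat_lit 3) (nat_lit 4) (nat_lit 1) (nat_lit 4) (nat_lit 241) (nat_lit 180) (nat_lit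 179))) (XT.nd (nat_lit 78) (nat_lit 0) (nat_lit 0) (XT.lf (nat_lit 0) (nat_lit 64928561897) (nat_lit 152) (nat_lit 336724507079) (nat_lit 0) (nat_lit 64699561062) (nat_lit 1) (nat_lit 5) (nat_lit 3) (nat_lit 4) (nat_lit 1) (nat_lit 4) (nat_lit 242) (nat_lit 180) (nat_lit 178)) (XT.nd (nat_lit 78) (nat_lit 0) (nat_lit 0) (XT.lf (nat_lit 0) (nat_lit 76263286873) (nat_lit 152) (nat_lit 383959425396) (nat_lit 0) (nat_lit 75941666894) (nat_lit 1) (nat_lit 5) (nat_lit 3) (nat_lit 4) (nat_lit 1) (nat_lit 4) (nat_lit 243) (nat_lit 180) (nat_lit 177)) (XT.lf (nat_lit 0) (nat_lit 89165576551) (nat_lit 152) (nat_lit 438529678656) (nat_lit 0) (nat_lit 88763418186) (nat_lit 1) (nat_lit 5) (nat_lit 3) (nat_lit 4) (nat_lit 1) (nat_lit 4) (nat_lit 244) (nat_lit 180) (nat_lit 176))))) (XT.nd (nat_lit 156) (nat_lit 0) (nat_lit 0) (XT.nd (nat_lit 78) (nat_lit 0) (nat_lit 0) (XT.lf (nat_lit 0) (nat_lit 103887867033)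 (nat_lit 152) (nat_lit 501502945726) (nat_lit 0) (nat_lit 103415675288) (nat_lit 1) (nat_lit 5) (nat_lit 3) (nat_lit 4) (nat_lit 1) (nat_lit 4) (nat_lit 245) (nat_lit 180) (nat_lit 175)) (XT.lf (nat_lit 0) (nat_lit 120718203134) (nat_lit 152) (nat_lit 574111312268) (nat_lit 0) (nat_lit 120185112798) (nat_lit 1) (nat_lit 5) (nat_lit 3) (nat_lit 4) (nat_lit 1) (nat_lit 4) (nat_lit 246) (nat_lit 180) (nat_lit 174))) (XT.nd (nat_lit 78) (nat_lit 0) (nat_lit 0) (XT.lf (nat_lit 0) (nat_lit 139985874036) (nat_lit 152) (nat_lit 657775376756) (nat_lit 0) (nat_lit 139399828404) (nat_lit 1) (nat_lit 5) (nat_lit 3) (nat_lit 4) (nat_lit 1) (nat_lit 4) (nat_lit 247) (nat_lit 180) (nat_lit 173)) (XT.nd (nat_lit 78) (nat_lit 0) (nat_lit 0) (XT.lf (nat_lit 0) (nat_lit 162067855911) (nat_lit 152) (nat_lit 754132044801) (nat_lit 0) (nat_lit 161435762195) (nat_lit 1) (nat_lit 5) (nat_lit 3) (nat_lit 4) (nat_lit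 1) (nat_lit 4) (nat_lit 248) (nat_lit 180) (nat_lit 172)) (XT.lf (nat_lit 0) (nat_lit 187396187534) (nat_lit 152) (nat_lit 865066555559) (nat_lit 0) (nat_lit 186724052006) (nat_lit 1) (nat_lit 5) (nat_lit 3) (nat_lit 4) (nat_lit 1) (nat_lit 4) (nat_lit 249) (nat_lit 180) (nat_lit 171)))))) (XT.nd (nat_lit 390) (nat_lit 0) (nat_lit 0) (XT.nd (nat_lit 156) (nat_lit 0) (nat_lit 0) (XT.nd (nat_lit 78) (nat_lit 0) (nat_lit 0) (XT.lf (nat_lit 0) (nat_lit 216466423220) (nat_lit 152) (nat_lit 992749366850) (nat_lit 0) (nat_lit 215759468725) (nat_lit 1) (nat_lit 5) (nat_lit 3) (nat_lit 4) (nat_lit 1) (nat_lit 4) (nat_lit 250) (nat_lit 180) (nat_lit 170)) (XT.lf (nat_lit 0) (nat_lit 249847328449) (nat_lit 152) (nat_lit 1139678620634) (nat_lit 0) (nat_lit 249110096591) (nat_lit 1) (nat_lit 5) (nat_lit 3) (nat_lit 4) (nat_lit 1) (nat_lit 4) (nat_lit 251) (nat_lit 180) (nat_lit 169))) (XT.nd (nat_lit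 78) (nat_lit 0) (nat_lit 0) (XT.lf (nat_lit 0) (nat_lit 288192007889) (nat_lit 152) (nat_lit 1308729019703) (nat_lit 0) (nat_lit 287428447890) (nat_lit 1) (nat_lit 5) (nat_lit 3) (nat_lit 4) (nat_lit 1) (nat_lit 4) (nat_lit 252) (nat_lit 180) (nat_lit 168)) (XT.nd (nat_lit 78) (nat_lit 0) (nat_lit 0) (XT.lf (nat_lit 0) (nat_lit 332250683529) (nat_lit 152) (nat_lit 1503208071864) (nat_lit 0) (nat_lit 331464229494) (nat_lit 1) (nat_lit 5) (nat_lit 3) (nat_lit 4) (nat_lit 1) (nat_lit 4) (nat_lit 253) (nat_lit 180) (nat_lit 167)) (XT.lf (nat_lit 0) (nat_lit 382885372935) (nat_lit 152) (nat_lit 1726920802050) (nat_lit 0) (nat_lit 382079011043) (nat_lit 1) (nat_lit 5) (nat_lit 3) (nat_lit 4) (nat_lit 1) (nat_lit 4) (nat_lit 254) (nat_lit 180) (nat_lit 166))))) (XT.nd (nat_lit 156) (nat_lit 0) (nat_lit 0) (XT.nd (nat_lit 78) (nat_lit 0) (nat_lit 0) (XT.lf (nat_lit 0) (nat_lit 441086754815) (nat_lit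 152) (nat_lit 1984244198462) (nat_lit 0) (nat_lit 440263081742) (nat_lit 1) (nat_lit 5) (nat_lit 3) (nat_lit 4) (nat_lit 1) (nat_lit 4) (nat_lit 255) (nat_lit 180) (nat_lit 165)) (XT.lf (nat_lit 0) (nat_lit 507993551855) (nat_lit 152) (nat_lit 2280212849290) (nat_lit 0) (nat_lit 507154825582) (nat_lit 1) (nat_lit 5) (nat_lit 3) (nat_lit 4) (nat_lit 1) (nat_lit 4) (nat_lit 256) (nat_lit 180) (nat_lit 164))) (XT.nd (nat_lit 78) (nat_lit 0) (nat_lit 0) (XT.lf (nat_lit 0) (nat_lit 584914810086) (nat_lit 152) (nat_lit 2620617445527) (nat_lit 0) (nat_lit 584062994074) (nat_lit 1) (nat_lit 5) (nat_lit 3) (nat_lit 4) (nat_lit 1) (nat_lit 4) (nat_lit 257) (nat_lit 180) (nat_lit 163)) (XT.nd (nat_lit 78) (nat_lit 0) (nat_lit 0) (XT.lf (nat_lit 0) (nat_lit 673355510647) (nat_lit 152) (nat_lit 3012118077102) (nat_lit 0) (nat_lit 672492312253) (nat_lit 1) (nat_lit 5) (nat_lit 3) (nat_lit 4) (nat_lit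 1) (nat_lit 4) (nat_lit 258) (nat_lit 180) (nat_lit 162)) (XT.lf (nat_lit 0) (nat_lit 775046015071) (nat_lit 152) (nat_lit 3462374538978) (nat_lit 0) (nat_lit 774172918953) (nat_lit 1) (nat_lit 5) (nat_lit 3) (nat_lit 4) (nat_lit 1) (nat_lit 4) (nat_lit 259) (nat_lit 180) (nat_lit 161))))))) (XT.nd (nat_lit 30108) (nat_lit 0) (nat_lit 0) (XT.nd (nat_lit 29718) (nat_lit 0) (nat_lit 0) (XT.nd (nat_lit 156) (nat_lit 0) (nat_lit 0) (XT.nd (nat_lit 78) (nat_lit 0) (nat_lit 0) (XT.lf (nat_lit 0) (nat_lit 891975920183) (nat_lit 152) (nat_lit 3980196196716) (nat_lit 0) (nat_lit 891094217348) (nat_lit 1) (nat_lit 5) (nat_lit 3) (nat_lit 4) (nat_lit 1) (nat_lit 4) (nat_lit 260) (nat_lit 180) (nat_lit 160)) (XT.lf (nat_lit 0) (nat_lit 1026432984996) (nat_lit 152) (nat_lit 4575714343617) (nat_lit 0) (nat_lit 1025543798061) (nat_lit 1) (nat_lit 5) (nat_lit 3) (nat_lit 4) (nat_lit 1) (nat_lit 4) (nat_lit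 261) (nat_lit 180) (nat_lit 159))) (XT.nd (nat_lit 29406) (nat_lit 0) (nat_lit 0) (XT.lf (nat_lit 0) (nat_lit 1181047891213) (nat_lit 152) (nat_lit 5260580421688) (nat_lit 0) (nat_lit 1180152196364) (nat_lit 1) (nat_lit 5) (nat_lit 3) (nat_lit 4) (nat_lit 1) (nat_lit 4) (nat_lit 262) (nat_lit 180) (nat_lit 158)) (XT.nd (nat_lit 78) (nat_lit 0) (nat_lit 0) (XT.lf (nat_lit 0) (nat_lit 15725604621) (nat_lit 152) (nat_lit 102120713752) (nat_lit 0) (nat_lit 15725604621) (nat_lit 1) (nat_lit 5) (nat_lit 3) (nat_lit 4) (nat_lit 1) (nat_lit 4) (nat_lit 238) (nat_lit 181) (nat_lit 181)) (XT.lf (nat_lit 0) (nat_lit 38380804185) (nat_lit 152) (nat_lit 230401700111) (nat_lit 0) (nat_lit 38239942044) (nat_lit 1) (nat_lit 5) (nat_lit 3) (nat_lit 4) (nat_lit 1) (nat_lit 4) (nat_lit 239) (nat_lit 181) (nat_lit 180))))) (XT.nd (nat_lit 156) (nat_lit 0) (nat_lit 0) (XT.nd (nat_lit 78) (nat_lit 0) (nat_lit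 0) (XT.lf (nat_lit 0) (nat_lit 46148103357) (nat_lit 152) (nat_lit 260866380180) (nat_lit 0) (nat_lit 45884752397) (nat_lit 1) (nat_lit 5) (nat_lit 3) (nat_lit 4) (nat_lit 1) (nat_lit 4) (nat_lit 240) (nat_lit 181) (nat_lit 179)) (XT.lf (nat_lit 0) (nat_lit 54905075656) (nat_lit 152) (nat_lit 296231515801) (nat_lit 0) (nat_lit 54535212680) (nat_lit 1) (nat_lit 5) (nat_lit 3) (nat_lit 4) (nat_lit 1) (nat_lit 4) (nat_lit 241) (nat_lit 181) (nat_lit 178))) (XT.nd (nat_lit 78) (nat_lit 0) (nat_lit 0) (XT.lf (nat_lit 0) (nat_lit 64823053149) (nat_lit 152) (nat_lit 337189033538) (nat_lit 0) (nat_lit 64360571029) (nat_lit 1) (nat_lit 5) (nat_lit 3) (nat_lit 4) (nat_lit 1) (nat_lit 4) (nat_lit 242) (nat_lit 181) (nat_lit 177)) (XT.nd (nat_lit 78) (nat_lit 0) (nat_lit 0) (XT.lf (nat_lit 0) (nat_lit 76096083221) (nat_lit 152) (nat_lit 384540276132) (nat_lit 0) (nat_lit 75553062714) (nat_lit 1)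 (nat_lit 5) (nat_lit 3) (nat_lit 4) (nat_lit 1) (nat_lit 4) (nat_lit 243) (nat_lit 181) (nat_lit 176)) (XT.lf (nat_lit 0) (nat_lit 88944725156) (nat_lit 152) (nat_lit 439211680937) (nat_lit 0) (nat_lit 88331671269) (nat_lit 1) (nat_lit 5) (nat_lit 3) (nat_lit 4) (nat_lit 1) (nat_lit 4) (nat_lit 244) (nat_lit 181) (nat_lit 175)))))) (XT.nd (nat_lit 390) (nat_lit 0) (nat_lit 0) (XT.nd (nat_lit 156) (nat_lit 0) (nat_lit 0) (XT.nd (nat_lit 78) (nat_lit 0) (nat_lit 0) (XT.lf (nat_lit 0) (nat_lit 103620365426) (nat_lit 152) (nat_lit 502272905873) (nat_lit 0) (nat_lit 102946412949) (nat_lit 1) (nat_lit 5) (nat_lit 3) (nat_lit 4) (nat_lit 1) (nat_lit 4) (nat_lit 245) (nat_lit 181) (nat_lit 174)) (XT.lf (nat_lit 0) (nat_lit 120410136125) (nat_lit 152) (nat_lit 574957757514) (nat_lit 0) (nat_lit 119683228352) (nat_lit 1) (nat_lit 5) (nat_lit 3) (nat_lit 4) (nat_lit 1) (nat_lit 4) (nat_lit 246)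 (nat_lit 181) (nat_lit 173))) (XT.nd (nat_lit 78) (nat_lit 0) (nat_lit 0) (XT.lf (nat_lit 0) (nat_lit 139642532766) (nat_lit 152) (nat_lit 658688330786) (nat_lit 0) (nat_lit 138869576909) (nat_lit 1) (nat_lit 5) (nat_lit 3) (nat_lit 4) (nat_lit 1) (nat_lit 4) (nat_lit 247) (nat_lit 181) (nat_lit 172)) (XT.nd (nat_lit 78) (nat_lit 0) (nat_lit 0) (XT.lf (nat_lit 0) (nat_lit 161693841370) (nat_lit 152) (nat_lit 755102832554) (nat_lit 0) (nat_lit 160880843701) (nat_lit 1) (nat_lit 5) (nat_lit 3) (nat_lit 4) (nat_lit 1) (nat_lit 4) (nat_lit 248) (nat_lit 181) (nat_lit 171)) (XT.lf (nat_lit 0) (nat_lit 186995500584) (nat_lit 152) (nat_lit 866087633508) (nat_lit 0) (nat_lit 186147683947) (nat_lit 1) (nat_lit 5) (nat_lit 3) (nat_lit 4) (nat_lit 1) (nat_lit 4) (nat_lit 249) (nat_lit 181) (nat_lit 170))))) (XT.nd (nat_lit 234) (nat_lit 0) (nat_lit 0) (XT.nd (nat_lit 78) (nat_lit 0) (nat_lit 0)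 (XT.lf (nat_lit 0) (nat_lit 216042542869) (nat_lit 152) (nat_lit 993814175403) (nat_lit 0) (nat_lit 215164448870) (nat_lit 1) (nat_lit 5) (nat_lit 3) (nat_lit 4) (nat_lit 1) (nat_lit 4) (nat_lit 250) (nat_lit 181) (nat_lit 169)) (XT.nd (nat_lit 78) (nat_lit 0) (nat_lit 0) (XT.lf (nat_lit 0) (nat_lit 249403279925) (nat_lit 152) (nat_lit 1140781455800) (nat_lit 0) (nat_lit 248498857784) (nat_lit 1) (nat_lit 5) (nat_lit 3) (nat_lit 4) (nat_lit 1) (nat_lit 4) (nat_lit 251) (nat_lit 181) (nat_lit 168)) (XT.lf (nat_lit 0) (nat_lit 287730421822) (nat_lit 152) (nat_lit 1309864921488) (nat_lit 0) (nat_lit 286803105646) (nat_lit 1) (nat_lit 5) (nat_lit 3) (nat_lit 4) (nat_lit 1) (nat_lit 4) (nat_lit 252) (nat_lit 181) (nat_lit 167)))) (XT.nd (nat_lit 78) (nat_lit 0) (nat_lit 0) (XT.lf (nat_lit 0) (nat_lit 331773847425) (nat_lit 152) (nat_lit 1504372727231) (nat_lit 0) (nat_lit 330826623391) (nat_lit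 1) (nat_lit 5) (nat_lit 3) (nat_lit 4) (nat_lit 1) (nat_lit 4) (nat_lit 253) (nat_lit 181) (nat_lit 166)) (XT.nd (nat_lit 78) (nat_lit 0) (nat_lit 0) (XT.lf (nat_lit 0) (nat_lit 382395275930) (nat_lit 152) (nat_lit 1728110460532) (nat_lit 0) (nat_lit 381430740716) (nat_lit 1) (nat_lit 5) (nat_lit 3) (nat_lit 4) (nat_lit 1) (nat_lit 4) (nat_lit 254) (nat_lit 181) (nat_lit 165)) (XT.lf (nat_lit 0) (nat_lit 440585126591) (nat_lit 152) (nat_lit 1985455598783) (nat_lit 0) (nat_lit 439605538176) (nat_lit 1) (nat_lit 5) (nat_lit 3) (nat_lit 4) (nat_lit 1) (nat_lit 4) (nat_lit 255) (nat_lit 181) (nat_lit 164))))))))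
noncomputable def xc4 : XT := (XT.nd (nat_lit 30732) (nat_lit 0) (nat_lit 0) (XT.nd (nat_lit 29952) (nat_lit 0) (nat_lit 0) (XT.nd (nat_lit 390) (nat_lit 0) (nat_lit 0) (XT.nd (nat_lit 156) (nat_lit 0) (nat_lit 0) (XT.nd (nat_lit 78) (nat_lit 0) (nat_lit 0) (XT.lf (nat_lit 0) (nat_lit 507481896484) (nat_lit 152) (nat_lit 2281443155558) (nat_lit 0) (nat_lit 506489218331) (nat_lit 1) (nat_lit 5) (nat_lit 3) (nat_lit 4) (nat_lit 1) (nat_lit 4) (nat_lit 256) (nat_lit 181) (nat_lit 163)) (XT.lf (nat_lit 0) (nat_lit 584394435458) (nat_lit 152) (nat_lit 2621864191749) (nat_lit 0) (nat_lit 583390374922) (nat_lit 1) (nat_lit 5) (nat_lit 3) (nat_lit 4) (nat_lit 1) (nat_lit 4) (nat_lit 257) (nat_lit 181) (nat_lit 162))) (XT.nd (nat_lit 78) (nat_lit 0) (nat_lit 0) (XT.lf (nat_lit 0) (nat_lit 672827554055) (nat_lit 152) (nat_lit 3013379118936) (nat_lit 0) (nat_lit 671813595796) (nat_lit 1) (nat_lit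 5) (nat_lit 3) (nat_lit 4) (nat_lit 1) (nat_lit 4) (nat_lit 258) (nat_lit 181) (nat_lit 161)) (XT.nd (nat_lit 78) (nat_lit 0) (nat_lit 0) (XT.lf (nat_lit 0) (nat_lit 774511465467) (nat_lit 152) (nat_lit 3463648011780) (nat_lit 0) (nat_lit 773488900491) (nat_lit 1) (nat_lit 5) (nat_lit 3) (nat_lit 4) (nat_lit 1) (nat_lit 4) (nat_lit 259) (nat_lit 181) (nat_lit 160)) (XT.lf (nat_lit 0) (nat_lit 891435637525) (nat_lit 152) (nat_lit 3981480479054) (nat_lit 0) (nat_lit 890405588448) (nat_lit 1) (nat_lit 5) (nat_lit 3) (nat_lit 4) (nat_lit 1) (nat_lit 4) (nat_lit 260) (nat_lit 181) (nat_lit 159))))) (XT.nd (nat_lit 29328) (nat_lit 0) (nat_lit 0) (XT.nd (nat_lit 78) (nat_lit 0) (nat_lit 0) (XT.lf (nat_lit 0) (nat_lit 1025887717074) (nat_lit 152) (nat_lit 4577008025552) (nat_lit 0) (nat_lit 1024851160084) (nat_lit 1) (nat_lit 5) (nat_lit 3) (nat_lit 4) (nat_lit 1) (nat_lit 4) (nat_lit 261) (nat_lit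 181) (nat_lit 158)) (XT.lf (nat_lit 0) (nat_lit 1180498288279) (nat_lit 152) (nat_lit 5261882277185) (nat_lit 0) (nat_lit 1179456072233) (nat_lit 1) (nat_lit 5) (nat_lit 3) (nat_lit 4) (nat_lit 1) (nat_lit 4) (nat_lit 262) (nat_lit 181) (nat_lit 157))) (XT.nd (nat_lit 78) (nat_lit 0) (nat_lit 0) (XT.lf (nat_lit 0) (nat_lit 9931317553) (nat_lit 152) (nat_lit 81313505951) (nat_lit 0) (nat_lit 9931317553) (nat_lit 1) (nat_lit 5) (nat_lit 3) (nat_lit 4) (nat_lit 1) (nat_lit 4) (nat_lit 236) (nat_lit 182) (nat_lit 182)) (XT.nd (nat_lit 78) (nat_lit 0) (nat_lit 0) (XT.lf (nat_lit 0) (nat_lit 25385730961) (nat_lit 152) (nat_lit 181873730941) (nat_lit 0) (nat_lit 25223739498) (nat_lit 1) (nat_lit 5) (nat_lit 3) (nat_lit 4) (nat_lit 1) (nat_lit 4) (nat_lit 237) (nat_lit 182) (nat_lit 181)) (XT.lf (nat_lit 0) (nat_lit 31505295931) (nat_lit 152) (nat_lit 204444879392) (nat_lit 0) (nat_lit 31202442328)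 (nat_lit 1) (nat_lit 5) (nat_lit 3) (nat_lit 4) (nat_lit 1) (nat_lit 4) (nat_lit 238) (nat_lit 182) (nat_lit 180)))))) (XT.nd (nat_lit 390) (nat_lit 0) (nat_lit 0) (XT.nd (nat_lit 156) (nat_lit 0) (nat_lit 0) (XT.nd (nat_lit 78) (nat_lit 0) (nat_lit 0) (XT.lf (nat_lit 0) (nat_lit 38341060636) (nat_lit 152) (nat_lit 230782066683) (nat_lit 0) (nat_lit 37915718214) (nat_lit 1) (nat_lit 5) (nat_lit 3) (nat_lit 4) (nat_lit 1) (nat_lit 4) (nat_lit 239) (nat_lit 182) (nat_lit 179)) (XT.lf (nat_lit 0) (nat_lit 46026768297) (nat_lit 152) (nat_lit 261400585608) (nat_lit 0) (nat_lit 45494913859) (nat_lit 1) (nat_lit 5) (nat_lit 3) (nat_lit 4) (nat_lit 1) (nat_lit 4) (nat_lit 240) (nat_lit 182) (nat_lit 178))) (XT.nd (nat_lit 78) (nat_lit 0) (nat_lit 0) (XT.lf (nat_lit 0) (nat_lit 54712791456) (nat_lit 152) (nat_lit 296899494147) (nat_lit 0) (nat_lit 54088317873) (nat_lit 1) (nat_lit 5) (nat_lit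 3) (nat_lit 4) (nat_lit 1) (nat_lit 4) (nat_lit 241) (nat_lit 182) (nat_lit 177)) (XT.nd (nat_lit 78) (nat_lit 0) (nat_lit 0) (XT.lf (nat_lit 0) (nat_lit 64569074044) (nat_lit 152) (nat_lit 337973336162) (nat_lit 0) (nat_lit 63864062075) (nat_lit 1) (nat_lit 5) (nat_lit 3) (nat_lit 4) (nat_lit 1) (nat_lit 4) (nat_lit 242) (nat_lit 182) (nat_lit 176)) (XT.lf (nat_lit 0) (nat_lit 75788456373) (nat_lit 152) (nat_lit 385425730300) (nat_lit 0) (nat_lit 75013411024) (nat_lit 1) (nat_lit 5) (nat_lit 3) (nat_lit 4) (nat_lit 1) (nat_lit 4) (nat_lit 243) (nat_lit 182) (nat_lit 175))))) (XT.nd (nat_lit 156) (nat_lit 0) (nat_lit 0) (XT.nd (nat_lit 78) (nat_lit 0) (nat_lit 0) (XT.lf (nat_lit 0) (nat_lit 88590448096) (nat_lit 152) (nat_lit 440185092970) (nat_lit 0) (nat_lit 87754504157) (nat_lit 1) (nat_lit 5) (nat_lit 3) (nat_lit 4) (nat_lit 1) (nat_lit 4) (nat_lit 244) (nat_lit 182) (nat_lit 174))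 (XT.lf (nat_lit 0) (nat_lit 103225522966) (nat_lit 152) (nat_lit 503322803007) (nat_lit 0) (nat_lit 102336623730) (nat_lit 1) (nat_lit 5) (nat_lit 3) (nat_lit 4) (nat_lit 1) (nat_lit 4) (nat_lit 245) (nat_lit 182) (nat_lit 173))) (XT.nd (nat_lit 78) (nat_lit 0) (nat_lit 0) (XT.lf (nat_lit 0) (nat_lit 119980019403) (nat_lit 152) (nat_lit 576074163431) (nat_lit 0) (nat_lit 119045072083) (nat_lit 1) (nat_lit 5) (nat_lit 3) (nat_lit 4) (nat_lit 1) (nat_lit 4) (nat_lit 246) (nat_lit 182) (nat_lit 172)) (XT.nd (nat_lit 78) (nat_lit 0) (nat_lit 0) (XT.lf (nat_lit 0) (nat_lit 139181742773) (nat_lit 152) (nat_lit 659862570426) (nat_lit 0) (nat_lit 138206753641) (nat_lit 1) (nat_lit 5) (nat_lit 3) (nat_lit 4) (nat_lit 1) (nat_lit 4) (nat_lit 247) (nat_lit 182) (nat_lit 171)) (XT.lf (nat_lit 0) (nat_lit 161206378967) (nat_lit 152) (nat_lit 756327362390) (nat_lit 0) (nat_lit 160196570868) (nat_lit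 1) (nat_lit 5) (nat_lit 3) (nat_lit 4) (nat_lit 1) (nat_lit 4) (nat_lit 248) (nat_lit 182) (nat_lit 170))))))) (XT.nd (nat_lit 780) (nat_lit 0) (nat_lit 0) (XT.nd (nat_lit 390) (nat_lit 0) (nat_lit 0) (XT.nd (nat_lit 156) (nat_lit 0) (nat_lit 0) (XT.nd (nat_lit 78) (nat_lit 0) (nat_lit 0) (XT.lf (nat_lit 0) (nat_lit 186484844780) (nat_lit 152) (nat_lit 867355893948) (nat_lit 0) (nat_lit 185444759319) (nat_lit 1) (nat_lit 5) (nat_lit 3) (nat_lit 4) (nat_lit 1) (nat_lit 4) (nat_lit 249) (nat_lit 182) (nat_lit 169)) (XT.lf (nat_lit 0) (nat_lit 215511718893) (nat_lit 152) (nat_lit 995120462456) (nat_lit 0) (nat_lit 214445305290) (nat_lit 1) (nat_lit 5) (nat_lit 3) (nat_lit 4) (nat_lit 1) (nat_lit 4) (nat_lit 250) (nat_lit 182) (nat_lit 168))) (XT.nd (nat_lit 78) (nat_lit 0) (nat_lit 0) (XT.lf (nat_lit 0) (nat_lit 248854918406) (nat_lit 152) (nat_lit 1142120809472) (nat_lit 0) (nat_lit 247765610767)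 (nat_lit 1) (nat_lit 5) (nat_lit 3) (nat_lit 4) (nat_lit 1) (nat_lit 4) (nat_lit 251) (nat_lit 182) (nat_lit 167)) (XT.nd (nat_lit 78) (nat_lit 0) (nat_lit 0) (XT.lf (nat_lit 0) (nat_lit 287166810266) (nat_lit 152) (nat_lit 1311233028742) (nat_lit 0) (nat_lit 286057594770) (nat_lit 1) (nat_lit 5) (nat_lit 3) (nat_lit 4) (nat_lit 1) (nat_lit 4) (nat_lit 252) (nat_lit 182) (nat_lit 166)) (XT.lf (nat_lit 0) (nat_lit 331196974968) (nat_lit 152) (nat_lit 1505765837600) (nat_lit 0) (nat_lit 330070448291) (nat_lit 1) (nat_lit 5) (nat_lit 3) (nat_lit 4) (nat_lit 1) (nat_lit 4) (nat_lit 253) (nat_lit 182) (nat_lit 165))))) (XT.nd (nat_lit 156) (nat_lit 0) (nat_lit 0) (XT.nd (nat_lit 78) (nat_lit 0) (nat_lit 0) (XT.lf (nat_lit 0) (nat_lit 381806872254) (nat_lit 152) (nat_lit 1729525312741) (nat_lit 0) (nat_lit 380665292377) (nat_lit 1) (nat_lit 5) (nat_lit 3) (nat_lit 4) (nat_lit 1) (nat_lit 4)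 (nat_lit 254) (nat_lit 182) (nat_lit 164)) (XT.lf (nat_lit 0) (nat_lit 439986695768) (nat_lit 152) (nat_lit 1986889356938) (nat_lit 0) (nat_lit 438832026151) (nat_lit 1) (nat_lit 5) (nat_lit 3) (nat_lit 4) (nat_lit 1) (nat_lit 4) (nat_lit 255) (nat_lit 182) (nat_lit 163))) (XT.nd (nat_lit 78) (nat_lit 0) (nat_lit 0) (XT.lf (nat_lit 0) (nat_lit 506874746403) (nat_lit 152) (nat_lit 2282893353667) (nat_lit 0) (nat_lit 505708694405) (nat_lit 1) (nat_lit 5) (nat_lit 3) (nat_lit 4) (nat_lit 1) (nat_lit 4) (nat_lit 256) (nat_lit 182) (nat_lit 162)) (XT.nd (nat_lit 78) (nat_lit 0) (nat_lit 0) (XT.lf (nat_lit 0) (nat_lit 583779703413) (nat_lit 152) (nat_lit 2623328685471) (nat_lit 0) (nat_lit 582603753691) (nat_lit 1) (nat_lit 5) (nat_lit 3) (nat_lit 4) (nat_lit 1) (nat_lit 4) (nat_lit 257) (nat_lit 182) (nat_lit 161)) (XT.lf (nat_lit 0) (nat_lit 672206228999) (nat_lit 152) (nat_lit 3014856043624)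 (nat_lit 0) (nat_lit 671021672561) (nat_lit 1) (nat_lit 5) (nat_lit 3) (nat_lit 4) (nat_lit 1) (nat_lit 4) (nat_lit 258) (nat_lit 182) (nat_lit 160)))))) (XT.nd (nat_lit 29406) (nat_lit 0) (nat_lit 0) (XT.nd (nat_lit 156) (nat_lit 0) (nat_lit 0) (XT.nd (nat_lit 78) (nat_lit 0) (nat_lit 0) (XT.lf (nat_lit 0) (nat_lit 773884407357) (nat_lit 152) (nat_lit 3465135746005) (nat_lit 0) (nat_lit 772692366818) (nat_lit 1) (nat_lit 5) (nat_lit 3) (nat_lit 4) (nat_lit 1) (nat_lit 4) (nat_lit 259) (nat_lit 182) (nat_lit 159)) (XT.lf (nat_lit 0) (nat_lit 890803594151) (nat_lit 152) (nat_lit 3982977612876) (nat_lit 0) (nat_lit 889605045698) (nat_lit 1) (nat_lit 5) (nat_lit 3) (nat_lit 4) (nat_lit 1) (nat_lit 4) (nat_lit 260) (nat_lit 182) (nat_lit 158))) (XT.nd (nat_lit 78) (nat_lit 0) (nat_lit 0) (XT.lf (nat_lit 0) (nat_lit 1025251338688) (nat_lit 152) (nat_lit 4578513332937) (nat_lit 0) (nat_lit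 1024047131179) (nat_lit 1) (nat_lit 5) (nat_lit 3) (nat_lit 4) (nat_lit 1) (nat_lit 4) (nat_lit 261) (nat_lit 182) (nat_lit 157)) (XT.nd (nat_lit 29094) (nat_lit 0) (nat_lit 0) (XT.lf (nat_lit 0) (nat_lit 1179858140317) (nat_lit 152) (nat_lit 5263394692016) (nat_lit 0) (nat_lit 1178649011890) (nat_lit 1) (nat_lit 5) (nat_lit 3) (nat_lit 4) (nat_lit 1) (nat_lit 4) (nat_lit 262) (nat_lit 182) (nat_lit 156)) (XT.lf (nat_lit 0) (nat_lit 5256079260) (nat_lit 152) (nat_lit 66194603780) (nat_lit 0) (nat_lit 5256079260) (nat_lit 1) (nat_lit 5) (nat_lit 3) (nat_lit 4) (nat_lit 1) (nat_lit 4) (nat_lit 234) (nat_lit 183) (nat_lit 183))))) (XT.nd (nat_lit 156) (nat_lit 0) (nat_lit 0) (XT.nd (nat_lit 78) (nat_lit 0) (nat_lit 0) (XT.lf (nat_lit 0) (nat_lit 15014237976) (nat_lit 152) (nat_lit 146328156036) (nat_lit 0) (nat_lit 14827947794) (nat_lit 1) (nat_lit 5) (nat_lit 3) (nat_lit 4) (nat_lit 1)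 (nat_lit 4) (nat_lit 235) (nat_lit 183) (nat_lit 182)) (XT.lf (nat_lit 0) (nat_lit 19924834798) (nat_lit 152) (nat_lit 162860981573) (nat_lit 0) (nat_lit 19576553154) (nat_lit 1) (nat_lit 5) (nat_lit 3) (nat_lit 4) (nat_lit 1) (nat_lit 4) (nat_lit 236) (nat_lit 183) (nat_lit 181))) (XT.nd (nat_lit 78) (nat_lit 0) (nat_lit 0) (XT.lf (nat_lit 0) (nat_lit 25340025880) (nat_lit 152) (nat_lit 182311152498) (nat_lit 0) (nat_lit 24850882094) (nat_lit 1) (nat_lit 5) (nat_lit 3) (nat_lit 4) (nat_lit 1) (nat_lit 4) (nat_lit 237) (nat_lit 183) (nat_lit 180)) (XT.nd (nat_lit 78) (nat_lit 0) (nat_lit 0) (XT.lf (nat_lit 0) (nat_lit 31365760612) (nat_lit 152) (nat_lit 205059215634) (nat_lit 0) (nat_lit 30754128008) (nat_lit 1) (nat_lit 5) (nat_lit 3) (nat_lit 4) (nat_lit 1) (nat_lit 4) (nat_lit 238) (nat_lit 183) (nat_lit 179)) (XT.lf (nat_lit 0) (nat_lit 38119933805) (nat_lit 152) (nat_lit 231550241781)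 (nat_lit 0) (nat_lit 37401789185) (nat_lit 1) (nat_lit 5) (nat_lit 3) (nat_lit 4) (nat_lit 1) (nat_lit 4) (nat_lit 239) (nat_lit 183) (nat_lit 178))))))))
noncomputable def xc5 : XT := (XT.nd (nat_lit 1560) (nat_lit 0) (nat_lit 0) (XT.nd (nat_lit 780) (nat_lit 0) (nat_lit 0) (XT.nd (nat_lit 390) (nat_lit 0) (nat_lit 0) (XT.nd (nat_lit 156) (nat_lit 0) (nat_lit 0) (XT.nd (nat_lit 78) (nat_lit 0) (nat_lit 0) (XT.lf (nat_lit 0) (nat_lit 45734692326) (nat_lit 152) (nat_lit 262302533625) (nat_lit 0) (nat_lit 44923928562) (nat_lit 1) (nat_lit 5) (nat_lit 3) (nat_lit 4) (nat_lit 1) (nat_lit 4) (nat_lit 240) (nat_lit 183) (nat_lit 177)) (XT.lf (nat_lit 0) (nat_lit 54359020581) (nat_lit 152) (nat_lit 297917766441) (nat_lit 0) (nat_lit 53467718430) (nat_lit 1) (nat_lit 5) (nat_lit 3) (nat_lit 4) (nat_lit 1) (nat_lit 4) (nat_lit 241) (nat_lit 183) (nat_lit 176))) (XT.nd (nat_lit 78) (nat_lit 0)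 (nat_lit 0) (XT.lf (nat_lit 0) (nat_lit 64161655426) (nat_lit 152) (nat_lit 339092760000) (nat_lit 0) (nat_lit 63200319895) (nat_lit 1) (nat_lit 5) (nat_lit 3) (nat_lit 4) (nat_lit 1) (nat_lit 4) (nat_lit 242) (nat_lit 183) (nat_lit 175)) (XT.nd (nat_lit 78) (nat_lit 0) (nat_lit 0) (XT.lf (nat_lit 0) (nat_lit 75334387543) (nat_lit 152) (nat_lit 386633112004) (nat_lit 0) (nat_lit 74312153422) (nat_lit 1) (nat_lit 5) (nat_lit 3) (nat_lit 4) (nat_lit 1) (nat_lit 4) (nat_lit 243) (nat_lit 183) (nat_lit 174)) (XT.lf (nat_lit 0) (nat_lit 88095813866) (nat_lit 152) (nat_lit 441468959775) (nat_lit 0) (nat_lit 87020624448) (nat_lit 1) (nat_lit 5) (nat_lit 3) (nat_lit 4) (nat_lit 1) (nat_lit 4) (nat_lit 244) (nat_lit 183) (nat_lit 173))))) (XT.nd (nat_lit 156) (nat_lit 0) (nat_lit 0) (XT.nd (nat_lit 78) (nat_lit 0) (nat_lit 0) (XT.lf (nat_lit 0) (nat_lit 102695614474) (nat_lit 152) (nat_lit 504673178594)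 (nat_lit 0) (nat_lit 101574376972) (nat_lit 1) (nat_lit 5) (nat_lit 3) (nat_lit 4) (nat_lit 1) (nat_lit 4) (nat_lit 245) (nat_lit 183) (nat_lit 172)) (XT.lf (nat_lit 0) (nat_lit 119419437639) (nat_lit 152) (nat_lit 577482372742) (nat_lit 0) (nat_lit 118258158326) (nat_lit 1) (nat_lit 5) (nat_lit 3) (nat_lit 4) (nat_lit 1) (nat_lit 4) (nat_lit 246) (nat_lit 183) (nat_lit 171))) (XT.nd (nat_lit 78) (nat_lit 0) (nat_lit 0) (XT.lf (nat_lit 0) (nat_lit 138594488599) (nat_lit 152) (nat_lit 661321069933) (nat_lit 0) (nat_lit 137398390318) (nat_lit 1) (nat_lit 5) (nat_lit 3) (nat_lit 4) (nat_lit 1) (nat_lit 4) (nat_lit 247) (nat_lit 183) (nat_lit 170)) (XT.nd (nat_lit 78) (nat_lit 0) (nat_lit 0) (XT.lf (nat_lit 0) (nat_lit 160595931394) (nat_lit 152) (nat_lit 757829592501) (nat_lit 0) (nat_lit 159369555750) (nat_lit 1) (nat_lit 5) (nat_lit 3) (nat_lit 4) (nat_lit 1) (nat_lit 4) (nat_lit 248)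 (nat_lit 183) (nat_lit 169)) (XT.lf (nat_lit 0) (nat_lit 185854229034) (nat_lit 152) (nat_lit 868896150671) (nat_lit 0) (nat_lit 184601525249) (nat_lit 1) (nat_lit 5) (nat_lit 3) (nat_lit 4) (nat_lit 1) (nat_lit 4) (nat_lit 249) (nat_lit 183) (nat_lit 168)))))) (XT.nd (nat_lit 390) (nat_lit 0) (nat_lit 0) (XT.nd (nat_lit 156) (nat_lit 0) (nat_lit 0) (XT.nd (nat_lit 78) (nat_lit 0) (nat_lit 0) (XT.lf (nat_lit 0) (nat_lit 214863565603) (nat_lit 152) (nat_lit 996693785798) (nat_lit 0) (nat_lit 213587967783) (nat_lit 1) (nat_lit 5) (nat_lit 3) (nat_lit 4) (nat_lit 1) (nat_lit 4) (nat_lit 250) (nat_lit 183) (nat_lit 167)) (XT.lf (nat_lit 0) (nat_lit 248191515079) (nat_lit 152) (nat_lit 1143722886396) (nat_lit 0) (nat_lit 246896009401) (nat_lit 1) (nat_lit 5) (nat_lit 3) (nat_lit 4) (nat_lit 1) (nat_lit 4) (nat_lit 251) (nat_lit 183) (nat_lit 166))) (XT.nd (nat_lit 78) (nat_lit 0) (nat_lit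 0) (XT.lf (nat_lit 0) (nat_lit 286490146039) (nat_lit 152) (nat_lit 1312860108782) (nat_lit 0) (nat_lit 285177329180) (nat_lit 1) (nat_lit 5) (nat_lit 3) (nat_lit 4) (nat_lit 1) (nat_lit 4) (nat_lit 252) (nat_lit 183) (nat_lit 165)) (XT.nd (nat_lit 78) (nat_lit 0) (nat_lit 0) (XT.lf (nat_lit 0) (nat_lit 330508779521) (nat_lit 152) (nat_lit 1507414659479) (nat_lit 0) (nat_lit 329180909462) (nat_lit 1) (nat_lit 5) (nat_lit 3) (nat_lit 4) (nat_lit 1) (nat_lit 4) (nat_lit 253) (nat_lit 183) (nat_lit 164)) (XT.lf (nat_lit 0) (nat_lit 381108649661) (nat_lit 152) (nat_lit 1731193040566) (nat_lit 0) (nat_lit 379767689862) (nat_lit 1) (nat_lit 5) (nat_lit 3) (nat_lit 4) (nat_lit 1) (nat_lit 4) (nat_lit 254) (nat_lit 183) (nat_lit 163))))) (XT.nd (nat_lit 156) (nat_lit 0) (nat_lit 0) (XT.nd (nat_lit 78) (nat_lit 0) (nat_lit 0) (XT.lf (nat_lit 0) (nat_lit 439279753916) (nat_lit 152) (nat_lit 1988573524718)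 (nat_lit 0) (nat_lit 437927411736) (nat_lit 1) (nat_lit 5) (nat_lit 3) (nat_lit 4) (nat_lit 1) (nat_lit 4) (nat_lit 255) (nat_lit 183) (nat_lit 162)) (XT.lf (nat_lit 0) (nat_lit 506160222588) (nat_lit 152) (nat_lit 2284591817059) (nat_lit 0) (nat_lit 504797982685) (nat_lit 1) (nat_lit 5) (nat_lit 3) (nat_lit 4) (nat_lit 1) (nat_lit 4) (nat_lit 256) (nat_lit 183) (nat_lit 161))) (XT.nd (nat_lit 78) (nat_lit 0) (nat_lit 0) (XT.lf (nat_lit 0) (nat_lit 583058586586) (nat_lit 152) (nat_lit 2625039579830) (nat_lit 0) (nat_lit 581687739966) (nat_lit 1) (nat_lit 5) (nat_lit 3) (nat_lit 4) (nat_lit 1) (nat_lit 4) (nat_lit 257) (nat_lit 183) (nat_lit 160)) (XT.nd (nat_lit 78) (nat_lit 0) (nat_lit 0) (XT.lf (nat_lit 0) (nat_lit 671479379118) (nat_lit 152) (nat_lit 3016577747520) (nat_lit 0) (nat_lit 670101048397) (nat_lit 1) (nat_lit 5) (nat_lit 3) (nat_lit 4) (nat_lit 1) (nat_lit 4) (nat_lit 258)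 (nat_lit 183) (nat_lit 159)) (XT.lf (nat_lit 0) (nat_lit 773152572212) (nat_lit 152) (nat_lit 3466866849497) (nat_lit 0) (nat_lit 771767733577) (nat_lit 1) (nat_lit 5) (nat_lit 3) (nat_lit 4) (nat_lit 1) (nat_lit 4) (nat_lit 259) (nat_lit 183) (nat_lit 158))))))) (XT.nd (nat_lit 29640) (nat_lit 0) (nat_lit 0) (XT.nd (nat_lit 29250) (nat_lit 0) (nat_lit 0) (XT.nd (nat_lit 156) (nat_lit 0) (nat_lit 0) (XT.nd (nat_lit 78) (nat_lit 0) (nat_lit 0) (XT.lf (nat_lit 0) (nat_lit 890067423994) (nat_lit 152) (nat_lit 3984716889931) (nat_lit 0) (nat_lit 888676926304) (nat_lit 1) (nat_lit 5) (nat_lit 3) (nat_lit 4) (nat_lit 1) (nat_lit 4) (nat_lit 260) (nat_lit 183) (nat_lit 157)) (XT.lf (nat_lit 0) (nat_lit 1024511398955) (nat_lit 152) (nat_lit 4580259717438) (nat_lit 0) (nat_lit 1023115980347) (nat_lit 1) (nat_lit 5) (nat_lit 3) (nat_lit 4) (nat_lit 1) (nat_lit 4) (nat_lit 261) (nat_lit 183) (nat_lit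 156))) (XT.nd (nat_lit 28938) (nat_lit 0) (nat_lit 0) (XT.lf (nat_lit 0) (nat_lit 1179114922692) (nat_lit 152) (nat_lit 5265147256904) (nat_lit 0) (nat_lit 1177715225025) (nat_lit 1) (nat_lit 5) (nat_lit 3) (nat_lit 4) (nat_lit 1) (nat_lit 4) (nat_lit 262) (nat_lit 183) (nat_lit 155)) (XT.nd (nat_lit 78) (nat_lit 0) (nat_lit 0) (XT.lf (nat_lit 0) (nat_lit 1382913890) (nat_lit 152) (nat_lit 55469028326) (nat_lit 0) (nat_lit 1382913890) (nat_lit 1) (nat_lit 5) (nat_lit 3) (nat_lit 4) (nat_lit 1) (nat_lit 4) (nat_lit 232) (nat_lit 184) (nat_lit 184)) (XT.lf (nat_lit 0) (nat_lit 6544745976) (nat_lit 152) (nat_lit 120771417591) (nat_lit 0) (nat_lit 6330512267) (nat_lit 1) (nat_lit 5) (nat_lit 3) (nat_lit 4) (nat_lit 1) (nat_lit 4) (nat_lit 233) (nat_lit 184) (nat_lit 183))))) (XT.nd (nat_lit 156) (nat_lit 0) (nat_lit 0) (XT.nd (nat_lit 78) (nat_lit 0) (nat_lit 0) (XT.lf (nat_lit 0) (nat_lit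 10583688166) (nat_lit 152) (nat_lit 132658272682) (nat_lit 0) (nat_lit 10183164275) (nat_lit 1) (nat_lit 5) (nat_lit 3) (nat_lit 4) (nat_lit 1) (nat_lit 4) (nat_lit 234) (nat_lit 184) (nat_lit 182)) (XT.lf (nat_lit 0) (nat_lit 14961677133) (nat_lit 152) (nat_lit 146831190827) (nat_lit 0) (nat_lit 14399161779) (nat_lit 1) (nat_lit 5) (nat_lit 3) (nat_lit 4) (nat_lit 1) (nat_lit 4) (nat_lit 235) (nat_lit 184) (nat_lit 181))) (XT.nd (nat_lit 78) (nat_lit 0) (nat_lit 0) (XT.lf (nat_lit 0) (nat_lit 19764369181) (nat_lit 152) (nat_lit 163567468251) (nat_lit 0) (nat_lit 19060991686) (nat_lit 1) (nat_lit 5) (nat_lit 3) (nat_lit 4) (nat_lit 1) (nat_lit 4) (nat_lit 236) (nat_lit 184) (nat_lit 180)) (XT.nd (nat_lit 78) (nat_lit 0) (nat_lit 0) (XT.lf (nat_lit 0) (nat_lit 25085730025) (nat_lit 152) (nat_lit 183194553861) (nat_lit 0) (nat_lit 24259863711) (nat_lit 1) (nat_lit 5) (nat_lit 3) (nat_lit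 4) (nat_lit 1) (nat_lit 4) (nat_lit 237) (nat_lit 184) (nat_lit 179)) (XT.lf (nat_lit 0) (nat_lit 31029873246) (nat_lit 152) (nat_lit 206096455853) (nat_lit 0) (nat_lit 30097494917) (nat_lit 1) (nat_lit 5) (nat_lit 3) (nat_lit 4) (nat_lit 1) (nat_lit 4) (nat_lit 238) (nat_lit 184) (nat_lit 178)))))) (XT.nd (nat_lit 390) (nat_lit 0) (nat_lit 0) (XT.nd (nat_lit 156) (nat_lit 0) (nat_lit 0) (XT.nd (nat_lit 78) (nat_lit 0) (nat_lit 0) (XT.lf (nat_lit 0) (nat_lit 37713097299) (nat_lit 152) (nat_lit 232721254919) (nat_lit 0) (nat_lit 36688099825) (nat_lit 1) (nat_lit 5) (nat_lit 3) (nat_lit 4) (nat_lit 1) (nat_lit 4) (nat_lit 239) (nat_lit 184) (nat_lit 177)) (XT.lf (nat_lit 0) (nat_lit 45266160916) (nat_lit 152) (nat_lit 263589871039) (nat_lit 0) (nat_lit 44160625055) (nat_lit 1) (nat_lit 5) (nat_lit 3) (nat_lit 4) (nat_lit 1) (nat_lit 4) (nat_lit 240) (nat_lit 184) (nat_lit 176))) (XT.nd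 (nat_lit 78) (nat_lit 0) (nat_lit 0) (XT.lf (nat_lit 0) (nat_lit 53836841427) (nat_lit 152) (nat_lit 299306255400) (nat_lit 0) (nat_lit 52661272187) (nat_lit 1) (nat_lit 5) (nat_lit 3) (nat_lit 4) (nat_lit 1) (nat_lit 4) (nat_lit 241) (nat_lit 184) (nat_lit 175)) (XT.nd (nat_lit 78) (nat_lit 0) (nat_lit 0) (XT.lf (nat_lit 0) (nat_lit 63592826061) (nat_lit 152) (nat_lit 340569206825) (nat_lit 0) (nat_lit 62356358230) (nat_lit 1) (nat_lit 5) (nat_lit 3) (nat_lit 4) (nat_lit 1) (nat_lit 4) (nat_lit 242) (nat_lit 184) (nat_lit 174)) (XT.lf (nat_lit 0) (nat_lit 74724992777) (nat_lit 152) (nat_lit 388186043929) (nat_lit 0) (nat_lit 73435569650) (nat_lit 1) (nat_lit 5) (nat_lit 3) (nat_lit 4) (nat_lit 1) (nat_lit 4) (nat_lit 243) (nat_lit 184) (nat_lit 173))))) (XT.nd (nat_lit 234) (nat_lit 0) (nat_lit 0) (XT.nd (nat_lit 78) (nat_lit 0) (nat_lit 0) (XT.lf (nat_lit 0) (nat_lit 87451144837) (nat_lit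 152) (nat_lit 443088400483) (nat_lit 0) (nat_lit 86115673627) (nat_lit 1) (nat_lit 5) (nat_lit 3) (nat_lit 4) (nat_lit 1) (nat_lit 4) (nat_lit 244) (nat_lit 184) (nat_lit 172)) (XT.nd (nat_lit 78) (nat_lit 0) (nat_lit 0) (XT.lf (nat_lit 0) (nat_lit 102020272174) (nat_lit 152) (nat_lit 506350453026) (nat_lit 0) (nat_lit 100644759151) (nat_lit 1) (nat_lit 5) (nat_lit 3) (nat_lit 4) (nat_lit 1) (nat_lit 4) (nat_lit 245) (nat_lit 184) (nat_lit 171)) (XT.lf (nat_lit 0) (nat_lit 118717422930) (nat_lit 152) (nat_lit 579209937369) (nat_lit 0) (nat_lit 117307090940) (nat_lit 1) (nat_lit 5) (nat_lit 3) (nat_lit 4) (nat_lit 1) (nat_lit 4) (nat_lit 246) (nat_lit 184) (nat_lit 170)))) (XT.nd (nat_lit 78) (nat_lit 0) (nat_lit 0) (XT.lf (nat_lit 0) (nat_lit 137869280490) (nat_lit 152) (nat_lit 663092365164) (nat_lit 0) (nat_lit 136428671138) (nat_lit 1) (nat_lit 5) (nat_lit 3) (nat_lit 4) (nat_lit 1)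 (nat_lit 4) (nat_lit 247) (nat_lit 184) (nat_lit 169)) (XT.nd (nat_lit 78) (nat_lit 0) (nat_lit 0) (XT.lf (nat_lit 0) (nat_lit 159850555111) (nat_lit 152) (nat_lit 759638914344) (nat_lit 0) (nat_lit 158383617617) (nat_lit 1) (nat_lit 5) (nat_lit 3) (nat_lit 4) (nat_lit 1) (nat_lit 4) (nat_lit 248) (nat_lit 184) (nat_lit 168)) (XT.lf (nat_lit 0) (nat_lit 185091315208) (nat_lit 152) (nat_lit 870738539134) (nat_lit 0) (nat_lit 183601483679) (nat_lit 1) (nat_lit 5) (nat_lit 3) (nat_lit 4) (nat_lit 1) (nat_lit 4) (nat_lit 249) (nat_lit 184) (nat_lit 167))))))))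
noncomputable def xc6 : XT := (XT.nd (nat_lit 30264) (nat_lit 0) (nat_lit 0) (XT.nd (nat_lit 780) (nat_lit 0) (nat_lit 0) (XT.nd (nat_lit 390) (nat_lit 0) (nat_lit 0) (XT.nd (nat_lit 156) (nat_lit 0) (nat_lit 0) (XT.nd (nat_lit 78) (nat_lit 0) (nat_lit 0) (XT.lf (nat_lit 0) (nat_lit 214085401741) (nat_lit 152) (nat_lit 998564927844) (nat_lit 0) (nat_lit 212575662354) (nat_lit 1) (nat_lit 5) (nat_lit 3) (nat_lit 4) (nat_lit 1) (nat_lit 4) (nat_lit 250) (nat_lit 184) (nat_lit 166)) (XT.lf (nat_lit 0) (nat_lit 247400090316) (nat_lit 152) (nat_lit 1145619031557) (nat_lit 0) (nat_lit 245873039748) (nat_lit 1) (nat_lit 5) (nat_lit 3) (nat_lit 4) (nat_lit 1) (nat_lit 4) (nat_lit 251) (nat_lit 184) (nat_lit 165))) (XT.nd (nat_lit 78) (nat_lit 0) (nat_lit 0) (XT.lf (nat_lit 0) (nat_lit 285687190056) (nat_lit 152) (nat_lit 1314777995781) (nat_lit 0) (nat_lit 284145086288) (nat_lit 1) (nat_lit 5)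 (nat_lit 3) (nat_lit 4) (nat_lit 1) (nat_lit 4) (nat_lit 252) (nat_lit 184) (nat_lit 164)) (XT.nd (nat_lit 78) (nat_lit 0) (nat_lit 0) (XT.lf (nat_lit 0) (nat_lit 329695796392) (nat_lit 152) (nat_lit 1509351452425) (nat_lit 0) (nat_lit 328140602885) (nat_lit 1) (nat_lit 5) (nat_lit 3) (nat_lit 4) (nat_lit 1) (nat_lit 4) (nat_lit 253) (nat_lit 184) (nat_lit 163)) (XT.lf (nat_lit 0) (nat_lit 380286947273) (nat_lit 152) (nat_lit 1733146273467) (nat_lit 0) (nat_lit 378720371384) (nat_lit 1) (nat_lit 5) (nat_lit 3) (nat_lit 4) (nat_lit 1) (nat_lit 4) (nat_lit 254) (nat_lit 184) (nat_lit 162))))) (XT.nd (nat_lit 156) (nat_lit 0) (nat_lit 0) (XT.nd (nat_lit 78) (nat_lit 0) (nat_lit 0) (XT.lf (nat_lit 0) (nat_lit 438450469565) (nat_lit 152) (nat_lit 1990541053231) (nat_lit 0) (nat_lit 436873995953) (nat_lit 1) (nat_lit 5) (nat_lit 3) (nat_lit 4) (nat_lit 1) (nat_lit 4) (nat_lit 255) (nat_lit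 184) (nat_lit 161)) (XT.lf (nat_lit 0) (nat_lit 505324345226) (nat_lit 152) (nat_lit 2286571776538) (nat_lit 0) (nat_lit 503739264897) (nat_lit 1) (nat_lit 5) (nat_lit 3) (nat_lit 4) (nat_lit 1) (nat_lit 4) (nat_lit 256) (nat_lit 184) (nat_lit 160))) (XT.nd (nat_lit 78) (nat_lit 0) (nat_lit 0) (XT.lf (nat_lit 0) (nat_lit 582216976170) (nat_lit 152) (nat_lit 2627030348846) (nat_lit 0) (nat_lit 580624411740) (nat_lit 1) (nat_lit 5) (nat_lit 3) (nat_lit 4) (nat_lit 1) (nat_lit 4) (nat_lit 257) (nat_lit 184) (nat_lit 159)) (XT.nd (nat_lit 78) (nat_lit 0) (nat_lit 0) (XT.lf (nat_lit 0) (nat_lit 670632783438) (nat_lit 152) (nat_lit 3018577916133) (nat_lit 0) (nat_lit 669033711094) (nat_lit 1) (nat_lit 5) (nat_lit 3) (nat_lit 4) (nat_lit 1) (nat_lit 4) (nat_lit 258) (nat_lit 184) (nat_lit 158)) (XT.lf (nat_lit 0) (nat_lit 772301641520) (nat_lit 152) (nat_lit 3468875191673) (nat_lit 0) (nat_lit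 770696910120) (nat_lit 1) (nat_lit 5) (nat_lit 3) (nat_lit 4) (nat_lit 1) (nat_lit 4) (nat_lit 259) (nat_lit 184) (nat_lit 157)))))) (XT.nd (nat_lit 29094) (nat_lit 0) (nat_lit 0) (XT.nd (nat_lit 156) (nat_lit 0) (nat_lit 0) (XT.nd (nat_lit 78) (nat_lit 0) (nat_lit 0) (XT.lf (nat_lit 0) (nat_lit 889212723726) (nat_lit 152) (nat_lit 3986732339552) (nat_lit 0) (nat_lit 887603071408) (nat_lit 1) (nat_lit 5) (nat_lit 3) (nat_lit 4) (nat_lit 1) (nat_lit 4) (nat_lit 260) (nat_lit 184) (nat_lit 156)) (XT.lf (nat_lit 0) (nat_lit 1023653420795) (nat_lit 152) (nat_lit 4582281347447) (nat_lit 0) (nat_lit 1022039489418) (nat_lit 1) (nat_lit 5) (nat_lit 3) (nat_lit 4) (nat_lit 1) (nat_lit 4) (nat_lit 261) (nat_lit 184) (nat_lit 155))) (XT.nd (nat_lit 28782) (nat_lit 0) (nat_lit 152) (XT.lf (nat_lit 0) (nat_lit 1178254094191) (nat_lit 152) (nat_lit 5267174261163) (nat_lit 0) (nat_lit 1176636441893)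 (nat_lit 1) (nat_lit 5) (nat_lit 3) (nat_lit 4) (nat_lit 1) (nat_lit 4) (nat_lit 262) (nat_lit 184) (nat_lit 154)) (XT.nd (nat_lit 78) (nat_lit 0) (nat_lit 0) (XT.lf (nat_lit 0) (nat_lit 40516384118) (nat_lit 76) (nat_lit 1885497197) (nat_lit 76) (nat_lit 1885497197) (nat_lit 3) (nat_lit 4) (nat_lit 4) (nat_lit 5) (nat_lit 4) (nat_lit 4) (nat_lit 230) (nat_lit 185) (nat_lit 185)) (XT.lf (nat_lit 0) (nat_lit 100180674126) (nat_lit 76) (nat_lit 819038367) (nat_lit 76) (nat_lit 552960100) (nat_lit 3) (nat_lit 4) (nat_lit 4) (nat_lit 5) (nat_lit 4) (nat_lit 4) (nat_lit 231) (nat_lit 185) (nat_lit 184))))) (XT.nd (nat_lit 156) (nat_lit 0) (nat_lit 0) (XT.nd (nat_lit 78) (nat_lit 0) (nat_lit 0) (XT.lf (nat_lit 0) (nat_lit 2848086873) (nat_lit 152) (nat_lit 111247481541) (nat_lit 0) (nat_lit 2387484398) (nat_lit 1) (nat_lit 5) (nat_lit 3) (nat_lit 4) (nat_lit 1) (nat_lit 4) (nat_lit 232) (nat_lit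 185) (nat_lit 183)) (XT.lf (nat_lit 0) (nat_lit 6484301006) (nat_lit 152) (nat_lit 121349907601) (nat_lit 0) (nat_lit 5837408350) (nat_lit 1) (nat_lit 5) (nat_lit 3) (nat_lit 4) (nat_lit 1) (nat_lit 4) (nat_lit 233) (nat_lit 185) (nat_lit 182))) (XT.nd (nat_lit 78) (nat_lit 0) (nat_lit 0) (XT.lf (nat_lit 0) (nat_lit 10399152707) (nat_lit 152) (nat_lit 133470732362) (nat_lit 0) (nat_lit 9590268588) (nat_lit 1) (nat_lit 5) (nat_lit 3) (nat_lit 4) (nat_lit 1) (nat_lit 4) (nat_lit 234) (nat_lit 185) (nat_lit 181)) (XT.nd (nat_lit 78) (nat_lit 0) (nat_lit 0) (XT.lf (nat_lit 0) (nat_lit 14669236899) (nat_lit 152) (nat_lit 147847102394) (nat_lit 0) (nat_lit 13719490639) (nat_lit 1) (nat_lit 5) (nat_lit 3) (nat_lit 4) (nat_lit 1) (nat_lit 4) (nat_lit 235) (nat_lit 185) (nat_lit 180)) (XT.lf (nat_lit 0) (nat_lit 19378098710) (nat_lit 152) (nat_lit 164760294503) (nat_lit 0) (nat_lit 18305863631)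 (nat_lit 1) (nat_lit 5) (nat_lit 3) (nat_lit 4) (nat_lit 1) (nat_lit 4) (nat_lit 236) (nat_lit 185) (nat_lit 179))))))) (XT.nd (nat_lit 780) (nat_lit 0) (nat_lit 0) (XT.nd (nat_lit 390) (nat_lit 0) (nat_lit 0) (XT.nd (nat_lit 156) (nat_lit 0) (nat_lit 0) (XT.nd (nat_lit 78) (nat_lit 0) (nat_lit 0) (XT.lf (nat_lit 0) (nat_lit 24617868042) (nat_lit 152) (nat_lit 184541218969) (nat_lit 0) (nat_lit 23439120948) (nat_lit 1) (nat_lit 5) (nat_lit 3) (nat_lit 4) (nat_lit 1) (nat_lit 4) (nat_lit 237) (nat_lit 185) (nat_lit 178)) (XT.lf (nat_lit 0) (nat_lit 30491062123) (nat_lit 152) (nat_lit 207576893880) (nat_lit 0) (nat_lit 29219695884) (nat_lit 1) (nat_lit 5) (nat_lit 3) (nat_lit 4) (nat_lit 1) (nat_lit 4) (nat_lit 238) (nat_lit 185) (nat_lit 177))) (XT.nd (nat_lit 78) (nat_lit 0) (nat_lit 0) (XT.lf (nat_lit 0) (nat_lit 37112591272) (nat_lit 152) (nat_lit 234318017222) (nat_lit 0) (nat_lit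 35760686646) (nat_lit 1) (nat_lit 5) (nat_lit 3) (nat_lit 4) (nat_lit 1) (nat_lit 4) (nat_lit 239) (nat_lit 185) (nat_lit 176)) (XT.nd (nat_lit 78) (nat_lit 0) (nat_lit 0) (XT.lf (nat_lit 0) (nat_lit 44612007146) (nat_lit 152) (nat_lit 265287784888) (nat_lit 0) (nat_lit 43190069140) (nat_lit 1) (nat_lit 5) (nat_lit 3) (nat_lit 4) (nat_lit 1) (nat_lit 4) (nat_lit 240) (nat_lit 185) (nat_lit 175)) (XT.lf (nat_lit 0) (nat_lit 53136037446) (nat_lit 152) (nat_lit 301092127114) (nat_lit 0) (nat_lit 51653200849) (nat_lit 1) (nat_lit 5) (nat_lit 3) (nat_lit 4) (nat_lit 1) (nat_lit 4) (nat_lit 241) (nat_lit 185) (nat_lit 174))))) (XT.nd (nat_lit 156) (nat_lit 0) (nat_lit 0) (XT.nd (nat_lit 78) (nat_lit 0) (nat_lit 0) (XT.lf (nat_lit 0) (nat_lit 62851456678) (nat_lit 152) (nat_lit 342431563639) (nat_lit 0) (nat_lit 61315664786) (nat_lit 1) (nat_lit 5) (nat_lit 3) (nat_lit 4) (nat_lit 1) (nat_lit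 4) (nat_lit 242) (nat_lit 185) (nat_lit 173)) (XT.lf (nat_lit 0) (nat_lit 73948349132) (nat_lit 152) (nat_lit 390114909526) (nat_lit 0) (nat_lit 72366509156) (nat_lit 1) (nat_lit 5) (nat_lit 3) (nat_lit 4) (nat_lit 1) (nat_lit 4) (nat_lit 243) (nat_lit 185) (nat_lit 172))) (XT.nd (nat_lit 78) (nat_lit 0) (nat_lit 0) (XT.lf (nat_lit 0) (nat_lit 86643827922) (nat_lit 152) (nat_lit 445075099804) (nat_lit 0) (nat_lit 85021946133) (nat_lit 1) (nat_lit 5) (nat_lit 3) (nat_lit 4) (nat_lit 1) (nat_lit 4) (nat_lit 244) (nat_lit 185) (nat_lit 171)) (XT.nd (nat_lit 78) (nat_lit 0) (nat_lit 0) (XT.lf (nat_lit 0) (nat_lit 101186282849) (nat_lit 152) (nat_lit 508387442542) (nat_lit 0) (nat_lit 99529582093) (nat_lit 1) (nat_lit 5) (nat_lit 3) (nat_lit 4) (nat_lit 1) (nat_lit 4) (nat_lit 245) (nat_lit 185) (nat_lit 170)) (XT.lf (nat_lit 0) (nat_lit 117860240205) (nat_lit 152) (nat_lit 581290657490) (nat_lit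 0) (nat_lit 116173262087) (nat_lit 1) (nat_lit 5) (nat_lit 3) (nat_lit 4) (nat_lit 1) (nat_lit 4) (nat_lit 246) (nat_lit 185) (nat_lit 169)))))) (XT.nd (nat_lit 390) (nat_lit 0) (nat_lit 0) (XT.nd (nat_lit 156) (nat_lit 0) (nat_lit 0) (XT.nd (nat_lit 78) (nat_lit 0) (nat_lit 0) (XT.lf (nat_lit 0) (nat_lit 136991929591) (nat_lit 152) (nat_lit 665211111897) (nat_lit 0) (nat_lit 135278623332) (nat_lit 1) (nat_lit 5) (nat_lit 3) (nat_lit 4) (nat_lit 1) (nat_lit 4) (nat_lit 247) (nat_lit 185) (nat_lit 168)) (XT.lf (nat_lit 0) (nat_lit 158955666670) (nat_lit 152) (nat_lit 761790727697) (nat_lit 0) (nat_lit 157219466374) (nat_lit 1) (nat_lit 5) (nat_lit 3) (nat_lit 4) (nat_lit 1) (nat_lit 4) (nat_lit 248) (nat_lit 185) (nat_lit 167))) (XT.nd (nat_lit 78) (nat_lit 0) (nat_lit 0) (XT.lf (nat_lit 0) (nat_lit 184181176730) (nat_lit 152) (nat_lit 872919106068) (nat_lit 0) (nat_lit 182425068578) (nat_lit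 1) (nat_lit 5) (nat_lit 3) (nat_lit 4) (nat_lit 1) (nat_lit 4) (nat_lit 249) (nat_lit 185) (nat_lit 166)) (XT.nd (nat_lit 78) (nat_lit 0) (nat_lit 0) (XT.lf (nat_lit 0) (nat_lit 213162002362) (nat_lit 152) (nat_lit 1000770497893) (nat_lit 0) (nat_lit 211388583029) (nat_lit 1) (nat_lit 5) (nat_lit 3) (nat_lit 4) (nat_lit 1) (nat_lit 4) (nat_lit 250) (nat_lit 185) (nat_lit 165)) (XT.lf (nat_lit 0) (nat_lit 246465159717) (nat_lit 152) (nat_lit 1147846343445) (nat_lit 0) (nat_lit 244676687184) (nat_lit 1) (nat_lit 5) (nat_lit 3) (nat_lit 4) (nat_lit 1) (nat_lit 4) (nat_lit 251) (nat_lit 185) (nat_lit 164))))) (XT.nd (nat_lit 156) (nat_lit 0) (nat_lit 0) (XT.nd (nat_lit 78) (nat_lit 0) (nat_lit 0) (XT.lf (nat_lit 0) (nat_lit 284742232311) (nat_lit 152) (nat_lit 1317024213617) (nat_lit 0) (nat_lit 282940670038) (nat_lit 1) (nat_lit 5) (nat_lit 3) (nat_lit 4) (nat_lit 1) (nat_lit 4) (nat_lit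 252) (nat_lit 185) (nat_lit 163)) (XT.lf (nat_lit 0) (nat_lit 328742119389) (nat_lit 152) (nat_lit 1511614110215) (nat_lit 0) (nat_lit 326929174734) (nat_lit 1) (nat_lit 5) (nat_lit 3) (nat_lit 4) (nat_lit 1) (nat_lit 4) (nat_lit 253) (nat_lit 185) (nat_lit 162))) (XT.nd (nat_lit 78) (nat_lit 0) (nat_lit 0) (XT.lf (nat_lit 0) (nat_lit 379325688307) (nat_lit 152) (nat_lit 1735423226868) (nat_lit 0) (nat_lit 377502845928) (nat_lit 1) (nat_lit 5) (nat_lit 3) (nat_lit 4) (nat_lit 1) (nat_lit 4) (nat_lit 254) (nat_lit 185) (nat_lit 161)) (XT.nd (nat_lit 78) (nat_lit 0) (nat_lit 0) (XT.lf (nat_lit 0) (nat_lit 437482617587) (nat_lit 152) (nat_lit 1992830437599) (nat_lit 0) (nat_lit 435651168492) (nat_lit 1) (nat_lit 5) (nat_lit 3) (nat_lit 4) (nat_lit 1) (nat_lit 4) (nat_lit 255) (nat_lit 185) (nat_lit 160)) (XT.lf (nat_lit 0) (nat_lit 504350760194) (nat_lit 152) (nat_lit 2288871970444) (nat_lit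 0) (nat_lit 502511826998) (nat_lit 1) (nat_lit 5) (nat_lit 3) (nat_lit 4) (nat_lit 1) (nat_lit 4) (nat_lit 256) (nat_lit 185) (nat_lit 159))))))))
noncomputable def xc7 : XT := (XT.nd (nat_lit 30108) (nat_lit 0) (nat_lit 0) (XT.nd (nat_lit 29328) (nat_lit 0) (nat_lit 0) (XT.nd (nat_lit 390) (nat_lit 0) (nat_lit 0) (XT.nd (nat_lit 156) (nat_lit 0) (nat_lit 0) (XT.nd (nat_lit 78) (nat_lit 0) (nat_lit 0) (XT.lf (nat_lit 0) (nat_lit 581238405874) (nat_lit 152) (nat_lit 2629339942348) (nat_lit 0) (nat_lit 579392964764) (nat_lit 1) (nat_lit 5) (nat_lit 3) (nat_lit 4) (nat_lit 1) (nat_lit 4) (nat_lit 257) (nat_lit 185) (nat_lit 158)) (XT.lf (nat_lit 0) (nat_lit 669649878129) (nat_lit 152) (nat_lit 3020895683198) (nat_lit 0) (nat_lit 667798777964) (nat_lit 1) (nat_lit 5) (nat_lit 3) (nat_lit 4) (nat_lit 1) (nat_lit 4) (nat_lit 258) (nat_lit 185) (nat_lit 157))) (XT.nd (nat_lit 78) (nat_lit 0)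 (nat_lit 0) (XT.lf (nat_lit 0) (nat_lit 771314966635) (nat_lit 152) (nat_lit 3471200066184) (nat_lit 0) (nat_lit 769458945552) (nat_lit 1) (nat_lit 5) (nat_lit 3) (nat_lit 4) (nat_lit 1) (nat_lit 4) (nat_lit 259) (nat_lit 185) (nat_lit 156)) (XT.nd (nat_lit 78) (nat_lit 0) (nat_lit 0) (XT.lf (nat_lit 0) (nat_lit 888222770949) (nat_lit 152) (nat_lit 3989063394451) (nat_lit 0) (nat_lit 886362470807) (nat_lit 1) (nat_lit 5) (nat_lit 3) (nat_lit 4) (nat_lit 1) (nat_lit 4) (nat_lit 260) (nat_lit 185) (nat_lit 155)) (XT.lf (nat_lit 0) (nat_lit 1022660617677) (nat_lit 152) (nat_lit 4584617776595) (nat_lit 0) (nat_lit 1020796596614) (nat_lit 1) (nat_lit 5) (nat_lit 3) (nat_lit 4) (nat_lit 1) (nat_lit 4) (nat_lit 261) (nat_lit 185) (nat_lit 154))))) (XT.nd (nat_lit 28704) (nat_lit 0) (nat_lit 152) (XT.nd (nat_lit 28626) (nat_lit 0) (nat_lit 152) (XT.lf (nat_lit 0) (nat_lit 1177258812516) (nat_lit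 152) (nat_lit 5269515363573) (nat_lit 0) (nat_lit 1175391555870) (nat_lit 1) (nat_lit 5) (nat_lit 3) (nat_lit 4) (nat_lit 1) (nat_lit 4) (nat_lit 262) (nat_lit 185) (nat_lit 153)) (XT.lf (nat_lit 0) (nat_lit 24237482623) (nat_lit 76) (nat_lit 4766118466) (nat_lit 76) (nat_lit 4766118466) (nat_lit 3) (nat_lit 4) (nat_lit 4) (nat_lit 5) (nat_lit 4) (nat_lit 4) (nat_lit 228) (nat_lit 186) (nat_lit 186))) (XT.nd (nat_lit 78) (nat_lit 0) (nat_lit 0) (XT.lf (nat_lit 0) (nat_lit 63788149285) (nat_lit 76) (nat_lit 6916826506) (nat_lit 76) (nat_lit 6610836500) (nat_lit 3) (nat_lit 4) (nat_lit 4) (nat_lit 5) (nat_lit 4) (nat_lit 4) (nat_lit 229) (nat_lit 186) (nat_lit 185)) (XT.nd (nat_lit 78) (nat_lit 0) (nat_lit 0) (XT.lf (nat_lit 0) (nat_lit 80714905025) (nat_lit 76) (nat_lit 4222966910) (nat_lit 76) (nat_lit 3650898636) (nat_lit 3) (nat_lit 4) (nat_lit 4) (nat_lit 5) (nat_lit 4) (nat_lit 4)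 (nat_lit 230) (nat_lit 186) (nat_lit 184)) (XT.lf (nat_lit 0) (nat_lit 99586408122) (nat_lit 76) (nat_lit 1397952193) (nat_lit 76) (nat_lit 594511514) (nat_lit 3) (nat_lit 4) (nat_lit 4) (nat_lit 5) (nat_lit 4) (nat_lit 4) (nat_lit 231) (nat_lit 186) (nat_lit 183)))))) (XT.nd (nat_lit 390) (nat_lit 0) (nat_lit 0) (XT.nd (nat_lit 156) (nat_lit 0) (nat_lit 0) (XT.nd (nat_lit 78) (nat_lit 0) (nat_lit 0) (XT.lf (nat_lit 0) (nat_lit 2635871094) (nat_lit 152) (nat_lit 112181810173) (nat_lit 0) (nat_lit 1705654357) (nat_lit 1) (nat_lit 5) (nat_lit 3) (nat_lit 4) (nat_lit 1) (nat_lit 4) (nat_lit 232) (nat_lit 186) (nat_lit 182)) (XT.lf (nat_lit 0) (nat_lit 6147994738) (nat_lit 152) (nat_lit 122518205904) (nat_lit 0) (nat_lit 5055786539) (nat_lit 1) (nat_lit 5) (nat_lit 3) (nat_lit 4) (nat_lit 1) (nat_lit 4) (nat_lit 233) (nat_lit 186) (nat_lit 181))) (XT.nd (nat_lit 78) (nat_lit 0) (nat_lit 0)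 (XT.lf (nat_lit 0) (nat_lit 9954941665) (nat_lit 152) (nat_lit 134842482552) (nat_lit 0) (nat_lit 8721871324) (nat_lit 1) (nat_lit 5) (nat_lit 3) (nat_lit 4) (nat_lit 1) (nat_lit 4) (nat_lit 234) (nat_lit 186) (nat_lit 180)) (XT.nd (nat_lit 78) (nat_lit 0) (nat_lit 0) (XT.lf (nat_lit 0) (nat_lit 14131195620) (nat_lit 152) (nat_lit 149395767269) (nat_lit 0) (nat_lit 12775636461) (nat_lit 1) (nat_lit 5) (nat_lit 3) (nat_lit 4) (nat_lit 1) (nat_lit 4) (nat_lit 235) (nat_lit 186) (nat_lit 179)) (XT.lf (nat_lit 0) (nat_lit 18758465919) (nat_lit 152) (nat_lit 166462798234) (nat_lit 0) (nat_lit 17296394744) (nat_lit 1) (nat_lit 5) (nat_lit 3) (nat_lit 4) (nat_lit 1) (nat_lit 4) (nat_lit 236) (nat_lit 186) (nat_lit 178))))) (XT.nd (nat_lit 156) (nat_lit 0) (nat_lit 0) (XT.nd (nat_lit 78) (nat_lit 0) (nat_lit 0) (XT.lf (nat_lit 0) (nat_lit 23927286111) (nat_lit 152) (nat_lit 186377495618) (nat_lit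 0) (nat_lit 22372595792) (nat_lit 1) (nat_lit 5) (nat_lit 3) (nat_lit 4) (nat_lit 1) (nat_lit 4) (nat_lit 237) (nat_lit 186) (nat_lit 177)) (XT.lf (nat_lit 0) (nat_lit 29738785288) (nat_lit 152) (nat_lit 209529494806) (nat_lit 0) (nat_lit 28103556582) (nat_lit 1) (nat_lit 5) (nat_lit 3) (nat_lit 4) (nat_lit 1) (nat_lit 4) (nat_lit 238) (nat_lit 186) (nat_lit 176))) (XT.nd (nat_lit 78) (nat_lit 0) (nat_lit 0) (XT.lf (nat_lit 0) (nat_lit 36306666694) (nat_lit 152) (nat_lit 236371769693) (nat_lit 0) (nat_lit 34601404608) (nat_lit 1) (nat_lit 5) (nat_lit 3) (nat_lit 4) (nat_lit 1) (nat_lit 4) (nat_lit 239) (nat_lit 186) (nat_lit 175)) (XT.nd (nat_lit 78) (nat_lit 0) (nat_lit 0) (XT.lf (nat_lit 0) (nat_lit 43759432356) (nat_lit 152) (nat_lit 267429495224) (nat_lit 0) (nat_lit 41993271679) (nat_lit 1) (nat_lit 5) (nat_lit 3) (nat_lit 4) (nat_lit 1) (nat_lit 4) (nat_lit 240) (nat_lit 186) (nat_lit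 174)) (XT.lf (nat_lit 0) (nat_lit 52242897254) (nat_lit 152) (nat_lit 303310322550) (nat_lit 0) (nat_lit 50423781282) (nat_lit 1) (nat_lit 5) (nat_lit 3) (nat_lit 4) (nat_lit 1) (nat_lit 4) (nat_lit 241) (nat_lit 186) (nat_lit 173))))))) (XT.nd (nat_lit 780) (nat_lit 0) (nat_lit 0) (XT.nd (nat_lit 390) (nat_lit 0) (nat_lit 0) (XT.nd (nat_lit 156) (nat_lit 0) (nat_lit 0) (XT.nd (nat_lit 78) (nat_lit 0) (nat_lit 0) (XT.lf (nat_lit 0) (nat_lit 61923042225) (nat_lit 152) (nat_lit 344716267858) (nat_lit 0) (nat_lit 60057878168) (nat_lit 1) (nat_lit 5) (nat_lit 3) (nat_lit 4) (nat_lit 1) (nat_lit 4) (nat_lit 242) (nat_lit 186) (nat_lit 172)) (XT.lf (nat_lit 0) (nat_lit 72989261408) (nat_lit 152) (nat_lit 392457447470) (nat_lit 0) (nat_lit 71084055540) (nat_lit 1) (nat_lit 5) (nat_lit 3) (nat_lit 4) (nat_lit 1) (nat_lit 4) (nat_lit 243) (nat_lit 186) (nat_lit 171))) (XT.nd (nat_lit 78) (nat_lit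 0) (nat_lit 0) (XT.lf (nat_lit 0) (nat_lit 85658067788) (nat_lit 152) (nat_lit 447467927942) (nat_lit 0) (nat_lit 83718042952) (nat_lit 1) (nat_lit 5) (nat_lit 3) (nat_lit 4) (nat_lit 1) (nat_lit 4) (nat_lit 244) (nat_lit 186) (nat_lit 170)) (XT.nd (nat_lit 78) (nat_lit 0) (nat_lit 0) (XT.lf (nat_lit 0) (nat_lit 100177329315) (nat_lit 152) (nat_lit 510824001284) (nat_lit 0) (nat_lit 98207027117) (nat_lit 1) (nat_lit 5) (nat_lit 3) (nat_lit 4) (nat_lit 1) (nat_lit 4) (nat_lit 245) (nat_lit 186) (nat_lit 169)) (XT.lf (nat_lit 0) (nat_lit 116831118498) (nat_lit 152) (nat_lit 583765242845) (nat_lit 0) (nat_lit 114834488158) (nat_lit 1) (nat_lit 5) (nat_lit 3) (nat_lit 4) (nat_lit 1) (nat_lit 4) (nat_lit 246) (nat_lit 186) (nat_lit 168))))) (XT.nd (nat_lit 156) (nat_lit 0) (nat_lit 0) (XT.nd (nat_lit 78) (nat_lit 0) (nat_lit 0) (XT.lf (nat_lit 0) (nat_lit 135945270342) (nat_lit 152) (nat_lit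 667718763871) (nat_lit 0) (nat_lit 133925745966) (nat_lit 1) (nat_lit 5) (nat_lit 3) (nat_lit 4) (nat_lit 1) (nat_lit 4) (nat_lit 247) (nat_lit 186) (nat_lit 167)) (XT.lf (nat_lit 0) (nat_lit 157893757383) (nat_lit 152) (nat_lit 764327133254) (nat_lit 0) (nat_lit 155854325150) (nat_lit 1) (nat_lit 5) (nat_lit 3) (nat_lit 4) (nat_lit 1) (nat_lit 4) (nat_lit 248) (nat_lit 186) (nat_lit 166))) (XT.nd (nat_lit 78) (nat_lit 0) (nat_lit 0) (XT.lf (nat_lit 0) (nat_lit 183106006542) (nat_lit 152) (nat_lit 875480514740) (nat_lit 0) (nat_lit 181049263129) (nat_lit 1) (nat_lit 5) (nat_lit 3) (nat_lit 4) (nat_lit 1) (nat_lit 4) (nat_lit 249) (nat_lit 186) (nat_lit 165)) (XT.nd (nat_lit 78) (nat_lit 0) (nat_lit 0) (XT.lf (nat_lit 0) (nat_lit 212075300955) (nat_lit 152) (nat_lit 1003353648404) (nat_lit 0) (nat_lit 210003504341) (nat_lit 1) (nat_lit 5) (nat_lit 3) (nat_lit 4) (nat_lit 1) (nat_lit 4)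 (nat_lit 250) (nat_lit 186) (nat_lit 164)) (XT.lf (nat_lit 0) (nat_lit 245368431164) (nat_lit 152) (nat_lit 1150448399903) (nat_lit 0) (nat_lit 243283544811) (nat_lit 1) (nat_lit 5) (nat_lit 3) (nat_lit 4) (nat_lit 1) (nat_lit 4) (nat_lit 251) (nat_lit 186) (nat_lit 163)))))) (XT.nd (nat_lit 390) (nat_lit 0) (nat_lit 0) (XT.nd (nat_lit 156) (nat_lit 0) (nat_lit 0) (XT.nd (nat_lit 78) (nat_lit 0) (nat_lit 0) (XT.lf (nat_lit 0) (nat_lit 283636784499) (nat_lit 152) (nat_lit 1319642710029) (nat_lit 0) (nat_lit 281540515764) (nat_lit 1) (nat_lit 5) (nat_lit 3) (nat_lit 4) (nat_lit 1) (nat_lit 4) (nat_lit 252) (nat_lit 186) (nat_lit 162)) (XT.lf (nat_lit 0) (nat_lit 327629089613) (nat_lit 152) (nat_lit 1514246902239) (nat_lit 0) (nat_lit 325522923155) (nat_lit 1) (nat_lit 5) (nat_lit 3) (nat_lit 4) (nat_lit 1) (nat_lit 4) (nat_lit 253) (nat_lit 186) (nat_lit 161))) (XT.nd (nat_lit 78) (nat_lit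 0) (nat_lit 0) (XT.lf (nat_lit 0) (nat_lit 378206065520) (nat_lit 152) (nat_lit 1738068449860) (nat_lit 0) (nat_lit 376091292345) (nat_lit 1) (nat_lit 5) (nat_lit 3) (nat_lit 4) (nat_lit 1) (nat_lit 4) (nat_lit 254) (nat_lit 186) (nat_lit 160)) (XT.nd (nat_lit 78) (nat_lit 0) (nat_lit 0) (XT.lf (nat_lit 0) (nat_lit 436357261746) (nat_lit 152) (nat_lit 1995486470127) (nat_lit 0) (nat_lit 434235004470) (nat_lit 1) (nat_lit 5) (nat_lit 3) (nat_lit 4) (nat_lit 1) (nat_lit 4) (nat_lit 255) (nat_lit 186) (nat_lit 159)) (XT.lf (nat_lit 0) (nat_lit 503220419089) (nat_lit 152) (nat_lit 2291537402568) (nat_lit 0) (nat_lit 501091653899) (nat_lit 1) (nat_lit 5) (nat_lit 3) (nat_lit 4) (nat_lit 1) (nat_lit 4) (nat_lit 256) (nat_lit 186) (nat_lit 158))))) (XT.nd (nat_lit 234) (nat_lit 0) (nat_lit 0) (XT.nd (nat_lit 78) (nat_lit 0) (nat_lit 0) (XT.lf (nat_lit 0) (nat_lit 580103729757) (nat_lit 152)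 (nat_lit 2632013548035) (nat_lit 0) (nat_lit 577969305511) (nat_lit 1) (nat_lit 5) (nat_lit 3) (nat_lit 4) (nat_lit 1) (nat_lit 4) (nat_lit 257) (nat_lit 186) (nat_lit 157)) (XT.nd (nat_lit 78) (nat_lit 0) (nat_lit 0) (XT.lf (nat_lit 0) (nat_lit 668511432436) (nat_lit 152) (nat_lit 3023576396331) (nat_lit 0) (nat_lit 666372087273) (nat_lit 1) (nat_lit 5) (nat_lit 3) (nat_lit 4) (nat_lit 1) (nat_lit 4) (nat_lit 258) (nat_lit 186) (nat_lit 156)) (XT.lf (nat_lit 0) (nat_lit 770173243050) (nat_lit 152) (nat_lit 3473886959704) (nat_lit 0) (nat_lit 768029618828) (nat_lit 1) (nat_lit 5) (nat_lit 3) (nat_lit 4) (nat_lit 1) (nat_lit 4) (nat_lit 259) (nat_lit 186) (nat_lit 155)))) (XT.nd (nat_lit 78) (nat_lit 0) (nat_lit 0) (XT.lf (nat_lit 0) (nat_lit 887078197023) (nat_lit 152) (nat_lit 3991755662221) (nat_lit 0) (nat_lit 884930851880) (nat_lit 1) (nat_lit 5) (nat_lit 3) (nat_lit 4) (nat_lit 1)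 (nat_lit 4) (nat_lit 260) (nat_lit 186) (nat_lit 154)) (XT.nd (nat_lit 78) (nat_lit 0) (nat_lit 0) (XT.lf (nat_lit 0) (nat_lit 1021513565194) (nat_lit 152) (nat_lit 4587314717627) (nat_lit 0) (nat_lit 1019362984467) (nat_lit 1) (nat_lit 5) (nat_lit 3) (nat_lit 4) (nat_lit 1) (nat_lit 4) (nat_lit 261) (nat_lit 186) (nat_lit 153)) (XT.lf (nat_lit 0) (nat_lit 1176109604765) (nat_lit 152) (nat_lit 5272216368310) (nat_lit 0) (nat_lit 1173956210488) (nat_lit 1) (nat_lit 5) (nat_lit 3) (nat_lit 4) (nat_lit 1) (nat_lit 4) (nat_lit 262) (nat_lit 186) (nat_lit 152))))))))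
noncomputable def xc8 : XT := (XT.nd (nat_lit 1560) (nat_lit 0) (nat_lit 0) (XT.nd (nat_lit 780) (nat_lit 0) (nat_lit 0) (XT.nd (nat_lit 390) (nat_lit 152) (nat_lit 0) (XT.nd (nat_lit 156) (nat_lit 0) (nat_lit 0) (XT.nd (nat_lit 78) (nat_lit 0) (nat_lit 0) (XT.lf (nat_lit 0) (nat_lit 10968485649) (nat_lit 76) (nat_lit 7445343751) (nat_lit 76) (nat_lit 7445343751) (nat_lit 3) (nat_lit 4) (nat_lit 4) (nat_lit 5) (nat_lit 4) (nat_lit 4) (nat_lit 226) (nat_lit 187) (nat_lit 187)) (XT.lf (nat_lit 0) (nat_lit 34475747134) (nat_lit 76) (nat_lit 12472257768) (nat_lit 76) (nat_lit 12120369260) (nat_lit 3) (nat_lit 4) (nat_lit 4) (nat_lit 5) (nat_lit 4) (nat_lit 4) (nat_lit 227) (nat_lit 187) (nat_lit 186))) (XT.nd (nat_lit 78) (nat_lit 0) (nat_lit 0) (XT.lf (nat_lit 0) (nat_lit 48109422553) (nat_lit 76) (nat_lit 10052005324) (nat_lit 76) (nat_lit 9394126810) (nat_lit 3) (nat_lit 4) (nat_lit 4)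 (nat_lit 5) (nat_lit 4) (nat_lit 4) (nat_lit 228) (nat_lit 187) (nat_lit 185)) (XT.nd (nat_lit 78) (nat_lit 0) (nat_lit 0) (XT.lf (nat_lit 0) (nat_lit 63104743380) (nat_lit 76) (nat_lit 7582577407) (nat_lit 76) (nat_lit 6658620626) (nat_lit 3) (nat_lit 4) (nat_lit 4) (nat_lit 5) (nat_lit 4) (nat_lit 4) (nat_lit 229) (nat_lit 187) (nat_lit 184)) (XT.lf (nat_lit 0) (nat_lit 79755096328) (nat_lit 76) (nat_lit 5015659122) (nat_lit 76) (nat_lit 3860329935) (nat_lit 3) (nat_lit 4) (nat_lit 4) (nat_lit 5) (nat_lit 4) (nat_lit 4) (nat_lit 230) (nat_lit 187) (nat_lit 183))))) (XT.nd (nat_lit 156) (nat_lit 0) (nat_lit 0) (XT.nd (nat_lit 78) (nat_lit 152) (nat_lit 0) (XT.lf (nat_lit 0) (nat_lit 98386249170) (nat_lit 76) (nat_lit 2301028154) (nat_lit 76) (nat_lit 944505571) (nat_lit 3) (nat_lit 4) (nat_lit 4) (nat_lit 5) (nat_lit 4) (nat_lit 4) (nat_lit 231) (nat_lit 187) (nat_lit 182)) (XT.lf (nat_lit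 0) (nat_lit 2125028396) (nat_lit 152) (nat_lit 113759322891) (nat_lit 0) (nat_lit 706997504) (nat_lit 1) (nat_lit 5) (nat_lit 3) (nat_lit 4) (nat_lit 1) (nat_lit 4) (nat_lit 232) (nat_lit 187) (nat_lit 181))) (XT.nd (nat_lit 78) (nat_lit 0) (nat_lit 0) (XT.lf (nat_lit 0) (nat_lit 5529247266) (nat_lit 152) (nat_lit 124299170509) (nat_lit 0) (nat_lit 3970354233) (nat_lit 1) (nat_lit 5) (nat_lit 3) (nat_lit 4) (nat_lit 1) (nat_lit 4) (nat_lit 233) (nat_lit 187) (nat_lit 180)) (XT.nd (nat_lit 78) (nat_lit 0) (nat_lit 0) (XT.lf (nat_lit 0) (nat_lit 9242363955) (nat_lit 152) (nat_lit 136800361842) (nat_lit 0) (nat_lit 7560982104) (nat_lit 1) (nat_lit 5) (nat_lit 3) (nat_lit 4) (nat_lit 1) (nat_lit 4) (nat_lit 234) (nat_lit 187) (nat_lit 179)) (XT.lf (nat_lit 0) (nat_lit 13337026399) (nat_lit 152) (nat_lit 151507485415) (nat_lit 0) (nat_lit 11549132532) (nat_lit 1) (nat_lit 5) (nat_lit 3) (nat_lit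 4) (nat_lit 1) (nat_lit 4) (nat_lit 235) (nat_lit 187) (nat_lit 178)))))) (XT.nd (nat_lit 390) (nat_lit 0) (nat_lit 0) (XT.nd (nat_lit 156) (nat_lit 0) (nat_lit 0) (XT.nd (nat_lit 78) (nat_lit 0) (nat_lit 0) (XT.lf (nat_lit 0) (nat_lit 17893347558) (nat_lit 152) (nat_lit 168708289299) (nat_lit 0) (nat_lit 16012834546) (nat_lit 1) (nat_lit 5) (nat_lit 3) (nat_lit 4) (nat_lit 1) (nat_lit 4) (nat_lit 236) (nat_lit 187) (nat_lit 177)) (XT.lf (nat_lit 0) (nat_lit 23000472846) (nat_lit 152) (nat_lit 188739310960) (nat_lit 0) (nat_lit 21039421448) (nat_lit 1) (nat_lit 5) (nat_lit 3) (nat_lit 4) (nat_lit 1) (nat_lit 4) (nat_lit 237) (nat_lit 187) (nat_lit 176))) (XT.nd (nat_lit 78) (nat_lit 0) (nat_lit 0) (XT.lf (nat_lit 0) (nat_lit 28758324280) (nat_lit 152) (nat_lit 211992461692) (nat_lit 0) (nat_lit 26727239502) (nat_lit 1) (nat_lit 5) (nat_lit 3) (nat_lit 4) (nat_lit 1) (nat_lit 4) (nat_lit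 238) (nat_lit 187) (nat_lit 175)) (XT.nd (nat_lit 78) (nat_lit 0) (nat_lit 0) (XT.lf (nat_lit 0) (nat_lit 35279555474) (nat_lit 152) (nat_lit 238922694445) (nat_lit 0) (nat_lit 33187572105) (nat_lit 1) (nat_lit 5) (nat_lit 3) (nat_lit 4) (nat_lit 1) (nat_lit 4) (nat_lit 239) (nat_lit 187) (nat_lit 174)) (XT.lf (nat_lit 0) (nat_lit 42691755735) (nat_lit 152) (nat_lit 270056905076) (nat_lit 0) (nat_lit 40546817070) (nat_lit 1) (nat_lit 5) (nat_lit 3) (nat_lit 4) (nat_lit 1) (nat_lit 4) (nat_lit 240) (nat_lit 187) (nat_lit 173))))) (XT.nd (nat_lit 156) (nat_lit 0) (nat_lit 0) (XT.nd (nat_lit 78) (nat_lit 0) (nat_lit 0) (XT.lf (nat_lit 0) (nat_lit 51139946372) (nat_lit 152) (nat_lit 306004241185) (nat_lit 0) (nat_lit 48948959623) (nat_lit 1) (nat_lit 5) (nat_lit 3) (nat_lit 4) (nat_lit 1) (nat_lit 4) (nat_lit 241) (nat_lit 187) (nat_lit 172)) (XT.lf (nat_lit 0) (nat_lit 60789418071) (nat_lit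 152) (nat_lit 347468020218) (nat_lit 0) (nat_lit 58558389510) (nat_lit 1) (nat_lit 5) (nat_lit 3) (nat_lit 4) (nat_lit 1) (nat_lit 4) (nat_lit 242) (nat_lit 187) (nat_lit 171))) (XT.nd (nat_lit 78) (nat_lit 0) (nat_lit 0) (XT.lf (nat_lit 0) (nat_lit 71828964844) (nat_lit 152) (nat_lit 395259490024) (nat_lit 0) (nat_lit 69563117316) (nat_lit 1) (nat_lit 5) (nat_lit 3) (nat_lit 4) (nat_lit 1) (nat_lit 4) (nat_lit 243) (nat_lit 187) (nat_lit 170)) (XT.nd (nat_lit 78) (nat_lit 0) (nat_lit 0) (XT.lf (nat_lit 0) (nat_lit 84474577824) (nat_lit 152) (nat_lit 450313701100) (nat_lit 0) (nat_lit 82178452934) (nat_lit 1) (nat_lit 5) (nat_lit 3) (nat_lit 4) (nat_lit 1) (nat_lit 4) (nat_lit 244) (nat_lit 187) (nat_lit 169)) (XT.lf (nat_lit 0) (nat_lit 98973671178) (nat_lit 152) (nat_lit 513707801055) (nat_lit 0) (nat_lit 96651218146) (nat_lit 1) (nat_lit 5) (nat_lit 3) (nat_lit 4) (nat_lit 1) (nat_lit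 4) (nat_lit 245) (nat_lit 187) (nat_lit 168))))))) (XT.nd (nat_lit 780) (nat_lit 0) (nat_lit 0) (XT.nd (nat_lit 390) (nat_lit 0) (nat_lit 0) (XT.nd (nat_lit 156) (nat_lit 0) (nat_lit 0) (XT.nd (nat_lit 78) (nat_lit 0) (nat_lit 0) (XT.lf (nat_lit 0) (nat_lit 115609922818) (nat_lit 152) (nat_lit 586682109235) (nat_lit 0) (nat_lit 113264575750) (nat_lit 1) (nat_lit 5) (nat_lit 3) (nat_lit 4) (nat_lit 1) (nat_lit 4) (nat_lit 246) (nat_lit 187) (nat_lit 167)) (XT.lf (nat_lit 0) (nat_lit 134708824625) (nat_lit 152) (nat_lit 670664383844) (nat_lit 0) (nat_lit 132343569700) (nat_lit 1) (nat_lit 5) (nat_lit 3) (nat_lit 4) (nat_lit 1) (nat_lit 4) (nat_lit 247) (nat_lit 187) (nat_lit 166))) (XT.nd (nat_lit 78) (nat_lit 0) (nat_lit 0) (XT.lf (nat_lit 0) (nat_lit 156644050765) (nat_lit 152) (nat_lit 767297756341) (nat_lit 0) (nat_lit 154261484659) (nat_lit 1) (nat_lit 5) (nat_lit 3) (nat_lit 4) (nat_lit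 1) (nat_lit 4) (nat_lit 248) (nat_lit 187) (nat_lit 165)) (XT.nd (nat_lit 78) (nat_lit 0) (nat_lit 0) (XT.lf (nat_lit 0) (nat_lit 181844768705) (nat_lit 152) (nat_lit 878472879667) (nat_lit 0) (nat_lit 179447149399) (nat_lit 1) (nat_lit 5) (nat_lit 3) (nat_lit 4) (nat_lit 1) (nat_lit 4) (nat_lit 249) (nat_lit 187) (nat_lit 164)) (XT.lf (nat_lit 0) (nat_lit 210804035971) (nat_lit 152) (nat_lit 1006364919278) (nat_lit 0) (nat_lit 208393326926) (nat_lit 1) (nat_lit 5) (nat_lit 3) (nat_lit 4) (nat_lit 1) (nat_lit 4) (nat_lit 250) (nat_lit 187) (nat_lit 163))))) (XT.nd (nat_lit 156) (nat_lit 0) (nat_lit 0) (XT.nd (nat_lit 78) (nat_lit 0) (nat_lit 0) (XT.lf (nat_lit 0) (nat_lit 244088446922) (nat_lit 152) (nat_lit 1153476110731) (nat_lit 0) (nat_lit 241666355495) (nat_lit 1) (nat_lit 5) (nat_lit 3) (nat_lit 4) (nat_lit 1) (nat_lit 4) (nat_lit 251) (nat_lit 187) (nat_lit 162)) (XT.lf (nat_lit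 0) (nat_lit 282349218294) (nat_lit 152) (nat_lit 1322684716468) (nat_lit 0) (nat_lit 279917229143) (nat_lit 1) (nat_lit 5) (nat_lit 3) (nat_lit 4) (nat_lit 1) (nat_lit 4) (nat_lit 252) (nat_lit 187) (nat_lit 161))) (XT.nd (nat_lit 78) (nat_lit 0) (nat_lit 0) (XT.lf (nat_lit 0) (nat_lit 326334930397) (nat_lit 152) (nat_lit 1517301339645) (nat_lit 0) (nat_lit 323894334529) (nat_lit 1) (nat_lit 5) (nat_lit 3) (nat_lit 4) (nat_lit 1) (nat_lit 4) (nat_lit 253) (nat_lit 187) (nat_lit 160)) (XT.nd (nat_lit 78) (nat_lit 0) (nat_lit 0) (XT.lf (nat_lit 0) (nat_lit 376906173249) (nat_lit 152) (nat_lit 1741133696803) (nat_lit 0) (nat_lit 374458093281) (nat_lit 1) (nat_lit 5) (nat_lit 3) (nat_lit 4) (nat_lit 1) (nat_lit 4) (nat_lit 254) (nat_lit 187) (nat_lit 159)) (XT.lf (nat_lit 0) (nat_lit 435052384211) (nat_lit 152) (nat_lit 1998561116667) (nat_lit 0) (nat_lit 432597796329) (nat_lit 1) (nat_lit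 5) (nat_lit 3) (nat_lit 4) (nat_lit 1) (nat_lit 4) (nat_lit 255) (nat_lit 187) (nat_lit 158)))))) (XT.nd (nat_lit 390) (nat_lit 0) (nat_lit 0) (XT.nd (nat_lit 156) (nat_lit 0) (nat_lit 0) (XT.nd (nat_lit 78) (nat_lit 0) (nat_lit 0) (XT.lf (nat_lit 0) (nat_lit 501911206542) (nat_lit 152) (nat_lit 2294620222671) (nat_lit 0) (nat_lit 499450959604) (nat_lit 1) (nat_lit 5) (nat_lit 3) (nat_lit 4) (nat_lit 1) (nat_lit 4) (nat_lit 256) (nat_lit 187) (nat_lit 157)) (XT.lf (nat_lit 0) (nat_lit 578790747634) (nat_lit 152) (nat_lit 2635103475584) (nat_lit 0) (nat_lit 576325579778) (nat_lit 1) (nat_lit 5) (nat_lit 3) (nat_lit 4) (nat_lit 1) (nat_lit 4) (nat_lit 257) (nat_lit 187) (nat_lit 156))) (XT.nd (nat_lit 78) (nat_lit 0) (nat_lit 0) (XT.lf (nat_lit 0) (nat_lit 667195172421) (nat_lit 152) (nat_lit 3026672504267) (nat_lit 0) (nat_lit 664725725507) (nat_lit 1) (nat_lit 5) (nat_lit 3) (nat_lit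 4) (nat_lit 1) (nat_lit 4) (nat_lit 258) (nat_lit 187) (nat_lit 155)) (XT.nd (nat_lit 78) (nat_lit 0) (nat_lit 0) (XT.lf (nat_lit 0) (nat_lit 768854132694) (nat_lit 152) (nat_lit 3476988441891) (nat_lit 0) (nat_lit 766380964859) (nat_lit 1) (nat_lit 5) (nat_lit 3) (nat_lit 4) (nat_lit 1) (nat_lit 4) (nat_lit 259) (nat_lit 187) (nat_lit 154)) (XT.lf (nat_lit 0) (nat_lit 885756608110) (nat_lit 152) (nat_lit 3994861817669) (nat_lit 0) (nat_lit 883280204691) (nat_lit 1) (nat_lit 5) (nat_lit 3) (nat_lit 4) (nat_lit 1) (nat_lit 4) (nat_lit 260) (nat_lit 187) (nat_lit 153))))) (XT.nd (nat_lit 28392) (nat_lit 0) (nat_lit 152) (XT.nd (nat_lit 78) (nat_lit 0) (nat_lit 0) (XT.lf (nat_lit 0) (nat_lit 1020189821013) (nat_lit 152) (nat_lit 4590424936780) (nat_lit 0) (nat_lit 1017710604044) (nat_lit 1) (nat_lit 5) (nat_lit 3) (nat_lit 4) (nat_lit 1) (nat_lit 4) (nat_lit 261) (nat_lit 187) (nat_lit 152))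 (XT.lf (nat_lit 0) (nat_lit 1174783986439) (nat_lit 152) (nat_lit 5275330121119) (nat_lit 0) (nat_lit 1172302322904) (nat_lit 1) (nat_lit 5) (nat_lit 3) (nat_lit 4) (nat_lit 1) (nat_lit 4) (nat_lit 262) (nat_lit 187) (nat_lit 151))) (XT.nd (nat_lit 78) (nat_lit 76) (nat_lit 0) (XT.lf (nat_lit 0) (nat_lit 9882935546) (nat_lit 152) (nat_lit 160130212) (nat_lit 0) (nat_lit 9882935546) (nat_lit 4) (nat_lit 5) (nat_lit 6) (nat_lit 4) (nat_lit 4) (nat_lit 4) (nat_lit 224) (nat_lit 188) (nat_lit 188)) (XT.nd (nat_lit 78) (nat_lit 0) (nat_lit 0) (XT.lf (nat_lit 0) (nat_lit 10247771174) (nat_lit 76) (nat_lit 17759283416) (nat_lit 76) (nat_lit 17354611632) (nat_lit 3) (nat_lit 4) (nat_lit 4) (nat_lit 5) (nat_lit 4) (nat_lit 4) (nat_lit 225) (nat_lit 188) (nat_lit 187)) (XT.lf (nat_lit 0) (nat_lit 21516597202) (nat_lit 76) (nat_lit 15488421154) (nat_lit 76) (nat_lit 14731860862) (nat_lit 3) (nat_lit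 4) (nat_lit 4) (nat_lit 5) (nat_lit 4) (nat_lit 4) (nat_lit 226) (nat_lit 188) (nat_lit 186))))))))
noncomputable def xc9 : XT := (XT.nd (nat_lit 1560) (nat_lit 0) (nat_lit 0) (XT.nd (nat_lit 780) (nat_lit 0) (nat_lit 0) (XT.nd (nat_lit 390) (nat_lit 152) (nat_lit 0) (XT.nd (nat_lit 156) (nat_lit 0) (nat_lit 0) (XT.nd (nat_lit 78) (nat_lit 0) (nat_lit 0) (XT.lf (nat_lit 0) (nat_lit 33689830343) (nat_lit 76) (nat_lit 13237871303) (nat_lit 76) (nat_lit 12175321005) (nat_lit 3) (nat_lit 4) (nat_lit 4) (nat_lit 5) (nat_lit 4) (nat_lit 4) (nat_lit 227) (nat_lit 188) (nat_lit 185)) (XT.lf (nat_lit 0) (nat_lit 47005642551) (nat_lit 76) (nat_lit 10963601368) (nat_lit 76) (nat_lit 9634972803) (nat_lit 3) (nat_lit 4) (nat_lit 4) (nat_lit 5) (nat_lit 4) (nat_lit 4) (nat_lit 228) (nat_lit 188) (nat_lit 184))) (XT.nd (nat_lit 78) (nat_lit 0) (nat_lit 0) (XT.lf (nat_lit 0) (nat_lit 61724560586) (nat_lit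 76) (nat_lit 8621114762) (nat_lit 76) (nat_lit 7061113791) (nat_lit 3) (nat_lit 4) (nat_lit 4) (nat_lit 5) (nat_lit 4) (nat_lit 4) (nat_lit 229) (nat_lit 188) (nat_lit 183)) (XT.nd (nat_lit 78) (nat_lit 0) (nat_lit 0) (XT.lf (nat_lit 0) (nat_lit 78134563278) (nat_lit 76) (nat_lit 6164580226) (nat_lit 76) (nat_lit 4403385859) (nat_lit 3) (nat_lit 4) (nat_lit 4) (nat_lit 5) (nat_lit 4) (nat_lit 4) (nat_lit 230) (nat_lit 188) (nat_lit 182)) (XT.lf (nat_lit 0) (nat_lit 96556715899) (nat_lit 76) (nat_lit 3545935127) (nat_lit 76) (nat_lit 1609789980) (nat_lit 3) (nat_lit 4) (nat_lit 4) (nat_lit 5) (nat_lit 4) (nat_lit 4) (nat_lit 231) (nat_lit 188) (nat_lit 181))))) (XT.nd (nat_lit 156) (nat_lit 0) (nat_lit 0) (XT.nd (nat_lit 78) (nat_lit 0) (nat_lit 0) (XT.lf (nat_lit 0) (nat_lit 660367612) (nat_lit 76) (nat_lit 661095787) (nat_lit 152) (nat_lit 115365687657) (nat_lit 1) (nat_lit 5) (nat_lit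 2) (nat_lit 5) (nat_lit 3) (nat_lit 4) (nat_lit 232) (nat_lit 188) (nat_lit 180)) (XT.lf (nat_lit 0) (nat_lit 4615952662) (nat_lit 152) (nat_lit 126727646378) (nat_lit 0) (nat_lit 2559874715) (nat_lit 1) (nat_lit 5) (nat_lit 3) (nat_lit 4) (nat_lit 1) (nat_lit 4) (nat_lit 233) (nat_lit 188) (nat_lit 179))) (XT.nd (nat_lit 78) (nat_lit 0) (nat_lit 0) (XT.lf (nat_lit 0) (nat_lit 8247477840) (nat_lit 152) (nat_lit 139382676566) (nat_lit 0) (nat_lit 6084887877) (nat_lit 1) (nat_lit 5) (nat_lit 3) (nat_lit 4) (nat_lit 1) (nat_lit 4) (nat_lit 234) (nat_lit 188) (nat_lit 178)) (XT.nd (nat_lit 78) (nat_lit 0) (nat_lit 0) (XT.lf (nat_lit 0) (nat_lit 12271191144) (nat_lit 152) (nat_lit 154223573058) (nat_lit 0) (nat_lit 10015982036) (nat_lit 1) (nat_lit 5) (nat_lit 3) (nat_lit 4) (nat_lit 1) (nat_lit 4) (nat_lit 235) (nat_lit 188) (nat_lit 177)) (XT.lf (nat_lit 0) (nat_lit 16765817398) (nat_lit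 152) (nat_lit 171540701218) (nat_lit 0) (nat_lit 14430069904) (nat_lit 1) (nat_lit 5) (nat_lit 3) (nat_lit 4) (nat_lit 1) (nat_lit 4) (nat_lit 236) (nat_lit 188) (nat_lit 176)))))) (XT.nd (nat_lit 390) (nat_lit 0) (nat_lit 0) (XT.nd (nat_lit 156) (nat_lit 0) (nat_lit 0) (XT.nd (nat_lit 78) (nat_lit 0) (nat_lit 0) (XT.lf (nat_lit 0) (nat_lit 21819294943) (nat_lit 152) (nat_lit 191672874425) (nat_lit 0) (nat_lit 19413514069) (nat_lit 1) (nat_lit 5) (nat_lit 3) (nat_lit 4) (nat_lit 1) (nat_lit 4) (nat_lit 237) (nat_lit 188) (nat_lit 175)) (XT.lf (nat_lit 0) (nat_lit 27530496165) (nat_lit 152) (nat_lit 215013983022) (nat_lit 0) (nat_lit 25063816701) (nat_lit 1) (nat_lit 5) (nat_lit 3) (nat_lit 4) (nat_lit 1) (nat_lit 4) (nat_lit 238) (nat_lit 188) (nat_lit 174))) (XT.nd (nat_lit 78) (nat_lit 0) (nat_lit 0) (XT.lf (nat_lit 0) (nat_lit 34011161959) (nat_lit 152) (nat_lit 242020700875) (nat_lit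 0) (nat_lit 31491527197) (nat_lit 1) (nat_lit 5) (nat_lit 3) (nat_lit 4) (nat_lit 1) (nat_lit 4) (nat_lit 239) (nat_lit 188) (nat_lit 173)) (XT.nd (nat_lit 78) (nat_lit 0) (nat_lit 0) (XT.lf (nat_lit 0) (nat_lit 41388087958) (nat_lit 152) (nat_lit 273221420289) (nat_lit 0) (nat_lit 38822405112) (nat_lit 1) (nat_lit 5) (nat_lit 3) (nat_lit 4) (nat_lit 1) (nat_lit 4) (nat_lit 240) (nat_lit 188) (nat_lit 172)) (XT.lf (nat_lit 0) (nat_lit 49805605323) (nat_lit 152) (nat_lit 309226590122) (nat_lit 0) (nat_lit 47199880666) (nat_lit 1) (nat_lit 5) (nat_lit 3) (nat_lit 4) (nat_lit 1) (nat_lit 4) (nat_lit 241) (nat_lit 188) (nat_lit 171))))) (XT.nd (nat_lit 156) (nat_lit 0) (nat_lit 0) (XT.nd (nat_lit 78) (nat_lit 0) (nat_lit 0) (XT.lf (nat_lit 0) (nat_lit 59428404613) (nat_lit 152) (nat_lit 350740659350) (nat_lit 0) (nat_lit 56787860989) (nat_lit 1) (nat_lit 5) (nat_lit 3) (nat_lit 4) (nat_lit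 1) (nat_lit 4) (nat_lit 242) (nat_lit 188) (nat_lit 170)) (XT.lf (nat_lit 0) (nat_lit 70444757987) (nat_lit 152) (nat_lit 398575859760) (nat_lit 0) (nat_lit 67773937000) (nat_lit 1) (nat_lit 5) (nat_lit 3) (nat_lit 4) (nat_lit 1) (nat_lit 4) (nat_lit 243) (nat_lit 188) (nat_lit 169))) (XT.nd (nat_lit 78) (nat_lit 0) (nat_lit 0) (XT.lf (nat_lit 0) (nat_lit 83070202793) (nat_lit 152) (nat_lit 453668097449) (nat_lit 0) (nat_lit 80373053665) (nat_lit 1) (nat_lit 5) (nat_lit 3) (nat_lit 4) (nat_lit 1) (nat_lit 4) (nat_lit 244) (nat_lit 188) (nat_lit 168)) (XT.nd (nat_lit 78) (nat_lit 0) (nat_lit 0) (XT.lf (nat_lit 0) (nat_lit 97551758604) (nat_lit 152) (nat_lit 517095264024) (nat_lit 0) (nat_lit 94831715440) (nat_lit 1) (nat_lit 5) (nat_lit 3) (nat_lit 4) (nat_lit 1) (nat_lit 4) (nat_lit 245) (nat_lit 188) (nat_lit 167)) (XT.lf (nat_lit 0) (nat_lit 114172760207) (nat_lit 152) (nat_lit 590098325786)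 (nat_lit 0) (nat_lit 111432809186) (nat_lit 1) (nat_lit 5) (nat_lit 3) (nat_lit 4) (nat_lit 1) (nat_lit 4) (nat_lit 246) (nat_lit 188) (nat_lit 166))))))) (XT.nd (nat_lit 780) (nat_lit 0) (nat_lit 0) (XT.nd (nat_lit 390) (nat_lit 0) (nat_lit 0) (XT.nd (nat_lit 156) (nat_lit 0) (nat_lit 0) (XT.nd (nat_lit 78) (nat_lit 0) (nat_lit 0) (XT.lf (nat_lit 0) (nat_lit 133258401113) (nat_lit 152) (nat_lit 674105603510) (nat_lit 0) (nat_lit 130501138911) (nat_lit 1) (nat_lit 5) (nat_lit 3) (nat_lit 4) (nat_lit 1) (nat_lit 4) (nat_lit 247) (nat_lit 188) (nat_lit 165)) (XT.lf (nat_lit 0) (nat_lit 155182096034) (nat_lit 152) (nat_lit 770760717846) (nat_lit 0) (nat_lit 152409780632) (nat_lit 1) (nat_lit 5) (nat_lit 3) (nat_lit 4) (nat_lit 1) (nat_lit 4) (nat_lit 248) (nat_lit 188) (nat_lit 164))) (XT.nd (nat_lit 78) (nat_lit 0) (nat_lit 0) (XT.lf (nat_lit 0) (nat_lit 180372786827) (nat_lit 152) (nat_lit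 881954747119) (nat_lit 0) (nat_lit 177587381686) (nat_lit 1) (nat_lit 5) (nat_lit 3) (nat_lit 4) (nat_lit 1) (nat_lit 4) (nat_lit 249) (nat_lit 188) (nat_lit 163)) (XT.nd (nat_lit 78) (nat_lit 0) (nat_lit 0) (XT.lf (nat_lit 0) (nat_lit 209323334835) (nat_lit 152) (nat_lit 1009863226683) (nat_lit 0) (nat_lit 206526547311) (nat_lit 1) (nat_lit 5) (nat_lit 3) (nat_lit 4) (nat_lit 1) (nat_lit 4) (nat_lit 250) (nat_lit 188) (nat_lit 162)) (XT.lf (nat_lit 0) (nat_lit 242600163823) (nat_lit 152) (nat_lit 1156988713749) (nat_lit 0) (nat_lit 239793478575) (nat_lit 1) (nat_lit 5) (nat_lit 3) (nat_lit 4) (nat_lit 1) (nat_lit 4) (nat_lit 251) (nat_lit 188) (nat_lit 161))))) (XT.nd (nat_lit 156) (nat_lit 0) (nat_lit 0) (XT.nd (nat_lit 78) (nat_lit 0) (nat_lit 0) (XT.lf (nat_lit 0) (nat_lit 280854342183) (nat_lit 152) (nat_lit 1326209750453) (nat_lit 0) (nat_lit 278039050219) (nat_lit 1) (nat_lit 5)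 (nat_lit 3) (nat_lit 4) (nat_lit 1) (nat_lit 4) (nat_lit 252) (nat_lit 188) (nat_lit 160)) (XT.lf (nat_lit 0) (nat_lit 324834321232) (nat_lit 152) (nat_lit 1520837183167) (nat_lit 0) (nat_lit 322011545167) (nat_lit 1) (nat_lit 5) (nat_lit 3) (nat_lit 4) (nat_lit 1) (nat_lit 4) (nat_lit 253) (nat_lit 188) (nat_lit 159))) (XT.nd (nat_lit 78) (nat_lit 0) (nat_lit 0) (XT.lf (nat_lit 0) (nat_lit 375400578820) (nat_lit 152) (nat_lit 1744678939921) (nat_lit 0) (nat_lit 372571294842) (nat_lit 1) (nat_lit 5) (nat_lit 3) (nat_lit 4) (nat_lit 1) (nat_lit 4) (nat_lit 254) (nat_lit 188) (nat_lit 158)) (XT.nd (nat_lit 78) (nat_lit 0) (nat_lit 0) (XT.lf (nat_lit 0) (nat_lit 433542454770) (nat_lit 152) (nat_lit 2002114533349) (nat_lit 0) (nat_lit 430707511736) (nat_lit 1) (nat_lit 5) (nat_lit 3) (nat_lit 4) (nat_lit 1) (nat_lit 4) (nat_lit 255) (nat_lit 188) (nat_lit 157)) (XT.lf (nat_lit 0) (nat_lit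 500397507525) (nat_lit 152) (nat_lit 2298180746798) (nat_lit 0) (nat_lit 497557643573) (nat_lit 1) (nat_lit 5) (nat_lit 3) (nat_lit 4) (nat_lit 1) (nat_lit 4) (nat_lit 256) (nat_lit 188) (nat_lit 156)))))) (XT.nd (nat_lit 390) (nat_lit 0) (nat_lit 0) (XT.nd (nat_lit 156) (nat_lit 0) (nat_lit 0) (XT.nd (nat_lit 78) (nat_lit 0) (nat_lit 0) (XT.lf (nat_lit 0) (nat_lit 577273770724) (nat_lit 152) (nat_lit 2638670180099) (nat_lit 0) (nat_lit 574429627714) (nat_lit 1) (nat_lit 5) (nat_lit 3) (nat_lit 4) (nat_lit 1) (nat_lit 4) (nat_lit 257) (nat_lit 188) (nat_lit 155)) (XT.lf (nat_lit 0) (nat_lit 665675345171) (nat_lit 152) (nat_lit 3030244583032) (nat_lit 0) (nat_lit 662827481240) (nat_lit 1) (nat_lit 5) (nat_lit 3) (nat_lit 4) (nat_lit 1) (nat_lit 4) (nat_lit 258) (nat_lit 188) (nat_lit 154))) (XT.nd (nat_lit 78) (nat_lit 0) (nat_lit 0) (XT.lf (nat_lit 0) (nat_lit 767331826887) (nat_lit 152)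 (nat_lit 3480565193916) (nat_lit 0) (nat_lit 764480727372) (nat_lit 1) (nat_lit 5) (nat_lit 3) (nat_lit 4) (nat_lit 1) (nat_lit 4) (nat_lit 259) (nat_lit 188) (nat_lit 153)) (XT.nd (nat_lit 78) (nat_lit 0) (nat_lit 0) (XT.lf (nat_lit 0) (nat_lit 884232147035) (nat_lit 152) (nat_lit 3998442633400) (nat_lit 0) (nat_lit 881378233969) (nat_lit 1) (nat_lit 5) (nat_lit 3) (nat_lit 4) (nat_lit 1) (nat_lit 4) (nat_lit 260) (nat_lit 188) (nat_lit 152)) (XT.lf (nat_lit 0) (nat_lit 1018663485793) (nat_lit 152) (nat_lit 4594009286167) (nat_lit 0) (nat_lit 1015807126161) (nat_lit 1) (nat_lit 5) (nat_lit 3) (nat_lit 4) (nat_lit 1) (nat_lit 4) (nat_lit 261) (nat_lit 188) (nat_lit 151))))) (XT.nd (nat_lit 28314) (nat_lit 0) (nat_lit 152) (XT.nd (nat_lit 28158) (nat_lit 0) (nat_lit 228) (XT.lf (nat_lit 0) (nat_lit 1173256021528) (nat_lit 152) (nat_lit 5278917543251) (nat_lit 0) (nat_lit 1170397534447)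 (nat_lit 1) (nat_lit 5) (nat_lit 3) (nat_lit 4) (nat_lit 1) (nat_lit 4) (nat_lit 262) (nat_lit 188) (nat_lit 150)) (XT.nd (nat_lit 78) (nat_lit 0) (nat_lit 0) (XT.lf (nat_lit 0) (nat_lit 3055654086) (nat_lit 152) (nat_lit 9365924733) (nat_lit 0) (nat_lit 3055654086) (nat_lit 4) (nat_lit 5) (nat_lit 6) (nat_lit 4) (nat_lit 4) (nat_lit 4) (nat_lit 222) (nat_lit 189) (nat_lit 189)) (XT.lf (nat_lit 0) (nat_lit 12812324644) (nat_lit 152) (nat_lit 9922675895) (nat_lit 0) (nat_lit 12346952092) (nat_lit 4) (nat_lit 5) (nat_lit 6) (nat_lit 4) (nat_lit 4) (nat_lit 4) (nat_lit 223) (nat_lit 189) (nat_lit 188)))) (XT.nd (nat_lit 78) (nat_lit 76) (nat_lit 0) (XT.lf (nat_lit 0) (nat_lit 19981461088) (nat_lit 152) (nat_lit 779507499) (nat_lit 0) (nat_lit 19111416752) (nat_lit 4) (nat_lit 5) (nat_lit 6) (nat_lit 4) (nat_lit 4) (nat_lit 4) (nat_lit 224) (nat_lit 189) (nat_lit 187)) (XT.nd (nat_lit 78)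 (nat_lit 0) (nat_lit 0) (XT.lf (nat_lit 0) (nat_lit 9343966865) (nat_lit 76) (nat_lit 18639738982) (nat_lit 76) (nat_lit 17417806139) (nat_lit 3) (nat_lit 4) (nat_lit 4) (nat_lit 5) (nat_lit 4) (nat_lit 4) (nat_lit 225) (nat_lit 189) (nat_lit 186)) (XT.lf (nat_lit 0) (nat_lit 20247250199) (nat_lit 76) (nat_lit 16536756604) (nat_lit 76) (nat_lit 15008833754) (nat_lit 3) (nat_lit 4) (nat_lit 4) (nat_lit 5) (nat_lit 4) (nat_lit 4) (nat_lit 226) (nat_lit 189) (nat_lit 185))))))))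
noncomputable def xc10 : XT := (XT.nd (nat_lit 1560) (nat_lit 0) (nat_lit 0) (XT.nd (nat_lit 780) (nat_lit 0) (nat_lit 0) (XT.nd (nat_lit 390) (nat_lit 152) (nat_lit 0) (XT.nd (nat_lit 156) (nat_lit 0) (nat_lit 0) (XT.nd (nat_lit 78) (nat_lit 0) (nat_lit 0) (XT.lf (nat_lit 0) (nat_lit 32102620129) (nat_lit 76) (nat_lit 14432189262) (nat_lit 76) (nat_lit 12638188145) (nat_lit 3) (nat_lit 4) (nat_lit 4) (nat_lit 5) (nat_lit 4) (nat_lit 4) (nat_lit 227) (nat_lit 189) (nat_lit 184)) (XT.lf (nat_lit 0) (nat_lit 45142029544) (nat_lit 76) (nat_lit 12284860638) (nat_lit 76) (nat_lit 10259487115) (nat_lit 3) (nat_lit 4) (nat_lit 4) (nat_lit 5) (nat_lit 4) (nat_lit 4) (nat_lit 228) (nat_lit 189) (nat_lit 183))) (XT.nd (nat_lit 78) (nat_lit 0) (nat_lit 0) (XT.lf (nat_lit 0) (nat_lit 59620597324) (nat_lit 76) (nat_lit 10052757781) (nat_lit 76) (nat_lit 7826190862) (nat_lit 3) (nat_lit 4) (nat_lit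 4) (nat_lit 5) (nat_lit 4) (nat_lit 4) (nat_lit 229) (nat_lit 189) (nat_lit 182)) (XT.nd (nat_lit 78) (nat_lit 0) (nat_lit 0) (XT.lf (nat_lit 0) (nat_lit 75821599796) (nat_lit 76) (nat_lit 7692209114) (nat_lit 76) (nat_lit 5290691415) (nat_lit 3) (nat_lit 4) (nat_lit 4) (nat_lit 5) (nat_lit 4) (nat_lit 4) (nat_lit 230) (nat_lit 189) (nat_lit 181)) (XT.lf (nat_lit 0) (nat_lit 94062013094) (nat_lit 76) (nat_lit 5157029988) (nat_lit 76) (nat_lit 2603381177) (nat_lit 3) (nat_lit 4) (nat_lit 4) (nat_lit 5) (nat_lit 4) (nat_lit 4) (nat_lit 231) (nat_lit 189) (nat_lit 180))))) (XT.nd (nat_lit 156) (nat_lit 0) (nat_lit 0) (XT.nd (nat_lit 78) (nat_lit 76) (nat_lit 0) (XT.lf (nat_lit 0) (nat_lit 273894844) (nat_lit 152) (nat_lit 2116235458) (nat_lit 76) (nat_lit 114417331256) (nat_lit 2) (nat_lit 5) (nat_lit 4) (nat_lit 5) (nat_lit 3) (nat_lit 4) (nat_lit 232) (nat_lit 189) (nat_lit 179)) (XT.lf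 (nat_lit 0) (nat_lit 3390242119) (nat_lit 152) (nat_lit 129851147167) (nat_lit 0) (nat_lit 796751645) (nat_lit 1) (nat_lit 5) (nat_lit 3) (nat_lit 4) (nat_lit 1) (nat_lit 4) (nat_lit 233) (nat_lit 189) (nat_lit 178))) (XT.nd (nat_lit 78) (nat_lit 0) (nat_lit 0) (XT.lf (nat_lit 0) (nat_lit 6950818157) (nat_lit 152) (nat_lit 142639950274) (nat_lit 0) (nat_lit 4264708538) (nat_lit 1) (nat_lit 5) (nat_lit 3) (nat_lit 4) (nat_lit 1) (nat_lit 4) (nat_lit 234) (nat_lit 189) (nat_lit 177)) (XT.nd (nat_lit 78) (nat_lit 0) (nat_lit 0) (XT.lf (nat_lit 0) (nat_lit 10912836556) (nat_lit 152) (nat_lit 157597171042) (nat_lit 0) (nat_lit 8146188551) (nat_lit 1) (nat_lit 5) (nat_lit 3) (nat_lit 4) (nat_lit 1) (nat_lit 4) (nat_lit 235) (nat_lit 189) (nat_lit 176)) (XT.lf (nat_lit 0) (nat_lit 15353815067) (nat_lit 152) (nat_lit 175015450748) (nat_lit 0) (nat_lit 12517133682) (nat_lit 1) (nat_lit 5) (nat_lit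 3) (nat_lit 4) (nat_lit 1) (nat_lit 4) (nat_lit 236) (nat_lit 189) (nat_lit 175)))))) (XT.nd (nat_lit 390) (nat_lit 0) (nat_lit 0) (XT.nd (nat_lit 156) (nat_lit 0) (nat_lit 0) (XT.nd (nat_lit 78) (nat_lit 0) (nat_lit 0) (XT.lf (nat_lit 0) (nat_lit 20360642401) (nat_lit 152) (nat_lit 195235581819) (nat_lit 0) (nat_lit 17463062425) (nat_lit 1) (nat_lit 5) (nat_lit 3) (nat_lit 4) (nat_lit 1) (nat_lit 4) (nat_lit 237) (nat_lit 189) (nat_lit 174)) (XT.lf (nat_lit 0) (nat_lit 26031278222) (nat_lit 152) (nat_lit 218653175517) (nat_lit 0) (nat_lit 23080742950) (nat_lit 1) (nat_lit 5) (nat_lit 3) (nat_lit 4) (nat_lit 1) (nat_lit 4) (nat_lit 238) (nat_lit 189) (nat_lit 173))) (XT.nd (nat_lit 78) (nat_lit 0) (nat_lit 0) (XT.lf (nat_lit 0) (nat_lit 32476669753) (nat_lit 152) (nat_lit 245726402153) (nat_lit 0) (nat_lit 29480086397) (nat_lit 1) (nat_lit 5) (nat_lit 3) (nat_lit 4) (nat_lit 1) (nat_lit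 4) (nat_lit 239) (nat_lit 189) (nat_lit 172)) (XT.nd (nat_lit 78) (nat_lit 0) (nat_lit 0) (XT.lf (nat_lit 0) (nat_lit 39822922481) (nat_lit 152) (nat_lit 276984955291) (nat_lit 0) (nat_lit 36786297313) (nat_lit 1) (nat_lit 5) (nat_lit 3) (nat_lit 4) (nat_lit 1) (nat_lit 4) (nat_lit 240) (nat_lit 189) (nat_lit 171)) (XT.lf (nat_lit 0) (nat_lit 48213767437) (nat_lit 152) (nat_lit 313040415319) (nat_lit 0) (nat_lit 45142323302) (nat_lit 1) (nat_lit 5) (nat_lit 3) (nat_lit 4) (nat_lit 1) (nat_lit 4) (nat_lit 241) (nat_lit 189) (nat_lit 170))))) (XT.nd (nat_lit 156) (nat_lit 0) (nat_lit 0) (XT.nd (nat_lit 78) (nat_lit 0) (nat_lit 0) (XT.lf (nat_lit 0) (nat_lit 57813373327) (nat_lit 152) (nat_lit 354598215151) (nat_lit 0) (nat_lit 54711651829) (nat_lit 1) (nat_lit 5) (nat_lit 3) (nat_lit 4) (nat_lit 1) (nat_lit 4) (nat_lit 242) (nat_lit 189) (nat_lit 169)) (XT.lf (nat_lit 0) (nat_lit 68809558527)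 (nat_lit 152) (nat_lit 402471442174) (nat_lit 0) (nat_lit 65681508888) (nat_lit 1) (nat_lit 5) (nat_lit 3) (nat_lit 4) (nat_lit 1) (nat_lit 4) (nat_lit 243) (nat_lit 189) (nat_lit 168))) (XT.nd (nat_lit 78) (nat_lit 0) (nat_lit 0) (XT.lf (nat_lit 0) (nat_lit 81417465790) (nat_lit 152) (nat_lit 457596746483) (nat_lit 0) (nat_lit 78266522116) (nat_lit 1) (nat_lit 5) (nat_lit 3) (nat_lit 4) (nat_lit 1) (nat_lit 4) (nat_lit 244) (nat_lit 189) (nat_lit 167)) (XT.nd (nat_lit 78) (nat_lit 0) (nat_lit 0) (XT.lf (nat_lit 0) (nat_lit 95883771565) (nat_lit 152) (nat_lit 521052666639) (nat_lit 0) (nat_lit 92712920032) (nat_lit 1) (nat_lit 5) (nat_lit 3) (nat_lit 4) (nat_lit 1) (nat_lit 4) (nat_lit 245) (nat_lit 189) (nat_lit 166)) (XT.lf (nat_lit 0) (nat_lit 112491512266) (nat_lit 152) (nat_lit 594080731516) (nat_lit 0) (nat_lit 109303349554) (nat_lit 1) (nat_lit 5) (nat_lit 3) (nat_lit 4) (nat_lit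 1) (nat_lit 4) (nat_lit 246) (nat_lit 189) (nat_lit 165))))))) (XT.nd (nat_lit 780) (nat_lit 0) (nat_lit 0) (XT.nd (nat_lit 390) (nat_lit 0) (nat_lit 0) (XT.nd (nat_lit 156) (nat_lit 0) (nat_lit 0) (XT.nd (nat_lit 78) (nat_lit 0) (nat_lit 0) (XT.lf (nat_lit 0) (nat_lit 131565621953) (nat_lit 152) (nat_lit 678109751079) (nat_lit 0) (nat_lit 128362406040) (nat_lit 1) (nat_lit 5) (nat_lit 3) (nat_lit 4) (nat_lit 1) (nat_lit 4) (nat_lit 247) (nat_lit 189) (nat_lit 164)) (XT.lf (nat_lit 0) (nat_lit 153479289727) (nat_lit 152) (nat_lit 774783771362) (nat_lit 0) (nat_lit 150262984075) (nat_lit 1) (nat_lit 5) (nat_lit 3) (nat_lit 4) (nat_lit 1) (nat_lit 4) (nat_lit 248) (nat_lit 189) (nat_lit 163))) (XT.nd (nat_lit 78) (nat_lit 0) (nat_lit 0) (XT.lf (nat_lit 0) (nat_lit 178661261263) (nat_lit 152) (nat_lit 885994240589) (nat_lit 0) (nat_lit 175433573229) (nat_lit 1) (nat_lit 5) (nat_lit 3) (nat_lit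 4) (nat_lit 1) (nat_lit 4) (nat_lit 249) (nat_lit 189) (nat_lit 162)) (XT.nd (nat_lit 78) (nat_lit 0) (nat_lit 0) (XT.lf (nat_lit 0) (nat_lit 207604227307) (nat_lit 152) (nat_lit 1013917015766) (nat_lit 0) (nat_lit 204366641549) (nat_lit 1) (nat_lit 5) (nat_lit 3) (nat_lit 4) (nat_lit 1) (nat_lit 4) (nat_lit 250) (nat_lit 189) (nat_lit 161)) (XT.lf (nat_lit 0) (nat_lit 240874463283) (nat_lit 152) (nat_lit 1161054933798) (nat_lit 0) (nat_lit 237628270809) (nat_lit 1) (nat_lit 5) (nat_lit 3) (nat_lit 4) (nat_lit 1) (nat_lit 4) (nat_lit 251) (nat_lit 189) (nat_lit 160))))) (XT.nd (nat_lit 156) (nat_lit 0) (nat_lit 0) (XT.nd (nat_lit 78) (nat_lit 0) (nat_lit 0) (XT.lf (nat_lit 0) (nat_lit 279122908589) (nat_lit 152) (nat_lit 1330286780039) (nat_lit 0) (nat_lit 275869232014) (nat_lit 1) (nat_lit 5) (nat_lit 3) (nat_lit 4) (nat_lit 1) (nat_lit 4) (nat_lit 252) (nat_lit 189) (nat_lit 159)) (XT.lf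 (nat_lit 0) (nat_lit 323097902374) (nat_lit 152) (nat_lit 1524923612350) (nat_lit 0) (nat_lit 319837717885) (nat_lit 1) (nat_lit 5) (nat_lit 3) (nat_lit 4) (nat_lit 1) (nat_lit 4) (nat_lit 253) (nat_lit 189) (nat_lit 158))) (XT.nd (nat_lit 78) (nat_lit 0) (nat_lit 0) (XT.lf (nat_lit 0) (nat_lit 373659824950) (nat_lit 152) (nat_lit 1748773542667) (nat_lit 0) (nat_lit 370393981406) (nat_lit 1) (nat_lit 5) (nat_lit 3) (nat_lit 4) (nat_lit 1) (nat_lit 4) (nat_lit 254) (nat_lit 189) (nat_lit 157)) (XT.nd (nat_lit 78) (nat_lit 0) (nat_lit 0) (XT.lf (nat_lit 0) (nat_lit 431797931324) (nat_lit 152) (nat_lit 2006216243540) (nat_lit 0) (nat_lit 428527166862) (nat_lit 1) (nat_lit 5) (nat_lit 3) (nat_lit 4) (nat_lit 1) (nat_lit 4) (nat_lit 255) (nat_lit 189) (nat_lit 156)) (XT.lf (nat_lit 0) (nat_lit 498649706187) (nat_lit 152) (nat_lit 2302288637377) (nat_lit 0) (nat_lit 495374662666) (nat_lit 1)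 (nat_lit 5) (nat_lit 3) (nat_lit 4) (nat_lit 1) (nat_lit 4) (nat_lit 256) (nat_lit 189) (nat_lit 155)))))) (XT.nd (nat_lit 390) (nat_lit 0) (nat_lit 0) (XT.nd (nat_lit 156) (nat_lit 0) (nat_lit 0) (XT.nd (nat_lit 78) (nat_lit 0) (nat_lit 0) (XT.lf (nat_lit 0) (nat_lit 575523119046) (nat_lit 152) (nat_lit 2642783444928) (nat_lit 0) (nat_lit 572244354604) (nat_lit 1) (nat_lit 5) (nat_lit 3) (nat_lit 4) (nat_lit 1) (nat_lit 4) (nat_lit 257) (nat_lit 189) (nat_lit 154)) (XT.lf (nat_lit 0) (nat_lit 663922214935) (nat_lit 152) (nat_lit 3034362521122) (nat_lit 0) (nat_lit 660640214910) (nat_lit 1) (nat_lit 5) (nat_lit 3) (nat_lit 4) (nat_lit 1) (nat_lit 4) (nat_lit 258) (nat_lit 189) (nat_lit 153))) (XT.nd (nat_lit 78) (nat_lit 0) (nat_lit 0) (XT.lf (nat_lit 0) (nat_lit 765576541384) (nat_lit 152) (nat_lit 3484687195712) (nat_lit 0) (nat_lit 762291727807) (nat_lit 1) (nat_lit 5) (nat_lit 3)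 (nat_lit 4) (nat_lit 1) (nat_lit 4) (nat_lit 259) (nat_lit 189) (nat_lit 152)) (XT.nd (nat_lit 78) (nat_lit 0) (nat_lit 0) (XT.lf (nat_lit 0) (nat_lit 882474987387) (nat_lit 152) (nat_lit 4002568168852) (nat_lit 0) (nat_lit 879187727244) (nat_lit 1) (nat_lit 5) (nat_lit 3) (nat_lit 4) (nat_lit 1) (nat_lit 4) (nat_lit 260) (nat_lit 189) (nat_lit 151)) (XT.lf (nat_lit 0) (nat_lit 1016904696453) (nat_lit 152) (nat_lit 4598137894364) (nat_lit 0) (nat_lit 1013615308862) (nat_lit 1) (nat_lit 5) (nat_lit 3) (nat_lit 4) (nat_lit 1) (nat_lit 4) (nat_lit 261) (nat_lit 189) (nat_lit 150))))) (XT.nd (nat_lit 28080) (nat_lit 0) (nat_lit 228) (XT.nd (nat_lit 28002) (nat_lit 0) (nat_lit 380) (XT.lf (nat_lit 0) (nat_lit 1171495815064) (nat_lit 152) (nat_lit 5283048823401) (nat_lit 0) (nat_lit 1168204577518) (nat_lit 1) (nat_lit 5) (nat_lit 3) (nat_lit 4) (nat_lit 1) (nat_lit 4) (nat_lit 262) (nat_lit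 189) (nat_lit 149)) (XT.lf (nat_lit 0) (nat_lit 6754804791) (nat_lit 76) (nat_lit 2699231403) (nat_lit 76) (nat_lit 2699231403) (nat_lit 6) (nat_lit 4) (nat_lit 7) (nat_lit 5) (nat_lit 7) (nat_lit 4) (nat_lit 220) (nat_lit 190) (nat_lit 190))) (XT.nd (nat_lit 78) (nat_lit 0) (nat_lit 0) (XT.lf (nat_lit 0) (nat_lit 22878968) (nat_lit 76) (nat_lit 266001645) (nat_lit 152) (nat_lit 27119777308) (nat_lit 4) (nat_lit 5) (nat_lit 5) (nat_lit 5) (nat_lit 6) (nat_lit 4) (nat_lit 221) (nat_lit 190) (nat_lit 189)) (XT.nd (nat_lit 78) (nat_lit 0) (nat_lit 0) (XT.lf (nat_lit 0) (nat_lit 6359236668) (nat_lit 152) (nat_lit 19259983602) (nat_lit 0) (nat_lit 5358685682) (nat_lit 4) (nat_lit 5) (nat_lit 6) (nat_lit 4) (nat_lit 4) (nat_lit 4) (nat_lit 222) (nat_lit 190) (nat_lit 188)) (XT.lf (nat_lit 0) (nat_lit 12810470581) (nat_lit 152) (nat_lit 10910057105) (nat_lit 0) (nat_lit 11405247812) (nat_lit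 4) (nat_lit 5) (nat_lit 6) (nat_lit 4) (nat_lit 4) (nat_lit 4) (nat_lit 223) (nat_lit 190) (nat_lit 187))))))))
noncomputable def xc11 : XT := (XT.nd (nat_lit 1560) (nat_lit 0) (nat_lit 0) (XT.nd (nat_lit 780) (nat_lit 0) (nat_lit 0) (XT.nd (nat_lit 390) (nat_lit 152) (nat_lit 0) (XT.nd (nat_lit 156) (nat_lit 0) (nat_lit 0) (XT.nd (nat_lit 78) (nat_lit 76) (nat_lit 0) (XT.lf (nat_lit 0) (nat_lit 19762404803) (nat_lit 152) (nat_lit 2166233992) (nat_lit 0) (nat_lit 18005293525) (nat_lit 4) (nat_lit 5) (nat_lit 6) (nat_lit 4) (nat_lit 4) (nat_lit 4) (nat_lit 224) (nat_lit 190) (nat_lit 186)) (XT.lf (nat_lit 0) (nat_lit 7518675119) (nat_lit 76) (nat_lit 20013204634) (nat_lit 76) (nat_lit 17950103350) (nat_lit 3) (nat_lit 4) (nat_lit 4) (nat_lit 5) (nat_lit 4) (nat_lit 4) (nat_lit 225) (nat_lit 190) (nat_lit 185))) (XT.nd (nat_lit 78) (nat_lit 0) (nat_lit 0) (XT.lf (nat_lit 0) (nat_lit 18104095242)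 (nat_lit 76) (nat_lit 18056204764) (nat_lit 76) (nat_lit 15727025213) (nat_lit 3) (nat_lit 4) (nat_lit 4) (nat_lit 5) (nat_lit 4) (nat_lit 4) (nat_lit 226) (nat_lit 190) (nat_lit 184)) (XT.nd (nat_lit 78) (nat_lit 0) (nat_lit 0) (XT.lf (nat_lit 0) (nat_lit 29683062379) (nat_lit 76) (nat_lit 16078578733) (nat_lit 76) (nat_lit 13518026777) (nat_lit 3) (nat_lit 4) (nat_lit 4) (nat_lit 5) (nat_lit 4) (nat_lit 4) (nat_lit 227) (nat_lit 190) (nat_lit 183)) (XT.lf (nat_lit 0) (nat_lit 42482121540) (nat_lit 76) (nat_lit 14041633859) (nat_lit 76) (nat_lit 11279888506) (nat_lit 3) (nat_lit 4) (nat_lit 4) (nat_lit 5) (nat_lit 4) (nat_lit 4) (nat_lit 228) (nat_lit 190) (nat_lit 182))))) (XT.nd (nat_lit 156) (nat_lit 152) (nat_lit 0) (XT.nd (nat_lit 78) (nat_lit 0) (nat_lit 0) (XT.lf (nat_lit 0) (nat_lit 56751689099) (nat_lit 76) (nat_lit 11905516871) (nat_lit 76) (nat_lit 8968820738) (nat_lit 3)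 (nat_lit 4) (nat_lit 4) (nat_lit 5) (nat_lit 4) (nat_lit 4) (nat_lit 229) (nat_lit 190) (nat_lit 181)) (XT.lf (nat_lit 0) (nat_lit 72770952247) (nat_lit 76) (nat_lit 9628434176) (nat_lit 76) (nat_lit 6539606931) (nat_lit 3) (nat_lit 4) (nat_lit 4) (nat_lit 5) (nat_lit 4) (nat_lit 4) (nat_lit 230) (nat_lit 190) (nat_lit 180))) (XT.nd (nat_lit 78) (nat_lit 152) (nat_lit 0) (XT.lf (nat_lit 0) (nat_lit 90853331352) (nat_lit 76) (nat_lit 7165834157) (nat_lit 76) (nat_lit 3944718988) (nat_lit 3) (nat_lit 4) (nat_lit 4) (nat_lit 5) (nat_lit 4) (nat_lit 4) (nat_lit 231) (nat_lit 190) (nat_lit 179)) (XT.nd (nat_lit 78) (nat_lit 152) (nat_lit 0) (XT.lf (nat_lit 0) (nat_lit 111352612090) (nat_lit 76) (nat_lit 4469535509) (nat_lit 76) (nat_lit 1133387363) (nat_lit 3) (nat_lit 4) (nat_lit 4) (nat_lit 5) (nat_lit 4) (nat_lit 4) (nat_lit 232) (nat_lit 190) (nat_lit 178)) (XT.lf (nat_lit 0) (nat_lit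 437616094) (nat_lit 76) (nat_lit 1424784346) (nat_lit 152) (nat_lit 132340266600) (nat_lit 1) (nat_lit 5) (nat_lit 2) (nat_lit 5) (nat_lit 3) (nat_lit 4) (nat_lit 233) (nat_lit 190) (nat_lit 177)))))) (XT.nd (nat_lit 390) (nat_lit 0) (nat_lit 0) (XT.nd (nat_lit 156) (nat_lit 0) (nat_lit 0) (XT.nd (nat_lit 78) (nat_lit 0) (nat_lit 0) (XT.lf (nat_lit 0) (nat_lit 5327015476) (nat_lit 152) (nat_lit 146635912233) (nat_lit 0) (nat_lit 2064831884) (nat_lit 1) (nat_lit 5) (nat_lit 3) (nat_lit 4) (nat_lit 1) (nat_lit 4) (nat_lit 234) (nat_lit 190) (nat_lit 176)) (XT.lf (nat_lit 0) (nat_lit 9235386132) (nat_lit 152) (nat_lit 161694284546) (nat_lit 0) (nat_lit 5903169160) (nat_lit 1) (nat_lit 5) (nat_lit 3) (nat_lit 4) (nat_lit 1) (nat_lit 4) (nat_lit 235) (nat_lit 190) (nat_lit 175))) (XT.nd (nat_lit 78) (nat_lit 0) (nat_lit 0) (XT.lf (nat_lit 0) (nat_lit 13629714432) (nat_lit 152) (nat_lit 179200522117)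 (nat_lit 0) (nat_lit 10236598869) (nat_lit 1) (nat_lit 5) (nat_lit 3) (nat_lit 4) (nat_lit 1) (nat_lit 4) (nat_lit 236) (nat_lit 190) (nat_lit 174)) (XT.nd (nat_lit 78) (nat_lit 0) (nat_lit 0) (XT.lf (nat_lit 0) (nat_lit 18595976364) (nat_lit 152) (nat_lit 199497138289) (nat_lit 0) (nat_lit 15149905505) (nat_lit 1) (nat_lit 5) (nat_lit 3) (nat_lit 4) (nat_lit 1) (nat_lit 4) (nat_lit 237) (nat_lit 190) (nat_lit 173)) (XT.lf (nat_lit 0) (nat_lit 24231337923) (nat_lit 152) (nat_lit 222981240770) (nat_lit 0) (nat_lit 20739218980) (nat_lit 1) (nat_lit 5) (nat_lit 3) (nat_lit 4) (nat_lit 1) (nat_lit 4) (nat_lit 238) (nat_lit 190) (nat_lit 172))))) (XT.nd (nat_lit 156) (nat_lit 0) (nat_lit 0) (XT.nd (nat_lit 78) (nat_lit 0) (nat_lit 0) (XT.lf (nat_lit 0) (nat_lit 30646056183) (nat_lit 152) (nat_lit 250112301130) (nat_lit 0) (nat_lit 27113895428) (nat_lit 1) (nat_lit 5) (nat_lit 3) (nat_lit 4)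 (nat_lit 1) (nat_lit 4) (nat_lit 239) (nat_lit 190) (nat_lit 171)) (XT.lf (nat_lit 0) (nat_lit 37965636502) (nat_lit 152) (nat_lit 281421144463) (nat_lit 0) (nat_lit 34398656779) (nat_lit 1) (nat_lit 5) (nat_lit 3) (nat_lit 4) (nat_lit 1) (nat_lit 4) (nat_lit 240) (nat_lit 190) (nat_lit 170))) (XT.nd (nat_lit 78) (nat_lit 0) (nat_lit 0) (XT.lf (nat_lit 0) (nat_lit 46333288058) (nat_lit 152) (nat_lit 317520335095) (nat_lit 0) (nat_lit 42736030973) (nat_lit 1) (nat_lit 5) (nat_lit 3) (nat_lit 4) (nat_lit 1) (nat_lit 4) (nat_lit 241) (nat_lit 190) (nat_lit 169)) (XT.nd (nat_lit 78) (nat_lit 0) (nat_lit 0) (XT.lf (nat_lit 0) (nat_lit 55912725774) (nat_lit 152) (nat_lit 359116161539) (nat_lit 0) (nat_lit 52289140548) (nat_lit 1) (nat_lit 5) (nat_lit 3) (nat_lit 4) (nat_lit 1) (nat_lit 4) (nat_lit 242) (nat_lit 190) (nat_lit 168)) (XT.lf (nat_lit 0) (nat_lit 66891373432) (nat_lit 152) (nat_lit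 407022455182) (nat_lit 0) (nat_lit 63244894169) (nat_lit 1) (nat_lit 5) (nat_lit 3) (nat_lit 4) (nat_lit 1) (nat_lit 4) (nat_lit 243) (nat_lit 190) (nat_lit 167))))))) (XT.nd (nat_lit 780) (nat_lit 0) (nat_lit 0) (XT.nd (nat_lit 390) (nat_lit 0) (nat_lit 0) (XT.nd (nat_lit 156) (nat_lit 0) (nat_lit 0) (XT.nd (nat_lit 78) (nat_lit 0) (nat_lit 0) (XT.lf (nat_lit 0) (nat_lit 79484030658) (nat_lit 152) (nat_lit 462176513073) (nat_lit 0) (nat_lit 75817643539) (nat_lit 1) (nat_lit 5) (nat_lit 3) (nat_lit 4) (nat_lit 1) (nat_lit 4) (nat_lit 244) (nat_lit 190) (nat_lit 166)) (XT.lf (nat_lit 0) (nat_lit 93937075531) (nat_lit 152) (nat_lit 525657436344) (nat_lit 0) (nat_lit 90253377231) (nat_lit 1) (nat_lit 5) (nat_lit 3) (nat_lit 4) (nat_lit 1) (nat_lit 4) (nat_lit 245) (nat_lit 190) (nat_lit 165))) (XT.nd (nat_lit 78) (nat_lit 0) (nat_lit 0) (XT.lf (nat_lit 0) (nat_lit 110533285014) (nat_lit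 152) (nat_lit 598707243060) (nat_lit 0) (nat_lit 106834533514) (nat_lit 1) (nat_lit 5) (nat_lit 3) (nat_lit 4) (nat_lit 1) (nat_lit 4) (nat_lit 246) (nat_lit 190) (nat_lit 164)) (XT.nd (nat_lit 78) (nat_lit 0) (nat_lit 0) (XT.lf (nat_lit 0) (nat_lit 129597367554) (nat_lit 152) (nat_lit 682755168570) (nat_lit 0) (nat_lit 125885526315) (nat_lit 1) (nat_lit 5) (nat_lit 3) (nat_lit 4) (nat_lit 1) (nat_lit 4) (nat_lit 247) (nat_lit 190) (nat_lit 163)) (XT.lf (nat_lit 0) (nat_lit 151502316070) (nat_lit 152) (nat_lit 779445628807) (nat_lit 0) (nat_lit 147779092449) (nat_lit 1) (nat_lit 5) (nat_lit 3) (nat_lit 4) (nat_lit 1) (nat_lit 4) (nat_lit 248) (nat_lit 190) (nat_lit 162))))) (XT.nd (nat_lit 156) (nat_lit 0) (nat_lit 0) (XT.nd (nat_lit 78) (nat_lit 0) (nat_lit 0) (XT.lf (nat_lit 0) (nat_lit 176676705642) (nat_lit 152) (nat_lit 890670393646) (nat_lit 0) (nat_lit 172943584297) (nat_lit 1)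 (nat_lit 5) (nat_lit 3) (nat_lit 4) (nat_lit 1) (nat_lit 4) (nat_lit 249) (nat_lit 190) (nat_lit 161)) (XT.lf (nat_lit 0) (nat_lit 205613078675) (nat_lit 152) (nat_lit 1018605599790) (nat_lit 0) (nat_lit 201871350614) (nat_lit 1) (nat_lit 5) (nat_lit 3) (nat_lit 4) (nat_lit 1) (nat_lit 4) (nat_lit 250) (nat_lit 190) (nat_lit 160))) (XT.nd (nat_lit 78) (nat_lit 0) (nat_lit 0) (XT.lf (nat_lit 0) (nat_lit 238877581597) (nat_lit 152) (nat_lit 1165754327359) (nat_lit 0) (nat_lit 235128369435) (nat_lit 1) (nat_lit 5) (nat_lit 3) (nat_lit 4) (nat_lit 1) (nat_lit 4) (nat_lit 251) (nat_lit 190) (nat_lit 159)) (XT.nd (nat_lit 78) (nat_lit 0) (nat_lit 0) (XT.lf (nat_lit 0) (nat_lit 277121041639) (nat_lit 152) (nat_lit 1334995573197) (nat_lit 0) (nat_lit 273365321563) (nat_lit 1) (nat_lit 5) (nat_lit 3) (nat_lit 4) (nat_lit 1) (nat_lit 4) (nat_lit 252) (nat_lit 190) (nat_lit 158)) (XT.lf (nat_lit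 0) (nat_lit 321091700412) (nat_lit 152) (nat_lit 1529640579071) (nat_lit 0) (nat_lit 317330321280) (nat_lit 1) (nat_lit 5) (nat_lit 3) (nat_lit 4) (nat_lit 1) (nat_lit 4) (nat_lit 253) (nat_lit 190) (nat_lit 157)))))) (XT.nd (nat_lit 390) (nat_lit 0) (nat_lit 0) (XT.nd (nat_lit 156) (nat_lit 0) (nat_lit 0) (XT.nd (nat_lit 78) (nat_lit 0) (nat_lit 0) (XT.lf (nat_lit 0) (nat_lit 371649853412) (nat_lit 152) (nat_lit 1753497616833) (nat_lit 0) (nat_lit 367883553362) (nat_lit 1) (nat_lit 5) (nat_lit 3) (nat_lit 4) (nat_lit 1) (nat_lit 4) (nat_lit 254) (nat_lit 190) (nat_lit 156)) (XT.lf (nat_lit 0) (nat_lit 429784681894) (nat_lit 152) (nat_lit 2010946498094) (nat_lit 0) (nat_lit 426014102785) (nat_lit 1) (nat_lit 5) (nat_lit 3) (nat_lit 4) (nat_lit 1) (nat_lit 4) (nat_lit 255) (nat_lit 190) (nat_lit 155))) (XT.nd (nat_lit 78) (nat_lit 0) (nat_lit 0) (XT.lf (nat_lit 0) (nat_lit 496633606416)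 (nat_lit 152) (nat_lit 2307024266181) (nat_lit 0) (nat_lit 492859306386) (nat_lit 1) (nat_lit 5) (nat_lit 3) (nat_lit 4) (nat_lit 1) (nat_lit 4) (nat_lit 256) (nat_lit 190) (nat_lit 154)) (XT.nd (nat_lit 78) (nat_lit 0) (nat_lit 0) (XT.lf (nat_lit 0) (nat_lit 573504540717) (nat_lit 152) (nat_lit 2647523746993) (nat_lit 0) (nat_lit 569727005104) (nat_lit 1) (nat_lit 5) (nat_lit 3) (nat_lit 4) (nat_lit 1) (nat_lit 4) (nat_lit 257) (nat_lit 190) (nat_lit 153)) (XT.lf (nat_lit 0) (nat_lit 661901481339) (nat_lit 152) (nat_lit 3039106886892) (nat_lit 0) (nat_lit 658121132176) (nat_lit 1) (nat_lit 5) (nat_lit 3) (nat_lit 4) (nat_lit 1) (nat_lit 4) (nat_lit 258) (nat_lit 190) (nat_lit 152))))) (XT.nd (nat_lit 234) (nat_lit 0) (nat_lit 0) (XT.nd (nat_lit 78) (nat_lit 0) (nat_lit 0) (XT.lf (nat_lit 0) (nat_lit 763553933642) (nat_lit 152) (nat_lit 3489435095139) (nat_lit 0) (nat_lit 759771137913)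 (nat_lit 1) (nat_lit 5) (nat_lit 3) (nat_lit 4) (nat_lit 1) (nat_lit 4) (nat_lit 259) (nat_lit 190) (nat_lit 151)) (XT.nd (nat_lit 78) (nat_lit 0) (nat_lit 0) (XT.lf (nat_lit 0) (nat_lit 880450749954) (nat_lit 152) (nat_lit 4007319141023) (nat_lit 0) (nat_lit 876665826775) (nat_lit 1) (nat_lit 5) (nat_lit 3) (nat_lit 4) (nat_lit 1) (nat_lit 4) (nat_lit 260) (nat_lit 190) (nat_lit 150)) (XT.lf (nat_lit 0) (nat_lit 1014879041897) (nat_lit 152) (nat_lit 4602891538488) (nat_lit 0) (nat_lit 1011092268763) (nat_lit 1) (nat_lit 5) (nat_lit 3) (nat_lit 4) (nat_lit 1) (nat_lit 4) (nat_lit 261) (nat_lit 190) (nat_lit 149)))) (XT.nd (nat_lit 27846) (nat_lit 0) (nat_lit 380) (XT.lf (nat_lit 0) (nat_lit 1169468928227) (nat_lit 152) (nat_lit 5287804790961) (nat_lit 0) (nat_lit 1165680546437) (nat_lit 1) (nat_lit 5) (nat_lit 3) (nat_lit 4) (nat_lit 1) (nat_lit 4) (nat_lit 262) (nat_lit 190) (nat_lit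 148)) (XT.nd (nat_lit 78) (nat_lit 76) (nat_lit 0) (XT.lf (nat_lit 0) (nat_lit 2090823185) (nat_lit 152) (nat_lit 5493908852) (nat_lit 0) (nat_lit 2090823185) (nat_lit 7) (nat_lit 5) (nat_lit 9) (nat_lit 4) (nat_lit 7) (nat_lit 4) (nat_lit 218) (nat_lit 191) (nat_lit 191)) (XT.lf (nat_lit 0) (nat_lit 386229961) (nat_lit 76) (nat_lit 10966558268) (nat_lit 76) (nat_lit 10301866653) (nat_lit 6) (nat_lit 4) (nat_lit 7) (nat_lit 5) (nat_lit 7) (nat_lit 4) (nat_lit 219) (nat_lit 191) (nat_lit 190))))))))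
noncomputable def xc12 : XT := (XT.nd (nat_lit 1560) (nat_lit 0) (nat_lit 0) (XT.nd (nat_lit 780) (nat_lit 152) (nat_lit 0) (XT.nd (nat_lit 390) (nat_lit 76) (nat_lit 0) (XT.nd (nat_lit 156) (nat_lit 76) (nat_lit 0) (XT.nd (nat_lit 78) (nat_lit 76) (nat_lit 0) (XT.lf (nat_lit 0) (nat_lit 12968597362) (nat_lit 76) (nat_lit 6302657205) (nat_lit 76) (nat_lit 5059972881) (nat_lit 6) (nat_lit 4) (nat_lit 7) (nat_lit 5) (nat_lit 7) (nat_lit 4) (nat_lit 220) (nat_lit 191) (nat_lit 189)) (XT.lf (nat_lit 0) (nat_lit 340423522) (nat_lit 152) (nat_lit 1037205752) (nat_lit 76) (nat_lit 26077130939) (nat_lit 5) (nat_lit 5) (nat_lit 7) (nat_lit 5) (nat_lit 6) (nat_lit 4) (nat_lit 221) (nat_lit 191) (nat_lit 188))) (XT.nd (nat_lit 78) (nat_lit 0) (nat_lit 0) (XT.lf (nat_lit 0) (nat_lit 6107321940) (nat_lit 152) (nat_lit 20854719069) (nat_lit 0) (nat_lit 4086643971) (nat_lit 4) (nat_lit 5) (nat_lit 6)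 (nat_lit 4) (nat_lit 4) (nat_lit 4) (nat_lit 222) (nat_lit 191) (nat_lit 187)) (XT.nd (nat_lit 78) (nat_lit 0) (nat_lit 0) (XT.lf (nat_lit 0) (nat_lit 12341353630) (nat_lit 152) (nat_lit 12904137855) (nat_lit 0) (nat_lit 9968787154) (nat_lit 4) (nat_lit 5) (nat_lit 6) (nat_lit 4) (nat_lit 4) (nat_lit 4) (nat_lit 223) (nat_lit 191) (nat_lit 186)) (XT.lf (nat_lit 0) (nat_lit 19104416353) (nat_lit 152) (nat_lit 4507571508) (nat_lit 0) (nat_lit 16425859870) (nat_lit 4) (nat_lit 5) (nat_lit 6) (nat_lit 4) (nat_lit 4) (nat_lit 4) (nat_lit 224) (nat_lit 191) (nat_lit 185))))) (XT.nd (nat_lit 156) (nat_lit 0) (nat_lit 0) (XT.nd (nat_lit 78) (nat_lit 0) (nat_lit 0) (XT.lf (nat_lit 0) (nat_lit 4736183706) (nat_lit 76) (nat_lit 21906552527) (nat_lit 76) (nat_lit 18961917777) (nat_lit 3) (nat_lit 4) (nat_lit 4) (nat_lit 5) (nat_lit 4) (nat_lit 4) (nat_lit 225) (nat_lit 191) (nat_lit 184)) (XT.lf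 (nat_lit 0) (nat_lit 15045201036) (nat_lit 76) (nat_lit 20076493968) (nat_lit 76) (nat_lit 16900486812) (nat_lit 3) (nat_lit 4) (nat_lit 4) (nat_lit 5) (nat_lit 4) (nat_lit 4) (nat_lit 226) (nat_lit 191) (nat_lit 183))) (XT.nd (nat_lit 78) (nat_lit 0) (nat_lit 0) (XT.lf (nat_lit 0) (nat_lit 26383817919) (nat_lit 76) (nat_lit 18209251687) (nat_lit 76) (nat_lit 14832051134) (nat_lit 3) (nat_lit 4) (nat_lit 4) (nat_lit 5) (nat_lit 4) (nat_lit 4) (nat_lit 227) (nat_lit 191) (nat_lit 182)) (XT.nd (nat_lit 78) (nat_lit 0) (nat_lit 0) (XT.lf (nat_lit 0) (nat_lit 38973876858) (nat_lit 76) (nat_lit 16268292681) (nat_lit 76) (nat_lit 12716141349) (nat_lit 3) (nat_lit 4) (nat_lit 4) (nat_lit 5) (nat_lit 4) (nat_lit 4) (nat_lit 228) (nat_lit 191) (nat_lit 181)) (XT.lf (nat_lit 0) (nat_lit 53061705095) (nat_lit 76) (nat_lit 14215641666) (nat_lit 76) (nat_lit 10511359221) (nat_lit 3) (nat_lit 4) (nat_lit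 4) (nat_lit 5) (nat_lit 4) (nat_lit 4) (nat_lit 229) (nat_lit 191) (nat_lit 180)))))) (XT.nd (nat_lit 390) (nat_lit 0) (nat_lit 0) (XT.nd (nat_lit 156) (nat_lit 152) (nat_lit 0) (XT.nd (nat_lit 78) (nat_lit 0) (nat_lit 0) (XT.lf (nat_lit 0) (nat_lit 68922934049) (nat_lit 76) (nat_lit 12011138078) (nat_lit 76) (nat_lit 8174567710) (nat_lit 3) (nat_lit 4) (nat_lit 4) (nat_lit 5) (nat_lit 4) (nat_lit 4) (nat_lit 230) (nat_lit 191) (nat_lit 179)) (XT.lf (nat_lit 0) (nat_lit 86867892116) (nat_lit 76) (nat_lit 9611650326) (nat_lit 76) (nat_lit 5660046980) (nat_lit 3) (nat_lit 4) (nat_lit 4) (nat_lit 5) (nat_lit 4) (nat_lit 4) (nat_lit 231) (nat_lit 191) (nat_lit 178))) (XT.nd (nat_lit 78) (nat_lit 152) (nat_lit 0) (XT.lf (nat_lit 0) (nat_lit 107247676299) (nat_lit 76) (nat_lit 6970231910) (nat_lit 76) (nat_lit 2918599888) (nat_lit 3) (nat_lit 4) (nat_lit 4) (nat_lit 5) (nat_lit 4) (nat_lit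 4) (nat_lit 232) (nat_lit 191) (nat_lit 177)) (XT.nd (nat_lit 78) (nat_lit 76) (nat_lit 0) (XT.lf (nat_lit 0) (nat_lit 98237558) (nat_lit 152) (nat_lit 3934279357) (nat_lit 76) (nat_lit 130360097960) (nat_lit 2) (nat_lit 5) (nat_lit 4) (nat_lit 5) (nat_lit 3) (nat_lit 4) (nat_lit 233) (nat_lit 191) (nat_lit 176)) (XT.lf (nat_lit 0) (nat_lit 2771265814) (nat_lit 76) (nat_lit 587155023) (nat_lit 152) (nat_lit 150875710376) (nat_lit 1) (nat_lit 5) (nat_lit 2) (nat_lit 5) (nat_lit 3) (nat_lit 4) (nat_lit 234) (nat_lit 191) (nat_lit 175))))) (XT.nd (nat_lit 156) (nat_lit 0) (nat_lit 0) (XT.nd (nat_lit 78) (nat_lit 0) (nat_lit 0) (XT.lf (nat_lit 0) (nat_lit 7206020190) (nat_lit 152) (nat_lit 166595074486) (nat_lit 0) (nat_lit 3243038702) (nat_lit 1) (nat_lit 5) (nat_lit 3) (nat_lit 4) (nat_lit 1) (nat_lit 4) (nat_lit 235) (nat_lit 191) (nat_lit 174)) (XT.lf (nat_lit 0) (nat_lit 11559783089)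 (nat_lit 152) (nat_lit 184177797157) (nat_lit 0) (nat_lit 7543846304) (nat_lit 1) (nat_lit 5) (nat_lit 3) (nat_lit 4) (nat_lit 1) (nat_lit 4) (nat_lit 236) (nat_lit 191) (nat_lit 173))) (XT.nd (nat_lit 78) (nat_lit 0) (nat_lit 0) (XT.lf (nat_lit 0) (nat_lit 16490770759) (nat_lit 152) (nat_lit 204540922112) (nat_lit 0) (nat_lit 12428785891) (nat_lit 1) (nat_lit 5) (nat_lit 3) (nat_lit 4) (nat_lit 1) (nat_lit 4) (nat_lit 237) (nat_lit 191) (nat_lit 172)) (XT.nd (nat_lit 78) (nat_lit 0) (nat_lit 0) (XT.lf (nat_lit 0) (nat_lit 22095459047) (nat_lit 152) (nat_lit 228082858317) (nat_lit 0) (nat_lit 17993432367) (nat_lit 1) (nat_lit 5) (nat_lit 3) (nat_lit 4) (nat_lit 1) (nat_lit 4) (nat_lit 238) (nat_lit 191) (nat_lit 171)) (XT.lf (nat_lit 0) (nat_lit 28483504898) (nat_lit 152) (nat_lit 255264208872) (nat_lit 0) (nat_lit 24346659250) (nat_lit 1) (nat_lit 5) (nat_lit 3) (nat_lit 4) (nat_lit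 1) (nat_lit 4) (nat_lit 239) (nat_lit 191) (nat_lit 170))))))) (XT.nd (nat_lit 780) (nat_lit 0) (nat_lit 0) (XT.nd (nat_lit 390) (nat_lit 0) (nat_lit 0) (XT.nd (nat_lit 156) (nat_lit 0) (nat_lit 0) (XT.nd (nat_lit 78) (nat_lit 0) (nat_lit 0) (XT.lf (nat_lit 0) (nat_lit 35779891816) (nat_lit 152) (nat_lit 286616782809) (nat_lit 0) (nat_lit 31612768806) (nat_lit 1) (nat_lit 5) (nat_lit 3) (nat_lit 4) (nat_lit 1) (nat_lit 4) (nat_lit 240) (nat_lit 191) (nat_lit 169)) (XT.lf (nat_lit 0) (nat_lit 44127375198) (nat_lit 152) (nat_lit 322754000054) (nat_lit 0) (nat_lit 39933924047) (nat_lit 1) (nat_lit 5) (nat_lit 3) (nat_lit 4) (nat_lit 1) (nat_lit 4) (nat_lit 241) (nat_lit 191) (nat_lit 168))) (XT.nd (nat_lit 78) (nat_lit 0) (nat_lit 0) (XT.lf (nat_lit 0) (nat_lit 53689275372) (nat_lit 152) (nat_lit 364382893118) (nat_lit 0) (nat_lit 49472930185) (nat_lit 1) (nat_lit 5) (nat_lit 3) (nat_lit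 4) (nat_lit 1) (nat_lit 4) (nat_lit 242) (nat_lit 191) (nat_lit 167)) (XT.nd (nat_lit 78) (nat_lit 0) (nat_lit 0) (XT.lf (nat_lit 0) (nat_lit 64652672993) (nat_lit 152) (nat_lit 412317940343) (nat_lit 0) (nat_lit 60416419948) (nat_lit 1) (nat_lit 5) (nat_lit 3) (nat_lit 4) (nat_lit 1) (nat_lit 4) (nat_lit 243) (nat_lit 191) (nat_lit 166)) (XT.lf (nat_lit 0) (nat_lit 77232069318) (nat_lit 152) (nat_lit 467497001348) (nat_lit 0) (nat_lit 72978505093) (nat_lit 1) (nat_lit 5) (nat_lit 3) (nat_lit 4) (nat_lit 1) (nat_lit 4) (nat_lit 244) (nat_lit 191) (nat_lit 165))))) (XT.nd (nat_lit 156) (nat_lit 0) (nat_lit 0) (XT.nd (nat_lit 78) (nat_lit 0) (nat_lit 0) (XT.lf (nat_lit 0) (nat_lit 91673582972) (nat_lit 152) (nat_lit 530999666459) (nat_lit 0) (nat_lit 87404965547) (nat_lit 1) (nat_lit 5) (nat_lit 3) (nat_lit 4) (nat_lit 1) (nat_lit 4) (nat_lit 245) (nat_lit 191) (nat_lit 164)) (XT.lf (nat_lit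 0) (nat_lit 108259765308) (nat_lit 152) (nat_lit 604068379122) (nat_lit 0) (nat_lit 103978058144) (nat_lit 1) (nat_lit 5) (nat_lit 3) (nat_lit 4) (nat_lit 1) (nat_lit 4) (nat_lit 246) (nat_lit 191) (nat_lit 163))) (XT.nd (nat_lit 78) (nat_lit 0) (nat_lit 0) (XT.lf (nat_lit 0) (nat_lit 127315128590) (nat_lit 152) (nat_lit 688132744586) (nat_lit 0) (nat_lit 123022039043) (nat_lit 1) (nat_lit 5) (nat_lit 3) (nat_lit 4) (nat_lit 1) (nat_lit 4) (nat_lit 247) (nat_lit 191) (nat_lit 162)) (XT.nd (nat_lit 78) (nat_lit 0) (nat_lit 0) (XT.lf (nat_lit 0) (nat_lit 149212495143) (nat_lit 152) (nat_lit 784837500435) (nat_lit 0) (nat_lit 144909507873) (nat_lit 1) (nat_lit 5) (nat_lit 3) (nat_lit 4) (nat_lit 1) (nat_lit 4) (nat_lit 248) (nat_lit 191) (nat_lit 161)) (XT.lf (nat_lit 0) (nat_lit 174380291703) (nat_lit 152) (nat_lit 896074696241) (nat_lit 0) (nat_lit 170068697717) (nat_lit 1) (nat_lit 5)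 (nat_lit 3) (nat_lit 4) (nat_lit 1) (nat_lit 4) (nat_lit 249) (nat_lit 191) (nat_lit 160)))))) (XT.nd (nat_lit 390) (nat_lit 0) (nat_lit 0) (XT.nd (nat_lit 156) (nat_lit 0) (nat_lit 0) (XT.nd (nat_lit 78) (nat_lit 0) (nat_lit 0) (XT.lf (nat_lit 0) (nat_lit 203310931682) (nat_lit 152) (nat_lit 1024020711922) (nat_lit 0) (nat_lit 198991853595) (nat_lit 1) (nat_lit 5) (nat_lit 3) (nat_lit 4) (nat_lit 1) (nat_lit 4) (nat_lit 250) (nat_lit 191) (nat_lit 159)) (XT.lf (nat_lit 0) (nat_lit 236570449340) (nat_lit 152) (nat_lit 1171178839088) (nat_lit 0) (nat_lit 232244863338) (nat_lit 1) (nat_lit 5) (nat_lit 3) (nat_lit 4) (nat_lit 1) (nat_lit 4) (nat_lit 251) (nat_lit 191) (nat_lit 158))) (XT.nd (nat_lit 78) (nat_lit 0) (nat_lit 0) (XT.lf (nat_lit 0) (nat_lit 274809574370) (nat_lit 152) (nat_lit 1340428258488) (nat_lit 0) (nat_lit 270478329313) (nat_lit 1) (nat_lit 5) (nat_lit 3) (nat_lit 4)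 (nat_lit 1) (nat_lit 4) (nat_lit 252) (nat_lit 191) (nat_lit 157)) (XT.nd (nat_lit 78) (nat_lit 0) (nat_lit 0) (XT.lf (nat_lit 0) (nat_lit 318776463567) (nat_lit 152) (nat_lit 1535080371807) (nat_lit 0) (nat_lit 314440297592) (nat_lit 1) (nat_lit 5) (nat_lit 3) (nat_lit 4) (nat_lit 1) (nat_lit 4) (nat_lit 253) (nat_lit 191) (nat_lit 156)) (XT.lf (nat_lit 0) (nat_lit 369331338675) (nat_lit 152) (nat_lit 1758943589958) (nat_lit 0) (nat_lit 364990893641) (nat_lit 1) (nat_lit 5) (nat_lit 3) (nat_lit 4) (nat_lit 1) (nat_lit 4) (nat_lit 254) (nat_lit 191) (nat_lit 155))))) (XT.nd (nat_lit 156) (nat_lit 0) (nat_lit 0) (XT.nd (nat_lit 78) (nat_lit 0) (nat_lit 0) (XT.lf (nat_lit 0) (nat_lit 427463316816) (nat_lit 152) (nat_lit 2016397845469) (nat_lit 0) (nat_lit 423119150861) (nat_lit 1) (nat_lit 5) (nat_lit 3) (nat_lit 4) (nat_lit 1) (nat_lit 4) (nat_lit 255) (nat_lit 191) (nat_lit 154)) (XT.lf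 (nat_lit 0) (nat_lit 494309762780) (nat_lit 152) (nat_lit 2312480286817) (nat_lit 0) (nat_lit 489962361242) (nat_lit 1) (nat_lit 5) (nat_lit 3) (nat_lit 4) (nat_lit 1) (nat_lit 4) (nat_lit 256) (nat_lit 191) (nat_lit 153))) (XT.nd (nat_lit 78) (nat_lit 0) (nat_lit 0) (XT.lf (nat_lit 0) (nat_lit 571178541815) (nat_lit 152) (nat_lit 2652983831334) (nat_lit 0) (nat_lit 566828326726) (nat_lit 1) (nat_lit 5) (nat_lit 3) (nat_lit 4) (nat_lit 1) (nat_lit 4) (nat_lit 257) (nat_lit 191) (nat_lit 152)) (XT.nd (nat_lit 78) (nat_lit 0) (nat_lit 0) (XT.lf (nat_lit 0) (nat_lit 659573608291) (nat_lit 152) (nat_lit 3044570504890) (nat_lit 0) (nat_lit 655220946637) (nat_lit 1) (nat_lit 5) (nat_lit 3) (nat_lit 4) (nat_lit 1) (nat_lit 4) (nat_lit 258) (nat_lit 191) (nat_lit 151)) (XT.lf (nat_lit 0) (nat_lit 761224430903) (nat_lit 152) (nat_lit 3494901785881) (nat_lit 0) (nat_lit 756869641799) (nat_lit 1)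 (nat_lit 5) (nat_lit 3) (nat_lit 4) (nat_lit 1) (nat_lit 4) (nat_lit 259) (nat_lit 191) (nat_lit 150))))))))
noncomputable def xc13 : XT := (XT.nd (nat_lit 29172) (nat_lit 0) (nat_lit 0) (XT.nd (nat_lit 28392) (nat_lit 0) (nat_lit 152) (XT.nd (nat_lit 28002) (nat_lit 0) (nat_lit 228) (XT.nd (nat_lit 156) (nat_lit 0) (nat_lit 0) (XT.nd (nat_lit 78) (nat_lit 0) (nat_lit 0) (XT.lf (nat_lit 0) (nat_lit 878119830091) (nat_lit 152) (nat_lit 4012788503718) (nat_lit 0) (nat_lit 873763191032) (nat_lit 1) (nat_lit 5) (nat_lit 3) (nat_lit 4) (nat_lit 1) (nat_lit 4) (nat_lit 260) (nat_lit 191) (nat_lit 149)) (XT.lf (nat_lit 0) (nat_lit 1012546889753) (nat_lit 152) (nat_lit 4608363224619) (nat_lit 0) (nat_lit 1008188642037) (nat_lit 1) (nat_lit 5) (nat_lit 3) (nat_lit 4) (nat_lit 1) (nat_lit 4) (nat_lit 261) (nat_lit 191) (nat_lit 148))) (XT.nd (nat_lit 27690) (nat_lit 0) (nat_lit 608) (XT.lf (nat_lit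 0) (nat_lit 1167135704534) (nat_lit 152) (nat_lit 5293278497472) (nat_lit 0) (nat_lit 1162776057987) (nat_lit 1) (nat_lit 5) (nat_lit 3) (nat_lit 4) (nat_lit 1) (nat_lit 4) (nat_lit 262) (nat_lit 191) (nat_lit 147)) (XT.nd (nat_lit 78) (nat_lit 76) (nat_lit 0) (XT.lf (nat_lit 0) (nat_lit 3844716209) (nat_lit 152) (nat_lit 141978502) (nat_lit 0) (nat_lit 3844716209) (nat_lit 10) (nat_lit 5) (nat_lit 12) (nat_lit 4) (nat_lit 10) (nat_lit 4) (nat_lit 216) (nat_lit 192) (nat_lit 192)) (XT.lf (nat_lit 0) (nat_lit 12927815282) (nat_lit 76) (nat_lit 2639072641) (nat_lit 76) (nat_lit 1813525655) (nat_lit 9) (nat_lit 4) (nat_lit 10) (nat_lit 5) (nat_lit 10) (nat_lit 4) (nat_lit 217) (nat_lit 192) (nat_lit 191))))) (XT.nd (nat_lit 156) (nat_lit 228) (nat_lit 0) (XT.nd (nat_lit 78) (nat_lit 0) (nat_lit 0) (XT.lf (nat_lit 0) (nat_lit 4614268936) (nat_lit 152) (nat_lit 11578858593) (nat_lit 0) (nat_lit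 3185181963) (nat_lit 7) (nat_lit 5) (nat_lit 9) (nat_lit 4) (nat_lit 7) (nat_lit 4) (nat_lit 218) (nat_lit 192) (nat_lit 190)) (XT.lf (nat_lit 0) (nat_lit 11487623875) (nat_lit 152) (nat_lit 738080311) (nat_lit 0) (nat_lit 9480544193) (nat_lit 7) (nat_lit 5) (nat_lit 9) (nat_lit 4) (nat_lit 7) (nat_lit 4) (nat_lit 219) (nat_lit 192) (nat_lit 189))) (XT.nd (nat_lit 78) (nat_lit 152) (nat_lit 0) (XT.lf (nat_lit 0) (nat_lit 11334975679) (nat_lit 76) (nat_lit 7790246838) (nat_lit 76) (nat_lit 5280564801) (nat_lit 6) (nat_lit 4) (nat_lit 7) (nat_lit 5) (nat_lit 7) (nat_lit 4) (nat_lit 220) (nat_lit 192) (nat_lit 188)) (XT.nd (nat_lit 78) (nat_lit 152) (nat_lit 0) (XT.lf (nat_lit 0) (nat_lit 24384157597) (nat_lit 76) (nat_lit 3055625203) (nat_lit 76) (nat_lit 108897639) (nat_lit 6) (nat_lit 4) (nat_lit 7) (nat_lit 5) (nat_lit 7) (nat_lit 4) (nat_lit 221) (nat_lit 192) (nat_lit 187)) (XT.lf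 (nat_lit 0) (nat_lit 5350635223) (nat_lit 152) (nat_lit 23547257213) (nat_lit 0) (nat_lit 2270295267) (nat_lit 4) (nat_lit 5) (nat_lit 6) (nat_lit 4) (nat_lit 4) (nat_lit 4) (nat_lit 222) (nat_lit 192) (nat_lit 186)))))) (XT.nd (nat_lit 390) (nat_lit 0) (nat_lit 0) (XT.nd (nat_lit 156) (nat_lit 76) (nat_lit 0) (XT.nd (nat_lit 78) (nat_lit 0) (nat_lit 0) (XT.lf (nat_lit 0) (nat_lit 11395795416) (nat_lit 152) (nat_lit 15943932766) (nat_lit 0) (nat_lit 8009465453) (nat_lit 4) (nat_lit 5) (nat_lit 6) (nat_lit 4) (nat_lit 4) (nat_lit 4) (nat_lit 223) (nat_lit 192) (nat_lit 185)) (XT.lf (nat_lit 0) (nat_lit 17994622053) (nat_lit 152) (nat_lit 7849328826) (nat_lit 0) (nat_lit 14342213824) (nat_lit 4) (nat_lit 5) (nat_lit 6) (nat_lit 4) (nat_lit 4) (nat_lit 4) (nat_lit 224) (nat_lit 192) (nat_lit 184))) (XT.nd (nat_lit 78) (nat_lit 0) (nat_lit 0) (XT.lf (nat_lit 0) (nat_lit 942052577) (nat_lit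 76) (nat_lit 24356826423) (nat_lit 76) (nat_lit 20473045788) (nat_lit 3) (nat_lit 4) (nat_lit 4) (nat_lit 5) (nat_lit 4) (nat_lit 4) (nat_lit 225) (nat_lit 192) (nat_lit 183)) (XT.nd (nat_lit 78) (nat_lit 0) (nat_lit 0) (XT.lf (nat_lit 0) (nat_lit 11010719653) (nat_lit 76) (nat_lit 22637151614) (nat_lit 76) (nat_lit 18552177582) (nat_lit 3) (nat_lit 4) (nat_lit 4) (nat_lit 5) (nat_lit 4) (nat_lit 4) (nat_lit 226) (nat_lit 192) (nat_lit 182)) (XT.lf (nat_lit 0) (nat_lit 22140336315) (nat_lit 76) (nat_lit 20865895201) (nat_lit 76) (nat_lit 16605970390) (nat_lit 3) (nat_lit 4) (nat_lit 4) (nat_lit 5) (nat_lit 4) (nat_lit 4) (nat_lit 227) (nat_lit 192) (nat_lit 181))))) (XT.nd (nat_lit 156) (nat_lit 0) (nat_lit 0) (XT.nd (nat_lit 78) (nat_lit 0) (nat_lit 0) (XT.lf (nat_lit 0) (nat_lit 34548655931) (nat_lit 76) (nat_lit 19008402168) (nat_lit 76) (nat_lit 14596346244) (nat_lit 3) (nat_lit 4)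 (nat_lit 4) (nat_lit 5) (nat_lit 4) (nat_lit 4) (nat_lit 228) (nat_lit 192) (nat_lit 180)) (XT.lf (nat_lit 0) (nat_lit 48478449973) (nat_lit 76) (nat_lit 17028330260) (nat_lit 76) (nat_lit 12483986412) (nat_lit 3) (nat_lit 4) (nat_lit 4) (nat_lit 5) (nat_lit 4) (nat_lit 4) (nat_lit 229) (nat_lit 192) (nat_lit 179))) (XT.nd (nat_lit 78) (nat_lit 0) (nat_lit 0) (XT.lf (nat_lit 0) (nat_lit 64202257890) (nat_lit 76) (nat_lit 14886938939) (nat_lit 76) (nat_lit 10227562114) (nat_lit 3) (nat_lit 4) (nat_lit 4) (nat_lit 5) (nat_lit 4) (nat_lit 4) (nat_lit 230) (nat_lit 192) (nat_lit 178)) (XT.nd (nat_lit 78) (nat_lit 0) (nat_lit 0) (XT.lf (nat_lit 0) (nat_lit 82027719402) (nat_lit 76) (nat_lit 12542331419) (nat_lit 76) (nat_lit 7782925918) (nat_lit 3) (nat_lit 4) (nat_lit 4) (nat_lit 5) (nat_lit 4) (nat_lit 4) (nat_lit 231) (nat_lit 192) (nat_lit 177)) (XT.lf (nat_lit 0) (nat_lit 102303593537)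 (nat_lit 76) (nat_lit 9948634943) (nat_lit 76) (nat_lit 5102247985) (nat_lit 3) (nat_lit 4) (nat_lit 4) (nat_lit 5) (nat_lit 4) (nat_lit 4) (nat_lit 232) (nat_lit 192) (nat_lit 176))))))) (XT.nd (nat_lit 780) (nat_lit 0) (nat_lit 0) (XT.nd (nat_lit 390) (nat_lit 0) (nat_lit 0) (XT.nd (nat_lit 156) (nat_lit 76) (nat_lit 0) (XT.nd (nat_lit 78) (nat_lit 76) (nat_lit 0) (XT.lf (nat_lit 0) (nat_lit 125426582182) (nat_lit 76) (nat_lit 7055103278) (nat_lit 76) (nat_lit 2133080270) (nat_lit 3) (nat_lit 4) (nat_lit 4) (nat_lit 5) (nat_lit 4) (nat_lit 4) (nat_lit 233) (nat_lit 192) (nat_lit 175)) (XT.lf (nat_lit 0) (nat_lit 1123507715) (nat_lit 152) (nat_lit 2650897438) (nat_lit 76) (nat_lit 150694865229) (nat_lit 2) (nat_lit 5) (nat_lit 4) (nat_lit 5) (nat_lit 3) (nat_lit 4) (nat_lit 234) (nat_lit 192) (nat_lit 174))) (XT.nd (nat_lit 78) (nat_lit 0) (nat_lit 0) (XT.lf (nat_lit 0) (nat_lit 4785033744)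 (nat_lit 152) (nat_lit 172395425883) (nat_lit 0) (nat_lit 113751146) (nat_lit 1) (nat_lit 5) (nat_lit 3) (nat_lit 4) (nat_lit 1) (nat_lit 4) (nat_lit 235) (nat_lit 192) (nat_lit 173)) (XT.nd (nat_lit 78) (nat_lit 0) (nat_lit 0) (XT.lf (nat_lit 0) (nat_lit 9103522381) (nat_lit 152) (nat_lit 190044657336) (nat_lit 0) (nat_lit 4386191699) (nat_lit 1) (nat_lit 5) (nat_lit 3) (nat_lit 4) (nat_lit 1) (nat_lit 4) (nat_lit 236) (nat_lit 192) (nat_lit 172)) (XT.lf (nat_lit 0) (nat_lit 14003836781) (nat_lit 152) (nat_lit 210465616015) (nat_lit 0) (nat_lit 9246464286) (nat_lit 1) (nat_lit 5) (nat_lit 3) (nat_lit 4) (nat_lit 1) (nat_lit 4) (nat_lit 237) (nat_lit 192) (nat_lit 171))))) (XT.nd (nat_lit 156) (nat_lit 0) (nat_lit 0) (XT.nd (nat_lit 78) (nat_lit 0) (nat_lit 0) (XT.lf (nat_lit 0) (nat_lit 19581852659) (nat_lit 152) (nat_lit 234057842415) (nat_lit 0) (nat_lit 14789661197) (nat_lit 1) (nat_lit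 5) (nat_lit 3) (nat_lit 4) (nat_lit 1) (nat_lit 4) (nat_lit 238) (nat_lit 192) (nat_lit 170)) (XT.lf (nat_lit 0) (nat_lit 25946705109) (nat_lit 152) (nat_lit 261282923575) (nat_lit 0) (nat_lit 21124236285) (nat_lit 1) (nat_lit 5) (nat_lit 3) (nat_lit 4) (nat_lit 1) (nat_lit 4) (nat_lit 239) (nat_lit 192) (nat_lit 169))) (XT.nd (nat_lit 78) (nat_lit 0) (nat_lit 0) (XT.lf (nat_lit 0) (nat_lit 33222923854) (nat_lit 152) (nat_lit 292673524125) (nat_lit 0) (nat_lit 28374126888) (nat_lit 1) (nat_lit 5) (nat_lit 3) (nat_lit 4) (nat_lit 1) (nat_lit 4) (nat_lit 240) (nat_lit 192) (nat_lit 168)) (XT.nd (nat_lit 78) (nat_lit 0) (nat_lit 0) (XT.lf (nat_lit 0) (nat_lit 41552869694) (nat_lit 152) (nat_lit 328843807989) (nat_lit 0) (nat_lit 36681178693) (nat_lit 1) (nat_lit 5) (nat_lit 3) (nat_lit 4) (nat_lit 1) (nat_lit 4) (nat_lit 241) (nat_lit 192) (nat_lit 167)) (XT.lf (nat_lit 0) (nat_lit 51099519831)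 (nat_lit 152) (nat_lit 370501454635) (nat_lit 0) (nat_lit 46207920972) (nat_lit 1) (nat_lit 5) (nat_lit 3) (nat_lit 4) (nat_lit 1) (nat_lit 4) (nat_lit 242) (nat_lit 192) (nat_lit 166)))))) (XT.nd (nat_lit 390) (nat_lit 0) (nat_lit 0) (XT.nd (nat_lit 156) (nat_lit 0) (nat_lit 0) (XT.nd (nat_lit 78) (nat_lit 0) (nat_lit 0) (XT.lf (nat_lit 0) (nat_lit 62049656550) (nat_lit 152) (nat_lit 418461504975) (nat_lit 0) (nat_lit 57140746511) (nat_lit 1) (nat_lit 5) (nat_lit 3) (nat_lit 4) (nat_lit 1) (nat_lit 4) (nat_lit 243) (nat_lit 192) (nat_lit 165)) (XT.lf (nat_lit 0) (nat_lit 74617521657) (nat_lit 152) (nat_lit 473662307819) (nat_lit 0) (nat_lit 69693558417) (nat_lit 1) (nat_lit 5) (nat_lit 3) (nat_lit 4) (nat_lit 1) (nat_lit 4) (nat_lit 244) (nat_lit 192) (nat_lit 164))) (XT.nd (nat_lit 78) (nat_lit 0) (nat_lit 0) (XT.lf (nat_lit 0) (nat_lit 89049008164) (nat_lit 152) (nat_lit 537183878877)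 (nat_lit 0) (nat_lit 84111955185) (nat_lit 1) (nat_lit 5) (nat_lit 3) (nat_lit 4) (nat_lit 1) (nat_lit 4) (nat_lit 245) (nat_lit 192) (nat_lit 163)) (XT.nd (nat_lit 78) (nat_lit 0) (nat_lit 0) (XT.lf (nat_lit 0) (nat_lit 105626471242) (nat_lit 152) (nat_lit 610269031494) (nat_lit 0) (nat_lit 100678035881) (nat_lit 1) (nat_lit 5) (nat_lit 3) (nat_lit 4) (nat_lit 1) (nat_lit 4) (nat_lit 246) (nat_lit 192) (nat_lit 162)) (XT.lf (nat_lit 0) (nat_lit 124674252560) (nat_lit 152) (nat_lit 694347692570) (nat_lit 0) (nat_lit 119715919476) (nat_lit 1) (nat_lit 5) (nat_lit 3) (nat_lit 4) (nat_lit 1) (nat_lit 4) (nat_lit 247) (nat_lit 192) (nat_lit 161))))) (XT.nd (nat_lit 234) (nat_lit 0) (nat_lit 0) (XT.nd (nat_lit 78) (nat_lit 0) (nat_lit 0) (XT.lf (nat_lit 0) (nat_lit 146565026101) (nat_lit 152) (nat_lit 791064879386) (nat_lit 0) (nat_lit 141598086301) (nat_lit 1) (nat_lit 5) (nat_lit 3) (nat_lit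 4) (nat_lit 1) (nat_lit 4) (nat_lit 248) (nat_lit 192) (nat_lit 160)) (XT.nd (nat_lit 78) (nat_lit 0) (nat_lit 0) (XT.lf (nat_lit 0) (nat_lit 171727089608) (nat_lit 152) (nat_lit 902312884729) (nat_lit 0) (nat_lit 166752665706) (nat_lit 1) (nat_lit 5) (nat_lit 3) (nat_lit 4) (nat_lit 1) (nat_lit 4) (nat_lit 249) (nat_lit 192) (nat_lit 159)) (XT.lf (nat_lit 0) (nat_lit 200652744323) (nat_lit 152) (nat_lit 1030268300006) (nat_lit 0) (nat_lit 195671812507) (nat_lit 1) (nat_lit 5) (nat_lit 3) (nat_lit 4) (nat_lit 1) (nat_lit 4) (nat_lit 250) (nat_lit 192) (nat_lit 158)))) (XT.nd (nat_lit 78) (nat_lit 0) (nat_lit 0) (XT.lf (nat_lit 0) (nat_lit 233907926968) (nat_lit 152) (nat_lit 1177434600735) (nat_lit 0) (nat_lit 228921336097) (nat_lit 1) (nat_lit 5) (nat_lit 3) (nat_lit 4) (nat_lit 1) (nat_lit 4) (nat_lit 251) (nat_lit 192) (nat_lit 157)) (XT.nd (nat_lit 78) (nat_lit 0) (nat_lit 0) (XT.lf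 (nat_lit 0) (nat_lit 272143282422) (nat_lit 152) (nat_lit 1346691127581) (nat_lit 0) (nat_lit 267151770633) (nat_lit 1) (nat_lit 5) (nat_lit 3) (nat_lit 4) (nat_lit 1) (nat_lit 4) (nat_lit 252) (nat_lit 192) (nat_lit 156)) (XT.lf (nat_lit 0) (nat_lit 316106893727) (nat_lit 152) (nat_lit 1541349421288) (nat_lit 0) (nat_lit 311111102879) (nat_lit 1) (nat_lit 5) (nat_lit 3) (nat_lit 4) (nat_lit 1) (nat_lit 4) (nat_lit 253) (nat_lit 192) (nat_lit 155))))))))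
noncomputable def xc14 : XT := (XT.nd (nat_lit 29094) (nat_lit 0) (nat_lit 0) (XT.nd (nat_lit 28314) (nat_lit 0) (nat_lit 228) (XT.nd (nat_lit 390) (nat_lit 0) (nat_lit 0) (XT.nd (nat_lit 156) (nat_lit 0) (nat_lit 0) (XT.nd (nat_lit 78) (nat_lit 0) (nat_lit 0) (XT.lf (nat_lit 0) (nat_lit 366658918494) (nat_lit 152) (nat_lit 1765218013689) (nat_lit 0) (nat_lit 361659406725) (nat_lit 1) (nat_lit 5) (nat_lit 3) (nat_lit 4) (nat_lit 1) (nat_lit 4) (nat_lit 254) (nat_lit 192) (nat_lit 154)) (XT.lf (nat_lit 0) (nat_lit 424788418078) (nat_lit 152) (nat_lit 2022676942460) (nat_lit 0) (nat_lit 419785670726) (nat_lit 1) (nat_lit 5) (nat_lit 3) (nat_lit 4) (nat_lit 1) (nat_lit 4) (nat_lit 255) (nat_lit 192) (nat_lit 153))) (XT.nd (nat_lit 78) (nat_lit 0) (nat_lit 0) (XT.lf (nat_lit 0) (nat_lit 491632708775) (nat_lit 152) (nat_lit 2318763447514) (nat_lit 0) (nat_lit 486627147872) (nat_lit 1) (nat_lit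 5) (nat_lit 3) (nat_lit 4) (nat_lit 1) (nat_lit 4) (nat_lit 256) (nat_lit 192) (nat_lit 152)) (XT.nd (nat_lit 78) (nat_lit 0) (nat_lit 0) (XT.lf (nat_lit 0) (nat_lit 568499613664) (nat_lit 152) (nat_lit 2659270525687) (nat_lit 0) (nat_lit 563491606195) (nat_lit 1) (nat_lit 5) (nat_lit 3) (nat_lit 4) (nat_lit 1) (nat_lit 4) (nat_lit 257) (nat_lit 192) (nat_lit 151)) (XT.lf (nat_lit 0) (nat_lit 656893050449) (nat_lit 152) (nat_lit 3050860271988) (nat_lit 0) (nat_lit 651882915532) (nat_lit 1) (nat_lit 5) (nat_lit 3) (nat_lit 4) (nat_lit 1) (nat_lit 4) (nat_lit 258) (nat_lit 192) (nat_lit 150))))) (XT.nd (nat_lit 156) (nat_lit 0) (nat_lit 0) (XT.nd (nat_lit 78) (nat_lit 0) (nat_lit 0) (XT.lf (nat_lit 0) (nat_lit 758542455937) (nat_lit 152) (nat_lit 3501194224932) (nat_lit 0) (nat_lit 753530471064) (nat_lit 1) (nat_lit 5) (nat_lit 3) (nat_lit 4) (nat_lit 1) (nat_lit 4) (nat_lit 259) (nat_lit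 192) (nat_lit 149)) (XT.lf (nat_lit 0) (nat_lit 875436622844) (nat_lit 152) (nat_lit 4019083266205) (nat_lit 0) (nat_lit 870423029315) (nat_lit 1) (nat_lit 5) (nat_lit 3) (nat_lit 4) (nat_lit 1) (nat_lit 4) (nat_lit 260) (nat_lit 192) (nat_lit 148))) (XT.nd (nat_lit 27612) (nat_lit 0) (nat_lit 684) (XT.lf (nat_lit 0) (nat_lit 1009862610957) (nat_lit 152) (nat_lit 4614660007486) (nat_lit 0) (nat_lit 1004847618596) (nat_lit 1) (nat_lit 5) (nat_lit 3) (nat_lit 4) (nat_lit 1) (nat_lit 4) (nat_lit 261) (nat_lit 192) (nat_lit 147)) (XT.nd (nat_lit 78) (nat_lit 152) (nat_lit 0) (XT.lf (nat_lit 0) (nat_lit 1421129802) (nat_lit 152) (nat_lit 2517884069) (nat_lit 152) (nat_lit 2517884069) (nat_lit 12) (nat_lit 4) (nat_lit 14) (nat_lit 5) (nat_lit 14) (nat_lit 4) (nat_lit 214) (nat_lit 193) (nat_lit 193)) (XT.lf (nat_lit 0) (nat_lit 1433542921) (nat_lit 152) (nat_lit 12281507652) (nat_lit 0) (nat_lit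 484163887) (nat_lit 10) (nat_lit 5) (nat_lit 12) (nat_lit 4) (nat_lit 10) (nat_lit 4) (nat_lit 215) (nat_lit 193) (nat_lit 192)))))) (XT.nd (nat_lit 390) (nat_lit 152) (nat_lit 0) (XT.nd (nat_lit 156) (nat_lit 228) (nat_lit 0) (XT.nd (nat_lit 78) (nat_lit 76) (nat_lit 0) (XT.lf (nat_lit 0) (nat_lit 8304152115) (nat_lit 152) (nat_lit 857032649) (nat_lit 0) (nat_lit 6529226095) (nat_lit 10) (nat_lit 5) (nat_lit 12) (nat_lit 4) (nat_lit 10) (nat_lit 4) (nat_lit 216) (nat_lit 193) (nat_lit 191)) (XT.lf (nat_lit 0) (nat_lit 11799994846) (nat_lit 76) (nat_lit 4063480547) (nat_lit 76) (nat_lit 1570687582) (nat_lit 9) (nat_lit 4) (nat_lit 10) (nat_lit 5) (nat_lit 10) (nat_lit 4) (nat_lit 217) (nat_lit 193) (nat_lit 190))) (XT.nd (nat_lit 78) (nat_lit 76) (nat_lit 0) (XT.lf (nat_lit 0) (nat_lit 4491514014) (nat_lit 152) (nat_lit 13363545100) (nat_lit 0) (nat_lit 1605379671) (nat_lit 7) (nat_lit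 5) (nat_lit 9) (nat_lit 4) (nat_lit 7) (nat_lit 4) (nat_lit 218) (nat_lit 193) (nat_lit 189)) (XT.nd (nat_lit 78) (nat_lit 76) (nat_lit 0) (XT.lf (nat_lit 0) (nat_lit 11114001058) (nat_lit 152) (nat_lit 2969678643) (nat_lit 0) (nat_lit 7725264360) (nat_lit 7) (nat_lit 5) (nat_lit 9) (nat_lit 4) (nat_lit 7) (nat_lit 4) (nat_lit 219) (nat_lit 193) (nat_lit 188)) (XT.lf (nat_lit 0) (nat_lit 8576782369) (nat_lit 76) (nat_lit 9890336720) (nat_lit 76) (nat_lit 6064554495) (nat_lit 6) (nat_lit 4) (nat_lit 7) (nat_lit 5) (nat_lit 7) (nat_lit 4) (nat_lit 220) (nat_lit 193) (nat_lit 187))))) (XT.nd (nat_lit 156) (nat_lit 0) (nat_lit 0) (XT.nd (nat_lit 78) (nat_lit 152) (nat_lit 0) (XT.lf (nat_lit 0) (nat_lit 21270239970) (nat_lit 76) (nat_lit 5313192053) (nat_lit 76) (nat_lit 1107370239) (nat_lit 6) (nat_lit 4) (nat_lit 7) (nat_lit 5) (nat_lit 7) (nat_lit 4) (nat_lit 221) (nat_lit 193) (nat_lit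 186)) (XT.lf (nat_lit 0) (nat_lit 3945031826) (nat_lit 76) (nat_lit 132527234) (nat_lit 152) (nat_lit 27260938177) (nat_lit 4) (nat_lit 5) (nat_lit 5) (nat_lit 5) (nat_lit 6) (nat_lit 4) (nat_lit 222) (nat_lit 193) (nat_lit 185))) (XT.nd (nat_lit 78) (nat_lit 0) (nat_lit 0) (XT.lf (nat_lit 0) (nat_lit 9955295885) (nat_lit 152) (nat_lit 20088916088) (nat_lit 0) (nat_lit 5488948154) (nat_lit 4) (nat_lit 5) (nat_lit 6) (nat_lit 4) (nat_lit 4) (nat_lit 4) (nat_lit 223) (nat_lit 193) (nat_lit 184)) (XT.nd (nat_lit 78) (nat_lit 0) (nat_lit 0) (XT.lf (nat_lit 0) (nat_lit 16411308535) (nat_lit 152) (nat_lit 12256888154) (nat_lit 0) (nat_lit 11713588399) (nat_lit 4) (nat_lit 5) (nat_lit 6) (nat_lit 4) (nat_lit 4) (nat_lit 4) (nat_lit 224) (nat_lit 193) (nat_lit 183)) (XT.lf (nat_lit 0) (nat_lit 23568723019) (nat_lit 152) (nat_lit 3740958996) (nat_lit 0) (nat_lit 18669809487) (nat_lit 4) (nat_lit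 5) (nat_lit 6) (nat_lit 4) (nat_lit 4) (nat_lit 4) (nat_lit 225) (nat_lit 193) (nat_lit 182))))))) (XT.nd (nat_lit 780) (nat_lit 76) (nat_lit 0) (XT.nd (nat_lit 390) (nat_lit 76) (nat_lit 0) (XT.nd (nat_lit 156) (nat_lit 0) (nat_lit 0) (XT.nd (nat_lit 78) (nat_lit 0) (nat_lit 0) (XT.lf (nat_lit 0) (nat_lit 5921715587) (nat_lit 76) (nat_lit 25788277524) (nat_lit 76) (nat_lit 20714413212) (nat_lit 3) (nat_lit 4) (nat_lit 4) (nat_lit 5) (nat_lit 4) (nat_lit 4) (nat_lit 226) (nat_lit 193) (nat_lit 181)) (XT.lf (nat_lit 0) (nat_lit 16869592925) (nat_lit 76) (nat_lit 24100487084) (nat_lit 76) (nat_lit 18874491659) (nat_lit 3) (nat_lit 4) (nat_lit 4) (nat_lit 5) (nat_lit 4) (nat_lit 4) (nat_lit 227) (nat_lit 193) (nat_lit 180))) (XT.nd (nat_lit 78) (nat_lit 0) (nat_lit 0) (XT.lf (nat_lit 0) (nat_lit 29119878348) (nat_lit 76) (nat_lit 22315573158) (nat_lit 76) (nat_lit 16957289809) (nat_lit 3)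 (nat_lit 4) (nat_lit 4) (nat_lit 5) (nat_lit 4) (nat_lit 4) (nat_lit 228) (nat_lit 193) (nat_lit 179)) (XT.nd (nat_lit 78) (nat_lit 0) (nat_lit 0) (XT.lf (nat_lit 0) (nat_lit 42912251352) (nat_lit 76) (nat_lit 20398613516) (nat_lit 76) (nat_lit 14925297190) (nat_lit 3) (nat_lit 4) (nat_lit 4) (nat_lit 5) (nat_lit 4) (nat_lit 4) (nat_lit 229) (nat_lit 193) (nat_lit 178)) (XT.lf (nat_lit 0) (nat_lit 58516562714) (nat_lit 76) (nat_lit 18312102427) (nat_lit 76) (nat_lit 12738757425) (nat_lit 3) (nat_lit 4) (nat_lit 4) (nat_lit 5) (nat_lit 4) (nat_lit 4) (nat_lit 230) (nat_lit 193) (nat_lit 177))))) (XT.nd (nat_lit 156) (nat_lit 76) (nat_lit 0) (XT.nd (nat_lit 78) (nat_lit 0) (nat_lit 0) (XT.lf (nat_lit 0) (nat_lit 76238114178) (nat_lit 76) (nat_lit 16015216848) (nat_lit 76) (nat_lit 10354890389) (nat_lit 3) (nat_lit 4) (nat_lit 4) (nat_lit 5) (nat_lit 4) (nat_lit 4) (nat_lit 231) (nat_lit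 193) (nat_lit 176)) (XT.lf (nat_lit 0) (nat_lit 96423631750) (nat_lit 76) (nat_lit 13463017713) (nat_lit 76) (nat_lit 7727055204) (nat_lit 3) (nat_lit 4) (nat_lit 4) (nat_lit 5) (nat_lit 4) (nat_lit 4) (nat_lit 232) (nat_lit 193) (nat_lit 175))) (XT.nd (nat_lit 78) (nat_lit 76) (nat_lit 0) (XT.lf (nat_lit 0) (nat_lit 119468049471) (nat_lit 76) (nat_lit 10605570691) (nat_lit 76) (nat_lit 4803837703) (nat_lit 3) (nat_lit 4) (nat_lit 4) (nat_lit 5) (nat_lit 4) (nat_lit 4) (nat_lit 233) (nat_lit 193) (nat_lit 174)) (XT.nd (nat_lit 78) (nat_lit 76) (nat_lit 0) (XT.lf (nat_lit 0) (nat_lit 145822236382) (nat_lit 76) (nat_lit 7386969209) (nat_lit 76) (nat_lit 1528044501) (nat_lit 3) (nat_lit 4) (nat_lit 4) (nat_lit 5) (nat_lit 4) (nat_lit 4) (nat_lit 234) (nat_lit 193) (nat_lit 173)) (XT.lf (nat_lit 0) (nat_lit 2056143152) (nat_lit 152) (nat_lit 1631878881) (nat_lit 76) (nat_lit 173889456129)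 (nat_lit 2) (nat_lit 5) (nat_lit 4) (nat_lit 5) (nat_lit 3) (nat_lit 4) (nat_lit 235) (nat_lit 193) (nat_lit 172)))))) (XT.nd (nat_lit 390) (nat_lit 0) (nat_lit 0) (XT.nd (nat_lit 156) (nat_lit 0) (nat_lit 0) (XT.nd (nat_lit 78) (nat_lit 0) (nat_lit 0) (XT.lf (nat_lit 0) (nat_lit 6212875035) (nat_lit 152) (nat_lit 196915889050) (nat_lit 0) (nat_lit 701854854) (nat_lit 1) (nat_lit 5) (nat_lit 3) (nat_lit 4) (nat_lit 1) (nat_lit 4) (nat_lit 236) (nat_lit 193) (nat_lit 171)) (XT.lf (nat_lit 0) (nat_lit 11086517024) (nat_lit 152) (nat_lit 217387137924) (nat_lit 0) (nat_lit 5540677876) (nat_lit 1) (nat_lit 5) (nat_lit 3) (nat_lit 4) (nat_lit 1) (nat_lit 4) (nat_lit 237) (nat_lit 193) (nat_lit 170))) (XT.nd (nat_lit 78) (nat_lit 0) (nat_lit 0) (XT.lf (nat_lit 0) (nat_lit 16641339503) (nat_lit 152) (nat_lit 241023094928) (nat_lit 0) (nat_lit 11065222992) (nat_lit 1) (nat_lit 5) (nat_lit 3) (nat_lit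 4) (nat_lit 1) (nat_lit 4) (nat_lit 238) (nat_lit 193) (nat_lit 169)) (XT.nd (nat_lit 78) (nat_lit 0) (nat_lit 0) (XT.lf (nat_lit 0) (nat_lit 22986023779) (nat_lit 152) (nat_lit 268286202700) (nat_lit 0) (nat_lit 17383579128) (nat_lit 1) (nat_lit 5) (nat_lit 3) (nat_lit 4) (nat_lit 1) (nat_lit 4) (nat_lit 239) (nat_lit 193) (nat_lit 168)) (XT.lf (nat_lit 0) (nat_lit 30244704982) (nat_lit 152) (nat_lit 299709869869) (nat_lit 0) (nat_lit 24619366294) (nat_lit 1) (nat_lit 5) (nat_lit 3) (nat_lit 4) (nat_lit 1) (nat_lit 4) (nat_lit 240) (nat_lit 193) (nat_lit 167))))) (XT.nd (nat_lit 156) (nat_lit 0) (nat_lit 0) (XT.nd (nat_lit 78) (nat_lit 0) (nat_lit 0) (XT.lf (nat_lit 0) (nat_lit 38559400785) (nat_lit 152) (nat_lit 335908907316) (nat_lit 0) (nat_lit 32914154240) (nat_lit 1) (nat_lit 5) (nat_lit 3) (nat_lit 4) (nat_lit 1) (nat_lit 4) (nat_lit 241) (nat_lit 193) (nat_lit 166)) (XT.lf (nat_lit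 0) (nat_lit 48092790020) (nat_lit 152) (nat_lit 377591557076) (nat_lit 0) (nat_lit 42430232295) (nat_lit 1) (nat_lit 5) (nat_lit 3) (nat_lit 4) (nat_lit 1) (nat_lit 4) (nat_lit 242) (nat_lit 193) (nat_lit 165))) (XT.nd (nat_lit 78) (nat_lit 0) (nat_lit 0) (XT.lf (nat_lit 0) (nat_lit 59031395521) (nat_lit 152) (nat_lit 425573349255) (nat_lit 0) (nat_lit 53353784595) (nat_lit 1) (nat_lit 5) (nat_lit 3) (nat_lit 4) (nat_lit 1) (nat_lit 4) (nat_lit 243) (nat_lit 193) (nat_lit 164)) (XT.nd (nat_lit 78) (nat_lit 0) (nat_lit 0) (XT.lf (nat_lit 0) (nat_lit 71589233480) (nat_lit 152) (nat_lit 480793058047) (nat_lit 0) (nat_lit 65898532815) (nat_lit 1) (nat_lit 5) (nat_lit 3) (nat_lit 4) (nat_lit 1) (nat_lit 4) (nat_lit 244) (nat_lit 193) (nat_lit 163)) (XT.lf (nat_lit 0) (nat_lit 86012000729) (nat_lit 152) (nat_lit 544331069059) (nat_lit 0) (nat_lit 80309917682) (nat_lit 1) (nat_lit 5) (nat_lit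 3) (nat_lit 4) (nat_lit 1) (nat_lit 4) (nat_lit 245) (nat_lit 193) (nat_lit 162))))))))
noncomputable def xc15 : XT := (XT.nd (nat_lit 28938) (nat_lit 0) (nat_lit 76) (XT.nd (nat_lit 780) (nat_lit 0) (nat_lit 0) (XT.nd (nat_lit 390) (nat_lit 0) (nat_lit 0) (XT.nd (nat_lit 156) (nat_lit 0) (nat_lit 0) (XT.nd (nat_lit 78) (nat_lit 0) (nat_lit 0) (XT.lf (nat_lit 0) (nat_lit 102581881844) (nat_lit 152) (nat_lit 617430517288) (nat_lit 0) (nat_lit 96869901073) (nat_lit 1) (nat_lit 5) (nat_lit 3) (nat_lit 4) (nat_lit 1) (nat_lit 4) (nat_lit 246) (nat_lit 193) (nat_lit 161)) (XT.lf (nat_lit 0) (nat_lit 121623070151) (nat_lit 152) (nat_lit 701521609331) (nat_lit 0) (nat_lit 115902482664) (nat_lit 1) (nat_lit 5) (nat_lit 3) (nat_lit 4) (nat_lit 1) (nat_lit 4) (nat_lit 247) (nat_lit 193) (nat_lit 160))) (XT.nd (nat_lit 78) (nat_lit 0) (nat_lit 0) (XT.lf (nat_lit 0) (nat_lit 143508110638) (nat_lit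 152) (nat_lit 798249605684) (nat_lit 0) (nat_lit 137780039050) (nat_lit 1) (nat_lit 5) (nat_lit 3) (nat_lit 4) (nat_lit 1) (nat_lit 4) (nat_lit 248) (nat_lit 193) (nat_lit 159)) (XT.nd (nat_lit 78) (nat_lit 0) (nat_lit 0) (XT.lf (nat_lit 0) (nat_lit 168665188880) (nat_lit 152) (nat_lit 909507010623) (nat_lit 0) (nat_lit 162930609379) (nat_lit 1) (nat_lit 5) (nat_lit 3) (nat_lit 4) (nat_lit 1) (nat_lit 4) (nat_lit 249) (nat_lit 193) (nat_lit 158)) (XT.lf (nat_lit 0) (nat_lit 197586508583) (nat_lit 152) (nat_lit 1037470599463) (nat_lit 0) (nat_lit 191846270026) (nat_lit 1) (nat_lit 5) (nat_lit 3) (nat_lit 4) (nat_lit 1) (nat_lit 4) (nat_lit 250) (nat_lit 193) (nat_lit 157))))) (XT.nd (nat_lit 156) (nat_lit 0) (nat_lit 0) (XT.nd (nat_lit 78) (nat_lit 0) (nat_lit 0) (XT.lf (nat_lit 0) (nat_lit 230837921653) (nat_lit 152) (nat_lit 1184644007638) (nat_lit 0) (nat_lit 225092762177) (nat_lit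 1) (nat_lit 5) (nat_lit 3) (nat_lit 4) (nat_lit 1) (nat_lit 4) (nat_lit 251) (nat_lit 193) (nat_lit 156)) (XT.lf (nat_lit 0) (nat_lit 269069999215) (nat_lit 152) (nat_lit 1353906714872) (nat_lit 0) (nat_lit 263320560681) (nat_lit 1) (nat_lit 5) (nat_lit 3) (nat_lit 4) (nat_lit 1) (nat_lit 4) (nat_lit 252) (nat_lit 193) (nat_lit 155))) (XT.nd (nat_lit 78) (nat_lit 0) (nat_lit 0) (XT.lf (nat_lit 0) (nat_lit 313030760178) (nat_lit 152) (nat_lit 1548570382829) (nat_lit 0) (nat_lit 307277600723) (nat_lit 1) (nat_lit 5) (nat_lit 3) (nat_lit 4) (nat_lit 1) (nat_lit 4) (nat_lit 253) (nat_lit 193) (nat_lit 154)) (XT.nd (nat_lit 78) (nat_lit 0) (nat_lit 0) (XT.lf (nat_lit 0) (nat_lit 363580306388) (nat_lit 152) (nat_lit 1772443648490) (nat_lit 0) (nat_lit 357823911350) (nat_lit 1) (nat_lit 5) (nat_lit 3) (nat_lit 4) (nat_lit 1) (nat_lit 4) (nat_lit 254) (nat_lit 193) (nat_lit 153)) (XT.lf (nat_lit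 0) (nat_lit 421707650705) (nat_lit 152) (nat_lit 2029906640967) (nat_lit 0) (nat_lit 415948442116) (nat_lit 1) (nat_lit 5) (nat_lit 3) (nat_lit 4) (nat_lit 1) (nat_lit 4) (nat_lit 255) (nat_lit 193) (nat_lit 152)))))) (XT.nd (nat_lit 390) (nat_lit 0) (nat_lit 0) (XT.nd (nat_lit 156) (nat_lit 0) (nat_lit 0) (XT.nd (nat_lit 78) (nat_lit 0) (nat_lit 0) (XT.lf (nat_lit 0) (nat_lit 488550067256) (nat_lit 152) (nat_lit 2325996679677) (nat_lit 0) (nat_lit 482788412101) (nat_lit 1) (nat_lit 5) (nat_lit 3) (nat_lit 4) (nat_lit 1) (nat_lit 4) (nat_lit 256) (nat_lit 193) (nat_lit 151)) (XT.lf (nat_lit 0) (nat_lit 565415342454) (nat_lit 152) (nat_lit 2666506830596) (nat_lit 0) (nat_lit 559651559850) (nat_lit 1) (nat_lit 5) (nat_lit 3) (nat_lit 4) (nat_lit 1) (nat_lit 4) (nat_lit 257) (nat_lit 193) (nat_lit 150))) (XT.nd (nat_lit 78) (nat_lit 0) (nat_lit 0) (XT.lf (nat_lit 0) (nat_lit 653807362116)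 (nat_lit 152) (nat_lit 3058099248849) (nat_lit 0) (nat_lit 648041729557) (nat_lit 1) (nat_lit 5) (nat_lit 3) (nat_lit 4) (nat_lit 1) (nat_lit 4) (nat_lit 258) (nat_lit 193) (nat_lit 149)) (XT.nd (nat_lit 78) (nat_lit 0) (nat_lit 0) (XT.lf (nat_lit 0) (nat_lit 755455535323) (nat_lit 152) (nat_lit 3508435525229) (nat_lit 0) (nat_lit 749688294107) (nat_lit 1) (nat_lit 5) (nat_lit 3) (nat_lit 4) (nat_lit 1) (nat_lit 4) (nat_lit 259) (nat_lit 193) (nat_lit 148)) (XT.lf (nat_lit 0) (nat_lit 872348630681) (nat_lit 152) (nat_lit 4026326586882) (nat_lit 0) (nat_lit 866579990633) (nat_lit 1) (nat_lit 5) (nat_lit 3) (nat_lit 4) (nat_lit 1) (nat_lit 4) (nat_lit 260) (nat_lit 193) (nat_lit 147))))) (XT.nd (nat_lit 27534) (nat_lit 0) (nat_lit 684) (XT.nd (nat_lit 27456) (nat_lit 0) (nat_lit 1140) (XT.lf (nat_lit 0) (nat_lit 1006773687013) (nat_lit 152) (nat_lit 4621905085015) (nat_lit 0) (nat_lit 1001003830589)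 (nat_lit 1) (nat_lit 5) (nat_lit 3) (nat_lit 4) (nat_lit 1) (nat_lit 4) (nat_lit 261) (nat_lit 193) (nat_lit 146)) (XT.lf (nat_lit 0) (nat_lit 890552746) (nat_lit 152) (nat_lit 2271279950) (nat_lit 152) (nat_lit 2271279950) (nat_lit 16) (nat_lit 4) (nat_lit 18) (nat_lit 5) (nat_lit 18) (nat_lit 4) (nat_lit 212) (nat_lit 194) (nat_lit 194))) (XT.nd (nat_lit 78) (nat_lit 304) (nat_lit 0) (XT.lf (nat_lit 0) (nat_lit 1869489300) (nat_lit 152) (nat_lit 9265662088) (nat_lit 0) (nat_lit 690360540) (nat_lit 14) (nat_lit 5) (nat_lit 16) (nat_lit 4) (nat_lit 14) (nat_lit 4) (nat_lit 213) (nat_lit 194) (nat_lit 193)) (XT.nd (nat_lit 78) (nat_lit 152) (nat_lit 0) (XT.lf (nat_lit 0) (nat_lit 2260111723) (nat_lit 152) (nat_lit 6443711379) (nat_lit 152) (nat_lit 4239253262) (nat_lit 12) (nat_lit 4) (nat_lit 14) (nat_lit 5) (nat_lit 14) (nat_lit 4) (nat_lit 214) (nat_lit 194) (nat_lit 192)) (XT.lf (nat_lit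 0) (nat_lit 715903659) (nat_lit 76) (nat_lit 1116765822) (nat_lit 152) (nat_lit 12423712708) (nat_lit 10) (nat_lit 5) (nat_lit 11) (nat_lit 5) (nat_lit 12) (nat_lit 4) (nat_lit 215) (nat_lit 194) (nat_lit 191))))))) (XT.nd (nat_lit 780) (nat_lit 152) (nat_lit 0) (XT.nd (nat_lit 390) (nat_lit 152) (nat_lit 0) (XT.nd (nat_lit 156) (nat_lit 228) (nat_lit 0) (XT.nd (nat_lit 78) (nat_lit 76) (nat_lit 0) (XT.lf (nat_lit 0) (nat_lit 8385412312) (nat_lit 152) (nat_lit 2587471930) (nat_lit 0) (nat_lit 4800833458) (nat_lit 10) (nat_lit 5) (nat_lit 12) (nat_lit 4) (nat_lit 10) (nat_lit 4) (nat_lit 216) (nat_lit 194) (nat_lit 190)) (XT.lf (nat_lit 0) (nat_lit 9522287921) (nat_lit 76) (nat_lit 6114618223) (nat_lit 76) (nat_lit 1905807244) (nat_lit 9) (nat_lit 4) (nat_lit 10) (nat_lit 5) (nat_lit 10) (nat_lit 4) (nat_lit 217) (nat_lit 194) (nat_lit 189))) (XT.nd (nat_lit 78) (nat_lit 76) (nat_lit 0)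 (XT.lf (nat_lit 0) (nat_lit 3206214928) (nat_lit 76) (nat_lit 619667981) (nat_lit 152) (nat_lit 15772030056) (nat_lit 7) (nat_lit 5) (nat_lit 8) (nat_lit 5) (nat_lit 9) (nat_lit 4) (nat_lit 218) (nat_lit 194) (nat_lit 188)) (XT.nd (nat_lit 78) (nat_lit 76) (nat_lit 0) (XT.lf (nat_lit 0) (nat_lit 10215320927) (nat_lit 152) (nat_lit 6371547528) (nat_lit 0) (nat_lit 5378625842) (nat_lit 7) (nat_lit 5) (nat_lit 9) (nat_lit 4) (nat_lit 7) (nat_lit 4) (nat_lit 219) (nat_lit 194) (nat_lit 187)) (XT.lf (nat_lit 0) (nat_lit 4640052781) (nat_lit 76) (nat_lit 12644015565) (nat_lit 76) (nat_lit 7427280891) (nat_lit 6) (nat_lit 4) (nat_lit 7) (nat_lit 5) (nat_lit 7) (nat_lit 4) (nat_lit 220) (nat_lit 194) (nat_lit 186))))) (XT.nd (nat_lit 156) (nat_lit 76) (nat_lit 0) (XT.nd (nat_lit 78) (nat_lit 76) (nat_lit 0) (XT.lf (nat_lit 0) (nat_lit 17024184888) (nat_lit 76) (nat_lit 8203807392) (nat_lit 76)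 (nat_lit 2656603511) (nat_lit 6) (nat_lit 4) (nat_lit 7) (nat_lit 5) (nat_lit 7) (nat_lit 4) (nat_lit 221) (nat_lit 194) (nat_lit 185)) (XT.lf (nat_lit 0) (nat_lit 2356879605) (nat_lit 152) (nat_lit 932258829) (nat_lit 76) (nat_lit 28266311759) (nat_lit 5) (nat_lit 5) (nat_lit 7) (nat_lit 5) (nat_lit 6) (nat_lit 4) (nat_lit 222) (nat_lit 194) (nat_lit 184))) (XT.nd (nat_lit 78) (nat_lit 0) (nat_lit 0) (XT.lf (nat_lit 0) (nat_lit 7991671352) (nat_lit 152) (nat_lit 25420185320) (nat_lit 0) (nat_lit 2357920789) (nat_lit 4) (nat_lit 5) (nat_lit 6) (nat_lit 4) (nat_lit 4) (nat_lit 4) (nat_lit 223) (nat_lit 194) (nat_lit 183)) (XT.nd (nat_lit 78) (nat_lit 0) (nat_lit 0) (XT.lf (nat_lit 0) (nat_lit 14323497926) (nat_lit 152) (nat_lit 17816484347) (nat_lit 0) (nat_lit 8488553967) (nat_lit 4) (nat_lit 5) (nat_lit 6) (nat_lit 4) (nat_lit 4) (nat_lit 4) (nat_lit 224) (nat_lit 194) (nat_lit 182))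 (XT.lf (nat_lit 0) (nat_lit 21372924518) (nat_lit 152) (nat_lit 9499100373) (nat_lit 0) (nat_lit 15363029780) (nat_lit 4) (nat_lit 5) (nat_lit 6) (nat_lit 4) (nat_lit 4) (nat_lit 4) (nat_lit 225) (nat_lit 194) (nat_lit 181)))))) (XT.nd (nat_lit 390) (nat_lit 76) (nat_lit 0) (XT.nd (nat_lit 156) (nat_lit 0) (nat_lit 0) (XT.nd (nat_lit 78) (nat_lit 76) (nat_lit 0) (XT.lf (nat_lit 0) (nat_lit 29277874692) (nat_lit 152) (nat_lit 305301972) (nat_lit 0) (nat_lit 23115848841) (nat_lit 4) (nat_lit 5) (nat_lit 6) (nat_lit 4) (nat_lit 4) (nat_lit 4) (nat_lit 226) (nat_lit 194) (nat_lit 180)) (XT.lf (nat_lit 0) (nat_lit 10468464511) (nat_lit 76) (nat_lit 27976312829) (nat_lit 76) (nat_lit 21681999054) (nat_lit 3) (nat_lit 4) (nat_lit 4) (nat_lit 5) (nat_lit 4) (nat_lit 4) (nat_lit 227) (nat_lit 194) (nat_lit 179))) (XT.nd (nat_lit 78) (nat_lit 0) (nat_lit 0) (XT.lf (nat_lit 0) (nat_lit 22581328895)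 (nat_lit 76) (nat_lit 26254511170) (nat_lit 76) (nat_lit 19845164417) (nat_lit 3) (nat_lit 4) (nat_lit 4) (nat_lit 5) (nat_lit 4) (nat_lit 4) (nat_lit 228) (nat_lit 194) (nat_lit 178)) (XT.nd (nat_lit 78) (nat_lit 0) (nat_lit 0) (XT.lf (nat_lit 0) (nat_lit 36254205345) (nat_lit 76) (nat_lit 24392431760) (nat_lit 76) (nat_lit 17883056332) (nat_lit 3) (nat_lit 4) (nat_lit 4) (nat_lit 5) (nat_lit 4) (nat_lit 4) (nat_lit 229) (nat_lit 194) (nat_lit 177)) (XT.lf (nat_lit 0) (nat_lit 51754606659) (nat_lit 76) (nat_lit 22353642612) (nat_lit 76) (nat_lit 15757285727) (nat_lit 3) (nat_lit 4) (nat_lit 4) (nat_lit 5) (nat_lit 4) (nat_lit 4) (nat_lit 230) (nat_lit 194) (nat_lit 176))))) (XT.nd (nat_lit 234) (nat_lit 76) (nat_lit 0) (XT.nd (nat_lit 78) (nat_lit 0) (nat_lit 0) (XT.lf (nat_lit 0) (nat_lit 69385801560) (nat_lit 76) (nat_lit 20098254373) (nat_lit 76) (nat_lit 13426261437) (nat_lit 3)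 (nat_lit 4) (nat_lit 4) (nat_lit 5) (nat_lit 4) (nat_lit 4) (nat_lit 231) (nat_lit 194) (nat_lit 175)) (XT.nd (nat_lit 78) (nat_lit 0) (nat_lit 0) (XT.lf (nat_lit 0) (nat_lit 89492748208) (nat_lit 76) (nat_lit 17582139881) (nat_lit 76) (nat_lit 10844376467) (nat_lit 3) (nat_lit 4) (nat_lit 4) (nat_lit 5) (nat_lit 4) (nat_lit 4) (nat_lit 232) (nat_lit 194) (nat_lit 174)) (XT.lf (nat_lit 0) (nat_lit 112468843385) (nat_lit 76) (nat_lit 14756070809) (nat_lit 76) (nat_lit 7961115676) (nat_lit 3) (nat_lit 4) (nat_lit 4) (nat_lit 5) (nat_lit 4) (nat_lit 4) (nat_lit 233) (nat_lit 194) (nat_lit 173)))) (XT.nd (nat_lit 78) (nat_lit 76) (nat_lit 0) (XT.lf (nat_lit 0) (nat_lit 138763619389) (nat_lit 76) (nat_lit 11564754503) (nat_lit 76) (nat_lit 4720067438) (nat_lit 3) (nat_lit 4) (nat_lit 4) (nat_lit 5) (nat_lit 4) (nat_lit 4) (nat_lit 234) (nat_lit 194) (nat_lit 172)) (XT.nd (nat_lit 78) (nat_lit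 76) (nat_lit 0) (XT.lf (nat_lit 0) (nat_lit 168891539228) (nat_lit 76) (nat_lit 7945752163) (nat_lit 76) (nat_lit 1057819941) (nat_lit 3) (nat_lit 4) (nat_lit 4) (nat_lit 5) (nat_lit 4) (nat_lit 4) (nat_lit 235) (nat_lit 194) (nat_lit 171)) (XT.lf (nat_lit 0) (nat_lit 2942341018) (nat_lit 152) (nat_lit 805467387) (nat_lit 76) (nat_lit 200419272368) (nat_lit 2) (nat_lit 5) (nat_lit 4) (nat_lit 5) (nat_lit 3) (nat_lit 4) (nat_lit 236) (nat_lit 194) (nat_lit 170))))))))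
noncomputable def xc16 : XT := (XT.nd (nat_lit 1560) (nat_lit 0) (nat_lit 0) (XT.nd (nat_lit 780) (nat_lit 0) (nat_lit 0) (XT.nd (nat_lit 390) (nat_lit 0) (nat_lit 0) (XT.nd (nat_lit 156) (nat_lit 0) (nat_lit 0) (XT.nd (nat_lit 78) (nat_lit 0) (nat_lit 0) (XT.lf (nat_lit 0) (nat_lit 7681733495) (nat_lit 152) (nat_lit 225440908917) (nat_lit 0) (nat_lit 1238922145) (nat_lit 1) (nat_lit 5) (nat_lit 3) (nat_lit 4) (nat_lit 1) (nat_lit 4) (nat_lit 237) (nat_lit 194) (nat_lit 169)) (XT.lf (nat_lit 0) (nat_lit 13216387799) (nat_lit 152) (nat_lit 249114892534) (nat_lit 0) (nat_lit 6747248309) (nat_lit 1) (nat_lit 5) (nat_lit 3) (nat_lit 4) (nat_lit 1) (nat_lit 4) (nat_lit 238) (nat_lit 194) (nat_lit 168))) (XT.nd (nat_lit 78) (nat_lit 0) (nat_lit 0) (XT.lf (nat_lit 0) (nat_lit 19543534534) (nat_lit 152) (nat_lit 276411066925) (nat_lit 0) (nat_lit 13051501007) (nat_lit 1) (nat_lit 5) (nat_lit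 3) (nat_lit 4) (nat_lit 1) (nat_lit 4) (nat_lit 239) (nat_lit 194) (nat_lit 167)) (XT.nd (nat_lit 78) (nat_lit 0) (nat_lit 0) (XT.lf (nat_lit 0) (nat_lit 26786965699) (nat_lit 152) (nat_lit 307863487677) (nat_lit 0) (nat_lit 20275024315) (nat_lit 1) (nat_lit 5) (nat_lit 3) (nat_lit 4) (nat_lit 1) (nat_lit 4) (nat_lit 240) (nat_lit 194) (nat_lit 166)) (XT.lf (nat_lit 0) (nat_lit 35088400601) (nat_lit 152) (nat_lit 344087528239) (nat_lit 0) (nat_lit 28559148036) (nat_lit 1) (nat_lit 5) (nat_lit 3) (nat_lit 4) (nat_lit 1) (nat_lit 4) (nat_lit 241) (nat_lit 194) (nat_lit 165))))) (XT.nd (nat_lit 156) (nat_lit 0) (nat_lit 0) (XT.nd (nat_lit 78) (nat_lit 0) (nat_lit 0) (XT.lf (nat_lit 0) (nat_lit 44610258618) (nat_lit 152) (nat_lit 385791919838) (nat_lit 0) (nat_lit 38065952853) (nat_lit 1) (nat_lit 5) (nat_lit 3) (nat_lit 4) (nat_lit 1) (nat_lit 4) (nat_lit 242) (nat_lit 194) (nat_lit 164))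 (XT.lf (nat_lit 0) (nat_lit 55538836971) (nat_lit 152) (nat_lit 433792617964) (nat_lit 0) (nat_lit 48981441467) (nat_lit 1) (nat_lit 5) (nat_lit 3) (nat_lit 4) (nat_lit 1) (nat_lit 4) (nat_lit 243) (nat_lit 194) (nat_lit 163))) (XT.nd (nat_lit 78) (nat_lit 0) (nat_lit 0) (XT.lf (nat_lit 0) (nat_lit 68087955673) (nat_lit 152) (nat_lit 489028766710) (nat_lit 0) (nat_lit 61519177786) (nat_lit 1) (nat_lit 5) (nat_lit 3) (nat_lit 4) (nat_lit 1) (nat_lit 4) (nat_lit 244) (nat_lit 194) (nat_lit 162)) (XT.nd (nat_lit 78) (nat_lit 0) (nat_lit 0) (XT.lf (nat_lit 0) (nat_lit 82503140958) (nat_lit 152) (nat_lit 552581073334) (nat_lit 0) (nat_lit 75924465348) (nat_lit 1) (nat_lit 5) (nat_lit 3) (nat_lit 4) (nat_lit 1) (nat_lit 4) (nat_lit 245) (nat_lit 194) (nat_lit 161)) (XT.lf (nat_lit 0) (nat_lit 99066429061) (nat_lit 152) (nat_lit 625692952530) (nat_lit 0) (nat_lit 92479146735) (nat_lit 1) (nat_lit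 5) (nat_lit 3) (nat_lit 4) (nat_lit 1) (nat_lit 4) (nat_lit 246) (nat_lit 194) (nat_lit 160)))))) (XT.nd (nat_lit 390) (nat_lit 0) (nat_lit 0) (XT.nd (nat_lit 156) (nat_lit 0) (nat_lit 0) (XT.nd (nat_lit 78) (nat_lit 0) (nat_lit 0) (XT.lf (nat_lit 0) (nat_lit 118101884314) (nat_lit 152) (nat_lit 709794854110) (nat_lit 0) (nat_lit 111507117887) (nat_lit 1) (nat_lit 5) (nat_lit 3) (nat_lit 4) (nat_lit 1) (nat_lit 4) (nat_lit 247) (nat_lit 194) (nat_lit 159)) (XT.lf (nat_lit 0) (nat_lit 139981939537) (nat_lit 152) (nat_lit 806532250059) (nat_lit 0) (nat_lit 133380665196) (nat_lit 1) (nat_lit 5) (nat_lit 3) (nat_lit 4) (nat_lit 1) (nat_lit 4) (nat_lit 248) (nat_lit 194) (nat_lit 158))) (XT.nd (nat_lit 78) (nat_lit 0) (nat_lit 0) (XT.lf (nat_lit 0) (nat_lit 165134682767) (nat_lit 152) (nat_lit 917797828562) (nat_lit 0) (nat_lit 158527749371) (nat_lit 1) (nat_lit 5) (nat_lit 3) (nat_lit 4)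 (nat_lit 1) (nat_lit 4) (nat_lit 249) (nat_lit 194) (nat_lit 157)) (XT.nd (nat_lit 78) (nat_lit 0) (nat_lit 0) (XT.lf (nat_lit 0) (nat_lit 194052232894) (nat_lit 152) (nat_lit 1045768524847) (nat_lit 0) (nat_lit 187440378580) (nat_lit 1) (nat_lit 5) (nat_lit 3) (nat_lit 4) (nat_lit 1) (nat_lit 4) (nat_lit 250) (nat_lit 194) (nat_lit 156)) (XT.lf (nat_lit 0) (nat_lit 227300368072) (nat_lit 152) (nat_lit 1192948113410) (nat_lit 0) (nat_lit 220684234698) (nat_lit 1) (nat_lit 5) (nat_lit 3) (nat_lit 4) (nat_lit 1) (nat_lit 4) (nat_lit 251) (nat_lit 194) (nat_lit 155))))) (XT.nd (nat_lit 156) (nat_lit 0) (nat_lit 0) (XT.nd (nat_lit 78) (nat_lit 0) (nat_lit 0) (XT.lf (nat_lit 0) (nat_lit 265529595293) (nat_lit 152) (nat_lit 1362216194894) (nat_lit 0) (nat_lit 258909740999) (nat_lit 1) (nat_lit 5) (nat_lit 3) (nat_lit 4) (nat_lit 1) (nat_lit 4) (nat_lit 252) (nat_lit 194) (nat_lit 154)) (XT.lf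 (nat_lit 0) (nat_lit 309487877699) (nat_lit 152) (nat_lit 1556884536112) (nat_lit 0) (nat_lit 302864787822) (nat_lit 1) (nat_lit 5) (nat_lit 3) (nat_lit 4) (nat_lit 1) (nat_lit 4) (nat_lit 253) (nat_lit 194) (nat_lit 153))) (XT.nd (nat_lit 78) (nat_lit 0) (nat_lit 0) (XT.lf (nat_lit 0) (nat_lit 360035268642) (nat_lit 152) (nat_lit 1780761865478) (nat_lit 0) (nat_lit 353409365213) (nat_lit 1) (nat_lit 5) (nat_lit 3) (nat_lit 4) (nat_lit 1) (nat_lit 4) (nat_lit 254) (nat_lit 194) (nat_lit 152)) (XT.nd (nat_lit 78) (nat_lit 0) (nat_lit 0) (XT.lf (nat_lit 0) (nat_lit 418160738813) (nat_lit 152) (nat_lit 2038228391612) (nat_lit 0) (nat_lit 411532388819) (nat_lit 1) (nat_lit 5) (nat_lit 3) (nat_lit 4) (nat_lit 1) (nat_lit 4) (nat_lit 255) (nat_lit 194) (nat_lit 151)) (XT.lf (nat_lit 0) (nat_lit 485001525673) (nat_lit 152) (nat_lit 2334321503067) (nat_lit 0) (nat_lit 478371048230) (nat_lit 1)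 (nat_lit 5) (nat_lit 3) (nat_lit 4) (nat_lit 1) (nat_lit 4) (nat_lit 256) (nat_lit 194) (nat_lit 150))))))) (XT.nd (nat_lit 28002) (nat_lit 0) (nat_lit 228) (XT.nd (nat_lit 27612) (nat_lit 0) (nat_lit 836) (XT.nd (nat_lit 156) (nat_lit 0) (nat_lit 0) (XT.nd (nat_lit 78) (nat_lit 0) (nat_lit 0) (XT.lf (nat_lit 0) (nat_lit 561865383747) (nat_lit 152) (nat_lit 2674834325937) (nat_lit 0) (nat_lit 555233056349) (nat_lit 1) (nat_lit 5) (nat_lit 3) (nat_lit 4) (nat_lit 1) (nat_lit 4) (nat_lit 257) (nat_lit 194) (nat_lit 149)) (XT.lf (nat_lit 0) (nat_lit 650256171128) (nat_lit 152) (nat_lit 3066429067627) (nat_lit 0) (nat_lit 643622235073) (nat_lit 1) (nat_lit 5) (nat_lit 3) (nat_lit 4) (nat_lit 1) (nat_lit 4) (nat_lit 258) (nat_lit 194) (nat_lit 148))) (XT.nd (nat_lit 78) (nat_lit 0) (nat_lit 0) (XT.lf (nat_lit 0) (nat_lit 751903272786) (nat_lit 152) (nat_lit 3516767364387) (nat_lit 0) (nat_lit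 745267937899) (nat_lit 1) (nat_lit 5) (nat_lit 3) (nat_lit 4) (nat_lit 1) (nat_lit 4) (nat_lit 259) (nat_lit 194) (nat_lit 147)) (XT.nd (nat_lit 78) (nat_lit 0) (nat_lit 0) (XT.lf (nat_lit 0) (nat_lit 868795436363) (nat_lit 152) (nat_lit 4034660182892) (nat_lit 0) (nat_lit 862158885100) (nat_lit 1) (nat_lit 5) (nat_lit 3) (nat_lit 4) (nat_lit 1) (nat_lit 4) (nat_lit 260) (nat_lit 194) (nat_lit 146)) (XT.lf (nat_lit 0) (nat_lit 1003219682450) (nat_lit 152) (nat_lit 4630240208722) (nat_lit 0) (nat_lit 996582073469) (nat_lit 1) (nat_lit 5) (nat_lit 3) (nat_lit 4) (nat_lit 1) (nat_lit 4) (nat_lit 261) (nat_lit 194) (nat_lit 145))))) (XT.nd (nat_lit 156) (nat_lit 456) (nat_lit 0) (XT.nd (nat_lit 78) (nat_lit 380) (nat_lit 0) (XT.lf (nat_lit 0) (nat_lit 2080022968) (nat_lit 228) (nat_lit 510479817) (nat_lit 0) (nat_lit 2080022968) (nat_lit 23) (nat_lit 5) (nat_lit 26) (nat_lit 4) (nat_lit 23)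 (nat_lit 4) (nat_lit 210) (nat_lit 195) (nat_lit 195)) (XT.lf (nat_lit 0) (nat_lit 379116601) (nat_lit 152) (nat_lit 563552992) (nat_lit 228) (nat_lit 9116192676) (nat_lit 18) (nat_lit 5) (nat_lit 20) (nat_lit 5) (nat_lit 21) (nat_lit 4) (nat_lit 211) (nat_lit 195) (nat_lit 194))) (XT.nd (nat_lit 78) (nat_lit 304) (nat_lit 0) (XT.lf (nat_lit 0) (nat_lit 1222820534) (nat_lit 152) (nat_lit 6205685920) (nat_lit 152) (nat_lit 3467748938) (nat_lit 16) (nat_lit 4) (nat_lit 18) (nat_lit 5) (nat_lit 18) (nat_lit 4) (nat_lit 212) (nat_lit 195) (nat_lit 193)) (XT.nd (nat_lit 78) (nat_lit 152) (nat_lit 0) (XT.lf (nat_lit 0) (nat_lit 1402281560) (nat_lit 76) (nat_lit 1120590674) (nat_lit 152) (nat_lit 9361028595) (nat_lit 14) (nat_lit 5) (nat_lit 15) (nat_lit 5) (nat_lit 16) (nat_lit 4) (nat_lit 213) (nat_lit 195) (nat_lit 192)) (XT.lf (nat_lit 0) (nat_lit 502278227) (nat_lit 152) (nat_lit 8490629698)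 (nat_lit 152) (nat_lit 4038582762) (nat_lit 12) (nat_lit 4) (nat_lit 14) (nat_lit 5) (nat_lit 14) (nat_lit 4) (nat_lit 214) (nat_lit 195) (nat_lit 191)))))) (XT.nd (nat_lit 390) (nat_lit 228) (nat_lit 0) (XT.nd (nat_lit 156) (nat_lit 228) (nat_lit 0) (XT.nd (nat_lit 78) (nat_lit 76) (nat_lit 0) (XT.lf (nat_lit 0) (nat_lit 1731245576) (nat_lit 228) (nat_lit 1626352436) (nat_lit 76) (nat_lit 11010886693) (nat_lit 11) (nat_lit 5) (nat_lit 14) (nat_lit 5) (nat_lit 12) (nat_lit 4) (nat_lit 215) (nat_lit 195) (nat_lit 190)) (XT.lf (nat_lit 0) (nat_lit 7934802880) (nat_lit 152) (nat_lit 5509131268) (nat_lit 0) (nat_lit 2470438128) (nat_lit 10) (nat_lit 5) (nat_lit 12) (nat_lit 4) (nat_lit 10) (nat_lit 4) (nat_lit 216) (nat_lit 195) (nat_lit 189))) (XT.nd (nat_lit 78) (nat_lit 152) (nat_lit 0) (XT.lf (nat_lit 0) (nat_lit 6050130677) (nat_lit 76) (nat_lit 8832616625) (nat_lit 76) (nat_lit 2825441328)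 (nat_lit 9) (nat_lit 4) (nat_lit 10) (nat_lit 5) (nat_lit 10) (nat_lit 4) (nat_lit 217) (nat_lit 195) (nat_lit 188)) (XT.nd (nat_lit 78) (nat_lit 76) (nat_lit 0) (XT.lf (nat_lit 0) (nat_lit 2669876649) (nat_lit 152) (nat_lit 925841034) (nat_lit 76) (nat_lit 16192462116) (nat_lit 8) (nat_lit 5) (nat_lit 10) (nat_lit 5) (nat_lit 9) (nat_lit 4) (nat_lit 218) (nat_lit 195) (nat_lit 187)) (XT.lf (nat_lit 0) (nat_lit 8774000610) (nat_lit 152) (nat_lit 11010245268) (nat_lit 0) (nat_lit 2394716146) (nat_lit 7) (nat_lit 5) (nat_lit 9) (nat_lit 4) (nat_lit 7) (nat_lit 4) (nat_lit 219) (nat_lit 195) (nat_lit 186))))) (XT.nd (nat_lit 156) (nat_lit 152) (nat_lit 0) (XT.nd (nat_lit 78) (nat_lit 76) (nat_lit 0) (XT.lf (nat_lit 0) (nat_lit 15566204935) (nat_lit 152) (nat_lit 524610970) (nat_lit 0) (nat_lit 8856451264) (nat_lit 7) (nat_lit 5) (nat_lit 9) (nat_lit 4) (nat_lit 7) (nat_lit 4) (nat_lit 220)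 (nat_lit 195) (nat_lit 185)) (XT.lf (nat_lit 0) (nat_lit 11562917363) (nat_lit 76) (nat_lit 11784026738) (nat_lit 76) (nat_lit 4786908540) (nat_lit 6) (nat_lit 4) (nat_lit 7) (nat_lit 5) (nat_lit 7) (nat_lit 4) (nat_lit 221) (nat_lit 195) (nat_lit 184))) (XT.nd (nat_lit 78) (nat_lit 76) (nat_lit 0) (XT.lf (nat_lit 0) (nat_lit 199169761) (nat_lit 152) (nat_lit 6832727293) (nat_lit 76) (nat_lit 24787855175) (nat_lit 5) (nat_lit 5) (nat_lit 7) (nat_lit 5) (nat_lit 6) (nat_lit 4) (nat_lit 222) (nat_lit 195) (nat_lit 183)) (XT.nd (nat_lit 78) (nat_lit 0) (nat_lit 0) (XT.lf (nat_lit 0) (nat_lit 3982121734) (nat_lit 76) (nat_lit 1520960476) (nat_lit 152) (nat_lit 30557666564) (nat_lit 4) (nat_lit 5) (nat_lit 5) (nat_lit 5) (nat_lit 6) (nat_lit 4) (nat_lit 223) (nat_lit 195) (nat_lit 182)) (XT.lf (nat_lit 0) (nat_lit 11690341757) (nat_lit 152) (nat_lit 24636892115) (nat_lit 0) (nat_lit 4604012029)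 (nat_lit 4) (nat_lit 5) (nat_lit 6) (nat_lit 4) (nat_lit 4) (nat_lit 4) (nat_lit 224) (nat_lit 195) (nat_lit 181))))))))
noncomputable def xc17 : XT := (XT.nd (nat_lit 1560) (nat_lit 0) (nat_lit 0) (XT.nd (nat_lit 780) (nat_lit 152) (nat_lit 0) (XT.nd (nat_lit 390) (nat_lit 0) (nat_lit 0) (XT.nd (nat_lit 156) (nat_lit 76) (nat_lit 0) (XT.nd (nat_lit 78) (nat_lit 0) (nat_lit 0) (XT.lf (nat_lit 0) (nat_lit 18645865835) (nat_lit 152) (nat_lit 16492156126) (nat_lit 0) (nat_lit 11407404993) (nat_lit 4) (nat_lit 5) (nat_lit 6) (nat_lit 4) (nat_lit 4) (nat_lit 4) (nat_lit 225) (nat_lit 195) (nat_lit 180)) (XT.lf (nat_lit 0) (nat_lit 26469161648) (nat_lit 152) (nat_lit 7448486409) (nat_lit 0) (nat_lit 19098412883) (nat_lit 4) (nat_lit 5) (nat_lit 6) (nat_lit 4) (nat_lit 4) (nat_lit 4) (nat_lit 226) (nat_lit 195) (nat_lit 179))) (XT.nd (nat_lit 78) (nat_lit 0) (nat_lit 0) (XT.lf (nat_lit 0) (nat_lit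 2811711602) (nat_lit 76) (nat_lit 32569203810) (nat_lit 76) (nat_lit 25083422067) (nat_lit 3) (nat_lit 4) (nat_lit 4) (nat_lit 5) (nat_lit 4) (nat_lit 4) (nat_lit 227) (nat_lit 195) (nat_lit 178)) (XT.nd (nat_lit 78) (nat_lit 0) (nat_lit 0) (XT.lf (nat_lit 0) (nat_lit 14805079432) (nat_lit 76) (nat_lit 30902282382) (nat_lit 76) (nat_lit 23316471964) (nat_lit 3) (nat_lit 4) (nat_lit 4) (nat_lit 5) (nat_lit 4) (nat_lit 4) (nat_lit 228) (nat_lit 195) (nat_lit 177)) (XT.lf (nat_lit 0) (nat_lit 28374045834) (nat_lit 76) (nat_lit 29087924914) (nat_lit 76) (nat_lit 21415133038) (nat_lit 3) (nat_lit 4) (nat_lit 4) (nat_lit 5) (nat_lit 4) (nat_lit 4) (nat_lit 229) (nat_lit 195) (nat_lit 176))))) (XT.nd (nat_lit 156) (nat_lit 0) (nat_lit 0) (XT.nd (nat_lit 78) (nat_lit 0) (nat_lit 0) (XT.lf (nat_lit 0) (nat_lit 43784090585) (nat_lit 76) (nat_lit 27090633106) (nat_lit 76) (nat_lit 19342205180) (nat_lit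 3) (nat_lit 4) (nat_lit 4) (nat_lit 5) (nat_lit 4) (nat_lit 4) (nat_lit 230) (nat_lit 195) (nat_lit 175)) (XT.lf (nat_lit 0) (nat_lit 61336714561) (nat_lit 76) (nat_lit 24871329510) (nat_lit 76) (nat_lit 17057131106) (nat_lit 3) (nat_lit 4) (nat_lit 4) (nat_lit 5) (nat_lit 4) (nat_lit 4) (nat_lit 231) (nat_lit 195) (nat_lit 174))) (XT.nd (nat_lit 78) (nat_lit 0) (nat_lit 0) (XT.lf (nat_lit 0) (nat_lit 81375338666) (nat_lit 76) (nat_lit 22386592969) (nat_lit 76) (nat_lit 14515202844) (nat_lit 3) (nat_lit 4) (nat_lit 4) (nat_lit 5) (nat_lit 4) (nat_lit 4) (nat_lit 232) (nat_lit 195) (nat_lit 173)) (XT.nd (nat_lit 78) (nat_lit 0) (nat_lit 0) (XT.lf (nat_lit 0) (nat_lit 104292022936) (nat_lit 76) (nat_lit 19587809072) (nat_lit 76) (nat_lit 11666687017) (nat_lit 3) (nat_lit 4) (nat_lit 4) (nat_lit 5) (nat_lit 4) (nat_lit 4) (nat_lit 233) (nat_lit 195) (nat_lit 172)) (XT.lf (nat_lit 0) (nat_lit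 130535137282) (nat_lit 76) (nat_lit 16420219003) (nat_lit 76) (nat_lit 8455851792) (nat_lit 3) (nat_lit 4) (nat_lit 4) (nat_lit 5) (nat_lit 4) (nat_lit 4) (nat_lit 234) (nat_lit 195) (nat_lit 171)))))) (XT.nd (nat_lit 390) (nat_lit 0) (nat_lit 0) (XT.nd (nat_lit 156) (nat_lit 152) (nat_lit 0) (XT.nd (nat_lit 78) (nat_lit 0) (nat_lit 0) (XT.lf (nat_lit 0) (nat_lit 160618133940) (nat_lit 76) (nat_lit 12821848176) (nat_lit 76) (nat_lit 4819876480) (nat_lit 3) (nat_lit 4) (nat_lit 4) (nat_lit 5) (nat_lit 4) (nat_lit 4) (nat_lit 235) (nat_lit 195) (nat_lit 170)) (XT.lf (nat_lit 0) (nat_lit 195129593280) (nat_lit 76) (nat_lit 8722293681) (nat_lit 76) (nat_lit 687622433) (nat_lit 3) (nat_lit 4) (nat_lit 4) (nat_lit 5) (nat_lit 4) (nat_lit 4) (nat_lit 236) (nat_lit 195) (nat_lit 169))) (XT.nd (nat_lit 78) (nat_lit 76) (nat_lit 0) (XT.lf (nat_lit 0) (nat_lit 3820574132) (nat_lit 152) (nat_lit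 116311445) (nat_lit 76) (nat_lit 230819704107) (nat_lit 2) (nat_lit 5) (nat_lit 4) (nat_lit 5) (nat_lit 3) (nat_lit 4) (nat_lit 237) (nat_lit 195) (nat_lit 168)) (XT.nd (nat_lit 78) (nat_lit 0) (nat_lit 0) (XT.lf (nat_lit 0) (nat_lit 9239987625) (nat_lit 152) (nat_lit 258491553013) (nat_lit 0) (nat_lit 1751255033) (nat_lit 1) (nat_lit 5) (nat_lit 3) (nat_lit 4) (nat_lit 1) (nat_lit 4) (nat_lit 238) (nat_lit 195) (nat_lit 167)) (XT.lf (nat_lit 0) (nat_lit 15551884322) (nat_lit 152) (nat_lit 285816480987) (nat_lit 0) (nat_lit 8043243873) (nat_lit 1) (nat_lit 5) (nat_lit 3) (nat_lit 4) (nat_lit 1) (nat_lit 4) (nat_lit 239) (nat_lit 195) (nat_lit 166))))) (XT.nd (nat_lit 156) (nat_lit 0) (nat_lit 0) (XT.nd (nat_lit 78) (nat_lit 0) (nat_lit 0) (XT.lf (nat_lit 0) (nat_lit 22782054586) (nat_lit 152) (nat_lit 317293904853) (nat_lit 0) (nat_lit 15256102956) (nat_lit 1) (nat_lit 5) (nat_lit 3)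 (nat_lit 4) (nat_lit 1) (nat_lit 4) (nat_lit 240) (nat_lit 195) (nat_lit 165)) (XT.lf (nat_lit 0) (nat_lit 31071958269) (nat_lit 152) (nat_lit 353539687254) (nat_lit 0) (nat_lit 23530953439) (nat_lit 1) (nat_lit 5) (nat_lit 3) (nat_lit 4) (nat_lit 1) (nat_lit 4) (nat_lit 241) (nat_lit 195) (nat_lit 164))) (XT.nd (nat_lit 78) (nat_lit 0) (nat_lit 0) (XT.lf (nat_lit 0) (nat_lit 40583789139) (nat_lit 152) (nat_lit 395262984801) (nat_lit 0) (nat_lit 33029694569) (nat_lit 1) (nat_lit 5) (nat_lit 3) (nat_lit 4) (nat_lit 1) (nat_lit 4) (nat_lit 242) (nat_lit 195) (nat_lit 163)) (XT.nd (nat_lit 78) (nat_lit 0) (nat_lit 0) (XT.lf (nat_lit 0) (nat_lit 51503648234) (nat_lit 152) (nat_lit 443280122881) (nat_lit 0) (nat_lit 43938171283) (nat_lit 1) (nat_lit 5) (nat_lit 3) (nat_lit 4) (nat_lit 1) (nat_lit 4) (nat_lit 243) (nat_lit 195) (nat_lit 162)) (XT.lf (nat_lit 0) (nat_lit 64045184973) (nat_lit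 152) (nat_lit 498530567238) (nat_lit 0) (nat_lit 56469810298) (nat_lit 1) (nat_lit 5) (nat_lit 3) (nat_lit 4) (nat_lit 1) (nat_lit 4) (nat_lit 244) (nat_lit 195) (nat_lit 161))))))) (XT.nd (nat_lit 780) (nat_lit 0) (nat_lit 0) (XT.nd (nat_lit 390) (nat_lit 0) (nat_lit 0) (XT.nd (nat_lit 156) (nat_lit 0) (nat_lit 0) (XT.nd (nat_lit 78) (nat_lit 0) (nat_lit 0) (XT.lf (nat_lit 0) (nat_lit 78453777246) (nat_lit 152) (nat_lit 562095304829) (nat_lit 0) (nat_lit 70869795855) (nat_lit 1) (nat_lit 5) (nat_lit 3) (nat_lit 4) (nat_lit 1) (nat_lit 4) (nat_lit 245) (nat_lit 195) (nat_lit 160)) (XT.lf (nat_lit 0) (nat_lit 95011332295) (nat_lit 152) (nat_lit 635217993562) (nat_lit 0) (nat_lit 87419866803) (nat_lit 1) (nat_lit 5) (nat_lit 3) (nat_lit 4) (nat_lit 1) (nat_lit 4) (nat_lit 246) (nat_lit 195) (nat_lit 159))) (XT.nd (nat_lit 78) (nat_lit 0) (nat_lit 0) (XT.lf (nat_lit 0) (nat_lit 114041802284)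 (nat_lit 152) (nat_lit 719329294739) (nat_lit 0) (nat_lit 106443828878) (nat_lit 1) (nat_lit 5) (nat_lit 3) (nat_lit 4) (nat_lit 1) (nat_lit 4) (nat_lit 247) (nat_lit 195) (nat_lit 158)) (XT.nd (nat_lit 78) (nat_lit 0) (nat_lit 0) (XT.lf (nat_lit 0) (nat_lit 135917522495) (nat_lit 152) (nat_lit 816074864251) (nat_lit 0) (nat_lit 128313890034) (nat_lit 1) (nat_lit 5) (nat_lit 3) (nat_lit 4) (nat_lit 1) (nat_lit 4) (nat_lit 248) (nat_lit 195) (nat_lit 157)) (XT.lf (nat_lit 0) (nat_lit 161066496149) (nat_lit 152) (nat_lit 927347550199) (nat_lit 0) (nat_lit 153457942770) (nat_lit 1) (nat_lit 5) (nat_lit 3) (nat_lit 4) (nat_lit 1) (nat_lit 4) (nat_lit 249) (nat_lit 195) (nat_lit 156))))) (XT.nd (nat_lit 156) (nat_lit 0) (nat_lit 0) (XT.nd (nat_lit 78) (nat_lit 0) (nat_lit 0) (XT.lf (nat_lit 0) (nat_lit 189980768384) (nat_lit 152) (nat_lit 1055324426873) (nat_lit 0) (nat_lit 182367935945) (nat_lit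 1) (nat_lit 5) (nat_lit 3) (nat_lit 4) (nat_lit 1) (nat_lit 4) (nat_lit 250) (nat_lit 195) (nat_lit 155)) (XT.lf (nat_lit 0) (nat_lit 223226053221) (nat_lit 152) (nat_lit 1202509389685) (nat_lit 0) (nat_lit 215609499861) (nat_lit 1) (nat_lit 5) (nat_lit 3) (nat_lit 4) (nat_lit 1) (nat_lit 4) (nat_lit 251) (nat_lit 195) (nat_lit 154))) (XT.nd (nat_lit 78) (nat_lit 0) (nat_lit 0) (XT.lf (nat_lit 0) (nat_lit 261452801885) (nat_lit 152) (nat_lit 1371782144430) (nat_lit 0) (nat_lit 253833012942) (nat_lit 1) (nat_lit 5) (nat_lit 3) (nat_lit 4) (nat_lit 1) (nat_lit 4) (nat_lit 252) (nat_lit 195) (nat_lit 153)) (XT.nd (nat_lit 78) (nat_lit 0) (nat_lit 0) (XT.lf (nat_lit 0) (nat_lit 305408929024) (nat_lit 152) (nat_lit 1566454549353) (nat_lit 0) (nat_lit 297786326530) (nat_lit 1) (nat_lit 5) (nat_lit 3) (nat_lit 4) (nat_lit 1) (nat_lit 4) (nat_lit 253) (nat_lit 195) (nat_lit 152)) (XT.lf (nat_lit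 0) (nat_lit 355954445821) (nat_lit 152) (nat_lit 1790335412376) (nat_lit 0) (nat_lit 348329396761) (nat_lit 1) (nat_lit 5) (nat_lit 3) (nat_lit 4) (nat_lit 1) (nat_lit 4) (nat_lit 254) (nat_lit 195) (nat_lit 151)))))) (XT.nd (nat_lit 390) (nat_lit 0) (nat_lit 0) (XT.nd (nat_lit 156) (nat_lit 0) (nat_lit 0) (XT.nd (nat_lit 78) (nat_lit 0) (nat_lit 0) (XT.lf (nat_lit 0) (nat_lit 414078286300) (nat_lit 152) (nat_lit 2047805011255) (nat_lit 0) (nat_lit 406451109792) (nat_lit 1) (nat_lit 5) (nat_lit 3) (nat_lit 4) (nat_lit 1) (nat_lit 4) (nat_lit 255) (nat_lit 195) (nat_lit 150)) (XT.lf (nat_lit 0) (nat_lit 480917656037) (nat_lit 152) (nat_lit 2343900794662) (nat_lit 0) (nat_lit 473288629574) (nat_lit 1) (nat_lit 5) (nat_lit 3) (nat_lit 4) (nat_lit 1) (nat_lit 4) (nat_lit 256) (nat_lit 195) (nat_lit 149))) (XT.nd (nat_lit 78) (nat_lit 0) (nat_lit 0) (XT.lf (nat_lit 0) (nat_lit 557780281830)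 (nat_lit 152) (nat_lit 2684415940969) (nat_lit 0) (nat_lit 550149646710) (nat_lit 1) (nat_lit 5) (nat_lit 3) (nat_lit 4) (nat_lit 1) (nat_lit 4) (nat_lit 257) (nat_lit 195) (nat_lit 148)) (XT.nd (nat_lit 78) (nat_lit 0) (nat_lit 0) (XT.lf (nat_lit 0) (nat_lit 646169997662) (nat_lit 152) (nat_lit 3076012703039) (nat_lit 0) (nat_lit 638537963710) (nat_lit 1) (nat_lit 5) (nat_lit 3) (nat_lit 4) (nat_lit 1) (nat_lit 4) (nat_lit 258) (nat_lit 195) (nat_lit 147)) (XT.lf (nat_lit 0) (nat_lit 747816167539) (nat_lit 152) (nat_lit 3526352756650) (nat_lit 0) (nat_lit 740182917211) (nat_lit 1) (nat_lit 5) (nat_lit 3) (nat_lit 4) (nat_lit 1) (nat_lit 4) (nat_lit 259) (nat_lit 195) (nat_lit 146))))) (XT.nd (nat_lit 27300) (nat_lit 0) (nat_lit 1444) (XT.nd (nat_lit 78) (nat_lit 0) (nat_lit 0) (XT.lf (nat_lit 0) (nat_lit 864707520871) (nat_lit 152) (nat_lit 4044247102852) (nat_lit 0) (nat_lit 857073212825)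 (nat_lit 1) (nat_lit 5) (nat_lit 3) (nat_lit 4) (nat_lit 1) (nat_lit 4) (nat_lit 260) (nat_lit 195) (nat_lit 145)) (XT.nd (nat_lit 27144) (nat_lit 0) (nat_lit 2128) (XT.lf (nat_lit 0) (nat_lit 999131062397) (nat_lit 152) (nat_lit 4639828457115) (nat_lit 0) (nat_lit 991495834597) (nat_lit 1) (nat_lit 5) (nat_lit 3) (nat_lit 4) (nat_lit 1) (nat_lit 4) (nat_lit 261) (nat_lit 195) (nat_lit 144)) (XT.lf (nat_lit 0) (nat_lit 1041518476) (nat_lit 228) (nat_lit 2023963365) (nat_lit 0) (nat_lit 1041518476) (nat_lit 29) (nat_lit 5) (nat_lit 32) (nat_lit 4) (nat_lit 29) (nat_lit 4) (nat_lit 208) (nat_lit 196) (nat_lit 196)))) (XT.nd (nat_lit 78) (nat_lit 456) (nat_lit 0) (XT.lf (nat_lit 0) (nat_lit 6084665032) (nat_lit 228) (nat_lit 2311172539) (nat_lit 228) (nat_lit 346780435) (nat_lit 26) (nat_lit 4) (nat_lit 29) (nat_lit 5) (nat_lit 29) (nat_lit 4) (nat_lit 209) (nat_lit 196) (nat_lit 195)) (XT.nd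 (nat_lit 78) (nat_lit 228) (nat_lit 0) (XT.lf (nat_lit 0) (nat_lit 5623117820) (nat_lit 228) (nat_lit 1525362238) (nat_lit 0) (nat_lit 2222600089) (nat_lit 23) (nat_lit 5) (nat_lit 26) (nat_lit 4) (nat_lit 23) (nat_lit 4) (nat_lit 210) (nat_lit 196) (nat_lit 194)) (XT.lf (nat_lit 0) (nat_lit 1951686643) (nat_lit 228) (nat_lit 716345298) (nat_lit 76) (nat_lit 7447548106) (nat_lit 20) (nat_lit 5) (nat_lit 23) (nat_lit 5) (nat_lit 21) (nat_lit 4) (nat_lit 211) (nat_lit 196) (nat_lit 193))))))))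
noncomputable def xc18 : XT := (XT.nd (nat_lit 1560) (nat_lit 152) (nat_lit 0) (XT.nd (nat_lit 780) (nat_lit 228) (nat_lit 0) (XT.nd (nat_lit 390) (nat_lit 304) (nat_lit 0) (XT.nd (nat_lit 156) (nat_lit 380) (nat_lit 0) (XT.nd (nat_lit 78) (nat_lit 228) (nat_lit 0) (XT.lf (nat_lit 0) (nat_lit 8037843245) (nat_lit 228) (nat_lit 439798310) (nat_lit 0) (nat_lit 2508400950) (nat_lit 18) (nat_lit 5) (nat_lit 21) (nat_lit 4) (nat_lit 18) (nat_lit 4) (nat_lit 212) (nat_lit 196) (nat_lit 192)) (XT.lf (nat_lit 0) (nat_lit 2691378788) (nat_lit 228) (nat_lit 894292419) (nat_lit 76) (nat_lit 8413902943) (nat_lit 15) (nat_lit 5) (nat_lit 18) (nat_lit 5) (nat_lit 16) (nat_lit 4) (nat_lit 213) (nat_lit 196) (nat_lit 191))) (XT.nd (nat_lit 78) (nat_lit 304) (nat_lit 0) (XT.lf (nat_lit 0) (nat_lit 8810236760) (nat_lit 152) (nat_lit 2342292315) (nat_lit 0) (nat_lit 2023495737) (nat_lit 14) (nat_lit 5)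 (nat_lit 16) (nat_lit 4) (nat_lit 14) (nat_lit 4) (nat_lit 214) (nat_lit 196) (nat_lit 190)) (XT.nd (nat_lit 78) (nat_lit 76) (nat_lit 0) (XT.lf (nat_lit 0) (nat_lit 1120579611) (nat_lit 228) (nat_lit 5130106126) (nat_lit 76) (nat_lit 8287566161) (nat_lit 11) (nat_lit 5) (nat_lit 14) (nat_lit 5) (nat_lit 12) (nat_lit 4) (nat_lit 215) (nat_lit 196) (nat_lit 189)) (XT.lf (nat_lit 0) (nat_lit 6422075524) (nat_lit 76) (nat_lit 534281509) (nat_lit 152) (nat_lit 9157741537) (nat_lit 10) (nat_lit 5) (nat_lit 11) (nat_lit 5) (nat_lit 12) (nat_lit 4) (nat_lit 216) (nat_lit 196) (nat_lit 188))))) (XT.nd (nat_lit 156) (nat_lit 152) (nat_lit 0) (XT.nd (nat_lit 78) (nat_lit 76) (nat_lit 0) (XT.lf (nat_lit 0) (nat_lit 1315589603) (nat_lit 76) (nat_lit 12270653980) (nat_lit 76) (nat_lit 4347582677) (nat_lit 9) (nat_lit 4) (nat_lit 10) (nat_lit 5) (nat_lit 10) (nat_lit 4) (nat_lit 217) (nat_lit 196)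 (nat_lit 187)) (XT.lf (nat_lit 0) (nat_lit 1045386409) (nat_lit 152) (nat_lit 6159110327) (nat_lit 76) (nat_lit 12826904469) (nat_lit 8) (nat_lit 5) (nat_lit 10) (nat_lit 5) (nat_lit 9) (nat_lit 4) (nat_lit 218) (nat_lit 196) (nat_lit 186))) (XT.nd (nat_lit 78) (nat_lit 76) (nat_lit 0) (XT.lf (nat_lit 0) (nat_lit 5441864839) (nat_lit 76) (nat_lit 1352503257) (nat_lit 152) (nat_lit 15656553473) (nat_lit 7) (nat_lit 5) (nat_lit 8) (nat_lit 5) (nat_lit 9) (nat_lit 4) (nat_lit 219) (nat_lit 196) (nat_lit 185)) (XT.nd (nat_lit 78) (nat_lit 76) (nat_lit 0) (XT.lf (nat_lit 0) (nat_lit 13410610152) (nat_lit 152) (nat_lit 6746417983) (nat_lit 0) (nat_lit 5076559695) (nat_lit 7) (nat_lit 5) (nat_lit 9) (nat_lit 4) (nat_lit 7) (nat_lit 4) (nat_lit 220) (nat_lit 196) (nat_lit 184)) (XT.lf (nat_lit 0) (nat_lit 4779586505) (nat_lit 76) (nat_lit 16123897861) (nat_lit 76) (nat_lit 7539965206) (nat_lit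 6) (nat_lit 4) (nat_lit 7) (nat_lit 5) (nat_lit 7) (nat_lit 4) (nat_lit 221) (nat_lit 196) (nat_lit 183)))))) (XT.nd (nat_lit 390) (nat_lit 76) (nat_lit 0) (XT.nd (nat_lit 156) (nat_lit 76) (nat_lit 0) (XT.nd (nat_lit 78) (nat_lit 76) (nat_lit 0) (XT.lf (nat_lit 0) (nat_lit 18005753201) (nat_lit 76) (nat_lit 11467251799) (nat_lit 76) (nat_lit 2666030276) (nat_lit 6) (nat_lit 4) (nat_lit 7) (nat_lit 5) (nat_lit 7) (nat_lit 4) (nat_lit 222) (nat_lit 196) (nat_lit 182)) (XT.lf (nat_lit 0) (nat_lit 2574176131) (nat_lit 152) (nat_lit 3635882012) (nat_lit 76) (nat_lit 30191041845) (nat_lit 5) (nat_lit 5) (nat_lit 7) (nat_lit 5) (nat_lit 6) (nat_lit 4) (nat_lit 223) (nat_lit 196) (nat_lit 181))) (XT.nd (nat_lit 78) (nat_lit 0) (nat_lit 0) (XT.lf (nat_lit 0) (nat_lit 8443843889) (nat_lit 76) (nat_lit 16883925) (nat_lit 152) (nat_lit 32835076350) (nat_lit 4) (nat_lit 5) (nat_lit 5) (nat_lit 5)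 (nat_lit 6) (nat_lit 4) (nat_lit 224) (nat_lit 196) (nat_lit 180)) (XT.nd (nat_lit 78) (nat_lit 0) (nat_lit 0) (XT.lf (nat_lit 0) (nat_lit 15334191473) (nat_lit 152) (nat_lit 24856946912) (nat_lit 0) (nat_lit 6725542469) (nat_lit 4) (nat_lit 5) (nat_lit 6) (nat_lit 4) (nat_lit 4) (nat_lit 4) (nat_lit 225) (nat_lit 196) (nat_lit 179)) (XT.lf (nat_lit 0) (nat_lit 23086483494) (nat_lit 152) (nat_lit 15943823876) (nat_lit 0) (nat_lit 14362801513) (nat_lit 4) (nat_lit 5) (nat_lit 6) (nat_lit 4) (nat_lit 4) (nat_lit 4) (nat_lit 226) (nat_lit 196) (nat_lit 178))))) (XT.nd (nat_lit 156) (nat_lit 0) (nat_lit 0) (XT.nd (nat_lit 78) (nat_lit 76) (nat_lit 0) (XT.lf (nat_lit 0) (nat_lit 31868873099) (nat_lit 152) (nat_lit 5937797919) (nat_lit 0) (nat_lit 23045162442) (nat_lit 4) (nat_lit 5) (nat_lit 6) (nat_lit 4) (nat_lit 4) (nat_lit 4) (nat_lit 227) (nat_lit 196) (nat_lit 177)) (XT.lf (nat_lit 0)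 (nat_lit 5638985947) (nat_lit 76) (nat_lit 36349821450) (nat_lit 76) (nat_lit 27439129335) (nat_lit 3) (nat_lit 4) (nat_lit 4) (nat_lit 5) (nat_lit 4) (nat_lit 4) (nat_lit 228) (nat_lit 196) (nat_lit 176))) (XT.nd (nat_lit 78) (nat_lit 0) (nat_lit 0) (XT.lf (nat_lit 0) (nat_lit 19117595785) (nat_lit 76) (nat_lit 34576961321) (nat_lit 76) (nat_lit 25590633156) (nat_lit 3) (nat_lit 4) (nat_lit 4) (nat_lit 5) (nat_lit 4) (nat_lit 4) (nat_lit 229) (nat_lit 196) (nat_lit 175)) (XT.nd (nat_lit 78) (nat_lit 0) (nat_lit 0) (XT.lf (nat_lit 0) (nat_lit 34449069612) (nat_lit 76) (nat_lit 32615754156) (nat_lit 76) (nat_lit 23563655513) (nat_lit 3) (nat_lit 4) (nat_lit 4) (nat_lit 5) (nat_lit 4) (nat_lit 4) (nat_lit 230) (nat_lit 196) (nat_lit 174)) (XT.lf (nat_lit 0) (nat_lit 51933371045) (nat_lit 76) (nat_lit 30427828511) (nat_lit 76) (nat_lit 21318538148) (nat_lit 3) (nat_lit 4) (nat_lit 4) (nat_lit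 5) (nat_lit 4) (nat_lit 4) (nat_lit 231) (nat_lit 196) (nat_lit 173))))))) (XT.nd (nat_lit 780) (nat_lit 0) (nat_lit 0) (XT.nd (nat_lit 390) (nat_lit 152) (nat_lit 0) (XT.nd (nat_lit 156) (nat_lit 0) (nat_lit 0) (XT.nd (nat_lit 78) (nat_lit 0) (nat_lit 0) (XT.lf (nat_lit 0) (nat_lit 71912584243) (nat_lit 76) (nat_lit 27970377145) (nat_lit 76) (nat_lit 18811354851) (nat_lit 3) (nat_lit 4) (nat_lit 4) (nat_lit 5) (nat_lit 4) (nat_lit 4) (nat_lit 232) (nat_lit 196) (nat_lit 172)) (XT.lf (nat_lit 0) (nat_lit 94777606855) (nat_lit 76) (nat_lit 25195319486) (nat_lit 76) (nat_lit 15993052036) (nat_lit 3) (nat_lit 4) (nat_lit 4) (nat_lit 5) (nat_lit 4) (nat_lit 4) (nat_lit 233) (nat_lit 196) (nat_lit 171))) (XT.nd (nat_lit 78) (nat_lit 0) (nat_lit 0) (XT.lf (nat_lit 0) (nat_lit 120975798019) (nat_lit 76) (nat_lit 22048360930) (nat_lit 76) (nat_lit 12808488995) (nat_lit 3) (nat_lit 4) (nat_lit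 4) (nat_lit 5) (nat_lit 4) (nat_lit 4) (nat_lit 234) (nat_lit 196) (nat_lit 170)) (XT.nd (nat_lit 78) (nat_lit 0) (nat_lit 0) (XT.lf (nat_lit 0) (nat_lit 151019731042) (nat_lit 76) (nat_lit 18467930548) (nat_lit 76) (nat_lit 9195359061) (nat_lit 3) (nat_lit 4) (nat_lit 4) (nat_lit 5) (nat_lit 4) (nat_lit 4) (nat_lit 235) (nat_lit 196) (nat_lit 169)) (XT.lf (nat_lit 0) (nat_lit 185497222003) (nat_lit 76) (nat_lit 14383976440) (nat_lit 76) (nat_lit 5082970561) (nat_lit 3) (nat_lit 4) (nat_lit 4) (nat_lit 5) (nat_lit 4) (nat_lit 4) (nat_lit 236) (nat_lit 196) (nat_lit 168))))) (XT.nd (nat_lit 156) (nat_lit 0) (nat_lit 0) (XT.nd (nat_lit 78) (nat_lit 152) (nat_lit 0) (XT.lf (nat_lit 0) (nat_lit 225082830509) (nat_lit 76) (nat_lit 9716595158) (nat_lit 76) (nat_lit 390863720) (nat_lit 3) (nat_lit 4) (nat_lit 4) (nat_lit 5) (nat_lit 4) (nat_lit 4) (nat_lit 237) (nat_lit 196) (nat_lit 167)) (XT.lf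 (nat_lit 0) (nat_lit 503907597) (nat_lit 76) (nat_lit 4232217172) (nat_lit 152) (nat_lit 265206100518) (nat_lit 1) (nat_lit 5) (nat_lit 2) (nat_lit 5) (nat_lit 3) (nat_lit 4) (nat_lit 238) (nat_lit 196) (nat_lit 166))) (XT.nd (nat_lit 78) (nat_lit 0) (nat_lit 0) (XT.lf (nat_lit 0) (nat_lit 10932975640) (nat_lit 152) (nat_lit 296686463854) (nat_lit 0) (nat_lit 2260820086) (nat_lit 1) (nat_lit 5) (nat_lit 3) (nat_lit 4) (nat_lit 1) (nat_lit 4) (nat_lit 239) (nat_lit 196) (nat_lit 165)) (XT.nd (nat_lit 78) (nat_lit 0) (nat_lit 0) (XT.lf (nat_lit 0) (nat_lit 18151614685) (nat_lit 152) (nat_lit 328185629560) (nat_lit 0) (nat_lit 9464405931) (nat_lit 1) (nat_lit 5) (nat_lit 3) (nat_lit 4) (nat_lit 1) (nat_lit 4) (nat_lit 240) (nat_lit 196) (nat_lit 164)) (XT.lf (nat_lit 0) (nat_lit 26431491222) (nat_lit 152) (nat_lit 364450317908) (nat_lit 0) (nat_lit 17731192727) (nat_lit 1) (nat_lit 5) (nat_lit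 3) (nat_lit 4) (nat_lit 1) (nat_lit 4) (nat_lit 241) (nat_lit 196) (nat_lit 163)))))) (XT.nd (nat_lit 390) (nat_lit 0) (nat_lit 0) (XT.nd (nat_lit 156) (nat_lit 0) (nat_lit 0) (XT.nd (nat_lit 78) (nat_lit 0) (nat_lit 0) (XT.lf (nat_lit 0) (nat_lit 35934602833) (nat_lit 152) (nat_lit 406190055408) (nat_lit 0) (nat_lit 27222921957) (nat_lit 1) (nat_lit 5) (nat_lit 3) (nat_lit 4) (nat_lit 1) (nat_lit 4) (nat_lit 242) (nat_lit 196) (nat_lit 162)) (XT.lf (nat_lit 0) (nat_lit 46846879965) (nat_lit 152) (nat_lit 454221489100) (nat_lit 0) (nat_lit 38125301366) (nat_lit 1) (nat_lit 5) (nat_lit 3) (nat_lit 4) (nat_lit 1) (nat_lit 4) (nat_lit 243) (nat_lit 196) (nat_lit 161))) (XT.nd (nat_lit 78) (nat_lit 0) (nat_lit 0) (XT.lf (nat_lit 0) (nat_lit 59381823692) (nat_lit 152) (nat_lit 509484364425) (nat_lit 0) (nat_lit 50651638376) (nat_lit 1) (nat_lit 5) (nat_lit 3) (nat_lit 4) (nat_lit 1) (nat_lit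 4) (nat_lit 244) (nat_lit 196) (nat_lit 160)) (XT.nd (nat_lit 78) (nat_lit 0) (nat_lit 0) (XT.lf (nat_lit 0) (nat_lit 73784682912) (nat_lit 152) (nat_lit 573059911553) (nat_lit 0) (nat_lit 65047013495) (nat_lit 1) (nat_lit 5) (nat_lit 3) (nat_lit 4) (nat_lit 1) (nat_lit 4) (nat_lit 245) (nat_lit 196) (nat_lit 159)) (XT.lf (nat_lit 0) (nat_lit 90337252697) (nat_lit 152) (nat_lit 646191999883) (nat_lit 0) (nat_lit 81593075366) (nat_lit 1) (nat_lit 5) (nat_lit 3) (nat_lit 4) (nat_lit 1) (nat_lit 4) (nat_lit 246) (nat_lit 196) (nat_lit 158))))) (XT.nd (nat_lit 156) (nat_lit 0) (nat_lit 0) (XT.nd (nat_lit 78) (nat_lit 0) (nat_lit 0) (XT.lf (nat_lit 0) (nat_lit 109363387674) (nat_lit 152) (nat_lit 730311474622) (nat_lit 0) (nat_lit 100613551287) (nat_lit 1) (nat_lit 5) (nat_lit 3) (nat_lit 4) (nat_lit 1) (nat_lit 4) (nat_lit 247) (nat_lit 196) (nat_lit 157)) (XT.lf (nat_lit 0) (nat_lit 131235338308)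 (nat_lit 152) (nat_lit 827064151580) (nat_lit 0) (nat_lit 122480581004) (nat_lit 1) (nat_lit 5) (nat_lit 3) (nat_lit 4) (nat_lit 1) (nat_lit 4) (nat_lit 248) (nat_lit 196) (nat_lit 156))) (XT.nd (nat_lit 78) (nat_lit 0) (nat_lit 0) (XT.lf (nat_lit 0) (nat_lit 156381034071) (nat_lit 152) (nat_lit 938343017916) (nat_lit 0) (nat_lit 147621997708) (nat_lit 1) (nat_lit 5) (nat_lit 3) (nat_lit 4) (nat_lit 1) (nat_lit 4) (nat_lit 249) (nat_lit 196) (nat_lit 155)) (XT.nd (nat_lit 78) (nat_lit 0) (nat_lit 0) (XT.lf (nat_lit 0) (nat_lit 185292455964) (nat_lit 152) (nat_lit 1066325268839) (nat_lit 0) (nat_lit 176529698680) (nat_lit 1) (nat_lit 5) (nat_lit 3) (nat_lit 4) (nat_lit 1) (nat_lit 4) (nat_lit 250) (nat_lit 196) (nat_lit 154)) (XT.lf (nat_lit 0) (nat_lit 218535262244) (nat_lit 152) (nat_lit 1213514904912) (nat_lit 0) (nat_lit 209769269376) (nat_lit 1) (nat_lit 5) (nat_lit 3) (nat_lit 4)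 (nat_lit 1) (nat_lit 4) (nat_lit 251) (nat_lit 196) (nat_lit 153))))))))
noncomputable def xc19 : XT := (XT.nd (nat_lit 28470) (nat_lit 0) (nat_lit 152) (XT.nd (nat_lit 27690) (nat_lit 0) (nat_lit 836) (XT.nd (nat_lit 390) (nat_lit 0) (nat_lit 0) (XT.nd (nat_lit 156) (nat_lit 0) (nat_lit 0) (XT.nd (nat_lit 78) (nat_lit 0) (nat_lit 0) (XT.lf (nat_lit 0) (nat_lit 256759855640) (nat_lit 152) (nat_lit 1382791723363) (nat_lit 0) (nat_lit 247991049222) (nat_lit 1) (nat_lit 5) (nat_lit 3) (nat_lit 4) (nat_lit 1) (nat_lit 4) (nat_lit 252) (nat_lit 196) (nat_lit 152)) (XT.lf (nat_lit 0) (nat_lit 300714108634) (nat_lit 152) (nat_lit 1577467661942) (nat_lit 0) (nat_lit 291942855650) (nat_lit 1) (nat_lit 5) (nat_lit 3) (nat_lit 4) (nat_lit 1) (nat_lit 4) (nat_lit 253) (nat_lit 196) (nat_lit 151))) (XT.nd (nat_lit 78) (nat_lit 0) (nat_lit 0) (XT.lf (nat_lit 0) (nat_lit 351257995739) (nat_lit 152)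 (nat_lit 1801351597711) (nat_lit 0) (nat_lit 342484615307) (nat_lit 1) (nat_lit 5) (nat_lit 3) (nat_lit 4) (nat_lit 1) (nat_lit 4) (nat_lit 254) (nat_lit 196) (nat_lit 150)) (XT.nd (nat_lit 78) (nat_lit 0) (nat_lit 0) (XT.lf (nat_lit 0) (nat_lit 409380419096) (nat_lit 152) (nat_lit 2058823868541) (nat_lit 0) (nat_lit 400605188708) (nat_lit 1) (nat_lit 5) (nat_lit 3) (nat_lit 4) (nat_lit 1) (nat_lit 4) (nat_lit 255) (nat_lit 196) (nat_lit 149)) (XT.lf (nat_lit 0) (nat_lit 476218556552) (nat_lit 152) (nat_lit 2354921975385) (nat_lit 0) (nat_lit 467441717507) (nat_lit 1) (nat_lit 5) (nat_lit 3) (nat_lit 4) (nat_lit 1) (nat_lit 4) (nat_lit 256) (nat_lit 196) (nat_lit 148))))) (XT.nd (nat_lit 156) (nat_lit 0) (nat_lit 0) (XT.nd (nat_lit 78) (nat_lit 0) (nat_lit 0) (XT.lf (nat_lit 0) (nat_lit 553080110796) (nat_lit 152) (nat_lit 2695439142072) (nat_lit 0) (nat_lit 544301872919) (nat_lit 1)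 (nat_lit 5) (nat_lit 3) (nat_lit 4) (nat_lit 1) (nat_lit 4) (nat_lit 257) (nat_lit 196) (nat_lit 147)) (XT.lf (nat_lit 0) (nat_lit 641468894847) (nat_lit 152) (nat_lit 3087037660993) (nat_lit 0) (nat_lit 632689440594) (nat_lit 1) (nat_lit 5) (nat_lit 3) (nat_lit 4) (nat_lit 1) (nat_lit 4) (nat_lit 258) (nat_lit 196) (nat_lit 146))) (XT.nd (nat_lit 78) (nat_lit 0) (nat_lit 0) (XT.lf (nat_lit 0) (nat_lit 743114254479) (nat_lit 152) (nat_lit 3537379242302) (nat_lit 0) (nat_lit 734333742508) (nat_lit 1) (nat_lit 5) (nat_lit 3) (nat_lit 4) (nat_lit 1) (nat_lit 4) (nat_lit 259) (nat_lit 196) (nat_lit 145)) (XT.nd (nat_lit 78) (nat_lit 0) (nat_lit 0) (XT.lf (nat_lit 0) (nat_lit 860004903250) (nat_lit 152) (nat_lit 4055274916937) (nat_lit 0) (nat_lit 851223471525) (nat_lit 1) (nat_lit 5) (nat_lit 3) (nat_lit 4) (nat_lit 1) (nat_lit 4) (nat_lit 260) (nat_lit 196) (nat_lit 144)) (XT.lf (nat_lit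 0) (nat_lit 994427832115) (nat_lit 152) (nat_lit 4650857426358) (nat_lit 0) (nat_lit 985645600603) (nat_lit 1) (nat_lit 5) (nat_lit 3) (nat_lit 4) (nat_lit 1) (nat_lit 4) (nat_lit 261) (nat_lit 196) (nat_lit 143)))))) (XT.nd (nat_lit 390) (nat_lit 836) (nat_lit 0) (XT.nd (nat_lit 156) (nat_lit 684) (nat_lit 0) (XT.nd (nat_lit 78) (nat_lit 228) (nat_lit 0) (XT.lf (nat_lit 0) (nat_lit 215338108) (nat_lit 532) (nat_lit 3272534134) (nat_lit 0) (nat_lit 215338108) (nat_lit 35) (nat_lit 5) (nat_lit 42) (nat_lit 4) (nat_lit 35) (nat_lit 4) (nat_lit 206) (nat_lit 197) (nat_lit 197)) (XT.lf (nat_lit 0) (nat_lit 2246480839) (nat_lit 228) (nat_lit 3987043485) (nat_lit 228) (nat_lit 1547268492) (nat_lit 32) (nat_lit 4) (nat_lit 35) (nat_lit 5) (nat_lit 35) (nat_lit 4) (nat_lit 207) (nat_lit 197) (nat_lit 196))) (XT.nd (nat_lit 78) (nat_lit 456) (nat_lit 0) (XT.lf (nat_lit 0) (nat_lit 3716342831)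 (nat_lit 152) (nat_lit 263302022) (nat_lit 228) (nat_lit 4265293545) (nat_lit 29) (nat_lit 5) (nat_lit 31) (nat_lit 5) (nat_lit 32) (nat_lit 4) (nat_lit 208) (nat_lit 197) (nat_lit 195)) (XT.nd (nat_lit 78) (nat_lit 152) (nat_lit 0) (XT.lf (nat_lit 0) (nat_lit 1082769966) (nat_lit 304) (nat_lit 3679448537) (nat_lit 76) (nat_lit 4038789880) (nat_lit 25) (nat_lit 5) (nat_lit 29) (nat_lit 5) (nat_lit 26) (nat_lit 4) (nat_lit 209) (nat_lit 197) (nat_lit 194)) (XT.lf (nat_lit 0) (nat_lit 6407104757) (nat_lit 152) (nat_lit 239086336) (nat_lit 228) (nat_lit 2815102489) (nat_lit 23) (nat_lit 5) (nat_lit 25) (nat_lit 5) (nat_lit 26) (nat_lit 4) (nat_lit 210) (nat_lit 197) (nat_lit 193))))) (XT.nd (nat_lit 156) (nat_lit 456) (nat_lit 0) (XT.nd (nat_lit 78) (nat_lit 152) (nat_lit 0) (XT.lf (nat_lit 0) (nat_lit 2505359990) (nat_lit 228) (nat_lit 2852362712) (nat_lit 76) (nat_lit 4873972555) (nat_lit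 20) (nat_lit 5) (nat_lit 23) (nat_lit 5) (nat_lit 21) (nat_lit 4) (nat_lit 211) (nat_lit 197) (nat_lit 192)) (XT.lf (nat_lit 0) (nat_lit 7983992108) (nat_lit 152) (nat_lit 231130509) (nat_lit 228) (nat_lit 2918098714) (nat_lit 18) (nat_lit 5) (nat_lit 20) (nat_lit 5) (nat_lit 21) (nat_lit 4) (nat_lit 212) (nat_lit 197) (nat_lit 191))) (XT.nd (nat_lit 78) (nat_lit 228) (nat_lit 0) (XT.lf (nat_lit 0) (nat_lit 2400644489) (nat_lit 228) (nat_lit 4273111816) (nat_lit 76) (nat_lit 5499251671) (nat_lit 15) (nat_lit 5) (nat_lit 18) (nat_lit 5) (nat_lit 16) (nat_lit 4) (nat_lit 213) (nat_lit 197) (nat_lit 190)) (XT.nd (nat_lit 78) (nat_lit 152) (nat_lit 0) (XT.lf (nat_lit 0) (nat_lit 6983873009) (nat_lit 76) (nat_lit 1178833584) (nat_lit 152) (nat_lit 5215962310) (nat_lit 14) (nat_lit 5) (nat_lit 15) (nat_lit 5) (nat_lit 16) (nat_lit 4) (nat_lit 214) (nat_lit 197) (nat_lit 189)) (XT.lf (nat_lit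 0) (nat_lit 4869882116) (nat_lit 152) (nat_lit 9870448715) (nat_lit 152) (nat_lit 29994156) (nat_lit 12) (nat_lit 4) (nat_lit 14) (nat_lit 5) (nat_lit 14) (nat_lit 4) (nat_lit 215) (nat_lit 197) (nat_lit 188))))))) (XT.nd (nat_lit 780) (nat_lit 76) (nat_lit 0) (XT.nd (nat_lit 390) (nat_lit 228) (nat_lit 0) (XT.nd (nat_lit 156) (nat_lit 228) (nat_lit 0) (XT.nd (nat_lit 78) (nat_lit 0) (nat_lit 0) (XT.lf (nat_lit 0) (nat_lit 1086121086) (nat_lit 76) (nat_lit 4412121965) (nat_lit 152) (nat_lit 10873176275) (nat_lit 10) (nat_lit 5) (nat_lit 11) (nat_lit 5) (nat_lit 12) (nat_lit 4) (nat_lit 216) (nat_lit 197) (nat_lit 187)) (XT.lf (nat_lit 0) (nat_lit 11836842647) (nat_lit 152) (nat_lit 4535154432) (nat_lit 0) (nat_lit 1842858724) (nat_lit 10) (nat_lit 5) (nat_lit 12) (nat_lit 4) (nat_lit 10) (nat_lit 4) (nat_lit 217) (nat_lit 197) (nat_lit 186))) (XT.nd (nat_lit 78) (nat_lit 152) (nat_lit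 0) (XT.lf (nat_lit 0) (nat_lit 7550513536) (nat_lit 76) (nat_lit 11568269760) (nat_lit 76) (nat_lit 1217379093) (nat_lit 9) (nat_lit 4) (nat_lit 10) (nat_lit 5) (nat_lit 10) (nat_lit 4) (nat_lit 218) (nat_lit 197) (nat_lit 185)) (XT.nd (nat_lit 78) (nat_lit 76) (nat_lit 0) (XT.lf (nat_lit 0) (nat_lit 4326657823) (nat_lit 152) (nat_lit 1661796085) (nat_lit 76) (nat_lit 16791122661) (nat_lit 8) (nat_lit 5) (nat_lit 10) (nat_lit 5) (nat_lit 9) (nat_lit 4) (nat_lit 219) (nat_lit 197) (nat_lit 184)) (XT.lf (nat_lit 0) (nat_lit 10663515937) (nat_lit 152) (nat_lit 14379213497) (nat_lit 0) (nat_lit 542111186) (nat_lit 7) (nat_lit 5) (nat_lit 9) (nat_lit 4) (nat_lit 7) (nat_lit 4) (nat_lit 220) (nat_lit 197) (nat_lit 183))))) (XT.nd (nat_lit 156) (nat_lit 152) (nat_lit 0) (XT.nd (nat_lit 78) (nat_lit 76) (nat_lit 0) (XT.lf (nat_lit 0) (nat_lit 17932983868) (nat_lit 152) (nat_lit 3285515596) (nat_lit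 0) (nat_lit 7594290249) (nat_lit 7) (nat_lit 5) (nat_lit 9) (nat_lit 4) (nat_lit 7) (nat_lit 4) (nat_lit 221) (nat_lit 197) (nat_lit 182)) (XT.lf (nat_lit 0) (nat_lit 9590783815) (nat_lit 76) (nat_lit 16729979106) (nat_lit 76) (nat_lit 6202338644) (nat_lit 6) (nat_lit 4) (nat_lit 7) (nat_lit 5) (nat_lit 7) (nat_lit 4) (nat_lit 222) (nat_lit 197) (nat_lit 181))) (XT.nd (nat_lit 78) (nat_lit 152) (nat_lit 0) (XT.lf (nat_lit 0) (nat_lit 24266841689) (nat_lit 76) (nat_lit 11611249626) (nat_lit 76) (nat_lit 919307563) (nat_lit 6) (nat_lit 4) (nat_lit 7) (nat_lit 5) (nat_lit 7) (nat_lit 4) (nat_lit 223) (nat_lit 197) (nat_lit 180)) (XT.nd (nat_lit 78) (nat_lit 76) (nat_lit 0) (XT.lf (nat_lit 0) (nat_lit 4733558433) (nat_lit 152) (nat_lit 989011478) (nat_lit 76) (nat_lit 35993806548) (nat_lit 5) (nat_lit 5) (nat_lit 7) (nat_lit 5) (nat_lit 6) (nat_lit 4) (nat_lit 224) (nat_lit 197) (nat_lit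 179)) (XT.lf (nat_lit 0) (nat_lit 11373107804) (nat_lit 152) (nat_lit 34757131680) (nat_lit 0) (nat_lit 1225840548) (nat_lit 4) (nat_lit 5) (nat_lit 6) (nat_lit 4) (nat_lit 4) (nat_lit 4) (nat_lit 225) (nat_lit 197) (nat_lit 178)))))) (XT.nd (nat_lit 390) (nat_lit 0) (nat_lit 0) (XT.nd (nat_lit 156) (nat_lit 76) (nat_lit 0) (XT.nd (nat_lit 78) (nat_lit 0) (nat_lit 0) (XT.lf (nat_lit 0) (nat_lit 19063657398) (nat_lit 152) (nat_lit 25957527497) (nat_lit 0) (nat_lit 8816361466) (nat_lit 4) (nat_lit 5) (nat_lit 6) (nat_lit 4) (nat_lit 4) (nat_lit 4) (nat_lit 226) (nat_lit 197) (nat_lit 177)) (XT.lf (nat_lit 0) (nat_lit 27792357935) (nat_lit 152) (nat_lit 16050213586) (nat_lit 0) (nat_lit 17458080546) (nat_lit 4) (nat_lit 5) (nat_lit 6) (nat_lit 4) (nat_lit 4) (nat_lit 4) (nat_lit 227) (nat_lit 197) (nat_lit 176))) (XT.nd (nat_lit 78) (nat_lit 76) (nat_lit 0) (XT.lf (nat_lit 0) (nat_lit 37729988339)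 (nat_lit 152) (nat_lit 4841351197) (nat_lit 0) (nat_lit 27320074900) (nat_lit 4) (nat_lit 5) (nat_lit 6) (nat_lit 4) (nat_lit 4) (nat_lit 4) (nat_lit 228) (nat_lit 197) (nat_lit 175)) (XT.nd (nat_lit 78) (nat_lit 0) (nat_lit 0) (XT.lf (nat_lit 0) (nat_lit 8303750742) (nat_lit 76) (nat_lit 40966935173) (nat_lit 76) (nat_lit 30491251255) (nat_lit 3) (nat_lit 4) (nat_lit 4) (nat_lit 5) (nat_lit 4) (nat_lit 4) (nat_lit 229) (nat_lit 197) (nat_lit 174)) (XT.lf (nat_lit 0) (nat_lit 23566902025) (nat_lit 76) (nat_lit 39037105959) (nat_lit 76) (nat_lit 28504230321) (nat_lit 3) (nat_lit 4) (nat_lit 4) (nat_lit 5) (nat_lit 4) (nat_lit 4) (nat_lit 230) (nat_lit 197) (nat_lit 173))))) (XT.nd (nat_lit 234) (nat_lit 0) (nat_lit 0) (XT.nd (nat_lit 78) (nat_lit 0) (nat_lit 0) (XT.lf (nat_lit 0) (nat_lit 40991792551) (nat_lit 76) (nat_lit 36876465488) (nat_lit 76) (nat_lit 26293857920) (nat_lit 3) (nat_lit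 4) (nat_lit 4) (nat_lit 5) (nat_lit 4) (nat_lit 4) (nat_lit 231) (nat_lit 197) (nat_lit 172)) (XT.nd (nat_lit 78) (nat_lit 0) (nat_lit 0) (XT.lf (nat_lit 0) (nat_lit 60919344091) (nat_lit 76) (nat_lit 34442740360) (nat_lit 76) (nat_lit 23816887635) (nat_lit 3) (nat_lit 4) (nat_lit 4) (nat_lit 5) (nat_lit 4) (nat_lit 4) (nat_lit 232) (nat_lit 197) (nat_lit 171)) (XT.lf (nat_lit 0) (nat_lit 83739443522) (nat_lit 76) (nat_lit 31688314214) (nat_lit 76) (nat_lit 21024857005) (nat_lit 3) (nat_lit 4) (nat_lit 4) (nat_lit 5) (nat_lit 4) (nat_lit 4) (nat_lit 233) (nat_lit 197) (nat_lit 170)))) (XT.nd (nat_lit 78) (nat_lit 0) (nat_lit 0) (XT.lf (nat_lit 0) (nat_lit 109898571051) (nat_lit 76) (nat_lit 28559296103) (nat_lit 76) (nat_lit 17863139342) (nat_lit 3) (nat_lit 4) (nat_lit 4) (nat_lit 5) (nat_lit 4) (nat_lit 4) (nat_lit 234) (nat_lit 197) (nat_lit 169)) (XT.nd (nat_lit 78) (nat_lit 0) (nat_lit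 0) (XT.lf (nat_lit 0) (nat_lit 139908535694) (nat_lit 76) (nat_lit 24994466108) (nat_lit 76) (nat_lit 14269874954) (nat_lit 3) (nat_lit 4) (nat_lit 4) (nat_lit 5) (nat_lit 4) (nat_lit 4) (nat_lit 235) (nat_lit 197) (nat_lit 168)) (XT.lf (nat_lit 0) (nat_lit 174356488935) (nat_lit 76) (nat_lit 20924077554) (nat_lit 76) (nat_lit 10174760842) (nat_lit 3) (nat_lit 4) (nat_lit 4) (nat_lit 5) (nat_lit 4) (nat_lit 4) (nat_lit 236) (nat_lit 197) (nat_lit 167))))))))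
noncomputable def xc20 : XT := (XT.nd (nat_lit 1560) (nat_lit 0) (nat_lit 0) (XT.nd (nat_lit 780) (nat_lit 0) (nat_lit 0) (XT.nd (nat_lit 390) (nat_lit 0) (nat_lit 0) (XT.nd (nat_lit 156) (nat_lit 152) (nat_lit 0) (XT.nd (nat_lit 78) (nat_lit 0) (nat_lit 0) (XT.lf (nat_lit 0) (nat_lit 213916412466) (nat_lit 76) (nat_lit 16268492406) (nat_lit 76) (nat_lit 5497675207) (nat_lit 3) (nat_lit 4) (nat_lit 4) (nat_lit 5) (nat_lit 4) (nat_lit 4) (nat_lit 237) (nat_lit 197) (nat_lit 166)) (XT.lf (nat_lit 0) (nat_lit 259362304791) (nat_lit 76) (nat_lit 10936623127) (nat_lit 76) (nat_lit 147109853) (nat_lit 3) (nat_lit 4) (nat_lit 4) (nat_lit 5) (nat_lit 4) (nat_lit 4) (nat_lit 238) (nat_lit 197) (nat_lit 165))) (XT.nd (nat_lit 78) (nat_lit 0) (nat_lit 0) (XT.lf (nat_lit 0) (nat_lit 1066986536) (nat_lit 76) (nat_lit 4641069841) (nat_lit 152) (nat_lit 304704237106) (nat_lit 1) (nat_lit 5) (nat_lit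 2) (nat_lit 5) (nat_lit 3) (nat_lit 4) (nat_lit 239) (nat_lit 197) (nat_lit 164)) (XT.nd (nat_lit 78) (nat_lit 0) (nat_lit 0) (XT.lf (nat_lit 0) (nat_lit 12805050434) (nat_lit 152) (nat_lit 340751760759) (nat_lit 0) (nat_lit 2786617427) (nat_lit 1) (nat_lit 5) (nat_lit 3) (nat_lit 4) (nat_lit 1) (nat_lit 4) (nat_lit 240) (nat_lit 197) (nat_lit 163)) (XT.lf (nat_lit 0) (nat_lit 21076207712) (nat_lit 152) (nat_lit 377032889060) (nat_lit 0) (nat_lit 11046392323) (nat_lit 1) (nat_lit 5) (nat_lit 3) (nat_lit 4) (nat_lit 1) (nat_lit 4) (nat_lit 241) (nat_lit 197) (nat_lit 162))))) (XT.nd (nat_lit 156) (nat_lit 0) (nat_lit 0) (XT.nd (nat_lit 78) (nat_lit 0) (nat_lit 0) (XT.lf (nat_lit 0) (nat_lit 30571737361) (nat_lit 152) (nat_lit 418786922173) (nat_lit 0) (nat_lit 20532024247) (nat_lit 1) (nat_lit 5) (nat_lit 3) (nat_lit 4) (nat_lit 1) (nat_lit 4) (nat_lit 242) (nat_lit 197) (nat_lit 161))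 (XT.lf (nat_lit 0) (nat_lit 41477421481) (nat_lit 152) (nat_lit 466830786832) (nat_lit 0) (nat_lit 31429101651) (nat_lit 1) (nat_lit 5) (nat_lit 3) (nat_lit 4) (nat_lit 1) (nat_lit 4) (nat_lit 243) (nat_lit 197) (nat_lit 160))) (XT.nd (nat_lit 78) (nat_lit 0) (nat_lit 0) (XT.lf (nat_lit 0) (nat_lit 54006632154) (nat_lit 152) (nat_lit 522104471694) (nat_lit 0) (nat_lit 43950828223) (nat_lit 1) (nat_lit 5) (nat_lit 3) (nat_lit 4) (nat_lit 1) (nat_lit 4) (nat_lit 244) (nat_lit 197) (nat_lit 159)) (XT.nd (nat_lit 78) (nat_lit 0) (nat_lit 0) (XT.lf (nat_lit 0) (nat_lit 68404506109) (nat_lit 152) (nat_lit 585689418418) (nat_lit 0) (nat_lit 58342194265) (nat_lit 1) (nat_lit 5) (nat_lit 3) (nat_lit 4) (nat_lit 1) (nat_lit 4) (nat_lit 245) (nat_lit 197) (nat_lit 158)) (XT.lf (nat_lit 0) (nat_lit 84952740882) (nat_lit 152) (nat_lit 658829680311) (nat_lit 0) (nat_lit 74884769983) (nat_lit 1) (nat_lit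 5) (nat_lit 3) (nat_lit 4) (nat_lit 1) (nat_lit 4) (nat_lit 246) (nat_lit 197) (nat_lit 157)))))) (XT.nd (nat_lit 390) (nat_lit 0) (nat_lit 0) (XT.nd (nat_lit 156) (nat_lit 0) (nat_lit 0) (XT.nd (nat_lit 78) (nat_lit 0) (nat_lit 0) (XT.lf (nat_lit 0) (nat_lit 103975106283) (nat_lit 152) (nat_lit 742956262496) (nat_lit 0) (nat_lit 93902214465) (nat_lit 1) (nat_lit 5) (nat_lit 3) (nat_lit 4) (nat_lit 1) (nat_lit 4) (nat_lit 247) (nat_lit 197) (nat_lit 156)) (XT.lf (nat_lit 0) (nat_lit 125843779026) (nat_lit 152) (nat_lit 839715119842) (nat_lit 0) (nat_lit 115766608149) (nat_lit 1) (nat_lit 5) (nat_lit 3) (nat_lit 4) (nat_lit 1) (nat_lit 4) (nat_lit 248) (nat_lit 197) (nat_lit 155))) (XT.nd (nat_lit 78) (nat_lit 0) (nat_lit 0) (XT.lf (nat_lit 0) (nat_lit 150986624447) (nat_lit 152) (nat_lit 950999360427) (nat_lit 0) (nat_lit 140905732650) (nat_lit 1) (nat_lit 5) (nat_lit 3) (nat_lit 4) (nat_lit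 1) (nat_lit 4) (nat_lit 249) (nat_lit 197) (nat_lit 154)) (XT.nd (nat_lit 78) (nat_lit 0) (nat_lit 0) (XT.lf (nat_lit 0) (nat_lit 179895567784) (nat_lit 152) (nat_lit 1078986284612) (nat_lit 0) (nat_lit 169811440403) (nat_lit 1) (nat_lit 5) (nat_lit 3) (nat_lit 4) (nat_lit 1) (nat_lit 4) (nat_lit 250) (nat_lit 197) (nat_lit 153)) (XT.lf (nat_lit 0) (nat_lit 213136218796) (nat_lit 152) (nat_lit 1226179984390) (nat_lit 0) (nat_lit 203049277864) (nat_lit 1) (nat_lit 5) (nat_lit 3) (nat_lit 4) (nat_lit 1) (nat_lit 4) (nat_lit 251) (nat_lit 197) (nat_lit 152))))) (XT.nd (nat_lit 156) (nat_lit 0) (nat_lit 0) (XT.nd (nat_lit 78) (nat_lit 0) (nat_lit 0) (XT.lf (nat_lit 0) (nat_lit 251358938047) (nat_lit 152) (nat_lit 1395460336497) (nat_lit 0) (nat_lit 241269550549) (nat_lit 1) (nat_lit 5) (nat_lit 3) (nat_lit 4) (nat_lit 1) (nat_lit 4) (nat_lit 252) (nat_lit 197) (nat_lit 151)) (XT.lf (nat_lit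 0) (nat_lit 295311561349) (nat_lit 152) (nat_lit 1590139347822) (nat_lit 0) (nat_lit 285220046403) (nat_lit 1) (nat_lit 5) (nat_lit 3) (nat_lit 4) (nat_lit 1) (nat_lit 4) (nat_lit 253) (nat_lit 197) (nat_lit 150))) (XT.nd (nat_lit 78) (nat_lit 0) (nat_lit 0) (XT.lf (nat_lit 0) (nat_lit 345854031331) (nat_lit 152) (nat_lit 1814025955542) (nat_lit 0) (nat_lit 335760666430) (nat_lit 1) (nat_lit 5) (nat_lit 3) (nat_lit 4) (nat_lit 1) (nat_lit 4) (nat_lit 254) (nat_lit 197) (nat_lit 149)) (XT.nd (nat_lit 78) (nat_lit 0) (nat_lit 0) (XT.lf (nat_lit 0) (nat_lit 403975222407) (nat_lit 152) (nat_lit 2071500549809) (nat_lit 0) (nat_lit 393880248848) (nat_lit 1) (nat_lit 5) (nat_lit 3) (nat_lit 4) (nat_lit 1) (nat_lit 4) (nat_lit 255) (nat_lit 197) (nat_lit 148)) (XT.lf (nat_lit 0) (nat_lit 470812288313) (nat_lit 152) (nat_lit 2367600677033) (nat_lit 0) (nat_lit 460715915923) (nat_lit 1) (nat_lit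 5) (nat_lit 3) (nat_lit 4) (nat_lit 1) (nat_lit 4) (nat_lit 256) (nat_lit 197) (nat_lit 147))))))) (XT.nd (nat_lit 27534) (nat_lit 0) (nat_lit 684) (XT.nd (nat_lit 27144) (nat_lit 0) (nat_lit 2128) (XT.nd (nat_lit 156) (nat_lit 0) (nat_lit 0) (XT.nd (nat_lit 78) (nat_lit 0) (nat_lit 0) (XT.lf (nat_lit 0) (nat_lit 547672910776) (nat_lit 152) (nat_lit 2708119600572) (nat_lit 0) (nat_lit 537575322010) (nat_lit 1) (nat_lit 5) (nat_lit 3) (nat_lit 4) (nat_lit 1) (nat_lit 4) (nat_lit 257) (nat_lit 197) (nat_lit 146)) (XT.lf (nat_lit 0) (nat_lit 636060884582) (nat_lit 152) (nat_lit 3099719647190) (nat_lit 0) (nat_lit 625962238098) (nat_lit 1) (nat_lit 5) (nat_lit 3) (nat_lit 4) (nat_lit 1) (nat_lit 4) (nat_lit 258) (nat_lit 197) (nat_lit 145))) (XT.nd (nat_lit 78) (nat_lit 0) (nat_lit 0) (XT.lf (nat_lit 0) (nat_lit 737705539653) (nat_lit 152) (nat_lit 3550062556931) (nat_lit 0) (nat_lit 727605973415)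 (nat_lit 1) (nat_lit 5) (nat_lit 3) (nat_lit 4) (nat_lit 1) (nat_lit 4) (nat_lit 259) (nat_lit 197) (nat_lit 144)) (XT.nd (nat_lit 78) (nat_lit 0) (nat_lit 0) (XT.lf (nat_lit 0) (nat_lit 854595575763) (nat_lit 152) (nat_lit 4067959386725) (nat_lit 0) (nat_lit 844495209738) (nat_lit 1) (nat_lit 5) (nat_lit 3) (nat_lit 4) (nat_lit 1) (nat_lit 4) (nat_lit 260) (nat_lit 197) (nat_lit 143)) (XT.lf (nat_lit 0) (nat_lit 989017971879) (nat_lit 152) (nat_lit 4663542900632) (nat_lit 0) (nat_lit 978916910387) (nat_lit 1) (nat_lit 5) (nat_lit 3) (nat_lit 4) (nat_lit 1) (nat_lit 4) (nat_lit 261) (nat_lit 197) (nat_lit 142))))) (XT.nd (nat_lit 156) (nat_lit 1368) (nat_lit 0) (XT.nd (nat_lit 78) (nat_lit 380) (nat_lit 0) (XT.lf (nat_lit 0) (nat_lit 2879446110) (nat_lit 228) (nat_lit 274931501) (nat_lit 228) (nat_lit 274931501) (nat_lit 52) (nat_lit 4) (nat_lit 55) (nat_lit 5) (nat_lit 55) (nat_lit 4)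 (nat_lit 204) (nat_lit 198) (nat_lit 198)) (XT.lf (nat_lit 0) (nat_lit 4846878865) (nat_lit 380) (nat_lit 444569456) (nat_lit 0) (nat_lit 1816678324) (nat_lit 47) (nat_lit 5) (nat_lit 52) (nat_lit 4) (nat_lit 47) (nat_lit 4) (nat_lit 205) (nat_lit 198) (nat_lit 197))) (XT.nd (nat_lit 78) (nat_lit 456) (nat_lit 0) (XT.lf (nat_lit 0) (nat_lit 390020428) (nat_lit 456) (nat_lit 2521122821) (nat_lit 532) (nat_lit 4523711751) (nat_lit 35) (nat_lit 5) (nat_lit 41) (nat_lit 5) (nat_lit 42) (nat_lit 4) (nat_lit 206) (nat_lit 198) (nat_lit 196)) (XT.nd (nat_lit 78) (nat_lit 152) (nat_lit 0) (XT.lf (nat_lit 0) (nat_lit 429691495) (nat_lit 304) (nat_lit 6473301393) (nat_lit 76) (nat_lit 940820800) (nat_lit 31) (nat_lit 5) (nat_lit 35) (nat_lit 5) (nat_lit 32) (nat_lit 4) (nat_lit 207) (nat_lit 198) (nat_lit 195)) (XT.lf (nat_lit 0) (nat_lit 2301850853) (nat_lit 152) (nat_lit 3233596727) (nat_lit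 228) (nat_lit 2798724247) (nat_lit 29) (nat_lit 5) (nat_lit 31) (nat_lit 5) (nat_lit 32) (nat_lit 4) (nat_lit 208) (nat_lit 198) (nat_lit 194)))))) (XT.nd (nat_lit 390) (nat_lit 380) (nat_lit 0) (XT.nd (nat_lit 156) (nat_lit 608) (nat_lit 0) (XT.nd (nat_lit 78) (nat_lit 152) (nat_lit 0) (XT.lf (nat_lit 0) (nat_lit 2068680853) (nat_lit 304) (nat_lit 5712025098) (nat_lit 76) (nat_lit 1140657636) (nat_lit 25) (nat_lit 5) (nat_lit 29) (nat_lit 5) (nat_lit 26) (nat_lit 4) (nat_lit 209) (nat_lit 198) (nat_lit 193)) (XT.lf (nat_lit 0) (nat_lit 3906350215) (nat_lit 152) (nat_lit 3407520546) (nat_lit 228) (nat_lit 2294419029) (nat_lit 23) (nat_lit 5) (nat_lit 25) (nat_lit 5) (nat_lit 26) (nat_lit 4) (nat_lit 210) (nat_lit 198) (nat_lit 192))) (XT.nd (nat_lit 78) (nat_lit 380) (nat_lit 0) (XT.lf (nat_lit 0) (nat_lit 2605404610) (nat_lit 228) (nat_lit 6089692232) (nat_lit 76) (nat_lit 1715112296)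 (nat_lit 20) (nat_lit 5) (nat_lit 23) (nat_lit 5) (nat_lit 21) (nat_lit 4) (nat_lit 211) (nat_lit 198) (nat_lit 191)) (XT.nd (nat_lit 78) (nat_lit 228) (nat_lit 0) (XT.lf (nat_lit 0) (nat_lit 4243721066) (nat_lit 152) (nat_lit 3764433017) (nat_lit 228) (nat_lit 3328970095) (nat_lit 18) (nat_lit 5) (nat_lit 20) (nat_lit 5) (nat_lit 21) (nat_lit 4) (nat_lit 212) (nat_lit 198) (nat_lit 190)) (XT.lf (nat_lit 0) (nat_lit 1611256150) (nat_lit 228) (nat_lit 8870431769) (nat_lit 76) (nat_lit 1928605649) (nat_lit 15) (nat_lit 5) (nat_lit 18) (nat_lit 5) (nat_lit 16) (nat_lit 4) (nat_lit 213) (nat_lit 198) (nat_lit 189))))) (XT.nd (nat_lit 156) (nat_lit 304) (nat_lit 0) (XT.nd (nat_lit 78) (nat_lit 0) (nat_lit 0) (XT.lf (nat_lit 0) (nat_lit 1841472066) (nat_lit 76) (nat_lit 5224129302) (nat_lit 152) (nat_lit 6575550126) (nat_lit 14) (nat_lit 5) (nat_lit 15) (nat_lit 5) (nat_lit 16) (nat_lit 4)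 (nat_lit 214) (nat_lit 198) (nat_lit 188)) (XT.lf (nat_lit 0) (nat_lit 13260107026) (nat_lit 152) (nat_lit 956275089) (nat_lit 0) (nat_lit 847578993) (nat_lit 14) (nat_lit 5) (nat_lit 16) (nat_lit 4) (nat_lit 14) (nat_lit 4) (nat_lit 215) (nat_lit 198) (nat_lit 187))) (XT.nd (nat_lit 78) (nat_lit 76) (nat_lit 0) (XT.lf (nat_lit 0) (nat_lit 3605019396) (nat_lit 228) (nat_lit 5357365864) (nat_lit 76) (nat_lit 7723136878) (nat_lit 11) (nat_lit 5) (nat_lit 14) (nat_lit 5) (nat_lit 12) (nat_lit 4) (nat_lit 216) (nat_lit 198) (nat_lit 186)) (XT.nd (nat_lit 78) (nat_lit 0) (nat_lit 0) (XT.lf (nat_lit 0) (nat_lit 6766171024) (nat_lit 76) (nat_lit 2852788839) (nat_lit 152) (nat_lit 8936324378) (nat_lit 10) (nat_lit 5) (nat_lit 11) (nat_lit 5) (nat_lit 12) (nat_lit 4) (nat_lit 217) (nat_lit 198) (nat_lit 185)) (XT.lf (nat_lit 0) (nat_lit 16524890000) (nat_lit 152) (nat_lit 227983236) (nat_lit 0)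 (nat_lit 3954105299) (nat_lit 10) (nat_lit 5) (nat_lit 12) (nat_lit 4) (nat_lit 10) (nat_lit 4) (nat_lit 218) (nat_lit 198) (nat_lit 184))))))))
noncomputable def xc21 : XT := (XT.nd (nat_lit 1560) (nat_lit 152) (nat_lit 0) (XT.nd (nat_lit 780) (nat_lit 76) (nat_lit 0) (XT.nd (nat_lit 390) (nat_lit 152) (nat_lit 0) (XT.nd (nat_lit 156) (nat_lit 76) (nat_lit 0) (XT.nd (nat_lit 78) (nat_lit 76) (nat_lit 0) (XT.lf (nat_lit 0) (nat_lit 1386971751) (nat_lit 152) (nat_lit 9955756232) (nat_lit 76) (nat_lit 11823478586) (nat_lit 8) (nat_lit 5) (nat_lit 10) (nat_lit 5) (nat_lit 9) (nat_lit 4) (nat_lit 219) (nat_lit 198) (nat_lit 183)) (XT.lf (nat_lit 0) (nat_lit 2303348865) (nat_lit 76) (nat_lit 5090246479) (nat_lit 152) (nat_lit 18604508884) (nat_lit 7) (nat_lit 5) (nat_lit 8) (nat_lit 5) (nat_lit 9) (nat_lit 4) (nat_lit 220) (nat_lit 198) (nat_lit 182))) (XT.nd (nat_lit 78) (nat_lit 76) (nat_lit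 0) (XT.lf (nat_lit 0) (nat_lit 14446332192) (nat_lit 152) (nat_lit 12646647621) (nat_lit 0) (nat_lit 2150598819) (nat_lit 7) (nat_lit 5) (nat_lit 9) (nat_lit 4) (nat_lit 7) (nat_lit 4) (nat_lit 221) (nat_lit 198) (nat_lit 181)) (XT.nd (nat_lit 78) (nat_lit 76) (nat_lit 0) (XT.lf (nat_lit 0) (nat_lit 22521443504) (nat_lit 152) (nat_lit 396214326) (nat_lit 0) (nat_lit 10061408530) (nat_lit 7) (nat_lit 5) (nat_lit 9) (nat_lit 4) (nat_lit 7) (nat_lit 4) (nat_lit 222) (nat_lit 198) (nat_lit 180)) (XT.lf (nat_lit 0) (nat_lit 14125249655) (nat_lit 76) (nat_lit 17868962978) (nat_lit 76) (nat_lit 5266057046) (nat_lit 6) (nat_lit 4) (nat_lit 7) (nat_lit 5) (nat_lit 7) (nat_lit 4) (nat_lit 223) (nat_lit 198) (nat_lit 179))))) (XT.nd (nat_lit 156) (nat_lit 0) (nat_lit 0) (XT.nd (nat_lit 78) (nat_lit 76) (nat_lit 0) (XT.lf (nat_lit 0) (nat_lit 537643550) (nat_lit 152) (nat_lit 11608842962) (nat_lit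 76) (nat_lit 30046566237) (nat_lit 5) (nat_lit 5) (nat_lit 7) (nat_lit 5) (nat_lit 6) (nat_lit 4) (nat_lit 224) (nat_lit 198) (nat_lit 178)) (XT.lf (nat_lit 0) (nat_lit 1343653558) (nat_lit 76) (nat_lit 5473089747) (nat_lit 152) (nat_lit 41044947890) (nat_lit 4) (nat_lit 5) (nat_lit 5) (nat_lit 5) (nat_lit 6) (nat_lit 4) (nat_lit 225) (nat_lit 198) (nat_lit 177))) (XT.nd (nat_lit 78) (nat_lit 0) (nat_lit 0) (XT.lf (nat_lit 0) (nat_lit 14321975891) (nat_lit 152) (nat_lit 37685517561) (nat_lit 0) (nat_lit 2350575436) (nat_lit 4) (nat_lit 5) (nat_lit 6) (nat_lit 4) (nat_lit 4) (nat_lit 4) (nat_lit 226) (nat_lit 198) (nat_lit 176)) (XT.nd (nat_lit 78) (nat_lit 0) (nat_lit 0) (XT.lf (nat_lit 0) (nat_lit 23003990283) (nat_lit 152) (nat_lit 27864040212) (nat_lit 0) (nat_lit 10956953778) (nat_lit 4) (nat_lit 5) (nat_lit 6) (nat_lit 4) (nat_lit 4) (nat_lit 4) (nat_lit 227) (nat_lit 198) (nat_lit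 175)) (XT.lf (nat_lit 0) (nat_lit 32901024038) (nat_lit 152) (nat_lit 16729818311) (nat_lit 0) (nat_lit 20788217055) (nat_lit 4) (nat_lit 5) (nat_lit 6) (nat_lit 4) (nat_lit 4) (nat_lit 4) (nat_lit 228) (nat_lit 198) (nat_lit 174)))))) (XT.nd (nat_lit 390) (nat_lit 0) (nat_lit 0) (XT.nd (nat_lit 156) (nat_lit 0) (nat_lit 0) (XT.nd (nat_lit 78) (nat_lit 76) (nat_lit 0) (XT.lf (nat_lit 0) (nat_lit 44206714775) (nat_lit 152) (nat_lit 4065008387) (nat_lit 0) (nat_lit 32036716072) (nat_lit 4) (nat_lit 5) (nat_lit 6) (nat_lit 4) (nat_lit 4) (nat_lit 4) (nat_lit 229) (nat_lit 198) (nat_lit 173)) (XT.lf (nat_lit 0) (nat_lit 10924675851) (nat_lit 76) (nat_lit 46480323657) (nat_lit 76) (nat_lit 34260593023) (nat_lit 3) (nat_lit 4) (nat_lit 4) (nat_lit 5) (nat_lit 4) (nat_lit 4) (nat_lit 230) (nat_lit 198) (nat_lit 172))) (XT.nd (nat_lit 78) (nat_lit 0) (nat_lit 0) (XT.lf (nat_lit 0) (nat_lit 28297904718)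 (nat_lit 76) (nat_lit 44343409425) (nat_lit 76) (nat_lit 32080433634) (nat_lit 3) (nat_lit 4) (nat_lit 4) (nat_lit 5) (nat_lit 4) (nat_lit 4) (nat_lit 231) (nat_lit 198) (nat_lit 171)) (XT.nd (nat_lit 78) (nat_lit 0) (nat_lit 0) (XT.lf (nat_lit 0) (nat_lit 48180533077) (nat_lit 76) (nat_lit 41930315809) (nat_lit 76) (nat_lit 29629735534) (nat_lit 3) (nat_lit 4) (nat_lit 4) (nat_lit 5) (nat_lit 4) (nat_lit 4) (nat_lit 232) (nat_lit 198) (nat_lit 170)) (XT.lf (nat_lit 0) (nat_lit 70961568872) (nat_lit 76) (nat_lit 39193830108) (nat_lit 76) (nat_lit 26860550281) (nat_lit 3) (nat_lit 4) (nat_lit 4) (nat_lit 5) (nat_lit 4) (nat_lit 4) (nat_lit 233) (nat_lit 198) (nat_lit 169))))) (XT.nd (nat_lit 156) (nat_lit 0) (nat_lit 0) (XT.nd (nat_lit 78) (nat_lit 0) (nat_lit 0) (XT.lf (nat_lit 0) (nat_lit 97086728022) (nat_lit 76) (nat_lit 36080412384) (nat_lit 76) (nat_lit 23718698165) (nat_lit 3) (nat_lit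 4) (nat_lit 4) (nat_lit 5) (nat_lit 4) (nat_lit 4) (nat_lit 234) (nat_lit 198) (nat_lit 168)) (XT.lf (nat_lit 0) (nat_lit 127067154945) (nat_lit 76) (nat_lit 32529147943) (nat_lit 76) (nat_lit 20142708165) (nat_lit 3) (nat_lit 4) (nat_lit 4) (nat_lit 5) (nat_lit 4) (nat_lit 4) (nat_lit 235) (nat_lit 198) (nat_lit 167))) (XT.nd (nat_lit 78) (nat_lit 0) (nat_lit 0) (XT.lf (nat_lit 0) (nat_lit 161489423210) (nat_lit 76) (nat_lit 28470555523) (nat_lit 76) (nat_lit 16062615259) (nat_lit 3) (nat_lit 4) (nat_lit 4) (nat_lit 5) (nat_lit 4) (nat_lit 4) (nat_lit 236) (nat_lit 198) (nat_lit 166)) (XT.nd (nat_lit 78) (nat_lit 0) (nat_lit 0) (XT.lf (nat_lit 0) (nat_lit 201027011981) (nat_lit 76) (nat_lit 23825227883) (nat_lit 76) (nat_lit 11398591544) (nat_lit 3) (nat_lit 4) (nat_lit 4) (nat_lit 5) (nat_lit 4) (nat_lit 4) (nat_lit 237) (nat_lit 198) (nat_lit 165)) (XT.lf (nat_lit 0) (nat_lit 246453482776)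 (nat_lit 76) (nat_lit 18502278176) (nat_lit 76) (nat_lit 6059384380) (nat_lit 3) (nat_lit 4) (nat_lit 4) (nat_lit 5) (nat_lit 4) (nat_lit 4) (nat_lit 238) (nat_lit 198) (nat_lit 164))))))) (XT.nd (nat_lit 780) (nat_lit 0) (nat_lit 0) (XT.nd (nat_lit 390) (nat_lit 0) (nat_lit 0) (XT.nd (nat_lit 156) (nat_lit 0) (nat_lit 0) (XT.nd (nat_lit 78) (nat_lit 76) (nat_lit 0) (XT.lf (nat_lit 0) (nat_lit 56494100) (nat_lit 152) (nat_lit 12339522985) (nat_lit 76) (nat_lit 298599575622) (nat_lit 2) (nat_lit 5) (nat_lit 4) (nat_lit 5) (nat_lit 3) (nat_lit 4) (nat_lit 239) (nat_lit 198) (nat_lit 163)) (XT.lf (nat_lit 0) (nat_lit 1595649109) (nat_lit 76) (nat_lit 5166357042) (nat_lit 152) (nat_lit 350196051507) (nat_lit 1) (nat_lit 5) (nat_lit 2) (nat_lit 5) (nat_lit 3) (nat_lit 4) (nat_lit 240) (nat_lit 198) (nat_lit 162))) (XT.nd (nat_lit 78) (nat_lit 0) (nat_lit 0) (XT.lf (nat_lit 0) (nat_lit 14901330455)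 (nat_lit 152) (nat_lit 391533581452) (nat_lit 0) (nat_lit 3345762651) (nat_lit 1) (nat_lit 5) (nat_lit 3) (nat_lit 4) (nat_lit 1) (nat_lit 4) (nat_lit 241) (nat_lit 198) (nat_lit 161)) (XT.nd (nat_lit 78) (nat_lit 0) (nat_lit 0) (XT.lf (nat_lit 0) (nat_lit 24390267092) (nat_lit 152) (nat_lit 433300045532) (nat_lit 0) (nat_lit 12826092572) (nat_lit 1) (nat_lit 5) (nat_lit 3) (nat_lit 4) (nat_lit 1) (nat_lit 4) (nat_lit 242) (nat_lit 198) (nat_lit 160)) (XT.lf (nat_lit 0) (nat_lit 35290218158) (nat_lit 152) (nat_lit 481354719728) (nat_lit 0) (nat_lit 23718559537) (nat_lit 1) (nat_lit 5) (nat_lit 3) (nat_lit 4) (nat_lit 1) (nat_lit 4) (nat_lit 243) (nat_lit 198) (nat_lit 159))))) (XT.nd (nat_lit 156) (nat_lit 0) (nat_lit 0) (XT.nd (nat_lit 78) (nat_lit 0) (nat_lit 0) (XT.lf (nat_lit 0) (nat_lit 47814443567) (nat_lit 152) (nat_lit 536637804186) (nat_lit 0) (nat_lit 36236277032) (nat_lit 1)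 (nat_lit 5) (nat_lit 3) (nat_lit 4) (nat_lit 1) (nat_lit 4) (nat_lit 244) (nat_lit 198) (nat_lit 158)) (XT.lf (nat_lit 0) (nat_lit 62207982510) (nat_lit 152) (nat_lit 600230924473) (nat_lit 0) (nat_lit 50624156920) (nat_lit 1) (nat_lit 5) (nat_lit 3) (nat_lit 4) (nat_lit 1) (nat_lit 4) (nat_lit 245) (nat_lit 198) (nat_lit 157))) (XT.nd (nat_lit 78) (nat_lit 0) (nat_lit 0) (XT.lf (nat_lit 0) (nat_lit 78752447707) (nat_lit 152) (nat_lit 673378293811) (nat_lit 0) (nat_lit 67163701199) (nat_lit 1) (nat_lit 5) (nat_lit 3) (nat_lit 4) (nat_lit 1) (nat_lit 4) (nat_lit 246) (nat_lit 198) (nat_lit 156)) (XT.nd (nat_lit 78) (nat_lit 0) (nat_lit 0) (XT.lf (nat_lit 0) (nat_lit 97771535216) (nat_lit 152) (nat_lit 757511056384) (nat_lit 0) (nat_lit 86178509649) (nat_lit 1) (nat_lit 5) (nat_lit 3) (nat_lit 4) (nat_lit 1) (nat_lit 4) (nat_lit 247) (nat_lit 198) (nat_lit 155)) (XT.lf (nat_lit 0) (nat_lit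 119637357618) (nat_lit 152) (nat_lit 854275287980) (nat_lit 0) (nat_lit 108040611130) (nat_lit 1) (nat_lit 5) (nat_lit 3) (nat_lit 4) (nat_lit 1) (nat_lit 4) (nat_lit 248) (nat_lit 198) (nat_lit 154)))))) (XT.nd (nat_lit 390) (nat_lit 0) (nat_lit 0) (XT.nd (nat_lit 156) (nat_lit 0) (nat_lit 0) (XT.nd (nat_lit 78) (nat_lit 0) (nat_lit 0) (XT.lf (nat_lit 0) (nat_lit 144777724482) (nat_lit 152) (nat_lit 965564201827) (nat_lit 0) (nat_lit 133177742410) (nat_lit 1) (nat_lit 5) (nat_lit 3) (nat_lit 4) (nat_lit 1) (nat_lit 4) (nat_lit 249) (nat_lit 198) (nat_lit 153)) (XT.lf (nat_lit 0) (nat_lit 173684512551) (nat_lit 152) (nat_lit 1093555189716) (nat_lit 0) (nat_lit 162081716929) (nat_lit 1) (nat_lit 5) (nat_lit 3) (nat_lit 4) (nat_lit 1) (nat_lit 4) (nat_lit 250) (nat_lit 198) (nat_lit 152))) (XT.nd (nat_lit 78) (nat_lit 0) (nat_lit 0) (XT.lf (nat_lit 0) (nat_lit 206923289418) (nat_lit 152)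 (nat_lit 1240752423151) (nat_lit 0) (nat_lit 195318047230) (nat_lit 1) (nat_lit 5) (nat_lit 3) (nat_lit 4) (nat_lit 1) (nat_lit 4) (nat_lit 251) (nat_lit 198) (nat_lit 151)) (XT.nd (nat_lit 78) (nat_lit 0) (nat_lit 0) (XT.lf (nat_lit 0) (nat_lit 245144378977) (nat_lit 152) (nat_lit 1410035848003) (nat_lit 0) (nat_lit 233537009341) (nat_lit 1) (nat_lit 5) (nat_lit 3) (nat_lit 4) (nat_lit 1) (nat_lit 4) (nat_lit 252) (nat_lit 198) (nat_lit 150)) (XT.lf (nat_lit 0) (nat_lit 289095585156) (nat_lit 152) (nat_lit 1604717531280) (nat_lit 0) (nat_lit 277486365564) (nat_lit 1) (nat_lit 5) (nat_lit 3) (nat_lit 4) (nat_lit 1) (nat_lit 4) (nat_lit 253) (nat_lit 198) (nat_lit 149))))) (XT.nd (nat_lit 234) (nat_lit 0) (nat_lit 0) (XT.nd (nat_lit 78) (nat_lit 0) (nat_lit 0) (XT.lf (nat_lit 0) (nat_lit 339636822857) (nat_lit 152) (nat_lit 1828606462437) (nat_lit 0) (nat_lit 328025994608) (nat_lit 1)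 (nat_lit 5) (nat_lit 3) (nat_lit 4) (nat_lit 1) (nat_lit 4) (nat_lit 254) (nat_lit 198) (nat_lit 148)) (XT.nd (nat_lit 78) (nat_lit 0) (nat_lit 0) (XT.lf (nat_lit 0) (nat_lit 397756942384) (nat_lit 152) (nat_lit 2086083077084) (nat_lit 0) (nat_lit 386144715303) (nat_lit 1) (nat_lit 5) (nat_lit 3) (nat_lit 4) (nat_lit 1) (nat_lit 4) (nat_lit 255) (nat_lit 198) (nat_lit 147)) (XT.lf (nat_lit 0) (nat_lit 464593076509) (nat_lit 152) (nat_lit 2382184961159) (nat_lit 0) (nat_lit 452979633053) (nat_lit 1) (nat_lit 5) (nat_lit 3) (nat_lit 4) (nat_lit 1) (nat_lit 4) (nat_lit 256) (nat_lit 198) (nat_lit 146)))) (XT.nd (nat_lit 78) (nat_lit 0) (nat_lit 0) (XT.lf (nat_lit 0) (nat_lit 541452888727) (nat_lit 152) (nat_lit 2722705412395) (nat_lit 0) (nat_lit 529838387553) (nat_lit 1) (nat_lit 5) (nat_lit 3) (nat_lit 4) (nat_lit 1) (nat_lit 4) (nat_lit 257) (nat_lit 198) (nat_lit 145)) (XT.nd (nat_lit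 78) (nat_lit 0) (nat_lit 0) (XT.lf (nat_lit 0) (nat_lit 629840157973) (nat_lit 152) (nat_lit 3114306787447) (nat_lit 0) (nat_lit 618224737043) (nat_lit 1) (nat_lit 5) (nat_lit 3) (nat_lit 4) (nat_lit 1) (nat_lit 4) (nat_lit 258) (nat_lit 198) (nat_lit 144)) (XT.lf (nat_lit 0) (nat_lit 731484200382) (nat_lit 152) (nat_lit 3564650852346) (nat_lit 0) (nat_lit 719867979667) (nat_lit 1) (nat_lit 5) (nat_lit 3) (nat_lit 4) (nat_lit 1) (nat_lit 4) (nat_lit 259) (nat_lit 198) (nat_lit 143))))))))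
noncomputable def xc22 : XT := (XT.nd (nat_lit 28158) (nat_lit 0) (nat_lit 152) (XT.nd (nat_lit 27378) (nat_lit 0) (nat_lit 608) (XT.nd (nat_lit 26988) (nat_lit 0) (nat_lit 1824) (XT.nd (nat_lit 26754) (nat_lit 0) (nat_lit 3800) (XT.nd (nat_lit 78) (nat_lit 0) (nat_lit 0) (XT.lf (nat_lit 0) (nat_lit 848373703743) (nat_lit 152) (nat_lit 4082548686626) (nat_lit 0) (nat_lit 836756787561) (nat_lit 1) (nat_lit 5) (nat_lit 3) (nat_lit 4) (nat_lit 1) (nat_lit 4) (nat_lit 260) (nat_lit 198) (nat_lit 142)) (XT.lf (nat_lit 0) (nat_lit 982795636599) (nat_lit 152) (nat_lit 4678133073998) (nat_lit 0) (nat_lit 971178115663) (nat_lit 1) (nat_lit 5) (nat_lit 3) (nat_lit 4) (nat_lit 1) (nat_lit 4) (nat_lit 261) (nat_lit 198) (nat_lit 141))) (XT.nd (nat_lit 78) (nat_lit 532) (nat_lit 0) (XT.lf (nat_lit 0) (nat_lit 2542572515) (nat_lit 76) (nat_lit 364346833) (nat_lit 76) (nat_lit 364346833) (nat_lit 58)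 (nat_lit 4) (nat_lit 59) (nat_lit 5) (nat_lit 59) (nat_lit 4) (nat_lit 202) (nat_lit 199) (nat_lit 199)) (XT.nd (nat_lit 78) (nat_lit 304) (nat_lit 0) (XT.lf (nat_lit 0) (nat_lit 4423666852) (nat_lit 228) (nat_lit 1596010606) (nat_lit 0) (nat_lit 660157781) (nat_lit 55) (nat_lit 5) (nat_lit 58) (nat_lit 4) (nat_lit 55) (nat_lit 4) (nat_lit 203) (nat_lit 199) (nat_lit 198)) (XT.lf (nat_lit 0) (nat_lit 2652187070) (nat_lit 304) (nat_lit 1519576547) (nat_lit 76) (nat_lit 2715723652) (nat_lit 51) (nat_lit 5) (nat_lit 55) (nat_lit 5) (nat_lit 52) (nat_lit 4) (nat_lit 204) (nat_lit 199) (nat_lit 197))))) (XT.nd (nat_lit 156) (nat_lit 1216) (nat_lit 0) (XT.nd (nat_lit 78) (nat_lit 380) (nat_lit 0) (XT.lf (nat_lit 0) (nat_lit 415057452) (nat_lit 380) (nat_lit 1238302794) (nat_lit 76) (nat_lit 5517376738) (nat_lit 46) (nat_lit 5) (nat_lit 51) (nat_lit 5) (nat_lit 47) (nat_lit 5) (nat_lit 205)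 (nat_lit 199) (nat_lit 196)) (XT.lf (nat_lit 0) (nat_lit 5077938287) (nat_lit 456) (nat_lit 879043463) (nat_lit 76) (nat_lit 1569942125) (nat_lit 41) (nat_lit 5) (nat_lit 47) (nat_lit 5) (nat_lit 42) (nat_lit 4) (nat_lit 206) (nat_lit 199) (nat_lit 195))) (XT.nd (nat_lit 78) (nat_lit 684) (nat_lit 0) (XT.lf (nat_lit 0) (nat_lit 2019679601) (nat_lit 532) (nat_lit 456946874) (nat_lit 76) (nat_lit 5487429433) (nat_lit 34) (nat_lit 5) (nat_lit 41) (nat_lit 5) (nat_lit 35) (nat_lit 5) (nat_lit 207) (nat_lit 199) (nat_lit 194)) (XT.nd (nat_lit 78) (nat_lit 456) (nat_lit 0) (XT.lf (nat_lit 0) (nat_lit 6729307000) (nat_lit 304) (nat_lit 45715642) (nat_lit 76) (nat_lit 1712550373) (nat_lit 31) (nat_lit 5) (nat_lit 35) (nat_lit 5) (nat_lit 32) (nat_lit 4) (nat_lit 208) (nat_lit 199) (nat_lit 193)) (XT.lf (nat_lit 0) (nat_lit 255943737) (nat_lit 228) (nat_lit 2450581964) (nat_lit 304) (nat_lit 6395464973)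 (nat_lit 25) (nat_lit 5) (nat_lit 28) (nat_lit 5) (nat_lit 29) (nat_lit 5) (nat_lit 209) (nat_lit 199) (nat_lit 192)))))) (XT.nd (nat_lit 390) (nat_lit 456) (nat_lit 0) (XT.nd (nat_lit 156) (nat_lit 380) (nat_lit 0) (XT.nd (nat_lit 78) (nat_lit 228) (nat_lit 0) (XT.lf (nat_lit 0) (nat_lit 355296300) (nat_lit 152) (nat_lit 7227655463) (nat_lit 228) (nat_lit 2236494488) (nat_lit 23) (nat_lit 5) (nat_lit 25) (nat_lit 5) (nat_lit 26) (nat_lit 4) (nat_lit 210) (nat_lit 199) (nat_lit 191)) (XT.lf (nat_lit 0) (nat_lit 105774267) (nat_lit 152) (nat_lit 2200936200) (nat_lit 228) (nat_lit 8343669283) (nat_lit 20) (nat_lit 5) (nat_lit 22) (nat_lit 5) (nat_lit 23) (nat_lit 5) (nat_lit 211) (nat_lit 199) (nat_lit 190))) (XT.nd (nat_lit 78) (nat_lit 380) (nat_lit 0) (XT.lf (nat_lit 0) (nat_lit 7365718346) (nat_lit 228) (nat_lit 645189484) (nat_lit 76) (nat_lit 3594606209) (nat_lit 20) (nat_lit 5) (nat_lit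 23) (nat_lit 5) (nat_lit 21) (nat_lit 4) (nat_lit 212) (nat_lit 199) (nat_lit 189)) (XT.nd (nat_lit 78) (nat_lit 152) (nat_lit 0) (XT.lf (nat_lit 0) (nat_lit 418819088) (nat_lit 228) (nat_lit 2018574286) (nat_lit 76) (nat_lit 10269796106) (nat_lit 17) (nat_lit 5) (nat_lit 20) (nat_lit 5) (nat_lit 18) (nat_lit 5) (nat_lit 213) (nat_lit 199) (nat_lit 188)) (XT.lf (nat_lit 0) (nat_lit 5557790450) (nat_lit 228) (nat_lit 4406707173) (nat_lit 76) (nat_lit 3999283734) (nat_lit 15) (nat_lit 5) (nat_lit 18) (nat_lit 5) (nat_lit 16) (nat_lit 4) (nat_lit 214) (nat_lit 199) (nat_lit 187))))) (XT.nd (nat_lit 156) (nat_lit 152) (nat_lit 0) (XT.nd (nat_lit 78) (nat_lit 228) (nat_lit 0) (XT.lf (nat_lit 0) (nat_lit 7421524502) (nat_lit 76) (nat_lit 4053079460) (nat_lit 152) (nat_lit 3934640677) (nat_lit 14) (nat_lit 5) (nat_lit 15) (nat_lit 5) (nat_lit 16) (nat_lit 4) (nat_lit 215) (nat_lit 199) (nat_lit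 186)) (XT.lf (nat_lit 0) (nat_lit 1164068446) (nat_lit 228) (nat_lit 13191652230) (nat_lit 76) (nat_lit 2712877922) (nat_lit 11) (nat_lit 5) (nat_lit 14) (nat_lit 5) (nat_lit 12) (nat_lit 4) (nat_lit 216) (nat_lit 199) (nat_lit 185))) (XT.nd (nat_lit 78) (nat_lit 152) (nat_lit 0) (XT.lf (nat_lit 0) (nat_lit 6896462046) (nat_lit 228) (nat_lit 1603455527) (nat_lit 76) (nat_lit 10461273745) (nat_lit 11) (nat_lit 5) (nat_lit 14) (nat_lit 5) (nat_lit 12) (nat_lit 4) (nat_lit 217) (nat_lit 199) (nat_lit 184)) (XT.nd (nat_lit 78) (nat_lit 76) (nat_lit 0) (XT.lf (nat_lit 0) (nat_lit 11952840932) (nat_lit 76) (nat_lit 1601197583) (nat_lit 152) (nat_lit 7578982231) (nat_lit 10) (nat_lit 5) (nat_lit 11) (nat_lit 5) (nat_lit 12) (nat_lit 4) (nat_lit 218) (nat_lit 199) (nat_lit 183)) (XT.lf (nat_lit 0) (nat_lit 3693823771) (nat_lit 76) (nat_lit 17600920556) (nat_lit 76) (nat_lit 2329619707) (nat_lit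 9) (nat_lit 4) (nat_lit 10) (nat_lit 5) (nat_lit 10) (nat_lit 4) (nat_lit 219) (nat_lit 199) (nat_lit 182))))))) (XT.nd (nat_lit 780) (nat_lit 76) (nat_lit 0) (XT.nd (nat_lit 390) (nat_lit 152) (nat_lit 0) (XT.nd (nat_lit 156) (nat_lit 76) (nat_lit 0) (XT.nd (nat_lit 78) (nat_lit 76) (nat_lit 0) (XT.lf (nat_lit 0) (nat_lit 3649402952) (nat_lit 152) (nat_lit 7884605297) (nat_lit 76) (nat_lit 14938453498) (nat_lit 8) (nat_lit 5) (nat_lit 10) (nat_lit 5) (nat_lit 9) (nat_lit 4) (nat_lit 220) (nat_lit 199) (nat_lit 181)) (XT.lf (nat_lit 0) (nat_lit 5911647177) (nat_lit 76) (nat_lit 4455879911) (nat_lit 152) (nat_lit 19377340534) (nat_lit 7) (nat_lit 5) (nat_lit 8) (nat_lit 5) (nat_lit 9) (nat_lit 4) (nat_lit 221) (nat_lit 199) (nat_lit 180))) (XT.nd (nat_lit 78) (nat_lit 76) (nat_lit 0) (XT.lf (nat_lit 0) (nat_lit 18264162069) (nat_lit 152) (nat_lit 11602663365) (nat_lit 0) (nat_lit 3627949289)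 (nat_lit 7) (nat_lit 5) (nat_lit 9) (nat_lit 4) (nat_lit 7) (nat_lit 4) (nat_lit 222) (nat_lit 199) (nat_lit 179)) (XT.nd (nat_lit 78) (nat_lit 0) (nat_lit 0) (XT.lf (nat_lit 0) (nat_lit 2212401959) (nat_lit 76) (nat_lit 25176014258) (nat_lit 76) (nat_lit 10415565863) (nat_lit 6) (nat_lit 4) (nat_lit 7) (nat_lit 5) (nat_lit 7) (nat_lit 4) (nat_lit 223) (nat_lit 199) (nat_lit 178)) (XT.lf (nat_lit 0) (nat_lit 18584943166) (nat_lit 76) (nat_lit 19513002703) (nat_lit 76) (nat_lit 4644523338) (nat_lit 6) (nat_lit 4) (nat_lit 7) (nat_lit 5) (nat_lit 7) (nat_lit 4) (nat_lit 224) (nat_lit 199) (nat_lit 177))))) (XT.nd (nat_lit 156) (nat_lit 0) (nat_lit 0) (XT.nd (nat_lit 78) (nat_lit 76) (nat_lit 0) (XT.lf (nat_lit 0) (nat_lit 1784234610) (nat_lit 152) (nat_lit 11251211349) (nat_lit 76) (nat_lit 35391298144) (nat_lit 5) (nat_lit 5) (nat_lit 7) (nat_lit 5) (nat_lit 6) (nat_lit 4) (nat_lit 225)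 (nat_lit 199) (nat_lit 176)) (XT.lf (nat_lit 0) (nat_lit 3466493304) (nat_lit 76) (nat_lit 5432833415) (nat_lit 152) (nat_lit 46055081101) (nat_lit 4) (nat_lit 5) (nat_lit 5) (nat_lit 5) (nat_lit 6) (nat_lit 4) (nat_lit 226) (nat_lit 199) (nat_lit 175))) (XT.nd (nat_lit 78) (nat_lit 0) (nat_lit 0) (XT.lf (nat_lit 0) (nat_lit 17410084688) (nat_lit 152) (nat_lit 41610417882) (nat_lit 0) (nat_lit 3414586179) (nat_lit 4) (nat_lit 5) (nat_lit 6) (nat_lit 4) (nat_lit 4) (nat_lit 4) (nat_lit 227) (nat_lit 199) (nat_lit 174)) (XT.nd (nat_lit 78) (nat_lit 0) (nat_lit 0) (XT.lf (nat_lit 0) (nat_lit 27271817010) (nat_lit 152) (nat_lit 30541100754) (nat_lit 0) (nat_lit 13219126781) (nat_lit 4) (nat_lit 5) (nat_lit 6) (nat_lit 4) (nat_lit 4) (nat_lit 4) (nat_lit 228) (nat_lit 199) (nat_lit 173)) (XT.lf (nat_lit 0) (nat_lit 38546810849) (nat_lit 152) (nat_lit 17932729763) (nat_lit 0) (nat_lit 24444388689)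 (nat_lit 4) (nat_lit 5) (nat_lit 6) (nat_lit 4) (nat_lit 4) (nat_lit 4) (nat_lit 229) (nat_lit 199) (nat_lit 172)))))) (XT.nd (nat_lit 390) (nat_lit 0) (nat_lit 0) (XT.nd (nat_lit 156) (nat_lit 0) (nat_lit 0) (XT.nd (nat_lit 78) (nat_lit 76) (nat_lit 0) (XT.lf (nat_lit 0) (nat_lit 51455663909) (nat_lit 152) (nat_lit 3538619389) (nat_lit 0) (nat_lit 37309996592) (nat_lit 4) (nat_lit 5) (nat_lit 6) (nat_lit 4) (nat_lit 4) (nat_lit 4) (nat_lit 230) (nat_lit 199) (nat_lit 171)) (XT.lf (nat_lit 0) (nat_lit 13603348871) (nat_lit 76) (nat_lit 52974752703) (nat_lit 76) (nat_lit 38791480902) (nat_lit 3) (nat_lit 4) (nat_lit 4) (nat_lit 5) (nat_lit 4) (nat_lit 4) (nat_lit 231) (nat_lit 199) (nat_lit 170))) (XT.nd (nat_lit 78) (nat_lit 0) (nat_lit 0) (XT.lf (nat_lit 0) (nat_lit 33446913594) (nat_lit 76) (nat_lit 50579599533) (nat_lit 76) (nat_lit 36363628180) (nat_lit 3) (nat_lit 4) (nat_lit 4)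 (nat_lit 5) (nat_lit 4) (nat_lit 4) (nat_lit 232) (nat_lit 199) (nat_lit 169)) (XT.nd (nat_lit 78) (nat_lit 0) (nat_lit 0) (XT.lf (nat_lit 0) (nat_lit 56193981010) (nat_lit 76) (nat_lit 47858714219) (nat_lit 76) (nat_lit 33614308474) (nat_lit 3) (nat_lit 4) (nat_lit 4) (nat_lit 5) (nat_lit 4) (nat_lit 4) (nat_lit 233) (nat_lit 199) (nat_lit 168)) (XT.lf (nat_lit 0) (nat_lit 82289602439) (nat_lit 76) (nat_lit 44758862049) (nat_lit 76) (nat_lit 30489730745) (nat_lit 3) (nat_lit 4) (nat_lit 4) (nat_lit 5) (nat_lit 4) (nat_lit 4) (nat_lit 234) (nat_lit 199) (nat_lit 167))))) (XT.nd (nat_lit 156) (nat_lit 0) (nat_lit 0) (XT.nd (nat_lit 78) (nat_lit 0) (nat_lit 0) (XT.lf (nat_lit 0) (nat_lit 112244344387) (nat_lit 76) (nat_lit 41219393741) (nat_lit 76) (nat_lit 26928761951) (nat_lit 3) (nat_lit 4) (nat_lit 4) (nat_lit 5) (nat_lit 4) (nat_lit 4) (nat_lit 235) (nat_lit 199) (nat_lit 166)) (XT.lf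 (nat_lit 0) (nat_lit 146644277893) (nat_lit 76) (nat_lit 37171058830) (nat_lit 76) (nat_lit 22861730965) (nat_lit 3) (nat_lit 4) (nat_lit 4) (nat_lit 5) (nat_lit 4) (nat_lit 4) (nat_lit 236) (nat_lit 199) (nat_lit 165))) (XT.nd (nat_lit 78) (nat_lit 0) (nat_lit 0) (XT.lf (nat_lit 0) (nat_lit 186162445132) (nat_lit 76) (nat_lit 32534650761) (nat_lit 76) (nat_lit 18209065440) (nat_lit 3) (nat_lit 4) (nat_lit 4) (nat_lit 5) (nat_lit 4) (nat_lit 4) (nat_lit 237) (nat_lit 199) (nat_lit 164)) (XT.nd (nat_lit 78) (nat_lit 0) (nat_lit 0) (XT.lf (nat_lit 0) (nat_lit 231572027639) (nat_lit 76) (nat_lit 27219457203) (nat_lit 76) (nat_lit 12879734964) (nat_lit 3) (nat_lit 4) (nat_lit 4) (nat_lit 5) (nat_lit 4) (nat_lit 4) (nat_lit 238) (nat_lit 199) (nat_lit 163)) (XT.lf (nat_lit 0) (nat_lit 283761473767) (nat_lit 76) (nat_lit 21121485240) (nat_lit 76) (nat_lit 6769470027) (nat_lit 3) (nat_lit 4)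 (nat_lit 4) (nat_lit 5) (nat_lit 4) (nat_lit 4) (nat_lit 239) (nat_lit 199) (nat_lit 162))))))))
noncomputable def xc23 : XT := (XT.nd (nat_lit 1560) (nat_lit 0) (nat_lit 0) (XT.nd (nat_lit 780) (nat_lit 0) (nat_lit 0) (XT.nd (nat_lit 390) (nat_lit 0) (nat_lit 0) (XT.nd (nat_lit 156) (nat_lit 0) (nat_lit 0) (XT.nd (nat_lit 78) (nat_lit 76) (nat_lit 0) (XT.lf (nat_lit 0) (nat_lit 229208326) (nat_lit 152) (nat_lit 13885951434) (nat_lit 76) (nat_lit 343516406086) (nat_lit 2) (nat_lit 5) (nat_lit 4) (nat_lit 5) (nat_lit 3) (nat_lit 4) (nat_lit 240) (nat_lit 199) (nat_lit 161)) (XT.lf (nat_lit 0) (nat_lit 2113722066) (nat_lit 76) (nat_lit 5812105853) (nat_lit 152) (nat_lit 402563779714) (nat_lit 1) (nat_lit 5) (nat_lit 2) (nat_lit 5) (nat_lit 3) (nat_lit 4) (nat_lit 241) (nat_lit 199) (nat_lit 160))) (XT.nd (nat_lit 78) (nat_lit 0) (nat_lit 0) (XT.lf (nat_lit 0) (nat_lit 17269250217) (nat_lit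 152) (nat_lit 450013377898) (nat_lit 0) (nat_lit 3954358702) (nat_lit 1) (nat_lit 5) (nat_lit 3) (nat_lit 4) (nat_lit 1) (nat_lit 4) (nat_lit 242) (nat_lit 199) (nat_lit 159)) (XT.nd (nat_lit 78) (nat_lit 0) (nat_lit 0) (XT.lf (nat_lit 0) (nat_lit 28164216019) (nat_lit 152) (nat_lit 498077451691) (nat_lit 0) (nat_lit 14842816590) (nat_lit 1) (nat_lit 5) (nat_lit 3) (nat_lit 4) (nat_lit 1) (nat_lit 4) (nat_lit 243) (nat_lit 199) (nat_lit 158)) (XT.lf (nat_lit 0) (nat_lit 40684106416) (nat_lit 152) (nat_lit 553368709712) (nat_lit 0) (nat_lit 27357047931) (nat_lit 1) (nat_lit 5) (nat_lit 3) (nat_lit 4) (nat_lit 1) (nat_lit 4) (nat_lit 244) (nat_lit 199) (nat_lit 157))))) (XT.nd (nat_lit 156) (nat_lit 0) (nat_lit 0) (XT.nd (nat_lit 78) (nat_lit 0) (nat_lit 0) (XT.lf (nat_lit 0) (nat_lit 55073875783) (nat_lit 152) (nat_lit 616968937445) (nat_lit 0) (nat_lit 41741896381) (nat_lit 1) (nat_lit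 5) (nat_lit 3) (nat_lit 4) (nat_lit 1) (nat_lit 4) (nat_lit 245) (nat_lit 199) (nat_lit 156)) (XT.lf (nat_lit 0) (nat_lit 71615063088) (nat_lit 152) (nat_lit 690122487171) (nat_lit 0) (nat_lit 58278804627) (nat_lit 1) (nat_lit 5) (nat_lit 3) (nat_lit 4) (nat_lit 1) (nat_lit 4) (nat_lit 246) (nat_lit 199) (nat_lit 155))) (XT.nd (nat_lit 78) (nat_lit 0) (nat_lit 0) (XT.lf (nat_lit 0) (nat_lit 90631300256) (nat_lit 152) (nat_lit 774260623993) (nat_lit 0) (nat_lit 77291320874) (nat_lit 1) (nat_lit 5) (nat_lit 3) (nat_lit 4) (nat_lit 1) (nat_lit 4) (nat_lit 247) (nat_lit 199) (nat_lit 154)) (XT.nd (nat_lit 78) (nat_lit 0) (nat_lit 0) (XT.lf (nat_lit 0) (nat_lit 112494644101) (nat_lit 152) (nat_lit 871029528850) (nat_lit 0) (nat_lit 99151429135) (nat_lit 1) (nat_lit 5) (nat_lit 3) (nat_lit 4) (nat_lit 1) (nat_lit 4) (nat_lit 248) (nat_lit 199) (nat_lit 153)) (XT.lf (nat_lit 0) (nat_lit 137632855697)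 (nat_lit 152) (nat_lit 982322506402) (nat_lit 0) (nat_lit 124286827181) (nat_lit 1) (nat_lit 5) (nat_lit 3) (nat_lit 4) (nat_lit 1) (nat_lit 4) (nat_lit 249) (nat_lit 199) (nat_lit 152)))))) (XT.nd (nat_lit 390) (nat_lit 0) (nat_lit 0) (XT.nd (nat_lit 156) (nat_lit 0) (nat_lit 0) (XT.nd (nat_lit 78) (nat_lit 0) (nat_lit 0) (XT.lf (nat_lit 0) (nat_lit 166537769621) (nat_lit 152) (nat_lit 1110317027948) (nat_lit 0) (nat_lit 153189294539) (nat_lit 1) (nat_lit 5) (nat_lit 3) (nat_lit 4) (nat_lit 1) (nat_lit 4) (nat_lit 250) (nat_lit 199) (nat_lit 151)) (XT.lf (nat_lit 0) (nat_lit 199774916796) (nat_lit 152) (nat_lit 1257517334128) (nat_lit 0) (nat_lit 186424314265) (nat_lit 1) (nat_lit 5) (nat_lit 3) (nat_lit 4) (nat_lit 1) (nat_lit 4) (nat_lit 251) (nat_lit 199) (nat_lit 150))) (XT.nd (nat_lit 78) (nat_lit 0) (nat_lit 0) (XT.lf (nat_lit 0) (nat_lit 237994589232) (nat_lit 152) (nat_lit 1426803430933)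 (nat_lit 0) (nat_lit 224642136746) (nat_lit 1) (nat_lit 5) (nat_lit 3) (nat_lit 4) (nat_lit 1) (nat_lit 4) (nat_lit 252) (nat_lit 199) (nat_lit 149)) (XT.nd (nat_lit 78) (nat_lit 0) (nat_lit 0) (XT.lf (nat_lit 0) (nat_lit 281944563130) (nat_lit 152) (nat_lit 1621487437646) (nat_lit 0) (nat_lit 268590501987) (nat_lit 1) (nat_lit 5) (nat_lit 3) (nat_lit 4) (nat_lit 1) (nat_lit 4) (nat_lit 253) (nat_lit 199) (nat_lit 148)) (XT.lf (nat_lit 0) (nat_lit 332484729283) (nat_lit 152) (nat_lit 1845378389183) (nat_lit 0) (nat_lit 319129269308) (nat_lit 1) (nat_lit 5) (nat_lit 3) (nat_lit 4) (nat_lit 1) (nat_lit 4) (nat_lit 254) (nat_lit 199) (nat_lit 147))))) (XT.nd (nat_lit 156) (nat_lit 0) (nat_lit 0) (XT.nd (nat_lit 78) (nat_lit 0) (nat_lit 0) (XT.lf (nat_lit 0) (nat_lit 390603917028) (nat_lit 152) (nat_lit 2102856760681) (nat_lit 0) (nat_lit 377247240677) (nat_lit 1) (nat_lit 5) (nat_lit 3)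 (nat_lit 4) (nat_lit 1) (nat_lit 4) (nat_lit 255) (nat_lit 199) (nat_lit 146)) (XT.lf (nat_lit 0) (nat_lit 457439240908) (nat_lit 152) (nat_lit 2398960172454) (nat_lit 0) (nat_lit 444081506840) (nat_lit 1) (nat_lit 5) (nat_lit 3) (nat_lit 4) (nat_lit 1) (nat_lit 4) (nat_lit 256) (nat_lit 199) (nat_lit 145))) (XT.nd (nat_lit 78) (nat_lit 0) (nat_lit 0) (XT.lf (nat_lit 0) (nat_lit 534298348566) (nat_lit 152) (nat_lit 2739481952123) (nat_lit 0) (nat_lit 520939694742) (nat_lit 1) (nat_lit 5) (nat_lit 3) (nat_lit 4) (nat_lit 1) (nat_lit 4) (nat_lit 257) (nat_lit 199) (nat_lit 144)) (XT.nd (nat_lit 78) (nat_lit 0) (nat_lit 0) (XT.lf (nat_lit 0) (nat_lit 622685005149) (nat_lit 152) (nat_lit 3131084482332) (nat_lit 0) (nat_lit 609325551539) (nat_lit 1) (nat_lit 5) (nat_lit 3) (nat_lit 4) (nat_lit 1) (nat_lit 4) (nat_lit 258) (nat_lit 199) (nat_lit 143)) (XT.lf (nat_lit 0) (nat_lit 724328514810)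 (nat_lit 152) (nat_lit 3581429551718) (nat_lit 0) (nat_lit 710968365733) (nat_lit 1) (nat_lit 5) (nat_lit 3) (nat_lit 4) (nat_lit 1) (nat_lit 4) (nat_lit 259) (nat_lit 199) (nat_lit 142))))))) (XT.nd (nat_lit 27222) (nat_lit 0) (nat_lit 684) (XT.nd (nat_lit 26832) (nat_lit 0) (nat_lit 2508) (XT.nd (nat_lit 26598) (nat_lit 0) (nat_lit 4256) (XT.nd (nat_lit 78) (nat_lit 0) (nat_lit 0) (XT.lf (nat_lit 0) (nat_lit 841217554911) (nat_lit 152) (nat_lit 4099328259463) (nat_lit 0) (nat_lit 827856801080) (nat_lit 1) (nat_lit 5) (nat_lit 3) (nat_lit 4) (nat_lit 1) (nat_lit 4) (nat_lit 260) (nat_lit 199) (nat_lit 141)) (XT.lf (nat_lit 0) (nat_lit 975639084932) (nat_lit 152) (nat_lit 4694913406371) (nat_lit 0) (nat_lit 962277805229) (nat_lit 1) (nat_lit 5) (nat_lit 3) (nat_lit 4) (nat_lit 1) (nat_lit 4) (nat_lit 261) (nat_lit 199) (nat_lit 140))) (XT.nd (nat_lit 78) (nat_lit 228) (nat_lit 0) (XT.lf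 (nat_lit 0) (nat_lit 1073741823) (nat_lit 0) (nat_lit 0) (nat_lit 0) (nat_lit 0) (nat_lit 60) (nat_lit 0) (nat_lit 1) (nat_lit 0) (nat_lit 1) (nat_lit 0) (nat_lit 200) (nat_lit 200) (nat_lit 200)) (XT.nd (nat_lit 78) (nat_lit 152) (nat_lit 0) (XT.lf (nat_lit 0) (nat_lit 5041542987) (nat_lit 76) (nat_lit 1064975155) (nat_lit 0) (nat_lit 367264720) (nat_lit 59) (nat_lit 5) (nat_lit 60) (nat_lit 0) (nat_lit 59) (nat_lit 4) (nat_lit 201) (nat_lit 200) (nat_lit 199)) (XT.lf (nat_lit 0) (nat_lit 3315447595) (nat_lit 152) (nat_lit 1842737065) (nat_lit 76) (nat_lit 1415098646) (nat_lit 57) (nat_lit 5) (nat_lit 59) (nat_lit 5) (nat_lit 58) (nat_lit 4) (nat_lit 202) (nat_lit 200) (nat_lit 198))))) (XT.nd (nat_lit 156) (nat_lit 1292) (nat_lit 0) (XT.nd (nat_lit 78) (nat_lit 228) (nat_lit 0) (XT.lf (nat_lit 0) (nat_lit 1212686214) (nat_lit 228) (nat_lit 2363978157) (nat_lit 76) (nat_lit 3166069333)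 (nat_lit 54) (nat_lit 5) (nat_lit 57) (nat_lit 5) (nat_lit 55) (nat_lit 5) (nat_lit 203) (nat_lit 200) (nat_lit 197)) (XT.lf (nat_lit 0) (nat_lit 4293403456) (nat_lit 228) (nat_lit 1291434220) (nat_lit 304) (nat_lit 1397679843) (nat_lit 51) (nat_lit 5) (nat_lit 54) (nat_lit 5) (nat_lit 55) (nat_lit 5) (nat_lit 204) (nat_lit 200) (nat_lit 196))) (XT.nd (nat_lit 78) (nat_lit 912) (nat_lit 0) (XT.lf (nat_lit 0) (nat_lit 2729555684) (nat_lit 380) (nat_lit 2894842389) (nat_lit 76) (nat_lit 1668501109) (nat_lit 46) (nat_lit 5) (nat_lit 51) (nat_lit 5) (nat_lit 47) (nat_lit 5) (nat_lit 205) (nat_lit 200) (nat_lit 195)) (XT.nd (nat_lit 78) (nat_lit 532) (nat_lit 0) (XT.lf (nat_lit 0) (nat_lit 4680117306) (nat_lit 380) (nat_lit 2346185231) (nat_lit 456) (nat_lit 653898346) (nat_lit 41) (nat_lit 5) (nat_lit 46) (nat_lit 5) (nat_lit 47) (nat_lit 5) (nat_lit 206) (nat_lit 200) (nat_lit 194)) (XT.lf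 (nat_lit 0) (nat_lit 3351954334) (nat_lit 532) (nat_lit 3115050322) (nat_lit 76) (nat_lit 1678184379) (nat_lit 34) (nat_lit 5) (nat_lit 41) (nat_lit 5) (nat_lit 35) (nat_lit 5) (nat_lit 207) (nat_lit 200) (nat_lit 193)))))) (XT.nd (nat_lit 390) (nat_lit 760) (nat_lit 0) (XT.nd (nat_lit 156) (nat_lit 608) (nat_lit 0) (XT.nd (nat_lit 78) (nat_lit 228) (nat_lit 0) (XT.lf (nat_lit 0) (nat_lit 5432065982) (nat_lit 228) (nat_lit 2285259486) (nat_lit 304) (nat_lit 980198283) (nat_lit 31) (nat_lit 5) (nat_lit 34) (nat_lit 5) (nat_lit 35) (nat_lit 5) (nat_lit 208) (nat_lit 200) (nat_lit 192)) (XT.lf (nat_lit 0) (nat_lit 3084646242) (nat_lit 228) (nat_lit 3591054953) (nat_lit 76) (nat_lit 2664653484) (nat_lit 28) (nat_lit 5) (nat_lit 31) (nat_lit 5) (nat_lit 29) (nat_lit 5) (nat_lit 209) (nat_lit 200) (nat_lit 191))) (XT.nd (nat_lit 78) (nat_lit 380) (nat_lit 0) (XT.lf (nat_lit 0) (nat_lit 5947968602)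 (nat_lit 228) (nat_lit 1654304900) (nat_lit 304) (nat_lit 2485134804) (nat_lit 25) (nat_lit 5) (nat_lit 28) (nat_lit 5) (nat_lit 29) (nat_lit 5) (nat_lit 210) (nat_lit 200) (nat_lit 190)) (XT.nd (nat_lit 78) (nat_lit 152) (nat_lit 0) (XT.lf (nat_lit 0) (nat_lit 1739957650) (nat_lit 228) (nat_lit 5087781262) (nat_lit 76) (nat_lit 4118245241) (nat_lit 22) (nat_lit 5) (nat_lit 25) (nat_lit 5) (nat_lit 23) (nat_lit 5) (nat_lit 211) (nat_lit 200) (nat_lit 189)) (XT.lf (nat_lit 0) (nat_lit 5370409690) (nat_lit 152) (nat_lit 1046163003) (nat_lit 228) (nat_lit 5515763196) (nat_lit 20) (nat_lit 5) (nat_lit 22) (nat_lit 5) (nat_lit 23) (nat_lit 5) (nat_lit 212) (nat_lit 200) (nat_lit 188))))) (XT.nd (nat_lit 234) (nat_lit 380) (nat_lit 0) (XT.nd (nat_lit 78) (nat_lit 228) (nat_lit 0) (XT.lf (nat_lit 0) (nat_lit 4279645921) (nat_lit 152) (nat_lit 7597827820) (nat_lit 228) (nat_lit 1183713531) (nat_lit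 18) (nat_lit 5) (nat_lit 20) (nat_lit 5) (nat_lit 21) (nat_lit 4) (nat_lit 213) (nat_lit 200) (nat_lit 187)) (XT.nd (nat_lit 78) (nat_lit 0) (nat_lit 0) (XT.lf (nat_lit 0) (nat_lit 2369391625) (nat_lit 152) (nat_lit 1235870809) (nat_lit 228) (nat_lit 10747969243) (nat_lit 15) (nat_lit 5) (nat_lit 17) (nat_lit 5) (nat_lit 18) (nat_lit 5) (nat_lit 214) (nat_lit 200) (nat_lit 186)) (XT.lf (nat_lit 0) (nat_lit 9192854766) (nat_lit 228) (nat_lit 686398043) (nat_lit 76) (nat_lit 5946160973) (nat_lit 15) (nat_lit 5) (nat_lit 18) (nat_lit 5) (nat_lit 16) (nat_lit 4) (nat_lit 215) (nat_lit 200) (nat_lit 185)))) (XT.nd (nat_lit 78) (nat_lit 304) (nat_lit 0) (XT.lf (nat_lit 0) (nat_lit 12545211874) (nat_lit 76) (nat_lit 3183030614) (nat_lit 152) (nat_lit 1782120735) (nat_lit 14) (nat_lit 5) (nat_lit 15) (nat_lit 5) (nat_lit 16) (nat_lit 4) (nat_lit 216) (nat_lit 200) (nat_lit 184)) (XT.nd (nat_lit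 78) (nat_lit 76) (nat_lit 0) (XT.lf (nat_lit 0) (nat_lit 3730582836) (nat_lit 228) (nat_lit 11207343354) (nat_lit 76) (nat_lit 4493432511) (nat_lit 11) (nat_lit 5) (nat_lit 14) (nat_lit 5) (nat_lit 12) (nat_lit 4) (nat_lit 217) (nat_lit 200) (nat_lit 183)) (XT.lf (nat_lit 0) (nat_lit 1686529447) (nat_lit 76) (nat_lit 8364879608) (nat_lit 152) (nat_lit 11578951129) (nat_lit 10) (nat_lit 5) (nat_lit 11) (nat_lit 5) (nat_lit 12) (nat_lit 4) (nat_lit 218) (nat_lit 200) (nat_lit 182))))))))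
noncomputable def xc24 : XT := (XT.nd (nat_lit 1560) (nat_lit 152) (nat_lit 0) (XT.nd (nat_lit 780) (nat_lit 76) (nat_lit 0) (XT.nd (nat_lit 390) (nat_lit 228) (nat_lit 0) (XT.nd (nat_lit 156) (nat_lit 152) (nat_lit 0) (XT.nd (nat_lit 78) (nat_lit 76) (nat_lit 0) (XT.lf (nat_lit 0) (nat_lit 16900205071) (nat_lit 76) (nat_lit 571426687) (nat_lit 152) (nat_lit 6675912134) (nat_lit 10) (nat_lit 5) (nat_lit 11) (nat_lit 5) (nat_lit 12) (nat_lit 4) (nat_lit 219) (nat_lit 200) (nat_lit 181)) (XT.lf (nat_lit 0) (nat_lit 7249644381) (nat_lit 76) (nat_lit 18976746993) (nat_lit 76) (nat_lit 798570721) (nat_lit 9) (nat_lit 4) (nat_lit 10) (nat_lit 5) (nat_lit 10) (nat_lit 4) (nat_lit 220) (nat_lit 200) (nat_lit 180))) (XT.nd (nat_lit 78) (nat_lit 76) (nat_lit 0) (XT.lf (nat_lit 0) (nat_lit 5750223933) (nat_lit 152) (nat_lit 6372011124) (nat_lit 76) (nat_lit 18193552808) (nat_lit 8) (nat_lit 5) (nat_lit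 10) (nat_lit 5) (nat_lit 9) (nat_lit 4) (nat_lit 221) (nat_lit 200) (nat_lit 179)) (XT.nd (nat_lit 78) (nat_lit 0) (nat_lit 0) (XT.lf (nat_lit 0) (nat_lit 9265536774) (nat_lit 76) (nat_lit 4067245988) (nat_lit 152) (nat_lit 20758161137) (nat_lit 7) (nat_lit 5) (nat_lit 8) (nat_lit 5) (nat_lit 9) (nat_lit 4) (nat_lit 222) (nat_lit 200) (nat_lit 178)) (XT.lf (nat_lit 0) (nat_lit 22252088873) (nat_lit 152) (nat_lit 11119258410) (nat_lit 0) (nat_lit 5045306633) (nat_lit 7) (nat_lit 5) (nat_lit 9) (nat_lit 4) (nat_lit 7) (nat_lit 4) (nat_lit 223) (nat_lit 200) (nat_lit 177))))) (XT.nd (nat_lit 156) (nat_lit 152) (nat_lit 0) (XT.nd (nat_lit 78) (nat_lit 0) (nat_lit 0) (XT.lf (nat_lit 0) (nat_lit 4579832743) (nat_lit 76) (nat_lit 28051281856) (nat_lit 76) (nat_lit 10750559642) (nat_lit 6) (nat_lit 4) (nat_lit 7) (nat_lit 5) (nat_lit 7) (nat_lit 4) (nat_lit 224) (nat_lit 200) (nat_lit 176)) (XT.lf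 (nat_lit 0) (nat_lit 23142745936) (nat_lit 76) (nat_lit 21656357856) (nat_lit 76) (nat_lit 4273948708) (nat_lit 6) (nat_lit 4) (nat_lit 7) (nat_lit 5) (nat_lit 7) (nat_lit 4) (nat_lit 225) (nat_lit 200) (nat_lit 175))) (XT.nd (nat_lit 78) (nat_lit 76) (nat_lit 0) (XT.lf (nat_lit 0) (nat_lit 2933491372) (nat_lit 152) (nat_lit 11351779209) (nat_lit 76) (nat_lit 41333449934) (nat_lit 5) (nat_lit 5) (nat_lit 7) (nat_lit 5) (nat_lit 6) (nat_lit 4) (nat_lit 226) (nat_lit 200) (nat_lit 174)) (XT.nd (nat_lit 78) (nat_lit 0) (nat_lit 0) (XT.lf (nat_lit 0) (nat_lit 5439239861) (nat_lit 76) (nat_lit 5596552534) (nat_lit 152) (nat_lit 52096342153) (nat_lit 4) (nat_lit 5) (nat_lit 5) (nat_lit 5) (nat_lit 6) (nat_lit 4) (nat_lit 227) (nat_lit 200) (nat_lit 173)) (XT.lf (nat_lit 0) (nat_lit 20732230596) (nat_lit 152) (nat_lit 46545419270) (nat_lit 0) (nat_lit 4464713182) (nat_lit 4) (nat_lit 5) (nat_lit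 6) (nat_lit 4) (nat_lit 4) (nat_lit 4) (nat_lit 228) (nat_lit 200) (nat_lit 172)))))) (XT.nd (nat_lit 390) (nat_lit 0) (nat_lit 0) (XT.nd (nat_lit 156) (nat_lit 76) (nat_lit 0) (XT.nd (nat_lit 78) (nat_lit 0) (nat_lit 0) (XT.lf (nat_lit 0) (nat_lit 31980531479) (nat_lit 152) (nat_lit 33986125611) (nat_lit 0) (nat_lit 15669768908) (nat_lit 4) (nat_lit 5) (nat_lit 6) (nat_lit 4) (nat_lit 4) (nat_lit 4) (nat_lit 229) (nat_lit 200) (nat_lit 171)) (XT.lf (nat_lit 0) (nat_lit 44866173274) (nat_lit 152) (nat_lit 19634691178) (nat_lit 0) (nat_lit 28517806218) (nat_lit 4) (nat_lit 5) (nat_lit 6) (nat_lit 4) (nat_lit 4) (nat_lit 4) (nat_lit 230) (nat_lit 200) (nat_lit 170))) (XT.nd (nat_lit 78) (nat_lit 76) (nat_lit 0) (XT.lf (nat_lit 0) (nat_lit 59641266363) (nat_lit 152) (nat_lit 3210327037) (nat_lit 0) (nat_lit 43260199756) (nat_lit 4) (nat_lit 5) (nat_lit 6) (nat_lit 4) (nat_lit 4) (nat_lit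 4) (nat_lit 231) (nat_lit 200) (nat_lit 169)) (XT.nd (nat_lit 78) (nat_lit 0) (nat_lit 0) (XT.lf (nat_lit 0) (nat_lit 16430219173) (nat_lit 76) (nat_lit 60559816647) (nat_lit 76) (nat_lit 44150315647) (nat_lit 3) (nat_lit 4) (nat_lit 4) (nat_lit 5) (nat_lit 4) (nat_lit 4) (nat_lit 232) (nat_lit 200) (nat_lit 168)) (XT.lf (nat_lit 0) (nat_lit 39147748869) (nat_lit 76) (nat_lit 57852496887) (nat_lit 76) (nat_lit 41418270328) (nat_lit 3) (nat_lit 4) (nat_lit 4) (nat_lit 5) (nat_lit 4) (nat_lit 4) (nat_lit 233) (nat_lit 200) (nat_lit 167))))) (XT.nd (nat_lit 156) (nat_lit 0) (nat_lit 0) (XT.nd (nat_lit 78) (nat_lit 0) (nat_lit 0) (XT.lf (nat_lit 0) (nat_lit 65217685324) (nat_lit 76) (nat_lit 54764440851) (nat_lit 76) (nat_lit 38308713806) (nat_lit 3) (nat_lit 4) (nat_lit 4) (nat_lit 5) (nat_lit 4) (nat_lit 4) (nat_lit 234) (nat_lit 200) (nat_lit 166)) (XT.lf (nat_lit 0) (nat_lit 95150092511)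 (nat_lit 76) (nat_lit 51235230051) (nat_lit 76) (nat_lit 34760806932) (nat_lit 3) (nat_lit 4) (nat_lit 4) (nat_lit 5) (nat_lit 4) (nat_lit 4) (nat_lit 235) (nat_lit 200) (nat_lit 165))) (XT.nd (nat_lit 78) (nat_lit 0) (nat_lit 0) (XT.lf (nat_lit 0) (nat_lit 129530604486) (nat_lit 76) (nat_lit 47195814712) (nat_lit 76) (nat_lit 30705134136) (nat_lit 3) (nat_lit 4) (nat_lit 4) (nat_lit 5) (nat_lit 4) (nat_lit 4) (nat_lit 236) (nat_lit 200) (nat_lit 164)) (XT.nd (nat_lit 78) (nat_lit 0) (nat_lit 0) (XT.lf (nat_lit 0) (nat_lit 169031883438) (nat_lit 76) (nat_lit 42567162792) (nat_lit 76) (nat_lit 26062345298) (nat_lit 3) (nat_lit 4) (nat_lit 4) (nat_lit 5) (nat_lit 4) (nat_lit 4) (nat_lit 237) (nat_lit 200) (nat_lit 163)) (XT.lf (nat_lit 0) (nat_lit 214426780477) (nat_lit 76) (nat_lit 37258713713) (nat_lit 76) (nat_lit 20741603246) (nat_lit 3) (nat_lit 4) (nat_lit 4) (nat_lit 5) (nat_lit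 4) (nat_lit 4) (nat_lit 238) (nat_lit 200) (nat_lit 162))))))) (XT.nd (nat_lit 780) (nat_lit 0) (nat_lit 0) (XT.nd (nat_lit 390) (nat_lit 0) (nat_lit 0) (XT.nd (nat_lit 156) (nat_lit 152) (nat_lit 0) (XT.nd (nat_lit 78) (nat_lit 0) (nat_lit 0) (XT.lf (nat_lit 0) (nat_lit 266603456633) (nat_lit 76) (nat_lit 31166606512) (nat_lit 76) (nat_lit 14638806504) (nat_lit 3) (nat_lit 4) (nat_lit 4) (nat_lit 5) (nat_lit 4) (nat_lit 4) (nat_lit 239) (nat_lit 200) (nat_lit 161)) (XT.lf (nat_lit 0) (nat_lit 326582759917) (nat_lit 76) (nat_lit 24171647789) (nat_lit 76) (nat_lit 7634552528) (nat_lit 3) (nat_lit 4) (nat_lit 4) (nat_lit 5) (nat_lit 4) (nat_lit 4) (nat_lit 240) (nat_lit 200) (nat_lit 160))) (XT.nd (nat_lit 78) (nat_lit 76) (nat_lit 0) (XT.lf (nat_lit 0) (nat_lit 387778695) (nat_lit 152) (nat_lit 15738598403) (nat_lit 76) (nat_lit 395139817185) (nat_lit 2) (nat_lit 5) (nat_lit 4) (nat_lit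 5) (nat_lit 3) (nat_lit 4) (nat_lit 241) (nat_lit 200) (nat_lit 159)) (XT.nd (nat_lit 78) (nat_lit 0) (nat_lit 0) (XT.lf (nat_lit 0) (nat_lit 2641536966) (nat_lit 76) (nat_lit 6586224381) (nat_lit 152) (nat_lit 462826093726) (nat_lit 1) (nat_lit 5) (nat_lit 2) (nat_lit 5) (nat_lit 3) (nat_lit 4) (nat_lit 242) (nat_lit 200) (nat_lit 158)) (XT.lf (nat_lit 0) (nat_lit 19959993283) (nat_lit 152) (nat_lit 517326166608) (nat_lit 0) (nat_lit 4628216970) (nat_lit 1) (nat_lit 5) (nat_lit 3) (nat_lit 4) (nat_lit 1) (nat_lit 4) (nat_lit 243) (nat_lit 200) (nat_lit 157))))) (XT.nd (nat_lit 156) (nat_lit 0) (nat_lit 0) (XT.nd (nat_lit 78) (nat_lit 0) (nat_lit 0) (XT.lf (nat_lit 0) (nat_lit 32476114104) (nat_lit 152) (nat_lit 572624532075) (nat_lit 0) (nat_lit 17139416873) (nat_lit 1) (nat_lit 5) (nat_lit 3) (nat_lit 4) (nat_lit 1) (nat_lit 4) (nat_lit 244) (nat_lit 200) (nat_lit 156)) (XT.lf (nat_lit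 0) (nat_lit 46862605579) (nat_lit 152) (nat_lit 636230940195) (nat_lit 0) (nat_lit 31521629290) (nat_lit 1) (nat_lit 5) (nat_lit 3) (nat_lit 4) (nat_lit 1) (nat_lit 4) (nat_lit 245) (nat_lit 200) (nat_lit 155))) (XT.nd (nat_lit 78) (nat_lit 0) (nat_lit 0) (XT.lf (nat_lit 0) (nat_lit 63400942543) (nat_lit 152) (nat_lit 709389864172) (nat_lit 0) (nat_lit 48056245333) (nat_lit 1) (nat_lit 5) (nat_lit 3) (nat_lit 4) (nat_lit 1) (nat_lit 4) (nat_lit 246) (nat_lit 200) (nat_lit 154)) (XT.nd (nat_lit 78) (nat_lit 0) (nat_lit 0) (XT.lf (nat_lit 0) (nat_lit 82414701154) (nat_lit 152) (nat_lit 793532674255) (nat_lit 0) (nat_lit 67066768360) (nat_lit 1) (nat_lit 5) (nat_lit 3) (nat_lit 4) (nat_lit 1) (nat_lit 4) (nat_lit 247) (nat_lit 200) (nat_lit 153)) (XT.lf (nat_lit 0) (nat_lit 104275889731) (nat_lit 152) (nat_lit 890305642817) (nat_lit 0) (nat_lit 88925143386) (nat_lit 1) (nat_lit 5) (nat_lit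 3) (nat_lit 4) (nat_lit 1) (nat_lit 4) (nat_lit 248) (nat_lit 200) (nat_lit 152)))))) (XT.nd (nat_lit 390) (nat_lit 0) (nat_lit 0) (XT.nd (nat_lit 156) (nat_lit 0) (nat_lit 0) (XT.nd (nat_lit 78) (nat_lit 0) (nat_lit 0) (XT.lf (nat_lit 0) (nat_lit 129412227182) (nat_lit 152) (nat_lit 1001602154026) (nat_lit 0) (nat_lit 114059034272) (nat_lit 1) (nat_lit 5) (nat_lit 3) (nat_lit 4) (nat_lit 1) (nat_lit 4) (nat_lit 249) (nat_lit 200) (nat_lit 151)) (XT.lf (nat_lit 0) (nat_lit 158315511414) (nat_lit 152) (nat_lit 1129599748317) (nat_lit 0) (nat_lit 142960191055) (nat_lit 1) (nat_lit 5) (nat_lit 3) (nat_lit 4) (nat_lit 1) (nat_lit 4) (nat_lit 250) (nat_lit 200) (nat_lit 150))) (XT.nd (nat_lit 78) (nat_lit 0) (nat_lit 0) (XT.lf (nat_lit 0) (nat_lit 191551241466) (nat_lit 152) (nat_lit 1276802726449) (nat_lit 0) (nat_lit 176194071152) (nat_lit 1) (nat_lit 5) (nat_lit 3) (nat_lit 4) (nat_lit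 1) (nat_lit 4) (nat_lit 251) (nat_lit 200) (nat_lit 149)) (XT.nd (nat_lit 78) (nat_lit 0) (nat_lit 0) (XT.lf (nat_lit 0) (nat_lit 229769681622) (nat_lit 152) (nat_lit 1446091146690) (nat_lit 0) (nat_lit 214410902650) (nat_lit 1) (nat_lit 5) (nat_lit 3) (nat_lit 4) (nat_lit 1) (nat_lit 4) (nat_lit 252) (nat_lit 200) (nat_lit 148)) (XT.lf (nat_lit 0) (nat_lit 273718583971) (nat_lit 152) (nat_lit 1640777173783) (nat_lit 0) (nat_lit 258358406167) (nat_lit 1) (nat_lit 5) (nat_lit 3) (nat_lit 4) (nat_lit 1) (nat_lit 4) (nat_lit 253) (nat_lit 200) (nat_lit 147))))) (XT.nd (nat_lit 156) (nat_lit 0) (nat_lit 0) (XT.nd (nat_lit 78) (nat_lit 0) (nat_lit 0) (XT.lf (nat_lit 0) (nat_lit 324257818342) (nat_lit 152) (nat_lit 1864669882172) (nat_lit 0) (nat_lit 308896424163) (nat_lit 1) (nat_lit 5) (nat_lit 3) (nat_lit 4) (nat_lit 1) (nat_lit 4) (nat_lit 254) (nat_lit 200) (nat_lit 146)) (XT.lf (nat_lit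 0) (nat_lit 382376195842) (nat_lit 152) (nat_lit 2122149781368) (nat_lit 0) (nat_lit 367013743945) (nat_lit 1) (nat_lit 5) (nat_lit 3) (nat_lit 4) (nat_lit 1) (nat_lit 4) (nat_lit 255) (nat_lit 200) (nat_lit 145))) (XT.nd (nat_lit 78) (nat_lit 0) (nat_lit 0) (XT.lf (nat_lit 0) (nat_lit 449210815162) (nat_lit 152) (nat_lit 2418254521573) (nat_lit 0) (nat_lit 433847443510) (nat_lit 1) (nat_lit 5) (nat_lit 3) (nat_lit 4) (nat_lit 1) (nat_lit 4) (nat_lit 256) (nat_lit 200) (nat_lit 144)) (XT.nd (nat_lit 78) (nat_lit 0) (nat_lit 0) (XT.lf (nat_lit 0) (nat_lit 526069310158) (nat_lit 152) (nat_lit 2758777456400) (nat_lit 0) (nat_lit 510705138719) (nat_lit 1) (nat_lit 5) (nat_lit 3) (nat_lit 4) (nat_lit 1) (nat_lit 4) (nat_lit 257) (nat_lit 200) (nat_lit 143)) (XT.lf (nat_lit 0) (nat_lit 614455433992) (nat_lit 152) (nat_lit 3150380991095) (nat_lit 0) (nat_lit 599090567087) (nat_lit 1) (nat_lit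 5) (nat_lit 3) (nat_lit 4) (nat_lit 1) (nat_lit 4) (nat_lit 258) (nat_lit 200) (nat_lit 142))))))))
noncomputable def xc25 : XT := (XT.nd (nat_lit 28080) (nat_lit 0) (nat_lit 152) (XT.nd (nat_lit 27300) (nat_lit 0) (nat_lit 912) (XT.nd (nat_lit 26910) (nat_lit 0) (nat_lit 2508) (XT.nd (nat_lit 156) (nat_lit 0) (nat_lit 0) (XT.nd (nat_lit 78) (nat_lit 0) (nat_lit 0) (XT.lf (nat_lit 0) (nat_lit 716098480393) (nat_lit 152) (nat_lit 3600726933947) (nat_lit 0) (nat_lit 700733008734) (nat_lit 1) (nat_lit 5) (nat_lit 3) (nat_lit 4) (nat_lit 1) (nat_lit 4) (nat_lit 259) (nat_lit 200) (nat_lit 141)) (XT.lf (nat_lit 0) (nat_lit 832987117659) (nat_lit 152) (nat_lit 4118626401228) (nat_lit 0) (nat_lit 817621120127) (nat_lit 1) (nat_lit 5) (nat_lit 3) (nat_lit 4) (nat_lit 1) (nat_lit 4) (nat_lit 260) (nat_lit 200) (nat_lit 140))) (XT.nd (nat_lit 26598) (nat_lit 0) (nat_lit 3952) (XT.lf (nat_lit 0)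 (nat_lit 967408297388) (nat_lit 152) (nat_lit 4714212208602) (nat_lit 0) (nat_lit 952041842576) (nat_lit 1) (nat_lit 5) (nat_lit 3) (nat_lit 4) (nat_lit 1) (nat_lit 4) (nat_lit 261) (nat_lit 200) (nat_lit 139)) (XT.nd (nat_lit 78) (nat_lit 228) (nat_lit 0) (XT.lf (nat_lit 0) (nat_lit 1474258142) (nat_lit 228) (nat_lit 897368330) (nat_lit 228) (nat_lit 897368330) (nat_lit 56) (nat_lit 3) (nat_lit 59) (nat_lit 3) (nat_lit 59) (nat_lit 5) (nat_lit 201) (nat_lit 201) (nat_lit 198)) (XT.lf (nat_lit 0) (nat_lit 499997890) (nat_lit 228) (nat_lit 2944911001) (nat_lit 304) (nat_lit 3226142062) (nat_lit 53) (nat_lit 5) (nat_lit 56) (nat_lit 3) (nat_lit 57) (nat_lit 5) (nat_lit 202) (nat_lit 201) (nat_lit 197))))) (XT.nd (nat_lit 156) (nat_lit 1216) (nat_lit 0) (XT.nd (nat_lit 78) (nat_lit 228) (nat_lit 0) (XT.lf (nat_lit 76) (nat_lit 2965500472) (nat_lit 0) (nat_lit 1420629271) (nat_lit 304) (nat_lit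 2484422472) (nat_lit 54) (nat_lit 5) (nat_lit 53) (nat_lit 5) (nat_lit 57) (nat_lit 5) (nat_lit 203) (nat_lit 201) (nat_lit 196)) (XT.lf (nat_lit 0) (nat_lit 1176475699) (nat_lit 304) (nat_lit 4696002905) (nat_lit 76) (nat_lit 1267907088) (nat_lit 50) (nat_lit 5) (nat_lit 54) (nat_lit 5) (nat_lit 51) (nat_lit 5) (nat_lit 204) (nat_lit 201) (nat_lit 195))) (XT.nd (nat_lit 78) (nat_lit 912) (nat_lit 0) (XT.lf (nat_lit 0) (nat_lit 2067552044) (nat_lit 304) (nat_lit 2793082555) (nat_lit 380) (nat_lit 2619120431) (nat_lit 46) (nat_lit 5) (nat_lit 50) (nat_lit 5) (nat_lit 51) (nat_lit 5) (nat_lit 205) (nat_lit 201) (nat_lit 194)) (XT.nd (nat_lit 78) (nat_lit 456) (nat_lit 0) (XT.lf (nat_lit 0) (nat_lit 837937692) (nat_lit 456) (nat_lit 6051175461) (nat_lit 76) (nat_lit 1007956846) (nat_lit 40) (nat_lit 5) (nat_lit 46) (nat_lit 5) (nat_lit 41) (nat_lit 5) (nat_lit 206) (nat_lit 201) (nat_lit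 193)) (XT.lf (nat_lit 0) (nat_lit 1621606444) (nat_lit 456) (nat_lit 2841926129) (nat_lit 532) (nat_lit 3926348356) (nat_lit 34) (nat_lit 5) (nat_lit 40) (nat_lit 5) (nat_lit 41) (nat_lit 5) (nat_lit 207) (nat_lit 201) (nat_lit 192)))))) (XT.nd (nat_lit 390) (nat_lit 684) (nat_lit 0) (XT.nd (nat_lit 156) (nat_lit 456) (nat_lit 0) (XT.nd (nat_lit 78) (nat_lit 228) (nat_lit 0) (XT.lf (nat_lit 0) (nat_lit 1433598667) (nat_lit 228) (nat_lit 7033063951) (nat_lit 304) (nat_lit 505642841) (nat_lit 31) (nat_lit 5) (nat_lit 34) (nat_lit 5) (nat_lit 35) (nat_lit 5) (nat_lit 208) (nat_lit 201) (nat_lit 191)) (XT.lf (nat_lit 0) (nat_lit 1095044915) (nat_lit 152) (nat_lit 2077125132) (nat_lit 228) (nat_lit 6472010836) (nat_lit 28) (nat_lit 5) (nat_lit 30) (nat_lit 5) (nat_lit 31) (nat_lit 5) (nat_lit 209) (nat_lit 201) (nat_lit 190))) (XT.nd (nat_lit 78) (nat_lit 228) (nat_lit 0) (XT.lf (nat_lit 0)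 (nat_lit 569026297) (nat_lit 228) (nat_lit 6777914089) (nat_lit 304) (nat_lit 3072500194) (nat_lit 25) (nat_lit 5) (nat_lit 28) (nat_lit 5) (nat_lit 29) (nat_lit 5) (nat_lit 210) (nat_lit 201) (nat_lit 189)) (XT.nd (nat_lit 78) (nat_lit 152) (nat_lit 0) (XT.lf (nat_lit 0) (nat_lit 783017601) (nat_lit 304) (nat_lit 217975281) (nat_lit 76) (nat_lit 10310696222) (nat_lit 24) (nat_lit 5) (nat_lit 28) (nat_lit 5) (nat_lit 25) (nat_lit 5) (nat_lit 211) (nat_lit 201) (nat_lit 188)) (XT.lf (nat_lit 0) (nat_lit 5164101409) (nat_lit 228) (nat_lit 1515118377) (nat_lit 76) (nat_lit 5643007919) (nat_lit 22) (nat_lit 5) (nat_lit 25) (nat_lit 5) (nat_lit 23) (nat_lit 5) (nat_lit 212) (nat_lit 201) (nat_lit 187))))) (XT.nd (nat_lit 156) (nat_lit 304) (nat_lit 0) (XT.nd (nat_lit 78) (nat_lit 228) (nat_lit 0) (XT.lf (nat_lit 0) (nat_lit 10144794798) (nat_lit 152) (nat_lit 80279418) (nat_lit 228) (nat_lit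 3258472493) (nat_lit 20) (nat_lit 5) (nat_lit 22) (nat_lit 5) (nat_lit 23) (nat_lit 5) (nat_lit 213) (nat_lit 201) (nat_lit 186)) (XT.lf (nat_lit 0) (nat_lit 1373466189) (nat_lit 228) (nat_lit 6090185713) (nat_lit 76) (nat_lit 7337178190) (nat_lit 17) (nat_lit 5) (nat_lit 20) (nat_lit 5) (nat_lit 18) (nat_lit 5) (nat_lit 214) (nat_lit 201) (nat_lit 185))) (XT.nd (nat_lit 78) (nat_lit 152) (nat_lit 0) (XT.lf (nat_lit 0) (nat_lit 6364112869) (nat_lit 152) (nat_lit 188282296) (nat_lit 228) (nat_lit 9753641517) (nat_lit 15) (nat_lit 5) (nat_lit 17) (nat_lit 5) (nat_lit 18) (nat_lit 5) (nat_lit 215) (nat_lit 201) (nat_lit 184)) (XT.nd (nat_lit 78) (nat_lit 76) (nat_lit 0) (XT.lf (nat_lit 0) (nat_lit 2656431458) (nat_lit 76) (nat_lit 10097496418) (nat_lit 152) (nat_lit 5264054836) (nat_lit 14) (nat_lit 5) (nat_lit 15) (nat_lit 5) (nat_lit 16) (nat_lit 4) (nat_lit 216) (nat_lit 201) (nat_lit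 183)) (XT.lf (nat_lit 0) (nat_lit 23225507) (nat_lit 152) (nat_lit 2519036192) (nat_lit 76) (nat_lit 17435616068) (nat_lit 13) (nat_lit 5) (nat_lit 15) (nat_lit 5) (nat_lit 14) (nat_lit 5) (nat_lit 217) (nat_lit 201) (nat_lit 182))))))) (XT.nd (nat_lit 780) (nat_lit 152) (nat_lit 0) (XT.nd (nat_lit 390) (nat_lit 228) (nat_lit 0) (XT.nd (nat_lit 156) (nat_lit 152) (nat_lit 0) (XT.nd (nat_lit 78) (nat_lit 76) (nat_lit 0) (XT.lf (nat_lit 0) (nat_lit 6098793416) (nat_lit 228) (nat_lit 9891804623) (nat_lit 76) (nat_lit 6206103645) (nat_lit 11) (nat_lit 5) (nat_lit 14) (nat_lit 5) (nat_lit 12) (nat_lit 4) (nat_lit 218) (nat_lit 201) (nat_lit 181)) (XT.lf (nat_lit 0) (nat_lit 4682498428) (nat_lit 76) (nat_lit 8515306738) (nat_lit 152) (nat_lit 11541952553) (nat_lit 10) (nat_lit 5) (nat_lit 11) (nat_lit 5) (nat_lit 12) (nat_lit 4) (nat_lit 219) (nat_lit 201) (nat_lit 180))) (XT.nd (nat_lit 78)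 (nat_lit 152) (nat_lit 0) (XT.lf (nat_lit 0) (nat_lit 21524609933) (nat_lit 152) (nat_lit 5838994090) (nat_lit 0) (nat_lit 287960855) (nat_lit 10) (nat_lit 5) (nat_lit 12) (nat_lit 4) (nat_lit 10) (nat_lit 4) (nat_lit 220) (nat_lit 201) (nat_lit 179)) (XT.nd (nat_lit 78) (nat_lit 0) (nat_lit 0) (XT.lf (nat_lit 0) (nat_lit 478375346) (nat_lit 152) (nat_lit 20375802821) (nat_lit 76) (nat_lit 10115388081) (nat_lit 8) (nat_lit 5) (nat_lit 10) (nat_lit 5) (nat_lit 9) (nat_lit 4) (nat_lit 221) (nat_lit 201) (nat_lit 178)) (XT.lf (nat_lit 0) (nat_lit 7787359065) (nat_lit 152) (nat_lit 5289790133) (nat_lit 76) (nat_lit 21689565908) (nat_lit 8) (nat_lit 5) (nat_lit 10) (nat_lit 5) (nat_lit 9) (nat_lit 4) (nat_lit 222) (nat_lit 201) (nat_lit 177))))) (XT.nd (nat_lit 156) (nat_lit 152) (nat_lit 0) (XT.nd (nat_lit 78) (nat_lit 0) (nat_lit 0) (XT.lf (nat_lit 0) (nat_lit 12520881482) (nat_lit 76) (nat_lit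 3878077000) (nat_lit 152) (nat_lit 22718176061) (nat_lit 7) (nat_lit 5) (nat_lit 8) (nat_lit 5) (nat_lit 9) (nat_lit 4) (nat_lit 223) (nat_lit 201) (nat_lit 176)) (XT.lf (nat_lit 0) (nat_lit 26533798230) (nat_lit 152) (nat_lit 11105631511) (nat_lit 0) (nat_lit 6462340775) (nat_lit 7) (nat_lit 5) (nat_lit 9) (nat_lit 4) (nat_lit 7) (nat_lit 4) (nat_lit 224) (nat_lit 201) (nat_lit 175))) (XT.nd (nat_lit 78) (nat_lit 76) (nat_lit 0) (XT.lf (nat_lit 0) (nat_lit 6805991389) (nat_lit 76) (nat_lit 31577586958) (nat_lit 76) (nat_lit 11435097388) (nat_lit 6) (nat_lit 4) (nat_lit 7) (nat_lit 5) (nat_lit 7) (nat_lit 4) (nat_lit 225) (nat_lit 201) (nat_lit 174)) (XT.nd (nat_lit 78) (nat_lit 76) (nat_lit 0) (XT.lf (nat_lit 0) (nat_lit 27952578465) (nat_lit 76) (nat_lit 24312300946) (nat_lit 76) (nat_lit 4108044318) (nat_lit 6) (nat_lit 4) (nat_lit 7) (nat_lit 5) (nat_lit 7) (nat_lit 4) (nat_lit 226)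 (nat_lit 201) (nat_lit 173)) (XT.lf (nat_lit 0) (nat_lit 4040147646) (nat_lit 152) (nat_lit 11854460008) (nat_lit 76) (nat_lit 48012451974) (nat_lit 5) (nat_lit 5) (nat_lit 7) (nat_lit 5) (nat_lit 6) (nat_lit 4) (nat_lit 227) (nat_lit 201) (nat_lit 172)))))) (XT.nd (nat_lit 390) (nat_lit 76) (nat_lit 0) (XT.nd (nat_lit 156) (nat_lit 0) (nat_lit 0) (XT.nd (nat_lit 78) (nat_lit 0) (nat_lit 0) (XT.lf (nat_lit 0) (nat_lit 7353630613) (nat_lit 76) (nat_lit 5943630202) (nat_lit 152) (nat_lit 59255216075) (nat_lit 4) (nat_lit 5) (nat_lit 5) (nat_lit 5) (nat_lit 6) (nat_lit 4) (nat_lit 228) (nat_lit 201) (nat_lit 171)) (XT.lf (nat_lit 0) (nat_lit 24379405983) (nat_lit 152) (nat_lit 52539284111) (nat_lit 0) (nat_lit 5541179385) (nat_lit 4) (nat_lit 5) (nat_lit 6) (nat_lit 4) (nat_lit 4) (nat_lit 4) (nat_lit 229) (nat_lit 201) (nat_lit 170))) (XT.nd (nat_lit 78) (nat_lit 0) (nat_lit 0) (XT.lf (nat_lit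 0) (nat_lit 37244864068) (nat_lit 152) (nat_lit 38224959193) (nat_lit 0) (nat_lit 18373937919) (nat_lit 4) (nat_lit 5) (nat_lit 6) (nat_lit 4) (nat_lit 4) (nat_lit 4) (nat_lit 230) (nat_lit 201) (nat_lit 169)) (XT.nd (nat_lit 78) (nat_lit 0) (nat_lit 0) (XT.lf (nat_lit 0) (nat_lit 52002406106) (nat_lit 152) (nat_lit 21832864194) (nat_lit 0) (nat_lit 33103045564) (nat_lit 4) (nat_lit 5) (nat_lit 6) (nat_lit 4) (nat_lit 4) (nat_lit 4) (nat_lit 231) (nat_lit 201) (nat_lit 168)) (XT.lf (nat_lit 0) (nat_lit 68940766614) (nat_lit 152) (nat_lit 3042284213) (nat_lit 0) (nat_lit 50016680513) (nat_lit 4) (nat_lit 5) (nat_lit 6) (nat_lit 4) (nat_lit 4) (nat_lit 4) (nat_lit 232) (nat_lit 201) (nat_lit 167))))) (XT.nd (nat_lit 234) (nat_lit 0) (nat_lit 0) (XT.nd (nat_lit 78) (nat_lit 0) (nat_lit 0) (XT.lf (nat_lit 0) (nat_lit 19489359212) (nat_lit 76) (nat_lit 69370708643) (nat_lit 76) (nat_lit 50425122056)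 (nat_lit 3) (nat_lit 4) (nat_lit 4) (nat_lit 5) (nat_lit 4) (nat_lit 4) (nat_lit 233) (nat_lit 201) (nat_lit 166)) (XT.nd (nat_lit 78) (nat_lit 0) (nat_lit 0) (XT.lf (nat_lit 0) (nat_lit 45536960906) (nat_lit 76) (nat_lit 66292910115) (nat_lit 76) (nat_lit 47328627453) (nat_lit 3) (nat_lit 4) (nat_lit 4) (nat_lit 5) (nat_lit 4) (nat_lit 4) (nat_lit 234) (nat_lit 201) (nat_lit 165)) (XT.lf (nat_lit 0) (nat_lit 75449946562) (nat_lit 76) (nat_lit 62772618888) (nat_lit 76) (nat_lit 43792078769) (nat_lit 3) (nat_lit 4) (nat_lit 4) (nat_lit 5) (nat_lit 4) (nat_lit 4) (nat_lit 235) (nat_lit 201) (nat_lit 164)))) (XT.nd (nat_lit 78) (nat_lit 0) (nat_lit 0) (XT.lf (nat_lit 0) (nat_lit 109813570249) (nat_lit 76) (nat_lit 58740959697) (nat_lit 76) (nat_lit 39746282661) (nat_lit 3) (nat_lit 4) (nat_lit 4) (nat_lit 5) (nat_lit 4) (nat_lit 4) (nat_lit 236) (nat_lit 201) (nat_lit 163)) (XT.nd (nat_lit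 78) (nat_lit 0) (nat_lit 0) (XT.lf (nat_lit 0) (nat_lit 149300163733) (nat_lit 76) (nat_lit 54119052256) (nat_lit 76) (nat_lit 35112082247) (nat_lit 3) (nat_lit 4) (nat_lit 4) (nat_lit 5) (nat_lit 4) (nat_lit 4) (nat_lit 237) (nat_lit 201) (nat_lit 162)) (XT.lf (nat_lit 0) (nat_lit 194682290801) (nat_lit 76) (nat_lit 48816467940) (nat_lit 76) (nat_lit 29798808389) (nat_lit 3) (nat_lit 4) (nat_lit 4) (nat_lit 5) (nat_lit 4) (nat_lit 4) (nat_lit 238) (nat_lit 201) (nat_lit 161))))))))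
noncomputable def xc26 : XT := (XT.nd (nat_lit 1560) (nat_lit 0) (nat_lit 0) (XT.nd (nat_lit 780) (nat_lit 0) (nat_lit 0) (XT.nd (nat_lit 390) (nat_lit 0) (nat_lit 0) (XT.nd (nat_lit 156) (nat_lit 152) (nat_lit 0) (XT.nd (nat_lit 78) (nat_lit 0) (nat_lit 0) (XT.lf (nat_lit 0) (nat_lit 246847862633) (nat_lit 76) (nat_lit 42729460533) (nat_lit 76) (nat_lit 23702505729) (nat_lit 3) (nat_lit 4) (nat_lit 4) (nat_lit 5) (nat_lit 4) (nat_lit 4) (nat_lit 239) (nat_lit 201) (nat_lit 160)) (XT.lf (nat_lit 0) (nat_lit 306817509984) (nat_lit 76) (nat_lit 35738936414) (nat_lit 76) (nat_lit 16703898781) (nat_lit 3) (nat_lit 4) (nat_lit 4) (nat_lit 5) (nat_lit 4) (nat_lit 4) (nat_lit 240) (nat_lit 201) (nat_lit 159))) (XT.nd (nat_lit 78) (nat_lit 152) (nat_lit 0) (XT.lf (nat_lit 0) (nat_lit 375764552040) (nat_lit 76) (nat_lit 27708124458) (nat_lit 76) (nat_lit 8666058277) (nat_lit 3) (nat_lit 4) (nat_lit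 4) (nat_lit 5) (nat_lit 4) (nat_lit 4) (nat_lit 241) (nat_lit 201) (nat_lit 158)) (XT.nd (nat_lit 78) (nat_lit 76) (nat_lit 0) (XT.lf (nat_lit 0) (nat_lit 539850316) (nat_lit 152) (nat_lit 17925289302) (nat_lit 76) (nat_lit 454483341888) (nat_lit 2) (nat_lit 5) (nat_lit 4) (nat_lit 5) (nat_lit 3) (nat_lit 4) (nat_lit 242) (nat_lit 201) (nat_lit 157)) (XT.lf (nat_lit 0) (nat_lit 3197129772) (nat_lit 76) (nat_lit 7500284806) (nat_lit 152) (nat_lit 532157566995) (nat_lit 1) (nat_lit 5) (nat_lit 2) (nat_lit 5) (nat_lit 3) (nat_lit 4) (nat_lit 243) (nat_lit 201) (nat_lit 156))))) (XT.nd (nat_lit 156) (nat_lit 0) (nat_lit 0) (XT.nd (nat_lit 78) (nat_lit 0) (nat_lit 0) (XT.lf (nat_lit 0) (nat_lit 23029875477) (nat_lit 152) (nat_lit 594782015626) (nat_lit 0) (nat_lit 5383473685) (nat_lit 1) (nat_lit 5) (nat_lit 3) (nat_lit 4) (nat_lit 1) (nat_lit 4) (nat_lit 244) (nat_lit 201) (nat_lit 155))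 (XT.lf (nat_lit 0) (nat_lit 37413516612) (nat_lit 152) (nat_lit 658393797997) (nat_lit 0) (nat_lit 19763393899) (nat_lit 1) (nat_lit 5) (nat_lit 3) (nat_lit 4) (nat_lit 1) (nat_lit 4) (nat_lit 245) (nat_lit 201) (nat_lit 154))) (XT.nd (nat_lit 78) (nat_lit 0) (nat_lit 0) (XT.lf (nat_lit 0) (nat_lit 53949375018) (nat_lit 152) (nat_lit 731557395234) (nat_lit 0) (nat_lit 36296016722) (nat_lit 1) (nat_lit 5) (nat_lit 3) (nat_lit 4) (nat_lit 1) (nat_lit 4) (nat_lit 246) (nat_lit 201) (nat_lit 153)) (XT.nd (nat_lit 78) (nat_lit 0) (nat_lit 0) (XT.lf (nat_lit 0) (nat_lit 72960978362) (nat_lit 152) (nat_lit 815704269022) (nat_lit 0) (nat_lit 55304806514) (nat_lit 1) (nat_lit 5) (nat_lit 3) (nat_lit 4) (nat_lit 1) (nat_lit 4) (nat_lit 247) (nat_lit 201) (nat_lit 152)) (XT.lf (nat_lit 0) (nat_lit 94820292794) (nat_lit 152) (nat_lit 912480771241) (nat_lit 0) (nat_lit 77161674381) (nat_lit 1) (nat_lit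 5) (nat_lit 3) (nat_lit 4) (nat_lit 1) (nat_lit 4) (nat_lit 248) (nat_lit 201) (nat_lit 151)))))) (XT.nd (nat_lit 390) (nat_lit 0) (nat_lit 0) (XT.nd (nat_lit 156) (nat_lit 0) (nat_lit 0) (XT.nd (nat_lit 78) (nat_lit 0) (nat_lit 0) (XT.lf (nat_lit 0) (nat_lit 119955000553) (nat_lit 152) (nat_lit 1023780355195) (nat_lit 0) (nat_lit 102294254692) (nat_lit 1) (nat_lit 5) (nat_lit 3) (nat_lit 4) (nat_lit 1) (nat_lit 4) (nat_lit 249) (nat_lit 201) (nat_lit 150)) (XT.lf (nat_lit 0) (nat_lit 148856867662) (nat_lit 152) (nat_lit 1151780621438) (nat_lit 0) (nat_lit 131194271845) (nat_lit 1) (nat_lit 5) (nat_lit 3) (nat_lit 4) (nat_lit 1) (nat_lit 4) (nat_lit 250) (nat_lit 201) (nat_lit 149))) (XT.nd (nat_lit 78) (nat_lit 0) (nat_lit 0) (XT.lf (nat_lit 0) (nat_lit 182091365433) (nat_lit 152) (nat_lit 1298985923007) (nat_lit 0) (nat_lit 164427160959) (nat_lit 1) (nat_lit 5) (nat_lit 3) (nat_lit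 4) (nat_lit 1) (nat_lit 4) (nat_lit 251) (nat_lit 201) (nat_lit 148)) (XT.nd (nat_lit 78) (nat_lit 0) (nat_lit 0) (XT.lf (nat_lit 0) (nat_lit 220308734039) (nat_lit 152) (nat_lit 1468276363627) (nat_lit 0) (nat_lit 202643130734) (nat_lit 1) (nat_lit 5) (nat_lit 3) (nat_lit 4) (nat_lit 1) (nat_lit 4) (nat_lit 252) (nat_lit 201) (nat_lit 147)) (XT.lf (nat_lit 0) (nat_lit 264256704607) (nat_lit 152) (nat_lit 1662964147572) (nat_lit 0) (nat_lit 246589884925) (nat_lit 1) (nat_lit 5) (nat_lit 3) (nat_lit 4) (nat_lit 1) (nat_lit 4) (nat_lit 253) (nat_lit 201) (nat_lit 146))))) (XT.nd (nat_lit 156) (nat_lit 0) (nat_lit 0) (XT.nd (nat_lit 78) (nat_lit 0) (nat_lit 0) (XT.lf (nat_lit 0) (nat_lit 314795128733) (nat_lit 152) (nat_lit 1886858383658) (nat_lit 0) (nat_lit 297127251334) (nat_lit 1) (nat_lit 5) (nat_lit 3) (nat_lit 4) (nat_lit 1) (nat_lit 4) (nat_lit 254) (nat_lit 201) (nat_lit 145)) (XT.lf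 (nat_lit 0) (nat_lit 372912801673) (nat_lit 152) (nat_lit 2144339611287) (nat_lit 0) (nat_lit 355244004519) (nat_lit 1) (nat_lit 5) (nat_lit 3) (nat_lit 4) (nat_lit 1) (nat_lit 4) (nat_lit 255) (nat_lit 201) (nat_lit 144))) (XT.nd (nat_lit 78) (nat_lit 0) (nat_lit 0) (XT.lf (nat_lit 0) (nat_lit 439746808331) (nat_lit 152) (nat_lit 2440445506650) (nat_lit 0) (nat_lit 422077211391) (nat_lit 1) (nat_lit 5) (nat_lit 3) (nat_lit 4) (nat_lit 1) (nat_lit 4) (nat_lit 256) (nat_lit 201) (nat_lit 143)) (XT.nd (nat_lit 78) (nat_lit 0) (nat_lit 0) (XT.lf (nat_lit 0) (nat_lit 516604770578) (nat_lit 152) (nat_lit 2780969445963) (nat_lit 0) (nat_lit 498934478171) (nat_lit 1) (nat_lit 5) (nat_lit 3) (nat_lit 4) (nat_lit 1) (nat_lit 4) (nat_lit 257) (nat_lit 201) (nat_lit 142)) (XT.lf (nat_lit 0) (nat_lit 604990431152) (nat_lit 152) (nat_lit 3172573854125) (nat_lit 0) (nat_lit 587319533991) (nat_lit 1)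 (nat_lit 5) (nat_lit 3) (nat_lit 4) (nat_lit 1) (nat_lit 4) (nat_lit 258) (nat_lit 201) (nat_lit 141))))))) (XT.nd (nat_lit 27378) (nat_lit 0) (nat_lit 912) (XT.nd (nat_lit 26988) (nat_lit 0) (nat_lit 2508) (XT.nd (nat_lit 156) (nat_lit 0) (nat_lit 0) (XT.nd (nat_lit 78) (nat_lit 0) (nat_lit 0) (XT.lf (nat_lit 0) (nat_lit 706633074718) (nat_lit 152) (nat_lit 3622920556512) (nat_lit 0) (nat_lit 688961651684) (nat_lit 1) (nat_lit 5) (nat_lit 3) (nat_lit 4) (nat_lit 1) (nat_lit 4) (nat_lit 259) (nat_lit 201) (nat_lit 140)) (XT.lf (nat_lit 0) (nat_lit 823521361693) (nat_lit 152) (nat_lit 4140820684258) (nat_lit 0) (nat_lit 805849481378) (nat_lit 1) (nat_lit 5) (nat_lit 3) (nat_lit 4) (nat_lit 1) (nat_lit 4) (nat_lit 260) (nat_lit 201) (nat_lit 139))) (XT.nd (nat_lit 26676) (nat_lit 0) (nat_lit 3648) (XT.lf (nat_lit 0) (nat_lit 957942236821) (nat_lit 152) (nat_lit 4736407065950) (nat_lit 0)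 (nat_lit 940269958872) (nat_lit 1) (nat_lit 5) (nat_lit 3) (nat_lit 4) (nat_lit 1) (nat_lit 4) (nat_lit 261) (nat_lit 201) (nat_lit 138)) (XT.nd (nat_lit 78) (nat_lit 304) (nat_lit 0) (XT.lf (nat_lit 0) (nat_lit 997283504) (nat_lit 0) (nat_lit 997283504) (nat_lit 228) (nat_lit 1422169744) (nat_lit 53) (nat_lit 5) (nat_lit 53) (nat_lit 3) (nat_lit 56) (nat_lit 3) (nat_lit 202) (nat_lit 202) (nat_lit 196)) (XT.lf (nat_lit 0) (nat_lit 391080751) (nat_lit 304) (nat_lit 6244553065) (nat_lit 380) (nat_lit 430544129) (nat_lit 49) (nat_lit 5) (nat_lit 53) (nat_lit 5) (nat_lit 54) (nat_lit 5) (nat_lit 203) (nat_lit 202) (nat_lit 195))))) (XT.nd (nat_lit 156) (nat_lit 1140) (nat_lit 0) (XT.nd (nat_lit 78) (nat_lit 0) (nat_lit 0) (XT.lf (nat_lit 0) (nat_lit 3564750572) (nat_lit 304) (nat_lit 225492999) (nat_lit 380) (nat_lit 3571847709) (nat_lit 49) (nat_lit 5) (nat_lit 53) (nat_lit 5) (nat_lit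 54) (nat_lit 5) (nat_lit 204) (nat_lit 202) (nat_lit 194)) (XT.lf (nat_lit 76) (nat_lit 6692288993) (nat_lit 0) (nat_lit 176054343) (nat_lit 380) (nat_lit 865148741) (nat_lit 50) (nat_lit 5) (nat_lit 49) (nat_lit 5) (nat_lit 54) (nat_lit 5) (nat_lit 205) (nat_lit 202) (nat_lit 193))) (XT.nd (nat_lit 78) (nat_lit 836) (nat_lit 0) (XT.lf (nat_lit 0) (nat_lit 2184359969) (nat_lit 380) (nat_lit 1862242239) (nat_lit 76) (nat_lit 4127691990) (nat_lit 45) (nat_lit 5) (nat_lit 50) (nat_lit 5) (nat_lit 46) (nat_lit 5) (nat_lit 206) (nat_lit 202) (nat_lit 192)) (XT.nd (nat_lit 78) (nat_lit 456) (nat_lit 0) (XT.lf (nat_lit 0) (nat_lit 5432235962) (nat_lit 456) (nat_lit 2634940453) (nat_lit 76) (nat_lit 631256753) (nat_lit 40) (nat_lit 5) (nat_lit 46) (nat_lit 5) (nat_lit 41) (nat_lit 5) (nat_lit 207) (nat_lit 202) (nat_lit 191)) (XT.lf (nat_lit 0) (nat_lit 5822761180) (nat_lit 456) (nat_lit 3291234954)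 (nat_lit 532) (nat_lit 193536831) (nat_lit 34) (nat_lit 5) (nat_lit 40) (nat_lit 5) (nat_lit 41) (nat_lit 5) (nat_lit 208) (nat_lit 202) (nat_lit 190)))))) (XT.nd (nat_lit 390) (nat_lit 532) (nat_lit 0) (XT.nd (nat_lit 156) (nat_lit 608) (nat_lit 0) (XT.nd (nat_lit 78) (nat_lit 152) (nat_lit 0) (XT.lf (nat_lit 0) (nat_lit 3114271968) (nat_lit 304) (nat_lit 4509064581) (nat_lit 76) (nat_lit 2384600167) (nat_lit 30) (nat_lit 5) (nat_lit 34) (nat_lit 5) (nat_lit 31) (nat_lit 5) (nat_lit 209) (nat_lit 202) (nat_lit 189)) (XT.lf (nat_lit 0) (nat_lit 5054787577) (nat_lit 152) (nat_lit 1872900626) (nat_lit 228) (nat_lit 3885092641) (nat_lit 28) (nat_lit 5) (nat_lit 30) (nat_lit 5) (nat_lit 31) (nat_lit 5) (nat_lit 210) (nat_lit 202) (nat_lit 188))) (XT.nd (nat_lit 78) (nat_lit 380) (nat_lit 0) (XT.lf (nat_lit 0) (nat_lit 4371735912) (nat_lit 228) (nat_lit 7029341494) (nat_lit 304) (nat_lit 331501358)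 (nat_lit 25) (nat_lit 5) (nat_lit 28) (nat_lit 5) (nat_lit 29) (nat_lit 5) (nat_lit 211) (nat_lit 202) (nat_lit 187)) (XT.nd (nat_lit 78) (nat_lit 152) (nat_lit 0) (XT.lf (nat_lit 0) (nat_lit 3296976939) (nat_lit 152) (nat_lit 327744952) (nat_lit 228) (nat_lit 9154822133) (nat_lit 22) (nat_lit 5) (nat_lit 24) (nat_lit 5) (nat_lit 25) (nat_lit 5) (nat_lit 212) (nat_lit 202) (nat_lit 186)) (XT.lf (nat_lit 0) (nat_lit 1617013903) (nat_lit 152) (nat_lit 6752387866) (nat_lit 228) (nat_lit 5597176311) (nat_lit 20) (nat_lit 5) (nat_lit 22) (nat_lit 5) (nat_lit 23) (nat_lit 5) (nat_lit 213) (nat_lit 202) (nat_lit 185))))) (XT.nd (nat_lit 156) (nat_lit 304) (nat_lit 0) (XT.nd (nat_lit 78) (nat_lit 228) (nat_lit 0) (XT.lf (nat_lit 0) (nat_lit 13929030277) (nat_lit 228) (nat_lit 676316271) (nat_lit 76) (nat_lit 718830513) (nat_lit 20) (nat_lit 5) (nat_lit 23) (nat_lit 5) (nat_lit 21) (nat_lit 4)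 (nat_lit 214) (nat_lit 202) (nat_lit 184)) (XT.lf (nat_lit 0) (nat_lit 3595849433) (nat_lit 228) (nat_lit 3997401092) (nat_lit 76) (nat_lit 9259723470) (nat_lit 17) (nat_lit 5) (nat_lit 20) (nat_lit 5) (nat_lit 18) (nat_lit 5) (nat_lit 215) (nat_lit 202) (nat_lit 183))) (XT.nd (nat_lit 78) (nat_lit 152) (nat_lit 0) (XT.lf (nat_lit 0) (nat_lit 9372010196) (nat_lit 228) (nat_lit 8547219095) (nat_lit 76) (nat_lit 679971089) (nat_lit 15) (nat_lit 5) (nat_lit 18) (nat_lit 5) (nat_lit 16) (nat_lit 4) (nat_lit 216) (nat_lit 202) (nat_lit 182)) (XT.nd (nat_lit 78) (nat_lit 76) (nat_lit 0) (XT.lf (nat_lit 0) (nat_lit 5691837869) (nat_lit 76) (nat_lit 10640304811) (nat_lit 152) (nat_lit 4250282742) (nat_lit 14) (nat_lit 5) (nat_lit 15) (nat_lit 5) (nat_lit 16) (nat_lit 4) (nat_lit 217) (nat_lit 202) (nat_lit 181)) (XT.lf (nat_lit 0) (nat_lit 1516420578) (nat_lit 152) (nat_lit 521391578) (nat_lit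 76) (nat_lit 20813508663) (nat_lit 13) (nat_lit 5) (nat_lit 15) (nat_lit 5) (nat_lit 14) (nat_lit 5) (nat_lit 218) (nat_lit 202) (nat_lit 180))))))))
noncomputable def xc27 : XT := (XT.nd (nat_lit 1560) (nat_lit 152) (nat_lit 0) (XT.nd (nat_lit 780) (nat_lit 152) (nat_lit 0) (XT.nd (nat_lit 390) (nat_lit 228) (nat_lit 0) (XT.nd (nat_lit 156) (nat_lit 152) (nat_lit 0) (XT.nd (nat_lit 78) (nat_lit 76) (nat_lit 0) (XT.lf (nat_lit 0) (nat_lit 8381191374) (nat_lit 228) (nat_lit 9109684779) (nat_lit 76) (nat_lit 7922392544) (nat_lit 11) (nat_lit 5) (nat_lit 14) (nat_lit 5) (nat_lit 12) (nat_lit 4) (nat_lit 219) (nat_lit 202) (nat_lit 179)) (XT.lf (nat_lit 0) (nat_lit 7458967381) (nat_lit 76) (nat_lit 8957589658) (nat_lit 152) (nat_lit 11931966612) (nat_lit 10) (nat_lit 5) (nat_lit 11) (nat_lit 5) (nat_lit 12) (nat_lit 4) (nat_lit 220) (nat_lit 202) (nat_lit 178))) (XT.nd (nat_lit 78) (nat_lit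 152) (nat_lit 0) (XT.lf (nat_lit 0) (nat_lit 25848225930) (nat_lit 152) (nat_lit 4839878134) (nat_lit 0) (nat_lit 1020930943) (nat_lit 10) (nat_lit 5) (nat_lit 12) (nat_lit 4) (nat_lit 10) (nat_lit 4) (nat_lit 221) (nat_lit 202) (nat_lit 177)) (XT.nd (nat_lit 78) (nat_lit 0) (nat_lit 0) (XT.lf (nat_lit 0) (nat_lit 1571524293) (nat_lit 152) (nat_lit 21659979627) (nat_lit 76) (nat_lit 12299635578) (nat_lit 8) (nat_lit 5) (nat_lit 10) (nat_lit 5) (nat_lit 9) (nat_lit 4) (nat_lit 222) (nat_lit 202) (nat_lit 176)) (XT.lf (nat_lit 0) (nat_lit 9843630442) (nat_lit 152) (nat_lit 4542220725) (nat_lit 76) (nat_lit 25522947998) (nat_lit 8) (nat_lit 5) (nat_lit 10) (nat_lit 5) (nat_lit 9) (nat_lit 4) (nat_lit 223) (nat_lit 202) (nat_lit 175))))) (XT.nd (nat_lit 156) (nat_lit 152) (nat_lit 0) (XT.nd (nat_lit 78) (nat_lit 0) (nat_lit 0) (XT.lf (nat_lit 0) (nat_lit 15809610448) (nat_lit 76) (nat_lit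 3855436273) (nat_lit 152) (nat_lit 25253532530) (nat_lit 7) (nat_lit 5) (nat_lit 8) (nat_lit 5) (nat_lit 9) (nat_lit 4) (nat_lit 224) (nat_lit 202) (nat_lit 174)) (XT.lf (nat_lit 0) (nat_lit 31227588966) (nat_lit 152) (nat_lit 11500008820) (nat_lit 0) (nat_lit 7930926786) (nat_lit 7) (nat_lit 5) (nat_lit 9) (nat_lit 4) (nat_lit 7) (nat_lit 4) (nat_lit 225) (nat_lit 202) (nat_lit 173))) (XT.nd (nat_lit 78) (nat_lit 76) (nat_lit 0) (XT.lf (nat_lit 0) (nat_lit 8990734131) (nat_lit 76) (nat_lit 35798998404) (nat_lit 76) (nat_lit 12448625739) (nat_lit 6) (nat_lit 4) (nat_lit 7) (nat_lit 5) (nat_lit 7) (nat_lit 4) (nat_lit 226) (nat_lit 202) (nat_lit 172)) (XT.nd (nat_lit 78) (nat_lit 76) (nat_lit 0) (XT.lf (nat_lit 0) (nat_lit 33157503525) (nat_lit 76) (nat_lit 27511122960) (nat_lit 76) (nat_lit 4114045525) (nat_lit 6) (nat_lit 4) (nat_lit 7) (nat_lit 5) (nat_lit 7) (nat_lit 4) (nat_lit 227)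 (nat_lit 202) (nat_lit 171)) (XT.lf (nat_lit 0) (nat_lit 5150239787) (nat_lit 152) (nat_lit 12725191519) (nat_lit 76) (nat_lit 55576500905) (nat_lit 5) (nat_lit 5) (nat_lit 7) (nat_lit 5) (nat_lit 6) (nat_lit 4) (nat_lit 228) (nat_lit 202) (nat_lit 170)))))) (XT.nd (nat_lit 390) (nat_lit 76) (nat_lit 0) (XT.nd (nat_lit 156) (nat_lit 0) (nat_lit 0) (XT.nd (nat_lit 78) (nat_lit 0) (nat_lit 0) (XT.lf (nat_lit 0) (nat_lit 9287302632) (nat_lit 76) (nat_lit 6462845649) (nat_lit 152) (nat_lit 67647787786) (nat_lit 4) (nat_lit 5) (nat_lit 5) (nat_lit 5) (nat_lit 6) (nat_lit 4) (nat_lit 229) (nat_lit 202) (nat_lit 169)) (XT.lf (nat_lit 0) (nat_lit 28442623722) (nat_lit 152) (nat_lit 59673146067) (nat_lit 0) (nat_lit 6679924705) (nat_lit 4) (nat_lit 5) (nat_lit 6) (nat_lit 4) (nat_lit 4) (nat_lit 4) (nat_lit 230) (nat_lit 202) (nat_lit 168))) (XT.nd (nat_lit 78) (nat_lit 0) (nat_lit 0) (XT.lf (nat_lit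 0) (nat_lit 43184903975) (nat_lit 152) (nat_lit 43309111192) (nat_lit 0) (nat_lit 21397479400) (nat_lit 4) (nat_lit 5) (nat_lit 6) (nat_lit 4) (nat_lit 4) (nat_lit 4) (nat_lit 231) (nat_lit 202) (nat_lit 167)) (XT.nd (nat_lit 78) (nat_lit 0) (nat_lit 0) (XT.lf (nat_lit 0) (nat_lit 60109993367) (nat_lit 152) (nat_lit 24542931320) (nat_lit 0) (nat_lit 38301068306) (nat_lit 4) (nat_lit 5) (nat_lit 6) (nat_lit 4) (nat_lit 4) (nat_lit 4) (nat_lit 232) (nat_lit 202) (nat_lit 166)) (XT.lf (nat_lit 0) (nat_lit 79549034950) (nat_lit 152) (nat_lit 3007442059) (nat_lit 0) (nat_lit 57721413813) (nat_lit 4) (nat_lit 5) (nat_lit 6) (nat_lit 4) (nat_lit 4) (nat_lit 4) (nat_lit 233) (nat_lit 202) (nat_lit 165))))) (XT.nd (nat_lit 156) (nat_lit 0) (nat_lit 0) (XT.nd (nat_lit 78) (nat_lit 0) (nat_lit 0) (XT.lf (nat_lit 0) (nat_lit 22862371534) (nat_lit 76) (nat_lit 79569826849) (nat_lit 76) (nat_lit 57725948256)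 (nat_lit 3) (nat_lit 4) (nat_lit 4) (nat_lit 5) (nat_lit 4) (nat_lit 4) (nat_lit 234) (nat_lit 202) (nat_lit 164)) (XT.lf (nat_lit 0) (nat_lit 52758468903) (nat_lit 76) (nat_lit 76057291771) (nat_lit 76) (nat_lit 54199276260) (nat_lit 3) (nat_lit 4) (nat_lit 4) (nat_lit 5) (nat_lit 4) (nat_lit 4) (nat_lit 235) (nat_lit 202) (nat_lit 163))) (XT.nd (nat_lit 78) (nat_lit 0) (nat_lit 0) (XT.lf (nat_lit 0) (nat_lit 87107407122) (nat_lit 76) (nat_lit 72032377058) (nat_lit 76) (nat_lit 50162068575) (nat_lit 3) (nat_lit 4) (nat_lit 4) (nat_lit 5) (nat_lit 4) (nat_lit 4) (nat_lit 236) (nat_lit 202) (nat_lit 162)) (XT.nd (nat_lit 78) (nat_lit 0) (nat_lit 0) (XT.lf (nat_lit 0) (nat_lit 126581230634) (nat_lit 76) (nat_lit 67416334380) (nat_lit 76) (nat_lit 45535336355) (nat_lit 3) (nat_lit 4) (nat_lit 4) (nat_lit 5) (nat_lit 4) (nat_lit 4) (nat_lit 237) (nat_lit 202) (nat_lit 161)) (XT.lf (nat_lit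 0) (nat_lit 171952253378) (nat_lit 76) (nat_lit 62118849858) (nat_lit 76) (nat_lit 40228556580) (nat_lit 3) (nat_lit 4) (nat_lit 4) (nat_lit 5) (nat_lit 4) (nat_lit 4) (nat_lit 238) (nat_lit 202) (nat_lit 160))))))) (XT.nd (nat_lit 780) (nat_lit 0) (nat_lit 0) (XT.nd (nat_lit 390) (nat_lit 76) (nat_lit 0) (XT.nd (nat_lit 156) (nat_lit 76) (nat_lit 0) (XT.nd (nat_lit 78) (nat_lit 0) (nat_lit 0) (XT.lf (nat_lit 0) (nat_lit 224108169277) (nat_lit 76) (nat_lit 56036277056) (nat_lit 76) (nat_lit 34137900948) (nat_lit 3) (nat_lit 4) (nat_lit 4) (nat_lit 5) (nat_lit 4) (nat_lit 4) (nat_lit 239) (nat_lit 202) (nat_lit 159)) (XT.lf (nat_lit 0) (nat_lit 284069420164) (nat_lit 76) (nat_lit 49049609113) (nat_lit 76) (nat_lit 27144204459) (nat_lit 3) (nat_lit 4) (nat_lit 4) (nat_lit 5) (nat_lit 4) (nat_lit 4) (nat_lit 240) (nat_lit 202) (nat_lit 158))) (XT.nd (nat_lit 78) (nat_lit 76) (nat_lit 0)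 (XT.lf (nat_lit 0) (nat_lit 353009160948) (nat_lit 76) (nat_lit 41022150354) (nat_lit 76) (nat_lit 19110633920) (nat_lit 3) (nat_lit 4) (nat_lit 4) (nat_lit 5) (nat_lit 4) (nat_lit 4) (nat_lit 241) (nat_lit 202) (nat_lit 157)) (XT.nd (nat_lit 78) (nat_lit 76) (nat_lit 0) (XT.lf (nat_lit 0) (nat_lit 432276212643) (nat_lit 76) (nat_lit 31796841803) (nat_lit 76) (nat_lit 9880010777) (nat_lit 3) (nat_lit 4) (nat_lit 4) (nat_lit 5) (nat_lit 4) (nat_lit 4) (nat_lit 242) (nat_lit 202) (nat_lit 156)) (XT.lf (nat_lit 0) (nat_lit 691833396) (nat_lit 152) (nat_lit 20482438944) (nat_lit 76) (nat_lit 522710703001) (nat_lit 2) (nat_lit 5) (nat_lit 4) (nat_lit 5) (nat_lit 3) (nat_lit 4) (nat_lit 243) (nat_lit 202) (nat_lit 155))))) (XT.nd (nat_lit 156) (nat_lit 0) (nat_lit 0) (XT.nd (nat_lit 78) (nat_lit 0) (nat_lit 0) (XT.lf (nat_lit 0) (nat_lit 3797200002) (nat_lit 76) (nat_lit 8569468750) (nat_lit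 152) (nat_lit 611911303527) (nat_lit 1) (nat_lit 5) (nat_lit 2) (nat_lit 5) (nat_lit 3) (nat_lit 4) (nat_lit 244) (nat_lit 202) (nat_lit 154)) (XT.lf (nat_lit 0) (nat_lit 26541735401) (nat_lit 152) (nat_lit 683891131979) (nat_lit 0) (nat_lit 6237137776) (nat_lit 1) (nat_lit 5) (nat_lit 3) (nat_lit 4) (nat_lit 1) (nat_lit 4) (nat_lit 245) (nat_lit 202) (nat_lit 153))) (XT.nd (nat_lit 78) (nat_lit 0) (nat_lit 0) (XT.lf (nat_lit 0) (nat_lit 43075438540) (nat_lit 152) (nat_lit 757058792921) (nat_lit 0) (nat_lit 22768027365) (nat_lit 1) (nat_lit 5) (nat_lit 3) (nat_lit 4) (nat_lit 1) (nat_lit 4) (nat_lit 246) (nat_lit 202) (nat_lit 152)) (XT.nd (nat_lit 78) (nat_lit 0) (nat_lit 0) (XT.lf (nat_lit 0) (nat_lit 62085167738) (nat_lit 152) (nat_lit 841209200367) (nat_lit 0) (nat_lit 41775309997) (nat_lit 1) (nat_lit 5) (nat_lit 3) (nat_lit 4) (nat_lit 1) (nat_lit 4) (nat_lit 247) (nat_lit 202)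 (nat_lit 151)) (XT.lf (nat_lit 0) (nat_lit 83942852478) (nat_lit 152) (nat_lit 937988775330) (nat_lit 0) (nat_lit 63630867289) (nat_lit 1) (nat_lit 5) (nat_lit 3) (nat_lit 4) (nat_lit 1) (nat_lit 4) (nat_lit 248) (nat_lit 202) (nat_lit 150)))))) (XT.nd (nat_lit 390) (nat_lit 0) (nat_lit 0) (XT.nd (nat_lit 156) (nat_lit 0) (nat_lit 0) (XT.nd (nat_lit 78) (nat_lit 0) (nat_lit 0) (XT.lf (nat_lit 0) (nat_lit 109076143115) (nat_lit 152) (nat_lit 1049291031236) (nat_lit 0) (nat_lit 88762307970) (nat_lit 1) (nat_lit 5) (nat_lit 3) (nat_lit 4) (nat_lit 1) (nat_lit 4) (nat_lit 249) (nat_lit 202) (nat_lit 149)) (XT.lf (nat_lit 0) (nat_lit 137976777942) (nat_lit 152) (nat_lit 1177293620916) (nat_lit 0) (nat_lit 117661334141) (nat_lit 1) (nat_lit 5) (nat_lit 3) (nat_lit 4) (nat_lit 1) (nat_lit 4) (nat_lit 250) (nat_lit 202) (nat_lit 148))) (XT.nd (nat_lit 78) (nat_lit 0) (nat_lit 0) (XT.lf (nat_lit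 0) (nat_lit 171210204164) (nat_lit 152) (nat_lit 1324500942864) (nat_lit 0) (nat_lit 150893361531) (nat_lit 1) (nat_lit 5) (nat_lit 3) (nat_lit 4) (nat_lit 1) (nat_lit 4) (nat_lit 251) (nat_lit 202) (nat_lit 147)) (XT.nd (nat_lit 78) (nat_lit 0) (nat_lit 0) (XT.lf (nat_lit 0) (nat_lit 209426640989) (nat_lit 152) (nat_lit 1493793140337) (nat_lit 0) (nat_lit 189108581980) (nat_lit 1) (nat_lit 5) (nat_lit 3) (nat_lit 4) (nat_lit 1) (nat_lit 4) (nat_lit 252) (nat_lit 202) (nat_lit 146)) (XT.lf (nat_lit 0) (nat_lit 253373801312) (nat_lit 152) (nat_lit 1688482451979) (nat_lit 0) (nat_lit 233054684585) (nat_lit 1) (nat_lit 5) (nat_lit 3) (nat_lit 4) (nat_lit 1) (nat_lit 4) (nat_lit 253) (nat_lit 202) (nat_lit 145))))) (XT.nd (nat_lit 234) (nat_lit 0) (nat_lit 0) (XT.nd (nat_lit 78) (nat_lit 0) (nat_lit 0) (XT.lf (nat_lit 0) (nat_lit 303911520878) (nat_lit 152) (nat_lit 1912378016497) (nat_lit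 0) (nat_lit 283591484396) (nat_lit 1) (nat_lit 5) (nat_lit 3) (nat_lit 4) (nat_lit 1) (nat_lit 4) (nat_lit 254) (nat_lit 202) (nat_lit 144)) (XT.nd (nat_lit 78) (nat_lit 0) (nat_lit 0) (XT.lf (nat_lit 0) (nat_lit 362028581156) (nat_lit 152) (nat_lit 2169860399284) (nat_lit 0) (nat_lit 341707744887) (nat_lit 1) (nat_lit 5) (nat_lit 3) (nat_lit 4) (nat_lit 1) (nat_lit 4) (nat_lit 255) (nat_lit 202) (nat_lit 143)) (XT.lf (nat_lit 0) (nat_lit 428862055065) (nat_lit 152) (nat_lit 2465967299134) (nat_lit 0) (nat_lit 408540523330) (nat_lit 1) (nat_lit 5) (nat_lit 3) (nat_lit 4) (nat_lit 1) (nat_lit 4) (nat_lit 256) (nat_lit 202) (nat_lit 142)))) (XT.nd (nat_lit 78) (nat_lit 0) (nat_lit 0) (XT.lf (nat_lit 0) (nat_lit 505719554052) (nat_lit 152) (nat_lit 2806492111913) (nat_lit 0) (nat_lit 485397417563) (nat_lit 1) (nat_lit 5) (nat_lit 3) (nat_lit 4) (nat_lit 1) (nat_lit 4) (nat_lit 257) (nat_lit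 202) (nat_lit 141)) (XT.nd (nat_lit 78) (nat_lit 0) (nat_lit 0) (XT.lf (nat_lit 0) (nat_lit 594104811792) (nat_lit 152) (nat_lit 3198097279610) (nat_lit 0) (nat_lit 573782149430) (nat_lit 1) (nat_lit 5) (nat_lit 3) (nat_lit 4) (nat_lit 1) (nat_lit 4) (nat_lit 258) (nat_lit 202) (nat_lit 140)) (XT.lf (nat_lit 0) (nat_lit 695747105066) (nat_lit 152) (nat_lit 3648444642462) (nat_lit 0) (nat_lit 675423985424) (nat_lit 1) (nat_lit 5) (nat_lit 3) (nat_lit 4) (nat_lit 1) (nat_lit 4) (nat_lit 259) (nat_lit 202) (nat_lit 139))))))))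
noncomputable def xc28 : XT := (XT.nd (nat_lit 28236) (nat_lit 0) (nat_lit 152) (XT.nd (nat_lit 27456) (nat_lit 0) (nat_lit 760) (XT.nd (nat_lit 27066) (nat_lit 0) (nat_lit 2204) (XT.nd (nat_lit 26832) (nat_lit 0) (nat_lit 3268) (XT.nd (nat_lit 78) (nat_lit 0) (nat_lit 0) (XT.lf (nat_lit 0) (nat_lit 812635087440) (nat_lit 152) (nat_lit 4166345344527) (nat_lit 0) (nat_lit 792311570162) (nat_lit 1) (nat_lit 5) (nat_lit 3) (nat_lit 4) (nat_lit 1) (nat_lit 4) (nat_lit 260) (nat_lit 202) (nat_lit 138)) (XT.lf (nat_lit 0) (nat_lit 947055697698) (nat_lit 152) (nat_lit 4761932225626) (nat_lit 0) (nat_lit 926731834650) (nat_lit 1) (nat_lit 5) (nat_lit 3) (nat_lit 4) (nat_lit 1) (nat_lit 4) (nat_lit 261) (nat_lit 202) (nat_lit 137))) (XT.nd (nat_lit 78) (nat_lit 304) (nat_lit 0) (XT.lf (nat_lit 0) (nat_lit 1575974438) (nat_lit 380) (nat_lit 1042466606) (nat_lit 380) (nat_lit 1042466606) (nat_lit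 48) (nat_lit 3) (nat_lit 53) (nat_lit 3) (nat_lit 53) (nat_lit 5) (nat_lit 203) (nat_lit 203) (nat_lit 194)) (XT.nd (nat_lit 78) (nat_lit 304) (nat_lit 0) (XT.lf (nat_lit 76) (nat_lit 4071658372) (nat_lit 0) (nat_lit 1883302671) (nat_lit 380) (nat_lit 1694006374) (nat_lit 49) (nat_lit 5) (nat_lit 48) (nat_lit 3) (nat_lit 53) (nat_lit 5) (nat_lit 204) (nat_lit 203) (nat_lit 193)) (XT.lf (nat_lit 0) (nat_lit 828608510) (nat_lit 380) (nat_lit 5002369719) (nat_lit 456) (nat_lit 2216095862) (nat_lit 44) (nat_lit 5) (nat_lit 49) (nat_lit 5) (nat_lit 50) (nat_lit 5) (nat_lit 205) (nat_lit 203) (nat_lit 192))))) (XT.nd (nat_lit 156) (nat_lit 760) (nat_lit 0) (XT.nd (nat_lit 78) (nat_lit 304) (nat_lit 0) (XT.lf (nat_lit 76) (nat_lit 2089629995) (nat_lit 0) (nat_lit 1349243032) (nat_lit 456) (nat_lit 5080126442) (nat_lit 45) (nat_lit 5) (nat_lit 44) (nat_lit 5) (nat_lit 50) (nat_lit 5) (nat_lit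 206) (nat_lit 203) (nat_lit 191)) (XT.lf (nat_lit 0) (nat_lit 1159806603) (nat_lit 380) (nat_lit 5195357148) (nat_lit 456) (nat_lit 2715467185) (nat_lit 40) (nat_lit 5) (nat_lit 45) (nat_lit 5) (nat_lit 46) (nat_lit 5) (nat_lit 207) (nat_lit 203) (nat_lit 190))) (XT.nd (nat_lit 78) (nat_lit 304) (nat_lit 0) (XT.lf (nat_lit 0) (nat_lit 251918636) (nat_lit 456) (nat_lit 9380120719) (nat_lit 532) (nat_lit 80921862) (nat_lit 34) (nat_lit 5) (nat_lit 40) (nat_lit 5) (nat_lit 41) (nat_lit 5) (nat_lit 208) (nat_lit 203) (nat_lit 189)) (XT.nd (nat_lit 78) (nat_lit 228) (nat_lit 0) (XT.lf (nat_lit 0) (nat_lit 2892968368) (nat_lit 532) (nat_lit 830259301) (nat_lit 76) (nat_lit 6716859539) (nat_lit 33) (nat_lit 5) (nat_lit 40) (nat_lit 5) (nat_lit 34) (nat_lit 5) (nat_lit 209) (nat_lit 203) (nat_lit 188)) (XT.lf (nat_lit 0) (nat_lit 6353944173) (nat_lit 304) (nat_lit 2050102228) (nat_lit 76) (nat_lit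 2869668084) (nat_lit 30) (nat_lit 5) (nat_lit 34) (nat_lit 5) (nat_lit 31) (nat_lit 5) (nat_lit 210) (nat_lit 203) (nat_lit 187)))))) (XT.nd (nat_lit 390) (nat_lit 456) (nat_lit 0) (XT.nd (nat_lit 156) (nat_lit 532) (nat_lit 0) (XT.nd (nat_lit 78) (nat_lit 304) (nat_lit 0) (XT.lf (nat_lit 0) (nat_lit 8682938359) (nat_lit 152) (nat_lit 1763821900) (nat_lit 228) (nat_lit 1777709225) (nat_lit 28) (nat_lit 5) (nat_lit 30) (nat_lit 5) (nat_lit 31) (nat_lit 5) (nat_lit 211) (nat_lit 203) (nat_lit 186)) (XT.lf (nat_lit 0) (nat_lit 1937808521) (nat_lit 304) (nat_lit 5514304796) (nat_lit 76) (nat_lit 5847559607) (nat_lit 24) (nat_lit 5) (nat_lit 28) (nat_lit 5) (nat_lit 25) (nat_lit 5) (nat_lit 212) (nat_lit 203) (nat_lit 185))) (XT.nd (nat_lit 78) (nat_lit 380) (nat_lit 0) (XT.lf (nat_lit 0) (nat_lit 6239188104) (nat_lit 228) (nat_lit 8045008878) (nat_lit 76) (nat_lit 238331951) (nat_lit 22)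 (nat_lit 5) (nat_lit 25) (nat_lit 5) (nat_lit 23) (nat_lit 5) (nat_lit 213) (nat_lit 203) (nat_lit 184)) (XT.nd (nat_lit 78) (nat_lit 228) (nat_lit 0) (XT.lf (nat_lit 0) (nat_lit 4469131966) (nat_lit 152) (nat_lit 7026981537) (nat_lit 228) (nat_lit 4408541903) (nat_lit 20) (nat_lit 5) (nat_lit 22) (nat_lit 5) (nat_lit 23) (nat_lit 5) (nat_lit 214) (nat_lit 203) (nat_lit 183)) (XT.lf (nat_lit 0) (nat_lit 208998473) (nat_lit 228) (nat_lit 15789815701) (nat_lit 76) (nat_lit 1482622386) (nat_lit 17) (nat_lit 5) (nat_lit 20) (nat_lit 5) (nat_lit 18) (nat_lit 5) (nat_lit 215) (nat_lit 203) (nat_lit 182))))) (XT.nd (nat_lit 156) (nat_lit 304) (nat_lit 0) (XT.nd (nat_lit 78) (nat_lit 152) (nat_lit 0) (XT.lf (nat_lit 0) (nat_lit 5659887200) (nat_lit 228) (nat_lit 2323807114) (nat_lit 76) (nat_lit 11270208305) (nat_lit 17) (nat_lit 5) (nat_lit 20) (nat_lit 5) (nat_lit 18) (nat_lit 5) (nat_lit 216)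 (nat_lit 203) (nat_lit 181)) (XT.lf (nat_lit 0) (nat_lit 12170600517) (nat_lit 228) (nat_lit 7651013969) (nat_lit 76) (nat_lit 1451656197) (nat_lit 15) (nat_lit 5) (nat_lit 18) (nat_lit 5) (nat_lit 16) (nat_lit 4) (nat_lit 217) (nat_lit 203) (nat_lit 180))) (XT.nd (nat_lit 78) (nat_lit 228) (nat_lit 0) (XT.lf (nat_lit 0) (nat_lit 8539520311) (nat_lit 76) (nat_lit 11501517966) (nat_lit 152) (nat_lit 3524210544) (nat_lit 14) (nat_lit 5) (nat_lit 15) (nat_lit 5) (nat_lit 16) (nat_lit 4) (nat_lit 218) (nat_lit 203) (nat_lit 179)) (XT.nd (nat_lit 78) (nat_lit 0) (nat_lit 0) (XT.lf (nat_lit 0) (nat_lit 1259630835) (nat_lit 152) (nat_lit 1640982706) (nat_lit 228) (nat_lit 23282795773) (nat_lit 11) (nat_lit 5) (nat_lit 13) (nat_lit 5) (nat_lit 14) (nat_lit 5) (nat_lit 219) (nat_lit 203) (nat_lit 178)) (XT.lf (nat_lit 0) (nat_lit 10672456240) (nat_lit 228) (nat_lit 8762798716) (nat_lit 76) (nat_lit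 9704606512) (nat_lit 11) (nat_lit 5) (nat_lit 14) (nat_lit 5) (nat_lit 12) (nat_lit 4) (nat_lit 220) (nat_lit 203) (nat_lit 177))))))) (XT.nd (nat_lit 780) (nat_lit 76) (nat_lit 0) (XT.nd (nat_lit 390) (nat_lit 228) (nat_lit 0) (XT.nd (nat_lit 156) (nat_lit 228) (nat_lit 0) (XT.nd (nat_lit 78) (nat_lit 0) (nat_lit 0) (XT.lf (nat_lit 0) (nat_lit 10146125675) (nat_lit 76) (nat_lit 9669838246) (nat_lit 152) (nat_lit 12707562115) (nat_lit 10) (nat_lit 5) (nat_lit 11) (nat_lit 5) (nat_lit 12) (nat_lit 4) (nat_lit 221) (nat_lit 203) (nat_lit 176)) (XT.lf (nat_lit 0) (nat_lit 30553380051) (nat_lit 152) (nat_lit 4148116891) (nat_lit 0) (nat_lit 1695640309) (nat_lit 10) (nat_lit 5) (nat_lit 12) (nat_lit 4) (nat_lit 10) (nat_lit 4) (nat_lit 222) (nat_lit 203) (nat_lit 175))) (XT.nd (nat_lit 78) (nat_lit 76) (nat_lit 0) (XT.lf (nat_lit 0) (nat_lit 2579572517) (nat_lit 152) (nat_lit 23568943590)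 (nat_lit 76) (nat_lit 14648882832) (nat_lit 8) (nat_lit 5) (nat_lit 10) (nat_lit 5) (nat_lit 9) (nat_lit 4) (nat_lit 223) (nat_lit 203) (nat_lit 174)) (XT.nd (nat_lit 78) (nat_lit 76) (nat_lit 0) (XT.lf (nat_lit 0) (nat_lit 11991757252) (nat_lit 152) (nat_lit 4058307764) (nat_lit 76) (nat_lit 29789913604) (nat_lit 8) (nat_lit 5) (nat_lit 10) (nat_lit 5) (nat_lit 9) (nat_lit 4) (nat_lit 224) (nat_lit 203) (nat_lit 173)) (XT.lf (nat_lit 0) (nat_lit 19247665809) (nat_lit 76) (nat_lit 3976774567) (nat_lit 152) (nat_lit 28381925404) (nat_lit 7) (nat_lit 5) (nat_lit 8) (nat_lit 5) (nat_lit 9) (nat_lit 4) (nat_lit 225) (nat_lit 203) (nat_lit 172))))) (XT.nd (nat_lit 156) (nat_lit 152) (nat_lit 0) (XT.nd (nat_lit 78) (nat_lit 76) (nat_lit 0) (XT.lf (nat_lit 0) (nat_lit 36451402928) (nat_lit 152) (nat_lit 12263598107) (nat_lit 0) (nat_lit 9498059108) (nat_lit 7) (nat_lit 5) (nat_lit 9) (nat_lit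 4) (nat_lit 7) (nat_lit 4) (nat_lit 226) (nat_lit 203) (nat_lit 171)) (XT.lf (nat_lit 0) (nat_lit 11219377546) (nat_lit 76) (nat_lit 40779262835) (nat_lit 76) (nat_lit 13785306173) (nat_lit 6) (nat_lit 4) (nat_lit 7) (nat_lit 5) (nat_lit 7) (nat_lit 4) (nat_lit 227) (nat_lit 203) (nat_lit 170))) (XT.nd (nat_lit 78) (nat_lit 152) (nat_lit 0) (XT.lf (nat_lit 0) (nat_lit 38896375399) (nat_lit 76) (nat_lit 31299021552) (nat_lit 76) (nat_lit 4269749374) (nat_lit 6) (nat_lit 4) (nat_lit 7) (nat_lit 5) (nat_lit 7) (nat_lit 4) (nat_lit 228) (nat_lit 203) (nat_lit 169)) (XT.nd (nat_lit 78) (nat_lit 76) (nat_lit 0) (XT.lf (nat_lit 0) (nat_lit 6303925090) (nat_lit 152) (nat_lit 13947817134) (nat_lit 76) (nat_lit 64186837012) (nat_lit 5) (nat_lit 5) (nat_lit 7) (nat_lit 5) (nat_lit 6) (nat_lit 4) (nat_lit 229) (nat_lit 203) (nat_lit 168)) (XT.lf (nat_lit 0) (nat_lit 11308471695) (nat_lit 76) (nat_lit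 7150738218) (nat_lit 152) (nat_lit 77420127447) (nat_lit 4) (nat_lit 5) (nat_lit 5) (nat_lit 5) (nat_lit 6) (nat_lit 4) (nat_lit 230) (nat_lit 203) (nat_lit 167)))))) (XT.nd (nat_lit 390) (nat_lit 0) (nat_lit 0) (XT.nd (nat_lit 156) (nat_lit 76) (nat_lit 0) (XT.nd (nat_lit 78) (nat_lit 0) (nat_lit 0) (XT.lf (nat_lit 0) (nat_lit 33016243625) (nat_lit 152) (nat_lit 68059255473) (nat_lit 0) (nat_lit 7914479319) (nat_lit 4) (nat_lit 5) (nat_lit 6) (nat_lit 4) (nat_lit 4) (nat_lit 4) (nat_lit 231) (nat_lit 203) (nat_lit 166)) (XT.lf (nat_lit 0) (nat_lit 49929792915) (nat_lit 152) (nat_lit 49314293086) (nat_lit 0) (nat_lit 24809332534) (nat_lit 4) (nat_lit 5) (nat_lit 6) (nat_lit 4) (nat_lit 4) (nat_lit 4) (nat_lit 232) (nat_lit 203) (nat_lit 165))) (XT.nd (nat_lit 78) (nat_lit 76) (nat_lit 0) (XT.lf (nat_lit 0) (nat_lit 69358799627) (nat_lit 152) (nat_lit 27797253813) (nat_lit 0) (nat_lit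 44222081790) (nat_lit 4) (nat_lit 5) (nat_lit 6) (nat_lit 4) (nat_lit 4) (nat_lit 4) (nat_lit 233) (nat_lit 203) (nat_lit 164)) (XT.nd (nat_lit 78) (nat_lit 76) (nat_lit 0) (XT.lf (nat_lit 0) (nat_lit 91683396501) (nat_lit 152) (nat_lit 3087152103) (nat_lit 0) (nat_lit 66532541745) (nat_lit 4) (nat_lit 5) (nat_lit 6) (nat_lit 4) (nat_lit 4) (nat_lit 4) (nat_lit 234) (nat_lit 203) (nat_lit 163)) (XT.lf (nat_lit 0) (nat_lit 26631695838) (nat_lit 76) (nat_lit 91349166214) (nat_lit 76) (nat_lit 66186018485) (nat_lit 3) (nat_lit 4) (nat_lit 4) (nat_lit 5) (nat_lit 4) (nat_lit 4) (nat_lit 235) (nat_lit 203) (nat_lit 162))))) (XT.nd (nat_lit 156) (nat_lit 0) (nat_lit 0) (XT.nd (nat_lit 78) (nat_lit 0) (nat_lit 0) (XT.lf (nat_lit 0) (nat_lit 60967864086) (nat_lit 76) (nat_lit 87330116265) (nat_lit 76) (nat_lit 62156278995) (nat_lit 3) (nat_lit 4) (nat_lit 4) (nat_lit 5) (nat_lit 4) (nat_lit 4)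 (nat_lit 236) (nat_lit 203) (nat_lit 161)) (XT.lf (nat_lit 0) (nat_lit 100430583275) (nat_lit 76) (nat_lit 82719173381) (nat_lit 76) (nat_lit 57536040857) (nat_lit 3) (nat_lit 4) (nat_lit 4) (nat_lit 5) (nat_lit 4) (nat_lit 4) (nat_lit 237) (nat_lit 203) (nat_lit 160))) (XT.nd (nat_lit 78) (nat_lit 0) (nat_lit 0) (XT.lf (nat_lit 0) (nat_lit 145791950086) (nat_lit 76) (nat_lit 77426123462) (nat_lit 76) (nat_lit 52234908110) (nat_lit 3) (nat_lit 4) (nat_lit 4) (nat_lit 5) (nat_lit 4) (nat_lit 4) (nat_lit 238) (nat_lit 203) (nat_lit 159)) (XT.nd (nat_lit 78) (nat_lit 0) (nat_lit 0) (XT.lf (nat_lit 0) (nat_lit 197939469521) (nat_lit 76) (nat_lit 71347406837) (nat_lit 76) (nat_lit 46149162937) (nat_lit 3) (nat_lit 4) (nat_lit 4) (nat_lit 5) (nat_lit 4) (nat_lit 4) (nat_lit 239) (nat_lit 203) (nat_lit 158)) (XT.lf (nat_lit 0) (nat_lit 257893419135) (nat_lit 76) (nat_lit 64364092092) (nat_lit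 76) (nat_lit 39159736413) (nat_lit 3) (nat_lit 4) (nat_lit 4) (nat_lit 5) (nat_lit 4) (nat_lit 4) (nat_lit 240) (nat_lit 203) (nat_lit 157))))))))
noncomputable def xc29 : XT := (XT.nd (nat_lit 28392) (nat_lit 0) (nat_lit 532) (XT.nd (nat_lit 780) (nat_lit 0) (nat_lit 0) (XT.nd (nat_lit 390) (nat_lit 0) (nat_lit 0) (XT.nd (nat_lit 156) (nat_lit 152) (nat_lit 0) (XT.nd (nat_lit 78) (nat_lit 0) (nat_lit 0) (XT.lf (nat_lit 0) (nat_lit 326826810986) (nat_lit 76) (nat_lit 56339549157) (nat_lit 76) (nat_lit 31129878886) (nat_lit 3) (nat_lit 4) (nat_lit 4) (nat_lit 5) (nat_lit 4) (nat_lit 4) (nat_lit 241) (nat_lit 203) (nat_lit 156)) (XT.lf (nat_lit 0) (nat_lit 406088341870) (nat_lit 76) (nat_lit 47116776105) (nat_lit 76) (nat_lit 21902484450) (nat_lit 3) (nat_lit 4) (nat_lit 4) (nat_lit 5) (nat_lit 4) (nat_lit 4) (nat_lit 242) (nat_lit 203) (nat_lit 155))) (XT.nd (nat_lit 78) (nat_lit 152)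 (nat_lit 0) (XT.lf (nat_lit 0) (nat_lit 497228780870) (nat_lit 76) (nat_lit 36515327376) (nat_lit 76) (nat_lit 11297017126) (nat_lit 3) (nat_lit 4) (nat_lit 4) (nat_lit 5) (nat_lit 4) (nat_lit 4) (nat_lit 243) (nat_lit 203) (nat_lit 154)) (XT.nd (nat_lit 78) (nat_lit 76) (nat_lit 0) (XT.lf (nat_lit 0) (nat_lit 849298789) (nat_lit 152) (nat_lit 23455263197) (nat_lit 76) (nat_lit 601158790365) (nat_lit 2) (nat_lit 5) (nat_lit 4) (nat_lit 5) (nat_lit 3) (nat_lit 4) (nat_lit 244) (nat_lit 203) (nat_lit 153)) (XT.lf (nat_lit 0) (nat_lit 4457895893) (nat_lit 76) (nat_lit 9812651802) (nat_lit 152) (nat_lit 703645145734) (nat_lit 1) (nat_lit 5) (nat_lit 2) (nat_lit 5) (nat_lit 3) (nat_lit 4) (nat_lit 245) (nat_lit 203) (nat_lit 152))))) (XT.nd (nat_lit 156) (nat_lit 0) (nat_lit 0) (XT.nd (nat_lit 78) (nat_lit 0) (nat_lit 0) (XT.lf (nat_lit 0) (nat_lit 30566382177) (nat_lit 152) (nat_lit 786392997624)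 (nat_lit 0) (nat_lit 7207599210) (nat_lit 1) (nat_lit 5) (nat_lit 3) (nat_lit 4) (nat_lit 1) (nat_lit 4) (nat_lit 246) (nat_lit 203) (nat_lit 151)) (XT.lf (nat_lit 0) (nat_lit 49574481683) (nat_lit 152) (nat_lit 870546477814) (nat_lit 0) (nat_lit 26213571267) (nat_lit 1) (nat_lit 5) (nat_lit 3) (nat_lit 4) (nat_lit 1) (nat_lit 4) (nat_lit 247) (nat_lit 203) (nat_lit 150))) (XT.nd (nat_lit 78) (nat_lit 0) (nat_lit 0) (XT.lf (nat_lit 0) (nat_lit 71430749301) (nat_lit 152) (nat_lit 967328724730) (nat_lit 0) (nat_lit 48067988929) (nat_lit 1) (nat_lit 5) (nat_lit 3) (nat_lit 4) (nat_lit 1) (nat_lit 4) (nat_lit 248) (nat_lit 203) (nat_lit 149)) (XT.nd (nat_lit 78) (nat_lit 0) (nat_lit 0) (XT.lf (nat_lit 0) (nat_lit 96562807656) (nat_lit 152) (nat_lit 1078633304072) (nat_lit 0) (nat_lit 73198438628) (nat_lit 1) (nat_lit 5) (nat_lit 3) (nat_lit 4) (nat_lit 1) (nat_lit 4) (nat_lit 249) (nat_lit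 203) (nat_lit 148)) (XT.lf (nat_lit 0) (nat_lit 125462370935) (nat_lit 152) (nat_lit 1206637914132) (nat_lit 0) (nat_lit 102096603074) (nat_lit 1) (nat_lit 5) (nat_lit 3) (nat_lit 4) (nat_lit 1) (nat_lit 4) (nat_lit 250) (nat_lit 203) (nat_lit 147)))))) (XT.nd (nat_lit 390) (nat_lit 0) (nat_lit 0) (XT.nd (nat_lit 156) (nat_lit 0) (nat_lit 0) (XT.nd (nat_lit 78) (nat_lit 0) (nat_lit 0) (XT.lf (nat_lit 0) (nat_lit 158694865376) (nat_lit 152) (nat_lit 1353846992932) (nat_lit 0) (nat_lit 135327881139) (nat_lit 1) (nat_lit 5) (nat_lit 3) (nat_lit 4) (nat_lit 1) (nat_lit 4) (nat_lit 251) (nat_lit 203) (nat_lit 146)) (XT.lf (nat_lit 0) (nat_lit 196910491956) (nat_lit 152) (nat_lit 1523140718102) (nat_lit 0) (nat_lit 173542450002) (nat_lit 1) (nat_lit 5) (nat_lit 3) (nat_lit 4) (nat_lit 1) (nat_lit 4) (nat_lit 252) (nat_lit 203) (nat_lit 145))) (XT.nd (nat_lit 78) (nat_lit 0) (nat_lit 0) (XT.lf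 (nat_lit 0) (nat_lit 240856947718) (nat_lit 152) (nat_lit 1717831358176) (nat_lit 0) (nat_lit 217487986009) (nat_lit 1) (nat_lit 5) (nat_lit 3) (nat_lit 4) (nat_lit 1) (nat_lit 4) (nat_lit 253) (nat_lit 203) (nat_lit 144)) (XT.nd (nat_lit 78) (nat_lit 0) (nat_lit 0) (XT.lf (nat_lit 0) (nat_lit 291394054622) (nat_lit 152) (nat_lit 1941728077853) (nat_lit 0) (nat_lit 268024293126) (nat_lit 1) (nat_lit 5) (nat_lit 3) (nat_lit 4) (nat_lit 1) (nat_lit 4) (nat_lit 254) (nat_lit 203) (nat_lit 143)) (XT.lf (nat_lit 0) (nat_lit 349510582151) (nat_lit 152) (nat_lit 2199211465126) (nat_lit 0) (nat_lit 326140125189) (nat_lit 1) (nat_lit 5) (nat_lit 3) (nat_lit 4) (nat_lit 1) (nat_lit 4) (nat_lit 255) (nat_lit 203) (nat_lit 142))))) (XT.nd (nat_lit 156) (nat_lit 0) (nat_lit 0) (XT.nd (nat_lit 78) (nat_lit 0) (nat_lit 0) (XT.lf (nat_lit 0) (nat_lit 416343592800) (nat_lit 152) (nat_lit 2495319238442)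 (nat_lit 0) (nat_lit 392972531084) (nat_lit 1) (nat_lit 5) (nat_lit 3) (nat_lit 4) (nat_lit 1) (nat_lit 4) (nat_lit 256) (nat_lit 203) (nat_lit 141)) (XT.lf (nat_lit 0) (nat_lit 493200688952) (nat_lit 152) (nat_lit 2835844810756) (nat_lit 0) (nat_lit 469829101363) (nat_lit 1) (nat_lit 5) (nat_lit 3) (nat_lit 4) (nat_lit 1) (nat_lit 4) (nat_lit 257) (nat_lit 203) (nat_lit 140))) (XT.nd (nat_lit 78) (nat_lit 0) (nat_lit 0) (XT.lf (nat_lit 0) (nat_lit 581585596401) (nat_lit 152) (nat_lit 3227450638919) (nat_lit 0) (nat_lit 558213551531) (nat_lit 1) (nat_lit 5) (nat_lit 3) (nat_lit 4) (nat_lit 1) (nat_lit 4) (nat_lit 258) (nat_lit 203) (nat_lit 139)) (XT.nd (nat_lit 78) (nat_lit 0) (nat_lit 0) (XT.lf (nat_lit 0) (nat_lit 683227585074) (nat_lit 152) (nat_lit 3677798576090) (nat_lit 0) (nat_lit 659855142570) (nat_lit 1) (nat_lit 5) (nat_lit 3) (nat_lit 4) (nat_lit 1) (nat_lit 4) (nat_lit 259)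 (nat_lit 203) (nat_lit 138)) (XT.lf (nat_lit 0) (nat_lit 800115302577) (nat_lit 152) (nat_lit 4195699777561) (nat_lit 0) (nat_lit 776742514303) (nat_lit 1) (nat_lit 5) (nat_lit 3) (nat_lit 4) (nat_lit 1) (nat_lit 4) (nat_lit 260) (nat_lit 203) (nat_lit 137))))))) (XT.nd (nat_lit 780) (nat_lit 1216) (nat_lit 0) (XT.nd (nat_lit 390) (nat_lit 1140) (nat_lit 0) (XT.nd (nat_lit 156) (nat_lit 304) (nat_lit 0) (XT.nd (nat_lit 78) (nat_lit 0) (nat_lit 0) (XT.lf (nat_lit 0) (nat_lit 84835814) (nat_lit 0) (nat_lit 84835814) (nat_lit 380) (nat_lit 3834410503) (nat_lit 43) (nat_lit 5) (nat_lit 43) (nat_lit 3) (nat_lit 48) (nat_lit 3) (nat_lit 204) (nat_lit 204) (nat_lit 192)) (XT.lf (nat_lit 0) (nat_lit 2456304558) (nat_lit 380) (nat_lit 1460481897) (nat_lit 456) (nat_lit 4513008742) (nat_lit 43) (nat_lit 5) (nat_lit 48) (nat_lit 3) (nat_lit 49) (nat_lit 5) (nat_lit 205) (nat_lit 204) (nat_lit 191)))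 (XT.nd (nat_lit 78) (nat_lit 380) (nat_lit 0) (XT.lf (nat_lit 0) (nat_lit 4721394090) (nat_lit 380) (nat_lit 3006156557) (nat_lit 456) (nat_lit 1202749604) (nat_lit 44) (nat_lit 5) (nat_lit 49) (nat_lit 5) (nat_lit 50) (nat_lit 5) (nat_lit 206) (nat_lit 204) (nat_lit 190)) (XT.nd (nat_lit 78) (nat_lit 380) (nat_lit 0) (XT.lf (nat_lit 76) (nat_lit 4917159760) (nat_lit 0) (nat_lit 2374959600) (nat_lit 456) (nat_lit 2218297312) (nat_lit 45) (nat_lit 5) (nat_lit 44) (nat_lit 5) (nat_lit 50) (nat_lit 5) (nat_lit 207) (nat_lit 204) (nat_lit 189)) (XT.lf (nat_lit 0) (nat_lit 72999512) (nat_lit 456) (nat_lit 6265041494) (nat_lit 76) (nat_lit 3840375274) (nat_lit 39) (nat_lit 5) (nat_lit 45) (nat_lit 5) (nat_lit 40) (nat_lit 5) (nat_lit 208) (nat_lit 204) (nat_lit 188))))) (XT.nd (nat_lit 156) (nat_lit 456) (nat_lit 0) (XT.nd (nat_lit 78) (nat_lit 228) (nat_lit 0) (XT.lf (nat_lit 0) (nat_lit 2611075107)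 (nat_lit 532) (nat_lit 8119808260) (nat_lit 76) (nat_lit 209632453) (nat_lit 33) (nat_lit 5) (nat_lit 40) (nat_lit 5) (nat_lit 34) (nat_lit 5) (nat_lit 209) (nat_lit 204) (nat_lit 187)) (XT.lf (nat_lit 0) (nat_lit 1519612551) (nat_lit 228) (nat_lit 4191221707) (nat_lit 304) (nat_lit 6092717401) (nat_lit 30) (nat_lit 5) (nat_lit 33) (nat_lit 5) (nat_lit 34) (nat_lit 5) (nat_lit 210) (nat_lit 204) (nat_lit 186))) (XT.nd (nat_lit 78) (nat_lit 304) (nat_lit 0) (XT.lf (nat_lit 0) (nat_lit 13828079) (nat_lit 152) (nat_lit 9389972352) (nat_lit 228) (nat_lit 3382938769) (nat_lit 28) (nat_lit 5) (nat_lit 30) (nat_lit 5) (nat_lit 31) (nat_lit 5) (nat_lit 211) (nat_lit 204) (nat_lit 185)) (XT.nd (nat_lit 78) (nat_lit 304) (nat_lit 0) (XT.lf (nat_lit 0) (nat_lit 12155460509) (nat_lit 152) (nat_lit 1733488705) (nat_lit 228) (nat_lit 10227755) (nat_lit 28) (nat_lit 5) (nat_lit 30) (nat_lit 5) (nat_lit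 31) (nat_lit 5) (nat_lit 212) (nat_lit 204) (nat_lit 184)) (XT.lf (nat_lit 0) (nat_lit 3967583457) (nat_lit 304) (nat_lit 4117256959) (nat_lit 76) (nat_lit 7063449883) (nat_lit 24) (nat_lit 5) (nat_lit 28) (nat_lit 5) (nat_lit 25) (nat_lit 5) (nat_lit 213) (nat_lit 204) (nat_lit 183)))))) (XT.nd (nat_lit 390) (nat_lit 532) (nat_lit 0) (XT.nd (nat_lit 156) (nat_lit 380) (nat_lit 0) (XT.nd (nat_lit 78) (nat_lit 152) (nat_lit 0) (XT.lf (nat_lit 0) (nat_lit 8747710965) (nat_lit 228) (nat_lit 7096086369) (nat_lit 76) (nat_lit 725033915) (nat_lit 22) (nat_lit 5) (nat_lit 25) (nat_lit 5) (nat_lit 23) (nat_lit 5) (nat_lit 214) (nat_lit 204) (nat_lit 182)) (XT.lf (nat_lit 0) (nat_lit 7112708548) (nat_lit 152) (nat_lit 7522794734) (nat_lit 228) (nat_lit 3536204395) (nat_lit 20) (nat_lit 5) (nat_lit 22) (nat_lit 5) (nat_lit 23) (nat_lit 5) (nat_lit 215) (nat_lit 204) (nat_lit 181))) (XT.nd (nat_lit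 78) (nat_lit 152) (nat_lit 0) (XT.lf (nat_lit 0) (nat_lit 1566139855) (nat_lit 228) (nat_lit 16181588802) (nat_lit 76) (nat_lit 2245473409) (nat_lit 17) (nat_lit 5) (nat_lit 20) (nat_lit 5) (nat_lit 18) (nat_lit 5) (nat_lit 216) (nat_lit 204) (nat_lit 180)) (XT.nd (nat_lit 78) (nat_lit 152) (nat_lit 0) (XT.lf (nat_lit 0) (nat_lit 7661732549) (nat_lit 228) (nat_lit 953509265) (nat_lit 76) (nat_lit 13430702738) (nat_lit 17) (nat_lit 5) (nat_lit 20) (nat_lit 5) (nat_lit 18) (nat_lit 5) (nat_lit 217) (nat_lit 204) (nat_lit 179)) (XT.lf (nat_lit 0) (nat_lit 15049339021) (nat_lit 228) (nat_lit 7151567394) (nat_lit 76) (nat_lit 2175786059) (nat_lit 15) (nat_lit 5) (nat_lit 18) (nat_lit 5) (nat_lit 16) (nat_lit 4) (nat_lit 218) (nat_lit 204) (nat_lit 178))))) (XT.nd (nat_lit 234) (nat_lit 228) (nat_lit 0) (XT.nd (nat_lit 78) (nat_lit 228) (nat_lit 0) (XT.lf (nat_lit 0) (nat_lit 11328128329) (nat_lit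 76) (nat_lit 12671106669) (nat_lit 152) (nat_lit 3021753575) (nat_lit 14) (nat_lit 5) (nat_lit 15) (nat_lit 5) (nat_lit 16) (nat_lit 4) (nat_lit 219) (nat_lit 204) (nat_lit 177)) (XT.nd (nat_lit 78) (nat_lit 0) (nat_lit 0) (XT.lf (nat_lit 0) (nat_lit 2878295717) (nat_lit 152) (nat_lit 1343541901) (nat_lit 228) (nat_lit 25815870232) (nat_lit 11) (nat_lit 5) (nat_lit 13) (nat_lit 5) (nat_lit 14) (nat_lit 5) (nat_lit 220) (nat_lit 204) (nat_lit 176)) (XT.lf (nat_lit 0) (nat_lit 13055242376) (nat_lit 228) (nat_lit 8781688255) (nat_lit 76) (nat_lit 11609337251) (nat_lit 11) (nat_lit 5) (nat_lit 14) (nat_lit 5) (nat_lit 12) (nat_lit 4) (nat_lit 221) (nat_lit 204) (nat_lit 175)))) (XT.nd (nat_lit 78) (nat_lit 152) (nat_lit 0) (XT.lf (nat_lit 0) (nat_lit 12853914610) (nat_lit 76) (nat_lit 10642892538) (nat_lit 152) (nat_lit 13846815911) (nat_lit 10) (nat_lit 5) (nat_lit 11) (nat_lit 5) (nat_lit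 12) (nat_lit 4) (nat_lit 222) (nat_lit 204) (nat_lit 174)) (XT.nd (nat_lit 78) (nat_lit 152) (nat_lit 0) (XT.lf (nat_lit 0) (nat_lit 35762413699) (nat_lit 152) (nat_lit 3698317061) (nat_lit 0) (nat_lit 2344367999) (nat_lit 10) (nat_lit 5) (nat_lit 12) (nat_lit 4) (nat_lit 10) (nat_lit 4) (nat_lit 223) (nat_lit 204) (nat_lit 173)) (XT.lf (nat_lit 0) (nat_lit 3550492955) (nat_lit 152) (nat_lit 26091027676) (nat_lit 76) (nat_lit 17227539958) (nat_lit 8) (nat_lit 5) (nat_lit 10) (nat_lit 5) (nat_lit 9) (nat_lit 4) (nat_lit 224) (nat_lit 204) (nat_lit 172))))))))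
noncomputable def xc30 : XT := (XT.nd (nat_lit 1560) (nat_lit 152) (nat_lit 0) (XT.nd (nat_lit 780) (nat_lit 76) (nat_lit 0) (XT.nd (nat_lit 390) (nat_lit 152) (nat_lit 0) (XT.nd (nat_lit 156) (nat_lit 76) (nat_lit 0) (XT.nd (nat_lit 78) (nat_lit 76) (nat_lit 0) (XT.lf (nat_lit 0) (nat_lit 14298333501) (nat_lit 152) (nat_lit 3785960491) (nat_lit 76) (nat_lit 34589987342) (nat_lit 8) (nat_lit 5) (nat_lit 10) (nat_lit 5) (nat_lit 9) (nat_lit 4) (nat_lit 225) (nat_lit 204) (nat_lit 171)) (XT.lf (nat_lit 0) (nat_lit 22941328946) (nat_lit 76) (nat_lit 4227750376) (nat_lit 152) (nat_lit 32140433869) (nat_lit 7) (nat_lit 5) (nat_lit 8) (nat_lit 5) (nat_lit 9) (nat_lit 4) (nat_lit 226) (nat_lit 204) (nat_lit 170))) (XT.nd (nat_lit 78) (nat_lit 76) (nat_lit 0) (XT.lf (nat_lit 0) (nat_lit 42327185666) (nat_lit 152) (nat_lit 13376172200) (nat_lit 0) (nat_lit 11208207145) (nat_lit 7) (nat_lit 5)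 (nat_lit 9) (nat_lit 4) (nat_lit 7) (nat_lit 4) (nat_lit 227) (nat_lit 204) (nat_lit 169)) (XT.nd (nat_lit 78) (nat_lit 0) (nat_lit 0) (XT.lf (nat_lit 0) (nat_lit 13567715782) (nat_lit 76) (nat_lit 46601569781) (nat_lit 76) (nat_lit 15451882116) (nat_lit 6) (nat_lit 4) (nat_lit 7) (nat_lit 5) (nat_lit 7) (nat_lit 4) (nat_lit 228) (nat_lit 204) (nat_lit 168)) (XT.lf (nat_lit 0) (nat_lit 45309467886) (nat_lit 76) (nat_lit 35737716107) (nat_lit 76) (nat_lit 4561324838) (nat_lit 6) (nat_lit 4) (nat_lit 7) (nat_lit 5) (nat_lit 7) (nat_lit 4) (nat_lit 229) (nat_lit 204) (nat_lit 167))))) (XT.nd (nat_lit 156) (nat_lit 0) (nat_lit 0) (XT.nd (nat_lit 78) (nat_lit 76) (nat_lit 0) (XT.lf (nat_lit 0) (nat_lit 7537717509) (nat_lit 152) (nat_lit 15521159374) (nat_lit 76) (nat_lit 74021940802) (nat_lit 5) (nat_lit 5) (nat_lit 7) (nat_lit 5) (nat_lit 6) (nat_lit 4) (nat_lit 230) (nat_lit 204) (nat_lit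 166)) (XT.lf (nat_lit 0) (nat_lit 13479656377) (nat_lit 76) (nat_lit 8010468589) (nat_lit 152) (nat_lit 88749722362) (nat_lit 4) (nat_lit 5) (nat_lit 5) (nat_lit 5) (nat_lit 6) (nat_lit 4) (nat_lit 231) (nat_lit 204) (nat_lit 165))) (XT.nd (nat_lit 78) (nat_lit 0) (nat_lit 0) (XT.lf (nat_lit 0) (nat_lit 38200987424) (nat_lit 152) (nat_lit 77841026589) (nat_lit 0) (nat_lit 9277504455) (nat_lit 4) (nat_lit 5) (nat_lit 6) (nat_lit 4) (nat_lit 4) (nat_lit 4) (nat_lit 232) (nat_lit 204) (nat_lit 164)) (XT.nd (nat_lit 78) (nat_lit 0) (nat_lit 0) (XT.lf (nat_lit 0) (nat_lit 57621268161) (nat_lit 152) (nat_lit 56340030783) (nat_lit 0) (nat_lit 28683648273) (nat_lit 4) (nat_lit 5) (nat_lit 6) (nat_lit 4) (nat_lit 4) (nat_lit 4) (nat_lit 233) (nat_lit 204) (nat_lit 163)) (XT.lf (nat_lit 0) (nat_lit 79938277231) (nat_lit 152) (nat_lit 31643879915) (nat_lit 0) (nat_lit 50988364371) (nat_lit 4) (nat_lit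 5) (nat_lit 6) (nat_lit 4) (nat_lit 4) (nat_lit 4) (nat_lit 234) (nat_lit 204) (nat_lit 162)))))) (XT.nd (nat_lit 390) (nat_lit 0) (nat_lit 0) (XT.nd (nat_lit 156) (nat_lit 0) (nat_lit 0) (XT.nd (nat_lit 78) (nat_lit 76) (nat_lit 0) (XT.lf (nat_lit 0) (nat_lit 105588651767) (nat_lit 152) (nat_lit 3269388423) (nat_lit 0) (nat_lit 76628049365) (nat_lit 4) (nat_lit 5) (nat_lit 6) (nat_lit 4) (nat_lit 4) (nat_lit 4) (nat_lit 235) (nat_lit 204) (nat_lit 161)) (XT.lf (nat_lit 0) (nat_lit 30883515299) (nat_lit 76) (nat_lit 104933480910) (nat_lit 76) (nat_lit 75963583254) (nat_lit 3) (nat_lit 4) (nat_lit 4) (nat_lit 5) (nat_lit 4) (nat_lit 4) (nat_lit 236) (nat_lit 204) (nat_lit 160))) (XT.nd (nat_lit 78) (nat_lit 0) (nat_lit 0) (XT.lf (nat_lit 0) (nat_lit 70336578555) (nat_lit 76) (nat_lit 100326972629) (nat_lit 76) (nat_lit 71348992145) (nat_lit 3) (nat_lit 4) (nat_lit 4) (nat_lit 5) (nat_lit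 4) (nat_lit 4) (nat_lit 237) (nat_lit 204) (nat_lit 159)) (XT.nd (nat_lit 78) (nat_lit 0) (nat_lit 0) (XT.lf (nat_lit 0) (nat_lit 115689548902) (nat_lit 76) (nat_lit 95037778888) (nat_lit 76) (nat_lit 66052769856) (nat_lit 3) (nat_lit 4) (nat_lit 4) (nat_lit 5) (nat_lit 4) (nat_lit 4) (nat_lit 238) (nat_lit 204) (nat_lit 158)) (XT.lf (nat_lit 0) (nat_lit 167829767065) (nat_lit 76) (nat_lit 88962415460) (nat_lit 76) (nat_lit 59971294649) (nat_lit 3) (nat_lit 4) (nat_lit 4) (nat_lit 5) (nat_lit 4) (nat_lit 4) (nat_lit 239) (nat_lit 204) (nat_lit 157))))) (XT.nd (nat_lit 156) (nat_lit 0) (nat_lit 0) (XT.nd (nat_lit 78) (nat_lit 0) (nat_lit 0) (XT.lf (nat_lit 0) (nat_lit 227777367746) (nat_lit 76) (nat_lit 81982016539) (nat_lit 76) (nat_lit 52985581136) (nat_lit 3) (nat_lit 4) (nat_lit 4) (nat_lit 5) (nat_lit 4) (nat_lit 4) (nat_lit 240) (nat_lit 204) (nat_lit 156)) (XT.lf (nat_lit 0) (nat_lit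 296705238785) (nat_lit 76) (nat_lit 73960009103) (nat_lit 76) (nat_lit 44958952317) (nat_lit 3) (nat_lit 4) (nat_lit 4) (nat_lit 5) (nat_lit 4) (nat_lit 4) (nat_lit 241) (nat_lit 204) (nat_lit 155))) (XT.nd (nat_lit 78) (nat_lit 0) (nat_lit 0) (XT.lf (nat_lit 0) (nat_lit 375961968964) (nat_lit 76) (nat_lit 64739440833) (nat_lit 76) (nat_lit 35734365452) (nat_lit 3) (nat_lit 4) (nat_lit 4) (nat_lit 5) (nat_lit 4) (nat_lit 4) (nat_lit 242) (nat_lit 204) (nat_lit 154)) (XT.nd (nat_lit 78) (nat_lit 0) (nat_lit 0) (XT.lf (nat_lit 0) (nat_lit 467098233438) (nat_lit 76) (nat_lit 54139909305) (nat_lit 76) (nat_lit 25131339494) (nat_lit 3) (nat_lit 4) (nat_lit 4) (nat_lit 5) (nat_lit 4) (nat_lit 4) (nat_lit 243) (nat_lit 204) (nat_lit 153)) (XT.lf (nat_lit 0) (nat_lit 571897133033) (nat_lit 76) (nat_lit 41954032381) (nat_lit 76) (nat_lit 12942423935) (nat_lit 3) (nat_lit 4) (nat_lit 4) (nat_lit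 5) (nat_lit 4) (nat_lit 4) (nat_lit 244) (nat_lit 204) (nat_lit 152))))))) (XT.nd (nat_lit 780) (nat_lit 0) (nat_lit 0) (XT.nd (nat_lit 390) (nat_lit 0) (nat_lit 0) (XT.nd (nat_lit 156) (nat_lit 0) (nat_lit 0) (XT.nd (nat_lit 78) (nat_lit 76) (nat_lit 0) (XT.lf (nat_lit 0) (nat_lit 1017291251) (nat_lit 152) (nat_lit 26898284933) (nat_lit 76) (nat_lit 691363975205) (nat_lit 2) (nat_lit 5) (nat_lit 4) (nat_lit 5) (nat_lit 3) (nat_lit 4) (nat_lit 245) (nat_lit 204) (nat_lit 151)) (XT.lf (nat_lit 0) (nat_lit 5195476980) (nat_lit 76) (nat_lit 11252612136) (nat_lit 152) (nat_lit 809151952890) (nat_lit 1) (nat_lit 5) (nat_lit 2) (nat_lit 5) (nat_lit 3) (nat_lit 4) (nat_lit 246) (nat_lit 204) (nat_lit 150))) (XT.nd (nat_lit 78) (nat_lit 0) (nat_lit 0) (XT.lf (nat_lit 0) (nat_lit 35184145906) (nat_lit 152) (nat_lit 904290091576) (nat_lit 0) (nat_lit 8315121523) (nat_lit 1) (nat_lit 5) (nat_lit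 3) (nat_lit 4) (nat_lit 1) (nat_lit 4) (nat_lit 247) (nat_lit 204) (nat_lit 149)) (XT.nd (nat_lit 78) (nat_lit 0) (nat_lit 0) (XT.lf (nat_lit 0) (nat_lit 57039181242) (nat_lit 152) (nat_lit 1001074661928) (nat_lit 0) (nat_lit 30168548203) (nat_lit 1) (nat_lit 5) (nat_lit 3) (nat_lit 4) (nat_lit 1) (nat_lit 4) (nat_lit 248) (nat_lit 204) (nat_lit 148)) (XT.lf (nat_lit 0) (nat_lit 82170168049) (nat_lit 152) (nat_lit 1112381261650) (nat_lit 0) (nat_lit 55298136177) (nat_lit 1) (nat_lit 5) (nat_lit 3) (nat_lit 4) (nat_lit 1) (nat_lit 4) (nat_lit 249) (nat_lit 204) (nat_lit 147))))) (XT.nd (nat_lit 156) (nat_lit 0) (nat_lit 0) (XT.nd (nat_lit 78) (nat_lit 0) (nat_lit 0) (XT.lf (nat_lit 0) (nat_lit 111068799546) (nat_lit 152) (nat_lit 1240387628562) (nat_lit 0) (nat_lit 84195551299) (nat_lit 1) (nat_lit 5) (nat_lit 3) (nat_lit 4) (nat_lit 1) (nat_lit 4) (nat_lit 250) (nat_lit 204) (nat_lit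 146)) (XT.lf (nat_lit 0) (nat_lit 144300483742) (nat_lit 152) (nat_lit 1387598235059) (nat_lit 0) (nat_lit 117426177777) (nat_lit 1) (nat_lit 5) (nat_lit 3) (nat_lit 4) (nat_lit 1) (nat_lit 4) (nat_lit 251) (nat_lit 204) (nat_lit 145))) (XT.nd (nat_lit 78) (nat_lit 0) (nat_lit 0) (XT.lf (nat_lit 0) (nat_lit 182515405762) (nat_lit 152) (nat_lit 1556893288661) (nat_lit 0) (nat_lit 155640180042) (nat_lit 1) (nat_lit 5) (nat_lit 3) (nat_lit 4) (nat_lit 1) (nat_lit 4) (nat_lit 252) (nat_lit 204) (nat_lit 144)) (XT.nd (nat_lit 78) (nat_lit 0) (nat_lit 0) (XT.lf (nat_lit 0) (nat_lit 226461248862) (nat_lit 152) (nat_lit 1751585083895) (nat_lit 0) (nat_lit 199585223356) (nat_lit 1) (nat_lit 5) (nat_lit 3) (nat_lit 4) (nat_lit 1) (nat_lit 4) (nat_lit 253) (nat_lit 204) (nat_lit 143)) (XT.lf (nat_lit 0) (nat_lit 276997823017) (nat_lit 152) (nat_lit 1975482808057) (nat_lit 0) (nat_lit 250121102044)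 (nat_lit 1) (nat_lit 5) (nat_lit 3) (nat_lit 4) (nat_lit 1) (nat_lit 4) (nat_lit 254) (nat_lit 204) (nat_lit 142)))))) (XT.nd (nat_lit 390) (nat_lit 0) (nat_lit 0) (XT.nd (nat_lit 156) (nat_lit 0) (nat_lit 0) (XT.nd (nat_lit 78) (nat_lit 0) (nat_lit 0) (XT.lf (nat_lit 0) (nat_lit 335113887286) (nat_lit 152) (nat_lit 2232967068796) (nat_lit 0) (nat_lit 308236561559) (nat_lit 1) (nat_lit 5) (nat_lit 3) (nat_lit 4) (nat_lit 1) (nat_lit 4) (nat_lit 255) (nat_lit 204) (nat_lit 141)) (XT.lf (nat_lit 0) (nat_lit 401946495101) (nat_lit 152) (nat_lit 2529075601647) (nat_lit 0) (nat_lit 375068643501) (nat_lit 1) (nat_lit 5) (nat_lit 3) (nat_lit 4) (nat_lit 1) (nat_lit 4) (nat_lit 256) (nat_lit 204) (nat_lit 140))) (XT.nd (nat_lit 78) (nat_lit 0) (nat_lit 0) (XT.lf (nat_lit 0) (nat_lit 478803240961) (nat_lit 152) (nat_lit 2869601834427) (nat_lit 0) (nat_lit 451924932081) (nat_lit 1) (nat_lit 5)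 (nat_lit 3) (nat_lit 4) (nat_lit 1) (nat_lit 4) (nat_lit 257) (nat_lit 204) (nat_lit 139)) (XT.nd (nat_lit 78) (nat_lit 0) (nat_lit 0) (XT.lf (nat_lit 0) (nat_lit 567187843809) (nat_lit 152) (nat_lit 3261208236908) (nat_lit 0) (nat_lit 540309137293) (nat_lit 1) (nat_lit 5) (nat_lit 3) (nat_lit 4) (nat_lit 1) (nat_lit 4) (nat_lit 258) (nat_lit 204) (nat_lit 138)) (XT.lf (nat_lit 0) (nat_lit 668829567612) (nat_lit 152) (nat_lit 3711556673486) (nat_lit 0) (nat_lit 641950515326) (nat_lit 1) (nat_lit 5) (nat_lit 3) (nat_lit 4) (nat_lit 1) (nat_lit 4) (nat_lit 259) (nat_lit 204) (nat_lit 137))))) (XT.nd (nat_lit 27066) (nat_lit 0) (nat_lit 2812) (XT.nd (nat_lit 26988) (nat_lit 0) (nat_lit 3192) (XT.lf (nat_lit 0) (nat_lit 785717054793) (nat_lit 152) (nat_lit 4229458309224) (nat_lit 0) (nat_lit 758837701838) (nat_lit 1) (nat_lit 5) (nat_lit 3) (nat_lit 4) (nat_lit 1) (nat_lit 4) (nat_lit 260)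 (nat_lit 204) (nat_lit 136)) (XT.lf (nat_lit 0) (nat_lit 1045252770) (nat_lit 0) (nat_lit 1045252770) (nat_lit 380) (nat_lit 2351380554) (nat_lit 43) (nat_lit 5) (nat_lit 43) (nat_lit 3) (nat_lit 48) (nat_lit 3) (nat_lit 205) (nat_lit 205) (nat_lit 190))) (XT.nd (nat_lit 78) (nat_lit 380) (nat_lit 0) (XT.lf (nat_lit 76) (nat_lit 306732327) (nat_lit 0) (nat_lit 5782075114) (nat_lit 456) (nat_lit 3324892973) (nat_lit 44) (nat_lit 5) (nat_lit 43) (nat_lit 5) (nat_lit 49) (nat_lit 5) (nat_lit 206) (nat_lit 205) (nat_lit 189)) (XT.nd (nat_lit 78) (nat_lit 456) (nat_lit 0) (XT.lf (nat_lit 0) (nat_lit 8279126306) (nat_lit 380) (nat_lit 1380279572) (nat_lit 456) (nat_lit 365573660) (nat_lit 44) (nat_lit 5) (nat_lit 49) (nat_lit 5) (nat_lit 50) (nat_lit 5) (nat_lit 207) (nat_lit 205) (nat_lit 188)) (XT.lf (nat_lit 0) (nat_lit 179647937) (nat_lit 456) (nat_lit 3169199561) (nat_lit 532) (nat_lit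 7371183546) (nat_lit 38) (nat_lit 5) (nat_lit 44) (nat_lit 5) (nat_lit 45) (nat_lit 5) (nat_lit 208) (nat_lit 205) (nat_lit 187))))))))
noncomputable def xc31 : XT := (XT.nd (nat_lit 1560) (nat_lit 456) (nat_lit 0) (XT.nd (nat_lit 780) (nat_lit 608) (nat_lit 0) (XT.nd (nat_lit 390) (nat_lit 912) (nat_lit 0) (XT.nd (nat_lit 156) (nat_lit 456) (nat_lit 0) (XT.nd (nat_lit 78) (nat_lit 456) (nat_lit 0) (XT.lf (nat_lit 0) (nat_lit 2382302792) (nat_lit 456) (nat_lit 5119880229) (nat_lit 76) (nat_lit 4007292454) (nat_lit 39) (nat_lit 5) (nat_lit 45) (nat_lit 5) (nat_lit 40) (nat_lit 5) (nat_lit 209) (nat_lit 205) (nat_lit 186)) (XT.lf (nat_lit 0) (nat_lit 5043931083) (nat_lit 532) (nat_lit 7252219870) (nat_lit 76) (nat_lit 111855377) (nat_lit 33) (nat_lit 5) (nat_lit 40) (nat_lit 5) (nat_lit 34) (nat_lit 5) (nat_lit 210) (nat_lit 205) (nat_lit 185))) (XT.nd (nat_lit 78) (nat_lit 228) (nat_lit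 0) (XT.lf (nat_lit 0) (nat_lit 3656581828) (nat_lit 228) (nat_lit 4731741645) (nat_lit 304) (nat_lit 5031142864) (nat_lit 30) (nat_lit 5) (nat_lit 33) (nat_lit 5) (nat_lit 34) (nat_lit 5) (nat_lit 211) (nat_lit 205) (nat_lit 184)) (XT.nd (nat_lit 78) (nat_lit 76) (nat_lit 0) (XT.lf (nat_lit 0) (nat_lit 1902929592) (nat_lit 152) (nat_lit 10542027788) (nat_lit 228) (nat_lit 2121564059) (nat_lit 28) (nat_lit 5) (nat_lit 30) (nat_lit 5) (nat_lit 31) (nat_lit 5) (nat_lit 212) (nat_lit 205) (nat_lit 183)) (XT.lf (nat_lit 0) (nat_lit 1449984902) (nat_lit 228) (nat_lit 280890284) (nat_lit 76) (nat_lit 14130042831) (nat_lit 27) (nat_lit 5) (nat_lit 30) (nat_lit 5) (nat_lit 28) (nat_lit 5) (nat_lit 213) (nat_lit 205) (nat_lit 182))))) (XT.nd (nat_lit 156) (nat_lit 532) (nat_lit 0) (XT.nd (nat_lit 78) (nat_lit 152) (nat_lit 0) (XT.lf (nat_lit 0) (nat_lit 5877733194) (nat_lit 304) (nat_lit 3053035631)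 (nat_lit 76) (nat_lit 8379115824) (nat_lit 24) (nat_lit 5) (nat_lit 28) (nat_lit 5) (nat_lit 25) (nat_lit 5) (nat_lit 214) (nat_lit 205) (nat_lit 181)) (XT.lf (nat_lit 0) (nat_lit 11249012900) (nat_lit 228) (nat_lit 6530500200) (nat_lit 76) (nat_lit 1174773632) (nat_lit 22) (nat_lit 5) (nat_lit 25) (nat_lit 5) (nat_lit 23) (nat_lit 5) (nat_lit 215) (nat_lit 205) (nat_lit 180))) (XT.nd (nat_lit 78) (nat_lit 380) (nat_lit 0) (XT.lf (nat_lit 0) (nat_lit 9671642647) (nat_lit 152) (nat_lit 8229108815) (nat_lit 228) (nat_lit 2906998915) (nat_lit 20) (nat_lit 5) (nat_lit 22) (nat_lit 5) (nat_lit 23) (nat_lit 5) (nat_lit 216) (nat_lit 205) (nat_lit 179)) (XT.nd (nat_lit 78) (nat_lit 152) (nat_lit 0) (XT.lf (nat_lit 0) (nat_lit 2803549763) (nat_lit 228) (nat_lit 17114158500) (nat_lit 76) (nat_lit 2990958062) (nat_lit 17) (nat_lit 5) (nat_lit 20) (nat_lit 5) (nat_lit 18) (nat_lit 5) (nat_lit 217)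 (nat_lit 205) (nat_lit 178)) (XT.lf (nat_lit 0) (nat_lit 213875088) (nat_lit 152) (nat_lit 9473990548) (nat_lit 228) (nat_lit 15591936449) (nat_lit 15) (nat_lit 5) (nat_lit 17) (nat_lit 5) (nat_lit 18) (nat_lit 5) (nat_lit 218) (nat_lit 205) (nat_lit 177)))))) (XT.nd (nat_lit 390) (nat_lit 228) (nat_lit 0) (XT.nd (nat_lit 156) (nat_lit 304) (nat_lit 0) (XT.nd (nat_lit 78) (nat_lit 76) (nat_lit 0) (XT.lf (nat_lit 0) (nat_lit 18103071386) (nat_lit 228) (nat_lit 6978859275) (nat_lit 76) (nat_lit 2885051082) (nat_lit 15) (nat_lit 5) (nat_lit 18) (nat_lit 5) (nat_lit 16) (nat_lit 4) (nat_lit 219) (nat_lit 205) (nat_lit 176)) (XT.lf (nat_lit 0) (nat_lit 14167370241) (nat_lit 76) (nat_lit 14151629764) (nat_lit 152) (nat_lit 2695365534) (nat_lit 14) (nat_lit 5) (nat_lit 15) (nat_lit 5) (nat_lit 16) (nat_lit 4) (nat_lit 220) (nat_lit 205) (nat_lit 175))) (XT.nd (nat_lit 78) (nat_lit 76) (nat_lit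 0) (XT.lf (nat_lit 0) (nat_lit 4391113993) (nat_lit 152) (nat_lit 1134042403) (nat_lit 228) (nat_lit 28962848190) (nat_lit 11) (nat_lit 5) (nat_lit 13) (nat_lit 5) (nat_lit 14) (nat_lit 5) (nat_lit 221) (nat_lit 205) (nat_lit 174)) (XT.nd (nat_lit 78) (nat_lit 76) (nat_lit 0) (XT.lf (nat_lit 0) (nat_lit 15604770850) (nat_lit 228) (nat_lit 9119334485) (nat_lit 76) (nat_lit 13690276412) (nat_lit 11) (nat_lit 5) (nat_lit 14) (nat_lit 5) (nat_lit 12) (nat_lit 4) (nat_lit 222) (nat_lit 205) (nat_lit 173)) (XT.lf (nat_lit 0) (nat_lit 15678689956) (nat_lit 76) (nat_lit 11878327217) (nat_lit 152) (nat_lit 15343966448) (nat_lit 10) (nat_lit 5) (nat_lit 11) (nat_lit 5) (nat_lit 12) (nat_lit 4) (nat_lit 223) (nat_lit 205) (nat_lit 172))))) (XT.nd (nat_lit 156) (nat_lit 76) (nat_lit 0) (XT.nd (nat_lit 78) (nat_lit 152) (nat_lit 0) (XT.lf (nat_lit 0) (nat_lit 41600141834) (nat_lit 152) (nat_lit 3442465479)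 (nat_lit 0) (nat_lit 2994232382) (nat_lit 10) (nat_lit 5) (nat_lit 12) (nat_lit 4) (nat_lit 10) (nat_lit 4) (nat_lit 224) (nat_lit 205) (nat_lit 171)) (XT.lf (nat_lit 0) (nat_lit 4524643125) (nat_lit 152) (nat_lit 29238513622) (nat_lit 76) (nat_lit 20100007209) (nat_lit 8) (nat_lit 5) (nat_lit 10) (nat_lit 5) (nat_lit 9) (nat_lit 4) (nat_lit 225) (nat_lit 205) (nat_lit 170))) (XT.nd (nat_lit 78) (nat_lit 76) (nat_lit 0) (XT.lf (nat_lit 0) (nat_lit 16827062854) (nat_lit 152) (nat_lit 3687621342) (nat_lit 76) (nat_lit 40029212624) (nat_lit 8) (nat_lit 5) (nat_lit 10) (nat_lit 5) (nat_lit 9) (nat_lit 4) (nat_lit 226) (nat_lit 205) (nat_lit 169)) (XT.nd (nat_lit 78) (nat_lit 0) (nat_lit 0) (XT.lf (nat_lit 0) (nat_lit 26992368187) (nat_lit 76) (nat_lit 4600634765) (nat_lit 152) (nat_lit 36584349351) (nat_lit 7) (nat_lit 5) (nat_lit 8) (nat_lit 5) (nat_lit 9) (nat_lit 4) (nat_lit 227) (nat_lit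 205) (nat_lit 168)) (XT.lf (nat_lit 0) (nat_lit 48984824801) (nat_lit 152) (nat_lit 14832907578) (nat_lit 0) (nat_lit 13105271239) (nat_lit 7) (nat_lit 5) (nat_lit 9) (nat_lit 4) (nat_lit 7) (nat_lit 4) (nat_lit 228) (nat_lit 205) (nat_lit 167))))))) (XT.nd (nat_lit 780) (nat_lit 152) (nat_lit 0) (XT.nd (nat_lit 390) (nat_lit 76) (nat_lit 0) (XT.nd (nat_lit 156) (nat_lit 152) (nat_lit 0) (XT.nd (nat_lit 78) (nat_lit 0) (nat_lit 0) (XT.lf (nat_lit 0) (nat_lit 16106035043) (nat_lit 76) (nat_lit 53369058572) (nat_lit 76) (nat_lit 17466284484) (nat_lit 6) (nat_lit 4) (nat_lit 7) (nat_lit 5) (nat_lit 7) (nat_lit 4) (nat_lit 229) (nat_lit 205) (nat_lit 166)) (XT.lf (nat_lit 0) (nat_lit 52543420149) (nat_lit 76) (nat_lit 40904680761) (nat_lit 76) (nat_lit 4981714912) (nat_lit 6) (nat_lit 4) (nat_lit 7) (nat_lit 5) (nat_lit 7) (nat_lit 4) (nat_lit 230) (nat_lit 205) (nat_lit 165))) (XT.nd (nat_lit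 78) (nat_lit 76) (nat_lit 0) (XT.lf (nat_lit 0) (nat_lit 8886298504) (nat_lit 152) (nat_lit 17457023011) (nat_lit 76) (nat_lit 85281812822) (nat_lit 5) (nat_lit 5) (nat_lit 7) (nat_lit 5) (nat_lit 6) (nat_lit 4) (nat_lit 231) (nat_lit 205) (nat_lit 164)) (XT.nd (nat_lit 78) (nat_lit 0) (nat_lit 0) (XT.lf (nat_lit 0) (nat_lit 15860707992) (nat_lit 76) (nat_lit 9051070740) (nat_lit 152) (nat_lit 101847871301) (nat_lit 4) (nat_lit 5) (nat_lit 5) (nat_lit 5) (nat_lit 6) (nat_lit 4) (nat_lit 232) (nat_lit 205) (nat_lit 163)) (XT.lf (nat_lit 0) (nat_lit 44106793198) (nat_lit 152) (nat_lit 89194218608) (nat_lit 0) (nat_lit 10802100435) (nat_lit 4) (nat_lit 5) (nat_lit 6) (nat_lit 4) (nat_lit 4) (nat_lit 4) (nat_lit 233) (nat_lit 205) (nat_lit 162))))) (XT.nd (nat_lit 156) (nat_lit 76) (nat_lit 0) (XT.nd (nat_lit 78) (nat_lit 0) (nat_lit 0) (XT.lf (nat_lit 0) (nat_lit 66417204177) (nat_lit 152)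 (nat_lit 64510198905) (nat_lit 0) (nat_lit 33101821873) (nat_lit 4) (nat_lit 5) (nat_lit 6) (nat_lit 4) (nat_lit 4) (nat_lit 4) (nat_lit 234) (nat_lit 205) (nat_lit 161)) (XT.lf (nat_lit 0) (nat_lit 92061841243) (nat_lit 152) (nat_lit 36146256254) (nat_lit 0) (nat_lit 58737163686) (nat_lit 4) (nat_lit 5) (nat_lit 6) (nat_lit 4) (nat_lit 4) (nat_lit 4) (nat_lit 235) (nat_lit 205) (nat_lit 160))) (XT.nd (nat_lit 78) (nat_lit 76) (nat_lit 0) (XT.lf (nat_lit 0) (nat_lit 121542447295) (nat_lit 152) (nat_lit 3547443949) (nat_lit 0) (nat_lit 88209686909) (nat_lit 4) (nat_lit 5) (nat_lit 6) (nat_lit 4) (nat_lit 4) (nat_lit 4) (nat_lit 236) (nat_lit 205) (nat_lit 159)) (XT.nd (nat_lit 78) (nat_lit 0) (nat_lit 0) (XT.lf (nat_lit 0) (nat_lit 35710420730) (nat_lit 76) (nat_lit 120584232546) (nat_lit 76) (nat_lit 87244443613) (nat_lit 3) (nat_lit 4) (nat_lit 4) (nat_lit 5) (nat_lit 4) (nat_lit 4)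 (nat_lit 237) (nat_lit 205) (nat_lit 158)) (XT.lf (nat_lit 0) (nat_lit 81056089804) (nat_lit 76) (nat_lit 115298392002) (nat_lit 76) (nat_lit 81952491289) (nat_lit 3) (nat_lit 4) (nat_lit 4) (nat_lit 5) (nat_lit 4) (nat_lit 4) (nat_lit 238) (nat_lit 205) (nat_lit 157)))))) (XT.nd (nat_lit 390) (nat_lit 152) (nat_lit 0) (XT.nd (nat_lit 156) (nat_lit 0) (nat_lit 0) (XT.nd (nat_lit 78) (nat_lit 0) (nat_lit 0) (XT.lf (nat_lit 0) (nat_lit 133189959034) (nat_lit 76) (nat_lit 109225944398) (nat_lit 76) (nat_lit 75874729093) (nat_lit 3) (nat_lit 4) (nat_lit 4) (nat_lit 5) (nat_lit 4) (nat_lit 4) (nat_lit 239) (nat_lit 205) (nat_lit 156)) (XT.lf (nat_lit 0) (nat_lit 193132038904) (nat_lit 76) (nat_lit 102248080976) (nat_lit 76) (nat_lit 68892244288) (nat_lit 3) (nat_lit 4) (nat_lit 4) (nat_lit 5) (nat_lit 4) (nat_lit 4) (nat_lit 240) (nat_lit 205) (nat_lit 155))) (XT.nd (nat_lit 78) (nat_lit 0)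 (nat_lit 0) (XT.lf (nat_lit 0) (nat_lit 262055109238) (nat_lit 76) (nat_lit 94228278322) (nat_lit 76) (nat_lit 60868423039) (nat_lit 3) (nat_lit 4) (nat_lit 4) (nat_lit 5) (nat_lit 4) (nat_lit 4) (nat_lit 241) (nat_lit 205) (nat_lit 154)) (XT.nd (nat_lit 78) (nat_lit 0) (nat_lit 0) (XT.lf (nat_lit 0) (nat_lit 341307664890) (nat_lit 76) (nat_lit 85009627253) (nat_lit 76) (nat_lit 51646277540) (nat_lit 3) (nat_lit 4) (nat_lit 4) (nat_lit 5) (nat_lit 4) (nat_lit 4) (nat_lit 242) (nat_lit 205) (nat_lit 153)) (XT.lf (nat_lit 0) (nat_lit 432440299341) (nat_lit 76) (nat_lit 74411762857) (nat_lit 76) (nat_lit 41045374509) (nat_lit 3) (nat_lit 4) (nat_lit 4) (nat_lit 5) (nat_lit 4) (nat_lit 4) (nat_lit 243) (nat_lit 205) (nat_lit 152))))) (XT.nd (nat_lit 234) (nat_lit 76) (nat_lit 0) (XT.nd (nat_lit 78) (nat_lit 76) (nat_lit 0) (XT.lf (nat_lit 0) (nat_lit 537236042394) (nat_lit 76) (nat_lit 62227335613)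 (nat_lit 76) (nat_lit 28858304974) (nat_lit 3) (nat_lit 4) (nat_lit 4) (nat_lit 5) (nat_lit 4) (nat_lit 4) (nat_lit 244) (nat_lit 205) (nat_lit 151)) (XT.nd (nat_lit 78) (nat_lit 76) (nat_lit 0) (XT.lf (nat_lit 0) (nat_lit 657745245545) (nat_lit 76) (nat_lit 48217954554) (nat_lit 76) (nat_lit 14846626270) (nat_lit 3) (nat_lit 4) (nat_lit 4) (nat_lit 5) (nat_lit 4) (nat_lit 4) (nat_lit 245) (nat_lit 205) (nat_lit 150)) (XT.lf (nat_lit 0) (nat_lit 1200582590) (nat_lit 152) (nat_lit 30876114447) (nat_lit 76) (nat_lit 795092288905) (nat_lit 2) (nat_lit 5) (nat_lit 4) (nat_lit 5) (nat_lit 3) (nat_lit 4) (nat_lit 246) (nat_lit 205) (nat_lit 149)))) (XT.nd (nat_lit 78) (nat_lit 0) (nat_lit 0) (XT.lf (nat_lit 0) (nat_lit 6026894332) (nat_lit 76) (nat_lit 12916354665) (nat_lit 152) (nat_lit 930494526765) (nat_lit 1) (nat_lit 5) (nat_lit 2) (nat_lit 5) (nat_lit 3) (nat_lit 4) (nat_lit 247) (nat_lit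 205) (nat_lit 148)) (XT.nd (nat_lit 78) (nat_lit 0) (nat_lit 0) (XT.lf (nat_lit 0) (nat_lit 40486574145) (nat_lit 152) (nat_lit 1039886833523) (nat_lit 0) (nat_lit 9582338661) (nat_lit 1) (nat_lit 5) (nat_lit 3) (nat_lit 4) (nat_lit 1) (nat_lit 4) (nat_lit 248) (nat_lit 205) (nat_lit 147)) (XT.lf (nat_lit 0) (nat_lit 65616629170) (nat_lit 152) (nat_lit 1151195190096) (nat_lit 0) (nat_lit 34711177311) (nat_lit 1) (nat_lit 5) (nat_lit 3) (nat_lit 4) (nat_lit 1) (nat_lit 4) (nat_lit 249) (nat_lit 205) (nat_lit 146))))))))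
noncomputable def xc32 : XT := (XT.nd (nat_lit 28548) (nat_lit 0) (nat_lit 228) (XT.nd (nat_lit 780) (nat_lit 0) (nat_lit 0) (XT.nd (nat_lit 390) (nat_lit 0) (nat_lit 0) (XT.nd (nat_lit 156) (nat_lit 0) (nat_lit 0) (XT.nd (nat_lit 78) (nat_lit 0) (nat_lit 0) (XT.lf (nat_lit 0) (nat_lit 94514450423) (nat_lit 152) (nat_lit 1279203084705) (nat_lit 0) (nat_lit 63607940845) (nat_lit 1) (nat_lit 5) (nat_lit 3) (nat_lit 4) (nat_lit 1) (nat_lit 4) (nat_lit 250) (nat_lit 205) (nat_lit 145)) (XT.lf (nat_lit 0) (nat_lit 127745430058) (nat_lit 152) (nat_lit 1426415019635) (nat_lit 0) (nat_lit 96838000726) (nat_lit 1) (nat_lit 5) (nat_lit 3) (nat_lit 4) (nat_lit 1) (nat_lit 4) (nat_lit 251) (nat_lit 205) (nat_lit 144))) (XT.nd (nat_lit 78) (nat_lit 0) (nat_lit 0) (XT.lf (nat_lit 0) (nat_lit 165959739416) (nat_lit 152) (nat_lit 1595711228396) (nat_lit 0) (nat_lit 135051510297) (nat_lit 1) (nat_lit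 5) (nat_lit 3) (nat_lit 4) (nat_lit 1) (nat_lit 4) (nat_lit 252) (nat_lit 205) (nat_lit 143)) (XT.nd (nat_lit 78) (nat_lit 0) (nat_lit 0) (XT.lf (nat_lit 0) (nat_lit 209905049768) (nat_lit 152) (nat_lit 1790404028115) (nat_lit 0) (nat_lit 178996125182) (nat_lit 1) (nat_lit 5) (nat_lit 3) (nat_lit 4) (nat_lit 1) (nat_lit 4) (nat_lit 253) (nat_lit 205) (nat_lit 142)) (XT.lf (nat_lit 0) (nat_lit 260441160663) (nat_lit 152) (nat_lit 2014302625744) (nat_lit 0) (nat_lit 229531631323) (nat_lit 1) (nat_lit 5) (nat_lit 3) (nat_lit 4) (nat_lit 1) (nat_lit 4) (nat_lit 254) (nat_lit 205) (nat_lit 141))))) (XT.nd (nat_lit 156) (nat_lit 0) (nat_lit 0) (XT.nd (nat_lit 78) (nat_lit 0) (nat_lit 0) (XT.lf (nat_lit 0) (nat_lit 318556822097) (nat_lit 152) (nat_lit 2271787646018) (nat_lit 0) (nat_lit 287646766884) (nat_lit 1) (nat_lit 5) (nat_lit 3) (nat_lit 4) (nat_lit 1) (nat_lit 4) (nat_lit 255) (nat_lit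 205) (nat_lit 140)) (XT.lf (nat_lit 0) (nat_lit 385389079620) (nat_lit 152) (nat_lit 2567896839335) (nat_lit 0) (nat_lit 354478567127) (nat_lit 1) (nat_lit 5) (nat_lit 3) (nat_lit 4) (nat_lit 1) (nat_lit 4) (nat_lit 256) (nat_lit 205) (nat_lit 139))) (XT.nd (nat_lit 78) (nat_lit 0) (nat_lit 0) (XT.lf (nat_lit 0) (nat_lit 462245520880) (nat_lit 152) (nat_lit 2908423646433) (nat_lit 0) (nat_lit 431334610751) (nat_lit 1) (nat_lit 5) (nat_lit 3) (nat_lit 4) (nat_lit 1) (nat_lit 4) (nat_lit 257) (nat_lit 205) (nat_lit 138)) (XT.nd (nat_lit 78) (nat_lit 0) (nat_lit 0) (XT.lf (nat_lit 0) (nat_lit 550629858857) (nat_lit 152) (nat_lit 3300030548320) (nat_lit 0) (nat_lit 519718602958) (nat_lit 1) (nat_lit 5) (nat_lit 3) (nat_lit 4) (nat_lit 1) (nat_lit 4) (nat_lit 258) (nat_lit 205) (nat_lit 137)) (XT.lf (nat_lit 0) (nat_lit 652271352338) (nat_lit 152) (nat_lit 3750379419165) (nat_lit 0) (nat_lit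 621359795770) (nat_lit 1) (nat_lit 5) (nat_lit 3) (nat_lit 4) (nat_lit 1) (nat_lit 4) (nat_lit 259) (nat_lit 205) (nat_lit 136)))))) (XT.nd (nat_lit 27378) (nat_lit 0) (nat_lit 1748) (XT.nd (nat_lit 27144) (nat_lit 0) (nat_lit 2736) (XT.nd (nat_lit 27066) (nat_lit 0) (nat_lit 3192) (XT.lf (nat_lit 0) (nat_lit 769158639239) (nat_lit 152) (nat_lit 4268281432527) (nat_lit 0) (nat_lit 738246821219) (nat_lit 1) (nat_lit 5) (nat_lit 3) (nat_lit 4) (nat_lit 1) (nat_lit 4) (nat_lit 260) (nat_lit 205) (nat_lit 135)) (XT.lf (nat_lit 0) (nat_lit 1918631674) (nat_lit 0) (nat_lit 1918631674) (nat_lit 380) (nat_lit 1147799150) (nat_lit 43) (nat_lit 5) (nat_lit 43) (nat_lit 3) (nat_lit 48) (nat_lit 3) (nat_lit 206) (nat_lit 206) (nat_lit 188))) (XT.nd (nat_lit 78) (nat_lit 456) (nat_lit 0) (XT.lf (nat_lit 76) (nat_lit 1921535262) (nat_lit 0) (nat_lit 7580840976) (nat_lit 456) (nat_lit 1108660378) (nat_lit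 44) (nat_lit 5) (nat_lit 43) (nat_lit 5) (nat_lit 49) (nat_lit 5) (nat_lit 207) (nat_lit 206) (nat_lit 187)) (XT.nd (nat_lit 78) (nat_lit 0) (nat_lit 76) (XT.lf (nat_lit 0) (nat_lit 324525563) (nat_lit 456) (nat_lit 34014109) (nat_lit 532) (nat_lit 10983668941) (nat_lit 37) (nat_lit 5) (nat_lit 43) (nat_lit 5) (nat_lit 44) (nat_lit 5) (nat_lit 208) (nat_lit 206) (nat_lit 186)) (XT.lf (nat_lit 0) (nat_lit 2174894863) (nat_lit 456) (nat_lit 2093204621) (nat_lit 532) (nat_lit 7892180951) (nat_lit 38) (nat_lit 5) (nat_lit 44) (nat_lit 5) (nat_lit 45) (nat_lit 5) (nat_lit 209) (nat_lit 206) (nat_lit 185))))) (XT.nd (nat_lit 156) (nat_lit 684) (nat_lit 0) (XT.nd (nat_lit 78) (nat_lit 456) (nat_lit 0) (XT.lf (nat_lit 0) (nat_lit 4477533544) (nat_lit 456) (nat_lit 4311365106) (nat_lit 76) (nat_lit 4299018374) (nat_lit 39) (nat_lit 5) (nat_lit 45) (nat_lit 5) (nat_lit 40) (nat_lit 5) (nat_lit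 210) (nat_lit 206) (nat_lit 184)) (XT.lf (nat_lit 0) (nat_lit 7343957199) (nat_lit 532) (nat_lit 6763070144) (nat_lit 76) (nat_lit 30923329) (nat_lit 33) (nat_lit 5) (nat_lit 40) (nat_lit 5) (nat_lit 34) (nat_lit 5) (nat_lit 211) (nat_lit 206) (nat_lit 183))) (XT.nd (nat_lit 78) (nat_lit 456) (nat_lit 0) (XT.lf (nat_lit 0) (nat_lit 5648568077) (nat_lit 228) (nat_lit 5374838758) (nat_lit 304) (nat_lit 4292065978) (nat_lit 30) (nat_lit 5) (nat_lit 33) (nat_lit 5) (nat_lit 34) (nat_lit 5) (nat_lit 212) (nat_lit 206) (nat_lit 182)) (XT.nd (nat_lit 78) (nat_lit 304) (nat_lit 0) (XT.lf (nat_lit 0) (nat_lit 3615232774) (nat_lit 152) (nat_lit 11929426158) (nat_lit 228) (nat_lit 1102320010) (nat_lit 28) (nat_lit 5) (nat_lit 30) (nat_lit 5) (nat_lit 31) (nat_lit 5) (nat_lit 213) (nat_lit 206) (nat_lit 181)) (XT.lf (nat_lit 0) (nat_lit 1032283030) (nat_lit 228) (nat_lit 1764871742) (nat_lit 304)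 (nat_lit 15347789595) (nat_lit 24) (nat_lit 5) (nat_lit 27) (nat_lit 5) (nat_lit 28) (nat_lit 5) (nat_lit 214) (nat_lit 206) (nat_lit 180))))))) (XT.nd (nat_lit 780) (nat_lit 456) (nat_lit 0) (XT.nd (nat_lit 390) (nat_lit 380) (nat_lit 0) (XT.nd (nat_lit 156) (nat_lit 532) (nat_lit 0) (XT.nd (nat_lit 78) (nat_lit 152) (nat_lit 0) (XT.lf (nat_lit 0) (nat_lit 7753731334) (nat_lit 304) (nat_lit 2239301092) (nat_lit 76) (nat_lit 9829668231) (nat_lit 24) (nat_lit 5) (nat_lit 28) (nat_lit 5) (nat_lit 25) (nat_lit 5) (nat_lit 215) (nat_lit 206) (nat_lit 179)) (XT.lf (nat_lit 0) (nat_lit 13835529516) (nat_lit 228) (nat_lit 6277561715) (nat_lit 76) (nat_lit 1608823045) (nat_lit 22) (nat_lit 5) (nat_lit 25) (nat_lit 5) (nat_lit 23) (nat_lit 5) (nat_lit 216) (nat_lit 206) (nat_lit 178))) (XT.nd (nat_lit 78) (nat_lit 380) (nat_lit 0) (XT.lf (nat_lit 0) (nat_lit 12250576429) (nat_lit 152) (nat_lit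 9144303017) (nat_lit 228) (nat_lit 2466197230) (nat_lit 20) (nat_lit 5) (nat_lit 22) (nat_lit 5) (nat_lit 23) (nat_lit 5) (nat_lit 217) (nat_lit 206) (nat_lit 177)) (XT.nd (nat_lit 78) (nat_lit 152) (nat_lit 0) (XT.lf (nat_lit 0) (nat_lit 3982107884) (nat_lit 228) (nat_lit 18551098061) (nat_lit 76) (nat_lit 3748610195) (nat_lit 17) (nat_lit 5) (nat_lit 20) (nat_lit 5) (nat_lit 18) (nat_lit 5) (nat_lit 218) (nat_lit 206) (nat_lit 176)) (XT.lf (nat_lit 0) (nat_lit 1280476101) (nat_lit 152) (nat_lit 10544602351) (nat_lit 228) (nat_lit 17189790369) (nat_lit 15) (nat_lit 5) (nat_lit 17) (nat_lit 5) (nat_lit 18) (nat_lit 5) (nat_lit 219) (nat_lit 206) (nat_lit 175))))) (XT.nd (nat_lit 156) (nat_lit 304) (nat_lit 0) (XT.nd (nat_lit 78) (nat_lit 76) (nat_lit 0) (XT.lf (nat_lit 0) (nat_lit 21420673125) (nat_lit 228) (nat_lit 7083954156) (nat_lit 76) (nat_lit 3607333972) (nat_lit 15) (nat_lit 5)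 (nat_lit 18) (nat_lit 5) (nat_lit 16) (nat_lit 4) (nat_lit 220) (nat_lit 206) (nat_lit 174)) (XT.lf (nat_lit 0) (nat_lit 17154496694) (nat_lit 76) (nat_lit 15956685832) (nat_lit 152) (nat_lit 2510142138) (nat_lit 14) (nat_lit 5) (nat_lit 15) (nat_lit 5) (nat_lit 16) (nat_lit 4) (nat_lit 221) (nat_lit 206) (nat_lit 173))) (XT.nd (nat_lit 78) (nat_lit 76) (nat_lit 0) (XT.lf (nat_lit 0) (nat_lit 5867228290) (nat_lit 152) (nat_lit 993350440) (nat_lit 228) (nat_lit 32758766854) (nat_lit 11) (nat_lit 5) (nat_lit 13) (nat_lit 5) (nat_lit 14) (nat_lit 5) (nat_lit 222) (nat_lit 206) (nat_lit 172)) (XT.nd (nat_lit 78) (nat_lit 76) (nat_lit 0) (XT.lf (nat_lit 0) (nat_lit 18392550461) (nat_lit 228) (nat_lit 9746511022) (nat_lit 76) (nat_lit 16000557816) (nat_lit 11) (nat_lit 5) (nat_lit 14) (nat_lit 5) (nat_lit 12) (nat_lit 4) (nat_lit 223) (nat_lit 206) (nat_lit 171)) (XT.lf (nat_lit 0) (nat_lit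 18708518519) (nat_lit 76) (nat_lit 13387109039) (nat_lit 152) (nat_lit 17207094989) (nat_lit 10) (nat_lit 5) (nat_lit 11) (nat_lit 5) (nat_lit 12) (nat_lit 4) (nat_lit 224) (nat_lit 206) (nat_lit 170)))))) (XT.nd (nat_lit 390) (nat_lit 228) (nat_lit 0) (XT.nd (nat_lit 156) (nat_lit 76) (nat_lit 0) (XT.nd (nat_lit 78) (nat_lit 152) (nat_lit 0) (XT.lf (nat_lit 0) (nat_lit 48198095873) (nat_lit 152) (nat_lit 3345905894) (nat_lit 0) (nat_lit 3668856224) (nat_lit 10) (nat_lit 5) (nat_lit 12) (nat_lit 4) (nat_lit 10) (nat_lit 4) (nat_lit 225) (nat_lit 206) (nat_lit 169)) (XT.lf (nat_lit 0) (nat_lit 5537234661) (nat_lit 152) (nat_lit 33044957428) (nat_lit 76) (nat_lit 23333031926) (nat_lit 8) (nat_lit 5) (nat_lit 10) (nat_lit 5) (nat_lit 9) (nat_lit 4) (nat_lit 226) (nat_lit 206) (nat_lit 168))) (XT.nd (nat_lit 78) (nat_lit 76) (nat_lit 0) (XT.lf (nat_lit 0) (nat_lit 19641465819) (nat_lit 152)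 (nat_lit 3736996512) (nat_lit 76) (nat_lit 46223180287) (nat_lit 8) (nat_lit 5) (nat_lit 10) (nat_lit 5) (nat_lit 9) (nat_lit 4) (nat_lit 227) (nat_lit 206) (nat_lit 167)) (XT.nd (nat_lit 78) (nat_lit 0) (nat_lit 0) (XT.lf (nat_lit 0) (nat_lit 31502349993) (nat_lit 76) (nat_lit 5093166149) (nat_lit 152) (nat_lit 41786822473) (nat_lit 7) (nat_lit 5) (nat_lit 8) (nat_lit 5) (nat_lit 9) (nat_lit 4) (nat_lit 228) (nat_lit 206) (nat_lit 166)) (XT.lf (nat_lit 0) (nat_lit 56565865183) (nat_lit 152) (nat_lit 16642198760) (nat_lit 0) (nat_lit 15234262697) (nat_lit 7) (nat_lit 5) (nat_lit 9) (nat_lit 4) (nat_lit 7) (nat_lit 4) (nat_lit 229) (nat_lit 206) (nat_lit 165))))) (XT.nd (nat_lit 156) (nat_lit 152) (nat_lit 0) (XT.nd (nat_lit 78) (nat_lit 0) (nat_lit 0) (XT.lf (nat_lit 0) (nat_lit 18902402978) (nat_lit 76) (nat_lit 61205988868) (nat_lit 76) (nat_lit 19856828330) (nat_lit 6) (nat_lit 4)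 (nat_lit 7) (nat_lit 5) (nat_lit 7) (nat_lit 4) (nat_lit 230) (nat_lit 206) (nat_lit 164)) (XT.lf (nat_lit 0) (nat_lit 60755770284) (nat_lit 76) (nat_lit 46893923319) (nat_lit 76) (nat_lit 5529494908) (nat_lit 6) (nat_lit 4) (nat_lit 7) (nat_lit 5) (nat_lit 7) (nat_lit 4) (nat_lit 231) (nat_lit 206) (nat_lit 163))) (XT.nd (nat_lit 78) (nat_lit 76) (nat_lit 0) (XT.lf (nat_lit 0) (nat_lit 10384024655) (nat_lit 152) (nat_lit 19778933537) (nat_lit 76) (nat_lit 98192482401) (nat_lit 5) (nat_lit 5) (nat_lit 7) (nat_lit 5) (nat_lit 6) (nat_lit 4) (nat_lit 232) (nat_lit 206) (nat_lit 162)) (XT.nd (nat_lit 78) (nat_lit 0) (nat_lit 0) (XT.lf (nat_lit 0) (nat_lit 18511347770) (nat_lit 76) (nat_lit 10287016314) (nat_lit 152) (nat_lit 116963003289) (nat_lit 4) (nat_lit 5) (nat_lit 5) (nat_lit 5) (nat_lit 6) (nat_lit 4) (nat_lit 233) (nat_lit 206) (nat_lit 161)) (XT.lf (nat_lit 0) (nat_lit 50855634604)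 (nat_lit 152) (nat_lit 102329145751) (nat_lit 0) (nat_lit 12522960160) (nat_lit 4) (nat_lit 5) (nat_lit 6) (nat_lit 4) (nat_lit 4) (nat_lit 4) (nat_lit 234) (nat_lit 206) (nat_lit 160))))))))
noncomputable def xc33 : XT := (XT.nd (nat_lit 1560) (nat_lit 0) (nat_lit 0) (XT.nd (nat_lit 780) (nat_lit 152) (nat_lit 0) (XT.nd (nat_lit 390) (nat_lit 0) (nat_lit 0) (XT.nd (nat_lit 156) (nat_lit 76) (nat_lit 0) (XT.nd (nat_lit 78) (nat_lit 0) (nat_lit 0) (XT.lf (nat_lit 0) (nat_lit 76495282566) (nat_lit 152) (nat_lit 73974376004) (nat_lit 0) (nat_lit 38154525293) (nat_lit 4) (nat_lit 5) (nat_lit 6) (nat_lit 4) (nat_lit 4) (nat_lit 4) (nat_lit 235) (nat_lit 206) (nat_lit 159)) (XT.lf (nat_lit 0) (nat_lit 105971550267) (nat_lit 152) (nat_lit 41383540138) (nat_lit 0) (nat_lit 67623764446) (nat_lit 4) (nat_lit 5) (nat_lit 6) (nat_lit 4) (nat_lit 4) (nat_lit 4) (nat_lit 236) (nat_lit 206) (nat_lit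 158))) (XT.nd (nat_lit 78) (nat_lit 76) (nat_lit 0) (XT.lf (nat_lit 0) (nat_lit 139861147291) (nat_lit 152) (nat_lit 3918991364) (nat_lit 0) (nat_lit 101507249691) (nat_lit 4) (nat_lit 5) (nat_lit 6) (nat_lit 4) (nat_lit 4) (nat_lit 4) (nat_lit 237) (nat_lit 206) (nat_lit 157)) (XT.nd (nat_lit 78) (nat_lit 0) (nat_lit 0) (XT.lf (nat_lit 0) (nat_lit 41213961636) (nat_lit 76) (nat_lit 138604366105) (nat_lit 76) (nat_lit 100245153913) (nat_lit 3) (nat_lit 4) (nat_lit 4) (nat_lit 5) (nat_lit 4) (nat_lit 4) (nat_lit 238) (nat_lit 206) (nat_lit 156)) (XT.lf (nat_lit 0) (nat_lit 93342310055) (nat_lit 76) (nat_lit 132534454000) (nat_lit 76) (nat_lit 94170620424) (nat_lit 3) (nat_lit 4) (nat_lit 4) (nat_lit 5) (nat_lit 4) (nat_lit 4) (nat_lit 239) (nat_lit 206) (nat_lit 155))))) (XT.nd (nat_lit 156) (nat_lit 0) (nat_lit 0) (XT.nd (nat_lit 78) (nat_lit 0) (nat_lit 0) (XT.lf (nat_lit 0) (nat_lit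 153279589219) (nat_lit 76) (nat_lit 125558795360) (nat_lit 76) (nat_lit 87190943190) (nat_lit 3) (nat_lit 4) (nat_lit 4) (nat_lit 5) (nat_lit 4) (nat_lit 4) (nat_lit 240) (nat_lit 206) (nat_lit 154)) (XT.lf (nat_lit 0) (nat_lit 222198485027) (nat_lit 76) (nat_lit 117540909907) (nat_lit 76) (nat_lit 79169563307) (nat_lit 3) (nat_lit 4) (nat_lit 4) (nat_lit 5) (nat_lit 4) (nat_lit 4) (nat_lit 241) (nat_lit 206) (nat_lit 153))) (XT.nd (nat_lit 78) (nat_lit 0) (nat_lit 0) (XT.lf (nat_lit 0) (nat_lit 301447410656) (nat_lit 76) (nat_lit 108323925970) (nat_lit 76) (nat_lit 69949540735) (nat_lit 3) (nat_lit 4) (nat_lit 4) (nat_lit 5) (nat_lit 4) (nat_lit 4) (nat_lit 242) (nat_lit 206) (nat_lit 152)) (XT.nd (nat_lit 78) (nat_lit 0) (nat_lit 0) (XT.lf (nat_lit 0) (nat_lit 392576888565) (nat_lit 76) (nat_lit 97727511254) (nat_lit 76) (nat_lit 59350483728) (nat_lit 3) (nat_lit 4) (nat_lit 4) (nat_lit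 5) (nat_lit 4) (nat_lit 4) (nat_lit 243) (nat_lit 206) (nat_lit 151)) (XT.lf (nat_lit 0) (nat_lit 497369886799) (nat_lit 76) (nat_lit 85544344601) (nat_lit 76) (nat_lit 47165019430) (nat_lit 3) (nat_lit 4) (nat_lit 4) (nat_lit 5) (nat_lit 4) (nat_lit 4) (nat_lit 244) (nat_lit 206) (nat_lit 150)))))) (XT.nd (nat_lit 390) (nat_lit 0) (nat_lit 0) (XT.nd (nat_lit 156) (nat_lit 152) (nat_lit 0) (XT.nd (nat_lit 78) (nat_lit 0) (nat_lit 0) (XT.lf (nat_lit 0) (nat_lit 617876703151) (nat_lit 76) (nat_lit 71536059708) (nat_lit 76) (nat_lit 33154736585) (nat_lit 3) (nat_lit 4) (nat_lit 4) (nat_lit 5) (nat_lit 4) (nat_lit 4) (nat_lit 245) (nat_lit 206) (nat_lit 149)) (XT.lf (nat_lit 0) (nat_lit 756455079679) (nat_lit 76) (nat_lit 55428581435) (nat_lit 76) (nat_lit 17045520963) (nat_lit 3) (nat_lit 4) (nat_lit 4) (nat_lit 5) (nat_lit 4) (nat_lit 4) (nat_lit 246) (nat_lit 206) (nat_lit 148))) (XT.nd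 (nat_lit 78) (nat_lit 76) (nat_lit 0) (XT.lf (nat_lit 0) (nat_lit 1403881813) (nat_lit 152) (nat_lit 35464497037) (nat_lit 76) (nat_lit 914374066016) (nat_lit 2) (nat_lit 5) (nat_lit 4) (nat_lit 5) (nat_lit 3) (nat_lit 4) (nat_lit 247) (nat_lit 206) (nat_lit 147)) (XT.nd (nat_lit 78) (nat_lit 0) (nat_lit 0) (XT.lf (nat_lit 0) (nat_lit 6970320396) (nat_lit 76) (nat_lit 14835547532) (nat_lit 152) (nat_lit 1070045855830) (nat_lit 1) (nat_lit 5) (nat_lit 2) (nat_lit 5) (nat_lit 3) (nat_lit 4) (nat_lit 248) (nat_lit 206) (nat_lit 146)) (XT.lf (nat_lit 0) (nat_lit 46578317434) (nat_lit 152) (nat_lit 1195834492359) (nat_lit 0) (nat_lit 11034773701) (nat_lit 1) (nat_lit 5) (nat_lit 3) (nat_lit 4) (nat_lit 1) (nat_lit 4) (nat_lit 249) (nat_lit 206) (nat_lit 145))))) (XT.nd (nat_lit 156) (nat_lit 0) (nat_lit 0) (XT.nd (nat_lit 78) (nat_lit 0) (nat_lit 0) (XT.lf (nat_lit 0) (nat_lit 75475434126)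 (nat_lit 152) (nat_lit 1323843715400) (nat_lit 0) (nat_lit 39930970639) (nat_lit 1) (nat_lit 5) (nat_lit 3) (nat_lit 4) (nat_lit 1) (nat_lit 4) (nat_lit 250) (nat_lit 206) (nat_lit 144)) (XT.lf (nat_lit 0) (nat_lit 108705801100) (nat_lit 152) (nat_lit 1471056805489) (nat_lit 0) (nat_lit 73160537826) (nat_lit 1) (nat_lit 5) (nat_lit 3) (nat_lit 4) (nat_lit 1) (nat_lit 4) (nat_lit 251) (nat_lit 206) (nat_lit 143))) (XT.nd (nat_lit 78) (nat_lit 0) (nat_lit 0) (XT.lf (nat_lit 0) (nat_lit 146919577709) (nat_lit 152) (nat_lit 1640354018735) (nat_lit 0) (nat_lit 111373618968) (nat_lit 1) (nat_lit 5) (nat_lit 3) (nat_lit 4) (nat_lit 1) (nat_lit 4) (nat_lit 252) (nat_lit 206) (nat_lit 142)) (XT.nd (nat_lit 78) (nat_lit 0) (nat_lit 0) (XT.lf (nat_lit 0) (nat_lit 190864424800) (nat_lit 152) (nat_lit 1835047691920) (nat_lit 0) (nat_lit 155317861306) (nat_lit 1) (nat_lit 5) (nat_lit 3) (nat_lit 4)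 (nat_lit 1) (nat_lit 4) (nat_lit 253) (nat_lit 206) (nat_lit 141)) (XT.lf (nat_lit 0) (nat_lit 241400132860) (nat_lit 152) (nat_lit 2058947049084) (nat_lit 0) (nat_lit 205853043493) (nat_lit 1) (nat_lit 5) (nat_lit 3) (nat_lit 4) (nat_lit 1) (nat_lit 4) (nat_lit 254) (nat_lit 206) (nat_lit 140))))))) (XT.nd (nat_lit 27846) (nat_lit 0) (nat_lit 1064) (XT.nd (nat_lit 390) (nat_lit 0) (nat_lit 0) (XT.nd (nat_lit 156) (nat_lit 0) (nat_lit 0) (XT.nd (nat_lit 78) (nat_lit 0) (nat_lit 0) (XT.lf (nat_lit 0) (nat_lit 299515444003) (nat_lit 152) (nat_lit 2316432729824) (nat_lit 0) (nat_lit 263967897355) (nat_lit 1) (nat_lit 5) (nat_lit 3) (nat_lit 4) (nat_lit 1) (nat_lit 4) (nat_lit 255) (nat_lit 206) (nat_lit 139)) (XT.lf (nat_lit 0) (nat_lit 366347396925) (nat_lit 152) (nat_lit 2612542497459) (nat_lit 0) (nat_lit 330799452642) (nat_lit 1) (nat_lit 5) (nat_lit 3) (nat_lit 4) (nat_lit 1) (nat_lit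 4) (nat_lit 256) (nat_lit 206) (nat_lit 138))) (XT.nd (nat_lit 78) (nat_lit 0) (nat_lit 0) (XT.lf (nat_lit 0) (nat_lit 443203573314) (nat_lit 152) (nat_lit 2953069803964) (nat_lit 0) (nat_lit 407655283261) (nat_lit 1) (nat_lit 5) (nat_lit 3) (nat_lit 4) (nat_lit 1) (nat_lit 4) (nat_lit 257) (nat_lit 206) (nat_lit 137)) (XT.nd (nat_lit 78) (nat_lit 0) (nat_lit 0) (XT.lf (nat_lit 0) (nat_lit 531587680969) (nat_lit 152) (nat_lit 3344677140118) (nat_lit 0) (nat_lit 496039090247) (nat_lit 1) (nat_lit 5) (nat_lit 3) (nat_lit 4) (nat_lit 1) (nat_lit 4) (nat_lit 258) (nat_lit 206) (nat_lit 136)) (XT.lf (nat_lit 0) (nat_lit 633228974170) (nat_lit 152) (nat_lit 3795026388587) (nat_lit 0) (nat_lit 597680121996) (nat_lit 1) (nat_lit 5) (nat_lit 3) (nat_lit 4) (nat_lit 1) (nat_lit 4) (nat_lit 259) (nat_lit 206) (nat_lit 135))))) (XT.nd (nat_lit 27222) (nat_lit 0) (nat_lit 2736) (XT.nd (nat_lit 27144)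 (nat_lit 0) (nat_lit 3192) (XT.lf (nat_lit 0) (nat_lit 750116086914) (nat_lit 152) (nat_lit 4312928730316) (nat_lit 0) (nat_lit 714567007391) (nat_lit 1) (nat_lit 5) (nat_lit 3) (nat_lit 4) (nat_lit 1) (nat_lit 4) (nat_lit 260) (nat_lit 206) (nat_lit 134)) (XT.lf (nat_lit 0) (nat_lit 2748272164) (nat_lit 0) (nat_lit 2748272164) (nat_lit 380) (nat_lit 143191338) (nat_lit 43) (nat_lit 5) (nat_lit 43) (nat_lit 3) (nat_lit 48) (nat_lit 3) (nat_lit 207) (nat_lit 207) (nat_lit 186))) (XT.nd (nat_lit 78) (nat_lit 0) (nat_lit 0) (XT.lf (nat_lit 0) (nat_lit 739029345) (nat_lit 456) (nat_lit 8663044899) (nat_lit 532) (nat_lit 2636762791) (nat_lit 37) (nat_lit 5) (nat_lit 43) (nat_lit 5) (nat_lit 44) (nat_lit 5) (nat_lit 208) (nat_lit 207) (nat_lit 185)) (XT.nd (nat_lit 78) (nat_lit 0) (nat_lit 76) (XT.lf (nat_lit 76) (nat_lit 1148070432) (nat_lit 0) (nat_lit 948579997) (nat_lit 532) (nat_lit 10800064849)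 (nat_lit 38) (nat_lit 5) (nat_lit 37) (nat_lit 5) (nat_lit 44) (nat_lit 5) (nat_lit 209) (nat_lit 207) (nat_lit 184)) (XT.lf (nat_lit 0) (nat_lit 3989446472) (nat_lit 456) (nat_lit 1234123029) (nat_lit 532) (nat_lit 8633905919) (nat_lit 38) (nat_lit 5) (nat_lit 44) (nat_lit 5) (nat_lit 45) (nat_lit 5) (nat_lit 210) (nat_lit 207) (nat_lit 183)))))) (XT.nd (nat_lit 390) (nat_lit 684) (nat_lit 0) (XT.nd (nat_lit 156) (nat_lit 684) (nat_lit 0) (XT.nd (nat_lit 78) (nat_lit 456) (nat_lit 0) (XT.lf (nat_lit 0) (nat_lit 6463254564) (nat_lit 456) (nat_lit 3766011531) (nat_lit 76) (nat_lit 4709944515) (nat_lit 39) (nat_lit 5) (nat_lit 45) (nat_lit 5) (nat_lit 40) (nat_lit 5) (nat_lit 211) (nat_lit 207) (nat_lit 182)) (XT.lf (nat_lit 0) (nat_lit 9573241472) (nat_lit 456) (nat_lit 40339165) (nat_lit 532) (nat_lit 6545736171) (nat_lit 33) (nat_lit 5) (nat_lit 39) (nat_lit 5) (nat_lit 40) (nat_lit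 5) (nat_lit 212) (nat_lit 207) (nat_lit 181))) (XT.nd (nat_lit 78) (nat_lit 456) (nat_lit 0) (XT.lf (nat_lit 0) (nat_lit 7587345897) (nat_lit 228) (nat_lit 6130656908) (nat_lit 304) (nat_lit 3806387545) (nat_lit 30) (nat_lit 5) (nat_lit 33) (nat_lit 5) (nat_lit 34) (nat_lit 5) (nat_lit 213) (nat_lit 207) (nat_lit 180)) (XT.nd (nat_lit 78) (nat_lit 304) (nat_lit 0) (XT.lf (nat_lit 0) (nat_lit 5236431674) (nat_lit 152) (nat_lit 13572219441) (nat_lit 228) (nat_lit 256341994) (nat_lit 28) (nat_lit 5) (nat_lit 30) (nat_lit 5) (nat_lit 31) (nat_lit 5) (nat_lit 214) (nat_lit 207) (nat_lit 179)) (XT.lf (nat_lit 0) (nat_lit 2224794082) (nat_lit 228) (nat_lit 1852311943) (nat_lit 304) (nat_lit 16717167462) (nat_lit 24) (nat_lit 5) (nat_lit 27) (nat_lit 5) (nat_lit 28) (nat_lit 5) (nat_lit 215) (nat_lit 207) (nat_lit 178))))) (XT.nd (nat_lit 234) (nat_lit 380) (nat_lit 0) (XT.nd (nat_lit 78) (nat_lit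 304) (nat_lit 0) (XT.lf (nat_lit 0) (nat_lit 9668653537) (nat_lit 304) (nat_lit 1613616003) (nat_lit 76) (nat_lit 11450572178) (nat_lit 24) (nat_lit 5) (nat_lit 28) (nat_lit 5) (nat_lit 25) (nat_lit 5) (nat_lit 216) (nat_lit 207) (nat_lit 177)) (XT.nd (nat_lit 78) (nat_lit 152) (nat_lit 0) (XT.lf (nat_lit 0) (nat_lit 16590756622) (nat_lit 228) (nat_lit 6287238683) (nat_lit 76) (nat_lit 2045105570) (nat_lit 22) (nat_lit 5) (nat_lit 25) (nat_lit 5) (nat_lit 23) (nat_lit 5) (nat_lit 217) (nat_lit 207) (nat_lit 176)) (XT.lf (nat_lit 0) (nat_lit 14941234640) (nat_lit 152) (nat_lit 10274608492) (nat_lit 228) (nat_lit 2173101089) (nat_lit 20) (nat_lit 5) (nat_lit 22) (nat_lit 5) (nat_lit 23) (nat_lit 5) (nat_lit 218) (nat_lit 207) (nat_lit 175)))) (XT.nd (nat_lit 78) (nat_lit 152) (nat_lit 0) (XT.lf (nat_lit 0) (nat_lit 5152600366) (nat_lit 228) (nat_lit 20479181134) (nat_lit 76) (nat_lit 4544556488)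 (nat_lit 17) (nat_lit 5) (nat_lit 20) (nat_lit 5) (nat_lit 18) (nat_lit 5) (nat_lit 219) (nat_lit 207) (nat_lit 174)) (XT.nd (nat_lit 78) (nat_lit 0) (nat_lit 0) (XT.lf (nat_lit 0) (nat_lit 2254793074) (nat_lit 152) (nat_lit 11861274344) (nat_lit 228) (nat_lit 19208004447) (nat_lit 15) (nat_lit 5) (nat_lit 17) (nat_lit 5) (nat_lit 18) (nat_lit 5) (nat_lit 220) (nat_lit 207) (nat_lit 173)) (XT.lf (nat_lit 0) (nat_lit 25089079220) (nat_lit 228) (nat_lit 7434461071) (nat_lit 76) (nat_lit 4367356736) (nat_lit 15) (nat_lit 5) (nat_lit 18) (nat_lit 5) (nat_lit 16) (nat_lit 4) (nat_lit 221) (nat_lit 207) (nat_lit 172))))))))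
noncomputable def xc34 : XT := (XT.nd (nat_lit 1560) (nat_lit 152) (nat_lit 0) (XT.nd (nat_lit 780) (nat_lit 228) (nat_lit 0) (XT.nd (nat_lit 390) (nat_lit 304) (nat_lit 0) (XT.nd (nat_lit 156) (nat_lit 76) (nat_lit 0) (XT.nd (nat_lit 78) (nat_lit 228) (nat_lit 0) (XT.lf (nat_lit 0) (nat_lit 20379482855) (nat_lit 76) (nat_lit 18109970637) (nat_lit 152) (nat_lit 2440895425) (nat_lit 14) (nat_lit 5) (nat_lit 15) (nat_lit 5) (nat_lit 16) (nat_lit 4) (nat_lit 222) (nat_lit 207) (nat_lit 171)) (XT.lf (nat_lit 0) (nat_lit 7365420055) (nat_lit 152) (nat_lit 907344821) (nat_lit 228) (nat_lit 37257830605) (nat_lit 11) (nat_lit 5) (nat_lit 13) (nat_lit 5) (nat_lit 14) (nat_lit 5) (nat_lit 223) (nat_lit 207) (nat_lit 170))) (XT.nd (nat_lit 78) (nat_lit 76) (nat_lit 0) (XT.lf (nat_lit 0) (nat_lit 21489477630) (nat_lit 228) (nat_lit 10648394189) (nat_lit 76) (nat_lit 18594773769) (nat_lit 11) (nat_lit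 5) (nat_lit 14) (nat_lit 5) (nat_lit 12) (nat_lit 4) (nat_lit 224) (nat_lit 207) (nat_lit 169)) (XT.nd (nat_lit 78) (nat_lit 0) (nat_lit 0) (XT.lf (nat_lit 0) (nat_lit 22027480659) (nat_lit 76) (nat_lit 15188772930) (nat_lit 152) (nat_lit 19456615625) (nat_lit 10) (nat_lit 5) (nat_lit 11) (nat_lit 5) (nat_lit 12) (nat_lit 4) (nat_lit 225) (nat_lit 207) (nat_lit 168)) (XT.lf (nat_lit 0) (nat_lit 55698458846) (nat_lit 152) (nat_lit 3384329088) (nat_lit 0) (nat_lit 4389686726) (nat_lit 10) (nat_lit 5) (nat_lit 12) (nat_lit 4) (nat_lit 10) (nat_lit 4) (nat_lit 226) (nat_lit 207) (nat_lit 167))))) (XT.nd (nat_lit 156) (nat_lit 152) (nat_lit 0) (XT.nd (nat_lit 78) (nat_lit 0) (nat_lit 0) (XT.lf (nat_lit 0) (nat_lit 6620292501) (nat_lit 152) (nat_lit 37563641884) (nat_lit 76) (nat_lit 26997843906) (nat_lit 8) (nat_lit 5) (nat_lit 10) (nat_lit 5) (nat_lit 9) (nat_lit 4) (nat_lit 227) (nat_lit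 207) (nat_lit 166)) (XT.lf (nat_lit 0) (nat_lit 22807227119) (nat_lit 152) (nat_lit 3916624981) (nat_lit 76) (nat_lit 53300011409) (nat_lit 8) (nat_lit 5) (nat_lit 10) (nat_lit 5) (nat_lit 9) (nat_lit 4) (nat_lit 228) (nat_lit 207) (nat_lit 165))) (XT.nd (nat_lit 78) (nat_lit 76) (nat_lit 0) (XT.lf (nat_lit 0) (nat_lit 36576380433) (nat_lit 76) (nat_lit 5707754431) (nat_lit 152) (nat_lit 47839209336) (nat_lit 7) (nat_lit 5) (nat_lit 8) (nat_lit 5) (nat_lit 9) (nat_lit 4) (nat_lit 229) (nat_lit 207) (nat_lit 164)) (XT.nd (nat_lit 78) (nat_lit 76) (nat_lit 0) (XT.lf (nat_lit 0) (nat_lit 65227165877) (nat_lit 152) (nat_lit 18824241274) (nat_lit 0) (nat_lit 17642805333) (nat_lit 7) (nat_lit 5) (nat_lit 9) (nat_lit 4) (nat_lit 7) (nat_lit 4) (nat_lit 230) (nat_lit 207) (nat_lit 163)) (XT.lf (nat_lit 0) (nat_lit 22025447871) (nat_lit 76) (nat_lit 70259531064) (nat_lit 76) (nat_lit 22661894109)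 (nat_lit 6) (nat_lit 4) (nat_lit 7) (nat_lit 5) (nat_lit 7) (nat_lit 4) (nat_lit 231) (nat_lit 207) (nat_lit 162)))))) (XT.nd (nat_lit 390) (nat_lit 76) (nat_lit 0) (XT.nd (nat_lit 156) (nat_lit 76) (nat_lit 0) (XT.nd (nat_lit 78) (nat_lit 76) (nat_lit 0) (XT.lf (nat_lit 0) (nat_lit 70119296214) (nat_lit 76) (nat_lit 53817267352) (nat_lit 76) (nat_lit 6208085692) (nat_lit 6) (nat_lit 4) (nat_lit 7) (nat_lit 5) (nat_lit 7) (nat_lit 4) (nat_lit 232) (nat_lit 207) (nat_lit 161)) (XT.lf (nat_lit 0) (nat_lit 12066226747) (nat_lit 152) (nat_lit 22521468899) (nat_lit 76) (nat_lit 113010880398) (nat_lit 5) (nat_lit 5) (nat_lit 7) (nat_lit 5) (nat_lit 6) (nat_lit 4) (nat_lit 233) (nat_lit 207) (nat_lit 160))) (XT.nd (nat_lit 78) (nat_lit 0) (nat_lit 0) (XT.lf (nat_lit 0) (nat_lit 21493368332) (nat_lit 76) (nat_lit 11738034706) (nat_lit 152) (nat_lit 134384921678) (nat_lit 4) (nat_lit 5) (nat_lit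 5) (nat_lit 5) (nat_lit 6) (nat_lit 4) (nat_lit 234) (nat_lit 207) (nat_lit 159)) (XT.nd (nat_lit 78) (nat_lit 0) (nat_lit 0) (XT.lf (nat_lit 0) (nat_lit 58584412632) (nat_lit 152) (nat_lit 117493863059) (nat_lit 0) (nat_lit 14477430392) (nat_lit 4) (nat_lit 5) (nat_lit 6) (nat_lit 4) (nat_lit 4) (nat_lit 4) (nat_lit 235) (nat_lit 207) (nat_lit 158)) (XT.lf (nat_lit 0) (nat_lit 88056907853) (nat_lit 152) (nat_lit 84909963227) (nat_lit 0) (nat_lit 43943813833) (nat_lit 4) (nat_lit 5) (nat_lit 6) (nat_lit 4) (nat_lit 4) (nat_lit 4) (nat_lit 236) (nat_lit 207) (nat_lit 157))))) (XT.nd (nat_lit 156) (nat_lit 76) (nat_lit 0) (XT.nd (nat_lit 78) (nat_lit 0) (nat_lit 0) (XT.lf (nat_lit 0) (nat_lit 121943224461) (nat_lit 152) (nat_lit 47451445786) (nat_lit 0) (nat_lit 77824815849) (nat_lit 4) (nat_lit 5) (nat_lit 6) (nat_lit 4) (nat_lit 4) (nat_lit 4) (nat_lit 237) (nat_lit 207) (nat_lit 156))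 (XT.lf (nat_lit 0) (nat_lit 160906355606) (nat_lit 152) (nat_lit 4385426702) (nat_lit 0) (nat_lit 116783325610) (nat_lit 4) (nat_lit 5) (nat_lit 6) (nat_lit 4) (nat_lit 4) (nat_lit 4) (nat_lit 238) (nat_lit 207) (nat_lit 155))) (XT.nd (nat_lit 78) (nat_lit 0) (nat_lit 0) (XT.lf (nat_lit 0) (nat_lit 47507192212) (nat_lit 76) (nat_lit 159343980322) (nat_lit 76) (nat_lit 115216931732) (nat_lit 3) (nat_lit 4) (nat_lit 4) (nat_lit 5) (nat_lit 4) (nat_lit 4) (nat_lit 239) (nat_lit 207) (nat_lit 154)) (XT.nd (nat_lit 78) (nat_lit 0) (nat_lit 0) (XT.lf (nat_lit 0) (nat_lit 107440296850) (nat_lit 76) (nat_lit 152370238884) (nat_lit 76) (nat_lit 108239695864) (nat_lit 3) (nat_lit 4) (nat_lit 4) (nat_lit 5) (nat_lit 4) (nat_lit 4) (nat_lit 240) (nat_lit 207) (nat_lit 153)) (XT.lf (nat_lit 0) (nat_lit 176355562635) (nat_lit 76) (nat_lit 144354020563) (nat_lit 76) (nat_lit 100220438908) (nat_lit 3)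 (nat_lit 4) (nat_lit 4) (nat_lit 5) (nat_lit 4) (nat_lit 4) (nat_lit 241) (nat_lit 207) (nat_lit 152))))))) (XT.nd (nat_lit 780) (nat_lit 0) (nat_lit 0) (XT.nd (nat_lit 390) (nat_lit 152) (nat_lit 0) (XT.nd (nat_lit 156) (nat_lit 0) (nat_lit 0) (XT.nd (nat_lit 78) (nat_lit 0) (nat_lit 0) (XT.lf (nat_lit 0) (nat_lit 255601331722) (nat_lit 76) (nat_lit 135138486306) (nat_lit 76) (nat_lit 91002262360) (nat_lit 3) (nat_lit 4) (nat_lit 4) (nat_lit 5) (nat_lit 4) (nat_lit 4) (nat_lit 242) (nat_lit 207) (nat_lit 151)) (XT.lf (nat_lit 0) (nat_lit 346728064812) (nat_lit 76) (nat_lit 124543332181) (nat_lit 76) (nat_lit 80404810590) (nat_lit 3) (nat_lit 4) (nat_lit 4) (nat_lit 5) (nat_lit 4) (nat_lit 4) (nat_lit 243) (nat_lit 207) (nat_lit 150))) (XT.nd (nat_lit 78) (nat_lit 0) (nat_lit 0) (XT.lf (nat_lit 0) (nat_lit 451518676248) (nat_lit 76) (nat_lit 112361261694) (nat_lit 76) (nat_lit 68220742152)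 (nat_lit 3) (nat_lit 4) (nat_lit 4) (nat_lit 5) (nat_lit 4) (nat_lit 4) (nat_lit 244) (nat_lit 207) (nat_lit 149)) (XT.nd (nat_lit 78) (nat_lit 0) (nat_lit 0) (XT.lf (nat_lit 0) (nat_lit 572023417122) (nat_lit 76) (nat_lit 98353929989) (nat_lit 76) (nat_lit 54211673097) (nat_lit 3) (nat_lit 4) (nat_lit 4) (nat_lit 5) (nat_lit 4) (nat_lit 4) (nat_lit 245) (nat_lit 207) (nat_lit 148)) (XT.lf (nat_lit 0) (nat_lit 710599988887) (nat_lit 76) (nat_lit 82247280575) (nat_lit 76) (nat_lit 38103512945) (nat_lit 3) (nat_lit 4) (nat_lit 4) (nat_lit 5) (nat_lit 4) (nat_lit 4) (nat_lit 246) (nat_lit 207) (nat_lit 147))))) (XT.nd (nat_lit 156) (nat_lit 76) (nat_lit 0) (XT.nd (nat_lit 78) (nat_lit 76) (nat_lit 0) (XT.lf (nat_lit 0) (nat_lit 869959672295) (nat_lit 76) (nat_lit 63726183355) (nat_lit 76) (nat_lit 19581102039) (nat_lit 3) (nat_lit 4) (nat_lit 4) (nat_lit 5) (nat_lit 4) (nat_lit 4) (nat_lit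 247) (nat_lit 207) (nat_lit 146)) (XT.lf (nat_lit 0) (nat_lit 1632015567) (nat_lit 152) (nat_lit 40751631271) (nat_lit 76) (nat_lit 1051543736430) (nat_lit 2) (nat_lit 5) (nat_lit 4) (nat_lit 5) (nat_lit 3) (nat_lit 4) (nat_lit 248) (nat_lit 207) (nat_lit 145))) (XT.nd (nat_lit 78) (nat_lit 0) (nat_lit 0) (XT.lf (nat_lit 0) (nat_lit 8045654402) (nat_lit 76) (nat_lit 17047072226) (nat_lit 152) (nat_lit 1230535456360) (nat_lit 1) (nat_lit 5) (nat_lit 2) (nat_lit 5) (nat_lit 3) (nat_lit 4) (nat_lit 249) (nat_lit 207) (nat_lit 144)) (XT.nd (nat_lit 78) (nat_lit 0) (nat_lit 0) (XT.lf (nat_lit 0) (nat_lit 53579248162) (nat_lit 152) (nat_lit 1375182924290) (nat_lit 0) (nat_lit 12701395610) (nat_lit 1) (nat_lit 5) (nat_lit 3) (nat_lit 4) (nat_lit 1) (nat_lit 4) (nat_lit 250) (nat_lit 207) (nat_lit 143)) (XT.lf (nat_lit 0) (nat_lit 86809082386) (nat_lit 152) (nat_lit 1522397018864) (nat_lit 0)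 (nat_lit 45930534368) (nat_lit 1) (nat_lit 5) (nat_lit 3) (nat_lit 4) (nat_lit 1) (nat_lit 4) (nat_lit 251) (nat_lit 207) (nat_lit 142)))))) (XT.nd (nat_lit 390) (nat_lit 0) (nat_lit 0) (XT.nd (nat_lit 156) (nat_lit 0) (nat_lit 0) (XT.nd (nat_lit 78) (nat_lit 0) (nat_lit 0) (XT.lf (nat_lit 0) (nat_lit 125022395736) (nat_lit 152) (nat_lit 1691695105577) (nat_lit 0) (nat_lit 84143242963) (nat_lit 1) (nat_lit 5) (nat_lit 3) (nat_lit 4) (nat_lit 1) (nat_lit 4) (nat_lit 252) (nat_lit 207) (nat_lit 141)) (XT.lf (nat_lit 0) (nat_lit 168966839992) (nat_lit 152) (nat_lit 1886389538297) (nat_lit 0) (nat_lit 128087161347) (nat_lit 1) (nat_lit 5) (nat_lit 3) (nat_lit 4) (nat_lit 1) (nat_lit 4) (nat_lit 253) (nat_lit 207) (nat_lit 140))) (XT.nd (nat_lit 78) (nat_lit 0) (nat_lit 0) (XT.lf (nat_lit 0) (nat_lit 219502197761) (nat_lit 152) (nat_lit 2110289555927) (nat_lit 0) (nat_lit 178622061835) (nat_lit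 1) (nat_lit 5) (nat_lit 3) (nat_lit 4) (nat_lit 1) (nat_lit 4) (nat_lit 254) (nat_lit 207) (nat_lit 139)) (XT.nd (nat_lit 78) (nat_lit 0) (nat_lit 0) (XT.lf (nat_lit 0) (nat_lit 277617204303) (nat_lit 152) (nat_lit 2367775810985) (nat_lit 0) (nat_lit 236736670742) (nat_lit 1) (nat_lit 5) (nat_lit 3) (nat_lit 4) (nat_lit 1) (nat_lit 4) (nat_lit 255) (nat_lit 207) (nat_lit 138)) (XT.lf (nat_lit 0) (nat_lit 344448892355) (nat_lit 152) (nat_lit 2663886078027) (nat_lit 0) (nat_lit 303568013024) (nat_lit 1) (nat_lit 5) (nat_lit 3) (nat_lit 4) (nat_lit 1) (nat_lit 4) (nat_lit 256) (nat_lit 207) (nat_lit 137))))) (XT.nd (nat_lit 156) (nat_lit 0) (nat_lit 0) (XT.nd (nat_lit 78) (nat_lit 0) (nat_lit 0) (XT.lf (nat_lit 0) (nat_lit 421304838422) (nat_lit 152) (nat_lit 3004413818799) (nat_lit 0) (nat_lit 380423658421) (nat_lit 1) (nat_lit 5) (nat_lit 3) (nat_lit 4) (nat_lit 1) (nat_lit 4) (nat_lit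 257) (nat_lit 207) (nat_lit 136)) (XT.lf (nat_lit 0) (nat_lit 509688745796) (nat_lit 152) (nat_lit 3396021532577) (nat_lit 0) (nat_lit 468807304344) (nat_lit 1) (nat_lit 5) (nat_lit 3) (nat_lit 4) (nat_lit 1) (nat_lit 4) (nat_lit 258) (nat_lit 207) (nat_lit 135))) (XT.nd (nat_lit 78) (nat_lit 0) (nat_lit 0) (XT.lf (nat_lit 0) (nat_lit 611329864841) (nat_lit 152) (nat_lit 3846371109413) (nat_lit 0) (nat_lit 570448196039) (nat_lit 1) (nat_lit 5) (nat_lit 3) (nat_lit 4) (nat_lit 1) (nat_lit 4) (nat_lit 259) (nat_lit 207) (nat_lit 134)) (XT.nd (nat_lit 27222) (nat_lit 0) (nat_lit 2660) (XT.lf (nat_lit 0) (nat_lit 728216826144) (nat_lit 152) (nat_lit 4364273736680) (nat_lit 0) (nat_lit 687334959648) (nat_lit 1) (nat_lit 5) (nat_lit 3) (nat_lit 4) (nat_lit 1) (nat_lit 4) (nat_lit 260) (nat_lit 207) (nat_lit 133)) (XT.lf (nat_lit 0) (nat_lit 688868366) (nat_lit 532) (nat_lit 2862522964) (nat_lit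 532) (nat_lit 2862522964) (nat_lit 36) (nat_lit 3) (nat_lit 43) (nat_lit 3) (nat_lit 43) (nat_lit 5) (nat_lit 208) (nat_lit 208) (nat_lit 184))))))))
noncomputable def xc35 : XT := (XT.nd (nat_lit 1560) (nat_lit 456) (nat_lit 0) (XT.nd (nat_lit 780) (nat_lit 1064) (nat_lit 0) (XT.nd (nat_lit 390) (nat_lit 836) (nat_lit 0) (XT.nd (nat_lit 156) (nat_lit 304) (nat_lit 0) (XT.nd (nat_lit 78) (nat_lit 0) (nat_lit 0) (XT.lf (nat_lit 0) (nat_lit 2324522799) (nat_lit 456) (nat_lit 8980105525) (nat_lit 532) (nat_lit 2414281451) (nat_lit 37) (nat_lit 5) (nat_lit 43) (nat_lit 5) (nat_lit 44) (nat_lit 5) (nat_lit 209) (nat_lit 208) (nat_lit 183)) (XT.lf (nat_lit 76) (nat_lit 2219522168) (nat_lit 0) (nat_lit 1495547425) (nat_lit 532) (nat_lit 11005072560) (nat_lit 38) (nat_lit 5) (nat_lit 37) (nat_lit 5) (nat_lit 44) (nat_lit 5) (nat_lit 210) (nat_lit 208) (nat_lit 182))) (XT.nd (nat_lit 78) (nat_lit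 380) (nat_lit 0) (XT.lf (nat_lit 0) (nat_lit 5713245204) (nat_lit 456) (nat_lit 532237864) (nat_lit 532) (nat_lit 9594699046) (nat_lit 38) (nat_lit 5) (nat_lit 44) (nat_lit 5) (nat_lit 45) (nat_lit 5) (nat_lit 211) (nat_lit 208) (nat_lit 181)) (XT.nd (nat_lit 78) (nat_lit 456) (nat_lit 0) (XT.lf (nat_lit 0) (nat_lit 8426384329) (nat_lit 456) (nat_lit 3429545894) (nat_lit 76) (nat_lit 5239554064) (nat_lit 39) (nat_lit 5) (nat_lit 45) (nat_lit 5) (nat_lit 40) (nat_lit 5) (nat_lit 212) (nat_lit 208) (nat_lit 180)) (XT.lf (nat_lit 0) (nat_lit 11834298801) (nat_lit 456) (nat_lit 105198068) (nat_lit 532) (nat_lit 6568557922) (nat_lit 33) (nat_lit 5) (nat_lit 39) (nat_lit 5) (nat_lit 40) (nat_lit 5) (nat_lit 213) (nat_lit 208) (nat_lit 179))))) (XT.nd (nat_lit 156) (nat_lit 380) (nat_lit 0) (XT.nd (nat_lit 78) (nat_lit 228) (nat_lit 0) (XT.lf (nat_lit 0) (nat_lit 9550773006) (nat_lit 228) (nat_lit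 7012140009) (nat_lit 304) (nat_lit 3523290230) (nat_lit 30) (nat_lit 5) (nat_lit 33) (nat_lit 5) (nat_lit 34) (nat_lit 5) (nat_lit 214) (nat_lit 208) (nat_lit 178)) (XT.lf (nat_lit 0) (nat_lit 446407445) (nat_lit 228) (nat_lit 15038573072) (nat_lit 76) (nat_lit 6379097386) (nat_lit 27) (nat_lit 5) (nat_lit 30) (nat_lit 5) (nat_lit 28) (nat_lit 5) (nat_lit 215) (nat_lit 208) (nat_lit 177))) (XT.nd (nat_lit 78) (nat_lit 152) (nat_lit 0) (XT.lf (nat_lit 0) (nat_lit 3343139733) (nat_lit 228) (nat_lit 1996101600) (nat_lit 304) (nat_lit 18519418898) (nat_lit 24) (nat_lit 5) (nat_lit 27) (nat_lit 5) (nat_lit 28) (nat_lit 5) (nat_lit 216) (nat_lit 208) (nat_lit 176)) (XT.nd (nat_lit 78) (nat_lit 152) (nat_lit 0) (XT.lf (nat_lit 0) (nat_lit 11687467638) (nat_lit 304) (nat_lit 1128565585) (nat_lit 76) (nat_lit 13278898052) (nat_lit 24) (nat_lit 5) (nat_lit 28) (nat_lit 5) (nat_lit 25) (nat_lit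 5) (nat_lit 217) (nat_lit 208) (nat_lit 175)) (XT.lf (nat_lit 0) (nat_lit 19593470440) (nat_lit 228) (nat_lit 6525630883) (nat_lit 76) (nat_lit 2499288470) (nat_lit 22) (nat_lit 5) (nat_lit 25) (nat_lit 5) (nat_lit 23) (nat_lit 5) (nat_lit 218) (nat_lit 208) (nat_lit 174)))))) (XT.nd (nat_lit 390) (nat_lit 456) (nat_lit 0) (XT.nd (nat_lit 156) (nat_lit 228) (nat_lit 0) (XT.nd (nat_lit 78) (nat_lit 228) (nat_lit 0) (XT.lf (nat_lit 0) (nat_lit 17827464635) (nat_lit 152) (nat_lit 11633312070) (nat_lit 228) (nat_lit 1997723548) (nat_lit 20) (nat_lit 5) (nat_lit 22) (nat_lit 5) (nat_lit 23) (nat_lit 5) (nat_lit 219) (nat_lit 208) (nat_lit 173)) (XT.lf (nat_lit 0) (nat_lit 6358894051) (nat_lit 228) (nat_lit 22904871811) (nat_lit 76) (nat_lit 5402916530) (nat_lit 17) (nat_lit 5) (nat_lit 20) (nat_lit 5) (nat_lit 18) (nat_lit 5) (nat_lit 220) (nat_lit 208) (nat_lit 172))) (XT.nd (nat_lit 78)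 (nat_lit 76) (nat_lit 0) (XT.lf (nat_lit 0) (nat_lit 3184502059) (nat_lit 152) (nat_lit 13440073542) (nat_lit 228) (nat_lit 21665572238) (nat_lit 15) (nat_lit 5) (nat_lit 17) (nat_lit 5) (nat_lit 18) (nat_lit 5) (nat_lit 221) (nat_lit 208) (nat_lit 171)) (XT.nd (nat_lit 78) (nat_lit 76) (nat_lit 0) (XT.lf (nat_lit 0) (nat_lit 29196717192) (nat_lit 228) (nat_lit 8011190755) (nat_lit 76) (nat_lit 5187997235) (nat_lit 15) (nat_lit 5) (nat_lit 18) (nat_lit 5) (nat_lit 16) (nat_lit 4) (nat_lit 222) (nat_lit 208) (nat_lit 170)) (XT.lf (nat_lit 0) (nat_lit 23929268540) (nat_lit 76) (nat_lit 20644826860) (nat_lit 152) (nat_lit 2469965062) (nat_lit 14) (nat_lit 5) (nat_lit 15) (nat_lit 5) (nat_lit 16) (nat_lit 4) (nat_lit 223) (nat_lit 208) (nat_lit 169))))) (XT.nd (nat_lit 156) (nat_lit 228) (nat_lit 0) (XT.nd (nat_lit 78) (nat_lit 0) (nat_lit 0) (XT.lf (nat_lit 0) (nat_lit 8937611151) (nat_lit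 152) (nat_lit 865746594) (nat_lit 228) (nat_lit 42532893644) (nat_lit 11) (nat_lit 5) (nat_lit 13) (nat_lit 5) (nat_lit 14) (nat_lit 5) (nat_lit 224) (nat_lit 208) (nat_lit 168)) (XT.lf (nat_lit 0) (nat_lit 24968509558) (nat_lit 228) (nat_lit 11822142175) (nat_lit 76) (nat_lit 21530781729) (nat_lit 11) (nat_lit 5) (nat_lit 14) (nat_lit 5) (nat_lit 12) (nat_lit 4) (nat_lit 225) (nat_lit 208) (nat_lit 167))) (XT.nd (nat_lit 78) (nat_lit 152) (nat_lit 0) (XT.lf (nat_lit 0) (nat_lit 25719265792) (nat_lit 76) (nat_lit 17311018952) (nat_lit 152) (nat_lit 22124413366) (nat_lit 10) (nat_lit 5) (nat_lit 11) (nat_lit 5) (nat_lit 12) (nat_lit 4) (nat_lit 226) (nat_lit 208) (nat_lit 166)) (XT.nd (nat_lit 78) (nat_lit 152) (nat_lit 0) (XT.lf (nat_lit 0) (nat_lit 64257876893) (nat_lit 152) (nat_lit 3541534074) (nat_lit 0) (nat_lit 5177063793) (nat_lit 10) (nat_lit 5) (nat_lit 12) (nat_lit 4) (nat_lit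 10) (nat_lit 4) (nat_lit 227) (nat_lit 208) (nat_lit 165)) (XT.lf (nat_lit 0) (nat_lit 7804241965) (nat_lit 152) (nat_lit 42866952508) (nat_lit 76) (nat_lit 31172176214) (nat_lit 8) (nat_lit 5) (nat_lit 10) (nat_lit 5) (nat_lit 9) (nat_lit 4) (nat_lit 228) (nat_lit 208) (nat_lit 164))))))) (XT.nd (nat_lit 780) (nat_lit 152) (nat_lit 0) (XT.nd (nat_lit 390) (nat_lit 152) (nat_lit 0) (XT.nd (nat_lit 156) (nat_lit 76) (nat_lit 0) (XT.nd (nat_lit 78) (nat_lit 76) (nat_lit 0) (XT.lf (nat_lit 0) (nat_lit 26394316046) (nat_lit 152) (nat_lit 4216087721) (nat_lit 76) (nat_lit 61403409400) (nat_lit 8) (nat_lit 5) (nat_lit 10) (nat_lit 5) (nat_lit 9) (nat_lit 4) (nat_lit 229) (nat_lit 208) (nat_lit 163)) (XT.lf (nat_lit 0) (nat_lit 42326488115) (nat_lit 76) (nat_lit 6450959834) (nat_lit 152) (nat_lit 54852038557) (nat_lit 7) (nat_lit 5) (nat_lit 8) (nat_lit 5) (nat_lit 9) (nat_lit 4) (nat_lit 230)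 (nat_lit 208) (nat_lit 162))) (XT.nd (nat_lit 78) (nat_lit 76) (nat_lit 0) (XT.lf (nat_lit 0) (nat_lit 75144640317) (nat_lit 152) (nat_lit 21410231114) (nat_lit 0) (nat_lit 20382536704) (nat_lit 7) (nat_lit 5) (nat_lit 9) (nat_lit 4) (nat_lit 7) (nat_lit 4) (nat_lit 231) (nat_lit 208) (nat_lit 161)) (XT.nd (nat_lit 78) (nat_lit 0) (nat_lit 0) (XT.lf (nat_lit 0) (nat_lit 25546795823) (nat_lit 76) (nat_lit 80702161188) (nat_lit 76) (nat_lit 25930018701) (nat_lit 6) (nat_lit 4) (nat_lit 7) (nat_lit 5) (nat_lit 7) (nat_lit 4) (nat_lit 232) (nat_lit 208) (nat_lit 160)) (XT.lf (nat_lit 0) (nat_lit 80826347839) (nat_lit 76) (nat_lit 61806118728) (nat_lit 76) (nat_lit 7025246786) (nat_lit 6) (nat_lit 4) (nat_lit 7) (nat_lit 5) (nat_lit 7) (nat_lit 4) (nat_lit 233) (nat_lit 208) (nat_lit 159))))) (XT.nd (nat_lit 156) (nat_lit 0) (nat_lit 0) (XT.nd (nat_lit 78) (nat_lit 76) (nat_lit 0) (XT.lf (nat_lit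 0) (nat_lit 13970375045) (nat_lit 152) (nat_lit 25730082678) (nat_lit 76) (nat_lit 130030206702) (nat_lit 5) (nat_lit 5) (nat_lit 7) (nat_lit 5) (nat_lit 6) (nat_lit 4) (nat_lit 234) (nat_lit 208) (nat_lit 158)) (XT.lf (nat_lit 0) (nat_lit 24872623788) (nat_lit 76) (nat_lit 13429148944) (nat_lit 152) (nat_lit 154450008055) (nat_lit 4) (nat_lit 5) (nat_lit 5) (nat_lit 5) (nat_lit 6) (nat_lit 4) (nat_lit 235) (nat_lit 208) (nat_lit 157))) (XT.nd (nat_lit 78) (nat_lit 0) (nat_lit 0) (XT.lf (nat_lit 0) (nat_lit 67448016181) (nat_lit 152) (nat_lit 134978317146) (nat_lit 0) (nat_lit 16706531686) (nat_lit 4) (nat_lit 5) (nat_lit 6) (nat_lit 4) (nat_lit 4) (nat_lit 4) (nat_lit 236) (nat_lit 208) (nat_lit 156)) (XT.nd (nat_lit 78) (nat_lit 0) (nat_lit 0) (XT.lf (nat_lit 0) (nat_lit 101331480252) (nat_lit 152) (nat_lit 97525044344) (nat_lit 0) (nat_lit 50585374373) (nat_lit 4) (nat_lit 5) (nat_lit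 6) (nat_lit 4) (nat_lit 4) (nat_lit 4) (nat_lit 237) (nat_lit 208) (nat_lit 155)) (XT.lf (nat_lit 0) (nat_lit 140292130930) (nat_lit 152) (nat_lit 54463585814) (nat_lit 0) (nat_lit 89542006457) (nat_lit 4) (nat_lit 5) (nat_lit 6) (nat_lit 4) (nat_lit 4) (nat_lit 4) (nat_lit 238) (nat_lit 208) (nat_lit 154)))))) (XT.nd (nat_lit 390) (nat_lit 76) (nat_lit 0) (XT.nd (nat_lit 156) (nat_lit 0) (nat_lit 0) (XT.nd (nat_lit 78) (nat_lit 76) (nat_lit 0) (XT.lf (nat_lit 0) (nat_lit 185092241817) (nat_lit 152) (nat_lit 4951434759) (nat_lit 0) (nat_lit 134338622914) (nat_lit 4) (nat_lit 5) (nat_lit 6) (nat_lit 4) (nat_lit 4) (nat_lit 4) (nat_lit 239) (nat_lit 208) (nat_lit 153)) (XT.lf (nat_lit 0) (nat_lit 54717306076) (nat_lit 76) (nat_lit 183206983270) (nat_lit 76) (nat_lit 132450325732) (nat_lit 3) (nat_lit 4) (nat_lit 4) (nat_lit 5) (nat_lit 4) (nat_lit 4) (nat_lit 240) (nat_lit 208) (nat_lit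 152))) (XT.nd (nat_lit 78) (nat_lit 0) (nat_lit 0) (XT.lf (nat_lit 0) (nat_lit 123629415319) (nat_lit 76) (nat_lit 175192214629) (nat_lit 76) (nat_lit 124432914800) (nat_lit 3) (nat_lit 4) (nat_lit 4) (nat_lit 5) (nat_lit 4) (nat_lit 4) (nat_lit 241) (nat_lit 208) (nat_lit 151)) (XT.nd (nat_lit 78) (nat_lit 0) (nat_lit 0) (XT.lf (nat_lit 0) (nat_lit 202872439587) (nat_lit 76) (nat_lit 165977940963) (nat_lit 76) (nat_lit 115216343489) (nat_lit 3) (nat_lit 4) (nat_lit 4) (nat_lit 5) (nat_lit 4) (nat_lit 4) (nat_lit 242) (nat_lit 208) (nat_lit 150)) (XT.lf (nat_lit 0) (nat_lit 293996785878) (nat_lit 76) (nat_lit 155383883004) (nat_lit 76) (nat_lit 104620287579) (nat_lit 3) (nat_lit 4) (nat_lit 4) (nat_lit 5) (nat_lit 4) (nat_lit 4) (nat_lit 243) (nat_lit 208) (nat_lit 149))))) (XT.nd (nat_lit 234) (nat_lit 76) (nat_lit 0) (XT.nd (nat_lit 78) (nat_lit 0) (nat_lit 0) (XT.lf (nat_lit 0) (nat_lit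 398785321836) (nat_lit 76) (nat_lit 143202765705) (nat_lit 76) (nat_lit 92437432931) (nat_lit 3) (nat_lit 4) (nat_lit 4) (nat_lit 5) (nat_lit 4) (nat_lit 4) (nat_lit 244) (nat_lit 208) (nat_lit 148)) (XT.nd (nat_lit 78) (nat_lit 0) (nat_lit 0) (XT.lf (nat_lit 0) (nat_lit 519288257948) (nat_lit 76) (nat_lit 129196262859) (nat_lit 76) (nat_lit 78429419346) (nat_lit 3) (nat_lit 4) (nat_lit 4) (nat_lit 5) (nat_lit 4) (nat_lit 4) (nat_lit 245) (nat_lit 208) (nat_lit 147)) (XT.lf (nat_lit 0) (nat_lit 657863260354) (nat_lit 76) (nat_lit 113090334192) (nat_lit 76) (nat_lit 62322176994) (nat_lit 3) (nat_lit 4) (nat_lit 4) (nat_lit 5) (nat_lit 4) (nat_lit 4) (nat_lit 246) (nat_lit 208) (nat_lit 146)))) (XT.nd (nat_lit 78) (nat_lit 76) (nat_lit 0) (XT.lf (nat_lit 0) (nat_lit 817221579101) (nat_lit 76) (nat_lit 94569863709) (nat_lit 76) (nat_lit 43800564175) (nat_lit 3) (nat_lit 4) (nat_lit 4) (nat_lit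 5) (nat_lit 4) (nat_lit 4) (nat_lit 247) (nat_lit 208) (nat_lit 145)) (XT.nd (nat_lit 78) (nat_lit 76) (nat_lit 0) (XT.lf (nat_lit 0) (nat_lit 1000481094340) (nat_lit 76) (nat_lit 73272494378) (nat_lit 76) (nat_lit 22502201509) (nat_lit 3) (nat_lit 4) (nat_lit 4) (nat_lit 5) (nat_lit 4) (nat_lit 4) (nat_lit 248) (nat_lit 208) (nat_lit 144)) (XT.lf (nat_lit 0) (nat_lit 1890089343) (nat_lit 152) (nat_lit 46839770803) (nat_lit 76) (nat_lit 1209285550589) (nat_lit 2) (nat_lit 5) (nat_lit 4) (nat_lit 5) (nat_lit 3) (nat_lit 4) (nat_lit 249) (nat_lit 208) (nat_lit 143))))))))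
noncomputable def xc36 : XT := (XT.nd (nat_lit 28782) (nat_lit 0) (nat_lit 228) (XT.nd (nat_lit 780) (nat_lit 0) (nat_lit 0) (XT.nd (nat_lit 390) (nat_lit 0) (nat_lit 0) (XT.nd (nat_lit 156) (nat_lit 0) (nat_lit 0) (XT.nd (nat_lit 78) (nat_lit 0) (nat_lit 0) (XT.lf (nat_lit 0) (nat_lit 9275025016) (nat_lit 76) (nat_lit 19593692656) (nat_lit 152) (nat_lit 1415102710281) (nat_lit 1) (nat_lit 5) (nat_lit 2) (nat_lit 5) (nat_lit 3) (nat_lit 4) (nat_lit 250) (nat_lit 208) (nat_lit 142)) (XT.lf (nat_lit 0) (nat_lit 61626859857) (nat_lit 152) (nat_lit 1581440142198) (nat_lit 0) (nat_lit 14615229416) (nat_lit 1) (nat_lit 5) (nat_lit 3) (nat_lit 4) (nat_lit 1) (nat_lit 4) (nat_lit 251) (nat_lit 208) (nat_lit 141))) (XT.nd (nat_lit 78) (nat_lit 0) (nat_lit 0) (XT.lf (nat_lit 0) (nat_lit 99839770371) (nat_lit 152) (nat_lit 1750738988446) (nat_lit 0) (nat_lit 52827614057) (nat_lit 1) (nat_lit 5)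 (nat_lit 3) (nat_lit 4) (nat_lit 1) (nat_lit 4) (nat_lit 252) (nat_lit 208) (nat_lit 140)) (XT.nd (nat_lit 78) (nat_lit 0) (nat_lit 0) (XT.lf (nat_lit 0) (nat_lit 143783864337) (nat_lit 152) (nat_lit 1945434081632) (nat_lit 0) (nat_lit 96771250742) (nat_lit 1) (nat_lit 5) (nat_lit 3) (nat_lit 4) (nat_lit 1) (nat_lit 4) (nat_lit 253) (nat_lit 208) (nat_lit 139)) (XT.lf (nat_lit 0) (nat_lit 194318917505) (nat_lit 152) (nat_lit 2169334673580) (nat_lit 0) (nat_lit 147305906274) (nat_lit 1) (nat_lit 5) (nat_lit 3) (nat_lit 4) (nat_lit 1) (nat_lit 4) (nat_lit 254) (nat_lit 208) (nat_lit 138))))) (XT.nd (nat_lit 156) (nat_lit 0) (nat_lit 0) (XT.nd (nat_lit 78) (nat_lit 0) (nat_lit 0) (XT.lf (nat_lit 0) (nat_lit 252433659176) (nat_lit 152) (nat_lit 2426821428045) (nat_lit 0) (nat_lit 205420302176) (nat_lit 1) (nat_lit 5) (nat_lit 3) (nat_lit 4) (nat_lit 1) (nat_lit 4) (nat_lit 255) (nat_lit 208)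 (nat_lit 137)) (XT.lf (nat_lit 0) (nat_lit 319265116906) (nat_lit 152) (nat_lit 2722932129354) (nat_lit 0) (nat_lit 272251459236) (nat_lit 1) (nat_lit 5) (nat_lit 3) (nat_lit 4) (nat_lit 1) (nat_lit 4) (nat_lit 256) (nat_lit 208) (nat_lit 136))) (XT.nd (nat_lit 78) (nat_lit 0) (nat_lit 0) (XT.lf (nat_lit 0) (nat_lit 396120862693) (nat_lit 152) (nat_lit 3063460247749) (nat_lit 0) (nat_lit 349106943571) (nat_lit 1) (nat_lit 5) (nat_lit 3) (nat_lit 4) (nat_lit 1) (nat_lit 4) (nat_lit 257) (nat_lit 208) (nat_lit 135)) (XT.nd (nat_lit 78) (nat_lit 0) (nat_lit 0) (XT.lf (nat_lit 0) (nat_lit 484504595911) (nat_lit 152) (nat_lit 3455068289895) (nat_lit 0) (nat_lit 437490449440) (nat_lit 1) (nat_lit 5) (nat_lit 3) (nat_lit 4) (nat_lit 1) (nat_lit 4) (nat_lit 258) (nat_lit 208) (nat_lit 134)) (XT.lf (nat_lit 0) (nat_lit 586145563514) (nat_lit 152) (nat_lit 3905418152269) (nat_lit 0) (nat_lit 539131219349)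 (nat_lit 1) (nat_lit 5) (nat_lit 3) (nat_lit 4) (nat_lit 1) (nat_lit 4) (nat_lit 259) (nat_lit 208) (nat_lit 133)))))) (XT.nd (nat_lit 27612) (nat_lit 0) (nat_lit 1748) (XT.nd (nat_lit 27378) (nat_lit 0) (nat_lit 2736) (XT.nd (nat_lit 27300) (nat_lit 0) (nat_lit 2660) (XT.lf (nat_lit 0) (nat_lit 703032393131) (nat_lit 152) (nat_lit 4423321027830) (nat_lit 0) (nat_lit 656017877056) (nat_lit 1) (nat_lit 5) (nat_lit 3) (nat_lit 4) (nat_lit 1) (nat_lit 4) (nat_lit 260) (nat_lit 208) (nat_lit 132)) (XT.lf (nat_lit 0) (nat_lit 1431367577) (nat_lit 532) (nat_lit 2945058500) (nat_lit 532) (nat_lit 2945058500) (nat_lit 36) (nat_lit 3) (nat_lit 43) (nat_lit 3) (nat_lit 43) (nat_lit 5) (nat_lit 209) (nat_lit 209) (nat_lit 182))) (XT.nd (nat_lit 78) (nat_lit 0) (nat_lit 0) (XT.lf (nat_lit 0) (nat_lit 3788240200) (nat_lit 456) (nat_lit 9584288757) (nat_lit 532) (nat_lit 2309130089) (nat_lit 37) (nat_lit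 5) (nat_lit 43) (nat_lit 5) (nat_lit 44) (nat_lit 5) (nat_lit 210) (nat_lit 209) (nat_lit 181)) (XT.nd (nat_lit 78) (nat_lit 0) (nat_lit 76) (XT.lf (nat_lit 76) (nat_lit 3232406011) (nat_lit 0) (nat_lit 2025876082) (nat_lit 532) (nat_lit 11585888631) (nat_lit 38) (nat_lit 5) (nat_lit 37) (nat_lit 5) (nat_lit 44) (nat_lit 5) (nat_lit 211) (nat_lit 209) (nat_lit 180)) (XT.lf (nat_lit 76) (nat_lit 61715904) (nat_lit 0) (nat_lit 7360950642) (nat_lit 532) (nat_lit 10720898915) (nat_lit 39) (nat_lit 5) (nat_lit 38) (nat_lit 5) (nat_lit 45) (nat_lit 5) (nat_lit 212) (nat_lit 209) (nat_lit 179))))) (XT.nd (nat_lit 156) (nat_lit 684) (nat_lit 0) (XT.nd (nat_lit 78) (nat_lit 456) (nat_lit 0) (XT.lf (nat_lit 0) (nat_lit 10441677766) (nat_lit 456) (nat_lit 3262414553) (nat_lit 76) (nat_lit 5891738873) (nat_lit 39) (nat_lit 5) (nat_lit 45) (nat_lit 5) (nat_lit 40) (nat_lit 5) (nat_lit 213) (nat_lit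 209) (nat_lit 178)) (XT.lf (nat_lit 0) (nat_lit 14233315914) (nat_lit 456) (nat_lit 165445096) (nat_lit 532) (nat_lit 6828670590) (nat_lit 33) (nat_lit 5) (nat_lit 39) (nat_lit 5) (nat_lit 40) (nat_lit 5) (nat_lit 214) (nat_lit 209) (nat_lit 177))) (XT.nd (nat_lit 78) (nat_lit 456) (nat_lit 0) (XT.lf (nat_lit 0) (nat_lit 11607453398) (nat_lit 228) (nat_lit 8035140266) (nat_lit 304) (nat_lit 3405995146) (nat_lit 30) (nat_lit 5) (nat_lit 33) (nat_lit 5) (nat_lit 34) (nat_lit 5) (nat_lit 215) (nat_lit 209) (nat_lit 176)) (XT.nd (nat_lit 78) (nat_lit 228) (nat_lit 0) (XT.lf (nat_lit 0) (nat_lit 1062672141) (nat_lit 228) (nat_lit 16646205693) (nat_lit 76) (nat_lit 7388512052) (nat_lit 27) (nat_lit 5) (nat_lit 30) (nat_lit 5) (nat_lit 28) (nat_lit 5) (nat_lit 216) (nat_lit 209) (nat_lit 175)) (XT.lf (nat_lit 0) (nat_lit 4437901082) (nat_lit 228) (nat_lit 2194150386) (nat_lit 304) (nat_lit 20764005695)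 (nat_lit 24) (nat_lit 5) (nat_lit 27) (nat_lit 5) (nat_lit 28) (nat_lit 5) (nat_lit 217) (nat_lit 209) (nat_lit 174))))))) (XT.nd (nat_lit 780) (nat_lit 456) (nat_lit 0) (XT.nd (nat_lit 390) (nat_lit 380) (nat_lit 0) (XT.nd (nat_lit 156) (nat_lit 532) (nat_lit 0) (XT.nd (nat_lit 78) (nat_lit 152) (nat_lit 0) (XT.lf (nat_lit 0) (nat_lit 13870467611) (nat_lit 304) (nat_lit 748063792) (nat_lit 76) (nat_lit 15354468145) (nat_lit 24) (nat_lit 5) (nat_lit 28) (nat_lit 5) (nat_lit 25) (nat_lit 5) (nat_lit 218) (nat_lit 209) (nat_lit 173)) (XT.lf (nat_lit 0) (nat_lit 22921224710) (nat_lit 228) (nat_lit 6971625910) (nat_lit 76) (nat_lit 2985650221) (nat_lit 22) (nat_lit 5) (nat_lit 25) (nat_lit 5) (nat_lit 23) (nat_lit 5) (nat_lit 219) (nat_lit 209) (nat_lit 172))) (XT.nd (nat_lit 78) (nat_lit 380) (nat_lit 0) (XT.lf (nat_lit 0) (nat_lit 20989330871) (nat_lit 152) (nat_lit 13240321965) (nat_lit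 228) (nat_lit 1918294970) (nat_lit 20) (nat_lit 5) (nat_lit 22) (nat_lit 5) (nat_lit 23) (nat_lit 5) (nat_lit 220) (nat_lit 209) (nat_lit 171)) (XT.nd (nat_lit 78) (nat_lit 152) (nat_lit 0) (XT.lf (nat_lit 0) (nat_lit 7640443568) (nat_lit 228) (nat_lit 25851992759) (nat_lit 76) (nat_lit 6346946879) (nat_lit 17) (nat_lit 5) (nat_lit 20) (nat_lit 5) (nat_lit 18) (nat_lit 5) (nat_lit 221) (nat_lit 209) (nat_lit 170)) (XT.lf (nat_lit 0) (nat_lit 4109428805) (nat_lit 152) (nat_lit 15304559466) (nat_lit 228) (nat_lit 24595080758) (nat_lit 15) (nat_lit 5) (nat_lit 17) (nat_lit 5) (nat_lit 18) (nat_lit 5) (nat_lit 222) (nat_lit 209) (nat_lit 169))))) (XT.nd (nat_lit 156) (nat_lit 304) (nat_lit 0) (XT.nd (nat_lit 78) (nat_lit 76) (nat_lit 0) (XT.lf (nat_lit 0) (nat_lit 33836546955) (nat_lit 228) (nat_lit 8805731768) (nat_lit 76) (nat_lit 6091366566) (nat_lit 15) (nat_lit 5) (nat_lit 18) (nat_lit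 5) (nat_lit 16) (nat_lit 4) (nat_lit 223) (nat_lit 209) (nat_lit 168)) (XT.lf (nat_lit 0) (nat_lit 27891334252) (nat_lit 76) (nat_lit 23604205428) (nat_lit 152) (nat_lit 2585590501) (nat_lit 14) (nat_lit 5) (nat_lit 15) (nat_lit 5) (nat_lit 16) (nat_lit 4) (nat_lit 224) (nat_lit 209) (nat_lit 167))) (XT.nd (nat_lit 78) (nat_lit 76) (nat_lit 0) (XT.lf (nat_lit 0) (nat_lit 10631657806) (nat_lit 152) (nat_lit 861241891) (nat_lit 228) (nat_lit 48675692301) (nat_lit 11) (nat_lit 5) (nat_lit 13) (nat_lit 5) (nat_lit 14) (nat_lit 5) (nat_lit 225) (nat_lit 209) (nat_lit 166)) (XT.nd (nat_lit 78) (nat_lit 76) (nat_lit 0) (XT.lf (nat_lit 0) (nat_lit 28907064089) (nat_lit 228) (nat_lit 13275228232) (nat_lit 76) (nat_lit 24871394751) (nat_lit 11) (nat_lit 5) (nat_lit 14) (nat_lit 5) (nat_lit 12) (nat_lit 4) (nat_lit 226) (nat_lit 209) (nat_lit 165)) (XT.lf (nat_lit 0) (nat_lit 29870284609) (nat_lit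 76) (nat_lit 19789660515) (nat_lit 152) (nat_lit 25253514235) (nat_lit 10) (nat_lit 5) (nat_lit 11) (nat_lit 5) (nat_lit 12) (nat_lit 4) (nat_lit 227) (nat_lit 209) (nat_lit 164)))))) (XT.nd (nat_lit 390) (nat_lit 228) (nat_lit 0) (XT.nd (nat_lit 156) (nat_lit 76) (nat_lit 0) (XT.nd (nat_lit 78) (nat_lit 152) (nat_lit 0) (XT.lf (nat_lit 0) (nat_lit 74051302638) (nat_lit 152) (nat_lit 3807777888) (nat_lit 0) (nat_lit 6051108473) (nat_lit 10) (nat_lit 5) (nat_lit 12) (nat_lit 4) (nat_lit 10) (nat_lit 4) (nat_lit 228) (nat_lit 209) (nat_lit 163)) (XT.lf (nat_lit 0) (nat_lit 9119230312) (nat_lit 152) (nat_lit 49046533638) (nat_lit 76) (nat_lit 35942260280) (nat_lit 8) (nat_lit 5) (nat_lit 10) (nat_lit 5) (nat_lit 9) (nat_lit 4) (nat_lit 229) (nat_lit 209) (nat_lit 162))) (XT.nd (nat_lit 78) (nat_lit 76) (nat_lit 0) (XT.lf (nat_lit 0) (nat_lit 30478986976) (nat_lit 152) (nat_lit 4630708057)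 (nat_lit 76) (nat_lit 70695883970) (nat_lit 8) (nat_lit 5) (nat_lit 10) (nat_lit 5) (nat_lit 9) (nat_lit 4) (nat_lit 230) (nat_lit 209) (nat_lit 161)) (XT.nd (nat_lit 78) (nat_lit 0) (nat_lit 0) (XT.lf (nat_lit 0) (nat_lit 48874819077) (nat_lit 76) (nat_lit 7333191513) (nat_lit 152) (nat_lit 62956553468) (nat_lit 7) (nat_lit 5) (nat_lit 8) (nat_lit 5) (nat_lit 9) (nat_lit 4) (nat_lit 231) (nat_lit 209) (nat_lit 160)) (XT.lf (nat_lit 0) (nat_lit 86517205597) (nat_lit 152) (nat_lit 24442070997) (nat_lit 0) (nat_lit 23510473407) (nat_lit 7) (nat_lit 5) (nat_lit 9) (nat_lit 4) (nat_lit 7) (nat_lit 4) (nat_lit 232) (nat_lit 209) (nat_lit 159))))) (XT.nd (nat_lit 156) (nat_lit 152) (nat_lit 0) (XT.nd (nat_lit 78) (nat_lit 0) (nat_lit 0) (XT.lf (nat_lit 0) (nat_lit 29543299712) (nat_lit 76) (nat_lit 92734669083) (nat_lit 76) (nat_lit 29720346063) (nat_lit 6) (nat_lit 4) (nat_lit 7) (nat_lit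 5) (nat_lit 7) (nat_lit 4) (nat_lit 233) (nat_lit 209) (nat_lit 158)) (XT.lf (nat_lit 0) (nat_lit 93093330029) (nat_lit 76) (nat_lit 71013718030) (nat_lit 76) (nat_lit 7992794288) (nat_lit 6) (nat_lit 4) (nat_lit 7) (nat_lit 5) (nat_lit 7) (nat_lit 4) (nat_lit 234) (nat_lit 209) (nat_lit 157))) (XT.nd (nat_lit 78) (nat_lit 76) (nat_lit 0) (XT.lf (nat_lit 0) (nat_lit 16137170838) (nat_lit 152) (nat_lit 29461348157) (nat_lit 76) (nat_lit 149585924281) (nat_lit 5) (nat_lit 5) (nat_lit 7) (nat_lit 5) (nat_lit 6) (nat_lit 4) (nat_lit 235) (nat_lit 209) (nat_lit 156)) (XT.nd (nat_lit 78) (nat_lit 0) (nat_lit 0) (XT.lf (nat_lit 0) (nat_lit 28720908815) (nat_lit 76) (nat_lit 15390900516) (nat_lit 152) (nat_lit 177547451136) (nat_lit 4) (nat_lit 5) (nat_lit 5) (nat_lit 5) (nat_lit 6) (nat_lit 4) (nat_lit 236) (nat_lit 209) (nat_lit 155)) (XT.lf (nat_lit 0) (nat_lit 77622641409) (nat_lit 152) (nat_lit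 155119487877) (nat_lit 0) (nat_lit 19255979670) (nat_lit 4) (nat_lit 5) (nat_lit 6) (nat_lit 4) (nat_lit 4) (nat_lit 4) (nat_lit 237) (nat_lit 209) (nat_lit 154))))))))
noncomputable def xc37 : XT := (XT.nd (nat_lit 1560) (nat_lit 0) (nat_lit 0) (XT.nd (nat_lit 780) (nat_lit 152) (nat_lit 0) (XT.nd (nat_lit 390) (nat_lit 0) (nat_lit 0) (XT.nd (nat_lit 156) (nat_lit 76) (nat_lit 0) (XT.nd (nat_lit 78) (nat_lit 0) (nat_lit 0) (XT.lf (nat_lit 0) (nat_lit 116581135160) (nat_lit 152) (nat_lit 112061995047) (nat_lit 0) (nat_lit 58210978991) (nat_lit 4) (nat_lit 5) (nat_lit 6) (nat_lit 4) (nat_lit 4) (nat_lit 4) (nat_lit 238) (nat_lit 209) (nat_lit 153)) (XT.lf (nat_lit 0) (nat_lit 161379370457) (nat_lit 152) (nat_lit 62553292426) (nat_lit 0) (nat_lit 103006175654) (nat_lit 4) (nat_lit 5) (nat_lit 6) (nat_lit 4) (nat_lit 4) (nat_lit 4) (nat_lit 239) (nat_lit 209) (nat_lit 152))) (XT.nd (nat_lit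 78) (nat_lit 76) (nat_lit 0) (XT.lf (nat_lit 0) (nat_lit 212893834513) (nat_lit 152) (nat_lit 5624731486) (nat_lit 0) (nat_lit 154517997418) (nat_lit 4) (nat_lit 5) (nat_lit 6) (nat_lit 4) (nat_lit 4) (nat_lit 4) (nat_lit 240) (nat_lit 209) (nat_lit 151)) (XT.nd (nat_lit 78) (nat_lit 0) (nat_lit 0) (XT.lf (nat_lit 0) (nat_lit 62988444545) (nat_lit 76) (nat_lit 210658848076) (nat_lit 76) (nat_lit 152280713337) (nat_lit 3) (nat_lit 4) (nat_lit 4) (nat_lit 5) (nat_lit 4) (nat_lit 4) (nat_lit 241) (nat_lit 209) (nat_lit 150)) (XT.lf (nat_lit 0) (nat_lit 142229082014) (nat_lit 76) (nat_lit 201445670576) (nat_lit 76) (nat_lit 143065537885) (nat_lit 3) (nat_lit 4) (nat_lit 4) (nat_lit 5) (nat_lit 4) (nat_lit 4) (nat_lit 242) (nat_lit 209) (nat_lit 149))))) (XT.nd (nat_lit 156) (nat_lit 0) (nat_lit 0) (XT.nd (nat_lit 78) (nat_lit 0) (nat_lit 0) (XT.lf (nat_lit 0) (nat_lit 233351352828) (nat_lit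 76) (nat_lit 190852565805) (nat_lit 76) (nat_lit 132470695765) (nat_lit 3) (nat_lit 4) (nat_lit 4) (nat_lit 5) (nat_lit 4) (nat_lit 4) (nat_lit 243) (nat_lit 209) (nat_lit 148)) (XT.lf (nat_lit 0) (nat_lit 338138084023) (nat_lit 76) (nat_lit 178672277366) (nat_lit 76) (nat_lit 120288896587) (nat_lit 3) (nat_lit 4) (nat_lit 4) (nat_lit 5) (nat_lit 4) (nat_lit 4) (nat_lit 244) (nat_lit 209) (nat_lit 147))) (XT.nd (nat_lit 78) (nat_lit 0) (nat_lit 0) (XT.lf (nat_lit 0) (nat_lit 458639450775) (nat_lit 76) (nat_lit 164666495266) (nat_lit 76) (nat_lit 106281800802) (nat_lit 3) (nat_lit 4) (nat_lit 4) (nat_lit 5) (nat_lit 4) (nat_lit 4) (nat_lit 245) (nat_lit 209) (nat_lit 146)) (XT.nd (nat_lit 78) (nat_lit 0) (nat_lit 0) (XT.lf (nat_lit 0) (nat_lit 597213088521) (nat_lit 76) (nat_lit 148561193336) (nat_lit 76) (nat_lit 90175356537) (nat_lit 3) (nat_lit 4) (nat_lit 4) (nat_lit 5) (nat_lit 4)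 (nat_lit 4) (nat_lit 246) (nat_lit 209) (nat_lit 145)) (XT.lf (nat_lit 0) (nat_lit 756570220608) (nat_lit 76) (nat_lit 130041267841) (nat_lit 76) (nat_lit 71654437707) (nat_lit 3) (nat_lit 4) (nat_lit 4) (nat_lit 5) (nat_lit 4) (nat_lit 4) (nat_lit 247) (nat_lit 209) (nat_lit 144)))))) (XT.nd (nat_lit 390) (nat_lit 0) (nat_lit 0) (XT.nd (nat_lit 156) (nat_lit 152) (nat_lit 0) (XT.nd (nat_lit 78) (nat_lit 0) (nat_lit 0) (XT.lf (nat_lit 0) (nat_lit 939828703968) (nat_lit 76) (nat_lit 108744372413) (nat_lit 76) (nat_lit 50356678509) (nat_lit 3) (nat_lit 4) (nat_lit 4) (nat_lit 5) (nat_lit 4) (nat_lit 4) (nat_lit 248) (nat_lit 209) (nat_lit 143)) (XT.lf (nat_lit 0) (nat_lit 1150574030666) (nat_lit 76) (nat_lit 84253828664) (nat_lit 76) (nat_lit 25865383655) (nat_lit 3) (nat_lit 4) (nat_lit 4) (nat_lit 5) (nat_lit 4) (nat_lit 4) (nat_lit 249) (nat_lit 209) (nat_lit 142))) (XT.nd (nat_lit 78)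 (nat_lit 76) (nat_lit 0) (XT.lf (nat_lit 0) (nat_lit 2183637862) (nat_lit 152) (nat_lit 53847131389) (nat_lit 76) (nat_lit 1390686136443) (nat_lit 2) (nat_lit 5) (nat_lit 4) (nat_lit 5) (nat_lit 3) (nat_lit 4) (nat_lit 250) (nat_lit 209) (nat_lit 141)) (XT.nd (nat_lit 78) (nat_lit 0) (nat_lit 0) (XT.lf (nat_lit 0) (nat_lit 10683308980) (nat_lit 76) (nat_lit 22524852108) (nat_lit 152) (nat_lit 1627358238160) (nat_lit 1) (nat_lit 5) (nat_lit 2) (nat_lit 5) (nat_lit 3) (nat_lit 4) (nat_lit 251) (nat_lit 209) (nat_lit 140)) (XT.lf (nat_lit 0) (nat_lit 70878998077) (nat_lit 152) (nat_lit 1818640873747) (nat_lit 0) (nat_lit 16814035162) (nat_lit 1) (nat_lit 5) (nat_lit 3) (nat_lit 4) (nat_lit 1) (nat_lit 4) (nat_lit 252) (nat_lit 209) (nat_lit 139))))) (XT.nd (nat_lit 156) (nat_lit 0) (nat_lit 0) (XT.nd (nat_lit 78) (nat_lit 0) (nat_lit 0) (XT.lf (nat_lit 0) (nat_lit 114822787441) (nat_lit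 152) (nat_lit 2013336541251) (nat_lit 0) (nat_lit 60757426891) (nat_lit 1) (nat_lit 5) (nat_lit 3) (nat_lit 4) (nat_lit 1) (nat_lit 4) (nat_lit 253) (nat_lit 209) (nat_lit 138)) (XT.lf (nat_lit 0) (nat_lit 165357575738) (nat_lit 152) (nat_lit 2237237632606) (nat_lit 0) (nat_lit 111291869418) (nat_lit 1) (nat_lit 5) (nat_lit 3) (nat_lit 4) (nat_lit 1) (nat_lit 4) (nat_lit 254) (nat_lit 209) (nat_lit 137))) (XT.nd (nat_lit 78) (nat_lit 0) (nat_lit 0) (XT.lf (nat_lit 0) (nat_lit 223472087088) (nat_lit 152) (nat_lit 2494724821338) (nat_lit 0) (nat_lit 169406080098) (nat_lit 1) (nat_lit 5) (nat_lit 3) (nat_lit 4) (nat_lit 1) (nat_lit 4) (nat_lit 255) (nat_lit 209) (nat_lit 136)) (XT.nd (nat_lit 78) (nat_lit 0) (nat_lit 0) (XT.lf (nat_lit 0) (nat_lit 290303344537) (nat_lit 152) (nat_lit 2790835900270) (nat_lit 0) (nat_lit 236237076096) (nat_lit 1) (nat_lit 5) (nat_lit 3) (nat_lit 4) (nat_lit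 1) (nat_lit 4) (nat_lit 256) (nat_lit 209) (nat_lit 135)) (XT.lf (nat_lit 0) (nat_lit 367158916168) (nat_lit 152) (nat_lit 3131364347034) (nat_lit 0) (nat_lit 313092420377) (nat_lit 1) (nat_lit 5) (nat_lit 3) (nat_lit 4) (nat_lit 1) (nat_lit 4) (nat_lit 257) (nat_lit 209) (nat_lit 134))))))) (XT.nd (nat_lit 28080) (nat_lit 0) (nat_lit 760) (XT.nd (nat_lit 27690) (nat_lit 0) (nat_lit 2204) (XT.nd (nat_lit 156) (nat_lit 0) (nat_lit 0) (XT.nd (nat_lit 78) (nat_lit 0) (nat_lit 0) (XT.lf (nat_lit 0) (nat_lit 455542497945) (nat_lit 152) (nat_lit 3522972674717) (nat_lit 0) (nat_lit 401475804459) (nat_lit 1) (nat_lit 5) (nat_lit 3) (nat_lit 4) (nat_lit 1) (nat_lit 4) (nat_lit 258) (nat_lit 209) (nat_lit 133)) (XT.lf (nat_lit 0) (nat_lit 557183333861) (nat_lit 152) (nat_lit 3973322785385) (nat_lit 0) (nat_lit 503116468467) (nat_lit 1) (nat_lit 5) (nat_lit 3) (nat_lit 4) (nat_lit 1) (nat_lit 4)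 (nat_lit 259) (nat_lit 209) (nat_lit 132))) (XT.nd (nat_lit 27378) (nat_lit 0) (nat_lit 2660) (XT.lf (nat_lit 0) (nat_lit 674070048967) (nat_lit 152) (nat_lit 4491225876853) (nat_lit 0) (nat_lit 620003034087) (nat_lit 1) (nat_lit 5) (nat_lit 3) (nat_lit 4) (nat_lit 1) (nat_lit 4) (nat_lit 260) (nat_lit 209) (nat_lit 131)) (XT.nd (nat_lit 78) (nat_lit 0) (nat_lit 76) (XT.lf (nat_lit 0) (nat_lit 2129376272) (nat_lit 532) (nat_lit 3124554207) (nat_lit 532) (nat_lit 3124554207) (nat_lit 36) (nat_lit 3) (nat_lit 43) (nat_lit 3) (nat_lit 43) (nat_lit 5) (nat_lit 210) (nat_lit 210) (nat_lit 180)) (XT.lf (nat_lit 0) (nat_lit 5199605895) (nat_lit 456) (nat_lit 10460243906) (nat_lit 532) (nat_lit 2302158522) (nat_lit 37) (nat_lit 5) (nat_lit 43) (nat_lit 5) (nat_lit 44) (nat_lit 5) (nat_lit 211) (nat_lit 210) (nat_lit 179))))) (XT.nd (nat_lit 156) (nat_lit 532) (nat_lit 0) (XT.nd (nat_lit 78) (nat_lit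 0) (nat_lit 76) (XT.lf (nat_lit 76) (nat_lit 4231410971) (nat_lit 0) (nat_lit 2561134843) (nat_lit 532) (nat_lit 12514739930) (nat_lit 38) (nat_lit 5) (nat_lit 37) (nat_lit 5) (nat_lit 44) (nat_lit 5) (nat_lit 212) (nat_lit 210) (nat_lit 178)) (XT.lf (nat_lit 76) (nat_lit 604825960) (nat_lit 0) (nat_lit 8587520412) (nat_lit 532) (nat_lit 11616887280) (nat_lit 39) (nat_lit 5) (nat_lit 38) (nat_lit 5) (nat_lit 45) (nat_lit 5) (nat_lit 213) (nat_lit 210) (nat_lit 177))) (XT.nd (nat_lit 78) (nat_lit 684) (nat_lit 0) (XT.lf (nat_lit 0) (nat_lit 12576047229) (nat_lit 456) (nat_lit 3236417019) (nat_lit 76) (nat_lit 6674366773) (nat_lit 39) (nat_lit 5) (nat_lit 45) (nat_lit 5) (nat_lit 40) (nat_lit 5) (nat_lit 214) (nat_lit 210) (nat_lit 176)) (XT.nd (nat_lit 78) (nat_lit 228) (nat_lit 0) (XT.lf (nat_lit 0) (nat_lit 16840050385) (nat_lit 456) (nat_lit 223885542) (nat_lit 532) (nat_lit 7304637704)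 (nat_lit 33) (nat_lit 5) (nat_lit 39) (nat_lit 5) (nat_lit 40) (nat_lit 5) (nat_lit 215) (nat_lit 210) (nat_lit 175)) (XT.lf (nat_lit 0) (nat_lit 13820453783) (nat_lit 228) (nat_lit 9218618682) (nat_lit 304) (nat_lit 3428585444) (nat_lit 30) (nat_lit 5) (nat_lit 33) (nat_lit 5) (nat_lit 34) (nat_lit 5) (nat_lit 216) (nat_lit 210) (nat_lit 174)))))) (XT.nd (nat_lit 390) (nat_lit 684) (nat_lit 0) (XT.nd (nat_lit 156) (nat_lit 304) (nat_lit 0) (XT.nd (nat_lit 78) (nat_lit 228) (nat_lit 0) (XT.lf (nat_lit 0) (nat_lit 1637425386) (nat_lit 228) (nat_lit 18653039503) (nat_lit 76) (nat_lit 8536524254) (nat_lit 27) (nat_lit 5) (nat_lit 30) (nat_lit 5) (nat_lit 28) (nat_lit 5) (nat_lit 217) (nat_lit 210) (nat_lit 173)) (XT.lf (nat_lit 0) (nat_lit 5552199014) (nat_lit 228) (nat_lit 2446625342) (nat_lit 304) (nat_lit 23475335444) (nat_lit 24) (nat_lit 5) (nat_lit 27) (nat_lit 5) (nat_lit 28) (nat_lit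 5) (nat_lit 218) (nat_lit 210) (nat_lit 172))) (XT.nd (nat_lit 78) (nat_lit 304) (nat_lit 0) (XT.lf (nat_lit 0) (nat_lit 16276088661) (nat_lit 304) (nat_lit 444555682) (nat_lit 76) (nat_lit 17720954348) (nat_lit 24) (nat_lit 5) (nat_lit 28) (nat_lit 5) (nat_lit 25) (nat_lit 5) (nat_lit 219) (nat_lit 210) (nat_lit 171)) (XT.nd (nat_lit 78) (nat_lit 152) (nat_lit 0) (XT.lf (nat_lit 0) (nat_lit 26653346946) (nat_lit 228) (nat_lit 7614458943) (nat_lit 76) (nat_lit 3517783939) (nat_lit 22) (nat_lit 5) (nat_lit 25) (nat_lit 5) (nat_lit 23) (nat_lit 5) (nat_lit 220) (nat_lit 210) (nat_lit 170)) (XT.lf (nat_lit 0) (nat_lit 24506536959) (nat_lit 152) (nat_lit 15122032327) (nat_lit 228) (nat_lit 1919394897) (nat_lit 20) (nat_lit 5) (nat_lit 22) (nat_lit 5) (nat_lit 23) (nat_lit 5) (nat_lit 221) (nat_lit 210) (nat_lit 169))))) (XT.nd (nat_lit 234) (nat_lit 304) (nat_lit 0) (XT.nd (nat_lit 78) (nat_lit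 152) (nat_lit 0) (XT.lf (nat_lit 0) (nat_lit 9034310035) (nat_lit 228) (nat_lit 29360332448) (nat_lit 76) (nat_lit 7400004313) (nat_lit 17) (nat_lit 5) (nat_lit 20) (nat_lit 5) (nat_lit 18) (nat_lit 5) (nat_lit 222) (nat_lit 210) (nat_lit 168)) (XT.nd (nat_lit 78) (nat_lit 0) (nat_lit 0) (XT.lf (nat_lit 0) (nat_lit 5064029466) (nat_lit 152) (nat_lit 17485668636) (nat_lit 228) (nat_lit 28042129400) (nat_lit 15) (nat_lit 5) (nat_lit 17) (nat_lit 5) (nat_lit 18) (nat_lit 5) (nat_lit 223) (nat_lit 210) (nat_lit 167)) (XT.lf (nat_lit 0) (nat_lit 39108869969) (nat_lit 228) (nat_lit 9818737015) (nat_lit 76) (nat_lit 7099717861) (nat_lit 15) (nat_lit 5) (nat_lit 18) (nat_lit 5) (nat_lit 16) (nat_lit 4) (nat_lit 224) (nat_lit 210) (nat_lit 166)))) (XT.nd (nat_lit 78) (nat_lit 228) (nat_lit 0) (XT.lf (nat_lit 0) (nat_lit 32356830557) (nat_lit 76) (nat_lit 27040983342) (nat_lit 152) (nat_lit 2780711254)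 (nat_lit 14) (nat_lit 5) (nat_lit 15) (nat_lit 5) (nat_lit 16) (nat_lit 4) (nat_lit 225) (nat_lit 210) (nat_lit 165)) (XT.nd (nat_lit 78) (nat_lit 0) (nat_lit 0) (XT.lf (nat_lit 0) (nat_lit 12493631416) (nat_lit 152) (nat_lit 888827651) (nat_lit 228) (nat_lit 55797737724) (nat_lit 11) (nat_lit 5) (nat_lit 13) (nat_lit 5) (nat_lit 14) (nat_lit 5) (nat_lit 226) (nat_lit 210) (nat_lit 164)) (XT.lf (nat_lit 0) (nat_lit 33389269712) (nat_lit 228) (nat_lit 15024368597) (nat_lit 76) (nat_lit 28686032706) (nat_lit 11) (nat_lit 5) (nat_lit 14) (nat_lit 5) (nat_lit 12) (nat_lit 4) (nat_lit 227) (nat_lit 210) (nat_lit 163))))))))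
noncomputable def xc38 : XT := (XT.nd (nat_lit 1560) (nat_lit 152) (nat_lit 0) (XT.nd (nat_lit 780) (nat_lit 76) (nat_lit 0) (XT.nd (nat_lit 390) (nat_lit 228) (nat_lit 0) (XT.nd (nat_lit 156) (nat_lit 228) (nat_lit 0) (XT.nd (nat_lit 78) (nat_lit 0) (nat_lit 0) (XT.lf (nat_lit 0) (nat_lit 34572474899) (nat_lit 76) (nat_lit 22668876111) (nat_lit 152) (nat_lit 28898205918) (nat_lit 10) (nat_lit 5) (nat_lit 11) (nat_lit 5) (nat_lit 12) (nat_lit 4) (nat_lit 228) (nat_lit 210) (nat_lit 162)) (XT.lf (nat_lit 0) (nat_lit 85276006889) (nat_lit 152) (nat_lit 4178576860) (nat_lit 0) (nat_lit 7032487493) (nat_lit 10) (nat_lit 5) (nat_lit 12) (nat_lit 4) (nat_lit 10) (nat_lit 4) (nat_lit 229) (nat_lit 210) (nat_lit 161))) (XT.nd (nat_lit 78) (nat_lit 76) (nat_lit 0) (XT.lf (nat_lit 0) (nat_lit 10596265748) (nat_lit 152) (nat_lit 56214128621) (nat_lit 76) (nat_lit 41404871635) (nat_lit 8) (nat_lit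 5) (nat_lit 10) (nat_lit 5) (nat_lit 9) (nat_lit 4) (nat_lit 230) (nat_lit 210) (nat_lit 160)) (XT.nd (nat_lit 78) (nat_lit 76) (nat_lit 0) (XT.lf (nat_lit 0) (nat_lit 35145748840) (nat_lit 152) (nat_lit 5160631602) (nat_lit 76) (nat_lit 81362242490) (nat_lit 8) (nat_lit 5) (nat_lit 10) (nat_lit 5) (nat_lit 9) (nat_lit 4) (nat_lit 231) (nat_lit 210) (nat_lit 159)) (XT.lf (nat_lit 0) (nat_lit 56356785035) (nat_lit 76) (nat_lit 8368586273) (nat_lit 152) (nat_lit 72306810875) (nat_lit 7) (nat_lit 5) (nat_lit 8) (nat_lit 5) (nat_lit 9) (nat_lit 4) (nat_lit 232) (nat_lit 210) (nat_lit 158))))) (XT.nd (nat_lit 156) (nat_lit 152) (nat_lit 0) (XT.nd (nat_lit 78) (nat_lit 76) (nat_lit 0) (XT.lf (nat_lit 0) (nat_lit 99571058067) (nat_lit 152) (nat_lit 27972506574) (nat_lit 0) (nat_lit 27090395041) (nat_lit 7) (nat_lit 5) (nat_lit 9) (nat_lit 4) (nat_lit 7) (nat_lit 4) (nat_lit 233) (nat_lit 210)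 (nat_lit 157)) (XT.lf (nat_lit 0) (nat_lit 34099168593) (nat_lit 76) (nat_lit 106589809873) (nat_lit 76) (nat_lit 34103407089) (nat_lit 6) (nat_lit 4) (nat_lit 7) (nat_lit 5) (nat_lit 7) (nat_lit 4) (nat_lit 234) (nat_lit 210) (nat_lit 156))) (XT.nd (nat_lit 78) (nat_lit 152) (nat_lit 0) (XT.lf (nat_lit 0) (nat_lit 107165480772) (nat_lit 76) (nat_lit 81617897846) (nat_lit 76) (nat_lit 9126503967) (nat_lit 6) (nat_lit 4) (nat_lit 7) (nat_lit 5) (nat_lit 7) (nat_lit 4) (nat_lit 235) (nat_lit 210) (nat_lit 155)) (XT.nd (nat_lit 78) (nat_lit 76) (nat_lit 0) (XT.lf (nat_lit 0) (nat_lit 18611613787) (nat_lit 152) (nat_lit 33783577282) (nat_lit 76) (nat_lit 172062517326) (nat_lit 5) (nat_lit 5) (nat_lit 7) (nat_lit 5) (nat_lit 6) (nat_lit 4) (nat_lit 236) (nat_lit 210) (nat_lit 154)) (XT.lf (nat_lit 0) (nat_lit 33117809947) (nat_lit 76) (nat_lit 17659746732) (nat_lit 152) (nat_lit 204126594796)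 (nat_lit 4) (nat_lit 5) (nat_lit 5) (nat_lit 5) (nat_lit 6) (nat_lit 4) (nat_lit 237) (nat_lit 210) (nat_lit 153)))))) (XT.nd (nat_lit 390) (nat_lit 0) (nat_lit 0) (XT.nd (nat_lit 156) (nat_lit 76) (nat_lit 0) (XT.nd (nat_lit 78) (nat_lit 0) (nat_lit 0) (XT.lf (nat_lit 0) (nat_lit 89309457507) (nat_lit 152) (nat_lit 178307579799) (nat_lit 0) (nat_lit 22177244848) (nat_lit 4) (nat_lit 5) (nat_lit 6) (nat_lit 4) (nat_lit 4) (nat_lit 4) (nat_lit 238) (nat_lit 210) (nat_lit 152)) (XT.lf (nat_lit 0) (nat_lit 134106061857) (nat_lit 152) (nat_lit 128801875817) (nat_lit 0) (nat_lit 66971206908) (nat_lit 4) (nat_lit 5) (nat_lit 6) (nat_lit 4) (nat_lit 4) (nat_lit 4) (nat_lit 239) (nat_lit 210) (nat_lit 151))) (XT.nd (nat_lit 78) (nat_lit 76) (nat_lit 0) (XT.lf (nat_lit 0) (nat_lit 185619107698) (nat_lit 152) (nat_lit 71875922389) (nat_lit 0) (nat_lit 118481955104) (nat_lit 4) (nat_lit 5) (nat_lit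 6) (nat_lit 4) (nat_lit 4) (nat_lit 4) (nat_lit 240) (nat_lit 210) (nat_lit 150)) (XT.nd (nat_lit 78) (nat_lit 76) (nat_lit 0) (XT.lf (nat_lit 0) (nat_lit 244856458970) (nat_lit 152) (nat_lit 6415950860) (nat_lit 0) (nat_lit 177717308424) (nat_lit 4) (nat_lit 5) (nat_lit 6) (nat_lit 4) (nat_lit 4) (nat_lit 4) (nat_lit 241) (nat_lit 210) (nat_lit 149)) (XT.lf (nat_lit 0) (nat_lit 72484758529) (nat_lit 76) (nat_lit 242235608985) (nat_lit 76) (nat_lit 175094721090) (nat_lit 3) (nat_lit 4) (nat_lit 4) (nat_lit 5) (nat_lit 4) (nat_lit 4) (nat_lit 242) (nat_lit 210) (nat_lit 148))))) (XT.nd (nat_lit 156) (nat_lit 0) (nat_lit 0) (XT.nd (nat_lit 78) (nat_lit 0) (nat_lit 0) (XT.lf (nat_lit 0) (nat_lit 163605224580) (nat_lit 76) (nat_lit 231643333073) (nat_lit 76) (nat_lit 164500934439) (nat_lit 3) (nat_lit 4) (nat_lit 4) (nat_lit 5) (nat_lit 4) (nat_lit 4) (nat_lit 243) (nat_lit 210) (nat_lit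 147)) (XT.lf (nat_lit 0) (nat_lit 268390386416) (nat_lit 76) (nat_lit 219463765381) (nat_lit 76) (nat_lit 152320053061) (nat_lit 3) (nat_lit 4) (nat_lit 4) (nat_lit 5) (nat_lit 4) (nat_lit 4) (nat_lit 244) (nat_lit 210) (nat_lit 146))) (XT.nd (nat_lit 78) (nat_lit 0) (nat_lit 0) (XT.lf (nat_lit 0) (nat_lit 388890388508) (nat_lit 76) (nat_lit 205458610019) (nat_lit 76) (nat_lit 138313755364) (nat_lit 3) (nat_lit 4) (nat_lit 4) (nat_lit 5) (nat_lit 4) (nat_lit 4) (nat_lit 245) (nat_lit 210) (nat_lit 145)) (XT.nd (nat_lit 78) (nat_lit 0) (nat_lit 0) (XT.lf (nat_lit 0) (nat_lit 527462839593) (nat_lit 76) (nat_lit 189353853077) (nat_lit 76) (nat_lit 122208005086) (nat_lit 3) (nat_lit 4) (nat_lit 4) (nat_lit 5) (nat_lit 4) (nat_lit 4) (nat_lit 246) (nat_lit 210) (nat_lit 144)) (XT.lf (nat_lit 0) (nat_lit 686818939800) (nat_lit 76) (nat_lit 170834401485) (nat_lit 76) (nat_lit 103687689725) (nat_lit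 3) (nat_lit 4) (nat_lit 4) (nat_lit 5) (nat_lit 4) (nat_lit 4) (nat_lit 247) (nat_lit 210) (nat_lit 143))))))) (XT.nd (nat_lit 780) (nat_lit 0) (nat_lit 0) (XT.nd (nat_lit 390) (nat_lit 0) (nat_lit 0) (XT.nd (nat_lit 156) (nat_lit 152) (nat_lit 0) (XT.nd (nat_lit 78) (nat_lit 0) (nat_lit 0) (XT.lf (nat_lit 0) (nat_lit 870076525874) (nat_lit 76) (nat_lit 149537918146) (nat_lit 76) (nat_lit 82390455282) (nat_lit 3) (nat_lit 4) (nat_lit 4) (nat_lit 5) (nat_lit 4) (nat_lit 4) (nat_lit 248) (nat_lit 210) (nat_lit 142)) (XT.lf (nat_lit 0) (nat_lit 1080821072324) (nat_lit 76) (nat_lit 125047732735) (nat_lit 76) (nat_lit 57899616737) (nat_lit 3) (nat_lit 4) (nat_lit 4) (nat_lit 5) (nat_lit 4) (nat_lit 4) (nat_lit 249) (nat_lit 210) (nat_lit 141))) (XT.nd (nat_lit 78) (nat_lit 152) (nat_lit 0) (XT.lf (nat_lit 0) (nat_lit 1323175842014) (nat_lit 76) (nat_lit 96884689450) (nat_lit 76) (nat_lit 29736005510)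 (nat_lit 3) (nat_lit 4) (nat_lit 4) (nat_lit 5) (nat_lit 4) (nat_lit 4) (nat_lit 250) (nat_lit 210) (nat_lit 140)) (XT.nd (nat_lit 78) (nat_lit 76) (nat_lit 0) (XT.lf (nat_lit 0) (nat_lit 2518771531) (nat_lit 152) (nat_lit 61910133018) (nat_lit 76) (nat_lit 1599294919493) (nat_lit 2) (nat_lit 5) (nat_lit 4) (nat_lit 5) (nat_lit 3) (nat_lit 4) (nat_lit 251) (nat_lit 210) (nat_lit 139)) (XT.lf (nat_lit 0) (nat_lit 12298682614) (nat_lit 76) (nat_lit 25897610589) (nat_lit 152) (nat_lit 1871454504195) (nat_lit 1) (nat_lit 5) (nat_lit 2) (nat_lit 5) (nat_lit 3) (nat_lit 4) (nat_lit 252) (nat_lit 210) (nat_lit 138))))) (XT.nd (nat_lit 156) (nat_lit 0) (nat_lit 0) (XT.nd (nat_lit 78) (nat_lit 0) (nat_lit 0) (XT.lf (nat_lit 0) (nat_lit 81516979540) (nat_lit 152) (nat_lit 2091425443538) (nat_lit 0) (nat_lit 19341071501) (nat_lit 1) (nat_lit 5) (nat_lit 3) (nat_lit 4) (nat_lit 1) (nat_lit 4) (nat_lit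 253) (nat_lit 210) (nat_lit 137)) (XT.lf (nat_lit 0) (nat_lit 132051537515) (nat_lit 152) (nat_lit 2315326969160) (nat_lit 0) (nat_lit 69875328807) (nat_lit 1) (nat_lit 5) (nat_lit 3) (nat_lit 4) (nat_lit 1) (nat_lit 4) (nat_lit 254) (nat_lit 210) (nat_lit 136))) (XT.nd (nat_lit 78) (nat_lit 0) (nat_lit 0) (XT.lf (nat_lit 0) (nat_lit 190165848584) (nat_lit 152) (nat_lit 2572814535515) (nat_lit 0) (nat_lit 127989378425) (nat_lit 1) (nat_lit 5) (nat_lit 3) (nat_lit 4) (nat_lit 1) (nat_lit 4) (nat_lit 255) (nat_lit 210) (nat_lit 135)) (XT.nd (nat_lit 78) (nat_lit 0) (nat_lit 0) (XT.lf (nat_lit 0) (nat_lit 256996931877) (nat_lit 152) (nat_lit 2868925942816) (nat_lit 0) (nat_lit 194820234368) (nat_lit 1) (nat_lit 5) (nat_lit 3) (nat_lit 4) (nat_lit 1) (nat_lit 4) (nat_lit 256) (nat_lit 210) (nat_lit 134)) (XT.lf (nat_lit 0) (nat_lit 333852352067) (nat_lit 152) (nat_lit 3209454675116) (nat_lit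 0) (nat_lit 271675456863) (nat_lit 1) (nat_lit 5) (nat_lit 3) (nat_lit 4) (nat_lit 1) (nat_lit 4) (nat_lit 257) (nat_lit 210) (nat_lit 133)))))) (XT.nd (nat_lit 27768) (nat_lit 0) (nat_lit 2204) (XT.nd (nat_lit 156) (nat_lit 0) (nat_lit 0) (XT.nd (nat_lit 78) (nat_lit 0) (nat_lit 0) (XT.lf (nat_lit 0) (nat_lit 422235802157) (nat_lit 152) (nat_lit 3601063251094) (nat_lit 0) (nat_lit 360058735044) (nat_lit 1) (nat_lit 5) (nat_lit 3) (nat_lit 4) (nat_lit 1) (nat_lit 4) (nat_lit 258) (nat_lit 210) (nat_lit 132)) (XT.lf (nat_lit 0) (nat_lit 523876523562) (nat_lit 152) (nat_lit 4051413577668) (nat_lit 0) (nat_lit 461699306964) (nat_lit 1) (nat_lit 5) (nat_lit 3) (nat_lit 4) (nat_lit 1) (nat_lit 4) (nat_lit 259) (nat_lit 210) (nat_lit 131))) (XT.nd (nat_lit 27456) (nat_lit 0) (nat_lit 2660) (XT.lf (nat_lit 0) (nat_lit 640763139093) (nat_lit 152) (nat_lit 4569316856882) (nat_lit 0) (nat_lit 578585792507)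 (nat_lit 1) (nat_lit 5) (nat_lit 3) (nat_lit 4) (nat_lit 1) (nat_lit 4) (nat_lit 260) (nat_lit 210) (nat_lit 130)) (XT.nd (nat_lit 78) (nat_lit 0) (nat_lit 76) (XT.lf (nat_lit 0) (nat_lit 2814229638) (nat_lit 532) (nat_lit 3394928779) (nat_lit 532) (nat_lit 3394928779) (nat_lit 36) (nat_lit 3) (nat_lit 43) (nat_lit 3) (nat_lit 43) (nat_lit 5) (nat_lit 211) (nat_lit 211) (nat_lit 178)) (XT.lf (nat_lit 0) (nat_lit 6617073935) (nat_lit 456) (nat_lit 11604563544) (nat_lit 532) (nat_lit 2380305680) (nat_lit 37) (nat_lit 5) (nat_lit 43) (nat_lit 5) (nat_lit 44) (nat_lit 5) (nat_lit 212) (nat_lit 211) (nat_lit 177))))) (XT.nd (nat_lit 156) (nat_lit 532) (nat_lit 0) (XT.nd (nat_lit 78) (nat_lit 0) (nat_lit 76) (XT.lf (nat_lit 76) (nat_lit 5254889390) (nat_lit 0) (nat_lit 3120259586) (nat_lit 532) (nat_lit 13780206500) (nat_lit 38) (nat_lit 5) (nat_lit 37) (nat_lit 5) (nat_lit 44) (nat_lit 5)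 (nat_lit 213) (nat_lit 211) (nat_lit 176)) (XT.lf (nat_lit 76) (nat_lit 1099219170) (nat_lit 0) (nat_lit 9968221006) (nat_lit 532) (nat_lit 12820935327) (nat_lit 39) (nat_lit 5) (nat_lit 38) (nat_lit 5) (nat_lit 45) (nat_lit 5) (nat_lit 214) (nat_lit 211) (nat_lit 175))) (XT.nd (nat_lit 78) (nat_lit 684) (nat_lit 0) (XT.lf (nat_lit 0) (nat_lit 14892032989) (nat_lit 456) (nat_lit 3332193585) (nat_lit 76) (nat_lit 7599050764) (nat_lit 39) (nat_lit 5) (nat_lit 45) (nat_lit 5) (nat_lit 40) (nat_lit 5) (nat_lit 215) (nat_lit 211) (nat_lit 174)) (XT.nd (nat_lit 78) (nat_lit 228) (nat_lit 0) (XT.lf (nat_lit 0) (nat_lit 19722758952) (nat_lit 456) (nat_lit 282892707) (nat_lit 532) (nat_lit 7985714476) (nat_lit 33) (nat_lit 5) (nat_lit 39) (nat_lit 5) (nat_lit 40) (nat_lit 5) (nat_lit 216) (nat_lit 211) (nat_lit 173)) (XT.lf (nat_lit 0) (nat_lit 16250332721) (nat_lit 228) (nat_lit 10584933130)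 (nat_lit 304) (nat_lit 3573641522) (nat_lit 30) (nat_lit 5) (nat_lit 33) (nat_lit 5) (nat_lit 34) (nat_lit 5) (nat_lit 217) (nat_lit 211) (nat_lit 172))))))))
noncomputable def xc39 : XT := (XT.nd (nat_lit 1560) (nat_lit 304) (nat_lit 0) (XT.nd (nat_lit 780) (nat_lit 456) (nat_lit 0) (XT.nd (nat_lit 390) (nat_lit 684) (nat_lit 0) (XT.nd (nat_lit 156) (nat_lit 304) (nat_lit 0) (XT.nd (nat_lit 78) (nat_lit 228) (nat_lit 0) (XT.lf (nat_lit 0) (nat_lit 2197105298) (nat_lit 228) (nat_lit 21080411653) (nat_lit 76) (nat_lit 9847048559) (nat_lit 27) (nat_lit 5) (nat_lit 30) (nat_lit 5) (nat_lit 28) (nat_lit 5) (nat_lit 218) (nat_lit 211) (nat_lit 171)) (XT.lf (nat_lit 0) (nat_lit 6724244572) (nat_lit 228) (nat_lit 2755662545) (nat_lit 304) (nat_lit 26691704868) (nat_lit 24) (nat_lit 5) (nat_lit 27) (nat_lit 5) (nat_lit 28) (nat_lit 5) (nat_lit 219) (nat_lit 211) (nat_lit 170))) (XT.nd (nat_lit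 78) (nat_lit 304) (nat_lit 0) (XT.lf (nat_lit 0) (nat_lit 18963287146) (nat_lit 304) (nat_lit 196896744) (nat_lit 76) (nat_lit 20426973479) (nat_lit 24) (nat_lit 5) (nat_lit 28) (nat_lit 5) (nat_lit 25) (nat_lit 5) (nat_lit 220) (nat_lit 211) (nat_lit 169)) (XT.nd (nat_lit 78) (nat_lit 152) (nat_lit 0) (XT.lf (nat_lit 0) (nat_lit 30873608745) (nat_lit 228) (nat_lit 8451969293) (nat_lit 76) (nat_lit 4109183995) (nat_lit 22) (nat_lit 5) (nat_lit 25) (nat_lit 5) (nat_lit 23) (nat_lit 5) (nat_lit 221) (nat_lit 211) (nat_lit 168)) (XT.lf (nat_lit 0) (nat_lit 28461388170) (nat_lit 152) (nat_lit 17311442709) (nat_lit 228) (nat_lit 1990559846) (nat_lit 20) (nat_lit 5) (nat_lit 22) (nat_lit 5) (nat_lit 23) (nat_lit 5) (nat_lit 222) (nat_lit 211) (nat_lit 167))))) (XT.nd (nat_lit 156) (nat_lit 304) (nat_lit 0) (XT.nd (nat_lit 78) (nat_lit 152) (nat_lit 0) (XT.lf (nat_lit 0) (nat_lit 10576828889)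 (nat_lit 228) (nat_lit 33485018063) (nat_lit 76) (nat_lit 8586387116) (nat_lit 17) (nat_lit 5) (nat_lit 20) (nat_lit 5) (nat_lit 18) (nat_lit 5) (nat_lit 223) (nat_lit 211) (nat_lit 166)) (XT.lf (nat_lit 0) (nat_lit 6079351347) (nat_lit 152) (nat_lit 20021883959) (nat_lit 228) (nat_lit 32065300627) (nat_lit 15) (nat_lit 5) (nat_lit 17) (nat_lit 5) (nat_lit 18) (nat_lit 5) (nat_lit 224) (nat_lit 211) (nat_lit 165))) (XT.nd (nat_lit 78) (nat_lit 304) (nat_lit 0) (XT.lf (nat_lit 0) (nat_lit 45124040518) (nat_lit 228) (nat_lit 11058765323) (nat_lit 76) (nat_lit 8236241749) (nat_lit 15) (nat_lit 5) (nat_lit 18) (nat_lit 5) (nat_lit 16) (nat_lit 4) (nat_lit 225) (nat_lit 211) (nat_lit 164)) (XT.nd (nat_lit 78) (nat_lit 228) (nat_lit 0) (XT.lf (nat_lit 0) (nat_lit 37423433527) (nat_lit 76) (nat_lit 31018603131) (nat_lit 152) (nat_lit 3052095581) (nat_lit 14) (nat_lit 5) (nat_lit 15) (nat_lit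 5) (nat_lit 16) (nat_lit 4) (nat_lit 226) (nat_lit 211) (nat_lit 163)) (XT.lf (nat_lit 0) (nat_lit 14569736573) (nat_lit 152) (nat_lit 945327207) (nat_lit 228) (nat_lit 64031815454) (nat_lit 11) (nat_lit 5) (nat_lit 13) (nat_lit 5) (nat_lit 14) (nat_lit 5) (nat_lit 227) (nat_lit 211) (nat_lit 162)))))) (XT.nd (nat_lit 390) (nat_lit 228) (nat_lit 0) (XT.nd (nat_lit 156) (nat_lit 152) (nat_lit 0) (XT.nd (nat_lit 78) (nat_lit 76) (nat_lit 0) (XT.lf (nat_lit 0) (nat_lit 38508167548) (nat_lit 228) (nat_lit 17094928332) (nat_lit 76) (nat_lit 33052399799) (nat_lit 11) (nat_lit 5) (nat_lit 14) (nat_lit 5) (nat_lit 12) (nat_lit 4) (nat_lit 228) (nat_lit 211) (nat_lit 161)) (XT.lf (nat_lit 0) (nat_lit 39925943561) (nat_lit 76) (nat_lit 26001734196) (nat_lit 152) (nat_lit 33124554610) (nat_lit 10) (nat_lit 5) (nat_lit 11) (nat_lit 5) (nat_lit 12) (nat_lit 4) (nat_lit 229) (nat_lit 211) (nat_lit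 160))) (XT.nd (nat_lit 78) (nat_lit 152) (nat_lit 0) (XT.lf (nat_lit 0) (nat_lit 98155883427) (nat_lit 152) (nat_lit 4653856614) (nat_lit 0) (nat_lit 8143098046) (nat_lit 10) (nat_lit 5) (nat_lit 12) (nat_lit 4) (nat_lit 10) (nat_lit 4) (nat_lit 230) (nat_lit 211) (nat_lit 159)) (XT.nd (nat_lit 78) (nat_lit 0) (nat_lit 0) (XT.lf (nat_lit 0) (nat_lit 12268239365) (nat_lit 152) (nat_lit 64503045598) (nat_lit 76) (nat_lit 47669494489) (nat_lit 8) (nat_lit 5) (nat_lit 10) (nat_lit 5) (nat_lit 9) (nat_lit 4) (nat_lit 231) (nat_lit 211) (nat_lit 158)) (XT.lf (nat_lit 0) (nat_lit 40489379648) (nat_lit 152) (nat_lit 5810202590) (nat_lit 76) (nat_lit 93613441567) (nat_lit 8) (nat_lit 5) (nat_lit 10) (nat_lit 5) (nat_lit 9) (nat_lit 4) (nat_lit 232) (nat_lit 211) (nat_lit 157))))) (XT.nd (nat_lit 156) (nat_lit 152) (nat_lit 0) (XT.nd (nat_lit 78) (nat_lit 0) (nat_lit 0) (XT.lf (nat_lit 0) (nat_lit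 64924286228) (nat_lit 76) (nat_lit 9575039457) (nat_lit 152) (nat_lit 83082340550) (nat_lit 7) (nat_lit 5) (nat_lit 8) (nat_lit 5) (nat_lit 9) (nat_lit 4) (nat_lit 233) (nat_lit 211) (nat_lit 156)) (XT.lf (nat_lit 0) (nat_lit 114564389087) (nat_lit 152) (nat_lit 32065641484) (nat_lit 0) (nat_lit 31194295032) (nat_lit 7) (nat_lit 5) (nat_lit 9) (nat_lit 4) (nat_lit 7) (nat_lit 4) (nat_lit 234) (nat_lit 211) (nat_lit 155))) (XT.nd (nat_lit 78) (nat_lit 76) (nat_lit 0) (XT.lf (nat_lit 0) (nat_lit 39308088438) (nat_lit 76) (nat_lit 122536648408) (nat_lit 76) (nat_lit 39162214270) (nat_lit 6) (nat_lit 4) (nat_lit 7) (nat_lit 5) (nat_lit 7) (nat_lit 4) (nat_lit 235) (nat_lit 211) (nat_lit 154)) (XT.nd (nat_lit 78) (nat_lit 76) (nat_lit 0) (XT.lf (nat_lit 0) (nat_lit 123322080762) (nat_lit 76) (nat_lit 93824379961) (nat_lit 76) (nat_lit 10446171839) (nat_lit 6) (nat_lit 4) (nat_lit 7) (nat_lit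 5) (nat_lit 7) (nat_lit 4) (nat_lit 236) (nat_lit 211) (nat_lit 153)) (XT.lf (nat_lit 0) (nat_lit 21444087291) (nat_lit 152) (nat_lit 38777788280) (nat_lit 76) (nat_lit 197901161015) (nat_lit 5) (nat_lit 5) (nat_lit 7) (nat_lit 5) (nat_lit 6) (nat_lit 4) (nat_lit 237) (nat_lit 211) (nat_lit 152))))))) (XT.nd (nat_lit 780) (nat_lit 152) (nat_lit 0) (XT.nd (nat_lit 390) (nat_lit 76) (nat_lit 0) (XT.nd (nat_lit 156) (nat_lit 0) (nat_lit 0) (XT.nd (nat_lit 78) (nat_lit 0) (nat_lit 0) (XT.lf (nat_lit 0) (nat_lit 38152600387) (nat_lit 76) (nat_lit 20278622646) (nat_lit 152) (nat_lit 234705528054) (nat_lit 4) (nat_lit 5) (nat_lit 5) (nat_lit 5) (nat_lit 6) (nat_lit 4) (nat_lit 238) (nat_lit 211) (nat_lit 151)) (XT.lf (nat_lit 0) (nat_lit 102738707806) (nat_lit 152) (nat_lit 204993352868) (nat_lit 0) (nat_lit 25528684678) (nat_lit 4) (nat_lit 5) (nat_lit 6) (nat_lit 4) (nat_lit 4) (nat_lit 4)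 (nat_lit 239) (nat_lit 211) (nat_lit 150))) (XT.nd (nat_lit 78) (nat_lit 0) (nat_lit 0) (XT.lf (nat_lit 0) (nat_lit 154250520417) (nat_lit 152) (nat_lit 148069666841) (nat_lit 0) (nat_lit 77038499337) (nat_lit 4) (nat_lit 5) (nat_lit 6) (nat_lit 4) (nat_lit 4) (nat_lit 4) (nat_lit 240) (nat_lit 211) (nat_lit 149)) (XT.nd (nat_lit 78) (nat_lit 0) (nat_lit 0) (XT.lf (nat_lit 0) (nat_lit 213486799314) (nat_lit 152) (nat_lit 82611666965) (nat_lit 0) (nat_lit 136273040885) (nat_lit 4) (nat_lit 5) (nat_lit 6) (nat_lit 4) (nat_lit 4) (nat_lit 4) (nat_lit 241) (nat_lit 211) (nat_lit 148)) (XT.lf (nat_lit 0) (nat_lit 281606515174) (nat_lit 152) (nat_lit 7338653244) (nat_lit 0) (nat_lit 204391246006) (nat_lit 4) (nat_lit 5) (nat_lit 6) (nat_lit 4) (nat_lit 4) (nat_lit 4) (nat_lit 242) (nat_lit 211) (nat_lit 147))))) (XT.nd (nat_lit 156) (nat_lit 0) (nat_lit 0) (XT.nd (nat_lit 78) (nat_lit 0) (nat_lit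 0) (XT.lf (nat_lit 0) (nat_lit 83393802972) (nat_lit 76) (nat_lit 278554265038) (nat_lit 76) (nat_lit 201337682185) (nat_lit 3) (nat_lit 4) (nat_lit 4) (nat_lit 5) (nat_lit 4) (nat_lit 4) (nat_lit 243) (nat_lit 211) (nat_lit 146)) (XT.lf (nat_lit 0) (nat_lit 188177600148) (nat_lit 76) (nat_lit 266375324082) (nat_lit 76) (nat_lit 189157598894) (nat_lit 3) (nat_lit 4) (nat_lit 4) (nat_lit 5) (nat_lit 4) (nat_lit 4) (nat_lit 244) (nat_lit 211) (nat_lit 145))) (XT.nd (nat_lit 78) (nat_lit 0) (nat_lit 0) (XT.lf (nat_lit 0) (nat_lit 308676415579) (nat_lit 76) (nat_lit 252370713708) (nat_lit 76) (nat_lit 175151995184) (nat_lit 3) (nat_lit 4) (nat_lit 4) (nat_lit 5) (nat_lit 4) (nat_lit 4) (nat_lit 245) (nat_lit 211) (nat_lit 144)) (XT.nd (nat_lit 78) (nat_lit 0) (nat_lit 0) (XT.lf (nat_lit 0) (nat_lit 447247834785) (nat_lit 76) (nat_lit 236266430669) (nat_lit 76) (nat_lit 159046848376) (nat_lit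 3) (nat_lit 4) (nat_lit 4) (nat_lit 5) (nat_lit 4) (nat_lit 4) (nat_lit 246) (nat_lit 211) (nat_lit 143)) (XT.lf (nat_lit 0) (nat_lit 606603037707) (nat_lit 76) (nat_lit 217747391167) (nat_lit 76) (nat_lit 140527057769) (nat_lit 3) (nat_lit 4) (nat_lit 4) (nat_lit 5) (nat_lit 4) (nat_lit 4) (nat_lit 247) (nat_lit 211) (nat_lit 142)))))) (XT.nd (nat_lit 390) (nat_lit 76) (nat_lit 0) (XT.nd (nat_lit 156) (nat_lit 76) (nat_lit 0) (XT.nd (nat_lit 78) (nat_lit 0) (nat_lit 0) (XT.lf (nat_lit 0) (nat_lit 789859843531) (nat_lit 76) (nat_lit 196451266167) (nat_lit 76) (nat_lit 119230279636) (nat_lit 3) (nat_lit 4) (nat_lit 4) (nat_lit 5) (nat_lit 4) (nat_lit 4) (nat_lit 248) (nat_lit 211) (nat_lit 141)) (XT.lf (nat_lit 0) (nat_lit 1000603711504) (nat_lit 76) (nat_lit 171961392355) (nat_lit 76) (nat_lit 94739837881) (nat_lit 3) (nat_lit 4) (nat_lit 4) (nat_lit 5) (nat_lit 4) (nat_lit 4) (nat_lit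 249) (nat_lit 211) (nat_lit 140))) (XT.nd (nat_lit 78) (nat_lit 76) (nat_lit 0) (XT.lf (nat_lit 0) (nat_lit 1242957891214) (nat_lit 76) (nat_lit 143798620025) (nat_lit 76) (nat_lit 66576571688) (nat_lit 3) (nat_lit 4) (nat_lit 4) (nat_lit 5) (nat_lit 4) (nat_lit 4) (nat_lit 250) (nat_lit 211) (nat_lit 139)) (XT.nd (nat_lit 78) (nat_lit 76) (nat_lit 0) (XT.lf (nat_lit 0) (nat_lit 1521664094875) (nat_lit 76) (nat_lit 111411938415) (nat_lit 76) (nat_lit 34189460632) (nat_lit 3) (nat_lit 4) (nat_lit 4) (nat_lit 5) (nat_lit 4) (nat_lit 4) (nat_lit 251) (nat_lit 211) (nat_lit 138)) (XT.lf (nat_lit 0) (nat_lit 2902324871) (nat_lit 152) (nat_lit 71186015482) (nat_lit 76) (nat_lit 1839193590372) (nat_lit 2) (nat_lit 5) (nat_lit 4) (nat_lit 5) (nat_lit 3) (nat_lit 4) (nat_lit 252) (nat_lit 211) (nat_lit 137))))) (XT.nd (nat_lit 234) (nat_lit 0) (nat_lit 0) (XT.nd (nat_lit 78) (nat_lit 0) (nat_lit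 0) (XT.lf (nat_lit 0) (nat_lit 14153222084) (nat_lit 76) (nat_lit 29777738502) (nat_lit 152) (nat_lit 2152167031666) (nat_lit 1) (nat_lit 5) (nat_lit 2) (nat_lit 5) (nat_lit 3) (nat_lit 4) (nat_lit 253) (nat_lit 211) (nat_lit 136)) (XT.nd (nat_lit 78) (nat_lit 0) (nat_lit 0) (XT.lf (nat_lit 0) (nat_lit 93749162955) (nat_lit 152) (nat_lit 2405130518087) (nat_lit 0) (nat_lit 22245960820) (nat_lit 1) (nat_lit 5) (nat_lit 3) (nat_lit 4) (nat_lit 1) (nat_lit 4) (nat_lit 254) (nat_lit 211) (nat_lit 135)) (XT.lf (nat_lit 0) (nat_lit 151863299868) (nat_lit 152) (nat_lit 2662618412811) (nat_lit 0) (nat_lit 80359870384) (nat_lit 1) (nat_lit 5) (nat_lit 3) (nat_lit 4) (nat_lit 1) (nat_lit 4) (nat_lit 255) (nat_lit 211) (nat_lit 134)))) (XT.nd (nat_lit 78) (nat_lit 0) (nat_lit 0) (XT.lf (nat_lit 0) (nat_lit 218694231720) (nat_lit 152) (nat_lit 2958730105648) (nat_lit 0) (nat_lit 147190604541) (nat_lit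 1) (nat_lit 5) (nat_lit 3) (nat_lit 4) (nat_lit 1) (nat_lit 4) (nat_lit 256) (nat_lit 211) (nat_lit 133)) (XT.nd (nat_lit 78) (nat_lit 0) (nat_lit 0) (XT.lf (nat_lit 0) (nat_lit 295549520223) (nat_lit 152) (nat_lit 3299259086243) (nat_lit 0) (nat_lit 224045721135) (nat_lit 1) (nat_lit 5) (nat_lit 3) (nat_lit 4) (nat_lit 1) (nat_lit 4) (nat_lit 257) (nat_lit 211) (nat_lit 132)) (XT.lf (nat_lit 0) (nat_lit 383932855802) (nat_lit 152) (nat_lit 3690867878128) (nat_lit 0) (nat_lit 312428907228) (nat_lit 1) (nat_lit 5) (nat_lit 3) (nat_lit 4) (nat_lit 1) (nat_lit 4) (nat_lit 258) (nat_lit 211) (nat_lit 131))))))))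
noncomputable def xc40 : XT := (XT.nd (nat_lit 29094) (nat_lit 0) (nat_lit 152) (XT.nd (nat_lit 28314) (nat_lit 0) (nat_lit 684) (XT.nd (nat_lit 27924) (nat_lit 0) (nat_lit 1748) (XT.nd (nat_lit 27690) (nat_lit 0) (nat_lit 2736) (XT.nd (nat_lit 27612) (nat_lit 0) (nat_lit 2660) (XT.lf (nat_lit 0) (nat_lit 485573477633) (nat_lit 152) (nat_lit 4141218392448) (nat_lit 0) (nat_lit 414069399071) (nat_lit 1) (nat_lit 5) (nat_lit 3) (nat_lit 4) (nat_lit 1) (nat_lit 4) (nat_lit 259) (nat_lit 211) (nat_lit 130)) (XT.lf (nat_lit 0) (nat_lit 3512694462) (nat_lit 532) (nat_lit 3754218335) (nat_lit 532) (nat_lit 3754218335) (nat_lit 36) (nat_lit 3) (nat_lit 43) (nat_lit 3) (nat_lit 43) (nat_lit 5) (nat_lit 212) (nat_lit 212) (nat_lit 176))) (XT.nd (nat_lit 78) (nat_lit 0) (nat_lit 0) (XT.lf (nat_lit 0) (nat_lit 8091697148) (nat_lit 456) (nat_lit 13024101045) (nat_lit 532) (nat_lit 2535327622) (nat_lit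 37) (nat_lit 5) (nat_lit 43) (nat_lit 5) (nat_lit 44) (nat_lit 5) (nat_lit 213) (nat_lit 212) (nat_lit 175)) (XT.nd (nat_lit 78) (nat_lit 0) (nat_lit 76) (XT.lf (nat_lit 76) (nat_lit 6337086333) (nat_lit 0) (nat_lit 3720589274) (nat_lit 532) (nat_lit 15384670806) (nat_lit 38) (nat_lit 5) (nat_lit 37) (nat_lit 5) (nat_lit 44) (nat_lit 5) (nat_lit 214) (nat_lit 212) (nat_lit 174)) (XT.lf (nat_lit 76) (nat_lit 1569334043) (nat_lit 0) (nat_lit 11533452291) (nat_lit 532) (nat_lit 14336903570) (nat_lit 39) (nat_lit 5) (nat_lit 38) (nat_lit 5) (nat_lit 45) (nat_lit 5) (nat_lit 215) (nat_lit 212) (nat_lit 173))))) (XT.nd (nat_lit 156) (nat_lit 684) (nat_lit 0) (XT.nd (nat_lit 78) (nat_lit 456) (nat_lit 0) (XT.lf (nat_lit 0) (nat_lit 17450661132) (nat_lit 456) (nat_lit 3537364032) (nat_lit 76) (nat_lit 8681085297) (nat_lit 39) (nat_lit 5) (nat_lit 45) (nat_lit 5) (nat_lit 40) (nat_lit 5) (nat_lit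 216) (nat_lit 212) (nat_lit 172)) (XT.lf (nat_lit 0) (nat_lit 22950890003) (nat_lit 456) (nat_lit 344551061) (nat_lit 532) (nat_lit 8870060203) (nat_lit 33) (nat_lit 5) (nat_lit 39) (nat_lit 5) (nat_lit 40) (nat_lit 5) (nat_lit 217) (nat_lit 212) (nat_lit 171))) (XT.nd (nat_lit 78) (nat_lit 456) (nat_lit 0) (XT.lf (nat_lit 0) (nat_lit 18957682909) (nat_lit 228) (nat_lit 12160213096) (nat_lit 304) (nat_lit 3830495509) (nat_lit 30) (nat_lit 5) (nat_lit 33) (nat_lit 5) (nat_lit 34) (nat_lit 5) (nat_lit 218) (nat_lit 212) (nat_lit 170)) (XT.nd (nat_lit 78) (nat_lit 228) (nat_lit 0) (XT.lf (nat_lit 0) (nat_lit 2764150189) (nat_lit 228) (nat_lit 23962258825) (nat_lit 76) (nat_lit 11346824684) (nat_lit 27) (nat_lit 5) (nat_lit 30) (nat_lit 5) (nat_lit 28) (nat_lit 5) (nat_lit 219) (nat_lit 212) (nat_lit 169)) (XT.lf (nat_lit 0) (nat_lit 7989377065) (nat_lit 228) (nat_lit 3125188412) (nat_lit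 304) (nat_lit 30464889035) (nat_lit 24) (nat_lit 5) (nat_lit 27) (nat_lit 5) (nat_lit 28) (nat_lit 5) (nat_lit 220) (nat_lit 212) (nat_lit 168)))))) (XT.nd (nat_lit 390) (nat_lit 380) (nat_lit 0) (XT.nd (nat_lit 156) (nat_lit 532) (nat_lit 0) (XT.nd (nat_lit 78) (nat_lit 0) (nat_lit 0) (XT.lf (nat_lit 0) (nat_lit 11849432) (nat_lit 152) (nat_lit 21982064677) (nat_lit 228) (nat_lit 23515656165) (nat_lit 22) (nat_lit 5) (nat_lit 24) (nat_lit 5) (nat_lit 25) (nat_lit 5) (nat_lit 221) (nat_lit 212) (nat_lit 167)) (XT.lf (nat_lit 0) (nat_lit 35672710365) (nat_lit 228) (nat_lit 9489399098) (nat_lit 76) (nat_lit 4773752495) (nat_lit 22) (nat_lit 5) (nat_lit 25) (nat_lit 5) (nat_lit 23) (nat_lit 5) (nat_lit 222) (nat_lit 212) (nat_lit 166))) (XT.nd (nat_lit 78) (nat_lit 380) (nat_lit 0) (XT.lf (nat_lit 0) (nat_lit 32941462684) (nat_lit 152) (nat_lit 19848503564) (nat_lit 228) (nat_lit 2125254003)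 (nat_lit 20) (nat_lit 5) (nat_lit 22) (nat_lit 5) (nat_lit 23) (nat_lit 5) (nat_lit 223) (nat_lit 212) (nat_lit 165)) (XT.nd (nat_lit 78) (nat_lit 152) (nat_lit 0) (XT.lf (nat_lit 0) (nat_lit 12305033638) (nat_lit 228) (nat_lit 38296531262) (nat_lit 76) (nat_lit 9932101068) (nat_lit 17) (nat_lit 5) (nat_lit 20) (nat_lit 5) (nat_lit 18) (nat_lit 5) (nat_lit 224) (nat_lit 212) (nat_lit 164)) (XT.lf (nat_lit 0) (nat_lit 7184613187) (nat_lit 152) (nat_lit 22959658068) (nat_lit 228) (nat_lit 36736609383) (nat_lit 15) (nat_lit 5) (nat_lit 17) (nat_lit 5) (nat_lit 18) (nat_lit 5) (nat_lit 225) (nat_lit 212) (nat_lit 163))))) (XT.nd (nat_lit 156) (nat_lit 304) (nat_lit 0) (XT.nd (nat_lit 78) (nat_lit 76) (nat_lit 0) (XT.lf (nat_lit 0) (nat_lit 52005191059) (nat_lit 228) (nat_lit 12541563301) (nat_lit 76) (nat_lit 9525792346) (nat_lit 15) (nat_lit 5) (nat_lit 18) (nat_lit 5) (nat_lit 16) (nat_lit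 4) (nat_lit 226) (nat_lit 212) (nat_lit 162)) (XT.lf (nat_lit 0) (nat_lit 43198066429) (nat_lit 76) (nat_lit 35612015367) (nat_lit 152) (nat_lit 3399722878) (nat_lit 14) (nat_lit 5) (nat_lit 15) (nat_lit 5) (nat_lit 16) (nat_lit 4) (nat_lit 227) (nat_lit 212) (nat_lit 161))) (XT.nd (nat_lit 78) (nat_lit 76) (nat_lit 0) (XT.lf (nat_lit 0) (nat_lit 16907983785) (nat_lit 152) (nat_lit 1029035859) (nat_lit 228) (nat_lit 73534067600) (nat_lit 11) (nat_lit 5) (nat_lit 13) (nat_lit 5) (nat_lit 14) (nat_lit 5) (nat_lit 228) (nat_lit 212) (nat_lit 160)) (XT.nd (nat_lit 78) (nat_lit 76) (nat_lit 0) (XT.lf (nat_lit 0) (nat_lit 44367952135) (nat_lit 228) (nat_lit 19520721038) (nat_lit 76) (nat_lit 38058246299) (nat_lit 11) (nat_lit 5) (nat_lit 14) (nat_lit 5) (nat_lit 12) (nat_lit 4) (nat_lit 229) (nat_lit 212) (nat_lit 159)) (XT.lf (nat_lit 0) (nat_lit 46041562829) (nat_lit 76) (nat_lit 29850974793)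 (nat_lit 152) (nat_lit 38011285292) (nat_lit 10) (nat_lit 5) (nat_lit 11) (nat_lit 5) (nat_lit 12) (nat_lit 4) (nat_lit 230) (nat_lit 212) (nat_lit 158))))))) (XT.nd (nat_lit 780) (nat_lit 76) (nat_lit 0) (XT.nd (nat_lit 390) (nat_lit 228) (nat_lit 0) (XT.nd (nat_lit 156) (nat_lit 76) (nat_lit 0) (XT.nd (nat_lit 78) (nat_lit 152) (nat_lit 0) (XT.lf (nat_lit 0) (nat_lit 112946166134) (nat_lit 152) (nat_lit 5237374218) (nat_lit 0) (nat_lit 9406708257) (nat_lit 10) (nat_lit 5) (nat_lit 12) (nat_lit 4) (nat_lit 10) (nat_lit 4) (nat_lit 231) (nat_lit 212) (nat_lit 157)) (XT.lf (nat_lit 0) (nat_lit 14170882645) (nat_lit 152) (nat_lit 74070220914) (nat_lit 76) (nat_lit 54860668838) (nat_lit 8) (nat_lit 5) (nat_lit 10) (nat_lit 5) (nat_lit 9) (nat_lit 4) (nat_lit 232) (nat_lit 212) (nat_lit 156))) (XT.nd (nat_lit 78) (nat_lit 76) (nat_lit 0) (XT.lf (nat_lit 0) (nat_lit 46617053878) (nat_lit 152)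 (nat_lit 6587575131) (nat_lit 76) (nat_lit 107690892738) (nat_lit 8) (nat_lit 5) (nat_lit 10) (nat_lit 5) (nat_lit 9) (nat_lit 4) (nat_lit 233) (nat_lit 212) (nat_lit 155)) (XT.nd (nat_lit 78) (nat_lit 0) (nat_lit 0) (XT.lf (nat_lit 0) (nat_lit 74749117017) (nat_lit 76) (nat_lit 10974369283) (nat_lit 152) (nat_lit 95491389586) (nat_lit 7) (nat_lit 5) (nat_lit 8) (nat_lit 5) (nat_lit 9) (nat_lit 4) (nat_lit 234) (nat_lit 212) (nat_lit 154)) (XT.lf (nat_lit 0) (nat_lit 131792656003) (nat_lit 152) (nat_lit 36797800693) (nat_lit 0) (nat_lit 35903942678) (nat_lit 7) (nat_lit 5) (nat_lit 9) (nat_lit 4) (nat_lit 7) (nat_lit 4) (nat_lit 235) (nat_lit 212) (nat_lit 153))))) (XT.nd (nat_lit 156) (nat_lit 152) (nat_lit 0) (XT.nd (nat_lit 78) (nat_lit 0) (nat_lit 0) (XT.lf (nat_lit 0) (nat_lit 45275412899) (nat_lit 76) (nat_lit 140885665180) (nat_lit 76) (nat_lit 44993670130) (nat_lit 6) (nat_lit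 4) (nat_lit 7) (nat_lit 5) (nat_lit 7) (nat_lit 4) (nat_lit 236) (nat_lit 212) (nat_lit 152)) (XT.lf (nat_lit 0) (nat_lit 141882228698) (nat_lit 76) (nat_lit 107870662617) (nat_lit 76) (nat_lit 11975813892) (nat_lit 6) (nat_lit 4) (nat_lit 7) (nat_lit 5) (nat_lit 7) (nat_lit 4) (nat_lit 237) (nat_lit 212) (nat_lit 151))) (XT.nd (nat_lit 78) (nat_lit 76) (nat_lit 0) (XT.lf (nat_lit 0) (nat_lit 24691499202) (nat_lit 152) (nat_lit 44539011839) (nat_lit 76) (nat_lit 227608464536) (nat_lit 5) (nat_lit 5) (nat_lit 7) (nat_lit 5) (nat_lit 6) (nat_lit 4) (nat_lit 238) (nat_lit 212) (nat_lit 150)) (XT.nd (nat_lit 78) (nat_lit 0) (nat_lit 0) (XT.lf (nat_lit 0) (nat_lit 43926242012) (nat_lit 76) (nat_lit 23297666632) (nat_lit 152) (nat_lit 269881069200) (nat_lit 4) (nat_lit 5) (nat_lit 5) (nat_lit 5) (nat_lit 6) (nat_lit 4) (nat_lit 239) (nat_lit 212) (nat_lit 149)) (XT.lf (nat_lit 0) (nat_lit 118174339438)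 (nat_lit 152) (nat_lit 235696712016) (nat_lit 0) (nat_lit 29376779895) (nat_lit 4) (nat_lit 5) (nat_lit 6) (nat_lit 4) (nat_lit 4) (nat_lit 4) (nat_lit 240) (nat_lit 212) (nat_lit 148)))))) (XT.nd (nat_lit 390) (nat_lit 0) (nat_lit 0) (XT.nd (nat_lit 156) (nat_lit 76) (nat_lit 0) (XT.nd (nat_lit 78) (nat_lit 0) (nat_lit 0) (XT.lf (nat_lit 0) (nat_lit 177409685837) (nat_lit 152) (nat_lit 170240426622) (nat_lit 0) (nat_lit 88610615556) (nat_lit 4) (nat_lit 5) (nat_lit 6) (nat_lit 4) (nat_lit 4) (nat_lit 4) (nat_lit 241) (nat_lit 212) (nat_lit 147)) (XT.lf (nat_lit 0) (nat_lit 245528590827) (nat_lit 152) (nat_lit 94968903754) (nat_lit 0) (nat_lit 156728206860) (nat_lit 4) (nat_lit 5) (nat_lit 6) (nat_lit 4) (nat_lit 4) (nat_lit 4) (nat_lit 242) (nat_lit 212) (nat_lit 146))) (XT.nd (nat_lit 78) (nat_lit 76) (nat_lit 0) (XT.lf (nat_lit 0) (nat_lit 323863815594) (nat_lit 152) (nat_lit 8409439703)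 (nat_lit 0) (nat_lit 235062289291) (nat_lit 4) (nat_lit 5) (nat_lit 6) (nat_lit 4) (nat_lit 4) (nat_lit 4) (nat_lit 243) (nat_lit 212) (nat_lit 145)) (XT.nd (nat_lit 78) (nat_lit 0) (nat_lit 0) (XT.lf (nat_lit 0) (nat_lit 95930344619) (nat_lit 76) (nat_lit 320324788314) (nat_lit 76) (nat_lit 231522268676) (nat_lit 3) (nat_lit 4) (nat_lit 4) (nat_lit 5) (nat_lit 4) (nat_lit 4) (nat_lit 244) (nat_lit 212) (nat_lit 144)) (XT.lf (nat_lit 0) (nat_lit 216428128171) (nat_lit 76) (nat_lit 306320651843) (nat_lit 76) (nat_lit 217517268436) (nat_lit 3) (nat_lit 4) (nat_lit 4) (nat_lit 5) (nat_lit 4) (nat_lit 4) (nat_lit 245) (nat_lit 212) (nat_lit 143))))) (XT.nd (nat_lit 156) (nat_lit 0) (nat_lit 0) (XT.nd (nat_lit 78) (nat_lit 0) (nat_lit 0) (XT.lf (nat_lit 0) (nat_lit 354998650091) (nat_lit 76) (nat_lit 290216780893) (nat_lit 76) (nat_lit 201412646382) (nat_lit 3) (nat_lit 4) (nat_lit 4) (nat_lit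 5) (nat_lit 4) (nat_lit 4) (nat_lit 246) (nat_lit 212) (nat_lit 142)) (XT.lf (nat_lit 0) (nat_lit 514353072764) (nat_lit 76) (nat_lit 271698099729) (nat_lit 76) (nat_lit 182893312084) (nat_lit 3) (nat_lit 4) (nat_lit 4) (nat_lit 5) (nat_lit 4) (nat_lit 4) (nat_lit 247) (nat_lit 212) (nat_lit 141))) (XT.nd (nat_lit 78) (nat_lit 0) (nat_lit 0) (XT.lf (nat_lit 0) (nat_lit 697609200111) (nat_lit 76) (nat_lit 250402286328) (nat_lit 76) (nat_lit 161596930741) (nat_lit 3) (nat_lit 4) (nat_lit 4) (nat_lit 5) (nat_lit 4) (nat_lit 4) (nat_lit 248) (nat_lit 212) (nat_lit 140)) (XT.nd (nat_lit 78) (nat_lit 0) (nat_lit 0) (XT.lf (nat_lit 0) (nat_lit 908352478103) (nat_lit 76) (nat_lit 225912683472) (nat_lit 76) (nat_lit 137106834021) (nat_lit 3) (nat_lit 4) (nat_lit 4) (nat_lit 5) (nat_lit 4) (nat_lit 4) (nat_lit 249) (nat_lit 212) (nat_lit 139)) (XT.lf (nat_lit 0) (nat_lit 1150706144787) (nat_lit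 76) (nat_lit 197750146756) (nat_lit 76) (nat_lit 108943867859) (nat_lit 3) (nat_lit 4) (nat_lit 4) (nat_lit 5) (nat_lit 4) (nat_lit 4) (nat_lit 250) (nat_lit 212) (nat_lit 138))))))))
noncomputable def xc41 : XT := (XT.nd (nat_lit 29172) (nat_lit 0) (nat_lit 228) (XT.nd (nat_lit 28392) (nat_lit 0) (nat_lit 1596) (XT.nd (nat_lit 390) (nat_lit 0) (nat_lit 0) (XT.nd (nat_lit 156) (nat_lit 152) (nat_lit 0) (XT.nd (nat_lit 78) (nat_lit 0) (nat_lit 0) (XT.lf (nat_lit 0) (nat_lit 1429411902338) (nat_lit 76) (nat_lit 165363670027) (nat_lit 76) (nat_lit 76557017698) (nat_lit 3) (nat_lit 4) (nat_lit 4) (nat_lit 5) (nat_lit 4) (nat_lit 4) (nat_lit 251) (nat_lit 212) (nat_lit 137)) (XT.lf (nat_lit 0) (nat_lit 1749922689491) (nat_lit 76) (nat_lit 128119604828) (nat_lit 76) (nat_lit 39312627776) (nat_lit 3) (nat_lit 4) (nat_lit 4) (nat_lit 5) (nat_lit 4) (nat_lit 4) (nat_lit 252) (nat_lit 212) (nat_lit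 136))) (XT.nd (nat_lit 78) (nat_lit 76) (nat_lit 0) (XT.lf (nat_lit 0) (nat_lit 3342012060) (nat_lit 152) (nat_lit 81855874334) (nat_lit 76) (nat_lit 2115075980879) (nat_lit 2) (nat_lit 5) (nat_lit 4) (nat_lit 5) (nat_lit 3) (nat_lit 4) (nat_lit 253) (nat_lit 212) (nat_lit 135)) (XT.nd (nat_lit 78) (nat_lit 0) (nat_lit 0) (XT.lf (nat_lit 0) (nat_lit 16283568027) (nat_lit 76) (nat_lit 34240986291) (nat_lit 152) (nat_lit 2474987815597) (nat_lit 1) (nat_lit 5) (nat_lit 2) (nat_lit 5) (nat_lit 3) (nat_lit 4) (nat_lit 254) (nat_lit 212) (nat_lit 134)) (XT.lf (nat_lit 0) (nat_lit 107815043247) (nat_lit 152) (nat_lit 2765893485606) (nat_lit 0) (nat_lit 25585674296) (nat_lit 1) (nat_lit 5) (nat_lit 3) (nat_lit 4) (nat_lit 1) (nat_lit 4) (nat_lit 255) (nat_lit 212) (nat_lit 133))))) (XT.nd (nat_lit 156) (nat_lit 0) (nat_lit 0) (XT.nd (nat_lit 78) (nat_lit 0) (nat_lit 0) (XT.lf (nat_lit 0) (nat_lit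 174645843412) (nat_lit 152) (nat_lit 3062005426737) (nat_lit 0) (nat_lit 92416302552) (nat_lit 1) (nat_lit 5) (nat_lit 3) (nat_lit 4) (nat_lit 1) (nat_lit 4) (nat_lit 256) (nat_lit 212) (nat_lit 132)) (XT.lf (nat_lit 0) (nat_lit 251501017404) (nat_lit 152) (nat_lit 3402534623239) (nat_lit 0) (nat_lit 169271327058) (nat_lit 1) (nat_lit 5) (nat_lit 3) (nat_lit 4) (nat_lit 1) (nat_lit 4) (nat_lit 257) (nat_lit 212) (nat_lit 131))) (XT.nd (nat_lit 78) (nat_lit 0) (nat_lit 0) (XT.lf (nat_lit 0) (nat_lit 339884253408) (nat_lit 152) (nat_lit 3794143602869) (nat_lit 0) (nat_lit 257654433075) (nat_lit 1) (nat_lit 5) (nat_lit 3) (nat_lit 4) (nat_lit 1) (nat_lit 4) (nat_lit 258) (nat_lit 212) (nat_lit 130)) (XT.nd (nat_lit 27690) (nat_lit 0) (nat_lit 2660) (XT.lf (nat_lit 0) (nat_lit 441524788653) (nat_lit 152) (nat_lit 4244494280447) (nat_lit 0) (nat_lit 359294855286) (nat_lit 1) (nat_lit 5) (nat_lit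 3) (nat_lit 4) (nat_lit 1) (nat_lit 4) (nat_lit 259) (nat_lit 212) (nat_lit 129)) (XT.lf (nat_lit 0) (nat_lit 4248544096) (nat_lit 532) (nat_lit 4203967524) (nat_lit 532) (nat_lit 4203967524) (nat_lit 36) (nat_lit 3) (nat_lit 43) (nat_lit 3) (nat_lit 43) (nat_lit 5) (nat_lit 213) (nat_lit 213) (nat_lit 174)))))) (XT.nd (nat_lit 390) (nat_lit 836) (nat_lit 0) (XT.nd (nat_lit 156) (nat_lit 304) (nat_lit 0) (XT.nd (nat_lit 78) (nat_lit 0) (nat_lit 0) (XT.lf (nat_lit 0) (nat_lit 9669959941) (nat_lit 456) (nat_lit 14734882909) (nat_lit 532) (nat_lit 2762867666) (nat_lit 37) (nat_lit 5) (nat_lit 43) (nat_lit 5) (nat_lit 44) (nat_lit 5) (nat_lit 214) (nat_lit 213) (nat_lit 173)) (XT.lf (nat_lit 76) (nat_lit 7509927948) (nat_lit 0) (nat_lit 4378708478) (nat_lit 532) (nat_lit 17342604570) (nat_lit 38) (nat_lit 5) (nat_lit 37) (nat_lit 5) (nat_lit 44) (nat_lit 5) (nat_lit 215) (nat_lit 213) (nat_lit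 172))) (XT.nd (nat_lit 78) (nat_lit 380) (nat_lit 0) (XT.lf (nat_lit 76) (nat_lit 2035533391) (nat_lit 0) (nat_lit 13316398780) (nat_lit 532) (nat_lit 16179558533) (nat_lit 39) (nat_lit 5) (nat_lit 38) (nat_lit 5) (nat_lit 45) (nat_lit 5) (nat_lit 216) (nat_lit 213) (nat_lit 171)) (XT.nd (nat_lit 78) (nat_lit 456) (nat_lit 0) (XT.lf (nat_lit 0) (nat_lit 20313873304) (nat_lit 456) (nat_lit 3845164409) (nat_lit 76) (nat_lit 9939525534) (nat_lit 39) (nat_lit 5) (nat_lit 45) (nat_lit 5) (nat_lit 40) (nat_lit 5) (nat_lit 217) (nat_lit 213) (nat_lit 170)) (XT.lf (nat_lit 0) (nat_lit 26597468463) (nat_lit 456) (nat_lit 410770166) (nat_lit 532) (nat_lit 9963509541) (nat_lit 33) (nat_lit 5) (nat_lit 39) (nat_lit 5) (nat_lit 40) (nat_lit 5) (nat_lit 218) (nat_lit 213) (nat_lit 169))))) (XT.nd (nat_lit 156) (nat_lit 380) (nat_lit 0) (XT.nd (nat_lit 78) (nat_lit 228) (nat_lit 0) (XT.lf (nat_lit 0)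 (nat_lit 22005343118) (nat_lit 228) (nat_lit 13974823507) (nat_lit 304) (nat_lit 4193960391) (nat_lit 30) (nat_lit 5) (nat_lit 33) (nat_lit 5) (nat_lit 34) (nat_lit 5) (nat_lit 219) (nat_lit 213) (nat_lit 168)) (XT.lf (nat_lit 0) (nat_lit 3358341033) (nat_lit 228) (nat_lit 27344715172) (nat_lit 76) (nat_lit 13066027094) (nat_lit 27) (nat_lit 5) (nat_lit 30) (nat_lit 5) (nat_lit 28) (nat_lit 5) (nat_lit 220) (nat_lit 213) (nat_lit 167))) (XT.nd (nat_lit 78) (nat_lit 152) (nat_lit 0) (XT.lf (nat_lit 0) (nat_lit 9381731305) (nat_lit 228) (nat_lit 3560829800) (nat_lit 304) (nat_lit 34860277163) (nat_lit 24) (nat_lit 5) (nat_lit 27) (nat_lit 5) (nat_lit 28) (nat_lit 5) (nat_lit 221) (nat_lit 213) (nat_lit 166)) (XT.nd (nat_lit 78) (nat_lit 0) (nat_lit 0) (XT.lf (nat_lit 0) (nat_lit 202817136) (nat_lit 152) (nat_lit 25235262599) (nat_lit 228) (nat_lit 26885737578) (nat_lit 22) (nat_lit 5) (nat_lit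 24) (nat_lit 5) (nat_lit 25) (nat_lit 5) (nat_lit 222) (nat_lit 213) (nat_lit 165)) (XT.lf (nat_lit 0) (nat_lit 41150694657) (nat_lit 228) (nat_lit 10738619482) (nat_lit 76) (nat_lit 5526254613) (nat_lit 22) (nat_lit 5) (nat_lit 25) (nat_lit 5) (nat_lit 23) (nat_lit 5) (nat_lit 223) (nat_lit 213) (nat_lit 164))))))) (XT.nd (nat_lit 780) (nat_lit 304) (nat_lit 0) (XT.nd (nat_lit 390) (nat_lit 456) (nat_lit 0) (XT.nd (nat_lit 156) (nat_lit 228) (nat_lit 0) (XT.nd (nat_lit 78) (nat_lit 228) (nat_lit 0) (XT.lf (nat_lit 0) (nat_lit 38042127296) (nat_lit 152) (nat_lit 22780670932) (nat_lit 228) (nat_lit 2320117855) (nat_lit 20) (nat_lit 5) (nat_lit 22) (nat_lit 5) (nat_lit 23) (nat_lit 5) (nat_lit 224) (nat_lit 213) (nat_lit 163)) (XT.lf (nat_lit 0) (nat_lit 14257919432) (nat_lit 228) (nat_lit 43881283533) (nat_lit 76) (nat_lit 11465587974) (nat_lit 17) (nat_lit 5) (nat_lit 20) (nat_lit 5)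 (nat_lit 18) (nat_lit 5) (nat_lit 225) (nat_lit 213) (nat_lit 162))) (XT.nd (nat_lit 78) (nat_lit 76) (nat_lit 0) (XT.lf (nat_lit 0) (nat_lit 8408512453) (nat_lit 152) (nat_lit 26354072952) (nat_lit 228) (nat_lit 42142385222) (nat_lit 15) (nat_lit 5) (nat_lit 17) (nat_lit 5) (nat_lit 18) (nat_lit 5) (nat_lit 226) (nat_lit 213) (nat_lit 161)) (XT.nd (nat_lit 78) (nat_lit 76) (nat_lit 0) (XT.lf (nat_lit 0) (nat_lit 59891069502) (nat_lit 228) (nat_lit 14289703792) (nat_lit 76) (nat_lit 10995579410) (nat_lit 15) (nat_lit 5) (nat_lit 18) (nat_lit 5) (nat_lit 16) (nat_lit 4) (nat_lit 227) (nat_lit 213) (nat_lit 160)) (XT.lf (nat_lit 0) (nat_lit 49799604653) (nat_lit 76) (nat_lit 40908919198) (nat_lit 152) (nat_lit 3826364076) (nat_lit 14) (nat_lit 5) (nat_lit 15) (nat_lit 5) (nat_lit 16) (nat_lit 4) (nat_lit 228) (nat_lit 213) (nat_lit 159))))) (XT.nd (nat_lit 156) (nat_lit 228) (nat_lit 0)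 (XT.nd (nat_lit 78) (nat_lit 0) (nat_lit 0) (XT.lf (nat_lit 0) (nat_lit 19559710069) (nat_lit 152) (nat_lit 1139466528) (nat_lit 228) (nat_lit 84486657760) (nat_lit 11) (nat_lit 5) (nat_lit 13) (nat_lit 5) (nat_lit 14) (nat_lit 5) (nat_lit 229) (nat_lit 213) (nat_lit 158)) (XT.lf (nat_lit 0) (nat_lit 51086327908) (nat_lit 228) (nat_lit 22344143717) (nat_lit 76) (nat_lit 43803267956) (nat_lit 11) (nat_lit 5) (nat_lit 14) (nat_lit 5) (nat_lit 12) (nat_lit 4) (nat_lit 230) (nat_lit 213) (nat_lit 157))) (XT.nd (nat_lit 78) (nat_lit 152) (nat_lit 0) (XT.lf (nat_lit 0) (nat_lit 53043621626) (nat_lit 76) (nat_lit 34290042915) (nat_lit 152) (nat_lit 43651010214) (nat_lit 10) (nat_lit 5) (nat_lit 11) (nat_lit 5) (nat_lit 12) (nat_lit 4) (nat_lit 231) (nat_lit 213) (nat_lit 156)) (XT.nd (nat_lit 78) (nat_lit 152) (nat_lit 0) (XT.lf (nat_lit 0) (nat_lit 129938677212) (nat_lit 152) (nat_lit 5936355860)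 (nat_lit 0) (nat_lit 10849582551) (nat_lit 10) (nat_lit 5) (nat_lit 12) (nat_lit 4) (nat_lit 10) (nat_lit 4) (nat_lit 232) (nat_lit 213) (nat_lit 155)) (XT.lf (nat_lit 0) (nat_lit 16343703984) (nat_lit 152) (nat_lit 85098877662) (nat_lit 76) (nat_lit 63120582152) (nat_lit 8) (nat_lit 5) (nat_lit 10) (nat_lit 5) (nat_lit 9) (nat_lit 4) (nat_lit 233) (nat_lit 213) (nat_lit 154)))))) (XT.nd (nat_lit 390) (nat_lit 152) (nat_lit 0) (XT.nd (nat_lit 156) (nat_lit 76) (nat_lit 0) (XT.nd (nat_lit 78) (nat_lit 76) (nat_lit 0) (XT.lf (nat_lit 0) (nat_lit 53650645822) (nat_lit 152) (nat_lit 7504514541) (nat_lit 76) (nat_lit 123871320551) (nat_lit 8) (nat_lit 5) (nat_lit 10) (nat_lit 5) (nat_lit 9) (nat_lit 4) (nat_lit 234) (nat_lit 213) (nat_lit 153)) (XT.lf (nat_lit 0) (nat_lit 86026654970) (nat_lit 76) (nat_lit 12592603244) (nat_lit 152) (nat_lit 109774794019) (nat_lit 7) (nat_lit 5) (nat_lit 8)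 (nat_lit 5) (nat_lit 9) (nat_lit 4) (nat_lit 235) (nat_lit 213) (nat_lit 152))) (XT.nd (nat_lit 78) (nat_lit 76) (nat_lit 0) (XT.lf (nat_lit 0) (nat_lit 151594528734) (nat_lit 152) (nat_lit 42258728254) (nat_lit 0) (nat_lit 41312599026) (nat_lit 7) (nat_lit 5) (nat_lit 9) (nat_lit 4) (nat_lit 7) (nat_lit 4) (nat_lit 236) (nat_lit 213) (nat_lit 151)) (XT.nd (nat_lit 78) (nat_lit 0) (nat_lit 0) (XT.lf (nat_lit 0) (nat_lit 52120495113) (nat_lit 76) (nat_lit 161994711185) (nat_lit 76) (nat_lit 51710300021) (nat_lit 6) (nat_lit 4) (nat_lit 7) (nat_lit 5) (nat_lit 7) (nat_lit 4) (nat_lit 237) (nat_lit 213) (nat_lit 150)) (XT.lf (nat_lit 0) (nat_lit 163211319768) (nat_lit 76) (nat_lit 124030563077) (nat_lit 76) (nat_lit 13743994125) (nat_lit 6) (nat_lit 4) (nat_lit 7) (nat_lit 5) (nat_lit 7) (nat_lit 4) (nat_lit 238) (nat_lit 213) (nat_lit 149))))) (XT.nd (nat_lit 234) (nat_lit 0) (nat_lit 0)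 (XT.nd (nat_lit 78) (nat_lit 76) (nat_lit 0) (XT.lf (nat_lit 0) (nat_lit 28418512413) (nat_lit 152) (nat_lit 51177939468) (nat_lit 76) (nat_lit 261766467198) (nat_lit 5) (nat_lit 5) (nat_lit 7) (nat_lit 5) (nat_lit 6) (nat_lit 4) (nat_lit 239) (nat_lit 213) (nat_lit 148)) (XT.nd (nat_lit 78) (nat_lit 0) (nat_lit 0) (XT.lf (nat_lit 0) (nat_lit 50553553790) (nat_lit 76) (nat_lit 26775114804) (nat_lit 152) (nat_lit 310340327454) (nat_lit 4) (nat_lit 5) (nat_lit 5) (nat_lit 5) (nat_lit 6) (nat_lit 4) (nat_lit 240) (nat_lit 213) (nat_lit 147)) (XT.lf (nat_lit 0) (nat_lit 135919261969) (nat_lit 152) (nat_lit 271016705562) (nat_lit 0) (nat_lit 33797506722) (nat_lit 4) (nat_lit 5) (nat_lit 6) (nat_lit 4) (nat_lit 4) (nat_lit 4) (nat_lit 241) (nat_lit 213) (nat_lit 146)))) (XT.nd (nat_lit 78) (nat_lit 0) (nat_lit 0) (XT.lf (nat_lit 0) (nat_lit 204037461856) (nat_lit 152) (nat_lit 195746479088)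 (nat_lit 0) (nat_lit 101914564273) (nat_lit 4) (nat_lit 5) (nat_lit 6) (nat_lit 4) (nat_lit 4) (nat_lit 4) (nat_lit 242) (nat_lit 213) (nat_lit 145)) (XT.nd (nat_lit 78) (nat_lit 0) (nat_lit 0) (XT.lf (nat_lit 0) (nat_lit 282372073489) (nat_lit 152) (nat_lit 109188142337) (nat_lit 0) (nat_lit 180248182571) (nat_lit 4) (nat_lit 5) (nat_lit 6) (nat_lit 4) (nat_lit 4) (nat_lit 4) (nat_lit 243) (nat_lit 213) (nat_lit 144)) (XT.lf (nat_lit 0) (nat_lit 372455730574) (nat_lit 152) (nat_lit 9648162632) (nat_lit 0) (nat_lit 270330975887) (nat_lit 4) (nat_lit 5) (nat_lit 6) (nat_lit 4) (nat_lit 4) (nat_lit 4) (nat_lit 244) (nat_lit 213) (nat_lit 143))))))))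
noncomputable def xc42 : XT := (XT.nd (nat_lit 29250) (nat_lit 0) (nat_lit 380) (XT.nd (nat_lit 780) (nat_lit 76) (nat_lit 0) (XT.nd (nat_lit 390) (nat_lit 76) (nat_lit 0) (XT.nd (nat_lit 156) (nat_lit 0) (nat_lit 0) (XT.nd (nat_lit 78) (nat_lit 0) (nat_lit 0) (XT.lf (nat_lit 0) (nat_lit 110340668487) (nat_lit 76) (nat_lit 368363966690) (nat_lit 76) (nat_lit 266238460898) (nat_lit 3) (nat_lit 4) (nat_lit 4) (nat_lit 5) (nat_lit 4) (nat_lit 4) (nat_lit 245) (nat_lit 213) (nat_lit 142)) (XT.lf (nat_lit 0) (nat_lit 248910410158) (nat_lit 76) (nat_lit 352260454079) (nat_lit 76) (nat_lit 250134295153) (nat_lit 3) (nat_lit 4) (nat_lit 4) (nat_lit 5) (nat_lit 4) (nat_lit 4) (nat_lit 246) (nat_lit 213) (nat_lit 141))) (XT.nd (nat_lit 78) (nat_lit 0) (nat_lit 0) (XT.lf (nat_lit 0) (nat_lit 408264154353) (nat_lit 76) (nat_lit 333742084514) (nat_lit 76) (nat_lit 231615357645) (nat_lit 3) (nat_lit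 4) (nat_lit 4) (nat_lit 5) (nat_lit 4) (nat_lit 4) (nat_lit 247) (nat_lit 213) (nat_lit 140)) (XT.nd (nat_lit 78) (nat_lit 0) (nat_lit 0) (XT.lf (nat_lit 0) (nat_lit 591519691720) (nat_lit 76) (nat_lit 312446542068) (nat_lit 76) (nat_lit 210319321337) (nat_lit 3) (nat_lit 4) (nat_lit 4) (nat_lit 5) (nat_lit 4) (nat_lit 4) (nat_lit 248) (nat_lit 213) (nat_lit 139)) (XT.lf (nat_lit 0) (nat_lit 802262456686) (nat_lit 76) (nat_lit 287957174825) (nat_lit 76) (nat_lit 185829524648) (nat_lit 3) (nat_lit 4) (nat_lit 4) (nat_lit 5) (nat_lit 4) (nat_lit 4) (nat_lit 249) (nat_lit 213) (nat_lit 138))))) (XT.nd (nat_lit 156) (nat_lit 76) (nat_lit 0) (XT.nd (nat_lit 78) (nat_lit 0) (nat_lit 0) (XT.lf (nat_lit 0) (nat_lit 1044615677261) (nat_lit 76) (nat_lit 259794842990) (nat_lit 76) (nat_lit 157666819381) (nat_lit 3) (nat_lit 4) (nat_lit 4) (nat_lit 5) (nat_lit 4) (nat_lit 4) (nat_lit 250) (nat_lit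 213) (nat_lit 137)) (XT.lf (nat_lit 0) (nat_lit 1323321046890) (nat_lit 76) (nat_lit 227408544419) (nat_lit 76) (nat_lit 125280196087) (nat_lit 3) (nat_lit 4) (nat_lit 4) (nat_lit 5) (nat_lit 4) (nat_lit 4) (nat_lit 251) (nat_lit 213) (nat_lit 136))) (XT.nd (nat_lit 78) (nat_lit 76) (nat_lit 0) (XT.lf (nat_lit 0) (nat_lit 1643831496719) (nat_lit 76) (nat_lit 190164634140) (nat_lit 76) (nat_lit 88036003440) (nat_lit 3) (nat_lit 4) (nat_lit 4) (nat_lit 5) (nat_lit 4) (nat_lit 4) (nat_lit 252) (nat_lit 213) (nat_lit 135)) (XT.nd (nat_lit 78) (nat_lit 76) (nat_lit 0) (XT.lf (nat_lit 0) (nat_lit 2012417883375) (nat_lit 76) (nat_lit 147334426951) (nat_lit 76) (nat_lit 45205550714) (nat_lit 3) (nat_lit 4) (nat_lit 4) (nat_lit 5) (nat_lit 4) (nat_lit 4) (nat_lit 253) (nat_lit 213) (nat_lit 134)) (XT.lf (nat_lit 0) (nat_lit 3846594366) (nat_lit 152) (nat_lit 94128173465) (nat_lit 76) (nat_lit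 2432339912567) (nat_lit 2) (nat_lit 5) (nat_lit 4) (nat_lit 5) (nat_lit 3) (nat_lit 4) (nat_lit 254) (nat_lit 213) (nat_lit 133)))))) (XT.nd (nat_lit 28080) (nat_lit 0) (nat_lit 2660) (XT.nd (nat_lit 156) (nat_lit 0) (nat_lit 0) (XT.nd (nat_lit 78) (nat_lit 0) (nat_lit 0) (XT.lf (nat_lit 0) (nat_lit 18731670438) (nat_lit 76) (nat_lit 39374553526) (nat_lit 152) (nat_lit 2846232758584) (nat_lit 1) (nat_lit 5) (nat_lit 2) (nat_lit 5) (nat_lit 3) (nat_lit 4) (nat_lit 255) (nat_lit 213) (nat_lit 132)) (XT.lf (nat_lit 0) (nat_lit 123989950660) (nat_lit 152) (nat_lit 3180772510190) (nat_lit 0) (nat_lit 29425657276) (nat_lit 1) (nat_lit 5) (nat_lit 3) (nat_lit 4) (nat_lit 1) (nat_lit 4) (nat_lit 256) (nat_lit 213) (nat_lit 131))) (XT.nd (nat_lit 78) (nat_lit 0) (nat_lit 0) (XT.lf (nat_lit 0) (nat_lit 200845025076) (nat_lit 152) (nat_lit 3521301894438) (nat_lit 0) (nat_lit 106280601705) (nat_lit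 1) (nat_lit 5) (nat_lit 3) (nat_lit 4) (nat_lit 1) (nat_lit 4) (nat_lit 257) (nat_lit 213) (nat_lit 130)) (XT.nd (nat_lit 78) (nat_lit 0) (nat_lit 0) (XT.lf (nat_lit 0) (nat_lit 289228174495) (nat_lit 152) (nat_lit 3912911037325) (nat_lit 0) (nat_lit 194663638091) (nat_lit 1) (nat_lit 5) (nat_lit 3) (nat_lit 4) (nat_lit 1) (nat_lit 4) (nat_lit 258) (nat_lit 213) (nat_lit 129)) (XT.lf (nat_lit 0) (nat_lit 390868634446) (nat_lit 152) (nat_lit 4363261856865) (nat_lit 0) (nat_lit 296303999753) (nat_lit 1) (nat_lit 5) (nat_lit 3) (nat_lit 4) (nat_lit 1) (nat_lit 4) (nat_lit 259) (nat_lit 213) (nat_lit 128))))) (XT.nd (nat_lit 156) (nat_lit 0) (nat_lit 76) (XT.nd (nat_lit 78) (nat_lit 0) (nat_lit 76) (XT.lf (nat_lit 0) (nat_lit 5043818502) (nat_lit 532) (nat_lit 4748828390) (nat_lit 532) (nat_lit 4748828390) (nat_lit 36) (nat_lit 3) (nat_lit 43) (nat_lit 3) (nat_lit 43) (nat_lit 5) (nat_lit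 214) (nat_lit 214) (nat_lit 172)) (XT.lf (nat_lit 0) (nat_lit 11396074515) (nat_lit 456) (nat_lit 16761498488) (nat_lit 532) (nat_lit 3061789990) (nat_lit 37) (nat_lit 5) (nat_lit 43) (nat_lit 5) (nat_lit 44) (nat_lit 5) (nat_lit 215) (nat_lit 214) (nat_lit 171))) (XT.nd (nat_lit 78) (nat_lit 0) (nat_lit 76) (XT.lf (nat_lit 76) (nat_lit 8804491745) (nat_lit 0) (nat_lit 5111152415) (nat_lit 532) (nat_lit 19679521261) (nat_lit 38) (nat_lit 5) (nat_lit 37) (nat_lit 5) (nat_lit 44) (nat_lit 5) (nat_lit 216) (nat_lit 214) (nat_lit 170)) (XT.nd (nat_lit 78) (nat_lit 0) (nat_lit 76) (XT.lf (nat_lit 76) (nat_lit 2515380785) (nat_lit 0) (nat_lit 15353880257) (nat_lit 532) (nat_lit 18373690369) (nat_lit 39) (nat_lit 5) (nat_lit 38) (nat_lit 5) (nat_lit 45) (nat_lit 5) (nat_lit 217) (nat_lit 214) (nat_lit 169)) (XT.lf (nat_lit 0) (nat_lit 23546673016) (nat_lit 456) (nat_lit 4253467065) (nat_lit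 76) (nat_lit 11397393830) (nat_lit 39) (nat_lit 5) (nat_lit 45) (nat_lit 5) (nat_lit 40) (nat_lit 5) (nat_lit 218) (nat_lit 214) (nat_lit 168))))))) (XT.nd (nat_lit 780) (nat_lit 684) (nat_lit 0) (XT.nd (nat_lit 390) (nat_lit 532) (nat_lit 0) (XT.nd (nat_lit 156) (nat_lit 608) (nat_lit 0) (XT.nd (nat_lit 78) (nat_lit 228) (nat_lit 0) (XT.lf (nat_lit 0) (nat_lit 30741300422) (nat_lit 456) (nat_lit 483377332) (nat_lit 532) (nat_lit 11278784786) (nat_lit 33) (nat_lit 5) (nat_lit 39) (nat_lit 5) (nat_lit 40) (nat_lit 5) (nat_lit 219) (nat_lit 214) (nat_lit 167)) (XT.lf (nat_lit 0) (nat_lit 25460403771) (nat_lit 228) (nat_lit 16063922986) (nat_lit 304) (nat_lit 4663425380) (nat_lit 30) (nat_lit 5) (nat_lit 33) (nat_lit 5) (nat_lit 34) (nat_lit 5) (nat_lit 220) (nat_lit 214) (nat_lit 166))) (XT.nd (nat_lit 78) (nat_lit 380) (nat_lit 0) (XT.lf (nat_lit 0) (nat_lit 3997871631) (nat_lit 228) (nat_lit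 31286208855) (nat_lit 76) (nat_lit 15038920729) (nat_lit 27) (nat_lit 5) (nat_lit 30) (nat_lit 5) (nat_lit 28) (nat_lit 5) (nat_lit 221) (nat_lit 214) (nat_lit 165)) (XT.nd (nat_lit 78) (nat_lit 152) (nat_lit 0) (XT.lf (nat_lit 0) (nat_lit 10935643311) (nat_lit 228) (nat_lit 4069898033) (nat_lit 304) (nat_lit 39957488698) (nat_lit 24) (nat_lit 5) (nat_lit 27) (nat_lit 5) (nat_lit 28) (nat_lit 5) (nat_lit 222) (nat_lit 214) (nat_lit 164)) (XT.lf (nat_lit 0) (nat_lit 376294745) (nat_lit 152) (nat_lit 28987197145) (nat_lit 228) (nat_lit 30799681759) (nat_lit 22) (nat_lit 5) (nat_lit 24) (nat_lit 5) (nat_lit 25) (nat_lit 5) (nat_lit 223) (nat_lit 214) (nat_lit 163))))) (XT.nd (nat_lit 156) (nat_lit 380) (nat_lit 0) (XT.nd (nat_lit 78) (nat_lit 152) (nat_lit 0) (XT.lf (nat_lit 0) (nat_lit 47419387883) (nat_lit 228) (nat_lit 12217700131) (nat_lit 76) (nat_lit 6382746109) (nat_lit 22) (nat_lit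 5) (nat_lit 25) (nat_lit 5) (nat_lit 23) (nat_lit 5) (nat_lit 224) (nat_lit 214) (nat_lit 162)) (XT.lf (nat_lit 0) (nat_lit 43869009876) (nat_lit 152) (nat_lit 26163663316) (nat_lit 228) (nat_lit 2574430997) (nat_lit 20) (nat_lit 5) (nat_lit 22) (nat_lit 5) (nat_lit 23) (nat_lit 5) (nat_lit 225) (nat_lit 214) (nat_lit 161))) (XT.nd (nat_lit 78) (nat_lit 152) (nat_lit 0) (XT.lf (nat_lit 0) (nat_lit 16477613584) (nat_lit 228) (nat_lit 50342699187) (nat_lit 76) (nat_lit 13218448284) (nat_lit 17) (nat_lit 5) (nat_lit 20) (nat_lit 5) (nat_lit 18) (nat_lit 5) (nat_lit 226) (nat_lit 214) (nat_lit 160)) (XT.nd (nat_lit 78) (nat_lit 0) (nat_lit 0) (XT.lf (nat_lit 0) (nat_lit 9780343036) (nat_lit 152) (nat_lit 30269729206) (nat_lit 228) (nat_lit 48384562992) (nat_lit 15) (nat_lit 5) (nat_lit 17) (nat_lit 5) (nat_lit 18) (nat_lit 5) (nat_lit 227) (nat_lit 214) (nat_lit 159)) (XT.lf (nat_lit 0) (nat_lit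 68939077590) (nat_lit 228) (nat_lit 16332521173) (nat_lit 76) (nat_lit 12675856368) (nat_lit 15) (nat_lit 5) (nat_lit 18) (nat_lit 5) (nat_lit 16) (nat_lit 4) (nat_lit 228) (nat_lit 214) (nat_lit 158)))))) (XT.nd (nat_lit 390) (nat_lit 304) (nat_lit 0) (XT.nd (nat_lit 156) (nat_lit 76) (nat_lit 0) (XT.nd (nat_lit 78) (nat_lit 228) (nat_lit 0) (XT.lf (nat_lit 0) (nat_lit 57361665018) (nat_lit 76) (nat_lit 47011307380) (nat_lit 152) (nat_lit 4337318890) (nat_lit 14) (nat_lit 5) (nat_lit 15) (nat_lit 5) (nat_lit 16) (nat_lit 4) (nat_lit 229) (nat_lit 214) (nat_lit 157)) (XT.lf (nat_lit 0) (nat_lit 22581022886) (nat_lit 152) (nat_lit 1277173116) (nat_lit 228) (nat_lit 97101040183) (nat_lit 11) (nat_lit 5) (nat_lit 13) (nat_lit 5) (nat_lit 14) (nat_lit 5) (nat_lit 230) (nat_lit 214) (nat_lit 156))) (XT.nd (nat_lit 78) (nat_lit 76) (nat_lit 0) (XT.lf (nat_lit 0) (nat_lit 58797052484) (nat_lit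 228) (nat_lit 25616608013) (nat_lit 76) (nat_lit 50401194604) (nat_lit 11) (nat_lit 5) (nat_lit 14) (nat_lit 5) (nat_lit 12) (nat_lit 4) (nat_lit 231) (nat_lit 214) (nat_lit 155)) (XT.nd (nat_lit 78) (nat_lit 0) (nat_lit 0) (XT.lf (nat_lit 0) (nat_lit 61072621863) (nat_lit 76) (nat_lit 39404378769) (nat_lit 152) (nat_lit 50151805132) (nat_lit 10) (nat_lit 5) (nat_lit 11) (nat_lit 5) (nat_lit 12) (nat_lit 4) (nat_lit 232) (nat_lit 214) (nat_lit 154)) (XT.lf (nat_lit 0) (nat_lit 149467729196) (nat_lit 152) (nat_lit 6761308679) (nat_lit 0) (nat_lit 12501116762) (nat_lit 10) (nat_lit 5) (nat_lit 12) (nat_lit 4) (nat_lit 10) (nat_lit 4) (nat_lit 233) (nat_lit 214) (nat_lit 153))))) (XT.nd (nat_lit 156) (nat_lit 152) (nat_lit 0) (XT.nd (nat_lit 78) (nat_lit 0) (nat_lit 0) (XT.lf (nat_lit 0) (nat_lit 18830941201) (nat_lit 152) (nat_lit 97801798999) (nat_lit 76) (nat_lit 72611968520) (nat_lit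 8) (nat_lit 5) (nat_lit 10) (nat_lit 5) (nat_lit 9) (nat_lit 4) (nat_lit 234) (nat_lit 214) (nat_lit 152)) (XT.lf (nat_lit 0) (nat_lit 61729270191) (nat_lit 152) (nat_lit 8576356667) (nat_lit 76) (nat_lit 142472278674) (nat_lit 8) (nat_lit 5) (nat_lit 10) (nat_lit 5) (nat_lit 9) (nat_lit 4) (nat_lit 235) (nat_lit 214) (nat_lit 151))) (XT.nd (nat_lit 78) (nat_lit 76) (nat_lit 0) (XT.lf (nat_lit 0) (nat_lit 98979931401) (nat_lit 76) (nat_lit 14460381117) (nat_lit 152) (nat_lit 126210537503) (nat_lit 7) (nat_lit 5) (nat_lit 8) (nat_lit 5) (nat_lit 9) (nat_lit 4) (nat_lit 236) (nat_lit 214) (nat_lit 150)) (XT.nd (nat_lit 78) (nat_lit 76) (nat_lit 0) (XT.lf (nat_lit 0) (nat_lit 174358641375) (nat_lit 152) (nat_lit 48553119690) (nat_lit 0) (nat_lit 47526929293) (nat_lit 7) (nat_lit 5) (nat_lit 9) (nat_lit 4) (nat_lit 7) (nat_lit 4) (nat_lit 237) (nat_lit 214) (nat_lit 149)) (XT.lf (nat_lit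 0) (nat_lit 59979227437) (nat_lit 76) (nat_lit 186275918791) (nat_lit 76) (nat_lit 59442330371) (nat_lit 6) (nat_lit 4) (nat_lit 7) (nat_lit 5) (nat_lit 7) (nat_lit 4) (nat_lit 238) (nat_lit 214) (nat_lit 148))))))))
noncomputable def xc43 : XT := (XT.nd (nat_lit 1560) (nat_lit 0) (nat_lit 0) (XT.nd (nat_lit 780) (nat_lit 152) (nat_lit 0) (XT.nd (nat_lit 390) (nat_lit 76) (nat_lit 0) (XT.nd (nat_lit 156) (nat_lit 76) (nat_lit 0) (XT.nd (nat_lit 78) (nat_lit 76) (nat_lit 0) (XT.lf (nat_lit 0) (nat_lit 187728372565) (nat_lit 76) (nat_lit 142619496172) (nat_lit 76) (nat_lit 15784276154) (nat_lit 6) (nat_lit 4) (nat_lit 7) (nat_lit 5) (nat_lit 7) (nat_lit 4) (nat_lit 239) (nat_lit 214) (nat_lit 147)) (XT.lf (nat_lit 0) (nat_lit 32698898599) (nat_lit 152) (nat_lit 58822929710) (nat_lit 76) (nat_lit 301044089816) (nat_lit 5) (nat_lit 5) (nat_lit 7) (nat_lit 5) (nat_lit 6) (nat_lit 4) (nat_lit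 240) (nat_lit 214) (nat_lit 146))) (XT.nd (nat_lit 78) (nat_lit 0) (nat_lit 0) (XT.lf (nat_lit 0) (nat_lit 58165604232) (nat_lit 76) (nat_lit 30778374975) (nat_lit 152) (nat_lit 356874059274) (nat_lit 4) (nat_lit 5) (nat_lit 5) (nat_lit 5) (nat_lit 6) (nat_lit 4) (nat_lit 241) (nat_lit 214) (nat_lit 145)) (XT.nd (nat_lit 78) (nat_lit 0) (nat_lit 0) (XT.lf (nat_lit 0) (nat_lit 156321345303) (nat_lit 152) (nat_lit 311643114416) (nat_lit 0) (nat_lit 38877877412) (nat_lit 4) (nat_lit 5) (nat_lit 6) (nat_lit 4) (nat_lit 4) (nat_lit 4) (nat_lit 242) (nat_lit 214) (nat_lit 144)) (XT.lf (nat_lit 0) (nat_lit 234655423777) (nat_lit 152) (nat_lit 225085757925) (nat_lit 0) (nat_lit 117211092116) (nat_lit 4) (nat_lit 5) (nat_lit 6) (nat_lit 4) (nat_lit 4) (nat_lit 4) (nat_lit 243) (nat_lit 214) (nat_lit 143))))) (XT.nd (nat_lit 156) (nat_lit 76) (nat_lit 0) (XT.nd (nat_lit 78) (nat_lit 0) (nat_lit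 0) (XT.lf (nat_lit 0) (nat_lit 324738617245) (nat_lit 152) (nat_lit 125546630621) (nat_lit 0) (nat_lit 207293534480) (nat_lit 4) (nat_lit 5) (nat_lit 6) (nat_lit 4) (nat_lit 4) (nat_lit 4) (nat_lit 244) (nat_lit 214) (nat_lit 142)) (XT.lf (nat_lit 0) (nat_lit 428333422971) (nat_lit 152) (nat_lit 11078227839) (nat_lit 0) (nat_lit 310887687072) (nat_lit 4) (nat_lit 5) (nat_lit 6) (nat_lit 4) (nat_lit 4) (nat_lit 4) (nat_lit 245) (nat_lit 214) (nat_lit 141))) (XT.nd (nat_lit 78) (nat_lit 0) (nat_lit 0) (XT.lf (nat_lit 0) (nat_lit 126907475508) (nat_lit 76) (nat_lit 423611348180) (nat_lit 76) (nat_lit 306165044339) (nat_lit 3) (nat_lit 4) (nat_lit 4) (nat_lit 5) (nat_lit 4) (nat_lit 4) (nat_lit 246) (nat_lit 214) (nat_lit 140)) (XT.nd (nat_lit 78) (nat_lit 0) (nat_lit 0) (XT.lf (nat_lit 0) (nat_lit 286260629723) (nat_lit 76) (nat_lit 405093249570) (nat_lit 76) (nat_lit 287646451866) (nat_lit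 3) (nat_lit 4) (nat_lit 4) (nat_lit 5) (nat_lit 4) (nat_lit 4) (nat_lit 247) (nat_lit 214) (nat_lit 139)) (XT.lf (nat_lit 0) (nat_lit 469515654064) (nat_lit 76) (nat_lit 383797942738) (nat_lit 76) (nat_lit 266350715588) (nat_lit 3) (nat_lit 4) (nat_lit 4) (nat_lit 5) (nat_lit 4) (nat_lit 4) (nat_lit 248) (nat_lit 214) (nat_lit 138)))))) (XT.nd (nat_lit 390) (nat_lit 152) (nat_lit 0) (XT.nd (nat_lit 156) (nat_lit 0) (nat_lit 0) (XT.nd (nat_lit 78) (nat_lit 0) (nat_lit 0) (XT.lf (nat_lit 0) (nat_lit 680257972920) (nat_lit 76) (nat_lit 359308780377) (nat_lit 76) (nat_lit 241861179795) (nat_lit 3) (nat_lit 4) (nat_lit 4) (nat_lit 5) (nat_lit 4) (nat_lit 4) (nat_lit 249) (nat_lit 214) (nat_lit 137)) (XT.lf (nat_lit 0) (nat_lit 922610805573) (nat_lit 76) (nat_lit 331146626699) (nat_lit 76) (nat_lit 213698701394) (nat_lit 3) (nat_lit 4) (nat_lit 4) (nat_lit 5) (nat_lit 4) (nat_lit 4) (nat_lit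 250) (nat_lit 214) (nat_lit 136))) (XT.nd (nat_lit 78) (nat_lit 0) (nat_lit 0) (XT.lf (nat_lit 0) (nat_lit 1201315837880) (nat_lit 76) (nat_lit 298760483048) (nat_lit 76) (nat_lit 181312275375) (nat_lit 3) (nat_lit 4) (nat_lit 4) (nat_lit 5) (nat_lit 4) (nat_lit 4) (nat_lit 251) (nat_lit 214) (nat_lit 135)) (XT.nd (nat_lit 78) (nat_lit 0) (nat_lit 0) (XT.lf (nat_lit 0) (nat_lit 1521825994384) (nat_lit 76) (nat_lit 261516707481) (nat_lit 76) (nat_lit 144068254271) (nat_lit 3) (nat_lit 4) (nat_lit 4) (nat_lit 5) (nat_lit 4) (nat_lit 4) (nat_lit 252) (nat_lit 214) (nat_lit 134)) (XT.lf (nat_lit 0) (nat_lit 1890412125976) (nat_lit 76) (nat_lit 218686617434) (nat_lit 76) (nat_lit 101237950713) (nat_lit 3) (nat_lit 4) (nat_lit 4) (nat_lit 5) (nat_lit 4) (nat_lit 4) (nat_lit 253) (nat_lit 214) (nat_lit 133))))) (XT.nd (nat_lit 156) (nat_lit 76) (nat_lit 0) (XT.nd (nat_lit 78) (nat_lit 76) (nat_lit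 0) (XT.lf (nat_lit 0) (nat_lit 2314285700446) (nat_lit 76) (nat_lit 169432232884) (nat_lit 76) (nat_lit 51983380501) (nat_lit 3) (nat_lit 4) (nat_lit 4) (nat_lit 5) (nat_lit 4) (nat_lit 4) (nat_lit 254) (nat_lit 214) (nat_lit 132)) (XT.lf (nat_lit 0) (nat_lit 4426064048) (nat_lit 152) (nat_lit 108242800605) (nat_lit 76) (nat_lit 2797192815941) (nat_lit 2) (nat_lit 5) (nat_lit 4) (nat_lit 5) (nat_lit 3) (nat_lit 4) (nat_lit 255) (nat_lit 214) (nat_lit 131))) (XT.nd (nat_lit 78) (nat_lit 0) (nat_lit 0) (XT.lf (nat_lit 0) (nat_lit 21545630611) (nat_lit 76) (nat_lit 45278785169) (nat_lit 152) (nat_lit 3273165230517) (nat_lit 1) (nat_lit 5) (nat_lit 2) (nat_lit 5) (nat_lit 3) (nat_lit 4) (nat_lit 256) (nat_lit 214) (nat_lit 130)) (XT.nd (nat_lit 78) (nat_lit 0) (nat_lit 0) (XT.lf (nat_lit 0) (nat_lit 142590447739) (nat_lit 152) (nat_lit 3657884607319) (nat_lit 0) (nat_lit 33841117842) (nat_lit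 1) (nat_lit 5) (nat_lit 3) (nat_lit 4) (nat_lit 1) (nat_lit 4) (nat_lit 257) (nat_lit 214) (nat_lit 129)) (XT.lf (nat_lit 0) (nat_lit 230973521864) (nat_lit 152) (nat_lit 4049493892169) (nat_lit 0) (nat_lit 122224093678) (nat_lit 1) (nat_lit 5) (nat_lit 3) (nat_lit 4) (nat_lit 1) (nat_lit 4) (nat_lit 258) (nat_lit 214) (nat_lit 128))))))) (XT.nd (nat_lit 28548) (nat_lit 0) (nat_lit 684) (XT.nd (nat_lit 28158) (nat_lit 0) (nat_lit 1748) (XT.nd (nat_lit 27924) (nat_lit 0) (nat_lit 2736) (XT.nd (nat_lit 27846) (nat_lit 0) (nat_lit 2660) (XT.lf (nat_lit 0) (nat_lit 332613916344) (nat_lit 152) (nat_lit 4499844835155) (nat_lit 0) (nat_lit 223864402688) (nat_lit 1) (nat_lit 5) (nat_lit 3) (nat_lit 4) (nat_lit 1) (nat_lit 4) (nat_lit 259) (nat_lit 214) (nat_lit 127)) (XT.lf (nat_lit 0) (nat_lit 5919856525) (nat_lit 532) (nat_lit 5396325229) (nat_lit 532) (nat_lit 5396325229) (nat_lit 36) (nat_lit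 3) (nat_lit 43) (nat_lit 3) (nat_lit 43) (nat_lit 5) (nat_lit 215) (nat_lit 215) (nat_lit 170))) (XT.nd (nat_lit 78) (nat_lit 0) (nat_lit 0) (XT.lf (nat_lit 0) (nat_lit 13313894450) (nat_lit 456) (nat_lit 19136882537) (nat_lit 532) (nat_lit 3433717977) (nat_lit 37) (nat_lit 5) (nat_lit 43) (nat_lit 5) (nat_lit 44) (nat_lit 5) (nat_lit 216) (nat_lit 215) (nat_lit 169)) (XT.nd (nat_lit 78) (nat_lit 0) (nat_lit 76) (XT.lf (nat_lit 76) (nat_lit 10252254055) (nat_lit 0) (nat_lit 5935018220) (nat_lit 532) (nat_lit 22431469114) (nat_lit 38) (nat_lit 5) (nat_lit 37) (nat_lit 5) (nat_lit 44) (nat_lit 5) (nat_lit 217) (nat_lit 215) (nat_lit 168)) (XT.lf (nat_lit 76) (nat_lit 3024648118) (nat_lit 0) (nat_lit 17687224421) (nat_lit 532) (nat_lit 20953712208) (nat_lit 39) (nat_lit 5) (nat_lit 38) (nat_lit 5) (nat_lit 45) (nat_lit 5) (nat_lit 218) (nat_lit 215) (nat_lit 167))))) (XT.nd (nat_lit 156)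 (nat_lit 684) (nat_lit 0) (XT.nd (nat_lit 78) (nat_lit 456) (nat_lit 0) (XT.lf (nat_lit 0) (nat_lit 27219103999) (nat_lit 456) (nat_lit 4764098085) (nat_lit 76) (nat_lit 13082004391) (nat_lit 39) (nat_lit 5) (nat_lit 45) (nat_lit 5) (nat_lit 40) (nat_lit 5) (nat_lit 219) (nat_lit 215) (nat_lit 166)) (XT.lf (nat_lit 0) (nat_lit 35469101678) (nat_lit 456) (nat_lit 564195191) (nat_lit 532) (nat_lit 12835062856) (nat_lit 33) (nat_lit 5) (nat_lit 39) (nat_lit 5) (nat_lit 40) (nat_lit 5) (nat_lit 220) (nat_lit 215) (nat_lit 165))) (XT.nd (nat_lit 78) (nat_lit 456) (nat_lit 0) (XT.lf (nat_lit 0) (nat_lit 29396106443) (nat_lit 228) (nat_lit 18468124631) (nat_lit 304) (nat_lit 5242236677) (nat_lit 30) (nat_lit 5) (nat_lit 33) (nat_lit 5) (nat_lit 34) (nat_lit 5) (nat_lit 221) (nat_lit 215) (nat_lit 164)) (XT.nd (nat_lit 78) (nat_lit 228) (nat_lit 0) (XT.lf (nat_lit 0) (nat_lit 4700221143) (nat_lit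 228) (nat_lit 35857995690) (nat_lit 76) (nat_lit 17304580820) (nat_lit 27) (nat_lit 5) (nat_lit 30) (nat_lit 5) (nat_lit 28) (nat_lit 5) (nat_lit 222) (nat_lit 215) (nat_lit 163)) (XT.lf (nat_lit 0) (nat_lit 12686880024) (nat_lit 228) (nat_lit 4661436623) (nat_lit 304) (nat_lit 45851429553) (nat_lit 24) (nat_lit 5) (nat_lit 27) (nat_lit 5) (nat_lit 28) (nat_lit 5) (nat_lit 223) (nat_lit 215) (nat_lit 162)))))) (XT.nd (nat_lit 390) (nat_lit 380) (nat_lit 0) (XT.nd (nat_lit 156) (nat_lit 532) (nat_lit 0) (XT.nd (nat_lit 78) (nat_lit 0) (nat_lit 0) (XT.lf (nat_lit 0) (nat_lit 540909119) (nat_lit 152) (nat_lit 33310055663) (nat_lit 228) (nat_lit 35329716099) (nat_lit 22) (nat_lit 5) (nat_lit 24) (nat_lit 5) (nat_lit 25) (nat_lit 5) (nat_lit 224) (nat_lit 215) (nat_lit 161)) (XT.lf (nat_lit 0) (nat_lit 54604953174) (nat_lit 228) (nat_lit 13950761750) (nat_lit 76) (nat_lit 7360992281) (nat_lit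 22) (nat_lit 5) (nat_lit 25) (nat_lit 5) (nat_lit 23) (nat_lit 5) (nat_lit 225) (nat_lit 215) (nat_lit 160))) (XT.nd (nat_lit 78) (nat_lit 380) (nat_lit 0) (XT.lf (nat_lit 0) (nat_lit 50540524673) (nat_lit 152) (nat_lit 30062422073) (nat_lit 228) (nat_lit 2889741555) (nat_lit 20) (nat_lit 5) (nat_lit 22) (nat_lit 5) (nat_lit 23) (nat_lit 5) (nat_lit 226) (nat_lit 215) (nat_lit 159)) (XT.nd (nat_lit 78) (nat_lit 152) (nat_lit 0) (XT.lf (nat_lit 0) (nat_lit 19010507975) (nat_lit 228) (nat_lit 57802779395) (nat_lit 76) (nat_lit 15226184989) (nat_lit 17) (nat_lit 5) (nat_lit 20) (nat_lit 5) (nat_lit 18) (nat_lit 5) (nat_lit 227) (nat_lit 215) (nat_lit 158)) (XT.lf (nat_lit 0) (nat_lit 11330988983) (nat_lit 152) (nat_lit 34781867461) (nat_lit 228) (nat_lit 55582375976) (nat_lit 15) (nat_lit 5) (nat_lit 17) (nat_lit 5) (nat_lit 18) (nat_lit 5) (nat_lit 228) (nat_lit 215) (nat_lit 157))))) (XT.nd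 (nat_lit 234) (nat_lit 76) (nat_lit 0) (XT.nd (nat_lit 78) (nat_lit 304) (nat_lit 0) (XT.lf (nat_lit 0) (nat_lit 79328595306) (nat_lit 228) (nat_lit 18706302421) (nat_lit 76) (nat_lit 14600629944) (nat_lit 15) (nat_lit 5) (nat_lit 18) (nat_lit 5) (nat_lit 16) (nat_lit 4) (nat_lit 229) (nat_lit 215) (nat_lit 156)) (XT.nd (nat_lit 78) (nat_lit 228) (nat_lit 0) (XT.lf (nat_lit 0) (nat_lit 66035570474) (nat_lit 76) (nat_lit 54037332638) (nat_lit 152) (nat_lit 4940279825) (nat_lit 14) (nat_lit 5) (nat_lit 15) (nat_lit 5) (nat_lit 16) (nat_lit 4) (nat_lit 230) (nat_lit 215) (nat_lit 155)) (XT.lf (nat_lit 0) (nat_lit 26034230236) (nat_lit 152) (nat_lit 1443634988) (nat_lit 228) (nat_lit 111621873911) (nat_lit 11) (nat_lit 5) (nat_lit 13) (nat_lit 5) (nat_lit 14) (nat_lit 5) (nat_lit 231) (nat_lit 215) (nat_lit 154)))) (XT.nd (nat_lit 78) (nat_lit 76) (nat_lit 0) (XT.lf (nat_lit 0) (nat_lit 67652735415)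 (nat_lit 228) (nat_lit 29399244954) (nat_lit 76) (nat_lit 57982119696) (nat_lit 11) (nat_lit 5) (nat_lit 14) (nat_lit 5) (nat_lit 12) (nat_lit 4) (nat_lit 232) (nat_lit 215) (nat_lit 153)) (XT.nd (nat_lit 78) (nat_lit 0) (nat_lit 0) (XT.lf (nat_lit 0) (nat_lit 70288303039) (nat_lit 76) (nat_lit 45292978432) (nat_lit 152) (nat_lit 57639145571) (nat_lit 10) (nat_lit 5) (nat_lit 11) (nat_lit 5) (nat_lit 12) (nat_lit 4) (nat_lit 233) (nat_lit 215) (nat_lit 152)) (XT.lf (nat_lit 0) (nat_lit 171916811375) (nat_lit 152) (nat_lit 7725977147) (nat_lit 0) (nat_lit 14394504940) (nat_lit 10) (nat_lit 5) (nat_lit 12) (nat_lit 4) (nat_lit 10) (nat_lit 4) (nat_lit 234) (nat_lit 215) (nat_lit 151))))))))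
noncomputable def xc44 : XT := (XT.nd (nat_lit 1560) (nat_lit 152) (nat_lit 0) (XT.nd (nat_lit 780) (nat_lit 76) (nat_lit 0) (XT.nd (nat_lit 390) (nat_lit 152) (nat_lit 0) (XT.nd (nat_lit 156) (nat_lit 152) (nat_lit 0) (XT.nd (nat_lit 78) (nat_lit 0) (nat_lit 0) (XT.lf (nat_lit 0) (nat_lit 21682562811) (nat_lit 152) (nat_lit 112425255757) (nat_lit 76) (nat_lit 83521381224) (nat_lit 8) (nat_lit 5) (nat_lit 10) (nat_lit 5) (nat_lit 9) (nat_lit 4) (nat_lit 235) (nat_lit 215) (nat_lit 150)) (XT.lf (nat_lit 0) (nat_lit 71012121964) (nat_lit 152) (nat_lit 9822103131) (nat_lit 76) (nat_lit 163858439975) (nat_lit 8) (nat_lit 5) (nat_lit 10) (nat_lit 5) (nat_lit 9) (nat_lit 4) (nat_lit 236) (nat_lit 215) (nat_lit 149))) (XT.nd (nat_lit 78) (nat_lit 76) (nat_lit 0) (XT.lf (nat_lit 0) (nat_lit 113864182499) (nat_lit 76) (nat_lit 16613474116) (nat_lit 152) (nat_lit 145119074183) (nat_lit 7) (nat_lit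 5) (nat_lit 8) (nat_lit 5) (nat_lit 9) (nat_lit 4) (nat_lit 237) (nat_lit 215) (nat_lit 148)) (XT.nd (nat_lit 78) (nat_lit 76) (nat_lit 0) (XT.lf (nat_lit 0) (nat_lit 200531290762) (nat_lit 152) (nat_lit 55802501403) (nat_lit 0) (nat_lit 54669156144) (nat_lit 7) (nat_lit 5) (nat_lit 9) (nat_lit 4) (nat_lit 7) (nat_lit 4) (nat_lit 238) (nat_lit 215) (nat_lit 147)) (XT.lf (nat_lit 0) (nat_lit 69006854885) (nat_lit 76) (nat_lit 214203696726) (nat_lit 76) (nat_lit 68340143327) (nat_lit 6) (nat_lit 4) (nat_lit 7) (nat_lit 5) (nat_lit 7) (nat_lit 4) (nat_lit 239) (nat_lit 215) (nat_lit 146))))) (XT.nd (nat_lit 156) (nat_lit 76) (nat_lit 0) (XT.nd (nat_lit 78) (nat_lit 76) (nat_lit 0) (XT.lf (nat_lit 0) (nat_lit 215914361782) (nat_lit 76) (nat_lit 164000585916) (nat_lit 76) (nat_lit 18135798796) (nat_lit 6) (nat_lit 4) (nat_lit 7) (nat_lit 5) (nat_lit 7) (nat_lit 4) (nat_lit 240) (nat_lit 215)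 (nat_lit 145)) (XT.lf (nat_lit 0) (nat_lit 37617048568) (nat_lit 152) (nat_lit 67622398900) (nat_lit 76) (nat_lit 346210270425) (nat_lit 5) (nat_lit 5) (nat_lit 7) (nat_lit 5) (nat_lit 6) (nat_lit 4) (nat_lit 241) (nat_lit 215) (nat_lit 144))) (XT.nd (nat_lit 78) (nat_lit 0) (nat_lit 0) (XT.lf (nat_lit 0) (nat_lit 66912386171) (nat_lit 76) (nat_lit 35385296023) (nat_lit 152) (nat_lit 410392073800) (nat_lit 4) (nat_lit 5) (nat_lit 5) (nat_lit 5) (nat_lit 6) (nat_lit 4) (nat_lit 242) (nat_lit 215) (nat_lit 143)) (XT.nd (nat_lit 78) (nat_lit 0) (nat_lit 0) (XT.lf (nat_lit 0) (nat_lit 179780279830) (nat_lit 152) (nat_lit 358369848512) (nat_lit 0) (nat_lit 44717683547) (nat_lit 4) (nat_lit 5) (nat_lit 6) (nat_lit 4) (nat_lit 4) (nat_lit 4) (nat_lit 243) (nat_lit 215) (nat_lit 142)) (XT.lf (nat_lit 0) (nat_lit 269863070154) (nat_lit 152) (nat_lit 258831462426) (nat_lit 0) (nat_lit 134799820736)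 (nat_lit 4) (nat_lit 5) (nat_lit 6) (nat_lit 4) (nat_lit 4) (nat_lit 4) (nat_lit 244) (nat_lit 215) (nat_lit 141)))))) (XT.nd (nat_lit 390) (nat_lit 0) (nat_lit 0) (XT.nd (nat_lit 156) (nat_lit 76) (nat_lit 0) (XT.nd (nat_lit 78) (nat_lit 0) (nat_lit 0) (XT.lf (nat_lit 0) (nat_lit 373457525319) (nat_lit 152) (nat_lit 144363704181) (nat_lit 0) (nat_lit 238393707959) (nat_lit 4) (nat_lit 5) (nat_lit 6) (nat_lit 4) (nat_lit 4) (nat_lit 4) (nat_lit 245) (nat_lit 215) (nat_lit 140)) (XT.lf (nat_lit 0) (nat_lit 492590493362) (nat_lit 152) (nat_lit 12726987203) (nat_lit 0) (nat_lit 357526182139) (nat_lit 4) (nat_lit 5) (nat_lit 6) (nat_lit 4) (nat_lit 4) (nat_lit 4) (nat_lit 246) (nat_lit 215) (nat_lit 139))) (XT.nd (nat_lit 78) (nat_lit 0) (nat_lit 0) (XT.lf (nat_lit 0) (nat_lit 145955473393) (nat_lit 76) (nat_lit 487147595954) (nat_lit 76) (nat_lit 352082855285) (nat_lit 3) (nat_lit 4) (nat_lit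 4) (nat_lit 5) (nat_lit 4) (nat_lit 4) (nat_lit 247) (nat_lit 215) (nat_lit 138)) (XT.nd (nat_lit 78) (nat_lit 0) (nat_lit 0) (XT.lf (nat_lit 0) (nat_lit 329210051624) (nat_lit 76) (nat_lit 465852494004) (nat_lit 76) (nat_lit 330787379903) (nat_lit 3) (nat_lit 4) (nat_lit 4) (nat_lit 5) (nat_lit 4) (nat_lit 4) (nat_lit 248) (nat_lit 215) (nat_lit 137)) (XT.lf (nat_lit 0) (nat_lit 539951982558) (nat_lit 76) (nat_lit 441363509800) (nat_lit 76) (nat_lit 306298070976) (nat_lit 3) (nat_lit 4) (nat_lit 4) (nat_lit 5) (nat_lit 4) (nat_lit 4) (nat_lit 249) (nat_lit 215) (nat_lit 136))))) (XT.nd (nat_lit 156) (nat_lit 0) (nat_lit 0) (XT.nd (nat_lit 78) (nat_lit 0) (nat_lit 0) (XT.lf (nat_lit 0) (nat_lit 782304477888) (nat_lit 76) (nat_lit 413201511042) (nat_lit 76) (nat_lit 278135789851) (nat_lit 3) (nat_lit 4) (nat_lit 4) (nat_lit 5) (nat_lit 4) (nat_lit 4) (nat_lit 250) (nat_lit 215) (nat_lit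 135)) (XT.lf (nat_lit 0) (nat_lit 1061009216870) (nat_lit 76) (nat_lit 380815502104) (nat_lit 76) (nat_lit 245749535375) (nat_lit 3) (nat_lit 4) (nat_lit 4) (nat_lit 5) (nat_lit 4) (nat_lit 4) (nat_lit 251) (nat_lit 215) (nat_lit 134))) (XT.nd (nat_lit 78) (nat_lit 0) (nat_lit 0) (XT.lf (nat_lit 0) (nat_lit 1381519118310) (nat_lit 76) (nat_lit 343571843679) (nat_lit 76) (nat_lit 208505663439) (nat_lit 3) (nat_lit 4) (nat_lit 4) (nat_lit 5) (nat_lit 4) (nat_lit 4) (nat_lit 252) (nat_lit 215) (nat_lit 133)) (XT.nd (nat_lit 78) (nat_lit 0) (nat_lit 0) (XT.lf (nat_lit 0) (nat_lit 1750105028106) (nat_lit 76) (nat_lit 300741855493) (nat_lit 76) (nat_lit 165675489593) (nat_lit 3) (nat_lit 4) (nat_lit 4) (nat_lit 5) (nat_lit 4) (nat_lit 4) (nat_lit 253) (nat_lit 215) (nat_lit 132)) (XT.lf (nat_lit 0) (nat_lit 2173978409710) (nat_lit 76) (nat_lit 251487559519) (nat_lit 76) (nat_lit 116421032173)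 (nat_lit 3) (nat_lit 4) (nat_lit 4) (nat_lit 5) (nat_lit 4) (nat_lit 4) (nat_lit 254) (nat_lit 215) (nat_lit 131))))))) (XT.nd (nat_lit 28626) (nat_lit 0) (nat_lit 1064) (XT.nd (nat_lit 28236) (nat_lit 0) (nat_lit 2660) (XT.nd (nat_lit 156) (nat_lit 76) (nat_lit 0) (XT.nd (nat_lit 78) (nat_lit 76) (nat_lit 0) (XT.lf (nat_lit 0) (nat_lit 2661432437980) (nat_lit 76) (nat_lit 194845284746) (nat_lit 76) (nat_lit 59778617014) (nat_lit 3) (nat_lit 4) (nat_lit 4) (nat_lit 5) (nat_lit 4) (nat_lit 4) (nat_lit 255) (nat_lit 215) (nat_lit 130)) (XT.lf (nat_lit 0) (nat_lit 5091849291) (nat_lit 152) (nat_lit 124475743282) (nat_lit 76) (nat_lit 3216773187473) (nat_lit 2) (nat_lit 5) (nat_lit 4) (nat_lit 5) (nat_lit 3) (nat_lit 4) (nat_lit 256) (nat_lit 215) (nat_lit 129))) (XT.nd (nat_lit 78) (nat_lit 0) (nat_lit 0) (XT.lf (nat_lit 0) (nat_lit 24780658272) (nat_lit 76) (nat_lit 52069127416) (nat_lit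 152) (nat_lit 3764138168702) (nat_lit 1) (nat_lit 5) (nat_lit 2) (nat_lit 5) (nat_lit 3) (nat_lit 4) (nat_lit 257) (nat_lit 215) (nat_lit 128)) (XT.nd (nat_lit 78) (nat_lit 0) (nat_lit 0) (XT.lf (nat_lit 0) (nat_lit 163980530575) (nat_lit 152) (nat_lit 4206564440648) (nat_lit 0) (nat_lit 38918504402) (nat_lit 1) (nat_lit 5) (nat_lit 3) (nat_lit 4) (nat_lit 1) (nat_lit 4) (nat_lit 258) (nat_lit 215) (nat_lit 127)) (XT.lf (nat_lit 0) (nat_lit 265620868122) (nat_lit 152) (nat_lit 4656915490978) (nat_lit 0) (nat_lit 140558767629) (nat_lit 1) (nat_lit 5) (nat_lit 3) (nat_lit 4) (nat_lit 1) (nat_lit 4) (nat_lit 259) (nat_lit 215) (nat_lit 126))))) (XT.nd (nat_lit 156) (nat_lit 0) (nat_lit 76) (XT.nd (nat_lit 78) (nat_lit 0) (nat_lit 76) (XT.lf (nat_lit 0) (nat_lit 6898167894) (nat_lit 532) (nat_lit 6156755171) (nat_lit 532) (nat_lit 6156755171) (nat_lit 36) (nat_lit 3) (nat_lit 43) (nat_lit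 3) (nat_lit 43) (nat_lit 5) (nat_lit 216) (nat_lit 216) (nat_lit 168)) (XT.lf (nat_lit 0) (nat_lit 15468565580) (nat_lit 456) (nat_lit 21902431384) (nat_lit 532) (nat_lit 3882733699) (nat_lit 37) (nat_lit 5) (nat_lit 43) (nat_lit 5) (nat_lit 44) (nat_lit 5) (nat_lit 217) (nat_lit 216) (nat_lit 167))) (XT.nd (nat_lit 78) (nat_lit 0) (nat_lit 76) (XT.lf (nat_lit 76) (nat_lit 11886189364) (nat_lit 0) (nat_lit 6868517034) (nat_lit 532) (nat_lit 25644975617) (nat_lit 38) (nat_lit 5) (nat_lit 37) (nat_lit 5) (nat_lit 44) (nat_lit 5) (nat_lit 218) (nat_lit 216) (nat_lit 166)) (XT.nd (nat_lit 78) (nat_lit 0) (nat_lit 76) (XT.lf (nat_lit 76) (nat_lit 3578126218) (nat_lit 0) (nat_lit 20363190598) (nat_lit 532) (nat_lit 23963663771) (nat_lit 39) (nat_lit 5) (nat_lit 38) (nat_lit 5) (nat_lit 45) (nat_lit 5) (nat_lit 219) (nat_lit 216) (nat_lit 165)) (XT.lf (nat_lit 0) (nat_lit 31408154878) (nat_lit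 456) (nat_lit 5382388382) (nat_lit 76) (nat_lit 15025402582) (nat_lit 39) (nat_lit 5) (nat_lit 45) (nat_lit 5) (nat_lit 40) (nat_lit 5) (nat_lit 220) (nat_lit 216) (nat_lit 164)))))) (XT.nd (nat_lit 390) (nat_lit 532) (nat_lit 0) (XT.nd (nat_lit 156) (nat_lit 608) (nat_lit 0) (XT.nd (nat_lit 78) (nat_lit 228) (nat_lit 0) (XT.lf (nat_lit 0) (nat_lit 40877637964) (nat_lit 456) (nat_lit 655108976) (nat_lit 532) (nat_lit 14657834837) (nat_lit 33) (nat_lit 5) (nat_lit 39) (nat_lit 5) (nat_lit 40) (nat_lit 5) (nat_lit 221) (nat_lit 216) (nat_lit 163)) (XT.lf (nat_lit 0) (nat_lit 33893720600) (nat_lit 228) (nat_lit 21234270128) (nat_lit 304) (nat_lit 5937303740) (nat_lit 30) (nat_lit 5) (nat_lit 33) (nat_lit 5) (nat_lit 34) (nat_lit 5) (nat_lit 222) (nat_lit 216) (nat_lit 162))) (XT.nd (nat_lit 78) (nat_lit 380) (nat_lit 0) (XT.lf (nat_lit 0) (nat_lit 5482886652) (nat_lit 228) (nat_lit 41145092401)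 (nat_lit 76) (nat_lit 19907694772) (nat_lit 27) (nat_lit 5) (nat_lit 30) (nat_lit 5) (nat_lit 28) (nat_lit 5) (nat_lit 223) (nat_lit 216) (nat_lit 161)) (XT.nd (nat_lit 78) (nat_lit 152) (nat_lit 0) (XT.lf (nat_lit 0) (nat_lit 14673760962) (nat_lit 228) (nat_lit 5346326132) (nat_lit 304) (nat_lit 52653769733) (nat_lit 24) (nat_lit 5) (nat_lit 27) (nat_lit 5) (nat_lit 28) (nat_lit 5) (nat_lit 224) (nat_lit 216) (nat_lit 160)) (XT.lf (nat_lit 0) (nat_lit 703837670) (nat_lit 152) (nat_lit 38287493273) (nat_lit 228) (nat_lit 40561182644) (nat_lit 22) (nat_lit 5) (nat_lit 24) (nat_lit 5) (nat_lit 25) (nat_lit 5) (nat_lit 225) (nat_lit 216) (nat_lit 159))))) (XT.nd (nat_lit 156) (nat_lit 380) (nat_lit 0) (XT.nd (nat_lit 78) (nat_lit 152) (nat_lit 0) (XT.lf (nat_lit 0) (nat_lit 62850635363) (nat_lit 228) (nat_lit 15968069093) (nat_lit 76) (nat_lit 8480894814) (nat_lit 22) (nat_lit 5) (nat_lit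 25) (nat_lit 5) (nat_lit 23) (nat_lit 5) (nat_lit 226) (nat_lit 216) (nat_lit 158)) (XT.lf (nat_lit 0) (nat_lit 58190535938) (nat_lit 152) (nat_lit 34552283878) (nat_lit 228) (nat_lit 3269626916) (nat_lit 20) (nat_lit 5) (nat_lit 22) (nat_lit 5) (nat_lit 23) (nat_lit 5) (nat_lit 227) (nat_lit 216) (nat_lit 157))) (XT.nd (nat_lit 78) (nat_lit 152) (nat_lit 0) (XT.lf (nat_lit 0) (nat_lit 21908399750) (nat_lit 228) (nat_lit 66404141734) (nat_lit 76) (nat_lit 17528993238) (nat_lit 17) (nat_lit 5) (nat_lit 20) (nat_lit 5) (nat_lit 18) (nat_lit 5) (nat_lit 228) (nat_lit 216) (nat_lit 156)) (XT.nd (nat_lit 78) (nat_lit 0) (nat_lit 0) (XT.lf (nat_lit 0) (nat_lit 13093846775) (nat_lit 152) (nat_lit 39977732740) (nat_lit 228) (nat_lit 63874460942) (nat_lit 15) (nat_lit 5) (nat_lit 17) (nat_lit 5) (nat_lit 18) (nat_lit 5) (nat_lit 229) (nat_lit 216) (nat_lit 155)) (XT.lf (nat_lit 0) (nat_lit 91264675587)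 (nat_lit 228) (nat_lit 21454707573) (nat_lit 76) (nat_lit 16808414508) (nat_lit 15) (nat_lit 5) (nat_lit 18) (nat_lit 5) (nat_lit 16) (nat_lit 4) (nat_lit 230) (nat_lit 216) (nat_lit 154))))))))
noncomputable def xc45 : XT := (XT.nd (nat_lit 1560) (nat_lit 152) (nat_lit 0) (XT.nd (nat_lit 780) (nat_lit 228) (nat_lit 0) (XT.nd (nat_lit 390) (nat_lit 304) (nat_lit 0) (XT.nd (nat_lit 156) (nat_lit 76) (nat_lit 0) (XT.nd (nat_lit 78) (nat_lit 228) (nat_lit 0) (XT.lf (nat_lit 0) (nat_lit 75993575763) (nat_lit 76) (nat_lit 62123521684) (nat_lit 152) (nat_lit 5645301460) (nat_lit 14) (nat_lit 5) (nat_lit 15) (nat_lit 5) (nat_lit 16) (nat_lit 4) (nat_lit 231) (nat_lit 216) (nat_lit 153)) (XT.lf (nat_lit 0) (nat_lit 29989311024) (nat_lit 152) (nat_lit 1641190372) (nat_lit 228) (nat_lit 128331640971) (nat_lit 11) (nat_lit 5) (nat_lit 13) (nat_lit 5) (nat_lit 14) (nat_lit 5) (nat_lit 232) (nat_lit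 216) (nat_lit 152))) (XT.nd (nat_lit 78) (nat_lit 76) (nat_lit 0) (XT.lf (nat_lit 0) (nat_lit 77827961461) (nat_lit 228) (nat_lit 33763873276) (nat_lit 76) (nat_lit 66695124533) (nat_lit 11) (nat_lit 5) (nat_lit 14) (nat_lit 5) (nat_lit 12) (nat_lit 4) (nat_lit 233) (nat_lit 216) (nat_lit 151)) (XT.nd (nat_lit 78) (nat_lit 0) (nat_lit 0) (XT.lf (nat_lit 0) (nat_lit 80872976016) (nat_lit 76) (nat_lit 52070246822) (nat_lit 152) (nat_lit 66258226985) (nat_lit 10) (nat_lit 5) (nat_lit 11) (nat_lit 5) (nat_lit 12) (nat_lit 4) (nat_lit 234) (nat_lit 216) (nat_lit 150)) (XT.lf (nat_lit 0) (nat_lit 197726202873) (nat_lit 152) (nat_lit 8847423561) (nat_lit 0) (nat_lit 16567458122) (nat_lit 10) (nat_lit 5) (nat_lit 12) (nat_lit 4) (nat_lit 10) (nat_lit 4) (nat_lit 235) (nat_lit 216) (nat_lit 149))))) (XT.nd (nat_lit 156) (nat_lit 152) (nat_lit 0) (XT.nd (nat_lit 78) (nat_lit 0) (nat_lit 0) (XT.lf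 (nat_lit 0) (nat_lit 24955348315) (nat_lit 152) (nat_lit 129253646699) (nat_lit 76) (nat_lit 96062909713) (nat_lit 8) (nat_lit 5) (nat_lit 10) (nat_lit 5) (nat_lit 9) (nat_lit 4) (nat_lit 236) (nat_lit 216) (nat_lit 148)) (XT.lf (nat_lit 0) (nat_lit 81681680329) (nat_lit 152) (nat_lit 11264638234) (nat_lit 76) (nat_lit 188448789715) (nat_lit 8) (nat_lit 5) (nat_lit 10) (nat_lit 5) (nat_lit 9) (nat_lit 4) (nat_lit 237) (nat_lit 216) (nat_lit 147))) (XT.nd (nat_lit 78) (nat_lit 76) (nat_lit 0) (XT.lf (nat_lit 0) (nat_lit 130971984837) (nat_lit 76) (nat_lit 19093424028) (nat_lit 152) (nat_lit 166869510777) (nat_lit 7) (nat_lit 5) (nat_lit 8) (nat_lit 5) (nat_lit 9) (nat_lit 4) (nat_lit 238) (nat_lit 216) (nat_lit 146)) (XT.nd (nat_lit 78) (nat_lit 76) (nat_lit 0) (XT.lf (nat_lit 0) (nat_lit 230625240090) (nat_lit 152) (nat_lit 64147480591) (nat_lit 0) (nat_lit 62879501179) (nat_lit 7) (nat_lit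 5) (nat_lit 9) (nat_lit 4) (nat_lit 7) (nat_lit 4) (nat_lit 239) (nat_lit 216) (nat_lit 145)) (XT.lf (nat_lit 0) (nat_lit 79381129493) (nat_lit 76) (nat_lit 246323960207) (nat_lit 76) (nat_lit 78577148494) (nat_lit 6) (nat_lit 4) (nat_lit 7) (nat_lit 5) (nat_lit 7) (nat_lit 4) (nat_lit 240) (nat_lit 216) (nat_lit 144)))))) (XT.nd (nat_lit 390) (nat_lit 76) (nat_lit 0) (XT.nd (nat_lit 156) (nat_lit 76) (nat_lit 0) (XT.nd (nat_lit 78) (nat_lit 76) (nat_lit 0) (XT.lf (nat_lit 0) (nat_lit 248321730290) (nat_lit 76) (nat_lit 188591725084) (nat_lit 76) (nat_lit 20843980500) (nat_lit 6) (nat_lit 4) (nat_lit 7) (nat_lit 5) (nat_lit 7) (nat_lit 4) (nat_lit 241) (nat_lit 216) (nat_lit 143)) (XT.lf (nat_lit 0) (nat_lit 43269674041) (nat_lit 152) (nat_lit 77747633769) (nat_lit 76) (nat_lit 398149045118) (nat_lit 5) (nat_lit 5) (nat_lit 7) (nat_lit 5) (nat_lit 6) (nat_lit 4) (nat_lit 242) (nat_lit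 216) (nat_lit 142))) (XT.nd (nat_lit 78) (nat_lit 0) (nat_lit 0) (XT.lf (nat_lit 0) (nat_lit 76965834874) (nat_lit 76) (nat_lit 40685653604) (nat_lit 152) (nat_lit 471940983649) (nat_lit 4) (nat_lit 5) (nat_lit 5) (nat_lit 5) (nat_lit 6) (nat_lit 4) (nat_lit 243) (nat_lit 216) (nat_lit 141)) (XT.nd (nat_lit 78) (nat_lit 0) (nat_lit 0) (XT.lf (nat_lit 0) (nat_lit 206755437292) (nat_lit 152) (nat_lit 412110404756) (nat_lit 0) (nat_lit 51431479386) (nat_lit 4) (nat_lit 5) (nat_lit 6) (nat_lit 4) (nat_lit 4) (nat_lit 4) (nat_lit 244) (nat_lit 216) (nat_lit 140)) (XT.lf (nat_lit 0) (nat_lit 310349587622) (nat_lit 152) (nat_lit 297643206978) (nat_lit 0) (nat_lit 155025135852) (nat_lit 4) (nat_lit 5) (nat_lit 6) (nat_lit 4) (nat_lit 4) (nat_lit 4) (nat_lit 245) (nat_lit 216) (nat_lit 139))))) (XT.nd (nat_lit 156) (nat_lit 76) (nat_lit 0) (XT.nd (nat_lit 78) (nat_lit 0) (nat_lit 0) (XT.lf (nat_lit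 0) (nat_lit 429482290591) (nat_lit 152) (nat_lit 166006977363) (nat_lit 0) (nat_lit 274157409375) (nat_lit 4) (nat_lit 5) (nat_lit 6) (nat_lit 4) (nat_lit 4) (nat_lit 4) (nat_lit 246) (nat_lit 216) (nat_lit 138)) (XT.lf (nat_lit 0) (nat_lit 566484403432) (nat_lit 152) (nat_lit 14626224462) (nat_lit 0) (nat_lit 411159148784) (nat_lit 4) (nat_lit 5) (nat_lit 6) (nat_lit 4) (nat_lit 4) (nat_lit 4) (nat_lit 247) (nat_lit 216) (nat_lit 137))) (XT.nd (nat_lit 78) (nat_lit 0) (nat_lit 0) (XT.lf (nat_lit 0) (nat_lit 167857774786) (nat_lit 76) (nat_lit 560215610998) (nat_lit 76) (nat_lit 404890031628) (nat_lit 3) (nat_lit 4) (nat_lit 4) (nat_lit 5) (nat_lit 4) (nat_lit 4) (nat_lit 248) (nat_lit 216) (nat_lit 136)) (XT.nd (nat_lit 78) (nat_lit 0) (nat_lit 0) (XT.lf (nat_lit 0) (nat_lit 378599368398) (nat_lit 76) (nat_lit 535726781713) (nat_lit 76) (nat_lit 380400919975) (nat_lit 3) (nat_lit 4)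 (nat_lit 4) (nat_lit 5) (nat_lit 4) (nat_lit 4) (nat_lit 249) (nat_lit 216) (nat_lit 135)) (XT.lf (nat_lit 0) (nat_lit 620951570403) (nat_lit 76) (nat_lit 507564917669) (nat_lit 76) (nat_lit 352238810393) (nat_lit 3) (nat_lit 4) (nat_lit 4) (nat_lit 5) (nat_lit 4) (nat_lit 4) (nat_lit 250) (nat_lit 216) (nat_lit 134))))))) (XT.nd (nat_lit 28704) (nat_lit 0) (nat_lit 1444) (XT.nd (nat_lit 390) (nat_lit 152) (nat_lit 0) (XT.nd (nat_lit 156) (nat_lit 0) (nat_lit 0) (XT.nd (nat_lit 78) (nat_lit 0) (nat_lit 0) (XT.lf (nat_lit 0) (nat_lit 899656054320) (nat_lit 76) (nat_lit 475179025872) (nat_lit 76) (nat_lit 319852705086) (nat_lit 3) (nat_lit 4) (nat_lit 4) (nat_lit 5) (nat_lit 4) (nat_lit 4) (nat_lit 251) (nat_lit 216) (nat_lit 133)) (XT.lf (nat_lit 0) (nat_lit 1220165733965) (nat_lit 76) (nat_lit 437935469309) (nat_lit 76) (nat_lit 282608962861) (nat_lit 3) (nat_lit 4) (nat_lit 4) (nat_lit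 5) (nat_lit 4) (nat_lit 4) (nat_lit 252) (nat_lit 216) (nat_lit 132))) (XT.nd (nat_lit 78) (nat_lit 0) (nat_lit 0) (XT.lf (nat_lit 0) (nat_lit 1588751450895) (nat_lit 76) (nat_lit 395105569700) (nat_lit 76) (nat_lit 239778901807) (nat_lit 3) (nat_lit 4) (nat_lit 4) (nat_lit 5) (nat_lit 4) (nat_lit 4) (nat_lit 253) (nat_lit 216) (nat_lit 131)) (XT.nd (nat_lit 78) (nat_lit 0) (nat_lit 0) (XT.lf (nat_lit 0) (nat_lit 2012624664790) (nat_lit 76) (nat_lit 345851350747) (nat_lit 76) (nat_lit 190524542468) (nat_lit 3) (nat_lit 4) (nat_lit 4) (nat_lit 5) (nat_lit 4) (nat_lit 4) (nat_lit 254) (nat_lit 216) (nat_lit 130)) (XT.lf (nat_lit 0) (nat_lit 2500078547226) (nat_lit 76) (nat_lit 289209142951) (nat_lit 76) (nat_lit 133882212596) (nat_lit 3) (nat_lit 4) (nat_lit 4) (nat_lit 5) (nat_lit 4) (nat_lit 4) (nat_lit 255) (nat_lit 216) (nat_lit 129))))) (XT.nd (nat_lit 156) (nat_lit 76) (nat_lit 0)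 (XT.nd (nat_lit 78) (nat_lit 76) (nat_lit 0) (XT.lf (nat_lit 0) (nat_lit 3060650239381) (nat_lit 76) (nat_lit 224070729201) (nat_lit 76) (nat_lit 68743692694) (nat_lit 3) (nat_lit 4) (nat_lit 4) (nat_lit 5) (nat_lit 4) (nat_lit 4) (nat_lit 256) (nat_lit 216) (nat_lit 128)) (XT.lf (nat_lit 0) (nat_lit 5857044934) (nat_lit 152) (nat_lit 143144475349) (nat_lit 76) (nat_lit 3699290261353) (nat_lit 2) (nat_lit 5) (nat_lit 4) (nat_lit 5) (nat_lit 3) (nat_lit 4) (nat_lit 257) (nat_lit 216) (nat_lit 127))) (XT.nd (nat_lit 78) (nat_lit 0) (nat_lit 0) (XT.lf (nat_lit 0) (nat_lit 28500163869) (nat_lit 76) (nat_lit 59878380817) (nat_lit 152) (nat_lit 4328757497869) (nat_lit 1) (nat_lit 5) (nat_lit 2) (nat_lit 5) (nat_lit 3) (nat_lit 4) (nat_lit 258) (nat_lit 216) (nat_lit 126)) (XT.nd (nat_lit 28002) (nat_lit 0) (nat_lit 2660) (XT.lf (nat_lit 0) (nat_lit 188578756229) (nat_lit 152) (nat_lit 4837546945861)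 (nat_lit 0) (nat_lit 44757201714) (nat_lit 1) (nat_lit 5) (nat_lit 3) (nat_lit 4) (nat_lit 1) (nat_lit 4) (nat_lit 259) (nat_lit 216) (nat_lit 125)) (XT.lf (nat_lit 0) (nat_lit 8001197722) (nat_lit 532) (nat_lit 7043203159) (nat_lit 532) (nat_lit 7043203159) (nat_lit 36) (nat_lit 3) (nat_lit 43) (nat_lit 3) (nat_lit 43) (nat_lit 5) (nat_lit 217) (nat_lit 217) (nat_lit 166)))))) (XT.nd (nat_lit 390) (nat_lit 988) (nat_lit 0) (XT.nd (nat_lit 156) (nat_lit 304) (nat_lit 0) (XT.nd (nat_lit 78) (nat_lit 0) (nat_lit 0) (XT.lf (nat_lit 0) (nat_lit 17908008802) (nat_lit 456) (nat_lit 25108413457) (nat_lit 532) (nat_lit 4415206533) (nat_lit 37) (nat_lit 5) (nat_lit 43) (nat_lit 5) (nat_lit 44) (nat_lit 5) (nat_lit 218) (nat_lit 217) (nat_lit 165)) (XT.lf (nat_lit 76) (nat_lit 13741781058) (nat_lit 0) (nat_lit 7931494839) (nat_lit 532) (nat_lit 29377382553) (nat_lit 38) (nat_lit 5) (nat_lit 37)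 (nat_lit 5) (nat_lit 44) (nat_lit 5) (nat_lit 219) (nat_lit 217) (nat_lit 164))) (XT.nd (nat_lit 78) (nat_lit 380) (nat_lit 0) (XT.lf (nat_lit 76) (nat_lit 4190293832) (nat_lit 0) (nat_lit 23434971656) (nat_lit 532) (nat_lit 27457566632) (nat_lit 39) (nat_lit 5) (nat_lit 38) (nat_lit 5) (nat_lit 45) (nat_lit 5) (nat_lit 220) (nat_lit 217) (nat_lit 163)) (XT.nd (nat_lit 78) (nat_lit 456) (nat_lit 0) (XT.lf (nat_lit 0) (nat_lit 36199669435) (nat_lit 456) (nat_lit 6116911542) (nat_lit 76) (nat_lit 17264919988) (nat_lit 39) (nat_lit 5) (nat_lit 45) (nat_lit 5) (nat_lit 40) (nat_lit 5) (nat_lit 221) (nat_lit 217) (nat_lit 162)) (XT.lf (nat_lit 0) (nat_lit 47075953627) (nat_lit 456) (nat_lit 758127313) (nat_lit 532) (nat_lit 16779014829) (nat_lit 33) (nat_lit 5) (nat_lit 39) (nat_lit 5) (nat_lit 40) (nat_lit 5) (nat_lit 222) (nat_lit 217) (nat_lit 161))))) (XT.nd (nat_lit 234) (nat_lit 304)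 (nat_lit 0) (XT.nd (nat_lit 78) (nat_lit 456) (nat_lit 0) (XT.lf (nat_lit 0) (nat_lit 39044469193) (nat_lit 228) (nat_lit 24416330725) (nat_lit 304) (nat_lit 6758887249) (nat_lit 30) (nat_lit 5) (nat_lit 33) (nat_lit 5) (nat_lit 34) (nat_lit 5) (nat_lit 223) (nat_lit 217) (nat_lit 160)) (XT.nd (nat_lit 78) (nat_lit 228) (nat_lit 0) (XT.lf (nat_lit 0) (nat_lit 6364020851) (nat_lit 228) (nat_lit 47247591504) (nat_lit 76) (nat_lit 22899464738) (nat_lit 27) (nat_lit 5) (nat_lit 30) (nat_lit 5) (nat_lit 28) (nat_lit 5) (nat_lit 224) (nat_lit 217) (nat_lit 159)) (XT.lf (nat_lit 0) (nat_lit 16938226947) (nat_lit 228) (nat_lit 6137442549) (nat_lit 304) (nat_lit 60494841428) (nat_lit 24) (nat_lit 5) (nat_lit 27) (nat_lit 5) (nat_lit 28) (nat_lit 5) (nat_lit 225) (nat_lit 217) (nat_lit 158)))) (XT.nd (nat_lit 78) (nat_lit 152) (nat_lit 0) (XT.lf (nat_lit 0) (nat_lit 871259961) (nat_lit 152) (nat_lit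 44016197045) (nat_lit 228) (nat_lit 46593949176) (nat_lit 22) (nat_lit 5) (nat_lit 24) (nat_lit 5) (nat_lit 25) (nat_lit 5) (nat_lit 226) (nat_lit 217) (nat_lit 157)) (XT.nd (nat_lit 78) (nat_lit 152) (nat_lit 0) (XT.lf (nat_lit 0) (nat_lit 72319772605) (nat_lit 228) (nat_lit 18306336607) (nat_lit 76) (nat_lit 9764941089) (nat_lit 22) (nat_lit 5) (nat_lit 25) (nat_lit 5) (nat_lit 23) (nat_lit 5) (nat_lit 227) (nat_lit 217) (nat_lit 156)) (XT.lf (nat_lit 0) (nat_lit 66971239250) (nat_lit 152) (nat_lit 39720380520) (nat_lit 228) (nat_lit 3719559897) (nat_lit 20) (nat_lit 5) (nat_lit 22) (nat_lit 5) (nat_lit 23) (nat_lit 5) (nat_lit 228) (nat_lit 217) (nat_lit 155))))))))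
noncomputable def xc46 : XT := (XT.nd (nat_lit 1560) (nat_lit 228) (nat_lit 0) (XT.nd (nat_lit 780) (nat_lit 304) (nat_lit 0) (XT.nd (nat_lit 390) (nat_lit 228) (nat_lit 0) (XT.nd (nat_lit 156) (nat_lit 304) (nat_lit 0) (XT.nd (nat_lit 78) (nat_lit 152) (nat_lit 0) (XT.lf (nat_lit 0) (nat_lit 25229680945) (nat_lit 228) (nat_lit 76312547818) (nat_lit 76) (nat_lit 20172618595) (nat_lit 17) (nat_lit 5) (nat_lit 20) (nat_lit 5) (nat_lit 18) (nat_lit 5) (nat_lit 229) (nat_lit 217) (nat_lit 154)) (XT.lf (nat_lit 0) (nat_lit 15105719214) (nat_lit 152) (nat_lit 45958199956) (nat_lit 228) (nat_lit 73421398379) (nat_lit 15) (nat_lit 5) (nat_lit 17) (nat_lit 5) (nat_lit 18) (nat_lit 5) (nat_lit 230) (nat_lit 217) (nat_lit 153))) (XT.nd (nat_lit 78) (nat_lit 304) (nat_lit 0) (XT.lf (nat_lit 0) (nat_lit 104982196196) (nat_lit 228) (nat_lit 24629405043) (nat_lit 76) (nat_lit 19343052920) (nat_lit 15)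 (nat_lit 5) (nat_lit 18) (nat_lit 5) (nat_lit 16) (nat_lit 4) (nat_lit 231) (nat_lit 217) (nat_lit 152)) (XT.nd (nat_lit 78) (nat_lit 228) (nat_lit 0) (XT.lf (nat_lit 0) (nat_lit 87432438002) (nat_lit 76) (nat_lit 71427372546) (nat_lit 152) (nat_lit 6464860128) (nat_lit 14) (nat_lit 5) (nat_lit 15) (nat_lit 5) (nat_lit 16) (nat_lit 4) (nat_lit 232) (nat_lit 217) (nat_lit 151)) (XT.lf (nat_lit 0) (nat_lit 34525474219) (nat_lit 152) (nat_lit 1873009862) (nat_lit 228) (nat_lit 147556045698) (nat_lit 11) (nat_lit 5) (nat_lit 13) (nat_lit 5) (nat_lit 14) (nat_lit 5) (nat_lit 233) (nat_lit 217) (nat_lit 150))))) (XT.nd (nat_lit 156) (nat_lit 152) (nat_lit 0) (XT.nd (nat_lit 78) (nat_lit 76) (nat_lit 0) (XT.lf (nat_lit 0) (nat_lit 89522810300) (nat_lit 228) (nat_lit 38794232400) (nat_lit 76) (nat_lit 76711254749) (nat_lit 11) (nat_lit 5) (nat_lit 14) (nat_lit 5) (nat_lit 12) (nat_lit 4) (nat_lit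 234) (nat_lit 217) (nat_lit 149)) (XT.lf (nat_lit 0) (nat_lit 93035247576) (nat_lit 76) (nat_lit 59868172597) (nat_lit 152) (nat_lit 76176703626) (nat_lit 10) (nat_lit 5) (nat_lit 11) (nat_lit 5) (nat_lit 12) (nat_lit 4) (nat_lit 235) (nat_lit 217) (nat_lit 148))) (XT.nd (nat_lit 78) (nat_lit 152) (nat_lit 0) (XT.lf (nat_lit 0) (nat_lit 227401670008) (nat_lit 152) (nat_lit 10146219396) (nat_lit 0) (nat_lit 19062994564) (nat_lit 10) (nat_lit 5) (nat_lit 12) (nat_lit 4) (nat_lit 10) (nat_lit 4) (nat_lit 236) (nat_lit 217) (nat_lit 147)) (XT.nd (nat_lit 78) (nat_lit 0) (nat_lit 0) (XT.lf (nat_lit 0) (nat_lit 28714076711) (nat_lit 152) (nat_lit 148614928167) (nat_lit 76) (nat_lit 110482418990) (nat_lit 8) (nat_lit 5) (nat_lit 10) (nat_lit 5) (nat_lit 9) (nat_lit 4) (nat_lit 237) (nat_lit 217) (nat_lit 146)) (XT.lf (nat_lit 0) (nat_lit 93947346421) (nat_lit 152) (nat_lit 12931059589) (nat_lit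 76) (nat_lit 216724867147) (nat_lit 8) (nat_lit 5) (nat_lit 10) (nat_lit 5) (nat_lit 9) (nat_lit 4) (nat_lit 238) (nat_lit 217) (nat_lit 145)))))) (XT.nd (nat_lit 390) (nat_lit 76) (nat_lit 0) (XT.nd (nat_lit 156) (nat_lit 152) (nat_lit 0) (XT.nd (nat_lit 78) (nat_lit 0) (nat_lit 0) (XT.lf (nat_lit 0) (nat_lit 150639086882) (nat_lit 76) (nat_lit 21948310067) (nat_lit 152) (nat_lit 191886761943) (nat_lit 7) (nat_lit 5) (nat_lit 8) (nat_lit 5) (nat_lit 9) (nat_lit 4) (nat_lit 239) (nat_lit 217) (nat_lit 144)) (XT.lf (nat_lit 0) (nat_lit 265229805471) (nat_lit 152) (nat_lit 73750399638) (nat_lit 0) (nat_lit 72318966328) (nat_lit 7) (nat_lit 5) (nat_lit 9) (nat_lit 4) (nat_lit 7) (nat_lit 4) (nat_lit 240) (nat_lit 217) (nat_lit 143))) (XT.nd (nat_lit 78) (nat_lit 76) (nat_lit 0) (XT.lf (nat_lit 0) (nat_lit 91305876517) (nat_lit 76) (nat_lit 283264772743) (nat_lit 76) (nat_lit 90353122408)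 (nat_lit 6) (nat_lit 4) (nat_lit 7) (nat_lit 5) (nat_lit 7) (nat_lit 4) (nat_lit 241) (nat_lit 217) (nat_lit 142)) (XT.nd (nat_lit 78) (nat_lit 76) (nat_lit 0) (XT.lf (nat_lit 0) (nat_lit 285585274703) (nat_lit 76) (nat_lit 216873717329) (nat_lit 76) (nat_lit 23961361609) (nat_lit 6) (nat_lit 4) (nat_lit 7) (nat_lit 5) (nat_lit 7) (nat_lit 4) (nat_lit 242) (nat_lit 217) (nat_lit 141)) (XT.lf (nat_lit 0) (nat_lit 49767738144) (nat_lit 152) (nat_lit 89396073757) (nat_lit 76) (nat_lit 457876871927) (nat_lit 5) (nat_lit 5) (nat_lit 7) (nat_lit 5) (nat_lit 6) (nat_lit 4) (nat_lit 243) (nat_lit 217) (nat_lit 140))))) (XT.nd (nat_lit 156) (nat_lit 0) (nat_lit 0) (XT.nd (nat_lit 78) (nat_lit 0) (nat_lit 0) (XT.lf (nat_lit 0) (nat_lit 88523255116) (nat_lit 76) (nat_lit 46782878338) (nat_lit 152) (nat_lit 542724644451) (nat_lit 4) (nat_lit 5) (nat_lit 5) (nat_lit 5) (nat_lit 6) (nat_lit 4) (nat_lit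 244) (nat_lit 217) (nat_lit 139)) (XT.lf (nat_lit 0) (nat_lit 237774889361) (nat_lit 152) (nat_lit 473915683025) (nat_lit 0) (nat_lit 59150846516) (nat_lit 4) (nat_lit 5) (nat_lit 6) (nat_lit 4) (nat_lit 4) (nat_lit 4) (nat_lit 245) (nat_lit 217) (nat_lit 138))) (XT.nd (nat_lit 78) (nat_lit 0) (nat_lit 0) (XT.lf (nat_lit 0) (nat_lit 356907361830) (nat_lit 152) (nat_lit 342279877203) (nat_lit 0) (nat_lit 178282945554) (nat_lit 4) (nat_lit 5) (nat_lit 6) (nat_lit 4) (nat_lit 4) (nat_lit 4) (nat_lit 246) (nat_lit 217) (nat_lit 137)) (XT.nd (nat_lit 78) (nat_lit 0) (nat_lit 0) (XT.lf (nat_lit 0) (nat_lit 493909274236) (nat_lit 152) (nat_lit 190899492819) (nat_lit 0) (nat_lit 315284533237) (nat_lit 4) (nat_lit 5) (nat_lit 6) (nat_lit 4) (nat_lit 4) (nat_lit 4) (nat_lit 247) (nat_lit 217) (nat_lit 136)) (XT.lf (nat_lit 0) (nat_lit 651461098778) (nat_lit 152) (nat_lit 16812739741) (nat_lit 0)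 (nat_lit 472836075411) (nat_lit 4) (nat_lit 5) (nat_lit 6) (nat_lit 4) (nat_lit 4) (nat_lit 4) (nat_lit 248) (nat_lit 217) (nat_lit 135))))))) (XT.nd (nat_lit 780) (nat_lit 76) (nat_lit 0) (XT.nd (nat_lit 390) (nat_lit 76) (nat_lit 0) (XT.nd (nat_lit 156) (nat_lit 0) (nat_lit 0) (XT.nd (nat_lit 78) (nat_lit 0) (nat_lit 0) (XT.lf (nat_lit 0) (nat_lit 193043231465) (nat_lit 76) (nat_lit 644244834047) (nat_lit 76) (nat_lit 465619565143) (nat_lit 3) (nat_lit 4) (nat_lit 4) (nat_lit 5) (nat_lit 4) (nat_lit 4) (nat_lit 249) (nat_lit 217) (nat_lit 134)) (XT.lf (nat_lit 0) (nat_lit 435395178406) (nat_lit 76) (nat_lit 616083087144) (nat_lit 76) (nat_lit 437457604729) (nat_lit 3) (nat_lit 4) (nat_lit 4) (nat_lit 5) (nat_lit 4) (nat_lit 4) (nat_lit 250) (nat_lit 217) (nat_lit 133))) (XT.nd (nat_lit 78) (nat_lit 0) (nat_lit 0) (XT.lf (nat_lit 0) (nat_lit 714099440527) (nat_lit 76) (nat_lit 583697297209)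 (nat_lit 76) (nat_lit 405071629133) (nat_lit 3) (nat_lit 4) (nat_lit 4) (nat_lit 5) (nat_lit 4) (nat_lit 4) (nat_lit 251) (nat_lit 217) (nat_lit 132)) (XT.nd (nat_lit 78) (nat_lit 0) (nat_lit 0) (XT.lf (nat_lit 0) (nat_lit 1034608927306) (nat_lit 76) (nat_lit 546453829222) (nat_lit 76) (nat_lit 367827999701) (nat_lit 3) (nat_lit 4) (nat_lit 4) (nat_lit 5) (nat_lit 4) (nat_lit 4) (nat_lit 252) (nat_lit 217) (nat_lit 131)) (XT.lf (nat_lit 0) (nat_lit 1403194476528) (nat_lit 76) (nat_lit 503624006635) (nat_lit 76) (nat_lit 324998036728) (nat_lit 3) (nat_lit 4) (nat_lit 4) (nat_lit 5) (nat_lit 4) (nat_lit 4) (nat_lit 253) (nat_lit 217) (nat_lit 130))))) (XT.nd (nat_lit 156) (nat_lit 76) (nat_lit 0) (XT.nd (nat_lit 78) (nat_lit 0) (nat_lit 0) (XT.lf (nat_lit 0) (nat_lit 1827067544588) (nat_lit 76) (nat_lit 454369854659) (nat_lit 76) (nat_lit 275743762676) (nat_lit 3) (nat_lit 4) (nat_lit 4)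 (nat_lit 5) (nat_lit 4) (nat_lit 4) (nat_lit 254) (nat_lit 217) (nat_lit 129)) (XT.lf (nat_lit 0) (nat_lit 2314521300212) (nat_lit 76) (nat_lit 397727705102) (nat_lit 76) (nat_lit 219101506967) (nat_lit 3) (nat_lit 4) (nat_lit 4) (nat_lit 5) (nat_lit 4) (nat_lit 4) (nat_lit 255) (nat_lit 217) (nat_lit 128))) (XT.nd (nat_lit 78) (nat_lit 76) (nat_lit 0) (XT.lf (nat_lit 0) (nat_lit 2875092882096) (nat_lit 76) (nat_lit 332589341996) (nat_lit 76) (nat_lit 153963051554) (nat_lit 3) (nat_lit 4) (nat_lit 4) (nat_lit 5) (nat_lit 4) (nat_lit 4) (nat_lit 256) (nat_lit 217) (nat_lit 127)) (XT.nd (nat_lit 78) (nat_lit 76) (nat_lit 0) (XT.lf (nat_lit 0) (nat_lit 3519749995102) (nat_lit 76) (nat_lit 257680319105) (nat_lit 76) (nat_lit 79053948396) (nat_lit 3) (nat_lit 4) (nat_lit 4) (nat_lit 5) (nat_lit 4) (nat_lit 4) (nat_lit 257) (nat_lit 217) (nat_lit 126)) (XT.lf (nat_lit 0) (nat_lit 6736674074)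 (nat_lit 152) (nat_lit 164614158429) (nat_lit 76) (nat_lit 4254184629107) (nat_lit 2) (nat_lit 5) (nat_lit 4) (nat_lit 5) (nat_lit 3) (nat_lit 4) (nat_lit 258) (nat_lit 217) (nat_lit 125)))))) (XT.nd (nat_lit 28392) (nat_lit 0) (nat_lit 1748) (XT.nd (nat_lit 28158) (nat_lit 0) (nat_lit 2736) (XT.nd (nat_lit 28080) (nat_lit 0) (nat_lit 2660) (XT.lf (nat_lit 0) (nat_lit 32777008379) (nat_lit 76) (nat_lit 68859294302) (nat_lit 152) (nat_lit 4978070066869) (nat_lit 1) (nat_lit 5) (nat_lit 2) (nat_lit 5) (nat_lit 3) (nat_lit 4) (nat_lit 259) (nat_lit 217) (nat_lit 124)) (XT.lf (nat_lit 0) (nat_lit 9253025504) (nat_lit 532) (nat_lit 8071656951) (nat_lit 532) (nat_lit 8071656951) (nat_lit 36) (nat_lit 3) (nat_lit 43) (nat_lit 3) (nat_lit 43) (nat_lit 5) (nat_lit 218) (nat_lit 218) (nat_lit 164))) (XT.nd (nat_lit 78) (nat_lit 0) (nat_lit 0) (XT.lf (nat_lit 0) (nat_lit 20684310979) (nat_lit 456)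 (nat_lit 28814650800) (nat_lit 532) (nat_lit 5039727800) (nat_lit 37) (nat_lit 5) (nat_lit 43) (nat_lit 5) (nat_lit 44) (nat_lit 5) (nat_lit 219) (nat_lit 218) (nat_lit 163)) (XT.nd (nat_lit 78) (nat_lit 0) (nat_lit 76) (XT.lf (nat_lit 76) (nat_lit 15857992103) (nat_lit 0) (nat_lit 9145945152) (nat_lit 532) (nat_lit 33697532918) (nat_lit 38) (nat_lit 5) (nat_lit 37) (nat_lit 5) (nat_lit 44) (nat_lit 5) (nat_lit 220) (nat_lit 218) (nat_lit 162)) (XT.lf (nat_lit 76) (nat_lit 4875887949) (nat_lit 0) (nat_lit 26963300556) (nat_lit 532) (nat_lit 31500098258) (nat_lit 39) (nat_lit 5) (nat_lit 38) (nat_lit 5) (nat_lit 45) (nat_lit 5) (nat_lit 221) (nat_lit 218) (nat_lit 161))))) (XT.nd (nat_lit 156) (nat_lit 684) (nat_lit 0) (XT.nd (nat_lit 78) (nat_lit 456) (nat_lit 0) (XT.lf (nat_lit 0) (nat_lit 41690331628) (nat_lit 456) (nat_lit 6979374475) (nat_lit 76) (nat_lit 19843850439) (nat_lit 39)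 (nat_lit 5) (nat_lit 45) (nat_lit 5) (nat_lit 40) (nat_lit 5) (nat_lit 222) (nat_lit 218) (nat_lit 160)) (XT.lf (nat_lit 0) (nat_lit 54187758746) (nat_lit 456) (nat_lit 875439597) (nat_lit 532) (nat_lit 19237269522) (nat_lit 33) (nat_lit 5) (nat_lit 39) (nat_lit 5) (nat_lit 40) (nat_lit 5) (nat_lit 223) (nat_lit 218) (nat_lit 159))) (XT.nd (nat_lit 78) (nat_lit 456) (nat_lit 0) (XT.lf (nat_lit 0) (nat_lit 44951567173) (nat_lit 228) (nat_lit 28076451471) (nat_lit 304) (nat_lit 7720537310) (nat_lit 30) (nat_lit 5) (nat_lit 33) (nat_lit 5) (nat_lit 34) (nat_lit 5) (nat_lit 224) (nat_lit 218) (nat_lit 158)) (XT.nd (nat_lit 78) (nat_lit 228) (nat_lit 0) (XT.lf (nat_lit 0) (nat_lit 7363010519) (nat_lit 228) (nat_lit 54282356122) (nat_lit 76) (nat_lit 26338630763) (nat_lit 27) (nat_lit 5) (nat_lit 30) (nat_lit 5) (nat_lit 28) (nat_lit 5) (nat_lit 225) (nat_lit 218) (nat_lit 157)) (XT.lf (nat_lit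 0) (nat_lit 19526901889) (nat_lit 228) (nat_lit 7049868003) (nat_lit 304) (nat_lit 69525972169) (nat_lit 24) (nat_lit 5) (nat_lit 27) (nat_lit 5) (nat_lit 28) (nat_lit 5) (nat_lit 226) (nat_lit 218) (nat_lit 156))))))))
noncomputable def xc47 : XT := (XT.nd (nat_lit 1560) (nat_lit 76) (nat_lit 0) (XT.nd (nat_lit 780) (nat_lit 456) (nat_lit 0) (XT.nd (nat_lit 390) (nat_lit 380) (nat_lit 0) (XT.nd (nat_lit 156) (nat_lit 532) (nat_lit 0) (XT.nd (nat_lit 78) (nat_lit 0) (nat_lit 0) (XT.lf (nat_lit 0) (nat_lit 1048713902) (nat_lit 152) (nat_lit 50607722844) (nat_lit 228) (nat_lit 53544167552) (nat_lit 22) (nat_lit 5) (nat_lit 24) (nat_lit 5) (nat_lit 25) (nat_lit 5) (nat_lit 227) (nat_lit 218) (nat_lit 155)) (XT.lf (nat_lit 0) (nat_lit 83199150169) (nat_lit 228) (nat_lit 21009230122) (nat_lit 76) (nat_lit 11238689477) (nat_lit 22) (nat_lit 5) (nat_lit 25) (nat_lit 5) (nat_lit 23) (nat_lit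 5) (nat_lit 228) (nat_lit 218) (nat_lit 154))) (XT.nd (nat_lit 78) (nat_lit 380) (nat_lit 0) (XT.lf (nat_lit 0) (nat_lit 77056337555) (nat_lit 152) (nat_lit 45667287549) (nat_lit 228) (nat_lit 4246861702) (nat_lit 20) (nat_lit 5) (nat_lit 22) (nat_lit 5) (nat_lit 23) (nat_lit 5) (nat_lit 229) (nat_lit 218) (nat_lit 153)) (XT.nd (nat_lit 78) (nat_lit 152) (nat_lit 0) (XT.lf (nat_lit 0) (nat_lit 29040614169) (nat_lit 228) (nat_lit 87719947815) (nat_lit 76) (nat_lit 23209306373) (nat_lit 17) (nat_lit 5) (nat_lit 20) (nat_lit 5) (nat_lit 18) (nat_lit 5) (nat_lit 230) (nat_lit 218) (nat_lit 152)) (XT.lf (nat_lit 0) (nat_lit 17407717301) (nat_lit 152) (nat_lit 52839685945) (nat_lit 228) (nat_lit 84408724049) (nat_lit 15) (nat_lit 5) (nat_lit 17) (nat_lit 5) (nat_lit 18) (nat_lit 5) (nat_lit 231) (nat_lit 218) (nat_lit 151))))) (XT.nd (nat_lit 156) (nat_lit 304) (nat_lit 0) (XT.nd (nat_lit 78)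 (nat_lit 76) (nat_lit 0) (XT.lf (nat_lit 0) (nat_lit 120750560990) (nat_lit 228) (nat_lit 28290916997) (nat_lit 76) (nat_lit 22254625215) (nat_lit 15) (nat_lit 5) (nat_lit 18) (nat_lit 5) (nat_lit 16) (nat_lit 4) (nat_lit 232) (nat_lit 218) (nat_lit 150)) (XT.lf (nat_lit 0) (nat_lit 100577417785) (nat_lit 76) (nat_lit 82130380212) (nat_lit 152) (nat_lit 7413994401) (nat_lit 14) (nat_lit 5) (nat_lit 15) (nat_lit 5) (nat_lit 16) (nat_lit 4) (nat_lit 233) (nat_lit 218) (nat_lit 149))) (XT.nd (nat_lit 78) (nat_lit 76) (nat_lit 0) (XT.lf (nat_lit 0) (nat_lit 39732852284) (nat_lit 152) (nat_lit 2143103825) (nat_lit 228) (nat_lit 169670290800) (nat_lit 11) (nat_lit 5) (nat_lit 13) (nat_lit 5) (nat_lit 14) (nat_lit 5) (nat_lit 234) (nat_lit 218) (nat_lit 148)) (XT.nd (nat_lit 78) (nat_lit 76) (nat_lit 0) (XT.lf (nat_lit 0) (nat_lit 102966849704) (nat_lit 228) (nat_lit 44587490611) (nat_lit 76)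 (nat_lit 88226911988) (nat_lit 11) (nat_lit 5) (nat_lit 14) (nat_lit 5) (nat_lit 12) (nat_lit 4) (nat_lit 235) (nat_lit 218) (nat_lit 147)) (XT.lf (nat_lit 0) (nat_lit 107014221032) (nat_lit 76) (nat_lit 68838862571) (nat_lit 152) (nat_lit 87587891660) (nat_lit 10) (nat_lit 5) (nat_lit 11) (nat_lit 5) (nat_lit 12) (nat_lit 4) (nat_lit 236) (nat_lit 218) (nat_lit 146)))))) (XT.nd (nat_lit 390) (nat_lit 228) (nat_lit 0) (XT.nd (nat_lit 156) (nat_lit 76) (nat_lit 0) (XT.nd (nat_lit 78) (nat_lit 152) (nat_lit 0) (XT.lf (nat_lit 0) (nat_lit 261524424634) (nat_lit 152) (nat_lit 11646740056) (nat_lit 0) (nat_lit 21930321044) (nat_lit 10) (nat_lit 5) (nat_lit 12) (nat_lit 4) (nat_lit 10) (nat_lit 4) (nat_lit 237) (nat_lit 218) (nat_lit 145)) (XT.lf (nat_lit 0) (nat_lit 33032852603) (nat_lit 152) (nat_lit 170886928801) (nat_lit 76) (nat_lit 127062398338) (nat_lit 8) (nat_lit 5) (nat_lit 10) (nat_lit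 5) (nat_lit 9) (nat_lit 4) (nat_lit 238) (nat_lit 218) (nat_lit 144))) (XT.nd (nat_lit 78) (nat_lit 76) (nat_lit 0) (XT.lf (nat_lit 0) (nat_lit 108049591328) (nat_lit 152) (nat_lit 14853119753) (nat_lit 76) (nat_lit 249240220262) (nat_lit 8) (nat_lit 5) (nat_lit 10) (nat_lit 5) (nat_lit 9) (nat_lit 4) (nat_lit 239) (nat_lit 218) (nat_lit 143)) (XT.nd (nat_lit 78) (nat_lit 0) (nat_lit 0) (XT.lf (nat_lit 0) (nat_lit 173251059040) (nat_lit 76) (nat_lit 25233654827) (nat_lit 152) (nat_lit 220659813701) (nat_lit 7) (nat_lit 5) (nat_lit 8) (nat_lit 5) (nat_lit 9) (nat_lit 4) (nat_lit 240) (nat_lit 218) (nat_lit 142)) (XT.lf (nat_lit 0) (nat_lit 305022427042) (nat_lit 152) (nat_lit 84798439326) (nat_lit 0) (nat_lit 83172512579) (nat_lit 7) (nat_lit 5) (nat_lit 9) (nat_lit 4) (nat_lit 7) (nat_lit 4) (nat_lit 241) (nat_lit 218) (nat_lit 141))))) (XT.nd (nat_lit 156) (nat_lit 152) (nat_lit 0) (XT.nd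 (nat_lit 78) (nat_lit 0) (nat_lit 0) (XT.lf (nat_lit 0) (nat_lit 105015049186) (nat_lit 76) (nat_lit 325748604726) (nat_lit 76) (nat_lit 103898076885) (nat_lit 6) (nat_lit 4) (nat_lit 7) (nat_lit 5) (nat_lit 7) (nat_lit 4) (nat_lit 242) (nat_lit 218) (nat_lit 140)) (XT.lf (nat_lit 0) (nat_lit 328434623465) (nat_lit 76) (nat_lit 249399658469) (nat_lit 76) (nat_lit 27548597256) (nat_lit 6) (nat_lit 4) (nat_lit 7) (nat_lit 5) (nat_lit 7) (nat_lit 4) (nat_lit 243) (nat_lit 218) (nat_lit 139))) (XT.nd (nat_lit 78) (nat_lit 76) (nat_lit 0) (XT.lf (nat_lit 0) (nat_lit 57238655385) (nat_lit 152) (nat_lit 102795121813) (nat_lit 76) (nat_lit 526562538854) (nat_lit 5) (nat_lit 5) (nat_lit 7) (nat_lit 5) (nat_lit 6) (nat_lit 4) (nat_lit 244) (nat_lit 218) (nat_lit 138)) (XT.nd (nat_lit 78) (nat_lit 0) (nat_lit 0) (XT.lf (nat_lit 0) (nat_lit 101811229214) (nat_lit 76) (nat_lit 53796058061) (nat_lit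 152) (nat_lit 624127680063) (nat_lit 4) (nat_lit 5) (nat_lit 5) (nat_lit 5) (nat_lit 6) (nat_lit 4) (nat_lit 245) (nat_lit 218) (nat_lit 137)) (XT.lf (nat_lit 0) (nat_lit 273445762821) (nat_lit 152) (nat_lit 544994504329) (nat_lit 0) (nat_lit 68026985949) (nat_lit 4) (nat_lit 5) (nat_lit 6) (nat_lit 4) (nat_lit 4) (nat_lit 4) (nat_lit 246) (nat_lit 218) (nat_lit 136))))))) (XT.nd (nat_lit 780) (nat_lit 0) (nat_lit 0) (XT.nd (nat_lit 390) (nat_lit 0) (nat_lit 0) (XT.nd (nat_lit 156) (nat_lit 76) (nat_lit 0) (XT.nd (nat_lit 78) (nat_lit 0) (nat_lit 0) (XT.lf (nat_lit 0) (nat_lit 410447500936) (nat_lit 152) (nat_lit 393614440393) (nat_lit 0) (nat_lit 205028441697) (nat_lit 4) (nat_lit 5) (nat_lit 6) (nat_lit 4) (nat_lit 4) (nat_lit 4) (nat_lit 247) (nat_lit 218) (nat_lit 135)) (XT.lf (nat_lit 0) (nat_lit 567999173921) (nat_lit 152) (nat_lit 219527965967) (nat_lit 0) (nat_lit 362579869144)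 (nat_lit 4) (nat_lit 5) (nat_lit 6) (nat_lit 4) (nat_lit 4) (nat_lit 4) (nat_lit 248) (nat_lit 218) (nat_lit 134))) (XT.nd (nat_lit 78) (nat_lit 76) (nat_lit 0) (XT.lf (nat_lit 0) (nat_lit 749183314507) (nat_lit 152) (nat_lit 19329041333) (nat_lit 0) (nat_lit 543763796219) (nat_lit 4) (nat_lit 5) (nat_lit 6) (nat_lit 4) (nat_lit 4) (nat_lit 4) (nat_lit 249) (nat_lit 218) (nat_lit 133)) (XT.nd (nat_lit 78) (nat_lit 0) (nat_lit 0) (XT.lf (nat_lit 0) (nat_lit 222004850749) (nat_lit 76) (nat_lit 740879201044) (nat_lit 76) (nat_lit 535459497095) (nat_lit 3) (nat_lit 4) (nat_lit 4) (nat_lit 5) (nat_lit 4) (nat_lit 4) (nat_lit 250) (nat_lit 218) (nat_lit 132)) (XT.lf (nat_lit 0) (nat_lit 500708920005) (nat_lit 76) (nat_lit 708493499685) (nat_lit 76) (nat_lit 503073634291) (nat_lit 3) (nat_lit 4) (nat_lit 4) (nat_lit 5) (nat_lit 4) (nat_lit 4) (nat_lit 251) (nat_lit 218) (nat_lit 131))))) (XT.nd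 (nat_lit 156) (nat_lit 0) (nat_lit 0) (XT.nd (nat_lit 78) (nat_lit 0) (nat_lit 0) (XT.lf (nat_lit 0) (nat_lit 821218239075) (nat_lit 76) (nat_lit 671250108720) (nat_lit 76) (nat_lit 465830102940) (nat_lit 3) (nat_lit 4) (nat_lit 4) (nat_lit 5) (nat_lit 4) (nat_lit 4) (nat_lit 252) (nat_lit 218) (nat_lit 130)) (XT.lf (nat_lit 0) (nat_lit 1189803642462) (nat_lit 76) (nat_lit 628420353109) (nat_lit 76) (nat_lit 423000225254) (nat_lit 3) (nat_lit 4) (nat_lit 4) (nat_lit 5) (nat_lit 4) (nat_lit 4) (nat_lit 253) (nat_lit 218) (nat_lit 129))) (XT.nd (nat_lit 78) (nat_lit 0) (nat_lit 0) (XT.lf (nat_lit 0) (nat_lit 1613676583710) (nat_lit 76) (nat_lit 579166259373) (nat_lit 76) (nat_lit 373746025365) (nat_lit 3) (nat_lit 4) (nat_lit 4) (nat_lit 5) (nat_lit 4) (nat_lit 4) (nat_lit 254) (nat_lit 218) (nat_lit 128)) (XT.nd (nat_lit 78) (nat_lit 0) (nat_lit 0) (XT.lf (nat_lit 0) (nat_lit 2101130229063)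 (nat_lit 76) (nat_lit 522524160460) (nat_lit 76) (nat_lit 317103834145) (nat_lit 3) (nat_lit 4) (nat_lit 4) (nat_lit 5) (nat_lit 4) (nat_lit 4) (nat_lit 255) (nat_lit 218) (nat_lit 127)) (XT.lf (nat_lit 0) (nat_lit 2661701715058) (nat_lit 76) (nat_lit 457385841392) (nat_lit 76) (nat_lit 251965434810) (nat_lit 3) (nat_lit 4) (nat_lit 4) (nat_lit 5) (nat_lit 4) (nat_lit 4) (nat_lit 256) (nat_lit 218) (nat_lit 126)))))) (XT.nd (nat_lit 28548) (nat_lit 0) (nat_lit 1596) (XT.nd (nat_lit 28314) (nat_lit 0) (nat_lit 2508) (XT.nd (nat_lit 78) (nat_lit 0) (nat_lit 0) (XT.lf (nat_lit 0) (nat_lit 3306358744683) (nat_lit 76) (nat_lit 382476856794) (nat_lit 76) (nat_lit 177056380416) (nat_lit 3) (nat_lit 4) (nat_lit 4) (nat_lit 5) (nat_lit 4) (nat_lit 4) (nat_lit 257) (nat_lit 218) (nat_lit 125)) (XT.lf (nat_lit 0) (nat_lit 4047714172865) (nat_lit 76) (nat_lit 296331596100) (nat_lit 76) (nat_lit 90911059029)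 (nat_lit 3) (nat_lit 4) (nat_lit 4) (nat_lit 5) (nat_lit 4) (nat_lit 4) (nat_lit 258) (nat_lit 218) (nat_lit 124))) (XT.nd (nat_lit 78) (nat_lit 0) (nat_lit 76) (XT.lf (nat_lit 0) (nat_lit 10680032731) (nat_lit 532) (nat_lit 9261213295) (nat_lit 532) (nat_lit 9261213295) (nat_lit 36) (nat_lit 3) (nat_lit 43) (nat_lit 3) (nat_lit 43) (nat_lit 5) (nat_lit 219) (nat_lit 219) (nat_lit 162)) (XT.nd (nat_lit 78) (nat_lit 0) (nat_lit 0) (XT.lf (nat_lit 0) (nat_lit 23855086819) (nat_lit 456) (nat_lit 33091461141) (nat_lit 532) (nat_lit 5767135202) (nat_lit 37) (nat_lit 5) (nat_lit 43) (nat_lit 5) (nat_lit 44) (nat_lit 5) (nat_lit 220) (nat_lit 219) (nat_lit 161)) (XT.lf (nat_lit 76) (nat_lit 18278236391) (nat_lit 0) (nat_lit 10536533399) (nat_lit 532) (nat_lit 38686788930) (nat_lit 38) (nat_lit 5) (nat_lit 37) (nat_lit 5) (nat_lit 44) (nat_lit 5) (nat_lit 221) (nat_lit 219) (nat_lit 160)))))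 (XT.nd (nat_lit 234) (nat_lit 684) (nat_lit 0) (XT.nd (nat_lit 78) (nat_lit 380) (nat_lit 0) (XT.lf (nat_lit 76) (nat_lit 5650409170) (nat_lit 0) (nat_lit 31017688382) (nat_lit 532) (nat_lit 36167567917) (nat_lit 39) (nat_lit 5) (nat_lit 38) (nat_lit 5) (nat_lit 45) (nat_lit 5) (nat_lit 222) (nat_lit 219) (nat_lit 159)) (XT.nd (nat_lit 78) (nat_lit 456) (nat_lit 0) (XT.lf (nat_lit 0) (nat_lit 47989788199) (nat_lit 456) (nat_lit 7984636944) (nat_lit 76) (nat_lit 22812255946) (nat_lit 39) (nat_lit 5) (nat_lit 45) (nat_lit 5) (nat_lit 40) (nat_lit 5) (nat_lit 223) (nat_lit 219) (nat_lit 158)) (XT.lf (nat_lit 0) (nat_lit 62354041329) (nat_lit 456) (nat_lit 1009472502) (nat_lit 532) (nat_lit 22078551799) (nat_lit 33) (nat_lit 5) (nat_lit 39) (nat_lit 5) (nat_lit 40) (nat_lit 5) (nat_lit 224) (nat_lit 219) (nat_lit 157)))) (XT.nd (nat_lit 78) (nat_lit 456) (nat_lit 0) (XT.lf (nat_lit 0) (nat_lit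 51732432761) (nat_lit 228) (nat_lit 32286158236) (nat_lit 304) (nat_lit 8839160042) (nat_lit 30) (nat_lit 5) (nat_lit 33) (nat_lit 5) (nat_lit 34) (nat_lit 5) (nat_lit 225) (nat_lit 219) (nat_lit 156)) (XT.nd (nat_lit 78) (nat_lit 228) (nat_lit 0) (XT.lf (nat_lit 0) (nat_lit 8501024699) (nat_lit 228) (nat_lit 62385107191) (nat_lit 76) (nat_lit 30292636201) (nat_lit 27) (nat_lit 5) (nat_lit 30) (nat_lit 5) (nat_lit 28) (nat_lit 5) (nat_lit 226) (nat_lit 219) (nat_lit 155)) (XT.lf (nat_lit 0) (nat_lit 22492187381) (nat_lit 228) (nat_lit 8101154685) (nat_lit 304) (nat_lit 79922281625) (nat_lit 24) (nat_lit 5) (nat_lit 27) (nat_lit 5) (nat_lit 28) (nat_lit 5) (nat_lit 227) (nat_lit 219) (nat_lit 154))))))))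
noncomputable def xc48 : XT := (XT.nd (nat_lit 1560) (nat_lit 76) (nat_lit 0) (XT.nd (nat_lit 780) (nat_lit 456) (nat_lit 0) (XT.nd (nat_lit 390) (nat_lit 380) (nat_lit 0) (XT.nd (nat_lit 156) (nat_lit 532) (nat_lit 0) (XT.nd (nat_lit 78) (nat_lit 0) (nat_lit 0) (XT.lf (nat_lit 0) (nat_lit 1241382005) (nat_lit 152) (nat_lit 58190636464) (nat_lit 228) (nat_lit 61546398356) (nat_lit 22) (nat_lit 5) (nat_lit 24) (nat_lit 5) (nat_lit 25) (nat_lit 5) (nat_lit 228) (nat_lit 219) (nat_lit 153)) (XT.lf (nat_lit 0) (nat_lit 95702774433) (nat_lit 228) (nat_lit 24128057381) (nat_lit 76) (nat_lit 12931303653) (nat_lit 22) (nat_lit 5) (nat_lit 25) (nat_lit 5) (nat_lit 23) (nat_lit 5) (nat_lit 229) (nat_lit 219) (nat_lit 152))) (XT.nd (nat_lit 78) (nat_lit 380) (nat_lit 0) (XT.lf (nat_lit 0) (nat_lit 88644589638) (nat_lit 152) (nat_lit 52508949642) (nat_lit 228) (nat_lit 4860728630) (nat_lit 20) (nat_lit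 5) (nat_lit 22) (nat_lit 5) (nat_lit 23) (nat_lit 5) (nat_lit 230) (nat_lit 219) (nat_lit 151)) (XT.nd (nat_lit 78) (nat_lit 152) (nat_lit 0) (XT.lf (nat_lit 0) (nat_lit 33416729798) (nat_lit 228) (nat_lit 100848085791) (nat_lit 76) (nat_lit 26698864890) (nat_lit 17) (nat_lit 5) (nat_lit 20) (nat_lit 5) (nat_lit 18) (nat_lit 5) (nat_lit 231) (nat_lit 219) (nat_lit 150)) (XT.lf (nat_lit 0) (nat_lit 20046202084) (nat_lit 152) (nat_lit 60756380611) (nat_lit 228) (nat_lit 97050460568) (nat_lit 15) (nat_lit 5) (nat_lit 17) (nat_lit 5) (nat_lit 18) (nat_lit 5) (nat_lit 232) (nat_lit 219) (nat_lit 149))))) (XT.nd (nat_lit 156) (nat_lit 304) (nat_lit 0) (XT.nd (nat_lit 78) (nat_lit 76) (nat_lit 0) (XT.lf (nat_lit 0) (nat_lit 138879050897) (nat_lit 228) (nat_lit 32509678326) (nat_lit 76) (nat_lit 25600466903) (nat_lit 15) (nat_lit 5) (nat_lit 18) (nat_lit 5) (nat_lit 16) (nat_lit 4) (nat_lit 233)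 (nat_lit 219) (nat_lit 148)) (XT.lf (nat_lit 0) (nat_lit 115686801025) (nat_lit 76) (nat_lit 94441545398) (nat_lit 152) (nat_lit 8510520975) (nat_lit 14) (nat_lit 5) (nat_lit 15) (nat_lit 5) (nat_lit 16) (nat_lit 4) (nat_lit 234) (nat_lit 219) (nat_lit 147))) (XT.nd (nat_lit 78) (nat_lit 76) (nat_lit 0) (XT.lf (nat_lit 0) (nat_lit 45714373270) (nat_lit 152) (nat_lit 2456359556) (nat_lit 228) (nat_lit 195106345382) (nat_lit 11) (nat_lit 5) (nat_lit 13) (nat_lit 5) (nat_lit 14) (nat_lit 5) (nat_lit 235) (nat_lit 219) (nat_lit 146)) (XT.nd (nat_lit 78) (nat_lit 76) (nat_lit 0) (XT.lf (nat_lit 0) (nat_lit 118423686506) (nat_lit 228) (nat_lit 51256047738) (nat_lit 76) (nat_lit 101467730658) (nat_lit 11) (nat_lit 5) (nat_lit 14) (nat_lit 5) (nat_lit 12) (nat_lit 4) (nat_lit 236) (nat_lit 219) (nat_lit 145)) (XT.lf (nat_lit 0) (nat_lit 123084264447) (nat_lit 76) (nat_lit 79157481434) (nat_lit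 152) (nat_lit 100714493170) (nat_lit 10) (nat_lit 5) (nat_lit 11) (nat_lit 5) (nat_lit 12) (nat_lit 4) (nat_lit 237) (nat_lit 219) (nat_lit 144)))))) (XT.nd (nat_lit 390) (nat_lit 228) (nat_lit 0) (XT.nd (nat_lit 156) (nat_lit 76) (nat_lit 0) (XT.nd (nat_lit 78) (nat_lit 152) (nat_lit 0) (XT.lf (nat_lit 0) (nat_lit 300762543243) (nat_lit 152) (nat_lit 13377560328) (nat_lit 0) (nat_lit 25225825568) (nat_lit 10) (nat_lit 5) (nat_lit 12) (nat_lit 4) (nat_lit 10) (nat_lit 4) (nat_lit 238) (nat_lit 219) (nat_lit 143)) (XT.lf (nat_lit 0) (nat_lit 37996600444) (nat_lit 152) (nat_lit 196504664838) (nat_lit 76) (nat_lit 146127517257) (nat_lit 8) (nat_lit 5) (nat_lit 10) (nat_lit 5) (nat_lit 9) (nat_lit 4) (nat_lit 239) (nat_lit 219) (nat_lit 142))) (XT.nd (nat_lit 78) (nat_lit 76) (nat_lit 0) (XT.lf (nat_lit 0) (nat_lit 124264699549) (nat_lit 152) (nat_lit 17067780514) (nat_lit 76) (nat_lit 286631261273)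 (nat_lit 8) (nat_lit 5) (nat_lit 10) (nat_lit 5) (nat_lit 9) (nat_lit 4) (nat_lit 240) (nat_lit 219) (nat_lit 141)) (XT.nd (nat_lit 78) (nat_lit 0) (nat_lit 0) (XT.lf (nat_lit 0) (nat_lit 199250898710) (nat_lit 76) (nat_lit 29013484336) (nat_lit 152) (nat_lit 253751252650) (nat_lit 7) (nat_lit 5) (nat_lit 8) (nat_lit 5) (nat_lit 9) (nat_lit 4) (nat_lit 241) (nat_lit 219) (nat_lit 140)) (XT.lf (nat_lit 0) (nat_lit 350781954236) (nat_lit 152) (nat_lit 97507225823) (nat_lit 0) (nat_lit 95652700469) (nat_lit 7) (nat_lit 5) (nat_lit 9) (nat_lit 4) (nat_lit 7) (nat_lit 4) (nat_lit 242) (nat_lit 219) (nat_lit 139))))) (XT.nd (nat_lit 156) (nat_lit 152) (nat_lit 0) (XT.nd (nat_lit 78) (nat_lit 0) (nat_lit 0) (XT.lf (nat_lit 0) (nat_lit 120777356614) (nat_lit 76) (nat_lit 374606446340) (nat_lit 76) (nat_lit 119476728771) (nat_lit 6) (nat_lit 4) (nat_lit 7) (nat_lit 5) (nat_lit 7) (nat_lit 4) (nat_lit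 243) (nat_lit 219) (nat_lit 138)) (XT.lf (nat_lit 0) (nat_lit 377708556159) (nat_lit 76) (nat_lit 286805738461) (nat_lit 76) (nat_lit 31675617586) (nat_lit 6) (nat_lit 4) (nat_lit 7) (nat_lit 5) (nat_lit 7) (nat_lit 4) (nat_lit 244) (nat_lit 219) (nat_lit 137))) (XT.nd (nat_lit 78) (nat_lit 76) (nat_lit 0) (XT.lf (nat_lit 0) (nat_lit 65828806448) (nat_lit 152) (nat_lit 118206554162) (nat_lit 76) (nat_lit 605550047196) (nat_lit 5) (nat_lit 5) (nat_lit 7) (nat_lit 5) (nat_lit 6) (nat_lit 4) (nat_lit 245) (nat_lit 219) (nat_lit 136)) (XT.nd (nat_lit 78) (nat_lit 0) (nat_lit 0) (XT.lf (nat_lit 0) (nat_lit 117090086248) (nat_lit 76) (nat_lit 61862251627) (nat_lit 152) (nat_lit 717742551501) (nat_lit 4) (nat_lit 5) (nat_lit 5) (nat_lit 5) (nat_lit 6) (nat_lit 4) (nat_lit 246) (nat_lit 219) (nat_lit 135)) (XT.lf (nat_lit 0) (nat_lit 314466135794) (nat_lit 152) (nat_lit 626737229204) (nat_lit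 0) (nat_lit 78233689763) (nat_lit 4) (nat_lit 5) (nat_lit 6) (nat_lit 4) (nat_lit 4) (nat_lit 4) (nat_lit 247) (nat_lit 219) (nat_lit 134))))))) (XT.nd (nat_lit 780) (nat_lit 0) (nat_lit 0) (XT.nd (nat_lit 390) (nat_lit 0) (nat_lit 0) (XT.nd (nat_lit 156) (nat_lit 76) (nat_lit 0) (XT.nd (nat_lit 78) (nat_lit 0) (nat_lit 0) (XT.lf (nat_lit 0) (nat_lit 472017676989) (nat_lit 152) (nat_lit 452650997083) (nat_lit 0) (nat_lit 235785017448) (nat_lit 4) (nat_lit 5) (nat_lit 6) (nat_lit 4) (nat_lit 4) (nat_lit 4) (nat_lit 248) (nat_lit 219) (nat_lit 133)) (XT.lf (nat_lit 0) (nat_lit 653201702976) (nat_lit 152) (nat_lit 252452283150) (nat_lit 0) (nat_lit 416968857773) (nat_lit 4) (nat_lit 5) (nat_lit 6) (nat_lit 4) (nat_lit 4) (nat_lit 4) (nat_lit 249) (nat_lit 219) (nat_lit 132))) (XT.nd (nat_lit 78) (nat_lit 76) (nat_lit 0) (XT.lf (nat_lit 0) (nat_lit 861563118611) (nat_lit 152) (nat_lit 22224156044)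 (nat_lit 0) (nat_lit 625330111964) (nat_lit 4) (nat_lit 5) (nat_lit 6) (nat_lit 4) (nat_lit 4) (nat_lit 4) (nat_lit 250) (nat_lit 219) (nat_lit 131)) (XT.nd (nat_lit 78) (nat_lit 0) (nat_lit 0) (XT.lf (nat_lit 0) (nat_lit 255309460829) (nat_lit 76) (nat_lit 852009298130) (nat_lit 76) (nat_lit 615776151096) (nat_lit 3) (nat_lit 4) (nat_lit 4) (nat_lit 5) (nat_lit 4) (nat_lit 4) (nat_lit 251) (nat_lit 219) (nat_lit 130)) (XT.lf (nat_lit 0) (nat_lit 575818634065) (nat_lit 76) (nat_lit 814765974142) (nat_lit 76) (nat_lit 578532705032) (nat_lit 3) (nat_lit 4) (nat_lit 4) (nat_lit 5) (nat_lit 4) (nat_lit 4) (nat_lit 252) (nat_lit 219) (nat_lit 129))))) (XT.nd (nat_lit 156) (nat_lit 0) (nat_lit 0) (XT.nd (nat_lit 78) (nat_lit 0) (nat_lit 0) (XT.lf (nat_lit 0) (nat_lit 944403910639) (nat_lit 76) (nat_lit 771936276771) (nat_lit 76) (nat_lit 535702901509) (nat_lit 3) (nat_lit 4) (nat_lit 4) (nat_lit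 5) (nat_lit 4) (nat_lit 4) (nat_lit 253) (nat_lit 219) (nat_lit 128)) (XT.lf (nat_lit 0) (nat_lit 1368276741617) (nat_lit 76) (nat_lit 722682233678) (nat_lit 76) (nat_lit 486448766110) (nat_lit 3) (nat_lit 4) (nat_lit 4) (nat_lit 5) (nat_lit 4) (nat_lit 4) (nat_lit 254) (nat_lit 219) (nat_lit 127))) (XT.nd (nat_lit 78) (nat_lit 0) (nat_lit 0) (XT.lf (nat_lit 0) (nat_lit 1855730291081) (nat_lit 76) (nat_lit 666040178803) (nat_lit 76) (nat_lit 429806630968) (nat_lit 3) (nat_lit 4) (nat_lit 4) (nat_lit 5) (nat_lit 4) (nat_lit 4) (nat_lit 255) (nat_lit 219) (nat_lit 126)) (XT.nd (nat_lit 78) (nat_lit 0) (nat_lit 0) (XT.lf (nat_lit 0) (nat_lit 2416301693695) (nat_lit 76) (nat_lit 600901898028) (nat_lit 76) (nat_lit 364668280396) (nat_lit 3) (nat_lit 4) (nat_lit 4) (nat_lit 5) (nat_lit 4) (nat_lit 4) (nat_lit 256) (nat_lit 219) (nat_lit 125)) (XT.lf (nat_lit 0) (nat_lit 3060958650815) (nat_lit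 76) (nat_lit 525992946730) (nat_lit 76) (nat_lit 289759268405) (nat_lit 3) (nat_lit 4) (nat_lit 4) (nat_lit 5) (nat_lit 4) (nat_lit 4) (nat_lit 257) (nat_lit 219) (nat_lit 124)))))) (XT.nd (nat_lit 28626) (nat_lit 0) (nat_lit 1596) (XT.nd (nat_lit 28392) (nat_lit 0) (nat_lit 2584) (XT.nd (nat_lit 28314) (nat_lit 0) (nat_lit 2508) (XT.lf (nat_lit 0) (nat_lit 3802314015949) (nat_lit 76) (nat_lit 439847714991) (nat_lit 76) (nat_lit 203613983890) (nat_lit 3) (nat_lit 4) (nat_lit 4) (nat_lit 5) (nat_lit 4) (nat_lit 4) (nat_lit 258) (nat_lit 219) (nat_lit 123)) (XT.lf (nat_lit 0) (nat_lit 12311567623) (nat_lit 532) (nat_lit 10634370943) (nat_lit 532) (nat_lit 10634370943) (nat_lit 36) (nat_lit 3) (nat_lit 43) (nat_lit 3) (nat_lit 43) (nat_lit 5) (nat_lit 220) (nat_lit 220) (nat_lit 160))) (XT.nd (nat_lit 78) (nat_lit 0) (nat_lit 0) (XT.lf (nat_lit 0) (nat_lit 27484865300) (nat_lit 456) (nat_lit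 38020861009) (nat_lit 532) (nat_lit 6610616244) (nat_lit 37) (nat_lit 5) (nat_lit 43) (nat_lit 5) (nat_lit 44) (nat_lit 5) (nat_lit 221) (nat_lit 220) (nat_lit 159)) (XT.nd (nat_lit 78) (nat_lit 0) (nat_lit 76) (XT.lf (nat_lit 76) (nat_lit 21051386195) (nat_lit 0) (nat_lit 12131150629) (nat_lit 532) (nat_lit 44440375189) (nat_lit 38) (nat_lit 5) (nat_lit 37) (nat_lit 5) (nat_lit 44) (nat_lit 5) (nat_lit 222) (nat_lit 220) (nat_lit 158)) (XT.lf (nat_lit 76) (nat_lit 6530589093) (nat_lit 0) (nat_lit 35677821974) (nat_lit 532) (nat_lit 41549190756) (nat_lit 39) (nat_lit 5) (nat_lit 38) (nat_lit 5) (nat_lit 45) (nat_lit 5) (nat_lit 223) (nat_lit 220) (nat_lit 157))))) (XT.nd (nat_lit 156) (nat_lit 684) (nat_lit 0) (XT.nd (nat_lit 78) (nat_lit 456) (nat_lit 0) (XT.lf (nat_lit 0) (nat_lit 55222968585) (nat_lit 456) (nat_lit 9150843863) (nat_lit 76) (nat_lit 26227915088) (nat_lit 39) (nat_lit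 5) (nat_lit 45) (nat_lit 5) (nat_lit 40) (nat_lit 5) (nat_lit 224) (nat_lit 220) (nat_lit 156)) (XT.lf (nat_lit 0) (nat_lit 71735970796) (nat_lit 456) (nat_lit 1162947793) (nat_lit 532) (nat_lit 25356831241) (nat_lit 33) (nat_lit 5) (nat_lit 39) (nat_lit 5) (nat_lit 40) (nat_lit 5) (nat_lit 225) (nat_lit 220) (nat_lit 155))) (XT.nd (nat_lit 78) (nat_lit 456) (nat_lit 0) (XT.lf (nat_lit 0) (nat_lit 59521129820) (nat_lit 228) (nat_lit 37127750436) (nat_lit 304) (nat_lit 10135198234) (nat_lit 30) (nat_lit 5) (nat_lit 33) (nat_lit 5) (nat_lit 34) (nat_lit 5) (nat_lit 226) (nat_lit 220) (nat_lit 154)) (XT.nd (nat_lit 78) (nat_lit 228) (nat_lit 0) (XT.lf (nat_lit 0) (nat_lit 9801556553) (nat_lit 228) (nat_lit 71712928203) (nat_lit 76) (nat_lit 34838959475) (nat_lit 27) (nat_lit 5) (nat_lit 30) (nat_lit 5) (nat_lit 28) (nat_lit 5) (nat_lit 227) (nat_lit 220) (nat_lit 153)) (XT.lf (nat_lit 0)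 (nat_lit 25893425854) (nat_lit 228) (nat_lit 9311644698) (nat_lit 304) (nat_lit 91885983892) (nat_lit 24) (nat_lit 5) (nat_lit 27) (nat_lit 5) (nat_lit 28) (nat_lit 5) (nat_lit 228) (nat_lit 220) (nat_lit 152))))))))
noncomputable def xc49 : XT := (XT.nd (nat_lit 1560) (nat_lit 76) (nat_lit 0) (XT.nd (nat_lit 780) (nat_lit 456) (nat_lit 0) (XT.nd (nat_lit 390) (nat_lit 380) (nat_lit 0) (XT.nd (nat_lit 156) (nat_lit 532) (nat_lit 0) (XT.nd (nat_lit 78) (nat_lit 0) (nat_lit 0) (XT.lf (nat_lit 0) (nat_lit 1454327315) (nat_lit 152) (nat_lit 66912997675) (nat_lit 228) (nat_lit 70756131773) (nat_lit 22) (nat_lit 5) (nat_lit 24) (nat_lit 5) (nat_lit 25) (nat_lit 5) (nat_lit 229) (nat_lit 220) (nat_lit 151)) (XT.lf (nat_lit 0) (nat_lit 110076150324) (nat_lit 228) (nat_lit 27722648023) (nat_lit 76) (nat_lit 14876149111) (nat_lit 22) (nat_lit 5) (nat_lit 25) (nat_lit 5) (nat_lit 23) (nat_lit 5)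 (nat_lit 230) (nat_lit 220) (nat_lit 150))) (XT.nd (nat_lit 78) (nat_lit 380) (nat_lit 0) (XT.lf (nat_lit 0) (nat_lit 101963812261) (nat_lit 152) (nat_lit 60378917012) (nat_lit 228) (nat_lit 5572323876) (nat_lit 20) (nat_lit 5) (nat_lit 22) (nat_lit 5) (nat_lit 23) (nat_lit 5) (nat_lit 231) (nat_lit 220) (nat_lit 149)) (XT.nd (nat_lit 78) (nat_lit 152) (nat_lit 0) (XT.lf (nat_lit 0) (nat_lit 38444379912) (nat_lit 228) (nat_lit 115952724598) (nat_lit 76) (nat_lit 30709866693) (nat_lit 17) (nat_lit 5) (nat_lit 20) (nat_lit 5) (nat_lit 18) (nat_lit 5) (nat_lit 232) (nat_lit 220) (nat_lit 148)) (XT.lf (nat_lit 0) (nat_lit 23073795676) (nat_lit 152) (nat_lit 69862837153) (nat_lit 228) (nat_lit 111593230342) (nat_lit 15) (nat_lit 5) (nat_lit 17) (nat_lit 5) (nat_lit 18) (nat_lit 5) (nat_lit 233) (nat_lit 220) (nat_lit 147))))) (XT.nd (nat_lit 156) (nat_lit 304) (nat_lit 0) (XT.nd (nat_lit 78)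 (nat_lit 76) (nat_lit 0) (XT.lf (nat_lit 0) (nat_lit 159722935569) (nat_lit 228) (nat_lit 37367320078) (nat_lit 76) (nat_lit 29446319855) (nat_lit 15) (nat_lit 5) (nat_lit 18) (nat_lit 5) (nat_lit 16) (nat_lit 4) (nat_lit 234) (nat_lit 220) (nat_lit 146)) (XT.lf (nat_lit 0) (nat_lit 133057039004) (nat_lit 76) (nat_lit 108601431766) (nat_lit 152) (nat_lit 9775324008) (nat_lit 14) (nat_lit 5) (nat_lit 15) (nat_lit 5) (nat_lit 16) (nat_lit 4) (nat_lit 235) (nat_lit 220) (nat_lit 145))) (XT.nd (nat_lit 78) (nat_lit 76) (nat_lit 0) (XT.lf (nat_lit 0) (nat_lit 52587856778) (nat_lit 152) (nat_lit 2818605669) (nat_lit 228) (nat_lit 224361341394) (nat_lit 11) (nat_lit 5) (nat_lit 13) (nat_lit 5) (nat_lit 14) (nat_lit 5) (nat_lit 236) (nat_lit 220) (nat_lit 144)) (XT.nd (nat_lit 78) (nat_lit 76) (nat_lit 0) (XT.lf (nat_lit 0) (nat_lit 136196169044) (nat_lit 228) (nat_lit 58929659841) (nat_lit 76)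 (nat_lit 116693018326) (nat_lit 11) (nat_lit 5) (nat_lit 14) (nat_lit 5) (nat_lit 12) (nat_lit 4) (nat_lit 237) (nat_lit 220) (nat_lit 143)) (XT.lf (nat_lit 0) (nat_lit 141560446844) (nat_lit 76) (nat_lit 91025651459) (nat_lit 152) (nat_lit 115812909310) (nat_lit 10) (nat_lit 5) (nat_lit 11) (nat_lit 5) (nat_lit 12) (nat_lit 4) (nat_lit 238) (nat_lit 220) (nat_lit 142)))))) (XT.nd (nat_lit 390) (nat_lit 228) (nat_lit 0) (XT.nd (nat_lit 156) (nat_lit 76) (nat_lit 0) (XT.nd (nat_lit 78) (nat_lit 152) (nat_lit 0) (XT.lf (nat_lit 0) (nat_lit 345884074004) (nat_lit 152) (nat_lit 15371951855) (nat_lit 0) (nat_lit 29014203273) (nat_lit 10) (nat_lit 5) (nat_lit 12) (nat_lit 4) (nat_lit 10) (nat_lit 4) (nat_lit 239) (nat_lit 220) (nat_lit 141)) (XT.lf (nat_lit 0) (nat_lit 43702759660) (nat_lit 152) (nat_lit 225968793084) (nat_lit 76) (nat_lit 168050999604) (nat_lit 8) (nat_lit 5) (nat_lit 10)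 (nat_lit 5) (nat_lit 9) (nat_lit 4) (nat_lit 240) (nat_lit 220) (nat_lit 140))) (XT.nd (nat_lit 78) (nat_lit 76) (nat_lit 0) (XT.lf (nat_lit 0) (nat_lit 142910203743) (nat_lit 152) (nat_lit 19617885434) (nat_lit 76) (nat_lit 329629737211) (nat_lit 8) (nat_lit 5) (nat_lit 10) (nat_lit 5) (nat_lit 9) (nat_lit 4) (nat_lit 241) (nat_lit 220) (nat_lit 139)) (XT.nd (nat_lit 78) (nat_lit 0) (nat_lit 0) (XT.lf (nat_lit 0) (nat_lit 229147743962) (nat_lit 76) (nat_lit 33361560888) (nat_lit 152) (nat_lit 291808244436) (nat_lit 7) (nat_lit 5) (nat_lit 8) (nat_lit 5) (nat_lit 9) (nat_lit 4) (nat_lit 242) (nat_lit 220) (nat_lit 138)) (XT.lf (nat_lit 0) (nat_lit 403403907589) (nat_lit 152) (nat_lit 112125007692) (nat_lit 0) (nat_lit 110003865277) (nat_lit 7) (nat_lit 5) (nat_lit 9) (nat_lit 4) (nat_lit 7) (nat_lit 4) (nat_lit 243) (nat_lit 220) (nat_lit 137))))) (XT.nd (nat_lit 156) (nat_lit 152) (nat_lit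 0) (XT.nd (nat_lit 78) (nat_lit 0) (nat_lit 0) (XT.lf (nat_lit 0) (nat_lit 138901559387) (nat_lit 76) (nat_lit 430794049135) (nat_lit 76) (nat_lit 137393656123) (nat_lit 6) (nat_lit 4) (nat_lit 7) (nat_lit 5) (nat_lit 7) (nat_lit 4) (nat_lit 244) (nat_lit 220) (nat_lit 136)) (XT.lf (nat_lit 0) (nat_lit 434371447654) (nat_lit 76) (nat_lit 329823673877) (nat_lit 76) (nat_lit 36422975907) (nat_lit 6) (nat_lit 4) (nat_lit 7) (nat_lit 5) (nat_lit 7) (nat_lit 4) (nat_lit 245) (nat_lit 220) (nat_lit 135))) (XT.nd (nat_lit 78) (nat_lit 76) (nat_lit 0) (XT.lf (nat_lit 0) (nat_lit 75706418724) (nat_lit 152) (nat_lit 135931612203) (nat_lit 76) (nat_lit 696384919125) (nat_lit 5) (nat_lit 5) (nat_lit 7) (nat_lit 5) (nat_lit 6) (nat_lit 4) (nat_lit 246) (nat_lit 220) (nat_lit 134)) (XT.nd (nat_lit 78) (nat_lit 0) (nat_lit 0) (XT.lf (nat_lit 0) (nat_lit 134659022739) (nat_lit 76) (nat_lit 71139158260)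 (nat_lit 152) (nat_lit 825400697500) (nat_lit 4) (nat_lit 5) (nat_lit 5) (nat_lit 5) (nat_lit 6) (nat_lit 4) (nat_lit 247) (nat_lit 220) (nat_lit 133)) (XT.lf (nat_lit 0) (nat_lit 361638709130) (nat_lit 152) (nat_lit 720742935873) (nat_lit 0) (nat_lit 89970751485) (nat_lit 4) (nat_lit 5) (nat_lit 6) (nat_lit 4) (nat_lit 4) (nat_lit 4) (nat_lit 248) (nat_lit 220) (nat_lit 132))))))) (XT.nd (nat_lit 29094) (nat_lit 0) (nat_lit 1444) (XT.nd (nat_lit 390) (nat_lit 0) (nat_lit 0) (XT.nd (nat_lit 156) (nat_lit 76) (nat_lit 0) (XT.nd (nat_lit 78) (nat_lit 0) (nat_lit 0) (XT.lf (nat_lit 0) (nat_lit 542822635466) (nat_lit 152) (nat_lit 520544405157) (nat_lit 0) (nat_lit 271154516376) (nat_lit 4) (nat_lit 5) (nat_lit 6) (nat_lit 4) (nat_lit 4) (nat_lit 4) (nat_lit 249) (nat_lit 220) (nat_lit 131)) (XT.lf (nat_lit 0) (nat_lit 751183964447) (nat_lit 152) (nat_lit 290316437371) (nat_lit 0) (nat_lit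 479515704971) (nat_lit 4) (nat_lit 5) (nat_lit 6) (nat_lit 4) (nat_lit 4) (nat_lit 4) (nat_lit 250) (nat_lit 220) (nat_lit 130))) (XT.nd (nat_lit 78) (nat_lit 76) (nat_lit 0) (XT.lf (nat_lit 0) (nat_lit 990799330772) (nat_lit 152) (nat_lit 25554572276) (nat_lit 0) (nat_lit 719130949220) (nat_lit 4) (nat_lit 5) (nat_lit 6) (nat_lit 4) (nat_lit 4) (nat_lit 4) (nat_lit 251) (nat_lit 220) (nat_lit 129)) (XT.nd (nat_lit 78) (nat_lit 0) (nat_lit 0) (XT.lf (nat_lit 0) (nat_lit 293608815657) (nat_lit 76) (nat_lit 979809344592) (nat_lit 76) (nat_lit 708140856888) (nat_lit 3) (nat_lit 4) (nat_lit 4) (nat_lit 5) (nat_lit 4) (nat_lit 4) (nat_lit 252) (nat_lit 220) (nat_lit 128)) (XT.lf (nat_lit 0) (nat_lit 662193981960) (nat_lit 76) (nat_lit 936979697865) (nat_lit 76) (nat_lit 665311117855) (nat_lit 3) (nat_lit 4) (nat_lit 4) (nat_lit 5) (nat_lit 4) (nat_lit 4) (nat_lit 253) (nat_lit 220) (nat_lit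 127))))) (XT.nd (nat_lit 156) (nat_lit 0) (nat_lit 0) (XT.nd (nat_lit 78) (nat_lit 0) (nat_lit 0) (XT.lf (nat_lit 0) (nat_lit 1086066717049) (nat_lit 76) (nat_lit 887725698810) (nat_lit 76) (nat_lit 616057038533) (nat_lit 3) (nat_lit 4) (nat_lit 4) (nat_lit 5) (nat_lit 4) (nat_lit 4) (nat_lit 254) (nat_lit 220) (nat_lit 126)) (XT.lf (nat_lit 0) (nat_lit 1573520183132) (nat_lit 76) (nat_lit 831083682229) (nat_lit 76) (nat_lit 559414952155) (nat_lit 3) (nat_lit 4) (nat_lit 4) (nat_lit 5) (nat_lit 4) (nat_lit 4) (nat_lit 255) (nat_lit 220) (nat_lit 125))) (XT.nd (nat_lit 78) (nat_lit 0) (nat_lit 0) (XT.lf (nat_lit 0) (nat_lit 2134091513241) (nat_lit 76) (nat_lit 765945434753) (nat_lit 76) (nat_lit 494276643986) (nat_lit 3) (nat_lit 4) (nat_lit 4) (nat_lit 5) (nat_lit 4) (nat_lit 4) (nat_lit 256) (nat_lit 220) (nat_lit 124)) (XT.nd (nat_lit 78) (nat_lit 0) (nat_lit 0) (XT.lf (nat_lit 0) (nat_lit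 2778748407313) (nat_lit 76) (nat_lit 691036512410) (nat_lit 76) (nat_lit 419367668867) (nat_lit 3) (nat_lit 4) (nat_lit 4) (nat_lit 5) (nat_lit 4) (nat_lit 4) (nat_lit 257) (nat_lit 220) (nat_lit 123)) (XT.lf (nat_lit 0) (nat_lit 3520103717623) (nat_lit 76) (nat_lit 604891305851) (nat_lit 76) (nat_lit 333222416414) (nat_lit 3) (nat_lit 4) (nat_lit 4) (nat_lit 5) (nat_lit 4) (nat_lit 4) (nat_lit 258) (nat_lit 220) (nat_lit 122)))))) (XT.nd (nat_lit 390) (nat_lit 1064) (nat_lit 0) (XT.nd (nat_lit 156) (nat_lit 0) (nat_lit 76) (XT.nd (nat_lit 78) (nat_lit 0) (nat_lit 76) (XT.lf (nat_lit 0) (nat_lit 14180631675) (nat_lit 532) (nat_lit 12217409876) (nat_lit 532) (nat_lit 12217409876) (nat_lit 36) (nat_lit 3) (nat_lit 43) (nat_lit 3) (nat_lit 43) (nat_lit 5) (nat_lit 221) (nat_lit 221) (nat_lit 158)) (XT.lf (nat_lit 0) (nat_lit 31646548182) (nat_lit 456) (nat_lit 43698039836) (nat_lit 532)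 (nat_lit 7585884115) (nat_lit 37) (nat_lit 5) (nat_lit 43) (nat_lit 5) (nat_lit 44) (nat_lit 5) (nat_lit 222) (nat_lit 221) (nat_lit 157))) (XT.nd (nat_lit 78) (nat_lit 0) (nat_lit 76) (XT.lf (nat_lit 76) (nat_lit 24232847883) (nat_lit 0) (nat_lit 13961512993) (nat_lit 532) (nat_lit 51069053712) (nat_lit 38) (nat_lit 5) (nat_lit 37) (nat_lit 5) (nat_lit 44) (nat_lit 5) (nat_lit 223) (nat_lit 221) (nat_lit 156)) (XT.nd (nat_lit 78) (nat_lit 0) (nat_lit 76) (XT.lf (nat_lit 76) (nat_lit 7534841765) (nat_lit 0) (nat_lit 41035151478) (nat_lit 532) (nat_lit 47748667783) (nat_lit 39) (nat_lit 5) (nat_lit 38) (nat_lit 5) (nat_lit 45) (nat_lit 5) (nat_lit 224) (nat_lit 221) (nat_lit 155)) (XT.lf (nat_lit 0) (nat_lit 63532661250) (nat_lit 456) (nat_lit 10499660520) (nat_lit 76) (nat_lit 30157429950) (nat_lit 39) (nat_lit 5) (nat_lit 45) (nat_lit 5) (nat_lit 40) (nat_lit 5) (nat_lit 225) (nat_lit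 221) (nat_lit 154))))) (XT.nd (nat_lit 234) (nat_lit 380) (nat_lit 0) (XT.nd (nat_lit 78) (nat_lit 456) (nat_lit 0) (XT.lf (nat_lit 0) (nat_lit 82518160947) (nat_lit 456) (nat_lit 1338943396) (nat_lit 532) (nat_lit 29135022598) (nat_lit 33) (nat_lit 5) (nat_lit 39) (nat_lit 5) (nat_lit 40) (nat_lit 5) (nat_lit 226) (nat_lit 221) (nat_lit 153)) (XT.nd (nat_lit 78) (nat_lit 228) (nat_lit 0) (XT.lf (nat_lit 0) (nat_lit 68471100537) (nat_lit 228) (nat_lit 42695906169) (nat_lit 304) (nat_lit 11632917807) (nat_lit 30) (nat_lit 5) (nat_lit 33) (nat_lit 5) (nat_lit 34) (nat_lit 5) (nat_lit 227) (nat_lit 221) (nat_lit 152)) (XT.lf (nat_lit 0) (nat_lit 11290979563) (nat_lit 228) (nat_lit 82447224662) (nat_lit 76) (nat_lit 40066639194) (nat_lit 27) (nat_lit 5) (nat_lit 30) (nat_lit 5) (nat_lit 28) (nat_lit 5) (nat_lit 228) (nat_lit 221) (nat_lit 151)))) (XT.nd (nat_lit 78) (nat_lit 152) (nat_lit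 0) (XT.lf (nat_lit 0) (nat_lit 29798165906) (nat_lit 228) (nat_lit 10704850239) (nat_lit 304) (nat_lit 105650250113) (nat_lit 24) (nat_lit 5) (nat_lit 27) (nat_lit 5) (nat_lit 28) (nat_lit 5) (nat_lit 229) (nat_lit 221) (nat_lit 150)) (XT.nd (nat_lit 78) (nat_lit 0) (nat_lit 0) (XT.lf (nat_lit 0) (nat_lit 1692694189) (nat_lit 152) (nat_lit 76945233331) (nat_lit 228) (nat_lit 81352745237) (nat_lit 22) (nat_lit 5) (nat_lit 24) (nat_lit 5) (nat_lit 25) (nat_lit 5) (nat_lit 230) (nat_lit 221) (nat_lit 149)) (XT.lf (nat_lit 0) (nat_lit 126601153006) (nat_lit 228) (nat_lit 31862430507) (nat_lit 76) (nat_lit 17111465549) (nat_lit 22) (nat_lit 5) (nat_lit 25) (nat_lit 5) (nat_lit 23) (nat_lit 5) (nat_lit 231) (nat_lit 221) (nat_lit 148))))))))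
noncomputable def xc50 : XT := (XT.nd (nat_lit 1560) (nat_lit 76) (nat_lit 0) (XT.nd (nat_lit 780) (nat_lit 304) (nat_lit 0) (XT.nd (nat_lit 390) (nat_lit 456) (nat_lit 0) (XT.nd (nat_lit 156) (nat_lit 228) (nat_lit 0) (XT.nd (nat_lit 78) (nat_lit 228) (nat_lit 0) (XT.lf (nat_lit 0) (nat_lit 117275423176) (nat_lit 152) (nat_lit 69430934090) (nat_lit 228) (nat_lit 6394929322) (nat_lit 20) (nat_lit 5) (nat_lit 22) (nat_lit 5) (nat_lit 23) (nat_lit 5) (nat_lit 232) (nat_lit 221) (nat_lit 147)) (XT.lf (nat_lit 0) (nat_lit 44222485402) (nat_lit 228) (nat_lit 133328564054) (nat_lit 76) (nat_lit 35321013668) (nat_lit 17) (nat_lit 5) (nat_lit 20) (nat_lit 5) (nat_lit 18) (nat_lit 5) (nat_lit 233) (nat_lit 221) (nat_lit 146))) (XT.nd (nat_lit 78) (nat_lit 76) (nat_lit 0) (XT.lf (nat_lit 0) (nat_lit 26550489436) (nat_lit 152) (nat_lit 80336969305) (nat_lit 228) (nat_lit 128321024489) (nat_lit 15)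 (nat_lit 5) (nat_lit 17) (nat_lit 5) (nat_lit 18) (nat_lit 5) (nat_lit 234) (nat_lit 221) (nat_lit 145)) (XT.nd (nat_lit 78) (nat_lit 76) (nat_lit 0) (XT.lf (nat_lit 0) (nat_lit 183690470074) (nat_lit 228) (nat_lit 42958195030) (nat_lit 76) (nat_lit 33867640548) (nat_lit 15) (nat_lit 5) (nat_lit 18) (nat_lit 5) (nat_lit 16) (nat_lit 4) (nat_lit 235) (nat_lit 221) (nat_lit 144)) (XT.lf (nat_lit 0) (nat_lit 153028614003) (nat_lit 76) (nat_lit 124886848466) (nat_lit 152) (nat_lit 11232718933) (nat_lit 14) (nat_lit 5) (nat_lit 15) (nat_lit 5) (nat_lit 16) (nat_lit 4) (nat_lit 236) (nat_lit 221) (nat_lit 143))))) (XT.nd (nat_lit 156) (nat_lit 228) (nat_lit 0) (XT.nd (nat_lit 78) (nat_lit 0) (nat_lit 0) (XT.lf (nat_lit 0) (nat_lit 60488381245) (nat_lit 152) (nat_lit 3236702516) (nat_lit 228) (nat_lit 258007258449) (nat_lit 11) (nat_lit 5) (nat_lit 13) (nat_lit 5) (nat_lit 14) (nat_lit 5) (nat_lit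 237) (nat_lit 221) (nat_lit 142)) (XT.lf (nat_lit 0) (nat_lit 156632346432) (nat_lit 228) (nat_lit 67757921628) (nat_lit 76) (nat_lit 134200848632) (nat_lit 11) (nat_lit 5) (nat_lit 14) (nat_lit 5) (nat_lit 12) (nat_lit 4) (nat_lit 238) (nat_lit 221) (nat_lit 141))) (XT.nd (nat_lit 78) (nat_lit 152) (nat_lit 0) (XT.lf (nat_lit 0) (nat_lit 162804754121) (nat_lit 76) (nat_lit 104675376538) (nat_lit 152) (nat_lit 133178223524) (nat_lit 10) (nat_lit 5) (nat_lit 11) (nat_lit 5) (nat_lit 12) (nat_lit 4) (nat_lit 239) (nat_lit 221) (nat_lit 140)) (XT.nd (nat_lit 78) (nat_lit 152) (nat_lit 0) (XT.lf (nat_lit 0) (nat_lit 397772090982) (nat_lit 152) (nat_lit 17668487527) (nat_lit 0) (nat_lit 33369739337) (nat_lit 10) (nat_lit 5) (nat_lit 12) (nat_lit 4) (nat_lit 10) (nat_lit 4) (nat_lit 240) (nat_lit 221) (nat_lit 139)) (XT.lf (nat_lit 0) (nat_lit 50263216444) (nat_lit 152) (nat_lit 259855362345)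 (nat_lit 76) (nat_lit 193261942367) (nat_lit 8) (nat_lit 5) (nat_lit 10) (nat_lit 5) (nat_lit 9) (nat_lit 4) (nat_lit 241) (nat_lit 221) (nat_lit 138)))))) (XT.nd (nat_lit 390) (nat_lit 152) (nat_lit 0) (XT.nd (nat_lit 156) (nat_lit 76) (nat_lit 0) (XT.nd (nat_lit 78) (nat_lit 76) (nat_lit 0) (XT.lf (nat_lit 0) (nat_lit 164351119378) (nat_lit 152) (nat_lit 22552959813) (nat_lit 76) (nat_lit 379077061116) (nat_lit 8) (nat_lit 5) (nat_lit 10) (nat_lit 5) (nat_lit 9) (nat_lit 4) (nat_lit 242) (nat_lit 221) (nat_lit 137)) (XT.lf (nat_lit 0) (nat_lit 263526869976) (nat_lit 76) (nat_lit 38362811203) (nat_lit 152) (nat_lit 335575174023) (nat_lit 7) (nat_lit 5) (nat_lit 8) (nat_lit 5) (nat_lit 9) (nat_lit 4) (nat_lit 243) (nat_lit 221) (nat_lit 136))) (XT.nd (nat_lit 78) (nat_lit 76) (nat_lit 0) (XT.lf (nat_lit 0) (nat_lit 463918017522) (nat_lit 152) (nat_lit 128937481337) (nat_lit 0) (nat_lit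 126506909899) (nat_lit 7) (nat_lit 5) (nat_lit 9) (nat_lit 4) (nat_lit 7) (nat_lit 4) (nat_lit 244) (nat_lit 221) (nat_lit 135)) (XT.nd (nat_lit 78) (nat_lit 0) (nat_lit 0) (XT.lf (nat_lit 0) (nat_lit 159742539444) (nat_lit 76) (nat_lit 495410612721) (nat_lit 76) (nat_lit 157999239918) (nat_lit 6) (nat_lit 4) (nat_lit 7) (nat_lit 5) (nat_lit 7) (nat_lit 4) (nat_lit 245) (nat_lit 221) (nat_lit 134)) (XT.lf (nat_lit 0) (nat_lit 499532161453) (nat_lit 76) (nat_lit 379295012973) (nat_lit 76) (nat_lit 41883409578) (nat_lit 6) (nat_lit 4) (nat_lit 7) (nat_lit 5) (nat_lit 7) (nat_lit 4) (nat_lit 246) (nat_lit 221) (nat_lit 133))))) (XT.nd (nat_lit 156) (nat_lit 0) (nat_lit 0) (XT.nd (nat_lit 78) (nat_lit 76) (nat_lit 0) (XT.lf (nat_lit 0) (nat_lit 87064870235) (nat_lit 152) (nat_lit 156316873819) (nat_lit 76) (nat_lit 800844445160) (nat_lit 5) (nat_lit 5) (nat_lit 7) (nat_lit 5) (nat_lit 6)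 (nat_lit 4) (nat_lit 247) (nat_lit 221) (nat_lit 132)) (XT.lf (nat_lit 0) (nat_lit 154861977137) (nat_lit 76) (nat_lit 81808193731) (nat_lit 152) (nat_lit 949208354694) (nat_lit 4) (nat_lit 5) (nat_lit 5) (nat_lit 5) (nat_lit 6) (nat_lit 4) (nat_lit 248) (nat_lit 221) (nat_lit 131))) (XT.nd (nat_lit 78) (nat_lit 0) (nat_lit 0) (XT.lf (nat_lit 0) (nat_lit 415886521524) (nat_lit 152) (nat_lit 828850688003) (nat_lit 0) (nat_lit 103467882740) (nat_lit 4) (nat_lit 5) (nat_lit 6) (nat_lit 4) (nat_lit 4) (nat_lit 4) (nat_lit 249) (nat_lit 221) (nat_lit 130)) (XT.nd (nat_lit 78) (nat_lit 0) (nat_lit 0) (XT.lf (nat_lit 0) (nat_lit 624247775154) (nat_lit 152) (nat_lit 598622858756) (nat_lit 0) (nat_lit 311829014295) (nat_lit 4) (nat_lit 5) (nat_lit 6) (nat_lit 4) (nat_lit 4) (nat_lit 4) (nat_lit 250) (nat_lit 221) (nat_lit 129)) (XT.lf (nat_lit 0) (nat_lit 863863075957) (nat_lit 152) (nat_lit 333861114129)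 (nat_lit 0) (nat_lit 551444208945) (nat_lit 4) (nat_lit 5) (nat_lit 6) (nat_lit 4) (nat_lit 4) (nat_lit 4) (nat_lit 251) (nat_lit 221) (nat_lit 128))))))) (XT.nd (nat_lit 29172) (nat_lit 0) (nat_lit 1064) (XT.nd (nat_lit 390) (nat_lit 0) (nat_lit 0) (XT.nd (nat_lit 156) (nat_lit 0) (nat_lit 0) (XT.nd (nat_lit 78) (nat_lit 76) (nat_lit 0) (XT.lf (nat_lit 0) (nat_lit 1139420549381) (nat_lit 152) (nat_lit 29385333032) (nat_lit 0) (nat_lit 827001590063) (nat_lit 4) (nat_lit 5) (nat_lit 6) (nat_lit 4) (nat_lit 4) (nat_lit 4) (nat_lit 252) (nat_lit 221) (nat_lit 127)) (XT.lf (nat_lit 0) (nat_lit 337652357819) (nat_lit 76) (nat_lit 1126779726805) (nat_lit 76) (nat_lit 814360687220) (nat_lit 3) (nat_lit 4) (nat_lit 4) (nat_lit 5) (nat_lit 4) (nat_lit 4) (nat_lit 253) (nat_lit 221) (nat_lit 126))) (XT.nd (nat_lit 78) (nat_lit 0) (nat_lit 0) (XT.lf (nat_lit 0) (nat_lit 761525009527) (nat_lit 76)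 (nat_lit 1077525766044) (nat_lit 76) (nat_lit 765106656662) (nat_lit 3) (nat_lit 4) (nat_lit 4) (nat_lit 5) (nat_lit 4) (nat_lit 4) (nat_lit 254) (nat_lit 221) (nat_lit 125)) (XT.nd (nat_lit 78) (nat_lit 0) (nat_lit 0) (XT.lf (nat_lit 0) (nat_lit 1248978403105) (nat_lit 76) (nat_lit 1020883782762) (nat_lit 76) (nat_lit 708464612686) (nat_lit 3) (nat_lit 4) (nat_lit 4) (nat_lit 5) (nat_lit 4) (nat_lit 4) (nat_lit 255) (nat_lit 221) (nat_lit 124)) (XT.lf (nat_lit 0) (nat_lit 1809549670165) (nat_lit 76) (nat_lit 955745564241) (nat_lit 76) (nat_lit 643326341390) (nat_lit 3) (nat_lit 4) (nat_lit 4) (nat_lit 5) (nat_lit 4) (nat_lit 4) (nat_lit 256) (nat_lit 221) (nat_lit 123))))) (XT.nd (nat_lit 28548) (nat_lit 0) (nat_lit 2508) (XT.nd (nat_lit 78) (nat_lit 0) (nat_lit 0) (XT.lf (nat_lit 0) (nat_lit 2454206509413) (nat_lit 76) (nat_lit 880836667077) (nat_lit 76) (nat_lit 568417398333) (nat_lit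 3) (nat_lit 4) (nat_lit 4) (nat_lit 5) (nat_lit 4) (nat_lit 4) (nat_lit 257) (nat_lit 221) (nat_lit 122)) (XT.lf (nat_lit 0) (nat_lit 3195561772049) (nat_lit 76) (nat_lit 794691482412) (nat_lit 76) (nat_lit 482272173761) (nat_lit 3) (nat_lit 4) (nat_lit 4) (nat_lit 5) (nat_lit 4) (nat_lit 4) (nat_lit 258) (nat_lit 221) (nat_lit 121))) (XT.nd (nat_lit 78) (nat_lit 0) (nat_lit 76) (XT.lf (nat_lit 0) (nat_lit 16324610290) (nat_lit 532) (nat_lit 14040859385) (nat_lit 532) (nat_lit 14040859385) (nat_lit 36) (nat_lit 3) (nat_lit 43) (nat_lit 3) (nat_lit 43) (nat_lit 5) (nat_lit 222) (nat_lit 222) (nat_lit 156)) (XT.nd (nat_lit 78) (nat_lit 0) (nat_lit 0) (XT.lf (nat_lit 0) (nat_lit 36422984539) (nat_lit 456) (nat_lit 50233123638) (nat_lit 532) (nat_lit 8711423015) (nat_lit 37) (nat_lit 5) (nat_lit 43) (nat_lit 5) (nat_lit 44) (nat_lit 5) (nat_lit 223) (nat_lit 222) (nat_lit 155)) (XT.lf (nat_lit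 76) (nat_lit 27885736319) (nat_lit 0) (nat_lit 16063822944) (nat_lit 532) (nat_lit 58701148817) (nat_lit 38) (nat_lit 5) (nat_lit 37) (nat_lit 5) (nat_lit 44) (nat_lit 5) (nat_lit 224) (nat_lit 222) (nat_lit 154)))))) (XT.nd (nat_lit 390) (nat_lit 760) (nat_lit 0) (XT.nd (nat_lit 156) (nat_lit 836) (nat_lit 0) (XT.nd (nat_lit 78) (nat_lit 0) (nat_lit 76) (XT.lf (nat_lit 76) (nat_lit 8683717790) (nat_lit 0) (nat_lit 47194701105) (nat_lit 532) (nat_lit 54886089625) (nat_lit 39) (nat_lit 5) (nat_lit 38) (nat_lit 5) (nat_lit 45) (nat_lit 5) (nat_lit 225) (nat_lit 222) (nat_lit 153)) (XT.lf (nat_lit 0) (nat_lit 73082407225) (nat_lit 456) (nat_lit 12056605876) (nat_lit 76) (nat_lit 34677511436) (nat_lit 39) (nat_lit 5) (nat_lit 45) (nat_lit 5) (nat_lit 40) (nat_lit 5) (nat_lit 226) (nat_lit 222) (nat_lit 152))) (XT.nd (nat_lit 78) (nat_lit 456) (nat_lit 0) (XT.lf (nat_lit 0) (nat_lit 94912364886)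 (nat_lit 456) (nat_lit 1540959525) (nat_lit 532) (nat_lit 33486120351) (nat_lit 33) (nat_lit 5) (nat_lit 39) (nat_lit 5) (nat_lit 40) (nat_lit 5) (nat_lit 227) (nat_lit 222) (nat_lit 151)) (XT.nd (nat_lit 78) (nat_lit 228) (nat_lit 0) (XT.lf (nat_lit 0) (nat_lit 78758250490) (nat_lit 228) (nat_lit 49099530785) (nat_lit 304) (nat_lit 13360796754) (nat_lit 30) (nat_lit 5) (nat_lit 33) (nat_lit 5) (nat_lit 34) (nat_lit 5) (nat_lit 228) (nat_lit 222) (nat_lit 150)) (XT.lf (nat_lit 0) (nat_lit 12999136536) (nat_lit 228) (nat_lit 94797187172) (nat_lit 76) (nat_lit 46078023201) (nat_lit 27) (nat_lit 5) (nat_lit 30) (nat_lit 5) (nat_lit 28) (nat_lit 5) (nat_lit 229) (nat_lit 222) (nat_lit 149))))) (XT.nd (nat_lit 156) (nat_lit 380) (nat_lit 0) (XT.nd (nat_lit 78) (nat_lit 152) (nat_lit 0) (XT.lf (nat_lit 0) (nat_lit 34283562757) (nat_lit 228) (nat_lit 12307900146) (nat_lit 304) (nat_lit 121483699643)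 (nat_lit 24) (nat_lit 5) (nat_lit 27) (nat_lit 5) (nat_lit 28) (nat_lit 5) (nat_lit 230) (nat_lit 222) (nat_lit 148)) (XT.lf (nat_lit 0) (nat_lit 1961885862) (nat_lit 152) (nat_lit 88483453873) (nat_lit 228) (nat_lit 93542949042) (nat_lit 22) (nat_lit 5) (nat_lit 24) (nat_lit 5) (nat_lit 25) (nat_lit 5) (nat_lit 231) (nat_lit 222) (nat_lit 147))) (XT.nd (nat_lit 78) (nat_lit 380) (nat_lit 0) (XT.lf (nat_lit 0) (nat_lit 145601594488) (nat_lit 228) (nat_lit 36627719682) (nat_lit 76) (nat_lit 19681129859) (nat_lit 22) (nat_lit 5) (nat_lit 25) (nat_lit 5) (nat_lit 23) (nat_lit 5) (nat_lit 232) (nat_lit 222) (nat_lit 146)) (XT.nd (nat_lit 78) (nat_lit 228) (nat_lit 0) (XT.lf (nat_lit 0) (nat_lit 134879620641) (nat_lit 152) (nat_lit 79841929233) (nat_lit 228) (nat_lit 7344155006) (nat_lit 20) (nat_lit 5) (nat_lit 22) (nat_lit 5) (nat_lit 23) (nat_lit 5) (nat_lit 233) (nat_lit 222) (nat_lit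 145)) (XT.lf (nat_lit 0) (nat_lit 50864514925) (nat_lit 228) (nat_lit 153314941869) (nat_lit 76) (nat_lit 40622694619) (nat_lit 17) (nat_lit 5) (nat_lit 20) (nat_lit 5) (nat_lit 18) (nat_lit 5) (nat_lit 234) (nat_lit 222) (nat_lit 144))))))))
noncomputable def xc51 : XT := (XT.nd (nat_lit 1560) (nat_lit 0) (nat_lit 0) (XT.nd (nat_lit 780) (nat_lit 304) (nat_lit 0) (XT.nd (nat_lit 390) (nat_lit 304) (nat_lit 0) (XT.nd (nat_lit 156) (nat_lit 304) (nat_lit 0) (XT.nd (nat_lit 78) (nat_lit 0) (nat_lit 0) (XT.lf (nat_lit 0) (nat_lit 30544877149) (nat_lit 152) (nat_lit 92383512114) (nat_lit 228) (nat_lit 147560716608) (nat_lit 15) (nat_lit 5) (nat_lit 17) (nat_lit 5) (nat_lit 18) (nat_lit 5) (nat_lit 235) (nat_lit 222) (nat_lit 143)) (XT.lf (nat_lit 0) (nat_lit 211250917083) (nat_lit 228) (nat_lit 49391169608) (nat_lit 76) (nat_lit 38951093032) (nat_lit 15) (nat_lit 5) (nat_lit 18) (nat_lit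 5) (nat_lit 16) (nat_lit 4) (nat_lit 236) (nat_lit 222) (nat_lit 142))) (XT.nd (nat_lit 78) (nat_lit 228) (nat_lit 0) (XT.lf (nat_lit 0) (nat_lit 175992750451) (nat_lit 76) (nat_lit 143616247709) (nat_lit 152) (nat_lit 12910894314) (nat_lit 14) (nat_lit 5) (nat_lit 15) (nat_lit 5) (nat_lit 16) (nat_lit 4) (nat_lit 237) (nat_lit 222) (nat_lit 141)) (XT.nd (nat_lit 78) (nat_lit 0) (nat_lit 0) (XT.lf (nat_lit 0) (nat_lit 69570973743) (nat_lit 152) (nat_lit 3718658552) (nat_lit 228) (nat_lit 296702083205) (nat_lit 11) (nat_lit 5) (nat_lit 13) (nat_lit 5) (nat_lit 14) (nat_lit 5) (nat_lit 238) (nat_lit 222) (nat_lit 140)) (XT.lf (nat_lit 0) (nat_lit 180132303903) (nat_lit 228) (nat_lit 77913150749) (nat_lit 76) (nat_lit 154333907918) (nat_lit 11) (nat_lit 5) (nat_lit 14) (nat_lit 5) (nat_lit 12) (nat_lit 4) (nat_lit 239) (nat_lit 222) (nat_lit 139))))) (XT.nd (nat_lit 156) (nat_lit 228) (nat_lit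 0) (XT.nd (nat_lit 78) (nat_lit 0) (nat_lit 0) (XT.lf (nat_lit 0) (nat_lit 187233210339) (nat_lit 76) (nat_lit 120373565712) (nat_lit 152) (nat_lit 153149949732) (nat_lit 10) (nat_lit 5) (nat_lit 11) (nat_lit 5) (nat_lit 12) (nat_lit 4) (nat_lit 240) (nat_lit 222) (nat_lit 138)) (XT.lf (nat_lit 0) (nat_lit 457441992250) (nat_lit 152) (nat_lit 20311760953) (nat_lit 0) (nat_lit 38377775340) (nat_lit 10) (nat_lit 5) (nat_lit 12) (nat_lit 4) (nat_lit 10) (nat_lit 4) (nat_lit 241) (nat_lit 222) (nat_lit 137))) (XT.nd (nat_lit 78) (nat_lit 76) (nat_lit 0) (XT.lf (nat_lit 0) (nat_lit 57806512019) (nat_lit 152) (nat_lit 298827050666) (nat_lit 76) (nat_lit 222253723570) (nat_lit 8) (nat_lit 5) (nat_lit 10) (nat_lit 5) (nat_lit 9) (nat_lit 4) (nat_lit 242) (nat_lit 222) (nat_lit 136)) (XT.nd (nat_lit 78) (nat_lit 76) (nat_lit 0) (XT.lf (nat_lit 0) (nat_lit 189007103031) (nat_lit 152) (nat_lit 25930150715)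 (nat_lit 76) (nat_lit 435940785368) (nat_lit 8) (nat_lit 5) (nat_lit 10) (nat_lit 5) (nat_lit 9) (nat_lit 4) (nat_lit 243) (nat_lit 222) (nat_lit 135)) (XT.lf (nat_lit 0) (nat_lit 303061166574) (nat_lit 76) (nat_lit 44114976689) (nat_lit 152) (nat_lit 385908193357) (nat_lit 7) (nat_lit 5) (nat_lit 8) (nat_lit 5) (nat_lit 9) (nat_lit 4) (nat_lit 244) (nat_lit 222) (nat_lit 134)))))) (XT.nd (nat_lit 390) (nat_lit 76) (nat_lit 0) (XT.nd (nat_lit 156) (nat_lit 152) (nat_lit 0) (XT.nd (nat_lit 78) (nat_lit 76) (nat_lit 0) (XT.lf (nat_lit 0) (nat_lit 533508384645) (nat_lit 152) (nat_lit 148273356840) (nat_lit 0) (nat_lit 145484810150) (nat_lit 7) (nat_lit 5) (nat_lit 9) (nat_lit 4) (nat_lit 7) (nat_lit 4) (nat_lit 245) (nat_lit 222) (nat_lit 133)) (XT.lf (nat_lit 0) (nat_lit 183708265275) (nat_lit 76) (nat_lit 569720281163) (nat_lit 76) (nat_lit 181696506153) (nat_lit 6) (nat_lit 4) (nat_lit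 7) (nat_lit 5) (nat_lit 7) (nat_lit 4) (nat_lit 246) (nat_lit 222) (nat_lit 132))) (XT.nd (nat_lit 78) (nat_lit 152) (nat_lit 0) (XT.lf (nat_lit 0) (nat_lit 574465763857) (nat_lit 76) (nat_lit 436187592339) (nat_lit 76) (nat_lit 48163642969) (nat_lit 6) (nat_lit 4) (nat_lit 7) (nat_lit 5) (nat_lit 7) (nat_lit 4) (nat_lit 247) (nat_lit 222) (nat_lit 131)) (XT.nd (nat_lit 78) (nat_lit 76) (nat_lit 0) (XT.lf (nat_lit 0) (nat_lit 100126482586) (nat_lit 152) (nat_lit 179761017207) (nat_lit 76) (nat_lit 920972464045) (nat_lit 5) (nat_lit 5) (nat_lit 7) (nat_lit 5) (nat_lit 6) (nat_lit 4) (nat_lit 248) (nat_lit 222) (nat_lit 130)) (XT.lf (nat_lit 0) (nat_lit 178094374642) (nat_lit 76) (nat_lit 94078032795) (nat_lit 152) (nat_lit 1091587757290) (nat_lit 4) (nat_lit 5) (nat_lit 5) (nat_lit 5) (nat_lit 6) (nat_lit 4) (nat_lit 249) (nat_lit 222) (nat_lit 129))))) (XT.nd (nat_lit 156) (nat_lit 76)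 (nat_lit 0) (XT.nd (nat_lit 78) (nat_lit 0) (nat_lit 0) (XT.lf (nat_lit 0) (nat_lit 478271016595) (nat_lit 152) (nat_lit 953175502355) (nat_lit 0) (nat_lit 118989213379) (nat_lit 4) (nat_lit 5) (nat_lit 6) (nat_lit 4) (nat_lit 4) (nat_lit 4) (nat_lit 250) (nat_lit 222) (nat_lit 128)) (XT.lf (nat_lit 0) (nat_lit 717886260421) (nat_lit 152) (nat_lit 688413862484) (nat_lit 0) (nat_lit 358604364898) (nat_lit 4) (nat_lit 5) (nat_lit 6) (nat_lit 4) (nat_lit 4) (nat_lit 4) (nat_lit 251) (nat_lit 222) (nat_lit 127))) (XT.nd (nat_lit 78) (nat_lit 76) (nat_lit 0) (XT.lf (nat_lit 0) (nat_lit 993443684301) (nat_lit 152) (nat_lit 383938172479) (nat_lit 0) (nat_lit 634161708512) (nat_lit 4) (nat_lit 5) (nat_lit 6) (nat_lit 4) (nat_lit 4) (nat_lit 4) (nat_lit 252) (nat_lit 222) (nat_lit 126)) (XT.nd (nat_lit 78) (nat_lit 76) (nat_lit 0) (XT.lf (nat_lit 0) (nat_lit 1310334629137) (nat_lit 152) (nat_lit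 33791299275) (nat_lit 0) (nat_lit 951052583550) (nat_lit 4) (nat_lit 5) (nat_lit 6) (nat_lit 4) (nat_lit 4) (nat_lit 4) (nat_lit 253) (nat_lit 222) (nat_lit 125)) (XT.lf (nat_lit 0) (nat_lit 388301889990) (nat_lit 76) (nat_lit 1295795914956) (nat_lit 76) (nat_lit 936513808676) (nat_lit 3) (nat_lit 4) (nat_lit 4) (nat_lit 5) (nat_lit 4) (nat_lit 4) (nat_lit 254) (nat_lit 222) (nat_lit 124))))))) (XT.nd (nat_lit 29250) (nat_lit 0) (nat_lit 608) (XT.nd (nat_lit 28860) (nat_lit 0) (nat_lit 2280) (XT.nd (nat_lit 156) (nat_lit 0) (nat_lit 0) (XT.nd (nat_lit 78) (nat_lit 0) (nat_lit 0) (XT.lf (nat_lit 0) (nat_lit 875755220520) (nat_lit 76) (nat_lit 1239153960629) (nat_lit 76) (nat_lit 879871801573) (nat_lit 3) (nat_lit 4) (nat_lit 4) (nat_lit 5) (nat_lit 4) (nat_lit 4) (nat_lit 255) (nat_lit 222) (nat_lit 123)) (XT.lf (nat_lit 0) (nat_lit 1436326432756) (nat_lit 76) (nat_lit 1174015767287) (nat_lit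 76) (nat_lit 814733562338) (nat_lit 3) (nat_lit 4) (nat_lit 4) (nat_lit 5) (nat_lit 4) (nat_lit 4) (nat_lit 256) (nat_lit 222) (nat_lit 122))) (XT.nd (nat_lit 78) (nat_lit 0) (nat_lit 0) (XT.lf (nat_lit 0) (nat_lit 2080983224330) (nat_lit 76) (nat_lit 1099106892018) (nat_lit 76) (nat_lit 739824647162) (nat_lit 3) (nat_lit 4) (nat_lit 4) (nat_lit 5) (nat_lit 4) (nat_lit 4) (nat_lit 257) (nat_lit 222) (nat_lit 121)) (XT.nd (nat_lit 28548) (nat_lit 0) (nat_lit 2508) (XT.lf (nat_lit 0) (nat_lit 2822338445511) (nat_lit 76) (nat_lit 1012961726391) (nat_lit 76) (nat_lit 653679446835) (nat_lit 3) (nat_lit 4) (nat_lit 4) (nat_lit 5) (nat_lit 4) (nat_lit 4) (nat_lit 258) (nat_lit 222) (nat_lit 120)) (XT.lf (nat_lit 0) (nat_lit 18786068460) (nat_lit 532) (nat_lit 16140060526) (nat_lit 532) (nat_lit 16140060526) (nat_lit 36) (nat_lit 3) (nat_lit 43) (nat_lit 3) (nat_lit 43) (nat_lit 5) (nat_lit 223)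 (nat_lit 223) (nat_lit 154))))) (XT.nd (nat_lit 156) (nat_lit 304) (nat_lit 0) (XT.nd (nat_lit 78) (nat_lit 0) (nat_lit 0) (XT.lf (nat_lit 0) (nat_lit 41908703774) (nat_lit 456) (nat_lit 57753255002) (nat_lit 532) (nat_lit 10008802843) (nat_lit 37) (nat_lit 5) (nat_lit 43) (nat_lit 5) (nat_lit 44) (nat_lit 5) (nat_lit 224) (nat_lit 223) (nat_lit 153)) (XT.lf (nat_lit 76) (nat_lit 32082178055) (nat_lit 0) (nat_lit 18479508296) (nat_lit 532) (nat_lit 67484950287) (nat_lit 38) (nat_lit 5) (nat_lit 37) (nat_lit 5) (nat_lit 44) (nat_lit 5) (nat_lit 225) (nat_lit 223) (nat_lit 152))) (XT.nd (nat_lit 78) (nat_lit 380) (nat_lit 0) (XT.lf (nat_lit 76) (nat_lit 10000377356) (nat_lit 0) (nat_lit 54277140226) (nat_lit 532) (nat_lit 63100191480) (nat_lit 39) (nat_lit 5) (nat_lit 38) (nat_lit 5) (nat_lit 45) (nat_lit 5) (nat_lit 226) (nat_lit 223) (nat_lit 151)) (XT.nd (nat_lit 78) (nat_lit 456) (nat_lit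 0) (XT.lf (nat_lit 0) (nat_lit 84059775332) (nat_lit 456) (nat_lit 13851483357) (nat_lit 76) (nat_lit 39876466691) (nat_lit 39) (nat_lit 5) (nat_lit 45) (nat_lit 5) (nat_lit 40) (nat_lit 5) (nat_lit 227) (nat_lit 223) (nat_lit 150)) (XT.lf (nat_lit 0) (nat_lit 109161680712) (nat_lit 456) (nat_lit 1772991635) (nat_lit 532) (nat_lit 38494553990) (nat_lit 33) (nat_lit 5) (nat_lit 39) (nat_lit 5) (nat_lit 40) (nat_lit 5) (nat_lit 228) (nat_lit 223) (nat_lit 149)))))) (XT.nd (nat_lit 390) (nat_lit 836) (nat_lit 0) (XT.nd (nat_lit 156) (nat_lit 380) (nat_lit 0) (XT.nd (nat_lit 78) (nat_lit 228) (nat_lit 0) (XT.lf (nat_lit 0) (nat_lit 90584452995) (nat_lit 228) (nat_lit 56463884743) (nat_lit 304) (nat_lit 15352017421) (nat_lit 30) (nat_lit 5) (nat_lit 33) (nat_lit 5) (nat_lit 34) (nat_lit 5) (nat_lit 229) (nat_lit 223) (nat_lit 148)) (XT.lf (nat_lit 0) (nat_lit 14959978691) (nat_lit 228) (nat_lit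 109003819170) (nat_lit 76) (nat_lit 52990776305) (nat_lit 27) (nat_lit 5) (nat_lit 30) (nat_lit 5) (nat_lit 28) (nat_lit 5) (nat_lit 230) (nat_lit 223) (nat_lit 147))) (XT.nd (nat_lit 78) (nat_lit 152) (nat_lit 0) (XT.lf (nat_lit 0) (nat_lit 39437947428) (nat_lit 228) (nat_lit 14152060496) (nat_lit 304) (nat_lit 139695602047) (nat_lit 24) (nat_lit 5) (nat_lit 27) (nat_lit 5) (nat_lit 28) (nat_lit 5) (nat_lit 231) (nat_lit 223) (nat_lit 146)) (XT.nd (nat_lit 78) (nat_lit 0) (nat_lit 0) (XT.lf (nat_lit 0) (nat_lit 2267728320) (nat_lit 152) (nat_lit 101753276711) (nat_lit 228) (nat_lit 107564782341) (nat_lit 22) (nat_lit 5) (nat_lit 24) (nat_lit 5) (nat_lit 25) (nat_lit 5) (nat_lit 232) (nat_lit 223) (nat_lit 145)) (XT.lf (nat_lit 0) (nat_lit 167449598147) (nat_lit 228) (nat_lit 42111234608) (nat_lit 76) (nat_lit 22635525786) (nat_lit 22) (nat_lit 5) (nat_lit 25) (nat_lit 5) (nat_lit 23)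 (nat_lit 5) (nat_lit 233) (nat_lit 223) (nat_lit 144))))) (XT.nd (nat_lit 234) (nat_lit 304) (nat_lit 0) (XT.nd (nat_lit 78) (nat_lit 380) (nat_lit 0) (XT.lf (nat_lit 0) (nat_lit 155121305884) (nat_lit 152) (nat_lit 91815462496) (nat_lit 228) (nat_lit 8438206451) (nat_lit 20) (nat_lit 5) (nat_lit 22) (nat_lit 5) (nat_lit 23) (nat_lit 5) (nat_lit 234) (nat_lit 223) (nat_lit 143)) (XT.nd (nat_lit 78) (nat_lit 152) (nat_lit 0) (XT.lf (nat_lit 0) (nat_lit 58500737883) (nat_lit 228) (nat_lit 176302423760) (nat_lit 76) (nat_lit 46718767168) (nat_lit 17) (nat_lit 5) (nat_lit 20) (nat_lit 5) (nat_lit 18) (nat_lit 5) (nat_lit 235) (nat_lit 223) (nat_lit 142)) (XT.lf (nat_lit 0) (nat_lit 35135542027) (nat_lit 152) (nat_lit 106238012401) (nat_lit 228) (nat_lit 169688425949) (nat_lit 15) (nat_lit 5) (nat_lit 17) (nat_lit 5) (nat_lit 18) (nat_lit 5) (nat_lit 236) (nat_lit 223) (nat_lit 141)))) (XT.nd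 (nat_lit 78) (nat_lit 304) (nat_lit 0) (XT.lf (nat_lit 0) (nat_lit 242943754266) (nat_lit 228) (nat_lit 56791712968) (nat_lit 76) (nat_lit 44796257101) (nat_lit 15) (nat_lit 5) (nat_lit 18) (nat_lit 5) (nat_lit 16) (nat_lit 4) (nat_lit 237) (nat_lit 223) (nat_lit 140)) (XT.nd (nat_lit 78) (nat_lit 228) (nat_lit 0) (XT.lf (nat_lit 0) (nat_lit 202399106759) (nat_lit 76) (nat_lit 165155941556) (nat_lit 152) (nat_lit 14842437755) (nat_lit 14) (nat_lit 5) (nat_lit 15) (nat_lit 5) (nat_lit 16) (nat_lit 4) (nat_lit 238) (nat_lit 223) (nat_lit 139)) (XT.lf (nat_lit 0) (nat_lit 80013678641) (nat_lit 152) (nat_lit 4273773522) (nat_lit 228) (nat_lit 341202659193) (nat_lit 11) (nat_lit 5) (nat_lit 13) (nat_lit 5) (nat_lit 14) (nat_lit 5) (nat_lit 239) (nat_lit 223) (nat_lit 138))))))))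
noncomputable def xc52 : XT := (XT.nd (nat_lit 30108) (nat_lit 0) (nat_lit 380) (XT.nd (nat_lit 780) (nat_lit 152) (nat_lit 0) (XT.nd (nat_lit 390) (nat_lit 228) (nat_lit 0) (XT.nd (nat_lit 156) (nat_lit 152) (nat_lit 0) (XT.nd (nat_lit 78) (nat_lit 76) (nat_lit 0) (XT.lf (nat_lit 0) (nat_lit 207156009984) (nat_lit 228) (nat_lit 89593727050) (nat_lit 76) (nat_lit 177486211112) (nat_lit 11) (nat_lit 5) (nat_lit 14) (nat_lit 5) (nat_lit 12) (nat_lit 4) (nat_lit 240) (nat_lit 223) (nat_lit 137)) (XT.lf (nat_lit 0) (nat_lit 215324046786) (nat_lit 76) (nat_lit 138427243436) (nat_lit 152) (nat_lit 176118655937) (nat_lit 10) (nat_lit 5) (nat_lit 11) (nat_lit 5) (nat_lit 12) (nat_lit 4) (nat_lit 241) (nat_lit 223) (nat_lit 136))) (XT.nd (nat_lit 78) (nat_lit 152) (nat_lit 0) (XT.lf (nat_lit 0) (nat_lit 526061381916) (nat_lit 152) (nat_lit 23353232316) (nat_lit 0) (nat_lit 44136388788) (nat_lit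 10) (nat_lit 5) (nat_lit 12) (nat_lit 4) (nat_lit 10) (nat_lit 4) (nat_lit 242) (nat_lit 223) (nat_lit 135)) (XT.nd (nat_lit 78) (nat_lit 0) (nat_lit 0) (XT.lf (nat_lit 0) (nat_lit 66480372080) (nat_lit 152) (nat_lit 343646105596) (nat_lit 76) (nat_lit 255593664787) (nat_lit 8) (nat_lit 5) (nat_lit 10) (nat_lit 5) (nat_lit 9) (nat_lit 4) (nat_lit 243) (nat_lit 223) (nat_lit 134)) (XT.lf (nat_lit 0) (nat_lit 217360675667) (nat_lit 152) (nat_lit 29815323174) (nat_lit 76) (nat_lit 501333540289) (nat_lit 8) (nat_lit 5) (nat_lit 10) (nat_lit 5) (nat_lit 9) (nat_lit 4) (nat_lit 244) (nat_lit 223) (nat_lit 133))))) (XT.nd (nat_lit 156) (nat_lit 152) (nat_lit 0) (XT.nd (nat_lit 78) (nat_lit 0) (nat_lit 0) (XT.lf (nat_lit 0) (nat_lit 348524323490) (nat_lit 76) (nat_lit 50730517186) (nat_lit 152) (nat_lit 443791959775) (nat_lit 7) (nat_lit 5) (nat_lit 8) (nat_lit 5) (nat_lit 9) (nat_lit 4) (nat_lit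 245) (nat_lit 223) (nat_lit 132)) (XT.lf (nat_lit 0) (nat_lit 613536657083) (nat_lit 152) (nat_lit 170510771180) (nat_lit 0) (nat_lit 167308940947) (nat_lit 7) (nat_lit 5) (nat_lit 9) (nat_lit 4) (nat_lit 7) (nat_lit 4) (nat_lit 246) (nat_lit 223) (nat_lit 131))) (XT.nd (nat_lit 78) (nat_lit 76) (nat_lit 0) (XT.lf (nat_lit 0) (nat_lit 211267790445) (nat_lit 76) (nat_lit 655176868920) (nat_lit 76) (nat_lit 208949001167) (nat_lit 6) (nat_lit 4) (nat_lit 7) (nat_lit 5) (nat_lit 7) (nat_lit 4) (nat_lit 247) (nat_lit 223) (nat_lit 130)) (XT.nd (nat_lit 78) (nat_lit 76) (nat_lit 0) (XT.lf (nat_lit 0) (nat_lit 660638485287) (nat_lit 76) (nat_lit 501614466479) (nat_lit 76) (nat_lit 55386466884) (nat_lit 6) (nat_lit 4) (nat_lit 7) (nat_lit 5) (nat_lit 7) (nat_lit 4) (nat_lit 248) (nat_lit 223) (nat_lit 129)) (XT.lf (nat_lit 0) (nat_lit 115146877898) (nat_lit 152) (nat_lit 206722608211) (nat_lit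 76) (nat_lit 1059119356041) (nat_lit 5) (nat_lit 5) (nat_lit 7) (nat_lit 5) (nat_lit 6) (nat_lit 4) (nat_lit 249) (nat_lit 223) (nat_lit 128)))))) (XT.nd (nat_lit 390) (nat_lit 76) (nat_lit 0) (XT.nd (nat_lit 156) (nat_lit 0) (nat_lit 0) (XT.nd (nat_lit 78) (nat_lit 0) (nat_lit 0) (XT.lf (nat_lit 0) (nat_lit 204810875591) (nat_lit 76) (nat_lit 108188686678) (nat_lit 152) (nat_lit 1255324521557) (nat_lit 4) (nat_lit 5) (nat_lit 5) (nat_lit 5) (nat_lit 6) (nat_lit 4) (nat_lit 250) (nat_lit 223) (nat_lit 127)) (XT.lf (nat_lit 0) (nat_lit 550012816035) (nat_lit 152) (nat_lit 1096149718939) (nat_lit 0) (nat_lit 136838463611) (nat_lit 4) (nat_lit 5) (nat_lit 6) (nat_lit 4) (nat_lit 4) (nat_lit 4) (nat_lit 251) (nat_lit 223) (nat_lit 126))) (XT.nd (nat_lit 78) (nat_lit 0) (nat_lit 0) (XT.lf (nat_lit 0) (nat_lit 825570196833) (nat_lit 152) (nat_lit 791674108144) (nat_lit 0) (nat_lit 412395774612)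 (nat_lit 4) (nat_lit 5) (nat_lit 6) (nat_lit 4) (nat_lit 4) (nat_lit 4) (nat_lit 252) (nat_lit 223) (nat_lit 125)) (XT.nd (nat_lit 78) (nat_lit 0) (nat_lit 0) (XT.lf (nat_lit 0) (nat_lit 1142461104206) (nat_lit 152) (nat_lit 441527303818) (nat_lit 0) (nat_lit 729286621292) (nat_lit 4) (nat_lit 5) (nat_lit 6) (nat_lit 4) (nat_lit 4) (nat_lit 4) (nat_lit 253) (nat_lit 223) (nat_lit 124)) (XT.lf (nat_lit 0) (nat_lit 1506885577647) (nat_lit 152) (nat_lit 38858607616) (nat_lit 0) (nat_lit 1093711041955) (nat_lit 4) (nat_lit 5) (nat_lit 6) (nat_lit 4) (nat_lit 4) (nat_lit 4) (nat_lit 254) (nat_lit 223) (nat_lit 123))))) (XT.nd (nat_lit 156) (nat_lit 0) (nat_lit 0) (XT.nd (nat_lit 78) (nat_lit 0) (nat_lit 0) (XT.lf (nat_lit 0) (nat_lit 446548442675) (nat_lit 76) (nat_lit 1490164719310) (nat_lit 76) (nat_lit 1076990137726) (nat_lit 3) (nat_lit 4) (nat_lit 4) (nat_lit 5) (nat_lit 4) (nat_lit 4)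 (nat_lit 255) (nat_lit 223) (nat_lit 122)) (XT.lf (nat_lit 0) (nat_lit 1007119607238) (nat_lit 76) (nat_lit 1425026547863) (nat_lit 76) (nat_lit 1011851926373) (nat_lit 3) (nat_lit 4) (nat_lit 4) (nat_lit 5) (nat_lit 4) (nat_lit 4) (nat_lit 256) (nat_lit 223) (nat_lit 121))) (XT.nd (nat_lit 78) (nat_lit 0) (nat_lit 0) (XT.lf (nat_lit 0) (nat_lit 1651776357356) (nat_lit 76) (nat_lit 1350117691633) (nat_lit 76) (nat_lit 936943035441) (nat_lit 3) (nat_lit 4) (nat_lit 4) (nat_lit 5) (nat_lit 4) (nat_lit 4) (nat_lit 257) (nat_lit 223) (nat_lit 120)) (XT.nd (nat_lit 28626) (nat_lit 0) (nat_lit 2508) (XT.lf (nat_lit 0) (nat_lit 2393131542490) (nat_lit 76) (nat_lit 1263972542562) (nat_lit 76) (nat_lit 850797856195) (nat_lit 3) (nat_lit 4) (nat_lit 4) (nat_lit 5) (nat_lit 4) (nat_lit 4) (nat_lit 258) (nat_lit 223) (nat_lit 119)) (XT.lf (nat_lit 0) (nat_lit 21613632132) (nat_lit 532) (nat_lit 18555831218)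 (nat_lit 532) (nat_lit 18555831218) (nat_lit 36) (nat_lit 3) (nat_lit 43) (nat_lit 3) (nat_lit 43) (nat_lit 5) (nat_lit 224) (nat_lit 224) (nat_lit 152))))))) (XT.nd (nat_lit 780) (nat_lit 1064) (nat_lit 0) (XT.nd (nat_lit 390) (nat_lit 836) (nat_lit 0) (XT.nd (nat_lit 156) (nat_lit 304) (nat_lit 0) (XT.nd (nat_lit 78) (nat_lit 0) (nat_lit 0) (XT.lf (nat_lit 0) (nat_lit 48211849835) (nat_lit 456) (nat_lit 66405024211) (nat_lit 532) (nat_lit 11503065709) (nat_lit 37) (nat_lit 5) (nat_lit 43) (nat_lit 5) (nat_lit 44) (nat_lit 5) (nat_lit 225) (nat_lit 224) (nat_lit 151)) (XT.lf (nat_lit 76) (nat_lit 36904774169) (nat_lit 0) (nat_lit 21256056023) (nat_lit 532) (nat_lit 77591533395) (nat_lit 38) (nat_lit 5) (nat_lit 37) (nat_lit 5) (nat_lit 44) (nat_lit 5) (nat_lit 226) (nat_lit 224) (nat_lit 150))) (XT.nd (nat_lit 78) (nat_lit 380) (nat_lit 0) (XT.lf (nat_lit 76) (nat_lit 11511097021) (nat_lit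 0) (nat_lit 62421156595) (nat_lit 532) (nat_lit 72550995938) (nat_lit 39) (nat_lit 5) (nat_lit 38) (nat_lit 5) (nat_lit 45) (nat_lit 5) (nat_lit 227) (nat_lit 224) (nat_lit 149)) (XT.nd (nat_lit 78) (nat_lit 456) (nat_lit 0) (XT.lf (nat_lit 0) (nat_lit 96680089097) (nat_lit 456) (nat_lit 15918912174) (nat_lit 76) (nat_lit 45855916687) (nat_lit 39) (nat_lit 5) (nat_lit 45) (nat_lit 5) (nat_lit 40) (nat_lit 5) (nat_lit 228) (nat_lit 224) (nat_lit 148)) (XT.lf (nat_lit 0) (nat_lit 125545355196) (nat_lit 456) (nat_lit 2039611972) (nat_lit 532) (nat_lit 44257784791) (nat_lit 33) (nat_lit 5) (nat_lit 39) (nat_lit 5) (nat_lit 40) (nat_lit 5) (nat_lit 229) (nat_lit 224) (nat_lit 147))))) (XT.nd (nat_lit 156) (nat_lit 380) (nat_lit 0) (XT.nd (nat_lit 78) (nat_lit 228) (nat_lit 0) (XT.lf (nat_lit 0) (nat_lit 104181546223) (nat_lit 228) (nat_lit 64933032173) (nat_lit 304) (nat_lit 17645066654) (nat_lit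 30) (nat_lit 5) (nat_lit 33) (nat_lit 5) (nat_lit 34) (nat_lit 5) (nat_lit 230) (nat_lit 224) (nat_lit 146)) (XT.lf (nat_lit 0) (nat_lit 17212271657) (nat_lit 228) (nat_lit 125344602950) (nat_lit 76) (nat_lit 60940186417) (nat_lit 27) (nat_lit 5) (nat_lit 30) (nat_lit 5) (nat_lit 28) (nat_lit 5) (nat_lit 231) (nat_lit 224) (nat_lit 145))) (XT.nd (nat_lit 78) (nat_lit 152) (nat_lit 0) (XT.lf (nat_lit 0) (nat_lit 45362600040) (nat_lit 228) (nat_lit 16273338627) (nat_lit 304) (nat_lit 160641887502) (nat_lit 24) (nat_lit 5) (nat_lit 27) (nat_lit 5) (nat_lit 28) (nat_lit 5) (nat_lit 232) (nat_lit 224) (nat_lit 144)) (XT.nd (nat_lit 78) (nat_lit 0) (nat_lit 0) (XT.lf (nat_lit 0) (nat_lit 2616628271) (nat_lit 152) (nat_lit 117014230228) (nat_lit 228) (nat_lit 123692233863) (nat_lit 22) (nat_lit 5) (nat_lit 24) (nat_lit 5) (nat_lit 25) (nat_lit 5) (nat_lit 233) (nat_lit 224) (nat_lit 143)) (XT.lf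 (nat_lit 0) (nat_lit 192572908935) (nat_lit 228) (nat_lit 48419872143) (nat_lit 76) (nat_lit 26032538168) (nat_lit 22) (nat_lit 5) (nat_lit 25) (nat_lit 5) (nat_lit 23) (nat_lit 5) (nat_lit 234) (nat_lit 224) (nat_lit 142)))))) (XT.nd (nat_lit 390) (nat_lit 456) (nat_lit 0) (XT.nd (nat_lit 156) (nat_lit 228) (nat_lit 0) (XT.nd (nat_lit 78) (nat_lit 228) (nat_lit 0) (XT.lf (nat_lit 0) (nat_lit 178396868229) (nat_lit 152) (nat_lit 105585697846) (nat_lit 228) (nat_lit 9698212045) (nat_lit 20) (nat_lit 5) (nat_lit 22) (nat_lit 5) (nat_lit 23) (nat_lit 5) (nat_lit 235) (nat_lit 224) (nat_lit 141)) (XT.lf (nat_lit 0) (nat_lit 67280798069) (nat_lit 228) (nat_lit 202740407823) (nat_lit 76) (nat_lit 53728599903) (nat_lit 17) (nat_lit 5) (nat_lit 20) (nat_lit 5) (nat_lit 18) (nat_lit 5) (nat_lit 236) (nat_lit 224) (nat_lit 140))) (XT.nd (nat_lit 78) (nat_lit 76) (nat_lit 0) (XT.lf (nat_lit 0) (nat_lit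 40412628194) (nat_lit 152) (nat_lit 122171425769) (nat_lit 228) (nat_lit 195136851921) (nat_lit 15) (nat_lit 5) (nat_lit 17) (nat_lit 5) (nat_lit 18) (nat_lit 5) (nat_lit 237) (nat_lit 224) (nat_lit 139)) (XT.nd (nat_lit 78) (nat_lit 76) (nat_lit 0) (XT.lf (nat_lit 0) (nat_lit 279389249066) (nat_lit 228) (nat_lit 65304320892) (nat_lit 76) (nat_lit 51517586111) (nat_lit 15) (nat_lit 5) (nat_lit 18) (nat_lit 5) (nat_lit 16) (nat_lit 4) (nat_lit 238) (nat_lit 224) (nat_lit 138)) (XT.lf (nat_lit 0) (nat_lit 232764601310) (nat_lit 76) (nat_lit 189927258454) (nat_lit 152) (nat_lit 17064954113) (nat_lit 14) (nat_lit 5) (nat_lit 15) (nat_lit 5) (nat_lit 16) (nat_lit 4) (nat_lit 239) (nat_lit 224) (nat_lit 137))))) (XT.nd (nat_lit 156) (nat_lit 228) (nat_lit 0) (XT.nd (nat_lit 78) (nat_lit 0) (nat_lit 0) (XT.lf (nat_lit 0) (nat_lit 92021067932) (nat_lit 152) (nat_lit 4912810203) (nat_lit 228)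 (nat_lit 392379476604) (nat_lit 11) (nat_lit 5) (nat_lit 13) (nat_lit 5) (nat_lit 14) (nat_lit 5) (nat_lit 240) (nat_lit 224) (nat_lit 136)) (XT.lf (nat_lit 0) (nat_lit 238232330572) (nat_lit 228) (nat_lit 103027949577) (nat_lit 76) (nat_lit 204110819153) (nat_lit 11) (nat_lit 5) (nat_lit 14) (nat_lit 5) (nat_lit 12) (nat_lit 4) (nat_lit 241) (nat_lit 224) (nat_lit 135))) (XT.nd (nat_lit 78) (nat_lit 152) (nat_lit 0) (XT.lf (nat_lit 0) (nat_lit 247627080946) (nat_lit 76) (nat_lit 159189547621) (nat_lit 152) (nat_lit 202533591376) (nat_lit 10) (nat_lit 5) (nat_lit 11) (nat_lit 5) (nat_lit 12) (nat_lit 4) (nat_lit 242) (nat_lit 224) (nat_lit 134)) (XT.nd (nat_lit 78) (nat_lit 152) (nat_lit 0) (XT.lf (nat_lit 0) (nat_lit 604972926314) (nat_lit 152) (nat_lit 26852215061) (nat_lit 0) (nat_lit 50758319429) (nat_lit 10) (nat_lit 5) (nat_lit 12) (nat_lit 4) (nat_lit 10) (nat_lit 4) (nat_lit 243)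 (nat_lit 224) (nat_lit 133)) (XT.lf (nat_lit 0) (nat_lit 76454608049) (nat_lit 152) (nat_lit 395189238698) (nat_lit 76) (nat_lit 293934138084) (nat_lit 8) (nat_lit 5) (nat_lit 10) (nat_lit 5) (nat_lit 9) (nat_lit 4) (nat_lit 244) (nat_lit 224) (nat_lit 132))))))))
noncomputable def xc53 : XT := (XT.nd (nat_lit 30264) (nat_lit 0) (nat_lit 76) (XT.nd (nat_lit 780) (nat_lit 76) (nat_lit 0) (XT.nd (nat_lit 390) (nat_lit 152) (nat_lit 0) (XT.nd (nat_lit 156) (nat_lit 76) (nat_lit 0) (XT.nd (nat_lit 78) (nat_lit 76) (nat_lit 0) (XT.lf (nat_lit 0) (nat_lit 249966672805) (nat_lit 152) (nat_lit 34284332313) (nat_lit 76) (nat_lit 576534809226) (nat_lit 8) (nat_lit 5) (nat_lit 10) (nat_lit 5) (nat_lit 9) (nat_lit 4) (nat_lit 245) (nat_lit 224) (nat_lit 131)) (XT.lf (nat_lit 0) (nat_lit 400805982925) (nat_lit 76) (nat_lit 58338804777) (nat_lit 152) (nat_lit 510358891672) (nat_lit 7) (nat_lit 5) (nat_lit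 8) (nat_lit 5) (nat_lit 9) (nat_lit 4) (nat_lit 246) (nat_lit 224) (nat_lit 130))) (XT.nd (nat_lit 78) (nat_lit 76) (nat_lit 0) (XT.lf (nat_lit 0) (nat_lit 705568679079) (nat_lit 152) (nat_lit 196084672917) (nat_lit 0) (nat_lit 192406347703) (nat_lit 7) (nat_lit 5) (nat_lit 9) (nat_lit 4) (nat_lit 7) (nat_lit 4) (nat_lit 247) (nat_lit 224) (nat_lit 129)) (XT.nd (nat_lit 78) (nat_lit 0) (nat_lit 0) (XT.lf (nat_lit 0) (nat_lit 242960443230) (nat_lit 76) (nat_lit 753452299510) (nat_lit 76) (nat_lit 240289853490) (nat_lit 6) (nat_lit 4) (nat_lit 7) (nat_lit 5) (nat_lit 7) (nat_lit 4) (nat_lit 248) (nat_lit 224) (nat_lit 128)) (XT.lf (nat_lit 0) (nat_lit 759736418270) (nat_lit 76) (nat_lit 576855680148) (nat_lit 76) (nat_lit 63693134437) (nat_lit 6) (nat_lit 4) (nat_lit 7) (nat_lit 5) (nat_lit 7) (nat_lit 4) (nat_lit 249) (nat_lit 224) (nat_lit 127))))) (XT.nd (nat_lit 156) (nat_lit 0) (nat_lit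 0) (XT.nd (nat_lit 78) (nat_lit 76) (nat_lit 0) (XT.lf (nat_lit 0) (nat_lit 132419985517) (nat_lit 152) (nat_lit 237729062522) (nat_lit 76) (nat_lit 1217988032521) (nat_lit 5) (nat_lit 5) (nat_lit 7) (nat_lit 5) (nat_lit 6) (nat_lit 4) (nat_lit 250) (nat_lit 224) (nat_lit 126)) (XT.lf (nat_lit 0) (nat_lit 235534279899) (nat_lit 76) (nat_lit 124416194946) (nat_lit 152) (nat_lit 1443622141699) (nat_lit 4) (nat_lit 5) (nat_lit 5) (nat_lit 5) (nat_lit 6) (nat_lit 4) (nat_lit 251) (nat_lit 224) (nat_lit 125))) (XT.nd (nat_lit 78) (nat_lit 0) (nat_lit 0) (XT.lf (nat_lit 0) (nat_lit 632515605700) (nat_lit 152) (nat_lit 1260570582247) (nat_lit 0) (nat_lit 157364889655) (nat_lit 4) (nat_lit 5) (nat_lit 6) (nat_lit 4) (nat_lit 4) (nat_lit 4) (nat_lit 252) (nat_lit 224) (nat_lit 124)) (XT.nd (nat_lit 78) (nat_lit 0) (nat_lit 0) (XT.lf (nat_lit 0) (nat_lit 949406480497) (nat_lit 152) (nat_lit 910423837816)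 (nat_lit 0) (nat_lit 474255711676) (nat_lit 4) (nat_lit 5) (nat_lit 6) (nat_lit 4) (nat_lit 4) (nat_lit 4) (nat_lit 253) (nat_lit 224) (nat_lit 123)) (XT.lf (nat_lit 0) (nat_lit 1313830925610) (nat_lit 152) (nat_lit 507755193695) (nat_lit 0) (nat_lit 838680110896) (nat_lit 4) (nat_lit 5) (nat_lit 6) (nat_lit 4) (nat_lit 4) (nat_lit 4) (nat_lit 254) (nat_lit 224) (nat_lit 122)))))) (XT.nd (nat_lit 29094) (nat_lit 0) (nat_lit 2052) (XT.nd (nat_lit 156) (nat_lit 0) (nat_lit 0) (XT.nd (nat_lit 78) (nat_lit 76) (nat_lit 0) (XT.lf (nat_lit 0) (nat_lit 1732918984531) (nat_lit 152) (nat_lit 44686350327) (nat_lit 0) (nat_lit 1257768129910) (nat_lit 4) (nat_lit 5) (nat_lit 6) (nat_lit 4) (nat_lit 4) (nat_lit 4) (nat_lit 255) (nat_lit 224) (nat_lit 121)) (XT.lf (nat_lit 0) (nat_lit 513531668763) (nat_lit 76) (nat_lit 1713688986459) (nat_lit 76) (nat_lit 1238538097137) (nat_lit 3) (nat_lit 4) (nat_lit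 4) (nat_lit 5) (nat_lit 4) (nat_lit 4) (nat_lit 256) (nat_lit 224) (nat_lit 120))) (XT.nd (nat_lit 28782) (nat_lit 0) (nat_lit 2508) (XT.lf (nat_lit 0) (nat_lit 1158188382833) (nat_lit 76) (nat_lit 1638780146784) (nat_lit 76) (nat_lit 1163629227287) (nat_lit 3) (nat_lit 4) (nat_lit 4) (nat_lit 5) (nat_lit 4) (nat_lit 4) (nat_lit 257) (nat_lit 224) (nat_lit 119)) (XT.nd (nat_lit 78) (nat_lit 0) (nat_lit 76) (XT.lf (nat_lit 0) (nat_lit 24862976312) (nat_lit 532) (nat_lit 21335244927) (nat_lit 532) (nat_lit 21335244927) (nat_lit 36) (nat_lit 3) (nat_lit 43) (nat_lit 3) (nat_lit 43) (nat_lit 5) (nat_lit 225) (nat_lit 225) (nat_lit 150)) (XT.lf (nat_lit 0) (nat_lit 55456361143) (nat_lit 456) (nat_lit 76357294636) (nat_lit 532) (nat_lit 13223189036) (nat_lit 37) (nat_lit 5) (nat_lit 43) (nat_lit 5) (nat_lit 44) (nat_lit 5) (nat_lit 226) (nat_lit 225) (nat_lit 149))))) (XT.nd (nat_lit 156) (nat_lit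 532) (nat_lit 0) (XT.nd (nat_lit 78) (nat_lit 0) (nat_lit 76) (XT.lf (nat_lit 76) (nat_lit 42448255440) (nat_lit 0) (nat_lit 24447958931) (nat_lit 532) (nat_lit 89218044550) (nat_lit 38) (nat_lit 5) (nat_lit 37) (nat_lit 5) (nat_lit 44) (nat_lit 5) (nat_lit 227) (nat_lit 225) (nat_lit 148)) (XT.lf (nat_lit 76) (nat_lit 13245824380) (nat_lit 0) (nat_lit 71786179108) (nat_lit 532) (nat_lit 83422889742) (nat_lit 39) (nat_lit 5) (nat_lit 38) (nat_lit 5) (nat_lit 45) (nat_lit 5) (nat_lit 228) (nat_lit 225) (nat_lit 147))) (XT.nd (nat_lit 78) (nat_lit 684) (nat_lit 0) (XT.lf (nat_lit 0) (nat_lit 111190682776) (nat_lit 456) (nat_lit 18298965494) (nat_lit 76) (nat_lit 52732776774) (nat_lit 39) (nat_lit 5) (nat_lit 45) (nat_lit 5) (nat_lit 40) (nat_lit 5) (nat_lit 229) (nat_lit 225) (nat_lit 146)) (XT.nd (nat_lit 78) (nat_lit 228) (nat_lit 0) (XT.lf (nat_lit 0) (nat_lit 144384283147) (nat_lit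 456) (nat_lit 2346061589) (nat_lit 532) (nat_lit 50888171000) (nat_lit 33) (nat_lit 5) (nat_lit 39) (nat_lit 5) (nat_lit 40) (nat_lit 5) (nat_lit 230) (nat_lit 225) (nat_lit 145)) (XT.lf (nat_lit 0) (nat_lit 119815905022) (nat_lit 228) (nat_lit 74672657864) (nat_lit 304) (nat_lit 20284451695) (nat_lit 30) (nat_lit 5) (nat_lit 33) (nat_lit 5) (nat_lit 34) (nat_lit 5) (nat_lit 231) (nat_lit 225) (nat_lit 144))))))) (XT.nd (nat_lit 780) (nat_lit 532) (nat_lit 0) (XT.nd (nat_lit 390) (nat_lit 684) (nat_lit 0) (XT.nd (nat_lit 156) (nat_lit 304) (nat_lit 0) (XT.nd (nat_lit 78) (nat_lit 228) (nat_lit 0) (XT.lf (nat_lit 0) (nat_lit 19800385496) (nat_lit 228) (nat_lit 144138891430) (nat_lit 76) (nat_lit 70081814506) (nat_lit 27) (nat_lit 5) (nat_lit 30) (nat_lit 5) (nat_lit 28) (nat_lit 5) (nat_lit 232) (nat_lit 225) (nat_lit 143)) (XT.lf (nat_lit 0) (nat_lit 52173765469) (nat_lit 228) (nat_lit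 18713181808) (nat_lit 304) (nat_lit 184732080002) (nat_lit 24) (nat_lit 5) (nat_lit 27) (nat_lit 5) (nat_lit 28) (nat_lit 5) (nat_lit 233) (nat_lit 225) (nat_lit 142))) (XT.nd (nat_lit 78) (nat_lit 152) (nat_lit 0) (XT.lf (nat_lit 0) (nat_lit 3015731739) (nat_lit 152) (nat_lit 134564823749) (nat_lit 228) (nat_lit 142240574932) (nat_lit 22) (nat_lit 5) (nat_lit 24) (nat_lit 5) (nat_lit 25) (nat_lit 5) (nat_lit 234) (nat_lit 225) (nat_lit 141)) (XT.nd (nat_lit 78) (nat_lit 152) (nat_lit 0) (XT.lf (nat_lit 0) (nat_lit 221463284645) (nat_lit 228) (nat_lit 55676767780) (nat_lit 76) (nat_lit 29938691872) (nat_lit 22) (nat_lit 5) (nat_lit 25) (nat_lit 5) (nat_lit 23) (nat_lit 5) (nat_lit 235) (nat_lit 225) (nat_lit 140)) (XT.lf (nat_lit 0) (nat_lit 205161968568) (nat_lit 152) (nat_lit 121421976702) (nat_lit 228) (nat_lit 11148614648) (nat_lit 20) (nat_lit 5) (nat_lit 22) (nat_lit 5) (nat_lit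 23) (nat_lit 5) (nat_lit 236) (nat_lit 225) (nat_lit 139))))) (XT.nd (nat_lit 156) (nat_lit 304) (nat_lit 0) (XT.nd (nat_lit 78) (nat_lit 152) (nat_lit 0) (XT.lf (nat_lit 0) (nat_lit 77376660315) (nat_lit 228) (nat_lit 233145889034) (nat_lit 76) (nat_lit 61789415530) (nat_lit 17) (nat_lit 5) (nat_lit 20) (nat_lit 5) (nat_lit 18) (nat_lit 5) (nat_lit 237) (nat_lit 225) (nat_lit 138)) (XT.lf (nat_lit 0) (nat_lit 46479630070) (nat_lit 152) (nat_lit 140495409206) (nat_lit 228) (nat_lit 224403721545) (nat_lit 15) (nat_lit 5) (nat_lit 17) (nat_lit 5) (nat_lit 18) (nat_lit 5) (nat_lit 238) (nat_lit 225) (nat_lit 137))) (XT.nd (nat_lit 78) (nat_lit 304) (nat_lit 0) (XT.lf (nat_lit 0) (nat_lit 321300609326) (nat_lit 228) (nat_lit 75095319482) (nat_lit 76) (nat_lit 59246653477) (nat_lit 15) (nat_lit 5) (nat_lit 18) (nat_lit 5) (nat_lit 16) (nat_lit 4) (nat_lit 239) (nat_lit 225) (nat_lit 136))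 (XT.nd (nat_lit 78) (nat_lit 228) (nat_lit 0) (XT.lf (nat_lit 0) (nat_lit 267683547489) (nat_lit 76) (nat_lit 218414778726) (nat_lit 152) (nat_lit 19621786602) (nat_lit 14) (nat_lit 5) (nat_lit 15) (nat_lit 5) (nat_lit 16) (nat_lit 4) (nat_lit 240) (nat_lit 225) (nat_lit 135)) (XT.lf (nat_lit 0) (nat_lit 105828264035) (nat_lit 152) (nat_lit 5648197256) (nat_lit 228) (nat_lit 451233689990) (nat_lit 11) (nat_lit 5) (nat_lit 13) (nat_lit 5) (nat_lit 14) (nat_lit 5) (nat_lit 241) (nat_lit 225) (nat_lit 134)))))) (XT.nd (nat_lit 390) (nat_lit 304) (nat_lit 0) (XT.nd (nat_lit 156) (nat_lit 152) (nat_lit 0) (XT.nd (nat_lit 78) (nat_lit 76) (nat_lit 0) (XT.lf (nat_lit 0) (nat_lit 273969387409) (nat_lit 228) (nat_lit 118478484901) (nat_lit 76) (nat_lit 234728709607) (nat_lit 11) (nat_lit 5) (nat_lit 14) (nat_lit 5) (nat_lit 12) (nat_lit 4) (nat_lit 242) (nat_lit 225) (nat_lit 133)) (XT.lf (nat_lit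 0) (nat_lit 284774490644) (nat_lit 76) (nat_lit 183066632066) (nat_lit 152) (nat_lit 232911465279) (nat_lit 10) (nat_lit 5) (nat_lit 11) (nat_lit 5) (nat_lit 12) (nat_lit 4) (nat_lit 243) (nat_lit 225) (nat_lit 132))) (XT.nd (nat_lit 78) (nat_lit 152) (nat_lit 0) (XT.lf (nat_lit 0) (nat_lit 695720632452) (nat_lit 152) (nat_lit 30877021156) (nat_lit 0) (nat_lit 58373180631) (nat_lit 10) (nat_lit 5) (nat_lit 12) (nat_lit 4) (nat_lit 10) (nat_lit 4) (nat_lit 244) (nat_lit 225) (nat_lit 131)) (XT.nd (nat_lit 78) (nat_lit 0) (nat_lit 0) (XT.lf (nat_lit 0) (nat_lit 87924447768) (nat_lit 152) (nat_lit 454464764210) (nat_lit 76) (nat_lit 338025335226) (nat_lit 8) (nat_lit 5) (nat_lit 10) (nat_lit 5) (nat_lit 9) (nat_lit 4) (nat_lit 245) (nat_lit 225) (nat_lit 130)) (XT.lf (nat_lit 0) (nat_lit 287463107215) (nat_lit 152) (nat_lit 39424494949) (nat_lit 76) (nat_lit 663015966636) (nat_lit 8) (nat_lit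 5) (nat_lit 10) (nat_lit 5) (nat_lit 9) (nat_lit 4) (nat_lit 246) (nat_lit 225) (nat_lit 129))))) (XT.nd (nat_lit 234) (nat_lit 152) (nat_lit 0) (XT.nd (nat_lit 78) (nat_lit 76) (nat_lit 0) (XT.lf (nat_lit 0) (nat_lit 460929157045) (nat_lit 76) (nat_lit 67088650079) (nat_lit 152) (nat_lit 586911317432) (nat_lit 7) (nat_lit 5) (nat_lit 8) (nat_lit 5) (nat_lit 9) (nat_lit 4) (nat_lit 247) (nat_lit 225) (nat_lit 128)) (XT.nd (nat_lit 78) (nat_lit 76) (nat_lit 0) (XT.lf (nat_lit 0) (nat_lit 811405132875) (nat_lit 152) (nat_lit 225495321726) (nat_lit 0) (nat_lit 221268105616) (nat_lit 7) (nat_lit 5) (nat_lit 9) (nat_lit 4) (nat_lit 7) (nat_lit 4) (nat_lit 248) (nat_lit 225) (nat_lit 127)) (XT.lf (nat_lit 0) (nat_lit 279406388141) (nat_lit 76) (nat_lit 866469312869) (nat_lit 76) (nat_lit 276332198922) (nat_lit 6) (nat_lit 4) (nat_lit 7) (nat_lit 5) (nat_lit 7) (nat_lit 4) (nat_lit 249) (nat_lit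 225) (nat_lit 126)))) (XT.nd (nat_lit 78) (nat_lit 152) (nat_lit 0) (XT.lf (nat_lit 0) (nat_lit 873698514425) (nat_lit 76) (nat_lit 663383309068) (nat_lit 76) (nat_lit 73246119740) (nat_lit 6) (nat_lit 4) (nat_lit 7) (nat_lit 5) (nat_lit 7) (nat_lit 4) (nat_lit 250) (nat_lit 225) (nat_lit 125)) (XT.nd (nat_lit 78) (nat_lit 76) (nat_lit 0) (XT.lf (nat_lit 0) (nat_lit 152283796906) (nat_lit 152) (nat_lit 273386957311) (nat_lit 76) (nat_lit 1400686821954) (nat_lit 5) (nat_lit 5) (nat_lit 7) (nat_lit 5) (nat_lit 6) (nat_lit 4) (nat_lit 251) (nat_lit 225) (nat_lit 124)) (XT.lf (nat_lit 0) (nat_lit 270865762504) (nat_lit 76) (nat_lit 143078023254) (nat_lit 152) (nat_lit 1660164662884) (nat_lit 4) (nat_lit 5) (nat_lit 5) (nat_lit 5) (nat_lit 6) (nat_lit 4) (nat_lit 252) (nat_lit 225) (nat_lit 123))))))))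
noncomputable def xc54 : XT := (XT.nd (nat_lit 30342) (nat_lit 0) (nat_lit 76) (XT.nd (nat_lit 29562) (nat_lit 0) (nat_lit 912) (XT.nd (nat_lit 29172) (nat_lit 0) (nat_lit 2508) (XT.nd (nat_lit 156) (nat_lit 76) (nat_lit 0) (XT.nd (nat_lit 78) (nat_lit 0) (nat_lit 0) (XT.lf (nat_lit 0) (nat_lit 727393602328) (nat_lit 152) (nat_lit 1449654963889) (nat_lit 0) (nat_lit 180970119514) (nat_lit 4) (nat_lit 5) (nat_lit 6) (nat_lit 4) (nat_lit 4) (nat_lit 4) (nat_lit 253) (nat_lit 225) (nat_lit 122)) (XT.lf (nat_lit 0) (nat_lit 1091818022809) (nat_lit 152) (nat_lit 1046986365057) (nat_lit 0) (nat_lit 545394500089) (nat_lit 4) (nat_lit 5) (nat_lit 6) (nat_lit 4) (nat_lit 4) (nat_lit 4) (nat_lit 254) (nat_lit 225) (nat_lit 121))) (XT.nd (nat_lit 78) (nat_lit 76) (nat_lit 0) (XT.lf (nat_lit 0) (nat_lit 1510906060310) (nat_lit 152) (nat_lit 583917561070) (nat_lit 0) (nat_lit 964482502888) (nat_lit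 4) (nat_lit 5) (nat_lit 6) (nat_lit 4) (nat_lit 4) (nat_lit 4) (nat_lit 255) (nat_lit 225) (nat_lit 120)) (XT.nd (nat_lit 78) (nat_lit 76) (nat_lit 0) (XT.lf (nat_lit 0) (nat_lit 1992857263392) (nat_lit 152) (nat_lit 51388510111) (nat_lit 0) (nat_lit 1446433675795) (nat_lit 4) (nat_lit 5) (nat_lit 6) (nat_lit 4) (nat_lit 4) (nat_lit 4) (nat_lit 256) (nat_lit 225) (nat_lit 119)) (XT.lf (nat_lit 0) (nat_lit 590562144738) (nat_lit 76) (nat_lit 1970742001159) (nat_lit 76) (nat_lit 1424318387323) (nat_lit 3) (nat_lit 4) (nat_lit 4) (nat_lit 5) (nat_lit 4) (nat_lit 4) (nat_lit 257) (nat_lit 225) (nat_lit 118))))) (XT.nd (nat_lit 156) (nat_lit 0) (nat_lit 76) (XT.nd (nat_lit 78) (nat_lit 0) (nat_lit 76) (XT.lf (nat_lit 0) (nat_lit 28597942124) (nat_lit 532) (nat_lit 24532536601) (nat_lit 532) (nat_lit 24532536601) (nat_lit 36) (nat_lit 3) (nat_lit 43) (nat_lit 3) (nat_lit 43) (nat_lit 5) (nat_lit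 226) (nat_lit 226) (nat_lit 148)) (XT.lf (nat_lit 0) (nat_lit 63784443922) (nat_lit 456) (nat_lit 87804474309) (nat_lit 532) (nat_lit 15202632209) (nat_lit 37) (nat_lit 5) (nat_lit 43) (nat_lit 5) (nat_lit 44) (nat_lit 5) (nat_lit 227) (nat_lit 226) (nat_lit 147))) (XT.nd (nat_lit 78) (nat_lit 0) (nat_lit 76) (XT.lf (nat_lit 76) (nat_lit 48821365322) (nat_lit 0) (nat_lit 28117795119) (nat_lit 532) (nat_lit 102591512023) (nat_lit 38) (nat_lit 5) (nat_lit 37) (nat_lit 5) (nat_lit 44) (nat_lit 5) (nat_lit 228) (nat_lit 226) (nat_lit 146)) (XT.nd (nat_lit 78) (nat_lit 0) (nat_lit 76) (XT.lf (nat_lit 76) (nat_lit 15238794677) (nat_lit 0) (nat_lit 82555504103) (nat_lit 532) (nat_lit 95928190434) (nat_lit 39) (nat_lit 5) (nat_lit 38) (nat_lit 5) (nat_lit 45) (nat_lit 5) (nat_lit 229) (nat_lit 226) (nat_lit 145)) (XT.lf (nat_lit 0) (nat_lit 127875773142) (nat_lit 456) (nat_lit 21037924870) (nat_lit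 76) (nat_lit 60641538344) (nat_lit 39) (nat_lit 5) (nat_lit 45) (nat_lit 5) (nat_lit 40) (nat_lit 5) (nat_lit 230) (nat_lit 226) (nat_lit 144)))))) (XT.nd (nat_lit 390) (nat_lit 532) (nat_lit 0) (XT.nd (nat_lit 156) (nat_lit 608) (nat_lit 0) (XT.nd (nat_lit 78) (nat_lit 228) (nat_lit 0) (XT.lf (nat_lit 0) (nat_lit 166047312894) (nat_lit 456) (nat_lit 2698354812) (nat_lit 532) (nat_lit 58515134638) (nat_lit 33) (nat_lit 5) (nat_lit 39) (nat_lit 5) (nat_lit 40) (nat_lit 5) (nat_lit 231) (nat_lit 226) (nat_lit 143)) (XT.lf (nat_lit 0) (nat_lit 137793679710) (nat_lit 228) (nat_lit 85873307670) (nat_lit 304) (nat_lit 23321542922) (nat_lit 30) (nat_lit 5) (nat_lit 33) (nat_lit 5) (nat_lit 34) (nat_lit 5) (nat_lit 232) (nat_lit 226) (nat_lit 142))) (XT.nd (nat_lit 78) (nat_lit 380) (nat_lit 0) (XT.lf (nat_lit 0) (nat_lit 22775186678) (nat_lit 228) (nat_lit 165754128198) (nat_lit 76) (nat_lit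 80594540463) (nat_lit 27) (nat_lit 5) (nat_lit 30) (nat_lit 5) (nat_lit 28) (nat_lit 5) (nat_lit 233) (nat_lit 226) (nat_lit 141)) (XT.nd (nat_lit 78) (nat_lit 152) (nat_lit 0) (XT.lf (nat_lit 0) (nat_lit 60004953483) (nat_lit 228) (nat_lit 21519283758) (nat_lit 304) (nat_lit 212437286615) (nat_lit 24) (nat_lit 5) (nat_lit 27) (nat_lit 5) (nat_lit 28) (nat_lit 5) (nat_lit 234) (nat_lit 226) (nat_lit 140)) (XT.lf (nat_lit 0) (nat_lit 3473089025) (nat_lit 152) (nat_lit 154748382084) (nat_lit 228) (nat_lit 163572506911) (nat_lit 22) (nat_lit 5) (nat_lit 24) (nat_lit 5) (nat_lit 25) (nat_lit 5) (nat_lit 235) (nat_lit 226) (nat_lit 139))))) (XT.nd (nat_lit 156) (nat_lit 380) (nat_lit 0) (XT.nd (nat_lit 78) (nat_lit 152) (nat_lit 0) (XT.lf (nat_lit 0) (nat_lit 254686134143) (nat_lit 228) (nat_lit 64023681673) (nat_lit 76) (nat_lit 34430458208) (nat_lit 22) (nat_lit 5) (nat_lit 25) (nat_lit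 5) (nat_lit 23) (nat_lit 5) (nat_lit 236) (nat_lit 226) (nat_lit 138)) (XT.lf (nat_lit 0) (nat_lit 235940475652) (nat_lit 152) (nat_lit 139634081660) (nat_lit 228) (nat_lit 12817633344) (nat_lit 20) (nat_lit 5) (nat_lit 22) (nat_lit 5) (nat_lit 23) (nat_lit 5) (nat_lit 237) (nat_lit 226) (nat_lit 137))) (XT.nd (nat_lit 78) (nat_lit 152) (nat_lit 0) (XT.lf (nat_lit 0) (nat_lit 88985989258) (nat_lit 228) (nat_lit 268113553136) (nat_lit 76) (nat_lit 71058981463) (nat_lit 17) (nat_lit 5) (nat_lit 20) (nat_lit 5) (nat_lit 18) (nat_lit 5) (nat_lit 238) (nat_lit 226) (nat_lit 136)) (XT.nd (nat_lit 78) (nat_lit 0) (nat_lit 0) (XT.lf (nat_lit 0) (nat_lit 53455436696) (nat_lit 152) (nat_lit 161568412134) (nat_lit 228) (nat_lit 258061513680) (nat_lit 15) (nat_lit 5) (nat_lit 17) (nat_lit 5) (nat_lit 18) (nat_lit 5) (nat_lit 239) (nat_lit 226) (nat_lit 135)) (XT.lf (nat_lit 0) (nat_lit 369497948665)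 (nat_lit 228) (nat_lit 86356101682) (nat_lit 76) (nat_lit 68134732366) (nat_lit 15) (nat_lit 5) (nat_lit 18) (nat_lit 5) (nat_lit 16) (nat_lit 4) (nat_lit 240) (nat_lit 226) (nat_lit 134))))))) (XT.nd (nat_lit 780) (nat_lit 152) (nat_lit 0) (XT.nd (nat_lit 390) (nat_lit 304) (nat_lit 0) (XT.nd (nat_lit 156) (nat_lit 76) (nat_lit 0) (XT.nd (nat_lit 78) (nat_lit 228) (nat_lit 0) (XT.lf (nat_lit 0) (nat_lit 307839297747) (nat_lit 76) (nat_lit 251175809527) (nat_lit 152) (nat_lit 22562853739) (nat_lit 14) (nat_lit 5) (nat_lit 15) (nat_lit 5) (nat_lit 16) (nat_lit 4) (nat_lit 241) (nat_lit 226) (nat_lit 133)) (XT.lf (nat_lit 0) (nat_lit 121705555370) (nat_lit 152) (nat_lit 6494266558) (nat_lit 228) (nat_lit 518916695772) (nat_lit 11) (nat_lit 5) (nat_lit 13) (nat_lit 5) (nat_lit 14) (nat_lit 5) (nat_lit 242) (nat_lit 226) (nat_lit 132))) (XT.nd (nat_lit 78) (nat_lit 76) (nat_lit 0) (XT.lf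 (nat_lit 0) (nat_lit 315066464519) (nat_lit 228) (nat_lit 136247492334) (nat_lit 76) (nat_lit 269938974521) (nat_lit 11) (nat_lit 5) (nat_lit 14) (nat_lit 5) (nat_lit 12) (nat_lit 4) (nat_lit 243) (nat_lit 226) (nat_lit 131)) (XT.nd (nat_lit 78) (nat_lit 0) (nat_lit 0) (XT.lf (nat_lit 0) (nat_lit 327493195473) (nat_lit 76) (nat_lit 210525607822) (nat_lit 152) (nat_lit 267846548169) (nat_lit 10) (nat_lit 5) (nat_lit 11) (nat_lit 5) (nat_lit 12) (nat_lit 4) (nat_lit 244) (nat_lit 226) (nat_lit 130)) (XT.lf (nat_lit 0) (nat_lit 800080063570) (nat_lit 152) (nat_lit 35506286114) (nat_lit 0) (nat_lit 67129999531) (nat_lit 10) (nat_lit 5) (nat_lit 12) (nat_lit 4) (nat_lit 10) (nat_lit 4) (nat_lit 245) (nat_lit 226) (nat_lit 129))))) (XT.nd (nat_lit 156) (nat_lit 152) (nat_lit 0) (XT.nd (nat_lit 78) (nat_lit 0) (nat_lit 0) (XT.lf (nat_lit 0) (nat_lit 101114361445) (nat_lit 152) (nat_lit 522632316049)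 (nat_lit 76) (nat_lit 388729949445) (nat_lit 8) (nat_lit 5) (nat_lit 10) (nat_lit 5) (nat_lit 9) (nat_lit 4) (nat_lit 246) (nat_lit 226) (nat_lit 128)) (XT.lf (nat_lit 0) (nat_lit 330583657220) (nat_lit 152) (nat_lit 45336288503) (nat_lit 76) (nat_lit 762469069401) (nat_lit 8) (nat_lit 5) (nat_lit 10) (nat_lit 5) (nat_lit 9) (nat_lit 4) (nat_lit 247) (nat_lit 226) (nat_lit 127))) (XT.nd (nat_lit 78) (nat_lit 76) (nat_lit 0) (XT.lf (nat_lit 0) (nat_lit 530070252100) (nat_lit 76) (nat_lit 77151210036) (nat_lit 152) (nat_lit 674946950403) (nat_lit 7) (nat_lit 5) (nat_lit 8) (nat_lit 5) (nat_lit 9) (nat_lit 4) (nat_lit 248) (nat_lit 226) (nat_lit 126)) (XT.nd (nat_lit 78) (nat_lit 76) (nat_lit 0) (XT.lf (nat_lit 0) (nat_lit 933116773835) (nat_lit 152) (nat_lit 259318068281) (nat_lit 0) (nat_lit 254458930727) (nat_lit 7) (nat_lit 5) (nat_lit 9) (nat_lit 4) (nat_lit 7) (nat_lit 4) (nat_lit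 249) (nat_lit 226) (nat_lit 125)) (XT.lf (nat_lit 0) (nat_lit 321318766723) (nat_lit 76) (nat_lit 996439081014) (nat_lit 76) (nat_lit 317781172358) (nat_lit 6) (nat_lit 4) (nat_lit 7) (nat_lit 5) (nat_lit 7) (nat_lit 4) (nat_lit 250) (nat_lit 226) (nat_lit 124)))))) (XT.nd (nat_lit 390) (nat_lit 0) (nat_lit 0) (XT.nd (nat_lit 156) (nat_lit 76) (nat_lit 0) (XT.nd (nat_lit 78) (nat_lit 76) (nat_lit 0) (XT.lf (nat_lit 0) (nat_lit 1004754526684) (nat_lit 76) (nat_lit 762890258659) (nat_lit 76) (nat_lit 84232293004) (nat_lit 6) (nat_lit 4) (nat_lit 7) (nat_lit 5) (nat_lit 7) (nat_lit 4) (nat_lit 251) (nat_lit 226) (nat_lit 123)) (XT.lf (nat_lit 0) (nat_lit 175126981611) (nat_lit 152) (nat_lit 314393893467) (nat_lit 76) (nat_lit 1610790287255) (nat_lit 5) (nat_lit 5) (nat_lit 7) (nat_lit 5) (nat_lit 6) (nat_lit 4) (nat_lit 252) (nat_lit 226) (nat_lit 122))) (XT.nd (nat_lit 78) (nat_lit 0) (nat_lit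 0) (XT.lf (nat_lit 0) (nat_lit 311496640581) (nat_lit 76) (nat_lit 164539272351) (nat_lit 152) (nat_lit 1909188757349) (nat_lit 4) (nat_lit 5) (nat_lit 5) (nat_lit 5) (nat_lit 6) (nat_lit 4) (nat_lit 253) (nat_lit 226) (nat_lit 121)) (XT.nd (nat_lit 78) (nat_lit 0) (nat_lit 0) (XT.lf (nat_lit 0) (nat_lit 836503138536) (nat_lit 152) (nat_lit 1667102296793) (nat_lit 0) (nat_lit 208116012799) (nat_lit 4) (nat_lit 5) (nat_lit 6) (nat_lit 4) (nat_lit 4) (nat_lit 4) (nat_lit 254) (nat_lit 226) (nat_lit 120)) (XT.lf (nat_lit 0) (nat_lit 1255591157412) (nat_lit 152) (nat_lit 1204033527051) (nat_lit 0) (nat_lit 627204001500) (nat_lit 4) (nat_lit 5) (nat_lit 6) (nat_lit 4) (nat_lit 4) (nat_lit 4) (nat_lit 255) (nat_lit 226) (nat_lit 119))))) (XT.nd (nat_lit 29016) (nat_lit 0) (nat_lit 2432) (XT.nd (nat_lit 78) (nat_lit 0) (nat_lit 0) (XT.lf (nat_lit 0) (nat_lit 1737542344297) (nat_lit 152) (nat_lit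 671504505870) (nat_lit 0) (nat_lit 1109155162146) (nat_lit 4) (nat_lit 5) (nat_lit 6) (nat_lit 4) (nat_lit 4) (nat_lit 4) (nat_lit 256) (nat_lit 226) (nat_lit 118)) (XT.lf (nat_lit 0) (nat_lit 2291786178936) (nat_lit 152) (nat_lit 59096187184) (nat_lit 0) (nat_lit 1663398973968) (nat_lit 4) (nat_lit 5) (nat_lit 6) (nat_lit 4) (nat_lit 4) (nat_lit 4) (nat_lit 257) (nat_lit 226) (nat_lit 117))) (XT.nd (nat_lit 78) (nat_lit 0) (nat_lit 76) (XT.lf (nat_lit 0) (nat_lit 32891806875) (nat_lit 532) (nat_lit 28210152392) (nat_lit 532) (nat_lit 28210152392) (nat_lit 36) (nat_lit 3) (nat_lit 43) (nat_lit 3) (nat_lit 43) (nat_lit 5) (nat_lit 227) (nat_lit 227) (nat_lit 146)) (XT.nd (nat_lit 78) (nat_lit 0) (nat_lit 0) (XT.lf (nat_lit 0) (nat_lit 73359391121) (nat_lit 456) (nat_lit 100970295154) (nat_lit 532) (nat_lit 17479975862) (nat_lit 37) (nat_lit 5) (nat_lit 43) (nat_lit 5) (nat_lit 44) (nat_lit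 5) (nat_lit 228) (nat_lit 227) (nat_lit 145)) (XT.lf (nat_lit 76) (nat_lit 56149009867) (nat_lit 0) (nat_lit 32337462381) (nat_lit 532) (nat_lit 117973252657) (nat_lit 38) (nat_lit 5) (nat_lit 37) (nat_lit 5) (nat_lit 44) (nat_lit 5) (nat_lit 229) (nat_lit 227) (nat_lit 144))))))))
noncomputable def xc55 : XT := (XT.nd (nat_lit 1560) (nat_lit 228) (nat_lit 0) (XT.nd (nat_lit 780) (nat_lit 760) (nat_lit 0) (XT.nd (nat_lit 390) (nat_lit 760) (nat_lit 0) (XT.nd (nat_lit 156) (nat_lit 836) (nat_lit 0) (XT.nd (nat_lit 78) (nat_lit 0) (nat_lit 76) (XT.lf (nat_lit 76) (nat_lit 17529223814) (nat_lit 0) (nat_lit 94939886904) (nat_lit 532) (nat_lit 110311269457) (nat_lit 39) (nat_lit 5) (nat_lit 38) (nat_lit 5) (nat_lit 45) (nat_lit 5) (nat_lit 230) (nat_lit 227) (nat_lit 143)) (XT.lf (nat_lit 0) (nat_lit 147062044936) (nat_lit 456) (nat_lit 24189163355) (nat_lit 76) (nat_lit 69736895791) (nat_lit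 39) (nat_lit 5) (nat_lit 45) (nat_lit 5) (nat_lit 40) (nat_lit 5) (nat_lit 231) (nat_lit 227) (nat_lit 142))) (XT.nd (nat_lit 78) (nat_lit 456) (nat_lit 0) (XT.lf (nat_lit 0) (nat_lit 190958483382) (nat_lit 456) (nat_lit 3103398382) (nat_lit 532) (nat_lit 67287669853) (nat_lit 33) (nat_lit 5) (nat_lit 39) (nat_lit 5) (nat_lit 40) (nat_lit 5) (nat_lit 232) (nat_lit 227) (nat_lit 141)) (XT.nd (nat_lit 78) (nat_lit 228) (nat_lit 0) (XT.lf (nat_lit 0) (nat_lit 158466806475) (nat_lit 228) (nat_lit 98754115637) (nat_lit 304) (nat_lit 26815557705) (nat_lit 30) (nat_lit 5) (nat_lit 33) (nat_lit 5) (nat_lit 34) (nat_lit 5) (nat_lit 233) (nat_lit 227) (nat_lit 140)) (XT.lf (nat_lit 0) (nat_lit 26195051339) (nat_lit 228) (nat_lit 190613015332) (nat_lit 76) (nat_lit 92684064657) (nat_lit 27) (nat_lit 5) (nat_lit 30) (nat_lit 5) (nat_lit 28) (nat_lit 5) (nat_lit 234) (nat_lit 227) (nat_lit 139)))))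 (XT.nd (nat_lit 156) (nat_lit 380) (nat_lit 0) (XT.nd (nat_lit 78) (nat_lit 152) (nat_lit 0) (XT.lf (nat_lit 0) (nat_lit 69009570375) (nat_lit 228) (nat_lit 24746514453) (nat_lit 304) (nat_lit 244299397272) (nat_lit 24) (nat_lit 5) (nat_lit 27) (nat_lit 5) (nat_lit 28) (nat_lit 5) (nat_lit 235) (nat_lit 227) (nat_lit 138)) (XT.lf (nat_lit 0) (nat_lit 3997831226) (nat_lit 152) (nat_lit 177959758317) (nat_lit 228) (nat_lit 188105241730) (nat_lit 22) (nat_lit 5) (nat_lit 24) (nat_lit 5) (nat_lit 25) (nat_lit 5) (nat_lit 236) (nat_lit 227) (nat_lit 137))) (XT.nd (nat_lit 78) (nat_lit 380) (nat_lit 0) (XT.lf (nat_lit 0) (nat_lit 292891592489) (nat_lit 228) (nat_lit 73623754700) (nat_lit 76) (nat_lit 39595754769) (nat_lit 22) (nat_lit 5) (nat_lit 25) (nat_lit 5) (nat_lit 23) (nat_lit 5) (nat_lit 237) (nat_lit 227) (nat_lit 136)) (XT.nd (nat_lit 78) (nat_lit 228) (nat_lit 0) (XT.lf (nat_lit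 0) (nat_lit 271334731725) (nat_lit 152) (nat_lit 160578292928) (nat_lit 228) (nat_lit 14737803109) (nat_lit 20) (nat_lit 5) (nat_lit 22) (nat_lit 5) (nat_lit 23) (nat_lit 5) (nat_lit 238) (nat_lit 227) (nat_lit 135)) (XT.lf (nat_lit 0) (nat_lit 102336027453) (nat_lit 228) (nat_lit 308327395745) (nat_lit 76) (nat_lit 81718700973) (nat_lit 17) (nat_lit 5) (nat_lit 20) (nat_lit 5) (nat_lit 18) (nat_lit 5) (nat_lit 239) (nat_lit 227) (nat_lit 134)))))) (XT.nd (nat_lit 390) (nat_lit 304) (nat_lit 0) (XT.nd (nat_lit 156) (nat_lit 304) (nat_lit 0) (XT.nd (nat_lit 78) (nat_lit 0) (nat_lit 0) (XT.lf (nat_lit 0) (nat_lit 61476672514) (nat_lit 152) (nat_lit 185802684576) (nat_lit 228) (nat_lit 296768649166) (nat_lit 15) (nat_lit 5) (nat_lit 17) (nat_lit 5) (nat_lit 18) (nat_lit 5) (nat_lit 240) (nat_lit 227) (nat_lit 133)) (XT.lf (nat_lit 0) (nat_lit 424924340730) (nat_lit 228) (nat_lit 99306858543)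 (nat_lit 76) (nat_lit 78355759513) (nat_lit 15) (nat_lit 5) (nat_lit 18) (nat_lit 5) (nat_lit 16) (nat_lit 4) (nat_lit 241) (nat_lit 227) (nat_lit 132))) (XT.nd (nat_lit 78) (nat_lit 228) (nat_lit 0) (XT.lf (nat_lit 0) (nat_lit 354017625782) (nat_lit 76) (nat_lit 288851284163) (nat_lit 152) (nat_lit 25945617640) (nat_lit 14) (nat_lit 5) (nat_lit 15) (nat_lit 5) (nat_lit 16) (nat_lit 4) (nat_lit 242) (nat_lit 227) (nat_lit 131)) (XT.nd (nat_lit 78) (nat_lit 0) (nat_lit 0) (XT.lf (nat_lit 0) (nat_lit 139963696222) (nat_lit 152) (nat_lit 7467529199) (nat_lit 228) (nat_lit 596752651770) (nat_lit 11) (nat_lit 5) (nat_lit 13) (nat_lit 5) (nat_lit 14) (nat_lit 5) (nat_lit 243) (nat_lit 227) (nat_lit 130)) (XT.lf (nat_lit 0) (nat_lit 362327696200) (nat_lit 228) (nat_lit 156682525219) (nat_lit 76) (nat_lit 310430545442) (nat_lit 11) (nat_lit 5) (nat_lit 14) (nat_lit 5) (nat_lit 12) (nat_lit 4)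 (nat_lit 244) (nat_lit 227) (nat_lit 129))))) (XT.nd (nat_lit 156) (nat_lit 228) (nat_lit 0) (XT.nd (nat_lit 78) (nat_lit 0) (nat_lit 0) (XT.lf (nat_lit 0) (nat_lit 376619088770) (nat_lit 76) (nat_lit 242103678445) (nat_lit 152) (nat_lit 308022292661) (nat_lit 10) (nat_lit 5) (nat_lit 11) (nat_lit 5) (nat_lit 12) (nat_lit 4) (nat_lit 245) (nat_lit 227) (nat_lit 128)) (XT.lf (nat_lit 0) (nat_lit 920093083503) (nat_lit 152) (nat_lit 40830498812) (nat_lit 0) (nat_lit 77200135986) (nat_lit 10) (nat_lit 5) (nat_lit 12) (nat_lit 4) (nat_lit 10) (nat_lit 4) (nat_lit 246) (nat_lit 227) (nat_lit 127))) (XT.nd (nat_lit 78) (nat_lit 76) (nat_lit 0) (XT.lf (nat_lit 0) (nat_lit 116282458204) (nat_lit 152) (nat_lit 601025528074) (nat_lit 76) (nat_lit 447040057315) (nat_lit 8) (nat_lit 5) (nat_lit 10) (nat_lit 5) (nat_lit 9) (nat_lit 4) (nat_lit 247) (nat_lit 227) (nat_lit 126)) (XT.nd (nat_lit 78)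 (nat_lit 76) (nat_lit 0) (XT.lf (nat_lit 0) (nat_lit 380172025405) (nat_lit 152) (nat_lit 52135309707) (nat_lit 76) (nat_lit 876839964987) (nat_lit 8) (nat_lit 5) (nat_lit 10) (nat_lit 5) (nat_lit 9) (nat_lit 4) (nat_lit 248) (nat_lit 227) (nat_lit 125)) (XT.lf (nat_lit 0) (nat_lit 609582091615) (nat_lit 76) (nat_lit 88723333845) (nat_lit 152) (nat_lit 776188187940) (nat_lit 7) (nat_lit 5) (nat_lit 8) (nat_lit 5) (nat_lit 9) (nat_lit 4) (nat_lit 249) (nat_lit 227) (nat_lit 124))))))) (XT.nd (nat_lit 29718) (nat_lit 0) (nat_lit 988) (XT.nd (nat_lit 390) (nat_lit 0) (nat_lit 0) (XT.nd (nat_lit 156) (nat_lit 152) (nat_lit 0) (XT.nd (nat_lit 78) (nat_lit 76) (nat_lit 0) (XT.lf (nat_lit 0) (nat_lit 1073084948532) (nat_lit 152) (nat_lit 298214605212) (nat_lit 0) (nat_lit 292628231031) (nat_lit 7) (nat_lit 5) (nat_lit 9) (nat_lit 4) (nat_lit 7) (nat_lit 4) (nat_lit 250) (nat_lit 227) (nat_lit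 123)) (XT.lf (nat_lit 0) (nat_lit 369517655727) (nat_lit 76) (nat_lit 1145904467715) (nat_lit 76) (nat_lit 365447700649) (nat_lit 6) (nat_lit 4) (nat_lit 7) (nat_lit 5) (nat_lit 7) (nat_lit 4) (nat_lit 251) (nat_lit 227) (nat_lit 122))) (XT.nd (nat_lit 78) (nat_lit 152) (nat_lit 0) (XT.lf (nat_lit 0) (nat_lit 1155468639597) (nat_lit 76) (nat_lit 877323384022) (nat_lit 76) (nat_lit 96866573857) (nat_lit 6) (nat_lit 4) (nat_lit 7) (nat_lit 5) (nat_lit 7) (nat_lit 4) (nat_lit 252) (nat_lit 227) (nat_lit 121)) (XT.nd (nat_lit 78) (nat_lit 76) (nat_lit 0) (XT.lf (nat_lit 0) (nat_lit 201396494009) (nat_lit 152) (nat_lit 361552140103) (nat_lit 76) (nat_lit 1852409164564) (nat_lit 5) (nat_lit 5) (nat_lit 7) (nat_lit 5) (nat_lit 6) (nat_lit 4) (nat_lit 253) (nat_lit 227) (nat_lit 120)) (XT.lf (nat_lit 0) (nat_lit 358221903172) (nat_lit 76) (nat_lit 189219819618) (nat_lit 152) (nat_lit 2195566613510)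 (nat_lit 4) (nat_lit 5) (nat_lit 5) (nat_lit 5) (nat_lit 6) (nat_lit 4) (nat_lit 254) (nat_lit 227) (nat_lit 119))))) (XT.nd (nat_lit 156) (nat_lit 0) (nat_lit 0) (XT.nd (nat_lit 78) (nat_lit 0) (nat_lit 0) (XT.lf (nat_lit 0) (nat_lit 961978984257) (nat_lit 152) (nat_lit 1917166951951) (nat_lit 0) (nat_lit 239333698544) (nat_lit 4) (nat_lit 5) (nat_lit 6) (nat_lit 4) (nat_lit 4) (nat_lit 4) (nat_lit 255) (nat_lit 227) (nat_lit 118)) (XT.lf (nat_lit 0) (nat_lit 1443930157059) (nat_lit 152) (nat_lit 1384637956665) (nat_lit 0) (nat_lit 721284848529) (nat_lit 4) (nat_lit 5) (nat_lit 6) (nat_lit 4) (nat_lit 4) (nat_lit 4) (nat_lit 256) (nat_lit 227) (nat_lit 117))) (XT.nd (nat_lit 29016) (nat_lit 0) (nat_lit 2432) (XT.lf (nat_lit 0) (nat_lit 1998173979451) (nat_lit 152) (nat_lit 772229660495) (nat_lit 0) (nat_lit 1275528651080) (nat_lit 4) (nat_lit 5) (nat_lit 6) (nat_lit 4) (nat_lit 4) (nat_lit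 4) (nat_lit 257) (nat_lit 227) (nat_lit 116)) (XT.nd (nat_lit 78) (nat_lit 0) (nat_lit 76) (XT.lf (nat_lit 0) (nat_lit 37828733622) (nat_lit 532) (nat_lit 32439962813) (nat_lit 532) (nat_lit 32439962813) (nat_lit 36) (nat_lit 3) (nat_lit 43) (nat_lit 3) (nat_lit 43) (nat_lit 5) (nat_lit 228) (nat_lit 228) (nat_lit 144)) (XT.lf (nat_lit 0) (nat_lit 84368804977) (nat_lit 456) (nat_lit 116112171902) (nat_lit 532) (nat_lit 20099665112) (nat_lit 37) (nat_lit 5) (nat_lit 43) (nat_lit 5) (nat_lit 44) (nat_lit 5) (nat_lit 229) (nat_lit 228) (nat_lit 143)))))) (XT.nd (nat_lit 390) (nat_lit 988) (nat_lit 0) (XT.nd (nat_lit 156) (nat_lit 532) (nat_lit 0) (XT.nd (nat_lit 78) (nat_lit 0) (nat_lit 76) (XT.lf (nat_lit 76) (nat_lit 64574718434) (nat_lit 0) (nat_lit 37189592509) (nat_lit 532) (nat_lit 135663958008) (nat_lit 38) (nat_lit 5) (nat_lit 37) (nat_lit 5) (nat_lit 44) (nat_lit 5) (nat_lit 230)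 (nat_lit 228) (nat_lit 142)) (XT.lf (nat_lit 76) (nat_lit 20162093160) (nat_lit 0) (nat_lit 109181669323) (nat_lit 532) (nat_lit 126853309939) (nat_lit 39) (nat_lit 5) (nat_lit 38) (nat_lit 5) (nat_lit 45) (nat_lit 5) (nat_lit 231) (nat_lit 228) (nat_lit 141))) (XT.nd (nat_lit 78) (nat_lit 684) (nat_lit 0) (XT.lf (nat_lit 0) (nat_lit 169125061183) (nat_lit 456) (nat_lit 27814172834) (nat_lit 76) (nat_lit 80196769815) (nat_lit 39) (nat_lit 5) (nat_lit 45) (nat_lit 5) (nat_lit 40) (nat_lit 5) (nat_lit 232) (nat_lit 228) (nat_lit 140)) (XT.nd (nat_lit 78) (nat_lit 228) (nat_lit 0) (XT.lf (nat_lit 0) (nat_lit 219605336081) (nat_lit 456) (nat_lit 3569127684) (nat_lit 532) (nat_lit 77377240006) (nat_lit 33) (nat_lit 5) (nat_lit 39) (nat_lit 5) (nat_lit 40) (nat_lit 5) (nat_lit 233) (nat_lit 228) (nat_lit 139)) (XT.lf (nat_lit 0) (nat_lit 182239908586) (nat_lit 228) (nat_lit 113567090688) (nat_lit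 304) (nat_lit 30834702963) (nat_lit 30) (nat_lit 5) (nat_lit 33) (nat_lit 5) (nat_lit 34) (nat_lit 5) (nat_lit 234) (nat_lit 228) (nat_lit 138))))) (XT.nd (nat_lit 234) (nat_lit 380) (nat_lit 0) (XT.nd (nat_lit 78) (nat_lit 380) (nat_lit 0) (XT.lf (nat_lit 0) (nat_lit 30127021070) (nat_lit 228) (nat_lit 219201767559) (nat_lit 76) (nat_lit 106586933806) (nat_lit 27) (nat_lit 5) (nat_lit 30) (nat_lit 5) (nat_lit 28) (nat_lit 5) (nat_lit 235) (nat_lit 228) (nat_lit 137)) (XT.nd (nat_lit 78) (nat_lit 152) (nat_lit 0) (XT.lf (nat_lit 0) (nat_lit 79363935134) (nat_lit 228) (nat_lit 28457991153) (nat_lit 304) (nat_lit 280941673718) (nat_lit 24) (nat_lit 5) (nat_lit 27) (nat_lit 5) (nat_lit 28) (nat_lit 5) (nat_lit 236) (nat_lit 228) (nat_lit 136)) (XT.lf (nat_lit 0) (nat_lit 4600363261) (nat_lit 152) (nat_lit 204653055842) (nat_lit 228) (nat_lit 216318652777) (nat_lit 22) (nat_lit 5) (nat_lit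 24) (nat_lit 5) (nat_lit 25) (nat_lit 5) (nat_lit 237) (nat_lit 228) (nat_lit 135)))) (XT.nd (nat_lit 78) (nat_lit 380) (nat_lit 0) (XT.lf (nat_lit 0) (nat_lit 336827250624) (nat_lit 228) (nat_lit 84664687112) (nat_lit 76) (nat_lit 45535668329) (nat_lit 22) (nat_lit 5) (nat_lit 25) (nat_lit 5) (nat_lit 23) (nat_lit 5) (nat_lit 238) (nat_lit 228) (nat_lit 134)) (XT.nd (nat_lit 78) (nat_lit 228) (nat_lit 0) (XT.lf (nat_lit 0) (nat_lit 312037349594) (nat_lit 152) (nat_lit 184664355596) (nat_lit 228) (nat_lit 16946601941) (nat_lit 20) (nat_lit 5) (nat_lit 22) (nat_lit 5) (nat_lit 23) (nat_lit 5) (nat_lit 239) (nat_lit 228) (nat_lit 133)) (XT.lf (nat_lit 0) (nat_lit 117688049573) (nat_lit 228) (nat_lit 354574092734) (nat_lit 76) (nat_lit 93977165696) (nat_lit 17) (nat_lit 5) (nat_lit 20) (nat_lit 5) (nat_lit 18) (nat_lit 5) (nat_lit 240) (nat_lit 228) (nat_lit 132))))))))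
noncomputable def xc56 : XT := (XT.nd (nat_lit 30654) (nat_lit 0) (nat_lit 228) (XT.nd (nat_lit 780) (nat_lit 228) (nat_lit 0) (XT.nd (nat_lit 390) (nat_lit 304) (nat_lit 0) (XT.nd (nat_lit 156) (nat_lit 304) (nat_lit 0) (XT.nd (nat_lit 78) (nat_lit 0) (nat_lit 0) (XT.lf (nat_lit 0) (nat_lit 70700381568) (nat_lit 152) (nat_lit 213672339150) (nat_lit 228) (nat_lit 341282365016) (nat_lit 15) (nat_lit 5) (nat_lit 17) (nat_lit 5) (nat_lit 18) (nat_lit 5) (nat_lit 241) (nat_lit 228) (nat_lit 131)) (XT.lf (nat_lit 0) (nat_lit 488664277106) (nat_lit 228) (nat_lit 114200877198) (nat_lit 76) (nat_lit 90109741430) (nat_lit 15) (nat_lit 5) (nat_lit 18) (nat_lit 5) (nat_lit 16) (nat_lit 4) (nat_lit 242) (nat_lit 228) (nat_lit 130))) (XT.nd (nat_lit 78) (nat_lit 228) (nat_lit 0) (XT.lf (nat_lit 0) (nat_lit 407122109628) (nat_lit 76) (nat_lit 332178298684) (nat_lit 152) (nat_lit 29836201941) (nat_lit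 14) (nat_lit 5) (nat_lit 15) (nat_lit 5) (nat_lit 16) (nat_lit 4) (nat_lit 243) (nat_lit 228) (nat_lit 129)) (XT.nd (nat_lit 78) (nat_lit 0) (nat_lit 0) (XT.lf (nat_lit 0) (nat_lit 160959995492) (nat_lit 152) (nat_lit 8586995182) (nat_lit 228) (nat_lit 686264378747) (nat_lit 11) (nat_lit 5) (nat_lit 13) (nat_lit 5) (nat_lit 14) (nat_lit 5) (nat_lit 244) (nat_lit 228) (nat_lit 128)) (XT.lf (nat_lit 0) (nat_lit 416677804886) (nat_lit 228) (nat_lit 180183322931) (nat_lit 76) (nat_lit 356995675269) (nat_lit 11) (nat_lit 5) (nat_lit 14) (nat_lit 5) (nat_lit 12) (nat_lit 4) (nat_lit 245) (nat_lit 228) (nat_lit 127))))) (XT.nd (nat_lit 156) (nat_lit 228) (nat_lit 0) (XT.nd (nat_lit 78) (nat_lit 0) (nat_lit 0) (XT.lf (nat_lit 0) (nat_lit 433113399327) (nat_lit 76) (nat_lit 278418647564) (nat_lit 152) (nat_lit 354224700656) (nat_lit 10) (nat_lit 5) (nat_lit 11) (nat_lit 5) (nat_lit 12) (nat_lit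 4) (nat_lit 246) (nat_lit 228) (nat_lit 126)) (XT.lf (nat_lit 0) (nat_lit 1058107810034) (nat_lit 152) (nat_lit 46953765339) (nat_lit 0) (nat_lit 88780637689) (nat_lit 10) (nat_lit 5) (nat_lit 12) (nat_lit 4) (nat_lit 10) (nat_lit 4) (nat_lit 247) (nat_lit 228) (nat_lit 125))) (XT.nd (nat_lit 78) (nat_lit 76) (nat_lit 0) (XT.lf (nat_lit 0) (nat_lit 133725539632) (nat_lit 152) (nat_lit 691178120702) (nat_lit 76) (nat_lit 514096531282) (nat_lit 8) (nat_lit 5) (nat_lit 10) (nat_lit 5) (nat_lit 9) (nat_lit 4) (nat_lit 248) (nat_lit 228) (nat_lit 124)) (XT.nd (nat_lit 78) (nat_lit 76) (nat_lit 0) (XT.lf (nat_lit 0) (nat_lit 437198448952) (nat_lit 152) (nat_lit 59954530873) (nat_lit 76) (nat_lit 1008366364405) (nat_lit 8) (nat_lit 5) (nat_lit 10) (nat_lit 5) (nat_lit 9) (nat_lit 4) (nat_lit 249) (nat_lit 228) (nat_lit 123)) (XT.lf (nat_lit 0) (nat_lit 701020389629) (nat_lit 76) (nat_lit 102031412223)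 (nat_lit 152) (nat_lit 892615807417) (nat_lit 7) (nat_lit 5) (nat_lit 8) (nat_lit 5) (nat_lit 9) (nat_lit 4) (nat_lit 250) (nat_lit 228) (nat_lit 122)))))) (XT.nd (nat_lit 390) (nat_lit 0) (nat_lit 0) (XT.nd (nat_lit 156) (nat_lit 152) (nat_lit 0) (XT.nd (nat_lit 78) (nat_lit 76) (nat_lit 0) (XT.lf (nat_lit 0) (nat_lit 1234048188826) (nat_lit 152) (nat_lit 342945908801) (nat_lit 0) (nat_lit 336522814037) (nat_lit 7) (nat_lit 5) (nat_lit 9) (nat_lit 4) (nat_lit 7) (nat_lit 4) (nat_lit 251) (nat_lit 228) (nat_lit 121)) (XT.lf (nat_lit 0) (nat_lit 424946116182) (nat_lit 76) (nat_lit 1317789778363) (nat_lit 76) (nat_lit 420264366096) (nat_lit 6) (nat_lit 4) (nat_lit 7) (nat_lit 5) (nat_lit 7) (nat_lit 4) (nat_lit 252) (nat_lit 228) (nat_lit 120))) (XT.nd (nat_lit 78) (nat_lit 152) (nat_lit 0) (XT.lf (nat_lit 0) (nat_lit 1328789641706) (nat_lit 76) (nat_lit 1008921579008) (nat_lit 76) (nat_lit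 111396134153) (nat_lit 6) (nat_lit 4) (nat_lit 7) (nat_lit 5) (nat_lit 7) (nat_lit 4) (nat_lit 253) (nat_lit 228) (nat_lit 119)) (XT.nd (nat_lit 78) (nat_lit 76) (nat_lit 0) (XT.lf (nat_lit 0) (nat_lit 231606319835) (nat_lit 152) (nat_lit 415784327936) (nat_lit 76) (nat_lit 2130270791968) (nat_lit 5) (nat_lit 5) (nat_lit 7) (nat_lit 5) (nat_lit 6) (nat_lit 4) (nat_lit 254) (nat_lit 228) (nat_lit 118)) (XT.lf (nat_lit 0) (nat_lit 411955768234) (nat_lit 76) (nat_lit 217602532760) (nat_lit 152) (nat_lit 2524901259644) (nat_lit 4) (nat_lit 5) (nat_lit 5) (nat_lit 5) (nat_lit 6) (nat_lit 4) (nat_lit 255) (nat_lit 228) (nat_lit 117))))) (XT.nd (nat_lit 29250) (nat_lit 0) (nat_lit 2508) (XT.nd (nat_lit 29172) (nat_lit 0) (nat_lit 2432) (XT.lf (nat_lit 0) (nat_lit 1106276115404) (nat_lit 152) (nat_lit 2204741473488) (nat_lit 0) (nat_lit 275233967937) (nat_lit 4) (nat_lit 5) (nat_lit 6) (nat_lit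 4) (nat_lit 4) (nat_lit 4) (nat_lit 256) (nat_lit 228) (nat_lit 116)) (XT.lf (nat_lit 0) (nat_lit 43505429839) (nat_lit 532) (nat_lit 37304662386) (nat_lit 532) (nat_lit 37304662386) (nat_lit 36) (nat_lit 3) (nat_lit 43) (nat_lit 3) (nat_lit 43) (nat_lit 5) (nat_lit 229) (nat_lit 229) (nat_lit 142))) (XT.nd (nat_lit 78) (nat_lit 0) (nat_lit 0) (XT.lf (nat_lit 0) (nat_lit 97028288436) (nat_lit 456) (nat_lit 133526224513) (nat_lit 532) (nat_lit 23112870358) (nat_lit 37) (nat_lit 5) (nat_lit 43) (nat_lit 5) (nat_lit 44) (nat_lit 5) (nat_lit 230) (nat_lit 229) (nat_lit 141)) (XT.nd (nat_lit 78) (nat_lit 0) (nat_lit 76) (XT.lf (nat_lit 76) (nat_lit 74263464640) (nat_lit 0) (nat_lit 42769173745) (nat_lit 532) (nat_lit 156009557344) (nat_lit 38) (nat_lit 5) (nat_lit 37) (nat_lit 5) (nat_lit 44) (nat_lit 5) (nat_lit 231) (nat_lit 229) (nat_lit 140)) (XT.lf (nat_lit 76) (nat_lit 23189042879) (nat_lit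 0) (nat_lit 125559524171) (nat_lit 532) (nat_lit 145877790409) (nat_lit 39) (nat_lit 5) (nat_lit 38) (nat_lit 5) (nat_lit 45) (nat_lit 5) (nat_lit 232) (nat_lit 229) (nat_lit 139))))))) (XT.nd (nat_lit 780) (nat_lit 608) (nat_lit 0) (XT.nd (nat_lit 390) (nat_lit 684) (nat_lit 0) (XT.nd (nat_lit 156) (nat_lit 684) (nat_lit 0) (XT.nd (nat_lit 78) (nat_lit 456) (nat_lit 0) (XT.lf (nat_lit 0) (nat_lit 194496625280) (nat_lit 456) (nat_lit 31983754318) (nat_lit 76) (nat_lit 92225785972) (nat_lit 39) (nat_lit 5) (nat_lit 45) (nat_lit 5) (nat_lit 40) (nat_lit 5) (nat_lit 233) (nat_lit 229) (nat_lit 138)) (XT.lf (nat_lit 0) (nat_lit 252548465561) (nat_lit 456) (nat_lit 4104662844) (nat_lit 532) (nat_lit 88981118767) (nat_lit 33) (nat_lit 5) (nat_lit 39) (nat_lit 5) (nat_lit 40) (nat_lit 5) (nat_lit 234) (nat_lit 229) (nat_lit 137))) (XT.nd (nat_lit 78) (nat_lit 456) (nat_lit 0) (XT.lf (nat_lit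 0) (nat_lit 209578224659) (nat_lit 228) (nat_lit 130602046697) (nat_lit 304) (nat_lit 35457497521) (nat_lit 30) (nat_lit 5) (nat_lit 33) (nat_lit 5) (nat_lit 34) (nat_lit 5) (nat_lit 235) (nat_lit 229) (nat_lit 136)) (XT.nd (nat_lit 78) (nat_lit 228) (nat_lit 0) (XT.lf (nat_lit 0) (nat_lit 34648124915) (nat_lit 228) (nat_lit 252079612978) (nat_lit 76) (nat_lit 122575170059) (nat_lit 27) (nat_lit 5) (nat_lit 30) (nat_lit 5) (nat_lit 28) (nat_lit 5) (nat_lit 236) (nat_lit 229) (nat_lit 135)) (XT.lf (nat_lit 0) (nat_lit 91270740302) (nat_lit 228) (nat_lit 32726311400) (nat_lit 304) (nat_lit 323080933739) (nat_lit 24) (nat_lit 5) (nat_lit 27) (nat_lit 5) (nat_lit 28) (nat_lit 5) (nat_lit 237) (nat_lit 229) (nat_lit 134))))) (XT.nd (nat_lit 156) (nat_lit 532) (nat_lit 0) (XT.nd (nat_lit 78) (nat_lit 0) (nat_lit 0) (XT.lf (nat_lit 0) (nat_lit 5292578319) (nat_lit 152) (nat_lit 235350510458)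 (nat_lit 228) (nat_lit 248764654692) (nat_lit 22) (nat_lit 5) (nat_lit 24) (nat_lit 5) (nat_lit 25) (nat_lit 5) (nat_lit 238) (nat_lit 229) (nat_lit 133)) (XT.lf (nat_lit 0) (nat_lit 387352789456) (nat_lit 228) (nat_lit 97362400922) (nat_lit 76) (nat_lit 52366434717) (nat_lit 22) (nat_lit 5) (nat_lit 25) (nat_lit 5) (nat_lit 23) (nat_lit 5) (nat_lit 239) (nat_lit 229) (nat_lit 132))) (XT.nd (nat_lit 78) (nat_lit 380) (nat_lit 0) (XT.lf (nat_lit 0) (nat_lit 358844772910) (nat_lit 152) (nat_lit 212363493797) (nat_lit 228) (nat_lit 19487177007) (nat_lit 20) (nat_lit 5) (nat_lit 22) (nat_lit 5) (nat_lit 23) (nat_lit 5) (nat_lit 240) (nat_lit 229) (nat_lit 131)) (XT.nd (nat_lit 78) (nat_lit 152) (nat_lit 0) (XT.lf (nat_lit 0) (nat_lit 135342480451) (nat_lit 228) (nat_lit 407758382545) (nat_lit 76) (nat_lit 108074239285) (nat_lit 17) (nat_lit 5) (nat_lit 20) (nat_lit 5) (nat_lit 18) (nat_lit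 5) (nat_lit 241) (nat_lit 229) (nat_lit 130)) (XT.lf (nat_lit 0) (nat_lit 81307108502) (nat_lit 152) (nat_lit 245722624343) (nat_lit 228) (nat_lit 392473523908) (nat_lit 15) (nat_lit 5) (nat_lit 17) (nat_lit 5) (nat_lit 18) (nat_lit 5) (nat_lit 242) (nat_lit 229) (nat_lit 129)))))) (XT.nd (nat_lit 390) (nat_lit 228) (nat_lit 0) (XT.nd (nat_lit 156) (nat_lit 304) (nat_lit 0) (XT.nd (nat_lit 78) (nat_lit 76) (nat_lit 0) (XT.lf (nat_lit 0) (nat_lit 561964890518) (nat_lit 228) (nat_lit 131329488834) (nat_lit 76) (nat_lit 103626669934) (nat_lit 15) (nat_lit 5) (nat_lit 18) (nat_lit 5) (nat_lit 16) (nat_lit 4) (nat_lit 243) (nat_lit 229) (nat_lit 128)) (XT.lf (nat_lit 0) (nat_lit 468191817360) (nat_lit 76) (nat_lit 382004530742) (nat_lit 152) (nat_lit 34310680743) (nat_lit 14) (nat_lit 5) (nat_lit 15) (nat_lit 5) (nat_lit 16) (nat_lit 4) (nat_lit 244) (nat_lit 229) (nat_lit 127))) (XT.nd (nat_lit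 78) (nat_lit 76) (nat_lit 0) (XT.lf (nat_lit 0) (nat_lit 185105314163) (nat_lit 152) (nat_lit 9874542835) (nat_lit 228) (nat_lit 789203150275) (nat_lit 11) (nat_lit 5) (nat_lit 13) (nat_lit 5) (nat_lit 14) (nat_lit 5) (nat_lit 245) (nat_lit 229) (nat_lit 126)) (XT.nd (nat_lit 78) (nat_lit 76) (nat_lit 0) (XT.lf (nat_lit 0) (nat_lit 479180197173) (nat_lit 228) (nat_lit 207209625855) (nat_lit 76) (nat_lit 410545440933) (nat_lit 11) (nat_lit 5) (nat_lit 14) (nat_lit 5) (nat_lit 12) (nat_lit 4) (nat_lit 246) (nat_lit 229) (nat_lit 125)) (XT.lf (nat_lit 0) (nat_lit 498081503548) (nat_lit 76) (nat_lit 320181004134) (nat_lit 152) (nat_lit 407357698076) (nat_lit 10) (nat_lit 5) (nat_lit 11) (nat_lit 5) (nat_lit 12) (nat_lit 4) (nat_lit 247) (nat_lit 229) (nat_lit 124))))) (XT.nd (nat_lit 156) (nat_lit 76) (nat_lit 0) (XT.nd (nat_lit 78) (nat_lit 152) (nat_lit 0) (XT.lf (nat_lit 0) (nat_lit 1216824559237)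 (nat_lit 152) (nat_lit 53995840882) (nat_lit 0) (nat_lit 102098097279) (nat_lit 10) (nat_lit 5) (nat_lit 12) (nat_lit 4) (nat_lit 10) (nat_lit 4) (nat_lit 248) (nat_lit 229) (nat_lit 123)) (XT.lf (nat_lit 0) (nat_lit 153784909478) (nat_lit 152) (nat_lit 794853903772) (nat_lit 76) (nat_lit 591211362861) (nat_lit 8) (nat_lit 5) (nat_lit 10) (nat_lit 5) (nat_lit 9) (nat_lit 4) (nat_lit 249) (nat_lit 229) (nat_lit 122))) (XT.nd (nat_lit 78) (nat_lit 76) (nat_lit 0) (XT.lf (nat_lit 0) (nat_lit 502778684905) (nat_lit 152) (nat_lit 68946897430) (nat_lit 76) (nat_lit 1159621625054) (nat_lit 8) (nat_lit 5) (nat_lit 10) (nat_lit 5) (nat_lit 9) (nat_lit 4) (nat_lit 250) (nat_lit 229) (nat_lit 121)) (XT.nd (nat_lit 78) (nat_lit 0) (nat_lit 0) (XT.lf (nat_lit 0) (nat_lit 806174192324) (nat_lit 76) (nat_lit 117335805192) (nat_lit 152) (nat_lit 1026507718255) (nat_lit 7) (nat_lit 5) (nat_lit 8) (nat_lit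 5) (nat_lit 9) (nat_lit 4) (nat_lit 251) (nat_lit 229) (nat_lit 120)) (XT.lf (nat_lit 0) (nat_lit 1419155793719) (nat_lit 152) (nat_lit 394387124277) (nat_lit 0) (nat_lit 387001499546) (nat_lit 7) (nat_lit 5) (nat_lit 9) (nat_lit 4) (nat_lit 7) (nat_lit 4) (nat_lit 252) (nat_lit 229) (nat_lit 119))))))))
noncomputable def xc57 : XT := (XT.nd (nat_lit 30732) (nat_lit 0) (nat_lit 76) (XT.nd (nat_lit 29952) (nat_lit 0) (nat_lit 760) (XT.nd (nat_lit 29562) (nat_lit 0) (nat_lit 2204) (XT.nd (nat_lit 156) (nat_lit 152) (nat_lit 0) (XT.nd (nat_lit 78) (nat_lit 0) (nat_lit 0) (XT.lf (nat_lit 0) (nat_lit 488688647670) (nat_lit 76) (nat_lit 1515457973276) (nat_lit 76) (nat_lit 483303650765) (nat_lit 6) (nat_lit 4) (nat_lit 7) (nat_lit 5) (nat_lit 7) (nat_lit 4) (nat_lit 253) (nat_lit 229) (nat_lit 118)) (XT.lf (nat_lit 0) (nat_lit 1528108621928) (nat_lit 76) (nat_lit 1160259579476) (nat_lit 76)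 (nat_lit 128105232322) (nat_lit 6) (nat_lit 4) (nat_lit 7) (nat_lit 5) (nat_lit 7) (nat_lit 4) (nat_lit 254) (nat_lit 229) (nat_lit 117))) (XT.nd (nat_lit 78) (nat_lit 76) (nat_lit 0) (XT.lf (nat_lit 0) (nat_lit 266347533765) (nat_lit 152) (nat_lit 478151498349) (nat_lit 76) (nat_lit 2449811601855) (nat_lit 5) (nat_lit 5) (nat_lit 7) (nat_lit 5) (nat_lit 6) (nat_lit 4) (nat_lit 255) (nat_lit 229) (nat_lit 116)) (XT.nd (nat_lit 29250) (nat_lit 0) (nat_lit 2432) (XT.lf (nat_lit 0) (nat_lit 473749571721) (nat_lit 76) (nat_lit 250242716228) (nat_lit 152) (nat_lit 2903636187047) (nat_lit 4) (nat_lit 5) (nat_lit 5) (nat_lit 5) (nat_lit 6) (nat_lit 4) (nat_lit 256) (nat_lit 229) (nat_lit 115)) (XT.lf (nat_lit 0) (nat_lit 50033048605) (nat_lit 532) (nat_lit 42899382651) (nat_lit 532) (nat_lit 42899382651) (nat_lit 36) (nat_lit 3) (nat_lit 43) (nat_lit 3) (nat_lit 43) (nat_lit 5) (nat_lit 230)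 (nat_lit 230) (nat_lit 140))))) (XT.nd (nat_lit 156) (nat_lit 304) (nat_lit 0) (XT.nd (nat_lit 78) (nat_lit 0) (nat_lit 0) (XT.lf (nat_lit 0) (nat_lit 111585679311) (nat_lit 456) (nat_lit 153553061270) (nat_lit 532) (nat_lit 26578481803) (nat_lit 37) (nat_lit 5) (nat_lit 43) (nat_lit 5) (nat_lit 44) (nat_lit 5) (nat_lit 231) (nat_lit 230) (nat_lit 139)) (XT.lf (nat_lit 76) (nat_lit 85404903761) (nat_lit 0) (nat_lit 49185413595) (nat_lit 532) (nat_lit 179407970632) (nat_lit 38) (nat_lit 5) (nat_lit 37) (nat_lit 5) (nat_lit 44) (nat_lit 5) (nat_lit 232) (nat_lit 230) (nat_lit 138))) (XT.nd (nat_lit 78) (nat_lit 380) (nat_lit 0) (XT.lf (nat_lit 76) (nat_lit 26669392314) (nat_lit 0) (nat_lit 144393909848) (nat_lit 532) (nat_lit 167756800354) (nat_lit 39) (nat_lit 5) (nat_lit 38) (nat_lit 5) (nat_lit 45) (nat_lit 5) (nat_lit 233) (nat_lit 230) (nat_lit 137)) (XT.nd (nat_lit 78) (nat_lit 456)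 (nat_lit 0) (XT.lf (nat_lit 0) (nat_lit 223673239995) (nat_lit 456) (nat_lit 36779393502) (nat_lit 76) (nat_lit 106059276314) (nat_lit 39) (nat_lit 5) (nat_lit 45) (nat_lit 5) (nat_lit 40) (nat_lit 5) (nat_lit 234) (nat_lit 230) (nat_lit 136)) (XT.lf (nat_lit 0) (nat_lit 290432496504) (nat_lit 456) (nat_lit 4720487796) (nat_lit 532) (nat_lit 102326239519) (nat_lit 33) (nat_lit 5) (nat_lit 39) (nat_lit 5) (nat_lit 40) (nat_lit 5) (nat_lit 235) (nat_lit 230) (nat_lit 135)))))) (XT.nd (nat_lit 390) (nat_lit 608) (nat_lit 0) (XT.nd (nat_lit 156) (nat_lit 380) (nat_lit 0) (XT.nd (nat_lit 78) (nat_lit 228) (nat_lit 0) (XT.lf (nat_lit 0) (nat_lit 241016720010) (nat_lit 228) (nat_lit 150192272344) (nat_lit 304) (nat_lit 40774299173) (nat_lit 30) (nat_lit 5) (nat_lit 33) (nat_lit 5) (nat_lit 34) (nat_lit 5) (nat_lit 236) (nat_lit 230) (nat_lit 134)) (XT.lf (nat_lit 0) (nat_lit 39846894264) (nat_lit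 228) (nat_lit 289889725273) (nat_lit 76) (nat_lit 140961593910) (nat_lit 27) (nat_lit 5) (nat_lit 30) (nat_lit 5) (nat_lit 28) (nat_lit 5) (nat_lit 237) (nat_lit 230) (nat_lit 133))) (XT.nd (nat_lit 78) (nat_lit 152) (nat_lit 0) (XT.lf (nat_lit 0) (nat_lit 104963026129) (nat_lit 228) (nat_lit 37634971966) (nat_lit 304) (nat_lit 371541568290) (nat_lit 24) (nat_lit 5) (nat_lit 27) (nat_lit 5) (nat_lit 28) (nat_lit 5) (nat_lit 238) (nat_lit 230) (nat_lit 132)) (XT.nd (nat_lit 78) (nat_lit 0) (nat_lit 0) (XT.lf (nat_lit 0) (nat_lit 6088098767) (nat_lit 152) (nat_lit 270652706112) (nat_lit 228) (nat_lit 286077994861) (nat_lit 22) (nat_lit 5) (nat_lit 24) (nat_lit 5) (nat_lit 25) (nat_lit 5) (nat_lit 239) (nat_lit 230) (nat_lit 131)) (XT.lf (nat_lit 0) (nat_lit 445456805219) (nat_lit 228) (nat_lit 111965256895) (nat_lit 76) (nat_lit 60221714586) (nat_lit 22) (nat_lit 5) (nat_lit 25) (nat_lit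 5) (nat_lit 23) (nat_lit 5) (nat_lit 240) (nat_lit 230) (nat_lit 130))))) (XT.nd (nat_lit 156) (nat_lit 228) (nat_lit 0) (XT.nd (nat_lit 78) (nat_lit 228) (nat_lit 0) (XT.lf (nat_lit 0) (nat_lit 412672865691) (nat_lit 152) (nat_lit 244217628347) (nat_lit 228) (nat_lit 22409183445) (nat_lit 20) (nat_lit 5) (nat_lit 22) (nat_lit 5) (nat_lit 23) (nat_lit 5) (nat_lit 241) (nat_lit 230) (nat_lit 129)) (XT.lf (nat_lit 0) (nat_lit 155644777616) (nat_lit 228) (nat_lit 468920760645) (nat_lit 76) (nat_lit 124285752293) (nat_lit 17) (nat_lit 5) (nat_lit 20) (nat_lit 5) (nat_lit 18) (nat_lit 5) (nat_lit 242) (nat_lit 230) (nat_lit 128))) (XT.nd (nat_lit 78) (nat_lit 76) (nat_lit 0) (XT.lf (nat_lit 0) (nat_lit 93504437309) (nat_lit 152) (nat_lit 282580590259) (nat_lit 228) (nat_lit 451343648252) (nat_lit 15) (nat_lit 5) (nat_lit 17) (nat_lit 5) (nat_lit 18) (nat_lit 5) (nat_lit 243) (nat_lit 230)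 (nat_lit 127)) (XT.nd (nat_lit 78) (nat_lit 76) (nat_lit 0) (XT.lf (nat_lit 0) (nat_lit 646260358951) (nat_lit 228) (nat_lit 151027762863) (nat_lit 76) (nat_lit 119171023762) (nat_lit 15) (nat_lit 5) (nat_lit 18) (nat_lit 5) (nat_lit 16) (nat_lit 4) (nat_lit 244) (nat_lit 230) (nat_lit 126)) (XT.lf (nat_lit 0) (nat_lit 538421641978) (nat_lit 76) (nat_lit 439304822645) (nat_lit 152) (nat_lit 39456563391) (nat_lit 14) (nat_lit 5) (nat_lit 15) (nat_lit 5) (nat_lit 16) (nat_lit 4) (nat_lit 245) (nat_lit 230) (nat_lit 125))))))) (XT.nd (nat_lit 780) (nat_lit 76) (nat_lit 0) (XT.nd (nat_lit 390) (nat_lit 152) (nat_lit 0) (XT.nd (nat_lit 156) (nat_lit 228) (nat_lit 0) (XT.nd (nat_lit 78) (nat_lit 0) (nat_lit 0) (XT.lf (nat_lit 0) (nat_lit 212872108904) (nat_lit 152) (nat_lit 11355344961) (nat_lit 228) (nat_lit 907582953414) (nat_lit 11) (nat_lit 5) (nat_lit 13) (nat_lit 5) (nat_lit 14) (nat_lit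 5) (nat_lit 246) (nat_lit 230) (nat_lit 124)) (XT.lf (nat_lit 0) (nat_lit 551057772348) (nat_lit 228) (nat_lit 238290165751) (nat_lit 76) (nat_lit 472127570400) (nat_lit 11) (nat_lit 5) (nat_lit 14) (nat_lit 5) (nat_lit 12) (nat_lit 4) (nat_lit 247) (nat_lit 230) (nat_lit 123))) (XT.nd (nat_lit 78) (nat_lit 152) (nat_lit 0) (XT.lf (nat_lit 0) (nat_lit 572794556544) (nat_lit 76) (nat_lit 368207821624) (nat_lit 152) (nat_lit 468460817681) (nat_lit 10) (nat_lit 5) (nat_lit 11) (nat_lit 5) (nat_lit 12) (nat_lit 4) (nat_lit 248) (nat_lit 230) (nat_lit 122)) (XT.nd (nat_lit 78) (nat_lit 152) (nat_lit 0) (XT.lf (nat_lit 0) (nat_lit 1399348679946) (nat_lit 152) (nat_lit 62094468992) (nat_lit 0) (nat_lit 117413087058) (nat_lit 10) (nat_lit 5) (nat_lit 12) (nat_lit 4) (nat_lit 10) (nat_lit 4) (nat_lit 249) (nat_lit 230) (nat_lit 121)) (XT.lf (nat_lit 0) (nat_lit 176853053387) (nat_lit 152) (nat_lit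 914081282318) (nat_lit 76) (nat_lit 679893333367) (nat_lit 8) (nat_lit 5) (nat_lit 10) (nat_lit 5) (nat_lit 9) (nat_lit 4) (nat_lit 250) (nat_lit 230) (nat_lit 120))))) (XT.nd (nat_lit 156) (nat_lit 76) (nat_lit 0) (XT.nd (nat_lit 78) (nat_lit 76) (nat_lit 0) (XT.lf (nat_lit 0) (nat_lit 578195841978) (nat_lit 152) (nat_lit 79288317244) (nat_lit 76) (nat_lit 1333565100184) (nat_lit 8) (nat_lit 5) (nat_lit 10) (nat_lit 5) (nat_lit 9) (nat_lit 4) (nat_lit 251) (nat_lit 230) (nat_lit 119)) (XT.lf (nat_lit 0) (nat_lit 927100883934) (nat_lit 76) (nat_lit 134935934863) (nat_lit 152) (nat_lit 1180483527959) (nat_lit 7) (nat_lit 5) (nat_lit 8) (nat_lit 5) (nat_lit 9) (nat_lit 4) (nat_lit 252) (nat_lit 230) (nat_lit 118))) (XT.nd (nat_lit 78) (nat_lit 76) (nat_lit 0) (XT.lf (nat_lit 0) (nat_lit 1632029447517) (nat_lit 152) (nat_lit 453544685664) (nat_lit 0) (nat_lit 445051923648) (nat_lit 7) (nat_lit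 5) (nat_lit 9) (nat_lit 4) (nat_lit 7) (nat_lit 4) (nat_lit 253) (nat_lit 230) (nat_lit 117)) (XT.nd (nat_lit 78) (nat_lit 0) (nat_lit 0) (XT.lf (nat_lit 0) (nat_lit 561992409139) (nat_lit 76) (nat_lit 1742776463717) (nat_lit 76) (nat_lit 555798918420) (nat_lit 6) (nat_lit 4) (nat_lit 7) (nat_lit 5) (nat_lit 7) (nat_lit 4) (nat_lit 254) (nat_lit 230) (nat_lit 116)) (XT.lf (nat_lit 0) (nat_lit 1757325318972) (nat_lit 76) (nat_lit 1334298337658) (nat_lit 76) (nat_lit 147320773728) (nat_lit 6) (nat_lit 4) (nat_lit 7) (nat_lit 5) (nat_lit 7) (nat_lit 4) (nat_lit 255) (nat_lit 230) (nat_lit 115)))))) (XT.nd (nat_lit 29640) (nat_lit 0) (nat_lit 1292) (XT.nd (nat_lit 29406) (nat_lit 0) (nat_lit 2432) (XT.nd (nat_lit 29328) (nat_lit 0) (nat_lit 2356) (XT.lf (nat_lit 0) (nat_lit 306299864930) (nat_lit 152) (nat_lit 549873861077) (nat_lit 76) (nat_lit 2817283486627) (nat_lit 5) (nat_lit 5) (nat_lit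 7) (nat_lit 5) (nat_lit 6) (nat_lit 4) (nat_lit 256) (nat_lit 230) (nat_lit 114)) (XT.lf (nat_lit 0) (nat_lit 57539370198) (nat_lit 532) (nat_lit 49333549715) (nat_lit 532) (nat_lit 49333549715) (nat_lit 36) (nat_lit 3) (nat_lit 43) (nat_lit 3) (nat_lit 43) (nat_lit 5) (nat_lit 231) (nat_lit 231) (nat_lit 138))) (XT.nd (nat_lit 78) (nat_lit 0) (nat_lit 0) (XT.lf (nat_lit 0) (nat_lit 128325911252) (nat_lit 456) (nat_lit 176584434889) (nat_lit 532) (nat_lit 30564256639) (nat_lit 37) (nat_lit 5) (nat_lit 43) (nat_lit 5) (nat_lit 44) (nat_lit 5) (nat_lit 232) (nat_lit 231) (nat_lit 137)) (XT.nd (nat_lit 78) (nat_lit 0) (nat_lit 76) (XT.lf (nat_lit 76) (nat_lit 98217090686) (nat_lit 0) (nat_lit 56563878783) (nat_lit 532) (nat_lit 206316882436) (nat_lit 38) (nat_lit 5) (nat_lit 37) (nat_lit 5) (nat_lit 44) (nat_lit 5) (nat_lit 233) (nat_lit 231) (nat_lit 136)) (XT.lf (nat_lit 76) (nat_lit 30671308157)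 (nat_lit 0) (nat_lit 166053341921) (nat_lit 532) (nat_lit 192918310111) (nat_lit 39) (nat_lit 5) (nat_lit 38) (nat_lit 5) (nat_lit 45) (nat_lit 5) (nat_lit 234) (nat_lit 231) (nat_lit 135))))) (XT.nd (nat_lit 234) (nat_lit 608) (nat_lit 0) (XT.nd (nat_lit 78) (nat_lit 684) (nat_lit 0) (XT.lf (nat_lit 0) (nat_lit 257225829716) (nat_lit 456) (nat_lit 42294847734) (nat_lit 76) (nat_lit 121967882277) (nat_lit 39) (nat_lit 5) (nat_lit 45) (nat_lit 5) (nat_lit 40) (nat_lit 5) (nat_lit 235) (nat_lit 231) (nat_lit 134)) (XT.nd (nat_lit 78) (nat_lit 228) (nat_lit 0) (XT.lf (nat_lit 0) (nat_lit 333998702632) (nat_lit 456) (nat_lit 5428655881) (nat_lit 532) (nat_lit 117673627573) (nat_lit 33) (nat_lit 5) (nat_lit 39) (nat_lit 5) (nat_lit 40) (nat_lit 5) (nat_lit 236) (nat_lit 231) (nat_lit 133)) (XT.lf (nat_lit 0) (nat_lit 277170560074) (nat_lit 228) (nat_lit 172721051678) (nat_lit 304) (nat_lit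 46889065617) (nat_lit 30) (nat_lit 5) (nat_lit 33) (nat_lit 5) (nat_lit 34) (nat_lit 5) (nat_lit 237) (nat_lit 231) (nat_lit 132)))) (XT.nd (nat_lit 78) (nat_lit 380) (nat_lit 0) (XT.lf (nat_lit 0) (nat_lit 45825100889) (nat_lit 228) (nat_lit 333371800584) (nat_lit 76) (nat_lit 162105945165) (nat_lit 27) (nat_lit 5) (nat_lit 30) (nat_lit 5) (nat_lit 28) (nat_lit 5) (nat_lit 238) (nat_lit 231) (nat_lit 131)) (XT.nd (nat_lit 78) (nat_lit 152) (nat_lit 0) (XT.lf (nat_lit 0) (nat_lit 120708746423) (nat_lit 228) (nat_lit 43280001395) (nat_lit 304) (nat_lit 427271665153) (nat_lit 24) (nat_lit 5) (nat_lit 27) (nat_lit 5) (nat_lit 28) (nat_lit 5) (nat_lit 239) (nat_lit 231) (nat_lit 130)) (XT.lf (nat_lit 0) (nat_lit 7002548893) (nat_lit 152) (nat_lit 311250324002) (nat_lit 228) (nat_lit 328988667220) (nat_lit 22) (nat_lit 5) (nat_lit 24) (nat_lit 5) (nat_lit 25) (nat_lit 5) (nat_lit 240) (nat_lit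 231) (nat_lit 129))))))))
noncomputable def xc58 : XT := (XT.nd (nat_lit 30888) (nat_lit 0) (nat_lit 76) (XT.nd (nat_lit 780) (nat_lit 304) (nat_lit 0) (XT.nd (nat_lit 390) (nat_lit 380) (nat_lit 0) (XT.nd (nat_lit 156) (nat_lit 380) (nat_lit 0) (XT.nd (nat_lit 78) (nat_lit 152) (nat_lit 0) (XT.lf (nat_lit 0) (nat_lit 512276155751) (nat_lit 228) (nat_lit 128758908065) (nat_lit 76) (nat_lit 69255209702) (nat_lit 22) (nat_lit 5) (nat_lit 25) (nat_lit 5) (nat_lit 23) (nat_lit 5) (nat_lit 241) (nat_lit 231) (nat_lit 128)) (XT.lf (nat_lit 0) (nat_lit 474574836636) (nat_lit 152) (nat_lit 280849978067) (nat_lit 228) (nat_lit 25769751802) (nat_lit 20) (nat_lit 5) (nat_lit 22) (nat_lit 5) (nat_lit 23) (nat_lit 5) (nat_lit 242) (nat_lit 231) (nat_lit 127))) (XT.nd (nat_lit 78) (nat_lit 152) (nat_lit 0) (XT.lf (nat_lit 0) (nat_lit 178992193765) (nat_lit 228) (nat_lit 539257831807) (nat_lit 76) (nat_lit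 142928900290) (nat_lit 17) (nat_lit 5) (nat_lit 20) (nat_lit 5) (nat_lit 18) (nat_lit 5) (nat_lit 243) (nat_lit 231) (nat_lit 126)) (XT.nd (nat_lit 78) (nat_lit 0) (nat_lit 0) (XT.lf (nat_lit 0) (nat_lit 107531057561) (nat_lit 152) (nat_lit 324967355368) (nat_lit 228) (nat_lit 519044511754) (nat_lit 15) (nat_lit 5) (nat_lit 17) (nat_lit 5) (nat_lit 18) (nat_lit 5) (nat_lit 244) (nat_lit 231) (nat_lit 125)) (XT.lf (nat_lit 0) (nat_lit 743199968450) (nat_lit 228) (nat_lit 173681058259) (nat_lit 76) (nat_lit 137046944501) (nat_lit 15) (nat_lit 5) (nat_lit 18) (nat_lit 5) (nat_lit 16) (nat_lit 4) (nat_lit 245) (nat_lit 231) (nat_lit 124))))) (XT.nd (nat_lit 156) (nat_lit 76) (nat_lit 0) (XT.nd (nat_lit 78) (nat_lit 228) (nat_lit 0) (XT.lf (nat_lit 0) (nat_lit 619185683749) (nat_lit 76) (nat_lit 505200252879) (nat_lit 152) (nat_lit 45374503883) (nat_lit 14) (nat_lit 5) (nat_lit 15) (nat_lit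 5) (nat_lit 16) (nat_lit 4) (nat_lit 246) (nat_lit 231) (nat_lit 123)) (XT.lf (nat_lit 0) (nat_lit 244803679580) (nat_lit 152) (nat_lit 13058359900) (nat_lit 228) (nat_lit 1043719890262) (nat_lit 11) (nat_lit 5) (nat_lit 13) (nat_lit 5) (nat_lit 14) (nat_lit 5) (nat_lit 247) (nat_lit 231) (nat_lit 122))) (XT.nd (nat_lit 78) (nat_lit 76) (nat_lit 0) (XT.lf (nat_lit 0) (nat_lit 633716850751) (nat_lit 228) (nat_lit 274033007073) (nat_lit 76) (nat_lit 542946942880) (nat_lit 11) (nat_lit 5) (nat_lit 14) (nat_lit 5) (nat_lit 12) (nat_lit 4) (nat_lit 248) (nat_lit 231) (nat_lit 121)) (XT.nd (nat_lit 78) (nat_lit 0) (nat_lit 0) (XT.lf (nat_lit 0) (nat_lit 658714365708) (nat_lit 76) (nat_lit 423438742973) (nat_lit 152) (nat_lit 538729535717) (nat_lit 10) (nat_lit 5) (nat_lit 11) (nat_lit 5) (nat_lit 12) (nat_lit 4) (nat_lit 249) (nat_lit 231) (nat_lit 120)) (XT.lf (nat_lit 0) (nat_lit 1609251312238)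 (nat_lit 152) (nat_lit 71408073730) (nat_lit 0) (nat_lit 135025258199) (nat_lit 10) (nat_lit 5) (nat_lit 12) (nat_lit 4) (nat_lit 10) (nat_lit 4) (nat_lit 250) (nat_lit 231) (nat_lit 119)))))) (XT.nd (nat_lit 390) (nat_lit 0) (nat_lit 0) (XT.nd (nat_lit 156) (nat_lit 152) (nat_lit 0) (XT.nd (nat_lit 78) (nat_lit 0) (nat_lit 0) (XT.lf (nat_lit 0) (nat_lit 203381319513) (nat_lit 152) (nat_lit 1051192940056) (nat_lit 76) (nat_lit 781877534565) (nat_lit 8) (nat_lit 5) (nat_lit 10) (nat_lit 5) (nat_lit 9) (nat_lit 4) (nat_lit 251) (nat_lit 231) (nat_lit 118)) (XT.lf (nat_lit 0) (nat_lit 664925486204) (nat_lit 152) (nat_lit 91181099953) (nat_lit 76) (nat_lit 1533600040162) (nat_lit 8) (nat_lit 5) (nat_lit 10) (nat_lit 5) (nat_lit 9) (nat_lit 4) (nat_lit 252) (nat_lit 231) (nat_lit 117))) (XT.nd (nat_lit 78) (nat_lit 76) (nat_lit 0) (XT.lf (nat_lit 0) (nat_lit 1066166442052) (nat_lit 76) (nat_lit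 155176142780) (nat_lit 152) (nat_lit 1357555793989) (nat_lit 7) (nat_lit 5) (nat_lit 8) (nat_lit 5) (nat_lit 9) (nat_lit 4) (nat_lit 253) (nat_lit 231) (nat_lit 116)) (XT.nd (nat_lit 78) (nat_lit 76) (nat_lit 0) (XT.lf (nat_lit 0) (nat_lit 1876834079950) (nat_lit 152) (nat_lit 521576004956) (nat_lit 0) (nat_lit 511809862798) (nat_lit 7) (nat_lit 5) (nat_lit 9) (nat_lit 4) (nat_lit 7) (nat_lit 4) (nat_lit 254) (nat_lit 231) (nat_lit 115)) (XT.lf (nat_lit 0) (nat_lit 646291621601) (nat_lit 76) (nat_lit 2004192777849) (nat_lit 76) (nat_lit 639168544494) (nat_lit 6) (nat_lit 4) (nat_lit 7) (nat_lit 5) (nat_lit 7) (nat_lit 4) (nat_lit 255) (nat_lit 231) (nat_lit 114))))) (XT.nd (nat_lit 29484) (nat_lit 0) (nat_lit 2356) (XT.nd (nat_lit 29406) (nat_lit 0) (nat_lit 2280) (XT.lf (nat_lit 0) (nat_lit 2020924422115) (nat_lit 76) (nat_lit 1534442953154) (nat_lit 76) (nat_lit 169418705709) (nat_lit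 6) (nat_lit 4) (nat_lit 7) (nat_lit 5) (nat_lit 7) (nat_lit 4) (nat_lit 256) (nat_lit 231) (nat_lit 113)) (XT.lf (nat_lit 0) (nat_lit 66171307336) (nat_lit 532) (nat_lit 56733022373) (nat_lit 532) (nat_lit 56733022373) (nat_lit 36) (nat_lit 3) (nat_lit 43) (nat_lit 3) (nat_lit 43) (nat_lit 5) (nat_lit 232) (nat_lit 232) (nat_lit 136))) (XT.nd (nat_lit 78) (nat_lit 0) (nat_lit 0) (XT.lf (nat_lit 0) (nat_lit 147576597595) (nat_lit 456) (nat_lit 203070901202) (nat_lit 532) (nat_lit 35148140930) (nat_lit 37) (nat_lit 5) (nat_lit 43) (nat_lit 5) (nat_lit 44) (nat_lit 5) (nat_lit 233) (nat_lit 232) (nat_lit 135)) (XT.nd (nat_lit 78) (nat_lit 0) (nat_lit 76) (XT.lf (nat_lit 76) (nat_lit 112950751727) (nat_lit 0) (nat_lit 65048954474) (nat_lit 532) (nat_lit 237262687927) (nat_lit 38) (nat_lit 5) (nat_lit 37) (nat_lit 5) (nat_lit 44) (nat_lit 5) (nat_lit 234) (nat_lit 232) (nat_lit 134)) (XT.lf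 (nat_lit 76) (nat_lit 35273143886) (nat_lit 0) (nat_lit 190961604529) (nat_lit 532) (nat_lit 221854536555) (nat_lit 39) (nat_lit 5) (nat_lit 38) (nat_lit 5) (nat_lit 45) (nat_lit 5) (nat_lit 235) (nat_lit 232) (nat_lit 133))))))) (XT.nd (nat_lit 780) (nat_lit 608) (nat_lit 0) (XT.nd (nat_lit 390) (nat_lit 684) (nat_lit 0) (XT.nd (nat_lit 156) (nat_lit 684) (nat_lit 0) (XT.nd (nat_lit 78) (nat_lit 456) (nat_lit 0) (XT.lf (nat_lit 0) (nat_lit 295810916818) (nat_lit 456) (nat_lit 48637974862) (nat_lit 76) (nat_lit 140262848751) (nat_lit 39) (nat_lit 5) (nat_lit 45) (nat_lit 5) (nat_lit 40) (nat_lit 5) (nat_lit 236) (nat_lit 232) (nat_lit 132)) (XT.lf (nat_lit 0) (nat_lit 384099514947) (nat_lit 456) (nat_lit 6243026032) (nat_lit 532) (nat_lit 135323501295) (nat_lit 33) (nat_lit 5) (nat_lit 39) (nat_lit 5) (nat_lit 40) (nat_lit 5) (nat_lit 237) (nat_lit 232) (nat_lit 131))) (XT.nd (nat_lit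 78) (nat_lit 456) (nat_lit 0) (XT.lf (nat_lit 0) (nat_lit 318747151316) (nat_lit 228) (nat_lit 198629162914) (nat_lit 304) (nat_lit 53921383166) (nat_lit 30) (nat_lit 5) (nat_lit 33) (nat_lit 5) (nat_lit 34) (nat_lit 5) (nat_lit 238) (nat_lit 232) (nat_lit 130)) (XT.nd (nat_lit 78) (nat_lit 228) (nat_lit 0) (XT.lf (nat_lit 0) (nat_lit 52699752590) (nat_lit 228) (nat_lit 383376524563) (nat_lit 76) (nat_lit 186421921755) (nat_lit 27) (nat_lit 5) (nat_lit 30) (nat_lit 5) (nat_lit 28) (nat_lit 5) (nat_lit 239) (nat_lit 232) (nat_lit 129)) (XT.lf (nat_lit 0) (nat_lit 138816015948) (nat_lit 228) (nat_lit 49771838000) (nat_lit 304) (nat_lit 491361554146) (nat_lit 24) (nat_lit 5) (nat_lit 27) (nat_lit 5) (nat_lit 28) (nat_lit 5) (nat_lit 240) (nat_lit 232) (nat_lit 128))))) (XT.nd (nat_lit 156) (nat_lit 532) (nat_lit 0) (XT.nd (nat_lit 78) (nat_lit 0) (nat_lit 0) (XT.lf (nat_lit 0) (nat_lit 8053865301)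 (nat_lit 152) (nat_lit 357937654814) (nat_lit 228) (nat_lit 378336190842) (nat_lit 22) (nat_lit 5) (nat_lit 24) (nat_lit 5) (nat_lit 25) (nat_lit 5) (nat_lit 241) (nat_lit 232) (nat_lit 127)) (XT.lf (nat_lit 0) (nat_lit 589118206524) (nat_lit 228) (nat_lit 148071884264) (nat_lit 76) (nat_lit 79643671066) (nat_lit 22) (nat_lit 5) (nat_lit 25) (nat_lit 5) (nat_lit 23) (nat_lit 5) (nat_lit 242) (nat_lit 232) (nat_lit 126))) (XT.nd (nat_lit 78) (nat_lit 380) (nat_lit 0) (XT.lf (nat_lit 0) (nat_lit 545761849347) (nat_lit 152) (nat_lit 322977252069) (nat_lit 228) (nat_lit 29634602732) (nat_lit 20) (nat_lit 5) (nat_lit 22) (nat_lit 5) (nat_lit 23) (nat_lit 5) (nat_lit 243) (nat_lit 232) (nat_lit 125)) (XT.nd (nat_lit 78) (nat_lit 152) (nat_lit 0) (XT.lf (nat_lit 0) (nat_lit 205841551758) (nat_lit 228) (nat_lit 620145717970) (nat_lit 76) (nat_lit 164368450951) (nat_lit 17) (nat_lit 5) (nat_lit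 20) (nat_lit 5) (nat_lit 18) (nat_lit 5) (nat_lit 244) (nat_lit 232) (nat_lit 124)) (XT.lf (nat_lit 0) (nat_lit 123661438052) (nat_lit 152) (nat_lit 373712214114) (nat_lit 228) (nat_lit 596900671513) (nat_lit 15) (nat_lit 5) (nat_lit 17) (nat_lit 5) (nat_lit 18) (nat_lit 5) (nat_lit 245) (nat_lit 232) (nat_lit 123)))))) (XT.nd (nat_lit 390) (nat_lit 228) (nat_lit 0) (XT.nd (nat_lit 156) (nat_lit 304) (nat_lit 0) (XT.nd (nat_lit 78) (nat_lit 76) (nat_lit 0) (XT.lf (nat_lit 0) (nat_lit 854680383874) (nat_lit 228) (nat_lit 199732559885) (nat_lit 76) (nat_lit 157604188198) (nat_lit 15) (nat_lit 5) (nat_lit 18) (nat_lit 5) (nat_lit 16) (nat_lit 4) (nat_lit 246) (nat_lit 232) (nat_lit 122)) (XT.lf (nat_lit 0) (nat_lit 712064137804) (nat_lit 76) (nat_lit 580980069138) (nat_lit 152) (nat_lit 52180268111) (nat_lit 14) (nat_lit 5) (nat_lit 15) (nat_lit 5) (nat_lit 16) (nat_lit 4) (nat_lit 247)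 (nat_lit 232) (nat_lit 121))) (XT.nd (nat_lit 78) (nat_lit 76) (nat_lit 0) (XT.lf (nat_lit 0) (nat_lit 281524801908) (nat_lit 152) (nat_lit 15016897020) (nat_lit 228) (nat_lit 1200277491068) (nat_lit 11) (nat_lit 5) (nat_lit 13) (nat_lit 5) (nat_lit 14) (nat_lit 5) (nat_lit 248) (nat_lit 232) (nat_lit 120)) (XT.nd (nat_lit 78) (nat_lit 76) (nat_lit 0) (XT.lf (nat_lit 0) (nat_lit 728774690312) (nat_lit 228) (nat_lit 315137441280) (nat_lit 76) (nat_lit 624389163457) (nat_lit 11) (nat_lit 5) (nat_lit 14) (nat_lit 5) (nat_lit 12) (nat_lit 4) (nat_lit 249) (nat_lit 232) (nat_lit 119)) (XT.lf (nat_lit 0) (nat_lit 757521993670) (nat_lit 76) (nat_lit 486954363951) (nat_lit 152) (nat_lit 619538660125) (nat_lit 10) (nat_lit 5) (nat_lit 11) (nat_lit 5) (nat_lit 12) (nat_lit 4) (nat_lit 250) (nat_lit 232) (nat_lit 118))))) (XT.nd (nat_lit 156) (nat_lit 76) (nat_lit 0) (XT.nd (nat_lit 78) (nat_lit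 152) (nat_lit 0) (XT.lf (nat_lit 0) (nat_lit 1850639258829) (nat_lit 152) (nat_lit 82118857105) (nat_lit 0) (nat_lit 155279204268) (nat_lit 10) (nat_lit 5) (nat_lit 12) (nat_lit 4) (nat_lit 10) (nat_lit 4) (nat_lit 251) (nat_lit 232) (nat_lit 117)) (XT.lf (nat_lit 0) (nat_lit 233888750422) (nat_lit 152) (nat_lit 1208871476823) (nat_lit 76) (nat_lit 899159316880) (nat_lit 8) (nat_lit 5) (nat_lit 10) (nat_lit 5) (nat_lit 9) (nat_lit 4) (nat_lit 252) (nat_lit 232) (nat_lit 116))) (XT.nd (nat_lit 78) (nat_lit 76) (nat_lit 0) (XT.lf (nat_lit 0) (nat_lit 764664511727) (nat_lit 152) (nat_lit 104857913432) (nat_lit 76) (nat_lit 1763640178473) (nat_lit 8) (nat_lit 5) (nat_lit 10) (nat_lit 5) (nat_lit 9) (nat_lit 4) (nat_lit 253) (nat_lit 232) (nat_lit 115)) (XT.nd (nat_lit 78) (nat_lit 0) (nat_lit 0) (XT.lf (nat_lit 0) (nat_lit 1226091730120) (nat_lit 76) (nat_lit 178452426343) (nat_lit 152) (nat_lit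 1561188964098) (nat_lit 7) (nat_lit 5) (nat_lit 8) (nat_lit 5) (nat_lit 9) (nat_lit 4) (nat_lit 254) (nat_lit 232) (nat_lit 114)) (XT.lf (nat_lit 0) (nat_lit 2158359354744) (nat_lit 152) (nat_lit 599812115675) (nat_lit 0) (nat_lit 588581456094) (nat_lit 7) (nat_lit 5) (nat_lit 9) (nat_lit 4) (nat_lit 7) (nat_lit 4) (nat_lit 255) (nat_lit 232) (nat_lit 113))))))))
noncomputable def xc59 : XT := (XT.nd (nat_lit 1560) (nat_lit 228) (nat_lit 0) (XT.nd (nat_lit 780) (nat_lit 912) (nat_lit 0) (XT.nd (nat_lit 390) (nat_lit 1064) (nat_lit 0) (XT.nd (nat_lit 156) (nat_lit 0) (nat_lit 76) (XT.nd (nat_lit 78) (nat_lit 0) (nat_lit 76) (XT.lf (nat_lit 0) (nat_lit 76097783481) (nat_lit 532) (nat_lit 65242552441) (nat_lit 532) (nat_lit 65242552441) (nat_lit 36) (nat_lit 3) (nat_lit 43) (nat_lit 3) (nat_lit 43) (nat_lit 5) (nat_lit 233) (nat_lit 233) (nat_lit 134)) (XT.lf (nat_lit 0) (nat_lit 169714448033)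 (nat_lit 456) (nat_lit 233530629827) (nat_lit 532) (nat_lit 40419791782) (nat_lit 37) (nat_lit 5) (nat_lit 43) (nat_lit 5) (nat_lit 44) (nat_lit 5) (nat_lit 234) (nat_lit 233) (nat_lit 133))) (XT.nd (nat_lit 78) (nat_lit 0) (nat_lit 76) (XT.lf (nat_lit 76) (nat_lit 129894194307) (nat_lit 0) (nat_lit 74806671085) (nat_lit 532) (nat_lit 272850785351) (nat_lit 38) (nat_lit 5) (nat_lit 37) (nat_lit 5) (nat_lit 44) (nat_lit 5) (nat_lit 235) (nat_lit 233) (nat_lit 132)) (XT.nd (nat_lit 78) (nat_lit 0) (nat_lit 76) (XT.lf (nat_lit 76) (nat_lit 40564977099) (nat_lit 0) (nat_lit 219606042804) (nat_lit 532) (nat_lit 255131567646) (nat_lit 39) (nat_lit 5) (nat_lit 38) (nat_lit 5) (nat_lit 45) (nat_lit 5) (nat_lit 236) (nat_lit 233) (nat_lit 131)) (XT.lf (nat_lit 0) (nat_lit 340183471274) (nat_lit 456) (nat_lit 55932839309) (nat_lit 76) (nat_lit 161302112836) (nat_lit 39) (nat_lit 5) (nat_lit 45)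 (nat_lit 5) (nat_lit 40) (nat_lit 5) (nat_lit 237) (nat_lit 233) (nat_lit 130))))) (XT.nd (nat_lit 156) (nat_lit 608) (nat_lit 0) (XT.nd (nat_lit 78) (nat_lit 228) (nat_lit 0) (XT.lf (nat_lit 0) (nat_lit 441715203566) (nat_lit 456) (nat_lit 7179534205) (nat_lit 532) (nat_lit 155621141487) (nat_lit 33) (nat_lit 5) (nat_lit 39) (nat_lit 5) (nat_lit 40) (nat_lit 5) (nat_lit 238) (nat_lit 233) (nat_lit 129)) (XT.lf (nat_lit 0) (nat_lit 366559985624) (nat_lit 228) (nat_lit 228423502178) (nat_lit 304) (nat_lit 62008802518) (nat_lit 30) (nat_lit 5) (nat_lit 33) (nat_lit 5) (nat_lit 34) (nat_lit 5) (nat_lit 239) (nat_lit 233) (nat_lit 128))) (XT.nd (nat_lit 78) (nat_lit 380) (nat_lit 0) (XT.lf (nat_lit 0) (nat_lit 60605385851) (nat_lit 228) (nat_lit 440882212238) (nat_lit 76) (nat_lit 214385274150) (nat_lit 27) (nat_lit 5) (nat_lit 30) (nat_lit 5) (nat_lit 28) (nat_lit 5) (nat_lit 240) (nat_lit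 233) (nat_lit 127)) (XT.nd (nat_lit 78) (nat_lit 152) (nat_lit 0) (XT.lf (nat_lit 0) (nat_lit 159639142394) (nat_lit 228) (nat_lit 57237489992) (nat_lit 304) (nat_lit 565065136394) (nat_lit 24) (nat_lit 5) (nat_lit 27) (nat_lit 5) (nat_lit 28) (nat_lit 5) (nat_lit 241) (nat_lit 233) (nat_lit 126)) (XT.lf (nat_lit 0) (nat_lit 9262651389) (nat_lit 152) (nat_lit 411628138356) (nat_lit 228) (nat_lit 435086032352) (nat_lit 22) (nat_lit 5) (nat_lit 24) (nat_lit 5) (nat_lit 25) (nat_lit 5) (nat_lit 242) (nat_lit 233) (nat_lit 125)))))) (XT.nd (nat_lit 390) (nat_lit 380) (nat_lit 0) (XT.nd (nat_lit 156) (nat_lit 380) (nat_lit 0) (XT.nd (nat_lit 78) (nat_lit 152) (nat_lit 0) (XT.lf (nat_lit 0) (nat_lit 677486411915) (nat_lit 228) (nat_lit 170282016612) (nat_lit 76) (nat_lit 91590357763) (nat_lit 22) (nat_lit 5) (nat_lit 25) (nat_lit 5) (nat_lit 23) (nat_lit 5) (nat_lit 243) (nat_lit 233) (nat_lit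 124)) (XT.lf (nat_lit 0) (nat_lit 627626721997) (nat_lit 152) (nat_lit 371423671479) (nat_lit 228) (nat_lit 34079330502) (nat_lit 20) (nat_lit 5) (nat_lit 22) (nat_lit 5) (nat_lit 23) (nat_lit 5) (nat_lit 244) (nat_lit 233) (nat_lit 123))) (XT.nd (nat_lit 78) (nat_lit 152) (nat_lit 0) (XT.lf (nat_lit 0) (nat_lit 236718184467) (nat_lit 228) (nat_lit 713166979364) (nat_lit 76) (nat_lit 189023881631) (nat_lit 17) (nat_lit 5) (nat_lit 20) (nat_lit 5) (nat_lit 18) (nat_lit 5) (nat_lit 245) (nat_lit 233) (nat_lit 122)) (XT.nd (nat_lit 78) (nat_lit 0) (nat_lit 0) (XT.lf (nat_lit 0) (nat_lit 142211199588) (nat_lit 152) (nat_lit 429768861310) (nat_lit 228) (nat_lit 686435381312) (nat_lit 15) (nat_lit 5) (nat_lit 17) (nat_lit 5) (nat_lit 18) (nat_lit 5) (nat_lit 246) (nat_lit 233) (nat_lit 121)) (XT.lf (nat_lit 0) (nat_lit 982882759153) (nat_lit 228) (nat_lit 229691946995) (nat_lit 76) (nat_lit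 181244969185) (nat_lit 15) (nat_lit 5) (nat_lit 18) (nat_lit 5) (nat_lit 16) (nat_lit 4) (nat_lit 247) (nat_lit 233) (nat_lit 120))))) (XT.nd (nat_lit 156) (nat_lit 76) (nat_lit 0) (XT.nd (nat_lit 78) (nat_lit 228) (nat_lit 0) (XT.lf (nat_lit 0) (nat_lit 818874213289) (nat_lit 76) (nat_lit 668126911891) (nat_lit 152) (nat_lit 60006997284) (nat_lit 14) (nat_lit 5) (nat_lit 15) (nat_lit 5) (nat_lit 16) (nat_lit 4) (nat_lit 248) (nat_lit 233) (nat_lit 119)) (XT.lf (nat_lit 0) (nat_lit 323753953491) (nat_lit 152) (nat_lit 17269267591) (nat_lit 228) (nat_lit 1380318825328) (nat_lit 11) (nat_lit 5) (nat_lit 13) (nat_lit 5) (nat_lit 14) (nat_lit 5) (nat_lit 249) (nat_lit 233) (nat_lit 118))) (XT.nd (nat_lit 78) (nat_lit 76) (nat_lit 0) (XT.lf (nat_lit 0) (nat_lit 838091129736) (nat_lit 228) (nat_lit 362407666655) (nat_lit 76) (nat_lit 718047673435) (nat_lit 11) (nat_lit 5) (nat_lit 14) (nat_lit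 5) (nat_lit 12) (nat_lit 4) (nat_lit 250) (nat_lit 233) (nat_lit 117)) (XT.nd (nat_lit 78) (nat_lit 0) (nat_lit 0) (XT.lf (nat_lit 0) (nat_lit 871150650456) (nat_lit 76) (nat_lit 559997374522) (nat_lit 152) (nat_lit 712469227803) (nat_lit 10) (nat_lit 5) (nat_lit 11) (nat_lit 5) (nat_lit 12) (nat_lit 4) (nat_lit 251) (nat_lit 233) (nat_lit 116)) (XT.lf (nat_lit 0) (nat_lit 2128235336504) (nat_lit 152) (nat_lit 94436362281) (nat_lit 0) (nat_lit 178571203879) (nat_lit 10) (nat_lit 5) (nat_lit 12) (nat_lit 4) (nat_lit 10) (nat_lit 4) (nat_lit 252) (nat_lit 233) (nat_lit 115))))))) (XT.nd (nat_lit 30342) (nat_lit 0) (nat_lit 304) (XT.nd (nat_lit 29952) (nat_lit 0) (nat_lit 1748) (XT.nd (nat_lit 156) (nat_lit 76) (nat_lit 0) (XT.nd (nat_lit 78) (nat_lit 0) (nat_lit 0) (XT.lf (nat_lit 0) (nat_lit 268972239153) (nat_lit 152) (nat_lit 1390201892682) (nat_lit 76) (nat_lit 1034033329445) (nat_lit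 8) (nat_lit 5) (nat_lit 10) (nat_lit 5) (nat_lit 9) (nat_lit 4) (nat_lit 253) (nat_lit 233) (nat_lit 114)) (XT.lf (nat_lit 0) (nat_lit 879364341676) (nat_lit 152) (nat_lit 120586334652) (nat_lit 76) (nat_lit 2028186305272) (nat_lit 8) (nat_lit 5) (nat_lit 10) (nat_lit 5) (nat_lit 9) (nat_lit 4) (nat_lit 254) (nat_lit 233) (nat_lit 113))) (XT.nd (nat_lit 29640) (nat_lit 0) (nat_lit 2204) (XT.lf (nat_lit 0) (nat_lit 1410005732935) (nat_lit 76) (nat_lit 205220186057) (nat_lit 152) (nat_lit 1795367158248) (nat_lit 7) (nat_lit 5) (nat_lit 8) (nat_lit 5) (nat_lit 9) (nat_lit 4) (nat_lit 255) (nat_lit 233) (nat_lit 112)) (XT.nd (nat_lit 78) (nat_lit 0) (nat_lit 76) (XT.lf (nat_lit 0) (nat_lit 87513040829) (nat_lit 532) (nat_lit 75028615240) (nat_lit 532) (nat_lit 75028615240) (nat_lit 36) (nat_lit 3) (nat_lit 43) (nat_lit 3) (nat_lit 43) (nat_lit 5) (nat_lit 234) (nat_lit 234) (nat_lit 132))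 (XT.lf (nat_lit 0) (nat_lit 195172644196) (nat_lit 456) (nat_lit 268559538814) (nat_lit 532) (nat_lit 46482329331) (nat_lit 37) (nat_lit 5) (nat_lit 43) (nat_lit 5) (nat_lit 44) (nat_lit 5) (nat_lit 235) (nat_lit 234) (nat_lit 131))))) (XT.nd (nat_lit 156) (nat_lit 532) (nat_lit 0) (XT.nd (nat_lit 78) (nat_lit 0) (nat_lit 76) (XT.lf (nat_lit 76) (nat_lit 149378950916) (nat_lit 0) (nat_lit 86027954121) (nat_lit 532) (nat_lit 313777415808) (nat_lit 38) (nat_lit 5) (nat_lit 37) (nat_lit 5) (nat_lit 44) (nat_lit 5) (nat_lit 236) (nat_lit 234) (nat_lit 130)) (XT.lf (nat_lit 76) (nat_lit 46650375180) (nat_lit 0) (nat_lit 252547098635) (nat_lit 532) (nat_lit 293400433686) (nat_lit 39) (nat_lit 5) (nat_lit 38) (nat_lit 5) (nat_lit 45) (nat_lit 5) (nat_lit 237) (nat_lit 234) (nat_lit 129))) (XT.nd (nat_lit 78) (nat_lit 684) (nat_lit 0) (XT.lf (nat_lit 0) (nat_lit 391211685298) (nat_lit 456) (nat_lit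 64322136258) (nat_lit 76) (nat_lit 185497306339) (nat_lit 39) (nat_lit 5) (nat_lit 45) (nat_lit 5) (nat_lit 40) (nat_lit 5) (nat_lit 238) (nat_lit 234) (nat_lit 128)) (XT.nd (nat_lit 78) (nat_lit 228) (nat_lit 0) (XT.lf (nat_lit 0) (nat_lit 507973059810) (nat_lit 456) (nat_lit 8256505371) (nat_lit 532) (nat_lit 178963643522) (nat_lit 33) (nat_lit 5) (nat_lit 39) (nat_lit 5) (nat_lit 40) (nat_lit 5) (nat_lit 239) (nat_lit 234) (nat_lit 127)) (XT.lf (nat_lit 0) (nat_lit 421544559355) (nat_lit 228) (nat_lit 262687000909) (nat_lit 304) (nat_lit 71309526962) (nat_lit 30) (nat_lit 5) (nat_lit 33) (nat_lit 5) (nat_lit 34) (nat_lit 5) (nat_lit 240) (nat_lit 234) (nat_lit 126)))))) (XT.nd (nat_lit 390) (nat_lit 684) (nat_lit 0) (XT.nd (nat_lit 156) (nat_lit 304) (nat_lit 0) (XT.nd (nat_lit 78) (nat_lit 228) (nat_lit 0) (XT.lf (nat_lit 0) (nat_lit 69696700627) (nat_lit 228) (nat_lit 507013945958)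 (nat_lit 76) (nat_lit 246543113766) (nat_lit 27) (nat_lit 5) (nat_lit 30) (nat_lit 5) (nat_lit 28) (nat_lit 5) (nat_lit 241) (nat_lit 234) (nat_lit 125)) (XT.lf (nat_lit 0) (nat_lit 183585561242) (nat_lit 228) (nat_lit 65823019950) (nat_lit 304) (nat_lit 649824414700) (nat_lit 24) (nat_lit 5) (nat_lit 27) (nat_lit 5) (nat_lit 28) (nat_lit 5) (nat_lit 242) (nat_lit 234) (nat_lit 124))) (XT.nd (nat_lit 78) (nat_lit 152) (nat_lit 0) (XT.lf (nat_lit 0) (nat_lit 10652583157) (nat_lit 152) (nat_lit 473372234587) (nat_lit 228) (nat_lit 500348493261) (nat_lit 22) (nat_lit 5) (nat_lit 24) (nat_lit 5) (nat_lit 25) (nat_lit 5) (nat_lit 243) (nat_lit 234) (nat_lit 123)) (XT.nd (nat_lit 78) (nat_lit 152) (nat_lit 0) (XT.lf (nat_lit 0) (nat_lit 779109732426) (nat_lit 228) (nat_lit 195823827390) (nat_lit 76) (nat_lit 105329014291) (nat_lit 22) (nat_lit 5) (nat_lit 25) (nat_lit 5) (nat_lit 23) (nat_lit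 5) (nat_lit 244) (nat_lit 234) (nat_lit 122)) (XT.lf (nat_lit 0) (nat_lit 721771180390) (nat_lit 152) (nat_lit 427137094867) (nat_lit 228) (nat_lit 39190880256) (nat_lit 20) (nat_lit 5) (nat_lit 22) (nat_lit 5) (nat_lit 23) (nat_lit 5) (nat_lit 245) (nat_lit 234) (nat_lit 121))))) (XT.nd (nat_lit 234) (nat_lit 304) (nat_lit 0) (XT.nd (nat_lit 78) (nat_lit 152) (nat_lit 0) (XT.lf (nat_lit 0) (nat_lit 272226214553) (nat_lit 228) (nat_lit 820141575379) (nat_lit 76) (nat_lit 217377587155) (nat_lit 17) (nat_lit 5) (nat_lit 20) (nat_lit 5) (nat_lit 18) (nat_lit 5) (nat_lit 246) (nat_lit 234) (nat_lit 120)) (XT.nd (nat_lit 78) (nat_lit 0) (nat_lit 0) (XT.lf (nat_lit 0) (nat_lit 163543292250) (nat_lit 152) (nat_lit 494234050679) (nat_lit 228) (nat_lit 789400392910) (nat_lit 15) (nat_lit 5) (nat_lit 17) (nat_lit 5) (nat_lit 18) (nat_lit 5) (nat_lit 247) (nat_lit 234) (nat_lit 119)) (XT.lf (nat_lit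 0) (nat_lit 1130315413251) (nat_lit 228) (nat_lit 264145363337) (nat_lit 76) (nat_lit 208431830070) (nat_lit 15) (nat_lit 5) (nat_lit 18) (nat_lit 5) (nat_lit 16) (nat_lit 4) (nat_lit 248) (nat_lit 234) (nat_lit 118)))) (XT.nd (nat_lit 78) (nat_lit 228) (nat_lit 0) (XT.lf (nat_lit 0) (nat_lit 941705689188) (nat_lit 76) (nat_lit 768345821933) (nat_lit 152) (nat_lit 69007811683) (nat_lit 14) (nat_lit 5) (nat_lit 15) (nat_lit 5) (nat_lit 16) (nat_lit 4) (nat_lit 249) (nat_lit 234) (nat_lit 117)) (XT.nd (nat_lit 78) (nat_lit 0) (nat_lit 0) (XT.lf (nat_lit 0) (nat_lit 372317372637) (nat_lit 152) (nat_lit 19859533736) (nat_lit 228) (nat_lit 1587366430298) (nat_lit 11) (nat_lit 5) (nat_lit 13) (nat_lit 5) (nat_lit 14) (nat_lit 5) (nat_lit 250) (nat_lit 234) (nat_lit 116)) (XT.lf (nat_lit 0) (nat_lit 963804977554) (nat_lit 228) (nat_lit 416768521140) (nat_lit 76) (nat_lit 825754926878) (nat_lit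 11) (nat_lit 5) (nat_lit 14) (nat_lit 5) (nat_lit 12) (nat_lit 4) (nat_lit 251) (nat_lit 234) (nat_lit 115))))))))
noncomputable def xc60 : XT := (XT.nd (nat_lit 31200) (nat_lit 0) (nat_lit 0) (XT.nd (nat_lit 30420) (nat_lit 0) (nat_lit 456) (XT.nd (nat_lit 30030) (nat_lit 0) (nat_lit 1900) (XT.nd (nat_lit 156) (nat_lit 152) (nat_lit 0) (XT.nd (nat_lit 78) (nat_lit 0) (nat_lit 0) (XT.lf (nat_lit 0) (nat_lit 1001823518525) (nat_lit 76) (nat_lit 643996871800) (nat_lit 152) (nat_lit 819339437047) (nat_lit 10) (nat_lit 5) (nat_lit 11) (nat_lit 5) (nat_lit 12) (nat_lit 4) (nat_lit 252) (nat_lit 234) (nat_lit 114)) (XT.lf (nat_lit 0) (nat_lit 2447470779777) (nat_lit 152) (nat_lit 108601572093) (nat_lit 0) (nat_lit 205356974421) (nat_lit 10) (nat_lit 5) (nat_lit 12) (nat_lit 4) (nat_lit 10) (nat_lit 4) (nat_lit 253) (nat_lit 234) (nat_lit 113))) (XT.nd (nat_lit 78) (nat_lit 0) (nat_lit 0) (XT.lf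 (nat_lit 0) (nat_lit 309318208235) (nat_lit 152) (nat_lit 1598731945459) (nat_lit 76) (nat_lit 1189138415842) (nat_lit 8) (nat_lit 5) (nat_lit 10) (nat_lit 5) (nat_lit 9) (nat_lit 4) (nat_lit 254) (nat_lit 234) (nat_lit 112)) (XT.nd (nat_lit 29718) (nat_lit 0) (nat_lit 2128) (XT.lf (nat_lit 0) (nat_lit 1011269108761) (nat_lit 152) (nat_lit 138674083870) (nat_lit 76) (nat_lit 2332414326699) (nat_lit 8) (nat_lit 5) (nat_lit 10) (nat_lit 5) (nat_lit 9) (nat_lit 4) (nat_lit 255) (nat_lit 234) (nat_lit 111)) (XT.lf (nat_lit 0) (nat_lit 100640442947) (nat_lit 532) (nat_lit 86282665510) (nat_lit 532) (nat_lit 86282665510) (nat_lit 36) (nat_lit 3) (nat_lit 43) (nat_lit 3) (nat_lit 43) (nat_lit 5) (nat_lit 235) (nat_lit 235) (nat_lit 130))))) (XT.nd (nat_lit 156) (nat_lit 304) (nat_lit 0) (XT.nd (nat_lit 78) (nat_lit 0) (nat_lit 0) (XT.lf (nat_lit 0) (nat_lit 224449318867) (nat_lit 456) (nat_lit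 308842951310) (nat_lit 532) (nat_lit 53454352667) (nat_lit 37) (nat_lit 5) (nat_lit 43) (nat_lit 5) (nat_lit 44) (nat_lit 5) (nat_lit 236) (nat_lit 235) (nat_lit 129)) (XT.lf (nat_lit 76) (nat_lit 171786268006) (nat_lit 0) (nat_lit 98932360755) (nat_lit 532) (nat_lit 360843281604) (nat_lit 38) (nat_lit 5) (nat_lit 37) (nat_lit 5) (nat_lit 44) (nat_lit 5) (nat_lit 237) (nat_lit 235) (nat_lit 128))) (XT.nd (nat_lit 78) (nat_lit 380) (nat_lit 0) (XT.lf (nat_lit 76) (nat_lit 53648424096) (nat_lit 0) (nat_lit 290429276407) (nat_lit 532) (nat_lit 337409841570) (nat_lit 39) (nat_lit 5) (nat_lit 38) (nat_lit 5) (nat_lit 45) (nat_lit 5) (nat_lit 238) (nat_lit 235) (nat_lit 127)) (XT.nd (nat_lit 78) (nat_lit 456) (nat_lit 0) (XT.lf (nat_lit 0) (nat_lit 449893962353) (nat_lit 456) (nat_lit 73969981123) (nat_lit 76) (nat_lit 213321808964) (nat_lit 39) (nat_lit 5) (nat_lit 45) (nat_lit 5) (nat_lit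 40) (nat_lit 5) (nat_lit 239) (nat_lit 235) (nat_lit 126)) (XT.lf (nat_lit 0) (nat_lit 584169454101) (nat_lit 456) (nat_lit 9495012204) (nat_lit 532) (nat_lit 205807684048) (nat_lit 33) (nat_lit 5) (nat_lit 39) (nat_lit 5) (nat_lit 40) (nat_lit 5) (nat_lit 240) (nat_lit 235) (nat_lit 125)))))) (XT.nd (nat_lit 390) (nat_lit 608) (nat_lit 0) (XT.nd (nat_lit 156) (nat_lit 380) (nat_lit 0) (XT.nd (nat_lit 78) (nat_lit 228) (nat_lit 0) (XT.lf (nat_lit 0) (nat_lit 484776678711) (nat_lit 228) (nat_lit 302090030935) (nat_lit 304) (nat_lit 82005505394) (nat_lit 30) (nat_lit 5) (nat_lit 33) (nat_lit 5) (nat_lit 34) (nat_lit 5) (nat_lit 241) (nat_lit 235) (nat_lit 124)) (XT.lf (nat_lit 0) (nat_lit 80151589008) (nat_lit 228) (nat_lit 583065585589) (nat_lit 76) (nat_lit 283524617499) (nat_lit 27) (nat_lit 5) (nat_lit 30) (nat_lit 5) (nat_lit 28) (nat_lit 5) (nat_lit 242) (nat_lit 235) (nat_lit 123)))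 (XT.nd (nat_lit 78) (nat_lit 152) (nat_lit 0) (XT.lf (nat_lit 0) (nat_lit 211123809409) (nat_lit 228) (nat_lit 75696402212) (nat_lit 304) (nat_lit 747297704766) (nat_lit 24) (nat_lit 5) (nat_lit 27) (nat_lit 5) (nat_lit 28) (nat_lit 5) (nat_lit 243) (nat_lit 235) (nat_lit 122)) (XT.nd (nat_lit 78) (nat_lit 0) (nat_lit 0) (XT.lf (nat_lit 0) (nat_lit 12250874457) (nat_lit 152) (nat_lit 544377975619) (nat_lit 228) (nat_lit 575400431565) (nat_lit 22) (nat_lit 5) (nat_lit 24) (nat_lit 5) (nat_lit 25) (nat_lit 5) (nat_lit 244) (nat_lit 235) (nat_lit 121)) (XT.lf (nat_lit 0) (nat_lit 895976463537) (nat_lit 228) (nat_lit 225197029692) (nat_lit 76) (nat_lit 121128444214) (nat_lit 22) (nat_lit 5) (nat_lit 25) (nat_lit 5) (nat_lit 23) (nat_lit 5) (nat_lit 245) (nat_lit 235) (nat_lit 120))))) (XT.nd (nat_lit 156) (nat_lit 228) (nat_lit 0) (XT.nd (nat_lit 78) (nat_lit 228) (nat_lit 0) (XT.lf (nat_lit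 0) (nat_lit 830037197783) (nat_lit 152) (nat_lit 491207562814) (nat_lit 228) (nat_lit 45069247779) (nat_lit 20) (nat_lit 5) (nat_lit 22) (nat_lit 5) (nat_lit 23) (nat_lit 5) (nat_lit 246) (nat_lit 235) (nat_lit 119)) (XT.lf (nat_lit 0) (nat_lit 313060375406) (nat_lit 228) (nat_lit 943162470749) (nat_lit 76) (nat_lit 249984318446) (nat_lit 17) (nat_lit 5) (nat_lit 20) (nat_lit 5) (nat_lit 18) (nat_lit 5) (nat_lit 247) (nat_lit 235) (nat_lit 118))) (XT.nd (nat_lit 78) (nat_lit 76) (nat_lit 0) (XT.lf (nat_lit 0) (nat_lit 188075098166) (nat_lit 152) (nat_lit 568369052551) (nat_lit 228) (nat_lit 907810228332) (nat_lit 15) (nat_lit 5) (nat_lit 17) (nat_lit 5) (nat_lit 18) (nat_lit 5) (nat_lit 248) (nat_lit 235) (nat_lit 117)) (XT.nd (nat_lit 78) (nat_lit 76) (nat_lit 0) (XT.lf (nat_lit 0) (nat_lit 1299862906884) (nat_lit 228) (nat_lit 303766883750) (nat_lit 76) (nat_lit 239696691920) (nat_lit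 15) (nat_lit 5) (nat_lit 18) (nat_lit 5) (nat_lit 16) (nat_lit 4) (nat_lit 249) (nat_lit 235) (nat_lit 116)) (XT.lf (nat_lit 0) (nat_lit 1082961802608) (nat_lit 76) (nat_lit 883597599387) (nat_lit 152) (nat_lit 79358805595) (nat_lit 14) (nat_lit 5) (nat_lit 15) (nat_lit 5) (nat_lit 16) (nat_lit 4) (nat_lit 250) (nat_lit 235) (nat_lit 115))))))) (XT.nd (nat_lit 30498) (nat_lit 0) (nat_lit 532) (XT.nd (nat_lit 30108) (nat_lit 0) (nat_lit 2128) (XT.nd (nat_lit 156) (nat_lit 228) (nat_lit 0) (XT.nd (nat_lit 78) (nat_lit 0) (nat_lit 0) (XT.lf (nat_lit 0) (nat_lit 428165225128) (nat_lit 152) (nat_lit 22838370039) (nat_lit 228) (nat_lit 1825471229377) (nat_lit 11) (nat_lit 5) (nat_lit 13) (nat_lit 5) (nat_lit 14) (nat_lit 5) (nat_lit 251) (nat_lit 235) (nat_lit 114)) (XT.lf (nat_lit 0) (nat_lit 1108375859050) (nat_lit 228) (nat_lit 479283575861) (nat_lit 76) (nat_lit 949618243359) (nat_lit 11)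 (nat_lit 5) (nat_lit 14) (nat_lit 5) (nat_lit 12) (nat_lit 4) (nat_lit 252) (nat_lit 235) (nat_lit 113))) (XT.nd (nat_lit 78) (nat_lit 152) (nat_lit 0) (XT.lf (nat_lit 0) (nat_lit 1152097250840) (nat_lit 76) (nat_lit 740596320225) (nat_lit 152) (nat_lit 942240220333) (nat_lit 10) (nat_lit 5) (nat_lit 11) (nat_lit 5) (nat_lit 12) (nat_lit 4) (nat_lit 253) (nat_lit 235) (nat_lit 112)) (XT.nd (nat_lit 78) (nat_lit 152) (nat_lit 0) (XT.lf (nat_lit 0) (nat_lit 2814591504720) (nat_lit 152) (nat_lit 124891623008) (nat_lit 0) (nat_lit 236160588606) (nat_lit 10) (nat_lit 5) (nat_lit 12) (nat_lit 4) (nat_lit 10) (nat_lit 4) (nat_lit 254) (nat_lit 235) (nat_lit 111)) (XT.lf (nat_lit 0) (nat_lit 355716040195) (nat_lit 152) (nat_lit 1838541562513) (nat_lit 76) (nat_lit 1367509243989) (nat_lit 8) (nat_lit 5) (nat_lit 10) (nat_lit 5) (nat_lit 9) (nat_lit 4) (nat_lit 255) (nat_lit 235) (nat_lit 110)))))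 (XT.nd (nat_lit 156) (nat_lit 0) (nat_lit 76) (XT.nd (nat_lit 78) (nat_lit 0) (nat_lit 76) (XT.lf (nat_lit 0) (nat_lit 115736846624) (nat_lit 532) (nat_lit 99224882337) (nat_lit 532) (nat_lit 99224882337) (nat_lit 36) (nat_lit 3) (nat_lit 43) (nat_lit 3) (nat_lit 43) (nat_lit 5) (nat_lit 236) (nat_lit 236) (nat_lit 128)) (XT.lf (nat_lit 0) (nat_lit 258117305007) (nat_lit 456) (nat_lit 355169002078) (nat_lit 532) (nat_lit 61472259016) (nat_lit 37) (nat_lit 5) (nat_lit 43) (nat_lit 5) (nat_lit 44) (nat_lit 5) (nat_lit 237) (nat_lit 236) (nat_lit 127))) (XT.nd (nat_lit 78) (nat_lit 0) (nat_lit 76) (XT.lf (nat_lit 76) (nat_lit 197554566962) (nat_lit 0) (nat_lit 113772376316) (nat_lit 532) (nat_lit 414969209326) (nat_lit 38) (nat_lit 5) (nat_lit 37) (nat_lit 5) (nat_lit 44) (nat_lit 5) (nat_lit 238) (nat_lit 236) (nat_lit 126)) (XT.nd (nat_lit 78) (nat_lit 0) (nat_lit 76) (XT.lf (nat_lit 76)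 (nat_lit 61696060217) (nat_lit 0) (nat_lit 333993753294) (nat_lit 532) (nat_lit 388020820891) (nat_lit 39) (nat_lit 5) (nat_lit 38) (nat_lit 5) (nat_lit 45) (nat_lit 5) (nat_lit 239) (nat_lit 236) (nat_lit 125)) (XT.lf (nat_lit 0) (nat_lit 517378453121) (nat_lit 456) (nat_lit 85065118689) (nat_lit 76) (nat_lit 245320009741) (nat_lit 39) (nat_lit 5) (nat_lit 45) (nat_lit 5) (nat_lit 40) (nat_lit 5) (nat_lit 240) (nat_lit 236) (nat_lit 124)))))) (XT.nd (nat_lit 390) (nat_lit 532) (nat_lit 0) (XT.nd (nat_lit 156) (nat_lit 608) (nat_lit 0) (XT.nd (nat_lit 78) (nat_lit 228) (nat_lit 0) (XT.lf (nat_lit 0) (nat_lit 671795201381) (nat_lit 456) (nat_lit 10919287497) (nat_lit 532) (nat_lit 236678454044) (nat_lit 33) (nat_lit 5) (nat_lit 39) (nat_lit 5) (nat_lit 40) (nat_lit 5) (nat_lit 241) (nat_lit 236) (nat_lit 123)) (XT.lf (nat_lit 0) (nat_lit 557493509784) (nat_lit 228) (nat_lit 347403520369)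 (nat_lit 304) (nat_lit 94305990476) (nat_lit 30) (nat_lit 5) (nat_lit 33) (nat_lit 5) (nat_lit 34) (nat_lit 5) (nat_lit 242) (nat_lit 236) (nat_lit 122))) (XT.nd (nat_lit 78) (nat_lit 380) (nat_lit 0) (XT.lf (nat_lit 0) (nat_lit 92174617180) (nat_lit 228) (nat_lit 670525081453) (nat_lit 76) (nat_lit 326053337850) (nat_lit 27) (nat_lit 5) (nat_lit 30) (nat_lit 5) (nat_lit 28) (nat_lit 5) (nat_lit 243) (nat_lit 236) (nat_lit 121)) (XT.nd (nat_lit 78) (nat_lit 152) (nat_lit 0) (XT.lf (nat_lit 0) (nat_lit 242792693849) (nat_lit 228) (nat_lit 87050809061) (nat_lit 304) (nat_lit 859392079091) (nat_lit 24) (nat_lit 5) (nat_lit 27) (nat_lit 5) (nat_lit 28) (nat_lit 5) (nat_lit 244) (nat_lit 236) (nat_lit 120)) (XT.lf (nat_lit 0) (nat_lit 14088810975) (nat_lit 152) (nat_lit 626034600766) (nat_lit 228) (nat_lit 661710242473) (nat_lit 22) (nat_lit 5) (nat_lit 24) (nat_lit 5) (nat_lit 25) (nat_lit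 5) (nat_lit 245) (nat_lit 236) (nat_lit 119))))) (XT.nd (nat_lit 156) (nat_lit 380) (nat_lit 0) (XT.nd (nat_lit 78) (nat_lit 152) (nat_lit 0) (XT.lf (nat_lit 0) (nat_lit 1030373138169) (nat_lit 228) (nat_lit 258976303007) (nat_lit 76) (nat_lit 139297769658) (nat_lit 22) (nat_lit 5) (nat_lit 25) (nat_lit 5) (nat_lit 23) (nat_lit 5) (nat_lit 246) (nat_lit 236) (nat_lit 118)) (XT.lf (nat_lit 0) (nat_lit 954543034793) (nat_lit 152) (nat_lit 564888624432) (nat_lit 228) (nat_lit 51829434934) (nat_lit 20) (nat_lit 5) (nat_lit 22) (nat_lit 5) (nat_lit 23) (nat_lit 5) (nat_lit 247) (nat_lit 236) (nat_lit 117))) (XT.nd (nat_lit 78) (nat_lit 152) (nat_lit 0) (XT.lf (nat_lit 0) (nat_lit 360019604624) (nat_lit 228) (nat_lit 1084636583563) (nat_lit 76) (nat_lit 287482036698) (nat_lit 17) (nat_lit 5) (nat_lit 20) (nat_lit 5) (nat_lit 18) (nat_lit 5) (nat_lit 248) (nat_lit 236) (nat_lit 116)) (XT.nd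 (nat_lit 78) (nat_lit 0) (nat_lit 0) (XT.lf (nat_lit 0) (nat_lit 216286598867) (nat_lit 152) (nat_lit 653624330487) (nat_lit 228) (nat_lit 1043981593573) (nat_lit 15) (nat_lit 5) (nat_lit 17) (nat_lit 5) (nat_lit 18) (nat_lit 5) (nat_lit 249) (nat_lit 236) (nat_lit 115)) (XT.lf (nat_lit 0) (nat_lit 1494842480267) (nat_lit 228) (nat_lit 349331701501) (nat_lit 76) (nat_lit 275651261749) (nat_lit 15) (nat_lit 5) (nat_lit 18) (nat_lit 5) (nat_lit 16) (nat_lit 4) (nat_lit 250) (nat_lit 236) (nat_lit 114))))))))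
noncomputable def xc61 : XT := (XT.nd (nat_lit 31434) (nat_lit 0) (nat_lit 76) (XT.nd (nat_lit 30654) (nat_lit 0) (nat_lit 304) (XT.nd (nat_lit 30264) (nat_lit 0) (nat_lit 1748) (XT.nd (nat_lit 156) (nat_lit 76) (nat_lit 0) (XT.nd (nat_lit 78) (nat_lit 228) (nat_lit 0) (XT.lf (nat_lit 0) (nat_lit 1245406269628) (nat_lit 76) (nat_lit 1016137166830) (nat_lit 152) (nat_lit 91262491962) (nat_lit 14) (nat_lit 5) (nat_lit 15) (nat_lit 5) (nat_lit 16) (nat_lit 4) (nat_lit 251) (nat_lit 236) (nat_lit 113)) (XT.lf (nat_lit 0) (nat_lit 492390195359) (nat_lit 152) (nat_lit 26264054652) (nat_lit 228) (nat_lit 2099291788667) (nat_lit 11) (nat_lit 5) (nat_lit 13) (nat_lit 5) (nat_lit 14) (nat_lit 5) (nat_lit 252) (nat_lit 236) (nat_lit 112))) (XT.nd (nat_lit 78) (nat_lit 76) (nat_lit 0) (XT.lf (nat_lit 0) (nat_lit 1274632339884) (nat_lit 228) (nat_lit 551175943279) (nat_lit 76) (nat_lit 1092061038426)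 (nat_lit 11) (nat_lit 5) (nat_lit 14) (nat_lit 5) (nat_lit 12) (nat_lit 4) (nat_lit 253) (nat_lit 236) (nat_lit 111)) (XT.nd (nat_lit 29952) (nat_lit 0) (nat_lit 1976) (XT.lf (nat_lit 0) (nat_lit 1324911993125) (nat_lit 76) (nat_lit 851685705995) (nat_lit 152) (nat_lit 1083576153368) (nat_lit 10) (nat_lit 5) (nat_lit 11) (nat_lit 5) (nat_lit 12) (nat_lit 4) (nat_lit 254) (nat_lit 236) (nat_lit 110)) (XT.lf (nat_lit 0) (nat_lit 133097628615) (nat_lit 532) (nat_lit 114108476314) (nat_lit 532) (nat_lit 114108476314) (nat_lit 36) (nat_lit 3) (nat_lit 43) (nat_lit 3) (nat_lit 43) (nat_lit 5) (nat_lit 237) (nat_lit 237) (nat_lit 126))))) (XT.nd (nat_lit 156) (nat_lit 304) (nat_lit 0) (XT.nd (nat_lit 78) (nat_lit 0) (nat_lit 0) (XT.lf (nat_lit 0) (nat_lit 296835345606) (nat_lit 456) (nat_lit 408444056035) (nat_lit 532) (nat_lit 70692911441) (nat_lit 37) (nat_lit 5) (nat_lit 43) (nat_lit 5) (nat_lit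 44) (nat_lit 5) (nat_lit 238) (nat_lit 237) (nat_lit 125)) (XT.lf (nat_lit 76) (nat_lit 227188023276) (nat_lit 0) (nat_lit 130838354842) (nat_lit 532) (nat_lit 477214163868) (nat_lit 38) (nat_lit 5) (nat_lit 37) (nat_lit 5) (nat_lit 44) (nat_lit 5) (nat_lit 239) (nat_lit 237) (nat_lit 124))) (XT.nd (nat_lit 78) (nat_lit 380) (nat_lit 0) (XT.lf (nat_lit 76) (nat_lit 70950750918) (nat_lit 0) (nat_lit 384092880882) (nat_lit 532) (nat_lit 446223568286) (nat_lit 39) (nat_lit 5) (nat_lit 38) (nat_lit 5) (nat_lit 45) (nat_lit 5) (nat_lit 240) (nat_lit 237) (nat_lit 123)) (XT.nd (nat_lit 78) (nat_lit 456) (nat_lit 0) (XT.lf (nat_lit 0) (nat_lit 594985520837) (nat_lit 456) (nat_lit 97824614581) (nat_lit 76) (nat_lit 282117957843) (nat_lit 39) (nat_lit 5) (nat_lit 45) (nat_lit 5) (nat_lit 40) (nat_lit 5) (nat_lit 241) (nat_lit 237) (nat_lit 122)) (XT.lf (nat_lit 0) (nat_lit 772564730483) (nat_lit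 456) (nat_lit 12557198362) (nat_lit 532) (nat_lit 272179932842) (nat_lit 33) (nat_lit 5) (nat_lit 39) (nat_lit 5) (nat_lit 40) (nat_lit 5) (nat_lit 242) (nat_lit 237) (nat_lit 121)))))) (XT.nd (nat_lit 390) (nat_lit 608) (nat_lit 0) (XT.nd (nat_lit 156) (nat_lit 380) (nat_lit 0) (XT.nd (nat_lit 78) (nat_lit 228) (nat_lit 0) (XT.lf (nat_lit 0) (nat_lit 641117785223) (nat_lit 228) (nat_lit 399514036927) (nat_lit 304) (nat_lit 108451631409) (nat_lit 30) (nat_lit 5) (nat_lit 33) (nat_lit 5) (nat_lit 34) (nat_lit 5) (nat_lit 243) (nat_lit 237) (nat_lit 120)) (XT.lf (nat_lit 0) (nat_lit 106001028903) (nat_lit 228) (nat_lit 771103585089) (nat_lit 76) (nat_lit 374961359492) (nat_lit 27) (nat_lit 5) (nat_lit 30) (nat_lit 5) (nat_lit 28) (nat_lit 5) (nat_lit 244) (nat_lit 237) (nat_lit 119))) (XT.nd (nat_lit 78) (nat_lit 152) (nat_lit 0) (XT.lf (nat_lit 0) (nat_lit 279211834621) (nat_lit 228) (nat_lit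 100108389980) (nat_lit 304) (nat_lit 988300678183) (nat_lit 24) (nat_lit 5) (nat_lit 27) (nat_lit 5) (nat_lit 28) (nat_lit 5) (nat_lit 245) (nat_lit 237) (nat_lit 118)) (XT.nd (nat_lit 78) (nat_lit 0) (nat_lit 0) (XT.lf (nat_lit 0) (nat_lit 16202363510) (nat_lit 152) (nat_lit 719939737047) (nat_lit 228) (nat_lit 760966586914) (nat_lit 22) (nat_lit 5) (nat_lit 24) (nat_lit 5) (nat_lit 25) (nat_lit 5) (nat_lit 246) (nat_lit 237) (nat_lit 117)) (XT.lf (nat_lit 0) (nat_lit 1184929263981) (nat_lit 228) (nat_lit 297822535876) (nat_lit 76) (nat_lit 160192479577) (nat_lit 22) (nat_lit 5) (nat_lit 25) (nat_lit 5) (nat_lit 23) (nat_lit 5) (nat_lit 247) (nat_lit 237) (nat_lit 116))))) (XT.nd (nat_lit 156) (nat_lit 228) (nat_lit 0) (XT.nd (nat_lit 78) (nat_lit 228) (nat_lit 0) (XT.lf (nat_lit 0) (nat_lit 1097724684600) (nat_lit 152) (nat_lit 649621863047) (nat_lit 228) (nat_lit 59603698937) (nat_lit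 20) (nat_lit 5) (nat_lit 22) (nat_lit 5) (nat_lit 23) (nat_lit 5) (nat_lit 248) (nat_lit 237) (nat_lit 115)) (XT.lf (nat_lit 0) (nat_lit 414022676060) (nat_lit 228) (nat_lit 1247331876166) (nat_lit 76) (nat_lit 330604395500) (nat_lit 17) (nat_lit 5) (nat_lit 20) (nat_lit 5) (nat_lit 18) (nat_lit 5) (nat_lit 249) (nat_lit 237) (nat_lit 114))) (XT.nd (nat_lit 78) (nat_lit 76) (nat_lit 0) (XT.lf (nat_lit 0) (nat_lit 248729767130) (nat_lit 152) (nat_lit 751667919609) (nat_lit 228) (nat_lit 1200578704813) (nat_lit 15) (nat_lit 5) (nat_lit 17) (nat_lit 5) (nat_lit 18) (nat_lit 5) (nat_lit 250) (nat_lit 237) (nat_lit 113)) (XT.nd (nat_lit 78) (nat_lit 76) (nat_lit 0) (XT.lf (nat_lit 0) (nat_lit 1719068956163) (nat_lit 228) (nat_lit 401731294297) (nat_lit 76) (nat_lit 316999000949) (nat_lit 15) (nat_lit 5) (nat_lit 18) (nat_lit 5) (nat_lit 16) (nat_lit 4) (nat_lit 251) (nat_lit 237) (nat_lit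 112)) (XT.lf (nat_lit 0) (nat_lit 1432217358752) (nat_lit 76) (nat_lit 1168557687060) (nat_lit 152) (nat_lit 104951764075) (nat_lit 14) (nat_lit 5) (nat_lit 15) (nat_lit 5) (nat_lit 16) (nat_lit 4) (nat_lit 252) (nat_lit 237) (nat_lit 111))))))) (XT.nd (nat_lit 30732) (nat_lit 0) (nat_lit 0) (XT.nd (nat_lit 30342) (nat_lit 0) (nat_lit 1216) (XT.nd (nat_lit 30108) (nat_lit 0) (nat_lit 1900) (XT.nd (nat_lit 78) (nat_lit 0) (nat_lit 0) (XT.lf (nat_lit 0) (nat_lit 566248865654) (nat_lit 152) (nat_lit 30203609243) (nat_lit 228) (nat_lit 2414185462362) (nat_lit 11) (nat_lit 5) (nat_lit 13) (nat_lit 5) (nat_lit 14) (nat_lit 5) (nat_lit 253) (nat_lit 237) (nat_lit 110)) (XT.lf (nat_lit 0) (nat_lit 1465827267976) (nat_lit 228) (nat_lit 633852207012) (nat_lit 76) (nat_lit 1255870238472) (nat_lit 11) (nat_lit 5) (nat_lit 14) (nat_lit 5) (nat_lit 12) (nat_lit 4) (nat_lit 254) (nat_lit 237) (nat_lit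 109))) (XT.nd (nat_lit 78) (nat_lit 0) (nat_lit 76) (XT.lf (nat_lit 0) (nat_lit 153062465722) (nat_lit 532) (nat_lit 131224643130) (nat_lit 532) (nat_lit 131224643130) (nat_lit 36) (nat_lit 3) (nat_lit 43) (nat_lit 3) (nat_lit 43) (nat_lit 5) (nat_lit 238) (nat_lit 238) (nat_lit 124)) (XT.nd (nat_lit 78) (nat_lit 0) (nat_lit 0) (XT.lf (nat_lit 0) (nat_lit 341360983815) (nat_lit 456) (nat_lit 469710440353) (nat_lit 532) (nat_lit 81296707191) (nat_lit 37) (nat_lit 5) (nat_lit 43) (nat_lit 5) (nat_lit 44) (nat_lit 5) (nat_lit 239) (nat_lit 238) (nat_lit 123)) (XT.lf (nat_lit 76) (nat_lit 261266431886) (nat_lit 0) (nat_lit 150464200376) (nat_lit 532) (nat_lit 548795965683) (nat_lit 38) (nat_lit 5) (nat_lit 37) (nat_lit 5) (nat_lit 44) (nat_lit 5) (nat_lit 240) (nat_lit 238) (nat_lit 122))))) (XT.nd (nat_lit 156) (nat_lit 836) (nat_lit 0) (XT.nd (nat_lit 78) (nat_lit 0) (nat_lit 76) (XT.lf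 (nat_lit 76) (nat_lit 81593576538) (nat_lit 0) (nat_lit 441706861857) (nat_lit 532) (nat_lit 513156819416) (nat_lit 39) (nat_lit 5) (nat_lit 38) (nat_lit 5) (nat_lit 45) (nat_lit 5) (nat_lit 241) (nat_lit 238) (nat_lit 121)) (XT.lf (nat_lit 0) (nat_lit 684233575614) (nat_lit 456) (nat_lit 112498101164) (nat_lit 76) (nat_lit 324435611173) (nat_lit 39) (nat_lit 5) (nat_lit 45) (nat_lit 5) (nat_lit 40) (nat_lit 5) (nat_lit 242) (nat_lit 238) (nat_lit 120))) (XT.nd (nat_lit 78) (nat_lit 456) (nat_lit 0) (XT.lf (nat_lit 0) (nat_lit 888449628256) (nat_lit 456) (nat_lit 14440791530) (nat_lit 532) (nat_lit 313006704010) (nat_lit 33) (nat_lit 5) (nat_lit 39) (nat_lit 5) (nat_lit 40) (nat_lit 5) (nat_lit 243) (nat_lit 238) (nat_lit 119)) (XT.nd (nat_lit 78) (nat_lit 228) (nat_lit 0) (XT.lf (nat_lit 0) (nat_lit 737285641265) (nat_lit 228) (nat_lit 459441133771) (nat_lit 304) (nat_lit 124719181308)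 (nat_lit 30) (nat_lit 5) (nat_lit 33) (nat_lit 5) (nat_lit 34) (nat_lit 5) (nat_lit 244) (nat_lit 238) (nat_lit 118)) (XT.lf (nat_lit 0) (nat_lit 121901348945) (nat_lit 228) (nat_lit 886768927327) (nat_lit 76) (nat_lit 431205579269) (nat_lit 27) (nat_lit 5) (nat_lit 30) (nat_lit 5) (nat_lit 28) (nat_lit 5) (nat_lit 245) (nat_lit 238) (nat_lit 117)))))) (XT.nd (nat_lit 390) (nat_lit 456) (nat_lit 0) (XT.nd (nat_lit 156) (nat_lit 380) (nat_lit 0) (XT.nd (nat_lit 78) (nat_lit 152) (nat_lit 0) (XT.lf (nat_lit 0) (nat_lit 321093788789) (nat_lit 228) (nat_lit 115124617899) (nat_lit 304) (nat_lit 1136545619024) (nat_lit 24) (nat_lit 5) (nat_lit 27) (nat_lit 5) (nat_lit 28) (nat_lit 5) (nat_lit 246) (nat_lit 238) (nat_lit 116)) (XT.lf (nat_lit 0) (nat_lit 18632892622) (nat_lit 152) (nat_lit 827930656898) (nat_lit 228) (nat_lit 875111429826) (nat_lit 22) (nat_lit 5) (nat_lit 24) (nat_lit 5) (nat_lit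 25) (nat_lit 5) (nat_lit 247) (nat_lit 238) (nat_lit 115))) (XT.nd (nat_lit 78) (nat_lit 380) (nat_lit 0) (XT.lf (nat_lit 0) (nat_lit 1362668770846) (nat_lit 228) (nat_lit 342495755515) (nat_lit 76) (nat_lit 184221385140) (nat_lit 22) (nat_lit 5) (nat_lit 25) (nat_lit 5) (nat_lit 23) (nat_lit 5) (nat_lit 248) (nat_lit 238) (nat_lit 114)) (XT.nd (nat_lit 78) (nat_lit 228) (nat_lit 0) (XT.lf (nat_lit 0) (nat_lit 1262383534426) (nat_lit 152) (nat_lit 747065100878) (nat_lit 228) (nat_lit 68544139420) (nat_lit 20) (nat_lit 5) (nat_lit 22) (nat_lit 5) (nat_lit 23) (nat_lit 5) (nat_lit 249) (nat_lit 238) (nat_lit 113)) (XT.lf (nat_lit 0) (nat_lit 476126176330) (nat_lit 228) (nat_lit 1434431510194) (nat_lit 76) (nat_lit 380195095126) (nat_lit 17) (nat_lit 5) (nat_lit 20) (nat_lit 5) (nat_lit 18) (nat_lit 5) (nat_lit 250) (nat_lit 238) (nat_lit 112))))) (XT.nd (nat_lit 234) (nat_lit 228) (nat_lit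 0) (XT.nd (nat_lit 78) (nat_lit 76) (nat_lit 0) (XT.lf (nat_lit 0) (nat_lit 286039367119) (nat_lit 152) (nat_lit 864418061840) (nat_lit 228) (nat_lit 1380665413904) (nat_lit 15) (nat_lit 5) (nat_lit 17) (nat_lit 5) (nat_lit 18) (nat_lit 5) (nat_lit 251) (nat_lit 238) (nat_lit 111)) (XT.nd (nat_lit 78) (nat_lit 76) (nat_lit 0) (XT.lf (nat_lit 0) (nat_lit 1976929378118) (nat_lit 228) (nat_lit 461990865623) (nat_lit 76) (nat_lit 364548888850) (nat_lit 15) (nat_lit 5) (nat_lit 18) (nat_lit 5) (nat_lit 16) (nat_lit 4) (nat_lit 252) (nat_lit 238) (nat_lit 110)) (XT.lf (nat_lit 0) (nat_lit 1647050074988) (nat_lit 76) (nat_lit 1343841298687) (nat_lit 152) (nat_lit 120694451801) (nat_lit 14) (nat_lit 5) (nat_lit 15) (nat_lit 5) (nat_lit 16) (nat_lit 4) (nat_lit 253) (nat_lit 238) (nat_lit 109)))) (XT.nd (nat_lit 30108) (nat_lit 0) (nat_lit 1900) (XT.lf (nat_lit 0) (nat_lit 651186302112) (nat_lit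 152) (nat_lit 34734110096) (nat_lit 228) (nat_lit 2776313210181) (nat_lit 11) (nat_lit 5) (nat_lit 13) (nat_lit 5) (nat_lit 14) (nat_lit 5) (nat_lit 254) (nat_lit 238) (nat_lit 108)) (XT.nd (nat_lit 78) (nat_lit 0) (nat_lit 76) (XT.lf (nat_lit 0) (nat_lit 176021981377) (nat_lit 532) (nat_lit 150908260484) (nat_lit 532) (nat_lit 150908260484) (nat_lit 36) (nat_lit 3) (nat_lit 43) (nat_lit 3) (nat_lit 43) (nat_lit 5) (nat_lit 239) (nat_lit 239) (nat_lit 122)) (XT.lf (nat_lit 0) (nat_lit 392565385731) (nat_lit 456) (nat_lit 540166836964) (nat_lit 532) (nat_lit 93491106679) (nat_lit 37) (nat_lit 5) (nat_lit 43) (nat_lit 5) (nat_lit 44) (nat_lit 5) (nat_lit 240) (nat_lit 239) (nat_lit 121))))))))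
noncomputable def xc62 : XT := (XT.nd (nat_lit 31746) (nat_lit 0) (nat_lit 0) (XT.nd (nat_lit 780) (nat_lit 380) (nat_lit 0) (XT.nd (nat_lit 390) (nat_lit 760) (nat_lit 0) (XT.nd (nat_lit 156) (nat_lit 532) (nat_lit 0) (XT.nd (nat_lit 78) (nat_lit 0) (nat_lit 76) (XT.lf (nat_lit 76) (nat_lit 300456551769) (nat_lit 0) (nat_lit 173033900232) (nat_lit 532) (nat_lit 631115116479) (nat_lit 38) (nat_lit 5) (nat_lit 37) (nat_lit 5) (nat_lit 44) (nat_lit 5) (nat_lit 241) (nat_lit 239) (nat_lit 120)) (XT.lf (nat_lit 76) (nat_lit 93832774063) (nat_lit 0) (nat_lit 507962928068) (nat_lit 532) (nat_lit 590130127499) (nat_lit 39) (nat_lit 5) (nat_lit 38) (nat_lit 5) (nat_lit 45) (nat_lit 5) (nat_lit 242) (nat_lit 239) (nat_lit 119))) (XT.nd (nat_lit 78) (nat_lit 684) (nat_lit 0) (XT.lf (nat_lit 0) (nat_lit 786868783338) (nat_lit 456) (nat_lit 129372660873) (nat_lit 76) (nat_lit 373100922340) (nat_lit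 39) (nat_lit 5) (nat_lit 45) (nat_lit 5) (nat_lit 40) (nat_lit 5) (nat_lit 243) (nat_lit 239) (nat_lit 118)) (XT.nd (nat_lit 78) (nat_lit 228) (nat_lit 0) (XT.lf (nat_lit 0) (nat_lit 1021717214801) (nat_lit 456) (nat_lit 16606920403) (nat_lit 532) (nat_lit 359957544198) (nat_lit 33) (nat_lit 5) (nat_lit 39) (nat_lit 5) (nat_lit 40) (nat_lit 5) (nat_lit 244) (nat_lit 239) (nat_lit 117)) (XT.lf (nat_lit 0) (nat_lit 847878629806) (nat_lit 228) (nat_lit 528357297263) (nat_lit 304) (nat_lit 143426911199) (nat_lit 30) (nat_lit 5) (nat_lit 33) (nat_lit 5) (nat_lit 34) (nat_lit 5) (nat_lit 245) (nat_lit 239) (nat_lit 116))))) (XT.nd (nat_lit 156) (nat_lit 304) (nat_lit 0) (XT.nd (nat_lit 78) (nat_lit 228) (nat_lit 0) (XT.lf (nat_lit 0) (nat_lit 140186676584) (nat_lit 228) (nat_lit 1019784118581) (nat_lit 76) (nat_lit 495886428146) (nat_lit 27) (nat_lit 5) (nat_lit 30) (nat_lit 5) (nat_lit 28)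 (nat_lit 5) (nat_lit 246) (nat_lit 239) (nat_lit 115)) (XT.lf (nat_lit 0) (nat_lit 369257992438) (nat_lit 228) (nat_lit 132393287462) (nat_lit 304) (nat_lit 1307027340225) (nat_lit 24) (nat_lit 5) (nat_lit 27) (nat_lit 5) (nat_lit 28) (nat_lit 5) (nat_lit 247) (nat_lit 239) (nat_lit 114))) (XT.nd (nat_lit 78) (nat_lit 152) (nat_lit 0) (XT.lf (nat_lit 0) (nat_lit 21427958527) (nat_lit 152) (nat_lit 952120224653) (nat_lit 228) (nat_lit 1006378034563) (nat_lit 22) (nat_lit 5) (nat_lit 24) (nat_lit 5) (nat_lit 25) (nat_lit 5) (nat_lit 248) (nat_lit 239) (nat_lit 113)) (XT.nd (nat_lit 78) (nat_lit 152) (nat_lit 0) (XT.lf (nat_lit 0) (nat_lit 1567069175144) (nat_lit 228) (nat_lit 393869997299) (nat_lit 76) (nat_lit 211854618338) (nat_lit 22) (nat_lit 5) (nat_lit 25) (nat_lit 5) (nat_lit 23) (nat_lit 5) (nat_lit 249) (nat_lit 239) (nat_lit 112)) (XT.lf (nat_lit 0) (nat_lit 1451741175846) (nat_lit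 152) (nat_lit 859124834535) (nat_lit 228) (nat_lit 78825673862) (nat_lit 20) (nat_lit 5) (nat_lit 22) (nat_lit 5) (nat_lit 23) (nat_lit 5) (nat_lit 250) (nat_lit 239) (nat_lit 111)))))) (XT.nd (nat_lit 30576) (nat_lit 0) (nat_lit 1140) (XT.nd (nat_lit 156) (nat_lit 0) (nat_lit 0) (XT.nd (nat_lit 78) (nat_lit 152) (nat_lit 0) (XT.lf (nat_lit 0) (nat_lit 547545177532) (nat_lit 228) (nat_lit 1649596125271) (nat_lit 76) (nat_lit 437224389867) (nat_lit 17) (nat_lit 5) (nat_lit 20) (nat_lit 5) (nat_lit 18) (nat_lit 5) (nat_lit 251) (nat_lit 239) (nat_lit 110)) (XT.lf (nat_lit 0) (nat_lit 328945374206) (nat_lit 152) (nat_lit 994080736553) (nat_lit 228) (nat_lit 1587765152922) (nat_lit 15) (nat_lit 5) (nat_lit 17) (nat_lit 5) (nat_lit 18) (nat_lit 5) (nat_lit 252) (nat_lit 239) (nat_lit 109))) (XT.nd (nat_lit 30264) (nat_lit 0) (nat_lit 1596) (XT.lf (nat_lit 0) (nat_lit 2273468844215) (nat_lit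 228) (nat_lit 531289402597) (nat_lit 76) (nat_lit 419231250730) (nat_lit 15) (nat_lit 5) (nat_lit 18) (nat_lit 5) (nat_lit 16) (nat_lit 4) (nat_lit 253) (nat_lit 239) (nat_lit 108)) (XT.nd (nat_lit 78) (nat_lit 0) (nat_lit 76) (XT.lf (nat_lit 0) (nat_lit 202425388826) (nat_lit 532) (nat_lit 173544439734) (nat_lit 532) (nat_lit 173544439734) (nat_lit 36) (nat_lit 3) (nat_lit 43) (nat_lit 3) (nat_lit 43) (nat_lit 5) (nat_lit 240) (nat_lit 240) (nat_lit 120)) (XT.lf (nat_lit 0) (nat_lit 451450385910) (nat_lit 456) (nat_lit 621191734387) (nat_lit 532) (nat_lit 107514692083) (nat_lit 37) (nat_lit 5) (nat_lit 43) (nat_lit 5) (nat_lit 44) (nat_lit 5) (nat_lit 241) (nat_lit 240) (nat_lit 119))))) (XT.nd (nat_lit 156) (nat_lit 532) (nat_lit 0) (XT.nd (nat_lit 78) (nat_lit 0) (nat_lit 76) (XT.lf (nat_lit 76) (nat_lit 345525151811) (nat_lit 0) (nat_lit 198989038044) (nat_lit 532) (nat_lit 725782199409)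 (nat_lit 38) (nat_lit 5) (nat_lit 37) (nat_lit 5) (nat_lit 44) (nat_lit 5) (nat_lit 242) (nat_lit 240) (nat_lit 118)) (XT.lf (nat_lit 76) (nat_lit 107907811946) (nat_lit 0) (nat_lit 584157395204) (nat_lit 532) (nat_lit 678649484181) (nat_lit 39) (nat_lit 5) (nat_lit 38) (nat_lit 5) (nat_lit 45) (nat_lit 5) (nat_lit 243) (nat_lit 240) (nat_lit 117))) (XT.nd (nat_lit 78) (nat_lit 684) (nat_lit 0) (XT.lf (nat_lit 0) (nat_lit 904899230427) (nat_lit 456) (nat_lit 148778442449) (nat_lit 76) (nat_lit 429066037623) (nat_lit 39) (nat_lit 5) (nat_lit 45) (nat_lit 5) (nat_lit 40) (nat_lit 5) (nat_lit 244) (nat_lit 240) (nat_lit 116)) (XT.nd (nat_lit 78) (nat_lit 228) (nat_lit 0) (XT.lf (nat_lit 0) (nat_lit 1174974904626) (nat_lit 456) (nat_lit 19097966133) (nat_lit 532) (nat_lit 413951050752) (nat_lit 33) (nat_lit 5) (nat_lit 39) (nat_lit 5) (nat_lit 40) (nat_lit 5) (nat_lit 245) (nat_lit 240) (nat_lit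 115)) (XT.lf (nat_lit 0) (nat_lit 975060531914) (nat_lit 228) (nat_lit 607610886882) (nat_lit 304) (nat_lit 164940836494) (nat_lit 30) (nat_lit 5) (nat_lit 33) (nat_lit 5) (nat_lit 34) (nat_lit 5) (nat_lit 246) (nat_lit 240) (nat_lit 114))))))) (XT.nd (nat_lit 31122) (nat_lit 0) (nat_lit 532) (XT.nd (nat_lit 468) (nat_lit 380) (nat_lit 0) (XT.nd (nat_lit 156) (nat_lit 304) (nat_lit 0) (XT.nd (nat_lit 78) (nat_lit 228) (nat_lit 0) (XT.lf (nat_lit 0) (nat_lit 161214772814) (nat_lit 228) (nat_lit 1172751624576) (nat_lit 76) (nat_lit 570269401432) (nat_lit 27) (nat_lit 5) (nat_lit 30) (nat_lit 5) (nat_lit 28) (nat_lit 5) (nat_lit 247) (nat_lit 240) (nat_lit 113)) (XT.lf (nat_lit 0) (nat_lit 424646793634) (nat_lit 228) (nat_lit 152252263097) (nat_lit 304) (nat_lit 1503081349272) (nat_lit 24) (nat_lit 5) (nat_lit 27) (nat_lit 5) (nat_lit 28) (nat_lit 5) (nat_lit 248) (nat_lit 240) (nat_lit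 112))) (XT.nd (nat_lit 78) (nat_lit 152) (nat_lit 0) (XT.lf (nat_lit 0) (nat_lit 24642252125) (nat_lit 152) (nat_lit 1094938235077) (nat_lit 228) (nat_lit 1157334656771) (nat_lit 22) (nat_lit 5) (nat_lit 24) (nat_lit 5) (nat_lit 25) (nat_lit 5) (nat_lit 249) (nat_lit 240) (nat_lit 111)) (XT.nd (nat_lit 78) (nat_lit 152) (nat_lit 0) (XT.lf (nat_lit 0) (nat_lit 1802129618463) (nat_lit 228) (nat_lit 452950404989) (nat_lit 76) (nat_lit 243632830314) (nat_lit 22) (nat_lit 5) (nat_lit 25) (nat_lit 5) (nat_lit 23) (nat_lit 5) (nat_lit 250) (nat_lit 240) (nat_lit 110)) (XT.lf (nat_lit 0) (nat_lit 1669502436349) (nat_lit 152) (nat_lit 987993535915) (nat_lit 228) (nat_lit 90649459557) (nat_lit 20) (nat_lit 5) (nat_lit 22) (nat_lit 5) (nat_lit 23) (nat_lit 5) (nat_lit 251) (nat_lit 240) (nat_lit 109))))) (XT.nd (nat_lit 30420) (nat_lit 0) (nat_lit 1672) (XT.nd (nat_lit 30342) (nat_lit 0) (nat_lit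 1596) (XT.lf (nat_lit 0) (nat_lit 378287257478) (nat_lit 152) (nat_lit 1143192820902) (nat_lit 228) (nat_lit 1825929870611) (nat_lit 15) (nat_lit 5) (nat_lit 17) (nat_lit 5) (nat_lit 18) (nat_lit 5) (nat_lit 253) (nat_lit 240) (nat_lit 107)) (XT.lf (nat_lit 0) (nat_lit 232789280509) (nat_lit 532) (nat_lit 199576060460) (nat_lit 532) (nat_lit 199576060460) (nat_lit 36) (nat_lit 3) (nat_lit 43) (nat_lit 3) (nat_lit 43) (nat_lit 5) (nat_lit 241) (nat_lit 241) (nat_lit 118))) (XT.nd (nat_lit 78) (nat_lit 0) (nat_lit 0) (XT.lf (nat_lit 0) (nat_lit 519168089218) (nat_lit 456) (nat_lit 714370397666) (nat_lit 532) (nat_lit 123641834952) (nat_lit 37) (nat_lit 5) (nat_lit 43) (nat_lit 5) (nat_lit 44) (nat_lit 5) (nat_lit 242) (nat_lit 241) (nat_lit 117)) (XT.nd (nat_lit 78) (nat_lit 0) (nat_lit 76) (XT.lf (nat_lit 76) (nat_lit 397354013262) (nat_lit 0) (nat_lit 228837433658) (nat_lit 532) (nat_lit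 834649389780) (nat_lit 38) (nat_lit 5) (nat_lit 37) (nat_lit 5) (nat_lit 44) (nat_lit 5) (nat_lit 243) (nat_lit 241) (nat_lit 116)) (XT.lf (nat_lit 76) (nat_lit 124094075816) (nat_lit 0) (nat_lit 671781025601) (nat_lit 532) (nat_lit 780446783979) (nat_lit 39) (nat_lit 5) (nat_lit 38) (nat_lit 5) (nat_lit 45) (nat_lit 5) (nat_lit 244) (nat_lit 241) (nat_lit 115)))))) (XT.nd (nat_lit 390) (nat_lit 152) (nat_lit 0) (XT.nd (nat_lit 156) (nat_lit 684) (nat_lit 0) (XT.nd (nat_lit 78) (nat_lit 456) (nat_lit 0) (XT.lf (nat_lit 0) (nat_lit 1040634212980) (nat_lit 456) (nat_lit 171095119928) (nat_lit 76) (nat_lit 493425925823) (nat_lit 39) (nat_lit 5) (nat_lit 45) (nat_lit 5) (nat_lit 40) (nat_lit 5) (nat_lit 245) (nat_lit 241) (nat_lit 114)) (XT.lf (nat_lit 0) (nat_lit 1351221221684) (nat_lit 456) (nat_lit 21962666853) (nat_lit 532) (nat_lit 476043613789) (nat_lit 33) (nat_lit 5) (nat_lit 39)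 (nat_lit 5) (nat_lit 40) (nat_lit 5) (nat_lit 246) (nat_lit 241) (nat_lit 113))) (XT.nd (nat_lit 78) (nat_lit 456) (nat_lit 0) (XT.lf (nat_lit 0) (nat_lit 1121319693090) (nat_lit 228) (nat_lit 698752516155) (nat_lit 304) (nat_lit 189681877746) (nat_lit 30) (nat_lit 5) (nat_lit 33) (nat_lit 5) (nat_lit 34) (nat_lit 5) (nat_lit 247) (nat_lit 241) (nat_lit 112)) (XT.nd (nat_lit 78) (nat_lit 228) (nat_lit 0) (XT.lf (nat_lit 0) (nat_lit 185397060376) (nat_lit 228) (nat_lit 1348664283731) (nat_lit 76) (nat_lit 655809818500) (nat_lit 27) (nat_lit 5) (nat_lit 30) (nat_lit 5) (nat_lit 28) (nat_lit 5) (nat_lit 248) (nat_lit 241) (nat_lit 111)) (XT.lf (nat_lit 0) (nat_lit 488343890055) (nat_lit 228) (nat_lit 175090089342) (nat_lit 304) (nat_lit 1728543482107) (nat_lit 24) (nat_lit 5) (nat_lit 27) (nat_lit 5) (nat_lit 28) (nat_lit 5) (nat_lit 249) (nat_lit 241) (nat_lit 110))))) (XT.nd (nat_lit 30654)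 (nat_lit 0) (nat_lit 1064) (XT.nd (nat_lit 78) (nat_lit 0) (nat_lit 0) (XT.lf (nat_lit 0) (nat_lit 28338665422) (nat_lit 152) (nat_lit 1259178952740) (nat_lit 228) (nat_lit 1330934792545) (nat_lit 22) (nat_lit 5) (nat_lit 24) (nat_lit 5) (nat_lit 25) (nat_lit 5) (nat_lit 250) (nat_lit 241) (nat_lit 109)) (XT.lf (nat_lit 0) (nat_lit 2072449111931) (nat_lit 228) (nat_lit 520892896244) (nat_lit 76) (nat_lit 280177769399) (nat_lit 22) (nat_lit 5) (nat_lit 25) (nat_lit 5) (nat_lit 23) (nat_lit 5) (nat_lit 251) (nat_lit 241) (nat_lit 108))) (XT.nd (nat_lit 78) (nat_lit 0) (nat_lit 76) (XT.lf (nat_lit 0) (nat_lit 267707735617) (nat_lit 532) (nat_lit 229512435325) (nat_lit 532) (nat_lit 229512435325) (nat_lit 36) (nat_lit 3) (nat_lit 43) (nat_lit 3) (nat_lit 43) (nat_lit 5) (nat_lit 242) (nat_lit 242) (nat_lit 116)) (XT.nd (nat_lit 78) (nat_lit 0) (nat_lit 0) (XT.lf (nat_lit 0) (nat_lit 597043412560)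 (nat_lit 456) (nat_lit 821525884061) (nat_lit 532) (nat_lit 142188064113) (nat_lit 37) (nat_lit 5) (nat_lit 43) (nat_lit 5) (nat_lit 44) (nat_lit 5) (nat_lit 243) (nat_lit 242) (nat_lit 115)) (XT.lf (nat_lit 76) (nat_lit 456957182305) (nat_lit 0) (nat_lit 263163078883) (nat_lit 532) (nat_lit 959846692734) (nat_lit 38) (nat_lit 5) (nat_lit 37) (nat_lit 5) (nat_lit 44) (nat_lit 5) (nat_lit 244) (nat_lit 242) (nat_lit 114))))))))
noncomputable def xc63 : XT := (XT.nd (nat_lit 62712) (nat_lit 0) (nat_lit 608) (XT.nd (nat_lit 31278) (nat_lit 0) (nat_lit 0) (XT.nd (nat_lit 390) (nat_lit 380) (nat_lit 0) (XT.nd (nat_lit 156) (nat_lit 836) (nat_lit 0) (XT.nd (nat_lit 78) (nat_lit 0) (nat_lit 76) (XT.lf (nat_lit 76) (nat_lit 142708256812) (nat_lit 0) (nat_lit 772548195407) (nat_lit 532) (nat_lit 897513708699) (nat_lit 39) (nat_lit 5) (nat_lit 38) (nat_lit 5) (nat_lit 45) (nat_lit 5) (nat_lit 245)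 (nat_lit 242) (nat_lit 113)) (XT.lf (nat_lit 0) (nat_lit 1196729419019) (nat_lit 456) (nat_lit 196759320705) (nat_lit 76) (nat_lit 567439801507) (nat_lit 39) (nat_lit 5) (nat_lit 45) (nat_lit 5) (nat_lit 40) (nat_lit 5) (nat_lit 246) (nat_lit 242) (nat_lit 112))) (XT.nd (nat_lit 78) (nat_lit 456) (nat_lit 0) (XT.lf (nat_lit 0) (nat_lit 1553904466460) (nat_lit 456) (nat_lit 25257071266) (nat_lit 532) (nat_lit 547450084345) (nat_lit 33) (nat_lit 5) (nat_lit 39) (nat_lit 5) (nat_lit 40) (nat_lit 5) (nat_lit 247) (nat_lit 242) (nat_lit 111)) (XT.nd (nat_lit 78) (nat_lit 228) (nat_lit 0) (XT.lf (nat_lit 0) (nat_lit 1289517708596) (nat_lit 228) (nat_lit 803565390736) (nat_lit 304) (nat_lit 218134095723) (nat_lit 30) (nat_lit 5) (nat_lit 33) (nat_lit 5) (nat_lit 34) (nat_lit 5) (nat_lit 248) (nat_lit 242) (nat_lit 110)) (XT.lf (nat_lit 0) (nat_lit 213206673602) (nat_lit 228) (nat_lit 1550963862373)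 (nat_lit 76) (nat_lit 754181296457) (nat_lit 27) (nat_lit 5) (nat_lit 30) (nat_lit 5) (nat_lit 28) (nat_lit 5) (nat_lit 249) (nat_lit 242) (nat_lit 109))))) (XT.nd (nat_lit 156) (nat_lit 0) (nat_lit 0) (XT.nd (nat_lit 78) (nat_lit 152) (nat_lit 0) (XT.lf (nat_lit 0) (nat_lit 561595532070) (nat_lit 228) (nat_lit 201353592747) (nat_lit 304) (nat_lit 1987824951829) (nat_lit 24) (nat_lit 5) (nat_lit 27) (nat_lit 5) (nat_lit 28) (nat_lit 5) (nat_lit 250) (nat_lit 242) (nat_lit 108)) (XT.lf (nat_lit 0) (nat_lit 32589522307) (nat_lit 152) (nat_lit 1448055782344) (nat_lit 228) (nat_lit 1530574963985) (nat_lit 22) (nat_lit 5) (nat_lit 24) (nat_lit 5) (nat_lit 25) (nat_lit 5) (nat_lit 251) (nat_lit 242) (nat_lit 107))) (XT.nd (nat_lit 30576) (nat_lit 0) (nat_lit 1064) (XT.lf (nat_lit 0) (nat_lit 2383316517055) (nat_lit 228) (nat_lit 599026778133) (nat_lit 76) (nat_lit 322204445801) (nat_lit 22)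 (nat_lit 5) (nat_lit 25) (nat_lit 5) (nat_lit 23) (nat_lit 5) (nat_lit 252) (nat_lit 242) (nat_lit 106)) (XT.nd (nat_lit 78) (nat_lit 0) (nat_lit 76) (XT.lf (nat_lit 0) (nat_lit 307863943621) (nat_lit 532) (nat_lit 263939274761) (nat_lit 532) (nat_lit 263939274761) (nat_lit 36) (nat_lit 3) (nat_lit 43) (nat_lit 3) (nat_lit 43) (nat_lit 5) (nat_lit 243) (nat_lit 243) (nat_lit 114)) (XT.lf (nat_lit 0) (nat_lit 686600007590) (nat_lit 456) (nat_lit 944754711280) (nat_lit 532) (nat_lit 163516238885) (nat_lit 37) (nat_lit 5) (nat_lit 43) (nat_lit 5) (nat_lit 44) (nat_lit 5) (nat_lit 244) (nat_lit 243) (nat_lit 113)))))) (XT.nd (nat_lit 390) (nat_lit 608) (nat_lit 0) (XT.nd (nat_lit 156) (nat_lit 532) (nat_lit 0) (XT.nd (nat_lit 78) (nat_lit 0) (nat_lit 76) (XT.lf (nat_lit 76) (nat_lit 525500810353) (nat_lit 0) (nat_lit 302637563533) (nat_lit 532) (nat_lit 1103823616862) (nat_lit 38) (nat_lit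 5) (nat_lit 37) (nat_lit 5) (nat_lit 44) (nat_lit 5) (nat_lit 245) (nat_lit 243) (nat_lit 112)) (XT.lf (nat_lit 76) (nat_lit 164114547980) (nat_lit 0) (nat_lit 888430436792) (nat_lit 532) (nat_lit 1032140694776) (nat_lit 39) (nat_lit 5) (nat_lit 38) (nat_lit 5) (nat_lit 45) (nat_lit 5) (nat_lit 246) (nat_lit 243) (nat_lit 111))) (XT.nd (nat_lit 78) (nat_lit 684) (nat_lit 0) (XT.lf (nat_lit 0) (nat_lit 1376238887897) (nat_lit 456) (nat_lit 226273167989) (nat_lit 76) (nat_lit 652555761760) (nat_lit 39) (nat_lit 5) (nat_lit 45) (nat_lit 5) (nat_lit 40) (nat_lit 5) (nat_lit 247) (nat_lit 243) (nat_lit 110)) (XT.nd (nat_lit 78) (nat_lit 228) (nat_lit 0) (XT.lf (nat_lit 0) (nat_lit 1786990182949) (nat_lit 456) (nat_lit 29045635271) (nat_lit 532) (nat_lit 629567542923) (nat_lit 33) (nat_lit 5) (nat_lit 39) (nat_lit 5) (nat_lit 40) (nat_lit 5) (nat_lit 248) (nat_lit 243) (nat_lit 109)) (XT.lf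 (nat_lit 0) (nat_lit 1482945411420) (nat_lit 228) (nat_lit 924100197198) (nat_lit 304) (nat_lit 250854161927) (nat_lit 30) (nat_lit 5) (nat_lit 33) (nat_lit 5) (nat_lit 34) (nat_lit 5) (nat_lit 249) (nat_lit 243) (nat_lit 108))))) (XT.nd (nat_lit 30810) (nat_lit 0) (nat_lit 1064) (XT.nd (nat_lit 156) (nat_lit 380) (nat_lit 0) (XT.lf (nat_lit 0) (nat_lit 245187715602) (nat_lit 228) (nat_lit 1783608393398) (nat_lit 76) (nat_lit 867308494844) (nat_lit 27) (nat_lit 5) (nat_lit 30) (nat_lit 5) (nat_lit 28) (nat_lit 5) (nat_lit 250) (nat_lit 243) (nat_lit 107)) (XT.lf (nat_lit 0) (nat_lit 37477993808) (nat_lit 152) (nat_lit 1665264139633) (nat_lit 228) (nat_lit 1760161172710) (nat_lit 22) (nat_lit 5) (nat_lit 24) (nat_lit 5) (nat_lit 25) (nat_lit 5) (nat_lit 252) (nat_lit 243) (nat_lit 105))) (XT.nd (nat_lit 78) (nat_lit 0) (nat_lit 76) (XT.lf (nat_lit 0) (nat_lit 354043571202) (nat_lit 532)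 (nat_lit 303530146419) (nat_lit 532) (nat_lit 303530146419) (nat_lit 36) (nat_lit 3) (nat_lit 43) (nat_lit 3) (nat_lit 43) (nat_lit 5) (nat_lit 244) (nat_lit 244) (nat_lit 112)) (XT.nd (nat_lit 78) (nat_lit 0) (nat_lit 0) (XT.lf (nat_lit 0) (nat_lit 789590071598) (nat_lit 456) (nat_lit 1086467876089) (nat_lit 532) (nat_lit 188043648371) (nat_lit 37) (nat_lit 5) (nat_lit 43) (nat_lit 5) (nat_lit 44) (nat_lit 5) (nat_lit 245) (nat_lit 244) (nat_lit 111)) (XT.lf (nat_lit 76) (nat_lit 604325970244) (nat_lit 0) (nat_lit 348033215316) (nat_lit 532) (nat_lit 1269397099064) (nat_lit 38) (nat_lit 5) (nat_lit 37) (nat_lit 5) (nat_lit 44) (nat_lit 5) (nat_lit 246) (nat_lit 244) (nat_lit 110))))))) (XT.nd (nat_lit 62478) (nat_lit 0) (nat_lit 228) (XT.nd (nat_lit 31200) (nat_lit 0) (nat_lit 0) (XT.nd (nat_lit 156) (nat_lit 608) (nat_lit 0) (XT.nd (nat_lit 78) (nat_lit 0) (nat_lit 76) (XT.lf (nat_lit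 76) (nat_lit 188731769985) (nat_lit 0) (nat_lit 1021695011440) (nat_lit 532) (nat_lit 1186961745889) (nat_lit 39) (nat_lit 5) (nat_lit 38) (nat_lit 5) (nat_lit 45) (nat_lit 5) (nat_lit 247) (nat_lit 244) (nat_lit 109)) (XT.lf (nat_lit 0) (nat_lit 1582674763445) (nat_lit 456) (nat_lit 260214104758) (nat_lit 76) (nat_lit 750439118483) (nat_lit 39) (nat_lit 5) (nat_lit 45) (nat_lit 5) (nat_lit 40) (nat_lit 5) (nat_lit 248) (nat_lit 244) (nat_lit 108))) (XT.nd (nat_lit 78) (nat_lit 228) (nat_lit 0) (XT.lf (nat_lit 0) (nat_lit 2055038745568) (nat_lit 456) (nat_lit 33402483070) (nat_lit 532) (nat_lit 724002633474) (nat_lit 33) (nat_lit 5) (nat_lit 39) (nat_lit 5) (nat_lit 40) (nat_lit 5) (nat_lit 249) (nat_lit 244) (nat_lit 107)) (XT.nd (nat_lit 30888) (nat_lit 0) (nat_lit 456) (XT.lf (nat_lit 0) (nat_lit 1705387258320) (nat_lit 228) (nat_lit 1062715225153) (nat_lit 304) (nat_lit 288482249805)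 (nat_lit 30) (nat_lit 5) (nat_lit 33) (nat_lit 5) (nat_lit 34) (nat_lit 5) (nat_lit 250) (nat_lit 244) (nat_lit 106)) (XT.lf (nat_lit 0) (nat_lit 407150134133) (nat_lit 532) (nat_lit 349059653595) (nat_lit 532) (nat_lit 349059653595) (nat_lit 36) (nat_lit 3) (nat_lit 43) (nat_lit 3) (nat_lit 43) (nat_lit 5) (nat_lit 245) (nat_lit 245) (nat_lit 110))))) (XT.nd (nat_lit 156) (nat_lit 532) (nat_lit 0) (XT.nd (nat_lit 78) (nat_lit 0) (nat_lit 0) (XT.lf (nat_lit 0) (nat_lit 908028629876) (nat_lit 456) (nat_lit 1249438025832) (nat_lit 532) (nat_lit 216250175704) (nat_lit 37) (nat_lit 5) (nat_lit 43) (nat_lit 5) (nat_lit 44) (nat_lit 5) (nat_lit 246) (nat_lit 245) (nat_lit 109)) (XT.lf (nat_lit 76) (nat_lit 694974894770) (nat_lit 0) (nat_lit 400238210659) (nat_lit 532) (nat_lit 1459806618308) (nat_lit 38) (nat_lit 5) (nat_lit 37) (nat_lit 5) (nat_lit 44) (nat_lit 5) (nat_lit 247) (nat_lit 245)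 (nat_lit 108))) (XT.nd (nat_lit 78) (nat_lit 608) (nat_lit 0) (XT.lf (nat_lit 76) (nat_lit 217041565583) (nat_lit 0) (nat_lit 1174949270058) (nat_lit 532) (nat_lit 1365005967620) (nat_lit 39) (nat_lit 5) (nat_lit 38) (nat_lit 5) (nat_lit 45) (nat_lit 5) (nat_lit 248) (nat_lit 245) (nat_lit 107)) (XT.nd (nat_lit 156) (nat_lit 684) (nat_lit 0) (XT.lf (nat_lit 0) (nat_lit 1820076009994) (nat_lit 456) (nat_lit 299246191414) (nat_lit 76) (nat_lit 863004980553) (nat_lit 39) (nat_lit 5) (nat_lit 45) (nat_lit 5) (nat_lit 40) (nat_lit 5) (nat_lit 249) (nat_lit 245) (nat_lit 106)) (XT.lf (nat_lit 0) (nat_lit 1961195373675) (nat_lit 228) (nat_lit 1222122507697) (nat_lit 304) (nat_lit 331754559743) (nat_lit 30) (nat_lit 5) (nat_lit 33) (nat_lit 5) (nat_lit 34) (nat_lit 5) (nat_lit 251) (nat_lit 245) (nat_lit 104)))))) (XT.nd (nat_lit 31356) (nat_lit 0) (nat_lit 228) (XT.nd (nat_lit 156) (nat_lit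 228) (nat_lit 0) (XT.nd (nat_lit 78) (nat_lit 0) (nat_lit 76) (XT.lf (nat_lit 0) (nat_lit 468222674858) (nat_lit 532) (nat_lit 401418590453) (nat_lit 532) (nat_lit 401418590453) (nat_lit 36) (nat_lit 3) (nat_lit 43) (nat_lit 3) (nat_lit 43) (nat_lit 5) (nat_lit 246) (nat_lit 246) (nat_lit 108)) (XT.lf (nat_lit 0) (nat_lit 1044232960303) (nat_lit 456) (nat_lit 1436853705760) (nat_lit 532) (nat_lit 248687686995) (nat_lit 37) (nat_lit 5) (nat_lit 43) (nat_lit 5) (nat_lit 44) (nat_lit 5) (nat_lit 247) (nat_lit 246) (nat_lit 107))) (XT.nd (nat_lit 78) (nat_lit 304) (nat_lit 0) (XT.lf (nat_lit 76) (nat_lit 799221150905) (nat_lit 0) (nat_lit 460273952122) (nat_lit 532) (nat_lit 1678777576562) (nat_lit 38) (nat_lit 5) (nat_lit 37) (nat_lit 5) (nat_lit 44) (nat_lit 5) (nat_lit 248) (nat_lit 246) (nat_lit 106)) (XT.nd (nat_lit 156) (nat_lit 380) (nat_lit 0) (XT.lf (nat_lit 76) (nat_lit 249597823181)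 (nat_lit 0) (nat_lit 1351191665787) (nat_lit 532) (nat_lit 1569756832401) (nat_lit 39) (nat_lit 5) (nat_lit 38) (nat_lit 5) (nat_lit 45) (nat_lit 5) (nat_lit 249) (nat_lit 246) (nat_lit 105)) (XT.lf (nat_lit 0) (nat_lit 2717788791713) (nat_lit 456) (nat_lit 44174787473) (nat_lit 532) (nat_lit 957493423838) (nat_lit 33) (nat_lit 5) (nat_lit 39) (nat_lit 5) (nat_lit 40) (nat_lit 5) (nat_lit 251) (nat_lit 246) (nat_lit 103))))) (XT.nd (nat_lit 234) (nat_lit 0) (nat_lit 76) (XT.nd (nat_lit 78) (nat_lit 0) (nat_lit 76) (XT.lf (nat_lit 0) (nat_lit 538456091668) (nat_lit 532) (nat_lit 461631370566) (nat_lit 532) (nat_lit 461631370566) (nat_lit 36) (nat_lit 3) (nat_lit 43) (nat_lit 3) (nat_lit 43) (nat_lit 5) (nat_lit 247) (nat_lit 247) (nat_lit 106)) (XT.nd (nat_lit 78) (nat_lit 0) (nat_lit 0) (XT.lf (nat_lit 0) (nat_lit 1200867931529) (nat_lit 456) (nat_lit 1652381743517) (nat_lit 532) (nat_lit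 285990828654) (nat_lit 37) (nat_lit 5) (nat_lit 43) (nat_lit 5) (nat_lit 44) (nat_lit 5) (nat_lit 248) (nat_lit 247) (nat_lit 105)) (XT.lf (nat_lit 76) (nat_lit 919104340116) (nat_lit 0) (nat_lit 529315052400) (nat_lit 532) (nat_lit 1930594186965) (nat_lit 38) (nat_lit 5) (nat_lit 37) (nat_lit 5) (nat_lit 44) (nat_lit 5) (nat_lit 249) (nat_lit 247) (nat_lit 104)))) (XT.nd (nat_lit 31200) (nat_lit 76) (nat_lit 0) (XT.lf (nat_lit 76) (nat_lit 287037513868) (nat_lit 0) (nat_lit 1553870419602) (nat_lit 532) (nat_lit 1805220334303) (nat_lit 39) (nat_lit 5) (nat_lit 38) (nat_lit 5) (nat_lit 45) (nat_lit 5) (nat_lit 250) (nat_lit 247) (nat_lit 103)) (XT.nd (nat_lit 78) (nat_lit 0) (nat_lit 0) (XT.lf (nat_lit 0) (nat_lit 1380998141811) (nat_lit 456) (nat_lit 1900238991352) (nat_lit 532) (nat_lit 328889444339) (nat_lit 37) (nat_lit 5) (nat_lit 43) (nat_lit 5) (nat_lit 44) (nat_lit 5) (nat_lit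 249) (nat_lit 248) (nat_lit 103)) (XT.lf (nat_lit 76) (nat_lit 1056970003666) (nat_lit 0) (nat_lit 608712315900) (nat_lit 532) (nat_lit 2220183295289) (nat_lit 38) (nat_lit 5) (nat_lit 37) (nat_lit 5) (nat_lit 44) (nat_lit 5) (nat_lit 250) (nat_lit 248) (nat_lit 102))))))))

set_option maxRecDepth 10000000 in
noncomputable def Tp : PT := (PT.nd (nat_lit 3167112) (PT.nd (nat_lit 3041922) pc0 pc1) (PT.nd (nat_lit 93210) pc2 pc3))

set_option maxRecDepth 10000000 in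
noncomputable def Tx : XT := (XT.nd (nat_lit 5306418) (nat_lit 0) (nat_lit 76) XT.nil (XT.nd (nat_lit 2470104) (nat_lit 0) (nat_lit 0) (XT.nd (nat_lit 1125072) (nat_lit 0) (nat_lit 0) (XT.nd (nat_lit 780000) (nat_lit 0) (nat_lit 0) (XT.nd (nat_lit 560196) (nat_lit 0) (nat_lit 0) (XT.nd (nat_lit 374868) (nat_lit 0) (nat_lit 0) (XT.nd (nat_lit 280098) (nat_lit 0) (nat_lit 0) (XT.nd (nat_lit 187044) (nat_lit 0) (nat_lit 0) xc0 xc1) (XT.nd (nat_lit 62244) (nat_lit 0) (nat_lit 0) xc2 xc3)) (XT.nd (nat_lit 93366) (nat_lit 0) (nat_lit 0) (XT.nd (nat_lit 61308) (nat_lit 0) (nat_lit 0) xc4 xc5) (XT.nd (nat_lit 31824) (nat_lit 0) (nat_lit 0) xc6 xc7))) (XT.nd (nat_lit 124644) (nat_lit 0) (nat_lit 0) (XT.nd (nat_lit 62634) (nat_lit 0) (nat_lit 0) (XT.nd (nat_lit 31356) (nat_lit 0) (nat_lit 0) xc8 xc9) (XT.nd (nat_lit 31044) (nat_lit 0) (nat_lit 0) xc10 xc11)) (XT.nd (nat_lit 33930) (nat_lit 0) (nat_lit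 0) (XT.nd (nat_lit 3120) (nat_lit 0) (nat_lit 0) xc12 xc13) (XT.nd (nat_lit 30654) (nat_lit 0) (nat_lit 0) xc14 xc15)))) (XT.nd (nat_lit 186264) (nat_lit 0) (nat_lit 0) (XT.nd (nat_lit 93834) (nat_lit 0) (nat_lit 0) (XT.nd (nat_lit 60606) (nat_lit 0) (nat_lit 0) (XT.nd (nat_lit 30342) (nat_lit 0) (nat_lit 0) xc16 xc17) (XT.nd (nat_lit 3120) (nat_lit 0) (nat_lit 0) xc18 xc19)) (XT.nd (nat_lit 33072) (nat_lit 0) (nat_lit 0) (XT.nd (nat_lit 29874) (nat_lit 0) (nat_lit 0) xc20 xc21) (XT.nd (nat_lit 29718) (nat_lit 0) (nat_lit 0) xc22 xc23))) (XT.nd (nat_lit 65754) (nat_lit 0) (nat_lit 0) (XT.nd (nat_lit 32838) (nat_lit 0) (nat_lit 0) (XT.nd (nat_lit 3120) (nat_lit 0) (nat_lit 0) xc24 xc25) (XT.nd (nat_lit 29718) (nat_lit 0) (nat_lit 0) xc26 xc27)) (XT.nd (nat_lit 59826) (nat_lit 0) (nat_lit 0) (XT.nd (nat_lit 29796) (nat_lit 0) (nat_lit 0) xc28 xc29) (XT.nd (nat_lit 30030) (nat_lit 0) (nat_lit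 0) xc30 xc31))))) (XT.nd (nat_lit 436176) (nat_lit 0) (nat_lit 152) (XT.nd (nat_lit 188370) (nat_lit 0) (nat_lit 0) (XT.nd (nat_lit 93834) (nat_lit 0) (nat_lit 0) (XT.nd (nat_lit 60372) (nat_lit 0) (nat_lit 0) (XT.nd (nat_lit 30108) (nat_lit 0) (nat_lit 0) xc32 xc33) (XT.nd (nat_lit 30264) (nat_lit 0) (nat_lit 76) xc34 xc35)) (XT.nd (nat_lit 60840) (nat_lit 0) (nat_lit 0) (XT.nd (nat_lit 30342) (nat_lit 0) (nat_lit 0) xc36 xc37) (XT.nd (nat_lit 30498) (nat_lit 0) (nat_lit 0) xc38 xc39))) (XT.nd (nat_lit 123240) (nat_lit 0) (nat_lit 0) (XT.nd (nat_lit 61464) (nat_lit 0) (nat_lit 0) (XT.nd (nat_lit 30654) (nat_lit 0) (nat_lit 0) xc40 xc41) (XT.nd (nat_lit 30810) (nat_lit 0) (nat_lit 0) xc42 xc43)) (XT.nd (nat_lit 62088) (nat_lit 0) (nat_lit 0) (XT.nd (nat_lit 30966) (nat_lit 0) (nat_lit 0) xc44 xc45) (XT.nd (nat_lit 31122) (nat_lit 0) (nat_lit 152) xc46 xc47)))) (XT.nd (nat_lit 282516)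 (nat_lit 0) (nat_lit 76) (XT.nd (nat_lit 126048) (nat_lit 0) (nat_lit 0) (XT.nd (nat_lit 62868) (nat_lit 0) (nat_lit 0) (XT.nd (nat_lit 31356) (nat_lit 0) (nat_lit 0) xc48 xc49) (XT.nd (nat_lit 31512) (nat_lit 0) (nat_lit 0) xc50 xc51)) (XT.nd (nat_lit 63570) (nat_lit 0) (nat_lit 0) (XT.nd (nat_lit 31668) (nat_lit 0) (nat_lit 0) xc52 xc53) (XT.nd (nat_lit 60762) (nat_lit 0) (nat_lit 76) xc54 xc55))) (XT.nd (nat_lit 188526) (nat_lit 0) (nat_lit 304) (XT.nd (nat_lit 93834) (nat_lit 0) (nat_lit 152) (XT.nd (nat_lit 32214) (nat_lit 0) (nat_lit 0) xc56 xc57) (XT.nd (nat_lit 61932) (nat_lit 0) (nat_lit 76) xc58 xc59)) (XT.nd (nat_lit 155532) (nat_lit 0) (nat_lit 532) (XT.nd (nat_lit 62478) (nat_lit 0) (nat_lit 152) xc60 xc61) (XT.nd (nat_lit 94146) (nat_lit 0) (nat_lit 532) xc62 xc63)))))) XT.nil))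

set_option maxRecDepth 10000000 in
noncomputable def Te : XT := XT.nil

set_option maxRecDepth 10000000 in
noncomputable def Tz : ZL := (ZL.cons (nat_lit 76) (nat_lit 6) (nat_lit 189470515116366615174) (ZL.cons (nat_lit 152) (nat_lit 6) (nat_lit 179239051219310121276) (ZL.cons (nat_lit 228) (nat_lit 3) (nat_lit 88784708305885914068) (ZL.cons (nat_lit 304) (nat_lit 6) (nat_lit 167472867737695153290) (ZL.cons (nat_lit 380) (nat_lit 6) (nat_lit 158983327320513351348) (ZL.cons (nat_lit 456) (nat_lit 3) (nat_lit 78765735570022635179) (ZL.cons (nat_lit 532) (nat_lit 6) (nat_lit 149220355840754279116) (ZL.cons (nat_lit 608) (nat_lit 6) (nat_lit 142376913062227355818) (ZL.cons (nat_lit 684) (nat_lit 3) (nat_lit 70557214713518860088) (ZL.cons (nat_lit 760) (nat_lit 6) (nat_lit 134506953866921394030) (ZL.cons (nat_lit 836) (nat_lit 6) (nat_lit 129268652464663894298) (ZL.cons (nat_lit 912) (nat_lit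 3) (nat_lit 64085420303988627302) (ZL.cons (nat_lit 988) (nat_lit 6) (nat_lit 125297036714568878594) (ZL.cons (nat_lit 1064) (nat_lit 6) (nat_lit 123244605852067769606) (ZL.cons (nat_lit 1140) (nat_lit 6) (nat_lit 120866302723336155254) (ZL.cons (nat_lit 1216) (nat_lit 6) (nat_lit 122514401091091009652) (ZL.cons (nat_lit 1292) (nat_lit 6) (nat_lit 119631866745272970840) (ZL.cons (nat_lit 1368) (nat_lit 3) (nat_lit 59338623869729250773) (ZL.cons (nat_lit 1444) (nat_lit 6) (nat_lit 116088455254600033884) (ZL.cons (nat_lit 1520) (nat_lit 6) (nat_lit 117261939261590351380) (ZL.cons (nat_lit 1596) (nat_lit 6) (nat_lit 115477216772458952262) (ZL.cons (nat_lit 1672) (nat_lit 3) (nat_lit 56477113078714884825) (ZL.cons (nat_lit 1748) (nat_lit 6) (nat_lit 113581903649540869704) (ZL.cons (nat_lit 1824) (nat_lit 3) (nat_lit 56375900083111969940) (ZL.cons (nat_lit 1900) (nat_lit 6) (nat_lit 111402293558185074764)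 (ZL.cons (nat_lit 1976) (nat_lit 1) (nat_lit 18446744073709551617) ZL.nil))))))))))))))))))))))))))

noncomputable def vl : XL := ⟨(nat_lit 0), (nat_lit 76), (nat_lit 102204138), (nat_lit 228), (nat_lit 452851566), (nat_lit 76), (nat_lit 102204138), (nat_lit 1), (nat_lit 5), (nat_lit 3), (nat_lit 4), (nat_lit 1), (nat_lit 4), (nat_lit 0), (nat_lit 0), (nat_lit 0)⟩

noncomputable def cp0 : Nat := (nat_lit 17903035526107536498207950100062163786332298175280115851279874825741085433084490228042402084808518035816469940724606367216396916308200218014034108067465754154425186153255800553213930605354903266671042731169200234737986608050697171718720857283576840396206569776402804274249659914683783300490010742221882475223102658497685309968226363454354178128102876564321902680495060349369737312779721345620795675057523998421801616652955115543978121851861447450981499955648827573170261807653583933199411295982702384532326077782332824674575453902455122216111671811798993298361190058638736065252928383192819828479457273691506737152)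

noncomputable def cp1 : Nat := (nat_lit 113219286681863480149794528301734958796120392112313336941214260323220020761244800486237223580562313088350848750531593035145796351859354950824290130722674686030194783070993137797573882756525693531211080485604687554742511831804040275357134581631210745093395581421597953184494101841807955569065513916667982074880317017775525528598900628435686810264197814587009110705222416738854835404567937514141459555865277126267934366445456436699827822412066389434856191011091354347228159301490736043175316231028948121490779516998778303628147870416330422842693656347674202770959585885255663448806955615652054993458528372420989133952529168107989388926733853107173875621438725520870109654309886897199491195586618043423292914798283813514808203201095471488057402856245594620370659947835484956579986783637134553414790686522119213654266838139678475339333288728687234169955468782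833152692189979321457241281378137479753460413846837716760395179920598950079710620416052918243684179210094381457141563136346319519291746320251683896337292512600123421853205454801386602552690627219394621904993231088807288952500458020649624721074489264379536534199989203410904356968422497789986770078393954889209332133271298167499020324220597163198070912759643333230085770310651679753436025933644153520333732518746906913500862800120975405944395456119473305741635786990148619185311390464508507818024097772364910859908823553930639765837709312)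

noncomputable def rc0 : Nat := (nat_lit 113219286681863480149794528301734958796120392112313336941214260323220020761244800486237223580562313088350848750531593035145796351859354950824290130722674686030194783070993137797573882756525693531211080485604687554742511831804040275357134581631210745093395581421597953184494101841807955569065513916667982074880317017775525528598900628435686810264197814587009110705222416738854835404567937514141459555865277126267934366445456436699827822412066389434856191011091354347228159301490736043175316231028948121490779516998778303628147870416330422842693656347674202770959585885255663448806955615652054993458528372420989133952529168107989388926733853107173875621438725520870109654309886897199491195586618043423292914798283813514808203201095471488057402856245594620370659947835484956579986783637134553414790686522119213654266838139678475339333288728687234169955468782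833152692189979321457241281378137479753460413846837716760395179920598950079710620416052918243684179210094381457141563136346319519291746320251683896337292512600123421853205454801386602552690627219394621904993231088807288952500458020649624721074489264379536534199989203410904356968422497789986770078393954889209332133271298167499020324220597163198070912759643333230085770310651679753436025933644153520333732518746906913500862800120975405944395456119473305741635786990148619185311390464508507818024097772364910859908823553930639765837709312)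

end Vale.Agent.Lib.P154.PChain.BS.S1
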