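import Vale.Agent.Lib.P154.PChain.BS.R1_0

set_option linter.all false

namespace Vale.Agent.Lib.P154.PChain.BS.S2

open Vale.Agent.Lib.P154.Chain

noncomputable def pc0 : PT := (PT.nd (nat_lit 3911934) (PT.nd (nat_lit 3762018) (PT.nd (nat_lit 3687060) (PT.nd (nat_lit 3686904) (PT.nd (nat_lit 3649542) (PT.nd (nat_lit 3649464) PT.nil (PT.lf (nat_lit 76) (nat_lit 6) (nat_lit 1) (nat_lit 3) (nat_lit 131) (nat_lit 97) (nat_lit 132))) (PT.lf (nat_lit 76) (nat_lit 6) (nat_lit 1) (nat_lit 1) (nat_lit 132) (nat_lit 97) (nat_lit 131))) (PT.nd (nat_lit 78) (PT.lf (nat_lit 152) (nat_lit 6) (nat_lit 2) (nat_lit 3) (nat_lit 130) (nat_lit 98) (nat_lit 132)) (PT.lf (nat_lit 228) (nat_lit 3) (nat_lit 3) (nat_lit 1) (nat_lit 131) (nat_lit 98) (nat_lit 131)))) (PT.nd (nat_lit 37440) (PT.nd (nat_lit 37362) (PT.lf (nat_lit 152) (nat_lit 6) (nat_lit 2) (nat_lit 1) (nat_lit 132) (nat_lit 98) (nat_lit 130))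 (PT.lf (nat_lit 304) (nat_lit 6) (nat_lit 4) (nat_lit 3) (nat_lit 130) (nat_lit 99) (nat_lit 131))) (PT.nd (nat_lit 37362) (PT.lf (nat_lit 304) (nat_lit 6) (nat_lit 4) (nat_lit 1) (nat_lit 131) (nat_lit 99) (nat_lit 130)) (PT.nd (nat_lit 78) (PT.lf (nat_lit 380) (nat_lit 6) (nat_lit 5) (nat_lit 3) (nat_lit 129) (nat_lit 100) (nat_lit 131)) (PT.lf (nat_lit 456) (nat_lit 3) (nat_lit 6) (nat_lit 1) (nat_lit 130) (nat_lit 100) (nat_lit 130)))))) (PT.nd (nat_lit 74958) (PT.nd (nat_lit 37440) (PT.nd (nat_lit 37362) (PT.lf (nat_lit 380) (nat_lit 6) (nat_lit 5) (nat_lit 1) (nat_lit 131) (nat_lit 100) (nat_lit 129)) (PT.lf (nat_lit 532) (nat_lit 6) (nat_lit 7) (nat_lit 3) (nat_lit 129) (nat_lit 101) (nat_lit 130))) (PT.nd (nat_lit 37362) (PT.lf (nat_lit 532) (nat_lit 6) (nat_lit 7) (nat_lit 1) (nat_lit 130) (nat_lit 101) (nat_lit 129)) (PT.nd (nat_lit 78) (PT.lf (nat_lit 608) (nat_lit 6) (nat_lit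 8) (nat_lit 3) (nat_lit 128) (nat_lit 102) (nat_lit 130)) (PT.lf (nat_lit 684) (nat_lit 3) (nat_lit 9) (nat_lit 1) (nat_lit 129) (nat_lit 102) (nat_lit 129))))) (PT.nd (nat_lit 37440) (PT.nd (nat_lit 37362) (PT.lf (nat_lit 608) (nat_lit 6) (nat_lit 8) (nat_lit 1) (nat_lit 130) (nat_lit 102) (nat_lit 128)) (PT.lf (nat_lit 760) (nat_lit 6) (nat_lit 10) (nat_lit 3) (nat_lit 128) (nat_lit 103) (nat_lit 129))) (PT.nd (nat_lit 37362) (PT.lf (nat_lit 760) (nat_lit 6) (nat_lit 10) (nat_lit 1) (nat_lit 129) (nat_lit 103) (nat_lit 128)) (PT.nd (nat_lit 78) (PT.lf (nat_lit 836) (nat_lit 6) (nat_lit 11) (nat_lit 3) (nat_lit 127) (nat_lit 104) (nat_lit 129)) (PT.lf (nat_lit 912) (nat_lit 3) (nat_lit 12) (nat_lit 1) (nat_lit 128) (nat_lit 104) (nat_lit 128))))))) (PT.nd (nat_lit 112398) (PT.nd (nat_lit 74802) (PT.nd (nat_lit 37362) (PT.nd (nat_lit 37284) (PT.lf (nat_lit 836) (nat_lit 6) (nat_lit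 11) (nat_lit 1) (nat_lit 129) (nat_lit 104) (nat_lit 127)) (PT.lf (nat_lit 988) (nat_lit 6) (nat_lit 13) (nat_lit 3) (nat_lit 126) (nat_lit 105) (nat_lit 129))) (PT.nd (nat_lit 78) (PT.lf (nat_lit 1064) (nat_lit 6) (nat_lit 14) (nat_lit 3) (nat_lit 127) (nat_lit 105) (nat_lit 128)) (PT.nd (nat_lit 78) (PT.lf (nat_lit 1064) (nat_lit 6) (nat_lit 14) (nat_lit 1) (nat_lit 128) (nat_lit 105) (nat_lit 127)) (PT.lf (nat_lit 988) (nat_lit 6) (nat_lit 13) (nat_lit 1) (nat_lit 129) (nat_lit 105) (nat_lit 126))))) (PT.nd (nat_lit 156) (PT.nd (nat_lit 78) (PT.lf (nat_lit 1140) (nat_lit 6) (nat_lit 15) (nat_lit 3) (nat_lit 126) (nat_lit 106) (nat_lit 128)) (PT.lf (nat_lit 1216) (nat_lit 3) (nat_lit 16) (nat_lit 1) (nat_lit 127) (nat_lit 106) (nat_lit 127))) (PT.nd (nat_lit 37284) (PT.lf (nat_lit 1140) (nat_lit 6) (nat_lit 15) (nat_lit 1) (nat_lit 128) (nat_lit 106) (nat_lit 126)) (PT.nd (nat_lit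 78) (PT.lf (nat_lit 1292) (nat_lit 6) (nat_lit 17) (nat_lit 3) (nat_lit 125) (nat_lit 107) (nat_lit 128)) (PT.lf (nat_lit 1368) (nat_lit 6) (nat_lit 18) (nat_lit 3) (nat_lit 126) (nat_lit 107) (nat_lit 127)))))) (PT.nd (nat_lit 37518) (PT.nd (nat_lit 37284) (PT.nd (nat_lit 78) (PT.lf (nat_lit 1368) (nat_lit 6) (nat_lit 18) (nat_lit 1) (nat_lit 127) (nat_lit 107) (nat_lit 126)) (PT.lf (nat_lit 1292) (nat_lit 6) (nat_lit 17) (nat_lit 1) (nat_lit 128) (nat_lit 107) (nat_lit 125))) (PT.nd (nat_lit 78) (PT.lf (nat_lit 1444) (nat_lit 6) (nat_lit 19) (nat_lit 3) (nat_lit 124) (nat_lit 108) (nat_lit 128)) (PT.nd (nat_lit 78) (PT.lf (nat_lit 1520) (nat_lit 6) (nat_lit 20) (nat_lit 3) (nat_lit 125) (nat_lit 108) (nat_lit 127)) (PT.lf (nat_lit 1596) (nat_lit 3) (nat_lit 21) (nat_lit 1) (nat_lit 126) (nat_lit 108) (nat_lit 126))))) (PT.nd (nat_lit 37284) (PT.nd (nat_lit 78) (PT.lf (nat_lit 1520)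 (nat_lit 6) (nat_lit 20) (nat_lit 1) (nat_lit 127) (nat_lit 108) (nat_lit 125)) (PT.lf (nat_lit 1444) (nat_lit 6) (nat_lit 19) (nat_lit 1) (nat_lit 128) (nat_lit 108) (nat_lit 124))) (PT.nd (nat_lit 78) (PT.lf (nat_lit 1672) (nat_lit 6) (nat_lit 22) (nat_lit 3) (nat_lit 124) (nat_lit 109) (nat_lit 127)) (PT.nd (nat_lit 78) (PT.lf (nat_lit 1748) (nat_lit 6) (nat_lit 23) (nat_lit 3) (nat_lit 125) (nat_lit 109) (nat_lit 126)) (PT.lf (nat_lit 1748) (nat_lit 6) (nat_lit 23) (nat_lit 1) (nat_lit 126) (nat_lit 109) (nat_lit 125))))))))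
noncomputable def pc1 : PT := (PT.nd (nat_lit 149760) (PT.nd (nat_lit 74880) (PT.nd (nat_lit 37440) (PT.nd (nat_lit 37284) (PT.nd (nat_lit 37206) (PT.lf (nat_lit 1672) (nat_lit 6) (nat_lit 22) (nat_lit 1) (nat_lit 127) (nat_lit 109) (nat_lit 124)) (PT.lf (nat_lit 1824) (nat_lit 6) (nat_lit 24) (nat_lit 3) (nat_lit 123) (nat_lit 110) (nat_lit 127))) (PT.nd (nat_lit 78) (PT.lf (nat_lit 1900) (nat_lit 6) (nat_lit 25) (nat_lit 3) (nat_lit 124) (nat_lit 110) (nat_lit 126)) (PT.lf (nat_lit 1976) (nat_lit 3) (nat_lit 26) (nat_lit 1) (nat_lit 125) (nat_lit 110) (nat_lit 125)))) (PT.nd (nat_lit 37206) (PT.nd (nat_lit 78) (PT.lf (nat_lit 1900) (nat_lit 6) (nat_lit 25) (nat_lit 1) (nat_lit 126) (nat_lit 110) (nat_lit 124)) (PT.lf (nat_lit 1824) (nat_lit 6) (nat_lit 24) (nat_lit 1) (nat_lit 127) (nat_lit 110) (nat_lit 123))) (PT.nd (nat_lit 78) (PT.lf (nat_lit 2052) (nat_lit 6) (nat_lit 27) (nat_lit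 3) (nat_lit 122) (nat_lit 111) (nat_lit 127)) (PT.nd (nat_lit 78) (PT.lf (nat_lit 2128) (nat_lit 6) (nat_lit 28) (nat_lit 3) (nat_lit 123) (nat_lit 111) (nat_lit 126)) (PT.lf (nat_lit 2204) (nat_lit 6) (nat_lit 29) (nat_lit 3) (nat_lit 124) (nat_lit 111) (nat_lit 125)))))) (PT.nd (nat_lit 37440) (PT.nd (nat_lit 156) (PT.nd (nat_lit 78) (PT.lf (nat_lit 2204) (nat_lit 6) (nat_lit 29) (nat_lit 1) (nat_lit 125) (nat_lit 111) (nat_lit 124)) (PT.lf (nat_lit 2128) (nat_lit 6) (nat_lit 28) (nat_lit 1) (nat_lit 126) (nat_lit 111) (nat_lit 123))) (PT.nd (nat_lit 37128) (PT.lf (nat_lit 2052) (nat_lit 6) (nat_lit 27) (nat_lit 1) (nat_lit 127) (nat_lit 111) (nat_lit 122)) (PT.nd (nat_lit 78) (PT.lf (nat_lit 2280) (nat_lit 6) (nat_lit 30) (nat_lit 3) (nat_lit 122) (nat_lit 112) (nat_lit 126)) (PT.lf (nat_lit 2356) (nat_lit 6) (nat_lit 31) (nat_lit 3) (nat_lit 123) (nat_lit 112) (nat_lit 125)))))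 (PT.nd (nat_lit 156) (PT.nd (nat_lit 78) (PT.lf (nat_lit 2432) (nat_lit 3) (nat_lit 32) (nat_lit 1) (nat_lit 124) (nat_lit 112) (nat_lit 124)) (PT.lf (nat_lit 2356) (nat_lit 6) (nat_lit 31) (nat_lit 1) (nat_lit 125) (nat_lit 112) (nat_lit 123))) (PT.nd (nat_lit 37128) (PT.lf (nat_lit 2280) (nat_lit 6) (nat_lit 30) (nat_lit 1) (nat_lit 126) (nat_lit 112) (nat_lit 122)) (PT.nd (nat_lit 78) (PT.lf (nat_lit 2508) (nat_lit 6) (nat_lit 33) (nat_lit 3) (nat_lit 121) (nat_lit 113) (nat_lit 126)) (PT.lf (nat_lit 2584) (nat_lit 6) (nat_lit 34) (nat_lit 3) (nat_lit 122) (nat_lit 113) (nat_lit 125))))))) (PT.nd (nat_lit 37752) (PT.nd (nat_lit 37362) (PT.nd (nat_lit 156) (PT.nd (nat_lit 78) (PT.lf (nat_lit 2660) (nat_lit 6) (nat_lit 35) (nat_lit 3) (nat_lit 123) (nat_lit 113) (nat_lit 124)) (PT.lf (nat_lit 2660) (nat_lit 6) (nat_lit 35) (nat_lit 1) (nat_lit 124) (nat_lit 113) (nat_lit 123))) (PT.nd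 (nat_lit 78) (PT.lf (nat_lit 2584) (nat_lit 6) (nat_lit 34) (nat_lit 1) (nat_lit 125) (nat_lit 113) (nat_lit 122)) (PT.nd (nat_lit 37050) (PT.lf (nat_lit 2508) (nat_lit 6) (nat_lit 33) (nat_lit 1) (nat_lit 126) (nat_lit 113) (nat_lit 121)) (PT.lf (nat_lit 2964) (nat_lit 6) (nat_lit 39) (nat_lit 3) (nat_lit 120) (nat_lit 114) (nat_lit 126))))) (PT.nd (nat_lit 156) (PT.nd (nat_lit 78) (PT.lf (nat_lit 3040) (nat_lit 6) (nat_lit 40) (nat_lit 3) (nat_lit 121) (nat_lit 114) (nat_lit 125)) (PT.lf (nat_lit 3116) (nat_lit 6) (nat_lit 41) (nat_lit 3) (nat_lit 122) (nat_lit 114) (nat_lit 124))) (PT.nd (nat_lit 78) (PT.lf (nat_lit 3192) (nat_lit 3) (nat_lit 42) (nat_lit 1) (nat_lit 123) (nat_lit 114) (nat_lit 123)) (PT.nd (nat_lit 78) (PT.lf (nat_lit 3116) (nat_lit 6) (nat_lit 41) (nat_lit 1) (nat_lit 124) (nat_lit 114) (nat_lit 122)) (PT.lf (nat_lit 3040) (nat_lit 6) (nat_lit 40) (nat_lit 1)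 (nat_lit 125) (nat_lit 114) (nat_lit 121)))))) (PT.nd (nat_lit 37284) (PT.nd (nat_lit 37050) (PT.nd (nat_lit 36972) (PT.lf (nat_lit 2964) (nat_lit 6) (nat_lit 39) (nat_lit 1) (nat_lit 126) (nat_lit 114) (nat_lit 120)) (PT.lf (nat_lit 2888) (nat_lit 6) (nat_lit 38) (nat_lit 3) (nat_lit 119) (nat_lit 115) (nat_lit 126))) (PT.nd (nat_lit 78) (PT.lf (nat_lit 3420) (nat_lit 6) (nat_lit 45) (nat_lit 3) (nat_lit 120) (nat_lit 115) (nat_lit 125)) (PT.nd (nat_lit 78) (PT.lf (nat_lit 3496) (nat_lit 6) (nat_lit 46) (nat_lit 3) (nat_lit 121) (nat_lit 115) (nat_lit 124)) (PT.lf (nat_lit 3572) (nat_lit 6) (nat_lit 47) (nat_lit 3) (nat_lit 122) (nat_lit 115) (nat_lit 123))))) (PT.nd (nat_lit 156) (PT.nd (nat_lit 78) (PT.lf (nat_lit 3572) (nat_lit 6) (nat_lit 47) (nat_lit 1) (nat_lit 123) (nat_lit 115) (nat_lit 122)) (PT.lf (nat_lit 3496) (nat_lit 6) (nat_lit 46) (nat_lit 1) (nat_lit 124) (nat_lit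 115) (nat_lit 121))) (PT.nd (nat_lit 78) (PT.lf (nat_lit 3420) (nat_lit 6) (nat_lit 45) (nat_lit 1) (nat_lit 125) (nat_lit 115) (nat_lit 120)) (PT.nd (nat_lit 36894) (PT.lf (nat_lit 2888) (nat_lit 6) (nat_lit 38) (nat_lit 1) (nat_lit 126) (nat_lit 115) (nat_lit 119)) (PT.lf (nat_lit 2812) (nat_lit 6) (nat_lit 37) (nat_lit 3) (nat_lit 118) (nat_lit 116) (nat_lit 126))))))))
noncomputable def pc2 : PT := (PT.nd (nat_lit 74880) (PT.nd (nat_lit 37440) (PT.nd (nat_lit 312) (PT.nd (nat_lit 156) (PT.nd (nat_lit 78) (PT.lf (nat_lit 3344) (nat_lit 6) (nat_lit 44) (nat_lit 3) (nat_lit 119) (nat_lit 116) (nat_lit 125)) (PT.lf (nat_lit 3800) (nat_lit 6) (nat_lit 50) (nat_lit 3) (nat_lit 120) (nat_lit 116) (nat_lit 124))) (PT.nd (nat_lit 78) (PT.lf (nat_lit 3876) (nat_lit 6) (nat_lit 51) (nat_lit 3) (nat_lit 121) (nat_lit 116) (nat_lit 123)) (PT.lf (nat_lit 3952) (nat_lit 3) (nat_lit 52) (nat_lit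 1) (nat_lit 122) (nat_lit 116) (nat_lit 122)))) (PT.nd (nat_lit 156) (PT.nd (nat_lit 78) (PT.lf (nat_lit 3876) (nat_lit 6) (nat_lit 51) (nat_lit 1) (nat_lit 123) (nat_lit 116) (nat_lit 121)) (PT.lf (nat_lit 3800) (nat_lit 6) (nat_lit 50) (nat_lit 1) (nat_lit 124) (nat_lit 116) (nat_lit 120))) (PT.nd (nat_lit 78) (PT.lf (nat_lit 3344) (nat_lit 6) (nat_lit 44) (nat_lit 1) (nat_lit 125) (nat_lit 116) (nat_lit 119)) (PT.nd (nat_lit 36816) (PT.lf (nat_lit 2812) (nat_lit 6) (nat_lit 37) (nat_lit 1) (nat_lit 126) (nat_lit 116) (nat_lit 118)) (PT.lf (nat_lit 2736) (nat_lit 3) (nat_lit 36) (nat_lit 3) (nat_lit 117) (nat_lit 117) (nat_lit 126)))))) (PT.nd (nat_lit 390) (PT.nd (nat_lit 156) (PT.nd (nat_lit 78) (PT.lf (nat_lit 3268) (nat_lit 6) (nat_lit 43) (nat_lit 3) (nat_lit 118) (nat_lit 117) (nat_lit 125)) (PT.lf (nat_lit 3724) (nat_lit 6) (nat_lit 49) (nat_lit 3) (nat_lit 119) (nat_lit 117)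 (nat_lit 124))) (PT.nd (nat_lit 78) (PT.lf (nat_lit 4104) (nat_lit 6) (nat_lit 54) (nat_lit 3) (nat_lit 120) (nat_lit 117) (nat_lit 123)) (PT.nd (nat_lit 78) (PT.lf (nat_lit 4180) (nat_lit 6) (nat_lit 55) (nat_lit 3) (nat_lit 121) (nat_lit 117) (nat_lit 122)) (PT.lf (nat_lit 4180) (nat_lit 6) (nat_lit 55) (nat_lit 1) (nat_lit 122) (nat_lit 117) (nat_lit 121))))) (PT.nd (nat_lit 156) (PT.nd (nat_lit 78) (PT.lf (nat_lit 4104) (nat_lit 6) (nat_lit 54) (nat_lit 1) (nat_lit 123) (nat_lit 117) (nat_lit 120)) (PT.lf (nat_lit 3724) (nat_lit 6) (nat_lit 49) (nat_lit 1) (nat_lit 124) (nat_lit 117) (nat_lit 119))) (PT.nd (nat_lit 78) (PT.lf (nat_lit 3268) (nat_lit 6) (nat_lit 43) (nat_lit 1) (nat_lit 125) (nat_lit 117) (nat_lit 118)) (PT.nd (nat_lit 36738) (PT.lf (nat_lit 2736) (nat_lit 3) (nat_lit 36) (nat_lit 0) (nat_lit 126) (nat_lit 117) (nat_lit 117)) (PT.lf (nat_lit 2812) (nat_lit 6) (nat_lit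 37) (nat_lit 5) (nat_lit 116) (nat_lit 118) (nat_lit 126))))))) (PT.nd (nat_lit 37362) (PT.nd (nat_lit 390) (PT.nd (nat_lit 156) (PT.nd (nat_lit 78) (PT.lf (nat_lit 3268) (nat_lit 6) (nat_lit 43) (nat_lit 5) (nat_lit 117) (nat_lit 118) (nat_lit 125)) (PT.lf (nat_lit 3648) (nat_lit 3) (nat_lit 48) (nat_lit 3) (nat_lit 118) (nat_lit 118) (nat_lit 124))) (PT.nd (nat_lit 78) (PT.lf (nat_lit 4028) (nat_lit 6) (nat_lit 53) (nat_lit 3) (nat_lit 119) (nat_lit 118) (nat_lit 123)) (PT.nd (nat_lit 78) (PT.lf (nat_lit 4332) (nat_lit 6) (nat_lit 57) (nat_lit 3) (nat_lit 120) (nat_lit 118) (nat_lit 122)) (PT.lf (nat_lit 4408) (nat_lit 3) (nat_lit 58) (nat_lit 1) (nat_lit 121) (nat_lit 118) (nat_lit 121))))) (PT.nd (nat_lit 156) (PT.nd (nat_lit 78) (PT.lf (nat_lit 4332) (nat_lit 6) (nat_lit 57) (nat_lit 1) (nat_lit 122) (nat_lit 118) (nat_lit 120)) (PT.lf (nat_lit 4028) (nat_lit 6) (nat_lit 53) (nat_lit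 1) (nat_lit 123) (nat_lit 118) (nat_lit 119))) (PT.nd (nat_lit 78) (PT.lf (nat_lit 3648) (nat_lit 3) (nat_lit 48) (nat_lit 0) (nat_lit 124) (nat_lit 118) (nat_lit 118)) (PT.nd (nat_lit 78) (PT.lf (nat_lit 3268) (nat_lit 6) (nat_lit 43) (nat_lit 0) (nat_lit 125) (nat_lit 118) (nat_lit 117)) (PT.lf (nat_lit 2812) (nat_lit 6) (nat_lit 37) (nat_lit 0) (nat_lit 126) (nat_lit 118) (nat_lit 116)))))) (PT.nd (nat_lit 390) (PT.nd (nat_lit 156) (PT.nd (nat_lit 78) (PT.lf (nat_lit 2888) (nat_lit 6) (nat_lit 38) (nat_lit 5) (nat_lit 115) (nat_lit 119) (nat_lit 126)) (PT.lf (nat_lit 3344) (nat_lit 6) (nat_lit 44) (nat_lit 5) (nat_lit 116) (nat_lit 119) (nat_lit 125))) (PT.nd (nat_lit 78) (PT.lf (nat_lit 3724) (nat_lit 6) (nat_lit 49) (nat_lit 5) (nat_lit 117) (nat_lit 119) (nat_lit 124)) (PT.nd (nat_lit 78) (PT.lf (nat_lit 4028) (nat_lit 6) (nat_lit 53) (nat_lit 5) (nat_lit 118) (nat_lit 119) (nat_lit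 123)) (PT.lf (nat_lit 4256) (nat_lit 3) (nat_lit 56) (nat_lit 3) (nat_lit 119) (nat_lit 119) (nat_lit 122))))) (PT.nd (nat_lit 156) (PT.nd (nat_lit 78) (PT.lf (nat_lit 4484) (nat_lit 6) (nat_lit 59) (nat_lit 3) (nat_lit 120) (nat_lit 119) (nat_lit 121)) (PT.lf (nat_lit 4484) (nat_lit 6) (nat_lit 59) (nat_lit 1) (nat_lit 121) (nat_lit 119) (nat_lit 120))) (PT.nd (nat_lit 78) (PT.lf (nat_lit 4256) (nat_lit 3) (nat_lit 56) (nat_lit 0) (nat_lit 122) (nat_lit 119) (nat_lit 119)) (PT.nd (nat_lit 78) (PT.lf (nat_lit 4028) (nat_lit 6) (nat_lit 53) (nat_lit 0) (nat_lit 123) (nat_lit 119) (nat_lit 118)) (PT.lf (nat_lit 3724) (nat_lit 6) (nat_lit 49) (nat_lit 0) (nat_lit 124) (nat_lit 119) (nat_lit 117))))))))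
noncomputable def pc3 : PT := (PT.nd (nat_lit 74412) (PT.nd (nat_lit 37206) (PT.nd (nat_lit 36816) (PT.nd (nat_lit 36660) (PT.nd (nat_lit 78) (PT.lf (nat_lit 3344) (nat_lit 6) (nat_lit 44) (nat_lit 0) (nat_lit 125) (nat_lit 119) (nat_lit 116)) (PT.lf (nat_lit 2888) (nat_lit 6) (nat_lit 38) (nat_lit 0) (nat_lit 126) (nat_lit 119) (nat_lit 115))) (PT.nd (nat_lit 78) (PT.lf (nat_lit 2964) (nat_lit 6) (nat_lit 39) (nat_lit 5) (nat_lit 114) (nat_lit 120) (nat_lit 126)) (PT.lf (nat_lit 3420) (nat_lit 6) (nat_lit 45) (nat_lit 5) (nat_lit 115) (nat_lit 120) (nat_lit 125)))) (PT.nd (nat_lit 156) (PT.nd (nat_lit 78) (PT.lf (nat_lit 3800) (nat_lit 6) (nat_lit 50) (nat_lit 5) (nat_lit 116) (nat_lit 120) (nat_lit 124)) (PT.lf (nat_lit 4104) (nat_lit 6) (nat_lit 54) (nat_lit 5) (nat_lit 117) (nat_lit 120) (nat_lit 123))) (PT.nd (nat_lit 78) (PT.lf (nat_lit 4332) (nat_lit 6) (nat_lit 57) (nat_lit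 5) (nat_lit 118) (nat_lit 120) (nat_lit 122)) (PT.nd (nat_lit 78) (PT.lf (nat_lit 4484) (nat_lit 6) (nat_lit 59) (nat_lit 5) (nat_lit 119) (nat_lit 120) (nat_lit 121)) (PT.lf (nat_lit 4560) (nat_lit 1) (nat_lit 60) (nat_lit 0) (nat_lit 120) (nat_lit 120) (nat_lit 120)))))) (PT.nd (nat_lit 390) (PT.nd (nat_lit 156) (PT.nd (nat_lit 78) (PT.lf (nat_lit 4484) (nat_lit 6) (nat_lit 59) (nat_lit 0) (nat_lit 121) (nat_lit 120) (nat_lit 119)) (PT.lf (nat_lit 4332) (nat_lit 6) (nat_lit 57) (nat_lit 0) (nat_lit 122) (nat_lit 120) (nat_lit 118))) (PT.nd (nat_lit 78) (PT.lf (nat_lit 4104) (nat_lit 6) (nat_lit 54) (nat_lit 0) (nat_lit 123) (nat_lit 120) (nat_lit 117)) (PT.nd (nat_lit 78) (PT.lf (nat_lit 3800) (nat_lit 6) (nat_lit 50) (nat_lit 0) (nat_lit 124) (nat_lit 120) (nat_lit 116)) (PT.lf (nat_lit 3420) (nat_lit 6) (nat_lit 45) (nat_lit 0) (nat_lit 125) (nat_lit 120) (nat_lit 115))))) (PT.nd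 (nat_lit 36582) (PT.nd (nat_lit 36504) (PT.lf (nat_lit 2964) (nat_lit 6) (nat_lit 39) (nat_lit 0) (nat_lit 126) (nat_lit 120) (nat_lit 114)) (PT.lf (nat_lit 2508) (nat_lit 6) (nat_lit 33) (nat_lit 5) (nat_lit 113) (nat_lit 121) (nat_lit 126))) (PT.nd (nat_lit 78) (PT.lf (nat_lit 3040) (nat_lit 6) (nat_lit 40) (nat_lit 5) (nat_lit 114) (nat_lit 121) (nat_lit 125)) (PT.nd (nat_lit 78) (PT.lf (nat_lit 3496) (nat_lit 6) (nat_lit 46) (nat_lit 5) (nat_lit 115) (nat_lit 121) (nat_lit 124)) (PT.lf (nat_lit 3876) (nat_lit 6) (nat_lit 51) (nat_lit 5) (nat_lit 116) (nat_lit 121) (nat_lit 123))))))) (PT.nd (nat_lit 37050) (PT.nd (nat_lit 390) (PT.nd (nat_lit 156) (PT.nd (nat_lit 78) (PT.lf (nat_lit 4180) (nat_lit 6) (nat_lit 55) (nat_lit 5) (nat_lit 117) (nat_lit 121) (nat_lit 122)) (PT.lf (nat_lit 4408) (nat_lit 3) (nat_lit 58) (nat_lit 4) (nat_lit 118) (nat_lit 121) (nat_lit 121))) (PT.nd (nat_lit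 78) (PT.lf (nat_lit 4484) (nat_lit 6) (nat_lit 59) (nat_lit 4) (nat_lit 119) (nat_lit 121) (nat_lit 120)) (PT.nd (nat_lit 78) (PT.lf (nat_lit 4484) (nat_lit 6) (nat_lit 59) (nat_lit 2) (nat_lit 120) (nat_lit 121) (nat_lit 119)) (PT.lf (nat_lit 4408) (nat_lit 3) (nat_lit 58) (nat_lit 0) (nat_lit 121) (nat_lit 121) (nat_lit 118))))) (PT.nd (nat_lit 156) (PT.nd (nat_lit 78) (PT.lf (nat_lit 4180) (nat_lit 6) (nat_lit 55) (nat_lit 0) (nat_lit 122) (nat_lit 121) (nat_lit 117)) (PT.lf (nat_lit 3876) (nat_lit 6) (nat_lit 51) (nat_lit 0) (nat_lit 123) (nat_lit 121) (nat_lit 116))) (PT.nd (nat_lit 78) (PT.lf (nat_lit 3496) (nat_lit 6) (nat_lit 46) (nat_lit 0) (nat_lit 124) (nat_lit 121) (nat_lit 115)) (PT.nd (nat_lit 78) (PT.lf (nat_lit 3040) (nat_lit 6) (nat_lit 40) (nat_lit 0) (nat_lit 125) (nat_lit 121) (nat_lit 114)) (PT.lf (nat_lit 2508) (nat_lit 6) (nat_lit 33) (nat_lit 0) (nat_lit 126)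 (nat_lit 121) (nat_lit 113)))))) (PT.nd (nat_lit 390) (PT.nd (nat_lit 156) (PT.nd (nat_lit 78) (PT.lf (nat_lit 2052) (nat_lit 6) (nat_lit 27) (nat_lit 5) (nat_lit 111) (nat_lit 122) (nat_lit 127)) (PT.lf (nat_lit 2280) (nat_lit 6) (nat_lit 30) (nat_lit 5) (nat_lit 112) (nat_lit 122) (nat_lit 126))) (PT.nd (nat_lit 78) (PT.lf (nat_lit 2584) (nat_lit 6) (nat_lit 34) (nat_lit 5) (nat_lit 113) (nat_lit 122) (nat_lit 125)) (PT.nd (nat_lit 78) (PT.lf (nat_lit 3116) (nat_lit 6) (nat_lit 41) (nat_lit 5) (nat_lit 114) (nat_lit 122) (nat_lit 124)) (PT.lf (nat_lit 3572) (nat_lit 6) (nat_lit 47) (nat_lit 5) (nat_lit 115) (nat_lit 122) (nat_lit 123))))) (PT.nd (nat_lit 156) (PT.nd (nat_lit 78) (PT.lf (nat_lit 3952) (nat_lit 3) (nat_lit 52) (nat_lit 4) (nat_lit 116) (nat_lit 122) (nat_lit 122)) (PT.lf (nat_lit 4180) (nat_lit 6) (nat_lit 55) (nat_lit 4) (nat_lit 117) (nat_lit 122) (nat_lit 121)))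 (PT.nd (nat_lit 78) (PT.lf (nat_lit 4332) (nat_lit 6) (nat_lit 57) (nat_lit 4) (nat_lit 118) (nat_lit 122) (nat_lit 120)) (PT.nd (nat_lit 78) (PT.lf (nat_lit 4256) (nat_lit 3) (nat_lit 56) (nat_lit 2) (nat_lit 119) (nat_lit 122) (nat_lit 119)) (PT.lf (nat_lit 4332) (nat_lit 6) (nat_lit 57) (nat_lit 2) (nat_lit 120) (nat_lit 122) (nat_lit 118))))))))
noncomputable def pc4 : PT := (PT.nd (nat_lit 37596) (PT.nd (nat_lit 36816) (PT.nd (nat_lit 312) (PT.nd (nat_lit 156) (PT.nd (nat_lit 78) (PT.lf (nat_lit 4180) (nat_lit 6) (nat_lit 55) (nat_lit 2) (nat_lit 121) (nat_lit 122) (nat_lit 117)) (PT.lf (nat_lit 3952) (nat_lit 3) (nat_lit 52) (nat_lit 0) (nat_lit 122) (nat_lit 122) (nat_lit 116))) (PT.nd (nat_lit 78) (PT.lf (nat_lit 3572) (nat_lit 6) (nat_lit 47) (nat_lit 0) (nat_lit 123) (nat_lit 122) (nat_lit 115)) (PT.lf (nat_lit 3116) (nat_lit 6) (nat_lit 41) (nat_lit 0) (nat_lit 124) (nat_lit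 122) (nat_lit 114)))) (PT.nd (nat_lit 156) (PT.nd (nat_lit 78) (PT.lf (nat_lit 2584) (nat_lit 6) (nat_lit 34) (nat_lit 0) (nat_lit 125) (nat_lit 122) (nat_lit 113)) (PT.lf (nat_lit 2280) (nat_lit 6) (nat_lit 30) (nat_lit 0) (nat_lit 126) (nat_lit 122) (nat_lit 112))) (PT.nd (nat_lit 36192) (PT.lf (nat_lit 2052) (nat_lit 6) (nat_lit 27) (nat_lit 0) (nat_lit 127) (nat_lit 122) (nat_lit 111)) (PT.nd (nat_lit 78) (PT.lf (nat_lit 1824) (nat_lit 6) (nat_lit 24) (nat_lit 5) (nat_lit 110) (nat_lit 123) (nat_lit 127)) (PT.lf (nat_lit 2128) (nat_lit 6) (nat_lit 28) (nat_lit 5) (nat_lit 111) (nat_lit 123) (nat_lit 126)))))) (PT.nd (nat_lit 390) (PT.nd (nat_lit 156) (PT.nd (nat_lit 78) (PT.lf (nat_lit 2356) (nat_lit 6) (nat_lit 31) (nat_lit 5) (nat_lit 112) (nat_lit 123) (nat_lit 125)) (PT.lf (nat_lit 2660) (nat_lit 6) (nat_lit 35) (nat_lit 5) (nat_lit 113) (nat_lit 123) (nat_lit 124))) (PT.nd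 (nat_lit 78) (PT.lf (nat_lit 3192) (nat_lit 3) (nat_lit 42) (nat_lit 4) (nat_lit 114) (nat_lit 123) (nat_lit 123)) (PT.nd (nat_lit 78) (PT.lf (nat_lit 3572) (nat_lit 6) (nat_lit 47) (nat_lit 4) (nat_lit 115) (nat_lit 123) (nat_lit 122)) (PT.lf (nat_lit 3876) (nat_lit 6) (nat_lit 51) (nat_lit 4) (nat_lit 116) (nat_lit 123) (nat_lit 121))))) (PT.nd (nat_lit 156) (PT.nd (nat_lit 78) (PT.lf (nat_lit 4104) (nat_lit 6) (nat_lit 54) (nat_lit 4) (nat_lit 117) (nat_lit 123) (nat_lit 120)) (PT.lf (nat_lit 4028) (nat_lit 6) (nat_lit 53) (nat_lit 4) (nat_lit 118) (nat_lit 123) (nat_lit 119))) (PT.nd (nat_lit 78) (PT.lf (nat_lit 4028) (nat_lit 6) (nat_lit 53) (nat_lit 2) (nat_lit 119) (nat_lit 123) (nat_lit 118)) (PT.nd (nat_lit 78) (PT.lf (nat_lit 4104) (nat_lit 6) (nat_lit 54) (nat_lit 2) (nat_lit 120) (nat_lit 123) (nat_lit 117)) (PT.lf (nat_lit 3876) (nat_lit 6) (nat_lit 51) (nat_lit 2) (nat_lit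 121) (nat_lit 123) (nat_lit 116))))))) (PT.nd (nat_lit 36738) (PT.nd (nat_lit 390) (PT.nd (nat_lit 156) (PT.nd (nat_lit 78) (PT.lf (nat_lit 3572) (nat_lit 6) (nat_lit 47) (nat_lit 2) (nat_lit 122) (nat_lit 123) (nat_lit 115)) (PT.lf (nat_lit 3192) (nat_lit 3) (nat_lit 42) (nat_lit 0) (nat_lit 123) (nat_lit 123) (nat_lit 114))) (PT.nd (nat_lit 78) (PT.lf (nat_lit 2660) (nat_lit 6) (nat_lit 35) (nat_lit 0) (nat_lit 124) (nat_lit 123) (nat_lit 113)) (PT.nd (nat_lit 78) (PT.lf (nat_lit 2356) (nat_lit 6) (nat_lit 31) (nat_lit 0) (nat_lit 125) (nat_lit 123) (nat_lit 112)) (PT.lf (nat_lit 2128) (nat_lit 6) (nat_lit 28) (nat_lit 0) (nat_lit 126) (nat_lit 123) (nat_lit 111))))) (PT.nd (nat_lit 36114) (PT.nd (nat_lit 36036) (PT.lf (nat_lit 1824) (nat_lit 6) (nat_lit 24) (nat_lit 0) (nat_lit 127) (nat_lit 123) (nat_lit 110)) (PT.lf (nat_lit 1444) (nat_lit 6) (nat_lit 19) (nat_lit 5) (nat_lit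 108) (nat_lit 124) (nat_lit 128))) (PT.nd (nat_lit 78) (PT.lf (nat_lit 1672) (nat_lit 6) (nat_lit 22) (nat_lit 5) (nat_lit 109) (nat_lit 124) (nat_lit 127)) (PT.nd (nat_lit 78) (PT.lf (nat_lit 1900) (nat_lit 6) (nat_lit 25) (nat_lit 5) (nat_lit 110) (nat_lit 124) (nat_lit 126)) (PT.lf (nat_lit 2204) (nat_lit 6) (nat_lit 29) (nat_lit 5) (nat_lit 111) (nat_lit 124) (nat_lit 125)))))) (PT.nd (nat_lit 390) (PT.nd (nat_lit 156) (PT.nd (nat_lit 78) (PT.lf (nat_lit 2432) (nat_lit 3) (nat_lit 32) (nat_lit 4) (nat_lit 112) (nat_lit 124) (nat_lit 124)) (PT.lf (nat_lit 2660) (nat_lit 6) (nat_lit 35) (nat_lit 4) (nat_lit 113) (nat_lit 124) (nat_lit 123))) (PT.nd (nat_lit 78) (PT.lf (nat_lit 3116) (nat_lit 6) (nat_lit 41) (nat_lit 4) (nat_lit 114) (nat_lit 124) (nat_lit 122)) (PT.nd (nat_lit 78) (PT.lf (nat_lit 3496) (nat_lit 6) (nat_lit 46) (nat_lit 4) (nat_lit 115) (nat_lit 124) (nat_lit 121))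 (PT.lf (nat_lit 3800) (nat_lit 6) (nat_lit 50) (nat_lit 4) (nat_lit 116) (nat_lit 124) (nat_lit 120))))) (PT.nd (nat_lit 156) (PT.nd (nat_lit 78) (PT.lf (nat_lit 3724) (nat_lit 6) (nat_lit 49) (nat_lit 4) (nat_lit 117) (nat_lit 124) (nat_lit 119)) (PT.lf (nat_lit 3648) (nat_lit 3) (nat_lit 48) (nat_lit 2) (nat_lit 118) (nat_lit 124) (nat_lit 118))) (PT.nd (nat_lit 78) (PT.lf (nat_lit 3724) (nat_lit 6) (nat_lit 49) (nat_lit 2) (nat_lit 119) (nat_lit 124) (nat_lit 117)) (PT.nd (nat_lit 78) (PT.lf (nat_lit 3800) (nat_lit 6) (nat_lit 50) (nat_lit 2) (nat_lit 120) (nat_lit 124) (nat_lit 116)) (PT.lf (nat_lit 3496) (nat_lit 6) (nat_lit 46) (nat_lit 2) (nat_lit 121) (nat_lit 124) (nat_lit 115))))))))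
noncomputable def pc5 : PT := (PT.nd (nat_lit 37284) (PT.nd (nat_lit 36504) (PT.nd (nat_lit 312) (PT.nd (nat_lit 156) (PT.nd (nat_lit 78) (PT.lf (nat_lit 3116) (nat_lit 6) (nat_lit 41) (nat_lit 2) (nat_lit 122) (nat_lit 124) (nat_lit 114)) (PT.lf (nat_lit 2660) (nat_lit 6) (nat_lit 35) (nat_lit 2) (nat_lit 123) (nat_lit 124) (nat_lit 113))) (PT.nd (nat_lit 78) (PT.lf (nat_lit 2432) (nat_lit 3) (nat_lit 32) (nat_lit 0) (nat_lit 124) (nat_lit 124) (nat_lit 112)) (PT.lf (nat_lit 2204) (nat_lit 6) (nat_lit 29) (nat_lit 0) (nat_lit 125) (nat_lit 124) (nat_lit 111)))) (PT.nd (nat_lit 156) (PT.nd (nat_lit 78) (PT.lf (nat_lit 1900) (nat_lit 6) (nat_lit 25) (nat_lit 0) (nat_lit 126) (nat_lit 124) (nat_lit 110)) (PT.lf (nat_lit 1672) (nat_lit 6) (nat_lit 22) (nat_lit 0) (nat_lit 127) (nat_lit 124) (nat_lit 109))) (PT.nd (nat_lit 35880) (PT.lf (nat_lit 1444) (nat_lit 6) (nat_lit 19) (nat_lit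 0) (nat_lit 128) (nat_lit 124) (nat_lit 108)) (PT.nd (nat_lit 78) (PT.lf (nat_lit 1292) (nat_lit 6) (nat_lit 17) (nat_lit 5) (nat_lit 107) (nat_lit 125) (nat_lit 128)) (PT.lf (nat_lit 1520) (nat_lit 6) (nat_lit 20) (nat_lit 5) (nat_lit 108) (nat_lit 125) (nat_lit 127)))))) (PT.nd (nat_lit 390) (PT.nd (nat_lit 156) (PT.nd (nat_lit 78) (PT.lf (nat_lit 1748) (nat_lit 6) (nat_lit 23) (nat_lit 5) (nat_lit 109) (nat_lit 125) (nat_lit 126)) (PT.lf (nat_lit 1976) (nat_lit 3) (nat_lit 26) (nat_lit 4) (nat_lit 110) (nat_lit 125) (nat_lit 125))) (PT.nd (nat_lit 78) (PT.lf (nat_lit 2204) (nat_lit 6) (nat_lit 29) (nat_lit 4) (nat_lit 111) (nat_lit 125) (nat_lit 124)) (PT.nd (nat_lit 78) (PT.lf (nat_lit 2356) (nat_lit 6) (nat_lit 31) (nat_lit 4) (nat_lit 112) (nat_lit 125) (nat_lit 123)) (PT.lf (nat_lit 2584) (nat_lit 6) (nat_lit 34) (nat_lit 4) (nat_lit 113) (nat_lit 125) (nat_lit 122))))) (PT.nd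 (nat_lit 156) (PT.nd (nat_lit 78) (PT.lf (nat_lit 3040) (nat_lit 6) (nat_lit 40) (nat_lit 4) (nat_lit 114) (nat_lit 125) (nat_lit 121)) (PT.lf (nat_lit 3420) (nat_lit 6) (nat_lit 45) (nat_lit 4) (nat_lit 115) (nat_lit 125) (nat_lit 120))) (PT.nd (nat_lit 78) (PT.lf (nat_lit 3344) (nat_lit 6) (nat_lit 44) (nat_lit 4) (nat_lit 116) (nat_lit 125) (nat_lit 119)) (PT.nd (nat_lit 78) (PT.lf (nat_lit 3268) (nat_lit 6) (nat_lit 43) (nat_lit 4) (nat_lit 117) (nat_lit 125) (nat_lit 118)) (PT.lf (nat_lit 3268) (nat_lit 6) (nat_lit 43) (nat_lit 2) (nat_lit 118) (nat_lit 125) (nat_lit 117))))))) (PT.nd (nat_lit 36426) (PT.nd (nat_lit 390) (PT.nd (nat_lit 156) (PT.nd (nat_lit 78) (PT.lf (nat_lit 3344) (nat_lit 6) (nat_lit 44) (nat_lit 2) (nat_lit 119) (nat_lit 125) (nat_lit 116)) (PT.lf (nat_lit 3420) (nat_lit 6) (nat_lit 45) (nat_lit 2) (nat_lit 120) (nat_lit 125) (nat_lit 115))) (PT.nd (nat_lit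 78) (PT.lf (nat_lit 3040) (nat_lit 6) (nat_lit 40) (nat_lit 2) (nat_lit 121) (nat_lit 125) (nat_lit 114)) (PT.nd (nat_lit 78) (PT.lf (nat_lit 2584) (nat_lit 6) (nat_lit 34) (nat_lit 2) (nat_lit 122) (nat_lit 125) (nat_lit 113)) (PT.lf (nat_lit 2356) (nat_lit 6) (nat_lit 31) (nat_lit 2) (nat_lit 123) (nat_lit 125) (nat_lit 112))))) (PT.nd (nat_lit 156) (PT.nd (nat_lit 78) (PT.lf (nat_lit 2204) (nat_lit 6) (nat_lit 29) (nat_lit 2) (nat_lit 124) (nat_lit 125) (nat_lit 111)) (PT.lf (nat_lit 1976) (nat_lit 3) (nat_lit 26) (nat_lit 0) (nat_lit 125) (nat_lit 125) (nat_lit 110))) (PT.nd (nat_lit 78) (PT.lf (nat_lit 1748) (nat_lit 6) (nat_lit 23) (nat_lit 0) (nat_lit 126) (nat_lit 125) (nat_lit 109)) (PT.nd (nat_lit 78) (PT.lf (nat_lit 1520) (nat_lit 6) (nat_lit 20) (nat_lit 0) (nat_lit 127) (nat_lit 125) (nat_lit 108)) (PT.lf (nat_lit 1292) (nat_lit 6) (nat_lit 17) (nat_lit 0) (nat_lit 128)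 (nat_lit 125) (nat_lit 107)))))) (PT.nd (nat_lit 390) (PT.nd (nat_lit 156) (PT.nd (nat_lit 78) (PT.lf (nat_lit 988) (nat_lit 6) (nat_lit 13) (nat_lit 5) (nat_lit 105) (nat_lit 126) (nat_lit 129)) (PT.lf (nat_lit 1140) (nat_lit 6) (nat_lit 15) (nat_lit 5) (nat_lit 106) (nat_lit 126) (nat_lit 128))) (PT.nd (nat_lit 78) (PT.lf (nat_lit 1368) (nat_lit 6) (nat_lit 18) (nat_lit 5) (nat_lit 107) (nat_lit 126) (nat_lit 127)) (PT.nd (nat_lit 78) (PT.lf (nat_lit 1596) (nat_lit 3) (nat_lit 21) (nat_lit 4) (nat_lit 108) (nat_lit 126) (nat_lit 126)) (PT.lf (nat_lit 1748) (nat_lit 6) (nat_lit 23) (nat_lit 4) (nat_lit 109) (nat_lit 126) (nat_lit 125))))) (PT.nd (nat_lit 156) (PT.nd (nat_lit 78) (PT.lf (nat_lit 1900) (nat_lit 6) (nat_lit 25) (nat_lit 4) (nat_lit 110) (nat_lit 126) (nat_lit 124)) (PT.lf (nat_lit 2128) (nat_lit 6) (nat_lit 28) (nat_lit 4) (nat_lit 111) (nat_lit 126) (nat_lit 123)))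 (PT.nd (nat_lit 78) (PT.lf (nat_lit 2280) (nat_lit 6) (nat_lit 30) (nat_lit 4) (nat_lit 112) (nat_lit 126) (nat_lit 122)) (PT.nd (nat_lit 78) (PT.lf (nat_lit 2508) (nat_lit 6) (nat_lit 33) (nat_lit 4) (nat_lit 113) (nat_lit 126) (nat_lit 121)) (PT.lf (nat_lit 2964) (nat_lit 6) (nat_lit 39) (nat_lit 4) (nat_lit 114) (nat_lit 126) (nat_lit 120))))))))
noncomputable def pc6 : PT := (PT.nd (nat_lit 36972) (PT.nd (nat_lit 702) (PT.nd (nat_lit 312) (PT.nd (nat_lit 156) (PT.nd (nat_lit 78) (PT.lf (nat_lit 2888) (nat_lit 6) (nat_lit 38) (nat_lit 4) (nat_lit 115) (nat_lit 126) (nat_lit 119)) (PT.lf (nat_lit 2812) (nat_lit 6) (nat_lit 37) (nat_lit 4) (nat_lit 116) (nat_lit 126) (nat_lit 118))) (PT.nd (nat_lit 78) (PT.lf (nat_lit 2736) (nat_lit 3) (nat_lit 36) (nat_lit 2) (nat_lit 117) (nat_lit 126) (nat_lit 117)) (PT.lf (nat_lit 2812) (nat_lit 6) (nat_lit 37) (nat_lit 2) (nat_lit 118) (nat_lit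 126) (nat_lit 116)))) (PT.nd (nat_lit 156) (PT.nd (nat_lit 78) (PT.lf (nat_lit 2888) (nat_lit 6) (nat_lit 38) (nat_lit 2) (nat_lit 119) (nat_lit 126) (nat_lit 115)) (PT.lf (nat_lit 2964) (nat_lit 6) (nat_lit 39) (nat_lit 2) (nat_lit 120) (nat_lit 126) (nat_lit 114))) (PT.nd (nat_lit 78) (PT.lf (nat_lit 2508) (nat_lit 6) (nat_lit 33) (nat_lit 2) (nat_lit 121) (nat_lit 126) (nat_lit 113)) (PT.nd (nat_lit 78) (PT.lf (nat_lit 2280) (nat_lit 6) (nat_lit 30) (nat_lit 2) (nat_lit 122) (nat_lit 126) (nat_lit 112)) (PT.lf (nat_lit 2128) (nat_lit 6) (nat_lit 28) (nat_lit 2) (nat_lit 123) (nat_lit 126) (nat_lit 111)))))) (PT.nd (nat_lit 390) (PT.nd (nat_lit 156) (PT.nd (nat_lit 78) (PT.lf (nat_lit 1900) (nat_lit 6) (nat_lit 25) (nat_lit 2) (nat_lit 124) (nat_lit 126) (nat_lit 110)) (PT.lf (nat_lit 1748) (nat_lit 6) (nat_lit 23) (nat_lit 2) (nat_lit 125) (nat_lit 126) (nat_lit 109))) (PT.nd (nat_lit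 78) (PT.lf (nat_lit 1596) (nat_lit 3) (nat_lit 21) (nat_lit 0) (nat_lit 126) (nat_lit 126) (nat_lit 108)) (PT.nd (nat_lit 78) (PT.lf (nat_lit 1368) (nat_lit 6) (nat_lit 18) (nat_lit 0) (nat_lit 127) (nat_lit 126) (nat_lit 107)) (PT.lf (nat_lit 1140) (nat_lit 6) (nat_lit 15) (nat_lit 0) (nat_lit 128) (nat_lit 126) (nat_lit 106))))) (PT.nd (nat_lit 35646) (PT.nd (nat_lit 35568) (PT.lf (nat_lit 988) (nat_lit 6) (nat_lit 13) (nat_lit 0) (nat_lit 129) (nat_lit 126) (nat_lit 105)) (PT.lf (nat_lit 836) (nat_lit 6) (nat_lit 11) (nat_lit 5) (nat_lit 104) (nat_lit 127) (nat_lit 129))) (PT.nd (nat_lit 78) (PT.lf (nat_lit 1064) (nat_lit 6) (nat_lit 14) (nat_lit 5) (nat_lit 105) (nat_lit 127) (nat_lit 128)) (PT.nd (nat_lit 78) (PT.lf (nat_lit 1216) (nat_lit 3) (nat_lit 16) (nat_lit 4) (nat_lit 106) (nat_lit 127) (nat_lit 127)) (PT.lf (nat_lit 1368) (nat_lit 6) (nat_lit 18) (nat_lit 4) (nat_lit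 107) (nat_lit 127) (nat_lit 126))))))) (PT.nd (nat_lit 1560) (PT.nd (nat_lit 1170) (PT.nd (nat_lit 156) (PT.nd (nat_lit 78) (PT.lf (nat_lit 1520) (nat_lit 6) (nat_lit 20) (nat_lit 4) (nat_lit 108) (nat_lit 127) (nat_lit 125)) (PT.lf (nat_lit 1672) (nat_lit 6) (nat_lit 22) (nat_lit 4) (nat_lit 109) (nat_lit 127) (nat_lit 124))) (PT.nd (nat_lit 78) (PT.lf (nat_lit 1824) (nat_lit 6) (nat_lit 24) (nat_lit 4) (nat_lit 110) (nat_lit 127) (nat_lit 123)) (PT.nd (nat_lit 858) (PT.lf (nat_lit 2052) (nat_lit 6) (nat_lit 27) (nat_lit 4) (nat_lit 111) (nat_lit 127) (nat_lit 122)) (PT.lf (nat_lit 2052) (nat_lit 6) (nat_lit 27) (nat_lit 2) (nat_lit 122) (nat_lit 127) (nat_lit 111))))) (PT.nd (nat_lit 156) (PT.nd (nat_lit 78) (PT.lf (nat_lit 1824) (nat_lit 6) (nat_lit 24) (nat_lit 2) (nat_lit 123) (nat_lit 127) (nat_lit 110)) (PT.lf (nat_lit 1672) (nat_lit 6) (nat_lit 22) (nat_lit 2) (nat_lit 124)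 (nat_lit 127) (nat_lit 109))) (PT.nd (nat_lit 78) (PT.lf (nat_lit 1520) (nat_lit 6) (nat_lit 20) (nat_lit 2) (nat_lit 125) (nat_lit 127) (nat_lit 108)) (PT.nd (nat_lit 78) (PT.lf (nat_lit 1368) (nat_lit 6) (nat_lit 18) (nat_lit 2) (nat_lit 126) (nat_lit 127) (nat_lit 107)) (PT.lf (nat_lit 1216) (nat_lit 3) (nat_lit 16) (nat_lit 0) (nat_lit 127) (nat_lit 127) (nat_lit 106)))))) (PT.nd (nat_lit 35724) (PT.nd (nat_lit 35490) (PT.nd (nat_lit 78) (PT.lf (nat_lit 1064) (nat_lit 6) (nat_lit 14) (nat_lit 0) (nat_lit 128) (nat_lit 127) (nat_lit 105)) (PT.lf (nat_lit 836) (nat_lit 6) (nat_lit 11) (nat_lit 0) (nat_lit 129) (nat_lit 127) (nat_lit 104))) (PT.nd (nat_lit 78) (PT.lf (nat_lit 608) (nat_lit 6) (nat_lit 8) (nat_lit 5) (nat_lit 102) (nat_lit 128) (nat_lit 130)) (PT.nd (nat_lit 78) (PT.lf (nat_lit 760) (nat_lit 6) (nat_lit 10) (nat_lit 5) (nat_lit 103) (nat_lit 128) (nat_lit 129)) (PT.lf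 (nat_lit 912) (nat_lit 3) (nat_lit 12) (nat_lit 4) (nat_lit 104) (nat_lit 128) (nat_lit 128))))) (PT.nd (nat_lit 156) (PT.nd (nat_lit 78) (PT.lf (nat_lit 1064) (nat_lit 6) (nat_lit 14) (nat_lit 4) (nat_lit 105) (nat_lit 128) (nat_lit 127)) (PT.lf (nat_lit 1140) (nat_lit 6) (nat_lit 15) (nat_lit 4) (nat_lit 106) (nat_lit 128) (nat_lit 126))) (PT.nd (nat_lit 78) (PT.lf (nat_lit 1292) (nat_lit 6) (nat_lit 17) (nat_lit 4) (nat_lit 107) (nat_lit 128) (nat_lit 125)) (PT.nd (nat_lit 1248) (PT.lf (nat_lit 1444) (nat_lit 6) (nat_lit 19) (nat_lit 4) (nat_lit 108) (nat_lit 128) (nat_lit 124)) (PT.lf (nat_lit 1444) (nat_lit 6) (nat_lit 19) (nat_lit 2) (nat_lit 124) (nat_lit 128) (nat_lit 108))))))))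
noncomputable def pc7 : PT := (PT.nd (nat_lit 73086) (PT.nd (nat_lit 35880) (PT.nd (nat_lit 390) (PT.nd (nat_lit 156) (PT.nd (nat_lit 78) (PT.lf (nat_lit 1292) (nat_lit 6) (nat_lit 17) (nat_lit 2) (nat_lit 125) (nat_lit 128) (nat_lit 107)) (PT.lf (nat_lit 1140) (nat_lit 6) (nat_lit 15) (nat_lit 2) (nat_lit 126) (nat_lit 128) (nat_lit 106))) (PT.nd (nat_lit 78) (PT.lf (nat_lit 1064) (nat_lit 6) (nat_lit 14) (nat_lit 2) (nat_lit 127) (nat_lit 128) (nat_lit 105)) (PT.nd (nat_lit 78) (PT.lf (nat_lit 912) (nat_lit 3) (nat_lit 12) (nat_lit 0) (nat_lit 128) (nat_lit 128) (nat_lit 104)) (PT.lf (nat_lit 760) (nat_lit 6) (nat_lit 10) (nat_lit 0) (nat_lit 129) (nat_lit 128) (nat_lit 103))))) (PT.nd (nat_lit 35256) (PT.nd (nat_lit 35178) (PT.lf (nat_lit 608) (nat_lit 6) (nat_lit 8) (nat_lit 0) (nat_lit 130) (nat_lit 128) (nat_lit 102)) (PT.lf (nat_lit 380) (nat_lit 6) (nat_lit 5) (nat_lit 5) (nat_lit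 100) (nat_lit 129) (nat_lit 131))) (PT.nd (nat_lit 78) (PT.lf (nat_lit 532) (nat_lit 6) (nat_lit 7) (nat_lit 5) (nat_lit 101) (nat_lit 129) (nat_lit 130)) (PT.nd (nat_lit 78) (PT.lf (nat_lit 684) (nat_lit 3) (nat_lit 9) (nat_lit 4) (nat_lit 102) (nat_lit 129) (nat_lit 129)) (PT.lf (nat_lit 760) (nat_lit 6) (nat_lit 10) (nat_lit 4) (nat_lit 103) (nat_lit 129) (nat_lit 128)))))) (PT.nd (nat_lit 1950) (PT.nd (nat_lit 1716) (PT.nd (nat_lit 78) (PT.lf (nat_lit 836) (nat_lit 6) (nat_lit 11) (nat_lit 4) (nat_lit 104) (nat_lit 129) (nat_lit 127)) (PT.lf (nat_lit 988) (nat_lit 6) (nat_lit 13) (nat_lit 4) (nat_lit 105) (nat_lit 129) (nat_lit 126))) (PT.nd (nat_lit 78) (PT.lf (nat_lit 988) (nat_lit 6) (nat_lit 13) (nat_lit 2) (nat_lit 126) (nat_lit 129) (nat_lit 105)) (PT.nd (nat_lit 78) (PT.lf (nat_lit 836) (nat_lit 6) (nat_lit 11) (nat_lit 2) (nat_lit 127) (nat_lit 129) (nat_lit 104)) (PT.lf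 (nat_lit 760) (nat_lit 6) (nat_lit 10) (nat_lit 2) (nat_lit 128) (nat_lit 129) (nat_lit 103))))) (PT.nd (nat_lit 156) (PT.nd (nat_lit 78) (PT.lf (nat_lit 684) (nat_lit 3) (nat_lit 9) (nat_lit 0) (nat_lit 129) (nat_lit 129) (nat_lit 102)) (PT.lf (nat_lit 532) (nat_lit 6) (nat_lit 7) (nat_lit 0) (nat_lit 130) (nat_lit 129) (nat_lit 101))) (PT.nd (nat_lit 34944) (PT.lf (nat_lit 380) (nat_lit 6) (nat_lit 5) (nat_lit 0) (nat_lit 131) (nat_lit 129) (nat_lit 100)) (PT.nd (nat_lit 78) (PT.lf (nat_lit 152) (nat_lit 6) (nat_lit 2) (nat_lit 5) (nat_lit 98) (nat_lit 130) (nat_lit 132)) (PT.lf (nat_lit 304) (nat_lit 6) (nat_lit 4) (nat_lit 5) (nat_lit 99) (nat_lit 130) (nat_lit 131))))))) (PT.nd (nat_lit 37440) (PT.nd (nat_lit 2340) (PT.nd (nat_lit 156) (PT.nd (nat_lit 78) (PT.lf (nat_lit 456) (nat_lit 3) (nat_lit 6) (nat_lit 4) (nat_lit 100) (nat_lit 130) (nat_lit 130)) (PT.lf (nat_lit 532) (nat_lit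 6) (nat_lit 7) (nat_lit 4) (nat_lit 101) (nat_lit 130) (nat_lit 129))) (PT.nd (nat_lit 2028) (PT.lf (nat_lit 608) (nat_lit 6) (nat_lit 8) (nat_lit 4) (nat_lit 102) (nat_lit 130) (nat_lit 128)) (PT.nd (nat_lit 78) (PT.lf (nat_lit 608) (nat_lit 6) (nat_lit 8) (nat_lit 2) (nat_lit 128) (nat_lit 130) (nat_lit 102)) (PT.lf (nat_lit 532) (nat_lit 6) (nat_lit 7) (nat_lit 2) (nat_lit 129) (nat_lit 130) (nat_lit 101))))) (PT.nd (nat_lit 156) (PT.nd (nat_lit 78) (PT.lf (nat_lit 456) (nat_lit 3) (nat_lit 6) (nat_lit 0) (nat_lit 130) (nat_lit 130) (nat_lit 100)) (PT.lf (nat_lit 304) (nat_lit 6) (nat_lit 4) (nat_lit 0) (nat_lit 131) (nat_lit 130) (nat_lit 99))) (PT.nd (nat_lit 34788) (PT.lf (nat_lit 152) (nat_lit 6) (nat_lit 2) (nat_lit 0) (nat_lit 132) (nat_lit 130) (nat_lit 98)) (PT.nd (nat_lit 78) (PT.lf (nat_lit 76) (nat_lit 6) (nat_lit 1) (nat_lit 5) (nat_lit 97) (nat_lit 131) (nat_lit 132))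 (PT.lf (nat_lit 228) (nat_lit 3) (nat_lit 3) (nat_lit 4) (nat_lit 98) (nat_lit 131) (nat_lit 131)))))) (PT.nd (nat_lit 2574) (PT.nd (nat_lit 2340) (PT.nd (nat_lit 78) (PT.lf (nat_lit 304) (nat_lit 6) (nat_lit 4) (nat_lit 4) (nat_lit 99) (nat_lit 131) (nat_lit 130)) (PT.lf (nat_lit 380) (nat_lit 6) (nat_lit 5) (nat_lit 4) (nat_lit 100) (nat_lit 131) (nat_lit 129))) (PT.nd (nat_lit 78) (PT.lf (nat_lit 380) (nat_lit 6) (nat_lit 5) (nat_lit 2) (nat_lit 129) (nat_lit 131) (nat_lit 100)) (PT.nd (nat_lit 78) (PT.lf (nat_lit 304) (nat_lit 6) (nat_lit 4) (nat_lit 2) (nat_lit 130) (nat_lit 131) (nat_lit 99)) (PT.lf (nat_lit 228) (nat_lit 3) (nat_lit 3) (nat_lit 0) (nat_lit 131) (nat_lit 131) (nat_lit 98))))) (PT.nd (nat_lit 34866) (PT.nd (nat_lit 34788) (PT.lf (nat_lit 76) (nat_lit 6) (nat_lit 1) (nat_lit 0) (nat_lit 132) (nat_lit 131) (nat_lit 97)) (PT.lf (nat_lit 76) (nat_lit 6) (nat_lit 1)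 (nat_lit 4) (nat_lit 97) (nat_lit 132) (nat_lit 131))) (PT.nd (nat_lit 2496) (PT.lf (nat_lit 152) (nat_lit 6) (nat_lit 2) (nat_lit 4) (nat_lit 98) (nat_lit 132) (nat_lit 130)) (PT.nd (nat_lit 78) (PT.lf (nat_lit 152) (nat_lit 6) (nat_lit 2) (nat_lit 2) (nat_lit 130) (nat_lit 132) (nat_lit 98)) (PT.lf (nat_lit 76) (nat_lit 6) (nat_lit 1) (nat_lit 2) (nat_lit 131) (nat_lit 132) (nat_lit 97))))))))
noncomputable def xc0 : XT := (XT.nd (nat_lit 186810) (nat_lit 0) (nat_lit 0) (XT.nd (nat_lit 112320) (nat_lit 0) (nat_lit 0) (XT.nd (nat_lit 74880) (nat_lit 0) (nat_lit 0) (XT.nd (nat_lit 37518) (nat_lit 0) (nat_lit 0) (XT.nd (nat_lit 37362) (nat_lit 0) (nat_lit 0) (XT.lf (nat_lit 0) (nat_lit 260837703996) (nat_lit 152) (nat_lit 1164848868205) (nat_lit 0) (nat_lit 260837703996) (nat_lit 1) (nat_lit 5) (nat_lit 3) (nat_lit 4) (nat_lit 1) (nat_lit 4) (nat_lit 342) (nat_lit 189) (nat_lit 189))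 (XT.nd (nat_lit 78) (nat_lit 0) (nat_lit 0) (XT.lf (nat_lit 0) (nat_lit 223315046780) (nat_lit 152) (nat_lit 999320686980) (nat_lit 0) (nat_lit 223315046780) (nat_lit 1) (nat_lit 5) (nat_lit 3) (nat_lit 4) (nat_lit 1) (nat_lit 4) (nat_lit 340) (nat_lit 190) (nat_lit 190)) (XT.lf (nat_lit 0) (nat_lit 482726009585) (nat_lit 152) (nat_lit 2157794097061) (nat_lit 0) (nat_lit 482701735756) (nat_lit 1) (nat_lit 5) (nat_lit 3) (nat_lit 4) (nat_lit 1) (nat_lit 4) (nat_lit 341) (nat_lit 190) (nat_lit 189)))) (XT.nd (nat_lit 37206) (nat_lit 0) (nat_lit 0) (XT.lf (nat_lit 0) (nat_lit 521690499350) (nat_lit 152) (nat_lit 2329715049743) (nat_lit 0) (nat_lit 521643749753) (nat_lit 1) (nat_lit 5) (nat_lit 3) (nat_lit 4) (nat_lit 1) (nat_lit 4) (nat_lit 342) (nat_lit 190) (nat_lit 188)) (XT.nd (nat_lit 78) (nat_lit 0) (nat_lit 0) (XT.lf (nat_lit 0) (nat_lit 191120516695) (nat_lit 152) (nat_lit 857458993961)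 (nat_lit 0) (nat_lit 191120516695) (nat_lit 1) (nat_lit 5) (nat_lit 3) (nat_lit 4) (nat_lit 1) (nat_lit 4) (nat_lit 338) (nat_lit 191) (nat_lit 191)) (XT.lf (nat_lit 0) (nat_lit 413215065285) (nat_lit 152) (nat_lit 1851313753195) (nat_lit 0) (nat_lit 413188849549) (nat_lit 1) (nat_lit 5) (nat_lit 3) (nat_lit 4) (nat_lit 1) (nat_lit 4) (nat_lit 339) (nat_lit 191) (nat_lit 190))))) (XT.nd (nat_lit 37206) (nat_lit 0) (nat_lit 0) (XT.nd (nat_lit 78) (nat_lit 0) (nat_lit 0) (XT.lf (nat_lit 0) (nat_lit 446646392225) (nat_lit 152) (nat_lit 1998660072361) (nat_lit 0) (nat_lit 446595902660) (nat_lit 1) (nat_lit 5) (nat_lit 3) (nat_lit 4) (nat_lit 1) (nat_lit 4) (nat_lit 340) (nat_lit 191) (nat_lit 189)) (XT.nd (nat_lit 78) (nat_lit 0) (nat_lit 0) (XT.lf (nat_lit 0) (nat_lit 482733125778) (nat_lit 152) (nat_lit 2157830108795) (nat_lit 0) (nat_lit 482660160445) (nat_lit 1) (nat_lit 5) (nat_lit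 3) (nat_lit 4) (nat_lit 1) (nat_lit 4) (nat_lit 341) (nat_lit 191) (nat_lit 188)) (XT.lf (nat_lit 0) (nat_lit 521689113253) (nat_lit 152) (nat_lit 2329767092342) (nat_lit 0) (nat_lit 521595337024) (nat_lit 1) (nat_lit 5) (nat_lit 3) (nat_lit 4) (nat_lit 1) (nat_lit 4) (nat_lit 342) (nat_lit 191) (nat_lit 187)))) (XT.nd (nat_lit 78) (nat_lit 0) (nat_lit 0) (XT.lf (nat_lit 0) (nat_lit 163492004886) (nat_lit 152) (nat_lit 735891663429) (nat_lit 0) (nat_lit 163492004886) (nat_lit 1) (nat_lit 5) (nat_lit 3) (nat_lit 4) (nat_lit 1) (nat_lit 4) (nat_lit 336) (nat_lit 192) (nat_lit 192)) (XT.nd (nat_lit 78) (nat_lit 0) (nat_lit 0) (XT.lf (nat_lit 0) (nat_lit 353569059716) (nat_lit 152) (nat_lit 1588664505344) (nat_lit 0) (nat_lit 353540746722) (nat_lit 1) (nat_lit 5) (nat_lit 3) (nat_lit 4) (nat_lit 1) (nat_lit 4) (nat_lit 337) (nat_lit 192) (nat_lit 191)) (XT.lf (nat_lit 0) (nat_lit 382258635948)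 (nat_lit 152) (nat_lit 1714938182195) (nat_lit 0) (nat_lit 382204107218) (nat_lit 1) (nat_lit 5) (nat_lit 3) (nat_lit 4) (nat_lit 1) (nat_lit 4) (nat_lit 338) (nat_lit 192) (nat_lit 190)))))) (XT.nd (nat_lit 37284) (nat_lit 0) (nat_lit 0) (XT.nd (nat_lit 234) (nat_lit 0) (nat_lit 0) (XT.nd (nat_lit 78) (nat_lit 0) (nat_lit 0) (XT.lf (nat_lit 0) (nat_lit 413222750773) (nat_lit 152) (nat_lit 1851352645868) (nat_lit 0) (nat_lit 413143948214) (nat_lit 1) (nat_lit 5) (nat_lit 3) (nat_lit 4) (nat_lit 1) (nat_lit 4) (nat_lit 339) (nat_lit 192) (nat_lit 189)) (XT.nd (nat_lit 78) (nat_lit 0) (nat_lit 0) (XT.lf (nat_lit 0) (nat_lit 446644895241) (nat_lit 152) (nat_lit 1998716278368) (nat_lit 0) (nat_lit 446543616914) (nat_lit 1) (nat_lit 5) (nat_lit 3) (nat_lit 4) (nat_lit 1) (nat_lit 4) (nat_lit 340) (nat_lit 192) (nat_lit 188)) (XT.lf (nat_lit 0) (nat_lit 482723126504) (nat_lit 152) (nat_lit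 2157902345666) (nat_lit 0) (nat_lit 482601037281) (nat_lit 1) (nat_lit 5) (nat_lit 3) (nat_lit 4) (nat_lit 1) (nat_lit 4) (nat_lit 341) (nat_lit 192) (nat_lit 187)))) (XT.nd (nat_lit 36894) (nat_lit 0) (nat_lit 0) (XT.lf (nat_lit 0) (nat_lit 521671241489) (nat_lit 152) (nat_lit 2329854172606) (nat_lit 0) (nat_lit 521529882918) (nat_lit 1) (nat_lit 5) (nat_lit 3) (nat_lit 4) (nat_lit 1) (nat_lit 4) (nat_lit 342) (nat_lit 192) (nat_lit 186)) (XT.nd (nat_lit 78) (nat_lit 0) (nat_lit 0) (XT.lf (nat_lit 0) (nat_lit 139775966491) (nat_lit 152) (nat_lit 631727974170) (nat_lit 0) (nat_lit 139775966491) (nat_lit 1) (nat_lit 5) (nat_lit 3) (nat_lit 4) (nat_lit 1) (nat_lit 4) (nat_lit 334) (nat_lit 193) (nat_lit 193)) (XT.lf (nat_lit 0) (nat_lit 302376523115) (nat_lit 152) (nat_lit 1363602017532) (nat_lit 0) (nat_lit 302345945081) (nat_lit 1) (nat_lit 5) (nat_lit 3) (nat_lit 4) (nat_lit 1) (nat_lit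 4) (nat_lit 335) (nat_lit 193) (nat_lit 192))))) (XT.nd (nat_lit 234) (nat_lit 0) (nat_lit 0) (XT.nd (nat_lit 78) (nat_lit 0) (nat_lit 0) (XT.lf (nat_lit 0) (nat_lit 327003020536) (nat_lit 152) (nat_lit 1471805136673) (nat_lit 0) (nat_lit 326944129508) (nat_lit 1) (nat_lit 5) (nat_lit 3) (nat_lit 4) (nat_lit 1) (nat_lit 4) (nat_lit 336) (nat_lit 193) (nat_lit 191)) (XT.nd (nat_lit 78) (nat_lit 0) (nat_lit 0) (XT.lf (nat_lit 0) (nat_lit 353577360043) (nat_lit 152) (nat_lit 1588706509431) (nat_lit 0) (nat_lit 353492253280) (nat_lit 1) (nat_lit 5) (nat_lit 3) (nat_lit 4) (nat_lit 1) (nat_lit 4) (nat_lit 337) (nat_lit 193) (nat_lit 190)) (XT.lf (nat_lit 0) (nat_lit 382257019205) (nat_lit 152) (nat_lit 1714998884683) (nat_lit 0) (nat_lit 382147638612) (nat_lit 1) (nat_lit 5) (nat_lit 3) (nat_lit 4) (nat_lit 1) (nat_lit 4) (nat_lit 338) (nat_lit 193) (nat_lit 189)))) (XT.nd (nat_lit 156)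 (nat_lit 0) (nat_lit 0) (XT.nd (nat_lit 78) (nat_lit 0) (nat_lit 0) (XT.lf (nat_lit 0) (nat_lit 413211951557) (nat_lit 152) (nat_lit 1851430661688) (nat_lit 0) (nat_lit 413080095197) (nat_lit 1) (nat_lit 5) (nat_lit 3) (nat_lit 4) (nat_lit 1) (nat_lit 4) (nat_lit 339) (nat_lit 193) (nat_lit 188)) (XT.lf (nat_lit 0) (nat_lit 446625593736) (nat_lit 152) (nat_lit 1998810325053) (nat_lit 0) (nat_lit 446472926479) (nat_lit 1) (nat_lit 5) (nat_lit 3) (nat_lit 4) (nat_lit 1) (nat_lit 4) (nat_lit 340) (nat_lit 193) (nat_lit 187))) (XT.nd (nat_lit 78) (nat_lit 0) (nat_lit 0) (XT.lf (nat_lit 0) (nat_lit 482695952509) (nat_lit 152) (nat_lit 2158011235745) (nat_lit 0) (nat_lit 482524015904) (nat_lit 1) (nat_lit 5) (nat_lit 3) (nat_lit 4) (nat_lit 1) (nat_lit 4) (nat_lit 341) (nat_lit 193) (nat_lit 186)) (XT.lf (nat_lit 0) (nat_lit 521636778151) (nat_lit 152) (nat_lit 2329976806567) (nat_lit 0)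 (nat_lit 521446999557) (nat_lit 1) (nat_lit 5) (nat_lit 3) (nat_lit 4) (nat_lit 1) (nat_lit 4) (nat_lit 342) (nat_lit 193) (nat_lit 185))))))) (XT.nd (nat_lit 37518) (nat_lit 0) (nat_lit 0) (XT.nd (nat_lit 468) (nat_lit 0) (nat_lit 0) (XT.nd (nat_lit 234) (nat_lit 0) (nat_lit 0) (XT.nd (nat_lit 78) (nat_lit 0) (nat_lit 0) (XT.lf (nat_lit 0) (nat_lit 119411920022) (nat_lit 152) (nat_lit 542489958389) (nat_lit 0) (nat_lit 119411920022) (nat_lit 1) (nat_lit 5) (nat_lit 3) (nat_lit 4) (nat_lit 1) (nat_lit 4) (nat_lit 332) (nat_lit 194) (nat_lit 194)) (XT.nd (nat_lit 78) (nat_lit 0) (nat_lit 0) (XT.lf (nat_lit 0) (nat_lit 258427017583) (nat_lit 152) (nat_lit 1170773470911) (nat_lit 0) (nat_lit 258393993306) (nat_lit 1) (nat_lit 5) (nat_lit 3) (nat_lit 4) (nat_lit 1) (nat_lit 4) (nat_lit 333) (nat_lit 194) (nat_lit 193)) (XT.lf (nat_lit 0) (nat_lit 279572464606) (nat_lit 152) (nat_lit 1263479502941)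 (nat_lit 0) (nat_lit 279508862296) (nat_lit 1) (nat_lit 5) (nat_lit 3) (nat_lit 4) (nat_lit 1) (nat_lit 4) (nat_lit 334) (nat_lit 194) (nat_lit 192)))) (XT.nd (nat_lit 78) (nat_lit 0) (nat_lit 0) (XT.lf (nat_lit 0) (nat_lit 302385487469) (nat_lit 152) (nat_lit 1363647381946) (nat_lit 0) (nat_lit 302293572164) (nat_lit 1) (nat_lit 5) (nat_lit 3) (nat_lit 4) (nat_lit 1) (nat_lit 4) (nat_lit 335) (nat_lit 194) (nat_lit 191)) (XT.nd (nat_lit 78) (nat_lit 0) (nat_lit 0) (XT.lf (nat_lit 0) (nat_lit 327001274453) (nat_lit 152) (nat_lit 1471870695359) (nat_lit 0) (nat_lit 326883143413) (nat_lit 1) (nat_lit 5) (nat_lit 3) (nat_lit 4) (nat_lit 1) (nat_lit 4) (nat_lit 336) (nat_lit 194) (nat_lit 190)) (XT.lf (nat_lit 0) (nat_lit 353565696890) (nat_lit 152) (nat_lit 1588790766517) (nat_lit 0) (nat_lit 353423292021) (nat_lit 1) (nat_lit 5) (nat_lit 3) (nat_lit 4) (nat_lit 1) (nat_lit 4) (nat_lit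 337) (nat_lit 194) (nat_lit 189))))) (XT.nd (nat_lit 234) (nat_lit 0) (nat_lit 0) (XT.nd (nat_lit 78) (nat_lit 0) (nat_lit 0) (XT.lf (nat_lit 0) (nat_lit 382236173580) (nat_lit 152) (nat_lit 1715100455103) (nat_lit 0) (nat_lit 382071292943) (nat_lit 1) (nat_lit 5) (nat_lit 3) (nat_lit 4) (nat_lit 1) (nat_lit 4) (nat_lit 338) (nat_lit 194) (nat_lit 188)) (XT.nd (nat_lit 78) (nat_lit 0) (nat_lit 0) (XT.lf (nat_lit 0) (nat_lit 413182603643) (nat_lit 152) (nat_lit 1851548262973) (nat_lit 0) (nat_lit 412996912109) (nat_lit 1) (nat_lit 5) (nat_lit 3) (nat_lit 4) (nat_lit 1) (nat_lit 4) (nat_lit 339) (nat_lit 194) (nat_lit 187)) (XT.lf (nat_lit 0) (nat_lit 446588373331) (nat_lit 152) (nat_lit 1998942769731) (nat_lit 0) (nat_lit 446383412450) (nat_lit 1) (nat_lit 5) (nat_lit 3) (nat_lit 4) (nat_lit 1) (nat_lit 4) (nat_lit 340) (nat_lit 194) (nat_lit 186)))) (XT.nd (nat_lit 36660) (nat_lit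 0) (nat_lit 0) (XT.nd (nat_lit 78) (nat_lit 0) (nat_lit 0) (XT.lf (nat_lit 0) (nat_lit 482651442762) (nat_lit 152) (nat_lit 2158157424305) (nat_lit 0) (nat_lit 482428639891) (nat_lit 1) (nat_lit 5) (nat_lit 3) (nat_lit 4) (nat_lit 1) (nat_lit 4) (nat_lit 341) (nat_lit 194) (nat_lit 185)) (XT.lf (nat_lit 0) (nat_lit 521585519013) (nat_lit 152) (nat_lit 2330135720945) (nat_lit 0) (nat_lit 521346195782) (nat_lit 1) (nat_lit 5) (nat_lit 3) (nat_lit 4) (nat_lit 1) (nat_lit 4) (nat_lit 342) (nat_lit 194) (nat_lit 184))) (XT.nd (nat_lit 78) (nat_lit 0) (nat_lit 0) (XT.lf (nat_lit 0) (nat_lit 101919157071) (nat_lit 152) (nat_lit 466053546594) (nat_lit 0) (nat_lit 101919157071) (nat_lit 1) (nat_lit 5) (nat_lit 3) (nat_lit 4) (nat_lit 1) (nat_lit 4) (nat_lit 330) (nat_lit 195) (nat_lit 195)) (XT.lf (nat_lit 0) (nat_lit 220682431234) (nat_lit 152) (nat_lit 1005590434297) (nat_lit 0) (nat_lit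 220646765015) (nat_lit 1) (nat_lit 5) (nat_lit 3) (nat_lit 4) (nat_lit 1) (nat_lit 4) (nat_lit 331) (nat_lit 195) (nat_lit 194)))))) (XT.nd (nat_lit 468) (nat_lit 0) (nat_lit 0) (XT.nd (nat_lit 234) (nat_lit 0) (nat_lit 0) (XT.nd (nat_lit 78) (nat_lit 0) (nat_lit 0) (XT.lf (nat_lit 0) (nat_lit 238846014199) (nat_lit 152) (nat_lit 1085005355746) (nat_lit 0) (nat_lit 238777323704) (nat_lit 1) (nat_lit 5) (nat_lit 3) (nat_lit 4) (nat_lit 1) (nat_lit 4) (nat_lit 332) (nat_lit 195) (nat_lit 193)) (XT.nd (nat_lit 78) (nat_lit 0) (nat_lit 0) (XT.lf (nat_lit 0) (nat_lit 258436699084) (nat_lit 152) (nat_lit 1170822464478) (nat_lit 0) (nat_lit 258337430555) (nat_lit 1) (nat_lit 5) (nat_lit 3) (nat_lit 4) (nat_lit 1) (nat_lit 4) (nat_lit 333) (nat_lit 195) (nat_lit 192)) (XT.lf (nat_lit 0) (nat_lit 279570578837) (nat_lit 152) (nat_lit 1263550306322) (nat_lit 0) (nat_lit 279442997314) (nat_lit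 1) (nat_lit 5) (nat_lit 3) (nat_lit 4) (nat_lit 1) (nat_lit 4) (nat_lit 334) (nat_lit 195) (nat_lit 191)))) (XT.nd (nat_lit 78) (nat_lit 0) (nat_lit 0) (XT.lf (nat_lit 0) (nat_lit 302372891264) (nat_lit 152) (nat_lit 1363738379600) (nat_lit 0) (nat_lit 302219094005) (nat_lit 1) (nat_lit 5) (nat_lit 3) (nat_lit 4) (nat_lit 1) (nat_lit 4) (nat_lit 335) (nat_lit 195) (nat_lit 190)) (XT.nd (nat_lit 78) (nat_lit 0) (nat_lit 0) (XT.lf (nat_lit 0) (nat_lit 326978761178) (nat_lit 152) (nat_lit 1471980391413) (nat_lit 0) (nat_lit 326800690090) (nat_lit 1) (nat_lit 5) (nat_lit 3) (nat_lit 4) (nat_lit 1) (nat_lit 4) (nat_lit 336) (nat_lit 195) (nat_lit 189)) (XT.lf (nat_lit 0) (nat_lit 353534001143) (nat_lit 152) (nat_lit 1588917775905) (nat_lit 0) (nat_lit 353333454287) (nat_lit 1) (nat_lit 5) (nat_lit 3) (nat_lit 4) (nat_lit 1) (nat_lit 4) (nat_lit 337) (nat_lit 195) (nat_lit 188))))) (XT.nd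 (nat_lit 234) (nat_lit 0) (nat_lit 0) (XT.nd (nat_lit 78) (nat_lit 0) (nat_lit 0) (XT.lf (nat_lit 0) (nat_lit 382195975543) (nat_lit 152) (nat_lit 1715243495355) (nat_lit 0) (nat_lit 381974617791) (nat_lit 1) (nat_lit 5) (nat_lit 3) (nat_lit 4) (nat_lit 1) (nat_lit 4) (nat_lit 338) (nat_lit 195) (nat_lit 187)) (XT.nd (nat_lit 78) (nat_lit 0) (nat_lit 0) (XT.lf (nat_lit 0) (nat_lit 413134533115) (nat_lit 152) (nat_lit 1851706146619) (nat_lit 0) (nat_lit 412893906015) (nat_lit 1) (nat_lit 5) (nat_lit 3) (nat_lit 4) (nat_lit 1) (nat_lit 4) (nat_lit 339) (nat_lit 195) (nat_lit 186)) (XT.lf (nat_lit 0) (nat_lit 446533013461) (nat_lit 152) (nat_lit 1999114397259) (nat_lit 0) (nat_lit 446274544372) (nat_lit 1) (nat_lit 5) (nat_lit 3) (nat_lit 4) (nat_lit 1) (nat_lit 4) (nat_lit 340) (nat_lit 195) (nat_lit 185)))) (XT.nd (nat_lit 36504) (nat_lit 0) (nat_lit 0) (XT.nd (nat_lit 78) (nat_lit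 0) (nat_lit 0) (XT.lf (nat_lit 0) (nat_lit 482589333500) (nat_lit 152) (nat_lit 2158341777650) (nat_lit 0) (nat_lit 482314344051) (nat_lit 1) (nat_lit 5) (nat_lit 3) (nat_lit 4) (nat_lit 1) (nat_lit 4) (nat_lit 341) (nat_lit 195) (nat_lit 184)) (XT.lf (nat_lit 0) (nat_lit 521517160315) (nat_lit 152) (nat_lit 2330331857454) (nat_lit 0) (nat_lit 521226874235) (nat_lit 1) (nat_lit 5) (nat_lit 3) (nat_lit 4) (nat_lit 1) (nat_lit 4) (nat_lit 342) (nat_lit 195) (nat_lit 183))) (XT.nd (nat_lit 78) (nat_lit 0) (nat_lit 0) (XT.lf (nat_lit 0) (nat_lit 86885346912) (nat_lit 152) (nat_lit 400598111129) (nat_lit 0) (nat_lit 86885346912) (nat_lit 1) (nat_lit 5) (nat_lit 3) (nat_lit 4) (nat_lit 1) (nat_lit 4) (nat_lit 328) (nat_lit 196) (nat_lit 196)) (XT.lf (nat_lit 0) (nat_lit 188252365449) (nat_lit 152) (nat_lit 864119875585) (nat_lit 0) (nat_lit 188213845932) (nat_lit 1) (nat_lit 5) (nat_lit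 3) (nat_lit 4) (nat_lit 1) (nat_lit 4) (nat_lit 329) (nat_lit 196) (nat_lit 195))))))))
noncomputable def xc1 : XT := (XT.nd (nat_lit 38142) (nat_lit 0) (nat_lit 0) (XT.nd (nat_lit 936) (nat_lit 0) (nat_lit 0) (XT.nd (nat_lit 468) (nat_lit 0) (nat_lit 0) (XT.nd (nat_lit 234) (nat_lit 0) (nat_lit 0) (XT.nd (nat_lit 78) (nat_lit 0) (nat_lit 0) (XT.lf (nat_lit 0) (nat_lit 203862262228) (nat_lit 152) (nat_lit 932134567274) (nat_lit 0) (nat_lit 203788076493) (nat_lit 1) (nat_lit 5) (nat_lit 3) (nat_lit 4) (nat_lit 1) (nat_lit 4) (nat_lit 330) (nat_lit 196) (nat_lit 194)) (XT.nd (nat_lit 78) (nat_lit 0) (nat_lit 0) (XT.lf (nat_lit 0) (nat_lit 220692887256) (nat_lit 152) (nat_lit 1005643347349) (nat_lit 0) (nat_lit 220585677244) (nat_lit 1) (nat_lit 5) (nat_lit 3) (nat_lit 4) (nat_lit 1) (nat_lit 4) (nat_lit 331) (nat_lit 196) (nat_lit 193)) (XT.lf (nat_lit 0) (nat_lit 238843977568) (nat_lit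 152) (nat_lit 1085081823398) (nat_lit 0) (nat_lit 238706189523) (nat_lit 1) (nat_lit 5) (nat_lit 3) (nat_lit 4) (nat_lit 1) (nat_lit 4) (nat_lit 332) (nat_lit 196) (nat_lit 192)))) (XT.nd (nat_lit 78) (nat_lit 0) (nat_lit 0) (XT.lf (nat_lit 0) (nat_lit 258423095183) (nat_lit 152) (nat_lit 1170920741944) (nat_lit 0) (nat_lit 258256994143) (nat_lit 1) (nat_lit 5) (nat_lit 3) (nat_lit 4) (nat_lit 1) (nat_lit 4) (nat_lit 333) (nat_lit 196) (nat_lit 191)) (XT.nd (nat_lit 78) (nat_lit 0) (nat_lit 0) (XT.lf (nat_lit 0) (nat_lit 279546264500) (nat_lit 152) (nat_lit 1263668778060) (nat_lit 0) (nat_lit 279353947725) (nat_lit 1) (nat_lit 5) (nat_lit 3) (nat_lit 4) (nat_lit 1) (nat_lit 4) (nat_lit 334) (nat_lit 196) (nat_lit 190)) (XT.lf (nat_lit 0) (nat_lit 302338659856) (nat_lit 152) (nat_lit 1363875549738) (nat_lit 0) (nat_lit 302122069252) (nat_lit 1) (nat_lit 5) (nat_lit 3) (nat_lit 4) (nat_lit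 1) (nat_lit 4) (nat_lit 335) (nat_lit 196) (nat_lit 189))))) (XT.nd (nat_lit 234) (nat_lit 0) (nat_lit 0) (XT.nd (nat_lit 78) (nat_lit 0) (nat_lit 0) (XT.lf (nat_lit 0) (nat_lit 326935347298) (nat_lit 152) (nat_lit 1472134874885) (nat_lit 0) (nat_lit 326696280926) (nat_lit 1) (nat_lit 5) (nat_lit 3) (nat_lit 4) (nat_lit 1) (nat_lit 4) (nat_lit 336) (nat_lit 196) (nat_lit 188)) (XT.nd (nat_lit 78) (nat_lit 0) (nat_lit 0) (XT.lf (nat_lit 0) (nat_lit 353482084973) (nat_lit 152) (nat_lit 1589088290242) (nat_lit 0) (nat_lit 353222207705) (nat_lit 1) (nat_lit 5) (nat_lit 3) (nat_lit 4) (nat_lit 1) (nat_lit 4) (nat_lit 337) (nat_lit 196) (nat_lit 187)) (XT.lf (nat_lit 0) (nat_lit 382136186883) (nat_lit 152) (nat_lit 1715428853085) (nat_lit 0) (nat_lit 381857040267) (nat_lit 1) (nat_lit 5) (nat_lit 3) (nat_lit 4) (nat_lit 1) (nat_lit 4) (nat_lit 338) (nat_lit 196) (nat_lit 186)))) (XT.nd (nat_lit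 78) (nat_lit 0) (nat_lit 0) (XT.lf (nat_lit 0) (nat_lit 413067455113) (nat_lit 152) (nat_lit 1851905248231) (nat_lit 0) (nat_lit 412770466508) (nat_lit 1) (nat_lit 5) (nat_lit 3) (nat_lit 4) (nat_lit 1) (nat_lit 4) (nat_lit 339) (nat_lit 196) (nat_lit 185)) (XT.nd (nat_lit 78) (nat_lit 0) (nat_lit 0) (XT.lf (nat_lit 0) (nat_lit 446459186068) (nat_lit 152) (nat_lit 1999326224689) (nat_lit 0) (nat_lit 446145677102) (nat_lit 1) (nat_lit 5) (nat_lit 3) (nat_lit 4) (nat_lit 1) (nat_lit 4) (nat_lit 340) (nat_lit 196) (nat_lit 184)) (XT.lf (nat_lit 0) (nat_lit 482509256670) (nat_lit 152) (nat_lit 2158565388244) (nat_lit 0) (nat_lit 482180451075) (nat_lit 1) (nat_lit 5) (nat_lit 3) (nat_lit 4) (nat_lit 1) (nat_lit 4) (nat_lit 341) (nat_lit 196) (nat_lit 183)))))) (XT.nd (nat_lit 36660) (nat_lit 0) (nat_lit 0) (XT.nd (nat_lit 36426) (nat_lit 0) (nat_lit 0) (XT.nd (nat_lit 36270) (nat_lit 0)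 (nat_lit 0) (XT.lf (nat_lit 0) (nat_lit 521431296969) (nat_lit 152) (nat_lit 2330566378385) (nat_lit 0) (nat_lit 521088327828) (nat_lit 1) (nat_lit 5) (nat_lit 3) (nat_lit 4) (nat_lit 1) (nat_lit 4) (nat_lit 342) (nat_lit 196) (nat_lit 182)) (XT.nd (nat_lit 78) (nat_lit 0) (nat_lit 0) (XT.lf (nat_lit 0) (nat_lit 73956765608) (nat_lit 152) (nat_lit 344563210369) (nat_lit 0) (nat_lit 73956765608) (nat_lit 1) (nat_lit 5) (nat_lit 3) (nat_lit 4) (nat_lit 1) (nat_lit 4) (nat_lit 326) (nat_lit 197) (nat_lit 197)) (XT.lf (nat_lit 0) (nat_lit 160373031121) (nat_lit 152) (nat_lit 742990726387) (nat_lit 0) (nat_lit 160331430044) (nat_lit 1) (nat_lit 5) (nat_lit 3) (nat_lit 4) (nat_lit 1) (nat_lit 4) (nat_lit 327) (nat_lit 197) (nat_lit 196)))) (XT.nd (nat_lit 78) (nat_lit 0) (nat_lit 0) (XT.lf (nat_lit 0) (nat_lit 173796557758) (nat_lit 152) (nat_lit 801225894271) (nat_lit 0) (nat_lit 173716437165)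 (nat_lit 1) (nat_lit 5) (nat_lit 3) (nat_lit 4) (nat_lit 1) (nat_lit 4) (nat_lit 328) (nat_lit 197) (nat_lit 195)) (XT.nd (nat_lit 78) (nat_lit 0) (nat_lit 0) (XT.lf (nat_lit 0) (nat_lit 188263657952) (nat_lit 152) (nat_lit 864177021682) (nat_lit 0) (nat_lit 188147871140) (nat_lit 1) (nat_lit 5) (nat_lit 3) (nat_lit 4) (nat_lit 1) (nat_lit 4) (nat_lit 329) (nat_lit 197) (nat_lit 194)) (XT.lf (nat_lit 0) (nat_lit 203860062667) (nat_lit 152) (nat_lit 932217152337) (nat_lit 0) (nat_lit 203711251578) (nat_lit 1) (nat_lit 5) (nat_lit 3) (nat_lit 4) (nat_lit 1) (nat_lit 4) (nat_lit 330) (nat_lit 197) (nat_lit 193))))) (XT.nd (nat_lit 234) (nat_lit 0) (nat_lit 0) (XT.nd (nat_lit 78) (nat_lit 0) (nat_lit 0) (XT.lf (nat_lit 0) (nat_lit 220678195042) (nat_lit 152) (nat_lit 1005749487012) (nat_lit 0) (nat_lit 220498805919) (nat_lit 1) (nat_lit 5) (nat_lit 3) (nat_lit 4) (nat_lit 1) (nat_lit 4)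 (nat_lit 331) (nat_lit 197) (nat_lit 192)) (XT.nd (nat_lit 78) (nat_lit 0) (nat_lit 0) (XT.lf (nat_lit 0) (nat_lit 238817718084) (nat_lit 152) (nat_lit 1085209772875) (nat_lit 0) (nat_lit 238610015967) (nat_lit 1) (nat_lit 5) (nat_lit 3) (nat_lit 4) (nat_lit 1) (nat_lit 4) (nat_lit 332) (nat_lit 197) (nat_lit 191)) (XT.lf (nat_lit 0) (nat_lit 258386125263) (nat_lit 152) (nat_lit 1171068885693) (nat_lit 0) (nat_lit 258152207410) (nat_lit 1) (nat_lit 5) (nat_lit 3) (nat_lit 4) (nat_lit 1) (nat_lit 4) (nat_lit 333) (nat_lit 197) (nat_lit 190)))) (XT.nd (nat_lit 156) (nat_lit 0) (nat_lit 0) (XT.nd (nat_lit 78) (nat_lit 0) (nat_lit 0) (XT.lf (nat_lit 0) (nat_lit 279499377509) (nat_lit 152) (nat_lit 1263835620210) (nat_lit 0) (nat_lit 279241185827) (nat_lit 1) (nat_lit 5) (nat_lit 3) (nat_lit 4) (nat_lit 1) (nat_lit 4) (nat_lit 334) (nat_lit 197) (nat_lit 189)) (XT.lf (nat_lit 0) (nat_lit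 302282590393) (nat_lit 152) (nat_lit 1364059705222) (nat_lit 0) (nat_lit 302001922943) (nat_lit 1) (nat_lit 5) (nat_lit 3) (nat_lit 4) (nat_lit 1) (nat_lit 4) (nat_lit 335) (nat_lit 197) (nat_lit 188))) (XT.nd (nat_lit 78) (nat_lit 0) (nat_lit 0) (XT.lf (nat_lit 0) (nat_lit 326870775546) (nat_lit 152) (nat_lit 1472335061233) (nat_lit 0) (nat_lit 326569297200) (nat_lit 1) (nat_lit 5) (nat_lit 3) (nat_lit 4) (nat_lit 1) (nat_lit 4) (nat_lit 336) (nat_lit 197) (nat_lit 187)) (XT.lf (nat_lit 0) (nat_lit 353409640731) (nat_lit 152) (nat_lit 1589303319983) (nat_lit 0) (nat_lit 353088893037) (nat_lit 1) (nat_lit 5) (nat_lit 3) (nat_lit 4) (nat_lit 1) (nat_lit 4) (nat_lit 337) (nat_lit 197) (nat_lit 186))))))) (XT.nd (nat_lit 37050) (nat_lit 0) (nat_lit 0) (XT.nd (nat_lit 36504) (nat_lit 0) (nat_lit 0) (XT.nd (nat_lit 234) (nat_lit 0) (nat_lit 0) (XT.nd (nat_lit 78) (nat_lit 0) (nat_lit 0)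 (XT.lf (nat_lit 0) (nat_lit 382056453298) (nat_lit 152) (nat_lit 1715657626709) (nat_lit 0) (nat_lit 381717863615) (nat_lit 1) (nat_lit 5) (nat_lit 3) (nat_lit 4) (nat_lit 1) (nat_lit 4) (nat_lit 338) (nat_lit 197) (nat_lit 185)) (XT.nd (nat_lit 78) (nat_lit 0) (nat_lit 0) (XT.lf (nat_lit 0) (nat_lit 412980972137) (nat_lit 152) (nat_lit 1852146747672) (nat_lit 0) (nat_lit 412625862094) (nat_lit 1) (nat_lit 5) (nat_lit 3) (nat_lit 4) (nat_lit 1) (nat_lit 4) (nat_lit 339) (nat_lit 197) (nat_lit 184)) (XT.lf (nat_lit 0) (nat_lit 446366453655) (nat_lit 152) (nat_lit 1999579507294) (nat_lit 0) (nat_lit 445996046981) (nat_lit 1) (nat_lit 5) (nat_lit 3) (nat_lit 4) (nat_lit 1) (nat_lit 4) (nat_lit 340) (nat_lit 197) (nat_lit 183)))) (XT.nd (nat_lit 78) (nat_lit 0) (nat_lit 0) (XT.lf (nat_lit 0) (nat_lit 482410737742) (nat_lit 152) (nat_lit 2158829581186) (nat_lit 0) (nat_lit 482026167523)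 (nat_lit 1) (nat_lit 5) (nat_lit 3) (nat_lit 4) (nat_lit 1) (nat_lit 4) (nat_lit 341) (nat_lit 197) (nat_lit 182)) (XT.nd (nat_lit 36114) (nat_lit 0) (nat_lit 0) (XT.lf (nat_lit 0) (nat_lit 521327420157) (nat_lit 152) (nat_lit 2330840673491) (nat_lit 0) (nat_lit 520929735543) (nat_lit 1) (nat_lit 5) (nat_lit 3) (nat_lit 4) (nat_lit 1) (nat_lit 4) (nat_lit 342) (nat_lit 197) (nat_lit 181)) (XT.lf (nat_lit 0) (nat_lit 62829917748) (nat_lit 152) (nat_lit 296611506524) (nat_lit 0) (nat_lit 62829917748) (nat_lit 1) (nat_lit 5) (nat_lit 3) (nat_lit 4) (nat_lit 1) (nat_lit 4) (nat_lit 324) (nat_lit 198) (nat_lit 198))))) (XT.nd (nat_lit 234) (nat_lit 0) (nat_lit 0) (XT.nd (nat_lit 78) (nat_lit 0) (nat_lit 0) (XT.lf (nat_lit 0) (nat_lit 136389153135) (nat_lit 152) (nat_lit 639313781441) (nat_lit 0) (nat_lit 136344223972) (nat_lit 1) (nat_lit 5) (nat_lit 3) (nat_lit 4) (nat_lit 1) (nat_lit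 4) (nat_lit 325) (nat_lit 198) (nat_lit 197)) (XT.nd (nat_lit 78) (nat_lit 0) (nat_lit 0) (XT.lf (nat_lit 0) (nat_lit 147941464265) (nat_lit 152) (nat_lit 689158466511) (nat_lit 0) (nat_lit 147854934024) (nat_lit 1) (nat_lit 5) (nat_lit 3) (nat_lit 4) (nat_lit 1) (nat_lit 4) (nat_lit 326) (nat_lit 198) (nat_lit 196)) (XT.lf (nat_lit 0) (nat_lit 160385227025) (nat_lit 152) (nat_lit 743052444171) (nat_lit 0) (nat_lit 160260177268) (nat_lit 1) (nat_lit 5) (nat_lit 3) (nat_lit 4) (nat_lit 1) (nat_lit 4) (nat_lit 327) (nat_lit 198) (nat_lit 195)))) (XT.nd (nat_lit 156) (nat_lit 0) (nat_lit 0) (XT.nd (nat_lit 78) (nat_lit 0) (nat_lit 0) (XT.lf (nat_lit 0) (nat_lit 173794182232) (nat_lit 152) (nat_lit 801315086139) (nat_lit 0) (nat_lit 173633466256) (nat_lit 1) (nat_lit 5) (nat_lit 3) (nat_lit 4) (nat_lit 1) (nat_lit 4) (nat_lit 328) (nat_lit 198) (nat_lit 194)) (XT.lf (nat_lit 0) (nat_lit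 188247790362) (nat_lit 152) (nat_lit 864291652518) (nat_lit 0) (nat_lit 188054050109) (nat_lit 1) (nat_lit 5) (nat_lit 3) (nat_lit 4) (nat_lit 1) (nat_lit 4) (nat_lit 329) (nat_lit 198) (nat_lit 193))) (XT.nd (nat_lit 78) (nat_lit 0) (nat_lit 0) (XT.lf (nat_lit 0) (nat_lit 203831702424) (nat_lit 152) (nat_lit 932355337773) (nat_lit 0) (nat_lit 203607384137) (nat_lit 1) (nat_lit 5) (nat_lit 3) (nat_lit 4) (nat_lit 1) (nat_lit 4) (nat_lit 330) (nat_lit 198) (nat_lit 192)) (XT.lf (nat_lit 0) (nat_lit 220638267528) (nat_lit 152) (nat_lit 1005909482262) (nat_lit 0) (nat_lit 220385636247) (nat_lit 1) (nat_lit 5) (nat_lit 3) (nat_lit 4) (nat_lit 1) (nat_lit 4) (nat_lit 331) (nat_lit 198) (nat_lit 191)))))) (XT.nd (nat_lit 468) (nat_lit 0) (nat_lit 0) (XT.nd (nat_lit 234) (nat_lit 0) (nat_lit 0) (XT.nd (nat_lit 78) (nat_lit 0) (nat_lit 0) (XT.lf (nat_lit 0) (nat_lit 238767080134) (nat_lit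 152) (nat_lit 1085389962397) (nat_lit 0) (nat_lit 238488233118) (nat_lit 1) (nat_lit 5) (nat_lit 3) (nat_lit 4) (nat_lit 1) (nat_lit 4) (nat_lit 332) (nat_lit 198) (nat_lit 190)) (XT.nd (nat_lit 78) (nat_lit 0) (nat_lit 0) (XT.lf (nat_lit 0) (nat_lit 258325570243) (nat_lit 152) (nat_lit 1171267773616) (nat_lit 0) (nat_lit 258022449397) (nat_lit 1) (nat_lit 5) (nat_lit 3) (nat_lit 4) (nat_lit 1) (nat_lit 4) (nat_lit 333) (nat_lit 198) (nat_lit 189)) (XT.lf (nat_lit 0) (nat_lit 279429640017) (nat_lit 152) (nat_lit 1264051821466) (nat_lit 0) (nat_lit 279104043404) (nat_lit 1) (nat_lit 5) (nat_lit 3) (nat_lit 4) (nat_lit 1) (nat_lit 4) (nat_lit 334) (nat_lit 198) (nat_lit 188)))) (XT.nd (nat_lit 78) (nat_lit 0) (nat_lit 0) (XT.lf (nat_lit 0) (nat_lit 302204350611) (nat_lit 152) (nat_lit 1364291937343) (nat_lit 0) (nat_lit 301857943102) (nat_lit 1) (nat_lit 5) (nat_lit 3) (nat_lit 4) (nat_lit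 1) (nat_lit 4) (nat_lit 335) (nat_lit 198) (nat_lit 187)) (XT.nd (nat_lit 78) (nat_lit 0) (nat_lit 0) (XT.lf (nat_lit 0) (nat_lit 326784663274) (nat_lit 152) (nat_lit 1472582136747) (nat_lit 0) (nat_lit 326418986416) (nat_lit 1) (nat_lit 5) (nat_lit 3) (nat_lit 4) (nat_lit 1) (nat_lit 4) (nat_lit 336) (nat_lit 198) (nat_lit 186)) (XT.lf (nat_lit 0) (nat_lit 353316239116) (nat_lit 152) (nat_lit 1589564139380) (nat_lit 0) (nat_lit 352932720270) (nat_lit 1) (nat_lit 5) (nat_lit 3) (nat_lit 4) (nat_lit 1) (nat_lit 4) (nat_lit 337) (nat_lit 198) (nat_lit 185))))) (XT.nd (nat_lit 234) (nat_lit 0) (nat_lit 0) (XT.nd (nat_lit 78) (nat_lit 0) (nat_lit 0) (XT.lf (nat_lit 0) (nat_lit 381956302292) (nat_lit 152) (nat_lit 1715931171923) (nat_lit 0) (nat_lit 381556263085) (nat_lit 1) (nat_lit 5) (nat_lit 3) (nat_lit 4) (nat_lit 1) (nat_lit 4) (nat_lit 338) (nat_lit 198) (nat_lit 184)) (XT.nd (nat_lit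 78) (nat_lit 0) (nat_lit 0) (XT.lf (nat_lit 0) (nat_lit 412874571694) (nat_lit 152) (nat_lit 1852432076050) (nat_lit 0) (nat_lit 412459235857) (nat_lit 1) (nat_lit 5) (nat_lit 3) (nat_lit 4) (nat_lit 1) (nat_lit 4) (nat_lit 339) (nat_lit 198) (nat_lit 183)) (XT.lf (nat_lit 0) (nat_lit 446254266697) (nat_lit 152) (nat_lit 1999875746008) (nat_lit 0) (nat_lit 445824767314) (nat_lit 1) (nat_lit 5) (nat_lit 3) (nat_lit 4) (nat_lit 1) (nat_lit 4) (nat_lit 340) (nat_lit 198) (nat_lit 182)))) (XT.nd (nat_lit 36036) (nat_lit 0) (nat_lit 0) (XT.nd (nat_lit 78) (nat_lit 0) (nat_lit 0) (XT.lf (nat_lit 0) (nat_lit 482293192900) (nat_lit 152) (nat_lit 2159135922065) (nat_lit 0) (nat_lit 481850579122) (nat_lit 1) (nat_lit 5) (nat_lit 3) (nat_lit 4) (nat_lit 1) (nat_lit 4) (nat_lit 341) (nat_lit 198) (nat_lit 181)) (XT.lf (nat_lit 0) (nat_lit 521204914310) (nat_lit 152) (nat_lit 2331156368225) (nat_lit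 0) (nat_lit 520750157575) (nat_lit 1) (nat_lit 5) (nat_lit 3) (nat_lit 4) (nat_lit 1) (nat_lit 4) (nat_lit 342) (nat_lit 198) (nat_lit 180))) (XT.nd (nat_lit 78) (nat_lit 0) (nat_lit 0) (XT.lf (nat_lit 0) (nat_lit 53244352055) (nat_lit 152) (nat_lit 255596976537) (nat_lit 0) (nat_lit 53244352055) (nat_lit 1) (nat_lit 5) (nat_lit 3) (nat_lit 4) (nat_lit 1) (nat_lit 4) (nat_lit 322) (nat_lit 199) (nat_lit 199)) (XT.lf (nat_lit 0) (nat_lit 115738453702) (nat_lit 152) (nat_lit 550613030856) (nat_lit 0) (nat_lit 115689930206) (nat_lit 1) (nat_lit 5) (nat_lit 3) (nat_lit 4) (nat_lit 1) (nat_lit 4) (nat_lit 323) (nat_lit 199) (nat_lit 198))))))))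
noncomputable def xc2 : XT := (XT.nd (nat_lit 37674) (nat_lit 0) (nat_lit 0) (XT.nd (nat_lit 936) (nat_lit 0) (nat_lit 0) (XT.nd (nat_lit 468) (nat_lit 0) (nat_lit 0) (XT.nd (nat_lit 234) (nat_lit 0) (nat_lit 0) (XT.nd (nat_lit 78) (nat_lit 0) (nat_lit 0) (XT.lf (nat_lit 0) (nat_lit 125690003188) (nat_lit 152) (nat_lit 593257622484) (nat_lit 0) (nat_lit 125596550527) (nat_lit 1) (nat_lit 5) (nat_lit 3) (nat_lit 4) (nat_lit 1) (nat_lit 4) (nat_lit 324) (nat_lit 199) (nat_lit 197)) (XT.nd (nat_lit 78) (nat_lit 0) (nat_lit 0) (XT.lf (nat_lit 0) (nat_lit 136402324711) (nat_lit 152) (nat_lit 639380436648) (nat_lit 0) (nat_lit 136267270973) (nat_lit 1) (nat_lit 5) (nat_lit 3) (nat_lit 4) (nat_lit 1) (nat_lit 4) (nat_lit 325) (nat_lit 199) (nat_lit 196)) (XT.lf (nat_lit 0) (nat_lit 147938898697) (nat_lit 152) (nat_lit 689254793729) (nat_lit 0) (nat_lit 147765325443) (nat_lit 1) (nat_lit 5)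 (nat_lit 3) (nat_lit 4) (nat_lit 1) (nat_lit 4) (nat_lit 326) (nat_lit 199) (nat_lit 195)))) (XT.nd (nat_lit 78) (nat_lit 0) (nat_lit 0) (XT.lf (nat_lit 0) (nat_lit 160368090027) (nat_lit 152) (nat_lit 743176245474) (nat_lit 0) (nat_lit 160158850554) (nat_lit 1) (nat_lit 5) (nat_lit 3) (nat_lit 4) (nat_lit 1) (nat_lit 4) (nat_lit 327) (nat_lit 199) (nat_lit 194)) (XT.nd (nat_lit 78) (nat_lit 0) (nat_lit 0) (XT.lf (nat_lit 0) (nat_lit 173763553170) (nat_lit 152) (nat_lit 801464326410) (nat_lit 0) (nat_lit 173521289420) (nat_lit 1) (nat_lit 5) (nat_lit 3) (nat_lit 4) (nat_lit 1) (nat_lit 4) (nat_lit 328) (nat_lit 199) (nat_lit 193)) (XT.lf (nat_lit 0) (nat_lit 188204668647) (nat_lit 152) (nat_lit 864464447387) (nat_lit 0) (nat_lit 187931826863) (nat_lit 1) (nat_lit 5) (nat_lit 3) (nat_lit 4) (nat_lit 1) (nat_lit 4) (nat_lit 329) (nat_lit 199) (nat_lit 192))))) (XT.nd (nat_lit 234) (nat_lit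 0) (nat_lit 0) (XT.nd (nat_lit 78) (nat_lit 0) (nat_lit 0) (XT.lf (nat_lit 0) (nat_lit 203777013438) (nat_lit 152) (nat_lit 932549942457) (nat_lit 0) (nat_lit 203475858661) (nat_lit 1) (nat_lit 5) (nat_lit 3) (nat_lit 4) (nat_lit 1) (nat_lit 4) (nat_lit 330) (nat_lit 199) (nat_lit 191)) (XT.nd (nat_lit 78) (nat_lit 0) (nat_lit 0) (XT.lf (nat_lit 0) (nat_lit 220572868107) (nat_lit 152) (nat_lit 1006124281218) (nat_lit 0) (nat_lit 220245497594) (nat_lit 1) (nat_lit 5) (nat_lit 3) (nat_lit 4) (nat_lit 1) (nat_lit 4) (nat_lit 331) (nat_lit 199) (nat_lit 190)) (XT.lf (nat_lit 0) (nat_lit 238691763643) (nat_lit 152) (nat_lit 1085623459754) (nat_lit 0) (nat_lit 238340119300) (nat_lit 1) (nat_lit 5) (nat_lit 3) (nat_lit 4) (nat_lit 1) (nat_lit 4) (nat_lit 332) (nat_lit 199) (nat_lit 189)))) (XT.nd (nat_lit 78) (nat_lit 0) (nat_lit 0) (XT.lf (nat_lit 0) (nat_lit 258241071278) (nat_lit 152)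 (nat_lit 1171518584306) (nat_lit 0) (nat_lit 257866951168) (nat_lit 1) (nat_lit 5) (nat_lit 3) (nat_lit 4) (nat_lit 1) (nat_lit 4) (nat_lit 333) (nat_lit 199) (nat_lit 188)) (XT.nd (nat_lit 78) (nat_lit 0) (nat_lit 0) (XT.lf (nat_lit 0) (nat_lit 279336638763) (nat_lit 152) (nat_lit 1264318663021) (nat_lit 0) (nat_lit 278941707757) (nat_lit 1) (nat_lit 5) (nat_lit 3) (nat_lit 4) (nat_lit 1) (nat_lit 4) (nat_lit 334) (nat_lit 199) (nat_lit 187)) (XT.lf (nat_lit 0) (nat_lit 302103476867) (nat_lit 152) (nat_lit 1364573622291) (nat_lit 0) (nat_lit 301689276513) (nat_lit 1) (nat_lit 5) (nat_lit 3) (nat_lit 4) (nat_lit 1) (nat_lit 4) (nat_lit 335) (nat_lit 199) (nat_lit 186)))))) (XT.nd (nat_lit 468) (nat_lit 0) (nat_lit 0) (XT.nd (nat_lit 234) (nat_lit 0) (nat_lit 0) (XT.nd (nat_lit 78) (nat_lit 0) (nat_lit 0) (XT.lf (nat_lit 0) (nat_lit 326676500187) (nat_lit 152) (nat_lit 1472877565578)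 (nat_lit 0) (nat_lit 326244457844) (nat_lit 1) (nat_lit 5) (nat_lit 3) (nat_lit 4) (nat_lit 1) (nat_lit 4) (nat_lit 336) (nat_lit 199) (nat_lit 185)) (XT.nd (nat_lit 78) (nat_lit 0) (nat_lit 0) (XT.lf (nat_lit 0) (nat_lit 353201326638) (nat_lit 152) (nat_lit 1589872294028) (nat_lit 0) (nat_lit 352752763935) (nat_lit 1) (nat_lit 5) (nat_lit 3) (nat_lit 4) (nat_lit 1) (nat_lit 4) (nat_lit 337) (nat_lit 199) (nat_lit 184)) (XT.lf (nat_lit 0) (nat_lit 381835140378) (nat_lit 152) (nat_lit 1716251109734) (nat_lit 0) (nat_lit 381371281044) (nat_lit 1) (nat_lit 5) (nat_lit 3) (nat_lit 4) (nat_lit 1) (nat_lit 4) (nat_lit 338) (nat_lit 199) (nat_lit 183)))) (XT.nd (nat_lit 78) (nat_lit 0) (nat_lit 0) (XT.lf (nat_lit 0) (nat_lit 412747623265) (nat_lit 152) (nat_lit 1852762924199) (nat_lit 0) (nat_lit 412269600385) (nat_lit 1) (nat_lit 5) (nat_lit 3) (nat_lit 4) (nat_lit 1) (nat_lit 4) (nat_lit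 339) (nat_lit 199) (nat_lit 182)) (XT.nd (nat_lit 78) (nat_lit 0) (nat_lit 0) (XT.lf (nat_lit 0) (nat_lit 446121960383) (nat_lit 152) (nat_lit 2000216696321) (nat_lit 0) (nat_lit 445630823108) (nat_lit 1) (nat_lit 5) (nat_lit 3) (nat_lit 4) (nat_lit 1) (nat_lit 4) (nat_lit 340) (nat_lit 199) (nat_lit 181)) (XT.lf (nat_lit 0) (nat_lit 482155925582) (nat_lit 152) (nat_lit 2159486226233) (nat_lit 0) (nat_lit 481652645349) (nat_lit 1) (nat_lit 5) (nat_lit 3) (nat_lit 4) (nat_lit 1) (nat_lit 4) (nat_lit 341) (nat_lit 199) (nat_lit 180))))) (XT.nd (nat_lit 35958) (nat_lit 0) (nat_lit 0) (XT.nd (nat_lit 35802) (nat_lit 0) (nat_lit 0) (XT.lf (nat_lit 0) (nat_lit 521063053470) (nat_lit 152) (nat_lit 2331515333371) (nat_lit 0) (nat_lit 520548529758) (nat_lit 1) (nat_lit 5) (nat_lit 3) (nat_lit 4) (nat_lit 1) (nat_lit 4) (nat_lit 342) (nat_lit 199) (nat_lit 179)) (XT.nd (nat_lit 78) (nat_lit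 0) (nat_lit 0) (XT.lf (nat_lit 0) (nat_lit 44976500431) (nat_lit 152) (nat_lit 220537661178) (nat_lit 0) (nat_lit 44976500431) (nat_lit 1) (nat_lit 5) (nat_lit 3) (nat_lit 4) (nat_lit 1) (nat_lit 4) (nat_lit 320) (nat_lit 200) (nat_lit 200)) (XT.lf (nat_lit 0) (nat_lit 97938346456) (nat_lit 152) (nat_lit 474766794603) (nat_lit 0) (nat_lit 97885941080) (nat_lit 1) (nat_lit 5) (nat_lit 3) (nat_lit 4) (nat_lit 1) (nat_lit 4) (nat_lit 321) (nat_lit 200) (nat_lit 199)))) (XT.nd (nat_lit 156) (nat_lit 0) (nat_lit 0) (XT.nd (nat_lit 78) (nat_lit 0) (nat_lit 0) (XT.lf (nat_lit 0) (nat_lit 106521285217) (nat_lit 152) (nat_lit 511231331263) (nat_lit 0) (nat_lit 106420356344) (nat_lit 1) (nat_lit 5) (nat_lit 3) (nat_lit 4) (nat_lit 1) (nat_lit 4) (nat_lit 322) (nat_lit 200) (nat_lit 198)) (XT.lf (nat_lit 0) (nat_lit 115752679005) (nat_lit 152) (nat_lit 550685018479) (nat_lit 0) (nat_lit 115606820967)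 (nat_lit 1) (nat_lit 5) (nat_lit 3) (nat_lit 4) (nat_lit 1) (nat_lit 4) (nat_lit 323) (nat_lit 200) (nat_lit 197))) (XT.nd (nat_lit 78) (nat_lit 0) (nat_lit 0) (XT.lf (nat_lit 0) (nat_lit 125687232374) (nat_lit 152) (nat_lit 593361655879) (nat_lit 0) (nat_lit 125499773260) (nat_lit 1) (nat_lit 5) (nat_lit 3) (nat_lit 4) (nat_lit 1) (nat_lit 4) (nat_lit 324) (nat_lit 200) (nat_lit 196)) (XT.lf (nat_lit 0) (nat_lit 136383816754) (nat_lit 152) (nat_lit 639514142055) (nat_lit 0) (nat_lit 136157838123) (nat_lit 1) (nat_lit 5) (nat_lit 3) (nat_lit 4) (nat_lit 1) (nat_lit 4) (nat_lit 325) (nat_lit 200) (nat_lit 195))))))) (XT.nd (nat_lit 1014) (nat_lit 0) (nat_lit 0) (XT.nd (nat_lit 468) (nat_lit 0) (nat_lit 0) (XT.nd (nat_lit 234) (nat_lit 0) (nat_lit 0) (XT.nd (nat_lit 78) (nat_lit 0) (nat_lit 0) (XT.lf (nat_lit 0) (nat_lit 147905819310) (nat_lit 152) (nat_lit 689415973221) (nat_lit 0)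 (nat_lit 147644174460) (nat_lit 1) (nat_lit 5) (nat_lit 3) (nat_lit 4) (nat_lit 1) (nat_lit 4) (nat_lit 326) (nat_lit 200) (nat_lit 194)) (XT.nd (nat_lit 78) (nat_lit 0) (nat_lit 0) (XT.lf (nat_lit 0) (nat_lit 160321518575) (nat_lit 152) (nat_lit 743362863933) (nat_lit 0) (nat_lit 160026849449) (nat_lit 1) (nat_lit 5) (nat_lit 3) (nat_lit 4) (nat_lit 1) (nat_lit 4) (nat_lit 327) (nat_lit 200) (nat_lit 193)) (XT.lf (nat_lit 0) (nat_lit 173704489065) (nat_lit 152) (nat_lit 801674499468) (nat_lit 0) (nat_lit 173379241905) (nat_lit 1) (nat_lit 5) (nat_lit 3) (nat_lit 4) (nat_lit 1) (nat_lit 4) (nat_lit 328) (nat_lit 200) (nat_lit 192)))) (XT.nd (nat_lit 78) (nat_lit 0) (nat_lit 0) (XT.lf (nat_lit 0) (nat_lit 188134037271) (nat_lit 152) (nat_lit 864696430260) (nat_lit 0) (nat_lit 187780477117) (nat_lit 1) (nat_lit 5) (nat_lit 3) (nat_lit 4) (nat_lit 1) (nat_lit 4) (nat_lit 329) (nat_lit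 200) (nat_lit 191)) (XT.nd (nat_lit 78) (nat_lit 0) (nat_lit 0) (XT.lf (nat_lit 0) (nat_lit 203695671627) (nat_lit 152) (nat_lit 932802119602) (nat_lit 0) (nat_lit 203315895737) (nat_lit 1) (nat_lit 5) (nat_lit 3) (nat_lit 4) (nat_lit 1) (nat_lit 4) (nat_lit 330) (nat_lit 200) (nat_lit 190)) (XT.lf (nat_lit 0) (nat_lit 220481609225) (nat_lit 152) (nat_lit 1006395156764) (nat_lit 0) (nat_lit 220077559506) (nat_lit 1) (nat_lit 5) (nat_lit 3) (nat_lit 4) (nat_lit 1) (nat_lit 4) (nat_lit 331) (nat_lit 200) (nat_lit 189))))) (XT.nd (nat_lit 234) (nat_lit 0) (nat_lit 0) (XT.nd (nat_lit 78) (nat_lit 0) (nat_lit 0) (XT.lf (nat_lit 0) (nat_lit 238591322289) (nat_lit 152) (nat_lit 1085911648633) (nat_lit 0) (nat_lit 238164796802) (nat_lit 1) (nat_lit 5) (nat_lit 3) (nat_lit 4) (nat_lit 1) (nat_lit 4) (nat_lit 332) (nat_lit 200) (nat_lit 188)) (XT.nd (nat_lit 78) (nat_lit 0) (nat_lit 0) (XT.lf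 (nat_lit 0) (nat_lit 258132127635) (nat_lit 152) (nat_lit 1171822804050) (nat_lit 0) (nat_lit 257684791252) (nat_lit 1) (nat_lit 5) (nat_lit 3) (nat_lit 4) (nat_lit 1) (nat_lit 4) (nat_lit 333) (nat_lit 200) (nat_lit 187)) (XT.lf (nat_lit 0) (nat_lit 279219822630) (nat_lit 152) (nat_lit 1264637726158) (nat_lit 0) (nat_lit 278753216899) (nat_lit 1) (nat_lit 5) (nat_lit 3) (nat_lit 4) (nat_lit 1) (nat_lit 4) (nat_lit 334) (nat_lit 200) (nat_lit 186)))) (XT.nd (nat_lit 156) (nat_lit 0) (nat_lit 0) (XT.nd (nat_lit 78) (nat_lit 0) (nat_lit 0) (XT.lf (nat_lit 0) (nat_lit 301979371391) (nat_lit 152) (nat_lit 1364906429311) (nat_lit 0) (nat_lit 301494923671) (nat_lit 1) (nat_lit 5) (nat_lit 3) (nat_lit 4) (nat_lit 1) (nat_lit 4) (nat_lit 335) (nat_lit 200) (nat_lit 185)) (XT.lf (nat_lit 0) (nat_lit 326545645320) (nat_lit 152) (nat_lit 1473223098415) (nat_lit 0) (nat_lit 326044677239) (nat_lit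 1) (nat_lit 5) (nat_lit 3) (nat_lit 4) (nat_lit 1) (nat_lit 4) (nat_lit 336) (nat_lit 200) (nat_lit 184))) (XT.nd (nat_lit 78) (nat_lit 0) (nat_lit 0) (XT.lf (nat_lit 0) (nat_lit 353064222334) (nat_lit 152) (nat_lit 1590229610028) (nat_lit 0) (nat_lit 352547957624) (nat_lit 1) (nat_lit 5) (nat_lit 3) (nat_lit 4) (nat_lit 1) (nat_lit 4) (nat_lit 337) (nat_lit 200) (nat_lit 183)) (XT.lf (nat_lit 0) (nat_lit 381692249559) (nat_lit 152) (nat_lit 1716619336072) (nat_lit 0) (nat_lit 381161821302) (nat_lit 1) (nat_lit 5) (nat_lit 3) (nat_lit 4) (nat_lit 1) (nat_lit 4) (nat_lit 338) (nat_lit 200) (nat_lit 182)))))) (XT.nd (nat_lit 36036) (nat_lit 0) (nat_lit 0) (XT.nd (nat_lit 234) (nat_lit 0) (nat_lit 0) (XT.nd (nat_lit 78) (nat_lit 0) (nat_lit 0) (XT.lf (nat_lit 0) (nat_lit 412599374561) (nat_lit 152) (nat_lit 1853141252701) (nat_lit 0) (nat_lit 412055831910) (nat_lit 1) (nat_lit 5) (nat_lit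 3) (nat_lit 4) (nat_lit 1) (nat_lit 4) (nat_lit 339) (nat_lit 200) (nat_lit 181)) (XT.nd (nat_lit 78) (nat_lit 0) (nat_lit 0) (XT.lf (nat_lit 0) (nat_lit 445968750675) (nat_lit 152) (nat_lit 2000604378679) (nat_lit 0) (nat_lit 445413065066) (nat_lit 1) (nat_lit 5) (nat_lit 3) (nat_lit 4) (nat_lit 1) (nat_lit 4) (nat_lit 340) (nat_lit 200) (nat_lit 180)) (XT.lf (nat_lit 0) (nat_lit 481998122351) (nat_lit 152) (nat_lit 2159882569568) (nat_lit 0) (nat_lit 481431193263) (nat_lit 1) (nat_lit 5) (nat_lit 3) (nat_lit 4) (nat_lit 1) (nat_lit 4) (nat_lit 341) (nat_lit 200) (nat_lit 179)))) (XT.nd (nat_lit 35646) (nat_lit 0) (nat_lit 0) (XT.lf (nat_lit 0) (nat_lit 520900996978) (nat_lit 152) (nat_lit 2331919696129) (nat_lit 0) (nat_lit 520323657260) (nat_lit 1) (nat_lit 5) (nat_lit 3) (nat_lit 4) (nat_lit 1) (nat_lit 4) (nat_lit 342) (nat_lit 200) (nat_lit 178)) (XT.nd (nat_lit 78) (nat_lit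 0) (nat_lit 0) (XT.lf (nat_lit 0) (nat_lit 37834394310) (nat_lit 152) (nat_lit 190592305174) (nat_lit 0) (nat_lit 37834394310) (nat_lit 1) (nat_lit 5) (nat_lit 3) (nat_lit 4) (nat_lit 1) (nat_lit 4) (nat_lit 318) (nat_lit 201) (nat_lit 201)) (XT.lf (nat_lit 0) (nat_lit 82574525676) (nat_lit 152) (nat_lit 409957261352) (nat_lit 0) (nat_lit 82517927870) (nat_lit 1) (nat_lit 5) (nat_lit 3) (nat_lit 4) (nat_lit 1) (nat_lit 4) (nat_lit 319) (nat_lit 201) (nat_lit 200))))) (XT.nd (nat_lit 234) (nat_lit 0) (nat_lit 0) (XT.nd (nat_lit 78) (nat_lit 0) (nat_lit 0) (XT.lf (nat_lit 0) (nat_lit 89988188458) (nat_lit 152) (nat_lit 441115690800) (nat_lit 0) (nat_lit 89879185275) (nat_lit 1) (nat_lit 5) (nat_lit 3) (nat_lit 4) (nat_lit 1) (nat_lit 4) (nat_lit 320) (nat_lit 201) (nat_lit 199)) (XT.nd (nat_lit 78) (nat_lit 0) (nat_lit 0) (XT.lf (nat_lit 0) (nat_lit 97953709783) (nat_lit 152) (nat_lit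 474844541236) (nat_lit 0) (nat_lit 97796183103) (nat_lit 1) (nat_lit 5) (nat_lit 3) (nat_lit 4) (nat_lit 1) (nat_lit 4) (nat_lit 321) (nat_lit 201) (nat_lit 198)) (XT.lf (nat_lit 0) (nat_lit 106518292739) (nat_lit 152) (nat_lit 511343687330) (nat_lit 0) (nat_lit 106315836895) (nat_lit 1) (nat_lit 5) (nat_lit 3) (nat_lit 4) (nat_lit 1) (nat_lit 4) (nat_lit 322) (nat_lit 201) (nat_lit 197)))) (XT.nd (nat_lit 156) (nat_lit 0) (nat_lit 0) (XT.nd (nat_lit 78) (nat_lit 0) (nat_lit 0) (XT.lf (nat_lit 0) (nat_lit 115732690410) (nat_lit 152) (nat_lit 550829420319) (nat_lit 0) (nat_lit 115488633489) (nat_lit 1) (nat_lit 5) (nat_lit 3) (nat_lit 4) (nat_lit 1) (nat_lit 4) (nat_lit 323) (nat_lit 201) (nat_lit 196)) (XT.lf (nat_lit 0) (nat_lit 125651506636) (nat_lit 152) (nat_lit 593535729730) (nat_lit 0) (nat_lit 125368930198) (nat_lit 1) (nat_lit 5) (nat_lit 3) (nat_lit 4) (nat_lit 1) (nat_lit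 4) (nat_lit 324) (nat_lit 201) (nat_lit 195))) (XT.nd (nat_lit 78) (nat_lit 0) (nat_lit 0) (XT.lf (nat_lit 0) (nat_lit 136333519585) (nat_lit 152) (nat_lit 639715689991) (nat_lit 0) (nat_lit 136015276929) (nat_lit 1) (nat_lit 5) (nat_lit 3) (nat_lit 4) (nat_lit 1) (nat_lit 4) (nat_lit 325) (nat_lit 201) (nat_lit 194)) (XT.lf (nat_lit 0) (nat_lit 147842030077) (nat_lit 152) (nat_lit 689642960125) (nat_lit 0) (nat_lit 147490763144) (nat_lit 1) (nat_lit 5) (nat_lit 3) (nat_lit 4) (nat_lit 1) (nat_lit 4) (nat_lit 326) (nat_lit 201) (nat_lit 193))))))))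
noncomputable def xc3 : XT := (XT.nd (nat_lit 37440) (nat_lit 0) (nat_lit 0) (XT.nd (nat_lit 1014) (nat_lit 0) (nat_lit 0) (XT.nd (nat_lit 468) (nat_lit 0) (nat_lit 0) (XT.nd (nat_lit 234) (nat_lit 0) (nat_lit 0) (XT.nd (nat_lit 78) (nat_lit 0) (nat_lit 0) (XT.lf (nat_lit 0) (nat_lit 160245236690) (nat_lit 152) (nat_lit 743613405436) (nat_lit 0) (nat_lit 159863391723) (nat_lit 1) (nat_lit 5) (nat_lit 3) (nat_lit 4) (nat_lit 1) (nat_lit 4) (nat_lit 327) (nat_lit 201) (nat_lit 192)) (XT.nd (nat_lit 78) (nat_lit 0) (nat_lit 0) (XT.lf (nat_lit 0) (nat_lit 173616639909) (nat_lit 152) (nat_lit 801946850785) (nat_lit 0) (nat_lit 173206481948) (nat_lit 1) (nat_lit 5) (nat_lit 3) (nat_lit 4) (nat_lit 1) (nat_lit 4) (nat_lit 328) (nat_lit 201) (nat_lit 191)) (XT.lf (nat_lit 0) (nat_lit 188035477679) (nat_lit 152) (nat_lit 864988975850) (nat_lit 0) (nat_lit 187599103983) (nat_lit 1) (nat_lit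 5) (nat_lit 3) (nat_lit 4) (nat_lit 1) (nat_lit 4) (nat_lit 329) (nat_lit 201) (nat_lit 190)))) (XT.nd (nat_lit 78) (nat_lit 0) (nat_lit 0) (XT.lf (nat_lit 0) (nat_lit 203587194965) (nat_lit 152) (nat_lit 933113363592) (nat_lit 0) (nat_lit 203126547439) (nat_lit 1) (nat_lit 5) (nat_lit 3) (nat_lit 4) (nat_lit 1) (nat_lit 4) (nat_lit 330) (nat_lit 201) (nat_lit 189)) (XT.nd (nat_lit 78) (nat_lit 0) (nat_lit 0) (XT.lf (nat_lit 0) (nat_lit 220363950091) (nat_lit 152) (nat_lit 1006723714088) (nat_lit 0) (nat_lit 219880826797) (nat_lit 1) (nat_lit 5) (nat_lit 3) (nat_lit 4) (nat_lit 1) (nat_lit 4) (nat_lit 331) (nat_lit 201) (nat_lit 188)) (XT.lf (nat_lit 0) (nat_lit 238465160865) (nat_lit 152) (nat_lit 1086256236821) (nat_lit 0) (nat_lit 237961226675) (nat_lit 1) (nat_lit 5) (nat_lit 3) (nat_lit 4) (nat_lit 1) (nat_lit 4) (nat_lit 332) (nat_lit 201) (nat_lit 187))))) (XT.nd (nat_lit 234)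 (nat_lit 0) (nat_lit 0) (XT.nd (nat_lit 78) (nat_lit 0) (nat_lit 0) (XT.lf (nat_lit 0) (nat_lit 257998093721) (nat_lit 152) (nat_lit 1172182235632) (nat_lit 0) (nat_lit 257474890183) (nat_lit 1) (nat_lit 5) (nat_lit 3) (nat_lit 4) (nat_lit 1) (nat_lit 4) (nat_lit 333) (nat_lit 201) (nat_lit 186)) (XT.nd (nat_lit 78) (nat_lit 0) (nat_lit 0) (XT.lf (nat_lit 0) (nat_lit 279078499373) (nat_lit 152) (nat_lit 1265010901622) (nat_lit 0) (nat_lit 278537453846) (nat_lit 1) (nat_lit 5) (nat_lit 3) (nat_lit 4) (nat_lit 1) (nat_lit 4) (nat_lit 334) (nat_lit 201) (nat_lit 185)) (XT.lf (nat_lit 0) (nat_lit 301831298743) (nat_lit 152) (nat_lit 1365292330592) (nat_lit 0) (nat_lit 301273732856) (nat_lit 1) (nat_lit 5) (nat_lit 3) (nat_lit 4) (nat_lit 1) (nat_lit 4) (nat_lit 335) (nat_lit 201) (nat_lit 184)))) (XT.nd (nat_lit 156) (nat_lit 0) (nat_lit 0) (XT.nd (nat_lit 78) (nat_lit 0) (nat_lit 0) (XT.lf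 (nat_lit 0) (nat_lit 326391323235) (nat_lit 152) (nat_lit 1473620782860) (nat_lit 0) (nat_lit 325818460718) (nat_lit 1) (nat_lit 5) (nat_lit 3) (nat_lit 4) (nat_lit 1) (nat_lit 4) (nat_lit 336) (nat_lit 201) (nat_lit 183)) (XT.lf (nat_lit 0) (nat_lit 352904113734) (nat_lit 152) (nat_lit 1590638204810) (nat_lit 0) (nat_lit 352317087671) (nat_lit 1) (nat_lit 5) (nat_lit 3) (nat_lit 4) (nat_lit 1) (nat_lit 4) (nat_lit 337) (nat_lit 201) (nat_lit 182))) (XT.nd (nat_lit 78) (nat_lit 0) (nat_lit 0) (XT.lf (nat_lit 0) (nat_lit 381526783074) (nat_lit 152) (nat_lit 1717038033018) (nat_lit 0) (nat_lit 380926642616) (nat_lit 1) (nat_lit 5) (nat_lit 3) (nat_lit 4) (nat_lit 1) (nat_lit 4) (nat_lit 338) (nat_lit 201) (nat_lit 181)) (XT.lf (nat_lit 0) (nat_lit 412428947072) (nat_lit 152) (nat_lit 1853569303502) (nat_lit 0) (nat_lit 411816663657) (nat_lit 1) (nat_lit 5) (nat_lit 3) (nat_lit 4) (nat_lit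 1) (nat_lit 4) (nat_lit 339) (nat_lit 201) (nat_lit 180)))))) (XT.nd (nat_lit 35880) (nat_lit 0) (nat_lit 0) (XT.nd (nat_lit 35646) (nat_lit 0) (nat_lit 0) (XT.nd (nat_lit 78) (nat_lit 0) (nat_lit 0) (XT.lf (nat_lit 0) (nat_lit 445793729664) (nat_lit 152) (nat_lit 2001041090457) (nat_lit 0) (nat_lit 445170202768) (nat_lit 1) (nat_lit 5) (nat_lit 3) (nat_lit 4) (nat_lit 1) (nat_lit 4) (nat_lit 340) (nat_lit 201) (nat_lit 179)) (XT.nd (nat_lit 78) (nat_lit 0) (nat_lit 0) (XT.lf (nat_lit 0) (nat_lit 481818848079) (nat_lit 152) (nat_lit 2160327300770) (nat_lit 0) (nat_lit 481184910554) (nat_lit 1) (nat_lit 5) (nat_lit 3) (nat_lit 4) (nat_lit 1) (nat_lit 4) (nat_lit 341) (nat_lit 201) (nat_lit 178)) (XT.lf (nat_lit 0) (nat_lit 520717784500) (nat_lit 152) (nat_lit 2332371852723) (nat_lit 0) (nat_lit 520074207504) (nat_lit 1) (nat_lit 5) (nat_lit 3) (nat_lit 4) (nat_lit 1) (nat_lit 4) (nat_lit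 342) (nat_lit 201) (nat_lit 177)))) (XT.nd (nat_lit 78) (nat_lit 0) (nat_lit 0) (XT.lf (nat_lit 0) (nat_lit 31653133032) (nat_lit 152) (nat_lit 165040333538) (nat_lit 0) (nat_lit 31653133032) (nat_lit 1) (nat_lit 5) (nat_lit 3) (nat_lit 4) (nat_lit 1) (nat_lit 4) (nat_lit 316) (nat_lit 202) (nat_lit 202)) (XT.nd (nat_lit 78) (nat_lit 0) (nat_lit 0) (XT.lf (nat_lit 0) (nat_lit 69291180035) (nat_lit 152) (nat_lit 354627233191) (nat_lit 0) (nat_lit 69230054403) (nat_lit 1) (nat_lit 5) (nat_lit 3) (nat_lit 4) (nat_lit 1) (nat_lit 4) (nat_lit 317) (nat_lit 202) (nat_lit 201)) (XT.lf (nat_lit 0) (nat_lit 75706791223) (nat_lit 152) (nat_lit 381228208269) (nat_lit 0) (nat_lit 75589067786) (nat_lit 1) (nat_lit 5) (nat_lit 3) (nat_lit 4) (nat_lit 1) (nat_lit 4) (nat_lit 318) (nat_lit 202) (nat_lit 200))))) (XT.nd (nat_lit 234) (nat_lit 0) (nat_lit 0) (XT.nd (nat_lit 78) (nat_lit 0) (nat_lit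 0) (XT.lf (nat_lit 0) (nat_lit 82591118069) (nat_lit 152) (nat_lit 410041227716) (nat_lit 0) (nat_lit 82420989254) (nat_lit 1) (nat_lit 5) (nat_lit 3) (nat_lit 4) (nat_lit 1) (nat_lit 4) (nat_lit 319) (nat_lit 202) (nat_lit 199)) (XT.nd (nat_lit 78) (nat_lit 0) (nat_lit 0) (XT.lf (nat_lit 0) (nat_lit 89984956581) (nat_lit 152) (nat_lit 441237035353) (nat_lit 0) (nat_lit 89766304270) (nat_lit 1) (nat_lit 5) (nat_lit 3) (nat_lit 4) (nat_lit 1) (nat_lit 4) (nat_lit 320) (nat_lit 202) (nat_lit 198)) (XT.lf (nat_lit 0) (nat_lit 97932122101) (nat_lit 152) (nat_lit 475000495223) (nat_lit 0) (nat_lit 97668540626) (nat_lit 1) (nat_lit 5) (nat_lit 3) (nat_lit 4) (nat_lit 1) (nat_lit 4) (nat_lit 321) (nat_lit 202) (nat_lit 197)))) (XT.nd (nat_lit 156) (nat_lit 0) (nat_lit 0) (XT.nd (nat_lit 78) (nat_lit 0) (nat_lit 0) (XT.lf (nat_lit 0) (nat_lit 106479708941) (nat_lit 152) (nat_lit 511531687090)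 (nat_lit 0) (nat_lit 106174526389) (nat_lit 1) (nat_lit 5) (nat_lit 3) (nat_lit 4) (nat_lit 1) (nat_lit 4) (nat_lit 322) (nat_lit 202) (nat_lit 196)) (XT.lf (nat_lit 0) (nat_lit 115678369469) (nat_lit 152) (nat_lit 551047092090) (nat_lit 0) (nat_lit 115334667400) (nat_lit 1) (nat_lit 5) (nat_lit 3) (nat_lit 4) (nat_lit 1) (nat_lit 4) (nat_lit 323) (nat_lit 202) (nat_lit 195))) (XT.nd (nat_lit 78) (nat_lit 0) (nat_lit 0) (XT.lf (nat_lit 0) (nat_lit 125582614264) (nat_lit 152) (nat_lit 593780875586) (nat_lit 0) (nat_lit 125203245977) (nat_lit 1) (nat_lit 5) (nat_lit 3) (nat_lit 4) (nat_lit 1) (nat_lit 4) (nat_lit 324) (nat_lit 202) (nat_lit 194)) (XT.lf (nat_lit 0) (nat_lit 136251135149) (nat_lit 152) (nat_lit 639986274814) (nat_lit 0) (nat_lit 135838742585) (nat_lit 1) (nat_lit 5) (nat_lit 3) (nat_lit 4) (nat_lit 1) (nat_lit 4) (nat_lit 325) (nat_lit 202) (nat_lit 193))))))) (XT.nd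 (nat_lit 1014) (nat_lit 0) (nat_lit 0) (XT.nd (nat_lit 468) (nat_lit 0) (nat_lit 0) (XT.nd (nat_lit 234) (nat_lit 0) (nat_lit 0) (XT.nd (nat_lit 78) (nat_lit 0) (nat_lit 0) (XT.lf (nat_lit 0) (nat_lit 147747152988) (nat_lit 152) (nat_lit 689937099547) (nat_lit 0) (nat_lit 147304182390) (nat_lit 1) (nat_lit 5) (nat_lit 3) (nat_lit 4) (nat_lit 1) (nat_lit 4) (nat_lit 326) (nat_lit 202) (nat_lit 192)) (XT.nd (nat_lit 78) (nat_lit 0) (nat_lit 0) (XT.lf (nat_lit 0) (nat_lit 160138792331) (nat_lit 152) (nat_lit 743929354672) (nat_lit 0) (nat_lit 159667508738) (nat_lit 1) (nat_lit 5) (nat_lit 3) (nat_lit 4) (nat_lit 1) (nat_lit 4) (nat_lit 327) (nat_lit 202) (nat_lit 191)) (XT.lf (nat_lit 0) (nat_lit 173499485114) (nat_lit 152) (nat_lit 802282994294) (nat_lit 0) (nat_lit 173001985786) (nat_lit 1) (nat_lit 5) (nat_lit 3) (nat_lit 4) (nat_lit 1) (nat_lit 4) (nat_lit 328) (nat_lit 202) (nat_lit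 190)))) (XT.nd (nat_lit 78) (nat_lit 0) (nat_lit 0) (XT.lf (nat_lit 0) (nat_lit 187908405814) (nat_lit 152) (nat_lit 865343817759) (nat_lit 0) (nat_lit 187386632657) (nat_lit 1) (nat_lit 5) (nat_lit 3) (nat_lit 4) (nat_lit 1) (nat_lit 4) (nat_lit 329) (nat_lit 202) (nat_lit 189)) (XT.nd (nat_lit 78) (nat_lit 0) (nat_lit 0) (XT.lf (nat_lit 0) (nat_lit 203450940627) (nat_lit 152) (nat_lit 933485518835) (nat_lit 0) (nat_lit 202906691702) (nat_lit 1) (nat_lit 5) (nat_lit 3) (nat_lit 4) (nat_lit 1) (nat_lit 4) (nat_lit 330) (nat_lit 202) (nat_lit 188)) (XT.lf (nat_lit 0) (nat_lit 220219193463) (nat_lit 152) (nat_lit 1007111900195) (nat_lit 0) (nat_lit 219654133643) (nat_lit 1) (nat_lit 5) (nat_lit 3) (nat_lit 4) (nat_lit 1) (nat_lit 4) (nat_lit 331) (nat_lit 202) (nat_lit 187))))) (XT.nd (nat_lit 234) (nat_lit 0) (nat_lit 0) (XT.nd (nat_lit 78) (nat_lit 0) (nat_lit 0) (XT.lf (nat_lit 0)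 (nat_lit 238312531747) (nat_lit 152) (nat_lit 1086659266322) (nat_lit 0) (nat_lit 237728202578) (nat_lit 1) (nat_lit 5) (nat_lit 3) (nat_lit 4) (nat_lit 1) (nat_lit 4) (nat_lit 332) (nat_lit 202) (nat_lit 186)) (XT.nd (nat_lit 78) (nat_lit 0) (nat_lit 0) (XT.lf (nat_lit 0) (nat_lit 257838175261) (nat_lit 152) (nat_lit 1172599009015) (nat_lit 0) (nat_lit 257236004103) (nat_lit 1) (nat_lit 5) (nat_lit 3) (nat_lit 4) (nat_lit 1) (nat_lit 4) (nat_lit 333) (nat_lit 202) (nat_lit 185)) (XT.lf (nat_lit 0) (nat_lit 278911831521) (nat_lit 152) (nat_lit 1265440400823) (nat_lit 0) (nat_lit 278293140003) (nat_lit 1) (nat_lit 5) (nat_lit 3) (nat_lit 4) (nat_lit 1) (nat_lit 4) (nat_lit 334) (nat_lit 202) (nat_lit 184)))) (XT.nd (nat_lit 156) (nat_lit 0) (nat_lit 0) (XT.nd (nat_lit 78) (nat_lit 0) (nat_lit 0) (XT.lf (nat_lit 0) (nat_lit 301658381455) (nat_lit 152) (nat_lit 1365733612956) (nat_lit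 0) (nat_lit 301024393307) (nat_lit 1) (nat_lit 5) (nat_lit 3) (nat_lit 4) (nat_lit 1) (nat_lit 4) (nat_lit 335) (nat_lit 202) (nat_lit 183)) (XT.lf (nat_lit 0) (nat_lit 326212619432) (nat_lit 152) (nat_lit 1474072975561) (nat_lit 0) (nat_lit 325564467737) (nat_lit 1) (nat_lit 5) (nat_lit 3) (nat_lit 4) (nat_lit 1) (nat_lit 4) (nat_lit 336) (nat_lit 202) (nat_lit 182))) (XT.nd (nat_lit 78) (nat_lit 0) (nat_lit 0) (XT.lf (nat_lit 0) (nat_lit 352720052047) (nat_lit 152) (nat_lit 1591100499676) (nat_lit 0) (nat_lit 352058785958) (nat_lit 1) (nat_lit 5) (nat_lit 3) (nat_lit 4) (nat_lit 1) (nat_lit 4) (nat_lit 337) (nat_lit 202) (nat_lit 181)) (XT.lf (nat_lit 0) (nat_lit 381337760382) (nat_lit 152) (nat_lit 1717509681739) (nat_lit 0) (nat_lit 380664351335) (nat_lit 1) (nat_lit 5) (nat_lit 3) (nat_lit 4) (nat_lit 1) (nat_lit 4) (nat_lit 338) (nat_lit 202) (nat_lit 180)))))) (XT.nd (nat_lit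 35724) (nat_lit 0) (nat_lit 0) (XT.nd (nat_lit 234) (nat_lit 0) (nat_lit 0) (XT.nd (nat_lit 78) (nat_lit 0) (nat_lit 0) (XT.lf (nat_lit 0) (nat_lit 412235330858) (nat_lit 152) (nat_lit 1854049613200) (nat_lit 0) (nat_lit 411550678331) (nat_lit 1) (nat_lit 5) (nat_lit 3) (nat_lit 4) (nat_lit 1) (nat_lit 4) (nat_lit 339) (nat_lit 202) (nat_lit 179)) (XT.nd (nat_lit 78) (nat_lit 0) (nat_lit 0) (XT.lf (nat_lit 0) (nat_lit 445595860188) (nat_lit 152) (nat_lit 2001529419579) (nat_lit 0) (nat_lit 444900797032) (nat_lit 1) (nat_lit 5) (nat_lit 3) (nat_lit 4) (nat_lit 1) (nat_lit 4) (nat_lit 340) (nat_lit 202) (nat_lit 178)) (XT.lf (nat_lit 0) (nat_lit 481617040398) (nat_lit 152) (nat_lit 2160823055284) (nat_lit 0) (nat_lit 480912337771) (nat_lit 1) (nat_lit 5) (nat_lit 3) (nat_lit 4) (nat_lit 1) (nat_lit 4) (nat_lit 341) (nat_lit 202) (nat_lit 177)))) (XT.nd (nat_lit 35334) (nat_lit 0) (nat_lit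 0) (XT.lf (nat_lit 0) (nat_lit 520512330333) (nat_lit 152) (nat_lit 2332874482600) (nat_lit 0) (nat_lit 519798702270) (nat_lit 1) (nat_lit 5) (nat_lit 3) (nat_lit 4) (nat_lit 1) (nat_lit 4) (nat_lit 342) (nat_lit 202) (nat_lit 176)) (XT.nd (nat_lit 78) (nat_lit 0) (nat_lit 0) (XT.lf (nat_lit 0) (nat_lit 26290996825) (nat_lit 152) (nat_lit 143264688435) (nat_lit 0) (nat_lit 26290996825) (nat_lit 1) (nat_lit 5) (nat_lit 3) (nat_lit 4) (nat_lit 1) (nat_lit 4) (nat_lit 314) (nat_lit 203) (nat_lit 203)) (XT.lf (nat_lit 0) (nat_lit 57782598841) (nat_lit 152) (nat_lit 307443048789) (nat_lit 0) (nat_lit 57716583159) (nat_lit 1) (nat_lit 5) (nat_lit 3) (nat_lit 4) (nat_lit 1) (nat_lit 4) (nat_lit 315) (nat_lit 203) (nat_lit 202))))) (XT.nd (nat_lit 234) (nat_lit 0) (nat_lit 0) (XT.nd (nat_lit 78) (nat_lit 0) (nat_lit 0) (XT.lf (nat_lit 0) (nat_lit 63347308877) (nat_lit 152) (nat_lit 330127752829)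 (nat_lit 0) (nat_lit 63220167564) (nat_lit 1) (nat_lit 5) (nat_lit 3) (nat_lit 4) (nat_lit 1) (nat_lit 4) (nat_lit 316) (nat_lit 203) (nat_lit 201)) (XT.nd (nat_lit 78) (nat_lit 0) (nat_lit 0) (XT.lf (nat_lit 0) (nat_lit 69309099818) (nat_lit 152) (nat_lit 354717916864) (nat_lit 0) (nat_lit 69125360699) (nat_lit 1) (nat_lit 5) (nat_lit 3) (nat_lit 4) (nat_lit 1) (nat_lit 4) (nat_lit 317) (nat_lit 203) (nat_lit 200)) (XT.lf (nat_lit 0) (nat_lit 75703300796) (nat_lit 152) (nat_lit 381359260386) (nat_lit 0) (nat_lit 75467156300) (nat_lit 1) (nat_lit 5) (nat_lit 3) (nat_lit 4) (nat_lit 1) (nat_lit 4) (nat_lit 318) (nat_lit 203) (nat_lit 199)))) (XT.nd (nat_lit 156) (nat_lit 0) (nat_lit 0) (XT.nd (nat_lit 78) (nat_lit 0) (nat_lit 0) (XT.lf (nat_lit 0) (nat_lit 82567803372) (nat_lit 152) (nat_lit 410209658022) (nat_lit 0) (nat_lit 82283135379) (nat_lit 1) (nat_lit 5) (nat_lit 3) (nat_lit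 4) (nat_lit 1) (nat_lit 4) (nat_lit 319) (nat_lit 203) (nat_lit 198)) (XT.lf (nat_lit 0) (nat_lit 89943286080) (nat_lit 152) (nat_lit 441440075093) (nat_lit 0) (nat_lit 89613688923) (nat_lit 1) (nat_lit 5) (nat_lit 3) (nat_lit 4) (nat_lit 1) (nat_lit 4) (nat_lit 320) (nat_lit 203) (nat_lit 197))) (XT.nd (nat_lit 78) (nat_lit 0) (nat_lit 0) (XT.lf (nat_lit 0) (nat_lit 97873455484) (nat_lit 152) (nat_lit 475235580735) (nat_lit 0) (nat_lit 97502257250) (nat_lit 1) (nat_lit 5) (nat_lit 3) (nat_lit 4) (nat_lit 1) (nat_lit 4) (nat_lit 321) (nat_lit 203) (nat_lit 196)) (XT.lf (nat_lit 0) (nat_lit 106405305180) (nat_lit 152) (nat_lit 511796444614) (nat_lit 0) (nat_lit 105995587429) (nat_lit 1) (nat_lit 5) (nat_lit 3) (nat_lit 4) (nat_lit 1) (nat_lit 4) (nat_lit 322) (nat_lit 203) (nat_lit 195))))))))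
noncomputable def xc4 : XT := (XT.nd (nat_lit 37050) (nat_lit 0) (nat_lit 0) (XT.nd (nat_lit 936) (nat_lit 0) (nat_lit 0) (XT.nd (nat_lit 468) (nat_lit 0) (nat_lit 0) (XT.nd (nat_lit 234) (nat_lit 0) (nat_lit 0) (XT.nd (nat_lit 78) (nat_lit 0) (nat_lit 0) (XT.lf (nat_lit 0) (nat_lit 115589394278) (nat_lit 152) (nat_lit 551339323698) (nat_lit 0) (nat_lit 115144010308) (nat_lit 1) (nat_lit 5) (nat_lit 3) (nat_lit 4) (nat_lit 1) (nat_lit 4) (nat_lit 323) (nat_lit 203) (nat_lit 194)) (XT.nd (nat_lit 78) (nat_lit 0) (nat_lit 0) (XT.lf (nat_lit 0) (nat_lit 125480147009) (nat_lit 152) (nat_lit 594098546162) (nat_lit 0) (nat_lit 125001738763) (nat_lit 1) (nat_lit 5) (nat_lit 3) (nat_lit 4) (nat_lit 1) (nat_lit 4) (nat_lit 324) (nat_lit 203) (nat_lit 193)) (XT.lf (nat_lit 0) (nat_lit 136136175241) (nat_lit 152) (nat_lit 640327499989) (nat_lit 0) (nat_lit 135627188962) (nat_lit 1) (nat_lit 5)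 (nat_lit 3) (nat_lit 4) (nat_lit 1) (nat_lit 4) (nat_lit 325) (nat_lit 203) (nat_lit 192)))) (XT.nd (nat_lit 78) (nat_lit 0) (nat_lit 0) (XT.lf (nat_lit 0) (nat_lit 147620625809) (nat_lit 152) (nat_lit 690300134537) (nat_lit 0) (nat_lit 147083326535) (nat_lit 1) (nat_lit 5) (nat_lit 3) (nat_lit 4) (nat_lit 1) (nat_lit 4) (nat_lit 326) (nat_lit 203) (nat_lit 191)) (XT.nd (nat_lit 78) (nat_lit 0) (nat_lit 0) (XT.lf (nat_lit 0) (nat_lit 160001554716) (nat_lit 152) (nat_lit 744312583934) (nat_lit 0) (nat_lit 159438039706) (nat_lit 1) (nat_lit 5) (nat_lit 3) (nat_lit 4) (nat_lit 1) (nat_lit 4) (nat_lit 327) (nat_lit 203) (nat_lit 190)) (XT.lf (nat_lit 0) (nat_lit 173352330429) (nat_lit 152) (nat_lit 802684921957) (nat_lit 0) (nat_lit 172764541590) (nat_lit 1) (nat_lit 5) (nat_lit 3) (nat_lit 4) (nat_lit 1) (nat_lit 4) (nat_lit 328) (nat_lit 203) (nat_lit 189))))) (XT.nd (nat_lit 234) (nat_lit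 0) (nat_lit 0) (XT.nd (nat_lit 78) (nat_lit 0) (nat_lit 0) (XT.lf (nat_lit 0) (nat_lit 187752068656) (nat_lit 152) (nat_lit 865763058755) (nat_lit 0) (nat_lit 187141804050) (nat_lit 1) (nat_lit 5) (nat_lit 3) (nat_lit 4) (nat_lit 1) (nat_lit 4) (nat_lit 329) (nat_lit 203) (nat_lit 188)) (XT.nd (nat_lit 78) (nat_lit 0) (nat_lit 0) (XT.lf (nat_lit 0) (nat_lit 203286101180) (nat_lit 152) (nat_lit 933920790696) (nat_lit 0) (nat_lit 202655025678) (nat_lit 1) (nat_lit 5) (nat_lit 3) (nat_lit 4) (nat_lit 1) (nat_lit 4) (nat_lit 330) (nat_lit 203) (nat_lit 187)) (XT.lf (nat_lit 0) (nat_lit 220046481526) (nat_lit 152) (nat_lit 1007562015449) (nat_lit 0) (nat_lit 219396136676) (nat_lit 1) (nat_lit 5) (nat_lit 3) (nat_lit 4) (nat_lit 1) (nat_lit 4) (nat_lit 331) (nat_lit 203) (nat_lit 186)))) (XT.nd (nat_lit 78) (nat_lit 0) (nat_lit 0) (XT.lf (nat_lit 0) (nat_lit 238132530467) (nat_lit 152) (nat_lit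 1087123125459) (nat_lit 0) (nat_lit 237464343628) (nat_lit 1) (nat_lit 5) (nat_lit 3) (nat_lit 4) (nat_lit 1) (nat_lit 4) (nat_lit 332) (nat_lit 203) (nat_lit 185)) (XT.nd (nat_lit 78) (nat_lit 0) (nat_lit 0) (XT.lf (nat_lit 0) (nat_lit 257651424590) (nat_lit 152) (nat_lit 1173075593969) (nat_lit 0) (nat_lit 256966717390) (nat_lit 1) (nat_lit 5) (nat_lit 3) (nat_lit 4) (nat_lit 1) (nat_lit 4) (nat_lit 333) (nat_lit 203) (nat_lit 184)) (XT.lf (nat_lit 0) (nat_lit 278718831414) (nat_lit 152) (nat_lit 1265928768940) (nat_lit 0) (nat_lit 278018827584) (nat_lit 1) (nat_lit 5) (nat_lit 3) (nat_lit 4) (nat_lit 1) (nat_lit 4) (nat_lit 334) (nat_lit 203) (nat_lit 183)))))) (XT.nd (nat_lit 468) (nat_lit 0) (nat_lit 0) (XT.nd (nat_lit 234) (nat_lit 0) (nat_lit 0) (XT.nd (nat_lit 78) (nat_lit 0) (nat_lit 0) (XT.lf (nat_lit 0) (nat_lit 301459594832) (nat_lit 152) (nat_lit 1366232891411) (nat_lit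 0) (nat_lit 300745427456) (nat_lit 1) (nat_lit 5) (nat_lit 3) (nat_lit 4) (nat_lit 1) (nat_lit 4) (nat_lit 335) (nat_lit 203) (nat_lit 182)) (XT.nd (nat_lit 78) (nat_lit 0) (nat_lit 0) (XT.lf (nat_lit 0) (nat_lit 326008474924) (nat_lit 152) (nat_lit 1474582356180) (nat_lit 0) (nat_lit 325281193154) (nat_lit 1) (nat_lit 5) (nat_lit 3) (nat_lit 4) (nat_lit 1) (nat_lit 4) (nat_lit 336) (nat_lit 203) (nat_lit 181)) (XT.lf (nat_lit 0) (nat_lit 352510946535) (nat_lit 152) (nat_lit 1591619234150) (nat_lit 0) (nat_lit 351771521807) (nat_lit 1) (nat_lit 5) (nat_lit 3) (nat_lit 4) (nat_lit 1) (nat_lit 4) (nat_lit 337) (nat_lit 203) (nat_lit 180)))) (XT.nd (nat_lit 78) (nat_lit 0) (nat_lit 0) (XT.lf (nat_lit 0) (nat_lit 381124061348) (nat_lit 152) (nat_lit 1718037077191) (nat_lit 0) (nat_lit 380373393140) (nat_lit 1) (nat_lit 5) (nat_lit 3) (nat_lit 4) (nat_lit 1) (nat_lit 4) (nat_lit 338) (nat_lit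 203) (nat_lit 179)) (XT.nd (nat_lit 78) (nat_lit 0) (nat_lit 0) (XT.lf (nat_lit 0) (nat_lit 412017378563) (nat_lit 152) (nat_lit 1854585028075) (nat_lit 0) (nat_lit 411256299725) (nat_lit 1) (nat_lit 5) (nat_lit 3) (nat_lit 4) (nat_lit 1) (nat_lit 4) (nat_lit 339) (nat_lit 203) (nat_lit 178)) (XT.lf (nat_lit 0) (nat_lit 445373969688) (nat_lit 152) (nat_lit 2002072259846) (nat_lit 0) (nat_lit 444603251379) (nat_lit 1) (nat_lit 5) (nat_lit 3) (nat_lit 4) (nat_lit 1) (nat_lit 4) (nat_lit 340) (nat_lit 203) (nat_lit 177))))) (XT.nd (nat_lit 35334) (nat_lit 0) (nat_lit 0) (XT.nd (nat_lit 78) (nat_lit 0) (nat_lit 0) (XT.lf (nat_lit 0) (nat_lit 481391503411) (nat_lit 152) (nat_lit 2161372770914) (nat_lit 0) (nat_lit 480611859666) (nat_lit 1) (nat_lit 5) (nat_lit 3) (nat_lit 4) (nat_lit 1) (nat_lit 4) (nat_lit 341) (nat_lit 203) (nat_lit 176)) (XT.nd (nat_lit 35178) (nat_lit 0) (nat_lit 0)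 (XT.lf (nat_lit 0) (nat_lit 520283416971) (nat_lit 152) (nat_lit 2333430564307) (nat_lit 0) (nat_lit 519495508932) (nat_lit 1) (nat_lit 5) (nat_lit 3) (nat_lit 4) (nat_lit 1) (nat_lit 4) (nat_lit 342) (nat_lit 203) (nat_lit 175)) (XT.lf (nat_lit 0) (nat_lit 21626112262) (nat_lit 152) (nat_lit 124737118838) (nat_lit 0) (nat_lit 21626112262) (nat_lit 1) (nat_lit 5) (nat_lit 3) (nat_lit 4) (nat_lit 1) (nat_lit 4) (nat_lit 312) (nat_lit 204) (nat_lit 204)))) (XT.nd (nat_lit 156) (nat_lit 0) (nat_lit 0) (XT.nd (nat_lit 78) (nat_lit 0) (nat_lit 0) (XT.lf (nat_lit 0) (nat_lit 47785971840) (nat_lit 152) (nat_lit 267262804201) (nat_lit 0) (nat_lit 47714674904) (nat_lit 1) (nat_lit 5) (nat_lit 3) (nat_lit 4) (nat_lit 1) (nat_lit 4) (nat_lit 313) (nat_lit 204) (nat_lit 203)) (XT.lf (nat_lit 0) (nat_lit 52626319887) (nat_lit 152) (nat_lit 286580229484) (nat_lit 0) (nat_lit 52489007269) (nat_lit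 1) (nat_lit 5) (nat_lit 3) (nat_lit 4) (nat_lit 1) (nat_lit 4) (nat_lit 314) (nat_lit 204) (nat_lit 202))) (XT.nd (nat_lit 78) (nat_lit 0) (nat_lit 0) (XT.lf (nat_lit 0) (nat_lit 57801952207) (nat_lit 152) (nat_lit 307540987156) (nat_lit 0) (nat_lit 57603513958) (nat_lit 1) (nat_lit 5) (nat_lit 3) (nat_lit 4) (nat_lit 1) (nat_lit 4) (nat_lit 315) (nat_lit 204) (nat_lit 201)) (XT.lf (nat_lit 0) (nat_lit 63343539216) (nat_lit 152) (nat_lit 330269289115) (nat_lit 0) (nat_lit 63088503160) (nat_lit 1) (nat_lit 5) (nat_lit 3) (nat_lit 4) (nat_lit 1) (nat_lit 4) (nat_lit 316) (nat_lit 204) (nat_lit 200))))))) (XT.nd (nat_lit 1014) (nat_lit 0) (nat_lit 0) (XT.nd (nat_lit 468) (nat_lit 0) (nat_lit 0) (XT.nd (nat_lit 234) (nat_lit 0) (nat_lit 0) (XT.nd (nat_lit 78) (nat_lit 0) (nat_lit 0) (XT.lf (nat_lit 0) (nat_lit 69283919946) (nat_lit 152) (nat_lit 354899821594) (nat_lit 0) (nat_lit 68976478514)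 (nat_lit 1) (nat_lit 5) (nat_lit 3) (nat_lit 4) (nat_lit 1) (nat_lit 4) (nat_lit 317) (nat_lit 204) (nat_lit 199)) (XT.nd (nat_lit 78) (nat_lit 0) (nat_lit 0) (XT.lf (nat_lit 0) (nat_lit 75658296655) (nat_lit 152) (nat_lit 381578543305) (nat_lit 0) (nat_lit 75302331726) (nat_lit 1) (nat_lit 5) (nat_lit 3) (nat_lit 4) (nat_lit 1) (nat_lit 4) (nat_lit 318) (nat_lit 204) (nat_lit 198)) (XT.lf (nat_lit 0) (nat_lit 82504443426) (nat_lit 152) (nat_lit 410463550375) (nat_lit 0) (nat_lit 82103549333) (nat_lit 1) (nat_lit 5) (nat_lit 3) (nat_lit 4) (nat_lit 1) (nat_lit 4) (nat_lit 319) (nat_lit 204) (nat_lit 197)))) (XT.nd (nat_lit 78) (nat_lit 0) (nat_lit 0) (XT.lf (nat_lit 0) (nat_lit 89862930018) (nat_lit 152) (nat_lit 441726013218) (nat_lit 0) (nat_lit 89420434847) (nat_lit 1) (nat_lit 5) (nat_lit 3) (nat_lit 4) (nat_lit 1) (nat_lit 4) (nat_lit 320) (nat_lit 204) (nat_lit 196)) (XT.nd (nat_lit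 78) (nat_lit 0) (nat_lit 0) (XT.lf (nat_lit 0) (nat_lit 97777362277) (nat_lit 152) (nat_lit 475551190873) (nat_lit 0) (nat_lit 97296347591) (nat_lit 1) (nat_lit 5) (nat_lit 3) (nat_lit 4) (nat_lit 1) (nat_lit 4) (nat_lit 321) (nat_lit 204) (nat_lit 195)) (XT.lf (nat_lit 0) (nat_lit 106294640544) (nat_lit 152) (nat_lit 512139528836) (nat_lit 0) (nat_lit 105777959638) (nat_lit 1) (nat_lit 5) (nat_lit 3) (nat_lit 4) (nat_lit 1) (nat_lit 4) (nat_lit 322) (nat_lit 204) (nat_lit 194))))) (XT.nd (nat_lit 234) (nat_lit 0) (nat_lit 0) (XT.nd (nat_lit 78) (nat_lit 0) (nat_lit 0) (XT.lf (nat_lit 0) (nat_lit 115465237577) (nat_lit 152) (nat_lit 551707846888) (nat_lit 0) (nat_lit 114915532395) (nat_lit 1) (nat_lit 5) (nat_lit 3) (nat_lit 4) (nat_lit 1) (nat_lit 4) (nat_lit 323) (nat_lit 204) (nat_lit 193)) (XT.nd (nat_lit 78) (nat_lit 0) (nat_lit 0) (XT.lf (nat_lit 0) (nat_lit 125343497655) (nat_lit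 152) (nat_lit 594490623951) (nat_lit 0) (nat_lit 124763214440) (nat_lit 1) (nat_lit 5) (nat_lit 3) (nat_lit 4) (nat_lit 1) (nat_lit 4) (nat_lit 324) (nat_lit 204) (nat_lit 192)) (XT.lf (nat_lit 0) (nat_lit 135987958617) (nat_lit 152) (nat_lit 640741387593) (nat_lit 0) (nat_lit 135379362407) (nat_lit 1) (nat_lit 5) (nat_lit 3) (nat_lit 4) (nat_lit 1) (nat_lit 4) (nat_lit 325) (nat_lit 204) (nat_lit 191)))) (XT.nd (nat_lit 156) (nat_lit 0) (nat_lit 0) (XT.nd (nat_lit 78) (nat_lit 0) (nat_lit 0) (XT.lf (nat_lit 0) (nat_lit 147461698749) (nat_lit 152) (nat_lit 690734216412) (nat_lit 0) (nat_lit 146826886804) (nat_lit 1) (nat_lit 5) (nat_lit 3) (nat_lit 4) (nat_lit 1) (nat_lit 4) (nat_lit 326) (nat_lit 204) (nat_lit 190)) (XT.lf (nat_lit 0) (nat_lit 159832710586) (nat_lit 152) (nat_lit 744765364210) (nat_lit 0) (nat_lit 159173624811) (nat_lit 1) (nat_lit 5) (nat_lit 3) (nat_lit 4) (nat_lit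 1) (nat_lit 4) (nat_lit 327) (nat_lit 204) (nat_lit 189))) (XT.nd (nat_lit 78) (nat_lit 0) (nat_lit 0) (XT.lf (nat_lit 0) (nat_lit 173174303826) (nat_lit 152) (nat_lit 803155015567) (nat_lit 0) (nat_lit 172492742284) (nat_lit 1) (nat_lit 5) (nat_lit 3) (nat_lit 4) (nat_lit 1) (nat_lit 4) (nat_lit 328) (nat_lit 204) (nat_lit 188)) (XT.lf (nat_lit 0) (nat_lit 187565539764) (nat_lit 152) (nat_lit 866249183230) (nat_lit 0) (nat_lit 186863167326) (nat_lit 1) (nat_lit 5) (nat_lit 3) (nat_lit 4) (nat_lit 1) (nat_lit 4) (nat_lit 329) (nat_lit 204) (nat_lit 187)))))) (XT.nd (nat_lit 468) (nat_lit 0) (nat_lit 0) (XT.nd (nat_lit 234) (nat_lit 0) (nat_lit 0) (XT.nd (nat_lit 78) (nat_lit 0) (nat_lit 0) (XT.lf (nat_lit 0) (nat_lit 203091699798) (nat_lit 152) (nat_lit 934421758563) (nat_lit 0) (nat_lit 202370058011) (nat_lit 1) (nat_lit 5) (nat_lit 3) (nat_lit 4) (nat_lit 1) (nat_lit 4) (nat_lit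 330) (nat_lit 204) (nat_lit 186)) (XT.nd (nat_lit 78) (nat_lit 0) (nat_lit 0) (XT.lf (nat_lit 0) (nat_lit 219844790802) (nat_lit 152) (nat_lit 1008076727199) (nat_lit 0) (nat_lit 219105307026) (nat_lit 1) (nat_lit 5) (nat_lit 3) (nat_lit 4) (nat_lit 1) (nat_lit 4) (nat_lit 331) (nat_lit 204) (nat_lit 185)) (XT.lf (nat_lit 0) (nat_lit 237924090351) (nat_lit 152) (nat_lit 1087650563026) (nat_lit 0) (nat_lit 237168086215) (nat_lit 1) (nat_lit 5) (nat_lit 3) (nat_lit 4) (nat_lit 1) (nat_lit 4) (nat_lit 332) (nat_lit 204) (nat_lit 184)))) (XT.nd (nat_lit 78) (nat_lit 0) (nat_lit 0) (XT.lf (nat_lit 0) (nat_lit 257436735037) (nat_lit 152) (nat_lit 1173614814700) (nat_lit 0) (nat_lit 256665434271) (nat_lit 1) (nat_lit 5) (nat_lit 3) (nat_lit 4) (nat_lit 1) (nat_lit 4) (nat_lit 333) (nat_lit 204) (nat_lit 183)) (XT.nd (nat_lit 78) (nat_lit 0) (nat_lit 0) (XT.lf (nat_lit 0) (nat_lit 278498355346)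 (nat_lit 152) (nat_lit 1266478900008) (nat_lit 0) (nat_lit 277712891034) (nat_lit 1) (nat_lit 5) (nat_lit 3) (nat_lit 4) (nat_lit 1) (nat_lit 4) (nat_lit 334) (nat_lit 204) (nat_lit 182)) (XT.lf (nat_lit 0) (nat_lit 301233760880) (nat_lit 152) (nat_lit 1366793124643) (nat_lit 0) (nat_lit 300435182173) (nat_lit 1) (nat_lit 5) (nat_lit 3) (nat_lit 4) (nat_lit 1) (nat_lit 4) (nat_lit 335) (nat_lit 204) (nat_lit 181))))) (XT.nd (nat_lit 234) (nat_lit 0) (nat_lit 0) (XT.nd (nat_lit 78) (nat_lit 0) (nat_lit 0) (XT.lf (nat_lit 0) (nat_lit 325777679968) (nat_lit 152) (nat_lit 1475151943268) (nat_lit 0) (nat_lit 324966958303) (nat_lit 1) (nat_lit 5) (nat_lit 3) (nat_lit 4) (nat_lit 1) (nat_lit 4) (nat_lit 336) (nat_lit 204) (nat_lit 180)) (XT.nd (nat_lit 78) (nat_lit 0) (nat_lit 0) (XT.lf (nat_lit 0) (nat_lit 352275558056) (nat_lit 152) (nat_lit 1592197482215) (nat_lit 0) (nat_lit 351453592912)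 (nat_lit 1) (nat_lit 5) (nat_lit 3) (nat_lit 4) (nat_lit 1) (nat_lit 4) (nat_lit 337) (nat_lit 204) (nat_lit 179)) (XT.lf (nat_lit 0) (nat_lit 380884419608) (nat_lit 152) (nat_lit 1718623344679) (nat_lit 0) (nat_lit 380052043834) (nat_lit 1) (nat_lit 5) (nat_lit 3) (nat_lit 4) (nat_lit 1) (nat_lit 4) (nat_lit 338) (nat_lit 204) (nat_lit 178)))) (XT.nd (nat_lit 156) (nat_lit 0) (nat_lit 0) (XT.nd (nat_lit 78) (nat_lit 0) (nat_lit 0) (XT.lf (nat_lit 0) (nat_lit 411773798617) (nat_lit 152) (nat_lit 1855178720956) (nat_lit 0) (nat_lit 410931783372) (nat_lit 1) (nat_lit 5) (nat_lit 3) (nat_lit 4) (nat_lit 1) (nat_lit 4) (nat_lit 339) (nat_lit 204) (nat_lit 177)) (XT.lf (nat_lit 0) (nat_lit 445126743256) (nat_lit 152) (nat_lit 2002672828089) (nat_lit 0) (nat_lit 444275802574) (nat_lit 1) (nat_lit 5) (nat_lit 3) (nat_lit 4) (nat_lit 1) (nat_lit 4) (nat_lit 340) (nat_lit 204) (nat_lit 176)))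 (XT.nd (nat_lit 78) (nat_lit 0) (nat_lit 0) (XT.lf (nat_lit 0) (nat_lit 481140900604) (nat_lit 152) (nat_lit 2161979705234) (nat_lit 0) (nat_lit 480281695629) (nat_lit 1) (nat_lit 5) (nat_lit 3) (nat_lit 4) (nat_lit 1) (nat_lit 4) (nat_lit 341) (nat_lit 204) (nat_lit 175)) (XT.lf (nat_lit 0) (nat_lit 520029687889) (nat_lit 152) (nat_lit 2334043393142) (nat_lit 0) (nat_lit 519162830791) (nat_lit 1) (nat_lit 5) (nat_lit 3) (nat_lit 4) (nat_lit 1) (nat_lit 4) (nat_lit 342) (nat_lit 204) (nat_lit 174))))))))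
noncomputable def xc5 : XT := (XT.nd (nat_lit 2028) (nat_lit 0) (nat_lit 0) (XT.nd (nat_lit 1014) (nat_lit 0) (nat_lit 0) (XT.nd (nat_lit 468) (nat_lit 0) (nat_lit 0) (XT.nd (nat_lit 234) (nat_lit 0) (nat_lit 0) (XT.nd (nat_lit 78) (nat_lit 0) (nat_lit 0) (XT.lf (nat_lit 0) (nat_lit 17553591238) (nat_lit 152) (nat_lit 109005573365) (nat_lit 0) (nat_lit 17553591238) (nat_lit 1) (nat_lit 5) (nat_lit 3) (nat_lit 4) (nat_lit 1) (nat_lit 4) (nat_lit 310) (nat_lit 205) (nat_lit 205)) (XT.nd (nat_lit 78) (nat_lit 0) (nat_lit 0) (XT.lf (nat_lit 0) (nat_lit 39075211978) (nat_lit 152) (nat_lit 233109116181) (nat_lit 0) (nat_lit 38998211286) (nat_lit 1) (nat_lit 5) (nat_lit 3) (nat_lit 4) (nat_lit 1) (nat_lit 4) (nat_lit 311) (nat_lit 205) (nat_lit 204)) (XT.lf (nat_lit 0) (nat_lit 43300096859) (nat_lit 152) (nat_lit 249529158498) (nat_lit 0) (nat_lit 43151799232) (nat_lit 1) (nat_lit 5) (nat_lit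 3) (nat_lit 4) (nat_lit 1) (nat_lit 4) (nat_lit 312) (nat_lit 205) (nat_lit 203)))) (XT.nd (nat_lit 78) (nat_lit 0) (nat_lit 0) (XT.lf (nat_lit 0) (nat_lit 47806873476) (nat_lit 152) (nat_lit 267368577637) (nat_lit 0) (nat_lit 47592560167) (nat_lit 1) (nat_lit 5) (nat_lit 3) (nat_lit 4) (nat_lit 1) (nat_lit 4) (nat_lit 313) (nat_lit 205) (nat_lit 202)) (XT.nd (nat_lit 78) (nat_lit 0) (nat_lit 0) (XT.lf (nat_lit 0) (nat_lit 52622248653) (nat_lit 152) (nat_lit 286733088673) (nat_lit 0) (nat_lit 52346809712) (nat_lit 1) (nat_lit 5) (nat_lit 3) (nat_lit 4) (nat_lit 1) (nat_lit 4) (nat_lit 314) (nat_lit 205) (nat_lit 201)) (XT.lf (nat_lit 0) (nat_lit 57774757945) (nat_lit 152) (nat_lit 307737444265) (nat_lit 0) (nat_lit 57442721198) (nat_lit 1) (nat_lit 5) (nat_lit 3) (nat_lit 4) (nat_lit 1) (nat_lit 4) (nat_lit 315) (nat_lit 205) (nat_lit 200))))) (XT.nd (nat_lit 234) (nat_lit 0) (nat_lit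 0) (XT.nd (nat_lit 78) (nat_lit 0) (nat_lit 0) (XT.lf (nat_lit 0) (nat_lit 63294934743) (nat_lit 152) (nat_lit 330506114668) (nat_lit 0) (nat_lit 62910492619) (nat_lit 1) (nat_lit 5) (nat_lit 3) (nat_lit 4) (nat_lit 1) (nat_lit 4) (nat_lit 316) (nat_lit 205) (nat_lit 199)) (XT.nd (nat_lit 78) (nat_lit 0) (nat_lit 0) (XT.lf (nat_lit 0) (nat_lit 69215491204) (nat_lit 152) (nat_lit 355174025336) (nat_lit 0) (nat_lit 68782525584) (nat_lit 1) (nat_lit 5) (nat_lit 3) (nat_lit 4) (nat_lit 1) (nat_lit 4) (nat_lit 317) (nat_lit 205) (nat_lit 198)) (XT.lf (nat_lit 0) (nat_lit 75571512108) (nat_lit 152) (nat_lit 381887356481) (nat_lit 0) (nat_lit 75093617324) (nat_lit 1) (nat_lit 5) (nat_lit 3) (nat_lit 4) (nat_lit 1) (nat_lit 4) (nat_lit 318) (nat_lit 205) (nat_lit 197)))) (XT.nd (nat_lit 156) (nat_lit 0) (nat_lit 0) (XT.nd (nat_lit 78) (nat_lit 0) (nat_lit 0) (XT.lf (nat_lit 0) (nat_lit 82400662763)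 (nat_lit 152) (nat_lit 410804409324) (nat_lit 0) (nat_lit 81881166902) (nat_lit 1) (nat_lit 5) (nat_lit 3) (nat_lit 4) (nat_lit 1) (nat_lit 4) (nat_lit 319) (nat_lit 205) (nat_lit 196)) (XT.lf (nat_lit 0) (nat_lit 89743412211) (nat_lit 152) (nat_lit 442096544178) (nat_lit 0) (nat_lit 89185396833) (nat_lit 1) (nat_lit 5) (nat_lit 3) (nat_lit 4) (nat_lit 1) (nat_lit 4) (nat_lit 320) (nat_lit 205) (nat_lit 195))) (XT.nd (nat_lit 78) (nat_lit 0) (nat_lit 0) (XT.lf (nat_lit 0) (nat_lit 97643273041) (nat_lit 152) (nat_lit 475949195918) (nat_lit 0) (nat_lit 97049591444) (nat_lit 1) (nat_lit 5) (nat_lit 3) (nat_lit 4) (nat_lit 1) (nat_lit 4) (nat_lit 321) (nat_lit 205) (nat_lit 194)) (XT.lf (nat_lit 0) (nat_lit 106147059242) (nat_lit 152) (nat_lit 512562972848) (nat_lit 0) (nat_lit 105520353369) (nat_lit 1) (nat_lit 5) (nat_lit 3) (nat_lit 4) (nat_lit 1) (nat_lit 4) (nat_lit 322) (nat_lit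 205) (nat_lit 193)))))) (XT.nd (nat_lit 468) (nat_lit 0) (nat_lit 0) (XT.nd (nat_lit 234) (nat_lit 0) (nat_lit 0) (XT.nd (nat_lit 78) (nat_lit 0) (nat_lit 0) (XT.lf (nat_lit 0) (nat_lit 115305163623) (nat_lit 152) (nat_lit 552154845499) (nat_lit 0) (nat_lit 114647879716) (nat_lit 1) (nat_lit 5) (nat_lit 3) (nat_lit 4) (nat_lit 1) (nat_lit 4) (nat_lit 323) (nat_lit 205) (nat_lit 192)) (XT.nd (nat_lit 78) (nat_lit 0) (nat_lit 0) (XT.lf (nat_lit 0) (nat_lit 125171856431) (nat_lit 152) (nat_lit 594959432377) (nat_lit 0) (nat_lit 124486259529) (nat_lit 1) (nat_lit 5) (nat_lit 3) (nat_lit 4) (nat_lit 1) (nat_lit 4) (nat_lit 324) (nat_lit 205) (nat_lit 191)) (XT.lf (nat_lit 0) (nat_lit 135805606957) (nat_lit 152) (nat_lit 641230390291) (nat_lit 0) (nat_lit 135093794320) (nat_lit 1) (nat_lit 5) (nat_lit 3) (nat_lit 4) (nat_lit 1) (nat_lit 4) (nat_lit 325) (nat_lit 205) (nat_lit 190)))) (XT.nd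 (nat_lit 78) (nat_lit 0) (nat_lit 0) (XT.lf (nat_lit 0) (nat_lit 147269430018) (nat_lit 152) (nat_lit 691241917511) (nat_lit 0) (nat_lit 146533343552) (nat_lit 1) (nat_lit 5) (nat_lit 3) (nat_lit 4) (nat_lit 1) (nat_lit 4) (nat_lit 326) (nat_lit 205) (nat_lit 189)) (XT.nd (nat_lit 78) (nat_lit 0) (nat_lit 0) (XT.lf (nat_lit 0) (nat_lit 159631259382) (nat_lit 152) (nat_lit 745290378643) (nat_lit 0) (nat_lit 158872697149) (nat_lit 1) (nat_lit 5) (nat_lit 3) (nat_lit 4) (nat_lit 1) (nat_lit 4) (nat_lit 327) (nat_lit 205) (nat_lit 188)) (XT.lf (nat_lit 0) (nat_lit 172964350334) (nat_lit 152) (nat_lit 803696060864) (nat_lit 0) (nat_lit 172184977204) (nat_lit 1) (nat_lit 5) (nat_lit 3) (nat_lit 4) (nat_lit 1) (nat_lit 4) (nat_lit 328) (nat_lit 205) (nat_lit 187))))) (XT.nd (nat_lit 234) (nat_lit 0) (nat_lit 0) (XT.nd (nat_lit 78) (nat_lit 0) (nat_lit 0) (XT.lf (nat_lit 0) (nat_lit 187347713782)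 (nat_lit 152) (nat_lit 866805071920) (nat_lit 0) (nat_lit 186549071304) (nat_lit 1) (nat_lit 5) (nat_lit 3) (nat_lit 4) (nat_lit 1) (nat_lit 4) (nat_lit 329) (nat_lit 205) (nat_lit 186)) (XT.nd (nat_lit 78) (nat_lit 0) (nat_lit 0) (XT.lf (nat_lit 0) (nat_lit 202866584473) (nat_lit 152) (nat_lit 934991391136) (nat_lit 0) (nat_lit 202050100005) (nat_lit 1) (nat_lit 5) (nat_lit 3) (nat_lit 4) (nat_lit 1) (nat_lit 4) (nat_lit 330) (nat_lit 205) (nat_lit 185)) (XT.lf (nat_lit 0) (nat_lit 219612926085) (nat_lit 152) (nat_lit 1008659085589) (nat_lit 0) (nat_lit 218779921257) (nat_lit 1) (nat_lit 5) (nat_lit 3) (nat_lit 4) (nat_lit 1) (nat_lit 4) (nat_lit 331) (nat_lit 205) (nat_lit 184)))) (XT.nd (nat_lit 156) (nat_lit 0) (nat_lit 0) (XT.nd (nat_lit 78) (nat_lit 0) (nat_lit 0) (XT.lf (nat_lit 0) (nat_lit 237685976198) (nat_lit 152) (nat_lit 1088244704579) (nat_lit 0) (nat_lit 236837674741)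 (nat_lit 1) (nat_lit 5) (nat_lit 3) (nat_lit 4) (nat_lit 1) (nat_lit 4) (nat_lit 332) (nat_lit 205) (nat_lit 183)) (XT.lf (nat_lit 0) (nat_lit 257192834368) (nat_lit 152) (nat_lit 1174219866590) (nat_lit 0) (nat_lit 256330369365) (nat_lit 1) (nat_lit 5) (nat_lit 3) (nat_lit 4) (nat_lit 1) (nat_lit 4) (nat_lit 333) (nat_lit 205) (nat_lit 182))) (XT.nd (nat_lit 78) (nat_lit 0) (nat_lit 0) (XT.lf (nat_lit 0) (nat_lit 278249096793) (nat_lit 152) (nat_lit 1267094054063) (nat_lit 0) (nat_lit 277373517395) (nat_lit 1) (nat_lit 5) (nat_lit 3) (nat_lit 4) (nat_lit 1) (nat_lit 4) (nat_lit 334) (nat_lit 205) (nat_lit 181)) (XT.lf (nat_lit 0) (nat_lit 300979541323) (nat_lit 152) (nat_lit 1367417632553) (nat_lit 0) (nat_lit 300091818967) (nat_lit 1) (nat_lit 5) (nat_lit 3) (nat_lit 4) (nat_lit 1) (nat_lit 4) (nat_lit 335) (nat_lit 205) (nat_lit 180))))))) (XT.nd (nat_lit 35802) (nat_lit 0) (nat_lit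 0) (XT.nd (nat_lit 468) (nat_lit 0) (nat_lit 0) (XT.nd (nat_lit 234) (nat_lit 0) (nat_lit 0) (XT.nd (nat_lit 78) (nat_lit 0) (nat_lit 0) (XT.lf (nat_lit 0) (nat_lit 325518866888) (nat_lit 152) (nat_lit 1475785112155) (nat_lit 0) (nat_lit 324619901053) (nat_lit 1) (nat_lit 5) (nat_lit 3) (nat_lit 4) (nat_lit 1) (nat_lit 4) (nat_lit 336) (nat_lit 205) (nat_lit 179)) (XT.nd (nat_lit 78) (nat_lit 0) (nat_lit 0) (XT.lf (nat_lit 0) (nat_lit 352012491715) (nat_lit 152) (nat_lit 1592838670526) (nat_lit 0) (nat_lit 351103115250) (nat_lit 1) (nat_lit 5) (nat_lit 3) (nat_lit 4) (nat_lit 1) (nat_lit 4) (nat_lit 337) (nat_lit 205) (nat_lit 178)) (XT.lf (nat_lit 0) (nat_lit 380617415062) (nat_lit 152) (nat_lit 1719271958382) (nat_lit 0) (nat_lit 379698399125) (nat_lit 1) (nat_lit 5) (nat_lit 3) (nat_lit 4) (nat_lit 1) (nat_lit 4) (nat_lit 338) (nat_lit 205) (nat_lit 177)))) (XT.nd (nat_lit 78) (nat_lit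 0) (nat_lit 0) (XT.lf (nat_lit 0) (nat_lit 411503147585) (nat_lit 152) (nat_lit 1855834210022) (nat_lit 0) (nat_lit 410575206212) (nat_lit 1) (nat_lit 5) (nat_lit 3) (nat_lit 4) (nat_lit 1) (nat_lit 4) (nat_lit 339) (nat_lit 205) (nat_lit 176)) (XT.nd (nat_lit 78) (nat_lit 0) (nat_lit 0) (XT.lf (nat_lit 0) (nat_lit 444852715848) (nat_lit 152) (nat_lit 2003334683232) (nat_lit 0) (nat_lit 443916510181) (nat_lit 1) (nat_lit 5) (nat_lit 3) (nat_lit 4) (nat_lit 1) (nat_lit 4) (nat_lit 340) (nat_lit 205) (nat_lit 175)) (XT.lf (nat_lit 0) (nat_lit 480863746921) (nat_lit 152) (nat_lit 2162647454892) (nat_lit 0) (nat_lit 479919889132) (nat_lit 1) (nat_lit 5) (nat_lit 3) (nat_lit 4) (nat_lit 1) (nat_lit 4) (nat_lit 341) (nat_lit 205) (nat_lit 174))))) (XT.nd (nat_lit 35022) (nat_lit 0) (nat_lit 0) (XT.nd (nat_lit 34866) (nat_lit 0) (nat_lit 0) (XT.lf (nat_lit 0) (nat_lit 519749639508) (nat_lit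 152) (nat_lit 2334716600686) (nat_lit 0) (nat_lit 518798696419) (nat_lit 1) (nat_lit 5) (nat_lit 3) (nat_lit 4) (nat_lit 1) (nat_lit 4) (nat_lit 342) (nat_lit 205) (nat_lit 173)) (XT.nd (nat_lit 78) (nat_lit 0) (nat_lit 0) (XT.lf (nat_lit 0) (nat_lit 13983075721) (nat_lit 152) (nat_lit 95683396652) (nat_lit 0) (nat_lit 13983075721) (nat_lit 1) (nat_lit 5) (nat_lit 3) (nat_lit 4) (nat_lit 1) (nat_lit 4) (nat_lit 308) (nat_lit 206) (nat_lit 206)) (XT.lf (nat_lit 0) (nat_lit 31455654853) (nat_lit 152) (nat_lit 204145780699) (nat_lit 0) (nat_lit 31372494107) (nat_lit 1) (nat_lit 5) (nat_lit 3) (nat_lit 4) (nat_lit 1) (nat_lit 4) (nat_lit 309) (nat_lit 206) (nat_lit 205)))) (XT.nd (nat_lit 156) (nat_lit 0) (nat_lit 0) (XT.nd (nat_lit 78) (nat_lit 0) (nat_lit 0) (XT.lf (nat_lit 0) (nat_lit 35158884599) (nat_lit 152) (nat_lit 218070461219) (nat_lit 0) (nat_lit 34998723161) (nat_lit 1) (nat_lit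 5) (nat_lit 3) (nat_lit 4) (nat_lit 1) (nat_lit 4) (nat_lit 310) (nat_lit 206) (nat_lit 204)) (XT.lf (nat_lit 0) (nat_lit 39097785744) (nat_lit 152) (nat_lit 233223351492) (nat_lit 0) (nat_lit 38866327371) (nat_lit 1) (nat_lit 5) (nat_lit 3) (nat_lit 4) (nat_lit 1) (nat_lit 4) (nat_lit 311) (nat_lit 206) (nat_lit 203))) (XT.nd (nat_lit 78) (nat_lit 0) (nat_lit 0) (XT.lf (nat_lit 0) (nat_lit 43295699926) (nat_lit 152) (nat_lit 249694246422) (nat_lit 0) (nat_lit 42998225871) (nat_lit 1) (nat_lit 5) (nat_lit 3) (nat_lit 4) (nat_lit 1) (nat_lit 4) (nat_lit 312) (nat_lit 206) (nat_lit 202)) (XT.lf (nat_lit 0) (nat_lit 47777503673) (nat_lit 152) (nat_lit 267580751314) (nat_lit 0) (nat_lit 47418903986) (nat_lit 1) (nat_lit 5) (nat_lit 3) (nat_lit 4) (nat_lit 1) (nat_lit 4) (nat_lit 313) (nat_lit 206) (nat_lit 201)))))) (XT.nd (nat_lit 468) (nat_lit 0) (nat_lit 0) (XT.nd (nat_lit 234) (nat_lit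 0) (nat_lit 0) (XT.nd (nat_lit 78) (nat_lit 0) (nat_lit 0) (XT.lf (nat_lit 0) (nat_lit 52569755822) (nat_lit 152) (nat_lit 286988860270) (nat_lit 0) (nat_lit 52154558328) (nat_lit 1) (nat_lit 5) (nat_lit 3) (nat_lit 4) (nat_lit 1) (nat_lit 4) (nat_lit 314) (nat_lit 206) (nat_lit 200)) (XT.nd (nat_lit 78) (nat_lit 0) (nat_lit 0) (XT.lf (nat_lit 0) (nat_lit 57700854904) (nat_lit 152) (nat_lit 308033584306) (nat_lit 0) (nat_lit 57233252034) (nat_lit 1) (nat_lit 5) (nat_lit 3) (nat_lit 4) (nat_lit 1) (nat_lit 4) (nat_lit 315) (nat_lit 206) (nat_lit 199)) (XT.lf (nat_lit 0) (nat_lit 63201207432) (nat_lit 152) (nat_lit 330839632898) (nat_lit 0) (nat_lit 62685081065) (nat_lit 1) (nat_lit 5) (nat_lit 3) (nat_lit 4) (nat_lit 1) (nat_lit 4) (nat_lit 316) (nat_lit 206) (nat_lit 198)))) (XT.nd (nat_lit 78) (nat_lit 0) (nat_lit 0) (XT.lf (nat_lit 0) (nat_lit 69103408088) (nat_lit 152) (nat_lit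 355542153000) (nat_lit 0) (nat_lit 68542352558) (nat_lit 1) (nat_lit 5) (nat_lit 3) (nat_lit 4) (nat_lit 1) (nat_lit 4) (nat_lit 317) (nat_lit 206) (nat_lit 197)) (XT.nd (nat_lit 78) (nat_lit 0) (nat_lit 0) (XT.lf (nat_lit 0) (nat_lit 75442432876) (nat_lit 152) (nat_lit 382287529918) (nat_lit 0) (nat_lit 74839776268) (nat_lit 1) (nat_lit 5) (nat_lit 3) (nat_lit 4) (nat_lit 1) (nat_lit 4) (nat_lit 318) (nat_lit 206) (nat_lit 196)) (XT.lf (nat_lit 0) (nat_lit 82255846387) (nat_lit 152) (nat_lit 411234254772) (nat_lit 0) (nat_lit 81614670263) (nat_lit 1) (nat_lit 5) (nat_lit 3) (nat_lit 4) (nat_lit 1) (nat_lit 4) (nat_lit 319) (nat_lit 206) (nat_lit 195))))) (XT.nd (nat_lit 234) (nat_lit 0) (nat_lit 0) (XT.nd (nat_lit 78) (nat_lit 0) (nat_lit 0) (XT.lf (nat_lit 0) (nat_lit 89584024405) (nat_lit 152) (nat_lit 442553863711) (nat_lit 0) (nat_lit 88907182062) (nat_lit 1) (nat_lit 5) (nat_lit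 3) (nat_lit 4) (nat_lit 1) (nat_lit 4) (nat_lit 320) (nat_lit 206) (nat_lit 194)) (XT.nd (nat_lit 78) (nat_lit 0) (nat_lit 0) (XT.lf (nat_lit 0) (nat_lit 97470393170) (nat_lit 152) (nat_lit 476431954418) (nat_lit 0) (nat_lit 96760526551) (nat_lit 1) (nat_lit 5) (nat_lit 3) (nat_lit 4) (nat_lit 1) (nat_lit 4) (nat_lit 321) (nat_lit 206) (nat_lit 193)) (XT.lf (nat_lit 0) (nat_lit 105961686720) (nat_lit 152) (nat_lit 513069285948) (nat_lit 0) (nat_lit 105221242066) (nat_lit 1) (nat_lit 5) (nat_lit 3) (nat_lit 4) (nat_lit 1) (nat_lit 4) (nat_lit 322) (nat_lit 206) (nat_lit 192)))) (XT.nd (nat_lit 156) (nat_lit 0) (nat_lit 0) (XT.nd (nat_lit 78) (nat_lit 0) (nat_lit 0) (XT.lf (nat_lit 0) (nat_lit 115108223829) (nat_lit 152) (nat_lit 552682968413) (nat_lit 0) (nat_lit 114339466182) (nat_lit 1) (nat_lit 5) (nat_lit 3) (nat_lit 4) (nat_lit 1) (nat_lit 4) (nat_lit 323) (nat_lit 206) (nat_lit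 191)) (XT.lf (nat_lit 0) (nat_lit 124964206202) (nat_lit 152) (nat_lit 595507749563) (nat_lit 0) (nat_lit 124169232818) (nat_lit 1) (nat_lit 5) (nat_lit 3) (nat_lit 4) (nat_lit 1) (nat_lit 4) (nat_lit 324) (nat_lit 206) (nat_lit 190))) (XT.nd (nat_lit 78) (nat_lit 0) (nat_lit 0) (XT.lf (nat_lit 0) (nat_lit 135588039657) (nat_lit 152) (nat_lit 641797405878) (nat_lit 0) (nat_lit 134768792445) (nat_lit 1) (nat_lit 5) (nat_lit 3) (nat_lit 4) (nat_lit 1) (nat_lit 4) (nat_lit 325) (nat_lit 206) (nat_lit 189)) (XT.lf (nat_lit 0) (nat_lit 147042680246) (nat_lit 152) (nat_lit 691826246431) (nat_lit 0) (nat_lit 146200957266) (nat_lit 1) (nat_lit 5) (nat_lit 3) (nat_lit 4) (nat_lit 1) (nat_lit 4) (nat_lit 326) (nat_lit 206) (nat_lit 188))))))))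
noncomputable def xc6 : XT := (XT.nd (nat_lit 36582) (nat_lit 0) (nat_lit 0) (XT.nd (nat_lit 936) (nat_lit 0) (nat_lit 0) (XT.nd (nat_lit 468) (nat_lit 0) (nat_lit 0) (XT.nd (nat_lit 234) (nat_lit 0) (nat_lit 0) (XT.nd (nat_lit 78) (nat_lit 0) (nat_lit 0) (XT.lf (nat_lit 0) (nat_lit 159396007321) (nat_lit 152) (nat_lit 745890738428) (nat_lit 0) (nat_lit 158533473445) (nat_lit 1) (nat_lit 5) (nat_lit 3) (nat_lit 4) (nat_lit 1) (nat_lit 4) (nat_lit 327) (nat_lit 206) (nat_lit 187)) (XT.nd (nat_lit 78) (nat_lit 0) (nat_lit 0) (XT.lf (nat_lit 0) (nat_lit 172721225782) (nat_lit 152) (nat_lit 804311264042) (nat_lit 0) (nat_lit 171839422558) (nat_lit 1) (nat_lit 5) (nat_lit 3) (nat_lit 4) (nat_lit 1) (nat_lit 4) (nat_lit 328) (nat_lit 206) (nat_lit 186)) (XT.lf (nat_lit 0) (nat_lit 187097299887) (nat_lit 152) (nat_lit 867434018980) (nat_lit 0) (nat_lit 186197654674) (nat_lit 1) (nat_lit 5)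 (nat_lit 3) (nat_lit 4) (nat_lit 1) (nat_lit 4) (nat_lit 329) (nat_lit 206) (nat_lit 185)))) (XT.nd (nat_lit 78) (nat_lit 0) (nat_lit 0) (XT.lf (nat_lit 0) (nat_lit 202609421187) (nat_lit 152) (nat_lit 935633064014) (nat_lit 0) (nat_lit 201693255613) (nat_lit 1) (nat_lit 5) (nat_lit 3) (nat_lit 4) (nat_lit 1) (nat_lit 4) (nat_lit 330) (nat_lit 206) (nat_lit 184)) (XT.nd (nat_lit 78) (nat_lit 0) (nat_lit 0) (XT.lf (nat_lit 0) (nat_lit 219349513363) (nat_lit 152) (nat_lit 1009312541631) (nat_lit 0) (nat_lit 218418051159) (nat_lit 1) (nat_lit 5) (nat_lit 3) (nat_lit 4) (nat_lit 1) (nat_lit 4) (nat_lit 331) (nat_lit 206) (nat_lit 183)) (XT.lf (nat_lit 0) (nat_lit 237416776961) (nat_lit 152) (nat_lit 1088909070958) (nat_lit 0) (nat_lit 236471151211) (nat_lit 1) (nat_lit 5) (nat_lit 3) (nat_lit 4) (nat_lit 1) (nat_lit 4) (nat_lit 332) (nat_lit 206) (nat_lit 182))))) (XT.nd (nat_lit 234)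 (nat_lit 0) (nat_lit 0) (XT.nd (nat_lit 78) (nat_lit 0) (nat_lit 0) (XT.lf (nat_lit 0) (nat_lit 256918277247) (nat_lit 152) (nat_lit 1174894335133) (nat_lit 0) (nat_lit 255959537102) (nat_lit 1) (nat_lit 5) (nat_lit 3) (nat_lit 4) (nat_lit 1) (nat_lit 4) (nat_lit 333) (nat_lit 206) (nat_lit 181)) (XT.nd (nat_lit 78) (nat_lit 0) (nat_lit 0) (XT.lf (nat_lit 0) (nat_lit 277969578667) (nat_lit 152) (nat_lit 1267777876461) (nat_lit 0) (nat_lit 276998695564) (nat_lit 1) (nat_lit 5) (nat_lit 3) (nat_lit 4) (nat_lit 1) (nat_lit 4) (nat_lit 334) (nat_lit 206) (nat_lit 180)) (XT.lf (nat_lit 0) (nat_lit 300695429674) (nat_lit 152) (nat_lit 1368110115929) (nat_lit 0) (nat_lit 299713303092) (nat_lit 1) (nat_lit 5) (nat_lit 3) (nat_lit 4) (nat_lit 1) (nat_lit 4) (nat_lit 335) (nat_lit 206) (nat_lit 179)))) (XT.nd (nat_lit 78) (nat_lit 0) (nat_lit 0) (XT.lf (nat_lit 0) (nat_lit 325230501978) (nat_lit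 152) (nat_lit 1476485614954) (nat_lit 0) (nat_lit 324237964767) (nat_lit 1) (nat_lit 5) (nat_lit 3) (nat_lit 4) (nat_lit 1) (nat_lit 4) (nat_lit 336) (nat_lit 206) (nat_lit 178)) (XT.nd (nat_lit 78) (nat_lit 0) (nat_lit 0) (XT.lf (nat_lit 0) (nat_lit 351720188600) (nat_lit 152) (nat_lit 1593546598717) (nat_lit 0) (nat_lit 350718011917) (nat_lit 1) (nat_lit 5) (nat_lit 3) (nat_lit 4) (nat_lit 1) (nat_lit 4) (nat_lit 337) (nat_lit 206) (nat_lit 177)) (XT.lf (nat_lit 0) (nat_lit 380321465461) (nat_lit 152) (nat_lit 1719986761936) (nat_lit 0) (nat_lit 379310363341) (nat_lit 1) (nat_lit 5) (nat_lit 3) (nat_lit 4) (nat_lit 1) (nat_lit 4) (nat_lit 338) (nat_lit 206) (nat_lit 176)))))) (XT.nd (nat_lit 35100) (nat_lit 0) (nat_lit 0) (XT.nd (nat_lit 234) (nat_lit 0) (nat_lit 0) (XT.nd (nat_lit 78) (nat_lit 0) (nat_lit 0) (XT.lf (nat_lit 0) (nat_lit 411203821608) (nat_lit 152) (nat_lit 1856555379653)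 (nat_lit 0) (nat_lit 410184455195) (nat_lit 1) (nat_lit 5) (nat_lit 3) (nat_lit 4) (nat_lit 1) (nat_lit 4) (nat_lit 339) (nat_lit 206) (nat_lit 175)) (XT.nd (nat_lit 78) (nat_lit 0) (nat_lit 0) (XT.lf (nat_lit 0) (nat_lit 444550263596) (nat_lit 152) (nat_lit 2004061747379) (nat_lit 0) (nat_lit 443523245061) (nat_lit 1) (nat_lit 5) (nat_lit 3) (nat_lit 4) (nat_lit 1) (nat_lit 4) (nat_lit 340) (nat_lit 206) (nat_lit 174)) (XT.lf (nat_lit 0) (nat_lit 480558399972) (nat_lit 152) (nat_lit 2163379976924) (nat_lit 0) (nat_lit 479524296136) (nat_lit 1) (nat_lit 5) (nat_lit 3) (nat_lit 4) (nat_lit 1) (nat_lit 4) (nat_lit 341) (nat_lit 206) (nat_lit 173)))) (XT.nd (nat_lit 34710) (nat_lit 0) (nat_lit 0) (XT.lf (nat_lit 0) (nat_lit 519441612283) (nat_lit 152) (nat_lit 2335454176314) (nat_lit 0) (nat_lit 518400947985) (nat_lit 1) (nat_lit 5) (nat_lit 3) (nat_lit 4) (nat_lit 1) (nat_lit 4) (nat_lit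 342) (nat_lit 206) (nat_lit 172)) (XT.nd (nat_lit 78) (nat_lit 0) (nat_lit 0) (XT.lf (nat_lit 0) (nat_lit 10836630201) (nat_lit 152) (nat_lit 84440072344) (nat_lit 0) (nat_lit 10836630201) (nat_lit 1) (nat_lit 5) (nat_lit 3) (nat_lit 4) (nat_lit 1) (nat_lit 4) (nat_lit 306) (nat_lit 207) (nat_lit 207)) (XT.lf (nat_lit 0) (nat_lit 24759509435) (nat_lit 152) (nat_lit 179657771706) (nat_lit 0) (nat_lit 24669695828) (nat_lit 1) (nat_lit 5) (nat_lit 3) (nat_lit 4) (nat_lit 1) (nat_lit 4) (nat_lit 307) (nat_lit 207) (nat_lit 206))))) (XT.nd (nat_lit 234) (nat_lit 0) (nat_lit 0) (XT.nd (nat_lit 78) (nat_lit 0) (nat_lit 0) (XT.lf (nat_lit 0) (nat_lit 28021989735) (nat_lit 152) (nat_lit 191430852953) (nat_lit 0) (nat_lit 27849015382) (nat_lit 1) (nat_lit 5) (nat_lit 3) (nat_lit 4) (nat_lit 1) (nat_lit 4) (nat_lit 308) (nat_lit 207) (nat_lit 205)) (XT.nd (nat_lit 78) (nat_lit 0) (nat_lit 0)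 (XT.lf (nat_lit 0) (nat_lit 31480034522) (nat_lit 152) (nat_lit 204269154834) (nat_lit 0) (nat_lit 31230059478) (nat_lit 1) (nat_lit 5) (nat_lit 3) (nat_lit 4) (nat_lit 1) (nat_lit 4) (nat_lit 309) (nat_lit 207) (nat_lit 204)) (XT.lf (nat_lit 0) (nat_lit 35154135912) (nat_lit 152) (nat_lit 218248756177) (nat_lit 0) (nat_lit 34832863931) (nat_lit 1) (nat_lit 5) (nat_lit 3) (nat_lit 4) (nat_lit 1) (nat_lit 4) (nat_lit 310) (nat_lit 207) (nat_lit 203)))) (XT.nd (nat_lit 156) (nat_lit 0) (nat_lit 0) (XT.nd (nat_lit 78) (nat_lit 0) (nat_lit 0) (XT.lf (nat_lit 0) (nat_lit 39066066357) (nat_lit 152) (nat_lit 233452499063) (nat_lit 0) (nat_lit 38678778696) (nat_lit 1) (nat_lit 5) (nat_lit 3) (nat_lit 4) (nat_lit 1) (nat_lit 4) (nat_lit 311) (nat_lit 207) (nat_lit 202)) (XT.lf (nat_lit 0) (nat_lit 43239007669) (nat_lit 152) (nat_lit 249970479747) (nat_lit 0) (nat_lit 42790594376) (nat_lit 1)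 (nat_lit 5) (nat_lit 3) (nat_lit 4) (nat_lit 1) (nat_lit 4) (nat_lit 312) (nat_lit 207) (nat_lit 201))) (XT.nd (nat_lit 78) (nat_lit 0) (nat_lit 0) (XT.lf (nat_lit 0) (nat_lit 47697688388) (nat_lit 152) (nat_lit 267900582559) (nat_lit 0) (nat_lit 47192677289) (nat_lit 1) (nat_lit 5) (nat_lit 3) (nat_lit 4) (nat_lit 1) (nat_lit 4) (nat_lit 313) (nat_lit 207) (nat_lit 200)) (XT.lf (nat_lit 0) (nat_lit 52468530326) (nat_lit 152) (nat_lit 287349059958) (nat_lit 0) (nat_lit 51911113850) (nat_lit 1) (nat_lit 5) (nat_lit 3) (nat_lit 4) (nat_lit 1) (nat_lit 4) (nat_lit 314) (nat_lit 207) (nat_lit 199))))))) (XT.nd (nat_lit 1014) (nat_lit 0) (nat_lit 0) (XT.nd (nat_lit 468) (nat_lit 0) (nat_lit 0) (XT.nd (nat_lit 234) (nat_lit 0) (nat_lit 0) (XT.nd (nat_lit 78) (nat_lit 0) (nat_lit 0) (XT.lf (nat_lit 0) (nat_lit 57579805139) (nat_lit 152) (nat_lit 308431162183) (nat_lit 0) (nat_lit 56973865166)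 (nat_lit 1) (nat_lit 5) (nat_lit 3) (nat_lit 4) (nat_lit 1) (nat_lit 4) (nat_lit 315) (nat_lit 207) (nat_lit 198)) (XT.nd (nat_lit 78) (nat_lit 0) (nat_lit 0) (XT.lf (nat_lit 0) (nat_lit 63061801862) (nat_lit 152) (nat_lit 331271820210) (nat_lit 0) (nat_lit 62410932725) (nat_lit 1) (nat_lit 5) (nat_lit 3) (nat_lit 4) (nat_lit 1) (nat_lit 4) (nat_lit 316) (nat_lit 207) (nat_lit 197)) (XT.lf (nat_lit 0) (nat_lit 68947006402) (nat_lit 152) (nat_lit 356006386084) (nat_lit 0) (nat_lit 68254536188) (nat_lit 1) (nat_lit 5) (nat_lit 3) (nat_lit 4) (nat_lit 1) (nat_lit 4) (nat_lit 317) (nat_lit 207) (nat_lit 196)))) (XT.nd (nat_lit 78) (nat_lit 0) (nat_lit 0) (XT.lf (nat_lit 0) (nat_lit 75270294046) (nat_lit 152) (nat_lit 382781435013) (nat_lit 0) (nat_lit 74539304316) (nat_lit 1) (nat_lit 5) (nat_lit 3) (nat_lit 4) (nat_lit 1) (nat_lit 4) (nat_lit 318) (nat_lit 207) (nat_lit 195)) (XT.nd (nat_lit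 78) (nat_lit 0) (nat_lit 0) (XT.lf (nat_lit 0) (nat_lit 82069136128) (nat_lit 152) (nat_lit 411755633953) (nat_lit 0) (nat_lit 81302480178) (nat_lit 1) (nat_lit 5) (nat_lit 3) (nat_lit 4) (nat_lit 1) (nat_lit 4) (nat_lit 319) (nat_lit 207) (nat_lit 194)) (XT.lf (nat_lit 0) (nat_lit 89383822081) (nat_lit 152) (nat_lit 443100681859) (nat_lit 0) (nat_lit 88584141855) (nat_lit 1) (nat_lit 5) (nat_lit 3) (nat_lit 4) (nat_lit 1) (nat_lit 4) (nat_lit 320) (nat_lit 207) (nat_lit 193))))) (XT.nd (nat_lit 234) (nat_lit 0) (nat_lit 0) (XT.nd (nat_lit 78) (nat_lit 0) (nat_lit 0) (XT.lf (nat_lit 0) (nat_lit 97257698194) (nat_lit 152) (nat_lit 477002327165) (nat_lit 0) (nat_lit 96427439934) (nat_lit 1) (nat_lit 5) (nat_lit 3) (nat_lit 4) (nat_lit 1) (nat_lit 4) (nat_lit 321) (nat_lit 207) (nat_lit 192)) (XT.nd (nat_lit 78) (nat_lit 0) (nat_lit 0) (XT.lf (nat_lit 0) (nat_lit 105737424472) (nat_lit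 152) (nat_lit 513661468509) (nat_lit 0) (nat_lit 104878853218) (nat_lit 1) (nat_lit 5) (nat_lit 3) (nat_lit 4) (nat_lit 1) (nat_lit 4) (nat_lit 322) (nat_lit 207) (nat_lit 191)) (XT.lf (nat_lit 0) (nat_lit 114873251146) (nat_lit 152) (nat_lit 553295345247) (nat_lit 0) (nat_lit 113988464156) (nat_lit 1) (nat_lit 5) (nat_lit 3) (nat_lit 4) (nat_lit 1) (nat_lit 4) (nat_lit 323) (nat_lit 207) (nat_lit 190)))) (XT.nd (nat_lit 156) (nat_lit 0) (nat_lit 0) (XT.nd (nat_lit 78) (nat_lit 0) (nat_lit 0) (XT.lf (nat_lit 0) (nat_lit 124719316448) (nat_lit 152) (nat_lit 596138824797) (nat_lit 0) (nat_lit 123810255629) (nat_lit 1) (nat_lit 5) (nat_lit 3) (nat_lit 4) (nat_lit 1) (nat_lit 4) (nat_lit 324) (nat_lit 207) (nat_lit 189)) (XT.lf (nat_lit 0) (nat_lit 135333967431) (nat_lit 152) (nat_lit 642445794446) (nat_lit 0) (nat_lit 134402430844) (nat_lit 1) (nat_lit 5) (nat_lit 3) (nat_lit 4) (nat_lit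 1) (nat_lit 4) (nat_lit 325) (nat_lit 207) (nat_lit 188))) (XT.nd (nat_lit 78) (nat_lit 0) (nat_lit 0) (XT.lf (nat_lit 0) (nat_lit 146780105731) (nat_lit 152) (nat_lit 692490665864) (nat_lit 0) (nat_lit 145827758248) (nat_lit 1) (nat_lit 5) (nat_lit 3) (nat_lit 4) (nat_lit 1) (nat_lit 4) (nat_lit 326) (nat_lit 207) (nat_lit 187)) (XT.lf (nat_lit 0) (nat_lit 159125560315) (nat_lit 152) (nat_lit 746570001254) (nat_lit 0) (nat_lit 158153943485) (nat_lit 1) (nat_lit 5) (nat_lit 3) (nat_lit 4) (nat_lit 1) (nat_lit 4) (nat_lit 327) (nat_lit 207) (nat_lit 186)))))) (XT.nd (nat_lit 468) (nat_lit 0) (nat_lit 0) (XT.nd (nat_lit 234) (nat_lit 0) (nat_lit 0) (XT.nd (nat_lit 78) (nat_lit 0) (nat_lit 0) (XT.lf (nat_lit 0) (nat_lit 172443489434) (nat_lit 152) (nat_lit 805004270750) (nat_lit 0) (nat_lit 171454030614) (nat_lit 1) (nat_lit 5) (nat_lit 3) (nat_lit 4) (nat_lit 1) (nat_lit 4) (nat_lit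 328) (nat_lit 207) (nat_lit 185)) (XT.nd (nat_lit 78) (nat_lit 0) (nat_lit 0) (XT.lf (nat_lit 0) (nat_lit 186812814148) (nat_lit 152) (nat_lit 868139751506) (nat_lit 0) (nat_lit 185806834968) (nat_lit 1) (nat_lit 5) (nat_lit 3) (nat_lit 4) (nat_lit 1) (nat_lit 4) (nat_lit 329) (nat_lit 207) (nat_lit 184)) (XT.lf (nat_lit 0) (nat_lit 202318686011) (nat_lit 152) (nat_lit 936350579703) (nat_lit 0) (nat_lit 201297410201) (nat_lit 1) (nat_lit 5) (nat_lit 3) (nat_lit 4) (nat_lit 1) (nat_lit 4) (nat_lit 330) (nat_lit 207) (nat_lit 183)))) (XT.nd (nat_lit 78) (nat_lit 0) (nat_lit 0) (XT.lf (nat_lit 0) (nat_lit 219052991671) (nat_lit 152) (nat_lit 1010040967657) (nat_lit 0) (nat_lit 218017552315) (nat_lit 1) (nat_lit 5) (nat_lit 3) (nat_lit 4) (nat_lit 1) (nat_lit 4) (nat_lit 331) (nat_lit 207) (nat_lit 182)) (XT.nd (nat_lit 78) (nat_lit 0) (nat_lit 0) (XT.lf (nat_lit 0) (nat_lit 237114897384)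 (nat_lit 152) (nat_lit 1089647599149) (nat_lit 0) (nat_lit 236066343634) (nat_lit 1) (nat_lit 5) (nat_lit 3) (nat_lit 4) (nat_lit 1) (nat_lit 4) (nat_lit 332) (nat_lit 207) (nat_lit 181)) (XT.lf (nat_lit 0) (nat_lit 256611436666) (nat_lit 152) (nat_lit 1175642217179) (nat_lit 0) (nat_lit 255550739958) (nat_lit 1) (nat_lit 5) (nat_lit 3) (nat_lit 4) (nat_lit 1) (nat_lit 4) (nat_lit 333) (nat_lit 207) (nat_lit 180))))) (XT.nd (nat_lit 234) (nat_lit 0) (nat_lit 0) (XT.nd (nat_lit 78) (nat_lit 0) (nat_lit 0) (XT.lf (nat_lit 0) (nat_lit 277658144564) (nat_lit 152) (nat_lit 1268534419485) (nat_lit 0) (nat_lit 276586204376) (nat_lit 1) (nat_lit 5) (nat_lit 3) (nat_lit 4) (nat_lit 1) (nat_lit 4) (nat_lit 334) (nat_lit 207) (nat_lit 179)) (XT.nd (nat_lit 78) (nat_lit 0) (nat_lit 0) (XT.lf (nat_lit 0) (nat_lit 300379742310) (nat_lit 152) (nat_lit 1368874678375) (nat_lit 0) (nat_lit 299297391493)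 (nat_lit 1) (nat_lit 5) (nat_lit 3) (nat_lit 4) (nat_lit 1) (nat_lit 4) (nat_lit 335) (nat_lit 207) (nat_lit 178)) (XT.lf (nat_lit 0) (nat_lit 324910876409) (nat_lit 152) (nat_lit 1477257602793) (nat_lit 0) (nat_lit 323818886120) (nat_lit 1) (nat_lit 5) (nat_lit 3) (nat_lit 4) (nat_lit 1) (nat_lit 4) (nat_lit 336) (nat_lit 207) (nat_lit 177)))) (XT.nd (nat_lit 156) (nat_lit 0) (nat_lit 0) (XT.nd (nat_lit 78) (nat_lit 0) (nat_lit 0) (XT.lf (nat_lit 0) (nat_lit 351396916545) (nat_lit 152) (nat_lit 1594325461919) (nat_lit 0) (nat_lit 350296000819) (nat_lit 1) (nat_lit 5) (nat_lit 3) (nat_lit 4) (nat_lit 1) (nat_lit 4) (nat_lit 337) (nat_lit 207) (nat_lit 176)) (XT.lf (nat_lit 0) (nat_lit 379994817029) (nat_lit 152) (nat_lit 1720771991215) (nat_lit 0) (nat_lit 378885637011) (nat_lit 1) (nat_lit 5) (nat_lit 3) (nat_lit 4) (nat_lit 1) (nat_lit 4) (nat_lit 338) (nat_lit 207) (nat_lit 175)))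 (XT.nd (nat_lit 78) (nat_lit 0) (nat_lit 0) (XT.lf (nat_lit 0) (nat_lit 410874046902) (nat_lit 152) (nat_lit 1857346503447) (nat_lit 0) (nat_lit 409757214760) (nat_lit 1) (nat_lit 5) (nat_lit 3) (nat_lit 4) (nat_lit 1) (nat_lit 4) (nat_lit 339) (nat_lit 207) (nat_lit 174)) (XT.lf (nat_lit 0) (nat_lit 444217594193) (nat_lit 152) (nat_lit 2004858329058) (nat_lit 0) (nat_lit 443093676751) (nat_lit 1) (nat_lit 5) (nat_lit 3) (nat_lit 4) (nat_lit 1) (nat_lit 4) (nat_lit 340) (nat_lit 207) (nat_lit 173))))))))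
noncomputable def xc7 : XT := (XT.nd (nat_lit 36504) (nat_lit 0) (nat_lit 0) (XT.nd (nat_lit 35490) (nat_lit 0) (nat_lit 0) (XT.nd (nat_lit 34944) (nat_lit 0) (nat_lit 0) (XT.nd (nat_lit 34710) (nat_lit 0) (nat_lit 0) (XT.nd (nat_lit 78) (nat_lit 0) (nat_lit 0) (XT.lf (nat_lit 0) (nat_lit 480223050292) (nat_lit 152) (nat_lit 2164181612200) (nat_lit 0) (nat_lit 479092572388) (nat_lit 1) (nat_lit 5) (nat_lit 3) (nat_lit 4) (nat_lit 1) (nat_lit 4) (nat_lit 341) (nat_lit 207) (nat_lit 172)) (XT.nd (nat_lit 34554) (nat_lit 0) (nat_lit 0) (XT.lf (nat_lit 0) (nat_lit 519103780865) (nat_lit 152) (nat_lit 2336260490847) (nat_lit 0) (nat_lit 517967228459) (nat_lit 1) (nat_lit 5) (nat_lit 3) (nat_lit 4) (nat_lit 1) (nat_lit 4) (nat_lit 342) (nat_lit 207) (nat_lit 171)) (XT.lf (nat_lit 0) (nat_lit 8046932036) (nat_lit 152) (nat_lit 74993292500) (nat_lit 0) (nat_lit 8046932036) (nat_lit 1) (nat_lit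 5) (nat_lit 3) (nat_lit 4) (nat_lit 1) (nat_lit 4) (nat_lit 304) (nat_lit 208) (nat_lit 208)))) (XT.nd (nat_lit 78) (nat_lit 0) (nat_lit 0) (XT.lf (nat_lit 0) (nat_lit 18841952453) (nat_lit 152) (nat_lit 159034104479) (nat_lit 0) (nat_lit 18744953759) (nat_lit 1) (nat_lit 5) (nat_lit 3) (nat_lit 4) (nat_lit 1) (nat_lit 4) (nat_lit 305) (nat_lit 208) (nat_lit 207)) (XT.nd (nat_lit 78) (nat_lit 0) (nat_lit 0) (XT.lf (nat_lit 0) (nat_lit 21733565759) (nat_lit 152) (nat_lit 168949329107) (nat_lit 0) (nat_lit 21546753458) (nat_lit 1) (nat_lit 5) (nat_lit 3) (nat_lit 4) (nat_lit 1) (nat_lit 4) (nat_lit 306) (nat_lit 208) (nat_lit 206)) (XT.lf (nat_lit 0) (nat_lit 24785839476) (nat_lit 152) (nat_lit 179791015773) (nat_lit 0) (nat_lit 24515866429) (nat_lit 1) (nat_lit 5) (nat_lit 3) (nat_lit 4) (nat_lit 1) (nat_lit 4) (nat_lit 307) (nat_lit 208) (nat_lit 205))))) (XT.nd (nat_lit 234) (nat_lit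 0) (nat_lit 0) (XT.nd (nat_lit 78) (nat_lit 0) (nat_lit 0) (XT.lf (nat_lit 0) (nat_lit 28016861153) (nat_lit 152) (nat_lit 191623411507) (nat_lit 0) (nat_lit 27669887414) (nat_lit 1) (nat_lit 5) (nat_lit 3) (nat_lit 4) (nat_lit 1) (nat_lit 4) (nat_lit 308) (nat_lit 208) (nat_lit 204)) (XT.nd (nat_lit 78) (nat_lit 0) (nat_lit 0) (XT.lf (nat_lit 0) (nat_lit 31445777584) (nat_lit 152) (nat_lit 204516634212) (nat_lit 0) (nat_lit 31027506909) (nat_lit 1) (nat_lit 5) (nat_lit 3) (nat_lit 4) (nat_lit 1) (nat_lit 4) (nat_lit 309) (nat_lit 208) (nat_lit 203)) (XT.lf (nat_lit 0) (nat_lit 35092908274) (nat_lit 152) (nat_lit 218547088168) (nat_lit 0) (nat_lit 34608621918) (nat_lit 1) (nat_lit 5) (nat_lit 3) (nat_lit 4) (nat_lit 1) (nat_lit 4) (nat_lit 310) (nat_lit 208) (nat_lit 202)))) (XT.nd (nat_lit 156) (nat_lit 0) (nat_lit 0) (XT.nd (nat_lit 78) (nat_lit 0) (nat_lit 0) (XT.lf (nat_lit 0)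 (nat_lit 38979865850) (nat_lit 152) (nat_lit 233797916807) (nat_lit 0) (nat_lit 38434453862) (nat_lit 1) (nat_lit 5) (nat_lit 3) (nat_lit 4) (nat_lit 1) (nat_lit 4) (nat_lit 311) (nat_lit 208) (nat_lit 201)) (XT.lf (nat_lit 0) (nat_lit 43129684134) (nat_lit 152) (nat_lit 250359495411) (nat_lit 0) (nat_lit 42527674340) (nat_lit 1) (nat_lit 5) (nat_lit 3) (nat_lit 4) (nat_lit 1) (nat_lit 4) (nat_lit 312) (nat_lit 208) (nat_lit 200))) (XT.nd (nat_lit 78) (nat_lit 0) (nat_lit 0) (XT.lf (nat_lit 0) (nat_lit 47566954642) (nat_lit 152) (nat_lit 268329966666) (nat_lit 0) (nat_lit 46912539471) (nat_lit 1) (nat_lit 5) (nat_lit 3) (nat_lit 4) (nat_lit 1) (nat_lit 4) (nat_lit 313) (nat_lit 208) (nat_lit 199)) (XT.lf (nat_lit 0) (nat_lit 52317972310) (nat_lit 152) (nat_lit 287815822255) (nat_lit 0) (nat_lit 51615033643) (nat_lit 1) (nat_lit 5) (nat_lit 3) (nat_lit 4) (nat_lit 1) (nat_lit 4) (nat_lit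 314) (nat_lit 208) (nat_lit 198)))))) (XT.nd (nat_lit 468) (nat_lit 0) (nat_lit 0) (XT.nd (nat_lit 234) (nat_lit 0) (nat_lit 0) (XT.nd (nat_lit 78) (nat_lit 0) (nat_lit 0) (XT.lf (nat_lit 0) (nat_lit 57410891318) (nat_lit 152) (nat_lit 308932533914) (nat_lit 0) (nat_lit 56663023487) (nat_lit 1) (nat_lit 5) (nat_lit 3) (nat_lit 4) (nat_lit 1) (nat_lit 4) (nat_lit 315) (nat_lit 208) (nat_lit 197)) (XT.nd (nat_lit 78) (nat_lit 0) (nat_lit 0) (XT.lf (nat_lit 0) (nat_lit 62875891926) (nat_lit 152) (nat_lit 331805237713) (nat_lit 0) (nat_lit 62086423017) (nat_lit 1) (nat_lit 5) (nat_lit 3) (nat_lit 4) (nat_lit 1) (nat_lit 4) (nat_lit 316) (nat_lit 208) (nat_lit 196)) (XT.lf (nat_lit 0) (nat_lit 68745359322) (nat_lit 152) (nat_lit 356569475599) (nat_lit 0) (nat_lit 67917370897) (nat_lit 1) (nat_lit 5) (nat_lit 3) (nat_lit 4) (nat_lit 1) (nat_lit 4) (nat_lit 317) (nat_lit 208) (nat_lit 195))))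 (XT.nd (nat_lit 78) (nat_lit 0) (nat_lit 0) (XT.lf (nat_lit 0) (nat_lit 75054075536) (nat_lit 152) (nat_lit 383371998613) (nat_lit 0) (nat_lit 74190420892) (nat_lit 1) (nat_lit 5) (nat_lit 3) (nat_lit 4) (nat_lit 1) (nat_lit 4) (nat_lit 318) (nat_lit 208) (nat_lit 194)) (XT.nd (nat_lit 78) (nat_lit 0) (nat_lit 0) (XT.lf (nat_lit 0) (nat_lit 81839425553) (nat_lit 152) (nat_lit 412371636519) (nat_lit 0) (nat_lit 80942746632) (nat_lit 1) (nat_lit 5) (nat_lit 3) (nat_lit 4) (nat_lit 1) (nat_lit 4) (nat_lit 319) (nat_lit 208) (nat_lit 193)) (XT.lf (nat_lit 0) (nat_lit 89141618854) (nat_lit 152) (nat_lit 443740239025) (nat_lit 0) (nat_lit 88214361899) (nat_lit 1) (nat_lit 5) (nat_lit 3) (nat_lit 4) (nat_lit 1) (nat_lit 4) (nat_lit 320) (nat_lit 208) (nat_lit 192))))) (XT.nd (nat_lit 234) (nat_lit 0) (nat_lit 0) (XT.nd (nat_lit 78) (nat_lit 0) (nat_lit 0) (XT.lf (nat_lit 0) (nat_lit 97003927695)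 (nat_lit 152) (nat_lit 477663694145) (nat_lit 0) (nat_lit 96048357747) (nat_lit 1) (nat_lit 5) (nat_lit 3) (nat_lit 4) (nat_lit 1) (nat_lit 4) (nat_lit 321) (nat_lit 208) (nat_lit 191)) (XT.nd (nat_lit 78) (nat_lit 0) (nat_lit 0) (XT.lf (nat_lit 0) (nat_lit 105472943538) (nat_lit 152) (nat_lit 514343029762) (nat_lit 0) (nat_lit 104491157854) (nat_lit 1) (nat_lit 5) (nat_lit 3) (nat_lit 4) (nat_lit 1) (nat_lit 4) (nat_lit 322) (nat_lit 208) (nat_lit 190)) (XT.lf (nat_lit 0) (nat_lit 114598853142) (nat_lit 152) (nat_lit 553995604901) (nat_lit 0) (nat_lit 113592793628) (nat_lit 1) (nat_lit 5) (nat_lit 3) (nat_lit 4) (nat_lit 1) (nat_lit 4) (nat_lit 323) (nat_lit 208) (nat_lit 189)))) (XT.nd (nat_lit 156) (nat_lit 0) (nat_lit 0) (XT.nd (nat_lit 78) (nat_lit 0) (nat_lit 0) (XT.lf (nat_lit 0) (nat_lit 124435735971) (nat_lit 152) (nat_lit 596856397784) (nat_lit 0) (nat_lit 123407200690) (nat_lit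 1) (nat_lit 5) (nat_lit 3) (nat_lit 4) (nat_lit 1) (nat_lit 4) (nat_lit 324) (nat_lit 208) (nat_lit 188)) (XT.lf (nat_lit 0) (nat_lit 135041884665) (nat_lit 152) (nat_lit 643179398297) (nat_lit 0) (nat_lit 133992538488) (nat_lit 1) (nat_lit 5) (nat_lit 3) (nat_lit 4) (nat_lit 1) (nat_lit 4) (nat_lit 325) (nat_lit 208) (nat_lit 187))) (XT.nd (nat_lit 78) (nat_lit 0) (nat_lit 0) (XT.lf (nat_lit 0) (nat_lit 146480150474) (nat_lit 152) (nat_lit 693239113109) (nat_lit 0) (nat_lit 145411534949) (nat_lit 1) (nat_lit 5) (nat_lit 3) (nat_lit 4) (nat_lit 1) (nat_lit 4) (nat_lit 326) (nat_lit 208) (nat_lit 186)) (XT.lf (nat_lit 0) (nat_lit 158818315716) (nat_lit 152) (nat_lit 747332192381) (nat_lit 0) (nat_lit 157731858202) (nat_lit 1) (nat_lit 5) (nat_lit 3) (nat_lit 4) (nat_lit 1) (nat_lit 4) (nat_lit 327) (nat_lit 208) (nat_lit 185))))))) (XT.nd (nat_lit 1014) (nat_lit 0) (nat_lit 0) (XT.nd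 (nat_lit 468) (nat_lit 0) (nat_lit 0) (XT.nd (nat_lit 234) (nat_lit 0) (nat_lit 0) (XT.nd (nat_lit 78) (nat_lit 0) (nat_lit 0) (XT.lf (nat_lit 0) (nat_lit 172129495443) (nat_lit 152) (nat_lit 805779187694) (nat_lit 0) (nat_lit 171026517569) (nat_lit 1) (nat_lit 5) (nat_lit 3) (nat_lit 4) (nat_lit 1) (nat_lit 4) (nat_lit 328) (nat_lit 208) (nat_lit 184)) (XT.nd (nat_lit 78) (nat_lit 0) (nat_lit 0) (XT.lf (nat_lit 0) (nat_lit 186492570721) (nat_lit 152) (nat_lit 868926451614) (nat_lit 0) (nat_lit 185374296216) (nat_lit 1) (nat_lit 5) (nat_lit 3) (nat_lit 4) (nat_lit 1) (nat_lit 4) (nat_lit 329) (nat_lit 208) (nat_lit 183)) (XT.lf (nat_lit 0) (nat_lit 201992656069) (nat_lit 152) (nat_lit 937148190148) (nat_lit 0) (nat_lit 200860218018) (nat_lit 1) (nat_lit 5) (nat_lit 3) (nat_lit 4) (nat_lit 1) (nat_lit 4) (nat_lit 330) (nat_lit 208) (nat_lit 182)))) (XT.nd (nat_lit 78) (nat_lit 0) (nat_lit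 0) (XT.lf (nat_lit 0) (nat_lit 218721603844) (nat_lit 152) (nat_lit 1010848680267) (nat_lit 0) (nat_lit 217576051399) (nat_lit 1) (nat_lit 5) (nat_lit 3) (nat_lit 4) (nat_lit 1) (nat_lit 4) (nat_lit 331) (nat_lit 208) (nat_lit 181)) (XT.nd (nat_lit 78) (nat_lit 0) (nat_lit 0) (XT.lf (nat_lit 0) (nat_lit 236778548554) (nat_lit 152) (nat_lit 1090464665614) (nat_lit 0) (nat_lit 235620853150) (nat_lit 1) (nat_lit 5) (nat_lit 3) (nat_lit 4) (nat_lit 1) (nat_lit 4) (nat_lit 332) (nat_lit 208) (nat_lit 180)) (XT.lf (nat_lit 0) (nat_lit 256270494313) (nat_lit 152) (nat_lit 1176467944621) (nat_lit 0) (nat_lit 255101555430) (nat_lit 1) (nat_lit 5) (nat_lit 3) (nat_lit 4) (nat_lit 1) (nat_lit 4) (nat_lit 333) (nat_lit 208) (nat_lit 179))))) (XT.nd (nat_lit 234) (nat_lit 0) (nat_lit 0) (XT.nd (nat_lit 78) (nat_lit 0) (nat_lit 0) (XT.lf (nat_lit 0) (nat_lit 277312948950) (nat_lit 152) (nat_lit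 1269368166350) (nat_lit 0) (nat_lit 276133599438) (nat_lit 1) (nat_lit 5) (nat_lit 3) (nat_lit 4) (nat_lit 1) (nat_lit 4) (nat_lit 334) (nat_lit 208) (nat_lit 178)) (XT.nd (nat_lit 78) (nat_lit 0) (nat_lit 0) (XT.lf (nat_lit 0) (nat_lit 300030608490) (nat_lit 152) (nat_lit 1369715850633) (nat_lit 0) (nat_lit 298841619507) (nat_lit 1) (nat_lit 5) (nat_lit 3) (nat_lit 4) (nat_lit 1) (nat_lit 4) (nat_lit 335) (nat_lit 208) (nat_lit 177)) (XT.lf (nat_lit 0) (nat_lit 324558096103) (nat_lit 152) (nat_lit 1478105650414) (nat_lit 0) (nat_lit 323360181683) (nat_lit 1) (nat_lit 5) (nat_lit 3) (nat_lit 4) (nat_lit 1) (nat_lit 4) (nat_lit 336) (nat_lit 208) (nat_lit 176)))) (XT.nd (nat_lit 156) (nat_lit 0) (nat_lit 0) (XT.nd (nat_lit 78) (nat_lit 0) (nat_lit 0) (XT.lf (nat_lit 0) (nat_lit 351040759863) (nat_lit 152) (nat_lit 1595179875616) (nat_lit 0) (nat_lit 349834581150) (nat_lit 1) (nat_lit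 5) (nat_lit 3) (nat_lit 4) (nat_lit 1) (nat_lit 4) (nat_lit 337) (nat_lit 208) (nat_lit 175)) (XT.lf (nat_lit 0) (nat_lit 379635534073) (nat_lit 152) (nat_lit 1721632299428) (nat_lit 0) (nat_lit 378421703237) (nat_lit 1) (nat_lit 5) (nat_lit 3) (nat_lit 4) (nat_lit 1) (nat_lit 4) (nat_lit 338) (nat_lit 208) (nat_lit 174))) (XT.nd (nat_lit 78) (nat_lit 0) (nat_lit 0) (XT.lf (nat_lit 0) (nat_lit 410511869248) (nat_lit 152) (nat_lit 1858212269545) (nat_lit 0) (nat_lit 409290953112) (nat_lit 1) (nat_lit 5) (nat_lit 3) (nat_lit 4) (nat_lit 1) (nat_lit 4) (nat_lit 339) (nat_lit 208) (nat_lit 173)) (XT.lf (nat_lit 0) (nat_lit 443852736262) (nat_lit 152) (nat_lit 2005729148753) (nat_lit 0) (nat_lit 442625259664) (nat_lit 1) (nat_lit 5) (nat_lit 3) (nat_lit 4) (nat_lit 1) (nat_lit 4) (nat_lit 340) (nat_lit 208) (nat_lit 172)))))) (XT.nd (nat_lit 34788) (nat_lit 0) (nat_lit 0) (XT.nd (nat_lit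 34554) (nat_lit 0) (nat_lit 0) (XT.nd (nat_lit 78) (nat_lit 0) (nat_lit 0) (XT.lf (nat_lit 0) (nat_lit 479855710624) (nat_lit 152) (nat_lit 2165057111152) (nat_lit 0) (nat_lit 478622159523) (nat_lit 1) (nat_lit 5) (nat_lit 3) (nat_lit 4) (nat_lit 1) (nat_lit 4) (nat_lit 341) (nat_lit 208) (nat_lit 171)) (XT.nd (nat_lit 34398) (nat_lit 0) (nat_lit 0) (XT.lf (nat_lit 0) (nat_lit 518734143293) (nat_lit 152) (nat_lit 2337140322444) (nat_lit 0) (nat_lit 517494967653) (nat_lit 1) (nat_lit 5) (nat_lit 3) (nat_lit 4) (nat_lit 1) (nat_lit 4) (nat_lit 342) (nat_lit 208) (nat_lit 170)) (XT.lf (nat_lit 0) (nat_lit 5555716965) (nat_lit 152) (nat_lit 67102164652) (nat_lit 0) (nat_lit 5555716965) (nat_lit 1) (nat_lit 5) (nat_lit 3) (nat_lit 4) (nat_lit 1) (nat_lit 4) (nat_lit 302) (nat_lit 209) (nat_lit 209)))) (XT.nd (nat_lit 78) (nat_lit 0) (nat_lit 0) (XT.lf (nat_lit 0) (nat_lit 13577774239) (nat_lit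 152) (nat_lit 141753155741) (nat_lit 0) (nat_lit 13473015649) (nat_lit 1) (nat_lit 5) (nat_lit 3) (nat_lit 4) (nat_lit 1) (nat_lit 4) (nat_lit 303) (nat_lit 209) (nat_lit 208)) (XT.nd (nat_lit 78) (nat_lit 0) (nat_lit 0) (XT.lf (nat_lit 0) (nat_lit 16158993857) (nat_lit 152) (nat_lit 150061304173) (nat_lit 0) (nat_lit 15957236572) (nat_lit 1) (nat_lit 5) (nat_lit 3) (nat_lit 4) (nat_lit 1) (nat_lit 4) (nat_lit 304) (nat_lit 209) (nat_lit 207)) (XT.lf (nat_lit 0) (nat_lit 18870388898) (nat_lit 152) (nat_lit 159178008070) (nat_lit 0) (nat_lit 18578818007) (nat_lit 1) (nat_lit 5) (nat_lit 3) (nat_lit 4) (nat_lit 1) (nat_lit 4) (nat_lit 305) (nat_lit 209) (nat_lit 206))))) (XT.nd (nat_lit 234) (nat_lit 0) (nat_lit 0) (XT.nd (nat_lit 78) (nat_lit 0) (nat_lit 0) (XT.lf (nat_lit 0) (nat_lit 21728026890) (nat_lit 152) (nat_lit 169157292347) (nat_lit 0) (nat_lit 21353295253) (nat_lit 1) (nat_lit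 5) (nat_lit 3) (nat_lit 4) (nat_lit 1) (nat_lit 4) (nat_lit 306) (nat_lit 209) (nat_lit 205)) (XT.nd (nat_lit 78) (nat_lit 0) (nat_lit 0) (XT.lf (nat_lit 0) (nat_lit 24748841983) (nat_lit 152) (nat_lit 180058293501) (nat_lit 0) (nat_lit 24297109654) (nat_lit 1) (nat_lit 5) (nat_lit 3) (nat_lit 4) (nat_lit 1) (nat_lit 4) (nat_lit 307) (nat_lit 209) (nat_lit 204)) (XT.lf (nat_lit 0) (nat_lit 27950735304) (nat_lit 152) (nat_lit 191945610058) (nat_lit 0) (nat_lit 27427706039) (nat_lit 1) (nat_lit 5) (nat_lit 3) (nat_lit 4) (nat_lit 1) (nat_lit 4) (nat_lit 308) (nat_lit 209) (nat_lit 203)))) (XT.nd (nat_lit 156) (nat_lit 0) (nat_lit 0) (XT.nd (nat_lit 78) (nat_lit 0) (nat_lit 0) (XT.lf (nat_lit 0) (nat_lit 31352681035) (nat_lit 152) (nat_lit 204889685375) (nat_lit 0) (nat_lit 30763636089) (nat_lit 1) (nat_lit 5) (nat_lit 3) (nat_lit 4) (nat_lit 1) (nat_lit 4) (nat_lit 309) (nat_lit 209)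 (nat_lit 202)) (XT.lf (nat_lit 0) (nat_lit 34974838856) (nat_lit 152) (nat_lit 218967225085) (nat_lit 0) (nat_lit 34324668278) (nat_lit 1) (nat_lit 5) (nat_lit 3) (nat_lit 4) (nat_lit 1) (nat_lit 4) (nat_lit 310) (nat_lit 209) (nat_lit 201))) (XT.nd (nat_lit 78) (nat_lit 0) (nat_lit 0) (XT.lf (nat_lit 0) (nat_lit 38838673404) (nat_lit 152) (nat_lit 234261651644) (nat_lit 0) (nat_lit 38131905019) (nat_lit 1) (nat_lit 5) (nat_lit 3) (nat_lit 4) (nat_lit 1) (nat_lit 4) (nat_lit 311) (nat_lit 209) (nat_lit 200)) (XT.lf (nat_lit 0) (nat_lit 42967081477) (nat_lit 152) (nat_lit 250863598691) (nat_lit 0) (nat_lit 42207907716) (nat_lit 1) (nat_lit 5) (nat_lit 3) (nat_lit 4) (nat_lit 1) (nat_lit 4) (nat_lit 312) (nat_lit 209) (nat_lit 199))))))))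
noncomputable def xc8 : XT := (XT.nd (nat_lit 1950) (nat_lit 0) (nat_lit 0) (XT.nd (nat_lit 936) (nat_lit 0) (nat_lit 0) (XT.nd (nat_lit 468) (nat_lit 0) (nat_lit 0) (XT.nd (nat_lit 234) (nat_lit 0) (nat_lit 0) (XT.nd (nat_lit 78) (nat_lit 0) (nat_lit 0) (XT.lf (nat_lit 0) (nat_lit 47384527716) (nat_lit 152) (nat_lit 268871448136) (nat_lit 0) (nat_lit 46576830458) (nat_lit 1) (nat_lit 5) (nat_lit 3) (nat_lit 4) (nat_lit 1) (nat_lit 4) (nat_lit 313) (nat_lit 209) (nat_lit 198)) (XT.nd (nat_lit 78) (nat_lit 0) (nat_lit 0) (XT.lf (nat_lit 0) (nat_lit 52117189579) (nat_lit 152) (nat_lit 288391913159) (nat_lit 0) (nat_lit 51264563158) (nat_lit 1) (nat_lit 5) (nat_lit 3) (nat_lit 4) (nat_lit 1) (nat_lit 4) (nat_lit 314) (nat_lit 209) (nat_lit 197)) (XT.lf (nat_lit 0) (nat_lit 57193112471) (nat_lit 152) (nat_lit 309540670590) (nat_lit 0) (nat_lit 56298884972) (nat_lit 1) (nat_lit 5) (nat_lit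 3) (nat_lit 4) (nat_lit 1) (nat_lit 4) (nat_lit 315) (nat_lit 209) (nat_lit 196)))) (XT.nd (nat_lit 78) (nat_lit 0) (nat_lit 0) (XT.lf (nat_lit 0) (nat_lit 62642375934) (nat_lit 152) (nat_lit 332443046400) (nat_lit 0) (nat_lit 61709628919) (nat_lit 1) (nat_lit 5) (nat_lit 3) (nat_lit 4) (nat_lit 1) (nat_lit 4) (nat_lit 316) (nat_lit 209) (nat_lit 195)) (XT.nd (nat_lit 78) (nat_lit 0) (nat_lit 0) (XT.lf (nat_lit 0) (nat_lit 68497271901) (nat_lit 152) (nat_lit 357234758371) (nat_lit 0) (nat_lit 67528858667) (nat_lit 1) (nat_lit 5) (nat_lit 3) (nat_lit 4) (nat_lit 1) (nat_lit 4) (nat_lit 317) (nat_lit 209) (nat_lit 194)) (XT.lf (nat_lit 0) (nat_lit 74792496050) (nat_lit 152) (nat_lit 384062720352) (nat_lit 0) (nat_lit 73791058540) (nat_lit 1) (nat_lit 5) (nat_lit 3) (nat_lit 4) (nat_lit 1) (nat_lit 4) (nat_lit 318) (nat_lit 209) (nat_lit 193))))) (XT.nd (nat_lit 234) (nat_lit 0) (nat_lit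 0) (XT.nd (nat_lit 78) (nat_lit 0) (nat_lit 0) (XT.lf (nat_lit 0) (nat_lit 81565353415) (nat_lit 152) (nat_lit 413085912858) (nat_lit 0) (nat_lit 80533337870) (nat_lit 1) (nat_lit 5) (nat_lit 3) (nat_lit 4) (nat_lit 1) (nat_lit 4) (nat_lit 319) (nat_lit 209) (nat_lit 192)) (XT.nd (nat_lit 78) (nat_lit 0) (nat_lit 0) (XT.lf (nat_lit 0) (nat_lit 88855979445) (nat_lit 152) (nat_lit 444476325179) (nat_lit 0) (nat_lit 87795650906) (nat_lit 1) (nat_lit 5) (nat_lit 3) (nat_lit 4) (nat_lit 1) (nat_lit 4) (nat_lit 320) (nat_lit 209) (nat_lit 191)) (XT.lf (nat_lit 0) (nat_lit 96707577851) (nat_lit 152) (nat_lit 478419974571) (nat_lit 0) (nat_lit 95621033576) (nat_lit 1) (nat_lit 5) (nat_lit 3) (nat_lit 4) (nat_lit 1) (nat_lit 4) (nat_lit 321) (nat_lit 209) (nat_lit 190)))) (XT.nd (nat_lit 78) (nat_lit 0) (nat_lit 0) (XT.lf (nat_lit 0) (nat_lit 105166676623) (nat_lit 152) (nat_lit 515118008588)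 (nat_lit 0) (nat_lit 104055858519) (nat_lit 1) (nat_lit 5) (nat_lit 3) (nat_lit 4) (nat_lit 1) (nat_lit 4) (nat_lit 322) (nat_lit 209) (nat_lit 189)) (XT.nd (nat_lit 78) (nat_lit 0) (nat_lit 0) (XT.lf (nat_lit 0) (nat_lit 114283403754) (nat_lit 152) (nat_lit 554787897060) (nat_lit 0) (nat_lit 113150109883) (nat_lit 1) (nat_lit 5) (nat_lit 3) (nat_lit 4) (nat_lit 1) (nat_lit 4) (nat_lit 323) (nat_lit 209) (nat_lit 188)) (XT.lf (nat_lit 0) (nat_lit 124111784294) (nat_lit 152) (nat_lit 597664720809) (nat_lit 0) (nat_lit 122957679527) (nat_lit 1) (nat_lit 5) (nat_lit 3) (nat_lit 4) (nat_lit 1) (nat_lit 4) (nat_lit 324) (nat_lit 209) (nat_lit 187)))))) (XT.nd (nat_lit 468) (nat_lit 0) (nat_lit 0) (XT.nd (nat_lit 234) (nat_lit 0) (nat_lit 0) (XT.nd (nat_lit 78) (nat_lit 0) (nat_lit 0) (XT.lf (nat_lit 0) (nat_lit 134710060498) (nat_lit 152) (nat_lit 644002564715) (nat_lit 0) (nat_lit 133536686382)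 (nat_lit 1) (nat_lit 5) (nat_lit 3) (nat_lit 4) (nat_lit 1) (nat_lit 4) (nat_lit 325) (nat_lit 209) (nat_lit 186)) (XT.nd (nat_lit 78) (nat_lit 0) (nat_lit 0) (XT.lf (nat_lit 0) (nat_lit 146141036965) (nat_lit 152) (nat_lit 694076023409) (nat_lit 0) (nat_lit 144949820860) (nat_lit 1) (nat_lit 5) (nat_lit 3) (nat_lit 4) (nat_lit 1) (nat_lit 4) (nat_lit 326) (nat_lit 209) (nat_lit 185)) (XT.lf (nat_lit 0) (nat_lit 158472452815) (nat_lit 152) (nat_lit 748181828498) (nat_lit 0) (nat_lit 157264716350) (nat_lit 1) (nat_lit 5) (nat_lit 3) (nat_lit 4) (nat_lit 1) (nat_lit 4) (nat_lit 327) (nat_lit 209) (nat_lit 184)))) (XT.nd (nat_lit 78) (nat_lit 0) (nat_lit 0) (XT.lf (nat_lit 0) (nat_lit 171777383106) (nat_lit 152) (nat_lit 806640606976) (nat_lit 0) (nat_lit 170554350011) (nat_lit 1) (nat_lit 5) (nat_lit 3) (nat_lit 4) (nat_lit 1) (nat_lit 4) (nat_lit 328) (nat_lit 209) (nat_lit 183)) (XT.nd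 (nat_lit 78) (nat_lit 0) (nat_lit 0) (XT.lf (nat_lit 0) (nat_lit 186134671868) (nat_lit 152) (nat_lit 869798781232) (nat_lit 0) (nat_lit 184897475227) (nat_lit 1) (nat_lit 5) (nat_lit 3) (nat_lit 4) (nat_lit 1) (nat_lit 4) (nat_lit 329) (nat_lit 209) (nat_lit 182)) (XT.lf (nat_lit 0) (nat_lit 201629399331) (nat_lit 152) (nat_lit 938030621931) (nat_lit 0) (nat_lit 200379088296) (nat_lit 1) (nat_lit 5) (nat_lit 3) (nat_lit 4) (nat_lit 1) (nat_lit 4) (nat_lit 330) (nat_lit 209) (nat_lit 181))))) (XT.nd (nat_lit 234) (nat_lit 0) (nat_lit 0) (XT.nd (nat_lit 78) (nat_lit 0) (nat_lit 0) (XT.lf (nat_lit 0) (nat_lit 218353386103) (nat_lit 152) (nat_lit 1011740465904) (nat_lit 0) (nat_lit 217090932109) (nat_lit 1) (nat_lit 5) (nat_lit 3) (nat_lit 4) (nat_lit 1) (nat_lit 4) (nat_lit 331) (nat_lit 209) (nat_lit 180)) (XT.nd (nat_lit 78) (nat_lit 0) (nat_lit 0) (XT.lf (nat_lit 0) (nat_lit 236405737290)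 (nat_lit 152) (nat_lit 1091365112229) (nat_lit 0) (nat_lit 235132039817) (nat_lit 1) (nat_lit 5) (nat_lit 3) (nat_lit 4) (nat_lit 1) (nat_lit 4) (nat_lit 332) (nat_lit 209) (nat_lit 179)) (XT.lf (nat_lit 0) (nat_lit 255893429788) (nat_lit 152) (nat_lit 1177376410660) (nat_lit 0) (nat_lit 254609321686) (nat_lit 1) (nat_lit 5) (nat_lit 3) (nat_lit 4) (nat_lit 1) (nat_lit 4) (nat_lit 333) (nat_lit 209) (nat_lit 178)))) (XT.nd (nat_lit 156) (nat_lit 0) (nat_lit 0) (XT.nd (nat_lit 78) (nat_lit 0) (nat_lit 0) (XT.lf (nat_lit 0) (nat_lit 276931946219) (nat_lit 152) (nat_lit 1270284057781) (nat_lit 0) (nat_lit 275638198645) (nat_lit 1) (nat_lit 5) (nat_lit 3) (nat_lit 4) (nat_lit 1) (nat_lit 4) (nat_lit 334) (nat_lit 209) (nat_lit 177)) (XT.lf (nat_lit 0) (nat_lit 299645959274) (nat_lit 152) (nat_lit 1370638617427) (nat_lit 0) (nat_lit 298343286264) (nat_lit 1) (nat_lit 5) (nat_lit 3) (nat_lit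 4) (nat_lit 1) (nat_lit 4) (nat_lit 335) (nat_lit 209) (nat_lit 176))) (XT.nd (nat_lit 78) (nat_lit 0) (nat_lit 0) (XT.lf (nat_lit 0) (nat_lit 324170070511) (nat_lit 152) (nat_lit 1479034783284) (nat_lit 0) (nat_lit 322859133207) (nat_lit 1) (nat_lit 5) (nat_lit 3) (nat_lit 4) (nat_lit 1) (nat_lit 4) (nat_lit 336) (nat_lit 209) (nat_lit 175)) (XT.lf (nat_lit 0) (nat_lit 350649607996) (nat_lit 152) (nat_lit 1596114903002) (nat_lit 0) (nat_lit 349331018569) (nat_lit 1) (nat_lit 5) (nat_lit 3) (nat_lit 4) (nat_lit 1) (nat_lit 4) (nat_lit 337) (nat_lit 209) (nat_lit 174))))))) (XT.nd (nat_lit 35178) (nat_lit 0) (nat_lit 0) (XT.nd (nat_lit 34632) (nat_lit 0) (nat_lit 0) (XT.nd (nat_lit 234) (nat_lit 0) (nat_lit 0) (XT.nd (nat_lit 78) (nat_lit 0) (nat_lit 0) (XT.lf (nat_lit 0) (nat_lit 379241487508) (nat_lit 152) (nat_lit 1722572784699) (nat_lit 0) (nat_lit 377915812782) (nat_lit 1) (nat_lit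 5) (nat_lit 3) (nat_lit 4) (nat_lit 1) (nat_lit 4) (nat_lit 338) (nat_lit 209) (nat_lit 173)) (XT.nd (nat_lit 78) (nat_lit 0) (nat_lit 0) (XT.lf (nat_lit 0) (nat_lit 410115142407) (nat_lit 152) (nat_lit 1859157808413) (nat_lit 0) (nat_lit 408782907218) (nat_lit 1) (nat_lit 5) (nat_lit 3) (nat_lit 4) (nat_lit 1) (nat_lit 4) (nat_lit 339) (nat_lit 209) (nat_lit 172)) (XT.lf (nat_lit 0) (nat_lit 443453527684) (nat_lit 152) (nat_lit 2006679366878) (nat_lit 0) (nat_lit 442115217993) (nat_lit 1) (nat_lit 5) (nat_lit 3) (nat_lit 4) (nat_lit 1) (nat_lit 4) (nat_lit 340) (nat_lit 209) (nat_lit 171)))) (XT.nd (nat_lit 78) (nat_lit 0) (nat_lit 0) (XT.lf (nat_lit 0) (nat_lit 479454204141) (nat_lit 152) (nat_lit 2166011661921) (nat_lit 0) (nat_lit 478110269911) (nat_lit 1) (nat_lit 5) (nat_lit 3) (nat_lit 4) (nat_lit 1) (nat_lit 4) (nat_lit 341) (nat_lit 209) (nat_lit 170)) (XT.nd (nat_lit 34242)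 (nat_lit 0) (nat_lit 0) (XT.lf (nat_lit 0) (nat_lit 518330509120) (nat_lit 152) (nat_lit 2338098884922) (nat_lit 0) (nat_lit 516981366984) (nat_lit 1) (nat_lit 5) (nat_lit 3) (nat_lit 4) (nat_lit 1) (nat_lit 4) (nat_lit 342) (nat_lit 209) (nat_lit 169)) (XT.lf (nat_lit 0) (nat_lit 3312443154) (nat_lit 152) (nat_lit 60561394710) (nat_lit 0) (nat_lit 3312443154) (nat_lit 1) (nat_lit 5) (nat_lit 3) (nat_lit 4) (nat_lit 1) (nat_lit 4) (nat_lit 300) (nat_lit 210) (nat_lit 210))))) (XT.nd (nat_lit 234) (nat_lit 0) (nat_lit 0) (XT.nd (nat_lit 78) (nat_lit 0) (nat_lit 0) (XT.lf (nat_lit 0) (nat_lit 8858496856) (nat_lit 152) (nat_lit 127370091075) (nat_lit 0) (nat_lit 8745357578) (nat_lit 1) (nat_lit 5) (nat_lit 3) (nat_lit 4) (nat_lit 1) (nat_lit 4) (nat_lit 301) (nat_lit 210) (nat_lit 209)) (XT.nd (nat_lit 78) (nat_lit 0) (nat_lit 0) (XT.lf (nat_lit 0) (nat_lit 11181774097) (nat_lit 152)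 (nat_lit 134285026011) (nat_lit 0) (nat_lit 10963876229) (nat_lit 1) (nat_lit 5) (nat_lit 3) (nat_lit 4) (nat_lit 1) (nat_lit 4) (nat_lit 302) (nat_lit 210) (nat_lit 208)) (XT.lf (nat_lit 0) (nat_lit 13608485600) (nat_lit 152) (nat_lit 141908571621) (nat_lit 0) (nat_lit 13293589038) (nat_lit 1) (nat_lit 5) (nat_lit 3) (nat_lit 4) (nat_lit 1) (nat_lit 4) (nat_lit 303) (nat_lit 210) (nat_lit 207)))) (XT.nd (nat_lit 156) (nat_lit 0) (nat_lit 0) (XT.nd (nat_lit 78) (nat_lit 0) (nat_lit 0) (XT.lf (nat_lit 0) (nat_lit 16153011878) (nat_lit 152) (nat_lit 150285904471) (nat_lit 0) (nat_lit 15748301710) (nat_lit 1) (nat_lit 5) (nat_lit 3) (nat_lit 4) (nat_lit 1) (nat_lit 4) (nat_lit 304) (nat_lit 210) (nat_lit 206)) (XT.lf (nat_lit 0) (nat_lit 18830431606) (nat_lit 152) (nat_lit 159466668016) (nat_lit 0) (nat_lit 18342560691) (nat_lit 1) (nat_lit 5) (nat_lit 3) (nat_lit 4) (nat_lit 1) (nat_lit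 4) (nat_lit 305) (nat_lit 210) (nat_lit 205))) (XT.nd (nat_lit 78) (nat_lit 0) (nat_lit 0) (XT.lf (nat_lit 0) (nat_lit 21656610974) (nat_lit 152) (nat_lit 169505266781) (nat_lit 0) (nat_lit 21091739367) (nat_lit 1) (nat_lit 5) (nat_lit 3) (nat_lit 4) (nat_lit 1) (nat_lit 4) (nat_lit 306) (nat_lit 210) (nat_lit 204)) (XT.lf (nat_lit 0) (nat_lit 24648297711) (nat_lit 152) (nat_lit 180461188757) (nat_lit 0) (nat_lit 24012129169) (nat_lit 1) (nat_lit 5) (nat_lit 3) (nat_lit 4) (nat_lit 1) (nat_lit 4) (nat_lit 307) (nat_lit 210) (nat_lit 203)))))) (XT.nd (nat_lit 468) (nat_lit 0) (nat_lit 0) (XT.nd (nat_lit 234) (nat_lit 0) (nat_lit 0) (XT.nd (nat_lit 78) (nat_lit 0) (nat_lit 0) (XT.lf (nat_lit 0) (nat_lit 27823220332) (nat_lit 152) (nat_lit 192399357928) (nat_lit 0) (nat_lit 27121036108) (nat_lit 1) (nat_lit 5) (nat_lit 3) (nat_lit 4) (nat_lit 1) (nat_lit 4) (nat_lit 308) (nat_lit 210)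 (nat_lit 202)) (XT.nd (nat_lit 78) (nat_lit 0) (nat_lit 0) (XT.lf (nat_lit 0) (nat_lit 31200193194) (nat_lit 152) (nat_lit 205390518998) (nat_lit 0) (nat_lit 30436883338) (nat_lit 1) (nat_lit 5) (nat_lit 3) (nat_lit 4) (nat_lit 1) (nat_lit 4) (nat_lit 309) (nat_lit 210) (nat_lit 201)) (XT.lf (nat_lit 0) (nat_lit 34799227986) (nat_lit 152) (nat_lit 219511656627) (nat_lit 0) (nat_lit 33979320324) (nat_lit 1) (nat_lit 5) (nat_lit 3) (nat_lit 4) (nat_lit 1) (nat_lit 4) (nat_lit 310) (nat_lit 210) (nat_lit 200)))) (XT.nd (nat_lit 78) (nat_lit 0) (nat_lit 0) (XT.lf (nat_lit 0) (nat_lit 38641652323) (nat_lit 152) (nat_lit 234846451631) (nat_lit 0) (nat_lit 37769339285) (nat_lit 1) (nat_lit 5) (nat_lit 3) (nat_lit 4) (nat_lit 1) (nat_lit 4) (nat_lit 311) (nat_lit 210) (nat_lit 199)) (XT.nd (nat_lit 78) (nat_lit 0) (nat_lit 0) (XT.lf (nat_lit 0) (nat_lit 42750236127) (nat_lit 152) (nat_lit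 251485776867) (nat_lit 0) (nat_lit 41829399592) (nat_lit 1) (nat_lit 5) (nat_lit 3) (nat_lit 4) (nat_lit 1) (nat_lit 4) (nat_lit 312) (nat_lit 210) (nat_lit 198)) (XT.lf (nat_lit 0) (nat_lit 47149326561) (nat_lit 152) (nat_lit 269528235746) (nat_lit 0) (nat_lit 46183560862) (nat_lit 1) (nat_lit 5) (nat_lit 3) (nat_lit 4) (nat_lit 1) (nat_lit 4) (nat_lit 313) (nat_lit 210) (nat_lit 197))))) (XT.nd (nat_lit 234) (nat_lit 0) (nat_lit 0) (XT.nd (nat_lit 78) (nat_lit 0) (nat_lit 0) (XT.lf (nat_lit 0) (nat_lit 51864992309) (nat_lit 152) (nat_lit 289080746541) (nat_lit 0) (nat_lit 50857625532) (nat_lit 1) (nat_lit 5) (nat_lit 3) (nat_lit 4) (nat_lit 1) (nat_lit 4) (nat_lit 314) (nat_lit 210) (nat_lit 196)) (XT.nd (nat_lit 78) (nat_lit 0) (nat_lit 0) (XT.lf (nat_lit 0) (nat_lit 56925178056) (nat_lit 152) (nat_lit 310259175984) (nat_lit 0) (nat_lit 55879291764) (nat_lit 1) (nat_lit 5) (nat_lit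 3) (nat_lit 4) (nat_lit 1) (nat_lit 4) (nat_lit 315) (nat_lit 210) (nat_lit 195)) (XT.lf (nat_lit 0) (nat_lit 62359870090) (nat_lit 152) (nat_lit 333189025879) (nat_lit 0) (nat_lit 61278317578) (nat_lit 1) (nat_lit 5) (nat_lit 3) (nat_lit 4) (nat_lit 1) (nat_lit 4) (nat_lit 316) (nat_lit 210) (nat_lit 194)))) (XT.nd (nat_lit 156) (nat_lit 0) (nat_lit 0) (XT.nd (nat_lit 78) (nat_lit 0) (nat_lit 0) (XT.lf (nat_lit 0) (nat_lit 68201273992) (nat_lit 152) (nat_lit 358006176817) (nat_lit 0) (nat_lit 67086697204) (nat_lit 1) (nat_lit 5) (nat_lit 3) (nat_lit 4) (nat_lit 1) (nat_lit 4) (nat_lit 317) (nat_lit 210) (nat_lit 193)) (XT.lf (nat_lit 0) (nat_lit 74484005489) (nat_lit 152) (nat_lit 384857693398) (nat_lit 0) (nat_lit 73338850667) (nat_lit 1) (nat_lit 5) (nat_lit 3) (nat_lit 4) (nat_lit 1) (nat_lit 4) (nat_lit 318) (nat_lit 210) (nat_lit 192))) (XT.nd (nat_lit 78) (nat_lit 0) (nat_lit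 0) (XT.lf (nat_lit 0) (nat_lit 81245295582) (nat_lit 152) (nat_lit 413902695718) (nat_lit 0) (nat_lit 80071827766) (nat_lit 1) (nat_lit 5) (nat_lit 3) (nat_lit 4) (nat_lit 1) (nat_lit 4) (nat_lit 319) (nat_lit 210) (nat_lit 191)) (XT.lf (nat_lit 0) (nat_lit 88525211176) (nat_lit 152) (nat_lit 445313302311) (nat_lit 0) (nat_lit 87325527625) (nat_lit 1) (nat_lit 5) (nat_lit 3) (nat_lit 4) (nat_lit 1) (nat_lit 4) (nat_lit 320) (nat_lit 210) (nat_lit 190))))))))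
noncomputable def xc9 : XT := (XT.nd (nat_lit 36036) (nat_lit 0) (nat_lit 0) (XT.nd (nat_lit 1014) (nat_lit 0) (nat_lit 0) (XT.nd (nat_lit 468) (nat_lit 0) (nat_lit 0) (XT.nd (nat_lit 234) (nat_lit 0) (nat_lit 0) (XT.nd (nat_lit 78) (nat_lit 0) (nat_lit 0) (XT.lf (nat_lit 0) (nat_lit 96366892512) (nat_lit 152) (nat_lit 479275650104) (nat_lit 0) (nat_lit 95142935131) (nat_lit 1) (nat_lit 5) (nat_lit 3) (nat_lit 4) (nat_lit 1) (nat_lit 4) (nat_lit 321) (nat_lit 210) (nat_lit 189)) (XT.nd (nat_lit 78) (nat_lit 0) (nat_lit 0) (XT.lf (nat_lit 0) (nat_lit 104816808812) (nat_lit 152) (nat_lit 515990997454) (nat_lit 0) (nat_lit 103570375663) (nat_lit 1) (nat_lit 5) (nat_lit 3) (nat_lit 4) (nat_lit 1) (nat_lit 4) (nat_lit 322) (nat_lit 210) (nat_lit 188)) (XT.lf (nat_lit 0) (nat_lit 113925033654) (nat_lit 152) (nat_lit 555676916791) (nat_lit 0) (nat_lit 112657789609) (nat_lit 1) (nat_lit 5)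 (nat_lit 3) (nat_lit 4) (nat_lit 1) (nat_lit 4) (nat_lit 323) (nat_lit 210) (nat_lit 187)))) (XT.nd (nat_lit 78) (nat_lit 0) (nat_lit 0) (XT.lf (nat_lit 0) (nat_lit 123745541704) (nat_lit 152) (nat_lit 598568583933) (nat_lit 0) (nat_lit 122459028311) (nat_lit 1) (nat_lit 5) (nat_lit 3) (nat_lit 4) (nat_lit 1) (nat_lit 4) (nat_lit 324) (nat_lit 210) (nat_lit 186)) (XT.nd (nat_lit 78) (nat_lit 0) (nat_lit 0) (XT.lf (nat_lit 0) (nat_lit 134336528565) (nat_lit 152) (nat_lit 644920171721) (nat_lit 0) (nat_lit 133032173183) (nat_lit 1) (nat_lit 5) (nat_lit 3) (nat_lit 4) (nat_lit 1) (nat_lit 4) (nat_lit 325) (nat_lit 210) (nat_lit 185)) (XT.lf (nat_lit 0) (nat_lit 145760755640) (nat_lit 152) (nat_lit 695006356232) (nat_lit 0) (nat_lit 144439879898) (nat_lit 1) (nat_lit 5) (nat_lit 3) (nat_lit 4) (nat_lit 1) (nat_lit 4) (nat_lit 326) (nat_lit 210) (nat_lit 184))))) (XT.nd (nat_lit 234) (nat_lit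 0) (nat_lit 0) (XT.nd (nat_lit 78) (nat_lit 0) (nat_lit 0) (XT.lf (nat_lit 0) (nat_lit 158085922054) (nat_lit 152) (nat_lit 749123944486) (nat_lit 0) (nat_lit 156749749682) (nat_lit 1) (nat_lit 5) (nat_lit 3) (nat_lit 4) (nat_lit 1) (nat_lit 4) (nat_lit 327) (nat_lit 210) (nat_lit 183)) (XT.nd (nat_lit 78) (nat_lit 0) (nat_lit 0) (XT.lf (nat_lit 0) (nat_lit 171385065830) (nat_lit 152) (nat_lit 807593633300) (nat_lit 0) (nat_lit 170034729911) (nat_lit 1) (nat_lit 5) (nat_lit 3) (nat_lit 4) (nat_lit 1) (nat_lit 4) (nat_lit 328) (nat_lit 210) (nat_lit 182)) (XT.lf (nat_lit 0) (nat_lit 185736996707) (nat_lit 152) (nat_lit 870761909721) (nat_lit 0) (nat_lit 184373546394) (nat_lit 1) (nat_lit 5) (nat_lit 3) (nat_lit 4) (nat_lit 1) (nat_lit 4) (nat_lit 329) (nat_lit 210) (nat_lit 181)))) (XT.nd (nat_lit 156) (nat_lit 0) (nat_lit 0) (XT.nd (nat_lit 78) (nat_lit 0) (nat_lit 0) (XT.lf (nat_lit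 0) (nat_lit 201226763166) (nat_lit 152) (nat_lit 939003104275) (nat_lit 0) (nat_lit 199851169895) (nat_lit 1) (nat_lit 5) (nat_lit 3) (nat_lit 4) (nat_lit 1) (nat_lit 4) (nat_lit 330) (nat_lit 210) (nat_lit 180)) (XT.lf (nat_lit 0) (nat_lit 217946156416) (nat_lit 152) (nat_lit 1012721609226) (nat_lit 0) (nat_lit 216559319665) (nat_lit 1) (nat_lit 5) (nat_lit 3) (nat_lit 4) (nat_lit 1) (nat_lit 4) (nat_lit 331) (nat_lit 210) (nat_lit 179))) (XT.nd (nat_lit 78) (nat_lit 0) (nat_lit 0) (XT.lf (nat_lit 0) (nat_lit 235994254341) (nat_lit 152) (nat_lit 1092354274974) (nat_lit 0) (nat_lit 234597006961) (nat_lit 1) (nat_lit 5) (nat_lit 3) (nat_lit 4) (nat_lit 1) (nat_lit 4) (nat_lit 332) (nat_lit 210) (nat_lit 178)) (XT.lf (nat_lit 0) (nat_lit 255478008634) (nat_lit 152) (nat_lit 1178372998797) (nat_lit 0) (nat_lit 254071121783) (nat_lit 1) (nat_lit 5) (nat_lit 3) (nat_lit 4) (nat_lit 1) (nat_lit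 4) (nat_lit 333) (nat_lit 210) (nat_lit 177)))))) (XT.nd (nat_lit 468) (nat_lit 0) (nat_lit 0) (XT.nd (nat_lit 234) (nat_lit 0) (nat_lit 0) (XT.nd (nat_lit 78) (nat_lit 0) (nat_lit 0) (XT.lf (nat_lit 0) (nat_lit 276512878579) (nat_lit 152) (nat_lit 1271287521281) (nat_lit 0) (nat_lit 275097066291) (nat_lit 1) (nat_lit 5) (nat_lit 3) (nat_lit 4) (nat_lit 1) (nat_lit 4) (nat_lit 334) (nat_lit 210) (nat_lit 176)) (XT.nd (nat_lit 78) (nat_lit 0) (nat_lit 0) (XT.lf (nat_lit 0) (nat_lit 299223515258) (nat_lit 152) (nat_lit 1371648447003) (nat_lit 0) (nat_lit 297799438677) (nat_lit 1) (nat_lit 5) (nat_lit 3) (nat_lit 4) (nat_lit 1) (nat_lit 4) (nat_lit 335) (nat_lit 210) (nat_lit 175)) (XT.lf (nat_lit 0) (nat_lit 323744500221) (nat_lit 152) (nat_lit 1480050507376) (nat_lit 0) (nat_lit 322312771516) (nat_lit 1) (nat_lit 5) (nat_lit 3) (nat_lit 4) (nat_lit 1) (nat_lit 4) (nat_lit 336) (nat_lit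 210) (nat_lit 174)))) (XT.nd (nat_lit 78) (nat_lit 0) (nat_lit 0) (XT.lf (nat_lit 0) (nat_lit 350221143008) (nat_lit 152) (nat_lit 1597136084980) (nat_lit 0) (nat_lit 348782329004) (nat_lit 1) (nat_lit 5) (nat_lit 3) (nat_lit 4) (nat_lit 1) (nat_lit 4) (nat_lit 337) (nat_lit 210) (nat_lit 173)) (XT.nd (nat_lit 78) (nat_lit 0) (nat_lit 0) (XT.lf (nat_lit 0) (nat_lit 378810342244) (nat_lit 152) (nat_lit 1723599020273) (nat_lit 0) (nat_lit 377364967778) (nat_lit 1) (nat_lit 5) (nat_lit 3) (nat_lit 4) (nat_lit 1) (nat_lit 4) (nat_lit 338) (nat_lit 210) (nat_lit 172)) (XT.lf (nat_lit 0) (nat_lit 409681515405) (nat_lit 152) (nat_lit 1860188723244) (nat_lit 0) (nat_lit 408230066437) (nat_lit 1) (nat_lit 5) (nat_lit 3) (nat_lit 4) (nat_lit 1) (nat_lit 4) (nat_lit 339) (nat_lit 210) (nat_lit 171))))) (XT.nd (nat_lit 34242) (nat_lit 0) (nat_lit 0) (XT.nd (nat_lit 78) (nat_lit 0) (nat_lit 0)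 (XT.lf (nat_lit 0) (nat_lit 443017602777) (nat_lit 152) (nat_lit 2007714614354) (nat_lit 0) (nat_lit 441560529270) (nat_lit 1) (nat_lit 5) (nat_lit 3) (nat_lit 4) (nat_lit 1) (nat_lit 4) (nat_lit 340) (nat_lit 210) (nat_lit 170)) (XT.nd (nat_lit 78) (nat_lit 0) (nat_lit 0) (XT.lf (nat_lit 0) (nat_lit 479016151544) (nat_lit 152) (nat_lit 2167050921106) (nat_lit 0) (nat_lit 477553870131) (nat_lit 1) (nat_lit 5) (nat_lit 3) (nat_lit 4) (nat_lit 1) (nat_lit 4) (nat_lit 341) (nat_lit 210) (nat_lit 169)) (XT.lf (nat_lit 0) (nat_lit 517890486441) (nat_lit 152) (nat_lit 2339141858651) (nat_lit 0) (nat_lit 516423382891) (nat_lit 1) (nat_lit 5) (nat_lit 3) (nat_lit 4) (nat_lit 1) (nat_lit 4) (nat_lit 342) (nat_lit 210) (nat_lit 168)))) (XT.nd (nat_lit 156) (nat_lit 0) (nat_lit 0) (XT.nd (nat_lit 78) (nat_lit 0) (nat_lit 0) (XT.lf (nat_lit 0) (nat_lit 1273142338) (nat_lit 152) (nat_lit 55196307047)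 (nat_lit 0) (nat_lit 1273142338) (nat_lit 1) (nat_lit 5) (nat_lit 3) (nat_lit 4) (nat_lit 1) (nat_lit 4) (nat_lit 298) (nat_lit 211) (nat_lit 211)) (XT.lf (nat_lit 0) (nat_lit 4589896664) (nat_lit 152) (nat_lit 115506100002) (nat_lit 0) (nat_lit 4467706244) (nat_lit 1) (nat_lit 5) (nat_lit 3) (nat_lit 4) (nat_lit 1) (nat_lit 4) (nat_lit 299) (nat_lit 211) (nat_lit 210))) (XT.nd (nat_lit 78) (nat_lit 0) (nat_lit 0) (XT.lf (nat_lit 0) (nat_lit 6700853689) (nat_lit 152) (nat_lit 121209941864) (nat_lit 0) (nat_lit 6465523992) (nat_lit 1) (nat_lit 5) (nat_lit 3) (nat_lit 4) (nat_lit 1) (nat_lit 4) (nat_lit 300) (nat_lit 211) (nat_lit 209)) (XT.lf (nat_lit 0) (nat_lit 8891665125) (nat_lit 152) (nat_lit 127537940224) (nat_lit 0) (nat_lit 8551576838) (nat_lit 1) (nat_lit 5) (nat_lit 3) (nat_lit 4) (nat_lit 1) (nat_lit 4) (nat_lit 301) (nat_lit 211) (nat_lit 208))))))) (XT.nd (nat_lit 1014)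 (nat_lit 0) (nat_lit 0) (XT.nd (nat_lit 468) (nat_lit 0) (nat_lit 0) (XT.nd (nat_lit 234) (nat_lit 0) (nat_lit 0) (XT.nd (nat_lit 78) (nat_lit 0) (nat_lit 0) (XT.lf (nat_lit 0) (nat_lit 11175313560) (nat_lit 152) (nat_lit 134527594333) (nat_lit 0) (nat_lit 10738226578) (nat_lit 1) (nat_lit 5) (nat_lit 3) (nat_lit 4) (nat_lit 1) (nat_lit 4) (nat_lit 302) (nat_lit 211) (nat_lit 207)) (XT.nd (nat_lit 78) (nat_lit 0) (nat_lit 0) (XT.lf (nat_lit 0) (nat_lit 13565331724) (nat_lit 152) (nat_lit 142220324362) (nat_lit 0) (nat_lit 13038431136) (nat_lit 1) (nat_lit 5) (nat_lit 3) (nat_lit 4) (nat_lit 1) (nat_lit 4) (nat_lit 303) (nat_lit 211) (nat_lit 206)) (XT.lf (nat_lit 0) (nat_lit 16075882688) (nat_lit 152) (nat_lit 150661716860) (nat_lit 0) (nat_lit 15465821354) (nat_lit 1) (nat_lit 5) (nat_lit 3) (nat_lit 4) (nat_lit 1) (nat_lit 4) (nat_lit 304) (nat_lit 211) (nat_lit 205)))) (XT.nd (nat_lit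 78) (nat_lit 0) (nat_lit 0) (XT.lf (nat_lit 0) (nat_lit 18721843792) (nat_lit 152) (nat_lit 159901794893) (nat_lit 0) (nat_lit 18034781766) (nat_lit 1) (nat_lit 5) (nat_lit 3) (nat_lit 4) (nat_lit 1) (nat_lit 4) (nat_lit 305) (nat_lit 211) (nat_lit 204)) (XT.nd (nat_lit 78) (nat_lit 0) (nat_lit 0) (XT.lf (nat_lit 0) (nat_lit 21518894804) (nat_lit 152) (nat_lit 169995314480) (nat_lit 0) (nat_lit 20760535842) (nat_lit 1) (nat_lit 5) (nat_lit 3) (nat_lit 4) (nat_lit 1) (nat_lit 4) (nat_lit 306) (nat_lit 211) (nat_lit 203)) (XT.lf (nat_lit 0) (nat_lit 24483610842) (nat_lit 152) (nat_lit 181002089070) (nat_lit 0) (nat_lit 23659236198) (nat_lit 1) (nat_lit 5) (nat_lit 3) (nat_lit 4) (nat_lit 1) (nat_lit 4) (nat_lit 307) (nat_lit 211) (nat_lit 202))))) (XT.nd (nat_lit 234) (nat_lit 0) (nat_lit 0) (XT.nd (nat_lit 78) (nat_lit 0) (nat_lit 0) (XT.lf (nat_lit 0) (nat_lit 27633560593) (nat_lit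 152) (nat_lit 192987343994) (nat_lit 0) (nat_lit 26748060318) (nat_lit 1) (nat_lit 5) (nat_lit 3) (nat_lit 4) (nat_lit 1) (nat_lit 4) (nat_lit 308) (nat_lit 211) (nat_lit 201)) (XT.nd (nat_lit 78) (nat_lit 0) (nat_lit 0) (XT.lf (nat_lit 0) (nat_lit 30987410427) (nat_lit 152) (nat_lit 206022102984) (nat_lit 0) (nat_lit 30045312345) (nat_lit 1) (nat_lit 5) (nat_lit 3) (nat_lit 4) (nat_lit 1) (nat_lit 4) (nat_lit 309) (nat_lit 211) (nat_lit 200)) (XT.lf (nat_lit 0) (nat_lit 34565035008) (nat_lit 152) (nat_lit 220183609057) (nat_lit 0) (nat_lit 33570531550) (nat_lit 1) (nat_lit 5) (nat_lit 3) (nat_lit 4) (nat_lit 1) (nat_lit 4) (nat_lit 310) (nat_lit 211) (nat_lit 199)))) (XT.nd (nat_lit 156) (nat_lit 0) (nat_lit 0) (XT.nd (nat_lit 78) (nat_lit 0) (nat_lit 0) (XT.lf (nat_lit 0) (nat_lit 38387635076) (nat_lit 152) (nat_lit 235555782249) (nat_lit 0) (nat_lit 37344608121) (nat_lit 1) (nat_lit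 5) (nat_lit 3) (nat_lit 4) (nat_lit 1) (nat_lit 4) (nat_lit 311) (nat_lit 211) (nat_lit 198)) (XT.lf (nat_lit 0) (nat_lit 42477863075) (nat_lit 152) (nat_lit 252229716920) (nat_lit 0) (nat_lit 41389906956) (nat_lit 1) (nat_lit 5) (nat_lit 3) (nat_lit 4) (nat_lit 1) (nat_lit 4) (nat_lit 312) (nat_lit 211) (nat_lit 197))) (XT.nd (nat_lit 78) (nat_lit 0) (nat_lit 0) (XT.lf (nat_lit 0) (nat_lit 46859957393) (nat_lit 152) (nat_lit 270304221571) (nat_lit 0) (nat_lit 45730400197) (nat_lit 1) (nat_lit 5) (nat_lit 3) (nat_lit 4) (nat_lit 1) (nat_lit 4) (nat_lit 313) (nat_lit 211) (nat_lit 196)) (XT.lf (nat_lit 0) (nat_lit 51559885997) (nat_lit 152) (nat_lit 289886404378) (nat_lit 0) (nat_lit 50391809284) (nat_lit 1) (nat_lit 5) (nat_lit 3) (nat_lit 4) (nat_lit 1) (nat_lit 4) (nat_lit 314) (nat_lit 211) (nat_lit 195)))))) (XT.nd (nat_lit 468) (nat_lit 0) (nat_lit 0) (XT.nd (nat_lit 234) (nat_lit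 0) (nat_lit 0) (XT.nd (nat_lit 78) (nat_lit 0) (nat_lit 0) (XT.lf (nat_lit 0) (nat_lit 56605500315) (nat_lit 152) (nat_lit 311092307906) (nat_lit 0) (nat_lit 55401757383) (nat_lit 1) (nat_lit 5) (nat_lit 3) (nat_lit 4) (nat_lit 1) (nat_lit 4) (nat_lit 315) (nat_lit 211) (nat_lit 194)) (XT.nd (nat_lit 78) (nat_lit 0) (nat_lit 0) (XT.lf (nat_lit 0) (nat_lit 62026700283) (nat_lit 152) (nat_lit 334047596768) (nat_lit 0) (nat_lit 60789933076) (nat_lit 1) (nat_lit 5) (nat_lit 3) (nat_lit 4) (nat_lit 1) (nat_lit 4) (nat_lit 316) (nat_lit 211) (nat_lit 193)) (XT.lf (nat_lit 0) (nat_lit 67855611533) (nat_lit 152) (nat_lit 358888302306) (nat_lit 0) (nat_lit 66588266291) (nat_lit 1) (nat_lit 5) (nat_lit 3) (nat_lit 4) (nat_lit 1) (nat_lit 4) (nat_lit 317) (nat_lit 211) (nat_lit 192)))) (XT.nd (nat_lit 78) (nat_lit 0) (nat_lit 0) (XT.lf (nat_lit 0) (nat_lit 74126775759) (nat_lit 152) (nat_lit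 385761628700) (nat_lit 0) (nat_lit 72831117523) (nat_lit 1) (nat_lit 5) (nat_lit 3) (nat_lit 4) (nat_lit 1) (nat_lit 4) (nat_lit 318) (nat_lit 211) (nat_lit 191)) (XT.nd (nat_lit 78) (nat_lit 0) (nat_lit 0) (XT.lf (nat_lit 0) (nat_lit 80877355417) (nat_lit 152) (nat_lit 414826825293) (nat_lit 0) (nat_lit 79555481445) (nat_lit 1) (nat_lit 5) (nat_lit 3) (nat_lit 4) (nat_lit 1) (nat_lit 4) (nat_lit 319) (nat_lit 211) (nat_lit 190)) (XT.lf (nat_lit 0) (nat_lit 88147353941) (nat_lit 152) (nat_lit 446256130286) (nat_lit 0) (nat_lit 86801206140) (nat_lit 1) (nat_lit 5) (nat_lit 3) (nat_lit 4) (nat_lit 1) (nat_lit 4) (nat_lit 320) (nat_lit 211) (nat_lit 189))))) (XT.nd (nat_lit 234) (nat_lit 0) (nat_lit 0) (XT.nd (nat_lit 78) (nat_lit 0) (nat_lit 0) (XT.lf (nat_lit 0) (nat_lit 95979852804) (nat_lit 152) (nat_lit 480235791413) (nat_lit 0) (nat_lit 94611229235) (nat_lit 1) (nat_lit 5) (nat_lit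 3) (nat_lit 4) (nat_lit 1) (nat_lit 4) (nat_lit 321) (nat_lit 211) (nat_lit 188)) (XT.nd (nat_lit 78) (nat_lit 0) (nat_lit 0) (XT.lf (nat_lit 0) (nat_lit 104421266814) (nat_lit 152) (nat_lit 516967169628) (nat_lit 0) (nat_lit 103031832350) (nat_lit 1) (nat_lit 5) (nat_lit 3) (nat_lit 4) (nat_lit 1) (nat_lit 4) (nat_lit 322) (nat_lit 211) (nat_lit 187)) (XT.lf (nat_lit 0) (nat_lit 113521619166) (nat_lit 152) (nat_lit 556667932358) (nat_lit 0) (nat_lit 112112915353) (nat_lit 1) (nat_lit 5) (nat_lit 3) (nat_lit 4) (nat_lit 1) (nat_lit 4) (nat_lit 323) (nat_lit 211) (nat_lit 186)))) (XT.nd (nat_lit 156) (nat_lit 0) (nat_lit 0) (XT.nd (nat_lit 78) (nat_lit 0) (nat_lit 0) (XT.lf (nat_lit 0) (nat_lit 123334837873) (nat_lit 152) (nat_lit 599573343382) (nat_lit 0) (nat_lit 121908292071) (nat_lit 1) (nat_lit 5) (nat_lit 3) (nat_lit 4) (nat_lit 1) (nat_lit 4) (nat_lit 324) (nat_lit 211) (nat_lit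 185)) (XT.lf (nat_lit 0) (nat_lit 133919075343) (nat_lit 152) (nat_lit 645937656988) (nat_lit 0) (nat_lit 132476009181) (nat_lit 1) (nat_lit 5) (nat_lit 3) (nat_lit 4) (nat_lit 1) (nat_lit 4) (nat_lit 325) (nat_lit 211) (nat_lit 184))) (XT.nd (nat_lit 78) (nat_lit 0) (nat_lit 0) (XT.lf (nat_lit 0) (nat_lit 145337052982) (nat_lit 152) (nat_lit 696035624663) (nat_lit 0) (nat_lit 143878690190) (nat_lit 1) (nat_lit 5) (nat_lit 3) (nat_lit 4) (nat_lit 1) (nat_lit 4) (nat_lit 326) (nat_lit 211) (nat_lit 183)) (XT.lf (nat_lit 0) (nat_lit 157656432881) (nat_lit 152) (nat_lit 750164123253) (nat_lit 0) (nat_lit 156183906543) (nat_lit 1) (nat_lit 5) (nat_lit 3) (nat_lit 4) (nat_lit 1) (nat_lit 4) (nat_lit 327) (nat_lit 211) (nat_lit 182))))))))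
noncomputable def xc10 : XT := (XT.nd (nat_lit 35802) (nat_lit 0) (nat_lit 0) (XT.nd (nat_lit 936) (nat_lit 0) (nat_lit 0) (XT.nd (nat_lit 468) (nat_lit 0) (nat_lit 0) (XT.nd (nat_lit 234) (nat_lit 0) (nat_lit 0) (XT.nd (nat_lit 78) (nat_lit 0) (nat_lit 0) (XT.lf (nat_lit 0) (nat_lit 170950218771) (nat_lit 152) (nat_lit 808643914232) (nat_lit 0) (nat_lit 169464578039) (nat_lit 1) (nat_lit 5) (nat_lit 3) (nat_lit 4) (nat_lit 1) (nat_lit 4) (nat_lit 328) (nat_lit 211) (nat_lit 181)) (XT.nd (nat_lit 78) (nat_lit 0) (nat_lit 0) (XT.lf (nat_lit 0) (nat_lit 185297188645) (nat_lit 152) (nat_lit 871821544508) (nat_lit 0) (nat_lit 183799404954) (nat_lit 1) (nat_lit 5) (nat_lit 3) (nat_lit 4) (nat_lit 1) (nat_lit 4) (nat_lit 329) (nat_lit 211) (nat_lit 180)) (XT.lf (nat_lit 0) (nat_lit 200782361582) (nat_lit 152) (nat_lit 940071400039) (nat_lit 0) (nat_lit 199273334412) (nat_lit 1) (nat_lit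 5) (nat_lit 3) (nat_lit 4) (nat_lit 1) (nat_lit 4) (nat_lit 330) (nat_lit 211) (nat_lit 179)))) (XT.nd (nat_lit 78) (nat_lit 0) (nat_lit 0) (XT.lf (nat_lit 0) (nat_lit 217497501570) (nat_lit 152) (nat_lit 1013797924414) (nat_lit 0) (nat_lit 215978063770) (nat_lit 1) (nat_lit 5) (nat_lit 3) (nat_lit 4) (nat_lit 1) (nat_lit 4) (nat_lit 331) (nat_lit 211) (nat_lit 178)) (XT.nd (nat_lit 78) (nat_lit 0) (nat_lit 0) (XT.lf (nat_lit 0) (nat_lit 235541661290) (nat_lit 152) (nat_lit 1093438015554) (nat_lit 0) (nat_lit 234012584019) (nat_lit 1) (nat_lit 5) (nat_lit 3) (nat_lit 4) (nat_lit 1) (nat_lit 4) (nat_lit 332) (nat_lit 211) (nat_lit 177)) (XT.lf (nat_lit 0) (nat_lit 255021769097) (nat_lit 152) (nat_lit 1179463614740) (nat_lit 0) (nat_lit 253483766389) (nat_lit 1) (nat_lit 5) (nat_lit 3) (nat_lit 4) (nat_lit 1) (nat_lit 4) (nat_lit 333) (nat_lit 211) (nat_lit 176))))) (XT.nd (nat_lit 234)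 (nat_lit 0) (nat_lit 0) (XT.nd (nat_lit 78) (nat_lit 0) (nat_lit 0) (XT.lf (nat_lit 0) (nat_lit 276053262666) (nat_lit 152) (nat_lit 1272384503301) (nat_lit 0) (nat_lit 274506995665) (nat_lit 1) (nat_lit 5) (nat_lit 3) (nat_lit 4) (nat_lit 1) (nat_lit 4) (nat_lit 334) (nat_lit 211) (nat_lit 175)) (XT.nd (nat_lit 78) (nat_lit 0) (nat_lit 0) (XT.lf (nat_lit 0) (nat_lit 298760773070) (nat_lit 152) (nat_lit 1372751323539) (nat_lit 0) (nat_lit 297206853946) (nat_lit 1) (nat_lit 5) (nat_lit 3) (nat_lit 4) (nat_lit 1) (nat_lit 4) (nat_lit 335) (nat_lit 211) (nat_lit 174)) (XT.lf (nat_lit 0) (nat_lit 323278863335) (nat_lit 152) (nat_lit 1481158841797) (nat_lit 0) (nat_lit 321717858911) (nat_lit 1) (nat_lit 5) (nat_lit 3) (nat_lit 4) (nat_lit 1) (nat_lit 4) (nat_lit 336) (nat_lit 211) (nat_lit 173)))) (XT.nd (nat_lit 78) (nat_lit 0) (nat_lit 0) (XT.lf (nat_lit 0) (nat_lit 349752825846) (nat_lit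 152) (nat_lit 1598249472997) (nat_lit 0) (nat_lit 348185260960) (nat_lit 1) (nat_lit 5) (nat_lit 3) (nat_lit 4) (nat_lit 1) (nat_lit 4) (nat_lit 337) (nat_lit 211) (nat_lit 172)) (XT.nd (nat_lit 78) (nat_lit 0) (nat_lit 0) (XT.lf (nat_lit 0) (nat_lit 378339543345) (nat_lit 152) (nat_lit 1724717087547) (nat_lit 0) (nat_lit 376765903957) (nat_lit 1) (nat_lit 5) (nat_lit 3) (nat_lit 4) (nat_lit 1) (nat_lit 4) (nat_lit 338) (nat_lit 211) (nat_lit 171)) (XT.lf (nat_lit 0) (nat_lit 409208418601) (nat_lit 152) (nat_lit 1861311123163) (nat_lit 0) (nat_lit 407629154674) (nat_lit 1) (nat_lit 5) (nat_lit 3) (nat_lit 4) (nat_lit 1) (nat_lit 4) (nat_lit 339) (nat_lit 211) (nat_lit 170)))))) (XT.nd (nat_lit 34320) (nat_lit 0) (nat_lit 0) (XT.nd (nat_lit 34086) (nat_lit 0) (nat_lit 0) (XT.nd (nat_lit 78) (nat_lit 0) (nat_lit 0) (XT.lf (nat_lit 0) (nat_lit 442542378283) (nat_lit 152) (nat_lit 2008841025981)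 (nat_lit 0) (nat_lit 440957906450) (nat_lit 1) (nat_lit 5) (nat_lit 3) (nat_lit 4) (nat_lit 1) (nat_lit 4) (nat_lit 340) (nat_lit 211) (nat_lit 169)) (XT.nd (nat_lit 78) (nat_lit 0) (nat_lit 0) (XT.lf (nat_lit 0) (nat_lit 478538956968) (nat_lit 152) (nat_lit 2168181047278) (nat_lit 0) (nat_lit 476949662999) (nat_lit 1) (nat_lit 5) (nat_lit 3) (nat_lit 4) (nat_lit 1) (nat_lit 4) (nat_lit 341) (nat_lit 211) (nat_lit 168)) (XT.lf (nat_lit 0) (nat_lit 517411467713) (nat_lit 152) (nat_lit 2340275424216) (nat_lit 0) (nat_lit 515817708803) (nat_lit 1) (nat_lit 5) (nat_lit 3) (nat_lit 4) (nat_lit 1) (nat_lit 4) (nat_lit 342) (nat_lit 211) (nat_lit 167)))) (XT.nd (nat_lit 78) (nat_lit 152) (nat_lit 0) (XT.lf (nat_lit 0) (nat_lit 48482030611) (nat_lit 76) (nat_lit 585364643) (nat_lit 76) (nat_lit 585364643) (nat_lit 3) (nat_lit 4) (nat_lit 4) (nat_lit 5) (nat_lit 4) (nat_lit 4) (nat_lit 296)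 (nat_lit 212) (nat_lit 212)) (XT.nd (nat_lit 78) (nat_lit 0) (nat_lit 0) (XT.lf (nat_lit 0) (nat_lit 689873084) (nat_lit 152) (nat_lit 105839182002) (nat_lit 0) (nat_lit 557907431) (nat_lit 1) (nat_lit 5) (nat_lit 3) (nat_lit 4) (nat_lit 1) (nat_lit 4) (nat_lit 297) (nat_lit 212) (nat_lit 211)) (XT.lf (nat_lit 0) (nat_lit 2628329446) (nat_lit 152) (nat_lit 110486738732) (nat_lit 0) (nat_lit 2374173373) (nat_lit 1) (nat_lit 5) (nat_lit 3) (nat_lit 4) (nat_lit 1) (nat_lit 4) (nat_lit 298) (nat_lit 212) (nat_lit 210))))) (XT.nd (nat_lit 234) (nat_lit 0) (nat_lit 0) (XT.nd (nat_lit 78) (nat_lit 0) (nat_lit 0) (XT.lf (nat_lit 0) (nat_lit 4625718395) (nat_lit 152) (nat_lit 115687377083) (nat_lit 0) (nat_lit 4258423044) (nat_lit 1) (nat_lit 5) (nat_lit 3) (nat_lit 4) (nat_lit 1) (nat_lit 4) (nat_lit 299) (nat_lit 212) (nat_lit 209)) (XT.nd (nat_lit 78) (nat_lit 0) (nat_lit 0) (XT.lf (nat_lit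 0) (nat_lit 6693876309) (nat_lit 152) (nat_lit 121471915652) (nat_lit 0) (nat_lit 6221822368) (nat_lit 1) (nat_lit 5) (nat_lit 3) (nat_lit 4) (nat_lit 1) (nat_lit 4) (nat_lit 300) (nat_lit 212) (nat_lit 208)) (XT.lf (nat_lit 0) (nat_lit 8845058939) (nat_lit 152) (nat_lit 127874633185) (nat_lit 0) (nat_lit 8276006304) (nat_lit 1) (nat_lit 5) (nat_lit 3) (nat_lit 4) (nat_lit 1) (nat_lit 4) (nat_lit 301) (nat_lit 212) (nat_lit 207)))) (XT.nd (nat_lit 156) (nat_lit 0) (nat_lit 0) (XT.nd (nat_lit 78) (nat_lit 0) (nat_lit 0) (XT.lf (nat_lit 0) (nat_lit 11092014035) (nat_lit 152) (nat_lit 134933471713) (nat_lit 0) (nat_lit 10433147794) (nat_lit 1) (nat_lit 5) (nat_lit 3) (nat_lit 4) (nat_lit 1) (nat_lit 4) (nat_lit 302) (nat_lit 212) (nat_lit 206)) (XT.lf (nat_lit 0) (nat_lit 13448056885) (nat_lit 152) (nat_lit 142690261389) (nat_lit 0) (nat_lit 12706029897) (nat_lit 1) (nat_lit 5) (nat_lit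 3) (nat_lit 4) (nat_lit 1) (nat_lit 4) (nat_lit 303) (nat_lit 212) (nat_lit 205))) (XT.nd (nat_lit 78) (nat_lit 0) (nat_lit 0) (XT.lf (nat_lit 0) (nat_lit 15927149225) (nat_lit 152) (nat_lit 151190968375) (nat_lit 0) (nat_lit 15108121547) (nat_lit 1) (nat_lit 5) (nat_lit 3) (nat_lit 4) (nat_lit 1) (nat_lit 4) (nat_lit 304) (nat_lit 212) (nat_lit 204)) (XT.lf (nat_lit 0) (nat_lit 18543981973) (nat_lit 152) (nat_lit 160485967231) (nat_lit 0) (nat_lit 17653657358) (nat_lit 1) (nat_lit 5) (nat_lit 3) (nat_lit 4) (nat_lit 1) (nat_lit 4) (nat_lit 305) (nat_lit 212) (nat_lit 203))))))) (XT.nd (nat_lit 1014) (nat_lit 0) (nat_lit 0) (XT.nd (nat_lit 468) (nat_lit 0) (nat_lit 0) (XT.nd (nat_lit 234) (nat_lit 0) (nat_lit 0) (XT.nd (nat_lit 78) (nat_lit 0) (nat_lit 0) (XT.lf (nat_lit 0) (nat_lit 21314062286) (nat_lit 152) (nat_lit 170630339432) (nat_lit 0) (nat_lit 20357721989) (nat_lit 1) (nat_lit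 5) (nat_lit 3) (nat_lit 4) (nat_lit 1) (nat_lit 4) (nat_lit 306) (nat_lit 212) (nat_lit 202)) (XT.nd (nat_lit 78) (nat_lit 0) (nat_lit 0) (XT.lf (nat_lit 0) (nat_lit 24253805454) (nat_lit 152) (nat_lit 181684199775) (nat_lit 0) (nat_lit 23236339526) (nat_lit 1) (nat_lit 5) (nat_lit 3) (nat_lit 4) (nat_lit 1) (nat_lit 4) (nat_lit 307) (nat_lit 212) (nat_lit 201)) (XT.lf (nat_lit 0) (nat_lit 27380632177) (nat_lit 152) (nat_lit 193713052618) (nat_lit 0) (nat_lit 26306568442) (nat_lit 1) (nat_lit 5) (nat_lit 3) (nat_lit 4) (nat_lit 1) (nat_lit 4) (nat_lit 308) (nat_lit 212) (nat_lit 200)))) (XT.nd (nat_lit 78) (nat_lit 0) (nat_lit 0) (XT.lf (nat_lit 0) (nat_lit 30713071800) (nat_lit 152) (nat_lit 206788180052) (nat_lit 0) (nat_lit 29586602688) (nat_lit 1) (nat_lit 5) (nat_lit 3) (nat_lit 4) (nat_lit 1) (nat_lit 4) (nat_lit 309) (nat_lit 212) (nat_lit 199)) (XT.nd (nat_lit 78) (nat_lit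 0) (nat_lit 0) (XT.lf (nat_lit 0) (nat_lit 34270872112) (nat_lit 152) (nat_lit 220987064315) (nat_lit 0) (nat_lit 33095879504) (nat_lit 1) (nat_lit 5) (nat_lit 3) (nat_lit 4) (nat_lit 1) (nat_lit 4) (nat_lit 310) (nat_lit 212) (nat_lit 198)) (XT.lf (nat_lit 0) (nat_lit 38075116375) (nat_lit 152) (nat_lit 236393846941) (nat_lit 0) (nat_lit 36855194603) (nat_lit 1) (nat_lit 5) (nat_lit 3) (nat_lit 4) (nat_lit 1) (nat_lit 4) (nat_lit 311) (nat_lit 212) (nat_lit 197))))) (XT.nd (nat_lit 234) (nat_lit 0) (nat_lit 0) (XT.nd (nat_lit 78) (nat_lit 0) (nat_lit 0) (XT.lf (nat_lit 0) (nat_lit 42148348258) (nat_lit 152) (nat_lit 253099827384) (nat_lit 0) (nat_lit 40886825408) (nat_lit 1) (nat_lit 5) (nat_lit 3) (nat_lit 4) (nat_lit 1) (nat_lit 4) (nat_lit 312) (nat_lit 212) (nat_lit 196)) (XT.nd (nat_lit 78) (nat_lit 0) (nat_lit 0) (XT.lf (nat_lit 0) (nat_lit 46514705432) (nat_lit 152) (nat_lit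 271204004047) (nat_lit 0) (nat_lit 45214663066) (nat_lit 1) (nat_lit 5) (nat_lit 3) (nat_lit 4) (nat_lit 1) (nat_lit 4) (nat_lit 313) (nat_lit 212) (nat_lit 195)) (XT.lf (nat_lit 0) (nat_lit 51200062606) (nat_lit 152) (nat_lit 290813660938) (nat_lit 0) (nat_lit 49864354021) (nat_lit 1) (nat_lit 5) (nat_lit 3) (nat_lit 4) (nat_lit 1) (nat_lit 4) (nat_lit 314) (nat_lit 212) (nat_lit 194)))) (XT.nd (nat_lit 156) (nat_lit 0) (nat_lit 0) (XT.nd (nat_lit 78) (nat_lit 0) (nat_lit 0) (XT.lf (nat_lit 0) (nat_lit 56232184859) (nat_lit 152) (nat_lit 312045003434) (nat_lit 0) (nat_lit 54863451998) (nat_lit 1) (nat_lit 5) (nat_lit 3) (nat_lit 4) (nat_lit 1) (nat_lit 4) (nat_lit 315) (nat_lit 212) (nat_lit 193)) (XT.lf (nat_lit 0) (nat_lit 61640892175) (nat_lit 152) (nat_lit 335023846895) (nat_lit 0) (nat_lit 60241581281) (nat_lit 1) (nat_lit 5) (nat_lit 3) (nat_lit 4) (nat_lit 1) (nat_lit 4) (nat_lit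 316) (nat_lit 212) (nat_lit 192))) (XT.nd (nat_lit 78) (nat_lit 0) (nat_lit 0) (XT.lf (nat_lit 0) (nat_lit 67458236154) (nat_lit 152) (nat_lit 359886362247) (nat_lit 0) (nat_lit 66030612265) (nat_lit 1) (nat_lit 5) (nat_lit 3) (nat_lit 4) (nat_lit 1) (nat_lit 4) (nat_lit 317) (nat_lit 212) (nat_lit 191)) (XT.lf (nat_lit 0) (nat_lit 73718689944) (nat_lit 152) (nat_lit 386779882914) (nat_lit 0) (nat_lit 72264850320) (nat_lit 1) (nat_lit 5) (nat_lit 3) (nat_lit 4) (nat_lit 1) (nat_lit 4) (nat_lit 318) (nat_lit 212) (nat_lit 190)))))) (XT.nd (nat_lit 468) (nat_lit 0) (nat_lit 0) (XT.nd (nat_lit 234) (nat_lit 0) (nat_lit 0) (XT.nd (nat_lit 78) (nat_lit 0) (nat_lit 0) (XT.lf (nat_lit 0) (nat_lit 80459352532) (nat_lit 152) (nat_lit 415863777907) (nat_lit 0) (nat_lit 78981239078) (nat_lit 1) (nat_lit 5) (nat_lit 3) (nat_lit 4) (nat_lit 1) (nat_lit 4) (nat_lit 319) (nat_lit 212) (nat_lit 189))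 (XT.nd (nat_lit 78) (nat_lit 0) (nat_lit 0) (XT.lf (nat_lit 0) (nat_lit 87720168583) (nat_lit 152) (nat_lit 447310396234) (nat_lit 0) (nat_lit 86219579362) (nat_lit 1) (nat_lit 5) (nat_lit 3) (nat_lit 4) (nat_lit 1) (nat_lit 4) (nat_lit 320) (nat_lit 212) (nat_lit 188)) (XT.lf (nat_lit 0) (nat_lit 95544165157) (nat_lit 152) (nat_lit 481306088225) (nat_lit 0) (nat_lit 94022765039) (nat_lit 1) (nat_lit 5) (nat_lit 3) (nat_lit 4) (nat_lit 1) (nat_lit 4) (nat_lit 321) (nat_lit 212) (nat_lit 187)))) (XT.nd (nat_lit 78) (nat_lit 0) (nat_lit 0) (XT.lf (nat_lit 0) (nat_lit 103977706677) (nat_lit 152) (nat_lit 518052309834) (nat_lit 0) (nat_lit 102437037211) (nat_lit 1) (nat_lit 5) (nat_lit 3) (nat_lit 4) (nat_lit 1) (nat_lit 4) (nat_lit 322) (nat_lit 212) (nat_lit 186)) (XT.nd (nat_lit 78) (nat_lit 0) (nat_lit 0) (XT.lf (nat_lit 0) (nat_lit 113070769686) (nat_lit 152) (nat_lit 557766816446)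 (nat_lit 0) (nat_lit 111512258231) (nat_lit 1) (nat_lit 5) (nat_lit 3) (nat_lit 4) (nat_lit 1) (nat_lit 4) (nat_lit 323) (nat_lit 212) (nat_lit 185)) (XT.lf (nat_lit 0) (nat_lit 122877239002) (nat_lit 152) (nat_lit 600684953287) (nat_lit 0) (nat_lit 121302207187) (nat_lit 1) (nat_lit 5) (nat_lit 3) (nat_lit 4) (nat_lit 1) (nat_lit 4) (nat_lit 324) (nat_lit 212) (nat_lit 184))))) (XT.nd (nat_lit 234) (nat_lit 0) (nat_lit 0) (XT.nd (nat_lit 78) (nat_lit 0) (nat_lit 0) (XT.lf (nat_lit 0) (nat_lit 133455227035) (nat_lit 152) (nat_lit 647061050057) (nat_lit 0) (nat_lit 131864898590) (nat_lit 1) (nat_lit 5) (nat_lit 3) (nat_lit 4) (nat_lit 1) (nat_lit 4) (nat_lit 325) (nat_lit 212) (nat_lit 183)) (XT.nd (nat_lit 78) (nat_lit 0) (nat_lit 0) (XT.lf (nat_lit 0) (nat_lit 144867418159) (nat_lit 152) (nat_lit 697169928069) (nat_lit 0) (nat_lit 143262926168) (nat_lit 1) (nat_lit 5) (nat_lit 3)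 (nat_lit 4) (nat_lit 1) (nat_lit 4) (nat_lit 326) (nat_lit 212) (nat_lit 182)) (XT.lf (nat_lit 0) (nat_lit 157181440173) (nat_lit 152) (nat_lit 751308528824) (nat_lit 0) (nat_lit 155563833788) (nat_lit 1) (nat_lit 5) (nat_lit 3) (nat_lit 4) (nat_lit 1) (nat_lit 4) (nat_lit 327) (nat_lit 212) (nat_lit 181)))) (XT.nd (nat_lit 156) (nat_lit 0) (nat_lit 0) (XT.nd (nat_lit 78) (nat_lit 0) (nat_lit 0) (XT.lf (nat_lit 0) (nat_lit 170470265060) (nat_lit 152) (nat_lit 809797673658) (nat_lit 0) (nat_lit 168840515716) (nat_lit 1) (nat_lit 5) (nat_lit 3) (nat_lit 4) (nat_lit 1) (nat_lit 4) (nat_lit 328) (nat_lit 212) (nat_lit 180)) (XT.lf (nat_lit 0) (nat_lit 184812641411) (nat_lit 152) (nat_lit 872983964911) (nat_lit 0) (nat_lit 183171648588) (nat_lit 1) (nat_lit 5) (nat_lit 3) (nat_lit 4) (nat_lit 1) (nat_lit 4) (nat_lit 329) (nat_lit 212) (nat_lit 179))) (XT.nd (nat_lit 78) (nat_lit 0) (nat_lit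 0) (XT.lf (nat_lit 0) (nat_lit 200293561086) (nat_lit 152) (nat_lit 941241839866) (nat_lit 0) (nat_lit 198642157634) (nat_lit 1) (nat_lit 5) (nat_lit 3) (nat_lit 4) (nat_lit 1) (nat_lit 4) (nat_lit 330) (nat_lit 212) (nat_lit 178)) (XT.lf (nat_lit 0) (nat_lit 217004762869) (nat_lit 152) (nat_lit 1014975789632) (nat_lit 0) (nat_lit 215343719945) (nat_lit 1) (nat_lit 5) (nat_lit 3) (nat_lit 4) (nat_lit 1) (nat_lit 4) (nat_lit 331) (nat_lit 212) (nat_lit 177))))))))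
noncomputable def xc11 : XT := (XT.nd (nat_lit 35724) (nat_lit 0) (nat_lit 0) (XT.nd (nat_lit 34710) (nat_lit 0) (nat_lit 0) (XT.nd (nat_lit 468) (nat_lit 0) (nat_lit 0) (XT.nd (nat_lit 234) (nat_lit 0) (nat_lit 0) (XT.nd (nat_lit 78) (nat_lit 0) (nat_lit 0) (XT.lf (nat_lit 0) (nat_lit 235045276104) (nat_lit 152) (nat_lit 1094622756135) (nat_lit 0) (nat_lit 233375307743) (nat_lit 1) (nat_lit 5) (nat_lit 3) (nat_lit 4) (nat_lit 1) (nat_lit 4) (nat_lit 332) (nat_lit 212) (nat_lit 176)) (XT.nd (nat_lit 78) (nat_lit 0) (nat_lit 0) (XT.lf (nat_lit 0) (nat_lit 254522007534) (nat_lit 152) (nat_lit 1180654721398) (nat_lit 0) (nat_lit 252843774880) (nat_lit 1) (nat_lit 5) (nat_lit 3) (nat_lit 4) (nat_lit 1) (nat_lit 4) (nat_lit 333) (nat_lit 212) (nat_lit 175)) (XT.lf (nat_lit 0) (nat_lit 275550374829) (nat_lit 152) (nat_lit 1273581504475) (nat_lit 0) (nat_lit 273864490052) (nat_lit 1) (nat_lit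 5) (nat_lit 3) (nat_lit 4) (nat_lit 1) (nat_lit 4) (nat_lit 334) (nat_lit 212) (nat_lit 174)))) (XT.nd (nat_lit 78) (nat_lit 0) (nat_lit 0) (XT.lf (nat_lit 0) (nat_lit 298254990535) (nat_lit 152) (nat_lit 1373953782598) (nat_lit 0) (nat_lit 296562020459) (nat_lit 1) (nat_lit 5) (nat_lit 3) (nat_lit 4) (nat_lit 1) (nat_lit 4) (nat_lit 335) (nat_lit 212) (nat_lit 173)) (XT.nd (nat_lit 78) (nat_lit 0) (nat_lit 0) (XT.lf (nat_lit 0) (nat_lit 322770400524) (nat_lit 152) (nat_lit 1482366354453) (nat_lit 0) (nat_lit 321070869985) (nat_lit 1) (nat_lit 5) (nat_lit 3) (nat_lit 4) (nat_lit 1) (nat_lit 4) (nat_lit 336) (nat_lit 212) (nat_lit 172)) (XT.lf (nat_lit 0) (nat_lit 349241881298) (nat_lit 152) (nat_lit 1599461664910) (nat_lit 0) (nat_lit 347536276256) (nat_lit 1) (nat_lit 5) (nat_lit 3) (nat_lit 4) (nat_lit 1) (nat_lit 4) (nat_lit 337) (nat_lit 212) (nat_lit 171))))) (XT.nd (nat_lit 234)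 (nat_lit 0) (nat_lit 0) (XT.nd (nat_lit 78) (nat_lit 0) (nat_lit 0) (XT.lf (nat_lit 0) (nat_lit 377826300891) (nat_lit 152) (nat_lit 1725933612105) (nat_lit 0) (nat_lit 376115071311) (nat_lit 1) (nat_lit 5) (nat_lit 3) (nat_lit 4) (nat_lit 1) (nat_lit 4) (nat_lit 338) (nat_lit 212) (nat_lit 170)) (XT.nd (nat_lit 78) (nat_lit 0) (nat_lit 0) (XT.lf (nat_lit 0) (nat_lit 408693048458) (nat_lit 152) (nat_lit 1862531659429) (nat_lit 0) (nat_lit 406976610971) (nat_lit 1) (nat_lit 5) (nat_lit 3) (nat_lit 4) (nat_lit 1) (nat_lit 4) (nat_lit 339) (nat_lit 212) (nat_lit 169)) (XT.lf (nat_lit 0) (nat_lit 442025038058) (nat_lit 152) (nat_lit 2010065276791) (nat_lit 0) (nat_lit 440303778435) (nat_lit 1) (nat_lit 5) (nat_lit 3) (nat_lit 4) (nat_lit 1) (nat_lit 4) (nat_lit 340) (nat_lit 212) (nat_lit 168)))) (XT.nd (nat_lit 33852) (nat_lit 0) (nat_lit 152) (XT.nd (nat_lit 78) (nat_lit 0) (nat_lit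 0) (XT.lf (nat_lit 0) (nat_lit 478019792591) (nat_lit 152) (nat_lit 2169408737481) (nat_lit 0) (nat_lit 476294068028) (nat_lit 1) (nat_lit 5) (nat_lit 3) (nat_lit 4) (nat_lit 1) (nat_lit 4) (nat_lit 341) (nat_lit 212) (nat_lit 167)) (XT.lf (nat_lit 0) (nat_lit 516890614308) (nat_lit 152) (nat_lit 2341506299043) (nat_lit 0) (nat_lit 515160755541) (nat_lit 1) (nat_lit 5) (nat_lit 3) (nat_lit 4) (nat_lit 1) (nat_lit 4) (nat_lit 342) (nat_lit 212) (nat_lit 166))) (XT.nd (nat_lit 78) (nat_lit 0) (nat_lit 0) (XT.lf (nat_lit 0) (nat_lit 38153577807) (nat_lit 76) (nat_lit 2283041208) (nat_lit 76) (nat_lit 2283041208) (nat_lit 3) (nat_lit 4) (nat_lit 4) (nat_lit 5) (nat_lit 4) (nat_lit 4) (nat_lit 294) (nat_lit 213) (nat_lit 213)) (XT.lf (nat_lit 0) (nat_lit 86285509472) (nat_lit 76) (nat_lit 2986049526) (nat_lit 76) (nat_lit 2832124789) (nat_lit 3) (nat_lit 4) (nat_lit 4) (nat_lit 5) (nat_lit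 4) (nat_lit 4) (nat_lit 295) (nat_lit 213) (nat_lit 212)))))) (XT.nd (nat_lit 468) (nat_lit 0) (nat_lit 0) (XT.nd (nat_lit 234) (nat_lit 0) (nat_lit 0) (XT.nd (nat_lit 78) (nat_lit 152) (nat_lit 0) (XT.lf (nat_lit 0) (nat_lit 96873255283) (nat_lit 76) (nat_lit 1366357746) (nat_lit 76) (nat_lit 1069910102) (nat_lit 3) (nat_lit 4) (nat_lit 4) (nat_lit 5) (nat_lit 4) (nat_lit 4) (nat_lit 296) (nat_lit 213) (nat_lit 211)) (XT.nd (nat_lit 78) (nat_lit 0) (nat_lit 0) (XT.lf (nat_lit 0) (nat_lit 728560554) (nat_lit 152) (nat_lit 106034961250) (nat_lit 0) (nat_lit 331881575) (nat_lit 1) (nat_lit 5) (nat_lit 3) (nat_lit 4) (nat_lit 1) (nat_lit 4) (nat_lit 297) (nat_lit 213) (nat_lit 210)) (XT.lf (nat_lit 0) (nat_lit 2620793876) (nat_lit 152) (nat_lit 110769670424) (nat_lit 0) (nat_lit 2110975620) (nat_lit 1) (nat_lit 5) (nat_lit 3) (nat_lit 4) (nat_lit 1) (nat_lit 4) (nat_lit 298) (nat_lit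 213) (nat_lit 209)))) (XT.nd (nat_lit 78) (nat_lit 0) (nat_lit 0) (XT.lf (nat_lit 0) (nat_lit 4575383714) (nat_lit 152) (nat_lit 116051005481) (nat_lit 0) (nat_lit 3960806868) (nat_lit 1) (nat_lit 5) (nat_lit 3) (nat_lit 4) (nat_lit 1) (nat_lit 4) (nat_lit 299) (nat_lit 213) (nat_lit 208)) (XT.nd (nat_lit 78) (nat_lit 0) (nat_lit 0) (XT.lf (nat_lit 0) (nat_lit 6603912822) (nat_lit 152) (nat_lit 121910263222) (nat_lit 0) (nat_lit 5892337281) (nat_lit 1) (nat_lit 5) (nat_lit 3) (nat_lit 4) (nat_lit 1) (nat_lit 4) (nat_lit 300) (nat_lit 213) (nat_lit 207)) (XT.lf (nat_lit 0) (nat_lit 8718402113) (nat_lit 152) (nat_lit 128382165174) (nat_lit 0) (nat_lit 7917012966) (nat_lit 1) (nat_lit 5) (nat_lit 3) (nat_lit 4) (nat_lit 1) (nat_lit 4) (nat_lit 301) (nat_lit 213) (nat_lit 206))))) (XT.nd (nat_lit 234) (nat_lit 0) (nat_lit 0) (XT.nd (nat_lit 78) (nat_lit 0) (nat_lit 0) (XT.lf (nat_lit 0)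 (nat_lit 10931381895) (nat_lit 152) (nat_lit 135505063350) (nat_lit 0) (nat_lit 10046832002) (nat_lit 1) (nat_lit 5) (nat_lit 3) (nat_lit 4) (nat_lit 1) (nat_lit 4) (nat_lit 302) (nat_lit 213) (nat_lit 205)) (XT.nd (nat_lit 78) (nat_lit 0) (nat_lit 0) (XT.lf (nat_lit 0) (nat_lit 13255966121) (nat_lit 152) (nat_lit 143321167514) (nat_lit 0) (nat_lit 12294415537) (nat_lit 1) (nat_lit 5) (nat_lit 3) (nat_lit 4) (nat_lit 1) (nat_lit 4) (nat_lit 303) (nat_lit 213) (nat_lit 204)) (XT.lf (nat_lit 0) (nat_lit 15705930106) (nat_lit 152) (nat_lit 151876795323) (nat_lit 0) (nat_lit 14673082585) (nat_lit 1) (nat_lit 5) (nat_lit 3) (nat_lit 4) (nat_lit 1) (nat_lit 4) (nat_lit 304) (nat_lit 213) (nat_lit 203)))) (XT.nd (nat_lit 156) (nat_lit 0) (nat_lit 0) (XT.nd (nat_lit 78) (nat_lit 0) (nat_lit 0) (XT.lf (nat_lit 0) (nat_lit 18295792154) (nat_lit 152) (nat_lit 161222646792) (nat_lit 0) (nat_lit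 17196928952) (nat_lit 1) (nat_lit 5) (nat_lit 3) (nat_lit 4) (nat_lit 1) (nat_lit 4) (nat_lit 305) (nat_lit 213) (nat_lit 202)) (XT.lf (nat_lit 0) (nat_lit 21040899597) (nat_lit 152) (nat_lit 171414104746) (nat_lit 0) (nat_lit 19880910763) (nat_lit 1) (nat_lit 5) (nat_lit 3) (nat_lit 4) (nat_lit 1) (nat_lit 4) (nat_lit 306) (nat_lit 213) (nat_lit 201))) (XT.nd (nat_lit 78) (nat_lit 0) (nat_lit 0) (XT.lf (nat_lit 0) (nat_lit 23957519737) (nat_lit 152) (nat_lit 182511563009) (nat_lit 0) (nat_lit 22740933096) (nat_lit 1) (nat_lit 5) (nat_lit 3) (nat_lit 4) (nat_lit 1) (nat_lit 4) (nat_lit 307) (nat_lit 213) (nat_lit 200)) (XT.lf (nat_lit 0) (nat_lit 27062936249) (nat_lit 152) (nat_lit 194580784296) (nat_lit 0) (nat_lit 25793944232) (nat_lit 1) (nat_lit 5) (nat_lit 3) (nat_lit 4) (nat_lit 1) (nat_lit 4) (nat_lit 308) (nat_lit 213) (nat_lit 199))))))) (XT.nd (nat_lit 1014) (nat_lit 0) (nat_lit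 0) (XT.nd (nat_lit 468) (nat_lit 0) (nat_lit 0) (XT.nd (nat_lit 234) (nat_lit 0) (nat_lit 0) (XT.nd (nat_lit 78) (nat_lit 0) (nat_lit 0) (XT.lf (nat_lit 0) (nat_lit 30375551602) (nat_lit 152) (nat_lit 207693289919) (nat_lit 0) (nat_lit 29058036089) (nat_lit 1) (nat_lit 5) (nat_lit 3) (nat_lit 4) (nat_lit 1) (nat_lit 4) (nat_lit 309) (nat_lit 213) (nat_lit 198)) (XT.nd (nat_lit 78) (nat_lit 0) (nat_lit 0) (XT.lf (nat_lit 0) (nat_lit 33914996110) (nat_lit 152) (nat_lit 221926783616) (nat_lit 0) (nat_lit 32552551432) (nat_lit 1) (nat_lit 5) (nat_lit 3) (nat_lit 4) (nat_lit 1) (nat_lit 4) (nat_lit 310) (nat_lit 213) (nat_lit 197)) (XT.lf (nat_lit 0) (nat_lit 37702244257) (nat_lit 152) (nat_lit 237365612014) (nat_lit 0) (nat_lit 36298198502) (nat_lit 1) (nat_lit 5) (nat_lit 3) (nat_lit 4) (nat_lit 1) (nat_lit 4) (nat_lit 311) (nat_lit 213) (nat_lit 196)))) (XT.nd (nat_lit 78) (nat_lit 0)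 (nat_lit 0) (XT.lf (nat_lit 0) (nat_lit 41759738996) (nat_lit 152) (nat_lit 254101264469) (nat_lit 0) (nat_lit 40317173725) (nat_lit 1) (nat_lit 5) (nat_lit 3) (nat_lit 4) (nat_lit 1) (nat_lit 4) (nat_lit 312) (nat_lit 213) (nat_lit 195)) (XT.nd (nat_lit 78) (nat_lit 0) (nat_lit 0) (XT.lf (nat_lit 0) (nat_lit 46111524740) (nat_lit 152) (nat_lit 272232915216) (nat_lit 0) (nat_lit 44633293250) (nat_lit 1) (nat_lit 5) (nat_lit 3) (nat_lit 4) (nat_lit 1) (nat_lit 4) (nat_lit 313) (nat_lit 213) (nat_lit 194)) (XT.lf (nat_lit 0) (nat_lit 50783389849) (nat_lit 152) (nat_lit 291868011075) (nat_lit 0) (nat_lit 49272134083) (nat_lit 1) (nat_lit 5) (nat_lit 3) (nat_lit 4) (nat_lit 1) (nat_lit 4) (nat_lit 314) (nat_lit 213) (nat_lit 193))))) (XT.nd (nat_lit 234) (nat_lit 0) (nat_lit 0) (XT.nd (nat_lit 78) (nat_lit 0) (nat_lit 0) (XT.lf (nat_lit 0) (nat_lit 55803019450) (nat_lit 152) (nat_lit 313122908170)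 (nat_lit 0) (nat_lit 54261185650) (nat_lit 1) (nat_lit 5) (nat_lit 3) (nat_lit 4) (nat_lit 1) (nat_lit 4) (nat_lit 315) (nat_lit 213) (nat_lit 192)) (XT.nd (nat_lit 78) (nat_lit 0) (nat_lit 0) (XT.lf (nat_lit 0) (nat_lit 61200159496) (nat_lit 152) (nat_lit 336123561446) (nat_lit 0) (nat_lit 59630012701) (nat_lit 1) (nat_lit 5) (nat_lit 3) (nat_lit 4) (nat_lit 1) (nat_lit 4) (nat_lit 316) (nat_lit 213) (nat_lit 191)) (XT.lf (nat_lit 0) (nat_lit 67006793038) (nat_lit 152) (nat_lit 361006271070) (nat_lit 0) (nat_lit 65410430508) (nat_lit 1) (nat_lit 5) (nat_lit 3) (nat_lit 4) (nat_lit 1) (nat_lit 4) (nat_lit 317) (nat_lit 213) (nat_lit 190)))) (XT.nd (nat_lit 156) (nat_lit 0) (nat_lit 0) (XT.nd (nat_lit 78) (nat_lit 0) (nat_lit 0) (XT.lf (nat_lit 0) (nat_lit 73257329758) (nat_lit 152) (nat_lit 387918490138) (nat_lit 0) (nat_lit 71636693399) (nat_lit 1) (nat_lit 5) (nat_lit 3) (nat_lit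 4) (nat_lit 1) (nat_lit 4) (nat_lit 318) (nat_lit 213) (nat_lit 189)) (XT.lf (nat_lit 0) (nat_lit 79988809873) (nat_lit 152) (nat_lit 417019698465) (nat_lit 0) (nat_lit 78345697746) (nat_lit 1) (nat_lit 5) (nat_lit 3) (nat_lit 4) (nat_lit 1) (nat_lit 4) (nat_lit 319) (nat_lit 213) (nat_lit 188))) (XT.nd (nat_lit 78) (nat_lit 0) (nat_lit 0) (XT.lf (nat_lit 0) (nat_lit 87241123635) (nat_lit 152) (nat_lit 448482347656) (nat_lit 0) (nat_lit 85577200612) (nat_lit 1) (nat_lit 5) (nat_lit 3) (nat_lit 4) (nat_lit 1) (nat_lit 4) (nat_lit 320) (nat_lit 213) (nat_lit 187)) (XT.lf (nat_lit 0) (nat_lit 95057247719) (nat_lit 152) (nat_lit 482492883041) (nat_lit 0) (nat_lit 93374055348) (nat_lit 1) (nat_lit 5) (nat_lit 3) (nat_lit 4) (nat_lit 1) (nat_lit 4) (nat_lit 321) (nat_lit 213) (nat_lit 186)))))) (XT.nd (nat_lit 468) (nat_lit 0) (nat_lit 0) (XT.nd (nat_lit 234) (nat_lit 0) (nat_lit 0) (XT.nd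 (nat_lit 78) (nat_lit 0) (nat_lit 0) (XT.lf (nat_lit 0) (nat_lit 103483499897) (nat_lit 152) (nat_lit 519252848531) (nat_lit 0) (nat_lit 101782465536) (nat_lit 1) (nat_lit 5) (nat_lit 3) (nat_lit 4) (nat_lit 1) (nat_lit 4) (nat_lit 322) (nat_lit 213) (nat_lit 185)) (XT.nd (nat_lit 78) (nat_lit 0) (nat_lit 0) (XT.lf (nat_lit 0) (nat_lit 112569813514) (nat_lit 152) (nat_lit 558980080961) (nat_lit 0) (nat_lit 110852258794) (nat_lit 1) (nat_lit 5) (nat_lit 3) (nat_lit 4) (nat_lit 1) (nat_lit 4) (nat_lit 323) (nat_lit 213) (nat_lit 184)) (XT.lf (nat_lit 0) (nat_lit 122370033394) (nat_lit 152) (nat_lit 601910000966) (nat_lit 0) (nat_lit 120637182043) (nat_lit 1) (nat_lit 5) (nat_lit 3) (nat_lit 4) (nat_lit 1) (nat_lit 4) (nat_lit 324) (nat_lit 213) (nat_lit 183)))) (XT.nd (nat_lit 78) (nat_lit 0) (nat_lit 0) (XT.lf (nat_lit 0) (nat_lit 132942234911) (nat_lit 152) (nat_lit 648297008073) (nat_lit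 0) (nat_lit 131195220015) (nat_lit 1) (nat_lit 5) (nat_lit 3) (nat_lit 4) (nat_lit 1) (nat_lit 4) (nat_lit 325) (nat_lit 213) (nat_lit 182)) (XT.nd (nat_lit 78) (nat_lit 0) (nat_lit 0) (XT.lf (nat_lit 0) (nat_lit 144349068151) (nat_lit 152) (nat_lit 698415988249) (nat_lit 0) (nat_lit 142588938860) (nat_lit 1) (nat_lit 5) (nat_lit 3) (nat_lit 4) (nat_lit 1) (nat_lit 4) (nat_lit 326) (nat_lit 213) (nat_lit 181)) (XT.lf (nat_lit 0) (nat_lit 156658129161) (nat_lit 152) (nat_lit 752563942859) (nat_lit 0) (nat_lit 154885856912) (nat_lit 1) (nat_lit 5) (nat_lit 3) (nat_lit 4) (nat_lit 1) (nat_lit 4) (nat_lit 327) (nat_lit 213) (nat_lit 180))))) (XT.nd (nat_lit 234) (nat_lit 0) (nat_lit 0) (XT.nd (nat_lit 78) (nat_lit 0) (nat_lit 0) (XT.lf (nat_lit 0) (nat_lit 169942360525) (nat_lit 152) (nat_lit 811061748670) (nat_lit 0) (nat_lit 168158844796) (nat_lit 1) (nat_lit 5) (nat_lit 3) (nat_lit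 4) (nat_lit 1) (nat_lit 4) (nat_lit 328) (nat_lit 213) (nat_lit 179)) (XT.nd (nat_lit 78) (nat_lit 0) (nat_lit 0) (XT.lf (nat_lit 0) (nat_lit 184280483615) (nat_lit 152) (nat_lit 874256059347) (nat_lit 0) (nat_lit 182486557257) (nat_lit 1) (nat_lit 5) (nat_lit 3) (nat_lit 4) (nat_lit 1) (nat_lit 4) (nat_lit 329) (nat_lit 213) (nat_lit 178)) (XT.lf (nat_lit 0) (nat_lit 199757465085) (nat_lit 152) (nat_lit 942521359694) (nat_lit 0) (nat_lit 197953899255) (nat_lit 1) (nat_lit 5) (nat_lit 3) (nat_lit 4) (nat_lit 1) (nat_lit 4) (nat_lit 330) (nat_lit 213) (nat_lit 177)))) (XT.nd (nat_lit 156) (nat_lit 0) (nat_lit 0) (XT.nd (nat_lit 78) (nat_lit 0) (nat_lit 0) (XT.lf (nat_lit 0) (nat_lit 216465020382) (nat_lit 152) (nat_lit 1016262184823) (nat_lit 0) (nat_lit 214652529116) (nat_lit 1) (nat_lit 5) (nat_lit 3) (nat_lit 4) (nat_lit 1) (nat_lit 4) (nat_lit 331) (nat_lit 213) (nat_lit 176)) (XT.lf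 (nat_lit 0) (nat_lit 234502157240) (nat_lit 152) (nat_lit 1095915517403) (nat_lit 0) (nat_lit 232681401681) (nat_lit 1) (nat_lit 5) (nat_lit 3) (nat_lit 4) (nat_lit 1) (nat_lit 4) (nat_lit 332) (nat_lit 213) (nat_lit 175))) (XT.nd (nat_lit 78) (nat_lit 0) (nat_lit 0) (XT.lf (nat_lit 0) (nat_lit 253975762397) (nat_lit 152) (nat_lit 1181953377182) (nat_lit 0) (nat_lit 252147354714) (nat_lit 1) (nat_lit 5) (nat_lit 3) (nat_lit 4) (nat_lit 1) (nat_lit 4) (nat_lit 333) (nat_lit 213) (nat_lit 174)) (XT.lf (nat_lit 0) (nat_lit 275001234993) (nat_lit 152) (nat_lit 1274885618143) (nat_lit 0) (nat_lit 273165742011) (nat_lit 1) (nat_lit 5) (nat_lit 3) (nat_lit 4) (nat_lit 1) (nat_lit 4) (nat_lit 334) (nat_lit 213) (nat_lit 173))))))))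
noncomputable def xc12 : XT := (XT.nd (nat_lit 35490) (nat_lit 0) (nat_lit 0) (XT.nd (nat_lit 34476) (nat_lit 0) (nat_lit 0) (XT.nd (nat_lit 468) (nat_lit 0) (nat_lit 0) (XT.nd (nat_lit 234) (nat_lit 0) (nat_lit 0) (XT.nd (nat_lit 78) (nat_lit 0) (nat_lit 0) (XT.lf (nat_lit 0) (nat_lit 297703170423) (nat_lit 152) (nat_lit 1375262949863) (nat_lit 0) (nat_lit 295861116979) (nat_lit 1) (nat_lit 5) (nat_lit 3) (nat_lit 4) (nat_lit 1) (nat_lit 4) (nat_lit 335) (nat_lit 213) (nat_lit 172)) (XT.nd (nat_lit 78) (nat_lit 0) (nat_lit 0) (XT.lf (nat_lit 0) (nat_lit 322216098674) (nat_lit 152) (nat_lit 1483680200975) (nat_lit 0) (nat_lit 320367970728) (nat_lit 1) (nat_lit 5) (nat_lit 3) (nat_lit 4) (nat_lit 1) (nat_lit 4) (nat_lit 336) (nat_lit 213) (nat_lit 171)) (XT.lf (nat_lit 0) (nat_lit 348685281543) (nat_lit 152) (nat_lit 1600779844077) (nat_lit 0) (nat_lit 346831529058) (nat_lit 1) (nat_lit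 5) (nat_lit 3) (nat_lit 4) (nat_lit 1) (nat_lit 4) (nat_lit 337) (nat_lit 213) (nat_lit 170)))) (XT.nd (nat_lit 78) (nat_lit 0) (nat_lit 0) (XT.lf (nat_lit 0) (nat_lit 377267573447) (nat_lit 152) (nat_lit 1727255802980) (nat_lit 0) (nat_lit 375408613055) (nat_lit 1) (nat_lit 5) (nat_lit 3) (nat_lit 4) (nat_lit 1) (nat_lit 4) (nat_lit 338) (nat_lit 213) (nat_lit 169)) (XT.nd (nat_lit 78) (nat_lit 0) (nat_lit 0) (XT.lf (nat_lit 0) (nat_lit 408132350931) (nat_lit 152) (nat_lit 1863857564849) (nat_lit 0) (nat_lit 406268568403) (nat_lit 1) (nat_lit 5) (nat_lit 3) (nat_lit 4) (nat_lit 1) (nat_lit 4) (nat_lit 339) (nat_lit 213) (nat_lit 168)) (XT.lf (nat_lit 0) (nat_lit 441462516380) (nat_lit 152) (nat_lit 2011394621605) (nat_lit 0) (nat_lit 439594268911) (nat_lit 1) (nat_lit 5) (nat_lit 3) (nat_lit 4) (nat_lit 1) (nat_lit 4) (nat_lit 340) (nat_lit 213) (nat_lit 167))))) (XT.nd (nat_lit 33774)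 (nat_lit 0) (nat_lit 152) (XT.nd (nat_lit 78) (nat_lit 0) (nat_lit 0) (XT.lf (nat_lit 0) (nat_lit 477455581885) (nat_lit 152) (nat_lit 2170741266918) (nat_lit 0) (nat_lit 475583200212) (nat_lit 1) (nat_lit 5) (nat_lit 3) (nat_lit 4) (nat_lit 1) (nat_lit 4) (nat_lit 341) (nat_lit 213) (nat_lit 166)) (XT.nd (nat_lit 33618) (nat_lit 0) (nat_lit 152) (XT.lf (nat_lit 0) (nat_lit 516324839686) (nat_lit 152) (nat_lit 2342841777205) (nat_lit 0) (nat_lit 514448630047) (nat_lit 1) (nat_lit 5) (nat_lit 3) (nat_lit 4) (nat_lit 1) (nat_lit 4) (nat_lit 342) (nat_lit 213) (nat_lit 165)) (XT.lf (nat_lit 0) (nat_lit 29025638334) (nat_lit 76) (nat_lit 3881020063) (nat_lit 76) (nat_lit 3881020063) (nat_lit 3) (nat_lit 4) (nat_lit 4) (nat_lit 5) (nat_lit 4) (nat_lit 4) (nat_lit 292) (nat_lit 214) (nat_lit 214)))) (XT.nd (nat_lit 78) (nat_lit 0) (nat_lit 0) (XT.lf (nat_lit 0) (nat_lit 66879062724) (nat_lit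 76) (nat_lit 6282058293) (nat_lit 76) (nat_lit 6115819576) (nat_lit 3) (nat_lit 4) (nat_lit 4) (nat_lit 5) (nat_lit 4) (nat_lit 4) (nat_lit 293) (nat_lit 214) (nat_lit 213)) (XT.nd (nat_lit 78) (nat_lit 0) (nat_lit 0) (XT.lf (nat_lit 0) (nat_lit 76209085199) (nat_lit 76) (nat_lit 4777361154) (nat_lit 76) (nat_lit 4457197699) (nat_lit 3) (nat_lit 4) (nat_lit 4) (nat_lit 5) (nat_lit 4) (nat_lit 4) (nat_lit 294) (nat_lit 214) (nat_lit 212)) (XT.lf (nat_lit 0) (nat_lit 86096633116) (nat_lit 76) (nat_lit 3239031985) (nat_lit 76) (nat_lit 2776345624) (nat_lit 3) (nat_lit 4) (nat_lit 4) (nat_lit 5) (nat_lit 4) (nat_lit 4) (nat_lit 295) (nat_lit 214) (nat_lit 211)))))) (XT.nd (nat_lit 468) (nat_lit 0) (nat_lit 0) (XT.nd (nat_lit 234) (nat_lit 0) (nat_lit 0) (XT.nd (nat_lit 78) (nat_lit 152) (nat_lit 0) (XT.lf (nat_lit 0) (nat_lit 96600299353) (nat_lit 76) (nat_lit 1657954761) (nat_lit 76)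 (nat_lit 1063302747) (nat_lit 3) (nat_lit 4) (nat_lit 4) (nat_lit 5) (nat_lit 4) (nat_lit 4) (nat_lit 296) (nat_lit 214) (nat_lit 210)) (XT.nd (nat_lit 78) (nat_lit 0) (nat_lit 0) (XT.lf (nat_lit 0) (nat_lit 674199098) (nat_lit 152) (nat_lit 106427679919) (nat_lit 0) (nat_lit 10456105) (nat_lit 1) (nat_lit 5) (nat_lit 3) (nat_lit 4) (nat_lit 1) (nat_lit 4) (nat_lit 297) (nat_lit 214) (nat_lit 209)) (XT.lf (nat_lit 0) (nat_lit 2523633310) (nat_lit 152) (nat_lit 111243085799) (nat_lit 0) (nat_lit 1755131726) (nat_lit 1) (nat_lit 5) (nat_lit 3) (nat_lit 4) (nat_lit 1) (nat_lit 4) (nat_lit 298) (nat_lit 214) (nat_lit 208)))) (XT.nd (nat_lit 78) (nat_lit 0) (nat_lit 0) (XT.lf (nat_lit 0) (nat_lit 4438594342) (nat_lit 152) (nat_lit 116599140029) (nat_lit 0) (nat_lit 3573094063) (nat_lit 1) (nat_lit 5) (nat_lit 3) (nat_lit 4) (nat_lit 1) (nat_lit 4) (nat_lit 299) (nat_lit 214) (nat_lit 207))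 (XT.nd (nat_lit 78) (nat_lit 0) (nat_lit 0) (XT.lf (nat_lit 0) (nat_lit 6430430111) (nat_lit 152) (nat_lit 122527582190) (nat_lit 0) (nat_lit 5475116226) (nat_lit 1) (nat_lit 5) (nat_lit 3) (nat_lit 4) (nat_lit 1) (nat_lit 4) (nat_lit 300) (nat_lit 214) (nat_lit 206)) (XT.lf (nat_lit 0) (nat_lit 8510944088) (nat_lit 152) (nat_lit 129063543790) (nat_lit 0) (nat_lit 7472469457) (nat_lit 1) (nat_lit 5) (nat_lit 3) (nat_lit 4) (nat_lit 1) (nat_lit 4) (nat_lit 301) (nat_lit 214) (nat_lit 205))))) (XT.nd (nat_lit 234) (nat_lit 0) (nat_lit 0) (XT.nd (nat_lit 78) (nat_lit 0) (nat_lit 0) (XT.lf (nat_lit 0) (nat_lit 10692465246) (nat_lit 152) (nat_lit 136245756453) (nat_lit 0) (nat_lit 9576989923) (nat_lit 1) (nat_lit 5) (nat_lit 3) (nat_lit 4) (nat_lit 1) (nat_lit 4) (nat_lit 302) (nat_lit 214) (nat_lit 204)) (XT.nd (nat_lit 78) (nat_lit 0) (nat_lit 0) (XT.lf (nat_lit 0) (nat_lit 12987921116)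 (nat_lit 152) (nat_lit 144116781440) (nat_lit 0) (nat_lit 11801148858) (nat_lit 1) (nat_lit 5) (nat_lit 3) (nat_lit 4) (nat_lit 1) (nat_lit 4) (nat_lit 303) (nat_lit 214) (nat_lit 203)) (XT.lf (nat_lit 0) (nat_lit 15410914401) (nat_lit 152) (nat_lit 152723261862) (nat_lit 0) (nat_lit 14158126461) (nat_lit 1) (nat_lit 5) (nat_lit 3) (nat_lit 4) (nat_lit 1) (nat_lit 4) (nat_lit 304) (nat_lit 214) (nat_lit 202)))) (XT.nd (nat_lit 156) (nat_lit 0) (nat_lit 0) (XT.nd (nat_lit 78) (nat_lit 0) (nat_lit 0) (XT.lf (nat_lit 0) (nat_lit 17975803580) (nat_lit 152) (nat_lit 162116199085) (nat_lit 0) (nat_lit 16661890008) (nat_lit 1) (nat_lit 5) (nat_lit 3) (nat_lit 4) (nat_lit 1) (nat_lit 4) (nat_lit 305) (nat_lit 214) (nat_lit 201)) (XT.lf (nat_lit 0) (nat_lit 20697787994) (nat_lit 152) (nat_lit 172351254958) (nat_lit 0) (nat_lit 19327276616) (nat_lit 1) (nat_lit 5) (nat_lit 3) (nat_lit 4) (nat_lit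 1) (nat_lit 4) (nat_lit 306) (nat_lit 214) (nat_lit 200))) (XT.nd (nat_lit 78) (nat_lit 0) (nat_lit 0) (XT.lf (nat_lit 0) (nat_lit 23592997923) (nat_lit 152) (nat_lit 183489081665) (nat_lit 0) (nat_lit 22170081169) (nat_lit 1) (nat_lit 5) (nat_lit 3) (nat_lit 4) (nat_lit 1) (nat_lit 4) (nat_lit 307) (nat_lit 214) (nat_lit 199)) (XT.lf (nat_lit 0) (nat_lit 26678590167) (nat_lit 152) (nat_lit 195595681141) (nat_lit 0) (nat_lit 25207149915) (nat_lit 1) (nat_lit 5) (nat_lit 3) (nat_lit 4) (nat_lit 1) (nat_lit 4) (nat_lit 308) (nat_lit 214) (nat_lit 198))))))) (XT.nd (nat_lit 1014) (nat_lit 0) (nat_lit 0) (XT.nd (nat_lit 468) (nat_lit 0) (nat_lit 0) (XT.nd (nat_lit 234) (nat_lit 0) (nat_lit 0) (XT.nd (nat_lit 78) (nat_lit 0) (nat_lit 0) (XT.lf (nat_lit 0) (nat_lit 29972849715) (nat_lit 152) (nat_lit 208742796199) (nat_lit 0) (nat_lit 28456480300) (nat_lit 1) (nat_lit 5) (nat_lit 3) (nat_lit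 4) (nat_lit 1) (nat_lit 4) (nat_lit 309) (nat_lit 214) (nat_lit 197)) (XT.nd (nat_lit 78) (nat_lit 0) (nat_lit 0) (XT.lf (nat_lit 0) (nat_lit 33495298106) (nat_lit 152) (nat_lit 223008335668) (nat_lit 0) (nat_lit 31937327614) (nat_lit 1) (nat_lit 5) (nat_lit 3) (nat_lit 4) (nat_lit 1) (nat_lit 4) (nat_lit 310) (nat_lit 214) (nat_lit 196)) (XT.lf (nat_lit 0) (nat_lit 37266809109) (nat_lit 152) (nat_lit 238476836078) (nat_lit 0) (nat_lit 35670319100) (nat_lit 1) (nat_lit 5) (nat_lit 3) (nat_lit 4) (nat_lit 1) (nat_lit 4) (nat_lit 311) (nat_lit 214) (nat_lit 195)))) (XT.nd (nat_lit 78) (nat_lit 0) (nat_lit 0) (XT.lf (nat_lit 0) (nat_lit 41309732418) (nat_lit 152) (nat_lit 255239962617) (nat_lit 0) (nat_lit 39677576191) (nat_lit 1) (nat_lit 5) (nat_lit 3) (nat_lit 4) (nat_lit 1) (nat_lit 4) (nat_lit 312) (nat_lit 214) (nat_lit 194)) (XT.nd (nat_lit 78) (nat_lit 0) (nat_lit 0) (XT.lf (nat_lit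 0) (nat_lit 45648026098) (nat_lit 152) (nat_lit 273397052332) (nat_lit 0) (nat_lit 43982845594) (nat_lit 1) (nat_lit 5) (nat_lit 3) (nat_lit 4) (nat_lit 1) (nat_lit 4) (nat_lit 313) (nat_lit 214) (nat_lit 193)) (XT.lf (nat_lit 0) (nat_lit 50307398555) (nat_lit 152) (nat_lit 293055702790) (nat_lit 0) (nat_lit 48611640016) (nat_lit 1) (nat_lit 5) (nat_lit 3) (nat_lit 4) (nat_lit 1) (nat_lit 4) (nat_lit 314) (nat_lit 214) (nat_lit 192))))) (XT.nd (nat_lit 234) (nat_lit 0) (nat_lit 0) (XT.nd (nat_lit 78) (nat_lit 0) (nat_lit 0) (XT.lf (nat_lit 0) (nat_lit 55315460885) (nat_lit 152) (nat_lit 314332409699) (nat_lit 0) (nat_lit 53591389352) (nat_lit 1) (nat_lit 5) (nat_lit 3) (nat_lit 4) (nat_lit 1) (nat_lit 4) (nat_lit 315) (nat_lit 214) (nat_lit 191)) (XT.nd (nat_lit 78) (nat_lit 0) (nat_lit 0) (XT.lf (nat_lit 0) (nat_lit 60701890495) (nat_lit 152) (nat_lit 337353257247) (nat_lit 0) (nat_lit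 58951603227) (nat_lit 1) (nat_lit 5) (nat_lit 3) (nat_lit 4) (nat_lit 1) (nat_lit 4) (nat_lit 316) (nat_lit 214) (nat_lit 190)) (XT.lf (nat_lit 0) (nat_lit 66498606967) (nat_lit 152) (nat_lit 362254665272) (nat_lit 0) (nat_lit 64724045870) (nat_lit 1) (nat_lit 5) (nat_lit 3) (nat_lit 4) (nat_lit 1) (nat_lit 4) (nat_lit 317) (nat_lit 214) (nat_lit 189)))) (XT.nd (nat_lit 156) (nat_lit 0) (nat_lit 0) (XT.nd (nat_lit 78) (nat_lit 0) (nat_lit 0) (XT.lf (nat_lit 0) (nat_lit 72739961215) (nat_lit 152) (nat_lit 389184197674) (nat_lit 0) (nat_lit 70942924350) (nat_lit 1) (nat_lit 5) (nat_lit 3) (nat_lit 4) (nat_lit 1) (nat_lit 4) (nat_lit 318) (nat_lit 214) (nat_lit 188)) (XT.lf (nat_lit 0) (nat_lit 79462939040) (nat_lit 152) (nat_lit 418301436865) (nat_lit 0) (nat_lit 77645091279) (nat_lit 1) (nat_lit 5) (nat_lit 3) (nat_lit 4) (nat_lit 1) (nat_lit 4) (nat_lit 319) (nat_lit 214) (nat_lit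 187))) (XT.nd (nat_lit 78) (nat_lit 0) (nat_lit 0) (XT.lf (nat_lit 0) (nat_lit 86707380312) (nat_lit 152) (nat_lit 449778929450) (nat_lit 0) (nat_lit 84870263203) (nat_lit 1) (nat_lit 5) (nat_lit 3) (nat_lit 4) (nat_lit 1) (nat_lit 4) (nat_lit 320) (nat_lit 214) (nat_lit 186)) (XT.lf (nat_lit 0) (nat_lit 94516215053) (nat_lit 152) (nat_lit 483803208716) (nat_lit 0) (nat_lit 92661255955) (nat_lit 1) (nat_lit 5) (nat_lit 3) (nat_lit 4) (nat_lit 1) (nat_lit 4) (nat_lit 321) (nat_lit 214) (nat_lit 185)))))) (XT.nd (nat_lit 468) (nat_lit 0) (nat_lit 0) (XT.nd (nat_lit 234) (nat_lit 0) (nat_lit 0) (XT.nd (nat_lit 78) (nat_lit 0) (nat_lit 0) (XT.lf (nat_lit 0) (nat_lit 102935717839) (nat_lit 152) (nat_lit 520575900024) (nat_lit 0) (nat_lit 101064238381) (nat_lit 1) (nat_lit 5) (nat_lit 3) (nat_lit 4) (nat_lit 1) (nat_lit 4) (nat_lit 322) (nat_lit 214) (nat_lit 184)) (XT.nd (nat_lit 78) (nat_lit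 0) (nat_lit 0) (XT.lf (nat_lit 0) (nat_lit 112015782021) (nat_lit 152) (nat_lit 560314915618) (nat_lit 0) (nat_lit 110129005932) (nat_lit 1) (nat_lit 5) (nat_lit 3) (nat_lit 4) (nat_lit 1) (nat_lit 4) (nat_lit 323) (nat_lit 214) (nat_lit 183)) (XT.lf (nat_lit 0) (nat_lit 121810215385) (nat_lit 152) (nat_lit 603255745960) (nat_lit 0) (nat_lit 119909275750) (nat_lit 1) (nat_lit 5) (nat_lit 3) (nat_lit 4) (nat_lit 1) (nat_lit 4) (nat_lit 324) (nat_lit 214) (nat_lit 182)))) (XT.nd (nat_lit 78) (nat_lit 0) (nat_lit 0) (XT.lf (nat_lit 0) (nat_lit 132377059018) (nat_lit 152) (nat_lit 649652855231) (nat_lit 0) (nat_lit 130463004989) (nat_lit 1) (nat_lit 5) (nat_lit 3) (nat_lit 4) (nat_lit 1) (nat_lit 4) (nat_lit 325) (nat_lit 214) (nat_lit 181)) (XT.nd (nat_lit 78) (nat_lit 0) (nat_lit 0) (XT.lf (nat_lit 0) (nat_lit 143778931253) (nat_lit 152) (nat_lit 699781189263) (nat_lit 0) (nat_lit 141852734266)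 (nat_lit 1) (nat_lit 5) (nat_lit 3) (nat_lit 4) (nat_lit 1) (nat_lit 4) (nat_lit 326) (nat_lit 214) (nat_lit 180)) (XT.lf (nat_lit 0) (nat_lit 156083398741) (nat_lit 152) (nat_lit 753937804850) (nat_lit 0) (nat_lit 154145958274) (nat_lit 1) (nat_lit 5) (nat_lit 3) (nat_lit 4) (nat_lit 1) (nat_lit 4) (nat_lit 327) (nat_lit 214) (nat_lit 179))))) (XT.nd (nat_lit 234) (nat_lit 0) (nat_lit 0) (XT.nd (nat_lit 78) (nat_lit 0) (nat_lit 0) (XT.lf (nat_lit 0) (nat_lit 169363376844) (nat_lit 152) (nat_lit 812443630084) (nat_lit 0) (nat_lit 167415525748) (nat_lit 1) (nat_lit 5) (nat_lit 3) (nat_lit 4) (nat_lit 1) (nat_lit 4) (nat_lit 328) (nat_lit 214) (nat_lit 178)) (XT.nd (nat_lit 78) (nat_lit 0) (nat_lit 0) (XT.lf (nat_lit 0) (nat_lit 183697561728) (nat_lit 152) (nat_lit 875645366153) (nat_lit 0) (nat_lit 181740071161) (nat_lit 1) (nat_lit 5) (nat_lit 3) (nat_lit 4) (nat_lit 1) (nat_lit 4)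 (nat_lit 329) (nat_lit 214) (nat_lit 177)) (XT.lf (nat_lit 0) (nat_lit 199170896712) (nat_lit 152) (nat_lit 943917541863) (nat_lit 0) (nat_lit 197204480708) (nat_lit 1) (nat_lit 5) (nat_lit 3) (nat_lit 4) (nat_lit 1) (nat_lit 4) (nat_lit 330) (nat_lit 214) (nat_lit 176)))) (XT.nd (nat_lit 156) (nat_lit 0) (nat_lit 0) (XT.nd (nat_lit 78) (nat_lit 0) (nat_lit 0) (XT.lf (nat_lit 0) (nat_lit 215875075633) (nat_lit 152) (nat_lit 1017664733069) (nat_lit 0) (nat_lit 213900395336) (nat_lit 1) (nat_lit 5) (nat_lit 3) (nat_lit 4) (nat_lit 1) (nat_lit 4) (nat_lit 331) (nat_lit 214) (nat_lit 175)) (XT.lf (nat_lit 0) (nat_lit 233909086217) (nat_lit 152) (nat_lit 1097323960165) (nat_lit 0) (nat_lit 231926753796) (nat_lit 1) (nat_lit 5) (nat_lit 3) (nat_lit 4) (nat_lit 1) (nat_lit 4) (nat_lit 332) (nat_lit 214) (nat_lit 174))) (XT.nd (nat_lit 78) (nat_lit 0) (nat_lit 0) (XT.lf (nat_lit 0) (nat_lit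 253379796675) (nat_lit 152) (nat_lit 1183367277828) (nat_lit 0) (nat_lit 251390378955) (nat_lit 1) (nat_lit 5) (nat_lit 3) (nat_lit 4) (nat_lit 1) (nat_lit 4) (nat_lit 333) (nat_lit 214) (nat_lit 173)) (XT.lf (nat_lit 0) (nat_lit 274402588996) (nat_lit 152) (nat_lit 1276304572387) (nat_lit 0) (nat_lit 272406610814) (nat_lit 1) (nat_lit 5) (nat_lit 3) (nat_lit 4) (nat_lit 1) (nat_lit 4) (nat_lit 334) (nat_lit 214) (nat_lit 172))))))))
noncomputable def xc13 : XT := (XT.nd (nat_lit 35490) (nat_lit 0) (nat_lit 0) (XT.nd (nat_lit 34476) (nat_lit 0) (nat_lit 0) (XT.nd (nat_lit 468) (nat_lit 0) (nat_lit 0) (XT.nd (nat_lit 234) (nat_lit 0) (nat_lit 0) (XT.nd (nat_lit 78) (nat_lit 0) (nat_lit 0) (XT.lf (nat_lit 0) (nat_lit 297102042689) (nat_lit 152) (nat_lit 1376686583364) (nat_lit 0) (nat_lit 295099990004) (nat_lit 1) (nat_lit 5) (nat_lit 3) (nat_lit 4) (nat_lit 1) (nat_lit 4) (nat_lit 335)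 (nat_lit 214) (nat_lit 171)) (XT.nd (nat_lit 78) (nat_lit 0) (nat_lit 0) (XT.lf (nat_lit 0) (nat_lit 321612673035) (nat_lit 152) (nat_lit 1485108167120) (nat_lit 0) (nat_lit 319604995811) (nat_lit 1) (nat_lit 5) (nat_lit 3) (nat_lit 4) (nat_lit 1) (nat_lit 4) (nat_lit 336) (nat_lit 214) (nat_lit 170)) (XT.lf (nat_lit 0) (nat_lit 348079728214) (nat_lit 152) (nat_lit 1602211821930) (nat_lit 0) (nat_lit 346066843084) (nat_lit 1) (nat_lit 5) (nat_lit 3) (nat_lit 4) (nat_lit 1) (nat_lit 4) (nat_lit 337) (nat_lit 214) (nat_lit 169)))) (XT.nd (nat_lit 78) (nat_lit 0) (nat_lit 0) (XT.lf (nat_lit 0) (nat_lit 376660050035) (nat_lit 152) (nat_lit 1728691495378) (nat_lit 0) (nat_lit 374642342770) (nat_lit 1) (nat_lit 5) (nat_lit 3) (nat_lit 4) (nat_lit 1) (nat_lit 4) (nat_lit 338) (nat_lit 214) (nat_lit 168)) (XT.nd (nat_lit 78) (nat_lit 0) (nat_lit 0) (XT.lf (nat_lit 0) (nat_lit 407523003368)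 (nat_lit 152) (nat_lit 1865296696640) (nat_lit 0) (nat_lit 405500831162) (nat_lit 1) (nat_lit 5) (nat_lit 3) (nat_lit 4) (nat_lit 1) (nat_lit 4) (nat_lit 339) (nat_lit 214) (nat_lit 167)) (XT.lf (nat_lit 0) (nat_lit 440851479788) (nat_lit 152) (nat_lit 2012836938020) (nat_lit 0) (nat_lit 438825173378) (nat_lit 1) (nat_lit 5) (nat_lit 3) (nat_lit 4) (nat_lit 1) (nat_lit 4) (nat_lit 340) (nat_lit 214) (nat_lit 166))))) (XT.nd (nat_lit 33696) (nat_lit 0) (nat_lit 152) (XT.nd (nat_lit 33540) (nat_lit 0) (nat_lit 152) (XT.lf (nat_lit 0) (nat_lit 476842981378) (nat_lit 152) (nat_lit 2172186532058) (nat_lit 0) (nat_lit 474812847000) (nat_lit 1) (nat_lit 5) (nat_lit 3) (nat_lit 4) (nat_lit 1) (nat_lit 4) (nat_lit 341) (nat_lit 214) (nat_lit 165)) (XT.nd (nat_lit 78) (nat_lit 0) (nat_lit 0) (XT.lf (nat_lit 0) (nat_lit 20905109071) (nat_lit 76) (nat_lit 5404923785) (nat_lit 76) (nat_lit 5404923785)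 (nat_lit 3) (nat_lit 4) (nat_lit 4) (nat_lit 5) (nat_lit 4) (nat_lit 4) (nat_lit 290) (nat_lit 215) (nat_lit 215)) (XT.lf (nat_lit 0) (nat_lit 49673414228) (nat_lit 76) (nat_lit 9405614729) (nat_lit 76) (nat_lit 9226076915) (nat_lit 3) (nat_lit 4) (nat_lit 4) (nat_lit 5) (nat_lit 4) (nat_lit 4) (nat_lit 291) (nat_lit 215) (nat_lit 214)))) (XT.nd (nat_lit 156) (nat_lit 0) (nat_lit 0) (XT.nd (nat_lit 78) (nat_lit 0) (nat_lit 0) (XT.lf (nat_lit 0) (nat_lit 57945360620) (nat_lit 76) (nat_lit 7990221161) (nat_lit 76) (nat_lit 7644444630) (nat_lit 3) (nat_lit 4) (nat_lit 4) (nat_lit 5) (nat_lit 4) (nat_lit 4) (nat_lit 292) (nat_lit 215) (nat_lit 213)) (XT.lf (nat_lit 0) (nat_lit 66675076260) (nat_lit 76) (nat_lit 6555279347) (nat_lit 76) (nat_lit 6055578078) (nat_lit 3) (nat_lit 4) (nat_lit 4) (nat_lit 5) (nat_lit 4) (nat_lit 4) (nat_lit 293) (nat_lit 215) (nat_lit 212))) (XT.nd (nat_lit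 78) (nat_lit 0) (nat_lit 0) (XT.lf (nat_lit 0) (nat_lit 75914292795) (nat_lit 76) (nat_lit 5092285930) (nat_lit 76) (nat_lit 4450061755) (nat_lit 3) (nat_lit 4) (nat_lit 4) (nat_lit 5) (nat_lit 4) (nat_lit 4) (nat_lit 294) (nat_lit 215) (nat_lit 211)) (XT.lf (nat_lit 0) (nat_lit 85717761138) (nat_lit 76) (nat_lit 3592571318) (nat_lit 76) (nat_lit 2818381490) (nat_lit 3) (nat_lit 4) (nat_lit 4) (nat_lit 5) (nat_lit 4) (nat_lit 4) (nat_lit 295) (nat_lit 215) (nat_lit 210)))))) (XT.nd (nat_lit 468) (nat_lit 0) (nat_lit 0) (XT.nd (nat_lit 234) (nat_lit 0) (nat_lit 0) (XT.nd (nat_lit 78) (nat_lit 152) (nat_lit 0) (XT.lf (nat_lit 0) (nat_lit 96143575917) (nat_lit 76) (nat_lit 2047248314) (nat_lit 76) (nat_lit 1150868066) (nat_lit 3) (nat_lit 4) (nat_lit 4) (nat_lit 5) (nat_lit 4) (nat_lit 4) (nat_lit 296) (nat_lit 215) (nat_lit 209)) (XT.nd (nat_lit 78) (nat_lit 0) (nat_lit 0) (XT.lf (nat_lit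 0) (nat_lit 107029925) (nat_lit 76) (nat_lit 429772694) (nat_lit 152) (nat_lit 106600228580) (nat_lit 1) (nat_lit 5) (nat_lit 2) (nat_lit 5) (nat_lit 3) (nat_lit 4) (nat_lit 297) (nat_lit 215) (nat_lit 208)) (XT.lf (nat_lit 0) (nat_lit 2336271982) (nat_lit 152) (nat_lit 111909790285) (nat_lit 0) (nat_lit 1304532986) (nat_lit 1) (nat_lit 5) (nat_lit 3) (nat_lit 4) (nat_lit 1) (nat_lit 4) (nat_lit 298) (nat_lit 215) (nat_lit 207)))) (XT.nd (nat_lit 78) (nat_lit 0) (nat_lit 0) (XT.lf (nat_lit 0) (nat_lit 4214539674) (nat_lit 152) (nat_lit 117335028934) (nat_lit 0) (nat_lit 3092987073) (nat_lit 1) (nat_lit 5) (nat_lit 3) (nat_lit 4) (nat_lit 1) (nat_lit 4) (nat_lit 299) (nat_lit 215) (nat_lit 206)) (XT.nd (nat_lit 78) (nat_lit 0) (nat_lit 0) (XT.lf (nat_lit 0) (nat_lit 6172400129) (nat_lit 152) (nat_lit 123327530742) (nat_lit 0) (nat_lit 4967686781) (nat_lit 1) (nat_lit 5) (nat_lit 3)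 (nat_lit 4) (nat_lit 1) (nat_lit 4) (nat_lit 300) (nat_lit 215) (nat_lit 205)) (XT.lf (nat_lit 0) (nat_lit 8221455483) (nat_lit 152) (nat_lit 129922806830) (nat_lit 0) (nat_lit 6939741444) (nat_lit 1) (nat_lit 5) (nat_lit 3) (nat_lit 4) (nat_lit 1) (nat_lit 4) (nat_lit 301) (nat_lit 215) (nat_lit 204))))) (XT.nd (nat_lit 234) (nat_lit 0) (nat_lit 0) (XT.nd (nat_lit 78) (nat_lit 0) (nat_lit 0) (XT.lf (nat_lit 0) (nat_lit 10373848285) (nat_lit 152) (nat_lit 137159940315) (nat_lit 0) (nat_lit 9020837309) (nat_lit 1) (nat_lit 5) (nat_lit 3) (nat_lit 4) (nat_lit 1) (nat_lit 4) (nat_lit 302) (nat_lit 215) (nat_lit 203)) (XT.nd (nat_lit 78) (nat_lit 0) (nat_lit 0) (XT.lf (nat_lit 0) (nat_lit 12642333456) (nat_lit 152) (nat_lit 145081817916) (nat_lit 0) (nat_lit 11223306799) (nat_lit 1) (nat_lit 5) (nat_lit 3) (nat_lit 4) (nat_lit 1) (nat_lit 4) (nat_lit 303) (nat_lit 215) (nat_lit 202)) (XT.lf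 (nat_lit 0) (nat_lit 15040353871) (nat_lit 152) (nat_lit 153735384091) (nat_lit 0) (nat_lit 13560201582) (nat_lit 1) (nat_lit 5) (nat_lit 3) (nat_lit 4) (nat_lit 1) (nat_lit 4) (nat_lit 304) (nat_lit 215) (nat_lit 201)))) (XT.nd (nat_lit 156) (nat_lit 0) (nat_lit 0) (XT.nd (nat_lit 78) (nat_lit 0) (nat_lit 0) (XT.lf (nat_lit 0) (nat_lit 17582120021) (nat_lit 152) (nat_lit 163171919234) (nat_lit 0) (nat_lit 16045369926) (nat_lit 1) (nat_lit 5) (nat_lit 3) (nat_lit 4) (nat_lit 1) (nat_lit 4) (nat_lit 305) (nat_lit 215) (nat_lit 200)) (XT.lf (nat_lit 0) (nat_lit 20282694225) (nat_lit 152) (nat_lit 173447343551) (nat_lit 0) (nat_lit 18693538753) (nat_lit 1) (nat_lit 5) (nat_lit 3) (nat_lit 4) (nat_lit 1) (nat_lit 4) (nat_lit 306) (nat_lit 215) (nat_lit 199))) (XT.nd (nat_lit 78) (nat_lit 0) (nat_lit 0) (XT.lf (nat_lit 0) (nat_lit 23158079885) (nat_lit 152) (nat_lit 184622548447) (nat_lit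 0) (nat_lit 21520400916) (nat_lit 1) (nat_lit 5) (nat_lit 3) (nat_lit 4) (nat_lit 1) (nat_lit 4) (nat_lit 307) (nat_lit 215) (nat_lit 198)) (XT.lf (nat_lit 0) (nat_lit 26225316323) (nat_lit 152) (nat_lit 196763757357) (nat_lit 0) (nat_lit 24542708191) (nat_lit 1) (nat_lit 5) (nat_lit 3) (nat_lit 4) (nat_lit 1) (nat_lit 4) (nat_lit 308) (nat_lit 215) (nat_lit 197))))))) (XT.nd (nat_lit 1014) (nat_lit 0) (nat_lit 0) (XT.nd (nat_lit 468) (nat_lit 0) (nat_lit 0) (XT.nd (nat_lit 234) (nat_lit 0) (nat_lit 0) (XT.nd (nat_lit 78) (nat_lit 0) (nat_lit 0) (XT.lf (nat_lit 0) (nat_lit 29502579756) (nat_lit 152) (nat_lit 209942918187) (nat_lit 0) (nat_lit 27778370546) (nat_lit 1) (nat_lit 5) (nat_lit 3) (nat_lit 4) (nat_lit 1) (nat_lit 4) (nat_lit 309) (nat_lit 215) (nat_lit 196)) (XT.nd (nat_lit 78) (nat_lit 0) (nat_lit 0) (XT.lf (nat_lit 0) (nat_lit 33009291003) (nat_lit 152) (nat_lit 224238129667)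 (nat_lit 0) (nat_lit 31246562277) (nat_lit 1) (nat_lit 5) (nat_lit 3) (nat_lit 4) (nat_lit 1) (nat_lit 4) (nat_lit 310) (nat_lit 215) (nat_lit 195)) (XT.lf (nat_lit 0) (nat_lit 36766230576) (nat_lit 152) (nat_lit 239734104162) (nat_lit 0) (nat_lit 34967835631) (nat_lit 1) (nat_lit 5) (nat_lit 3) (nat_lit 4) (nat_lit 1) (nat_lit 4) (nat_lit 311) (nat_lit 215) (nat_lit 194)))) (XT.nd (nat_lit 78) (nat_lit 0) (nat_lit 0) (XT.lf (nat_lit 0) (nat_lit 40795661821) (nat_lit 152) (nat_lit 256522669669) (nat_lit 0) (nat_lit 38964242599) (nat_lit 1) (nat_lit 5) (nat_lit 3) (nat_lit 4) (nat_lit 1) (nat_lit 4) (nat_lit 312) (nat_lit 215) (nat_lit 193)) (XT.nd (nat_lit 78) (nat_lit 0) (nat_lit 0) (XT.lf (nat_lit 0) (nat_lit 45121462848) (nat_lit 152) (nat_lit 274703313983) (nat_lit 0) (nat_lit 43259465592) (nat_lit 1) (nat_lit 5) (nat_lit 3) (nat_lit 4) (nat_lit 1) (nat_lit 4) (nat_lit 313) (nat_lit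 215) (nat_lit 192)) (XT.lf (nat_lit 0) (nat_lit 49769268034) (nat_lit 152) (nat_lit 294383774256) (nat_lit 0) (nat_lit 47878957784) (nat_lit 1) (nat_lit 5) (nat_lit 3) (nat_lit 4) (nat_lit 1) (nat_lit 4) (nat_lit 314) (nat_lit 215) (nat_lit 191))))) (XT.nd (nat_lit 234) (nat_lit 0) (nat_lit 0) (XT.nd (nat_lit 78) (nat_lit 0) (nat_lit 0) (XT.lf (nat_lit 0) (nat_lit 54766619928) (nat_lit 152) (nat_lit 315680675437) (nat_lit 0) (nat_lit 52850093943) (nat_lit 1) (nat_lit 5) (nat_lit 3) (nat_lit 4) (nat_lit 1) (nat_lit 4) (nat_lit 315) (nat_lit 215) (nat_lit 190)) (XT.nd (nat_lit 78) (nat_lit 0) (nat_lit 0) (XT.lf (nat_lit 0) (nat_lit 60143132467) (nat_lit 152) (nat_lit 338720221386) (nat_lit 0) (nat_lit 58202332653) (nat_lit 1) (nat_lit 5) (nat_lit 3) (nat_lit 4) (nat_lit 1) (nat_lit 4) (nat_lit 316) (nat_lit 215) (nat_lit 189)) (XT.lf (nat_lit 0) (nat_lit 65930666467) (nat_lit 152) (nat_lit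 363638942745) (nat_lit 0) (nat_lit 63967390885) (nat_lit 1) (nat_lit 5) (nat_lit 3) (nat_lit 4) (nat_lit 1) (nat_lit 4) (nat_lit 317) (nat_lit 215) (nat_lit 188)))) (XT.nd (nat_lit 156) (nat_lit 0) (nat_lit 0) (XT.nd (nat_lit 78) (nat_lit 0) (nat_lit 0) (XT.lf (nat_lit 0) (nat_lit 72163518426) (nat_lit 152) (nat_lit 390584506010) (nat_lit 0) (nat_lit 70179431948) (nat_lit 1) (nat_lit 5) (nat_lit 3) (nat_lit 4) (nat_lit 1) (nat_lit 4) (nat_lit 318) (nat_lit 215) (nat_lit 187)) (XT.lf (nat_lit 0) (nat_lit 78878623761) (nat_lit 152) (nat_lit 419716588595) (nat_lit 0) (nat_lit 76875267935) (nat_lit 1) (nat_lit 5) (nat_lit 3) (nat_lit 4) (nat_lit 1) (nat_lit 4) (nat_lit 319) (nat_lit 215) (nat_lit 186))) (XT.nd (nat_lit 78) (nat_lit 0) (nat_lit 0) (XT.lf (nat_lit 0) (nat_lit 86115775690) (nat_lit 152) (nat_lit 451207825062) (nat_lit 0) (nat_lit 84094577875) (nat_lit 1) (nat_lit 5) (nat_lit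 3) (nat_lit 4) (nat_lit 1) (nat_lit 4) (nat_lit 320) (nat_lit 215) (nat_lit 185)) (XT.lf (nat_lit 0) (nat_lit 93917861040) (nat_lit 152) (nat_lit 485244830146) (nat_lit 0) (nat_lit 91880142864) (nat_lit 1) (nat_lit 5) (nat_lit 3) (nat_lit 4) (nat_lit 1) (nat_lit 4) (nat_lit 321) (nat_lit 215) (nat_lit 184)))))) (XT.nd (nat_lit 468) (nat_lit 0) (nat_lit 0) (XT.nd (nat_lit 234) (nat_lit 0) (nat_lit 0) (XT.nd (nat_lit 78) (nat_lit 0) (nat_lit 0) (XT.lf (nat_lit 0) (nat_lit 102331114390) (nat_lit 152) (nat_lit 522029304618) (nat_lit 0) (nat_lit 100278099584) (nat_lit 1) (nat_lit 5) (nat_lit 3) (nat_lit 4) (nat_lit 1) (nat_lit 4) (nat_lit 322) (nat_lit 215) (nat_lit 183)) (XT.nd (nat_lit 78) (nat_lit 0) (nat_lit 0) (XT.lf (nat_lit 0) (nat_lit 111405392056) (nat_lit 152) (nat_lit 561779230549) (nat_lit 0) (nat_lit 109338213704) (nat_lit 1) (nat_lit 5) (nat_lit 3) (nat_lit 4) (nat_lit 1)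 (nat_lit 4) (nat_lit 323) (nat_lit 215) (nat_lit 182)) (XT.lf (nat_lit 0) (nat_lit 121194467535) (nat_lit 152) (nat_lit 604730163055) (nat_lit 0) (nat_lit 119114174789) (nat_lit 1) (nat_lit 5) (nat_lit 3) (nat_lit 4) (nat_lit 1) (nat_lit 4) (nat_lit 324) (nat_lit 215) (nat_lit 181)))) (XT.nd (nat_lit 78) (nat_lit 0) (nat_lit 0) (XT.lf (nat_lit 0) (nat_lit 131756350164) (nat_lit 152) (nat_lit 651136626181) (nat_lit 0) (nat_lit 129663914460) (nat_lit 1) (nat_lit 5) (nat_lit 3) (nat_lit 4) (nat_lit 1) (nat_lit 4) (nat_lit 325) (nat_lit 215) (nat_lit 180)) (XT.nd (nat_lit 78) (nat_lit 0) (nat_lit 0) (XT.lf (nat_lit 0) (nat_lit 143153628877) (nat_lit 152) (nat_lit 701273621190) (nat_lit 0) (nat_lit 141049949694) (nat_lit 1) (nat_lit 5) (nat_lit 3) (nat_lit 4) (nat_lit 1) (nat_lit 4) (nat_lit 326) (nat_lit 215) (nat_lit 179)) (XT.lf (nat_lit 0) (nat_lit 155453843103) (nat_lit 152) (nat_lit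 755438256200) (nat_lit 0) (nat_lit 153339753290) (nat_lit 1) (nat_lit 5) (nat_lit 3) (nat_lit 4) (nat_lit 1) (nat_lit 4) (nat_lit 327) (nat_lit 215) (nat_lit 178))))) (XT.nd (nat_lit 234) (nat_lit 0) (nat_lit 0) (XT.nd (nat_lit 78) (nat_lit 0) (nat_lit 0) (XT.lf (nat_lit 0) (nat_lit 168729883001) (nat_lit 152) (nat_lit 813951506827) (nat_lit 0) (nat_lit 166606153717) (nat_lit 1) (nat_lit 5) (nat_lit 3) (nat_lit 4) (nat_lit 1) (nat_lit 4) (nat_lit 328) (nat_lit 215) (nat_lit 177)) (XT.nd (nat_lit 78) (nat_lit 0) (nat_lit 0) (XT.lf (nat_lit 0) (nat_lit 183060421400) (nat_lit 152) (nat_lit 877160118259) (nat_lit 0) (nat_lit 180927766679) (nat_lit 1) (nat_lit 5) (nat_lit 3) (nat_lit 4) (nat_lit 1) (nat_lit 4) (nat_lit 329) (nat_lit 215) (nat_lit 176)) (XT.lf (nat_lit 0) (nat_lit 198530380008) (nat_lit 152) (nat_lit 945438660046) (nat_lit 0) (nat_lit 196389460993) (nat_lit 1) (nat_lit 5)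 (nat_lit 3) (nat_lit 4) (nat_lit 1) (nat_lit 4) (nat_lit 330) (nat_lit 215) (nat_lit 175)))) (XT.nd (nat_lit 156) (nat_lit 0) (nat_lit 0) (XT.nd (nat_lit 78) (nat_lit 0) (nat_lit 0) (XT.lf (nat_lit 0) (nat_lit 215231432654) (nat_lit 152) (nat_lit 1019191745768) (nat_lit 0) (nat_lit 213082861517) (nat_lit 1) (nat_lit 5) (nat_lit 3) (nat_lit 4) (nat_lit 1) (nat_lit 4) (nat_lit 331) (nat_lit 215) (nat_lit 174)) (XT.lf (nat_lit 0) (nat_lit 233262548540) (nat_lit 152) (nat_lit 1098856430748) (nat_lit 0) (nat_lit 231106892103) (nat_lit 1) (nat_lit 5) (nat_lit 3) (nat_lit 4) (nat_lit 1) (nat_lit 4) (nat_lit 332) (nat_lit 215) (nat_lit 173))) (XT.nd (nat_lit 78) (nat_lit 0) (nat_lit 0) (XT.lf (nat_lit 0) (nat_lit 252730578722) (nat_lit 152) (nat_lit 1184904802009) (nat_lit 0) (nat_lit 250568361823) (nat_lit 1) (nat_lit 5) (nat_lit 3) (nat_lit 4) (nat_lit 1) (nat_lit 4) (nat_lit 333) (nat_lit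 215) (nat_lit 172)) (XT.lf (nat_lit 0) (nat_lit 273750889305) (nat_lit 152) (nat_lit 1277846775824) (nat_lit 0) (nat_lit 271582597904) (nat_lit 1) (nat_lit 5) (nat_lit 3) (nat_lit 4) (nat_lit 1) (nat_lit 4) (nat_lit 334) (nat_lit 215) (nat_lit 171))))))))
noncomputable def xc14 : XT := (XT.nd (nat_lit 35256) (nat_lit 0) (nat_lit 0) (XT.nd (nat_lit 34242) (nat_lit 0) (nat_lit 0) (XT.nd (nat_lit 468) (nat_lit 0) (nat_lit 0) (XT.nd (nat_lit 234) (nat_lit 0) (nat_lit 0) (XT.nd (nat_lit 78) (nat_lit 0) (nat_lit 0) (XT.lf (nat_lit 0) (nat_lit 296448045093) (nat_lit 152) (nat_lit 1378233119446) (nat_lit 0) (nat_lit 294274129153) (nat_lit 1) (nat_lit 5) (nat_lit 3) (nat_lit 4) (nat_lit 1) (nat_lit 4) (nat_lit 335) (nat_lit 215) (nat_lit 170)) (XT.nd (nat_lit 78) (nat_lit 0) (nat_lit 0) (XT.lf (nat_lit 0) (nat_lit 320956547750) (nat_lit 152) (nat_lit 1486658714910) (nat_lit 0) (nat_lit 318777423903)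 (nat_lit 1) (nat_lit 5) (nat_lit 3) (nat_lit 4) (nat_lit 1) (nat_lit 4) (nat_lit 336) (nat_lit 215) (nat_lit 169)) (XT.lf (nat_lit 0) (nat_lit 347421632846) (nat_lit 152) (nat_lit 1603766084265) (nat_lit 0) (nat_lit 345237686864) (nat_lit 1) (nat_lit 5) (nat_lit 3) (nat_lit 4) (nat_lit 1) (nat_lit 4) (nat_lit 337) (nat_lit 215) (nat_lit 168)))) (XT.nd (nat_lit 78) (nat_lit 0) (nat_lit 0) (XT.lf (nat_lit 0) (nat_lit 376000130516) (nat_lit 152) (nat_lit 1730249197107) (nat_lit 0) (nat_lit 373811719593) (nat_lit 1) (nat_lit 5) (nat_lit 3) (nat_lit 4) (nat_lit 1) (nat_lit 4) (nat_lit 338) (nat_lit 215) (nat_lit 167)) (XT.nd (nat_lit 78) (nat_lit 0) (nat_lit 0) (XT.lf (nat_lit 0) (nat_lit 406861394821) (nat_lit 152) (nat_lit 1866857582992) (nat_lit 0) (nat_lit 404668849693) (nat_lit 1) (nat_lit 5) (nat_lit 3) (nat_lit 4) (nat_lit 1) (nat_lit 4) (nat_lit 339) (nat_lit 215) (nat_lit 166))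 (XT.lf (nat_lit 0) (nat_lit 440188307325) (nat_lit 152) (nat_lit 2014400773097) (nat_lit 0) (nat_lit 437991934231) (nat_lit 1) (nat_lit 5) (nat_lit 3) (nat_lit 4) (nat_lit 1) (nat_lit 4) (nat_lit 340) (nat_lit 215) (nat_lit 165))))) (XT.nd (nat_lit 33540) (nat_lit 0) (nat_lit 152) (XT.nd (nat_lit 33384) (nat_lit 0) (nat_lit 152) (XT.lf (nat_lit 0) (nat_lit 476178360845) (nat_lit 152) (nat_lit 2173753097436) (nat_lit 0) (nat_lit 473978443337) (nat_lit 1) (nat_lit 5) (nat_lit 3) (nat_lit 4) (nat_lit 1) (nat_lit 4) (nat_lit 341) (nat_lit 215) (nat_lit 164)) (XT.nd (nat_lit 78) (nat_lit 0) (nat_lit 0) (XT.lf (nat_lit 0) (nat_lit 13624688295) (nat_lit 76) (nat_lit 6877631574) (nat_lit 76) (nat_lit 6877631574) (nat_lit 3) (nat_lit 4) (nat_lit 4) (nat_lit 5) (nat_lit 4) (nat_lit 4) (nat_lit 288) (nat_lit 216) (nat_lit 216)) (XT.lf (nat_lit 0) (nat_lit 34309175644) (nat_lit 76) (nat_lit 12405141902)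 (nat_lit 76) (nat_lit 12211241063) (nat_lit 3) (nat_lit 4) (nat_lit 4) (nat_lit 5) (nat_lit 4) (nat_lit 4) (nat_lit 289) (nat_lit 216) (nat_lit 215)))) (XT.nd (nat_lit 78) (nat_lit 0) (nat_lit 0) (XT.lf (nat_lit 0) (nat_lit 41695828810) (nat_lit 76) (nat_lit 11056283088) (nat_lit 76) (nat_lit 10682844434) (nat_lit 3) (nat_lit 4) (nat_lit 4) (nat_lit 5) (nat_lit 4) (nat_lit 4) (nat_lit 290) (nat_lit 216) (nat_lit 214)) (XT.nd (nat_lit 78) (nat_lit 0) (nat_lit 0) (XT.lf (nat_lit 0) (nat_lit 49453108847) (nat_lit 76) (nat_lit 9700693468) (nat_lit 76) (nat_lit 9161016098) (nat_lit 3) (nat_lit 4) (nat_lit 4) (nat_lit 5) (nat_lit 4) (nat_lit 4) (nat_lit 291) (nat_lit 216) (nat_lit 213)) (XT.lf (nat_lit 0) (nat_lit 57626984824) (nat_lit 76) (nat_lit 8330339919) (nat_lit 76) (nat_lit 7636737811) (nat_lit 3) (nat_lit 4) (nat_lit 4) (nat_lit 5) (nat_lit 4) (nat_lit 4) (nat_lit 292) (nat_lit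 216) (nat_lit 212)))))) (XT.nd (nat_lit 468) (nat_lit 0) (nat_lit 0) (XT.nd (nat_lit 234) (nat_lit 152) (nat_lit 0) (XT.nd (nat_lit 78) (nat_lit 0) (nat_lit 0) (XT.lf (nat_lit 0) (nat_lit 66265894523) (nat_lit 76) (nat_lit 6937101828) (nat_lit 76) (nat_lit 6100976814) (nat_lit 3) (nat_lit 4) (nat_lit 4) (nat_lit 5) (nat_lit 4) (nat_lit 4) (nat_lit 293) (nat_lit 216) (nat_lit 211)) (XT.nd (nat_lit 78) (nat_lit 0) (nat_lit 0) (XT.lf (nat_lit 0) (nat_lit 75421031484) (nat_lit 76) (nat_lit 5512722967) (nat_lit 76) (nat_lit 4544632300) (nat_lit 3) (nat_lit 4) (nat_lit 4) (nat_lit 5) (nat_lit 4) (nat_lit 4) (nat_lit 294) (nat_lit 216) (nat_lit 210)) (XT.lf (nat_lit 0) (nat_lit 85146648369) (nat_lit 76) (nat_lit 4048762575) (nat_lit 76) (nat_lit 2958481488) (nat_lit 3) (nat_lit 4) (nat_lit 4) (nat_lit 5) (nat_lit 4) (nat_lit 4) (nat_lit 295) (nat_lit 216) (nat_lit 209)))) (XT.nd (nat_lit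 78) (nat_lit 152) (nat_lit 0) (XT.lf (nat_lit 0) (nat_lit 95500378465) (nat_lit 76) (nat_lit 2536545330) (nat_lit 76) (nat_lit 1333124965) (nat_lit 3) (nat_lit 4) (nat_lit 4) (nat_lit 5) (nat_lit 4) (nat_lit 4) (nat_lit 296) (nat_lit 216) (nat_lit 208)) (XT.nd (nat_lit 78) (nat_lit 76) (nat_lit 0) (XT.lf (nat_lit 0) (nat_lit 324007357) (nat_lit 152) (nat_lit 634243651) (nat_lit 76) (nat_lit 106210710916) (nat_lit 2) (nat_lit 5) (nat_lit 4) (nat_lit 5) (nat_lit 3) (nat_lit 4) (nat_lit 297) (nat_lit 216) (nat_lit 207)) (XT.lf (nat_lit 0) (nat_lit 2057599602) (nat_lit 152) (nat_lit 112773734720) (nat_lit 0) (nat_lit 756509186) (nat_lit 1) (nat_lit 5) (nat_lit 3) (nat_lit 4) (nat_lit 1) (nat_lit 4) (nat_lit 298) (nat_lit 216) (nat_lit 206))))) (XT.nd (nat_lit 234) (nat_lit 0) (nat_lit 0) (XT.nd (nat_lit 78) (nat_lit 0) (nat_lit 0) (XT.lf (nat_lit 0) (nat_lit 3901891981) (nat_lit 152) (nat_lit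 118263033017) (nat_lit 0) (nat_lit 2517640818) (nat_lit 1) (nat_lit 5) (nat_lit 3) (nat_lit 4) (nat_lit 1) (nat_lit 4) (nat_lit 299) (nat_lit 216) (nat_lit 205)) (XT.nd (nat_lit 78) (nat_lit 0) (nat_lit 0) (XT.lf (nat_lit 0) (nat_lit 5828293812) (nat_lit 152) (nat_lit 124314849313) (nat_lit 0) (nat_lit 4367041958) (nat_lit 1) (nat_lit 5) (nat_lit 3) (nat_lit 4) (nat_lit 1) (nat_lit 4) (nat_lit 300) (nat_lit 216) (nat_lit 204)) (XT.lf (nat_lit 0) (nat_lit 7848220810) (nat_lit 152) (nat_lit 130965046224) (nat_lit 0) (nat_lit 6315672020) (nat_lit 1) (nat_lit 5) (nat_lit 3) (nat_lit 4) (nat_lit 1) (nat_lit 4) (nat_lit 301) (nat_lit 216) (nat_lit 203)))) (XT.nd (nat_lit 156) (nat_lit 0) (nat_lit 0) (XT.nd (nat_lit 78) (nat_lit 0) (nat_lit 0) (XT.lf (nat_lit 0) (nat_lit 9973642912) (nat_lit 152) (nat_lit 138253032323) (nat_lit 0) (nat_lit 8375078440) (nat_lit 1) (nat_lit 5) (nat_lit 3) (nat_lit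 4) (nat_lit 1) (nat_lit 4) (nat_lit 302) (nat_lit 216) (nat_lit 202)) (XT.lf (nat_lit 0) (nat_lit 12217155213) (nat_lit 152) (nat_lit 146221995677) (nat_lit 0) (nat_lit 10557465110) (nat_lit 1) (nat_lit 5) (nat_lit 3) (nat_lit 4) (nat_lit 1) (nat_lit 4) (nat_lit 303) (nat_lit 216) (nat_lit 201))) (XT.nd (nat_lit 78) (nat_lit 0) (nat_lit 0) (XT.lf (nat_lit 0) (nat_lit 14592052600) (nat_lit 152) (nat_lit 154919159772) (nat_lit 0) (nat_lit 12875764691) (nat_lit 1) (nat_lit 5) (nat_lit 3) (nat_lit 4) (nat_lit 1) (nat_lit 4) (nat_lit 304) (nat_lit 216) (nat_lit 200)) (XT.lf (nat_lit 0) (nat_lit 17112408540) (nat_lit 152) (nat_lit 164396063358) (nat_lit 0) (nat_lit 15343715254) (nat_lit 1) (nat_lit 5) (nat_lit 3) (nat_lit 4) (nat_lit 1) (nat_lit 4) (nat_lit 305) (nat_lit 216) (nat_lit 199))))))) (XT.nd (nat_lit 1014) (nat_lit 0) (nat_lit 0) (XT.nd (nat_lit 468) (nat_lit 0) (nat_lit 0) (XT.nd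 (nat_lit 234) (nat_lit 0) (nat_lit 0) (XT.nd (nat_lit 78) (nat_lit 0) (nat_lit 0) (XT.lf (nat_lit 0) (nat_lit 19793158474) (nat_lit 152) (nat_lit 174708865864) (nat_lit 0) (nat_lit 17975941691) (nat_lit 1) (nat_lit 5) (nat_lit 3) (nat_lit 4) (nat_lit 1) (nat_lit 4) (nat_lit 306) (nat_lit 216) (nat_lit 198)) (XT.nd (nat_lit 78) (nat_lit 0) (nat_lit 0) (XT.lf (nat_lit 0) (nat_lit 22650188329) (nat_lit 152) (nat_lit 185918680194) (nat_lit 0) (nat_lit 20788042382) (nat_lit 1) (nat_lit 5) (nat_lit 3) (nat_lit 4) (nat_lit 1) (nat_lit 4) (nat_lit 307) (nat_lit 216) (nat_lit 197)) (XT.lf (nat_lit 0) (nat_lit 25700428651) (nat_lit 152) (nat_lit 198091934877) (nat_lit 0) (nat_lit 23796681627) (nat_lit 1) (nat_lit 5) (nat_lit 3) (nat_lit 4) (nat_lit 1) (nat_lit 4) (nat_lit 308) (nat_lit 216) (nat_lit 196)))) (XT.nd (nat_lit 78) (nat_lit 0) (nat_lit 0) (XT.lf (nat_lit 0) (nat_lit 28961954940)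 (nat_lit 152) (nat_lit 211300767719) (nat_lit 0) (nat_lit 27019688400) (nat_lit 1) (nat_lit 5) (nat_lit 3) (nat_lit 4) (nat_lit 1) (nat_lit 4) (nat_lit 309) (nat_lit 216) (nat_lit 195)) (XT.nd (nat_lit 78) (nat_lit 0) (nat_lit 0) (XT.lf (nat_lit 0) (nat_lit 32454094757) (nat_lit 152) (nat_lit 225623453284) (nat_lit 0) (nat_lit 30476161998) (nat_lit 1) (nat_lit 5) (nat_lit 3) (nat_lit 4) (nat_lit 1) (nat_lit 4) (nat_lit 310) (nat_lit 216) (nat_lit 194)) (XT.lf (nat_lit 0) (nat_lit 36197542266) (nat_lit 152) (nat_lit 241144866746) (nat_lit 0) (nat_lit 34186585230) (nat_lit 1) (nat_lit 5) (nat_lit 3) (nat_lit 4) (nat_lit 1) (nat_lit 4) (nat_lit 311) (nat_lit 216) (nat_lit 193))))) (XT.nd (nat_lit 234) (nat_lit 0) (nat_lit 0) (XT.nd (nat_lit 78) (nat_lit 0) (nat_lit 0) (XT.lf (nat_lit 0) (nat_lit 40214480858) (nat_lit 152) (nat_lit 257956986852) (nat_lit 0) (nat_lit 38172945788) (nat_lit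 1) (nat_lit 5) (nat_lit 3) (nat_lit 4) (nat_lit 1) (nat_lit 4) (nat_lit 312) (nat_lit 216) (nat_lit 192)) (XT.nd (nat_lit 78) (nat_lit 0) (nat_lit 0) (XT.lf (nat_lit 0) (nat_lit 44528714614) (nat_lit 152) (nat_lit 276159440980) (nat_lit 0) (nat_lit 42458866550) (nat_lit 1) (nat_lit 5) (nat_lit 3) (nat_lit 4) (nat_lit 1) (nat_lit 4) (nat_lit 313) (nat_lit 216) (nat_lit 191)) (XT.lf (nat_lit 0) (nat_lit 49165809364) (nat_lit 152) (nat_lit 295860095526) (nat_lit 0) (nat_lit 47069745565) (nat_lit 1) (nat_lit 5) (nat_lit 3) (nat_lit 4) (nat_lit 1) (nat_lit 4) (nat_lit 314) (nat_lit 216) (nat_lit 190)))) (XT.nd (nat_lit 156) (nat_lit 0) (nat_lit 0) (XT.nd (nat_lit 78) (nat_lit 0) (nat_lit 0) (XT.lf (nat_lit 0) (nat_lit 54153244188) (nat_lit 152) (nat_lit 317175695107) (nat_lit 0) (nat_lit 52032906560) (nat_lit 1) (nat_lit 5) (nat_lit 3) (nat_lit 4) (nat_lit 1) (nat_lit 4) (nat_lit 315) (nat_lit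 216) (nat_lit 189)) (XT.lf (nat_lit 0) (nat_lit 59520574255) (nat_lit 152) (nat_lit 340232554390) (nat_lit 0) (nat_lit 57377760859) (nat_lit 1) (nat_lit 5) (nat_lit 3) (nat_lit 4) (nat_lit 1) (nat_lit 4) (nat_lit 316) (nat_lit 216) (nat_lit 188))) (XT.nd (nat_lit 78) (nat_lit 0) (nat_lit 0) (XT.lf (nat_lit 0) (nat_lit 65299605966) (nat_lit 152) (nat_lit 365167306613) (nat_lit 0) (nat_lit 63135981674) (nat_lit 1) (nat_lit 5) (nat_lit 3) (nat_lit 4) (nat_lit 1) (nat_lit 4) (nat_lit 317) (nat_lit 216) (nat_lit 187)) (XT.lf (nat_lit 0) (nat_lit 71524585434) (nat_lit 152) (nat_lit 392127713272) (nat_lit 0) (nat_lit 69341691794) (nat_lit 1) (nat_lit 5) (nat_lit 3) (nat_lit 4) (nat_lit 1) (nat_lit 4) (nat_lit 318) (nat_lit 216) (nat_lit 186)))))) (XT.nd (nat_lit 468) (nat_lit 0) (nat_lit 0) (XT.nd (nat_lit 234) (nat_lit 0) (nat_lit 0) (XT.nd (nat_lit 78) (nat_lit 0) (nat_lit 0) (XT.lf (nat_lit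 0) (nat_lit 78232401427) (nat_lit 152) (nat_lit 421273539739) (nat_lit 0) (nat_lit 76031665797) (nat_lit 1) (nat_lit 5) (nat_lit 3) (nat_lit 4) (nat_lit 1) (nat_lit 4) (nat_lit 319) (nat_lit 216) (nat_lit 185)) (XT.nd (nat_lit 78) (nat_lit 0) (nat_lit 0) (XT.lf (nat_lit 0) (nat_lit 85462803965) (nat_lit 152) (nat_lit 452777502023) (nat_lit 0) (nat_lit 83245547975) (nat_lit 1) (nat_lit 5) (nat_lit 3) (nat_lit 4) (nat_lit 1) (nat_lit 4) (nat_lit 320) (nat_lit 216) (nat_lit 184)) (XT.lf (nat_lit 0) (nat_lit 93258639878) (nat_lit 152) (nat_lit 486826290271) (nat_lit 0) (nat_lit 91026087258) (nat_lit 1) (nat_lit 5) (nat_lit 3) (nat_lit 4) (nat_lit 1) (nat_lit 4) (nat_lit 321) (nat_lit 216) (nat_lit 183)))) (XT.nd (nat_lit 78) (nat_lit 0) (nat_lit 0) (XT.lf (nat_lit 0) (nat_lit 101666106712) (nat_lit 152) (nat_lit 523621675080) (nat_lit 0) (nat_lit 99419390546) (nat_lit 1) (nat_lit 5) (nat_lit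 3) (nat_lit 4) (nat_lit 1) (nat_lit 4) (nat_lit 322) (nat_lit 216) (nat_lit 182)) (XT.nd (nat_lit 78) (nat_lit 0) (nat_lit 0) (XT.lf (nat_lit 0) (nat_lit 110735026494) (nat_lit 152) (nat_lit 563381703175) (nat_lit 0) (nat_lit 108475195933) (nat_lit 1) (nat_lit 5) (nat_lit 3) (nat_lit 4) (nat_lit 1) (nat_lit 4) (nat_lit 323) (nat_lit 216) (nat_lit 181)) (XT.lf (nat_lit 0) (nat_lit 120519140969) (nat_lit 152) (nat_lit 606341989536) (nat_lit 0) (nat_lit 118247167451) (nat_lit 1) (nat_lit 5) (nat_lit 3) (nat_lit 4) (nat_lit 1) (nat_lit 4) (nat_lit 324) (nat_lit 216) (nat_lit 180))))) (XT.nd (nat_lit 234) (nat_lit 0) (nat_lit 0) (XT.nd (nat_lit 78) (nat_lit 0) (nat_lit 0) (XT.lf (nat_lit 0) (nat_lit 131076430076) (nat_lit 152) (nat_lit 652757113640) (nat_lit 0) (nat_lit 128793213078) (nat_lit 1) (nat_lit 5) (nat_lit 3) (nat_lit 4) (nat_lit 1) (nat_lit 4) (nat_lit 325) (nat_lit 216) (nat_lit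 179)) (XT.nd (nat_lit 78) (nat_lit 0) (nat_lit 0) (XT.lf (nat_lit 0) (nat_lit 142469455527) (nat_lit 152) (nat_lit 702902128072) (nat_lit 0) (nat_lit 140175827900) (nat_lit 1) (nat_lit 5) (nat_lit 3) (nat_lit 4) (nat_lit 1) (nat_lit 4) (nat_lit 326) (nat_lit 216) (nat_lit 178)) (XT.lf (nat_lit 0) (nat_lit 154765731548) (nat_lit 152) (nat_lit 757074188475) (nat_lit 0) (nat_lit 152462464450) (nat_lit 1) (nat_lit 5) (nat_lit 3) (nat_lit 4) (nat_lit 1) (nat_lit 4) (nat_lit 327) (nat_lit 216) (nat_lit 177)))) (XT.nd (nat_lit 156) (nat_lit 0) (nat_lit 0) (XT.nd (nat_lit 78) (nat_lit 0) (nat_lit 0) (XT.lf (nat_lit 0) (nat_lit 168038124960) (nat_lit 152) (nat_lit 815594314465) (nat_lit 0) (nat_lit 165725932425) (nat_lit 1) (nat_lit 5) (nat_lit 3) (nat_lit 4) (nat_lit 1) (nat_lit 4) (nat_lit 328) (nat_lit 216) (nat_lit 176)) (XT.lf (nat_lit 0) (nat_lit 182365286982) (nat_lit 152) (nat_lit 878809291974)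 (nat_lit 0) (nat_lit 180044830154) (nat_lit 1) (nat_lit 5) (nat_lit 3) (nat_lit 4) (nat_lit 1) (nat_lit 4) (nat_lit 329) (nat_lit 216) (nat_lit 175))) (XT.nd (nat_lit 78) (nat_lit 0) (nat_lit 0) (XT.lf (nat_lit 0) (nat_lit 197832119316) (nat_lit 152) (nat_lit 947093728276) (nat_lit 0) (nat_lit 195504010364) (nat_lit 1) (nat_lit 5) (nat_lit 3) (nat_lit 4) (nat_lit 1) (nat_lit 4) (nat_lit 330) (nat_lit 216) (nat_lit 174)) (XT.lf (nat_lit 0) (nat_lit 214530277265) (nat_lit 152) (nat_lit 1020852271883) (nat_lit 0) (nat_lit 212195083013) (nat_lit 1) (nat_lit 5) (nat_lit 3) (nat_lit 4) (nat_lit 1) (nat_lit 4) (nat_lit 331) (nat_lit 216) (nat_lit 173))))))))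
noncomputable def xc15 : XT := (XT.nd (nat_lit 35178) (nat_lit 0) (nat_lit 0) (XT.nd (nat_lit 34164) (nat_lit 0) (nat_lit 0) (XT.nd (nat_lit 468) (nat_lit 0) (nat_lit 0) (XT.nd (nat_lit 234) (nat_lit 0) (nat_lit 0) (XT.nd (nat_lit 78) (nat_lit 0) (nat_lit 0) (XT.lf (nat_lit 0) (nat_lit 232558712874) (nat_lit 152) (nat_lit 1100522010460) (nat_lit 0) (nat_lit 230216958161) (nat_lit 1) (nat_lit 5) (nat_lit 3) (nat_lit 4) (nat_lit 1) (nat_lit 4) (nat_lit 332) (nat_lit 216) (nat_lit 172)) (XT.nd (nat_lit 78) (nat_lit 0) (nat_lit 0) (XT.lf (nat_lit 0) (nat_lit 252024261319) (nat_lit 152) (nat_lit 1186575060977) (nat_lit 0) (nat_lit 249676432103) (nat_lit 1) (nat_lit 5) (nat_lit 3) (nat_lit 4) (nat_lit 1) (nat_lit 4) (nat_lit 333) (nat_lit 216) (nat_lit 171)) (XT.lf (nat_lit 0) (nat_lit 273042273998) (nat_lit 152) (nat_lit 1279521367437) (nat_lit 0) (nat_lit 270688820243) (nat_lit 1) (nat_lit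 5) (nat_lit 3) (nat_lit 4) (nat_lit 1) (nat_lit 4) (nat_lit 334) (nat_lit 216) (nat_lit 170)))) (XT.nd (nat_lit 78) (nat_lit 0) (nat_lit 0) (XT.lf (nat_lit 0) (nat_lit 295737302096) (nat_lit 152) (nat_lit 1379911722767) (nat_lit 0) (nat_lit 293378640435) (nat_lit 1) (nat_lit 5) (nat_lit 3) (nat_lit 4) (nat_lit 1) (nat_lit 4) (nat_lit 335) (nat_lit 216) (nat_lit 169)) (XT.nd (nat_lit 78) (nat_lit 0) (nat_lit 0) (XT.lf (nat_lit 0) (nat_lit 320243834669) (nat_lit 152) (nat_lit 1488341032777) (nat_lit 0) (nat_lit 317880350872) (nat_lit 1) (nat_lit 5) (nat_lit 3) (nat_lit 4) (nat_lit 1) (nat_lit 4) (nat_lit 336) (nat_lit 216) (nat_lit 168)) (XT.lf (nat_lit 0) (nat_lit 346707095615) (nat_lit 152) (nat_lit 1605451841525) (nat_lit 0) (nat_lit 344339146877) (nat_lit 1) (nat_lit 5) (nat_lit 3) (nat_lit 4) (nat_lit 1) (nat_lit 4) (nat_lit 337) (nat_lit 216) (nat_lit 167))))) (XT.nd (nat_lit 234)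 (nat_lit 0) (nat_lit 0) (XT.nd (nat_lit 78) (nat_lit 0) (nat_lit 0) (XT.lf (nat_lit 0) (nat_lit 375283904256) (nat_lit 152) (nat_lit 1731938138990) (nat_lit 0) (nat_lit 372911821315) (nat_lit 1) (nat_lit 5) (nat_lit 3) (nat_lit 4) (nat_lit 1) (nat_lit 4) (nat_lit 338) (nat_lit 216) (nat_lit 166)) (XT.nd (nat_lit 78) (nat_lit 0) (nat_lit 0) (XT.lf (nat_lit 0) (nat_lit 406143604645) (nat_lit 152) (nat_lit 1868549473600) (nat_lit 0) (nat_lit 403767693737) (nat_lit 1) (nat_lit 5) (nat_lit 3) (nat_lit 4) (nat_lit 1) (nat_lit 4) (nat_lit 339) (nat_lit 216) (nat_lit 165)) (XT.lf (nat_lit 0) (nat_lit 439469069080) (nat_lit 152) (nat_lit 2016095394006) (nat_lit 0) (nat_lit 437089613758) (nat_lit 1) (nat_lit 5) (nat_lit 3) (nat_lit 4) (nat_lit 1) (nat_lit 4) (nat_lit 340) (nat_lit 216) (nat_lit 164)))) (XT.nd (nat_lit 33306) (nat_lit 0) (nat_lit 152) (XT.nd (nat_lit 33228) (nat_lit 0) (nat_lit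 152) (XT.lf (nat_lit 0) (nat_lit 475457781794) (nat_lit 152) (nat_lit 2175450246403) (nat_lit 0) (nat_lit 473075044607) (nat_lit 1) (nat_lit 5) (nat_lit 3) (nat_lit 4) (nat_lit 1) (nat_lit 4) (nat_lit 341) (nat_lit 216) (nat_lit 163)) (XT.lf (nat_lit 0) (nat_lit 7039055076) (nat_lit 76) (nat_lit 8319743580) (nat_lit 76) (nat_lit 8319743580) (nat_lit 3) (nat_lit 4) (nat_lit 4) (nat_lit 5) (nat_lit 4) (nat_lit 4) (nat_lit 286) (nat_lit 217) (nat_lit 217))) (XT.nd (nat_lit 78) (nat_lit 0) (nat_lit 0) (XT.lf (nat_lit 0) (nat_lit 20474595804) (nat_lit 76) (nat_lit 15324060452) (nat_lit 76) (nat_lit 15114647545) (nat_lit 3) (nat_lit 4) (nat_lit 4) (nat_lit 5) (nat_lit 4) (nat_lit 4) (nat_lit 287) (nat_lit 217) (nat_lit 216)) (XT.lf (nat_lit 0) (nat_lit 27125836112) (nat_lit 76) (nat_lit 14021413508) (nat_lit 76) (nat_lit 13618099762) (nat_lit 3) (nat_lit 4) (nat_lit 4) (nat_lit 5) (nat_lit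 4) (nat_lit 4) (nat_lit 288) (nat_lit 217) (nat_lit 215)))))) (XT.nd (nat_lit 468) (nat_lit 152) (nat_lit 0) (XT.nd (nat_lit 234) (nat_lit 0) (nat_lit 0) (XT.nd (nat_lit 78) (nat_lit 0) (nat_lit 0) (XT.lf (nat_lit 0) (nat_lit 34071245832) (nat_lit 76) (nat_lit 12723826940) (nat_lit 76) (nat_lit 12140975380) (nat_lit 3) (nat_lit 4) (nat_lit 4) (nat_lit 5) (nat_lit 4) (nat_lit 4) (nat_lit 289) (nat_lit 217) (nat_lit 214)) (XT.nd (nat_lit 78) (nat_lit 0) (nat_lit 0) (XT.lf (nat_lit 0) (nat_lit 41351982949) (nat_lit 76) (nat_lit 11423611347) (nat_lit 76) (nat_lit 10674521070) (nat_lit 3) (nat_lit 4) (nat_lit 4) (nat_lit 5) (nat_lit 4) (nat_lit 4) (nat_lit 290) (nat_lit 217) (nat_lit 213)) (XT.lf (nat_lit 0) (nat_lit 49011192572) (nat_lit 76) (nat_lit 10113061747) (nat_lit 76) (nat_lit 9210046732) (nat_lit 3) (nat_lit 4) (nat_lit 4) (nat_lit 5) (nat_lit 4) (nat_lit 4) (nat_lit 291) (nat_lit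 217) (nat_lit 212)))) (XT.nd (nat_lit 78) (nat_lit 0) (nat_lit 0) (XT.lf (nat_lit 0) (nat_lit 57094262608) (nat_lit 76) (nat_lit 8784411920) (nat_lit 76) (nat_lit 7738873999) (nat_lit 3) (nat_lit 4) (nat_lit 4) (nat_lit 5) (nat_lit 4) (nat_lit 4) (nat_lit 292) (nat_lit 217) (nat_lit 211)) (XT.nd (nat_lit 78) (nat_lit 0) (nat_lit 0) (XT.lf (nat_lit 0) (nat_lit 65649092733) (nat_lit 76) (nat_lit 7429788385) (nat_lit 76) (nat_lit 6252284811) (nat_lit 3) (nat_lit 4) (nat_lit 4) (nat_lit 5) (nat_lit 4) (nat_lit 4) (nat_lit 293) (nat_lit 217) (nat_lit 210)) (XT.lf (nat_lit 0) (nat_lit 74726378236) (nat_lit 76) (nat_lit 6041163744) (nat_lit 76) (nat_lit 4741469751) (nat_lit 3) (nat_lit 4) (nat_lit 4) (nat_lit 5) (nat_lit 4) (nat_lit 4) (nat_lit 294) (nat_lit 217) (nat_lit 209))))) (XT.nd (nat_lit 234) (nat_lit 76) (nat_lit 0) (XT.nd (nat_lit 78) (nat_lit 76) (nat_lit 0) (XT.lf (nat_lit 0)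 (nat_lit 84379910438) (nat_lit 76) (nat_lit 4610309111) (nat_lit 76) (nat_lit 3197475840) (nat_lit 3) (nat_lit 4) (nat_lit 4) (nat_lit 5) (nat_lit 4) (nat_lit 4) (nat_lit 295) (nat_lit 217) (nat_lit 208)) (XT.nd (nat_lit 78) (nat_lit 76) (nat_lit 0) (XT.lf (nat_lit 0) (nat_lit 94666895457) (nat_lit 76) (nat_lit 3128745346) (nat_lit 76) (nat_lit 1611153485) (nat_lit 3) (nat_lit 4) (nat_lit 4) (nat_lit 5) (nat_lit 4) (nat_lit 4) (nat_lit 296) (nat_lit 217) (nat_lit 207)) (XT.lf (nat_lit 0) (nat_lit 25552209) (nat_lit 152) (nat_lit 1561441960) (nat_lit 76) (nat_lit 105622042352) (nat_lit 2) (nat_lit 5) (nat_lit 4) (nat_lit 5) (nat_lit 3) (nat_lit 4) (nat_lit 297) (nat_lit 217) (nat_lit 206)))) (XT.nd (nat_lit 156) (nat_lit 0) (nat_lit 0) (XT.nd (nat_lit 78) (nat_lit 0) (nat_lit 0) (XT.lf (nat_lit 0) (nat_lit 1685964779) (nat_lit 152) (nat_lit 113840038778) (nat_lit 0) (nat_lit 107812777)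 (nat_lit 1) (nat_lit 5) (nat_lit 3) (nat_lit 4) (nat_lit 1) (nat_lit 4) (nat_lit 298) (nat_lit 217) (nat_lit 205)) (XT.lf (nat_lit 0) (nat_lit 3498798534) (nat_lit 152) (nat_lit 119388651563) (nat_lit 0) (nat_lit 1843645841) (nat_lit 1) (nat_lit 5) (nat_lit 3) (nat_lit 4) (nat_lit 1) (nat_lit 4) (nat_lit 299) (nat_lit 217) (nat_lit 204))) (XT.nd (nat_lit 78) (nat_lit 0) (nat_lit 0) (XT.lf (nat_lit 0) (nat_lit 5396072009) (nat_lit 152) (nat_lit 125495388681) (nat_lit 0) (nat_lit 3669622380) (nat_lit 1) (nat_lit 5) (nat_lit 3) (nat_lit 4) (nat_lit 1) (nat_lit 4) (nat_lit 300) (nat_lit 217) (nat_lit 203)) (XT.lf (nat_lit 0) (nat_lit 7389028307) (nat_lit 152) (nat_lit 132196438205) (nat_lit 0) (nat_lit 5596562996) (nat_lit 1) (nat_lit 5) (nat_lit 3) (nat_lit 4) (nat_lit 1) (nat_lit 4) (nat_lit 301) (nat_lit 217) (nat_lit 202))))))) (XT.nd (nat_lit 1014) (nat_lit 0) (nat_lit 0) (XT.nd (nat_lit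 468) (nat_lit 0) (nat_lit 0) (XT.nd (nat_lit 234) (nat_lit 0) (nat_lit 0) (XT.nd (nat_lit 78) (nat_lit 0) (nat_lit 0) (XT.lf (nat_lit 0) (nat_lit 9489477540) (nat_lit 152) (nat_lit 139531510058) (nat_lit 0) (nat_lit 7635886597) (nat_lit 1) (nat_lit 5) (nat_lit 3) (nat_lit 4) (nat_lit 1) (nat_lit 4) (nat_lit 302) (nat_lit 217) (nat_lit 201)) (XT.nd (nat_lit 78) (nat_lit 0) (nat_lit 0) (XT.lf (nat_lit 0) (nat_lit 11709866813) (nat_lit 152) (nat_lit 147544071331) (nat_lit 0) (nat_lit 9799678064) (nat_lit 1) (nat_lit 5) (nat_lit 3) (nat_lit 4) (nat_lit 1) (nat_lit 4) (nat_lit 303) (nat_lit 217) (nat_lit 200)) (XT.lf (nat_lit 0) (nat_lit 14063353989) (nat_lit 152) (nat_lit 156281603870) (nat_lit 0) (nat_lit 12100759864) (nat_lit 1) (nat_lit 5) (nat_lit 3) (nat_lit 4) (nat_lit 1) (nat_lit 4) (nat_lit 304) (nat_lit 217) (nat_lit 199)))) (XT.nd (nat_lit 78) (nat_lit 0) (nat_lit 0) (XT.lf (nat_lit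 0) (nat_lit 16563885659) (nat_lit 152) (nat_lit 165795885645) (nat_lit 0) (nat_lit 14552768037) (nat_lit 1) (nat_lit 5) (nat_lit 3) (nat_lit 4) (nat_lit 1) (nat_lit 4) (nat_lit 305) (nat_lit 217) (nat_lit 198)) (XT.nd (nat_lit 78) (nat_lit 0) (nat_lit 0) (XT.lf (nat_lit 0) (nat_lit 19226279789) (nat_lit 152) (nat_lit 176143297586) (nat_lit 0) (nat_lit 17170233003) (nat_lit 1) (nat_lit 5) (nat_lit 3) (nat_lit 4) (nat_lit 1) (nat_lit 4) (nat_lit 306) (nat_lit 217) (nat_lit 197)) (XT.lf (nat_lit 0) (nat_lit 22066313528) (nat_lit 152) (nat_lit 187385157688) (nat_lit 0) (nat_lit 19968665664) (nat_lit 1) (nat_lit 5) (nat_lit 3) (nat_lit 4) (nat_lit 1) (nat_lit 4) (nat_lit 307) (nat_lit 217) (nat_lit 196))))) (XT.nd (nat_lit 234) (nat_lit 0) (nat_lit 0) (XT.nd (nat_lit 78) (nat_lit 0) (nat_lit 0) (XT.lf (nat_lit 0) (nat_lit 25100816706) (nat_lit 152) (nat_lit 199588084383) (nat_lit 0) (nat_lit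 22964649326) (nat_lit 1) (nat_lit 5) (nat_lit 3) (nat_lit 4) (nat_lit 1) (nat_lit 4) (nat_lit 308) (nat_lit 217) (nat_lit 195)) (XT.nd (nat_lit 78) (nat_lit 0) (nat_lit 0) (XT.lf (nat_lit 0) (nat_lit 28347771565) (nat_lit 152) (nat_lit 212824391309) (nat_lit 0) (nat_lit 26175937966) (nat_lit 1) (nat_lit 5) (nat_lit 3) (nat_lit 4) (nat_lit 1) (nat_lit 4) (nat_lit 309) (nat_lit 217) (nat_lit 194)) (XT.lf (nat_lit 0) (nat_lit 31826419318) (nat_lit 152) (nat_lit 227172515841) (nat_lit 0) (nat_lit 29621561443) (nat_lit 1) (nat_lit 5) (nat_lit 3) (nat_lit 4) (nat_lit 1) (nat_lit 4) (nat_lit 310) (nat_lit 217) (nat_lit 193)))) (XT.nd (nat_lit 156) (nat_lit 0) (nat_lit 0) (XT.nd (nat_lit 78) (nat_lit 0) (nat_lit 0) (XT.lf (nat_lit 0) (nat_lit 35557374174) (nat_lit 152) (nat_lit 242717483903) (nat_lit 0) (nat_lit 33321938265) (nat_lit 1) (nat_lit 5) (nat_lit 3) (nat_lit 4) (nat_lit 1) (nat_lit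 4) (nat_lit 311) (nat_lit 217) (nat_lit 192)) (XT.lf (nat_lit 0) (nat_lit 39562745495) (nat_lit 152) (nat_lit 259551413823) (nat_lit 0) (nat_lit 37298996592) (nat_lit 1) (nat_lit 5) (nat_lit 3) (nat_lit 4) (nat_lit 1) (nat_lit 4) (nat_lit 312) (nat_lit 217) (nat_lit 191))) (XT.nd (nat_lit 78) (nat_lit 0) (nat_lit 0) (XT.lf (nat_lit 0) (nat_lit 43866268815) (nat_lit 152) (nat_lit 277774062224) (nat_lit 0) (nat_lit 41576304177) (nat_lit 1) (nat_lit 5) (nat_lit 3) (nat_lit 4) (nat_lit 1) (nat_lit 4) (nat_lit 313) (nat_lit 217) (nat_lit 190)) (XT.lf (nat_lit 0) (nat_lit 48493446495) (nat_lit 152) (nat_lit 297493415170) (nat_lit 0) (nat_lit 46179208027) (nat_lit 1) (nat_lit 5) (nat_lit 3) (nat_lit 4) (nat_lit 1) (nat_lit 4) (nat_lit 314) (nat_lit 217) (nat_lit 189)))))) (XT.nd (nat_lit 468) (nat_lit 0) (nat_lit 0) (XT.nd (nat_lit 234) (nat_lit 0) (nat_lit 0) (XT.nd (nat_lit 78) (nat_lit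 0) (nat_lit 0) (XT.lf (nat_lit 0) (nat_lit 53471698847) (nat_lit 152) (nat_lit 318826328085) (nat_lit 0) (nat_lit 51134984611) (nat_lit 1) (nat_lit 5) (nat_lit 3) (nat_lit 4) (nat_lit 1) (nat_lit 4) (nat_lit 315) (nat_lit 217) (nat_lit 188)) (XT.nd (nat_lit 78) (nat_lit 0) (nat_lit 0) (XT.lf (nat_lit 0) (nat_lit 58830526624) (nat_lit 152) (nat_lit 341899218232) (nat_lit 0) (nat_lit 56473001493) (nat_lit 1) (nat_lit 5) (nat_lit 3) (nat_lit 4) (nat_lit 1) (nat_lit 4) (nat_lit 316) (nat_lit 217) (nat_lit 187)) (XT.lf (nat_lit 0) (nat_lit 64601685845) (nat_lit 152) (nat_lit 366848813848) (nat_lit 0) (nat_lit 62224891365) (nat_lit 1) (nat_lit 5) (nat_lit 3) (nat_lit 4) (nat_lit 1) (nat_lit 4) (nat_lit 317) (nat_lit 217) (nat_lit 186)))) (XT.nd (nat_lit 78) (nat_lit 0) (nat_lit 0) (XT.lf (nat_lit 0) (nat_lit 70819375970) (nat_lit 152) (nat_lit 393822964390) (nat_lit 0) (nat_lit 68424739501)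 (nat_lit 1) (nat_lit 5) (nat_lit 3) (nat_lit 4) (nat_lit 1) (nat_lit 4) (nat_lit 318) (nat_lit 217) (nat_lit 185)) (XT.nd (nat_lit 78) (nat_lit 0) (nat_lit 0) (XT.lf (nat_lit 0) (nat_lit 77520442571) (nat_lit 152) (nat_lit 422981516674) (nat_lit 0) (nat_lit 75109285742) (nat_lit 1) (nat_lit 5) (nat_lit 3) (nat_lit 4) (nat_lit 1) (nat_lit 4) (nat_lit 319) (nat_lit 217) (nat_lit 184)) (XT.lf (nat_lit 0) (nat_lit 84744595673) (nat_lit 152) (nat_lit 454497262122) (nat_lit 0) (nat_lit 82318142214) (nat_lit 1) (nat_lit 5) (nat_lit 3) (nat_lit 4) (nat_lit 1) (nat_lit 4) (nat_lit 320) (nat_lit 217) (nat_lit 183))))) (XT.nd (nat_lit 234) (nat_lit 0) (nat_lit 0) (XT.nd (nat_lit 78) (nat_lit 0) (nat_lit 0) (XT.lf (nat_lit 0) (nat_lit 92534645071) (nat_lit 152) (nat_lit 488556960707) (nat_lit 0) (nat_lit 90094028066) (nat_lit 1) (nat_lit 5) (nat_lit 3) (nat_lit 4) (nat_lit 1) (nat_lit 4) (nat_lit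 321) (nat_lit 217) (nat_lit 182)) (XT.nd (nat_lit 78) (nat_lit 0) (nat_lit 0) (XT.lf (nat_lit 0) (nat_lit 100936754021) (nat_lit 152) (nat_lit 525362447680) (nat_lit 0) (nat_lit 98483022621) (nat_lit 1) (nat_lit 5) (nat_lit 3) (nat_lit 4) (nat_lit 1) (nat_lit 4) (nat_lit 322) (nat_lit 217) (nat_lit 181)) (XT.lf (nat_lit 0) (nat_lit 110000712798) (nat_lit 152) (nat_lit 565131829630) (nat_lit 0) (nat_lit 107534838440) (nat_lit 1) (nat_lit 5) (nat_lit 3) (nat_lit 4) (nat_lit 1) (nat_lit 4) (nat_lit 323) (nat_lit 217) (nat_lit 180)))) (XT.nd (nat_lit 156) (nat_lit 0) (nat_lit 0) (XT.nd (nat_lit 78) (nat_lit 0) (nat_lit 0) (XT.lf (nat_lit 0) (nat_lit 119780233751) (nat_lit 152) (nat_lit 608100776969) (nat_lit 0) (nat_lit 117303115914) (nat_lit 1) (nat_lit 5) (nat_lit 3) (nat_lit 4) (nat_lit 1) (nat_lit 4) (nat_lit 324) (nat_lit 217) (nat_lit 179)) (XT.lf (nat_lit 0) (nat_lit 130333269596)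 (nat_lit 152) (nat_lit 654523920496) (nat_lit 0) (nat_lit 127845741130) (nat_lit 1) (nat_lit 5) (nat_lit 3) (nat_lit 4) (nat_lit 1) (nat_lit 4) (nat_lit 325) (nat_lit 217) (nat_lit 178))) (XT.nd (nat_lit 78) (nat_lit 0) (nat_lit 0) (XT.lf (nat_lit 0) (nat_lit 141722356843) (nat_lit 152) (nat_lit 704676360321) (nat_lit 0) (nat_lit 139225188905) (nat_lit 1) (nat_lit 5) (nat_lit 3) (nat_lit 4) (nat_lit 1) (nat_lit 4) (nat_lit 326) (nat_lit 217) (nat_lit 177)) (XT.lf (nat_lit 0) (nat_lit 154014986378) (nat_lit 152) (nat_lit 758855296086) (nat_lit 0) (nat_lit 151508893003) (nat_lit 1) (nat_lit 5) (nat_lit 3) (nat_lit 4) (nat_lit 1) (nat_lit 4) (nat_lit 327) (nat_lit 217) (nat_lit 176))))))))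
noncomputable def xc16 : XT := (XT.nd (nat_lit 34944) (nat_lit 0) (nat_lit 0) (XT.nd (nat_lit 936) (nat_lit 0) (nat_lit 0) (XT.nd (nat_lit 468) (nat_lit 0) (nat_lit 0) (XT.nd (nat_lit 234) (nat_lit 0) (nat_lit 0) (XT.nd (nat_lit 78) (nat_lit 0) (nat_lit 0) (XT.lf (nat_lit 0) (nat_lit 167284003413) (nat_lit 152) (nat_lit 817381788153) (nat_lit 0) (nat_lit 164769645745) (nat_lit 1) (nat_lit 5) (nat_lit 3) (nat_lit 4) (nat_lit 1) (nat_lit 4) (nat_lit 328) (nat_lit 217) (nat_lit 175)) (XT.nd (nat_lit 78) (nat_lit 0) (nat_lit 0) (XT.lf (nat_lit 0) (nat_lit 181608039162) (nat_lit 152) (nat_lit 880602660178) (nat_lit 0) (nat_lit 179086029370) (nat_lit 1) (nat_lit 5) (nat_lit 3) (nat_lit 4) (nat_lit 1) (nat_lit 4) (nat_lit 329) (nat_lit 217) (nat_lit 174)) (XT.lf (nat_lit 0) (nat_lit 197071976797) (nat_lit 152) (nat_lit 948892554365) (nat_lit 0) (nat_lit 194542881707) (nat_lit 1) (nat_lit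 5) (nat_lit 3) (nat_lit 4) (nat_lit 1) (nat_lit 4) (nat_lit 330) (nat_lit 217) (nat_lit 173)))) (XT.nd (nat_lit 78) (nat_lit 0) (nat_lit 0) (XT.lf (nat_lit 0) (nat_lit 213767454469) (nat_lit 152) (nat_lit 1022656151569) (nat_lit 0) (nat_lit 211231798916) (nat_lit 1) (nat_lit 5) (nat_lit 3) (nat_lit 4) (nat_lit 1) (nat_lit 4) (nat_lit 331) (nat_lit 217) (nat_lit 172)) (XT.nd (nat_lit 78) (nat_lit 0) (nat_lit 0) (XT.lf (nat_lit 0) (nat_lit 231793408342) (nat_lit 152) (nat_lit 1102330569403) (nat_lit 0) (nat_lit 229251678286) (nat_lit 1) (nat_lit 5) (nat_lit 3) (nat_lit 4) (nat_lit 1) (nat_lit 4) (nat_lit 332) (nat_lit 217) (nat_lit 171)) (XT.lf (nat_lit 0) (nat_lit 251256658882) (nat_lit 152) (nat_lit 1188387952565) (nat_lit 0) (nat_lit 248709304288) (nat_lit 1) (nat_lit 5) (nat_lit 3) (nat_lit 4) (nat_lit 1) (nat_lit 4) (nat_lit 333) (nat_lit 217) (nat_lit 170))))) (XT.nd (nat_lit 234)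 (nat_lit 0) (nat_lit 0) (XT.nd (nat_lit 78) (nat_lit 0) (nat_lit 0) (XT.lf (nat_lit 0) (nat_lit 272272543871) (nat_lit 152) (nat_lit 1281338270733) (nat_lit 0) (nat_lit 269719981370) (nat_lit 1) (nat_lit 5) (nat_lit 3) (nat_lit 4) (nat_lit 1) (nat_lit 4) (nat_lit 334) (nat_lit 217) (nat_lit 169)) (XT.nd (nat_lit 78) (nat_lit 0) (nat_lit 0) (XT.lf (nat_lit 0) (nat_lit 294965601886) (nat_lit 152) (nat_lit 1381732340608) (nat_lit 0) (nat_lit 292408217249) (nat_lit 1) (nat_lit 5) (nat_lit 3) (nat_lit 4) (nat_lit 1) (nat_lit 4) (nat_lit 335) (nat_lit 217) (nat_lit 168)) (XT.lf (nat_lit 0) (nat_lit 319470310308) (nat_lit 152) (nat_lit 1490165090010) (nat_lit 0) (nat_lit 316908460732) (nat_lit 1) (nat_lit 5) (nat_lit 3) (nat_lit 4) (nat_lit 1) (nat_lit 4) (nat_lit 336) (nat_lit 217) (nat_lit 167)))) (XT.nd (nat_lit 78) (nat_lit 0) (nat_lit 0) (XT.lf (nat_lit 0) (nat_lit 345931882225) (nat_lit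 152) (nat_lit 1607279083382) (nat_lit 0) (nat_lit 343365898444) (nat_lit 1) (nat_lit 5) (nat_lit 3) (nat_lit 4) (nat_lit 1) (nat_lit 4) (nat_lit 337) (nat_lit 217) (nat_lit 166)) (XT.nd (nat_lit 78) (nat_lit 0) (nat_lit 0) (XT.lf (nat_lit 0) (nat_lit 374507126951) (nat_lit 152) (nat_lit 1733768329572) (nat_lit 0) (nat_lit 371937315204) (nat_lit 1) (nat_lit 5) (nat_lit 3) (nat_lit 4) (nat_lit 1) (nat_lit 4) (nat_lit 338) (nat_lit 217) (nat_lit 165)) (XT.lf (nat_lit 0) (nat_lit 405365379270) (nat_lit 152) (nat_lit 1870382394484) (nat_lit 0) (nat_lit 402792023109) (nat_lit 1) (nat_lit 5) (nat_lit 3) (nat_lit 4) (nat_lit 1) (nat_lit 4) (nat_lit 339) (nat_lit 217) (nat_lit 164)))))) (XT.nd (nat_lit 33462) (nat_lit 0) (nat_lit 152) (XT.nd (nat_lit 33228) (nat_lit 0) (nat_lit 152) (XT.nd (nat_lit 78) (nat_lit 0) (nat_lit 0) (XT.lf (nat_lit 0) (nat_lit 438689502900) (nat_lit 152) (nat_lit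 2017930842947) (nat_lit 0) (nat_lit 436112864874) (nat_lit 1) (nat_lit 5) (nat_lit 3) (nat_lit 4) (nat_lit 1) (nat_lit 4) (nat_lit 340) (nat_lit 217) (nat_lit 163)) (XT.nd (nat_lit 33072) (nat_lit 0) (nat_lit 152) (XT.lf (nat_lit 0) (nat_lit 474676974127) (nat_lit 152) (nat_lit 2177288036136) (nat_lit 0) (nat_lit 472097297338) (nat_lit 1) (nat_lit 5) (nat_lit 3) (nat_lit 4) (nat_lit 1) (nat_lit 4) (nat_lit 341) (nat_lit 217) (nat_lit 162)) (XT.lf (nat_lit 0) (nat_lit 1021582532) (nat_lit 76) (nat_lit 9749984829) (nat_lit 76) (nat_lit 9749984829) (nat_lit 3) (nat_lit 4) (nat_lit 4) (nat_lit 5) (nat_lit 4) (nat_lit 4) (nat_lit 284) (nat_lit 218) (nat_lit 218)))) (XT.nd (nat_lit 78) (nat_lit 0) (nat_lit 0) (XT.lf (nat_lit 0) (nat_lit 7898474056) (nat_lit 76) (nat_lit 18201654695) (nat_lit 76) (nat_lit 17975488756) (nat_lit 3) (nat_lit 4) (nat_lit 4) (nat_lit 5) (nat_lit 4) (nat_lit 4)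 (nat_lit 285) (nat_lit 218) (nat_lit 217)) (XT.nd (nat_lit 78) (nat_lit 0) (nat_lit 0) (XT.lf (nat_lit 0) (nat_lit 13944686435) (nat_lit 76) (nat_lit 16926929549) (nat_lit 76) (nat_lit 16491350703) (nat_lit 3) (nat_lit 4) (nat_lit 4) (nat_lit 5) (nat_lit 4) (nat_lit 4) (nat_lit 286) (nat_lit 218) (nat_lit 216)) (XT.lf (nat_lit 0) (nat_lit 20217631608) (nat_lit 76) (nat_lit 15668240293) (nat_lit 76) (nat_lit 15038760608) (nat_lit 3) (nat_lit 4) (nat_lit 4) (nat_lit 5) (nat_lit 4) (nat_lit 4) (nat_lit 287) (nat_lit 218) (nat_lit 215))))) (XT.nd (nat_lit 234) (nat_lit 0) (nat_lit 0) (XT.nd (nat_lit 78) (nat_lit 0) (nat_lit 0) (XT.lf (nat_lit 0) (nat_lit 26754482583) (nat_lit 76) (nat_lit 14418128028) (nat_lit 76) (nat_lit 13609110528) (nat_lit 3) (nat_lit 4) (nat_lit 4) (nat_lit 5) (nat_lit 4) (nat_lit 4) (nat_lit 288) (nat_lit 218) (nat_lit 214)) (XT.nd (nat_lit 78) (nat_lit 0) (nat_lit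 0) (XT.lf (nat_lit 0) (nat_lit 33593976255) (nat_lit 76) (nat_lit 13169184681) (nat_lit 76) (nat_lit 12193928465) (nat_lit 3) (nat_lit 4) (nat_lit 4) (nat_lit 5) (nat_lit 4) (nat_lit 4) (nat_lit 289) (nat_lit 218) (nat_lit 213)) (XT.lf (nat_lit 0) (nat_lit 40776642956) (nat_lit 76) (nat_lit 11914009107) (nat_lit 76) (nat_lit 10784828153) (nat_lit 3) (nat_lit 4) (nat_lit 4) (nat_lit 5) (nat_lit 4) (nat_lit 4) (nat_lit 290) (nat_lit 218) (nat_lit 212)))) (XT.nd (nat_lit 156) (nat_lit 0) (nat_lit 0) (XT.nd (nat_lit 78) (nat_lit 0) (nat_lit 0) (XT.lf (nat_lit 0) (nat_lit 48345046638) (nat_lit 76) (nat_lit 10645163229) (nat_lit 76) (nat_lit 9373459369) (nat_lit 3) (nat_lit 4) (nat_lit 4) (nat_lit 5) (nat_lit 4) (nat_lit 4) (nat_lit 291) (nat_lit 218) (nat_lit 211)) (XT.lf (nat_lit 0) (nat_lit 56344037100) (nat_lit 76) (nat_lit 9355127959) (nat_lit 76) (nat_lit 7951458446) (nat_lit 3) (nat_lit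 4) (nat_lit 4) (nat_lit 5) (nat_lit 4) (nat_lit 4) (nat_lit 292) (nat_lit 218) (nat_lit 210))) (XT.nd (nat_lit 78) (nat_lit 0) (nat_lit 0) (XT.lf (nat_lit 0) (nat_lit 64821015768) (nat_lit 76) (nat_lit 8036258644) (nat_lit 76) (nat_lit 6510398711) (nat_lit 3) (nat_lit 4) (nat_lit 4) (nat_lit 5) (nat_lit 4) (nat_lit 4) (nat_lit 293) (nat_lit 218) (nat_lit 209)) (XT.lf (nat_lit 0) (nat_lit 73826216588) (nat_lit 76) (nat_lit 6680739762) (nat_lit 76) (nat_lit 5041740552) (nat_lit 3) (nat_lit 4) (nat_lit 4) (nat_lit 5) (nat_lit 4) (nat_lit 4) (nat_lit 294) (nat_lit 218) (nat_lit 208))))))) (XT.nd (nat_lit 1014) (nat_lit 0) (nat_lit 0) (XT.nd (nat_lit 468) (nat_lit 0) (nat_lit 0) (XT.nd (nat_lit 234) (nat_lit 152) (nat_lit 0) (XT.nd (nat_lit 78) (nat_lit 0) (nat_lit 0) (XT.lf (nat_lit 0) (nat_lit 83413003713) (nat_lit 76) (nat_lit 5280538609) (nat_lit 76) (nat_lit 3536780808) (nat_lit 3)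 (nat_lit 4) (nat_lit 4) (nat_lit 5) (nat_lit 4) (nat_lit 4) (nat_lit 295) (nat_lit 218) (nat_lit 207)) (XT.nd (nat_lit 78) (nat_lit 0) (nat_lit 0) (XT.lf (nat_lit 0) (nat_lit 93638187735) (nat_lit 76) (nat_lit 3827357696) (nat_lit 76) (nat_lit 1986601201) (nat_lit 3) (nat_lit 4) (nat_lit 4) (nat_lit 5) (nat_lit 4) (nat_lit 4) (nat_lit 296) (nat_lit 218) (nat_lit 206)) (XT.lf (nat_lit 0) (nat_lit 104562362336) (nat_lit 76) (nat_lit 2312585581) (nat_lit 76) (nat_lit 382015480) (nat_lit 3) (nat_lit 4) (nat_lit 4) (nat_lit 5) (nat_lit 4) (nat_lit 4) (nat_lit 297) (nat_lit 218) (nat_lit 205)))) (XT.nd (nat_lit 78) (nat_lit 0) (nat_lit 0) (XT.lf (nat_lit 0) (nat_lit 556118475) (nat_lit 76) (nat_lit 679386006) (nat_lit 152) (nat_lit 114451974538) (nat_lit 1) (nat_lit 5) (nat_lit 2) (nat_lit 5) (nat_lit 3) (nat_lit 4) (nat_lit 298) (nat_lit 218) (nat_lit 204)) (XT.nd (nat_lit 78) (nat_lit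 0) (nat_lit 0) (XT.lf (nat_lit 0) (nat_lit 3002870631) (nat_lit 152) (nat_lit 120718554903) (nat_lit 0) (nat_lit 1067008095) (nat_lit 1) (nat_lit 5) (nat_lit 3) (nat_lit 4) (nat_lit 1) (nat_lit 4) (nat_lit 299) (nat_lit 218) (nat_lit 203)) (XT.lf (nat_lit 0) (nat_lit 4873173407) (nat_lit 152) (nat_lit 126876144634) (nat_lit 0) (nat_lit 2871295189) (nat_lit 1) (nat_lit 5) (nat_lit 3) (nat_lit 4) (nat_lit 1) (nat_lit 4) (nat_lit 300) (nat_lit 218) (nat_lit 202))))) (XT.nd (nat_lit 234) (nat_lit 0) (nat_lit 0) (XT.nd (nat_lit 78) (nat_lit 0) (nat_lit 0) (XT.lf (nat_lit 0) (nat_lit 6841156835) (nat_lit 152) (nat_lit 133624279912) (nat_lit 0) (nat_lit 4778152986) (nat_lit 1) (nat_lit 5) (nat_lit 3) (nat_lit 4) (nat_lit 1) (nat_lit 4) (nat_lit 301) (nat_lit 218) (nat_lit 201)) (XT.nd (nat_lit 78) (nat_lit 0) (nat_lit 0) (XT.lf (nat_lit 0) (nat_lit 8918483040) (nat_lit 152) (nat_lit 141002949684)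 (nat_lit 0) (nat_lit 6798881384) (nat_lit 1) (nat_lit 5) (nat_lit 3) (nat_lit 4) (nat_lit 1) (nat_lit 4) (nat_lit 302) (nat_lit 218) (nat_lit 200)) (XT.lf (nat_lit 0) (nat_lit 11117462102) (nat_lit 152) (nat_lit 149055879401) (nat_lit 0) (nat_lit 8945455070) (nat_lit 1) (nat_lit 5) (nat_lit 3) (nat_lit 4) (nat_lit 1) (nat_lit 4) (nat_lit 303) (nat_lit 218) (nat_lit 199)))) (XT.nd (nat_lit 156) (nat_lit 0) (nat_lit 0) (XT.nd (nat_lit 78) (nat_lit 0) (nat_lit 0) (XT.lf (nat_lit 0) (nat_lit 13451125009) (nat_lit 152) (nat_lit 157830790129) (nat_lit 0) (nat_lit 11230594480) (nat_lit 1) (nat_lit 5) (nat_lit 3) (nat_lit 4) (nat_lit 1) (nat_lit 4) (nat_lit 304) (nat_lit 218) (nat_lit 198)) (XT.lf (nat_lit 0) (nat_lit 15933300874) (nat_lit 152) (nat_lit 167379681339) (nat_lit 0) (nat_lit 13667841182) (nat_lit 1) (nat_lit 5) (nat_lit 3) (nat_lit 4) (nat_lit 1) (nat_lit 4) (nat_lit 305) (nat_lit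 218) (nat_lit 197))) (XT.nd (nat_lit 78) (nat_lit 0) (nat_lit 0) (XT.lf (nat_lit 0) (nat_lit 18578698888) (nat_lit 152) (nat_lit 177759139052) (nat_lit 0) (nat_lit 16271638118) (nat_lit 1) (nat_lit 5) (nat_lit 3) (nat_lit 4) (nat_lit 1) (nat_lit 4) (nat_lit 306) (nat_lit 218) (nat_lit 196)) (XT.lf (nat_lit 0) (nat_lit 21402995483) (nat_lit 152) (nat_lit 189030671165) (nat_lit 0) (nat_lit 19057415196) (nat_lit 1) (nat_lit 5) (nat_lit 3) (nat_lit 4) (nat_lit 1) (nat_lit 4) (nat_lit 307) (nat_lit 218) (nat_lit 195)))))) (XT.nd (nat_lit 468) (nat_lit 0) (nat_lit 0) (XT.nd (nat_lit 234) (nat_lit 0) (nat_lit 0) (XT.nd (nat_lit 78) (nat_lit 0) (nat_lit 0) (XT.lf (nat_lit 0) (nat_lit 24422927231) (nat_lit 152) (nat_lit 201261071945) (nat_lit 0) (nat_lit 22041680726) (nat_lit 1) (nat_lit 5) (nat_lit 3) (nat_lit 4) (nat_lit 1) (nat_lit 4) (nat_lit 308) (nat_lit 218) (nat_lit 194)) (XT.nd (nat_lit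 78) (nat_lit 0) (nat_lit 0) (XT.lf (nat_lit 0) (nat_lit 27656390025) (nat_lit 152) (nat_lit 214522817838) (nat_lit 0) (nat_lit 25242119244) (nat_lit 1) (nat_lit 5) (nat_lit 3) (nat_lit 4) (nat_lit 1) (nat_lit 4) (nat_lit 309) (nat_lit 218) (nat_lit 193)) (XT.lf (nat_lit 0) (nat_lit 31122545126) (nat_lit 152) (nat_lit 228894496970) (nat_lit 0) (nat_lit 28677696310) (nat_lit 1) (nat_lit 5) (nat_lit 3) (nat_lit 4) (nat_lit 1) (nat_lit 4) (nat_lit 310) (nat_lit 218) (nat_lit 192)))) (XT.nd (nat_lit 78) (nat_lit 0) (nat_lit 0) (XT.lf (nat_lit 0) (nat_lit 34841932711) (nat_lit 152) (nat_lit 244461274846) (nat_lit 0) (nat_lit 32368770901) (nat_lit 1) (nat_lit 5) (nat_lit 3) (nat_lit 4) (nat_lit 1) (nat_lit 4) (nat_lit 311) (nat_lit 218) (nat_lit 191)) (XT.nd (nat_lit 78) (nat_lit 0) (nat_lit 0) (XT.lf (nat_lit 0) (nat_lit 38836593596) (nat_lit 152) (nat_lit 261315399039) (nat_lit 0) (nat_lit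 36337216051) (nat_lit 1) (nat_lit 5) (nat_lit 3) (nat_lit 4) (nat_lit 1) (nat_lit 4) (nat_lit 312) (nat_lit 218) (nat_lit 190)) (XT.lf (nat_lit 0) (nat_lit 43130199846) (nat_lit 152) (nat_lit 279556745840) (nat_lit 0) (nat_lit 40606548472) (nat_lit 1) (nat_lit 5) (nat_lit 3) (nat_lit 4) (nat_lit 1) (nat_lit 4) (nat_lit 313) (nat_lit 218) (nat_lit 189))))) (XT.nd (nat_lit 234) (nat_lit 0) (nat_lit 0) (XT.nd (nat_lit 78) (nat_lit 0) (nat_lit 0) (XT.lf (nat_lit 0) (nat_lit 47748195054) (nat_lit 152) (nat_lit 299293412119) (nat_lit 0) (nat_lit 45202067912) (nat_lit 1) (nat_lit 5) (nat_lit 3) (nat_lit 4) (nat_lit 1) (nat_lit 4) (nat_lit 314) (nat_lit 218) (nat_lit 188)) (XT.nd (nat_lit 78) (nat_lit 0) (nat_lit 0) (XT.lf (nat_lit 0) (nat_lit 52717945116) (nat_lit 152) (nat_lit 320642355899) (nat_lit 0) (nat_lit 50151007078) (nat_lit 1) (nat_lit 5) (nat_lit 3) (nat_lit 4) (nat_lit 1) (nat_lit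 4) (nat_lit 315) (nat_lit 218) (nat_lit 187)) (XT.lf (nat_lit 0) (nat_lit 58068900404) (nat_lit 152) (nat_lit 343730089440) (nat_lit 0) (nat_lit 55482693017) (nat_lit 1) (nat_lit 5) (nat_lit 3) (nat_lit 4) (nat_lit 1) (nat_lit 4) (nat_lit 316) (nat_lit 218) (nat_lit 186)))) (XT.nd (nat_lit 156) (nat_lit 0) (nat_lit 0) (XT.nd (nat_lit 78) (nat_lit 0) (nat_lit 0) (XT.lf (nat_lit 0) (nat_lit 63832770281) (nat_lit 152) (nat_lit 368693428938) (nat_lit 0) (nat_lit 61228720906) (nat_lit 1) (nat_lit 5) (nat_lit 3) (nat_lit 4) (nat_lit 1) (nat_lit 4) (nat_lit 317) (nat_lit 218) (nat_lit 185)) (XT.lf (nat_lit 0) (nat_lit 70043711015) (nat_lit 152) (nat_lit 395680305297) (nat_lit 0) (nat_lit 67423141279) (nat_lit 1) (nat_lit 5) (nat_lit 3) (nat_lit 4) (nat_lit 1) (nat_lit 4) (nat_lit 318) (nat_lit 218) (nat_lit 184))) (XT.nd (nat_lit 78) (nat_lit 0) (nat_lit 0) (XT.lf (nat_lit 0) (nat_lit 76738528180)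 (nat_lit 152) (nat_lit 424850640745) (nat_lit 0) (nat_lit 74102661814) (nat_lit 1) (nat_lit 5) (nat_lit 3) (nat_lit 4) (nat_lit 1) (nat_lit 4) (nat_lit 319) (nat_lit 218) (nat_lit 183)) (XT.lf (nat_lit 0) (nat_lit 83956894766) (nat_lit 152) (nat_lit 456377296530) (nat_lit 0) (nat_lit 81306864854) (nat_lit 1) (nat_lit 5) (nat_lit 3) (nat_lit 4) (nat_lit 1) (nat_lit 4) (nat_lit 320) (nat_lit 218) (nat_lit 182))))))))
noncomputable def xc17 : XT := (XT.nd (nat_lit 34866) (nat_lit 0) (nat_lit 0) (XT.nd (nat_lit 1014) (nat_lit 0) (nat_lit 0) (XT.nd (nat_lit 468) (nat_lit 0) (nat_lit 0) (XT.nd (nat_lit 234) (nat_lit 0) (nat_lit 0) (XT.nd (nat_lit 78) (nat_lit 0) (nat_lit 0) (XT.lf (nat_lit 0) (nat_lit 91741586280) (nat_lit 152) (nat_lit 490447097279) (nat_lit 0) (nat_lit 89078441973) (nat_lit 1) (nat_lit 5) (nat_lit 3) (nat_lit 4) (nat_lit 1) (nat_lit 4) (nat_lit 321) (nat_lit 218) (nat_lit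 181)) (XT.nd (nat_lit 78) (nat_lit 0) (nat_lit 0) (XT.lf (nat_lit 0) (nat_lit 100138734226) (nat_lit 152) (nat_lit 527261938108) (nat_lit 0) (nat_lit 97463446961) (nat_lit 1) (nat_lit 5) (nat_lit 3) (nat_lit 4) (nat_lit 1) (nat_lit 4) (nat_lit 322) (nat_lit 218) (nat_lit 180)) (XT.lf (nat_lit 0) (nat_lit 109198099480) (nat_lit 152) (nat_lit 567039981035) (nat_lit 0) (nat_lit 106511568736) (nat_lit 1) (nat_lit 5) (nat_lit 3) (nat_lit 4) (nat_lit 1) (nat_lit 4) (nat_lit 323) (nat_lit 218) (nat_lit 179)))) (XT.nd (nat_lit 78) (nat_lit 0) (nat_lit 0) (XT.lf (nat_lit 0) (nat_lit 118973367172) (nat_lit 152) (nat_lit 610016947798) (nat_lit 0) (nat_lit 116276425799) (nat_lit 1) (nat_lit 5) (nat_lit 3) (nat_lit 4) (nat_lit 1) (nat_lit 4) (nat_lit 324) (nat_lit 218) (nat_lit 178)) (XT.nd (nat_lit 78) (nat_lit 0) (nat_lit 0) (XT.lf (nat_lit 0) (nat_lit 129522464812) (nat_lit 152) (nat_lit 656447516717)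 (nat_lit 0) (nat_lit 126815883967) (nat_lit 1) (nat_lit 5) (nat_lit 3) (nat_lit 4) (nat_lit 1) (nat_lit 4) (nat_lit 325) (nat_lit 218) (nat_lit 177)) (XT.lf (nat_lit 0) (nat_lit 140907905573) (nat_lit 152) (nat_lit 706606831904) (nat_lit 0) (nat_lit 138192399291) (nat_lit 1) (nat_lit 5) (nat_lit 3) (nat_lit 4) (nat_lit 1) (nat_lit 4) (nat_lit 326) (nat_lit 218) (nat_lit 176))))) (XT.nd (nat_lit 234) (nat_lit 0) (nat_lit 0) (XT.nd (nat_lit 78) (nat_lit 0) (nat_lit 0) (XT.lf (nat_lit 0) (nat_lit 153197158731) (nat_lit 152) (nat_lit 760792133747) (nat_lit 0) (nat_lit 150473388157) (nat_lit 1) (nat_lit 5) (nat_lit 3) (nat_lit 4) (nat_lit 1) (nat_lit 4) (nat_lit 327) (nat_lit 218) (nat_lit 175)) (XT.nd (nat_lit 78) (nat_lit 0) (nat_lit 0) (XT.lf (nat_lit 0) (nat_lit 166463049493) (nat_lit 152) (nat_lit 819324520329) (nat_lit 0) (nat_lit 163731626795) (nat_lit 1) (nat_lit 5) (nat_lit 3)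 (nat_lit 4) (nat_lit 1) (nat_lit 4) (nat_lit 328) (nat_lit 218) (nat_lit 174)) (XT.lf (nat_lit 0) (nat_lit 180784190543) (nat_lit 152) (nat_lit 882550850239) (nat_lit 0) (nat_lit 178045682546) (nat_lit 1) (nat_lit 5) (nat_lit 3) (nat_lit 4) (nat_lit 1) (nat_lit 4) (nat_lit 329) (nat_lit 218) (nat_lit 173)))) (XT.nd (nat_lit 156) (nat_lit 0) (nat_lit 0) (XT.nd (nat_lit 78) (nat_lit 0) (nat_lit 0) (XT.lf (nat_lit 0) (nat_lit 196245447902) (nat_lit 152) (nat_lit 950845798023) (nat_lit 0) (nat_lit 193500379443) (nat_lit 1) (nat_lit 5) (nat_lit 3) (nat_lit 4) (nat_lit 1) (nat_lit 4) (nat_lit 330) (nat_lit 218) (nat_lit 172)) (XT.lf (nat_lit 0) (nat_lit 212938443837) (nat_lit 152) (nat_lit 1024614074483) (nat_lit 0) (nat_lit 210187300875) (nat_lit 1) (nat_lit 5) (nat_lit 3) (nat_lit 4) (nat_lit 1) (nat_lit 4) (nat_lit 331) (nat_lit 218) (nat_lit 171))) (XT.nd (nat_lit 78) (nat_lit 0) (nat_lit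 0) (XT.lf (nat_lit 0) (nat_lit 230962099805) (nat_lit 152) (nat_lit 1104292824962) (nat_lit 0) (nat_lit 228205332304) (nat_lit 1) (nat_lit 5) (nat_lit 3) (nat_lit 4) (nat_lit 1) (nat_lit 4) (nat_lit 332) (nat_lit 218) (nat_lit 170)) (XT.lf (nat_lit 0) (nat_lit 250423222655) (nat_lit 152) (nat_lit 1190354219832) (nat_lit 0) (nat_lit 247661247248) (nat_lit 1) (nat_lit 5) (nat_lit 3) (nat_lit 4) (nat_lit 1) (nat_lit 4) (nat_lit 333) (nat_lit 218) (nat_lit 169)))))) (XT.nd (nat_lit 468) (nat_lit 0) (nat_lit 0) (XT.nd (nat_lit 234) (nat_lit 0) (nat_lit 0) (XT.nd (nat_lit 78) (nat_lit 0) (nat_lit 0) (XT.lf (nat_lit 0) (nat_lit 271437137561) (nat_lit 152) (nat_lit 1283308252545) (nat_lit 0) (nat_lit 268670340018) (nat_lit 1) (nat_lit 5) (nat_lit 3) (nat_lit 4) (nat_lit 1) (nat_lit 4) (nat_lit 334) (nat_lit 218) (nat_lit 168)) (XT.nd (nat_lit 78) (nat_lit 0) (nat_lit 0) (XT.lf (nat_lit 0)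 (nat_lit 294128371425) (nat_lit 152) (nat_lit 1383705761813) (nat_lit 0) (nat_lit 291357108942) (nat_lit 1) (nat_lit 5) (nat_lit 3) (nat_lit 4) (nat_lit 1) (nat_lit 4) (nat_lit 335) (nat_lit 218) (nat_lit 167)) (XT.lf (nat_lit 0) (nat_lit 318631390819) (nat_lit 152) (nat_lit 1492141695839) (nat_lit 0) (nat_lit 315855994132) (nat_lit 1) (nat_lit 5) (nat_lit 3) (nat_lit 4) (nat_lit 1) (nat_lit 4) (nat_lit 336) (nat_lit 218) (nat_lit 166)))) (XT.nd (nat_lit 78) (nat_lit 0) (nat_lit 0) (XT.lf (nat_lit 0) (nat_lit 345091398821) (nat_lit 152) (nat_lit 1609258637936) (nat_lit 0) (nat_lit 342312174166) (nat_lit 1) (nat_lit 5) (nat_lit 3) (nat_lit 4) (nat_lit 1) (nat_lit 4) (nat_lit 337) (nat_lit 218) (nat_lit 165)) (XT.nd (nat_lit 78) (nat_lit 0) (nat_lit 0) (XT.lf (nat_lit 0) (nat_lit 373665195477) (nat_lit 152) (nat_lit 1735750614428) (nat_lit 0) (nat_lit 370882426409) (nat_lit 1) (nat_lit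 5) (nat_lit 3) (nat_lit 4) (nat_lit 1) (nat_lit 4) (nat_lit 338) (nat_lit 218) (nat_lit 164)) (XT.lf (nat_lit 0) (nat_lit 404522106990) (nat_lit 152) (nat_lit 1872367207396) (nat_lit 0) (nat_lit 401736056058) (nat_lit 1) (nat_lit 5) (nat_lit 3) (nat_lit 4) (nat_lit 1) (nat_lit 4) (nat_lit 339) (nat_lit 218) (nat_lit 163))))) (XT.nd (nat_lit 33072) (nat_lit 0) (nat_lit 152) (XT.nd (nat_lit 78) (nat_lit 0) (nat_lit 0) (XT.lf (nat_lit 0) (nat_lit 437844989133) (nat_lit 152) (nat_lit 2019917996652) (nat_lit 0) (nat_lit 435055899437) (nat_lit 1) (nat_lit 5) (nat_lit 3) (nat_lit 4) (nat_lit 1) (nat_lit 4) (nat_lit 340) (nat_lit 218) (nat_lit 162)) (XT.nd (nat_lit 32916) (nat_lit 0) (nat_lit 228) (XT.lf (nat_lit 0) (nat_lit 473831310836) (nat_lit 152) (nat_lit 2179277357243) (nat_lit 0) (nat_lit 471039407471) (nat_lit 1) (nat_lit 5) (nat_lit 3) (nat_lit 4) (nat_lit 1) (nat_lit 4) (nat_lit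 341) (nat_lit 218) (nat_lit 161)) (XT.lf (nat_lit 0) (nat_lit 6756216582) (nat_lit 152) (nat_lit 4311458336) (nat_lit 0) (nat_lit 6756216582) (nat_lit 4) (nat_lit 5) (nat_lit 6) (nat_lit 4) (nat_lit 4) (nat_lit 4) (nat_lit 282) (nat_lit 219) (nat_lit 219)))) (XT.nd (nat_lit 156) (nat_lit 0) (nat_lit 0) (XT.nd (nat_lit 78) (nat_lit 76) (nat_lit 0) (XT.lf (nat_lit 0) (nat_lit 17505814118) (nat_lit 152) (nat_lit 3473053809) (nat_lit 0) (nat_lit 17261554903) (nat_lit 4) (nat_lit 5) (nat_lit 6) (nat_lit 4) (nat_lit 4) (nat_lit 4) (nat_lit 283) (nat_lit 219) (nat_lit 218)) (XT.lf (nat_lit 0) (nat_lit 1899067449) (nat_lit 76) (nat_lit 19810407438) (nat_lit 76) (nat_lit 19339982285) (nat_lit 3) (nat_lit 4) (nat_lit 4) (nat_lit 5) (nat_lit 4) (nat_lit 4) (nat_lit 284) (nat_lit 219) (nat_lit 217))) (XT.nd (nat_lit 78) (nat_lit 0) (nat_lit 0) (XT.lf (nat_lit 0) (nat_lit 7620952724) (nat_lit 76)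 (nat_lit 18573368924) (nat_lit 76) (nat_lit 17893530864) (nat_lit 3) (nat_lit 4) (nat_lit 4) (nat_lit 5) (nat_lit 4) (nat_lit 4) (nat_lit 285) (nat_lit 219) (nat_lit 216)) (XT.lf (nat_lit 0) (nat_lit 13543624624) (nat_lit 76) (nat_lit 17355381230) (nat_lit 76) (nat_lit 16481642331) (nat_lit 3) (nat_lit 4) (nat_lit 4) (nat_lit 5) (nat_lit 4) (nat_lit 4) (nat_lit 286) (nat_lit 219) (nat_lit 215))))))) (XT.nd (nat_lit 1014) (nat_lit 0) (nat_lit 0) (XT.nd (nat_lit 468) (nat_lit 152) (nat_lit 0) (XT.nd (nat_lit 234) (nat_lit 0) (nat_lit 0) (XT.nd (nat_lit 78) (nat_lit 0) (nat_lit 0) (XT.lf (nat_lit 0) (nat_lit 19702180464) (nat_lit 76) (nat_lit 16149226653) (nat_lit 76) (nat_lit 15095949939) (nat_lit 3) (nat_lit 4) (nat_lit 4) (nat_lit 5) (nat_lit 4) (nat_lit 4) (nat_lit 287) (nat_lit 219) (nat_lit 214)) (XT.nd (nat_lit 78) (nat_lit 0) (nat_lit 0) (XT.lf (nat_lit 0) (nat_lit 26133115390)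 (nat_lit 76) (nat_lit 14947757609) (nat_lit 76) (nat_lit 13728242178) (nat_lit 3) (nat_lit 4) (nat_lit 4) (nat_lit 5) (nat_lit 4) (nat_lit 4) (nat_lit 288) (nat_lit 219) (nat_lit 213)) (XT.lf (nat_lit 0) (nat_lit 32874538647) (nat_lit 76) (nat_lit 13743854282) (nat_lit 76) (nat_lit 12370414113) (nat_lit 3) (nat_lit 4) (nat_lit 4) (nat_lit 5) (nat_lit 4) (nat_lit 4) (nat_lit 289) (nat_lit 219) (nat_lit 212)))) (XT.nd (nat_lit 78) (nat_lit 0) (nat_lit 0) (XT.lf (nat_lit 0) (nat_lit 39966399408) (nat_lit 76) (nat_lit 12530382430) (nat_lit 76) (nat_lit 11014419356) (nat_lit 3) (nat_lit 4) (nat_lit 4) (nat_lit 5) (nat_lit 4) (nat_lit 4) (nat_lit 290) (nat_lit 219) (nat_lit 211)) (XT.nd (nat_lit 78) (nat_lit 0) (nat_lit 0) (XT.lf (nat_lit 0) (nat_lit 47450723516) (nat_lit 76) (nat_lit 11300151108) (nat_lit 76) (nat_lit 9652222381) (nat_lit 3) (nat_lit 4) (nat_lit 4) (nat_lit 5) (nat_lit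 4) (nat_lit 4) (nat_lit 291) (nat_lit 219) (nat_lit 210)) (XT.lf (nat_lit 0) (nat_lit 55371862520) (nat_lit 76) (nat_lit 10045870058) (nat_lit 76) (nat_lit 8275750911) (nat_lit 3) (nat_lit 4) (nat_lit 4) (nat_lit 5) (nat_lit 4) (nat_lit 4) (nat_lit 292) (nat_lit 219) (nat_lit 209))))) (XT.nd (nat_lit 234) (nat_lit 152) (nat_lit 0) (XT.nd (nat_lit 78) (nat_lit 0) (nat_lit 0) (XT.lf (nat_lit 0) (nat_lit 63776756504) (nat_lit 76) (nat_lit 8760106501) (nat_lit 76) (nat_lit 6876848077) (nat_lit 3) (nat_lit 4) (nat_lit 4) (nat_lit 5) (nat_lit 4) (nat_lit 4) (nat_lit 293) (nat_lit 219) (nat_lit 208)) (XT.nd (nat_lit 78) (nat_lit 0) (nat_lit 0) (XT.lf (nat_lit 0) (nat_lit 72715212248) (nat_lit 76) (nat_lit 7435241100) (nat_lit 76) (nat_lit 5447224085) (nat_lit 3) (nat_lit 4) (nat_lit 4) (nat_lit 5) (nat_lit 4) (nat_lit 4) (nat_lit 294) (nat_lit 219) (nat_lit 207)) (XT.lf (nat_lit 0) (nat_lit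 82240198376) (nat_lit 76) (nat_lit 6063422799) (nat_lit 76) (nat_lit 3978407090) (nat_lit 3) (nat_lit 4) (nat_lit 4) (nat_lit 5) (nat_lit 4) (nat_lit 4) (nat_lit 295) (nat_lit 219) (nat_lit 206)))) (XT.nd (nat_lit 156) (nat_lit 152) (nat_lit 0) (XT.nd (nat_lit 78) (nat_lit 0) (nat_lit 0) (XT.lf (nat_lit 0) (nat_lit 92408159253) (nat_lit 76) (nat_lit 4636522305) (nat_lit 76) (nat_lit 2461692990) (nat_lit 3) (nat_lit 4) (nat_lit 4) (nat_lit 5) (nat_lit 4) (nat_lit 4) (nat_lit 296) (nat_lit 219) (nat_lit 205)) (XT.lf (nat_lit 0) (nat_lit 103279349460) (nat_lit 76) (nat_lit 3146083911) (nat_lit 76) (nat_lit 888093850) (nat_lit 3) (nat_lit 4) (nat_lit 4) (nat_lit 5) (nat_lit 4) (nat_lit 4) (nat_lit 297) (nat_lit 219) (nat_lit 204))) (XT.nd (nat_lit 78) (nat_lit 76) (nat_lit 0) (XT.lf (nat_lit 0) (nat_lit 714111515) (nat_lit 152) (nat_lit 849638801) (nat_lit 76) (nat_lit 114184554276) (nat_lit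 2) (nat_lit 5) (nat_lit 4) (nat_lit 5) (nat_lit 3) (nat_lit 4) (nat_lit 298) (nat_lit 219) (nat_lit 203)) (XT.lf (nat_lit 0) (nat_lit 2411169441) (nat_lit 152) (nat_lit 122260623946) (nat_lit 0) (nat_lit 183125284) (nat_lit 1) (nat_lit 5) (nat_lit 3) (nat_lit 4) (nat_lit 1) (nat_lit 4) (nat_lit 299) (nat_lit 219) (nat_lit 202)))))) (XT.nd (nat_lit 468) (nat_lit 0) (nat_lit 0) (XT.nd (nat_lit 234) (nat_lit 0) (nat_lit 0) (XT.nd (nat_lit 78) (nat_lit 0) (nat_lit 0) (XT.lf (nat_lit 0) (nat_lit 4256499347) (nat_lit 152) (nat_lit 128465299431) (nat_lit 0) (nat_lit 1967329559) (nat_lit 1) (nat_lit 5) (nat_lit 3) (nat_lit 4) (nat_lit 1) (nat_lit 4) (nat_lit 300) (nat_lit 219) (nat_lit 201)) (XT.nd (nat_lit 78) (nat_lit 0) (nat_lit 0) (XT.lf (nat_lit 0) (nat_lit 6201359747) (nat_lit 152) (nat_lit 135257032628) (nat_lit 0) (nat_lit 3855592153) (nat_lit 1) (nat_lit 5) (nat_lit 3) (nat_lit 4)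 (nat_lit 1) (nat_lit 4) (nat_lit 301) (nat_lit 219) (nat_lit 200)) (XT.lf (nat_lit 0) (nat_lit 8257275741) (nat_lit 152) (nat_lit 142676070844) (nat_lit 0) (nat_lit 5859102770) (nat_lit 1) (nat_lit 5) (nat_lit 3) (nat_lit 4) (nat_lit 1) (nat_lit 4) (nat_lit 302) (nat_lit 219) (nat_lit 199)))) (XT.nd (nat_lit 78) (nat_lit 0) (nat_lit 0) (XT.lf (nat_lit 0) (nat_lit 10436430534) (nat_lit 152) (nat_lit 150766378750) (nat_lit 0) (nat_lit 7989734066) (nat_lit 1) (nat_lit 5) (nat_lit 3) (nat_lit 4) (nat_lit 1) (nat_lit 4) (nat_lit 303) (nat_lit 219) (nat_lit 198)) (XT.nd (nat_lit 78) (nat_lit 0) (nat_lit 0) (XT.lf (nat_lit 0) (nat_lit 12751737636) (nat_lit 152) (nat_lit 159575898913) (nat_lit 0) (nat_lit 10260112004) (nat_lit 1) (nat_lit 5) (nat_lit 3) (nat_lit 4) (nat_lit 1) (nat_lit 4) (nat_lit 304) (nat_lit 219) (nat_lit 197)) (XT.lf (nat_lit 0) (nat_lit 15216917385) (nat_lit 152) (nat_lit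 169156835894) (nat_lit 0) (nat_lit 12683690676) (nat_lit 1) (nat_lit 5) (nat_lit 3) (nat_lit 4) (nat_lit 1) (nat_lit 4) (nat_lit 305) (nat_lit 219) (nat_lit 196))))) (XT.nd (nat_lit 234) (nat_lit 0) (nat_lit 0) (XT.nd (nat_lit 78) (nat_lit 0) (nat_lit 0) (XT.lf (nat_lit 0) (nat_lit 17846578255) (nat_lit 152) (nat_lit 179565965619) (nat_lit 0) (nat_lit 15274832029) (nat_lit 1) (nat_lit 5) (nat_lit 3) (nat_lit 4) (nat_lit 1) (nat_lit 4) (nat_lit 306) (nat_lit 219) (nat_lit 195)) (XT.nd (nat_lit 78) (nat_lit 0) (nat_lit 0) (XT.lf (nat_lit 0) (nat_lit 20656303420) (nat_lit 152) (nat_lit 190864971817) (nat_lit 0) (nat_lit 18048890976) (nat_lit 1) (nat_lit 5) (nat_lit 3) (nat_lit 4) (nat_lit 1) (nat_lit 4) (nat_lit 307) (nat_lit 219) (nat_lit 194)) (XT.lf (nat_lit 0) (nat_lit 23662743104) (nat_lit 152) (nat_lit 203120811564) (nat_lit 0) (nat_lit 21022306383) (nat_lit 1) (nat_lit 5) (nat_lit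 3) (nat_lit 4) (nat_lit 1) (nat_lit 4) (nat_lit 308) (nat_lit 219) (nat_lit 193)))) (XT.nd (nat_lit 156) (nat_lit 0) (nat_lit 0) (XT.nd (nat_lit 78) (nat_lit 0) (nat_lit 0) (XT.lf (nat_lit 0) (nat_lit 26883713245) (nat_lit 152) (nat_lit 216406112057) (nat_lit 0) (nat_lit 24212698491) (nat_lit 1) (nat_lit 5) (nat_lit 3) (nat_lit 4) (nat_lit 1) (nat_lit 4) (nat_lit 309) (nat_lit 219) (nat_lit 192)) (XT.lf (nat_lit 0) (nat_lit 30338301075) (nat_lit 152) (nat_lit 230799601003) (nat_lit 0) (nat_lit 27638973326) (nat_lit 1) (nat_lit 5) (nat_lit 3) (nat_lit 4) (nat_lit 1) (nat_lit 4) (nat_lit 310) (nat_lit 219) (nat_lit 191))) (XT.nd (nat_lit 78) (nat_lit 0) (nat_lit 0) (XT.lf (nat_lit 0) (nat_lit 34046978224) (nat_lit 152) (nat_lit 246386573151) (nat_lit 0) (nat_lit 31321434740) (nat_lit 1) (nat_lit 5) (nat_lit 3) (nat_lit 4) (nat_lit 1) (nat_lit 4) (nat_lit 311) (nat_lit 219) (nat_lit 190))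 (XT.lf (nat_lit 0) (nat_lit 38031722040) (nat_lit 152) (nat_lit 263259395745) (nat_lit 0) (nat_lit 35281904726) (nat_lit 1) (nat_lit 5) (nat_lit 3) (nat_lit 4) (nat_lit 1) (nat_lit 4) (nat_lit 312) (nat_lit 219) (nat_lit 189))))))))
noncomputable def xc18 : XT := (XT.nd (nat_lit 1950) (nat_lit 0) (nat_lit 0) (XT.nd (nat_lit 936) (nat_lit 0) (nat_lit 0) (XT.nd (nat_lit 468) (nat_lit 0) (nat_lit 0) (XT.nd (nat_lit 234) (nat_lit 0) (nat_lit 0) (XT.nd (nat_lit 78) (nat_lit 0) (nat_lit 0) (XT.lf (nat_lit 0) (nat_lit 42316145817) (nat_lit 152) (nat_lit 281518055880) (nat_lit 0) (nat_lit 39543852736) (nat_lit 1) (nat_lit 5) (nat_lit 3) (nat_lit 4) (nat_lit 1) (nat_lit 4) (nat_lit 313) (nat_lit 219) (nat_lit 188)) (XT.nd (nat_lit 78) (nat_lit 0) (nat_lit 0) (XT.lf (nat_lit 0) (nat_lit 46925638735) (nat_lit 152) (nat_lit 301270753023) (nat_lit 0) (nat_lit 44132534758) (nat_lit 1) (nat_lit 5)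 (nat_lit 3) (nat_lit 4) (nat_lit 1) (nat_lit 4) (nat_lit 314) (nat_lit 219) (nat_lit 187)) (XT.lf (nat_lit 0) (nat_lit 51887516307) (nat_lit 152) (nat_lit 322634540197) (nat_lit 0) (nat_lit 49075142982) (nat_lit 1) (nat_lit 5) (nat_lit 3) (nat_lit 4) (nat_lit 1) (nat_lit 4) (nat_lit 315) (nat_lit 219) (nat_lit 186)))) (XT.nd (nat_lit 78) (nat_lit 0) (nat_lit 0) (XT.lf (nat_lit 0) (nat_lit 57231182252) (nat_lit 152) (nat_lit 345736017619) (nat_lit 0) (nat_lit 54400966938) (nat_lit 1) (nat_lit 5) (nat_lit 3) (nat_lit 4) (nat_lit 1) (nat_lit 4) (nat_lit 316) (nat_lit 219) (nat_lit 185)) (XT.nd (nat_lit 78) (nat_lit 0) (nat_lit 0) (XT.lf (nat_lit 0) (nat_lit 62988302739) (nat_lit 152) (nat_lit 370712082935) (nat_lit 0) (nat_lit 60141567064) (nat_lit 1) (nat_lit 5) (nat_lit 3) (nat_lit 4) (nat_lit 1) (nat_lit 4) (nat_lit 317) (nat_lit 219) (nat_lit 184)) (XT.lf (nat_lit 0) (nat_lit 69192994036)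 (nat_lit 152) (nat_lit 397710742458) (nat_lit 0) (nat_lit 66330961731) (nat_lit 1) (nat_lit 5) (nat_lit 3) (nat_lit 4) (nat_lit 1) (nat_lit 4) (nat_lit 318) (nat_lit 219) (nat_lit 183))))) (XT.nd (nat_lit 234) (nat_lit 0) (nat_lit 0) (XT.nd (nat_lit 78) (nat_lit 0) (nat_lit 0) (XT.lf (nat_lit 0) (nat_lit 75882024686) (nat_lit 152) (nat_lit 426891988243) (nat_lit 0) (nat_lit 73005828835) (nat_lit 1) (nat_lit 5) (nat_lit 3) (nat_lit 4) (nat_lit 1) (nat_lit 4) (nat_lit 319) (nat_lit 219) (nat_lit 182)) (XT.nd (nat_lit 78) (nat_lit 0) (nat_lit 0) (XT.lf (nat_lit 0) (nat_lit 83095033387) (nat_lit 152) (nat_lit 458428746192) (nat_lit 0) (nat_lit 80205723142) (nat_lit 1) (nat_lit 5) (nat_lit 3) (nat_lit 4) (nat_lit 1) (nat_lit 4) (nat_lit 320) (nat_lit 219) (nat_lit 181)) (XT.lf (nat_lit 0) (nat_lit 90874763897) (nat_lit 152) (nat_lit 492507900797) (nat_lit 0) (nat_lit 87973310693) (nat_lit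 1) (nat_lit 5) (nat_lit 3) (nat_lit 4) (nat_lit 1) (nat_lit 4) (nat_lit 321) (nat_lit 219) (nat_lit 180)))) (XT.nd (nat_lit 78) (nat_lit 0) (nat_lit 0) (XT.lf (nat_lit 0) (nat_lit 99267318320) (nat_lit 152) (nat_lit 529331402602) (nat_lit 0) (nat_lit 96354621637) (nat_lit 1) (nat_lit 5) (nat_lit 3) (nat_lit 4) (nat_lit 1) (nat_lit 4) (nat_lit 322) (nat_lit 219) (nat_lit 179)) (XT.nd (nat_lit 78) (nat_lit 0) (nat_lit 0) (XT.lf (nat_lit 0) (nat_lit 108322430313) (nat_lit 152) (nat_lit 569117464953) (nat_lit 0) (nat_lit 105399323001) (nat_lit 1) (nat_lit 5) (nat_lit 3) (nat_lit 4) (nat_lit 1) (nat_lit 4) (nat_lit 323) (nat_lit 219) (nat_lit 178)) (XT.lf (nat_lit 0) (nat_lit 118093759800) (nat_lit 152) (nat_lit 612101857108) (nat_lit 0) (nat_lit 115161013016) (nat_lit 1) (nat_lit 5) (nat_lit 3) (nat_lit 4) (nat_lit 1) (nat_lit 4) (nat_lit 324) (nat_lit 219) (nat_lit 177)))))) (XT.nd (nat_lit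 468) (nat_lit 0) (nat_lit 0) (XT.nd (nat_lit 234) (nat_lit 0) (nat_lit 0) (XT.nd (nat_lit 78) (nat_lit 0) (nat_lit 0) (XT.lf (nat_lit 0) (nat_lit 128639210954) (nat_lit 152) (nat_lit 658539301390) (nat_lit 0) (nat_lit 125697538734) (nat_lit 1) (nat_lit 5) (nat_lit 3) (nat_lit 4) (nat_lit 1) (nat_lit 4) (nat_lit 325) (nat_lit 219) (nat_lit 176)) (XT.nd (nat_lit 78) (nat_lit 0) (nat_lit 0) (XT.lf (nat_lit 0) (nat_lit 140021275338) (nat_lit 152) (nat_lit 708704982654) (nat_lit 0) (nat_lit 137071338825) (nat_lit 1) (nat_lit 5) (nat_lit 3) (nat_lit 4) (nat_lit 1) (nat_lit 4) (nat_lit 326) (nat_lit 219) (nat_lit 175)) (XT.lf (nat_lit 0) (nat_lit 152307402223) (nat_lit 152) (nat_lit 762896179012) (nat_lit 0) (nat_lit 149349813586) (nat_lit 1) (nat_lit 5) (nat_lit 3) (nat_lit 4) (nat_lit 1) (nat_lit 4) (nat_lit 327) (nat_lit 219) (nat_lit 174)))) (XT.nd (nat_lit 78) (nat_lit 0) (nat_lit 0)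 (XT.lf (nat_lit 0) (nat_lit 165570398286) (nat_lit 152) (nat_lit 821434023480) (nat_lit 0) (nat_lit 162605724350) (nat_lit 1) (nat_lit 5) (nat_lit 3) (nat_lit 4) (nat_lit 1) (nat_lit 4) (nat_lit 328) (nat_lit 219) (nat_lit 173)) (XT.nd (nat_lit 78) (nat_lit 0) (nat_lit 0) (XT.lf (nat_lit 0) (nat_lit 179888859060) (nat_lit 152) (nat_lit 884665406986) (nat_lit 0) (nat_lit 176917624661) (nat_lit 1) (nat_lit 5) (nat_lit 3) (nat_lit 4) (nat_lit 1) (nat_lit 4) (nat_lit 329) (nat_lit 219) (nat_lit 172)) (XT.lf (nat_lit 0) (nat_lit 195347634682) (nat_lit 152) (nat_lit 952965034027) (nat_lit 0) (nat_lit 192370325781) (nat_lit 1) (nat_lit 5) (nat_lit 3) (nat_lit 4) (nat_lit 1) (nat_lit 4) (nat_lit 330) (nat_lit 219) (nat_lit 171))))) (XT.nd (nat_lit 234) (nat_lit 0) (nat_lit 0) (XT.nd (nat_lit 78) (nat_lit 0) (nat_lit 0) (XT.lf (nat_lit 0) (nat_lit 212038332712) (nat_lit 152) (nat_lit 1026737643132)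 (nat_lit 0) (nat_lit 209055399272) (nat_lit 1) (nat_lit 5) (nat_lit 3) (nat_lit 4) (nat_lit 1) (nat_lit 4) (nat_lit 331) (nat_lit 219) (nat_lit 170)) (XT.nd (nat_lit 78) (nat_lit 0) (nat_lit 0) (XT.lf (nat_lit 0) (nat_lit 230059860990) (nat_lit 152) (nat_lit 1106420405319) (nat_lit 0) (nat_lit 227071719644) (nat_lit 1) (nat_lit 5) (nat_lit 3) (nat_lit 4) (nat_lit 1) (nat_lit 4) (nat_lit 332) (nat_lit 219) (nat_lit 169)) (XT.lf (nat_lit 0) (nat_lit 249519013757) (nat_lit 152) (nat_lit 1192485514734) (nat_lit 0) (nat_lit 246526050275) (nat_lit 1) (nat_lit 5) (nat_lit 3) (nat_lit 4) (nat_lit 1) (nat_lit 4) (nat_lit 333) (nat_lit 219) (nat_lit 168)))) (XT.nd (nat_lit 156) (nat_lit 0) (nat_lit 0) (XT.nd (nat_lit 78) (nat_lit 0) (nat_lit 0) (XT.lf (nat_lit 0) (nat_lit 270531104512) (nat_lit 152) (nat_lit 1285442986841) (nat_lit 0) (nat_lit 267533676090) (nat_lit 1) (nat_lit 5) (nat_lit 3)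 (nat_lit 4) (nat_lit 1) (nat_lit 4) (nat_lit 334) (nat_lit 219) (nat_lit 167)) (XT.lf (nat_lit 0) (nat_lit 293220649348) (nat_lit 152) (nat_lit 1385843680732) (nat_lit 0) (nat_lit 290219086721) (nat_lit 1) (nat_lit 5) (nat_lit 3) (nat_lit 4) (nat_lit 1) (nat_lit 4) (nat_lit 335) (nat_lit 219) (nat_lit 166))) (XT.nd (nat_lit 78) (nat_lit 0) (nat_lit 0) (XT.lf (nat_lit 0) (nat_lit 317722104827) (nat_lit 152) (nat_lit 1494282563484) (nat_lit 0) (nat_lit 314716714233) (nat_lit 1) (nat_lit 5) (nat_lit 3) (nat_lit 4) (nat_lit 1) (nat_lit 4) (nat_lit 336) (nat_lit 219) (nat_lit 165)) (XT.lf (nat_lit 0) (nat_lit 344180664758) (nat_lit 152) (nat_lit 1611402235882) (nat_lit 0) (nat_lit 341171729751) (nat_lit 1) (nat_lit 5) (nat_lit 3) (nat_lit 4) (nat_lit 1) (nat_lit 4) (nat_lit 337) (nat_lit 219) (nat_lit 164))))))) (XT.nd (nat_lit 33696) (nat_lit 0) (nat_lit 0) (XT.nd (nat_lit 33150) (nat_lit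 0) (nat_lit 152) (XT.nd (nat_lit 234) (nat_lit 0) (nat_lit 0) (XT.nd (nat_lit 78) (nat_lit 0) (nat_lit 0) (XT.lf (nat_lit 0) (nat_lit 372753120609) (nat_lit 152) (nat_lit 1737896740430) (nat_lit 0) (nat_lit 369740903737) (nat_lit 1) (nat_lit 5) (nat_lit 3) (nat_lit 4) (nat_lit 1) (nat_lit 4) (nat_lit 338) (nat_lit 219) (nat_lit 163)) (XT.nd (nat_lit 78) (nat_lit 0) (nat_lit 0) (XT.lf (nat_lit 0) (nat_lit 403608790636) (nat_lit 152) (nat_lit 1874515674192) (nat_lit 0) (nat_lit 400593535001) (nat_lit 1) (nat_lit 5) (nat_lit 3) (nat_lit 4) (nat_lit 1) (nat_lit 4) (nat_lit 339) (nat_lit 219) (nat_lit 162)) (XT.lf (nat_lit 0) (nat_lit 436930523254) (nat_lit 152) (nat_lit 2022068630849) (nat_lit 0) (nat_lit 433912453950) (nat_lit 1) (nat_lit 5) (nat_lit 3) (nat_lit 4) (nat_lit 1) (nat_lit 4) (nat_lit 340) (nat_lit 219) (nat_lit 161)))) (XT.nd (nat_lit 32760) (nat_lit 0) (nat_lit 228) (XT.lf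 (nat_lit 0) (nat_lit 472915780583) (nat_lit 152) (nat_lit 2181429998293) (nat_lit 0) (nat_lit 469895106028) (nat_lit 1) (nat_lit 5) (nat_lit 3) (nat_lit 4) (nat_lit 1) (nat_lit 4) (nat_lit 341) (nat_lit 219) (nat_lit 160)) (XT.nd (nat_lit 78) (nat_lit 0) (nat_lit 0) (XT.lf (nat_lit 0) (nat_lit 3138156332) (nat_lit 152) (nat_lit 9251347121) (nat_lit 0) (nat_lit 3138156332) (nat_lit 4) (nat_lit 5) (nat_lit 6) (nat_lit 4) (nat_lit 4) (nat_lit 4) (nat_lit 280) (nat_lit 220) (nat_lit 220)) (XT.lf (nat_lit 0) (nat_lit 9923794881) (nat_lit 152) (nat_lit 13676037890) (nat_lit 0) (nat_lit 9659994930) (nat_lit 4) (nat_lit 5) (nat_lit 6) (nat_lit 4) (nat_lit 4) (nat_lit 4) (nat_lit 281) (nat_lit 220) (nat_lit 219))))) (XT.nd (nat_lit 234) (nat_lit 0) (nat_lit 0) (XT.nd (nat_lit 78) (nat_lit 76) (nat_lit 0) (XT.lf (nat_lit 0) (nat_lit 13695823337) (nat_lit 152) (nat_lit 8770757082) (nat_lit 0)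 (nat_lit 13187764171) (nat_lit 4) (nat_lit 5) (nat_lit 6) (nat_lit 4) (nat_lit 4) (nat_lit 4) (nat_lit 282) (nat_lit 220) (nat_lit 218)) (XT.nd (nat_lit 78) (nat_lit 76) (nat_lit 0) (XT.lf (nat_lit 0) (nat_lit 17614750792) (nat_lit 152) (nat_lit 3757783487) (nat_lit 0) (nat_lit 16880525687) (nat_lit 4) (nat_lit 5) (nat_lit 6) (nat_lit 4) (nat_lit 4) (nat_lit 4) (nat_lit 283) (nat_lit 220) (nat_lit 217)) (XT.lf (nat_lit 0) (nat_lit 1465920693) (nat_lit 76) (nat_lit 20273135255) (nat_lit 76) (nat_lit 19329497243) (nat_lit 3) (nat_lit 4) (nat_lit 4) (nat_lit 5) (nat_lit 4) (nat_lit 4) (nat_lit 284) (nat_lit 220) (nat_lit 216)))) (XT.nd (nat_lit 156) (nat_lit 0) (nat_lit 0) (XT.nd (nat_lit 78) (nat_lit 0) (nat_lit 0) (XT.lf (nat_lit 0) (nat_lit 7064265488) (nat_lit 76) (nat_lit 19092834193) (nat_lit 76) (nat_lit 17955295342) (nat_lit 3) (nat_lit 4) (nat_lit 4) (nat_lit 5) (nat_lit 4) (nat_lit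 4) (nat_lit 285) (nat_lit 220) (nat_lit 215)) (XT.lf (nat_lit 0) (nat_lit 12872548056) (nat_lit 76) (nat_lit 17927381178) (nat_lit 76) (nat_lit 16610304513) (nat_lit 3) (nat_lit 4) (nat_lit 4) (nat_lit 5) (nat_lit 4) (nat_lit 4) (nat_lit 286) (nat_lit 220) (nat_lit 214))) (XT.nd (nat_lit 78) (nat_lit 0) (nat_lit 0) (XT.lf (nat_lit 0) (nat_lit 18925187847) (nat_lit 76) (nat_lit 16769869822) (nat_lit 76) (nat_lit 15286554440) (nat_lit 3) (nat_lit 4) (nat_lit 4) (nat_lit 5) (nat_lit 4) (nat_lit 4) (nat_lit 287) (nat_lit 220) (nat_lit 213)) (XT.lf (nat_lit 0) (nat_lit 25258052358) (nat_lit 76) (nat_lit 15613440797) (nat_lit 76) (nat_lit 13976200677) (nat_lit 3) (nat_lit 4) (nat_lit 4) (nat_lit 5) (nat_lit 4) (nat_lit 4) (nat_lit 288) (nat_lit 220) (nat_lit 212)))))) (XT.nd (nat_lit 468) (nat_lit 152) (nat_lit 0) (XT.nd (nat_lit 234) (nat_lit 0) (nat_lit 0) (XT.nd (nat_lit 78) (nat_lit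 0) (nat_lit 0) (XT.lf (nat_lit 0) (nat_lit 31908669674) (nat_lit 76) (nat_lit 14451241192) (nat_lit 76) (nat_lit 12671478166) (nat_lit 3) (nat_lit 4) (nat_lit 4) (nat_lit 5) (nat_lit 4) (nat_lit 4) (nat_lit 289) (nat_lit 220) (nat_lit 211)) (XT.nd (nat_lit 78) (nat_lit 0) (nat_lit 0) (XT.lf (nat_lit 0) (nat_lit 38916450861) (nat_lit 76) (nat_lit 13276383897) (nat_lit 76) (nat_lit 11364655218) (nat_lit 3) (nat_lit 4) (nat_lit 4) (nat_lit 5) (nat_lit 4) (nat_lit 4) (nat_lit 290) (nat_lit 220) (nat_lit 210)) (XT.lf (nat_lit 0) (nat_lit 46322923512) (nat_lit 76) (nat_lit 12081906795) (nat_lit 76) (nat_lit 10047987696) (nat_lit 3) (nat_lit 4) (nat_lit 4) (nat_lit 5) (nat_lit 4) (nat_lit 4) (nat_lit 291) (nat_lit 220) (nat_lit 209)))) (XT.nd (nat_lit 78) (nat_lit 0) (nat_lit 0) (XT.lf (nat_lit 0) (nat_lit 54171977833) (nat_lit 76) (nat_lit 10860731503) (nat_lit 76) (nat_lit 8713673127) (nat_lit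 3) (nat_lit 4) (nat_lit 4) (nat_lit 5) (nat_lit 4) (nat_lit 4) (nat_lit 292) (nat_lit 220) (nat_lit 208)) (XT.nd (nat_lit 78) (nat_lit 0) (nat_lit 0) (XT.lf (nat_lit 0) (nat_lit 62510126741) (nat_lit 76) (nat_lit 9605621427) (nat_lit 76) (nat_lit 7353804461) (nat_lit 3) (nat_lit 4) (nat_lit 4) (nat_lit 5) (nat_lit 4) (nat_lit 4) (nat_lit 293) (nat_lit 220) (nat_lit 207)) (XT.lf (nat_lit 0) (nat_lit 71386781487) (nat_lit 76) (nat_lit 8309138878) (nat_lit 76) (nat_lit 5960323217) (nat_lit 3) (nat_lit 4) (nat_lit 4) (nat_lit 5) (nat_lit 4) (nat_lit 4) (nat_lit 294) (nat_lit 220) (nat_lit 206))))) (XT.nd (nat_lit 234) (nat_lit 152) (nat_lit 0) (XT.nd (nat_lit 78) (nat_lit 0) (nat_lit 0) (XT.lf (nat_lit 0) (nat_lit 80854544470) (nat_lit 76) (nat_lit 6963600996) (nat_lit 76) (nat_lit 4524971729) (nat_lit 3) (nat_lit 4) (nat_lit 4) (nat_lit 5) (nat_lit 4) (nat_lit 4) (nat_lit 295) (nat_lit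 220) (nat_lit 205)) (XT.nd (nat_lit 78) (nat_lit 0) (nat_lit 0) (XT.lf (nat_lit 0) (nat_lit 90969520952) (nat_lit 76) (nat_lit 5561034223) (nat_lit 76) (nat_lit 3039244210) (nat_lit 3) (nat_lit 4) (nat_lit 4) (nat_lit 5) (nat_lit 4) (nat_lit 4) (nat_lit 296) (nat_lit 220) (nat_lit 204)) (XT.lf (nat_lit 0) (nat_lit 101791651535) (nat_lit 76) (nat_lit 4093127052) (nat_lit 76) (nat_lit 1494336348) (nat_lit 3) (nat_lit 4) (nat_lit 4) (nat_lit 5) (nat_lit 4) (nat_lit 4) (nat_lit 297) (nat_lit 220) (nat_lit 203)))) (XT.nd (nat_lit 156) (nat_lit 0) (nat_lit 0) (XT.nd (nat_lit 78) (nat_lit 76) (nat_lit 0) (XT.lf (nat_lit 0) (nat_lit 112958662) (nat_lit 152) (nat_lit 2435133623) (nat_lit 76) (nat_lit 113269020211) (nat_lit 2) (nat_lit 5) (nat_lit 4) (nat_lit 5) (nat_lit 3) (nat_lit 4) (nat_lit 298) (nat_lit 220) (nat_lit 202)) (XT.lf (nat_lit 0) (nat_lit 884712737) (nat_lit 76) (nat_lit 856064214)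 (nat_lit 152) (nat_lit 123188521029) (nat_lit 1) (nat_lit 5) (nat_lit 2) (nat_lit 5) (nat_lit 3) (nat_lit 4) (nat_lit 299) (nat_lit 220) (nat_lit 201))) (XT.nd (nat_lit 78) (nat_lit 0) (nat_lit 0) (XT.lf (nat_lit 0) (nat_lit 3542395464) (nat_lit 152) (nat_lit 130272270284) (nat_lit 0) (nat_lit 952368656) (nat_lit 1) (nat_lit 5) (nat_lit 3) (nat_lit 4) (nat_lit 1) (nat_lit 4) (nat_lit 300) (nat_lit 220) (nat_lit 200)) (XT.lf (nat_lit 0) (nat_lit 5465845654) (nat_lit 152) (nat_lit 137104371924) (nat_lit 0) (nat_lit 2823413468) (nat_lit 1) (nat_lit 5) (nat_lit 3) (nat_lit 4) (nat_lit 1) (nat_lit 4) (nat_lit 301) (nat_lit 220) (nat_lit 199))))))))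
noncomputable def xc19 : XT := (XT.nd (nat_lit 2028) (nat_lit 0) (nat_lit 0) (XT.nd (nat_lit 1014) (nat_lit 0) (nat_lit 0) (XT.nd (nat_lit 468) (nat_lit 0) (nat_lit 0) (XT.nd (nat_lit 234) (nat_lit 0) (nat_lit 0) (XT.nd (nat_lit 78) (nat_lit 0) (nat_lit 0) (XT.lf (nat_lit 0) (nat_lit 7501937378) (nat_lit 152) (nat_lit 144560788330) (nat_lit 0) (nat_lit 4810981696) (nat_lit 1) (nat_lit 5) (nat_lit 3) (nat_lit 4) (nat_lit 1) (nat_lit 4) (nat_lit 302) (nat_lit 220) (nat_lit 198)) (XT.nd (nat_lit 78) (nat_lit 0) (nat_lit 0) (XT.lf (nat_lit 0) (nat_lit 9662736366) (nat_lit 152) (nat_lit 152685705670) (nat_lit 0) (nat_lit 6926851520) (nat_lit 1) (nat_lit 5) (nat_lit 3) (nat_lit 4) (nat_lit 1) (nat_lit 4) (nat_lit 303) (nat_lit 220) (nat_lit 197)) (XT.lf (nat_lit 0) (nat_lit 11961047352) (nat_lit 152) (nat_lit 161527271605) (nat_lit 0) (nat_lit 9183561429) (nat_lit 1) (nat_lit 5) (nat_lit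 3) (nat_lit 4) (nat_lit 1) (nat_lit 4) (nat_lit 304) (nat_lit 220) (nat_lit 196)))) (XT.nd (nat_lit 78) (nat_lit 0) (nat_lit 0) (XT.lf (nat_lit 0) (nat_lit 14410489958) (nat_lit 152) (nat_lit 171137880598) (nat_lit 0) (nat_lit 11594484518) (nat_lit 1) (nat_lit 5) (nat_lit 3) (nat_lit 4) (nat_lit 1) (nat_lit 4) (nat_lit 305) (nat_lit 220) (nat_lit 195)) (XT.nd (nat_lit 78) (nat_lit 0) (nat_lit 0) (XT.lf (nat_lit 0) (nat_lit 17025579397) (nat_lit 152) (nat_lit 181574484408) (nat_lit 0) (nat_lit 14173907739) (nat_lit 1) (nat_lit 5) (nat_lit 3) (nat_lit 4) (nat_lit 1) (nat_lit 4) (nat_lit 306) (nat_lit 220) (nat_lit 194)) (XT.lf (nat_lit 0) (nat_lit 19821812498) (nat_lit 152) (nat_lit 192898929573) (nat_lit 0) (nat_lit 16937116563) (nat_lit 1) (nat_lit 5) (nat_lit 3) (nat_lit 4) (nat_lit 1) (nat_lit 4) (nat_lit 307) (nat_lit 220) (nat_lit 193))))) (XT.nd (nat_lit 234) (nat_lit 0) (nat_lit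 0) (XT.nd (nat_lit 78) (nat_lit 0) (nat_lit 0) (XT.lf (nat_lit 0) (nat_lit 22815759529) (nat_lit 152) (nat_lit 205178323919) (nat_lit 0) (nat_lit 19900485560) (nat_lit 1) (nat_lit 5) (nat_lit 3) (nat_lit 4) (nat_lit 1) (nat_lit 4) (nat_lit 308) (nat_lit 220) (nat_lit 192)) (XT.nd (nat_lit 78) (nat_lit 0) (nat_lit 0) (XT.lf (nat_lit 0) (nat_lit 26025162400) (nat_lit 152) (nat_lit 218485434227) (nat_lit 0) (nat_lit 23081575437) (nat_lit 1) (nat_lit 5) (nat_lit 3) (nat_lit 4) (nat_lit 1) (nat_lit 4) (nat_lit 309) (nat_lit 220) (nat_lit 191)) (XT.lf (nat_lit 0) (nat_lit 29469039794) (nat_lit 152) (nat_lit 232899117445) (nat_lit 0) (nat_lit 26499237095) (nat_lit 1) (nat_lit 5) (nat_lit 3) (nat_lit 4) (nat_lit 1) (nat_lit 4) (nat_lit 310) (nat_lit 220) (nat_lit 190)))) (XT.nd (nat_lit 156) (nat_lit 0) (nat_lit 0) (XT.nd (nat_lit 78) (nat_lit 0) (nat_lit 0) (XT.lf (nat_lit 0) (nat_lit 33167799873)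 (nat_lit 152) (nat_lit 248504787994) (nat_lit 0) (nat_lit 30173723345) (nat_lit 1) (nat_lit 5) (nat_lit 3) (nat_lit 4) (nat_lit 1) (nat_lit 4) (nat_lit 311) (nat_lit 220) (nat_lit 189)) (XT.lf (nat_lit 0) (nat_lit 37143361216) (nat_lit 152) (nat_lit 265394923921) (nat_lit 0) (nat_lit 34126808920) (nat_lit 1) (nat_lit 5) (nat_lit 3) (nat_lit 4) (nat_lit 1) (nat_lit 4) (nat_lit 312) (nat_lit 220) (nat_lit 188))) (XT.nd (nat_lit 78) (nat_lit 0) (nat_lit 0) (XT.lf (nat_lit 0) (nat_lit 41419282704) (nat_lit 152) (nat_lit 283669614920) (nat_lit 0) (nat_lit 38381919512) (nat_lit 1) (nat_lit 5) (nat_lit 3) (nat_lit 4) (nat_lit 1) (nat_lit 4) (nat_lit 313) (nat_lit 220) (nat_lit 187)) (XT.lf (nat_lit 0) (nat_lit 46020903132) (nat_lit 152) (nat_lit 303437155457) (nat_lit 0) (nat_lit 42964270592) (nat_lit 1) (nat_lit 5) (nat_lit 3) (nat_lit 4) (nat_lit 1) (nat_lit 4) (nat_lit 314) (nat_lit 220)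 (nat_lit 186)))))) (XT.nd (nat_lit 468) (nat_lit 0) (nat_lit 0) (XT.nd (nat_lit 234) (nat_lit 0) (nat_lit 0) (XT.nd (nat_lit 78) (nat_lit 0) (nat_lit 0) (XT.lf (nat_lit 0) (nat_lit 50975491361) (nat_lit 152) (nat_lit 324814686513) (nat_lit 0) (nat_lit 47901016832) (nat_lit 1) (nat_lit 5) (nat_lit 3) (nat_lit 4) (nat_lit 1) (nat_lit 4) (nat_lit 315) (nat_lit 220) (nat_lit 185)) (XT.nd (nat_lit 78) (nat_lit 0) (nat_lit 0) (XT.lf (nat_lit 0) (nat_lit 56312407915) (nat_lit 152) (nat_lit 347928889753) (nat_lit 0) (nat_lit 53221413025) (nat_lit 1) (nat_lit 5) (nat_lit 3) (nat_lit 4) (nat_lit 1) (nat_lit 4) (nat_lit 316) (nat_lit 220) (nat_lit 184)) (XT.lf (nat_lit 0) (nat_lit 62063278965) (nat_lit 152) (nat_lit 372916738233) (nat_lit 0) (nat_lit 58956987446) (nat_lit 1) (nat_lit 5) (nat_lit 3) (nat_lit 4) (nat_lit 1) (nat_lit 4) (nat_lit 317) (nat_lit 220) (nat_lit 183)))) (XT.nd (nat_lit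 78) (nat_lit 0) (nat_lit 0) (XT.lf (nat_lit 0) (nat_lit 68262183747) (nat_lit 152) (nat_lit 399926308092) (nat_lit 0) (nat_lit 65141728682) (nat_lit 1) (nat_lit 5) (nat_lit 3) (nat_lit 4) (nat_lit 1) (nat_lit 4) (nat_lit 318) (nat_lit 220) (nat_lit 182)) (XT.nd (nat_lit 78) (nat_lit 0) (nat_lit 0) (XT.lf (nat_lit 0) (nat_lit 74945856512) (nat_lit 152) (nat_lit 429117656042) (nat_lit 0) (nat_lit 71812287052) (nat_lit 1) (nat_lit 5) (nat_lit 3) (nat_lit 4) (nat_lit 1) (nat_lit 4) (nat_lit 319) (nat_lit 220) (nat_lit 181)) (XT.lf (nat_lit 0) (nat_lit 82153904209) (nat_lit 152) (nat_lit 460663767846) (nat_lit 0) (nat_lit 79008191792) (nat_lit 1) (nat_lit 5) (nat_lit 3) (nat_lit 4) (nat_lit 1) (nat_lit 4) (nat_lit 320) (nat_lit 220) (nat_lit 180))))) (XT.nd (nat_lit 234) (nat_lit 0) (nat_lit 0) (XT.nd (nat_lit 78) (nat_lit 0) (nat_lit 0) (XT.lf (nat_lit 0) (nat_lit 89929041196) (nat_lit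 152) (nat_lit 494751583428) (nat_lit 0) (nat_lit 86772085299) (nat_lit 1) (nat_lit 5) (nat_lit 3) (nat_lit 4) (nat_lit 1) (nat_lit 4) (nat_lit 321) (nat_lit 220) (nat_lit 179)) (XT.nd (nat_lit 78) (nat_lit 0) (nat_lit 0) (XT.lf (nat_lit 0) (nat_lit 98317342358) (nat_lit 152) (nat_lit 531583104657) (nat_lit 0) (nat_lit 95149975832) (nat_lit 1) (nat_lit 5) (nat_lit 3) (nat_lit 4) (nat_lit 1) (nat_lit 4) (nat_lit 322) (nat_lit 220) (nat_lit 178)) (XT.lf (nat_lit 0) (nat_lit 107368516147) (nat_lit 152) (nat_lit 571376592400) (nat_lit 0) (nat_lit 104191510148) (nat_lit 1) (nat_lit 5) (nat_lit 3) (nat_lit 4) (nat_lit 1) (nat_lit 4) (nat_lit 323) (nat_lit 220) (nat_lit 177)))) (XT.nd (nat_lit 156) (nat_lit 0) (nat_lit 0) (XT.nd (nat_lit 78) (nat_lit 0) (nat_lit 0) (XT.lf (nat_lit 0) (nat_lit 117136199147) (nat_lit 152) (nat_lit 614367859918) (nat_lit 0) (nat_lit 113950267712) (nat_lit 1)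 (nat_lit 5) (nat_lit 3) (nat_lit 4) (nat_lit 1) (nat_lit 4) (nat_lit 324) (nat_lit 220) (nat_lit 176)) (XT.lf (nat_lit 0) (nat_lit 127678273925) (nat_lit 152) (nat_lit 660811670277) (nat_lit 0) (nat_lit 124484078197) (nat_lit 1) (nat_lit 5) (nat_lit 3) (nat_lit 4) (nat_lit 1) (nat_lit 4) (nat_lit 325) (nat_lit 220) (nat_lit 175))) (XT.nd (nat_lit 78) (nat_lit 0) (nat_lit 0) (XT.lf (nat_lit 0) (nat_lit 139057212035) (nat_lit 152) (nat_lit 710983246057) (nat_lit 0) (nat_lit 135855364184) (nat_lit 1) (nat_lit 5) (nat_lit 3) (nat_lit 4) (nat_lit 1) (nat_lit 4) (nat_lit 326) (nat_lit 220) (nat_lit 174)) (XT.lf (nat_lit 0) (nat_lit 151340444222) (nat_lit 152) (nat_lit 765179900300) (nat_lit 0) (nat_lit 148131511071) (nat_lit 1) (nat_lit 5) (nat_lit 3) (nat_lit 4) (nat_lit 1) (nat_lit 4) (nat_lit 327) (nat_lit 220) (nat_lit 173))))))) (XT.nd (nat_lit 1014) (nat_lit 0) (nat_lit 0) (XT.nd (nat_lit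 468) (nat_lit 0) (nat_lit 0) (XT.nd (nat_lit 234) (nat_lit 0) (nat_lit 0) (XT.nd (nat_lit 78) (nat_lit 0) (nat_lit 0) (XT.lf (nat_lit 0) (nat_lit 164600760009) (nat_lit 152) (nat_lit 823722798364) (nat_lit 0) (nat_lit 161385266396) (nat_lit 1) (nat_lit 5) (nat_lit 3) (nat_lit 4) (nat_lit 1) (nat_lit 4) (nat_lit 328) (nat_lit 220) (nat_lit 172)) (XT.nd (nat_lit 78) (nat_lit 0) (nat_lit 0) (XT.lf (nat_lit 0) (nat_lit 178916739045) (nat_lit 152) (nat_lit 886958861127) (nat_lit 0) (nat_lit 175695170930) (nat_lit 1) (nat_lit 5) (nat_lit 3) (nat_lit 4) (nat_lit 1) (nat_lit 4) (nat_lit 329) (nat_lit 220) (nat_lit 171)) (XT.lf (nat_lit 0) (nat_lit 194373216762) (nat_lit 152) (nat_lit 955262820813) (nat_lit 0) (nat_lit 191146024108) (nat_lit 1) (nat_lit 5) (nat_lit 3) (nat_lit 4) (nat_lit 1) (nat_lit 4) (nat_lit 330) (nat_lit 220) (nat_lit 170)))) (XT.nd (nat_lit 78) (nat_lit 0) (nat_lit 0)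 (XT.lf (nat_lit 0) (nat_lit 211061787103) (nat_lit 152) (nat_lit 1029039441626) (nat_lit 0) (nat_lit 207829386542) (nat_lit 1) (nat_lit 5) (nat_lit 3) (nat_lit 4) (nat_lit 1) (nat_lit 4) (nat_lit 331) (nat_lit 220) (nat_lit 169)) (XT.nd (nat_lit 78) (nat_lit 0) (nat_lit 0) (XT.lf (nat_lit 0) (nat_lit 229081345298) (nat_lit 152) (nat_lit 1108725918358) (nat_lit 0) (nat_lit 225844122601) (nat_lit 1) (nat_lit 5) (nat_lit 3) (nat_lit 4) (nat_lit 1) (nat_lit 4) (nat_lit 332) (nat_lit 220) (nat_lit 168)) (XT.lf (nat_lit 0) (nat_lit 248538673914) (nat_lit 152) (nat_lit 1194794467167) (nat_lit 0) (nat_lit 245296986277) (nat_lit 1) (nat_lit 5) (nat_lit 3) (nat_lit 4) (nat_lit 1) (nat_lit 4) (nat_lit 333) (nat_lit 220) (nat_lit 167))))) (XT.nd (nat_lit 234) (nat_lit 0) (nat_lit 0) (XT.nd (nat_lit 78) (nat_lit 0) (nat_lit 0) (XT.lf (nat_lit 0) (nat_lit 269549075640) (nat_lit 152) (nat_lit 1287755123896)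 (nat_lit 0) (nat_lit 266303253800) (nat_lit 1) (nat_lit 5) (nat_lit 3) (nat_lit 4) (nat_lit 1) (nat_lit 4) (nat_lit 334) (nat_lit 220) (nat_lit 166)) (XT.nd (nat_lit 78) (nat_lit 0) (nat_lit 0) (XT.lf (nat_lit 0) (nat_lit 292237056561) (nat_lit 152) (nat_lit 1388158766513) (nat_lit 0) (nat_lit 288987406753) (nat_lit 1) (nat_lit 5) (nat_lit 3) (nat_lit 4) (nat_lit 1) (nat_lit 4) (nat_lit 335) (nat_lit 220) (nat_lit 165)) (XT.lf (nat_lit 0) (nat_lit 316737063970) (nat_lit 152) (nat_lit 1496600379566) (nat_lit 0) (nat_lit 313483869748) (nat_lit 1) (nat_lit 5) (nat_lit 3) (nat_lit 4) (nat_lit 1) (nat_lit 4) (nat_lit 336) (nat_lit 220) (nat_lit 164)))) (XT.nd (nat_lit 156) (nat_lit 0) (nat_lit 0) (XT.nd (nat_lit 78) (nat_lit 0) (nat_lit 0) (XT.lf (nat_lit 0) (nat_lit 343194283096) (nat_lit 152) (nat_lit 1613722580021) (nat_lit 0) (nat_lit 339937807010) (nat_lit 1) (nat_lit 5) (nat_lit 3)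 (nat_lit 4) (nat_lit 1) (nat_lit 4) (nat_lit 337) (nat_lit 220) (nat_lit 163)) (XT.lf (nat_lit 0) (nat_lit 371765497460) (nat_lit 152) (nat_lit 1740219425362) (nat_lit 0) (nat_lit 368505982611) (nat_lit 1) (nat_lit 5) (nat_lit 3) (nat_lit 4) (nat_lit 1) (nat_lit 4) (nat_lit 338) (nat_lit 220) (nat_lit 162))) (XT.nd (nat_lit 78) (nat_lit 0) (nat_lit 0) (XT.lf (nat_lit 0) (nat_lit 402620017963) (nat_lit 152) (nat_lit 1876840526525) (nat_lit 0) (nat_lit 399357689443) (nat_lit 1) (nat_lit 5) (nat_lit 3) (nat_lit 4) (nat_lit 1) (nat_lit 4) (nat_lit 339) (nat_lit 220) (nat_lit 161)) (XT.lf (nat_lit 0) (nat_lit 435940686206) (nat_lit 152) (nat_lit 2024395490035) (nat_lit 0) (nat_lit 432675752437) (nat_lit 1) (nat_lit 5) (nat_lit 3) (nat_lit 4) (nat_lit 1) (nat_lit 4) (nat_lit 340) (nat_lit 220) (nat_lit 160)))))) (XT.nd (nat_lit 32994) (nat_lit 0) (nat_lit 152) (XT.nd (nat_lit 32760) (nat_lit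 0) (nat_lit 228) (XT.nd (nat_lit 32604) (nat_lit 0) (nat_lit 228) (XT.lf (nat_lit 0) (nat_lit 471924958003) (nat_lit 152) (nat_lit 2183758715676) (nat_lit 0) (nat_lit 468657611966) (nat_lit 1) (nat_lit 5) (nat_lit 3) (nat_lit 4) (nat_lit 1) (nat_lit 4) (nat_lit 341) (nat_lit 220) (nat_lit 159)) (XT.nd (nat_lit 78) (nat_lit 152) (nat_lit 0) (XT.lf (nat_lit 0) (nat_lit 13234108810) (nat_lit 76) (nat_lit 171626185) (nat_lit 76) (nat_lit 171626185) (nat_lit 6) (nat_lit 4) (nat_lit 7) (nat_lit 5) (nat_lit 7) (nat_lit 4) (nat_lit 278) (nat_lit 221) (nat_lit 221)) (XT.lf (nat_lit 0) (nat_lit 3016665922) (nat_lit 152) (nat_lit 23279328549) (nat_lit 0) (nat_lit 2731761975) (nat_lit 4) (nat_lit 5) (nat_lit 6) (nat_lit 4) (nat_lit 4) (nat_lit 4) (nat_lit 279) (nat_lit 221) (nat_lit 220)))) (XT.nd (nat_lit 78) (nat_lit 0) (nat_lit 0) (XT.lf (nat_lit 0) (nat_lit 6474374051) (nat_lit 152) (nat_lit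 18662361886) (nat_lit 0) (nat_lit 5925670152) (nat_lit 4) (nat_lit 5) (nat_lit 6) (nat_lit 4) (nat_lit 4) (nat_lit 4) (nat_lit 280) (nat_lit 221) (nat_lit 219)) (XT.nd (nat_lit 78) (nat_lit 0) (nat_lit 0) (XT.lf (nat_lit 0) (nat_lit 10041446490) (nat_lit 152) (nat_lit 13983545943) (nat_lit 0) (nat_lit 9248483376) (nat_lit 4) (nat_lit 5) (nat_lit 6) (nat_lit 4) (nat_lit 4) (nat_lit 4) (nat_lit 281) (nat_lit 221) (nat_lit 218)) (XT.lf (nat_lit 0) (nat_lit 13739021447) (nat_lit 152) (nat_lit 9215154403) (nat_lit 0) (nat_lit 12719892394) (nat_lit 4) (nat_lit 5) (nat_lit 6) (nat_lit 4) (nat_lit 4) (nat_lit 4) (nat_lit 282) (nat_lit 221) (nat_lit 217))))) (XT.nd (nat_lit 234) (nat_lit 0) (nat_lit 0) (XT.nd (nat_lit 78) (nat_lit 76) (nat_lit 0) (XT.lf (nat_lit 0) (nat_lit 17589010477) (nat_lit 152) (nat_lit 4328930131) (nat_lit 0) (nat_lit 16360468518) (nat_lit 4) (nat_lit 5) (nat_lit 6)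 (nat_lit 4) (nat_lit 4) (nat_lit 4) (nat_lit 283) (nat_lit 221) (nat_lit 216)) (XT.nd (nat_lit 78) (nat_lit 0) (nat_lit 0) (XT.lf (nat_lit 0) (nat_lit 741157999) (nat_lit 76) (nat_lit 20890895198) (nat_lit 76) (nat_lit 19468452400) (nat_lit 3) (nat_lit 4) (nat_lit 4) (nat_lit 5) (nat_lit 4) (nat_lit 4) (nat_lit 284) (nat_lit 221) (nat_lit 215)) (XT.lf (nat_lit 0) (nat_lit 6225113462) (nat_lit 76) (nat_lit 19763128815) (nat_lit 76) (nat_lit 18161148202) (nat_lit 3) (nat_lit 4) (nat_lit 4) (nat_lit 5) (nat_lit 4) (nat_lit 4) (nat_lit 285) (nat_lit 221) (nat_lit 214)))) (XT.nd (nat_lit 156) (nat_lit 0) (nat_lit 0) (XT.nd (nat_lit 78) (nat_lit 0) (nat_lit 0) (XT.lf (nat_lit 0) (nat_lit 11927479981) (nat_lit 76) (nat_lit 18646319021) (nat_lit 76) (nat_lit 16878099692) (nat_lit 3) (nat_lit 4) (nat_lit 4) (nat_lit 5) (nat_lit 4) (nat_lit 4) (nat_lit 286) (nat_lit 221) (nat_lit 213)) (XT.lf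 (nat_lit 0) (nat_lit 17882049357) (nat_lit 76) (nat_lit 17533847684) (nat_lit 76) (nat_lit 15611703617) (nat_lit 3) (nat_lit 4) (nat_lit 4) (nat_lit 5) (nat_lit 4) (nat_lit 4) (nat_lit 287) (nat_lit 221) (nat_lit 212))) (XT.nd (nat_lit 78) (nat_lit 0) (nat_lit 0) (XT.lf (nat_lit 0) (nat_lit 24124107928) (nat_lit 76) (nat_lit 16419122381) (nat_lit 76) (nat_lit 14354455408) (nat_lit 3) (nat_lit 4) (nat_lit 4) (nat_lit 5) (nat_lit 4) (nat_lit 4) (nat_lit 288) (nat_lit 221) (nat_lit 211)) (XT.lf (nat_lit 0) (nat_lit 30690645670) (nat_lit 76) (nat_lit 15295537333) (nat_lit 76) (nat_lit 13098904707) (nat_lit 3) (nat_lit 4) (nat_lit 4) (nat_lit 5) (nat_lit 4) (nat_lit 4) (nat_lit 289) (nat_lit 221) (nat_lit 210))))))))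
noncomputable def xc20 : XT := (XT.nd (nat_lit 1950) (nat_lit 0) (nat_lit 0) (XT.nd (nat_lit 936) (nat_lit 0) (nat_lit 0) (XT.nd (nat_lit 468) (nat_lit 152) (nat_lit 0) (XT.nd (nat_lit 234) (nat_lit 0) (nat_lit 0) (XT.nd (nat_lit 78) (nat_lit 0) (nat_lit 0) (XT.lf (nat_lit 0) (nat_lit 37620575399) (nat_lit 76) (nat_lit 14156434257) (nat_lit 76) (nat_lit 11837611212) (nat_lit 3) (nat_lit 4) (nat_lit 4) (nat_lit 5) (nat_lit 4) (nat_lit 4) (nat_lit 290) (nat_lit 221) (nat_lit 209)) (XT.nd (nat_lit 78) (nat_lit 0) (nat_lit 0) (XT.lf (nat_lit 0) (nat_lit 44954963367) (nat_lit 76) (nat_lit 12995062914) (nat_lit 76) (nat_lit 10563100591) (nat_lit 3) (nat_lit 4) (nat_lit 4) (nat_lit 5) (nat_lit 4) (nat_lit 4) (nat_lit 291) (nat_lit 221) (nat_lit 208)) (XT.lf (nat_lit 0) (nat_lit 52737272611) (nat_lit 76) (nat_lit 11804541103) (nat_lit 76) (nat_lit 9267820190) (nat_lit 3) (nat_lit 4) (nat_lit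 4) (nat_lit 5) (nat_lit 4) (nat_lit 4) (nat_lit 292) (nat_lit 221) (nat_lit 207)))) (XT.nd (nat_lit 78) (nat_lit 0) (nat_lit 0) (XT.lf (nat_lit 0) (nat_lit 61013620521) (nat_lit 76) (nat_lit 10577813879) (nat_lit 76) (nat_lit 7944094271) (nat_lit 3) (nat_lit 4) (nat_lit 4) (nat_lit 5) (nat_lit 4) (nat_lit 4) (nat_lit 293) (nat_lit 221) (nat_lit 206)) (XT.nd (nat_lit 78) (nat_lit 0) (nat_lit 0) (XT.lf (nat_lit 0) (nat_lit 69833052122) (nat_lit 76) (nat_lit 9307611749) (nat_lit 76) (nat_lit 6584078535) (nat_lit 3) (nat_lit 4) (nat_lit 4) (nat_lit 5) (nat_lit 4) (nat_lit 4) (nat_lit 294) (nat_lit 221) (nat_lit 205)) (XT.lf (nat_lit 0) (nat_lit 79247830711) (nat_lit 76) (nat_lit 7986407588) (nat_lit 76) (nat_lit 5179713627) (nat_lit 3) (nat_lit 4) (nat_lit 4) (nat_lit 5) (nat_lit 4) (nat_lit 4) (nat_lit 295) (nat_lit 221) (nat_lit 204))))) (XT.nd (nat_lit 234) (nat_lit 152) (nat_lit 0)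 (XT.nd (nat_lit 78) (nat_lit 0) (nat_lit 0) (XT.lf (nat_lit 0) (nat_lit 89313747570) (nat_lit 76) (nat_lit 6606372038) (nat_lit 76) (nat_lit 3722677386) (nat_lit 3) (nat_lit 4) (nat_lit 4) (nat_lit 5) (nat_lit 4) (nat_lit 4) (nat_lit 296) (nat_lit 221) (nat_lit 203)) (XT.nd (nat_lit 78) (nat_lit 0) (nat_lit 0) (XT.lf (nat_lit 0) (nat_lit 100090452575) (nat_lit 76) (nat_lit 5159327111) (nat_lit 76) (nat_lit 2204335523) (nat_lit 3) (nat_lit 4) (nat_lit 4) (nat_lit 5) (nat_lit 4) (nat_lit 4) (nat_lit 297) (nat_lit 221) (nat_lit 202)) (XT.lf (nat_lit 0) (nat_lit 111641807683) (nat_lit 76) (nat_lit 3636697726) (nat_lit 76) (nat_lit 615690456) (nat_lit 3) (nat_lit 4) (nat_lit 4) (nat_lit 5) (nat_lit 4) (nat_lit 4) (nat_lit 298) (nat_lit 221) (nat_lit 201)))) (XT.nd (nat_lit 78) (nat_lit 76) (nat_lit 0) (XT.lf (nat_lit 0) (nat_lit 1000013089) (nat_lit 152) (nat_lit 1002105675) (nat_lit 76)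 (nat_lit 123008910149) (nat_lit 2) (nat_lit 5) (nat_lit 4) (nat_lit 5) (nat_lit 3) (nat_lit 4) (nat_lit 299) (nat_lit 221) (nat_lit 200)) (XT.nd (nat_lit 78) (nat_lit 0) (nat_lit 0) (XT.lf (nat_lit 0) (nat_lit 2542117289) (nat_lit 76) (nat_lit 189059632) (nat_lit 152) (nat_lit 132123252425) (nat_lit 1) (nat_lit 5) (nat_lit 2) (nat_lit 5) (nat_lit 3) (nat_lit 4) (nat_lit 300) (nat_lit 221) (nat_lit 199)) (XT.lf (nat_lit 0) (nat_lit 4630255953) (nat_lit 152) (nat_lit 139177244998) (nat_lit 0) (nat_lit 1675500319) (nat_lit 1) (nat_lit 5) (nat_lit 3) (nat_lit 4) (nat_lit 1) (nat_lit 4) (nat_lit 301) (nat_lit 221) (nat_lit 198)))))) (XT.nd (nat_lit 468) (nat_lit 0) (nat_lit 0) (XT.nd (nat_lit 234) (nat_lit 0) (nat_lit 0) (XT.nd (nat_lit 78) (nat_lit 0) (nat_lit 0) (XT.lf (nat_lit 0) (nat_lit 6647991872) (nat_lit 152) (nat_lit 146668270837) (nat_lit 0) (nat_lit 3648307075) (nat_lit 1) (nat_lit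 5) (nat_lit 3) (nat_lit 4) (nat_lit 1) (nat_lit 4) (nat_lit 302) (nat_lit 221) (nat_lit 197)) (XT.nd (nat_lit 78) (nat_lit 0) (nat_lit 0) (XT.lf (nat_lit 0) (nat_lit 8791794744) (nat_lit 152) (nat_lit 154825233951) (nat_lit 0) (nat_lit 5750508869) (nat_lit 1) (nat_lit 5) (nat_lit 3) (nat_lit 4) (nat_lit 1) (nat_lit 4) (nat_lit 303) (nat_lit 221) (nat_lit 196)) (XT.lf (nat_lit 0) (nat_lit 11074368586) (nat_lit 152) (nat_lit 163696471897) (nat_lit 0) (nat_lit 7994563195) (nat_lit 1) (nat_lit 5) (nat_lit 3) (nat_lit 4) (nat_lit 1) (nat_lit 4) (nat_lit 304) (nat_lit 221) (nat_lit 195)))) (XT.nd (nat_lit 78) (nat_lit 0) (nat_lit 0) (XT.lf (nat_lit 0) (nat_lit 13509239762) (nat_lit 152) (nat_lit 173334554975) (nat_lit 0) (nat_lit 10393768152) (nat_lit 1) (nat_lit 5) (nat_lit 3) (nat_lit 4) (nat_lit 1) (nat_lit 4) (nat_lit 305) (nat_lit 221) (nat_lit 194)) (XT.nd (nat_lit 78) (nat_lit 0)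 (nat_lit 0) (XT.lf (nat_lit 0) (nat_lit 16110837137) (nat_lit 152) (nat_lit 183796597751) (nat_lit 0) (nat_lit 12962341250) (nat_lit 1) (nat_lit 5) (nat_lit 3) (nat_lit 4) (nat_lit 1) (nat_lit 4) (nat_lit 306) (nat_lit 221) (nat_lit 193)) (XT.lf (nat_lit 0) (nat_lit 18894577585) (nat_lit 152) (nat_lit 195144597517) (nat_lit 0) (nat_lit 15715503665) (nat_lit 1) (nat_lit 5) (nat_lit 3) (nat_lit 4) (nat_lit 1) (nat_lit 4) (nat_lit 307) (nat_lit 221) (nat_lit 192))))) (XT.nd (nat_lit 234) (nat_lit 0) (nat_lit 0) (XT.nd (nat_lit 78) (nat_lit 0) (nat_lit 0) (XT.lf (nat_lit 0) (nat_lit 21876957346) (nat_lit 152) (nat_lit 207445801677) (nat_lit 0) (nat_lit 18669570431) (nat_lit 1) (nat_lit 5) (nat_lit 3) (nat_lit 4) (nat_lit 1) (nat_lit 4) (nat_lit 308) (nat_lit 221) (nat_lit 191)) (XT.nd (nat_lit 78) (nat_lit 0) (nat_lit 0) (XT.lf (nat_lit 0) (nat_lit 25075649780) (nat_lit 152) (nat_lit 220773106257)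 (nat_lit 0) (nat_lit 21842047130) (nat_lit 1) (nat_lit 5) (nat_lit 3) (nat_lit 4) (nat_lit 1) (nat_lit 4) (nat_lit 309) (nat_lit 221) (nat_lit 190)) (XT.lf (nat_lit 0) (nat_lit 28509610104) (nat_lit 152) (nat_lit 235205487876) (nat_lit 0) (nat_lit 25251733625) (nat_lit 1) (nat_lit 5) (nat_lit 3) (nat_lit 4) (nat_lit 1) (nat_lit 4) (nat_lit 310) (nat_lit 221) (nat_lit 189)))) (XT.nd (nat_lit 156) (nat_lit 0) (nat_lit 0) (XT.nd (nat_lit 78) (nat_lit 0) (nat_lit 0) (XT.lf (nat_lit 0) (nat_lit 32199187711) (nat_lit 152) (nat_lit 250828471758) (nat_lit 0) (nat_lit 28918835464) (nat_lit 1) (nat_lit 5) (nat_lit 3) (nat_lit 4) (nat_lit 1) (nat_lit 4) (nat_lit 311) (nat_lit 221) (nat_lit 188)) (XT.lf (nat_lit 0) (nat_lit 36166246764) (nat_lit 152) (nat_lit 267734638550) (nat_lit 0) (nat_lit 32865083621) (nat_lit 1) (nat_lit 5) (nat_lit 3) (nat_lit 4) (nat_lit 1) (nat_lit 4) (nat_lit 312) (nat_lit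 221) (nat_lit 187))) (XT.nd (nat_lit 78) (nat_lit 0) (nat_lit 0) (XT.lf (nat_lit 0) (nat_lit 40434295762) (nat_lit 152) (nat_lit 286024172942) (nat_lit 0) (nat_lit 37113863271) (nat_lit 1) (nat_lit 5) (nat_lit 3) (nat_lit 4) (nat_lit 1) (nat_lit 4) (nat_lit 313) (nat_lit 221) (nat_lit 186)) (XT.lf (nat_lit 0) (nat_lit 45028626847) (nat_lit 152) (nat_lit 305805457362) (nat_lit 0) (nat_lit 41690352367) (nat_lit 1) (nat_lit 5) (nat_lit 3) (nat_lit 4) (nat_lit 1) (nat_lit 4) (nat_lit 314) (nat_lit 221) (nat_lit 185))))))) (XT.nd (nat_lit 1014) (nat_lit 0) (nat_lit 0) (XT.nd (nat_lit 468) (nat_lit 0) (nat_lit 0) (XT.nd (nat_lit 234) (nat_lit 0) (nat_lit 0) (XT.nd (nat_lit 78) (nat_lit 0) (nat_lit 0) (XT.lf (nat_lit 0) (nat_lit 49976465685) (nat_lit 152) (nat_lit 327195714235) (nat_lit 0) (nat_lit 46621670845) (nat_lit 1) (nat_lit 5) (nat_lit 3) (nat_lit 4) (nat_lit 1) (nat_lit 4) (nat_lit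 315) (nat_lit 221) (nat_lit 184)) (XT.nd (nat_lit 78) (nat_lit 0) (nat_lit 0) (XT.lf (nat_lit 0) (nat_lit 55307132802) (nat_lit 152) (nat_lit 350321700638) (nat_lit 0) (nat_lit 51937041332) (nat_lit 1) (nat_lit 5) (nat_lit 3) (nat_lit 4) (nat_lit 1) (nat_lit 4) (nat_lit 316) (nat_lit 221) (nat_lit 183)) (XT.lf (nat_lit 0) (nat_lit 61052217337) (nat_lit 152) (nat_lit 375320459455) (nat_lit 0) (nat_lit 57667962320) (nat_lit 1) (nat_lit 5) (nat_lit 3) (nat_lit 4) (nat_lit 1) (nat_lit 4) (nat_lit 317) (nat_lit 221) (nat_lit 182)))) (XT.nd (nat_lit 78) (nat_lit 0) (nat_lit 0) (XT.lf (nat_lit 0) (nat_lit 67245764235) (nat_lit 152) (nat_lit 402340131479) (nat_lit 0) (nat_lit 63848394823) (nat_lit 1) (nat_lit 5) (nat_lit 3) (nat_lit 4) (nat_lit 1) (nat_lit 4) (nat_lit 318) (nat_lit 221) (nat_lit 181)) (XT.nd (nat_lit 78) (nat_lit 0) (nat_lit 0) (XT.lf (nat_lit 0) (nat_lit 73924475996) (nat_lit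 152) (nat_lit 431540833284) (nat_lit 0) (nat_lit 70514963626) (nat_lit 1) (nat_lit 5) (nat_lit 3) (nat_lit 4) (nat_lit 1) (nat_lit 4) (nat_lit 319) (nat_lit 221) (nat_lit 180)) (XT.lf (nat_lit 0) (nat_lit 81127930171) (nat_lit 152) (nat_lit 463095606066) (nat_lit 0) (nat_lit 77707174322) (nat_lit 1) (nat_lit 5) (nat_lit 3) (nat_lit 4) (nat_lit 1) (nat_lit 4) (nat_lit 320) (nat_lit 221) (nat_lit 179))))) (XT.nd (nat_lit 234) (nat_lit 0) (nat_lit 0) (XT.nd (nat_lit 78) (nat_lit 0) (nat_lit 0) (XT.lf (nat_lit 0) (nat_lit 88898813896) (nat_lit 152) (nat_lit 497191441071) (nat_lit 0) (nat_lit 85467647418) (nat_lit 1) (nat_lit 5) (nat_lit 3) (nat_lit 4) (nat_lit 1) (nat_lit 4) (nat_lit 321) (nat_lit 221) (nat_lit 178)) (XT.nd (nat_lit 78) (nat_lit 0) (nat_lit 0) (XT.lf (nat_lit 0) (nat_lit 97283176853) (nat_lit 152) (nat_lit 534030387692) (nat_lit 0) (nat_lit 93842370903) (nat_lit 1) (nat_lit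 5) (nat_lit 3) (nat_lit 4) (nat_lit 1) (nat_lit 4) (nat_lit 322) (nat_lit 221) (nat_lit 177)) (XT.lf (nat_lit 0) (nat_lit 106330704155) (nat_lit 152) (nat_lit 573830750798) (nat_lit 0) (nat_lit 102880972769) (nat_lit 1) (nat_lit 5) (nat_lit 3) (nat_lit 4) (nat_lit 1) (nat_lit 4) (nat_lit 323) (nat_lit 221) (nat_lit 176)))) (XT.nd (nat_lit 156) (nat_lit 0) (nat_lit 0) (XT.nd (nat_lit 78) (nat_lit 0) (nat_lit 0) (XT.lf (nat_lit 0) (nat_lit 116095010780) (nat_lit 152) (nat_lit 616828384393) (nat_lit 0) (nat_lit 112637015100) (nat_lit 1) (nat_lit 5) (nat_lit 3) (nat_lit 4) (nat_lit 1) (nat_lit 4) (nat_lit 324) (nat_lit 221) (nat_lit 175)) (XT.lf (nat_lit 0) (nat_lit 126633959283) (nat_lit 152) (nat_lit 663278089267) (nat_lit 0) (nat_lit 123168311481) (nat_lit 1) (nat_lit 5) (nat_lit 3) (nat_lit 4) (nat_lit 1) (nat_lit 4) (nat_lit 325) (nat_lit 221) (nat_lit 174))) (XT.nd (nat_lit 78) (nat_lit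 0) (nat_lit 0) (XT.lf (nat_lit 0) (nat_lit 138010002695) (nat_lit 152) (nat_lit 713455122932) (nat_lit 0) (nat_lit 134537269593) (nat_lit 1) (nat_lit 5) (nat_lit 3) (nat_lit 4) (nat_lit 1) (nat_lit 4) (nat_lit 326) (nat_lit 221) (nat_lit 173)) (XT.lf (nat_lit 0) (nat_lit 150290554606) (nat_lit 152) (nat_lit 767656830772) (nat_lit 0) (nat_lit 146811261041) (nat_lit 1) (nat_lit 5) (nat_lit 3) (nat_lit 4) (nat_lit 1) (nat_lit 4) (nat_lit 327) (nat_lit 221) (nat_lit 172)))))) (XT.nd (nat_lit 468) (nat_lit 0) (nat_lit 0) (XT.nd (nat_lit 234) (nat_lit 0) (nat_lit 0) (XT.nd (nat_lit 78) (nat_lit 0) (nat_lit 0) (XT.lf (nat_lit 0) (nat_lit 163548388655) (nat_lit 152) (nat_lit 826204408093) (nat_lit 0) (nat_lit 160063020589) (nat_lit 1) (nat_lit 5) (nat_lit 3) (nat_lit 4) (nat_lit 1) (nat_lit 4) (nat_lit 328) (nat_lit 221) (nat_lit 171)) (XT.nd (nat_lit 78) (nat_lit 0) (nat_lit 0) (XT.lf (nat_lit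 0) (nat_lit 177862069787) (nat_lit 152) (nat_lit 889444803501) (nat_lit 0) (nat_lit 174371077181) (nat_lit 1) (nat_lit 5) (nat_lit 3) (nat_lit 4) (nat_lit 1) (nat_lit 4) (nat_lit 329) (nat_lit 221) (nat_lit 170)) (XT.lf (nat_lit 0) (nat_lit 193316419815) (nat_lit 152) (nat_lit 957752774895) (nat_lit 0) (nat_lit 189820219303) (nat_lit 1) (nat_lit 5) (nat_lit 3) (nat_lit 4) (nat_lit 1) (nat_lit 4) (nat_lit 330) (nat_lit 221) (nat_lit 169)))) (XT.nd (nat_lit 78) (nat_lit 0) (nat_lit 0) (XT.lf (nat_lit 0) (nat_lit 210003020072) (nat_lit 152) (nat_lit 1031533110253) (nat_lit 0) (nat_lit 206501997424) (nat_lit 1) (nat_lit 5) (nat_lit 3) (nat_lit 4) (nat_lit 1) (nat_lit 4) (nat_lit 331) (nat_lit 221) (nat_lit 168)) (XT.nd (nat_lit 78) (nat_lit 0) (nat_lit 0) (XT.lf (nat_lit 0) (nat_lit 228020754116) (nat_lit 152) (nat_lit 1111223026378) (nat_lit 0) (nat_lit 224515266528) (nat_lit 1) (nat_lit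 5) (nat_lit 3) (nat_lit 4) (nat_lit 1) (nat_lit 4) (nat_lit 332) (nat_lit 221) (nat_lit 167)) (XT.lf (nat_lit 0) (nat_lit 247476393704) (nat_lit 152) (nat_lit 1197294759810) (nat_lit 0) (nat_lit 243966771912) (nat_lit 1) (nat_lit 5) (nat_lit 3) (nat_lit 4) (nat_lit 1) (nat_lit 4) (nat_lit 333) (nat_lit 221) (nat_lit 166))))) (XT.nd (nat_lit 234) (nat_lit 0) (nat_lit 0) (XT.nd (nat_lit 78) (nat_lit 0) (nat_lit 0) (XT.lf (nat_lit 0) (nat_lit 268485231515) (nat_lit 152) (nat_lit 1290258365265) (nat_lit 0) (nat_lit 264971781756) (nat_lit 1) (nat_lit 5) (nat_lit 3) (nat_lit 4) (nat_lit 1) (nat_lit 4) (nat_lit 334) (nat_lit 221) (nat_lit 165)) (XT.nd (nat_lit 78) (nat_lit 0) (nat_lit 0) (XT.lf (nat_lit 0) (nat_lit 291171764365) (nat_lit 152) (nat_lit 1390664738183) (nat_lit 0) (nat_lit 287654770192) (nat_lit 1) (nat_lit 5) (nat_lit 3) (nat_lit 4) (nat_lit 1) (nat_lit 4) (nat_lit 335) (nat_lit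 221) (nat_lit 164)) (XT.lf (nat_lit 0) (nat_lit 315670430969) (nat_lit 152) (nat_lit 1499108879293) (nat_lit 0) (nat_lit 312150154931) (nat_lit 1) (nat_lit 5) (nat_lit 3) (nat_lit 4) (nat_lit 1) (nat_lit 4) (nat_lit 336) (nat_lit 221) (nat_lit 163)))) (XT.nd (nat_lit 156) (nat_lit 0) (nat_lit 0) (XT.nd (nat_lit 78) (nat_lit 0) (nat_lit 0) (XT.lf (nat_lit 0) (nat_lit 342126408608) (nat_lit 152) (nat_lit 1616233420541) (nat_lit 0) (nat_lit 338603093808) (nat_lit 1) (nat_lit 5) (nat_lit 3) (nat_lit 4) (nat_lit 1) (nat_lit 4) (nat_lit 337) (nat_lit 221) (nat_lit 162)) (XT.lf (nat_lit 0) (nat_lit 370696473448) (nat_lit 152) (nat_lit 1742732433283) (nat_lit 0) (nat_lit 367170344978) (nat_lit 1) (nat_lit 5) (nat_lit 3) (nat_lit 4) (nat_lit 1) (nat_lit 4) (nat_lit 338) (nat_lit 221) (nat_lit 161))) (XT.nd (nat_lit 78) (nat_lit 0) (nat_lit 0) (XT.lf (nat_lit 0) (nat_lit 401549929576) (nat_lit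 152) (nat_lit 1879355541299) (nat_lit 0) (nat_lit 398021195856) (nat_lit 1) (nat_lit 5) (nat_lit 3) (nat_lit 4) (nat_lit 1) (nat_lit 4) (nat_lit 339) (nat_lit 221) (nat_lit 160)) (XT.lf (nat_lit 0) (nat_lit 434869612288) (nat_lit 152) (nat_lit 2026912363006) (nat_lit 0) (nat_lit 431338466299) (nat_lit 1) (nat_lit 5) (nat_lit 3) (nat_lit 4) (nat_lit 1) (nat_lit 4) (nat_lit 340) (nat_lit 221) (nat_lit 159))))))))
noncomputable def xc21 : XT := (XT.nd (nat_lit 34398) (nat_lit 0) (nat_lit 0) (XT.nd (nat_lit 33384) (nat_lit 0) (nat_lit 0) (XT.nd (nat_lit 32838) (nat_lit 0) (nat_lit 152) (XT.nd (nat_lit 32604) (nat_lit 0) (nat_lit 228) (XT.nd (nat_lit 32448) (nat_lit 0) (nat_lit 380) (XT.lf (nat_lit 0) (nat_lit 470852971555) (nat_lit 152) (nat_lit 2186277309200) (nat_lit 0) (nat_lit 467319591984) (nat_lit 1) (nat_lit 5) (nat_lit 3) (nat_lit 4) (nat_lit 1) (nat_lit 4) (nat_lit 341) (nat_lit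 221) (nat_lit 158)) (XT.nd (nat_lit 78) (nat_lit 0) (nat_lit 0) (XT.lf (nat_lit 0) (nat_lit 5574545432) (nat_lit 76) (nat_lit 3164636345) (nat_lit 76) (nat_lit 3164636345) (nat_lit 6) (nat_lit 4) (nat_lit 7) (nat_lit 5) (nat_lit 7) (nat_lit 4) (nat_lit 276) (nat_lit 222) (nat_lit 222)) (XT.lf (nat_lit 0) (nat_lit 18593812151) (nat_lit 76) (nat_lit 3575835961) (nat_lit 76) (nat_lit 3243523997) (nat_lit 6) (nat_lit 4) (nat_lit 7) (nat_lit 5) (nat_lit 7) (nat_lit 4) (nat_lit 277) (nat_lit 222) (nat_lit 221)))) (XT.nd (nat_lit 78) (nat_lit 152) (nat_lit 0) (XT.lf (nat_lit 0) (nat_lit 26314612510) (nat_lit 76) (nat_lit 743564372) (nat_lit 76) (nat_lit 103556145) (nat_lit 6) (nat_lit 4) (nat_lit 7) (nat_lit 5) (nat_lit 7) (nat_lit 4) (nat_lit 278) (nat_lit 222) (nat_lit 220)) (XT.nd (nat_lit 78) (nat_lit 0) (nat_lit 0) (XT.lf (nat_lit 0) (nat_lit 3143729659) (nat_lit 152) (nat_lit 23611437246)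 (nat_lit 0) (nat_lit 2287329497) (nat_lit 4) (nat_lit 5) (nat_lit 6) (nat_lit 4) (nat_lit 4) (nat_lit 4) (nat_lit 279) (nat_lit 222) (nat_lit 219)) (XT.lf (nat_lit 0) (nat_lit 6521028009) (nat_lit 152) (nat_lit 19142310993) (nat_lit 0) (nat_lit 5420368632) (nat_lit 4) (nat_lit 5) (nat_lit 6) (nat_lit 4) (nat_lit 4) (nat_lit 4) (nat_lit 280) (nat_lit 222) (nat_lit 218))))) (XT.nd (nat_lit 234) (nat_lit 76) (nat_lit 0) (XT.nd (nat_lit 78) (nat_lit 0) (nat_lit 0) (XT.lf (nat_lit 0) (nat_lit 10013646949) (nat_lit 152) (nat_lit 14600384319) (nat_lit 0) (nat_lit 8686821634) (nat_lit 4) (nat_lit 5) (nat_lit 6) (nat_lit 4) (nat_lit 4) (nat_lit 4) (nat_lit 281) (nat_lit 222) (nat_lit 217)) (XT.nd (nat_lit 78) (nat_lit 0) (nat_lit 0) (XT.lf (nat_lit 0) (nat_lit 13642283482) (nat_lit 152) (nat_lit 9958742102) (nat_lit 0) (nat_lit 12106045259) (nat_lit 4) (nat_lit 5) (nat_lit 6) (nat_lit 4) (nat_lit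 4) (nat_lit 4) (nat_lit 282) (nat_lit 222) (nat_lit 216)) (XT.lf (nat_lit 0) (nat_lit 17428440637) (nat_lit 152) (nat_lit 5189878314) (nat_lit 0) (nat_lit 15698301575) (nat_lit 4) (nat_lit 5) (nat_lit 6) (nat_lit 4) (nat_lit 4) (nat_lit 4) (nat_lit 283) (nat_lit 222) (nat_lit 215)))) (XT.nd (nat_lit 156) (nat_lit 0) (nat_lit 0) (XT.nd (nat_lit 78) (nat_lit 76) (nat_lit 0) (XT.lf (nat_lit 0) (nat_lit 21394554903) (nat_lit 152) (nat_lit 265533022) (nat_lit 0) (nat_lit 19484878027) (nat_lit 4) (nat_lit 5) (nat_lit 6) (nat_lit 4) (nat_lit 4) (nat_lit 4) (nat_lit 284) (nat_lit 222) (nat_lit 214)) (XT.lf (nat_lit 0) (nat_lit 5098523893) (nat_lit 76) (nat_lit 20588224907) (nat_lit 76) (nat_lit 18512309314) (nat_lit 3) (nat_lit 4) (nat_lit 4) (nat_lit 5) (nat_lit 4) (nat_lit 4) (nat_lit 285) (nat_lit 222) (nat_lit 213))) (XT.nd (nat_lit 78) (nat_lit 0) (nat_lit 0) (XT.lf (nat_lit 0) (nat_lit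 10702819996) (nat_lit 76) (nat_lit 19516455132) (nat_lit 76) (nat_lit 17286614801) (nat_lit 3) (nat_lit 4) (nat_lit 4) (nat_lit 5) (nat_lit 4) (nat_lit 4) (nat_lit 286) (nat_lit 222) (nat_lit 212)) (XT.lf (nat_lit 0) (nat_lit 16566583432) (nat_lit 76) (nat_lit 18445687517) (nat_lit 76) (nat_lit 16073324281) (nat_lit 3) (nat_lit 4) (nat_lit 4) (nat_lit 5) (nat_lit 4) (nat_lit 4) (nat_lit 287) (nat_lit 222) (nat_lit 211)))))) (XT.nd (nat_lit 468) (nat_lit 152) (nat_lit 0) (XT.nd (nat_lit 234) (nat_lit 0) (nat_lit 0) (XT.nd (nat_lit 78) (nat_lit 0) (nat_lit 0) (XT.lf (nat_lit 0) (nat_lit 22724562429) (nat_lit 76) (nat_lit 17369576771) (nat_lit 76) (nat_lit 14865247882) (nat_lit 3) (nat_lit 4) (nat_lit 4) (nat_lit 5) (nat_lit 4) (nat_lit 4) (nat_lit 288) (nat_lit 222) (nat_lit 210)) (XT.nd (nat_lit 78) (nat_lit 0) (nat_lit 0) (XT.lf (nat_lit 0) (nat_lit 29213248713) (nat_lit 76) (nat_lit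 16281745942) (nat_lit 76) (nat_lit 13655226633) (nat_lit 3) (nat_lit 4) (nat_lit 4) (nat_lit 5) (nat_lit 4) (nat_lit 4) (nat_lit 289) (nat_lit 222) (nat_lit 209)) (XT.lf (nat_lit 0) (nat_lit 36071093760) (nat_lit 76) (nat_lit 15175748626) (nat_lit 76) (nat_lit 12436090039) (nat_lit 3) (nat_lit 4) (nat_lit 4) (nat_lit 5) (nat_lit 4) (nat_lit 4) (nat_lit 290) (nat_lit 222) (nat_lit 208)))) (XT.nd (nat_lit 78) (nat_lit 0) (nat_lit 0) (XT.lf (nat_lit 0) (nat_lit 43338736650) (nat_lit 76) (nat_lit 14045030763) (nat_lit 76) (nat_lit 11200613586) (nat_lit 3) (nat_lit 4) (nat_lit 4) (nat_lit 5) (nat_lit 4) (nat_lit 4) (nat_lit 291) (nat_lit 222) (nat_lit 207)) (XT.nd (nat_lit 78) (nat_lit 0) (nat_lit 0) (XT.lf (nat_lit 0) (nat_lit 51059244898) (nat_lit 76) (nat_lit 12882891804) (nat_lit 76) (nat_lit 9941475932) (nat_lit 3) (nat_lit 4) (nat_lit 4) (nat_lit 5) (nat_lit 4) (nat_lit 4) (nat_lit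 292) (nat_lit 222) (nat_lit 206)) (XT.lf (nat_lit 0) (nat_lit 59278369662) (nat_lit 76) (nat_lit 11682444999) (nat_lit 76) (nat_lit 8651215521) (nat_lit 3) (nat_lit 4) (nat_lit 4) (nat_lit 5) (nat_lit 4) (nat_lit 4) (nat_lit 293) (nat_lit 222) (nat_lit 205))))) (XT.nd (nat_lit 234) (nat_lit 152) (nat_lit 0) (XT.nd (nat_lit 78) (nat_lit 0) (nat_lit 0) (XT.lf (nat_lit 0) (nat_lit 68044816869) (nat_lit 76) (nat_lit 10436576590) (nat_lit 76) (nat_lit 7322186366) (nat_lit 3) (nat_lit 4) (nat_lit 4) (nat_lit 5) (nat_lit 4) (nat_lit 4) (nat_lit 294) (nat_lit 222) (nat_lit 204)) (XT.nd (nat_lit 78) (nat_lit 0) (nat_lit 0) (XT.lf (nat_lit 0) (nat_lit 77410535834) (nat_lit 76) (nat_lit 9137903652) (nat_lit 76) (nat_lit 5946512736) (nat_lit 3) (nat_lit 4) (nat_lit 4) (nat_lit 5) (nat_lit 4) (nat_lit 4) (nat_lit 295) (nat_lit 222) (nat_lit 203)) (XT.lf (nat_lit 0) (nat_lit 87431027115) (nat_lit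 76) (nat_lit 7778730346) (nat_lit 76) (nat_lit 4516042494) (nat_lit 3) (nat_lit 4) (nat_lit 4) (nat_lit 5) (nat_lit 4) (nat_lit 4) (nat_lit 296) (nat_lit 222) (nat_lit 202)))) (XT.nd (nat_lit 156) (nat_lit 152) (nat_lit 0) (XT.nd (nat_lit 78) (nat_lit 0) (nat_lit 0) (XT.lf (nat_lit 0) (nat_lit 98165671400) (nat_lit 76) (nat_lit 6351002311) (nat_lit 76) (nat_lit 3022298778) (nat_lit 3) (nat_lit 4) (nat_lit 4) (nat_lit 5) (nat_lit 4) (nat_lit 4) (nat_lit 297) (nat_lit 222) (nat_lit 201)) (XT.lf (nat_lit 0) (nat_lit 109678081397) (nat_lit 76) (nat_lit 4846258937) (nat_lit 76) (nat_lit 1456429773) (nat_lit 3) (nat_lit 4) (nat_lit 4) (nat_lit 5) (nat_lit 4) (nat_lit 4) (nat_lit 298) (nat_lit 222) (nat_lit 200))) (XT.nd (nat_lit 78) (nat_lit 76) (nat_lit 0) (XT.lf (nat_lit 0) (nat_lit 181296966) (nat_lit 152) (nat_lit 3069329280) (nat_lit 76) (nat_lit 121850224847) (nat_lit 2) (nat_lit 5)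 (nat_lit 4) (nat_lit 5) (nat_lit 3) (nat_lit 4) (nat_lit 299) (nat_lit 222) (nat_lit 199)) (XT.lf (nat_lit 0) (nat_lit 329834800) (nat_lit 76) (nat_lit 1510870559) (nat_lit 152) (nat_lit 133109312191) (nat_lit 1) (nat_lit 5) (nat_lit 2) (nat_lit 5) (nat_lit 3) (nat_lit 4) (nat_lit 300) (nat_lit 222) (nat_lit 198))))))) (XT.nd (nat_lit 1014) (nat_lit 0) (nat_lit 0) (XT.nd (nat_lit 468) (nat_lit 0) (nat_lit 0) (XT.nd (nat_lit 234) (nat_lit 0) (nat_lit 0) (XT.nd (nat_lit 78) (nat_lit 0) (nat_lit 0) (XT.lf (nat_lit 0) (nat_lit 3689639001) (nat_lit 152) (nat_lit 141487935541) (nat_lit 0) (nat_lit 405050256) (nat_lit 1) (nat_lit 5) (nat_lit 3) (nat_lit 4) (nat_lit 1) (nat_lit 4) (nat_lit 301) (nat_lit 222) (nat_lit 197)) (XT.nd (nat_lit 78) (nat_lit 0) (nat_lit 0) (XT.lf (nat_lit 0) (nat_lit 5690378805) (nat_lit 152) (nat_lit 149011007153) (nat_lit 0) (nat_lit 2364188982) (nat_lit 1) (nat_lit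 5) (nat_lit 3) (nat_lit 4) (nat_lit 1) (nat_lit 4) (nat_lit 302) (nat_lit 222) (nat_lit 196)) (XT.lf (nat_lit 0) (nat_lit 7818444533) (nat_lit 152) (nat_lit 157197642277) (nat_lit 0) (nat_lit 4453735194) (nat_lit 1) (nat_lit 5) (nat_lit 3) (nat_lit 4) (nat_lit 1) (nat_lit 4) (nat_lit 303) (nat_lit 222) (nat_lit 195)))) (XT.nd (nat_lit 78) (nat_lit 0) (nat_lit 0) (XT.lf (nat_lit 0) (nat_lit 10086446945) (nat_lit 152) (nat_lit 166096354308) (nat_lit 0) (nat_lit 6686071388) (nat_lit 1) (nat_lit 5) (nat_lit 3) (nat_lit 4) (nat_lit 1) (nat_lit 4) (nat_lit 304) (nat_lit 222) (nat_lit 194)) (XT.nd (nat_lit 78) (nat_lit 0) (nat_lit 0) (XT.lf (nat_lit 0) (nat_lit 12507826056) (nat_lit 152) (nat_lit 175759876354) (nat_lit 0) (nat_lit 9074426222) (nat_lit 1) (nat_lit 5) (nat_lit 3) (nat_lit 4) (nat_lit 1) (nat_lit 4) (nat_lit 305) (nat_lit 222) (nat_lit 193)) (XT.lf (nat_lit 0) (nat_lit 15096930778)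 (nat_lit 152) (nat_lit 186245473730) (nat_lit 0) (nat_lit 11632952911) (nat_lit 1) (nat_lit 5) (nat_lit 3) (nat_lit 4) (nat_lit 1) (nat_lit 4) (nat_lit 306) (nat_lit 222) (nat_lit 192))))) (XT.nd (nat_lit 234) (nat_lit 0) (nat_lit 0) (XT.nd (nat_lit 78) (nat_lit 0) (nat_lit 0) (XT.lf (nat_lit 0) (nat_lit 17869103956) (nat_lit 152) (nat_lit 197615283309) (nat_lit 0) (nat_lit 14376813094) (nat_lit 1) (nat_lit 5) (nat_lit 3) (nat_lit 4) (nat_lit 1) (nat_lit 4) (nat_lit 307) (nat_lit 222) (nat_lit 191)) (XT.nd (nat_lit 78) (nat_lit 0) (nat_lit 0) (XT.lf (nat_lit 0) (nat_lit 20840773280) (nat_lit 152) (nat_lit 209936681742) (nat_lit 0) (nat_lit 17322266683) (nat_lit 1) (nat_lit 5) (nat_lit 3) (nat_lit 4) (nat_lit 1) (nat_lit 4) (nat_lit 308) (nat_lit 222) (nat_lit 190)) (XT.lf (nat_lit 0) (nat_lit 24029548645) (nat_lit 152) (nat_lit 223282684722) (nat_lit 0) (nat_lit 20486768218) (nat_lit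 1) (nat_lit 5) (nat_lit 3) (nat_lit 4) (nat_lit 1) (nat_lit 4) (nat_lit 309) (nat_lit 222) (nat_lit 189)))) (XT.nd (nat_lit 156) (nat_lit 0) (nat_lit 0) (XT.nd (nat_lit 78) (nat_lit 0) (nat_lit 0) (XT.lf (nat_lit 0) (nat_lit 27454326496) (nat_lit 152) (nat_lit 237732379675) (nat_lit 0) (nat_lit 23889070302) (nat_lit 1) (nat_lit 5) (nat_lit 3) (nat_lit 4) (nat_lit 1) (nat_lit 4) (nat_lit 310) (nat_lit 222) (nat_lit 188)) (XT.lf (nat_lit 0) (nat_lit 31135401813) (nat_lit 152) (nat_lit 253371394422) (nat_lit 0) (nat_lit 27549334723) (nat_lit 1) (nat_lit 5) (nat_lit 3) (nat_lit 4) (nat_lit 1) (nat_lit 4) (nat_lit 311) (nat_lit 222) (nat_lit 187))) (XT.nd (nat_lit 78) (nat_lit 0) (nat_lit 0) (XT.lf (nat_lit 0) (nat_lit 35094588377) (nat_lit 152) (nat_lit 270292404606) (nat_lit 0) (nat_lit 31489251938) (nat_lit 1) (nat_lit 5) (nat_lit 3) (nat_lit 4) (nat_lit 1) (nat_lit 4) (nat_lit 312)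 (nat_lit 222) (nat_lit 186)) (XT.lf (nat_lit 0) (nat_lit 39355348032) (nat_lit 152) (nat_lit 288595682882) (nat_lit 0) (nat_lit 35732169604) (nat_lit 1) (nat_lit 5) (nat_lit 3) (nat_lit 4) (nat_lit 1) (nat_lit 4) (nat_lit 313) (nat_lit 222) (nat_lit 185)))))) (XT.nd (nat_lit 468) (nat_lit 0) (nat_lit 0) (XT.nd (nat_lit 234) (nat_lit 0) (nat_lit 0) (XT.nd (nat_lit 78) (nat_lit 0) (nat_lit 0) (XT.lf (nat_lit 0) (nat_lit 43942929726) (nat_lit 152) (nat_lit 308389693118) (nat_lit 0) (nat_lit 40303230938) (nat_lit 1) (nat_lit 5) (nat_lit 3) (nat_lit 4) (nat_lit 1) (nat_lit 4) (nat_lit 314) (nat_lit 222) (nat_lit 184)) (XT.nd (nat_lit 78) (nat_lit 0) (nat_lit 0) (XT.lf (nat_lit 0) (nat_lit 48884519127) (nat_lit 152) (nat_lit 329791733155) (nat_lit 0) (nat_lit 45229523709) (nat_lit 1) (nat_lit 5) (nat_lit 3) (nat_lit 4) (nat_lit 1) (nat_lit 4) (nat_lit 315) (nat_lit 222) (nat_lit 183)) (XT.lf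 (nat_lit 0) (nat_lit 54209399729) (nat_lit 152) (nat_lit 352928629896) (nat_lit 0) (nat_lit 50540240765) (nat_lit 1) (nat_lit 5) (nat_lit 3) (nat_lit 4) (nat_lit 1) (nat_lit 4) (nat_lit 316) (nat_lit 222) (nat_lit 182)))) (XT.nd (nat_lit 78) (nat_lit 0) (nat_lit 0) (XT.lf (nat_lit 0) (nat_lit 59949126379) (nat_lit 152) (nat_lit 377937490877) (nat_lit 0) (nat_lit 56266853021) (nat_lit 1) (nat_lit 5) (nat_lit 3) (nat_lit 4) (nat_lit 1) (nat_lit 4) (nat_lit 317) (nat_lit 222) (nat_lit 181)) (XT.nd (nat_lit 78) (nat_lit 0) (nat_lit 0) (XT.lf (nat_lit 0) (nat_lit 66137712273) (nat_lit 152) (nat_lit 404966516756) (nat_lit 0) (nat_lit 62443295956) (nat_lit 1) (nat_lit 5) (nat_lit 3) (nat_lit 4) (nat_lit 1) (nat_lit 4) (nat_lit 318) (nat_lit 222) (nat_lit 180)) (XT.lf (nat_lit 0) (nat_lit 72811830511) (nat_lit 152) (nat_lit 434175879538) (nat_lit 0) (nat_lit 69106170715) (nat_lit 1) (nat_lit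 5) (nat_lit 3) (nat_lit 4) (nat_lit 1) (nat_lit 4) (nat_lit 319) (nat_lit 222) (nat_lit 179))))) (XT.nd (nat_lit 234) (nat_lit 0) (nat_lit 0) (XT.nd (nat_lit 78) (nat_lit 0) (nat_lit 0) (XT.lf (nat_lit 0) (nat_lit 80011031425) (nat_lit 152) (nat_lit 465738671743) (nat_lit 0) (nat_lit 76294961000) (nat_lit 1) (nat_lit 5) (nat_lit 3) (nat_lit 4) (nat_lit 1) (nat_lit 4) (nat_lit 320) (nat_lit 222) (nat_lit 178)) (XT.nd (nat_lit 78) (nat_lit 0) (nat_lit 0) (XT.lf (nat_lit 0) (nat_lit 87777976945) (nat_lit 152) (nat_lit 499841932141) (nat_lit 0) (nat_lit 84052267048) (nat_lit 1) (nat_lit 5) (nat_lit 3) (nat_lit 4) (nat_lit 1) (nat_lit 4) (nat_lit 321) (nat_lit 222) (nat_lit 177)) (XT.lf (nat_lit 0) (nat_lit 96158693416) (nat_lit 152) (nat_lit 536687754125) (nat_lit 0) (nat_lit 92424058083) (nat_lit 1) (nat_lit 5) (nat_lit 3) (nat_lit 4) (nat_lit 1) (nat_lit 4) (nat_lit 322) (nat_lit 222)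 (nat_lit 176)))) (XT.nd (nat_lit 156) (nat_lit 0) (nat_lit 0) (XT.nd (nat_lit 78) (nat_lit 0) (nat_lit 0) (XT.lf (nat_lit 0) (nat_lit 105202844342) (nat_lit 152) (nat_lit 576494483308) (nat_lit 0) (nat_lit 101459944716) (nat_lit 1) (nat_lit 5) (nat_lit 3) (nat_lit 4) (nat_lit 1) (nat_lit 4) (nat_lit 323) (nat_lit 222) (nat_lit 175)) (XT.lf (nat_lit 0) (nat_lit 114964024692) (nat_lit 152) (nat_lit 619498011418) (nat_lit 0) (nat_lit 111213472942) (nat_lit 1) (nat_lit 5) (nat_lit 3) (nat_lit 4) (nat_lit 1) (nat_lit 4) (nat_lit 324) (nat_lit 222) (nat_lit 174))) (XT.nd (nat_lit 78) (nat_lit 0) (nat_lit 0) (XT.lf (nat_lit 0) (nat_lit 125500078498) (nat_lit 152) (nat_lit 665953174177) (nat_lit 0) (nat_lit 121742441449) (nat_lit 1) (nat_lit 5) (nat_lit 3) (nat_lit 4) (nat_lit 1) (nat_lit 4) (nat_lit 325) (nat_lit 222) (nat_lit 173)) (XT.lf (nat_lit 0) (nat_lit 136873441634) (nat_lit 152)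 (nat_lit 716135261439) (nat_lit 0) (nat_lit 133109244122) (nat_lit 1) (nat_lit 5) (nat_lit 3) (nat_lit 4) (nat_lit 1) (nat_lit 4) (nat_lit 326) (nat_lit 222) (nat_lit 172))))))))
noncomputable def xc22 : XT := (XT.nd (nat_lit 34164) (nat_lit 0) (nat_lit 0) (XT.nd (nat_lit 936) (nat_lit 0) (nat_lit 0) (XT.nd (nat_lit 468) (nat_lit 0) (nat_lit 0) (XT.nd (nat_lit 234) (nat_lit 0) (nat_lit 0) (XT.nd (nat_lit 78) (nat_lit 0) (nat_lit 0) (XT.lf (nat_lit 0) (nat_lit 149151511807) (nat_lit 152) (nat_lit 770341648536) (nat_lit 0) (nat_lit 145381239793) (nat_lit 1) (nat_lit 5) (nat_lit 3) (nat_lit 4) (nat_lit 1) (nat_lit 4) (nat_lit 327) (nat_lit 222) (nat_lit 171)) (XT.nd (nat_lit 78) (nat_lit 0) (nat_lit 0) (XT.lf (nat_lit 0) (nat_lit 162407047952) (nat_lit 152) (nat_lit 828893558502) (nat_lit 0) (nat_lit 158631151399) (nat_lit 1) (nat_lit 5) (nat_lit 3) (nat_lit 4) (nat_lit 1) (nat_lit 4)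 (nat_lit 328) (nat_lit 222) (nat_lit 170)) (XT.lf (nat_lit 0) (nat_lit 176718601394) (nat_lit 152) (nat_lit 892137965618) (nat_lit 0) (nat_lit 172937496934) (nat_lit 1) (nat_lit 5) (nat_lit 3) (nat_lit 4) (nat_lit 1) (nat_lit 4) (nat_lit 329) (nat_lit 222) (nat_lit 169)))) (XT.nd (nat_lit 78) (nat_lit 0) (nat_lit 0) (XT.lf (nat_lit 0) (nat_lit 192170981339) (nat_lit 152) (nat_lit 960449651556) (nat_lit 0) (nat_lit 188385054743) (nat_lit 1) (nat_lit 5) (nat_lit 3) (nat_lit 4) (nat_lit 1) (nat_lit 4) (nat_lit 330) (nat_lit 222) (nat_lit 168)) (XT.nd (nat_lit 78) (nat_lit 0) (nat_lit 0) (XT.lf (nat_lit 0) (nat_lit 208855757445) (nat_lit 152) (nat_lit 1034233426308) (nat_lit 0) (nat_lit 205065365909) (nat_lit 1) (nat_lit 5) (nat_lit 3) (nat_lit 4) (nat_lit 1) (nat_lit 4) (nat_lit 331) (nat_lit 222) (nat_lit 167)) (XT.lf (nat_lit 0) (nat_lit 226871802460) (nat_lit 152) (nat_lit 1113926527057)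 (nat_lit 0) (nat_lit 223077276720) (nat_lit 1) (nat_lit 5) (nat_lit 3) (nat_lit 4) (nat_lit 1) (nat_lit 4) (nat_lit 332) (nat_lit 222) (nat_lit 166))))) (XT.nd (nat_lit 234) (nat_lit 0) (nat_lit 0) (XT.nd (nat_lit 78) (nat_lit 0) (nat_lit 0) (XT.lf (nat_lit 0) (nat_lit 246325878133) (nat_lit 152) (nat_lit 1200001209214) (nat_lit 0) (nat_lit 242527524426) (nat_lit 1) (nat_lit 5) (nat_lit 3) (nat_lit 4) (nat_lit 1) (nat_lit 4) (nat_lit 333) (nat_lit 222) (nat_lit 165)) (XT.nd (nat_lit 78) (nat_lit 0) (nat_lit 0) (XT.lf (nat_lit 0) (nat_lit 267333267874) (nat_lit 152) (nat_lit 1292967544970) (nat_lit 0) (nat_lit 263531369753) (nat_lit 1) (nat_lit 5) (nat_lit 3) (nat_lit 4) (nat_lit 1) (nat_lit 4) (nat_lit 334) (nat_lit 222) (nat_lit 164)) (XT.lf (nat_lit 0) (nat_lit 290018459919) (nat_lit 152) (nat_lit 1393376445945) (nat_lit 0) (nat_lit 286213279934) (nat_lit 1) (nat_lit 5) (nat_lit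 3) (nat_lit 4) (nat_lit 1) (nat_lit 4) (nat_lit 335) (nat_lit 222) (nat_lit 163)))) (XT.nd (nat_lit 78) (nat_lit 0) (nat_lit 0) (XT.lf (nat_lit 0) (nat_lit 314515885036) (nat_lit 152) (nat_lit 1501822927847) (nat_lit 0) (nat_lit 310707666287) (nat_lit 1) (nat_lit 5) (nat_lit 3) (nat_lit 4) (nat_lit 1) (nat_lit 4) (nat_lit 336) (nat_lit 222) (nat_lit 162)) (XT.nd (nat_lit 78) (nat_lit 0) (nat_lit 0) (XT.lf (nat_lit 0) (nat_lit 340970713151) (nat_lit 152) (nat_lit 1618949636497) (nat_lit 0) (nat_lit 337159680733) (nat_lit 1) (nat_lit 5) (nat_lit 3) (nat_lit 4) (nat_lit 1) (nat_lit 4) (nat_lit 337) (nat_lit 222) (nat_lit 161)) (XT.lf (nat_lit 0) (nat_lit 369539713616) (nat_lit 152) (nat_lit 1745450656092) (nat_lit 0) (nat_lit 365726075948) (nat_lit 1) (nat_lit 5) (nat_lit 3) (nat_lit 4) (nat_lit 1) (nat_lit 4) (nat_lit 338) (nat_lit 222) (nat_lit 160)))))) (XT.nd (nat_lit 32682) (nat_lit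 0) (nat_lit 228) (XT.nd (nat_lit 32448) (nat_lit 0) (nat_lit 380) (XT.nd (nat_lit 78) (nat_lit 0) (nat_lit 0) (XT.lf (nat_lit 0) (nat_lit 400392184212) (nat_lit 152) (nat_lit 1882075622305) (nat_lit 0) (nat_lit 396576134276) (nat_lit 1) (nat_lit 5) (nat_lit 3) (nat_lit 4) (nat_lit 1) (nat_lit 4) (nat_lit 339) (nat_lit 222) (nat_lit 159)) (XT.nd (nat_lit 78) (nat_lit 0) (nat_lit 0) (XT.lf (nat_lit 0) (nat_lit 433710954394) (nat_lit 152) (nat_lit 2029634164565) (nat_lit 0) (nat_lit 429892670876) (nat_lit 1) (nat_lit 5) (nat_lit 3) (nat_lit 4) (nat_lit 1) (nat_lit 4) (nat_lit 340) (nat_lit 222) (nat_lit 158)) (XT.lf (nat_lit 0) (nat_lit 469693468727) (nat_lit 152) (nat_lit 2189000703864) (nat_lit 0) (nat_lit 465873117077) (nat_lit 1) (nat_lit 5) (nat_lit 3) (nat_lit 4) (nat_lit 1) (nat_lit 4) (nat_lit 341) (nat_lit 222) (nat_lit 157)))) (XT.nd (nat_lit 78) (nat_lit 76) (nat_lit 0) (XT.lf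 (nat_lit 0) (nat_lit 4553007772) (nat_lit 152) (nat_lit 1381285153) (nat_lit 0) (nat_lit 4553007772) (nat_lit 7) (nat_lit 5) (nat_lit 9) (nat_lit 4) (nat_lit 7) (nat_lit 4) (nat_lit 274) (nat_lit 223) (nat_lit 223)) (XT.nd (nat_lit 78) (nat_lit 0) (nat_lit 0) (XT.lf (nat_lit 0) (nat_lit 3936331784) (nat_lit 76) (nat_lit 9379088145) (nat_lit 76) (nat_lit 9020191224) (nat_lit 6) (nat_lit 4) (nat_lit 7) (nat_lit 5) (nat_lit 7) (nat_lit 4) (nat_lit 275) (nat_lit 223) (nat_lit 222)) (XT.lf (nat_lit 0) (nat_lit 10983197345) (nat_lit 76) (nat_lit 6761609654) (nat_lit 76) (nat_lit 6070400768) (nat_lit 6) (nat_lit 4) (nat_lit 7) (nat_lit 5) (nat_lit 7) (nat_lit 4) (nat_lit 276) (nat_lit 223) (nat_lit 221))))) (XT.nd (nat_lit 234) (nat_lit 0) (nat_lit 0) (XT.nd (nat_lit 78) (nat_lit 152) (nat_lit 0) (XT.lf (nat_lit 0) (nat_lit 18274313521) (nat_lit 76) (nat_lit 4076172962) (nat_lit 76) (nat_lit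 3077267813) (nat_lit 6) (nat_lit 4) (nat_lit 7) (nat_lit 5) (nat_lit 7) (nat_lit 4) (nat_lit 277) (nat_lit 223) (nat_lit 220)) (XT.nd (nat_lit 78) (nat_lit 152) (nat_lit 0) (XT.lf (nat_lit 0) (nat_lit 25852886926) (nat_lit 76) (nat_lit 1306864371) (nat_lit 76) (nat_lit 23055275) (nat_lit 6) (nat_lit 4) (nat_lit 7) (nat_lit 5) (nat_lit 7) (nat_lit 4) (nat_lit 278) (nat_lit 223) (nat_lit 219)) (XT.lf (nat_lit 0) (nat_lit 3113706156) (nat_lit 152) (nat_lit 24277622692) (nat_lit 0) (nat_lit 1680734815) (nat_lit 4) (nat_lit 5) (nat_lit 6) (nat_lit 4) (nat_lit 4) (nat_lit 4) (nat_lit 279) (nat_lit 223) (nat_lit 218)))) (XT.nd (nat_lit 156) (nat_lit 0) (nat_lit 0) (XT.nd (nat_lit 78) (nat_lit 0) (nat_lit 0) (XT.lf (nat_lit 0) (nat_lit 6416551007) (nat_lit 152) (nat_lit 19945385708) (nat_lit 0) (nat_lit 4757413727) (nat_lit 4) (nat_lit 5) (nat_lit 6) (nat_lit 4) (nat_lit 4) (nat_lit 4) (nat_lit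 280) (nat_lit 223) (nat_lit 217)) (XT.lf (nat_lit 0) (nat_lit 9840231522) (nat_lit 152) (nat_lit 15530208356) (nat_lit 0) (nat_lit 7971681336) (nat_lit 4) (nat_lit 5) (nat_lit 6) (nat_lit 4) (nat_lit 4) (nat_lit 4) (nat_lit 281) (nat_lit 223) (nat_lit 216))) (XT.nd (nat_lit 78) (nat_lit 0) (nat_lit 0) (XT.lf (nat_lit 0) (nat_lit 13405036180) (nat_lit 152) (nat_lit 11005926623) (nat_lit 0) (nat_lit 11342585154) (nat_lit 4) (nat_lit 5) (nat_lit 6) (nat_lit 4) (nat_lit 4) (nat_lit 4) (nat_lit 282) (nat_lit 223) (nat_lit 215)) (XT.lf (nat_lit 0) (nat_lit 17132089748) (nat_lit 152) (nat_lit 6345729950) (nat_lit 0) (nat_lit 14890100908) (nat_lit 4) (nat_lit 5) (nat_lit 6) (nat_lit 4) (nat_lit 4) (nat_lit 4) (nat_lit 283) (nat_lit 223) (nat_lit 214))))))) (XT.nd (nat_lit 1014) (nat_lit 152) (nat_lit 0) (XT.nd (nat_lit 468) (nat_lit 0) (nat_lit 0) (XT.nd (nat_lit 234) (nat_lit 0) (nat_lit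 0) (XT.nd (nat_lit 78) (nat_lit 76) (nat_lit 0) (XT.lf (nat_lit 0) (nat_lit 21043478469) (nat_lit 152) (nat_lit 1522002357) (nat_lit 0) (nat_lit 18635250912) (nat_lit 4) (nat_lit 5) (nat_lit 6) (nat_lit 4) (nat_lit 4) (nat_lit 4) (nat_lit 284) (nat_lit 223) (nat_lit 213)) (XT.nd (nat_lit 78) (nat_lit 0) (nat_lit 0) (XT.lf (nat_lit 0) (nat_lit 3677820694) (nat_lit 76) (nat_lit 21573011926) (nat_lit 76) (nat_lit 19010859631) (nat_lit 3) (nat_lit 4) (nat_lit 4) (nat_lit 5) (nat_lit 4) (nat_lit 4) (nat_lit 285) (nat_lit 223) (nat_lit 212)) (XT.lf (nat_lit 0) (nat_lit 9191310857) (nat_lit 76) (nat_lit 20542945873) (nat_lit 76) (nat_lit 17838270672) (nat_lit 3) (nat_lit 4) (nat_lit 4) (nat_lit 5) (nat_lit 4) (nat_lit 4) (nat_lit 286) (nat_lit 223) (nat_lit 211)))) (XT.nd (nat_lit 78) (nat_lit 0) (nat_lit 0) (XT.lf (nat_lit 0) (nat_lit 14970994719) (nat_lit 76) (nat_lit 19510792815) (nat_lit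 76) (nat_lit 16674151961) (nat_lit 3) (nat_lit 4) (nat_lit 4) (nat_lit 5) (nat_lit 4) (nat_lit 4) (nat_lit 287) (nat_lit 223) (nat_lit 210)) (XT.nd (nat_lit 78) (nat_lit 0) (nat_lit 0) (XT.lf (nat_lit 0) (nat_lit 21051122258) (nat_lit 76) (nat_lit 18470436289) (nat_lit 76) (nat_lit 15511605015) (nat_lit 3) (nat_lit 4) (nat_lit 4) (nat_lit 5) (nat_lit 4) (nat_lit 4) (nat_lit 288) (nat_lit 223) (nat_lit 209)) (XT.lf (nat_lit 0) (nat_lit 27467723859) (nat_lit 76) (nat_lit 17415711219) (nat_lit 76) (nat_lit 14343740668) (nat_lit 3) (nat_lit 4) (nat_lit 4) (nat_lit 5) (nat_lit 4) (nat_lit 4) (nat_lit 289) (nat_lit 223) (nat_lit 208))))) (XT.nd (nat_lit 234) (nat_lit 0) (nat_lit 0) (XT.nd (nat_lit 78) (nat_lit 0) (nat_lit 0) (XT.lf (nat_lit 0) (nat_lit 34258823829) (nat_lit 76) (nat_lit 16340367382) (nat_lit 76) (nat_lit 13163638241) (nat_lit 3) (nat_lit 4) (nat_lit 4) (nat_lit 5) (nat_lit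 4) (nat_lit 4) (nat_lit 290) (nat_lit 223) (nat_lit 207)) (XT.nd (nat_lit 78) (nat_lit 0) (nat_lit 0) (XT.lf (nat_lit 0) (nat_lit 41464665722) (nat_lit 76) (nat_lit 15238032372) (nat_lit 76) (nat_lit 11964304536) (nat_lit 3) (nat_lit 4) (nat_lit 4) (nat_lit 5) (nat_lit 4) (nat_lit 4) (nat_lit 291) (nat_lit 223) (nat_lit 206)) (XT.lf (nat_lit 0) (nat_lit 49127950824) (nat_lit 76) (nat_lit 14102173832) (nat_lit 76) (nat_lit 10738632390) (nat_lit 3) (nat_lit 4) (nat_lit 4) (nat_lit 5) (nat_lit 4) (nat_lit 4) (nat_lit 292) (nat_lit 223) (nat_lit 205)))) (XT.nd (nat_lit 156) (nat_lit 0) (nat_lit 0) (XT.nd (nat_lit 78) (nat_lit 0) (nat_lit 0) (XT.lf (nat_lit 0) (nat_lit 57294091195) (nat_lit 76) (nat_lit 12926060748) (nat_lit 76) (nat_lit 9479358559) (nat_lit 3) (nat_lit 4) (nat_lit 4) (nat_lit 5) (nat_lit 4) (nat_lit 4) (nat_lit 293) (nat_lit 223) (nat_lit 204)) (XT.lf (nat_lit 0) (nat_lit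 66011478778) (nat_lit 76) (nat_lit 11702723562) (nat_lit 76) (nat_lit 8179020682) (nat_lit 3) (nat_lit 4) (nat_lit 4) (nat_lit 5) (nat_lit 4) (nat_lit 4) (nat_lit 294) (nat_lit 223) (nat_lit 203))) (XT.nd (nat_lit 78) (nat_lit 0) (nat_lit 0) (XT.lf (nat_lit 0) (nat_lit 75331772165) (nat_lit 76) (nat_lit 10424912867) (nat_lit 76) (nat_lit 6829913052) (nat_lit 3) (nat_lit 4) (nat_lit 4) (nat_lit 5) (nat_lit 4) (nat_lit 4) (nat_lit 295) (nat_lit 223) (nat_lit 202)) (XT.lf (nat_lit 0) (nat_lit 85310202726) (nat_lit 76) (nat_lit 9085056454) (nat_lit 76) (nat_lit 5424040956) (nat_lit 3) (nat_lit 4) (nat_lit 4) (nat_lit 5) (nat_lit 4) (nat_lit 4) (nat_lit 296) (nat_lit 223) (nat_lit 201)))))) (XT.nd (nat_lit 468) (nat_lit 0) (nat_lit 0) (XT.nd (nat_lit 234) (nat_lit 152) (nat_lit 0) (XT.nd (nat_lit 78) (nat_lit 0) (nat_lit 0) (XT.lf (nat_lit 0) (nat_lit 96005901900) (nat_lit 76) (nat_lit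 7675214431) (nat_lit 76) (nat_lit 3953073302) (nat_lit 3) (nat_lit 4) (nat_lit 4) (nat_lit 5) (nat_lit 4) (nat_lit 4) (nat_lit 297) (nat_lit 223) (nat_lit 200)) (XT.nd (nat_lit 78) (nat_lit 0) (nat_lit 0) (XT.lf (nat_lit 0) (nat_lit 107482251608) (nat_lit 76) (nat_lit 6187032179) (nat_lit 76) (nat_lit 2408293243) (nat_lit 3) (nat_lit 4) (nat_lit 4) (nat_lit 5) (nat_lit 4) (nat_lit 4) (nat_lit 298) (nat_lit 223) (nat_lit 199)) (XT.lf (nat_lit 0) (nat_lit 119807259849) (nat_lit 76) (nat_lit 4611690840) (nat_lit 76) (nat_lit 780546528) (nat_lit 3) (nat_lit 4) (nat_lit 4) (nat_lit 5) (nat_lit 4) (nat_lit 4) (nat_lit 299) (nat_lit 223) (nat_lit 198)))) (XT.nd (nat_lit 78) (nat_lit 76) (nat_lit 0) (XT.lf (nat_lit 0) (nat_lit 892799509) (nat_lit 152) (nat_lit 2022644829) (nat_lit 76) (nat_lit 132136753478) (nat_lit 2) (nat_lit 5) (nat_lit 4) (nat_lit 5) (nat_lit 3) (nat_lit 4) (nat_lit 300)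 (nat_lit 223) (nat_lit 197)) (XT.nd (nat_lit 78) (nat_lit 0) (nat_lit 0) (XT.lf (nat_lit 0) (nat_lit 1615737674) (nat_lit 76) (nat_lit 1047884751) (nat_lit 152) (nat_lit 143027453435) (nat_lit 1) (nat_lit 5) (nat_lit 2) (nat_lit 5) (nat_lit 3) (nat_lit 4) (nat_lit 301) (nat_lit 223) (nat_lit 196)) (XT.lf (nat_lit 0) (nat_lit 4623423432) (nat_lit 152) (nat_lit 151602880157) (nat_lit 0) (nat_lit 951017830) (nat_lit 1) (nat_lit 5) (nat_lit 3) (nat_lit 4) (nat_lit 1) (nat_lit 4) (nat_lit 302) (nat_lit 223) (nat_lit 195))))) (XT.nd (nat_lit 234) (nat_lit 0) (nat_lit 0) (XT.nd (nat_lit 78) (nat_lit 0) (nat_lit 0) (XT.lf (nat_lit 0) (nat_lit 6736917730) (nat_lit 152) (nat_lit 159816989366) (nat_lit 0) (nat_lit 3028845910) (nat_lit 1) (nat_lit 5) (nat_lit 3) (nat_lit 4) (nat_lit 1) (nat_lit 4) (nat_lit 303) (nat_lit 223) (nat_lit 194)) (XT.nd (nat_lit 78) (nat_lit 0) (nat_lit 0) (XT.lf (nat_lit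 0) (nat_lit 8991428078) (nat_lit 152) (nat_lit 168741140365) (nat_lit 0) (nat_lit 5250331981) (nat_lit 1) (nat_lit 5) (nat_lit 3) (nat_lit 4) (nat_lit 1) (nat_lit 4) (nat_lit 304) (nat_lit 223) (nat_lit 193)) (XT.lf (nat_lit 0) (nat_lit 11400314536) (nat_lit 152) (nat_lit 178428217010) (nat_lit 0) (nat_lit 7628640405) (nat_lit 1) (nat_lit 5) (nat_lit 3) (nat_lit 4) (nat_lit 1) (nat_lit 4) (nat_lit 305) (nat_lit 223) (nat_lit 192)))) (XT.nd (nat_lit 156) (nat_lit 0) (nat_lit 0) (XT.nd (nat_lit 78) (nat_lit 0) (nat_lit 0) (XT.lf (nat_lit 0) (nat_lit 13977851988) (nat_lit 152) (nat_lit 188935624200) (nat_lit 0) (nat_lit 10177864863) (nat_lit 1) (nat_lit 5) (nat_lit 3) (nat_lit 4) (nat_lit 1) (nat_lit 4) (nat_lit 306) (nat_lit 223) (nat_lit 191)) (XT.lf (nat_lit 0) (nat_lit 16739314729) (nat_lit 152) (nat_lit 200325628052) (nat_lit 0) (nat_lit 12913111869) (nat_lit 1) (nat_lit 5) (nat_lit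 3) (nat_lit 4) (nat_lit 1) (nat_lit 4) (nat_lit 307) (nat_lit 223) (nat_lit 190))) (XT.nd (nat_lit 78) (nat_lit 0) (nat_lit 0) (XT.lf (nat_lit 0) (nat_lit 19701066984) (nat_lit 152) (nat_lit 212665724885) (nat_lit 0) (nat_lit 15850590294) (nat_lit 1) (nat_lit 5) (nat_lit 3) (nat_lit 4) (nat_lit 1) (nat_lit 4) (nat_lit 308) (nat_lit 223) (nat_lit 189)) (XT.lf (nat_lit 0) (nat_lit 22880659876) (nat_lit 152) (nat_lit 226029041199) (nat_lit 0) (nat_lit 19007707418) (nat_lit 1) (nat_lit 5) (nat_lit 3) (nat_lit 4) (nat_lit 1) (nat_lit 4) (nat_lit 309) (nat_lit 223) (nat_lit 188))))))))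
noncomputable def xc23 : XT := (XT.nd (nat_lit 2028) (nat_lit 0) (nat_lit 0) (XT.nd (nat_lit 1014) (nat_lit 0) (nat_lit 0) (XT.nd (nat_lit 468) (nat_lit 0) (nat_lit 0) (XT.nd (nat_lit 234) (nat_lit 0) (nat_lit 0) (XT.nd (nat_lit 78) (nat_lit 0) (nat_lit 0) (XT.lf (nat_lit 0) (nat_lit 26296935438) (nat_lit 152) (nat_lit 240494767016) (nat_lit 0) (nat_lit 22403172084) (nat_lit 1) (nat_lit 5) (nat_lit 3) (nat_lit 4) (nat_lit 1) (nat_lit 4) (nat_lit 310) (nat_lit 223) (nat_lit 187)) (XT.nd (nat_lit 78) (nat_lit 0) (nat_lit 0) (XT.lf (nat_lit 0) (nat_lit 29970138265) (nat_lit 152) (nat_lit 256148625156) (nat_lit 0) (nat_lit 26057105563) (nat_lit 1) (nat_lit 5) (nat_lit 3) (nat_lit 4) (nat_lit 1) (nat_lit 4) (nat_lit 311) (nat_lit 223) (nat_lit 186)) (XT.lf (nat_lit 0) (nat_lit 33922035486) (nat_lit 152) (nat_lit 273083379223) (nat_lit 0) (nat_lit 29991160794) (nat_lit 1) (nat_lit 5) (nat_lit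 3) (nat_lit 4) (nat_lit 1) (nat_lit 4) (nat_lit 312) (nat_lit 223) (nat_lit 185)))) (XT.nd (nat_lit 78) (nat_lit 0) (nat_lit 0) (XT.lf (nat_lit 0) (nat_lit 38176045750) (nat_lit 152) (nat_lit 291399383316) (nat_lit 0) (nat_lit 34228650698) (nat_lit 1) (nat_lit 5) (nat_lit 3) (nat_lit 4) (nat_lit 1) (nat_lit 4) (nat_lit 313) (nat_lit 223) (nat_lit 184)) (XT.nd (nat_lit 78) (nat_lit 0) (nat_lit 0) (XT.lf (nat_lit 0) (nat_lit 42757378007) (nat_lit 152) (nat_lit 311205176716) (nat_lit 0) (nat_lit 38794686326) (nat_lit 1) (nat_lit 5) (nat_lit 3) (nat_lit 4) (nat_lit 1) (nat_lit 4) (nat_lit 314) (nat_lit 223) (nat_lit 183)) (XT.lf (nat_lit 0) (nat_lit 47693180893) (nat_lit 152) (nat_lit 332618127090) (nat_lit 0) (nat_lit 43716325666) (nat_lit 1) (nat_lit 5) (nat_lit 3) (nat_lit 4) (nat_lit 1) (nat_lit 4) (nat_lit 315) (nat_lit 223) (nat_lit 182))))) (XT.nd (nat_lit 234) (nat_lit 0) (nat_lit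 0) (XT.nd (nat_lit 78) (nat_lit 0) (nat_lit 0) (XT.lf (nat_lit 0) (nat_lit 53012703610) (nat_lit 152) (nat_lit 355765125995) (nat_lit 0) (nat_lit 49022733988) (nat_lit 1) (nat_lit 5) (nat_lit 3) (nat_lit 4) (nat_lit 1) (nat_lit 4) (nat_lit 316) (nat_lit 223) (nat_lit 181)) (XT.nd (nat_lit 78) (nat_lit 0) (nat_lit 0) (XT.lf (nat_lit 0) (nat_lit 58747469256) (nat_lit 152) (nat_lit 380783340831) (nat_lit 0) (nat_lit 54745356676) (nat_lit 1) (nat_lit 5) (nat_lit 3) (nat_lit 4) (nat_lit 1) (nat_lit 4) (nat_lit 317) (nat_lit 223) (nat_lit 180)) (XT.lf (nat_lit 0) (nat_lit 64931461628) (nat_lit 152) (nat_lit 407821027688) (nat_lit 0) (nat_lit 60918105568) (nat_lit 1) (nat_lit 5) (nat_lit 3) (nat_lit 4) (nat_lit 1) (nat_lit 4) (nat_lit 318) (nat_lit 223) (nat_lit 179)))) (XT.nd (nat_lit 156) (nat_lit 0) (nat_lit 0) (XT.nd (nat_lit 78) (nat_lit 0) (nat_lit 0) (XT.lf (nat_lit 0) (nat_lit 71601326605)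 (nat_lit 152) (nat_lit 437038409893) (nat_lit 0) (nat_lit 67577559916) (nat_lit 1) (nat_lit 5) (nat_lit 3) (nat_lit 4) (nat_lit 1) (nat_lit 4) (nat_lit 319) (nat_lit 223) (nat_lit 178)) (XT.lf (nat_lit 0) (nat_lit 78796589313) (nat_lit 152) (nat_lit 468608627491) (nat_lit 0) (nat_lit 74763183153) (nat_lit 1) (nat_lit 5) (nat_lit 3) (nat_lit 4) (nat_lit 1) (nat_lit 4) (nat_lit 320) (nat_lit 223) (nat_lit 177))) (XT.nd (nat_lit 78) (nat_lit 0) (nat_lit 0) (XT.lf (nat_lit 0) (nat_lit 86559888348) (nat_lit 152) (nat_lit 502718763251) (nat_lit 0) (nat_lit 82517556751) (nat_lit 1) (nat_lit 5) (nat_lit 3) (nat_lit 4) (nat_lit 1) (nat_lit 4) (nat_lit 321) (nat_lit 223) (nat_lit 176)) (XT.lf (nat_lit 0) (nat_lit 94937228442) (nat_lit 152) (nat_lit 539570951312) (nat_lit 0) (nat_lit 90886632552) (nat_lit 1) (nat_lit 5) (nat_lit 3) (nat_lit 4) (nat_lit 1) (nat_lit 4) (nat_lit 322) (nat_lit 223)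 (nat_lit 175)))))) (XT.nd (nat_lit 468) (nat_lit 0) (nat_lit 0) (XT.nd (nat_lit 234) (nat_lit 0) (nat_lit 0) (XT.nd (nat_lit 78) (nat_lit 0) (nat_lit 0) (XT.lf (nat_lit 0) (nat_lit 103978253094) (nat_lit 152) (nat_lit 579383575011) (nat_lit 0) (nat_lit 99920005081) (nat_lit 1) (nat_lit 5) (nat_lit 3) (nat_lit 4) (nat_lit 1) (nat_lit 4) (nat_lit 323) (nat_lit 223) (nat_lit 174)) (XT.nd (nat_lit 78) (nat_lit 0) (nat_lit 0) (XT.lf (nat_lit 0) (nat_lit 113736538746) (nat_lit 152) (nat_lit 622392561006) (nat_lit 0) (nat_lit 109671205433) (nat_lit 1) (nat_lit 5) (nat_lit 3) (nat_lit 4) (nat_lit 1) (nat_lit 4) (nat_lit 324) (nat_lit 223) (nat_lit 173)) (XT.lf (nat_lit 0) (nat_lit 124269912275) (nat_lit 152) (nat_lit 668852777362) (nat_lit 0) (nat_lit 120198018500) (nat_lit 1) (nat_lit 5) (nat_lit 3) (nat_lit 4) (nat_lit 1) (nat_lit 4) (nat_lit 325) (nat_lit 223) (nat_lit 172)))) (XT.nd (nat_lit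 78) (nat_lit 0) (nat_lit 0) (XT.lf (nat_lit 0) (nat_lit 135640793674) (nat_lit 152) (nat_lit 719039543881) (nat_lit 0) (nat_lit 131562825397) (nat_lit 1) (nat_lit 5) (nat_lit 3) (nat_lit 4) (nat_lit 1) (nat_lit 4) (nat_lit 326) (nat_lit 223) (nat_lit 171)) (XT.nd (nat_lit 78) (nat_lit 0) (nat_lit 0) (XT.lf (nat_lit 0) (nat_lit 147916565942) (nat_lit 152) (nat_lit 773250263622) (nat_lit 0) (nat_lit 143832973126) (nat_lit 1) (nat_lit 5) (nat_lit 3) (nat_lit 4) (nat_lit 1) (nat_lit 4) (nat_lit 327) (nat_lit 223) (nat_lit 170)) (XT.lf (nat_lit 0) (nat_lit 161169974397) (nat_lit 152) (nat_lit 831806185296) (nat_lit 0) (nat_lit 157081173675) (nat_lit 1) (nat_lit 5) (nat_lit 3) (nat_lit 4) (nat_lit 1) (nat_lit 4) (nat_lit 328) (nat_lit 223) (nat_lit 169))))) (XT.nd (nat_lit 234) (nat_lit 0) (nat_lit 0) (XT.nd (nat_lit 78) (nat_lit 0) (nat_lit 0) (XT.lf (nat_lit 0) (nat_lit 175479557756) (nat_lit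 152) (nat_lit 895054306957) (nat_lit 0) (nat_lit 171385934898) (nat_lit 1) (nat_lit 5) (nat_lit 3) (nat_lit 4) (nat_lit 1) (nat_lit 4) (nat_lit 329) (nat_lit 223) (nat_lit 168)) (XT.nd (nat_lit 78) (nat_lit 0) (nat_lit 0) (XT.lf (nat_lit 0) (nat_lit 190930113550) (nat_lit 152) (nat_lit 963369432289) (nat_lit 0) (nat_lit 186832025751) (nat_lit 1) (nat_lit 5) (nat_lit 3) (nat_lit 4) (nat_lit 1) (nat_lit 4) (nat_lit 330) (nat_lit 223) (nat_lit 167)) (XT.lf (nat_lit 0) (nat_lit 207613200628) (nat_lit 152) (nat_lit 1037156391664) (nat_lit 0) (nat_lit 203510978625) (nat_lit 1) (nat_lit 5) (nat_lit 3) (nat_lit 4) (nat_lit 1) (nat_lit 4) (nat_lit 331) (nat_lit 223) (nat_lit 166)))) (XT.nd (nat_lit 156) (nat_lit 0) (nat_lit 0) (XT.nd (nat_lit 78) (nat_lit 0) (nat_lit 0) (XT.lf (nat_lit 0) (nat_lit 225627681728) (nat_lit 152) (nat_lit 1116852441138) (nat_lit 0) (nat_lit 221521631758) (nat_lit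 1) (nat_lit 5) (nat_lit 3) (nat_lit 4) (nat_lit 1) (nat_lit 4) (nat_lit 332) (nat_lit 223) (nat_lit 165)) (XT.lf (nat_lit 0) (nat_lit 245080309331) (nat_lit 152) (nat_lit 1202929853596) (nat_lit 0) (nat_lit 240970714947) (nat_lit 1) (nat_lit 5) (nat_lit 3) (nat_lit 4) (nat_lit 1) (nat_lit 4) (nat_lit 333) (nat_lit 223) (nat_lit 164))) (XT.nd (nat_lit 78) (nat_lit 0) (nat_lit 0) (XT.lf (nat_lit 0) (nat_lit 266086358266) (nat_lit 152) (nat_lit 1295898717409) (nat_lit 0) (nat_lit 261973482018) (nat_lit 1) (nat_lit 5) (nat_lit 3) (nat_lit 4) (nat_lit 1) (nat_lit 4) (nat_lit 334) (nat_lit 223) (nat_lit 163)) (XT.lf (nat_lit 0) (nat_lit 288770308825) (nat_lit 152) (nat_lit 1396309959177) (nat_lit 0) (nat_lit 284654393813) (nat_lit 1) (nat_lit 5) (nat_lit 3) (nat_lit 4) (nat_lit 1) (nat_lit 4) (nat_lit 335) (nat_lit 223) (nat_lit 162))))))) (XT.nd (nat_lit 33072) (nat_lit 0) (nat_lit 152)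 (XT.nd (nat_lit 32526) (nat_lit 0) (nat_lit 380) (XT.nd (nat_lit 234) (nat_lit 0) (nat_lit 0) (XT.nd (nat_lit 78) (nat_lit 0) (nat_lit 0) (XT.lf (nat_lit 0) (nat_lit 313266584417) (nat_lit 152) (nat_lit 1504758608481) (nat_lit 0) (nat_lit 309147855736) (nat_lit 1) (nat_lit 5) (nat_lit 3) (nat_lit 4) (nat_lit 1) (nat_lit 4) (nat_lit 336) (nat_lit 223) (nat_lit 161)) (XT.nd (nat_lit 78) (nat_lit 0) (nat_lit 0) (XT.lf (nat_lit 0) (nat_lit 339720348158) (nat_lit 152) (nat_lit 1621887323983) (nat_lit 0) (nat_lit 335599014227) (nat_lit 1) (nat_lit 5) (nat_lit 3) (nat_lit 4) (nat_lit 1) (nat_lit 4) (nat_lit 337) (nat_lit 223) (nat_lit 160)) (XT.lf (nat_lit 0) (nat_lit 368288363091) (nat_lit 152) (nat_lit 1748390201776) (nat_lit 0) (nat_lit 364164616891) (nat_lit 1) (nat_lit 5) (nat_lit 3) (nat_lit 4) (nat_lit 1) (nat_lit 4) (nat_lit 338) (nat_lit 223) (nat_lit 159)))) (XT.nd (nat_lit 78)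 (nat_lit 0) (nat_lit 0) (XT.lf (nat_lit 0) (nat_lit 399139921158) (nat_lit 152) (nat_lit 1885016888542) (nat_lit 0) (nat_lit 395013941376) (nat_lit 1) (nat_lit 5) (nat_lit 3) (nat_lit 4) (nat_lit 1) (nat_lit 4) (nat_lit 339) (nat_lit 223) (nat_lit 158)) (XT.nd (nat_lit 78) (nat_lit 0) (nat_lit 0) (XT.lf (nat_lit 0) (nat_lit 432457846405) (nat_lit 152) (nat_lit 2032577023907) (nat_lit 0) (nat_lit 428329798492) (nat_lit 1) (nat_lit 5) (nat_lit 3) (nat_lit 4) (nat_lit 1) (nat_lit 4) (nat_lit 340) (nat_lit 223) (nat_lit 157)) (XT.lf (nat_lit 0) (nat_lit 468439578390) (nat_lit 152) (nat_lit 2191945038302) (nat_lit 0) (nat_lit 464309615541) (nat_lit 1) (nat_lit 5) (nat_lit 3) (nat_lit 4) (nat_lit 1) (nat_lit 4) (nat_lit 341) (nat_lit 223) (nat_lit 156))))) (XT.nd (nat_lit 234) (nat_lit 76) (nat_lit 0) (XT.nd (nat_lit 78) (nat_lit 0) (nat_lit 0) (XT.lf (nat_lit 0) (nat_lit 853020719) (nat_lit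 152) (nat_lit 7579428547) (nat_lit 0) (nat_lit 853020719) (nat_lit 7) (nat_lit 5) (nat_lit 9) (nat_lit 4) (nat_lit 7) (nat_lit 4) (nat_lit 272) (nat_lit 224) (nat_lit 224)) (XT.nd (nat_lit 78) (nat_lit 0) (nat_lit 0) (XT.lf (nat_lit 0) (nat_lit 5499679362) (nat_lit 152) (nat_lit 9110729487) (nat_lit 0) (nat_lit 5112070687) (nat_lit 7) (nat_lit 5) (nat_lit 9) (nat_lit 4) (nat_lit 7) (nat_lit 4) (nat_lit 273) (nat_lit 224) (nat_lit 223)) (XT.lf (nat_lit 0) (nat_lit 9398083386) (nat_lit 152) (nat_lit 2932772749) (nat_lit 0) (nat_lit 8651577789) (nat_lit 7) (nat_lit 5) (nat_lit 9) (nat_lit 4) (nat_lit 7) (nat_lit 4) (nat_lit 274) (nat_lit 224) (nat_lit 222)))) (XT.nd (nat_lit 156) (nat_lit 0) (nat_lit 0) (XT.nd (nat_lit 78) (nat_lit 0) (nat_lit 0) (XT.lf (nat_lit 0) (nat_lit 3591273264) (nat_lit 76) (nat_lit 9919452106) (nat_lit 76) (nat_lit 8840634545) (nat_lit 6) (nat_lit 4) (nat_lit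 7) (nat_lit 5) (nat_lit 7) (nat_lit 4) (nat_lit 275) (nat_lit 224) (nat_lit 221)) (XT.lf (nat_lit 0) (nat_lit 10484533714) (nat_lit 76) (nat_lit 7369973652) (nat_lit 76) (nat_lit 5983459828) (nat_lit 6) (nat_lit 4) (nat_lit 7) (nat_lit 5) (nat_lit 7) (nat_lit 4) (nat_lit 276) (nat_lit 224) (nat_lit 220))) (XT.nd (nat_lit 78) (nat_lit 0) (nat_lit 0) (XT.lf (nat_lit 0) (nat_lit 17633422936) (nat_lit 76) (nat_lit 4747499959) (nat_lit 76) (nat_lit 3076082187) (nat_lit 6) (nat_lit 4) (nat_lit 7) (nat_lit 5) (nat_lit 7) (nat_lit 4) (nat_lit 277) (nat_lit 224) (nat_lit 219)) (XT.lf (nat_lit 0) (nat_lit 25080304716) (nat_lit 76) (nat_lit 2036490441) (nat_lit 76) (nat_lit 101272717) (nat_lit 6) (nat_lit 4) (nat_lit 7) (nat_lit 5) (nat_lit 7) (nat_lit 4) (nat_lit 278) (nat_lit 224) (nat_lit 218)))))) (XT.nd (nat_lit 468) (nat_lit 76) (nat_lit 0) (XT.nd (nat_lit 234) (nat_lit 0) (nat_lit 0) (XT.nd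 (nat_lit 78) (nat_lit 0) (nat_lit 0) (XT.lf (nat_lit 0) (nat_lit 2926417495) (nat_lit 152) (nat_lit 25281832652) (nat_lit 0) (nat_lit 908383293) (nat_lit 4) (nat_lit 5) (nat_lit 6) (nat_lit 4) (nat_lit 4) (nat_lit 4) (nat_lit 279) (nat_lit 224) (nat_lit 217)) (XT.nd (nat_lit 78) (nat_lit 0) (nat_lit 0) (XT.lf (nat_lit 0) (nat_lit 6160323921) (nat_lit 152) (nat_lit 21076344991) (nat_lit 0) (nat_lit 3932876813) (nat_lit 4) (nat_lit 5) (nat_lit 6) (nat_lit 4) (nat_lit 4) (nat_lit 4) (nat_lit 280) (nat_lit 224) (nat_lit 216)) (XT.lf (nat_lit 0) (nat_lit 9520172562) (nat_lit 152) (nat_lit 16778528123) (nat_lit 0) (nat_lit 7098824615) (nat_lit 4) (nat_lit 5) (nat_lit 6) (nat_lit 4) (nat_lit 4) (nat_lit 4) (nat_lit 281) (nat_lit 224) (nat_lit 215)))) (XT.nd (nat_lit 78) (nat_lit 0) (nat_lit 0) (XT.lf (nat_lit 0) (nat_lit 13025873632) (nat_lit 152) (nat_lit 12362913504) (nat_lit 0) (nat_lit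 10424987870) (nat_lit 4) (nat_lit 5) (nat_lit 6) (nat_lit 4) (nat_lit 4) (nat_lit 4) (nat_lit 282) (nat_lit 224) (nat_lit 214)) (XT.nd (nat_lit 78) (nat_lit 0) (nat_lit 0) (XT.lf (nat_lit 0) (nat_lit 16698201656) (nat_lit 152) (nat_lit 7803334530) (nat_lit 0) (nat_lit 13931077177) (nat_lit 4) (nat_lit 5) (nat_lit 6) (nat_lit 4) (nat_lit 4) (nat_lit 4) (nat_lit 283) (nat_lit 224) (nat_lit 213)) (XT.lf (nat_lit 0) (nat_lit 20558918577) (nat_lit 152) (nat_lit 3072771473) (nat_lit 0) (nat_lit 17637869360) (nat_lit 4) (nat_lit 5) (nat_lit 6) (nat_lit 4) (nat_lit 4) (nat_lit 4) (nat_lit 284) (nat_lit 224) (nat_lit 212))))) (XT.nd (nat_lit 234) (nat_lit 0) (nat_lit 0) (XT.nd (nat_lit 78) (nat_lit 0) (nat_lit 0) (XT.lf (nat_lit 0) (nat_lit 1954584884) (nat_lit 76) (nat_lit 22723325648) (nat_lit 76) (nat_lit 19659753526) (nat_lit 3) (nat_lit 4) (nat_lit 4) (nat_lit 5) (nat_lit 4) (nat_lit 4)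 (nat_lit 285) (nat_lit 224) (nat_lit 211)) (XT.nd (nat_lit 78) (nat_lit 0) (nat_lit 0) (XT.lf (nat_lit 0) (nat_lit 7383995473) (nat_lit 76) (nat_lit 21731874152) (nat_lit 76) (nat_lit 18536336377) (nat_lit 3) (nat_lit 4) (nat_lit 4) (nat_lit 5) (nat_lit 4) (nat_lit 4) (nat_lit 286) (nat_lit 224) (nat_lit 210)) (XT.lf (nat_lit 0) (nat_lit 13085827877) (nat_lit 76) (nat_lit 20735475313) (nat_lit 76) (nat_lit 17417747118) (nat_lit 3) (nat_lit 4) (nat_lit 4) (nat_lit 5) (nat_lit 4) (nat_lit 4) (nat_lit 287) (nat_lit 224) (nat_lit 209)))) (XT.nd (nat_lit 156) (nat_lit 0) (nat_lit 0) (XT.nd (nat_lit 78) (nat_lit 0) (nat_lit 0) (XT.lf (nat_lit 0) (nat_lit 19093870733) (nat_lit 76) (nat_lit 19728224546) (nat_lit 76) (nat_lit 16297357074) (nat_lit 3) (nat_lit 4) (nat_lit 4) (nat_lit 5) (nat_lit 4) (nat_lit 4) (nat_lit 288) (nat_lit 224) (nat_lit 208)) (XT.lf (nat_lit 0) (nat_lit 25443727257)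 (nat_lit 76) (nat_lit 18704152956) (nat_lit 76) (nat_lit 15168526894) (nat_lit 3) (nat_lit 4) (nat_lit 4) (nat_lit 5) (nat_lit 4) (nat_lit 4) (nat_lit 289) (nat_lit 224) (nat_lit 207))) (XT.nd (nat_lit 78) (nat_lit 0) (nat_lit 0) (XT.lf (nat_lit 0) (nat_lit 32173026230) (nat_lit 76) (nat_lit 17657191972) (nat_lit 76) (nat_lit 14024567215) (nat_lit 3) (nat_lit 4) (nat_lit 4) (nat_lit 5) (nat_lit 4) (nat_lit 4) (nat_lit 290) (nat_lit 224) (nat_lit 206)) (XT.lf (nat_lit 0) (nat_lit 39321644978) (nat_lit 76) (nat_lit 16581137381) (nat_lit 76) (nat_lit 12858699017) (nat_lit 3) (nat_lit 4) (nat_lit 4) (nat_lit 5) (nat_lit 4) (nat_lit 4) (nat_lit 291) (nat_lit 224) (nat_lit 205))))))))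
noncomputable def xc24 : XT := (XT.nd (nat_lit 1950) (nat_lit 0) (nat_lit 0) (XT.nd (nat_lit 936) (nat_lit 0) (nat_lit 0) (XT.nd (nat_lit 468) (nat_lit 152) (nat_lit 0) (XT.nd (nat_lit 234) (nat_lit 0) (nat_lit 0) (XT.nd (nat_lit 78) (nat_lit 0) (nat_lit 0) (XT.lf (nat_lit 0) (nat_lit 46931945686) (nat_lit 76) (nat_lit 15469612561) (nat_lit 76) (nat_lit 11664013452) (nat_lit 3) (nat_lit 4) (nat_lit 4) (nat_lit 5) (nat_lit 4) (nat_lit 4) (nat_lit 292) (nat_lit 224) (nat_lit 204)) (XT.nd (nat_lit 78) (nat_lit 0) (nat_lit 0) (XT.lf (nat_lit 0) (nat_lit 55049026433) (nat_lit 76) (nat_lit 14316030701) (nat_lit 76) (nat_lit 10433430900) (nat_lit 3) (nat_lit 4) (nat_lit 4) (nat_lit 5) (nat_lit 4) (nat_lit 4) (nat_lit 293) (nat_lit 224) (nat_lit 203)) (XT.lf (nat_lit 0) (nat_lit 63720988438) (nat_lit 76) (nat_lit 13113555758) (nat_lit 76) (nat_lit 9159659021) (nat_lit 3) (nat_lit 4) (nat_lit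 4) (nat_lit 5) (nat_lit 4) (nat_lit 4) (nat_lit 294) (nat_lit 224) (nat_lit 202)))) (XT.nd (nat_lit 78) (nat_lit 0) (nat_lit 0) (XT.lf (nat_lit 0) (nat_lit 72999221105) (nat_lit 76) (nat_lit 11855061956) (nat_lit 76) (nat_lit 7835149537) (nat_lit 3) (nat_lit 4) (nat_lit 4) (nat_lit 5) (nat_lit 4) (nat_lit 4) (nat_lit 295) (nat_lit 224) (nat_lit 201)) (XT.nd (nat_lit 78) (nat_lit 0) (nat_lit 0) (XT.lf (nat_lit 0) (nat_lit 82938706554) (nat_lit 76) (nat_lit 10533091554) (nat_lit 76) (nat_lit 6452053504) (nat_lit 3) (nat_lit 4) (nat_lit 4) (nat_lit 5) (nat_lit 4) (nat_lit 4) (nat_lit 296) (nat_lit 224) (nat_lit 200)) (XT.lf (nat_lit 0) (nat_lit 93598345440) (nat_lit 76) (nat_lit 9139810653) (nat_lit 76) (nat_lit 5002174796) (nat_lit 3) (nat_lit 4) (nat_lit 4) (nat_lit 5) (nat_lit 4) (nat_lit 4) (nat_lit 297) (nat_lit 224) (nat_lit 199))))) (XT.nd (nat_lit 234) (nat_lit 152) (nat_lit 0)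 (XT.nd (nat_lit 78) (nat_lit 0) (nat_lit 0) (XT.lf (nat_lit 0) (nat_lit 105041305992) (nat_lit 76) (nat_lit 7666962773) (nat_lit 76) (nat_lit 3476921539) (nat_lit 3) (nat_lit 4) (nat_lit 4) (nat_lit 5) (nat_lit 4) (nat_lit 4) (nat_lit 298) (nat_lit 224) (nat_lit 198)) (XT.nd (nat_lit 78) (nat_lit 0) (nat_lit 0) (XT.lf (nat_lit 0) (nat_lit 117335398348) (nat_lit 76) (nat_lit 6105819927) (nat_lit 76) (nat_lit 1867255196) (nat_lit 3) (nat_lit 4) (nat_lit 4) (nat_lit 5) (nat_lit 4) (nat_lit 4) (nat_lit 299) (nat_lit 224) (nat_lit 197)) (XT.lf (nat_lit 0) (nat_lit 130553476388) (nat_lit 76) (nat_lit 4447130898) (nat_lit 76) (nat_lit 163637004) (nat_lit 3) (nat_lit 4) (nat_lit 4) (nat_lit 5) (nat_lit 4) (nat_lit 4) (nat_lit 300) (nat_lit 224) (nat_lit 196)))) (XT.nd (nat_lit 78) (nat_lit 76) (nat_lit 0) (XT.lf (nat_lit 0) (nat_lit 1561787586) (nat_lit 152) (nat_lit 1076576791) (nat_lit 76)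 (nat_lit 143169379837) (nat_lit 2) (nat_lit 5) (nat_lit 4) (nat_lit 5) (nat_lit 3) (nat_lit 4) (nat_lit 301) (nat_lit 224) (nat_lit 195)) (XT.nd (nat_lit 78) (nat_lit 0) (nat_lit 0) (XT.lf (nat_lit 0) (nat_lit 2824828727) (nat_lit 76) (nat_lit 631153587) (nat_lit 152) (nat_lit 153843274769) (nat_lit 1) (nat_lit 5) (nat_lit 2) (nat_lit 5) (nat_lit 3) (nat_lit 4) (nat_lit 302) (nat_lit 224) (nat_lit 194)) (XT.lf (nat_lit 0) (nat_lit 5540805289) (nat_lit 152) (nat_lit 162698797275) (nat_lit 0) (nat_lit 1467397227) (nat_lit 1) (nat_lit 5) (nat_lit 3) (nat_lit 4) (nat_lit 1) (nat_lit 4) (nat_lit 303) (nat_lit 224) (nat_lit 193)))))) (XT.nd (nat_lit 468) (nat_lit 0) (nat_lit 0) (XT.nd (nat_lit 234) (nat_lit 0) (nat_lit 0) (XT.nd (nat_lit 78) (nat_lit 0) (nat_lit 0) (XT.lf (nat_lit 0) (nat_lit 7782822984) (nat_lit 152) (nat_lit 171646502872) (nat_lit 0) (nat_lit 3678836889) (nat_lit 1) (nat_lit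 5) (nat_lit 3) (nat_lit 4) (nat_lit 1) (nat_lit 4) (nat_lit 304) (nat_lit 224) (nat_lit 192)) (XT.nd (nat_lit 78) (nat_lit 0) (nat_lit 0) (XT.lf (nat_lit 0) (nat_lit 10180142172) (nat_lit 152) (nat_lit 181355389332) (nat_lit 0) (nat_lit 6047843082) (nat_lit 1) (nat_lit 5) (nat_lit 3) (nat_lit 4) (nat_lit 1) (nat_lit 4) (nat_lit 305) (nat_lit 224) (nat_lit 191)) (XT.lf (nat_lit 0) (nat_lit 12746969188) (nat_lit 152) (nat_lit 191882990794) (nat_lit 0) (nat_lit 8588454363) (nat_lit 1) (nat_lit 5) (nat_lit 3) (nat_lit 4) (nat_lit 1) (nat_lit 4) (nat_lit 306) (nat_lit 224) (nat_lit 190)))) (XT.nd (nat_lit 78) (nat_lit 0) (nat_lit 0) (XT.lf (nat_lit 0) (nat_lit 15498514859) (nat_lit 152) (nat_lit 203291693047) (nat_lit 0) (nat_lit 11315726205) (nat_lit 1) (nat_lit 5) (nat_lit 3) (nat_lit 4) (nat_lit 1) (nat_lit 4) (nat_lit 307) (nat_lit 224) (nat_lit 189)) (XT.nd (nat_lit 78) (nat_lit 0)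 (nat_lit 0) (XT.lf (nat_lit 0) (nat_lit 18451084641) (nat_lit 152) (nat_lit 215649103213) (nat_lit 0) (nat_lit 14245820219) (nat_lit 1) (nat_lit 5) (nat_lit 3) (nat_lit 4) (nat_lit 1) (nat_lit 4) (nat_lit 308) (nat_lit 224) (nat_lit 188)) (XT.lf (nat_lit 0) (nat_lit 21622175244) (nat_lit 152) (nat_lit 229028450392) (nat_lit 0) (nat_lit 17396099926) (nat_lit 1) (nat_lit 5) (nat_lit 3) (nat_lit 4) (nat_lit 1) (nat_lit 4) (nat_lit 309) (nat_lit 224) (nat_lit 187))))) (XT.nd (nat_lit 234) (nat_lit 0) (nat_lit 0) (XT.nd (nat_lit 78) (nat_lit 0) (nat_lit 0) (XT.lf (nat_lit 0) (nat_lit 25030578315) (nat_lit 152) (nat_lit 243509019602) (nat_lit 0) (nat_lit 20785233649) (nat_lit 1) (nat_lit 5) (nat_lit 3) (nat_lit 4) (nat_lit 1) (nat_lit 4) (nat_lit 310) (nat_lit 224) (nat_lit 186)) (XT.nd (nat_lit 78) (nat_lit 0) (nat_lit 0) (XT.lf (nat_lit 0) (nat_lit 28696491800) (nat_lit 152) (nat_lit 259176621625)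 (nat_lit 0) (nat_lit 24433305144) (nat_lit 1) (nat_lit 5) (nat_lit 3) (nat_lit 4) (nat_lit 1) (nat_lit 4) (nat_lit 311) (nat_lit 224) (nat_lit 185)) (XT.lf (nat_lit 0) (nat_lit 32641639629) (nat_lit 152) (nat_lit 276124101509) (nat_lit 0) (nat_lit 28361932613) (nat_lit 1) (nat_lit 5) (nat_lit 3) (nat_lit 4) (nat_lit 1) (nat_lit 4) (nat_lit 312) (nat_lit 224) (nat_lit 184)))) (XT.nd (nat_lit 156) (nat_lit 0) (nat_lit 0) (XT.nd (nat_lit 78) (nat_lit 0) (nat_lit 0) (XT.lf (nat_lit 0) (nat_lit 36889400457) (nat_lit 152) (nat_lit 294451888765) (nat_lit 0) (nat_lit 32594396811) (nat_lit 1) (nat_lit 5) (nat_lit 3) (nat_lit 4) (nat_lit 1) (nat_lit 4) (nat_lit 313) (nat_lit 224) (nat_lit 183)) (XT.lf (nat_lit 0) (nat_lit 41464946199) (nat_lit 152) (nat_lit 314268592503) (nat_lit 0) (nat_lit 37155779007) (nat_lit 1) (nat_lit 5) (nat_lit 3) (nat_lit 4) (nat_lit 1) (nat_lit 4) (nat_lit 314) (nat_lit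 224) (nat_lit 182))) (XT.nd (nat_lit 78) (nat_lit 0) (nat_lit 0) (XT.lf (nat_lit 0) (nat_lit 46395391200) (nat_lit 152) (nat_lit 335691645041) (nat_lit 0) (nat_lit 42073109614) (nat_lit 1) (nat_lit 5) (nat_lit 3) (nat_lit 4) (nat_lit 1) (nat_lit 4) (nat_lit 315) (nat_lit 224) (nat_lit 181)) (XT.lf (nat_lit 0) (nat_lit 51709952913) (nat_lit 152) (nat_lit 358847997801) (nat_lit 0) (nat_lit 47375528369) (nat_lit 1) (nat_lit 5) (nat_lit 3) (nat_lit 4) (nat_lit 1) (nat_lit 4) (nat_lit 316) (nat_lit 224) (nat_lit 180))))))) (XT.nd (nat_lit 1014) (nat_lit 0) (nat_lit 0) (XT.nd (nat_lit 468) (nat_lit 0) (nat_lit 0) (XT.nd (nat_lit 234) (nat_lit 0) (nat_lit 0) (XT.nd (nat_lit 78) (nat_lit 0) (nat_lit 0) (XT.lf (nat_lit 0) (nat_lit 57440125037) (nat_lit 152) (nat_lit 383874873615) (nat_lit 0) (nat_lit 53094457013) (nat_lit 1) (nat_lit 5) (nat_lit 3) (nat_lit 4) (nat_lit 1) (nat_lit 4) (nat_lit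 317) (nat_lit 224) (nat_lit 179)) (XT.nd (nat_lit 78) (nat_lit 0) (nat_lit 0) (XT.lf (nat_lit 0) (nat_lit 63619864147) (nat_lit 152) (nat_lit 410920579895) (nat_lit 0) (nat_lit 59263785494) (nat_lit 1) (nat_lit 5) (nat_lit 3) (nat_lit 4) (nat_lit 1) (nat_lit 4) (nat_lit 318) (nat_lit 224) (nat_lit 178)) (XT.lf (nat_lit 0) (nat_lit 70285790919) (nat_lit 152) (nat_lit 440145387492) (nat_lit 0) (nat_lit 65920072794) (nat_lit 1) (nat_lit 5) (nat_lit 3) (nat_lit 4) (nat_lit 1) (nat_lit 4) (nat_lit 319) (nat_lit 224) (nat_lit 177)))) (XT.nd (nat_lit 78) (nat_lit 0) (nat_lit 0) (XT.lf (nat_lit 0) (nat_lit 77477407141) (nat_lit 152) (nat_lit 471722480453) (nat_lit 0) (nat_lit 73102763580) (nat_lit 1) (nat_lit 5) (nat_lit 3) (nat_lit 4) (nat_lit 1) (nat_lit 4) (nat_lit 320) (nat_lit 224) (nat_lit 176)) (XT.nd (nat_lit 78) (nat_lit 0) (nat_lit 0) (XT.lf (nat_lit 0) (nat_lit 85237329799) (nat_lit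 152) (nat_lit 505838982290) (nat_lit 0) (nat_lit 80854421945) (nat_lit 1) (nat_lit 5) (nat_lit 3) (nat_lit 4) (nat_lit 1) (nat_lit 4) (nat_lit 321) (nat_lit 224) (nat_lit 175)) (XT.lf (nat_lit 0) (nat_lit 93611543620) (nat_lit 152) (nat_lit 542697064867) (nat_lit 0) (nat_lit 89220983642) (nat_lit 1) (nat_lit 5) (nat_lit 3) (nat_lit 4) (nat_lit 1) (nat_lit 4) (nat_lit 322) (nat_lit 224) (nat_lit 174))))) (XT.nd (nat_lit 234) (nat_lit 0) (nat_lit 0) (XT.nd (nat_lit 78) (nat_lit 0) (nat_lit 0) (XT.lf (nat_lit 0) (nat_lit 102649673574) (nat_lit 152) (nat_lit 582515146450) (nat_lit 0) (nat_lit 98252028297) (nat_lit 1) (nat_lit 5) (nat_lit 3) (nat_lit 4) (nat_lit 1) (nat_lit 4) (nat_lit 323) (nat_lit 224) (nat_lit 173)) (XT.nd (nat_lit 78) (nat_lit 0) (nat_lit 0) (XT.lf (nat_lit 0) (nat_lit 112405278949) (nat_lit 152) (nat_lit 625529186042) (nat_lit 0) (nat_lit 108001073210) (nat_lit 1)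 (nat_lit 5) (nat_lit 3) (nat_lit 4) (nat_lit 1) (nat_lit 4) (nat_lit 324) (nat_lit 224) (nat_lit 172)) (XT.lf (nat_lit 0) (nat_lit 122936170742) (nat_lit 152) (nat_lit 671994081655) (nat_lit 0) (nat_lit 118525890500) (nat_lit 1) (nat_lit 5) (nat_lit 3) (nat_lit 4) (nat_lit 1) (nat_lit 4) (nat_lit 325) (nat_lit 224) (nat_lit 171)))) (XT.nd (nat_lit 156) (nat_lit 0) (nat_lit 0) (XT.nd (nat_lit 78) (nat_lit 0) (nat_lit 0) (XT.lf (nat_lit 0) (nat_lit 134304754235) (nat_lit 152) (nat_lit 722185180819) (nat_lit 0) (nat_lit 129888849455) (nat_lit 1) (nat_lit 5) (nat_lit 3) (nat_lit 4) (nat_lit 1) (nat_lit 4) (nat_lit 326) (nat_lit 224) (nat_lit 170)) (XT.lf (nat_lit 0) (nat_lit 146578398814) (nat_lit 152) (nat_lit 776399912269) (nat_lit 0) (nat_lit 142157286127) (nat_lit 1) (nat_lit 5) (nat_lit 3) (nat_lit 4) (nat_lit 1) (nat_lit 4) (nat_lit 327) (nat_lit 224) (nat_lit 169))) (XT.nd (nat_lit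 78) (nat_lit 0) (nat_lit 0) (XT.lf (nat_lit 0) (nat_lit 159829837186) (nat_lit 152) (nat_lit 834959548487) (nat_lit 0) (nat_lit 155403902363) (nat_lit 1) (nat_lit 5) (nat_lit 3) (nat_lit 4) (nat_lit 1) (nat_lit 4) (nat_lit 328) (nat_lit 224) (nat_lit 168)) (XT.lf (nat_lit 0) (nat_lit 174137596394) (nat_lit 152) (nat_lit 898211109542) (nat_lit 0) (nat_lit 169707196631) (nat_lit 1) (nat_lit 5) (nat_lit 3) (nat_lit 4) (nat_lit 1) (nat_lit 4) (nat_lit 329) (nat_lit 224) (nat_lit 167)))))) (XT.nd (nat_lit 468) (nat_lit 0) (nat_lit 0) (XT.nd (nat_lit 234) (nat_lit 0) (nat_lit 0) (XT.nd (nat_lit 78) (nat_lit 0) (nat_lit 0) (XT.lf (nat_lit 0) (nat_lit 189586463159) (nat_lit 152) (nat_lit 966529419497) (nat_lit 0) (nat_lit 185151929192) (nat_lit 1) (nat_lit 5) (nat_lit 3) (nat_lit 4) (nat_lit 1) (nat_lit 4) (nat_lit 330) (nat_lit 224) (nat_lit 166)) (XT.nd (nat_lit 78) (nat_lit 0) (nat_lit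 0) (XT.lf (nat_lit 0) (nat_lit 206267986322) (nat_lit 152) (nat_lit 1040319327597) (nat_lit 0) (nat_lit 201829624387) (nat_lit 1) (nat_lit 5) (nat_lit 3) (nat_lit 4) (nat_lit 1) (nat_lit 4) (nat_lit 331) (nat_lit 224) (nat_lit 165)) (XT.lf (nat_lit 0) (nat_lit 224281019352) (nat_lit 152) (nat_lit 1120018107372) (nat_lit 0) (nat_lit 219839113004) (nat_lit 1) (nat_lit 5) (nat_lit 3) (nat_lit 4) (nat_lit 1) (nat_lit 4) (nat_lit 332) (nat_lit 224) (nat_lit 164)))) (XT.nd (nat_lit 78) (nat_lit 0) (nat_lit 0) (XT.lf (nat_lit 0) (nat_lit 243732306149) (nat_lit 152) (nat_lit 1206098047887) (nat_lit 0) (nat_lit 239287117937) (nat_lit 1) (nat_lit 5) (nat_lit 3) (nat_lit 4) (nat_lit 1) (nat_lit 4) (nat_lit 333) (nat_lit 224) (nat_lit 163)) (XT.nd (nat_lit 78) (nat_lit 0) (nat_lit 0) (XT.lf (nat_lit 0) (nat_lit 264737113598) (nat_lit 152) (nat_lit 1299069252494) (nat_lit 0) (nat_lit 260288886622)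 (nat_lit 1) (nat_lit 5) (nat_lit 3) (nat_lit 4) (nat_lit 1) (nat_lit 4) (nat_lit 334) (nat_lit 224) (nat_lit 162)) (XT.lf (nat_lit 0) (nat_lit 287419914632) (nat_lit 152) (nat_lit 1399482661663) (nat_lit 0) (nat_lit 282968873987) (nat_lit 1) (nat_lit 5) (nat_lit 3) (nat_lit 4) (nat_lit 1) (nat_lit 4) (nat_lit 335) (nat_lit 224) (nat_lit 161))))) (XT.nd (nat_lit 234) (nat_lit 0) (nat_lit 0) (XT.nd (nat_lit 78) (nat_lit 0) (nat_lit 0) (XT.lf (nat_lit 0) (nat_lit 311915125850) (nat_lit 152) (nat_lit 1507933317820) (nat_lit 0) (nat_lit 307461479954) (nat_lit 1) (nat_lit 5) (nat_lit 3) (nat_lit 4) (nat_lit 1) (nat_lit 4) (nat_lit 336) (nat_lit 224) (nat_lit 160)) (XT.nd (nat_lit 78) (nat_lit 0) (nat_lit 0) (XT.lf (nat_lit 0) (nat_lit 338367904059) (nat_lit 152) (nat_lit 1625063891519) (nat_lit 0) (nat_lit 333911845895) (nat_lit 1) (nat_lit 5) (nat_lit 3) (nat_lit 4) (nat_lit 1) (nat_lit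 4) (nat_lit 337) (nat_lit 224) (nat_lit 159)) (XT.lf (nat_lit 0) (nat_lit 366935006462) (nat_lit 152) (nat_lit 1751568489864) (nat_lit 0) (nat_lit 362476714717) (nat_lit 1) (nat_lit 5) (nat_lit 3) (nat_lit 4) (nat_lit 1) (nat_lit 4) (nat_lit 338) (nat_lit 224) (nat_lit 158)))) (XT.nd (nat_lit 156) (nat_lit 0) (nat_lit 0) (XT.nd (nat_lit 78) (nat_lit 0) (nat_lit 0) (XT.lf (nat_lit 0) (nat_lit 397785719594) (nat_lit 152) (nat_lit 1888196769735) (nat_lit 0) (nat_lit 393325359717) (nat_lit 1) (nat_lit 5) (nat_lit 3) (nat_lit 4) (nat_lit 1) (nat_lit 4) (nat_lit 339) (nat_lit 224) (nat_lit 157)) (XT.lf (nat_lit 0) (nat_lit 431102862494) (nat_lit 152) (nat_lit 2035758380197) (nat_lit 0) (nat_lit 426640587681) (nat_lit 1) (nat_lit 5) (nat_lit 3) (nat_lit 4) (nat_lit 1) (nat_lit 4) (nat_lit 340) (nat_lit 224) (nat_lit 156))) (XT.nd (nat_lit 31980) (nat_lit 0) (nat_lit 608) (XT.lf (nat_lit 0)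 (nat_lit 467083870084) (nat_lit 152) (nat_lit 2195127760422) (nat_lit 0) (nat_lit 462619822181) (nat_lit 1) (nat_lit 5) (nat_lit 3) (nat_lit 4) (nat_lit 1) (nat_lit 4) (nat_lit 341) (nat_lit 224) (nat_lit 155)) (XT.lf (nat_lit 0) (nat_lit 3262106676) (nat_lit 76) (nat_lit 2498267713) (nat_lit 76) (nat_lit 2498267713) (nat_lit 9) (nat_lit 4) (nat_lit 10) (nat_lit 5) (nat_lit 10) (nat_lit 4) (nat_lit 270) (nat_lit 225) (nat_lit 225))))))))
noncomputable def xc25 : XT := (XT.nd (nat_lit 2028) (nat_lit 152) (nat_lit 0) (XT.nd (nat_lit 1014) (nat_lit 76) (nat_lit 0) (XT.nd (nat_lit 468) (nat_lit 152) (nat_lit 0) (XT.nd (nat_lit 234) (nat_lit 76) (nat_lit 0) (XT.nd (nat_lit 78) (nat_lit 152) (nat_lit 0) (XT.lf (nat_lit 0) (nat_lit 14005912079) (nat_lit 76) (nat_lit 1976587480) (nat_lit 76) (nat_lit 1524480722) (nat_lit 9) (nat_lit 4) (nat_lit 10) (nat_lit 5) (nat_lit 10) (nat_lit 4) (nat_lit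 271) (nat_lit 225) (nat_lit 224)) (XT.nd (nat_lit 78) (nat_lit 0) (nat_lit 0) (XT.lf (nat_lit 0) (nat_lit 2021474706) (nat_lit 152) (nat_lit 15342675732) (nat_lit 0) (nat_lit 1215248662) (nat_lit 7) (nat_lit 5) (nat_lit 9) (nat_lit 4) (nat_lit 7) (nat_lit 4) (nat_lit 272) (nat_lit 225) (nat_lit 223)) (XT.lf (nat_lit 0) (nat_lit 5719571797) (nat_lit 152) (nat_lit 9464750566) (nat_lit 0) (nat_lit 4554448831) (nat_lit 7) (nat_lit 5) (nat_lit 9) (nat_lit 4) (nat_lit 7) (nat_lit 4) (nat_lit 273) (nat_lit 225) (nat_lit 222)))) (XT.nd (nat_lit 78) (nat_lit 76) (nat_lit 0) (XT.lf (nat_lit 0) (nat_lit 9529512085) (nat_lit 152) (nat_lit 3444388682) (nat_lit 0) (nat_lit 8032077155) (nat_lit 7) (nat_lit 5) (nat_lit 9) (nat_lit 4) (nat_lit 7) (nat_lit 4) (nat_lit 274) (nat_lit 225) (nat_lit 221)) (XT.nd (nat_lit 78) (nat_lit 0) (nat_lit 0) (XT.lf (nat_lit 0) (nat_lit 2899111432) (nat_lit 76) (nat_lit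 10644485263) (nat_lit 76) (nat_lit 8839354069) (nat_lit 6) (nat_lit 4) (nat_lit 7) (nat_lit 5) (nat_lit 7) (nat_lit 4) (nat_lit 275) (nat_lit 225) (nat_lit 220)) (XT.lf (nat_lit 0) (nat_lit 9650144928) (nat_lit 76) (nat_lit 8157969807) (nat_lit 76) (nat_lit 6067934666) (nat_lit 6) (nat_lit 4) (nat_lit 7) (nat_lit 5) (nat_lit 7) (nat_lit 4) (nat_lit 276) (nat_lit 225) (nat_lit 219))))) (XT.nd (nat_lit 234) (nat_lit 0) (nat_lit 0) (XT.nd (nat_lit 78) (nat_lit 152) (nat_lit 0) (XT.lf (nat_lit 0) (nat_lit 16667342525) (nat_lit 76) (nat_lit 5593795186) (nat_lit 76) (nat_lit 3239960094) (nat_lit 6) (nat_lit 4) (nat_lit 7) (nat_lit 5) (nat_lit 7) (nat_lit 4) (nat_lit 277) (nat_lit 225) (nat_lit 218)) (XT.nd (nat_lit 78) (nat_lit 152) (nat_lit 0) (XT.lf (nat_lit 0) (nat_lit 23992287617) (nat_lit 76) (nat_lit 2936766291) (nat_lit 76) (nat_lit 338671984) (nat_lit 6) (nat_lit 4) (nat_lit 7) (nat_lit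 5) (nat_lit 7) (nat_lit 4) (nat_lit 278) (nat_lit 225) (nat_lit 217)) (XT.lf (nat_lit 0) (nat_lit 2545513976) (nat_lit 76) (nat_lit 36108245) (nat_lit 152) (nat_lit 26594778159) (nat_lit 4) (nat_lit 5) (nat_lit 5) (nat_lit 5) (nat_lit 6) (nat_lit 4) (nat_lit 279) (nat_lit 225) (nat_lit 216)))) (XT.nd (nat_lit 156) (nat_lit 0) (nat_lit 0) (XT.nd (nat_lit 78) (nat_lit 0) (nat_lit 0) (XT.lf (nat_lit 0) (nat_lit 5750828369) (nat_lit 152) (nat_lit 22541890823) (nat_lit 0) (nat_lit 2941871746) (nat_lit 4) (nat_lit 5) (nat_lit 6) (nat_lit 4) (nat_lit 4) (nat_lit 4) (nat_lit 280) (nat_lit 225) (nat_lit 215)) (XT.lf (nat_lit 0) (nat_lit 9051573422) (nat_lit 152) (nat_lit 18352741070) (nat_lit 0) (nat_lit 6063078985) (nat_lit 4) (nat_lit 5) (nat_lit 6) (nat_lit 4) (nat_lit 4) (nat_lit 4) (nat_lit 281) (nat_lit 225) (nat_lit 214))) (XT.nd (nat_lit 78) (nat_lit 0) (nat_lit 0) (XT.lf (nat_lit 0)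 (nat_lit 12502548948) (nat_lit 152) (nat_lit 14037744150) (nat_lit 0) (nat_lit 9347815794) (nat_lit 4) (nat_lit 5) (nat_lit 6) (nat_lit 4) (nat_lit 4) (nat_lit 4) (nat_lit 282) (nat_lit 225) (nat_lit 213)) (XT.lf (nat_lit 0) (nat_lit 16124205172) (nat_lit 152) (nat_lit 9571329712) (nat_lit 0) (nat_lit 12815547280) (nat_lit 4) (nat_lit 5) (nat_lit 6) (nat_lit 4) (nat_lit 4) (nat_lit 4) (nat_lit 283) (nat_lit 225) (nat_lit 212)))))) (XT.nd (nat_lit 468) (nat_lit 0) (nat_lit 0) (XT.nd (nat_lit 234) (nat_lit 0) (nat_lit 0) (XT.nd (nat_lit 78) (nat_lit 76) (nat_lit 0) (XT.lf (nat_lit 0) (nat_lit 19938003760) (nat_lit 152) (nat_lit 4927030115) (nat_lit 0) (nat_lit 16486822962) (nat_lit 4) (nat_lit 5) (nat_lit 6) (nat_lit 4) (nat_lit 4) (nat_lit 4) (nat_lit 284) (nat_lit 225) (nat_lit 211)) (XT.nd (nat_lit 78) (nat_lit 76) (nat_lit 0) (XT.lf (nat_lit 0) (nat_lit 23966545000) (nat_lit 152)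 (nat_lit 77323582) (nat_lit 0) (nat_lit 20383398549) (nat_lit 4) (nat_lit 5) (nat_lit 6) (nat_lit 4) (nat_lit 4) (nat_lit 4) (nat_lit 285) (nat_lit 225) (nat_lit 210)) (XT.lf (nat_lit 0) (nat_lit 5270163826) (nat_lit 76) (nat_lit 23090285470) (nat_lit 76) (nat_lit 19384948600) (nat_lit 3) (nat_lit 4) (nat_lit 4) (nat_lit 5) (nat_lit 4) (nat_lit 4) (nat_lit 286) (nat_lit 225) (nat_lit 209)))) (XT.nd (nat_lit 78) (nat_lit 0) (nat_lit 0) (XT.lf (nat_lit 0) (nat_lit 10899911547) (nat_lit 76) (nat_lit 22126992390) (nat_lit 76) (nat_lit 18308516243) (nat_lit 3) (nat_lit 4) (nat_lit 4) (nat_lit 5) (nat_lit 4) (nat_lit 4) (nat_lit 287) (nat_lit 225) (nat_lit 208)) (XT.nd (nat_lit 78) (nat_lit 0) (nat_lit 0) (XT.lf (nat_lit 0) (nat_lit 16841209326) (nat_lit 76) (nat_lit 21150395103) (nat_lit 76) (nat_lit 17227160365) (nat_lit 3) (nat_lit 4) (nat_lit 4) (nat_lit 5) (nat_lit 4) (nat_lit 4) (nat_lit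 288) (nat_lit 225) (nat_lit 207)) (XT.lf (nat_lit 0) (nat_lit 23129264853) (nat_lit 76) (nat_lit 20154706366) (nat_lit 76) (nat_lit 16134472933) (nat_lit 3) (nat_lit 4) (nat_lit 4) (nat_lit 5) (nat_lit 4) (nat_lit 4) (nat_lit 289) (nat_lit 225) (nat_lit 206))))) (XT.nd (nat_lit 234) (nat_lit 0) (nat_lit 0) (XT.nd (nat_lit 78) (nat_lit 0) (nat_lit 0) (XT.lf (nat_lit 0) (nat_lit 29801340680) (nat_lit 76) (nat_lit 19134025801) (nat_lit 76) (nat_lit 15023978762) (nat_lit 3) (nat_lit 4) (nat_lit 4) (nat_lit 5) (nat_lit 4) (nat_lit 4) (nat_lit 290) (nat_lit 225) (nat_lit 205)) (XT.nd (nat_lit 78) (nat_lit 0) (nat_lit 0) (XT.lf (nat_lit 0) (nat_lit 36896975034) (nat_lit 76) (nat_lit 18082304930) (nat_lit 76) (nat_lit 13889097145) (nat_lit 3) (nat_lit 4) (nat_lit 4) (nat_lit 5) (nat_lit 4) (nat_lit 4) (nat_lit 291) (nat_lit 225) (nat_lit 204)) (XT.lf (nat_lit 0) (nat_lit 44458216118) (nat_lit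 76) (nat_lit 16993311334) (nat_lit 76) (nat_lit 12723102858) (nat_lit 3) (nat_lit 4) (nat_lit 4) (nat_lit 5) (nat_lit 4) (nat_lit 4) (nat_lit 292) (nat_lit 225) (nat_lit 203)))) (XT.nd (nat_lit 156) (nat_lit 0) (nat_lit 0) (XT.nd (nat_lit 78) (nat_lit 0) (nat_lit 0) (XT.lf (nat_lit 0) (nat_lit 52529871287) (nat_lit 76) (nat_lit 15860591717) (nat_lit 76) (nat_lit 11519086305) (nat_lit 3) (nat_lit 4) (nat_lit 4) (nat_lit 5) (nat_lit 4) (nat_lit 4) (nat_lit 293) (nat_lit 225) (nat_lit 202)) (XT.lf (nat_lit 0) (nat_lit 61159772572) (nat_lit 76) (nat_lit 14677433667) (nat_lit 76) (nat_lit 10269912573) (nat_lit 3) (nat_lit 4) (nat_lit 4) (nat_lit 5) (nat_lit 4) (nat_lit 4) (nat_lit 294) (nat_lit 225) (nat_lit 201))) (XT.nd (nat_lit 78) (nat_lit 0) (nat_lit 0) (XT.lf (nat_lit 0) (nat_lit 70399060128) (nat_lit 76) (nat_lit 13436825876) (nat_lit 76) (nat_lit 8968179151) (nat_lit 3) (nat_lit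 4) (nat_lit 4) (nat_lit 5) (nat_lit 4) (nat_lit 4) (nat_lit 295) (nat_lit 225) (nat_lit 200)) (XT.lf (nat_lit 0) (nat_lit 80302485289) (nat_lit 76) (nat_lit 12131416596) (nat_lit 76) (nat_lit 7606172064) (nat_lit 3) (nat_lit 4) (nat_lit 4) (nat_lit 5) (nat_lit 4) (nat_lit 4) (nat_lit 296) (nat_lit 225) (nat_lit 199))))))) (XT.nd (nat_lit 1014) (nat_lit 0) (nat_lit 0) (XT.nd (nat_lit 468) (nat_lit 76) (nat_lit 0) (XT.nd (nat_lit 234) (nat_lit 76) (nat_lit 0) (XT.nd (nat_lit 78) (nat_lit 0) (nat_lit 0) (XT.lf (nat_lit 0) (nat_lit 90928735019) (nat_lit 76) (nat_lit 10753470066) (nat_lit 76) (nat_lit 6175820157) (nat_lit 3) (nat_lit 4) (nat_lit 4) (nat_lit 5) (nat_lit 4) (nat_lit 4) (nat_lit 297) (nat_lit 225) (nat_lit 198)) (XT.nd (nat_lit 78) (nat_lit 0) (nat_lit 0) (XT.lf (nat_lit 0) (nat_lit 102340779687) (nat_lit 76) (nat_lit 9294820679) (nat_lit 76) (nat_lit 4668647273) (nat_lit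 3) (nat_lit 4) (nat_lit 4) (nat_lit 5) (nat_lit 4) (nat_lit 4) (nat_lit 298) (nat_lit 225) (nat_lit 197)) (XT.lf (nat_lit 0) (nat_lit 114606246223) (nat_lit 76) (nat_lit 7746824585) (nat_lit 76) (nat_lit 3075722016) (nat_lit 3) (nat_lit 4) (nat_lit 4) (nat_lit 5) (nat_lit 4) (nat_lit 4) (nat_lit 299) (nat_lit 225) (nat_lit 196)))) (XT.nd (nat_lit 78) (nat_lit 76) (nat_lit 0) (XT.lf (nat_lit 0) (nat_lit 127797818875) (nat_lit 76) (nat_lit 6100308475) (nat_lit 76) (nat_lit 1387604828) (nat_lit 3) (nat_lit 4) (nat_lit 4) (nat_lit 5) (nat_lit 4) (nat_lit 4) (nat_lit 300) (nat_lit 225) (nat_lit 195)) (XT.nd (nat_lit 78) (nat_lit 0) (nat_lit 0) (XT.lf (nat_lit 0) (nat_lit 385412791) (nat_lit 152) (nat_lit 3949564556) (nat_lit 76) (nat_lit 141597719264) (nat_lit 2) (nat_lit 5) (nat_lit 4) (nat_lit 5) (nat_lit 3) (nat_lit 4) (nat_lit 301) (nat_lit 225) (nat_lit 194)) (XT.lf (nat_lit 0) (nat_lit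 2199045508) (nat_lit 152) (nat_lit 212874724) (nat_lit 76) (nat_lit 155018751624) (nat_lit 2) (nat_lit 5) (nat_lit 4) (nat_lit 5) (nat_lit 3) (nat_lit 4) (nat_lit 302) (nat_lit 225) (nat_lit 193))))) (XT.nd (nat_lit 234) (nat_lit 0) (nat_lit 0) (XT.nd (nat_lit 78) (nat_lit 0) (nat_lit 0) (XT.lf (nat_lit 0) (nat_lit 3976596951) (nat_lit 76) (nat_lit 252494687) (nat_lit 152) (nat_lit 165613721198) (nat_lit 1) (nat_lit 5) (nat_lit 2) (nat_lit 5) (nat_lit 3) (nat_lit 4) (nat_lit 303) (nat_lit 225) (nat_lit 192)) (XT.nd (nat_lit 78) (nat_lit 0) (nat_lit 0) (XT.lf (nat_lit 0) (nat_lit 6453469560) (nat_lit 152) (nat_lit 174829658794) (nat_lit 0) (nat_lit 1962273549) (nat_lit 1) (nat_lit 5) (nat_lit 3) (nat_lit 4) (nat_lit 1) (nat_lit 4) (nat_lit 304) (nat_lit 225) (nat_lit 191)) (XT.lf (nat_lit 0) (nat_lit 8840078312) (nat_lit 152) (nat_lit 184558739526) (nat_lit 0) (nat_lit 4322666565) (nat_lit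 1) (nat_lit 5) (nat_lit 3) (nat_lit 4) (nat_lit 1) (nat_lit 4) (nat_lit 305) (nat_lit 225) (nat_lit 190)))) (XT.nd (nat_lit 156) (nat_lit 0) (nat_lit 0) (XT.nd (nat_lit 78) (nat_lit 0) (nat_lit 0) (XT.lf (nat_lit 0) (nat_lit 11396988258) (nat_lit 152) (nat_lit 195105039389) (nat_lit 0) (nat_lit 6855302682) (nat_lit 1) (nat_lit 5) (nat_lit 3) (nat_lit 4) (nat_lit 1) (nat_lit 4) (nat_lit 306) (nat_lit 225) (nat_lit 189)) (XT.lf (nat_lit 0) (nat_lit 14139351456) (nat_lit 152) (nat_lit 206531054975) (nat_lit 0) (nat_lit 9575190112) (nat_lit 1) (nat_lit 5) (nat_lit 3) (nat_lit 4) (nat_lit 1) (nat_lit 4) (nat_lit 307) (nat_lit 225) (nat_lit 188))) (XT.nd (nat_lit 78) (nat_lit 0) (nat_lit 0) (XT.lf (nat_lit 0) (nat_lit 17083418949) (nat_lit 152) (nat_lit 218904496006) (nat_lit 0) (nat_lit 12498446709) (nat_lit 1) (nat_lit 5) (nat_lit 3) (nat_lit 4) (nat_lit 1) (nat_lit 4) (nat_lit 308) (nat_lit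 225) (nat_lit 187)) (XT.lf (nat_lit 0) (nat_lit 20246637062) (nat_lit 152) (nat_lit 232298686578) (nat_lit 0) (nat_lit 15642395474) (nat_lit 1) (nat_lit 5) (nat_lit 3) (nat_lit 4) (nat_lit 1) (nat_lit 4) (nat_lit 309) (nat_lit 225) (nat_lit 186)))))) (XT.nd (nat_lit 468) (nat_lit 0) (nat_lit 0) (XT.nd (nat_lit 234) (nat_lit 0) (nat_lit 0) (XT.nd (nat_lit 78) (nat_lit 0) (nat_lit 0) (XT.lf (nat_lit 0) (nat_lit 23647750790) (nat_lit 152) (nat_lit 246792999671) (nat_lit 0) (nat_lit 19025667213) (nat_lit 1) (nat_lit 5) (nat_lit 3) (nat_lit 4) (nat_lit 1) (nat_lit 4) (nat_lit 310) (nat_lit 225) (nat_lit 185)) (XT.nd (nat_lit 78) (nat_lit 0) (nat_lit 0) (XT.lf (nat_lit 0) (nat_lit 27306914883) (nat_lit 152) (nat_lit 262473327511) (nat_lit 0) (nat_lit 22668310946) (nat_lit 1) (nat_lit 5) (nat_lit 3) (nat_lit 4) (nat_lit 1) (nat_lit 4) (nat_lit 311) (nat_lit 225) (nat_lit 184)) (XT.lf (nat_lit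 0) (nat_lit 31245813276) (nat_lit 152) (nat_lit 279432590559) (nat_lit 0) (nat_lit 26591912709) (nat_lit 1) (nat_lit 5) (nat_lit 3) (nat_lit 4) (nat_lit 1) (nat_lit 4) (nat_lit 312) (nat_lit 225) (nat_lit 183)))) (XT.nd (nat_lit 78) (nat_lit 0) (nat_lit 0) (XT.lf (nat_lit 0) (nat_lit 35487787588) (nat_lit 152) (nat_lit 297771288152) (nat_lit 0) (nat_lit 30819723475) (nat_lit 1) (nat_lit 5) (nat_lit 3) (nat_lit 4) (nat_lit 1) (nat_lit 4) (nat_lit 313) (nat_lit 225) (nat_lit 182)) (XT.nd (nat_lit 78) (nat_lit 0) (nat_lit 0) (XT.lf (nat_lit 0) (nat_lit 40057975446) (nat_lit 152) (nat_lit 317598094054) (nat_lit 0) (nat_lit 35376796938) (nat_lit 1) (nat_lit 5) (nat_lit 3) (nat_lit 4) (nat_lit 1) (nat_lit 4) (nat_lit 314) (nat_lit 225) (nat_lit 181)) (XT.lf (nat_lit 0) (nat_lit 44983459443) (nat_lit 152) (nat_lit 339030500447) (nat_lit 0) (nat_lit 40290137978) (nat_lit 1) (nat_lit 5) (nat_lit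 3) (nat_lit 4) (nat_lit 1) (nat_lit 4) (nat_lit 315) (nat_lit 225) (nat_lit 180))))) (XT.nd (nat_lit 234) (nat_lit 0) (nat_lit 0) (XT.nd (nat_lit 78) (nat_lit 0) (nat_lit 0) (XT.lf (nat_lit 0) (nat_lit 50293427634) (nat_lit 152) (nat_lit 362195514185) (nat_lit 0) (nat_lit 45588862689) (nat_lit 1) (nat_lit 5) (nat_lit 3) (nat_lit 4) (nat_lit 1) (nat_lit 4) (nat_lit 316) (nat_lit 225) (nat_lit 179)) (XT.nd (nat_lit 78) (nat_lit 0) (nat_lit 0) (XT.lf (nat_lit 0) (nat_lit 56019346496) (nat_lit 152) (nat_lit 387230409422) (nat_lit 0) (nat_lit 51304370922) (nat_lit 1) (nat_lit 5) (nat_lit 3) (nat_lit 4) (nat_lit 1) (nat_lit 4) (nat_lit 317) (nat_lit 225) (nat_lit 178)) (XT.lf (nat_lit 0) (nat_lit 62195147401) (nat_lit 152) (nat_lit 414283541094) (nat_lit 0) (nat_lit 57470532355) (nat_lit 1) (nat_lit 5) (nat_lit 3) (nat_lit 4) (nat_lit 1) (nat_lit 4) (nat_lit 318) (nat_lit 225) (nat_lit 177))))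 (XT.nd (nat_lit 156) (nat_lit 0) (nat_lit 0) (XT.nd (nat_lit 78) (nat_lit 0) (nat_lit 0) (XT.lf (nat_lit 0) (nat_lit 68857427687) (nat_lit 152) (nat_lit 443515224055) (nat_lit 0) (nat_lit 64123887204) (nat_lit 1) (nat_lit 5) (nat_lit 3) (nat_lit 4) (nat_lit 1) (nat_lit 4) (nat_lit 319) (nat_lit 225) (nat_lit 176)) (XT.lf (nat_lit 0) (nat_lit 76045667533) (nat_lit 152) (nat_lit 475098683092) (nat_lit 0) (nat_lit 71303862757) (nat_lit 1) (nat_lit 5) (nat_lit 3) (nat_lit 4) (nat_lit 1) (nat_lit 4) (nat_lit 320) (nat_lit 225) (nat_lit 175))) (XT.nd (nat_lit 78) (nat_lit 0) (nat_lit 0) (XT.lf (nat_lit 0) (nat_lit 83802463917) (nat_lit 152) (nat_lit 509221079445) (nat_lit 0) (nat_lit 79053007018) (nat_lit 1) (nat_lit 5) (nat_lit 3) (nat_lit 4) (nat_lit 1) (nat_lit 4) (nat_lit 321) (nat_lit 225) (nat_lit 174)) (XT.lf (nat_lit 0) (nat_lit 92173783040) (nat_lit 152) (nat_lit 546084619906) (nat_lit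 0) (nat_lit 87417240841) (nat_lit 1) (nat_lit 5) (nat_lit 3) (nat_lit 4) (nat_lit 1) (nat_lit 4) (nat_lit 322) (nat_lit 225) (nat_lit 173))))))))
noncomputable def xc26 : XT := (XT.nd (nat_lit 33696) (nat_lit 0) (nat_lit 152) (XT.nd (nat_lit 936) (nat_lit 0) (nat_lit 0) (XT.nd (nat_lit 468) (nat_lit 0) (nat_lit 0) (XT.nd (nat_lit 234) (nat_lit 0) (nat_lit 0) (XT.nd (nat_lit 78) (nat_lit 0) (nat_lit 0) (XT.lf (nat_lit 0) (nat_lit 101209232717) (nat_lit 152) (nat_lit 585907755087) (nat_lit 0) (nat_lit 96446130056) (nat_lit 1) (nat_lit 5) (nat_lit 3) (nat_lit 4) (nat_lit 1) (nat_lit 4) (nat_lit 323) (nat_lit 225) (nat_lit 172)) (XT.nd (nat_lit 78) (nat_lit 0) (nat_lit 0) (XT.lf (nat_lit 0) (nat_lit 110962356356) (nat_lit 152) (nat_lit 628926473935) (nat_lit 0) (nat_lit 106193179192) (nat_lit 1) (nat_lit 5) (nat_lit 3) (nat_lit 4) (nat_lit 1) (nat_lit 4) (nat_lit 324) (nat_lit 225) (nat_lit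 171)) (XT.lf (nat_lit 0) (nat_lit 121490950243) (nat_lit 152) (nat_lit 675395702193) (nat_lit 0) (nat_lit 116716148541) (nat_lit 1) (nat_lit 5) (nat_lit 3) (nat_lit 4) (nat_lit 1) (nat_lit 4) (nat_lit 325) (nat_lit 225) (nat_lit 170)))) (XT.nd (nat_lit 78) (nat_lit 0) (nat_lit 0) (XT.lf (nat_lit 0) (nat_lit 132857406047) (nat_lit 152) (nat_lit 725590813065) (nat_lit 0) (nat_lit 128077396438) (nat_lit 1) (nat_lit 5) (nat_lit 3) (nat_lit 4) (nat_lit 1) (nat_lit 4) (nat_lit 326) (nat_lit 225) (nat_lit 169)) (XT.nd (nat_lit 78) (nat_lit 0) (nat_lit 0) (XT.lf (nat_lit 0) (nat_lit 145129080543) (nat_lit 152) (nat_lit 779809259060) (nat_lit 0) (nat_lit 140344248798) (nat_lit 1) (nat_lit 5) (nat_lit 3) (nat_lit 4) (nat_lit 1) (nat_lit 4) (nat_lit 327) (nat_lit 225) (nat_lit 168)) (XT.lf (nat_lit 0) (nat_lit 158378694764) (nat_lit 152) (nat_lit 838372334672) (nat_lit 0) (nat_lit 153589398079)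 (nat_lit 1) (nat_lit 5) (nat_lit 3) (nat_lit 4) (nat_lit 1) (nat_lit 4) (nat_lit 328) (nat_lit 225) (nat_lit 167))))) (XT.nd (nat_lit 234) (nat_lit 0) (nat_lit 0) (XT.nd (nat_lit 78) (nat_lit 0) (nat_lit 0) (XT.lf (nat_lit 0) (nat_lit 172684764943) (nat_lit 152) (nat_lit 901627080349) (nat_lit 0) (nat_lit 167891334054) (nat_lit 1) (nat_lit 5) (nat_lit 3) (nat_lit 4) (nat_lit 1) (nat_lit 4) (nat_lit 329) (nat_lit 225) (nat_lit 166)) (XT.nd (nat_lit 78) (nat_lit 0) (nat_lit 0) (XT.lf (nat_lit 0) (nat_lit 188132067793) (nat_lit 152) (nat_lit 969948339030) (nat_lit 0) (nat_lit 183334808937) (nat_lit 1) (nat_lit 5) (nat_lit 3) (nat_lit 4) (nat_lit 1) (nat_lit 4) (nat_lit 330) (nat_lit 225) (nat_lit 165)) (XT.lf (nat_lit 0) (nat_lit 204812142886) (nat_lit 152) (nat_lit 1043740977432) (nat_lit 0) (nat_lit 200011339616) (nat_lit 1) (nat_lit 5) (nat_lit 3) (nat_lit 4) (nat_lit 1) (nat_lit 4)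 (nat_lit 331) (nat_lit 225) (nat_lit 164)))) (XT.nd (nat_lit 78) (nat_lit 0) (nat_lit 0) (XT.lf (nat_lit 0) (nat_lit 222823835110) (nat_lit 152) (nat_lit 1123442285264) (nat_lit 0) (nat_lit 218019749976) (nat_lit 1) (nat_lit 5) (nat_lit 3) (nat_lit 4) (nat_lit 1) (nat_lit 4) (nat_lit 332) (nat_lit 225) (nat_lit 163)) (XT.nd (nat_lit 78) (nat_lit 0) (nat_lit 0) (XT.lf (nat_lit 0) (nat_lit 242273880421) (nat_lit 152) (nat_lit 1209524566572) (nat_lit 0) (nat_lit 237466756524) (nat_lit 1) (nat_lit 5) (nat_lit 3) (nat_lit 4) (nat_lit 1) (nat_lit 4) (nat_lit 333) (nat_lit 225) (nat_lit 162)) (XT.lf (nat_lit 0) (nat_lit 263277538346) (nat_lit 152) (nat_lit 1302497938579) (nat_lit 0) (nat_lit 258467600778) (nat_lit 1) (nat_lit 5) (nat_lit 3) (nat_lit 4) (nat_lit 1) (nat_lit 4) (nat_lit 334) (nat_lit 225) (nat_lit 161)))))) (XT.nd (nat_lit 468) (nat_lit 0) (nat_lit 0) (XT.nd (nat_lit 234) (nat_lit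 0) (nat_lit 0) (XT.nd (nat_lit 78) (nat_lit 0) (nat_lit 0) (XT.lf (nat_lit 0) (nat_lit 285959275005) (nat_lit 152) (nat_lit 1402913354601) (nat_lit 0) (nat_lit 281146732188) (nat_lit 1) (nat_lit 5) (nat_lit 3) (nat_lit 4) (nat_lit 1) (nat_lit 4) (nat_lit 335) (nat_lit 225) (nat_lit 160)) (XT.nd (nat_lit 78) (nat_lit 0) (nat_lit 0) (XT.lf (nat_lit 0) (nat_lit 310453500691) (nat_lit 152) (nat_lit 1511365868955) (nat_lit 0) (nat_lit 305638545606) (nat_lit 1) (nat_lit 5) (nat_lit 3) (nat_lit 4) (nat_lit 1) (nat_lit 4) (nat_lit 336) (nat_lit 225) (nat_lit 159)) (XT.lf (nat_lit 0) (nat_lit 336905366370) (nat_lit 152) (nat_lit 1628498163208) (nat_lit 0) (nat_lit 332088177703) (nat_lit 1) (nat_lit 5) (nat_lit 3) (nat_lit 4) (nat_lit 1) (nat_lit 4) (nat_lit 337) (nat_lit 225) (nat_lit 158)))) (XT.nd (nat_lit 78) (nat_lit 0) (nat_lit 0) (XT.lf (nat_lit 0) (nat_lit 365471623839) (nat_lit 152)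 (nat_lit 1755004354658) (nat_lit 0) (nat_lit 360652367040) (nat_lit 1) (nat_lit 5) (nat_lit 3) (nat_lit 4) (nat_lit 1) (nat_lit 4) (nat_lit 338) (nat_lit 225) (nat_lit 157)) (XT.nd (nat_lit 78) (nat_lit 0) (nat_lit 0) (XT.lf (nat_lit 0) (nat_lit 396321554624) (nat_lit 152) (nat_lit 1891634109625) (nat_lit 0) (nat_lit 391500382888) (nat_lit 1) (nat_lit 5) (nat_lit 3) (nat_lit 4) (nat_lit 1) (nat_lit 4) (nat_lit 339) (nat_lit 225) (nat_lit 156)) (XT.lf (nat_lit 0) (nat_lit 429637973128) (nat_lit 152) (nat_lit 2039197085917) (nat_lit 0) (nat_lit 424815028304) (nat_lit 1) (nat_lit 5) (nat_lit 3) (nat_lit 4) (nat_lit 1) (nat_lit 4) (nat_lit 340) (nat_lit 225) (nat_lit 155))))) (XT.nd (nat_lit 31980) (nat_lit 0) (nat_lit 456) (XT.nd (nat_lit 31824) (nat_lit 0) (nat_lit 684) (XT.lf (nat_lit 0) (nat_lit 465618309982) (nat_lit 152) (nat_lit 2198567730800) (nat_lit 0) (nat_lit 460793723408)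 (nat_lit 1) (nat_lit 5) (nat_lit 3) (nat_lit 4) (nat_lit 1) (nat_lit 4) (nat_lit 341) (nat_lit 225) (nat_lit 154)) (XT.nd (nat_lit 78) (nat_lit 0) (nat_lit 0) (XT.lf (nat_lit 0) (nat_lit 1878099487) (nat_lit 152) (nat_lit 3632413126) (nat_lit 0) (nat_lit 1878099487) (nat_lit 10) (nat_lit 5) (nat_lit 12) (nat_lit 4) (nat_lit 10) (nat_lit 4) (nat_lit 268) (nat_lit 226) (nat_lit 226)) (XT.lf (nat_lit 0) (nat_lit 7699220010) (nat_lit 152) (nat_lit 705477666) (nat_lit 0) (nat_lit 7210944711) (nat_lit 10) (nat_lit 5) (nat_lit 12) (nat_lit 4) (nat_lit 10) (nat_lit 4) (nat_lit 269) (nat_lit 226) (nat_lit 225)))) (XT.nd (nat_lit 156) (nat_lit 152) (nat_lit 0) (XT.nd (nat_lit 78) (nat_lit 0) (nat_lit 0) (XT.lf (nat_lit 0) (nat_lit 6348016855) (nat_lit 76) (nat_lit 5559023269) (nat_lit 76) (nat_lit 4618641211) (nat_lit 9) (nat_lit 4) (nat_lit 10) (nat_lit 5) (nat_lit 10) (nat_lit 4) (nat_lit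 270) (nat_lit 226) (nat_lit 224)) (XT.lf (nat_lit 0) (nat_lit 13666570676) (nat_lit 76) (nat_lit 2607790642) (nat_lit 76) (nat_lit 1248791214) (nat_lit 9) (nat_lit 4) (nat_lit 10) (nat_lit 5) (nat_lit 10) (nat_lit 4) (nat_lit 271) (nat_lit 226) (nat_lit 223))) (XT.nd (nat_lit 78) (nat_lit 0) (nat_lit 0) (XT.lf (nat_lit 0) (nat_lit 2163417702) (nat_lit 152) (nat_lit 15895220940) (nat_lit 0) (nat_lit 546187977) (nat_lit 7) (nat_lit 5) (nat_lit 9) (nat_lit 4) (nat_lit 7) (nat_lit 4) (nat_lit 272) (nat_lit 226) (nat_lit 222)) (XT.lf (nat_lit 0) (nat_lit 5773051057) (nat_lit 152) (nat_lit 10174890627) (nat_lit 0) (nat_lit 3823509367) (nat_lit 7) (nat_lit 5) (nat_lit 9) (nat_lit 4) (nat_lit 7) (nat_lit 4) (nat_lit 273) (nat_lit 226) (nat_lit 221))))))) (XT.nd (nat_lit 1014) (nat_lit 0) (nat_lit 0) (XT.nd (nat_lit 468) (nat_lit 76) (nat_lit 0) (XT.nd (nat_lit 234) (nat_lit 152) (nat_lit 0)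 (XT.nd (nat_lit 78) (nat_lit 76) (nat_lit 0) (XT.lf (nat_lit 0) (nat_lit 9501080479) (nat_lit 152) (nat_lit 4300449905) (nat_lit 0) (nat_lit 7243842527) (nat_lit 7) (nat_lit 5) (nat_lit 9) (nat_lit 4) (nat_lit 7) (nat_lit 4) (nat_lit 274) (nat_lit 226) (nat_lit 220)) (XT.nd (nat_lit 78) (nat_lit 0) (nat_lit 0) (XT.lf (nat_lit 0) (nat_lit 1855744589) (nat_lit 76) (nat_lit 11558484108) (nat_lit 76) (nat_lit 9016342208) (nat_lit 6) (nat_lit 4) (nat_lit 7) (nat_lit 5) (nat_lit 7) (nat_lit 4) (nat_lit 275) (nat_lit 226) (nat_lit 219)) (XT.lf (nat_lit 0) (nat_lit 8475086460) (nat_lit 76) (nat_lit 9130267725) (nat_lit 76) (nat_lit 6324325874) (nat_lit 6) (nat_lit 4) (nat_lit 7) (nat_lit 5) (nat_lit 7) (nat_lit 4) (nat_lit 276) (nat_lit 226) (nat_lit 218)))) (XT.nd (nat_lit 78) (nat_lit 152) (nat_lit 0) (XT.lf (nat_lit 0) (nat_lit 15370347368) (nat_lit 76) (nat_lit 6620073727) (nat_lit 76)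 (nat_lit 3569872661) (nat_lit 6) (nat_lit 4) (nat_lit 7) (nat_lit 5) (nat_lit 7) (nat_lit 4) (nat_lit 277) (nat_lit 226) (nat_lit 217)) (XT.nd (nat_lit 78) (nat_lit 152) (nat_lit 0) (XT.lf (nat_lit 0) (nat_lit 22582388118) (nat_lit 76) (nat_lit 4013026889) (nat_lit 76) (nat_lit 736659884) (nat_lit 6) (nat_lit 4) (nat_lit 7) (nat_lit 5) (nat_lit 7) (nat_lit 4) (nat_lit 278) (nat_lit 226) (nat_lit 216)) (XT.lf (nat_lit 0) (nat_lit 890236975) (nat_lit 76) (nat_lit 1213617297) (nat_lit 152) (nat_lit 27145738211) (nat_lit 4) (nat_lit 5) (nat_lit 5) (nat_lit 5) (nat_lit 6) (nat_lit 4) (nat_lit 279) (nat_lit 226) (nat_lit 215))))) (XT.nd (nat_lit 234) (nat_lit 76) (nat_lit 0) (XT.nd (nat_lit 78) (nat_lit 0) (nat_lit 0) (XT.lf (nat_lit 0) (nat_lit 5185637711) (nat_lit 152) (nat_lit 24350707920) (nat_lit 0) (nat_lit 1778525904) (nat_lit 4) (nat_lit 5) (nat_lit 6) (nat_lit 4) (nat_lit 4) (nat_lit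 4) (nat_lit 280) (nat_lit 226) (nat_lit 214)) (XT.nd (nat_lit 78) (nat_lit 0) (nat_lit 0) (XT.lf (nat_lit 0) (nat_lit 8431657220) (nat_lit 152) (nat_lit 20262175866) (nat_lit 0) (nat_lit 4858306697) (nat_lit 4) (nat_lit 5) (nat_lit 6) (nat_lit 4) (nat_lit 4) (nat_lit 4) (nat_lit 281) (nat_lit 226) (nat_lit 213)) (XT.lf (nat_lit 0) (nat_lit 11831960946) (nat_lit 152) (nat_lit 16040343483) (nat_lit 0) (nat_lit 8104685684) (nat_lit 4) (nat_lit 5) (nat_lit 6) (nat_lit 4) (nat_lit 4) (nat_lit 4) (nat_lit 282) (nat_lit 226) (nat_lit 212)))) (XT.nd (nat_lit 156) (nat_lit 76) (nat_lit 0) (XT.nd (nat_lit 78) (nat_lit 0) (nat_lit 0) (XT.lf (nat_lit 0) (nat_lit 15406698836) (nat_lit 152) (nat_lit 11660192504) (nat_lit 0) (nat_lit 11536900669) (nat_lit 4) (nat_lit 5) (nat_lit 6) (nat_lit 4) (nat_lit 4) (nat_lit 4) (nat_lit 283) (nat_lit 226) (nat_lit 211)) (XT.lf (nat_lit 0) (nat_lit 19177054522)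 (nat_lit 152) (nat_lit 7095766480) (nat_lit 0) (nat_lit 15175290703) (nat_lit 4) (nat_lit 5) (nat_lit 6) (nat_lit 4) (nat_lit 4) (nat_lit 4) (nat_lit 284) (nat_lit 226) (nat_lit 210))) (XT.nd (nat_lit 78) (nat_lit 76) (nat_lit 0) (XT.lf (nat_lit 0) (nat_lit 23165370854) (nat_lit 152) (nat_lit 2320016960) (nat_lit 0) (nat_lit 19041416614) (nat_lit 4) (nat_lit 5) (nat_lit 6) (nat_lit 4) (nat_lit 4) (nat_lit 4) (nat_lit 285) (nat_lit 226) (nat_lit 209)) (XT.lf (nat_lit 0) (nat_lit 2837289506) (nat_lit 76) (nat_lit 24626229672) (nat_lit 76) (nat_lit 20389136155) (nat_lit 3) (nat_lit 4) (nat_lit 4) (nat_lit 5) (nat_lit 4) (nat_lit 4) (nat_lit 286) (nat_lit 226) (nat_lit 208)))))) (XT.nd (nat_lit 468) (nat_lit 0) (nat_lit 0) (XT.nd (nat_lit 234) (nat_lit 0) (nat_lit 0) (XT.nd (nat_lit 78) (nat_lit 0) (nat_lit 0) (XT.lf (nat_lit 0) (nat_lit 8400292150) (nat_lit 76) (nat_lit 23693590072) (nat_lit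 76) (nat_lit 19351737965) (nat_lit 3) (nat_lit 4) (nat_lit 4) (nat_lit 5) (nat_lit 4) (nat_lit 4) (nat_lit 287) (nat_lit 226) (nat_lit 207)) (XT.nd (nat_lit 78) (nat_lit 0) (nat_lit 0) (XT.lf (nat_lit 0) (nat_lit 14279788932) (nat_lit 76) (nat_lit 22745375638) (nat_lit 76) (nat_lit 18306524836) (nat_lit 3) (nat_lit 4) (nat_lit 4) (nat_lit 5) (nat_lit 4) (nat_lit 4) (nat_lit 288) (nat_lit 226) (nat_lit 206)) (XT.lf (nat_lit 0) (nat_lit 20510621314) (nat_lit 76) (nat_lit 21775967319) (nat_lit 76) (nat_lit 17247302911) (nat_lit 3) (nat_lit 4) (nat_lit 4) (nat_lit 5) (nat_lit 4) (nat_lit 4) (nat_lit 289) (nat_lit 226) (nat_lit 205)))) (XT.nd (nat_lit 78) (nat_lit 0) (nat_lit 0) (XT.lf (nat_lit 0) (nat_lit 27129712747) (nat_lit 76) (nat_lit 20779620475) (nat_lit 76) (nat_lit 16167795321) (nat_lit 3) (nat_lit 4) (nat_lit 4) (nat_lit 5) (nat_lit 4) (nat_lit 4) (nat_lit 290) (nat_lit 226)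 (nat_lit 204)) (XT.nd (nat_lit 78) (nat_lit 0) (nat_lit 0) (XT.lf (nat_lit 0) (nat_lit 34176287477) (nat_lit 76) (nat_lit 19750430827) (nat_lit 76) (nat_lit 15061604982) (nat_lit 3) (nat_lit 4) (nat_lit 4) (nat_lit 5) (nat_lit 4) (nat_lit 4) (nat_lit 291) (nat_lit 226) (nat_lit 203)) (XT.lf (nat_lit 0) (nat_lit 41692102983) (nat_lit 76) (nat_lit 18682299475) (nat_lit 76) (nat_lit 13922176693) (nat_lit 3) (nat_lit 4) (nat_lit 4) (nat_lit 5) (nat_lit 4) (nat_lit 4) (nat_lit 292) (nat_lit 226) (nat_lit 202))))) (XT.nd (nat_lit 234) (nat_lit 0) (nat_lit 0) (XT.nd (nat_lit 78) (nat_lit 0) (nat_lit 0) (XT.lf (nat_lit 0) (nat_lit 49721697432) (nat_lit 76) (nat_lit 17568896751) (nat_lit 76) (nat_lit 12742758287) (nat_lit 3) (nat_lit 4) (nat_lit 4) (nat_lit 5) (nat_lit 4) (nat_lit 4) (nat_lit 293) (nat_lit 226) (nat_lit 201)) (XT.nd (nat_lit 78) (nat_lit 0) (nat_lit 0) (XT.lf (nat_lit 0) (nat_lit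 58312653606) (nat_lit 76) (nat_lit 16403624712) (nat_lit 76) (nat_lit 11516360617) (nat_lit 3) (nat_lit 4) (nat_lit 4) (nat_lit 5) (nat_lit 4) (nat_lit 4) (nat_lit 294) (nat_lit 226) (nat_lit 200)) (XT.lf (nat_lit 0) (nat_lit 67515880874) (nat_lit 76) (nat_lit 15179578043) (nat_lit 76) (nat_lit 10235716141) (nat_lit 3) (nat_lit 4) (nat_lit 4) (nat_lit 5) (nat_lit 4) (nat_lit 4) (nat_lit 295) (nat_lit 226) (nat_lit 199)))) (XT.nd (nat_lit 156) (nat_lit 0) (nat_lit 0) (XT.nd (nat_lit 78) (nat_lit 0) (nat_lit 0) (XT.lf (nat_lit 0) (nat_lit 77385916879) (nat_lit 76) (nat_lit 13889503134) (nat_lit 76) (nat_lit 8893235856) (nat_lit 3) (nat_lit 4) (nat_lit 4) (nat_lit 5) (nat_lit 4) (nat_lit 4) (nat_lit 296) (nat_lit 226) (nat_lit 198)) (XT.lf (nat_lit 0) (nat_lit 87981250724) (nat_lit 76) (nat_lit 12525755097) (nat_lit 76) (nat_lit 7480964322) (nat_lit 3) (nat_lit 4) (nat_lit 4) (nat_lit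 5) (nat_lit 4) (nat_lit 4) (nat_lit 297) (nat_lit 226) (nat_lit 197))) (XT.nd (nat_lit 78) (nat_lit 0) (nat_lit 0) (XT.lf (nat_lit 0) (nat_lit 99364669572) (nat_lit 76) (nat_lit 11080252462) (nat_lit 76) (nat_lit 5990532523) (nat_lit 3) (nat_lit 4) (nat_lit 4) (nat_lit 5) (nat_lit 4) (nat_lit 4) (nat_lit 298) (nat_lit 226) (nat_lit 196)) (XT.lf (nat_lit 0) (nat_lit 111603630720) (nat_lit 76) (nat_lit 9544429287) (nat_lit 76) (nat_lit 4413108271) (nat_lit 3) (nat_lit 4) (nat_lit 4) (nat_lit 5) (nat_lit 4) (nat_lit 4) (nat_lit 299) (nat_lit 226) (nat_lit 195))))))))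
noncomputable def xc27 : XT := (XT.nd (nat_lit 2028) (nat_lit 0) (nat_lit 0) (XT.nd (nat_lit 1014) (nat_lit 0) (nat_lit 0) (XT.nd (nat_lit 468) (nat_lit 0) (nat_lit 0) (XT.nd (nat_lit 234) (nat_lit 76) (nat_lit 0) (XT.nd (nat_lit 78) (nat_lit 76) (nat_lit 0) (XT.lf (nat_lit 0) (nat_lit 124770661346) (nat_lit 76) (nat_lit 7909184398) (nat_lit 76) (nat_lit 2739343866) (nat_lit 3) (nat_lit 4) (nat_lit 4) (nat_lit 5) (nat_lit 4) (nat_lit 4) (nat_lit 300) (nat_lit 226) (nat_lit 194)) (XT.nd (nat_lit 78) (nat_lit 76) (nat_lit 0) (XT.lf (nat_lit 0) (nat_lit 138943788297) (nat_lit 76) (nat_lit 6164827455) (nat_lit 76) (nat_lit 959320704) (nat_lit 3) (nat_lit 4) (nat_lit 4) (nat_lit 5) (nat_lit 4) (nat_lit 4) (nat_lit 301) (nat_lit 226) (nat_lit 193)) (XT.lf (nat_lit 0) (nat_lit 890611476) (nat_lit 152) (nat_lit 3386059155) (nat_lit 76) (nat_lit 153292038101) (nat_lit 2) (nat_lit 5) (nat_lit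 4) (nat_lit 5) (nat_lit 3) (nat_lit 4) (nat_lit 302) (nat_lit 226) (nat_lit 192)))) (XT.nd (nat_lit 78) (nat_lit 0) (nat_lit 0) (XT.lf (nat_lit 0) (nat_lit 615194410) (nat_lit 76) (nat_lit 2213797643) (nat_lit 152) (nat_lit 167159205836) (nat_lit 1) (nat_lit 5) (nat_lit 2) (nat_lit 5) (nat_lit 3) (nat_lit 4) (nat_lit 303) (nat_lit 226) (nat_lit 191)) (XT.nd (nat_lit 78) (nat_lit 0) (nat_lit 0) (XT.lf (nat_lit 0) (nat_lit 4995490155) (nat_lit 152) (nat_lit 178309471277) (nat_lit 0) (nat_lit 90469733) (nat_lit 1) (nat_lit 5) (nat_lit 3) (nat_lit 4) (nat_lit 1) (nat_lit 4) (nat_lit 304) (nat_lit 226) (nat_lit 190)) (XT.lf (nat_lit 0) (nat_lit 7372181837) (nat_lit 152) (nat_lit 188057250409) (nat_lit 0) (nat_lit 2442887586) (nat_lit 1) (nat_lit 5) (nat_lit 3) (nat_lit 4) (nat_lit 1) (nat_lit 4) (nat_lit 305) (nat_lit 226) (nat_lit 189))))) (XT.nd (nat_lit 234) (nat_lit 0) (nat_lit 0) (XT.nd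 (nat_lit 78) (nat_lit 0) (nat_lit 0) (XT.lf (nat_lit 0) (nat_lit 9919909310) (nat_lit 152) (nat_lit 198620863605) (nat_lit 0) (nat_lit 4968139291) (nat_lit 1) (nat_lit 5) (nat_lit 3) (nat_lit 4) (nat_lit 1) (nat_lit 4) (nat_lit 306) (nat_lit 226) (nat_lit 188)) (XT.nd (nat_lit 78) (nat_lit 0) (nat_lit 0) (XT.lf (nat_lit 0) (nat_lit 12653770219) (nat_lit 152) (nat_lit 210062910056) (nat_lit 0) (nat_lit 7681189304) (nat_lit 1) (nat_lit 5) (nat_lit 3) (nat_lit 4) (nat_lit 1) (nat_lit 4) (nat_lit 307) (nat_lit 226) (nat_lit 187)) (XT.lf (nat_lit 0) (nat_lit 15589965222) (nat_lit 152) (nat_lit 222451194481) (nat_lit 0) (nat_lit 10598114959) (nat_lit 1) (nat_lit 5) (nat_lit 3) (nat_lit 4) (nat_lit 1) (nat_lit 4) (nat_lit 308) (nat_lit 226) (nat_lit 186)))) (XT.nd (nat_lit 156) (nat_lit 0) (nat_lit 0) (XT.nd (nat_lit 78) (nat_lit 0) (nat_lit 0) (XT.lf (nat_lit 0) (nat_lit 18745893992) (nat_lit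 152) (nat_lit 235859128935) (nat_lit 0) (nat_lit 13736201740) (nat_lit 1) (nat_lit 5) (nat_lit 3) (nat_lit 4) (nat_lit 1) (nat_lit 4) (nat_lit 309) (nat_lit 226) (nat_lit 185)) (XT.lf (nat_lit 0) (nat_lit 22140258329) (nat_lit 152) (nat_lit 250366167845) (nat_lit 0) (nat_lit 17114045717) (nat_lit 1) (nat_lit 5) (nat_lit 3) (nat_lit 4) (nat_lit 1) (nat_lit 4) (nat_lit 310) (nat_lit 226) (nat_lit 184))) (XT.nd (nat_lit 78) (nat_lit 0) (nat_lit 0) (XT.lf (nat_lit 0) (nat_lit 25793172986) (nat_lit 152) (nat_lit 266058278849) (nat_lit 0) (nat_lit 20751663743) (nat_lit 1) (nat_lit 5) (nat_lit 3) (nat_lit 4) (nat_lit 1) (nat_lit 4) (nat_lit 311) (nat_lit 226) (nat_lit 183)) (XT.lf (nat_lit 0) (nat_lit 29726284863) (nat_lit 152) (nat_lit 283028452234) (nat_lit 0) (nat_lit 24670612075) (nat_lit 1) (nat_lit 5) (nat_lit 3) (nat_lit 4) (nat_lit 1) (nat_lit 4) (nat_lit 312) (nat_lit 226) (nat_lit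 182)))))) (XT.nd (nat_lit 468) (nat_lit 0) (nat_lit 0) (XT.nd (nat_lit 234) (nat_lit 0) (nat_lit 0) (XT.nd (nat_lit 78) (nat_lit 0) (nat_lit 0) (XT.lf (nat_lit 0) (nat_lit 33962901291) (nat_lit 152) (nat_lit 301377251991) (nat_lit 0) (nat_lit 28894114108) (nat_lit 1) (nat_lit 5) (nat_lit 3) (nat_lit 4) (nat_lit 1) (nat_lit 4) (nat_lit 313) (nat_lit 226) (nat_lit 181)) (XT.nd (nat_lit 78) (nat_lit 0) (nat_lit 0) (XT.lf (nat_lit 0) (nat_lit 38528128144) (nat_lit 152) (nat_lit 321213411748) (nat_lit 0) (nat_lit 33447198003) (nat_lit 1) (nat_lit 5) (nat_lit 3) (nat_lit 4) (nat_lit 1) (nat_lit 4) (nat_lit 314) (nat_lit 226) (nat_lit 180)) (XT.lf (nat_lit 0) (nat_lit 43449018620) (nat_lit 152) (nat_lit 342654479119) (nat_lit 0) (nat_lit 38356844999) (nat_lit 1) (nat_lit 5) (nat_lit 3) (nat_lit 4) (nat_lit 1) (nat_lit 4) (nat_lit 315) (nat_lit 226) (nat_lit 179)))) (XT.nd (nat_lit 78) (nat_lit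 0) (nat_lit 0) (XT.lf (nat_lit 0) (nat_lit 48754733549) (nat_lit 152) (nat_lit 365827512280) (nat_lit 0) (nat_lit 43652149299) (nat_lit 1) (nat_lit 5) (nat_lit 3) (nat_lit 4) (nat_lit 1) (nat_lit 4) (nat_lit 316) (nat_lit 226) (nat_lit 178)) (XT.nd (nat_lit 78) (nat_lit 0) (nat_lit 0) (XT.lf (nat_lit 0) (nat_lit 54476714206) (nat_lit 152) (nat_lit 390869832909) (nat_lit 0) (nat_lit 49364490485) (nat_lit 1) (nat_lit 5) (nat_lit 3) (nat_lit 4) (nat_lit 1) (nat_lit 4) (nat_lit 317) (nat_lit 226) (nat_lit 177)) (XT.lf (nat_lit 0) (nat_lit 60648868625) (nat_lit 152) (nat_lit 417929839944) (nat_lit 0) (nat_lit 55527719466) (nat_lit 1) (nat_lit 5) (nat_lit 3) (nat_lit 4) (nat_lit 1) (nat_lit 4) (nat_lit 318) (nat_lit 226) (nat_lit 176))))) (XT.nd (nat_lit 234) (nat_lit 0) (nat_lit 0) (XT.nd (nat_lit 78) (nat_lit 0) (nat_lit 0) (XT.lf (nat_lit 0) (nat_lit 67307772534) (nat_lit 152) (nat_lit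 447167888982) (nat_lit 0) (nat_lit 62178359083) (nat_lit 1) (nat_lit 5) (nat_lit 3) (nat_lit 4) (nat_lit 1) (nat_lit 4) (nat_lit 319) (nat_lit 226) (nat_lit 175)) (XT.nd (nat_lit 78) (nat_lit 0) (nat_lit 0) (XT.lf (nat_lit 0) (nat_lit 74492886107) (nat_lit 152) (nat_lit 478757242535) (nat_lit 0) (nat_lit 69355820532) (nat_lit 1) (nat_lit 5) (nat_lit 3) (nat_lit 4) (nat_lit 1) (nat_lit 4) (nat_lit 320) (nat_lit 226) (nat_lit 174)) (XT.lf (nat_lit 0) (nat_lit 82246787792) (nat_lit 152) (nat_lit 512885096772) (nat_lit 0) (nat_lit 77102636918) (nat_lit 1) (nat_lit 5) (nat_lit 3) (nat_lit 4) (nat_lit 1) (nat_lit 4) (nat_lit 321) (nat_lit 226) (nat_lit 173)))) (XT.nd (nat_lit 156) (nat_lit 0) (nat_lit 0) (XT.nd (nat_lit 78) (nat_lit 0) (nat_lit 0) (XT.lf (nat_lit 0) (nat_lit 90615426638) (nat_lit 152) (nat_lit 549753690831) (nat_lit 0) (nat_lit 85464715302) (nat_lit 1) (nat_lit 5) (nat_lit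 3) (nat_lit 4) (nat_lit 1) (nat_lit 4) (nat_lit 322) (nat_lit 226) (nat_lit 172)) (XT.lf (nat_lit 0) (nat_lit 99648394579) (nat_lit 152) (nat_lit 589581505268) (nat_lit 0) (nat_lit 94491608740) (nat_lit 1) (nat_lit 5) (nat_lit 3) (nat_lit 4) (nat_lit 1) (nat_lit 4) (nat_lit 323) (nat_lit 226) (nat_lit 171))) (XT.nd (nat_lit 78) (nat_lit 0) (nat_lit 0) (XT.lf (nat_lit 0) (nat_lit 109399220312) (nat_lit 152) (nat_lit 632604556762) (nat_lit 0) (nat_lit 104236809935) (nat_lit 1) (nat_lit 5) (nat_lit 3) (nat_lit 4) (nat_lit 1) (nat_lit 4) (nat_lit 324) (nat_lit 226) (nat_lit 170)) (XT.lf (nat_lit 0) (nat_lit 119925686510) (nat_lit 152) (nat_lit 679077796728) (nat_lit 0) (nat_lit 114758068226) (nat_lit 1) (nat_lit 5) (nat_lit 3) (nat_lit 4) (nat_lit 1) (nat_lit 4) (nat_lit 325) (nat_lit 226) (nat_lit 169))))))) (XT.nd (nat_lit 1014) (nat_lit 0) (nat_lit 0) (XT.nd (nat_lit 468) (nat_lit 0)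 (nat_lit 0) (XT.nd (nat_lit 234) (nat_lit 0) (nat_lit 0) (XT.nd (nat_lit 78) (nat_lit 0) (nat_lit 0) (XT.lf (nat_lit 0) (nat_lit 131290172231) (nat_lit 152) (nat_lit 729276622144) (nat_lit 0) (nat_lit 126117731811) (nat_lit 1) (nat_lit 5) (nat_lit 3) (nat_lit 4) (nat_lit 1) (nat_lit 4) (nat_lit 326) (nat_lit 226) (nat_lit 168)) (XT.nd (nat_lit 78) (nat_lit 0) (nat_lit 0) (XT.lf (nat_lit 0) (nat_lit 143560022576) (nat_lit 152) (nat_lit 783498507532) (nat_lit 0) (nat_lit 138383117216) (nat_lit 1) (nat_lit 5) (nat_lit 3) (nat_lit 4) (nat_lit 1) (nat_lit 4) (nat_lit 327) (nat_lit 226) (nat_lit 167)) (XT.lf (nat_lit 0) (nat_lit 156807947768) (nat_lit 152) (nat_lit 842064767768) (nat_lit 0) (nat_lit 151626908204) (nat_lit 1) (nat_lit 5) (nat_lit 3) (nat_lit 4) (nat_lit 1) (nat_lit 4) (nat_lit 328) (nat_lit 226) (nat_lit 166)))) (XT.nd (nat_lit 78) (nat_lit 0) (nat_lit 0) (XT.lf (nat_lit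 0) (nat_lit 171112454033) (nat_lit 152) (nat_lit 905322462171) (nat_lit 0) (nat_lit 165927586501) (nat_lit 1) (nat_lit 5) (nat_lit 3) (nat_lit 4) (nat_lit 1) (nat_lit 4) (nat_lit 329) (nat_lit 226) (nat_lit 165)) (XT.nd (nat_lit 78) (nat_lit 0) (nat_lit 0) (XT.lf (nat_lit 0) (nat_lit 186558308812) (nat_lit 152) (nat_lit 973646451152) (nat_lit 0) (nat_lit 181369896868) (nat_lit 1) (nat_lit 5) (nat_lit 3) (nat_lit 4) (nat_lit 1) (nat_lit 4) (nat_lit 330) (nat_lit 226) (nat_lit 164)) (XT.lf (nat_lit 0) (nat_lit 203237043100) (nat_lit 152) (nat_lit 1047441617611) (nat_lit 0) (nat_lit 198045349290) (nat_lit 1) (nat_lit 5) (nat_lit 3) (nat_lit 4) (nat_lit 1) (nat_lit 4) (nat_lit 331) (nat_lit 226) (nat_lit 163))))) (XT.nd (nat_lit 234) (nat_lit 0) (nat_lit 0) (XT.nd (nat_lit 78) (nat_lit 0) (nat_lit 0) (XT.lf (nat_lit 0) (nat_lit 221247493838) (nat_lit 152) (nat_lit 1127145266236) (nat_lit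 0) (nat_lit 216052761265) (nat_lit 1) (nat_lit 5) (nat_lit 3) (nat_lit 4) (nat_lit 1) (nat_lit 4) (nat_lit 332) (nat_lit 226) (nat_lit 162)) (XT.nd (nat_lit 78) (nat_lit 0) (nat_lit 0) (XT.lf (nat_lit 0) (nat_lit 240696389624) (nat_lit 152) (nat_lit 1213229714945) (nat_lit 0) (nat_lit 235498843381) (nat_lit 1) (nat_lit 5) (nat_lit 3) (nat_lit 4) (nat_lit 1) (nat_lit 4) (nat_lit 333) (nat_lit 226) (nat_lit 161)) (XT.lf (nat_lit 0) (nat_lit 261698983174) (nat_lit 152) (nat_lit 1306205093806) (nat_lit 0) (nat_lit 256498831682) (nat_lit 1) (nat_lit 5) (nat_lit 3) (nat_lit 4) (nat_lit 1) (nat_lit 4) (nat_lit 334) (nat_lit 226) (nat_lit 160)))) (XT.nd (nat_lit 156) (nat_lit 0) (nat_lit 0) (XT.nd (nat_lit 78) (nat_lit 0) (nat_lit 0) (XT.lf (nat_lit 0) (nat_lit 284379734302) (nat_lit 152) (nat_lit 1406622368025) (nat_lit 0) (nat_lit 279177170541) (nat_lit 1) (nat_lit 5) (nat_lit 3) (nat_lit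 4) (nat_lit 1) (nat_lit 4) (nat_lit 335) (nat_lit 226) (nat_lit 159)) (XT.lf (nat_lit 0) (nat_lit 308873047458) (nat_lit 152) (nat_lit 1515076602932) (nat_lit 0) (nat_lit 303668250115) (nat_lit 1) (nat_lit 5) (nat_lit 3) (nat_lit 4) (nat_lit 1) (nat_lit 4) (nat_lit 336) (nat_lit 226) (nat_lit 158))) (XT.nd (nat_lit 78) (nat_lit 0) (nat_lit 0) (XT.lf (nat_lit 0) (nat_lit 335324068202) (nat_lit 152) (nat_lit 1632210490289) (nat_lit 0) (nat_lit 330117202728) (nat_lit 1) (nat_lit 5) (nat_lit 3) (nat_lit 4) (nat_lit 1) (nat_lit 4) (nat_lit 337) (nat_lit 226) (nat_lit 157)) (XT.lf (nat_lit 0) (nat_lit 363889543324) (nat_lit 152) (nat_lit 1758718156836) (nat_lit 0) (nat_lit 358680762913) (nat_lit 1) (nat_lit 5) (nat_lit 3) (nat_lit 4) (nat_lit 1) (nat_lit 4) (nat_lit 338) (nat_lit 226) (nat_lit 156)))))) (XT.nd (nat_lit 32058) (nat_lit 0) (nat_lit 380) (XT.nd (nat_lit 31824) (nat_lit 0) (nat_lit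 684) (XT.nd (nat_lit 78) (nat_lit 0) (nat_lit 0) (XT.lf (nat_lit 0) (nat_lit 394738749713) (nat_lit 152) (nat_lit 1895349277633) (nat_lit 0) (nat_lit 389528196213) (nat_lit 1) (nat_lit 5) (nat_lit 3) (nat_lit 4) (nat_lit 1) (nat_lit 4) (nat_lit 339) (nat_lit 226) (nat_lit 155)) (XT.nd (nat_lit 78) (nat_lit 0) (nat_lit 0) (XT.lf (nat_lit 0) (nat_lit 428054497481) (nat_lit 152) (nat_lit 2042913518583) (nat_lit 0) (nat_lit 422842302232) (nat_lit 1) (nat_lit 5) (nat_lit 3) (nat_lit 4) (nat_lit 1) (nat_lit 4) (nat_lit 340) (nat_lit 226) (nat_lit 154)) (XT.lf (nat_lit 0) (nat_lit 464034213282) (nat_lit 152) (nat_lit 2202285334446) (nat_lit 0) (nat_lit 458820497895) (nat_lit 1) (nat_lit 5) (nat_lit 3) (nat_lit 4) (nat_lit 1) (nat_lit 4) (nat_lit 341) (nat_lit 226) (nat_lit 153)))) (XT.nd (nat_lit 78) (nat_lit 152) (nat_lit 0) (XT.lf (nat_lit 0) (nat_lit 3485993036) (nat_lit 152) (nat_lit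 1581446068) (nat_lit 152) (nat_lit 1581446068) (nat_lit 12) (nat_lit 4) (nat_lit 14) (nat_lit 5) (nat_lit 14) (nat_lit 4) (nat_lit 266) (nat_lit 227) (nat_lit 227)) (XT.nd (nat_lit 78) (nat_lit 0) (nat_lit 0) (XT.lf (nat_lit 0) (nat_lit 328538235) (nat_lit 76) (nat_lit 103222603) (nat_lit 152) (nat_lit 13585712536) (nat_lit 10) (nat_lit 5) (nat_lit 11) (nat_lit 5) (nat_lit 12) (nat_lit 4) (nat_lit 267) (nat_lit 227) (nat_lit 226)) (XT.lf (nat_lit 0) (nat_lit 4177970160) (nat_lit 152) (nat_lit 7445599283) (nat_lit 0) (nat_lit 3162357537) (nat_lit 10) (nat_lit 5) (nat_lit 12) (nat_lit 4) (nat_lit 10) (nat_lit 4) (nat_lit 268) (nat_lit 227) (nat_lit 225))))) (XT.nd (nat_lit 234) (nat_lit 228) (nat_lit 0) (XT.nd (nat_lit 78) (nat_lit 76) (nat_lit 0) (XT.lf (nat_lit 0) (nat_lit 8023244772) (nat_lit 152) (nat_lit 1053633131) (nat_lit 0) (nat_lit 6555525390) (nat_lit 10) (nat_lit 5) (nat_lit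 12) (nat_lit 4) (nat_lit 10) (nat_lit 4) (nat_lit 269) (nat_lit 227) (nat_lit 224)) (XT.nd (nat_lit 78) (nat_lit 0) (nat_lit 0) (XT.lf (nat_lit 0) (nat_lit 5818383235) (nat_lit 76) (nat_lit 6309438002) (nat_lit 76) (nat_lit 4423101251) (nat_lit 9) (nat_lit 4) (nat_lit 10) (nat_lit 5) (nat_lit 10) (nat_lit 4) (nat_lit 270) (nat_lit 227) (nat_lit 223)) (XT.lf (nat_lit 0) (nat_lit 12985876958) (nat_lit 76) (nat_lit 3421830670) (nat_lit 76) (nat_lit 1147885243) (nat_lit 9) (nat_lit 4) (nat_lit 10) (nat_lit 5) (nat_lit 10) (nat_lit 4) (nat_lit 271) (nat_lit 227) (nat_lit 222)))) (XT.nd (nat_lit 156) (nat_lit 76) (nat_lit 0) (XT.nd (nat_lit 78) (nat_lit 0) (nat_lit 0) (XT.lf (nat_lit 0) (nat_lit 1819264023) (nat_lit 76) (nat_lit 321171731) (nat_lit 152) (nat_lit 16506319516) (nat_lit 7) (nat_lit 5) (nat_lit 8) (nat_lit 5) (nat_lit 9) (nat_lit 4) (nat_lit 272) (nat_lit 227) (nat_lit 221))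 (XT.lf (nat_lit 0) (nat_lit 5660434056) (nat_lit 152) (nat_lit 11245357908) (nat_lit 0) (nat_lit 2914920805) (nat_lit 7) (nat_lit 5) (nat_lit 9) (nat_lit 4) (nat_lit 7) (nat_lit 4) (nat_lit 273) (nat_lit 227) (nat_lit 220))) (XT.nd (nat_lit 78) (nat_lit 76) (nat_lit 0) (XT.lf (nat_lit 0) (nat_lit 9312620085) (nat_lit 152) (nat_lit 5506029371) (nat_lit 0) (nat_lit 6282202885) (nat_lit 7) (nat_lit 5) (nat_lit 9) (nat_lit 4) (nat_lit 7) (nat_lit 4) (nat_lit 274) (nat_lit 227) (nat_lit 219)) (XT.lf (nat_lit 0) (nat_lit 454989819) (nat_lit 76) (nat_lit 12666864932) (nat_lit 76) (nat_lit 9372647781) (nat_lit 6) (nat_lit 4) (nat_lit 7) (nat_lit 5) (nat_lit 7) (nat_lit 4) (nat_lit 275) (nat_lit 227) (nat_lit 218))))))))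
noncomputable def xc28 : XT := (XT.nd (nat_lit 1950) (nat_lit 152) (nat_lit 0) (XT.nd (nat_lit 936) (nat_lit 0) (nat_lit 0) (XT.nd (nat_lit 468) (nat_lit 76) (nat_lit 0) (XT.nd (nat_lit 234) (nat_lit 152) (nat_lit 0) (XT.nd (nat_lit 78) (nat_lit 0) (nat_lit 0) (XT.lf (nat_lit 0) (nat_lit 6952395002) (nat_lit 76) (nat_lit 10292629172) (nat_lit 76) (nat_lit 6754152807) (nat_lit 6) (nat_lit 4) (nat_lit 7) (nat_lit 5) (nat_lit 7) (nat_lit 4) (nat_lit 276) (nat_lit 227) (nat_lit 217)) (XT.nd (nat_lit 78) (nat_lit 0) (nat_lit 0) (XT.lf (nat_lit 0) (nat_lit 13734751568) (nat_lit 76) (nat_lit 7832417231) (nat_lit 76) (nat_lit 4067774927) (nat_lit 6) (nat_lit 4) (nat_lit 7) (nat_lit 5) (nat_lit 7) (nat_lit 4) (nat_lit 277) (nat_lit 227) (nat_lit 216)) (XT.lf (nat_lit 0) (nat_lit 20842251260) (nat_lit 76) (nat_lit 5271650077) (nat_lit 76) (nat_lit 1297594866) (nat_lit 6) (nat_lit 4) (nat_lit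 7) (nat_lit 5) (nat_lit 7) (nat_lit 4) (nat_lit 278) (nat_lit 227) (nat_lit 215)))) (XT.nd (nat_lit 78) (nat_lit 76) (nat_lit 0) (XT.lf (nat_lit 0) (nat_lit 1494125268) (nat_lit 152) (nat_lit 1060175490) (nat_lit 76) (nat_lit 26782035294) (nat_lit 5) (nat_lit 5) (nat_lit 7) (nat_lit 5) (nat_lit 6) (nat_lit 4) (nat_lit 279) (nat_lit 227) (nat_lit 214)) (XT.nd (nat_lit 78) (nat_lit 0) (nat_lit 0) (XT.lf (nat_lit 0) (nat_lit 4461402668) (nat_lit 152) (nat_lit 26513515200) (nat_lit 0) (nat_lit 435945386) (nat_lit 4) (nat_lit 5) (nat_lit 6) (nat_lit 4) (nat_lit 4) (nat_lit 4) (nat_lit 280) (nat_lit 227) (nat_lit 213)) (XT.lf (nat_lit 0) (nat_lit 7656750377) (nat_lit 152) (nat_lit 22518147682) (nat_lit 0) (nat_lit 3477368357) (nat_lit 4) (nat_lit 5) (nat_lit 6) (nat_lit 4) (nat_lit 4) (nat_lit 4) (nat_lit 281) (nat_lit 227) (nat_lit 212))))) (XT.nd (nat_lit 234) (nat_lit 76) (nat_lit 0)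 (XT.nd (nat_lit 78) (nat_lit 0) (nat_lit 0) (XT.lf (nat_lit 0) (nat_lit 11010135769) (nat_lit 152) (nat_lit 18382578758) (nat_lit 0) (nat_lit 6688230844) (nat_lit 4) (nat_lit 5) (nat_lit 6) (nat_lit 4) (nat_lit 4) (nat_lit 4) (nat_lit 282) (nat_lit 227) (nat_lit 211)) (XT.nd (nat_lit 78) (nat_lit 0) (nat_lit 0) (XT.lf (nat_lit 0) (nat_lit 14541430758) (nat_lit 152) (nat_lit 14082301352) (nat_lit 0) (nat_lit 10087560179) (nat_lit 4) (nat_lit 5) (nat_lit 6) (nat_lit 4) (nat_lit 4) (nat_lit 4) (nat_lit 283) (nat_lit 227) (nat_lit 210)) (XT.lf (nat_lit 0) (nat_lit 18271561536) (nat_lit 152) (nat_lit 9591832340) (nat_lit 0) (nat_lit 13695500538) (nat_lit 4) (nat_lit 5) (nat_lit 6) (nat_lit 4) (nat_lit 4) (nat_lit 4) (nat_lit 284) (nat_lit 227) (nat_lit 209)))) (XT.nd (nat_lit 78) (nat_lit 76) (nat_lit 0) (XT.lf (nat_lit 0) (nat_lit 22222632582) (nat_lit 152) (nat_lit 4884561535) (nat_lit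 0) (nat_lit 17533432306) (nat_lit 4) (nat_lit 5) (nat_lit 6) (nat_lit 4) (nat_lit 4) (nat_lit 4) (nat_lit 285) (nat_lit 227) (nat_lit 208)) (XT.nd (nat_lit 78) (nat_lit 0) (nat_lit 0) (XT.lf (nat_lit 0) (nat_lit 70955481) (nat_lit 76) (nat_lit 26348808649) (nat_lit 76) (nat_lit 21554849783) (nat_lit 3) (nat_lit 4) (nat_lit 4) (nat_lit 5) (nat_lit 4) (nat_lit 4) (nat_lit 286) (nat_lit 227) (nat_lit 207)) (XT.lf (nat_lit 0) (nat_lit 5572157128) (nat_lit 76) (nat_lit 25444551902) (nat_lit 76) (nat_lit 20553594341) (nat_lit 3) (nat_lit 4) (nat_lit 4) (nat_lit 5) (nat_lit 4) (nat_lit 4) (nat_lit 287) (nat_lit 227) (nat_lit 206)))))) (XT.nd (nat_lit 468) (nat_lit 0) (nat_lit 0) (XT.nd (nat_lit 234) (nat_lit 0) (nat_lit 0) (XT.nd (nat_lit 78) (nat_lit 0) (nat_lit 0) (XT.lf (nat_lit 0) (nat_lit 11394430765) (nat_lit 76) (nat_lit 24522617886) (nat_lit 76) (nat_lit 19541846719) (nat_lit 3) (nat_lit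 4) (nat_lit 4) (nat_lit 5) (nat_lit 4) (nat_lit 4) (nat_lit 288) (nat_lit 227) (nat_lit 205)) (XT.nd (nat_lit 78) (nat_lit 0) (nat_lit 0) (XT.lf (nat_lit 0) (nat_lit 17572278753) (nat_lit 76) (nat_lit 23577543288) (nat_lit 76) (nat_lit 18513611375) (nat_lit 3) (nat_lit 4) (nat_lit 4) (nat_lit 5) (nat_lit 4) (nat_lit 4) (nat_lit 289) (nat_lit 227) (nat_lit 204)) (XT.lf (nat_lit 0) (nat_lit 24142310562) (nat_lit 76) (nat_lit 22603727667) (nat_lit 76) (nat_lit 17462795063) (nat_lit 3) (nat_lit 4) (nat_lit 4) (nat_lit 5) (nat_lit 4) (nat_lit 4) (nat_lit 290) (nat_lit 227) (nat_lit 203)))) (XT.nd (nat_lit 78) (nat_lit 0) (nat_lit 0) (XT.lf (nat_lit 0) (nat_lit 31143459714) (nat_lit 76) (nat_lit 21595400264) (nat_lit 76) (nat_lit 16383170723) (nat_lit 3) (nat_lit 4) (nat_lit 4) (nat_lit 5) (nat_lit 4) (nat_lit 4) (nat_lit 291) (nat_lit 227) (nat_lit 202)) (XT.nd (nat_lit 78) (nat_lit 0)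 (nat_lit 0) (XT.lf (nat_lit 0) (nat_lit 38617214500) (nat_lit 76) (nat_lit 20546585804) (nat_lit 76) (nat_lit 15268340581) (nat_lit 3) (nat_lit 4) (nat_lit 4) (nat_lit 5) (nat_lit 4) (nat_lit 4) (nat_lit 292) (nat_lit 227) (nat_lit 201)) (XT.lf (nat_lit 0) (nat_lit 46607863838) (nat_lit 76) (nat_lit 19451069090) (nat_lit 76) (nat_lit 14111698237) (nat_lit 3) (nat_lit 4) (nat_lit 4) (nat_lit 5) (nat_lit 4) (nat_lit 4) (nat_lit 293) (nat_lit 227) (nat_lit 200))))) (XT.nd (nat_lit 234) (nat_lit 0) (nat_lit 0) (XT.nd (nat_lit 78) (nat_lit 0) (nat_lit 0) (XT.lf (nat_lit 0) (nat_lit 55162759723) (nat_lit 76) (nat_lit 18302358173) (nat_lit 76) (nat_lit 12906389513) (nat_lit 3) (nat_lit 4) (nat_lit 4) (nat_lit 5) (nat_lit 4) (nat_lit 4) (nat_lit 294) (nat_lit 227) (nat_lit 199)) (XT.nd (nat_lit 78) (nat_lit 0) (nat_lit 0) (XT.lf (nat_lit 0) (nat_lit 64332597835) (nat_lit 76) (nat_lit 17093645876)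 (nat_lit 76) (nat_lit 11645271840) (nat_lit 3) (nat_lit 4) (nat_lit 4) (nat_lit 5) (nat_lit 4) (nat_lit 4) (nat_lit 295) (nat_lit 227) (nat_lit 198)) (XT.lf (nat_lit 0) (nat_lit 74171717955) (nat_lit 76) (nat_lit 15817769460) (nat_lit 76) (nat_lit 10320871927) (nat_lit 3) (nat_lit 4) (nat_lit 4) (nat_lit 5) (nat_lit 4) (nat_lit 4) (nat_lit 296) (nat_lit 227) (nat_lit 197)))) (XT.nd (nat_lit 156) (nat_lit 0) (nat_lit 0) (XT.nd (nat_lit 78) (nat_lit 0) (nat_lit 0) (XT.lf (nat_lit 0) (nat_lit 84738425981) (nat_lit 76) (nat_lit 14467168175) (nat_lit 76) (nat_lit 8925341478) (nat_lit 3) (nat_lit 4) (nat_lit 4) (nat_lit 5) (nat_lit 4) (nat_lit 4) (nat_lit 297) (nat_lit 227) (nat_lit 196)) (XT.lf (nat_lit 0) (nat_lit 96095339441) (nat_lit 76) (nat_lit 13033838459) (nat_lit 76) (nat_lit 7450410684) (nat_lit 3) (nat_lit 4) (nat_lit 4) (nat_lit 5) (nat_lit 4) (nat_lit 4) (nat_lit 298) (nat_lit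 227) (nat_lit 195))) (XT.nd (nat_lit 78) (nat_lit 0) (nat_lit 0) (XT.lf (nat_lit 0) (nat_lit 108309758563) (nat_lit 76) (nat_lit 11509286505) (nat_lit 76) (nat_lit 5887339214) (nat_lit 3) (nat_lit 4) (nat_lit 4) (nat_lit 5) (nat_lit 4) (nat_lit 4) (nat_lit 299) (nat_lit 227) (nat_lit 194)) (XT.lf (nat_lit 0) (nat_lit 121454065090) (nat_lit 76) (nat_lit 9884477932) (nat_lit 76) (nat_lit 4226864423) (nat_lit 3) (nat_lit 4) (nat_lit 4) (nat_lit 5) (nat_lit 4) (nat_lit 4) (nat_lit 300) (nat_lit 227) (nat_lit 193))))))) (XT.nd (nat_lit 1014) (nat_lit 0) (nat_lit 0) (XT.nd (nat_lit 468) (nat_lit 0) (nat_lit 0) (XT.nd (nat_lit 234) (nat_lit 76) (nat_lit 0) (XT.nd (nat_lit 78) (nat_lit 76) (nat_lit 0) (XT.lf (nat_lit 0) (nat_lit 135606151209) (nat_lit 76) (nat_lit 8149784245) (nat_lit 76) (nat_lit 2459146459) (nat_lit 3) (nat_lit 4) (nat_lit 4) (nat_lit 5) (nat_lit 4) (nat_lit 4) (nat_lit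 301) (nat_lit 227) (nat_lit 192)) (XT.nd (nat_lit 78) (nat_lit 76) (nat_lit 0) (XT.lf (nat_lit 0) (nat_lit 150849881134) (nat_lit 76) (nat_lit 6294925777) (nat_lit 76) (nat_lit 573709956) (nat_lit 3) (nat_lit 4) (nat_lit 4) (nat_lit 5) (nat_lit 4) (nat_lit 4) (nat_lit 302) (nat_lit 227) (nat_lit 191)) (XT.lf (nat_lit 0) (nat_lit 1368552491) (nat_lit 152) (nat_lit 2902939631) (nat_lit 76) (nat_lit 165869616938) (nat_lit 2) (nat_lit 5) (nat_lit 4) (nat_lit 5) (nat_lit 3) (nat_lit 4) (nat_lit 303) (nat_lit 227) (nat_lit 190)))) (XT.nd (nat_lit 78) (nat_lit 0) (nat_lit 0) (XT.lf (nat_lit 0) (nat_lit 1399325504) (nat_lit 76) (nat_lit 2050227406) (nat_lit 152) (nat_lit 180105642043) (nat_lit 1) (nat_lit 5) (nat_lit 2) (nat_lit 5) (nat_lit 3) (nat_lit 4) (nat_lit 304) (nat_lit 227) (nat_lit 189)) (XT.nd (nat_lit 78) (nat_lit 0) (nat_lit 0) (XT.lf (nat_lit 0) (nat_lit 5767754101) (nat_lit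 152) (nat_lit 191871653896) (nat_lit 0) (nat_lit 397366713) (nat_lit 1) (nat_lit 5) (nat_lit 3) (nat_lit 4) (nat_lit 1) (nat_lit 4) (nat_lit 305) (nat_lit 227) (nat_lit 188)) (XT.lf (nat_lit 0) (nat_lit 8306979285) (nat_lit 152) (nat_lit 202451297958) (nat_lit 0) (nat_lit 2915781001) (nat_lit 1) (nat_lit 5) (nat_lit 3) (nat_lit 4) (nat_lit 1) (nat_lit 4) (nat_lit 306) (nat_lit 227) (nat_lit 187))))) (XT.nd (nat_lit 234) (nat_lit 0) (nat_lit 0) (XT.nd (nat_lit 78) (nat_lit 0) (nat_lit 0) (XT.lf (nat_lit 0) (nat_lit 11032967704) (nat_lit 152) (nat_lit 213908187802) (nat_lit 0) (nat_lit 5622500071) (nat_lit 1) (nat_lit 5) (nat_lit 3) (nat_lit 4) (nat_lit 1) (nat_lit 4) (nat_lit 307) (nat_lit 227) (nat_lit 186)) (XT.nd (nat_lit 78) (nat_lit 0) (nat_lit 0) (XT.lf (nat_lit 0) (nat_lit 13961873364) (nat_lit 152) (nat_lit 226310216108) (nat_lit 0) (nat_lit 8533563742) (nat_lit 1) (nat_lit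 5) (nat_lit 3) (nat_lit 4) (nat_lit 1) (nat_lit 4) (nat_lit 308) (nat_lit 227) (nat_lit 185)) (XT.lf (nat_lit 0) (nat_lit 17111052742) (nat_lit 152) (nat_lit 239730876380) (nat_lit 0) (nat_lit 11666222761) (nat_lit 1) (nat_lit 5) (nat_lit 3) (nat_lit 4) (nat_lit 1) (nat_lit 4) (nat_lit 309) (nat_lit 227) (nat_lit 184)))) (XT.nd (nat_lit 156) (nat_lit 0) (nat_lit 0) (XT.nd (nat_lit 78) (nat_lit 0) (nat_lit 0) (XT.lf (nat_lit 0) (nat_lit 20499167643) (nat_lit 152) (nat_lit 254249698454) (nat_lit 0) (nat_lit 15039041032) (nat_lit 1) (nat_lit 5) (nat_lit 3) (nat_lit 4) (nat_lit 1) (nat_lit 4) (nat_lit 310) (nat_lit 227) (nat_lit 183)) (XT.lf (nat_lit 0) (nat_lit 24146295785) (nat_lit 152) (nat_lit 269952719795) (nat_lit 0) (nat_lit 18672005627) (nat_lit 1) (nat_lit 5) (nat_lit 3) (nat_lit 4) (nat_lit 1) (nat_lit 4) (nat_lit 311) (nat_lit 227) (nat_lit 182))) (XT.nd (nat_lit 78) (nat_lit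 0) (nat_lit 0) (XT.lf (nat_lit 0) (nat_lit 28074049778) (nat_lit 152) (nat_lit 286932995344) (nat_lit 0) (nat_lit 22586645225) (nat_lit 1) (nat_lit 5) (nat_lit 3) (nat_lit 4) (nat_lit 1) (nat_lit 4) (nat_lit 312) (nat_lit 227) (nat_lit 181)) (XT.lf (nat_lit 0) (nat_lit 32305705201) (nat_lit 152) (nat_lit 305291148957) (nat_lit 0) (nat_lit 26806157691) (nat_lit 1) (nat_lit 5) (nat_lit 3) (nat_lit 4) (nat_lit 1) (nat_lit 4) (nat_lit 313) (nat_lit 227) (nat_lit 180)))))) (XT.nd (nat_lit 468) (nat_lit 0) (nat_lit 0) (XT.nd (nat_lit 234) (nat_lit 0) (nat_lit 0) (XT.nd (nat_lit 78) (nat_lit 0) (nat_lit 0) (XT.lf (nat_lit 0) (nat_lit 36866338532) (nat_lit 152) (nat_lit 325135969691) (nat_lit 0) (nat_lit 31355547542) (nat_lit 1) (nat_lit 5) (nat_lit 3) (nat_lit 4) (nat_lit 1) (nat_lit 4) (nat_lit 314) (nat_lit 227) (nat_lit 179)) (XT.nd (nat_lit 78) (nat_lit 0) (nat_lit 0) (XT.lf (nat_lit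 0) (nat_lit 41782975746) (nat_lit 152) (nat_lit 346585056485) (nat_lit 0) (nat_lit 36261774127) (nat_lit 1) (nat_lit 5) (nat_lit 3) (nat_lit 4) (nat_lit 1) (nat_lit 4) (nat_lit 315) (nat_lit 227) (nat_lit 178)) (XT.lf (nat_lit 0) (nat_lit 47084752470) (nat_lit 152) (nat_lit 369765515038) (nat_lit 0) (nat_lit 41553911379) (nat_lit 1) (nat_lit 5) (nat_lit 3) (nat_lit 4) (nat_lit 1) (nat_lit 4) (nat_lit 316) (nat_lit 227) (nat_lit 177)))) (XT.nd (nat_lit 78) (nat_lit 0) (nat_lit 0) (XT.lf (nat_lit 0) (nat_lit 52803086641) (nat_lit 152) (nat_lit 394814711031) (nat_lit 0) (nat_lit 47263320114) (nat_lit 1) (nat_lit 5) (nat_lit 3) (nat_lit 4) (nat_lit 1) (nat_lit 4) (nat_lit 317) (nat_lit 227) (nat_lit 176)) (XT.nd (nat_lit 78) (nat_lit 0) (nat_lit 0) (XT.lf (nat_lit 0) (nat_lit 58971864684) (nat_lit 152) (nat_lit 421881084142) (nat_lit 0) (nat_lit 53423833863) (nat_lit 1) (nat_lit 5) (nat_lit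 3) (nat_lit 4) (nat_lit 1) (nat_lit 4) (nat_lit 318) (nat_lit 227) (nat_lit 175)) (XT.lf (nat_lit 0) (nat_lit 65627642319) (nat_lit 152) (nat_lit 451125027696) (nat_lit 0) (nat_lit 60071959375) (nat_lit 1) (nat_lit 5) (nat_lit 3) (nat_lit 4) (nat_lit 1) (nat_lit 4) (nat_lit 319) (nat_lit 227) (nat_lit 174))))) (XT.nd (nat_lit 234) (nat_lit 0) (nat_lit 0) (XT.nd (nat_lit 78) (nat_lit 0) (nat_lit 0) (XT.lf (nat_lit 0) (nat_lit 72809861193) (nat_lit 152) (nat_lit 482719839133) (nat_lit 0) (nat_lit 67247092950) (nat_lit 1) (nat_lit 5) (nat_lit 3) (nat_lit 4) (nat_lit 1) (nat_lit 4) (nat_lit 320) (nat_lit 227) (nat_lit 173)) (XT.nd (nat_lit 78) (nat_lit 0) (nat_lit 0) (XT.lf (nat_lit 0) (nat_lit 80561082603) (nat_lit 152) (nat_lit 516852746968) (nat_lit 0) (nat_lit 74991753897) (nat_lit 1) (nat_lit 5) (nat_lit 3) (nat_lit 4) (nat_lit 1) (nat_lit 4) (nat_lit 321) (nat_lit 227) (nat_lit 172))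 (XT.lf (nat_lit 0) (nat_lit 88927239712) (nat_lit 152) (nat_lit 553726020283) (nat_lit 0) (nat_lit 83351836504) (nat_lit 1) (nat_lit 5) (nat_lit 3) (nat_lit 4) (nat_lit 1) (nat_lit 4) (nat_lit 322) (nat_lit 227) (nat_lit 171)))) (XT.nd (nat_lit 156) (nat_lit 0) (nat_lit 0) (XT.nd (nat_lit 78) (nat_lit 0) (nat_lit 0) (XT.lf (nat_lit 0) (nat_lit 97957909747) (nat_lit 152) (nat_lit 593558167365) (nat_lit 0) (nat_lit 92376882001) (nat_lit 1) (nat_lit 5) (nat_lit 3) (nat_lit 4) (nat_lit 1) (nat_lit 4) (nat_lit 323) (nat_lit 227) (nat_lit 170)) (XT.lf (nat_lit 0) (nat_lit 107706607791) (nat_lit 152) (nat_lit 636585230567) (nat_lit 0) (nat_lit 102120372138) (nat_lit 1) (nat_lit 5) (nat_lit 3) (nat_lit 4) (nat_lit 1) (nat_lit 4) (nat_lit 324) (nat_lit 227) (nat_lit 169))) (XT.nd (nat_lit 78) (nat_lit 0) (nat_lit 0) (XT.lf (nat_lit 0) (nat_lit 118231103906) (nat_lit 152) (nat_lit 683062185078)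 (nat_lit 0) (nat_lit 112640046117) (nat_lit 1) (nat_lit 5) (nat_lit 3) (nat_lit 4) (nat_lit 1) (nat_lit 4) (nat_lit 325) (nat_lit 227) (nat_lit 168)) (XT.lf (nat_lit 0) (nat_lit 129593765476) (nat_lit 152) (nat_lit 733264449888) (nat_lit 0) (nat_lit 123998242747) (nat_lit 1) (nat_lit 5) (nat_lit 3) (nat_lit 4) (nat_lit 1) (nat_lit 4) (nat_lit 326) (nat_lit 227) (nat_lit 167))))))))
noncomputable def xc29 : XT := (XT.nd (nat_lit 33462) (nat_lit 0) (nat_lit 152) (XT.nd (nat_lit 1014) (nat_lit 0) (nat_lit 0) (XT.nd (nat_lit 468) (nat_lit 0) (nat_lit 0) (XT.nd (nat_lit 234) (nat_lit 0) (nat_lit 0) (XT.nd (nat_lit 78) (nat_lit 0) (nat_lit 0) (XT.lf (nat_lit 0) (nat_lit 141861926792) (nat_lit 152) (nat_lit 787489519899) (nat_lit 0) (nat_lit 136262269858) (nat_lit 1) (nat_lit 5) (nat_lit 3) (nat_lit 4) (nat_lit 1) (nat_lit 4) (nat_lit 327) (nat_lit 227) (nat_lit 166)) (XT.nd (nat_lit 78)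 (nat_lit 0) (nat_lit 0) (XT.lf (nat_lit 0) (nat_lit 155108288069) (nat_lit 152) (nat_lit 846058728860) (nat_lit 0) (nat_lit 149504803169) (nat_lit 1) (nat_lit 5) (nat_lit 3) (nat_lit 4) (nat_lit 1) (nat_lit 4) (nat_lit 328) (nat_lit 227) (nat_lit 165)) (XT.lf (nat_lit 0) (nat_lit 169411346263) (nat_lit 152) (nat_lit 909319153564) (nat_lit 0) (nat_lit 163804316950) (nat_lit 1) (nat_lit 5) (nat_lit 3) (nat_lit 4) (nat_lit 1) (nat_lit 4) (nat_lit 329) (nat_lit 227) (nat_lit 164)))) (XT.nd (nat_lit 78) (nat_lit 0) (nat_lit 0) (XT.lf (nat_lit 0) (nat_lit 184855860238) (nat_lit 152) (nat_lit 977645670603) (nat_lit 0) (nat_lit 179245549060) (nat_lit 1) (nat_lit 5) (nat_lit 3) (nat_lit 4) (nat_lit 1) (nat_lit 4) (nat_lit 330) (nat_lit 227) (nat_lit 163)) (XT.nd (nat_lit 78) (nat_lit 0) (nat_lit 0) (XT.lf (nat_lit 0) (nat_lit 201533353039) (nat_lit 152) (nat_lit 1051443177854) (nat_lit 0) (nat_lit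 195920003097) (nat_lit 1) (nat_lit 5) (nat_lit 3) (nat_lit 4) (nat_lit 1) (nat_lit 4) (nat_lit 331) (nat_lit 227) (nat_lit 162)) (XT.lf (nat_lit 0) (nat_lit 219542654252) (nat_lit 152) (nat_lit 1131148993881) (nat_lit 0) (nat_lit 213926490641) (nat_lit 1) (nat_lit 5) (nat_lit 3) (nat_lit 4) (nat_lit 1) (nat_lit 4) (nat_lit 332) (nat_lit 227) (nat_lit 161))))) (XT.nd (nat_lit 234) (nat_lit 0) (nat_lit 0) (XT.nd (nat_lit 78) (nat_lit 0) (nat_lit 0) (XT.lf (nat_lit 0) (nat_lit 238990485664) (nat_lit 152) (nat_lit 1217235449443) (nat_lit 0) (nat_lit 233371716802) (nat_lit 1) (nat_lit 5) (nat_lit 3) (nat_lit 4) (nat_lit 1) (nat_lit 4) (nat_lit 333) (nat_lit 227) (nat_lit 160)) (XT.nd (nat_lit 78) (nat_lit 0) (nat_lit 0) (XT.lf (nat_lit 0) (nat_lit 259992093682) (nat_lit 152) (nat_lit 1310212686500) (nat_lit 0) (nat_lit 254370912552) (nat_lit 1) (nat_lit 5) (nat_lit 3) (nat_lit 4) (nat_lit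 1) (nat_lit 4) (nat_lit 334) (nat_lit 227) (nat_lit 159)) (XT.lf (nat_lit 0) (nat_lit 282671932280) (nat_lit 152) (nat_lit 1410631681273) (nat_lit 0) (nat_lit 277048517568) (nat_lit 1) (nat_lit 5) (nat_lit 3) (nat_lit 4) (nat_lit 1) (nat_lit 4) (nat_lit 335) (nat_lit 227) (nat_lit 158)))) (XT.nd (nat_lit 156) (nat_lit 0) (nat_lit 0) (XT.nd (nat_lit 78) (nat_lit 0) (nat_lit 0) (XT.lf (nat_lit 0) (nat_lit 307164400501) (nat_lit 152) (nat_lit 1519087509284) (nat_lit 0) (nat_lit 301538917658) (nat_lit 1) (nat_lit 5) (nat_lit 3) (nat_lit 4) (nat_lit 1) (nat_lit 4) (nat_lit 336) (nat_lit 227) (nat_lit 157)) (XT.lf (nat_lit 0) (nat_lit 333614638899) (nat_lit 152) (nat_lit 1636222871738) (nat_lit 0) (nat_lit 327987241119) (nat_lit 1) (nat_lit 5) (nat_lit 3) (nat_lit 4) (nat_lit 1) (nat_lit 4) (nat_lit 337) (nat_lit 227) (nat_lit 156))) (XT.nd (nat_lit 78) (nat_lit 0) (nat_lit 0) (XT.lf (nat_lit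 0) (nat_lit 362179389625) (nat_lit 152) (nat_lit 1762731904115) (nat_lit 0) (nat_lit 356550218756) (nat_lit 1) (nat_lit 5) (nat_lit 3) (nat_lit 4) (nat_lit 1) (nat_lit 4) (nat_lit 338) (nat_lit 227) (nat_lit 155)) (XT.lf (nat_lit 0) (nat_lit 393027925278) (nat_lit 152) (nat_lit 1899364289570) (nat_lit 0) (nat_lit 387397112659) (nat_lit 1) (nat_lit 5) (nat_lit 3) (nat_lit 4) (nat_lit 1) (nat_lit 4) (nat_lit 339) (nat_lit 227) (nat_lit 154)))))) (XT.nd (nat_lit 31902) (nat_lit 0) (nat_lit 456) (XT.nd (nat_lit 31668) (nat_lit 0) (nat_lit 760) (XT.nd (nat_lit 78) (nat_lit 0) (nat_lit 0) (XT.lf (nat_lit 0) (nat_lit 426343051993) (nat_lit 152) (nat_lit 2046929701500) (nat_lit 0) (nat_lit 420710719237) (nat_lit 1) (nat_lit 5) (nat_lit 3) (nat_lit 4) (nat_lit 1) (nat_lit 4) (nat_lit 340) (nat_lit 227) (nat_lit 153)) (XT.nd (nat_lit 31512) (nat_lit 0) (nat_lit 988) (XT.lf (nat_lit 0) (nat_lit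 462322192746) (nat_lit 152) (nat_lit 2206302601603) (nat_lit 0) (nat_lit 456688452454) (nat_lit 1) (nat_lit 5) (nat_lit 3) (nat_lit 4) (nat_lit 1) (nat_lit 4) (nat_lit 341) (nat_lit 227) (nat_lit 152)) (XT.lf (nat_lit 0) (nat_lit 1351480972) (nat_lit 152) (nat_lit 3316590595) (nat_lit 0) (nat_lit 1351480972) (nat_lit 14) (nat_lit 5) (nat_lit 16) (nat_lit 4) (nat_lit 14) (nat_lit 4) (nat_lit 264) (nat_lit 228) (nat_lit 228)))) (XT.nd (nat_lit 78) (nat_lit 228) (nat_lit 0) (XT.lf (nat_lit 0) (nat_lit 6543295071) (nat_lit 152) (nat_lit 174846227) (nat_lit 0) (nat_lit 5928208817) (nat_lit 14) (nat_lit 5) (nat_lit 16) (nat_lit 4) (nat_lit 14) (nat_lit 4) (nat_lit 265) (nat_lit 228) (nat_lit 227)) (XT.nd (nat_lit 78) (nat_lit 76) (nat_lit 0) (XT.lf (nat_lit 0) (nat_lit 6799529033) (nat_lit 152) (nat_lit 3845763002) (nat_lit 152) (nat_lit 2661152438) (nat_lit 12) (nat_lit 4) (nat_lit 14)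 (nat_lit 5) (nat_lit 14) (nat_lit 4) (nat_lit 266) (nat_lit 228) (nat_lit 226)) (XT.lf (nat_lit 0) (nat_lit 800799668) (nat_lit 228) (nat_lit 46284575) (nat_lit 76) (nat_lit 13186963543) (nat_lit 11) (nat_lit 5) (nat_lit 14) (nat_lit 5) (nat_lit 12) (nat_lit 4) (nat_lit 267) (nat_lit 228) (nat_lit 225))))) (XT.nd (nat_lit 234) (nat_lit 152) (nat_lit 0) (XT.nd (nat_lit 78) (nat_lit 76) (nat_lit 0) (XT.lf (nat_lit 0) (nat_lit 4430170479) (nat_lit 152) (nat_lit 7988989621) (nat_lit 0) (nat_lit 2392926788) (nat_lit 10) (nat_lit 5) (nat_lit 12) (nat_lit 4) (nat_lit 10) (nat_lit 4) (nat_lit 268) (nat_lit 228) (nat_lit 224)) (XT.nd (nat_lit 78) (nat_lit 76) (nat_lit 0) (XT.lf (nat_lit 0) (nat_lit 8184939143) (nat_lit 152) (nat_lit 1752007205) (nat_lit 0) (nat_lit 5729078083) (nat_lit 10) (nat_lit 5) (nat_lit 12) (nat_lit 4) (nat_lit 10) (nat_lit 4) (nat_lit 269) (nat_lit 228) (nat_lit 223))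 (XT.lf (nat_lit 0) (nat_lit 4932173922) (nat_lit 76) (nat_lit 7252226527) (nat_lit 76) (nat_lit 4408756791) (nat_lit 9) (nat_lit 4) (nat_lit 10) (nat_lit 5) (nat_lit 10) (nat_lit 4) (nat_lit 270) (nat_lit 228) (nat_lit 222)))) (XT.nd (nat_lit 156) (nat_lit 0) (nat_lit 0) (XT.nd (nat_lit 78) (nat_lit 152) (nat_lit 0) (XT.lf (nat_lit 0) (nat_lit 11959797185) (nat_lit 76) (nat_lit 4423531504) (nat_lit 76) (nat_lit 1221164847) (nat_lit 9) (nat_lit 4) (nat_lit 10) (nat_lit 5) (nat_lit 10) (nat_lit 4) (nat_lit 271) (nat_lit 228) (nat_lit 221)) (XT.lf (nat_lit 0) (nat_lit 548759618) (nat_lit 76) (nat_lit 1414431843) (nat_lit 152) (nat_lit 16741378161) (nat_lit 7) (nat_lit 5) (nat_lit 8) (nat_lit 5) (nat_lit 9) (nat_lit 4) (nat_lit 272) (nat_lit 228) (nat_lit 220))) (XT.nd (nat_lit 78) (nat_lit 0) (nat_lit 0) (XT.lf (nat_lit 0) (nat_lit 5381053436) (nat_lit 152) (nat_lit 12682495918) (nat_lit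 0) (nat_lit 1823298913) (nat_lit 7) (nat_lit 5) (nat_lit 9) (nat_lit 4) (nat_lit 7) (nat_lit 4) (nat_lit 273) (nat_lit 228) (nat_lit 219)) (XT.lf (nat_lit 0) (nat_lit 8963014099) (nat_lit 152) (nat_lit 7068271257) (nat_lit 0) (nat_lit 5141459625) (nat_lit 7) (nat_lit 5) (nat_lit 9) (nat_lit 4) (nat_lit 7) (nat_lit 4) (nat_lit 274) (nat_lit 228) (nat_lit 218))))))) (XT.nd (nat_lit 1014) (nat_lit 0) (nat_lit 0) (XT.nd (nat_lit 468) (nat_lit 76) (nat_lit 0) (XT.nd (nat_lit 234) (nat_lit 152) (nat_lit 0) (XT.nd (nat_lit 78) (nat_lit 76) (nat_lit 0) (XT.lf (nat_lit 0) (nat_lit 12696282763) (nat_lit 152) (nat_lit 1245849421) (nat_lit 0) (nat_lit 8630469075) (nat_lit 7) (nat_lit 5) (nat_lit 9) (nat_lit 4) (nat_lit 7) (nat_lit 4) (nat_lit 275) (nat_lit 228) (nat_lit 217)) (XT.nd (nat_lit 78) (nat_lit 0) (nat_lit 0) (XT.lf (nat_lit 0) (nat_lit 5073047196) (nat_lit 76) (nat_lit 11651942214)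 (nat_lit 76) (nat_lit 7359962587) (nat_lit 6) (nat_lit 4) (nat_lit 7) (nat_lit 5) (nat_lit 7) (nat_lit 4) (nat_lit 276) (nat_lit 228) (nat_lit 216)) (XT.lf (nat_lit 0) (nat_lit 11750862705) (nat_lit 76) (nat_lit 9238009957) (nat_lit 76) (nat_lit 4736617423) (nat_lit 6) (nat_lit 4) (nat_lit 7) (nat_lit 5) (nat_lit 7) (nat_lit 4) (nat_lit 277) (nat_lit 228) (nat_lit 215)))) (XT.nd (nat_lit 78) (nat_lit 152) (nat_lit 0) (XT.lf (nat_lit 0) (nat_lit 18761565122) (nat_lit 76) (nat_lit 6720094361) (nat_lit 76) (nat_lit 2024800988) (nat_lit 6) (nat_lit 4) (nat_lit 7) (nat_lit 5) (nat_lit 7) (nat_lit 4) (nat_lit 278) (nat_lit 228) (nat_lit 214)) (XT.nd (nat_lit 78) (nat_lit 76) (nat_lit 0) (XT.lf (nat_lit 0) (nat_lit 751959867) (nat_lit 152) (nat_lit 3310754662) (nat_lit 76) (nat_lit 25374179567) (nat_lit 5) (nat_lit 5) (nat_lit 7) (nat_lit 5) (nat_lit 6) (nat_lit 4) (nat_lit 279) (nat_lit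 228) (nat_lit 213)) (XT.lf (nat_lit 0) (nat_lit 2450098499) (nat_lit 76) (nat_lit 1151424772) (nat_lit 152) (nat_lit 27919396318) (nat_lit 4) (nat_lit 5) (nat_lit 5) (nat_lit 5) (nat_lit 6) (nat_lit 4) (nat_lit 280) (nat_lit 228) (nat_lit 212))))) (XT.nd (nat_lit 234) (nat_lit 76) (nat_lit 0) (XT.nd (nat_lit 78) (nat_lit 0) (nat_lit 0) (XT.lf (nat_lit 0) (nat_lit 6722260853) (nat_lit 152) (nat_lit 25134025237) (nat_lit 0) (nat_lit 1912080628) (nat_lit 4) (nat_lit 5) (nat_lit 6) (nat_lit 4) (nat_lit 4) (nat_lit 4) (nat_lit 281) (nat_lit 228) (nat_lit 211)) (XT.nd (nat_lit 78) (nat_lit 0) (nat_lit 0) (XT.lf (nat_lit 0) (nat_lit 10032203344) (nat_lit 152) (nat_lit 21078329887) (nat_lit 0) (nat_lit 5090057466) (nat_lit 4) (nat_lit 5) (nat_lit 6) (nat_lit 4) (nat_lit 4) (nat_lit 4) (nat_lit 282) (nat_lit 228) (nat_lit 210)) (XT.lf (nat_lit 0) (nat_lit 13523273424) (nat_lit 152) (nat_lit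 16852009494) (nat_lit 0) (nat_lit 8458937126) (nat_lit 4) (nat_lit 5) (nat_lit 6) (nat_lit 4) (nat_lit 4) (nat_lit 4) (nat_lit 283) (nat_lit 228) (nat_lit 209)))) (XT.nd (nat_lit 156) (nat_lit 76) (nat_lit 0) (XT.nd (nat_lit 78) (nat_lit 0) (nat_lit 0) (XT.lf (nat_lit 0) (nat_lit 17216158916) (nat_lit 152) (nat_lit 12430019197) (nat_lit 0) (nat_lit 12038683341) (nat_lit 4) (nat_lit 5) (nat_lit 6) (nat_lit 4) (nat_lit 4) (nat_lit 4) (nat_lit 284) (nat_lit 228) (nat_lit 208)) (XT.lf (nat_lit 0) (nat_lit 21132743586) (nat_lit 152) (nat_lit 7786154610) (nat_lit 0) (nat_lit 15850509421) (nat_lit 4) (nat_lit 5) (nat_lit 6) (nat_lit 4) (nat_lit 4) (nat_lit 4) (nat_lit 285) (nat_lit 228) (nat_lit 207))) (XT.nd (nat_lit 78) (nat_lit 76) (nat_lit 0) (XT.lf (nat_lit 0) (nat_lit 25296236824) (nat_lit 152) (nat_lit 2892896534) (nat_lit 0) (nat_lit 19917003964) (nat_lit 4) (nat_lit 5) (nat_lit 6)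 (nat_lit 4) (nat_lit 4) (nat_lit 4) (nat_lit 286) (nat_lit 228) (nat_lit 206)) (XT.lf (nat_lit 0) (nat_lit 2398747162) (nat_lit 76) (nat_lit 27390253949) (nat_lit 76) (nat_lit 21921207482) (nat_lit 3) (nat_lit 4) (nat_lit 4) (nat_lit 5) (nat_lit 4) (nat_lit 4) (nat_lit 287) (nat_lit 228) (nat_lit 205)))))) (XT.nd (nat_lit 468) (nat_lit 0) (nat_lit 0) (XT.nd (nat_lit 234) (nat_lit 0) (nat_lit 0) (XT.nd (nat_lit 78) (nat_lit 0) (nat_lit 0) (XT.lf (nat_lit 0) (nat_lit 8168036404) (nat_lit 76) (nat_lit 26492653654) (nat_lit 76) (nat_lit 20940446441) (nat_lit 3) (nat_lit 4) (nat_lit 4) (nat_lit 5) (nat_lit 4) (nat_lit 4) (nat_lit 288) (nat_lit 228) (nat_lit 204)) (XT.nd (nat_lit 78) (nat_lit 0) (nat_lit 0) (XT.lf (nat_lit 0) (nat_lit 14296824768) (nat_lit 76) (nat_lit 25570110279) (nat_lit 76) (nat_lit 19940902376) (nat_lit 3) (nat_lit 4) (nat_lit 4) (nat_lit 5) (nat_lit 4) (nat_lit 4)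 (nat_lit 289) (nat_lit 228) (nat_lit 203)) (XT.lf (nat_lit 0) (nat_lit 20821431000) (nat_lit 76) (nat_lit 24617156902) (nat_lit 76) (nat_lit 18916652062) (nat_lit 3) (nat_lit 4) (nat_lit 4) (nat_lit 5) (nat_lit 4) (nat_lit 4) (nat_lit 290) (nat_lit 228) (nat_lit 202)))) (XT.nd (nat_lit 78) (nat_lit 0) (nat_lit 0) (XT.lf (nat_lit 0) (nat_lit 27780519431) (nat_lit 76) (nat_lit 23628146391) (nat_lit 76) (nat_lit 17861625869) (nat_lit 3) (nat_lit 4) (nat_lit 4) (nat_lit 5) (nat_lit 4) (nat_lit 4) (nat_lit 291) (nat_lit 228) (nat_lit 201)) (XT.nd (nat_lit 78) (nat_lit 0) (nat_lit 0) (XT.lf (nat_lit 0) (nat_lit 35215329106) (nat_lit 76) (nat_lit 22597217942) (nat_lit 76) (nat_lit 16769571789) (nat_lit 3) (nat_lit 4) (nat_lit 4) (nat_lit 5) (nat_lit 4) (nat_lit 4) (nat_lit 292) (nat_lit 228) (nat_lit 200)) (XT.lf (nat_lit 0) (nat_lit 43169918156) (nat_lit 76) (nat_lit 21518262351) (nat_lit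 76) (nat_lit 15634018391) (nat_lit 3) (nat_lit 4) (nat_lit 4) (nat_lit 5) (nat_lit 4) (nat_lit 4) (nat_lit 293) (nat_lit 228) (nat_lit 199))))) (XT.nd (nat_lit 234) (nat_lit 0) (nat_lit 0) (XT.nd (nat_lit 78) (nat_lit 0) (nat_lit 0) (XT.lf (nat_lit 0) (nat_lit 51691424885) (nat_lit 76) (nat_lit 20384885805) (nat_lit 76) (nat_lit 14448236469) (nat_lit 3) (nat_lit 4) (nat_lit 4) (nat_lit 5) (nat_lit 4) (nat_lit 4) (nat_lit 294) (nat_lit 228) (nat_lit 198)) (XT.nd (nat_lit 78) (nat_lit 0) (nat_lit 0) (XT.lf (nat_lit 0) (nat_lit 60830347112) (nat_lit 76) (nat_lit 19190372001) (nat_lit 76) (nat_lit 13205199168) (nat_lit 3) (nat_lit 4) (nat_lit 4) (nat_lit 5) (nat_lit 4) (nat_lit 4) (nat_lit 295) (nat_lit 228) (nat_lit 197)) (XT.lf (nat_lit 0) (nat_lit 70640841413) (nat_lit 76) (nat_lit 17927642337) (nat_lit 76) (nat_lit 11897540340) (nat_lit 3) (nat_lit 4) (nat_lit 4) (nat_lit 5) (nat_lit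 4) (nat_lit 4) (nat_lit 296) (nat_lit 228) (nat_lit 196)))) (XT.nd (nat_lit 156) (nat_lit 0) (nat_lit 0) (XT.nd (nat_lit 78) (nat_lit 0) (nat_lit 0) (XT.lf (nat_lit 0) (nat_lit 81181044050) (nat_lit 76) (nat_lit 16589213971) (nat_lit 76) (nat_lit 10517510897) (nat_lit 3) (nat_lit 4) (nat_lit 4) (nat_lit 5) (nat_lit 4) (nat_lit 4) (nat_lit 297) (nat_lit 228) (nat_lit 195)) (XT.lf (nat_lit 0) (nat_lit 92513415484) (nat_lit 76) (nat_lit 15167155476) (nat_lit 76) (nat_lit 9056932885) (nat_lit 3) (nat_lit 4) (nat_lit 4) (nat_lit 5) (nat_lit 4) (nat_lit 4) (nat_lit 298) (nat_lit 228) (nat_lit 194))) (XT.nd (nat_lit 78) (nat_lit 0) (nat_lit 0) (XT.lf (nat_lit 0) (nat_lit 104705110508) (nat_lit 76) (nat_lit 13653039838) (nat_lit 76) (nat_lit 7507151029) (nat_lit 3) (nat_lit 4) (nat_lit 4) (nat_lit 5) (nat_lit 4) (nat_lit 4) (nat_lit 299) (nat_lit 228) (nat_lit 193)) (XT.lf (nat_lit 0) (nat_lit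 117828376203) (nat_lit 76) (nat_lit 12037894521) (nat_lit 76) (nat_lit 5858981435) (nat_lit 3) (nat_lit 4) (nat_lit 4) (nat_lit 5) (nat_lit 4) (nat_lit 4) (nat_lit 300) (nat_lit 228) (nat_lit 192))))))))
noncomputable def xc30 : XT := (XT.nd (nat_lit 1950) (nat_lit 0) (nat_lit 0) (XT.nd (nat_lit 936) (nat_lit 0) (nat_lit 0) (XT.nd (nat_lit 468) (nat_lit 0) (nat_lit 0) (XT.nd (nat_lit 234) (nat_lit 152) (nat_lit 0) (XT.nd (nat_lit 78) (nat_lit 0) (nat_lit 0) (XT.lf (nat_lit 0) (nat_lit 131960980071) (nat_lit 76) (nat_lit 10312148292) (nat_lit 76) (nat_lit 4102657172) (nat_lit 3) (nat_lit 4) (nat_lit 4) (nat_lit 5) (nat_lit 4) (nat_lit 4) (nat_lit 301) (nat_lit 228) (nat_lit 191)) (XT.nd (nat_lit 78) (nat_lit 0) (nat_lit 0) (XT.lf (nat_lit 0) (nat_lit 147186670874) (nat_lit 76) (nat_lit 8465574507) (nat_lit 76) (nat_lit 2227770393) (nat_lit 3) (nat_lit 4) (nat_lit 4) (nat_lit 5) (nat_lit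 4) (nat_lit 4) (nat_lit 302) (nat_lit 228) (nat_lit 190)) (XT.lf (nat_lit 0) (nat_lit 163595674929) (nat_lit 76) (nat_lit 6487230508) (nat_lit 76) (nat_lit 223210658) (nat_lit 3) (nat_lit 4) (nat_lit 4) (nat_lit 5) (nat_lit 4) (nat_lit 4) (nat_lit 303) (nat_lit 228) (nat_lit 189)))) (XT.nd (nat_lit 78) (nat_lit 76) (nat_lit 0) (XT.lf (nat_lit 0) (nat_lit 1826709613) (nat_lit 152) (nat_lit 2488737682) (nat_lit 76) (nat_lit 179408575686) (nat_lit 2) (nat_lit 5) (nat_lit 4) (nat_lit 5) (nat_lit 3) (nat_lit 4) (nat_lit 304) (nat_lit 228) (nat_lit 188)) (XT.nd (nat_lit 78) (nat_lit 0) (nat_lit 0) (XT.lf (nat_lit 0) (nat_lit 2141343167) (nat_lit 76) (nat_lit 1922172512) (nat_lit 152) (nat_lit 194148609644) (nat_lit 1) (nat_lit 5) (nat_lit 2) (nat_lit 5) (nat_lit 3) (nat_lit 4) (nat_lit 305) (nat_lit 228) (nat_lit 187)) (XT.lf (nat_lit 0) (nat_lit 6548640078) (nat_lit 152) (nat_lit 206619041316)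 (nat_lit 0) (nat_lit 686065687) (nat_lit 1) (nat_lit 5) (nat_lit 3) (nat_lit 4) (nat_lit 1) (nat_lit 4) (nat_lit 306) (nat_lit 228) (nat_lit 186))))) (XT.nd (nat_lit 234) (nat_lit 0) (nat_lit 0) (XT.nd (nat_lit 78) (nat_lit 0) (nat_lit 0) (XT.lf (nat_lit 0) (nat_lit 9267339155) (nat_lit 152) (nat_lit 218089675042) (nat_lit 0) (nat_lit 3386922774) (nat_lit 1) (nat_lit 5) (nat_lit 3) (nat_lit 4) (nat_lit 1) (nat_lit 4) (nat_lit 307) (nat_lit 228) (nat_lit 185)) (XT.nd (nat_lit 78) (nat_lit 0) (nat_lit 0) (XT.lf (nat_lit 0) (nat_lit 12189495423) (nat_lit 152) (nat_lit 230504429166) (nat_lit 0) (nat_lit 6292558682) (nat_lit 1) (nat_lit 5) (nat_lit 3) (nat_lit 4) (nat_lit 1) (nat_lit 4) (nat_lit 308) (nat_lit 228) (nat_lit 184)) (XT.lf (nat_lit 0) (nat_lit 15332425365) (nat_lit 152) (nat_lit 243936872601) (nat_lit 0) (nat_lit 9420191995) (nat_lit 1) (nat_lit 5) (nat_lit 3) (nat_lit 4) (nat_lit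 1) (nat_lit 4) (nat_lit 309) (nat_lit 228) (nat_lit 183)))) (XT.nd (nat_lit 78) (nat_lit 0) (nat_lit 0) (XT.lf (nat_lit 0) (nat_lit 18714753751) (nat_lit 152) (nat_lit 258466605012) (nat_lit 0) (nat_lit 12788356834) (nat_lit 1) (nat_lit 5) (nat_lit 3) (nat_lit 4) (nat_lit 1) (nat_lit 4) (nat_lit 310) (nat_lit 228) (nat_lit 182)) (XT.nd (nat_lit 78) (nat_lit 0) (nat_lit 0) (XT.lf (nat_lit 0) (nat_lit 22356524008) (nat_lit 152) (nat_lit 274179728517) (nat_lit 0) (nat_lit 16417012697) (nat_lit 1) (nat_lit 5) (nat_lit 3) (nat_lit 4) (nat_lit 1) (nat_lit 4) (nat_lit 311) (nat_lit 228) (nat_lit 181)) (XT.lf (nat_lit 0) (nat_lit 26279316996) (nat_lit 152) (nat_lit 291169357922) (nat_lit 0) (nat_lit 20327662727) (nat_lit 1) (nat_lit 5) (nat_lit 3) (nat_lit 4) (nat_lit 1) (nat_lit 4) (nat_lit 312) (nat_lit 228) (nat_lit 180)))))) (XT.nd (nat_lit 468) (nat_lit 0) (nat_lit 0) (XT.nd (nat_lit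 234) (nat_lit 0) (nat_lit 0) (XT.nd (nat_lit 78) (nat_lit 0) (nat_lit 0) (XT.lf (nat_lit 0) (nat_lit 30506378898) (nat_lit 152) (nat_lit 309536172512) (nat_lit 0) (nat_lit 24543481149) (nat_lit 1) (nat_lit 5) (nat_lit 3) (nat_lit 4) (nat_lit 1) (nat_lit 4) (nat_lit 313) (nat_lit 228) (nat_lit 179)) (XT.nd (nat_lit 78) (nat_lit 0) (nat_lit 0) (XT.lf (nat_lit 0) (nat_lit 35062758967) (nat_lit 152) (nat_lit 329389012670) (nat_lit 0) (nat_lit 29089450589) (nat_lit 1) (nat_lit 5) (nat_lit 3) (nat_lit 4) (nat_lit 1) (nat_lit 4) (nat_lit 314) (nat_lit 228) (nat_lit 178)) (XT.lf (nat_lit 0) (nat_lit 39975457976) (nat_lit 152) (nat_lit 350845524856) (nat_lit 0) (nat_lit 33992510126) (nat_lit 1) (nat_lit 5) (nat_lit 3) (nat_lit 4) (nat_lit 1) (nat_lit 4) (nat_lit 315) (nat_lit 228) (nat_lit 177)))) (XT.nd (nat_lit 78) (nat_lit 0) (nat_lit 0) (XT.lf (nat_lit 0) (nat_lit 45273588214) (nat_lit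 152) (nat_lit 374032858772) (nat_lit 0) (nat_lit 39281714928) (nat_lit 1) (nat_lit 5) (nat_lit 3) (nat_lit 4) (nat_lit 1) (nat_lit 4) (nat_lit 316) (nat_lit 228) (nat_lit 176)) (XT.nd (nat_lit 78) (nat_lit 0) (nat_lit 0) (XT.lf (nat_lit 0) (nat_lit 50988546009) (nat_lit 152) (nat_lit 399088420842) (nat_lit 0) (nat_lit 44988408430) (nat_lit 1) (nat_lit 5) (nat_lit 3) (nat_lit 4) (nat_lit 1) (nat_lit 4) (nat_lit 317) (nat_lit 228) (nat_lit 175)) (XT.lf (nat_lit 0) (nat_lit 57154197777) (nat_lit 152) (nat_lit 426160688469) (nat_lit 0) (nat_lit 51146408075) (nat_lit 1) (nat_lit 5) (nat_lit 3) (nat_lit 4) (nat_lit 1) (nat_lit 4) (nat_lit 318) (nat_lit 228) (nat_lit 174))))) (XT.nd (nat_lit 234) (nat_lit 0) (nat_lit 0) (XT.nd (nat_lit 78) (nat_lit 0) (nat_lit 0) (XT.lf (nat_lit 0) (nat_lit 63807080715) (nat_lit 152) (nat_lit 455410089907) (nat_lit 0) (nat_lit 57792205713) (nat_lit 1) (nat_lit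 5) (nat_lit 3) (nat_lit 4) (nat_lit 1) (nat_lit 4) (nat_lit 319) (nat_lit 228) (nat_lit 173)) (XT.nd (nat_lit 78) (nat_lit 0) (nat_lit 0) (XT.lf (nat_lit 0) (nat_lit 70986619312) (nat_lit 152) (nat_lit 487009954942) (nat_lit 0) (nat_lit 64965183848) (nat_lit 1) (nat_lit 5) (nat_lit 3) (nat_lit 4) (nat_lit 1) (nat_lit 4) (nat_lit 320) (nat_lit 228) (nat_lit 172)) (XT.lf (nat_lit 0) (nat_lit 78735358985) (nat_lit 152) (nat_lit 521147542033) (nat_lit 0) (nat_lit 72707849018) (nat_lit 1) (nat_lit 5) (nat_lit 3) (nat_lit 4) (nat_lit 1) (nat_lit 4) (nat_lit 321) (nat_lit 228) (nat_lit 171)))) (XT.nd (nat_lit 156) (nat_lit 0) (nat_lit 0) (XT.nd (nat_lit 78) (nat_lit 0) (nat_lit 0) (XT.lf (nat_lit 0) (nat_lit 87099218189) (nat_lit 152) (nat_lit 558025147993) (nat_lit 0) (nat_lit 81066083683) (nat_lit 1) (nat_lit 5) (nat_lit 3) (nat_lit 4) (nat_lit 1) (nat_lit 4) (nat_lit 322) (nat_lit 228)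 (nat_lit 170)) (XT.lf (nat_lit 0) (nat_lit 96127760535) (nat_lit 152) (nat_lit 597861306784) (nat_lit 0) (nat_lit 90089418123) (nat_lit 1) (nat_lit 5) (nat_lit 3) (nat_lit 4) (nat_lit 1) (nat_lit 4) (nat_lit 323) (nat_lit 228) (nat_lit 169))) (XT.nd (nat_lit 78) (nat_lit 0) (nat_lit 0) (XT.lf (nat_lit 0) (nat_lit 105874488496) (nat_lit 152) (nat_lit 640892084530) (nat_lit 0) (nat_lit 99831323948) (nat_lit 1) (nat_lit 5) (nat_lit 3) (nat_lit 4) (nat_lit 1) (nat_lit 4) (nat_lit 324) (nat_lit 228) (nat_lit 168)) (XT.lf (nat_lit 0) (nat_lit 116397160459) (nat_lit 152) (nat_lit 687372478434) (nat_lit 0) (nat_lit 110349530971) (nat_lit 1) (nat_lit 5) (nat_lit 3) (nat_lit 4) (nat_lit 1) (nat_lit 4) (nat_lit 325) (nat_lit 228) (nat_lit 167))))))) (XT.nd (nat_lit 1014) (nat_lit 0) (nat_lit 0) (XT.nd (nat_lit 468) (nat_lit 0) (nat_lit 0) (XT.nd (nat_lit 234) (nat_lit 0) (nat_lit 0) (XT.nd (nat_lit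 78) (nat_lit 0) (nat_lit 0) (XT.lf (nat_lit 0) (nat_lit 127758133001) (nat_lit 152) (nat_lit 737577927867) (nat_lit 0) (nat_lit 121706369309) (nat_lit 1) (nat_lit 5) (nat_lit 3) (nat_lit 4) (nat_lit 1) (nat_lit 4) (nat_lit 326) (nat_lit 228) (nat_lit 166)) (XT.nd (nat_lit 78) (nat_lit 0) (nat_lit 0) (XT.lf (nat_lit 0) (nat_lit 140024730401) (nat_lit 152) (nat_lit 791805946604) (nat_lit 0) (nat_lit 133969138742) (nat_lit 1) (nat_lit 5) (nat_lit 3) (nat_lit 4) (nat_lit 1) (nat_lit 4) (nat_lit 327) (nat_lit 228) (nat_lit 165)) (XT.lf (nat_lit 0) (nat_lit 153269643609) (nat_lit 152) (nat_lit 850377885866) (nat_lit 0) (nat_lit 147210507536) (nat_lit 1) (nat_lit 5) (nat_lit 3) (nat_lit 4) (nat_lit 1) (nat_lit 4) (nat_lit 328) (nat_lit 228) (nat_lit 164)))) (XT.nd (nat_lit 78) (nat_lit 0) (nat_lit 0) (XT.lf (nat_lit 0) (nat_lit 167571360998) (nat_lit 152) (nat_lit 913640838627) (nat_lit 0)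 (nat_lit 161508943060) (nat_lit 1) (nat_lit 5) (nat_lit 3) (nat_lit 4) (nat_lit 1) (nat_lit 4) (nat_lit 329) (nat_lit 228) (nat_lit 163)) (XT.nd (nat_lit 78) (nat_lit 0) (nat_lit 0) (XT.lf (nat_lit 0) (nat_lit 183014633486) (nat_lit 152) (nat_lit 981969696459) (nat_lit 0) (nat_lit 176949176785) (nat_lit 1) (nat_lit 5) (nat_lit 3) (nat_lit 4) (nat_lit 1) (nat_lit 4) (nat_lit 330) (nat_lit 228) (nat_lit 162)) (XT.lf (nat_lit 0) (nat_lit 199690976762) (nat_lit 152) (nat_lit 1055769371112) (nat_lit 0) (nat_lit 193622706391) (nat_lit 1) (nat_lit 5) (nat_lit 3) (nat_lit 4) (nat_lit 1) (nat_lit 4) (nat_lit 331) (nat_lit 228) (nat_lit 161))))) (XT.nd (nat_lit 234) (nat_lit 0) (nat_lit 0) (XT.nd (nat_lit 78) (nat_lit 0) (nat_lit 0) (XT.lf (nat_lit 0) (nat_lit 217699213601) (nat_lit 152) (nat_lit 1135477193991) (nat_lit 0) (nat_lit 211628337981) (nat_lit 1) (nat_lit 5) (nat_lit 3) (nat_lit 4)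 (nat_lit 1) (nat_lit 4) (nat_lit 332) (nat_lit 228) (nat_lit 160)) (XT.nd (nat_lit 78) (nat_lit 0) (nat_lit 0) (XT.lf (nat_lit 0) (nat_lit 237146059481) (nat_lit 152) (nat_lit 1221565507750) (nat_lit 0) (nat_lit 231072771592) (nat_lit 1) (nat_lit 5) (nat_lit 3) (nat_lit 4) (nat_lit 1) (nat_lit 4) (nat_lit 333) (nat_lit 228) (nat_lit 159)) (XT.lf (nat_lit 0) (nat_lit 258146754969) (nat_lit 152) (nat_lit 1314544465361) (nat_lit 0) (nat_lit 252071233499) (nat_lit 1) (nat_lit 5) (nat_lit 3) (nat_lit 4) (nat_lit 1) (nat_lit 4) (nat_lit 334) (nat_lit 228) (nat_lit 158)))) (XT.nd (nat_lit 156) (nat_lit 0) (nat_lit 0) (XT.nd (nat_lit 78) (nat_lit 0) (nat_lit 0) (XT.lf (nat_lit 0) (nat_lit 280825748632) (nat_lit 152) (nat_lit 1414965053238) (nat_lit 0) (nat_lit 274748159030) (nat_lit 1) (nat_lit 5) (nat_lit 3) (nat_lit 4) (nat_lit 1) (nat_lit 4) (nat_lit 335) (nat_lit 228) (nat_lit 157)) (XT.lf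 (nat_lit 0) (nat_lit 305317434507) (nat_lit 152) (nat_lit 1523422356346) (nat_lit 0) (nat_lit 299237929968) (nat_lit 1) (nat_lit 5) (nat_lit 3) (nat_lit 4) (nat_lit 1) (nat_lit 4) (nat_lit 336) (nat_lit 228) (nat_lit 156))) (XT.nd (nat_lit 78) (nat_lit 0) (nat_lit 0) (XT.lf (nat_lit 0) (nat_lit 331766948508) (nat_lit 152) (nat_lit 1640559084630) (nat_lit 0) (nat_lit 325685670881) (nat_lit 1) (nat_lit 5) (nat_lit 3) (nat_lit 4) (nat_lit 1) (nat_lit 4) (nat_lit 337) (nat_lit 228) (nat_lit 155)) (XT.lf (nat_lit 0) (nat_lit 360331028498) (nat_lit 152) (nat_lit 1767069381665) (nat_lit 0) (nat_lit 354248109121) (nat_lit 1) (nat_lit 5) (nat_lit 3) (nat_lit 4) (nat_lit 1) (nat_lit 4) (nat_lit 338) (nat_lit 228) (nat_lit 154)))))) (XT.nd (nat_lit 31746) (nat_lit 0) (nat_lit 608) (XT.nd (nat_lit 31512) (nat_lit 0) (nat_lit 988) (XT.nd (nat_lit 78) (nat_lit 0) (nat_lit 0) (XT.lf (nat_lit 0) (nat_lit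 391178943098) (nat_lit 152) (nat_lit 1903702938100) (nat_lit 0) (nat_lit 385094503583) (nat_lit 1) (nat_lit 5) (nat_lit 3) (nat_lit 4) (nat_lit 1) (nat_lit 4) (nat_lit 339) (nat_lit 228) (nat_lit 153)) (XT.nd (nat_lit 78) (nat_lit 0) (nat_lit 0) (XT.lf (nat_lit 0) (nat_lit 424493494766) (nat_lit 152) (nat_lit 2051269434269) (nat_lit 0) (nat_lit 418407647715) (nat_lit 1) (nat_lit 5) (nat_lit 3) (nat_lit 4) (nat_lit 1) (nat_lit 4) (nat_lit 340) (nat_lit 228) (nat_lit 152)) (XT.lf (nat_lit 0) (nat_lit 460472103066) (nat_lit 152) (nat_lit 2210643338298) (nat_lit 0) (nat_lit 454384952742) (nat_lit 1) (nat_lit 5) (nat_lit 3) (nat_lit 4) (nat_lit 1) (nat_lit 4) (nat_lit 341) (nat_lit 228) (nat_lit 151)))) (XT.nd (nat_lit 78) (nat_lit 152) (nat_lit 0) (XT.lf (nat_lit 0) (nat_lit 1592489271) (nat_lit 152) (nat_lit 1945632798) (nat_lit 152) (nat_lit 1945632798) (nat_lit 16) (nat_lit 4) (nat_lit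 18) (nat_lit 5) (nat_lit 18) (nat_lit 4) (nat_lit 262) (nat_lit 229) (nat_lit 229)) (XT.nd (nat_lit 78) (nat_lit 152) (nat_lit 0) (XT.lf (nat_lit 0) (nat_lit 10065759498) (nat_lit 152) (nat_lit 1070088296) (nat_lit 152) (nat_lit 352651689) (nat_lit 16) (nat_lit 4) (nat_lit 18) (nat_lit 5) (nat_lit 18) (nat_lit 4) (nat_lit 263) (nat_lit 229) (nat_lit 228)) (XT.lf (nat_lit 0) (nat_lit 3258688280) (nat_lit 152) (nat_lit 6810117633) (nat_lit 0) (nat_lit 1979308871) (nat_lit 14) (nat_lit 5) (nat_lit 16) (nat_lit 4) (nat_lit 14) (nat_lit 4) (nat_lit 264) (nat_lit 229) (nat_lit 227))))) (XT.nd (nat_lit 234) (nat_lit 152) (nat_lit 0) (XT.nd (nat_lit 78) (nat_lit 228) (nat_lit 0) (XT.lf (nat_lit 0) (nat_lit 6998496575) (nat_lit 152) (nat_lit 515612708) (nat_lit 0) (nat_lit 5149592858) (nat_lit 14) (nat_lit 5) (nat_lit 16) (nat_lit 4) (nat_lit 14) (nat_lit 4) (nat_lit 265) (nat_lit 229) (nat_lit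 226)) (XT.nd (nat_lit 78) (nat_lit 76) (nat_lit 0) (XT.lf (nat_lit 0) (nat_lit 6281135950) (nat_lit 152) (nat_lit 4713811675) (nat_lit 152) (nat_lit 2337570633) (nat_lit 12) (nat_lit 4) (nat_lit 14) (nat_lit 5) (nat_lit 14) (nat_lit 4) (nat_lit 266) (nat_lit 229) (nat_lit 225)) (XT.lf (nat_lit 0) (nat_lit 1015879356) (nat_lit 228) (nat_lit 751487279) (nat_lit 76) (nat_lit 12299755999) (nat_lit 11) (nat_lit 5) (nat_lit 14) (nat_lit 5) (nat_lit 12) (nat_lit 4) (nat_lit 267) (nat_lit 229) (nat_lit 224)))) (XT.nd (nat_lit 156) (nat_lit 76) (nat_lit 0) (XT.nd (nat_lit 78) (nat_lit 0) (nat_lit 0) (XT.lf (nat_lit 0) (nat_lit 4514294451) (nat_lit 152) (nat_lit 8898217357) (nat_lit 0) (nat_lit 1443347137) (nat_lit 10) (nat_lit 5) (nat_lit 12) (nat_lit 4) (nat_lit 10) (nat_lit 4) (nat_lit 268) (nat_lit 229) (nat_lit 223)) (XT.lf (nat_lit 0) (nat_lit 8185261312) (nat_lit 152) (nat_lit 2804738401)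 (nat_lit 0) (nat_lit 4726705322) (nat_lit 10) (nat_lit 5) (nat_lit 12) (nat_lit 4) (nat_lit 10) (nat_lit 4) (nat_lit 269) (nat_lit 229) (nat_lit 222))) (XT.nd (nat_lit 78) (nat_lit 0) (nat_lit 0) (XT.lf (nat_lit 0) (nat_lit 3684137306) (nat_lit 76) (nat_lit 8392975738) (nat_lit 76) (nat_lit 4575522827) (nat_lit 9) (nat_lit 4) (nat_lit 10) (nat_lit 5) (nat_lit 10) (nat_lit 4) (nat_lit 270) (nat_lit 229) (nat_lit 221)) (XT.lf (nat_lit 0) (nat_lit 10582250883) (nat_lit 76) (nat_lit 5618829151) (nat_lit 76) (nat_lit 1469064275) (nat_lit 9) (nat_lit 4) (nat_lit 10) (nat_lit 5) (nat_lit 10) (nat_lit 4) (nat_lit 271) (nat_lit 229) (nat_lit 220))))))))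
noncomputable def xc31 : XT := (XT.nd (nat_lit 2028) (nat_lit 152) (nat_lit 0) (XT.nd (nat_lit 1014) (nat_lit 76) (nat_lit 0) (XT.nd (nat_lit 468) (nat_lit 152) (nat_lit 0) (XT.nd (nat_lit 234) (nat_lit 76) (nat_lit 0) (XT.nd (nat_lit 78) (nat_lit 76) (nat_lit 0) (XT.lf (nat_lit 0) (nat_lit 1643129755) (nat_lit 152) (nat_lit 1039751247) (nat_lit 76) (nat_lit 16094731650) (nat_lit 8) (nat_lit 5) (nat_lit 10) (nat_lit 5) (nat_lit 9) (nat_lit 4) (nat_lit 272) (nat_lit 229) (nat_lit 219)) (XT.nd (nat_lit 78) (nat_lit 0) (nat_lit 0) (XT.lf (nat_lit 0) (nat_lit 4933253606) (nat_lit 152) (nat_lit 14494821031) (nat_lit 0) (nat_lit 542174823) (nat_lit 7) (nat_lit 5) (nat_lit 9) (nat_lit 4) (nat_lit 7) (nat_lit 4) (nat_lit 273) (nat_lit 229) (nat_lit 218)) (XT.lf (nat_lit 0) (nat_lit 8450190783) (nat_lit 152) (nat_lit 8996433292) (nat_lit 0) (nat_lit 3814852785) (nat_lit 7) (nat_lit 5) (nat_lit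 9) (nat_lit 4) (nat_lit 7) (nat_lit 4) (nat_lit 274) (nat_lit 229) (nat_lit 217)))) (XT.nd (nat_lit 78) (nat_lit 76) (nat_lit 0) (XT.lf (nat_lit 0) (nat_lit 12123252516) (nat_lit 152) (nat_lit 3281267866) (nat_lit 0) (nat_lit 7261748579) (nat_lit 7) (nat_lit 5) (nat_lit 9) (nat_lit 4) (nat_lit 7) (nat_lit 4) (nat_lit 275) (nat_lit 229) (nat_lit 216)) (XT.nd (nat_lit 78) (nat_lit 0) (nat_lit 0) (XT.lf (nat_lit 0) (nat_lit 2825906166) (nat_lit 76) (nat_lit 13216262042) (nat_lit 76) (nat_lit 8145345198) (nat_lit 6) (nat_lit 4) (nat_lit 7) (nat_lit 5) (nat_lit 7) (nat_lit 4) (nat_lit 276) (nat_lit 229) (nat_lit 215)) (XT.lf (nat_lit 0) (nat_lit 9406924400) (nat_lit 76) (nat_lit 10845181343) (nat_lit 76) (nat_lit 5580363660) (nat_lit 6) (nat_lit 4) (nat_lit 7) (nat_lit 5) (nat_lit 7) (nat_lit 4) (nat_lit 277) (nat_lit 229) (nat_lit 214))))) (XT.nd (nat_lit 234) (nat_lit 76) (nat_lit 0)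 (XT.nd (nat_lit 78) (nat_lit 76) (nat_lit 0) (XT.lf (nat_lit 0) (nat_lit 16327999710) (nat_lit 76) (nat_lit 8366943116) (nat_lit 76) (nat_lit 2922587619) (nat_lit 6) (nat_lit 4) (nat_lit 7) (nat_lit 5) (nat_lit 7) (nat_lit 4) (nat_lit 278) (nat_lit 229) (nat_lit 213)) (XT.nd (nat_lit 78) (nat_lit 76) (nat_lit 0) (XT.lf (nat_lit 0) (nat_lit 23630145877) (nat_lit 76) (nat_lit 5766861505) (nat_lit 76) (nat_lit 156267291) (nat_lit 6) (nat_lit 4) (nat_lit 7) (nat_lit 5) (nat_lit 7) (nat_lit 4) (nat_lit 279) (nat_lit 229) (nat_lit 212)) (XT.lf (nat_lit 0) (nat_lit 2598175039) (nat_lit 152) (nat_lit 360314869) (nat_lit 76) (nat_lit 28687421128) (nat_lit 5) (nat_lit 5) (nat_lit 7) (nat_lit 5) (nat_lit 6) (nat_lit 4) (nat_lit 280) (nat_lit 229) (nat_lit 211)))) (XT.nd (nat_lit 156) (nat_lit 0) (nat_lit 0) (XT.nd (nat_lit 78) (nat_lit 0) (nat_lit 0) (XT.lf (nat_lit 0) (nat_lit 5622650932) (nat_lit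 152) (nat_lit 28125310030) (nat_lit 0) (nat_lit 153167731) (nat_lit 4) (nat_lit 5) (nat_lit 6) (nat_lit 4) (nat_lit 4) (nat_lit 4) (nat_lit 281) (nat_lit 229) (nat_lit 210)) (XT.lf (nat_lit 0) (nat_lit 8892368514) (nat_lit 152) (nat_lit 24143571692) (nat_lit 0) (nat_lit 3300694893) (nat_lit 4) (nat_lit 5) (nat_lit 6) (nat_lit 4) (nat_lit 4) (nat_lit 4) (nat_lit 282) (nat_lit 229) (nat_lit 209))) (XT.nd (nat_lit 78) (nat_lit 0) (nat_lit 0) (XT.lf (nat_lit 0) (nat_lit 12346193309) (nat_lit 152) (nat_lit 19985730015) (nat_lit 0) (nat_lit 6641380410) (nat_lit 4) (nat_lit 5) (nat_lit 6) (nat_lit 4) (nat_lit 4) (nat_lit 4) (nat_lit 283) (nat_lit 229) (nat_lit 208)) (XT.lf (nat_lit 0) (nat_lit 16004592425) (nat_lit 152) (nat_lit 15627145936) (nat_lit 0) (nat_lit 10195020936) (nat_lit 4) (nat_lit 5) (nat_lit 6) (nat_lit 4) (nat_lit 4) (nat_lit 4) (nat_lit 284) (nat_lit 229) (nat_lit 207))))))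 (XT.nd (nat_lit 468) (nat_lit 0) (nat_lit 0) (XT.nd (nat_lit 234) (nat_lit 76) (nat_lit 0) (XT.nd (nat_lit 78) (nat_lit 0) (nat_lit 0) (XT.lf (nat_lit 0) (nat_lit 19889245266) (nat_lit 152) (nat_lit 11041990809) (nat_lit 0) (nat_lit 13982675082) (nat_lit 4) (nat_lit 5) (nat_lit 6) (nat_lit 4) (nat_lit 4) (nat_lit 4) (nat_lit 285) (nat_lit 229) (nat_lit 206)) (XT.nd (nat_lit 78) (nat_lit 0) (nat_lit 0) (XT.lf (nat_lit 0) (nat_lit 24023171995) (nat_lit 152) (nat_lit 6203093345) (nat_lit 0) (nat_lit 18026788206) (nat_lit 4) (nat_lit 5) (nat_lit 6) (nat_lit 4) (nat_lit 4) (nat_lit 4) (nat_lit 286) (nat_lit 229) (nat_lit 205)) (XT.lf (nat_lit 0) (nat_lit 28430869958) (nat_lit 152) (nat_lit 1081778597) (nat_lit 0) (nat_lit 22351325422) (nat_lit 4) (nat_lit 5) (nat_lit 6) (nat_lit 4) (nat_lit 4) (nat_lit 4) (nat_lit 287) (nat_lit 229) (nat_lit 204)))) (XT.nd (nat_lit 78) (nat_lit 0) (nat_lit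 0) (XT.lf (nat_lit 0) (nat_lit 4581486477) (nat_lit 76) (nat_lit 28667157227) (nat_lit 76) (nat_lit 22510612000) (nat_lit 3) (nat_lit 4) (nat_lit 4) (nat_lit 5) (nat_lit 4) (nat_lit 4) (nat_lit 288) (nat_lit 229) (nat_lit 203)) (XT.nd (nat_lit 78) (nat_lit 0) (nat_lit 0) (XT.lf (nat_lit 0) (nat_lit 10664849263) (nat_lit 76) (nat_lit 27765476097) (nat_lit 76) (nat_lit 21537633933) (nat_lit 3) (nat_lit 4) (nat_lit 4) (nat_lit 5) (nat_lit 4) (nat_lit 4) (nat_lit 289) (nat_lit 229) (nat_lit 202)) (XT.lf (nat_lit 0) (nat_lit 17147394774) (nat_lit 76) (nat_lit 26831839612) (nat_lit 76) (nat_lit 20537981766) (nat_lit 3) (nat_lit 4) (nat_lit 4) (nat_lit 5) (nat_lit 4) (nat_lit 4) (nat_lit 290) (nat_lit 229) (nat_lit 201))))) (XT.nd (nat_lit 234) (nat_lit 0) (nat_lit 0) (XT.nd (nat_lit 78) (nat_lit 0) (nat_lit 0) (XT.lf (nat_lit 0) (nat_lit 24067538095) (nat_lit 76) (nat_lit 25860715112) (nat_lit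 76) (nat_lit 19505731635) (nat_lit 3) (nat_lit 4) (nat_lit 4) (nat_lit 5) (nat_lit 4) (nat_lit 4) (nat_lit 291) (nat_lit 229) (nat_lit 200)) (XT.nd (nat_lit 78) (nat_lit 0) (nat_lit 0) (XT.lf (nat_lit 0) (nat_lit 31466287482) (nat_lit 76) (nat_lit 24846347785) (nat_lit 76) (nat_lit 18434766501) (nat_lit 3) (nat_lit 4) (nat_lit 4) (nat_lit 5) (nat_lit 4) (nat_lit 4) (nat_lit 292) (nat_lit 229) (nat_lit 199)) (XT.lf (nat_lit 0) (nat_lit 39387487375) (nat_lit 76) (nat_lit 23782726565) (nat_lit 76) (nat_lit 17318739905) (nat_lit 3) (nat_lit 4) (nat_lit 4) (nat_lit 5) (nat_lit 4) (nat_lit 4) (nat_lit 293) (nat_lit 229) (nat_lit 198)))) (XT.nd (nat_lit 156) (nat_lit 0) (nat_lit 0) (XT.nd (nat_lit 78) (nat_lit 0) (nat_lit 0) (XT.lf (nat_lit 0) (nat_lit 47878078220) (nat_lit 76) (nat_lit 22663548512) (nat_lit 76) (nat_lit 16151038356) (nat_lit 3) (nat_lit 4) (nat_lit 4) (nat_lit 5) (nat_lit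 4) (nat_lit 4) (nat_lit 294) (nat_lit 229) (nat_lit 197)) (XT.lf (nat_lit 0) (nat_lit 56988374628) (nat_lit 76) (nat_lit 21482181460) (nat_lit 76) (nat_lit 14924742140) (nat_lit 3) (nat_lit 4) (nat_lit 4) (nat_lit 5) (nat_lit 4) (nat_lit 4) (nat_lit 295) (nat_lit 229) (nat_lit 196))) (XT.nd (nat_lit 78) (nat_lit 0) (nat_lit 0) (XT.lf (nat_lit 0) (nat_lit 66772363540) (nat_lit 76) (nat_lit 20231624715) (nat_lit 76) (nat_lit 13632584317) (nat_lit 3) (nat_lit 4) (nat_lit 4) (nat_lit 5) (nat_lit 4) (nat_lit 4) (nat_lit 296) (nat_lit 229) (nat_lit 195)) (XT.lf (nat_lit 0) (nat_lit 77288024151) (nat_lit 76) (nat_lit 18904467570) (nat_lit 76) (nat_lit 12266907656) (nat_lit 3) (nat_lit 4) (nat_lit 4) (nat_lit 5) (nat_lit 4) (nat_lit 4) (nat_lit 297) (nat_lit 229) (nat_lit 194))))))) (XT.nd (nat_lit 1014) (nat_lit 0) (nat_lit 0) (XT.nd (nat_lit 468) (nat_lit 152) (nat_lit 0) (XT.nd (nat_lit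 234) (nat_lit 0) (nat_lit 0) (XT.nd (nat_lit 78) (nat_lit 0) (nat_lit 0) (XT.lf (nat_lit 0) (nat_lit 88597671486) (nat_lit 76) (nat_lit 17492845391) (nat_lit 76) (nat_lit 10819619258) (nat_lit 3) (nat_lit 4) (nat_lit 4) (nat_lit 5) (nat_lit 4) (nat_lit 4) (nat_lit 298) (nat_lit 229) (nat_lit 193)) (XT.nd (nat_lit 78) (nat_lit 0) (nat_lit 0) (XT.lf (nat_lit 0) (nat_lit 100768325678) (nat_lit 76) (nat_lit 15988393009) (nat_lit 76) (nat_lit 9282142599) (nat_lit 3) (nat_lit 4) (nat_lit 4) (nat_lit 5) (nat_lit 4) (nat_lit 4) (nat_lit 299) (nat_lit 229) (nat_lit 192)) (XT.lf (nat_lit 0) (nat_lit 113872109122) (nat_lit 76) (nat_lit 14382195150) (nat_lit 76) (nat_lit 7645366707) (nat_lit 3) (nat_lit 4) (nat_lit 4) (nat_lit 5) (nat_lit 4) (nat_lit 4) (nat_lit 300) (nat_lit 229) (nat_lit 191)))) (XT.nd (nat_lit 78) (nat_lit 0) (nat_lit 0) (XT.lf (nat_lit 0) (nat_lit 127986673867) (nat_lit 76)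 (nat_lit 12664733605) (nat_lit 76) (nat_lit 5899592168) (nat_lit 3) (nat_lit 4) (nat_lit 4) (nat_lit 5) (nat_lit 4) (nat_lit 4) (nat_lit 301) (nat_lit 229) (nat_lit 190)) (XT.nd (nat_lit 78) (nat_lit 0) (nat_lit 0) (XT.lf (nat_lit 0) (nat_lit 143195661780) (nat_lit 76) (nat_lit 10825830824) (nat_lit 76) (nat_lit 4034473651) (nat_lit 3) (nat_lit 4) (nat_lit 4) (nat_lit 5) (nat_lit 4) (nat_lit 4) (nat_lit 302) (nat_lit 229) (nat_lit 189)) (XT.lf (nat_lit 0) (nat_lit 159589200195) (nat_lit 76) (nat_lit 8854589606) (nat_lit 76) (nat_lit 2038958604) (nat_lit 3) (nat_lit 4) (nat_lit 4) (nat_lit 5) (nat_lit 4) (nat_lit 4) (nat_lit 303) (nat_lit 229) (nat_lit 188))))) (XT.nd (nat_lit 234) (nat_lit 0) (nat_lit 0) (XT.nd (nat_lit 78) (nat_lit 76) (nat_lit 0) (XT.lf (nat_lit 0) (nat_lit 93836960) (nat_lit 152) (nat_lit 6642925892) (nat_lit 76) (nat_lit 177168033379) (nat_lit 2) (nat_lit 5) (nat_lit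 4) (nat_lit 5) (nat_lit 3) (nat_lit 4) (nat_lit 304) (nat_lit 229) (nat_lit 187)) (XT.nd (nat_lit 78) (nat_lit 76) (nat_lit 0) (XT.lf (nat_lit 0) (nat_lit 2271777214) (nat_lit 152) (nat_lit 2133621059) (nat_lit 76) (nat_lit 193992219726) (nat_lit 2) (nat_lit 5) (nat_lit 4) (nat_lit 5) (nat_lit 3) (nat_lit 4) (nat_lit 305) (nat_lit 229) (nat_lit 186)) (XT.lf (nat_lit 0) (nat_lit 2852835483) (nat_lit 76) (nat_lit 1825540717) (nat_lit 152) (nat_lit 209367154999) (nat_lit 1) (nat_lit 5) (nat_lit 2) (nat_lit 5) (nat_lit 3) (nat_lit 4) (nat_lit 306) (nat_lit 229) (nat_lit 185)))) (XT.nd (nat_lit 156) (nat_lit 0) (nat_lit 0) (XT.nd (nat_lit 78) (nat_lit 0) (nat_lit 0) (XT.lf (nat_lit 0) (nat_lit 7346421587) (nat_lit 152) (nat_lit 222632150961) (nat_lit 0) (nat_lit 961209547) (nat_lit 1) (nat_lit 5) (nat_lit 3) (nat_lit 4) (nat_lit 1) (nat_lit 4) (nat_lit 307) (nat_lit 229) (nat_lit 184))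 (XT.lf (nat_lit 0) (nat_lit 10262328419) (nat_lit 152) (nat_lit 235058688250) (nat_lit 0) (nat_lit 3861819749) (nat_lit 1) (nat_lit 5) (nat_lit 3) (nat_lit 4) (nat_lit 1) (nat_lit 4) (nat_lit 308) (nat_lit 229) (nat_lit 183))) (XT.nd (nat_lit 78) (nat_lit 0) (nat_lit 0) (XT.lf (nat_lit 0) (nat_lit 13399471846) (nat_lit 152) (nat_lit 248502042022) (nat_lit 0) (nat_lit 6984799630) (nat_lit 1) (nat_lit 5) (nat_lit 3) (nat_lit 4) (nat_lit 1) (nat_lit 4) (nat_lit 309) (nat_lit 229) (nat_lit 182)) (XT.lf (nat_lit 0) (nat_lit 16776442347) (nat_lit 152) (nat_lit 263041876597) (nat_lit 0) (nat_lit 10348655737) (nat_lit 1) (nat_lit 5) (nat_lit 3) (nat_lit 4) (nat_lit 1) (nat_lit 4) (nat_lit 310) (nat_lit 229) (nat_lit 181)))))) (XT.nd (nat_lit 468) (nat_lit 0) (nat_lit 0) (XT.nd (nat_lit 234) (nat_lit 0) (nat_lit 0) (XT.nd (nat_lit 78) (nat_lit 0) (nat_lit 0) (XT.lf (nat_lit 0) (nat_lit 20413251600)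 (nat_lit 152) (nat_lit 278764353957) (nat_lit 0) (nat_lit 13973322031) (nat_lit 1) (nat_lit 5) (nat_lit 3) (nat_lit 4) (nat_lit 1) (nat_lit 4) (nat_lit 311) (nat_lit 229) (nat_lit 180)) (XT.nd (nat_lit 78) (nat_lit 0) (nat_lit 0) (XT.lf (nat_lit 0) (nat_lit 24331451066) (nat_lit 152) (nat_lit 295762644339) (nat_lit 0) (nat_lit 17880278018) (nat_lit 1) (nat_lit 5) (nat_lit 3) (nat_lit 4) (nat_lit 1) (nat_lit 4) (nat_lit 312) (nat_lit 229) (nat_lit 179)) (XT.lf (nat_lit 0) (nat_lit 28554259706) (nat_lit 152) (nat_lit 314137478353) (nat_lit 0) (nat_lit 22092676029) (nat_lit 1) (nat_lit 5) (nat_lit 3) (nat_lit 4) (nat_lit 1) (nat_lit 4) (nat_lit 313) (nat_lit 229) (nat_lit 178)))) (XT.nd (nat_lit 78) (nat_lit 0) (nat_lit 0) (XT.lf (nat_lit 0) (nat_lit 33106701571) (nat_lit 152) (nat_lit 333997743903) (nat_lit 0) (nat_lit 26635478422) (nat_lit 1) (nat_lit 5) (nat_lit 3) (nat_lit 4) (nat_lit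 1) (nat_lit 4) (nat_lit 314) (nat_lit 229) (nat_lit 177)) (XT.nd (nat_lit 78) (nat_lit 0) (nat_lit 0) (XT.lf (nat_lit 0) (nat_lit 38015754093) (nat_lit 152) (nat_lit 355461131452) (nat_lit 0) (nat_lit 31535605507) (nat_lit 1) (nat_lit 5) (nat_lit 3) (nat_lit 4) (nat_lit 1) (nat_lit 4) (nat_lit 315) (nat_lit 229) (nat_lit 176)) (XT.lf (nat_lit 0) (nat_lit 43310507955) (nat_lit 152) (nat_lit 378654831445) (nat_lit 0) (nat_lit 36822095076) (nat_lit 1) (nat_lit 5) (nat_lit 3) (nat_lit 4) (nat_lit 1) (nat_lit 4) (nat_lit 316) (nat_lit 229) (nat_lit 175))))) (XT.nd (nat_lit 234) (nat_lit 0) (nat_lit 0) (XT.nd (nat_lit 78) (nat_lit 0) (nat_lit 0) (XT.lf (nat_lit 0) (nat_lit 49022339476) (nat_lit 152) (nat_lit 403716288030) (nat_lit 0) (nat_lit 42526274474) (nat_lit 1) (nat_lit 5) (nat_lit 3) (nat_lit 4) (nat_lit 1) (nat_lit 4) (nat_lit 317) (nat_lit 229) (nat_lit 174)) (XT.nd (nat_lit 78)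 (nat_lit 0) (nat_lit 0) (XT.lf (nat_lit 0) (nat_lit 55185096546) (nat_lit 152) (nat_lit 430794013542) (nat_lit 0) (nat_lit 48681946244) (nat_lit 1) (nat_lit 5) (nat_lit 3) (nat_lit 4) (nat_lit 1) (nat_lit 4) (nat_lit 318) (nat_lit 229) (nat_lit 173)) (XT.lf (nat_lit 0) (nat_lit 61835299207) (nat_lit 152) (nat_lit 460048468577) (nat_lit 0) (nat_lit 55325588443) (nat_lit 1) (nat_lit 5) (nat_lit 3) (nat_lit 4) (nat_lit 1) (nat_lit 4) (nat_lit 319) (nat_lit 229) (nat_lit 172)))) (XT.nd (nat_lit 156) (nat_lit 0) (nat_lit 0) (XT.nd (nat_lit 78) (nat_lit 0) (nat_lit 0) (XT.lf (nat_lit 0) (nat_lit 69012356068) (nat_lit 152) (nat_lit 491653012869) (nat_lit 0) (nat_lit 62496570802) (nat_lit 1) (nat_lit 5) (nat_lit 3) (nat_lit 4) (nat_lit 1) (nat_lit 4) (nat_lit 320) (nat_lit 229) (nat_lit 171)) (XT.lf (nat_lit 0) (nat_lit 76758797835) (nat_lit 152) (nat_lit 525794932605) (nat_lit 0) (nat_lit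 70237388030) (nat_lit 1) (nat_lit 5) (nat_lit 3) (nat_lit 4) (nat_lit 1) (nat_lit 4) (nat_lit 321) (nat_lit 229) (nat_lit 170))) (XT.nd (nat_lit 78) (nat_lit 0) (nat_lit 0) (XT.lf (nat_lit 0) (nat_lit 85120529350) (nat_lit 152) (nat_lit 562676550273) (nat_lit 0) (nat_lit 78593911638) (nat_lit 1) (nat_lit 5) (nat_lit 3) (nat_lit 4) (nat_lit 1) (nat_lit 4) (nat_lit 322) (nat_lit 229) (nat_lit 169)) (XT.lf (nat_lit 0) (nat_lit 94147101612) (nat_lit 152) (nat_lit 602516423608) (nat_lit 0) (nat_lit 87615661765) (nat_lit 1) (nat_lit 5) (nat_lit 3) (nat_lit 4) (nat_lit 1) (nat_lit 4) (nat_lit 323) (nat_lit 229) (nat_lit 168))))))))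
noncomputable def xc32 : XT := (XT.nd (nat_lit 33072) (nat_lit 0) (nat_lit 152) (XT.nd (nat_lit 936) (nat_lit 0) (nat_lit 0) (XT.nd (nat_lit 468) (nat_lit 0) (nat_lit 0) (XT.nd (nat_lit 234) (nat_lit 0) (nat_lit 0) (XT.nd (nat_lit 78) (nat_lit 0) (nat_lit 0) (XT.lf (nat_lit 0) (nat_lit 103892005422) (nat_lit 152) (nat_lit 645550640748) (nat_lit 0) (nat_lit 97356100635) (nat_lit 1) (nat_lit 5) (nat_lit 3) (nat_lit 4) (nat_lit 1) (nat_lit 4) (nat_lit 324) (nat_lit 229) (nat_lit 167)) (XT.nd (nat_lit 78) (nat_lit 0) (nat_lit 0) (XT.lf (nat_lit 0) (nat_lit 114412988358) (nat_lit 152) (nat_lit 692034219276) (nat_lit 0) (nat_lit 107872949366) (nat_lit 1) (nat_lit 5) (nat_lit 3) (nat_lit 4) (nat_lit 1) (nat_lit 4) (nat_lit 325) (nat_lit 229) (nat_lit 166)) (XT.lf (nat_lit 0) (nat_lit 125772396984) (nat_lit 152) (nat_lit 742242617434) (nat_lit 0) (nat_lit 119228530025) (nat_lit 1) (nat_lit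 5) (nat_lit 3) (nat_lit 4) (nat_lit 1) (nat_lit 4) (nat_lit 326) (nat_lit 229) (nat_lit 165)))) (XT.nd (nat_lit 78) (nat_lit 0) (nat_lit 0) (XT.lf (nat_lit 0) (nat_lit 138037546314) (nat_lit 152) (nat_lit 796473366472) (nat_lit 0) (nat_lit 131490134942) (nat_lit 1) (nat_lit 5) (nat_lit 3) (nat_lit 4) (nat_lit 1) (nat_lit 4) (nat_lit 327) (nat_lit 229) (nat_lit 164)) (XT.nd (nat_lit 78) (nat_lit 0) (nat_lit 0) (XT.lf (nat_lit 0) (nat_lit 151281118716) (nat_lit 152) (nat_lit 855047833791) (nat_lit 0) (nat_lit 144730425480) (nat_lit 1) (nat_lit 5) (nat_lit 3) (nat_lit 4) (nat_lit 1) (nat_lit 4) (nat_lit 328) (nat_lit 229) (nat_lit 163)) (XT.lf (nat_lit 0) (nat_lit 165581594619) (nat_lit 152) (nat_lit 918313127345) (nat_lit 0) (nat_lit 159027862619) (nat_lit 1) (nat_lit 5) (nat_lit 3) (nat_lit 4) (nat_lit 1) (nat_lit 4) (nat_lit 329) (nat_lit 229) (nat_lit 162))))) (XT.nd (nat_lit 234)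 (nat_lit 0) (nat_lit 0) (XT.nd (nat_lit 78) (nat_lit 0) (nat_lit 0) (XT.lf (nat_lit 0) (nat_lit 181023717582) (nat_lit 152) (nat_lit 986644152578) (nat_lit 0) (nat_lit 174467171912) (nat_lit 1) (nat_lit 5) (nat_lit 3) (nat_lit 4) (nat_lit 1) (nat_lit 4) (nat_lit 330) (nat_lit 229) (nat_lit 161)) (XT.nd (nat_lit 78) (nat_lit 0) (nat_lit 0) (XT.lf (nat_lit 0) (nat_lit 197698996484) (nat_lit 152) (nat_lit 1060445834084) (nat_lit 0) (nat_lit 191139845564) (nat_lit 1) (nat_lit 5) (nat_lit 3) (nat_lit 4) (nat_lit 1) (nat_lit 4) (nat_lit 331) (nat_lit 229) (nat_lit 160)) (XT.lf (nat_lit 0) (nat_lit 215706247791) (nat_lit 152) (nat_lit 1140155515160) (nat_lit 0) (nat_lit 209144684603) (nat_lit 1) (nat_lit 5) (nat_lit 3) (nat_lit 4) (nat_lit 1) (nat_lit 4) (nat_lit 332) (nat_lit 229) (nat_lit 159)))) (XT.nd (nat_lit 78) (nat_lit 0) (nat_lit 0) (XT.lf (nat_lit 0) (nat_lit 235152181141) (nat_lit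 152) (nat_lit 1226245549473) (nat_lit 0) (nat_lit 228588384371) (nat_lit 1) (nat_lit 5) (nat_lit 3) (nat_lit 4) (nat_lit 1) (nat_lit 4) (nat_lit 333) (nat_lit 229) (nat_lit 158)) (XT.nd (nat_lit 78) (nat_lit 0) (nat_lit 0) (XT.lf (nat_lit 0) (nat_lit 256152031695) (nat_lit 152) (nat_lit 1319226100188) (nat_lit 0) (nat_lit 249586166793) (nat_lit 1) (nat_lit 5) (nat_lit 3) (nat_lit 4) (nat_lit 1) (nat_lit 4) (nat_lit 334) (nat_lit 229) (nat_lit 157)) (XT.lf (nat_lit 0) (nat_lit 278830243011) (nat_lit 152) (nat_lit 1419648163161) (nat_lit 0) (nat_lit 272262463173) (nat_lit 1) (nat_lit 5) (nat_lit 3) (nat_lit 4) (nat_lit 1) (nat_lit 4) (nat_lit 335) (nat_lit 229) (nat_lit 156)))))) (XT.nd (nat_lit 31590) (nat_lit 0) (nat_lit 836) (XT.nd (nat_lit 234) (nat_lit 0) (nat_lit 0) (XT.nd (nat_lit 78) (nat_lit 0) (nat_lit 0) (XT.lf (nat_lit 0) (nat_lit 303321204490) (nat_lit 152) (nat_lit 1528106832100)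 (nat_lit 0) (nat_lit 296751651562) (nat_lit 1) (nat_lit 5) (nat_lit 3) (nat_lit 4) (nat_lit 1) (nat_lit 4) (nat_lit 336) (nat_lit 229) (nat_lit 155)) (XT.nd (nat_lit 78) (nat_lit 0) (nat_lit 0) (XT.lf (nat_lit 0) (nat_lit 329770047755) (nat_lit 152) (nat_lit 1645244825042) (nat_lit 0) (nat_lit 323198853078) (nat_lit 1) (nat_lit 5) (nat_lit 3) (nat_lit 4) (nat_lit 1) (nat_lit 4) (nat_lit 337) (nat_lit 229) (nat_lit 154)) (XT.lf (nat_lit 0) (nat_lit 358333506692) (nat_lit 152) (nat_lit 1771756293056) (nat_lit 0) (nat_lit 351760791878) (nat_lit 1) (nat_lit 5) (nat_lit 3) (nat_lit 4) (nat_lit 1) (nat_lit 4) (nat_lit 338) (nat_lit 229) (nat_lit 153)))) (XT.nd (nat_lit 78) (nat_lit 0) (nat_lit 0) (XT.lf (nat_lit 0) (nat_lit 389180846244) (nat_lit 152) (nat_lit 1908390933731) (nat_lit 0) (nat_lit 382606723894) (nat_lit 1) (nat_lit 5) (nat_lit 3) (nat_lit 4) (nat_lit 1) (nat_lit 4) (nat_lit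 339) (nat_lit 229) (nat_lit 152)) (XT.nd (nat_lit 78) (nat_lit 0) (nat_lit 0) (XT.lf (nat_lit 0) (nat_lit 422494865459) (nat_lit 152) (nat_lit 2055958433826) (nat_lit 0) (nat_lit 415919439836) (nat_lit 1) (nat_lit 5) (nat_lit 3) (nat_lit 4) (nat_lit 1) (nat_lit 4) (nat_lit 340) (nat_lit 229) (nat_lit 151)) (XT.lf (nat_lit 0) (nat_lit 458472980748) (nat_lit 152) (nat_lit 2215333267417) (nat_lit 0) (nat_lit 451896348390) (nat_lit 1) (nat_lit 5) (nat_lit 3) (nat_lit 4) (nat_lit 1) (nat_lit 4) (nat_lit 341) (nat_lit 229) (nat_lit 150))))) (XT.nd (nat_lit 234) (nat_lit 304) (nat_lit 0) (XT.nd (nat_lit 78) (nat_lit 152) (nat_lit 0) (XT.lf (nat_lit 0) (nat_lit 170177975) (nat_lit 228) (nat_lit 4690613280) (nat_lit 0) (nat_lit 170177975) (nat_lit 18) (nat_lit 5) (nat_lit 21) (nat_lit 4) (nat_lit 18) (nat_lit 4) (nat_lit 260) (nat_lit 230) (nat_lit 230)) (XT.nd (nat_lit 78) (nat_lit 152) (nat_lit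 0) (XT.lf (nat_lit 0) (nat_lit 3968465434) (nat_lit 228) (nat_lit 3333638568) (nat_lit 0) (nat_lit 3193633898) (nat_lit 18) (nat_lit 5) (nat_lit 21) (nat_lit 4) (nat_lit 18) (nat_lit 4) (nat_lit 261) (nat_lit 230) (nat_lit 229)) (XT.lf (nat_lit 0) (nat_lit 3017232147) (nat_lit 152) (nat_lit 4725784397) (nat_lit 152) (nat_lit 3233516255) (nat_lit 16) (nat_lit 4) (nat_lit 18) (nat_lit 5) (nat_lit 18) (nat_lit 4) (nat_lit 262) (nat_lit 230) (nat_lit 228)))) (XT.nd (nat_lit 156) (nat_lit 152) (nat_lit 0) (XT.nd (nat_lit 78) (nat_lit 76) (nat_lit 0) (XT.lf (nat_lit 0) (nat_lit 186849070) (nat_lit 228) (nat_lit 1767915230) (nat_lit 76) (nat_lit 9550734509) (nat_lit 15) (nat_lit 5) (nat_lit 18) (nat_lit 5) (nat_lit 16) (nat_lit 4) (nat_lit 263) (nat_lit 230) (nat_lit 227)) (XT.lf (nat_lit 0) (nat_lit 3649781072) (nat_lit 152) (nat_lit 7341975472) (nat_lit 0) (nat_lit 1083440748) (nat_lit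 14) (nat_lit 5) (nat_lit 16) (nat_lit 4) (nat_lit 14) (nat_lit 4) (nat_lit 264) (nat_lit 230) (nat_lit 226))) (XT.nd (nat_lit 78) (nat_lit 152) (nat_lit 0) (XT.lf (nat_lit 0) (nat_lit 7296510820) (nat_lit 152) (nat_lit 1199165027) (nat_lit 0) (nat_lit 4202833172) (nat_lit 14) (nat_lit 5) (nat_lit 16) (nat_lit 4) (nat_lit 14) (nat_lit 4) (nat_lit 265) (nat_lit 230) (nat_lit 225)) (XT.lf (nat_lit 0) (nat_lit 5413734864) (nat_lit 152) (nat_lit 5772182148) (nat_lit 152) (nat_lit 2190229200) (nat_lit 12) (nat_lit 4) (nat_lit 14) (nat_lit 5) (nat_lit 14) (nat_lit 4) (nat_lit 266) (nat_lit 230) (nat_lit 224))))))) (XT.nd (nat_lit 1014) (nat_lit 228) (nat_lit 0) (XT.nd (nat_lit 468) (nat_lit 152) (nat_lit 0) (XT.nd (nat_lit 234) (nat_lit 152) (nat_lit 0) (XT.nd (nat_lit 78) (nat_lit 76) (nat_lit 0) (XT.lf (nat_lit 0) (nat_lit 1070373095) (nat_lit 228) (nat_lit 1807683667) (nat_lit 76) (nat_lit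 11239469260) (nat_lit 11) (nat_lit 5) (nat_lit 14) (nat_lit 5) (nat_lit 12) (nat_lit 4) (nat_lit 267) (nat_lit 230) (nat_lit 223)) (XT.nd (nat_lit 78) (nat_lit 0) (nat_lit 0) (XT.lf (nat_lit 0) (nat_lit 4430840590) (nat_lit 152) (nat_lit 10178670509) (nat_lit 0) (nat_lit 307991446) (nat_lit 10) (nat_lit 5) (nat_lit 12) (nat_lit 4) (nat_lit 10) (nat_lit 4) (nat_lit 268) (nat_lit 230) (nat_lit 222)) (XT.lf (nat_lit 0) (nat_lit 8024213188) (nat_lit 152) (nat_lit 4218065126) (nat_lit 0) (nat_lit 3542467122) (nat_lit 10) (nat_lit 5) (nat_lit 12) (nat_lit 4) (nat_lit 10) (nat_lit 4) (nat_lit 269) (nat_lit 230) (nat_lit 221)))) (XT.nd (nat_lit 78) (nat_lit 76) (nat_lit 0) (XT.lf (nat_lit 0) (nat_lit 2066877615) (nat_lit 76) (nat_lit 9738445632) (nat_lit 76) (nat_lit 4924387602) (nat_lit 9) (nat_lit 4) (nat_lit 10) (nat_lit 5) (nat_lit 10) (nat_lit 4) (nat_lit 270) (nat_lit 230) (nat_lit 220))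 (XT.nd (nat_lit 78) (nat_lit 76) (nat_lit 0) (XT.lf (nat_lit 0) (nat_lit 8845074816) (nat_lit 76) (nat_lit 7014806854) (nat_lit 76) (nat_lit 1893052561) (nat_lit 9) (nat_lit 4) (nat_lit 10) (nat_lit 5) (nat_lit 10) (nat_lit 4) (nat_lit 271) (nat_lit 230) (nat_lit 219)) (XT.lf (nat_lit 0) (nat_lit 1174271887) (nat_lit 152) (nat_lit 2964172715) (nat_lit 76) (nat_lit 14728199175) (nat_lit 8) (nat_lit 5) (nat_lit 10) (nat_lit 5) (nat_lit 9) (nat_lit 4) (nat_lit 272) (nat_lit 230) (nat_lit 218))))) (XT.nd (nat_lit 234) (nat_lit 76) (nat_lit 0) (XT.nd (nat_lit 78) (nat_lit 0) (nat_lit 0) (XT.lf (nat_lit 0) (nat_lit 3352744543) (nat_lit 76) (nat_lit 985333694) (nat_lit 152) (nat_lit 15731436556) (nat_lit 7) (nat_lit 5) (nat_lit 8) (nat_lit 5) (nat_lit 9) (nat_lit 4) (nat_lit 273) (nat_lit 230) (nat_lit 217)) (XT.nd (nat_lit 78) (nat_lit 0) (nat_lit 0) (XT.lf (nat_lit 0) (nat_lit 7771111184)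 (nat_lit 152) (nat_lit 11301941622) (nat_lit 0) (nat_lit 2294520993) (nat_lit 7) (nat_lit 5) (nat_lit 9) (nat_lit 4) (nat_lit 7) (nat_lit 4) (nat_lit 274) (nat_lit 230) (nat_lit 216)) (XT.lf (nat_lit 0) (nat_lit 11388425758) (nat_lit 152) (nat_lit 5686087685) (nat_lit 0) (nat_lit 5702422660) (nat_lit 7) (nat_lit 5) (nat_lit 9) (nat_lit 4) (nat_lit 7) (nat_lit 4) (nat_lit 275) (nat_lit 230) (nat_lit 215)))) (XT.nd (nat_lit 156) (nat_lit 0) (nat_lit 0) (XT.nd (nat_lit 78) (nat_lit 0) (nat_lit 0) (XT.lf (nat_lit 0) (nat_lit 197655521) (nat_lit 76) (nat_lit 14994858697) (nat_lit 76) (nat_lit 9114954760) (nat_lit 6) (nat_lit 4) (nat_lit 7) (nat_lit 5) (nat_lit 7) (nat_lit 4) (nat_lit 276) (nat_lit 230) (nat_lit 214)) (XT.lf (nat_lit 0) (nat_lit 6689046648) (nat_lit 76) (nat_lit 12663455368) (nat_lit 76) (nat_lit 6604013616) (nat_lit 6) (nat_lit 4) (nat_lit 7) (nat_lit 5) (nat_lit 7) (nat_lit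 4) (nat_lit 277) (nat_lit 230) (nat_lit 213))) (XT.nd (nat_lit 78) (nat_lit 0) (nat_lit 0) (XT.lf (nat_lit 0) (nat_lit 13527133897) (nat_lit 76) (nat_lit 10221955446) (nat_lit 76) (nat_lit 3996274977) (nat_lit 6) (nat_lit 4) (nat_lit 7) (nat_lit 5) (nat_lit 7) (nat_lit 4) (nat_lit 278) (nat_lit 230) (nat_lit 212)) (XT.lf (nat_lit 0) (nat_lit 20752439266) (nat_lit 76) (nat_lit 7655890783) (nat_lit 76) (nat_lit 1276285577) (nat_lit 6) (nat_lit 4) (nat_lit 7) (nat_lit 5) (nat_lit 7) (nat_lit 4) (nat_lit 279) (nat_lit 230) (nat_lit 211)))))) (XT.nd (nat_lit 468) (nat_lit 76) (nat_lit 0) (XT.nd (nat_lit 234) (nat_lit 0) (nat_lit 0) (XT.nd (nat_lit 78) (nat_lit 76) (nat_lit 0) (XT.lf (nat_lit 0) (nat_lit 1493431579) (nat_lit 152) (nat_lit 3415790427) (nat_lit 76) (nat_lit 26873514735) (nat_lit 5) (nat_lit 5) (nat_lit 7) (nat_lit 5) (nat_lit 6) (nat_lit 4) (nat_lit 280) (nat_lit 230) (nat_lit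 210)) (XT.nd (nat_lit 78) (nat_lit 0) (nat_lit 0) (XT.lf (nat_lit 0) (nat_lit 2492127923) (nat_lit 76) (nat_lit 1905094041) (nat_lit 152) (nat_lit 29650451708) (nat_lit 4) (nat_lit 5) (nat_lit 5) (nat_lit 5) (nat_lit 6) (nat_lit 4) (nat_lit 281) (nat_lit 230) (nat_lit 209)) (XT.lf (nat_lit 0) (nat_lit 7583876704) (nat_lit 152) (nat_lit 27596468570) (nat_lit 0) (nat_lit 1309539496) (nat_lit 4) (nat_lit 5) (nat_lit 6) (nat_lit 4) (nat_lit 4) (nat_lit 4) (nat_lit 282) (nat_lit 230) (nat_lit 208)))) (XT.nd (nat_lit 78) (nat_lit 0) (nat_lit 0) (XT.lf (nat_lit 0) (nat_lit 11003215123) (nat_lit 152) (nat_lit 23502033110) (nat_lit 0) (nat_lit 4624119325) (nat_lit 4) (nat_lit 5) (nat_lit 6) (nat_lit 4) (nat_lit 4) (nat_lit 4) (nat_lit 283) (nat_lit 230) (nat_lit 207)) (XT.nd (nat_lit 78) (nat_lit 0) (nat_lit 0) (XT.lf (nat_lit 0) (nat_lit 14629682410) (nat_lit 152) (nat_lit 19202158492) (nat_lit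 0) (nat_lit 8153587917) (nat_lit 4) (nat_lit 5) (nat_lit 6) (nat_lit 4) (nat_lit 4) (nat_lit 4) (nat_lit 284) (nat_lit 230) (nat_lit 206)) (XT.lf (nat_lit 0) (nat_lit 18484768742) (nat_lit 152) (nat_lit 14671363977) (nat_lit 0) (nat_lit 11918860643) (nat_lit 4) (nat_lit 5) (nat_lit 6) (nat_lit 4) (nat_lit 4) (nat_lit 4) (nat_lit 285) (nat_lit 230) (nat_lit 205))))) (XT.nd (nat_lit 234) (nat_lit 0) (nat_lit 0) (XT.nd (nat_lit 78) (nat_lit 76) (nat_lit 0) (XT.lf (nat_lit 0) (nat_lit 22591319075) (nat_lit 152) (nat_lit 9882800414) (nat_lit 0) (nat_lit 15942250229) (nat_lit 4) (nat_lit 5) (nat_lit 6) (nat_lit 4) (nat_lit 4) (nat_lit 4) (nat_lit 286) (nat_lit 230) (nat_lit 204)) (XT.nd (nat_lit 78) (nat_lit 76) (nat_lit 0) (XT.lf (nat_lit 0) (nat_lit 26973668521) (nat_lit 152) (nat_lit 4808091128) (nat_lit 0) (nat_lit 20247598985) (nat_lit 4) (nat_lit 5) (nat_lit 6) (nat_lit 4) (nat_lit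 4) (nat_lit 4) (nat_lit 287) (nat_lit 230) (nat_lit 203)) (XT.lf (nat_lit 0) (nat_lit 613527354) (nat_lit 76) (nat_lit 31059014554) (nat_lit 76) (nat_lit 24261648081) (nat_lit 3) (nat_lit 4) (nat_lit 4) (nat_lit 5) (nat_lit 4) (nat_lit 4) (nat_lit 288) (nat_lit 230) (nat_lit 202)))) (XT.nd (nat_lit 156) (nat_lit 0) (nat_lit 0) (XT.nd (nat_lit 78) (nat_lit 0) (nat_lit 0) (XT.lf (nat_lit 0) (nat_lit 6654829420) (nat_lit 76) (nat_lit 30176650315) (nat_lit 76) (nat_lit 23313268161) (nat_lit 3) (nat_lit 4) (nat_lit 4) (nat_lit 5) (nat_lit 4) (nat_lit 4) (nat_lit 289) (nat_lit 230) (nat_lit 201)) (XT.lf (nat_lit 0) (nat_lit 13098429820) (nat_lit 76) (nat_lit 29260899842) (nat_lit 76) (nat_lit 22336392056) (nat_lit 3) (nat_lit 4) (nat_lit 4) (nat_lit 5) (nat_lit 4) (nat_lit 4) (nat_lit 290) (nat_lit 230) (nat_lit 200))) (XT.nd (nat_lit 78) (nat_lit 0) (nat_lit 0) (XT.lf (nat_lit 0) (nat_lit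 19982512852) (nat_lit 76) (nat_lit 28306336463) (nat_lit 76) (nat_lit 21325230871) (nat_lit 3) (nat_lit 4) (nat_lit 4) (nat_lit 5) (nat_lit 4) (nat_lit 4) (nat_lit 291) (nat_lit 230) (nat_lit 199)) (XT.lf (nat_lit 0) (nat_lit 27347873083) (nat_lit 76) (nat_lit 27307303508) (nat_lit 76) (nat_lit 20273792539) (nat_lit 3) (nat_lit 4) (nat_lit 4) (nat_lit 5) (nat_lit 4) (nat_lit 4) (nat_lit 292) (nat_lit 230) (nat_lit 198))))))))
noncomputable def xc33 : XT := (XT.nd (nat_lit 1950) (nat_lit 0) (nat_lit 0) (XT.nd (nat_lit 936) (nat_lit 152) (nat_lit 0) (XT.nd (nat_lit 468) (nat_lit 0) (nat_lit 0) (XT.nd (nat_lit 234) (nat_lit 0) (nat_lit 0) (XT.nd (nat_lit 78) (nat_lit 0) (nat_lit 0) (XT.lf (nat_lit 0) (nat_lit 35238157092) (nat_lit 76) (nat_lit 26257880781) (nat_lit 76) (nat_lit 19175846315) (nat_lit 3) (nat_lit 4) (nat_lit 4) (nat_lit 5) (nat_lit 4) (nat_lit 4) (nat_lit 293) (nat_lit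 230) (nat_lit 197)) (XT.nd (nat_lit 78) (nat_lit 0) (nat_lit 0) (XT.lf (nat_lit 0) (nat_lit 43700122117) (nat_lit 76) (nat_lit 25151849481) (nat_lit 76) (nat_lit 18024885851) (nat_lit 3) (nat_lit 4) (nat_lit 4) (nat_lit 5) (nat_lit 4) (nat_lit 4) (nat_lit 294) (nat_lit 230) (nat_lit 196)) (XT.lf (nat_lit 0) (nat_lit 52783913136) (nat_lit 76) (nat_lit 23982655348) (nat_lit 76) (nat_lit 16814090640) (nat_lit 3) (nat_lit 4) (nat_lit 4) (nat_lit 5) (nat_lit 4) (nat_lit 4) (nat_lit 295) (nat_lit 230) (nat_lit 195)))) (XT.nd (nat_lit 78) (nat_lit 0) (nat_lit 0) (XT.lf (nat_lit 0) (nat_lit 62543360023) (nat_lit 76) (nat_lit 22743369824) (nat_lit 76) (nat_lit 15536285600) (nat_lit 3) (nat_lit 4) (nat_lit 4) (nat_lit 5) (nat_lit 4) (nat_lit 4) (nat_lit 296) (nat_lit 230) (nat_lit 194)) (XT.nd (nat_lit 78) (nat_lit 0) (nat_lit 0) (XT.lf (nat_lit 0) (nat_lit 73036296535) (nat_lit 76) (nat_lit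 21426648995) (nat_lit 76) (nat_lit 14183898553) (nat_lit 3) (nat_lit 4) (nat_lit 4) (nat_lit 5) (nat_lit 4) (nat_lit 4) (nat_lit 297) (nat_lit 230) (nat_lit 193)) (XT.lf (nat_lit 0) (nat_lit 84324903039) (nat_lit 76) (nat_lit 20024690071) (nat_lit 76) (nat_lit 12748915352) (nat_lit 3) (nat_lit 4) (nat_lit 4) (nat_lit 5) (nat_lit 4) (nat_lit 4) (nat_lit 298) (nat_lit 230) (nat_lit 192))))) (XT.nd (nat_lit 234) (nat_lit 0) (nat_lit 0) (XT.nd (nat_lit 78) (nat_lit 0) (nat_lit 0) (XT.lf (nat_lit 0) (nat_lit 96476074979) (nat_lit 76) (nat_lit 18529185147) (nat_lit 76) (nat_lit 11222832395) (nat_lit 3) (nat_lit 4) (nat_lit 4) (nat_lit 5) (nat_lit 4) (nat_lit 4) (nat_lit 299) (nat_lit 230) (nat_lit 191)) (XT.nd (nat_lit 78) (nat_lit 0) (nat_lit 0) (XT.lf (nat_lit 0) (nat_lit 109561819301) (nat_lit 76) (nat_lit 16931271972) (nat_lit 76) (nat_lit 9596606225) (nat_lit 3) (nat_lit 4) (nat_lit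 4) (nat_lit 5) (nat_lit 4) (nat_lit 4) (nat_lit 300) (nat_lit 230) (nat_lit 190)) (XT.lf (nat_lit 0) (nat_lit 123659681156) (nat_lit 76) (nat_lit 15221481431) (nat_lit 76) (nat_lit 7860599949) (nat_lit 3) (nat_lit 4) (nat_lit 4) (nat_lit 5) (nat_lit 4) (nat_lit 4) (nat_lit 301) (nat_lit 230) (nat_lit 189)))) (XT.nd (nat_lit 78) (nat_lit 0) (nat_lit 0) (XT.lf (nat_lit 0) (nat_lit 138853203429) (nat_lit 76) (nat_lit 13389681432) (nat_lit 76) (nat_lit 6004526120) (nat_lit 3) (nat_lit 4) (nat_lit 4) (nat_lit 5) (nat_lit 4) (nat_lit 4) (nat_lit 302) (nat_lit 230) (nat_lit 188)) (XT.nd (nat_lit 78) (nat_lit 0) (nat_lit 0) (XT.lf (nat_lit 0) (nat_lit 155232421807) (nat_lit 76) (nat_lit 11425016863) (nat_lit 76) (nat_lit 4017385784) (nat_lit 3) (nat_lit 4) (nat_lit 4) (nat_lit 5) (nat_lit 4) (nat_lit 4) (nat_lit 303) (nat_lit 230) (nat_lit 187)) (XT.lf (nat_lit 0) (nat_lit 172894398327) (nat_lit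 76) (nat_lit 9315845268) (nat_lit 76) (nat_lit 1887403293) (nat_lit 3) (nat_lit 4) (nat_lit 4) (nat_lit 5) (nat_lit 4) (nat_lit 4) (nat_lit 304) (nat_lit 230) (nat_lit 186)))))) (XT.nd (nat_lit 468) (nat_lit 0) (nat_lit 0) (XT.nd (nat_lit 234) (nat_lit 0) (nat_lit 0) (XT.nd (nat_lit 78) (nat_lit 76) (nat_lit 0) (XT.lf (nat_lit 0) (nat_lit 378131724) (nat_lit 152) (nat_lit 6661197336) (nat_lit 76) (nat_lit 191555326035) (nat_lit 2) (nat_lit 5) (nat_lit 4) (nat_lit 5) (nat_lit 3) (nat_lit 4) (nat_lit 305) (nat_lit 230) (nat_lit 185)) (XT.nd (nat_lit 78) (nat_lit 76) (nat_lit 0) (XT.lf (nat_lit 0) (nat_lit 2709804398) (nat_lit 152) (nat_lit 1829160163) (nat_lit 76) (nat_lit 209709606551) (nat_lit 2) (nat_lit 5) (nat_lit 4) (nat_lit 5) (nat_lit 3) (nat_lit 4) (nat_lit 306) (nat_lit 230) (nat_lit 184)) (XT.lf (nat_lit 0) (nat_lit 3544183774) (nat_lit 76) (nat_lit 1756901536) (nat_lit 152)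 (nat_lit 225847885923) (nat_lit 1) (nat_lit 5) (nat_lit 2) (nat_lit 5) (nat_lit 3) (nat_lit 4) (nat_lit 307) (nat_lit 230) (nat_lit 183)))) (XT.nd (nat_lit 78) (nat_lit 0) (nat_lit 0) (XT.lf (nat_lit 0) (nat_lit 8168952103) (nat_lit 152) (nat_lit 239999981561) (nat_lit 0) (nat_lit 1226942564) (nat_lit 1) (nat_lit 5) (nat_lit 3) (nat_lit 4) (nat_lit 1) (nat_lit 4) (nat_lit 308) (nat_lit 230) (nat_lit 182)) (XT.nd (nat_lit 78) (nat_lit 0) (nat_lit 0) (XT.lf (nat_lit 0) (nat_lit 11300737646) (nat_lit 152) (nat_lit 253453437497) (nat_lit 0) (nat_lit 4345613711) (nat_lit 1) (nat_lit 5) (nat_lit 3) (nat_lit 4) (nat_lit 1) (nat_lit 4) (nat_lit 309) (nat_lit 230) (nat_lit 181)) (XT.lf (nat_lit 0) (nat_lit 14672747143) (nat_lit 152) (nat_lit 268002625927) (nat_lit 0) (nat_lit 7705480251) (nat_lit 1) (nat_lit 5) (nat_lit 3) (nat_lit 4) (nat_lit 1) (nat_lit 4) (nat_lit 310) (nat_lit 230) (nat_lit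 180))))) (XT.nd (nat_lit 234) (nat_lit 0) (nat_lit 0) (XT.nd (nat_lit 78) (nat_lit 0) (nat_lit 0) (XT.lf (nat_lit 0) (nat_lit 18304962873) (nat_lit 152) (nat_lit 283733764265) (nat_lit 0) (nat_lit 11326452501) (nat_lit 1) (nat_lit 5) (nat_lit 3) (nat_lit 4) (nat_lit 1) (nat_lit 4) (nat_lit 311) (nat_lit 230) (nat_lit 179)) (XT.nd (nat_lit 78) (nat_lit 0) (nat_lit 0) (XT.lf (nat_lit 0) (nat_lit 22218909078) (nat_lit 152) (nat_lit 300740074071) (nat_lit 0) (nat_lit 15229988077) (nat_lit 1) (nat_lit 5) (nat_lit 3) (nat_lit 4) (nat_lit 1) (nat_lit 4) (nat_lit 312) (nat_lit 230) (nat_lit 178)) (XT.lf (nat_lit 0) (nat_lit 26437779513) (nat_lit 152) (nat_lit 319122333476) (nat_lit 0) (nat_lit 19439219040) (nat_lit 1) (nat_lit 5) (nat_lit 3) (nat_lit 4) (nat_lit 1) (nat_lit 4) (nat_lit 313) (nat_lit 230) (nat_lit 177)))) (XT.nd (nat_lit 156) (nat_lit 0) (nat_lit 0) (XT.nd (nat_lit 78) (nat_lit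 0) (nat_lit 0) (XT.lf (nat_lit 0) (nat_lit 30986574891) (nat_lit 152) (nat_lit 338989474389) (nat_lit 0) (nat_lit 23979088982) (nat_lit 1) (nat_lit 5) (nat_lit 3) (nat_lit 4) (nat_lit 1) (nat_lit 4) (nat_lit 314) (nat_lit 230) (nat_lit 176)) (XT.lf (nat_lit 0) (nat_lit 35892251037) (nat_lit 152) (nat_lit 360459228015) (nat_lit 0) (nat_lit 28876500835) (nat_lit 1) (nat_lit 5) (nat_lit 3) (nat_lit 4) (nat_lit 1) (nat_lit 4) (nat_lit 315) (nat_lit 230) (nat_lit 175))) (XT.nd (nat_lit 78) (nat_lit 0) (nat_lit 0) (XT.lf (nat_lit 0) (nat_lit 41183878625) (nat_lit 152) (nat_lit 383658822524) (nat_lit 0) (nat_lit 34160476300) (nat_lit 1) (nat_lit 5) (nat_lit 3) (nat_lit 4) (nat_lit 1) (nat_lit 4) (nat_lit 316) (nat_lit 230) (nat_lit 174)) (XT.lf (nat_lit 0) (nat_lit 46892815448) (nat_lit 152) (nat_lit 408725736994) (nat_lit 0) (nat_lit 39862327823) (nat_lit 1) (nat_lit 5) (nat_lit 3) (nat_lit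 4) (nat_lit 1) (nat_lit 4) (nat_lit 317) (nat_lit 230) (nat_lit 173))))))) (XT.nd (nat_lit 1014) (nat_lit 0) (nat_lit 0) (XT.nd (nat_lit 468) (nat_lit 0) (nat_lit 0) (XT.nd (nat_lit 234) (nat_lit 0) (nat_lit 0) (XT.nd (nat_lit 78) (nat_lit 0) (nat_lit 0) (XT.lf (nat_lit 0) (nat_lit 53052892242) (nat_lit 152) (nat_lit 435808516103) (nat_lit 0) (nat_lit 46015844154) (nat_lit 1) (nat_lit 5) (nat_lit 3) (nat_lit 4) (nat_lit 1) (nat_lit 4) (nat_lit 318) (nat_lit 230) (nat_lit 172)) (XT.nd (nat_lit 78) (nat_lit 0) (nat_lit 0) (XT.lf (nat_lit 0) (nat_lit 59700613166) (nat_lit 152) (nat_lit 465067650395) (nat_lit 0) (nat_lit 52657490576) (nat_lit 1) (nat_lit 5) (nat_lit 3) (nat_lit 4) (nat_lit 1) (nat_lit 4) (nat_lit 319) (nat_lit 230) (nat_lit 171)) (XT.lf (nat_lit 0) (nat_lit 66875372121) (nat_lit 152) (nat_lit 496676527331) (nat_lit 0) (nat_lit 59826624993) (nat_lit 1) (nat_lit 5) (nat_lit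 3) (nat_lit 4) (nat_lit 1) (nat_lit 4) (nat_lit 320) (nat_lit 230) (nat_lit 170)))) (XT.nd (nat_lit 78) (nat_lit 0) (nat_lit 0) (XT.lf (nat_lit 0) (nat_lit 74619686199) (nat_lit 152) (nat_lit 530822458776) (nat_lit 0) (nat_lit 67565731164) (nat_lit 1) (nat_lit 5) (nat_lit 3) (nat_lit 4) (nat_lit 1) (nat_lit 4) (nat_lit 321) (nat_lit 230) (nat_lit 169)) (XT.nd (nat_lit 78) (nat_lit 0) (nat_lit 0) (XT.lf (nat_lit 0) (nat_lit 82979447631) (nat_lit 152) (nat_lit 567707790989) (nat_lit 0) (nat_lit 75920670460) (nat_lit 1) (nat_lit 5) (nat_lit 3) (nat_lit 4) (nat_lit 1) (nat_lit 4) (nat_lit 322) (nat_lit 230) (nat_lit 168)) (XT.lf (nat_lit 0) (nat_lit 92004195743) (nat_lit 152) (nat_lit 607551103717) (nat_lit 0) (nat_lit 84940953631) (nat_lit 1) (nat_lit 5) (nat_lit 3) (nat_lit 4) (nat_lit 1) (nat_lit 4) (nat_lit 323) (nat_lit 230) (nat_lit 167))))) (XT.nd (nat_lit 234) (nat_lit 0) (nat_lit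 0) (XT.nd (nat_lit 78) (nat_lit 0) (nat_lit 0) (XT.lf (nat_lit 0) (nat_lit 101747410524) (nat_lit 152) (nat_lit 650588505480) (nat_lit 0) (nat_lit 94680034209) (nat_lit 1) (nat_lit 5) (nat_lit 3) (nat_lit 4) (nat_lit 1) (nat_lit 4) (nat_lit 324) (nat_lit 230) (nat_lit 166)) (XT.nd (nat_lit 78) (nat_lit 0) (nat_lit 0) (XT.lf (nat_lit 0) (nat_lit 112266829544) (nat_lit 152) (nat_lit 697075032733) (nat_lit 0) (nat_lit 105195625262) (nat_lit 1) (nat_lit 5) (nat_lit 3) (nat_lit 4) (nat_lit 1) (nat_lit 4) (nat_lit 325) (nat_lit 230) (nat_lit 165)) (XT.lf (nat_lit 0) (nat_lit 123624790100) (nat_lit 152) (nat_lit 747286161193) (nat_lit 0) (nat_lit 116550041404) (nat_lit 1) (nat_lit 5) (nat_lit 3) (nat_lit 4) (nat_lit 1) (nat_lit 4) (nat_lit 326) (nat_lit 230) (nat_lit 164)))) (XT.nd (nat_lit 156) (nat_lit 0) (nat_lit 0) (XT.nd (nat_lit 78) (nat_lit 0) (nat_lit 0) (XT.lf (nat_lit 0) (nat_lit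 135888598625) (nat_lit 152) (nat_lit 801519438287) (nat_lit 0) (nat_lit 128810568065) (nat_lit 1) (nat_lit 5) (nat_lit 3) (nat_lit 4) (nat_lit 1) (nat_lit 4) (nat_lit 327) (nat_lit 230) (nat_lit 163)) (XT.lf (nat_lit 0) (nat_lit 149130929541) (nat_lit 152) (nat_lit 860096246399) (nat_lit 0) (nat_lit 142049860217) (nat_lit 1) (nat_lit 5) (nat_lit 3) (nat_lit 4) (nat_lit 1) (nat_lit 4) (nat_lit 328) (nat_lit 230) (nat_lit 162))) (XT.nd (nat_lit 78) (nat_lit 0) (nat_lit 0) (XT.lf (nat_lit 0) (nat_lit 163430255919) (nat_lit 152) (nat_lit 923363707355) (nat_lit 0) (nat_lit 156346372925) (nat_lit 1) (nat_lit 5) (nat_lit 3) (nat_lit 4) (nat_lit 1) (nat_lit 4) (nat_lit 329) (nat_lit 230) (nat_lit 161)) (XT.lf (nat_lit 0) (nat_lit 178871314508) (nat_lit 152) (nat_lit 991696739441) (nat_lit 0) (nat_lit 171784826264) (nat_lit 1) (nat_lit 5) (nat_lit 3) (nat_lit 4) (nat_lit 1) (nat_lit 4) (nat_lit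 330) (nat_lit 230) (nat_lit 160)))))) (XT.nd (nat_lit 468) (nat_lit 0) (nat_lit 0) (XT.nd (nat_lit 234) (nat_lit 0) (nat_lit 0) (XT.nd (nat_lit 78) (nat_lit 0) (nat_lit 0) (XT.lf (nat_lit 0) (nat_lit 195545607877) (nat_lit 152) (nat_lit 1065500279144) (nat_lit 0) (nat_lit 188456707365) (nat_lit 1) (nat_lit 5) (nat_lit 3) (nat_lit 4) (nat_lit 1) (nat_lit 4) (nat_lit 331) (nat_lit 230) (nat_lit 159)) (XT.nd (nat_lit 78) (nat_lit 0) (nat_lit 0) (XT.lf (nat_lit 0) (nat_lit 213551946655) (nat_lit 152) (nat_lit 1145211680773) (nat_lit 0) (nat_lit 206460812561) (nat_lit 1) (nat_lit 5) (nat_lit 3) (nat_lit 4) (nat_lit 1) (nat_lit 4) (nat_lit 332) (nat_lit 230) (nat_lit 158)) (XT.lf (nat_lit 0) (nat_lit 232997035070) (nat_lit 152) (nat_lit 1231303308190) (nat_lit 0) (nat_lit 225903832845) (nat_lit 1) (nat_lit 5) (nat_lit 3) (nat_lit 4) (nat_lit 1) (nat_lit 4) (nat_lit 333) (nat_lit 230) (nat_lit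 157)))) (XT.nd (nat_lit 78) (nat_lit 0) (nat_lit 0) (XT.lf (nat_lit 0) (nat_lit 253996103277) (nat_lit 152) (nat_lit 1324285334002) (nat_lit 0) (nat_lit 246900986115) (nat_lit 1) (nat_lit 5) (nat_lit 3) (nat_lit 4) (nat_lit 1) (nat_lit 4) (nat_lit 334) (nat_lit 230) (nat_lit 156)) (XT.nd (nat_lit 78) (nat_lit 0) (nat_lit 0) (XT.lf (nat_lit 0) (nat_lit 276673590197) (nat_lit 152) (nat_lit 1424708762806) (nat_lit 0) (nat_lit 269576699946) (nat_lit 1) (nat_lit 5) (nat_lit 3) (nat_lit 4) (nat_lit 1) (nat_lit 4) (nat_lit 335) (nat_lit 230) (nat_lit 155)) (XT.lf (nat_lit 0) (nat_lit 301163880939) (nat_lit 152) (nat_lit 1533168696402) (nat_lit 0) (nat_lit 294065348939) (nat_lit 1) (nat_lit 5) (nat_lit 3) (nat_lit 4) (nat_lit 1) (nat_lit 4) (nat_lit 336) (nat_lit 230) (nat_lit 154))))) (XT.nd (nat_lit 234) (nat_lit 0) (nat_lit 0) (XT.nd (nat_lit 78) (nat_lit 0) (nat_lit 0) (XT.lf (nat_lit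 0) (nat_lit 327612103152) (nat_lit 152) (nat_lit 1650307860323) (nat_lit 0) (nat_lit 320512051014) (nat_lit 1) (nat_lit 5) (nat_lit 3) (nat_lit 4) (nat_lit 1) (nat_lit 4) (nat_lit 337) (nat_lit 230) (nat_lit 153)) (XT.nd (nat_lit 78) (nat_lit 0) (nat_lit 0) (XT.lf (nat_lit 0) (nat_lit 356174987041) (nat_lit 152) (nat_lit 1776820412578) (nat_lit 0) (nat_lit 349073527368) (nat_lit 1) (nat_lit 5) (nat_lit 3) (nat_lit 4) (nat_lit 1) (nat_lit 4) (nat_lit 338) (nat_lit 230) (nat_lit 152)) (XT.lf (nat_lit 0) (nat_lit 387021794141) (nat_lit 152) (nat_lit 1913456057179) (nat_lit 0) (nat_lit 379919031194) (nat_lit 1) (nat_lit 5) (nat_lit 3) (nat_lit 4) (nat_lit 1) (nat_lit 4) (nat_lit 339) (nat_lit 230) (nat_lit 151)))) (XT.nd (nat_lit 31200) (nat_lit 0) (nat_lit 1292) (XT.nd (nat_lit 31122) (nat_lit 0) (nat_lit 1672) (XT.lf (nat_lit 0) (nat_lit 420335320345) (nat_lit 152) (nat_lit 2061024486836)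 (nat_lit 0) (nat_lit 413231350663) (nat_lit 1) (nat_lit 5) (nat_lit 3) (nat_lit 4) (nat_lit 1) (nat_lit 4) (nat_lit 340) (nat_lit 230) (nat_lit 150)) (XT.lf (nat_lit 0) (nat_lit 1831195306) (nat_lit 228) (nat_lit 979221905) (nat_lit 0) (nat_lit 1831195306) (nat_lit 23) (nat_lit 5) (nat_lit 26) (nat_lit 4) (nat_lit 23) (nat_lit 4) (nat_lit 258) (nat_lit 231) (nat_lit 231))) (XT.nd (nat_lit 78) (nat_lit 228) (nat_lit 0) (XT.lf (nat_lit 0) (nat_lit 4165089872) (nat_lit 152) (nat_lit 3197533414) (nat_lit 152) (nat_lit 2293769912) (nat_lit 21) (nat_lit 4) (nat_lit 23) (nat_lit 5) (nat_lit 23) (nat_lit 4) (nat_lit 259) (nat_lit 231) (nat_lit 230)) (XT.lf (nat_lit 0) (nat_lit 503053706) (nat_lit 152) (nat_lit 575617095) (nat_lit 228) (nat_lit 8991556516) (nat_lit 18) (nat_lit 5) (nat_lit 20) (nat_lit 5) (nat_lit 21) (nat_lit 4) (nat_lit 260) (nat_lit 231) (nat_lit 229))))))))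
noncomputable def xc34 : XT := (XT.nd (nat_lit 1950) (nat_lit 228) (nat_lit 0) (XT.nd (nat_lit 936) (nat_lit 304) (nat_lit 0) (XT.nd (nat_lit 468) (nat_lit 304) (nat_lit 0) (XT.nd (nat_lit 234) (nat_lit 228) (nat_lit 0) (XT.nd (nat_lit 78) (nat_lit 228) (nat_lit 0) (XT.lf (nat_lit 0) (nat_lit 4588911854) (nat_lit 228) (nat_lit 3665097056) (nat_lit 0) (nat_lit 2259825654) (nat_lit 18) (nat_lit 5) (nat_lit 21) (nat_lit 4) (nat_lit 18) (nat_lit 4) (nat_lit 261) (nat_lit 231) (nat_lit 228)) (XT.nd (nat_lit 78) (nat_lit 76) (nat_lit 0) (XT.lf (nat_lit 0) (nat_lit 2512998904) (nat_lit 152) (nat_lit 5742017956) (nat_lit 152) (nat_lit 2748638602) (nat_lit 16) (nat_lit 4) (nat_lit 18) (nat_lit 5) (nat_lit 18) (nat_lit 4) (nat_lit 262) (nat_lit 231) (nat_lit 227)) (XT.lf (nat_lit 0) (nat_lit 552113438) (nat_lit 228) (nat_lit 2460069655) (nat_lit 76) (nat_lit 8527434424) (nat_lit 15) (nat_lit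 5) (nat_lit 18) (nat_lit 5) (nat_lit 16) (nat_lit 4) (nat_lit 263) (nat_lit 231) (nat_lit 226)))) (XT.nd (nat_lit 78) (nat_lit 152) (nat_lit 0) (XT.lf (nat_lit 0) (nat_lit 3878557909) (nat_lit 152) (nat_lit 8231906456) (nat_lit 0) (nat_lit 10048725) (nat_lit 14) (nat_lit 5) (nat_lit 16) (nat_lit 4) (nat_lit 14) (nat_lit 4) (nat_lit 264) (nat_lit 231) (nat_lit 225)) (XT.nd (nat_lit 78) (nat_lit 152) (nat_lit 0) (XT.lf (nat_lit 0) (nat_lit 7439103816) (nat_lit 152) (nat_lit 2229553864) (nat_lit 0) (nat_lit 3082319333) (nat_lit 14) (nat_lit 5) (nat_lit 16) (nat_lit 4) (nat_lit 14) (nat_lit 4) (nat_lit 265) (nat_lit 231) (nat_lit 224)) (XT.lf (nat_lit 0) (nat_lit 4192185620) (nat_lit 152) (nat_lit 7027146247) (nat_lit 152) (nat_lit 2218255005) (nat_lit 12) (nat_lit 4) (nat_lit 14) (nat_lit 5) (nat_lit 14) (nat_lit 4) (nat_lit 266) (nat_lit 231) (nat_lit 223))))) (XT.nd (nat_lit 234) (nat_lit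 152) (nat_lit 0) (XT.nd (nat_lit 78) (nat_lit 76) (nat_lit 0) (XT.lf (nat_lit 0) (nat_lit 964603812) (nat_lit 228) (nat_lit 3221132681) (nat_lit 76) (nat_lit 9999820148) (nat_lit 11) (nat_lit 5) (nat_lit 14) (nat_lit 5) (nat_lit 12) (nat_lit 4) (nat_lit 267) (nat_lit 231) (nat_lit 222)) (XT.nd (nat_lit 78) (nat_lit 0) (nat_lit 0) (XT.lf (nat_lit 0) (nat_lit 3131561028) (nat_lit 76) (nat_lit 1073572776) (nat_lit 152) (nat_lit 10790183620) (nat_lit 10) (nat_lit 5) (nat_lit 11) (nat_lit 5) (nat_lit 12) (nat_lit 4) (nat_lit 268) (nat_lit 231) (nat_lit 221)) (XT.lf (nat_lit 0) (nat_lit 7700840412) (nat_lit 152) (nat_lit 6000362649) (nat_lit 0) (nat_lit 2169345775) (nat_lit 10) (nat_lit 5) (nat_lit 12) (nat_lit 4) (nat_lit 10) (nat_lit 4) (nat_lit 269) (nat_lit 231) (nat_lit 220)))) (XT.nd (nat_lit 78) (nat_lit 76) (nat_lit 0) (XT.lf (nat_lit 0) (nat_lit 70811087) (nat_lit 76) (nat_lit 11296609362)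 (nat_lit 76) (nat_lit 5457418462) (nat_lit 9) (nat_lit 4) (nat_lit 10) (nat_lit 5) (nat_lit 10) (nat_lit 4) (nat_lit 270) (nat_lit 231) (nat_lit 219)) (XT.nd (nat_lit 78) (nat_lit 76) (nat_lit 0) (XT.lf (nat_lit 0) (nat_lit 6737974607) (nat_lit 76) (nat_lit 8619737076) (nat_lit 76) (nat_lit 2495642228) (nat_lit 9) (nat_lit 4) (nat_lit 10) (nat_lit 5) (nat_lit 10) (nat_lit 4) (nat_lit 271) (nat_lit 231) (nat_lit 218)) (XT.lf (nat_lit 0) (nat_lit 540641757) (nat_lit 152) (nat_lit 5263359943) (nat_lit 76) (nat_lit 13169244702) (nat_lit 8) (nat_lit 5) (nat_lit 10) (nat_lit 5) (nat_lit 9) (nat_lit 4) (nat_lit 272) (nat_lit 231) (nat_lit 217)))))) (XT.nd (nat_lit 468) (nat_lit 152) (nat_lit 0) (XT.nd (nat_lit 234) (nat_lit 76) (nat_lit 0) (XT.nd (nat_lit 78) (nat_lit 0) (nat_lit 0) (XT.lf (nat_lit 0) (nat_lit 829014140) (nat_lit 76) (nat_lit 2758085933) (nat_lit 152) (nat_lit 16598524456)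 (nat_lit 7) (nat_lit 5) (nat_lit 8) (nat_lit 5) (nat_lit 9) (nat_lit 4) (nat_lit 273) (nat_lit 231) (nat_lit 216)) (XT.nd (nat_lit 78) (nat_lit 0) (nat_lit 0) (XT.lf (nat_lit 0) (nat_lit 6921751126) (nat_lit 152) (nat_lit 13998458517) (nat_lit 0) (nat_lit 571454874) (nat_lit 7) (nat_lit 5) (nat_lit 9) (nat_lit 4) (nat_lit 7) (nat_lit 4) (nat_lit 274) (nat_lit 231) (nat_lit 215)) (XT.lf (nat_lit 0) (nat_lit 10487447960) (nat_lit 152) (nat_lit 8474559664) (nat_lit 0) (nat_lit 3943250869) (nat_lit 7) (nat_lit 5) (nat_lit 9) (nat_lit 4) (nat_lit 7) (nat_lit 4) (nat_lit 275) (nat_lit 231) (nat_lit 214)))) (XT.nd (nat_lit 78) (nat_lit 76) (nat_lit 0) (XT.lf (nat_lit 0) (nat_lit 14238988598) (nat_lit 152) (nat_lit 2685847582) (nat_lit 0) (nat_lit 7515253692) (nat_lit 7) (nat_lit 5) (nat_lit 9) (nat_lit 4) (nat_lit 7) (nat_lit 4) (nat_lit 276) (nat_lit 231) (nat_lit 213)) (XT.nd (nat_lit 78)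 (nat_lit 0) (nat_lit 0) (XT.lf (nat_lit 0) (nat_lit 3581123509) (nat_lit 76) (nat_lit 14703606988) (nat_lit 76) (nat_lit 7813633365) (nat_lit 6) (nat_lit 4) (nat_lit 7) (nat_lit 5) (nat_lit 7) (nat_lit 4) (nat_lit 277) (nat_lit 231) (nat_lit 212)) (XT.lf (nat_lit 0) (nat_lit 10342369959) (nat_lit 76) (nat_lit 12296124015) (nat_lit 76) (nat_lit 5252225654) (nat_lit 6) (nat_lit 4) (nat_lit 7) (nat_lit 5) (nat_lit 7) (nat_lit 4) (nat_lit 278) (nat_lit 231) (nat_lit 211))))) (XT.nd (nat_lit 234) (nat_lit 76) (nat_lit 0) (XT.nd (nat_lit 78) (nat_lit 76) (nat_lit 0) (XT.lf (nat_lit 0) (nat_lit 17496526441) (nat_lit 76) (nat_lit 9761556527) (nat_lit 76) (nat_lit 2575135261) (nat_lit 6) (nat_lit 4) (nat_lit 7) (nat_lit 5) (nat_lit 7) (nat_lit 4) (nat_lit 279) (nat_lit 231) (nat_lit 210)) (XT.nd (nat_lit 78) (nat_lit 0) (nat_lit 0) (XT.lf (nat_lit 0) (nat_lit 221821334) (nat_lit 152) (nat_lit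 6856998544) (nat_lit 76) (nat_lit 24858101634) (nat_lit 5) (nat_lit 5) (nat_lit 7) (nat_lit 5) (nat_lit 6) (nat_lit 4) (nat_lit 280) (nat_lit 231) (nat_lit 209)) (XT.lf (nat_lit 0) (nat_lit 3030736833) (nat_lit 152) (nat_lit 1136644724) (nat_lit 76) (nat_lit 30042126541) (nat_lit 5) (nat_lit 5) (nat_lit 7) (nat_lit 5) (nat_lit 6) (nat_lit 4) (nat_lit 281) (nat_lit 231) (nat_lit 208)))) (XT.nd (nat_lit 156) (nat_lit 0) (nat_lit 0) (XT.nd (nat_lit 78) (nat_lit 0) (nat_lit 0) (XT.lf (nat_lit 0) (nat_lit 5179289146) (nat_lit 76) (nat_lit 942348239) (nat_lit 152) (nat_lit 30537797389) (nat_lit 4) (nat_lit 5) (nat_lit 5) (nat_lit 5) (nat_lit 6) (nat_lit 4) (nat_lit 282) (nat_lit 231) (nat_lit 207)) (XT.lf (nat_lit 0) (nat_lit 9486380477) (nat_lit 152) (nat_lit 27421756131) (nat_lit 0) (nat_lit 2395199730) (nat_lit 4) (nat_lit 5) (nat_lit 6) (nat_lit 4) (nat_lit 4) (nat_lit 4) (nat_lit 283)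 (nat_lit 231) (nat_lit 206))) (XT.nd (nat_lit 78) (nat_lit 0) (nat_lit 0) (XT.lf (nat_lit 0) (nat_lit 13083281255) (nat_lit 152) (nat_lit 23176242125) (nat_lit 0) (nat_lit 5902286902) (nat_lit 4) (nat_lit 5) (nat_lit 6) (nat_lit 4) (nat_lit 4) (nat_lit 4) (nat_lit 284) (nat_lit 231) (nat_lit 205)) (XT.lf (nat_lit 0) (nat_lit 16910991190) (nat_lit 152) (nat_lit 18695781511) (nat_lit 0) (nat_lit 9646836091) (nat_lit 4) (nat_lit 5) (nat_lit 6) (nat_lit 4) (nat_lit 4) (nat_lit 4) (nat_lit 285) (nat_lit 231) (nat_lit 204))))))) (XT.nd (nat_lit 1014) (nat_lit 152) (nat_lit 0) (XT.nd (nat_lit 468) (nat_lit 0) (nat_lit 0) (XT.nd (nat_lit 234) (nat_lit 76) (nat_lit 0) (XT.nd (nat_lit 78) (nat_lit 0) (nat_lit 0) (XT.lf (nat_lit 0) (nat_lit 20992193007) (nat_lit 152) (nat_lit 13953823410) (nat_lit 0) (nat_lit 13651037217) (nat_lit 4) (nat_lit 5) (nat_lit 6) (nat_lit 4) (nat_lit 4) (nat_lit 4)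 (nat_lit 286) (nat_lit 231) (nat_lit 203)) (XT.nd (nat_lit 78) (nat_lit 0) (nat_lit 0) (XT.lf (nat_lit 0) (nat_lit 25351071606) (nat_lit 152) (nat_lit 8922267330) (nat_lit 0) (nat_lit 17938618879) (nat_lit 4) (nat_lit 5) (nat_lit 6) (nat_lit 4) (nat_lit 4) (nat_lit 4) (nat_lit 287) (nat_lit 231) (nat_lit 202)) (XT.lf (nat_lit 0) (nat_lit 30013457379) (nat_lit 152) (nat_lit 3571296644) (nat_lit 0) (nat_lit 22534988970) (nat_lit 4) (nat_lit 5) (nat_lit 6) (nat_lit 4) (nat_lit 4) (nat_lit 4) (nat_lit 288) (nat_lit 231) (nat_lit 201)))) (XT.nd (nat_lit 78) (nat_lit 0) (nat_lit 0) (XT.lf (nat_lit 0) (nat_lit 2243002158) (nat_lit 76) (nat_lit 32817921375) (nat_lit 76) (nat_lit 25278327335) (nat_lit 3) (nat_lit 4) (nat_lit 4) (nat_lit 5) (nat_lit 4) (nat_lit 4) (nat_lit 289) (nat_lit 231) (nat_lit 200)) (XT.nd (nat_lit 78) (nat_lit 0) (nat_lit 0) (XT.lf (nat_lit 0) (nat_lit 8650542269) (nat_lit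 76) (nat_lit 31918732023) (nat_lit 76) (nat_lit 24322540177) (nat_lit 3) (nat_lit 4) (nat_lit 4) (nat_lit 5) (nat_lit 4) (nat_lit 4) (nat_lit 290) (nat_lit 231) (nat_lit 199)) (XT.lf (nat_lit 0) (nat_lit 15501236146) (nat_lit 76) (nat_lit 30979503017) (nat_lit 76) (nat_lit 23330905794) (nat_lit 3) (nat_lit 4) (nat_lit 4) (nat_lit 5) (nat_lit 4) (nat_lit 4) (nat_lit 291) (nat_lit 231) (nat_lit 198))))) (XT.nd (nat_lit 234) (nat_lit 0) (nat_lit 0) (XT.nd (nat_lit 78) (nat_lit 0) (nat_lit 0) (XT.lf (nat_lit 0) (nat_lit 22835680492) (nat_lit 76) (nat_lit 29994668554) (nat_lit 76) (nat_lit 22297547834) (nat_lit 3) (nat_lit 4) (nat_lit 4) (nat_lit 5) (nat_lit 4) (nat_lit 4) (nat_lit 292) (nat_lit 231) (nat_lit 197)) (XT.nd (nat_lit 78) (nat_lit 0) (nat_lit 0) (XT.lf (nat_lit 0) (nat_lit 30697338681) (nat_lit 76) (nat_lit 28958392579) (nat_lit 76) (nat_lit 21216342696) (nat_lit 3) (nat_lit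 4) (nat_lit 4) (nat_lit 5) (nat_lit 4) (nat_lit 4) (nat_lit 293) (nat_lit 231) (nat_lit 196)) (XT.lf (nat_lit 0) (nat_lit 39132798318) (nat_lit 76) (nat_lit 27864534198) (nat_lit 76) (nat_lit 20080883237) (nat_lit 3) (nat_lit 4) (nat_lit 4) (nat_lit 5) (nat_lit 4) (nat_lit 4) (nat_lit 294) (nat_lit 231) (nat_lit 195)))) (XT.nd (nat_lit 156) (nat_lit 0) (nat_lit 0) (XT.nd (nat_lit 78) (nat_lit 0) (nat_lit 0) (XT.lf (nat_lit 0) (nat_lit 48192047311) (nat_lit 76) (nat_lit 26706611286) (nat_lit 76) (nat_lit 18884440808) (nat_lit 3) (nat_lit 4) (nat_lit 4) (nat_lit 5) (nat_lit 4) (nat_lit 4) (nat_lit 295) (nat_lit 231) (nat_lit 194)) (XT.lf (nat_lit 0) (nat_lit 57928770099) (nat_lit 76) (nat_lit 25477762078) (nat_lit 76) (nat_lit 17619925382) (nat_lit 3) (nat_lit 4) (nat_lit 4) (nat_lit 5) (nat_lit 4) (nat_lit 4) (nat_lit 296) (nat_lit 231) (nat_lit 193))) (XT.nd (nat_lit 78) (nat_lit 0)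 (nat_lit 0) (XT.lf (nat_lit 0) (nat_lit 68400665780) (nat_lit 76) (nat_lit 24170704504) (nat_lit 76) (nat_lit 16279843532) (nat_lit 3) (nat_lit 4) (nat_lit 4) (nat_lit 5) (nat_lit 4) (nat_lit 4) (nat_lit 297) (nat_lit 231) (nat_lit 192)) (XT.lf (nat_lit 0) (nat_lit 79669790032) (nat_lit 76) (nat_lit 22777693039) (nat_lit 76) (nat_lit 14856254032) (nat_lit 3) (nat_lit 4) (nat_lit 4) (nat_lit 5) (nat_lit 4) (nat_lit 4) (nat_lit 298) (nat_lit 231) (nat_lit 191)))))) (XT.nd (nat_lit 468) (nat_lit 152) (nat_lit 0) (XT.nd (nat_lit 234) (nat_lit 0) (nat_lit 0) (XT.nd (nat_lit 78) (nat_lit 0) (nat_lit 0) (XT.lf (nat_lit 0) (nat_lit 91802922850) (nat_lit 76) (nat_lit 21290472799) (nat_lit 76) (nat_lit 13340720798) (nat_lit 3) (nat_lit 4) (nat_lit 4) (nat_lit 5) (nat_lit 4) (nat_lit 4) (nat_lit 299) (nat_lit 231) (nat_lit 190)) (XT.nd (nat_lit 78) (nat_lit 0) (nat_lit 0) (XT.lf (nat_lit 0) (nat_lit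 104871964281) (nat_lit 76) (nat_lit 19700230628) (nat_lit 76) (nat_lit 11724262892) (nat_lit 3) (nat_lit 4) (nat_lit 4) (nat_lit 5) (nat_lit 4) (nat_lit 4) (nat_lit 300) (nat_lit 231) (nat_lit 189)) (XT.lf (nat_lit 0) (nat_lit 118954360496) (nat_lit 76) (nat_lit 17997542868) (nat_lit 76) (nat_lit 9997301303) (nat_lit 3) (nat_lit 4) (nat_lit 4) (nat_lit 5) (nat_lit 4) (nat_lit 4) (nat_lit 301) (nat_lit 231) (nat_lit 188)))) (XT.nd (nat_lit 78) (nat_lit 0) (nat_lit 0) (XT.lf (nat_lit 0) (nat_lit 134133562733) (nat_lit 76) (nat_lit 16172319518) (nat_lit 76) (nat_lit 8149602185) (nat_lit 3) (nat_lit 4) (nat_lit 4) (nat_lit 5) (nat_lit 4) (nat_lit 4) (nat_lit 302) (nat_lit 231) (nat_lit 187)) (XT.nd (nat_lit 78) (nat_lit 0) (nat_lit 0) (XT.lf (nat_lit 0) (nat_lit 150499521819) (nat_lit 76) (nat_lit 14213744439) (nat_lit 76) (nat_lit 6170216210) (nat_lit 3) (nat_lit 4) (nat_lit 4) (nat_lit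 5) (nat_lit 4) (nat_lit 4) (nat_lit 303) (nat_lit 231) (nat_lit 186)) (XT.lf (nat_lit 0) (nat_lit 168149221215) (nat_lit 76) (nat_lit 12110211261) (nat_lit 76) (nat_lit 4047413684) (nat_lit 3) (nat_lit 4) (nat_lit 4) (nat_lit 5) (nat_lit 4) (nat_lit 4) (nat_lit 304) (nat_lit 231) (nat_lit 185))))) (XT.nd (nat_lit 234) (nat_lit 76) (nat_lit 0) (XT.nd (nat_lit 78) (nat_lit 76) (nat_lit 0) (XT.lf (nat_lit 0) (nat_lit 187187251732) (nat_lit 76) (nat_lit 9849254601) (nat_lit 76) (nat_lit 1768615035) (nat_lit 3) (nat_lit 4) (nat_lit 4) (nat_lit 5) (nat_lit 4) (nat_lit 4) (nat_lit 305) (nat_lit 231) (nat_lit 184)) (XT.nd (nat_lit 78) (nat_lit 0) (nat_lit 0) (XT.lf (nat_lit 0) (nat_lit 645683194) (nat_lit 152) (nat_lit 6754138881) (nat_lit 76) (nat_lit 207063094013) (nat_lit 2) (nat_lit 5) (nat_lit 4) (nat_lit 5) (nat_lit 3) (nat_lit 4) (nat_lit 306) (nat_lit 231) (nat_lit 183)) (XT.lf (nat_lit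 0) (nat_lit 3146311836) (nat_lit 152) (nat_lit 1568127937) (nat_lit 76) (nat_lit 226656136088) (nat_lit 2) (nat_lit 5) (nat_lit 4) (nat_lit 5) (nat_lit 3) (nat_lit 4) (nat_lit 307) (nat_lit 231) (nat_lit 182)))) (XT.nd (nat_lit 156) (nat_lit 0) (nat_lit 0) (XT.nd (nat_lit 78) (nat_lit 0) (nat_lit 0) (XT.lf (nat_lit 0) (nat_lit 4224770475) (nat_lit 76) (nat_lit 1713398071) (nat_lit 152) (nat_lit 243685400031) (nat_lit 1) (nat_lit 5) (nat_lit 2) (nat_lit 5) (nat_lit 3) (nat_lit 4) (nat_lit 308) (nat_lit 231) (nat_lit 181)) (XT.lf (nat_lit 0) (nat_lit 9023785820) (nat_lit 152) (nat_lit 258820400630) (nat_lit 0) (nat_lit 1486994619) (nat_lit 1) (nat_lit 5) (nat_lit 3) (nat_lit 4) (nat_lit 1) (nat_lit 4) (nat_lit 309) (nat_lit 231) (nat_lit 180))) (XT.nd (nat_lit 78) (nat_lit 0) (nat_lit 0) (XT.lf (nat_lit 0) (nat_lit 12391201795) (nat_lit 152) (nat_lit 273378250037) (nat_lit 0) (nat_lit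 4843167114) (nat_lit 1) (nat_lit 5) (nat_lit 3) (nat_lit 4) (nat_lit 1) (nat_lit 4) (nat_lit 310) (nat_lit 231) (nat_lit 179)) (XT.lf (nat_lit 0) (nat_lit 16019164264) (nat_lit 152) (nat_lit 289117407799) (nat_lit 0) (nat_lit 8460718954) (nat_lit 1) (nat_lit 5) (nat_lit 3) (nat_lit 4) (nat_lit 1) (nat_lit 4) (nat_lit 311) (nat_lit 231) (nat_lit 178))))))))
noncomputable def xc35 : XT := (XT.nd (nat_lit 2028) (nat_lit 0) (nat_lit 0) (XT.nd (nat_lit 1014) (nat_lit 0) (nat_lit 0) (XT.nd (nat_lit 468) (nat_lit 0) (nat_lit 0) (XT.nd (nat_lit 234) (nat_lit 0) (nat_lit 0) (XT.nd (nat_lit 78) (nat_lit 0) (nat_lit 0) (XT.lf (nat_lit 0) (nat_lit 19929172264) (nat_lit 152) (nat_lit 306131142996) (nat_lit 0) (nat_lit 12361087482) (nat_lit 1) (nat_lit 5) (nat_lit 3) (nat_lit 4) (nat_lit 1) (nat_lit 4) (nat_lit 312) (nat_lit 231) (nat_lit 177)) (XT.nd (nat_lit 78) (nat_lit 0) (nat_lit 0) (XT.lf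 (nat_lit 0) (nat_lit 24144396212) (nat_lit 152) (nat_lit 324520277765) (nat_lit 0) (nat_lit 16567385994) (nat_lit 1) (nat_lit 5) (nat_lit 3) (nat_lit 4) (nat_lit 1) (nat_lit 4) (nat_lit 313) (nat_lit 231) (nat_lit 176)) (XT.lf (nat_lit 0) (nat_lit 28689815215) (nat_lit 152) (nat_lit 344393784755) (nat_lit 0) (nat_lit 21104540703) (nat_lit 1) (nat_lit 5) (nat_lit 3) (nat_lit 4) (nat_lit 1) (nat_lit 4) (nat_lit 314) (nat_lit 231) (nat_lit 175)))) (XT.nd (nat_lit 78) (nat_lit 0) (nat_lit 0) (XT.lf (nat_lit 0) (nat_lit 33592365087) (nat_lit 152) (nat_lit 365869432896) (nat_lit 0) (nat_lit 25999438452) (nat_lit 1) (nat_lit 5) (nat_lit 3) (nat_lit 4) (nat_lit 1) (nat_lit 4) (nat_lit 315) (nat_lit 231) (nat_lit 174)) (XT.nd (nat_lit 78) (nat_lit 0) (nat_lit 0) (XT.lf (nat_lit 0) (nat_lit 38881097977) (nat_lit 152) (nat_lit 389074485290) (nat_lit 0) (nat_lit 31281086042) (nat_lit 1) (nat_lit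 5) (nat_lit 3) (nat_lit 4) (nat_lit 1) (nat_lit 4) (nat_lit 316) (nat_lit 231) (nat_lit 173)) (XT.lf (nat_lit 0) (nat_lit 44587354523) (nat_lit 152) (nat_lit 414146453357) (nat_lit 0) (nat_lit 36980782126) (nat_lit 1) (nat_lit 5) (nat_lit 3) (nat_lit 4) (nat_lit 1) (nat_lit 4) (nat_lit 317) (nat_lit 231) (nat_lit 172))))) (XT.nd (nat_lit 234) (nat_lit 0) (nat_lit 0) (XT.nd (nat_lit 78) (nat_lit 0) (nat_lit 0) (XT.lf (nat_lit 0) (nat_lit 50744949580) (nat_lit 152) (nat_lit 441233911722) (nat_lit 0) (nat_lit 43132302681) (nat_lit 1) (nat_lit 5) (nat_lit 3) (nat_lit 4) (nat_lit 1) (nat_lit 4) (nat_lit 318) (nat_lit 231) (nat_lit 171)) (XT.nd (nat_lit 78) (nat_lit 0) (nat_lit 0) (XT.lf (nat_lit 0) (nat_lit 57390372599) (nat_lit 152) (nat_lit 470497378659) (nat_lit 0) (nat_lit 49772101161) (nat_lit 1) (nat_lit 5) (nat_lit 3) (nat_lit 4) (nat_lit 1) (nat_lit 4) (nat_lit 319) (nat_lit 231)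 (nat_lit 170)) (XT.lf (nat_lit 0) (nat_lit 64563003865) (nat_lit 152) (nat_lit 502110267304) (nat_lit 0) (nat_lit 56939524520) (nat_lit 1) (nat_lit 5) (nat_lit 3) (nat_lit 4) (nat_lit 1) (nat_lit 4) (nat_lit 320) (nat_lit 231) (nat_lit 169)))) (XT.nd (nat_lit 156) (nat_lit 0) (nat_lit 0) (XT.nd (nat_lit 78) (nat_lit 0) (nat_lit 0) (XT.lf (nat_lit 0) (nat_lit 72305347860) (nat_lit 152) (nat_lit 536259913293) (nat_lit 0) (nat_lit 64677046380) (nat_lit 1) (nat_lit 5) (nat_lit 3) (nat_lit 4) (nat_lit 1) (nat_lit 4) (nat_lit 321) (nat_lit 231) (nat_lit 168)) (XT.lf (nat_lit 0) (nat_lit 80663285140) (nat_lit 152) (nat_lit 573148684899) (nat_lit 0) (nat_lit 73030518720) (nat_lit 1) (nat_lit 5) (nat_lit 3) (nat_lit 4) (nat_lit 1) (nat_lit 4) (nat_lit 322) (nat_lit 231) (nat_lit 167))) (XT.nd (nat_lit 78) (nat_lit 0) (nat_lit 0) (XT.lf (nat_lit 0) (nat_lit 89686344223) (nat_lit 152) (nat_lit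 612995182251) (nat_lit 0) (nat_lit 82049443599) (nat_lit 1) (nat_lit 5) (nat_lit 3) (nat_lit 4) (nat_lit 1) (nat_lit 4) (nat_lit 323) (nat_lit 231) (nat_lit 166)) (XT.lf (nat_lit 0) (nat_lit 99427995089) (nat_lit 152) (nat_lit 656035532740) (nat_lit 0) (nat_lit 91787266498) (nat_lit 1) (nat_lit 5) (nat_lit 3) (nat_lit 4) (nat_lit 1) (nat_lit 4) (nat_lit 324) (nat_lit 231) (nat_lit 165)))))) (XT.nd (nat_lit 468) (nat_lit 0) (nat_lit 0) (XT.nd (nat_lit 234) (nat_lit 0) (nat_lit 0) (XT.nd (nat_lit 78) (nat_lit 0) (nat_lit 0) (XT.lf (nat_lit 0) (nat_lit 109945966039) (nat_lit 152) (nat_lit 702524790294) (nat_lit 0) (nat_lit 102301693034) (nat_lit 1) (nat_lit 5) (nat_lit 3) (nat_lit 4) (nat_lit 1) (nat_lit 4) (nat_lit 325) (nat_lit 231) (nat_lit 164)) (XT.nd (nat_lit 78) (nat_lit 0) (nat_lit 0) (XT.lf (nat_lit 0) (nat_lit 121302585790) (nat_lit 152) (nat_lit 752738446810) (nat_lit 0) (nat_lit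 113655030920) (nat_lit 1) (nat_lit 5) (nat_lit 3) (nat_lit 4) (nat_lit 1) (nat_lit 4) (nat_lit 326) (nat_lit 231) (nat_lit 163)) (XT.lf (nat_lit 0) (nat_lit 133565152829) (nat_lit 152) (nat_lit 806974064698) (nat_lit 0) (nat_lit 125914559196) (nat_lit 1) (nat_lit 5) (nat_lit 3) (nat_lit 4) (nat_lit 1) (nat_lit 4) (nat_lit 327) (nat_lit 231) (nat_lit 162)))) (XT.nd (nat_lit 78) (nat_lit 0) (nat_lit 0) (XT.lf (nat_lit 0) (nat_lit 146806334220) (nat_lit 152) (nat_lit 865553040211) (nat_lit 0) (nat_lit 139152926917) (nat_lit 1) (nat_lit 5) (nat_lit 3) (nat_lit 4) (nat_lit 1) (nat_lit 4) (nat_lit 328) (nat_lit 231) (nat_lit 161)) (XT.nd (nat_lit 78) (nat_lit 0) (nat_lit 0) (XT.lf (nat_lit 0) (nat_lit 161104596223) (nat_lit 152) (nat_lit 928822508020) (nat_lit 0) (nat_lit 153448583671) (nat_lit 1) (nat_lit 5) (nat_lit 3) (nat_lit 4) (nat_lit 1) (nat_lit 4) (nat_lit 329) (nat_lit 231) (nat_lit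 160)) (XT.lf (nat_lit 0) (nat_lit 176544669280) (nat_lit 152) (nat_lit 997157398303) (nat_lit 0) (nat_lit 168886244459) (nat_lit 1) (nat_lit 5) (nat_lit 3) (nat_lit 4) (nat_lit 1) (nat_lit 4) (nat_lit 330) (nat_lit 231) (nat_lit 159))))) (XT.nd (nat_lit 234) (nat_lit 0) (nat_lit 0) (XT.nd (nat_lit 78) (nat_lit 0) (nat_lit 0) (XT.lf (nat_lit 0) (nat_lit 193218050120) (nat_lit 152) (nat_lit 1070962658558) (nat_lit 0) (nat_lit 185557391717) (nat_lit 1) (nat_lit 5) (nat_lit 3) (nat_lit 4) (nat_lit 1) (nat_lit 4) (nat_lit 331) (nat_lit 231) (nat_lit 158)) (XT.nd (nat_lit 78) (nat_lit 0) (nat_lit 0) (XT.lf (nat_lit 0) (nat_lit 211223543963) (nat_lit 152) (nat_lit 1150675653292) (nat_lit 0) (nat_lit 203560817429) (nat_lit 1) (nat_lit 5) (nat_lit 3) (nat_lit 4) (nat_lit 1) (nat_lit 4) (nat_lit 332) (nat_lit 231) (nat_lit 157)) (XT.lf (nat_lit 0) (nat_lit 230667850031) (nat_lit 152) (nat_lit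 1236768755806) (nat_lit 0) (nat_lit 223003208560) (nat_lit 1) (nat_lit 5) (nat_lit 3) (nat_lit 4) (nat_lit 1) (nat_lit 4) (nat_lit 333) (nat_lit 231) (nat_lit 156)))) (XT.nd (nat_lit 156) (nat_lit 0) (nat_lit 0) (XT.nd (nat_lit 78) (nat_lit 0) (nat_lit 0) (XT.lf (nat_lit 0) (nat_lit 251666193842) (nat_lit 152) (nat_lit 1329752147448) (nat_lit 0) (nat_lit 243999779282) (nat_lit 1) (nat_lit 5) (nat_lit 3) (nat_lit 4) (nat_lit 1) (nat_lit 4) (nat_lit 334) (nat_lit 231) (nat_lit 155)) (XT.lf (nat_lit 0) (nat_lit 274343010026) (nat_lit 152) (nat_lit 1430176840910) (nat_lit 0) (nat_lit 266674953717) (nat_lit 1) (nat_lit 5) (nat_lit 3) (nat_lit 4) (nat_lit 1) (nat_lit 4) (nat_lit 335) (nat_lit 231) (nat_lit 154))) (XT.nd (nat_lit 78) (nat_lit 0) (nat_lit 0) (XT.lf (nat_lit 0) (nat_lit 298832679716) (nat_lit 152) (nat_lit 1538637945486) (nat_lit 0) (nat_lit 291163103269) (nat_lit 1) (nat_lit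 5) (nat_lit 3) (nat_lit 4) (nat_lit 1) (nat_lit 4) (nat_lit 336) (nat_lit 231) (nat_lit 153)) (XT.lf (nat_lit 0) (nat_lit 325280326881) (nat_lit 152) (nat_lit 1655778193647) (nat_lit 0) (nat_lit 317609342898) (nat_lit 1) (nat_lit 5) (nat_lit 3) (nat_lit 4) (nat_lit 1) (nat_lit 4) (nat_lit 337) (nat_lit 231) (nat_lit 152))))))) (XT.nd (nat_lit 31902) (nat_lit 0) (nat_lit 380) (XT.nd (nat_lit 31356) (nat_lit 0) (nat_lit 988) (XT.nd (nat_lit 31122) (nat_lit 0) (nat_lit 1672) (XT.nd (nat_lit 78) (nat_lit 0) (nat_lit 0) (XT.lf (nat_lit 0) (nat_lit 353842678318) (nat_lit 152) (nat_lit 1782291749828) (nat_lit 0) (nat_lit 346170391061) (nat_lit 1) (nat_lit 5) (nat_lit 3) (nat_lit 4) (nat_lit 1) (nat_lit 4) (nat_lit 338) (nat_lit 231) (nat_lit 151)) (XT.nd (nat_lit 78) (nat_lit 0) (nat_lit 0) (XT.lf (nat_lit 0) (nat_lit 384688992406) (nat_lit 152) (nat_lit 1918928323990) (nat_lit 0) (nat_lit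 377015498414) (nat_lit 1) (nat_lit 5) (nat_lit 3) (nat_lit 4) (nat_lit 1) (nat_lit 4) (nat_lit 339) (nat_lit 231) (nat_lit 150)) (XT.lf (nat_lit 0) (nat_lit 418002062118) (nat_lit 152) (nat_lit 2066497614352) (nat_lit 0) (nat_lit 410327450779) (nat_lit 1) (nat_lit 5) (nat_lit 3) (nat_lit 4) (nat_lit 1) (nat_lit 4) (nat_lit 340) (nat_lit 231) (nat_lit 149)))) (XT.nd (nat_lit 78) (nat_lit 228) (nat_lit 0) (XT.lf (nat_lit 0) (nat_lit 2080327919) (nat_lit 228) (nat_lit 1117008896) (nat_lit 228) (nat_lit 1117008896) (nat_lit 26) (nat_lit 4) (nat_lit 29) (nat_lit 5) (nat_lit 29) (nat_lit 4) (nat_lit 256) (nat_lit 232) (nat_lit 232)) (XT.nd (nat_lit 78) (nat_lit 0) (nat_lit 0) (XT.lf (nat_lit 0) (nat_lit 1096228818) (nat_lit 228) (nat_lit 7731510587) (nat_lit 0) (nat_lit 120164235) (nat_lit 23) (nat_lit 5) (nat_lit 26) (nat_lit 4) (nat_lit 23) (nat_lit 4) (nat_lit 257) (nat_lit 232) (nat_lit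 231)) (XT.lf (nat_lit 0) (nat_lit 4530021386) (nat_lit 228) (nat_lit 2112161646) (nat_lit 0) (nat_lit 2650193300) (nat_lit 23) (nat_lit 5) (nat_lit 26) (nat_lit 4) (nat_lit 23) (nat_lit 4) (nat_lit 258) (nat_lit 232) (nat_lit 230))))) (XT.nd (nat_lit 234) (nat_lit 304) (nat_lit 0) (XT.nd (nat_lit 78) (nat_lit 228) (nat_lit 0) (XT.lf (nat_lit 0) (nat_lit 3853451282) (nat_lit 152) (nat_lit 4268906186) (nat_lit 152) (nat_lit 1552260042) (nat_lit 21) (nat_lit 4) (nat_lit 23) (nat_lit 5) (nat_lit 23) (nat_lit 4) (nat_lit 259) (nat_lit 232) (nat_lit 229)) (XT.nd (nat_lit 78) (nat_lit 152) (nat_lit 0) (XT.lf (nat_lit 0) (nat_lit 1671798480) (nat_lit 228) (nat_lit 14136838) (nat_lit 76) (nat_lit 8410371086) (nat_lit 20) (nat_lit 5) (nat_lit 23) (nat_lit 5) (nat_lit 21) (nat_lit 4) (nat_lit 260) (nat_lit 232) (nat_lit 228)) (XT.lf (nat_lit 0) (nat_lit 5058649880) (nat_lit 228) (nat_lit 4329978232)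 (nat_lit 0) (nat_lit 1161507022) (nat_lit 18) (nat_lit 5) (nat_lit 21) (nat_lit 4) (nat_lit 18) (nat_lit 4) (nat_lit 261) (nat_lit 232) (nat_lit 227)))) (XT.nd (nat_lit 156) (nat_lit 76) (nat_lit 0) (XT.nd (nat_lit 78) (nat_lit 76) (nat_lit 0) (XT.lf (nat_lit 0) (nat_lit 1669290766) (nat_lit 152) (nat_lit 6945988397) (nat_lit 152) (nat_lit 2433759286) (nat_lit 16) (nat_lit 4) (nat_lit 18) (nat_lit 5) (nat_lit 18) (nat_lit 4) (nat_lit 262) (nat_lit 232) (nat_lit 226)) (XT.lf (nat_lit 0) (nat_lit 762947011) (nat_lit 228) (nat_lit 3494823636) (nat_lit 76) (nat_lit 7333965652) (nat_lit 15) (nat_lit 5) (nat_lit 18) (nat_lit 5) (nat_lit 16) (nat_lit 4) (nat_lit 263) (nat_lit 232) (nat_lit 225))) (XT.nd (nat_lit 78) (nat_lit 0) (nat_lit 0) (XT.lf (nat_lit 0) (nat_lit 2665045040) (nat_lit 76) (nat_lit 1312904855) (nat_lit 152) (nat_lit 8203854790) (nat_lit 14) (nat_lit 5) (nat_lit 15) (nat_lit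 5) (nat_lit 16) (nat_lit 4) (nat_lit 264) (nat_lit 232) (nat_lit 224)) (XT.lf (nat_lit 0) (nat_lit 7427120557) (nat_lit 152) (nat_lit 3612885227) (nat_lit 0) (nat_lit 1781411258) (nat_lit 14) (nat_lit 5) (nat_lit 16) (nat_lit 4) (nat_lit 14) (nat_lit 4) (nat_lit 265) (nat_lit 232) (nat_lit 223)))))) (XT.nd (nat_lit 468) (nat_lit 228) (nat_lit 0) (XT.nd (nat_lit 234) (nat_lit 76) (nat_lit 0) (XT.nd (nat_lit 78) (nat_lit 152) (nat_lit 0) (XT.lf (nat_lit 0) (nat_lit 2609249407) (nat_lit 152) (nat_lit 8486140795) (nat_lit 152) (nat_lit 2421814126) (nat_lit 12) (nat_lit 4) (nat_lit 14) (nat_lit 5) (nat_lit 14) (nat_lit 4) (nat_lit 266) (nat_lit 232) (nat_lit 222)) (XT.nd (nat_lit 78) (nat_lit 76) (nat_lit 0) (XT.lf (nat_lit 0) (nat_lit 697944725) (nat_lit 228) (nat_lit 5000210316) (nat_lit 76) (nat_lit 8573462591) (nat_lit 11) (nat_lit 5) (nat_lit 14) (nat_lit 5) (nat_lit 12) (nat_lit 4)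 (nat_lit 267) (nat_lit 232) (nat_lit 221)) (XT.lf (nat_lit 0) (nat_lit 1140454664) (nat_lit 76) (nat_lit 2682279436) (nat_lit 152) (nat_lit 11268078806) (nat_lit 10) (nat_lit 5) (nat_lit 11) (nat_lit 5) (nat_lit 12) (nat_lit 4) (nat_lit 268) (nat_lit 232) (nat_lit 220)))) (XT.nd (nat_lit 78) (nat_lit 76) (nat_lit 0) (XT.lf (nat_lit 0) (nat_lit 7213226700) (nat_lit 152) (nat_lit 8162192734) (nat_lit 0) (nat_lit 599204265) (nat_lit 10) (nat_lit 5) (nat_lit 12) (nat_lit 4) (nat_lit 10) (nat_lit 4) (nat_lit 269) (nat_lit 232) (nat_lit 219)) (XT.nd (nat_lit 78) (nat_lit 76) (nat_lit 0) (XT.lf (nat_lit 0) (nat_lit 10816506902) (nat_lit 152) (nat_lit 2200040581) (nat_lit 0) (nat_lit 3917580520) (nat_lit 10) (nat_lit 5) (nat_lit 12) (nat_lit 4) (nat_lit 10) (nat_lit 4) (nat_lit 270) (nat_lit 232) (nat_lit 218)) (XT.lf (nat_lit 0) (nat_lit 4248463736) (nat_lit 76) (nat_lit 10443130513) (nat_lit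 76) (nat_lit 3280404178) (nat_lit 9) (nat_lit 4) (nat_lit 10) (nat_lit 5) (nat_lit 10) (nat_lit 4) (nat_lit 271) (nat_lit 232) (nat_lit 217))))) (XT.nd (nat_lit 234) (nat_lit 76) (nat_lit 0) (XT.nd (nat_lit 78) (nat_lit 152) (nat_lit 0) (XT.lf (nat_lit 0) (nat_lit 11139964207) (nat_lit 76) (nat_lit 7682271969) (nat_lit 76) (nat_lit 275286421) (nat_lit 9) (nat_lit 4) (nat_lit 10) (nat_lit 5) (nat_lit 10) (nat_lit 4) (nat_lit 272) (nat_lit 232) (nat_lit 216)) (XT.nd (nat_lit 78) (nat_lit 76) (nat_lit 0) (XT.lf (nat_lit 0) (nat_lit 2712549232) (nat_lit 152) (nat_lit 1991049083) (nat_lit 76) (nat_lit 15612733979) (nat_lit 8) (nat_lit 5) (nat_lit 10) (nat_lit 5) (nat_lit 9) (nat_lit 4) (nat_lit 273) (nat_lit 232) (nat_lit 215)) (XT.lf (nat_lit 0) (nat_lit 4495211644) (nat_lit 76) (nat_lit 1436411451) (nat_lit 152) (nat_lit 15700097616) (nat_lit 7) (nat_lit 5) (nat_lit 8) (nat_lit 5) (nat_lit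 9) (nat_lit 4) (nat_lit 274) (nat_lit 232) (nat_lit 214)))) (XT.nd (nat_lit 156) (nat_lit 76) (nat_lit 0) (XT.nd (nat_lit 78) (nat_lit 0) (nat_lit 0) (XT.lf (nat_lit 0) (nat_lit 9414979995) (nat_lit 152) (nat_lit 11663208080) (nat_lit 0) (nat_lit 1973808483) (nat_lit 7) (nat_lit 5) (nat_lit 9) (nat_lit 4) (nat_lit 7) (nat_lit 4) (nat_lit 275) (nat_lit 232) (nat_lit 213)) (XT.lf (nat_lit 0) (nat_lit 13122266741) (nat_lit 152) (nat_lit 5953332661) (nat_lit 0) (nat_lit 5514856511) (nat_lit 7) (nat_lit 5) (nat_lit 9) (nat_lit 4) (nat_lit 7) (nat_lit 4) (nat_lit 276) (nat_lit 232) (nat_lit 212))) (XT.nd (nat_lit 78) (nat_lit 0) (nat_lit 0) (XT.lf (nat_lit 0) (nat_lit 64737658) (nat_lit 76) (nat_lit 16977725991) (nat_lit 76) (nat_lit 9216391024) (nat_lit 6) (nat_lit 4) (nat_lit 7) (nat_lit 5) (nat_lit 7) (nat_lit 4) (nat_lit 277) (nat_lit 232) (nat_lit 211)) (XT.lf (nat_lit 0) (nat_lit 6754835222)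 (nat_lit 76) (nat_lit 14601740193) (nat_lit 76) (nat_lit 6697882320) (nat_lit 6) (nat_lit 4) (nat_lit 7) (nat_lit 5) (nat_lit 7) (nat_lit 4) (nat_lit 278) (nat_lit 232) (nat_lit 210))))))))
noncomputable def xc36 : XT := (XT.nd (nat_lit 1950) (nat_lit 152) (nat_lit 0) (XT.nd (nat_lit 936) (nat_lit 0) (nat_lit 0) (XT.nd (nat_lit 468) (nat_lit 76) (nat_lit 0) (XT.nd (nat_lit 234) (nat_lit 76) (nat_lit 0) (XT.nd (nat_lit 78) (nat_lit 76) (nat_lit 0) (XT.lf (nat_lit 0) (nat_lit 13843113105) (nat_lit 76) (nat_lit 12096336756) (nat_lit 76) (nat_lit 4060513230) (nat_lit 6) (nat_lit 4) (nat_lit 7) (nat_lit 5) (nat_lit 7) (nat_lit 4) (nat_lit 279) (nat_lit 232) (nat_lit 209)) (XT.nd (nat_lit 78) (nat_lit 76) (nat_lit 0) (XT.lf (nat_lit 0) (nat_lit 21371575917) (nat_lit 76) (nat_lit 9446668846) (nat_lit 76) (nat_lit 1288654900) (nat_lit 6) (nat_lit 4) (nat_lit 7) (nat_lit 5) (nat_lit 7) (nat_lit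 4) (nat_lit 280) (nat_lit 232) (nat_lit 208)) (XT.lf (nat_lit 0) (nat_lit 1552373270) (nat_lit 152) (nat_lit 5042216820) (nat_lit 76) (nat_lit 27790018863) (nat_lit 5) (nat_lit 5) (nat_lit 7) (nat_lit 5) (nat_lit 6) (nat_lit 4) (nat_lit 281) (nat_lit 232) (nat_lit 207)))) (XT.nd (nat_lit 78) (nat_lit 0) (nat_lit 0) (XT.lf (nat_lit 0) (nat_lit 1011291879) (nat_lit 76) (nat_lit 3501786819) (nat_lit 152) (nat_lit 32331923693) (nat_lit 4) (nat_lit 5) (nat_lit 5) (nat_lit 5) (nat_lit 6) (nat_lit 4) (nat_lit 282) (nat_lit 232) (nat_lit 206)) (XT.nd (nat_lit 78) (nat_lit 0) (nat_lit 0) (XT.lf (nat_lit 0) (nat_lit 7726512069) (nat_lit 76) (nat_lit 61671862) (nat_lit 152) (nat_lit 31707938415) (nat_lit 4) (nat_lit 5) (nat_lit 5) (nat_lit 5) (nat_lit 6) (nat_lit 4) (nat_lit 283) (nat_lit 232) (nat_lit 205)) (XT.lf (nat_lit 0) (nat_lit 11356225103) (nat_lit 152) (nat_lit 27572946962) (nat_lit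 0) (nat_lit 3427776849) (nat_lit 4) (nat_lit 5) (nat_lit 6) (nat_lit 4) (nat_lit 4) (nat_lit 4) (nat_lit 284) (nat_lit 232) (nat_lit 204))))) (XT.nd (nat_lit 234) (nat_lit 76) (nat_lit 0) (XT.nd (nat_lit 78) (nat_lit 0) (nat_lit 0) (XT.lf (nat_lit 0) (nat_lit 15158586522) (nat_lit 152) (nat_lit 23139091810) (nat_lit 0) (nat_lit 7153137577) (nat_lit 4) (nat_lit 5) (nat_lit 6) (nat_lit 4) (nat_lit 4) (nat_lit 4) (nat_lit 285) (nat_lit 232) (nat_lit 203)) (XT.nd (nat_lit 78) (nat_lit 0) (nat_lit 0) (XT.lf (nat_lit 0) (nat_lit 19216317491) (nat_lit 152) (nat_lit 18440286916) (nat_lit 0) (nat_lit 11139571610) (nat_lit 4) (nat_lit 5) (nat_lit 6) (nat_lit 4) (nat_lit 4) (nat_lit 4) (nat_lit 286) (nat_lit 232) (nat_lit 202)) (XT.lf (nat_lit 0) (nat_lit 23553463824) (nat_lit 152) (nat_lit 13448687509) (nat_lit 0) (nat_lit 15410702261) (nat_lit 4) (nat_lit 5) (nat_lit 6) (nat_lit 4) (nat_lit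 4) (nat_lit 4) (nat_lit 287) (nat_lit 232) (nat_lit 201)))) (XT.nd (nat_lit 78) (nat_lit 76) (nat_lit 0) (XT.lf (nat_lit 0) (nat_lit 28195727127) (nat_lit 152) (nat_lit 8134713741) (nat_lit 0) (nat_lit 19991839933) (nat_lit 4) (nat_lit 5) (nat_lit 6) (nat_lit 4) (nat_lit 4) (nat_lit 4) (nat_lit 288) (nat_lit 232) (nat_lit 200)) (XT.nd (nat_lit 78) (nat_lit 76) (nat_lit 0) (XT.lf (nat_lit 0) (nat_lit 33170617110) (nat_lit 152) (nat_lit 2466875397) (nat_lit 0) (nat_lit 24910132109) (nat_lit 4) (nat_lit 5) (nat_lit 6) (nat_lit 4) (nat_lit 4) (nat_lit 4) (nat_lit 289) (nat_lit 232) (nat_lit 199)) (XT.lf (nat_lit 0) (nat_lit 3777374271) (nat_lit 76) (nat_lit 34821086273) (nat_lit 76) (nat_lit 26508195895) (nat_lit 3) (nat_lit 4) (nat_lit 4) (nat_lit 5) (nat_lit 4) (nat_lit 4) (nat_lit 290) (nat_lit 232) (nat_lit 198)))))) (XT.nd (nat_lit 468) (nat_lit 0) (nat_lit 0) (XT.nd (nat_lit 234)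 (nat_lit 0) (nat_lit 0) (XT.nd (nat_lit 78) (nat_lit 0) (nat_lit 0) (XT.lf (nat_lit 0) (nat_lit 10597152263) (nat_lit 76) (nat_lit 33896055759) (nat_lit 76) (nat_lit 25534641885) (nat_lit 3) (nat_lit 4) (nat_lit 4) (nat_lit 5) (nat_lit 4) (nat_lit 4) (nat_lit 291) (nat_lit 232) (nat_lit 197)) (XT.nd (nat_lit 78) (nat_lit 0) (nat_lit 0) (XT.lf (nat_lit 0) (nat_lit 17902970789) (nat_lit 76) (nat_lit 32924368049) (nat_lit 76) (nat_lit 24518025011) (nat_lit 3) (nat_lit 4) (nat_lit 4) (nat_lit 5) (nat_lit 4) (nat_lit 4) (nat_lit 292) (nat_lit 232) (nat_lit 196)) (XT.lf (nat_lit 0) (nat_lit 25738123590) (nat_lit 76) (nat_lit 31900264993) (nat_lit 76) (nat_lit 23452320877) (nat_lit 3) (nat_lit 4) (nat_lit 4) (nat_lit 5) (nat_lit 4) (nat_lit 4) (nat_lit 293) (nat_lit 232) (nat_lit 195)))) (XT.nd (nat_lit 78) (nat_lit 0) (nat_lit 0) (XT.lf (nat_lit 0) (nat_lit 34149041201) (nat_lit 76) (nat_lit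 30817677832) (nat_lit 76) (nat_lit 22331214200) (nat_lit 3) (nat_lit 4) (nat_lit 4) (nat_lit 5) (nat_lit 4) (nat_lit 4) (nat_lit 294) (nat_lit 232) (nat_lit 194)) (XT.nd (nat_lit 78) (nat_lit 0) (nat_lit 0) (XT.lf (nat_lit 0) (nat_lit 43185566096) (nat_lit 76) (nat_lit 29670191236) (nat_lit 76) (nat_lit 21148061386) (nat_lit 3) (nat_lit 4) (nat_lit 4) (nat_lit 5) (nat_lit 4) (nat_lit 4) (nat_lit 295) (nat_lit 232) (nat_lit 193)) (XT.lf (nat_lit 0) (nat_lit 52901248052) (nat_lit 76) (nat_lit 28451005283) (nat_lit 76) (nat_lit 19895851156) (nat_lit 3) (nat_lit 4) (nat_lit 4) (nat_lit 5) (nat_lit 4) (nat_lit 4) (nat_lit 296) (nat_lit 232) (nat_lit 192))))) (XT.nd (nat_lit 234) (nat_lit 0) (nat_lit 0) (XT.nd (nat_lit 78) (nat_lit 0) (nat_lit 0) (XT.lf (nat_lit 0) (nat_lit 63353661481) (nat_lit 76) (nat_lit 27152895169) (nat_lit 76) (nat_lit 18567163008) (nat_lit 3) (nat_lit 4) (nat_lit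 4) (nat_lit 5) (nat_lit 4) (nat_lit 4) (nat_lit 297) (nat_lit 232) (nat_lit 191)) (XT.nd (nat_lit 78) (nat_lit 0) (nat_lit 0) (XT.lf (nat_lit 0) (nat_lit 74604746610) (nat_lit 76) (nat_lit 25768168387) (nat_lit 76) (nat_lit 17154123232) (nat_lit 3) (nat_lit 4) (nat_lit 4) (nat_lit 5) (nat_lit 4) (nat_lit 4) (nat_lit 298) (nat_lit 232) (nat_lit 190)) (XT.lf (nat_lit 0) (nat_lit 86721176538) (nat_lit 76) (nat_lit 24288619152) (nat_lit 76) (nat_lit 15648358261) (nat_lit 3) (nat_lit 4) (nat_lit 4) (nat_lit 5) (nat_lit 4) (nat_lit 4) (nat_lit 299) (nat_lit 232) (nat_lit 189)))) (XT.nd (nat_lit 156) (nat_lit 0) (nat_lit 0) (XT.nd (nat_lit 78) (nat_lit 0) (nat_lit 0) (XT.lf (nat_lit 0) (nat_lit 99774752330) (nat_lit 76) (nat_lit 22705479762) (nat_lit 76) (nat_lit 14040945042) (nat_lit 3) (nat_lit 4) (nat_lit 4) (nat_lit 5) (nat_lit 4) (nat_lit 4) (nat_lit 300) (nat_lit 232) (nat_lit 188))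 (XT.lf (nat_lit 0) (nat_lit 113842828508) (nat_lit 76) (nat_lit 21009368651) (nat_lit 76) (nat_lit 12322358163) (nat_lit 3) (nat_lit 4) (nat_lit 4) (nat_lit 5) (nat_lit 4) (nat_lit 4) (nat_lit 301) (nat_lit 232) (nat_lit 187))) (XT.nd (nat_lit 78) (nat_lit 0) (nat_lit 0) (XT.lf (nat_lit 0) (nat_lit 129008771452) (nat_lit 76) (nat_lit 19190234791) (nat_lit 76) (nat_lit 10482413407) (nat_lit 3) (nat_lit 4) (nat_lit 4) (nat_lit 5) (nat_lit 4) (nat_lit 4) (nat_lit 302) (nat_lit 232) (nat_lit 186)) (XT.lf (nat_lit 0) (nat_lit 145362453414) (nat_lit 76) (nat_lit 17237298129) (nat_lit 76) (nat_lit 8510207397) (nat_lit 3) (nat_lit 4) (nat_lit 4) (nat_lit 5) (nat_lit 4) (nat_lit 4) (nat_lit 303) (nat_lit 232) (nat_lit 185))))))) (XT.nd (nat_lit 1014) (nat_lit 0) (nat_lit 0) (XT.nd (nat_lit 468) (nat_lit 0) (nat_lit 0) (XT.nd (nat_lit 234) (nat_lit 152) (nat_lit 0) (XT.nd (nat_lit 78) (nat_lit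 0) (nat_lit 0) (XT.lf (nat_lit 0) (nat_lit 163000785104) (nat_lit 76) (nat_lit 15138985707) (nat_lit 76) (nat_lit 6394052986) (nat_lit 3) (nat_lit 4) (nat_lit 4) (nat_lit 5) (nat_lit 4) (nat_lit 4) (nat_lit 304) (nat_lit 232) (nat_lit 184)) (XT.nd (nat_lit 78) (nat_lit 0) (nat_lit 0) (XT.lf (nat_lit 0) (nat_lit 182028289967) (nat_lit 76) (nat_lit 12882863081) (nat_lit 76) (nat_lit 4121409999) (nat_lit 3) (nat_lit 4) (nat_lit 4) (nat_lit 5) (nat_lit 4) (nat_lit 4) (nat_lit 305) (nat_lit 232) (nat_lit 183)) (XT.lf (nat_lit 0) (nat_lit 202557723589) (nat_lit 76) (nat_lit 10455560635) (nat_lit 76) (nat_lit 1678810924) (nat_lit 3) (nat_lit 4) (nat_lit 4) (nat_lit 5) (nat_lit 4) (nat_lit 4) (nat_lit 306) (nat_lit 232) (nat_lit 182)))) (XT.nd (nat_lit 78) (nat_lit 76) (nat_lit 0) (XT.lf (nat_lit 0) (nat_lit 900785151) (nat_lit 152) (nat_lit 6917280141) (nat_lit 76) (nat_lit 223785327658)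 (nat_lit 2) (nat_lit 5) (nat_lit 4) (nat_lit 5) (nat_lit 3) (nat_lit 4) (nat_lit 307) (nat_lit 232) (nat_lit 181)) (XT.nd (nat_lit 78) (nat_lit 76) (nat_lit 0) (XT.lf (nat_lit 0) (nat_lit 3586393913) (nat_lit 152) (nat_lit 1344328310) (nat_lit 76) (nat_lit 244934169682) (nat_lit 2) (nat_lit 5) (nat_lit 4) (nat_lit 5) (nat_lit 3) (nat_lit 4) (nat_lit 308) (nat_lit 232) (nat_lit 180)) (XT.lf (nat_lit 0) (nat_lit 4903160207) (nat_lit 76) (nat_lit 1692671916) (nat_lit 152) (nat_lit 262982772529) (nat_lit 1) (nat_lit 5) (nat_lit 2) (nat_lit 5) (nat_lit 3) (nat_lit 4) (nat_lit 309) (nat_lit 232) (nat_lit 179))))) (XT.nd (nat_lit 234) (nat_lit 0) (nat_lit 0) (XT.nd (nat_lit 78) (nat_lit 0) (nat_lit 0) (XT.lf (nat_lit 0) (nat_lit 9918286036) (nat_lit 152) (nat_lit 279200604477) (nat_lit 0) (nat_lit 1744754472) (nat_lit 1) (nat_lit 5) (nat_lit 3) (nat_lit 4) (nat_lit 1) (nat_lit 4) (nat_lit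 310) (nat_lit 232) (nat_lit 178)) (XT.nd (nat_lit 78) (nat_lit 0) (nat_lit 0) (XT.lf (nat_lit 0) (nat_lit 13542310300) (nat_lit 152) (nat_lit 294947187630) (nat_lit 0) (nat_lit 5359139264) (nat_lit 1) (nat_lit 5) (nat_lit 3) (nat_lit 4) (nat_lit 1) (nat_lit 4) (nat_lit 311) (nat_lit 232) (nat_lit 177)) (XT.lf (nat_lit 0) (nat_lit 17448671813) (nat_lit 152) (nat_lit 311967798191) (nat_lit 0) (nat_lit 9256575341) (nat_lit 1) (nat_lit 5) (nat_lit 3) (nat_lit 4) (nat_lit 1) (nat_lit 4) (nat_lit 312) (nat_lit 232) (nat_lit 176)))) (XT.nd (nat_lit 156) (nat_lit 0) (nat_lit 0) (XT.nd (nat_lit 78) (nat_lit 0) (nat_lit 0) (XT.lf (nat_lit 0) (nat_lit 21660519386) (nat_lit 152) (nat_lit 330363299036) (nat_lit 0) (nat_lit 13460158620) (nat_lit 1) (nat_lit 5) (nat_lit 3) (nat_lit 4) (nat_lit 1) (nat_lit 4) (nat_lit 313) (nat_lit 232) (nat_lit 175)) (XT.lf (nat_lit 0) (nat_lit 26202812114) (nat_lit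 152) (nat_lit 350242700542) (nat_lit 0) (nat_lit 17994799225) (nat_lit 1) (nat_lit 5) (nat_lit 3) (nat_lit 4) (nat_lit 1) (nat_lit 4) (nat_lit 314) (nat_lit 232) (nat_lit 174))) (XT.nd (nat_lit 78) (nat_lit 0) (nat_lit 0) (XT.lf (nat_lit 0) (nat_lit 31102467288) (nat_lit 152) (nat_lit 371723806568) (nat_lit 0) (nat_lit 22887369100) (nat_lit 1) (nat_lit 5) (nat_lit 3) (nat_lit 4) (nat_lit 1) (nat_lit 4) (nat_lit 315) (nat_lit 232) (nat_lit 173)) (XT.lf (nat_lit 0) (nat_lit 36388519902) (nat_lit 152) (nat_lit 394933912559) (nat_lit 0) (nat_lit 28166861251) (nat_lit 1) (nat_lit 5) (nat_lit 3) (nat_lit 4) (nat_lit 1) (nat_lit 4) (nat_lit 316) (nat_lit 232) (nat_lit 172)))))) (XT.nd (nat_lit 468) (nat_lit 0) (nat_lit 0) (XT.nd (nat_lit 234) (nat_lit 0) (nat_lit 0) (XT.nd (nat_lit 78) (nat_lit 0) (nat_lit 0) (XT.lf (nat_lit 0) (nat_lit 42092294711) (nat_lit 152) (nat_lit 420010559882) (nat_lit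 0) (nat_lit 33864561558) (nat_lit 1) (nat_lit 5) (nat_lit 3) (nat_lit 4) (nat_lit 1) (nat_lit 4) (nat_lit 317) (nat_lit 232) (nat_lit 171)) (XT.nd (nat_lit 78) (nat_lit 0) (nat_lit 0) (XT.lf (nat_lit 0) (nat_lit 48247591862) (nat_lit 152) (nat_lit 447102350893) (nat_lit 0) (nat_lit 40014234171) (nat_lit 1) (nat_lit 5) (nat_lit 3) (nat_lit 4) (nat_lit 1) (nat_lit 4) (nat_lit 318) (nat_lit 232) (nat_lit 170)) (XT.lf (nat_lit 0) (nat_lit 54890887192) (nat_lit 152) (nat_lit 476369829538) (nat_lit 0) (nat_lit 46652321594) (nat_lit 1) (nat_lit 5) (nat_lit 3) (nat_lit 4) (nat_lit 1) (nat_lit 4) (nat_lit 319) (nat_lit 232) (nat_lit 169)))) (XT.nd (nat_lit 78) (nat_lit 0) (nat_lit 0) (XT.lf (nat_lit 0) (nat_lit 62061548375) (nat_lit 152) (nat_lit 507986432727) (nat_lit 0) (nat_lit 53818160641) (nat_lit 1) (nat_lit 5) (nat_lit 3) (nat_lit 4) (nat_lit 1) (nat_lit 4) (nat_lit 320) (nat_lit 232)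 (nat_lit 168)) (XT.nd (nat_lit 78) (nat_lit 0) (nat_lit 0) (XT.lf (nat_lit 0) (nat_lit 69802068219) (nat_lit 152) (nat_lit 542139518110) (nat_lit 0) (nat_lit 61554215544) (nat_lit 1) (nat_lit 5) (nat_lit 3) (nat_lit 4) (nat_lit 1) (nat_lit 4) (nat_lit 321) (nat_lit 232) (nat_lit 167)) (XT.lf (nat_lit 0) (nat_lit 78158316471) (nat_lit 152) (nat_lit 579031474340) (nat_lit 0) (nat_lit 69906329592) (nat_lit 1) (nat_lit 5) (nat_lit 3) (nat_lit 4) (nat_lit 1) (nat_lit 4) (nat_lit 322) (nat_lit 232) (nat_lit 166))))) (XT.nd (nat_lit 234) (nat_lit 0) (nat_lit 0) (XT.nd (nat_lit 78) (nat_lit 0) (nat_lit 0) (XT.lf (nat_lit 0) (nat_lit 87179811639) (nat_lit 152) (nat_lit 618880920417) (nat_lit 0) (nat_lit 78923996793) (nat_lit 1) (nat_lit 5) (nat_lit 3) (nat_lit 4) (nat_lit 1) (nat_lit 4) (nat_lit 323) (nat_lit 232) (nat_lit 165)) (XT.nd (nat_lit 78) (nat_lit 0) (nat_lit 0) (XT.lf (nat_lit 0)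 (nat_lit 96920014435) (nat_lit 152) (nat_lit 661924001206) (nat_lit 0) (nat_lit 88660655176) (nat_lit 1) (nat_lit 5) (nat_lit 3) (nat_lit 4) (nat_lit 1) (nat_lit 4) (nat_lit 324) (nat_lit 232) (nat_lit 164)) (XT.lf (nat_lit 0) (nat_lit 107436644579) (nat_lit 152) (nat_lit 708415786817) (nat_lit 0) (nat_lit 99174003456) (nat_lit 1) (nat_lit 5) (nat_lit 3) (nat_lit 4) (nat_lit 1) (nat_lit 4) (nat_lit 325) (nat_lit 232) (nat_lit 163)))) (XT.nd (nat_lit 156) (nat_lit 0) (nat_lit 0) (XT.nd (nat_lit 78) (nat_lit 0) (nat_lit 0) (XT.lf (nat_lit 0) (nat_lit 118792022844) (nat_lit 152) (nat_lit 758631784127) (nat_lit 0) (nat_lit 110526342957) (nat_lit 1) (nat_lit 5) (nat_lit 3) (nat_lit 4) (nat_lit 1) (nat_lit 4) (nat_lit 326) (nat_lit 232) (nat_lit 162)) (XT.lf (nat_lit 0) (nat_lit 131053440358) (nat_lit 152) (nat_lit 812869569416) (nat_lit 0) (nat_lit 122784946801) (nat_lit 1) (nat_lit 5)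 (nat_lit 3) (nat_lit 4) (nat_lit 1) (nat_lit 4) (nat_lit 327) (nat_lit 232) (nat_lit 161))) (XT.nd (nat_lit 78) (nat_lit 0) (nat_lit 0) (XT.lf (nat_lit 0) (nat_lit 144293557375) (nat_lit 152) (nat_lit 871450551782) (nat_lit 0) (nat_lit 136022458568) (nat_lit 1) (nat_lit 5) (nat_lit 3) (nat_lit 4) (nat_lit 1) (nat_lit 4) (nat_lit 328) (nat_lit 232) (nat_lit 160)) (XT.lf (nat_lit 0) (nat_lit 158590833846) (nat_lit 152) (nat_lit 934721877787) (nat_lit 0) (nat_lit 150317322771) (nat_lit 1) (nat_lit 5) (nat_lit 3) (nat_lit 4) (nat_lit 1) (nat_lit 4) (nat_lit 329) (nat_lit 232) (nat_lit 159))))))))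
noncomputable def xc37 : XT := (XT.nd (nat_lit 32760) (nat_lit 0) (nat_lit 152) (XT.nd (nat_lit 31746) (nat_lit 0) (nat_lit 760) (XT.nd (nat_lit 468) (nat_lit 0) (nat_lit 0) (XT.nd (nat_lit 234) (nat_lit 0) (nat_lit 0) (XT.nd (nat_lit 78) (nat_lit 0) (nat_lit 0) (XT.lf (nat_lit 0) (nat_lit 174029994373) (nat_lit 152) (nat_lit 1003058488623) (nat_lit 0) (nat_lit 165754249716) (nat_lit 1) (nat_lit 5) (nat_lit 3) (nat_lit 4) (nat_lit 1) (nat_lit 4) (nat_lit 330) (nat_lit 232) (nat_lit 158)) (XT.nd (nat_lit 78) (nat_lit 0) (nat_lit 0) (XT.lf (nat_lit 0) (nat_lit 190702530278) (nat_lit 152) (nat_lit 1076865341984) (nat_lit 0) (nat_lit 182424717490) (nat_lit 1) (nat_lit 5) (nat_lit 3) (nat_lit 4) (nat_lit 1) (nat_lit 4) (nat_lit 331) (nat_lit 232) (nat_lit 157)) (XT.lf (nat_lit 0) (nat_lit 208707241774) (nat_lit 152) (nat_lit 1156579811814) (nat_lit 0) (nat_lit 200427514049) (nat_lit 1)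 (nat_lit 5) (nat_lit 3) (nat_lit 4) (nat_lit 1) (nat_lit 4) (nat_lit 332) (nat_lit 232) (nat_lit 156)))) (XT.nd (nat_lit 78) (nat_lit 0) (nat_lit 0) (XT.lf (nat_lit 0) (nat_lit 228150823447) (nat_lit 152) (nat_lit 1242674280159) (nat_lit 0) (nat_lit 219869322633) (nat_lit 1) (nat_lit 5) (nat_lit 3) (nat_lit 4) (nat_lit 1) (nat_lit 4) (nat_lit 333) (nat_lit 232) (nat_lit 155)) (XT.nd (nat_lit 78) (nat_lit 0) (nat_lit 0) (XT.lf (nat_lit 0) (nat_lit 249148496521) (nat_lit 152) (nat_lit 1335658936459) (nat_lit 0) (nat_lit 240865353958) (nat_lit 1) (nat_lit 5) (nat_lit 3) (nat_lit 4) (nat_lit 1) (nat_lit 4) (nat_lit 334) (nat_lit 232) (nat_lit 154)) (XT.lf (nat_lit 0) (nat_lit 271824691653) (nat_lit 152) (nat_lit 1436084800900) (nat_lit 0) (nat_lit 263540028951) (nat_lit 1) (nat_lit 5) (nat_lit 3) (nat_lit 4) (nat_lit 1) (nat_lit 4) (nat_lit 335) (nat_lit 232) (nat_lit 153))))) (XT.nd (nat_lit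 234) (nat_lit 0) (nat_lit 0) (XT.nd (nat_lit 78) (nat_lit 0) (nat_lit 0) (XT.lf (nat_lit 0) (nat_lit 296313786295) (nat_lit 152) (nat_lit 1544546989716) (nat_lit 0) (nat_lit 288027716058) (nat_lit 1) (nat_lit 5) (nat_lit 3) (nat_lit 4) (nat_lit 1) (nat_lit 4) (nat_lit 336) (nat_lit 232) (nat_lit 152)) (XT.nd (nat_lit 78) (nat_lit 0) (nat_lit 0) (XT.lf (nat_lit 0) (nat_lit 322760901007) (nat_lit 152) (nat_lit 1661688241803) (nat_lit 0) (nat_lit 314473527496) (nat_lit 1) (nat_lit 5) (nat_lit 3) (nat_lit 4) (nat_lit 1) (nat_lit 4) (nat_lit 337) (nat_lit 232) (nat_lit 151)) (XT.lf (nat_lit 0) (nat_lit 351322759432) (nat_lit 152) (nat_lit 1788202727545) (nat_lit 0) (nat_lit 343034179187) (nat_lit 1) (nat_lit 5) (nat_lit 3) (nat_lit 4) (nat_lit 1) (nat_lit 4) (nat_lit 338) (nat_lit 232) (nat_lit 150)))) (XT.nd (nat_lit 30888) (nat_lit 0) (nat_lit 2128) (XT.nd (nat_lit 78) (nat_lit 0) (nat_lit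 0) (XT.lf (nat_lit 0) (nat_lit 382168617028) (nat_lit 152) (nat_lit 1924840162412) (nat_lit 0) (nat_lit 373878919436) (nat_lit 1) (nat_lit 5) (nat_lit 3) (nat_lit 4) (nat_lit 1) (nat_lit 4) (nat_lit 339) (nat_lit 232) (nat_lit 149)) (XT.lf (nat_lit 0) (nat_lit 415481264063) (nat_lit 152) (nat_lit 2072410249723) (nat_lit 0) (nat_lit 407190531889) (nat_lit 1) (nat_lit 5) (nat_lit 3) (nat_lit 4) (nat_lit 1) (nat_lit 4) (nat_lit 340) (nat_lit 232) (nat_lit 148))) (XT.nd (nat_lit 78) (nat_lit 0) (nat_lit 0) (XT.lf (nat_lit 0) (nat_lit 316924763) (nat_lit 228) (nat_lit 3406583760) (nat_lit 0) (nat_lit 316924763) (nat_lit 29) (nat_lit 5) (nat_lit 32) (nat_lit 4) (nat_lit 29) (nat_lit 4) (nat_lit 254) (nat_lit 233) (nat_lit 233)) (XT.lf (nat_lit 0) (nat_lit 3957517711) (nat_lit 228) (nat_lit 1566866038) (nat_lit 0) (nat_lit 2819035981) (nat_lit 29) (nat_lit 5) (nat_lit 32) (nat_lit 4) (nat_lit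 29) (nat_lit 4) (nat_lit 255) (nat_lit 233) (nat_lit 232)))))) (XT.nd (nat_lit 468) (nat_lit 532) (nat_lit 0) (XT.nd (nat_lit 234) (nat_lit 380) (nat_lit 0) (XT.nd (nat_lit 78) (nat_lit 228) (nat_lit 0) (XT.lf (nat_lit 0) (nat_lit 4017751071) (nat_lit 228) (nat_lit 3406423111) (nat_lit 228) (nat_lit 1213791632) (nat_lit 26) (nat_lit 4) (nat_lit 29) (nat_lit 5) (nat_lit 29) (nat_lit 4) (nat_lit 256) (nat_lit 233) (nat_lit 231)) (XT.nd (nat_lit 78) (nat_lit 0) (nat_lit 0) (XT.lf (nat_lit 0) (nat_lit 888102932) (nat_lit 152) (nat_lit 1062281199) (nat_lit 228) (nat_lit 7014510374) (nat_lit 23) (nat_lit 5) (nat_lit 25) (nat_lit 5) (nat_lit 26) (nat_lit 4) (nat_lit 257) (nat_lit 233) (nat_lit 230)) (XT.lf (nat_lit 0) (nat_lit 5258227135) (nat_lit 228) (nat_lit 2574226075) (nat_lit 0) (nat_lit 1487431241) (nat_lit 23) (nat_lit 5) (nat_lit 26) (nat_lit 4) (nat_lit 23) (nat_lit 4) (nat_lit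 258) (nat_lit 233) (nat_lit 229)))) (XT.nd (nat_lit 78) (nat_lit 228) (nat_lit 0) (XT.lf (nat_lit 0) (nat_lit 3228327355) (nat_lit 152) (nat_lit 5514237102) (nat_lit 152) (nat_lit 968609673) (nat_lit 21) (nat_lit 4) (nat_lit 23) (nat_lit 5) (nat_lit 23) (nat_lit 4) (nat_lit 259) (nat_lit 233) (nat_lit 228)) (XT.nd (nat_lit 78) (nat_lit 152) (nat_lit 0) (XT.lf (nat_lit 0) (nat_lit 2134409322) (nat_lit 228) (nat_lit 823492644) (nat_lit 76) (nat_lit 7181535861) (nat_lit 20) (nat_lit 5) (nat_lit 23) (nat_lit 5) (nat_lit 21) (nat_lit 4) (nat_lit 260) (nat_lit 233) (nat_lit 227)) (XT.lf (nat_lit 0) (nat_lit 5269684313) (nat_lit 152) (nat_lit 113508716) (nat_lit 228) (nat_lit 5221443302) (nat_lit 18) (nat_lit 5) (nat_lit 20) (nat_lit 5) (nat_lit 21) (nat_lit 4) (nat_lit 261) (nat_lit 233) (nat_lit 226))))) (XT.nd (nat_lit 234) (nat_lit 228) (nat_lit 0) (XT.nd (nat_lit 78) (nat_lit 152) (nat_lit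 0) (XT.lf (nat_lit 0) (nat_lit 481107981) (nat_lit 152) (nat_lit 8344830360) (nat_lit 152) (nat_lit 2287012356) (nat_lit 16) (nat_lit 4) (nat_lit 18) (nat_lit 5) (nat_lit 18) (nat_lit 4) (nat_lit 262) (nat_lit 233) (nat_lit 225)) (XT.nd (nat_lit 78) (nat_lit 76) (nat_lit 0) (XT.lf (nat_lit 0) (nat_lit 820599172) (nat_lit 228) (nat_lit 4878309049) (nat_lit 76) (nat_lit 5963255785) (nat_lit 15) (nat_lit 5) (nat_lit 18) (nat_lit 5) (nat_lit 16) (nat_lit 4) (nat_lit 263) (nat_lit 233) (nat_lit 224)) (XT.lf (nat_lit 0) (nat_lit 1084083616) (nat_lit 76) (nat_lit 2837798231) (nat_lit 152) (nat_lit 8339686576) (nat_lit 14) (nat_lit 5) (nat_lit 15) (nat_lit 5) (nat_lit 16) (nat_lit 4) (nat_lit 264) (nat_lit 233) (nat_lit 223)))) (XT.nd (nat_lit 156) (nat_lit 76) (nat_lit 0) (XT.nd (nat_lit 78) (nat_lit 152) (nat_lit 0) (XT.lf (nat_lit 0) (nat_lit 7260490034) (nat_lit 152) (nat_lit 5357356635)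 (nat_lit 0) (nat_lit 292399862) (nat_lit 14) (nat_lit 5) (nat_lit 16) (nat_lit 4) (nat_lit 14) (nat_lit 4) (nat_lit 265) (nat_lit 233) (nat_lit 222)) (XT.lf (nat_lit 0) (nat_lit 655545863) (nat_lit 152) (nat_lit 10157811687) (nat_lit 152) (nat_lit 2802112840) (nat_lit 12) (nat_lit 4) (nat_lit 14) (nat_lit 5) (nat_lit 14) (nat_lit 4) (nat_lit 266) (nat_lit 233) (nat_lit 221))) (XT.nd (nat_lit 78) (nat_lit 0) (nat_lit 0) (XT.lf (nat_lit 0) (nat_lit 268815632) (nat_lit 228) (nat_lit 7155459253) (nat_lit 76) (nat_lit 6951944102) (nat_lit 11) (nat_lit 5) (nat_lit 14) (nat_lit 5) (nat_lit 12) (nat_lit 4) (nat_lit 267) (nat_lit 233) (nat_lit 220)) (XT.lf (nat_lit 0) (nat_lit 3303348841) (nat_lit 228) (nat_lit 1175942141) (nat_lit 76) (nat_lit 10723506033) (nat_lit 11) (nat_lit 5) (nat_lit 14) (nat_lit 5) (nat_lit 12) (nat_lit 4) (nat_lit 268) (nat_lit 233) (nat_lit 219))))))) (XT.nd (nat_lit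 1014) (nat_lit 228) (nat_lit 0) (XT.nd (nat_lit 468) (nat_lit 76) (nat_lit 0) (XT.nd (nat_lit 234) (nat_lit 152) (nat_lit 0) (XT.nd (nat_lit 78) (nat_lit 76) (nat_lit 0) (XT.lf (nat_lit 0) (nat_lit 5349032113) (nat_lit 76) (nat_lit 1239254477) (nat_lit 152) (nat_lit 9506915848) (nat_lit 10) (nat_lit 5) (nat_lit 11) (nat_lit 5) (nat_lit 12) (nat_lit 4) (nat_lit 269) (nat_lit 233) (nat_lit 218)) (XT.nd (nat_lit 78) (nat_lit 76) (nat_lit 0) (XT.lf (nat_lit 0) (nat_lit 10104728594) (nat_lit 152) (nat_lit 4851880116) (nat_lit 0) (nat_lit 2105184201) (nat_lit 10) (nat_lit 5) (nat_lit 12) (nat_lit 4) (nat_lit 10) (nat_lit 4) (nat_lit 270) (nat_lit 233) (nat_lit 217)) (XT.lf (nat_lit 0) (nat_lit 1361789545) (nat_lit 76) (nat_lit 12495792459) (nat_lit 76) (nat_lit 4251988852) (nat_lit 9) (nat_lit 4) (nat_lit 10) (nat_lit 5) (nat_lit 10) (nat_lit 4) (nat_lit 271) (nat_lit 233) (nat_lit 216))))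 (XT.nd (nat_lit 78) (nat_lit 152) (nat_lit 0) (XT.lf (nat_lit 0) (nat_lit 8165147901) (nat_lit 76) (nat_lit 9772058664) (nat_lit 76) (nat_lit 1302089118) (nat_lit 9) (nat_lit 4) (nat_lit 10) (nat_lit 5) (nat_lit 10) (nat_lit 4) (nat_lit 272) (nat_lit 233) (nat_lit 215)) (XT.nd (nat_lit 78) (nat_lit 76) (nat_lit 0) (XT.lf (nat_lit 0) (nat_lit 1688541184) (nat_lit 152) (nat_lit 5167216788) (nat_lit 76) (nat_lit 13608310845) (nat_lit 8) (nat_lit 5) (nat_lit 10) (nat_lit 5) (nat_lit 9) (nat_lit 4) (nat_lit 273) (nat_lit 233) (nat_lit 214)) (XT.lf (nat_lit 0) (nat_lit 1069653127) (nat_lit 76) (nat_lit 3710604766) (nat_lit 152) (nat_lit 17009482590) (nat_lit 7) (nat_lit 5) (nat_lit 8) (nat_lit 5) (nat_lit 9) (nat_lit 4) (nat_lit 274) (nat_lit 233) (nat_lit 213))))) (XT.nd (nat_lit 234) (nat_lit 76) (nat_lit 0) (XT.nd (nat_lit 78) (nat_lit 0) (nat_lit 0) (XT.lf (nat_lit 0) (nat_lit 7941142338)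 (nat_lit 76) (nat_lit 229032394) (nat_lit 152) (nat_lit 15047404468) (nat_lit 7) (nat_lit 5) (nat_lit 8) (nat_lit 5) (nat_lit 9) (nat_lit 4) (nat_lit 275) (nat_lit 233) (nat_lit 212)) (XT.nd (nat_lit 78) (nat_lit 0) (nat_lit 0) (XT.lf (nat_lit 0) (nat_lit 11830977417) (nat_lit 152) (nat_lit 9634050119) (nat_lit 0) (nat_lit 3294810914) (nat_lit 7) (nat_lit 5) (nat_lit 9) (nat_lit 4) (nat_lit 7) (nat_lit 4) (nat_lit 276) (nat_lit 233) (nat_lit 211)) (XT.lf (nat_lit 0) (nat_lit 15711676804) (nat_lit 152) (nat_lit 3686807970) (nat_lit 0) (nat_lit 7032987396) (nat_lit 7) (nat_lit 5) (nat_lit 9) (nat_lit 4) (nat_lit 7) (nat_lit 4) (nat_lit 277) (nat_lit 233) (nat_lit 210)))) (XT.nd (nat_lit 156) (nat_lit 0) (nat_lit 0) (XT.nd (nat_lit 78) (nat_lit 0) (nat_lit 0) (XT.lf (nat_lit 0) (nat_lit 2743270219) (nat_lit 76) (nat_lit 17152466891) (nat_lit 76) (nat_lit 8341811829) (nat_lit 6) (nat_lit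 4) (nat_lit 7) (nat_lit 5) (nat_lit 7) (nat_lit 4) (nat_lit 278) (nat_lit 233) (nat_lit 209)) (XT.lf (nat_lit 0) (nat_lit 9770549400) (nat_lit 76) (nat_lit 14674067205) (nat_lit 76) (nat_lit 5741221724) (nat_lit 6) (nat_lit 4) (nat_lit 7) (nat_lit 5) (nat_lit 7) (nat_lit 4) (nat_lit 279) (nat_lit 233) (nat_lit 208))) (XT.nd (nat_lit 78) (nat_lit 0) (nat_lit 0) (XT.lf (nat_lit 0) (nat_lit 17242531931) (nat_lit 76) (nat_lit 12049402768) (nat_lit 76) (nat_lit 3003418009) (nat_lit 6) (nat_lit 4) (nat_lit 7) (nat_lit 5) (nat_lit 7) (nat_lit 4) (nat_lit 280) (nat_lit 233) (nat_lit 207)) (XT.lf (nat_lit 0) (nat_lit 25203496229) (nat_lit 76) (nat_lit 9262920012) (nat_lit 76) (nat_lit 112176663) (nat_lit 6) (nat_lit 4) (nat_lit 7) (nat_lit 5) (nat_lit 7) (nat_lit 4) (nat_lit 281) (nat_lit 233) (nat_lit 206)))))) (XT.nd (nat_lit 468) (nat_lit 76) (nat_lit 0) (XT.nd (nat_lit 234) (nat_lit 0)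 (nat_lit 0) (XT.nd (nat_lit 78) (nat_lit 76) (nat_lit 0) (XT.lf (nat_lit 0) (nat_lit 2802082876) (nat_lit 152) (nat_lit 3419409659) (nat_lit 76) (nat_lit 30821921589) (nat_lit 5) (nat_lit 5) (nat_lit 7) (nat_lit 5) (nat_lit 6) (nat_lit 4) (nat_lit 282) (nat_lit 233) (nat_lit 205)) (XT.nd (nat_lit 78) (nat_lit 0) (nat_lit 0) (XT.lf (nat_lit 0) (nat_lit 3067083925) (nat_lit 76) (nat_lit 2896685101) (nat_lit 152) (nat_lit 33739882436) (nat_lit 4) (nat_lit 5) (nat_lit 5) (nat_lit 5) (nat_lit 6) (nat_lit 4) (nat_lit 283) (nat_lit 233) (nat_lit 204)) (XT.lf (nat_lit 0) (nat_lit 9438279545) (nat_lit 152) (nat_lit 32418327548) (nat_lit 0) (nat_lit 715393993) (nat_lit 4) (nat_lit 5) (nat_lit 6) (nat_lit 4) (nat_lit 4) (nat_lit 4) (nat_lit 284) (nat_lit 233) (nat_lit 203)))) (XT.nd (nat_lit 78) (nat_lit 0) (nat_lit 0) (XT.lf (nat_lit 0) (nat_lit 13217170117) (nat_lit 152) (nat_lit 28027625602)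 (nat_lit 0) (nat_lit 4422987628) (nat_lit 4) (nat_lit 5) (nat_lit 6) (nat_lit 4) (nat_lit 4) (nat_lit 4) (nat_lit 285) (nat_lit 233) (nat_lit 202)) (XT.nd (nat_lit 78) (nat_lit 0) (nat_lit 0) (XT.lf (nat_lit 0) (nat_lit 17253168819) (nat_lit 152) (nat_lit 23368777380) (nat_lit 0) (nat_lit 8392970650) (nat_lit 4) (nat_lit 5) (nat_lit 6) (nat_lit 4) (nat_lit 4) (nat_lit 4) (nat_lit 286) (nat_lit 233) (nat_lit 201)) (XT.lf (nat_lit 0) (nat_lit 21570192683) (nat_lit 152) (nat_lit 18414174893) (nat_lit 0) (nat_lit 12648868882) (nat_lit 4) (nat_lit 5) (nat_lit 6) (nat_lit 4) (nat_lit 4) (nat_lit 4) (nat_lit 287) (nat_lit 233) (nat_lit 200))))) (XT.nd (nat_lit 234) (nat_lit 76) (nat_lit 0) (XT.nd (nat_lit 78) (nat_lit 0) (nat_lit 0) (XT.lf (nat_lit 0) (nat_lit 26193824071) (nat_lit 152) (nat_lit 13134457531) (nat_lit 0) (nat_lit 17215902463) (nat_lit 4) (nat_lit 5) (nat_lit 6) (nat_lit 4)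 (nat_lit 4) (nat_lit 4) (nat_lit 288) (nat_lit 233) (nat_lit 199)) (XT.nd (nat_lit 78) (nat_lit 0) (nat_lit 0) (XT.lf (nat_lit 0) (nat_lit 31151462280) (nat_lit 152) (nat_lit 7498338083) (nat_lit 0) (nat_lit 22121135295) (nat_lit 4) (nat_lit 5) (nat_lit 6) (nat_lit 4) (nat_lit 4) (nat_lit 4) (nat_lit 289) (nat_lit 233) (nat_lit 198)) (XT.lf (nat_lit 0) (nat_lit 36472485907) (nat_lit 152) (nat_lit 1472417320) (nat_lit 0) (nat_lit 27393635426) (nat_lit 4) (nat_lit 5) (nat_lit 6) (nat_lit 4) (nat_lit 4) (nat_lit 4) (nat_lit 290) (nat_lit 233) (nat_lit 197)))) (XT.nd (nat_lit 156) (nat_lit 0) (nat_lit 0) (XT.nd (nat_lit 78) (nat_lit 0) (nat_lit 0) (XT.lf (nat_lit 0) (nat_lit 5241199964) (nat_lit 76) (nat_lit 37073277965) (nat_lit 76) (nat_lit 27949498320) (nat_lit 3) (nat_lit 4) (nat_lit 4) (nat_lit 5) (nat_lit 4) (nat_lit 4) (nat_lit 291) (nat_lit 233) (nat_lit 196)) (XT.lf (nat_lit 0)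 (nat_lit 12520513103) (nat_lit 76) (nat_lit 36113763174) (nat_lit 76) (nat_lit 26948382451) (nat_lit 3) (nat_lit 4) (nat_lit 4) (nat_lit 5) (nat_lit 4) (nat_lit 4) (nat_lit 292) (nat_lit 233) (nat_lit 195))) (XT.nd (nat_lit 78) (nat_lit 0) (nat_lit 0) (XT.lf (nat_lit 0) (nat_lit 20331123877) (nat_lit 76) (nat_lit 35100931339) (nat_lit 76) (nat_lit 25897031100) (nat_lit 3) (nat_lit 4) (nat_lit 4) (nat_lit 5) (nat_lit 4) (nat_lit 4) (nat_lit 293) (nat_lit 233) (nat_lit 194)) (XT.lf (nat_lit 0) (nat_lit 28719317389) (nat_lit 76) (nat_lit 34028780494) (nat_lit 76) (nat_lit 24789214037) (nat_lit 3) (nat_lit 4) (nat_lit 4) (nat_lit 5) (nat_lit 4) (nat_lit 4) (nat_lit 294) (nat_lit 233) (nat_lit 193))))))))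
noncomputable def xc38 : XT := (XT.nd (nat_lit 1950) (nat_lit 0) (nat_lit 0) (XT.nd (nat_lit 936) (nat_lit 152) (nat_lit 0) (XT.nd (nat_lit 468) (nat_lit 0) (nat_lit 0) (XT.nd (nat_lit 234) (nat_lit 0) (nat_lit 0) (XT.nd (nat_lit 78) (nat_lit 0) (nat_lit 0) (XT.lf (nat_lit 0) (nat_lit 37734801452) (nat_lit 76) (nat_lit 32890957154) (nat_lit 76) (nat_lit 23618366420) (nat_lit 3) (nat_lit 4) (nat_lit 4) (nat_lit 5) (nat_lit 4) (nat_lit 4) (nat_lit 295) (nat_lit 233) (nat_lit 192)) (XT.nd (nat_lit 78) (nat_lit 0) (nat_lit 0) (XT.lf (nat_lit 0) (nat_lit 47431001157) (nat_lit 76) (nat_lit 31680718660) (nat_lit 76) (nat_lit 22377549892) (nat_lit 3) (nat_lit 4) (nat_lit 4) (nat_lit 5) (nat_lit 4) (nat_lit 4) (nat_lit 296) (nat_lit 233) (nat_lit 191)) (XT.lf (nat_lit 0) (nat_lit 57865375464) (nat_lit 76) (nat_lit 30390893229) (nat_lit 76) (nat_lit 21059411467) (nat_lit 3) (nat_lit 4) (nat_lit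 4) (nat_lit 5) (nat_lit 4) (nat_lit 4) (nat_lit 297) (nat_lit 233) (nat_lit 190)))) (XT.nd (nat_lit 78) (nat_lit 0) (nat_lit 0) (XT.lf (nat_lit 0) (nat_lit 69099757703) (nat_lit 76) (nat_lit 29013837452) (nat_lit 76) (nat_lit 19656139954) (nat_lit 3) (nat_lit 4) (nat_lit 4) (nat_lit 5) (nat_lit 4) (nat_lit 4) (nat_lit 298) (nat_lit 233) (nat_lit 189)) (XT.nd (nat_lit 78) (nat_lit 0) (nat_lit 0) (XT.lf (nat_lit 0) (nat_lit 81200721991) (nat_lit 76) (nat_lit 27541390997) (nat_lit 76) (nat_lit 18159419670) (nat_lit 3) (nat_lit 4) (nat_lit 4) (nat_lit 5) (nat_lit 4) (nat_lit 4) (nat_lit 299) (nat_lit 233) (nat_lit 188)) (XT.lf (nat_lit 0) (nat_lit 94239977746) (nat_lit 76) (nat_lit 25964828256) (nat_lit 76) (nat_lit 16560381162) (nat_lit 3) (nat_lit 4) (nat_lit 4) (nat_lit 5) (nat_lit 4) (nat_lit 4) (nat_lit 300) (nat_lit 233) (nat_lit 187))))) (XT.nd (nat_lit 234) (nat_lit 0) (nat_lit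 0) (XT.nd (nat_lit 78) (nat_lit 0) (nat_lit 0) (XT.lf (nat_lit 0) (nat_lit 108294794632) (nat_lit 76) (nat_lit 24274806636) (nat_lit 76) (nat_lit 14849548645) (nat_lit 3) (nat_lit 4) (nat_lit 4) (nat_lit 5) (nat_lit 4) (nat_lit 4) (nat_lit 301) (nat_lit 233) (nat_lit 186)) (XT.nd (nat_lit 78) (nat_lit 0) (nat_lit 0) (XT.lf (nat_lit 0) (nat_lit 123448460452) (nat_lit 76) (nat_lit 22461311192) (nat_lit 76) (nat_lit 13016783854) (nat_lit 3) (nat_lit 4) (nat_lit 4) (nat_lit 5) (nat_lit 4) (nat_lit 4) (nat_lit 302) (nat_lit 233) (nat_lit 185)) (XT.lf (nat_lit 0) (nat_lit 139790774707) (nat_lit 76) (nat_lit 20513595286) (nat_lit 76) (nat_lit 11051225959) (nat_lit 3) (nat_lit 4) (nat_lit 4) (nat_lit 5) (nat_lit 4) (nat_lit 4) (nat_lit 303) (nat_lit 233) (nat_lit 184)))) (XT.nd (nat_lit 78) (nat_lit 0) (nat_lit 0) (XT.lf (nat_lit 0) (nat_lit 157418580742) (nat_lit 76) (nat_lit 18420116898)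 (nat_lit 76) (nat_lit 8941227210) (nat_lit 3) (nat_lit 4) (nat_lit 4) (nat_lit 5) (nat_lit 4) (nat_lit 4) (nat_lit 304) (nat_lit 233) (nat_lit 183)) (XT.nd (nat_lit 78) (nat_lit 0) (nat_lit 0) (XT.lf (nat_lit 0) (nat_lit 176436339629) (nat_lit 76) (nat_lit 16168470229) (nat_lit 76) (nat_lit 6674283911) (nat_lit 3) (nat_lit 4) (nat_lit 4) (nat_lit 5) (nat_lit 4) (nat_lit 4) (nat_lit 305) (nat_lit 233) (nat_lit 182)) (XT.lf (nat_lit 0) (nat_lit 196956749199) (nat_lit 76) (nat_lit 13745312188) (nat_lit 76) (nat_lit 4236962324) (nat_lit 3) (nat_lit 4) (nat_lit 4) (nat_lit 5) (nat_lit 4) (nat_lit 4) (nat_lit 306) (nat_lit 233) (nat_lit 181)))))) (XT.nd (nat_lit 468) (nat_lit 0) (nat_lit 0) (XT.nd (nat_lit 234) (nat_lit 76) (nat_lit 0) (XT.nd (nat_lit 78) (nat_lit 76) (nat_lit 0) (XT.lf (nat_lit 0) (nat_lit 219101411879) (nat_lit 76) (nat_lit 11136283320) (nat_lit 76) (nat_lit 1614819061)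 (nat_lit 3) (nat_lit 4) (nat_lit 4) (nat_lit 5) (nat_lit 4) (nat_lit 4) (nat_lit 307) (nat_lit 233) (nat_lit 180)) (XT.nd (nat_lit 78) (nat_lit 0) (nat_lit 0) (XT.lf (nat_lit 0) (nat_lit 1147271233) (nat_lit 152) (nat_lit 7147283051) (nat_lit 76) (nat_lit 241822915636) (nat_lit 2) (nat_lit 5) (nat_lit 4) (nat_lit 5) (nat_lit 3) (nat_lit 4) (nat_lit 308) (nat_lit 233) (nat_lit 179)) (XT.lf (nat_lit 0) (nat_lit 4034808454) (nat_lit 152) (nat_lit 1152449111) (nat_lit 76) (nat_lit 264653682670) (nat_lit 2) (nat_lit 5) (nat_lit 4) (nat_lit 5) (nat_lit 3) (nat_lit 4) (nat_lit 309) (nat_lit 233) (nat_lit 178)))) (XT.nd (nat_lit 78) (nat_lit 0) (nat_lit 0) (XT.lf (nat_lit 0) (nat_lit 5587258096) (nat_lit 76) (nat_lit 1692799317) (nat_lit 152) (nat_lit 283852104633) (nat_lit 1) (nat_lit 5) (nat_lit 2) (nat_lit 5) (nat_lit 3) (nat_lit 4) (nat_lit 310) (nat_lit 233) (nat_lit 177)) (XT.nd (nat_lit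 78) (nat_lit 0) (nat_lit 0) (XT.lf (nat_lit 0) (nat_lit 10859723327) (nat_lit 152) (nat_lit 301257650603) (nat_lit 0) (nat_lit 2003333700) (nat_lit 1) (nat_lit 5) (nat_lit 3) (nat_lit 4) (nat_lit 1) (nat_lit 4) (nat_lit 311) (nat_lit 233) (nat_lit 176)) (XT.lf (nat_lit 0) (nat_lit 14762708465) (nat_lit 152) (nat_lit 318284627241) (nat_lit 0) (nat_lit 5898054545) (nat_lit 1) (nat_lit 5) (nat_lit 3) (nat_lit 4) (nat_lit 1) (nat_lit 4) (nat_lit 312) (nat_lit 233) (nat_lit 175))))) (XT.nd (nat_lit 234) (nat_lit 0) (nat_lit 0) (XT.nd (nat_lit 78) (nat_lit 0) (nat_lit 0) (XT.lf (nat_lit 0) (nat_lit 18971429763) (nat_lit 152) (nat_lit 336686022602) (nat_lit 0) (nat_lit 10099123720) (nat_lit 1) (nat_lit 5) (nat_lit 3) (nat_lit 4) (nat_lit 1) (nat_lit 4) (nat_lit 313) (nat_lit 233) (nat_lit 174)) (XT.nd (nat_lit 78) (nat_lit 0) (nat_lit 0) (XT.lf (nat_lit 0) (nat_lit 23510827793) (nat_lit 152)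 (nat_lit 356570881992) (nat_lit 0) (nat_lit 14631436450) (nat_lit 1) (nat_lit 5) (nat_lit 3) (nat_lit 4) (nat_lit 1) (nat_lit 4) (nat_lit 314) (nat_lit 233) (nat_lit 173)) (XT.lf (nat_lit 0) (nat_lit 28407802691) (nat_lit 152) (nat_lit 378057041616) (nat_lit 0) (nat_lit 19521850886) (nat_lit 1) (nat_lit 5) (nat_lit 3) (nat_lit 4) (nat_lit 1) (nat_lit 4) (nat_lit 315) (nat_lit 233) (nat_lit 172)))) (XT.nd (nat_lit 156) (nat_lit 0) (nat_lit 0) (XT.nd (nat_lit 78) (nat_lit 0) (nat_lit 0) (XT.lf (nat_lit 0) (nat_lit 33691373567) (nat_lit 152) (nat_lit 401271826863) (nat_lit 0) (nat_lit 24799347260) (nat_lit 1) (nat_lit 5) (nat_lit 3) (nat_lit 4) (nat_lit 1) (nat_lit 4) (nat_lit 316) (nat_lit 233) (nat_lit 171)) (XT.lf (nat_lit 0) (nat_lit 39392850471) (nat_lit 152) (nat_lit 426352806831) (nat_lit 0) (nat_lit 30495199625) (nat_lit 1) (nat_lit 5) (nat_lit 3) (nat_lit 4) (nat_lit 1) (nat_lit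 4) (nat_lit 317) (nat_lit 233) (nat_lit 170))) (XT.nd (nat_lit 78) (nat_lit 0) (nat_lit 0) (XT.lf (nat_lit 0) (nat_lit 45546019934) (nat_lit 152) (nat_lit 453448609550) (nat_lit 0) (nat_lit 36643161181) (nat_lit 1) (nat_lit 5) (nat_lit 3) (nat_lit 4) (nat_lit 1) (nat_lit 4) (nat_lit 318) (nat_lit 233) (nat_lit 169)) (XT.lf (nat_lit 0) (nat_lit 52187345180) (nat_lit 152) (nat_lit 482719802740) (nat_lit 0) (nat_lit 43279664292) (nat_lit 1) (nat_lit 5) (nat_lit 3) (nat_lit 4) (nat_lit 1) (nat_lit 4) (nat_lit 319) (nat_lit 233) (nat_lit 168))))))) (XT.nd (nat_lit 1014) (nat_lit 0) (nat_lit 0) (XT.nd (nat_lit 468) (nat_lit 0) (nat_lit 0) (XT.nd (nat_lit 234) (nat_lit 0) (nat_lit 0) (XT.nd (nat_lit 78) (nat_lit 0) (nat_lit 0) (XT.lf (nat_lit 0) (nat_lit 59356182212) (nat_lit 152) (nat_lit 514339845323) (nat_lit 0) (nat_lit 50444036383) (nat_lit 1) (nat_lit 5) (nat_lit 3) (nat_lit 4) (nat_lit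 1) (nat_lit 4) (nat_lit 320) (nat_lit 233) (nat_lit 167)) (XT.nd (nat_lit 78) (nat_lit 0) (nat_lit 0) (XT.lf (nat_lit 0) (nat_lit 67095013028) (nat_lit 152) (nat_lit 548496115328) (nat_lit 0) (nat_lit 58178732994) (nat_lit 1) (nat_lit 5) (nat_lit 3) (nat_lit 4) (nat_lit 1) (nat_lit 4) (nat_lit 321) (nat_lit 233) (nat_lit 166)) (XT.lf (nat_lit 0) (nat_lit 75449697364) (nat_lit 152) (nat_lit 585391020284) (nat_lit 0) (nat_lit 66529589364) (nat_lit 1) (nat_lit 5) (nat_lit 3) (nat_lit 4) (nat_lit 1) (nat_lit 4) (nat_lit 322) (nat_lit 233) (nat_lit 165)))) (XT.nd (nat_lit 78) (nat_lit 0) (nat_lit 0) (XT.lf (nat_lit 0) (nat_lit 84469744462) (nat_lit 152) (nat_lit 625243196662) (nat_lit 0) (nat_lit 75546092048) (nat_lit 1) (nat_lit 5) (nat_lit 3) (nat_lit 4) (nat_lit 1) (nat_lit 4) (nat_lit 323) (nat_lit 233) (nat_lit 164)) (XT.nd (nat_lit 78) (nat_lit 0) (nat_lit 0) (XT.lf (nat_lit 0) (nat_lit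 94208606453) (nat_lit 152) (nat_lit 668288805508) (nat_lit 0) (nat_lit 85281672175) (nat_lit 1) (nat_lit 5) (nat_lit 3) (nat_lit 4) (nat_lit 1) (nat_lit 4) (nat_lit 324) (nat_lit 233) (nat_lit 163)) (XT.lf (nat_lit 0) (nat_lit 104723995111) (nat_lit 152) (nat_lit 714782931912) (nat_lit 0) (nat_lit 95794022069) (nat_lit 1) (nat_lit 5) (nat_lit 3) (nat_lit 4) (nat_lit 1) (nat_lit 4) (nat_lit 325) (nat_lit 233) (nat_lit 162))))) (XT.nd (nat_lit 234) (nat_lit 0) (nat_lit 0) (XT.nd (nat_lit 78) (nat_lit 0) (nat_lit 0) (XT.lf (nat_lit 0) (nat_lit 116078223851) (nat_lit 152) (nat_lit 765001096623) (nat_lit 0) (nat_lit 107145437139) (nat_lit 1) (nat_lit 5) (nat_lit 3) (nat_lit 4) (nat_lit 1) (nat_lit 4) (nat_lit 326) (nat_lit 233) (nat_lit 161)) (XT.nd (nat_lit 78) (nat_lit 0) (nat_lit 0) (XT.lf (nat_lit 0) (nat_lit 128338576990) (nat_lit 152) (nat_lit 819240888765) (nat_lit 0) (nat_lit 119403185029)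 (nat_lit 1) (nat_lit 5) (nat_lit 3) (nat_lit 4) (nat_lit 1) (nat_lit 4) (nat_lit 327) (nat_lit 233) (nat_lit 160)) (XT.lf (nat_lit 0) (nat_lit 141577708475) (nat_lit 152) (nat_lit 877823729328) (nat_lit 0) (nat_lit 132639904245) (nat_lit 1) (nat_lit 5) (nat_lit 3) (nat_lit 4) (nat_lit 1) (nat_lit 4) (nat_lit 328) (nat_lit 233) (nat_lit 159)))) (XT.nd (nat_lit 156) (nat_lit 0) (nat_lit 0) (XT.nd (nat_lit 78) (nat_lit 0) (nat_lit 0) (XT.lf (nat_lit 0) (nat_lit 155874072417) (nat_lit 152) (nat_lit 941096775887) (nat_lit 0) (nat_lit 146934034605) (nat_lit 1) (nat_lit 5) (nat_lit 3) (nat_lit 4) (nat_lit 1) (nat_lit 4) (nat_lit 329) (nat_lit 233) (nat_lit 158)) (XT.lf (nat_lit 0) (nat_lit 171312388009) (nat_lit 152) (nat_lit 1009434979828) (nat_lit 0) (nat_lit 162370282066) (nat_lit 1) (nat_lit 5) (nat_lit 3) (nat_lit 4) (nat_lit 1) (nat_lit 4) (nat_lit 330) (nat_lit 233) (nat_lit 157)))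 (XT.nd (nat_lit 78) (nat_lit 0) (nat_lit 0) (XT.lf (nat_lit 0) (nat_lit 187984141567) (nat_lit 152) (nat_lit 1083243308285) (nat_lit 0) (nat_lit 179040120688) (nat_lit 1) (nat_lit 5) (nat_lit 3) (nat_lit 4) (nat_lit 1) (nat_lit 4) (nat_lit 331) (nat_lit 233) (nat_lit 156)) (XT.lf (nat_lit 0) (nat_lit 205988128667) (nat_lit 152) (nat_lit 1162959143946) (nat_lit 0) (nat_lit 197042334699) (nat_lit 1) (nat_lit 5) (nat_lit 3) (nat_lit 4) (nat_lit 1) (nat_lit 4) (nat_lit 332) (nat_lit 233) (nat_lit 155)))))) (XT.nd (nat_lit 468) (nat_lit 0) (nat_lit 0) (XT.nd (nat_lit 234) (nat_lit 0) (nat_lit 0) (XT.nd (nat_lit 78) (nat_lit 0) (nat_lit 0) (XT.lf (nat_lit 0) (nat_lit 225431039604) (nat_lit 152) (nat_lit 1249054876948) (nat_lit 0) (nat_lit 216483603886) (nat_lit 1) (nat_lit 5) (nat_lit 3) (nat_lit 4) (nat_lit 1) (nat_lit 4) (nat_lit 333) (nat_lit 233) (nat_lit 154)) (XT.nd (nat_lit 78) (nat_lit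 0) (nat_lit 0) (XT.lf (nat_lit 0) (nat_lit 246428091626) (nat_lit 152) (nat_lit 1342040704227) (nat_lit 0) (nat_lit 237479135770) (nat_lit 1) (nat_lit 5) (nat_lit 3) (nat_lit 4) (nat_lit 1) (nat_lit 4) (nat_lit 334) (nat_lit 233) (nat_lit 153)) (XT.lf (nat_lit 0) (nat_lit 269103711709) (nat_lit 152) (nat_lit 1442467652908) (nat_lit 0) (nat_lit 260153348318) (nat_lit 1) (nat_lit 5) (nat_lit 3) (nat_lit 4) (nat_lit 1) (nat_lit 4) (nat_lit 335) (nat_lit 233) (nat_lit 152)))) (XT.nd (nat_lit 78) (nat_lit 0) (nat_lit 0) (XT.lf (nat_lit 0) (nat_lit 293592273899) (nat_lit 152) (nat_lit 1550930845650) (nat_lit 0) (nat_lit 284640607233) (nat_lit 1) (nat_lit 5) (nat_lit 3) (nat_lit 4) (nat_lit 1) (nat_lit 4) (nat_lit 336) (nat_lit 233) (nat_lit 151)) (XT.nd (nat_lit 78) (nat_lit 0) (nat_lit 0) (XT.lf (nat_lit 0) (nat_lit 320038895599) (nat_lit 152) (nat_lit 1668073027299) (nat_lit 0) (nat_lit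 311086022199) (nat_lit 1) (nat_lit 5) (nat_lit 3) (nat_lit 4) (nat_lit 1) (nat_lit 4) (nat_lit 337) (nat_lit 233) (nat_lit 150)) (XT.lf (nat_lit 0) (nat_lit 348600297533) (nat_lit 152) (nat_lit 1794588373746) (nat_lit 0) (nat_lit 339646306786) (nat_lit 1) (nat_lit 5) (nat_lit 3) (nat_lit 4) (nat_lit 1) (nat_lit 4) (nat_lit 338) (nat_lit 233) (nat_lit 149))))) (XT.nd (nat_lit 30810) (nat_lit 0) (nat_lit 1900) (XT.nd (nat_lit 78) (nat_lit 0) (nat_lit 0) (XT.lf (nat_lit 0) (nat_lit 379445732451) (nat_lit 152) (nat_lit 1931226605562) (nat_lit 0) (nat_lit 370490707124) (nat_lit 1) (nat_lit 5) (nat_lit 3) (nat_lit 4) (nat_lit 1) (nat_lit 4) (nat_lit 339) (nat_lit 233) (nat_lit 148)) (XT.nd (nat_lit 30654) (nat_lit 0) (nat_lit 2584) (XT.lf (nat_lit 0) (nat_lit 412757988117) (nat_lit 152) (nat_lit 2078797430788) (nat_lit 0) (nat_lit 403802004844) (nat_lit 1) (nat_lit 5) (nat_lit 3) (nat_lit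 4) (nat_lit 1) (nat_lit 4) (nat_lit 340) (nat_lit 233) (nat_lit 147)) (XT.lf (nat_lit 0) (nat_lit 1585501906) (nat_lit 532) (nat_lit 638975489) (nat_lit 0) (nat_lit 1585501906) (nat_lit 35) (nat_lit 5) (nat_lit 42) (nat_lit 4) (nat_lit 35) (nat_lit 4) (nat_lit 252) (nat_lit 234) (nat_lit 234)))) (XT.nd (nat_lit 156) (nat_lit 228) (nat_lit 0) (XT.nd (nat_lit 78) (nat_lit 228) (nat_lit 0) (XT.lf (nat_lit 0) (nat_lit 3847469817) (nat_lit 228) (nat_lit 2660478053) (nat_lit 228) (nat_lit 1332552963) (nat_lit 32) (nat_lit 4) (nat_lit 35) (nat_lit 5) (nat_lit 35) (nat_lit 4) (nat_lit 253) (nat_lit 234) (nat_lit 233)) (XT.lf (nat_lit 0) (nat_lit 1113887704) (nat_lit 152) (nat_lit 651195498) (nat_lit 228) (nat_lit 6324249868) (nat_lit 29) (nat_lit 5) (nat_lit 31) (nat_lit 5) (nat_lit 32) (nat_lit 4) (nat_lit 254) (nat_lit 234) (nat_lit 232))) (XT.nd (nat_lit 78) (nat_lit 228) (nat_lit 0) (XT.lf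 (nat_lit 0) (nat_lit 4967545803) (nat_lit 228) (nat_lit 1849238709) (nat_lit 0) (nat_lit 1545354056) (nat_lit 29) (nat_lit 5) (nat_lit 32) (nat_lit 4) (nat_lit 29) (nat_lit 4) (nat_lit 255) (nat_lit 234) (nat_lit 231)) (XT.lf (nat_lit 0) (nat_lit 3588189926) (nat_lit 228) (nat_lit 4737955175) (nat_lit 228) (nat_lit 339698844) (nat_lit 26) (nat_lit 4) (nat_lit 29) (nat_lit 5) (nat_lit 29) (nat_lit 4) (nat_lit 256) (nat_lit 234) (nat_lit 230))))))))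
noncomputable def xc39 : XT := (XT.nd (nat_lit 2028) (nat_lit 152) (nat_lit 0) (XT.nd (nat_lit 1014) (nat_lit 380) (nat_lit 0) (XT.nd (nat_lit 468) (nat_lit 608) (nat_lit 0) (XT.nd (nat_lit 234) (nat_lit 228) (nat_lit 0) (XT.nd (nat_lit 78) (nat_lit 152) (nat_lit 0) (XT.lf (nat_lit 0) (nat_lit 249674124) (nat_lit 152) (nat_lit 2419409509) (nat_lit 228) (nat_lit 6331381946) (nat_lit 23) (nat_lit 5) (nat_lit 25) (nat_lit 5) (nat_lit 26) (nat_lit 4) (nat_lit 257) (nat_lit 234) (nat_lit 229)) (XT.nd (nat_lit 78) (nat_lit 152) (nat_lit 0) (XT.lf (nat_lit 0) (nat_lit 5851323153) (nat_lit 228) (nat_lit 3347375256) (nat_lit 0) (nat_lit 167213994) (nat_lit 23) (nat_lit 5) (nat_lit 26) (nat_lit 4) (nat_lit 23) (nat_lit 4) (nat_lit 258) (nat_lit 234) (nat_lit 228)) (XT.lf (nat_lit 0) (nat_lit 2286013652) (nat_lit 152) (nat_lit 6940905901) (nat_lit 152) (nat_lit 539360136) (nat_lit 21) (nat_lit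 4) (nat_lit 23) (nat_lit 5) (nat_lit 23) (nat_lit 4) (nat_lit 259) (nat_lit 234) (nat_lit 227)))) (XT.nd (nat_lit 78) (nat_lit 152) (nat_lit 0) (XT.lf (nat_lit 0) (nat_lit 2457146270) (nat_lit 228) (nat_lit 1954974677) (nat_lit 76) (nat_lit 5788724106) (nat_lit 20) (nat_lit 5) (nat_lit 23) (nat_lit 5) (nat_lit 21) (nat_lit 4) (nat_lit 260) (nat_lit 234) (nat_lit 226)) (XT.nd (nat_lit 78) (nat_lit 0) (nat_lit 0) (XT.lf (nat_lit 0) (nat_lit 3958013774) (nat_lit 152) (nat_lit 1637629950) (nat_lit 228) (nat_lit 5079523066) (nat_lit 18) (nat_lit 5) (nat_lit 20) (nat_lit 5) (nat_lit 21) (nat_lit 4) (nat_lit 261) (nat_lit 234) (nat_lit 225)) (XT.lf (nat_lit 0) (nat_lit 8913701873) (nat_lit 228) (nat_lit 1005635548) (nat_lit 0) (nat_lit 1274396796) (nat_lit 18) (nat_lit 5) (nat_lit 21) (nat_lit 4) (nat_lit 18) (nat_lit 4) (nat_lit 262) (nat_lit 234) (nat_lit 224))))) (XT.nd (nat_lit 234) (nat_lit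 304) (nat_lit 0) (XT.nd (nat_lit 78) (nat_lit 76) (nat_lit 0) (XT.lf (nat_lit 0) (nat_lit 725411562) (nat_lit 228) (nat_lit 6618724325) (nat_lit 76) (nat_lit 4407182098) (nat_lit 15) (nat_lit 5) (nat_lit 18) (nat_lit 5) (nat_lit 16) (nat_lit 4) (nat_lit 263) (nat_lit 234) (nat_lit 223)) (XT.nd (nat_lit 78) (nat_lit 76) (nat_lit 0) (XT.lf (nat_lit 0) (nat_lit 3730531215) (nat_lit 228) (nat_lit 820182207) (nat_lit 76) (nat_lit 7807922777) (nat_lit 15) (nat_lit 5) (nat_lit 18) (nat_lit 5) (nat_lit 16) (nat_lit 4) (nat_lit 264) (nat_lit 234) (nat_lit 222)) (XT.lf (nat_lit 0) (nat_lit 5506584363) (nat_lit 76) (nat_lit 1466919899) (nat_lit 152) (nat_lit 6041665257) (nat_lit 14) (nat_lit 5) (nat_lit 15) (nat_lit 5) (nat_lit 16) (nat_lit 4) (nat_lit 265) (nat_lit 234) (nat_lit 221)))) (XT.nd (nat_lit 156) (nat_lit 152) (nat_lit 0) (XT.nd (nat_lit 78) (nat_lit 152) (nat_lit 0) (XT.lf (nat_lit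 0) (nat_lit 10411978731) (nat_lit 152) (nat_lit 1596436972) (nat_lit 0) (nat_lit 1721318379) (nat_lit 14) (nat_lit 5) (nat_lit 16) (nat_lit 4) (nat_lit 14) (nat_lit 4) (nat_lit 266) (nat_lit 234) (nat_lit 220)) (XT.lf (nat_lit 0) (nat_lit 4791434227) (nat_lit 152) (nat_lit 9365429883) (nat_lit 152) (nat_lit 342457567) (nat_lit 12) (nat_lit 4) (nat_lit 14) (nat_lit 5) (nat_lit 14) (nat_lit 4) (nat_lit 267) (nat_lit 234) (nat_lit 219))) (XT.nd (nat_lit 78) (nat_lit 76) (nat_lit 0) (XT.lf (nat_lit 0) (nat_lit 2651032493) (nat_lit 228) (nat_lit 3816520993) (nat_lit 76) (nat_lit 8863809292) (nat_lit 11) (nat_lit 5) (nat_lit 14) (nat_lit 5) (nat_lit 12) (nat_lit 4) (nat_lit 268) (nat_lit 234) (nat_lit 218)) (XT.lf (nat_lit 0) (nat_lit 2475458463) (nat_lit 76) (nat_lit 3337537204) (nat_lit 152) (nat_lit 10420749611) (nat_lit 10) (nat_lit 5) (nat_lit 11) (nat_lit 5) (nat_lit 12) (nat_lit 4)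 (nat_lit 269) (nat_lit 234) (nat_lit 217)))))) (XT.nd (nat_lit 468) (nat_lit 152) (nat_lit 0) (XT.nd (nat_lit 234) (nat_lit 152) (nat_lit 0) (XT.nd (nat_lit 78) (nat_lit 76) (nat_lit 0) (XT.lf (nat_lit 0) (nat_lit 9226164569) (nat_lit 152) (nat_lit 7903964378) (nat_lit 0) (nat_lit 78597460) (nat_lit 10) (nat_lit 5) (nat_lit 12) (nat_lit 4) (nat_lit 10) (nat_lit 4) (nat_lit 270) (nat_lit 234) (nat_lit 216)) (XT.nd (nat_lit 78) (nat_lit 76) (nat_lit 0) (XT.lf (nat_lit 0) (nat_lit 12897369361) (nat_lit 152) (nat_lit 1842149835) (nat_lit 0) (nat_lit 3523636313) (nat_lit 10) (nat_lit 5) (nat_lit 12) (nat_lit 4) (nat_lit 10) (nat_lit 4) (nat_lit 271) (nat_lit 234) (nat_lit 215)) (XT.lf (nat_lit 0) (nat_lit 4782591104) (nat_lit 76) (nat_lit 12100527810) (nat_lit 76) (nat_lit 2517381855) (nat_lit 9) (nat_lit 4) (nat_lit 10) (nat_lit 5) (nat_lit 10) (nat_lit 4) (nat_lit 272) (nat_lit 234) (nat_lit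 214)))) (XT.nd (nat_lit 78) (nat_lit 76) (nat_lit 0) (XT.lf (nat_lit 0) (nat_lit 489069923) (nat_lit 152) (nat_lit 8759781352) (nat_lit 76) (nat_lit 11382453321) (nat_lit 8) (nat_lit 5) (nat_lit 10) (nat_lit 5) (nat_lit 9) (nat_lit 4) (nat_lit 273) (nat_lit 234) (nat_lit 213)) (XT.nd (nat_lit 78) (nat_lit 76) (nat_lit 0) (XT.lf (nat_lit 0) (nat_lit 3513420349) (nat_lit 152) (nat_lit 2648670282) (nat_lit 76) (nat_lit 15800362598) (nat_lit 8) (nat_lit 5) (nat_lit 10) (nat_lit 5) (nat_lit 9) (nat_lit 4) (nat_lit 274) (nat_lit 234) (nat_lit 212)) (XT.lf (nat_lit 0) (nat_lit 4012923306) (nat_lit 76) (nat_lit 2783108728) (nat_lit 152) (nat_lit 16602925496) (nat_lit 7) (nat_lit 5) (nat_lit 8) (nat_lit 5) (nat_lit 9) (nat_lit 4) (nat_lit 275) (nat_lit 234) (nat_lit 211))))) (XT.nd (nat_lit 234) (nat_lit 152) (nat_lit 0) (XT.nd (nat_lit 78) (nat_lit 0) (nat_lit 0) (XT.lf (nat_lit 0) (nat_lit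 10357468542) (nat_lit 152) (nat_lit 13749811615) (nat_lit 0) (nat_lit 841961075) (nat_lit 7) (nat_lit 5) (nat_lit 9) (nat_lit 4) (nat_lit 7) (nat_lit 4) (nat_lit 276) (nat_lit 234) (nat_lit 210)) (XT.nd (nat_lit 78) (nat_lit 0) (nat_lit 0) (XT.lf (nat_lit 0) (nat_lit 14203037762) (nat_lit 152) (nat_lit 7865152551) (nat_lit 0) (nat_lit 4555564643) (nat_lit 7) (nat_lit 5) (nat_lit 9) (nat_lit 4) (nat_lit 7) (nat_lit 4) (nat_lit 277) (nat_lit 234) (nat_lit 209)) (XT.lf (nat_lit 0) (nat_lit 18288594422) (nat_lit 152) (nat_lit 1630251148) (nat_lit 0) (nat_lit 8518930883) (nat_lit 7) (nat_lit 5) (nat_lit 9) (nat_lit 4) (nat_lit 7) (nat_lit 4) (nat_lit 278) (nat_lit 234) (nat_lit 208)))) (XT.nd (nat_lit 156) (nat_lit 76) (nat_lit 0) (XT.nd (nat_lit 78) (nat_lit 0) (nat_lit 0) (XT.lf (nat_lit 0) (nat_lit 5254701615) (nat_lit 76) (nat_lit 17510023313) (nat_lit 76) (nat_lit 7627220496) (nat_lit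 6) (nat_lit 4) (nat_lit 7) (nat_lit 5) (nat_lit 7) (nat_lit 4) (nat_lit 279) (nat_lit 234) (nat_lit 207)) (XT.lf (nat_lit 0) (nat_lit 12674387590) (nat_lit 76) (nat_lit 14908510240) (nat_lit 76) (nat_lit 4920948833) (nat_lit 6) (nat_lit 4) (nat_lit 7) (nat_lit 5) (nat_lit 7) (nat_lit 4) (nat_lit 280) (nat_lit 234) (nat_lit 206))) (XT.nd (nat_lit 78) (nat_lit 76) (nat_lit 0) (XT.lf (nat_lit 0) (nat_lit 20586929151) (nat_lit 76) (nat_lit 12143463932) (nat_lit 76) (nat_lit 2058903830) (nat_lit 6) (nat_lit 4) (nat_lit 7) (nat_lit 5) (nat_lit 7) (nat_lit 4) (nat_lit 281) (nat_lit 234) (nat_lit 205)) (XT.lf (nat_lit 0) (nat_lit 927057568) (nat_lit 152) (nat_lit 8246093965) (nat_lit 76) (nat_lit 28086810467) (nat_lit 5) (nat_lit 5) (nat_lit 7) (nat_lit 5) (nat_lit 6) (nat_lit 4) (nat_lit 282) (nat_lit 234) (nat_lit 204))))))) (XT.nd (nat_lit 1014) (nat_lit 0) (nat_lit 0) (XT.nd (nat_lit 468)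 (nat_lit 76) (nat_lit 0) (XT.nd (nat_lit 234) (nat_lit 0) (nat_lit 0) (XT.nd (nat_lit 78) (nat_lit 76) (nat_lit 0) (XT.lf (nat_lit 0) (nat_lit 3991201276) (nat_lit 152) (nat_lit 1955835798) (nat_lit 76) (nat_lit 33981006263) (nat_lit 5) (nat_lit 5) (nat_lit 7) (nat_lit 5) (nat_lit 6) (nat_lit 4) (nat_lit 283) (nat_lit 234) (nat_lit 203)) (XT.nd (nat_lit 78) (nat_lit 0) (nat_lit 0) (XT.lf (nat_lit 0) (nat_lit 5005599383) (nat_lit 76) (nat_lit 2369465293) (nat_lit 152) (nat_lit 35428617653) (nat_lit 4) (nat_lit 5) (nat_lit 5) (nat_lit 5) (nat_lit 6) (nat_lit 4) (nat_lit 284) (nat_lit 234) (nat_lit 202)) (XT.lf (nat_lit 0) (nat_lit 11075237285) (nat_lit 152) (nat_lit 33390351977) (nat_lit 0) (nat_lit 1440207579) (nat_lit 4) (nat_lit 5) (nat_lit 6) (nat_lit 4) (nat_lit 4) (nat_lit 4) (nat_lit 285) (nat_lit 234) (nat_lit 201)))) (XT.nd (nat_lit 78) (nat_lit 0) (nat_lit 0) (XT.lf (nat_lit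 0) (nat_lit 15091113518) (nat_lit 152) (nat_lit 28768500674) (nat_lit 0) (nat_lit 5394958182) (nat_lit 4) (nat_lit 5) (nat_lit 6) (nat_lit 4) (nat_lit 4) (nat_lit 4) (nat_lit 286) (nat_lit 234) (nat_lit 200)) (XT.nd (nat_lit 78) (nat_lit 0) (nat_lit 0) (XT.lf (nat_lit 0) (nat_lit 19389505466) (nat_lit 152) (nat_lit 23848154593) (nat_lit 0) (nat_lit 9636752323) (nat_lit 4) (nat_lit 5) (nat_lit 6) (nat_lit 4) (nat_lit 4) (nat_lit 4) (nat_lit 287) (nat_lit 234) (nat_lit 199)) (XT.lf (nat_lit 0) (nat_lit 23995885080) (nat_lit 152) (nat_lit 18600156127) (nat_lit 0) (nat_lit 14190726560) (nat_lit 4) (nat_lit 5) (nat_lit 6) (nat_lit 4) (nat_lit 4) (nat_lit 4) (nat_lit 288) (nat_lit 234) (nat_lit 198))))) (XT.nd (nat_lit 234) (nat_lit 76) (nat_lit 0) (XT.nd (nat_lit 78) (nat_lit 0) (nat_lit 0) (XT.lf (nat_lit 0) (nat_lit 28937549424) (nat_lit 152) (nat_lit 12993406025) (nat_lit 0) (nat_lit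 19083867408) (nat_lit 4) (nat_lit 5) (nat_lit 6) (nat_lit 4) (nat_lit 4) (nat_lit 4) (nat_lit 289) (nat_lit 234) (nat_lit 197)) (XT.nd (nat_lit 78) (nat_lit 0) (nat_lit 0) (XT.lf (nat_lit 0) (nat_lit 34243782436) (nat_lit 152) (nat_lit 6994679103) (nat_lit 0) (nat_lit 24345171256) (nat_lit 4) (nat_lit 5) (nat_lit 6) (nat_lit 4) (nat_lit 4) (nat_lit 4) (nat_lit 290) (nat_lit 234) (nat_lit 196)) (XT.lf (nat_lit 0) (nat_lit 39946028460) (nat_lit 152) (nat_lit 568427348) (nat_lit 0) (nat_lit 30005816202) (nat_lit 4) (nat_lit 5) (nat_lit 6) (nat_lit 4) (nat_lit 4) (nat_lit 4) (nat_lit 291) (nat_lit 234) (nat_lit 195)))) (XT.nd (nat_lit 156) (nat_lit 0) (nat_lit 0) (XT.nd (nat_lit 78) (nat_lit 0) (nat_lit 0) (XT.lf (nat_lit 0) (nat_lit 6656411386) (nat_lit 76) (nat_lit 39581754049) (nat_lit 76) (nat_lit 29603022275) (nat_lit 3) (nat_lit 4) (nat_lit 4) (nat_lit 5) (nat_lit 4) (nat_lit 4)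 (nat_lit 292) (nat_lit 234) (nat_lit 194)) (XT.lf (nat_lit 0) (nat_lit 14444298063) (nat_lit 76) (nat_lit 38579358530) (nat_lit 76) (nat_lit 28564960537) (nat_lit 3) (nat_lit 4) (nat_lit 4) (nat_lit 5) (nat_lit 4) (nat_lit 4) (nat_lit 293) (nat_lit 234) (nat_lit 193))) (XT.nd (nat_lit 78) (nat_lit 0) (nat_lit 0) (XT.lf (nat_lit 0) (nat_lit 22811450743) (nat_lit 76) (nat_lit 37516870941) (nat_lit 76) (nat_lit 27469448672) (nat_lit 3) (nat_lit 4) (nat_lit 4) (nat_lit 5) (nat_lit 4) (nat_lit 4) (nat_lit 294) (nat_lit 234) (nat_lit 192)) (XT.lf (nat_lit 0) (nat_lit 31807452554) (nat_lit 76) (nat_lit 36387995059) (nat_lit 76) (nat_lit 26309994756) (nat_lit 3) (nat_lit 4) (nat_lit 4) (nat_lit 5) (nat_lit 4) (nat_lit 4) (nat_lit 295) (nat_lit 234) (nat_lit 191)))))) (XT.nd (nat_lit 468) (nat_lit 0) (nat_lit 0) (XT.nd (nat_lit 234) (nat_lit 0) (nat_lit 0) (XT.nd (nat_lit 78) (nat_lit 0) (nat_lit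 0) (XT.lf (nat_lit 0) (nat_lit 41485613137) (nat_lit 76) (nat_lit 35186041249) (nat_lit 76) (nat_lit 25079727951) (nat_lit 3) (nat_lit 4) (nat_lit 4) (nat_lit 5) (nat_lit 4) (nat_lit 4) (nat_lit 296) (nat_lit 234) (nat_lit 190)) (XT.nd (nat_lit 78) (nat_lit 0) (nat_lit 0) (XT.lf (nat_lit 0) (nat_lit 51903284553) (nat_lit 76) (nat_lit 33903886822) (nat_lit 76) (nat_lit 23771357789) (nat_lit 3) (nat_lit 4) (nat_lit 4) (nat_lit 5) (nat_lit 4) (nat_lit 4) (nat_lit 297) (nat_lit 234) (nat_lit 189)) (XT.lf (nat_lit 0) (nat_lit 63122201153) (nat_lit 76) (nat_lit 32533933826) (nat_lit 76) (nat_lit 22377130964) (nat_lit 3) (nat_lit 4) (nat_lit 4) (nat_lit 5) (nat_lit 4) (nat_lit 4) (nat_lit 298) (nat_lit 234) (nat_lit 188)))) (XT.nd (nat_lit 78) (nat_lit 0) (nat_lit 0) (XT.lf (nat_lit 0) (nat_lit 75208845404) (nat_lit 76) (nat_lit 31068064020) (nat_lit 76) (nat_lit 20888785390) (nat_lit 3)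 (nat_lit 4) (nat_lit 4) (nat_lit 5) (nat_lit 4) (nat_lit 4) (nat_lit 299) (nat_lit 234) (nat_lit 187)) (XT.nd (nat_lit 78) (nat_lit 0) (nat_lit 0) (XT.lf (nat_lit 0) (nat_lit 88234841866) (nat_lit 76) (nat_lit 29497590770) (nat_lit 76) (nat_lit 19297501244) (nat_lit 3) (nat_lit 4) (nat_lit 4) (nat_lit 5) (nat_lit 4) (nat_lit 4) (nat_lit 300) (nat_lit 234) (nat_lit 186)) (XT.lf (nat_lit 0) (nat_lit 102277381628) (nat_lit 76) (nat_lit 27813207566) (nat_lit 76) (nat_lit 17593848692) (nat_lit 3) (nat_lit 4) (nat_lit 4) (nat_lit 5) (nat_lit 4) (nat_lit 4) (nat_lit 301) (nat_lit 234) (nat_lit 185))))) (XT.nd (nat_lit 234) (nat_lit 0) (nat_lit 0) (XT.nd (nat_lit 78) (nat_lit 0) (nat_lit 0) (XT.lf (nat_lit 0) (nat_lit 117419679742) (nat_lit 76) (nat_lit 26004932879) (nat_lit 76) (nat_lit 15767732016) (nat_lit 3) (nat_lit 4) (nat_lit 4) (nat_lit 5) (nat_lit 4) (nat_lit 4) (nat_lit 302) (nat_lit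 234) (nat_lit 184)) (XT.nd (nat_lit 78) (nat_lit 0) (nat_lit 0) (XT.lf (nat_lit 0) (nat_lit 133751468343) (nat_lit 76) (nat_lit 24062051006) (nat_lit 76) (nat_lit 13808329783) (nat_lit 3) (nat_lit 4) (nat_lit 4) (nat_lit 5) (nat_lit 4) (nat_lit 4) (nat_lit 303) (nat_lit 234) (nat_lit 183)) (XT.lf (nat_lit 0) (nat_lit 151369528402) (nat_lit 76) (nat_lit 21973048575) (nat_lit 76) (nat_lit 11704030722) (nat_lit 3) (nat_lit 4) (nat_lit 4) (nat_lit 5) (nat_lit 4) (nat_lit 4) (nat_lit 304) (nat_lit 234) (nat_lit 182)))) (XT.nd (nat_lit 156) (nat_lit 0) (nat_lit 0) (XT.nd (nat_lit 78) (nat_lit 0) (nat_lit 0) (XT.lf (nat_lit 0) (nat_lit 170378263237) (nat_lit 76) (nat_lit 19725546310) (nat_lit 76) (nat_lit 9442364911) (nat_lit 3) (nat_lit 4) (nat_lit 4) (nat_lit 5) (nat_lit 4) (nat_lit 4) (nat_lit 305) (nat_lit 234) (nat_lit 181)) (XT.lf (nat_lit 0) (nat_lit 190890317203) (nat_lit 76) (nat_lit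 17306225681) (nat_lit 76) (nat_lit 7009929887) (nat_lit 3) (nat_lit 4) (nat_lit 4) (nat_lit 5) (nat_lit 4) (nat_lit 4) (nat_lit 306) (nat_lit 234) (nat_lit 180))) (XT.nd (nat_lit 78) (nat_lit 0) (nat_lit 0) (XT.lf (nat_lit 0) (nat_lit 213027243212) (nat_lit 76) (nat_lit 14700749972) (nat_lit 76) (nat_lit 4392311220) (nat_lit 3) (nat_lit 4) (nat_lit 4) (nat_lit 5) (nat_lit 4) (nat_lit 4) (nat_lit 307) (nat_lit 234) (nat_lit 179)) (XT.lf (nat_lit 0) (nat_lit 236920223048) (nat_lit 76) (nat_lit 11893679327) (nat_lit 76) (nat_lit 1573997096) (nat_lit 3) (nat_lit 4) (nat_lit 4) (nat_lit 5) (nat_lit 4) (nat_lit 4) (nat_lit 308) (nat_lit 234) (nat_lit 178))))))))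
noncomputable def xc40 : XT := (XT.nd (nat_lit 1950) (nat_lit 0) (nat_lit 0) (XT.nd (nat_lit 936) (nat_lit 0) (nat_lit 0) (XT.nd (nat_lit 468) (nat_lit 0) (nat_lit 0) (XT.nd (nat_lit 234) (nat_lit 0) (nat_lit 0) (XT.nd (nat_lit 78) (nat_lit 76) (nat_lit 0) (XT.lf (nat_lit 0) (nat_lit 1388592771) (nat_lit 152) (nat_lit 7441819895) (nat_lit 76) (nat_lit 261284285381) (nat_lit 2) (nat_lit 5) (nat_lit 4) (nat_lit 5) (nat_lit 3) (nat_lit 4) (nat_lit 309) (nat_lit 234) (nat_lit 177)) (XT.nd (nat_lit 78) (nat_lit 76) (nat_lit 0) (XT.lf (nat_lit 0) (nat_lit 4496055945) (nat_lit 152) (nat_lit 987935965) (nat_lit 76) (nat_lit 285932955518) (nat_lit 2) (nat_lit 5) (nat_lit 4) (nat_lit 5) (nat_lit 3) (nat_lit 4) (nat_lit 310) (nat_lit 234) (nat_lit 176)) (XT.lf (nat_lit 0) (nat_lit 6284448854) (nat_lit 76) (nat_lit 1712237022) (nat_lit 152) (nat_lit 306415134374) (nat_lit 1) (nat_lit 5) (nat_lit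 2) (nat_lit 5) (nat_lit 3) (nat_lit 4) (nat_lit 311) (nat_lit 234) (nat_lit 175)))) (XT.nd (nat_lit 78) (nat_lit 0) (nat_lit 0) (XT.lf (nat_lit 0) (nat_lit 11855365398) (nat_lit 152) (nat_lit 325119063207) (nat_lit 0) (nat_lit 2265622748) (nat_lit 1) (nat_lit 5) (nat_lit 3) (nat_lit 4) (nat_lit 1) (nat_lit 4) (nat_lit 312) (nat_lit 234) (nat_lit 174)) (XT.nd (nat_lit 78) (nat_lit 0) (nat_lit 0) (XT.lf (nat_lit 0) (nat_lit 16061191998) (nat_lit 152) (nat_lit 343525916453) (nat_lit 0) (nat_lit 6464364049) (nat_lit 1) (nat_lit 5) (nat_lit 3) (nat_lit 4) (nat_lit 1) (nat_lit 4) (nat_lit 313) (nat_lit 234) (nat_lit 173)) (XT.lf (nat_lit 0) (nat_lit 20597909752) (nat_lit 152) (nat_lit 363415829441) (nat_lit 0) (nat_lit 10994521340) (nat_lit 1) (nat_lit 5) (nat_lit 3) (nat_lit 4) (nat_lit 1) (nat_lit 4) (nat_lit 314) (nat_lit 234) (nat_lit 172))))) (XT.nd (nat_lit 234) (nat_lit 0) (nat_lit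 0) (XT.nd (nat_lit 78) (nat_lit 0) (nat_lit 0) (XT.lf (nat_lit 0) (nat_lit 25492402913) (nat_lit 152) (nat_lit 384906668321) (nat_lit 0) (nat_lit 15882939999) (nat_lit 1) (nat_lit 5) (nat_lit 3) (nat_lit 4) (nat_lit 1) (nat_lit 4) (nat_lit 315) (nat_lit 234) (nat_lit 171)) (XT.nd (nat_lit 78) (nat_lit 0) (nat_lit 0) (XT.lf (nat_lit 0) (nat_lit 30773675884) (nat_lit 152) (nat_lit 408125786213) (nat_lit 0) (nat_lit 21158588431) (nat_lit 1) (nat_lit 5) (nat_lit 3) (nat_lit 4) (nat_lit 1) (nat_lit 4) (nat_lit 316) (nat_lit 234) (nat_lit 170)) (XT.lf (nat_lit 0) (nat_lit 36473025099) (nat_lit 152) (nat_lit 433210777889) (nat_lit 0) (nat_lit 26852729739) (nat_lit 1) (nat_lit 5) (nat_lit 3) (nat_lit 4) (nat_lit 1) (nat_lit 4) (nat_lit 317) (nat_lit 234) (nat_lit 169)))) (XT.nd (nat_lit 78) (nat_lit 0) (nat_lit 0) (XT.lf (nat_lit 0) (nat_lit 42624224478) (nat_lit 152) (nat_lit 460310295153)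 (nat_lit 0) (nat_lit 32999106982) (nat_lit 1) (nat_lit 5) (nat_lit 3) (nat_lit 4) (nat_lit 1) (nat_lit 4) (nat_lit 318) (nat_lit 234) (nat_lit 168)) (XT.nd (nat_lit 78) (nat_lit 0) (nat_lit 0) (XT.lf (nat_lit 0) (nat_lit 49263725573) (nat_lit 152) (nat_lit 489584927736) (nat_lit 0) (nat_lit 39634143138) (nat_lit 1) (nat_lit 5) (nat_lit 3) (nat_lit 4) (nat_lit 1) (nat_lit 4) (nat_lit 319) (nat_lit 234) (nat_lit 167)) (XT.lf (nat_lit 0) (nat_lit 56430873577) (nat_lit 152) (nat_lit 521208154942) (nat_lit 0) (nat_lit 46797156937) (nat_lit 1) (nat_lit 5) (nat_lit 3) (nat_lit 4) (nat_lit 1) (nat_lit 4) (nat_lit 320) (nat_lit 234) (nat_lit 166)))))) (XT.nd (nat_lit 468) (nat_lit 0) (nat_lit 0) (XT.nd (nat_lit 234) (nat_lit 0) (nat_lit 0) (XT.nd (nat_lit 78) (nat_lit 0) (nat_lit 0) (XT.lf (nat_lit 0) (nat_lit 64168140477) (nat_lit 152) (nat_lit 555367373673) (nat_lit 0) (nat_lit 54530595870)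 (nat_lit 1) (nat_lit 5) (nat_lit 3) (nat_lit 4) (nat_lit 1) (nat_lit 4) (nat_lit 321) (nat_lit 234) (nat_lit 165)) (XT.nd (nat_lit 78) (nat_lit 0) (nat_lit 0) (XT.lf (nat_lit 0) (nat_lit 72521376743) (nat_lit 152) (nat_lit 592265008930) (nat_lit 0) (nat_lit 62880287723) (nat_lit 1) (nat_lit 5) (nat_lit 3) (nat_lit 4) (nat_lit 1) (nat_lit 4) (nat_lit 322) (nat_lit 234) (nat_lit 164)) (XT.lf (nat_lit 0) (nat_lit 81540083036) (nat_lit 152) (nat_lit 632119713365) (nat_lit 0) (nat_lit 71895712151) (nat_lit 1) (nat_lit 5) (nat_lit 3) (nat_lit 4) (nat_lit 1) (nat_lit 4) (nat_lit 323) (nat_lit 234) (nat_lit 163)))) (XT.nd (nat_lit 78) (nat_lit 0) (nat_lit 0) (XT.lf (nat_lit 0) (nat_lit 91277703540) (nat_lit 152) (nat_lit 675167663005) (nat_lit 0) (nat_lit 81630293892) (nat_lit 1) (nat_lit 5) (nat_lit 3) (nat_lit 4) (nat_lit 1) (nat_lit 4) (nat_lit 324) (nat_lit 234) (nat_lit 162)) (XT.nd (nat_lit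 78) (nat_lit 0) (nat_lit 0) (XT.lf (nat_lit 0) (nat_lit 101791942674) (nat_lit 152) (nat_lit 721663956810) (nat_lit 0) (nat_lit 92141719356) (nat_lit 1) (nat_lit 5) (nat_lit 3) (nat_lit 4) (nat_lit 1) (nat_lit 4) (nat_lit 325) (nat_lit 234) (nat_lit 161)) (XT.lf (nat_lit 0) (nat_lit 113145107039) (nat_lit 152) (nat_lit 771884128374) (nat_lit 0) (nat_lit 103492278471) (nat_lit 1) (nat_lit 5) (nat_lit 3) (nat_lit 4) (nat_lit 1) (nat_lit 4) (nat_lit 326) (nat_lit 234) (nat_lit 160))))) (XT.nd (nat_lit 234) (nat_lit 0) (nat_lit 0) (XT.nd (nat_lit 78) (nat_lit 0) (nat_lit 0) (XT.lf (nat_lit 0) (nat_lit 125404474647) (nat_lit 152) (nat_lit 826125778713) (nat_lit 0) (nat_lit 115749233810) (nat_lit 1) (nat_lit 5) (nat_lit 3) (nat_lit 4) (nat_lit 1) (nat_lit 4) (nat_lit 327) (nat_lit 234) (nat_lit 159)) (XT.nd (nat_lit 78) (nat_lit 0) (nat_lit 0) (XT.lf (nat_lit 0) (nat_lit 138642693602) (nat_lit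 152) (nat_lit 884710339829) (nat_lit 0) (nat_lit 128985219183) (nat_lit 1) (nat_lit 5) (nat_lit 3) (nat_lit 4) (nat_lit 1) (nat_lit 4) (nat_lit 328) (nat_lit 234) (nat_lit 158)) (XT.lf (nat_lit 0) (nat_lit 152938212609) (nat_lit 152) (nat_lit 947984979492) (nat_lit 0) (nat_lit 143278670059) (nat_lit 1) (nat_lit 5) (nat_lit 3) (nat_lit 4) (nat_lit 1) (nat_lit 4) (nat_lit 329) (nat_lit 234) (nat_lit 157)))) (XT.nd (nat_lit 156) (nat_lit 0) (nat_lit 0) (XT.nd (nat_lit 78) (nat_lit 0) (nat_lit 0) (XT.lf (nat_lit 0) (nat_lit 168375745854) (nat_lit 152) (nat_lit 1016324658529) (nat_lit 0) (nat_lit 158714288368) (nat_lit 1) (nat_lit 5) (nat_lit 3) (nat_lit 4) (nat_lit 1) (nat_lit 4) (nat_lit 330) (nat_lit 234) (nat_lit 156)) (XT.lf (nat_lit 0) (nat_lit 185046775017) (nat_lit 152) (nat_lit 1090134352817) (nat_lit 0) (nat_lit 175383544441) (nat_lit 1) (nat_lit 5) (nat_lit 3) (nat_lit 4) (nat_lit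 1) (nat_lit 4) (nat_lit 331) (nat_lit 234) (nat_lit 155))) (XT.nd (nat_lit 78) (nat_lit 0) (nat_lit 0) (XT.lf (nat_lit 0) (nat_lit 203050091380) (nat_lit 152) (nat_lit 1169851453136) (nat_lit 0) (nat_lit 193385219056) (nat_lit 1) (nat_lit 5) (nat_lit 3) (nat_lit 4) (nat_lit 1) (nat_lit 4) (nat_lit 332) (nat_lit 234) (nat_lit 154)) (XT.lf (nat_lit 0) (nat_lit 222492381264) (nat_lit 152) (nat_lit 1255948357117) (nat_lit 0) (nat_lit 212825988801) (nat_lit 1) (nat_lit 5) (nat_lit 3) (nat_lit 4) (nat_lit 1) (nat_lit 4) (nat_lit 333) (nat_lit 234) (nat_lit 153))))))) (XT.nd (nat_lit 31434) (nat_lit 0) (nat_lit 760) (XT.nd (nat_lit 468) (nat_lit 0) (nat_lit 0) (XT.nd (nat_lit 234) (nat_lit 0) (nat_lit 0) (XT.nd (nat_lit 78) (nat_lit 0) (nat_lit 0) (XT.lf (nat_lit 0) (nat_lit 243488858238) (nat_lit 152) (nat_lit 1348935268636) (nat_lit 0) (nat_lit 233821058240) (nat_lit 1) (nat_lit 5) (nat_lit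 3) (nat_lit 4) (nat_lit 1) (nat_lit 4) (nat_lit 334) (nat_lit 234) (nat_lit 152)) (XT.nd (nat_lit 78) (nat_lit 0) (nat_lit 0) (XT.lf (nat_lit 0) (nat_lit 266163945869) (nat_lit 152) (nat_lit 1449363221244) (nat_lit 0) (nat_lit 256494842597) (nat_lit 1) (nat_lit 5) (nat_lit 3) (nat_lit 4) (nat_lit 1) (nat_lit 4) (nat_lit 335) (nat_lit 234) (nat_lit 151)) (XT.lf (nat_lit 0) (nat_lit 290652015047) (nat_lit 152) (nat_lit 1557827343547) (nat_lit 0) (nat_lit 280981705040) (nat_lit 1) (nat_lit 5) (nat_lit 3) (nat_lit 4) (nat_lit 1) (nat_lit 4) (nat_lit 336) (nat_lit 234) (nat_lit 150)))) (XT.nd (nat_lit 78) (nat_lit 0) (nat_lit 0) (XT.lf (nat_lit 0) (nat_lit 317098180256) (nat_lit 152) (nat_lit 1674970385901) (nat_lit 0) (nat_lit 307426752902) (nat_lit 1) (nat_lit 5) (nat_lit 3) (nat_lit 4) (nat_lit 1) (nat_lit 4) (nat_lit 337) (nat_lit 234) (nat_lit 149)) (XT.nd (nat_lit 78) (nat_lit 0)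 (nat_lit 0) (XT.lf (nat_lit 0) (nat_lit 345659159512) (nat_lit 152) (nat_lit 1801486529296) (nat_lit 0) (nat_lit 335986697577) (nat_lit 1) (nat_lit 5) (nat_lit 3) (nat_lit 4) (nat_lit 1) (nat_lit 4) (nat_lit 338) (nat_lit 234) (nat_lit 148)) (XT.lf (nat_lit 0) (nat_lit 376504203062) (nat_lit 152) (nat_lit 1938125499028) (nat_lit 0) (nat_lit 366830783182) (nat_lit 1) (nat_lit 5) (nat_lit 3) (nat_lit 4) (nat_lit 1) (nat_lit 4) (nat_lit 339) (nat_lit 234) (nat_lit 147))))) (XT.nd (nat_lit 30654) (nat_lit 0) (nat_lit 2128) (XT.nd (nat_lit 30498) (nat_lit 0) (nat_lit 2584) (XT.lf (nat_lit 0) (nat_lit 409816096349) (nat_lit 152) (nat_lit 2085697007509) (nat_lit 0) (nat_lit 400141789484) (nat_lit 1) (nat_lit 5) (nat_lit 3) (nat_lit 4) (nat_lit 1) (nat_lit 4) (nat_lit 340) (nat_lit 234) (nat_lit 146)) (XT.nd (nat_lit 78) (nat_lit 532) (nat_lit 0) (XT.lf (nat_lit 0) (nat_lit 1958046517) (nat_lit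 380) (nat_lit 832388904) (nat_lit 380) (nat_lit 832388904) (nat_lit 42) (nat_lit 4) (nat_lit 47) (nat_lit 5) (nat_lit 47) (nat_lit 4) (nat_lit 250) (nat_lit 235) (nat_lit 235)) (XT.lf (nat_lit 0) (nat_lit 1335166394) (nat_lit 456) (nat_lit 51400056) (nat_lit 532) (nat_lit 6040841725) (nat_lit 35) (nat_lit 5) (nat_lit 41) (nat_lit 5) (nat_lit 42) (nat_lit 4) (nat_lit 251) (nat_lit 235) (nat_lit 234)))) (XT.nd (nat_lit 156) (nat_lit 228) (nat_lit 0) (XT.nd (nat_lit 78) (nat_lit 228) (nat_lit 0) (XT.lf (nat_lit 0) (nat_lit 4493140349) (nat_lit 532) (nat_lit 1405424165) (nat_lit 0) (nat_lit 1731056163) (nat_lit 35) (nat_lit 5) (nat_lit 42) (nat_lit 4) (nat_lit 35) (nat_lit 4) (nat_lit 252) (nat_lit 235) (nat_lit 233)) (XT.lf (nat_lit 0) (nat_lit 3589038102) (nat_lit 228) (nat_lit 4131106423) (nat_lit 228) (nat_lit 139461969) (nat_lit 32) (nat_lit 4) (nat_lit 35) (nat_lit 5) (nat_lit 35)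 (nat_lit 4) (nat_lit 253) (nat_lit 235) (nat_lit 232))) (XT.nd (nat_lit 78) (nat_lit 0) (nat_lit 0) (XT.lf (nat_lit 0) (nat_lit 664194232) (nat_lit 152) (nat_lit 2121536736) (nat_lit 228) (nat_lit 5329988949) (nat_lit 29) (nat_lit 5) (nat_lit 31) (nat_lit 5) (nat_lit 32) (nat_lit 4) (nat_lit 254) (nat_lit 235) (nat_lit 231)) (XT.lf (nat_lit 0) (nat_lit 5855105609) (nat_lit 228) (nat_lit 2415657371) (nat_lit 0) (nat_lit 128924190) (nat_lit 29) (nat_lit 5) (nat_lit 32) (nat_lit 4) (nat_lit 29) (nat_lit 4) (nat_lit 255) (nat_lit 235) (nat_lit 230)))))) (XT.nd (nat_lit 468) (nat_lit 532) (nat_lit 0) (XT.nd (nat_lit 234) (nat_lit 380) (nat_lit 0) (XT.nd (nat_lit 78) (nat_lit 152) (nat_lit 0) (XT.lf (nat_lit 0) (nat_lit 373758897) (nat_lit 304) (nat_lit 5852526414) (nat_lit 76) (nat_lit 2485448728) (nat_lit 25) (nat_lit 5) (nat_lit 29) (nat_lit 5) (nat_lit 26) (nat_lit 4) (nat_lit 256) (nat_lit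 235) (nat_lit 229)) (XT.nd (nat_lit 78) (nat_lit 152) (nat_lit 0) (XT.lf (nat_lit 0) (nat_lit 3270364523) (nat_lit 304) (nat_lit 664404770) (nat_lit 76) (nat_lit 5118956098) (nat_lit 25) (nat_lit 5) (nat_lit 29) (nat_lit 5) (nat_lit 26) (nat_lit 4) (nat_lit 257) (nat_lit 235) (nat_lit 228)) (XT.lf (nat_lit 0) (nat_lit 4958497968) (nat_lit 152) (nat_lit 1387700341) (nat_lit 228) (nat_lit 3081864699) (nat_lit 23) (nat_lit 5) (nat_lit 25) (nat_lit 5) (nat_lit 26) (nat_lit 4) (nat_lit 258) (nat_lit 235) (nat_lit 227)))) (XT.nd (nat_lit 78) (nat_lit 228) (nat_lit 0) (XT.lf (nat_lit 0) (nat_lit 1020926092) (nat_lit 152) (nat_lit 8557366918) (nat_lit 152) (nat_lit 261967730) (nat_lit 21) (nat_lit 4) (nat_lit 23) (nat_lit 5) (nat_lit 23) (nat_lit 4) (nat_lit 259) (nat_lit 235) (nat_lit 226)) (XT.nd (nat_lit 78) (nat_lit 152) (nat_lit 0) (XT.lf (nat_lit 0) (nat_lit 2641921839) (nat_lit 228)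 (nat_lit 3415288015) (nat_lit 76) (nat_lit 4223682122) (nat_lit 20) (nat_lit 5) (nat_lit 23) (nat_lit 5) (nat_lit 21) (nat_lit 4) (nat_lit 260) (nat_lit 235) (nat_lit 225)) (XT.lf (nat_lit 0) (nat_lit 2309130083) (nat_lit 152) (nat_lit 3358725606) (nat_lit 228) (nat_lit 5096641201) (nat_lit 18) (nat_lit 5) (nat_lit 20) (nat_lit 5) (nat_lit 21) (nat_lit 4) (nat_lit 261) (nat_lit 235) (nat_lit 224))))) (XT.nd (nat_lit 234) (nat_lit 304) (nat_lit 0) (XT.nd (nat_lit 78) (nat_lit 228) (nat_lit 0) (XT.lf (nat_lit 0) (nat_lit 8470658466) (nat_lit 152) (nat_lit 412998043) (nat_lit 228) (nat_lit 2407845879) (nat_lit 18) (nat_lit 5) (nat_lit 20) (nat_lit 5) (nat_lit 21) (nat_lit 4) (nat_lit 262) (nat_lit 235) (nat_lit 223)) (XT.nd (nat_lit 78) (nat_lit 0) (nat_lit 0) (XT.lf (nat_lit 0) (nat_lit 476820109) (nat_lit 228) (nat_lit 8726383036) (nat_lit 76) (nat_lit 2656523413) (nat_lit 15) (nat_lit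 5) (nat_lit 18) (nat_lit 5) (nat_lit 16) (nat_lit 4) (nat_lit 263) (nat_lit 235) (nat_lit 222)) (XT.lf (nat_lit 0) (nat_lit 3417040885) (nat_lit 228) (nat_lit 3029341191) (nat_lit 76) (nat_lit 6026059008) (nat_lit 15) (nat_lit 5) (nat_lit 18) (nat_lit 5) (nat_lit 16) (nat_lit 4) (nat_lit 264) (nat_lit 235) (nat_lit 221)))) (XT.nd (nat_lit 156) (nat_lit 228) (nat_lit 0) (XT.nd (nat_lit 78) (nat_lit 0) (nat_lit 0) (XT.lf (nat_lit 0) (nat_lit 3082164336) (nat_lit 76) (nat_lit 3459450685) (nat_lit 152) (nat_lit 6597020558) (nat_lit 14) (nat_lit 5) (nat_lit 15) (nat_lit 5) (nat_lit 16) (nat_lit 4) (nat_lit 265) (nat_lit 235) (nat_lit 220)) (XT.lf (nat_lit 0) (nat_lit 9664338528) (nat_lit 76) (nat_lit 214329913) (nat_lit 152) (nat_lit 3982820626) (nat_lit 14) (nat_lit 5) (nat_lit 15) (nat_lit 5) (nat_lit 16) (nat_lit 4) (nat_lit 266) (nat_lit 235) (nat_lit 219))) (XT.nd (nat_lit 78) (nat_lit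 76) (nat_lit 0) (XT.lf (nat_lit 0) (nat_lit 1966024594) (nat_lit 152) (nat_lit 11530112978) (nat_lit 152) (nat_lit 1145294650) (nat_lit 12) (nat_lit 4) (nat_lit 14) (nat_lit 5) (nat_lit 14) (nat_lit 4) (nat_lit 267) (nat_lit 235) (nat_lit 218)) (XT.lf (nat_lit 0) (nat_lit 1834491514) (nat_lit 228) (nat_lit 6853979926) (nat_lit 76) (nat_lit 6790994860) (nat_lit 11) (nat_lit 5) (nat_lit 14) (nat_lit 5) (nat_lit 12) (nat_lit 4) (nat_lit 268) (nat_lit 235) (nat_lit 217))))))))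
noncomputable def xc41 : XT := (XT.nd (nat_lit 2028) (nat_lit 152) (nat_lit 0) (XT.nd (nat_lit 1014) (nat_lit 228) (nat_lit 0) (XT.nd (nat_lit 468) (nat_lit 152) (nat_lit 0) (XT.nd (nat_lit 234) (nat_lit 152) (nat_lit 0) (XT.nd (nat_lit 78) (nat_lit 76) (nat_lit 0) (XT.lf (nat_lit 0) (nat_lit 4887044799) (nat_lit 228) (nat_lit 768469044) (nat_lit 76) (nat_lit 10735216557) (nat_lit 11) (nat_lit 5) (nat_lit 14) (nat_lit 5) (nat_lit 12) (nat_lit 4) (nat_lit 269) (nat_lit 235) (nat_lit 216)) (XT.nd (nat_lit 78) (nat_lit 0) (nat_lit 0) (XT.lf (nat_lit 0) (nat_lit 5941973233) (nat_lit 76) (nat_lit 2288678052) (nat_lit 152) (nat_lit 9140744503) (nat_lit 10) (nat_lit 5) (nat_lit 11) (nat_lit 5) (nat_lit 12) (nat_lit 4) (nat_lit 270) (nat_lit 235) (nat_lit 215)) (XT.lf (nat_lit 0) (nat_lit 11801537809) (nat_lit 152) (nat_lit 5390095704) (nat_lit 0) (nat_lit 1242327271) (nat_lit 10) (nat_lit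 5) (nat_lit 12) (nat_lit 4) (nat_lit 10) (nat_lit 4) (nat_lit 271) (nat_lit 235) (nat_lit 214)))) (XT.nd (nat_lit 78) (nat_lit 76) (nat_lit 0) (XT.lf (nat_lit 0) (nat_lit 972249035) (nat_lit 76) (nat_lit 14681477742) (nat_lit 76) (nat_lit 3928366365) (nat_lit 9) (nat_lit 4) (nat_lit 10) (nat_lit 5) (nat_lit 10) (nat_lit 4) (nat_lit 272) (nat_lit 235) (nat_lit 213)) (XT.nd (nat_lit 78) (nat_lit 76) (nat_lit 0) (XT.lf (nat_lit 0) (nat_lit 8004583161) (nat_lit 76) (nat_lit 11872644069) (nat_lit 76) (nat_lit 939994877) (nat_lit 9) (nat_lit 4) (nat_lit 10) (nat_lit 5) (nat_lit 10) (nat_lit 4) (nat_lit 273) (nat_lit 235) (nat_lit 212)) (XT.lf (nat_lit 0) (nat_lit 2092821323) (nat_lit 152) (nat_lit 6745819556) (nat_lit 76) (nat_lit 13314704110) (nat_lit 8) (nat_lit 5) (nat_lit 10) (nat_lit 5) (nat_lit 9) (nat_lit 4) (nat_lit 274) (nat_lit 235) (nat_lit 211))))) (XT.nd (nat_lit 234) (nat_lit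 76) (nat_lit 0) (XT.nd (nat_lit 78) (nat_lit 76) (nat_lit 0) (XT.lf (nat_lit 0) (nat_lit 5243221574) (nat_lit 152) (nat_lit 346911771) (nat_lit 76) (nat_lit 18010368017) (nat_lit 8) (nat_lit 5) (nat_lit 10) (nat_lit 5) (nat_lit 9) (nat_lit 4) (nat_lit 275) (nat_lit 235) (nat_lit 210)) (XT.nd (nat_lit 78) (nat_lit 0) (nat_lit 0) (XT.lf (nat_lit 0) (nat_lit 6783972541) (nat_lit 76) (nat_lit 1956079426) (nat_lit 152) (nat_lit 16415971178) (nat_lit 7) (nat_lit 5) (nat_lit 8) (nat_lit 5) (nat_lit 9) (nat_lit 4) (nat_lit 276) (nat_lit 235) (nat_lit 209)) (XT.lf (nat_lit 0) (nat_lit 12506049499) (nat_lit 152) (nat_lit 12498295084) (nat_lit 0) (nat_lit 1832622457) (nat_lit 7) (nat_lit 5) (nat_lit 9) (nat_lit 4) (nat_lit 7) (nat_lit 4) (nat_lit 277) (nat_lit 235) (nat_lit 208)))) (XT.nd (nat_lit 156) (nat_lit 0) (nat_lit 0) (XT.nd (nat_lit 78) (nat_lit 76) (nat_lit 0) (XT.lf (nat_lit 0) (nat_lit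 16561487704) (nat_lit 152) (nat_lit 6317048589) (nat_lit 0) (nat_lit 5774921384) (nat_lit 7) (nat_lit 5) (nat_lit 9) (nat_lit 4) (nat_lit 7) (nat_lit 4) (nat_lit 278) (nat_lit 235) (nat_lit 207)) (XT.lf (nat_lit 0) (nat_lit 268809170) (nat_lit 76) (nat_lit 20621010747) (nat_lit 76) (nat_lit 9729685837) (nat_lit 6) (nat_lit 4) (nat_lit 7) (nat_lit 5) (nat_lit 7) (nat_lit 4) (nat_lit 279) (nat_lit 235) (nat_lit 206))) (XT.nd (nat_lit 78) (nat_lit 0) (nat_lit 0) (XT.lf (nat_lit 0) (nat_lit 7640072409) (nat_lit 76) (nat_lit 18040934121) (nat_lit 76) (nat_lit 7052610517) (nat_lit 6) (nat_lit 4) (nat_lit 7) (nat_lit 5) (nat_lit 7) (nat_lit 4) (nat_lit 280) (nat_lit 235) (nat_lit 205)) (XT.lf (nat_lit 0) (nat_lit 15507778102) (nat_lit 76) (nat_lit 15295736376) (nat_lit 76) (nat_lit 4217599166) (nat_lit 6) (nat_lit 4) (nat_lit 7) (nat_lit 5) (nat_lit 7) (nat_lit 4) (nat_lit 281) (nat_lit 235)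 (nat_lit 204)))))) (XT.nd (nat_lit 468) (nat_lit 76) (nat_lit 0) (XT.nd (nat_lit 234) (nat_lit 76) (nat_lit 0) (XT.nd (nat_lit 78) (nat_lit 76) (nat_lit 0) (XT.lf (nat_lit 0) (nat_lit 23918549691) (nat_lit 76) (nat_lit 12369149674) (nat_lit 76) (nat_lit 1207851717) (nat_lit 6) (nat_lit 4) (nat_lit 7) (nat_lit 5) (nat_lit 7) (nat_lit 4) (nat_lit 282) (nat_lit 235) (nat_lit 203)) (XT.nd (nat_lit 78) (nat_lit 0) (nat_lit 0) (XT.lf (nat_lit 0) (nat_lit 1894696034) (nat_lit 152) (nat_lit 7297330896) (nat_lit 76) (nat_lit 30975728404) (nat_lit 5) (nat_lit 5) (nat_lit 7) (nat_lit 5) (nat_lit 6) (nat_lit 4) (nat_lit 283) (nat_lit 235) (nat_lit 202)) (XT.lf (nat_lit 0) (nat_lit 5137787990) (nat_lit 152) (nat_lit 622996563) (nat_lit 76) (nat_lit 37293906301) (nat_lit 5) (nat_lit 5) (nat_lit 7) (nat_lit 5) (nat_lit 6) (nat_lit 4) (nat_lit 284) (nat_lit 235) (nat_lit 201)))) (XT.nd (nat_lit 78)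 (nat_lit 0) (nat_lit 0) (XT.lf (nat_lit 0) (nat_lit 6857649481) (nat_lit 76) (nat_lit 1908341262) (nat_lit 152) (nat_lit 37396604444) (nat_lit 4) (nat_lit 5) (nat_lit 5) (nat_lit 5) (nat_lit 6) (nat_lit 4) (nat_lit 285) (nat_lit 235) (nat_lit 200)) (XT.nd (nat_lit 78) (nat_lit 0) (nat_lit 0) (XT.lf (nat_lit 0) (nat_lit 12717339408) (nat_lit 152) (nat_lit 34671455157) (nat_lit 0) (nat_lit 2127768207) (nat_lit 4) (nat_lit 5) (nat_lit 6) (nat_lit 4) (nat_lit 4) (nat_lit 4) (nat_lit 286) (nat_lit 235) (nat_lit 199)) (XT.lf (nat_lit 0) (nat_lit 16998479582) (nat_lit 152) (nat_lit 29782827971) (nat_lit 0) (nat_lit 6356503004) (nat_lit 4) (nat_lit 5) (nat_lit 6) (nat_lit 4) (nat_lit 4) (nat_lit 4) (nat_lit 287) (nat_lit 235) (nat_lit 198))))) (XT.nd (nat_lit 234) (nat_lit 76) (nat_lit 0) (XT.nd (nat_lit 78) (nat_lit 0) (nat_lit 0) (XT.lf (nat_lit 0) (nat_lit 21588885331) (nat_lit 152) (nat_lit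 24564198852) (nat_lit 0) (nat_lit 10898385257) (nat_lit 4) (nat_lit 5) (nat_lit 6) (nat_lit 4) (nat_lit 4) (nat_lit 4) (nat_lit 288) (nat_lit 235) (nat_lit 197)) (XT.nd (nat_lit 78) (nat_lit 0) (nat_lit 0) (XT.lf (nat_lit 0) (nat_lit 26515759061) (nat_lit 152) (nat_lit 18984642590) (nat_lit 0) (nat_lit 15780329822) (nat_lit 4) (nat_lit 5) (nat_lit 6) (nat_lit 4) (nat_lit 4) (nat_lit 4) (nat_lit 289) (nat_lit 235) (nat_lit 196)) (XT.lf (nat_lit 0) (nat_lit 31808297058) (nat_lit 152) (nat_lit 13011095149) (nat_lit 0) (nat_lit 21031266743) (nat_lit 4) (nat_lit 5) (nat_lit 6) (nat_lit 4) (nat_lit 4) (nat_lit 4) (nat_lit 290) (nat_lit 235) (nat_lit 195)))) (XT.nd (nat_lit 156) (nat_lit 0) (nat_lit 0) (XT.nd (nat_lit 78) (nat_lit 76) (nat_lit 0) (XT.lf (nat_lit 0) (nat_lit 37497862513) (nat_lit 152) (nat_lit 6608157729) (nat_lit 0) (nat_lit 26682312681) (nat_lit 4) (nat_lit 5) (nat_lit 6)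 (nat_lit 4) (nat_lit 4) (nat_lit 4) (nat_lit 291) (nat_lit 235) (nat_lit 194)) (XT.lf (nat_lit 0) (nat_lit 275915408) (nat_lit 76) (nat_lit 43348891731) (nat_lit 76) (nat_lit 32497675680) (nat_lit 3) (nat_lit 4) (nat_lit 4) (nat_lit 5) (nat_lit 4) (nat_lit 4) (nat_lit 292) (nat_lit 235) (nat_lit 193))) (XT.nd (nat_lit 78) (nat_lit 0) (nat_lit 0) (XT.lf (nat_lit 0) (nat_lit 8042761253) (nat_lit 76) (nat_lit 42356159468) (nat_lit 76) (nat_lit 31471919140) (nat_lit 3) (nat_lit 4) (nat_lit 4) (nat_lit 5) (nat_lit 4) (nat_lit 4) (nat_lit 293) (nat_lit 235) (nat_lit 192)) (XT.lf (nat_lit 0) (nat_lit 16390431681) (nat_lit 76) (nat_lit 41302619337) (nat_lit 76) (nat_lit 30387800976) (nat_lit 3) (nat_lit 4) (nat_lit 4) (nat_lit 5) (nat_lit 4) (nat_lit 4) (nat_lit 294) (nat_lit 235) (nat_lit 191))))))) (XT.nd (nat_lit 1014) (nat_lit 152) (nat_lit 0) (XT.nd (nat_lit 468) (nat_lit 0) (nat_lit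 0) (XT.nd (nat_lit 234) (nat_lit 0) (nat_lit 0) (XT.nd (nat_lit 78) (nat_lit 0) (nat_lit 0) (XT.lf (nat_lit 0) (nat_lit 25368394371) (nat_lit 76) (nat_lit 40182028139) (nat_lit 76) (nat_lit 29238896784) (nat_lit 3) (nat_lit 4) (nat_lit 4) (nat_lit 5) (nat_lit 4) (nat_lit 4) (nat_lit 295) (nat_lit 235) (nat_lit 190)) (XT.nd (nat_lit 78) (nat_lit 0) (nat_lit 0) (XT.lf (nat_lit 0) (nat_lit 35029852062) (nat_lit 76) (nat_lit 38987745333) (nat_lit 76) (nat_lit 28018398242) (nat_lit 3) (nat_lit 4) (nat_lit 4) (nat_lit 5) (nat_lit 4) (nat_lit 4) (nat_lit 296) (nat_lit 235) (nat_lit 189)) (XT.lf (nat_lit 0) (nat_lit 45432057839) (nat_lit 76) (nat_lit 37712693687) (nat_lit 76) (nat_lit 26719072767) (nat_lit 3) (nat_lit 4) (nat_lit 4) (nat_lit 5) (nat_lit 4) (nat_lit 4) (nat_lit 297) (nat_lit 235) (nat_lit 188)))) (XT.nd (nat_lit 78) (nat_lit 0) (nat_lit 0) (XT.lf (nat_lit 0) (nat_lit 56636654402)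 (nat_lit 76) (nat_lit 36349317340) (nat_lit 76) (nat_lit 25333220652) (nat_lit 3) (nat_lit 4) (nat_lit 4) (nat_lit 5) (nat_lit 4) (nat_lit 4) (nat_lit 298) (nat_lit 235) (nat_lit 187)) (XT.nd (nat_lit 78) (nat_lit 0) (nat_lit 0) (XT.lf (nat_lit 0) (nat_lit 68710039361) (nat_lit 76) (nat_lit 34889537025) (nat_lit 76) (nat_lit 23852629441) (nat_lit 3) (nat_lit 4) (nat_lit 4) (nat_lit 5) (nat_lit 4) (nat_lit 4) (nat_lit 299) (nat_lit 235) (nat_lit 186)) (XT.lf (nat_lit 0) (nat_lit 81723758699) (nat_lit 76) (nat_lit 33324702191) (nat_lit 76) (nat_lit 22268525259) (nat_lit 3) (nat_lit 4) (nat_lit 4) (nat_lit 5) (nat_lit 4) (nat_lit 4) (nat_lit 300) (nat_lit 235) (nat_lit 185))))) (XT.nd (nat_lit 234) (nat_lit 0) (nat_lit 0) (XT.nd (nat_lit 78) (nat_lit 0) (nat_lit 0) (XT.lf (nat_lit 0) (nat_lit 95754930755) (nat_lit 76) (nat_lit 31645539743) (nat_lit 76) (nat_lit 20571520822) (nat_lit 3)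 (nat_lit 4) (nat_lit 4) (nat_lit 5) (nat_lit 4) (nat_lit 4) (nat_lit 301) (nat_lit 235) (nat_lit 184)) (XT.nd (nat_lit 78) (nat_lit 0) (nat_lit 0) (XT.lf (nat_lit 0) (nat_lit 110886703214) (nat_lit 76) (nat_lit 29842099090) (nat_lit 76) (nat_lit 18751559808) (nat_lit 3) (nat_lit 4) (nat_lit 4) (nat_lit 5) (nat_lit 4) (nat_lit 4) (nat_lit 302) (nat_lit 235) (nat_lit 183)) (XT.lf (nat_lit 0) (nat_lit 127208745839) (nat_lit 76) (nat_lit 27903693174) (nat_lit 76) (nat_lit 16797857263) (nat_lit 3) (nat_lit 4) (nat_lit 4) (nat_lit 5) (nat_lit 4) (nat_lit 4) (nat_lit 303) (nat_lit 235) (nat_lit 182)))) (XT.nd (nat_lit 156) (nat_lit 0) (nat_lit 0) (XT.nd (nat_lit 78) (nat_lit 0) (nat_lit 0) (XT.lf (nat_lit 0) (nat_lit 144817781845) (nat_lit 76) (nat_lit 25818835148) (nat_lit 76) (nat_lit 14698835690) (nat_lit 3) (nat_lit 4) (nat_lit 4) (nat_lit 5) (nat_lit 4) (nat_lit 4) (nat_lit 304) (nat_lit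 235) (nat_lit 181)) (XT.lf (nat_lit 0) (nat_lit 163818161076) (nat_lit 76) (nat_lit 23575170295) (nat_lit 76) (nat_lit 12442056443) (nat_lit 3) (nat_lit 4) (nat_lit 4) (nat_lit 5) (nat_lit 4) (nat_lit 4) (nat_lit 305) (nat_lit 235) (nat_lit 180))) (XT.nd (nat_lit 78) (nat_lit 0) (nat_lit 0) (XT.lf (nat_lit 0) (nat_lit 184322478372) (nat_lit 76) (nat_lit 21159402824) (nat_lit 76) (nat_lit 10014146014) (nat_lit 3) (nat_lit 4) (nat_lit 4) (nat_lit 5) (nat_lit 4) (nat_lit 4) (nat_lit 306) (nat_lit 235) (nat_lit 179)) (XT.lf (nat_lit 0) (nat_lit 206452240798) (nat_lit 76) (nat_lit 18557217077) (nat_lit 76) (nat_lit 7400716788) (nat_lit 3) (nat_lit 4) (nat_lit 4) (nat_lit 5) (nat_lit 4) (nat_lit 4) (nat_lit 307) (nat_lit 235) (nat_lit 178)))))) (XT.nd (nat_lit 468) (nat_lit 0) (nat_lit 0) (XT.nd (nat_lit 234) (nat_lit 76) (nat_lit 0) (XT.nd (nat_lit 78) (nat_lit 76) (nat_lit 0) (XT.lf (nat_lit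 0) (nat_lit 230338587686) (nat_lit 76) (nat_lit 15753192694) (nat_lit 76) (nat_lit 4586281775) (nat_lit 3) (nat_lit 4) (nat_lit 4) (nat_lit 5) (nat_lit 4) (nat_lit 4) (nat_lit 308) (nat_lit 235) (nat_lit 177)) (XT.nd (nat_lit 78) (nat_lit 76) (nat_lit 0) (XT.lf (nat_lit 0) (nat_lit 256123067760) (nat_lit 76) (nat_lit 12730713233) (nat_lit 76) (nat_lit 1554162842) (nat_lit 3) (nat_lit 4) (nat_lit 4) (nat_lit 5) (nat_lit 4) (nat_lit 4) (nat_lit 309) (nat_lit 235) (nat_lit 176)) (XT.lf (nat_lit 0) (nat_lit 1627886503) (nat_lit 152) (nat_lit 7799471899) (nat_lit 76) (nat_lit 282286082132) (nat_lit 2) (nat_lit 5) (nat_lit 4) (nat_lit 5) (nat_lit 3) (nat_lit 4) (nat_lit 310) (nat_lit 235) (nat_lit 175)))) (XT.nd (nat_lit 78) (nat_lit 76) (nat_lit 0) (XT.lf (nat_lit 0) (nat_lit 4974449967) (nat_lit 152) (nat_lit 846884188) (nat_lit 76) (nat_lit 308899308553) (nat_lit 2) (nat_lit 5) (nat_lit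 4) (nat_lit 5) (nat_lit 3) (nat_lit 4) (nat_lit 311) (nat_lit 235) (nat_lit 174)) (XT.nd (nat_lit 78) (nat_lit 0) (nat_lit 0) (XT.lf (nat_lit 0) (nat_lit 7001719603) (nat_lit 76) (nat_lit 1749776476) (nat_lit 152) (nat_lit 330803912141) (nat_lit 1) (nat_lit 5) (nat_lit 2) (nat_lit 5) (nat_lit 3) (nat_lit 4) (nat_lit 312) (nat_lit 235) (nat_lit 173)) (XT.lf (nat_lit 0) (nat_lit 12912560238) (nat_lit 152) (nat_lit 350923513295) (nat_lit 0) (nat_lit 2534340291) (nat_lit 1) (nat_lit 5) (nat_lit 3) (nat_lit 4) (nat_lit 1) (nat_lit 4) (nat_lit 313) (nat_lit 235) (nat_lit 172))))) (XT.nd (nat_lit 234) (nat_lit 0) (nat_lit 0) (XT.nd (nat_lit 78) (nat_lit 0) (nat_lit 0) (XT.lf (nat_lit 0) (nat_lit 17446796254) (nat_lit 152) (nat_lit 370818105539) (nat_lit 0) (nat_lit 7062501805) (nat_lit 1) (nat_lit 5) (nat_lit 3) (nat_lit 4) (nat_lit 1) (nat_lit 4) (nat_lit 314) (nat_lit 235) (nat_lit 171))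 (XT.nd (nat_lit 78) (nat_lit 0) (nat_lit 0) (XT.lf (nat_lit 0) (nat_lit 22338991510) (nat_lit 152) (nat_lit 392313277064) (nat_lit 0) (nat_lit 11949072521) (nat_lit 1) (nat_lit 5) (nat_lit 3) (nat_lit 4) (nat_lit 1) (nat_lit 4) (nat_lit 315) (nat_lit 235) (nat_lit 170)) (XT.lf (nat_lit 0) (nat_lit 27618136792) (nat_lit 152) (nat_lit 415536406664) (nat_lit 0) (nat_lit 17223009897) (nat_lit 1) (nat_lit 5) (nat_lit 3) (nat_lit 4) (nat_lit 1) (nat_lit 4) (nat_lit 316) (nat_lit 235) (nat_lit 169)))) (XT.nd (nat_lit 156) (nat_lit 0) (nat_lit 0) (XT.nd (nat_lit 78) (nat_lit 0) (nat_lit 0) (XT.lf (nat_lit 0) (nat_lit 33315515923) (nat_lit 152) (nat_lit 440625112885) (nat_lit 0) (nat_lit 22915566893) (nat_lit 1) (nat_lit 5) (nat_lit 3) (nat_lit 4) (nat_lit 1) (nat_lit 4) (nat_lit 317) (nat_lit 235) (nat_lit 168)) (XT.lf (nat_lit 0) (nat_lit 39464891151) (nat_lit 152) (nat_lit 467728069542)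 (nat_lit 0) (nat_lit 29060477180) (nat_lit 1) (nat_lit 5) (nat_lit 3) (nat_lit 4) (nat_lit 1) (nat_lit 4) (nat_lit 318) (nat_lit 235) (nat_lit 167))) (XT.nd (nat_lit 78) (nat_lit 0) (nat_lit 0) (XT.lf (nat_lit 0) (nat_lit 46102703218) (nat_lit 152) (nat_lit 497005886749) (nat_lit 0) (nat_lit 35694155043) (nat_lit 1) (nat_lit 5) (nat_lit 3) (nat_lit 4) (nat_lit 1) (nat_lit 4) (nat_lit 319) (nat_lit 235) (nat_lit 166)) (XT.lf (nat_lit 0) (nat_lit 53268287307) (nat_lit 152) (nat_lit 528632062680) (nat_lit 0) (nat_lit 42855911165) (nat_lit 1) (nat_lit 5) (nat_lit 3) (nat_lit 4) (nat_lit 1) (nat_lit 4) (nat_lit 320) (nat_lit 235) (nat_lit 165))))))))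
noncomputable def xc42 : XT := (XT.nd (nat_lit 32214) (nat_lit 0) (nat_lit 456) (XT.nd (nat_lit 936) (nat_lit 0) (nat_lit 0) (XT.nd (nat_lit 468) (nat_lit 0) (nat_lit 0) (XT.nd (nat_lit 234) (nat_lit 0) (nat_lit 0) (XT.nd (nat_lit 78) (nat_lit 0) (nat_lit 0) (XT.lf (nat_lit 0) (nat_lit 61004106137) (nat_lit 152) (nat_lit 562794011713) (nat_lit 0) (nat_lit 50588185581) (nat_lit 1) (nat_lit 5) (nat_lit 3) (nat_lit 4) (nat_lit 1) (nat_lit 4) (nat_lit 321) (nat_lit 235) (nat_lit 164)) (XT.nd (nat_lit 78) (nat_lit 0) (nat_lit 0) (XT.lf (nat_lit 0) (nat_lit 69356001598) (nat_lit 152) (nat_lit 599694175026) (nat_lit 0) (nat_lit 58936799178) (nat_lit 1) (nat_lit 5) (nat_lit 3) (nat_lit 4) (nat_lit 1) (nat_lit 4) (nat_lit 322) (nat_lit 235) (nat_lit 163)) (XT.lf (nat_lit 0) (nat_lit 78373466404) (nat_lit 152) (nat_lit 639551220254) (nat_lit 0) (nat_lit 67951225220) (nat_lit 1) (nat_lit 5) (nat_lit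 3) (nat_lit 4) (nat_lit 1) (nat_lit 4) (nat_lit 323) (nat_lit 235) (nat_lit 162)))) (XT.nd (nat_lit 78) (nat_lit 0) (nat_lit 0) (XT.lf (nat_lit 0) (nat_lit 88109937384) (nat_lit 152) (nat_lit 682601337295) (nat_lit 0) (nat_lit 77684882530) (nat_lit 1) (nat_lit 5) (nat_lit 3) (nat_lit 4) (nat_lit 1) (nat_lit 4) (nat_lit 324) (nat_lit 235) (nat_lit 161)) (XT.nd (nat_lit 78) (nat_lit 0) (nat_lit 0) (XT.lf (nat_lit 0) (nat_lit 98623112143) (nat_lit 152) (nat_lit 729099637953) (nat_lit 0) (nat_lit 88195452039) (nat_lit 1) (nat_lit 5) (nat_lit 3) (nat_lit 4) (nat_lit 1) (nat_lit 4) (nat_lit 325) (nat_lit 235) (nat_lit 160)) (XT.lf (nat_lit 0) (nat_lit 109975290976) (nat_lit 152) (nat_lit 779321667714) (nat_lit 0) (nat_lit 99545218604) (nat_lit 1) (nat_lit 5) (nat_lit 3) (nat_lit 4) (nat_lit 1) (nat_lit 4) (nat_lit 326) (nat_lit 235) (nat_lit 159))))) (XT.nd (nat_lit 234) (nat_lit 0) (nat_lit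 0) (XT.nd (nat_lit 78) (nat_lit 0) (nat_lit 0) (XT.lf (nat_lit 0) (nat_lit 122233746054) (nat_lit 152) (nat_lit 833565038606) (nat_lit 0) (nat_lit 111801440101) (nat_lit 1) (nat_lit 5) (nat_lit 3) (nat_lit 4) (nat_lit 1) (nat_lit 4) (nat_lit 327) (nat_lit 235) (nat_lit 158)) (XT.nd (nat_lit 78) (nat_lit 0) (nat_lit 0) (XT.lf (nat_lit 0) (nat_lit 135471120074) (nat_lit 152) (nat_lit 892151192827) (nat_lit 0) (nat_lit 125036745989) (nat_lit 1) (nat_lit 5) (nat_lit 3) (nat_lit 4) (nat_lit 1) (nat_lit 4) (nat_lit 328) (nat_lit 235) (nat_lit 157)) (XT.lf (nat_lit 0) (nat_lit 149765856734) (nat_lit 152) (nat_lit 955427307587) (nat_lit 0) (nat_lit 139329567713) (nat_lit 1) (nat_lit 5) (nat_lit 3) (nat_lit 4) (nat_lit 1) (nat_lit 4) (nat_lit 329) (nat_lit 235) (nat_lit 156)))) (XT.nd (nat_lit 78) (nat_lit 0) (nat_lit 0) (XT.lf (nat_lit 0) (nat_lit 165202665584) (nat_lit 152) (nat_lit 1023768352454)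 (nat_lit 0) (nat_lit 154764603473) (nat_lit 1) (nat_lit 5) (nat_lit 3) (nat_lit 4) (nat_lit 1) (nat_lit 4) (nat_lit 330) (nat_lit 235) (nat_lit 155)) (XT.nd (nat_lit 78) (nat_lit 0) (nat_lit 0) (XT.lf (nat_lit 0) (nat_lit 181873024010) (nat_lit 152) (nat_lit 1097579311400) (nat_lit 0) (nat_lit 171433320150) (nat_lit 1) (nat_lit 5) (nat_lit 3) (nat_lit 4) (nat_lit 1) (nat_lit 4) (nat_lit 331) (nat_lit 235) (nat_lit 154)) (XT.lf (nat_lit 0) (nat_lit 199875719321) (nat_lit 152) (nat_lit 1177297582698) (nat_lit 0) (nat_lit 189434495323) (nat_lit 1) (nat_lit 5) (nat_lit 3) (nat_lit 4) (nat_lit 1) (nat_lit 4) (nat_lit 332) (nat_lit 235) (nat_lit 153)))))) (XT.nd (nat_lit 468) (nat_lit 0) (nat_lit 0) (XT.nd (nat_lit 234) (nat_lit 0) (nat_lit 0) (XT.nd (nat_lit 78) (nat_lit 0) (nat_lit 0) (XT.lf (nat_lit 0) (nat_lit 219317434157) (nat_lit 152) (nat_lit 1263395570919) (nat_lit 0) (nat_lit 208874802623)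 (nat_lit 1) (nat_lit 5) (nat_lit 3) (nat_lit 4) (nat_lit 1) (nat_lit 4) (nat_lit 333) (nat_lit 235) (nat_lit 152)) (XT.nd (nat_lit 78) (nat_lit 0) (nat_lit 0) (XT.lf (nat_lit 0) (nat_lit 240313378679) (nat_lit 152) (nat_lit 1356383486365) (nat_lit 0) (nat_lit 229869443871) (nat_lit 1) (nat_lit 5) (nat_lit 3) (nat_lit 4) (nat_lit 1) (nat_lit 4) (nat_lit 334) (nat_lit 235) (nat_lit 151)) (XT.lf (nat_lit 0) (nat_lit 262987973298) (nat_lit 152) (nat_lit 1456812368534) (nat_lit 0) (nat_lit 252542831756) (nat_lit 1) (nat_lit 5) (nat_lit 3) (nat_lit 4) (nat_lit 1) (nat_lit 4) (nat_lit 335) (nat_lit 235) (nat_lit 150)))) (XT.nd (nat_lit 78) (nat_lit 0) (nat_lit 0) (XT.lf (nat_lit 0) (nat_lit 287475585984) (nat_lit 152) (nat_lit 1565277351542) (nat_lit 0) (nat_lit 277029327095) (nat_lit 1) (nat_lit 5) (nat_lit 3) (nat_lit 4) (nat_lit 1) (nat_lit 4) (nat_lit 336) (nat_lit 235) (nat_lit 149))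 (XT.nd (nat_lit 78) (nat_lit 0) (nat_lit 0) (XT.lf (nat_lit 0) (nat_lit 313921328515) (nat_lit 152) (nat_lit 1682421190844) (nat_lit 0) (nat_lit 303474035046) (nat_lit 1) (nat_lit 5) (nat_lit 3) (nat_lit 4) (nat_lit 1) (nat_lit 4) (nat_lit 337) (nat_lit 235) (nat_lit 148)) (XT.lf (nat_lit 0) (nat_lit 342481916402) (nat_lit 152) (nat_lit 1808938072155) (nat_lit 0) (nat_lit 332033664988) (nat_lit 1) (nat_lit 5) (nat_lit 3) (nat_lit 4) (nat_lit 1) (nat_lit 4) (nat_lit 338) (nat_lit 235) (nat_lit 147))))) (XT.nd (nat_lit 30498) (nat_lit 0) (nat_lit 2584) (XT.nd (nat_lit 78) (nat_lit 0) (nat_lit 0) (XT.lf (nat_lit 0) (nat_lit 373326597574) (nat_lit 152) (nat_lit 1945577725143) (nat_lit 0) (nat_lit 362877459174) (nat_lit 1) (nat_lit 5) (nat_lit 3) (nat_lit 4) (nat_lit 1) (nat_lit 4) (nat_lit 339) (nat_lit 235) (nat_lit 146)) (XT.nd (nat_lit 30342) (nat_lit 0) (nat_lit 3496) (XT.lf (nat_lit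 0) (nat_lit 406638155327) (nat_lit 152) (nat_lit 2093149866268) (nat_lit 0) (nat_lit 396188195643) (nat_lit 1) (nat_lit 5) (nat_lit 3) (nat_lit 4) (nat_lit 1) (nat_lit 4) (nat_lit 340) (nat_lit 235) (nat_lit 145)) (XT.lf (nat_lit 0) (nat_lit 498629012) (nat_lit 380) (nat_lit 2477151914) (nat_lit 0) (nat_lit 498629012) (nat_lit 47) (nat_lit 5) (nat_lit 52) (nat_lit 4) (nat_lit 47) (nat_lit 4) (nat_lit 248) (nat_lit 236) (nat_lit 236)))) (XT.nd (nat_lit 156) (nat_lit 532) (nat_lit 0) (XT.nd (nat_lit 78) (nat_lit 380) (nat_lit 0) (XT.lf (nat_lit 0) (nat_lit 4017650880) (nat_lit 380) (nat_lit 727603280) (nat_lit 0) (nat_lit 2344847709) (nat_lit 47) (nat_lit 5) (nat_lit 52) (nat_lit 4) (nat_lit 47) (nat_lit 4) (nat_lit 249) (nat_lit 236) (nat_lit 235)) (XT.lf (nat_lit 0) (nat_lit 3802016940) (nat_lit 380) (nat_lit 3337632723) (nat_lit 380) (nat_lit 115937729) (nat_lit 42) (nat_lit 4) (nat_lit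 47) (nat_lit 5) (nat_lit 47) (nat_lit 4) (nat_lit 250) (nat_lit 236) (nat_lit 234))) (XT.nd (nat_lit 78) (nat_lit 0) (nat_lit 0) (XT.lf (nat_lit 0) (nat_lit 1047440633) (nat_lit 456) (nat_lit 1694527983) (nat_lit 532) (nat_lit 4702375291) (nat_lit 35) (nat_lit 5) (nat_lit 41) (nat_lit 5) (nat_lit 42) (nat_lit 4) (nat_lit 251) (nat_lit 236) (nat_lit 233)) (XT.lf (nat_lit 0) (nat_lit 5705300657) (nat_lit 532) (nat_lit 1788599120) (nat_lit 0) (nat_lit 164764378) (nat_lit 35) (nat_lit 5) (nat_lit 42) (nat_lit 4) (nat_lit 35) (nat_lit 4) (nat_lit 252) (nat_lit 236) (nat_lit 232))))))) (XT.nd (nat_lit 1014) (nat_lit 532) (nat_lit 0) (XT.nd (nat_lit 468) (nat_lit 684) (nat_lit 0) (XT.nd (nat_lit 234) (nat_lit 456) (nat_lit 0) (XT.nd (nat_lit 78) (nat_lit 152) (nat_lit 0) (XT.lf (nat_lit 0) (nat_lit 879549575) (nat_lit 304) (nat_lit 4849554890) (nat_lit 76) (nat_lit 2167045205) (nat_lit 31)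 (nat_lit 5) (nat_lit 35) (nat_lit 5) (nat_lit 32) (nat_lit 4) (nat_lit 253) (nat_lit 236) (nat_lit 231)) (XT.nd (nat_lit 78) (nat_lit 152) (nat_lit 0) (XT.lf (nat_lit 0) (nat_lit 3687398799) (nat_lit 304) (nat_lit 63378254) (nat_lit 76) (nat_lit 4410561815) (nat_lit 31) (nat_lit 5) (nat_lit 35) (nat_lit 5) (nat_lit 32) (nat_lit 4) (nat_lit 254) (nat_lit 236) (nat_lit 230)) (XT.lf (nat_lit 0) (nat_lit 5147474303) (nat_lit 152) (nat_lit 1514403890) (nat_lit 228) (nat_lit 1791496139) (nat_lit 29) (nat_lit 5) (nat_lit 31) (nat_lit 5) (nat_lit 32) (nat_lit 4) (nat_lit 255) (nat_lit 236) (nat_lit 229)))) (XT.nd (nat_lit 78) (nat_lit 152) (nat_lit 0) (XT.lf (nat_lit 0) (nat_lit 940448230) (nat_lit 304) (nat_lit 6944789757) (nat_lit 76) (nat_lit 891040774) (nat_lit 25) (nat_lit 5) (nat_lit 29) (nat_lit 5) (nat_lit 26) (nat_lit 4) (nat_lit 256) (nat_lit 236) (nat_lit 228)) (XT.nd (nat_lit 78)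 (nat_lit 152) (nat_lit 0) (XT.lf (nat_lit 0) (nat_lit 3754480642) (nat_lit 304) (nat_lit 1866433876) (nat_lit 76) (nat_lit 3504339785) (nat_lit 25) (nat_lit 5) (nat_lit 29) (nat_lit 5) (nat_lit 26) (nat_lit 4) (nat_lit 257) (nat_lit 236) (nat_lit 227)) (XT.lf (nat_lit 0) (nat_lit 3586185257) (nat_lit 152) (nat_lit 3134668336) (nat_lit 228) (nat_lit 2787845501) (nat_lit 23) (nat_lit 5) (nat_lit 25) (nat_lit 5) (nat_lit 26) (nat_lit 4) (nat_lit 258) (nat_lit 236) (nat_lit 226))))) (XT.nd (nat_lit 234) (nat_lit 304) (nat_lit 0) (XT.nd (nat_lit 78) (nat_lit 380) (nat_lit 0) (XT.lf (nat_lit 0) (nat_lit 9375110860) (nat_lit 152) (nat_lit 448251752) (nat_lit 228) (nat_lit 108225430) (nat_lit 23) (nat_lit 5) (nat_lit 25) (nat_lit 5) (nat_lit 26) (nat_lit 4) (nat_lit 259) (nat_lit 236) (nat_lit 225)) (XT.nd (nat_lit 78) (nat_lit 152) (nat_lit 0) (XT.lf (nat_lit 0) (nat_lit 2689830996) (nat_lit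 228) (nat_lit 5213086367) (nat_lit 76) (nat_lit 2477135587) (nat_lit 20) (nat_lit 5) (nat_lit 23) (nat_lit 5) (nat_lit 21) (nat_lit 4) (nat_lit 260) (nat_lit 236) (nat_lit 224)) (XT.lf (nat_lit 0) (nat_lit 313262077) (nat_lit 152) (nat_lit 5286994769) (nat_lit 228) (nat_lit 5272899145) (nat_lit 18) (nat_lit 5) (nat_lit 20) (nat_lit 5) (nat_lit 21) (nat_lit 4) (nat_lit 261) (nat_lit 236) (nat_lit 223)))) (XT.nd (nat_lit 156) (nat_lit 76) (nat_lit 0) (XT.nd (nat_lit 78) (nat_lit 228) (nat_lit 0) (XT.lf (nat_lit 0) (nat_lit 6379048999) (nat_lit 152) (nat_lit 2372199300) (nat_lit 228) (nat_lit 2654336355) (nat_lit 18) (nat_lit 5) (nat_lit 20) (nat_lit 5) (nat_lit 21) (nat_lit 4) (nat_lit 262) (nat_lit 236) (nat_lit 222)) (XT.lf (nat_lit 0) (nat_lit 73351677) (nat_lit 228) (nat_lit 11213775012) (nat_lit 76) (nat_lit 700905457) (nat_lit 15) (nat_lit 5) (nat_lit 18) (nat_lit 5) (nat_lit 16)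 (nat_lit 4) (nat_lit 263) (nat_lit 236) (nat_lit 221))) (XT.nd (nat_lit 78) (nat_lit 76) (nat_lit 0) (XT.lf (nat_lit 0) (nat_lit 2953480901) (nat_lit 228) (nat_lit 5610714902) (nat_lit 76) (nat_lit 4041547455) (nat_lit 15) (nat_lit 5) (nat_lit 18) (nat_lit 5) (nat_lit 16) (nat_lit 4) (nat_lit 264) (nat_lit 236) (nat_lit 220)) (XT.lf (nat_lit 0) (nat_lit 273257611) (nat_lit 76) (nat_lit 5681602826) (nat_lit 152) (nat_lit 7327108125) (nat_lit 14) (nat_lit 5) (nat_lit 15) (nat_lit 5) (nat_lit 16) (nat_lit 4) (nat_lit 265) (nat_lit 236) (nat_lit 219)))))) (XT.nd (nat_lit 468) (nat_lit 228) (nat_lit 0) (XT.nd (nat_lit 234) (nat_lit 76) (nat_lit 0) (XT.nd (nat_lit 78) (nat_lit 228) (nat_lit 0) (XT.lf (nat_lit 0) (nat_lit 6770614720) (nat_lit 76) (nat_lit 2467740464) (nat_lit 152) (nat_lit 4770913822) (nat_lit 14) (nat_lit 5) (nat_lit 15) (nat_lit 5) (nat_lit 16) (nat_lit 4) (nat_lit 266)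 (nat_lit 236) (nat_lit 218)) (XT.nd (nat_lit 78) (nat_lit 228) (nat_lit 0) (XT.lf (nat_lit 0) (nat_lit 12704059355) (nat_lit 152) (nat_lit 1201588893) (nat_lit 0) (nat_lit 895855349) (nat_lit 14) (nat_lit 5) (nat_lit 16) (nat_lit 4) (nat_lit 14) (nat_lit 4) (nat_lit 267) (nat_lit 236) (nat_lit 217)) (XT.lf (nat_lit 0) (nat_lit 848887143) (nat_lit 228) (nat_lit 10306318698) (nat_lit 76) (nat_lit 4492779393) (nat_lit 11) (nat_lit 5) (nat_lit 14) (nat_lit 5) (nat_lit 12) (nat_lit 4) (nat_lit 268) (nat_lit 236) (nat_lit 216)))) (XT.nd (nat_lit 78) (nat_lit 76) (nat_lit 0) (XT.lf (nat_lit 0) (nat_lit 3855259823) (nat_lit 228) (nat_lit 4297322739) (nat_lit 76) (nat_lit 8410480488) (nat_lit 11) (nat_lit 5) (nat_lit 14) (nat_lit 5) (nat_lit 12) (nat_lit 4) (nat_lit 269) (nat_lit 236) (nat_lit 215)) (XT.nd (nat_lit 78) (nat_lit 0) (nat_lit 0) (XT.lf (nat_lit 0) (nat_lit 2152718520) (nat_lit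 76) (nat_lit 4912256302) (nat_lit 152) (nat_lit 10489575366) (nat_lit 10) (nat_lit 5) (nat_lit 11) (nat_lit 5) (nat_lit 12) (nat_lit 4) (nat_lit 270) (nat_lit 236) (nat_lit 214)) (XT.lf (nat_lit 0) (nat_lit 9219524244) (nat_lit 76) (nat_lit 1343632611) (nat_lit 152) (nat_lit 8059876939) (nat_lit 10) (nat_lit 5) (nat_lit 11) (nat_lit 5) (nat_lit 12) (nat_lit 4) (nat_lit 271) (nat_lit 236) (nat_lit 213))))) (XT.nd (nat_lit 234) (nat_lit 76) (nat_lit 0) (XT.nd (nat_lit 78) (nat_lit 152) (nat_lit 0) (XT.lf (nat_lit 0) (nat_lit 14320832365) (nat_lit 152) (nat_lit 3123956117) (nat_lit 0) (nat_lit 2334033424) (nat_lit 10) (nat_lit 5) (nat_lit 12) (nat_lit 4) (nat_lit 10) (nat_lit 4) (nat_lit 272) (nat_lit 236) (nat_lit 212)) (XT.nd (nat_lit 78) (nat_lit 76) (nat_lit 0) (XT.lf (nat_lit 0) (nat_lit 3679088929) (nat_lit 76) (nat_lit 14748657105) (nat_lit 76) (nat_lit 2595619446) (nat_lit 9)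 (nat_lit 4) (nat_lit 10) (nat_lit 5) (nat_lit 10) (nat_lit 4) (nat_lit 273) (nat_lit 236) (nat_lit 211)) (XT.lf (nat_lit 0) (nat_lit 484317268) (nat_lit 152) (nat_lit 11299582478) (nat_lit 76) (nat_lit 10581705241) (nat_lit 8) (nat_lit 5) (nat_lit 10) (nat_lit 5) (nat_lit 9) (nat_lit 4) (nat_lit 274) (nat_lit 236) (nat_lit 210)))) (XT.nd (nat_lit 156) (nat_lit 0) (nat_lit 0) (XT.nd (nat_lit 78) (nat_lit 76) (nat_lit 0) (XT.lf (nat_lit 0) (nat_lit 3601661471) (nat_lit 152) (nat_lit 4958029441) (nat_lit 76) (nat_lit 15255784523) (nat_lit 8) (nat_lit 5) (nat_lit 10) (nat_lit 5) (nat_lit 9) (nat_lit 4) (nat_lit 275) (nat_lit 236) (nat_lit 209)) (XT.lf (nat_lit 0) (nat_lit 1874138857) (nat_lit 76) (nat_lit 5075663937) (nat_lit 152) (nat_lit 18433153986) (nat_lit 7) (nat_lit 5) (nat_lit 8) (nat_lit 5) (nat_lit 9) (nat_lit 4) (nat_lit 276) (nat_lit 236) (nat_lit 208))) (XT.nd (nat_lit 78)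 (nat_lit 0) (nat_lit 0) (XT.lf (nat_lit 0) (nat_lit 9427183632) (nat_lit 76) (nat_lit 1212636082) (nat_lit 152) (nat_lit 16430219072) (nat_lit 7) (nat_lit 5) (nat_lit 8) (nat_lit 5) (nat_lit 9) (nat_lit 4) (nat_lit 277) (nat_lit 236) (nat_lit 207)) (XT.lf (nat_lit 0) (nat_lit 14638206533) (nat_lit 152) (nat_lit 11482125203) (nat_lit 0) (nat_lit 2770817041) (nat_lit 7) (nat_lit 5) (nat_lit 9) (nat_lit 4) (nat_lit 7) (nat_lit 4) (nat_lit 278) (nat_lit 236) (nat_lit 206))))))))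
noncomputable def xc43 : XT := (XT.nd (nat_lit 2028) (nat_lit 152) (nat_lit 0) (XT.nd (nat_lit 1014) (nat_lit 76) (nat_lit 0) (XT.nd (nat_lit 468) (nat_lit 76) (nat_lit 0) (XT.nd (nat_lit 234) (nat_lit 76) (nat_lit 0) (XT.nd (nat_lit 78) (nat_lit 76) (nat_lit 0) (XT.lf (nat_lit 0) (nat_lit 18934252159) (nat_lit 152) (nat_lit 4955714802) (nat_lit 0) (nat_lit 6969863972) (nat_lit 7) (nat_lit 5) (nat_lit 9) (nat_lit 4) (nat_lit 7) (nat_lit 4) (nat_lit 279) (nat_lit 236) (nat_lit 205)) (XT.nd (nat_lit 78) (nat_lit 0) (nat_lit 0) (XT.lf (nat_lit 0) (nat_lit 2109753409) (nat_lit 76) (nat_lit 21465236924) (nat_lit 76) (nat_lit 9411035130) (nat_lit 6) (nat_lit 4) (nat_lit 7) (nat_lit 5) (nat_lit 7) (nat_lit 4) (nat_lit 280) (nat_lit 236) (nat_lit 204)) (XT.lf (nat_lit 0) (nat_lit 9935944410) (nat_lit 76) (nat_lit 18738417478) (nat_lit 76) (nat_lit 6601054938) (nat_lit 6) (nat_lit 4) (nat_lit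 7) (nat_lit 5) (nat_lit 7) (nat_lit 4) (nat_lit 281) (nat_lit 236) (nat_lit 203)))) (XT.nd (nat_lit 78) (nat_lit 76) (nat_lit 0) (XT.lf (nat_lit 0) (nat_lit 18308276469) (nat_lit 76) (nat_lit 15828847719) (nat_lit 76) (nat_lit 3614484488) (nat_lit 6) (nat_lit 4) (nat_lit 7) (nat_lit 5) (nat_lit 7) (nat_lit 4) (nat_lit 282) (nat_lit 236) (nat_lit 202)) (XT.nd (nat_lit 78) (nat_lit 76) (nat_lit 0) (XT.lf (nat_lit 0) (nat_lit 27276363406) (nat_lit 76) (nat_lit 12719285752) (nat_lit 76) (nat_lit 433625585) (nat_lit 6) (nat_lit 4) (nat_lit 7) (nat_lit 5) (nat_lit 7) (nat_lit 4) (nat_lit 283) (nat_lit 236) (nat_lit 201)) (XT.lf (nat_lit 0) (nat_lit 2812281543) (nat_lit 152) (nat_lit 6502130238) (nat_lit 76) (nat_lit 34004175135) (nat_lit 5) (nat_lit 5) (nat_lit 7) (nat_lit 5) (nat_lit 6) (nat_lit 4) (nat_lit 284) (nat_lit 236) (nat_lit 200))))) (XT.nd (nat_lit 234) (nat_lit 0) (nat_lit 0)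 (XT.nd (nat_lit 78) (nat_lit 0) (nat_lit 0) (XT.lf (nat_lit 0) (nat_lit 635809407) (nat_lit 76) (nat_lit 5637561211) (nat_lit 152) (nat_lit 40166519573) (nat_lit 4) (nat_lit 5) (nat_lit 5) (nat_lit 5) (nat_lit 6) (nat_lit 4) (nat_lit 285) (nat_lit 236) (nat_lit 199)) (XT.nd (nat_lit 78) (nat_lit 0) (nat_lit 0) (XT.lf (nat_lit 0) (nat_lit 8650776312) (nat_lit 76) (nat_lit 1503154264) (nat_lit 152) (nat_lit 39645617933) (nat_lit 4) (nat_lit 5) (nat_lit 5) (nat_lit 5) (nat_lit 6) (nat_lit 4) (nat_lit 286) (nat_lit 236) (nat_lit 198)) (XT.lf (nat_lit 0) (nat_lit 14382945989) (nat_lit 152) (nat_lit 36253363461) (nat_lit 0) (nat_lit 2788682412) (nat_lit 4) (nat_lit 5) (nat_lit 6) (nat_lit 4) (nat_lit 4) (nat_lit 4) (nat_lit 287) (nat_lit 236) (nat_lit 197)))) (XT.nd (nat_lit 156) (nat_lit 0) (nat_lit 0) (XT.nd (nat_lit 78) (nat_lit 0) (nat_lit 0) (XT.lf (nat_lit 0) (nat_lit 18958561123)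 (nat_lit 152) (nat_lit 31061928182) (nat_lit 0) (nat_lit 7319368382) (nat_lit 4) (nat_lit 5) (nat_lit 6) (nat_lit 4) (nat_lit 4) (nat_lit 4) (nat_lit 288) (nat_lit 236) (nat_lit 196)) (XT.lf (nat_lit 0) (nat_lit 23871739838) (nat_lit 152) (nat_lit 25507551402) (nat_lit 0) (nat_lit 12190946019) (nat_lit 4) (nat_lit 5) (nat_lit 6) (nat_lit 4) (nat_lit 4) (nat_lit 4) (nat_lit 289) (nat_lit 236) (nat_lit 195))) (XT.nd (nat_lit 78) (nat_lit 0) (nat_lit 0) (XT.lf (nat_lit 0) (nat_lit 29151597267) (nat_lit 152) (nat_lit 19557318296) (nat_lit 0) (nat_lit 17432283932) (nat_lit 4) (nat_lit 5) (nat_lit 6) (nat_lit 4) (nat_lit 4) (nat_lit 4) (nat_lit 290) (nat_lit 236) (nat_lit 194)) (XT.lf (nat_lit 0) (nat_lit 34829421454) (nat_lit 152) (nat_lit 13175968223) (nat_lit 0) (nat_lit 23074441900) (nat_lit 4) (nat_lit 5) (nat_lit 6) (nat_lit 4) (nat_lit 4) (nat_lit 4) (nat_lit 291) (nat_lit 236) (nat_lit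 193)))))) (XT.nd (nat_lit 468) (nat_lit 0) (nat_lit 0) (XT.nd (nat_lit 234) (nat_lit 0) (nat_lit 0) (XT.nd (nat_lit 78) (nat_lit 76) (nat_lit 0) (XT.lf (nat_lit 0) (nat_lit 40938858765) (nat_lit 152) (nat_lit 6325685775) (nat_lit 0) (nat_lit 29150854935) (nat_lit 4) (nat_lit 5) (nat_lit 6) (nat_lit 4) (nat_lit 4) (nat_lit 4) (nat_lit 292) (nat_lit 236) (nat_lit 192)) (XT.nd (nat_lit 78) (nat_lit 0) (nat_lit 0) (XT.lf (nat_lit 0) (nat_lit 1088578414) (nat_lit 76) (nat_lit 46453715194) (nat_lit 76) (nat_lit 34635133330) (nat_lit 3) (nat_lit 4) (nat_lit 4) (nat_lit 5) (nat_lit 4) (nat_lit 4) (nat_lit 293) (nat_lit 236) (nat_lit 191)) (XT.lf (nat_lit 0) (nat_lit 9418209721) (nat_lit 76) (nat_lit 45408459748) (nat_lit 76) (nat_lit 33561564890) (nat_lit 3) (nat_lit 4) (nat_lit 4) (nat_lit 5) (nat_lit 4) (nat_lit 4) (nat_lit 294) (nat_lit 236) (nat_lit 190)))) (XT.nd (nat_lit 78) (nat_lit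 0) (nat_lit 0) (XT.lf (nat_lit 0) (nat_lit 18379469520) (nat_lit 76) (nat_lit 44295539554) (nat_lit 76) (nat_lit 32422428960) (nat_lit 3) (nat_lit 4) (nat_lit 4) (nat_lit 5) (nat_lit 4) (nat_lit 4) (nat_lit 295) (nat_lit 236) (nat_lit 189)) (XT.nd (nat_lit 78) (nat_lit 0) (nat_lit 0) (XT.lf (nat_lit 0) (nat_lit 28025461572) (nat_lit 76) (nat_lit 43108359529) (nat_lit 76) (nat_lit 31210975106) (nat_lit 3) (nat_lit 4) (nat_lit 4) (nat_lit 5) (nat_lit 4) (nat_lit 4) (nat_lit 296) (nat_lit 236) (nat_lit 188)) (XT.lf (nat_lit 0) (nat_lit 38413347312) (nat_lit 76) (nat_lit 41839884532) (nat_lit 76) (nat_lit 29920024341) (nat_lit 3) (nat_lit 4) (nat_lit 4) (nat_lit 5) (nat_lit 4) (nat_lit 4) (nat_lit 297) (nat_lit 236) (nat_lit 187))))) (XT.nd (nat_lit 234) (nat_lit 0) (nat_lit 0) (XT.nd (nat_lit 78) (nat_lit 0) (nat_lit 0) (XT.lf (nat_lit 0) (nat_lit 49604684582) (nat_lit 76) (nat_lit 40482597675)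 (nat_lit 76) (nat_lit 28541926588) (nat_lit 3) (nat_lit 4) (nat_lit 4) (nat_lit 5) (nat_lit 4) (nat_lit 4) (nat_lit 298) (nat_lit 236) (nat_lit 186)) (XT.nd (nat_lit 78) (nat_lit 0) (nat_lit 0) (XT.lf (nat_lit 0) (nat_lit 61665792417) (nat_lit 76) (nat_lit 39028455776) (nat_lit 76) (nat_lit 27068515341) (nat_lit 3) (nat_lit 4) (nat_lit 4) (nat_lit 5) (nat_lit 4) (nat_lit 4) (nat_lit 299) (nat_lit 236) (nat_lit 185)) (XT.lf (nat_lit 0) (nat_lit 74668144049) (nat_lit 76) (nat_lit 37468841699) (nat_lit 76) (nat_lit 25491059275) (nat_lit 3) (nat_lit 4) (nat_lit 4) (nat_lit 5) (nat_lit 4) (nat_lit 4) (nat_lit 300) (nat_lit 236) (nat_lit 184)))) (XT.nd (nat_lit 156) (nat_lit 0) (nat_lit 0) (XT.nd (nat_lit 78) (nat_lit 0) (nat_lit 0) (XT.lf (nat_lit 0) (nat_lit 88688790450) (nat_lit 76) (nat_lit 35794513285) (nat_lit 76) (nat_lit 23800210501) (nat_lit 3) (nat_lit 4) (nat_lit 4) (nat_lit 5)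 (nat_lit 4) (nat_lit 4) (nat_lit 301) (nat_lit 236) (nat_lit 183)) (XT.lf (nat_lit 0) (nat_lit 103810816933) (nat_lit 76) (nat_lit 33995548588) (nat_lit 76) (nat_lit 21985949174) (nat_lit 3) (nat_lit 4) (nat_lit 4) (nat_lit 5) (nat_lit 4) (nat_lit 4) (nat_lit 302) (nat_lit 236) (nat_lit 182))) (XT.nd (nat_lit 78) (nat_lit 0) (nat_lit 0) (XT.lf (nat_lit 0) (nat_lit 120123835506) (nat_lit 76) (nat_lit 32061287078) (nat_lit 76) (nat_lit 20037524117) (nat_lit 3) (nat_lit 4) (nat_lit 4) (nat_lit 5) (nat_lit 4) (nat_lit 4) (nat_lit 303) (nat_lit 236) (nat_lit 181)) (XT.lf (nat_lit 0) (nat_lit 137724515908) (nat_lit 76) (nat_lit 29980266462) (nat_lit 76) (nat_lit 17943389107) (nat_lit 3) (nat_lit 4) (nat_lit 4) (nat_lit 5) (nat_lit 4) (nat_lit 4) (nat_lit 304) (nat_lit 236) (nat_lit 180))))))) (XT.nd (nat_lit 1014) (nat_lit 0) (nat_lit 0) (XT.nd (nat_lit 468) (nat_lit 152) (nat_lit 0) (XT.nd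 (nat_lit 234) (nat_lit 0) (nat_lit 0) (XT.nd (nat_lit 78) (nat_lit 0) (nat_lit 0) (XT.lf (nat_lit 0) (nat_lit 156717158469) (nat_lit 76) (nat_lit 27740154768) (nat_lit 76) (nat_lit 15691134456) (nat_lit 3) (nat_lit 4) (nat_lit 4) (nat_lit 5) (nat_lit 4) (nat_lit 4) (nat_lit 305) (nat_lit 236) (nat_lit 179)) (XT.nd (nat_lit 78) (nat_lit 0) (nat_lit 0) (XT.lf (nat_lit 0) (nat_lit 177214312182) (nat_lit 76) (nat_lit 25327677260) (nat_lit 76) (nat_lit 13267413468) (nat_lit 3) (nat_lit 4) (nat_lit 4) (nat_lit 5) (nat_lit 4) (nat_lit 4) (nat_lit 306) (nat_lit 236) (nat_lit 178)) (XT.lf (nat_lit 0) (nat_lit 199337441660) (nat_lit 76) (nat_lit 22728537774) (nat_lit 76) (nat_lit 10657863352) (nat_lit 3) (nat_lit 4) (nat_lit 4) (nat_lit 5) (nat_lit 4) (nat_lit 4) (nat_lit 307) (nat_lit 236) (nat_lit 177)))) (XT.nd (nat_lit 78) (nat_lit 0) (nat_lit 0) (XT.lf (nat_lit 0) (nat_lit 223217646930)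 (nat_lit 76) (nat_lit 19927334003) (nat_lit 76) (nat_lit 7847020109) (nat_lit 3) (nat_lit 4) (nat_lit 4) (nat_lit 5) (nat_lit 4) (nat_lit 4) (nat_lit 308) (nat_lit 236) (nat_lit 176)) (XT.nd (nat_lit 78) (nat_lit 0) (nat_lit 0) (XT.lf (nat_lit 0) (nat_lit 248996440320) (nat_lit 76) (nat_lit 16907466219) (nat_lit 76) (nat_lit 4818226890) (nat_lit 3) (nat_lit 4) (nat_lit 4) (nat_lit 5) (nat_lit 4) (nat_lit 4) (nat_lit 309) (nat_lit 236) (nat_lit 175)) (XT.lf (nat_lit 0) (nat_lit 276826585050) (nat_lit 76) (nat_lit 13651038912) (nat_lit 76) (nat_lit 1553535289) (nat_lit 3) (nat_lit 4) (nat_lit 4) (nat_lit 5) (nat_lit 4) (nat_lit 4) (nat_lit 310) (nat_lit 236) (nat_lit 174))))) (XT.nd (nat_lit 234) (nat_lit 0) (nat_lit 0) (XT.nd (nat_lit 78) (nat_lit 76) (nat_lit 0) (XT.lf (nat_lit 0) (nat_lit 1868033670) (nat_lit 152) (nat_lit 8219645711) (nat_lit 76) (nat_lit 304953891474) (nat_lit 2)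 (nat_lit 5) (nat_lit 4) (nat_lit 5) (nat_lit 3) (nat_lit 4) (nat_lit 311) (nat_lit 236) (nat_lit 173)) (XT.nd (nat_lit 78) (nat_lit 76) (nat_lit 0) (XT.lf (nat_lit 0) (nat_lit 5474180267) (nat_lit 152) (nat_lit 725946090) (nat_lit 76) (nat_lit 333689885434) (nat_lit 2) (nat_lit 5) (nat_lit 4) (nat_lit 5) (nat_lit 3) (nat_lit 4) (nat_lit 312) (nat_lit 236) (nat_lit 172)) (XT.lf (nat_lit 0) (nat_lit 7745769072) (nat_lit 76) (nat_lit 1804505244) (nat_lit 152) (nat_lit 357161543887) (nat_lit 1) (nat_lit 5) (nat_lit 2) (nat_lit 5) (nat_lit 3) (nat_lit 4) (nat_lit 313) (nat_lit 236) (nat_lit 171)))) (XT.nd (nat_lit 156) (nat_lit 0) (nat_lit 0) (XT.nd (nat_lit 78) (nat_lit 0) (nat_lit 0) (XT.lf (nat_lit 0) (nat_lit 14038814034) (nat_lit 152) (nat_lit 378821575626) (nat_lit 0) (nat_lit 2812076988) (nat_lit 1) (nat_lit 5) (nat_lit 3) (nat_lit 4) (nat_lit 1) (nat_lit 4) (nat_lit 314) (nat_lit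 236) (nat_lit 170)) (XT.lf (nat_lit 0) (nat_lit 18928881601) (nat_lit 152) (nat_lit 400320758859) (nat_lit 0) (nat_lit 7696936647) (nat_lit 1) (nat_lit 5) (nat_lit 3) (nat_lit 4) (nat_lit 1) (nat_lit 4) (nat_lit 315) (nat_lit 236) (nat_lit 169))) (XT.nd (nat_lit 78) (nat_lit 0) (nat_lit 0) (XT.lf (nat_lit 0) (nat_lit 24206056799) (nat_lit 152) (nat_lit 423547603004) (nat_lit 0) (nat_lit 12969289711) (nat_lit 1) (nat_lit 5) (nat_lit 3) (nat_lit 4) (nat_lit 1) (nat_lit 4) (nat_lit 316) (nat_lit 236) (nat_lit 168)) (XT.lf (nat_lit 0) (nat_lit 29901611780) (nat_lit 152) (nat_lit 448639748619) (nat_lit 0) (nat_lit 18660379751) (nat_lit 1) (nat_lit 5) (nat_lit 3) (nat_lit 4) (nat_lit 1) (nat_lit 4) (nat_lit 317) (nat_lit 236) (nat_lit 167)))))) (XT.nd (nat_lit 468) (nat_lit 0) (nat_lit 0) (XT.nd (nat_lit 234) (nat_lit 0) (nat_lit 0) (XT.nd (nat_lit 78) (nat_lit 0) (nat_lit 0) (XT.lf (nat_lit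 0) (nat_lit 36049297980) (nat_lit 152) (nat_lit 475745889899) (nat_lit 0) (nat_lit 24803931746) (nat_lit 1) (nat_lit 5) (nat_lit 3) (nat_lit 4) (nat_lit 1) (nat_lit 4) (nat_lit 318) (nat_lit 236) (nat_lit 166)) (XT.nd (nat_lit 78) (nat_lit 0) (nat_lit 0) (XT.lf (nat_lit 0) (nat_lit 42685546131) (nat_lit 152) (nat_lit 505026655831) (nat_lit 0) (nat_lit 31436351931) (nat_lit 1) (nat_lit 5) (nat_lit 3) (nat_lit 4) (nat_lit 1) (nat_lit 4) (nat_lit 319) (nat_lit 236) (nat_lit 165)) (XT.lf (nat_lit 0) (nat_lit 49849682149) (nat_lit 152) (nat_lit 536655562064) (nat_lit 0) (nat_lit 38596943536) (nat_lit 1) (nat_lit 5) (nat_lit 3) (nat_lit 4) (nat_lit 1) (nat_lit 4) (nat_lit 320) (nat_lit 236) (nat_lit 164)))) (XT.nd (nat_lit 78) (nat_lit 0) (nat_lit 0) (XT.lf (nat_lit 0) (nat_lit 57584160174) (nat_lit 152) (nat_lit 570820039153) (nat_lit 0) (nat_lit 46328139696) (nat_lit 1) (nat_lit 5) (nat_lit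 3) (nat_lit 4) (nat_lit 1) (nat_lit 4) (nat_lit 321) (nat_lit 236) (nat_lit 163)) (XT.nd (nat_lit 78) (nat_lit 0) (nat_lit 0) (XT.lf (nat_lit 0) (nat_lit 65934814149) (nat_lit 152) (nat_lit 607722543259) (nat_lit 0) (nat_lit 54675754907) (nat_lit 1) (nat_lit 5) (nat_lit 3) (nat_lit 4) (nat_lit 1) (nat_lit 4) (nat_lit 322) (nat_lit 236) (nat_lit 162)) (XT.lf (nat_lit 0) (nat_lit 74951129430) (nat_lit 152) (nat_lit 647581755889) (nat_lit 0) (nat_lit 63689256519) (nat_lit 1) (nat_lit 5) (nat_lit 3) (nat_lit 4) (nat_lit 1) (nat_lit 4) (nat_lit 323) (nat_lit 236) (nat_lit 161))))) (XT.nd (nat_lit 234) (nat_lit 0) (nat_lit 0) (XT.nd (nat_lit 78) (nat_lit 0) (nat_lit 0) (XT.lf (nat_lit 0) (nat_lit 84686536036) (nat_lit 152) (nat_lit 690633879782) (nat_lit 0) (nat_lit 73422057874) (nat_lit 1) (nat_lit 5) (nat_lit 3) (nat_lit 4) (nat_lit 1) (nat_lit 4) (nat_lit 324) (nat_lit 236) (nat_lit 160))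 (XT.nd (nat_lit 78) (nat_lit 0) (nat_lit 0) (XT.lf (nat_lit 0) (nat_lit 95198725263) (nat_lit 152) (nat_lit 737134038638) (nat_lit 0) (nat_lit 83931834833) (nat_lit 1) (nat_lit 5) (nat_lit 3) (nat_lit 4) (nat_lit 1) (nat_lit 4) (nat_lit 325) (nat_lit 236) (nat_lit 159)) (XT.lf (nat_lit 0) (nat_lit 106549991566) (nat_lit 152) (nat_lit 787357788952) (nat_lit 0) (nat_lit 95280867554) (nat_lit 1) (nat_lit 5) (nat_lit 3) (nat_lit 4) (nat_lit 1) (nat_lit 4) (nat_lit 326) (nat_lit 236) (nat_lit 158)))) (XT.nd (nat_lit 156) (nat_lit 0) (nat_lit 0) (XT.nd (nat_lit 78) (nat_lit 0) (nat_lit 0) (XT.lf (nat_lit 0) (nat_lit 118807601710) (nat_lit 152) (nat_lit 841602752948) (nat_lit 0) (nat_lit 107536409567) (nat_lit 1) (nat_lit 5) (nat_lit 3) (nat_lit 4) (nat_lit 1) (nat_lit 4) (nat_lit 327) (nat_lit 236) (nat_lit 157)) (XT.lf (nat_lit 0) (nat_lit 132044193383) (nat_lit 152) (nat_lit 900190382266)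 (nat_lit 0) (nat_lit 120771086303) (nat_lit 1) (nat_lit 5) (nat_lit 3) (nat_lit 4) (nat_lit 1) (nat_lit 4) (nat_lit 328) (nat_lit 236) (nat_lit 156))) (XT.nd (nat_lit 78) (nat_lit 0) (nat_lit 0) (XT.lf (nat_lit 0) (nat_lit 146338205647) (nat_lit 152) (nat_lit 963467862856) (nat_lit 0) (nat_lit 135063325478) (nat_lit 1) (nat_lit 5) (nat_lit 3) (nat_lit 4) (nat_lit 1) (nat_lit 4) (nat_lit 329) (nat_lit 236) (nat_lit 155)) (XT.lf (nat_lit 0) (nat_lit 161774343760) (nat_lit 152) (nat_lit 1031810172381) (nat_lit 0) (nat_lit 150497821842) (nat_lit 1) (nat_lit 5) (nat_lit 3) (nat_lit 4) (nat_lit 1) (nat_lit 4) (nat_lit 330) (nat_lit 236) (nat_lit 154))))))))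
noncomputable def xc44 : XT := (XT.nd (nat_lit 32058) (nat_lit 0) (nat_lit 228) (XT.nd (nat_lit 31044) (nat_lit 0) (nat_lit 1444) (XT.nd (nat_lit 468) (nat_lit 0) (nat_lit 0) (XT.nd (nat_lit 234) (nat_lit 0) (nat_lit 0) (XT.nd (nat_lit 78) (nat_lit 0) (nat_lit 0) (XT.lf (nat_lit 0) (nat_lit 178444081134) (nat_lit 152) (nat_lit 1105622302306) (nat_lit 0) (nat_lit 167166039078) (nat_lit 1) (nat_lit 5) (nat_lit 3) (nat_lit 4) (nat_lit 1) (nat_lit 4) (nat_lit 331) (nat_lit 236) (nat_lit 153)) (XT.nd (nat_lit 78) (nat_lit 0) (nat_lit 0) (XT.lf (nat_lit 0) (nat_lit 196446201397) (nat_lit 152) (nat_lit 1185341657845) (nat_lit 0) (nat_lit 185166751805) (nat_lit 1) (nat_lit 5) (nat_lit 3) (nat_lit 4) (nat_lit 1) (nat_lit 4) (nat_lit 332) (nat_lit 236) (nat_lit 152)) (XT.lf (nat_lit 0) (nat_lit 215887383780) (nat_lit 152) (nat_lit 1271440649992) (nat_lit 0) (nat_lit 204606630915) (nat_lit 1)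 (nat_lit 5) (nat_lit 3) (nat_lit 4) (nat_lit 1) (nat_lit 4) (nat_lit 333) (nat_lit 236) (nat_lit 151)))) (XT.nd (nat_lit 78) (nat_lit 0) (nat_lit 0) (XT.lf (nat_lit 0) (nat_lit 236882835291) (nat_lit 152) (nat_lit 1364429494999) (nat_lit 0) (nat_lit 225600875690) (nat_lit 1) (nat_lit 5) (nat_lit 3) (nat_lit 4) (nat_lit 1) (nat_lit 4) (nat_lit 334) (nat_lit 236) (nat_lit 150)) (XT.nd (nat_lit 78) (nat_lit 0) (nat_lit 0) (XT.lf (nat_lit 0) (nat_lit 259556973418) (nat_lit 152) (nat_lit 1464859237873) (nat_lit 0) (nat_lit 248273896471) (nat_lit 1) (nat_lit 5) (nat_lit 3) (nat_lit 4) (nat_lit 1) (nat_lit 4) (nat_lit 335) (nat_lit 236) (nat_lit 149)) (XT.lf (nat_lit 0) (nat_lit 284044163426) (nat_lit 152) (nat_lit 1573325017830) (nat_lit 0) (nat_lit 272760051899) (nat_lit 1) (nat_lit 5) (nat_lit 3) (nat_lit 4) (nat_lit 1) (nat_lit 4) (nat_lit 336) (nat_lit 236) (nat_lit 148))))) (XT.nd (nat_lit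 234) (nat_lit 0) (nat_lit 0) (XT.nd (nat_lit 78) (nat_lit 0) (nat_lit 0) (XT.lf (nat_lit 0) (nat_lit 310489514589) (nat_lit 152) (nat_lit 1690469595048) (nat_lit 0) (nat_lit 299204445116) (nat_lit 1) (nat_lit 5) (nat_lit 3) (nat_lit 4) (nat_lit 1) (nat_lit 4) (nat_lit 337) (nat_lit 236) (nat_lit 147)) (XT.nd (nat_lit 78) (nat_lit 0) (nat_lit 0) (XT.lf (nat_lit 0) (nat_lit 339049740098) (nat_lit 152) (nat_lit 1816987159614) (nat_lit 0) (nat_lit 327763783640) (nat_lit 1) (nat_lit 5) (nat_lit 3) (nat_lit 4) (nat_lit 1) (nat_lit 4) (nat_lit 338) (nat_lit 236) (nat_lit 146)) (XT.lf (nat_lit 0) (nat_lit 369894085735) (nat_lit 152) (nat_lit 1953627445245) (nat_lit 0) (nat_lit 358607307993) (nat_lit 1) (nat_lit 5) (nat_lit 3) (nat_lit 4) (nat_lit 1) (nat_lit 4) (nat_lit 339) (nat_lit 236) (nat_lit 145)))) (XT.nd (nat_lit 30186) (nat_lit 0) (nat_lit 3876) (XT.lf (nat_lit 0) (nat_lit 403205332807)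 (nat_lit 152) (nat_lit 2101200172151) (nat_lit 0) (nat_lit 391917794617) (nat_lit 1) (nat_lit 5) (nat_lit 3) (nat_lit 4) (nat_lit 1) (nat_lit 4) (nat_lit 340) (nat_lit 236) (nat_lit 144)) (XT.nd (nat_lit 78) (nat_lit 0) (nat_lit 0) (XT.lf (nat_lit 0) (nat_lit 292335655) (nat_lit 228) (nat_lit 1534269172) (nat_lit 228) (nat_lit 1534269172) (nat_lit 52) (nat_lit 4) (nat_lit 55) (nat_lit 5) (nat_lit 55) (nat_lit 4) (nat_lit 246) (nat_lit 237) (nat_lit 237)) (XT.lf (nat_lit 0) (nat_lit 4631409431) (nat_lit 228) (nat_lit 2074585590) (nat_lit 228) (nat_lit 123427972) (nat_lit 52) (nat_lit 4) (nat_lit 55) (nat_lit 5) (nat_lit 55) (nat_lit 4) (nat_lit 247) (nat_lit 237) (nat_lit 236)))))) (XT.nd (nat_lit 468) (nat_lit 836) (nat_lit 0) (XT.nd (nat_lit 234) (nat_lit 760) (nat_lit 0) (XT.nd (nat_lit 78) (nat_lit 456) (nat_lit 0) (XT.lf (nat_lit 0) (nat_lit 1866217114) (nat_lit 304) (nat_lit 837630075)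 (nat_lit 380) (nat_lit 4253857886) (nat_lit 47) (nat_lit 5) (nat_lit 51) (nat_lit 5) (nat_lit 52) (nat_lit 4) (nat_lit 248) (nat_lit 237) (nat_lit 235)) (XT.nd (nat_lit 78) (nat_lit 456) (nat_lit 0) (XT.lf (nat_lit 0) (nat_lit 5592814205) (nat_lit 380) (nat_lit 953011937) (nat_lit 0) (nat_lit 564491787) (nat_lit 47) (nat_lit 5) (nat_lit 52) (nat_lit 4) (nat_lit 47) (nat_lit 4) (nat_lit 249) (nat_lit 237) (nat_lit 234)) (XT.lf (nat_lit 0) (nat_lit 1252130833) (nat_lit 456) (nat_lit 3858049380) (nat_lit 76) (nat_lit 2172746339) (nat_lit 41) (nat_lit 5) (nat_lit 47) (nat_lit 5) (nat_lit 42) (nat_lit 4) (nat_lit 250) (nat_lit 237) (nat_lit 233)))) (XT.nd (nat_lit 78) (nat_lit 304) (nat_lit 0) (XT.lf (nat_lit 0) (nat_lit 509496521) (nat_lit 456) (nat_lit 3480841519) (nat_lit 532) (nat_lit 3490882318) (nat_lit 35) (nat_lit 5) (nat_lit 41) (nat_lit 5) (nat_lit 42) (nat_lit 4) (nat_lit 251)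 (nat_lit 237) (nat_lit 232)) (XT.nd (nat_lit 78) (nat_lit 304) (nat_lit 0) (XT.lf (nat_lit 0) (nat_lit 5235486143) (nat_lit 456) (nat_lit 1618097037) (nat_lit 532) (nat_lit 850564745) (nat_lit 35) (nat_lit 5) (nat_lit 41) (nat_lit 5) (nat_lit 42) (nat_lit 4) (nat_lit 252) (nat_lit 237) (nat_lit 231)) (XT.lf (nat_lit 0) (nat_lit 1776209255) (nat_lit 304) (nat_lit 5711455676) (nat_lit 76) (nat_lit 464439251) (nat_lit 31) (nat_lit 5) (nat_lit 35) (nat_lit 5) (nat_lit 32) (nat_lit 4) (nat_lit 253) (nat_lit 237) (nat_lit 230))))) (XT.nd (nat_lit 234) (nat_lit 380) (nat_lit 0) (XT.nd (nat_lit 78) (nat_lit 456) (nat_lit 0) (XT.lf (nat_lit 0) (nat_lit 4496657206) (nat_lit 304) (nat_lit 1028988521) (nat_lit 76) (nat_lit 2699116346) (nat_lit 31) (nat_lit 5) (nat_lit 35) (nat_lit 5) (nat_lit 32) (nat_lit 4) (nat_lit 254) (nat_lit 237) (nat_lit 229)) (XT.nd (nat_lit 78) (nat_lit 304) (nat_lit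 0) (XT.lf (nat_lit 0) (nat_lit 4029932786) (nat_lit 152) (nat_lit 3333399809) (nat_lit 228) (nat_lit 1162530550) (nat_lit 29) (nat_lit 5) (nat_lit 31) (nat_lit 5) (nat_lit 32) (nat_lit 4) (nat_lit 255) (nat_lit 237) (nat_lit 228)) (XT.lf (nat_lit 0) (nat_lit 483899135) (nat_lit 228) (nat_lit 918921369) (nat_lit 304) (nat_lit 7455925665) (nat_lit 25) (nat_lit 5) (nat_lit 28) (nat_lit 5) (nat_lit 29) (nat_lit 5) (nat_lit 256) (nat_lit 237) (nat_lit 227)))) (XT.nd (nat_lit 156) (nat_lit 228) (nat_lit 0) (XT.nd (nat_lit 78) (nat_lit 152) (nat_lit 0) (XT.lf (nat_lit 0) (nat_lit 4118296156) (nat_lit 304) (nat_lit 3376026038) (nat_lit 76) (nat_lit 1721634367) (nat_lit 25) (nat_lit 5) (nat_lit 29) (nat_lit 5) (nat_lit 26) (nat_lit 4) (nat_lit 257) (nat_lit 237) (nat_lit 226)) (XT.lf (nat_lit 0) (nat_lit 1898038719) (nat_lit 152) (nat_lit 5075237202) (nat_lit 228) (nat_lit 2635361248) (nat_lit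 23) (nat_lit 5) (nat_lit 25) (nat_lit 5) (nat_lit 26) (nat_lit 4) (nat_lit 258) (nat_lit 237) (nat_lit 225))) (XT.nd (nat_lit 78) (nat_lit 228) (nat_lit 0) (XT.lf (nat_lit 0) (nat_lit 7595240314) (nat_lit 152) (nat_lit 2412789381) (nat_lit 228) (nat_lit 29217173) (nat_lit 23) (nat_lit 5) (nat_lit 25) (nat_lit 5) (nat_lit 26) (nat_lit 4) (nat_lit 259) (nat_lit 237) (nat_lit 224)) (XT.lf (nat_lit 0) (nat_lit 2601157647) (nat_lit 228) (nat_lit 7359023353) (nat_lit 76) (nat_lit 538734596) (nat_lit 20) (nat_lit 5) (nat_lit 23) (nat_lit 5) (nat_lit 21) (nat_lit 4) (nat_lit 260) (nat_lit 237) (nat_lit 223))))))) (XT.nd (nat_lit 1014) (nat_lit 456) (nat_lit 0) (XT.nd (nat_lit 468) (nat_lit 304) (nat_lit 0) (XT.nd (nat_lit 234) (nat_lit 304) (nat_lit 0) (XT.nd (nat_lit 78) (nat_lit 152) (nat_lit 0) (XT.lf (nat_lit 0) (nat_lit 5441542753) (nat_lit 228) (nat_lit 1939297631) (nat_lit 76) (nat_lit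 3617019925) (nat_lit 20) (nat_lit 5) (nat_lit 23) (nat_lit 5) (nat_lit 21) (nat_lit 4) (nat_lit 261) (nat_lit 237) (nat_lit 222)) (XT.nd (nat_lit 78) (nat_lit 0) (nat_lit 0) (XT.lf (nat_lit 0) (nat_lit 3935719811) (nat_lit 152) (nat_lit 4547709577) (nat_lit 228) (nat_lit 3055808724) (nat_lit 18) (nat_lit 5) (nat_lit 20) (nat_lit 5) (nat_lit 21) (nat_lit 4) (nat_lit 262) (nat_lit 237) (nat_lit 221)) (XT.lf (nat_lit 0) (nat_lit 10220295852) (nat_lit 152) (nat_lit 1485822676) (nat_lit 228) (nat_lit 423236641) (nat_lit 18) (nat_lit 5) (nat_lit 20) (nat_lit 5) (nat_lit 21) (nat_lit 4) (nat_lit 263) (nat_lit 237) (nat_lit 220)))) (XT.nd (nat_lit 78) (nat_lit 76) (nat_lit 0) (XT.lf (nat_lit 0) (nat_lit 2337104240) (nat_lit 228) (nat_lit 8579600368) (nat_lit 76) (nat_lit 1842628050) (nat_lit 15) (nat_lit 5) (nat_lit 18) (nat_lit 5) (nat_lit 16) (nat_lit 4) (nat_lit 264) (nat_lit 237) (nat_lit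 219)) (XT.nd (nat_lit 78) (nat_lit 76) (nat_lit 0) (XT.lf (nat_lit 0) (nat_lit 5280393103) (nat_lit 228) (nat_lit 2789871496) (nat_lit 76) (nat_lit 5370102877) (nat_lit 15) (nat_lit 5) (nat_lit 18) (nat_lit 5) (nat_lit 16) (nat_lit 4) (nat_lit 265) (nat_lit 237) (nat_lit 218)) (XT.lf (nat_lit 0) (nat_lit 3482041587) (nat_lit 76) (nat_lit 4961625241) (nat_lit 152) (nat_lit 5733769015) (nat_lit 14) (nat_lit 5) (nat_lit 15) (nat_lit 5) (nat_lit 16) (nat_lit 4) (nat_lit 266) (nat_lit 237) (nat_lit 217))))) (XT.nd (nat_lit 234) (nat_lit 76) (nat_lit 0) (XT.nd (nat_lit 78) (nat_lit 228) (nat_lit 0) (XT.lf (nat_lit 0) (nat_lit 10263118867) (nat_lit 76) (nat_lit 1577654320) (nat_lit 152) (nat_lit 3134524187) (nat_lit 14) (nat_lit 5) (nat_lit 15) (nat_lit 5) (nat_lit 16) (nat_lit 4) (nat_lit 267) (nat_lit 237) (nat_lit 216)) (XT.nd (nat_lit 78) (nat_lit 76) (nat_lit 0) (XT.lf (nat_lit 0) (nat_lit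 1635402322) (nat_lit 152) (nat_lit 13873854098) (nat_lit 152) (nat_lit 328030658) (nat_lit 12) (nat_lit 4) (nat_lit 14) (nat_lit 5) (nat_lit 14) (nat_lit 4) (nat_lit 268) (nat_lit 237) (nat_lit 215)) (XT.lf (nat_lit 0) (nat_lit 2651991622) (nat_lit 228) (nat_lit 8255846803) (nat_lit 76) (nat_lit 5848688817) (nat_lit 11) (nat_lit 5) (nat_lit 14) (nat_lit 5) (nat_lit 12) (nat_lit 4) (nat_lit 269) (nat_lit 237) (nat_lit 214)))) (XT.nd (nat_lit 156) (nat_lit 0) (nat_lit 0) (XT.nd (nat_lit 78) (nat_lit 76) (nat_lit 0) (XT.lf (nat_lit 0) (nat_lit 5770341263) (nat_lit 228) (nat_lit 1979092456) (nat_lit 76) (nat_lit 10005992143) (nat_lit 11) (nat_lit 5) (nat_lit 14) (nat_lit 5) (nat_lit 12) (nat_lit 4) (nat_lit 270) (nat_lit 237) (nat_lit 213)) (XT.lf (nat_lit 0) (nat_lit 4919559291) (nat_lit 76) (nat_lit 4260663023) (nat_lit 152) (nat_lit 9650845910) (nat_lit 10) (nat_lit 5) (nat_lit 11)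 (nat_lit 5) (nat_lit 12) (nat_lit 4) (nat_lit 271) (nat_lit 237) (nat_lit 212))) (XT.nd (nat_lit 78) (nat_lit 0) (nat_lit 0) (XT.lf (nat_lit 0) (nat_lit 12359515156) (nat_lit 76) (nat_lit 483925274) (nat_lit 152) (nat_lit 7151060163) (nat_lit 10) (nat_lit 5) (nat_lit 11) (nat_lit 5) (nat_lit 12) (nat_lit 4) (nat_lit 272) (nat_lit 237) (nat_lit 211)) (XT.lf (nat_lit 0) (nat_lit 16816954657) (nat_lit 152) (nat_lit 1061332103) (nat_lit 0) (nat_lit 3371510531) (nat_lit 10) (nat_lit 5) (nat_lit 12) (nat_lit 4) (nat_lit 10) (nat_lit 4) (nat_lit 273) (nat_lit 237) (nat_lit 210)))))) (XT.nd (nat_lit 468) (nat_lit 228) (nat_lit 0) (XT.nd (nat_lit 234) (nat_lit 76) (nat_lit 0) (XT.nd (nat_lit 78) (nat_lit 76) (nat_lit 0) (XT.lf (nat_lit 0) (nat_lit 6227411217) (nat_lit 76) (nat_lit 14979185084) (nat_lit 76) (nat_lit 1391218053) (nat_lit 9) (nat_lit 4) (nat_lit 10) (nat_lit 5) (nat_lit 10) (nat_lit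 4) (nat_lit 274) (nat_lit 237) (nat_lit 209)) (XT.nd (nat_lit 78) (nat_lit 0) (nat_lit 0) (XT.lf (nat_lit 0) (nat_lit 1765113059) (nat_lit 152) (nat_lit 10048497521) (nat_lit 76) (nat_lit 12239263961) (nat_lit 8) (nat_lit 5) (nat_lit 10) (nat_lit 5) (nat_lit 9) (nat_lit 4) (nat_lit 275) (nat_lit 237) (nat_lit 208)) (XT.lf (nat_lit 0) (nat_lit 5039841064) (nat_lit 152) (nat_lit 3359253690) (nat_lit 76) (nat_lit 17227193859) (nat_lit 8) (nat_lit 5) (nat_lit 10) (nat_lit 5) (nat_lit 9) (nat_lit 4) (nat_lit 276) (nat_lit 237) (nat_lit 207)))) (XT.nd (nat_lit 78) (nat_lit 0) (nat_lit 0) (XT.lf (nat_lit 0) (nat_lit 3968971158) (nat_lit 76) (nat_lit 4648448812) (nat_lit 152) (nat_lit 18705000935) (nat_lit 7) (nat_lit 5) (nat_lit 8) (nat_lit 5) (nat_lit 9) (nat_lit 4) (nat_lit 277) (nat_lit 237) (nat_lit 206)) (XT.nd (nat_lit 78) (nat_lit 0) (nat_lit 0) (XT.lf (nat_lit 0) (nat_lit 11982192760)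 (nat_lit 76) (nat_lit 538102303) (nat_lit 152) (nat_lit 16630927922) (nat_lit 7) (nat_lit 5) (nat_lit 8) (nat_lit 5) (nat_lit 9) (nat_lit 4) (nat_lit 278) (nat_lit 237) (nat_lit 205)) (XT.lf (nat_lit 0) (nat_lit 16779490315) (nat_lit 152) (nat_lit 10672271447) (nat_lit 0) (nat_lit 3671138772) (nat_lit 7) (nat_lit 5) (nat_lit 9) (nat_lit 4) (nat_lit 7) (nat_lit 4) (nat_lit 279) (nat_lit 237) (nat_lit 204))))) (XT.nd (nat_lit 234) (nat_lit 152) (nat_lit 0) (XT.nd (nat_lit 78) (nat_lit 76) (nat_lit 0) (XT.lf (nat_lit 0) (nat_lit 21347350905) (nat_lit 152) (nat_lit 3751779604) (nat_lit 0) (nat_lit 8155838615) (nat_lit 7) (nat_lit 5) (nat_lit 9) (nat_lit 4) (nat_lit 7) (nat_lit 4) (nat_lit 280) (nat_lit 237) (nat_lit 203)) (XT.nd (nat_lit 78) (nat_lit 0) (nat_lit 0) (XT.lf (nat_lit 0) (nat_lit 3838409801) (nat_lit 76) (nat_lit 22491908310) (nat_lit 76) (nat_lit 9223395330) (nat_lit 6) (nat_lit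 4) (nat_lit 7) (nat_lit 5) (nat_lit 7) (nat_lit 4) (nat_lit 281) (nat_lit 237) (nat_lit 202)) (XT.lf (nat_lit 0) (nat_lit 12175149703) (nat_lit 76) (nat_lit 19598094981) (nat_lit 76) (nat_lit 6258285064) (nat_lit 6) (nat_lit 4) (nat_lit 7) (nat_lit 5) (nat_lit 7) (nat_lit 4) (nat_lit 282) (nat_lit 237) (nat_lit 201)))) (XT.nd (nat_lit 156) (nat_lit 76) (nat_lit 0) (XT.nd (nat_lit 78) (nat_lit 76) (nat_lit 0) (XT.lf (nat_lit 0) (nat_lit 21110280939) (nat_lit 76) (nat_lit 16503122300) (nat_lit 76) (nat_lit 3097296701) (nat_lit 6) (nat_lit 4) (nat_lit 7) (nat_lit 5) (nat_lit 7) (nat_lit 4) (nat_lit 283) (nat_lit 237) (nat_lit 200)) (XT.lf (nat_lit 0) (nat_lit 264379770) (nat_lit 152) (nat_lit 12917041308) (nat_lit 76) (nat_lit 30425144053) (nat_lit 5) (nat_lit 5) (nat_lit 7) (nat_lit 5) (nat_lit 6) (nat_lit 4) (nat_lit 284) (nat_lit 237) (nat_lit 199))) (XT.nd (nat_lit 78) (nat_lit 76)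 (nat_lit 0) (XT.lf (nat_lit 0) (nat_lit 3693994027) (nat_lit 152) (nat_lit 5840041459) (nat_lit 76) (nat_lit 37196378539) (nat_lit 5) (nat_lit 5) (nat_lit 7) (nat_lit 5) (nat_lit 6) (nat_lit 4) (nat_lit 285) (nat_lit 237) (nat_lit 198)) (XT.lf (nat_lit 0) (nat_lit 1839002745) (nat_lit 76) (nat_lit 5572034349) (nat_lit 152) (nat_lit 42692142187) (nat_lit 4) (nat_lit 5) (nat_lit 5) (nat_lit 5) (nat_lit 6) (nat_lit 4) (nat_lit 286) (nat_lit 237) (nat_lit 197))))))))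
noncomputable def xc45 : XT := (XT.nd (nat_lit 2028) (nat_lit 76) (nat_lit 0) (XT.nd (nat_lit 1014) (nat_lit 76) (nat_lit 0) (XT.nd (nat_lit 468) (nat_lit 76) (nat_lit 0) (XT.nd (nat_lit 234) (nat_lit 0) (nat_lit 0) (XT.nd (nat_lit 78) (nat_lit 0) (nat_lit 0) (XT.lf (nat_lit 0) (nat_lit 10409809330) (nat_lit 76) (nat_lit 1145136458) (nat_lit 152) (nat_lit 42180509079) (nat_lit 4) (nat_lit 5) (nat_lit 5) (nat_lit 5) (nat_lit 6) (nat_lit 4) (nat_lit 287) (nat_lit 237) (nat_lit 196)) (XT.nd (nat_lit 78) (nat_lit 0) (nat_lit 0) (XT.lf (nat_lit 0) (nat_lit 16089325348) (nat_lit 152) (nat_lit 38131849180) (nat_lit 0) (nat_lit 3432466947) (nat_lit 4) (nat_lit 5) (nat_lit 6) (nat_lit 4) (nat_lit 4) (nat_lit 4) (nat_lit 288) (nat_lit 237) (nat_lit 195)) (XT.lf (nat_lit 0) (nat_lit 20989823494) (nat_lit 152) (nat_lit 32600786735) (nat_lit 0) (nat_lit 8294445577) (nat_lit 4) (nat_lit 5) (nat_lit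 6) (nat_lit 4) (nat_lit 4) (nat_lit 4) (nat_lit 289) (nat_lit 237) (nat_lit 194)))) (XT.nd (nat_lit 78) (nat_lit 0) (nat_lit 0) (XT.lf (nat_lit 0) (nat_lit 26257939656) (nat_lit 152) (nat_lit 26672140976) (nat_lit 0) (nat_lit 13526895519) (nat_lit 4) (nat_lit 5) (nat_lit 6) (nat_lit 4) (nat_lit 4) (nat_lit 4) (nat_lit 290) (nat_lit 237) (nat_lit 193)) (XT.nd (nat_lit 78) (nat_lit 0) (nat_lit 0) (XT.lf (nat_lit 0) (nat_lit 31924892299) (nat_lit 152) (nat_lit 20310779187) (nat_lit 0) (nat_lit 19160823886) (nat_lit 4) (nat_lit 5) (nat_lit 6) (nat_lit 4) (nat_lit 4) (nat_lit 4) (nat_lit 291) (nat_lit 237) (nat_lit 192)) (XT.lf (nat_lit 0) (nat_lit 38024263365) (nat_lit 152) (nat_lit 13479004409) (nat_lit 0) (nat_lit 25229616918) (nat_lit 4) (nat_lit 5) (nat_lit 6) (nat_lit 4) (nat_lit 4) (nat_lit 4) (nat_lit 292) (nat_lit 237) (nat_lit 191))))) (XT.nd (nat_lit 234) (nat_lit 0) (nat_lit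 0) (XT.nd (nat_lit 78) (nat_lit 76) (nat_lit 0) (XT.lf (nat_lit 0) (nat_lit 44592197276) (nat_lit 152) (nat_lit 6136332052) (nat_lit 0) (nat_lit 31769237835) (nat_lit 4) (nat_lit 5) (nat_lit 6) (nat_lit 4) (nat_lit 4) (nat_lit 4) (nat_lit 293) (nat_lit 237) (nat_lit 190)) (XT.nd (nat_lit 78) (nat_lit 0) (nat_lit 0) (XT.lf (nat_lit 0) (nat_lit 1853467991) (nat_lit 76) (nat_lit 49858723079) (nat_lit 76) (nat_lit 37009547902) (nat_lit 3) (nat_lit 4) (nat_lit 4) (nat_lit 5) (nat_lit 4) (nat_lit 4) (nat_lit 294) (nat_lit 237) (nat_lit 189)) (XT.lf (nat_lit 0) (nat_lit 10799262150) (nat_lit 76) (nat_lit 48752905666) (nat_lit 76) (nat_lit 35879456660) (nat_lit 3) (nat_lit 4) (nat_lit 4) (nat_lit 5) (nat_lit 4) (nat_lit 4) (nat_lit 295) (nat_lit 237) (nat_lit 188)))) (XT.nd (nat_lit 156) (nat_lit 0) (nat_lit 0) (XT.nd (nat_lit 78) (nat_lit 0) (nat_lit 0) (XT.lf (nat_lit 0) (nat_lit 20430934166)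 (nat_lit 76) (nat_lit 47572302290) (nat_lit 76) (nat_lit 34676377517) (nat_lit 3) (nat_lit 4) (nat_lit 4) (nat_lit 5) (nat_lit 4) (nat_lit 4) (nat_lit 296) (nat_lit 237) (nat_lit 187)) (XT.lf (nat_lit 0) (nat_lit 30805560613) (nat_lit 76) (nat_lit 46309916784) (nat_lit 76) (nat_lit 33393181114) (nat_lit 3) (nat_lit 4) (nat_lit 4) (nat_lit 5) (nat_lit 4) (nat_lit 4) (nat_lit 297) (nat_lit 237) (nat_lit 186))) (XT.nd (nat_lit 78) (nat_lit 0) (nat_lit 0) (XT.lf (nat_lit 0) (nat_lit 41984620760) (nat_lit 76) (nat_lit 44958268344) (nat_lit 76) (nat_lit 32022263326) (nat_lit 3) (nat_lit 4) (nat_lit 4) (nat_lit 5) (nat_lit 4) (nat_lit 4) (nat_lit 298) (nat_lit 237) (nat_lit 185)) (XT.lf (nat_lit 0) (nat_lit 54034360888) (nat_lit 76) (nat_lit 43509347201) (nat_lit 76) (nat_lit 30555500194) (nat_lit 3) (nat_lit 4) (nat_lit 4) (nat_lit 5) (nat_lit 4) (nat_lit 4) (nat_lit 299) (nat_lit 237) (nat_lit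 184)))))) (XT.nd (nat_lit 468) (nat_lit 76) (nat_lit 0) (XT.nd (nat_lit 234) (nat_lit 0) (nat_lit 0) (XT.nd (nat_lit 78) (nat_lit 0) (nat_lit 0) (XT.lf (nat_lit 0) (nat_lit 67026186866) (nat_lit 76) (nat_lit 41954567157) (nat_lit 76) (nat_lit 28984199790) (nat_lit 3) (nat_lit 4) (nat_lit 4) (nat_lit 5) (nat_lit 4) (nat_lit 4) (nat_lit 300) (nat_lit 237) (nat_lit 183)) (XT.nd (nat_lit 78) (nat_lit 0) (nat_lit 0) (XT.lf (nat_lit 0) (nat_lit 81037087291) (nat_lit 76) (nat_lit 40284714700) (nat_lit 76) (nat_lit 27299050703) (nat_lit 3) (nat_lit 4) (nat_lit 4) (nat_lit 5) (nat_lit 4) (nat_lit 4) (nat_lit 301) (nat_lit 237) (nat_lit 182)) (XT.lf (nat_lit 0) (nat_lit 96150089721) (nat_lit 76) (nat_lit 38489894408) (nat_lit 76) (nat_lit 25490066865) (nat_lit 3) (nat_lit 4) (nat_lit 4) (nat_lit 5) (nat_lit 4) (nat_lit 4) (nat_lit 302) (nat_lit 237) (nat_lit 181)))) (XT.nd (nat_lit 78) (nat_lit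 0) (nat_lit 0) (XT.lf (nat_lit 0) (nat_lit 112454752690) (nat_lit 76) (nat_lit 36559470309) (nat_lit 76) (nat_lit 23546528371) (nat_lit 3) (nat_lit 4) (nat_lit 4) (nat_lit 5) (nat_lit 4) (nat_lit 4) (nat_lit 303) (nat_lit 237) (nat_lit 180)) (XT.nd (nat_lit 78) (nat_lit 0) (nat_lit 0) (XT.lf (nat_lit 0) (nat_lit 130047696423) (nat_lit 76) (nat_lit 34482002853) (nat_lit 76) (nat_lit 21456917957) (nat_lit 3) (nat_lit 4) (nat_lit 4) (nat_lit 5) (nat_lit 4) (nat_lit 4) (nat_lit 304) (nat_lit 237) (nat_lit 179)) (XT.lf (nat_lit 0) (nat_lit 149033175400) (nat_lit 76) (nat_lit 32245181121) (nat_lit 76) (nat_lit 19208852746) (nat_lit 3) (nat_lit 4) (nat_lit 4) (nat_lit 5) (nat_lit 4) (nat_lit 4) (nat_lit 305) (nat_lit 237) (nat_lit 178))))) (XT.nd (nat_lit 234) (nat_lit 76) (nat_lit 0) (XT.nd (nat_lit 78) (nat_lit 0) (nat_lit 0) (XT.lf (nat_lit 0) (nat_lit 169523696165) (nat_lit 76) (nat_lit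 29835749874) (nat_lit 76) (nat_lit 16789010869) (nat_lit 3) (nat_lit 4) (nat_lit 4) (nat_lit 5) (nat_lit 4) (nat_lit 4) (nat_lit 306) (nat_lit 237) (nat_lit 177)) (XT.nd (nat_lit 78) (nat_lit 0) (nat_lit 0) (XT.lf (nat_lit 0) (nat_lit 191640684024) (nat_lit 76) (nat_lit 27239431000) (nat_lit 76) (nat_lit 14183052524) (nat_lit 3) (nat_lit 4) (nat_lit 4) (nat_lit 5) (nat_lit 4) (nat_lit 4) (nat_lit 307) (nat_lit 237) (nat_lit 176)) (XT.lf (nat_lit 0) (nat_lit 215515202611) (nat_lit 76) (nat_lit 24440838906) (nat_lit 76) (nat_lit 11375534994) (nat_lit 3) (nat_lit 4) (nat_lit 4) (nat_lit 5) (nat_lit 4) (nat_lit 4) (nat_lit 308) (nat_lit 237) (nat_lit 175)))) (XT.nd (nat_lit 156) (nat_lit 76) (nat_lit 0) (XT.nd (nat_lit 78) (nat_lit 0) (nat_lit 0) (XT.lf (nat_lit 0) (nat_lit 241288730553) (nat_lit 76) (nat_lit 21423389344) (nat_lit 76) (nat_lit 8349821138) (nat_lit 3) (nat_lit 4) (nat_lit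 4) (nat_lit 5) (nat_lit 4) (nat_lit 4) (nat_lit 309) (nat_lit 237) (nat_lit 174)) (XT.lf (nat_lit 0) (nat_lit 269113999869) (nat_lit 76) (nat_lit 18169201129) (nat_lit 76) (nat_lit 5087980799) (nat_lit 3) (nat_lit 4) (nat_lit 4) (nat_lit 5) (nat_lit 4) (nat_lit 4) (nat_lit 310) (nat_lit 237) (nat_lit 173))) (XT.nd (nat_lit 78) (nat_lit 76) (nat_lit 0) (XT.lf (nat_lit 0) (nat_lit 299155901042) (nat_lit 76) (nat_lit 14658990184) (nat_lit 76) (nat_lit 1570684555) (nat_lit 3) (nat_lit 4) (nat_lit 4) (nat_lit 5) (nat_lit 4) (nat_lit 4) (nat_lit 311) (nat_lit 237) (nat_lit 172)) (XT.lf (nat_lit 0) (nat_lit 2111711829) (nat_lit 152) (nat_lit 8702505486) (nat_lit 76) (nat_lit 329423010381) (nat_lit 2) (nat_lit 5) (nat_lit 4) (nat_lit 5) (nat_lit 3) (nat_lit 4) (nat_lit 312) (nat_lit 237) (nat_lit 171))))))) (XT.nd (nat_lit 1014) (nat_lit 0) (nat_lit 0) (XT.nd (nat_lit 468) (nat_lit 0) (nat_lit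 0) (XT.nd (nat_lit 234) (nat_lit 0) (nat_lit 0) (XT.nd (nat_lit 78) (nat_lit 76) (nat_lit 0) (XT.lf (nat_lit 0) (nat_lit 5999369748) (nat_lit 152) (nat_lit 622251515) (nat_lit 76) (nat_lit 360452490702) (nat_lit 2) (nat_lit 5) (nat_lit 4) (nat_lit 5) (nat_lit 3) (nat_lit 4) (nat_lit 313) (nat_lit 237) (nat_lit 170)) (XT.nd (nat_lit 78) (nat_lit 0) (nat_lit 0) (XT.lf (nat_lit 0) (nat_lit 8523105410) (nat_lit 76) (nat_lit 1875774658) (nat_lit 152) (nat_lit 385643005441) (nat_lit 1) (nat_lit 5) (nat_lit 2) (nat_lit 5) (nat_lit 3) (nat_lit 4) (nat_lit 314) (nat_lit 237) (nat_lit 169)) (XT.lf (nat_lit 0) (nat_lit 15241865126) (nat_lit 152) (nat_lit 408976565451) (nat_lit 0) (nat_lit 3101334534) (nat_lit 1) (nat_lit 5) (nat_lit 3) (nat_lit 4) (nat_lit 1) (nat_lit 4) (nat_lit 315) (nat_lit 237) (nat_lit 168)))) (XT.nd (nat_lit 78) (nat_lit 0) (nat_lit 0) (XT.lf (nat_lit 0) (nat_lit 20517216174)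 (nat_lit 152) (nat_lit 432206848990) (nat_lit 0) (nat_lit 8372220642) (nat_lit 1) (nat_lit 5) (nat_lit 3) (nat_lit 4) (nat_lit 1) (nat_lit 4) (nat_lit 316) (nat_lit 237) (nat_lit 167)) (XT.nd (nat_lit 78) (nat_lit 0) (nat_lit 0) (XT.lf (nat_lit 0) (nat_lit 26211082126) (nat_lit 152) (nat_lit 457302179228) (nat_lit 0) (nat_lit 14061952390) (nat_lit 1) (nat_lit 5) (nat_lit 3) (nat_lit 4) (nat_lit 1) (nat_lit 4) (nat_lit 317) (nat_lit 237) (nat_lit 166)) (XT.lf (nat_lit 0) (nat_lit 32357204410) (nat_lit 152) (nat_lit 484411269233) (nat_lit 0) (nat_lit 20204246707) (nat_lit 1) (nat_lit 5) (nat_lit 3) (nat_lit 4) (nat_lit 1) (nat_lit 4) (nat_lit 318) (nat_lit 237) (nat_lit 165))))) (XT.nd (nat_lit 234) (nat_lit 0) (nat_lit 0) (XT.nd (nat_lit 78) (nat_lit 0) (nat_lit 0) (XT.lf (nat_lit 0) (nat_lit 38992004491) (nat_lit 152) (nat_lit 513694765466) (nat_lit 0) (nat_lit 26835502375) (nat_lit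 1) (nat_lit 5) (nat_lit 3) (nat_lit 4) (nat_lit 1) (nat_lit 4) (nat_lit 319) (nat_lit 237) (nat_lit 164)) (XT.nd (nat_lit 78) (nat_lit 0) (nat_lit 0) (XT.lf (nat_lit 0) (nat_lit 46154799704) (nat_lit 152) (nat_lit 545326199756) (nat_lit 0) (nat_lit 33995015723) (nat_lit 1) (nat_lit 5) (nat_lit 3) (nat_lit 4) (nat_lit 1) (nat_lit 4) (nat_lit 320) (nat_lit 237) (nat_lit 163)) (XT.lf (nat_lit 0) (nat_lit 53888036242) (nat_lit 152) (nat_lit 579493017638) (nat_lit 0) (nat_lit 41725213498) (nat_lit 1) (nat_lit 5) (nat_lit 3) (nat_lit 4) (nat_lit 1) (nat_lit 4) (nat_lit 321) (nat_lit 237) (nat_lit 162)))) (XT.nd (nat_lit 156) (nat_lit 0) (nat_lit 0) (XT.nd (nat_lit 78) (nat_lit 0) (nat_lit 0) (XT.lf (nat_lit 0) (nat_lit 62237540693) (nat_lit 152) (nat_lit 616397689146) (nat_lit 0) (nat_lit 50071904278) (nat_lit 1) (nat_lit 5) (nat_lit 3) (nat_lit 4) (nat_lit 1) (nat_lit 4) (nat_lit 322) (nat_lit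 237) (nat_lit 161)) (XT.lf (nat_lit 0) (nat_lit 71252791600) (nat_lit 152) (nat_lit 656258908628) (nat_lit 0) (nat_lit 59084549936) (nat_lit 1) (nat_lit 5) (nat_lit 3) (nat_lit 4) (nat_lit 1) (nat_lit 4) (nat_lit 323) (nat_lit 237) (nat_lit 160))) (XT.nd (nat_lit 78) (nat_lit 0) (nat_lit 0) (XT.lf (nat_lit 0) (nat_lit 80987212673) (nat_lit 152) (nat_lit 699312890719) (nat_lit 0) (nat_lit 68816558740) (nat_lit 1) (nat_lit 5) (nat_lit 3) (nat_lit 4) (nat_lit 1) (nat_lit 4) (nat_lit 324) (nat_lit 237) (nat_lit 159)) (XT.lf (nat_lit 0) (nat_lit 91498489370) (nat_lit 152) (nat_lit 745814770127) (nat_lit 0) (nat_lit 79325601856) (nat_lit 1) (nat_lit 5) (nat_lit 3) (nat_lit 4) (nat_lit 1) (nat_lit 4) (nat_lit 325) (nat_lit 237) (nat_lit 158)))))) (XT.nd (nat_lit 468) (nat_lit 0) (nat_lit 0) (XT.nd (nat_lit 234) (nat_lit 0) (nat_lit 0) (XT.nd (nat_lit 78) (nat_lit 0) (nat_lit 0) (XT.lf (nat_lit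 0) (nat_lit 102848910739) (nat_lit 152) (nat_lit 796040113546) (nat_lit 0) (nat_lit 90673955093) (nat_lit 1) (nat_lit 5) (nat_lit 3) (nat_lit 4) (nat_lit 1) (nat_lit 4) (nat_lit 326) (nat_lit 237) (nat_lit 157)) (XT.nd (nat_lit 78) (nat_lit 0) (nat_lit 0) (XT.lf (nat_lit 0) (nat_lit 115105738536) (nat_lit 152) (nat_lit 850286552639) (nat_lit 0) (nat_lit 102928867953) (nat_lit 1) (nat_lit 5) (nat_lit 3) (nat_lit 4) (nat_lit 1) (nat_lit 4) (nat_lit 327) (nat_lit 237) (nat_lit 156)) (XT.lf (nat_lit 0) (nat_lit 128341605813) (nat_lit 152) (nat_lit 908875547787) (nat_lit 0) (nat_lit 116162962142) (nat_lit 1) (nat_lit 5) (nat_lit 3) (nat_lit 4) (nat_lit 1) (nat_lit 4) (nat_lit 328) (nat_lit 237) (nat_lit 155)))) (XT.nd (nat_lit 78) (nat_lit 0) (nat_lit 0) (XT.lf (nat_lit 0) (nat_lit 142634947341) (nat_lit 152) (nat_lit 972154293035) (nat_lit 0) (nat_lit 130454661920) (nat_lit 1) (nat_lit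 5) (nat_lit 3) (nat_lit 4) (nat_lit 1) (nat_lit 4) (nat_lit 329) (nat_lit 237) (nat_lit 154)) (XT.nd (nat_lit 78) (nat_lit 0) (nat_lit 0) (XT.lf (nat_lit 0) (nat_lit 158070464402) (nat_lit 152) (nat_lit 1040497773540) (nat_lit 0) (nat_lit 145888658843) (nat_lit 1) (nat_lit 5) (nat_lit 3) (nat_lit 4) (nat_lit 1) (nat_lit 4) (nat_lit 330) (nat_lit 237) (nat_lit 153)) (XT.lf (nat_lit 0) (nat_lit 174739626727) (nat_lit 152) (nat_lit 1114310987705) (nat_lit 0) (nat_lit 162556413633) (nat_lit 1) (nat_lit 5) (nat_lit 3) (nat_lit 4) (nat_lit 1) (nat_lit 4) (nat_lit 331) (nat_lit 237) (nat_lit 152))))) (XT.nd (nat_lit 234) (nat_lit 0) (nat_lit 0) (XT.nd (nat_lit 78) (nat_lit 0) (nat_lit 0) (XT.lf (nat_lit 0) (nat_lit 192741214538) (nat_lit 152) (nat_lit 1194031347169) (nat_lit 0) (nat_lit 180556698170) (nat_lit 1) (nat_lit 5) (nat_lit 3) (nat_lit 4) (nat_lit 1) (nat_lit 4) (nat_lit 332) (nat_lit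 237) (nat_lit 151)) (XT.nd (nat_lit 78) (nat_lit 0) (nat_lit 0) (XT.lf (nat_lit 0) (nat_lit 212181903910) (nat_lit 152) (nat_lit 1280131268878) (nat_lit 0) (nat_lit 199996180807) (nat_lit 1) (nat_lit 5) (nat_lit 3) (nat_lit 4) (nat_lit 1) (nat_lit 4) (nat_lit 333) (nat_lit 237) (nat_lit 150)) (XT.lf (nat_lit 0) (nat_lit 233176898928) (nat_lit 152) (nat_lit 1373120974590) (nat_lit 0) (nat_lit 220990058478) (nat_lit 1) (nat_lit 5) (nat_lit 3) (nat_lit 4) (nat_lit 1) (nat_lit 4) (nat_lit 334) (nat_lit 237) (nat_lit 149)))) (XT.nd (nat_lit 156) (nat_lit 0) (nat_lit 0) (XT.nd (nat_lit 78) (nat_lit 0) (nat_lit 0) (XT.lf (nat_lit 0) (nat_lit 255850614378) (nat_lit 152) (nat_lit 1473551514412) (nat_lit 0) (nat_lit 243662739348) (nat_lit 1) (nat_lit 5) (nat_lit 3) (nat_lit 4) (nat_lit 1) (nat_lit 4) (nat_lit 335) (nat_lit 237) (nat_lit 148)) (XT.lf (nat_lit 0) (nat_lit 280337413018) (nat_lit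 152) (nat_lit 1582018032285) (nat_lit 0) (nat_lit 268148580042) (nat_lit 1) (nat_lit 5) (nat_lit 3) (nat_lit 4) (nat_lit 1) (nat_lit 4) (nat_lit 336) (nat_lit 237) (nat_lit 147))) (XT.nd (nat_lit 78) (nat_lit 0) (nat_lit 0) (XT.lf (nat_lit 0) (nat_lit 306782401802) (nat_lit 152) (nat_lit 1699163292758) (nat_lit 0) (nat_lit 294592681841) (nat_lit 1) (nat_lit 5) (nat_lit 3) (nat_lit 4) (nat_lit 1) (nat_lit 4) (nat_lit 337) (nat_lit 237) (nat_lit 146)) (XT.lf (nat_lit 0) (nat_lit 335342291777) (nat_lit 152) (nat_lit 1825681489969) (nat_lit 0) (nat_lit 323151750532) (nat_lit 1) (nat_lit 5) (nat_lit 3) (nat_lit 4) (nat_lit 1) (nat_lit 4) (nat_lit 338) (nat_lit 237) (nat_lit 145))))))))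
noncomputable def xc46 : XT := (XT.nd (nat_lit 31902) (nat_lit 0) (nat_lit 228) (XT.nd (nat_lit 30888) (nat_lit 0) (nat_lit 1064) (XT.nd (nat_lit 30420) (nat_lit 0) (nat_lit 2280) (XT.nd (nat_lit 30186) (nat_lit 0) (nat_lit 3800) (XT.nd (nat_lit 78) (nat_lit 0) (nat_lit 0) (XT.lf (nat_lit 0) (nat_lit 366186326732) (nat_lit 152) (nat_lit 1962322361381) (nat_lit 0) (nat_lit 353995025040) (nat_lit 1) (nat_lit 5) (nat_lit 3) (nat_lit 4) (nat_lit 1) (nat_lit 4) (nat_lit 339) (nat_lit 237) (nat_lit 144)) (XT.nd (nat_lit 30030) (nat_lit 0) (nat_lit 4332) (XT.lf (nat_lit 0) (nat_lit 399497286137) (nat_lit 152) (nat_lit 2109895630677) (nat_lit 0) (nat_lit 387305280326) (nat_lit 1) (nat_lit 5) (nat_lit 3) (nat_lit 4) (nat_lit 1) (nat_lit 4) (nat_lit 340) (nat_lit 237) (nat_lit 143)) (XT.lf (nat_lit 0) (nat_lit 3192814324) (nat_lit 76) (nat_lit 45244357) (nat_lit 76) (nat_lit 45244357) (nat_lit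 58) (nat_lit 4) (nat_lit 59) (nat_lit 5) (nat_lit 59) (nat_lit 4) (nat_lit 244) (nat_lit 238) (nat_lit 238)))) (XT.nd (nat_lit 78) (nat_lit 304) (nat_lit 0) (XT.lf (nat_lit 0) (nat_lit 2777209504) (nat_lit 228) (nat_lit 3189389565) (nat_lit 0) (nat_lit 669959276) (nat_lit 55) (nat_lit 5) (nat_lit 58) (nat_lit 4) (nat_lit 55) (nat_lit 4) (nat_lit 245) (nat_lit 238) (nat_lit 237)) (XT.nd (nat_lit 78) (nat_lit 76) (nat_lit 0) (XT.lf (nat_lit 0) (nat_lit 483406389) (nat_lit 228) (nat_lit 5153818587) (nat_lit 228) (nat_lit 1095410742) (nat_lit 52) (nat_lit 4) (nat_lit 55) (nat_lit 5) (nat_lit 55) (nat_lit 4) (nat_lit 246) (nat_lit 238) (nat_lit 236)) (XT.lf (nat_lit 0) (nat_lit 1639194915) (nat_lit 304) (nat_lit 2455509845) (nat_lit 76) (nat_lit 2752367284) (nat_lit 51) (nat_lit 5) (nat_lit 55) (nat_lit 5) (nat_lit 52) (nat_lit 4) (nat_lit 247) (nat_lit 238) (nat_lit 235))))) (XT.nd (nat_lit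 234) (nat_lit 760) (nat_lit 0) (XT.nd (nat_lit 78) (nat_lit 456) (nat_lit 0) (XT.lf (nat_lit 0) (nat_lit 1493731830) (nat_lit 304) (nat_lit 2848369260) (nat_lit 380) (nat_lit 2643287922) (nat_lit 47) (nat_lit 5) (nat_lit 51) (nat_lit 5) (nat_lit 52) (nat_lit 4) (nat_lit 248) (nat_lit 238) (nat_lit 234)) (XT.nd (nat_lit 78) (nat_lit 456) (nat_lit 0) (XT.lf (nat_lit 0) (nat_lit 5709231815) (nat_lit 304) (nat_lit 1404211491) (nat_lit 380) (nat_lit 34724834) (nat_lit 47) (nat_lit 5) (nat_lit 51) (nat_lit 5) (nat_lit 52) (nat_lit 4) (nat_lit 249) (nat_lit 238) (nat_lit 233)) (XT.lf (nat_lit 0) (nat_lit 2513380489) (nat_lit 456) (nat_lit 4513732803) (nat_lit 76) (nat_lit 303247370) (nat_lit 41) (nat_lit 5) (nat_lit 47) (nat_lit 5) (nat_lit 42) (nat_lit 4) (nat_lit 250) (nat_lit 238) (nat_lit 232)))) (XT.nd (nat_lit 78) (nat_lit 760) (nat_lit 0) (XT.lf (nat_lit 0) (nat_lit 5145851056) (nat_lit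 456) (nat_lit 267754292) (nat_lit 76) (nat_lit 2124108419) (nat_lit 41) (nat_lit 5) (nat_lit 47) (nat_lit 5) (nat_lit 42) (nat_lit 4) (nat_lit 251) (nat_lit 238) (nat_lit 231)) (XT.nd (nat_lit 78) (nat_lit 228) (nat_lit 0) (XT.lf (nat_lit 0) (nat_lit 137425836) (nat_lit 532) (nat_lit 3421835552) (nat_lit 76) (nat_lit 4209304662) (nat_lit 34) (nat_lit 5) (nat_lit 41) (nat_lit 5) (nat_lit 35) (nat_lit 5) (nat_lit 252) (nat_lit 238) (nat_lit 230)) (XT.lf (nat_lit 0) (nat_lit 1131965127) (nat_lit 228) (nat_lit 1466101715) (nat_lit 304) (nat_lit 5427182311) (nat_lit 31) (nat_lit 5) (nat_lit 34) (nat_lit 5) (nat_lit 35) (nat_lit 5) (nat_lit 253) (nat_lit 238) (nat_lit 229)))))) (XT.nd (nat_lit 468) (nat_lit 608) (nat_lit 0) (XT.nd (nat_lit 234) (nat_lit 380) (nat_lit 0) (XT.nd (nat_lit 78) (nat_lit 228) (nat_lit 0) (XT.lf (nat_lit 0) (nat_lit 5202327908) (nat_lit 304) (nat_lit 2271584388)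 (nat_lit 76) (nat_lit 833730988) (nat_lit 31) (nat_lit 5) (nat_lit 35) (nat_lit 5) (nat_lit 32) (nat_lit 4) (nat_lit 254) (nat_lit 238) (nat_lit 228)) (XT.nd (nat_lit 78) (nat_lit 76) (nat_lit 0) (XT.lf (nat_lit 0) (nat_lit 2628307795) (nat_lit 152) (nat_lit 5332053882) (nat_lit 228) (nat_lit 657482609) (nat_lit 29) (nat_lit 5) (nat_lit 31) (nat_lit 5) (nat_lit 32) (nat_lit 4) (nat_lit 255) (nat_lit 238) (nat_lit 227)) (XT.lf (nat_lit 0) (nat_lit 1797284244) (nat_lit 228) (nat_lit 1136953444) (nat_lit 76) (nat_lit 6022693790) (nat_lit 28) (nat_lit 5) (nat_lit 31) (nat_lit 5) (nat_lit 29) (nat_lit 5) (nat_lit 256) (nat_lit 238) (nat_lit 226)))) (XT.nd (nat_lit 78) (nat_lit 152) (nat_lit 0) (XT.lf (nat_lit 0) (nat_lit 4117688186) (nat_lit 228) (nat_lit 252347793) (nat_lit 304) (nat_lit 4955848165) (nat_lit 25) (nat_lit 5) (nat_lit 28) (nat_lit 5) (nat_lit 29) (nat_lit 5) (nat_lit 257)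 (nat_lit 238) (nat_lit 225)) (XT.nd (nat_lit 78) (nat_lit 152) (nat_lit 0) (XT.lf (nat_lit 0) (nat_lit 7107749618) (nat_lit 304) (nat_lit 110145415) (nat_lit 76) (nat_lit 2510351341) (nat_lit 25) (nat_lit 5) (nat_lit 29) (nat_lit 5) (nat_lit 26) (nat_lit 4) (nat_lit 258) (nat_lit 238) (nat_lit 224)) (XT.lf (nat_lit 0) (nat_lit 5496326479) (nat_lit 152) (nat_lit 4580652083) (nat_lit 228) (nat_lit 85397584) (nat_lit 23) (nat_lit 5) (nat_lit 25) (nat_lit 5) (nat_lit 26) (nat_lit 4) (nat_lit 259) (nat_lit 238) (nat_lit 223))))) (XT.nd (nat_lit 234) (nat_lit 228) (nat_lit 0) (XT.nd (nat_lit 78) (nat_lit 152) (nat_lit 0) (XT.lf (nat_lit 0) (nat_lit 728539577) (nat_lit 152) (nat_lit 1687419216) (nat_lit 228) (nat_lit 8218978893) (nat_lit 20) (nat_lit 5) (nat_lit 22) (nat_lit 5) (nat_lit 23) (nat_lit 5) (nat_lit 260) (nat_lit 238) (nat_lit 222)) (XT.nd (nat_lit 78) (nat_lit 152) (nat_lit 0)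 (XT.lf (nat_lit 0) (nat_lit 5157884775) (nat_lit 228) (nat_lit 4530304809) (nat_lit 76) (nat_lit 1453790299) (nat_lit 20) (nat_lit 5) (nat_lit 23) (nat_lit 5) (nat_lit 21) (nat_lit 4) (nat_lit 261) (nat_lit 238) (nat_lit 221)) (XT.lf (nat_lit 0) (nat_lit 1126191916) (nat_lit 152) (nat_lit 6952420789) (nat_lit 228) (nat_lit 3614642079) (nat_lit 18) (nat_lit 5) (nat_lit 20) (nat_lit 5) (nat_lit 21) (nat_lit 4) (nat_lit 262) (nat_lit 238) (nat_lit 220)))) (XT.nd (nat_lit 156) (nat_lit 0) (nat_lit 0) (XT.nd (nat_lit 78) (nat_lit 228) (nat_lit 0) (XT.lf (nat_lit 0) (nat_lit 7334765297) (nat_lit 152) (nat_lit 3915088781) (nat_lit 228) (nat_lit 1037822844) (nat_lit 18) (nat_lit 5) (nat_lit 20) (nat_lit 5) (nat_lit 21) (nat_lit 4) (nat_lit 263) (nat_lit 238) (nat_lit 219)) (XT.lf (nat_lit 0) (nat_lit 964568251) (nat_lit 152) (nat_lit 614468018) (nat_lit 228) (nat_lit 11353900936) (nat_lit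 15) (nat_lit 5) (nat_lit 17) (nat_lit 5) (nat_lit 18) (nat_lit 5) (nat_lit 264) (nat_lit 238) (nat_lit 218))) (XT.nd (nat_lit 78) (nat_lit 0) (nat_lit 0) (XT.lf (nat_lit 0) (nat_lit 4459844552) (nat_lit 228) (nat_lit 6238467844) (nat_lit 76) (nat_lit 2920808318) (nat_lit 15) (nat_lit 5) (nat_lit 18) (nat_lit 5) (nat_lit 16) (nat_lit 4) (nat_lit 265) (nat_lit 238) (nat_lit 217)) (XT.lf (nat_lit 0) (nat_lit 7495206008) (nat_lit 228) (nat_lit 209819962) (nat_lit 76) (nat_lit 6661535203) (nat_lit 15) (nat_lit 5) (nat_lit 18) (nat_lit 5) (nat_lit 16) (nat_lit 4) (nat_lit 266) (nat_lit 238) (nat_lit 216))))))) (XT.nd (nat_lit 1014) (nat_lit 228) (nat_lit 0) (XT.nd (nat_lit 468) (nat_lit 228) (nat_lit 0) (XT.nd (nat_lit 234) (nat_lit 76) (nat_lit 0) (XT.nd (nat_lit 78) (nat_lit 228) (nat_lit 0) (XT.lf (nat_lit 0) (nat_lit 6492878034) (nat_lit 76) (nat_lit 4351605833) (nat_lit 152) (nat_lit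 4323893925) (nat_lit 14) (nat_lit 5) (nat_lit 15) (nat_lit 5) (nat_lit 16) (nat_lit 4) (nat_lit 267) (nat_lit 238) (nat_lit 215)) (XT.nd (nat_lit 78) (nat_lit 228) (nat_lit 0) (XT.lf (nat_lit 0) (nat_lit 13614050896) (nat_lit 76) (nat_lit 771506085) (nat_lit 152) (nat_lit 1655122592) (nat_lit 14) (nat_lit 5) (nat_lit 15) (nat_lit 5) (nat_lit 16) (nat_lit 4) (nat_lit 268) (nat_lit 238) (nat_lit 214)) (XT.lf (nat_lit 0) (nat_lit 1270109719) (nat_lit 228) (nat_lit 12667499158) (nat_lit 76) (nat_lit 3034660558) (nat_lit 11) (nat_lit 5) (nat_lit 14) (nat_lit 5) (nat_lit 12) (nat_lit 4) (nat_lit 269) (nat_lit 238) (nat_lit 213)))) (XT.nd (nat_lit 78) (nat_lit 76) (nat_lit 0) (XT.lf (nat_lit 0) (nat_lit 4351799706) (nat_lit 228) (nat_lit 6451484824) (nat_lit 76) (nat_lit 7170910974) (nat_lit 11) (nat_lit 5) (nat_lit 14) (nat_lit 5) (nat_lit 12) (nat_lit 4) (nat_lit 270) (nat_lit 238) (nat_lit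 212)) (XT.nd (nat_lit 78) (nat_lit 0) (nat_lit 0) (XT.lf (nat_lit 0) (nat_lit 152456376) (nat_lit 76) (nat_lit 7460631317) (nat_lit 152) (nat_lit 11448725283) (nat_lit 10) (nat_lit 5) (nat_lit 11) (nat_lit 5) (nat_lit 12) (nat_lit 4) (nat_lit 271) (nat_lit 238) (nat_lit 211)) (XT.lf (nat_lit 0) (nat_lit 7537595305) (nat_lit 76) (nat_lit 3705962411) (nat_lit 152) (nat_lit 8984388647) (nat_lit 10) (nat_lit 5) (nat_lit 11) (nat_lit 5) (nat_lit 12) (nat_lit 4) (nat_lit 272) (nat_lit 238) (nat_lit 210))))) (XT.nd (nat_lit 234) (nat_lit 152) (nat_lit 0) (XT.nd (nat_lit 78) (nat_lit 76) (nat_lit 0) (XT.lf (nat_lit 0) (nat_lit 15108768124) (nat_lit 152) (nat_lit 6091973578) (nat_lit 0) (nat_lit 291240824) (nat_lit 10) (nat_lit 5) (nat_lit 12) (nat_lit 4) (nat_lit 10) (nat_lit 4) (nat_lit 273) (nat_lit 238) (nat_lit 209)) (XT.nd (nat_lit 78) (nat_lit 0) (nat_lit 0) (XT.lf (nat_lit 0) (nat_lit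 880434999) (nat_lit 76) (nat_lit 18460848612) (nat_lit 76) (nat_lit 3511355660) (nat_lit 9) (nat_lit 4) (nat_lit 10) (nat_lit 5) (nat_lit 10) (nat_lit 4) (nat_lit 274) (nat_lit 238) (nat_lit 208)) (XT.lf (nat_lit 0) (nat_lit 8658041678) (nat_lit 76) (nat_lit 15363592774) (nat_lit 76) (nat_lit 291909402) (nat_lit 9) (nat_lit 4) (nat_lit 10) (nat_lit 5) (nat_lit 10) (nat_lit 4) (nat_lit 275) (nat_lit 238) (nat_lit 207)))) (XT.nd (nat_lit 156) (nat_lit 76) (nat_lit 0) (XT.nd (nat_lit 78) (nat_lit 0) (nat_lit 0) (XT.lf (nat_lit 0) (nat_lit 2971180136) (nat_lit 152) (nat_lit 9004767965) (nat_lit 76) (nat_lit 13913725979) (nat_lit 8) (nat_lit 5) (nat_lit 10) (nat_lit 5) (nat_lit 9) (nat_lit 4) (nat_lit 276) (nat_lit 238) (nat_lit 206)) (XT.lf (nat_lit 0) (nat_lit 6429008009) (nat_lit 152) (nat_lit 1917244580) (nat_lit 76) (nat_lit 19249185018) (nat_lit 8) (nat_lit 5) (nat_lit 10) (nat_lit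 5) (nat_lit 9) (nat_lit 4) (nat_lit 277) (nat_lit 238) (nat_lit 205))) (XT.nd (nat_lit 78) (nat_lit 0) (nat_lit 0) (XT.lf (nat_lit 0) (nat_lit 5953928144) (nat_lit 76) (nat_lit 4305931508) (nat_lit 152) (nat_lit 19170189272) (nat_lit 7) (nat_lit 5) (nat_lit 8) (nat_lit 5) (nat_lit 9) (nat_lit 4) (nat_lit 278) (nat_lit 238) (nat_lit 204)) (XT.lf (nat_lit 0) (nat_lit 14406300558) (nat_lit 152) (nat_lit 16928183579) (nat_lit 0) (nat_lit 76306539) (nat_lit 7) (nat_lit 5) (nat_lit 9) (nat_lit 4) (nat_lit 7) (nat_lit 4) (nat_lit 279) (nat_lit 238) (nat_lit 203)))))) (XT.nd (nat_lit 468) (nat_lit 76) (nat_lit 0) (XT.nd (nat_lit 234) (nat_lit 76) (nat_lit 0) (XT.nd (nat_lit 78) (nat_lit 76) (nat_lit 0) (XT.lf (nat_lit 0) (nat_lit 18953663033) (nat_lit 152) (nat_lit 10044208365) (nat_lit 0) (nat_lit 4546668323) (nat_lit 7) (nat_lit 5) (nat_lit 9) (nat_lit 4) (nat_lit 7) (nat_lit 4) (nat_lit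 280) (nat_lit 238) (nat_lit 202)) (XT.nd (nat_lit 78) (nat_lit 76) (nat_lit 0) (XT.lf (nat_lit 0) (nat_lit 23825336656) (nat_lit 152) (nat_lit 2679843456) (nat_lit 0) (nat_lit 9347045010) (nat_lit 7) (nat_lit 5) (nat_lit 9) (nat_lit 4) (nat_lit 7) (nat_lit 4) (nat_lit 281) (nat_lit 238) (nat_lit 201)) (XT.lf (nat_lit 0) (nat_lit 5482824936) (nat_lit 76) (nat_lit 23699227738) (nat_lit 76) (nat_lit 9154920410) (nat_lit 6) (nat_lit 4) (nat_lit 7) (nat_lit 5) (nat_lit 7) (nat_lit 4) (nat_lit 282) (nat_lit 238) (nat_lit 200)))) (XT.nd (nat_lit 78) (nat_lit 76) (nat_lit 0) (XT.lf (nat_lit 0) (nat_lit 14387441634) (nat_lit 76) (nat_lit 20617763656) (nat_lit 76) (nat_lit 6012330697) (nat_lit 6) (nat_lit 4) (nat_lit 7) (nat_lit 5) (nat_lit 7) (nat_lit 4) (nat_lit 283) (nat_lit 238) (nat_lit 199)) (XT.nd (nat_lit 78) (nat_lit 76) (nat_lit 0) (XT.lf (nat_lit 0) (nat_lit 23945658928) (nat_lit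 76) (nat_lit 17315799007) (nat_lit 76) (nat_lit 2653768241) (nat_lit 6) (nat_lit 4) (nat_lit 7) (nat_lit 5) (nat_lit 7) (nat_lit 4) (nat_lit 284) (nat_lit 238) (nat_lit 198)) (XT.lf (nat_lit 0) (nat_lit 893613448) (nat_lit 152) (nat_lit 12855720170) (nat_lit 76) (nat_lit 33296071681) (nat_lit 5) (nat_lit 5) (nat_lit 7) (nat_lit 5) (nat_lit 6) (nat_lit 4) (nat_lit 285) (nat_lit 238) (nat_lit 197))))) (XT.nd (nat_lit 234) (nat_lit 0) (nat_lit 0) (XT.nd (nat_lit 78) (nat_lit 76) (nat_lit 0) (XT.lf (nat_lit 0) (nat_lit 4552553639) (nat_lit 152) (nat_lit 5293648070) (nat_lit 76) (nat_lit 40576640770) (nat_lit 5) (nat_lit 5) (nat_lit 7) (nat_lit 5) (nat_lit 6) (nat_lit 4) (nat_lit 286) (nat_lit 238) (nat_lit 196)) (XT.nd (nat_lit 78) (nat_lit 0) (nat_lit 0) (XT.lf (nat_lit 0) (nat_lit 2974058995) (nat_lit 76) (nat_lit 5574954369) (nat_lit 152) (nat_lit 45517922555) (nat_lit 4) (nat_lit 5)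 (nat_lit 5) (nat_lit 5) (nat_lit 6) (nat_lit 4) (nat_lit 287) (nat_lit 238) (nat_lit 195)) (XT.lf (nat_lit 0) (nat_lit 12157349660) (nat_lit 76) (nat_lit 826707811) (nat_lit 152) (nat_lit 45009032206) (nat_lit 4) (nat_lit 5) (nat_lit 5) (nat_lit 5) (nat_lit 6) (nat_lit 4) (nat_lit 288) (nat_lit 238) (nat_lit 194)))) (XT.nd (nat_lit 156) (nat_lit 0) (nat_lit 0) (XT.nd (nat_lit 78) (nat_lit 0) (nat_lit 0) (XT.lf (nat_lit 0) (nat_lit 17852932007) (nat_lit 152) (nat_lit 40306382576) (nat_lit 0) (nat_lit 4067738121) (nat_lit 4) (nat_lit 5) (nat_lit 6) (nat_lit 4) (nat_lit 4) (nat_lit 4) (nat_lit 289) (nat_lit 238) (nat_lit 193)) (XT.lf (nat_lit 0) (nat_lit 23110176625) (nat_lit 152) (nat_lit 34397725101) (nat_lit 0) (nat_lit 9291958462) (nat_lit 4) (nat_lit 5) (nat_lit 6) (nat_lit 4) (nat_lit 4) (nat_lit 4) (nat_lit 290) (nat_lit 238) (nat_lit 192))) (XT.nd (nat_lit 78) (nat_lit 0) (nat_lit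 0) (XT.lf (nat_lit 0) (nat_lit 28767063024) (nat_lit 152) (nat_lit 28054870982) (nat_lit 0) (nat_lit 14918266827) (nat_lit 4) (nat_lit 5) (nat_lit 6) (nat_lit 4) (nat_lit 4) (nat_lit 4) (nat_lit 291) (nat_lit 238) (nat_lit 191)) (XT.lf (nat_lit 0) (nat_lit 34857113493) (nat_lit 152) (nat_lit 21240232937) (nat_lit 0) (nat_lit 20980004302) (nat_lit 4) (nat_lit 5) (nat_lit 6) (nat_lit 4) (nat_lit 4) (nat_lit 4) (nat_lit 292) (nat_lit 238) (nat_lit 190))))))))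
noncomputable def xc47 : XT := (XT.nd (nat_lit 2028) (nat_lit 0) (nat_lit 0) (XT.nd (nat_lit 1014) (nat_lit 152) (nat_lit 0) (XT.nd (nat_lit 468) (nat_lit 0) (nat_lit 0) (XT.nd (nat_lit 234) (nat_lit 0) (nat_lit 0) (XT.nd (nat_lit 78) (nat_lit 76) (nat_lit 0) (XT.lf (nat_lit 0) (nat_lit 41416417222) (nat_lit 152) (nat_lit 13913427925) (nat_lit 0) (nat_lit 27513092296) (nat_lit 4) (nat_lit 5) (nat_lit 6) (nat_lit 4) (nat_lit 4) (nat_lit 4) (nat_lit 293) (nat_lit 238) (nat_lit 189)) (XT.nd (nat_lit 78) (nat_lit 76) (nat_lit 0) (XT.lf (nat_lit 0) (nat_lit 48483844158) (nat_lit 152) (nat_lit 6031037841) (nat_lit 0) (nat_lit 34556245402) (nat_lit 4) (nat_lit 5) (nat_lit 6) (nat_lit 4) (nat_lit 4) (nat_lit 4) (nat_lit 294) (nat_lit 238) (nat_lit 188)) (XT.lf (nat_lit 0) (nat_lit 2582852516) (nat_lit 76) (nat_lit 53580540498) (nat_lit 76) (nat_lit 39630465975) (nat_lit 3) (nat_lit 4) (nat_lit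 4) (nat_lit 5) (nat_lit 4) (nat_lit 4) (nat_lit 295) (nat_lit 238) (nat_lit 187)))) (XT.nd (nat_lit 78) (nat_lit 0) (nat_lit 0) (XT.lf (nat_lit 0) (nat_lit 12201265238) (nat_lit 76) (nat_lit 52406026612) (nat_lit 76) (nat_lit 38435141193) (nat_lit 3) (nat_lit 4) (nat_lit 4) (nat_lit 5) (nat_lit 4) (nat_lit 4) (nat_lit 296) (nat_lit 238) (nat_lit 186)) (XT.nd (nat_lit 78) (nat_lit 0) (nat_lit 0) (XT.lf (nat_lit 0) (nat_lit 22563614562) (nat_lit 76) (nat_lit 51149279523) (nat_lit 76) (nat_lit 37159124755) (nat_lit 3) (nat_lit 4) (nat_lit 4) (nat_lit 5) (nat_lit 4) (nat_lit 4) (nat_lit 297) (nat_lit 238) (nat_lit 185)) (XT.lf (nat_lit 0) (nat_lit 33731307002) (nat_lit 76) (nat_lit 49802851839) (nat_lit 76) (nat_lit 35794855082) (nat_lit 3) (nat_lit 4) (nat_lit 4) (nat_lit 5) (nat_lit 4) (nat_lit 4) (nat_lit 298) (nat_lit 238) (nat_lit 184))))) (XT.nd (nat_lit 234) (nat_lit 0) (nat_lit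 0) (XT.nd (nat_lit 78) (nat_lit 0) (nat_lit 0) (XT.lf (nat_lit 0) (nat_lit 45770521476) (nat_lit 76) (nat_lit 48358764730) (nat_lit 76) (nat_lit 34334247613) (nat_lit 3) (nat_lit 4) (nat_lit 4) (nat_lit 5) (nat_lit 4) (nat_lit 4) (nat_lit 299) (nat_lit 238) (nat_lit 183)) (XT.nd (nat_lit 78) (nat_lit 0) (nat_lit 0) (XT.lf (nat_lit 0) (nat_lit 58752601477) (nat_lit 76) (nat_lit 46808460643) (nat_lit 76) (nat_lit 32768646896) (nat_lit 3) (nat_lit 4) (nat_lit 4) (nat_lit 5) (nat_lit 4) (nat_lit 4) (nat_lit 300) (nat_lit 238) (nat_lit 182)) (XT.lf (nat_lit 0) (nat_lit 72754477850) (nat_lit 76) (nat_lit 45142752590) (nat_lit 76) (nat_lit 31088775297) (nat_lit 3) (nat_lit 4) (nat_lit 4) (nat_lit 5) (nat_lit 4) (nat_lit 4) (nat_lit 301) (nat_lit 238) (nat_lit 181)))) (XT.nd (nat_lit 156) (nat_lit 0) (nat_lit 0) (XT.nd (nat_lit 78) (nat_lit 0) (nat_lit 0) (XT.lf (nat_lit 0) (nat_lit 87859124676)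 (nat_lit 76) (nat_lit 43351769710) (nat_lit 76) (nat_lit 29284678023) (nat_lit 3) (nat_lit 4) (nat_lit 4) (nat_lit 5) (nat_lit 4) (nat_lit 4) (nat_lit 302) (nat_lit 238) (nat_lit 180)) (XT.lf (nat_lit 0) (nat_lit 104156050975) (nat_lit 76) (nat_lit 41424898770) (nat_lit 76) (nat_lit 27345664125) (nat_lit 3) (nat_lit 4) (nat_lit 4) (nat_lit 5) (nat_lit 4) (nat_lit 4) (nat_lit 303) (nat_lit 238) (nat_lit 179))) (XT.nd (nat_lit 78) (nat_lit 0) (nat_lit 0) (XT.lf (nat_lit 0) (nat_lit 121741831124) (nat_lit 76) (nat_lit 39350721276) (nat_lit 76) (nat_lit 25260243151) (nat_lit 3) (nat_lit 4) (nat_lit 4) (nat_lit 5) (nat_lit 4) (nat_lit 4) (nat_lit 304) (nat_lit 238) (nat_lit 178)) (XT.lf (nat_lit 0) (nat_lit 140720677154) (nat_lit 76) (nat_lit 37116945805) (nat_lit 76) (nat_lit 23016057051) (nat_lit 3) (nat_lit 4) (nat_lit 4) (nat_lit 5) (nat_lit 4) (nat_lit 4) (nat_lit 305) (nat_lit 238)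 (nat_lit 177)))))) (XT.nd (nat_lit 468) (nat_lit 152) (nat_lit 0) (XT.nd (nat_lit 234) (nat_lit 0) (nat_lit 0) (XT.nd (nat_lit 78) (nat_lit 0) (nat_lit 0) (XT.lf (nat_lit 0) (nat_lit 161205056300) (nat_lit 76) (nat_lit 34710335170) (nat_lit 76) (nat_lit 20599806944) (nat_lit 3) (nat_lit 4) (nat_lit 4) (nat_lit 5) (nat_lit 4) (nat_lit 4) (nat_lit 306) (nat_lit 238) (nat_lit 176)) (XT.nd (nat_lit 78) (nat_lit 0) (nat_lit 0) (XT.lf (nat_lit 0) (nat_lit 183316357477) (nat_lit 76) (nat_lit 32116627974) (nat_lit 76) (nat_lit 17997174312) (nat_lit 3) (nat_lit 4) (nat_lit 4) (nat_lit 5) (nat_lit 4) (nat_lit 4) (nat_lit 307) (nat_lit 238) (nat_lit 175)) (XT.lf (nat_lit 0) (nat_lit 207185610615) (nat_lit 76) (nat_lit 29320454101) (nat_lit 76) (nat_lit 15192736145) (nat_lit 3) (nat_lit 4) (nat_lit 4) (nat_lit 5) (nat_lit 4) (nat_lit 4) (nat_lit 308) (nat_lit 238) (nat_lit 174)))) (XT.nd (nat_lit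 78) (nat_lit 0) (nat_lit 0) (XT.lf (nat_lit 0) (nat_lit 232954263143) (nat_lit 76) (nat_lit 26305243631) (nat_lit 76) (nat_lit 12169873552) (nat_lit 3) (nat_lit 4) (nat_lit 4) (nat_lit 5) (nat_lit 4) (nat_lit 4) (nat_lit 309) (nat_lit 238) (nat_lit 173)) (XT.nd (nat_lit 78) (nat_lit 0) (nat_lit 0) (XT.lf (nat_lit 0) (nat_lit 260775018186) (nat_lit 76) (nat_lit 23053128650) (nat_lit 76) (nat_lit 8910673272) (nat_lit 3) (nat_lit 4) (nat_lit 4) (nat_lit 5) (nat_lit 4) (nat_lit 4) (nat_lit 310) (nat_lit 238) (nat_lit 172)) (XT.lf (nat_lit 0) (nat_lit 290812739477) (nat_lit 76) (nat_lit 19544837366) (nat_lit 76) (nat_lit 5395821526) (nat_lit 3) (nat_lit 4) (nat_lit 4) (nat_lit 5) (nat_lit 4) (nat_lit 4) (nat_lit 311) (nat_lit 238) (nat_lit 171))))) (XT.nd (nat_lit 234) (nat_lit 76) (nat_lit 0) (XT.nd (nat_lit 78) (nat_lit 76) (nat_lit 0) (XT.lf (nat_lit 0) (nat_lit 323245428328) (nat_lit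 76) (nat_lit 15759579905) (nat_lit 76) (nat_lit 1604489562) (nat_lit 3) (nat_lit 4) (nat_lit 4) (nat_lit 5) (nat_lit 4) (nat_lit 4) (nat_lit 312) (nat_lit 238) (nat_lit 170)) (XT.nd (nat_lit 78) (nat_lit 0) (nat_lit 0) (XT.lf (nat_lit 0) (nat_lit 2361440498) (nat_lit 152) (nat_lit 9248918645) (nat_lit 76) (nat_lit 355839271984) (nat_lit 2) (nat_lit 5) (nat_lit 4) (nat_lit 5) (nat_lit 3) (nat_lit 4) (nat_lit 313) (nat_lit 238) (nat_lit 169)) (XT.lf (nat_lit 0) (nat_lit 6554126479) (nat_lit 152) (nat_lit 533339711) (nat_lit 76) (nat_lit 389346486970) (nat_lit 2) (nat_lit 5) (nat_lit 4) (nat_lit 5) (nat_lit 3) (nat_lit 4) (nat_lit 314) (nat_lit 238) (nat_lit 168)))) (XT.nd (nat_lit 156) (nat_lit 0) (nat_lit 0) (XT.nd (nat_lit 78) (nat_lit 0) (nat_lit 0) (XT.lf (nat_lit 0) (nat_lit 9340134580) (nat_lit 76) (nat_lit 1963172873) (nat_lit 152) (nat_lit 416416031990) (nat_lit 1) (nat_lit 5)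 (nat_lit 2) (nat_lit 5) (nat_lit 3) (nat_lit 4) (nat_lit 315) (nat_lit 238) (nat_lit 167)) (XT.lf (nat_lit 0) (nat_lit 16529755118) (nat_lit 152) (nat_lit 441565458671) (nat_lit 0) (nat_lit 3404560799) (nat_lit 1) (nat_lit 5) (nat_lit 3) (nat_lit 4) (nat_lit 1) (nat_lit 4) (nat_lit 316) (nat_lit 238) (nat_lit 166))) (XT.nd (nat_lit 78) (nat_lit 0) (nat_lit 0) (XT.lf (nat_lit 0) (nat_lit 22222057155) (nat_lit 152) (nat_lit 466663737634) (nat_lit 0) (nat_lit 9093034869) (nat_lit 1) (nat_lit 5) (nat_lit 3) (nat_lit 4) (nat_lit 1) (nat_lit 4) (nat_lit 317) (nat_lit 238) (nat_lit 165)) (XT.lf (nat_lit 0) (nat_lit 28366731369) (nat_lit 152) (nat_lit 493775557941) (nat_lit 0) (nat_lit 15234164670) (nat_lit 1) (nat_lit 5) (nat_lit 3) (nat_lit 4) (nat_lit 1) (nat_lit 4) (nat_lit 318) (nat_lit 238) (nat_lit 164))))))) (XT.nd (nat_lit 1014) (nat_lit 0) (nat_lit 0) (XT.nd (nat_lit 468) (nat_lit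 0) (nat_lit 0) (XT.nd (nat_lit 234) (nat_lit 0) (nat_lit 0) (XT.nd (nat_lit 78) (nat_lit 0) (nat_lit 0) (XT.lf (nat_lit 0) (nat_lit 35000190645) (nat_lit 152) (nat_lit 523061582231) (nat_lit 0) (nat_lit 21864342081) (nat_lit 1) (nat_lit 5) (nat_lit 3) (nat_lit 4) (nat_lit 1) (nat_lit 4) (nat_lit 319) (nat_lit 238) (nat_lit 163)) (XT.nd (nat_lit 78) (nat_lit 0) (nat_lit 0) (XT.lf (nat_lit 0) (nat_lit 42161744372) (nat_lit 152) (nat_lit 554695357313) (nat_lit 0) (nat_lit 29022857044) (nat_lit 1) (nat_lit 5) (nat_lit 3) (nat_lit 4) (nat_lit 1) (nat_lit 4) (nat_lit 320) (nat_lit 238) (nat_lit 162)) (XT.lf (nat_lit 0) (nat_lit 49893831386) (nat_lit 152) (nat_lit 588864342597) (nat_lit 0) (nat_lit 36752130388) (nat_lit 1) (nat_lit 5) (nat_lit 3) (nat_lit 4) (nat_lit 1) (nat_lit 4) (nat_lit 321) (nat_lit 238) (nat_lit 161)))) (XT.nd (nat_lit 78) (nat_lit 0) (nat_lit 0) (XT.lf (nat_lit 0)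 (nat_lit 58242271461) (nat_lit 152) (nat_lit 625771020958) (nat_lit 0) (nat_lit 45097965214) (nat_lit 1) (nat_lit 5) (nat_lit 3) (nat_lit 4) (nat_lit 1) (nat_lit 4) (nat_lit 322) (nat_lit 238) (nat_lit 160)) (XT.nd (nat_lit 78) (nat_lit 0) (nat_lit 0) (XT.lf (nat_lit 0) (nat_lit 67256536836) (nat_lit 152) (nat_lit 665634098637) (nat_lit 0) (nat_lit 54109818321) (nat_lit 1) (nat_lit 5) (nat_lit 3) (nat_lit 4) (nat_lit 1) (nat_lit 4) (nat_lit 323) (nat_lit 238) (nat_lit 159)) (XT.lf (nat_lit 0) (nat_lit 76990045380) (nat_lit 152) (nat_lit 708689801281) (nat_lit 0) (nat_lit 63841093282) (nat_lit 1) (nat_lit 5) (nat_lit 3) (nat_lit 4) (nat_lit 1) (nat_lit 4) (nat_lit 324) (nat_lit 238) (nat_lit 158))))) (XT.nd (nat_lit 234) (nat_lit 0) (nat_lit 0) (XT.nd (nat_lit 78) (nat_lit 0) (nat_lit 0) (XT.lf (nat_lit 0) (nat_lit 87500477142) (nat_lit 152) (nat_lit 755193273794) (nat_lit 0) (nat_lit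 74349456914) (nat_lit 1) (nat_lit 5) (nat_lit 3) (nat_lit 4) (nat_lit 1) (nat_lit 4) (nat_lit 325) (nat_lit 238) (nat_lit 157)) (XT.nd (nat_lit 78) (nat_lit 0) (nat_lit 0) (XT.lf (nat_lit 0) (nat_lit 98850116164) (nat_lit 152) (nat_lit 805420092309) (nat_lit 0) (nat_lit 85697180999) (nat_lit 1) (nat_lit 5) (nat_lit 3) (nat_lit 4) (nat_lit 1) (nat_lit 4) (nat_lit 326) (nat_lit 238) (nat_lit 156)) (XT.lf (nat_lit 0) (nat_lit 111106219565) (nat_lit 152) (nat_lit 859667897233) (nat_lit 0) (nat_lit 97951511311) (nat_lit 1) (nat_lit 5) (nat_lit 3) (nat_lit 4) (nat_lit 1) (nat_lit 4) (nat_lit 327) (nat_lit 238) (nat_lit 155)))) (XT.nd (nat_lit 156) (nat_lit 0) (nat_lit 0) (XT.nd (nat_lit 78) (nat_lit 0) (nat_lit 0) (XT.lf (nat_lit 0) (nat_lit 124341416106) (nat_lit 152) (nat_lit 918258157038) (nat_lit 0) (nat_lit 111185066102) (nat_lit 1) (nat_lit 5) (nat_lit 3) (nat_lit 4) (nat_lit 1) (nat_lit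 4) (nat_lit 328) (nat_lit 238) (nat_lit 154)) (XT.lf (nat_lit 0) (nat_lit 138634136582) (nat_lit 152) (nat_lit 981538073266) (nat_lit 0) (nat_lit 125476266440) (nat_lit 1) (nat_lit 5) (nat_lit 3) (nat_lit 4) (nat_lit 1) (nat_lit 4) (nat_lit 329) (nat_lit 238) (nat_lit 153))) (XT.nd (nat_lit 78) (nat_lit 0) (nat_lit 0) (XT.lf (nat_lit 0) (nat_lit 154069078594) (nat_lit 152) (nat_lit 1049882638011) (nat_lit 0) (nat_lit 140909800917) (nat_lit 1) (nat_lit 5) (nat_lit 3) (nat_lit 4) (nat_lit 1) (nat_lit 4) (nat_lit 330) (nat_lit 238) (nat_lit 152)) (XT.lf (nat_lit 0) (nat_lit 170737708467) (nat_lit 152) (nat_lit 1123696856102) (nat_lit 0) (nat_lit 157577127516) (nat_lit 1) (nat_lit 5) (nat_lit 3) (nat_lit 4) (nat_lit 1) (nat_lit 4) (nat_lit 331) (nat_lit 238) (nat_lit 151)))))) (XT.nd (nat_lit 468) (nat_lit 0) (nat_lit 0) (XT.nd (nat_lit 234) (nat_lit 0) (nat_lit 0) (XT.nd (nat_lit 78)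 (nat_lit 0) (nat_lit 0) (XT.lf (nat_lit 0) (nat_lit 188738803267) (nat_lit 152) (nat_lit 1203418145128) (nat_lit 0) (nat_lit 175577015581) (nat_lit 1) (nat_lit 5) (nat_lit 3) (nat_lit 4) (nat_lit 1) (nat_lit 4) (nat_lit 332) (nat_lit 238) (nat_lit 150)) (XT.nd (nat_lit 78) (nat_lit 0) (nat_lit 0) (XT.lf (nat_lit 0) (nat_lit 208179036147) (nat_lit 152) (nat_lit 1289518927541) (nat_lit 0) (nat_lit 195016131114) (nat_lit 1) (nat_lit 5) (nat_lit 3) (nat_lit 4) (nat_lit 1) (nat_lit 4) (nat_lit 333) (nat_lit 238) (nat_lit 149)) (XT.lf (nat_lit 0) (nat_lit 229173608487) (nat_lit 152) (nat_lit 1382509430202) (nat_lit 0) (nat_lit 216009668874) (nat_lit 1) (nat_lit 5) (nat_lit 3) (nat_lit 4) (nat_lit 1) (nat_lit 4) (nat_lit 334) (nat_lit 238) (nat_lit 148)))) (XT.nd (nat_lit 78) (nat_lit 0) (nat_lit 0) (XT.lf (nat_lit 0) (nat_lit 251846932569) (nat_lit 152) (nat_lit 1482940707940) (nat_lit 0)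 (nat_lit 238682035010) (nat_lit 1) (nat_lit 5) (nat_lit 3) (nat_lit 4) (nat_lit 1) (nat_lit 4) (nat_lit 335) (nat_lit 238) (nat_lit 147)) (XT.nd (nat_lit 78) (nat_lit 0) (nat_lit 0) (XT.lf (nat_lit 0) (nat_lit 276333368830) (nat_lit 152) (nat_lit 1591407909068) (nat_lit 0) (nat_lit 263167584286) (nat_lit 1) (nat_lit 5) (nat_lit 3) (nat_lit 4) (nat_lit 1) (nat_lit 4) (nat_lit 336) (nat_lit 238) (nat_lit 146)) (XT.lf (nat_lit 0) (nat_lit 302778022080) (nat_lit 152) (nat_lit 1708553802185) (nat_lit 0) (nat_lit 289611416252) (nat_lit 1) (nat_lit 5) (nat_lit 3) (nat_lit 4) (nat_lit 1) (nat_lit 4) (nat_lit 337) (nat_lit 238) (nat_lit 145))))) (XT.nd (nat_lit 30030) (nat_lit 0) (nat_lit 4104) (XT.nd (nat_lit 78) (nat_lit 0) (nat_lit 0) (XT.lf (nat_lit 0) (nat_lit 331337601373) (nat_lit 152) (nat_lit 1835072585176) (nat_lit 0) (nat_lit 318170235097) (nat_lit 1) (nat_lit 5) (nat_lit 3) (nat_lit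 4) (nat_lit 1) (nat_lit 4) (nat_lit 338) (nat_lit 238) (nat_lit 144)) (XT.nd (nat_lit 78) (nat_lit 0) (nat_lit 0) (XT.lf (nat_lit 0) (nat_lit 362181348662) (nat_lit 152) (nat_lit 1971713998978) (nat_lit 0) (nat_lit 349013278268) (nat_lit 1) (nat_lit 5) (nat_lit 3) (nat_lit 4) (nat_lit 1) (nat_lit 4) (nat_lit 339) (nat_lit 238) (nat_lit 143)) (XT.lf (nat_lit 0) (nat_lit 395492041707) (nat_lit 152) (nat_lit 2119287770488) (nat_lit 0) (nat_lit 382323319352) (nat_lit 1) (nat_lit 5) (nat_lit 3) (nat_lit 4) (nat_lit 1) (nat_lit 4) (nat_lit 340) (nat_lit 238) (nat_lit 142)))) (XT.nd (nat_lit 156) (nat_lit 228) (nat_lit 0) (XT.nd (nat_lit 78) (nat_lit 76) (nat_lit 0) (XT.lf (nat_lit 0) (nat_lit 1510888615) (nat_lit 76) (nat_lit 213077075) (nat_lit 0) (nat_lit 1510888615) (nat_lit 59) (nat_lit 5) (nat_lit 60) (nat_lit 0) (nat_lit 59) (nat_lit 4) (nat_lit 242) (nat_lit 239) (nat_lit 239)) (XT.lf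 (nat_lit 0) (nat_lit 2878015835) (nat_lit 76) (nat_lit 3045406850) (nat_lit 76) (nat_lit 587510185) (nat_lit 58) (nat_lit 4) (nat_lit 59) (nat_lit 5) (nat_lit 59) (nat_lit 4) (nat_lit 243) (nat_lit 239) (nat_lit 238))) (XT.nd (nat_lit 78) (nat_lit 152) (nat_lit 0) (XT.lf (nat_lit 0) (nat_lit 2119748077) (nat_lit 152) (nat_lit 324650909) (nat_lit 76) (nat_lit 4129102038) (nat_lit 57) (nat_lit 5) (nat_lit 59) (nat_lit 5) (nat_lit 58) (nat_lit 4) (nat_lit 244) (nat_lit 239) (nat_lit 237)) (XT.lf (nat_lit 0) (nat_lit 3227415352) (nat_lit 152) (nat_lit 1613157960) (nat_lit 228) (nat_lit 1815122513) (nat_lit 55) (nat_lit 5) (nat_lit 57) (nat_lit 5) (nat_lit 58) (nat_lit 4) (nat_lit 245) (nat_lit 239) (nat_lit 236))))))))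
noncomputable def xc48 : XT := (XT.nd (nat_lit 1950) (nat_lit 608) (nat_lit 0) (XT.nd (nat_lit 936) (nat_lit 1064) (nat_lit 0) (XT.nd (nat_lit 468) (nat_lit 1216) (nat_lit 0) (XT.nd (nat_lit 234) (nat_lit 456) (nat_lit 0) (XT.nd (nat_lit 78) (nat_lit 304) (nat_lit 0) (XT.lf (nat_lit 0) (nat_lit 142977060) (nat_lit 228) (nat_lit 610070442) (nat_lit 304) (nat_lit 6009646667) (nat_lit 51) (nat_lit 5) (nat_lit 54) (nat_lit 5) (nat_lit 55) (nat_lit 5) (nat_lit 246) (nat_lit 239) (nat_lit 235)) (XT.nd (nat_lit 78) (nat_lit 304) (nat_lit 0) (XT.lf (nat_lit 0) (nat_lit 3308947729) (nat_lit 304) (nat_lit 2931057406) (nat_lit 76) (nat_lit 645747265) (nat_lit 51) (nat_lit 5) (nat_lit 55) (nat_lit 5) (nat_lit 52) (nat_lit 4) (nat_lit 247) (nat_lit 239) (nat_lit 234)) (XT.lf (nat_lit 0) (nat_lit 902119678) (nat_lit 304) (nat_lit 4994361180) (nat_lit 380) (nat_lit 1137574646) (nat_lit 47) (nat_lit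 5) (nat_lit 51) (nat_lit 5) (nat_lit 52) (nat_lit 4) (nat_lit 248) (nat_lit 239) (nat_lit 233)))) (XT.nd (nat_lit 78) (nat_lit 380) (nat_lit 0) (XT.lf (nat_lit 0) (nat_lit 1298573714) (nat_lit 380) (nat_lit 2204725530) (nat_lit 76) (nat_lit 3699259995) (nat_lit 46) (nat_lit 5) (nat_lit 51) (nat_lit 5) (nat_lit 47) (nat_lit 5) (nat_lit 249) (nat_lit 239) (nat_lit 232)) (XT.nd (nat_lit 78) (nat_lit 0) (nat_lit 0) (XT.lf (nat_lit 0) (nat_lit 1930074366) (nat_lit 380) (nat_lit 1794160215) (nat_lit 456) (nat_lit 3670707328) (nat_lit 41) (nat_lit 5) (nat_lit 46) (nat_lit 5) (nat_lit 47) (nat_lit 5) (nat_lit 250) (nat_lit 239) (nat_lit 231)) (XT.lf (nat_lit 0) (nat_lit 6226996999) (nat_lit 456) (nat_lit 1264702688) (nat_lit 76) (nat_lit 121527875) (nat_lit 41) (nat_lit 5) (nat_lit 47) (nat_lit 5) (nat_lit 42) (nat_lit 4) (nat_lit 251) (nat_lit 239) (nat_lit 230))))) (XT.nd (nat_lit 234) (nat_lit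 456) (nat_lit 0) (XT.nd (nat_lit 78) (nat_lit 228) (nat_lit 0) (XT.lf (nat_lit 0) (nat_lit 982000346) (nat_lit 532) (nat_lit 4664000360) (nat_lit 76) (nat_lit 2205481040) (nat_lit 34) (nat_lit 5) (nat_lit 41) (nat_lit 5) (nat_lit 35) (nat_lit 5) (nat_lit 252) (nat_lit 239) (nat_lit 229)) (XT.nd (nat_lit 78) (nat_lit 228) (nat_lit 0) (XT.lf (nat_lit 0) (nat_lit 3336846191) (nat_lit 532) (nat_lit 251691857) (nat_lit 76) (nat_lit 4528531702) (nat_lit 34) (nat_lit 5) (nat_lit 41) (nat_lit 5) (nat_lit 35) (nat_lit 5) (nat_lit 253) (nat_lit 239) (nat_lit 228)) (XT.lf (nat_lit 0) (nat_lit 4579225774) (nat_lit 228) (nat_lit 1259661778) (nat_lit 304) (nat_lit 2569162505) (nat_lit 31) (nat_lit 5) (nat_lit 34) (nat_lit 5) (nat_lit 35) (nat_lit 5) (nat_lit 254) (nat_lit 239) (nat_lit 227)))) (XT.nd (nat_lit 78) (nat_lit 304) (nat_lit 0) (XT.lf (nat_lit 0) (nat_lit 934293405) (nat_lit 152) (nat_lit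 7522209985) (nat_lit 228) (nat_lit 273359437) (nat_lit 29) (nat_lit 5) (nat_lit 31) (nat_lit 5) (nat_lit 32) (nat_lit 4) (nat_lit 255) (nat_lit 239) (nat_lit 226)) (XT.nd (nat_lit 78) (nat_lit 228) (nat_lit 0) (XT.lf (nat_lit 0) (nat_lit 2093968063) (nat_lit 228) (nat_lit 3036385138) (nat_lit 76) (nat_lit 3943640042) (nat_lit 28) (nat_lit 5) (nat_lit 31) (nat_lit 5) (nat_lit 29) (nat_lit 5) (nat_lit 256) (nat_lit 239) (nat_lit 225)) (XT.lf (nat_lit 0) (nat_lit 2036205841) (nat_lit 228) (nat_lit 2517283926) (nat_lit 304) (nat_lit 4898814877) (nat_lit 25) (nat_lit 5) (nat_lit 28) (nat_lit 5) (nat_lit 29) (nat_lit 5) (nat_lit 257) (nat_lit 239) (nat_lit 224)))))) (XT.nd (nat_lit 468) (nat_lit 532) (nat_lit 0) (XT.nd (nat_lit 234) (nat_lit 304) (nat_lit 0) (XT.nd (nat_lit 78) (nat_lit 228) (nat_lit 0) (XT.lf (nat_lit 0) (nat_lit 7176037860) (nat_lit 304) (nat_lit 2344257605) (nat_lit 76)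 (nat_lit 343862740) (nat_lit 25) (nat_lit 5) (nat_lit 29) (nat_lit 5) (nat_lit 26) (nat_lit 4) (nat_lit 258) (nat_lit 239) (nat_lit 223)) (XT.nd (nat_lit 78) (nat_lit 76) (nat_lit 0) (XT.lf (nat_lit 0) (nat_lit 3065931348) (nat_lit 152) (nat_lit 6964686452) (nat_lit 228) (nat_lit 277099584) (nat_lit 23) (nat_lit 5) (nat_lit 25) (nat_lit 5) (nat_lit 26) (nat_lit 4) (nat_lit 259) (nat_lit 239) (nat_lit 222)) (XT.lf (nat_lit 0) (nat_lit 2160915278) (nat_lit 228) (nat_lit 1954982866) (nat_lit 76) (nat_lit 6670804867) (nat_lit 22) (nat_lit 5) (nat_lit 25) (nat_lit 5) (nat_lit 23) (nat_lit 5) (nat_lit 260) (nat_lit 239) (nat_lit 221)))) (XT.nd (nat_lit 78) (nat_lit 152) (nat_lit 0) (XT.lf (nat_lit 0) (nat_lit 3790926725) (nat_lit 152) (nat_lit 972530676) (nat_lit 228) (nat_lit 6541642919) (nat_lit 20) (nat_lit 5) (nat_lit 22) (nat_lit 5) (nat_lit 23) (nat_lit 5) (nat_lit 261) (nat_lit 239)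 (nat_lit 220)) (XT.nd (nat_lit 78) (nat_lit 152) (nat_lit 0) (XT.lf (nat_lit 0) (nat_lit 7584091103) (nat_lit 228) (nat_lit 1962824863) (nat_lit 76) (nat_lit 2317656054) (nat_lit 20) (nat_lit 5) (nat_lit 23) (nat_lit 5) (nat_lit 21) (nat_lit 4) (nat_lit 262) (nat_lit 239) (nat_lit 219)) (XT.lf (nat_lit 0) (nat_lit 4072016807) (nat_lit 152) (nat_lit 6585987080) (nat_lit 228) (nat_lit 1808951800) (nat_lit 18) (nat_lit 5) (nat_lit 20) (nat_lit 5) (nat_lit 21) (nat_lit 4) (nat_lit 263) (nat_lit 239) (nat_lit 218))))) (XT.nd (nat_lit 234) (nat_lit 304) (nat_lit 0) (XT.nd (nat_lit 78) (nat_lit 152) (nat_lit 0) (XT.lf (nat_lit 0) (nat_lit 777876441) (nat_lit 228) (nat_lit 2574866318) (nat_lit 76) (nat_lit 9766595576) (nat_lit 17) (nat_lit 5) (nat_lit 20) (nat_lit 5) (nat_lit 18) (nat_lit 5) (nat_lit 264) (nat_lit 239) (nat_lit 217)) (XT.nd (nat_lit 78) (nat_lit 0) (nat_lit 0) (XT.lf (nat_lit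 0) (nat_lit 3481780420) (nat_lit 228) (nat_lit 10106637010) (nat_lit 76) (nat_lit 231395869) (nat_lit 15) (nat_lit 5) (nat_lit 18) (nat_lit 5) (nat_lit 16) (nat_lit 4) (nat_lit 265) (nat_lit 239) (nat_lit 216)) (XT.lf (nat_lit 0) (nat_lit 6476244575) (nat_lit 228) (nat_lit 4141951518) (nat_lit 76) (nat_lit 3952458258) (nat_lit 15) (nat_lit 5) (nat_lit 18) (nat_lit 5) (nat_lit 16) (nat_lit 4) (nat_lit 266) (nat_lit 239) (nat_lit 215)))) (XT.nd (nat_lit 156) (nat_lit 228) (nat_lit 0) (XT.nd (nat_lit 78) (nat_lit 0) (nat_lit 0) (XT.lf (nat_lit 0) (nat_lit 2291344311) (nat_lit 76) (nat_lit 7395263266) (nat_lit 152) (nat_lit 5697095848) (nat_lit 14) (nat_lit 5) (nat_lit 15) (nat_lit 5) (nat_lit 16) (nat_lit 4) (nat_lit 267) (nat_lit 239) (nat_lit 214)) (XT.lf (nat_lit 0) (nat_lit 9354792091) (nat_lit 76) (nat_lit 3836437466) (nat_lit 152) (nat_lit 3067802171) (nat_lit 14) (nat_lit 5) (nat_lit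 15) (nat_lit 5) (nat_lit 16) (nat_lit 4) (nat_lit 268) (nat_lit 239) (nat_lit 213))) (XT.nd (nat_lit 78) (nat_lit 228) (nat_lit 0) (XT.lf (nat_lit 0) (nat_lit 16872141462) (nat_lit 76) (nat_lit 33877652) (nat_lit 152) (nat_lit 304196040) (nat_lit 14) (nat_lit 5) (nat_lit 15) (nat_lit 5) (nat_lit 16) (nat_lit 4) (nat_lit 269) (nat_lit 239) (nat_lit 212)) (XT.lf (nat_lit 0) (nat_lit 2749171047) (nat_lit 228) (nat_lit 11398649346) (nat_lit 76) (nat_lit 4068476969) (nat_lit 11) (nat_lit 5) (nat_lit 14) (nat_lit 5) (nat_lit 12) (nat_lit 4) (nat_lit 270) (nat_lit 239) (nat_lit 211))))))) (XT.nd (nat_lit 1014) (nat_lit 228) (nat_lit 0) (XT.nd (nat_lit 468) (nat_lit 152) (nat_lit 0) (XT.nd (nat_lit 234) (nat_lit 152) (nat_lit 0) (XT.nd (nat_lit 78) (nat_lit 76) (nat_lit 0) (XT.lf (nat_lit 0) (nat_lit 5975362711) (nat_lit 228) (nat_lit 4854409401) (nat_lit 76) (nat_lit 8477031599) (nat_lit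 11) (nat_lit 5) (nat_lit 14) (nat_lit 5) (nat_lit 12) (nat_lit 4) (nat_lit 271) (nat_lit 239) (nat_lit 210)) (XT.nd (nat_lit 78) (nat_lit 0) (nat_lit 0) (XT.lf (nat_lit 0) (nat_lit 2224348507) (nat_lit 76) (nat_lit 7228265476) (nat_lit 152) (nat_lit 11032655772) (nat_lit 10) (nat_lit 5) (nat_lit 11) (nat_lit 5) (nat_lit 12) (nat_lit 4) (nat_lit 272) (nat_lit 239) (nat_lit 209)) (XT.lf (nat_lit 0) (nat_lit 10047728504) (nat_lit 76) (nat_lit 3234646490) (nat_lit 152) (nat_lit 8469836467) (nat_lit 10) (nat_lit 5) (nat_lit 11) (nat_lit 5) (nat_lit 12) (nat_lit 4) (nat_lit 273) (nat_lit 239) (nat_lit 208)))) (XT.nd (nat_lit 78) (nat_lit 152) (nat_lit 0) (XT.lf (nat_lit 0) (nat_lit 17389504850) (nat_lit 152) (nat_lit 4743562254) (nat_lit 0) (nat_lit 989896389) (nat_lit 10) (nat_lit 5) (nat_lit 12) (nat_lit 4) (nat_lit 10) (nat_lit 4) (nat_lit 274) (nat_lit 239) (nat_lit 207)) (XT.nd (nat_lit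 78) (nat_lit 76) (nat_lit 0) (XT.lf (nat_lit 0) (nat_lit 2740163840) (nat_lit 76) (nat_lit 19184080282) (nat_lit 76) (nat_lit 2671332543) (nat_lit 9) (nat_lit 4) (nat_lit 10) (nat_lit 5) (nat_lit 10) (nat_lit 4) (nat_lit 275) (nat_lit 239) (nat_lit 206)) (XT.lf (nat_lit 0) (nat_lit 686488195) (nat_lit 152) (nat_lit 15189610882) (nat_lit 76) (nat_lit 10302180754) (nat_lit 8) (nat_lit 5) (nat_lit 10) (nat_lit 5) (nat_lit 9) (nat_lit 4) (nat_lit 276) (nat_lit 239) (nat_lit 205))))) (XT.nd (nat_lit 234) (nat_lit 76) (nat_lit 0) (XT.nd (nat_lit 78) (nat_lit 76) (nat_lit 0) (XT.lf (nat_lit 0) (nat_lit 4121818677) (nat_lit 152) (nat_lit 8141122175) (nat_lit 76) (nat_lit 15622949660) (nat_lit 8) (nat_lit 5) (nat_lit 10) (nat_lit 5) (nat_lit 9) (nat_lit 4) (nat_lit 277) (nat_lit 239) (nat_lit 204)) (XT.nd (nat_lit 78) (nat_lit 76) (nat_lit 0) (XT.lf (nat_lit 0) (nat_lit 7788647288) (nat_lit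 152) (nat_lit 603932269) (nat_lit 76) (nat_lit 21341087969) (nat_lit 8) (nat_lit 5) (nat_lit 10) (nat_lit 5) (nat_lit 9) (nat_lit 4) (nat_lit 278) (nat_lit 239) (nat_lit 203)) (XT.lf (nat_lit 0) (nat_lit 7859802833) (nat_lit 76) (nat_lit 4037928998) (nat_lit 152) (nat_lit 19819706560) (nat_lit 7) (nat_lit 5) (nat_lit 8) (nat_lit 5) (nat_lit 9) (nat_lit 4) (nat_lit 279) (nat_lit 239) (nat_lit 202)))) (XT.nd (nat_lit 156) (nat_lit 76) (nat_lit 0) (XT.nd (nat_lit 78) (nat_lit 0) (nat_lit 0) (XT.lf (nat_lit 0) (nat_lit 16329002281) (nat_lit 152) (nat_lit 16910359749) (nat_lit 0) (nat_lit 621150367) (nat_lit 7) (nat_lit 5) (nat_lit 9) (nat_lit 4) (nat_lit 7) (nat_lit 4) (nat_lit 280) (nat_lit 239) (nat_lit 201)) (XT.lf (nat_lit 0) (nat_lit 21183102075) (nat_lit 152) (nat_lit 9577301963) (nat_lit 0) (nat_lit 5409234479) (nat_lit 7) (nat_lit 5) (nat_lit 9) (nat_lit 4) (nat_lit 7) (nat_lit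 4) (nat_lit 281) (nat_lit 239) (nat_lit 200))) (XT.nd (nat_lit 78) (nat_lit 76) (nat_lit 0) (XT.lf (nat_lit 0) (nat_lit 26391683958) (nat_lit 152) (nat_lit 1717894756) (nat_lit 0) (nat_lit 10556690731) (nat_lit 7) (nat_lit 5) (nat_lit 9) (nat_lit 4) (nat_lit 7) (nat_lit 4) (nat_lit 282) (nat_lit 239) (nat_lit 199)) (XT.lf (nat_lit 0) (nat_lit 7068006445) (nat_lit 76) (nat_lit 25087592881) (nat_lit 76) (nat_lit 9196001847) (nat_lit 6) (nat_lit 4) (nat_lit 7) (nat_lit 5) (nat_lit 7) (nat_lit 4) (nat_lit 283) (nat_lit 239) (nat_lit 198)))))) (XT.nd (nat_lit 468) (nat_lit 76) (nat_lit 0) (XT.nd (nat_lit 234) (nat_lit 76) (nat_lit 0) (XT.nd (nat_lit 78) (nat_lit 76) (nat_lit 0) (XT.lf (nat_lit 0) (nat_lit 16600062441) (nat_lit 76) (nat_lit 21797209678) (nat_lit 76) (nat_lit 5853213267) (nat_lit 6) (nat_lit 4) (nat_lit 7) (nat_lit 5) (nat_lit 7) (nat_lit 4) (nat_lit 284) (nat_lit 239) (nat_lit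 197)) (XT.nd (nat_lit 78) (nat_lit 76) (nat_lit 0) (XT.lf (nat_lit 0) (nat_lit 26844298194) (nat_lit 76) (nat_lit 18265900825) (nat_lit 76) (nat_lit 2273380917) (nat_lit 6) (nat_lit 4) (nat_lit 7) (nat_lit 5) (nat_lit 7) (nat_lit 4) (nat_lit 285) (nat_lit 239) (nat_lit 196)) (XT.lf (nat_lit 0) (nat_lit 1486435940) (nat_lit 152) (nat_lit 12945662314) (nat_lit 76) (nat_lit 36334342553) (nat_lit 5) (nat_lit 5) (nat_lit 7) (nat_lit 5) (nat_lit 6) (nat_lit 4) (nat_lit 286) (nat_lit 239) (nat_lit 195)))) (XT.nd (nat_lit 78) (nat_lit 76) (nat_lit 0) (XT.lf (nat_lit 0) (nat_lit 5399474056) (nat_lit 152) (nat_lit 4848144111) (nat_lit 76) (nat_lit 44169610122) (nat_lit 5) (nat_lit 5) (nat_lit 7) (nat_lit 5) (nat_lit 6) (nat_lit 4) (nat_lit 287) (nat_lit 239) (nat_lit 194)) (XT.nd (nat_lit 78) (nat_lit 0) (nat_lit 0) (XT.lf (nat_lit 0) (nat_lit 4058979625) (nat_lit 76) (nat_lit 5641284456) (nat_lit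 152) (nat_lit 48653877100) (nat_lit 4) (nat_lit 5) (nat_lit 5) (nat_lit 5) (nat_lit 6) (nat_lit 4) (nat_lit 288) (nat_lit 239) (nat_lit 193)) (XT.lf (nat_lit 0) (nat_lit 13914193105) (nat_lit 76) (nat_lit 541301600) (nat_lit 152) (nat_lit 48141718431) (nat_lit 4) (nat_lit 5) (nat_lit 5) (nat_lit 5) (nat_lit 6) (nat_lit 4) (nat_lit 289) (nat_lit 239) (nat_lit 192))))) (XT.nd (nat_lit 234) (nat_lit 76) (nat_lit 0) (XT.nd (nat_lit 78) (nat_lit 0) (nat_lit 0) (XT.lf (nat_lit 0) (nat_lit 19689654763) (nat_lit 152) (nat_lit 42779851911) (nat_lit 0) (nat_lit 4702376837) (nat_lit 4) (nat_lit 5) (nat_lit 6) (nat_lit 4) (nat_lit 4) (nat_lit 4) (nat_lit 290) (nat_lit 239) (nat_lit 191)) (XT.nd (nat_lit 78) (nat_lit 0) (nat_lit 0) (XT.lf (nat_lit 0) (nat_lit 25337220565) (nat_lit 152) (nat_lit 36454134525) (nat_lit 0) (nat_lit 10321629645) (nat_lit 4) (nat_lit 5) (nat_lit 6) (nat_lit 4) (nat_lit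 4) (nat_lit 4) (nat_lit 291) (nat_lit 239) (nat_lit 190)) (XT.lf (nat_lit 0) (nat_lit 31418640853) (nat_lit 152) (nat_lit 29655363824) (nat_lit 0) (nat_lit 16376834197) (nat_lit 4) (nat_lit 5) (nat_lit 6) (nat_lit 4) (nat_lit 4) (nat_lit 4) (nat_lit 292) (nat_lit 239) (nat_lit 189)))) (XT.nd (nat_lit 156) (nat_lit 76) (nat_lit 0) (XT.nd (nat_lit 78) (nat_lit 0) (nat_lit 0) (XT.lf (nat_lit 0) (nat_lit 37969953672) (nat_lit 152) (nat_lit 22343250797) (nat_lit 0) (nat_lit 22903873187) (nat_lit 4) (nat_lit 5) (nat_lit 6) (nat_lit 4) (nat_lit 4) (nat_lit 4) (nat_lit 293) (nat_lit 239) (nat_lit 188)) (XT.lf (nat_lit 0) (nat_lit 45029981618) (nat_lit 152) (nat_lit 14474464404) (nat_lit 0) (nat_lit 29941425365) (nat_lit 4) (nat_lit 5) (nat_lit 6) (nat_lit 4) (nat_lit 4) (nat_lit 4) (nat_lit 294) (nat_lit 239) (nat_lit 187))) (XT.nd (nat_lit 78) (nat_lit 76) (nat_lit 0) (XT.lf (nat_lit 0) (nat_lit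 52640561892) (nat_lit 152) (nat_lit 6002374799) (nat_lit 0) (nat_lit 37531194743) (nat_lit 4) (nat_lit 5) (nat_lit 6) (nat_lit 4) (nat_lit 4) (nat_lit 4) (nat_lit 295) (nat_lit 239) (nat_lit 186)) (XT.lf (nat_lit 0) (nat_lit 3287686379) (nat_lit 76) (nat_lit 57638176787) (nat_lit 76) (nat_lit 42509540290) (nat_lit 3) (nat_lit 4) (nat_lit 4) (nat_lit 5) (nat_lit 4) (nat_lit 4) (nat_lit 296) (nat_lit 239) (nat_lit 185))))))))
noncomputable def xc49 : XT := (XT.nd (nat_lit 2028) (nat_lit 0) (nat_lit 0) (XT.nd (nat_lit 1014) (nat_lit 152) (nat_lit 0) (XT.nd (nat_lit 468) (nat_lit 0) (nat_lit 0) (XT.nd (nat_lit 234) (nat_lit 0) (nat_lit 0) (XT.nd (nat_lit 78) (nat_lit 0) (nat_lit 0) (XT.lf (nat_lit 0) (nat_lit 13638667997) (nat_lit 76) (nat_lit 56386650454) (nat_lit 76) (nat_lit 41240171967) (nat_lit 3) (nat_lit 4) (nat_lit 4) (nat_lit 5) (nat_lit 4) (nat_lit 4) (nat_lit 297) (nat_lit 239)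 (nat_lit 184)) (XT.nd (nat_lit 78) (nat_lit 0) (nat_lit 0) (XT.lf (nat_lit 0) (nat_lit 24795834782) (nat_lit 76) (nat_lit 55045056803) (nat_lit 76) (nat_lit 39882057957) (nat_lit 3) (nat_lit 4) (nat_lit 4) (nat_lit 5) (nat_lit 4) (nat_lit 4) (nat_lit 298) (nat_lit 239) (nat_lit 183)) (XT.lf (nat_lit 0) (nat_lit 36825303280) (nat_lit 76) (nat_lit 53605445651) (nat_lit 76) (nat_lit 38427150175) (nat_lit 3) (nat_lit 4) (nat_lit 4) (nat_lit 5) (nat_lit 4) (nat_lit 4) (nat_lit 299) (nat_lit 239) (nat_lit 182)))) (XT.nd (nat_lit 78) (nat_lit 0) (nat_lit 0) (XT.lf (nat_lit 0) (nat_lit 49798359229) (nat_lit 76) (nat_lit 52059285969) (nat_lit 76) (nat_lit 36866826946) (nat_lit 3) (nat_lit 4) (nat_lit 4) (nat_lit 5) (nat_lit 4) (nat_lit 4) (nat_lit 300) (nat_lit 239) (nat_lit 181)) (XT.nd (nat_lit 78) (nat_lit 0) (nat_lit 0) (XT.lf (nat_lit 0) (nat_lit 63791879998) (nat_lit 76) (nat_lit 50397415328)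 (nat_lit 76) (nat_lit 35191841911) (nat_lit 3) (nat_lit 4) (nat_lit 4) (nat_lit 5) (nat_lit 4) (nat_lit 4) (nat_lit 301) (nat_lit 239) (nat_lit 180)) (XT.lf (nat_lit 0) (nat_lit 78888790154) (nat_lit 76) (nat_lit 48609985607) (nat_lit 76) (nat_lit 33392269232) (nat_lit 3) (nat_lit 4) (nat_lit 4) (nat_lit 5) (nat_lit 4) (nat_lit 4) (nat_lit 302) (nat_lit 239) (nat_lit 179))))) (XT.nd (nat_lit 234) (nat_lit 0) (nat_lit 0) (XT.nd (nat_lit 78) (nat_lit 0) (nat_lit 0) (XT.lf (nat_lit 0) (nat_lit 95178552870) (nat_lit 76) (nat_lit 46686404629) (nat_lit 76) (nat_lit 31457444774) (nat_lit 3) (nat_lit 4) (nat_lit 4) (nat_lit 5) (nat_lit 4) (nat_lit 4) (nat_lit 303) (nat_lit 239) (nat_lit 178)) (XT.nd (nat_lit 78) (nat_lit 0) (nat_lit 0) (XT.lf (nat_lit 0) (nat_lit 112757700071) (nat_lit 76) (nat_lit 44615273396) (nat_lit 76) (nat_lit 29375902912) (nat_lit 3) (nat_lit 4) (nat_lit 4) (nat_lit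 5) (nat_lit 4) (nat_lit 4) (nat_lit 304) (nat_lit 239) (nat_lit 177)) (XT.lf (nat_lit 0) (nat_lit 131730404483) (nat_lit 76) (nat_lit 42384318537) (nat_lit 76) (nat_lit 27135308581) (nat_lit 3) (nat_lit 4) (nat_lit 4) (nat_lit 5) (nat_lit 4) (nat_lit 4) (nat_lit 305) (nat_lit 239) (nat_lit 176)))) (XT.nd (nat_lit 156) (nat_lit 0) (nat_lit 0) (XT.nd (nat_lit 78) (nat_lit 0) (nat_lit 0) (XT.lf (nat_lit 0) (nat_lit 152209096945) (nat_lit 76) (nat_lit 39980319580) (nat_lit 76) (nat_lit 24722384188) (nat_lit 3) (nat_lit 4) (nat_lit 4) (nat_lit 5) (nat_lit 4) (nat_lit 4) (nat_lit 306) (nat_lit 239) (nat_lit 175)) (XT.lf (nat_lit 0) (nat_lit 174315132674) (nat_lit 76) (nat_lit 37389030604) (nat_lit 76) (nat_lit 22122830919) (nat_lit 3) (nat_lit 4) (nat_lit 4) (nat_lit 5) (nat_lit 4) (nat_lit 4) (nat_lit 307) (nat_lit 239) (nat_lit 174))) (XT.nd (nat_lit 78) (nat_lit 0) (nat_lit 0) (XT.lf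 (nat_lit 0) (nat_lit 198179510398) (nat_lit 76) (nat_lit 34595095824) (nat_lit 76) (nat_lit 19321244015) (nat_lit 3) (nat_lit 4) (nat_lit 4) (nat_lit 5) (nat_lit 4) (nat_lit 4) (nat_lit 308) (nat_lit 239) (nat_lit 173)) (XT.lf (nat_lit 0) (nat_lit 223943648653) (nat_lit 76) (nat_lit 31581958588) (nat_lit 76) (nat_lit 16301021480) (nat_lit 3) (nat_lit 4) (nat_lit 4) (nat_lit 5) (nat_lit 4) (nat_lit 4) (nat_lit 309) (nat_lit 239) (nat_lit 172)))))) (XT.nd (nat_lit 468) (nat_lit 76) (nat_lit 0) (XT.nd (nat_lit 234) (nat_lit 76) (nat_lit 0) (XT.nd (nat_lit 78) (nat_lit 0) (nat_lit 0) (XT.lf (nat_lit 0) (nat_lit 251760223813) (nat_lit 76) (nat_lit 28331763268) (nat_lit 76) (nat_lit 13044265698) (nat_lit 3) (nat_lit 4) (nat_lit 4) (nat_lit 5) (nat_lit 4) (nat_lit 4) (nat_lit 310) (nat_lit 239) (nat_lit 171)) (XT.nd (nat_lit 78) (nat_lit 0) (nat_lit 0) (XT.lf (nat_lit 0) (nat_lit 281794074843)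 (nat_lit 76) (nat_lit 24825249449) (nat_lit 76) (nat_lit 9531677376) (nat_lit 3) (nat_lit 4) (nat_lit 4) (nat_lit 5) (nat_lit 4) (nat_lit 4) (nat_lit 311) (nat_lit 239) (nat_lit 170)) (XT.lf (nat_lit 0) (nat_lit 314223180119) (nat_lit 76) (nat_lit 21041637788) (nat_lit 76) (nat_lit 5742441176) (nat_lit 3) (nat_lit 4) (nat_lit 4) (nat_lit 5) (nat_lit 4) (nat_lit 4) (nat_lit 312) (nat_lit 239) (nat_lit 169)))) (XT.nd (nat_lit 78) (nat_lit 76) (nat_lit 0) (XT.lf (nat_lit 0) (nat_lit 349239712116) (nat_lit 76) (nat_lit 16958506883) (nat_lit 76) (nat_lit 1654102365) (nat_lit 3) (nat_lit 4) (nat_lit 4) (nat_lit 5) (nat_lit 4) (nat_lit 4) (nat_lit 313) (nat_lit 239) (nat_lit 168)) (XT.nd (nat_lit 78) (nat_lit 0) (nat_lit 0) (XT.lf (nat_lit 0) (nat_lit 2619621618) (nat_lit 152) (nat_lit 9860413688) (nat_lit 76) (nat_lit 384359929494) (nat_lit 2) (nat_lit 5) (nat_lit 4) (nat_lit 5) (nat_lit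 3) (nat_lit 4) (nat_lit 314) (nat_lit 239) (nat_lit 167)) (XT.lf (nat_lit 0) (nat_lit 7142591671) (nat_lit 152) (nat_lit 457100916) (nat_lit 76) (nat_lit 420543757549) (nat_lit 2) (nat_lit 5) (nat_lit 4) (nat_lit 5) (nat_lit 3) (nat_lit 4) (nat_lit 315) (nat_lit 239) (nat_lit 166))))) (XT.nd (nat_lit 234) (nat_lit 0) (nat_lit 0) (XT.nd (nat_lit 78) (nat_lit 0) (nat_lit 0) (XT.lf (nat_lit 0) (nat_lit 10203241041) (nat_lit 76) (nat_lit 2066502631) (nat_lit 152) (nat_lit 449662087281) (nat_lit 1) (nat_lit 5) (nat_lit 2) (nat_lit 5) (nat_lit 3) (nat_lit 4) (nat_lit 316) (nat_lit 239) (nat_lit 165)) (XT.nd (nat_lit 78) (nat_lit 0) (nat_lit 0) (XT.lf (nat_lit 0) (nat_lit 17910898201) (nat_lit 152) (nat_lit 476779899739) (nat_lit 0) (nat_lit 3724181752) (nat_lit 1) (nat_lit 5) (nat_lit 3) (nat_lit 4) (nat_lit 1) (nat_lit 4) (nat_lit 317) (nat_lit 239) (nat_lit 164)) (XT.lf (nat_lit 0) (nat_lit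 24054231610) (nat_lit 152) (nat_lit 503894248103) (nat_lit 0) (nat_lit 9864233296) (nat_lit 1) (nat_lit 5) (nat_lit 3) (nat_lit 4) (nat_lit 1) (nat_lit 4) (nat_lit 318) (nat_lit 239) (nat_lit 163)))) (XT.nd (nat_lit 156) (nat_lit 0) (nat_lit 0) (XT.nd (nat_lit 78) (nat_lit 0) (nat_lit 0) (XT.lf (nat_lit 0) (nat_lit 30686449400) (nat_lit 152) (nat_lit 533182613186) (nat_lit 0) (nat_lit 16493412323) (nat_lit 1) (nat_lit 5) (nat_lit 3) (nat_lit 4) (nat_lit 1) (nat_lit 4) (nat_lit 319) (nat_lit 239) (nat_lit 162)) (XT.lf (nat_lit 0) (nat_lit 37846853602) (nat_lit 152) (nat_lit 564818555670) (nat_lit 0) (nat_lit 23651002855) (nat_lit 1) (nat_lit 5) (nat_lit 3) (nat_lit 4) (nat_lit 1) (nat_lit 4) (nat_lit 320) (nat_lit 239) (nat_lit 161))) (XT.nd (nat_lit 78) (nat_lit 0) (nat_lit 0) (XT.lf (nat_lit 0) (nat_lit 45577876241) (nat_lit 152) (nat_lit 598989547807) (nat_lit 0) (nat_lit 31379420244)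 (nat_lit 1) (nat_lit 5) (nat_lit 3) (nat_lit 4) (nat_lit 1) (nat_lit 4) (nat_lit 321) (nat_lit 239) (nat_lit 160)) (XT.lf (nat_lit 0) (nat_lit 53925330785) (nat_lit 152) (nat_lit 635898084364) (nat_lit 0) (nat_lit 39724462519) (nat_lit 1) (nat_lit 5) (nat_lit 3) (nat_lit 4) (nat_lit 1) (nat_lit 4) (nat_lit 322) (nat_lit 239) (nat_lit 159))))))) (XT.nd (nat_lit 1014) (nat_lit 0) (nat_lit 0) (XT.nd (nat_lit 468) (nat_lit 0) (nat_lit 0) (XT.nd (nat_lit 234) (nat_lit 0) (nat_lit 0) (XT.nd (nat_lit 78) (nat_lit 0) (nat_lit 0) (XT.lf (nat_lit 0) (nat_lit 62938683630) (nat_lit 152) (nat_lit 675762882597) (nat_lit 0) (nat_lit 48735581783) (nat_lit 1) (nat_lit 5) (nat_lit 3) (nat_lit 4) (nat_lit 1) (nat_lit 4) (nat_lit 323) (nat_lit 239) (nat_lit 158)) (XT.nd (nat_lit 78) (nat_lit 0) (nat_lit 0) (XT.lf (nat_lit 0) (nat_lit 72671347239) (nat_lit 152) (nat_lit 718820178345) (nat_lit 0) (nat_lit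 58466177260) (nat_lit 1) (nat_lit 5) (nat_lit 3) (nat_lit 4) (nat_lit 1) (nat_lit 4) (nat_lit 324) (nat_lit 239) (nat_lit 157)) (XT.lf (nat_lit 0) (nat_lit 83180996654) (nat_lit 152) (nat_lit 765325125955) (nat_lit 0) (nat_lit 68973911740) (nat_lit 1) (nat_lit 5) (nat_lit 3) (nat_lit 4) (nat_lit 1) (nat_lit 4) (nat_lit 325) (nat_lit 239) (nat_lit 156)))) (XT.nd (nat_lit 78) (nat_lit 0) (nat_lit 0) (XT.lf (nat_lit 0) (nat_lit 94529911281) (nat_lit 152) (nat_lit 815553310300) (nat_lit 0) (nat_lit 80321053276) (nat_lit 1) (nat_lit 5) (nat_lit 3) (nat_lit 4) (nat_lit 1) (nat_lit 4) (nat_lit 326) (nat_lit 239) (nat_lit 155)) (XT.nd (nat_lit 78) (nat_lit 0) (nat_lit 0) (XT.lf (nat_lit 0) (nat_lit 106785343945) (nat_lit 152) (nat_lit 869802379882) (nat_lit 0) (nat_lit 92574844192) (nat_lit 1) (nat_lit 5) (nat_lit 3) (nat_lit 4) (nat_lit 1) (nat_lit 4) (nat_lit 327) (nat_lit 239) (nat_lit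 154)) (XT.lf (nat_lit 0) (nat_lit 120019919434) (nat_lit 152) (nat_lit 928393810667) (nat_lit 0) (nat_lit 105807899542) (nat_lit 1) (nat_lit 5) (nat_lit 3) (nat_lit 4) (nat_lit 1) (nat_lit 4) (nat_lit 328) (nat_lit 239) (nat_lit 153))))) (XT.nd (nat_lit 234) (nat_lit 0) (nat_lit 0) (XT.nd (nat_lit 78) (nat_lit 0) (nat_lit 0) (XT.lf (nat_lit 0) (nat_lit 134312064861) (nat_lit 152) (nat_lit 991674811134) (nat_lit 0) (nat_lit 120098637434) (nat_lit 1) (nat_lit 5) (nat_lit 3) (nat_lit 4) (nat_lit 1) (nat_lit 4) (nat_lit 329) (nat_lit 239) (nat_lit 152)) (XT.nd (nat_lit 78) (nat_lit 0) (nat_lit 0) (XT.lf (nat_lit 0) (nat_lit 149746474421) (nat_lit 152) (nat_lit 1060020379806) (nat_lit 0) (nat_lit 135531743721) (nat_lit 1) (nat_lit 5) (nat_lit 3) (nat_lit 4) (nat_lit 1) (nat_lit 4) (nat_lit 330) (nat_lit 239) (nat_lit 151)) (XT.lf (nat_lit 0) (nat_lit 166414611283) (nat_lit 152) (nat_lit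 1133835527458) (nat_lit 0) (nat_lit 152198673847) (nat_lit 1) (nat_lit 5) (nat_lit 3) (nat_lit 4) (nat_lit 1) (nat_lit 4) (nat_lit 331) (nat_lit 239) (nat_lit 150)))) (XT.nd (nat_lit 156) (nat_lit 0) (nat_lit 0) (XT.nd (nat_lit 78) (nat_lit 0) (nat_lit 0) (XT.lf (nat_lit 0) (nat_lit 184415249590) (nat_lit 152) (nat_lit 1213557677188) (nat_lit 0) (nat_lit 170198194808) (nat_lit 1) (nat_lit 5) (nat_lit 3) (nat_lit 4) (nat_lit 1) (nat_lit 4) (nat_lit 332) (nat_lit 239) (nat_lit 149)) (XT.lf (nat_lit 0) (nat_lit 203855059792) (nat_lit 152) (nat_lit 1299659256551) (nat_lit 0) (nat_lit 189636970429) (nat_lit 1) (nat_lit 5) (nat_lit 3) (nat_lit 4) (nat_lit 1) (nat_lit 4) (nat_lit 333) (nat_lit 239) (nat_lit 148))) (XT.nd (nat_lit 78) (nat_lit 0) (nat_lit 0) (XT.lf (nat_lit 0) (nat_lit 224849240764) (nat_lit 152) (nat_lit 1392650497127) (nat_lit 0) (nat_lit 210630193456) (nat_lit 1) (nat_lit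 5) (nat_lit 3) (nat_lit 4) (nat_lit 1) (nat_lit 4) (nat_lit 334) (nat_lit 239) (nat_lit 147)) (XT.lf (nat_lit 0) (nat_lit 247522202468) (nat_lit 152) (nat_lit 1493082458121) (nat_lit 0) (nat_lit 233302268174) (nat_lit 1) (nat_lit 5) (nat_lit 3) (nat_lit 4) (nat_lit 1) (nat_lit 4) (nat_lit 335) (nat_lit 239) (nat_lit 146)))))) (XT.nd (nat_lit 30108) (nat_lit 0) (nat_lit 3800) (XT.nd (nat_lit 234) (nat_lit 0) (nat_lit 0) (XT.nd (nat_lit 78) (nat_lit 0) (nat_lit 0) (XT.lf (nat_lit 0) (nat_lit 272008303194) (nat_lit 152) (nat_lit 1601550291892) (nat_lit 0) (nat_lit 257787547617) (nat_lit 1) (nat_lit 5) (nat_lit 3) (nat_lit 4) (nat_lit 1) (nat_lit 4) (nat_lit 336) (nat_lit 239) (nat_lit 145)) (XT.nd (nat_lit 78) (nat_lit 0) (nat_lit 0) (XT.lf (nat_lit 0) (nat_lit 298452645763) (nat_lit 152) (nat_lit 1718696770791) (nat_lit 0) (nat_lit 284231129738) (nat_lit 1) (nat_lit 5) (nat_lit 3) (nat_lit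 4) (nat_lit 1) (nat_lit 4) (nat_lit 337) (nat_lit 239) (nat_lit 144)) (XT.lf (nat_lit 0) (nat_lit 327011937389) (nat_lit 152) (nat_lit 1845216096172) (nat_lit 0) (nat_lit 312789717246) (nat_lit 1) (nat_lit 5) (nat_lit 3) (nat_lit 4) (nat_lit 1) (nat_lit 4) (nat_lit 338) (nat_lit 239) (nat_lit 143)))) (XT.nd (nat_lit 78) (nat_lit 0) (nat_lit 0) (XT.lf (nat_lit 0) (nat_lit 357855418319) (nat_lit 152) (nat_lit 1981858012187) (nat_lit 0) (nat_lit 343632546214) (nat_lit 1) (nat_lit 5) (nat_lit 3) (nat_lit 4) (nat_lit 1) (nat_lit 4) (nat_lit 339) (nat_lit 239) (nat_lit 142)) (XT.nd (nat_lit 29718) (nat_lit 0) (nat_lit 4484) (XT.lf (nat_lit 0) (nat_lit 391165864736) (nat_lit 152) (nat_lit 2129432248708) (nat_lit 0) (nat_lit 376942388964) (nat_lit 1) (nat_lit 5) (nat_lit 3) (nat_lit 4) (nat_lit 1) (nat_lit 4) (nat_lit 340) (nat_lit 239) (nat_lit 141)) (XT.lf (nat_lit 0) (nat_lit 1073741823)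 (nat_lit 0) (nat_lit 0) (nat_lit 0) (nat_lit 0) (nat_lit 60) (nat_lit 0) (nat_lit 1) (nat_lit 0) (nat_lit 1) (nat_lit 0) (nat_lit 240) (nat_lit 240) (nat_lit 240))))) (XT.nd (nat_lit 234) (nat_lit 456) (nat_lit 0) (XT.nd (nat_lit 78) (nat_lit 152) (nat_lit 0) (XT.lf (nat_lit 0) (nat_lit 2797941880) (nat_lit 76) (nat_lit 3508011325) (nat_lit 0) (nat_lit 143413482) (nat_lit 59) (nat_lit 5) (nat_lit 60) (nat_lit 0) (nat_lit 59) (nat_lit 4) (nat_lit 241) (nat_lit 240) (nat_lit 239)) (XT.nd (nat_lit 78) (nat_lit 152) (nat_lit 0) (XT.lf (nat_lit 0) (nat_lit 5543515367) (nat_lit 76) (nat_lit 507022309) (nat_lit 0) (nat_lit 431090304) (nat_lit 59) (nat_lit 5) (nat_lit 60) (nat_lit 0) (nat_lit 59) (nat_lit 4) (nat_lit 242) (nat_lit 240) (nat_lit 238)) (XT.lf (nat_lit 0) (nat_lit 1694813910) (nat_lit 152) (nat_lit 3863042374) (nat_lit 76) (nat_lit 972915310) (nat_lit 57) (nat_lit 5) (nat_lit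 59) (nat_lit 5) (nat_lit 58) (nat_lit 4) (nat_lit 243) (nat_lit 240) (nat_lit 237)))) (XT.nd (nat_lit 156) (nat_lit 228) (nat_lit 0) (XT.nd (nat_lit 78) (nat_lit 228) (nat_lit 0) (XT.lf (nat_lit 0) (nat_lit 4253022776) (nat_lit 152) (nat_lit 649218159) (nat_lit 76) (nat_lit 1700570148) (nat_lit 57) (nat_lit 5) (nat_lit 59) (nat_lit 5) (nat_lit 58) (nat_lit 4) (nat_lit 244) (nat_lit 240) (nat_lit 236)) (XT.lf (nat_lit 0) (nat_lit 149452301) (nat_lit 228) (nat_lit 3891935932) (nat_lit 76) (nat_lit 2653939318) (nat_lit 54) (nat_lit 5) (nat_lit 57) (nat_lit 5) (nat_lit 55) (nat_lit 5) (nat_lit 245) (nat_lit 240) (nat_lit 235))) (XT.nd (nat_lit 78) (nat_lit 228) (nat_lit 0) (XT.lf (nat_lit 0) (nat_lit 2515503886) (nat_lit 228) (nat_lit 450462603) (nat_lit 76) (nat_lit 3842589394) (nat_lit 54) (nat_lit 5) (nat_lit 57) (nat_lit 5) (nat_lit 55) (nat_lit 5) (nat_lit 246) (nat_lit 240) (nat_lit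 234)) (XT.lf (nat_lit 0) (nat_lit 3278211917) (nat_lit 228) (nat_lit 1663699770) (nat_lit 304) (nat_lit 2000818111) (nat_lit 51) (nat_lit 5) (nat_lit 54) (nat_lit 5) (nat_lit 55) (nat_lit 5) (nat_lit 247) (nat_lit 240) (nat_lit 233))))))))
noncomputable def xc50 : XT := (XT.nd (nat_lit 1950) (nat_lit 608) (nat_lit 0) (XT.nd (nat_lit 936) (nat_lit 912) (nat_lit 0) (XT.nd (nat_lit 468) (nat_lit 836) (nat_lit 0) (XT.nd (nat_lit 234) (nat_lit 532) (nat_lit 0) (XT.nd (nat_lit 78) (nat_lit 380) (nat_lit 0) (XT.lf (nat_lit 0) (nat_lit 75943645) (nat_lit 304) (nat_lit 187145104) (nat_lit 380) (nat_lit 6840020406) (nat_lit 46) (nat_lit 5) (nat_lit 50) (nat_lit 5) (nat_lit 51) (nat_lit 5) (nat_lit 248) (nat_lit 240) (nat_lit 232)) (XT.nd (nat_lit 78) (nat_lit 380) (nat_lit 0) (XT.lf (nat_lit 0) (nat_lit 2546320984) (nat_lit 380) (nat_lit 3206269782) (nat_lit 76) (nat_lit 1525114599) (nat_lit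 46) (nat_lit 5) (nat_lit 51) (nat_lit 5) (nat_lit 47) (nat_lit 5) (nat_lit 249) (nat_lit 240) (nat_lit 231)) (XT.lf (nat_lit 0) (nat_lit 794446680) (nat_lit 380) (nat_lit 4065492564) (nat_lit 456) (nat_lit 2619668096) (nat_lit 41) (nat_lit 5) (nat_lit 46) (nat_lit 5) (nat_lit 47) (nat_lit 5) (nat_lit 250) (nat_lit 240) (nat_lit 230)))) (XT.nd (nat_lit 78) (nat_lit 532) (nat_lit 0) (XT.lf (nat_lit 0) (nat_lit 5140901563) (nat_lit 380) (nat_lit 2138457651) (nat_lit 456) (nat_lit 425715894) (nat_lit 41) (nat_lit 5) (nat_lit 46) (nat_lit 5) (nat_lit 47) (nat_lit 5) (nat_lit 251) (nat_lit 240) (nat_lit 229)) (XT.nd (nat_lit 78) (nat_lit 0) (nat_lit 0) (XT.lf (nat_lit 0) (nat_lit 1730712361) (nat_lit 532) (nat_lit 6182061081) (nat_lit 76) (nat_lit 42249410) (nat_lit 34) (nat_lit 5) (nat_lit 41) (nat_lit 5) (nat_lit 35) (nat_lit 5) (nat_lit 252) (nat_lit 240) (nat_lit 228)) (XT.lf (nat_lit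 0) (nat_lit 4012806937) (nat_lit 532) (nat_lit 1848332853) (nat_lit 76) (nat_lit 2365699770) (nat_lit 34) (nat_lit 5) (nat_lit 41) (nat_lit 5) (nat_lit 35) (nat_lit 5) (nat_lit 253) (nat_lit 240) (nat_lit 227))))) (XT.nd (nat_lit 234) (nat_lit 380) (nat_lit 0) (XT.nd (nat_lit 78) (nat_lit 228) (nat_lit 0) (XT.lf (nat_lit 0) (nat_lit 2821917592) (nat_lit 228) (nat_lit 3583305113) (nat_lit 304) (nat_lit 2121745542) (nat_lit 31) (nat_lit 5) (nat_lit 34) (nat_lit 5) (nat_lit 35) (nat_lit 5) (nat_lit 254) (nat_lit 240) (nat_lit 226)) (XT.nd (nat_lit 78) (nat_lit 152) (nat_lit 0) (XT.lf (nat_lit 0) (nat_lit 45437871) (nat_lit 304) (nat_lit 1036209851) (nat_lit 76) (nat_lit 7776715777) (nat_lit 30) (nat_lit 5) (nat_lit 34) (nat_lit 5) (nat_lit 31) (nat_lit 5) (nat_lit 255) (nat_lit 240) (nat_lit 225)) (XT.lf (nat_lit 0) (nat_lit 2282992301) (nat_lit 228) (nat_lit 5249858433) (nat_lit 76)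 (nat_lit 1678705451) (nat_lit 28) (nat_lit 5) (nat_lit 31) (nat_lit 5) (nat_lit 29) (nat_lit 5) (nat_lit 256) (nat_lit 240) (nat_lit 224)))) (XT.nd (nat_lit 78) (nat_lit 380) (nat_lit 0) (XT.lf (nat_lit 0) (nat_lit 4635052160) (nat_lit 228) (nat_lit 351280858) (nat_lit 76) (nat_lit 4612409602) (nat_lit 28) (nat_lit 5) (nat_lit 31) (nat_lit 5) (nat_lit 29) (nat_lit 5) (nat_lit 257) (nat_lit 240) (nat_lit 223)) (XT.nd (nat_lit 78) (nat_lit 152) (nat_lit 0) (XT.lf (nat_lit 0) (nat_lit 5052990435) (nat_lit 228) (nat_lit 2131161492) (nat_lit 304) (nat_lit 2832577608) (nat_lit 25) (nat_lit 5) (nat_lit 28) (nat_lit 5) (nat_lit 29) (nat_lit 5) (nat_lit 258) (nat_lit 240) (nat_lit 222)) (XT.lf (nat_lit 0) (nat_lit 289652580) (nat_lit 152) (nat_lit 9579020100) (nat_lit 228) (nat_lit 605459184) (nat_lit 23) (nat_lit 5) (nat_lit 25) (nat_lit 5) (nat_lit 26) (nat_lit 4) (nat_lit 259) (nat_lit 240)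 (nat_lit 221)))))) (XT.nd (nat_lit 468) (nat_lit 456) (nat_lit 0) (XT.nd (nat_lit 234) (nat_lit 228) (nat_lit 0) (XT.nd (nat_lit 78) (nat_lit 152) (nat_lit 0) (XT.lf (nat_lit 0) (nat_lit 1797676155) (nat_lit 228) (nat_lit 4960104994) (nat_lit 76) (nat_lit 4200276939) (nat_lit 22) (nat_lit 5) (nat_lit 25) (nat_lit 5) (nat_lit 23) (nat_lit 5) (nat_lit 260) (nat_lit 240) (nat_lit 220)) (XT.nd (nat_lit 78) (nat_lit 0) (nat_lit 0) (XT.lf (nat_lit 0) (nat_lit 559014657) (nat_lit 152) (nat_lit 3715971059) (nat_lit 228) (nat_lit 7211677548) (nat_lit 20) (nat_lit 5) (nat_lit 22) (nat_lit 5) (nat_lit 23) (nat_lit 5) (nat_lit 261) (nat_lit 240) (nat_lit 219)) (XT.lf (nat_lit 0) (nat_lit 6669735826) (nat_lit 152) (nat_lit 321696233) (nat_lit 228) (nat_lit 5063213134) (nat_lit 20) (nat_lit 5) (nat_lit 22) (nat_lit 5) (nat_lit 23) (nat_lit 5) (nat_lit 262) (nat_lit 240) (nat_lit 218)))) (XT.nd (nat_lit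 78) (nat_lit 76) (nat_lit 0) (XT.lf (nat_lit 0) (nat_lit 412715575) (nat_lit 152) (nat_lit 9514345118) (nat_lit 228) (nat_lit 2741193161) (nat_lit 18) (nat_lit 5) (nat_lit 20) (nat_lit 5) (nat_lit 21) (nat_lit 4) (nat_lit 263) (nat_lit 240) (nat_lit 217)) (XT.nd (nat_lit 78) (nat_lit 76) (nat_lit 0) (XT.lf (nat_lit 0) (nat_lit 6846105945) (nat_lit 152) (nat_lit 6321861783) (nat_lit 228) (nat_lit 157661732) (nat_lit 18) (nat_lit 5) (nat_lit 20) (nat_lit 5) (nat_lit 21) (nat_lit 4) (nat_lit 264) (nat_lit 240) (nat_lit 216)) (XT.lf (nat_lit 0) (nat_lit 2419886841) (nat_lit 228) (nat_lit 425469991) (nat_lit 76) (nat_lit 11191919124) (nat_lit 17) (nat_lit 5) (nat_lit 20) (nat_lit 5) (nat_lit 18) (nat_lit 5) (nat_lit 265) (nat_lit 240) (nat_lit 215))))) (XT.nd (nat_lit 234) (nat_lit 228) (nat_lit 0) (XT.nd (nat_lit 78) (nat_lit 76) (nat_lit 0) (XT.lf (nat_lit 0) (nat_lit 5297001056) (nat_lit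 228) (nat_lit 8511840422) (nat_lit 76) (nat_lit 988782792) (nat_lit 15) (nat_lit 5) (nat_lit 18) (nat_lit 5) (nat_lit 16) (nat_lit 4) (nat_lit 266) (nat_lit 240) (nat_lit 214)) (XT.nd (nat_lit 78) (nat_lit 76) (nat_lit 0) (XT.lf (nat_lit 0) (nat_lit 8417194329) (nat_lit 228) (nat_lit 2248004353) (nat_lit 76) (nat_lit 4952798672) (nat_lit 15) (nat_lit 5) (nat_lit 18) (nat_lit 5) (nat_lit 16) (nat_lit 4) (nat_lit 267) (nat_lit 240) (nat_lit 213)) (XT.lf (nat_lit 0) (nat_lit 4643618350) (nat_lit 76) (nat_lit 7187535407) (nat_lit 152) (nat_lit 4669527156) (nat_lit 14) (nat_lit 5) (nat_lit 15) (nat_lit 5) (nat_lit 16) (nat_lit 4) (nat_lit 268) (nat_lit 240) (nat_lit 212)))) (XT.nd (nat_lit 156) (nat_lit 0) (nat_lit 0) (XT.nd (nat_lit 78) (nat_lit 228) (nat_lit 0) (XT.lf (nat_lit 0) (nat_lit 12111477768) (nat_lit 76) (nat_lit 3403214574) (nat_lit 152) (nat_lit 1939766753) (nat_lit 14) (nat_lit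 5) (nat_lit 15) (nat_lit 5) (nat_lit 16) (nat_lit 4) (nat_lit 269) (nat_lit 240) (nat_lit 211)) (XT.lf (nat_lit 0) (nat_lit 952958226) (nat_lit 228) (nat_lit 16849902554) (nat_lit 76) (nat_lit 680305333) (nat_lit 11) (nat_lit 5) (nat_lit 14) (nat_lit 5) (nat_lit 12) (nat_lit 4) (nat_lit 270) (nat_lit 240) (nat_lit 210))) (XT.nd (nat_lit 78) (nat_lit 0) (nat_lit 0) (XT.lf (nat_lit 0) (nat_lit 4150048275) (nat_lit 228) (nat_lit 10353879990) (nat_lit 76) (nat_lit 5072147485) (nat_lit 11) (nat_lit 5) (nat_lit 14) (nat_lit 5) (nat_lit 12) (nat_lit 4) (nat_lit 271) (nat_lit 240) (nat_lit 209)) (XT.lf (nat_lit 0) (nat_lit 7546857973) (nat_lit 228) (nat_lit 3431038724) (nat_lit 76) (nat_lit 9783150014) (nat_lit 11) (nat_lit 5) (nat_lit 14) (nat_lit 5) (nat_lit 12) (nat_lit 4) (nat_lit 272) (nat_lit 240) (nat_lit 208))))))) (XT.nd (nat_lit 1014) (nat_lit 228) (nat_lit 0) (XT.nd (nat_lit 468)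 (nat_lit 152) (nat_lit 0) (XT.nd (nat_lit 234) (nat_lit 152) (nat_lit 0) (XT.nd (nat_lit 78) (nat_lit 0) (nat_lit 0) (XT.lf (nat_lit 0) (nat_lit 4168153401) (nat_lit 76) (nat_lit 7095607350) (nat_lit 152) (nat_lit 10773320760) (nat_lit 10) (nat_lit 5) (nat_lit 11) (nat_lit 5) (nat_lit 12) (nat_lit 4) (nat_lit 273) (nat_lit 240) (nat_lit 207)) (XT.nd (nat_lit 78) (nat_lit 0) (nat_lit 0) (XT.lf (nat_lit 0) (nat_lit 12486599574) (nat_lit 76) (nat_lit 2835159539) (nat_lit 152) (nat_lit 8090064613) (nat_lit 10) (nat_lit 5) (nat_lit 11) (nat_lit 5) (nat_lit 12) (nat_lit 4) (nat_lit 274) (nat_lit 240) (nat_lit 206)) (XT.lf (nat_lit 0) (nat_lit 19699762698) (nat_lit 152) (nat_lit 3549171025) (nat_lit 0) (nat_lit 1648097272) (nat_lit 10) (nat_lit 5) (nat_lit 12) (nat_lit 4) (nat_lit 10) (nat_lit 4) (nat_lit 275) (nat_lit 240) (nat_lit 205)))) (XT.nd (nat_lit 78) (nat_lit 76) (nat_lit 0) (XT.lf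 (nat_lit 0) (nat_lit 4493408189) (nat_lit 76) (nat_lit 20072685117) (nat_lit 76) (nat_lit 1924020997) (nat_lit 9) (nat_lit 4) (nat_lit 10) (nat_lit 5) (nat_lit 10) (nat_lit 4) (nat_lit 276) (nat_lit 240) (nat_lit 204)) (XT.nd (nat_lit 78) (nat_lit 0) (nat_lit 0) (XT.lf (nat_lit 0) (nat_lit 1586725889) (nat_lit 152) (nat_lit 14938087876) (nat_lit 76) (nat_lit 11678323365) (nat_lit 8) (nat_lit 5) (nat_lit 10) (nat_lit 5) (nat_lit 9) (nat_lit 4) (nat_lit 277) (nat_lit 240) (nat_lit 203)) (XT.lf (nat_lit 0) (nat_lit 5234266614) (nat_lit 152) (nat_lit 7434363915) (nat_lit 76) (nat_lit 17383867253) (nat_lit 8) (nat_lit 5) (nat_lit 10) (nat_lit 5) (nat_lit 9) (nat_lit 4) (nat_lit 278) (nat_lit 240) (nat_lit 202))))) (XT.nd (nat_lit 234) (nat_lit 76) (nat_lit 0) (XT.nd (nat_lit 78) (nat_lit 0) (nat_lit 0) (XT.lf (nat_lit 0) (nat_lit 637074056) (nat_lit 76) (nat_lit 8514711145) (nat_lit 152)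 (nat_lit 22899846319) (nat_lit 7) (nat_lit 5) (nat_lit 8) (nat_lit 5) (nat_lit 9) (nat_lit 4) (nat_lit 279) (nat_lit 240) (nat_lit 201)) (XT.nd (nat_lit 78) (nat_lit 0) (nat_lit 0) (XT.lf (nat_lit 0) (nat_lit 9714204718) (nat_lit 76) (nat_lit 3835862982) (nat_lit 152) (nat_lit 20647311674) (nat_lit 7) (nat_lit 5) (nat_lit 8) (nat_lit 5) (nat_lit 9) (nat_lit 4) (nat_lit 280) (nat_lit 240) (nat_lit 200)) (XT.lf (nat_lit 0) (nat_lit 18295642833) (nat_lit 152) (nat_lit 17086852352) (nat_lit 0) (nat_lit 1132724516) (nat_lit 7) (nat_lit 5) (nat_lit 9) (nat_lit 4) (nat_lit 7) (nat_lit 4) (nat_lit 281) (nat_lit 240) (nat_lit 199)))) (XT.nd (nat_lit 156) (nat_lit 76) (nat_lit 0) (XT.nd (nat_lit 78) (nat_lit 0) (nat_lit 0) (XT.lf (nat_lit 0) (nat_lit 23489157990) (nat_lit 152) (nat_lit 9254285957) (nat_lit 0) (nat_lit 6269641867) (nat_lit 7) (nat_lit 5) (nat_lit 9) (nat_lit 4) (nat_lit 7) (nat_lit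 4) (nat_lit 282) (nat_lit 240) (nat_lit 198)) (XT.lf (nat_lit 0) (nat_lit 29069136961) (nat_lit 152) (nat_lit 846807667) (nat_lit 0) (nat_lit 11797215461) (nat_lit 7) (nat_lit 5) (nat_lit 9) (nat_lit 4) (nat_lit 7) (nat_lit 4) (nat_lit 283) (nat_lit 240) (nat_lit 197))) (XT.nd (nat_lit 78) (nat_lit 0) (nat_lit 0) (XT.lf (nat_lit 0) (nat_lit 8616433513) (nat_lit 76) (nat_lit 26659438208) (nat_lit 76) (nat_lit 9338993211) (nat_lit 6) (nat_lit 4) (nat_lit 7) (nat_lit 5) (nat_lit 7) (nat_lit 4) (nat_lit 284) (nat_lit 240) (nat_lit 196)) (XT.lf (nat_lit 0) (nat_lit 18838240169) (nat_lit 76) (nat_lit 23138058579) (nat_lit 76) (nat_lit 5772684418) (nat_lit 6) (nat_lit 4) (nat_lit 7) (nat_lit 5) (nat_lit 7) (nat_lit 4) (nat_lit 285) (nat_lit 240) (nat_lit 195)))))) (XT.nd (nat_lit 468) (nat_lit 76) (nat_lit 0) (XT.nd (nat_lit 234) (nat_lit 76) (nat_lit 0) (XT.nd (nat_lit 78) (nat_lit 76) (nat_lit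 0) (XT.lf (nat_lit 0) (nat_lit 29834594580) (nat_lit 76) (nat_lit 19354091527) (nat_lit 76) (nat_lit 1947116289) (nat_lit 6) (nat_lit 4) (nat_lit 7) (nat_lit 5) (nat_lit 7) (nat_lit 4) (nat_lit 286) (nat_lit 240) (nat_lit 194)) (XT.nd (nat_lit 78) (nat_lit 0) (nat_lit 0) (XT.lf (nat_lit 0) (nat_lit 2052310191) (nat_lit 152) (nat_lit 13176689555) (nat_lit 76) (nat_lit 39562236337) (nat_lit 5) (nat_lit 5) (nat_lit 7) (nat_lit 5) (nat_lit 6) (nat_lit 4) (nat_lit 287) (nat_lit 240) (nat_lit 193)) (XT.lf (nat_lit 0) (nat_lit 6245283255) (nat_lit 152) (nat_lit 4490971802) (nat_lit 76) (nat_lit 48000536691) (nat_lit 5) (nat_lit 5) (nat_lit 7) (nat_lit 5) (nat_lit 6) (nat_lit 4) (nat_lit 288) (nat_lit 240) (nat_lit 192)))) (XT.nd (nat_lit 78) (nat_lit 0) (nat_lit 0) (XT.lf (nat_lit 0) (nat_lit 5109860470) (nat_lit 76) (nat_lit 5767084587) (nat_lit 152) (nat_lit 52112820277) (nat_lit 4) (nat_lit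 5) (nat_lit 5) (nat_lit 5) (nat_lit 6) (nat_lit 4) (nat_lit 289) (nat_lit 240) (nat_lit 191)) (XT.nd (nat_lit 78) (nat_lit 0) (nat_lit 0) (XT.lf (nat_lit 0) (nat_lit 15699701216) (nat_lit 76) (nat_lit 283214408) (nat_lit 152) (nat_lit 51591790173) (nat_lit 4) (nat_lit 5) (nat_lit 5) (nat_lit 5) (nat_lit 6) (nat_lit 4) (nat_lit 290) (nat_lit 240) (nat_lit 190)) (XT.lf (nat_lit 0) (nat_lit 21615039931) (nat_lit 152) (nat_lit 45558343226) (nat_lit 0) (nat_lit 5343673007) (nat_lit 4) (nat_lit 5) (nat_lit 6) (nat_lit 4) (nat_lit 4) (nat_lit 4) (nat_lit 291) (nat_lit 240) (nat_lit 189))))) (XT.nd (nat_lit 234) (nat_lit 76) (nat_lit 0) (XT.nd (nat_lit 78) (nat_lit 0) (nat_lit 0) (XT.lf (nat_lit 0) (nat_lit 27688469310) (nat_lit 152) (nat_lit 38774264511) (nat_lit 0) (nat_lit 11392828557) (nat_lit 4) (nat_lit 5) (nat_lit 6) (nat_lit 4) (nat_lit 4) (nat_lit 4) (nat_lit 292) (nat_lit 240) (nat_lit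 188)) (XT.nd (nat_lit 78) (nat_lit 0) (nat_lit 0) (XT.lf (nat_lit 0) (nat_lit 34232383139) (nat_lit 152) (nat_lit 31475755175) (nat_lit 0) (nat_lit 17914266618) (nat_lit 4) (nat_lit 5) (nat_lit 6) (nat_lit 4) (nat_lit 4) (nat_lit 4) (nat_lit 293) (nat_lit 240) (nat_lit 187)) (XT.lf (nat_lit 0) (nat_lit 41285560168) (nat_lit 152) (nat_lit 23619564791) (nat_lit 0) (nat_lit 24946632751) (nat_lit 4) (nat_lit 5) (nat_lit 6) (nat_lit 4) (nat_lit 4) (nat_lit 4) (nat_lit 294) (nat_lit 240) (nat_lit 186)))) (XT.nd (nat_lit 156) (nat_lit 76) (nat_lit 0) (XT.nd (nat_lit 78) (nat_lit 0) (nat_lit 0) (XT.lf (nat_lit 0) (nat_lit 48889797001) (nat_lit 152) (nat_lit 15159138158) (nat_lit 0) (nat_lit 32531600236) (nat_lit 4) (nat_lit 5) (nat_lit 6) (nat_lit 4) (nat_lit 4) (nat_lit 4) (nat_lit 295) (nat_lit 240) (nat_lit 185)) (XT.lf (nat_lit 0) (nat_lit 57090155782) (nat_lit 152) (nat_lit 6044339415)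 (nat_lit 0) (nat_lit 40714117028) (nat_lit 4) (nat_lit 5) (nat_lit 6) (nat_lit 4) (nat_lit 4) (nat_lit 4) (nat_lit 296) (nat_lit 240) (nat_lit 184))) (XT.nd (nat_lit 78) (nat_lit 0) (nat_lit 0) (XT.lf (nat_lit 0) (nat_lit 3977832345) (nat_lit 76) (nat_lit 62053065849) (nat_lit 76) (nat_lit 45660506734) (nat_lit 3) (nat_lit 4) (nat_lit 4) (nat_lit 5) (nat_lit 4) (nat_lit 4) (nat_lit 297) (nat_lit 240) (nat_lit 183)) (XT.lf (nat_lit 0) (nat_lit 15125253154) (nat_lit 76) (nat_lit 60715948155) (nat_lit 76) (nat_lit 44308092411) (nat_lit 3) (nat_lit 4) (nat_lit 4) (nat_lit 5) (nat_lit 4) (nat_lit 4) (nat_lit 298) (nat_lit 240) (nat_lit 182))))))))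
noncomputable def xc51 : XT := (XT.nd (nat_lit 2028) (nat_lit 0) (nat_lit 0) (XT.nd (nat_lit 1014) (nat_lit 152) (nat_lit 0) (XT.nd (nat_lit 468) (nat_lit 0) (nat_lit 0) (XT.nd (nat_lit 234) (nat_lit 0) (nat_lit 0) (XT.nd (nat_lit 78) (nat_lit 0) (nat_lit 0) (XT.lf (nat_lit 0) (nat_lit 27145697600) (nat_lit 76) (nat_lit 59280481408) (nat_lit 76) (nat_lit 42858462117) (nat_lit 3) (nat_lit 4) (nat_lit 4) (nat_lit 5) (nat_lit 4) (nat_lit 4) (nat_lit 299) (nat_lit 240) (nat_lit 181)) (XT.nd (nat_lit 78) (nat_lit 0) (nat_lit 0) (XT.lf (nat_lit 0) (nat_lit 40110397945) (nat_lit 76) (nat_lit 57738159137) (nat_lit 76) (nat_lit 41303025452) (nat_lit 3) (nat_lit 4) (nat_lit 4) (nat_lit 5) (nat_lit 4) (nat_lit 4) (nat_lit 300) (nat_lit 240) (nat_lit 180)) (XT.lf (nat_lit 0) (nat_lit 54096182044) (nat_lit 76) (nat_lit 56079841656) (nat_lit 76) (nat_lit 39632565012) (nat_lit 3) (nat_lit 4) (nat_lit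 4) (nat_lit 5) (nat_lit 4) (nat_lit 4) (nat_lit 301) (nat_lit 240) (nat_lit 179)))) (XT.nd (nat_lit 78) (nat_lit 0) (nat_lit 0) (XT.lf (nat_lit 0) (nat_lit 69185928617) (nat_lit 76) (nat_lit 54295701896) (nat_lit 76) (nat_lit 37837181773) (nat_lit 3) (nat_lit 4) (nat_lit 4) (nat_lit 5) (nat_lit 4) (nat_lit 4) (nat_lit 302) (nat_lit 240) (nat_lit 178)) (XT.nd (nat_lit 78) (nat_lit 0) (nat_lit 0) (XT.lf (nat_lit 0) (nat_lit 85469058384) (nat_lit 76) (nat_lit 52375167179) (nat_lit 76) (nat_lit 35906236427) (nat_lit 3) (nat_lit 4) (nat_lit 4) (nat_lit 5) (nat_lit 4) (nat_lit 4) (nat_lit 303) (nat_lit 240) (nat_lit 177)) (XT.lf (nat_lit 0) (nat_lit 103042063967) (nat_lit 76) (nat_lit 50306856558) (nat_lit 76) (nat_lit 33828286335) (nat_lit 3) (nat_lit 4) (nat_lit 4) (nat_lit 5) (nat_lit 4) (nat_lit 4) (nat_lit 304) (nat_lit 240) (nat_lit 176))))) (XT.nd (nat_lit 234) (nat_lit 0) (nat_lit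 0) (XT.nd (nat_lit 78) (nat_lit 0) (nat_lit 0) (XT.lf (nat_lit 0) (nat_lit 122009081695) (nat_lit 76) (nat_lit 48078513378) (nat_lit 76) (nat_lit 31591017717) (nat_lit 3) (nat_lit 4) (nat_lit 4) (nat_lit 5) (nat_lit 4) (nat_lit 4) (nat_lit 305) (nat_lit 240) (nat_lit 175)) (XT.nd (nat_lit 78) (nat_lit 0) (nat_lit 0) (XT.lf (nat_lit 0) (nat_lit 142482508710) (nat_lit 76) (nat_lit 45676932641) (nat_lit 76) (nat_lit 29181172687) (nat_lit 3) (nat_lit 4) (nat_lit 4) (nat_lit 5) (nat_lit 4) (nat_lit 4) (nat_lit 306) (nat_lit 240) (nat_lit 174)) (XT.lf (nat_lit 0) (nat_lit 164583669024) (nat_lit 76) (nat_lit 43087882758) (nat_lit 76) (nat_lit 26584470681) (nat_lit 3) (nat_lit 4) (nat_lit 4) (nat_lit 5) (nat_lit 4) (nat_lit 4) (nat_lit 307) (nat_lit 240) (nat_lit 173)))) (XT.nd (nat_lit 156) (nat_lit 0) (nat_lit 0) (XT.nd (nat_lit 78) (nat_lit 0) (nat_lit 0) (XT.lf (nat_lit 0) (nat_lit 188443532476)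 (nat_lit 76) (nat_lit 40296021212) (nat_lit 76) (nat_lit 23785523836) (nat_lit 3) (nat_lit 4) (nat_lit 4) (nat_lit 5) (nat_lit 4) (nat_lit 4) (nat_lit 308) (nat_lit 240) (nat_lit 172)) (XT.lf (nat_lit 0) (nat_lit 214203490849) (nat_lit 76) (nat_lit 37284803637) (nat_lit 76) (nat_lit 20767745799) (nat_lit 3) (nat_lit 4) (nat_lit 4) (nat_lit 5) (nat_lit 4) (nat_lit 4) (nat_lit 309) (nat_lit 240) (nat_lit 171))) (XT.nd (nat_lit 78) (nat_lit 0) (nat_lit 0) (XT.lf (nat_lit 0) (nat_lit 242016195748) (nat_lit 76) (nat_lit 34036385782) (nat_lit 76) (nat_lit 17513253441) (nat_lit 3) (nat_lit 4) (nat_lit 4) (nat_lit 5) (nat_lit 4) (nat_lit 4) (nat_lit 310) (nat_lit 240) (nat_lit 170)) (XT.lf (nat_lit 0) (nat_lit 272046463202) (nat_lit 76) (nat_lit 30531517762) (nat_lit 76) (nat_lit 14002760883) (nat_lit 3) (nat_lit 4) (nat_lit 4) (nat_lit 5) (nat_lit 4) (nat_lit 4) (nat_lit 311) (nat_lit 240)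 (nat_lit 169)))))) (XT.nd (nat_lit 468) (nat_lit 0) (nat_lit 0) (XT.nd (nat_lit 234) (nat_lit 152) (nat_lit 0) (XT.nd (nat_lit 78) (nat_lit 0) (nat_lit 0) (XT.lf (nat_lit 0) (nat_lit 304472250353) (nat_lit 76) (nat_lit 26749429990) (nat_lit 76) (nat_lit 10215465204) (nat_lit 3) (nat_lit 4) (nat_lit 4) (nat_lit 5) (nat_lit 4) (nat_lit 4) (nat_lit 312) (nat_lit 240) (nat_lit 168)) (XT.nd (nat_lit 78) (nat_lit 0) (nat_lit 0) (XT.lf (nat_lit 0) (nat_lit 339485710012) (nat_lit 76) (nat_lit 22667710094) (nat_lit 76) (nat_lit 6128923172) (nat_lit 3) (nat_lit 4) (nat_lit 4) (nat_lit 5) (nat_lit 4) (nat_lit 4) (nat_lit 313) (nat_lit 240) (nat_lit 167)) (XT.lf (nat_lit 0) (nat_lit 377294329348) (nat_lit 76) (nat_lit 18262170103) (nat_lit 76) (nat_lit 1718918241) (nat_lit 3) (nat_lit 4) (nat_lit 4) (nat_lit 5) (nat_lit 4) (nat_lit 4) (nat_lit 314) (nat_lit 240) (nat_lit 166)))) (XT.nd (nat_lit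 78) (nat_lit 76) (nat_lit 0) (XT.lf (nat_lit 0) (nat_lit 2888575675) (nat_lit 152) (nat_lit 10539148661) (nat_lit 76) (nat_lit 415154604985) (nat_lit 2) (nat_lit 5) (nat_lit 4) (nat_lit 5) (nat_lit 3) (nat_lit 4) (nat_lit 315) (nat_lit 240) (nat_lit 165)) (XT.nd (nat_lit 78) (nat_lit 76) (nat_lit 0) (XT.lf (nat_lit 0) (nat_lit 7768984494) (nat_lit 152) (nat_lit 391726284) (nat_lit 76) (nat_lit 454229740682) (nat_lit 2) (nat_lit 5) (nat_lit 4) (nat_lit 5) (nat_lit 3) (nat_lit 4) (nat_lit 316) (nat_lit 240) (nat_lit 164)) (XT.lf (nat_lit 0) (nat_lit 11118862201) (nat_lit 76) (nat_lit 2185763109) (nat_lit 152) (nat_lit 485577417717) (nat_lit 1) (nat_lit 5) (nat_lit 2) (nat_lit 5) (nat_lit 3) (nat_lit 4) (nat_lit 317) (nat_lit 240) (nat_lit 163))))) (XT.nd (nat_lit 234) (nat_lit 0) (nat_lit 0) (XT.nd (nat_lit 78) (nat_lit 0) (nat_lit 0) (XT.lf (nat_lit 0) (nat_lit 19394149578) (nat_lit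 152) (nat_lit 514827302328) (nat_lit 0) (nat_lit 4062630772) (nat_lit 1) (nat_lit 5) (nat_lit 3) (nat_lit 4) (nat_lit 1) (nat_lit 4) (nat_lit 318) (nat_lit 240) (nat_lit 162)) (XT.nd (nat_lit 78) (nat_lit 0) (nat_lit 0) (XT.lf (nat_lit 0) (nat_lit 26025217844) (nat_lit 152) (nat_lit 544117834812) (nat_lit 0) (nat_lit 10690885367) (nat_lit 1) (nat_lit 5) (nat_lit 3) (nat_lit 4) (nat_lit 1) (nat_lit 4) (nat_lit 319) (nat_lit 240) (nat_lit 161)) (XT.lf (nat_lit 0) (nat_lit 33184557671) (nat_lit 152) (nat_lit 575755784149) (nat_lit 0) (nat_lit 17847619945) (nat_lit 1) (nat_lit 5) (nat_lit 3) (nat_lit 4) (nat_lit 1) (nat_lit 4) (nat_lit 320) (nat_lit 240) (nat_lit 160)))) (XT.nd (nat_lit 156) (nat_lit 0) (nat_lit 0) (XT.nd (nat_lit 78) (nat_lit 0) (nat_lit 0) (XT.lf (nat_lit 0) (nat_lit 40914594778) (nat_lit 152) (nat_lit 609928634483) (nat_lit 0) (nat_lit 25575244783) (nat_lit 1) (nat_lit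 5) (nat_lit 3) (nat_lit 4) (nat_lit 1) (nat_lit 4) (nat_lit 321) (nat_lit 240) (nat_lit 159)) (XT.lf (nat_lit 0) (nat_lit 49261136792) (nat_lit 152) (nat_lit 646838891593) (nat_lit 0) (nat_lit 33919553216) (nat_lit 1) (nat_lit 5) (nat_lit 3) (nat_lit 4) (nat_lit 1) (nat_lit 4) (nat_lit 322) (nat_lit 240) (nat_lit 158))) (XT.nd (nat_lit 78) (nat_lit 0) (nat_lit 0) (XT.lf (nat_lit 0) (nat_lit 58273644703) (nat_lit 152) (nat_lit 686705282930) (nat_lit 0) (nat_lit 42929992995) (nat_lit 1) (nat_lit 5) (nat_lit 3) (nat_lit 4) (nat_lit 1) (nat_lit 4) (nat_lit 323) (nat_lit 240) (nat_lit 157)) (XT.lf (nat_lit 0) (nat_lit 68005525965) (nat_lit 152) (nat_lit 729764053776) (nat_lit 0) (nat_lit 52659959320) (nat_lit 1) (nat_lit 5) (nat_lit 3) (nat_lit 4) (nat_lit 1) (nat_lit 4) (nat_lit 324) (nat_lit 240) (nat_lit 156))))))) (XT.nd (nat_lit 1014) (nat_lit 0) (nat_lit 0) (XT.nd (nat_lit 468) (nat_lit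 0) (nat_lit 0) (XT.nd (nat_lit 234) (nat_lit 0) (nat_lit 0) (XT.nd (nat_lit 78) (nat_lit 0) (nat_lit 0) (XT.lf (nat_lit 0) (nat_lit 78514450985) (nat_lit 152) (nat_lit 776270367216) (nat_lit 0) (nat_lit 63167111251) (nat_lit 1) (nat_lit 5) (nat_lit 3) (nat_lit 4) (nat_lit 1) (nat_lit 4) (nat_lit 325) (nat_lit 240) (nat_lit 155)) (XT.nd (nat_lit 78) (nat_lit 0) (nat_lit 0) (XT.lf (nat_lit 0) (nat_lit 89862694874) (nat_lit 152) (nat_lit 826499816219) (nat_lit 0) (nat_lit 74513713391) (nat_lit 1) (nat_lit 5) (nat_lit 3) (nat_lit 4) (nat_lit 1) (nat_lit 4) (nat_lit 326) (nat_lit 240) (nat_lit 154)) (XT.lf (nat_lit 0) (nat_lit 102117506487) (nat_lit 152) (nat_lit 880750056780) (nat_lit 0) (nat_lit 86767004865) (nat_lit 1) (nat_lit 5) (nat_lit 3) (nat_lit 4) (nat_lit 1) (nat_lit 4) (nat_lit 327) (nat_lit 240) (nat_lit 153)))) (XT.nd (nat_lit 78) (nat_lit 0) (nat_lit 0) (XT.lf (nat_lit 0)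 (nat_lit 115351506927) (nat_lit 152) (nat_lit 939342571805) (nat_lit 0) (nat_lit 99999597770) (nat_lit 1) (nat_lit 5) (nat_lit 3) (nat_lit 4) (nat_lit 1) (nat_lit 4) (nat_lit 328) (nat_lit 240) (nat_lit 152)) (XT.nd (nat_lit 78) (nat_lit 0) (nat_lit 0) (XT.lf (nat_lit 0) (nat_lit 129643119902) (nat_lit 152) (nat_lit 1002624576199) (nat_lit 0) (nat_lit 114289907471) (nat_lit 1) (nat_lit 5) (nat_lit 3) (nat_lit 4) (nat_lit 1) (nat_lit 4) (nat_lit 329) (nat_lit 240) (nat_lit 151)) (XT.lf (nat_lit 0) (nat_lit 145077036451) (nat_lit 152) (nat_lit 1070971074431) (nat_lit 0) (nat_lit 129722617286) (nat_lit 1) (nat_lit 5) (nat_lit 3) (nat_lit 4) (nat_lit 1) (nat_lit 4) (nat_lit 330) (nat_lit 240) (nat_lit 150))))) (XT.nd (nat_lit 234) (nat_lit 0) (nat_lit 0) (XT.nd (nat_lit 78) (nat_lit 0) (nat_lit 0) (XT.lf (nat_lit 0) (nat_lit 161744716820) (nat_lit 152) (nat_lit 1144787082788) (nat_lit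 0) (nat_lit 146389180308) (nat_lit 1) (nat_lit 5) (nat_lit 3) (nat_lit 4) (nat_lit 1) (nat_lit 4) (nat_lit 331) (nat_lit 240) (nat_lit 149)) (XT.nd (nat_lit 78) (nat_lit 0) (nat_lit 0) (XT.lf (nat_lit 0) (nat_lit 179744932450) (nat_lit 152) (nat_lit 1224510029468) (nat_lit 0) (nat_lit 164388361357) (nat_lit 1) (nat_lit 5) (nat_lit 3) (nat_lit 4) (nat_lit 1) (nat_lit 4) (nat_lit 332) (nat_lit 240) (nat_lit 148)) (XT.lf (nat_lit 0) (nat_lit 199184351284) (nat_lit 152) (nat_lit 1310612346746) (nat_lit 0) (nat_lit 183826822246) (nat_lit 1) (nat_lit 5) (nat_lit 3) (nat_lit 4) (nat_lit 1) (nat_lit 4) (nat_lit 333) (nat_lit 240) (nat_lit 147)))) (XT.nd (nat_lit 156) (nat_lit 0) (nat_lit 0) (XT.nd (nat_lit 78) (nat_lit 0) (nat_lit 0) (XT.lf (nat_lit 0) (nat_lit 220178169878) (nat_lit 152) (nat_lit 1403604270578) (nat_lit 0) (nat_lit 204819753854) (nat_lit 1) (nat_lit 5) (nat_lit 3) (nat_lit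 4) (nat_lit 1) (nat_lit 4) (nat_lit 334) (nat_lit 240) (nat_lit 146)) (XT.lf (nat_lit 0) (nat_lit 242850796046) (nat_lit 152) (nat_lit 1504036864215) (nat_lit 0) (nat_lit 227491558739) (nat_lit 1) (nat_lit 5) (nat_lit 3) (nat_lit 4) (nat_lit 1) (nat_lit 4) (nat_lit 335) (nat_lit 240) (nat_lit 145))) (XT.nd (nat_lit 78) (nat_lit 0) (nat_lit 0) (XT.lf (nat_lit 0) (nat_lit 267336586092) (nat_lit 152) (nat_lit 1612505283767) (nat_lit 0) (nat_lit 251976588337) (nat_lit 1) (nat_lit 5) (nat_lit 3) (nat_lit 4) (nat_lit 1) (nat_lit 4) (nat_lit 336) (nat_lit 240) (nat_lit 144)) (XT.lf (nat_lit 0) (nat_lit 293780640993) (nat_lit 152) (nat_lit 1729652305056) (nat_lit 0) (nat_lit 278419939120) (nat_lit 1) (nat_lit 5) (nat_lit 3) (nat_lit 4) (nat_lit 1) (nat_lit 4) (nat_lit 337) (nat_lit 240) (nat_lit 143)))))) (XT.nd (nat_lit 30186) (nat_lit 0) (nat_lit 3420) (XT.nd (nat_lit 29952) (nat_lit 0)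 (nat_lit 4180) (XT.nd (nat_lit 78) (nat_lit 0) (nat_lit 0) (XT.lf (nat_lit 0) (nat_lit 322339666260) (nat_lit 152) (nat_lit 1856172132650) (nat_lit 0) (nat_lit 306978312426) (nat_lit 1) (nat_lit 5) (nat_lit 3) (nat_lit 4) (nat_lit 1) (nat_lit 4) (nat_lit 338) (nat_lit 240) (nat_lit 142)) (XT.nd (nat_lit 78) (nat_lit 0) (nat_lit 0) (XT.lf (nat_lit 0) (nat_lit 353182900562) (nat_lit 152) (nat_lit 1992814513678) (nat_lit 0) (nat_lit 337820943060) (nat_lit 1) (nat_lit 5) (nat_lit 3) (nat_lit 4) (nat_lit 1) (nat_lit 4) (nat_lit 339) (nat_lit 240) (nat_lit 141)) (XT.lf (nat_lit 0) (nat_lit 386493118619) (nat_lit 152) (nat_lit 2140389180766) (nat_lit 0) (nat_lit 371130602165) (nat_lit 1) (nat_lit 5) (nat_lit 3) (nat_lit 4) (nat_lit 1) (nat_lit 4) (nat_lit 340) (nat_lit 240) (nat_lit 140)))) (XT.nd (nat_lit 78) (nat_lit 228) (nat_lit 0) (XT.lf (nat_lit 0) (nat_lit 1363553954) (nat_lit 0) (nat_lit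 1363553954) (nat_lit 76) (nat_lit 507348099) (nat_lit 59) (nat_lit 5) (nat_lit 59) (nat_lit 3) (nat_lit 60) (nat_lit 0) (nat_lit 241) (nat_lit 241) (nat_lit 238)) (XT.nd (nat_lit 78) (nat_lit 0) (nat_lit 0) (XT.lf (nat_lit 0) (nat_lit 1477349170) (nat_lit 228) (nat_lit 844314787) (nat_lit 228) (nat_lit 4188256065) (nat_lit 56) (nat_lit 3) (nat_lit 59) (nat_lit 3) (nat_lit 59) (nat_lit 5) (nat_lit 242) (nat_lit 241) (nat_lit 237)) (XT.lf (nat_lit 76) (nat_lit 2235395415) (nat_lit 0) (nat_lit 1684200474) (nat_lit 228) (nat_lit 2650191871) (nat_lit 57) (nat_lit 5) (nat_lit 56) (nat_lit 3) (nat_lit 59) (nat_lit 5) (nat_lit 243) (nat_lit 241) (nat_lit 236))))) (XT.nd (nat_lit 234) (nat_lit 608) (nat_lit 0) (XT.nd (nat_lit 78) (nat_lit 152) (nat_lit 0) (XT.lf (nat_lit 76) (nat_lit 5477872202) (nat_lit 0) (nat_lit 869543973) (nat_lit 228) (nat_lit 305794868) (nat_lit 57) (nat_lit 5) (nat_lit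 56) (nat_lit 3) (nat_lit 59) (nat_lit 5) (nat_lit 244) (nat_lit 241) (nat_lit 235)) (XT.nd (nat_lit 78) (nat_lit 0) (nat_lit 0) (XT.lf (nat_lit 0) (nat_lit 1948738834) (nat_lit 228) (nat_lit 4604104468) (nat_lit 76) (nat_lit 201165001) (nat_lit 54) (nat_lit 5) (nat_lit 57) (nat_lit 5) (nat_lit 55) (nat_lit 5) (nat_lit 245) (nat_lit 241) (nat_lit 234)) (XT.lf (nat_lit 0) (nat_lit 4214901484) (nat_lit 228) (nat_lit 1235759077) (nat_lit 76) (nat_lit 1425323480) (nat_lit 54) (nat_lit 5) (nat_lit 57) (nat_lit 5) (nat_lit 55) (nat_lit 5) (nat_lit 246) (nat_lit 241) (nat_lit 233)))) (XT.nd (nat_lit 156) (nat_lit 304) (nat_lit 0) (XT.nd (nat_lit 78) (nat_lit 76) (nat_lit 0) (XT.lf (nat_lit 0) (nat_lit 2380286525) (nat_lit 228) (nat_lit 4146937878) (nat_lit 304) (nat_lit 492760613) (nat_lit 51) (nat_lit 5) (nat_lit 54) (nat_lit 5) (nat_lit 55) (nat_lit 5) (nat_lit 247) (nat_lit 241) (nat_lit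 232)) (XT.lf (nat_lit 0) (nat_lit 1603773201) (nat_lit 304) (nat_lit 1010646908) (nat_lit 76) (nat_lit 4570997839) (nat_lit 50) (nat_lit 5) (nat_lit 54) (nat_lit 5) (nat_lit 51) (nat_lit 5) (nat_lit 248) (nat_lit 241) (nat_lit 231))) (XT.nd (nat_lit 78) (nat_lit 0) (nat_lit 0) (XT.lf (nat_lit 0) (nat_lit 2903789502) (nat_lit 304) (nat_lit 833914265) (nat_lit 380) (nat_lit 3634810420) (nat_lit 46) (nat_lit 5) (nat_lit 50) (nat_lit 5) (nat_lit 51) (nat_lit 5) (nat_lit 249) (nat_lit 241) (nat_lit 230)) (XT.lf (nat_lit 0) (nat_lit 5933705525) (nat_lit 380) (nat_lit 559244686) (nat_lit 76) (nat_lit 1091389989) (nat_lit 46) (nat_lit 5) (nat_lit 51) (nat_lit 5) (nat_lit 47) (nat_lit 5) (nat_lit 250) (nat_lit 241) (nat_lit 229))))))))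
noncomputable def xc52 : XT := (XT.nd (nat_lit 1950) (nat_lit 532) (nat_lit 0) (XT.nd (nat_lit 936) (nat_lit 760) (nat_lit 0) (XT.nd (nat_lit 468) (nat_lit 608) (nat_lit 0) (XT.nd (nat_lit 234) (nat_lit 456) (nat_lit 0) (XT.nd (nat_lit 78) (nat_lit 456) (nat_lit 0) (XT.lf (nat_lit 0) (nat_lit 424909423) (nat_lit 456) (nat_lit 4140097934) (nat_lit 76) (nat_lit 3251494888) (nat_lit 40) (nat_lit 5) (nat_lit 46) (nat_lit 5) (nat_lit 41) (nat_lit 5) (nat_lit 251) (nat_lit 241) (nat_lit 228)) (XT.nd (nat_lit 78) (nat_lit 0) (nat_lit 0) (XT.lf (nat_lit 0) (nat_lit 32088910) (nat_lit 456) (nat_lit 2413965719) (nat_lit 532) (nat_lit 5629103846) (nat_lit 34) (nat_lit 5) (nat_lit 40) (nat_lit 5) (nat_lit 41) (nat_lit 5) (nat_lit 252) (nat_lit 241) (nat_lit 227)) (XT.lf (nat_lit 0) (nat_lit 4602730983) (nat_lit 532) (nat_lit 3724044916) (nat_lit 76) (nat_lit 30611074) (nat_lit 34) (nat_lit 5)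 (nat_lit 41) (nat_lit 5) (nat_lit 35) (nat_lit 5) (nat_lit 253) (nat_lit 241) (nat_lit 226)))) (XT.nd (nat_lit 78) (nat_lit 228) (nat_lit 0) (XT.lf (nat_lit 0) (nat_lit 776516356) (nat_lit 228) (nat_lit 6107065958) (nat_lit 304) (nat_lit 1783208810) (nat_lit 31) (nat_lit 5) (nat_lit 34) (nat_lit 5) (nat_lit 35) (nat_lit 5) (nat_lit 254) (nat_lit 241) (nat_lit 225)) (XT.nd (nat_lit 78) (nat_lit 152) (nat_lit 0) (XT.lf (nat_lit 0) (nat_lit 305858878) (nat_lit 304) (nat_lit 3298762136) (nat_lit 76) (nat_lit 5398108809) (nat_lit 30) (nat_lit 5) (nat_lit 34) (nat_lit 5) (nat_lit 31) (nat_lit 5) (nat_lit 255) (nat_lit 241) (nat_lit 224)) (XT.lf (nat_lit 0) (nat_lit 1558467453) (nat_lit 152) (nat_lit 826896530) (nat_lit 228) (nat_lit 6983480559) (nat_lit 28) (nat_lit 5) (nat_lit 30) (nat_lit 5) (nat_lit 31) (nat_lit 5) (nat_lit 256) (nat_lit 241) (nat_lit 223))))) (XT.nd (nat_lit 234) (nat_lit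 380) (nat_lit 0) (XT.nd (nat_lit 78) (nat_lit 228) (nat_lit 0) (XT.lf (nat_lit 0) (nat_lit 4663378585) (nat_lit 228) (nat_lit 2958722024) (nat_lit 76) (nat_lit 2140111476) (nat_lit 28) (nat_lit 5) (nat_lit 31) (nat_lit 5) (nat_lit 29) (nat_lit 5) (nat_lit 257) (nat_lit 241) (nat_lit 222)) (XT.nd (nat_lit 78) (nat_lit 0) (nat_lit 0) (XT.lf (nat_lit 0) (nat_lit 2243128024) (nat_lit 228) (nat_lit 4851626424) (nat_lit 304) (nat_lit 3095100878) (nat_lit 25) (nat_lit 5) (nat_lit 28) (nat_lit 5) (nat_lit 29) (nat_lit 5) (nat_lit 258) (nat_lit 241) (nat_lit 221)) (XT.lf (nat_lit 0) (nat_lit 7903978749) (nat_lit 228) (nat_lit 1797963441) (nat_lit 304) (nat_lit 951722860) (nat_lit 25) (nat_lit 5) (nat_lit 28) (nat_lit 5) (nat_lit 29) (nat_lit 5) (nat_lit 259) (nat_lit 241) (nat_lit 220)))) (XT.nd (nat_lit 78) (nat_lit 152) (nat_lit 0) (XT.lf (nat_lit 0) (nat_lit 1306567502) (nat_lit 228) (nat_lit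 8341079439) (nat_lit 76) (nat_lit 1503773125) (nat_lit 22) (nat_lit 5) (nat_lit 25) (nat_lit 5) (nat_lit 23) (nat_lit 5) (nat_lit 260) (nat_lit 241) (nat_lit 219)) (XT.nd (nat_lit 78) (nat_lit 152) (nat_lit 0) (XT.lf (nat_lit 0) (nat_lit 3726446636) (nat_lit 228) (nat_lit 2910217120) (nat_lit 76) (nat_lit 5048131161) (nat_lit 22) (nat_lit 5) (nat_lit 25) (nat_lit 5) (nat_lit 23) (nat_lit 5) (nat_lit 261) (nat_lit 241) (nat_lit 218)) (XT.lf (nat_lit 0) (nat_lit 2988490425) (nat_lit 152) (nat_lit 3338584950) (nat_lit 228) (nat_lit 5935129142) (nat_lit 20) (nat_lit 5) (nat_lit 22) (nat_lit 5) (nat_lit 23) (nat_lit 5) (nat_lit 262) (nat_lit 241) (nat_lit 217)))))) (XT.nd (nat_lit 468) (nat_lit 380) (nat_lit 0) (XT.nd (nat_lit 234) (nat_lit 152) (nat_lit 0) (XT.nd (nat_lit 78) (nat_lit 228) (nat_lit 0) (XT.lf (nat_lit 0) (nat_lit 9140832066) (nat_lit 228) (nat_lit 3481493849) (nat_lit 76)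 (nat_lit 263387259) (nat_lit 20) (nat_lit 5) (nat_lit 23) (nat_lit 5) (nat_lit 21) (nat_lit 4) (nat_lit 263) (nat_lit 241) (nat_lit 216)) (XT.nd (nat_lit 78) (nat_lit 76) (nat_lit 0) (XT.lf (nat_lit 0) (nat_lit 2712703000) (nat_lit 152) (nat_lit 9543081372) (nat_lit 228) (nat_lit 1297519899) (nat_lit 18) (nat_lit 5) (nat_lit 20) (nat_lit 5) (nat_lit 21) (nat_lit 4) (nat_lit 264) (nat_lit 241) (nat_lit 215)) (XT.lf (nat_lit 0) (nat_lit 1301002679) (nat_lit 228) (nat_lit 4812877665) (nat_lit 76) (nat_lit 8156266484) (nat_lit 17) (nat_lit 5) (nat_lit 20) (nat_lit 5) (nat_lit 18) (nat_lit 5) (nat_lit 265) (nat_lit 241) (nat_lit 214)))) (XT.nd (nat_lit 78) (nat_lit 0) (nat_lit 0) (XT.lf (nat_lit 0) (nat_lit 1641995197) (nat_lit 152) (nat_lit 2365379580) (nat_lit 228) (nat_lit 11036890167) (nat_lit 15) (nat_lit 5) (nat_lit 17) (nat_lit 5) (nat_lit 18) (nat_lit 5) (nat_lit 266) (nat_lit 241)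 (nat_lit 213)) (XT.nd (nat_lit 78) (nat_lit 0) (nat_lit 0) (XT.lf (nat_lit 0) (nat_lit 7038215019) (nat_lit 228) (nat_lit 7132321650) (nat_lit 76) (nat_lit 1701351854) (nat_lit 15) (nat_lit 5) (nat_lit 18) (nat_lit 5) (nat_lit 16) (nat_lit 4) (nat_lit 267) (nat_lit 241) (nat_lit 212)) (XT.lf (nat_lit 0) (nat_lit 10310434577) (nat_lit 228) (nat_lit 520005807) (nat_lit 76) (nat_lit 5935565564) (nat_lit 15) (nat_lit 5) (nat_lit 18) (nat_lit 5) (nat_lit 16) (nat_lit 4) (nat_lit 268) (nat_lit 241) (nat_lit 211))))) (XT.nd (nat_lit 234) (nat_lit 76) (nat_lit 0) (XT.nd (nat_lit 78) (nat_lit 228) (nat_lit 0) (XT.lf (nat_lit 0) (nat_lit 6874646994) (nat_lit 76) (nat_lit 7077225379) (nat_lit 152) (nat_lit 3771367485) (nat_lit 14) (nat_lit 5) (nat_lit 15) (nat_lit 5) (nat_lit 16) (nat_lit 4) (nat_lit 269) (nat_lit 241) (nat_lit 210)) (XT.nd (nat_lit 78) (nat_lit 228) (nat_lit 0) (XT.lf (nat_lit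 0) (nat_lit 14802191522) (nat_lit 76) (nat_lit 3040922796) (nat_lit 152) (nat_lit 917427867) (nat_lit 14) (nat_lit 5) (nat_lit 15) (nat_lit 5) (nat_lit 16) (nat_lit 4) (nat_lit 270) (nat_lit 241) (nat_lit 209)) (XT.lf (nat_lit 0) (nat_lit 2122661130) (nat_lit 228) (nat_lit 16386171329) (nat_lit 76) (nat_lit 1362685647) (nat_lit 11) (nat_lit 5) (nat_lit 14) (nat_lit 5) (nat_lit 12) (nat_lit 4) (nat_lit 271) (nat_lit 241) (nat_lit 208)))) (XT.nd (nat_lit 156) (nat_lit 76) (nat_lit 0) (XT.nd (nat_lit 78) (nat_lit 0) (nat_lit 0) (XT.lf (nat_lit 0) (nat_lit 5494520883) (nat_lit 228) (nat_lit 9504668695) (nat_lit 76) (nat_lit 6059359920) (nat_lit 11) (nat_lit 5) (nat_lit 14) (nat_lit 5) (nat_lit 12) (nat_lit 4) (nat_lit 272) (nat_lit 241) (nat_lit 207)) (XT.lf (nat_lit 0) (nat_lit 9088077671) (nat_lit 228) (nat_lit 2152260995) (nat_lit 76) (nat_lit 11104172974) (nat_lit 11) (nat_lit 5) (nat_lit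 14) (nat_lit 5) (nat_lit 12) (nat_lit 4) (nat_lit 273) (nat_lit 241) (nat_lit 206))) (XT.nd (nat_lit 78) (nat_lit 0) (nat_lit 0) (XT.lf (nat_lit 0) (nat_lit 6015543442) (nat_lit 76) (nat_lit 7053757169) (nat_lit 152) (nat_lit 10656150521) (nat_lit 10) (nat_lit 5) (nat_lit 11) (nat_lit 5) (nat_lit 12) (nat_lit 4) (nat_lit 274) (nat_lit 241) (nat_lit 205)) (XT.lf (nat_lit 0) (nat_lit 14887321771) (nat_lit 76) (nat_lit 2497621590) (nat_lit 152) (nat_lit 7830755060) (nat_lit 10) (nat_lit 5) (nat_lit 11) (nat_lit 5) (nat_lit 12) (nat_lit 4) (nat_lit 275) (nat_lit 241) (nat_lit 204))))))) (XT.nd (nat_lit 1014) (nat_lit 152) (nat_lit 0) (XT.nd (nat_lit 468) (nat_lit 152) (nat_lit 0) (XT.nd (nat_lit 234) (nat_lit 76) (nat_lit 0) (XT.nd (nat_lit 78) (nat_lit 152) (nat_lit 0) (XT.lf (nat_lit 0) (nat_lit 22063721646) (nat_lit 152) (nat_lit 2483759535) (nat_lit 0) (nat_lit 2276352095) (nat_lit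 10) (nat_lit 5) (nat_lit 12) (nat_lit 4) (nat_lit 10) (nat_lit 4) (nat_lit 276) (nat_lit 241) (nat_lit 203)) (XT.nd (nat_lit 78) (nat_lit 76) (nat_lit 0) (XT.lf (nat_lit 0) (nat_lit 6168065379) (nat_lit 76) (nat_lit 21124554807) (nat_lit 76) (nat_lit 1254024510) (nat_lit 9) (nat_lit 4) (nat_lit 10) (nat_lit 5) (nat_lit 10) (nat_lit 4) (nat_lit 277) (nat_lit 241) (nat_lit 202)) (XT.lf (nat_lit 0) (nat_lit 2438388444) (nat_lit 152) (nat_lit 14875683023) (nat_lit 76) (nat_lit 13085812956) (nat_lit 8) (nat_lit 5) (nat_lit 10) (nat_lit 5) (nat_lit 9) (nat_lit 4) (nat_lit 278) (nat_lit 241) (nat_lit 201)))) (XT.nd (nat_lit 78) (nat_lit 76) (nat_lit 0) (XT.lf (nat_lit 0) (nat_lit 6324049132) (nat_lit 152) (nat_lit 6864805729) (nat_lit 76) (nat_lit 19212746746) (nat_lit 8) (nat_lit 5) (nat_lit 10) (nat_lit 5) (nat_lit 9) (nat_lit 4) (nat_lit 279) (nat_lit 241) (nat_lit 200)) (XT.nd (nat_lit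 78) (nat_lit 0) (nat_lit 0) (XT.lf (nat_lit 0) (nat_lit 1822871146) (nat_lit 76) (nat_lit 8709684023) (nat_lit 152) (nat_lit 24030008644) (nat_lit 7) (nat_lit 5) (nat_lit 8) (nat_lit 5) (nat_lit 9) (nat_lit 4) (nat_lit 280) (nat_lit 241) (nat_lit 199)) (XT.lf (nat_lit 0) (nat_lit 11542110693) (nat_lit 76) (nat_lit 3692543119) (nat_lit 152) (nat_lit 21649258293) (nat_lit 7) (nat_lit 5) (nat_lit 8) (nat_lit 5) (nat_lit 9) (nat_lit 4) (nat_lit 281) (nat_lit 241) (nat_lit 198))))) (XT.nd (nat_lit 234) (nat_lit 152) (nat_lit 0) (XT.nd (nat_lit 78) (nat_lit 0) (nat_lit 0) (XT.lf (nat_lit 0) (nat_lit 20325412547) (nat_lit 152) (nat_lit 17445281870) (nat_lit 0) (nat_lit 1619331950) (nat_lit 7) (nat_lit 5) (nat_lit 9) (nat_lit 4) (nat_lit 7) (nat_lit 4) (nat_lit 282) (nat_lit 241) (nat_lit 197)) (XT.nd (nat_lit 78) (nat_lit 0) (nat_lit 0) (XT.lf (nat_lit 0) (nat_lit 25892474228) (nat_lit 152)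 (nat_lit 9060815250) (nat_lit 0) (nat_lit 7137870135) (nat_lit 7) (nat_lit 5) (nat_lit 9) (nat_lit 4) (nat_lit 7) (nat_lit 4) (nat_lit 283) (nat_lit 241) (nat_lit 196)) (XT.lf (nat_lit 0) (nat_lit 31880023102) (nat_lit 152) (nat_lit 49910073) (nat_lit 0) (nat_lit 13080489845) (nat_lit 7) (nat_lit 5) (nat_lit 9) (nat_lit 4) (nat_lit 7) (nat_lit 4) (nat_lit 284) (nat_lit 241) (nat_lit 195)))) (XT.nd (nat_lit 156) (nat_lit 76) (nat_lit 0) (XT.nd (nat_lit 78) (nat_lit 0) (nat_lit 0) (XT.lf (nat_lit 0) (nat_lit 10148500724) (nat_lit 76) (nat_lit 28419111901) (nat_lit 76) (nat_lit 9577977566) (nat_lit 6) (nat_lit 4) (nat_lit 7) (nat_lit 5) (nat_lit 7) (nat_lit 4) (nat_lit 285) (nat_lit 241) (nat_lit 194)) (XT.lf (nat_lit 0) (nat_lit 21125625800) (nat_lit 76) (nat_lit 24643657558) (nat_lit 76) (nat_lit 5764003707) (nat_lit 6) (nat_lit 4) (nat_lit 7) (nat_lit 5) (nat_lit 7) (nat_lit 4) (nat_lit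 286) (nat_lit 241) (nat_lit 193))) (XT.nd (nat_lit 78) (nat_lit 76) (nat_lit 0) (XT.lf (nat_lit 0) (nat_lit 32943886607) (nat_lit 76) (nat_lit 20582561713) (nat_lit 76) (nat_lit 1667241643) (nat_lit 6) (nat_lit 4) (nat_lit 7) (nat_lit 5) (nat_lit 7) (nat_lit 4) (nat_lit 287) (nat_lit 241) (nat_lit 192)) (XT.lf (nat_lit 0) (nat_lit 2599690631) (nat_lit 152) (nat_lit 13540987832) (nat_lit 76) (nat_lit 43002546502) (nat_lit 5) (nat_lit 5) (nat_lit 7) (nat_lit 5) (nat_lit 6) (nat_lit 4) (nat_lit 288) (nat_lit 241) (nat_lit 191)))))) (XT.nd (nat_lit 468) (nat_lit 76) (nat_lit 0) (XT.nd (nat_lit 234) (nat_lit 0) (nat_lit 0) (XT.nd (nat_lit 78) (nat_lit 76) (nat_lit 0) (XT.lf (nat_lit 0) (nat_lit 7099716678) (nat_lit 152) (nat_lit 4211511688) (nat_lit 76) (nat_lit 52095515977) (nat_lit 5) (nat_lit 5) (nat_lit 7) (nat_lit 5) (nat_lit 6) (nat_lit 4) (nat_lit 289) (nat_lit 241) (nat_lit 190))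 (XT.nd (nat_lit 78) (nat_lit 0) (nat_lit 0) (XT.lf (nat_lit 0) (nat_lit 6141216587) (nat_lit 76) (nat_lit 5949385317) (nat_lit 152) (nat_lit 55910303554) (nat_lit 4) (nat_lit 5) (nat_lit 5) (nat_lit 5) (nat_lit 6) (nat_lit 4) (nat_lit 290) (nat_lit 241) (nat_lit 189)) (XT.lf (nat_lit 0) (nat_lit 17532128498) (nat_lit 76) (nat_lit 47477082) (nat_lit 152) (nat_lit 55375112697) (nat_lit 4) (nat_lit 5) (nat_lit 5) (nat_lit 5) (nat_lit 6) (nat_lit 4) (nat_lit 291) (nat_lit 241) (nat_lit 188)))) (XT.nd (nat_lit 78) (nat_lit 0) (nat_lit 0) (XT.lf (nat_lit 0) (nat_lit 23644494144) (nat_lit 152) (nat_lit 48650972930) (nat_lit 0) (nat_lit 5998452533) (nat_lit 4) (nat_lit 5) (nat_lit 6) (nat_lit 4) (nat_lit 4) (nat_lit 4) (nat_lit 292) (nat_lit 241) (nat_lit 187)) (XT.nd (nat_lit 78) (nat_lit 0) (nat_lit 0) (XT.lf (nat_lit 0) (nat_lit 30181557056) (nat_lit 152) (nat_lit 41365059603) (nat_lit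 0) (nat_lit 12514704550) (nat_lit 4) (nat_lit 5) (nat_lit 6) (nat_lit 4) (nat_lit 4) (nat_lit 4) (nat_lit 293) (nat_lit 241) (nat_lit 186)) (XT.lf (nat_lit 0) (nat_lit 37228390644) (nat_lit 152) (nat_lit 33520532191) (nat_lit 0) (nat_lit 19542268789) (nat_lit 4) (nat_lit 5) (nat_lit 6) (nat_lit 4) (nat_lit 4) (nat_lit 4) (nat_lit 294) (nat_lit 241) (nat_lit 185))))) (XT.nd (nat_lit 234) (nat_lit 76) (nat_lit 0) (XT.nd (nat_lit 78) (nat_lit 0) (nat_lit 0) (XT.lf (nat_lit 0) (nat_lit 44826753920) (nat_lit 152) (nat_lit 25070904606) (nat_lit 0) (nat_lit 27122790076) (nat_lit 4) (nat_lit 5) (nat_lit 6) (nat_lit 4) (nat_lit 4) (nat_lit 4) (nat_lit 295) (nat_lit 241) (nat_lit 184)) (XT.nd (nat_lit 78) (nat_lit 0) (nat_lit 0) (XT.lf (nat_lit 0) (nat_lit 53021674223) (nat_lit 152) (nat_lit 15966104981) (nat_lit 0) (nat_lit 35301190019) (nat_lit 4) (nat_lit 5) (nat_lit 6) (nat_lit 4) (nat_lit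 4) (nat_lit 4) (nat_lit 296) (nat_lit 241) (nat_lit 183)) (XT.lf (nat_lit 0) (nat_lit 61861714043) (nat_lit 152) (nat_lit 6152178948) (nat_lit 0) (nat_lit 44125933209) (nat_lit 4) (nat_lit 5) (nat_lit 6) (nat_lit 4) (nat_lit 4) (nat_lit 4) (nat_lit 297) (nat_lit 241) (nat_lit 182)))) (XT.nd (nat_lit 156) (nat_lit 0) (nat_lit 0) (XT.nd (nat_lit 78) (nat_lit 0) (nat_lit 0) (XT.lf (nat_lit 0) (nat_lit 4662254967) (nat_lit 76) (nat_lit 66849131177) (nat_lit 76) (nat_lit 49099186797) (nat_lit 3) (nat_lit 4) (nat_lit 4) (nat_lit 5) (nat_lit 4) (nat_lit 4) (nat_lit 298) (nat_lit 241) (nat_lit 181)) (XT.lf (nat_lit 0) (nat_lit 16674343809) (nat_lit 76) (nat_lit 65417501842) (nat_lit 76) (nat_lit 47654443067) (nat_lit 3) (nat_lit 4) (nat_lit 4) (nat_lit 5) (nat_lit 4) (nat_lit 4) (nat_lit 299) (nat_lit 241) (nat_lit 180))) (XT.nd (nat_lit 78) (nat_lit 0) (nat_lit 0) (XT.lf (nat_lit 0) (nat_lit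 29631307484) (nat_lit 76) (nat_lit 63878732730) (nat_lit 76) (nat_lit 46103530997) (nat_lit 3) (nat_lit 4) (nat_lit 4) (nat_lit 5) (nat_lit 4) (nat_lit 4) (nat_lit 300) (nat_lit 241) (nat_lit 179)) (XT.lf (nat_lit 0) (nat_lit 43609927999) (nat_lit 76) (nat_lit 62223705210) (nat_lit 76) (nat_lit 44437259998) (nat_lit 3) (nat_lit 4) (nat_lit 4) (nat_lit 5) (nat_lit 4) (nat_lit 4) (nat_lit 301) (nat_lit 241) (nat_lit 178))))))))
noncomputable def xc53 : XT := (XT.nd (nat_lit 2028) (nat_lit 0) (nat_lit 0) (XT.nd (nat_lit 1014) (nat_lit 152) (nat_lit 0) (XT.nd (nat_lit 468) (nat_lit 0) (nat_lit 0) (XT.nd (nat_lit 234) (nat_lit 0) (nat_lit 0) (XT.nd (nat_lit 78) (nat_lit 0) (nat_lit 0) (XT.lf (nat_lit 0) (nat_lit 58693041625) (nat_lit 76) (nat_lit 60442611712) (nat_lit 76) (nat_lit 42645755870) (nat_lit 3) (nat_lit 4) (nat_lit 4) (nat_lit 5) (nat_lit 4) (nat_lit 4) (nat_lit 302) (nat_lit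 241) (nat_lit 177)) (XT.nd (nat_lit 78) (nat_lit 0) (nat_lit 0) (XT.lf (nat_lit 0) (nat_lit 74970029774) (nat_lit 76) (nat_lit 58524897607) (nat_lit 76) (nat_lit 40718402294) (nat_lit 3) (nat_lit 4) (nat_lit 4) (nat_lit 5) (nat_lit 4) (nat_lit 4) (nat_lit 303) (nat_lit 241) (nat_lit 176)) (XT.lf (nat_lit 0) (nat_lit 92537348674) (nat_lit 76) (nat_lit 56459198664) (nat_lit 76) (nat_lit 38643777914) (nat_lit 3) (nat_lit 4) (nat_lit 4) (nat_lit 5) (nat_lit 4) (nat_lit 4) (nat_lit 304) (nat_lit 241) (nat_lit 175)))) (XT.nd (nat_lit 78) (nat_lit 0) (nat_lit 0) (XT.lf (nat_lit 0) (nat_lit 111499100954) (nat_lit 76) (nat_lit 54233273704) (nat_lit 76) (nat_lit 36409588661) (nat_lit 3) (nat_lit 4) (nat_lit 4) (nat_lit 5) (nat_lit 4) (nat_lit 4) (nat_lit 305) (nat_lit 241) (nat_lit 174)) (XT.nd (nat_lit 78) (nat_lit 0) (nat_lit 0) (XT.lf (nat_lit 0) (nat_lit 131967652554) (nat_lit 76) (nat_lit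 51833932060) (nat_lit 76) (nat_lit 34002594894) (nat_lit 3) (nat_lit 4) (nat_lit 4) (nat_lit 5) (nat_lit 4) (nat_lit 4) (nat_lit 306) (nat_lit 241) (nat_lit 173)) (XT.lf (nat_lit 0) (nat_lit 154064298595) (nat_lit 76) (nat_lit 49246955411) (nat_lit 76) (nat_lit 31408532946) (nat_lit 3) (nat_lit 4) (nat_lit 4) (nat_lit 5) (nat_lit 4) (nat_lit 4) (nat_lit 307) (nat_lit 241) (nat_lit 172))))) (XT.nd (nat_lit 234) (nat_lit 0) (nat_lit 0) (XT.nd (nat_lit 78) (nat_lit 0) (nat_lit 0) (XT.lf (nat_lit 0) (nat_lit 177919982165) (nat_lit 76) (nat_lit 46457013526) (nat_lit 76) (nat_lit 28612030598) (nat_lit 3) (nat_lit 4) (nat_lit 4) (nat_lit 5) (nat_lit 4) (nat_lit 4) (nat_lit 308) (nat_lit 241) (nat_lit 171)) (XT.nd (nat_lit 78) (nat_lit 0) (nat_lit 0) (XT.lf (nat_lit 0) (nat_lit 203676070276) (nat_lit 76) (nat_lit 43447573415) (nat_lit 76) (nat_lit 25596515985) (nat_lit 3) (nat_lit 4) (nat_lit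 4) (nat_lit 5) (nat_lit 4) (nat_lit 4) (nat_lit 309) (nat_lit 241) (nat_lit 170)) (XT.lf (nat_lit 0) (nat_lit 231485191600) (nat_lit 76) (nat_lit 40200801360) (nat_lit 76) (nat_lit 22344119391) (nat_lit 3) (nat_lit 4) (nat_lit 4) (nat_lit 5) (nat_lit 4) (nat_lit 4) (nat_lit 310) (nat_lit 241) (nat_lit 169)))) (XT.nd (nat_lit 156) (nat_lit 0) (nat_lit 0) (XT.nd (nat_lit 78) (nat_lit 0) (nat_lit 0) (XT.lf (nat_lit 0) (nat_lit 261512140930) (nat_lit 76) (nat_lit 36697457230) (nat_lit 76) (nat_lit 18835567354) (nat_lit 3) (nat_lit 4) (nat_lit 4) (nat_lit 5) (nat_lit 4) (nat_lit 4) (nat_lit 311) (nat_lit 241) (nat_lit 168)) (XT.lf (nat_lit 0) (nat_lit 293934855742) (nat_lit 76) (nat_lit 32916780466) (nat_lit 76) (nat_lit 15050068455) (nat_lit 3) (nat_lit 4) (nat_lit 4) (nat_lit 5) (nat_lit 4) (nat_lit 4) (nat_lit 312) (nat_lit 241) (nat_lit 167))) (XT.nd (nat_lit 78) (nat_lit 0) (nat_lit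 0) (XT.lf (nat_lit 0) (nat_lit 328945470643) (nat_lit 76) (nat_lit 28836367058) (nat_lit 76) (nat_lit 10965190107) (nat_lit 3) (nat_lit 4) (nat_lit 4) (nat_lit 5) (nat_lit 4) (nat_lit 4) (nat_lit 313) (nat_lit 241) (nat_lit 166)) (XT.lf (nat_lit 0) (nat_lit 366751455945) (nat_lit 76) (nat_lit 24432036780) (nat_lit 76) (nat_lit 6556725624) (nat_lit 3) (nat_lit 4) (nat_lit 4) (nat_lit 5) (nat_lit 4) (nat_lit 4) (nat_lit 314) (nat_lit 241) (nat_lit 165)))))) (XT.nd (nat_lit 468) (nat_lit 0) (nat_lit 0) (XT.nd (nat_lit 234) (nat_lit 76) (nat_lit 0) (XT.nd (nat_lit 78) (nat_lit 76) (nat_lit 0) (XT.lf (nat_lit 0) (nat_lit 407576847114) (nat_lit 76) (nat_lit 19677689895) (nat_lit 76) (nat_lit 1798550773) (nat_lit 3) (nat_lit 4) (nat_lit 4) (nat_lit 5) (nat_lit 4) (nat_lit 4) (nat_lit 315) (nat_lit 241) (nat_lit 164)) (XT.nd (nat_lit 78) (nat_lit 0) (nat_lit 0) (XT.lf (nat_lit 0) (nat_lit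 3170574219) (nat_lit 152) (nat_lit 11287889160) (nat_lit 76) (nat_lit 448406309059) (nat_lit 2) (nat_lit 5) (nat_lit 4) (nat_lit 5) (nat_lit 3) (nat_lit 4) (nat_lit 316) (nat_lit 241) (nat_lit 163)) (XT.lf (nat_lit 0) (nat_lit 8437644447) (nat_lit 152) (nat_lit 335664948) (nat_lit 76) (nat_lit 490604541858) (nat_lit 2) (nat_lit 5) (nat_lit 4) (nat_lit 5) (nat_lit 3) (nat_lit 4) (nat_lit 317) (nat_lit 241) (nat_lit 162)))) (XT.nd (nat_lit 78) (nat_lit 0) (nat_lit 0) (XT.lf (nat_lit 0) (nat_lit 12093557972) (nat_lit 76) (nat_lit 2321135362) (nat_lit 152) (nat_lit 524374197085) (nat_lit 1) (nat_lit 5) (nat_lit 2) (nat_lit 5) (nat_lit 3) (nat_lit 4) (nat_lit 318) (nat_lit 241) (nat_lit 161)) (XT.nd (nat_lit 78) (nat_lit 0) (nat_lit 0) (XT.lf (nat_lit 0) (nat_lit 20988873864) (nat_lit 152) (nat_lit 555932048423) (nat_lit 0) (nat_lit 4422375870) (nat_lit 1) (nat_lit 5) (nat_lit 3) (nat_lit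 4) (nat_lit 1) (nat_lit 4) (nat_lit 319) (nat_lit 241) (nat_lit 160)) (XT.lf (nat_lit 0) (nat_lit 28147228159) (nat_lit 152) (nat_lit 587571855957) (nat_lit 0) (nat_lit 11578317897) (nat_lit 1) (nat_lit 5) (nat_lit 3) (nat_lit 4) (nat_lit 1) (nat_lit 4) (nat_lit 320) (nat_lit 241) (nat_lit 159))))) (XT.nd (nat_lit 234) (nat_lit 0) (nat_lit 0) (XT.nd (nat_lit 78) (nat_lit 0) (nat_lit 0) (XT.lf (nat_lit 0) (nat_lit 35876352737) (nat_lit 152) (nat_lit 621746426843) (nat_lit 0) (nat_lit 19305208892) (nat_lit 1) (nat_lit 5) (nat_lit 3) (nat_lit 4) (nat_lit 1) (nat_lit 4) (nat_lit 321) (nat_lit 241) (nat_lit 158)) (XT.nd (nat_lit 78) (nat_lit 0) (nat_lit 0) (XT.lf (nat_lit 0) (nat_lit 44222049816) (nat_lit 152) (nat_lit 658658277059) (nat_lit 0) (nat_lit 27648837840) (nat_lit 1) (nat_lit 5) (nat_lit 3) (nat_lit 4) (nat_lit 1) (nat_lit 4) (nat_lit 322) (nat_lit 241) (nat_lit 157)) (XT.lf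 (nat_lit 0) (nat_lit 53233775380) (nat_lit 152) (nat_lit 698526143492) (nat_lit 0) (nat_lit 36658648467) (nat_lit 1) (nat_lit 5) (nat_lit 3) (nat_lit 4) (nat_lit 1) (nat_lit 4) (nat_lit 323) (nat_lit 241) (nat_lit 156)))) (XT.nd (nat_lit 156) (nat_lit 0) (nat_lit 0) (XT.nd (nat_lit 78) (nat_lit 0) (nat_lit 0) (XT.lf (nat_lit 0) (nat_lit 62964932246) (nat_lit 152) (nat_lit 741586280168) (nat_lit 0) (nat_lit 46388032244) (nat_lit 1) (nat_lit 5) (nat_lit 3) (nat_lit 4) (nat_lit 1) (nat_lit 4) (nat_lit 324) (nat_lit 241) (nat_lit 155)) (XT.lf (nat_lit 0) (nat_lit 73473186530) (nat_lit 152) (nat_lit 788093858266) (nat_lit 0) (nat_lit 56894644778) (nat_lit 1) (nat_lit 5) (nat_lit 3) (nat_lit 4) (nat_lit 1) (nat_lit 4) (nat_lit 325) (nat_lit 241) (nat_lit 154))) (XT.nd (nat_lit 78) (nat_lit 0) (nat_lit 0) (XT.lf (nat_lit 0) (nat_lit 84820809367) (nat_lit 152) (nat_lit 838324478249) (nat_lit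 0) (nat_lit 68240747478) (nat_lit 1) (nat_lit 5) (nat_lit 3) (nat_lit 4) (nat_lit 1) (nat_lit 4) (nat_lit 326) (nat_lit 241) (nat_lit 153)) (XT.lf (nat_lit 0) (nat_lit 97075045931) (nat_lit 152) (nat_lit 892575803050) (nat_lit 0) (nat_lit 80493576506) (nat_lit 1) (nat_lit 5) (nat_lit 3) (nat_lit 4) (nat_lit 1) (nat_lit 4) (nat_lit 327) (nat_lit 241) (nat_lit 152))))))) (XT.nd (nat_lit 30888) (nat_lit 0) (nat_lit 2204) (XT.nd (nat_lit 468) (nat_lit 0) (nat_lit 0) (XT.nd (nat_lit 234) (nat_lit 0) (nat_lit 0) (XT.nd (nat_lit 78) (nat_lit 0) (nat_lit 0) (XT.lf (nat_lit 0) (nat_lit 110308513919) (nat_lit 152) (nat_lit 951169322001) (nat_lit 0) (nat_lit 93725741220) (nat_lit 1) (nat_lit 5) (nat_lit 3) (nat_lit 4) (nat_lit 1) (nat_lit 4) (nat_lit 328) (nat_lit 241) (nat_lit 151)) (XT.nd (nat_lit 78) (nat_lit 0) (nat_lit 0) (XT.lf (nat_lit 0) (nat_lit 124599633882) (nat_lit 152) (nat_lit 1014452255956)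 (nat_lit 0) (nat_lit 108015654449) (nat_lit 1) (nat_lit 5) (nat_lit 3) (nat_lit 4) (nat_lit 1) (nat_lit 4) (nat_lit 329) (nat_lit 241) (nat_lit 150)) (XT.lf (nat_lit 0) (nat_lit 140033093939) (nat_lit 152) (nat_lit 1082799614893) (nat_lit 0) (nat_lit 123447997159) (nat_lit 1) (nat_lit 5) (nat_lit 3) (nat_lit 4) (nat_lit 1) (nat_lit 4) (nat_lit 330) (nat_lit 241) (nat_lit 149)))) (XT.nd (nat_lit 78) (nat_lit 0) (nat_lit 0) (XT.lf (nat_lit 0) (nat_lit 156700351631) (nat_lit 152) (nat_lit 1156616420199) (nat_lit 0) (nat_lit 140114220270) (nat_lit 1) (nat_lit 5) (nat_lit 3) (nat_lit 4) (nat_lit 1) (nat_lit 4) (nat_lit 331) (nat_lit 241) (nat_lit 148)) (XT.nd (nat_lit 78) (nat_lit 0) (nat_lit 0) (XT.lf (nat_lit 0) (nat_lit 174700175892) (nat_lit 152) (nat_lit 1236340104794) (nat_lit 0) (nat_lit 158113086587) (nat_lit 1) (nat_lit 5) (nat_lit 3) (nat_lit 4) (nat_lit 1) (nat_lit 4) (nat_lit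 332) (nat_lit 241) (nat_lit 147)) (XT.lf (nat_lit 0) (nat_lit 194139232348) (nat_lit 152) (nat_lit 1322443105328) (nat_lit 0) (nat_lit 177551256056) (nat_lit 1) (nat_lit 5) (nat_lit 3) (nat_lit 4) (nat_lit 1) (nat_lit 4) (nat_lit 333) (nat_lit 241) (nat_lit 146))))) (XT.nd (nat_lit 234) (nat_lit 0) (nat_lit 0) (XT.nd (nat_lit 78) (nat_lit 0) (nat_lit 0) (XT.lf (nat_lit 0) (nat_lit 215132715407) (nat_lit 152) (nat_lit 1415435661803) (nat_lit 0) (nat_lit 198543917832) (nat_lit 1) (nat_lit 5) (nat_lit 3) (nat_lit 4) (nat_lit 1) (nat_lit 4) (nat_lit 334) (nat_lit 241) (nat_lit 145)) (XT.nd (nat_lit 78) (nat_lit 0) (nat_lit 0) (XT.lf (nat_lit 0) (nat_lit 237805030894) (nat_lit 152) (nat_lit 1515868841221) (nat_lit 0) (nat_lit 221215472871) (nat_lit 1) (nat_lit 5) (nat_lit 3) (nat_lit 4) (nat_lit 1) (nat_lit 4) (nat_lit 335) (nat_lit 241) (nat_lit 144)) (XT.lf (nat_lit 0) (nat_lit 262290533273)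 (nat_lit 152) (nat_lit 1624337803164) (nat_lit 0) (nat_lit 245700271132) (nat_lit 1) (nat_lit 5) (nat_lit 3) (nat_lit 4) (nat_lit 1) (nat_lit 4) (nat_lit 336) (nat_lit 241) (nat_lit 143)))) (XT.nd (nat_lit 156) (nat_lit 0) (nat_lit 0) (XT.nd (nat_lit 78) (nat_lit 0) (nat_lit 0) (XT.lf (nat_lit 0) (nat_lit 288734321815) (nat_lit 152) (nat_lit 1741485326666) (nat_lit 0) (nat_lit 272143407713) (nat_lit 1) (nat_lit 5) (nat_lit 3) (nat_lit 4) (nat_lit 1) (nat_lit 4) (nat_lit 337) (nat_lit 241) (nat_lit 142)) (XT.lf (nat_lit 0) (nat_lit 317293100454) (nat_lit 152) (nat_lit 1868005619272) (nat_lit 0) (nat_lit 300701582684) (nat_lit 1) (nat_lit 5) (nat_lit 3) (nat_lit 4) (nat_lit 1) (nat_lit 4) (nat_lit 338) (nat_lit 241) (nat_lit 141))) (XT.nd (nat_lit 29952) (nat_lit 0) (nat_lit 4180) (XT.lf (nat_lit 0) (nat_lit 348136106396) (nat_lit 152) (nat_lit 2004648430866) (nat_lit 0) (nat_lit 331544029674)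 (nat_lit 1) (nat_lit 5) (nat_lit 3) (nat_lit 4) (nat_lit 1) (nat_lit 4) (nat_lit 339) (nat_lit 241) (nat_lit 140)) (XT.lf (nat_lit 0) (nat_lit 1899677364) (nat_lit 228) (nat_lit 690048098) (nat_lit 228) (nat_lit 690048098) (nat_lit 56) (nat_lit 3) (nat_lit 59) (nat_lit 3) (nat_lit 59) (nat_lit 5) (nat_lit 242) (nat_lit 242) (nat_lit 236)))))) (XT.nd (nat_lit 468) (nat_lit 1520) (nat_lit 0) (XT.nd (nat_lit 234) (nat_lit 228) (nat_lit 0) (XT.nd (nat_lit 78) (nat_lit 228) (nat_lit 0) (XT.lf (nat_lit 76) (nat_lit 1608118416) (nat_lit 0) (nat_lit 4507952007) (nat_lit 228) (nat_lit 514339629) (nat_lit 57) (nat_lit 5) (nat_lit 56) (nat_lit 3) (nat_lit 59) (nat_lit 5) (nat_lit 243) (nat_lit 242) (nat_lit 235)) (XT.nd (nat_lit 78) (nat_lit 0) (nat_lit 0) (XT.lf (nat_lit 0) (nat_lit 1631306582) (nat_lit 228) (nat_lit 1972307731) (nat_lit 304) (nat_lit 3116091095) (nat_lit 53) (nat_lit 5) (nat_lit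 56) (nat_lit 3) (nat_lit 57) (nat_lit 5) (nat_lit 244) (nat_lit 242) (nat_lit 234)) (XT.lf (nat_lit 76) (nat_lit 1245316872) (nat_lit 0) (nat_lit 2498983034) (nat_lit 304) (nat_lit 3086470165) (nat_lit 54) (nat_lit 5) (nat_lit 53) (nat_lit 5) (nat_lit 57) (nat_lit 5) (nat_lit 245) (nat_lit 242) (nat_lit 233)))) (XT.nd (nat_lit 78) (nat_lit 228) (nat_lit 0) (XT.lf (nat_lit 76) (nat_lit 4710396005) (nat_lit 0) (nat_lit 1175753083) (nat_lit 304) (nat_lit 1077242066) (nat_lit 54) (nat_lit 5) (nat_lit 53) (nat_lit 5) (nat_lit 57) (nat_lit 5) (nat_lit 246) (nat_lit 242) (nat_lit 232)) (XT.nd (nat_lit 78) (nat_lit 0) (nat_lit 0) (XT.lf (nat_lit 0) (nat_lit 891693579) (nat_lit 304) (nat_lit 5868604573) (nat_lit 76) (nat_lit 357179591) (nat_lit 50) (nat_lit 5) (nat_lit 54) (nat_lit 5) (nat_lit 51) (nat_lit 5) (nat_lit 247) (nat_lit 242) (nat_lit 231)) (XT.lf (nat_lit 0) (nat_lit 2880144681)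 (nat_lit 304) (nat_lit 2317461410) (nat_lit 76) (nat_lit 2091587034) (nat_lit 50) (nat_lit 5) (nat_lit 54) (nat_lit 5) (nat_lit 51) (nat_lit 5) (nat_lit 248) (nat_lit 242) (nat_lit 230))))) (XT.nd (nat_lit 234) (nat_lit 760) (nat_lit 0) (XT.nd (nat_lit 78) (nat_lit 456) (nat_lit 0) (XT.lf (nat_lit 0) (nat_lit 1463775291) (nat_lit 304) (nat_lit 3438414959) (nat_lit 380) (nat_lit 2583564633) (nat_lit 46) (nat_lit 5) (nat_lit 50) (nat_lit 5) (nat_lit 51) (nat_lit 5) (nat_lit 249) (nat_lit 242) (nat_lit 229)) (XT.nd (nat_lit 78) (nat_lit 456) (nat_lit 0) (XT.lf (nat_lit 0) (nat_lit 5555305939) (nat_lit 304) (nat_lit 1442291974) (nat_lit 380) (nat_lit 708507104) (nat_lit 46) (nat_lit 5) (nat_lit 50) (nat_lit 5) (nat_lit 51) (nat_lit 5) (nat_lit 250) (nat_lit 242) (nat_lit 228)) (XT.lf (nat_lit 0) (nat_lit 1172860132) (nat_lit 456) (nat_lit 5996095323) (nat_lit 76) (nat_lit 779671377) (nat_lit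 40) (nat_lit 5) (nat_lit 46) (nat_lit 5) (nat_lit 41) (nat_lit 5) (nat_lit 251) (nat_lit 242) (nat_lit 227)))) (XT.nd (nat_lit 156) (nat_lit 304) (nat_lit 0) (XT.nd (nat_lit 78) (nat_lit 456) (nat_lit 0) (XT.lf (nat_lit 0) (nat_lit 3127472862) (nat_lit 456) (nat_lit 1889145059) (nat_lit 76) (nat_lit 3196366071) (nat_lit 40) (nat_lit 5) (nat_lit 46) (nat_lit 5) (nat_lit 41) (nat_lit 5) (nat_lit 252) (nat_lit 242) (nat_lit 226)) (XT.lf (nat_lit 0) (nat_lit 2551445575) (nat_lit 456) (nat_lit 2621721056) (nat_lit 532) (nat_lit 3331274776) (nat_lit 34) (nat_lit 5) (nat_lit 40) (nat_lit 5) (nat_lit 41) (nat_lit 5) (nat_lit 253) (nat_lit 242) (nat_lit 225))) (XT.nd (nat_lit 78) (nat_lit 304) (nat_lit 0) (XT.lf (nat_lit 0) (nat_lit 7314537967) (nat_lit 532) (nat_lit 1490606153) (nat_lit 76) (nat_lit 20184197) (nat_lit 34) (nat_lit 5) (nat_lit 41) (nat_lit 5) (nat_lit 35) (nat_lit 5) (nat_lit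 254) (nat_lit 242) (nat_lit 224)) (XT.lf (nat_lit 0) (nat_lit 469283980) (nat_lit 304) (nat_lit 5875566399) (nat_lit 76) (nat_lit 2823799861) (nat_lit 30) (nat_lit 5) (nat_lit 34) (nat_lit 5) (nat_lit 31) (nat_lit 5) (nat_lit 255) (nat_lit 242) (nat_lit 223))))))))
noncomputable def xc54 : XT := (XT.nd (nat_lit 1950) (nat_lit 380) (nat_lit 0) (XT.nd (nat_lit 936) (nat_lit 532) (nat_lit 0) (XT.nd (nat_lit 468) (nat_lit 532) (nat_lit 0) (XT.nd (nat_lit 234) (nat_lit 456) (nat_lit 0) (XT.nd (nat_lit 78) (nat_lit 152) (nat_lit 0) (XT.lf (nat_lit 0) (nat_lit 2458855276) (nat_lit 304) (nat_lit 1155613812) (nat_lit 76) (nat_lit 5927748063) (nat_lit 30) (nat_lit 5) (nat_lit 34) (nat_lit 5) (nat_lit 31) (nat_lit 5) (nat_lit 256) (nat_lit 242) (nat_lit 222)) (XT.nd (nat_lit 78) (nat_lit 0) (nat_lit 0) (XT.lf (nat_lit 0) (nat_lit 4029256188) (nat_lit 152) (nat_lit 574219918) (nat_lit 228) (nat_lit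 5343018505) (nat_lit 28) (nat_lit 5) (nat_lit 30) (nat_lit 5) (nat_lit 31) (nat_lit 5) (nat_lit 257) (nat_lit 242) (nat_lit 221)) (XT.lf (nat_lit 0) (nat_lit 6920662606) (nat_lit 228) (nat_lit 871067004) (nat_lit 76) (nat_lit 2591764144) (nat_lit 28) (nat_lit 5) (nat_lit 31) (nat_lit 5) (nat_lit 29) (nat_lit 5) (nat_lit 258) (nat_lit 242) (nat_lit 220)))) (XT.nd (nat_lit 78) (nat_lit 228) (nat_lit 0) (XT.lf (nat_lit 0) (nat_lit 4688086673) (nat_lit 228) (nat_lit 4773376010) (nat_lit 304) (nat_lit 1391356211) (nat_lit 25) (nat_lit 5) (nat_lit 28) (nat_lit 5) (nat_lit 29) (nat_lit 5) (nat_lit 259) (nat_lit 242) (nat_lit 219)) (XT.nd (nat_lit 78) (nat_lit 152) (nat_lit 0) (XT.lf (nat_lit 0) (nat_lit 739981296) (nat_lit 304) (nat_lit 749752997) (nat_lit 76) (nat_lit 9873776323) (nat_lit 24) (nat_lit 5) (nat_lit 28) (nat_lit 5) (nat_lit 25) (nat_lit 5) (nat_lit 260) (nat_lit 242) (nat_lit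 218)) (XT.lf (nat_lit 0) (nat_lit 3063830299) (nat_lit 228) (nat_lit 6742906281) (nat_lit 76) (nat_lit 2097993556) (nat_lit 22) (nat_lit 5) (nat_lit 25) (nat_lit 5) (nat_lit 23) (nat_lit 5) (nat_lit 261) (nat_lit 242) (nat_lit 217))))) (XT.nd (nat_lit 234) (nat_lit 380) (nat_lit 0) (XT.nd (nat_lit 78) (nat_lit 152) (nat_lit 0) (XT.lf (nat_lit 0) (nat_lit 5554874771) (nat_lit 228) (nat_lit 1045386793) (nat_lit 76) (nat_lit 5890795155) (nat_lit 22) (nat_lit 5) (nat_lit 25) (nat_lit 5) (nat_lit 23) (nat_lit 5) (nat_lit 262) (nat_lit 242) (nat_lit 216)) (XT.nd (nat_lit 78) (nat_lit 0) (nat_lit 0) (XT.lf (nat_lit 0) (nat_lit 5272112351) (nat_lit 152) (nat_lit 3027256285) (nat_lit 228) (nat_lit 4820876879) (nat_lit 20) (nat_lit 5) (nat_lit 22) (nat_lit 5) (nat_lit 23) (nat_lit 5) (nat_lit 263) (nat_lit 242) (nat_lit 215)) (XT.lf (nat_lit 0) (nat_lit 11242504314) (nat_lit 228) (nat_lit 1765969701)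 (nat_lit 76) (nat_lit 793236737) (nat_lit 20) (nat_lit 5) (nat_lit 23) (nat_lit 5) (nat_lit 21) (nat_lit 4) (nat_lit 264) (nat_lit 242) (nat_lit 214)))) (XT.nd (nat_lit 78) (nat_lit 152) (nat_lit 0) (XT.lf (nat_lit 0) (nat_lit 23185250) (nat_lit 228) (nat_lit 9654784019) (nat_lit 76) (nat_lit 4849461603) (nat_lit 17) (nat_lit 5) (nat_lit 20) (nat_lit 5) (nat_lit 18) (nat_lit 5) (nat_lit 265) (nat_lit 242) (nat_lit 213)) (XT.nd (nat_lit 78) (nat_lit 152) (nat_lit 0) (XT.lf (nat_lit 0) (nat_lit 2659163417) (nat_lit 228) (nat_lit 3328126824) (nat_lit 76) (nat_lit 9319992512) (nat_lit 17) (nat_lit 5) (nat_lit 20) (nat_lit 5) (nat_lit 18) (nat_lit 5) (nat_lit 266) (nat_lit 242) (nat_lit 212)) (XT.lf (nat_lit 0) (nat_lit 3595799638) (nat_lit 152) (nat_lit 1937180632) (nat_lit 228) (nat_lit 10614582610) (nat_lit 15) (nat_lit 5) (nat_lit 17) (nat_lit 5) (nat_lit 18) (nat_lit 5) (nat_lit 267)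 (nat_lit 242) (nat_lit 211)))))) (XT.nd (nat_lit 468) (nat_lit 228) (nat_lit 0) (XT.nd (nat_lit 234) (nat_lit 228) (nat_lit 0) (XT.nd (nat_lit 78) (nat_lit 76) (nat_lit 0) (XT.lf (nat_lit 0) (nat_lit 8730776573) (nat_lit 228) (nat_lit 5936389887) (nat_lit 76) (nat_lit 2380555372) (nat_lit 15) (nat_lit 5) (nat_lit 18) (nat_lit 5) (nat_lit 16) (nat_lit 4) (nat_lit 268) (nat_lit 242) (nat_lit 210)) (XT.nd (nat_lit 78) (nat_lit 0) (nat_lit 0) (XT.lf (nat_lit 0) (nat_lit 1130616069) (nat_lit 76) (nat_lit 11077681982) (nat_lit 152) (nat_lit 5809852167) (nat_lit 14) (nat_lit 5) (nat_lit 15) (nat_lit 5) (nat_lit 16) (nat_lit 4) (nat_lit 269) (nat_lit 242) (nat_lit 209)) (XT.lf (nat_lit 0) (nat_lit 9018873876) (nat_lit 76) (nat_lit 7055858090) (nat_lit 152) (nat_lit 2982780378) (nat_lit 14) (nat_lit 5) (nat_lit 15) (nat_lit 5) (nat_lit 16) (nat_lit 4) (nat_lit 270) (nat_lit 242) (nat_lit 208))))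 (XT.nd (nat_lit 78) (nat_lit 152) (nat_lit 0) (XT.lf (nat_lit 0) (nat_lit 17775669) (nat_lit 152) (nat_lit 2721911488) (nat_lit 76) (nat_lit 17444267306) (nat_lit 13) (nat_lit 5) (nat_lit 15) (nat_lit 5) (nat_lit 14) (nat_lit 5) (nat_lit 271) (nat_lit 242) (nat_lit 207)) (XT.nd (nat_lit 78) (nat_lit 0) (nat_lit 0) (XT.lf (nat_lit 0) (nat_lit 3229945080) (nat_lit 228) (nat_lit 16143804208) (nat_lit 76) (nat_lit 2010071458) (nat_lit 11) (nat_lit 5) (nat_lit 14) (nat_lit 5) (nat_lit 12) (nat_lit 4) (nat_lit 272) (nat_lit 242) (nat_lit 206)) (XT.lf (nat_lit 0) (nat_lit 6802111313) (nat_lit 228) (nat_lit 8826837721) (nat_lit 76) (nat_lit 7042600342) (nat_lit 11) (nat_lit 5) (nat_lit 14) (nat_lit 5) (nat_lit 12) (nat_lit 4) (nat_lit 273) (nat_lit 242) (nat_lit 205))))) (XT.nd (nat_lit 234) (nat_lit 152) (nat_lit 0) (XT.nd (nat_lit 78) (nat_lit 76) (nat_lit 0) (XT.lf (nat_lit 0) (nat_lit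 10618854218) (nat_lit 228) (nat_lit 992771069) (nat_lit 76) (nat_lit 12454073135) (nat_lit 11) (nat_lit 5) (nat_lit 14) (nat_lit 5) (nat_lit 12) (nat_lit 4) (nat_lit 274) (nat_lit 242) (nat_lit 204)) (XT.nd (nat_lit 78) (nat_lit 0) (nat_lit 0) (XT.lf (nat_lit 0) (nat_lit 7794744538) (nat_lit 76) (nat_lit 7095510787) (nat_lit 152) (nat_lit 10669277079) (nat_lit 10) (nat_lit 5) (nat_lit 11) (nat_lit 5) (nat_lit 12) (nat_lit 4) (nat_lit 275) (nat_lit 242) (nat_lit 203)) (XT.lf (nat_lit 0) (nat_lit 17280120124) (nat_lit 76) (nat_lit 2213591543) (nat_lit 152) (nat_lit 7680025202) (nat_lit 10) (nat_lit 5) (nat_lit 11) (nat_lit 5) (nat_lit 12) (nat_lit 4) (nat_lit 276) (nat_lit 242) (nat_lit 202)))) (XT.nd (nat_lit 156) (nat_lit 76) (nat_lit 0) (XT.nd (nat_lit 78) (nat_lit 76) (nat_lit 0) (XT.lf (nat_lit 0) (nat_lit 24504383448) (nat_lit 152) (nat_lit 1525614299) (nat_lit 0) (nat_lit 2884049289)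 (nat_lit 10) (nat_lit 5) (nat_lit 12) (nat_lit 4) (nat_lit 10) (nat_lit 4) (nat_lit 277) (nat_lit 242) (nat_lit 201)) (XT.lf (nat_lit 0) (nat_lit 7789069367) (nat_lit 76) (nat_lit 22339600537) (nat_lit 76) (nat_lit 647969442) (nat_lit 9) (nat_lit 4) (nat_lit 10) (nat_lit 5) (nat_lit 10) (nat_lit 4) (nat_lit 278) (nat_lit 242) (nat_lit 200))) (XT.nd (nat_lit 78) (nat_lit 0) (nat_lit 0) (XT.lf (nat_lit 0) (nat_lit 3254793954) (nat_lit 152) (nat_lit 14987675350) (nat_lit 76) (nat_lit 14538391061) (nat_lit 8) (nat_lit 5) (nat_lit 10) (nat_lit 5) (nat_lit 9) (nat_lit 4) (nat_lit 279) (nat_lit 242) (nat_lit 199)) (XT.lf (nat_lit 0) (nat_lit 7405282724) (nat_lit 152) (nat_lit 6415784340) (nat_lit 76) (nat_lit 21125426734) (nat_lit 8) (nat_lit 5) (nat_lit 10) (nat_lit 5) (nat_lit 9) (nat_lit 4) (nat_lit 280) (nat_lit 242) (nat_lit 198))))))) (XT.nd (nat_lit 1014) (nat_lit 76) (nat_lit 0) (XT.nd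 (nat_lit 468) (nat_lit 152) (nat_lit 0) (XT.nd (nat_lit 234) (nat_lit 76) (nat_lit 0) (XT.nd (nat_lit 78) (nat_lit 0) (nat_lit 0) (XT.lf (nat_lit 0) (nat_lit 2941635650) (nat_lit 76) (nat_lit 8989617169) (nat_lit 152) (nat_lit 25350707191) (nat_lit 7) (nat_lit 5) (nat_lit 8) (nat_lit 5) (nat_lit 9) (nat_lit 4) (nat_lit 281) (nat_lit 242) (nat_lit 197)) (XT.nd (nat_lit 78) (nat_lit 0) (nat_lit 0) (XT.lf (nat_lit 0) (nat_lit 13366345116) (nat_lit 76) (nat_lit 3601982146) (nat_lit 152) (nat_lit 22824067341) (nat_lit 7) (nat_lit 5) (nat_lit 8) (nat_lit 5) (nat_lit 9) (nat_lit 4) (nat_lit 282) (nat_lit 242) (nat_lit 196)) (XT.lf (nat_lit 0) (nat_lit 22436800734) (nat_lit 152) (nat_lit 17976262213) (nat_lit 0) (nat_lit 2088375653) (nat_lit 7) (nat_lit 5) (nat_lit 9) (nat_lit 4) (nat_lit 7) (nat_lit 4) (nat_lit 283) (nat_lit 242) (nat_lit 195)))) (XT.nd (nat_lit 78) (nat_lit 76) (nat_lit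 0) (XT.lf (nat_lit 0) (nat_lit 28413275115) (nat_lit 152) (nat_lit 8985085834) (nat_lit 0) (nat_lit 8023248956) (nat_lit 7) (nat_lit 5) (nat_lit 9) (nat_lit 4) (nat_lit 7) (nat_lit 4) (nat_lit 284) (nat_lit 242) (nat_lit 194)) (XT.nd (nat_lit 78) (nat_lit 0) (nat_lit 0) (XT.lf (nat_lit 0) (nat_lit 723585107) (nat_lit 76) (nat_lit 34140355923) (nat_lit 76) (nat_lit 13711810248) (nat_lit 6) (nat_lit 4) (nat_lit 7) (nat_lit 5) (nat_lit 7) (nat_lit 4) (nat_lit 285) (nat_lit 242) (nat_lit 193)) (XT.lf (nat_lit 0) (nat_lit 11682905243) (nat_lit 76) (nat_lit 30372783717) (nat_lit 76) (nat_lit 9908571823) (nat_lit 6) (nat_lit 4) (nat_lit 7) (nat_lit 5) (nat_lit 7) (nat_lit 4) (nat_lit 286) (nat_lit 242) (nat_lit 192))))) (XT.nd (nat_lit 234) (nat_lit 76) (nat_lit 0) (XT.nd (nat_lit 78) (nat_lit 76) (nat_lit 0) (XT.lf (nat_lit 0) (nat_lit 23484679994) (nat_lit 76) (nat_lit 26318986147) (nat_lit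 76) (nat_lit 5821749977) (nat_lit 6) (nat_lit 4) (nat_lit 7) (nat_lit 5) (nat_lit 7) (nat_lit 4) (nat_lit 287) (nat_lit 242) (nat_lit 191)) (XT.nd (nat_lit 78) (nat_lit 76) (nat_lit 0) (XT.lf (nat_lit 0) (nat_lit 36198845804) (nat_lit 76) (nat_lit 21954940710) (nat_lit 76) (nat_lit 1427126505) (nat_lit 6) (nat_lit 4) (nat_lit 7) (nat_lit 5) (nat_lit 7) (nat_lit 4) (nat_lit 288) (nat_lit 242) (nat_lit 190)) (XT.lf (nat_lit 0) (nat_lit 3136194366) (nat_lit 152) (nat_lit 14032842916) (nat_lit 76) (nat_lit 46678802399) (nat_lit 5) (nat_lit 5) (nat_lit 7) (nat_lit 5) (nat_lit 6) (nat_lit 4) (nat_lit 289) (nat_lit 242) (nat_lit 189)))) (XT.nd (nat_lit 156) (nat_lit 0) (nat_lit 0) (XT.nd (nat_lit 78) (nat_lit 76) (nat_lit 0) (XT.lf (nat_lit 0) (nat_lit 7971887054) (nat_lit 152) (nat_lit 4000817861) (nat_lit 76) (nat_lit 56481724085) (nat_lit 5) (nat_lit 5) (nat_lit 7) (nat_lit 5) (nat_lit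 6) (nat_lit 4) (nat_lit 290) (nat_lit 242) (nat_lit 188)) (XT.lf (nat_lit 0) (nat_lit 7166265012) (nat_lit 76) (nat_lit 6186081995) (nat_lit 152) (nat_lit 60064590162) (nat_lit 4) (nat_lit 5) (nat_lit 5) (nat_lit 5) (nat_lit 6) (nat_lit 4) (nat_lit 291) (nat_lit 242) (nat_lit 187))) (XT.nd (nat_lit 78) (nat_lit 0) (nat_lit 0) (XT.lf (nat_lit 0) (nat_lit 19262751058) (nat_lit 152) (nat_lit 59344017722) (nat_lit 0) (nat_lit 161739455) (nat_lit 4) (nat_lit 5) (nat_lit 6) (nat_lit 4) (nat_lit 4) (nat_lit 4) (nat_lit 292) (nat_lit 242) (nat_lit 186)) (XT.lf (nat_lit 0) (nat_lit 25793470529) (nat_lit 152) (nat_lit 52069767366) (nat_lit 0) (nat_lit 6673189578) (nat_lit 4) (nat_lit 5) (nat_lit 6) (nat_lit 4) (nat_lit 4) (nat_lit 4) (nat_lit 293) (nat_lit 242) (nat_lit 185)))))) (XT.nd (nat_lit 468) (nat_lit 0) (nat_lit 0) (XT.nd (nat_lit 234) (nat_lit 76) (nat_lit 0) (XT.nd (nat_lit 78) (nat_lit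 0) (nat_lit 0) (XT.lf (nat_lit 0) (nat_lit 32834430559) (nat_lit 152) (nat_lit 44236039003) (nat_lit 0) (nat_lit 13696307619) (nat_lit 4) (nat_lit 5) (nat_lit 6) (nat_lit 4) (nat_lit 4) (nat_lit 4) (nat_lit 294) (nat_lit 242) (nat_lit 184)) (XT.nd (nat_lit 78) (nat_lit 0) (nat_lit 0) (XT.lf (nat_lit 0) (nat_lit 40427355357) (nat_lit 152) (nat_lit 35796410537) (nat_lit 0) (nat_lit 21272712056) (nat_lit 4) (nat_lit 5) (nat_lit 6) (nat_lit 4) (nat_lit 4) (nat_lit 4) (nat_lit 295) (nat_lit 242) (nat_lit 183)) (XT.lf (nat_lit 0) (nat_lit 48617240031) (nat_lit 152) (nat_lit 26700869355) (nat_lit 0) (nat_lit 29447300101) (nat_lit 4) (nat_lit 5) (nat_lit 6) (nat_lit 4) (nat_lit 4) (nat_lit 4) (nat_lit 296) (nat_lit 242) (nat_lit 182)))) (XT.nd (nat_lit 78) (nat_lit 76) (nat_lit 0) (XT.lf (nat_lit 0) (nat_lit 57452617232) (nat_lit 152) (nat_lit 16895515954) (nat_lit 0) (nat_lit 38268513756)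 (nat_lit 4) (nat_lit 5) (nat_lit 6) (nat_lit 4) (nat_lit 4) (nat_lit 4) (nat_lit 297) (nat_lit 242) (nat_lit 181)) (XT.nd (nat_lit 78) (nat_lit 76) (nat_lit 0) (XT.lf (nat_lit 0) (nat_lit 66985844751) (nat_lit 152) (nat_lit 6322244536) (nat_lit 0) (nat_lit 47788626880) (nat_lit 4) (nat_lit 5) (nat_lit 6) (nat_lit 4) (nat_lit 4) (nat_lit 4) (nat_lit 298) (nat_lit 242) (nat_lit 180)) (XT.lf (nat_lit 0) (nat_lit 5349189441) (nat_lit 76) (nat_lit 72052874481) (nat_lit 76) (nat_lit 52843513651) (nat_lit 3) (nat_lit 4) (nat_lit 4) (nat_lit 5) (nat_lit 4) (nat_lit 4) (nat_lit 299) (nat_lit 242) (nat_lit 179))))) (XT.nd (nat_lit 234) (nat_lit 0) (nat_lit 0) (XT.nd (nat_lit 78) (nat_lit 0) (nat_lit 0) (XT.lf (nat_lit 0) (nat_lit 18298989533) (nat_lit 76) (nat_lit 70517395331) (nat_lit 76) (nat_lit 51296791022) (nat_lit 3) (nat_lit 4) (nat_lit 4) (nat_lit 5) (nat_lit 4) (nat_lit 4) (nat_lit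 300) (nat_lit 242) (nat_lit 178)) (XT.nd (nat_lit 78) (nat_lit 0) (nat_lit 0) (XT.lf (nat_lit 0) (nat_lit 32270977100) (nat_lit 76) (nat_lit 68865414072) (nat_lit 76) (nat_lit 49634399134) (nat_lit 3) (nat_lit 4) (nat_lit 4) (nat_lit 5) (nat_lit 4) (nat_lit 4) (nat_lit 301) (nat_lit 242) (nat_lit 177)) (XT.lf (nat_lit 0) (nat_lit 47347949107) (nat_lit 76) (nat_lit 67087141186) (nat_lit 76) (nat_lit 47846486777) (nat_lit 3) (nat_lit 4) (nat_lit 4) (nat_lit 5) (nat_lit 4) (nat_lit 4) (nat_lit 302) (nat_lit 242) (nat_lit 176)))) (XT.nd (nat_lit 156) (nat_lit 0) (nat_lit 0) (XT.nd (nat_lit 78) (nat_lit 0) (nat_lit 0) (XT.lf (nat_lit 0) (nat_lit 63619250573) (nat_lit 76) (nat_lit 65172038759) (nat_lit 76) (nat_lit 45922458913) (nat_lit 3) (nat_lit 4) (nat_lit 4) (nat_lit 5) (nat_lit 4) (nat_lit 4) (nat_lit 303) (nat_lit 242) (nat_lit 175)) (XT.lf (nat_lit 0) (nat_lit 81181304025) (nat_lit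 76) (nat_lit 63108758036) (nat_lit 76) (nat_lit 43850913897) (nat_lit 3) (nat_lit 4) (nat_lit 4) (nat_lit 5) (nat_lit 4) (nat_lit 4) (nat_lit 304) (nat_lit 242) (nat_lit 174))) (XT.nd (nat_lit 78) (nat_lit 0) (nat_lit 0) (XT.lf (nat_lit 0) (nat_lit 100138180891) (nat_lit 76) (nat_lit 60885072169) (nat_lit 76) (nat_lit 41619575906) (nat_lit 3) (nat_lit 4) (nat_lit 4) (nat_lit 5) (nat_lit 4) (nat_lit 4) (nat_lit 305) (nat_lit 242) (nat_lit 173)) (XT.lf (nat_lit 0) (nat_lit 120602218218) (nat_lit 76) (nat_lit 58487803759) (nat_lit 76) (nat_lit 39215222197) (nat_lit 3) (nat_lit 4) (nat_lit 4) (nat_lit 5) (nat_lit 4) (nat_lit 4) (nat_lit 306) (nat_lit 242) (nat_lit 172))))))))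
noncomputable def xc55 : XT := (XT.nd (nat_lit 2028) (nat_lit 0) (nat_lit 0) (XT.nd (nat_lit 1014) (nat_lit 0) (nat_lit 0) (XT.nd (nat_lit 468) (nat_lit 152) (nat_lit 0) (XT.nd (nat_lit 234) (nat_lit 0) (nat_lit 0) (XT.nd (nat_lit 78) (nat_lit 0) (nat_lit 0) (XT.lf (nat_lit 0) (nat_lit 142694684377) (nat_lit 76) (nat_lit 55902746772) (nat_lit 76) (nat_lit 36623604747) (nat_lit 3) (nat_lit 4) (nat_lit 4) (nat_lit 5) (nat_lit 4) (nat_lit 4) (nat_lit 307) (nat_lit 242) (nat_lit 171)) (XT.nd (nat_lit 78) (nat_lit 0) (nat_lit 0) (XT.lf (nat_lit 0) (nat_lit 166546497686) (nat_lit 76) (nat_lit 53114582351) (nat_lit 76) (nat_lit 33829365824) (nat_lit 3) (nat_lit 4) (nat_lit 4) (nat_lit 5) (nat_lit 4) (nat_lit 4) (nat_lit 308) (nat_lit 242) (nat_lit 170)) (XT.lf (nat_lit 0) (nat_lit 192299002222) (nat_lit 76) (nat_lit 50106788040) (nat_lit 76) (nat_lit 30815946975) (nat_lit 3) (nat_lit 4) (nat_lit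 4) (nat_lit 5) (nat_lit 4) (nat_lit 4) (nat_lit 309) (nat_lit 242) (nat_lit 169)))) (XT.nd (nat_lit 78) (nat_lit 0) (nat_lit 0) (XT.lf (nat_lit 0) (nat_lit 220104805421) (nat_lit 76) (nat_lit 46861539874) (nat_lit 76) (nat_lit 27565490902) (nat_lit 3) (nat_lit 4) (nat_lit 4) (nat_lit 5) (nat_lit 4) (nat_lit 4) (nat_lit 310) (nat_lit 242) (nat_lit 168)) (XT.nd (nat_lit 78) (nat_lit 0) (nat_lit 0) (XT.lf (nat_lit 0) (nat_lit 250128682412) (nat_lit 76) (nat_lit 43359606752) (nat_lit 76) (nat_lit 24058735644) (nat_lit 3) (nat_lit 4) (nat_lit 4) (nat_lit 5) (nat_lit 4) (nat_lit 4) (nat_lit 311) (nat_lit 242) (nat_lit 167)) (XT.lf (nat_lit 0) (nat_lit 282548552466) (nat_lit 76) (nat_lit 39580236477) (nat_lit 76) (nat_lit 20274900429) (nat_lit 3) (nat_lit 4) (nat_lit 4) (nat_lit 5) (nat_lit 4) (nat_lit 4) (nat_lit 312) (nat_lit 242) (nat_lit 166))))) (XT.nd (nat_lit 234) (nat_lit 152) (nat_lit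 0) (XT.nd (nat_lit 78) (nat_lit 0) (nat_lit 0) (XT.lf (nat_lit 0) (nat_lit 317556533333) (nat_lit 76) (nat_lit 35501032782) (nat_lit 76) (nat_lit 16191562530) (nat_lit 3) (nat_lit 4) (nat_lit 4) (nat_lit 5) (nat_lit 4) (nat_lit 4) (nat_lit 313) (nat_lit 242) (nat_lit 165)) (XT.nd (nat_lit 78) (nat_lit 0) (nat_lit 0) (XT.lf (nat_lit 0) (nat_lit 355360079713) (nat_lit 76) (nat_lit 31097822607) (nat_lit 76) (nat_lit 11784524388) (nat_lit 3) (nat_lit 4) (nat_lit 4) (nat_lit 5) (nat_lit 4) (nat_lit 4) (nat_lit 314) (nat_lit 242) (nat_lit 164)) (XT.lf (nat_lit 0) (nat_lit 396183212623) (nat_lit 76) (nat_lit 26344512856) (nat_lit 76) (nat_lit 7027670223) (nat_lit 3) (nat_lit 4) (nat_lit 4) (nat_lit 5) (nat_lit 4) (nat_lit 4) (nat_lit 315) (nat_lit 242) (nat_lit 163)))) (XT.nd (nat_lit 156) (nat_lit 76) (nat_lit 0) (XT.nd (nat_lit 78) (nat_lit 76) (nat_lit 0) (XT.lf (nat_lit 0) (nat_lit 440267846922)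 (nat_lit 76) (nat_lit 21212935766) (nat_lit 76) (nat_lit 1892811269) (nat_lit 3) (nat_lit 4) (nat_lit 4) (nat_lit 5) (nat_lit 4) (nat_lit 4) (nat_lit 316) (nat_lit 242) (nat_lit 162)) (XT.lf (nat_lit 0) (nat_lit 3467869410) (nat_lit 152) (nat_lit 12109994886) (nat_lit 76) (nat_lit 484312537785) (nat_lit 2) (nat_lit 5) (nat_lit 4) (nat_lit 5) (nat_lit 3) (nat_lit 4) (nat_lit 317) (nat_lit 242) (nat_lit 161))) (XT.nd (nat_lit 78) (nat_lit 76) (nat_lit 0) (XT.lf (nat_lit 0) (nat_lit 9153071979) (nat_lit 152) (nat_lit 287587213) (nat_lit 76) (nat_lit 529884131134) (nat_lit 2) (nat_lit 5) (nat_lit 4) (nat_lit 5) (nat_lit 3) (nat_lit 4) (nat_lit 318) (nat_lit 242) (nat_lit 160)) (XT.lf (nat_lit 0) (nat_lit 13134076556) (nat_lit 76) (nat_lit 2472970912) (nat_lit 152) (nat_lit 566281768269) (nat_lit 1) (nat_lit 5) (nat_lit 2) (nat_lit 5) (nat_lit 3) (nat_lit 4) (nat_lit 319) (nat_lit 242)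 (nat_lit 159)))))) (XT.nd (nat_lit 468) (nat_lit 0) (nat_lit 0) (XT.nd (nat_lit 234) (nat_lit 0) (nat_lit 0) (XT.nd (nat_lit 78) (nat_lit 0) (nat_lit 0) (XT.lf (nat_lit 0) (nat_lit 22705014225) (nat_lit 152) (nat_lit 600336792259) (nat_lit 0) (nat_lit 4805945291) (nat_lit 1) (nat_lit 5) (nat_lit 3) (nat_lit 4) (nat_lit 1) (nat_lit 4) (nat_lit 320) (nat_lit 242) (nat_lit 158)) (XT.nd (nat_lit 78) (nat_lit 0) (nat_lit 0) (XT.lf (nat_lit 0) (nat_lit 30433293868) (nat_lit 152) (nat_lit 634512956250) (nat_lit 0) (nat_lit 12532156802) (nat_lit 1) (nat_lit 5) (nat_lit 3) (nat_lit 4) (nat_lit 1) (nat_lit 4) (nat_lit 321) (nat_lit 242) (nat_lit 157)) (XT.lf (nat_lit 0) (nat_lit 38778208600) (nat_lit 152) (nat_lit 671426281562) (nat_lit 0) (nat_lit 20875156598) (nat_lit 1) (nat_lit 5) (nat_lit 3) (nat_lit 4) (nat_lit 1) (nat_lit 4) (nat_lit 322) (nat_lit 242) (nat_lit 156)))) (XT.nd (nat_lit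 78) (nat_lit 0) (nat_lit 0) (XT.lf (nat_lit 0) (nat_lit 47789209768) (nat_lit 152) (nat_lit 711295513826) (nat_lit 0) (nat_lit 29884384677) (nat_lit 1) (nat_lit 5) (nat_lit 3) (nat_lit 4) (nat_lit 1) (nat_lit 4) (nat_lit 323) (nat_lit 242) (nat_lit 155)) (XT.nd (nat_lit 78) (nat_lit 0) (nat_lit 0) (XT.lf (nat_lit 0) (nat_lit 57519695898) (nat_lit 152) (nat_lit 754356915160) (nat_lit 0) (nat_lit 39613229057) (nat_lit 1) (nat_lit 5) (nat_lit 3) (nat_lit 4) (nat_lit 1) (nat_lit 4) (nat_lit 324) (nat_lit 242) (nat_lit 154)) (XT.lf (nat_lit 0) (nat_lit 68027329129) (nat_lit 152) (nat_lit 800865664237) (nat_lit 0) (nat_lit 50119342150) (nat_lit 1) (nat_lit 5) (nat_lit 3) (nat_lit 4) (nat_lit 1) (nat_lit 4) (nat_lit 325) (nat_lit 242) (nat_lit 153))))) (XT.nd (nat_lit 234) (nat_lit 0) (nat_lit 0) (XT.nd (nat_lit 78) (nat_lit 0) (nat_lit 0) (XT.lf (nat_lit 0) (nat_lit 79374376918) (nat_lit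 152) (nat_lit 851097368460) (nat_lit 0) (nat_lit 61464982404) (nat_lit 1) (nat_lit 5) (nat_lit 3) (nat_lit 4) (nat_lit 1) (nat_lit 4) (nat_lit 326) (nat_lit 242) (nat_lit 152)) (XT.nd (nat_lit 78) (nat_lit 0) (nat_lit 0) (XT.lf (nat_lit 0) (nat_lit 91628081029) (nat_lit 152) (nat_lit 905349697187) (nat_lit 0) (nat_lit 73717383242) (nat_lit 1) (nat_lit 5) (nat_lit 3) (nat_lit 4) (nat_lit 1) (nat_lit 4) (nat_lit 327) (nat_lit 242) (nat_lit 151)) (XT.lf (nat_lit 0) (nat_lit 104861056006) (nat_lit 152) (nat_lit 963944145700) (nat_lit 0) (nat_lit 86949151484) (nat_lit 1) (nat_lit 5) (nat_lit 3) (nat_lit 4) (nat_lit 1) (nat_lit 4) (nat_lit 328) (nat_lit 242) (nat_lit 150)))) (XT.nd (nat_lit 156) (nat_lit 0) (nat_lit 0) (XT.nd (nat_lit 78) (nat_lit 0) (nat_lit 0) (XT.lf (nat_lit 0) (nat_lit 119151719477) (nat_lit 152) (nat_lit 1027227940359) (nat_lit 0) (nat_lit 101238697608) (nat_lit 1)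 (nat_lit 5) (nat_lit 3) (nat_lit 4) (nat_lit 1) (nat_lit 4) (nat_lit 329) (nat_lit 242) (nat_lit 149)) (XT.lf (nat_lit 0) (nat_lit 134584756857) (nat_lit 152) (nat_lit 1095576096246) (nat_lit 0) (nat_lit 116670700407) (nat_lit 1) (nat_lit 5) (nat_lit 3) (nat_lit 4) (nat_lit 1) (nat_lit 4) (nat_lit 330) (nat_lit 242) (nat_lit 148))) (XT.nd (nat_lit 78) (nat_lit 0) (nat_lit 0) (XT.lf (nat_lit 0) (nat_lit 151251623180) (nat_lit 152) (nat_lit 1169393639467) (nat_lit 0) (nat_lit 133336608785) (nat_lit 1) (nat_lit 5) (nat_lit 3) (nat_lit 4) (nat_lit 1) (nat_lit 4) (nat_lit 331) (nat_lit 242) (nat_lit 147)) (XT.lf (nat_lit 0) (nat_lit 169251085064) (nat_lit 152) (nat_lit 1249118007318) (nat_lit 0) (nat_lit 151335183682) (nat_lit 1) (nat_lit 5) (nat_lit 3) (nat_lit 4) (nat_lit 1) (nat_lit 4) (nat_lit 332) (nat_lit 242) (nat_lit 146))))))) (XT.nd (nat_lit 30966) (nat_lit 0) (nat_lit 1596) (XT.nd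 (nat_lit 468) (nat_lit 0) (nat_lit 0) (XT.nd (nat_lit 234) (nat_lit 0) (nat_lit 0) (XT.nd (nat_lit 78) (nat_lit 0) (nat_lit 0) (XT.lf (nat_lit 0) (nat_lit 188689805984) (nat_lit 152) (nat_lit 1335221640495) (nat_lit 0) (nat_lit 170773083319) (nat_lit 1) (nat_lit 5) (nat_lit 3) (nat_lit 4) (nat_lit 1) (nat_lit 4) (nat_lit 333) (nat_lit 242) (nat_lit 145)) (XT.nd (nat_lit 78) (nat_lit 0) (nat_lit 0) (XT.lf (nat_lit 0) (nat_lit 209682978362) (nat_lit 152) (nat_lit 1428214782751) (nat_lit 0) (nat_lit 191765495250) (nat_lit 1) (nat_lit 5) (nat_lit 3) (nat_lit 4) (nat_lit 1) (nat_lit 4) (nat_lit 334) (nat_lit 242) (nat_lit 144)) (XT.lf (nat_lit 0) (nat_lit 232355006182) (nat_lit 152) (nat_lit 1528648504560) (nat_lit 0) (nat_lit 214436818952) (nat_lit 1) (nat_lit 5) (nat_lit 3) (nat_lit 4) (nat_lit 1) (nat_lit 4) (nat_lit 335) (nat_lit 242) (nat_lit 143)))) (XT.nd (nat_lit 78) (nat_lit 0)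 (nat_lit 0) (XT.lf (nat_lit 0) (nat_lit 256840242202) (nat_lit 152) (nat_lit 1637117968715) (nat_lit 0) (nat_lit 238921403010) (nat_lit 1) (nat_lit 5) (nat_lit 3) (nat_lit 4) (nat_lit 1) (nat_lit 4) (nat_lit 336) (nat_lit 242) (nat_lit 142)) (XT.nd (nat_lit 78) (nat_lit 0) (nat_lit 0) (XT.lf (nat_lit 0) (nat_lit 283283784116) (nat_lit 152) (nat_lit 1754265957229) (nat_lit 0) (nat_lit 265364341256) (nat_lit 1) (nat_lit 5) (nat_lit 3) (nat_lit 4) (nat_lit 1) (nat_lit 4) (nat_lit 337) (nat_lit 242) (nat_lit 141)) (XT.lf (nat_lit 0) (nat_lit 311842334395) (nat_lit 152) (nat_lit 1880786680402) (nat_lit 0) (nat_lit 293922332584) (nat_lit 1) (nat_lit 5) (nat_lit 3) (nat_lit 4) (nat_lit 1) (nat_lit 4) (nat_lit 338) (nat_lit 242) (nat_lit 140))))) (XT.nd (nat_lit 30186) (nat_lit 0) (nat_lit 3648) (XT.nd (nat_lit 30030) (nat_lit 0) (nat_lit 3952) (XT.lf (nat_lit 0) (nat_lit 342685128893) (nat_lit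 152) (nat_lit 2017429890669) (nat_lit 0) (nat_lit 324764609534) (nat_lit 1) (nat_lit 5) (nat_lit 3) (nat_lit 4) (nat_lit 1) (nat_lit 4) (nat_lit 339) (nat_lit 242) (nat_lit 139)) (XT.nd (nat_lit 78) (nat_lit 0) (nat_lit 0) (XT.lf (nat_lit 0) (nat_lit 374436229) (nat_lit 0) (nat_lit 374436229) (nat_lit 228) (nat_lit 2606392749) (nat_lit 53) (nat_lit 5) (nat_lit 53) (nat_lit 3) (nat_lit 56) (nat_lit 3) (nat_lit 243) (nat_lit 243) (nat_lit 234)) (XT.lf (nat_lit 0) (nat_lit 3500388498) (nat_lit 228) (nat_lit 2966271192) (nat_lit 304) (nat_lit 342314642) (nat_lit 53) (nat_lit 5) (nat_lit 56) (nat_lit 3) (nat_lit 57) (nat_lit 5) (nat_lit 244) (nat_lit 243) (nat_lit 233)))) (XT.nd (nat_lit 156) (nat_lit 0) (nat_lit 0) (XT.nd (nat_lit 78) (nat_lit 304) (nat_lit 0) (XT.lf (nat_lit 76) (nat_lit 140300399) (nat_lit 0) (nat_lit 5354595676) (nat_lit 304) (nat_lit 1435322047) (nat_lit 54) (nat_lit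 5) (nat_lit 53) (nat_lit 5) (nat_lit 57) (nat_lit 5) (nat_lit 245) (nat_lit 243) (nat_lit 232)) (XT.lf (nat_lit 0) (nat_lit 455927221) (nat_lit 304) (nat_lit 3530926854) (nat_lit 380) (nat_lit 3082622882) (nat_lit 49) (nat_lit 5) (nat_lit 53) (nat_lit 5) (nat_lit 54) (nat_lit 5) (nat_lit 246) (nat_lit 243) (nat_lit 231))) (XT.nd (nat_lit 78) (nat_lit 0) (nat_lit 0) (XT.lf (nat_lit 0) (nat_lit 2249004881) (nat_lit 304) (nat_lit 163407648) (nat_lit 380) (nat_lit 4819391895) (nat_lit 49) (nat_lit 5) (nat_lit 53) (nat_lit 5) (nat_lit 54) (nat_lit 5) (nat_lit 247) (nat_lit 243) (nat_lit 230)) (XT.lf (nat_lit 76) (nat_lit 3544421407) (nat_lit 0) (nat_lit 567159214) (nat_lit 380) (nat_lit 3302523933) (nat_lit 50) (nat_lit 5) (nat_lit 49) (nat_lit 5) (nat_lit 54) (nat_lit 5) (nat_lit 248) (nat_lit 243) (nat_lit 229)))))) (XT.nd (nat_lit 468) (nat_lit 912) (nat_lit 0) (XT.nd (nat_lit 234) (nat_lit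 836) (nat_lit 0) (XT.nd (nat_lit 78) (nat_lit 380) (nat_lit 0) (XT.lf (nat_lit 0) (nat_lit 6013251962) (nat_lit 304) (nat_lit 204663893) (nat_lit 76) (nat_lit 1402856986) (nat_lit 50) (nat_lit 5) (nat_lit 54) (nat_lit 5) (nat_lit 51) (nat_lit 5) (nat_lit 249) (nat_lit 243) (nat_lit 228)) (XT.nd (nat_lit 78) (nat_lit 0) (nat_lit 0) (XT.lf (nat_lit 0) (nat_lit 179104209) (nat_lit 380) (nat_lit 4031028187) (nat_lit 76) (nat_lit 3636888371) (nat_lit 45) (nat_lit 5) (nat_lit 50) (nat_lit 5) (nat_lit 46) (nat_lit 5) (nat_lit 250) (nat_lit 243) (nat_lit 227)) (XT.lf (nat_lit 0) (nat_lit 1893251612) (nat_lit 380) (nat_lit 77048927) (nat_lit 76) (nat_lit 6128799403) (nat_lit 45) (nat_lit 5) (nat_lit 50) (nat_lit 5) (nat_lit 46) (nat_lit 5) (nat_lit 251) (nat_lit 243) (nat_lit 226)))) (XT.nd (nat_lit 78) (nat_lit 456) (nat_lit 0) (XT.lf (nat_lit 0) (nat_lit 3737587725) (nat_lit 456) (nat_lit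 4084893403) (nat_lit 76) (nat_lit 550148413) (nat_lit 40) (nat_lit 5) (nat_lit 46) (nat_lit 5) (nat_lit 41) (nat_lit 5) (nat_lit 252) (nat_lit 243) (nat_lit 225)) (XT.nd (nat_lit 78) (nat_lit 0) (nat_lit 0) (XT.lf (nat_lit 0) (nat_lit 182646679) (nat_lit 456) (nat_lit 5487285912) (nat_lit 532) (nat_lit 3003546636) (nat_lit 34) (nat_lit 5) (nat_lit 40) (nat_lit 5) (nat_lit 41) (nat_lit 5) (nat_lit 253) (nat_lit 243) (nat_lit 224)) (XT.lf (nat_lit 0) (nat_lit 4913302607) (nat_lit 456) (nat_lit 2844008534) (nat_lit 532) (nat_lit 1241674753) (nat_lit 34) (nat_lit 5) (nat_lit 40) (nat_lit 5) (nat_lit 41) (nat_lit 5) (nat_lit 254) (nat_lit 243) (nat_lit 223))))) (XT.nd (nat_lit 234) (nat_lit 456) (nat_lit 0) (XT.nd (nat_lit 78) (nat_lit 152) (nat_lit 0) (XT.lf (nat_lit 0) (nat_lit 536681622) (nat_lit 304) (nat_lit 8781892592) (nat_lit 76) (nat_lit 38533768) (nat_lit 30) (nat_lit 5) (nat_lit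 34) (nat_lit 5) (nat_lit 31) (nat_lit 5) (nat_lit 255) (nat_lit 243) (nat_lit 222)) (XT.nd (nat_lit 78) (nat_lit 152) (nat_lit 0) (XT.lf (nat_lit 0) (nat_lit 2477685669) (nat_lit 304) (nat_lit 4116862364) (nat_lit 76) (nat_lit 3140250655) (nat_lit 30) (nat_lit 5) (nat_lit 34) (nat_lit 5) (nat_lit 31) (nat_lit 5) (nat_lit 256) (nat_lit 243) (nat_lit 221)) (XT.lf (nat_lit 0) (nat_lit 858541614) (nat_lit 152) (nat_lit 3642539447) (nat_lit 228) (nat_lit 5647913875) (nat_lit 28) (nat_lit 5) (nat_lit 30) (nat_lit 5) (nat_lit 31) (nat_lit 5) (nat_lit 257) (nat_lit 243) (nat_lit 220)))) (XT.nd (nat_lit 156) (nat_lit 228) (nat_lit 0) (XT.nd (nat_lit 78) (nat_lit 228) (nat_lit 0) (XT.lf (nat_lit 0) (nat_lit 6363009010) (nat_lit 152) (nat_lit 346813604) (nat_lit 228) (nat_lit 3885051464) (nat_lit 28) (nat_lit 5) (nat_lit 30) (nat_lit 5) (nat_lit 31) (nat_lit 5) (nat_lit 258) (nat_lit 243) (nat_lit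 219)) (XT.lf (nat_lit 0) (nat_lit 1107402251) (nat_lit 228) (nat_lit 8008955994) (nat_lit 304) (nat_lit 1958771388) (nat_lit 25) (nat_lit 5) (nat_lit 28) (nat_lit 5) (nat_lit 29) (nat_lit 5) (nat_lit 259) (nat_lit 243) (nat_lit 218))) (XT.nd (nat_lit 78) (nat_lit 152) (nat_lit 0) (XT.lf (nat_lit 0) (nat_lit 161786362) (nat_lit 304) (nat_lit 4589190070) (nat_lit 76) (nat_lit 6839232024) (nat_lit 24) (nat_lit 5) (nat_lit 28) (nat_lit 5) (nat_lit 25) (nat_lit 5) (nat_lit 260) (nat_lit 243) (nat_lit 217)) (XT.lf (nat_lit 0) (nat_lit 1128751489) (nat_lit 152) (nat_lit 1169131936) (nat_lit 228) (nat_lit 9848714950) (nat_lit 22) (nat_lit 5) (nat_lit 24) (nat_lit 5) (nat_lit 25) (nat_lit 5) (nat_lit 261) (nat_lit 243) (nat_lit 216))))))))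
noncomputable def xc56 : XT := (XT.nd (nat_lit 1950) (nat_lit 228) (nat_lit 0) (XT.nd (nat_lit 936) (nat_lit 380) (nat_lit 0) (XT.nd (nat_lit 468) (nat_lit 456) (nat_lit 0) (XT.nd (nat_lit 234) (nat_lit 228) (nat_lit 0) (XT.nd (nat_lit 78) (nat_lit 152) (nat_lit 0) (XT.lf (nat_lit 0) (nat_lit 4725892654) (nat_lit 228) (nat_lit 5340072398) (nat_lit 76) (nat_lit 2672141838) (nat_lit 22) (nat_lit 5) (nat_lit 25) (nat_lit 5) (nat_lit 23) (nat_lit 5) (nat_lit 262) (nat_lit 243) (nat_lit 215)) (XT.nd (nat_lit 78) (nat_lit 0) (nat_lit 0) (XT.lf (nat_lit 0) (nat_lit 704625275) (nat_lit 152) (nat_lit 6623581965) (nat_lit 228) (nat_lit 6050591596) (nat_lit 20) (nat_lit 5) (nat_lit 22) (nat_lit 5) (nat_lit 23) (nat_lit 5) (nat_lit 263) (nat_lit 243) (nat_lit 214)) (XT.lf (nat_lit 0) (nat_lit 7446747159) (nat_lit 152) (nat_lit 2773538759) (nat_lit 228) (nat_lit 3844181980) (nat_lit 20) (nat_lit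 5) (nat_lit 22) (nat_lit 5) (nat_lit 23) (nat_lit 5) (nat_lit 264) (nat_lit 243) (nat_lit 213)))) (XT.nd (nat_lit 78) (nat_lit 228) (nat_lit 0) (XT.lf (nat_lit 0) (nat_lit 13316806650) (nat_lit 228) (nat_lit 197676240) (nat_lit 76) (nat_lit 1292891232) (nat_lit 20) (nat_lit 5) (nat_lit 23) (nat_lit 5) (nat_lit 21) (nat_lit 4) (nat_lit 265) (nat_lit 243) (nat_lit 212)) (XT.nd (nat_lit 78) (nat_lit 0) (nat_lit 0) (XT.lf (nat_lit 0) (nat_lit 1186225740) (nat_lit 228) (nat_lit 8695887987) (nat_lit 76) (nat_lit 5710774744) (nat_lit 17) (nat_lit 5) (nat_lit 20) (nat_lit 5) (nat_lit 18) (nat_lit 5) (nat_lit 266) (nat_lit 243) (nat_lit 211)) (XT.lf (nat_lit 0) (nat_lit 3947068407) (nat_lit 228) (nat_lit 1991341086) (nat_lit 76) (nat_lit 10503884703) (nat_lit 17) (nat_lit 5) (nat_lit 20) (nat_lit 5) (nat_lit 18) (nat_lit 5) (nat_lit 267) (nat_lit 243) (nat_lit 210))))) (XT.nd (nat_lit 234)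 (nat_lit 228) (nat_lit 0) (XT.nd (nat_lit 78) (nat_lit 76) (nat_lit 0) (XT.lf (nat_lit 0) (nat_lit 5445916306) (nat_lit 152) (nat_lit 1562808964) (nat_lit 228) (nat_lit 10344700204) (nat_lit 15) (nat_lit 5) (nat_lit 17) (nat_lit 5) (nat_lit 18) (nat_lit 5) (nat_lit 268) (nat_lit 243) (nat_lit 209)) (XT.nd (nat_lit 78) (nat_lit 76) (nat_lit 0) (XT.lf (nat_lit 0) (nat_lit 10397606629) (nat_lit 228) (nat_lit 4896797053) (nat_lit 76) (nat_lit 3036616545) (nat_lit 15) (nat_lit 5) (nat_lit 18) (nat_lit 5) (nat_lit 16) (nat_lit 4) (nat_lit 269) (nat_lit 243) (nat_lit 208)) (XT.lf (nat_lit 0) (nat_lit 2697227505) (nat_lit 76) (nat_lit 11419873097) (nat_lit 152) (nat_lit 5265106538) (nat_lit 14) (nat_lit 5) (nat_lit 15) (nat_lit 5) (nat_lit 16) (nat_lit 4) (nat_lit 270) (nat_lit 243) (nat_lit 207)))) (XT.nd (nat_lit 78) (nat_lit 228) (nat_lit 0) (XT.lf (nat_lit 0) (nat_lit 11107200593) (nat_lit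 76) (nat_lit 7116601327) (nat_lit 152) (nat_lit 2286649288) (nat_lit 14) (nat_lit 5) (nat_lit 15) (nat_lit 5) (nat_lit 16) (nat_lit 4) (nat_lit 271) (nat_lit 243) (nat_lit 206)) (XT.nd (nat_lit 78) (nat_lit 152) (nat_lit 0) (XT.lf (nat_lit 0) (nat_lit 841413800) (nat_lit 152) (nat_lit 1628555068) (nat_lit 76) (nat_lit 19260682886) (nat_lit 13) (nat_lit 5) (nat_lit 15) (nat_lit 5) (nat_lit 14) (nat_lit 5) (nat_lit 272) (nat_lit 243) (nat_lit 205)) (XT.lf (nat_lit 0) (nat_lit 4292071020) (nat_lit 228) (nat_lit 16103637739) (nat_lit 76) (nat_lit 2632443498) (nat_lit 11) (nat_lit 5) (nat_lit 14) (nat_lit 5) (nat_lit 12) (nat_lit 4) (nat_lit 273) (nat_lit 243) (nat_lit 204)))))) (XT.nd (nat_lit 468) (nat_lit 228) (nat_lit 0) (XT.nd (nat_lit 234) (nat_lit 76) (nat_lit 0) (XT.nd (nat_lit 78) (nat_lit 76) (nat_lit 0) (XT.lf (nat_lit 0) (nat_lit 8090474971) (nat_lit 228) (nat_lit 8299956215)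 (nat_lit 76) (nat_lit 8033384595) (nat_lit 11) (nat_lit 5) (nat_lit 14) (nat_lit 5) (nat_lit 12) (nat_lit 4) (nat_lit 274) (nat_lit 243) (nat_lit 203)) (XT.nd (nat_lit 78) (nat_lit 0) (nat_lit 0) (XT.lf (nat_lit 0) (nat_lit 73160086) (nat_lit 76) (nat_lit 12086031187) (nat_lit 152) (nat_lit 13774717128) (nat_lit 10) (nat_lit 5) (nat_lit 11) (nat_lit 5) (nat_lit 12) (nat_lit 4) (nat_lit 275) (nat_lit 243) (nat_lit 202)) (XT.lf (nat_lit 0) (nat_lit 9531113556) (nat_lit 76) (nat_lit 7215151859) (nat_lit 152) (nat_lit 10803198632) (nat_lit 10) (nat_lit 5) (nat_lit 11) (nat_lit 5) (nat_lit 12) (nat_lit 4) (nat_lit 276) (nat_lit 243) (nat_lit 201)))) (XT.nd (nat_lit 78) (nat_lit 76) (nat_lit 0) (XT.lf (nat_lit 0) (nat_lit 19692890341) (nat_lit 76) (nat_lit 1975864246) (nat_lit 152) (nat_lit 7628111835) (nat_lit 10) (nat_lit 5) (nat_lit 11) (nat_lit 5) (nat_lit 12) (nat_lit 4) (nat_lit 277)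 (nat_lit 243) (nat_lit 200)) (XT.nd (nat_lit 78) (nat_lit 76) (nat_lit 0) (XT.lf (nat_lit 0) (nat_lit 27043921427) (nat_lit 152) (nat_lit 655854460) (nat_lit 0) (nat_lit 3479647226) (nat_lit 10) (nat_lit 5) (nat_lit 12) (nat_lit 4) (nat_lit 10) (nat_lit 4) (nat_lit 278) (nat_lit 243) (nat_lit 199)) (XT.lf (nat_lit 0) (nat_lit 9378894812) (nat_lit 76) (nat_lit 23719602380) (nat_lit 76) (nat_lit 94202548) (nat_lit 9) (nat_lit 4) (nat_lit 10) (nat_lit 5) (nat_lit 10) (nat_lit 4) (nat_lit 279) (nat_lit 243) (nat_lit 198))))) (XT.nd (nat_lit 234) (nat_lit 76) (nat_lit 0) (XT.nd (nat_lit 78) (nat_lit 76) (nat_lit 0) (XT.lf (nat_lit 0) (nat_lit 4047871602) (nat_lit 152) (nat_lit 15262424705) (nat_lit 76) (nat_lit 16049295909) (nat_lit 8) (nat_lit 5) (nat_lit 10) (nat_lit 5) (nat_lit 9) (nat_lit 4) (nat_lit 280) (nat_lit 243) (nat_lit 197)) (XT.nd (nat_lit 78) (nat_lit 76) (nat_lit 0) (XT.lf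 (nat_lit 0) (nat_lit 8490940649) (nat_lit 152) (nat_lit 6073246464) (nat_lit 76) (nat_lit 23137528987) (nat_lit 8) (nat_lit 5) (nat_lit 10) (nat_lit 5) (nat_lit 9) (nat_lit 4) (nat_lit 281) (nat_lit 243) (nat_lit 196)) (XT.lf (nat_lit 0) (nat_lit 4011101287) (nat_lit 76) (nat_lit 9351412077) (nat_lit 152) (nat_lit 26862901160) (nat_lit 7) (nat_lit 5) (nat_lit 8) (nat_lit 5) (nat_lit 9) (nat_lit 4) (nat_lit 282) (nat_lit 243) (nat_lit 195)))) (XT.nd (nat_lit 156) (nat_lit 76) (nat_lit 0) (XT.nd (nat_lit 78) (nat_lit 0) (nat_lit 0) (XT.lf (nat_lit 0) (nat_lit 15207999748) (nat_lit 76) (nat_lit 3559238436) (nat_lit 152) (nat_lit 24172342167) (nat_lit 7) (nat_lit 5) (nat_lit 8) (nat_lit 5) (nat_lit 9) (nat_lit 4) (nat_lit 283) (nat_lit 243) (nat_lit 194)) (XT.lf (nat_lit 0) (nat_lit 24647858634) (nat_lit 152) (nat_lit 18673071860) (nat_lit 0) (nat_lit 2546509789) (nat_lit 7) (nat_lit 5)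 (nat_lit 9) (nat_lit 4) (nat_lit 7) (nat_lit 4) (nat_lit 284) (nat_lit 243) (nat_lit 193))) (XT.nd (nat_lit 78) (nat_lit 76) (nat_lit 0) (XT.lf (nat_lit 0) (nat_lit 31071627717) (nat_lit 152) (nat_lit 9017511840) (nat_lit 0) (nat_lit 8934612653) (nat_lit 7) (nat_lit 5) (nat_lit 9) (nat_lit 4) (nat_lit 7) (nat_lit 4) (nat_lit 285) (nat_lit 243) (nat_lit 192)) (XT.lf (nat_lit 0) (nat_lit 1450476046) (nat_lit 76) (nat_lit 36575420382) (nat_lit 76) (nat_lit 14405381041) (nat_lit 6) (nat_lit 4) (nat_lit 7) (nat_lit 5) (nat_lit 7) (nat_lit 4) (nat_lit 286) (nat_lit 243) (nat_lit 191))))))) (XT.nd (nat_lit 1014) (nat_lit 76) (nat_lit 0) (XT.nd (nat_lit 468) (nat_lit 0) (nat_lit 0) (XT.nd (nat_lit 234) (nat_lit 152) (nat_lit 0) (XT.nd (nat_lit 78) (nat_lit 0) (nat_lit 0) (XT.lf (nat_lit 0) (nat_lit 13236985931) (nat_lit 76) (nat_lit 32528380474) (nat_lit 76) (nat_lit 10327763100) (nat_lit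 6) (nat_lit 4) (nat_lit 7) (nat_lit 5) (nat_lit 7) (nat_lit 4) (nat_lit 287) (nat_lit 243) (nat_lit 190)) (XT.nd (nat_lit 78) (nat_lit 0) (nat_lit 0) (XT.lf (nat_lit 0) (nat_lit 25937017605) (nat_lit 76) (nat_lit 28170592132) (nat_lit 76) (nat_lit 5941661763) (nat_lit 6) (nat_lit 4) (nat_lit 7) (nat_lit 5) (nat_lit 7) (nat_lit 4) (nat_lit 288) (nat_lit 243) (nat_lit 189)) (XT.lf (nat_lit 0) (nat_lit 39625830516) (nat_lit 76) (nat_lit 23476231423) (nat_lit 76) (nat_lit 1221085318) (nat_lit 6) (nat_lit 4) (nat_lit 7) (nat_lit 5) (nat_lit 7) (nat_lit 4) (nat_lit 289) (nat_lit 243) (nat_lit 188)))) (XT.nd (nat_lit 78) (nat_lit 76) (nat_lit 0) (XT.lf (nat_lit 0) (nat_lit 3668750139) (nat_lit 152) (nat_lit 14648419644) (nat_lit 76) (nat_lit 50615483285) (nat_lit 5) (nat_lit 5) (nat_lit 7) (nat_lit 5) (nat_lit 6) (nat_lit 4) (nat_lit 290) (nat_lit 243) (nat_lit 187)) (XT.nd (nat_lit 78) (nat_lit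 76) (nat_lit 0) (XT.lf (nat_lit 0) (nat_lit 8870434521) (nat_lit 152) (nat_lit 3851391896) (nat_lit 76) (nat_lit 61187647839) (nat_lit 5) (nat_lit 5) (nat_lit 7) (nat_lit 5) (nat_lit 6) (nat_lit 4) (nat_lit 291) (nat_lit 243) (nat_lit 186)) (XT.lf (nat_lit 0) (nat_lit 8197171748) (nat_lit 76) (nat_lit 6475846686) (nat_lit 152) (nat_lit 64596662660) (nat_lit 4) (nat_lit 5) (nat_lit 5) (nat_lit 5) (nat_lit 6) (nat_lit 4) (nat_lit 292) (nat_lit 243) (nat_lit 185))))) (XT.nd (nat_lit 234) (nat_lit 0) (nat_lit 0) (XT.nd (nat_lit 78) (nat_lit 0) (nat_lit 0) (XT.lf (nat_lit 0) (nat_lit 21042120081) (nat_lit 152) (nat_lit 63653313771) (nat_lit 0) (nat_lit 355105316) (nat_lit 4) (nat_lit 5) (nat_lit 6) (nat_lit 4) (nat_lit 4) (nat_lit 4) (nat_lit 293) (nat_lit 243) (nat_lit 184)) (XT.nd (nat_lit 78) (nat_lit 0) (nat_lit 0) (XT.lf (nat_lit 0) (nat_lit 28077641633) (nat_lit 152) (nat_lit 55829584526)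 (nat_lit 0) (nat_lit 7374106508) (nat_lit 4) (nat_lit 5) (nat_lit 6) (nat_lit 4) (nat_lit 4) (nat_lit 4) (nat_lit 294) (nat_lit 243) (nat_lit 183)) (XT.lf (nat_lit 0) (nat_lit 35665530802) (nat_lit 152) (nat_lit 47399214503) (nat_lit 0) (nat_lit 14946699047) (nat_lit 4) (nat_lit 5) (nat_lit 6) (nat_lit 4) (nat_lit 4) (nat_lit 4) (nat_lit 295) (nat_lit 243) (nat_lit 182)))) (XT.nd (nat_lit 156) (nat_lit 0) (nat_lit 0) (XT.nd (nat_lit 78) (nat_lit 0) (nat_lit 0) (XT.lf (nat_lit 0) (nat_lit 43850752858) (nat_lit 152) (nat_lit 38312245953) (nat_lit 0) (nat_lit 23117757557) (nat_lit 4) (nat_lit 5) (nat_lit 6) (nat_lit 4) (nat_lit 4) (nat_lit 4) (nat_lit 296) (nat_lit 243) (nat_lit 181)) (XT.lf (nat_lit 0) (nat_lit 52681812819) (nat_lit 152) (nat_lit 28514830175) (nat_lit 0) (nat_lit 31935703124) (nat_lit 4) (nat_lit 5) (nat_lit 6) (nat_lit 4) (nat_lit 4) (nat_lit 4) (nat_lit 297) (nat_lit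 243) (nat_lit 180))) (XT.nd (nat_lit 78) (nat_lit 0) (nat_lit 0) (XT.lf (nat_lit 0) (nat_lit 62211042894) (nat_lit 152) (nat_lit 17948908408) (nat_lit 0) (nat_lit 41452790240) (nat_lit 4) (nat_lit 5) (nat_lit 6) (nat_lit 4) (nat_lit 4) (nat_lit 4) (nat_lit 298) (nat_lit 243) (nat_lit 179)) (XT.lf (nat_lit 0) (nat_lit 72494912593) (nat_lit 152) (nat_lit 6551867782) (nat_lit 0) (nat_lit 51725416460) (nat_lit 4) (nat_lit 5) (nat_lit 6) (nat_lit 4) (nat_lit 4) (nat_lit 4) (nat_lit 299) (nat_lit 243) (nat_lit 178)))))) (XT.nd (nat_lit 468) (nat_lit 0) (nat_lit 0) (XT.nd (nat_lit 234) (nat_lit 0) (nat_lit 0) (XT.nd (nat_lit 78) (nat_lit 0) (nat_lit 0) (XT.lf (nat_lit 0) (nat_lit 6046289614) (nat_lit 76) (nat_lit 77693487163) (nat_lit 76) (nat_lit 56913580401) (nat_lit 3) (nat_lit 4) (nat_lit 4) (nat_lit 5) (nat_lit 4) (nat_lit 4) (nat_lit 300) (nat_lit 243) (nat_lit 177)) (XT.nd (nat_lit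 78) (nat_lit 0) (nat_lit 0) (XT.lf (nat_lit 0) (nat_lit 20012135564) (nat_lit 76) (nat_lit 76044326516) (nat_lit 76) (nat_lit 55254780283) (nat_lit 3) (nat_lit 4) (nat_lit 4) (nat_lit 5) (nat_lit 4) (nat_lit 4) (nat_lit 301) (nat_lit 243) (nat_lit 176)) (XT.lf (nat_lit 0) (nat_lit 35083420887) (nat_lit 76) (nat_lit 74268665308) (nat_lit 76) (nat_lit 53470193638) (nat_lit 3) (nat_lit 4) (nat_lit 4) (nat_lit 5) (nat_lit 4) (nat_lit 4) (nat_lit 302) (nat_lit 243) (nat_lit 175)))) (XT.nd (nat_lit 78) (nat_lit 0) (nat_lit 0) (XT.lf (nat_lit 0) (nat_lit 51349456905) (nat_lit 76) (nat_lit 72355981102) (nat_lit 76) (nat_lit 51549245138) (nat_lit 3) (nat_lit 4) (nat_lit 4) (nat_lit 5) (nat_lit 4) (nat_lit 4) (nat_lit 303) (nat_lit 243) (nat_lit 174)) (XT.nd (nat_lit 78) (nat_lit 0) (nat_lit 0) (XT.lf (nat_lit 0) (nat_lit 68906634943) (nat_lit 76) (nat_lit 70294939472) (nat_lit 76) (nat_lit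 49480551385) (nat_lit 3) (nat_lit 4) (nat_lit 4) (nat_lit 5) (nat_lit 4) (nat_lit 4) (nat_lit 304) (nat_lit 243) (nat_lit 173)) (XT.lf (nat_lit 0) (nat_lit 87858997535) (nat_lit 76) (nat_lit 68073326838) (nat_lit 76) (nat_lit 47251853452) (nat_lit 3) (nat_lit 4) (nat_lit 4) (nat_lit 5) (nat_lit 4) (nat_lit 4) (nat_lit 305) (nat_lit 243) (nat_lit 172))))) (XT.nd (nat_lit 234) (nat_lit 0) (nat_lit 0) (XT.nd (nat_lit 78) (nat_lit 0) (nat_lit 0) (XT.lf (nat_lit 0) (nat_lit 108318854981) (nat_lit 76) (nat_lit 65677978090) (nat_lit 76) (nat_lit 44849944241) (nat_lit 3) (nat_lit 4) (nat_lit 4) (nat_lit 5) (nat_lit 4) (nat_lit 4) (nat_lit 306) (nat_lit 243) (nat_lit 171)) (XT.nd (nat_lit 78) (nat_lit 0) (nat_lit 0) (XT.lf (nat_lit 0) (nat_lit 130407450879) (nat_lit 76) (nat_lit 63094698566) (nat_lit 76) (nat_lit 42260590216) (nat_lit 3) (nat_lit 4) (nat_lit 4) (nat_lit 5) (nat_lit 4) (nat_lit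 4) (nat_lit 307) (nat_lit 243) (nat_lit 170)) (XT.lf (nat_lit 0) (nat_lit 154255680611) (nat_lit 76) (nat_lit 60308179946) (nat_lit 76) (nat_lit 39468447056) (nat_lit 3) (nat_lit 4) (nat_lit 4) (nat_lit 5) (nat_lit 4) (nat_lit 4) (nat_lit 308) (nat_lit 243) (nat_lit 169)))) (XT.nd (nat_lit 156) (nat_lit 0) (nat_lit 0) (XT.nd (nat_lit 78) (nat_lit 0) (nat_lit 0) (XT.lf (nat_lit 0) (nat_lit 180004867022) (nat_lit 76) (nat_lit 57301909524) (nat_lit 76) (nat_lit 36456968728) (nat_lit 3) (nat_lit 4) (nat_lit 4) (nat_lit 5) (nat_lit 4) (nat_lit 4) (nat_lit 309) (nat_lit 243) (nat_lit 168)) (XT.lf (nat_lit 0) (nat_lit 207807597883) (nat_lit 76) (nat_lit 54058072366) (nat_lit 76) (nat_lit 33208309434) (nat_lit 3) (nat_lit 4) (nat_lit 4) (nat_lit 5) (nat_lit 4) (nat_lit 4) (nat_lit 310) (nat_lit 243) (nat_lit 167))) (XT.nd (nat_lit 78) (nat_lit 0) (nat_lit 0) (XT.lf (nat_lit 0) (nat_lit 237828630117)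 (nat_lit 76) (nat_lit 50557445733) (nat_lit 76) (nat_lit 29703217861) (nat_lit 3) (nat_lit 4) (nat_lit 4) (nat_lit 5) (nat_lit 4) (nat_lit 4) (nat_lit 311) (nat_lit 243) (nat_lit 166)) (XT.lf (nat_lit 0) (nat_lit 270245866137) (nat_lit 76) (nat_lit 46779285171) (nat_lit 76) (nat_lit 25920923094) (nat_lit 3) (nat_lit 4) (nat_lit 4) (nat_lit 5) (nat_lit 4) (nat_lit 4) (nat_lit 312) (nat_lit 243) (nat_lit 165))))))))
noncomputable def xc57 : XT := (XT.nd (nat_lit 2028) (nat_lit 0) (nat_lit 0) (XT.nd (nat_lit 1014) (nat_lit 0) (nat_lit 0) (XT.nd (nat_lit 468) (nat_lit 76) (nat_lit 0) (XT.nd (nat_lit 234) (nat_lit 76) (nat_lit 0) (XT.nd (nat_lit 78) (nat_lit 0) (nat_lit 0) (XT.lf (nat_lit 0) (nat_lit 305251408082) (nat_lit 76) (nat_lit 42701201579) (nat_lit 76) (nat_lit 21839011536) (nat_lit 3) (nat_lit 4) (nat_lit 4) (nat_lit 5) (nat_lit 4) (nat_lit 4) (nat_lit 313) (nat_lit 243) (nat_lit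 164)) (XT.nd (nat_lit 78) (nat_lit 0) (nat_lit 0) (XT.lf (nat_lit 0) (nat_lit 343052696202) (nat_lit 76) (nat_lit 38299028538) (nat_lit 76) (nat_lit 17433294081) (nat_lit 3) (nat_lit 4) (nat_lit 4) (nat_lit 5) (nat_lit 4) (nat_lit 4) (nat_lit 314) (nat_lit 243) (nat_lit 163)) (XT.lf (nat_lit 0) (nat_lit 383873738129) (nat_lit 76) (nat_lit 33546679095) (nat_lit 76) (nat_lit 12677662774) (nat_lit 3) (nat_lit 4) (nat_lit 4) (nat_lit 5) (nat_lit 4) (nat_lit 4) (nat_lit 315) (nat_lit 243) (nat_lit 162)))) (XT.nd (nat_lit 78) (nat_lit 76) (nat_lit 0) (XT.lf (nat_lit 0) (nat_lit 427956436335) (nat_lit 76) (nat_lit 28415991180) (nat_lit 76) (nat_lit 7543936095) (nat_lit 3) (nat_lit 4) (nat_lit 4) (nat_lit 5) (nat_lit 4) (nat_lit 4) (nat_lit 316) (nat_lit 243) (nat_lit 161)) (XT.nd (nat_lit 78) (nat_lit 76) (nat_lit 0) (XT.lf (nat_lit 0) (nat_lit 475562021623) (nat_lit 76) (nat_lit 22876560716)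 (nat_lit 76) (nat_lit 2001691961) (nat_lit 3) (nat_lit 4) (nat_lit 4) (nat_lit 5) (nat_lit 4) (nat_lit 4) (nat_lit 317) (nat_lit 243) (nat_lit 160)) (XT.lf (nat_lit 0) (nat_lit 3782721163) (nat_lit 152) (nat_lit 13009413985) (nat_lit 76) (nat_lit 523086453703) (nat_lit 2) (nat_lit 5) (nat_lit 4) (nat_lit 5) (nat_lit 3) (nat_lit 4) (nat_lit 318) (nat_lit 243) (nat_lit 159))))) (XT.nd (nat_lit 234) (nat_lit 0) (nat_lit 0) (XT.nd (nat_lit 78) (nat_lit 76) (nat_lit 0) (XT.lf (nat_lit 0) (nat_lit 9919967922) (nat_lit 152) (nat_lit 246352993) (nat_lit 76) (nat_lit 572301632824) (nat_lit 2) (nat_lit 5) (nat_lit 4) (nat_lit 5) (nat_lit 3) (nat_lit 4) (nat_lit 319) (nat_lit 243) (nat_lit 158)) (XT.nd (nat_lit 78) (nat_lit 0) (nat_lit 0) (XT.lf (nat_lit 0) (nat_lit 14247417518) (nat_lit 76) (nat_lit 2641783141) (nat_lit 152) (nat_lit 611547988929) (nat_lit 1) (nat_lit 5) (nat_lit 2) (nat_lit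 5) (nat_lit 3) (nat_lit 4) (nat_lit 320) (nat_lit 243) (nat_lit 157)) (XT.lf (nat_lit 0) (nat_lit 24553163007) (nat_lit 152) (nat_lit 648303876211) (nat_lit 0) (nat_lit 5215951909) (nat_lit 1) (nat_lit 5) (nat_lit 3) (nat_lit 4) (nat_lit 1) (nat_lit 4) (nat_lit 321) (nat_lit 243) (nat_lit 156)))) (XT.nd (nat_lit 156) (nat_lit 0) (nat_lit 0) (XT.nd (nat_lit 78) (nat_lit 0) (nat_lit 0) (XT.lf (nat_lit 0) (nat_lit 32897353344) (nat_lit 152) (nat_lit 685218567353) (nat_lit 0) (nat_lit 13558369156) (nat_lit 1) (nat_lit 5) (nat_lit 3) (nat_lit 4) (nat_lit 1) (nat_lit 4) (nat_lit 322) (nat_lit 243) (nat_lit 155)) (XT.lf (nat_lit 0) (nat_lit 41907683776) (nat_lit 152) (nat_lit 725089064275) (nat_lit 0) (nat_lit 22567057839) (nat_lit 1) (nat_lit 5) (nat_lit 3) (nat_lit 4) (nat_lit 1) (nat_lit 4) (nat_lit 323) (nat_lit 243) (nat_lit 154))) (XT.nd (nat_lit 78) (nat_lit 0) (nat_lit 0) (XT.lf (nat_lit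 0) (nat_lit 51637548853) (nat_lit 152) (nat_lit 768151636588) (nat_lit 0) (nat_lit 32295402778) (nat_lit 1) (nat_lit 5) (nat_lit 3) (nat_lit 4) (nat_lit 1) (nat_lit 4) (nat_lit 324) (nat_lit 243) (nat_lit 153)) (XT.lf (nat_lit 0) (nat_lit 62144607036) (nat_lit 152) (nat_lit 814661469905) (nat_lit 0) (nat_lit 42801053425) (nat_lit 1) (nat_lit 5) (nat_lit 3) (nat_lit 4) (nat_lit 1) (nat_lit 4) (nat_lit 325) (nat_lit 243) (nat_lit 152)))))) (XT.nd (nat_lit 468) (nat_lit 0) (nat_lit 0) (XT.nd (nat_lit 234) (nat_lit 0) (nat_lit 0) (XT.nd (nat_lit 78) (nat_lit 0) (nat_lit 0) (XT.lf (nat_lit 0) (nat_lit 73491122373) (nat_lit 152) (nat_lit 864894178055) (nat_lit 0) (nat_lit 54146265488) (nat_lit 1) (nat_lit 5) (nat_lit 3) (nat_lit 4) (nat_lit 1) (nat_lit 4) (nat_lit 326) (nat_lit 243) (nat_lit 151)) (XT.nd (nat_lit 78) (nat_lit 0) (nat_lit 0) (XT.lf (nat_lit 0) (nat_lit 85744333473) (nat_lit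 152) (nat_lit 919147436343) (nat_lit 0) (nat_lit 66398269853) (nat_lit 1) (nat_lit 5) (nat_lit 3) (nat_lit 4) (nat_lit 1) (nat_lit 4) (nat_lit 327) (nat_lit 243) (nat_lit 150)) (XT.lf (nat_lit 0) (nat_lit 98976851957) (nat_lit 152) (nat_lit 977742745560) (nat_lit 0) (nat_lit 79629670991) (nat_lit 1) (nat_lit 5) (nat_lit 3) (nat_lit 4) (nat_lit 1) (nat_lit 4) (nat_lit 328) (nat_lit 243) (nat_lit 149)))) (XT.nd (nat_lit 78) (nat_lit 0) (nat_lit 0) (XT.lf (nat_lit 0) (nat_lit 113267092751) (nat_lit 152) (nat_lit 1041027337169) (nat_lit 0) (nat_lit 93918877204) (nat_lit 1) (nat_lit 5) (nat_lit 3) (nat_lit 4) (nat_lit 1) (nat_lit 4) (nat_lit 329) (nat_lit 243) (nat_lit 148)) (XT.nd (nat_lit 78) (nat_lit 0) (nat_lit 0) (XT.lf (nat_lit 0) (nat_lit 128699738762) (nat_lit 152) (nat_lit 1109376230971) (nat_lit 0) (nat_lit 109350565270) (nat_lit 1) (nat_lit 5) (nat_lit 3) (nat_lit 4) (nat_lit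 1) (nat_lit 4) (nat_lit 330) (nat_lit 243) (nat_lit 147)) (XT.lf (nat_lit 0) (nat_lit 145366242707) (nat_lit 152) (nat_lit 1183194457448) (nat_lit 0) (nat_lit 126016182230) (nat_lit 1) (nat_lit 5) (nat_lit 3) (nat_lit 4) (nat_lit 1) (nat_lit 4) (nat_lit 331) (nat_lit 243) (nat_lit 146))))) (XT.nd (nat_lit 234) (nat_lit 0) (nat_lit 0) (XT.nd (nat_lit 78) (nat_lit 0) (nat_lit 0) (XT.lf (nat_lit 0) (nat_lit 163365369055) (nat_lit 152) (nat_lit 1262919457942) (nat_lit 0) (nat_lit 144014487294) (nat_lit 1) (nat_lit 5) (nat_lit 3) (nat_lit 4) (nat_lit 1) (nat_lit 4) (nat_lit 332) (nat_lit 243) (nat_lit 145)) (XT.nd (nat_lit 78) (nat_lit 0) (nat_lit 0) (XT.lf (nat_lit 0) (nat_lit 182803779295) (nat_lit 152) (nat_lit 1349023676900) (nat_lit 0) (nat_lit 163452137086) (nat_lit 1) (nat_lit 5) (nat_lit 3) (nat_lit 4) (nat_lit 1) (nat_lit 4) (nat_lit 333) (nat_lit 243) (nat_lit 144)) (XT.lf (nat_lit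 0) (nat_lit 203796664006) (nat_lit 152) (nat_lit 1442017361547) (nat_lit 0) (nat_lit 184444317679) (nat_lit 1) (nat_lit 5) (nat_lit 3) (nat_lit 4) (nat_lit 1) (nat_lit 4) (nat_lit 334) (nat_lit 243) (nat_lit 143)))) (XT.nd (nat_lit 156) (nat_lit 0) (nat_lit 0) (XT.nd (nat_lit 78) (nat_lit 0) (nat_lit 0) (XT.lf (nat_lit 0) (nat_lit 226468425467) (nat_lit 152) (nat_lit 1542451585568) (nat_lit 0) (nat_lit 207115427179) (nat_lit 1) (nat_lit 5) (nat_lit 3) (nat_lit 4) (nat_lit 1) (nat_lit 4) (nat_lit 335) (nat_lit 243) (nat_lit 142)) (XT.lf (nat_lit 0) (nat_lit 250953414858) (nat_lit 152) (nat_lit 1650921514736) (nat_lit 0) (nat_lit 231599812902) (nat_lit 1) (nat_lit 5) (nat_lit 3) (nat_lit 4) (nat_lit 1) (nat_lit 4) (nat_lit 336) (nat_lit 243) (nat_lit 141))) (XT.nd (nat_lit 78) (nat_lit 0) (nat_lit 0) (XT.lf (nat_lit 0) (nat_lit 277396728413) (nat_lit 152) (nat_lit 1768069933816) (nat_lit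 0) (nat_lit 258042567505) (nat_lit 1) (nat_lit 5) (nat_lit 3) (nat_lit 4) (nat_lit 1) (nat_lit 4) (nat_lit 337) (nat_lit 243) (nat_lit 140)) (XT.lf (nat_lit 0) (nat_lit 305955067248) (nat_lit 152) (nat_lit 1894591055662) (nat_lit 0) (nat_lit 286600388792) (nat_lit 1) (nat_lit 5) (nat_lit 3) (nat_lit 4) (nat_lit 1) (nat_lit 4) (nat_lit 338) (nat_lit 243) (nat_lit 139))))))) (XT.nd (nat_lit 31044) (nat_lit 0) (nat_lit 1216) (XT.nd (nat_lit 30498) (nat_lit 0) (nat_lit 2432) (XT.nd (nat_lit 30264) (nat_lit 0) (nat_lit 3648) (XT.nd (nat_lit 30108) (nat_lit 0) (nat_lit 3572) (XT.lf (nat_lit 0) (nat_lit 336797665964) (nat_lit 152) (nat_lit 2031234635070) (nat_lit 0) (nat_lit 317442508297) (nat_lit 1) (nat_lit 5) (nat_lit 3) (nat_lit 4) (nat_lit 1) (nat_lit 4) (nat_lit 339) (nat_lit 243) (nat_lit 138)) (XT.nd (nat_lit 78) (nat_lit 380) (nat_lit 0) (XT.lf (nat_lit 0) (nat_lit 1348167737) (nat_lit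 0) (nat_lit 1348167737) (nat_lit 228) (nat_lit 762138231) (nat_lit 53) (nat_lit 5) (nat_lit 53) (nat_lit 3) (nat_lit 56) (nat_lit 3) (nat_lit 244) (nat_lit 244) (nat_lit 232)) (XT.lf (nat_lit 0) (nat_lit 207130336) (nat_lit 380) (nat_lit 1145773264) (nat_lit 380) (nat_lit 5695168455) (nat_lit 48) (nat_lit 3) (nat_lit 53) (nat_lit 3) (nat_lit 53) (nat_lit 5) (nat_lit 245) (nat_lit 244) (nat_lit 231)))) (XT.nd (nat_lit 78) (nat_lit 0) (nat_lit 0) (XT.lf (nat_lit 0) (nat_lit 1881624122) (nat_lit 304) (nat_lit 5053983249) (nat_lit 380) (nat_lit 261114241) (nat_lit 49) (nat_lit 5) (nat_lit 53) (nat_lit 5) (nat_lit 54) (nat_lit 5) (nat_lit 246) (nat_lit 244) (nat_lit 230)) (XT.nd (nat_lit 78) (nat_lit 0) (nat_lit 0) (XT.lf (nat_lit 0) (nat_lit 3598167382) (nat_lit 304) (nat_lit 1737616928) (nat_lit 380) (nat_lit 2029902240) (nat_lit 49) (nat_lit 5) (nat_lit 53) (nat_lit 5) (nat_lit 54) (nat_lit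 5) (nat_lit 247) (nat_lit 244) (nat_lit 229)) (XT.lf (nat_lit 76) (nat_lit 1837459181) (nat_lit 0) (nat_lit 3511366272) (nat_lit 380) (nat_lit 2208591232) (nat_lit 50) (nat_lit 5) (nat_lit 49) (nat_lit 5) (nat_lit 54) (nat_lit 5) (nat_lit 248) (nat_lit 244) (nat_lit 228))))) (XT.nd (nat_lit 234) (nat_lit 912) (nat_lit 0) (XT.nd (nat_lit 78) (nat_lit 304) (nat_lit 0) (XT.lf (nat_lit 76) (nat_lit 5701338619) (nat_lit 0) (nat_lit 1446916633) (nat_lit 380) (nat_lit 624450331) (nat_lit 50) (nat_lit 5) (nat_lit 49) (nat_lit 5) (nat_lit 54) (nat_lit 5) (nat_lit 249) (nat_lit 244) (nat_lit 227)) (XT.nd (nat_lit 78) (nat_lit 0) (nat_lit 0) (XT.lf (nat_lit 0) (nat_lit 965145608) (nat_lit 380) (nat_lit 6194248330) (nat_lit 76) (nat_lit 849874634) (nat_lit 45) (nat_lit 5) (nat_lit 50) (nat_lit 5) (nat_lit 46) (nat_lit 5) (nat_lit 250) (nat_lit 244) (nat_lit 226)) (XT.lf (nat_lit 0) (nat_lit 2619508007)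 (nat_lit 380) (nat_lit 2291092576) (nat_lit 76) (nat_lit 3355880273) (nat_lit 45) (nat_lit 5) (nat_lit 50) (nat_lit 5) (nat_lit 46) (nat_lit 5) (nat_lit 251) (nat_lit 244) (nat_lit 225)))) (XT.nd (nat_lit 156) (nat_lit 532) (nat_lit 0) (XT.nd (nat_lit 78) (nat_lit 0) (nat_lit 0) (XT.lf (nat_lit 0) (nat_lit 1922610073) (nat_lit 380) (nat_lit 2414706654) (nat_lit 456) (nat_lit 4213140279) (nat_lit 40) (nat_lit 5) (nat_lit 45) (nat_lit 5) (nat_lit 46) (nat_lit 5) (nat_lit 252) (nat_lit 244) (nat_lit 224)) (XT.lf (nat_lit 0) (nat_lit 6154992191) (nat_lit 456) (nat_lit 2361882452) (nat_lit 76) (nat_lit 343905935) (nat_lit 40) (nat_lit 5) (nat_lit 46) (nat_lit 5) (nat_lit 41) (nat_lit 5) (nat_lit 253) (nat_lit 244) (nat_lit 223))) (XT.nd (nat_lit 78) (nat_lit 76) (nat_lit 0) (XT.lf (nat_lit 0) (nat_lit 2195167104) (nat_lit 456) (nat_lit 5937888965) (nat_lit 532) (nat_lit 1062254437) (nat_lit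 34) (nat_lit 5) (nat_lit 40) (nat_lit 5) (nat_lit 41) (nat_lit 5) (nat_lit 254) (nat_lit 244) (nat_lit 222)) (XT.lf (nat_lit 0) (nat_lit 645004200) (nat_lit 532) (nat_lit 2419648884) (nat_lit 76) (nat_lit 6493642512) (nat_lit 33) (nat_lit 5) (nat_lit 40) (nat_lit 5) (nat_lit 34) (nat_lit 5) (nat_lit 255) (nat_lit 244) (nat_lit 221)))))) (XT.nd (nat_lit 468) (nat_lit 532) (nat_lit 0) (XT.nd (nat_lit 234) (nat_lit 304) (nat_lit 0) (XT.nd (nat_lit 78) (nat_lit 152) (nat_lit 0) (XT.lf (nat_lit 0) (nat_lit 2404485568) (nat_lit 304) (nat_lit 7420787197) (nat_lit 76) (nat_lit 125456104) (nat_lit 30) (nat_lit 5) (nat_lit 34) (nat_lit 5) (nat_lit 31) (nat_lit 5) (nat_lit 256) (nat_lit 244) (nat_lit 220)) (XT.nd (nat_lit 78) (nat_lit 152) (nat_lit 0) (XT.lf (nat_lit 0) (nat_lit 4365594427) (nat_lit 304) (nat_lit 2535418017) (nat_lit 76) (nat_lit 3469099998) (nat_lit 30) (nat_lit 5) (nat_lit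 34) (nat_lit 5) (nat_lit 31) (nat_lit 5) (nat_lit 257) (nat_lit 244) (nat_lit 219)) (XT.lf (nat_lit 0) (nat_lit 2789643765) (nat_lit 152) (nat_lit 3680846392) (nat_lit 228) (nat_lit 4353998354) (nat_lit 28) (nat_lit 5) (nat_lit 30) (nat_lit 5) (nat_lit 31) (nat_lit 5) (nat_lit 258) (nat_lit 244) (nat_lit 218)))) (XT.nd (nat_lit 78) (nat_lit 304) (nat_lit 0) (XT.lf (nat_lit 0) (nat_lit 8596511602) (nat_lit 152) (nat_lit 140210349) (nat_lit 228) (nat_lit 2579421664) (nat_lit 28) (nat_lit 5) (nat_lit 30) (nat_lit 5) (nat_lit 31) (nat_lit 5) (nat_lit 259) (nat_lit 244) (nat_lit 217)) (XT.nd (nat_lit 78) (nat_lit 76) (nat_lit 0) (XT.lf (nat_lit 0) (nat_lit 2994428047) (nat_lit 228) (nat_lit 8279444574) (nat_lit 304) (nat_lit 566426383) (nat_lit 25) (nat_lit 5) (nat_lit 28) (nat_lit 5) (nat_lit 29) (nat_lit 5) (nat_lit 260) (nat_lit 244) (nat_lit 216)) (XT.lf (nat_lit 0) (nat_lit 1537282165)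 (nat_lit 304) (nat_lit 3213714159) (nat_lit 76) (nat_lit 7651779392) (nat_lit 24) (nat_lit 5) (nat_lit 28) (nat_lit 5) (nat_lit 25) (nat_lit 5) (nat_lit 261) (nat_lit 244) (nat_lit 215))))) (XT.nd (nat_lit 234) (nat_lit 228) (nat_lit 0) (XT.nd (nat_lit 78) (nat_lit 152) (nat_lit 0) (XT.lf (nat_lit 0) (nat_lit 2917545988) (nat_lit 152) (nat_lit 866639993) (nat_lit 228) (nat_lit 9224715492) (nat_lit 22) (nat_lit 5) (nat_lit 24) (nat_lit 5) (nat_lit 25) (nat_lit 5) (nat_lit 262) (nat_lit 244) (nat_lit 214)) (XT.nd (nat_lit 78) (nat_lit 152) (nat_lit 0) (XT.lf (nat_lit 0) (nat_lit 6318775391) (nat_lit 228) (nat_lit 4102097818) (nat_lit 76) (nat_lit 3234257490) (nat_lit 22) (nat_lit 5) (nat_lit 25) (nat_lit 5) (nat_lit 23) (nat_lit 5) (nat_lit 263) (nat_lit 244) (nat_lit 213)) (XT.lf (nat_lit 0) (nat_lit 2384019204) (nat_lit 152) (nat_lit 6694303680) (nat_lit 228) (nat_lit 5273189804) (nat_lit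 20) (nat_lit 5) (nat_lit 22) (nat_lit 5) (nat_lit 23) (nat_lit 5) (nat_lit 264) (nat_lit 244) (nat_lit 212)))) (XT.nd (nat_lit 156) (nat_lit 76) (nat_lit 0) (XT.nd (nat_lit 78) (nat_lit 152) (nat_lit 0) (XT.lf (nat_lit 0) (nat_lit 9545286846) (nat_lit 152) (nat_lit 2570269228) (nat_lit 228) (nat_lit 2983708094) (nat_lit 20) (nat_lit 5) (nat_lit 22) (nat_lit 5) (nat_lit 23) (nat_lit 5) (nat_lit 265) (nat_lit 244) (nat_lit 211)) (XT.lf (nat_lit 0) (nat_lit 1318129448) (nat_lit 152) (nat_lit 14103011865) (nat_lit 228) (nat_lit 483861511) (nat_lit 18) (nat_lit 5) (nat_lit 20) (nat_lit 5) (nat_lit 21) (nat_lit 4) (nat_lit 266) (nat_lit 244) (nat_lit 210))) (XT.nd (nat_lit 78) (nat_lit 0) (nat_lit 0) (XT.lf (nat_lit 0) (nat_lit 2276653351) (nat_lit 228) (nat_lit 7907266541) (nat_lit 76) (nat_lit 6573463381) (nat_lit 17) (nat_lit 5) (nat_lit 20) (nat_lit 5) (nat_lit 18) (nat_lit 5) (nat_lit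 267) (nat_lit 244) (nat_lit 209)) (XT.lf (nat_lit 0) (nat_lit 5184620502) (nat_lit 228) (nat_lit 776303480) (nat_lit 76) (nat_lit 11719960903) (nat_lit 17) (nat_lit 5) (nat_lit 20) (nat_lit 5) (nat_lit 18) (nat_lit 5) (nat_lit 268) (nat_lit 244) (nat_lit 208))))))))
noncomputable def xc58 : XT := (XT.nd (nat_lit 1950) (nat_lit 152) (nat_lit 0) (XT.nd (nat_lit 936) (nat_lit 304) (nat_lit 0) (XT.nd (nat_lit 468) (nat_lit 228) (nat_lit 0) (XT.nd (nat_lit 234) (nat_lit 228) (nat_lit 0) (XT.nd (nat_lit 78) (nat_lit 76) (nat_lit 0) (XT.lf (nat_lit 0) (nat_lit 7221140962) (nat_lit 152) (nat_lit 1234004703) (nat_lit 228) (nat_lit 10212872059) (nat_lit 15) (nat_lit 5) (nat_lit 17) (nat_lit 5) (nat_lit 18) (nat_lit 5) (nat_lit 269) (nat_lit 244) (nat_lit 207)) (XT.nd (nat_lit 78) (nat_lit 76) (nat_lit 0) (XT.lf (nat_lit 0) (nat_lit 12059634578) (nat_lit 228) (nat_lit 3990097723) (nat_lit 76)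 (nat_lit 3678737178) (nat_lit 15) (nat_lit 5) (nat_lit 18) (nat_lit 5) (nat_lit 16) (nat_lit 4) (nat_lit 270) (nat_lit 244) (nat_lit 206)) (XT.lf (nat_lit 0) (nat_lit 4178576823) (nat_lit 76) (nat_lit 11867050527) (nat_lit 152) (nat_lit 4820802543) (nat_lit 14) (nat_lit 5) (nat_lit 15) (nat_lit 5) (nat_lit 16) (nat_lit 4) (nat_lit 271) (nat_lit 244) (nat_lit 205)))) (XT.nd (nat_lit 78) (nat_lit 228) (nat_lit 0) (XT.lf (nat_lit 0) (nat_lit 13167601749) (nat_lit 76) (nat_lit 7254066084) (nat_lit 152) (nat_lit 1668180751) (nat_lit 14) (nat_lit 5) (nat_lit 15) (nat_lit 5) (nat_lit 16) (nat_lit 4) (nat_lit 272) (nat_lit 244) (nat_lit 204)) (XT.nd (nat_lit 78) (nat_lit 152) (nat_lit 0) (XT.lf (nat_lit 0) (nat_lit 1613644666) (nat_lit 152) (nat_lit 634774539) (nat_lit 76) (nat_lit 21162369303) (nat_lit 13) (nat_lit 5) (nat_lit 15) (nat_lit 5) (nat_lit 14) (nat_lit 5) (nat_lit 273) (nat_lit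 244) (nat_lit 203)) (XT.lf (nat_lit 0) (nat_lit 5324505917) (nat_lit 228) (nat_lit 16250235680) (nat_lit 76) (nat_lit 3238757705) (nat_lit 11) (nat_lit 5) (nat_lit 14) (nat_lit 5) (nat_lit 12) (nat_lit 4) (nat_lit 274) (nat_lit 244) (nat_lit 202))))) (XT.nd (nat_lit 234) (nat_lit 152) (nat_lit 0) (XT.nd (nat_lit 78) (nat_lit 76) (nat_lit 0) (XT.lf (nat_lit 0) (nat_lit 9375740020) (nat_lit 228) (nat_lit 7906829492) (nat_lit 76) (nat_lit 9042461591) (nat_lit 11) (nat_lit 5) (nat_lit 14) (nat_lit 5) (nat_lit 12) (nat_lit 4) (nat_lit 275) (nat_lit 244) (nat_lit 201)) (XT.nd (nat_lit 78) (nat_lit 0) (nat_lit 0) (XT.lf (nat_lit 0) (nat_lit 1109373500) (nat_lit 76) (nat_lit 12638099061) (nat_lit 152) (nat_lit 14210379116) (nat_lit 10) (nat_lit 5) (nat_lit 11) (nat_lit 5) (nat_lit 12) (nat_lit 4) (nat_lit 276) (nat_lit 244) (nat_lit 200)) (XT.lf (nat_lit 0) (nat_lit 11247640240) (nat_lit 76)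 (nat_lit 7408276396) (nat_lit 152) (nat_lit 11050495835) (nat_lit 10) (nat_lit 5) (nat_lit 11) (nat_lit 5) (nat_lit 12) (nat_lit 4) (nat_lit 277) (nat_lit 244) (nat_lit 199)))) (XT.nd (nat_lit 78) (nat_lit 152) (nat_lit 0) (XT.lf (nat_lit 0) (nat_lit 22151689715) (nat_lit 76) (nat_lit 1778296708) (nat_lit 152) (nat_lit 7667102738) (nat_lit 10) (nat_lit 5) (nat_lit 11) (nat_lit 5) (nat_lit 12) (nat_lit 4) (nat_lit 278) (nat_lit 244) (nat_lit 198)) (XT.nd (nat_lit 78) (nat_lit 76) (nat_lit 0) (XT.lf (nat_lit 0) (nat_lit 149470654) (nat_lit 76) (nat_lit 29558119019) (nat_lit 76) (nat_lit 3924963763) (nat_lit 9) (nat_lit 4) (nat_lit 10) (nat_lit 5) (nat_lit 10) (nat_lit 4) (nat_lit 279) (nat_lit 244) (nat_lit 197)) (XT.lf (nat_lit 0) (nat_lit 396585938) (nat_lit 152) (nat_lit 24860661881) (nat_lit 76) (nat_lit 10550566444) (nat_lit 8) (nat_lit 5) (nat_lit 10) (nat_lit 5) (nat_lit 9) (nat_lit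 4) (nat_lit 280) (nat_lit 244) (nat_lit 196)))))) (XT.nd (nat_lit 468) (nat_lit 228) (nat_lit 0) (XT.nd (nat_lit 234) (nat_lit 0) (nat_lit 0) (XT.nd (nat_lit 78) (nat_lit 76) (nat_lit 0) (XT.lf (nat_lit 0) (nat_lit 4828400688) (nat_lit 152) (nat_lit 15691010697) (nat_lit 76) (nat_lit 17631450798) (nat_lit 8) (nat_lit 5) (nat_lit 10) (nat_lit 5) (nat_lit 9) (nat_lit 4) (nat_lit 281) (nat_lit 244) (nat_lit 195)) (XT.nd (nat_lit 78) (nat_lit 76) (nat_lit 0) (XT.lf (nat_lit 0) (nat_lit 9593085676) (nat_lit 152) (nat_lit 5825395085) (nat_lit 76) (nat_lit 25264652803) (nat_lit 8) (nat_lit 5) (nat_lit 10) (nat_lit 5) (nat_lit 9) (nat_lit 4) (nat_lit 282) (nat_lit 244) (nat_lit 194)) (XT.lf (nat_lit 0) (nat_lit 5047125522) (nat_lit 76) (nat_lit 9793134041) (nat_lit 152) (nat_lit 28569664215) (nat_lit 7) (nat_lit 5) (nat_lit 8) (nat_lit 5) (nat_lit 9) (nat_lit 4) (nat_lit 283) (nat_lit 244)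 (nat_lit 193)))) (XT.nd (nat_lit 78) (nat_lit 0) (nat_lit 0) (XT.lf (nat_lit 0) (nat_lit 17086802813) (nat_lit 76) (nat_lit 3560282138) (nat_lit 152) (nat_lit 25696621172) (nat_lit 7) (nat_lit 5) (nat_lit 8) (nat_lit 5) (nat_lit 9) (nat_lit 4) (nat_lit 284) (nat_lit 244) (nat_lit 192)) (XT.nd (nat_lit 78) (nat_lit 0) (nat_lit 0) (XT.lf (nat_lit 0) (nat_lit 26976437874) (nat_lit 152) (nat_lit 19531379775) (nat_lit 0) (nat_lit 2999771110) (nat_lit 7) (nat_lit 5) (nat_lit 9) (nat_lit 4) (nat_lit 7) (nat_lit 4) (nat_lit 285) (nat_lit 244) (nat_lit 191)) (XT.lf (nat_lit 0) (nat_lit 33887682518) (nat_lit 152) (nat_lit 9150451830) (nat_lit 0) (nat_lit 9880437719) (nat_lit 7) (nat_lit 5) (nat_lit 9) (nat_lit 4) (nat_lit 7) (nat_lit 4) (nat_lit 286) (nat_lit 244) (nat_lit 190))))) (XT.nd (nat_lit 234) (nat_lit 152) (nat_lit 0) (XT.nd (nat_lit 78) (nat_lit 0) (nat_lit 0) (XT.lf (nat_lit 0) (nat_lit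 2140077341) (nat_lit 76) (nat_lit 39247541105) (nat_lit 76) (nat_lit 15211983312) (nat_lit 6) (nat_lit 4) (nat_lit 7) (nat_lit 5) (nat_lit 7) (nat_lit 4) (nat_lit 287) (nat_lit 244) (nat_lit 189)) (XT.nd (nat_lit 78) (nat_lit 0) (nat_lit 0) (XT.lf (nat_lit 0) (nat_lit 14827021853) (nat_lit 76) (nat_lit 34895546368) (nat_lit 76) (nat_lit 10833772840) (nat_lit 6) (nat_lit 4) (nat_lit 7) (nat_lit 5) (nat_lit 7) (nat_lit 4) (nat_lit 288) (nat_lit 244) (nat_lit 188)) (XT.lf (nat_lit 0) (nat_lit 28503717021) (nat_lit 76) (nat_lit 30206550110) (nat_lit 76) (nat_lit 6120502752) (nat_lit 6) (nat_lit 4) (nat_lit 7) (nat_lit 5) (nat_lit 7) (nat_lit 4) (nat_lit 289) (nat_lit 244) (nat_lit 187)))) (XT.nd (nat_lit 156) (nat_lit 76) (nat_lit 0) (XT.nd (nat_lit 78) (nat_lit 76) (nat_lit 0) (XT.lf (nat_lit 0) (nat_lit 43251209927) (nat_lit 76) (nat_lit 25152765684) (nat_lit 76) (nat_lit 1044242559)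 (nat_lit 6) (nat_lit 4) (nat_lit 7) (nat_lit 5) (nat_lit 7) (nat_lit 4) (nat_lit 290) (nat_lit 244) (nat_lit 186)) (XT.lf (nat_lit 0) (nat_lit 4203728393) (nat_lit 152) (nat_lit 15385578962) (nat_lit 76) (nat_lit 54838227344) (nat_lit 5) (nat_lit 5) (nat_lit 7) (nat_lit 5) (nat_lit 6) (nat_lit 4) (nat_lit 291) (nat_lit 244) (nat_lit 185))) (XT.nd (nat_lit 78) (nat_lit 76) (nat_lit 0) (XT.lf (nat_lit 0) (nat_lit 9803660249) (nat_lit 152) (nat_lit 3756990050) (nat_lit 76) (nat_lit 66243312811) (nat_lit 5) (nat_lit 5) (nat_lit 7) (nat_lit 5) (nat_lit 6) (nat_lit 4) (nat_lit 292) (nat_lit 244) (nat_lit 184)) (XT.lf (nat_lit 0) (nat_lit 9245268478) (nat_lit 76) (nat_lit 6818055481) (nat_lit 152) (nat_lit 69530260972) (nat_lit 4) (nat_lit 5) (nat_lit 5) (nat_lit 5) (nat_lit 6) (nat_lit 4) (nat_lit 293) (nat_lit 244) (nat_lit 183))))))) (XT.nd (nat_lit 1014) (nat_lit 76) (nat_lit 0) (XT.nd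 (nat_lit 468) (nat_lit 76) (nat_lit 0) (XT.nd (nat_lit 234) (nat_lit 0) (nat_lit 0) (XT.nd (nat_lit 78) (nat_lit 0) (nat_lit 0) (XT.lf (nat_lit 0) (nat_lit 22929835485) (nat_lit 152) (nat_lit 68369871253) (nat_lit 0) (nat_lit 538200560) (nat_lit 4) (nat_lit 5) (nat_lit 6) (nat_lit 4) (nat_lit 4) (nat_lit 4) (nat_lit 294) (nat_lit 244) (nat_lit 182)) (XT.nd (nat_lit 78) (nat_lit 0) (nat_lit 0) (XT.lf (nat_lit 0) (nat_lit 30513062036) (nat_lit 152) (nat_lit 59948073862) (nat_lit 0) (nat_lit 8107263564) (nat_lit 4) (nat_lit 5) (nat_lit 6) (nat_lit 4) (nat_lit 4) (nat_lit 4) (nat_lit 295) (nat_lit 244) (nat_lit 181)) (XT.lf (nat_lit 0) (nat_lit 38693966851) (nat_lit 152) (nat_lit 50869042935) (nat_lit 0) (nat_lit 16275053986) (nat_lit 4) (nat_lit 5) (nat_lit 6) (nat_lit 4) (nat_lit 4) (nat_lit 4) (nat_lit 296) (nat_lit 244) (nat_lit 180)))) (XT.nd (nat_lit 78) (nat_lit 0) (nat_lit 0) (XT.lf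 (nat_lit 0) (nat_lit 47521029369) (nat_lit 152) (nat_lit 41078976808) (nat_lit 0) (nat_lit 25089973545) (nat_lit 4) (nat_lit 5) (nat_lit 6) (nat_lit 4) (nat_lit 4) (nat_lit 4) (nat_lit 297) (nat_lit 244) (nat_lit 179)) (XT.nd (nat_lit 78) (nat_lit 0) (nat_lit 0) (XT.lf (nat_lit 0) (nat_lit 57046558106) (nat_lit 152) (nat_lit 30519860272) (nat_lit 0) (nat_lit 34604258803) (nat_lit 4) (nat_lit 5) (nat_lit 6) (nat_lit 4) (nat_lit 4) (nat_lit 4) (nat_lit 298) (nat_lit 244) (nat_lit 178)) (XT.lf (nat_lit 0) (nat_lit 67327000641) (nat_lit 152) (nat_lit 19129120787) (nat_lit 0) (nat_lit 44874290709) (nat_lit 4) (nat_lit 5) (nat_lit 6) (nat_lit 4) (nat_lit 4) (nat_lit 4) (nat_lit 299) (nat_lit 244) (nat_lit 177))))) (XT.nd (nat_lit 234) (nat_lit 0) (nat_lit 0) (XT.nd (nat_lit 78) (nat_lit 76) (nat_lit 0) (XT.lf (nat_lit 0) (nat_lit 78423278115) (nat_lit 152) (nat_lit 6839257674) (nat_lit 0)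 (nat_lit 55960928711) (nat_lit 4) (nat_lit 5) (nat_lit 6) (nat_lit 4) (nat_lit 4) (nat_lit 4) (nat_lit 300) (nat_lit 244) (nat_lit 176)) (XT.nd (nat_lit 78) (nat_lit 0) (nat_lit 0) (XT.lf (nat_lit 0) (nat_lit 6760758402) (nat_lit 76) (nat_lit 83802984246) (nat_lit 76) (nat_lit 61331709406) (nat_lit 3) (nat_lit 4) (nat_lit 4) (nat_lit 5) (nat_lit 4) (nat_lit 4) (nat_lit 301) (nat_lit 244) (nat_lit 175)) (XT.lf (nat_lit 0) (nat_lit 21826778278) (nat_lit 76) (nat_lit 82029741258) (nat_lit 76) (nat_lit 59550202125) (nat_lit 3) (nat_lit 4) (nat_lit 4) (nat_lit 5) (nat_lit 4) (nat_lit 4) (nat_lit 302) (nat_lit 244) (nat_lit 174)))) (XT.nd (nat_lit 156) (nat_lit 0) (nat_lit 0) (XT.nd (nat_lit 78) (nat_lit 0) (nat_lit 0) (XT.lf (nat_lit 0) (nat_lit 38087938881) (nat_lit 76) (nat_lit 80119296145) (nat_lit 76) (nat_lit 57632104888) (nat_lit 3) (nat_lit 4) (nat_lit 4) (nat_lit 5) (nat_lit 4)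 (nat_lit 4) (nat_lit 303) (nat_lit 244) (nat_lit 173)) (XT.lf (nat_lit 0) (nat_lit 55640602646) (nat_lit 76) (nat_lit 78060327749) (nat_lit 76) (nat_lit 55566051192) (nat_lit 3) (nat_lit 4) (nat_lit 4) (nat_lit 5) (nat_lit 4) (nat_lit 4) (nat_lit 304) (nat_lit 244) (nat_lit 172))) (XT.nd (nat_lit 78) (nat_lit 0) (nat_lit 0) (XT.lf (nat_lit 0) (nat_lit 74588785357) (nat_lit 76) (nat_lit 75840634777) (nat_lit 76) (nat_lit 53339797758) (nat_lit 3) (nat_lit 4) (nat_lit 4) (nat_lit 5) (nat_lit 4) (nat_lit 4) (nat_lit 305) (nat_lit 244) (nat_lit 171)) (XT.lf (nat_lit 0) (nat_lit 95044772541) (nat_lit 76) (nat_lit 73447063492) (nat_lit 76) (nat_lit 50940151971) (nat_lit 3) (nat_lit 4) (nat_lit 4) (nat_lit 5) (nat_lit 4) (nat_lit 4) (nat_lit 306) (nat_lit 244) (nat_lit 170)))))) (XT.nd (nat_lit 468) (nat_lit 76) (nat_lit 0) (XT.nd (nat_lit 234) (nat_lit 0) (nat_lit 0) (XT.nd (nat_lit 78) (nat_lit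 0) (nat_lit 0) (XT.lf (nat_lit 0) (nat_lit 117129784863) (nat_lit 76) (nat_lit 70865429769) (nat_lit 76) (nat_lit 48352893709) (nat_lit 3) (nat_lit 4) (nat_lit 4) (nat_lit 5) (nat_lit 4) (nat_lit 4) (nat_lit 307) (nat_lit 244) (nat_lit 169)) (XT.nd (nat_lit 78) (nat_lit 0) (nat_lit 0) (XT.lf (nat_lit 0) (nat_lit 140974696471) (nat_lit 76) (nat_lit 68080435037) (nat_lit 76) (nat_lit 45562691070) (nat_lit 3) (nat_lit 4) (nat_lit 4) (nat_lit 5) (nat_lit 4) (nat_lit 4) (nat_lit 308) (nat_lit 244) (nat_lit 168)) (XT.lf (nat_lit 0) (nat_lit 166720810544) (nat_lit 76) (nat_lit 65075575624) (nat_lit 76) (nat_lit 42553009522) (nat_lit 3) (nat_lit 4) (nat_lit 4) (nat_lit 5) (nat_lit 4) (nat_lit 4) (nat_lit 309) (nat_lit 244) (nat_lit 167)))) (XT.nd (nat_lit 78) (nat_lit 0) (nat_lit 0) (XT.lf (nat_lit 0) (nat_lit 194520696647) (nat_lit 76) (nat_lit 61833044955) (nat_lit 76) (nat_lit 39306013912)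 (nat_lit 3) (nat_lit 4) (nat_lit 4) (nat_lit 5) (nat_lit 4) (nat_lit 4) (nat_lit 310) (nat_lit 244) (nat_lit 166)) (XT.nd (nat_lit 78) (nat_lit 0) (nat_lit 0) (XT.lf (nat_lit 0) (nat_lit 224539094845) (nat_lit 76) (nat_lit 58333628034) (nat_lit 76) (nat_lit 35802462787) (nat_lit 3) (nat_lit 4) (nat_lit 4) (nat_lit 5) (nat_lit 4) (nat_lit 4) (nat_lit 311) (nat_lit 244) (nat_lit 165)) (XT.lf (nat_lit 0) (nat_lit 256953891944) (nat_lit 76) (nat_lit 54556587576) (nat_lit 76) (nat_lit 32021594362) (nat_lit 3) (nat_lit 4) (nat_lit 4) (nat_lit 5) (nat_lit 4) (nat_lit 4) (nat_lit 312) (nat_lit 244) (nat_lit 164))))) (XT.nd (nat_lit 234) (nat_lit 76) (nat_lit 0) (XT.nd (nat_lit 78) (nat_lit 0) (nat_lit 0) (XT.lf (nat_lit 0) (nat_lit 291957175630) (nat_lit 76) (nat_lit 50479541118) (nat_lit 76) (nat_lit 27941003491) (nat_lit 3) (nat_lit 4) (nat_lit 4) (nat_lit 5) (nat_lit 4) (nat_lit 4) (nat_lit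 313) (nat_lit 244) (nat_lit 163)) (XT.nd (nat_lit 78) (nat_lit 0) (nat_lit 0) (XT.lf (nat_lit 0) (nat_lit 329756372768) (nat_lit 76) (nat_lit 46078328385) (nat_lit 76) (nat_lit 23536508893) (nat_lit 3) (nat_lit 4) (nat_lit 4) (nat_lit 5) (nat_lit 4) (nat_lit 4) (nat_lit 314) (nat_lit 244) (nat_lit 162)) (XT.lf (nat_lit 0) (nat_lit 370575478601) (nat_lit 76) (nat_lit 41326868117) (nat_lit 76) (nat_lit 18782009861) (nat_lit 3) (nat_lit 4) (nat_lit 4) (nat_lit 5) (nat_lit 4) (nat_lit 4) (nat_lit 315) (nat_lit 244) (nat_lit 161)))) (XT.nd (nat_lit 156) (nat_lit 76) (nat_lit 0) (XT.nd (nat_lit 78) (nat_lit 0) (nat_lit 0) (XT.lf (nat_lit 0) (nat_lit 414656384127) (nat_lit 76) (nat_lit 36197003511) (nat_lit 76) (nat_lit 13649331586) (nat_lit 3) (nat_lit 4) (nat_lit 4) (nat_lit 5) (nat_lit 4) (nat_lit 4) (nat_lit 316) (nat_lit 244) (nat_lit 160)) (XT.lf (nat_lit 0) (nat_lit 462260309526) (nat_lit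 76) (nat_lit 30658335371) (nat_lit 76) (nat_lit 8108058196) (nat_lit 3) (nat_lit 4) (nat_lit 4) (nat_lit 5) (nat_lit 4) (nat_lit 4) (nat_lit 317) (nat_lit 244) (nat_lit 159))) (XT.nd (nat_lit 78) (nat_lit 76) (nat_lit 0) (XT.lf (nat_lit 0) (nat_lit 513669352135) (nat_lit 76) (nat_lit 24678041959) (nat_lit 76) (nat_lit 2125352515) (nat_lit 3) (nat_lit 4) (nat_lit 4) (nat_lit 5) (nat_lit 4) (nat_lit 4) (nat_lit 318) (nat_lit 244) (nat_lit 158)) (XT.lf (nat_lit 0) (nat_lit 4117422360) (nat_lit 152) (nat_lit 13990684514) (nat_lit 76) (nat_lit 564958158146) (nat_lit 2) (nat_lit 5) (nat_lit 4) (nat_lit 5) (nat_lit 3) (nat_lit 4) (nat_lit 319) (nat_lit 244) (nat_lit 157))))))))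
noncomputable def xc59 : XT := (XT.nd (nat_lit 32136) (nat_lit 0) (nat_lit 760) (XT.nd (nat_lit 1014) (nat_lit 0) (nat_lit 0) (XT.nd (nat_lit 468) (nat_lit 0) (nat_lit 0) (XT.nd (nat_lit 234) (nat_lit 0) (nat_lit 0) (XT.nd (nat_lit 78) (nat_lit 76) (nat_lit 0) (XT.lf (nat_lit 0) (nat_lit 10743272305) (nat_lit 152) (nat_lit 210984761) (nat_lit 76) (nat_lit 618108715438) (nat_lit 2) (nat_lit 5) (nat_lit 4) (nat_lit 5) (nat_lit 3) (nat_lit 4) (nat_lit 320) (nat_lit 244) (nat_lit 156)) (XT.nd (nat_lit 78) (nat_lit 0) (nat_lit 0) (XT.lf (nat_lit 0) (nat_lit 15440893050) (nat_lit 76) (nat_lit 2828241152) (nat_lit 152) (nat_lit 660440688811) (nat_lit 1) (nat_lit 5) (nat_lit 2) (nat_lit 5) (nat_lit 3) (nat_lit 4) (nat_lit 321) (nat_lit 244) (nat_lit 155)) (XT.lf (nat_lit 0) (nat_lit 26544634536) (nat_lit 152) (nat_lit 700116866496) (nat_lit 0) (nat_lit 5655116774) (nat_lit 1) (nat_lit 5) (nat_lit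 3) (nat_lit 4) (nat_lit 1) (nat_lit 4) (nat_lit 322) (nat_lit 244) (nat_lit 154)))) (XT.nd (nat_lit 78) (nat_lit 0) (nat_lit 0) (XT.lf (nat_lit 0) (nat_lit 35554343915) (nat_lit 152) (nat_lit 739988534397) (nat_lit 0) (nat_lit 14663306015) (nat_lit 1) (nat_lit 5) (nat_lit 3) (nat_lit 4) (nat_lit 1) (nat_lit 4) (nat_lit 323) (nat_lit 244) (nat_lit 153)) (XT.nd (nat_lit 78) (nat_lit 0) (nat_lit 0) (XT.lf (nat_lit 0) (nat_lit 45283633944) (nat_lit 152) (nat_lit 783052190950) (nat_lit 0) (nat_lit 24391188509) (nat_lit 1) (nat_lit 5) (nat_lit 3) (nat_lit 4) (nat_lit 1) (nat_lit 4) (nat_lit 324) (nat_lit 244) (nat_lit 152)) (XT.lf (nat_lit 0) (nat_lit 55790159674) (nat_lit 152) (nat_lit 829563028194) (nat_lit 0) (nat_lit 34896410966) (nat_lit 1) (nat_lit 5) (nat_lit 3) (nat_lit 4) (nat_lit 1) (nat_lit 4) (nat_lit 325) (nat_lit 244) (nat_lit 151))))) (XT.nd (nat_lit 234) (nat_lit 0) (nat_lit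 0) (XT.nd (nat_lit 78) (nat_lit 0) (nat_lit 0) (XT.lf (nat_lit 0) (nat_lit 67136182000) (nat_lit 152) (nat_lit 879796665904) (nat_lit 0) (nat_lit 46241226556) (nat_lit 1) (nat_lit 5) (nat_lit 3) (nat_lit 4) (nat_lit 1) (nat_lit 4) (nat_lit 326) (nat_lit 244) (nat_lit 150)) (XT.nd (nat_lit 78) (nat_lit 0) (nat_lit 0) (XT.lf (nat_lit 0) (nat_lit 79388936608) (nat_lit 152) (nat_lit 934050784897) (nat_lit 0) (nat_lit 58492863817) (nat_lit 1) (nat_lit 5) (nat_lit 3) (nat_lit 4) (nat_lit 1) (nat_lit 4) (nat_lit 327) (nat_lit 244) (nat_lit 149)) (XT.lf (nat_lit 0) (nat_lit 92621032415) (nat_lit 152) (nat_lit 992646891064) (nat_lit 0) (nat_lit 71723925044) (nat_lit 1) (nat_lit 5) (nat_lit 3) (nat_lit 4) (nat_lit 1) (nat_lit 4) (nat_lit 328) (nat_lit 244) (nat_lit 148)))) (XT.nd (nat_lit 156) (nat_lit 0) (nat_lit 0) (XT.nd (nat_lit 78) (nat_lit 0) (nat_lit 0) (XT.lf (nat_lit 0) (nat_lit 106910881840)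 (nat_lit 152) (nat_lit 1055932220588) (nat_lit 0) (nat_lit 86012816524) (nat_lit 1) (nat_lit 5) (nat_lit 3) (nat_lit 4) (nat_lit 1) (nat_lit 4) (nat_lit 329) (nat_lit 244) (nat_lit 147)) (XT.lf (nat_lit 0) (nat_lit 122343165473) (nat_lit 152) (nat_lit 1124281797645) (nat_lit 0) (nat_lit 101444213171) (nat_lit 1) (nat_lit 5) (nat_lit 3) (nat_lit 4) (nat_lit 1) (nat_lit 4) (nat_lit 330) (nat_lit 244) (nat_lit 146))) (XT.nd (nat_lit 78) (nat_lit 0) (nat_lit 0) (XT.lf (nat_lit 0) (nat_lit 139009333883) (nat_lit 152) (nat_lit 1198100656766) (nat_lit 0) (nat_lit 118109560298) (nat_lit 1) (nat_lit 5) (nat_lit 3) (nat_lit 4) (nat_lit 1) (nat_lit 4) (nat_lit 331) (nat_lit 244) (nat_lit 145)) (XT.lf (nat_lit 0) (nat_lit 157008149550) (nat_lit 152) (nat_lit 1277826243041) (nat_lit 0) (nat_lit 136107615517) (nat_lit 1) (nat_lit 5) (nat_lit 3) (nat_lit 4) (nat_lit 1) (nat_lit 4) (nat_lit 332) (nat_lit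 244) (nat_lit 144)))))) (XT.nd (nat_lit 468) (nat_lit 0) (nat_lit 0) (XT.nd (nat_lit 234) (nat_lit 0) (nat_lit 0) (XT.nd (nat_lit 78) (nat_lit 0) (nat_lit 0) (XT.lf (nat_lit 0) (nat_lit 176446272123) (nat_lit 152) (nat_lit 1363931004389) (nat_lit 0) (nat_lit 155545033971) (nat_lit 1) (nat_lit 5) (nat_lit 3) (nat_lit 4) (nat_lit 1) (nat_lit 4) (nat_lit 333) (nat_lit 244) (nat_lit 143)) (XT.nd (nat_lit 78) (nat_lit 0) (nat_lit 0) (XT.lf (nat_lit 0) (nat_lit 197438890474) (nat_lit 152) (nat_lit 1456925191249) (nat_lit 0) (nat_lit 176537000362) (nat_lit 1) (nat_lit 5) (nat_lit 3) (nat_lit 4) (nat_lit 1) (nat_lit 4) (nat_lit 334) (nat_lit 244) (nat_lit 142)) (XT.lf (nat_lit 0) (nat_lit 220110405307) (nat_lit 152) (nat_lit 1557359880282) (nat_lit 0) (nat_lit 199207911527) (nat_lit 1) (nat_lit 5) (nat_lit 3) (nat_lit 4) (nat_lit 1) (nat_lit 4) (nat_lit 335) (nat_lit 244) (nat_lit 141))))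 (XT.nd (nat_lit 78) (nat_lit 0) (nat_lit 0) (XT.lf (nat_lit 0) (nat_lit 244595166339) (nat_lit 152) (nat_lit 1665830240017) (nat_lit 0) (nat_lit 223692113607) (nat_lit 1) (nat_lit 5) (nat_lit 3) (nat_lit 4) (nat_lit 1) (nat_lit 4) (nat_lit 336) (nat_lit 244) (nat_lit 140)) (XT.nd (nat_lit 78) (nat_lit 0) (nat_lit 0) (XT.lf (nat_lit 0) (nat_lit 271038268449) (nat_lit 152) (nat_lit 1782979057770) (nat_lit 0) (nat_lit 250134698170) (nat_lit 1) (nat_lit 5) (nat_lit 3) (nat_lit 4) (nat_lit 1) (nat_lit 4) (nat_lit 337) (nat_lit 244) (nat_lit 139)) (XT.lf (nat_lit 0) (nat_lit 299596411503) (nat_lit 152) (nat_lit 1909500548758) (nat_lit 0) (nat_lit 278692362012) (nat_lit 1) (nat_lit 5) (nat_lit 3) (nat_lit 4) (nat_lit 1) (nat_lit 4) (nat_lit 338) (nat_lit 244) (nat_lit 138))))) (XT.nd (nat_lit 30342) (nat_lit 0) (nat_lit 3268) (XT.nd (nat_lit 30186) (nat_lit 0) (nat_lit 3572) (XT.lf (nat_lit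 0) (nat_lit 330438828940) (nat_lit 152) (nat_lit 2046144469963) (nat_lit 0) (nat_lit 309534335735) (nat_lit 1) (nat_lit 5) (nat_lit 3) (nat_lit 4) (nat_lit 1) (nat_lit 4) (nat_lit 339) (nat_lit 244) (nat_lit 137)) (XT.nd (nat_lit 78) (nat_lit 0) (nat_lit 0) (XT.lf (nat_lit 0) (nat_lit 889943775) (nat_lit 380) (nat_lit 1350881066) (nat_lit 380) (nat_lit 1350881066) (nat_lit 48) (nat_lit 3) (nat_lit 53) (nat_lit 3) (nat_lit 53) (nat_lit 5) (nat_lit 245) (nat_lit 245) (nat_lit 230)) (XT.lf (nat_lit 76) (nat_lit 468313247) (nat_lit 0) (nat_lit 2862720470) (nat_lit 380) (nat_lit 4011410182) (nat_lit 49) (nat_lit 5) (nat_lit 48) (nat_lit 3) (nat_lit 53) (nat_lit 5) (nat_lit 246) (nat_lit 245) (nat_lit 229)))) (XT.nd (nat_lit 156) (nat_lit 304) (nat_lit 0) (XT.nd (nat_lit 78) (nat_lit 0) (nat_lit 76) (XT.lf (nat_lit 76) (nat_lit 3961598935) (nat_lit 0) (nat_lit 969582850) (nat_lit 380) (nat_lit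 2590015258) (nat_lit 49) (nat_lit 5) (nat_lit 48) (nat_lit 3) (nat_lit 53) (nat_lit 5) (nat_lit 247) (nat_lit 245) (nat_lit 228)) (XT.lf (nat_lit 0) (nat_lit 6548714516) (nat_lit 304) (nat_lit 96976012) (nat_lit 380) (nat_lit 1078327965) (nat_lit 49) (nat_lit 5) (nat_lit 53) (nat_lit 5) (nat_lit 54) (nat_lit 5) (nat_lit 248) (nat_lit 245) (nat_lit 227))) (XT.nd (nat_lit 78) (nat_lit 0) (nat_lit 0) (XT.lf (nat_lit 0) (nat_lit 322089963) (nat_lit 380) (nat_lit 4233957509) (nat_lit 456) (nat_lit 3388155274) (nat_lit 44) (nat_lit 5) (nat_lit 49) (nat_lit 5) (nat_lit 50) (nat_lit 5) (nat_lit 249) (nat_lit 245) (nat_lit 226)) (XT.lf (nat_lit 0) (nat_lit 1755670181) (nat_lit 380) (nat_lit 474347027) (nat_lit 456) (nat_lit 5959879646) (nat_lit 44) (nat_lit 5) (nat_lit 49) (nat_lit 5) (nat_lit 50) (nat_lit 5) (nat_lit 250) (nat_lit 245) (nat_lit 225))))))) (XT.nd (nat_lit 1014) (nat_lit 836)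 (nat_lit 0) (XT.nd (nat_lit 468) (nat_lit 836) (nat_lit 0) (XT.nd (nat_lit 234) (nat_lit 532) (nat_lit 0) (XT.nd (nat_lit 78) (nat_lit 380) (nat_lit 0) (XT.lf (nat_lit 0) (nat_lit 3288723425) (nat_lit 380) (nat_lit 4780142024) (nat_lit 76) (nat_lit 388272783) (nat_lit 45) (nat_lit 5) (nat_lit 50) (nat_lit 5) (nat_lit 46) (nat_lit 5) (nat_lit 251) (nat_lit 245) (nat_lit 224)) (XT.nd (nat_lit 78) (nat_lit 380) (nat_lit 0) (XT.lf (nat_lit 0) (nat_lit 4909037322) (nat_lit 380) (nat_lit 706189081) (nat_lit 76) (nat_lit 3133987897) (nat_lit 45) (nat_lit 5) (nat_lit 50) (nat_lit 5) (nat_lit 46) (nat_lit 5) (nat_lit 252) (nat_lit 245) (nat_lit 223)) (XT.lf (nat_lit 0) (nat_lit 3799845452) (nat_lit 380) (nat_lit 2851801984) (nat_lit 456) (nat_lit 2414173751) (nat_lit 40) (nat_lit 5) (nat_lit 45) (nat_lit 5) (nat_lit 46) (nat_lit 5) (nat_lit 253) (nat_lit 245) (nat_lit 222)))) (XT.nd (nat_lit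 78) (nat_lit 532) (nat_lit 0) (XT.lf (nat_lit 0) (nat_lit 8463575935) (nat_lit 456) (nat_lit 793457858) (nat_lit 76) (nat_lit 156865640) (nat_lit 40) (nat_lit 5) (nat_lit 46) (nat_lit 5) (nat_lit 41) (nat_lit 5) (nat_lit 254) (nat_lit 245) (nat_lit 221)) (XT.nd (nat_lit 78) (nat_lit 0) (nat_lit 0) (XT.lf (nat_lit 0) (nat_lit 686941803) (nat_lit 532) (nat_lit 5717158503) (nat_lit 76) (nat_lit 3377941142) (nat_lit 33) (nat_lit 5) (nat_lit 40) (nat_lit 5) (nat_lit 34) (nat_lit 5) (nat_lit 255) (nat_lit 245) (nat_lit 220)) (XT.lf (nat_lit 0) (nat_lit 2341777930) (nat_lit 532) (nat_lit 932289918) (nat_lit 76) (nat_lit 6908982896) (nat_lit 33) (nat_lit 5) (nat_lit 40) (nat_lit 5) (nat_lit 34) (nat_lit 5) (nat_lit 256) (nat_lit 245) (nat_lit 219))))) (XT.nd (nat_lit 234) (nat_lit 456) (nat_lit 0) (XT.nd (nat_lit 78) (nat_lit 152) (nat_lit 0) (XT.lf (nat_lit 0) (nat_lit 4161375807) (nat_lit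 304) (nat_lit 6245197083) (nat_lit 76) (nat_lit 207371566) (nat_lit 30) (nat_lit 5) (nat_lit 34) (nat_lit 5) (nat_lit 31) (nat_lit 5) (nat_lit 257) (nat_lit 245) (nat_lit 218)) (XT.nd (nat_lit 78) (nat_lit 152) (nat_lit 0) (XT.lf (nat_lit 0) (nat_lit 6163482160) (nat_lit 304) (nat_lit 1100054154) (nat_lit 76) (nat_lit 3813182603) (nat_lit 30) (nat_lit 5) (nat_lit 34) (nat_lit 5) (nat_lit 31) (nat_lit 5) (nat_lit 258) (nat_lit 245) (nat_lit 217)) (XT.lf (nat_lit 0) (nat_lit 4609539221) (nat_lit 152) (nat_lit 3758324897) (nat_lit 228) (nat_lit 3205620151) (nat_lit 28) (nat_lit 5) (nat_lit 30) (nat_lit 5) (nat_lit 31) (nat_lit 5) (nat_lit 259) (nat_lit 245) (nat_lit 216)))) (XT.nd (nat_lit 156) (nat_lit 152) (nat_lit 0) (XT.nd (nat_lit 78) (nat_lit 304) (nat_lit 0) (XT.lf (nat_lit 0) (nat_lit 10714382088) (nat_lit 228) (nat_lit 1351645300) (nat_lit 76) (nat_lit 47013127) (nat_lit 28)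 (nat_lit 5) (nat_lit 31) (nat_lit 5) (nat_lit 29) (nat_lit 5) (nat_lit 260) (nat_lit 245) (nat_lit 215)) (XT.lf (nat_lit 0) (nat_lit 680484293) (nat_lit 304) (nat_lit 7925299448) (nat_lit 76) (nat_lit 4076759306) (nat_lit 24) (nat_lit 5) (nat_lit 28) (nat_lit 5) (nat_lit 25) (nat_lit 5) (nat_lit 261) (nat_lit 245) (nat_lit 214))) (XT.nd (nat_lit 78) (nat_lit 152) (nat_lit 0) (XT.lf (nat_lit 0) (nat_lit 2828434229) (nat_lit 304) (nat_lit 1976803133) (nat_lit 76) (nat_lit 8491467016) (nat_lit 24) (nat_lit 5) (nat_lit 28) (nat_lit 5) (nat_lit 25) (nat_lit 5) (nat_lit 262) (nat_lit 245) (nat_lit 213)) (XT.lf (nat_lit 0) (nat_lit 4607134834) (nat_lit 152) (nat_lit 596445731) (nat_lit 228) (nat_lit 8752218919) (nat_lit 22) (nat_lit 5) (nat_lit 24) (nat_lit 5) (nat_lit 25) (nat_lit 5) (nat_lit 263) (nat_lit 245) (nat_lit 212)))))) (XT.nd (nat_lit 468) (nat_lit 304) (nat_lit 0) (XT.nd (nat_lit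 234) (nat_lit 380) (nat_lit 0) (XT.nd (nat_lit 78) (nat_lit 152) (nat_lit 0) (XT.lf (nat_lit 0) (nat_lit 7865782331) (nat_lit 228) (nat_lit 3002641867) (nat_lit 76) (nat_lit 3791647184) (nat_lit 22) (nat_lit 5) (nat_lit 25) (nat_lit 5) (nat_lit 23) (nat_lit 5) (nat_lit 264) (nat_lit 245) (nat_lit 211)) (XT.nd (nat_lit 78) (nat_lit 0) (nat_lit 0) (XT.lf (nat_lit 0) (nat_lit 3966222142) (nat_lit 152) (nat_lit 6836188131) (nat_lit 228) (nat_lit 4613555688) (nat_lit 20) (nat_lit 5) (nat_lit 22) (nat_lit 5) (nat_lit 23) (nat_lit 5) (nat_lit 265) (nat_lit 245) (nat_lit 210)) (XT.lf (nat_lit 0) (nat_lit 11597318499) (nat_lit 152) (nat_lit 2411390911) (nat_lit 228) (nat_lit 2221025759) (nat_lit 20) (nat_lit 5) (nat_lit 22) (nat_lit 5) (nat_lit 23) (nat_lit 5) (nat_lit 266) (nat_lit 245) (nat_lit 209)))) (XT.nd (nat_lit 78) (nat_lit 152) (nat_lit 0) (XT.lf (nat_lit 0) (nat_lit 425357280) (nat_lit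 228) (nat_lit 14366910521) (nat_lit 76) (nat_lit 2309347828) (nat_lit 17) (nat_lit 5) (nat_lit 20) (nat_lit 5) (nat_lit 18) (nat_lit 5) (nat_lit 267) (nat_lit 245) (nat_lit 208)) (XT.nd (nat_lit 78) (nat_lit 152) (nat_lit 0) (XT.lf (nat_lit 0) (nat_lit 3312291751) (nat_lit 228) (nat_lit 7267306296) (nat_lit 76) (nat_lit 7447271399) (nat_lit 17) (nat_lit 5) (nat_lit 20) (nat_lit 5) (nat_lit 18) (nat_lit 5) (nat_lit 268) (nat_lit 245) (nat_lit 207)) (XT.lf (nat_lit 0) (nat_lit 357768499) (nat_lit 152) (nat_lit 6040509439) (nat_lit 228) (nat_lit 12630551901) (nat_lit 15) (nat_lit 5) (nat_lit 17) (nat_lit 5) (nat_lit 18) (nat_lit 5) (nat_lit 269) (nat_lit 245) (nat_lit 206))))) (XT.nd (nat_lit 234) (nat_lit 228) (nat_lit 0) (XT.nd (nat_lit 78) (nat_lit 76) (nat_lit 0) (XT.lf (nat_lit 0) (nat_lit 8947281615) (nat_lit 152) (nat_lit 943639879) (nat_lit 228) (nat_lit 10207367391) (nat_lit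 15) (nat_lit 5) (nat_lit 17) (nat_lit 5) (nat_lit 18) (nat_lit 5) (nat_lit 270) (nat_lit 245) (nat_lit 205)) (XT.nd (nat_lit 78) (nat_lit 76) (nat_lit 0) (XT.lf (nat_lit 0) (nat_lit 13736184681) (nat_lit 228) (nat_lit 3196099871) (nat_lit 76) (nat_lit 4315278358) (nat_lit 15) (nat_lit 5) (nat_lit 18) (nat_lit 5) (nat_lit 16) (nat_lit 4) (nat_lit 271) (nat_lit 245) (nat_lit 204)) (XT.lf (nat_lit 0) (nat_lit 5597886217) (nat_lit 76) (nat_lit 12416541098) (nat_lit 152) (nat_lit 4464429265) (nat_lit 14) (nat_lit 5) (nat_lit 15) (nat_lit 5) (nat_lit 16) (nat_lit 4) (nat_lit 272) (nat_lit 245) (nat_lit 203)))) (XT.nd (nat_lit 156) (nat_lit 0) (nat_lit 0) (XT.nd (nat_lit 78) (nat_lit 228) (nat_lit 0) (XT.lf (nat_lit 0) (nat_lit 15225661045) (nat_lit 76) (nat_lit 7464138156) (nat_lit 152) (nat_lit 1114563469) (nat_lit 14) (nat_lit 5) (nat_lit 15) (nat_lit 5) (nat_lit 16) (nat_lit 4) (nat_lit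 273) (nat_lit 245) (nat_lit 202)) (XT.lf (nat_lit 0) (nat_lit 292794782) (nat_lit 152) (nat_lit 2061336540) (nat_lit 228) (nat_lit 22878960885) (nat_lit 11) (nat_lit 5) (nat_lit 13) (nat_lit 5) (nat_lit 14) (nat_lit 5) (nat_lit 274) (nat_lit 245) (nat_lit 201))) (XT.nd (nat_lit 78) (nat_lit 0) (nat_lit 0) (XT.lf (nat_lit 0) (nat_lit 6341232179) (nat_lit 228) (nat_lit 16571436739) (nat_lit 76) (nat_lit 3837123348) (nat_lit 11) (nat_lit 5) (nat_lit 14) (nat_lit 5) (nat_lit 12) (nat_lit 4) (nat_lit 275) (nat_lit 245) (nat_lit 200)) (XT.lf (nat_lit 0) (nat_lit 10672804582) (nat_lit 228) (nat_lit 7633063078) (nat_lit 76) (nat_lit 10079992803) (nat_lit 11) (nat_lit 5) (nat_lit 14) (nat_lit 5) (nat_lit 12) (nat_lit 4) (nat_lit 276) (nat_lit 245) (nat_lit 199))))))))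
noncomputable def xc60 : XT := (XT.nd (nat_lit 1950) (nat_lit 228) (nat_lit 0) (XT.nd (nat_lit 936) (nat_lit 152) (nat_lit 0) (XT.nd (nat_lit 468) (nat_lit 152) (nat_lit 0) (XT.nd (nat_lit 234) (nat_lit 152) (nat_lit 0) (XT.nd (nat_lit 78) (nat_lit 0) (nat_lit 0) (XT.lf (nat_lit 0) (nat_lit 2081491527) (nat_lit 76) (nat_lit 13293510308) (nat_lit 152) (nat_lit 14775951401) (nat_lit 10) (nat_lit 5) (nat_lit 11) (nat_lit 5) (nat_lit 12) (nat_lit 4) (nat_lit 277) (nat_lit 245) (nat_lit 198)) (XT.nd (nat_lit 78) (nat_lit 0) (nat_lit 0) (XT.lf (nat_lit 0) (nat_lit 12965384929) (nat_lit 76) (nat_lit 7671645287) (nat_lit 152) (nat_lit 11405592868) (nat_lit 10) (nat_lit 5) (nat_lit 11) (nat_lit 5) (nat_lit 12) (nat_lit 4) (nat_lit 278) (nat_lit 245) (nat_lit 197)) (XT.lf (nat_lit 0) (nat_lit 24681170697) (nat_lit 76) (nat_lit 1615659315) (nat_lit 152) (nat_lit 7790709259) (nat_lit 10) (nat_lit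 5) (nat_lit 11) (nat_lit 5) (nat_lit 12) (nat_lit 4) (nat_lit 279) (nat_lit 245) (nat_lit 196)))) (XT.nd (nat_lit 78) (nat_lit 76) (nat_lit 0) (XT.lf (nat_lit 0) (nat_lit 928825850) (nat_lit 76) (nat_lit 31599546884) (nat_lit 76) (nat_lit 3758212527) (nat_lit 9) (nat_lit 4) (nat_lit 10) (nat_lit 5) (nat_lit 10) (nat_lit 4) (nat_lit 280) (nat_lit 245) (nat_lit 195)) (XT.nd (nat_lit 78) (nat_lit 0) (nat_lit 0) (XT.lf (nat_lit 0) (nat_lit 851182589) (nat_lit 152) (nat_lit 26115803735) (nat_lit 76) (nat_lit 11670733256) (nat_lit 8) (nat_lit 5) (nat_lit 10) (nat_lit 5) (nat_lit 9) (nat_lit 4) (nat_lit 281) (nat_lit 245) (nat_lit 194)) (XT.lf (nat_lit 0) (nat_lit 5606218832) (nat_lit 152) (nat_lit 16266929427) (nat_lit 76) (nat_lit 19297634915) (nat_lit 8) (nat_lit 5) (nat_lit 10) (nat_lit 5) (nat_lit 9) (nat_lit 4) (nat_lit 282) (nat_lit 245) (nat_lit 193))))) (XT.nd (nat_lit 234) (nat_lit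 76) (nat_lit 0) (XT.nd (nat_lit 78) (nat_lit 76) (nat_lit 0) (XT.lf (nat_lit 0) (nat_lit 10723075205) (nat_lit 152) (nat_lit 5662387686) (nat_lit 76) (nat_lit 27522554705) (nat_lit 8) (nat_lit 5) (nat_lit 10) (nat_lit 5) (nat_lit 9) (nat_lit 4) (nat_lit 283) (nat_lit 245) (nat_lit 192)) (XT.nd (nat_lit 78) (nat_lit 0) (nat_lit 0) (XT.lf (nat_lit 0) (nat_lit 6064009532) (nat_lit 76) (nat_lit 10313903864) (nat_lit 152) (nat_lit 30476062937) (nat_lit 7) (nat_lit 5) (nat_lit 8) (nat_lit 5) (nat_lit 9) (nat_lit 4) (nat_lit 284) (nat_lit 245) (nat_lit 191)) (XT.lf (nat_lit 0) (nat_lit 19021445157) (nat_lit 76) (nat_lit 3601881653) (nat_lit 152) (nat_lit 27401263444) (nat_lit 7) (nat_lit 5) (nat_lit 8) (nat_lit 5) (nat_lit 9) (nat_lit 4) (nat_lit 285) (nat_lit 245) (nat_lit 190)))) (XT.nd (nat_lit 78) (nat_lit 76) (nat_lit 0) (XT.lf (nat_lit 0) (nat_lit 29440408999) (nat_lit 152) (nat_lit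 20549018901) (nat_lit 0) (nat_lit 3453693589) (nat_lit 7) (nat_lit 5) (nat_lit 9) (nat_lit 4) (nat_lit 7) (nat_lit 4) (nat_lit 286) (nat_lit 245) (nat_lit 189)) (XT.nd (nat_lit 78) (nat_lit 76) (nat_lit 0) (XT.lf (nat_lit 0) (nat_lit 36881897207) (nat_lit 152) (nat_lit 9377977554) (nat_lit 0) (nat_lit 10868966061) (nat_lit 7) (nat_lit 5) (nat_lit 9) (nat_lit 4) (nat_lit 7) (nat_lit 4) (nat_lit 287) (nat_lit 245) (nat_lit 188)) (XT.lf (nat_lit 0) (nat_lit 2803021536) (nat_lit 76) (nat_lit 42169655001) (nat_lit 76) (nat_lit 16132450025) (nat_lit 6) (nat_lit 4) (nat_lit 7) (nat_lit 5) (nat_lit 7) (nat_lit 4) (nat_lit 288) (nat_lit 245) (nat_lit 187)))))) (XT.nd (nat_lit 468) (nat_lit 0) (nat_lit 0) (XT.nd (nat_lit 234) (nat_lit 152) (nat_lit 0) (XT.nd (nat_lit 78) (nat_lit 0) (nat_lit 0) (XT.lf (nat_lit 0) (nat_lit 16468496571) (nat_lit 76) (nat_lit 37485625826) (nat_lit 76) (nat_lit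 11425945083) (nat_lit 6) (nat_lit 4) (nat_lit 7) (nat_lit 5) (nat_lit 7) (nat_lit 4) (nat_lit 289) (nat_lit 245) (nat_lit 186)) (XT.nd (nat_lit 78) (nat_lit 0) (nat_lit 0) (XT.lf (nat_lit 0) (nat_lit 31205600466) (nat_lit 76) (nat_lit 32436440552) (nat_lit 76) (nat_lit 6355948912) (nat_lit 6) (nat_lit 4) (nat_lit 7) (nat_lit 5) (nat_lit 7) (nat_lit 4) (nat_lit 290) (nat_lit 245) (nat_lit 185)) (XT.lf (nat_lit 0) (nat_lit 47101664205) (nat_lit 76) (nat_lit 26992178081) (nat_lit 76) (nat_lit 892417093) (nat_lit 6) (nat_lit 4) (nat_lit 7) (nat_lit 5) (nat_lit 7) (nat_lit 4) (nat_lit 291) (nat_lit 245) (nat_lit 184)))) (XT.nd (nat_lit 78) (nat_lit 76) (nat_lit 0) (XT.lf (nat_lit 0) (nat_lit 4747055337) (nat_lit 152) (nat_lit 16243727873) (nat_lit 76) (nat_lit 59374038443) (nat_lit 5) (nat_lit 5) (nat_lit 7) (nat_lit 5) (nat_lit 6) (nat_lit 4) (nat_lit 292) (nat_lit 245) (nat_lit 183))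 (XT.nd (nat_lit 78) (nat_lit 76) (nat_lit 0) (XT.lf (nat_lit 0) (nat_lit 10779646284) (nat_lit 152) (nat_lit 3712459064) (nat_lit 76) (nat_lit 71680512014) (nat_lit 5) (nat_lit 5) (nat_lit 7) (nat_lit 5) (nat_lit 6) (nat_lit 4) (nat_lit 293) (nat_lit 245) (nat_lit 182)) (XT.lf (nat_lit 0) (nat_lit 10321243686) (nat_lit 76) (nat_lit 7212729223) (nat_lit 152) (nat_lit 74891949081) (nat_lit 4) (nat_lit 5) (nat_lit 5) (nat_lit 5) (nat_lit 6) (nat_lit 4) (nat_lit 294) (nat_lit 245) (nat_lit 181))))) (XT.nd (nat_lit 234) (nat_lit 0) (nat_lit 0) (XT.nd (nat_lit 78) (nat_lit 0) (nat_lit 0) (XT.lf (nat_lit 0) (nat_lit 24939415909) (nat_lit 152) (nat_lit 73517352225) (nat_lit 0) (nat_lit 713875620) (nat_lit 4) (nat_lit 5) (nat_lit 6) (nat_lit 4) (nat_lit 4) (nat_lit 4) (nat_lit 295) (nat_lit 245) (nat_lit 180)) (XT.nd (nat_lit 78) (nat_lit 0) (nat_lit 0) (XT.lf (nat_lit 0) (nat_lit 33116323281)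 (nat_lit 152) (nat_lit 64445670949) (nat_lit 0) (nat_lit 8878640033) (nat_lit 4) (nat_lit 5) (nat_lit 6) (nat_lit 4) (nat_lit 4) (nat_lit 4) (nat_lit 296) (nat_lit 245) (nat_lit 179)) (XT.lf (nat_lit 0) (nat_lit 41939684461) (nat_lit 152) (nat_lit 54662410053) (nat_lit 0) (nat_lit 17690757734) (nat_lit 4) (nat_lit 5) (nat_lit 6) (nat_lit 4) (nat_lit 4) (nat_lit 4) (nat_lit 297) (nat_lit 245) (nat_lit 178)))) (XT.nd (nat_lit 156) (nat_lit 0) (nat_lit 0) (XT.nd (nat_lit 78) (nat_lit 0) (nat_lit 0) (XT.lf (nat_lit 0) (nat_lit 51461786035) (nat_lit 152) (nat_lit 44109594659) (nat_lit 0) (nat_lit 27202448678) (nat_lit 4) (nat_lit 5) (nat_lit 6) (nat_lit 4) (nat_lit 4) (nat_lit 4) (nat_lit 298) (nat_lit 245) (nat_lit 177)) (XT.lf (nat_lit 0) (nat_lit 61739055270) (nat_lit 152) (nat_lit 32724689564) (nat_lit 0) (nat_lit 37470078442) (nat_lit 4) (nat_lit 5) (nat_lit 6) (nat_lit 4) (nat_lit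 4) (nat_lit 4) (nat_lit 299) (nat_lit 245) (nat_lit 176))) (XT.nd (nat_lit 78) (nat_lit 0) (nat_lit 0) (XT.lf (nat_lit 0) (nat_lit 72832394503) (nat_lit 152) (nat_lit 20440228663) (nat_lit 0) (nat_lit 48554492239) (nat_lit 4) (nat_lit 5) (nat_lit 6) (nat_lit 4) (nat_lit 4) (nat_lit 4) (nat_lit 300) (nat_lit 245) (nat_lit 175)) (XT.lf (nat_lit 0) (nat_lit 84807542041) (nat_lit 152) (nat_lit 7183415151) (nat_lit 0) (nat_lit 60521375483) (nat_lit 4) (nat_lit 5) (nat_lit 6) (nat_lit 4) (nat_lit 4) (nat_lit 4) (nat_lit 301) (nat_lit 245) (nat_lit 174))))))) (XT.nd (nat_lit 1014) (nat_lit 152) (nat_lit 0) (XT.nd (nat_lit 468) (nat_lit 0) (nat_lit 0) (XT.nd (nat_lit 234) (nat_lit 0) (nat_lit 0) (XT.nd (nat_lit 78) (nat_lit 0) (nat_lit 0) (XT.lf (nat_lit 0) (nat_lit 7499463398) (nat_lit 76) (nat_lit 90416360598) (nat_lit 76) (nat_lit 66122541917) (nat_lit 3) (nat_lit 4) (nat_lit 4) (nat_lit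 5) (nat_lit 4) (nat_lit 4) (nat_lit 302) (nat_lit 245) (nat_lit 173)) (XT.nd (nat_lit 78) (nat_lit 0) (nat_lit 0) (XT.lf (nat_lit 0) (nat_lit 23756109728) (nat_lit 76) (nat_lit 88507988718) (nat_lit 76) (nat_lit 64207084738) (nat_lit 3) (nat_lit 4) (nat_lit 4) (nat_lit 5) (nat_lit 4) (nat_lit 4) (nat_lit 303) (nat_lit 245) (nat_lit 172)) (XT.lf (nat_lit 0) (nat_lit 41304593611) (nat_lit 76) (nat_lit 86450939984) (nat_lit 76) (nat_lit 62143475541) (nat_lit 3) (nat_lit 4) (nat_lit 4) (nat_lit 5) (nat_lit 4) (nat_lit 4) (nat_lit 304) (nat_lit 245) (nat_lit 171)))) (XT.nd (nat_lit 78) (nat_lit 0) (nat_lit 0) (XT.lf (nat_lit 0) (nat_lit 60248906060) (nat_lit 76) (nat_lit 84233024476) (nat_lit 76) (nat_lit 59919485531) (nat_lit 3) (nat_lit 4) (nat_lit 4) (nat_lit 5) (nat_lit 4) (nat_lit 4) (nat_lit 305) (nat_lit 245) (nat_lit 170)) (XT.nd (nat_lit 78) (nat_lit 0) (nat_lit 0) (XT.lf (nat_lit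 0) (nat_lit 80701309669) (nat_lit 76) (nat_lit 81841098991) (nat_lit 76) (nat_lit 57521935507) (nat_lit 3) (nat_lit 4) (nat_lit 4) (nat_lit 5) (nat_lit 4) (nat_lit 4) (nat_lit 306) (nat_lit 245) (nat_lit 169)) (XT.lf (nat_lit 0) (nat_lit 102783003866) (nat_lit 76) (nat_lit 79260989157) (nat_lit 76) (nat_lit 54936617766) (nat_lit 3) (nat_lit 4) (nat_lit 4) (nat_lit 5) (nat_lit 4) (nat_lit 4) (nat_lit 307) (nat_lit 245) (nat_lit 168))))) (XT.nd (nat_lit 234) (nat_lit 0) (nat_lit 0) (XT.nd (nat_lit 78) (nat_lit 0) (nat_lit 0) (XT.lf (nat_lit 0) (nat_lit 126624843136) (nat_lit 76) (nat_lit 76477405433) (nat_lit 76) (nat_lit 52148211907) (nat_lit 3) (nat_lit 4) (nat_lit 4) (nat_lit 5) (nat_lit 4) (nat_lit 4) (nat_lit 308) (nat_lit 245) (nat_lit 167)) (XT.nd (nat_lit 78) (nat_lit 0) (nat_lit 0) (XT.lf (nat_lit 0) (nat_lit 152368112451) (nat_lit 76) (nat_lit 73473852509) (nat_lit 76) (nat_lit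 49140194043) (nat_lit 3) (nat_lit 4) (nat_lit 4) (nat_lit 5) (nat_lit 4) (nat_lit 4) (nat_lit 309) (nat_lit 245) (nat_lit 166)) (XT.lf (nat_lit 0) (nat_lit 180165364519) (nat_lit 76) (nat_lit 70232531553) (nat_lit 76) (nat_lit 45894738882) (nat_lit 3) (nat_lit 4) (nat_lit 4) (nat_lit 5) (nat_lit 4) (nat_lit 4) (nat_lit 310) (nat_lit 245) (nat_lit 165)))) (XT.nd (nat_lit 156) (nat_lit 0) (nat_lit 0) (XT.nd (nat_lit 78) (nat_lit 0) (nat_lit 0) (XT.lf (nat_lit 0) (nat_lit 210181323797) (nat_lit 76) (nat_lit 66734234736) (nat_lit 76) (nat_lit 42392614098) (nat_lit 3) (nat_lit 4) (nat_lit 4) (nat_lit 5) (nat_lit 4) (nat_lit 4) (nat_lit 311) (nat_lit 245) (nat_lit 164)) (XT.lf (nat_lit 0) (nat_lit 242593862635) (nat_lit 76) (nat_lit 62958231410) (nat_lit 76) (nat_lit 38613066359) (nat_lit 3) (nat_lit 4) (nat_lit 4) (nat_lit 5) (nat_lit 4) (nat_lit 4) (nat_lit 312) (nat_lit 245) (nat_lit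 163))) (XT.nd (nat_lit 78) (nat_lit 0) (nat_lit 0) (XT.lf (nat_lit 0) (nat_lit 277595055339) (nat_lit 76) (nat_lit 58882145261) (nat_lit 76) (nat_lit 34533698345) (nat_lit 3) (nat_lit 4) (nat_lit 4) (nat_lit 5) (nat_lit 4) (nat_lit 4) (nat_lit 313) (nat_lit 245) (nat_lit 162)) (XT.lf (nat_lit 0) (nat_lit 315392316383) (nat_lit 76) (nat_lit 54481821703) (nat_lit 76) (nat_lit 30130336024) (nat_lit 3) (nat_lit 4) (nat_lit 4) (nat_lit 5) (nat_lit 4) (nat_lit 4) (nat_lit 314) (nat_lit 245) (nat_lit 161)))))) (XT.nd (nat_lit 468) (nat_lit 76) (nat_lit 0) (XT.nd (nat_lit 234) (nat_lit 76) (nat_lit 0) (XT.nd (nat_lit 78) (nat_lit 0) (nat_lit 0) (XT.lf (nat_lit 0) (nat_lit 356209629536) (nat_lit 76) (nat_lit 49731184744) (nat_lit 76) (nat_lit 25376885395) (nat_lit 3) (nat_lit 4) (nat_lit 4) (nat_lit 5) (nat_lit 4) (nat_lit 4) (nat_lit 315) (nat_lit 245) (nat_lit 160)) (XT.nd (nat_lit 78) (nat_lit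 0) (nat_lit 0) (XT.lf (nat_lit 0) (nat_lit 400288875174) (nat_lit 76) (nat_lit 44602082463) (nat_lit 76) (nat_lit 20245177864) (nat_lit 3) (nat_lit 4) (nat_lit 4) (nat_lit 5) (nat_lit 4) (nat_lit 4) (nat_lit 316) (nat_lit 245) (nat_lit 159)) (XT.lf (nat_lit 0) (nat_lit 447891263639) (nat_lit 76) (nat_lit 39064120178) (nat_lit 76) (nat_lit 14704803311) (nat_lit 3) (nat_lit 4) (nat_lit 4) (nat_lit 5) (nat_lit 4) (nat_lit 4) (nat_lit 317) (nat_lit 245) (nat_lit 158)))) (XT.nd (nat_lit 78) (nat_lit 76) (nat_lit 0) (XT.lf (nat_lit 0) (nat_lit 499298883161) (nat_lit 76) (nat_lit 33084480336) (nat_lit 76) (nat_lit 8722929887) (nat_lit 3) (nat_lit 4) (nat_lit 4) (nat_lit 5) (nat_lit 4) (nat_lit 4) (nat_lit 318) (nat_lit 245) (nat_lit 157)) (XT.nd (nat_lit 78) (nat_lit 76) (nat_lit 0) (XT.lf (nat_lit 0) (nat_lit 554816371484) (nat_lit 76) (nat_lit 26627728033) (nat_lit 76) (nat_lit 2264109453)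 (nat_lit 3) (nat_lit 4) (nat_lit 4) (nat_lit 5) (nat_lit 4) (nat_lit 4) (nat_lit 319) (nat_lit 245) (nat_lit 156)) (XT.lf (nat_lit 0) (nat_lit 4474322583) (nat_lit 152) (nat_lit 15058942542) (nat_lit 76) (nat_lit 610176062639) (nat_lit 2) (nat_lit 5) (nat_lit 4) (nat_lit 5) (nat_lit 3) (nat_lit 4) (nat_lit 320) (nat_lit 245) (nat_lit 155))))) (XT.nd (nat_lit 234) (nat_lit 0) (nat_lit 0) (XT.nd (nat_lit 78) (nat_lit 76) (nat_lit 0) (XT.lf (nat_lit 0) (nat_lit 11628203010) (nat_lit 152) (nat_lit 180644344) (nat_lit 76) (nat_lit 667577090304) (nat_lit 2) (nat_lit 5) (nat_lit 4) (nat_lit 5) (nat_lit 3) (nat_lit 4) (nat_lit 321) (nat_lit 245) (nat_lit 154)) (XT.nd (nat_lit 78) (nat_lit 0) (nat_lit 0) (XT.lf (nat_lit 0) (nat_lit 16722188269) (nat_lit 76) (nat_lit 3033165877) (nat_lit 152) (nat_lit 713249247042) (nat_lit 1) (nat_lit 5) (nat_lit 2) (nat_lit 5) (nat_lit 3) (nat_lit 4) (nat_lit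 322) (nat_lit 245) (nat_lit 153)) (XT.lf (nat_lit 0) (nat_lit 28691540765) (nat_lit 152) (nat_lit 756082217349) (nat_lit 0) (nat_lit 6126292159) (nat_lit 1) (nat_lit 5) (nat_lit 3) (nat_lit 4) (nat_lit 1) (nat_lit 4) (nat_lit 323) (nat_lit 245) (nat_lit 152)))) (XT.nd (nat_lit 156) (nat_lit 0) (nat_lit 0) (XT.nd (nat_lit 78) (nat_lit 0) (nat_lit 0) (XT.lf (nat_lit 0) (nat_lit 38420298341) (nat_lit 152) (nat_lit 799146877828) (nat_lit 0) (nat_lit 15853746463) (nat_lit 1) (nat_lit 5) (nat_lit 3) (nat_lit 4) (nat_lit 1) (nat_lit 4) (nat_lit 324) (nat_lit 245) (nat_lit 151)) (XT.lf (nat_lit 0) (nat_lit 48926331061) (nat_lit 152) (nat_lit 845658644632) (nat_lit 0) (nat_lit 26358572447) (nat_lit 1) (nat_lit 5) (nat_lit 3) (nat_lit 4) (nat_lit 1) (nat_lit 4) (nat_lit 325) (nat_lit 245) (nat_lit 150))) (XT.nd (nat_lit 78) (nat_lit 0) (nat_lit 0) (XT.lf (nat_lit 0) (nat_lit 60271896894) (nat_lit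 152) (nat_lit 895893143048) (nat_lit 0) (nat_lit 37703020933) (nat_lit 1) (nat_lit 5) (nat_lit 3) (nat_lit 4) (nat_lit 1) (nat_lit 4) (nat_lit 326) (nat_lit 245) (nat_lit 149)) (XT.lf (nat_lit 0) (nat_lit 72524228824) (nat_lit 152) (nat_lit 950148058990) (nat_lit 0) (nat_lit 49954318283) (nat_lit 1) (nat_lit 5) (nat_lit 3) (nat_lit 4) (nat_lit 1) (nat_lit 4) (nat_lit 327) (nat_lit 245) (nat_lit 148))))))))
noncomputable def xc61 : XT := (XT.nd (nat_lit 32214) (nat_lit 0) (nat_lit 456) (XT.nd (nat_lit 31200) (nat_lit 0) (nat_lit 2052) (XT.nd (nat_lit 468) (nat_lit 0) (nat_lit 0) (XT.nd (nat_lit 234) (nat_lit 0) (nat_lit 0) (XT.nd (nat_lit 78) (nat_lit 0) (nat_lit 0) (XT.lf (nat_lit 0) (nat_lit 85755933263) (nat_lit 152) (nat_lit 1008744903072) (nat_lit 0) (nat_lit 63185064776) (nat_lit 1) (nat_lit 5) (nat_lit 3) (nat_lit 4) (nat_lit 1) (nat_lit 4) (nat_lit 328) (nat_lit 245) (nat_lit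 147)) (XT.nd (nat_lit 78) (nat_lit 0) (nat_lit 0) (XT.lf (nat_lit 0) (nat_lit 100045420310) (nat_lit 152) (nat_lit 1072030915851) (nat_lit 0) (nat_lit 77473664838) (nat_lit 1) (nat_lit 5) (nat_lit 3) (nat_lit 4) (nat_lit 1) (nat_lit 4) (nat_lit 329) (nat_lit 245) (nat_lit 146)) (XT.lf (nat_lit 0) (nat_lit 115477368408) (nat_lit 152) (nat_lit 1140381125552) (nat_lit 0) (nat_lit 92904791652) (nat_lit 1) (nat_lit 5) (nat_lit 3) (nat_lit 4) (nat_lit 1) (nat_lit 4) (nat_lit 330) (nat_lit 245) (nat_lit 145)))) (XT.nd (nat_lit 78) (nat_lit 0) (nat_lit 0) (XT.lf (nat_lit 0) (nat_lit 132143226137) (nat_lit 152) (nat_lit 1214200570454) (nat_lit 0) (nat_lit 109569888934) (nat_lit 1) (nat_lit 5) (nat_lit 3) (nat_lit 4) (nat_lit 1) (nat_lit 4) (nat_lit 331) (nat_lit 245) (nat_lit 144)) (XT.nd (nat_lit 78) (nat_lit 0) (nat_lit 0) (XT.lf (nat_lit 0) (nat_lit 150141754137) (nat_lit 152) (nat_lit 1293926699119)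 (nat_lit 0) (nat_lit 127567712815) (nat_lit 1) (nat_lit 5) (nat_lit 3) (nat_lit 4) (nat_lit 1) (nat_lit 4) (nat_lit 332) (nat_lit 245) (nat_lit 143)) (XT.lf (nat_lit 0) (nat_lit 169579610350) (nat_lit 152) (nat_lit 1380031962681) (nat_lit 0) (nat_lit 147004917068) (nat_lit 1) (nat_lit 5) (nat_lit 3) (nat_lit 4) (nat_lit 1) (nat_lit 4) (nat_lit 333) (nat_lit 245) (nat_lit 142))))) (XT.nd (nat_lit 234) (nat_lit 0) (nat_lit 0) (XT.nd (nat_lit 78) (nat_lit 0) (nat_lit 0) (XT.lf (nat_lit 0) (nat_lit 190571982074) (nat_lit 152) (nat_lit 1473026614552) (nat_lit 0) (nat_lit 167996685123) (nat_lit 1) (nat_lit 5) (nat_lit 3) (nat_lit 4) (nat_lit 1) (nat_lit 4) (nat_lit 334) (nat_lit 245) (nat_lit 141)) (XT.nd (nat_lit 78) (nat_lit 0) (nat_lit 0) (XT.lf (nat_lit 0) (nat_lit 213243268547) (nat_lit 152) (nat_lit 1573461734152) (nat_lit 0) (nat_lit 190667412645) (nat_lit 1) (nat_lit 5) (nat_lit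 3) (nat_lit 4) (nat_lit 1) (nat_lit 4) (nat_lit 335) (nat_lit 245) (nat_lit 140)) (XT.lf (nat_lit 0) (nat_lit 237727818135) (nat_lit 152) (nat_lit 1681932492560) (nat_lit 0) (nat_lit 215151444685) (nat_lit 1) (nat_lit 5) (nat_lit 3) (nat_lit 4) (nat_lit 1) (nat_lit 4) (nat_lit 336) (nat_lit 245) (nat_lit 139)))) (XT.nd (nat_lit 156) (nat_lit 0) (nat_lit 0) (XT.nd (nat_lit 78) (nat_lit 0) (nat_lit 0) (XT.lf (nat_lit 0) (nat_lit 264170724463) (nat_lit 152) (nat_lit 1799081679454) (nat_lit 0) (nat_lit 241593871802) (nat_lit 1) (nat_lit 5) (nat_lit 3) (nat_lit 4) (nat_lit 1) (nat_lit 4) (nat_lit 337) (nat_lit 245) (nat_lit 138)) (XT.lf (nat_lit 0) (nat_lit 292728686237) (nat_lit 152) (nat_lit 1925603512240) (nat_lit 0) (nat_lit 270151389863) (nat_lit 1) (nat_lit 5) (nat_lit 3) (nat_lit 4) (nat_lit 1) (nat_lit 4) (nat_lit 338) (nat_lit 245) (nat_lit 137))) (XT.nd (nat_lit 30264) (nat_lit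 0) (nat_lit 3572) (XT.lf (nat_lit 0) (nat_lit 323570935823) (nat_lit 152) (nat_lit 2062247749925) (nat_lit 0) (nat_lit 300993228602) (nat_lit 1) (nat_lit 5) (nat_lit 3) (nat_lit 4) (nat_lit 1) (nat_lit 4) (nat_lit 339) (nat_lit 245) (nat_lit 136)) (XT.lf (nat_lit 0) (nat_lit 2394505022) (nat_lit 380) (nat_lit 680099029) (nat_lit 380) (nat_lit 680099029) (nat_lit 48) (nat_lit 3) (nat_lit 53) (nat_lit 3) (nat_lit 53) (nat_lit 5) (nat_lit 246) (nat_lit 246) (nat_lit 228)))))) (XT.nd (nat_lit 468) (nat_lit 1216) (nat_lit 0) (XT.nd (nat_lit 234) (nat_lit 0) (nat_lit 0) (XT.nd (nat_lit 78) (nat_lit 304) (nat_lit 0) (XT.lf (nat_lit 76) (nat_lit 2024047780) (nat_lit 0) (nat_lit 4264364062) (nat_lit 380) (nat_lit 1408248455) (nat_lit 49) (nat_lit 5) (nat_lit 48) (nat_lit 3) (nat_lit 53) (nat_lit 5) (nat_lit 247) (nat_lit 246) (nat_lit 227)) (XT.nd (nat_lit 78) (nat_lit 304) (nat_lit 0) (XT.lf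 (nat_lit 76) (nat_lit 5684331918) (nat_lit 0) (nat_lit 2132914250) (nat_lit 380) (nat_lit 89740051) (nat_lit 49) (nat_lit 5) (nat_lit 48) (nat_lit 3) (nat_lit 53) (nat_lit 5) (nat_lit 248) (nat_lit 246) (nat_lit 226)) (XT.lf (nat_lit 0) (nat_lit 1187788281) (nat_lit 380) (nat_lit 6675295248) (nat_lit 456) (nat_lit 275593529) (nat_lit 44) (nat_lit 5) (nat_lit 49) (nat_lit 5) (nat_lit 50) (nat_lit 5) (nat_lit 249) (nat_lit 246) (nat_lit 225)))) (XT.nd (nat_lit 78) (nat_lit 0) (nat_lit 0) (XT.lf (nat_lit 0) (nat_lit 2566690496) (nat_lit 380) (nat_lit 2955535400) (nat_lit 456) (nat_lit 2866843870) (nat_lit 44) (nat_lit 5) (nat_lit 49) (nat_lit 5) (nat_lit 50) (nat_lit 5) (nat_lit 250) (nat_lit 246) (nat_lit 224)) (XT.nd (nat_lit 78) (nat_lit 0) (nat_lit 0) (XT.lf (nat_lit 76) (nat_lit 1036927162) (nat_lit 0) (nat_lit 2938610067) (nat_lit 456) (nat_lit 4691010769) (nat_lit 45) (nat_lit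 5) (nat_lit 44) (nat_lit 5) (nat_lit 50) (nat_lit 5) (nat_lit 251) (nat_lit 246) (nat_lit 223)) (XT.lf (nat_lit 76) (nat_lit 5442064301) (nat_lit 0) (nat_lit 36532526) (nat_lit 456) (nat_lit 3489685671) (nat_lit 45) (nat_lit 5) (nat_lit 44) (nat_lit 5) (nat_lit 50) (nat_lit 5) (nat_lit 252) (nat_lit 246) (nat_lit 222))))) (XT.nd (nat_lit 234) (nat_lit 380) (nat_lit 0) (XT.nd (nat_lit 78) (nat_lit 532) (nat_lit 0) (XT.lf (nat_lit 0) (nat_lit 792919538) (nat_lit 380) (nat_lit 6311148392) (nat_lit 456) (nat_lit 2190450062) (nat_lit 40) (nat_lit 5) (nat_lit 45) (nat_lit 5) (nat_lit 46) (nat_lit 5) (nat_lit 253) (nat_lit 246) (nat_lit 221)) (XT.nd (nat_lit 78) (nat_lit 532) (nat_lit 0) (XT.lf (nat_lit 0) (nat_lit 5581393594) (nat_lit 380) (nat_lit 3289067197) (nat_lit 456) (nat_lit 776016713) (nat_lit 40) (nat_lit 5) (nat_lit 45) (nat_lit 5) (nat_lit 46) (nat_lit 5) (nat_lit 254) (nat_lit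 246) (nat_lit 220)) (XT.lf (nat_lit 0) (nat_lit 647908129) (nat_lit 532) (nat_lit 9364627991) (nat_lit 76) (nat_lit 18322109) (nat_lit 33) (nat_lit 5) (nat_lit 40) (nat_lit 5) (nat_lit 34) (nat_lit 5) (nat_lit 255) (nat_lit 246) (nat_lit 219)))) (XT.nd (nat_lit 156) (nat_lit 152) (nat_lit 0) (XT.nd (nat_lit 78) (nat_lit 228) (nat_lit 0) (XT.lf (nat_lit 0) (nat_lit 2265205845) (nat_lit 532) (nat_lit 4618113705) (nat_lit 76) (nat_lit 3551740307) (nat_lit 33) (nat_lit 5) (nat_lit 40) (nat_lit 5) (nat_lit 34) (nat_lit 5) (nat_lit 256) (nat_lit 246) (nat_lit 218)) (XT.lf (nat_lit 0) (nat_lit 457121239) (nat_lit 228) (nat_lit 3493463719) (nat_lit 304) (nat_lit 6926281356) (nat_lit 30) (nat_lit 5) (nat_lit 33) (nat_lit 5) (nat_lit 34) (nat_lit 5) (nat_lit 257) (nat_lit 246) (nat_lit 217))) (XT.nd (nat_lit 78) (nat_lit 152) (nat_lit 0) (XT.lf (nat_lit 0) (nat_lit 5835619370) (nat_lit 304)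 (nat_lit 5227963494) (nat_lit 76) (nat_lit 285585925) (nat_lit 30) (nat_lit 5) (nat_lit 34) (nat_lit 5) (nat_lit 31) (nat_lit 5) (nat_lit 258) (nat_lit 246) (nat_lit 216)) (XT.lf (nat_lit 0) (nat_lit 227828565) (nat_lit 152) (nat_lit 7676186911) (nat_lit 228) (nat_lit 3952947775) (nat_lit 28) (nat_lit 5) (nat_lit 30) (nat_lit 5) (nat_lit 31) (nat_lit 5) (nat_lit 259) (nat_lit 246) (nat_lit 215))))))) (XT.nd (nat_lit 1014) (nat_lit 608) (nat_lit 0) (XT.nd (nat_lit 468) (nat_lit 532) (nat_lit 0) (XT.nd (nat_lit 234) (nat_lit 152) (nat_lit 0) (XT.nd (nat_lit 78) (nat_lit 304) (nat_lit 0) (XT.lf (nat_lit 0) (nat_lit 6347235791) (nat_lit 152) (nat_lit 3872957618) (nat_lit 228) (nat_lit 2178892404) (nat_lit 28) (nat_lit 5) (nat_lit 30) (nat_lit 5) (nat_lit 31) (nat_lit 5) (nat_lit 260) (nat_lit 246) (nat_lit 214)) (XT.nd (nat_lit 78) (nat_lit 304) (nat_lit 0) (XT.lf (nat_lit 0) (nat_lit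 12670953272) (nat_lit 228) (nat_lit 103539401) (nat_lit 76) (nat_lit 214410411) (nat_lit 28) (nat_lit 5) (nat_lit 31) (nat_lit 5) (nat_lit 29) (nat_lit 5) (nat_lit 261) (nat_lit 246) (nat_lit 213)) (XT.lf (nat_lit 0) (nat_lit 1816561454) (nat_lit 304) (nat_lit 7175982517) (nat_lit 76) (nat_lit 4613590118) (nat_lit 24) (nat_lit 5) (nat_lit 28) (nat_lit 5) (nat_lit 25) (nat_lit 5) (nat_lit 262) (nat_lit 246) (nat_lit 212)))) (XT.nd (nat_lit 78) (nat_lit 152) (nat_lit 0) (XT.lf (nat_lit 0) (nat_lit 4056226021) (nat_lit 304) (nat_lit 854076192) (nat_lit 76) (nat_lit 9365867773) (nat_lit 24) (nat_lit 5) (nat_lit 28) (nat_lit 5) (nat_lit 25) (nat_lit 5) (nat_lit 263) (nat_lit 246) (nat_lit 211)) (XT.nd (nat_lit 78) (nat_lit 0) (nat_lit 0) (XT.lf (nat_lit 0) (nat_lit 6224149694) (nat_lit 152) (nat_lit 353073031) (nat_lit 228) (nat_lit 8414610243) (nat_lit 22) (nat_lit 5) (nat_lit 24) (nat_lit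 5) (nat_lit 25) (nat_lit 5) (nat_lit 264) (nat_lit 246) (nat_lit 210)) (XT.lf (nat_lit 0) (nat_lit 9387967508) (nat_lit 228) (nat_lit 2018895933) (nat_lit 76) (nat_lit 4351022422) (nat_lit 22) (nat_lit 5) (nat_lit 25) (nat_lit 5) (nat_lit 23) (nat_lit 5) (nat_lit 265) (nat_lit 246) (nat_lit 209))))) (XT.nd (nat_lit 234) (nat_lit 152) (nat_lit 0) (XT.nd (nat_lit 78) (nat_lit 228) (nat_lit 0) (XT.lf (nat_lit 0) (nat_lit 5476490937) (nat_lit 152) (nat_lit 7045583316) (nat_lit 228) (nat_lit 4055437381) (nat_lit 20) (nat_lit 5) (nat_lit 22) (nat_lit 5) (nat_lit 23) (nat_lit 5) (nat_lit 266) (nat_lit 246) (nat_lit 208)) (XT.nd (nat_lit 78) (nat_lit 228) (nat_lit 0) (XT.lf (nat_lit 0) (nat_lit 13629706778) (nat_lit 152) (nat_lit 2291802308) (nat_lit 228) (nat_lit 1540186745) (nat_lit 20) (nat_lit 5) (nat_lit 22) (nat_lit 5) (nat_lit 23) (nat_lit 5) (nat_lit 267) (nat_lit 246) (nat_lit 207))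 (XT.lf (nat_lit 0) (nat_lit 1249669317) (nat_lit 228) (nat_lit 14337984133) (nat_lit 76) (nat_lit 2816253939) (nat_lit 17) (nat_lit 5) (nat_lit 20) (nat_lit 5) (nat_lit 18) (nat_lit 5) (nat_lit 268) (nat_lit 246) (nat_lit 206)))) (XT.nd (nat_lit 156) (nat_lit 0) (nat_lit 0) (XT.nd (nat_lit 78) (nat_lit 152) (nat_lit 0) (XT.lf (nat_lit 0) (nat_lit 4309019032) (nat_lit 228) (nat_lit 6757691513) (nat_lit 76) (nat_lit 8341347819) (nat_lit 17) (nat_lit 5) (nat_lit 20) (nat_lit 5) (nat_lit 18) (nat_lit 5) (nat_lit 269) (nat_lit 246) (nat_lit 205)) (XT.lf (nat_lit 0) (nat_lit 1449769031) (nat_lit 152) (nat_lit 6163486120) (nat_lit 228) (nat_lit 12879390097) (nat_lit 15) (nat_lit 5) (nat_lit 17) (nat_lit 5) (nat_lit 18) (nat_lit 5) (nat_lit 270) (nat_lit 246) (nat_lit 204))) (XT.nd (nat_lit 78) (nat_lit 0) (nat_lit 0) (XT.lf (nat_lit 0) (nat_lit 10647674377) (nat_lit 152) (nat_lit 685553223)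 (nat_lit 228) (nat_lit 10318766083) (nat_lit 15) (nat_lit 5) (nat_lit 17) (nat_lit 5) (nat_lit 18) (nat_lit 5) (nat_lit 271) (nat_lit 246) (nat_lit 203)) (XT.lf (nat_lit 0) (nat_lit 15445315513) (nat_lit 228) (nat_lit 2497393424) (nat_lit 76) (nat_lit 4953918156) (nat_lit 15) (nat_lit 5) (nat_lit 18) (nat_lit 5) (nat_lit 16) (nat_lit 4) (nat_lit 272) (nat_lit 246) (nat_lit 202)))))) (XT.nd (nat_lit 468) (nat_lit 228) (nat_lit 0) (XT.nd (nat_lit 234) (nat_lit 76) (nat_lit 0) (XT.nd (nat_lit 78) (nat_lit 228) (nat_lit 0) (XT.lf (nat_lit 0) (nat_lit 6975949666) (nat_lit 76) (nat_lit 13067037335) (nat_lit 152) (nat_lit 4185406067) (nat_lit 14) (nat_lit 5) (nat_lit 15) (nat_lit 5) (nat_lit 16) (nat_lit 4) (nat_lit 273) (nat_lit 246) (nat_lit 201)) (XT.nd (nat_lit 78) (nat_lit 228) (nat_lit 0) (XT.lf (nat_lit 0) (nat_lit 17305040365) (nat_lit 76) (nat_lit 7743836754) (nat_lit 152) (nat_lit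 614675269) (nat_lit 14) (nat_lit 5) (nat_lit 15) (nat_lit 5) (nat_lit 16) (nat_lit 4) (nat_lit 274) (nat_lit 246) (nat_lit 200)) (XT.lf (nat_lit 0) (nat_lit 1185946996) (nat_lit 152) (nat_lit 1895567425) (nat_lit 228) (nat_lit 24125688253) (nat_lit 11) (nat_lit 5) (nat_lit 13) (nat_lit 5) (nat_lit 14) (nat_lit 5) (nat_lit 275) (nat_lit 246) (nat_lit 199)))) (XT.nd (nat_lit 78) (nat_lit 76) (nat_lit 0) (XT.lf (nat_lit 0) (nat_lit 7355017198) (nat_lit 228) (nat_lit 17057973183) (nat_lit 76) (nat_lit 4434958293) (nat_lit 11) (nat_lit 5) (nat_lit 14) (nat_lit 5) (nat_lit 12) (nat_lit 4) (nat_lit 276) (nat_lit 246) (nat_lit 198)) (XT.nd (nat_lit 78) (nat_lit 76) (nat_lit 0) (XT.lf (nat_lit 0) (nat_lit 11995597878) (nat_lit 228) (nat_lit 7466690999) (nat_lit 76) (nat_lit 11155711743) (nat_lit 11) (nat_lit 5) (nat_lit 14) (nat_lit 5) (nat_lit 12) (nat_lit 4) (nat_lit 277) (nat_lit 246) (nat_lit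 197)) (XT.lf (nat_lit 0) (nat_lit 3005356654) (nat_lit 76) (nat_lit 14052090003) (nat_lit 152) (nat_lit 15468265815) (nat_lit 10) (nat_lit 5) (nat_lit 11) (nat_lit 5) (nat_lit 12) (nat_lit 4) (nat_lit 278) (nat_lit 246) (nat_lit 196))))) (XT.nd (nat_lit 234) (nat_lit 152) (nat_lit 0) (XT.nd (nat_lit 78) (nat_lit 76) (nat_lit 0) (XT.lf (nat_lit 0) (nat_lit 14703861839) (nat_lit 76) (nat_lit 8003061050) (nat_lit 152) (nat_lit 11864557244) (nat_lit 10) (nat_lit 5) (nat_lit 11) (nat_lit 5) (nat_lit 12) (nat_lit 4) (nat_lit 279) (nat_lit 246) (nat_lit 195)) (XT.nd (nat_lit 78) (nat_lit 76) (nat_lit 0) (XT.lf (nat_lit 0) (nat_lit 27304966312) (nat_lit 76) (nat_lit 1483508485) (nat_lit 152) (nat_lit 7994074284) (nat_lit 10) (nat_lit 5) (nat_lit 11) (nat_lit 5) (nat_lit 12) (nat_lit 4) (nat_lit 280) (nat_lit 246) (nat_lit 194)) (XT.lf (nat_lit 0) (nat_lit 1661051624) (nat_lit 76) (nat_lit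 33850400161) (nat_lit 76) (nat_lit 3646705317) (nat_lit 9) (nat_lit 4) (nat_lit 10) (nat_lit 5) (nat_lit 10) (nat_lit 4) (nat_lit 281) (nat_lit 246) (nat_lit 193)))) (XT.nd (nat_lit 156) (nat_lit 76) (nat_lit 0) (XT.nd (nat_lit 78) (nat_lit 0) (nat_lit 0) (XT.lf (nat_lit 0) (nat_lit 1281819871) (nat_lit 152) (nat_lit 27576029028) (nat_lit 76) (nat_lit 12841121595) (nat_lit 8) (nat_lit 5) (nat_lit 10) (nat_lit 5) (nat_lit 9) (nat_lit 4) (nat_lit 282) (nat_lit 246) (nat_lit 192)) (XT.lf (nat_lit 0) (nat_lit 6390404000) (nat_lit 152) (nat_lit 16985840257) (nat_lit 76) (nat_lit 21060639854) (nat_lit 8) (nat_lit 5) (nat_lit 10) (nat_lit 5) (nat_lit 9) (nat_lit 4) (nat_lit 283) (nat_lit 246) (nat_lit 191))) (XT.nd (nat_lit 78) (nat_lit 76) (nat_lit 0) (XT.lf (nat_lit 0) (nat_lit 11891743131) (nat_lit 152) (nat_lit 5576079142) (nat_lit 76) (nat_lit 29927316625) (nat_lit 8) (nat_lit 5) (nat_lit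 10) (nat_lit 5) (nat_lit 9) (nat_lit 4) (nat_lit 284) (nat_lit 246) (nat_lit 190)) (XT.lf (nat_lit 0) (nat_lit 7074776700) (nat_lit 76) (nat_lit 10913809640) (nat_lit 152) (nat_lit 32589067025) (nat_lit 7) (nat_lit 5) (nat_lit 8) (nat_lit 5) (nat_lit 9) (nat_lit 4) (nat_lit 285) (nat_lit 246) (nat_lit 189))))))))
noncomputable def xc62 : XT := (XT.nd (nat_lit 1950) (nat_lit 152) (nat_lit 0) (XT.nd (nat_lit 936) (nat_lit 76) (nat_lit 0) (XT.nd (nat_lit 468) (nat_lit 152) (nat_lit 0) (XT.nd (nat_lit 234) (nat_lit 76) (nat_lit 0) (XT.nd (nat_lit 78) (nat_lit 0) (nat_lit 0) (XT.lf (nat_lit 0) (nat_lit 21029870405) (nat_lit 76) (nat_lit 3681507618) (nat_lit 152) (nat_lit 29292363643) (nat_lit 7) (nat_lit 5) (nat_lit 8) (nat_lit 5) (nat_lit 9) (nat_lit 4) (nat_lit 286) (nat_lit 246) (nat_lit 188)) (XT.nd (nat_lit 78) (nat_lit 0) (nat_lit 0) (XT.lf (nat_lit 0) (nat_lit 32057864023) (nat_lit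 152) (nat_lit 21725801132) (nat_lit 0) (nat_lit 3913408821) (nat_lit 7) (nat_lit 5) (nat_lit 9) (nat_lit 4) (nat_lit 7) (nat_lit 4) (nat_lit 287) (nat_lit 246) (nat_lit 187)) (XT.lf (nat_lit 0) (nat_lit 40075247413) (nat_lit 152) (nat_lit 9695679387) (nat_lit 0) (nat_lit 11908316443) (nat_lit 7) (nat_lit 5) (nat_lit 9) (nat_lit 4) (nat_lit 7) (nat_lit 4) (nat_lit 288) (nat_lit 246) (nat_lit 186)))) (XT.nd (nat_lit 78) (nat_lit 0) (nat_lit 0) (XT.lf (nat_lit 0) (nat_lit 3448849342) (nat_lit 76) (nat_lit 45356593834) (nat_lit 76) (nat_lit 17168851968) (nat_lit 6) (nat_lit 4) (nat_lit 7) (nat_lit 5) (nat_lit 7) (nat_lit 4) (nat_lit 289) (nat_lit 246) (nat_lit 185)) (XT.nd (nat_lit 78) (nat_lit 0) (nat_lit 0) (XT.lf (nat_lit 0) (nat_lit 18176333781) (nat_lit 76) (nat_lit 40311667033) (nat_lit 76) (nat_lit 12104655819) (nat_lit 6) (nat_lit 4) (nat_lit 7) (nat_lit 5) (nat_lit 7) (nat_lit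 4) (nat_lit 290) (nat_lit 246) (nat_lit 184)) (XT.lf (nat_lit 0) (nat_lit 34063490618) (nat_lit 76) (nat_lit 34871347594) (nat_lit 76) (nat_lit 6646494390) (nat_lit 6) (nat_lit 4) (nat_lit 7) (nat_lit 5) (nat_lit 7) (nat_lit 4) (nat_lit 291) (nat_lit 246) (nat_lit 183))))) (XT.nd (nat_lit 234) (nat_lit 76) (nat_lit 0) (XT.nd (nat_lit 78) (nat_lit 76) (nat_lit 0) (XT.lf (nat_lit 0) (nat_lit 51204465967) (nat_lit 76) (nat_lit 29003396584) (nat_lit 76) (nat_lit 762023020) (nat_lit 6) (nat_lit 4) (nat_lit 7) (nat_lit 5) (nat_lit 7) (nat_lit 4) (nat_lit 292) (nat_lit 246) (nat_lit 182)) (XT.nd (nat_lit 78) (nat_lit 0) (nat_lit 0) (XT.lf (nat_lit 0) (nat_lit 5304313482) (nat_lit 152) (nat_lit 17223698149) (nat_lit 76) (nat_lit 64251493165) (nat_lit 5) (nat_lit 5) (nat_lit 7) (nat_lit 5) (nat_lit 6) (nat_lit 4) (nat_lit 293) (nat_lit 246) (nat_lit 181)) (XT.lf (nat_lit 0) (nat_lit 11806364022)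 (nat_lit 152) (nat_lit 3713596573) (nat_lit 76) (nat_lit 77533037832) (nat_lit 5) (nat_lit 5) (nat_lit 7) (nat_lit 5) (nat_lit 6) (nat_lit 4) (nat_lit 294) (nat_lit 246) (nat_lit 180)))) (XT.nd (nat_lit 78) (nat_lit 0) (nat_lit 0) (XT.lf (nat_lit 0) (nat_lit 11435312291) (nat_lit 76) (nat_lit 7660485990) (nat_lit 152) (nat_lit 80711209013) (nat_lit 4) (nat_lit 5) (nat_lit 5) (nat_lit 5) (nat_lit 6) (nat_lit 4) (nat_lit 295) (nat_lit 246) (nat_lit 179)) (XT.nd (nat_lit 78) (nat_lit 0) (nat_lit 0) (XT.lf (nat_lit 0) (nat_lit 27084769444) (nat_lit 152) (nat_lit 79122584086) (nat_lit 0) (nat_lit 884685099) (nat_lit 4) (nat_lit 5) (nat_lit 6) (nat_lit 4) (nat_lit 4) (nat_lit 4) (nat_lit 296) (nat_lit 246) (nat_lit 178)) (XT.lf (nat_lit 0) (nat_lit 35904703460) (nat_lit 152) (nat_lit 69345624332) (nat_lit 0) (nat_lit 9694208486) (nat_lit 4) (nat_lit 5) (nat_lit 6) (nat_lit 4) (nat_lit 4)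 (nat_lit 4) (nat_lit 297) (nat_lit 246) (nat_lit 177)))))) (XT.nd (nat_lit 468) (nat_lit 0) (nat_lit 0) (XT.nd (nat_lit 234) (nat_lit 76) (nat_lit 0) (XT.nd (nat_lit 78) (nat_lit 0) (nat_lit 0) (XT.lf (nat_lit 0) (nat_lit 45423631733) (nat_lit 152) (nat_lit 58798643327) (nat_lit 0) (nat_lit 19203497287) (nat_lit 4) (nat_lit 5) (nat_lit 6) (nat_lit 4) (nat_lit 4) (nat_lit 4) (nat_lit 298) (nat_lit 246) (nat_lit 176)) (XT.nd (nat_lit 78) (nat_lit 0) (nat_lit 0) (XT.lf (nat_lit 0) (nat_lit 55697962728) (nat_lit 152) (nat_lit 47419140444) (nat_lit 0) (nat_lit 29468902845) (nat_lit 4) (nat_lit 5) (nat_lit 6) (nat_lit 4) (nat_lit 4) (nat_lit 4) (nat_lit 299) (nat_lit 246) (nat_lit 175)) (XT.lf (nat_lit 0) (nat_lit 66788581368) (nat_lit 152) (nat_lit 35139681592) (nat_lit 0) (nat_lit 40551257192) (nat_lit 4) (nat_lit 5) (nat_lit 6) (nat_lit 4) (nat_lit 4) (nat_lit 4) (nat_lit 300) (nat_lit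 246) (nat_lit 174)))) (XT.nd (nat_lit 78) (nat_lit 76) (nat_lit 0) (XT.lf (nat_lit 0) (nat_lit 78761209838) (nat_lit 152) (nat_lit 21887499607) (nat_lit 0) (nat_lit 52516233539) (nat_lit 4) (nat_lit 5) (nat_lit 6) (nat_lit 4) (nat_lit 4) (nat_lit 4) (nat_lit 301) (nat_lit 246) (nat_lit 173)) (XT.nd (nat_lit 78) (nat_lit 76) (nat_lit 0) (XT.lf (nat_lit 0) (nat_lit 91686797047) (nat_lit 152) (nat_lit 7584063040) (nat_lit 0) (nat_lit 65434735449) (nat_lit 4) (nat_lit 5) (nat_lit 6) (nat_lit 4) (nat_lit 4) (nat_lit 4) (nat_lit 302) (nat_lit 246) (nat_lit 172)) (XT.lf (nat_lit 0) (nat_lit 8269040088) (nat_lit 76) (nat_lit 97571769593) (nat_lit 76) (nat_lit 71313147532) (nat_lit 3) (nat_lit 4) (nat_lit 4) (nat_lit 5) (nat_lit 4) (nat_lit 4) (nat_lit 303) (nat_lit 246) (nat_lit 171))))) (XT.nd (nat_lit 234) (nat_lit 0) (nat_lit 0) (XT.nd (nat_lit 78) (nat_lit 0) (nat_lit 0) (XT.lf (nat_lit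 0) (nat_lit 25813653709) (nat_lit 76) (nat_lit 95516498322) (nat_lit 76) (nat_lit 69251801760) (nat_lit 3) (nat_lit 4) (nat_lit 4) (nat_lit 5) (nat_lit 4) (nat_lit 4) (nat_lit 304) (nat_lit 246) (nat_lit 170)) (XT.nd (nat_lit 78) (nat_lit 0) (nat_lit 0) (XT.lf (nat_lit 0) (nat_lit 44754382583) (nat_lit 76) (nat_lit 93300228614) (nat_lit 76) (nat_lit 67029907513) (nat_lit 3) (nat_lit 4) (nat_lit 4) (nat_lit 5) (nat_lit 4) (nat_lit 4) (nat_lit 305) (nat_lit 246) (nat_lit 169)) (XT.lf (nat_lit 0) (nat_lit 65203468067) (nat_lit 76) (nat_lit 90909827019) (nat_lit 76) (nat_lit 64634298011) (nat_lit 3) (nat_lit 4) (nat_lit 4) (nat_lit 5) (nat_lit 4) (nat_lit 4) (nat_lit 306) (nat_lit 246) (nat_lit 168)))) (XT.nd (nat_lit 156) (nat_lit 0) (nat_lit 0) (XT.nd (nat_lit 78) (nat_lit 0) (nat_lit 0) (XT.lf (nat_lit 0) (nat_lit 87282089926) (nat_lit 76) (nat_lit 88331128193) (nat_lit 76) (nat_lit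 62050777049) (nat_lit 3) (nat_lit 4) (nat_lit 4) (nat_lit 5) (nat_lit 4) (nat_lit 4) (nat_lit 307) (nat_lit 246) (nat_lit 167)) (XT.lf (nat_lit 0) (nat_lit 111121084438) (nat_lit 76) (nat_lit 85548850959) (nat_lit 76) (nat_lit 59264034874) (nat_lit 3) (nat_lit 4) (nat_lit 4) (nat_lit 5) (nat_lit 4) (nat_lit 4) (nat_lit 308) (nat_lit 246) (nat_lit 166))) (XT.nd (nat_lit 78) (nat_lit 0) (nat_lit 0) (XT.lf (nat_lit 0) (nat_lit 136861719718) (nat_lit 76) (nat_lit 82546507747) (nat_lit 76) (nat_lit 56257557458) (nat_lit 3) (nat_lit 4) (nat_lit 4) (nat_lit 5) (nat_lit 4) (nat_lit 4) (nat_lit 309) (nat_lit 246) (nat_lit 165)) (XT.lf (nat_lit 0) (nat_lit 164656532865) (nat_lit 76) (nat_lit 79306306894) (nat_lit 76) (nat_lit 53013528639) (nat_lit 3) (nat_lit 4) (nat_lit 4) (nat_lit 5) (nat_lit 4) (nat_lit 4) (nat_lit 310) (nat_lit 246) (nat_lit 164))))))) (XT.nd (nat_lit 1014) (nat_lit 0) (nat_lit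 0) (XT.nd (nat_lit 468) (nat_lit 152) (nat_lit 0) (XT.nd (nat_lit 234) (nat_lit 0) (nat_lit 0) (XT.nd (nat_lit 78) (nat_lit 0) (nat_lit 0) (XT.lf (nat_lit 0) (nat_lit 194670233883) (nat_lit 76) (nat_lit 75809047210) (nat_lit 76) (nat_lit 49512724541) (nat_lit 3) (nat_lit 4) (nat_lit 4) (nat_lit 5) (nat_lit 4) (nat_lit 4) (nat_lit 311) (nat_lit 246) (nat_lit 163)) (XT.nd (nat_lit 78) (nat_lit 0) (nat_lit 0) (XT.lf (nat_lit 0) (nat_lit 227080681740) (nat_lit 76) (nat_lit 72034004194) (nat_lit 76) (nat_lit 45734399660) (nat_lit 3) (nat_lit 4) (nat_lit 4) (nat_lit 5) (nat_lit 4) (nat_lit 4) (nat_lit 312) (nat_lit 246) (nat_lit 162)) (XT.lf (nat_lit 0) (nat_lit 262079938349) (nat_lit 76) (nat_lit 67958807219) (nat_lit 76) (nat_lit 41656163922) (nat_lit 3) (nat_lit 4) (nat_lit 4) (nat_lit 5) (nat_lit 4) (nat_lit 4) (nat_lit 313) (nat_lit 246) (nat_lit 161)))) (XT.nd (nat_lit 78) (nat_lit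 0) (nat_lit 0) (XT.lf (nat_lit 0) (nat_lit 299875406713) (nat_lit 76) (nat_lit 63559306970) (nat_lit 76) (nat_lit 37253850004) (nat_lit 3) (nat_lit 4) (nat_lit 4) (nat_lit 5) (nat_lit 4) (nat_lit 4) (nat_lit 314) (nat_lit 246) (nat_lit 160)) (XT.nd (nat_lit 78) (nat_lit 0) (nat_lit 0) (XT.lf (nat_lit 0) (nat_lit 340691059978) (nat_lit 76) (nat_lit 58809432336) (nat_lit 76) (nat_lit 32501370119) (nat_lit 3) (nat_lit 4) (nat_lit 4) (nat_lit 5) (nat_lit 4) (nat_lit 4) (nat_lit 315) (nat_lit 246) (nat_lit 159)) (XT.lf (nat_lit 0) (nat_lit 384768768681) (nat_lit 76) (nat_lit 53681035910) (nat_lit 76) (nat_lit 27370561425) (nat_lit 3) (nat_lit 4) (nat_lit 4) (nat_lit 5) (nat_lit 4) (nat_lit 4) (nat_lit 316) (nat_lit 246) (nat_lit 158))))) (XT.nd (nat_lit 234) (nat_lit 152) (nat_lit 0) (XT.nd (nat_lit 78) (nat_lit 0) (nat_lit 0) (XT.lf (nat_lit 0) (nat_lit 432369734059) (nat_lit 76) (nat_lit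 48143727195) (nat_lit 76) (nat_lit 21831019128) (nat_lit 3) (nat_lit 4) (nat_lit 4) (nat_lit 5) (nat_lit 4) (nat_lit 4) (nat_lit 317) (nat_lit 246) (nat_lit 157)) (XT.nd (nat_lit 78) (nat_lit 0) (nat_lit 0) (XT.lf (nat_lit 0) (nat_lit 483776035908) (nat_lit 76) (nat_lit 42164692510) (nat_lit 76) (nat_lit 15849916312) (nat_lit 3) (nat_lit 4) (nat_lit 4) (nat_lit 5) (nat_lit 4) (nat_lit 4) (nat_lit 318) (nat_lit 246) (nat_lit 156)) (XT.lf (nat_lit 0) (nat_lit 539292304163) (nat_lit 76) (nat_lit 35708500538) (nat_lit 76) (nat_lit 9391809403) (nat_lit 3) (nat_lit 4) (nat_lit 4) (nat_lit 5) (nat_lit 4) (nat_lit 4) (nat_lit 319) (nat_lit 246) (nat_lit 155)))) (XT.nd (nat_lit 156) (nat_lit 76) (nat_lit 0) (XT.nd (nat_lit 78) (nat_lit 76) (nat_lit 0) (XT.lf (nat_lit 0) (nat_lit 599247524119) (nat_lit 76) (nat_lit 28736892364) (nat_lit 76) (nat_lit 2418428140) (nat_lit 3) (nat_lit 4) (nat_lit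 4) (nat_lit 5) (nat_lit 4) (nat_lit 4) (nat_lit 320) (nat_lit 246) (nat_lit 154)) (XT.lf (nat_lit 0) (nat_lit 4855850723) (nat_lit 152) (nat_lit 16219936467) (nat_lit 76) (nat_lit 659008367679) (nat_lit 2) (nat_lit 5) (nat_lit 4) (nat_lit 5) (nat_lit 3) (nat_lit 4) (nat_lit 321) (nat_lit 246) (nat_lit 153))) (XT.nd (nat_lit 78) (nat_lit 76) (nat_lit 0) (XT.lf (nat_lit 0) (nat_lit 12580294745) (nat_lit 152) (nat_lit 154613041) (nat_lit 76) (nat_lit 721000127925) (nat_lit 2) (nat_lit 5) (nat_lit 4) (nat_lit 5) (nat_lit 3) (nat_lit 4) (nat_lit 322) (nat_lit 246) (nat_lit 152)) (XT.lf (nat_lit 0) (nat_lit 18099421299) (nat_lit 76) (nat_lit 3257528193) (nat_lit 152) (nat_lit 770286298540) (nat_lit 1) (nat_lit 5) (nat_lit 2) (nat_lit 5) (nat_lit 3) (nat_lit 4) (nat_lit 323) (nat_lit 246) (nat_lit 151)))))) (XT.nd (nat_lit 468) (nat_lit 0) (nat_lit 0) (XT.nd (nat_lit 234) (nat_lit 0) (nat_lit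 0) (XT.nd (nat_lit 78) (nat_lit 0) (nat_lit 0) (XT.lf (nat_lit 0) (nat_lit 31006870427) (nat_lit 152) (nat_lit 816531073143) (nat_lit 0) (nat_lit 6632484389) (nat_lit 1) (nat_lit 5) (nat_lit 3) (nat_lit 4) (nat_lit 1) (nat_lit 4) (nat_lit 324) (nat_lit 246) (nat_lit 150)) (XT.nd (nat_lit 78) (nat_lit 0) (nat_lit 0) (XT.lf (nat_lit 0) (nat_lit 41512446654) (nat_lit 152) (nat_lit 863043700652) (nat_lit 0) (nat_lit 17136943270) (nat_lit 1) (nat_lit 5) (nat_lit 3) (nat_lit 4) (nat_lit 1) (nat_lit 4) (nat_lit 325) (nat_lit 246) (nat_lit 149)) (XT.lf (nat_lit 0) (nat_lit 52857589810) (nat_lit 152) (nat_lit 913278996016) (nat_lit 0) (nat_lit 28481051845) (nat_lit 1) (nat_lit 5) (nat_lit 3) (nat_lit 4) (nat_lit 1) (nat_lit 4) (nat_lit 326) (nat_lit 246) (nat_lit 148)))) (XT.nd (nat_lit 78) (nat_lit 0) (nat_lit 0) (XT.lf (nat_lit 0) (nat_lit 65109530372) (nat_lit 152) (nat_lit 967534649874)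 (nat_lit 0) (nat_lit 40732034462) (nat_lit 1) (nat_lit 5) (nat_lit 3) (nat_lit 4) (nat_lit 1) (nat_lit 4) (nat_lit 327) (nat_lit 246) (nat_lit 147)) (XT.nd (nat_lit 78) (nat_lit 0) (nat_lit 0) (XT.lf (nat_lit 0) (nat_lit 78340872432) (nat_lit 152) (nat_lit 1026132177211) (nat_lit 0) (nat_lit 53962489536) (nat_lit 1) (nat_lit 5) (nat_lit 3) (nat_lit 4) (nat_lit 1) (nat_lit 4) (nat_lit 328) (nat_lit 246) (nat_lit 146)) (XT.lf (nat_lit 0) (nat_lit 92630023944) (nat_lit 152) (nat_lit 1089418822635) (nat_lit 0) (nat_lit 68250819764) (nat_lit 1) (nat_lit 5) (nat_lit 3) (nat_lit 4) (nat_lit 1) (nat_lit 4) (nat_lit 329) (nat_lit 246) (nat_lit 145))))) (XT.nd (nat_lit 234) (nat_lit 0) (nat_lit 0) (XT.nd (nat_lit 78) (nat_lit 0) (nat_lit 0) (XT.lf (nat_lit 0) (nat_lit 108061661361) (nat_lit 152) (nat_lit 1157769618117) (nat_lit 0) (nat_lit 83681696734) (nat_lit 1) (nat_lit 5) (nat_lit 3) (nat_lit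 4) (nat_lit 1) (nat_lit 4) (nat_lit 330) (nat_lit 246) (nat_lit 144)) (XT.nd (nat_lit 78) (nat_lit 0) (nat_lit 0) (XT.lf (nat_lit 0) (nat_lit 124727231423) (nat_lit 152) (nat_lit 1231589605409) (nat_lit 0) (nat_lit 100346562678) (nat_lit 1) (nat_lit 5) (nat_lit 3) (nat_lit 4) (nat_lit 1) (nat_lit 4) (nat_lit 331) (nat_lit 246) (nat_lit 143)) (XT.lf (nat_lit 0) (nat_lit 142725493064) (nat_lit 152) (nat_lit 1311316236287) (nat_lit 0) (nat_lit 118344172358) (nat_lit 1) (nat_lit 5) (nat_lit 3) (nat_lit 4) (nat_lit 1) (nat_lit 4) (nat_lit 332) (nat_lit 246) (nat_lit 142)))) (XT.nd (nat_lit 156) (nat_lit 0) (nat_lit 0) (XT.nd (nat_lit 78) (nat_lit 0) (nat_lit 0) (XT.lf (nat_lit 0) (nat_lit 162163102649) (nat_lit 152) (nat_lit 1397421964860) (nat_lit 0) (nat_lit 137781178275) (nat_lit 1) (nat_lit 5) (nat_lit 3) (nat_lit 4) (nat_lit 1) (nat_lit 4) (nat_lit 333) (nat_lit 246) (nat_lit 141))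 (XT.lf (nat_lit 0) (nat_lit 183155246013) (nat_lit 152) (nat_lit 1490417047299) (nat_lit 0) (nat_lit 158772762687) (nat_lit 1) (nat_lit 5) (nat_lit 3) (nat_lit 4) (nat_lit 1) (nat_lit 4) (nat_lit 334) (nat_lit 246) (nat_lit 140))) (XT.nd (nat_lit 78) (nat_lit 0) (nat_lit 0) (XT.lf (nat_lit 0) (nat_lit 205826321042) (nat_lit 152) (nat_lit 1590852565572) (nat_lit 0) (nat_lit 181443320168) (nat_lit 1) (nat_lit 5) (nat_lit 3) (nat_lit 4) (nat_lit 1) (nat_lit 4) (nat_lit 335) (nat_lit 246) (nat_lit 139)) (XT.lf (nat_lit 0) (nat_lit 230310674848) (nat_lit 152) (nat_lit 1699323693121) (nat_lit 0) (nat_lit 205927194763) (nat_lit 1) (nat_lit 5) (nat_lit 3) (nat_lit 4) (nat_lit 1) (nat_lit 4) (nat_lit 336) (nat_lit 246) (nat_lit 138))))))))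
noncomputable def xc63 : XT := (XT.nd (nat_lit 32292) (nat_lit 0) (nat_lit 304) (XT.nd (nat_lit 31278) (nat_lit 0) (nat_lit 1216) (XT.nd (nat_lit 30732) (nat_lit 0) (nat_lit 2432) (XT.nd (nat_lit 30498) (nat_lit 0) (nat_lit 3192) (XT.nd (nat_lit 78) (nat_lit 0) (nat_lit 0) (XT.lf (nat_lit 0) (nat_lit 256753399898) (nat_lit 152) (nat_lit 1816473221813) (nat_lit 0) (nat_lit 232369476099) (nat_lit 1) (nat_lit 5) (nat_lit 3) (nat_lit 4) (nat_lit 1) (nat_lit 4) (nat_lit 337) (nat_lit 246) (nat_lit 137)) (XT.nd (nat_lit 78) (nat_lit 0) (nat_lit 0) (XT.lf (nat_lit 0) (nat_lit 285311193821) (nat_lit 152) (nat_lit 1942995371078) (nat_lit 0) (nat_lit 260926859176) (nat_lit 1) (nat_lit 5) (nat_lit 3) (nat_lit 4) (nat_lit 1) (nat_lit 4) (nat_lit 338) (nat_lit 246) (nat_lit 136)) (XT.lf (nat_lit 0) (nat_lit 316153287988) (nat_lit 152) (nat_lit 2079639901799) (nat_lit 0) (nat_lit 291768572930) (nat_lit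 1) (nat_lit 5) (nat_lit 3) (nat_lit 4) (nat_lit 1) (nat_lit 4) (nat_lit 339) (nat_lit 246) (nat_lit 135)))) (XT.nd (nat_lit 78) (nat_lit 380) (nat_lit 0) (XT.lf (nat_lit 0) (nat_lit 3814945521) (nat_lit 380) (nat_lit 66766449) (nat_lit 380) (nat_lit 66766449) (nat_lit 48) (nat_lit 3) (nat_lit 53) (nat_lit 3) (nat_lit 53) (nat_lit 5) (nat_lit 247) (nat_lit 247) (nat_lit 226)) (XT.nd (nat_lit 78) (nat_lit 0) (nat_lit 0) (XT.lf (nat_lit 0) (nat_lit 936689857) (nat_lit 380) (nat_lit 4648550320) (nat_lit 456) (nat_lit 2525342343) (nat_lit 43) (nat_lit 5) (nat_lit 48) (nat_lit 3) (nat_lit 49) (nat_lit 5) (nat_lit 248) (nat_lit 247) (nat_lit 225)) (XT.lf (nat_lit 0) (nat_lit 2113036625) (nat_lit 380) (nat_lit 1063604887) (nat_lit 456) (nat_lit 5173518938) (nat_lit 43) (nat_lit 5) (nat_lit 48) (nat_lit 3) (nat_lit 49) (nat_lit 5) (nat_lit 249) (nat_lit 247) (nat_lit 224))))) (XT.nd (nat_lit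 234) (nat_lit 760) (nat_lit 0) (XT.nd (nat_lit 78) (nat_lit 0) (nat_lit 76) (XT.lf (nat_lit 76) (nat_lit 2889335645) (nat_lit 0) (nat_lit 458989722) (nat_lit 456) (nat_lit 5264017203) (nat_lit 44) (nat_lit 5) (nat_lit 43) (nat_lit 5) (nat_lit 49) (nat_lit 5) (nat_lit 250) (nat_lit 247) (nat_lit 223)) (XT.nd (nat_lit 78) (nat_lit 0) (nat_lit 0) (XT.lf (nat_lit 0) (nat_lit 4674317690) (nat_lit 380) (nat_lit 1805542440) (nat_lit 456) (nat_lit 2416867112) (nat_lit 44) (nat_lit 5) (nat_lit 49) (nat_lit 5) (nat_lit 50) (nat_lit 5) (nat_lit 251) (nat_lit 247) (nat_lit 222)) (XT.lf (nat_lit 76) (nat_lit 2471217487) (nat_lit 0) (nat_lit 3616243825) (nat_lit 456) (nat_lit 3118451194) (nat_lit 45) (nat_lit 5) (nat_lit 44) (nat_lit 5) (nat_lit 50) (nat_lit 5) (nat_lit 252) (nat_lit 247) (nat_lit 221)))) (XT.nd (nat_lit 156) (nat_lit 532) (nat_lit 0) (XT.nd (nat_lit 78) (nat_lit 304) (nat_lit 0)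 (XT.lf (nat_lit 76) (nat_lit 7128666623) (nat_lit 0) (nat_lit 449218974) (nat_lit 456) (nat_lit 1965304564) (nat_lit 45) (nat_lit 5) (nat_lit 44) (nat_lit 5) (nat_lit 50) (nat_lit 5) (nat_lit 253) (nat_lit 247) (nat_lit 220)) (XT.lf (nat_lit 0) (nat_lit 2224464680) (nat_lit 380) (nat_lit 7009670869) (nat_lit 456) (nat_lit 670046309) (nat_lit 40) (nat_lit 5) (nat_lit 45) (nat_lit 5) (nat_lit 46) (nat_lit 5) (nat_lit 254) (nat_lit 247) (nat_lit 219))) (XT.nd (nat_lit 78) (nat_lit 456) (nat_lit 0) (XT.lf (nat_lit 0) (nat_lit 695324221) (nat_lit 456) (nat_lit 3017144552) (nat_lit 76) (nat_lit 6580339444) (nat_lit 39) (nat_lit 5) (nat_lit 45) (nat_lit 5) (nat_lit 40) (nat_lit 5) (nat_lit 255) (nat_lit 247) (nat_lit 218)) (XT.lf (nat_lit 0) (nat_lit 2038806579) (nat_lit 456) (nat_lit 73164832) (nat_lit 532) (nat_lit 8601265719) (nat_lit 33) (nat_lit 5) (nat_lit 39) (nat_lit 5) (nat_lit 40)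 (nat_lit 5) (nat_lit 256) (nat_lit 247) (nat_lit 217)))))) (XT.nd (nat_lit 468) (nat_lit 532) (nat_lit 0) (XT.nd (nat_lit 234) (nat_lit 456) (nat_lit 0) (XT.nd (nat_lit 78) (nat_lit 228) (nat_lit 0) (XT.lf (nat_lit 0) (nat_lit 3752413995) (nat_lit 532) (nat_lit 3653185676) (nat_lit 76) (nat_lit 3753201097) (nat_lit 33) (nat_lit 5) (nat_lit 40) (nat_lit 5) (nat_lit 34) (nat_lit 5) (nat_lit 257) (nat_lit 247) (nat_lit 216)) (XT.nd (nat_lit 78) (nat_lit 0) (nat_lit 0) (XT.lf (nat_lit 0) (nat_lit 1794286363) (nat_lit 228) (nat_lit 3712876299) (nat_lit 304) (nat_lit 6134513683) (nat_lit 30) (nat_lit 5) (nat_lit 33) (nat_lit 5) (nat_lit 34) (nat_lit 5) (nat_lit 258) (nat_lit 247) (nat_lit 215)) (XT.lf (nat_lit 0) (nat_lit 7452446200) (nat_lit 304) (nat_lit 4345746736) (nat_lit 76) (nat_lit 361265991) (nat_lit 30) (nat_lit 5) (nat_lit 34) (nat_lit 5) (nat_lit 31) (nat_lit 5) (nat_lit 259)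 (nat_lit 247) (nat_lit 214)))) (XT.nd (nat_lit 78) (nat_lit 304) (nat_lit 0) (XT.lf (nat_lit 0) (nat_lit 1513585806) (nat_lit 152) (nat_lit 8118028836) (nat_lit 228) (nat_lit 3081056412) (nat_lit 28) (nat_lit 5) (nat_lit 30) (nat_lit 5) (nat_lit 31) (nat_lit 5) (nat_lit 260) (nat_lit 247) (nat_lit 213)) (XT.nd (nat_lit 78) (nat_lit 304) (nat_lit 0) (XT.lf (nat_lit 0) (nat_lit 8028654428) (nat_lit 152) (nat_lit 4023300682) (nat_lit 228) (nat_lit 1253086033) (nat_lit 28) (nat_lit 5) (nat_lit 30) (nat_lit 5) (nat_lit 31) (nat_lit 5) (nat_lit 261) (nat_lit 247) (nat_lit 212)) (XT.lf (nat_lit 0) (nat_lit 672404321) (nat_lit 304) (nat_lit 12856749579) (nat_lit 76) (nat_lit 415483721) (nat_lit 24) (nat_lit 5) (nat_lit 28) (nat_lit 5) (nat_lit 25) (nat_lit 5) (nat_lit 262) (nat_lit 247) (nat_lit 211))))) (XT.nd (nat_lit 234) (nat_lit 380) (nat_lit 0) (XT.nd (nat_lit 78) (nat_lit 152) (nat_lit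 0) (XT.lf (nat_lit 0) (nat_lit 2889216975) (nat_lit 304) (nat_lit 6564069273) (nat_lit 76) (nat_lit 5163310101) (nat_lit 24) (nat_lit 5) (nat_lit 28) (nat_lit 5) (nat_lit 25) (nat_lit 5) (nat_lit 263) (nat_lit 247) (nat_lit 210)) (XT.nd (nat_lit 78) (nat_lit 0) (nat_lit 0) (XT.lf (nat_lit 0) (nat_lit 184992377) (nat_lit 152) (nat_lit 5058820246) (nat_lit 228) (nat_lit 10101846457) (nat_lit 22) (nat_lit 5) (nat_lit 24) (nat_lit 5) (nat_lit 25) (nat_lit 5) (nat_lit 264) (nat_lit 247) (nat_lit 209)) (XT.lf (nat_lit 0) (nat_lit 7792421239) (nat_lit 152) (nat_lit 131757523) (nat_lit 228) (nat_lit 8198044674) (nat_lit 22) (nat_lit 5) (nat_lit 24) (nat_lit 5) (nat_lit 25) (nat_lit 5) (nat_lit 265) (nat_lit 247) (nat_lit 208)))) (XT.nd (nat_lit 156) (nat_lit 228) (nat_lit 0) (XT.nd (nat_lit 78) (nat_lit 152) (nat_lit 0) (XT.lf (nat_lit 0) (nat_lit 10904542108) (nat_lit 228) (nat_lit 1131061514)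 (nat_lit 76) (nat_lit 4918620216) (nat_lit 22) (nat_lit 5) (nat_lit 25) (nat_lit 5) (nat_lit 23) (nat_lit 5) (nat_lit 266) (nat_lit 247) (nat_lit 207)) (XT.lf (nat_lit 0) (nat_lit 6937390581) (nat_lit 152) (nat_lit 7319878244) (nat_lit 228) (nat_lit 3584945451) (nat_lit 20) (nat_lit 5) (nat_lit 22) (nat_lit 5) (nat_lit 23) (nat_lit 5) (nat_lit 267) (nat_lit 247) (nat_lit 206))) (XT.nd (nat_lit 78) (nat_lit 228) (nat_lit 0) (XT.lf (nat_lit 0) (nat_lit 15667102181) (nat_lit 152) (nat_lit 2207228218) (nat_lit 228) (nat_lit 927358239) (nat_lit 20) (nat_lit 5) (nat_lit 22) (nat_lit 5) (nat_lit 23) (nat_lit 5) (nat_lit 268) (nat_lit 247) (nat_lit 205)) (XT.lf (nat_lit 0) (nat_lit 2027183548) (nat_lit 228) (nat_lit 14474838339) (nat_lit 76) (nat_lit 3317753058) (nat_lit 17) (nat_lit 5) (nat_lit 20) (nat_lit 5) (nat_lit 18) (nat_lit 5) (nat_lit 269) (nat_lit 247) (nat_lit 204))))))) (XT.nd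 (nat_lit 1014) (nat_lit 304) (nat_lit 0) (XT.nd (nat_lit 468) (nat_lit 380) (nat_lit 0) (XT.nd (nat_lit 234) (nat_lit 76) (nat_lit 0) (XT.nd (nat_lit 78) (nat_lit 152) (nat_lit 0) (XT.lf (nat_lit 0) (nat_lit 5281093041) (nat_lit 228) (nat_lit 6362950793) (nat_lit 76) (nat_lit 9264395278) (nat_lit 17) (nat_lit 5) (nat_lit 20) (nat_lit 5) (nat_lit 18) (nat_lit 5) (nat_lit 270) (nat_lit 247) (nat_lit 203)) (XT.nd (nat_lit 78) (nat_lit 0) (nat_lit 0) (XT.lf (nat_lit 0) (nat_lit 2477426695) (nat_lit 152) (nat_lit 6347696633) (nat_lit 228) (nat_lit 13256786953) (nat_lit 15) (nat_lit 5) (nat_lit 17) (nat_lit 5) (nat_lit 18) (nat_lit 5) (nat_lit 271) (nat_lit 247) (nat_lit 202)) (XT.lf (nat_lit 0) (nat_lit 12343632903) (nat_lit 152) (nat_lit 454408244) (nat_lit 228) (nat_lit 10539680006) (nat_lit 15) (nat_lit 5) (nat_lit 17) (nat_lit 5) (nat_lit 18) (nat_lit 5) (nat_lit 272) (nat_lit 247)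 (nat_lit 201)))) (XT.nd (nat_lit 78) (nat_lit 76) (nat_lit 0) (XT.lf (nat_lit 0) (nat_lit 17204119815) (nat_lit 228) (nat_lit 1878945498) (nat_lit 76) (nat_lit 5601789847) (nat_lit 15) (nat_lit 5) (nat_lit 18) (nat_lit 5) (nat_lit 16) (nat_lit 4) (nat_lit 273) (nat_lit 247) (nat_lit 200)) (XT.nd (nat_lit 78) (nat_lit 0) (nat_lit 0) (XT.lf (nat_lit 0) (nat_lit 8331550118) (nat_lit 76) (nat_lit 13818481383) (nat_lit 152) (nat_lit 3974818851) (nat_lit 14) (nat_lit 5) (nat_lit 15) (nat_lit 5) (nat_lit 16) (nat_lit 4) (nat_lit 274) (nat_lit 247) (nat_lit 199)) (XT.lf (nat_lit 0) (nat_lit 19427892186) (nat_lit 76) (nat_lit 8091196529) (nat_lit 152) (nat_lit 158831049) (nat_lit 14) (nat_lit 5) (nat_lit 15) (nat_lit 5) (nat_lit 16) (nat_lit 4) (nat_lit 275) (nat_lit 247) (nat_lit 198))))) (XT.nd (nat_lit 234) (nat_lit 152) (nat_lit 0) (XT.nd (nat_lit 78) (nat_lit 0) (nat_lit 0) (XT.lf (nat_lit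 0) (nat_lit 2026474875) (nat_lit 152) (nat_lit 1763711414) (nat_lit 228) (nat_lit 25555409378) (nat_lit 11) (nat_lit 5) (nat_lit 13) (nat_lit 5) (nat_lit 14) (nat_lit 5) (nat_lit 276) (nat_lit 247) (nat_lit 197)) (XT.nd (nat_lit 78) (nat_lit 0) (nat_lit 0) (XT.lf (nat_lit 0) (nat_lit 8377649064) (nat_lit 228) (nat_lit 17703150737) (nat_lit 76) (nat_lit 5039124879) (nat_lit 11) (nat_lit 5) (nat_lit 14) (nat_lit 5) (nat_lit 12) (nat_lit 4) (nat_lit 277) (nat_lit 247) (nat_lit 196)) (XT.lf (nat_lit 0) (nat_lit 13357310977) (nat_lit 228) (nat_lit 7397859334) (nat_lit 76) (nat_lit 12279066759) (nat_lit 11) (nat_lit 5) (nat_lit 14) (nat_lit 5) (nat_lit 12) (nat_lit 4) (nat_lit 278) (nat_lit 247) (nat_lit 195)))) (XT.nd (nat_lit 156) (nat_lit 76) (nat_lit 0) (XT.nd (nat_lit 78) (nat_lit 0) (nat_lit 0) (XT.lf (nat_lit 0) (nat_lit 3895087146) (nat_lit 76) (nat_lit 14914853628) (nat_lit 152)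 (nat_lit 16285835365) (nat_lit 10) (nat_lit 5) (nat_lit 11) (nat_lit 5) (nat_lit 12) (nat_lit 4) (nat_lit 279) (nat_lit 247) (nat_lit 194)) (XT.lf (nat_lit 0) (nat_lit 16481376303) (nat_lit 76) (nat_lit 8401265586) (nat_lit 152) (nat_lit 12424933198) (nat_lit 10) (nat_lit 5) (nat_lit 11) (nat_lit 5) (nat_lit 12) (nat_lit 4) (nat_lit 280) (nat_lit 247) (nat_lit 193))) (XT.nd (nat_lit 78) (nat_lit 76) (nat_lit 0) (XT.lf (nat_lit 0) (nat_lit 30046035393) (nat_lit 76) (nat_lit 1378077731) (nat_lit 152) (nat_lit 8273610758) (nat_lit 10) (nat_lit 5) (nat_lit 11) (nat_lit 5) (nat_lit 12) (nat_lit 4) (nat_lit 281) (nat_lit 247) (nat_lit 192)) (XT.lf (nat_lit 0) (nat_lit 2357995858) (nat_lit 76) (nat_lit 36320854607) (nat_lit 76) (nat_lit 3585077363) (nat_lit 9) (nat_lit 4) (nat_lit 10) (nat_lit 5) (nat_lit 10) (nat_lit 4) (nat_lit 282) (nat_lit 247) (nat_lit 191)))))) (XT.nd (nat_lit 468)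 (nat_lit 152) (nat_lit 0) (XT.nd (nat_lit 234) (nat_lit 76) (nat_lit 0) (XT.nd (nat_lit 78) (nat_lit 0) (nat_lit 0) (XT.lf (nat_lit 0) (nat_lit 1695187369) (nat_lit 152) (nat_lit 29242811790) (nat_lit 76) (nat_lit 14071368866) (nat_lit 8) (nat_lit 5) (nat_lit 10) (nat_lit 5) (nat_lit 9) (nat_lit 4) (nat_lit 283) (nat_lit 247) (nat_lit 190)) (XT.nd (nat_lit 78) (nat_lit 0) (nat_lit 0) (XT.lf (nat_lit 0) (nat_lit 7189434384) (nat_lit 152) (nat_lit 17845356034) (nat_lit 76) (nat_lit 22933414694) (nat_lit 8) (nat_lit 5) (nat_lit 10) (nat_lit 5) (nat_lit 9) (nat_lit 4) (nat_lit 284) (nat_lit 247) (nat_lit 189)) (XT.lf (nat_lit 0) (nat_lit 13109562270) (nat_lit 152) (nat_lit 5559803025) (nat_lit 76) (nat_lit 32495505335) (nat_lit 8) (nat_lit 5) (nat_lit 10) (nat_lit 5) (nat_lit 9) (nat_lit 4) (nat_lit 285) (nat_lit 247) (nat_lit 188)))) (XT.nd (nat_lit 78) (nat_lit 0) (nat_lit 0) (XT.lf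 (nat_lit 0) (nat_lit 8091415906) (nat_lit 76) (nat_lit 11593836108) (nat_lit 152) (nat_lit 34917487873) (nat_lit 7) (nat_lit 5) (nat_lit 8) (nat_lit 5) (nat_lit 9) (nat_lit 4) (nat_lit 286) (nat_lit 247) (nat_lit 187)) (XT.nd (nat_lit 78) (nat_lit 0) (nat_lit 0) (XT.lf (nat_lit 0) (nat_lit 23129535101) (nat_lit 76) (nat_lit 3797252020) (nat_lit 152) (nat_lit 31377692999) (nat_lit 7) (nat_lit 5) (nat_lit 8) (nat_lit 5) (nat_lit 9) (nat_lit 4) (nat_lit 287) (nat_lit 247) (nat_lit 186)) (XT.lf (nat_lit 0) (nat_lit 34847306506) (nat_lit 152) (nat_lit 23063368583) (nat_lit 0) (nat_lit 4383734394) (nat_lit 7) (nat_lit 5) (nat_lit 9) (nat_lit 4) (nat_lit 7) (nat_lit 4) (nat_lit 288) (nat_lit 247) (nat_lit 185))))) (XT.nd (nat_lit 234) (nat_lit 76) (nat_lit 0) (XT.nd (nat_lit 78) (nat_lit 76) (nat_lit 0) (XT.lf (nat_lit 0) (nat_lit 43489427726) (nat_lit 152) (nat_lit 10100503516) (nat_lit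 0) (nat_lit 13006586266) (nat_lit 7) (nat_lit 5) (nat_lit 9) (nat_lit 4) (nat_lit 7) (nat_lit 4) (nat_lit 289) (nat_lit 247) (nat_lit 184)) (XT.nd (nat_lit 78) (nat_lit 0) (nat_lit 0) (XT.lf (nat_lit 0) (nat_lit 4086199404) (nat_lit 76) (nat_lit 48825113139) (nat_lit 76) (nat_lit 18324429690) (nat_lit 6) (nat_lit 4) (nat_lit 7) (nat_lit 5) (nat_lit 7) (nat_lit 4) (nat_lit 290) (nat_lit 247) (nat_lit 183)) (XT.lf (nat_lit 0) (nat_lit 19965109109) (nat_lit 76) (nat_lit 43388444653) (nat_lit 76) (nat_lit 12871240844) (nat_lit 6) (nat_lit 4) (nat_lit 7) (nat_lit 5) (nat_lit 7) (nat_lit 4) (nat_lit 291) (nat_lit 247) (nat_lit 182)))) (XT.nd (nat_lit 156) (nat_lit 76) (nat_lit 0) (XT.nd (nat_lit 78) (nat_lit 0) (nat_lit 0) (XT.lf (nat_lit 0) (nat_lit 37098448224) (nat_lit 76) (nat_lit 37523874158) (nat_lit 76) (nat_lit 6991373719) (nat_lit 6) (nat_lit 4) (nat_lit 7) (nat_lit 5) (nat_lit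 7) (nat_lit 4) (nat_lit 292) (nat_lit 247) (nat_lit 181)) (XT.lf (nat_lit 0) (nat_lit 55587747649) (nat_lit 76) (nat_lit 31196648641) (nat_lit 76) (nat_lit 649984656) (nat_lit 6) (nat_lit 4) (nat_lit 7) (nat_lit 5) (nat_lit 7) (nat_lit 4) (nat_lit 293) (nat_lit 247) (nat_lit 180))) (XT.nd (nat_lit 78) (nat_lit 0) (nat_lit 0) (XT.lf (nat_lit 0) (nat_lit 5880830815) (nat_lit 152) (nat_lit 18327650282) (nat_lit 76) (nat_lit 69500950449) (nat_lit 5) (nat_lit 5) (nat_lit 7) (nat_lit 5) (nat_lit 6) (nat_lit 4) (nat_lit 294) (nat_lit 247) (nat_lit 179)) (XT.lf (nat_lit 0) (nat_lit 12891773380) (nat_lit 152) (nat_lit 3757032707) (nat_lit 76) (nat_lit 83836919591) (nat_lit 5) (nat_lit 5) (nat_lit 7) (nat_lit 5) (nat_lit 6) (nat_lit 4) (nat_lit 295) (nat_lit 247) (nat_lit 178))))))))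
noncomputable def xc64 : XT := (XT.nd (nat_lit 1950) (nat_lit 152) (nat_lit 0) (XT.nd (nat_lit 936) (nat_lit 0) (nat_lit 0) (XT.nd (nat_lit 468) (nat_lit 76) (nat_lit 0) (XT.nd (nat_lit 234) (nat_lit 0) (nat_lit 0) (XT.nd (nat_lit 78) (nat_lit 0) (nat_lit 0) (XT.lf (nat_lit 0) (nat_lit 12597367307) (nat_lit 76) (nat_lit 8162503906) (nat_lit 152) (nat_lit 87020561156) (nat_lit 4) (nat_lit 5) (nat_lit 5) (nat_lit 5) (nat_lit 6) (nat_lit 4) (nat_lit 296) (nat_lit 247) (nat_lit 177)) (XT.nd (nat_lit 78) (nat_lit 0) (nat_lit 0) (XT.lf (nat_lit 0) (nat_lit 29380323514) (nat_lit 152) (nat_lit 85215631282) (nat_lit 0) (nat_lit 1052938841) (nat_lit 4) (nat_lit 5) (nat_lit 6) (nat_lit 4) (nat_lit 4) (nat_lit 4) (nat_lit 297) (nat_lit 247) (nat_lit 176)) (XT.lf (nat_lit 0) (nat_lit 38896313547) (nat_lit 152) (nat_lit 74674052490) (nat_lit 0) (nat_lit 10560003437) (nat_lit 4) (nat_lit 5) (nat_lit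 6) (nat_lit 4) (nat_lit 4) (nat_lit 4) (nat_lit 298) (nat_lit 247) (nat_lit 175)))) (XT.nd (nat_lit 78) (nat_lit 0) (nat_lit 0) (XT.lf (nat_lit 0) (nat_lit 49167923948) (nat_lit 152) (nat_lit 63299551656) (nat_lit 0) (nat_lit 20823349545) (nat_lit 4) (nat_lit 5) (nat_lit 6) (nat_lit 4) (nat_lit 4) (nat_lit 4) (nat_lit 299) (nat_lit 247) (nat_lit 174)) (XT.nd (nat_lit 78) (nat_lit 0) (nat_lit 0) (XT.lf (nat_lit 0) (nat_lit 60256023520) (nat_lit 152) (nat_lit 51024724331) (nat_lit 0) (nat_lit 31903796994) (nat_lit 4) (nat_lit 5) (nat_lit 6) (nat_lit 4) (nat_lit 4) (nat_lit 4) (nat_lit 300) (nat_lit 247) (nat_lit 173)) (XT.lf (nat_lit 0) (nat_lit 72226319520) (nat_lit 152) (nat_lit 37776830796) (nat_lit 0) (nat_lit 43867007695) (nat_lit 4) (nat_lit 5) (nat_lit 6) (nat_lit 4) (nat_lit 4) (nat_lit 4) (nat_lit 301) (nat_lit 247) (nat_lit 172))))) (XT.nd (nat_lit 234) (nat_lit 0) (nat_lit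 0) (XT.nd (nat_lit 78) (nat_lit 76) (nat_lit 0) (XT.lf (nat_lit 0) (nat_lit 85149747035) (nat_lit 152) (nat_lit 23477365017) (nat_lit 0) (nat_lit 56783874747) (nat_lit 4) (nat_lit 5) (nat_lit 6) (nat_lit 4) (nat_lit 4) (nat_lit 4) (nat_lit 302) (nat_lit 247) (nat_lit 171)) (XT.nd (nat_lit 78) (nat_lit 76) (nat_lit 0) (XT.lf (nat_lit 0) (nat_lit 99102889339) (nat_lit 152) (nat_lit 8041589418) (nat_lit 0) (nat_lit 70730942549) (nat_lit 4) (nat_lit 5) (nat_lit 6) (nat_lit 4) (nat_lit 4) (nat_lit 4) (nat_lit 303) (nat_lit 247) (nat_lit 170)) (XT.lf (nat_lit 0) (nat_lit 9075984779) (nat_lit 76) (nat_lit 105310724592) (nat_lit 76) (nat_lit 76933153264) (nat_lit 3) (nat_lit 4) (nat_lit 4) (nat_lit 5) (nat_lit 4) (nat_lit 4) (nat_lit 304) (nat_lit 247) (nat_lit 169)))) (XT.nd (nat_lit 78) (nat_lit 0) (nat_lit 0) (XT.lf (nat_lit 0) (nat_lit 28013395528) (nat_lit 76) (nat_lit 103095978773) (nat_lit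 76) (nat_lit 74713199538) (nat_lit 3) (nat_lit 4) (nat_lit 4) (nat_lit 5) (nat_lit 4) (nat_lit 4) (nat_lit 305) (nat_lit 247) (nat_lit 168)) (XT.nd (nat_lit 78) (nat_lit 0) (nat_lit 0) (XT.lf (nat_lit 0) (nat_lit 48459408673) (nat_lit 76) (nat_lit 100706988186) (nat_lit 76) (nat_lit 72319386815) (nat_lit 3) (nat_lit 4) (nat_lit 4) (nat_lit 5) (nat_lit 4) (nat_lit 4) (nat_lit 306) (nat_lit 247) (nat_lit 167)) (XT.lf (nat_lit 0) (nat_lit 70535185775) (nat_lit 76) (nat_lit 98129595850) (nat_lit 76) (nat_lit 69737529538) (nat_lit 3) (nat_lit 4) (nat_lit 4) (nat_lit 5) (nat_lit 4) (nat_lit 4) (nat_lit 307) (nat_lit 247) (nat_lit 166)))))) (XT.nd (nat_lit 468) (nat_lit 0) (nat_lit 0) (XT.nd (nat_lit 234) (nat_lit 0) (nat_lit 0) (XT.nd (nat_lit 78) (nat_lit 0) (nat_lit 0) (XT.lf (nat_lit 0) (nat_lit 94371546252) (nat_lit 76) (nat_lit 95348528327) (nat_lit 76) (nat_lit 66952327812) (nat_lit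 3) (nat_lit 4) (nat_lit 4) (nat_lit 5) (nat_lit 4) (nat_lit 4) (nat_lit 308) (nat_lit 247) (nat_lit 165)) (XT.nd (nat_lit 78) (nat_lit 0) (nat_lit 0) (XT.lf (nat_lit 0) (nat_lit 120109742611) (nat_lit 76) (nat_lit 92347305219) (nat_lit 76) (nat_lit 63947276737) (nat_lit 3) (nat_lit 4) (nat_lit 4) (nat_lit 5) (nat_lit 4) (nat_lit 4) (nat_lit 309) (nat_lit 247) (nat_lit 164)) (XT.lf (nat_lit 0) (nat_lit 147902297498) (nat_lit 76) (nat_lit 89108141500) (nat_lit 76) (nat_lit 60704568604) (nat_lit 3) (nat_lit 4) (nat_lit 4) (nat_lit 5) (nat_lit 4) (nat_lit 4) (nat_lit 310) (nat_lit 247) (nat_lit 163)))) (XT.nd (nat_lit 78) (nat_lit 0) (nat_lit 0) (XT.lf (nat_lit 0) (nat_lit 177913907534) (nat_lit 76) (nat_lit 85611842125) (nat_lit 76) (nat_lit 57204987364) (nat_lit 3) (nat_lit 4) (nat_lit 4) (nat_lit 5) (nat_lit 4) (nat_lit 4) (nat_lit 311) (nat_lit 247) (nat_lit 162)) (XT.nd (nat_lit 78)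 (nat_lit 0) (nat_lit 0) (XT.lf (nat_lit 0) (nat_lit 210322419296) (nat_lit 76) (nat_lit 81837688283) (nat_lit 76) (nat_lit 53427794759) (nat_lit 3) (nat_lit 4) (nat_lit 4) (nat_lit 5) (nat_lit 4) (nat_lit 4) (nat_lit 312) (nat_lit 247) (nat_lit 161)) (XT.lf (nat_lit 0) (nat_lit 245319883226) (nat_lit 76) (nat_lit 77763314618) (nat_lit 76) (nat_lit 49350607424) (nat_lit 3) (nat_lit 4) (nat_lit 4) (nat_lit 5) (nat_lit 4) (nat_lit 4) (nat_lit 313) (nat_lit 247) (nat_lit 160))))) (XT.nd (nat_lit 234) (nat_lit 0) (nat_lit 0) (XT.nd (nat_lit 78) (nat_lit 0) (nat_lit 0) (XT.lf (nat_lit 0) (nat_lit 283113691701) (nat_lit 76) (nat_lit 73364576693) (nat_lit 76) (nat_lit 44949264249) (nat_lit 3) (nat_lit 4) (nat_lit 4) (nat_lit 5) (nat_lit 4) (nat_lit 4) (nat_lit 314) (nat_lit 247) (nat_lit 159)) (XT.nd (nat_lit 78) (nat_lit 0) (nat_lit 0) (XT.lf (nat_lit 0) (nat_lit 323927808032) (nat_lit 76)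 (nat_lit 68615407914) (nat_lit 76) (nat_lit 40197683202) (nat_lit 3) (nat_lit 4) (nat_lit 4) (nat_lit 5) (nat_lit 4) (nat_lit 4) (nat_lit 315) (nat_lit 247) (nat_lit 158)) (XT.lf (nat_lit 0) (nat_lit 368004093648) (nat_lit 76) (nat_lit 63487665058) (nat_lit 76) (nat_lit 35067706764) (nat_lit 3) (nat_lit 4) (nat_lit 4) (nat_lit 5) (nat_lit 4) (nat_lit 4) (nat_lit 316) (nat_lit 247) (nat_lit 157)))) (XT.nd (nat_lit 156) (nat_lit 0) (nat_lit 0) (XT.nd (nat_lit 78) (nat_lit 0) (nat_lit 0) (XT.lf (nat_lit 0) (nat_lit 415603741353) (nat_lit 76) (nat_lit 57950961500) (nat_lit 76) (nat_lit 29528935075) (nat_lit 3) (nat_lit 4) (nat_lit 4) (nat_lit 5) (nat_lit 4) (nat_lit 4) (nat_lit 317) (nat_lit 247) (nat_lit 156)) (XT.lf (nat_lit 0) (nat_lit 467008823134) (nat_lit 76) (nat_lit 51972487146) (nat_lit 76) (nat_lit 23548545784) (nat_lit 3) (nat_lit 4) (nat_lit 4) (nat_lit 5) (nat_lit 4) (nat_lit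 4) (nat_lit 318) (nat_lit 247) (nat_lit 155))) (XT.nd (nat_lit 78) (nat_lit 0) (nat_lit 0) (XT.lf (nat_lit 0) (nat_lit 522523961697) (nat_lit 76) (nat_lit 45516813999) (nat_lit 76) (nat_lit 17091099548) (nat_lit 3) (nat_lit 4) (nat_lit 4) (nat_lit 5) (nat_lit 4) (nat_lit 4) (nat_lit 319) (nat_lit 247) (nat_lit 154)) (XT.lf (nat_lit 0) (nat_lit 582478135641) (nat_lit 76) (nat_lit 38545686219) (nat_lit 76) (nat_lit 10118330018) (nat_lit 3) (nat_lit 4) (nat_lit 4) (nat_lit 5) (nat_lit 4) (nat_lit 4) (nat_lit 320) (nat_lit 247) (nat_lit 153))))))) (XT.nd (nat_lit 1014) (nat_lit 0) (nat_lit 0) (XT.nd (nat_lit 468) (nat_lit 0) (nat_lit 0) (XT.nd (nat_lit 234) (nat_lit 76) (nat_lit 0) (XT.nd (nat_lit 78) (nat_lit 76) (nat_lit 0) (XT.lf (nat_lit 0) (nat_lit 647226628960) (nat_lit 76) (nat_lit 31017793418) (nat_lit 76) (nat_lit 2588917079) (nat_lit 3) (nat_lit 4) (nat_lit 4) (nat_lit 5) (nat_lit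 4) (nat_lit 4) (nat_lit 321) (nat_lit 247) (nat_lit 152)) (XT.nd (nat_lit 78) (nat_lit 0) (nat_lit 0) (XT.lf (nat_lit 0) (nat_lit 5264536832) (nat_lit 152) (nat_lit 17480047263) (nat_lit 76) (nat_lit 711744657831) (nat_lit 2) (nat_lit 5) (nat_lit 4) (nat_lit 5) (nat_lit 3) (nat_lit 4) (nat_lit 322) (nat_lit 247) (nat_lit 151)) (XT.lf (nat_lit 0) (nat_lit 13605438741) (nat_lit 152) (nat_lit 132274565) (nat_lit 76) (nat_lit 778694601805) (nat_lit 2) (nat_lit 5) (nat_lit 4) (nat_lit 5) (nat_lit 3) (nat_lit 4) (nat_lit 323) (nat_lit 247) (nat_lit 150)))) (XT.nd (nat_lit 78) (nat_lit 0) (nat_lit 0) (XT.lf (nat_lit 0) (nat_lit 19581203851) (nat_lit 76) (nat_lit 3502448905) (nat_lit 152) (nat_lit 831889579424) (nat_lit 1) (nat_lit 5) (nat_lit 2) (nat_lit 5) (nat_lit 3) (nat_lit 4) (nat_lit 324) (nat_lit 247) (nat_lit 149)) (XT.nd (nat_lit 78) (nat_lit 0) (nat_lit 0) (XT.lf (nat_lit 0) (nat_lit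 33504572325) (nat_lit 152) (nat_lit 881821218807) (nat_lit 0) (nat_lit 7176876743) (nat_lit 1) (nat_lit 5) (nat_lit 3) (nat_lit 4) (nat_lit 1) (nat_lit 4) (nat_lit 325) (nat_lit 247) (nat_lit 148)) (XT.lf (nat_lit 0) (nat_lit 44849324113) (nat_lit 152) (nat_lit 932057252087) (nat_lit 0) (nat_lit 18520670585) (nat_lit 1) (nat_lit 5) (nat_lit 3) (nat_lit 4) (nat_lit 1) (nat_lit 4) (nat_lit 326) (nat_lit 247) (nat_lit 147))))) (XT.nd (nat_lit 234) (nat_lit 0) (nat_lit 0) (XT.nd (nat_lit 78) (nat_lit 0) (nat_lit 0) (XT.lf (nat_lit 0) (nat_lit 57100902296) (nat_lit 152) (nat_lit 986313589200) (nat_lit 0) (nat_lit 30771361783) (nat_lit 1) (nat_lit 5) (nat_lit 3) (nat_lit 4) (nat_lit 1) (nat_lit 4) (nat_lit 327) (nat_lit 247) (nat_lit 146)) (XT.nd (nat_lit 78) (nat_lit 0) (nat_lit 0) (XT.lf (nat_lit 0) (nat_lit 70331908822) (nat_lit 152) (nat_lit 1044911749181) (nat_lit 0) (nat_lit 44001547024)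 (nat_lit 1) (nat_lit 5) (nat_lit 3) (nat_lit 4) (nat_lit 1) (nat_lit 4) (nat_lit 328) (nat_lit 247) (nat_lit 145)) (XT.lf (nat_lit 0) (nat_lit 84620749653) (nat_lit 152) (nat_lit 1108198980386) (nat_lit 0) (nat_lit 58289627408) (nat_lit 1) (nat_lit 5) (nat_lit 3) (nat_lit 4) (nat_lit 1) (nat_lit 4) (nat_lit 329) (nat_lit 247) (nat_lit 144)))) (XT.nd (nat_lit 156) (nat_lit 0) (nat_lit 0) (XT.nd (nat_lit 78) (nat_lit 0) (nat_lit 0) (XT.lf (nat_lit 0) (nat_lit 100052099402) (nat_lit 152) (nat_lit 1176550318258) (nat_lit 0) (nat_lit 73720273039) (nat_lit 1) (nat_lit 5) (nat_lit 3) (nat_lit 4) (nat_lit 1) (nat_lit 4) (nat_lit 330) (nat_lit 247) (nat_lit 143)) (XT.lf (nat_lit 0) (nat_lit 116717403106) (nat_lit 152) (nat_lit 1250370807763) (nat_lit 0) (nat_lit 90384924782) (nat_lit 1) (nat_lit 5) (nat_lit 3) (nat_lit 4) (nat_lit 1) (nat_lit 4) (nat_lit 331) (nat_lit 247) (nat_lit 142))) (XT.nd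 (nat_lit 78) (nat_lit 0) (nat_lit 0) (XT.lf (nat_lit 0) (nat_lit 134715418118) (nat_lit 152) (nat_lit 1330097903653) (nat_lit 0) (nat_lit 108382336126) (nat_lit 1) (nat_lit 5) (nat_lit 3) (nat_lit 4) (nat_lit 1) (nat_lit 4) (nat_lit 332) (nat_lit 247) (nat_lit 141)) (XT.lf (nat_lit 0) (nat_lit 154152799344) (nat_lit 152) (nat_lit 1416204062793) (nat_lit 0) (nat_lit 127819158400) (nat_lit 1) (nat_lit 5) (nat_lit 3) (nat_lit 4) (nat_lit 1) (nat_lit 4) (nat_lit 333) (nat_lit 247) (nat_lit 140)))))) (XT.nd (nat_lit 30810) (nat_lit 0) (nat_lit 3192) (XT.nd (nat_lit 234) (nat_lit 0) (nat_lit 0) (XT.nd (nat_lit 78) (nat_lit 0) (nat_lit 0) (XT.lf (nat_lit 0) (nat_lit 175144731264) (nat_lit 152) (nat_lit 1509199543904) (nat_lit 0) (nat_lit 148810572772) (nat_lit 1) (nat_lit 5) (nat_lit 3) (nat_lit 4) (nat_lit 1) (nat_lit 4) (nat_lit 334) (nat_lit 247) (nat_lit 139)) (XT.nd (nat_lit 78) (nat_lit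 0) (nat_lit 0) (XT.lf (nat_lit 0) (nat_lit 197815610511) (nat_lit 152) (nat_lit 1609635431319) (nat_lit 0) (nat_lit 171480972809) (nat_lit 1) (nat_lit 5) (nat_lit 3) (nat_lit 4) (nat_lit 1) (nat_lit 4) (nat_lit 335) (nat_lit 247) (nat_lit 138)) (XT.lf (nat_lit 0) (nat_lit 222299783038) (nat_lit 152) (nat_lit 1718106900666) (nat_lit 0) (nat_lit 195964701621) (nat_lit 1) (nat_lit 5) (nat_lit 3) (nat_lit 4) (nat_lit 1) (nat_lit 4) (nat_lit 336) (nat_lit 247) (nat_lit 137)))) (XT.nd (nat_lit 78) (nat_lit 0) (nat_lit 0) (XT.lf (nat_lit 0) (nat_lit 248742340236) (nat_lit 152) (nat_lit 1835256745837) (nat_lit 0) (nat_lit 222406847973) (nat_lit 1) (nat_lit 5) (nat_lit 3) (nat_lit 4) (nat_lit 1) (nat_lit 4) (nat_lit 337) (nat_lit 247) (nat_lit 136)) (XT.nd (nat_lit 78) (nat_lit 0) (nat_lit 0) (XT.lf (nat_lit 0) (nat_lit 277299978741) (nat_lit 152) (nat_lit 1961779188138) (nat_lit 0) (nat_lit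 250964106066) (nat_lit 1) (nat_lit 5) (nat_lit 3) (nat_lit 4) (nat_lit 1) (nat_lit 4) (nat_lit 338) (nat_lit 247) (nat_lit 135)) (XT.lf (nat_lit 0) (nat_lit 308141929004) (nat_lit 152) (nat_lit 2098423990190) (nat_lit 0) (nat_lit 281805704094) (nat_lit 1) (nat_lit 5) (nat_lit 3) (nat_lit 4) (nat_lit 1) (nat_lit 4) (nat_lit 339) (nat_lit 247) (nat_lit 134))))) (XT.nd (nat_lit 234) (nat_lit 0) (nat_lit 0) (XT.nd (nat_lit 78) (nat_lit 0) (nat_lit 0) (XT.lf (nat_lit 0) (nat_lit 487704441) (nat_lit 0) (nat_lit 487704441) (nat_lit 380) (nat_lit 3193651202) (nat_lit 43) (nat_lit 5) (nat_lit 43) (nat_lit 3) (nat_lit 48) (nat_lit 3) (nat_lit 248) (nat_lit 248) (nat_lit 224)) (XT.nd (nat_lit 78) (nat_lit 0) (nat_lit 0) (XT.lf (nat_lit 0) (nat_lit 3053391331) (nat_lit 380) (nat_lit 3784757634) (nat_lit 456) (nat_lit 1745751324) (nat_lit 43) (nat_lit 5) (nat_lit 48) (nat_lit 3) (nat_lit 49) (nat_lit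 5) (nat_lit 249) (nat_lit 248) (nat_lit 223)) (XT.lf (nat_lit 0) (nat_lit 4172603893) (nat_lit 380) (nat_lit 4548174) (nat_lit 456) (nat_lit 4678494522) (nat_lit 43) (nat_lit 5) (nat_lit 48) (nat_lit 3) (nat_lit 49) (nat_lit 5) (nat_lit 250) (nat_lit 248) (nat_lit 222)))) (XT.nd (nat_lit 156) (nat_lit 0) (nat_lit 76) (XT.nd (nat_lit 78) (nat_lit 0) (nat_lit 76) (XT.lf (nat_lit 76) (nat_lit 4235661902) (nat_lit 0) (nat_lit 1157835085) (nat_lit 456) (nat_lit 3755199699) (nat_lit 44) (nat_lit 5) (nat_lit 43) (nat_lit 5) (nat_lit 49) (nat_lit 5) (nat_lit 251) (nat_lit 248) (nat_lit 221)) (XT.lf (nat_lit 0) (nat_lit 6679171845) (nat_lit 380) (nat_lit 761340608) (nat_lit 456) (nat_lit 2027805414) (nat_lit 44) (nat_lit 5) (nat_lit 49) (nat_lit 5) (nat_lit 50) (nat_lit 5) (nat_lit 252) (nat_lit 248) (nat_lit 220))) (XT.nd (nat_lit 78) (nat_lit 0) (nat_lit 0) (XT.lf (nat_lit 76) (nat_lit 3827467829)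 (nat_lit 0) (nat_lit 4284954300) (nat_lit 456) (nat_lit 1697968067) (nat_lit 45) (nat_lit 5) (nat_lit 44) (nat_lit 5) (nat_lit 50) (nat_lit 5) (nat_lit 253) (nat_lit 248) (nat_lit 219)) (XT.lf (nat_lit 76) (nat_lit 8771694160) (nat_lit 0) (nat_lit 836462944) (nat_lit 456) (nat_lit 576270389) (nat_lit 45) (nat_lit 5) (nat_lit 44) (nat_lit 5) (nat_lit 50) (nat_lit 5) (nat_lit 254) (nat_lit 248) (nat_lit 218))))))))
noncomputable def xc65 : XT := (XT.nd (nat_lit 1950) (nat_lit 608) (nat_lit 0) (XT.nd (nat_lit 936) (nat_lit 836) (nat_lit 0) (XT.nd (nat_lit 468) (nat_lit 608) (nat_lit 0) (XT.nd (nat_lit 234) (nat_lit 228) (nat_lit 0) (XT.nd (nat_lit 78) (nat_lit 456) (nat_lit 0) (XT.lf (nat_lit 0) (nat_lit 693565828) (nat_lit 456) (nat_lit 7023922427) (nat_lit 76) (nat_lit 2862827875) (nat_lit 39) (nat_lit 5) (nat_lit 45) (nat_lit 5) (nat_lit 40) (nat_lit 5) (nat_lit 255) (nat_lit 248)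 (nat_lit 217)) (XT.nd (nat_lit 78) (nat_lit 456) (nat_lit 0) (XT.lf (nat_lit 0) (nat_lit 2029668620) (nat_lit 456) (nat_lit 2098545444) (nat_lit 76) (nat_lit 6879136791) (nat_lit 39) (nat_lit 5) (nat_lit 45) (nat_lit 5) (nat_lit 40) (nat_lit 5) (nat_lit 256) (nat_lit 248) (nat_lit 216)) (XT.lf (nat_lit 0) (nat_lit 3332515431) (nat_lit 456) (nat_lit 159603329) (nat_lit 532) (nat_lit 7975185370) (nat_lit 33) (nat_lit 5) (nat_lit 39) (nat_lit 5) (nat_lit 40) (nat_lit 5) (nat_lit 257) (nat_lit 248) (nat_lit 215)))) (XT.nd (nat_lit 78) (nat_lit 228) (nat_lit 0) (XT.lf (nat_lit 0) (nat_lit 5172284483) (nat_lit 532) (nat_lit 2801427220) (nat_lit 76) (nat_lit 3982573753) (nat_lit 33) (nat_lit 5) (nat_lit 40) (nat_lit 5) (nat_lit 34) (nat_lit 5) (nat_lit 258) (nat_lit 248) (nat_lit 214)) (XT.nd (nat_lit 78) (nat_lit 0) (nat_lit 0) (XT.lf (nat_lit 0) (nat_lit 3052880220) (nat_lit 228) (nat_lit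 3958410761) (nat_lit 304) (nat_lit 5471408025) (nat_lit 30) (nat_lit 5) (nat_lit 33) (nat_lit 5) (nat_lit 34) (nat_lit 5) (nat_lit 259) (nat_lit 248) (nat_lit 213)) (XT.lf (nat_lit 0) (nat_lit 9034562060) (nat_lit 304) (nat_lit 3578476915) (nat_lit 76) (nat_lit 435463216) (nat_lit 30) (nat_lit 5) (nat_lit 34) (nat_lit 5) (nat_lit 31) (nat_lit 5) (nat_lit 260) (nat_lit 248) (nat_lit 212))))) (XT.nd (nat_lit 234) (nat_lit 152) (nat_lit 0) (XT.nd (nat_lit 78) (nat_lit 304) (nat_lit 0) (XT.lf (nat_lit 0) (nat_lit 2721376165) (nat_lit 152) (nat_lit 8619791934) (nat_lit 228) (nat_lit 2308913367) (nat_lit 28) (nat_lit 5) (nat_lit 30) (nat_lit 5) (nat_lit 31) (nat_lit 5) (nat_lit 261) (nat_lit 248) (nat_lit 211)) (XT.nd (nat_lit 78) (nat_lit 304) (nat_lit 0) (XT.lf (nat_lit 0) (nat_lit 9677153722) (nat_lit 152) (nat_lit 4208424729) (nat_lit 228) (nat_lit 410159251) (nat_lit 28) (nat_lit 5)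 (nat_lit 30) (nat_lit 5) (nat_lit 31) (nat_lit 5) (nat_lit 262) (nat_lit 248) (nat_lit 210)) (XT.lf (nat_lit 0) (nat_lit 1584836116) (nat_lit 304) (nat_lit 12787148948) (nat_lit 76) (nat_lit 615974987) (nat_lit 24) (nat_lit 5) (nat_lit 28) (nat_lit 5) (nat_lit 25) (nat_lit 5) (nat_lit 263) (nat_lit 248) (nat_lit 209)))) (XT.nd (nat_lit 78) (nat_lit 152) (nat_lit 0) (XT.lf (nat_lit 0) (nat_lit 3915390860) (nat_lit 304) (nat_lit 6072397966) (nat_lit 76) (nat_lit 5731238398) (nat_lit 24) (nat_lit 5) (nat_lit 28) (nat_lit 5) (nat_lit 25) (nat_lit 5) (nat_lit 264) (nat_lit 248) (nat_lit 208)) (XT.nd (nat_lit 78) (nat_lit 0) (nat_lit 0) (XT.lf (nat_lit 0) (nat_lit 1190846924) (nat_lit 152) (nat_lit 5232450541) (nat_lit 228) (nat_lit 10086166037) (nat_lit 22) (nat_lit 5) (nat_lit 24) (nat_lit 5) (nat_lit 25) (nat_lit 5) (nat_lit 265) (nat_lit 248) (nat_lit 207)) (XT.lf (nat_lit 0) (nat_lit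 9263521531) (nat_lit 228) (nat_lit 8021147347) (nat_lit 76) (nat_lit 68075759) (nat_lit 22) (nat_lit 5) (nat_lit 25) (nat_lit 5) (nat_lit 23) (nat_lit 5) (nat_lit 266) (nat_lit 248) (nat_lit 206)))))) (XT.nd (nat_lit 468) (nat_lit 304) (nat_lit 0) (XT.nd (nat_lit 234) (nat_lit 380) (nat_lit 0) (XT.nd (nat_lit 78) (nat_lit 152) (nat_lit 0) (XT.lf (nat_lit 0) (nat_lit 12433230237) (nat_lit 228) (nat_lit 321901293) (nat_lit 76) (nat_lit 5500309422) (nat_lit 22) (nat_lit 5) (nat_lit 25) (nat_lit 5) (nat_lit 23) (nat_lit 5) (nat_lit 267) (nat_lit 248) (nat_lit 205)) (XT.nd (nat_lit 78) (nat_lit 0) (nat_lit 0) (XT.lf (nat_lit 0) (nat_lit 8369251144) (nat_lit 152) (nat_lit 7657396027) (nat_lit 228) (nat_lit 3190219378) (nat_lit 20) (nat_lit 5) (nat_lit 22) (nat_lit 5) (nat_lit 23) (nat_lit 5) (nat_lit 268) (nat_lit 248) (nat_lit 204)) (XT.lf (nat_lit 0) (nat_lit 17732386389) (nat_lit 152)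 (nat_lit 2154109738) (nat_lit 228) (nat_lit 370508279) (nat_lit 20) (nat_lit 5) (nat_lit 22) (nat_lit 5) (nat_lit 23) (nat_lit 5) (nat_lit 269) (nat_lit 248) (nat_lit 203)))) (XT.nd (nat_lit 78) (nat_lit 152) (nat_lit 0) (XT.lf (nat_lit 0) (nat_lit 2770240164) (nat_lit 228) (nat_lit 14766754998) (nat_lit 76) (nat_lit 3819969260) (nat_lit 17) (nat_lit 5) (nat_lit 20) (nat_lit 5) (nat_lit 18) (nat_lit 5) (nat_lit 270) (nat_lit 248) (nat_lit 202)) (XT.nd (nat_lit 78) (nat_lit 152) (nat_lit 0) (XT.lf (nat_lit 0) (nat_lit 6241434125) (nat_lit 228) (nat_lit 6070069812) (nat_lit 76) (nat_lit 10224802415) (nat_lit 17) (nat_lit 5) (nat_lit 20) (nat_lit 5) (nat_lit 18) (nat_lit 5) (nat_lit 271) (nat_lit 248) (nat_lit 201)) (XT.lf (nat_lit 0) (nat_lit 3457236178) (nat_lit 152) (nat_lit 6590707515) (nat_lit 228) (nat_lit 13757526796) (nat_lit 15) (nat_lit 5) (nat_lit 17) (nat_lit 5) (nat_lit 18)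 (nat_lit 5) (nat_lit 272) (nat_lit 248) (nat_lit 200))))) (XT.nd (nat_lit 234) (nat_lit 228) (nat_lit 0) (XT.nd (nat_lit 78) (nat_lit 76) (nat_lit 0) (XT.lf (nat_lit 0) (nat_lit 14054841450) (nat_lit 152) (nat_lit 245571228) (nat_lit 228) (nat_lit 10864518191) (nat_lit 15) (nat_lit 5) (nat_lit 17) (nat_lit 5) (nat_lit 18) (nat_lit 5) (nat_lit 273) (nat_lit 248) (nat_lit 199)) (XT.nd (nat_lit 78) (nat_lit 76) (nat_lit 0) (XT.lf (nat_lit 0) (nat_lit 19028991120) (nat_lit 228) (nat_lit 1327752736) (nat_lit 76) (nat_lit 6265603678) (nat_lit 15) (nat_lit 5) (nat_lit 18) (nat_lit 5) (nat_lit 16) (nat_lit 4) (nat_lit 274) (nat_lit 248) (nat_lit 198)) (XT.lf (nat_lit 0) (nat_lit 9681822823) (nat_lit 76) (nat_lit 14671971777) (nat_lit 152) (nat_lit 3825194876) (nat_lit 14) (nat_lit 5) (nat_lit 15) (nat_lit 5) (nat_lit 16) (nat_lit 4) (nat_lit 275) (nat_lit 248) (nat_lit 197)))) (XT.nd (nat_lit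 156) (nat_lit 0) (nat_lit 0) (XT.nd (nat_lit 78) (nat_lit 152) (nat_lit 0) (XT.lf (nat_lit 0) (nat_lit 248356211) (nat_lit 152) (nat_lit 8250023211) (nat_lit 76) (nat_lit 21360077494) (nat_lit 13) (nat_lit 5) (nat_lit 15) (nat_lit 5) (nat_lit 14) (nat_lit 5) (nat_lit 276) (nat_lit 248) (nat_lit 196)) (XT.lf (nat_lit 0) (nat_lit 2827869373) (nat_lit 152) (nat_lit 1661751567) (nat_lit 228) (nat_lit 27170886422) (nat_lit 11) (nat_lit 5) (nat_lit 13) (nat_lit 5) (nat_lit 14) (nat_lit 5) (nat_lit 277) (nat_lit 248) (nat_lit 195))) (XT.nd (nat_lit 78) (nat_lit 0) (nat_lit 0) (XT.lf (nat_lit 0) (nat_lit 9420143646) (nat_lit 228) (nat_lit 18502581551) (nat_lit 76) (nat_lit 5656049385) (nat_lit 11) (nat_lit 5) (nat_lit 14) (nat_lit 5) (nat_lit 12) (nat_lit 4) (nat_lit 278) (nat_lit 248) (nat_lit 194)) (XT.lf (nat_lit 0) (nat_lit 14770602019) (nat_lit 228) (nat_lit 7418557298) (nat_lit 76) (nat_lit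 13459349984) (nat_lit 11) (nat_lit 5) (nat_lit 14) (nat_lit 5) (nat_lit 12) (nat_lit 4) (nat_lit 279) (nat_lit 248) (nat_lit 193))))))) (XT.nd (nat_lit 1014) (nat_lit 228) (nat_lit 0) (XT.nd (nat_lit 468) (nat_lit 152) (nat_lit 0) (XT.nd (nat_lit 234) (nat_lit 152) (nat_lit 0) (XT.nd (nat_lit 78) (nat_lit 0) (nat_lit 0) (XT.lf (nat_lit 0) (nat_lit 4763365893) (nat_lit 76) (nat_lit 15883930486) (nat_lit 152) (nat_lit 17228712725) (nat_lit 10) (nat_lit 5) (nat_lit 11) (nat_lit 5) (nat_lit 12) (nat_lit 4) (nat_lit 280) (nat_lit 248) (nat_lit 192)) (XT.nd (nat_lit 78) (nat_lit 0) (nat_lit 0) (XT.lf (nat_lit 0) (nat_lit 18315323237) (nat_lit 76) (nat_lit 8865856248) (nat_lit 152) (nat_lit 13085604272) (nat_lit 10) (nat_lit 5) (nat_lit 11) (nat_lit 5) (nat_lit 12) (nat_lit 4) (nat_lit 281) (nat_lit 248) (nat_lit 191)) (XT.lf (nat_lit 0) (nat_lit 32926974548) (nat_lit 76) (nat_lit 1296184519)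 (nat_lit 152) (nat_lit 8626866672) (nat_lit 10) (nat_lit 5) (nat_lit 11) (nat_lit 5) (nat_lit 12) (nat_lit 4) (nat_lit 282) (nat_lit 248) (nat_lit 190)))) (XT.nd (nat_lit 78) (nat_lit 76) (nat_lit 0) (XT.lf (nat_lit 0) (nat_lit 3030226150) (nat_lit 76) (nat_lit 39022838505) (nat_lit 76) (nat_lit 3568930553) (nat_lit 9) (nat_lit 4) (nat_lit 10) (nat_lit 5) (nat_lit 10) (nat_lit 4) (nat_lit 283) (nat_lit 248) (nat_lit 189)) (XT.nd (nat_lit 78) (nat_lit 0) (nat_lit 0) (XT.lf (nat_lit 0) (nat_lit 2097282048) (nat_lit 152) (nat_lit 31119874286) (nat_lit 76) (nat_lit 15371081756) (nat_lit 8) (nat_lit 5) (nat_lit 10) (nat_lit 5) (nat_lit 9) (nat_lit 4) (nat_lit 284) (nat_lit 248) (nat_lit 188)) (XT.lf (nat_lit 0) (nat_lit 8011329587) (nat_lit 152) (nat_lit 18844871139) (nat_lit 76) (nat_lit 24929202111) (nat_lit 8) (nat_lit 5) (nat_lit 10) (nat_lit 5) (nat_lit 9) (nat_lit 4) (nat_lit 285)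 (nat_lit 248) (nat_lit 187))))) (XT.nd (nat_lit 234) (nat_lit 76) (nat_lit 0) (XT.nd (nat_lit 78) (nat_lit 76) (nat_lit 0) (XT.lf (nat_lit 0) (nat_lit 14386790634) (nat_lit 152) (nat_lit 5608185991) (nat_lit 76) (nat_lit 35244325615) (nat_lit 8) (nat_lit 5) (nat_lit 10) (nat_lit 5) (nat_lit 9) (nat_lit 4) (nat_lit 286) (nat_lit 248) (nat_lit 186)) (XT.nd (nat_lit 78) (nat_lit 0) (nat_lit 0) (XT.lf (nat_lit 0) (nat_lit 9125094979) (nat_lit 76) (nat_lit 12355809471) (nat_lit 152) (nat_lit 37471942703) (nat_lit 7) (nat_lit 5) (nat_lit 8) (nat_lit 5) (nat_lit 9) (nat_lit 4) (nat_lit 287) (nat_lit 248) (nat_lit 185)) (XT.lf (nat_lit 0) (nat_lit 25337644021) (nat_lit 76) (nat_lit 3947760399) (nat_lit 152) (nat_lit 33666663809) (nat_lit 7) (nat_lit 5) (nat_lit 8) (nat_lit 5) (nat_lit 9) (nat_lit 4) (nat_lit 288) (nat_lit 248) (nat_lit 184)))) (XT.nd (nat_lit 156) (nat_lit 76) (nat_lit 0)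 (XT.nd (nat_lit 78) (nat_lit 0) (nat_lit 0) (XT.lf (nat_lit 0) (nat_lit 37827832248) (nat_lit 152) (nat_lit 24565076753) (nat_lit 0) (nat_lit 4869252134) (nat_lit 7) (nat_lit 5) (nat_lit 9) (nat_lit 4) (nat_lit 7) (nat_lit 4) (nat_lit 289) (nat_lit 248) (nat_lit 183)) (XT.lf (nat_lit 0) (nat_lit 47147046038) (nat_lit 152) (nat_lit 10590616653) (nat_lit 0) (nat_lit 14171945563) (nat_lit 7) (nat_lit 5) (nat_lit 9) (nat_lit 4) (nat_lit 7) (nat_lit 4) (nat_lit 290) (nat_lit 248) (nat_lit 182))) (XT.nd (nat_lit 78) (nat_lit 0) (nat_lit 0) (XT.lf (nat_lit 0) (nat_lit 4722973713) (nat_lit 76) (nat_lit 52593940946) (nat_lit 76) (nat_lit 19603543842) (nat_lit 6) (nat_lit 4) (nat_lit 7) (nat_lit 5) (nat_lit 7) (nat_lit 4) (nat_lit 291) (nat_lit 248) (nat_lit 181)) (XT.lf (nat_lit 0) (nat_lit 21849242242) (nat_lit 76) (nat_lit 46732500556) (nat_lit 76) (nat_lit 13727939906) (nat_lit 6) (nat_lit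 4) (nat_lit 7) (nat_lit 5) (nat_lit 7) (nat_lit 4) (nat_lit 292) (nat_lit 248) (nat_lit 180)))))) (XT.nd (nat_lit 468) (nat_lit 76) (nat_lit 0) (XT.nd (nat_lit 234) (nat_lit 76) (nat_lit 0) (XT.nd (nat_lit 78) (nat_lit 76) (nat_lit 0) (XT.lf (nat_lit 0) (nat_lit 40331994827) (nat_lit 76) (nat_lit 40408173285) (nat_lit 76) (nat_lit 7390498240) (nat_lit 6) (nat_lit 4) (nat_lit 7) (nat_lit 5) (nat_lit 7) (nat_lit 4) (nat_lit 293) (nat_lit 248) (nat_lit 179)) (XT.nd (nat_lit 78) (nat_lit 76) (nat_lit 0) (XT.lf (nat_lit 0) (nat_lit 60280758891) (nat_lit 76) (nat_lit 33583481639) (nat_lit 76) (nat_lit 553663636) (nat_lit 6) (nat_lit 4) (nat_lit 7) (nat_lit 5) (nat_lit 7) (nat_lit 4) (nat_lit 294) (nat_lit 248) (nat_lit 178)) (XT.lf (nat_lit 0) (nat_lit 6481760462) (nat_lit 152) (nat_lit 19558999720) (nat_lit 76) (nat_lit 75154766052) (nat_lit 5) (nat_lit 5) (nat_lit 7) (nat_lit 5) (nat_lit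 6) (nat_lit 4) (nat_lit 295) (nat_lit 248) (nat_lit 177)))) (XT.nd (nat_lit 78) (nat_lit 76) (nat_lit 0) (XT.lf (nat_lit 0) (nat_lit 14043914492) (nat_lit 152) (nat_lit 3840129967) (nat_lit 76) (nat_lit 90630669054) (nat_lit 5) (nat_lit 5) (nat_lit 7) (nat_lit 5) (nat_lit 6) (nat_lit 4) (nat_lit 296) (nat_lit 248) (nat_lit 176)) (XT.nd (nat_lit 78) (nat_lit 0) (nat_lit 0) (XT.lf (nat_lit 0) (nat_lit 13817116596) (nat_lit 76) (nat_lit 8720493105) (nat_lit 152) (nat_lit 93855710355) (nat_lit 4) (nat_lit 5) (nat_lit 5) (nat_lit 5) (nat_lit 6) (nat_lit 4) (nat_lit 297) (nat_lit 248) (nat_lit 175)) (XT.lf (nat_lit 0) (nat_lit 31841151072) (nat_lit 152) (nat_lit 91829898648) (nat_lit 0) (nat_lit 1220746424) (nat_lit 4) (nat_lit 5) (nat_lit 6) (nat_lit 4) (nat_lit 4) (nat_lit 4) (nat_lit 298) (nat_lit 248) (nat_lit 174))))) (XT.nd (nat_lit 234) (nat_lit 76) (nat_lit 0) (XT.nd (nat_lit 78)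 (nat_lit 0) (nat_lit 0) (XT.lf (nat_lit 0) (nat_lit 42110242405) (nat_lit 152) (nat_lit 80460029341) (nat_lit 0) (nat_lit 11482185634) (nat_lit 4) (nat_lit 5) (nat_lit 6) (nat_lit 4) (nat_lit 4) (nat_lit 4) (nat_lit 299) (nat_lit 248) (nat_lit 173)) (XT.nd (nat_lit 78) (nat_lit 0) (nat_lit 0) (XT.lf (nat_lit 0) (nat_lit 53196009507) (nat_lit 152) (nat_lit 68189490466) (nat_lit 0) (nat_lit 22560867436) (nat_lit 4) (nat_lit 5) (nat_lit 6) (nat_lit 4) (nat_lit 4) (nat_lit 4) (nat_lit 300) (nat_lit 248) (nat_lit 172)) (XT.lf (nat_lit 0) (nat_lit 65164145812) (nat_lit 152) (nat_lit 54945567719) (nat_lit 0) (nat_lit 34522443279) (nat_lit 4) (nat_lit 5) (nat_lit 6) (nat_lit 4) (nat_lit 4) (nat_lit 4) (nat_lit 301) (nat_lit 248) (nat_lit 171)))) (XT.nd (nat_lit 156) (nat_lit 76) (nat_lit 0) (XT.nd (nat_lit 78) (nat_lit 0) (nat_lit 0) (XT.lf (nat_lit 0) (nat_lit 78085573609) (nat_lit 152) (nat_lit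 40649778595) (nat_lit 0) (nat_lit 47437796574) (nat_lit 4) (nat_lit 5) (nat_lit 6) (nat_lit 4) (nat_lit 4) (nat_lit 4) (nat_lit 302) (nat_lit 248) (nat_lit 170)) (XT.lf (nat_lit 0) (nat_lit 92036864323) (nat_lit 152) (nat_lit 25217407306) (nat_lit 0) (nat_lit 61383462749) (nat_lit 4) (nat_lit 5) (nat_lit 6) (nat_lit 4) (nat_lit 4) (nat_lit 4) (nat_lit 303) (nat_lit 248) (nat_lit 169))) (XT.nd (nat_lit 78) (nat_lit 76) (nat_lit 0) (XT.lf (nat_lit 0) (nat_lit 107100692269) (nat_lit 152) (nat_lit 8557002764) (nat_lit 0) (nat_lit 76442082788) (nat_lit 4) (nat_lit 5) (nat_lit 6) (nat_lit 4) (nat_lit 4) (nat_lit 4) (nat_lit 304) (nat_lit 248) (nat_lit 168)) (XT.lf (nat_lit 0) (nat_lit 9926739045) (nat_lit 76) (nat_lit 113678323843) (nat_lit 76) (nat_lit 83014892226) (nat_lit 3) (nat_lit 4) (nat_lit 4) (nat_lit 5) (nat_lit 4) (nat_lit 4) (nat_lit 305) (nat_lit 248) (nat_lit 167))))))))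
noncomputable def xc66 : XT := (XT.nd (nat_lit 1950) (nat_lit 0) (nat_lit 0) (XT.nd (nat_lit 936) (nat_lit 152) (nat_lit 0) (XT.nd (nat_lit 468) (nat_lit 0) (nat_lit 0) (XT.nd (nat_lit 234) (nat_lit 0) (nat_lit 0) (XT.nd (nat_lit 78) (nat_lit 0) (nat_lit 0) (XT.lf (nat_lit 0) (nat_lit 30369907433) (nat_lit 76) (nat_lit 111290639745) (nat_lit 76) (nat_lit 80622743188) (nat_lit 3) (nat_lit 4) (nat_lit 4) (nat_lit 5) (nat_lit 4) (nat_lit 4) (nat_lit 306) (nat_lit 248) (nat_lit 166)) (XT.nd (nat_lit 78) (nat_lit 0) (nat_lit 0) (XT.lf (nat_lit 0) (nat_lit 52443050499) (nat_lit 76) (nat_lit 108714457120) (nat_lit 76) (nat_lit 78042426359) (nat_lit 3) (nat_lit 4) (nat_lit 4) (nat_lit 5) (nat_lit 4) (nat_lit 4) (nat_lit 307) (nat_lit 248) (nat_lit 165)) (XT.lf (nat_lit 0) (nat_lit 76276972055) (nat_lit 76) (nat_lit 105934509702) (nat_lit 76) (nat_lit 75258650974) (nat_lit 3) (nat_lit 4) (nat_lit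 4) (nat_lit 5) (nat_lit 4) (nat_lit 4) (nat_lit 308) (nat_lit 248) (nat_lit 164)))) (XT.nd (nat_lit 78) (nat_lit 0) (nat_lit 0) (XT.lf (nat_lit 0) (nat_lit 102012910154) (nat_lit 76) (nat_lit 102934323727) (nat_lit 76) (nat_lit 72254920586) (nat_lit 3) (nat_lit 4) (nat_lit 4) (nat_lit 5) (nat_lit 4) (nat_lit 4) (nat_lit 309) (nat_lit 248) (nat_lit 163)) (XT.nd (nat_lit 78) (nat_lit 0) (nat_lit 0) (XT.lf (nat_lit 0) (nat_lit 129803374059) (nat_lit 76) (nat_lit 99696120316) (nat_lit 76) (nat_lit 69013435310) (nat_lit 3) (nat_lit 4) (nat_lit 4) (nat_lit 5) (nat_lit 4) (nat_lit 4) (nat_lit 310) (nat_lit 248) (nat_lit 162)) (XT.lf (nat_lit 0) (nat_lit 159813048001) (nat_lit 76) (nat_lit 96200710116) (nat_lit 76) (nat_lit 65514986346) (nat_lit 3) (nat_lit 4) (nat_lit 4) (nat_lit 5) (nat_lit 4) (nat_lit 4) (nat_lit 311) (nat_lit 248) (nat_lit 161))))) (XT.nd (nat_lit 234) (nat_lit 0) (nat_lit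 0) (XT.nd (nat_lit 78) (nat_lit 0) (nat_lit 0) (XT.lf (nat_lit 0) (nat_lit 192219767084) (nat_lit 76) (nat_lit 92427379583) (nat_lit 76) (nat_lit 61738842144) (nat_lit 3) (nat_lit 4) (nat_lit 4) (nat_lit 5) (nat_lit 4) (nat_lit 4) (nat_lit 312) (nat_lit 248) (nat_lit 160)) (XT.nd (nat_lit 78) (nat_lit 0) (nat_lit 0) (XT.lf (nat_lit 0) (nat_lit 227215571124) (nat_lit 76) (nat_lit 88353768242) (nat_lit 76) (nat_lit 57662625553) (nat_lit 3) (nat_lit 4) (nat_lit 4) (nat_lit 5) (nat_lit 4) (nat_lit 4) (nat_lit 313) (nat_lit 248) (nat_lit 159)) (XT.lf (nat_lit 0) (nat_lit 265007842666) (nat_lit 76) (nat_lit 83955736173) (nat_lit 76) (nat_lit 53262181215) (nat_lit 3) (nat_lit 4) (nat_lit 4) (nat_lit 5) (nat_lit 4) (nat_lit 4) (nat_lit 314) (nat_lit 248) (nat_lit 158)))) (XT.nd (nat_lit 78) (nat_lit 0) (nat_lit 0) (XT.lf (nat_lit 0) (nat_lit 305820535910) (nat_lit 76) (nat_lit 79207220964)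 (nat_lit 76) (nat_lit 48511432424) (nat_lit 3) (nat_lit 4) (nat_lit 4) (nat_lit 5) (nat_lit 4) (nat_lit 4) (nat_lit 315) (nat_lit 248) (nat_lit 157)) (XT.nd (nat_lit 78) (nat_lit 0) (nat_lit 0) (XT.lf (nat_lit 0) (nat_lit 349895503852) (nat_lit 76) (nat_lit 74080083265) (nat_lit 76) (nat_lit 43382226594) (nat_lit 3) (nat_lit 4) (nat_lit 4) (nat_lit 5) (nat_lit 4) (nat_lit 4) (nat_lit 316) (nat_lit 248) (nat_lit 156)) (XT.lf (nat_lit 0) (nat_lit 397493931490) (nat_lit 76) (nat_lit 68543940038) (nat_lit 76) (nat_lit 37844168431) (nat_lit 3) (nat_lit 4) (nat_lit 4) (nat_lit 5) (nat_lit 4) (nat_lit 4) (nat_lit 317) (nat_lit 248) (nat_lit 155)))))) (XT.nd (nat_lit 468) (nat_lit 76) (nat_lit 0) (XT.nd (nat_lit 234) (nat_lit 76) (nat_lit 0) (XT.nd (nat_lit 78) (nat_lit 0) (nat_lit 0) (XT.lf (nat_lit 0) (nat_lit 448897883578) (nat_lit 76) (nat_lit 62565984508) (nat_lit 76) (nat_lit 31864439812)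 (nat_lit 3) (nat_lit 4) (nat_lit 4) (nat_lit 5) (nat_lit 4) (nat_lit 4) (nat_lit 318) (nat_lit 248) (nat_lit 154)) (XT.nd (nat_lit 78) (nat_lit 0) (nat_lit 0) (XT.lf (nat_lit 0) (nat_lit 504411976130) (nat_lit 76) (nat_lit 56110791755) (nat_lit 76) (nat_lit 25407605309) (nat_lit 3) (nat_lit 4) (nat_lit 4) (nat_lit 5) (nat_lit 4) (nat_lit 4) (nat_lit 319) (nat_lit 248) (nat_lit 153)) (XT.lf (nat_lit 0) (nat_lit 564365181545) (nat_lit 76) (nat_lit 49140108783) (nat_lit 76) (nat_lit 18435402199) (nat_lit 3) (nat_lit 4) (nat_lit 4) (nat_lit 5) (nat_lit 4) (nat_lit 4) (nat_lit 320) (nat_lit 248) (nat_lit 152)))) (XT.nd (nat_lit 78) (nat_lit 76) (nat_lit 0) (XT.lf (nat_lit 0) (nat_lit 629112778078) (nat_lit 76) (nat_lit 41612627842) (nat_lit 76) (nat_lit 10906513723) (nat_lit 3) (nat_lit 4) (nat_lit 4) (nat_lit 5) (nat_lit 4) (nat_lit 4) (nat_lit 321) (nat_lit 248) (nat_lit 151)) (XT.nd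 (nat_lit 78) (nat_lit 76) (nat_lit 0) (XT.lf (nat_lit 0) (nat_lit 699038455189) (nat_lit 76) (nat_lit 33483741638) (nat_lit 76) (nat_lit 2776324245) (nat_lit 3) (nat_lit 4) (nat_lit 4) (nat_lit 5) (nat_lit 4) (nat_lit 4) (nat_lit 322) (nat_lit 248) (nat_lit 150)) (XT.lf (nat_lit 0) (nat_lit 5703033497) (nat_lit 152) (nat_lit 18846314452) (nat_lit 76) (nat_lit 768697622722) (nat_lit 2) (nat_lit 5) (nat_lit 4) (nat_lit 5) (nat_lit 3) (nat_lit 4) (nat_lit 323) (nat_lit 248) (nat_lit 149))))) (XT.nd (nat_lit 234) (nat_lit 0) (nat_lit 0) (XT.nd (nat_lit 78) (nat_lit 76) (nat_lit 0) (XT.lf (nat_lit 0) (nat_lit 14709923580) (nat_lit 152) (nat_lit 113100426) (nat_lit 76) (nat_lit 841002570195) (nat_lit 2) (nat_lit 5) (nat_lit 4) (nat_lit 5) (nat_lit 3) (nat_lit 4) (nat_lit 324) (nat_lit 248) (nat_lit 148)) (XT.nd (nat_lit 78) (nat_lit 0) (nat_lit 0) (XT.lf (nat_lit 0) (nat_lit 21176702944)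 (nat_lit 76) (nat_lit 3769200420) (nat_lit 152) (nat_lit 898423922220) (nat_lit 1) (nat_lit 5) (nat_lit 2) (nat_lit 5) (nat_lit 3) (nat_lit 4) (nat_lit 325) (nat_lit 248) (nat_lit 147)) (XT.lf (nat_lit 0) (nat_lit 36199643413) (nat_lit 152) (nat_lit 952339189814) (nat_lit 0) (nat_lit 7762852672) (nat_lit 1) (nat_lit 5) (nat_lit 3) (nat_lit 4) (nat_lit 1) (nat_lit 4) (nat_lit 326) (nat_lit 248) (nat_lit 146)))) (XT.nd (nat_lit 156) (nat_lit 0) (nat_lit 0) (XT.nd (nat_lit 78) (nat_lit 0) (nat_lit 0) (XT.lf (nat_lit 0) (nat_lit 48450886062) (nat_lit 152) (nat_lit 1006596159571) (nat_lit 0) (nat_lit 20013274038) (nat_lit 1) (nat_lit 5) (nat_lit 3) (nat_lit 4) (nat_lit 1) (nat_lit 4) (nat_lit 327) (nat_lit 248) (nat_lit 145)) (XT.lf (nat_lit 0) (nat_lit 61681581906) (nat_lit 152) (nat_lit 1065194905333) (nat_lit 0) (nat_lit 33243209434) (nat_lit 1) (nat_lit 5) (nat_lit 3) (nat_lit 4) (nat_lit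 1) (nat_lit 4) (nat_lit 328) (nat_lit 248) (nat_lit 144))) (XT.nd (nat_lit 78) (nat_lit 0) (nat_lit 0) (XT.lf (nat_lit 0) (nat_lit 75970135070) (nat_lit 152) (nat_lit 1128482678928) (nat_lit 0) (nat_lit 47531058480) (nat_lit 1) (nat_lit 5) (nat_lit 3) (nat_lit 4) (nat_lit 1) (nat_lit 4) (nat_lit 329) (nat_lit 248) (nat_lit 143)) (XT.lf (nat_lit 0) (nat_lit 91401218461) (nat_lit 152) (nat_lit 1196834519013) (nat_lit 0) (nat_lit 62961489910) (nat_lit 1) (nat_lit 5) (nat_lit 3) (nat_lit 4) (nat_lit 1) (nat_lit 4) (nat_lit 330) (nat_lit 248) (nat_lit 142))))))) (XT.nd (nat_lit 31434) (nat_lit 0) (nat_lit 1748) (XT.nd (nat_lit 468) (nat_lit 0) (nat_lit 0) (XT.nd (nat_lit 234) (nat_lit 0) (nat_lit 0) (XT.nd (nat_lit 78) (nat_lit 0) (nat_lit 0) (XT.lf (nat_lit 0) (nat_lit 108066275536) (nat_lit 152) (nat_lit 1270655473530) (nat_lit 0) (nat_lit 79625943317) (nat_lit 1) (nat_lit 5) (nat_lit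 3) (nat_lit 4) (nat_lit 1) (nat_lit 4) (nat_lit 331) (nat_lit 248) (nat_lit 141)) (XT.nd (nat_lit 78) (nat_lit 0) (nat_lit 0) (XT.lf (nat_lit 0) (nat_lit 126064062189) (nat_lit 152) (nat_lit 1350382999987) (nat_lit 0) (nat_lit 97623171018) (nat_lit 1) (nat_lit 5) (nat_lit 3) (nat_lit 4) (nat_lit 1) (nat_lit 4) (nat_lit 332) (nat_lit 248) (nat_lit 140)) (XT.lf (nat_lit 0) (nat_lit 145501231970) (nat_lit 152) (nat_lit 1436489557800) (nat_lit 0) (nat_lit 117059823252) (nat_lit 1) (nat_lit 5) (nat_lit 3) (nat_lit 4) (nat_lit 1) (nat_lit 4) (nat_lit 333) (nat_lit 248) (nat_lit 139)))) (XT.nd (nat_lit 78) (nat_lit 0) (nat_lit 0) (XT.lf (nat_lit 0) (nat_lit 166492968108) (nat_lit 152) (nat_lit 1529485408053) (nat_lit 0) (nat_lit 138051080179) (nat_lit 1) (nat_lit 5) (nat_lit 3) (nat_lit 4) (nat_lit 1) (nat_lit 4) (nat_lit 334) (nat_lit 248) (nat_lit 138)) (XT.nd (nat_lit 78) (nat_lit 0) (nat_lit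 0) (XT.lf (nat_lit 0) (nat_lit 189163666077) (nat_lit 152) (nat_lit 1629921637265) (nat_lit 0) (nat_lit 160721334433) (nat_lit 1) (nat_lit 5) (nat_lit 3) (nat_lit 4) (nat_lit 1) (nat_lit 4) (nat_lit 335) (nat_lit 248) (nat_lit 137)) (XT.lf (nat_lit 0) (nat_lit 213647670752) (nat_lit 152) (nat_lit 1738393423091) (nat_lit 0) (nat_lit 185204928262) (nat_lit 1) (nat_lit 5) (nat_lit 3) (nat_lit 4) (nat_lit 1) (nat_lit 4) (nat_lit 336) (nat_lit 248) (nat_lit 136))))) (XT.nd (nat_lit 30654) (nat_lit 0) (nat_lit 3192) (XT.nd (nat_lit 78) (nat_lit 0) (nat_lit 0) (XT.lf (nat_lit 0) (nat_lit 240090072533) (nat_lit 152) (nat_lit 1855543561299) (nat_lit 0) (nat_lit 211646949630) (nat_lit 1) (nat_lit 5) (nat_lit 3) (nat_lit 4) (nat_lit 1) (nat_lit 4) (nat_lit 337) (nat_lit 248) (nat_lit 135)) (XT.nd (nat_lit 78) (nat_lit 0) (nat_lit 0) (XT.lf (nat_lit 0) (nat_lit 268647567133) (nat_lit 152) (nat_lit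 1982066274931) (nat_lit 0) (nat_lit 240204091995) (nat_lit 1) (nat_lit 5) (nat_lit 3) (nat_lit 4) (nat_lit 1) (nat_lit 4) (nat_lit 338) (nat_lit 248) (nat_lit 134)) (XT.lf (nat_lit 0) (nat_lit 299489384150) (nat_lit 152) (nat_lit 2118711328214) (nat_lit 0) (nat_lit 271045582869) (nat_lit 1) (nat_lit 5) (nat_lit 3) (nat_lit 4) (nat_lit 1) (nat_lit 4) (nat_lit 339) (nat_lit 248) (nat_lit 133)))) (XT.nd (nat_lit 156) (nat_lit 0) (nat_lit 0) (XT.nd (nat_lit 78) (nat_lit 0) (nat_lit 0) (XT.lf (nat_lit 0) (nat_lit 1005104450) (nat_lit 0) (nat_lit 1005104450) (nat_lit 380) (nat_lit 2410192231) (nat_lit 43) (nat_lit 5) (nat_lit 43) (nat_lit 3) (nat_lit 48) (nat_lit 3) (nat_lit 249) (nat_lit 249) (nat_lit 222)) (XT.lf (nat_lit 0) (nat_lit 5048148135) (nat_lit 380) (nat_lit 3028144630) (nat_lit 456) (nat_lit 1043831864) (nat_lit 43) (nat_lit 5) (nat_lit 48) (nat_lit 3) (nat_lit 49) (nat_lit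 5) (nat_lit 250) (nat_lit 249) (nat_lit 221))) (XT.nd (nat_lit 78) (nat_lit 0) (nat_lit 0) (XT.lf (nat_lit 76) (nat_lit 1027402835) (nat_lit 0) (nat_lit 5124538338) (nat_lit 456) (nat_lit 3270839972) (nat_lit 44) (nat_lit 5) (nat_lit 43) (nat_lit 5) (nat_lit 49) (nat_lit 5) (nat_lit 251) (nat_lit 249) (nat_lit 220)) (XT.lf (nat_lit 76) (nat_lit 5530601449) (nat_lit 0) (nat_lit 1818128374) (nat_lit 456) (nat_lit 2401004153) (nat_lit 44) (nat_lit 5) (nat_lit 43) (nat_lit 5) (nat_lit 49) (nat_lit 5) (nat_lit 252) (nat_lit 249) (nat_lit 219)))))) (XT.nd (nat_lit 468) (nat_lit 684) (nat_lit 0) (XT.nd (nat_lit 234) (nat_lit 380) (nat_lit 0) (XT.nd (nat_lit 78) (nat_lit 456) (nat_lit 0) (XT.lf (nat_lit 76) (nat_lit 207188234) (nat_lit 0) (nat_lit 8409541615) (nat_lit 456) (nat_lit 1488500878) (nat_lit 45) (nat_lit 5) (nat_lit 44) (nat_lit 5) (nat_lit 50) (nat_lit 5) (nat_lit 253) (nat_lit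 249) (nat_lit 218)) (XT.nd (nat_lit 78) (nat_lit 456) (nat_lit 0) (XT.lf (nat_lit 76) (nat_lit 5126937669) (nat_lit 0) (nat_lit 4953034396) (nat_lit 456) (nat_lit 402084642) (nat_lit 45) (nat_lit 5) (nat_lit 44) (nat_lit 5) (nat_lit 50) (nat_lit 5) (nat_lit 254) (nat_lit 249) (nat_lit 217)) (XT.lf (nat_lit 0) (nat_lit 668113764) (nat_lit 456) (nat_lit 518187461) (nat_lit 532) (nat_lit 9706745193) (nat_lit 38) (nat_lit 5) (nat_lit 44) (nat_lit 5) (nat_lit 45) (nat_lit 5) (nat_lit 255) (nat_lit 249) (nat_lit 216)))) (XT.nd (nat_lit 78) (nat_lit 456) (nat_lit 0) (XT.lf (nat_lit 0) (nat_lit 1933049669) (nat_lit 456) (nat_lit 6511789302) (nat_lit 76) (nat_lit 2881085764) (nat_lit 39) (nat_lit 5) (nat_lit 45) (nat_lit 5) (nat_lit 40) (nat_lit 5) (nat_lit 256) (nat_lit 249) (nat_lit 215)) (XT.nd (nat_lit 78) (nat_lit 456) (nat_lit 0) (XT.lf (nat_lit 0) (nat_lit 3288337086) (nat_lit 456) (nat_lit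 1271941192) (nat_lit 76) (nat_lit 7234311862) (nat_lit 39) (nat_lit 5) (nat_lit 45) (nat_lit 5) (nat_lit 40) (nat_lit 5) (nat_lit 257) (nat_lit 249) (nat_lit 214)) (XT.lf (nat_lit 0) (nat_lit 4568427645) (nat_lit 456) (nat_lit 241460510) (nat_lit 532) (nat_lit 7486501291) (nat_lit 33) (nat_lit 5) (nat_lit 39) (nat_lit 5) (nat_lit 40) (nat_lit 5) (nat_lit 258) (nat_lit 249) (nat_lit 213))))) (XT.nd (nat_lit 234) (nat_lit 456) (nat_lit 0) (XT.nd (nat_lit 78) (nat_lit 228) (nat_lit 0) (XT.lf (nat_lit 0) (nat_lit 6546010115) (nat_lit 532) (nat_lit 2044734376) (nat_lit 76) (nat_lit 4240408535) (nat_lit 33) (nat_lit 5) (nat_lit 40) (nat_lit 5) (nat_lit 34) (nat_lit 5) (nat_lit 259) (nat_lit 249) (nat_lit 212)) (XT.nd (nat_lit 78) (nat_lit 0) (nat_lit 0) (XT.lf (nat_lit 0) (nat_lit 4253087102) (nat_lit 228) (nat_lit 4230934409) (nat_lit 304) (nat_lit 4919865906) (nat_lit 30) (nat_lit 5) (nat_lit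 33) (nat_lit 5) (nat_lit 34) (nat_lit 5) (nat_lit 260) (nat_lit 249) (nat_lit 211)) (XT.lf (nat_lit 0) (nat_lit 10602594655) (nat_lit 304) (nat_lit 2908882676) (nat_lit 76) (nat_lit 509134246) (nat_lit 30) (nat_lit 5) (nat_lit 34) (nat_lit 5) (nat_lit 31) (nat_lit 5) (nat_lit 261) (nat_lit 249) (nat_lit 210)))) (XT.nd (nat_lit 156) (nat_lit 228) (nat_lit 0) (XT.nd (nat_lit 78) (nat_lit 76) (nat_lit 0) (XT.lf (nat_lit 0) (nat_lit 3870759350) (nat_lit 152) (nat_lit 9182764171) (nat_lit 228) (nat_lit 1620317487) (nat_lit 28) (nat_lit 5) (nat_lit 30) (nat_lit 5) (nat_lit 31) (nat_lit 5) (nat_lit 262) (nat_lit 249) (nat_lit 209)) (XT.lf (nat_lit 0) (nat_lit 347356242) (nat_lit 228) (nat_lit 4071012614) (nat_lit 76) (nat_lit 10957132712) (nat_lit 27) (nat_lit 5) (nat_lit 30) (nat_lit 5) (nat_lit 28) (nat_lit 5) (nat_lit 263) (nat_lit 249) (nat_lit 208))) (XT.nd (nat_lit 78) (nat_lit 0) (nat_lit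 0) (XT.lf (nat_lit 0) (nat_lit 2447767937) (nat_lit 304) (nat_lit 12868642300) (nat_lit 76) (nat_lit 808645105) (nat_lit 24) (nat_lit 5) (nat_lit 28) (nat_lit 5) (nat_lit 25) (nat_lit 5) (nat_lit 264) (nat_lit 249) (nat_lit 207)) (XT.lf (nat_lit 0) (nat_lit 4910237807) (nat_lit 304) (nat_lit 5686450392) (nat_lit 76) (nat_lit 6322507951) (nat_lit 24) (nat_lit 5) (nat_lit 28) (nat_lit 5) (nat_lit 25) (nat_lit 5) (nat_lit 265) (nat_lit 249) (nat_lit 206))))))))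
noncomputable def xc67 : XT := (XT.nd (nat_lit 2028) (nat_lit 304) (nat_lit 0) (XT.nd (nat_lit 1014) (nat_lit 304) (nat_lit 0) (XT.nd (nat_lit 468) (nat_lit 456) (nat_lit 0) (XT.nd (nat_lit 234) (nat_lit 228) (nat_lit 0) (XT.nd (nat_lit 78) (nat_lit 152) (nat_lit 0) (XT.lf (nat_lit 0) (nat_lit 2135784737) (nat_lit 152) (nat_lit 5452936739) (nat_lit 228) (nat_lit 10186759477) (nat_lit 22) (nat_lit 5) (nat_lit 24) (nat_lit 5) (nat_lit 25) (nat_lit 5) (nat_lit 266) (nat_lit 249) (nat_lit 205)) (XT.nd (nat_lit 78) (nat_lit 152) (nat_lit 0) (XT.lf (nat_lit 0) (nat_lit 10612311365) (nat_lit 228) (nat_lit 7829834373) (nat_lit 76) (nat_lit 247780698) (nat_lit 22) (nat_lit 5) (nat_lit 25) (nat_lit 5) (nat_lit 23) (nat_lit 5) (nat_lit 267) (nat_lit 249) (nat_lit 204)) (XT.lf (nat_lit 0) (nat_lit 445955824) (nat_lit 152) (nat_lit 13555350774) (nat_lit 228) (nat_lit 5666454413) (nat_lit 20) (nat_lit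 5) (nat_lit 22) (nat_lit 5) (nat_lit 23) (nat_lit 5) (nat_lit 268) (nat_lit 249) (nat_lit 203)))) (XT.nd (nat_lit 78) (nat_lit 228) (nat_lit 0) (XT.lf (nat_lit 0) (nat_lit 9790565340) (nat_lit 152) (nat_lit 8057305544) (nat_lit 228) (nat_lit 2861141910) (nat_lit 20) (nat_lit 5) (nat_lit 22) (nat_lit 5) (nat_lit 23) (nat_lit 5) (nat_lit 269) (nat_lit 249) (nat_lit 202)) (XT.nd (nat_lit 78) (nat_lit 152) (nat_lit 0) (XT.lf (nat_lit 0) (nat_lit 133818328) (nat_lit 228) (nat_lit 1992033428) (nat_lit 76) (nat_lit 19709587276) (nat_lit 19) (nat_lit 5) (nat_lit 22) (nat_lit 5) (nat_lit 20) (nat_lit 5) (nat_lit 270) (nat_lit 249) (nat_lit 201)) (XT.lf (nat_lit 0) (nat_lit 3489872008) (nat_lit 228) (nat_lit 15205579615) (nat_lit 76) (nat_lit 4328581167) (nat_lit 17) (nat_lit 5) (nat_lit 20) (nat_lit 5) (nat_lit 18) (nat_lit 5) (nat_lit 271) (nat_lit 249) (nat_lit 200))))) (XT.nd (nat_lit 234)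 (nat_lit 304) (nat_lit 0) (XT.nd (nat_lit 78) (nat_lit 152) (nat_lit 0) (XT.lf (nat_lit 0) (nat_lit 7201871661) (nat_lit 228) (nat_lit 5868160783) (nat_lit 76) (nat_lit 11230762874) (nat_lit 17) (nat_lit 5) (nat_lit 20) (nat_lit 5) (nat_lit 18) (nat_lit 5) (nat_lit 272) (nat_lit 249) (nat_lit 199)) (XT.nd (nat_lit 78) (nat_lit 0) (nat_lit 0) (XT.lf (nat_lit 0) (nat_lit 4403924253) (nat_lit 152) (nat_lit 6890936639) (nat_lit 228) (nat_lit 14378187999) (nat_lit 15) (nat_lit 5) (nat_lit 17) (nat_lit 5) (nat_lit 18) (nat_lit 5) (nat_lit 273) (nat_lit 249) (nat_lit 198)) (XT.lf (nat_lit 0) (nat_lit 15799700229) (nat_lit 152) (nat_lit 55006299) (nat_lit 228) (nat_lit 11289289886) (nat_lit 15) (nat_lit 5) (nat_lit 17) (nat_lit 5) (nat_lit 18) (nat_lit 5) (nat_lit 274) (nat_lit 249) (nat_lit 197)))) (XT.nd (nat_lit 156) (nat_lit 228) (nat_lit 0) (XT.nd (nat_lit 78) (nat_lit 76) (nat_lit 0)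 (XT.lf (nat_lit 0) (nat_lit 20935862638) (nat_lit 228) (nat_lit 832542569) (nat_lit 76) (nat_lit 6951754787) (nat_lit 15) (nat_lit 5) (nat_lit 18) (nat_lit 5) (nat_lit 16) (nat_lit 4) (nat_lit 275) (nat_lit 249) (nat_lit 196)) (XT.lf (nat_lit 0) (nat_lit 11042572950) (nat_lit 76) (nat_lit 15629690325) (nat_lit 152) (nat_lit 3730310704) (nat_lit 14) (nat_lit 5) (nat_lit 15) (nat_lit 5) (nat_lit 16) (nat_lit 4) (nat_lit 276) (nat_lit 249) (nat_lit 195))) (XT.nd (nat_lit 78) (nat_lit 152) (nat_lit 0) (XT.lf (nat_lit 0) (nat_lit 620859090) (nat_lit 152) (nat_lit 8347712745) (nat_lit 76) (nat_lit 23249389422) (nat_lit 13) (nat_lit 5) (nat_lit 15) (nat_lit 5) (nat_lit 14) (nat_lit 5) (nat_lit 277) (nat_lit 249) (nat_lit 194)) (XT.lf (nat_lit 0) (nat_lit 3602175490) (nat_lit 152) (nat_lit 1586309697) (nat_lit 228) (nat_lit 28976796957) (nat_lit 11) (nat_lit 5) (nat_lit 13) (nat_lit 5) (nat_lit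 14) (nat_lit 5) (nat_lit 278) (nat_lit 249) (nat_lit 193)))))) (XT.nd (nat_lit 468) (nat_lit 152) (nat_lit 0) (XT.nd (nat_lit 234) (nat_lit 76) (nat_lit 0) (XT.nd (nat_lit 78) (nat_lit 76) (nat_lit 0) (XT.lf (nat_lit 0) (nat_lit 10492927511) (nat_lit 228) (nat_lit 19453963276) (nat_lit 76) (nat_lit 6291827673) (nat_lit 11) (nat_lit 5) (nat_lit 14) (nat_lit 5) (nat_lit 12) (nat_lit 4) (nat_lit 279) (nat_lit 249) (nat_lit 192)) (XT.nd (nat_lit 78) (nat_lit 76) (nat_lit 0) (XT.lf (nat_lit 0) (nat_lit 16247780156) (nat_lit 228) (nat_lit 7522389290) (nat_lit 76) (nat_lit 14705814962) (nat_lit 11) (nat_lit 5) (nat_lit 14) (nat_lit 5) (nat_lit 12) (nat_lit 4) (nat_lit 280) (nat_lit 249) (nat_lit 191)) (XT.lf (nat_lit 0) (nat_lit 5621691488) (nat_lit 76) (nat_lit 16962505494) (nat_lit 152) (nat_lit 18298376797) (nat_lit 10) (nat_lit 5) (nat_lit 11) (nat_lit 5) (nat_lit 12) (nat_lit 4) (nat_lit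 281) (nat_lit 249) (nat_lit 190)))) (XT.nd (nat_lit 78) (nat_lit 76) (nat_lit 0) (XT.lf (nat_lit 0) (nat_lit 20222453099) (nat_lit 76) (nat_lit 9397217867) (nat_lit 152) (nat_lit 13846681367) (nat_lit 10) (nat_lit 5) (nat_lit 11) (nat_lit 5) (nat_lit 12) (nat_lit 4) (nat_lit 282) (nat_lit 249) (nat_lit 189)) (XT.nd (nat_lit 78) (nat_lit 76) (nat_lit 0) (XT.lf (nat_lit 0) (nat_lit 35970302885) (nat_lit 76) (nat_lit 1235150687) (nat_lit 152) (nat_lit 9052413000) (nat_lit 10) (nat_lit 5) (nat_lit 11) (nat_lit 5) (nat_lit 12) (nat_lit 4) (nat_lit 283) (nat_lit 249) (nat_lit 188)) (XT.lf (nat_lit 0) (nat_lit 3687245258) (nat_lit 76) (nat_lit 41970038981) (nat_lit 76) (nat_lit 3594711629) (nat_lit 9) (nat_lit 4) (nat_lit 10) (nat_lit 5) (nat_lit 10) (nat_lit 4) (nat_lit 284) (nat_lit 249) (nat_lit 187))))) (XT.nd (nat_lit 234) (nat_lit 76) (nat_lit 0) (XT.nd (nat_lit 78) (nat_lit 0) (nat_lit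 0) (XT.lf (nat_lit 0) (nat_lit 2493527994) (nat_lit 152) (nat_lit 33213062953) (nat_lit 76) (nat_lit 16749948150) (nat_lit 8) (nat_lit 5) (nat_lit 10) (nat_lit 5) (nat_lit 9) (nat_lit 4) (nat_lit 285) (nat_lit 249) (nat_lit 186)) (XT.nd (nat_lit 78) (nat_lit 0) (nat_lit 0) (XT.lf (nat_lit 0) (nat_lit 8863776123) (nat_lit 152) (nat_lit 19985422611) (nat_lit 76) (nat_lit 27061667773) (nat_lit 8) (nat_lit 5) (nat_lit 10) (nat_lit 5) (nat_lit 9) (nat_lit 4) (nat_lit 286) (nat_lit 249) (nat_lit 185)) (XT.lf (nat_lit 0) (nat_lit 15733604411) (nat_lit 152) (nat_lit 5716990669) (nat_lit 76) (nat_lit 38191769344) (nat_lit 8) (nat_lit 5) (nat_lit 10) (nat_lit 5) (nat_lit 9) (nat_lit 4) (nat_lit 287) (nat_lit 249) (nat_lit 184)))) (XT.nd (nat_lit 156) (nat_lit 0) (nat_lit 0) (XT.nd (nat_lit 78) (nat_lit 0) (nat_lit 0) (XT.lf (nat_lit 0) (nat_lit 10186348976) (nat_lit 76) (nat_lit 13202355912)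 (nat_lit 152) (nat_lit 40264841980) (nat_lit 7) (nat_lit 5) (nat_lit 8) (nat_lit 5) (nat_lit 9) (nat_lit 4) (nat_lit 288) (nat_lit 249) (nat_lit 183)) (XT.lf (nat_lit 0) (nat_lit 27671365172) (nat_lit 76) (nat_lit 4132175382) (nat_lit 152) (nat_lit 36170315304) (nat_lit 7) (nat_lit 5) (nat_lit 8) (nat_lit 5) (nat_lit 9) (nat_lit 4) (nat_lit 289) (nat_lit 249) (nat_lit 182))) (XT.nd (nat_lit 78) (nat_lit 0) (nat_lit 0) (XT.lf (nat_lit 0) (nat_lit 41019303359) (nat_lit 152) (nat_lit 26235905907) (nat_lit 0) (nat_lit 5374377857) (nat_lit 7) (nat_lit 5) (nat_lit 9) (nat_lit 4) (nat_lit 7) (nat_lit 4) (nat_lit 290) (nat_lit 249) (nat_lit 181)) (XT.lf (nat_lit 0) (nat_lit 51071813916) (nat_lit 152) (nat_lit 11165294701) (nat_lit 0) (nat_lit 15412724868) (nat_lit 7) (nat_lit 5) (nat_lit 9) (nat_lit 4) (nat_lit 7) (nat_lit 4) (nat_lit 291) (nat_lit 249) (nat_lit 180))))))) (XT.nd (nat_lit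 1014) (nat_lit 76) (nat_lit 0) (XT.nd (nat_lit 468) (nat_lit 76) (nat_lit 0) (XT.nd (nat_lit 234) (nat_lit 76) (nat_lit 0) (XT.nd (nat_lit 78) (nat_lit 0) (nat_lit 0) (XT.lf (nat_lit 0) (nat_lit 5366482355) (nat_lit 76) (nat_lit 56683845417) (nat_lit 76) (nat_lit 21011641974) (nat_lit 6) (nat_lit 4) (nat_lit 7) (nat_lit 5) (nat_lit 7) (nat_lit 4) (nat_lit 292) (nat_lit 249) (nat_lit 179)) (XT.nd (nat_lit 78) (nat_lit 0) (nat_lit 0) (XT.lf (nat_lit 0) (nat_lit 23843173051) (nat_lit 76) (nat_lit 50362201707) (nat_lit 76) (nat_lit 14677855306) (nat_lit 6) (nat_lit 4) (nat_lit 7) (nat_lit 5) (nat_lit 7) (nat_lit 4) (nat_lit 293) (nat_lit 249) (nat_lit 178)) (XT.lf (nat_lit 0) (nat_lit 43786324256) (nat_lit 76) (nat_lit 43539994839) (nat_lit 76) (nat_lit 7844404958) (nat_lit 6) (nat_lit 4) (nat_lit 7) (nat_lit 5) (nat_lit 7) (nat_lit 4) (nat_lit 294) (nat_lit 249) (nat_lit 177)))) (XT.nd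 (nat_lit 78) (nat_lit 76) (nat_lit 0) (XT.lf (nat_lit 0) (nat_lit 65314117605) (nat_lit 76) (nat_lit 36176796921) (nat_lit 76) (nat_lit 470796411) (nat_lit 6) (nat_lit 4) (nat_lit 7) (nat_lit 5) (nat_lit 7) (nat_lit 4) (nat_lit 295) (nat_lit 249) (nat_lit 176)) (XT.nd (nat_lit 78) (nat_lit 0) (nat_lit 0) (XT.lf (nat_lit 0) (nat_lit 7112152449) (nat_lit 152) (nat_lit 20922362886) (nat_lit 76) (nat_lit 81247513906) (nat_lit 5) (nat_lit 5) (nat_lit 7) (nat_lit 5) (nat_lit 6) (nat_lit 4) (nat_lit 296) (nat_lit 249) (nat_lit 175)) (XT.lf (nat_lit 0) (nat_lit 15270993531) (nat_lit 152) (nat_lit 3960898873) (nat_lit 76) (nat_lit 97955536069) (nat_lit 5) (nat_lit 5) (nat_lit 7) (nat_lit 5) (nat_lit 6) (nat_lit 4) (nat_lit 297) (nat_lit 249) (nat_lit 174))))) (XT.nd (nat_lit 234) (nat_lit 0) (nat_lit 0) (XT.nd (nat_lit 78) (nat_lit 0) (nat_lit 0) (XT.lf (nat_lit 0) (nat_lit 15104207378) (nat_lit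 76) (nat_lit 9336675837) (nat_lit 152) (nat_lit 101255717515) (nat_lit 4) (nat_lit 5) (nat_lit 5) (nat_lit 5) (nat_lit 6) (nat_lit 4) (nat_lit 298) (nat_lit 249) (nat_lit 173)) (XT.nd (nat_lit 78) (nat_lit 0) (nat_lit 0) (XT.lf (nat_lit 0) (nat_lit 34483094800) (nat_lit 152) (nat_lit 99002265217) (nat_lit 0) (nat_lit 1390056065) (nat_lit 4) (nat_lit 5) (nat_lit 6) (nat_lit 4) (nat_lit 4) (nat_lit 4) (nat_lit 299) (nat_lit 249) (nat_lit 172)) (XT.lf (nat_lit 0) (nat_lit 45566702207) (nat_lit 152) (nat_lit 86735697130) (nat_lit 0) (nat_lit 12467103009) (nat_lit 4) (nat_lit 5) (nat_lit 6) (nat_lit 4) (nat_lit 4) (nat_lit 4) (nat_lit 300) (nat_lit 249) (nat_lit 171)))) (XT.nd (nat_lit 156) (nat_lit 0) (nat_lit 0) (XT.nd (nat_lit 78) (nat_lit 0) (nat_lit 0) (XT.lf (nat_lit 0) (nat_lit 57532838795) (nat_lit 152) (nat_lit 73495451038) (nat_lit 0) (nat_lit 24427165095) (nat_lit 4) (nat_lit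 5) (nat_lit 6) (nat_lit 4) (nat_lit 4) (nat_lit 4) (nat_lit 301) (nat_lit 249) (nat_lit 170)) (XT.lf (nat_lit 0) (nat_lit 70452415003) (nat_lit 152) (nat_lit 59203066224) (nat_lit 0) (nat_lit 37341116763) (nat_lit 4) (nat_lit 5) (nat_lit 6) (nat_lit 4) (nat_lit 4) (nat_lit 4) (nat_lit 302) (nat_lit 249) (nat_lit 169))) (XT.nd (nat_lit 78) (nat_lit 0) (nat_lit 0) (XT.lf (nat_lit 0) (nat_lit 84401991281) (nat_lit 152) (nat_lit 43773847075) (nat_lit 0) (nat_lit 51285485135) (nat_lit 4) (nat_lit 5) (nat_lit 6) (nat_lit 4) (nat_lit 4) (nat_lit 4) (nat_lit 303) (nat_lit 249) (nat_lit 168)) (XT.lf (nat_lit 0) (nat_lit 99464231787) (nat_lit 152) (nat_lit 27116361180) (nat_lit 0) (nat_lit 66342903505) (nat_lit 4) (nat_lit 5) (nat_lit 6) (nat_lit 4) (nat_lit 4) (nat_lit 4) (nat_lit 304) (nat_lit 249) (nat_lit 167)))))) (XT.nd (nat_lit 468) (nat_lit 0) (nat_lit 0) (XT.nd (nat_lit 234) (nat_lit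 0) (nat_lit 0) (XT.nd (nat_lit 78) (nat_lit 76) (nat_lit 0) (XT.lf (nat_lit 0) (nat_lit 115728394241) (nat_lit 152) (nat_lit 9131897512) (nat_lit 0) (nat_lit 82602601019) (nat_lit 4) (nat_lit 5) (nat_lit 6) (nat_lit 4) (nat_lit 4) (nat_lit 4) (nat_lit 305) (nat_lit 249) (nat_lit 166)) (XT.nd (nat_lit 78) (nat_lit 0) (nat_lit 0) (XT.lf (nat_lit 0) (nat_lit 10827767300) (nat_lit 76) (nat_lit 122723499629) (nat_lit 76) (nat_lit 89593572203) (nat_lit 3) (nat_lit 4) (nat_lit 4) (nat_lit 5) (nat_lit 4) (nat_lit 4) (nat_lit 306) (nat_lit 249) (nat_lit 165)) (XT.lf (nat_lit 0) (nat_lit 32898471446) (nat_lit 76) (nat_lit 120148437108) (nat_lit 76) (nat_lit 87014681715) (nat_lit 3) (nat_lit 4) (nat_lit 4) (nat_lit 5) (nat_lit 4) (nat_lit 4) (nat_lit 307) (nat_lit 249) (nat_lit 164)))) (XT.nd (nat_lit 78) (nat_lit 0) (nat_lit 0) (XT.lf (nat_lit 0) (nat_lit 56730134741) (nat_lit 76) (nat_lit 117369526823)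 (nat_lit 76) (nat_lit 84232227017) (nat_lit 3) (nat_lit 4) (nat_lit 4) (nat_lit 5) (nat_lit 4) (nat_lit 4) (nat_lit 308) (nat_lit 249) (nat_lit 163)) (XT.nd (nat_lit 78) (nat_lit 0) (nat_lit 0) (XT.lf (nat_lit 0) (nat_lit 82463981859) (nat_lit 76) (nat_lit 114370301157) (nat_lit 76) (nat_lit 81229719486) (nat_lit 3) (nat_lit 4) (nat_lit 4) (nat_lit 5) (nat_lit 4) (nat_lit 4) (nat_lit 309) (nat_lit 249) (nat_lit 162)) (XT.lf (nat_lit 0) (nat_lit 110252509670) (nat_lit 76) (nat_lit 111132986921) (nat_lit 76) (nat_lit 77989366486) (nat_lit 3) (nat_lit 4) (nat_lit 4) (nat_lit 5) (nat_lit 4) (nat_lit 4) (nat_lit 310) (nat_lit 249) (nat_lit 161))))) (XT.nd (nat_lit 234) (nat_lit 0) (nat_lit 0) (XT.nd (nat_lit 78) (nat_lit 0) (nat_lit 0) (XT.lf (nat_lit 0) (nat_lit 140260390931) (nat_lit 76) (nat_lit 107638400030) (nat_lit 76) (nat_lit 74491965926) (nat_lit 3) (nat_lit 4) (nat_lit 4) (nat_lit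 5) (nat_lit 4) (nat_lit 4) (nat_lit 311) (nat_lit 249) (nat_lit 160)) (XT.nd (nat_lit 78) (nat_lit 0) (nat_lit 0) (XT.lf (nat_lit 0) (nat_lit 172665450125) (nat_lit 76) (nat_lit 103865831821) (nat_lit 76) (nat_lit 70716792467) (nat_lit 3) (nat_lit 4) (nat_lit 4) (nat_lit 5) (nat_lit 4) (nat_lit 4) (nat_lit 312) (nat_lit 249) (nat_lit 159)) (XT.lf (nat_lit 0) (nat_lit 207659717232) (nat_lit 76) (nat_lit 99792926336) (nat_lit 76) (nat_lit 66641474713) (nat_lit 3) (nat_lit 4) (nat_lit 4) (nat_lit 5) (nat_lit 4) (nat_lit 4) (nat_lit 313) (nat_lit 249) (nat_lit 158)))) (XT.nd (nat_lit 156) (nat_lit 0) (nat_lit 0) (XT.nd (nat_lit 78) (nat_lit 0) (nat_lit 0) (XT.lf (nat_lit 0) (nat_lit 245450565686) (nat_lit 76) (nat_lit 95395547836) (nat_lit 76) (nat_lit 62241862632) (nat_lit 3) (nat_lit 4) (nat_lit 4) (nat_lit 5) (nat_lit 4) (nat_lit 4) (nat_lit 314) (nat_lit 249) (nat_lit 157)) (XT.lf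 (nat_lit 0) (nat_lit 286261941257) (nat_lit 76) (nat_lit 90647637784) (nat_lit 76) (nat_lit 57491884449) (nat_lit 3) (nat_lit 4) (nat_lit 4) (nat_lit 5) (nat_lit 4) (nat_lit 4) (nat_lit 315) (nat_lit 249) (nat_lit 156))) (XT.nd (nat_lit 78) (nat_lit 0) (nat_lit 0) (XT.lf (nat_lit 0) (nat_lit 330335689132) (nat_lit 76) (nat_lit 85521060416) (nat_lit 76) (nat_lit 52363392144) (nat_lit 3) (nat_lit 4) (nat_lit 4) (nat_lit 5) (nat_lit 4) (nat_lit 4) (nat_lit 316) (nat_lit 249) (nat_lit 155)) (XT.lf (nat_lit 0) (nat_lit 377932987077) (nat_lit 76) (nat_lit 79985436014) (nat_lit 76) (nat_lit 46825994653) (nat_lit 3) (nat_lit 4) (nat_lit 4) (nat_lit 5) (nat_lit 4) (nat_lit 4) (nat_lit 317) (nat_lit 249) (nat_lit 154))))))))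
noncomputable def xc68 : XT := (XT.nd (nat_lit 32526) (nat_lit 0) (nat_lit 760) (XT.nd (nat_lit 936) (nat_lit 0) (nat_lit 0) (XT.nd (nat_lit 468) (nat_lit 152) (nat_lit 0) (XT.nd (nat_lit 234) (nat_lit 0) (nat_lit 0) (XT.nd (nat_lit 78) (nat_lit 0) (nat_lit 0) (XT.lf (nat_lit 0) (nat_lit 429335893154) (nat_lit 76) (nat_lit 74007960878) (nat_lit 76) (nat_lit 40846877768) (nat_lit 3) (nat_lit 4) (nat_lit 4) (nat_lit 5) (nat_lit 4) (nat_lit 4) (nat_lit 318) (nat_lit 249) (nat_lit 153)) (XT.nd (nat_lit 78) (nat_lit 0) (nat_lit 0) (XT.lf (nat_lit 0) (nat_lit 484849017176) (nat_lit 76) (nat_lit 67553212934) (nat_lit 76) (nat_lit 34390609684) (nat_lit 3) (nat_lit 4) (nat_lit 4) (nat_lit 5) (nat_lit 4) (nat_lit 4) (nat_lit 319) (nat_lit 249) (nat_lit 152)) (XT.lf (nat_lit 0) (nat_lit 544801325805) (nat_lit 76) (nat_lit 60582941822) (nat_lit 76) (nat_lit 27418931037) (nat_lit 3) (nat_lit 4)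 (nat_lit 4) (nat_lit 5) (nat_lit 4) (nat_lit 4) (nat_lit 320) (nat_lit 249) (nat_lit 151)))) (XT.nd (nat_lit 78) (nat_lit 0) (nat_lit 0) (XT.lf (nat_lit 0) (nat_lit 609548091981) (nat_lit 76) (nat_lit 53055842233) (nat_lit 76) (nat_lit 19890528174) (nat_lit 3) (nat_lit 4) (nat_lit 4) (nat_lit 5) (nat_lit 4) (nat_lit 4) (nat_lit 321) (nat_lit 249) (nat_lit 150)) (XT.nd (nat_lit 78) (nat_lit 0) (nat_lit 0) (XT.lf (nat_lit 0) (nat_lit 679473000243) (nat_lit 76) (nat_lit 44927309131) (nat_lit 76) (nat_lit 11760788339) (nat_lit 3) (nat_lit 4) (nat_lit 4) (nat_lit 5) (nat_lit 4) (nat_lit 4) (nat_lit 322) (nat_lit 249) (nat_lit 149)) (XT.lf (nat_lit 0) (nat_lit 754990420418) (nat_lit 76) (nat_lit 36149173433) (nat_lit 76) (nat_lit 2981535294) (nat_lit 3) (nat_lit 4) (nat_lit 4) (nat_lit 5) (nat_lit 4) (nat_lit 4) (nat_lit 323) (nat_lit 249) (nat_lit 148))))) (XT.nd (nat_lit 234) (nat_lit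 0) (nat_lit 0) (XT.nd (nat_lit 78) (nat_lit 76) (nat_lit 0) (XT.lf (nat_lit 0) (nat_lit 6174137048) (nat_lit 152) (nat_lit 20326467660) (nat_lit 76) (nat_lit 830204914249) (nat_lit 2) (nat_lit 5) (nat_lit 4) (nat_lit 5) (nat_lit 3) (nat_lit 4) (nat_lit 324) (nat_lit 249) (nat_lit 147)) (XT.nd (nat_lit 78) (nat_lit 76) (nat_lit 0) (XT.lf (nat_lit 0) (nat_lit 15900477532) (nat_lit 152) (nat_lit 96637397) (nat_lit 76) (nat_lit 908293407022) (nat_lit 2) (nat_lit 5) (nat_lit 4) (nat_lit 5) (nat_lit 3) (nat_lit 4) (nat_lit 325) (nat_lit 249) (nat_lit 146)) (XT.lf (nat_lit 0) (nat_lit 22895704393) (nat_lit 76) (nat_lit 4059210051) (nat_lit 152) (nat_lit 970283412507) (nat_lit 1) (nat_lit 5) (nat_lit 2) (nat_lit 5) (nat_lit 3) (nat_lit 4) (nat_lit 326) (nat_lit 249) (nat_lit 145)))) (XT.nd (nat_lit 78) (nat_lit 0) (nat_lit 0) (XT.lf (nat_lit 0) (nat_lit 39108222313) (nat_lit 152) (nat_lit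 1028502553997) (nat_lit 0) (nat_lit 8394019595) (nat_lit 1) (nat_lit 5) (nat_lit 3) (nat_lit 4) (nat_lit 1) (nat_lit 4) (nat_lit 327) (nat_lit 249) (nat_lit 144)) (XT.nd (nat_lit 78) (nat_lit 0) (nat_lit 0) (XT.lf (nat_lit 0) (nat_lit 52338630490) (nat_lit 152) (nat_lit 1087101842149) (nat_lit 0) (nat_lit 21623723654) (nat_lit 1) (nat_lit 5) (nat_lit 3) (nat_lit 4) (nat_lit 1) (nat_lit 4) (nat_lit 328) (nat_lit 249) (nat_lit 143)) (XT.lf (nat_lit 0) (nat_lit 66626917295) (nat_lit 152) (nat_lit 1150390117957) (nat_lit 0) (nat_lit 35911358498) (nat_lit 1) (nat_lit 5) (nat_lit 3) (nat_lit 4) (nat_lit 1) (nat_lit 4) (nat_lit 329) (nat_lit 249) (nat_lit 142)))))) (XT.nd (nat_lit 468) (nat_lit 0) (nat_lit 0) (XT.nd (nat_lit 234) (nat_lit 0) (nat_lit 0) (XT.nd (nat_lit 78) (nat_lit 0) (nat_lit 0) (XT.lf (nat_lit 0) (nat_lit 82057754057) (nat_lit 152) (nat_lit 1218742423054) (nat_lit 0) (nat_lit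 51341591593) (nat_lit 1) (nat_lit 5) (nat_lit 3) (nat_lit 4) (nat_lit 1) (nat_lit 4) (nat_lit 330) (nat_lit 249) (nat_lit 141)) (XT.nd (nat_lit 78) (nat_lit 0) (nat_lit 0) (XT.lf (nat_lit 0) (nat_lit 98722582773) (nat_lit 152) (nat_lit 1292563808138) (nat_lit 0) (nat_lit 68005861356) (nat_lit 1) (nat_lit 5) (nat_lit 3) (nat_lit 4) (nat_lit 1) (nat_lit 4) (nat_lit 331) (nat_lit 249) (nat_lit 140)) (XT.lf (nat_lit 0) (nat_lit 116720157981) (nat_lit 152) (nat_lit 1372291733267) (nat_lit 0) (nat_lit 86002919017) (nat_lit 1) (nat_lit 5) (nat_lit 3) (nat_lit 4) (nat_lit 1) (nat_lit 4) (nat_lit 332) (nat_lit 249) (nat_lit 139)))) (XT.nd (nat_lit 78) (nat_lit 0) (nat_lit 0) (XT.lf (nat_lit 0) (nat_lit 136157131981) (nat_lit 152) (nat_lit 1458398660222) (nat_lit 0) (nat_lit 105439413806) (nat_lit 1) (nat_lit 5) (nat_lit 3) (nat_lit 4) (nat_lit 1) (nat_lit 4) (nat_lit 333) (nat_lit 249) (nat_lit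 138)) (XT.nd (nat_lit 78) (nat_lit 0) (nat_lit 0) (XT.lf (nat_lit 0) (nat_lit 157148686840) (nat_lit 152) (nat_lit 1551394852272) (nat_lit 0) (nat_lit 126430524951) (nat_lit 1) (nat_lit 5) (nat_lit 3) (nat_lit 4) (nat_lit 1) (nat_lit 4) (nat_lit 334) (nat_lit 249) (nat_lit 137)) (XT.lf (nat_lit 0) (nat_lit 179819216957) (nat_lit 152) (nat_lit 1651831397964) (nat_lit 0) (nat_lit 149100644222) (nat_lit 1) (nat_lit 5) (nat_lit 3) (nat_lit 4) (nat_lit 1) (nat_lit 4) (nat_lit 335) (nat_lit 249) (nat_lit 136))))) (XT.nd (nat_lit 30810) (nat_lit 0) (nat_lit 3192) (XT.nd (nat_lit 78) (nat_lit 0) (nat_lit 0) (XT.lf (nat_lit 0) (nat_lit 204303066215) (nat_lit 152) (nat_lit 1760303476827) (nat_lit 0) (nat_lit 173584113067) (nat_lit 1) (nat_lit 5) (nat_lit 3) (nat_lit 4) (nat_lit 1) (nat_lit 4) (nat_lit 336) (nat_lit 249) (nat_lit 135)) (XT.nd (nat_lit 78) (nat_lit 0) (nat_lit 0) (XT.lf (nat_lit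 0) (nat_lit 230745324090) (nat_lit 152) (nat_lit 1877453886365) (nat_lit 0) (nat_lit 200026018707) (nat_lit 1) (nat_lit 5) (nat_lit 3) (nat_lit 4) (nat_lit 1) (nat_lit 4) (nat_lit 337) (nat_lit 249) (nat_lit 134)) (XT.lf (nat_lit 0) (nat_lit 259302685444) (nat_lit 152) (nat_lit 2003976851228) (nat_lit 0) (nat_lit 228583053919) (nat_lit 1) (nat_lit 5) (nat_lit 3) (nat_lit 4) (nat_lit 1) (nat_lit 4) (nat_lit 338) (nat_lit 249) (nat_lit 133)))) (XT.nd (nat_lit 156) (nat_lit 0) (nat_lit 0) (XT.nd (nat_lit 78) (nat_lit 0) (nat_lit 0) (XT.lf (nat_lit 0) (nat_lit 1495649683) (nat_lit 0) (nat_lit 1495649683) (nat_lit 380) (nat_lit 1712274527) (nat_lit 43) (nat_lit 5) (nat_lit 43) (nat_lit 3) (nat_lit 48) (nat_lit 3) (nat_lit 250) (nat_lit 250) (nat_lit 220)) (XT.lf (nat_lit 0) (nat_lit 6952759158) (nat_lit 380) (nat_lit 2362136929) (nat_lit 456) (nat_lit 405819580) (nat_lit 43) (nat_lit 5)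 (nat_lit 48) (nat_lit 3) (nat_lit 49) (nat_lit 5) (nat_lit 251) (nat_lit 250) (nat_lit 219))) (XT.nd (nat_lit 78) (nat_lit 0) (nat_lit 0) (XT.lf (nat_lit 76) (nat_lit 1994860427) (nat_lit 0) (nat_lit 6060118519) (nat_lit 456) (nat_lit 2000459464) (nat_lit 44) (nat_lit 5) (nat_lit 43) (nat_lit 5) (nat_lit 49) (nat_lit 5) (nat_lit 252) (nat_lit 250) (nat_lit 218)) (XT.lf (nat_lit 76) (nat_lit 6792739719) (nat_lit 0) (nat_lit 2450261157) (nat_lit 456) (nat_lit 1174521795) (nat_lit 44) (nat_lit 5) (nat_lit 43) (nat_lit 5) (nat_lit 49) (nat_lit 5) (nat_lit 253) (nat_lit 250) (nat_lit 217))))))) (XT.nd (nat_lit 1014) (nat_lit 988) (nat_lit 0) (XT.nd (nat_lit 468) (nat_lit 684) (nat_lit 0) (XT.nd (nat_lit 234) (nat_lit 380) (nat_lit 0) (XT.nd (nat_lit 78) (nat_lit 456) (nat_lit 0) (XT.lf (nat_lit 76) (nat_lit 1143459972) (nat_lit 0) (nat_lit 9383493604) (nat_lit 456) (nat_lit 281913477) (nat_lit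 45) (nat_lit 5) (nat_lit 44) (nat_lit 5) (nat_lit 50) (nat_lit 5) (nat_lit 254) (nat_lit 250) (nat_lit 216)) (XT.nd (nat_lit 78) (nat_lit 0) (nat_lit 0) (XT.lf (nat_lit 0) (nat_lit 753538467) (nat_lit 456) (nat_lit 4854013992) (nat_lit 532) (nat_lit 5614522137) (nat_lit 38) (nat_lit 5) (nat_lit 44) (nat_lit 5) (nat_lit 45) (nat_lit 5) (nat_lit 255) (nat_lit 250) (nat_lit 215)) (XT.lf (nat_lit 76) (nat_lit 306690959) (nat_lit 0) (nat_lit 1501939374) (nat_lit 532) (nat_lit 9863249216) (nat_lit 39) (nat_lit 5) (nat_lit 38) (nat_lit 5) (nat_lit 45) (nat_lit 5) (nat_lit 256) (nat_lit 250) (nat_lit 214)))) (XT.nd (nat_lit 78) (nat_lit 456) (nat_lit 0) (XT.lf (nat_lit 0) (nat_lit 3102781584) (nat_lit 456) (nat_lit 6111910328) (nat_lit 76) (nat_lit 2930872744) (nat_lit 39) (nat_lit 5) (nat_lit 45) (nat_lit 5) (nat_lit 40) (nat_lit 5) (nat_lit 257) (nat_lit 250) (nat_lit 213)) (XT.nd (nat_lit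 78) (nat_lit 456) (nat_lit 0) (XT.lf (nat_lit 0) (nat_lit 4491300295) (nat_lit 456) (nat_lit 521083415) (nat_lit 76) (nat_lit 7645742106) (nat_lit 39) (nat_lit 5) (nat_lit 45) (nat_lit 5) (nat_lit 40) (nat_lit 5) (nat_lit 258) (nat_lit 250) (nat_lit 212)) (XT.lf (nat_lit 0) (nat_lit 5764929788) (nat_lit 456) (nat_lit 320009959) (nat_lit 532) (nat_lit 7119458682) (nat_lit 33) (nat_lit 5) (nat_lit 39) (nat_lit 5) (nat_lit 40) (nat_lit 5) (nat_lit 259) (nat_lit 250) (nat_lit 211))))) (XT.nd (nat_lit 234) (nat_lit 456) (nat_lit 0) (XT.nd (nat_lit 78) (nat_lit 228) (nat_lit 0) (XT.lf (nat_lit 0) (nat_lit 7892687216) (nat_lit 532) (nat_lit 1367429191) (nat_lit 76) (nat_lit 4527539779) (nat_lit 33) (nat_lit 5) (nat_lit 40) (nat_lit 5) (nat_lit 34) (nat_lit 5) (nat_lit 260) (nat_lit 250) (nat_lit 210)) (XT.nd (nat_lit 78) (nat_lit 0) (nat_lit 0) (XT.lf (nat_lit 0) (nat_lit 5412929805) (nat_lit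 228) (nat_lit 4531558328) (nat_lit 304) (nat_lit 4465328669) (nat_lit 30) (nat_lit 5) (nat_lit 33) (nat_lit 5) (nat_lit 34) (nat_lit 5) (nat_lit 261) (nat_lit 250) (nat_lit 209)) (XT.lf (nat_lit 0) (nat_lit 12175482981) (nat_lit 304) (nat_lit 2322086780) (nat_lit 76) (nat_lit 583158858) (nat_lit 30) (nat_lit 5) (nat_lit 34) (nat_lit 5) (nat_lit 31) (nat_lit 5) (nat_lit 262) (nat_lit 250) (nat_lit 208)))) (XT.nd (nat_lit 156) (nat_lit 228) (nat_lit 0) (XT.nd (nat_lit 78) (nat_lit 76) (nat_lit 0) (XT.lf (nat_lit 0) (nat_lit 4979179608) (nat_lit 152) (nat_lit 9808836678) (nat_lit 228) (nat_lit 1001221222) (nat_lit 28) (nat_lit 5) (nat_lit 30) (nat_lit 5) (nat_lit 31) (nat_lit 5) (nat_lit 263) (nat_lit 250) (nat_lit 207)) (XT.lf (nat_lit 0) (nat_lit 1033725829) (nat_lit 228) (nat_lit 3619597774) (nat_lit 76) (nat_lit 11896707606) (nat_lit 27) (nat_lit 5) (nat_lit 30) (nat_lit 5) (nat_lit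 28) (nat_lit 5) (nat_lit 264) (nat_lit 250) (nat_lit 206))) (XT.nd (nat_lit 78) (nat_lit 0) (nat_lit 0) (XT.lf (nat_lit 0) (nat_lit 3274715000) (nat_lit 304) (nat_lit 13090967563) (nat_lit 76) (nat_lit 996272344) (nat_lit 24) (nat_lit 5) (nat_lit 28) (nat_lit 5) (nat_lit 25) (nat_lit 5) (nat_lit 265) (nat_lit 250) (nat_lit 205)) (XT.lf (nat_lit 0) (nat_lit 5887432413) (nat_lit 304) (nat_lit 5393990385) (nat_lit 76) (nat_lit 6942137875) (nat_lit 24) (nat_lit 5) (nat_lit 28) (nat_lit 5) (nat_lit 25) (nat_lit 5) (nat_lit 266) (nat_lit 250) (nat_lit 204)))))) (XT.nd (nat_lit 468) (nat_lit 456) (nat_lit 0) (XT.nd (nat_lit 234) (nat_lit 228) (nat_lit 0) (XT.nd (nat_lit 78) (nat_lit 152) (nat_lit 0) (XT.lf (nat_lit 0) (nat_lit 3035102641) (nat_lit 152) (nat_lit 5719324417) (nat_lit 228) (nat_lit 10396161961) (nat_lit 22) (nat_lit 5) (nat_lit 24) (nat_lit 5) (nat_lit 25) (nat_lit 5) (nat_lit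 267) (nat_lit 250) (nat_lit 203)) (XT.nd (nat_lit 78) (nat_lit 152) (nat_lit 0) (XT.lf (nat_lit 0) (nat_lit 11982308029) (nat_lit 228) (nat_lit 7742053804) (nat_lit 76) (nat_lit 417002055) (nat_lit 22) (nat_lit 5) (nat_lit 25) (nat_lit 5) (nat_lit 23) (nat_lit 5) (nat_lit 268) (nat_lit 250) (nat_lit 202)) (XT.lf (nat_lit 0) (nat_lit 1177719424) (nat_lit 152) (nat_lit 14442850906) (nat_lit 228) (nat_lit 5578756861) (nat_lit 20) (nat_lit 5) (nat_lit 22) (nat_lit 5) (nat_lit 23) (nat_lit 5) (nat_lit 269) (nat_lit 250) (nat_lit 201)))) (XT.nd (nat_lit 78) (nat_lit 228) (nat_lit 0) (XT.lf (nat_lit 0) (nat_lit 11218335691) (nat_lit 152) (nat_lit 8519549312) (nat_lit 228) (nat_lit 2589094461) (nat_lit 20) (nat_lit 5) (nat_lit 22) (nat_lit 5) (nat_lit 23) (nat_lit 5) (nat_lit 270) (nat_lit 250) (nat_lit 200)) (XT.nd (nat_lit 78) (nat_lit 152) (nat_lit 0) (XT.lf (nat_lit 0) (nat_lit 585153251)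 (nat_lit 228) (nat_lit 1529885096) (nat_lit 76) (nat_lit 21430459733) (nat_lit 19) (nat_lit 5) (nat_lit 22) (nat_lit 5) (nat_lit 20) (nat_lit 5) (nat_lit 271) (nat_lit 250) (nat_lit 199)) (XT.lf (nat_lit 0) (nat_lit 4196027330) (nat_lit 228) (nat_lit 15785438380) (nat_lit 76) (nat_lit 4848919757) (nat_lit 17) (nat_lit 5) (nat_lit 20) (nat_lit 5) (nat_lit 18) (nat_lit 5) (nat_lit 272) (nat_lit 250) (nat_lit 198))))) (XT.nd (nat_lit 234) (nat_lit 304) (nat_lit 0) (XT.nd (nat_lit 78) (nat_lit 152) (nat_lit 0) (XT.lf (nat_lit 0) (nat_lit 8173359876) (nat_lit 228) (nat_lit 5748180678) (nat_lit 76) (nat_lit 12290383253) (nat_lit 17) (nat_lit 5) (nat_lit 20) (nat_lit 5) (nat_lit 18) (nat_lit 5) (nat_lit 273) (nat_lit 250) (nat_lit 197)) (XT.nd (nat_lit 78) (nat_lit 0) (nat_lit 0) (XT.lf (nat_lit 0) (nat_lit 5330748807) (nat_lit 152) (nat_lit 7247572100) (nat_lit 228) (nat_lit 15116971038)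 (nat_lit 15) (nat_lit 5) (nat_lit 17) (nat_lit 5) (nat_lit 18) (nat_lit 5) (nat_lit 274) (nat_lit 250) (nat_lit 196)) (XT.lf (nat_lit 0) (nat_lit 17477721194) (nat_lit 228) (nat_lit 11693531158) (nat_lit 76) (nat_lit 114771275) (nat_lit 15) (nat_lit 5) (nat_lit 18) (nat_lit 5) (nat_lit 16) (nat_lit 4) (nat_lit 275) (nat_lit 250) (nat_lit 195)))) (XT.nd (nat_lit 156) (nat_lit 228) (nat_lit 0) (XT.nd (nat_lit 78) (nat_lit 76) (nat_lit 0) (XT.lf (nat_lit 0) (nat_lit 22940423203) (nat_lit 228) (nat_lit 383516357) (nat_lit 76) (nat_lit 7666419531) (nat_lit 15) (nat_lit 5) (nat_lit 18) (nat_lit 5) (nat_lit 16) (nat_lit 4) (nat_lit 276) (nat_lit 250) (nat_lit 194)) (XT.lf (nat_lit 0) (nat_lit 12428554489) (nat_lit 76) (nat_lit 16694846763) (nat_lit 152) (nat_lit 3685028631) (nat_lit 14) (nat_lit 5) (nat_lit 15) (nat_lit 5) (nat_lit 16) (nat_lit 4) (nat_lit 277) (nat_lit 250) (nat_lit 193)))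 (XT.nd (nat_lit 78) (nat_lit 152) (nat_lit 0) (XT.lf (nat_lit 0) (nat_lit 972854963) (nat_lit 152) (nat_lit 8533437582) (nat_lit 76) (nat_lit 25264095144) (nat_lit 13) (nat_lit 5) (nat_lit 15) (nat_lit 5) (nat_lit 14) (nat_lit 5) (nat_lit 278) (nat_lit 250) (nat_lit 192)) (XT.lf (nat_lit 0) (nat_lit 4360236847) (nat_lit 152) (nat_lit 1534560498) (nat_lit 228) (nat_lit 30979645464) (nat_lit 11) (nat_lit 5) (nat_lit 13) (nat_lit 5) (nat_lit 14) (nat_lit 5) (nat_lit 279) (nat_lit 250) (nat_lit 191))))))))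
noncomputable def xc69 : XT := (XT.nd (nat_lit 2028) (nat_lit 228) (nat_lit 0) (XT.nd (nat_lit 1014) (nat_lit 228) (nat_lit 0) (XT.nd (nat_lit 468) (nat_lit 152) (nat_lit 0) (XT.nd (nat_lit 234) (nat_lit 76) (nat_lit 0) (XT.nd (nat_lit 78) (nat_lit 76) (nat_lit 0) (XT.lf (nat_lit 0) (nat_lit 11606000578) (nat_lit 228) (nat_lit 20556898309) (nat_lit 76) (nat_lit 6952319238) (nat_lit 11) (nat_lit 5) (nat_lit 14) (nat_lit 5) (nat_lit 12) (nat_lit 4) (nat_lit 280) (nat_lit 250) (nat_lit 190)) (XT.nd (nat_lit 78) (nat_lit 76) (nat_lit 0) (XT.lf (nat_lit 0) (nat_lit 17800971889) (nat_lit 228) (nat_lit 7704382258) (nat_lit 76) (nat_lit 16027785114) (nat_lit 11) (nat_lit 5) (nat_lit 14) (nat_lit 5) (nat_lit 12) (nat_lit 4) (nat_lit 281) (nat_lit 250) (nat_lit 189)) (XT.lf (nat_lit 0) (nat_lit 6480597180) (nat_lit 76) (nat_lit 18154777340) (nat_lit 152) (nat_lit 19497643935) (nat_lit 10) (nat_lit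 5) (nat_lit 11) (nat_lit 5) (nat_lit 12) (nat_lit 4) (nat_lit 282) (nat_lit 250) (nat_lit 188)))) (XT.nd (nat_lit 78) (nat_lit 76) (nat_lit 0) (XT.lf (nat_lit 0) (nat_lit 22219110804) (nat_lit 76) (nat_lit 9996468821) (nat_lit 152) (nat_lit 14709413093) (nat_lit 10) (nat_lit 5) (nat_lit 11) (nat_lit 5) (nat_lit 12) (nat_lit 4) (nat_lit 283) (nat_lit 250) (nat_lit 187)) (XT.nd (nat_lit 78) (nat_lit 76) (nat_lit 0) (XT.lf (nat_lit 0) (nat_lit 39198724761) (nat_lit 76) (nat_lit 1192734524) (nat_lit 152) (nat_lit 9549751611) (nat_lit 10) (nat_lit 5) (nat_lit 11) (nat_lit 5) (nat_lit 12) (nat_lit 4) (nat_lit 284) (nat_lit 250) (nat_lit 186)) (XT.lf (nat_lit 0) (nat_lit 4337678424) (nat_lit 76) (nat_lit 45177927933) (nat_lit 76) (nat_lit 3659609061) (nat_lit 9) (nat_lit 4) (nat_lit 10) (nat_lit 5) (nat_lit 10) (nat_lit 4) (nat_lit 285) (nat_lit 250) (nat_lit 185))))) (XT.nd (nat_lit 234)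 (nat_lit 76) (nat_lit 0) (XT.nd (nat_lit 78) (nat_lit 0) (nat_lit 0) (XT.lf (nat_lit 0) (nat_lit 2888880760) (nat_lit 152) (nat_lit 35530257787) (nat_lit 76) (nat_lit 18217841681) (nat_lit 8) (nat_lit 5) (nat_lit 10) (nat_lit 5) (nat_lit 9) (nat_lit 4) (nat_lit 286) (nat_lit 250) (nat_lit 184)) (XT.nd (nat_lit 78) (nat_lit 0) (nat_lit 0) (XT.lf (nat_lit 0) (nat_lit 9754239812) (nat_lit 152) (nat_lit 21269580307) (nat_lit 76) (nat_lit 29345024972) (nat_lit 8) (nat_lit 5) (nat_lit 10) (nat_lit 5) (nat_lit 9) (nat_lit 4) (nat_lit 287) (nat_lit 250) (nat_lit 183)) (XT.lf (nat_lit 0) (nat_lit 17160220170) (nat_lit 152) (nat_lit 5882983151) (nat_lit 76) (nat_lit 41356762537) (nat_lit 8) (nat_lit 5) (nat_lit 10) (nat_lit 5) (nat_lit 9) (nat_lit 4) (nat_lit 288) (nat_lit 250) (nat_lit 182)))) (XT.nd (nat_lit 156) (nat_lit 0) (nat_lit 0) (XT.nd (nat_lit 78) (nat_lit 0) (nat_lit 0) (XT.lf (nat_lit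 0) (nat_lit 11285247292) (nat_lit 76) (nat_lit 14136872303) (nat_lit 152) (nat_lit 43310398219) (nat_lit 7) (nat_lit 5) (nat_lit 8) (nat_lit 5) (nat_lit 9) (nat_lit 4) (nat_lit 289) (nat_lit 250) (nat_lit 181)) (XT.lf (nat_lit 0) (nat_lit 30148028457) (nat_lit 76) (nat_lit 4350090077) (nat_lit 152) (nat_lit 38901319121) (nat_lit 7) (nat_lit 5) (nat_lit 8) (nat_lit 5) (nat_lit 9) (nat_lit 4) (nat_lit 290) (nat_lit 250) (nat_lit 180))) (XT.nd (nat_lit 78) (nat_lit 0) (nat_lit 0) (XT.lf (nat_lit 0) (nat_lit 44442518179) (nat_lit 152) (nat_lit 28082397562) (nat_lit 0) (nat_lit 5903424066) (nat_lit 7) (nat_lit 5) (nat_lit 9) (nat_lit 4) (nat_lit 7) (nat_lit 4) (nat_lit 291) (nat_lit 250) (nat_lit 179)) (XT.lf (nat_lit 0) (nat_lit 55288735466) (nat_lit 152) (nat_lit 11824832335) (nat_lit 0) (nat_lit 16737498395) (nat_lit 7) (nat_lit 5) (nat_lit 9) (nat_lit 4) (nat_lit 7) (nat_lit 4) (nat_lit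 292) (nat_lit 250) (nat_lit 178)))))) (XT.nd (nat_lit 468) (nat_lit 76) (nat_lit 0) (XT.nd (nat_lit 234) (nat_lit 76) (nat_lit 0) (XT.nd (nat_lit 78) (nat_lit 0) (nat_lit 0) (XT.lf (nat_lit 0) (nat_lit 6023570786) (nat_lit 76) (nat_lit 61117720741) (nat_lit 76) (nat_lit 22555240191) (nat_lit 6) (nat_lit 4) (nat_lit 7) (nat_lit 5) (nat_lit 7) (nat_lit 4) (nat_lit 293) (nat_lit 250) (nat_lit 177)) (XT.nd (nat_lit 78) (nat_lit 0) (nat_lit 0) (XT.lf (nat_lit 0) (nat_lit 25961524898) (nat_lit 76) (nat_lit 54297814594) (nat_lit 76) (nat_lit 15724923414) (nat_lit 6) (nat_lit 4) (nat_lit 7) (nat_lit 5) (nat_lit 7) (nat_lit 4) (nat_lit 294) (nat_lit 250) (nat_lit 176)) (XT.lf (nat_lit 0) (nat_lit 47484506125) (nat_lit 76) (nat_lit 46936746973) (nat_lit 76) (nat_lit 8354216322) (nat_lit 6) (nat_lit 4) (nat_lit 7) (nat_lit 5) (nat_lit 7) (nat_lit 4) (nat_lit 295) (nat_lit 250) (nat_lit 175))))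 (XT.nd (nat_lit 78) (nat_lit 76) (nat_lit 0) (XT.lf (nat_lit 0) (nat_lit 70720058058) (nat_lit 76) (nat_lit 38990896737) (nat_lit 76) (nat_lit 399440649) (nat_lit 6) (nat_lit 4) (nat_lit 7) (nat_lit 5) (nat_lit 7) (nat_lit 4) (nat_lit 296) (nat_lit 250) (nat_lit 174)) (XT.nd (nat_lit 78) (nat_lit 0) (nat_lit 0) (XT.lf (nat_lit 0) (nat_lit 7777018978) (nat_lit 152) (nat_lit 22423520906) (nat_lit 76) (nat_lit 87816216398) (nat_lit 5) (nat_lit 5) (nat_lit 7) (nat_lit 5) (nat_lit 6) (nat_lit 4) (nat_lit 297) (nat_lit 250) (nat_lit 173)) (XT.lf (nat_lit 0) (nat_lit 16581464062) (nat_lit 152) (nat_lit 4117927253) (nat_lit 76) (nat_lit 105855776529) (nat_lit 5) (nat_lit 5) (nat_lit 7) (nat_lit 5) (nat_lit 6) (nat_lit 4) (nat_lit 298) (nat_lit 250) (nat_lit 172))))) (XT.nd (nat_lit 234) (nat_lit 0) (nat_lit 0) (XT.nd (nat_lit 78) (nat_lit 0) (nat_lit 0) (XT.lf (nat_lit 0) (nat_lit 16468340825)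 (nat_lit 76) (nat_lit 10013773899) (nat_lit 152) (nat_lit 109263196805) (nat_lit 4) (nat_lit 5) (nat_lit 5) (nat_lit 5) (nat_lit 6) (nat_lit 4) (nat_lit 299) (nat_lit 250) (nat_lit 171)) (XT.nd (nat_lit 78) (nat_lit 0) (nat_lit 0) (XT.lf (nat_lit 0) (nat_lit 37322890912) (nat_lit 152) (nat_lit 106773247769) (nat_lit 0) (nat_lit 1562688814) (nat_lit 4) (nat_lit 5) (nat_lit 6) (nat_lit 4) (nat_lit 4) (nat_lit 4) (nat_lit 300) (nat_lit 250) (nat_lit 170)) (XT.lf (nat_lit 0) (nat_lit 49287175910) (nat_lit 152) (nat_lit 93536405988) (nat_lit 0) (nat_lit 13521349272) (nat_lit 4) (nat_lit 5) (nat_lit 6) (nat_lit 4) (nat_lit 4) (nat_lit 4) (nat_lit 301) (nat_lit 250) (nat_lit 169)))) (XT.nd (nat_lit 156) (nat_lit 0) (nat_lit 0) (XT.nd (nat_lit 78) (nat_lit 0) (nat_lit 0) (XT.lf (nat_lit 0) (nat_lit 62205037682) (nat_lit 152) (nat_lit 79247173313) (nat_lit 0) (nat_lit 26434003138) (nat_lit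 4) (nat_lit 5) (nat_lit 6) (nat_lit 4) (nat_lit 4) (nat_lit 4) (nat_lit 302) (nat_lit 250) (nat_lit 168)) (XT.lf (nat_lit 0) (nat_lit 76153026521) (nat_lit 152) (nat_lit 63820872811) (nat_lit 0) (nat_lit 40377169841) (nat_lit 4) (nat_lit 5) (nat_lit 6) (nat_lit 4) (nat_lit 4) (nat_lit 4) (nat_lit 303) (nat_lit 250) (nat_lit 167))) (XT.nd (nat_lit 78) (nat_lit 0) (nat_lit 0) (XT.lf (nat_lit 0) (nat_lit 91213797174) (nat_lit 152) (nat_lit 47166089368) (nat_lit 0) (nat_lit 55433475554) (nat_lit 4) (nat_lit 5) (nat_lit 6) (nat_lit 4) (nat_lit 4) (nat_lit 4) (nat_lit 304) (nat_lit 250) (nat_lit 166)) (XT.lf (nat_lit 0) (nat_lit 107476598654) (nat_lit 152) (nat_lit 29184127970) (nat_lit 0) (nat_lit 71692142830) (nat_lit 4) (nat_lit 5) (nat_lit 6) (nat_lit 4) (nat_lit 4) (nat_lit 4) (nat_lit 305) (nat_lit 250) (nat_lit 165))))))) (XT.nd (nat_lit 1014) (nat_lit 152) (nat_lit 0) (XT.nd (nat_lit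 468) (nat_lit 0) (nat_lit 0) (XT.nd (nat_lit 234) (nat_lit 0) (nat_lit 0) (XT.nd (nat_lit 78) (nat_lit 76) (nat_lit 0) (XT.lf (nat_lit 0) (nat_lit 125037803118) (nat_lit 152) (nat_lit 9768428846) (nat_lit 0) (nat_lit 89249519327) (nat_lit 4) (nat_lit 5) (nat_lit 6) (nat_lit 4) (nat_lit 4) (nat_lit 4) (nat_lit 306) (nat_lit 250) (nat_lit 164)) (XT.nd (nat_lit 78) (nat_lit 0) (nat_lit 0) (XT.lf (nat_lit 0) (nat_lit 11785628886) (nat_lit 76) (nat_lit 132499292733) (nat_lit 76) (nat_lit 96707464528) (nat_lit 3) (nat_lit 4) (nat_lit 4) (nat_lit 5) (nat_lit 4) (nat_lit 4) (nat_lit 307) (nat_lit 250) (nat_lit 163)) (XT.lf (nat_lit 0) (nat_lit 35615201200) (nat_lit 76) (nat_lit 129721342756) (nat_lit 76) (nat_lit 93926232687) (nat_lit 3) (nat_lit 4) (nat_lit 4) (nat_lit 5) (nat_lit 4) (nat_lit 4) (nat_lit 308) (nat_lit 250) (nat_lit 162)))) (XT.nd (nat_lit 78) (nat_lit 0) (nat_lit 0) (XT.lf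 (nat_lit 0) (nat_lit 61347112224) (nat_lit 76) (nat_lit 126723006265) (nat_lit 76) (nat_lit 90924857432) (nat_lit 3) (nat_lit 4) (nat_lit 4) (nat_lit 5) (nat_lit 4) (nat_lit 4) (nat_lit 309) (nat_lit 250) (nat_lit 161)) (XT.nd (nat_lit 78) (nat_lit 0) (nat_lit 0) (XT.lf (nat_lit 0) (nat_lit 89133847355) (nat_lit 76) (nat_lit 123486515338) (nat_lit 76) (nat_lit 87685552836) (nat_lit 3) (nat_lit 4) (nat_lit 4) (nat_lit 5) (nat_lit 4) (nat_lit 4) (nat_lit 310) (nat_lit 250) (nat_lit 160)) (XT.lf (nat_lit 0) (nat_lit 119140068727) (nat_lit 76) (nat_lit 119992690771) (nat_lit 76) (nat_lit 84189123019) (nat_lit 3) (nat_lit 4) (nat_lit 4) (nat_lit 5) (nat_lit 4) (nat_lit 4) (nat_lit 311) (nat_lit 250) (nat_lit 159))))) (XT.nd (nat_lit 234) (nat_lit 0) (nat_lit 0) (XT.nd (nat_lit 78) (nat_lit 0) (nat_lit 0) (XT.lf (nat_lit 0) (nat_lit 151543590988) (nat_lit 76) (nat_lit 116220828418) (nat_lit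 76) (nat_lit 80414848397) (nat_lit 3) (nat_lit 4) (nat_lit 4) (nat_lit 5) (nat_lit 4) (nat_lit 4) (nat_lit 312) (nat_lit 250) (nat_lit 158)) (XT.nd (nat_lit 78) (nat_lit 0) (nat_lit 0) (XT.lf (nat_lit 0) (nat_lit 186536435007) (nat_lit 76) (nat_lit 112148576502) (nat_lit 76) (nat_lit 76340362900) (nat_lit 3) (nat_lit 4) (nat_lit 4) (nat_lit 5) (nat_lit 4) (nat_lit 4) (nat_lit 313) (nat_lit 250) (nat_lit 157)) (XT.lf (nat_lit 0) (nat_lit 224325965788) (nat_lit 76) (nat_lit 107751803160) (nat_lit 76) (nat_lit 71941521426) (nat_lit 3) (nat_lit 4) (nat_lit 4) (nat_lit 5) (nat_lit 4) (nat_lit 4) (nat_lit 314) (nat_lit 250) (nat_lit 156)))) (XT.nd (nat_lit 156) (nat_lit 0) (nat_lit 0) (XT.nd (nat_lit 78) (nat_lit 0) (nat_lit 0) (XT.lf (nat_lit 0) (nat_lit 265136121291) (nat_lit 76) (nat_lit 103004453439) (nat_lit 76) (nat_lit 67192256769) (nat_lit 3) (nat_lit 4) (nat_lit 4) (nat_lit 5) (nat_lit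 4) (nat_lit 4) (nat_lit 315) (nat_lit 250) (nat_lit 155)) (XT.lf (nat_lit 0) (nat_lit 309208739474) (nat_lit 76) (nat_lit 97878394896) (nat_lit 76) (nat_lit 62064425136) (nat_lit 3) (nat_lit 4) (nat_lit 4) (nat_lit 5) (nat_lit 4) (nat_lit 4) (nat_lit 316) (nat_lit 250) (nat_lit 154))) (XT.nd (nat_lit 78) (nat_lit 0) (nat_lit 0) (XT.lf (nat_lit 0) (nat_lit 356804991408) (nat_lit 76) (nat_lit 92343250887) (nat_lit 76) (nat_lit 56527639378) (nat_lit 3) (nat_lit 4) (nat_lit 4) (nat_lit 5) (nat_lit 4) (nat_lit 4) (nat_lit 317) (nat_lit 250) (nat_lit 153)) (XT.lf (nat_lit 0) (nat_lit 408206928955) (nat_lit 76) (nat_lit 86366220560) (nat_lit 76) (nat_lit 50549088913) (nat_lit 3) (nat_lit 4) (nat_lit 4) (nat_lit 5) (nat_lit 4) (nat_lit 4) (nat_lit 318) (nat_lit 250) (nat_lit 152)))))) (XT.nd (nat_lit 468) (nat_lit 152) (nat_lit 0) (XT.nd (nat_lit 234) (nat_lit 0) (nat_lit 0) (XT.nd (nat_lit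 78) (nat_lit 0) (nat_lit 0) (XT.lf (nat_lit 0) (nat_lit 463719156192) (nat_lit 76) (nat_lit 79911884475) (nat_lit 76) (nat_lit 44093345292) (nat_lit 3) (nat_lit 4) (nat_lit 4) (nat_lit 5) (nat_lit 4) (nat_lit 4) (nat_lit 319) (nat_lit 250) (nat_lit 151)) (XT.nd (nat_lit 78) (nat_lit 0) (nat_lit 0) (XT.lf (nat_lit 0) (nat_lit 523670634463) (nat_lit 76) (nat_lit 72941994715) (nat_lit 76) (nat_lit 37122152259) (nat_lit 3) (nat_lit 4) (nat_lit 4) (nat_lit 5) (nat_lit 4) (nat_lit 4) (nat_lit 320) (nat_lit 250) (nat_lit 150)) (XT.lf (nat_lit 0) (nat_lit 588416631788) (nat_lit 76) (nat_lit 65415248229) (nat_lit 76) (nat_lit 29594199038) (nat_lit 3) (nat_lit 4) (nat_lit 4) (nat_lit 5) (nat_lit 4) (nat_lit 4) (nat_lit 321) (nat_lit 250) (nat_lit 149)))) (XT.nd (nat_lit 78) (nat_lit 0) (nat_lit 0) (XT.lf (nat_lit 0) (nat_lit 658340828153) (nat_lit 76) (nat_lit 57287042076) (nat_lit 76) (nat_lit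 21464875538) (nat_lit 3) (nat_lit 4) (nat_lit 4) (nat_lit 5) (nat_lit 4) (nat_lit 4) (nat_lit 322) (nat_lit 250) (nat_lit 148)) (XT.nd (nat_lit 78) (nat_lit 0) (nat_lit 0) (XT.lf (nat_lit 0) (nat_lit 733857589164) (nat_lit 76) (nat_lit 48509209107) (nat_lit 76) (nat_lit 12686007988) (nat_lit 3) (nat_lit 4) (nat_lit 4) (nat_lit 5) (nat_lit 4) (nat_lit 4) (nat_lit 323) (nat_lit 250) (nat_lit 147)) (XT.lf (nat_lit 0) (nat_lit 815414421553) (nat_lit 76) (nat_lit 39029732535) (nat_lit 76) (nat_lit 3205573471) (nat_lit 3) (nat_lit 4) (nat_lit 4) (nat_lit 5) (nat_lit 4) (nat_lit 4) (nat_lit 324) (nat_lit 250) (nat_lit 146))))) (XT.nd (nat_lit 234) (nat_lit 0) (nat_lit 0) (XT.nd (nat_lit 78) (nat_lit 76) (nat_lit 0) (XT.lf (nat_lit 0) (nat_lit 6680808813) (nat_lit 152) (nat_lit 21928963718) (nat_lit 76) (nat_lit 896631151103) (nat_lit 2) (nat_lit 5) (nat_lit 4) (nat_lit 5) (nat_lit 3) (nat_lit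 4) (nat_lit 325) (nat_lit 250) (nat_lit 145)) (XT.nd (nat_lit 78) (nat_lit 76) (nat_lit 0) (XT.lf (nat_lit 0) (nat_lit 17184312773) (nat_lit 152) (nat_lit 82496764) (nat_lit 76) (nat_lit 980965994134) (nat_lit 2) (nat_lit 5) (nat_lit 4) (nat_lit 5) (nat_lit 3) (nat_lit 4) (nat_lit 326) (nat_lit 250) (nat_lit 144)) (XT.lf (nat_lit 0) (nat_lit 24748678657) (nat_lit 76) (nat_lit 4374064822) (nat_lit 152) (nat_lit 1047893719690) (nat_lit 1) (nat_lit 5) (nat_lit 2) (nat_lit 5) (nat_lit 3) (nat_lit 4) (nat_lit 327) (nat_lit 250) (nat_lit 143)))) (XT.nd (nat_lit 156) (nat_lit 0) (nat_lit 0) (XT.nd (nat_lit 78) (nat_lit 0) (nat_lit 0) (XT.lf (nat_lit 0) (nat_lit 42247688934) (nat_lit 152) (nat_lit 1110762378513) (nat_lit 0) (nat_lit 9074233472) (nat_lit 1) (nat_lit 5) (nat_lit 3) (nat_lit 4) (nat_lit 1) (nat_lit 4) (nat_lit 328) (nat_lit 250) (nat_lit 142)) (XT.lf (nat_lit 0) (nat_lit 56535729110)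 (nat_lit 152) (nat_lit 1174051119333) (nat_lit 0) (nat_lit 23361669981) (nat_lit 1) (nat_lit 5) (nat_lit 3) (nat_lit 4) (nat_lit 1) (nat_lit 4) (nat_lit 329) (nat_lit 250) (nat_lit 141))) (XT.nd (nat_lit 78) (nat_lit 0) (nat_lit 0) (XT.lf (nat_lit 0) (nat_lit 71966337513) (nat_lit 152) (nat_lit 1242403854997) (nat_lit 0) (nat_lit 38791719432) (nat_lit 1) (nat_lit 5) (nat_lit 3) (nat_lit 4) (nat_lit 1) (nat_lit 4) (nat_lit 330) (nat_lit 250) (nat_lit 140)) (XT.lf (nat_lit 0) (nat_lit 88630954784) (nat_lit 152) (nat_lit 1316225638753) (nat_lit 0) (nat_lit 55455819155) (nat_lit 1) (nat_lit 5) (nat_lit 3) (nat_lit 4) (nat_lit 1) (nat_lit 4) (nat_lit 331) (nat_lit 250) (nat_lit 139))))))))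
noncomputable def xc70 : XT := (XT.nd (nat_lit 32604) (nat_lit 0) (nat_lit 380) (XT.nd (nat_lit 31590) (nat_lit 0) (nat_lit 1596) (XT.nd (nat_lit 468) (nat_lit 0) (nat_lit 0) (XT.nd (nat_lit 234) (nat_lit 0) (nat_lit 0) (XT.nd (nat_lit 78) (nat_lit 0) (nat_lit 0) (XT.lf (nat_lit 0) (nat_lit 106628334212) (nat_lit 152) (nat_lit 1395953933025) (nat_lit 0) (nat_lit 73452719371) (nat_lit 1) (nat_lit 5) (nat_lit 3) (nat_lit 4) (nat_lit 1) (nat_lit 4) (nat_lit 332) (nat_lit 250) (nat_lit 138)) (XT.nd (nat_lit 78) (nat_lit 0) (nat_lit 0) (XT.lf (nat_lit 0) (nat_lit 126065126932) (nat_lit 152) (nat_lit 1482061201777) (nat_lit 0) (nat_lit 92889068378) (nat_lit 1) (nat_lit 5) (nat_lit 3) (nat_lit 4) (nat_lit 1) (nat_lit 4) (nat_lit 333) (nat_lit 250) (nat_lit 137)) (XT.lf (nat_lit 0) (nat_lit 147056513940) (nat_lit 152) (nat_lit 1575057710307) (nat_lit 0) (nat_lit 113880044540) (nat_lit 1) (nat_lit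 5) (nat_lit 3) (nat_lit 4) (nat_lit 1) (nat_lit 4) (nat_lit 334) (nat_lit 250) (nat_lit 136)))) (XT.nd (nat_lit 78) (nat_lit 0) (nat_lit 0) (XT.lf (nat_lit 0) (nat_lit 169726888639) (nat_lit 152) (nat_lit 1675494549035) (nat_lit 0) (nat_lit 136550038826) (nat_lit 1) (nat_lit 5) (nat_lit 3) (nat_lit 4) (nat_lit 1) (nat_lit 4) (nat_lit 335) (nat_lit 250) (nat_lit 135)) (XT.nd (nat_lit 78) (nat_lit 0) (nat_lit 0) (XT.lf (nat_lit 0) (nat_lit 194210593992) (nat_lit 152) (nat_lit 1783966899227) (nat_lit 0) (nat_lit 161033391944) (nat_lit 1) (nat_lit 5) (nat_lit 3) (nat_lit 4) (nat_lit 1) (nat_lit 4) (nat_lit 336) (nat_lit 250) (nat_lit 134)) (XT.lf (nat_lit 0) (nat_lit 220652718621) (nat_lit 152) (nat_lit 1901117559997) (nat_lit 0) (nat_lit 187475190431) (nat_lit 1) (nat_lit 5) (nat_lit 3) (nat_lit 4) (nat_lit 1) (nat_lit 4) (nat_lit 337) (nat_lit 250) (nat_lit 133))))) (XT.nd (nat_lit 30888)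 (nat_lit 0) (nat_lit 2812) (XT.nd (nat_lit 30732) (nat_lit 0) (nat_lit 3192) (XT.lf (nat_lit 0) (nat_lit 249209956600) (nat_lit 152) (nat_lit 2027640757482) (nat_lit 0) (nat_lit 216032126425) (nat_lit 1) (nat_lit 5) (nat_lit 3) (nat_lit 4) (nat_lit 1) (nat_lit 4) (nat_lit 338) (nat_lit 250) (nat_lit 132)) (XT.nd (nat_lit 78) (nat_lit 0) (nat_lit 0) (XT.lf (nat_lit 0) (nat_lit 1966927924) (nat_lit 0) (nat_lit 1966927924) (nat_lit 380) (nat_lit 1085596440) (nat_lit 43) (nat_lit 5) (nat_lit 43) (nat_lit 3) (nat_lit 48) (nat_lit 3) (nat_lit 251) (nat_lit 251) (nat_lit 218)) (XT.lf (nat_lit 0) (nat_lit 8610408284) (nat_lit 0) (nat_lit 189795286) (nat_lit 380) (nat_lit 1587191246) (nat_lit 43) (nat_lit 5) (nat_lit 43) (nat_lit 3) (nat_lit 48) (nat_lit 3) (nat_lit 252) (nat_lit 251) (nat_lit 217)))) (XT.nd (nat_lit 78) (nat_lit 380) (nat_lit 0) (XT.lf (nat_lit 76) (nat_lit 2913421626) (nat_lit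 0) (nat_lit 6995559956) (nat_lit 456) (nat_lit 847012248) (nat_lit 44) (nat_lit 5) (nat_lit 43) (nat_lit 5) (nat_lit 49) (nat_lit 5) (nat_lit 253) (nat_lit 251) (nat_lit 216)) (XT.nd (nat_lit 78) (nat_lit 380) (nat_lit 0) (XT.lf (nat_lit 76) (nat_lit 8038911086) (nat_lit 0) (nat_lit 3063533860) (nat_lit 456) (nat_lit 52294674) (nat_lit 44) (nat_lit 5) (nat_lit 43) (nat_lit 5) (nat_lit 49) (nat_lit 5) (nat_lit 254) (nat_lit 251) (nat_lit 215)) (XT.lf (nat_lit 0) (nat_lit 790455638) (nat_lit 456) (nat_lit 9580325726) (nat_lit 532) (nat_lit 1211360339) (nat_lit 38) (nat_lit 5) (nat_lit 44) (nat_lit 5) (nat_lit 45) (nat_lit 5) (nat_lit 255) (nat_lit 251) (nat_lit 214)))))) (XT.nd (nat_lit 468) (nat_lit 836) (nat_lit 0) (XT.nd (nat_lit 234) (nat_lit 380) (nat_lit 0) (XT.nd (nat_lit 78) (nat_lit 0) (nat_lit 0) (XT.lf (nat_lit 0) (nat_lit 1813535936) (nat_lit 456) (nat_lit 4454380024) (nat_lit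 532) (nat_lit 5766720429) (nat_lit 38) (nat_lit 5) (nat_lit 44) (nat_lit 5) (nat_lit 45) (nat_lit 5) (nat_lit 256) (nat_lit 251) (nat_lit 213)) (XT.nd (nat_lit 78) (nat_lit 0) (nat_lit 76) (XT.lf (nat_lit 76) (nat_lit 1099233092) (nat_lit 0) (nat_lit 1798219724) (nat_lit 532) (nat_lit 9627806696) (nat_lit 39) (nat_lit 5) (nat_lit 38) (nat_lit 5) (nat_lit 45) (nat_lit 5) (nat_lit 257) (nat_lit 251) (nat_lit 212)) (XT.lf (nat_lit 0) (nat_lit 4221278409) (nat_lit 456) (nat_lit 5811406606) (nat_lit 76) (nat_lit 3010421540) (nat_lit 39) (nat_lit 5) (nat_lit 45) (nat_lit 5) (nat_lit 40) (nat_lit 5) (nat_lit 258) (nat_lit 251) (nat_lit 211)))) (XT.nd (nat_lit 78) (nat_lit 0) (nat_lit 0) (XT.lf (nat_lit 0) (nat_lit 177065742) (nat_lit 456) (nat_lit 5483606547) (nat_lit 532) (nat_lit 7941148776) (nat_lit 33) (nat_lit 5) (nat_lit 39) (nat_lit 5) (nat_lit 40) (nat_lit 5) (nat_lit 259) (nat_lit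 251) (nat_lit 210)) (XT.nd (nat_lit 78) (nat_lit 0) (nat_lit 0) (XT.lf (nat_lit 0) (nat_lit 6938596678) (nat_lit 456) (nat_lit 396393171) (nat_lit 532) (nat_lit 6860858044) (nat_lit 33) (nat_lit 5) (nat_lit 39) (nat_lit 5) (nat_lit 40) (nat_lit 5) (nat_lit 260) (nat_lit 251) (nat_lit 209)) (XT.lf (nat_lit 0) (nat_lit 9229688862) (nat_lit 532) (nat_lit 755901086) (nat_lit 76) (nat_lit 4845074376) (nat_lit 33) (nat_lit 5) (nat_lit 40) (nat_lit 5) (nat_lit 34) (nat_lit 5) (nat_lit 261) (nat_lit 251) (nat_lit 208))))) (XT.nd (nat_lit 234) (nat_lit 456) (nat_lit 0) (XT.nd (nat_lit 78) (nat_lit 152) (nat_lit 0) (XT.lf (nat_lit 0) (nat_lit 6548635429) (nat_lit 228) (nat_lit 4861632005) (nat_lit 304) (nat_lit 4095423181) (nat_lit 30) (nat_lit 5) (nat_lit 33) (nat_lit 5) (nat_lit 34) (nat_lit 5) (nat_lit 262) (nat_lit 251) (nat_lit 207)) (XT.nd (nat_lit 78) (nat_lit 152) (nat_lit 0) (XT.lf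 (nat_lit 0) (nat_lit 13770818561) (nat_lit 304) (nat_lit 1805258979) (nat_lit 76) (nat_lit 658355696) (nat_lit 30) (nat_lit 5) (nat_lit 34) (nat_lit 5) (nat_lit 31) (nat_lit 5) (nat_lit 263) (nat_lit 251) (nat_lit 206)) (XT.lf (nat_lit 0) (nat_lit 6062321512) (nat_lit 152) (nat_lit 10500480661) (nat_lit 228) (nat_lit 439410771) (nat_lit 28) (nat_lit 5) (nat_lit 30) (nat_lit 5) (nat_lit 31) (nat_lit 5) (nat_lit 264) (nat_lit 251) (nat_lit 205)))) (XT.nd (nat_lit 156) (nat_lit 152) (nat_lit 0) (XT.nd (nat_lit 78) (nat_lit 228) (nat_lit 0) (XT.lf (nat_lit 0) (nat_lit 1681051027) (nat_lit 228) (nat_lit 3242931157) (nat_lit 76) (nat_lit 12902460227) (nat_lit 27) (nat_lit 5) (nat_lit 30) (nat_lit 5) (nat_lit 28) (nat_lit 5) (nat_lit 265) (nat_lit 251) (nat_lit 204)) (XT.lf (nat_lit 0) (nat_lit 4077780701) (nat_lit 304) (nat_lit 13446230118) (nat_lit 76) (nat_lit 1181371621) (nat_lit 24)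 (nat_lit 5) (nat_lit 28) (nat_lit 5) (nat_lit 25) (nat_lit 5) (nat_lit 266) (nat_lit 251) (nat_lit 203))) (XT.nd (nat_lit 78) (nat_lit 152) (nat_lit 0) (XT.lf (nat_lit 0) (nat_lit 6859434878) (nat_lit 304) (nat_lit 5184755125) (nat_lit 76) (nat_lit 7595099172) (nat_lit 24) (nat_lit 5) (nat_lit 28) (nat_lit 5) (nat_lit 25) (nat_lit 5) (nat_lit 267) (nat_lit 251) (nat_lit 202)) (XT.lf (nat_lit 0) (nat_lit 3902443711) (nat_lit 152) (nat_lit 6031253719) (nat_lit 228) (nat_lit 10708703449) (nat_lit 22) (nat_lit 5) (nat_lit 24) (nat_lit 5) (nat_lit 25) (nat_lit 5) (nat_lit 268) (nat_lit 251) (nat_lit 201))))))) (XT.nd (nat_lit 1014) (nat_lit 380) (nat_lit 0) (XT.nd (nat_lit 468) (nat_lit 456) (nat_lit 0) (XT.nd (nat_lit 234) (nat_lit 228) (nat_lit 0) (XT.nd (nat_lit 78) (nat_lit 152) (nat_lit 0) (XT.lf (nat_lit 0) (nat_lit 13387576274) (nat_lit 228) (nat_lit 7749134741) (nat_lit 76) (nat_lit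 578447698) (nat_lit 22) (nat_lit 5) (nat_lit 25) (nat_lit 5) (nat_lit 23) (nat_lit 5) (nat_lit 269) (nat_lit 251) (nat_lit 200)) (XT.nd (nat_lit 78) (nat_lit 0) (nat_lit 0) (XT.lf (nat_lit 0) (nat_lit 1868719501) (nat_lit 152) (nat_lit 15429445019) (nat_lit 228) (nat_lit 5561225186) (nat_lit 20) (nat_lit 5) (nat_lit 22) (nat_lit 5) (nat_lit 23) (nat_lit 5) (nat_lit 270) (nat_lit 251) (nat_lit 199)) (XT.lf (nat_lit 0) (nat_lit 12668378956) (nat_lit 152) (nat_lit 9044785517) (nat_lit 228) (nat_lit 2366747737) (nat_lit 20) (nat_lit 5) (nat_lit 22) (nat_lit 5) (nat_lit 23) (nat_lit 5) (nat_lit 271) (nat_lit 251) (nat_lit 198)))) (XT.nd (nat_lit 78) (nat_lit 152) (nat_lit 0) (XT.lf (nat_lit 0) (nat_lit 1009734250) (nat_lit 228) (nat_lit 1119430390) (nat_lit 76) (nat_lit 23268443729) (nat_lit 19) (nat_lit 5) (nat_lit 22) (nat_lit 5) (nat_lit 20) (nat_lit 5) (nat_lit 272) (nat_lit 251) (nat_lit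 197)) (XT.nd (nat_lit 78) (nat_lit 0) (nat_lit 0) (XT.lf (nat_lit 0) (nat_lit 4897763666) (nat_lit 228) (nat_lit 16502502184) (nat_lit 76) (nat_lit 5386054957) (nat_lit 17) (nat_lit 5) (nat_lit 20) (nat_lit 5) (nat_lit 18) (nat_lit 5) (nat_lit 273) (nat_lit 251) (nat_lit 196)) (XT.lf (nat_lit 0) (nat_lit 9166167695) (nat_lit 228) (nat_lit 5702691368) (nat_lit 76) (nat_lit 13411782079) (nat_lit 17) (nat_lit 5) (nat_lit 20) (nat_lit 5) (nat_lit 18) (nat_lit 5) (nat_lit 274) (nat_lit 251) (nat_lit 195))))) (XT.nd (nat_lit 234) (nat_lit 228) (nat_lit 0) (XT.nd (nat_lit 78) (nat_lit 76) (nat_lit 0) (XT.lf (nat_lit 0) (nat_lit 6249758964) (nat_lit 152) (nat_lit 7660505895) (nat_lit 228) (nat_lit 15973557802) (nat_lit 15) (nat_lit 5) (nat_lit 17) (nat_lit 5) (nat_lit 18) (nat_lit 5) (nat_lit 275) (nat_lit 251) (nat_lit 194)) (XT.nd (nat_lit 78) (nat_lit 76) (nat_lit 0) (XT.lf (nat_lit 0)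 (nat_lit 19181208847) (nat_lit 228) (nat_lit 12151578820) (nat_lit 76) (nat_lit 270734793) (nat_lit 15) (nat_lit 5) (nat_lit 18) (nat_lit 5) (nat_lit 16) (nat_lit 4) (nat_lit 276) (nat_lit 251) (nat_lit 193)) (XT.lf (nat_lit 0) (nat_lit 29339292) (nat_lit 76) (nat_lit 25029680745) (nat_lit 152) (nat_lit 8387008501) (nat_lit 14) (nat_lit 5) (nat_lit 15) (nat_lit 5) (nat_lit 16) (nat_lit 4) (nat_lit 277) (nat_lit 251) (nat_lit 192)))) (XT.nd (nat_lit 156) (nat_lit 152) (nat_lit 0) (XT.nd (nat_lit 78) (nat_lit 76) (nat_lit 0) (XT.lf (nat_lit 0) (nat_lit 13853716508) (nat_lit 76) (nat_lit 17871639247) (nat_lit 152) (nat_lit 3685157628) (nat_lit 14) (nat_lit 5) (nat_lit 15) (nat_lit 5) (nat_lit 16) (nat_lit 4) (nat_lit 278) (nat_lit 251) (nat_lit 191)) (XT.lf (nat_lit 0) (nat_lit 1309880158) (nat_lit 152) (nat_lit 8802796245) (nat_lit 76) (nat_lit 27417899854) (nat_lit 13) (nat_lit 5) (nat_lit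 15) (nat_lit 5) (nat_lit 14) (nat_lit 5) (nat_lit 279) (nat_lit 251) (nat_lit 190))) (XT.nd (nat_lit 78) (nat_lit 0) (nat_lit 0) (XT.lf (nat_lit 0) (nat_lit 5111908433) (nat_lit 152) (nat_lit 1504158350) (nat_lit 228) (nat_lit 33187702244) (nat_lit 11) (nat_lit 5) (nat_lit 13) (nat_lit 5) (nat_lit 14) (nat_lit 5) (nat_lit 280) (nat_lit 251) (nat_lit 189)) (XT.lf (nat_lit 0) (nat_lit 12769081847) (nat_lit 228) (nat_lit 21812748160) (nat_lit 76) (nat_lit 7643231587) (nat_lit 11) (nat_lit 5) (nat_lit 14) (nat_lit 5) (nat_lit 12) (nat_lit 4) (nat_lit 281) (nat_lit 251) (nat_lit 188)))))) (XT.nd (nat_lit 468) (nat_lit 152) (nat_lit 0) (XT.nd (nat_lit 234) (nat_lit 152) (nat_lit 0) (XT.nd (nat_lit 78) (nat_lit 76) (nat_lit 0) (XT.lf (nat_lit 0) (nat_lit 19442272995) (nat_lit 228) (nat_lit 7960823567) (nat_lit 76) (nat_lit 17434754969) (nat_lit 11) (nat_lit 5) (nat_lit 14) (nat_lit 5) (nat_lit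 12) (nat_lit 4) (nat_lit 282) (nat_lit 251) (nat_lit 187)) (XT.nd (nat_lit 78) (nat_lit 0) (nat_lit 0) (XT.lf (nat_lit 0) (nat_lit 7349842600) (nat_lit 76) (nat_lit 19465931309) (nat_lit 152) (nat_lit 20830601020) (nat_lit 10) (nat_lit 5) (nat_lit 11) (nat_lit 5) (nat_lit 12) (nat_lit 4) (nat_lit 283) (nat_lit 251) (nat_lit 186)) (XT.lf (nat_lit 0) (nat_lit 24321452303) (nat_lit 76) (nat_lit 10665419458) (nat_lit 152) (nat_lit 15676115743) (nat_lit 10) (nat_lit 5) (nat_lit 11) (nat_lit 5) (nat_lit 12) (nat_lit 4) (nat_lit 284) (nat_lit 251) (nat_lit 185)))) (XT.nd (nat_lit 78) (nat_lit 152) (nat_lit 0) (XT.lf (nat_lit 0) (nat_lit 42635375181) (nat_lit 76) (nat_lit 1167072852) (nat_lit 152) (nat_lit 10119240631) (nat_lit 10) (nat_lit 5) (nat_lit 11) (nat_lit 5) (nat_lit 12) (nat_lit 4) (nat_lit 285) (nat_lit 251) (nat_lit 184)) (XT.nd (nat_lit 78) (nat_lit 76) (nat_lit 0) (XT.lf (nat_lit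 0) (nat_lit 4989436821) (nat_lit 76) (nat_lit 48663806401) (nat_lit 76) (nat_lit 3761466007) (nat_lit 9) (nat_lit 4) (nat_lit 10) (nat_lit 5) (nat_lit 10) (nat_lit 4) (nat_lit 286) (nat_lit 251) (nat_lit 183)) (XT.lf (nat_lit 0) (nat_lit 3287918626) (nat_lit 152) (nat_lit 38081311639) (nat_lit 76) (nat_lit 19784920661) (nat_lit 8) (nat_lit 5) (nat_lit 10) (nat_lit 5) (nat_lit 9) (nat_lit 4) (nat_lit 287) (nat_lit 251) (nat_lit 182))))) (XT.nd (nat_lit 234) (nat_lit 76) (nat_lit 0) (XT.nd (nat_lit 78) (nat_lit 76) (nat_lit 0) (XT.lf (nat_lit 0) (nat_lit 10690067335) (nat_lit 152) (nat_lit 22701362684) (nat_lit 76) (nat_lit 31794156271) (nat_lit 8) (nat_lit 5) (nat_lit 10) (nat_lit 5) (nat_lit 9) (nat_lit 4) (nat_lit 288) (nat_lit 251) (nat_lit 181)) (XT.nd (nat_lit 78) (nat_lit 76) (nat_lit 0) (XT.lf (nat_lit 0) (nat_lit 18677008468) (nat_lit 152) (nat_lit 6103821759) (nat_lit 76) (nat_lit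 44759312152) (nat_lit 8) (nat_lit 5) (nat_lit 10) (nat_lit 5) (nat_lit 9) (nat_lit 4) (nat_lit 289) (nat_lit 251) (nat_lit 180)) (XT.lf (nat_lit 0) (nat_lit 12431543067) (nat_lit 76) (nat_lit 15163507887) (nat_lit 152) (nat_lit 46624654699) (nat_lit 7) (nat_lit 5) (nat_lit 8) (nat_lit 5) (nat_lit 9) (nat_lit 4) (nat_lit 290) (nat_lit 251) (nat_lit 179)))) (XT.nd (nat_lit 156) (nat_lit 76) (nat_lit 0) (XT.nd (nat_lit 78) (nat_lit 0) (nat_lit 0) (XT.lf (nat_lit 0) (nat_lit 32785311468) (nat_lit 76) (nat_lit 4601510061) (nat_lit 152) (nat_lit 41874003005) (nat_lit 7) (nat_lit 5) (nat_lit 8) (nat_lit 5) (nat_lit 9) (nat_lit 4) (nat_lit 291) (nat_lit 251) (nat_lit 178)) (XT.lf (nat_lit 0) (nat_lit 48119379297) (nat_lit 152) (nat_lit 30112613494) (nat_lit 0) (nat_lit 6460656823) (nat_lit 7) (nat_lit 5) (nat_lit 9) (nat_lit 4) (nat_lit 7) (nat_lit 4) (nat_lit 292) (nat_lit 251) (nat_lit 177)))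 (XT.nd (nat_lit 78) (nat_lit 76) (nat_lit 0) (XT.lf (nat_lit 0) (nat_lit 59824296955) (nat_lit 152) (nat_lit 12570470891) (nat_lit 0) (nat_lit 18155163851) (nat_lit 7) (nat_lit 5) (nat_lit 9) (nat_lit 4) (nat_lit 7) (nat_lit 4) (nat_lit 293) (nat_lit 251) (nat_lit 176)) (XT.lf (nat_lit 0) (nat_lit 6700732377) (nat_lit 76) (nat_lit 65920690948) (nat_lit 76) (nat_lit 24241918373) (nat_lit 6) (nat_lit 4) (nat_lit 7) (nat_lit 5) (nat_lit 7) (nat_lit 4) (nat_lit 294) (nat_lit 251) (nat_lit 175))))))))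
noncomputable def xc71 : XT := (XT.nd (nat_lit 2028) (nat_lit 152) (nat_lit 0) (XT.nd (nat_lit 1014) (nat_lit 76) (nat_lit 0) (XT.nd (nat_lit 468) (nat_lit 0) (nat_lit 0) (XT.nd (nat_lit 234) (nat_lit 152) (nat_lit 0) (XT.nd (nat_lit 78) (nat_lit 0) (nat_lit 0) (XT.lf (nat_lit 0) (nat_lit 28219257935) (nat_lit 76) (nat_lit 58561595824) (nat_lit 76) (nat_lit 16873897812) (nat_lit 6) (nat_lit 4) (nat_lit 7) (nat_lit 5) (nat_lit 7) (nat_lit 4) (nat_lit 295) (nat_lit 251) (nat_lit 174)) (XT.nd (nat_lit 78) (nat_lit 0) (nat_lit 0) (XT.lf (nat_lit 0) (nat_lit 51450684249) (nat_lit 76) (nat_lit 50617571974) (nat_lit 76) (nat_lit 8921609669) (nat_lit 6) (nat_lit 4) (nat_lit 7) (nat_lit 5) (nat_lit 7) (nat_lit 4) (nat_lit 296) (nat_lit 251) (nat_lit 173)) (XT.lf (nat_lit 0) (nat_lit 76532679030) (nat_lit 76) (nat_lit 42041543701) (nat_lit 76) (nat_lit 337929273) (nat_lit 6) (nat_lit 4) (nat_lit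 7) (nat_lit 5) (nat_lit 7) (nat_lit 4) (nat_lit 297) (nat_lit 251) (nat_lit 172)))) (XT.nd (nat_lit 78) (nat_lit 76) (nat_lit 0) (XT.lf (nat_lit 0) (nat_lit 8481394430) (nat_lit 152) (nat_lit 24069399311) (nat_lit 76) (nat_lit 94900585538) (nat_lit 5) (nat_lit 5) (nat_lit 7) (nat_lit 5) (nat_lit 6) (nat_lit 4) (nat_lit 298) (nat_lit 251) (nat_lit 171)) (XT.nd (nat_lit 78) (nat_lit 76) (nat_lit 0) (XT.lf (nat_lit 0) (nat_lit 17984105201) (nat_lit 152) (nat_lit 4310321371) (nat_lit 76) (nat_lit 114378934788) (nat_lit 5) (nat_lit 5) (nat_lit 7) (nat_lit 5) (nat_lit 6) (nat_lit 4) (nat_lit 299) (nat_lit 251) (nat_lit 170)) (XT.lf (nat_lit 0) (nat_lit 17919378785) (nat_lit 76) (nat_lit 10755002693) (nat_lit 152) (nat_lit 117924538805) (nat_lit 4) (nat_lit 5) (nat_lit 5) (nat_lit 5) (nat_lit 6) (nat_lit 4) (nat_lit 300) (nat_lit 251) (nat_lit 169))))) (XT.nd (nat_lit 234) (nat_lit 0) (nat_lit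 0) (XT.nd (nat_lit 78) (nat_lit 0) (nat_lit 0) (XT.lf (nat_lit 0) (nat_lit 40378293968) (nat_lit 152) (nat_lit 115187193783) (nat_lit 0) (nat_lit 1740368754) (nat_lit 4) (nat_lit 5) (nat_lit 6) (nat_lit 4) (nat_lit 4) (nat_lit 4) (nat_lit 301) (nat_lit 251) (nat_lit 168)) (XT.nd (nat_lit 78) (nat_lit 0) (nat_lit 0) (XT.lf (nat_lit 0) (nat_lit 53294568300) (nat_lit 152) (nat_lit 100900879756) (nat_lit 0) (nat_lit 14651820951) (nat_lit 4) (nat_lit 5) (nat_lit 6) (nat_lit 4) (nat_lit 4) (nat_lit 4) (nat_lit 302) (nat_lit 251) (nat_lit 167)) (XT.lf (nat_lit 0) (nat_lit 67241087287) (nat_lit 152) (nat_lit 85477281705) (nat_lit 0) (nat_lit 28593874997) (nat_lit 4) (nat_lit 5) (nat_lit 6) (nat_lit 4) (nat_lit 4) (nat_lit 4) (nat_lit 303) (nat_lit 251) (nat_lit 166)))) (XT.nd (nat_lit 156) (nat_lit 0) (nat_lit 0) (XT.nd (nat_lit 78) (nat_lit 0) (nat_lit 0) (XT.lf (nat_lit 0) (nat_lit 82300496967)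 (nat_lit 152) (nat_lit 68825000532) (nat_lit 0) (nat_lit 43649150472) (nat_lit 4) (nat_lit 5) (nat_lit 6) (nat_lit 4) (nat_lit 4) (nat_lit 4) (nat_lit 304) (nat_lit 251) (nat_lit 165)) (XT.lf (nat_lit 0) (nat_lit 98562038286) (nat_lit 152) (nat_lit 50845356050) (nat_lit 0) (nat_lit 59906863825) (nat_lit 4) (nat_lit 5) (nat_lit 6) (nat_lit 4) (nat_lit 4) (nat_lit 4) (nat_lit 305) (nat_lit 251) (nat_lit 164))) (XT.nd (nat_lit 78) (nat_lit 0) (nat_lit 0) (XT.lf (nat_lit 0) (nat_lit 116122075933) (nat_lit 152) (nat_lit 31431802219) (nat_lit 0) (nat_lit 77463357059) (nat_lit 4) (nat_lit 5) (nat_lit 6) (nat_lit 4) (nat_lit 4) (nat_lit 4) (nat_lit 306) (nat_lit 251) (nat_lit 163)) (XT.lf (nat_lit 0) (nat_lit 135084669392) (nat_lit 152) (nat_lit 10469295757) (nat_lit 0) (nat_lit 96422668653) (nat_lit 4) (nat_lit 5) (nat_lit 6) (nat_lit 4) (nat_lit 4) (nat_lit 4) (nat_lit 307) (nat_lit 251)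 (nat_lit 162)))))) (XT.nd (nat_lit 468) (nat_lit 0) (nat_lit 0) (XT.nd (nat_lit 234) (nat_lit 0) (nat_lit 0) (XT.nd (nat_lit 78) (nat_lit 0) (nat_lit 0) (XT.lf (nat_lit 0) (nat_lit 12807045900) (nat_lit 76) (nat_lit 143063153447) (nat_lit 76) (nat_lit 104398113944) (nat_lit 3) (nat_lit 4) (nat_lit 4) (nat_lit 5) (nat_lit 4) (nat_lit 4) (nat_lit 308) (nat_lit 251) (nat_lit 161)) (XT.nd (nat_lit 78) (nat_lit 0) (nat_lit 0) (XT.lf (nat_lit 0) (nat_lit 38537164243) (nat_lit 76) (nat_lit 140065640265) (nat_lit 76) (nat_lit 101397787092) (nat_lit 3) (nat_lit 4) (nat_lit 4) (nat_lit 5) (nat_lit 4) (nat_lit 4) (nat_lit 309) (nat_lit 251) (nat_lit 160)) (XT.lf (nat_lit 0) (nat_lit 66322239486) (nat_lit 76) (nat_lit 136829911662) (nat_lit 76) (nat_lit 98159453240) (nat_lit 3) (nat_lit 4) (nat_lit 4) (nat_lit 5) (nat_lit 4) (nat_lit 4) (nat_lit 310) (nat_lit 251) (nat_lit 159)))) (XT.nd (nat_lit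 78) (nat_lit 0) (nat_lit 0) (XT.lf (nat_lit 0) (nat_lit 96326923925) (nat_lit 76) (nat_lit 133336792951) (nat_lit 76) (nat_lit 94663922260) (nat_lit 3) (nat_lit 4) (nat_lit 4) (nat_lit 5) (nat_lit 4) (nat_lit 4) (nat_lit 311) (nat_lit 251) (nat_lit 158)) (XT.nd (nat_lit 78) (nat_lit 0) (nat_lit 0) (XT.lf (nat_lit 0) (nat_lit 128729023098) (nat_lit 76) (nat_lit 129565584168) (nat_lit 76) (nat_lit 90890479895) (nat_lit 3) (nat_lit 4) (nat_lit 4) (nat_lit 5) (nat_lit 4) (nat_lit 4) (nat_lit 312) (nat_lit 251) (nat_lit 157)) (XT.lf (nat_lit 0) (nat_lit 163720549444) (nat_lit 76) (nat_lit 125493937409) (nat_lit 76) (nat_lit 86816765005) (nat_lit 3) (nat_lit 4) (nat_lit 4) (nat_lit 5) (nat_lit 4) (nat_lit 4) (nat_lit 313) (nat_lit 251) (nat_lit 156))))) (XT.nd (nat_lit 234) (nat_lit 0) (nat_lit 0) (XT.nd (nat_lit 78) (nat_lit 0) (nat_lit 0) (XT.lf (nat_lit 0) (nat_lit 201508860158) (nat_lit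 76) (nat_lit 121097724398) (nat_lit 76) (nat_lit 82418637058) (nat_lit 3) (nat_lit 4) (nat_lit 4) (nat_lit 5) (nat_lit 4) (nat_lit 4) (nat_lit 314) (nat_lit 251) (nat_lit 155)) (XT.nd (nat_lit 78) (nat_lit 0) (nat_lit 0) (XT.lf (nat_lit 0) (nat_lit 242317885968) (nat_lit 76) (nat_lit 116350893502) (nat_lit 76) (nat_lit 77670033072) (nat_lit 3) (nat_lit 4) (nat_lit 4) (nat_lit 5) (nat_lit 4) (nat_lit 4) (nat_lit 315) (nat_lit 251) (nat_lit 154)) (XT.lf (nat_lit 0) (nat_lit 286389458139) (nat_lit 76) (nat_lit 111225315352) (nat_lit 76) (nat_lit 72542813173) (nat_lit 3) (nat_lit 4) (nat_lit 4) (nat_lit 5) (nat_lit 4) (nat_lit 4) (nat_lit 316) (nat_lit 251) (nat_lit 153)))) (XT.nd (nat_lit 156) (nat_lit 0) (nat_lit 0) (XT.nd (nat_lit 78) (nat_lit 0) (nat_lit 0) (XT.lf (nat_lit 0) (nat_lit 333984741544) (nat_lit 76) (nat_lit 105690616152) (nat_lit 76) (nat_lit 67006593834) (nat_lit 3) (nat_lit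 4) (nat_lit 4) (nat_lit 5) (nat_lit 4) (nat_lit 4) (nat_lit 317) (nat_lit 251) (nat_lit 152)) (XT.lf (nat_lit 0) (nat_lit 385385782305) (nat_lit 76) (nat_lit 99713997684) (nat_lit 76) (nat_lit 61028567832) (nat_lit 3) (nat_lit 4) (nat_lit 4) (nat_lit 5) (nat_lit 4) (nat_lit 4) (nat_lit 318) (nat_lit 251) (nat_lit 151))) (XT.nd (nat_lit 78) (nat_lit 0) (nat_lit 0) (XT.lf (nat_lit 0) (nat_lit 440897179184) (nat_lit 76) (nat_lit 93260042951) (nat_lit 76) (nat_lit 54573309825) (nat_lit 3) (nat_lit 4) (nat_lit 4) (nat_lit 5) (nat_lit 4) (nat_lit 4) (nat_lit 319) (nat_lit 251) (nat_lit 150)) (XT.lf (nat_lit 0) (nat_lit 500847888606) (nat_lit 76) (nat_lit 86290506294) (nat_lit 76) (nat_lit 47602566433) (nat_lit 3) (nat_lit 4) (nat_lit 4) (nat_lit 5) (nat_lit 4) (nat_lit 4) (nat_lit 320) (nat_lit 251) (nat_lit 149))))))) (XT.nd (nat_lit 1014) (nat_lit 0) (nat_lit 0) (XT.nd (nat_lit 468) (nat_lit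 76) (nat_lit 0) (XT.nd (nat_lit 234) (nat_lit 76) (nat_lit 0) (XT.nd (nat_lit 78) (nat_lit 0) (nat_lit 0) (XT.lf (nat_lit 0) (nat_lit 565593174033) (nat_lit 76) (nat_lit 78764086756) (nat_lit 76) (nat_lit 40075029548) (nat_lit 3) (nat_lit 4) (nat_lit 4) (nat_lit 5) (nat_lit 4) (nat_lit 4) (nat_lit 321) (nat_lit 251) (nat_lit 148)) (XT.nd (nat_lit 78) (nat_lit 0) (nat_lit 0) (XT.lf (nat_lit 0) (nat_lit 635516711233) (nat_lit 76) (nat_lit 70636183332) (nat_lit 76) (nat_lit 31946091544) (nat_lit 3) (nat_lit 4) (nat_lit 4) (nat_lit 5) (nat_lit 4) (nat_lit 4) (nat_lit 322) (nat_lit 251) (nat_lit 147)) (XT.lf (nat_lit 0) (nat_lit 711032861906) (nat_lit 76) (nat_lit 61858630668) (nat_lit 76) (nat_lit 23167580935) (nat_lit 3) (nat_lit 4) (nat_lit 4) (nat_lit 5) (nat_lit 4) (nat_lit 4) (nat_lit 323) (nat_lit 251) (nat_lit 146)))) (XT.nd (nat_lit 78) (nat_lit 76) (nat_lit 0) (XT.lf (nat_lit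 0) (nat_lit 792589129168) (nat_lit 76) (nat_lit 52379413638) (nat_lit 76) (nat_lit 13687476918) (nat_lit 3) (nat_lit 4) (nat_lit 4) (nat_lit 5) (nat_lit 4) (nat_lit 4) (nat_lit 324) (nat_lit 251) (nat_lit 145)) (XT.nd (nat_lit 78) (nat_lit 76) (nat_lit 0) (XT.lf (nat_lit 0) (nat_lit 880668809418) (nat_lit 76) (nat_lit 42142359103) (nat_lit 76) (nat_lit 3449601100) (nat_lit 3) (nat_lit 4) (nat_lit 4) (nat_lit 5) (nat_lit 4) (nat_lit 4) (nat_lit 325) (nat_lit 251) (nat_lit 144)) (XT.lf (nat_lit 0) (nat_lit 7226196701) (nat_lit 152) (nat_lit 23663029311) (nat_lit 76) (nat_lit 968370082590) (nat_lit 2) (nat_lit 5) (nat_lit 4) (nat_lit 5) (nat_lit 3) (nat_lit 4) (nat_lit 326) (nat_lit 251) (nat_lit 143))))) (XT.nd (nat_lit 234) (nat_lit 0) (nat_lit 0) (XT.nd (nat_lit 78) (nat_lit 76) (nat_lit 0) (XT.lf (nat_lit 0) (nat_lit 18569171853) (nat_lit 152) (nat_lit 70345112) (nat_lit 76) (nat_lit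 1059451087923) (nat_lit 2) (nat_lit 5) (nat_lit 4) (nat_lit 5) (nat_lit 3) (nat_lit 4) (nat_lit 327) (nat_lit 251) (nat_lit 142)) (XT.nd (nat_lit 78) (nat_lit 0) (nat_lit 0) (XT.lf (nat_lit 0) (nat_lit 26746849624) (nat_lit 76) (nat_lit 4715517757) (nat_lit 152) (nat_lit 1131714615570) (nat_lit 1) (nat_lit 5) (nat_lit 2) (nat_lit 5) (nat_lit 3) (nat_lit 4) (nat_lit 328) (nat_lit 251) (nat_lit 141)) (XT.lf (nat_lit 0) (nat_lit 45636770883) (nat_lit 152) (nat_lit 1199605896398) (nat_lit 0) (nat_lit 9807624404) (nat_lit 1) (nat_lit 5) (nat_lit 3) (nat_lit 4) (nat_lit 1) (nat_lit 4) (nat_lit 329) (nat_lit 251) (nat_lit 140)))) (XT.nd (nat_lit 156) (nat_lit 0) (nat_lit 0) (XT.nd (nat_lit 78) (nat_lit 0) (nat_lit 0) (XT.lf (nat_lit 0) (nat_lit 61067167842) (nat_lit 152) (nat_lit 1267959030735) (nat_lit 0) (nat_lit 25237503814) (nat_lit 1) (nat_lit 5) (nat_lit 3) (nat_lit 4) (nat_lit 1) (nat_lit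 4) (nat_lit 330) (nat_lit 251) (nat_lit 139)) (XT.lf (nat_lit 0) (nat_lit 77731589331) (nat_lit 152) (nat_lit 1341781183633) (nat_lit 0) (nat_lit 41901446093) (nat_lit 1) (nat_lit 5) (nat_lit 3) (nat_lit 4) (nat_lit 1) (nat_lit 4) (nat_lit 331) (nat_lit 251) (nat_lit 138))) (XT.nd (nat_lit 78) (nat_lit 0) (nat_lit 0) (XT.lf (nat_lit 0) (nat_lit 95728787479) (nat_lit 152) (nat_lit 1421509819702) (nat_lit 0) (nat_lit 59898200527) (nat_lit 1) (nat_lit 5) (nat_lit 3) (nat_lit 4) (nat_lit 1) (nat_lit 4) (nat_lit 332) (nat_lit 251) (nat_lit 137)) (XT.lf (nat_lit 0) (nat_lit 115165412349) (nat_lit 152) (nat_lit 1507617404934) (nat_lit 0) (nat_lit 79334414550) (nat_lit 1) (nat_lit 5) (nat_lit 3) (nat_lit 4) (nat_lit 1) (nat_lit 4) (nat_lit 333) (nat_lit 251) (nat_lit 136)))))) (XT.nd (nat_lit 31200) (nat_lit 0) (nat_lit 2736) (XT.nd (nat_lit 234) (nat_lit 0) (nat_lit 0) (XT.nd (nat_lit 78)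 (nat_lit 0) (nat_lit 0) (XT.lf (nat_lit 0) (nat_lit 136156643939) (nat_lit 152) (nat_lit 1600614206500) (nat_lit 0) (nat_lit 100325265727) (nat_lit 1) (nat_lit 5) (nat_lit 3) (nat_lit 4) (nat_lit 1) (nat_lit 4) (nat_lit 334) (nat_lit 251) (nat_lit 135)) (XT.nd (nat_lit 78) (nat_lit 0) (nat_lit 0) (XT.lf (nat_lit 0) (nat_lit 158826874733) (nat_lit 152) (nat_lit 1701051316558) (nat_lit 0) (nat_lit 122995144287) (nat_lit 1) (nat_lit 5) (nat_lit 3) (nat_lit 4) (nat_lit 1) (nat_lit 4) (nat_lit 335) (nat_lit 251) (nat_lit 134)) (XT.lf (nat_lit 0) (nat_lit 183310446840) (nat_lit 152) (nat_lit 1809523917982) (nat_lit 0) (nat_lit 147478390251) (nat_lit 1) (nat_lit 5) (nat_lit 3) (nat_lit 4) (nat_lit 1) (nat_lit 4) (nat_lit 336) (nat_lit 251) (nat_lit 133)))) (XT.nd (nat_lit 78) (nat_lit 0) (nat_lit 0) (XT.lf (nat_lit 0) (nat_lit 209752448094) (nat_lit 152) (nat_lit 1926674811373) (nat_lit 0)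 (nat_lit 173920089520) (nat_lit 1) (nat_lit 5) (nat_lit 3) (nat_lit 4) (nat_lit 1) (nat_lit 4) (nat_lit 337) (nat_lit 251) (nat_lit 132)) (XT.nd (nat_lit 30810) (nat_lit 0) (nat_lit 3192) (XT.lf (nat_lit 0) (nat_lit 238309571835) (nat_lit 152) (nat_lit 2053198224249) (nat_lit 0) (nat_lit 202476933647) (nat_lit 1) (nat_lit 5) (nat_lit 3) (nat_lit 4) (nat_lit 1) (nat_lit 4) (nat_lit 338) (nat_lit 251) (nat_lit 131)) (XT.lf (nat_lit 0) (nat_lit 2425745007) (nat_lit 0) (nat_lit 2425745007) (nat_lit 380) (nat_lit 517728749) (nat_lit 43) (nat_lit 5) (nat_lit 43) (nat_lit 3) (nat_lit 48) (nat_lit 3) (nat_lit 252) (nat_lit 252) (nat_lit 216))))) (XT.nd (nat_lit 234) (nat_lit 0) (nat_lit 76) (XT.nd (nat_lit 78) (nat_lit 456) (nat_lit 0) (XT.lf (nat_lit 0) (nat_lit 9857505481) (nat_lit 0) (nat_lit 763243443) (nat_lit 380) (nat_lit 501730608) (nat_lit 43) (nat_lit 5) (nat_lit 43) (nat_lit 3)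 (nat_lit 48) (nat_lit 3) (nat_lit 253) (nat_lit 252) (nat_lit 215)) (XT.nd (nat_lit 78) (nat_lit 0) (nat_lit 0) (XT.lf (nat_lit 0) (nat_lit 200756110) (nat_lit 456) (nat_lit 7735303884) (nat_lit 532) (nat_lit 3590946690) (nat_lit 37) (nat_lit 5) (nat_lit 43) (nat_lit 5) (nat_lit 44) (nat_lit 5) (nat_lit 254) (nat_lit 252) (nat_lit 214)) (XT.lf (nat_lit 0) (nat_lit 936873574) (nat_lit 456) (nat_lit 2703853386) (nat_lit 532) (nat_lit 8322031347) (nat_lit 37) (nat_lit 5) (nat_lit 43) (nat_lit 5) (nat_lit 44) (nat_lit 5) (nat_lit 255) (nat_lit 252) (nat_lit 213)))) (XT.nd (nat_lit 156) (nat_lit 0) (nat_lit 0) (XT.nd (nat_lit 78) (nat_lit 0) (nat_lit 0) (XT.lf (nat_lit 0) (nat_lit 1779353563) (nat_lit 456) (nat_lit 9617163741) (nat_lit 532) (nat_lit 1033302982) (nat_lit 38) (nat_lit 5) (nat_lit 44) (nat_lit 5) (nat_lit 45) (nat_lit 5) (nat_lit 256) (nat_lit 252) (nat_lit 212)) (XT.lf (nat_lit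 0) (nat_lit 2815712769) (nat_lit 456) (nat_lit 4135185942) (nat_lit 532) (nat_lit 5973459744) (nat_lit 38) (nat_lit 5) (nat_lit 44) (nat_lit 5) (nat_lit 45) (nat_lit 5) (nat_lit 257) (nat_lit 252) (nat_lit 211))) (XT.nd (nat_lit 78) (nat_lit 0) (nat_lit 76) (XT.lf (nat_lit 76) (nat_lit 1845613832) (nat_lit 0) (nat_lit 2093076274) (nat_lit 532) (nat_lit 9519685503) (nat_lit 39) (nat_lit 5) (nat_lit 38) (nat_lit 5) (nat_lit 45) (nat_lit 5) (nat_lit 258) (nat_lit 252) (nat_lit 210)) (XT.lf (nat_lit 0) (nat_lit 5305100622) (nat_lit 456) (nat_lit 5599487388) (nat_lit 76) (nat_lit 3118435456) (nat_lit 39) (nat_lit 5) (nat_lit 45) (nat_lit 5) (nat_lit 40) (nat_lit 5) (nat_lit 259) (nat_lit 252) (nat_lit 209))))))))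
noncomputable def xc72 : XT := (XT.nd (nat_lit 1950) (nat_lit 532) (nat_lit 0) (XT.nd (nat_lit 936) (nat_lit 760) (nat_lit 0) (XT.nd (nat_lit 468) (nat_lit 532) (nat_lit 0) (XT.nd (nat_lit 234) (nat_lit 456) (nat_lit 0) (XT.nd (nat_lit 78) (nat_lit 0) (nat_lit 0) (XT.lf (nat_lit 0) (nat_lit 850927767) (nat_lit 456) (nat_lit 5969315825) (nat_lit 532) (nat_lit 7809628333) (nat_lit 33) (nat_lit 5) (nat_lit 39) (nat_lit 5) (nat_lit 40) (nat_lit 5) (nat_lit 260) (nat_lit 252) (nat_lit 208)) (XT.nd (nat_lit 78) (nat_lit 0) (nat_lit 0) (XT.lf (nat_lit 0) (nat_lit 8104514750) (nat_lit 456) (nat_lit 471642360) (nat_lit 532) (nat_lit 6699715257) (nat_lit 33) (nat_lit 5) (nat_lit 39) (nat_lit 5) (nat_lit 40) (nat_lit 5) (nat_lit 261) (nat_lit 252) (nat_lit 207)) (XT.lf (nat_lit 0) (nat_lit 10572990814) (nat_lit 532) (nat_lit 198298378) (nat_lit 76) (nat_lit 5194384213) (nat_lit 33) (nat_lit 5)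 (nat_lit 40) (nat_lit 5) (nat_lit 34) (nat_lit 5) (nat_lit 262) (nat_lit 252) (nat_lit 206)))) (XT.nd (nat_lit 78) (nat_lit 228) (nat_lit 0) (XT.lf (nat_lit 0) (nat_lit 7674953595) (nat_lit 228) (nat_lit 5222741072) (nat_lit 304) (nat_lit 3799658732) (nat_lit 30) (nat_lit 5) (nat_lit 33) (nat_lit 5) (nat_lit 34) (nat_lit 5) (nat_lit 263) (nat_lit 252) (nat_lit 205)) (XT.nd (nat_lit 78) (nat_lit 228) (nat_lit 0) (XT.lf (nat_lit 0) (nat_lit 15405146034) (nat_lit 304) (nat_lit 1347317948) (nat_lit 76) (nat_lit 735496141) (nat_lit 30) (nat_lit 5) (nat_lit 34) (nat_lit 5) (nat_lit 31) (nat_lit 5) (nat_lit 264) (nat_lit 252) (nat_lit 204)) (XT.lf (nat_lit 0) (nat_lit 71978862) (nat_lit 228) (nat_lit 11186785741) (nat_lit 76) (nat_lit 7060472425) (nat_lit 27) (nat_lit 5) (nat_lit 30) (nat_lit 5) (nat_lit 28) (nat_lit 5) (nat_lit 265) (nat_lit 252) (nat_lit 203))))) (XT.nd (nat_lit 234) (nat_lit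 304) (nat_lit 0) (XT.nd (nat_lit 78) (nat_lit 228) (nat_lit 0) (XT.lf (nat_lit 0) (nat_lit 2299611869) (nat_lit 228) (nat_lit 2931177002) (nat_lit 76) (nat_lit 13980967070) (nat_lit 27) (nat_lit 5) (nat_lit 30) (nat_lit 5) (nat_lit 28) (nat_lit 5) (nat_lit 266) (nat_lit 252) (nat_lit 202)) (XT.nd (nat_lit 78) (nat_lit 0) (nat_lit 0) (XT.lf (nat_lit 0) (nat_lit 4867899335) (nat_lit 304) (nat_lit 13928637332) (nat_lit 76) (nat_lit 1366242709) (nat_lit 24) (nat_lit 5) (nat_lit 28) (nat_lit 5) (nat_lit 25) (nat_lit 5) (nat_lit 267) (nat_lit 252) (nat_lit 201)) (XT.lf (nat_lit 0) (nat_lit 7837723166) (nat_lit 304) (nat_lit 5050191836) (nat_lit 76) (nat_lit 8286375030) (nat_lit 24) (nat_lit 5) (nat_lit 28) (nat_lit 5) (nat_lit 25) (nat_lit 5) (nat_lit 268) (nat_lit 252) (nat_lit 200)))) (XT.nd (nat_lit 78) (nat_lit 152) (nat_lit 0) (XT.lf (nat_lit 0) (nat_lit 4750075472) (nat_lit 152) (nat_lit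 6388911209) (nat_lit 228) (nat_lit 11120311016) (nat_lit 22) (nat_lit 5) (nat_lit 24) (nat_lit 5) (nat_lit 25) (nat_lit 5) (nat_lit 269) (nat_lit 252) (nat_lit 199)) (XT.nd (nat_lit 78) (nat_lit 152) (nat_lit 0) (XT.lf (nat_lit 0) (nat_lit 14841541570) (nat_lit 228) (nat_lit 7844131221) (nat_lit 76) (nat_lit 734536166) (nat_lit 22) (nat_lit 5) (nat_lit 25) (nat_lit 5) (nat_lit 23) (nat_lit 5) (nat_lit 270) (nat_lit 252) (nat_lit 198)) (XT.lf (nat_lit 0) (nat_lit 2529861884) (nat_lit 152) (nat_lit 16519052714) (nat_lit 228) (nat_lit 5608461830) (nat_lit 20) (nat_lit 5) (nat_lit 22) (nat_lit 5) (nat_lit 23) (nat_lit 5) (nat_lit 271) (nat_lit 252) (nat_lit 197)))))) (XT.nd (nat_lit 468) (nat_lit 380) (nat_lit 0) (XT.nd (nat_lit 234) (nat_lit 152) (nat_lit 0) (XT.nd (nat_lit 78) (nat_lit 228) (nat_lit 0) (XT.lf (nat_lit 0) (nat_lit 14155594480) (nat_lit 152) (nat_lit 9634342518) (nat_lit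 228) (nat_lit 2187882583) (nat_lit 20) (nat_lit 5) (nat_lit 22) (nat_lit 5) (nat_lit 23) (nat_lit 5) (nat_lit 272) (nat_lit 252) (nat_lit 196)) (XT.nd (nat_lit 78) (nat_lit 152) (nat_lit 0) (XT.lf (nat_lit 0) (nat_lit 1414388795) (nat_lit 228) (nat_lit 752155678) (nat_lit 76) (nat_lit 25235841054) (nat_lit 19) (nat_lit 5) (nat_lit 22) (nat_lit 5) (nat_lit 20) (nat_lit 5) (nat_lit 273) (nat_lit 252) (nat_lit 195)) (XT.lf (nat_lit 0) (nat_lit 5603417193) (nat_lit 228) (nat_lit 17354791465) (nat_lit 76) (nat_lit 5944872841) (nat_lit 17) (nat_lit 5) (nat_lit 20) (nat_lit 5) (nat_lit 18) (nat_lit 5) (nat_lit 274) (nat_lit 252) (nat_lit 194)))) (XT.nd (nat_lit 78) (nat_lit 152) (nat_lit 0) (XT.lf (nat_lit 0) (nat_lit 10190046697) (nat_lit 228) (nat_lit 5725655850) (nat_lit 76) (nat_lit 14603181578) (nat_lit 17) (nat_lit 5) (nat_lit 20) (nat_lit 5) (nat_lit 18) (nat_lit 5) (nat_lit 275) (nat_lit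 252) (nat_lit 193)) (XT.nd (nat_lit 78) (nat_lit 0) (nat_lit 0) (XT.lf (nat_lit 0) (nat_lit 7172022133) (nat_lit 152) (nat_lit 8130280546) (nat_lit 228) (nat_lit 16948998223) (nat_lit 15) (nat_lit 5) (nat_lit 17) (nat_lit 5) (nat_lit 18) (nat_lit 5) (nat_lit 276) (nat_lit 252) (nat_lit 192)) (XT.lf (nat_lit 0) (nat_lit 20977425340) (nat_lit 228) (nat_lit 12714381711) (nat_lit 76) (nat_lit 418235325) (nat_lit 15) (nat_lit 5) (nat_lit 18) (nat_lit 5) (nat_lit 16) (nat_lit 4) (nat_lit 277) (nat_lit 252) (nat_lit 191))))) (XT.nd (nat_lit 234) (nat_lit 228) (nat_lit 0) (XT.nd (nat_lit 78) (nat_lit 76) (nat_lit 0) (XT.lf (nat_lit 0) (nat_lit 430647232) (nat_lit 76) (nat_lit 26885022559) (nat_lit 152) (nat_lit 8785123539) (nat_lit 14) (nat_lit 5) (nat_lit 15) (nat_lit 5) (nat_lit 16) (nat_lit 4) (nat_lit 278) (nat_lit 252) (nat_lit 190)) (XT.nd (nat_lit 78) (nat_lit 76) (nat_lit 0) (XT.lf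 (nat_lit 0) (nat_lit 15331421974) (nat_lit 76) (nat_lit 19165229048) (nat_lit 152) (nat_lit 3727335385) (nat_lit 14) (nat_lit 5) (nat_lit 15) (nat_lit 5) (nat_lit 16) (nat_lit 4) (nat_lit 279) (nat_lit 252) (nat_lit 189)) (XT.lf (nat_lit 0) (nat_lit 1636890047) (nat_lit 152) (nat_lit 9152667799) (nat_lit 76) (nat_lit 29725081070) (nat_lit 13) (nat_lit 5) (nat_lit 15) (nat_lit 5) (nat_lit 14) (nat_lit 5) (nat_lit 280) (nat_lit 252) (nat_lit 188)))) (XT.nd (nat_lit 156) (nat_lit 76) (nat_lit 0) (XT.nd (nat_lit 78) (nat_lit 0) (nat_lit 0) (XT.lf (nat_lit 0) (nat_lit 5866242314) (nat_lit 152) (nat_lit 1493175014) (nat_lit 228) (nat_lit 35610967003) (nat_lit 11) (nat_lit 5) (nat_lit 13) (nat_lit 5) (nat_lit 14) (nat_lit 5) (nat_lit 281) (nat_lit 252) (nat_lit 187)) (XT.lf (nat_lit 0) (nat_lit 13991741130) (nat_lit 228) (nat_lit 23224518686) (nat_lit 76) (nat_lit 8370196638) (nat_lit 11)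 (nat_lit 5) (nat_lit 14) (nat_lit 5) (nat_lit 12) (nat_lit 4) (nat_lit 282) (nat_lit 252) (nat_lit 186))) (XT.nd (nat_lit 78) (nat_lit 76) (nat_lit 0) (XT.lf (nat_lit 0) (nat_lit 21183888849) (nat_lit 228) (nat_lit 8289125261) (nat_lit 76) (nat_lit 18936485852) (nat_lit 11) (nat_lit 5) (nat_lit 14) (nat_lit 5) (nat_lit 12) (nat_lit 4) (nat_lit 283) (nat_lit 252) (nat_lit 185)) (XT.lf (nat_lit 0) (nat_lit 8238582447) (nat_lit 76) (nat_lit 20902125380) (nat_lit 152) (nat_lit 22302557993) (nat_lit 10) (nat_lit 5) (nat_lit 11) (nat_lit 5) (nat_lit 12) (nat_lit 4) (nat_lit 284) (nat_lit 252) (nat_lit 184))))))) (XT.nd (nat_lit 1014) (nat_lit 228) (nat_lit 0) (XT.nd (nat_lit 468) (nat_lit 152) (nat_lit 0) (XT.nd (nat_lit 234) (nat_lit 76) (nat_lit 0) (XT.nd (nat_lit 78) (nat_lit 76) (nat_lit 0) (XT.lf (nat_lit 0) (nat_lit 26545642968) (nat_lit 76) (nat_lit 11406541503) (nat_lit 152) (nat_lit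 16750120643) (nat_lit 10) (nat_lit 5) (nat_lit 11) (nat_lit 5) (nat_lit 12) (nat_lit 4) (nat_lit 285) (nat_lit 252) (nat_lit 183)) (XT.nd (nat_lit 78) (nat_lit 76) (nat_lit 0) (XT.lf (nat_lit 0) (nat_lit 46304051937) (nat_lit 76) (nat_lit 1156631724) (nat_lit 152) (nat_lit 10762035104) (nat_lit 10) (nat_lit 5) (nat_lit 11) (nat_lit 5) (nat_lit 12) (nat_lit 4) (nat_lit 286) (nat_lit 252) (nat_lit 182)) (XT.lf (nat_lit 0) (nat_lit 5649860733) (nat_lit 76) (nat_lit 52446866531) (nat_lit 76) (nat_lit 3898707208) (nat_lit 9) (nat_lit 4) (nat_lit 10) (nat_lit 5) (nat_lit 10) (nat_lit 4) (nat_lit 287) (nat_lit 252) (nat_lit 181)))) (XT.nd (nat_lit 78) (nat_lit 0) (nat_lit 0) (XT.lf (nat_lit 0) (nat_lit 3694922801) (nat_lit 152) (nat_lit 40878016526) (nat_lit 76) (nat_lit 21461722926) (nat_lit 8) (nat_lit 5) (nat_lit 10) (nat_lit 5) (nat_lit 9) (nat_lit 4) (nat_lit 288) (nat_lit 252) (nat_lit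 180)) (XT.nd (nat_lit 78) (nat_lit 0) (nat_lit 0) (XT.lf (nat_lit 0) (nat_lit 11678578911) (nat_lit 152) (nat_lit 24286175362) (nat_lit 76) (nat_lit 34424733785) (nat_lit 8) (nat_lit 5) (nat_lit 10) (nat_lit 5) (nat_lit 9) (nat_lit 4) (nat_lit 289) (nat_lit 252) (nat_lit 179)) (XT.lf (nat_lit 0) (nat_lit 20294600802) (nat_lit 152) (nat_lit 6377964225) (nat_lit 76) (nat_lit 48420654357) (nat_lit 8) (nat_lit 5) (nat_lit 10) (nat_lit 5) (nat_lit 9) (nat_lit 4) (nat_lit 290) (nat_lit 252) (nat_lit 178))))) (XT.nd (nat_lit 234) (nat_lit 76) (nat_lit 0) (XT.nd (nat_lit 78) (nat_lit 0) (nat_lit 0) (XT.lf (nat_lit 0) (nat_lit 13634807933) (nat_lit 76) (nat_lit 16287155905) (nat_lit 152) (nat_lit 50225532958) (nat_lit 7) (nat_lit 5) (nat_lit 8) (nat_lit 5) (nat_lit 9) (nat_lit 4) (nat_lit 291) (nat_lit 252) (nat_lit 177)) (XT.nd (nat_lit 78) (nat_lit 0) (nat_lit 0) (XT.lf (nat_lit 0) (nat_lit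 35601415478) (nat_lit 76) (nat_lit 4886822892) (nat_lit 152) (nat_lit 45104391656) (nat_lit 7) (nat_lit 5) (nat_lit 8) (nat_lit 5) (nat_lit 9) (nat_lit 4) (nat_lit 292) (nat_lit 252) (nat_lit 176)) (XT.lf (nat_lit 0) (nat_lit 52073061726) (nat_lit 152) (nat_lit 32336115138) (nat_lit 0) (nat_lit 7050347873) (nat_lit 7) (nat_lit 5) (nat_lit 9) (nat_lit 4) (nat_lit 7) (nat_lit 4) (nat_lit 293) (nat_lit 252) (nat_lit 175)))) (XT.nd (nat_lit 156) (nat_lit 0) (nat_lit 0) (XT.nd (nat_lit 78) (nat_lit 76) (nat_lit 0) (XT.lf (nat_lit 0) (nat_lit 64706659308) (nat_lit 152) (nat_lit 13404342419) (nat_lit 0) (nat_lit 19675020019) (nat_lit 7) (nat_lit 5) (nat_lit 9) (nat_lit 4) (nat_lit 7) (nat_lit 4) (nat_lit 294) (nat_lit 252) (nat_lit 174)) (XT.lf (nat_lit 0) (nat_lit 7404208601) (nat_lit 76) (nat_lit 71120231466) (nat_lit 76) (nat_lit 26080327884) (nat_lit 6) (nat_lit 4) (nat_lit 7) (nat_lit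 5) (nat_lit 7) (nat_lit 4) (nat_lit 295) (nat_lit 252) (nat_lit 173))) (XT.nd (nat_lit 78) (nat_lit 0) (nat_lit 0) (XT.lf (nat_lit 0) (nat_lit 30631814897) (nat_lit 76) (nat_lit 63177898715) (nat_lit 76) (nat_lit 18130343009) (nat_lit 6) (nat_lit 4) (nat_lit 7) (nat_lit 5) (nat_lit 7) (nat_lit 4) (nat_lit 296) (nat_lit 252) (nat_lit 172)) (XT.lf (nat_lit 0) (nat_lit 55710272625) (nat_lit 76) (nat_lit 54603436273) (nat_lit 76) (nat_lit 9548795268) (nat_lit 6) (nat_lit 4) (nat_lit 7) (nat_lit 5) (nat_lit 7) (nat_lit 4) (nat_lit 297) (nat_lit 252) (nat_lit 171)))))) (XT.nd (nat_lit 468) (nat_lit 76) (nat_lit 0) (XT.nd (nat_lit 234) (nat_lit 76) (nat_lit 0) (XT.nd (nat_lit 78) (nat_lit 76) (nat_lit 0) (XT.lf (nat_lit 0) (nat_lit 82788194868) (nat_lit 76) (nat_lit 45346032513) (nat_lit 76) (nat_lit 284831046) (nat_lit 6) (nat_lit 4) (nat_lit 7) (nat_lit 5) (nat_lit 7) (nat_lit 4) (nat_lit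 298) (nat_lit 252) (nat_lit 170)) (XT.nd (nat_lit 78) (nat_lit 0) (nat_lit 0) (XT.lf (nat_lit 0) (nat_lit 9230391182) (nat_lit 152) (nat_lit 25868062309) (nat_lit 76) (nat_lit 102543276953) (nat_lit 5) (nat_lit 5) (nat_lit 7) (nat_lit 5) (nat_lit 6) (nat_lit 4) (nat_lit 299) (nat_lit 252) (nat_lit 169)) (XT.lf (nat_lit 0) (nat_lit 19488097688) (nat_lit 152) (nat_lit 4537657316) (nat_lit 76) (nat_lit 123576142693) (nat_lit 5) (nat_lit 5) (nat_lit 7) (nat_lit 5) (nat_lit 6) (nat_lit 4) (nat_lit 300) (nat_lit 252) (nat_lit 168)))) (XT.nd (nat_lit 78) (nat_lit 0) (nat_lit 0) (XT.lf (nat_lit 0) (nat_lit 19467444429) (nat_lit 76) (nat_lit 11564071361) (nat_lit 152) (nat_lit 127290160222) (nat_lit 4) (nat_lit 5) (nat_lit 5) (nat_lit 5) (nat_lit 6) (nat_lit 4) (nat_lit 301) (nat_lit 252) (nat_lit 167)) (XT.nd (nat_lit 78) (nat_lit 0) (nat_lit 0) (XT.lf (nat_lit 0) (nat_lit 43668204076) (nat_lit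 152) (nat_lit 124292503813) (nat_lit 0) (nat_lit 1924749862) (nat_lit 4) (nat_lit 5) (nat_lit 6) (nat_lit 4) (nat_lit 4) (nat_lit 4) (nat_lit 302) (nat_lit 252) (nat_lit 166)) (XT.lf (nat_lit 0) (nat_lit 57613362089) (nat_lit 152) (nat_lit 108871408032) (nat_lit 0) (nat_lit 15865773671) (nat_lit 4) (nat_lit 5) (nat_lit 6) (nat_lit 4) (nat_lit 4) (nat_lit 4) (nat_lit 303) (nat_lit 252) (nat_lit 165))))) (XT.nd (nat_lit 234) (nat_lit 76) (nat_lit 0) (XT.nd (nat_lit 78) (nat_lit 0) (nat_lit 0) (XT.lf (nat_lit 0) (nat_lit 72671511607) (nat_lit 152) (nat_lit 92221443775) (nat_lit 0) (nat_lit 30920095223) (nat_lit 4) (nat_lit 5) (nat_lit 6) (nat_lit 4) (nat_lit 4) (nat_lit 4) (nat_lit 304) (nat_lit 252) (nat_lit 164)) (XT.nd (nat_lit 78) (nat_lit 0) (nat_lit 0) (XT.lf (nat_lit 0) (nat_lit 88931886111) (nat_lit 152) (nat_lit 74243944586) (nat_lit 0) (nat_lit 47176925312) (nat_lit 4) (nat_lit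 5) (nat_lit 6) (nat_lit 4) (nat_lit 4) (nat_lit 4) (nat_lit 305) (nat_lit 252) (nat_lit 163)) (XT.lf (nat_lit 0) (nat_lit 106490843373) (nat_lit 152) (nat_lit 54832377138) (nat_lit 0) (nat_lit 64732600710) (nat_lit 4) (nat_lit 5) (nat_lit 6) (nat_lit 4) (nat_lit 4) (nat_lit 4) (nat_lit 306) (nat_lit 252) (nat_lit 162)))) (XT.nd (nat_lit 156) (nat_lit 76) (nat_lit 0) (XT.nd (nat_lit 78) (nat_lit 0) (nat_lit 0) (XT.lf (nat_lit 0) (nat_lit 125452436475) (nat_lit 152) (nat_lit 33871709919) (nat_lit 0) (nat_lit 83691155049) (nat_lit 4) (nat_lit 5) (nat_lit 6) (nat_lit 4) (nat_lit 4) (nat_lit 4) (nat_lit 307) (nat_lit 252) (nat_lit 161)) (XT.lf (nat_lit 0) (nat_lit 145929030413) (nat_lit 152) (nat_lit 11237731568) (nat_lit 0) (nat_lit 104164935317) (nat_lit 4) (nat_lit 5) (nat_lit 6) (nat_lit 4) (nat_lit 4) (nat_lit 4) (nat_lit 308) (nat_lit 252) (nat_lit 160))) (XT.nd (nat_lit 78) (nat_lit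 0) (nat_lit 0) (XT.lf (nat_lit 0) (nat_lit 13898967857) (nat_lit 76) (nat_lit 154477270619) (nat_lit 76) (nat_lit 112710570273) (nat_lit 3) (nat_lit 4) (nat_lit 4) (nat_lit 5) (nat_lit 4) (nat_lit 4) (nat_lit 309) (nat_lit 252) (nat_lit 159)) (XT.lf (nat_lit 0) (nat_lit 41682506165) (nat_lit 76) (nat_lit 151242247872) (nat_lit 76) (nat_lit 109473135258) (nat_lit 3) (nat_lit 4) (nat_lit 4) (nat_lit 5) (nat_lit 4) (nat_lit 4) (nat_lit 310) (nat_lit 252) (nat_lit 158))))))))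
noncomputable def xc73 : XT := (XT.nd (nat_lit 2028) (nat_lit 0) (nat_lit 0) (XT.nd (nat_lit 1014) (nat_lit 152) (nat_lit 0) (XT.nd (nat_lit 468) (nat_lit 0) (nat_lit 0) (XT.nd (nat_lit 234) (nat_lit 0) (nat_lit 0) (XT.nd (nat_lit 78) (nat_lit 0) (nat_lit 0) (XT.lf (nat_lit 0) (nat_lit 71685767517) (nat_lit 76) (nat_lit 147749782730) (nat_lit 76) (nat_lit 105978436534) (nat_lit 3) (nat_lit 4) (nat_lit 4) (nat_lit 5) (nat_lit 4) (nat_lit 4) (nat_lit 311) (nat_lit 252) (nat_lit 157)) (XT.nd (nat_lit 78) (nat_lit 0) (nat_lit 0) (XT.lf (nat_lit 0) (nat_lit 104086549017) (nat_lit 76) (nat_lit 143979179105) (nat_lit 76) (nat_lit 102205764777) (nat_lit 3) (nat_lit 4) (nat_lit 4) (nat_lit 5) (nat_lit 4) (nat_lit 4) (nat_lit 312) (nat_lit 252) (nat_lit 156)) (XT.lf (nat_lit 0) (nat_lit 139076855295) (nat_lit 76) (nat_lit 139908092677) (nat_lit 76) (nat_lit 98132763413) (nat_lit 3) (nat_lit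 4) (nat_lit 4) (nat_lit 5) (nat_lit 4) (nat_lit 4) (nat_lit 313) (nat_lit 252) (nat_lit 155)))) (XT.nd (nat_lit 78) (nat_lit 0) (nat_lit 0) (XT.lf (nat_lit 0) (nat_lit 176864036316) (nat_lit 76) (nat_lit 135512398490) (nat_lit 76) (nat_lit 93735296137) (nat_lit 3) (nat_lit 4) (nat_lit 4) (nat_lit 5) (nat_lit 4) (nat_lit 4) (nat_lit 314) (nat_lit 252) (nat_lit 154)) (XT.nd (nat_lit 78) (nat_lit 0) (nat_lit 0) (XT.lf (nat_lit 0) (nat_lit 217672016115) (nat_lit 76) (nat_lit 130766047987) (nat_lit 76) (nat_lit 88987303885) (nat_lit 3) (nat_lit 4) (nat_lit 4) (nat_lit 5) (nat_lit 4) (nat_lit 4) (nat_lit 315) (nat_lit 252) (nat_lit 153)) (XT.lf (nat_lit 0) (nat_lit 261742619758) (nat_lit 76) (nat_lit 125640914646) (nat_lit 76) (nat_lit 83860650405) (nat_lit 3) (nat_lit 4) (nat_lit 4) (nat_lit 5) (nat_lit 4) (nat_lit 4) (nat_lit 316) (nat_lit 252) (nat_lit 152))))) (XT.nd (nat_lit 234) (nat_lit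 0) (nat_lit 0) (XT.nd (nat_lit 78) (nat_lit 0) (nat_lit 0) (XT.lf (nat_lit 0) (nat_lit 309337006376) (nat_lit 76) (nat_lit 120106627306) (nat_lit 76) (nat_lit 78324955530) (nat_lit 3) (nat_lit 4) (nat_lit 4) (nat_lit 5) (nat_lit 4) (nat_lit 4) (nat_lit 317) (nat_lit 252) (nat_lit 151)) (XT.nd (nat_lit 78) (nat_lit 0) (nat_lit 0) (XT.lf (nat_lit 0) (nat_lit 360737216780) (nat_lit 76) (nat_lit 114130390190) (nat_lit 76) (nat_lit 72347415140) (nat_lit 3) (nat_lit 4) (nat_lit 4) (nat_lit 5) (nat_lit 4) (nat_lit 4) (nat_lit 318) (nat_lit 252) (nat_lit 150)) (XT.lf (nat_lit 0) (nat_lit 416247844809) (nat_lit 76) (nat_lit 107676788561) (nat_lit 76) (nat_lit 65892606776) (nat_lit 3) (nat_lit 4) (nat_lit 4) (nat_lit 5) (nat_lit 4) (nat_lit 4) (nat_lit 319) (nat_lit 252) (nat_lit 149)))) (XT.nd (nat_lit 156) (nat_lit 0) (nat_lit 0) (XT.nd (nat_lit 78) (nat_lit 0) (nat_lit 0) (XT.lf (nat_lit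 0) (nat_lit 476197842332) (nat_lit 76) (nat_lit 100707578852) (nat_lit 76) (nat_lit 58922279720) (nat_lit 3) (nat_lit 4) (nat_lit 4) (nat_lit 5) (nat_lit 4) (nat_lit 4) (nat_lit 320) (nat_lit 252) (nat_lit 148)) (XT.lf (nat_lit 0) (nat_lit 540942468596) (nat_lit 76) (nat_lit 93181462043) (nat_lit 76) (nat_lit 51395128331) (nat_lit 3) (nat_lit 4) (nat_lit 4) (nat_lit 5) (nat_lit 4) (nat_lit 4) (nat_lit 321) (nat_lit 252) (nat_lit 147))) (XT.nd (nat_lit 78) (nat_lit 0) (nat_lit 0) (XT.lf (nat_lit 0) (nat_lit 610865395457) (nat_lit 76) (nat_lit 85053838924) (nat_lit 76) (nat_lit 43266547266) (nat_lit 3) (nat_lit 4) (nat_lit 4) (nat_lit 5) (nat_lit 4) (nat_lit 4) (nat_lit 322) (nat_lit 252) (nat_lit 146)) (XT.lf (nat_lit 0) (nat_lit 686380981003) (nat_lit 76) (nat_lit 76276545801) (nat_lit 76) (nat_lit 34488367158) (nat_lit 3) (nat_lit 4) (nat_lit 4) (nat_lit 5) (nat_lit 4) (nat_lit 4)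 (nat_lit 323) (nat_lit 252) (nat_lit 145)))))) (XT.nd (nat_lit 468) (nat_lit 0) (nat_lit 0) (XT.nd (nat_lit 234) (nat_lit 152) (nat_lit 0) (XT.nd (nat_lit 78) (nat_lit 0) (nat_lit 0) (XT.lf (nat_lit 0) (nat_lit 767936724999) (nat_lit 76) (nat_lit 66797569087) (nat_lit 76) (nat_lit 25008569160) (nat_lit 3) (nat_lit 4) (nat_lit 4) (nat_lit 5) (nat_lit 4) (nat_lit 4) (nat_lit 324) (nat_lit 252) (nat_lit 144)) (XT.nd (nat_lit 78) (nat_lit 0) (nat_lit 0) (XT.lf (nat_lit 0) (nat_lit 856015920743) (nat_lit 76) (nat_lit 56560737067) (nat_lit 76) (nat_lit 14770976693) (nat_lit 3) (nat_lit 4) (nat_lit 4) (nat_lit 5) (nat_lit 4) (nat_lit 4) (nat_lit 325) (nat_lit 252) (nat_lit 143)) (XT.lf (nat_lit 0) (nat_lit 951140519024) (nat_lit 76) (nat_lit 45505387033) (nat_lit 76) (nat_lit 3714922541) (nat_lit 3) (nat_lit 4) (nat_lit 4) (nat_lit 5) (nat_lit 4) (nat_lit 4) (nat_lit 326) (nat_lit 252) (nat_lit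 142)))) (XT.nd (nat_lit 78) (nat_lit 76) (nat_lit 0) (XT.lf (nat_lit 0) (nat_lit 7813657306) (nat_lit 152) (nat_lit 25538709255) (nat_lit 76) (nat_lit 1045846924621) (nat_lit 2) (nat_lit 5) (nat_lit 4) (nat_lit 5) (nat_lit 3) (nat_lit 4) (nat_lit 327) (nat_lit 252) (nat_lit 141)) (XT.nd (nat_lit 78) (nat_lit 76) (nat_lit 0) (XT.lf (nat_lit 0) (nat_lit 20063376777) (nat_lit 152) (nat_lit 59896424) (nat_lit 76) (nat_lit 1144213874423) (nat_lit 2) (nat_lit 5) (nat_lit 4) (nat_lit 5) (nat_lit 3) (nat_lit 4) (nat_lit 328) (nat_lit 252) (nat_lit 140)) (XT.lf (nat_lit 0) (nat_lit 28902266896) (nat_lit 76) (nat_lit 5085495588) (nat_lit 152) (nat_lit 1222242695570) (nat_lit 1) (nat_lit 5) (nat_lit 2) (nat_lit 5) (nat_lit 3) (nat_lit 4) (nat_lit 329) (nat_lit 252) (nat_lit 139))))) (XT.nd (nat_lit 234) (nat_lit 0) (nat_lit 0) (XT.nd (nat_lit 78) (nat_lit 0) (nat_lit 0) (XT.lf (nat_lit 0) (nat_lit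 49295657371) (nat_lit 152) (nat_lit 1295559388346) (nat_lit 0) (nat_lit 10598623463) (nat_lit 1) (nat_lit 5) (nat_lit 3) (nat_lit 4) (nat_lit 1) (nat_lit 4) (nat_lit 330) (nat_lit 252) (nat_lit 138)) (XT.nd (nat_lit 78) (nat_lit 0) (nat_lit 0) (XT.lf (nat_lit 0) (nat_lit 65959897581) (nat_lit 152) (nat_lit 1369381883042) (nat_lit 0) (nat_lit 27262419959) (nat_lit 1) (nat_lit 5) (nat_lit 3) (nat_lit 4) (nat_lit 1) (nat_lit 4) (nat_lit 331) (nat_lit 252) (nat_lit 137)) (XT.lf (nat_lit 0) (nat_lit 83956927878) (nat_lit 152) (nat_lit 1449110835590) (nat_lit 0) (nat_lit 45259039410) (nat_lit 1) (nat_lit 5) (nat_lit 3) (nat_lit 4) (nat_lit 1) (nat_lit 4) (nat_lit 332) (nat_lit 252) (nat_lit 136)))) (XT.nd (nat_lit 156) (nat_lit 0) (nat_lit 0) (XT.nd (nat_lit 78) (nat_lit 0) (nat_lit 0) (XT.lf (nat_lit 0) (nat_lit 103393397330) (nat_lit 152) (nat_lit 1535218713858) (nat_lit 0) (nat_lit 64695128448)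 (nat_lit 1) (nat_lit 5) (nat_lit 3) (nat_lit 4) (nat_lit 1) (nat_lit 4) (nat_lit 333) (nat_lit 252) (nat_lit 135)) (XT.lf (nat_lit 0) (nat_lit 124384485014) (nat_lit 152) (nat_lit 1628215786755) (nat_lit 0) (nat_lit 85685863898) (nat_lit 1) (nat_lit 5) (nat_lit 3) (nat_lit 4) (nat_lit 1) (nat_lit 4) (nat_lit 334) (nat_lit 252) (nat_lit 134))) (XT.nd (nat_lit 78) (nat_lit 0) (nat_lit 0) (XT.lf (nat_lit 0) (nat_lit 147054582563) (nat_lit 152) (nat_lit 1728653148044) (nat_lit 0) (nat_lit 108355635304) (nat_lit 1) (nat_lit 5) (nat_lit 3) (nat_lit 4) (nat_lit 1) (nat_lit 4) (nat_lit 335) (nat_lit 252) (nat_lit 133)) (XT.lf (nat_lit 0) (nat_lit 171538031294) (nat_lit 152) (nat_lit 1837125982090) (nat_lit 0) (nat_lit 132838782051) (nat_lit 1) (nat_lit 5) (nat_lit 3) (nat_lit 4) (nat_lit 1) (nat_lit 4) (nat_lit 336) (nat_lit 252) (nat_lit 132))))))) (XT.nd (nat_lit 31824) (nat_lit 0) (nat_lit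 1216) (XT.nd (nat_lit 31278) (nat_lit 0) (nat_lit 2204) (XT.nd (nat_lit 31044) (nat_lit 0) (nat_lit 2660) (XT.nd (nat_lit 78) (nat_lit 0) (nat_lit 0) (XT.lf (nat_lit 0) (nat_lit 197979918311) (nat_lit 152) (nat_lit 1954277090872) (nat_lit 0) (nat_lit 159280389453) (nat_lit 1) (nat_lit 5) (nat_lit 3) (nat_lit 4) (nat_lit 1) (nat_lit 4) (nat_lit 337) (nat_lit 252) (nat_lit 131)) (XT.nd (nat_lit 30888) (nat_lit 0) (nat_lit 2660) (XT.lf (nat_lit 0) (nat_lit 226536936279) (nat_lit 152) (nat_lit 2080800703183) (nat_lit 0) (nat_lit 187837148518) (nat_lit 1) (nat_lit 5) (nat_lit 3) (nat_lit 4) (nat_lit 1) (nat_lit 4) (nat_lit 338) (nat_lit 252) (nat_lit 130)) (XT.lf (nat_lit 0) (nat_lit 2057538) (nat_lit 532) (nat_lit 2876146615) (nat_lit 532) (nat_lit 2876146615) (nat_lit 36) (nat_lit 3) (nat_lit 43) (nat_lit 3) (nat_lit 43) (nat_lit 5) (nat_lit 253) (nat_lit 253) (nat_lit 214)))) (XT.nd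 (nat_lit 78) (nat_lit 0) (nat_lit 76) (XT.lf (nat_lit 0) (nat_lit 472707404) (nat_lit 532) (nat_lit 817292713) (nat_lit 532) (nat_lit 10639095713) (nat_lit 36) (nat_lit 3) (nat_lit 43) (nat_lit 3) (nat_lit 43) (nat_lit 5) (nat_lit 254) (nat_lit 253) (nat_lit 213)) (XT.nd (nat_lit 78) (nat_lit 0) (nat_lit 0) (XT.lf (nat_lit 0) (nat_lit 1133970814) (nat_lit 456) (nat_lit 7743125298) (nat_lit 532) (nat_lit 3493858933) (nat_lit 37) (nat_lit 5) (nat_lit 43) (nat_lit 5) (nat_lit 44) (nat_lit 5) (nat_lit 255) (nat_lit 253) (nat_lit 212)) (XT.lf (nat_lit 0) (nat_lit 1861040326) (nat_lit 456) (nat_lit 2354418234) (nat_lit 532) (nat_lit 8631901733) (nat_lit 37) (nat_lit 5) (nat_lit 43) (nat_lit 5) (nat_lit 44) (nat_lit 5) (nat_lit 256) (nat_lit 253) (nat_lit 211))))) (XT.nd (nat_lit 234) (nat_lit 608) (nat_lit 0) (XT.nd (nat_lit 78) (nat_lit 0) (nat_lit 0) (XT.lf (nat_lit 0) (nat_lit 2715307364)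 (nat_lit 456) (nat_lit 9761032688) (nat_lit 532) (nat_lit 880228036) (nat_lit 38) (nat_lit 5) (nat_lit 44) (nat_lit 5) (nat_lit 45) (nat_lit 5) (nat_lit 257) (nat_lit 253) (nat_lit 210)) (XT.nd (nat_lit 78) (nat_lit 0) (nat_lit 0) (XT.lf (nat_lit 0) (nat_lit 3775789712) (nat_lit 456) (nat_lit 3886830306) (nat_lit 532) (nat_lit 6233059501) (nat_lit 38) (nat_lit 5) (nat_lit 44) (nat_lit 5) (nat_lit 45) (nat_lit 5) (nat_lit 258) (nat_lit 253) (nat_lit 209)) (XT.lf (nat_lit 76) (nat_lit 2557770906) (nat_lit 0) (nat_lit 2389979657) (nat_lit 532) (nat_lit 9528220452) (nat_lit 39) (nat_lit 5) (nat_lit 38) (nat_lit 5) (nat_lit 45) (nat_lit 5) (nat_lit 259) (nat_lit 253) (nat_lit 208)))) (XT.nd (nat_lit 156) (nat_lit 228) (nat_lit 0) (XT.nd (nat_lit 78) (nat_lit 456) (nat_lit 0) (XT.lf (nat_lit 0) (nat_lit 6369186261) (nat_lit 456) (nat_lit 5467172249) (nat_lit 76) (nat_lit 3254038716) (nat_lit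 39) (nat_lit 5) (nat_lit 45) (nat_lit 5) (nat_lit 40) (nat_lit 5) (nat_lit 260) (nat_lit 253) (nat_lit 207)) (XT.lf (nat_lit 0) (nat_lit 1484585634) (nat_lit 456) (nat_lit 6487173810) (nat_lit 532) (nat_lit 7776980609) (nat_lit 33) (nat_lit 5) (nat_lit 39) (nat_lit 5) (nat_lit 40) (nat_lit 5) (nat_lit 261) (nat_lit 253) (nat_lit 206))) (XT.nd (nat_lit 78) (nat_lit 228) (nat_lit 0) (XT.lf (nat_lit 0) (nat_lit 9276564492) (nat_lit 456) (nat_lit 546700340) (nat_lit 532) (nat_lit 6626972115) (nat_lit 33) (nat_lit 5) (nat_lit 39) (nat_lit 5) (nat_lit 40) (nat_lit 5) (nat_lit 262) (nat_lit 253) (nat_lit 205)) (XT.lf (nat_lit 0) (nat_lit 332363431) (nat_lit 228) (nat_lit 11613087261) (nat_lit 304) (nat_lit 5252732123) (nat_lit 30) (nat_lit 5) (nat_lit 33) (nat_lit 5) (nat_lit 34) (nat_lit 5) (nat_lit 263) (nat_lit 253) (nat_lit 204)))))) (XT.nd (nat_lit 468) (nat_lit 532) (nat_lit 0) (XT.nd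 (nat_lit 234) (nat_lit 228) (nat_lit 0) (XT.nd (nat_lit 78) (nat_lit 228) (nat_lit 0) (XT.lf (nat_lit 0) (nat_lit 8805434221) (nat_lit 228) (nat_lit 5616707912) (nat_lit 304) (nat_lit 3569167864) (nat_lit 30) (nat_lit 5) (nat_lit 33) (nat_lit 5) (nat_lit 34) (nat_lit 5) (nat_lit 264) (nat_lit 253) (nat_lit 203)) (XT.nd (nat_lit 78) (nat_lit 228) (nat_lit 0) (XT.lf (nat_lit 0) (nat_lit 17094229516) (nat_lit 304) (nat_lit 938675272) (nat_lit 76) (nat_lit 815316620) (nat_lit 30) (nat_lit 5) (nat_lit 34) (nat_lit 5) (nat_lit 31) (nat_lit 5) (nat_lit 265) (nat_lit 253) (nat_lit 202)) (XT.lf (nat_lit 0) (nat_lit 525956393) (nat_lit 228) (nat_lit 11552850223) (nat_lit 76) (nat_lit 7668189871) (nat_lit 27) (nat_lit 5) (nat_lit 30) (nat_lit 5) (nat_lit 28) (nat_lit 5) (nat_lit 266) (nat_lit 253) (nat_lit 201)))) (XT.nd (nat_lit 78) (nat_lit 228) (nat_lit 0) (XT.lf (nat_lit 0) (nat_lit 2898598617)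 (nat_lit 228) (nat_lit 2675968961) (nat_lit 76) (nat_lit 15139147817) (nat_lit 27) (nat_lit 5) (nat_lit 30) (nat_lit 5) (nat_lit 28) (nat_lit 5) (nat_lit 267) (nat_lit 253) (nat_lit 200)) (XT.nd (nat_lit 78) (nat_lit 0) (nat_lit 0) (XT.lf (nat_lit 0) (nat_lit 5655047483) (nat_lit 304) (nat_lit 14534276745) (nat_lit 76) (nat_lit 1553012426) (nat_lit 24) (nat_lit 5) (nat_lit 28) (nat_lit 5) (nat_lit 25) (nat_lit 5) (nat_lit 268) (nat_lit 253) (nat_lit 199)) (XT.lf (nat_lit 0) (nat_lit 8832996761) (nat_lit 304) (nat_lit 4983233503) (nat_lit 76) (nat_lit 9021016792) (nat_lit 24) (nat_lit 5) (nat_lit 28) (nat_lit 5) (nat_lit 25) (nat_lit 5) (nat_lit 269) (nat_lit 253) (nat_lit 198))))) (XT.nd (nat_lit 234) (nat_lit 228) (nat_lit 0) (XT.nd (nat_lit 78) (nat_lit 152) (nat_lit 0) (XT.lf (nat_lit 0) (nat_lit 5589131805) (nat_lit 152) (nat_lit 6792991521) (nat_lit 228) (nat_lit 11628344069)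 (nat_lit 22) (nat_lit 5) (nat_lit 24) (nat_lit 5) (nat_lit 25) (nat_lit 5) (nat_lit 270) (nat_lit 253) (nat_lit 197)) (XT.nd (nat_lit 78) (nat_lit 152) (nat_lit 0) (XT.lf (nat_lit 0) (nat_lit 16357190678) (nat_lit 228) (nat_lit 8021615166) (nat_lit 76) (nat_lit 887445709) (nat_lit 22) (nat_lit 5) (nat_lit 25) (nat_lit 5) (nat_lit 23) (nat_lit 5) (nat_lit 271) (nat_lit 253) (nat_lit 196)) (XT.lf (nat_lit 0) (nat_lit 3170903805) (nat_lit 152) (nat_lit 17716478930) (nat_lit 228) (nat_lit 5716208245) (nat_lit 20) (nat_lit 5) (nat_lit 22) (nat_lit 5) (nat_lit 23) (nat_lit 5) (nat_lit 272) (nat_lit 253) (nat_lit 195)))) (XT.nd (nat_lit 156) (nat_lit 152) (nat_lit 0) (XT.nd (nat_lit 78) (nat_lit 76) (nat_lit 0) (XT.lf (nat_lit 0) (nat_lit 15694202195) (nat_lit 152) (nat_lit 10290184363) (nat_lit 228) (nat_lit 2047236772) (nat_lit 20) (nat_lit 5) (nat_lit 22) (nat_lit 5) (nat_lit 23) (nat_lit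 5) (nat_lit 273) (nat_lit 253) (nat_lit 194)) (XT.lf (nat_lit 0) (nat_lit 1805211200) (nat_lit 228) (nat_lit 420670773) (nat_lit 76) (nat_lit 27345519231) (nat_lit 19) (nat_lit 5) (nat_lit 22) (nat_lit 5) (nat_lit 20) (nat_lit 5) (nat_lit 274) (nat_lit 253) (nat_lit 193))) (XT.nd (nat_lit 78) (nat_lit 0) (nat_lit 0) (XT.lf (nat_lit 0) (nat_lit 6320751297) (nat_lit 228) (nat_lit 18342016609) (nat_lit 76) (nat_lit 6530145014) (nat_lit 17) (nat_lit 5) (nat_lit 20) (nat_lit 5) (nat_lit 18) (nat_lit 5) (nat_lit 275) (nat_lit 253) (nat_lit 192)) (XT.lf (nat_lit 0) (nat_lit 11254380736) (nat_lit 228) (nat_lit 5812265565) (nat_lit 76) (nat_lit 15872993832) (nat_lit 17) (nat_lit 5) (nat_lit 20) (nat_lit 5) (nat_lit 18) (nat_lit 5) (nat_lit 276) (nat_lit 253) (nat_lit 191))))))))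
noncomputable def xc74 : XT := (XT.nd (nat_lit 1950) (nat_lit 152) (nat_lit 0) (XT.nd (nat_lit 936) (nat_lit 304) (nat_lit 0) (XT.nd (nat_lit 468) (nat_lit 152) (nat_lit 0) (XT.nd (nat_lit 234) (nat_lit 228) (nat_lit 0) (XT.nd (nat_lit 78) (nat_lit 76) (nat_lit 0) (XT.lf (nat_lit 0) (nat_lit 8107823043) (nat_lit 152) (nat_lit 8658047108) (nat_lit 228) (nat_lit 18045620924) (nat_lit 15) (nat_lit 5) (nat_lit 17) (nat_lit 5) (nat_lit 18) (nat_lit 5) (nat_lit 277) (nat_lit 253) (nat_lit 190)) (XT.nd (nat_lit 78) (nat_lit 76) (nat_lit 0) (XT.lf (nat_lit 0) (nat_lit 22880001898) (nat_lit 228) (nat_lit 13380603394) (nat_lit 76) (nat_lit 559583168) (nat_lit 15) (nat_lit 5) (nat_lit 18) (nat_lit 5) (nat_lit 16) (nat_lit 4) (nat_lit 278) (nat_lit 253) (nat_lit 189)) (XT.lf (nat_lit 0) (nat_lit 807143589) (nat_lit 76) (nat_lit 28909767569) (nat_lit 152) (nat_lit 9254012262) (nat_lit 14) (nat_lit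 5) (nat_lit 15) (nat_lit 5) (nat_lit 16) (nat_lit 4) (nat_lit 279) (nat_lit 253) (nat_lit 188)))) (XT.nd (nat_lit 78) (nat_lit 228) (nat_lit 0) (XT.lf (nat_lit 0) (nat_lit 16874643675) (nat_lit 76) (nat_lit 20581728117) (nat_lit 152) (nat_lit 3808928548) (nat_lit 14) (nat_lit 5) (nat_lit 15) (nat_lit 5) (nat_lit 16) (nat_lit 4) (nat_lit 280) (nat_lit 253) (nat_lit 187)) (XT.nd (nat_lit 78) (nat_lit 152) (nat_lit 0) (XT.lf (nat_lit 0) (nat_lit 1958358636) (nat_lit 152) (nat_lit 9581081371) (nat_lit 76) (nat_lit 32200609184) (nat_lit 13) (nat_lit 5) (nat_lit 15) (nat_lit 5) (nat_lit 14) (nat_lit 5) (nat_lit 281) (nat_lit 253) (nat_lit 186)) (XT.lf (nat_lit 0) (nat_lit 6631650414) (nat_lit 152) (nat_lit 1500046706) (nat_lit 228) (nat_lit 38261154873) (nat_lit 11) (nat_lit 5) (nat_lit 13) (nat_lit 5) (nat_lit 14) (nat_lit 5) (nat_lit 282) (nat_lit 253) (nat_lit 185))))) (XT.nd (nat_lit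 234) (nat_lit 76) (nat_lit 0) (XT.nd (nat_lit 78) (nat_lit 76) (nat_lit 0) (XT.lf (nat_lit 0) (nat_lit 15283519323) (nat_lit 228) (nat_lit 24796772597) (nat_lit 76) (nat_lit 9138840597) (nat_lit 11) (nat_lit 5) (nat_lit 14) (nat_lit 5) (nat_lit 12) (nat_lit 4) (nat_lit 283) (nat_lit 253) (nat_lit 184)) (XT.nd (nat_lit 78) (nat_lit 76) (nat_lit 0) (XT.lf (nat_lit 0) (nat_lit 23038265607) (nat_lit 228) (nat_lit 8687711223) (nat_lit 76) (nat_lit 20543097523) (nat_lit 11) (nat_lit 5) (nat_lit 14) (nat_lit 5) (nat_lit 12) (nat_lit 4) (nat_lit 284) (nat_lit 253) (nat_lit 183)) (XT.lf (nat_lit 0) (nat_lit 9155515785) (nat_lit 76) (nat_lit 22470488455) (nat_lit 152) (nat_lit 23920017855) (nat_lit 10) (nat_lit 5) (nat_lit 11) (nat_lit 5) (nat_lit 12) (nat_lit 4) (nat_lit 285) (nat_lit 253) (nat_lit 182)))) (XT.nd (nat_lit 78) (nat_lit 76) (nat_lit 0) (XT.lf (nat_lit 0) (nat_lit 28908041388)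 (nat_lit 76) (nat_lit 12222947271) (nat_lit 152) (nat_lit 17935736982) (nat_lit 10) (nat_lit 5) (nat_lit 11) (nat_lit 5) (nat_lit 12) (nat_lit 4) (nat_lit 286) (nat_lit 253) (nat_lit 181)) (XT.nd (nat_lit 78) (nat_lit 76) (nat_lit 0) (XT.lf (nat_lit 0) (nat_lit 50229438113) (nat_lit 76) (nat_lit 1160164529) (nat_lit 152) (nat_lit 11480041142) (nat_lit 10) (nat_lit 5) (nat_lit 11) (nat_lit 5) (nat_lit 12) (nat_lit 4) (nat_lit 287) (nat_lit 253) (nat_lit 180)) (XT.lf (nat_lit 0) (nat_lit 6325845620) (nat_lit 76) (nat_lit 56548270533) (nat_lit 76) (nat_lit 4070277928) (nat_lit 9) (nat_lit 4) (nat_lit 10) (nat_lit 5) (nat_lit 10) (nat_lit 4) (nat_lit 288) (nat_lit 253) (nat_lit 179)))))) (XT.nd (nat_lit 468) (nat_lit 152) (nat_lit 0) (XT.nd (nat_lit 234) (nat_lit 76) (nat_lit 0) (XT.nd (nat_lit 78) (nat_lit 0) (nat_lit 0) (XT.lf (nat_lit 0) (nat_lit 4113948282) (nat_lit 152) (nat_lit 43934094573)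 (nat_lit 76) (nat_lit 23259257993) (nat_lit 8) (nat_lit 5) (nat_lit 10) (nat_lit 5) (nat_lit 9) (nat_lit 4) (nat_lit 289) (nat_lit 253) (nat_lit 178)) (XT.nd (nat_lit 78) (nat_lit 0) (nat_lit 0) (XT.lf (nat_lit 0) (nat_lit 12727153795) (nat_lit 152) (nat_lit 26030770062) (nat_lit 76) (nat_lit 37253339555) (nat_lit 8) (nat_lit 5) (nat_lit 10) (nat_lit 5) (nat_lit 9) (nat_lit 4) (nat_lit 290) (nat_lit 253) (nat_lit 177)) (XT.lf (nat_lit 0) (nat_lit 22023991617) (nat_lit 152) (nat_lit 6704590873) (nat_lit 76) (nat_lit 52363405842) (nat_lit 8) (nat_lit 5) (nat_lit 10) (nat_lit 5) (nat_lit 9) (nat_lit 4) (nat_lit 291) (nat_lit 253) (nat_lit 176)))) (XT.nd (nat_lit 78) (nat_lit 0) (nat_lit 0) (XT.lf (nat_lit 0) (nat_lit 14904554690) (nat_lit 76) (nat_lit 17513454327) (nat_lit 152) (nat_lit 54132898198) (nat_lit 7) (nat_lit 5) (nat_lit 8) (nat_lit 5) (nat_lit 9) (nat_lit 4) (nat_lit 292)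 (nat_lit 253) (nat_lit 175)) (XT.nd (nat_lit 78) (nat_lit 0) (nat_lit 0) (XT.lf (nat_lit 0) (nat_lit 38615234385) (nat_lit 76) (nat_lit 5206774231) (nat_lit 152) (nat_lit 48610263917) (nat_lit 7) (nat_lit 5) (nat_lit 8) (nat_lit 5) (nat_lit 9) (nat_lit 4) (nat_lit 293) (nat_lit 253) (nat_lit 174)) (XT.lf (nat_lit 0) (nat_lit 56328183142) (nat_lit 152) (nat_lit 34763961623) (nat_lit 0) (nat_lit 7676822980) (nat_lit 7) (nat_lit 5) (nat_lit 9) (nat_lit 4) (nat_lit 7) (nat_lit 4) (nat_lit 294) (nat_lit 253) (nat_lit 173))))) (XT.nd (nat_lit 234) (nat_lit 76) (nat_lit 0) (XT.nd (nat_lit 78) (nat_lit 76) (nat_lit 0) (XT.lf (nat_lit 0) (nat_lit 69965855459) (nat_lit 152) (nat_lit 14329428029) (nat_lit 0) (nat_lit 21306843174) (nat_lit 7) (nat_lit 5) (nat_lit 9) (nat_lit 4) (nat_lit 7) (nat_lit 4) (nat_lit 295) (nat_lit 253) (nat_lit 172)) (XT.nd (nat_lit 78) (nat_lit 0) (nat_lit 0) (XT.lf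 (nat_lit 0) (nat_lit 8140078926) (nat_lit 76) (nat_lit 76746308525) (nat_lit 76) (nat_lit 28080210940) (nat_lit 6) (nat_lit 4) (nat_lit 7) (nat_lit 5) (nat_lit 7) (nat_lit 4) (nat_lit 296) (nat_lit 253) (nat_lit 171)) (XT.lf (nat_lit 0) (nat_lit 33215261605) (nat_lit 76) (nat_lit 68173295928) (nat_lit 76) (nat_lit 19500637881) (nat_lit 6) (nat_lit 4) (nat_lit 7) (nat_lit 5) (nat_lit 7) (nat_lit 4) (nat_lit 297) (nat_lit 253) (nat_lit 170)))) (XT.nd (nat_lit 156) (nat_lit 76) (nat_lit 0) (XT.nd (nat_lit 78) (nat_lit 0) (nat_lit 0) (XT.lf (nat_lit 0) (nat_lit 60290151394) (nat_lit 76) (nat_lit 58917234616) (nat_lit 76) (nat_lit 10238502067) (nat_lit 6) (nat_lit 4) (nat_lit 7) (nat_lit 5) (nat_lit 7) (nat_lit 4) (nat_lit 298) (nat_lit 253) (nat_lit 169)) (XT.lf (nat_lit 0) (nat_lit 89525192086) (nat_lit 76) (nat_lit 48923273856) (nat_lit 76) (nat_lit 238916767) (nat_lit 6) (nat_lit 4)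 (nat_lit 7) (nat_lit 5) (nat_lit 7) (nat_lit 4) (nat_lit 299) (nat_lit 253) (nat_lit 168))) (XT.nd (nat_lit 78) (nat_lit 0) (nat_lit 0) (XT.lf (nat_lit 0) (nat_lit 10029252173) (nat_lit 152) (nat_lit 27828720474) (nat_lit 76) (nat_lit 110790158666) (nat_lit 5) (nat_lit 5) (nat_lit 7) (nat_lit 5) (nat_lit 6) (nat_lit 4) (nat_lit 300) (nat_lit 253) (nat_lit 167)) (XT.lf (nat_lit 0) (nat_lit 21103098926) (nat_lit 152) (nat_lit 4799941364) (nat_lit 76) (nat_lit 133502437401) (nat_lit 5) (nat_lit 5) (nat_lit 7) (nat_lit 5) (nat_lit 6) (nat_lit 4) (nat_lit 301) (nat_lit 253) (nat_lit 166))))))) (XT.nd (nat_lit 1014) (nat_lit 0) (nat_lit 0) (XT.nd (nat_lit 468) (nat_lit 76) (nat_lit 0) (XT.nd (nat_lit 234) (nat_lit 0) (nat_lit 0) (XT.nd (nat_lit 78) (nat_lit 0) (nat_lit 0) (XT.lf (nat_lit 0) (nat_lit 21123018431) (nat_lit 76) (nat_lit 12445188540) (nat_lit 152) (nat_lit 137414781058) (nat_lit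 4) (nat_lit 5) (nat_lit 5) (nat_lit 5) (nat_lit 6) (nat_lit 4) (nat_lit 302) (nat_lit 253) (nat_lit 165)) (XT.nd (nat_lit 78) (nat_lit 0) (nat_lit 0) (XT.lf (nat_lit 0) (nat_lit 47212797740) (nat_lit 152) (nat_lit 134141883651) (nat_lit 0) (nat_lit 2117440078) (nat_lit 4) (nat_lit 5) (nat_lit 6) (nat_lit 4) (nat_lit 4) (nat_lit 4) (nat_lit 303) (nat_lit 253) (nat_lit 164)) (XT.lf (nat_lit 0) (nat_lit 62269780443) (nat_lit 152) (nat_lit 117494064687) (nat_lit 0) (nat_lit 17170878367) (nat_lit 4) (nat_lit 5) (nat_lit 6) (nat_lit 4) (nat_lit 4) (nat_lit 4) (nat_lit 304) (nat_lit 253) (nat_lit 163)))) (XT.nd (nat_lit 78) (nat_lit 0) (nat_lit 0) (XT.lf (nat_lit 0) (nat_lit 78529074561) (nat_lit 152) (nat_lit 99518551880) (nat_lit 0) (nat_lit 33426890620) (nat_lit 4) (nat_lit 5) (nat_lit 6) (nat_lit 4) (nat_lit 4) (nat_lit 4) (nat_lit 305) (nat_lit 253) (nat_lit 162)) (XT.nd (nat_lit 78)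 (nat_lit 0) (nat_lit 0) (XT.lf (nat_lit 0) (nat_lit 96087031467) (nat_lit 152) (nat_lit 80108823675) (nat_lit 0) (nat_lit 50981808763) (nat_lit 4) (nat_lit 5) (nat_lit 6) (nat_lit 4) (nat_lit 4) (nat_lit 4) (nat_lit 306) (nat_lit 253) (nat_lit 161)) (XT.lf (nat_lit 0) (nat_lit 115047698313) (nat_lit 152) (nat_lit 59149859458) (nat_lit 0) (nat_lit 69939661939) (nat_lit 4) (nat_lit 5) (nat_lit 6) (nat_lit 4) (nat_lit 4) (nat_lit 4) (nat_lit 307) (nat_lit 253) (nat_lit 160))))) (XT.nd (nat_lit 234) (nat_lit 0) (nat_lit 0) (XT.nd (nat_lit 78) (nat_lit 76) (nat_lit 0) (XT.lf (nat_lit 0) (nat_lit 135523434606) (nat_lit 152) (nat_lit 36517457962) (nat_lit 0) (nat_lit 90412792982) (nat_lit 4) (nat_lit 5) (nat_lit 6) (nat_lit 4) (nat_lit 4) (nat_lit 4) (nat_lit 308) (nat_lit 253) (nat_lit 159)) (XT.nd (nat_lit 78) (nat_lit 76) (nat_lit 0) (XT.lf (nat_lit 0) (nat_lit 157635578043) (nat_lit 152)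 (nat_lit 12077501250) (nat_lit 0) (nat_lit 112522524151) (nat_lit 4) (nat_lit 5) (nat_lit 6) (nat_lit 4) (nat_lit 4) (nat_lit 4) (nat_lit 309) (nat_lit 253) (nat_lit 158)) (XT.lf (nat_lit 0) (nat_lit 15068634157) (nat_lit 76) (nat_lit 166808930404) (nat_lit 76) (nat_lit 121693642930) (nat_lit 3) (nat_lit 4) (nat_lit 4) (nat_lit 5) (nat_lit 4) (nat_lit 4) (nat_lit 310) (nat_lit 253) (nat_lit 157)))) (XT.nd (nat_lit 156) (nat_lit 0) (nat_lit 0) (XT.nd (nat_lit 78) (nat_lit 0) (nat_lit 0) (XT.lf (nat_lit 0) (nat_lit 45070577836) (nat_lit 76) (nat_lit 163317070419) (nat_lit 76) (nat_lit 118199714814) (nat_lit 3) (nat_lit 4) (nat_lit 4) (nat_lit 5) (nat_lit 4) (nat_lit 4) (nat_lit 311) (nat_lit 253) (nat_lit 156)) (XT.lf (nat_lit 0) (nat_lit 77470139268) (nat_lit 76) (nat_lit 159547027124) (nat_lit 76) (nat_lit 114427756583) (nat_lit 3) (nat_lit 4) (nat_lit 4) (nat_lit 5) (nat_lit 4) (nat_lit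 4) (nat_lit 312) (nat_lit 253) (nat_lit 155))) (XT.nd (nat_lit 78) (nat_lit 0) (nat_lit 0) (XT.lf (nat_lit 0) (nat_lit 112459315854) (nat_lit 76) (nat_lit 155476459522) (nat_lit 76) (nat_lit 110355415891) (nat_lit 3) (nat_lit 4) (nat_lit 4) (nat_lit 5) (nat_lit 4) (nat_lit 4) (nat_lit 313) (nat_lit 253) (nat_lit 154)) (XT.lf (nat_lit 0) (nat_lit 150245450864) (nat_lit 76) (nat_lit 151081245728) (nat_lit 76) (nat_lit 105958560348) (nat_lit 3) (nat_lit 4) (nat_lit 4) (nat_lit 5) (nat_lit 4) (nat_lit 4) (nat_lit 314) (nat_lit 253) (nat_lit 153)))))) (XT.nd (nat_lit 468) (nat_lit 0) (nat_lit 0) (XT.nd (nat_lit 234) (nat_lit 0) (nat_lit 0) (XT.nd (nat_lit 78) (nat_lit 0) (nat_lit 0) (XT.lf (nat_lit 0) (nat_lit 191052462134) (nat_lit 76) (nat_lit 146335340034) (nat_lit 76) (nat_lit 101211134516) (nat_lit 3) (nat_lit 4) (nat_lit 4) (nat_lit 5) (nat_lit 4) (nat_lit 4) (nat_lit 315) (nat_lit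 253) (nat_lit 152)) (XT.nd (nat_lit 78) (nat_lit 0) (nat_lit 0) (XT.lf (nat_lit 0) (nat_lit 235122168990) (nat_lit 76) (nat_lit 141210618553) (nat_lit 76) (nat_lit 96085005499) (nat_lit 3) (nat_lit 4) (nat_lit 4) (nat_lit 5) (nat_lit 4) (nat_lit 4) (nat_lit 316) (nat_lit 253) (nat_lit 151)) (XT.lf (nat_lit 0) (nat_lit 282715725250) (nat_lit 76) (nat_lit 135676712564) (nat_lit 76) (nat_lit 90549796237) (nat_lit 3) (nat_lit 4) (nat_lit 4) (nat_lit 5) (nat_lit 4) (nat_lit 4) (nat_lit 317) (nat_lit 253) (nat_lit 150)))) (XT.nd (nat_lit 78) (nat_lit 0) (nat_lit 0) (XT.lf (nat_lit 0) (nat_lit 334115166805) (nat_lit 76) (nat_lit 129700828552) (nat_lit 76) (nat_lit 84572705490) (nat_lit 3) (nat_lit 4) (nat_lit 4) (nat_lit 5) (nat_lit 4) (nat_lit 4) (nat_lit 318) (nat_lit 253) (nat_lit 149)) (XT.nd (nat_lit 78) (nat_lit 0) (nat_lit 0) (XT.lf (nat_lit 0) (nat_lit 389625082936) (nat_lit 76) (nat_lit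 123247553870) (nat_lit 76) (nat_lit 78118313461) (nat_lit 3) (nat_lit 4) (nat_lit 4) (nat_lit 5) (nat_lit 4) (nat_lit 4) (nat_lit 319) (nat_lit 253) (nat_lit 148)) (XT.lf (nat_lit 0) (nat_lit 449574421295) (nat_lit 76) (nat_lit 116278646890) (nat_lit 76) (nat_lit 71148371901) (nat_lit 3) (nat_lit 4) (nat_lit 4) (nat_lit 5) (nat_lit 4) (nat_lit 4) (nat_lit 320) (nat_lit 253) (nat_lit 147))))) (XT.nd (nat_lit 234) (nat_lit 0) (nat_lit 0) (XT.nd (nat_lit 78) (nat_lit 0) (nat_lit 0) (XT.lf (nat_lit 0) (nat_lit 514318437220) (nat_lit 76) (nat_lit 108752810387) (nat_lit 76) (nat_lit 63621577452) (nat_lit 3) (nat_lit 4) (nat_lit 4) (nat_lit 5) (nat_lit 4) (nat_lit 4) (nat_lit 321) (nat_lit 253) (nat_lit 146)) (XT.nd (nat_lit 78) (nat_lit 0) (nat_lit 0) (XT.lf (nat_lit 0) (nat_lit 584240798955) (nat_lit 76) (nat_lit 100625446809) (nat_lit 76) (nat_lit 55493326888) (nat_lit 3) (nat_lit 4) (nat_lit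 4) (nat_lit 5) (nat_lit 4) (nat_lit 4) (nat_lit 322) (nat_lit 253) (nat_lit 145)) (XT.lf (nat_lit 0) (nat_lit 659755861234) (nat_lit 76) (nat_lit 91848394003) (nat_lit 76) (nat_lit 46715452799) (nat_lit 3) (nat_lit 4) (nat_lit 4) (nat_lit 5) (nat_lit 4) (nat_lit 4) (nat_lit 323) (nat_lit 253) (nat_lit 144)))) (XT.nd (nat_lit 156) (nat_lit 0) (nat_lit 0) (XT.nd (nat_lit 78) (nat_lit 0) (nat_lit 0) (XT.lf (nat_lit 0) (nat_lit 741311120725) (nat_lit 76) (nat_lit 82369639804) (nat_lit 76) (nat_lit 37235938152) (nat_lit 3) (nat_lit 4) (nat_lit 4) (nat_lit 5) (nat_lit 4) (nat_lit 4) (nat_lit 324) (nat_lit 253) (nat_lit 143)) (XT.lf (nat_lit 0) (nat_lit 829389867852) (nat_lit 76) (nat_lit 72133013816) (nat_lit 76) (nat_lit 26998608046) (nat_lit 3) (nat_lit 4) (nat_lit 4) (nat_lit 5) (nat_lit 4) (nat_lit 4) (nat_lit 325) (nat_lit 253) (nat_lit 142))) (XT.nd (nat_lit 78) (nat_lit 0) (nat_lit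 0) (XT.lf (nat_lit 0) (nat_lit 924514050748) (nat_lit 76) (nat_lit 61077854553) (nat_lit 76) (nat_lit 15942796822) (nat_lit 3) (nat_lit 4) (nat_lit 4) (nat_lit 5) (nat_lit 4) (nat_lit 4) (nat_lit 326) (nat_lit 253) (nat_lit 141)) (XT.lf (nat_lit 0) (nat_lit 1027247368273) (nat_lit 76) (nat_lit 49138649959) (nat_lit 76) (nat_lit 4002988560) (nat_lit 3) (nat_lit 4) (nat_lit 4) (nat_lit 5) (nat_lit 4) (nat_lit 4) (nat_lit 327) (nat_lit 253) (nat_lit 140))))))))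
noncomputable def xc75 : XT := (XT.nd (nat_lit 32916) (nat_lit 0) (nat_lit 456) (XT.nd (nat_lit 31902) (nat_lit 0) (nat_lit 1976) (XT.nd (nat_lit 468) (nat_lit 0) (nat_lit 0) (XT.nd (nat_lit 234) (nat_lit 0) (nat_lit 0) (XT.nd (nat_lit 78) (nat_lit 76) (nat_lit 0) (XT.lf (nat_lit 0) (nat_lit 8446778757) (nat_lit 152) (nat_lit 27566920535) (nat_lit 76) (nat_lit 1129520881801) (nat_lit 2) (nat_lit 5) (nat_lit 4) (nat_lit 5) (nat_lit 3) (nat_lit 4) (nat_lit 328) (nat_lit 253) (nat_lit 139)) (XT.nd (nat_lit 78) (nat_lit 76) (nat_lit 0) (XT.lf (nat_lit 0) (nat_lit 21675881054) (nat_lit 152) (nat_lit 50905305) (nat_lit 76) (nat_lit 1235756728090) (nat_lit 2) (nat_lit 5) (nat_lit 4) (nat_lit 5) (nat_lit 3) (nat_lit 4) (nat_lit 329) (nat_lit 253) (nat_lit 138)) (XT.lf (nat_lit 0) (nat_lit 31227882149) (nat_lit 76) (nat_lit 5486107878) (nat_lit 152) (nat_lit 1320014318653) (nat_lit 1) (nat_lit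 5) (nat_lit 2) (nat_lit 5) (nat_lit 3) (nat_lit 4) (nat_lit 330) (nat_lit 253) (nat_lit 137)))) (XT.nd (nat_lit 78) (nat_lit 0) (nat_lit 0) (XT.lf (nat_lit 0) (nat_lit 53246121361) (nat_lit 152) (nat_lit 1399191296680) (nat_lit 0) (nat_lit 11451990969) (nat_lit 1) (nat_lit 5) (nat_lit 3) (nat_lit 4) (nat_lit 1) (nat_lit 4) (nat_lit 331) (nat_lit 253) (nat_lit 136)) (XT.nd (nat_lit 78) (nat_lit 0) (nat_lit 0) (XT.lf (nat_lit 0) (nat_lit 71242996240) (nat_lit 152) (nat_lit 1478920542265) (nat_lit 0) (nat_lit 29448485435) (nat_lit 1) (nat_lit 5) (nat_lit 3) (nat_lit 4) (nat_lit 1) (nat_lit 4) (nat_lit 332) (nat_lit 253) (nat_lit 135)) (XT.lf (nat_lit 0) (nat_lit 90679321786) (nat_lit 152) (nat_lit 1565028691864) (nat_lit 0) (nat_lit 48884458747) (nat_lit 1) (nat_lit 5) (nat_lit 3) (nat_lit 4) (nat_lit 1) (nat_lit 4) (nat_lit 333) (nat_lit 253) (nat_lit 134))))) (XT.nd (nat_lit 234) (nat_lit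 0) (nat_lit 0) (XT.nd (nat_lit 78) (nat_lit 0) (nat_lit 0) (XT.lf (nat_lit 0) (nat_lit 111670276225) (nat_lit 152) (nat_lit 1658026015991) (nat_lit 0) (nat_lit 69875087043) (nat_lit 1) (nat_lit 5) (nat_lit 3) (nat_lit 4) (nat_lit 1) (nat_lit 4) (nat_lit 334) (nat_lit 253) (nat_lit 133)) (XT.nd (nat_lit 78) (nat_lit 0) (nat_lit 0) (XT.lf (nat_lit 0) (nat_lit 134340250398) (nat_lit 152) (nat_lit 1758463609903) (nat_lit 0) (nat_lit 92544759231) (nat_lit 1) (nat_lit 5) (nat_lit 3) (nat_lit 4) (nat_lit 1) (nat_lit 4) (nat_lit 335) (nat_lit 253) (nat_lit 132)) (XT.lf (nat_lit 0) (nat_lit 158823584892) (nat_lit 152) (nat_lit 1866936659339) (nat_lit 0) (nat_lit 117027814111) (nat_lit 1) (nat_lit 5) (nat_lit 3) (nat_lit 4) (nat_lit 1) (nat_lit 4) (nat_lit 336) (nat_lit 253) (nat_lit 131)))) (XT.nd (nat_lit 31044) (nat_lit 0) (nat_lit 2660) (XT.nd (nat_lit 78) (nat_lit 0) (nat_lit 0) (XT.lf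 (nat_lit 0) (nat_lit 185265366135) (nat_lit 152) (nat_lit 1984087967557) (nat_lit 0) (nat_lit 143469336450) (nat_lit 1) (nat_lit 5) (nat_lit 3) (nat_lit 4) (nat_lit 1) (nat_lit 4) (nat_lit 337) (nat_lit 253) (nat_lit 130)) (XT.lf (nat_lit 0) (nat_lit 213822286163) (nat_lit 152) (nat_lit 2110611764531) (nat_lit 0) (nat_lit 172026016753) (nat_lit 1) (nat_lit 5) (nat_lit 3) (nat_lit 4) (nat_lit 1) (nat_lit 4) (nat_lit 338) (nat_lit 253) (nat_lit 129))) (XT.nd (nat_lit 78) (nat_lit 0) (nat_lit 0) (XT.lf (nat_lit 0) (nat_lit 459384168) (nat_lit 532) (nat_lit 2858160891) (nat_lit 532) (nat_lit 2858160891) (nat_lit 36) (nat_lit 3) (nat_lit 43) (nat_lit 3) (nat_lit 43) (nat_lit 5) (nat_lit 254) (nat_lit 254) (nat_lit 212)) (XT.lf (nat_lit 0) (nat_lit 1357120342) (nat_lit 532) (nat_lit 423273439) (nat_lit 532) (nat_lit 11030820679) (nat_lit 36) (nat_lit 3) (nat_lit 43) (nat_lit 3) (nat_lit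 43) (nat_lit 5) (nat_lit 255) (nat_lit 254) (nat_lit 211)))))) (XT.nd (nat_lit 468) (nat_lit 760) (nat_lit 0) (XT.nd (nat_lit 234) (nat_lit 0) (nat_lit 76) (XT.nd (nat_lit 78) (nat_lit 0) (nat_lit 0) (XT.lf (nat_lit 0) (nat_lit 2011000392) (nat_lit 456) (nat_lit 7838738819) (nat_lit 532) (nat_lit 3443837906) (nat_lit 37) (nat_lit 5) (nat_lit 43) (nat_lit 5) (nat_lit 44) (nat_lit 5) (nat_lit 256) (nat_lit 254) (nat_lit 210)) (XT.nd (nat_lit 78) (nat_lit 0) (nat_lit 76) (XT.lf (nat_lit 0) (nat_lit 2737990139) (nat_lit 456) (nat_lit 2057737894) (nat_lit 532) (nat_lit 9017333740) (nat_lit 37) (nat_lit 5) (nat_lit 43) (nat_lit 5) (nat_lit 44) (nat_lit 5) (nat_lit 257) (nat_lit 254) (nat_lit 209)) (XT.lf (nat_lit 0) (nat_lit 3612920770) (nat_lit 456) (nat_lit 10005646311) (nat_lit 532) (nat_lit 748537924) (nat_lit 38) (nat_lit 5) (nat_lit 44) (nat_lit 5) (nat_lit 45) (nat_lit 5) (nat_lit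 258) (nat_lit 254) (nat_lit 208)))) (XT.nd (nat_lit 78) (nat_lit 0) (nat_lit 0) (XT.lf (nat_lit 0) (nat_lit 4707842535) (nat_lit 456) (nat_lit 3701231367) (nat_lit 532) (nat_lit 6544566896) (nat_lit 38) (nat_lit 5) (nat_lit 44) (nat_lit 5) (nat_lit 45) (nat_lit 5) (nat_lit 259) (nat_lit 254) (nat_lit 207)) (XT.nd (nat_lit 78) (nat_lit 0) (nat_lit 76) (XT.lf (nat_lit 76) (nat_lit 3246367172) (nat_lit 0) (nat_lit 2692166781) (nat_lit 532) (nat_lit 9644867757) (nat_lit 39) (nat_lit 5) (nat_lit 38) (nat_lit 5) (nat_lit 45) (nat_lit 5) (nat_lit 260) (nat_lit 254) (nat_lit 206)) (XT.lf (nat_lit 0) (nat_lit 7427141592) (nat_lit 456) (nat_lit 5407054490) (nat_lit 76) (nat_lit 3416735290) (nat_lit 39) (nat_lit 5) (nat_lit 45) (nat_lit 5) (nat_lit 40) (nat_lit 5) (nat_lit 261) (nat_lit 254) (nat_lit 205))))) (XT.nd (nat_lit 234) (nat_lit 228) (nat_lit 0) (XT.nd (nat_lit 78) (nat_lit 228) (nat_lit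 0) (XT.lf (nat_lit 0) (nat_lit 2088249301) (nat_lit 456) (nat_lit 7040709373) (nat_lit 532) (nat_lit 7835509092) (nat_lit 33) (nat_lit 5) (nat_lit 39) (nat_lit 5) (nat_lit 40) (nat_lit 5) (nat_lit 262) (nat_lit 254) (nat_lit 204)) (XT.nd (nat_lit 78) (nat_lit 228) (nat_lit 0) (XT.lf (nat_lit 0) (nat_lit 10467668184) (nat_lit 456) (nat_lit 622437903) (nat_lit 532) (nat_lit 6635250287) (nat_lit 33) (nat_lit 5) (nat_lit 39) (nat_lit 5) (nat_lit 40) (nat_lit 5) (nat_lit 263) (nat_lit 254) (nat_lit 203)) (XT.lf (nat_lit 0) (nat_lit 837178745) (nat_lit 228) (nat_lit 12520048644) (nat_lit 304) (nat_lit 5178077021) (nat_lit 30) (nat_lit 5) (nat_lit 33) (nat_lit 5) (nat_lit 34) (nat_lit 5) (nat_lit 264) (nat_lit 254) (nat_lit 202)))) (XT.nd (nat_lit 156) (nat_lit 228) (nat_lit 0) (XT.nd (nat_lit 78) (nat_lit 0) (nat_lit 0) (XT.lf (nat_lit 0) (nat_lit 9952671032) (nat_lit 228) (nat_lit 6045594917)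 (nat_lit 304) (nat_lit 3396484930) (nat_lit 30) (nat_lit 5) (nat_lit 33) (nat_lit 5) (nat_lit 34) (nat_lit 5) (nat_lit 265) (nat_lit 254) (nat_lit 201)) (XT.lf (nat_lit 0) (nat_lit 18853290340) (nat_lit 304) (nat_lit 571015426) (nat_lit 76) (nat_lit 898529593) (nat_lit 30) (nat_lit 5) (nat_lit 34) (nat_lit 5) (nat_lit 31) (nat_lit 5) (nat_lit 266) (nat_lit 254) (nat_lit 200))) (XT.nd (nat_lit 78) (nat_lit 0) (nat_lit 0) (XT.lf (nat_lit 0) (nat_lit 952308643) (nat_lit 228) (nat_lit 12023650277) (nat_lit 76) (nat_lit 8318407452) (nat_lit 27) (nat_lit 5) (nat_lit 30) (nat_lit 5) (nat_lit 28) (nat_lit 5) (nat_lit 267) (nat_lit 254) (nat_lit 199)) (XT.lf (nat_lit 0) (nat_lit 3486297376) (nat_lit 228) (nat_lit 2470205770) (nat_lit 76) (nat_lit 16384318893) (nat_lit 27) (nat_lit 5) (nat_lit 30) (nat_lit 5) (nat_lit 28) (nat_lit 5) (nat_lit 268) (nat_lit 254) (nat_lit 198))))))) (XT.nd (nat_lit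 1014) (nat_lit 532) (nat_lit 0) (XT.nd (nat_lit 468) (nat_lit 456) (nat_lit 0) (XT.nd (nat_lit 234) (nat_lit 152) (nat_lit 0) (XT.nd (nat_lit 78) (nat_lit 152) (nat_lit 0) (XT.lf (nat_lit 0) (nat_lit 6448428821) (nat_lit 304) (nat_lit 15260932145) (nat_lit 76) (nat_lit 1743671716) (nat_lit 24) (nat_lit 5) (nat_lit 28) (nat_lit 5) (nat_lit 25) (nat_lit 5) (nat_lit 269) (nat_lit 254) (nat_lit 197)) (XT.nd (nat_lit 78) (nat_lit 152) (nat_lit 0) (XT.lf (nat_lit 0) (nat_lit 9855356445) (nat_lit 304) (nat_lit 4978108165) (nat_lit 76) (nat_lit 9804196558) (nat_lit 24) (nat_lit 5) (nat_lit 28) (nat_lit 5) (nat_lit 25) (nat_lit 5) (nat_lit 270) (nat_lit 254) (nat_lit 196)) (XT.lf (nat_lit 0) (nat_lit 6429823988) (nat_lit 152) (nat_lit 7244667652) (nat_lit 228) (nat_lit 12231458107) (nat_lit 22) (nat_lit 5) (nat_lit 24) (nat_lit 5) (nat_lit 25) (nat_lit 5) (nat_lit 271) (nat_lit 254) (nat_lit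 195)))) (XT.nd (nat_lit 78) (nat_lit 152) (nat_lit 0) (XT.lf (nat_lit 0) (nat_lit 17947252372) (nat_lit 228) (nat_lit 8277501998) (nat_lit 76) (nat_lit 1039156944) (nat_lit 22) (nat_lit 5) (nat_lit 25) (nat_lit 5) (nat_lit 23) (nat_lit 5) (nat_lit 272) (nat_lit 254) (nat_lit 194)) (XT.nd (nat_lit 78) (nat_lit 0) (nat_lit 0) (XT.lf (nat_lit 0) (nat_lit 3800650328) (nat_lit 152) (nat_lit 19027403212) (nat_lit 228) (nat_lit 5881211925) (nat_lit 20) (nat_lit 5) (nat_lit 22) (nat_lit 5) (nat_lit 23) (nat_lit 5) (nat_lit 273) (nat_lit 254) (nat_lit 193)) (XT.lf (nat_lit 0) (nat_lit 17297955241) (nat_lit 152) (nat_lit 11014886119) (nat_lit 228) (nat_lit 1940374066) (nat_lit 20) (nat_lit 5) (nat_lit 22) (nat_lit 5) (nat_lit 23) (nat_lit 5) (nat_lit 274) (nat_lit 254) (nat_lit 192))))) (XT.nd (nat_lit 234) (nat_lit 228) (nat_lit 0) (XT.nd (nat_lit 78) (nat_lit 152) (nat_lit 0) (XT.lf (nat_lit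 0) (nat_lit 2187686481) (nat_lit 228) (nat_lit 118541376) (nat_lit 76) (nat_lit 29611016474) (nat_lit 19) (nat_lit 5) (nat_lit 22) (nat_lit 5) (nat_lit 20) (nat_lit 5) (nat_lit 275) (nat_lit 254) (nat_lit 191)) (XT.nd (nat_lit 78) (nat_lit 0) (nat_lit 0) (XT.lf (nat_lit 0) (nat_lit 7057087608) (nat_lit 228) (nat_lit 19465449462) (nat_lit 76) (nat_lit 7146591547) (nat_lit 17) (nat_lit 5) (nat_lit 20) (nat_lit 5) (nat_lit 18) (nat_lit 5) (nat_lit 276) (nat_lit 254) (nat_lit 190)) (XT.lf (nat_lit 0) (nat_lit 12368320276) (nat_lit 228) (nat_lit 5958794518) (nat_lit 76) (nat_lit 17229902720) (nat_lit 17) (nat_lit 5) (nat_lit 20) (nat_lit 5) (nat_lit 18) (nat_lit 5) (nat_lit 277) (nat_lit 254) (nat_lit 189)))) (XT.nd (nat_lit 156) (nat_lit 76) (nat_lit 0) (XT.nd (nat_lit 78) (nat_lit 0) (nat_lit 0) (XT.lf (nat_lit 0) (nat_lit 9066839095) (nat_lit 152) (nat_lit 9245533228) (nat_lit 228) (nat_lit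 19266965079) (nat_lit 15) (nat_lit 5) (nat_lit 17) (nat_lit 5) (nat_lit 18) (nat_lit 5) (nat_lit 278) (nat_lit 254) (nat_lit 188)) (XT.lf (nat_lit 0) (nat_lit 24902773905) (nat_lit 228) (nat_lit 14150186736) (nat_lit 76) (nat_lit 696847264) (nat_lit 15) (nat_lit 5) (nat_lit 18) (nat_lit 5) (nat_lit 16) (nat_lit 4) (nat_lit 279) (nat_lit 254) (nat_lit 187))) (XT.nd (nat_lit 78) (nat_lit 0) (nat_lit 0) (XT.lf (nat_lit 0) (nat_lit 1164963172) (nat_lit 76) (nat_lit 31114475590) (nat_lit 152) (nat_lit 9793783551) (nat_lit 14) (nat_lit 5) (nat_lit 15) (nat_lit 5) (nat_lit 16) (nat_lit 4) (nat_lit 280) (nat_lit 254) (nat_lit 186)) (XT.lf (nat_lit 0) (nat_lit 18496141184) (nat_lit 76) (nat_lit 22128198419) (nat_lit 152) (nat_lit 3927948673) (nat_lit 14) (nat_lit 5) (nat_lit 15) (nat_lit 5) (nat_lit 16) (nat_lit 4) (nat_lit 281) (nat_lit 254) (nat_lit 185)))))) (XT.nd (nat_lit 468) (nat_lit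 228) (nat_lit 0) (XT.nd (nat_lit 234) (nat_lit 76) (nat_lit 0) (XT.nd (nat_lit 78) (nat_lit 152) (nat_lit 0) (XT.lf (nat_lit 0) (nat_lit 2278365276) (nat_lit 152) (nat_lit 10087108475) (nat_lit 76) (nat_lit 34860266997) (nat_lit 13) (nat_lit 5) (nat_lit 15) (nat_lit 5) (nat_lit 14) (nat_lit 5) (nat_lit 282) (nat_lit 254) (nat_lit 184)) (XT.nd (nat_lit 78) (nat_lit 0) (nat_lit 0) (XT.lf (nat_lit 0) (nat_lit 7416047944) (nat_lit 152) (nat_lit 1523529259) (nat_lit 228) (nat_lit 41151703051) (nat_lit 11) (nat_lit 5) (nat_lit 13) (nat_lit 5) (nat_lit 14) (nat_lit 5) (nat_lit 283) (nat_lit 254) (nat_lit 183)) (XT.lf (nat_lit 0) (nat_lit 16654039434) (nat_lit 228) (nat_lit 26535566201) (nat_lit 76) (nat_lit 9954848588) (nat_lit 11) (nat_lit 5) (nat_lit 14) (nat_lit 5) (nat_lit 12) (nat_lit 4) (nat_lit 284) (nat_lit 254) (nat_lit 182)))) (XT.nd (nat_lit 78) (nat_lit 76) (nat_lit 0) (XT.lf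 (nat_lit 0) (nat_lit 25018214416) (nat_lit 228) (nat_lit 9155924229) (nat_lit 76) (nat_lit 22265157125) (nat_lit 11) (nat_lit 5) (nat_lit 14) (nat_lit 5) (nat_lit 12) (nat_lit 4) (nat_lit 285) (nat_lit 254) (nat_lit 181)) (XT.nd (nat_lit 78) (nat_lit 0) (nat_lit 0) (XT.lf (nat_lit 0) (nat_lit 10109019069) (nat_lit 76) (nat_lit 24179129798) (nat_lit 152) (nat_lit 25690662513) (nat_lit 10) (nat_lit 5) (nat_lit 11) (nat_lit 5) (nat_lit 12) (nat_lit 4) (nat_lit 286) (nat_lit 254) (nat_lit 180)) (XT.lf (nat_lit 0) (nat_lit 31425371756) (nat_lit 76) (nat_lit 13118377744) (nat_lit 152) (nat_lit 19238228560) (nat_lit 10) (nat_lit 5) (nat_lit 11) (nat_lit 5) (nat_lit 12) (nat_lit 4) (nat_lit 287) (nat_lit 254) (nat_lit 179))))) (XT.nd (nat_lit 234) (nat_lit 76) (nat_lit 0) (XT.nd (nat_lit 78) (nat_lit 152) (nat_lit 0) (XT.lf (nat_lit 0) (nat_lit 54437318215) (nat_lit 76) (nat_lit 1176676480)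 (nat_lit 152) (nat_lit 12275882044) (nat_lit 10) (nat_lit 5) (nat_lit 11) (nat_lit 5) (nat_lit 12) (nat_lit 4) (nat_lit 288) (nat_lit 254) (nat_lit 178)) (XT.nd (nat_lit 78) (nat_lit 76) (nat_lit 0) (XT.lf (nat_lit 0) (nat_lit 7023953760) (nat_lit 76) (nat_lit 60991246270) (nat_lit 76) (nat_lit 4275593357) (nat_lit 9) (nat_lit 4) (nat_lit 10) (nat_lit 5) (nat_lit 10) (nat_lit 4) (nat_lit 289) (nat_lit 254) (nat_lit 177)) (XT.lf (nat_lit 0) (nat_lit 4548886895) (nat_lit 152) (nat_lit 47265211649) (nat_lit 76) (nat_lit 25189097769) (nat_lit 8) (nat_lit 5) (nat_lit 10) (nat_lit 5) (nat_lit 9) (nat_lit 4) (nat_lit 290) (nat_lit 254) (nat_lit 176)))) (XT.nd (nat_lit 156) (nat_lit 76) (nat_lit 0) (XT.nd (nat_lit 78) (nat_lit 0) (nat_lit 0) (XT.lf (nat_lit 0) (nat_lit 13843310127) (nat_lit 152) (nat_lit 27943221955) (nat_lit 76) (nat_lit 40297587401) (nat_lit 8) (nat_lit 5) (nat_lit 10) (nat_lit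 5) (nat_lit 9) (nat_lit 4) (nat_lit 291) (nat_lit 254) (nat_lit 175)) (XT.lf (nat_lit 0) (nat_lit 23876636899) (nat_lit 152) (nat_lit 7083541742) (nat_lit 76) (nat_lit 56611719682) (nat_lit 8) (nat_lit 5) (nat_lit 10) (nat_lit 5) (nat_lit 9) (nat_lit 4) (nat_lit 292) (nat_lit 254) (nat_lit 174))) (XT.nd (nat_lit 78) (nat_lit 0) (nat_lit 0) (XT.lf (nat_lit 0) (nat_lit 16250350241) (nat_lit 76) (nat_lit 18848795033) (nat_lit 152) (nat_lit 58368642024) (nat_lit 7) (nat_lit 5) (nat_lit 8) (nat_lit 5) (nat_lit 9) (nat_lit 4) (nat_lit 293) (nat_lit 254) (nat_lit 173)) (XT.lf (nat_lit 0) (nat_lit 41846519039) (nat_lit 76) (nat_lit 5562449836) (nat_lit 152) (nat_lit 52411225744) (nat_lit 7) (nat_lit 5) (nat_lit 8) (nat_lit 5) (nat_lit 9) (nat_lit 4) (nat_lit 294) (nat_lit 254) (nat_lit 172))))))))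
noncomputable def xc76 : XT := (XT.nd (nat_lit 1950) (nat_lit 152) (nat_lit 0) (XT.nd (nat_lit 936) (nat_lit 76) (nat_lit 0) (XT.nd (nat_lit 468) (nat_lit 152) (nat_lit 0) (XT.nd (nat_lit 234) (nat_lit 0) (nat_lit 0) (XT.nd (nat_lit 78) (nat_lit 76) (nat_lit 0) (XT.lf (nat_lit 0) (nat_lit 60910977985) (nat_lit 152) (nat_lit 37408725050) (nat_lit 0) (nat_lit 8344507294) (nat_lit 7) (nat_lit 5) (nat_lit 9) (nat_lit 4) (nat_lit 7) (nat_lit 4) (nat_lit 295) (nat_lit 254) (nat_lit 171)) (XT.nd (nat_lit 78) (nat_lit 76) (nat_lit 0) (XT.lf (nat_lit 0) (nat_lit 75633994443) (nat_lit 152) (nat_lit 15349529028) (nat_lit 0) (nat_lit 23060963290) (nat_lit 7) (nat_lit 5) (nat_lit 9) (nat_lit 4) (nat_lit 7) (nat_lit 4) (nat_lit 296) (nat_lit 254) (nat_lit 170)) (XT.lf (nat_lit 0) (nat_lit 8914342199) (nat_lit 76) (nat_lit 82831536648) (nat_lit 76) (nat_lit 30252430993) (nat_lit 6) (nat_lit 4) (nat_lit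 7) (nat_lit 5) (nat_lit 7) (nat_lit 4) (nat_lit 297) (nat_lit 254) (nat_lit 169)))) (XT.nd (nat_lit 78) (nat_lit 0) (nat_lit 0) (XT.lf (nat_lit 0) (nat_lit 35986424162) (nat_lit 76) (nat_lit 73576718344) (nat_lit 76) (nat_lit 20991988149) (nat_lit 6) (nat_lit 4) (nat_lit 7) (nat_lit 5) (nat_lit 7) (nat_lit 4) (nat_lit 298) (nat_lit 254) (nat_lit 168)) (XT.nd (nat_lit 78) (nat_lit 0) (nat_lit 0) (XT.lf (nat_lit 0) (nat_lit 65218865014) (nat_lit 76) (nat_lit 63583908517) (nat_lit 76) (nat_lit 10993970416) (nat_lit 6) (nat_lit 4) (nat_lit 7) (nat_lit 5) (nat_lit 7) (nat_lit 4) (nat_lit 299) (nat_lit 254) (nat_lit 167)) (XT.lf (nat_lit 0) (nat_lit 96784894035) (nat_lit 76) (nat_lit 52793890515) (nat_lit 76) (nat_lit 199130278) (nat_lit 6) (nat_lit 4) (nat_lit 7) (nat_lit 5) (nat_lit 7) (nat_lit 4) (nat_lit 300) (nat_lit 254) (nat_lit 166))))) (XT.nd (nat_lit 234) (nat_lit 0) (nat_lit 0)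 (XT.nd (nat_lit 78) (nat_lit 76) (nat_lit 0) (XT.lf (nat_lit 0) (nat_lit 10883401071) (nat_lit 152) (nat_lit 29961750948) (nat_lit 76) (nat_lit 119690596631) (nat_lit 5) (nat_lit 5) (nat_lit 7) (nat_lit 5) (nat_lit 6) (nat_lit 4) (nat_lit 301) (nat_lit 254) (nat_lit 165)) (XT.nd (nat_lit 78) (nat_lit 76) (nat_lit 0) (XT.lf (nat_lit 0) (nat_lit 22839317881) (nat_lit 152) (nat_lit 5097578188) (nat_lit 76) (nat_lit 144217100238) (nat_lit 5) (nat_lit 5) (nat_lit 7) (nat_lit 5) (nat_lit 6) (nat_lit 4) (nat_lit 302) (nat_lit 254) (nat_lit 164)) (XT.lf (nat_lit 0) (nat_lit 22897032100) (nat_lit 76) (nat_lit 13403073403) (nat_lit 152) (nat_lit 148357730363) (nat_lit 4) (nat_lit 5) (nat_lit 5) (nat_lit 5) (nat_lit 6) (nat_lit 4) (nat_lit 303) (nat_lit 254) (nat_lit 163)))) (XT.nd (nat_lit 78) (nat_lit 0) (nat_lit 0) (XT.lf (nat_lit 0) (nat_lit 51033663584) (nat_lit 152) (nat_lit 144792626947)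 (nat_lit 0) (nat_lit 2320023063) (nat_lit 4) (nat_lit 5) (nat_lit 6) (nat_lit 4) (nat_lit 4) (nat_lit 4) (nat_lit 304) (nat_lit 254) (nat_lit 162)) (XT.nd (nat_lit 78) (nat_lit 0) (nat_lit 0) (XT.lf (nat_lit 0) (nat_lit 67291957345) (nat_lit 152) (nat_lit 126818953383) (nat_lit 0) (nat_lit 18575278062) (nat_lit 4) (nat_lit 5) (nat_lit 6) (nat_lit 4) (nat_lit 4) (nat_lit 4) (nat_lit 305) (nat_lit 254) (nat_lit 161)) (XT.lf (nat_lit 0) (nat_lit 84848987995) (nat_lit 152) (nat_lit 107410928181) (nat_lit 0) (nat_lit 36129495042) (nat_lit 4) (nat_lit 5) (nat_lit 6) (nat_lit 4) (nat_lit 4) (nat_lit 4) (nat_lit 306) (nat_lit 254) (nat_lit 160)))))) (XT.nd (nat_lit 468) (nat_lit 0) (nat_lit 0) (XT.nd (nat_lit 234) (nat_lit 76) (nat_lit 0) (XT.nd (nat_lit 78) (nat_lit 0) (nat_lit 0) (XT.lf (nat_lit 0) (nat_lit 103808797197) (nat_lit 152) (nat_lit 86453540819) (nat_lit 0) (nat_lit 55086698993)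 (nat_lit 4) (nat_lit 5) (nat_lit 6) (nat_lit 4) (nat_lit 4) (nat_lit 4) (nat_lit 307) (nat_lit 254) (nat_lit 159)) (XT.nd (nat_lit 78) (nat_lit 0) (nat_lit 0) (XT.lf (nat_lit 0) (nat_lit 124283739375) (nat_lit 152) (nat_lit 63822599372) (nat_lit 0) (nat_lit 75559228903) (nat_lit 4) (nat_lit 5) (nat_lit 6) (nat_lit 4) (nat_lit 4) (nat_lit 4) (nat_lit 308) (nat_lit 254) (nat_lit 158)) (XT.lf (nat_lit 0) (nat_lit 146395147520) (nat_lit 152) (nat_lit 39383994559) (nat_lit 0) (nat_lit 97668403466) (nat_lit 4) (nat_lit 5) (nat_lit 6) (nat_lit 4) (nat_lit 4) (nat_lit 4) (nat_lit 309) (nat_lit 254) (nat_lit 157)))) (XT.nd (nat_lit 78) (nat_lit 76) (nat_lit 0) (XT.lf (nat_lit 0) (nat_lit 170274052199) (nat_lit 152) (nat_lit 12992905018) (nat_lit 0) (nat_lit 121545240014) (nat_lit 4) (nat_lit 5) (nat_lit 6) (nat_lit 4) (nat_lit 4) (nat_lit 4) (nat_lit 310) (nat_lit 254) (nat_lit 156)) (XT.nd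 (nat_lit 78) (nat_lit 0) (nat_lit 0) (XT.lf (nat_lit 0) (nat_lit 16323635240) (nat_lit 76) (nat_lit 180130906612) (nat_lit 76) (nat_lit 131400179490) (nat_lit 3) (nat_lit 4) (nat_lit 4) (nat_lit 5) (nat_lit 4) (nat_lit 4) (nat_lit 311) (nat_lit 254) (nat_lit 155)) (XT.lf (nat_lit 0) (nat_lit 48722066979) (nat_lit 76) (nat_lit 176361382142) (nat_lit 76) (nat_lit 127628881931) (nat_lit 3) (nat_lit 4) (nat_lit 4) (nat_lit 5) (nat_lit 4) (nat_lit 4) (nat_lit 312) (nat_lit 254) (nat_lit 154))))) (XT.nd (nat_lit 234) (nat_lit 0) (nat_lit 0) (XT.nd (nat_lit 78) (nat_lit 0) (nat_lit 0) (XT.lf (nat_lit 0) (nat_lit 83710197554) (nat_lit 76) (nat_lit 172291294932) (nat_lit 76) (nat_lit 123557152972) (nat_lit 3) (nat_lit 4) (nat_lit 4) (nat_lit 5) (nat_lit 4) (nat_lit 4) (nat_lit 313) (nat_lit 254) (nat_lit 153)) (XT.nd (nat_lit 78) (nat_lit 0) (nat_lit 0) (XT.lf (nat_lit 0) (nat_lit 121495364035)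 (nat_lit 76) (nat_lit 167896525948) (nat_lit 76) (nat_lit 119160863849) (nat_lit 3) (nat_lit 4) (nat_lit 4) (nat_lit 5) (nat_lit 4) (nat_lit 4) (nat_lit 314) (nat_lit 254) (nat_lit 152)) (XT.lf (nat_lit 0) (nat_lit 162301478518) (nat_lit 76) (nat_lit 163151032113) (nat_lit 76) (nat_lit 114413962479) (nat_lit 3) (nat_lit 4) (nat_lit 4) (nat_lit 5) (nat_lit 4) (nat_lit 4) (nat_lit 315) (nat_lit 254) (nat_lit 151)))) (XT.nd (nat_lit 156) (nat_lit 0) (nat_lit 0) (XT.nd (nat_lit 78) (nat_lit 0) (nat_lit 0) (XT.lf (nat_lit 0) (nat_lit 206370355017) (nat_lit 76) (nat_lit 158026691983) (nat_lit 76) (nat_lit 109288319076) (nat_lit 3) (nat_lit 4) (nat_lit 4) (nat_lit 5) (nat_lit 4) (nat_lit 4) (nat_lit 316) (nat_lit 254) (nat_lit 150)) (XT.lf (nat_lit 0) (nat_lit 253963142428) (nat_lit 76) (nat_lit 152493139098) (nat_lit 76) (nat_lit 103753559456) (nat_lit 3) (nat_lit 4) (nat_lit 4) (nat_lit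 5) (nat_lit 4) (nat_lit 4) (nat_lit 317) (nat_lit 254) (nat_lit 149))) (XT.nd (nat_lit 78) (nat_lit 0) (nat_lit 0) (XT.lf (nat_lit 0) (nat_lit 305361872084) (nat_lit 76) (nat_lit 146517582034) (nat_lit 76) (nat_lit 97776885045) (nat_lit 3) (nat_lit 4) (nat_lit 4) (nat_lit 5) (nat_lit 4) (nat_lit 4) (nat_lit 318) (nat_lit 254) (nat_lit 148)) (XT.lf (nat_lit 0) (nat_lit 360871129050) (nat_lit 76) (nat_lit 140064610081) (nat_lit 76) (nat_lit 91322878512) (nat_lit 3) (nat_lit 4) (nat_lit 4) (nat_lit 5) (nat_lit 4) (nat_lit 4) (nat_lit 319) (nat_lit 254) (nat_lit 147))))))) (XT.nd (nat_lit 1014) (nat_lit 0) (nat_lit 0) (XT.nd (nat_lit 468) (nat_lit 152) (nat_lit 0) (XT.nd (nat_lit 234) (nat_lit 0) (nat_lit 0) (XT.nd (nat_lit 78) (nat_lit 0) (nat_lit 0) (XT.lf (nat_lit 0) (nat_lit 420819857072) (nat_lit 76) (nat_lit 133095983406) (nat_lit 76) (nat_lit 84353293892) (nat_lit 3) (nat_lit 4)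 (nat_lit 4) (nat_lit 5) (nat_lit 4) (nat_lit 4) (nat_lit 320) (nat_lit 254) (nat_lit 146)) (XT.nd (nat_lit 78) (nat_lit 0) (nat_lit 0) (XT.lf (nat_lit 0) (nat_lit 485563307870) (nat_lit 76) (nat_lit 125570406444) (nat_lit 76) (nat_lit 76826829944) (nat_lit 3) (nat_lit 4) (nat_lit 4) (nat_lit 5) (nat_lit 4) (nat_lit 4) (nat_lit 321) (nat_lit 254) (nat_lit 145)) (XT.lf (nat_lit 0) (nat_lit 555485146338) (nat_lit 76) (nat_lit 117443283183) (nat_lit 76) (nat_lit 68698885399) (nat_lit 3) (nat_lit 4) (nat_lit 4) (nat_lit 5) (nat_lit 4) (nat_lit 4) (nat_lit 322) (nat_lit 254) (nat_lit 144)))) (XT.nd (nat_lit 78) (nat_lit 0) (nat_lit 0) (XT.lf (nat_lit 0) (nat_lit 630999724112) (nat_lit 76) (nat_lit 108666452892) (nat_lit 76) (nat_lit 59921294660) (nat_lit 3) (nat_lit 4) (nat_lit 4) (nat_lit 5) (nat_lit 4) (nat_lit 4) (nat_lit 323) (nat_lit 254) (nat_lit 143)) (XT.nd (nat_lit 78) (nat_lit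 0) (nat_lit 0) (XT.lf (nat_lit 0) (nat_lit 712554534986) (nat_lit 76) (nat_lit 99187904725) (nat_lit 76) (nat_lit 50442042375) (nat_lit 3) (nat_lit 4) (nat_lit 4) (nat_lit 5) (nat_lit 4) (nat_lit 4) (nat_lit 324) (nat_lit 254) (nat_lit 142)) (XT.lf (nat_lit 0) (nat_lit 800632866728) (nat_lit 76) (nat_lit 88951469508) (nat_lit 76) (nat_lit 40204955197) (nat_lit 3) (nat_lit 4) (nat_lit 4) (nat_lit 5) (nat_lit 4) (nat_lit 4) (nat_lit 325) (nat_lit 254) (nat_lit 141))))) (XT.nd (nat_lit 234) (nat_lit 152) (nat_lit 0) (XT.nd (nat_lit 78) (nat_lit 0) (nat_lit 0) (XT.lf (nat_lit 0) (nat_lit 895756665007) (nat_lit 76) (nat_lit 77896486885) (nat_lit 76) (nat_lit 29149368906) (nat_lit 3) (nat_lit 4) (nat_lit 4) (nat_lit 5) (nat_lit 4) (nat_lit 4) (nat_lit 326) (nat_lit 254) (nat_lit 140)) (XT.nd (nat_lit 78) (nat_lit 0) (nat_lit 0) (XT.lf (nat_lit 0) (nat_lit 998489626407) (nat_lit 76) (nat_lit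 65957445846) (nat_lit 76) (nat_lit 17209768916) (nat_lit 3) (nat_lit 4) (nat_lit 4) (nat_lit 5) (nat_lit 4) (nat_lit 4) (nat_lit 327) (nat_lit 254) (nat_lit 139)) (XT.lf (nat_lit 0) (nat_lit 1109440538845) (nat_lit 76) (nat_lit 53063596520) (nat_lit 76) (nat_lit 4315402042) (nat_lit 3) (nat_lit 4) (nat_lit 4) (nat_lit 5) (nat_lit 4) (nat_lit 4) (nat_lit 328) (nat_lit 254) (nat_lit 138)))) (XT.nd (nat_lit 156) (nat_lit 76) (nat_lit 0) (XT.nd (nat_lit 78) (nat_lit 0) (nat_lit 0) (XT.lf (nat_lit 0) (nat_lit 9129404516) (nat_lit 152) (nat_lit 29759512295) (nat_lit 76) (nat_lit 1219887870598) (nat_lit 2) (nat_lit 5) (nat_lit 4) (nat_lit 5) (nat_lit 3) (nat_lit 4) (nat_lit 329) (nat_lit 254) (nat_lit 137)) (XT.lf (nat_lit 0) (nat_lit 23416325111) (nat_lit 152) (nat_lit 43161171) (nat_lit 76) (nat_lit 1334622190645) (nat_lit 2) (nat_lit 5) (nat_lit 4) (nat_lit 5) (nat_lit 3) (nat_lit 4) (nat_lit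 330) (nat_lit 254) (nat_lit 136))) (XT.nd (nat_lit 78) (nat_lit 0) (nat_lit 0) (XT.lf (nat_lit 0) (nat_lit 33737630126) (nat_lit 76) (nat_lit 5919657554) (nat_lit 152) (nat_lit 1425608783278) (nat_lit 1) (nat_lit 5) (nat_lit 2) (nat_lit 5) (nat_lit 3) (nat_lit 4) (nat_lit 331) (nat_lit 254) (nat_lit 135)) (XT.lf (nat_lit 0) (nat_lit 57511650747) (nat_lit 152) (nat_lit 1511115589841) (nat_lit 0) (nat_lit 12372846430) (nat_lit 1) (nat_lit 5) (nat_lit 3) (nat_lit 4) (nat_lit 1) (nat_lit 4) (nat_lit 332) (nat_lit 254) (nat_lit 134)))))) (XT.nd (nat_lit 31434) (nat_lit 0) (nat_lit 2660) (XT.nd (nat_lit 234) (nat_lit 0) (nat_lit 0) (XT.nd (nat_lit 78) (nat_lit 0) (nat_lit 0) (XT.lf (nat_lit 0) (nat_lit 76947843048) (nat_lit 152) (nat_lit 1597223990671) (nat_lit 0) (nat_lit 31808712588) (nat_lit 1) (nat_lit 5) (nat_lit 3) (nat_lit 4) (nat_lit 1) (nat_lit 4) (nat_lit 333) (nat_lit 254) (nat_lit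 133)) (XT.nd (nat_lit 78) (nat_lit 0) (nat_lit 0) (XT.lf (nat_lit 0) (nat_lit 97938674112) (nat_lit 152) (nat_lit 1690221547421) (nat_lit 0) (nat_lit 52799241667) (nat_lit 1) (nat_lit 5) (nat_lit 3) (nat_lit 4) (nat_lit 1) (nat_lit 4) (nat_lit 334) (nat_lit 254) (nat_lit 132)) (XT.lf (nat_lit 0) (nat_lit 120608534048) (nat_lit 152) (nat_lit 1790659356722) (nat_lit 0) (nat_lit 75468821988) (nat_lit 1) (nat_lit 5) (nat_lit 3) (nat_lit 4) (nat_lit 1) (nat_lit 4) (nat_lit 335) (nat_lit 254) (nat_lit 131)))) (XT.nd (nat_lit 78) (nat_lit 0) (nat_lit 0) (XT.lf (nat_lit 0) (nat_lit 145091762767) (nat_lit 152) (nat_lit 1899132605595) (nat_lit 0) (nat_lit 99951791805) (nat_lit 1) (nat_lit 5) (nat_lit 3) (nat_lit 4) (nat_lit 1) (nat_lit 4) (nat_lit 336) (nat_lit 254) (nat_lit 130)) (XT.nd (nat_lit 78) (nat_lit 0) (nat_lit 0) (XT.lf (nat_lit 0) (nat_lit 171533446070) (nat_lit 152) (nat_lit 2016284098475)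 (nat_lit 0) (nat_lit 126393235383) (nat_lit 1) (nat_lit 5) (nat_lit 3) (nat_lit 4) (nat_lit 1) (nat_lit 4) (nat_lit 337) (nat_lit 254) (nat_lit 129)) (XT.lf (nat_lit 0) (nat_lit 200090275413) (nat_lit 152) (nat_lit 2142808066433) (nat_lit 0) (nat_lit 154949842759) (nat_lit 1) (nat_lit 5) (nat_lit 3) (nat_lit 4) (nat_lit 1) (nat_lit 4) (nat_lit 338) (nat_lit 254) (nat_lit 128))))) (XT.nd (nat_lit 234) (nat_lit 0) (nat_lit 76) (XT.nd (nat_lit 78) (nat_lit 0) (nat_lit 0) (XT.lf (nat_lit 0) (nat_lit 888077654) (nat_lit 532) (nat_lit 2874127331) (nat_lit 532) (nat_lit 2874127331) (nat_lit 36) (nat_lit 3) (nat_lit 43) (nat_lit 3) (nat_lit 43) (nat_lit 5) (nat_lit 255) (nat_lit 255) (nat_lit 210)) (XT.nd (nat_lit 78) (nat_lit 0) (nat_lit 76) (XT.lf (nat_lit 0) (nat_lit 2191509882) (nat_lit 532) (nat_lit 63271553) (nat_lit 532) (nat_lit 11519422572) (nat_lit 36) (nat_lit 3) (nat_lit 43) (nat_lit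 3) (nat_lit 43) (nat_lit 5) (nat_lit 256) (nat_lit 255) (nat_lit 209)) (XT.lf (nat_lit 0) (nat_lit 2846016152) (nat_lit 456) (nat_lit 8016732556) (nat_lit 532) (nat_lit 3436826297) (nat_lit 37) (nat_lit 5) (nat_lit 43) (nat_lit 5) (nat_lit 44) (nat_lit 5) (nat_lit 257) (nat_lit 255) (nat_lit 208)))) (XT.nd (nat_lit 156) (nat_lit 0) (nat_lit 76) (XT.nd (nat_lit 78) (nat_lit 0) (nat_lit 76) (XT.lf (nat_lit 0) (nat_lit 3581229098) (nat_lit 456) (nat_lit 1806518621) (nat_lit 532) (nat_lit 9477129105) (nat_lit 37) (nat_lit 5) (nat_lit 43) (nat_lit 5) (nat_lit 44) (nat_lit 5) (nat_lit 258) (nat_lit 255) (nat_lit 207)) (XT.lf (nat_lit 0) (nat_lit 4485278178) (nat_lit 456) (nat_lit 10346333791) (nat_lit 532) (nat_lit 635145620) (nat_lit 38) (nat_lit 5) (nat_lit 44) (nat_lit 5) (nat_lit 45) (nat_lit 5) (nat_lit 259) (nat_lit 255) (nat_lit 206))) (XT.nd (nat_lit 78) (nat_lit 0) (nat_lit 0) (XT.lf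 (nat_lit 0) (nat_lit 5624584517) (nat_lit 456) (nat_lit 3571622261) (nat_lit 532) (nat_lit 6907692120) (nat_lit 38) (nat_lit 5) (nat_lit 44) (nat_lit 5) (nat_lit 45) (nat_lit 5) (nat_lit 260) (nat_lit 255) (nat_lit 205)) (XT.lf (nat_lit 76) (nat_lit 3921006754) (nat_lit 0) (nat_lit 3002695089) (nat_lit 532) (nat_lit 9862950377) (nat_lit 39) (nat_lit 5) (nat_lit 38) (nat_lit 5) (nat_lit 45) (nat_lit 5) (nat_lit 261) (nat_lit 255) (nat_lit 204))))))))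
noncomputable def xc77 : XT := (XT.nd (nat_lit 2028) (nat_lit 532) (nat_lit 0) (XT.nd (nat_lit 1014) (nat_lit 760) (nat_lit 0) (XT.nd (nat_lit 468) (nat_lit 760) (nat_lit 0) (XT.nd (nat_lit 234) (nat_lit 228) (nat_lit 0) (XT.nd (nat_lit 78) (nat_lit 456) (nat_lit 0) (XT.lf (nat_lit 0) (nat_lit 8491495043) (nat_lit 456) (nat_lit 5413100040) (nat_lit 76) (nat_lit 3606375105) (nat_lit 39) (nat_lit 5) (nat_lit 45) (nat_lit 5) (nat_lit 40) (nat_lit 5) (nat_lit 262) (nat_lit 255) (nat_lit 203)) (XT.nd (nat_lit 78) (nat_lit 0) (nat_lit 0) (XT.lf (nat_lit 0) (nat_lit 2671030110) (nat_lit 456) (nat_lit 7633597174) (nat_lit 532) (nat_lit 7979127970) (nat_lit 33) (nat_lit 5) (nat_lit 39) (nat_lit 5) (nat_lit 40) (nat_lit 5) (nat_lit 263) (nat_lit 255) (nat_lit 202)) (XT.lf (nat_lit 0) (nat_lit 11690008365) (nat_lit 456) (nat_lit 699669093) (nat_lit 532) (nat_lit 6718642672) (nat_lit 33) (nat_lit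 5) (nat_lit 39) (nat_lit 5) (nat_lit 40) (nat_lit 5) (nat_lit 264) (nat_lit 255) (nat_lit 201)))) (XT.nd (nat_lit 78) (nat_lit 0) (nat_lit 0) (XT.lf (nat_lit 0) (nat_lit 1314154964) (nat_lit 228) (nat_lit 13502717695) (nat_lit 304) (nat_lit 5168048772) (nat_lit 30) (nat_lit 5) (nat_lit 33) (nat_lit 5) (nat_lit 34) (nat_lit 5) (nat_lit 265) (nat_lit 255) (nat_lit 200)) (XT.nd (nat_lit 78) (nat_lit 0) (nat_lit 0) (XT.lf (nat_lit 0) (nat_lit 11128516121) (nat_lit 228) (nat_lit 6511710250) (nat_lit 304) (nat_lit 3275357048) (nat_lit 30) (nat_lit 5) (nat_lit 33) (nat_lit 5) (nat_lit 34) (nat_lit 5) (nat_lit 266) (nat_lit 255) (nat_lit 199)) (XT.lf (nat_lit 0) (nat_lit 20697220973) (nat_lit 304) (nat_lit 237106582) (nat_lit 76) (nat_lit 985833465) (nat_lit 30) (nat_lit 5) (nat_lit 34) (nat_lit 5) (nat_lit 31) (nat_lit 5) (nat_lit 267) (nat_lit 255) (nat_lit 198))))) (XT.nd (nat_lit 234)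 (nat_lit 304) (nat_lit 0) (XT.nd (nat_lit 78) (nat_lit 228) (nat_lit 0) (XT.lf (nat_lit 0) (nat_lit 1357947844) (nat_lit 228) (nat_lit 12596800903) (nat_lit 76) (nat_lit 9015397872) (nat_lit 27) (nat_lit 5) (nat_lit 30) (nat_lit 5) (nat_lit 28) (nat_lit 5) (nat_lit 268) (nat_lit 255) (nat_lit 197)) (XT.nd (nat_lit 78) (nat_lit 228) (nat_lit 0) (XT.lf (nat_lit 0) (nat_lit 4070251637) (nat_lit 228) (nat_lit 2307876495) (nat_lit 76) (nat_lit 17724247575) (nat_lit 27) (nat_lit 5) (nat_lit 30) (nat_lit 5) (nat_lit 28) (nat_lit 5) (nat_lit 269) (nat_lit 255) (nat_lit 196)) (XT.lf (nat_lit 0) (nat_lit 7256636407) (nat_lit 304) (nat_lit 16107932625) (nat_lit 76) (nat_lit 1940108437) (nat_lit 24) (nat_lit 5) (nat_lit 28) (nat_lit 5) (nat_lit 25) (nat_lit 5) (nat_lit 270) (nat_lit 255) (nat_lit 195)))) (XT.nd (nat_lit 156) (nat_lit 152) (nat_lit 0) (XT.nd (nat_lit 78) (nat_lit 152) (nat_lit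 0) (XT.lf (nat_lit 0) (nat_lit 10914463925) (nat_lit 304) (nat_lit 5030177104) (nat_lit 76) (nat_lit 10641257267) (nat_lit 24) (nat_lit 5) (nat_lit 28) (nat_lit 5) (nat_lit 25) (nat_lit 5) (nat_lit 271) (nat_lit 255) (nat_lit 194)) (XT.lf (nat_lit 0) (nat_lit 7281625577) (nat_lit 152) (nat_lit 7745568919) (nat_lit 228) (nat_lit 12929493370) (nat_lit 22) (nat_lit 5) (nat_lit 24) (nat_lit 5) (nat_lit 25) (nat_lit 5) (nat_lit 272) (nat_lit 255) (nat_lit 193))) (XT.nd (nat_lit 78) (nat_lit 152) (nat_lit 0) (XT.lf (nat_lit 0) (nat_lit 19624361814) (nat_lit 228) (nat_lit 8608904506) (nat_lit 76) (nat_lit 1191490098) (nat_lit 22) (nat_lit 5) (nat_lit 25) (nat_lit 5) (nat_lit 23) (nat_lit 5) (nat_lit 273) (nat_lit 255) (nat_lit 192)) (XT.lf (nat_lit 0) (nat_lit 4427125382) (nat_lit 152) (nat_lit 20458379734) (nat_lit 228) (nat_lit 6101114761) (nat_lit 20) (nat_lit 5) (nat_lit 22) (nat_lit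 5) (nat_lit 23) (nat_lit 5) (nat_lit 274) (nat_lit 255) (nat_lit 191)))))) (XT.nd (nat_lit 468) (nat_lit 380) (nat_lit 0) (XT.nd (nat_lit 234) (nat_lit 152) (nat_lit 0) (XT.nd (nat_lit 78) (nat_lit 228) (nat_lit 0) (XT.lf (nat_lit 0) (nat_lit 18980331500) (nat_lit 152) (nat_lit 11811617995) (nat_lit 228) (nat_lit 1863572401) (nat_lit 20) (nat_lit 5) (nat_lit 22) (nat_lit 5) (nat_lit 23) (nat_lit 5) (nat_lit 275) (nat_lit 255) (nat_lit 190)) (XT.nd (nat_lit 78) (nat_lit 0) (nat_lit 0) (XT.lf (nat_lit 0) (nat_lit 168272854) (nat_lit 152) (nat_lit 2402572207) (nat_lit 228) (nat_lit 31882420622) (nat_lit 17) (nat_lit 5) (nat_lit 19) (nat_lit 5) (nat_lit 20) (nat_lit 5) (nat_lit 276) (nat_lit 255) (nat_lit 189)) (XT.lf (nat_lit 0) (nat_lit 7819422284) (nat_lit 228) (nat_lit 20727822186) (nat_lit 76) (nat_lit 7798938669) (nat_lit 17) (nat_lit 5) (nat_lit 20) (nat_lit 5) (nat_lit 18) (nat_lit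 5) (nat_lit 277) (nat_lit 255) (nat_lit 188)))) (XT.nd (nat_lit 78) (nat_lit 152) (nat_lit 0) (XT.lf (nat_lit 0) (nat_lit 13540904109) (nat_lit 228) (nat_lit 6162476567) (nat_lit 76) (nat_lit 18682942899) (nat_lit 17) (nat_lit 5) (nat_lit 20) (nat_lit 5) (nat_lit 18) (nat_lit 5) (nat_lit 278) (nat_lit 255) (nat_lit 187)) (XT.nd (nat_lit 78) (nat_lit 0) (nat_lit 0) (XT.lf (nat_lit 0) (nat_lit 10058295797) (nat_lit 152) (nat_lit 9895020151) (nat_lit 228) (nat_lit 20617731134) (nat_lit 15) (nat_lit 5) (nat_lit 17) (nat_lit 5) (nat_lit 18) (nat_lit 5) (nat_lit 279) (nat_lit 255) (nat_lit 186)) (XT.lf (nat_lit 0) (nat_lit 27059923677) (nat_lit 228) (nat_lit 15024258492) (nat_lit 76) (nat_lit 831896693) (nat_lit 15) (nat_lit 5) (nat_lit 18) (nat_lit 5) (nat_lit 16) (nat_lit 4) (nat_lit 280) (nat_lit 255) (nat_lit 185))))) (XT.nd (nat_lit 234) (nat_lit 228) (nat_lit 0) (XT.nd (nat_lit 78)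 (nat_lit 76) (nat_lit 0) (XT.lf (nat_lit 0) (nat_lit 1509573202) (nat_lit 76) (nat_lit 33510978130) (nat_lit 152) (nat_lit 10405347198) (nat_lit 14) (nat_lit 5) (nat_lit 15) (nat_lit 5) (nat_lit 16) (nat_lit 4) (nat_lit 281) (nat_lit 255) (nat_lit 184)) (XT.nd (nat_lit 78) (nat_lit 76) (nat_lit 0) (XT.lf (nat_lit 0) (nat_lit 20208622271) (nat_lit 76) (nat_lit 23812662156) (nat_lit 152) (nat_lit 4082981755) (nat_lit 14) (nat_lit 5) (nat_lit 15) (nat_lit 5) (nat_lit 16) (nat_lit 4) (nat_lit 282) (nat_lit 255) (nat_lit 183)) (XT.lf (nat_lit 0) (nat_lit 2600670463) (nat_lit 152) (nat_lit 10670775194) (nat_lit 76) (nat_lit 37720769665) (nat_lit 13) (nat_lit 5) (nat_lit 15) (nat_lit 5) (nat_lit 14) (nat_lit 5) (nat_lit 283) (nat_lit 255) (nat_lit 182)))) (XT.nd (nat_lit 156) (nat_lit 76) (nat_lit 0) (XT.nd (nat_lit 78) (nat_lit 0) (nat_lit 0) (XT.lf (nat_lit 0) (nat_lit 8226980526) (nat_lit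 152) (nat_lit 1562660243) (nat_lit 228) (nat_lit 44297796588) (nat_lit 11) (nat_lit 5) (nat_lit 13) (nat_lit 5) (nat_lit 14) (nat_lit 5) (nat_lit 284) (nat_lit 255) (nat_lit 181)) (XT.lf (nat_lit 0) (nat_lit 18113110330) (nat_lit 228) (nat_lit 28448407894) (nat_lit 76) (nat_lit 10824025178) (nat_lit 11) (nat_lit 5) (nat_lit 14) (nat_lit 5) (nat_lit 12) (nat_lit 4) (nat_lit 285) (nat_lit 255) (nat_lit 180))) (XT.nd (nat_lit 78) (nat_lit 76) (nat_lit 0) (XT.lf (nat_lit 0) (nat_lit 27137030588) (nat_lit 228) (nat_lit 9693950386) (nat_lit 76) (nat_lit 24113766642) (nat_lit 11) (nat_lit 5) (nat_lit 14) (nat_lit 5) (nat_lit 12) (nat_lit 4) (nat_lit 286) (nat_lit 255) (nat_lit 179)) (XT.lf (nat_lit 0) (nat_lit 11107265647) (nat_lit 76) (nat_lit 26037158970) (nat_lit 152) (nat_lit 27623353124) (nat_lit 10) (nat_lit 5) (nat_lit 11) (nat_lit 5) (nat_lit 12) (nat_lit 4) (nat_lit 287) (nat_lit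 255) (nat_lit 178))))))) (XT.nd (nat_lit 1014) (nat_lit 228) (nat_lit 0) (XT.nd (nat_lit 468) (nat_lit 152) (nat_lit 0) (XT.nd (nat_lit 234) (nat_lit 76) (nat_lit 0) (XT.nd (nat_lit 78) (nat_lit 76) (nat_lit 0) (XT.lf (nat_lit 0) (nat_lit 34114887656) (nat_lit 76) (nat_lit 14097198693) (nat_lit 152) (nat_lit 20663803151) (nat_lit 10) (nat_lit 5) (nat_lit 11) (nat_lit 5) (nat_lit 12) (nat_lit 4) (nat_lit 288) (nat_lit 255) (nat_lit 177)) (XT.nd (nat_lit 78) (nat_lit 76) (nat_lit 0) (XT.lf (nat_lit 0) (nat_lit 58954790857) (nat_lit 76) (nat_lit 1205394607) (nat_lit 152) (nat_lit 13152875113) (nat_lit 10) (nat_lit 5) (nat_lit 11) (nat_lit 5) (nat_lit 12) (nat_lit 4) (nat_lit 289) (nat_lit 255) (nat_lit 176)) (XT.lf (nat_lit 0) (nat_lit 7750513829) (nat_lit 76) (nat_lit 65801199345) (nat_lit 76) (nat_lit 4514497132) (nat_lit 9) (nat_lit 4) (nat_lit 10) (nat_lit 5) (nat_lit 10) (nat_lit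 4) (nat_lit 290) (nat_lit 255) (nat_lit 175)))) (XT.nd (nat_lit 78) (nat_lit 0) (nat_lit 0) (XT.lf (nat_lit 0) (nat_lit 5003523799) (nat_lit 152) (nat_lit 50889012181) (nat_lit 76) (nat_lit 27263466963) (nat_lit 8) (nat_lit 5) (nat_lit 10) (nat_lit 5) (nat_lit 9) (nat_lit 4) (nat_lit 291) (nat_lit 255) (nat_lit 174)) (XT.nd (nat_lit 78) (nat_lit 0) (nat_lit 0) (XT.lf (nat_lit 0) (nat_lit 15034780449) (nat_lit 152) (nat_lit 30032923785) (nat_lit 76) (nat_lit 43576247516) (nat_lit 8) (nat_lit 5) (nat_lit 10) (nat_lit 5) (nat_lit 9) (nat_lit 4) (nat_lit 292) (nat_lit 255) (nat_lit 173)) (XT.lf (nat_lit 0) (nat_lit 25864550732) (nat_lit 152) (nat_lit 7515265891) (nat_lit 76) (nat_lit 61191447185) (nat_lit 8) (nat_lit 5) (nat_lit 10) (nat_lit 5) (nat_lit 9) (nat_lit 4) (nat_lit 293) (nat_lit 255) (nat_lit 172))))) (XT.nd (nat_lit 234) (nat_lit 76) (nat_lit 0) (XT.nd (nat_lit 78) (nat_lit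 0) (nat_lit 0) (XT.lf (nat_lit 0) (nat_lit 17681920763) (nat_lit 76) (nat_lit 20300340919) (nat_lit 152) (nat_lit 62956782195) (nat_lit 7) (nat_lit 5) (nat_lit 8) (nat_lit 5) (nat_lit 9) (nat_lit 4) (nat_lit 294) (nat_lit 255) (nat_lit 171)) (XT.nd (nat_lit 78) (nat_lit 0) (nat_lit 0) (XT.lf (nat_lit 0) (nat_lit 45316039176) (nat_lit 76) (nat_lit 5955262753) (nat_lit 152) (nat_lit 56528798627) (nat_lit 7) (nat_lit 5) (nat_lit 8) (nat_lit 5) (nat_lit 9) (nat_lit 4) (nat_lit 295) (nat_lit 255) (nat_lit 170)) (XT.lf (nat_lit 0) (nat_lit 65849477100) (nat_lit 152) (nat_lit 40284521903) (nat_lit 0) (nat_lit 9057968490) (nat_lit 7) (nat_lit 5) (nat_lit 9) (nat_lit 4) (nat_lit 7) (nat_lit 4) (nat_lit 296) (nat_lit 255) (nat_lit 169)))) (XT.nd (nat_lit 156) (nat_lit 0) (nat_lit 0) (XT.nd (nat_lit 78) (nat_lit 76) (nat_lit 0) (XT.lf (nat_lit 0) (nat_lit 81745474070) (nat_lit 152) (nat_lit 16469249543)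 (nat_lit 0) (nat_lit 24948340921) (nat_lit 7) (nat_lit 5) (nat_lit 9) (nat_lit 4) (nat_lit 7) (nat_lit 4) (nat_lit 297) (nat_lit 255) (nat_lit 168)) (XT.lf (nat_lit 0) (nat_lit 9732991083) (nat_lit 76) (nat_lit 89411354711) (nat_lit 76) (nat_lit 32609013655) (nat_lit 6) (nat_lit 4) (nat_lit 7) (nat_lit 5) (nat_lit 7) (nat_lit 4) (nat_lit 298) (nat_lit 255) (nat_lit 167))) (XT.nd (nat_lit 78) (nat_lit 0) (nat_lit 0) (XT.lf (nat_lit 0) (nat_lit 38963024676) (nat_lit 76) (nat_lit 79419610563) (nat_lit 76) (nat_lit 22612447371) (nat_lit 6) (nat_lit 4) (nat_lit 7) (nat_lit 5) (nat_lit 7) (nat_lit 4) (nat_lit 299) (nat_lit 255) (nat_lit 166)) (XT.lf (nat_lit 0) (nat_lit 70526824753) (nat_lit 76) (nat_lit 68630579301) (nat_lit 76) (nat_lit 11818951169) (nat_lit 6) (nat_lit 4) (nat_lit 7) (nat_lit 5) (nat_lit 7) (nat_lit 4) (nat_lit 300) (nat_lit 255) (nat_lit 165)))))) (XT.nd (nat_lit 468)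 (nat_lit 76) (nat_lit 0) (XT.nd (nat_lit 234) (nat_lit 76) (nat_lit 0) (XT.nd (nat_lit 78) (nat_lit 76) (nat_lit 0) (XT.lf (nat_lit 0) (nat_lit 104611436056) (nat_lit 76) (nat_lit 56980325926) (nat_lit 76) (nat_lit 164563590) (nat_lit 6) (nat_lit 4) (nat_lit 7) (nat_lit 5) (nat_lit 7) (nat_lit 4) (nat_lit 301) (nat_lit 255) (nat_lit 164)) (XT.nd (nat_lit 78) (nat_lit 0) (nat_lit 0) (XT.lf (nat_lit 0) (nat_lit 11798490787) (nat_lit 152) (nat_lit 32278729464) (nat_lit 76) (nat_lit 129297759032) (nat_lit 5) (nat_lit 5) (nat_lit 7) (nat_lit 5) (nat_lit 6) (nat_lit 4) (nat_lit 302) (nat_lit 255) (nat_lit 163)) (XT.lf (nat_lit 0) (nat_lit 24707590747) (nat_lit 152) (nat_lit 5431345961) (nat_lit 76) (nat_lit 155784018878) (nat_lit 5) (nat_lit 5) (nat_lit 7) (nat_lit 5) (nat_lit 6) (nat_lit 4) (nat_lit 303) (nat_lit 255) (nat_lit 162)))) (XT.nd (nat_lit 78) (nat_lit 0) (nat_lit 0) (XT.lf (nat_lit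 0) (nat_lit 24800958758) (nat_lit 76) (nat_lit 14442971693) (nat_lit 152) (nat_lit 160183281936) (nat_lit 4) (nat_lit 5) (nat_lit 5) (nat_lit 5) (nat_lit 6) (nat_lit 4) (nat_lit 304) (nat_lit 255) (nat_lit 161)) (XT.nd (nat_lit 78) (nat_lit 0) (nat_lit 0) (XT.lf (nat_lit 0) (nat_lit 55153944140) (nat_lit 152) (nat_lit 156306929252) (nat_lit 0) (nat_lit 2534078080) (nat_lit 4) (nat_lit 5) (nat_lit 6) (nat_lit 4) (nat_lit 4) (nat_lit 4) (nat_lit 305) (nat_lit 255) (nat_lit 160)) (XT.lf (nat_lit 0) (nat_lit 72710117145) (nat_lit 152) (nat_lit 136900480904) (nat_lit 0) (nat_lit 20087645836) (nat_lit 4) (nat_lit 5) (nat_lit 6) (nat_lit 4) (nat_lit 4) (nat_lit 4) (nat_lit 306) (nat_lit 255) (nat_lit 159))))) (XT.nd (nat_lit 234) (nat_lit 76) (nat_lit 0) (XT.nd (nat_lit 78) (nat_lit 0) (nat_lit 0) (XT.lf (nat_lit 0) (nat_lit 91669132232) (nat_lit 152) (nat_lit 115944553592) (nat_lit 0) (nat_lit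 39044248654) (nat_lit 4) (nat_lit 5) (nat_lit 6) (nat_lit 4) (nat_lit 4) (nat_lit 4) (nat_lit 307) (nat_lit 255) (nat_lit 158)) (XT.nd (nat_lit 78) (nat_lit 0) (nat_lit 0) (XT.lf (nat_lit 0) (nat_lit 112143339118) (nat_lit 152) (nat_lit 93314964045) (nat_lit 0) (nat_lit 59516221958) (nat_lit 4) (nat_lit 5) (nat_lit 6) (nat_lit 4) (nat_lit 4) (nat_lit 4) (nat_lit 308) (nat_lit 255) (nat_lit 157)) (XT.lf (nat_lit 0) (nat_lit 134254066437) (nat_lit 152) (nat_lit 68877610989) (nat_lit 0) (nat_lit 81624881146) (nat_lit 4) (nat_lit 5) (nat_lit 6) (nat_lit 4) (nat_lit 4) (nat_lit 4) (nat_lit 309) (nat_lit 255) (nat_lit 156)))) (XT.nd (nat_lit 156) (nat_lit 76) (nat_lit 0) (XT.nd (nat_lit 78) (nat_lit 0) (nat_lit 0) (XT.lf (nat_lit 0) (nat_lit 158132340722) (nat_lit 152) (nat_lit 42487680483) (nat_lit 0) (nat_lit 105501240494) (nat_lit 4) (nat_lit 5) (nat_lit 6) (nat_lit 4) (nat_lit 4) (nat_lit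 4) (nat_lit 310) (nat_lit 255) (nat_lit 155)) (XT.lf (nat_lit 0) (nat_lit 183919662856) (nat_lit 152) (nat_lit 13988787751) (nat_lit 0) (nat_lit 131286789539) (nat_lit 4) (nat_lit 5) (nat_lit 6) (nat_lit 4) (nat_lit 4) (nat_lit 4) (nat_lit 311) (nat_lit 255) (nat_lit 154))) (XT.nd (nat_lit 78) (nat_lit 0) (nat_lit 0) (XT.lf (nat_lit 0) (nat_lit 17671973204) (nat_lit 76) (nat_lit 194521884778) (nat_lit 76) (nat_lit 141887369712) (nat_lit 3) (nat_lit 4) (nat_lit 4) (nat_lit 5) (nat_lit 4) (nat_lit 4) (nat_lit 312) (nat_lit 255) (nat_lit 153)) (XT.lf (nat_lit 0) (nat_lit 52659135250) (nat_lit 76) (nat_lit 190452242377) (nat_lit 76) (nat_lit 137816207173) (nat_lit 3) (nat_lit 4) (nat_lit 4) (nat_lit 5) (nat_lit 4) (nat_lit 4) (nat_lit 313) (nat_lit 255) (nat_lit 152))))))))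
noncomputable def xc78 : XT := (XT.nd (nat_lit 33072) (nat_lit 0) (nat_lit 988) (XT.nd (nat_lit 936) (nat_lit 152) (nat_lit 0) (XT.nd (nat_lit 468) (nat_lit 0) (nat_lit 0) (XT.nd (nat_lit 234) (nat_lit 0) (nat_lit 0) (XT.nd (nat_lit 78) (nat_lit 0) (nat_lit 0) (XT.lf (nat_lit 0) (nat_lit 90443404944) (nat_lit 76) (nat_lit 186057885253) (nat_lit 76) (nat_lit 133420442513) (nat_lit 3) (nat_lit 4) (nat_lit 4) (nat_lit 5) (nat_lit 4) (nat_lit 4) (nat_lit 314) (nat_lit 255) (nat_lit 151)) (XT.nd (nat_lit 78) (nat_lit 0) (nat_lit 0) (XT.lf (nat_lit 0) (nat_lit 131248689070) (nat_lit 76) (nat_lit 181312772770) (nat_lit 76) (nat_lit 128674026757) (nat_lit 3) (nat_lit 4) (nat_lit 4) (nat_lit 5) (nat_lit 4) (nat_lit 4) (nat_lit 315) (nat_lit 255) (nat_lit 150)) (XT.lf (nat_lit 0) (nat_lit 175316796718) (nat_lit 76) (nat_lit 176188785744) (nat_lit 76) (nat_lit 123548832996) (nat_lit 3) (nat_lit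 4) (nat_lit 4) (nat_lit 5) (nat_lit 4) (nat_lit 4) (nat_lit 316) (nat_lit 255) (nat_lit 149)))) (XT.nd (nat_lit 78) (nat_lit 0) (nat_lit 0) (XT.lf (nat_lit 0) (nat_lit 222908872232) (nat_lit 76) (nat_lit 170655559806) (nat_lit 76) (nat_lit 118014489711) (nat_lit 3) (nat_lit 4) (nat_lit 4) (nat_lit 5) (nat_lit 4) (nat_lit 4) (nat_lit 317) (nat_lit 255) (nat_lit 148)) (XT.nd (nat_lit 78) (nat_lit 0) (nat_lit 0) (XT.lf (nat_lit 0) (nat_lit 274306942723) (nat_lit 76) (nat_lit 164680305471) (nat_lit 76) (nat_lit 112038200796) (nat_lit 3) (nat_lit 4) (nat_lit 4) (nat_lit 5) (nat_lit 4) (nat_lit 4) (nat_lit 318) (nat_lit 255) (nat_lit 147)) (XT.lf (nat_lit 0) (nat_lit 329815589352) (nat_lit 76) (nat_lit 158227613823) (nat_lit 76) (nat_lit 105584551203) (nat_lit 3) (nat_lit 4) (nat_lit 4) (nat_lit 5) (nat_lit 4) (nat_lit 4) (nat_lit 319) (nat_lit 255) (nat_lit 146))))) (XT.nd (nat_lit 234)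 (nat_lit 0) (nat_lit 0) (XT.nd (nat_lit 78) (nat_lit 0) (nat_lit 0) (XT.lf (nat_lit 0) (nat_lit 389763752246) (nat_lit 76) (nat_lit 151259246690) (nat_lit 76) (nat_lit 98615297083) (nat_lit 3) (nat_lit 4) (nat_lit 4) (nat_lit 5) (nat_lit 4) (nat_lit 4) (nat_lit 320) (nat_lit 255) (nat_lit 145)) (XT.nd (nat_lit 78) (nat_lit 0) (nat_lit 0) (XT.lf (nat_lit 0) (nat_lit 454506679778) (nat_lit 76) (nat_lit 143733910044) (nat_lit 76) (nat_lit 91089139154) (nat_lit 3) (nat_lit 4) (nat_lit 4) (nat_lit 5) (nat_lit 4) (nat_lit 4) (nat_lit 321) (nat_lit 255) (nat_lit 144)) (XT.lf (nat_lit 0) (nat_lit 524428033741) (nat_lit 76) (nat_lit 135607009298) (nat_lit 76) (nat_lit 82961477960) (nat_lit 3) (nat_lit 4) (nat_lit 4) (nat_lit 5) (nat_lit 4) (nat_lit 4) (nat_lit 322) (nat_lit 255) (nat_lit 143)))) (XT.nd (nat_lit 78) (nat_lit 0) (nat_lit 0) (XT.lf (nat_lit 0) (nat_lit 599942162898) (nat_lit 76)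 (nat_lit 126830385039) (nat_lit 76) (nat_lit 74184149584) (nat_lit 3) (nat_lit 4) (nat_lit 4) (nat_lit 5) (nat_lit 4) (nat_lit 4) (nat_lit 323) (nat_lit 255) (nat_lit 142)) (XT.nd (nat_lit 78) (nat_lit 0) (nat_lit 0) (XT.lf (nat_lit 0) (nat_lit 681496558387) (nat_lit 76) (nat_lit 117352027644) (nat_lit 76) (nat_lit 64705140226) (nat_lit 3) (nat_lit 4) (nat_lit 4) (nat_lit 5) (nat_lit 4) (nat_lit 4) (nat_lit 324) (nat_lit 255) (nat_lit 141)) (XT.lf (nat_lit 0) (nat_lit 769574505512) (nat_lit 76) (nat_lit 107115769067) (nat_lit 76) (nat_lit 54468277982) (nat_lit 3) (nat_lit 4) (nat_lit 4) (nat_lit 5) (nat_lit 4) (nat_lit 4) (nat_lit 325) (nat_lit 255) (nat_lit 140)))))) (XT.nd (nat_lit 468) (nat_lit 76) (nat_lit 0) (XT.nd (nat_lit 234) (nat_lit 76) (nat_lit 0) (XT.nd (nat_lit 78) (nat_lit 0) (nat_lit 0) (XT.lf (nat_lit 0) (nat_lit 864697947665) (nat_lit 76) (nat_lit 96060949998) (nat_lit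 76) (nat_lit 43412899962) (nat_lit 3) (nat_lit 4) (nat_lit 4) (nat_lit 5) (nat_lit 4) (nat_lit 4) (nat_lit 326) (nat_lit 255) (nat_lit 139)) (XT.nd (nat_lit 78) (nat_lit 0) (nat_lit 0) (XT.lf (nat_lit 0) (nat_lit 967430579318) (nat_lit 76) (nat_lit 84122060400) (nat_lit 76) (nat_lit 31473492815) (nat_lit 3) (nat_lit 4) (nat_lit 4) (nat_lit 5) (nat_lit 4) (nat_lit 4) (nat_lit 327) (nat_lit 255) (nat_lit 138)) (XT.lf (nat_lit 0) (nat_lit 1078381186436) (nat_lit 76) (nat_lit 71228351295) (nat_lit 76) (nat_lit 18579304500) (nat_lit 3) (nat_lit 4) (nat_lit 4) (nat_lit 5) (nat_lit 4) (nat_lit 4) (nat_lit 328) (nat_lit 255) (nat_lit 137)))) (XT.nd (nat_lit 78) (nat_lit 76) (nat_lit 0) (XT.lf (nat_lit 0) (nat_lit 1198207254098) (nat_lit 76) (nat_lit 57303415521) (nat_lit 76) (nat_lit 4653925011) (nat_lit 3) (nat_lit 4) (nat_lit 4) (nat_lit 5) (nat_lit 4) (nat_lit 4) (nat_lit 329) (nat_lit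 255) (nat_lit 136)) (XT.nd (nat_lit 78) (nat_lit 0) (nat_lit 0) (XT.lf (nat_lit 0) (nat_lit 9865658333) (nat_lit 152) (nat_lit 32129332021) (nat_lit 76) (nat_lit 1317483459790) (nat_lit 2) (nat_lit 5) (nat_lit 4) (nat_lit 5) (nat_lit 3) (nat_lit 4) (nat_lit 330) (nat_lit 255) (nat_lit 135)) (XT.lf (nat_lit 0) (nat_lit 25295095431) (nat_lit 152) (nat_lit 36483270) (nat_lit 76) (nat_lit 1441396187697) (nat_lit 2) (nat_lit 5) (nat_lit 4) (nat_lit 5) (nat_lit 3) (nat_lit 4) (nat_lit 331) (nat_lit 255) (nat_lit 134))))) (XT.nd (nat_lit 234) (nat_lit 0) (nat_lit 0) (XT.nd (nat_lit 78) (nat_lit 0) (nat_lit 0) (XT.lf (nat_lit 0) (nat_lit 36446514855) (nat_lit 76) (nat_lit 6388652865) (nat_lit 152) (nat_lit 1539651758174) (nat_lit 1) (nat_lit 5) (nat_lit 2) (nat_lit 5) (nat_lit 3) (nat_lit 4) (nat_lit 332) (nat_lit 255) (nat_lit 133)) (XT.nd (nat_lit 78) (nat_lit 0) (nat_lit 0) (XT.lf (nat_lit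 0) (nat_lit 62117589390) (nat_lit 152) (nat_lit 1631995397236) (nat_lit 0) (nat_lit 13366700366) (nat_lit 1) (nat_lit 5) (nat_lit 3) (nat_lit 4) (nat_lit 1) (nat_lit 4) (nat_lit 333) (nat_lit 255) (nat_lit 132)) (XT.lf (nat_lit 0) (nat_lit 83108306216) (nat_lit 152) (nat_lit 1724993169376) (nat_lit 0) (nat_lit 34357137577) (nat_lit 1) (nat_lit 5) (nat_lit 3) (nat_lit 4) (nat_lit 1) (nat_lit 4) (nat_lit 334) (nat_lit 255) (nat_lit 131)))) (XT.nd (nat_lit 156) (nat_lit 0) (nat_lit 0) (XT.nd (nat_lit 78) (nat_lit 0) (nat_lit 0) (XT.lf (nat_lit 0) (nat_lit 105778060378) (nat_lit 152) (nat_lit 1825431178114) (nat_lit 0) (nat_lit 57026632836) (nat_lit 1) (nat_lit 5) (nat_lit 3) (nat_lit 4) (nat_lit 1) (nat_lit 4) (nat_lit 335) (nat_lit 255) (nat_lit 130)) (XT.lf (nat_lit 0) (nat_lit 130261191158) (nat_lit 152) (nat_lit 1933904611649) (nat_lit 0) (nat_lit 81509523891) (nat_lit 1) (nat_lit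 5) (nat_lit 3) (nat_lit 4) (nat_lit 1) (nat_lit 4) (nat_lit 336) (nat_lit 255) (nat_lit 129))) (XT.nd (nat_lit 31200) (nat_lit 0) (nat_lit 2660) (XT.lf (nat_lit 0) (nat_lit 156702783776) (nat_lit 152) (nat_lit 2051056275513) (nat_lit 0) (nat_lit 107950894542) (nat_lit 1) (nat_lit 5) (nat_lit 3) (nat_lit 4) (nat_lit 1) (nat_lit 4) (nat_lit 337) (nat_lit 255) (nat_lit 128)) (XT.lf (nat_lit 0) (nat_lit 1295151603) (nat_lit 532) (nat_lit 2921713184) (nat_lit 532) (nat_lit 2921713184) (nat_lit 36) (nat_lit 3) (nat_lit 43) (nat_lit 3) (nat_lit 43) (nat_lit 5) (nat_lit 256) (nat_lit 256) (nat_lit 208))))))) (XT.nd (nat_lit 1014) (nat_lit 988) (nat_lit 0) (XT.nd (nat_lit 468) (nat_lit 684) (nat_lit 0) (XT.nd (nat_lit 234) (nat_lit 0) (nat_lit 152) (XT.nd (nat_lit 78) (nat_lit 0) (nat_lit 76) (XT.lf (nat_lit 76) (nat_lit 283524456) (nat_lit 0) (nat_lit 2712398573) (nat_lit 532) (nat_lit 11826595999)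 (nat_lit 37) (nat_lit 5) (nat_lit 36) (nat_lit 3) (nat_lit 43) (nat_lit 5) (nat_lit 257) (nat_lit 256) (nat_lit 207)) (XT.nd (nat_lit 78) (nat_lit 0) (nat_lit 0) (XT.lf (nat_lit 0) (nat_lit 3651660174) (nat_lit 456) (nat_lit 8273035692) (nat_lit 532) (nat_lit 3469558203) (nat_lit 37) (nat_lit 5) (nat_lit 43) (nat_lit 5) (nat_lit 44) (nat_lit 5) (nat_lit 258) (nat_lit 256) (nat_lit 206)) (XT.lf (nat_lit 0) (nat_lit 4402878102) (nat_lit 456) (nat_lit 1594525788) (nat_lit 532) (nat_lit 10011027028) (nat_lit 37) (nat_lit 5) (nat_lit 43) (nat_lit 5) (nat_lit 44) (nat_lit 5) (nat_lit 259) (nat_lit 256) (nat_lit 205)))) (XT.nd (nat_lit 78) (nat_lit 0) (nat_lit 0) (XT.lf (nat_lit 0) (nat_lit 5344206524) (nat_lit 456) (nat_lit 10779866776) (nat_lit 532) (nat_lit 537401596) (nat_lit 38) (nat_lit 5) (nat_lit 44) (nat_lit 5) (nat_lit 45) (nat_lit 5) (nat_lit 260) (nat_lit 256) (nat_lit 204)) (XT.nd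 (nat_lit 78) (nat_lit 0) (nat_lit 0) (XT.lf (nat_lit 0) (nat_lit 6537612475) (nat_lit 456) (nat_lit 3492376377) (nat_lit 532) (nat_lit 7322755940) (nat_lit 38) (nat_lit 5) (nat_lit 44) (nat_lit 5) (nat_lit 45) (nat_lit 5) (nat_lit 261) (nat_lit 256) (nat_lit 203)) (XT.lf (nat_lit 76) (nat_lit 4590423069) (nat_lit 0) (nat_lit 3324490743) (nat_lit 532) (nat_lit 10177443540) (nat_lit 39) (nat_lit 5) (nat_lit 38) (nat_lit 5) (nat_lit 45) (nat_lit 5) (nat_lit 262) (nat_lit 256) (nat_lit 202))))) (XT.nd (nat_lit 234) (nat_lit 456) (nat_lit 0) (XT.nd (nat_lit 78) (nat_lit 456) (nat_lit 0) (XT.lf (nat_lit 0) (nat_lit 9573920035) (nat_lit 456) (nat_lit 5480476911) (nat_lit 76) (nat_lit 3823126704) (nat_lit 39) (nat_lit 5) (nat_lit 45) (nat_lit 5) (nat_lit 40) (nat_lit 5) (nat_lit 263) (nat_lit 256) (nat_lit 201)) (XT.nd (nat_lit 78) (nat_lit 0) (nat_lit 0) (XT.lf (nat_lit 0) (nat_lit 3241126154)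 (nat_lit 456) (nat_lit 8269688798) (nat_lit 532) (nat_lit 8203173358) (nat_lit 33) (nat_lit 5) (nat_lit 39) (nat_lit 5) (nat_lit 40) (nat_lit 5) (nat_lit 264) (nat_lit 256) (nat_lit 200)) (XT.lf (nat_lit 0) (nat_lit 12955221660) (nat_lit 456) (nat_lit 779164705) (nat_lit 532) (nat_lit 6872537002) (nat_lit 33) (nat_lit 5) (nat_lit 39) (nat_lit 5) (nat_lit 40) (nat_lit 5) (nat_lit 265) (nat_lit 256) (nat_lit 199)))) (XT.nd (nat_lit 156) (nat_lit 228) (nat_lit 0) (XT.nd (nat_lit 78) (nat_lit 0) (nat_lit 0) (XT.lf (nat_lit 0) (nat_lit 1770797923) (nat_lit 228) (nat_lit 14566701537) (nat_lit 304) (nat_lit 5217745751) (nat_lit 30) (nat_lit 5) (nat_lit 33) (nat_lit 5) (nat_lit 34) (nat_lit 5) (nat_lit 266) (nat_lit 256) (nat_lit 198)) (XT.lf (nat_lit 0) (nat_lit 12344270153) (nat_lit 228) (nat_lit 7017615983) (nat_lit 304) (nat_lit 3200582906) (nat_lit 30) (nat_lit 5) (nat_lit 33) (nat_lit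 5) (nat_lit 34) (nat_lit 5) (nat_lit 267) (nat_lit 256) (nat_lit 197))) (XT.nd (nat_lit 78) (nat_lit 76) (nat_lit 0) (XT.lf (nat_lit 0) (nat_lit 73014692) (nat_lit 152) (nat_lit 22569520661) (nat_lit 228) (nat_lit 1006662910) (nat_lit 28) (nat_lit 5) (nat_lit 30) (nat_lit 5) (nat_lit 31) (nat_lit 5) (nat_lit 268) (nat_lit 256) (nat_lit 196)) (XT.lf (nat_lit 0) (nat_lit 1749037811) (nat_lit 228) (nat_lit 13271261886) (nat_lit 76) (nat_lit 9763651157) (nat_lit 27) (nat_lit 5) (nat_lit 30) (nat_lit 5) (nat_lit 28) (nat_lit 5) (nat_lit 269) (nat_lit 256) (nat_lit 195)))))) (XT.nd (nat_lit 468) (nat_lit 456) (nat_lit 0) (XT.nd (nat_lit 234) (nat_lit 304) (nat_lit 0) (XT.nd (nat_lit 78) (nat_lit 228) (nat_lit 0) (XT.lf (nat_lit 0) (nat_lit 4657403379) (nat_lit 228) (nat_lit 2183911161) (nat_lit 76) (nat_lit 19167207246) (nat_lit 27) (nat_lit 5) (nat_lit 30) (nat_lit 5) (nat_lit 28) (nat_lit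 5) (nat_lit 270) (nat_lit 256) (nat_lit 194)) (XT.nd (nat_lit 78) (nat_lit 0) (nat_lit 0) (XT.lf (nat_lit 0) (nat_lit 8087795990) (nat_lit 304) (nat_lit 17076030463) (nat_lit 76) (nat_lit 2144136542) (nat_lit 24) (nat_lit 5) (nat_lit 28) (nat_lit 5) (nat_lit 25) (nat_lit 5) (nat_lit 271) (nat_lit 256) (nat_lit 193)) (XT.lf (nat_lit 0) (nat_lit 12019684623) (nat_lit 304) (nat_lit 5135797965) (nat_lit 76) (nat_lit 11537761025) (nat_lit 24) (nat_lit 5) (nat_lit 28) (nat_lit 5) (nat_lit 25) (nat_lit 5) (nat_lit 272) (nat_lit 256) (nat_lit 192)))) (XT.nd (nat_lit 78) (nat_lit 152) (nat_lit 0) (XT.lf (nat_lit 0) (nat_lit 8153435177) (nat_lit 152) (nat_lit 8297765748) (nat_lit 228) (nat_lit 13723385259) (nat_lit 22) (nat_lit 5) (nat_lit 24) (nat_lit 5) (nat_lit 25) (nat_lit 5) (nat_lit 273) (nat_lit 256) (nat_lit 191)) (XT.nd (nat_lit 78) (nat_lit 152) (nat_lit 0) (XT.lf (nat_lit 0) (nat_lit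 21401211696) (nat_lit 228) (nat_lit 9014011198) (nat_lit 76) (nat_lit 1346137665) (nat_lit 22) (nat_lit 5) (nat_lit 25) (nat_lit 5) (nat_lit 23) (nat_lit 5) (nat_lit 274) (nat_lit 256) (nat_lit 190)) (XT.lf (nat_lit 0) (nat_lit 5057721191) (nat_lit 152) (nat_lit 22016847322) (nat_lit 228) (nat_lit 6374359877) (nat_lit 20) (nat_lit 5) (nat_lit 22) (nat_lit 5) (nat_lit 23) (nat_lit 5) (nat_lit 275) (nat_lit 256) (nat_lit 189))))) (XT.nd (nat_lit 234) (nat_lit 228) (nat_lit 0) (XT.nd (nat_lit 78) (nat_lit 228) (nat_lit 0) (XT.lf (nat_lit 0) (nat_lit 20754707815) (nat_lit 152) (nat_lit 12684137443) (nat_lit 228) (nat_lit 1813728502) (nat_lit 20) (nat_lit 5) (nat_lit 22) (nat_lit 5) (nat_lit 23) (nat_lit 5) (nat_lit 276) (nat_lit 256) (nat_lit 188)) (XT.nd (nat_lit 78) (nat_lit 0) (nat_lit 0) (XT.lf (nat_lit 0) (nat_lit 441541861) (nat_lit 152) (nat_lit 2516199193) (nat_lit 228) (nat_lit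 34236681728) (nat_lit 17) (nat_lit 5) (nat_lit 19) (nat_lit 5) (nat_lit 20) (nat_lit 5) (nat_lit 277) (nat_lit 256) (nat_lit 187)) (XT.lf (nat_lit 0) (nat_lit 8614529966) (nat_lit 228) (nat_lit 22133250264) (nat_lit 76) (nat_lit 8491972245) (nat_lit 17) (nat_lit 5) (nat_lit 20) (nat_lit 5) (nat_lit 18) (nat_lit 5) (nat_lit 278) (nat_lit 256) (nat_lit 186)))) (XT.nd (nat_lit 156) (nat_lit 76) (nat_lit 0) (XT.nd (nat_lit 78) (nat_lit 152) (nat_lit 0) (XT.lf (nat_lit 0) (nat_lit 14781170788) (nat_lit 228) (nat_lit 6421402751) (nat_lit 76) (nat_lit 20241576926) (nat_lit 17) (nat_lit 5) (nat_lit 20) (nat_lit 5) (nat_lit 18) (nat_lit 5) (nat_lit 279) (nat_lit 256) (nat_lit 185)) (XT.lf (nat_lit 0) (nat_lit 11091105531) (nat_lit 152) (nat_lit 10609327752) (nat_lit 228) (nat_lit 22103748432) (nat_lit 15) (nat_lit 5) (nat_lit 17) (nat_lit 5) (nat_lit 18) (nat_lit 5) (nat_lit 280) (nat_lit 256)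 (nat_lit 184))) (XT.nd (nat_lit 78) (nat_lit 76) (nat_lit 0) (XT.lf (nat_lit 0) (nat_lit 29366116628) (nat_lit 228) (nat_lit 16005054466) (nat_lit 76) (nat_lit 966436810) (nat_lit 15) (nat_lit 5) (nat_lit 18) (nat_lit 5) (nat_lit 16) (nat_lit 4) (nat_lit 281) (nat_lit 256) (nat_lit 183)) (XT.lf (nat_lit 0) (nat_lit 1845885163) (nat_lit 76) (nat_lit 36112419217) (nat_lit 152) (nat_lit 11090364964) (nat_lit 14) (nat_lit 5) (nat_lit 15) (nat_lit 5) (nat_lit 16) (nat_lit 4) (nat_lit 282) (nat_lit 256) (nat_lit 182))))))))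
noncomputable def xc79 : XT := (XT.nd (nat_lit 2028) (nat_lit 228) (nat_lit 0) (XT.nd (nat_lit 1014) (nat_lit 228) (nat_lit 0) (XT.nd (nat_lit 468) (nat_lit 228) (nat_lit 0) (XT.nd (nat_lit 234) (nat_lit 76) (nat_lit 0) (XT.nd (nat_lit 78) (nat_lit 228) (nat_lit 0) (XT.lf (nat_lit 0) (nat_lit 22024891780) (nat_lit 76) (nat_lit 25644122199) (nat_lit 152) (nat_lit 4273129545) (nat_lit 14) (nat_lit 5) (nat_lit 15) (nat_lit 5) (nat_lit 16) (nat_lit 4) (nat_lit 283) (nat_lit 256) (nat_lit 181)) (XT.nd (nat_lit 78) (nat_lit 152) (nat_lit 0) (XT.lf (nat_lit 0) (nat_lit 2928782369) (nat_lit 152) (nat_lit 11332991770) (nat_lit 76) (nat_lit 40799886406) (nat_lit 13) (nat_lit 5) (nat_lit 15) (nat_lit 5) (nat_lit 14) (nat_lit 5) (nat_lit 284) (nat_lit 256) (nat_lit 180)) (XT.lf (nat_lit 0) (nat_lit 9071737686) (nat_lit 152) (nat_lit 1616727111) (nat_lit 228) (nat_lit 47716412234) (nat_lit 11)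 (nat_lit 5) (nat_lit 13) (nat_lit 5) (nat_lit 14) (nat_lit 5) (nat_lit 285) (nat_lit 256) (nat_lit 179)))) (XT.nd (nat_lit 78) (nat_lit 76) (nat_lit 0) (XT.lf (nat_lit 0) (nat_lit 19670824915) (nat_lit 228) (nat_lit 30544236284) (nat_lit 76) (nat_lit 11752351774) (nat_lit 11) (nat_lit 5) (nat_lit 14) (nat_lit 5) (nat_lit 12) (nat_lit 4) (nat_lit 286) (nat_lit 256) (nat_lit 178)) (XT.nd (nat_lit 78) (nat_lit 76) (nat_lit 0) (XT.lf (nat_lit 0) (nat_lit 29408609479) (nat_lit 228) (nat_lit 10302758786) (nat_lit 76) (nat_lit 26100649993) (nat_lit 11) (nat_lit 5) (nat_lit 14) (nat_lit 5) (nat_lit 12) (nat_lit 4) (nat_lit 287) (nat_lit 256) (nat_lit 177)) (XT.lf (nat_lit 0) (nat_lit 12158334083) (nat_lit 76) (nat_lit 28054715697) (nat_lit 152) (nat_lit 29728143880) (nat_lit 10) (nat_lit 5) (nat_lit 11) (nat_lit 5) (nat_lit 12) (nat_lit 4) (nat_lit 288) (nat_lit 256) (nat_lit 176))))) (XT.nd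 (nat_lit 234) (nat_lit 152) (nat_lit 0) (XT.nd (nat_lit 78) (nat_lit 76) (nat_lit 0) (XT.lf (nat_lit 0) (nat_lit 36994529766) (nat_lit 76) (nat_lit 15164404227) (nat_lit 152) (nat_lit 22219613427) (nat_lit 10) (nat_lit 5) (nat_lit 11) (nat_lit 5) (nat_lit 12) (nat_lit 4) (nat_lit 289) (nat_lit 256) (nat_lit 175)) (XT.nd (nat_lit 78) (nat_lit 76) (nat_lit 0) (XT.lf (nat_lit 0) (nat_lit 63810480697) (nat_lit 76) (nat_lit 1245742507) (nat_lit 152) (nat_lit 14115018107) (nat_lit 10) (nat_lit 5) (nat_lit 11) (nat_lit 5) (nat_lit 12) (nat_lit 4) (nat_lit 290) (nat_lit 256) (nat_lit 174)) (XT.lf (nat_lit 0) (nat_lit 8511710428) (nat_lit 76) (nat_lit 71005841737) (nat_lit 76) (nat_lit 4787227810) (nat_lit 9) (nat_lit 4) (nat_lit 10) (nat_lit 5) (nat_lit 10) (nat_lit 4) (nat_lit 291) (nat_lit 256) (nat_lit 173)))) (XT.nd (nat_lit 156) (nat_lit 76) (nat_lit 0) (XT.nd (nat_lit 78) (nat_lit 0)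 (nat_lit 0) (XT.lf (nat_lit 0) (nat_lit 5481588584) (nat_lit 152) (nat_lit 54825173964) (nat_lit 76) (nat_lit 29495334248) (nat_lit 8) (nat_lit 5) (nat_lit 10) (nat_lit 5) (nat_lit 9) (nat_lit 4) (nat_lit 292) (nat_lit 256) (nat_lit 172)) (XT.lf (nat_lit 0) (nat_lit 16309584071) (nat_lit 152) (nat_lit 32310595474) (nat_lit 76) (nat_lit 47109375028) (nat_lit 8) (nat_lit 5) (nat_lit 10) (nat_lit 5) (nat_lit 9) (nat_lit 4) (nat_lit 293) (nat_lit 256) (nat_lit 171))) (XT.nd (nat_lit 78) (nat_lit 76) (nat_lit 0) (XT.lf (nat_lit 0) (nat_lit 28000401074) (nat_lit 152) (nat_lit 8000781408) (nat_lit 76) (nat_lit 66130307137) (nat_lit 8) (nat_lit 5) (nat_lit 10) (nat_lit 5) (nat_lit 9) (nat_lit 4) (nat_lit 294) (nat_lit 256) (nat_lit 170)) (XT.lf (nat_lit 0) (nat_lit 19209250918) (nat_lit 76) (nat_lit 21876050535) (nat_lit 152) (nat_lit 67923579236) (nat_lit 7) (nat_lit 5) (nat_lit 8) (nat_lit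 5) (nat_lit 9) (nat_lit 4) (nat_lit 295) (nat_lit 256) (nat_lit 169)))))) (XT.nd (nat_lit 468) (nat_lit 152) (nat_lit 0) (XT.nd (nat_lit 234) (nat_lit 76) (nat_lit 0) (XT.nd (nat_lit 78) (nat_lit 0) (nat_lit 0) (XT.lf (nat_lit 0) (nat_lit 49045744989) (nat_lit 76) (nat_lit 6386945201) (nat_lit 152) (nat_lit 60986523318) (nat_lit 7) (nat_lit 5) (nat_lit 8) (nat_lit 5) (nat_lit 9) (nat_lit 4) (nat_lit 296) (nat_lit 256) (nat_lit 168)) (XT.nd (nat_lit 78) (nat_lit 0) (nat_lit 0) (XT.lf (nat_lit 0) (nat_lit 71173694594) (nat_lit 152) (nat_lit 43407059760) (nat_lit 0) (nat_lit 9821958347) (nat_lit 7) (nat_lit 5) (nat_lit 9) (nat_lit 4) (nat_lit 7) (nat_lit 4) (nat_lit 297) (nat_lit 256) (nat_lit 167)) (XT.lf (nat_lit 0) (nat_lit 88337203963) (nat_lit 152) (nat_lit 17693989604) (nat_lit 0) (nat_lit 26980645581) (nat_lit 7) (nat_lit 5) (nat_lit 9) (nat_lit 4) (nat_lit 7) (nat_lit 4) (nat_lit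 298) (nat_lit 256) (nat_lit 166)))) (XT.nd (nat_lit 78) (nat_lit 0) (nat_lit 0) (XT.lf (nat_lit 0) (nat_lit 10602080908) (nat_lit 76) (nat_lit 96524221191) (nat_lit 76) (nat_lit 35163197868) (nat_lit 6) (nat_lit 4) (nat_lit 7) (nat_lit 5) (nat_lit 7) (nat_lit 4) (nat_lit 299) (nat_lit 256) (nat_lit 165)) (XT.nd (nat_lit 78) (nat_lit 0) (nat_lit 0) (XT.lf (nat_lit 0) (nat_lit 42163817149) (nat_lit 76) (nat_lit 85736103577) (nat_lit 76) (nat_lit 24370946050) (nat_lit 6) (nat_lit 4) (nat_lit 7) (nat_lit 5) (nat_lit 7) (nat_lit 4) (nat_lit 300) (nat_lit 256) (nat_lit 164)) (XT.lf (nat_lit 0) (nat_lit 76246517492) (nat_lit 76) (nat_lit 74086696172) (nat_lit 76) (nat_lit 12717710678) (nat_lit 6) (nat_lit 4) (nat_lit 7) (nat_lit 5) (nat_lit 7) (nat_lit 4) (nat_lit 301) (nat_lit 256) (nat_lit 163))))) (XT.nd (nat_lit 234) (nat_lit 76) (nat_lit 0) (XT.nd (nat_lit 78) (nat_lit 76) (nat_lit 0)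 (XT.lf (nat_lit 0) (nat_lit 113052153494) (nat_lit 76) (nat_lit 61506965451) (nat_lit 76) (nat_lit 134435543) (nat_lit 6) (nat_lit 4) (nat_lit 7) (nat_lit 5) (nat_lit 7) (nat_lit 4) (nat_lit 302) (nat_lit 256) (nat_lit 162)) (XT.nd (nat_lit 78) (nat_lit 0) (nat_lit 0) (XT.lf (nat_lit 0) (nat_lit 12780451009) (nat_lit 152) (nat_lit 34792473672) (nat_lit 76) (nat_lit 139668941441) (nat_lit 5) (nat_lit 5) (nat_lit 7) (nat_lit 5) (nat_lit 6) (nat_lit 4) (nat_lit 303) (nat_lit 256) (nat_lit 161)) (XT.lf (nat_lit 0) (nat_lit 26719458154) (nat_lit 152) (nat_lit 5802377574) (nat_lit 76) (nat_lit 168272075283) (nat_lit 5) (nat_lit 5) (nat_lit 7) (nat_lit 5) (nat_lit 6) (nat_lit 4) (nat_lit 304) (nat_lit 256) (nat_lit 160)))) (XT.nd (nat_lit 156) (nat_lit 0) (nat_lit 0) (XT.nd (nat_lit 78) (nat_lit 0) (nat_lit 0) (XT.lf (nat_lit 0) (nat_lit 26846904534) (nat_lit 76) (nat_lit 15570676590) (nat_lit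 152) (nat_lit 172961021604) (nat_lit 4) (nat_lit 5) (nat_lit 5) (nat_lit 5) (nat_lit 6) (nat_lit 4) (nat_lit 305) (nat_lit 256) (nat_lit 159)) (XT.lf (nat_lit 0) (nat_lit 59598484868) (nat_lit 152) (nat_lit 168752234750) (nat_lit 0) (nat_lit 2761198336) (nat_lit 4) (nat_lit 5) (nat_lit 6) (nat_lit 4) (nat_lit 4) (nat_lit 4) (nat_lit 306) (nat_lit 256) (nat_lit 158))) (XT.nd (nat_lit 78) (nat_lit 0) (nat_lit 0) (XT.lf (nat_lit 0) (nat_lit 78556764662) (nat_lit 152) (nat_lit 147797659337) (nat_lit 0) (nat_lit 21717244548) (nat_lit 4) (nat_lit 5) (nat_lit 6) (nat_lit 4) (nat_lit 4) (nat_lit 4) (nat_lit 307) (nat_lit 256) (nat_lit 157)) (XT.lf (nat_lit 0) (nat_lit 99030290723) (nat_lit 152) (nat_lit 125169321547) (nat_lit 0) (nat_lit 42188702477) (nat_lit 4) (nat_lit 5) (nat_lit 6) (nat_lit 4) (nat_lit 4) (nat_lit 4) (nat_lit 308) (nat_lit 256) (nat_lit 156))))))) (XT.nd (nat_lit 1014)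 (nat_lit 152) (nat_lit 0) (XT.nd (nat_lit 468) (nat_lit 0) (nat_lit 0) (XT.nd (nat_lit 234) (nat_lit 76) (nat_lit 0) (XT.nd (nat_lit 78) (nat_lit 0) (nat_lit 0) (XT.lf (nat_lit 0) (nat_lit 121140387648) (nat_lit 152) (nat_lit 100733127527) (nat_lit 0) (nat_lit 64296884465) (nat_lit 4) (nat_lit 5) (nat_lit 6) (nat_lit 4) (nat_lit 4) (nat_lit 4) (nat_lit 309) (nat_lit 256) (nat_lit 155)) (XT.nd (nat_lit 78) (nat_lit 0) (nat_lit 0) (XT.lf (nat_lit 0) (nat_lit 145018078234) (nat_lit 152) (nat_lit 74344270200) (nat_lit 0) (nat_lit 88172801962) (nat_lit 4) (nat_lit 5) (nat_lit 6) (nat_lit 4) (nat_lit 4) (nat_lit 4) (nat_lit 310) (nat_lit 256) (nat_lit 154)) (XT.lf (nat_lit 0) (nat_lit 170804859907) (nat_lit 152) (nat_lit 45846371154) (nat_lit 0) (nat_lit 113957941886) (nat_lit 4) (nat_lit 5) (nat_lit 6) (nat_lit 4) (nat_lit 4) (nat_lit 4) (nat_lit 311) (nat_lit 256) (nat_lit 153)))) (XT.nd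 (nat_lit 78) (nat_lit 76) (nat_lit 0) (XT.lf (nat_lit 0) (nat_lit 198653543225) (nat_lit 152) (nat_lit 15070553950) (nat_lit 0) (nat_lit 141805105066) (nat_lit 4) (nat_lit 5) (nat_lit 6) (nat_lit 4) (nat_lit 4) (nat_lit 4) (nat_lit 312) (nat_lit 256) (nat_lit 152)) (XT.nd (nat_lit 78) (nat_lit 0) (nat_lit 0) (XT.lf (nat_lit 0) (nat_lit 19122122645) (nat_lit 76) (nat_lit 210066922287) (nat_lit 76) (nat_lit 153217076592) (nat_lit 3) (nat_lit 4) (nat_lit 4) (nat_lit 5) (nat_lit 4) (nat_lit 4) (nat_lit 313) (nat_lit 256) (nat_lit 151)) (XT.lf (nat_lit 0) (nat_lit 56905561982) (nat_lit 76) (nat_lit 205672946514) (nat_lit 76) (nat_lit 148821797546) (nat_lit 3) (nat_lit 4) (nat_lit 4) (nat_lit 5) (nat_lit 4) (nat_lit 4) (nat_lit 314) (nat_lit 256) (nat_lit 150))))) (XT.nd (nat_lit 234) (nat_lit 0) (nat_lit 0) (XT.nd (nat_lit 78) (nat_lit 0) (nat_lit 0) (XT.lf (nat_lit 0) (nat_lit 97710077258)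 (nat_lit 76) (nat_lit 200928187135) (nat_lit 76) (nat_lit 144075831432) (nat_lit 3) (nat_lit 4) (nat_lit 4) (nat_lit 5) (nat_lit 4) (nat_lit 4) (nat_lit 315) (nat_lit 256) (nat_lit 149)) (XT.nd (nat_lit 78) (nat_lit 0) (nat_lit 0) (XT.lf (nat_lit 0) (nat_lit 141777473009) (nat_lit 76) (nat_lit 195804527056) (nat_lit 76) (nat_lit 138951054006) (nat_lit 3) (nat_lit 4) (nat_lit 4) (nat_lit 5) (nat_lit 4) (nat_lit 4) (nat_lit 316) (nat_lit 256) (nat_lit 148)) (XT.lf (nat_lit 0) (nat_lit 189368889357) (nat_lit 76) (nat_lit 190271603848) (nat_lit 76) (nat_lit 133417096218) (nat_lit 3) (nat_lit 4) (nat_lit 4) (nat_lit 5) (nat_lit 4) (nat_lit 4) (nat_lit 317) (nat_lit 256) (nat_lit 147)))) (XT.nd (nat_lit 156) (nat_lit 0) (nat_lit 0) (XT.nd (nat_lit 78) (nat_lit 0) (nat_lit 0) (XT.lf (nat_lit 0) (nat_lit 240766349511) (nat_lit 76) (nat_lit 184296629818) (nat_lit 76) (nat_lit 127441164242)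 (nat_lit 3) (nat_lit 4) (nat_lit 4) (nat_lit 5) (nat_lit 4) (nat_lit 4) (nat_lit 318) (nat_lit 256) (nat_lit 146)) (XT.lf (nat_lit 0) (nat_lit 296274431013) (nat_lit 76) (nat_lit 177844197711) (nat_lit 76) (nat_lit 120987845150) (nat_lit 3) (nat_lit 4) (nat_lit 4) (nat_lit 5) (nat_lit 4) (nat_lit 4) (nat_lit 319) (nat_lit 256) (nat_lit 145))) (XT.nd (nat_lit 78) (nat_lit 0) (nat_lit 0) (XT.lf (nat_lit 0) (nat_lit 356222070641) (nat_lit 76) (nat_lit 170876070895) (nat_lit 76) (nat_lit 114018897050) (nat_lit 3) (nat_lit 4) (nat_lit 4) (nat_lit 5) (nat_lit 4) (nat_lit 4) (nat_lit 320) (nat_lit 256) (nat_lit 144)) (XT.lf (nat_lit 0) (nat_lit 420964513667) (nat_lit 76) (nat_lit 163350956764) (nat_lit 76) (nat_lit 106493022471) (nat_lit 3) (nat_lit 4) (nat_lit 4) (nat_lit 5) (nat_lit 4) (nat_lit 4) (nat_lit 321) (nat_lit 256) (nat_lit 143)))))) (XT.nd (nat_lit 468) (nat_lit 152) (nat_lit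 0) (XT.nd (nat_lit 234) (nat_lit 0) (nat_lit 0) (XT.nd (nat_lit 78) (nat_lit 0) (nat_lit 0) (XT.lf (nat_lit 0) (nat_lit 490885419013) (nat_lit 76) (nat_lit 155224262050) (nat_lit 76) (nat_lit 98365623639) (nat_lit 3) (nat_lit 4) (nat_lit 4) (nat_lit 5) (nat_lit 4) (nat_lit 4) (nat_lit 322) (nat_lit 256) (nat_lit 142)) (XT.nd (nat_lit 78) (nat_lit 0) (nat_lit 0) (XT.lf (nat_lit 0) (nat_lit 566399132785) (nat_lit 76) (nat_lit 146447828562) (nat_lit 76) (nat_lit 89588538190) (nat_lit 3) (nat_lit 4) (nat_lit 4) (nat_lit 5) (nat_lit 4) (nat_lit 4) (nat_lit 323) (nat_lit 256) (nat_lit 141)) (XT.lf (nat_lit 0) (nat_lit 647953143657) (nat_lit 76) (nat_lit 136969647806) (nat_lit 76) (nat_lit 80109753766) (nat_lit 3) (nat_lit 4) (nat_lit 4) (nat_lit 5) (nat_lit 4) (nat_lit 4) (nat_lit 324) (nat_lit 256) (nat_lit 140)))) (XT.nd (nat_lit 78) (nat_lit 0) (nat_lit 0) (XT.lf (nat_lit 0) (nat_lit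 736030734657) (nat_lit 76) (nat_lit 126733552784) (nat_lit 76) (nat_lit 69873099793) (nat_lit 3) (nat_lit 4) (nat_lit 4) (nat_lit 5) (nat_lit 4) (nat_lit 4) (nat_lit 325) (nat_lit 256) (nat_lit 139)) (XT.nd (nat_lit 78) (nat_lit 0) (nat_lit 0) (XT.lf (nat_lit 0) (nat_lit 831153847064) (nat_lit 76) (nat_lit 115678885156) (nat_lit 76) (nat_lit 58817914617) (nat_lit 3) (nat_lit 4) (nat_lit 4) (nat_lit 5) (nat_lit 4) (nat_lit 4) (nat_lit 326) (nat_lit 256) (nat_lit 138)) (XT.lf (nat_lit 0) (nat_lit 933886173396) (nat_lit 76) (nat_lit 103740135780) (nat_lit 76) (nat_lit 46878686029) (nat_lit 3) (nat_lit 4) (nat_lit 4) (nat_lit 5) (nat_lit 4) (nat_lit 4) (nat_lit 327) (nat_lit 256) (nat_lit 137))))) (XT.nd (nat_lit 234) (nat_lit 152) (nat_lit 0) (XT.nd (nat_lit 78) (nat_lit 0) (nat_lit 0) (XT.lf (nat_lit 0) (nat_lit 1044836497809) (nat_lit 76) (nat_lit 90846556511) (nat_lit 76) (nat_lit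 33984663047) (nat_lit 3) (nat_lit 4) (nat_lit 4) (nat_lit 5) (nat_lit 4) (nat_lit 4) (nat_lit 328) (nat_lit 256) (nat_lit 136)) (XT.nd (nat_lit 78) (nat_lit 0) (nat_lit 0) (XT.lf (nat_lit 0) (nat_lit 1164662303708) (nat_lit 76) (nat_lit 76921740954) (nat_lit 76) (nat_lit 20059436644) (nat_lit 3) (nat_lit 4) (nat_lit 4) (nat_lit 5) (nat_lit 4) (nat_lit 4) (nat_lit 329) (nat_lit 256) (nat_lit 135)) (XT.lf (nat_lit 0) (nat_lit 1294073669942) (nat_lit 76) (nat_lit 61883171683) (nat_lit 76) (nat_lit 5020486960) (nat_lit 3) (nat_lit 4) (nat_lit 4) (nat_lit 5) (nat_lit 4) (nat_lit 4) (nat_lit 330) (nat_lit 256) (nat_lit 134)))) (XT.nd (nat_lit 156) (nat_lit 76) (nat_lit 0) (XT.nd (nat_lit 78) (nat_lit 0) (nat_lit 0) (XT.lf (nat_lit 0) (nat_lit 10659970547) (nat_lit 152) (nat_lit 34690298218) (nat_lit 76) (nat_lit 1422886045648) (nat_lit 2) (nat_lit 5) (nat_lit 4) (nat_lit 5) (nat_lit 3) (nat_lit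 4) (nat_lit 331) (nat_lit 256) (nat_lit 133)) (XT.lf (nat_lit 0) (nat_lit 27323387832) (nat_lit 152) (nat_lit 30716409) (nat_lit 76) (nat_lit 1556711502226) (nat_lit 2) (nat_lit 5) (nat_lit 4) (nat_lit 5) (nat_lit 3) (nat_lit 4) (nat_lit 332) (nat_lit 256) (nat_lit 132))) (XT.nd (nat_lit 78) (nat_lit 0) (nat_lit 0) (XT.lf (nat_lit 0) (nat_lit 39370701679) (nat_lit 76) (nat_lit 6895820803) (nat_lit 152) (nat_lit 1662818988192) (nat_lit 1) (nat_lit 5) (nat_lit 2) (nat_lit 5) (nat_lit 3) (nat_lit 4) (nat_lit 333) (nat_lit 256) (nat_lit 131)) (XT.lf (nat_lit 0) (nat_lit 67091288878) (nat_lit 152) (nat_lit 1762546935915) (nat_lit 0) (nat_lit 14439488230) (nat_lit 1) (nat_lit 5) (nat_lit 3) (nat_lit 4) (nat_lit 1) (nat_lit 4) (nat_lit 334) (nat_lit 256) (nat_lit 130))))))))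
noncomputable def xc80 : XT := (XT.nd (nat_lit 33150) (nat_lit 0) (nat_lit 304) (XT.nd (nat_lit 32136) (nat_lit 0) (nat_lit 1216) (XT.nd (nat_lit 31668) (nat_lit 0) (nat_lit 2432) (XT.nd (nat_lit 31434) (nat_lit 0) (nat_lit 2660) (XT.nd (nat_lit 78) (nat_lit 0) (nat_lit 0) (XT.lf (nat_lit 0) (nat_lit 89760945100) (nat_lit 152) (nat_lit 1862985129315) (nat_lit 0) (nat_lit 37108904728) (nat_lit 1) (nat_lit 5) (nat_lit 3) (nat_lit 4) (nat_lit 1) (nat_lit 4) (nat_lit 335) (nat_lit 256) (nat_lit 129)) (XT.nd (nat_lit 78) (nat_lit 0) (nat_lit 0) (XT.lf (nat_lit 0) (nat_lit 114243985196) (nat_lit 152) (nat_lit 1971458733834) (nat_lit 0) (nat_lit 61591722856) (nat_lit 1) (nat_lit 5) (nat_lit 3) (nat_lit 4) (nat_lit 1) (nat_lit 4) (nat_lit 336) (nat_lit 256) (nat_lit 128)) (XT.lf (nat_lit 0) (nat_lit 140685493847) (nat_lit 152) (nat_lit 2088610556017) (nat_lit 0) (nat_lit 88033025981) (nat_lit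 1) (nat_lit 5) (nat_lit 3) (nat_lit 4) (nat_lit 1) (nat_lit 4) (nat_lit 337) (nat_lit 256) (nat_lit 127)))) (XT.nd (nat_lit 78) (nat_lit 0) (nat_lit 0) (XT.lf (nat_lit 0) (nat_lit 1686853355) (nat_lit 532) (nat_lit 2999119362) (nat_lit 532) (nat_lit 2999119362) (nat_lit 36) (nat_lit 3) (nat_lit 43) (nat_lit 3) (nat_lit 43) (nat_lit 5) (nat_lit 257) (nat_lit 257) (nat_lit 206)) (XT.nd (nat_lit 78) (nat_lit 0) (nat_lit 76) (XT.lf (nat_lit 76) (nat_lit 610952678) (nat_lit 0) (nat_lit 3165472652) (nat_lit 532) (nat_lit 12185804946) (nat_lit 37) (nat_lit 5) (nat_lit 36) (nat_lit 3) (nat_lit 43) (nat_lit 5) (nat_lit 258) (nat_lit 257) (nat_lit 205)) (XT.lf (nat_lit 0) (nat_lit 4439302873) (nat_lit 456) (nat_lit 8604772694) (nat_lit 532) (nat_lit 3539463224) (nat_lit 37) (nat_lit 5) (nat_lit 43) (nat_lit 5) (nat_lit 44) (nat_lit 5) (nat_lit 259) (nat_lit 257) (nat_lit 204))))) (XT.nd (nat_lit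 234) (nat_lit 304) (nat_lit 0) (XT.nd (nat_lit 78) (nat_lit 0) (nat_lit 76) (XT.lf (nat_lit 0) (nat_lit 5213913799) (nat_lit 456) (nat_lit 1416434283) (nat_lit 532) (nat_lit 10619631750) (nat_lit 37) (nat_lit 5) (nat_lit 43) (nat_lit 5) (nat_lit 44) (nat_lit 5) (nat_lit 260) (nat_lit 257) (nat_lit 203)) (XT.nd (nat_lit 78) (nat_lit 0) (nat_lit 0) (XT.lf (nat_lit 0) (nat_lit 6200503413) (nat_lit 456) (nat_lit 11304315687) (nat_lit 532) (nat_lit 453031178) (nat_lit 38) (nat_lit 5) (nat_lit 44) (nat_lit 5) (nat_lit 45) (nat_lit 5) (nat_lit 261) (nat_lit 257) (nat_lit 202)) (XT.lf (nat_lit 0) (nat_lit 7457621813) (nat_lit 456) (nat_lit 3458858681) (nat_lit 532) (nat_lit 7790648132) (nat_lit 38) (nat_lit 5) (nat_lit 44) (nat_lit 5) (nat_lit 45) (nat_lit 5) (nat_lit 262) (nat_lit 257) (nat_lit 201)))) (XT.nd (nat_lit 78) (nat_lit 380) (nat_lit 0) (XT.lf (nat_lit 76) (nat_lit 5262643004)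 (nat_lit 0) (nat_lit 3660391743) (nat_lit 532) (nat_lit 10584795002) (nat_lit 39) (nat_lit 5) (nat_lit 38) (nat_lit 5) (nat_lit 45) (nat_lit 5) (nat_lit 263) (nat_lit 257) (nat_lit 200)) (XT.nd (nat_lit 78) (nat_lit 456) (nat_lit 0) (XT.lf (nat_lit 0) (nat_lit 10685431535) (nat_lit 456) (nat_lit 5605411007) (nat_lit 76) (nat_lit 4067455571) (nat_lit 39) (nat_lit 5) (nat_lit 45) (nat_lit 5) (nat_lit 40) (nat_lit 5) (nat_lit 264) (nat_lit 257) (nat_lit 199)) (XT.lf (nat_lit 0) (nat_lit 3805983492) (nat_lit 456) (nat_lit 8953043609) (nat_lit 532) (nat_lit 8504244742) (nat_lit 33) (nat_lit 5) (nat_lit 39) (nat_lit 5) (nat_lit 40) (nat_lit 5) (nat_lit 265) (nat_lit 257) (nat_lit 198)))))) (XT.nd (nat_lit 468) (nat_lit 760) (nat_lit 0) (XT.nd (nat_lit 234) (nat_lit 228) (nat_lit 0) (XT.nd (nat_lit 78) (nat_lit 228) (nat_lit 0) (XT.lf (nat_lit 0) (nat_lit 14274572028) (nat_lit 456) (nat_lit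 861664277) (nat_lit 532) (nat_lit 7093467291) (nat_lit 33) (nat_lit 5) (nat_lit 39) (nat_lit 5) (nat_lit 40) (nat_lit 5) (nat_lit 266) (nat_lit 257) (nat_lit 197)) (XT.nd (nat_lit 78) (nat_lit 0) (nat_lit 0) (XT.lf (nat_lit 0) (nat_lit 2213825407) (nat_lit 228) (nat_lit 15718119986) (nat_lit 304) (nat_lit 5323311054) (nat_lit 30) (nat_lit 5) (nat_lit 33) (nat_lit 5) (nat_lit 34) (nat_lit 5) (nat_lit 267) (nat_lit 257) (nat_lit 196)) (XT.lf (nat_lit 0) (nat_lit 13610852183) (nat_lit 228) (nat_lit 7566138528) (nat_lit 304) (nat_lit 3167875504) (nat_lit 30) (nat_lit 5) (nat_lit 33) (nat_lit 5) (nat_lit 34) (nat_lit 5) (nat_lit 268) (nat_lit 257) (nat_lit 195)))) (XT.nd (nat_lit 78) (nat_lit 76) (nat_lit 0) (XT.lf (nat_lit 0) (nat_lit 372558081) (nat_lit 152) (nat_lit 24335169209) (nat_lit 228) (nat_lit 811892541) (nat_lit 28) (nat_lit 5) (nat_lit 30) (nat_lit 5) (nat_lit 31) (nat_lit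 5) (nat_lit 269) (nat_lit 257) (nat_lit 194)) (XT.nd (nat_lit 78) (nat_lit 0) (nat_lit 0) (XT.lf (nat_lit 0) (nat_lit 2131119735) (nat_lit 228) (nat_lit 14047226305) (nat_lit 76) (nat_lit 10567909791) (nat_lit 27) (nat_lit 5) (nat_lit 30) (nat_lit 5) (nat_lit 28) (nat_lit 5) (nat_lit 270) (nat_lit 257) (nat_lit 193)) (XT.lf (nat_lit 0) (nat_lit 5254216852) (nat_lit 228) (nat_lit 2094053192) (nat_lit 76) (nat_lit 20722034327) (nat_lit 27) (nat_lit 5) (nat_lit 30) (nat_lit 5) (nat_lit 28) (nat_lit 5) (nat_lit 271) (nat_lit 257) (nat_lit 192))))) (XT.nd (nat_lit 234) (nat_lit 380) (nat_lit 0) (XT.nd (nat_lit 78) (nat_lit 152) (nat_lit 0) (XT.lf (nat_lit 0) (nat_lit 8949693358) (nat_lit 304) (nat_lit 18167304282) (nat_lit 76) (nat_lit 2357522258) (nat_lit 24) (nat_lit 5) (nat_lit 28) (nat_lit 5) (nat_lit 25) (nat_lit 5) (nat_lit 272) (nat_lit 257) (nat_lit 191)) (XT.nd (nat_lit 78) (nat_lit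 152) (nat_lit 0) (XT.lf (nat_lit 0) (nat_lit 13180216511) (nat_lit 304) (nat_lit 5292209378) (nat_lit 76) (nat_lit 12499536345) (nat_lit 24) (nat_lit 5) (nat_lit 28) (nat_lit 5) (nat_lit 25) (nat_lit 5) (nat_lit 273) (nat_lit 257) (nat_lit 190)) (XT.lf (nat_lit 0) (nat_lit 9053720582) (nat_lit 152) (nat_lit 8903760632) (nat_lit 228) (nat_lit 14615093889) (nat_lit 22) (nat_lit 5) (nat_lit 24) (nat_lit 5) (nat_lit 25) (nat_lit 5) (nat_lit 274) (nat_lit 257) (nat_lit 189)))) (XT.nd (nat_lit 156) (nat_lit 228) (nat_lit 0) (XT.nd (nat_lit 78) (nat_lit 152) (nat_lit 0) (XT.lf (nat_lit 0) (nat_lit 23290692836) (nat_lit 228) (nat_lit 9491985945) (nat_lit 76) (nat_lit 1504693184) (nat_lit 22) (nat_lit 5) (nat_lit 25) (nat_lit 5) (nat_lit 23) (nat_lit 5) (nat_lit 275) (nat_lit 257) (nat_lit 188)) (XT.lf (nat_lit 0) (nat_lit 5699329437) (nat_lit 152) (nat_lit 23711148820) (nat_lit 228) (nat_lit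 6700114509) (nat_lit 20) (nat_lit 5) (nat_lit 22) (nat_lit 5) (nat_lit 23) (nat_lit 5) (nat_lit 276) (nat_lit 257) (nat_lit 187))) (XT.nd (nat_lit 78) (nat_lit 228) (nat_lit 0) (XT.lf (nat_lit 0) (nat_lit 22634520135) (nat_lit 152) (nat_lit 13636788542) (nat_lit 228) (nat_lit 1788276637) (nat_lit 20) (nat_lit 5) (nat_lit 22) (nat_lit 5) (nat_lit 23) (nat_lit 5) (nat_lit 277) (nat_lit 257) (nat_lit 186)) (XT.lf (nat_lit 0) (nat_lit 699607991) (nat_lit 152) (nat_lit 2650126481) (nat_lit 228) (nat_lit 36807292755) (nat_lit 17) (nat_lit 5) (nat_lit 19) (nat_lit 5) (nat_lit 20) (nat_lit 5) (nat_lit 278) (nat_lit 257) (nat_lit 185))))))) (XT.nd (nat_lit 1014) (nat_lit 380) (nat_lit 0) (XT.nd (nat_lit 468) (nat_lit 304) (nat_lit 0) (XT.nd (nat_lit 234) (nat_lit 76) (nat_lit 0) (XT.nd (nat_lit 78) (nat_lit 152) (nat_lit 0) (XT.lf (nat_lit 0) (nat_lit 9449057503) (nat_lit 228) (nat_lit 23687177007)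 (nat_lit 76) (nat_lit 9230587983) (nat_lit 17) (nat_lit 5) (nat_lit 20) (nat_lit 5) (nat_lit 18) (nat_lit 5) (nat_lit 279) (nat_lit 257) (nat_lit 184)) (XT.nd (nat_lit 78) (nat_lit 152) (nat_lit 0) (XT.lf (nat_lit 0) (nat_lit 16098261803) (nat_lit 228) (nat_lit 6734436009) (nat_lit 76) (nat_lit 21915771560) (nat_lit 17) (nat_lit 5) (nat_lit 20) (nat_lit 5) (nat_lit 18) (nat_lit 5) (nat_lit 280) (nat_lit 257) (nat_lit 183)) (XT.lf (nat_lit 0) (nat_lit 12173992455) (nat_lit 152) (nat_lit 11391806816) (nat_lit 228) (nat_lit 23731958121) (nat_lit 15) (nat_lit 5) (nat_lit 17) (nat_lit 5) (nat_lit 18) (nat_lit 5) (nat_lit 281) (nat_lit 257) (nat_lit 182)))) (XT.nd (nat_lit 78) (nat_lit 76) (nat_lit 0) (XT.lf (nat_lit 0) (nat_lit 31836632858) (nat_lit 228) (nat_lit 17095862883) (nat_lit 76) (nat_lit 1102040833) (nat_lit 15) (nat_lit 5) (nat_lit 18) (nat_lit 5) (nat_lit 16) (nat_lit 4) (nat_lit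 282) (nat_lit 257) (nat_lit 181)) (XT.nd (nat_lit 78) (nat_lit 0) (nat_lit 0) (XT.lf (nat_lit 0) (nat_lit 2178352019) (nat_lit 76) (nat_lit 38933308191) (nat_lit 152) (nat_lit 11851213836) (nat_lit 14) (nat_lit 5) (nat_lit 15) (nat_lit 5) (nat_lit 16) (nat_lit 4) (nat_lit 283) (nat_lit 257) (nat_lit 180)) (XT.lf (nat_lit 0) (nat_lit 23957990569) (nat_lit 76) (nat_lit 27632592194) (nat_lit 152) (nat_lit 4497961089) (nat_lit 14) (nat_lit 5) (nat_lit 15) (nat_lit 5) (nat_lit 16) (nat_lit 4) (nat_lit 284) (nat_lit 257) (nat_lit 179))))) (XT.nd (nat_lit 234) (nat_lit 76) (nat_lit 0) (XT.nd (nat_lit 78) (nat_lit 152) (nat_lit 0) (XT.lf (nat_lit 0) (nat_lit 3266015573) (nat_lit 152) (nat_lit 12075497505) (nat_lit 76) (nat_lit 44116565220) (nat_lit 13) (nat_lit 5) (nat_lit 15) (nat_lit 5) (nat_lit 14) (nat_lit 5) (nat_lit 285) (nat_lit 257) (nat_lit 178)) (XT.nd (nat_lit 78) (nat_lit 0) (nat_lit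 0) (XT.lf (nat_lit 0) (nat_lit 9957455027) (nat_lit 152) (nat_lit 1685240561) (nat_lit 228) (nat_lit 51426379464) (nat_lit 11) (nat_lit 5) (nat_lit 13) (nat_lit 5) (nat_lit 14) (nat_lit 5) (nat_lit 286) (nat_lit 257) (nat_lit 177)) (XT.lf (nat_lit 0) (nat_lit 21337654281) (nat_lit 228) (nat_lit 32833416269) (nat_lit 76) (nat_lit 12746041786) (nat_lit 11) (nat_lit 5) (nat_lit 14) (nat_lit 5) (nat_lit 12) (nat_lit 4) (nat_lit 287) (nat_lit 257) (nat_lit 176)))) (XT.nd (nat_lit 156) (nat_lit 0) (nat_lit 0) (XT.nd (nat_lit 78) (nat_lit 76) (nat_lit 0) (XT.lf (nat_lit 0) (nat_lit 31847560620) (nat_lit 228) (nat_lit 10984054565) (nat_lit 76) (nat_lit 28238240761) (nat_lit 11) (nat_lit 5) (nat_lit 14) (nat_lit 5) (nat_lit 12) (nat_lit 4) (nat_lit 288) (nat_lit 257) (nat_lit 175)) (XT.lf (nat_lit 0) (nat_lit 13270307381) (nat_lit 76) (nat_lit 30243009284) (nat_lit 152) (nat_lit 32016308376)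 (nat_lit 10) (nat_lit 5) (nat_lit 11) (nat_lit 5) (nat_lit 12) (nat_lit 4) (nat_lit 289) (nat_lit 257) (nat_lit 174))) (XT.nd (nat_lit 78) (nat_lit 0) (nat_lit 0) (XT.lf (nat_lit 0) (nat_lit 40083079713) (nat_lit 76) (nat_lit 16325627243) (nat_lit 152) (nat_lit 23913768598) (nat_lit 10) (nat_lit 5) (nat_lit 11) (nat_lit 5) (nat_lit 12) (nat_lit 4) (nat_lit 290) (nat_lit 257) (nat_lit 173)) (XT.lf (nat_lit 0) (nat_lit 69034752084) (nat_lit 76) (nat_lit 1297319202) (nat_lit 152) (nat_lit 15166984460) (nat_lit 10) (nat_lit 5) (nat_lit 11) (nat_lit 5) (nat_lit 12) (nat_lit 4) (nat_lit 291) (nat_lit 257) (nat_lit 172)))))) (XT.nd (nat_lit 468) (nat_lit 152) (nat_lit 0) (XT.nd (nat_lit 234) (nat_lit 76) (nat_lit 0) (XT.nd (nat_lit 78) (nat_lit 76) (nat_lit 0) (XT.lf (nat_lit 0) (nat_lit 9313665347) (nat_lit 76) (nat_lit 76635337235) (nat_lit 76) (nat_lit 5094392341) (nat_lit 9) (nat_lit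 4) (nat_lit 10) (nat_lit 5) (nat_lit 10) (nat_lit 4) (nat_lit 292) (nat_lit 257) (nat_lit 171)) (XT.nd (nat_lit 78) (nat_lit 0) (nat_lit 0) (XT.lf (nat_lit 0) (nat_lit 5986801954) (nat_lit 152) (nat_lit 59095482128) (nat_lit 76) (nat_lit 31898505165) (nat_lit 8) (nat_lit 5) (nat_lit 10) (nat_lit 5) (nat_lit 9) (nat_lit 4) (nat_lit 293) (nat_lit 257) (nat_lit 170)) (XT.lf (nat_lit 0) (nat_lit 17676097356) (nat_lit 152) (nat_lit 34788308155) (nat_lit 76) (nat_lit 50918443713) (nat_lit 8) (nat_lit 5) (nat_lit 10) (nat_lit 5) (nat_lit 9) (nat_lit 4) (nat_lit 294) (nat_lit 257) (nat_lit 169)))) (XT.nd (nat_lit 78) (nat_lit 76) (nat_lit 0) (XT.lf (nat_lit 0) (nat_lit 30297605899) (nat_lit 152) (nat_lit 8541644886) (nat_lit 76) (nat_lit 71458063821) (nat_lit 8) (nat_lit 5) (nat_lit 10) (nat_lit 5) (nat_lit 9) (nat_lit 4) (nat_lit 295) (nat_lit 257) (nat_lit 168)) (XT.nd (nat_lit 78) (nat_lit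 0) (nat_lit 0) (XT.lf (nat_lit 0) (nat_lit 20842678658) (nat_lit 76) (nat_lit 23584709974) (nat_lit 152) (nat_lit 73297670021) (nat_lit 7) (nat_lit 5) (nat_lit 8) (nat_lit 5) (nat_lit 9) (nat_lit 4) (nat_lit 296) (nat_lit 257) (nat_lit 167)) (XT.lf (nat_lit 0) (nat_lit 53058930206) (nat_lit 76) (nat_lit 6859544702) (nat_lit 152) (nat_lit 65810078930) (nat_lit 7) (nat_lit 5) (nat_lit 8) (nat_lit 5) (nat_lit 9) (nat_lit 4) (nat_lit 297) (nat_lit 257) (nat_lit 166))))) (XT.nd (nat_lit 234) (nat_lit 76) (nat_lit 0) (XT.nd (nat_lit 78) (nat_lit 76) (nat_lit 0) (XT.lf (nat_lit 0) (nat_lit 76915823465) (nat_lit 152) (nat_lit 46793698704) (nat_lit 0) (nat_lit 10641453336) (nat_lit 7) (nat_lit 5) (nat_lit 9) (nat_lit 4) (nat_lit 7) (nat_lit 4) (nat_lit 298) (nat_lit 257) (nat_lit 165)) (XT.nd (nat_lit 78) (nat_lit 76) (nat_lit 0) (XT.lf (nat_lit 0) (nat_lit 95448840747) (nat_lit 152) (nat_lit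 19029947813) (nat_lit 0) (nat_lit 29170336413) (nat_lit 7) (nat_lit 5) (nat_lit 9) (nat_lit 4) (nat_lit 7) (nat_lit 4) (nat_lit 299) (nat_lit 257) (nat_lit 164)) (XT.lf (nat_lit 0) (nat_lit 11527794139) (nat_lit 76) (nat_lit 104211829413) (nat_lit 76) (nat_lit 37929497113) (nat_lit 6) (nat_lit 4) (nat_lit 7) (nat_lit 5) (nat_lit 7) (nat_lit 4) (nat_lit 300) (nat_lit 257) (nat_lit 163)))) (XT.nd (nat_lit 156) (nat_lit 76) (nat_lit 0) (XT.nd (nat_lit 78) (nat_lit 0) (nat_lit 0) (XT.lf (nat_lit 0) (nat_lit 45608725074) (nat_lit 76) (nat_lit 92563205314) (nat_lit 76) (nat_lit 26277328600) (nat_lit 6) (nat_lit 4) (nat_lit 7) (nat_lit 5) (nat_lit 7) (nat_lit 4) (nat_lit 301) (nat_lit 257) (nat_lit 162)) (XT.lf (nat_lit 0) (nat_lit 82412722737) (nat_lit 76) (nat_lit 79984199876) (nat_lit 76) (nat_lit 13695041298) (nat_lit 6) (nat_lit 4) (nat_lit 7) (nat_lit 5) (nat_lit 7) (nat_lit 4) (nat_lit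 302) (nat_lit 257) (nat_lit 161))) (XT.nd (nat_lit 78) (nat_lit 76) (nat_lit 0) (XT.lf (nat_lit 0) (nat_lit 122157884890) (nat_lit 76) (nat_lit 66400270844) (nat_lit 76) (nat_lit 108073503) (nat_lit 6) (nat_lit 4) (nat_lit 7) (nat_lit 5) (nat_lit 7) (nat_lit 4) (nat_lit 303) (nat_lit 257) (nat_lit 160)) (XT.lf (nat_lit 0) (nat_lit 13835535374) (nat_lit 152) (nat_lit 37517097432) (nat_lit 76) (nat_lit 150865914991) (nat_lit 5) (nat_lit 5) (nat_lit 7) (nat_lit 5) (nat_lit 6) (nat_lit 4) (nat_lit 304) (nat_lit 257) (nat_lit 159))))))))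
noncomputable def xc81 : XT := (XT.nd (nat_lit 2028) (nat_lit 152) (nat_lit 0) (XT.nd (nat_lit 1014) (nat_lit 0) (nat_lit 0) (XT.nd (nat_lit 468) (nat_lit 76) (nat_lit 0) (XT.nd (nat_lit 234) (nat_lit 0) (nat_lit 0) (XT.nd (nat_lit 78) (nat_lit 76) (nat_lit 0) (XT.lf (nat_lit 0) (nat_lit 28887244699) (nat_lit 152) (nat_lit 6212147285) (nat_lit 76) (nat_lit 181755561894) (nat_lit 5) (nat_lit 5) (nat_lit 7) (nat_lit 5) (nat_lit 6) (nat_lit 4) (nat_lit 305) (nat_lit 257) (nat_lit 158)) (XT.nd (nat_lit 78) (nat_lit 0) (nat_lit 0) (XT.lf (nat_lit 0) (nat_lit 29047699657) (nat_lit 76) (nat_lit 16792554278) (nat_lit 152) (nat_lit 186766247908) (nat_lit 4) (nat_lit 5) (nat_lit 5) (nat_lit 5) (nat_lit 6) (nat_lit 4) (nat_lit 306) (nat_lit 257) (nat_lit 157)) (XT.lf (nat_lit 0) (nat_lit 64393991570) (nat_lit 152) (nat_lit 182201617197) (nat_lit 0) (nat_lit 3003008133) (nat_lit 4) (nat_lit 5)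 (nat_lit 6) (nat_lit 4) (nat_lit 4) (nat_lit 4) (nat_lit 307) (nat_lit 257) (nat_lit 156)))) (XT.nd (nat_lit 78) (nat_lit 0) (nat_lit 0) (XT.lf (nat_lit 0) (nat_lit 84866887236) (nat_lit 152) (nat_lit 159574438442) (nat_lit 0) (nat_lit 23473988863) (nat_lit 4) (nat_lit 5) (nat_lit 6) (nat_lit 4) (nat_lit 4) (nat_lit 4) (nat_lit 308) (nat_lit 257) (nat_lit 155)) (XT.nd (nat_lit 78) (nat_lit 0) (nat_lit 0) (XT.lf (nat_lit 0) (nat_lit 106976400462) (nat_lit 152) (nat_lit 135139317602) (nat_lit 0) (nat_lit 45581729000) (nat_lit 4) (nat_lit 5) (nat_lit 6) (nat_lit 4) (nat_lit 4) (nat_lit 4) (nat_lit 309) (nat_lit 257) (nat_lit 154)) (XT.lf (nat_lit 0) (nat_lit 130853550587) (nat_lit 152) (nat_lit 108751453962) (nat_lit 0) (nat_lit 69457237375) (nat_lit 4) (nat_lit 5) (nat_lit 6) (nat_lit 4) (nat_lit 4) (nat_lit 4) (nat_lit 310) (nat_lit 257) (nat_lit 153))))) (XT.nd (nat_lit 234) (nat_lit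 76) (nat_lit 0) (XT.nd (nat_lit 78) (nat_lit 0) (nat_lit 0) (XT.lf (nat_lit 0) (nat_lit 156639831833) (nat_lit 152) (nat_lit 80254474995) (nat_lit 0) (nat_lit 95241998483) (nat_lit 4) (nat_lit 5) (nat_lit 6) (nat_lit 4) (nat_lit 4) (nat_lit 4) (nat_lit 311) (nat_lit 257) (nat_lit 152)) (XT.nd (nat_lit 78) (nat_lit 0) (nat_lit 0) (XT.lf (nat_lit 0) (nat_lit 184488051792) (nat_lit 152) (nat_lit 49479509716) (nat_lit 0) (nat_lit 123088810907) (nat_lit 4) (nat_lit 5) (nat_lit 6) (nat_lit 4) (nat_lit 4) (nat_lit 4) (nat_lit 312) (nat_lit 257) (nat_lit 151)) (XT.lf (nat_lit 0) (nat_lit 214563236954) (nat_lit 152) (nat_lit 16244187960) (nat_lit 0) (nat_lit 153162692795) (nat_lit 4) (nat_lit 5) (nat_lit 6) (nat_lit 4) (nat_lit 4) (nat_lit 4) (nat_lit 313) (nat_lit 257) (nat_lit 150)))) (XT.nd (nat_lit 156) (nat_lit 0) (nat_lit 0) (XT.nd (nat_lit 78) (nat_lit 0) (nat_lit 0) (XT.lf (nat_lit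 0) (nat_lit 20683092375) (nat_lit 76) (nat_lit 226857947131) (nat_lit 76) (nat_lit 165456196237) (nat_lit 3) (nat_lit 4) (nat_lit 4) (nat_lit 5) (nat_lit 4) (nat_lit 4) (nat_lit 314) (nat_lit 257) (nat_lit 149)) (XT.lf (nat_lit 0) (nat_lit 61486895754) (nat_lit 76) (nat_lit 222113514700) (nat_lit 76) (nat_lit 160710646459) (nat_lit 3) (nat_lit 4) (nat_lit 4) (nat_lit 5) (nat_lit 4) (nat_lit 4) (nat_lit 315) (nat_lit 257) (nat_lit 148))) (XT.nd (nat_lit 78) (nat_lit 0) (nat_lit 0) (XT.lf (nat_lit 0) (nat_lit 105553632340) (nat_lit 76) (nat_lit 216990157350) (nat_lit 76) (nat_lit 155586254529) (nat_lit 3) (nat_lit 4) (nat_lit 4) (nat_lit 5) (nat_lit 4) (nat_lit 4) (nat_lit 316) (nat_lit 257) (nat_lit 147)) (XT.lf (nat_lit 0) (nat_lit 153144438351) (nat_lit 76) (nat_lit 211457514447) (nat_lit 76) (nat_lit 150052653681) (nat_lit 3) (nat_lit 4) (nat_lit 4) (nat_lit 5) (nat_lit 4) (nat_lit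 4) (nat_lit 317) (nat_lit 257) (nat_lit 146)))))) (XT.nd (nat_lit 468) (nat_lit 0) (nat_lit 0) (XT.nd (nat_lit 234) (nat_lit 0) (nat_lit 0) (XT.nd (nat_lit 78) (nat_lit 0) (nat_lit 0) (XT.lf (nat_lit 0) (nat_lit 204541333378) (nat_lit 76) (nat_lit 205482799958) (nat_lit 76) (nat_lit 144077052206) (nat_lit 3) (nat_lit 4) (nat_lit 4) (nat_lit 5) (nat_lit 4) (nat_lit 4) (nat_lit 318) (nat_lit 257) (nat_lit 145)) (XT.nd (nat_lit 78) (nat_lit 0) (nat_lit 0) (XT.lf (nat_lit 0) (nat_lit 260048891613) (nat_lit 76) (nat_lit 199030608168) (nat_lit 76) (nat_lit 137624039133) (nat_lit 3) (nat_lit 4) (nat_lit 4) (nat_lit 5) (nat_lit 4) (nat_lit 4) (nat_lit 319) (nat_lit 257) (nat_lit 144)) (XT.lf (nat_lit 0) (nat_lit 319996046735) (nat_lit 76) (nat_lit 192062703867) (nat_lit 76) (nat_lit 130655374383) (nat_lit 3) (nat_lit 4) (nat_lit 4) (nat_lit 5) (nat_lit 4) (nat_lit 4) (nat_lit 320) (nat_lit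 257) (nat_lit 143)))) (XT.nd (nat_lit 78) (nat_lit 0) (nat_lit 0) (XT.lf (nat_lit 0) (nat_lit 384738041145) (nat_lit 76) (nat_lit 184537795768) (nat_lit 76) (nat_lit 123129762167) (nat_lit 3) (nat_lit 4) (nat_lit 4) (nat_lit 5) (nat_lit 4) (nat_lit 4) (nat_lit 321) (nat_lit 257) (nat_lit 142)) (XT.nd (nat_lit 78) (nat_lit 0) (nat_lit 0) (XT.lf (nat_lit 0) (nat_lit 454658531106) (nat_lit 76) (nat_lit 176411291825) (nat_lit 76) (nat_lit 115002606262) (nat_lit 3) (nat_lit 4) (nat_lit 4) (nat_lit 5) (nat_lit 4) (nat_lit 4) (nat_lit 322) (nat_lit 257) (nat_lit 141)) (XT.lf (nat_lit 0) (nat_lit 530171860261) (nat_lit 76) (nat_lit 167635034977) (nat_lit 76) (nat_lit 106225745747) (nat_lit 3) (nat_lit 4) (nat_lit 4) (nat_lit 5) (nat_lit 4) (nat_lit 4) (nat_lit 323) (nat_lit 257) (nat_lit 140))))) (XT.nd (nat_lit 234) (nat_lit 0) (nat_lit 0) (XT.nd (nat_lit 78) (nat_lit 0) (nat_lit 0) (XT.lf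 (nat_lit 0) (nat_lit 611725515007) (nat_lit 76) (nat_lit 158157017776) (nat_lit 76) (nat_lit 96747169594) (nat_lit 3) (nat_lit 4) (nat_lit 4) (nat_lit 5) (nat_lit 4) (nat_lit 4) (nat_lit 324) (nat_lit 257) (nat_lit 139)) (XT.nd (nat_lit 78) (nat_lit 0) (nat_lit 0) (XT.lf (nat_lit 0) (nat_lit 699802776260) (nat_lit 76) (nat_lit 147921074194) (nat_lit 76) (nat_lit 86510708464) (nat_lit 3) (nat_lit 4) (nat_lit 4) (nat_lit 5) (nat_lit 4) (nat_lit 4) (nat_lit 325) (nat_lit 257) (nat_lit 138)) (XT.lf (nat_lit 0) (nat_lit 794925583346) (nat_lit 76) (nat_lit 136866546788) (nat_lit 76) (nat_lit 75455701847) (nat_lit 3) (nat_lit 4) (nat_lit 4) (nat_lit 5) (nat_lit 4) (nat_lit 4) (nat_lit 326) (nat_lit 257) (nat_lit 137)))) (XT.nd (nat_lit 156) (nat_lit 0) (nat_lit 0) (XT.nd (nat_lit 78) (nat_lit 0) (nat_lit 0) (XT.lf (nat_lit 0) (nat_lit 897657626974) (nat_lit 76) (nat_lit 124927927247) (nat_lit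 76) (nat_lit 63516638592) (nat_lit 3) (nat_lit 4) (nat_lit 4) (nat_lit 5) (nat_lit 4) (nat_lit 4) (nat_lit 327) (nat_lit 257) (nat_lit 136)) (XT.lf (nat_lit 0) (nat_lit 1008607689624) (nat_lit 76) (nat_lit 112034468197) (nat_lit 76) (nat_lit 50622768695) (nat_lit 3) (nat_lit 4) (nat_lit 4) (nat_lit 5) (nat_lit 4) (nat_lit 4) (nat_lit 328) (nat_lit 257) (nat_lit 135))) (XT.nd (nat_lit 78) (nat_lit 0) (nat_lit 0) (XT.lf (nat_lit 0) (nat_lit 1128433253149) (nat_lit 76) (nat_lit 98109763953) (nat_lit 76) (nat_lit 36697684038) (nat_lit 3) (nat_lit 4) (nat_lit 4) (nat_lit 5) (nat_lit 4) (nat_lit 4) (nat_lit 329) (nat_lit 257) (nat_lit 134)) (XT.lf (nat_lit 0) (nat_lit 1257844394963) (nat_lit 76) (nat_lit 83071297750) (nat_lit 76) (nat_lit 21658865601) (nat_lit 3) (nat_lit 4) (nat_lit 4) (nat_lit 5) (nat_lit 4) (nat_lit 4) (nat_lit 330) (nat_lit 257) (nat_lit 133))))))) (XT.nd (nat_lit 32292)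 (nat_lit 0) (nat_lit 1596) (XT.nd (nat_lit 468) (nat_lit 0) (nat_lit 0) (XT.nd (nat_lit 234) (nat_lit 76) (nat_lit 0) (XT.nd (nat_lit 78) (nat_lit 76) (nat_lit 0) (XT.lf (nat_lit 0) (nat_lit 1397607995906) (nat_lit 76) (nat_lit 66829952751) (nat_lit 76) (nat_lit 5417194459) (nat_lit 3) (nat_lit 4) (nat_lit 4) (nat_lit 5) (nat_lit 4) (nat_lit 4) (nat_lit 331) (nat_lit 257) (nat_lit 132)) (XT.nd (nat_lit 78) (nat_lit 0) (nat_lit 0) (XT.lf (nat_lit 0) (nat_lit 11517105937) (nat_lit 152) (nat_lit 37457479925) (nat_lit 76) (nat_lit 1536720280701) (nat_lit 2) (nat_lit 5) (nat_lit 4) (nat_lit 5) (nat_lit 3) (nat_lit 4) (nat_lit 332) (nat_lit 257) (nat_lit 131)) (XT.lf (nat_lit 0) (nat_lit 29513275290) (nat_lit 152) (nat_lit 25727286) (nat_lit 76) (nat_lit 1681251525554) (nat_lit 2) (nat_lit 5) (nat_lit 4) (nat_lit 5) (nat_lit 3) (nat_lit 4) (nat_lit 333) (nat_lit 257) (nat_lit 130)))) (XT.nd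 (nat_lit 78) (nat_lit 0) (nat_lit 0) (XT.lf (nat_lit 0) (nat_lit 42527615733) (nat_lit 76) (nat_lit 7444122020) (nat_lit 152) (nat_lit 1795840297168) (nat_lit 1) (nat_lit 5) (nat_lit 2) (nat_lit 5) (nat_lit 3) (nat_lit 4) (nat_lit 334) (nat_lit 257) (nat_lit 129)) (XT.nd (nat_lit 78) (nat_lit 0) (nat_lit 0) (XT.lf (nat_lit 0) (nat_lit 72462271976) (nat_lit 152) (nat_lit 1903543752259) (nat_lit 0) (nat_lit 15597606681) (nat_lit 1) (nat_lit 5) (nat_lit 3) (nat_lit 4) (nat_lit 1) (nat_lit 4) (nat_lit 335) (nat_lit 257) (nat_lit 128)) (XT.lf (nat_lit 0) (nat_lit 96945228104) (nat_lit 152) (nat_lit 2012017515096) (nat_lit 0) (nat_lit 40080357284) (nat_lit 1) (nat_lit 5) (nat_lit 3) (nat_lit 4) (nat_lit 1) (nat_lit 4) (nat_lit 336) (nat_lit 257) (nat_lit 127))))) (XT.nd (nat_lit 31512) (nat_lit 0) (nat_lit 2736) (XT.nd (nat_lit 31356) (nat_lit 0) (nat_lit 2660) (XT.lf (nat_lit 0) (nat_lit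 123386659008) (nat_lit 152) (nat_lit 2129169483870) (nat_lit 0) (nat_lit 66521597886) (nat_lit 1) (nat_lit 5) (nat_lit 3) (nat_lit 4) (nat_lit 1) (nat_lit 4) (nat_lit 337) (nat_lit 257) (nat_lit 126)) (XT.nd (nat_lit 78) (nat_lit 0) (nat_lit 0) (XT.lf (nat_lit 0) (nat_lit 2068792042) (nat_lit 532) (nat_lit 3105020382) (nat_lit 532) (nat_lit 3105020382) (nat_lit 36) (nat_lit 3) (nat_lit 43) (nat_lit 3) (nat_lit 43) (nat_lit 5) (nat_lit 258) (nat_lit 258) (nat_lit 204)) (XT.lf (nat_lit 76) (nat_lit 921099695) (nat_lit 0) (nat_lit 3621112893) (nat_lit 532) (nat_lit 12657481128) (nat_lit 37) (nat_lit 5) (nat_lit 36) (nat_lit 3) (nat_lit 43) (nat_lit 5) (nat_lit 259) (nat_lit 258) (nat_lit 203)))) (XT.nd (nat_lit 156) (nat_lit 0) (nat_lit 76) (XT.nd (nat_lit 78) (nat_lit 0) (nat_lit 0) (XT.lf (nat_lit 0) (nat_lit 5219266963) (nat_lit 456) (nat_lit 9010141947) (nat_lit 532) (nat_lit 3644585616)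 (nat_lit 37) (nat_lit 5) (nat_lit 43) (nat_lit 5) (nat_lit 44) (nat_lit 5) (nat_lit 260) (nat_lit 258) (nat_lit 202)) (XT.lf (nat_lit 0) (nat_lit 6024378625) (nat_lit 456) (nat_lit 1267700357) (nat_lit 532) (nat_lit 11304355377) (nat_lit 37) (nat_lit 5) (nat_lit 43) (nat_lit 5) (nat_lit 44) (nat_lit 5) (nat_lit 261) (nat_lit 258) (nat_lit 201))) (XT.nd (nat_lit 78) (nat_lit 0) (nat_lit 0) (XT.lf (nat_lit 0) (nat_lit 7064136593) (nat_lit 456) (nat_lit 11918931492) (nat_lit 532) (nat_lit 380080817) (nat_lit 38) (nat_lit 5) (nat_lit 44) (nat_lit 5) (nat_lit 45) (nat_lit 5) (nat_lit 262) (nat_lit 258) (nat_lit 200)) (XT.lf (nat_lit 0) (nat_lit 8394595361) (nat_lit 456) (nat_lit 3467299366) (nat_lit 532) (nat_lit 8312795487) (nat_lit 38) (nat_lit 5) (nat_lit 44) (nat_lit 5) (nat_lit 45) (nat_lit 5) (nat_lit 263) (nat_lit 258) (nat_lit 199)))))) (XT.nd (nat_lit 468) (nat_lit 608) (nat_lit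 0) (XT.nd (nat_lit 234) (nat_lit 228) (nat_lit 0) (XT.nd (nat_lit 78) (nat_lit 380) (nat_lit 0) (XT.lf (nat_lit 76) (nat_lit 5945130859) (nat_lit 0) (nat_lit 4013186851) (nat_lit 532) (nat_lit 11082775428) (nat_lit 39) (nat_lit 5) (nat_lit 38) (nat_lit 5) (nat_lit 45) (nat_lit 5) (nat_lit 264) (nat_lit 258) (nat_lit 198)) (XT.nd (nat_lit 78) (nat_lit 456) (nat_lit 0) (XT.lf (nat_lit 0) (nat_lit 11836560552) (nat_lit 456) (nat_lit 5785064688) (nat_lit 76) (nat_lit 4340107444) (nat_lit 39) (nat_lit 5) (nat_lit 45) (nat_lit 5) (nat_lit 40) (nat_lit 5) (nat_lit 265) (nat_lit 258) (nat_lit 197)) (XT.lf (nat_lit 0) (nat_lit 4372436834) (nat_lit 456) (nat_lit 9687959687) (nat_lit 532) (nat_lit 8880072589) (nat_lit 33) (nat_lit 5) (nat_lit 39) (nat_lit 5) (nat_lit 40) (nat_lit 5) (nat_lit 266) (nat_lit 258) (nat_lit 196)))) (XT.nd (nat_lit 78) (nat_lit 228) (nat_lit 0) (XT.lf (nat_lit 0) (nat_lit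 15659106922) (nat_lit 456) (nat_lit 947886853) (nat_lit 532) (nat_lit 7378989367) (nat_lit 33) (nat_lit 5) (nat_lit 39) (nat_lit 5) (nat_lit 40) (nat_lit 5) (nat_lit 267) (nat_lit 258) (nat_lit 195)) (XT.nd (nat_lit 78) (nat_lit 0) (nat_lit 0) (XT.lf (nat_lit 0) (nat_lit 2649302197) (nat_lit 228) (nat_lit 16963637424) (nat_lit 304) (nat_lit 5481811091) (nat_lit 30) (nat_lit 5) (nat_lit 33) (nat_lit 5) (nat_lit 34) (nat_lit 5) (nat_lit 268) (nat_lit 258) (nat_lit 194)) (XT.lf (nat_lit 0) (nat_lit 14938952539) (nat_lit 228) (nat_lit 8160381312) (nat_lit 304) (nat_lit 3173745501) (nat_lit 30) (nat_lit 5) (nat_lit 33) (nat_lit 5) (nat_lit 34) (nat_lit 5) (nat_lit 269) (nat_lit 258) (nat_lit 193))))) (XT.nd (nat_lit 234) (nat_lit 380) (nat_lit 0) (XT.nd (nat_lit 78) (nat_lit 76) (nat_lit 0) (XT.lf (nat_lit 0) (nat_lit 654165037) (nat_lit 152) (nat_lit 26247763692) (nat_lit 228) (nat_lit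 640815650) (nat_lit 28) (nat_lit 5) (nat_lit 30) (nat_lit 5) (nat_lit 31) (nat_lit 5) (nat_lit 270) (nat_lit 258) (nat_lit 192)) (XT.nd (nat_lit 78) (nat_lit 0) (nat_lit 0) (XT.lf (nat_lit 0) (nat_lit 2509221539) (nat_lit 228) (nat_lit 14926031390) (nat_lit 76) (nat_lit 11433204150) (nat_lit 27) (nat_lit 5) (nat_lit 30) (nat_lit 5) (nat_lit 28) (nat_lit 5) (nat_lit 271) (nat_lit 258) (nat_lit 191)) (XT.lf (nat_lit 0) (nat_lit 5866787742) (nat_lit 228) (nat_lit 2034750577) (nat_lit 76) (nat_lit 22398187422) (nat_lit 27) (nat_lit 5) (nat_lit 30) (nat_lit 5) (nat_lit 28) (nat_lit 5) (nat_lit 272) (nat_lit 258) (nat_lit 190)))) (XT.nd (nat_lit 156) (nat_lit 152) (nat_lit 0) (XT.nd (nat_lit 78) (nat_lit 0) (nat_lit 0) (XT.lf (nat_lit 0) (nat_lit 9849888381) (nat_lit 304) (nat_lit 19385084528) (nat_lit 76) (nat_lit 2582007778) (nat_lit 24) (nat_lit 5) (nat_lit 28) (nat_lit 5) (nat_lit 25)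 (nat_lit 5) (nat_lit 273) (nat_lit 258) (nat_lit 189)) (XT.lf (nat_lit 0) (nat_lit 14405207494) (nat_lit 304) (nat_lit 5497434187) (nat_lit 76) (nat_lit 13532724936) (nat_lit 24) (nat_lit 5) (nat_lit 28) (nat_lit 5) (nat_lit 25) (nat_lit 5) (nat_lit 274) (nat_lit 258) (nat_lit 188))) (XT.nd (nat_lit 78) (nat_lit 0) (nat_lit 0) (XT.lf (nat_lit 0) (nat_lit 9990647335) (nat_lit 152) (nat_lit 9566484686) (nat_lit 228) (nat_lit 15607550550) (nat_lit 22) (nat_lit 5) (nat_lit 24) (nat_lit 5) (nat_lit 25) (nat_lit 5) (nat_lit 275) (nat_lit 258) (nat_lit 187)) (XT.lf (nat_lit 0) (nat_lit 25306026628) (nat_lit 228) (nat_lit 10042886188) (nat_lit 76) (nat_lit 1668676754) (nat_lit 22) (nat_lit 5) (nat_lit 25) (nat_lit 5) (nat_lit 23) (nat_lit 5) (nat_lit 276) (nat_lit 258) (nat_lit 186))))))))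
noncomputable def xc82 : XT := (XT.nd (nat_lit 1950) (nat_lit 228) (nat_lit 0) (XT.nd (nat_lit 936) (nat_lit 380) (nat_lit 0) (XT.nd (nat_lit 468) (nat_lit 304) (nat_lit 0) (XT.nd (nat_lit 234) (nat_lit 152) (nat_lit 0) (XT.nd (nat_lit 78) (nat_lit 228) (nat_lit 0) (XT.lf (nat_lit 0) (nat_lit 6358456991) (nat_lit 152) (nat_lit 25550559340) (nat_lit 228) (nat_lit 7078206868) (nat_lit 20) (nat_lit 5) (nat_lit 22) (nat_lit 5) (nat_lit 23) (nat_lit 5) (nat_lit 277) (nat_lit 258) (nat_lit 185)) (XT.nd (nat_lit 78) (nat_lit 228) (nat_lit 0) (XT.lf (nat_lit 0) (nat_lit 24633412486) (nat_lit 152) (nat_lit 14674508120) (nat_lit 228) (nat_lit 1785119507) (nat_lit 20) (nat_lit 5) (nat_lit 22) (nat_lit 5) (nat_lit 23) (nat_lit 5) (nat_lit 278) (nat_lit 258) (nat_lit 184)) (XT.lf (nat_lit 0) (nat_lit 946542663) (nat_lit 152) (nat_lit 2804378843) (nat_lit 228) (nat_lit 39607565895) (nat_lit 17)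 (nat_lit 5) (nat_lit 19) (nat_lit 5) (nat_lit 20) (nat_lit 5) (nat_lit 279) (nat_lit 258) (nat_lit 183)))) (XT.nd (nat_lit 78) (nat_lit 152) (nat_lit 0) (XT.lf (nat_lit 0) (nat_lit 10329609280) (nat_lit 228) (nat_lit 25396337314) (nat_lit 76) (nat_lit 10019839170) (nat_lit 17) (nat_lit 5) (nat_lit 20) (nat_lit 5) (nat_lit 18) (nat_lit 5) (nat_lit 280) (nat_lit 258) (nat_lit 182)) (XT.nd (nat_lit 78) (nat_lit 152) (nat_lit 0) (XT.lf (nat_lit 0) (nat_lit 17501518282) (nat_lit 228) (nat_lit 7101141026) (nat_lit 76) (nat_lit 23716074162) (nat_lit 17) (nat_lit 5) (nat_lit 20) (nat_lit 5) (nat_lit 18) (nat_lit 5) (nat_lit 281) (nat_lit 258) (nat_lit 181)) (XT.lf (nat_lit 0) (nat_lit 13315606023) (nat_lit 152) (nat_lit 12246337955) (nat_lit 228) (nat_lit 25510410017) (nat_lit 15) (nat_lit 5) (nat_lit 17) (nat_lit 5) (nat_lit 18) (nat_lit 5) (nat_lit 282) (nat_lit 258) (nat_lit 180))))) (XT.nd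 (nat_lit 234) (nat_lit 228) (nat_lit 0) (XT.nd (nat_lit 78) (nat_lit 76) (nat_lit 0) (XT.lf (nat_lit 0) (nat_lit 34487496014) (nat_lit 228) (nat_lit 18300983954) (nat_lit 76) (nat_lit 1240177590) (nat_lit 15) (nat_lit 5) (nat_lit 18) (nat_lit 5) (nat_lit 16) (nat_lit 4) (nat_lit 283) (nat_lit 258) (nat_lit 179)) (XT.nd (nat_lit 78) (nat_lit 0) (nat_lit 0) (XT.lf (nat_lit 0) (nat_lit 2511053002) (nat_lit 76) (nat_lit 41989584159) (nat_lit 152) (nat_lit 12690960185) (nat_lit 14) (nat_lit 5) (nat_lit 15) (nat_lit 5) (nat_lit 16) (nat_lit 4) (nat_lit 284) (nat_lit 258) (nat_lit 178)) (XT.lf (nat_lit 0) (nat_lit 26021326872) (nat_lit 76) (nat_lit 29789135970) (nat_lit 152) (nat_lit 4757473200) (nat_lit 14) (nat_lit 5) (nat_lit 15) (nat_lit 5) (nat_lit 16) (nat_lit 4) (nat_lit 285) (nat_lit 258) (nat_lit 177)))) (XT.nd (nat_lit 78) (nat_lit 152) (nat_lit 0) (XT.lf (nat_lit 0) (nat_lit 3615543231)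 (nat_lit 152) (nat_lit 12900819193) (nat_lit 76) (nat_lit 47691061821) (nat_lit 13) (nat_lit 5) (nat_lit 15) (nat_lit 5) (nat_lit 14) (nat_lit 5) (nat_lit 286) (nat_lit 258) (nat_lit 176)) (XT.nd (nat_lit 78) (nat_lit 0) (nat_lit 0) (XT.lf (nat_lit 0) (nat_lit 10891207058) (nat_lit 152) (nat_lit 1767912414) (nat_lit 228) (nat_lit 55448458143) (nat_lit 11) (nat_lit 5) (nat_lit 13) (nat_lit 5) (nat_lit 14) (nat_lit 5) (nat_lit 287) (nat_lit 258) (nat_lit 175)) (XT.lf (nat_lit 0) (nat_lit 23124539201) (nat_lit 228) (nat_lit 35327751678) (nat_lit 76) (nat_lit 13811594358) (nat_lit 11) (nat_lit 5) (nat_lit 14) (nat_lit 5) (nat_lit 12) (nat_lit 4) (nat_lit 288) (nat_lit 258) (nat_lit 174)))))) (XT.nd (nat_lit 468) (nat_lit 152) (nat_lit 0) (XT.nd (nat_lit 234) (nat_lit 152) (nat_lit 0) (XT.nd (nat_lit 78) (nat_lit 76) (nat_lit 0) (XT.lf (nat_lit 0) (nat_lit 34469321559) (nat_lit 228) (nat_lit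 11740243844) (nat_lit 76) (nat_lit 30539771531) (nat_lit 11) (nat_lit 5) (nat_lit 14) (nat_lit 5) (nat_lit 12) (nat_lit 4) (nat_lit 289) (nat_lit 258) (nat_lit 173)) (XT.nd (nat_lit 78) (nat_lit 0) (nat_lit 0) (XT.lf (nat_lit 0) (nat_lit 14451364903) (nat_lit 76) (nat_lit 32614367321) (nat_lit 152) (nat_lit 34500377950) (nat_lit 10) (nat_lit 5) (nat_lit 11) (nat_lit 5) (nat_lit 12) (nat_lit 4) (nat_lit 290) (nat_lit 258) (nat_lit 172)) (XT.lf (nat_lit 0) (nat_lit 43400312138) (nat_lit 76) (nat_lit 17587156398) (nat_lit 152) (nat_lit 25755356109) (nat_lit 10) (nat_lit 5) (nat_lit 11) (nat_lit 5) (nat_lit 12) (nat_lit 4) (nat_lit 291) (nat_lit 258) (nat_lit 171)))) (XT.nd (nat_lit 78) (nat_lit 152) (nat_lit 0) (XT.lf (nat_lit 0) (nat_lit 74659926740) (nat_lit 76) (nat_lit 1359881568) (nat_lit 152) (nat_lit 16314126572) (nat_lit 10) (nat_lit 5) (nat_lit 11) (nat_lit 5) (nat_lit 12) (nat_lit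 4) (nat_lit 292) (nat_lit 258) (nat_lit 170)) (XT.nd (nat_lit 78) (nat_lit 76) (nat_lit 0) (XT.lf (nat_lit 0) (nat_lit 10162512076) (nat_lit 76) (nat_lit 82722464076) (nat_lit 76) (nat_lit 5436945705) (nat_lit 9) (nat_lit 4) (nat_lit 10) (nat_lit 5) (nat_lit 10) (nat_lit 4) (nat_lit 293) (nat_lit 258) (nat_lit 169)) (XT.lf (nat_lit 0) (nat_lit 6522918850) (nat_lit 152) (nat_lit 63723921664) (nat_lit 76) (nat_lit 34487717691) (nat_lit 8) (nat_lit 5) (nat_lit 10) (nat_lit 5) (nat_lit 9) (nat_lit 4) (nat_lit 294) (nat_lit 258) (nat_lit 168))))) (XT.nd (nat_lit 234) (nat_lit 76) (nat_lit 0) (XT.nd (nat_lit 78) (nat_lit 76) (nat_lit 0) (XT.lf (nat_lit 0) (nat_lit 19143122866) (nat_lit 152) (nat_lit 37479521849) (nat_lit 76) (nat_lit 55026485982) (nat_lit 8) (nat_lit 5) (nat_lit 10) (nat_lit 5) (nat_lit 9) (nat_lit 4) (nat_lit 295) (nat_lit 258) (nat_lit 167)) (XT.nd (nat_lit 78) (nat_lit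 76) (nat_lit 0) (XT.lf (nat_lit 0) (nat_lit 32770430780) (nat_lit 152) (nat_lit 9139929294) (nat_lit 76) (nat_lit 77206715197) (nat_lit 8) (nat_lit 5) (nat_lit 10) (nat_lit 5) (nat_lit 9) (nat_lit 4) (nat_lit 296) (nat_lit 258) (nat_lit 166)) (XT.lf (nat_lit 0) (nat_lit 22592987040) (nat_lit 76) (nat_lit 25435971850) (nat_lit 152) (nat_lit 79110218573) (nat_lit 7) (nat_lit 5) (nat_lit 8) (nat_lit 5) (nat_lit 9) (nat_lit 4) (nat_lit 297) (nat_lit 258) (nat_lit 165)))) (XT.nd (nat_lit 156) (nat_lit 76) (nat_lit 0) (XT.nd (nat_lit 78) (nat_lit 0) (nat_lit 0) (XT.lf (nat_lit 0) (nat_lit 57380398409) (nat_lit 76) (nat_lit 7375424092) (nat_lit 152) (nat_lit 71027417606) (nat_lit 7) (nat_lit 5) (nat_lit 8) (nat_lit 5) (nat_lit 9) (nat_lit 4) (nat_lit 298) (nat_lit 258) (nat_lit 164)) (XT.lf (nat_lit 0) (nat_lit 83110441626) (nat_lit 152) (nat_lit 50463527046) (nat_lit 0) (nat_lit 11521694775)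 (nat_lit 7) (nat_lit 5) (nat_lit 9) (nat_lit 4) (nat_lit 7) (nat_lit 4) (nat_lit 299) (nat_lit 258) (nat_lit 163))) (XT.nd (nat_lit 78) (nat_lit 76) (nat_lit 0) (XT.lf (nat_lit 0) (nat_lit 103123037158) (nat_lit 152) (nat_lit 20484132939) (nat_lit 0) (nat_lit 31530745893) (nat_lit 7) (nat_lit 5) (nat_lit 9) (nat_lit 4) (nat_lit 7) (nat_lit 4) (nat_lit 300) (nat_lit 258) (nat_lit 162)) (XT.lf (nat_lit 0) (nat_lit 12516501516) (nat_lit 76) (nat_lit 112519343776) (nat_lit 76) (nat_lit 40923770648) (nat_lit 6) (nat_lit 4) (nat_lit 7) (nat_lit 5) (nat_lit 7) (nat_lit 4) (nat_lit 301) (nat_lit 258) (nat_lit 161))))))) (XT.nd (nat_lit 1014) (nat_lit 76) (nat_lit 0) (XT.nd (nat_lit 468) (nat_lit 0) (nat_lit 0) (XT.nd (nat_lit 234) (nat_lit 152) (nat_lit 0) (XT.nd (nat_lit 78) (nat_lit 0) (nat_lit 0) (XT.lf (nat_lit 0) (nat_lit 49318982197) (nat_lit 76) (nat_lit 99941009897) (nat_lit 76) (nat_lit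 28342398004) (nat_lit 6) (nat_lit 4) (nat_lit 7) (nat_lit 5) (nat_lit 7) (nat_lit 4) (nat_lit 302) (nat_lit 258) (nat_lit 160)) (XT.nd (nat_lit 78) (nat_lit 0) (nat_lit 0) (XT.lf (nat_lit 0) (nat_lit 89062739738) (nat_lit 76) (nat_lit 86357702679) (nat_lit 76) (nat_lit 14756277116) (nat_lit 6) (nat_lit 4) (nat_lit 7) (nat_lit 5) (nat_lit 7) (nat_lit 4) (nat_lit 303) (nat_lit 258) (nat_lit 159)) (XT.lf (nat_lit 0) (nat_lit 131983292702) (nat_lit 76) (nat_lit 71688928450) (nat_lit 76) (nat_lit 84897637) (nat_lit 6) (nat_lit 4) (nat_lit 7) (nat_lit 5) (nat_lit 7) (nat_lit 4) (nat_lit 304) (nat_lit 258) (nat_lit 158)))) (XT.nd (nat_lit 78) (nat_lit 76) (nat_lit 0) (XT.lf (nat_lit 0) (nat_lit 14970368846) (nat_lit 152) (nat_lit 40468075880) (nat_lit 76) (nat_lit 162955299847) (nat_lit 5) (nat_lit 5) (nat_lit 7) (nat_lit 5) (nat_lit 6) (nat_lit 4) (nat_lit 305) (nat_lit 258) (nat_lit 157))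 (XT.nd (nat_lit 78) (nat_lit 76) (nat_lit 0) (XT.lf (nat_lit 0) (nat_lit 31224141536) (nat_lit 152) (nat_lit 6662462266) (nat_lit 76) (nat_lit 196314628749) (nat_lit 5) (nat_lit 5) (nat_lit 7) (nat_lit 5) (nat_lit 6) (nat_lit 4) (nat_lit 306) (nat_lit 258) (nat_lit 156)) (XT.lf (nat_lit 0) (nat_lit 31416991247) (nat_lit 76) (nat_lit 18115574157) (nat_lit 152) (nat_lit 201680408316) (nat_lit 4) (nat_lit 5) (nat_lit 5) (nat_lit 5) (nat_lit 6) (nat_lit 4) (nat_lit 307) (nat_lit 258) (nat_lit 155))))) (XT.nd (nat_lit 234) (nat_lit 0) (nat_lit 0) (XT.nd (nat_lit 78) (nat_lit 0) (nat_lit 0) (XT.lf (nat_lit 0) (nat_lit 69569197377) (nat_lit 152) (nat_lit 196734196905) (nat_lit 0) (nat_lit 3261179109) (nat_lit 4) (nat_lit 5) (nat_lit 6) (nat_lit 4) (nat_lit 4) (nat_lit 4) (nat_lit 308) (nat_lit 258) (nat_lit 154)) (XT.nd (nat_lit 78) (nat_lit 0) (nat_lit 0) (XT.lf (nat_lit 0) (nat_lit 91678170142)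 (nat_lit 152) (nat_lit 172300069751) (nat_lit 0) (nat_lit 25368510124) (nat_lit 4) (nat_lit 5) (nat_lit 6) (nat_lit 4) (nat_lit 4) (nat_lit 4) (nat_lit 309) (nat_lit 258) (nat_lit 153)) (XT.lf (nat_lit 0) (nat_lit 115554819840) (nat_lit 152) (nat_lit 145913126190) (nat_lit 0) (nat_lit 49243639683) (nat_lit 4) (nat_lit 5) (nat_lit 6) (nat_lit 4) (nat_lit 4) (nat_lit 4) (nat_lit 310) (nat_lit 258) (nat_lit 152)))) (XT.nd (nat_lit 156) (nat_lit 0) (nat_lit 0) (XT.nd (nat_lit 78) (nat_lit 0) (nat_lit 0) (XT.lf (nat_lit 0) (nat_lit 141340637727) (nat_lit 152) (nat_lit 117416999148) (nat_lit 0) (nat_lit 75028050035) (nat_lit 4) (nat_lit 5) (nat_lit 6) (nat_lit 4) (nat_lit 4) (nat_lit 4) (nat_lit 311) (nat_lit 258) (nat_lit 151)) (XT.lf (nat_lit 0) (nat_lit 169188428651) (nat_lit 152) (nat_lit 86642822689) (nat_lit 0) (nat_lit 102874537685) (nat_lit 4) (nat_lit 5) (nat_lit 6) (nat_lit 4)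 (nat_lit 4) (nat_lit 4) (nat_lit 312) (nat_lit 258) (nat_lit 150))) (XT.nd (nat_lit 78) (nat_lit 0) (nat_lit 0) (XT.lf (nat_lit 0) (nat_lit 199263216557) (nat_lit 152) (nat_lit 53408231321) (nat_lit 0) (nat_lit 132948118857) (nat_lit 4) (nat_lit 5) (nat_lit 6) (nat_lit 4) (nat_lit 4) (nat_lit 4) (nat_lit 313) (nat_lit 258) (nat_lit 149)) (XT.lf (nat_lit 0) (nat_lit 231743222412) (nat_lit 152) (nat_lit 17516279318) (nat_lit 0) (nat_lit 165427007365) (nat_lit 4) (nat_lit 5) (nat_lit 6) (nat_lit 4) (nat_lit 4) (nat_lit 4) (nat_lit 314) (nat_lit 258) (nat_lit 148)))))) (XT.nd (nat_lit 468) (nat_lit 0) (nat_lit 0) (XT.nd (nat_lit 234) (nat_lit 0) (nat_lit 0) (XT.nd (nat_lit 78) (nat_lit 0) (nat_lit 0) (XT.lf (nat_lit 0) (nat_lit 22364488667) (nat_lit 76) (nat_lit 244994298147) (nat_lit 76) (nat_lit 178677048519) (nat_lit 3) (nat_lit 4) (nat_lit 4) (nat_lit 5) (nat_lit 4) (nat_lit 4) (nat_lit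 315) (nat_lit 258) (nat_lit 147)) (XT.nd (nat_lit 78) (nat_lit 0) (nat_lit 0) (XT.lf (nat_lit 0) (nat_lit 66430614916) (nat_lit 76) (nat_lit 239871221102) (nat_lit 76) (nat_lit 173553013530) (nat_lit 3) (nat_lit 4) (nat_lit 4) (nat_lit 5) (nat_lit 4) (nat_lit 4) (nat_lit 316) (nat_lit 258) (nat_lit 146)) (XT.lf (nat_lit 0) (nat_lit 114020855799) (nat_lit 76) (nat_lit 234338837741) (nat_lit 76) (nat_lit 168019743182) (nat_lit 3) (nat_lit 4) (nat_lit 4) (nat_lit 5) (nat_lit 4) (nat_lit 4) (nat_lit 317) (nat_lit 258) (nat_lit 145)))) (XT.nd (nat_lit 78) (nat_lit 0) (nat_lit 0) (XT.lf (nat_lit 0) (nat_lit 165417227559) (nat_lit 76) (nat_lit 228364363568) (nat_lit 76) (nat_lit 162044447726) (nat_lit 3) (nat_lit 4) (nat_lit 4) (nat_lit 5) (nat_lit 4) (nat_lit 4) (nat_lit 318) (nat_lit 258) (nat_lit 144)) (XT.nd (nat_lit 78) (nat_lit 0) (nat_lit 0) (XT.lf (nat_lit 0) (nat_lit 220924301289)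 (nat_lit 76) (nat_lit 221912394293) (nat_lit 76) (nat_lit 155591718004) (nat_lit 3) (nat_lit 4) (nat_lit 4) (nat_lit 5) (nat_lit 4) (nat_lit 4) (nat_lit 319) (nat_lit 258) (nat_lit 143)) (XT.lf (nat_lit 0) (nat_lit 280871007795) (nat_lit 76) (nat_lit 214944696024) (nat_lit 76) (nat_lit 148623315616) (nat_lit 3) (nat_lit 4) (nat_lit 4) (nat_lit 5) (nat_lit 4) (nat_lit 4) (nat_lit 320) (nat_lit 258) (nat_lit 142))))) (XT.nd (nat_lit 234) (nat_lit 0) (nat_lit 0) (XT.nd (nat_lit 78) (nat_lit 0) (nat_lit 0) (XT.lf (nat_lit 0) (nat_lit 345612586819) (nat_lit 76) (nat_lit 207419978696) (nat_lit 76) (nat_lit 141097946327) (nat_lit 3) (nat_lit 4) (nat_lit 4) (nat_lit 5) (nat_lit 4) (nat_lit 4) (nat_lit 321) (nat_lit 258) (nat_lit 141)) (XT.nd (nat_lit 78) (nat_lit 0) (nat_lit 0) (XT.lf (nat_lit 0) (nat_lit 415532692164) (nat_lit 76) (nat_lit 199293651393) (nat_lit 76) (nat_lit 132971015356)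 (nat_lit 3) (nat_lit 4) (nat_lit 4) (nat_lit 5) (nat_lit 4) (nat_lit 4) (nat_lit 322) (nat_lit 258) (nat_lit 140)) (XT.lf (nat_lit 0) (nat_lit 491045665193) (nat_lit 76) (nat_lit 190517558100) (nat_lit 76) (nat_lit 124194363112) (nat_lit 3) (nat_lit 4) (nat_lit 4) (nat_lit 5) (nat_lit 4) (nat_lit 4) (nat_lit 323) (nat_lit 258) (nat_lit 139)))) (XT.nd (nat_lit 156) (nat_lit 0) (nat_lit 0) (XT.nd (nat_lit 78) (nat_lit 0) (nat_lit 0) (XT.lf (nat_lit 0) (nat_lit 572598990193) (nat_lit 76) (nat_lit 181039692339) (nat_lit 76) (nat_lit 114715979803) (nat_lit 3) (nat_lit 4) (nat_lit 4) (nat_lit 5) (nat_lit 4) (nat_lit 4) (nat_lit 324) (nat_lit 258) (nat_lit 138)) (XT.lf (nat_lit 0) (nat_lit 660675946125) (nat_lit 76) (nat_lit 170803888980) (nat_lit 76) (nat_lit 104479697232) (nat_lit 3) (nat_lit 4) (nat_lit 4) (nat_lit 5) (nat_lit 4) (nat_lit 4) (nat_lit 325) (nat_lit 258) (nat_lit 137)))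 (XT.nd (nat_lit 78) (nat_lit 0) (nat_lit 0) (XT.lf (nat_lit 0) (nat_lit 755798470507) (nat_lit 76) (nat_lit 159749491409) (nat_lit 76) (nat_lit 93424855948) (nat_lit 3) (nat_lit 4) (nat_lit 4) (nat_lit 5) (nat_lit 4) (nat_lit 4) (nat_lit 326) (nat_lit 258) (nat_lit 136)) (XT.lf (nat_lit 0) (nat_lit 858530252371) (nat_lit 76) (nat_lit 147810992086) (nat_lit 76) (nat_lit 81485945779) (nat_lit 3) (nat_lit 4) (nat_lit 4) (nat_lit 5) (nat_lit 4) (nat_lit 4) (nat_lit 327) (nat_lit 258) (nat_lit 135))))))))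
noncomputable def xc83 : XT := (XT.nd (nat_lit 33384) (nat_lit 0) (nat_lit 456) (XT.nd (nat_lit 32370) (nat_lit 0) (nat_lit 1748) (XT.nd (nat_lit 468) (nat_lit 76) (nat_lit 0) (XT.nd (nat_lit 234) (nat_lit 76) (nat_lit 0) (XT.nd (nat_lit 78) (nat_lit 0) (nat_lit 0) (XT.lf (nat_lit 0) (nat_lit 969480072647) (nat_lit 76) (nat_lit 134917644348) (nat_lit 76) (nat_lit 68592217628) (nat_lit 3) (nat_lit 4) (nat_lit 4) (nat_lit 5) (nat_lit 4) (nat_lit 4) (nat_lit 328) (nat_lit 258) (nat_lit 134)) (XT.nd (nat_lit 78) (nat_lit 0) (nat_lit 0) (XT.lf (nat_lit 0) (nat_lit 1089305411753) (nat_lit 76) (nat_lit 120993043172) (nat_lit 76) (nat_lit 54667264217) (nat_lit 3) (nat_lit 4) (nat_lit 4) (nat_lit 5) (nat_lit 4) (nat_lit 4) (nat_lit 329) (nat_lit 258) (nat_lit 133)) (XT.lf (nat_lit 0) (nat_lit 1218716345771) (nat_lit 76) (nat_lit 105954672402) (nat_lit 76) (nat_lit 39628567304) (nat_lit 3) (nat_lit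 4) (nat_lit 4) (nat_lit 5) (nat_lit 4) (nat_lit 4) (nat_lit 330) (nat_lit 258) (nat_lit 132)))) (XT.nd (nat_lit 78) (nat_lit 76) (nat_lit 0) (XT.lf (nat_lit 0) (nat_lit 1358479754310) (nat_lit 76) (nat_lit 89713415767) (nat_lit 76) (nat_lit 23387008685) (nat_lit 3) (nat_lit 4) (nat_lit 4) (nat_lit 5) (nat_lit 4) (nat_lit 4) (nat_lit 331) (nat_lit 258) (nat_lit 131)) (XT.nd (nat_lit 78) (nat_lit 76) (nat_lit 0) (XT.lf (nat_lit 0) (nat_lit 1509423864977) (nat_lit 76) (nat_lit 72173028783) (nat_lit 76) (nat_lit 5846342086) (nat_lit 3) (nat_lit 4) (nat_lit 4) (nat_lit 5) (nat_lit 4) (nat_lit 4) (nat_lit 332) (nat_lit 258) (nat_lit 130)) (XT.lf (nat_lit 0) (nat_lit 12442193331) (nat_lit 152) (nat_lit 40447183470) (nat_lit 76) (nat_lit 1659660776443) (nat_lit 2) (nat_lit 5) (nat_lit 4) (nat_lit 5) (nat_lit 3) (nat_lit 4) (nat_lit 333) (nat_lit 258) (nat_lit 129))))) (XT.nd (nat_lit 234)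 (nat_lit 0) (nat_lit 0) (XT.nd (nat_lit 78) (nat_lit 76) (nat_lit 0) (XT.lf (nat_lit 0) (nat_lit 31877780756) (nat_lit 152) (nat_lit 21401350) (nat_lit 76) (nat_lit 1815754308049) (nat_lit 2) (nat_lit 5) (nat_lit 4) (nat_lit 5) (nat_lit 3) (nat_lit 4) (nat_lit 334) (nat_lit 258) (nat_lit 128)) (XT.nd (nat_lit 78) (nat_lit 0) (nat_lit 0) (XT.lf (nat_lit 0) (nat_lit 45936047487) (nat_lit 76) (nat_lit 8036767310) (nat_lit 152) (nat_lit 1939503911477) (nat_lit 1) (nat_lit 5) (nat_lit 2) (nat_lit 5) (nat_lit 3) (nat_lit 4) (nat_lit 335) (nat_lit 258) (nat_lit 127)) (XT.lf (nat_lit 0) (nat_lit 78262408731) (nat_lit 152) (nat_lit 2055821303769) (nat_lit 0) (nat_lit 16847952418) (nat_lit 1) (nat_lit 5) (nat_lit 3) (nat_lit 4) (nat_lit 1) (nat_lit 4) (nat_lit 336) (nat_lit 258) (nat_lit 126)))) (XT.nd (nat_lit 31512) (nat_lit 0) (nat_lit 2660) (XT.nd (nat_lit 31434) (nat_lit 0) (nat_lit 2660)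 (XT.lf (nat_lit 0) (nat_lit 104703767645) (nat_lit 152) (nat_lit 2172973408276) (nat_lit 0) (nat_lit 43289135128) (nat_lit 1) (nat_lit 5) (nat_lit 3) (nat_lit 4) (nat_lit 1) (nat_lit 4) (nat_lit 337) (nat_lit 258) (nat_lit 125)) (XT.lf (nat_lit 0) (nat_lit 2446049879) (nat_lit 532) (nat_lit 3238514152) (nat_lit 532) (nat_lit 3238514152) (nat_lit 36) (nat_lit 3) (nat_lit 43) (nat_lit 3) (nat_lit 43) (nat_lit 5) (nat_lit 259) (nat_lit 259) (nat_lit 202))) (XT.nd (nat_lit 78) (nat_lit 0) (nat_lit 76) (XT.lf (nat_lit 76) (nat_lit 1218785273) (nat_lit 0) (nat_lit 4084329384) (nat_lit 532) (nat_lit 13238676829) (nat_lit 37) (nat_lit 5) (nat_lit 36) (nat_lit 3) (nat_lit 43) (nat_lit 5) (nat_lit 260) (nat_lit 259) (nat_lit 201)) (XT.lf (nat_lit 0) (nat_lit 6001022878) (nat_lit 456) (nat_lit 9488315646) (nat_lit 532) (nat_lit 3783516434) (nat_lit 37) (nat_lit 5) (nat_lit 43) (nat_lit 5) (nat_lit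 44) (nat_lit 5) (nat_lit 261) (nat_lit 259) (nat_lit 200)))))) (XT.nd (nat_lit 468) (nat_lit 684) (nat_lit 0) (XT.nd (nat_lit 234) (nat_lit 304) (nat_lit 0) (XT.nd (nat_lit 78) (nat_lit 0) (nat_lit 76) (XT.lf (nat_lit 0) (nat_lit 6843564617) (nat_lit 456) (nat_lit 1144451888) (nat_lit 532) (nat_lit 12067374149) (nat_lit 37) (nat_lit 5) (nat_lit 43) (nat_lit 5) (nat_lit 44) (nat_lit 5) (nat_lit 262) (nat_lit 259) (nat_lit 199)) (XT.nd (nat_lit 78) (nat_lit 0) (nat_lit 0) (XT.lf (nat_lit 0) (nat_lit 7944419190) (nat_lit 456) (nat_lit 12624049707) (nat_lit 532) (nat_lit 316872009) (nat_lit 38) (nat_lit 5) (nat_lit 44) (nat_lit 5) (nat_lit 45) (nat_lit 5) (nat_lit 263) (nat_lit 259) (nat_lit 198)) (XT.lf (nat_lit 0) (nat_lit 9357970091) (nat_lit 456) (nat_lit 3514686737) (nat_lit 532) (nat_lit 8891138317) (nat_lit 38) (nat_lit 5) (nat_lit 44) (nat_lit 5) (nat_lit 45) (nat_lit 5) (nat_lit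 264) (nat_lit 259) (nat_lit 197)))) (XT.nd (nat_lit 78) (nat_lit 380) (nat_lit 0) (XT.lf (nat_lit 76) (nat_lit 6644915208) (nat_lit 0) (nat_lit 4385651067) (nat_lit 532) (nat_lit 11670354961) (nat_lit 39) (nat_lit 5) (nat_lit 38) (nat_lit 5) (nat_lit 45) (nat_lit 5) (nat_lit 265) (nat_lit 259) (nat_lit 196)) (XT.nd (nat_lit 78) (nat_lit 456) (nat_lit 0) (XT.lf (nat_lit 0) (nat_lit 13037510168) (nat_lit 456) (nat_lit 6017435023) (nat_lit 76) (nat_lit 4642096070) (nat_lit 39) (nat_lit 5) (nat_lit 45) (nat_lit 5) (nat_lit 40) (nat_lit 5) (nat_lit 266) (nat_lit 259) (nat_lit 195)) (XT.lf (nat_lit 0) (nat_lit 4946832828) (nat_lit 456) (nat_lit 10479005197) (nat_lit 532) (nat_lit 9329408666) (nat_lit 33) (nat_lit 5) (nat_lit 39) (nat_lit 5) (nat_lit 40) (nat_lit 5) (nat_lit 267) (nat_lit 259) (nat_lit 194))))) (XT.nd (nat_lit 234) (nat_lit 456) (nat_lit 0) (XT.nd (nat_lit 78) (nat_lit 228)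 (nat_lit 0) (XT.lf (nat_lit 0) (nat_lit 17119799408) (nat_lit 456) (nat_lit 1038540704) (nat_lit 532) (nat_lit 7727577285) (nat_lit 33) (nat_lit 5) (nat_lit 39) (nat_lit 5) (nat_lit 40) (nat_lit 5) (nat_lit 268) (nat_lit 259) (nat_lit 193)) (XT.nd (nat_lit 78) (nat_lit 0) (nat_lit 0) (XT.lf (nat_lit 0) (nat_lit 3082757652) (nat_lit 228) (nat_lit 18310498513) (nat_lit 304) (nat_lit 5691133716) (nat_lit 30) (nat_lit 5) (nat_lit 33) (nat_lit 5) (nat_lit 34) (nat_lit 5) (nat_lit 269) (nat_lit 259) (nat_lit 192)) (XT.lf (nat_lit 0) (nat_lit 16339171779) (nat_lit 228) (nat_lit 8803739683) (nat_lit 304) (nat_lit 3215402305) (nat_lit 30) (nat_lit 5) (nat_lit 33) (nat_lit 5) (nat_lit 34) (nat_lit 5) (nat_lit 270) (nat_lit 259) (nat_lit 191)))) (XT.nd (nat_lit 156) (nat_lit 228) (nat_lit 0) (XT.nd (nat_lit 78) (nat_lit 76) (nat_lit 0) (XT.lf (nat_lit 0) (nat_lit 922378135) (nat_lit 152) (nat_lit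 28318247464) (nat_lit 228) (nat_lit 489724683) (nat_lit 28) (nat_lit 5) (nat_lit 30) (nat_lit 5) (nat_lit 31) (nat_lit 5) (nat_lit 271) (nat_lit 259) (nat_lit 190)) (XT.lf (nat_lit 0) (nat_lit 2887953282) (nat_lit 228) (nat_lit 15910089020) (nat_lit 76) (nat_lit 12364888582) (nat_lit 27) (nat_lit 5) (nat_lit 30) (nat_lit 5) (nat_lit 28) (nat_lit 5) (nat_lit 272) (nat_lit 259) (nat_lit 189))) (XT.nd (nat_lit 78) (nat_lit 228) (nat_lit 0) (XT.lf (nat_lit 0) (nat_lit 6500940039) (nat_lit 228) (nat_lit 2003063141) (nat_lit 76) (nat_lit 24205809174) (nat_lit 27) (nat_lit 5) (nat_lit 30) (nat_lit 5) (nat_lit 28) (nat_lit 5) (nat_lit 273) (nat_lit 259) (nat_lit 188)) (XT.lf (nat_lit 0) (nat_lit 10795818027) (nat_lit 304) (nat_lit 20733898752) (nat_lit 76) (nat_lit 2819332922) (nat_lit 24) (nat_lit 5) (nat_lit 28) (nat_lit 5) (nat_lit 25) (nat_lit 5) (nat_lit 274) (nat_lit 259) (nat_lit 187)))))))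 (XT.nd (nat_lit 1014) (nat_lit 456) (nat_lit 0) (XT.nd (nat_lit 468) (nat_lit 304) (nat_lit 0) (XT.nd (nat_lit 234) (nat_lit 380) (nat_lit 0) (XT.nd (nat_lit 78) (nat_lit 152) (nat_lit 0) (XT.lf (nat_lit 0) (nat_lit 15703863515) (nat_lit 304) (nat_lit 5750198794) (nat_lit 76) (nat_lit 14643828600) (nat_lit 24) (nat_lit 5) (nat_lit 28) (nat_lit 5) (nat_lit 25) (nat_lit 5) (nat_lit 275) (nat_lit 259) (nat_lit 186)) (XT.nd (nat_lit 78) (nat_lit 0) (nat_lit 0) (XT.lf (nat_lit 0) (nat_lit 10972194310) (nat_lit 152) (nat_lit 10289299349) (nat_lit 228) (nat_lit 16704619229) (nat_lit 22) (nat_lit 5) (nat_lit 24) (nat_lit 5) (nat_lit 25) (nat_lit 5) (nat_lit 276) (nat_lit 259) (nat_lit 185)) (XT.lf (nat_lit 0) (nat_lit 27460891444) (nat_lit 228) (nat_lit 10667597404) (nat_lit 76) (nat_lit 1839557824) (nat_lit 22) (nat_lit 5) (nat_lit 25) (nat_lit 5) (nat_lit 23) (nat_lit 5) (nat_lit 277) (nat_lit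 259) (nat_lit 184)))) (XT.nd (nat_lit 78) (nat_lit 228) (nat_lit 0) (XT.lf (nat_lit 0) (nat_lit 7041328680) (nat_lit 152) (nat_lit 27545323063) (nat_lit 228) (nat_lit 7509075213) (nat_lit 20) (nat_lit 5) (nat_lit 22) (nat_lit 5) (nat_lit 23) (nat_lit 5) (nat_lit 278) (nat_lit 259) (nat_lit 183)) (XT.nd (nat_lit 78) (nat_lit 228) (nat_lit 0) (XT.lf (nat_lit 0) (nat_lit 26765377271) (nat_lit 152) (nat_lit 15802838193) (nat_lit 228) (nat_lit 1802569618) (nat_lit 20) (nat_lit 5) (nat_lit 22) (nat_lit 5) (nat_lit 23) (nat_lit 5) (nat_lit 279) (nat_lit 259) (nat_lit 182)) (XT.lf (nat_lit 0) (nat_lit 1185988669) (nat_lit 152) (nat_lit 2979211183) (nat_lit 228) (nat_lit 42652448360) (nat_lit 17) (nat_lit 5) (nat_lit 19) (nat_lit 5) (nat_lit 20) (nat_lit 5) (nat_lit 280) (nat_lit 259) (nat_lit 181))))) (XT.nd (nat_lit 234) (nat_lit 152) (nat_lit 0) (XT.nd (nat_lit 78) (nat_lit 152) (nat_lit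 0) (XT.lf (nat_lit 0) (nat_lit 11262825740) (nat_lit 228) (nat_lit 27268738869) (nat_lit 76) (nat_lit 10864982672) (nat_lit 17) (nat_lit 5) (nat_lit 20) (nat_lit 5) (nat_lit 18) (nat_lit 5) (nat_lit 281) (nat_lit 259) (nat_lit 180)) (XT.nd (nat_lit 78) (nat_lit 152) (nat_lit 0) (XT.lf (nat_lit 0) (nat_lit 19000572816) (nat_lit 228) (nat_lit 7521727280) (nat_lit 76) (nat_lit 25653690066) (nat_lit 17) (nat_lit 5) (nat_lit 20) (nat_lit 5) (nat_lit 18) (nat_lit 5) (nat_lit 282) (nat_lit 259) (nat_lit 179)) (XT.lf (nat_lit 0) (nat_lit 14524625228) (nat_lit 152) (nat_lit 13177336654) (nat_lit 228) (nat_lit 27448272349) (nat_lit 15) (nat_lit 5) (nat_lit 17) (nat_lit 5) (nat_lit 18) (nat_lit 5) (nat_lit 283) (nat_lit 259) (nat_lit 178)))) (XT.nd (nat_lit 156) (nat_lit 76) (nat_lit 0) (XT.nd (nat_lit 78) (nat_lit 76) (nat_lit 0) (XT.lf (nat_lit 0) (nat_lit 37335601086) (nat_lit 228) (nat_lit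 19625703995) (nat_lit 76) (nat_lit 1382236010) (nat_lit 15) (nat_lit 5) (nat_lit 18) (nat_lit 5) (nat_lit 16) (nat_lit 4) (nat_lit 284) (nat_lit 259) (nat_lit 177)) (XT.lf (nat_lit 0) (nat_lit 2847767851) (nat_lit 76) (nat_lit 45298692005) (nat_lit 152) (nat_lit 13613343688) (nat_lit 14) (nat_lit 5) (nat_lit 15) (nat_lit 5) (nat_lit 16) (nat_lit 4) (nat_lit 285) (nat_lit 259) (nat_lit 176))) (XT.nd (nat_lit 78) (nat_lit 76) (nat_lit 0) (XT.lf (nat_lit 0) (nat_lit 28228802103) (nat_lit 76) (nat_lit 32125916026) (nat_lit 152) (nat_lit 5052058731) (nat_lit 14) (nat_lit 5) (nat_lit 15) (nat_lit 5) (nat_lit 16) (nat_lit 4) (nat_lit 286) (nat_lit 259) (nat_lit 175)) (XT.lf (nat_lit 0) (nat_lit 3980443764) (nat_lit 152) (nat_lit 13812241628) (nat_lit 76) (nat_lit 51545073948) (nat_lit 13) (nat_lit 5) (nat_lit 15) (nat_lit 5) (nat_lit 14) (nat_lit 5) (nat_lit 287) (nat_lit 259) (nat_lit 174))))))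 (XT.nd (nat_lit 468) (nat_lit 228) (nat_lit 0) (XT.nd (nat_lit 234) (nat_lit 76) (nat_lit 0) (XT.nd (nat_lit 78) (nat_lit 0) (nat_lit 0) (XT.lf (nat_lit 0) (nat_lit 11880092468) (nat_lit 152) (nat_lit 1864637424) (nat_lit 228) (nat_lit 59805432464) (nat_lit 11) (nat_lit 5) (nat_lit 13) (nat_lit 5) (nat_lit 14) (nat_lit 5) (nat_lit 288) (nat_lit 259) (nat_lit 173)) (XT.nd (nat_lit 78) (nat_lit 0) (nat_lit 0) (XT.lf (nat_lit 0) (nat_lit 25042980197) (nat_lit 228) (nat_lit 38040513400) (nat_lit 76) (nat_lit 14955847379) (nat_lit 11) (nat_lit 5) (nat_lit 14) (nat_lit 5) (nat_lit 12) (nat_lit 4) (nat_lit 289) (nat_lit 259) (nat_lit 172)) (XT.lf (nat_lit 0) (nat_lit 37290272710) (nat_lit 228) (nat_lit 12574409266) (nat_lit 76) (nat_lit 33019365727) (nat_lit 11) (nat_lit 5) (nat_lit 14) (nat_lit 5) (nat_lit 12) (nat_lit 4) (nat_lit 290) (nat_lit 259) (nat_lit 171)))) (XT.nd (nat_lit 78) (nat_lit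 0) (nat_lit 0) (XT.lf (nat_lit 0) (nat_lit 15709868584) (nat_lit 76) (nat_lit 35182293536) (nat_lit 152) (nat_lit 37194191541) (nat_lit 10) (nat_lit 5) (nat_lit 11) (nat_lit 5) (nat_lit 12) (nat_lit 4) (nat_lit 291) (nat_lit 259) (nat_lit 170)) (XT.nd (nat_lit 78) (nat_lit 0) (nat_lit 0) (XT.lf (nat_lit 0) (nat_lit 46967146821) (nat_lit 76) (nat_lit 18955959307) (nat_lit 152) (nat_lit 27754472889) (nat_lit 10) (nat_lit 5) (nat_lit 11) (nat_lit 5) (nat_lit 12) (nat_lit 4) (nat_lit 292) (nat_lit 259) (nat_lit 169)) (XT.lf (nat_lit 0) (nat_lit 80720507649) (nat_lit 76) (nat_lit 1433329869) (nat_lit 152) (nat_lit 17562486597) (nat_lit 10) (nat_lit 5) (nat_lit 11) (nat_lit 5) (nat_lit 12) (nat_lit 4) (nat_lit 293) (nat_lit 259) (nat_lit 168))))) (XT.nd (nat_lit 234) (nat_lit 76) (nat_lit 0) (XT.nd (nat_lit 78) (nat_lit 76) (nat_lit 0) (XT.lf (nat_lit 0) (nat_lit 11064464947) (nat_lit 76)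 (nat_lit 89302795377) (nat_lit 76) (nat_lit 5816176033) (nat_lit 9) (nat_lit 4) (nat_lit 10) (nat_lit 5) (nat_lit 10) (nat_lit 4) (nat_lit 294) (nat_lit 259) (nat_lit 167)) (XT.nd (nat_lit 78) (nat_lit 0) (nat_lit 0) (XT.lf (nat_lit 0) (nat_lit 7093768767) (nat_lit 152) (nat_lit 68736788214) (nat_lit 76) (nat_lit 37278741377) (nat_lit 8) (nat_lit 5) (nat_lit 10) (nat_lit 5) (nat_lit 9) (nat_lit 4) (nat_lit 295) (nat_lit 259) (nat_lit 166)) (XT.lf (nat_lit 0) (nat_lit 20719958259) (nat_lit 152) (nat_lit 40399136206) (nat_lit 76) (nat_lit 59458240295) (nat_lit 8) (nat_lit 5) (nat_lit 10) (nat_lit 5) (nat_lit 9) (nat_lit 4) (nat_lit 296) (nat_lit 259) (nat_lit 165)))) (XT.nd (nat_lit 156) (nat_lit 0) (nat_lit 0) (XT.nd (nat_lit 78) (nat_lit 76) (nat_lit 0) (XT.lf (nat_lit 0) (nat_lit 35434088913) (nat_lit 152) (nat_lit 9798209386) (nat_lit 76) (nat_lit 83410692631) (nat_lit 8) (nat_lit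 5) (nat_lit 10) (nat_lit 5) (nat_lit 9) (nat_lit 4) (nat_lit 297) (nat_lit 259) (nat_lit 164)) (XT.lf (nat_lit 0) (nat_lit 24471494325) (nat_lit 76) (nat_lit 27440401278) (nat_lit 152) (nat_lit 85395084542) (nat_lit 7) (nat_lit 5) (nat_lit 8) (nat_lit 5) (nat_lit 9) (nat_lit 4) (nat_lit 298) (nat_lit 259) (nat_lit 163))) (XT.nd (nat_lit 78) (nat_lit 0) (nat_lit 0) (XT.lf (nat_lit 0) (nat_lit 62036634283) (nat_lit 76) (nat_lit 7937265130) (nat_lit 152) (nat_lit 76668915165) (nat_lit 7) (nat_lit 5) (nat_lit 8) (nat_lit 5) (nat_lit 9) (nat_lit 4) (nat_lit 299) (nat_lit 259) (nat_lit 162)) (XT.lf (nat_lit 0) (nat_lit 89794729874) (nat_lit 152) (nat_lit 54437451155) (nat_lit 0) (nat_lit 12468229030) (nat_lit 7) (nat_lit 5) (nat_lit 9) (nat_lit 4) (nat_lit 7) (nat_lit 4) (nat_lit 300) (nat_lit 259) (nat_lit 161))))))))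
noncomputable def xc84 : XT := (XT.nd (nat_lit 1950) (nat_lit 152) (nat_lit 0) (XT.nd (nat_lit 936) (nat_lit 76) (nat_lit 0) (XT.nd (nat_lit 468) (nat_lit 76) (nat_lit 0) (XT.nd (nat_lit 234) (nat_lit 76) (nat_lit 0) (XT.nd (nat_lit 78) (nat_lit 76) (nat_lit 0) (XT.lf (nat_lit 0) (nat_lit 111405706906) (nat_lit 152) (nat_lit 22064383893) (nat_lit 0) (nat_lit 34076167299) (nat_lit 7) (nat_lit 5) (nat_lit 9) (nat_lit 4) (nat_lit 7) (nat_lit 4) (nat_lit 301) (nat_lit 259) (nat_lit 160)) (XT.nd (nat_lit 78) (nat_lit 0) (nat_lit 0) (XT.lf (nat_lit 0) (nat_lit 13574820819) (nat_lit 76) (nat_lit 121495658091) (nat_lit 76) (nat_lit 44163304814) (nat_lit 6) (nat_lit 4) (nat_lit 7) (nat_lit 5) (nat_lit 7) (nat_lit 4) (nat_lit 302) (nat_lit 259) (nat_lit 159)) (XT.lf (nat_lit 0) (nat_lit 53317277793) (nat_lit 76) (nat_lit 107912926626) (nat_lit 76) (nat_lit 30577968099) (nat_lit 6) (nat_lit 4)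 (nat_lit 7) (nat_lit 5) (nat_lit 7) (nat_lit 4) (nat_lit 303) (nat_lit 259) (nat_lit 158)))) (XT.nd (nat_lit 78) (nat_lit 76) (nat_lit 0) (XT.lf (nat_lit 0) (nat_lit 96236626528) (nat_lit 76) (nat_lit 93244685502) (nat_lit 76) (nat_lit 15907314706) (nat_lit 6) (nat_lit 4) (nat_lit 7) (nat_lit 5) (nat_lit 7) (nat_lit 4) (nat_lit 304) (nat_lit 259) (nat_lit 157)) (XT.nd (nat_lit 78) (nat_lit 76) (nat_lit 0) (XT.lf (nat_lit 0) (nat_lit 142587203907) (nat_lit 76) (nat_lit 77404011808) (nat_lit 76) (nat_lit 64407431) (nat_lit 6) (nat_lit 4) (nat_lit 7) (nat_lit 5) (nat_lit 7) (nat_lit 4) (nat_lit 305) (nat_lit 259) (nat_lit 156)) (XT.lf (nat_lit 0) (nat_lit 16191995817) (nat_lit 152) (nat_lit 43662321207) (nat_lit 76) (nat_lit 176008966338) (nat_lit 5) (nat_lit 5) (nat_lit 7) (nat_lit 5) (nat_lit 6) (nat_lit 4) (nat_lit 306) (nat_lit 259) (nat_lit 155))))) (XT.nd (nat_lit 234) (nat_lit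 0) (nat_lit 0) (XT.nd (nat_lit 78) (nat_lit 76) (nat_lit 0) (XT.lf (nat_lit 0) (nat_lit 33744292733) (nat_lit 152) (nat_lit 7155458559) (nat_lit 76) (nat_lit 212035764330) (nat_lit 5) (nat_lit 5) (nat_lit 7) (nat_lit 5) (nat_lit 6) (nat_lit 4) (nat_lit 307) (nat_lit 259) (nat_lit 154)) (XT.nd (nat_lit 78) (nat_lit 0) (nat_lit 0) (XT.lf (nat_lit 0) (nat_lit 33969338559) (nat_lit 76) (nat_lit 19547343697) (nat_lit 152) (nat_lit 217791573299) (nat_lit 4) (nat_lit 5) (nat_lit 5) (nat_lit 5) (nat_lit 6) (nat_lit 4) (nat_lit 308) (nat_lit 259) (nat_lit 153)) (XT.lf (nat_lit 0) (nat_lit 75155040508) (nat_lit 152) (nat_lit 212435595836) (nat_lit 0) (nat_lit 3537445801) (nat_lit 4) (nat_lit 5) (nat_lit 6) (nat_lit 4) (nat_lit 4) (nat_lit 4) (nat_lit 309) (nat_lit 259) (nat_lit 152)))) (XT.nd (nat_lit 78) (nat_lit 0) (nat_lit 0) (XT.lf (nat_lit 0) (nat_lit 99031226846) (nat_lit 152) (nat_lit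 186049504200) (nat_lit 0) (nat_lit 27412224604) (nat_lit 4) (nat_lit 5) (nat_lit 6) (nat_lit 4) (nat_lit 4) (nat_lit 4) (nat_lit 310) (nat_lit 259) (nat_lit 151)) (XT.nd (nat_lit 78) (nat_lit 0) (nat_lit 0) (XT.lf (nat_lit 0) (nat_lit 124816615698) (nat_lit 152) (nat_lit 157554165979) (nat_lit 0) (nat_lit 53196310182) (nat_lit 4) (nat_lit 5) (nat_lit 6) (nat_lit 4) (nat_lit 4) (nat_lit 4) (nat_lit 311) (nat_lit 259) (nat_lit 150)) (XT.lf (nat_lit 0) (nat_lit 152664009366) (nat_lit 152) (nat_lit 126780719908) (nat_lit 0) (nat_lit 81042497116) (nat_lit 4) (nat_lit 5) (nat_lit 6) (nat_lit 4) (nat_lit 4) (nat_lit 4) (nat_lit 312) (nat_lit 259) (nat_lit 149)))))) (XT.nd (nat_lit 468) (nat_lit 0) (nat_lit 0) (XT.nd (nat_lit 234) (nat_lit 76) (nat_lit 0) (XT.nd (nat_lit 78) (nat_lit 0) (nat_lit 0) (XT.lf (nat_lit 0) (nat_lit 182738429444) (nat_lit 152) (nat_lit 93546804826) (nat_lit 0) (nat_lit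 111115799846) (nat_lit 4) (nat_lit 5) (nat_lit 6) (nat_lit 4) (nat_lit 4) (nat_lit 4) (nat_lit 313) (nat_lit 259) (nat_lit 148)) (XT.nd (nat_lit 78) (nat_lit 0) (nat_lit 0) (XT.lf (nat_lit 0) (nat_lit 215218094716) (nat_lit 152) (nat_lit 57655479014) (nat_lit 0) (nat_lit 143594430538) (nat_lit 4) (nat_lit 5) (nat_lit 6) (nat_lit 4) (nat_lit 4) (nat_lit 4) (nat_lit 314) (nat_lit 259) (nat_lit 147)) (XT.lf (nat_lit 0) (nat_lit 250295477274) (nat_lit 152) (nat_lit 18894053133) (nat_lit 0) (nat_lit 178670855151) (nat_lit 4) (nat_lit 5) (nat_lit 6) (nat_lit 4) (nat_lit 4) (nat_lit 4) (nat_lit 315) (nat_lit 259) (nat_lit 146)))) (XT.nd (nat_lit 78) (nat_lit 0) (nat_lit 0) (XT.lf (nat_lit 0) (nat_lit 24176580632) (nat_lit 76) (nat_lit 264583309801) (nat_lit 76) (nat_lit 192957800691) (nat_lit 3) (nat_lit 4) (nat_lit 4) (nat_lit 5) (nat_lit 4) (nat_lit 4) (nat_lit 316) (nat_lit 259) (nat_lit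 145)) (XT.nd (nat_lit 78) (nat_lit 0) (nat_lit 0) (XT.lf (nat_lit 0) (nat_lit 71766298249) (nat_lit 76) (nat_lit 259051166756) (nat_lit 76) (nat_lit 187424836363) (nat_lit 3) (nat_lit 4) (nat_lit 4) (nat_lit 5) (nat_lit 4) (nat_lit 4) (nat_lit 317) (nat_lit 259) (nat_lit 144)) (XT.lf (nat_lit 0) (nat_lit 123162185504) (nat_lit 76) (nat_lit 253076915098) (nat_lit 76) (nat_lit 181449824258) (nat_lit 3) (nat_lit 4) (nat_lit 4) (nat_lit 5) (nat_lit 4) (nat_lit 4) (nat_lit 318) (nat_lit 259) (nat_lit 143))))) (XT.nd (nat_lit 234) (nat_lit 0) (nat_lit 0) (XT.nd (nat_lit 78) (nat_lit 0) (nat_lit 0) (XT.lf (nat_lit 0) (nat_lit 178668810617) (nat_lit 76) (nat_lit 246625151856) (nat_lit 76) (nat_lit 174997356897) (nat_lit 3) (nat_lit 4) (nat_lit 4) (nat_lit 5) (nat_lit 4) (nat_lit 4) (nat_lit 319) (nat_lit 259) (nat_lit 142)) (XT.nd (nat_lit 78) (nat_lit 0) (nat_lit 0) (XT.lf (nat_lit 0) (nat_lit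 238615101737) (nat_lit 76) (nat_lit 239657644357) (nat_lit 76) (nat_lit 168029197438) (nat_lit 3) (nat_lit 4) (nat_lit 4) (nat_lit 5) (nat_lit 4) (nat_lit 4) (nat_lit 320) (nat_lit 259) (nat_lit 141)) (XT.lf (nat_lit 0) (nat_lit 303356296146) (nat_lit 76) (nat_lit 232133103669) (nat_lit 76) (nat_lit 160504053082) (nat_lit 3) (nat_lit 4) (nat_lit 4) (nat_lit 5) (nat_lit 4) (nat_lit 4) (nat_lit 321) (nat_lit 259) (nat_lit 140)))) (XT.nd (nat_lit 156) (nat_lit 0) (nat_lit 0) (XT.nd (nat_lit 78) (nat_lit 0) (nat_lit 0) (XT.lf (nat_lit 0) (nat_lit 373276045364) (nat_lit 76) (nat_lit 224006939921) (nat_lit 76) (nat_lit 152377330382) (nat_lit 3) (nat_lit 4) (nat_lit 4) (nat_lit 5) (nat_lit 4) (nat_lit 4) (nat_lit 322) (nat_lit 259) (nat_lit 139)) (XT.lf (nat_lit 0) (nat_lit 448788688647) (nat_lit 76) (nat_lit 215230998069) (nat_lit 76) (nat_lit 143600870981) (nat_lit 3) (nat_lit 4) (nat_lit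 4) (nat_lit 5) (nat_lit 4) (nat_lit 4) (nat_lit 323) (nat_lit 259) (nat_lit 138))) (XT.nd (nat_lit 78) (nat_lit 0) (nat_lit 0) (XT.lf (nat_lit 0) (nat_lit 530341708326) (nat_lit 76) (nat_lit 205753272530) (nat_lit 76) (nat_lit 134122666232) (nat_lit 3) (nat_lit 4) (nat_lit 4) (nat_lit 5) (nat_lit 4) (nat_lit 4) (nat_lit 324) (nat_lit 259) (nat_lit 137)) (XT.lf (nat_lit 0) (nat_lit 618418381554) (nat_lit 76) (nat_lit 195517599006) (nat_lit 76) (nat_lit 123886548994) (nat_lit 3) (nat_lit 4) (nat_lit 4) (nat_lit 5) (nat_lit 4) (nat_lit 4) (nat_lit 325) (nat_lit 259) (nat_lit 136))))))) (XT.nd (nat_lit 32448) (nat_lit 0) (nat_lit 1976) (XT.nd (nat_lit 468) (nat_lit 152) (nat_lit 0) (XT.nd (nat_lit 234) (nat_lit 0) (nat_lit 0) (XT.nd (nat_lit 78) (nat_lit 0) (nat_lit 0) (XT.lf (nat_lit 0) (nat_lit 713540644172) (nat_lit 76) (nat_lit 184463321653) (nat_lit 76) (nat_lit 112831860795) (nat_lit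 3) (nat_lit 4) (nat_lit 4) (nat_lit 5) (nat_lit 4) (nat_lit 4) (nat_lit 326) (nat_lit 259) (nat_lit 135)) (XT.nd (nat_lit 78) (nat_lit 0) (nat_lit 0) (XT.lf (nat_lit 0) (nat_lit 816272183663) (nat_lit 76) (nat_lit 172524933643) (nat_lit 76) (nat_lit 100893092372) (nat_lit 3) (nat_lit 4) (nat_lit 4) (nat_lit 5) (nat_lit 4) (nat_lit 4) (nat_lit 327) (nat_lit 259) (nat_lit 134)) (XT.lf (nat_lit 0) (nat_lit 927221779519) (nat_lit 76) (nat_lit 159631688973) (nat_lit 76) (nat_lit 87999495467) (nat_lit 3) (nat_lit 4) (nat_lit 4) (nat_lit 5) (nat_lit 4) (nat_lit 4) (nat_lit 328) (nat_lit 259) (nat_lit 133)))) (XT.nd (nat_lit 78) (nat_lit 0) (nat_lit 0) (XT.lf (nat_lit 0) (nat_lit 1047046910829) (nat_lit 76) (nat_lit 145707183229) (nat_lit 76) (nat_lit 74074663580) (nat_lit 3) (nat_lit 4) (nat_lit 4) (nat_lit 5) (nat_lit 4) (nat_lit 4) (nat_lit 329) (nat_lit 259) (nat_lit 132)) (XT.nd (nat_lit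 78) (nat_lit 0) (nat_lit 0) (XT.lf (nat_lit 0) (nat_lit 1176457652443) (nat_lit 76) (nat_lit 130668900823) (nat_lit 76) (nat_lit 59036079190) (nat_lit 3) (nat_lit 4) (nat_lit 4) (nat_lit 5) (nat_lit 4) (nat_lit 4) (nat_lit 330) (nat_lit 259) (nat_lit 131)) (XT.lf (nat_lit 0) (nat_lit 1316220882830) (nat_lit 76) (nat_lit 114427726006) (nat_lit 76) (nat_lit 42794624758) (nat_lit 3) (nat_lit 4) (nat_lit 4) (nat_lit 5) (nat_lit 4) (nat_lit 4) (nat_lit 331) (nat_lit 259) (nat_lit 130))))) (XT.nd (nat_lit 234) (nat_lit 76) (nat_lit 0) (XT.nd (nat_lit 78) (nat_lit 76) (nat_lit 0) (XT.lf (nat_lit 0) (nat_lit 1467164828541) (nat_lit 76) (nat_lit 96887414780) (nat_lit 76) (nat_lit 25254054629) (nat_lit 3) (nat_lit 4) (nat_lit 4) (nat_lit 5) (nat_lit 4) (nat_lit 4) (nat_lit 332) (nat_lit 259) (nat_lit 129)) (XT.nd (nat_lit 78) (nat_lit 76) (nat_lit 0) (XT.lf (nat_lit 0) (nat_lit 1630183972218)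 (nat_lit 76) (nat_lit 77944024560) (nat_lit 76) (nat_lit 6310424684) (nat_lit 3) (nat_lit 4) (nat_lit 4) (nat_lit 5) (nat_lit 4) (nat_lit 4) (nat_lit 333) (nat_lit 259) (nat_lit 128)) (XT.lf (nat_lit 0) (nat_lit 13440757170) (nat_lit 152) (nat_lit 43677046927) (nat_lit 76) (nat_lit 1792436101939) (nat_lit 2) (nat_lit 5) (nat_lit 4) (nat_lit 5) (nat_lit 3) (nat_lit 4) (nat_lit 334) (nat_lit 259) (nat_lit 127)))) (XT.nd (nat_lit 156) (nat_lit 0) (nat_lit 0) (XT.nd (nat_lit 78) (nat_lit 76) (nat_lit 0) (XT.lf (nat_lit 0) (nat_lit 34430955414) (nat_lit 152) (nat_lit 17640105) (nat_lit 76) (nat_lit 1961016933600) (nat_lit 2) (nat_lit 5) (nat_lit 4) (nat_lit 5) (nat_lit 3) (nat_lit 4) (nat_lit 335) (nat_lit 259) (nat_lit 126)) (XT.lf (nat_lit 0) (nat_lit 49616266073) (nat_lit 76) (nat_lit 8677235726) (nat_lit 152) (nat_lit 2094661129862) (nat_lit 1) (nat_lit 5) (nat_lit 2) (nat_lit 5) (nat_lit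 3) (nat_lit 4) (nat_lit 336) (nat_lit 259) (nat_lit 125))) (XT.nd (nat_lit 31512) (nat_lit 0) (nat_lit 2660) (XT.lf (nat_lit 0) (nat_lit 84526106330) (nat_lit 152) (nat_lit 2220281908045) (nat_lit 0) (nat_lit 18197963854) (nat_lit 1) (nat_lit 5) (nat_lit 3) (nat_lit 4) (nat_lit 1) (nat_lit 4) (nat_lit 337) (nat_lit 259) (nat_lit 124)) (XT.lf (nat_lit 0) (nat_lit 2823279200) (nat_lit 532) (nat_lit 3399080315) (nat_lit 532) (nat_lit 3399080315) (nat_lit 36) (nat_lit 3) (nat_lit 43) (nat_lit 3) (nat_lit 43) (nat_lit 5) (nat_lit 260) (nat_lit 260) (nat_lit 200)))))) (XT.nd (nat_lit 468) (nat_lit 684) (nat_lit 0) (XT.nd (nat_lit 234) (nat_lit 0) (nat_lit 152) (XT.nd (nat_lit 78) (nat_lit 0) (nat_lit 76) (XT.lf (nat_lit 76) (nat_lit 1508329935) (nat_lit 0) (nat_lit 4559847563) (nat_lit 532) (nat_lit 13927912616) (nat_lit 37) (nat_lit 5) (nat_lit 36) (nat_lit 3) (nat_lit 43) (nat_lit 5) (nat_lit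 261) (nat_lit 260) (nat_lit 199)) (XT.nd (nat_lit 78) (nat_lit 0) (nat_lit 0) (XT.lf (nat_lit 0) (nat_lit 6793359987) (nat_lit 456) (nat_lit 10039358215) (nat_lit 532) (nat_lit 3955336954) (nat_lit 37) (nat_lit 5) (nat_lit 43) (nat_lit 5) (nat_lit 44) (nat_lit 5) (nat_lit 262) (nat_lit 260) (nat_lit 198)) (XT.lf (nat_lit 0) (nat_lit 7680175045) (nat_lit 456) (nat_lit 1043394444) (nat_lit 532) (nat_lit 12911596678) (nat_lit 37) (nat_lit 5) (nat_lit 43) (nat_lit 5) (nat_lit 44) (nat_lit 5) (nat_lit 263) (nat_lit 260) (nat_lit 197)))) (XT.nd (nat_lit 78) (nat_lit 0) (nat_lit 0) (XT.lf (nat_lit 0) (nat_lit 8850164486) (nat_lit 456) (nat_lit 13421013888) (nat_lit 532) (nat_lit 261961761) (nat_lit 38) (nat_lit 5) (nat_lit 44) (nat_lit 5) (nat_lit 45) (nat_lit 5) (nat_lit 264) (nat_lit 260) (nat_lit 196)) (XT.nd (nat_lit 78) (nat_lit 0) (nat_lit 0) (XT.lf (nat_lit 0) (nat_lit 10356785254)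 (nat_lit 456) (nat_lit 3598676680) (nat_lit 532) (nat_lit 9528114560) (nat_lit 38) (nat_lit 5) (nat_lit 44) (nat_lit 5) (nat_lit 45) (nat_lit 5) (nat_lit 265) (nat_lit 260) (nat_lit 195)) (XT.lf (nat_lit 76) (nat_lit 7368701395) (nat_lit 0) (nat_lit 4780578313) (nat_lit 532) (nat_lit 12347602612) (nat_lit 39) (nat_lit 5) (nat_lit 38) (nat_lit 5) (nat_lit 45) (nat_lit 5) (nat_lit 266) (nat_lit 260) (nat_lit 194))))) (XT.nd (nat_lit 234) (nat_lit 456) (nat_lit 0) (XT.nd (nat_lit 78) (nat_lit 456) (nat_lit 0) (XT.lf (nat_lit 0) (nat_lit 14298296280) (nat_lit 456) (nat_lit 6301269090) (nat_lit 76) (nat_lit 4974694920) (nat_lit 39) (nat_lit 5) (nat_lit 45) (nat_lit 5) (nat_lit 40) (nat_lit 5) (nat_lit 267) (nat_lit 260) (nat_lit 193)) (XT.nd (nat_lit 78) (nat_lit 0) (nat_lit 0) (XT.lf (nat_lit 0) (nat_lit 5535138652) (nat_lit 456) (nat_lit 11331050522) (nat_lit 532) (nat_lit 9851936146)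 (nat_lit 33) (nat_lit 5) (nat_lit 39) (nat_lit 5) (nat_lit 40) (nat_lit 5) (nat_lit 268) (nat_lit 260) (nat_lit 192)) (XT.lf (nat_lit 0) (nat_lit 18667678914) (nat_lit 456) (nat_lit 1134332210) (nat_lit 532) (nat_lit 8138537899) (nat_lit 33) (nat_lit 5) (nat_lit 39) (nat_lit 5) (nat_lit 40) (nat_lit 5) (nat_lit 269) (nat_lit 260) (nat_lit 191)))) (XT.nd (nat_lit 156) (nat_lit 228) (nat_lit 0) (XT.nd (nat_lit 78) (nat_lit 0) (nat_lit 0) (XT.lf (nat_lit 0) (nat_lit 3519288483) (nat_lit 228) (nat_lit 19766567899) (nat_lit 304) (nat_lit 5949903269) (nat_lit 30) (nat_lit 5) (nat_lit 33) (nat_lit 5) (nat_lit 34) (nat_lit 5) (nat_lit 270) (nat_lit 260) (nat_lit 190)) (XT.lf (nat_lit 0) (nat_lit 17822148317) (nat_lit 228) (nat_lit 9499918029) (nat_lit 304) (nat_lit 3290670467) (nat_lit 30) (nat_lit 5) (nat_lit 33) (nat_lit 5) (nat_lit 34) (nat_lit 5) (nat_lit 271) (nat_lit 260) (nat_lit 189)))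 (XT.nd (nat_lit 78) (nat_lit 76) (nat_lit 0) (XT.lf (nat_lit 0) (nat_lit 1181250601) (nat_lit 152) (nat_lit 30558555235) (nat_lit 228) (nat_lit 355414815) (nat_lit 28) (nat_lit 5) (nat_lit 30) (nat_lit 5) (nat_lit 31) (nat_lit 5) (nat_lit 272) (nat_lit 260) (nat_lit 188)) (XT.lf (nat_lit 0) (nat_lit 3271590727) (nat_lit 228) (nat_lit 17002833659) (nat_lit 76) (nat_lit 13368678519) (nat_lit 27) (nat_lit 5) (nat_lit 30) (nat_lit 5) (nat_lit 28) (nat_lit 5) (nat_lit 273) (nat_lit 260) (nat_lit 187))))))))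
noncomputable def xc85 : XT := (XT.nd (nat_lit 2028) (nat_lit 304) (nat_lit 0) (XT.nd (nat_lit 1014) (nat_lit 532) (nat_lit 0) (XT.nd (nat_lit 468) (nat_lit 456) (nat_lit 0) (XT.nd (nat_lit 234) (nat_lit 304) (nat_lit 0) (XT.nd (nat_lit 78) (nat_lit 228) (nat_lit 0) (XT.lf (nat_lit 0) (nat_lit 7162312634) (nat_lit 228) (nat_lit 1996583671) (nat_lit 76) (nat_lit 26155791363) (nat_lit 27) (nat_lit 5) (nat_lit 30) (nat_lit 5) (nat_lit 28) (nat_lit 5) (nat_lit 274) (nat_lit 260) (nat_lit 186)) (XT.nd (nat_lit 78) (nat_lit 0) (nat_lit 0) (XT.lf (nat_lit 0) (nat_lit 11794890341) (nat_lit 304) (nat_lit 22219434607) (nat_lit 76) (nat_lit 3071255175) (nat_lit 24) (nat_lit 5) (nat_lit 28) (nat_lit 5) (nat_lit 25) (nat_lit 5) (nat_lit 275) (nat_lit 260) (nat_lit 185)) (XT.lf (nat_lit 0) (nat_lit 17085549330) (nat_lit 304) (nat_lit 6049866508) (nat_lit 76) (nat_lit 15839756758) (nat_lit 24) (nat_lit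 5) (nat_lit 28) (nat_lit 5) (nat_lit 25) (nat_lit 5) (nat_lit 276) (nat_lit 260) (nat_lit 184)))) (XT.nd (nat_lit 78) (nat_lit 152) (nat_lit 0) (XT.lf (nat_lit 0) (nat_lit 12006258597) (nat_lit 152) (nat_lit 11076002871) (nat_lit 228) (nat_lit 17911071616) (nat_lit 22) (nat_lit 5) (nat_lit 24) (nat_lit 5) (nat_lit 25) (nat_lit 5) (nat_lit 277) (nat_lit 260) (nat_lit 183)) (XT.nd (nat_lit 78) (nat_lit 152) (nat_lit 0) (XT.lf (nat_lit 0) (nat_lit 29769544897) (nat_lit 228) (nat_lit 11367781879) (nat_lit 76) (nat_lit 2018775716) (nat_lit 22) (nat_lit 5) (nat_lit 25) (nat_lit 5) (nat_lit 23) (nat_lit 5) (nat_lit 278) (nat_lit 260) (nat_lit 182)) (XT.lf (nat_lit 0) (nat_lit 7753979221) (nat_lit 152) (nat_lit 29706698374) (nat_lit 228) (nat_lit 7993727667) (nat_lit 20) (nat_lit 5) (nat_lit 22) (nat_lit 5) (nat_lit 23) (nat_lit 5) (nat_lit 279) (nat_lit 260) (nat_lit 181))))) (XT.nd (nat_lit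 234) (nat_lit 228) (nat_lit 0) (XT.nd (nat_lit 78) (nat_lit 228) (nat_lit 0) (XT.lf (nat_lit 0) (nat_lit 29044889163) (nat_lit 152) (nat_lit 17027944383) (nat_lit 228) (nat_lit 1839299666) (nat_lit 20) (nat_lit 5) (nat_lit 22) (nat_lit 5) (nat_lit 23) (nat_lit 5) (nat_lit 280) (nat_lit 260) (nat_lit 180)) (XT.nd (nat_lit 78) (nat_lit 0) (nat_lit 0) (XT.lf (nat_lit 0) (nat_lit 1421233498) (nat_lit 152) (nat_lit 3175094402) (nat_lit 228) (nat_lit 45958571865) (nat_lit 17) (nat_lit 5) (nat_lit 19) (nat_lit 5) (nat_lit 20) (nat_lit 5) (nat_lit 281) (nat_lit 260) (nat_lit 179)) (XT.lf (nat_lit 0) (nat_lit 12255456495) (nat_lit 228) (nat_lit 29313659249) (nat_lit 76) (nat_lit 11771523851) (nat_lit 17) (nat_lit 5) (nat_lit 20) (nat_lit 5) (nat_lit 18) (nat_lit 5) (nat_lit 282) (nat_lit 260) (nat_lit 178)))) (XT.nd (nat_lit 156) (nat_lit 76) (nat_lit 0) (XT.nd (nat_lit 78) (nat_lit 152) (nat_lit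 0) (XT.lf (nat_lit 0) (nat_lit 20605437804) (nat_lit 228) (nat_lit 7997003676) (nat_lit 76) (nat_lit 27740561721) (nat_lit 17) (nat_lit 5) (nat_lit 20) (nat_lit 5) (nat_lit 18) (nat_lit 5) (nat_lit 283) (nat_lit 260) (nat_lit 177)) (XT.lf (nat_lit 0) (nat_lit 15809855469) (nat_lit 152) (nat_lit 14189764037) (nat_lit 228) (nat_lit 29555853557) (nat_lit 15) (nat_lit 5) (nat_lit 17) (nat_lit 5) (nat_lit 18) (nat_lit 5) (nat_lit 284) (nat_lit 260) (nat_lit 176))) (XT.nd (nat_lit 78) (nat_lit 76) (nat_lit 0) (XT.lf (nat_lit 0) (nat_lit 40398842683) (nat_lit 228) (nat_lit 21076282711) (nat_lit 76) (nat_lit 1529546897) (nat_lit 15) (nat_lit 5) (nat_lit 18) (nat_lit 5) (nat_lit 16) (nat_lit 4) (nat_lit 285) (nat_lit 260) (nat_lit 175)) (XT.lf (nat_lit 0) (nat_lit 3192042132) (nat_lit 76) (nat_lit 48879669937) (nat_lit 152) (nat_lit 14622770141) (nat_lit 14) (nat_lit 5) (nat_lit 15) (nat_lit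 5) (nat_lit 16) (nat_lit 4) (nat_lit 286) (nat_lit 260) (nat_lit 174)))))) (XT.nd (nat_lit 468) (nat_lit 228) (nat_lit 0) (XT.nd (nat_lit 234) (nat_lit 76) (nat_lit 0) (XT.nd (nat_lit 78) (nat_lit 228) (nat_lit 0) (XT.lf (nat_lit 0) (nat_lit 30594932988) (nat_lit 76) (nat_lit 34656250949) (nat_lit 152) (nat_lit 5382481724) (nat_lit 14) (nat_lit 5) (nat_lit 15) (nat_lit 5) (nat_lit 16) (nat_lit 4) (nat_lit 287) (nat_lit 260) (nat_lit 173)) (XT.nd (nat_lit 78) (nat_lit 152) (nat_lit 0) (XT.lf (nat_lit 0) (nat_lit 4363743012) (nat_lit 152) (nat_lit 14813788944) (nat_lit 76) (nat_lit 55701882179) (nat_lit 13) (nat_lit 5) (nat_lit 15) (nat_lit 5) (nat_lit 14) (nat_lit 5) (nat_lit 288) (nat_lit 260) (nat_lit 172)) (XT.lf (nat_lit 0) (nat_lit 12931313347) (nat_lit 152) (nat_lit 1975478528) (nat_lit 228) (nat_lit 64522221031) (nat_lit 11) (nat_lit 5) (nat_lit 13) (nat_lit 5) (nat_lit 14) (nat_lit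 5) (nat_lit 289) (nat_lit 260) (nat_lit 171)))) (XT.nd (nat_lit 78) (nat_lit 76) (nat_lit 0) (XT.lf (nat_lit 0) (nat_lit 27105127341) (nat_lit 228) (nat_lit 40986482170) (nat_lit 76) (nat_lit 16186030422) (nat_lit 11) (nat_lit 5) (nat_lit 14) (nat_lit 5) (nat_lit 12) (nat_lit 4) (nat_lit 290) (nat_lit 260) (nat_lit 170)) (XT.nd (nat_lit 78) (nat_lit 76) (nat_lit 0) (XT.lf (nat_lit 0) (nat_lit 40327854460) (nat_lit 228) (nat_lit 13490295061) (nat_lit 76) (nat_lit 35692132813) (nat_lit 11) (nat_lit 5) (nat_lit 14) (nat_lit 5) (nat_lit 12) (nat_lit 4) (nat_lit 291) (nat_lit 260) (nat_lit 169)) (XT.lf (nat_lit 0) (nat_lit 17054444841) (nat_lit 76) (nat_lit 37961534795) (nat_lit 152) (nat_lit 40112956764) (nat_lit 10) (nat_lit 5) (nat_lit 11) (nat_lit 5) (nat_lit 12) (nat_lit 4) (nat_lit 292) (nat_lit 260) (nat_lit 168))))) (XT.nd (nat_lit 234) (nat_lit 152) (nat_lit 0) (XT.nd (nat_lit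 78) (nat_lit 76) (nat_lit 0) (XT.lf (nat_lit 0) (nat_lit 50805802613) (nat_lit 76) (nat_lit 20439711770) (nat_lit 152) (nat_lit 29922265812) (nat_lit 10) (nat_lit 5) (nat_lit 11) (nat_lit 5) (nat_lit 12) (nat_lit 4) (nat_lit 293) (nat_lit 260) (nat_lit 167)) (XT.nd (nat_lit 78) (nat_lit 76) (nat_lit 0) (XT.lf (nat_lit 0) (nat_lit 87253411267) (nat_lit 76) (nat_lit 1517695997) (nat_lit 152) (nat_lit 18918814314) (nat_lit 10) (nat_lit 5) (nat_lit 11) (nat_lit 5) (nat_lit 12) (nat_lit 4) (nat_lit 294) (nat_lit 260) (nat_lit 166)) (XT.lf (nat_lit 0) (nat_lit 12025884063) (nat_lit 76) (nat_lit 96414898101) (nat_lit 76) (nat_lit 6233694628) (nat_lit 9) (nat_lit 4) (nat_lit 10) (nat_lit 5) (nat_lit 10) (nat_lit 4) (nat_lit 295) (nat_lit 260) (nat_lit 165)))) (XT.nd (nat_lit 156) (nat_lit 76) (nat_lit 0) (XT.nd (nat_lit 78) (nat_lit 0) (nat_lit 0) (XT.lf (nat_lit 0) (nat_lit 7703293939) (nat_lit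 152) (nat_lit 74162817019) (nat_lit 76) (nat_lit 40288480905) (nat_lit 8) (nat_lit 5) (nat_lit 10) (nat_lit 5) (nat_lit 9) (nat_lit 4) (nat_lit 296) (nat_lit 260) (nat_lit 164)) (XT.lf (nat_lit 0) (nat_lit 22416465726) (nat_lit 152) (nat_lit 43563553906) (nat_lit 76) (nat_lit 64240307128) (nat_lit 8) (nat_lit 5) (nat_lit 10) (nat_lit 5) (nat_lit 9) (nat_lit 4) (nat_lit 297) (nat_lit 260) (nat_lit 163))) (XT.nd (nat_lit 78) (nat_lit 76) (nat_lit 0) (XT.lf (nat_lit 0) (nat_lit 38304844550) (nat_lit 152) (nat_lit 10519553919) (nat_lit 76) (nat_lit 90107073605) (nat_lit 8) (nat_lit 5) (nat_lit 10) (nat_lit 5) (nat_lit 9) (nat_lit 4) (nat_lit 298) (nat_lit 260) (nat_lit 162)) (XT.lf (nat_lit 0) (nat_lit 26490143502) (nat_lit 76) (nat_lit 29609528853) (nat_lit 152) (nat_lit 92189009963) (nat_lit 7) (nat_lit 5) (nat_lit 8) (nat_lit 5) (nat_lit 9) (nat_lit 4) (nat_lit 299) (nat_lit 260) (nat_lit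 161))))))) (XT.nd (nat_lit 1014) (nat_lit 76) (nat_lit 0) (XT.nd (nat_lit 468) (nat_lit 152) (nat_lit 0) (XT.nd (nat_lit 234) (nat_lit 76) (nat_lit 0) (XT.nd (nat_lit 78) (nat_lit 0) (nat_lit 0) (XT.lf (nat_lit 0) (nat_lit 67055981350) (nat_lit 76) (nat_lit 8548075482) (nat_lit 152) (nat_lit 82767538247) (nat_lit 7) (nat_lit 5) (nat_lit 8) (nat_lit 5) (nat_lit 9) (nat_lit 4) (nat_lit 300) (nat_lit 260) (nat_lit 160)) (XT.nd (nat_lit 78) (nat_lit 0) (nat_lit 0) (XT.lf (nat_lit 0) (nat_lit 97008703426) (nat_lit 152) (nat_lit 58738299395) (nat_lit 0) (nat_lit 13486948217) (nat_lit 7) (nat_lit 5) (nat_lit 9) (nat_lit 4) (nat_lit 7) (nat_lit 4) (nat_lit 301) (nat_lit 260) (nat_lit 159)) (XT.lf (nat_lit 0) (nat_lit 120346307128) (nat_lit 152) (nat_lit 23779397705) (nat_lit 0) (nat_lit 36821946669) (nat_lit 7) (nat_lit 5) (nat_lit 9) (nat_lit 4) (nat_lit 7) (nat_lit 4) (nat_lit 302) (nat_lit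 260) (nat_lit 158)))) (XT.nd (nat_lit 78) (nat_lit 0) (nat_lit 0) (XT.lf (nat_lit 0) (nat_lit 14709674096) (nat_lit 76) (nat_lit 131193677347) (nat_lit 76) (nat_lit 47666904620) (nat_lit 6) (nat_lit 4) (nat_lit 7) (nat_lit 5) (nat_lit 7) (nat_lit 4) (nat_lit 303) (nat_lit 260) (nat_lit 157)) (XT.nd (nat_lit 78) (nat_lit 0) (nat_lit 0) (XT.lf (nat_lit 0) (nat_lit 57627907805) (nat_lit 76) (nat_lit 116525929839) (nat_lit 76) (nat_lit 32996923529) (nat_lit 6) (nat_lit 4) (nat_lit 7) (nat_lit 5) (nat_lit 7) (nat_lit 4) (nat_lit 304) (nat_lit 260) (nat_lit 156)) (XT.lf (nat_lit 0) (nat_lit 103977452751) (nat_lit 76) (nat_lit 100685713196) (nat_lit 76) (nat_lit 17154638755) (nat_lit 6) (nat_lit 4) (nat_lit 7) (nat_lit 5) (nat_lit 7) (nat_lit 4) (nat_lit 305) (nat_lit 260) (nat_lit 155))))) (XT.nd (nat_lit 234) (nat_lit 76) (nat_lit 0) (XT.nd (nat_lit 78) (nat_lit 76) (nat_lit 0) (XT.lf (nat_lit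 0) (nat_lit 154032972905) (nat_lit 76) (nat_lit 83579159469) (nat_lit 76) (nat_lit 46170092) (nat_lit 6) (nat_lit 4) (nat_lit 7) (nat_lit 5) (nat_lit 7) (nat_lit 4) (nat_lit 306) (nat_lit 260) (nat_lit 154)) (XT.nd (nat_lit 78) (nat_lit 0) (nat_lit 0) (XT.lf (nat_lit 0) (nat_lit 17507929440) (nat_lit 152) (nat_lit 47118269230) (nat_lit 76) (nat_lit 190104466313) (nat_lit 5) (nat_lit 5) (nat_lit 7) (nat_lit 5) (nat_lit 6) (nat_lit 4) (nat_lit 307) (nat_lit 260) (nat_lit 153)) (XT.lf (nat_lit 0) (nat_lit 36462886112) (nat_lit 152) (nat_lit 7693601101) (nat_lit 76) (nat_lit 229012313132) (nat_lit 5) (nat_lit 5) (nat_lit 7) (nat_lit 5) (nat_lit 6) (nat_lit 4) (nat_lit 308) (nat_lit 260) (nat_lit 152)))) (XT.nd (nat_lit 156) (nat_lit 0) (nat_lit 0) (XT.nd (nat_lit 78) (nat_lit 0) (nat_lit 0) (XT.lf (nat_lit 0) (nat_lit 36720311580) (nat_lit 76) (nat_lit 21096148003) (nat_lit 152) (nat_lit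 235194950876) (nat_lit 4) (nat_lit 5) (nat_lit 5) (nat_lit 5) (nat_lit 6) (nat_lit 4) (nat_lit 309) (nat_lit 260) (nat_lit 151)) (XT.lf (nat_lit 0) (nat_lit 81184854020) (nat_lit 152) (nat_lit 229398433197) (nat_lit 0) (nat_lit 3833620789) (nat_lit 4) (nat_lit 5) (nat_lit 6) (nat_lit 4) (nat_lit 4) (nat_lit 4) (nat_lit 310) (nat_lit 260) (nat_lit 150))) (XT.nd (nat_lit 78) (nat_lit 0) (nat_lit 0) (XT.lf (nat_lit 0) (nat_lit 106969845616) (nat_lit 152) (nat_lit 200903825364) (nat_lit 0) (nat_lit 29617405650) (nat_lit 4) (nat_lit 5) (nat_lit 6) (nat_lit 4) (nat_lit 4) (nat_lit 4) (nat_lit 311) (nat_lit 260) (nat_lit 149)) (XT.lf (nat_lit 0) (nat_lit 134816871455) (nat_lit 152) (nat_lit 170131055579) (nat_lit 0) (nat_lit 57463314142) (nat_lit 4) (nat_lit 5) (nat_lit 6) (nat_lit 4) (nat_lit 4) (nat_lit 4) (nat_lit 312) (nat_lit 260) (nat_lit 148)))))) (XT.nd (nat_lit 468) (nat_lit 0) (nat_lit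 0) (XT.nd (nat_lit 234) (nat_lit 76) (nat_lit 0) (XT.nd (nat_lit 78) (nat_lit 0) (nat_lit 0) (XT.lf (nat_lit 0) (nat_lit 164890950950) (nat_lit 152) (nat_lit 136897766687) (nat_lit 0) (nat_lit 87536359057) (nat_lit 4) (nat_lit 5) (nat_lit 6) (nat_lit 4) (nat_lit 4) (nat_lit 4) (nat_lit 313) (nat_lit 260) (nat_lit 147)) (XT.nd (nat_lit 78) (nat_lit 0) (nat_lit 0) (XT.lf (nat_lit 0) (nat_lit 197370300869) (nat_lit 152) (nat_lit 101007020681) (nat_lit 0) (nat_lit 120014751030) (nat_lit 4) (nat_lit 5) (nat_lit 6) (nat_lit 4) (nat_lit 4) (nat_lit 4) (nat_lit 314) (nat_lit 260) (nat_lit 146)) (XT.lf (nat_lit 0) (nat_lit 232447391432) (nat_lit 152) (nat_lit 62246131658) (nat_lit 0) (nat_lit 155090954607) (nat_lit 4) (nat_lit 5) (nat_lit 6) (nat_lit 4) (nat_lit 4) (nat_lit 4) (nat_lit 315) (nat_lit 260) (nat_lit 145)))) (XT.nd (nat_lit 78) (nat_lit 76) (nat_lit 0) (XT.lf (nat_lit 0) (nat_lit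 270330086880) (nat_lit 152) (nat_lit 20385405461) (nat_lit 0) (nat_lit 192972828772) (nat_lit 4) (nat_lit 5) (nat_lit 6) (nat_lit 4) (nat_lit 4) (nat_lit 4) (nat_lit 316) (nat_lit 260) (nat_lit 144)) (XT.nd (nat_lit 78) (nat_lit 0) (nat_lit 0) (XT.lf (nat_lit 0) (nat_lit 26130368324) (nat_lit 76) (nat_lit 285740944923) (nat_lit 76) (nat_lit 208382926368) (nat_lit 3) (nat_lit 4) (nat_lit 4) (nat_lit 5) (nat_lit 4) (nat_lit 4) (nat_lit 317) (nat_lit 260) (nat_lit 143)) (XT.lf (nat_lit 0) (nat_lit 77525806962) (nat_lit 76) (nat_lit 279766899298) (nat_lit 76) (nat_lit 202408176625) (nat_lit 3) (nat_lit 4) (nat_lit 4) (nat_lit 5) (nat_lit 4) (nat_lit 4) (nat_lit 318) (nat_lit 260) (nat_lit 142))))) (XT.nd (nat_lit 234) (nat_lit 0) (nat_lit 0) (XT.nd (nat_lit 78) (nat_lit 0) (nat_lit 0) (XT.lf (nat_lit 0) (nat_lit 133032016690) (nat_lit 76) (nat_lit 273315326827) (nat_lit 76) (nat_lit 195955952192)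 (nat_lit 3) (nat_lit 4) (nat_lit 4) (nat_lit 5) (nat_lit 4) (nat_lit 4) (nat_lit 319) (nat_lit 260) (nat_lit 141)) (XT.nd (nat_lit 78) (nat_lit 0) (nat_lit 0) (XT.lf (nat_lit 0) (nat_lit 192977923194) (nat_lit 76) (nat_lit 266347995968) (nat_lit 76) (nat_lit 188988017665) (nat_lit 3) (nat_lit 4) (nat_lit 4) (nat_lit 5) (nat_lit 4) (nat_lit 4) (nat_lit 320) (nat_lit 260) (nat_lit 140)) (XT.lf (nat_lit 0) (nat_lit 257718761476) (nat_lit 76) (nat_lit 258823618835) (nat_lit 76) (nat_lit 181463081581) (nat_lit 3) (nat_lit 4) (nat_lit 4) (nat_lit 5) (nat_lit 4) (nat_lit 4) (nat_lit 321) (nat_lit 260) (nat_lit 139)))) (XT.nd (nat_lit 156) (nat_lit 0) (nat_lit 0) (XT.nd (nat_lit 78) (nat_lit 0) (nat_lit 0) (XT.lf (nat_lit 0) (nat_lit 327638180948) (nat_lit 76) (nat_lit 250697606527) (nat_lit 76) (nat_lit 173336551725) (nat_lit 3) (nat_lit 4) (nat_lit 4) (nat_lit 5) (nat_lit 4) (nat_lit 4)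 (nat_lit 322) (nat_lit 260) (nat_lit 138)) (XT.lf (nat_lit 0) (nat_lit 403150518910) (nat_lit 76) (nat_lit 241921804896) (nat_lit 76) (nat_lit 164560270883) (nat_lit 3) (nat_lit 4) (nat_lit 4) (nat_lit 5) (nat_lit 4) (nat_lit 4) (nat_lit 323) (nat_lit 260) (nat_lit 137))) (XT.nd (nat_lit 78) (nat_lit 0) (nat_lit 0) (XT.lf (nat_lit 0) (nat_lit 484703255884) (nat_lit 76) (nat_lit 232444209193) (nat_lit 76) (nat_lit 155082231466) (nat_lit 3) (nat_lit 4) (nat_lit 4) (nat_lit 5) (nat_lit 4) (nat_lit 4) (nat_lit 324) (nat_lit 260) (nat_lit 136)) (XT.lf (nat_lit 0) (nat_lit 572779667349) (nat_lit 76) (nat_lit 222208655887) (nat_lit 76) (nat_lit 144846267314) (nat_lit 3) (nat_lit 4) (nat_lit 4) (nat_lit 5) (nat_lit 4) (nat_lit 4) (nat_lit 325) (nat_lit 260) (nat_lit 135))))))))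
noncomputable def xc86 : XT := (XT.nd (nat_lit 33462) (nat_lit 0) (nat_lit 532) (XT.nd (nat_lit 32448) (nat_lit 0) (nat_lit 2052) (XT.nd (nat_lit 468) (nat_lit 152) (nat_lit 0) (XT.nd (nat_lit 234) (nat_lit 0) (nat_lit 0) (XT.nd (nat_lit 78) (nat_lit 0) (nat_lit 0) (XT.lf (nat_lit 0) (nat_lit 667901687593) (nat_lit 76) (nat_lit 211154489847) (nat_lit 76) (nat_lit 133791720861) (nat_lit 3) (nat_lit 4) (nat_lit 4) (nat_lit 5) (nat_lit 4) (nat_lit 4) (nat_lit 326) (nat_lit 260) (nat_lit 134)) (XT.nd (nat_lit 78) (nat_lit 0) (nat_lit 0) (XT.lf (nat_lit 0) (nat_lit 770633002664) (nat_lit 76) (nat_lit 199216204905) (nat_lit 76) (nat_lit 121853083684) (nat_lit 3) (nat_lit 4) (nat_lit 4) (nat_lit 5) (nat_lit 4) (nat_lit 4) (nat_lit 327) (nat_lit 260) (nat_lit 133)) (XT.lf (nat_lit 0) (nat_lit 881582390725) (nat_lit 76) (nat_lit 186323055667) (nat_lit 76) (nat_lit 108959608304) (nat_lit 3)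 (nat_lit 4) (nat_lit 4) (nat_lit 5) (nat_lit 4) (nat_lit 4) (nat_lit 328) (nat_lit 260) (nat_lit 132)))) (XT.nd (nat_lit 78) (nat_lit 0) (nat_lit 0) (XT.lf (nat_lit 0) (nat_lit 1001407329630) (nat_lit 76) (nat_lit 172398638288) (nat_lit 76) (nat_lit 95034888940) (nat_lit 3) (nat_lit 4) (nat_lit 4) (nat_lit 5) (nat_lit 4) (nat_lit 4) (nat_lit 329) (nat_lit 260) (nat_lit 131)) (XT.nd (nat_lit 78) (nat_lit 0) (nat_lit 0) (XT.lf (nat_lit 0) (nat_lit 1130817893093) (nat_lit 76) (nat_lit 157360437700) (nat_lit 76) (nat_lit 79996408737) (nat_lit 3) (nat_lit 4) (nat_lit 4) (nat_lit 5) (nat_lit 4) (nat_lit 4) (nat_lit 330) (nat_lit 260) (nat_lit 130)) (XT.lf (nat_lit 0) (nat_lit 1270580958525) (nat_lit 76) (nat_lit 141119338641) (nat_lit 76) (nat_lit 63755050775) (nat_lit 3) (nat_lit 4) (nat_lit 4) (nat_lit 5) (nat_lit 4) (nat_lit 4) (nat_lit 331) (nat_lit 260) (nat_lit 129))))) (XT.nd (nat_lit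 234) (nat_lit 152) (nat_lit 0) (XT.nd (nat_lit 78) (nat_lit 0) (nat_lit 0) (XT.lf (nat_lit 0) (nat_lit 1421524751500) (nat_lit 76) (nat_lit 123579097561) (nat_lit 76) (nat_lit 46214569970) (nat_lit 3) (nat_lit 4) (nat_lit 4) (nat_lit 5) (nat_lit 4) (nat_lit 4) (nat_lit 332) (nat_lit 260) (nat_lit 128)) (XT.nd (nat_lit 78) (nat_lit 0) (nat_lit 0) (XT.lf (nat_lit 0) (nat_lit 1584543753754) (nat_lit 76) (nat_lit 104635772290) (nat_lit 76) (nat_lit 27271022733) (nat_lit 3) (nat_lit 4) (nat_lit 4) (nat_lit 5) (nat_lit 4) (nat_lit 4) (nat_lit 333) (nat_lit 260) (nat_lit 127)) (XT.lf (nat_lit 0) (nat_lit 1760604003818) (nat_lit 76) (nat_lit 84177106087) (nat_lit 76) (nat_lit 6812151004) (nat_lit 3) (nat_lit 4) (nat_lit 4) (nat_lit 5) (nat_lit 4) (nat_lit 4) (nat_lit 334) (nat_lit 260) (nat_lit 126)))) (XT.nd (nat_lit 78) (nat_lit 76) (nat_lit 0) (XT.lf (nat_lit 0) (nat_lit 14518751260) (nat_lit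 152) (nat_lit 47166142762) (nat_lit 76) (nat_lit 1935833102045) (nat_lit 2) (nat_lit 5) (nat_lit 4) (nat_lit 5) (nat_lit 3) (nat_lit 4) (nat_lit 335) (nat_lit 260) (nat_lit 125)) (XT.nd (nat_lit 78) (nat_lit 76) (nat_lit 0) (XT.lf (nat_lit 0) (nat_lit 37187962881) (nat_lit 152) (nat_lit 14358796) (nat_lit 76) (nat_lit 2117900243799) (nat_lit 2) (nat_lit 5) (nat_lit 4) (nat_lit 5) (nat_lit 3) (nat_lit 4) (nat_lit 336) (nat_lit 260) (nat_lit 124)) (XT.lf (nat_lit 0) (nat_lit 53590141078) (nat_lit 76) (nat_lit 9369294411) (nat_lit 152) (nat_lit 2262231367187) (nat_lit 1) (nat_lit 5) (nat_lit 2) (nat_lit 5) (nat_lit 3) (nat_lit 4) (nat_lit 337) (nat_lit 260) (nat_lit 123)))))) (XT.nd (nat_lit 468) (nat_lit 608) (nat_lit 0) (XT.nd (nat_lit 234) (nat_lit 0) (nat_lit 76) (XT.nd (nat_lit 78) (nat_lit 0) (nat_lit 0) (XT.lf (nat_lit 0) (nat_lit 3204787396) (nat_lit 532) (nat_lit 3586546032)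 (nat_lit 532) (nat_lit 3586546032) (nat_lit 36) (nat_lit 3) (nat_lit 43) (nat_lit 3) (nat_lit 43) (nat_lit 5) (nat_lit 261) (nat_lit 261) (nat_lit 198)) (XT.nd (nat_lit 78) (nat_lit 0) (nat_lit 76) (XT.lf (nat_lit 76) (nat_lit 1793641255) (nat_lit 0) (nat_lit 5052183231) (nat_lit 532) (nat_lit 14725051697) (nat_lit 37) (nat_lit 5) (nat_lit 36) (nat_lit 3) (nat_lit 43) (nat_lit 5) (nat_lit 262) (nat_lit 261) (nat_lit 197)) (XT.lf (nat_lit 0) (nat_lit 7604537359) (nat_lit 456) (nat_lit 10664160951) (nat_lit 532) (nat_lit 4159571871) (nat_lit 37) (nat_lit 5) (nat_lit 43) (nat_lit 5) (nat_lit 44) (nat_lit 5) (nat_lit 263) (nat_lit 261) (nat_lit 196)))) (XT.nd (nat_lit 78) (nat_lit 0) (nat_lit 76) (XT.lf (nat_lit 0) (nat_lit 8542467357) (nat_lit 456) (nat_lit 961730887) (nat_lit 532) (nat_lit 13840642895) (nat_lit 37) (nat_lit 5) (nat_lit 43) (nat_lit 5) (nat_lit 44) (nat_lit 5) (nat_lit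 264) (nat_lit 261) (nat_lit 195)) (XT.nd (nat_lit 78) (nat_lit 0) (nat_lit 0) (XT.lf (nat_lit 0) (nat_lit 9789823530) (nat_lit 456) (nat_lit 14312116300) (nat_lit 532) (nat_lit 214108682) (nat_lit 38) (nat_lit 5) (nat_lit 44) (nat_lit 5) (nat_lit 45) (nat_lit 5) (nat_lit 265) (nat_lit 261) (nat_lit 194)) (XT.lf (nat_lit 0) (nat_lit 11399815005) (nat_lit 456) (nat_lit 3717516463) (nat_lit 532) (nat_lit 10226650743) (nat_lit 38) (nat_lit 5) (nat_lit 44) (nat_lit 5) (nat_lit 45) (nat_lit 5) (nat_lit 266) (nat_lit 261) (nat_lit 193))))) (XT.nd (nat_lit 234) (nat_lit 380) (nat_lit 0) (XT.nd (nat_lit 78) (nat_lit 380) (nat_lit 0) (XT.lf (nat_lit 76) (nat_lit 8122972001) (nat_lit 0) (nat_lit 5200811924) (nat_lit 532) (nat_lit 13115605656) (nat_lit 39) (nat_lit 5) (nat_lit 38) (nat_lit 5) (nat_lit 45) (nat_lit 5) (nat_lit 267) (nat_lit 261) (nat_lit 192)) (XT.nd (nat_lit 78) (nat_lit 456)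 (nat_lit 0) (XT.lf (nat_lit 0) (nat_lit 15628875773) (nat_lit 456) (nat_lit 6635994129) (nat_lit 76) (nat_lit 5339432485) (nat_lit 39) (nat_lit 5) (nat_lit 45) (nat_lit 5) (nat_lit 40) (nat_lit 5) (nat_lit 268) (nat_lit 261) (nat_lit 191)) (XT.lf (nat_lit 0) (nat_lit 6143038219) (nat_lit 456) (nat_lit 12249301462) (nat_lit 532) (nat_lit 10448196992) (nat_lit 33) (nat_lit 5) (nat_lit 39) (nat_lit 5) (nat_lit 40) (nat_lit 5) (nat_lit 269) (nat_lit 261) (nat_lit 190)))) (XT.nd (nat_lit 156) (nat_lit 152) (nat_lit 0) (XT.nd (nat_lit 78) (nat_lit 228) (nat_lit 0) (XT.lf (nat_lit 0) (nat_lit 20313952926) (nat_lit 456) (nat_lit 1235974063) (nat_lit 532) (nat_lit 8611941260) (nat_lit 33) (nat_lit 5) (nat_lit 39) (nat_lit 5) (nat_lit 40) (nat_lit 5) (nat_lit 270) (nat_lit 261) (nat_lit 189)) (XT.lf (nat_lit 0) (nat_lit 3963648965) (nat_lit 228) (nat_lit 21340374045) (nat_lit 304) (nat_lit 6257410325)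 (nat_lit 30) (nat_lit 5) (nat_lit 33) (nat_lit 5) (nat_lit 34) (nat_lit 5) (nat_lit 271) (nat_lit 261) (nat_lit 188))) (XT.nd (nat_lit 78) (nat_lit 152) (nat_lit 0) (XT.lf (nat_lit 0) (nat_lit 19398677038) (nat_lit 228) (nat_lit 10252949169) (nat_lit 304) (nat_lit 3397919284) (nat_lit 30) (nat_lit 5) (nat_lit 33) (nat_lit 5) (nat_lit 34) (nat_lit 5) (nat_lit 272) (nat_lit 261) (nat_lit 187)) (XT.lf (nat_lit 0) (nat_lit 1434428816) (nat_lit 152) (nat_lit 32981675845) (nat_lit 228) (nat_lit 235110139) (nat_lit 28) (nat_lit 5) (nat_lit 30) (nat_lit 5) (nat_lit 31) (nat_lit 5) (nat_lit 273) (nat_lit 261) (nat_lit 186))))))) (XT.nd (nat_lit 1014) (nat_lit 532) (nat_lit 0) (XT.nd (nat_lit 468) (nat_lit 532) (nat_lit 0) (XT.nd (nat_lit 234) (nat_lit 152) (nat_lit 0) (XT.nd (nat_lit 78) (nat_lit 228) (nat_lit 0) (XT.lf (nat_lit 0) (nat_lit 3664148904) (nat_lit 228) (nat_lit 18208685795) (nat_lit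 76) (nat_lit 14450688963) (nat_lit 27) (nat_lit 5) (nat_lit 30) (nat_lit 5) (nat_lit 28) (nat_lit 5) (nat_lit 274) (nat_lit 261) (nat_lit 185)) (XT.nd (nat_lit 78) (nat_lit 228) (nat_lit 0) (XT.lf (nat_lit 0) (nat_lit 7856437384) (nat_lit 228) (nat_lit 2013370961) (nat_lit 76) (nat_lit 28259843711) (nat_lit 27) (nat_lit 5) (nat_lit 30) (nat_lit 5) (nat_lit 28) (nat_lit 5) (nat_lit 275) (nat_lit 261) (nat_lit 184)) (XT.lf (nat_lit 0) (nat_lit 12854571137) (nat_lit 304) (nat_lit 23848518830) (nat_lit 76) (nat_lit 3339568432) (nat_lit 24) (nat_lit 5) (nat_lit 28) (nat_lit 5) (nat_lit 25) (nat_lit 5) (nat_lit 276) (nat_lit 261) (nat_lit 183)))) (XT.nd (nat_lit 78) (nat_lit 152) (nat_lit 0) (XT.lf (nat_lit 0) (nat_lit 18559883617) (nat_lit 304) (nat_lit 6396383102) (nat_lit 76) (nat_lit 17127875115) (nat_lit 24) (nat_lit 5) (nat_lit 28) (nat_lit 5) (nat_lit 25) (nat_lit 5) (nat_lit 277)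 (nat_lit 261) (nat_lit 182)) (XT.nd (nat_lit 78) (nat_lit 0) (nat_lit 0) (XT.lf (nat_lit 0) (nat_lit 13100751690) (nat_lit 152) (nat_lit 11930841310) (nat_lit 228) (nat_lit 19232574328) (nat_lit 22) (nat_lit 5) (nat_lit 24) (nat_lit 5) (nat_lit 25) (nat_lit 5) (nat_lit 278) (nat_lit 261) (nat_lit 181)) (XT.lf (nat_lit 0) (nat_lit 32246943656) (nat_lit 228) (nat_lit 12145840130) (nat_lit 76) (nat_lit 2207758283) (nat_lit 22) (nat_lit 5) (nat_lit 25) (nat_lit 5) (nat_lit 23) (nat_lit 5) (nat_lit 279) (nat_lit 261) (nat_lit 180))))) (XT.nd (nat_lit 234) (nat_lit 152) (nat_lit 0) (XT.nd (nat_lit 78) (nat_lit 228) (nat_lit 0) (XT.lf (nat_lit 0) (nat_lit 8502336179) (nat_lit 152) (nat_lit 32047011221) (nat_lit 228) (nat_lit 8533711508) (nat_lit 20) (nat_lit 5) (nat_lit 22) (nat_lit 5) (nat_lit 23) (nat_lit 5) (nat_lit 280) (nat_lit 261) (nat_lit 179)) (XT.nd (nat_lit 78) (nat_lit 228) (nat_lit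 0) (XT.lf (nat_lit 0) (nat_lit 31487034574) (nat_lit 152) (nat_lit 18356640097) (nat_lit 228) (nat_lit 1894300702) (nat_lit 20) (nat_lit 5) (nat_lit 22) (nat_lit 5) (nat_lit 23) (nat_lit 5) (nat_lit 281) (nat_lit 261) (nat_lit 178)) (XT.lf (nat_lit 0) (nat_lit 1655273171) (nat_lit 152) (nat_lit 3392704771) (nat_lit 228) (nat_lit 49544317659) (nat_lit 17) (nat_lit 5) (nat_lit 19) (nat_lit 5) (nat_lit 20) (nat_lit 5) (nat_lit 282) (nat_lit 261) (nat_lit 177)))) (XT.nd (nat_lit 156) (nat_lit 152) (nat_lit 0) (XT.nd (nat_lit 78) (nat_lit 0) (nat_lit 0) (XT.lf (nat_lit 0) (nat_lit 13314429276) (nat_lit 228) (nat_lit 31541657742) (nat_lit 76) (nat_lit 12745260990) (nat_lit 17) (nat_lit 5) (nat_lit 20) (nat_lit 5) (nat_lit 18) (nat_lit 5) (nat_lit 283) (nat_lit 261) (nat_lit 176)) (XT.lf (nat_lit 0) (nat_lit 22326591589) (nat_lit 228) (nat_lit 8528343371) (nat_lit 76) (nat_lit 29989450391)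 (nat_lit 17) (nat_lit 5) (nat_lit 20) (nat_lit 5) (nat_lit 18) (nat_lit 5) (nat_lit 284) (nat_lit 261) (nat_lit 175))) (XT.nd (nat_lit 78) (nat_lit 0) (nat_lit 0) (XT.lf (nat_lit 0) (nat_lit 17180319680) (nat_lit 152) (nat_lit 15289143077) (nat_lit 228) (nat_lit 31844635474) (nat_lit 15) (nat_lit 5) (nat_lit 17) (nat_lit 5) (nat_lit 18) (nat_lit 5) (nat_lit 285) (nat_lit 261) (nat_lit 174)) (XT.lf (nat_lit 0) (nat_lit 43696245220) (nat_lit 228) (nat_lit 22659952541) (nat_lit 76) (nat_lit 1683402425) (nat_lit 15) (nat_lit 5) (nat_lit 18) (nat_lit 5) (nat_lit 16) (nat_lit 4) (nat_lit 286) (nat_lit 261) (nat_lit 173)))))) (XT.nd (nat_lit 468) (nat_lit 228) (nat_lit 0) (XT.nd (nat_lit 234) (nat_lit 152) (nat_lit 0) (XT.nd (nat_lit 78) (nat_lit 76) (nat_lit 0) (XT.lf (nat_lit 0) (nat_lit 3547245055) (nat_lit 76) (nat_lit 52753248755) (nat_lit 152) (nat_lit 15724312395) (nat_lit 14) (nat_lit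 5) (nat_lit 15) (nat_lit 5) (nat_lit 16) (nat_lit 4) (nat_lit 287) (nat_lit 261) (nat_lit 172)) (XT.nd (nat_lit 78) (nat_lit 76) (nat_lit 0) (XT.lf (nat_lit 0) (nat_lit 33134971657) (nat_lit 76) (nat_lit 37394681788) (nat_lit 152) (nat_lit 5749858635) (nat_lit 14) (nat_lit 5) (nat_lit 15) (nat_lit 5) (nat_lit 16) (nat_lit 4) (nat_lit 288) (nat_lit 261) (nat_lit 171)) (XT.lf (nat_lit 0) (nat_lit 4768452661) (nat_lit 152) (nat_lit 15910215779) (nat_lit 76) (nat_lit 60186498387) (nat_lit 13) (nat_lit 5) (nat_lit 15) (nat_lit 5) (nat_lit 14) (nat_lit 5) (nat_lit 289) (nat_lit 261) (nat_lit 170)))) (XT.nd (nat_lit 78) (nat_lit 0) (nat_lit 0) (XT.lf (nat_lit 0) (nat_lit 14052249726) (nat_lit 152) (nat_lit 2100655107) (nat_lit 228) (nat_lit 69626003145) (nat_lit 11) (nat_lit 5) (nat_lit 13) (nat_lit 5) (nat_lit 14) (nat_lit 5) (nat_lit 290) (nat_lit 261) (nat_lit 169)) (XT.nd (nat_lit 78)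 (nat_lit 0) (nat_lit 0) (XT.lf (nat_lit 0) (nat_lit 29323870800) (nat_lit 228) (nat_lit 44182005423) (nat_lit 76) (nat_lit 17509818252) (nat_lit 11) (nat_lit 5) (nat_lit 14) (nat_lit 5) (nat_lit 12) (nat_lit 4) (nat_lit 291) (nat_lit 261) (nat_lit 168)) (XT.lf (nat_lit 0) (nat_lit 43600687699) (nat_lit 228) (nat_lit 14492300777) (nat_lit 76) (nat_lit 38574267693) (nat_lit 11) (nat_lit 5) (nat_lit 14) (nat_lit 5) (nat_lit 12) (nat_lit 4) (nat_lit 292) (nat_lit 261) (nat_lit 167))))) (XT.nd (nat_lit 234) (nat_lit 152) (nat_lit 0) (XT.nd (nat_lit 78) (nat_lit 0) (nat_lit 0) (XT.lf (nat_lit 0) (nat_lit 18494063435) (nat_lit 76) (nat_lit 40968157317) (nat_lit 152) (nat_lit 43273322094) (nat_lit 10) (nat_lit 5) (nat_lit 11) (nat_lit 5) (nat_lit 12) (nat_lit 4) (nat_lit 293) (nat_lit 261) (nat_lit 166)) (XT.nd (nat_lit 78) (nat_lit 0) (nat_lit 0) (XT.lf (nat_lit 0) (nat_lit 54939954790) (nat_lit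 76) (nat_lit 22046832915) (nat_lit 152) (nat_lit 32270981141) (nat_lit 10) (nat_lit 5) (nat_lit 11) (nat_lit 5) (nat_lit 12) (nat_lit 4) (nat_lit 294) (nat_lit 261) (nat_lit 165)) (XT.lf (nat_lit 0) (nat_lit 94298210065) (nat_lit 76) (nat_lit 1613134087) (nat_lit 152) (nat_lit 20390591740) (nat_lit 10) (nat_lit 5) (nat_lit 11) (nat_lit 5) (nat_lit 12) (nat_lit 4) (nat_lit 295) (nat_lit 261) (nat_lit 164)))) (XT.nd (nat_lit 156) (nat_lit 0) (nat_lit 0) (XT.nd (nat_lit 78) (nat_lit 76) (nat_lit 0) (XT.lf (nat_lit 0) (nat_lit 13053337094) (nat_lit 76) (nat_lit 104100551450) (nat_lit 76) (nat_lit 6691430419) (nat_lit 9) (nat_lit 4) (nat_lit 10) (nat_lit 5) (nat_lit 10) (nat_lit 4) (nat_lit 296) (nat_lit 261) (nat_lit 163)) (XT.lf (nat_lit 0) (nat_lit 8355585978) (nat_lit 152) (nat_lit 80033330162) (nat_lit 76) (nat_lit 43535084941) (nat_lit 8) (nat_lit 5) (nat_lit 10) (nat_lit 5) (nat_lit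 9) (nat_lit 4) (nat_lit 297) (nat_lit 261) (nat_lit 162))) (XT.nd (nat_lit 78) (nat_lit 0) (nat_lit 0) (XT.lf (nat_lit 0) (nat_lit 24243142728) (nat_lit 152) (nat_lit 46990756535) (nat_lit 76) (nat_lit 69401314628) (nat_lit 8) (nat_lit 5) (nat_lit 10) (nat_lit 5) (nat_lit 9) (nat_lit 4) (nat_lit 298) (nat_lit 261) (nat_lit 161)) (XT.lf (nat_lit 0) (nat_lit 41400120766) (nat_lit 152) (nat_lit 11307524081) (nat_lit 76) (nat_lit 97335808873) (nat_lit 8) (nat_lit 5) (nat_lit 10) (nat_lit 5) (nat_lit 9) (nat_lit 4) (nat_lit 299) (nat_lit 261) (nat_lit 160))))))))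
noncomputable def xc87 : XT := (XT.nd (nat_lit 2028) (nat_lit 76) (nat_lit 0) (XT.nd (nat_lit 1014) (nat_lit 76) (nat_lit 0) (XT.nd (nat_lit 468) (nat_lit 152) (nat_lit 0) (XT.nd (nat_lit 234) (nat_lit 76) (nat_lit 0) (XT.nd (nat_lit 78) (nat_lit 0) (nat_lit 0) (XT.lf (nat_lit 0) (nat_lit 28661592320) (nat_lit 76) (nat_lit 31955910737) (nat_lit 152) (nat_lit 99531825083) (nat_lit 7) (nat_lit 5) (nat_lit 8) (nat_lit 5) (nat_lit 9) (nat_lit 4) (nat_lit 300) (nat_lit 261) (nat_lit 159)) (XT.nd (nat_lit 78) (nat_lit 0) (nat_lit 0) (XT.lf (nat_lit 0) (nat_lit 72468827764) (nat_lit 76) (nat_lit 9211198905) (nat_lit 152) (nat_lit 89359028643) (nat_lit 7) (nat_lit 5) (nat_lit 8) (nat_lit 5) (nat_lit 9) (nat_lit 4) (nat_lit 301) (nat_lit 261) (nat_lit 158)) (XT.lf (nat_lit 0) (nat_lit 104795458654) (nat_lit 152) (nat_lit 63390940291) (nat_lit 0) (nat_lit 14584131840) (nat_lit 7) (nat_lit 5)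 (nat_lit 9) (nat_lit 4) (nat_lit 7) (nat_lit 4) (nat_lit 302) (nat_lit 261) (nat_lit 157)))) (XT.nd (nat_lit 78) (nat_lit 76) (nat_lit 0) (XT.lf (nat_lit 0) (nat_lit 129998140359) (nat_lit 152) (nat_lit 25638765211) (nat_lit 0) (nat_lit 39784579963) (nat_lit 7) (nat_lit 5) (nat_lit 9) (nat_lit 4) (nat_lit 7) (nat_lit 4) (nat_lit 303) (nat_lit 261) (nat_lit 156)) (XT.nd (nat_lit 78) (nat_lit 0) (nat_lit 0) (XT.lf (nat_lit 0) (nat_lit 15928344124) (nat_lit 76) (nat_lit 141670624389) (nat_lit 76) (nat_lit 51454995862) (nat_lit 6) (nat_lit 4) (nat_lit 7) (nat_lit 5) (nat_lit 7) (nat_lit 4) (nat_lit 304) (nat_lit 261) (nat_lit 155)) (XT.lf (nat_lit 0) (nat_lit 62276933115) (nat_lit 76) (nat_lit 125830830942) (nat_lit 76) (nat_lit 35613287479) (nat_lit 6) (nat_lit 4) (nat_lit 7) (nat_lit 5) (nat_lit 7) (nat_lit 4) (nat_lit 305) (nat_lit 261) (nat_lit 154))))) (XT.nd (nat_lit 234) (nat_lit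 76) (nat_lit 0) (XT.nd (nat_lit 78) (nat_lit 76) (nat_lit 0) (XT.lf (nat_lit 0) (nat_lit 112331568124) (nat_lit 76) (nat_lit 108724669063) (nat_lit 76) (nat_lit 18505352510) (nat_lit 6) (nat_lit 4) (nat_lit 7) (nat_lit 5) (nat_lit 7) (nat_lit 4) (nat_lit 306) (nat_lit 261) (nat_lit 153)) (XT.nd (nat_lit 78) (nat_lit 76) (nat_lit 0) (XT.lf (nat_lit 0) (nat_lit 166388869212) (nat_lit 76) (nat_lit 90250768904) (nat_lit 76) (nat_lit 29810602) (nat_lit 6) (nat_lit 4) (nat_lit 7) (nat_lit 5) (nat_lit 7) (nat_lit 4) (nat_lit 307) (nat_lit 261) (nat_lit 152)) (XT.lf (nat_lit 0) (nat_lit 18926202647) (nat_lit 152) (nat_lit 50855976932) (nat_lit 76) (nat_lit 205325497373) (nat_lit 5) (nat_lit 5) (nat_lit 7) (nat_lit 5) (nat_lit 6) (nat_lit 4) (nat_lit 308) (nat_lit 261) (nat_lit 151)))) (XT.nd (nat_lit 156) (nat_lit 0) (nat_lit 0) (XT.nd (nat_lit 78) (nat_lit 76) (nat_lit 0) (XT.lf (nat_lit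 0) (nat_lit 39396249271) (nat_lit 152) (nat_lit 8279687490) (nat_lit 76) (nat_lit 247345033140) (nat_lit 5) (nat_lit 5) (nat_lit 7) (nat_lit 5) (nat_lit 6) (nat_lit 4) (nat_lit 309) (nat_lit 261) (nat_lit 150)) (XT.lf (nat_lit 0) (nat_lit 39686593859) (nat_lit 76) (nat_lit 22770994173) (nat_lit 152) (nat_lit 253993444505) (nat_lit 4) (nat_lit 5) (nat_lit 5) (nat_lit 5) (nat_lit 6) (nat_lit 4) (nat_lit 310) (nat_lit 261) (nat_lit 149))) (XT.nd (nat_lit 78) (nat_lit 0) (nat_lit 0) (XT.lf (nat_lit 0) (nat_lit 87694568842) (nat_lit 152) (nat_lit 247722864174) (nat_lit 0) (nat_lit 4151609598) (nat_lit 4) (nat_lit 5) (nat_lit 6) (nat_lit 4) (nat_lit 4) (nat_lit 4) (nat_lit 311) (nat_lit 261) (nat_lit 148)) (XT.lf (nat_lit 0) (nat_lit 115541254100) (nat_lit 152) (nat_lit 216950720580) (nat_lit 0) (nat_lit 31997260274) (nat_lit 4) (nat_lit 5) (nat_lit 6) (nat_lit 4) (nat_lit 4) (nat_lit 4)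 (nat_lit 312) (nat_lit 261) (nat_lit 147)))))) (XT.nd (nat_lit 468) (nat_lit 0) (nat_lit 0) (XT.nd (nat_lit 234) (nat_lit 76) (nat_lit 0) (XT.nd (nat_lit 78) (nat_lit 0) (nat_lit 0) (XT.lf (nat_lit 0) (nat_lit 145615018241) (nat_lit 152) (nat_lit 183718011495) (nat_lit 0) (nat_lit 62070066470) (nat_lit 4) (nat_lit 5) (nat_lit 6) (nat_lit 4) (nat_lit 4) (nat_lit 4) (nat_lit 313) (nat_lit 261) (nat_lit 146)) (XT.nd (nat_lit 78) (nat_lit 0) (nat_lit 0) (XT.lf (nat_lit 0) (nat_lit 178094076164) (nat_lit 152) (nat_lit 147827802346) (nat_lit 0) (nat_lit 94548237408) (nat_lit 4) (nat_lit 5) (nat_lit 6) (nat_lit 4) (nat_lit 4) (nat_lit 4) (nat_lit 314) (nat_lit 261) (nat_lit 145)) (XT.lf (nat_lit 0) (nat_lit 213170896362) (nat_lit 152) (nat_lit 109067410413) (nat_lit 0) (nat_lit 129624236323) (nat_lit 4) (nat_lit 5) (nat_lit 6) (nat_lit 4) (nat_lit 4) (nat_lit 4) (nat_lit 315) (nat_lit 261)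 (nat_lit 144)))) (XT.nd (nat_lit 78) (nat_lit 76) (nat_lit 0) (XT.lf (nat_lit 0) (nat_lit 251053341472) (nat_lit 152) (nat_lit 67207144485) (nat_lit 0) (nat_lit 167505920985) (nat_lit 4) (nat_lit 5) (nat_lit 6) (nat_lit 4) (nat_lit 4) (nat_lit 4) (nat_lit 316) (nat_lit 261) (nat_lit 143)) (XT.nd (nat_lit 78) (nat_lit 76) (nat_lit 0) (XT.lf (nat_lit 0) (nat_lit 291965900058) (nat_lit 152) (nat_lit 21998943726) (nat_lit 0) (nat_lit 208417775453) (nat_lit 4) (nat_lit 5) (nat_lit 6) (nat_lit 4) (nat_lit 4) (nat_lit 4) (nat_lit 317) (nat_lit 261) (nat_lit 142)) (XT.lf (nat_lit 0) (nat_lit 28237654135) (nat_lit 76) (nat_lit 308592479038) (nat_lit 76) (nat_lit 225043702471) (nat_lit 3) (nat_lit 4) (nat_lit 4) (nat_lit 5) (nat_lit 4) (nat_lit 4) (nat_lit 318) (nat_lit 261) (nat_lit 141))))) (XT.nd (nat_lit 234) (nat_lit 0) (nat_lit 0) (XT.nd (nat_lit 78) (nat_lit 0) (nat_lit 0) (XT.lf (nat_lit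 0) (nat_lit 83743479246) (nat_lit 76) (nat_lit 302141083206) (nat_lit 76) (nat_lit 218591702971) (nat_lit 3) (nat_lit 4) (nat_lit 4) (nat_lit 5) (nat_lit 4) (nat_lit 4) (nat_lit 319) (nat_lit 261) (nat_lit 140)) (XT.nd (nat_lit 78) (nat_lit 0) (nat_lit 0) (XT.lf (nat_lit 0) (nat_lit 143689029624) (nat_lit 76) (nat_lit 295173915902) (nat_lit 76) (nat_lit 211623976716) (nat_lit 3) (nat_lit 4) (nat_lit 4) (nat_lit 5) (nat_lit 4) (nat_lit 4) (nat_lit 320) (nat_lit 261) (nat_lit 139)) (XT.lf (nat_lit 0) (nat_lit 208429538160) (nat_lit 76) (nat_lit 287649690209) (nat_lit 76) (nat_lit 204099233475) (nat_lit 3) (nat_lit 4) (nat_lit 4) (nat_lit 5) (nat_lit 4) (nat_lit 4) (nat_lit 321) (nat_lit 261) (nat_lit 138)))) (XT.nd (nat_lit 156) (nat_lit 0) (nat_lit 0) (XT.nd (nat_lit 78) (nat_lit 0) (nat_lit 0) (XT.lf (nat_lit 0) (nat_lit 278348652311) (nat_lit 76) (nat_lit 279523818123) (nat_lit 76)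 (nat_lit 195972882178) (nat_lit 3) (nat_lit 4) (nat_lit 4) (nat_lit 5) (nat_lit 4) (nat_lit 4) (nat_lit 322) (nat_lit 261) (nat_lit 137)) (XT.lf (nat_lit 0) (nat_lit 353860707569) (nat_lit 76) (nat_lit 270748146328) (nat_lit 76) (nat_lit 187196766669) (nat_lit 3) (nat_lit 4) (nat_lit 4) (nat_lit 5) (nat_lit 4) (nat_lit 4) (nat_lit 323) (nat_lit 261) (nat_lit 136))) (XT.nd (nat_lit 78) (nat_lit 0) (nat_lit 0) (XT.lf (nat_lit 0) (nat_lit 435413182780) (nat_lit 76) (nat_lit 261270670843) (nat_lit 76) (nat_lit 177718880338) (nat_lit 3) (nat_lit 4) (nat_lit 4) (nat_lit 5) (nat_lit 4) (nat_lit 4) (nat_lit 324) (nat_lit 261) (nat_lit 135)) (XT.lf (nat_lit 0) (nat_lit 523489351871) (nat_lit 76) (nat_lit 251035228850) (nat_lit 76) (nat_lit 167483057931) (nat_lit 3) (nat_lit 4) (nat_lit 4) (nat_lit 5) (nat_lit 4) (nat_lit 4) (nat_lit 325) (nat_lit 261) (nat_lit 134))))))) (XT.nd (nat_lit 32682)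 (nat_lit 0) (nat_lit 1900) (XT.nd (nat_lit 468) (nat_lit 76) (nat_lit 0) (XT.nd (nat_lit 234) (nat_lit 0) (nat_lit 0) (XT.nd (nat_lit 78) (nat_lit 0) (nat_lit 0) (XT.lf (nat_lit 0) (nat_lit 618611147695) (nat_lit 76) (nat_lit 239981165877) (nat_lit 76) (nat_lit 156428642725) (nat_lit 3) (nat_lit 4) (nat_lit 4) (nat_lit 5) (nat_lit 4) (nat_lit 4) (nat_lit 326) (nat_lit 261) (nat_lit 133)) (XT.nd (nat_lit 78) (nat_lit 0) (nat_lit 0) (XT.lf (nat_lit 0) (nat_lit 721342254970) (nat_lit 76) (nat_lit 228042976368) (nat_lit 76) (nat_lit 144490127072) (nat_lit 3) (nat_lit 4) (nat_lit 4) (nat_lit 5) (nat_lit 4) (nat_lit 4) (nat_lit 327) (nat_lit 261) (nat_lit 132)) (XT.lf (nat_lit 0) (nat_lit 832291450627) (nat_lit 76) (nat_lit 215149915494) (nat_lit 76) (nat_lit 131596764214) (nat_lit 3) (nat_lit 4) (nat_lit 4) (nat_lit 5) (nat_lit 4) (nat_lit 4) (nat_lit 328) (nat_lit 261) (nat_lit 131))))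 (XT.nd (nat_lit 78) (nat_lit 0) (nat_lit 0) (XT.lf (nat_lit 0) (nat_lit 952116211381) (nat_lit 76) (nat_lit 201225579933) (nat_lit 76) (nat_lit 117672149038) (nat_lit 3) (nat_lit 4) (nat_lit 4) (nat_lit 5) (nat_lit 4) (nat_lit 4) (nat_lit 329) (nat_lit 261) (nat_lit 130)) (XT.nd (nat_lit 78) (nat_lit 0) (nat_lit 0) (XT.lf (nat_lit 0) (nat_lit 1081526609887) (nat_lit 76) (nat_lit 186187455103) (nat_lit 76) (nat_lit 102633765305) (nat_lit 3) (nat_lit 4) (nat_lit 4) (nat_lit 5) (nat_lit 4) (nat_lit 4) (nat_lit 330) (nat_lit 261) (nat_lit 129)) (XT.lf (nat_lit 0) (nat_lit 1221289522583) (nat_lit 76) (nat_lit 169946426190) (nat_lit 76) (nat_lit 86392496667) (nat_lit 3) (nat_lit 4) (nat_lit 4) (nat_lit 5) (nat_lit 4) (nat_lit 4) (nat_lit 331) (nat_lit 261) (nat_lit 128))))) (XT.nd (nat_lit 234) (nat_lit 76) (nat_lit 0) (XT.nd (nat_lit 78) (nat_lit 0) (nat_lit 0) (XT.lf (nat_lit 0) (nat_lit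 1372233174136) (nat_lit 76) (nat_lit 152406250060) (nat_lit 76) (nat_lit 68852098570) (nat_lit 3) (nat_lit 4) (nat_lit 4) (nat_lit 5) (nat_lit 4) (nat_lit 4) (nat_lit 332) (nat_lit 261) (nat_lit 127)) (XT.nd (nat_lit 78) (nat_lit 0) (nat_lit 0) (XT.lf (nat_lit 0) (nat_lit 1535252045443) (nat_lit 76) (nat_lit 133462984928) (nat_lit 76) (nat_lit 49908627913) (nat_lit 3) (nat_lit 4) (nat_lit 4) (nat_lit 5) (nat_lit 4) (nat_lit 4) (nat_lit 333) (nat_lit 261) (nat_lit 126)) (XT.lf (nat_lit 0) (nat_lit 1711312174260) (nat_lit 76) (nat_lit 113004374410) (nat_lit 76) (nat_lit 29449827093) (nat_lit 3) (nat_lit 4) (nat_lit 4) (nat_lit 5) (nat_lit 4) (nat_lit 4) (nat_lit 334) (nat_lit 261) (nat_lit 125)))) (XT.nd (nat_lit 31824) (nat_lit 0) (nat_lit 2584) (XT.nd (nat_lit 78) (nat_lit 76) (nat_lit 0) (XT.lf (nat_lit 0) (nat_lit 1901456879871) (nat_lit 76) (nat_lit 90909182293) (nat_lit 76) (nat_lit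 7354458772) (nat_lit 3) (nat_lit 4) (nat_lit 4) (nat_lit 5) (nat_lit 4) (nat_lit 4) (nat_lit 335) (nat_lit 261) (nat_lit 124)) (XT.lf (nat_lit 0) (nat_lit 15682594910) (nat_lit 152) (nat_lit 50935089259) (nat_lit 76) (nat_lit 2090701560866) (nat_lit 2) (nat_lit 5) (nat_lit 4) (nat_lit 5) (nat_lit 3) (nat_lit 4) (nat_lit 336) (nat_lit 261) (nat_lit 123))) (XT.nd (nat_lit 78) (nat_lit 0) (nat_lit 0) (XT.lf (nat_lit 0) (nat_lit 3594611625) (nat_lit 532) (nat_lit 3801058270) (nat_lit 532) (nat_lit 3801058270) (nat_lit 36) (nat_lit 3) (nat_lit 43) (nat_lit 3) (nat_lit 43) (nat_lit 5) (nat_lit 262) (nat_lit 262) (nat_lit 196)) (XT.lf (nat_lit 76) (nat_lit 2078289041) (nat_lit 0) (nat_lit 5565709624) (nat_lit 532) (nat_lit 15631198897) (nat_lit 37) (nat_lit 5) (nat_lit 36) (nat_lit 3) (nat_lit 43) (nat_lit 5) (nat_lit 263) (nat_lit 262) (nat_lit 195)))))) (XT.nd (nat_lit 468) (nat_lit 760)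 (nat_lit 0) (XT.nd (nat_lit 234) (nat_lit 0) (nat_lit 76) (XT.nd (nat_lit 78) (nat_lit 0) (nat_lit 0) (XT.lf (nat_lit 0) (nat_lit 8442417300) (nat_lit 456) (nat_lit 11364390945) (nat_lit 532) (nat_lit 4396151030) (nat_lit 37) (nat_lit 5) (nat_lit 43) (nat_lit 5) (nat_lit 44) (nat_lit 5) (nat_lit 264) (nat_lit 262) (nat_lit 194)) (XT.nd (nat_lit 78) (nat_lit 0) (nat_lit 76) (XT.lf (nat_lit 0) (nat_lit 9438380442) (nat_lit 456) (nat_lit 897092616) (nat_lit 532) (nat_lit 14858832668) (nat_lit 37) (nat_lit 5) (nat_lit 43) (nat_lit 5) (nat_lit 44) (nat_lit 5) (nat_lit 265) (nat_lit 262) (nat_lit 193)) (XT.lf (nat_lit 0) (nat_lit 10771608422) (nat_lit 456) (nat_lit 15300553797) (nat_lit 532) (nat_lit 172243874) (nat_lit 38) (nat_lit 5) (nat_lit 44) (nat_lit 5) (nat_lit 45) (nat_lit 5) (nat_lit 266) (nat_lit 262) (nat_lit 192)))) (XT.nd (nat_lit 78) (nat_lit 0) (nat_lit 0) (XT.lf (nat_lit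 0) (nat_lit 12495688178) (nat_lit 456) (nat_lit 3869980922) (nat_lit 532) (nat_lit 10990159189) (nat_lit 38) (nat_lit 5) (nat_lit 44) (nat_lit 5) (nat_lit 45) (nat_lit 5) (nat_lit 267) (nat_lit 262) (nat_lit 191)) (XT.nd (nat_lit 78) (nat_lit 0) (nat_lit 76) (XT.lf (nat_lit 76) (nat_lit 8914077332) (nat_lit 0) (nat_lit 5649273436) (nat_lit 532) (nat_lit 13976406606) (nat_lit 39) (nat_lit 5) (nat_lit 38) (nat_lit 5) (nat_lit 45) (nat_lit 5) (nat_lit 268) (nat_lit 262) (nat_lit 190)) (XT.lf (nat_lit 0) (nat_lit 17039264530) (nat_lit 456) (nat_lit 7021660622) (nat_lit 76) (nat_lit 5738090833) (nat_lit 39) (nat_lit 5) (nat_lit 45) (nat_lit 5) (nat_lit 40) (nat_lit 5) (nat_lit 269) (nat_lit 262) (nat_lit 189))))) (XT.nd (nat_lit 234) (nat_lit 228) (nat_lit 0) (XT.nd (nat_lit 78) (nat_lit 228) (nat_lit 0) (XT.lf (nat_lit 0) (nat_lit 6776018035) (nat_lit 456) (nat_lit 13239333798) (nat_lit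 532) (nat_lit 11119534538) (nat_lit 33) (nat_lit 5) (nat_lit 39) (nat_lit 5) (nat_lit 40) (nat_lit 5) (nat_lit 270) (nat_lit 262) (nat_lit 188)) (XT.nd (nat_lit 78) (nat_lit 228) (nat_lit 0) (XT.lf (nat_lit 0) (nat_lit 22070121715) (nat_lit 456) (nat_lit 1344192931) (nat_lit 532) (nat_lit 9148564881) (nat_lit 33) (nat_lit 5) (nat_lit 39) (nat_lit 5) (nat_lit 40) (nat_lit 5) (nat_lit 271) (nat_lit 262) (nat_lit 187)) (XT.lf (nat_lit 0) (nat_lit 4420330563) (nat_lit 228) (nat_lit 23041157393) (nat_lit 304) (nat_lit 6613554243) (nat_lit 30) (nat_lit 5) (nat_lit 33) (nat_lit 5) (nat_lit 34) (nat_lit 5) (nat_lit 272) (nat_lit 262) (nat_lit 186)))) (XT.nd (nat_lit 156) (nat_lit 76) (nat_lit 0) (XT.nd (nat_lit 78) (nat_lit 152) (nat_lit 0) (XT.lf (nat_lit 0) (nat_lit 21079820905) (nat_lit 228) (nat_lit 11067216052) (nat_lit 304) (nat_lit 3536003839) (nat_lit 30) (nat_lit 5) (nat_lit 33) (nat_lit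 5) (nat_lit 34) (nat_lit 5) (nat_lit 273) (nat_lit 262) (nat_lit 185)) (XT.lf (nat_lit 0) (nat_lit 1685224075) (nat_lit 152) (nat_lit 35601722422) (nat_lit 228) (nat_lit 126400207) (nat_lit 28) (nat_lit 5) (nat_lit 30) (nat_lit 5) (nat_lit 31) (nat_lit 5) (nat_lit 274) (nat_lit 262) (nat_lit 184))) (XT.nd (nat_lit 78) (nat_lit 0) (nat_lit 0) (XT.lf (nat_lit 0) (nat_lit 4069447241) (nat_lit 228) (nat_lit 19533029358) (nat_lit 76) (nat_lit 15617474671) (nat_lit 27) (nat_lit 5) (nat_lit 30) (nat_lit 5) (nat_lit 28) (nat_lit 5) (nat_lit 275) (nat_lit 262) (nat_lit 183)) (XT.lf (nat_lit 0) (nat_lit 8588810176) (nat_lit 228) (nat_lit 2051893137) (nat_lit 76) (nat_lit 30530566940) (nat_lit 27) (nat_lit 5) (nat_lit 30) (nat_lit 5) (nat_lit 28) (nat_lit 5) (nat_lit 276) (nat_lit 262) (nat_lit 182))))))))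
noncomputable def xc88 : XT := (XT.nd (nat_lit 1950) (nat_lit 304) (nat_lit 0) (XT.nd (nat_lit 936) (nat_lit 532) (nat_lit 0) (XT.nd (nat_lit 468) (nat_lit 456) (nat_lit 0) (XT.nd (nat_lit 234) (nat_lit 152) (nat_lit 0) (XT.nd (nat_lit 78) (nat_lit 152) (nat_lit 0) (XT.lf (nat_lit 0) (nat_lit 13982464921) (nat_lit 304) (nat_lit 25629110774) (nat_lit 76) (nat_lit 3626120774) (nat_lit 24) (nat_lit 5) (nat_lit 28) (nat_lit 5) (nat_lit 25) (nat_lit 5) (nat_lit 277) (nat_lit 262) (nat_lit 181)) (XT.nd (nat_lit 78) (nat_lit 152) (nat_lit 0) (XT.lf (nat_lit 0) (nat_lit 20136829949) (nat_lit 304) (nat_lit 6790233044) (nat_lit 76) (nat_lit 18516055928) (nat_lit 24) (nat_lit 5) (nat_lit 28) (nat_lit 5) (nat_lit 25) (nat_lit 5) (nat_lit 278) (nat_lit 262) (nat_lit 180)) (XT.lf (nat_lit 0) (nat_lit 14263688715) (nat_lit 152) (nat_lit 12858523814) (nat_lit 228) (nat_lit 20675687290) (nat_lit 22)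 (nat_lit 5) (nat_lit 24) (nat_lit 5) (nat_lit 25) (nat_lit 5) (nat_lit 279) (nat_lit 262) (nat_lit 179)))) (XT.nd (nat_lit 78) (nat_lit 152) (nat_lit 0) (XT.lf (nat_lit 0) (nat_lit 34908862356) (nat_lit 228) (nat_lit 13004883628) (nat_lit 76) (nat_lit 2407939054) (nat_lit 22) (nat_lit 5) (nat_lit 25) (nat_lit 5) (nat_lit 23) (nat_lit 5) (nat_lit 280) (nat_lit 262) (nat_lit 178)) (XT.nd (nat_lit 78) (nat_lit 0) (nat_lit 0) (XT.lf (nat_lit 0) (nat_lit 9292295553) (nat_lit 152) (nat_lit 34579716714) (nat_lit 228) (nat_lit 9131090894) (nat_lit 20) (nat_lit 5) (nat_lit 22) (nat_lit 5) (nat_lit 23) (nat_lit 5) (nat_lit 281) (nat_lit 262) (nat_lit 177)) (XT.lf (nat_lit 0) (nat_lit 34107638525) (nat_lit 152) (nat_lit 19796416301) (nat_lit 228) (nat_lit 1966847042) (nat_lit 20) (nat_lit 5) (nat_lit 22) (nat_lit 5) (nat_lit 23) (nat_lit 5) (nat_lit 282) (nat_lit 262) (nat_lit 176))))) (XT.nd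 (nat_lit 234) (nat_lit 228) (nat_lit 0) (XT.nd (nat_lit 78) (nat_lit 0) (nat_lit 0) (XT.lf (nat_lit 0) (nat_lit 1890868030) (nat_lit 152) (nat_lit 3632916434) (nat_lit 228) (nat_lit 53429896717) (nat_lit 17) (nat_lit 5) (nat_lit 19) (nat_lit 5) (nat_lit 20) (nat_lit 5) (nat_lit 283) (nat_lit 262) (nat_lit 175)) (XT.nd (nat_lit 78) (nat_lit 0) (nat_lit 0) (XT.lf (nat_lit 0) (nat_lit 14446915804) (nat_lit 228) (nat_lit 33964600918) (nat_lit 76) (nat_lit 13792329770) (nat_lit 17) (nat_lit 5) (nat_lit 20) (nat_lit 5) (nat_lit 18) (nat_lit 5) (nat_lit 284) (nat_lit 262) (nat_lit 174)) (XT.lf (nat_lit 0) (nat_lit 24175063533) (nat_lit 228) (nat_lit 9117657652) (nat_lit 76) (nat_lit 32414021145) (nat_lit 17) (nat_lit 5) (nat_lit 20) (nat_lit 5) (nat_lit 18) (nat_lit 5) (nat_lit 285) (nat_lit 262) (nat_lit 173)))) (XT.nd (nat_lit 78) (nat_lit 76) (nat_lit 0) (XT.lf (nat_lit 0) (nat_lit 18645345198)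 (nat_lit 152) (nat_lit 16481580008) (nat_lit 228) (nat_lit 34327317450) (nat_lit 15) (nat_lit 5) (nat_lit 17) (nat_lit 5) (nat_lit 18) (nat_lit 5) (nat_lit 286) (nat_lit 262) (nat_lit 172)) (XT.nd (nat_lit 78) (nat_lit 76) (nat_lit 0) (XT.lf (nat_lit 0) (nat_lit 47248096349) (nat_lit 228) (nat_lit 24384929140) (nat_lit 76) (nat_lit 1845073740) (nat_lit 15) (nat_lit 5) (nat_lit 18) (nat_lit 5) (nat_lit 16) (nat_lit 4) (nat_lit 287) (nat_lit 262) (nat_lit 171)) (XT.lf (nat_lit 0) (nat_lit 3916620983) (nat_lit 76) (nat_lit 56941963065) (nat_lit 152) (nat_lit 16923718844) (nat_lit 14) (nat_lit 5) (nat_lit 15) (nat_lit 5) (nat_lit 16) (nat_lit 4) (nat_lit 288) (nat_lit 262) (nat_lit 170)))))) (XT.nd (nat_lit 468) (nat_lit 228) (nat_lit 0) (XT.nd (nat_lit 234) (nat_lit 76) (nat_lit 0) (XT.nd (nat_lit 78) (nat_lit 228) (nat_lit 0) (XT.lf (nat_lit 0) (nat_lit 35865025245) (nat_lit 76) (nat_lit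 40357047450) (nat_lit 152) (nat_lit 6155644971) (nat_lit 14) (nat_lit 5) (nat_lit 15) (nat_lit 5) (nat_lit 16) (nat_lit 4) (nat_lit 289) (nat_lit 262) (nat_lit 169)) (XT.nd (nat_lit 78) (nat_lit 152) (nat_lit 0) (XT.lf (nat_lit 0) (nat_lit 5197605665) (nat_lit 152) (nat_lit 17107007424) (nat_lit 76) (nat_lit 65025822950) (nat_lit 13) (nat_lit 5) (nat_lit 15) (nat_lit 5) (nat_lit 14) (nat_lit 5) (nat_lit 290) (nat_lit 262) (nat_lit 168)) (XT.lf (nat_lit 0) (nat_lit 15250530623) (nat_lit 152) (nat_lit 2240533903) (nat_lit 228) (nat_lit 75146361545) (nat_lit 11) (nat_lit 5) (nat_lit 13) (nat_lit 5) (nat_lit 14) (nat_lit 5) (nat_lit 291) (nat_lit 262) (nat_lit 167)))) (XT.nd (nat_lit 78) (nat_lit 76) (nat_lit 0) (XT.lf (nat_lit 0) (nat_lit 31712933132) (nat_lit 228) (nat_lit 47645067812) (nat_lit 76) (nat_lit 18935385430) (nat_lit 11) (nat_lit 5) (nat_lit 14) (nat_lit 5) (nat_lit 12) (nat_lit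 4) (nat_lit 292) (nat_lit 262) (nat_lit 166)) (XT.nd (nat_lit 78) (nat_lit 76) (nat_lit 0) (XT.lf (nat_lit 0) (nat_lit 47128698888) (nat_lit 228) (nat_lit 15585482945) (nat_lit 76) (nat_lit 41683155143) (nat_lit 11) (nat_lit 5) (nat_lit 14) (nat_lit 5) (nat_lit 12) (nat_lit 4) (nat_lit 293) (nat_lit 262) (nat_lit 165)) (XT.lf (nat_lit 0) (nat_lit 20038114406) (nat_lit 76) (nat_lit 44219632313) (nat_lit 152) (nat_lit 46693460143) (nat_lit 10) (nat_lit 5) (nat_lit 11) (nat_lit 5) (nat_lit 12) (nat_lit 4) (nat_lit 294) (nat_lit 262) (nat_lit 164))))) (XT.nd (nat_lit 234) (nat_lit 152) (nat_lit 0) (XT.nd (nat_lit 78) (nat_lit 76) (nat_lit 0) (XT.lf (nat_lit 0) (nat_lit 59394897374) (nat_lit 76) (nat_lit 23786526224) (nat_lit 152) (nat_lit 34814022856) (nat_lit 10) (nat_lit 5) (nat_lit 11) (nat_lit 5) (nat_lit 12) (nat_lit 4) (nat_lit 295) (nat_lit 262) (nat_lit 163)) (XT.nd (nat_lit 78)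 (nat_lit 76) (nat_lit 0) (XT.lf (nat_lit 0) (nat_lit 101897387426) (nat_lit 76) (nat_lit 1719913218) (nat_lit 152) (nat_lit 21986064286) (nat_lit 10) (nat_lit 5) (nat_lit 11) (nat_lit 5) (nat_lit 12) (nat_lit 4) (nat_lit 296) (nat_lit 262) (nat_lit 162)) (XT.lf (nat_lit 0) (nat_lit 14153658850) (nat_lit 76) (nat_lit 112404985741) (nat_lit 76) (nat_lit 7191628443) (nat_lit 9) (nat_lit 4) (nat_lit 10) (nat_lit 5) (nat_lit 10) (nat_lit 4) (nat_lit 297) (nat_lit 262) (nat_lit 161)))) (XT.nd (nat_lit 156) (nat_lit 76) (nat_lit 0) (XT.nd (nat_lit 78) (nat_lit 0) (nat_lit 0) (XT.lf (nat_lit 0) (nat_lit 9054921508) (nat_lit 152) (nat_lit 86382402424) (nat_lit 76) (nat_lit 47038061116) (nat_lit 8) (nat_lit 5) (nat_lit 10) (nat_lit 5) (nat_lit 9) (nat_lit 4) (nat_lit 298) (nat_lit 262) (nat_lit 160)) (XT.lf (nat_lit 0) (nat_lit 26211194751) (nat_lit 152) (nat_lit 50700392843) (nat_lit 76) (nat_lit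 74972095150) (nat_lit 8) (nat_lit 5) (nat_lit 10) (nat_lit 5) (nat_lit 9) (nat_lit 4) (nat_lit 299) (nat_lit 262) (nat_lit 159))) (XT.nd (nat_lit 78) (nat_lit 76) (nat_lit 0) (XT.lf (nat_lit 0) (nat_lit 44738612468) (nat_lit 152) (nat_lit 12166177660) (nat_lit 76) (nat_lit 105139965574) (nat_lit 8) (nat_lit 5) (nat_lit 10) (nat_lit 5) (nat_lit 9) (nat_lit 4) (nat_lit 300) (nat_lit 262) (nat_lit 158)) (XT.lf (nat_lit 0) (nat_lit 30999304803) (nat_lit 76) (nat_lit 34493195989) (nat_lit 152) (nat_lit 107466674178) (nat_lit 7) (nat_lit 5) (nat_lit 8) (nat_lit 5) (nat_lit 9) (nat_lit 4) (nat_lit 301) (nat_lit 262) (nat_lit 157))))))) (XT.nd (nat_lit 1014) (nat_lit 76) (nat_lit 0) (XT.nd (nat_lit 468) (nat_lit 152) (nat_lit 0) (XT.nd (nat_lit 234) (nat_lit 76) (nat_lit 0) (XT.nd (nat_lit 78) (nat_lit 0) (nat_lit 0) (XT.lf (nat_lit 0) (nat_lit 78307801668) (nat_lit 76) (nat_lit 9930328515)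 (nat_lit 152) (nat_lit 96482105646) (nat_lit 7) (nat_lit 5) (nat_lit 8) (nat_lit 5) (nat_lit 9) (nat_lit 4) (nat_lit 302) (nat_lit 262) (nat_lit 156)) (XT.nd (nat_lit 78) (nat_lit 0) (nat_lit 0) (XT.lf (nat_lit 0) (nat_lit 113201436698) (nat_lit 152) (nat_lit 68422415227) (nat_lit 0) (nat_lit 15766489757) (nat_lit 7) (nat_lit 5) (nat_lit 9) (nat_lit 4) (nat_lit 7) (nat_lit 4) (nat_lit 303) (nat_lit 262) (nat_lit 155)) (XT.lf (nat_lit 0) (nat_lit 140418678025) (nat_lit 152) (nat_lit 27653014309) (nat_lit 0) (nat_lit 42981816148) (nat_lit 7) (nat_lit 5) (nat_lit 9) (nat_lit 4) (nat_lit 7) (nat_lit 4) (nat_lit 304) (nat_lit 262) (nat_lit 154)))) (XT.nd (nat_lit 78) (nat_lit 0) (nat_lit 0) (XT.lf (nat_lit 0) (nat_lit 17238530808) (nat_lit 76) (nat_lit 152988373152) (nat_lit 76) (nat_lit 55549738186) (nat_lit 6) (nat_lit 4) (nat_lit 7) (nat_lit 5) (nat_lit 7) (nat_lit 4) (nat_lit 305) (nat_lit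 262) (nat_lit 153)) (XT.nd (nat_lit 78) (nat_lit 0) (nat_lit 0) (XT.lf (nat_lit 0) (nat_lit 67292346239) (nat_lit 76) (nat_lit 135882574095) (nat_lit 76) (nat_lit 38442297380) (nat_lit 6) (nat_lit 4) (nat_lit 7) (nat_lit 5) (nat_lit 7) (nat_lit 4) (nat_lit 306) (nat_lit 262) (nat_lit 152)) (XT.lf (nat_lit 0) (nat_lit 121348888459) (nat_lit 76) (nat_lit 117409009882) (nat_lit 76) (nat_lit 19967213028) (nat_lit 6) (nat_lit 4) (nat_lit 7) (nat_lit 5) (nat_lit 7) (nat_lit 4) (nat_lit 307) (nat_lit 262) (nat_lit 151))))) (XT.nd (nat_lit 234) (nat_lit 76) (nat_lit 0) (XT.nd (nat_lit 78) (nat_lit 76) (nat_lit 0) (XT.lf (nat_lit 0) (nat_lit 179728492531) (nat_lit 76) (nat_lit 97458207541) (nat_lit 76) (nat_lit 15003151) (nat_lit 6) (nat_lit 4) (nat_lit 7) (nat_lit 5) (nat_lit 7) (nat_lit 4) (nat_lit 308) (nat_lit 262) (nat_lit 150)) (XT.nd (nat_lit 78) (nat_lit 0) (nat_lit 0) (XT.lf (nat_lit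 0) (nat_lit 20455421332) (nat_lit 152) (nat_lit 54897231291) (nat_lit 76) (nat_lit 221762402864) (nat_lit 5) (nat_lit 5) (nat_lit 7) (nat_lit 5) (nat_lit 6) (nat_lit 4) (nat_lit 309) (nat_lit 262) (nat_lit 149)) (XT.lf (nat_lit 0) (nat_lit 42561951503) (nat_lit 152) (nat_lit 8916855271) (nat_lit 76) (nat_lit 267142696627) (nat_lit 5) (nat_lit 5) (nat_lit 7) (nat_lit 5) (nat_lit 6) (nat_lit 4) (nat_lit 310) (nat_lit 262) (nat_lit 148)))) (XT.nd (nat_lit 156) (nat_lit 0) (nat_lit 0) (XT.nd (nat_lit 78) (nat_lit 0) (nat_lit 0) (XT.lf (nat_lit 0) (nat_lit 42886090429) (nat_lit 76) (nat_lit 24581660615) (nat_lit 152) (nat_lit 274298257479) (nat_lit 4) (nat_lit 5) (nat_lit 5) (nat_lit 5) (nat_lit 6) (nat_lit 4) (nat_lit 311) (nat_lit 262) (nat_lit 147)) (XT.lf (nat_lit 0) (nat_lit 94722931419) (nat_lit 152) (nat_lit 267517164778) (nat_lit 0) (nat_lit 4493425562) (nat_lit 4) (nat_lit 5) (nat_lit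 6) (nat_lit 4) (nat_lit 4) (nat_lit 4) (nat_lit 312) (nat_lit 262) (nat_lit 146))) (XT.nd (nat_lit 78) (nat_lit 0) (nat_lit 0) (XT.lf (nat_lit 0) (nat_lit 124796403566) (nat_lit 152) (nat_lit 234284992550) (nat_lit 0) (nat_lit 34566010723) (nat_lit 4) (nat_lit 5) (nat_lit 6) (nat_lit 4) (nat_lit 4) (nat_lit 4) (nat_lit 313) (nat_lit 262) (nat_lit 145)) (XT.lf (nat_lit 0) (nat_lit 157275191124) (nat_lit 152) (nat_lit 198395280491) (nat_lit 0) (nat_lit 67043976998) (nat_lit 4) (nat_lit 5) (nat_lit 6) (nat_lit 4) (nat_lit 4) (nat_lit 4) (nat_lit 314) (nat_lit 262) (nat_lit 144)))))) (XT.nd (nat_lit 468) (nat_lit 0) (nat_lit 0) (XT.nd (nat_lit 234) (nat_lit 76) (nat_lit 0) (XT.nd (nat_lit 78) (nat_lit 0) (nat_lit 0) (XT.lf (nat_lit 0) (nat_lit 192351760984) (nat_lit 152) (nat_lit 159635348827) (nat_lit 0) (nat_lit 102119786410) (nat_lit 4) (nat_lit 5) (nat_lit 6) (nat_lit 4) (nat_lit 4)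 (nat_lit 4) (nat_lit 315) (nat_lit 262) (nat_lit 143)) (XT.nd (nat_lit 78) (nat_lit 0) (nat_lit 0) (XT.lf (nat_lit 0) (nat_lit 230233974299) (nat_lit 152) (nat_lit 117775509074) (nat_lit 0) (nat_lit 140001295607) (nat_lit 4) (nat_lit 5) (nat_lit 6) (nat_lit 4) (nat_lit 4) (nat_lit 4) (nat_lit 316) (nat_lit 262) (nat_lit 142)) (XT.lf (nat_lit 0) (nat_lit 271146318260) (nat_lit 152) (nat_lit 72567702921) (nat_lit 0) (nat_lit 180912987607) (nat_lit 4) (nat_lit 5) (nat_lit 6) (nat_lit 4) (nat_lit 4) (nat_lit 4) (nat_lit 317) (nat_lit 262) (nat_lit 141)))) (XT.nd (nat_lit 78) (nat_lit 76) (nat_lit 0) (XT.lf (nat_lit 0) (nat_lit 315331236387) (nat_lit 152) (nat_lit 23744032259) (nat_lit 0) (nat_lit 225097302066) (nat_lit 4) (nat_lit 5) (nat_lit 6) (nat_lit 4) (nat_lit 4) (nat_lit 4) (nat_lit 318) (nat_lit 262) (nat_lit 140)) (XT.nd (nat_lit 78) (nat_lit 0) (nat_lit 0) (XT.lf (nat_lit 0)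 (nat_lit 30511118065) (nat_lit 76) (nat_lit 333273240290) (nat_lit 76) (nat_lit 243038747017) (nat_lit 3) (nat_lit 4) (nat_lit 4) (nat_lit 5) (nat_lit 4) (nat_lit 4) (nat_lit 319) (nat_lit 262) (nat_lit 139)) (XT.lf (nat_lit 0) (nat_lit 90456338696) (nat_lit 76) (nat_lit 326306224426) (nat_lit 76) (nat_lit 236071213605) (nat_lit 3) (nat_lit 4) (nat_lit 4) (nat_lit 5) (nat_lit 4) (nat_lit 4) (nat_lit 320) (nat_lit 262) (nat_lit 138))))) (XT.nd (nat_lit 234) (nat_lit 0) (nat_lit 0) (XT.nd (nat_lit 78) (nat_lit 0) (nat_lit 0) (XT.lf (nat_lit 0) (nat_lit 155196541911) (nat_lit 76) (nat_lit 318782138955) (nat_lit 76) (nat_lit 228546648924) (nat_lit 3) (nat_lit 4) (nat_lit 4) (nat_lit 5) (nat_lit 4) (nat_lit 4) (nat_lit 321) (nat_lit 262) (nat_lit 137)) (XT.nd (nat_lit 78) (nat_lit 0) (nat_lit 0) (XT.lf (nat_lit 0) (nat_lit 225115373358) (nat_lit 76) (nat_lit 310656396705) (nat_lit 76) (nat_lit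 220420462960) (nat_lit 3) (nat_lit 4) (nat_lit 4) (nat_lit 5) (nat_lit 4) (nat_lit 4) (nat_lit 322) (nat_lit 262) (nat_lit 136)) (XT.lf (nat_lit 0) (nat_lit 300627166852) (nat_lit 76) (nat_lit 301880845128) (nat_lit 76) (nat_lit 211644500536) (nat_lit 3) (nat_lit 4) (nat_lit 4) (nat_lit 5) (nat_lit 4) (nat_lit 4) (nat_lit 323) (nat_lit 262) (nat_lit 135)))) (XT.nd (nat_lit 156) (nat_lit 0) (nat_lit 0) (XT.nd (nat_lit 78) (nat_lit 0) (nat_lit 0) (XT.lf (nat_lit 0) (nat_lit 382179399690) (nat_lit 76) (nat_lit 292403480956) (nat_lit 76) (nat_lit 202166755951) (nat_lit 3) (nat_lit 4) (nat_lit 4) (nat_lit 5) (nat_lit 4) (nat_lit 4) (nat_lit 324) (nat_lit 262) (nat_lit 134)) (XT.lf (nat_lit 0) (nat_lit 470255344361) (nat_lit 76) (nat_lit 282168142030) (nat_lit 76) (nat_lit 191931064791) (nat_lit 3) (nat_lit 4) (nat_lit 4) (nat_lit 5) (nat_lit 4) (nat_lit 4) (nat_lit 325) (nat_lit 262) (nat_lit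 133))) (XT.nd (nat_lit 78) (nat_lit 0) (nat_lit 0) (XT.lf (nat_lit 0) (nat_lit 565376932390) (nat_lit 76) (nat_lit 271114174490) (nat_lit 76) (nat_lit 180876771108) (nat_lit 3) (nat_lit 4) (nat_lit 4) (nat_lit 5) (nat_lit 4) (nat_lit 4) (nat_lit 326) (nat_lit 262) (nat_lit 132)) (XT.lf (nat_lit 0) (nat_lit 668107847260) (nat_lit 76) (nat_lit 259176073345) (nat_lit 76) (nat_lit 168938367978) (nat_lit 3) (nat_lit 4) (nat_lit 4) (nat_lit 5) (nat_lit 4) (nat_lit 4) (nat_lit 327) (nat_lit 262) (nat_lit 131))))))))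
noncomputable def xc89 : XT := (XT.nd (nat_lit 33774) (nat_lit 0) (nat_lit 304) (XT.nd (nat_lit 32760) (nat_lit 0) (nat_lit 1596) (XT.nd (nat_lit 468) (nat_lit 0) (nat_lit 0) (XT.nd (nat_lit 234) (nat_lit 0) (nat_lit 0) (XT.nd (nat_lit 78) (nat_lit 0) (nat_lit 0) (XT.lf (nat_lit 0) (nat_lit 779056864765) (nat_lit 76) (nat_lit 246283094289) (nat_lit 76) (nat_lit 156045109308) (nat_lit 3) (nat_lit 4) (nat_lit 4) (nat_lit 5) (nat_lit 4) (nat_lit 4) (nat_lit 328) (nat_lit 262) (nat_lit 130)) (XT.nd (nat_lit 78) (nat_lit 0) (nat_lit 0) (XT.lf (nat_lit 0) (nat_lit 898881460564) (nat_lit 76) (nat_lit 232358834486) (nat_lit 76) (nat_lit 142120590602) (nat_lit 3) (nat_lit 4) (nat_lit 4) (nat_lit 5) (nat_lit 4) (nat_lit 4) (nat_lit 329) (nat_lit 262) (nat_lit 129)) (XT.lf (nat_lit 0) (nat_lit 1028291706334) (nat_lit 76) (nat_lit 217320779801) (nat_lit 76) (nat_lit 127082296193) (nat_lit 3) (nat_lit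 4) (nat_lit 4) (nat_lit 5) (nat_lit 4) (nat_lit 4) (nat_lit 330) (nat_lit 262) (nat_lit 128)))) (XT.nd (nat_lit 78) (nat_lit 0) (nat_lit 0) (XT.lf (nat_lit 0) (nat_lit 1168054477607) (nat_lit 76) (nat_lit 201079815839) (nat_lit 76) (nat_lit 110841110262) (nat_lit 3) (nat_lit 4) (nat_lit 4) (nat_lit 5) (nat_lit 4) (nat_lit 4) (nat_lit 331) (nat_lit 262) (nat_lit 127)) (XT.nd (nat_lit 78) (nat_lit 0) (nat_lit 0) (XT.lf (nat_lit 0) (nat_lit 1318997998213) (nat_lit 76) (nat_lit 183539699848) (nat_lit 76) (nat_lit 93300788746) (nat_lit 3) (nat_lit 4) (nat_lit 4) (nat_lit 5) (nat_lit 4) (nat_lit 4) (nat_lit 332) (nat_lit 262) (nat_lit 126)) (XT.lf (nat_lit 0) (nat_lit 1482016748273) (nat_lit 76) (nat_lit 164596490400) (nat_lit 76) (nat_lit 74357388997) (nat_lit 3) (nat_lit 4) (nat_lit 4) (nat_lit 5) (nat_lit 4) (nat_lit 4) (nat_lit 333) (nat_lit 262) (nat_lit 125))))) (XT.nd (nat_lit 31980)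 (nat_lit 0) (nat_lit 2508) (XT.nd (nat_lit 78) (nat_lit 0) (nat_lit 0) (XT.lf (nat_lit 0) (nat_lit 1658076764825) (nat_lit 76) (nat_lit 144137931441) (nat_lit 76) (nat_lit 53898653833) (nat_lit 3) (nat_lit 4) (nat_lit 4) (nat_lit 5) (nat_lit 4) (nat_lit 4) (nat_lit 334) (nat_lit 262) (nat_lit 124)) (XT.nd (nat_lit 78) (nat_lit 0) (nat_lit 0) (XT.lf (nat_lit 0) (nat_lit 1848221366485) (nat_lit 76) (nat_lit 122042787065) (nat_lit 76) (nat_lit 31803346304) (nat_lit 3) (nat_lit 4) (nat_lit 4) (nat_lit 5) (nat_lit 4) (nat_lit 4) (nat_lit 335) (nat_lit 262) (nat_lit 123)) (XT.lf (nat_lit 0) (nat_lit 2053577336079) (nat_lit 76) (nat_lit 98180123082) (nat_lit 76) (nat_lit 7940531254) (nat_lit 3) (nat_lit 4) (nat_lit 4) (nat_lit 5) (nat_lit 4) (nat_lit 4) (nat_lit 336) (nat_lit 262) (nat_lit 122)))) (XT.nd (nat_lit 156) (nat_lit 0) (nat_lit 76) (XT.nd (nat_lit 78) (nat_lit 0) (nat_lit 0) (XT.lf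 (nat_lit 0) (nat_lit 3996584908) (nat_lit 532) (nat_lit 4043061790) (nat_lit 532) (nat_lit 4043061790) (nat_lit 36) (nat_lit 3) (nat_lit 43) (nat_lit 3) (nat_lit 43) (nat_lit 5) (nat_lit 263) (nat_lit 263) (nat_lit 194)) (XT.lf (nat_lit 76) (nat_lit 2365571099) (nat_lit 0) (nat_lit 6104717881) (nat_lit 532) (nat_lit 16648621305) (nat_lit 37) (nat_lit 5) (nat_lit 36) (nat_lit 3) (nat_lit 43) (nat_lit 5) (nat_lit 264) (nat_lit 263) (nat_lit 193))) (XT.nd (nat_lit 78) (nat_lit 0) (nat_lit 0) (XT.lf (nat_lit 0) (nat_lit 9314584477) (nat_lit 456) (nat_lit 12142452645) (nat_lit 532) (nat_lit 4665378615) (nat_lit 37) (nat_lit 5) (nat_lit 43) (nat_lit 5) (nat_lit 44) (nat_lit 5) (nat_lit 265) (nat_lit 263) (nat_lit 192)) (XT.lf (nat_lit 0) (nat_lit 10375648833) (nat_lit 456) (nat_lit 847480788) (nat_lit 532) (nat_lit 15971183265) (nat_lit 37) (nat_lit 5) (nat_lit 43) (nat_lit 5) (nat_lit 44)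 (nat_lit 5) (nat_lit 266) (nat_lit 263) (nat_lit 191)))))) (XT.nd (nat_lit 468) (nat_lit 684) (nat_lit 0) (XT.nd (nat_lit 234) (nat_lit 380) (nat_lit 0) (XT.nd (nat_lit 78) (nat_lit 0) (nat_lit 0) (XT.lf (nat_lit 0) (nat_lit 11803603737) (nat_lit 456) (nat_lit 16390397306) (nat_lit 532) (nat_lit 135445965) (nat_lit 38) (nat_lit 5) (nat_lit 44) (nat_lit 5) (nat_lit 45) (nat_lit 5) (nat_lit 267) (nat_lit 263) (nat_lit 190)) (XT.nd (nat_lit 78) (nat_lit 0) (nat_lit 0) (XT.lf (nat_lit 0) (nat_lit 13652997529) (nat_lit 456) (nat_lit 4055319401) (nat_lit 532) (nat_lit 11822540980) (nat_lit 38) (nat_lit 5) (nat_lit 44) (nat_lit 5) (nat_lit 45) (nat_lit 5) (nat_lit 268) (nat_lit 263) (nat_lit 189)) (XT.lf (nat_lit 76) (nat_lit 9748317691) (nat_lit 0) (nat_lit 6128990139) (nat_lit 532) (nat_lit 14932955776) (nat_lit 39) (nat_lit 5) (nat_lit 38) (nat_lit 5) (nat_lit 45) (nat_lit 5) (nat_lit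 269) (nat_lit 263) (nat_lit 188)))) (XT.nd (nat_lit 78) (nat_lit 456) (nat_lit 0) (XT.lf (nat_lit 0) (nat_lit 18539647373) (nat_lit 456) (nat_lit 7458896697) (nat_lit 76) (nat_lit 6172707157) (nat_lit 39) (nat_lit 5) (nat_lit 45) (nat_lit 5) (nat_lit 40) (nat_lit 5) (nat_lit 270) (nat_lit 263) (nat_lit 187)) (XT.nd (nat_lit 78) (nat_lit 0) (nat_lit 0) (XT.lf (nat_lit 0) (nat_lit 7439444435) (nat_lit 456) (nat_lit 14307129523) (nat_lit 532) (nat_lit 11868049449) (nat_lit 33) (nat_lit 5) (nat_lit 39) (nat_lit 5) (nat_lit 40) (nat_lit 5) (nat_lit 271) (nat_lit 263) (nat_lit 186)) (XT.lf (nat_lit 0) (nat_lit 23948087894) (nat_lit 456) (nat_lit 1459736719) (nat_lit 532) (nat_lit 9749850209) (nat_lit 33) (nat_lit 5) (nat_lit 39) (nat_lit 5) (nat_lit 40) (nat_lit 5) (nat_lit 272) (nat_lit 263) (nat_lit 185))))) (XT.nd (nat_lit 234) (nat_lit 304) (nat_lit 0) (XT.nd (nat_lit 78) (nat_lit 152)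 (nat_lit 0) (XT.lf (nat_lit 0) (nat_lit 4893632660) (nat_lit 228) (nat_lit 24878923085) (nat_lit 304) (nat_lit 7018796927) (nat_lit 30) (nat_lit 5) (nat_lit 33) (nat_lit 5) (nat_lit 34) (nat_lit 5) (nat_lit 273) (nat_lit 263) (nat_lit 184)) (XT.nd (nat_lit 78) (nat_lit 152) (nat_lit 0) (XT.lf (nat_lit 0) (nat_lit 22877017366) (nat_lit 228) (nat_lit 11947475836) (nat_lit 304) (nat_lit 3704215946) (nat_lit 30) (nat_lit 5) (nat_lit 33) (nat_lit 5) (nat_lit 34) (nat_lit 5) (nat_lit 274) (nat_lit 263) (nat_lit 183)) (XT.lf (nat_lit 0) (nat_lit 1936675191) (nat_lit 152) (nat_lit 38434010173) (nat_lit 228) (nat_lit 27185454) (nat_lit 28) (nat_lit 5) (nat_lit 30) (nat_lit 5) (nat_lit 31) (nat_lit 5) (nat_lit 275) (nat_lit 263) (nat_lit 182)))) (XT.nd (nat_lit 156) (nat_lit 228) (nat_lit 0) (XT.nd (nat_lit 78) (nat_lit 0) (nat_lit 0) (XT.lf (nat_lit 0) (nat_lit 4491167651) (nat_lit 228) (nat_lit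 20982201799) (nat_lit 76) (nat_lit 16876072397) (nat_lit 27) (nat_lit 5) (nat_lit 30) (nat_lit 5) (nat_lit 28) (nat_lit 5) (nat_lit 276) (nat_lit 263) (nat_lit 181)) (XT.lf (nat_lit 0) (nat_lit 9364956315) (nat_lit 228) (nat_lit 2110979859) (nat_lit 76) (nat_lit 32981530585) (nat_lit 27) (nat_lit 5) (nat_lit 30) (nat_lit 5) (nat_lit 28) (nat_lit 5) (nat_lit 277) (nat_lit 263) (nat_lit 180))) (XT.nd (nat_lit 78) (nat_lit 0) (nat_lit 0) (XT.lf (nat_lit 0) (nat_lit 15186391413) (nat_lit 304) (nat_lit 27570309353) (nat_lit 76) (nat_lit 3932831550) (nat_lit 24) (nat_lit 5) (nat_lit 28) (nat_lit 5) (nat_lit 25) (nat_lit 5) (nat_lit 278) (nat_lit 263) (nat_lit 179)) (XT.lf (nat_lit 0) (nat_lit 21826784954) (nat_lit 304) (nat_lit 7232405129) (nat_lit 76) (nat_lit 20012730322) (nat_lit 24) (nat_lit 5) (nat_lit 28) (nat_lit 5) (nat_lit 25) (nat_lit 5) (nat_lit 279) (nat_lit 263) (nat_lit 178)))))))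 (XT.nd (nat_lit 1014) (nat_lit 304) (nat_lit 0) (XT.nd (nat_lit 468) (nat_lit 456) (nat_lit 0) (XT.nd (nat_lit 234) (nat_lit 228) (nat_lit 0) (XT.nd (nat_lit 78) (nat_lit 152) (nat_lit 0) (XT.lf (nat_lit 0) (nat_lit 15503272231) (nat_lit 152) (nat_lit 13864242070) (nat_lit 228) (nat_lit 22247872430) (nat_lit 22) (nat_lit 5) (nat_lit 24) (nat_lit 5) (nat_lit 25) (nat_lit 5) (nat_lit 280) (nat_lit 263) (nat_lit 177)) (XT.nd (nat_lit 78) (nat_lit 152) (nat_lit 0) (XT.lf (nat_lit 0) (nat_lit 37772013053) (nat_lit 228) (nat_lit 13948717637) (nat_lit 76) (nat_lit 2620773173) (nat_lit 22) (nat_lit 5) (nat_lit 25) (nat_lit 5) (nat_lit 23) (nat_lit 5) (nat_lit 281) (nat_lit 263) (nat_lit 176)) (XT.lf (nat_lit 0) (nat_lit 10129791406) (nat_lit 152) (nat_lit 37319469048) (nat_lit 228) (nat_lit 9788432132) (nat_lit 20) (nat_lit 5) (nat_lit 22) (nat_lit 5) (nat_lit 23) (nat_lit 5) (nat_lit 282)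 (nat_lit 263) (nat_lit 175)))) (XT.nd (nat_lit 78) (nat_lit 228) (nat_lit 0) (XT.lf (nat_lit 0) (nat_lit 36923390541) (nat_lit 152) (nat_lit 21355476824) (nat_lit 228) (nat_lit 2056466995) (nat_lit 20) (nat_lit 5) (nat_lit 22) (nat_lit 5) (nat_lit 23) (nat_lit 5) (nat_lit 283) (nat_lit 263) (nat_lit 174)) (XT.nd (nat_lit 78) (nat_lit 0) (nat_lit 0) (XT.lf (nat_lit 0) (nat_lit 2130591695) (nat_lit 152) (nat_lit 3896796731) (nat_lit 228) (nat_lit 57637444872) (nat_lit 17) (nat_lit 5) (nat_lit 19) (nat_lit 5) (nat_lit 20) (nat_lit 5) (nat_lit 284) (nat_lit 263) (nat_lit 173)) (XT.lf (nat_lit 0) (nat_lit 15660395565) (nat_lit 228) (nat_lit 36595701224) (nat_lit 76) (nat_lit 14919248302) (nat_lit 17) (nat_lit 5) (nat_lit 20) (nat_lit 5) (nat_lit 18) (nat_lit 5) (nat_lit 285) (nat_lit 263) (nat_lit 172))))) (XT.nd (nat_lit 234) (nat_lit 304) (nat_lit 0) (XT.nd (nat_lit 78) (nat_lit 152)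 (nat_lit 0) (XT.lf (nat_lit 0) (nat_lit 26162519075) (nat_lit 228) (nat_lit 9767377888) (nat_lit 76) (nat_lit 35028931865) (nat_lit 17) (nat_lit 5) (nat_lit 20) (nat_lit 5) (nat_lit 18) (nat_lit 5) (nat_lit 286) (nat_lit 263) (nat_lit 171)) (XT.nd (nat_lit 78) (nat_lit 0) (nat_lit 0) (XT.lf (nat_lit 0) (nat_lit 20214647662) (nat_lit 152) (nat_lit 17773790809) (nat_lit 228) (nat_lit 37017871106) (nat_lit 15) (nat_lit 5) (nat_lit 17) (nat_lit 5) (nat_lit 18) (nat_lit 5) (nat_lit 287) (nat_lit 263) (nat_lit 170)) (XT.lf (nat_lit 0) (nat_lit 51076084926) (nat_lit 228) (nat_lit 26260432314) (nat_lit 76) (nat_lit 2015827035) (nat_lit 15) (nat_lit 5) (nat_lit 18) (nat_lit 5) (nat_lit 16) (nat_lit 4) (nat_lit 288) (nat_lit 263) (nat_lit 169)))) (XT.nd (nat_lit 156) (nat_lit 228) (nat_lit 0) (XT.nd (nat_lit 78) (nat_lit 0) (nat_lit 0) (XT.lf (nat_lit 0) (nat_lit 4303335713) (nat_lit 76) (nat_lit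 61470274851) (nat_lit 152) (nat_lit 18227428985) (nat_lit 14) (nat_lit 5) (nat_lit 15) (nat_lit 5) (nat_lit 16) (nat_lit 4) (nat_lit 289) (nat_lit 263) (nat_lit 168)) (XT.lf (nat_lit 0) (nat_lit 38802176386) (nat_lit 76) (nat_lit 43560569340) (nat_lit 152) (nat_lit 6601626785) (nat_lit 14) (nat_lit 5) (nat_lit 15) (nat_lit 5) (nat_lit 16) (nat_lit 4) (nat_lit 290) (nat_lit 263) (nat_lit 167))) (XT.nd (nat_lit 78) (nat_lit 152) (nat_lit 0) (XT.lf (nat_lit 0) (nat_lit 5654289281) (nat_lit 152) (nat_lit 18410388305) (nat_lit 76) (nat_lit 70248811877) (nat_lit 13) (nat_lit 5) (nat_lit 15) (nat_lit 5) (nat_lit 14) (nat_lit 5) (nat_lit 291) (nat_lit 263) (nat_lit 166)) (XT.lf (nat_lit 0) (nat_lit 16534102667) (nat_lit 152) (nat_lit 2395622282) (nat_lit 228) (nat_lit 81115441995) (nat_lit 11) (nat_lit 5) (nat_lit 13) (nat_lit 5) (nat_lit 14) (nat_lit 5) (nat_lit 292) (nat_lit 263) (nat_lit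 165)))))) (XT.nd (nat_lit 468) (nat_lit 152) (nat_lit 0) (XT.nd (nat_lit 234) (nat_lit 76) (nat_lit 0) (XT.nd (nat_lit 78) (nat_lit 76) (nat_lit 0) (XT.lf (nat_lit 0) (nat_lit 34286964240) (nat_lit 228) (nat_lit 51395375187) (nat_lit 76) (nat_lit 20471462593) (nat_lit 11) (nat_lit 5) (nat_lit 14) (nat_lit 5) (nat_lit 12) (nat_lit 4) (nat_lit 293) (nat_lit 263) (nat_lit 164)) (XT.nd (nat_lit 78) (nat_lit 76) (nat_lit 0) (XT.lf (nat_lit 0) (nat_lit 50933250779) (nat_lit 228) (nat_lit 16775564127) (nat_lit 76) (nat_lit 45037480081) (nat_lit 11) (nat_lit 5) (nat_lit 14) (nat_lit 5) (nat_lit 12) (nat_lit 4) (nat_lit 294) (nat_lit 263) (nat_lit 163)) (XT.lf (nat_lit 0) (nat_lit 21696484115) (nat_lit 76) (nat_lit 47734931301) (nat_lit 152) (nat_lit 50393162161) (nat_lit 10) (nat_lit 5) (nat_lit 11) (nat_lit 5) (nat_lit 12) (nat_lit 4) (nat_lit 295) (nat_lit 263) (nat_lit 162)))) (XT.nd (nat_lit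 78) (nat_lit 76) (nat_lit 0) (XT.lf (nat_lit 0) (nat_lit 64197711901) (nat_lit 76) (nat_lit 25668826473) (nat_lit 152) (nat_lit 37566019876) (nat_lit 10) (nat_lit 5) (nat_lit 11) (nat_lit 5) (nat_lit 12) (nat_lit 4) (nat_lit 296) (nat_lit 263) (nat_lit 161)) (XT.nd (nat_lit 78) (nat_lit 76) (nat_lit 0) (XT.lf (nat_lit 0) (nat_lit 110096606881) (nat_lit 76) (nat_lit 1838411971) (nat_lit 152) (nat_lit 23714278310) (nat_lit 10) (nat_lit 5) (nat_lit 11) (nat_lit 5) (nat_lit 12) (nat_lit 4) (nat_lit 297) (nat_lit 263) (nat_lit 160)) (XT.lf (nat_lit 0) (nat_lit 15334009504) (nat_lit 76) (nat_lit 121377142981) (nat_lit 76) (nat_lit 7736852057) (nat_lit 9) (nat_lit 4) (nat_lit 10) (nat_lit 5) (nat_lit 10) (nat_lit 4) (nat_lit 298) (nat_lit 263) (nat_lit 159))))) (XT.nd (nat_lit 234) (nat_lit 76) (nat_lit 0) (XT.nd (nat_lit 78) (nat_lit 0) (nat_lit 0) (XT.lf (nat_lit 0) (nat_lit 9805797270)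 (nat_lit 152) (nat_lit 93247046271) (nat_lit 76) (nat_lit 50818397997) (nat_lit 8) (nat_lit 5) (nat_lit 10) (nat_lit 5) (nat_lit 9) (nat_lit 4) (nat_lit 299) (nat_lit 263) (nat_lit 158)) (XT.nd (nat_lit 78) (nat_lit 0) (nat_lit 0) (XT.lf (nat_lit 0) (nat_lit 28332610739) (nat_lit 152) (nat_lit 54713879505) (nat_lit 76) (nat_lit 80985873865) (nat_lit 8) (nat_lit 5) (nat_lit 10) (nat_lit 5) (nat_lit 9) (nat_lit 4) (nat_lit 300) (nat_lit 263) (nat_lit 157)) (XT.lf (nat_lit 0) (nat_lit 48340405547) (nat_lit 152) (nat_lit 13100078572) (nat_lit 76) (nat_lit 113565987916) (nat_lit 8) (nat_lit 5) (nat_lit 10) (nat_lit 5) (nat_lit 9) (nat_lit 4) (nat_lit 301) (nat_lit 263) (nat_lit 156)))) (XT.nd (nat_lit 156) (nat_lit 0) (nat_lit 0) (XT.nd (nat_lit 78) (nat_lit 0) (nat_lit 0) (XT.lf (nat_lit 0) (nat_lit 33517645189) (nat_lit 76) (nat_lit 37236201388) (nat_lit 152) (nat_lit 116040262476) (nat_lit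 7) (nat_lit 5) (nat_lit 8) (nat_lit 5) (nat_lit 9) (nat_lit 4) (nat_lit 302) (nat_lit 263) (nat_lit 155)) (XT.lf (nat_lit 0) (nat_lit 84607977655) (nat_lit 76) (nat_lit 10709523055) (nat_lit 152) (nat_lit 104178687396) (nat_lit 7) (nat_lit 5) (nat_lit 8) (nat_lit 5) (nat_lit 9) (nat_lit 4) (nat_lit 303) (nat_lit 263) (nat_lit 154))) (XT.nd (nat_lit 78) (nat_lit 0) (nat_lit 0) (XT.lf (nat_lit 0) (nat_lit 122276705742) (nat_lit 152) (nat_lit 73862086113) (nat_lit 0) (nat_lit 17041206889) (nat_lit 7) (nat_lit 5) (nat_lit 9) (nat_lit 4) (nat_lit 7) (nat_lit 4) (nat_lit 304) (nat_lit 263) (nat_lit 153)) (XT.lf (nat_lit 0) (nat_lit 151669907552) (nat_lit 152) (nat_lit 29833660702) (nat_lit 0) (nat_lit 46432766950) (nat_lit 7) (nat_lit 5) (nat_lit 9) (nat_lit 4) (nat_lit 7) (nat_lit 4) (nat_lit 305) (nat_lit 263) (nat_lit 152))))))))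
noncomputable def xc90 : XT := (XT.nd (nat_lit 1950) (nat_lit 0) (nat_lit 0) (XT.nd (nat_lit 936) (nat_lit 76) (nat_lit 0) (XT.nd (nat_lit 468) (nat_lit 76) (nat_lit 0) (XT.nd (nat_lit 234) (nat_lit 76) (nat_lit 0) (XT.nd (nat_lit 78) (nat_lit 0) (nat_lit 0) (XT.lf (nat_lit 0) (nat_lit 18648408157) (nat_lit 76) (nat_lit 165213810298) (nat_lit 76) (nat_lit 59975149558) (nat_lit 6) (nat_lit 4) (nat_lit 7) (nat_lit 5) (nat_lit 7) (nat_lit 4) (nat_lit 306) (nat_lit 263) (nat_lit 151)) (XT.nd (nat_lit 78) (nat_lit 0) (nat_lit 0) (XT.lf (nat_lit 0) (nat_lit 72704247720) (nat_lit 76) (nat_lit 146740557147) (nat_lit 76) (nat_lit 41500488871) (nat_lit 6) (nat_lit 4) (nat_lit 7) (nat_lit 5) (nat_lit 7) (nat_lit 4) (nat_lit 307) (nat_lit 263) (nat_lit 150)) (XT.lf (nat_lit 0) (nat_lit 131083201186) (nat_lit 76) (nat_lit 126790042825) (nat_lit 76) (nat_lit 21548671275) (nat_lit 6) (nat_lit 4)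 (nat_lit 7) (nat_lit 5) (nat_lit 7) (nat_lit 4) (nat_lit 308) (nat_lit 263) (nat_lit 149)))) (XT.nd (nat_lit 78) (nat_lit 76) (nat_lit 0) (XT.lf (nat_lit 0) (nat_lit 194131217906) (nat_lit 76) (nat_lit 105244042062) (nat_lit 76) (nat_lit 1463778) (nat_lit 6) (nat_lit 4) (nat_lit 7) (nat_lit 5) (nat_lit 7) (nat_lit 4) (nat_lit 309) (nat_lit 263) (nat_lit 148)) (XT.nd (nat_lit 78) (nat_lit 0) (nat_lit 0) (XT.lf (nat_lit 0) (nat_lit 22104820122) (nat_lit 152) (nat_lit 59265669777) (nat_lit 76) (nat_lit 239512710682) (nat_lit 5) (nat_lit 5) (nat_lit 7) (nat_lit 5) (nat_lit 6) (nat_lit 4) (nat_lit 310) (nat_lit 263) (nat_lit 147)) (XT.lf (nat_lit 0) (nat_lit 45978912329) (nat_lit 152) (nat_lit 9608592565) (nat_lit 76) (nat_lit 288522737901) (nat_lit 5) (nat_lit 5) (nat_lit 7) (nat_lit 5) (nat_lit 6) (nat_lit 4) (nat_lit 311) (nat_lit 263) (nat_lit 146))))) (XT.nd (nat_lit 234) (nat_lit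 0) (nat_lit 0) (XT.nd (nat_lit 78) (nat_lit 0) (nat_lit 0) (XT.lf (nat_lit 0) (nat_lit 46338041674) (nat_lit 76) (nat_lit 26538751513) (nat_lit 152) (nat_lit 296229547273) (nat_lit 4) (nat_lit 5) (nat_lit 5) (nat_lit 5) (nat_lit 6) (nat_lit 4) (nat_lit 312) (nat_lit 263) (nat_lit 145)) (XT.nd (nat_lit 78) (nat_lit 0) (nat_lit 0) (XT.lf (nat_lit 0) (nat_lit 102311737357) (nat_lit 152) (nat_lit 288898366037) (nat_lit 0) (nat_lit 4861204817) (nat_lit 4) (nat_lit 5) (nat_lit 6) (nat_lit 4) (nat_lit 4) (nat_lit 4) (nat_lit 313) (nat_lit 263) (nat_lit 144)) (XT.lf (nat_lit 0) (nat_lit 134790274577) (nat_lit 152) (nat_lit 253009114248) (nat_lit 0) (nat_lit 37338981589) (nat_lit 4) (nat_lit 5) (nat_lit 6) (nat_lit 4) (nat_lit 4) (nat_lit 4) (nat_lit 314) (nat_lit 263) (nat_lit 143)))) (XT.nd (nat_lit 78) (nat_lit 0) (nat_lit 0) (XT.lf (nat_lit 0) (nat_lit 169866612642) (nat_lit 152) (nat_lit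 214249608758) (nat_lit 0) (nat_lit 72414615536) (nat_lit 4) (nat_lit 5) (nat_lit 6) (nat_lit 4) (nat_lit 4) (nat_lit 4) (nat_lit 315) (nat_lit 263) (nat_lit 142)) (XT.nd (nat_lit 78) (nat_lit 0) (nat_lit 0) (XT.lf (nat_lit 0) (nat_lit 207748611332) (nat_lit 152) (nat_lit 172390163611) (nat_lit 0) (nat_lit 110295962266) (nat_lit 4) (nat_lit 5) (nat_lit 6) (nat_lit 4) (nat_lit 4) (nat_lit 4) (nat_lit 316) (nat_lit 263) (nat_lit 141)) (XT.lf (nat_lit 0) (nat_lit 248660756567) (nat_lit 152) (nat_lit 127182722835) (nat_lit 0) (nat_lit 151207503833) (nat_lit 4) (nat_lit 5) (nat_lit 6) (nat_lit 4) (nat_lit 4) (nat_lit 4) (nat_lit 317) (nat_lit 263) (nat_lit 140)))))) (XT.nd (nat_lit 468) (nat_lit 0) (nat_lit 0) (XT.nd (nat_lit 234) (nat_lit 0) (nat_lit 0) (XT.nd (nat_lit 78) (nat_lit 76) (nat_lit 0) (XT.lf (nat_lit 0) (nat_lit 292845490688) (nat_lit 152) (nat_lit 78359390483) (nat_lit 0)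 (nat_lit 195391679002) (nat_lit 4) (nat_lit 5) (nat_lit 6) (nat_lit 4) (nat_lit 4) (nat_lit 4) (nat_lit 318) (nat_lit 263) (nat_lit 139)) (XT.nd (nat_lit 78) (nat_lit 76) (nat_lit 0) (XT.lf (nat_lit 0) (nat_lit 340564649156) (nat_lit 152) (nat_lit 25630843106) (nat_lit 0) (nat_lit 243110319922) (nat_lit 4) (nat_lit 5) (nat_lit 6) (nat_lit 4) (nat_lit 4) (nat_lit 4) (nat_lit 319) (nat_lit 263) (nat_lit 138)) (XT.lf (nat_lit 0) (nat_lit 32964397427) (nat_lit 76) (nat_lit 359929409294) (nat_lit 76) (nat_lit 262474600849) (nat_lit 3) (nat_lit 4) (nat_lit 4) (nat_lit 5) (nat_lit 4) (nat_lit 4) (nat_lit 320) (nat_lit 263) (nat_lit 137)))) (XT.nd (nat_lit 78) (nat_lit 0) (nat_lit 0) (XT.lf (nat_lit 0) (nat_lit 97704317937) (nat_lit 76) (nat_lit 352405453659) (nat_lit 76) (nat_lit 254950201500) (nat_lit 3) (nat_lit 4) (nat_lit 4) (nat_lit 5) (nat_lit 4) (nat_lit 4) (nat_lit 321) (nat_lit 263)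 (nat_lit 136)) (XT.nd (nat_lit 78) (nat_lit 0) (nat_lit 0) (XT.lf (nat_lit 0) (nat_lit 167622887621) (nat_lit 76) (nat_lit 344279831627) (nat_lit 76) (nat_lit 246824168621) (nat_lit 3) (nat_lit 4) (nat_lit 4) (nat_lit 5) (nat_lit 4) (nat_lit 4) (nat_lit 322) (nat_lit 263) (nat_lit 135)) (XT.lf (nat_lit 0) (nat_lit 243134438742) (nat_lit 76) (nat_lit 335504391362) (nat_lit 76) (nat_lit 238048347944) (nat_lit 3) (nat_lit 4) (nat_lit 4) (nat_lit 5) (nat_lit 4) (nat_lit 4) (nat_lit 323) (nat_lit 263) (nat_lit 134))))) (XT.nd (nat_lit 234) (nat_lit 0) (nat_lit 0) (XT.nd (nat_lit 78) (nat_lit 0) (nat_lit 0) (XT.lf (nat_lit 0) (nat_lit 324686447159) (nat_lit 76) (nat_lit 326027130258) (nat_lit 76) (nat_lit 228570734605) (nat_lit 3) (nat_lit 4) (nat_lit 4) (nat_lit 5) (nat_lit 4) (nat_lit 4) (nat_lit 324) (nat_lit 263) (nat_lit 133)) (XT.nd (nat_lit 78) (nat_lit 0) (nat_lit 0) (XT.lf (nat_lit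 0) (nat_lit 412762184034) (nat_lit 76) (nat_lit 315791886765) (nat_lit 76) (nat_lit 218335164969) (nat_lit 3) (nat_lit 4) (nat_lit 4) (nat_lit 5) (nat_lit 4) (nat_lit 4) (nat_lit 325) (nat_lit 263) (nat_lit 132)) (XT.lf (nat_lit 0) (nat_lit 507883579659) (nat_lit 76) (nat_lit 304738007589) (nat_lit 76) (nat_lit 207280983809) (nat_lit 3) (nat_lit 4) (nat_lit 4) (nat_lit 5) (nat_lit 4) (nat_lit 4) (nat_lit 326) (nat_lit 263) (nat_lit 131)))) (XT.nd (nat_lit 156) (nat_lit 0) (nat_lit 0) (XT.nd (nat_lit 78) (nat_lit 0) (nat_lit 0) (XT.lf (nat_lit 0) (nat_lit 610614316378) (nat_lit 76) (nat_lit 292799988262) (nat_lit 76) (nat_lit 195342684867) (nat_lit 3) (nat_lit 4) (nat_lit 4) (nat_lit 5) (nat_lit 4) (nat_lit 4) (nat_lit 327) (nat_lit 263) (nat_lit 130)) (XT.lf (nat_lit 0) (nat_lit 721563168928) (nat_lit 76) (nat_lit 279907084964) (nat_lit 76) (nat_lit 182449522667) (nat_lit 3) (nat_lit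 4) (nat_lit 4) (nat_lit 5) (nat_lit 4) (nat_lit 4) (nat_lit 328) (nat_lit 263) (nat_lit 129))) (XT.nd (nat_lit 78) (nat_lit 0) (nat_lit 0) (XT.lf (nat_lit 0) (nat_lit 841387611990) (nat_lit 76) (nat_lit 265982895307) (nat_lit 76) (nat_lit 168525093284) (nat_lit 3) (nat_lit 4) (nat_lit 4) (nat_lit 5) (nat_lit 4) (nat_lit 4) (nat_lit 329) (nat_lit 263) (nat_lit 128)) (XT.lf (nat_lit 0) (nat_lit 970797716338) (nat_lit 76) (nat_lit 250944905572) (nat_lit 76) (nat_lit 153486881583) (nat_lit 3) (nat_lit 4) (nat_lit 4) (nat_lit 5) (nat_lit 4) (nat_lit 4) (nat_lit 330) (nat_lit 263) (nat_lit 127))))))) (XT.nd (nat_lit 32838) (nat_lit 0) (nat_lit 1292) (XT.nd (nat_lit 32292) (nat_lit 0) (nat_lit 2508) (XT.nd (nat_lit 234) (nat_lit 0) (nat_lit 0) (XT.nd (nat_lit 78) (nat_lit 0) (nat_lit 0) (XT.lf (nat_lit 0) (nat_lit 1110560356664) (nat_lit 76) (nat_lit 234704001748) (nat_lit 76) (nat_lit 137245772233)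 (nat_lit 3) (nat_lit 4) (nat_lit 4) (nat_lit 5) (nat_lit 4) (nat_lit 4) (nat_lit 331) (nat_lit 263) (nat_lit 126)) (XT.nd (nat_lit 78) (nat_lit 0) (nat_lit 0) (XT.lf (nat_lit 0) (nat_lit 1261503756022) (nat_lit 76) (nat_lit 217163941442) (nat_lit 76) (nat_lit 119705521625) (nat_lit 3) (nat_lit 4) (nat_lit 4) (nat_lit 5) (nat_lit 4) (nat_lit 4) (nat_lit 332) (nat_lit 263) (nat_lit 125)) (XT.lf (nat_lit 0) (nat_lit 1424522393817) (nat_lit 76) (nat_lit 198220783554) (nat_lit 76) (nat_lit 100762187533) (nat_lit 3) (nat_lit 4) (nat_lit 4) (nat_lit 5) (nat_lit 4) (nat_lit 4) (nat_lit 333) (nat_lit 263) (nat_lit 124)))) (XT.nd (nat_lit 78) (nat_lit 0) (nat_lit 0) (XT.lf (nat_lit 0) (nat_lit 1600582306419) (nat_lit 76) (nat_lit 177762272335) (nat_lit 76) (nat_lit 80303513161) (nat_lit 3) (nat_lit 4) (nat_lit 4) (nat_lit 5) (nat_lit 4) (nat_lit 4) (nat_lit 334) (nat_lit 263) (nat_lit 123))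 (XT.nd (nat_lit 78) (nat_lit 0) (nat_lit 0) (XT.lf (nat_lit 0) (nat_lit 1790726811829) (nat_lit 76) (nat_lit 155667172162) (nat_lit 76) (nat_lit 58208261921) (nat_lit 3) (nat_lit 4) (nat_lit 4) (nat_lit 5) (nat_lit 4) (nat_lit 4) (nat_lit 335) (nat_lit 263) (nat_lit 122)) (XT.lf (nat_lit 0) (nat_lit 1996082692303) (nat_lit 76) (nat_lit 131804549109) (nat_lit 76) (nat_lit 34345498991) (nat_lit 3) (nat_lit 4) (nat_lit 4) (nat_lit 5) (nat_lit 4) (nat_lit 4) (nat_lit 336) (nat_lit 263) (nat_lit 121))))) (XT.nd (nat_lit 234) (nat_lit 0) (nat_lit 76) (XT.nd (nat_lit 78) (nat_lit 0) (nat_lit 0) (XT.lf (nat_lit 0) (nat_lit 4414394994) (nat_lit 532) (nat_lit 4313282161) (nat_lit 532) (nat_lit 4313282161) (nat_lit 36) (nat_lit 3) (nat_lit 43) (nat_lit 3) (nat_lit 43) (nat_lit 5) (nat_lit 264) (nat_lit 264) (nat_lit 192)) (XT.nd (nat_lit 78) (nat_lit 0) (nat_lit 76) (XT.lf (nat_lit 76) (nat_lit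 2658571018) (nat_lit 0) (nat_lit 6673472101) (nat_lit 532) (nat_lit 17780688047) (nat_lit 37) (nat_lit 5) (nat_lit 36) (nat_lit 3) (nat_lit 43) (nat_lit 5) (nat_lit 265) (nat_lit 264) (nat_lit 191)) (XT.lf (nat_lit 0) (nat_lit 10228453046) (nat_lit 456) (nat_lit 13001460673) (nat_lit 532) (nat_lit 4967908888) (nat_lit 37) (nat_lit 5) (nat_lit 43) (nat_lit 5) (nat_lit 44) (nat_lit 5) (nat_lit 266) (nat_lit 264) (nat_lit 190)))) (XT.nd (nat_lit 156) (nat_lit 0) (nat_lit 76) (XT.nd (nat_lit 78) (nat_lit 0) (nat_lit 76) (XT.lf (nat_lit 0) (nat_lit 11361906121) (nat_lit 456) (nat_lit 811216119) (nat_lit 532) (nat_lit 17183414949) (nat_lit 37) (nat_lit 5) (nat_lit 43) (nat_lit 5) (nat_lit 44) (nat_lit 5) (nat_lit 267) (nat_lit 264) (nat_lit 189)) (XT.lf (nat_lit 0) (nat_lit 12893868237) (nat_lit 456) (nat_lit 17586573540) (nat_lit 532) (nat_lit 102919657) (nat_lit 38) (nat_lit 5) (nat_lit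 44) (nat_lit 5) (nat_lit 45) (nat_lit 5) (nat_lit 268) (nat_lit 264) (nat_lit 188))) (XT.nd (nat_lit 78) (nat_lit 0) (nat_lit 0) (XT.lf (nat_lit 0) (nat_lit 14880400481) (nat_lit 456) (nat_lit 4273212036) (nat_lit 532) (nat_lit 12728194273) (nat_lit 38) (nat_lit 5) (nat_lit 44) (nat_lit 5) (nat_lit 45) (nat_lit 5) (nat_lit 269) (nat_lit 264) (nat_lit 187)) (XT.lf (nat_lit 76) (nat_lit 10632018988) (nat_lit 0) (nat_lit 6643121788) (nat_lit 532) (nat_lit 15989077699) (nat_lit 39) (nat_lit 5) (nat_lit 38) (nat_lit 5) (nat_lit 45) (nat_lit 5) (nat_lit 270) (nat_lit 264) (nat_lit 186)))))) (XT.nd (nat_lit 468) (nat_lit 532) (nat_lit 0) (XT.nd (nat_lit 234) (nat_lit 456) (nat_lit 0) (XT.nd (nat_lit 78) (nat_lit 456) (nat_lit 0) (XT.lf (nat_lit 0) (nat_lit 20140481783) (nat_lit 456) (nat_lit 7948872515) (nat_lit 76) (nat_lit 6645578134) (nat_lit 39) (nat_lit 5) (nat_lit 45) (nat_lit 5) (nat_lit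 40) (nat_lit 5) (nat_lit 271) (nat_lit 264) (nat_lit 185)) (XT.nd (nat_lit 78) (nat_lit 0) (nat_lit 0) (XT.lf (nat_lit 0) (nat_lit 8138633732) (nat_lit 456) (nat_lit 15459115027) (nat_lit 532) (nat_lit 12696567607) (nat_lit 33) (nat_lit 5) (nat_lit 39) (nat_lit 5) (nat_lit 40) (nat_lit 5) (nat_lit 272) (nat_lit 264) (nat_lit 184)) (XT.lf (nat_lit 0) (nat_lit 25960262465) (nat_lit 456) (nat_lit 1583381529) (nat_lit 532) (nat_lit 10417869894) (nat_lit 33) (nat_lit 5) (nat_lit 39) (nat_lit 5) (nat_lit 40) (nat_lit 5) (nat_lit 273) (nat_lit 264) (nat_lit 183)))) (XT.nd (nat_lit 78) (nat_lit 228) (nat_lit 0) (XT.lf (nat_lit 0) (nat_lit 5387725855) (nat_lit 228) (nat_lit 26864498506) (nat_lit 304) (nat_lit 7474126422) (nat_lit 30) (nat_lit 5) (nat_lit 33) (nat_lit 5) (nat_lit 34) (nat_lit 5) (nat_lit 274) (nat_lit 264) (nat_lit 182)) (XT.nd (nat_lit 78) (nat_lit 228) (nat_lit 0) (XT.lf (nat_lit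 0) (nat_lit 24802181146) (nat_lit 228) (nat_lit 12898886472) (nat_lit 304) (nat_lit 3902243722) (nat_lit 30) (nat_lit 5) (nat_lit 33) (nat_lit 5) (nat_lit 34) (nat_lit 5) (nat_lit 275) (nat_lit 264) (nat_lit 181)) (XT.lf (nat_lit 0) (nat_lit 61149754) (nat_lit 228) (nat_lit 41432320433) (nat_lit 76) (nat_lit 2128781671) (nat_lit 27) (nat_lit 5) (nat_lit 30) (nat_lit 5) (nat_lit 28) (nat_lit 5) (nat_lit 276) (nat_lit 264) (nat_lit 180))))) (XT.nd (nat_lit 234) (nat_lit 304) (nat_lit 0) (XT.nd (nat_lit 78) (nat_lit 228) (nat_lit 0) (XT.lf (nat_lit 0) (nat_lit 4932906735) (nat_lit 228) (nat_lit 22563495786) (nat_lit 76) (nat_lit 18234045494) (nat_lit 27) (nat_lit 5) (nat_lit 30) (nat_lit 5) (nat_lit 28) (nat_lit 5) (nat_lit 277) (nat_lit 264) (nat_lit 179)) (XT.nd (nat_lit 78) (nat_lit 228) (nat_lit 0) (XT.lf (nat_lit 0) (nat_lit 10190491404) (nat_lit 228) (nat_lit 2189782176) (nat_lit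 76) (nat_lit 35627356092) (nat_lit 27) (nat_lit 5) (nat_lit 30) (nat_lit 5) (nat_lit 28) (nat_lit 5) (nat_lit 278) (nat_lit 264) (nat_lit 178)) (XT.lf (nat_lit 0) (nat_lit 16474458846) (nat_lit 304) (nat_lit 29682372473) (nat_lit 76) (nat_lit 4261708000) (nat_lit 24) (nat_lit 5) (nat_lit 28) (nat_lit 5) (nat_lit 25) (nat_lit 5) (nat_lit 279) (nat_lit 264) (nat_lit 177)))) (XT.nd (nat_lit 156) (nat_lit 152) (nat_lit 0) (XT.nd (nat_lit 78) (nat_lit 152) (nat_lit 0) (XT.lf (nat_lit 0) (nat_lit 23640664898) (nat_lit 304) (nat_lit 7724366402) (nat_lit 76) (nat_lit 21626943124) (nat_lit 24) (nat_lit 5) (nat_lit 28) (nat_lit 5) (nat_lit 25) (nat_lit 5) (nat_lit 280) (nat_lit 264) (nat_lit 176)) (XT.lf (nat_lit 0) (nat_lit 16827971953) (nat_lit 152) (nat_lit 14953693807) (nat_lit 228) (nat_lit 23957512030) (nat_lit 22) (nat_lit 5) (nat_lit 24) (nat_lit 5) (nat_lit 25) (nat_lit 5) (nat_lit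 281) (nat_lit 264) (nat_lit 175))) (XT.nd (nat_lit 78) (nat_lit 152) (nat_lit 0) (XT.lf (nat_lit 0) (nat_lit 40854166509) (nat_lit 228) (nat_lit 14981833257) (nat_lit 76) (nat_lit 2847752410) (nat_lit 22) (nat_lit 5) (nat_lit 25) (nat_lit 5) (nat_lit 23) (nat_lit 5) (nat_lit 282) (nat_lit 264) (nat_lit 174)) (XT.lf (nat_lit 0) (nat_lit 11020860768) (nat_lit 152) (nat_lit 40282199923) (nat_lit 228) (nat_lit 10508795767) (nat_lit 20) (nat_lit 5) (nat_lit 22) (nat_lit 5) (nat_lit 23) (nat_lit 5) (nat_lit 283) (nat_lit 264) (nat_lit 173))))))))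
noncomputable def xc91 : XT := (XT.nd (nat_lit 2028) (nat_lit 228) (nat_lit 0) (XT.nd (nat_lit 1014) (nat_lit 304) (nat_lit 0) (XT.nd (nat_lit 468) (nat_lit 380) (nat_lit 0) (XT.nd (nat_lit 234) (nat_lit 152) (nat_lit 0) (XT.nd (nat_lit 78) (nat_lit 228) (nat_lit 0) (XT.lf (nat_lit 0) (nat_lit 39951971089) (nat_lit 152) (nat_lit 23042779184) (nat_lit 228) (nat_lit 2162918675) (nat_lit 20) (nat_lit 5) (nat_lit 22) (nat_lit 5) (nat_lit 23) (nat_lit 5) (nat_lit 284) (nat_lit 264) (nat_lit 172)) (XT.nd (nat_lit 78) (nat_lit 0) (nat_lit 0) (XT.lf (nat_lit 0) (nat_lit 2376874270) (nat_lit 152) (nat_lit 4185604070) (nat_lit 228) (nat_lit 62191132864) (nat_lit 17) (nat_lit 5) (nat_lit 19) (nat_lit 5) (nat_lit 20) (nat_lit 5) (nat_lit 285) (nat_lit 264) (nat_lit 171)) (XT.lf (nat_lit 0) (nat_lit 16962718377) (nat_lit 228) (nat_lit 39449568084) (nat_lit 76) (nat_lit 16132963192) (nat_lit 17)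 (nat_lit 5) (nat_lit 20) (nat_lit 5) (nat_lit 18) (nat_lit 5) (nat_lit 286) (nat_lit 264) (nat_lit 170)))) (XT.nd (nat_lit 78) (nat_lit 152) (nat_lit 0) (XT.lf (nat_lit 0) (nat_lit 28301345756) (nat_lit 228) (nat_lit 10480444750) (nat_lit 76) (nat_lit 37849926994) (nat_lit 17) (nat_lit 5) (nat_lit 20) (nat_lit 5) (nat_lit 18) (nat_lit 5) (nat_lit 287) (nat_lit 264) (nat_lit 169)) (XT.nd (nat_lit 78) (nat_lit 0) (nat_lit 0) (XT.lf (nat_lit 0) (nat_lit 21898413138) (nat_lit 152) (nat_lit 19173132688) (nat_lit 228) (nat_lit 39931605544) (nat_lit 15) (nat_lit 5) (nat_lit 17) (nat_lit 5) (nat_lit 18) (nat_lit 5) (nat_lit 288) (nat_lit 264) (nat_lit 168)) (XT.lf (nat_lit 0) (nat_lit 55203444757) (nat_lit 228) (nat_lit 28296716868) (nat_lit 76) (nat_lit 2196938358) (nat_lit 15) (nat_lit 5) (nat_lit 18) (nat_lit 5) (nat_lit 16) (nat_lit 4) (nat_lit 289) (nat_lit 264) (nat_lit 167))))) (XT.nd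 (nat_lit 234) (nat_lit 228) (nat_lit 0) (XT.nd (nat_lit 78) (nat_lit 76) (nat_lit 0) (XT.lf (nat_lit 0) (nat_lit 4710518424) (nat_lit 76) (nat_lit 66364709889) (nat_lit 152) (nat_lit 19642595727) (nat_lit 14) (nat_lit 5) (nat_lit 15) (nat_lit 5) (nat_lit 16) (nat_lit 4) (nat_lit 290) (nat_lit 264) (nat_lit 166)) (XT.nd (nat_lit 78) (nat_lit 76) (nat_lit 0) (XT.lf (nat_lit 0) (nat_lit 41964605916) (nat_lit 76) (nat_lit 47023945488) (nat_lit 152) (nat_lit 7089916579) (nat_lit 14) (nat_lit 5) (nat_lit 15) (nat_lit 5) (nat_lit 16) (nat_lit 4) (nat_lit 291) (nat_lit 264) (nat_lit 165)) (XT.lf (nat_lit 0) (nat_lit 6141676288) (nat_lit 152) (nat_lit 19827338270) (nat_lit 76) (nat_lit 75886655005) (nat_lit 13) (nat_lit 5) (nat_lit 15) (nat_lit 5) (nat_lit 14) (nat_lit 5) (nat_lit 292) (nat_lit 264) (nat_lit 164)))) (XT.nd (nat_lit 156) (nat_lit 76) (nat_lit 0) (XT.nd (nat_lit 78) (nat_lit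 0) (nat_lit 0) (XT.lf (nat_lit 0) (nat_lit 17911297267) (nat_lit 152) (nat_lit 2566563618) (nat_lit 228) (nat_lit 87568130309) (nat_lit 11) (nat_lit 5) (nat_lit 13) (nat_lit 5) (nat_lit 14) (nat_lit 5) (nat_lit 293) (nat_lit 264) (nat_lit 163)) (XT.lf (nat_lit 0) (nat_lit 37061639879) (nat_lit 228) (nat_lit 55454452004) (nat_lit 76) (nat_lit 22127394902) (nat_lit 11) (nat_lit 5) (nat_lit 14) (nat_lit 5) (nat_lit 12) (nat_lit 4) (nat_lit 294) (nat_lit 264) (nat_lit 162))) (XT.nd (nat_lit 78) (nat_lit 76) (nat_lit 0) (XT.lf (nat_lit 0) (nat_lit 55037279822) (nat_lit 228) (nat_lit 18068948889) (nat_lit 76) (nat_lit 48657344509) (nat_lit 11) (nat_lit 5) (nat_lit 14) (nat_lit 5) (nat_lit 12) (nat_lit 4) (nat_lit 295) (nat_lit 264) (nat_lit 161)) (XT.lf (nat_lit 0) (nat_lit 23479631304) (nat_lit 76) (nat_lit 51534631501) (nat_lit 152) (nat_lit 54393944015) (nat_lit 10) (nat_lit 5) (nat_lit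 11) (nat_lit 5) (nat_lit 12) (nat_lit 4) (nat_lit 296) (nat_lit 264) (nat_lit 160)))))) (XT.nd (nat_lit 468) (nat_lit 152) (nat_lit 0) (XT.nd (nat_lit 234) (nat_lit 76) (nat_lit 0) (XT.nd (nat_lit 78) (nat_lit 76) (nat_lit 0) (XT.lf (nat_lit 0) (nat_lit 69377444095) (nat_lit 76) (nat_lit 27704652680) (nat_lit 152) (nat_lit 40542902281) (nat_lit 10) (nat_lit 5) (nat_lit 11) (nat_lit 5) (nat_lit 12) (nat_lit 4) (nat_lit 297) (nat_lit 264) (nat_lit 159)) (XT.nd (nat_lit 78) (nat_lit 76) (nat_lit 0) (XT.lf (nat_lit 0) (nat_lit 118944997692) (nat_lit 76) (nat_lit 1969114641) (nat_lit 152) (nat_lit 25585125034) (nat_lit 10) (nat_lit 5) (nat_lit 11) (nat_lit 5) (nat_lit 12) (nat_lit 4) (nat_lit 298) (nat_lit 264) (nat_lit 158)) (XT.lf (nat_lit 0) (nat_lit 16601932208) (nat_lit 76) (nat_lit 131069960493) (nat_lit 76) (nat_lit 8329988613) (nat_lit 9) (nat_lit 4) (nat_lit 10) (nat_lit 5) (nat_lit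 10) (nat_lit 4) (nat_lit 299) (nat_lit 264) (nat_lit 157)))) (XT.nd (nat_lit 78) (nat_lit 0) (nat_lit 0) (XT.lf (nat_lit 0) (nat_lit 10612965133) (nat_lit 152) (nat_lit 100667416671) (nat_lit 76) (nat_lit 54898694933) (nat_lit 8) (nat_lit 5) (nat_lit 10) (nat_lit 5) (nat_lit 9) (nat_lit 4) (nat_lit 300) (nat_lit 264) (nat_lit 156)) (XT.nd (nat_lit 78) (nat_lit 0) (nat_lit 0) (XT.lf (nat_lit 0) (nat_lit 30620241896) (nat_lit 152) (nat_lit 59054514586) (nat_lit 76) (nat_lit 87478470715) (nat_lit 8) (nat_lit 5) (nat_lit 10) (nat_lit 5) (nat_lit 9) (nat_lit 4) (nat_lit 301) (nat_lit 264) (nat_lit 155)) (XT.lf (nat_lit 0) (nat_lit 52227103081) (nat_lit 152) (nat_lit 14114311451) (nat_lit 76) (nat_lit 122663977080) (nat_lit 8) (nat_lit 5) (nat_lit 10) (nat_lit 5) (nat_lit 9) (nat_lit 4) (nat_lit 302) (nat_lit 264) (nat_lit 154))))) (XT.nd (nat_lit 234) (nat_lit 76) (nat_lit 0) (XT.nd (nat_lit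 78) (nat_lit 0) (nat_lit 0) (XT.lf (nat_lit 0) (nat_lit 36231975188) (nat_lit 76) (nat_lit 40200994035) (nat_lit 152) (nat_lit 125303125417) (nat_lit 7) (nat_lit 5) (nat_lit 8) (nat_lit 5) (nat_lit 9) (nat_lit 4) (nat_lit 303) (nat_lit 264) (nat_lit 153)) (XT.nd (nat_lit 78) (nat_lit 0) (nat_lit 0) (XT.lf (nat_lit 0) (nat_lit 91407095853) (nat_lit 76) (nat_lit 11553226137) (nat_lit 152) (nat_lit 112494132336) (nat_lit 7) (nat_lit 5) (nat_lit 8) (nat_lit 5) (nat_lit 9) (nat_lit 4) (nat_lit 304) (nat_lit 264) (nat_lit 152)) (XT.lf (nat_lit 0) (nat_lit 132075263763) (nat_lit 152) (nat_lit 79741798603) (nat_lit 0) (nat_lit 18415990025) (nat_lit 7) (nat_lit 5) (nat_lit 9) (nat_lit 4) (nat_lit 7) (nat_lit 4) (nat_lit 305) (nat_lit 264) (nat_lit 151)))) (XT.nd (nat_lit 156) (nat_lit 0) (nat_lit 0) (XT.nd (nat_lit 78) (nat_lit 76) (nat_lit 0) (XT.lf (nat_lit 0) (nat_lit 163818705305) (nat_lit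 152) (nat_lit 32193266151) (nat_lit 0) (nat_lit 50158024032) (nat_lit 7) (nat_lit 5) (nat_lit 9) (nat_lit 4) (nat_lit 7) (nat_lit 4) (nat_lit 306) (nat_lit 264) (nat_lit 150)) (XT.lf (nat_lit 0) (nat_lit 20166682459) (nat_lit 76) (nat_lit 178419227274) (nat_lit 76) (nat_lit 64757242727) (nat_lit 6) (nat_lit 4) (nat_lit 7) (nat_lit 5) (nat_lit 7) (nat_lit 4) (nat_lit 307) (nat_lit 264) (nat_lit 149))) (XT.nd (nat_lit 78) (nat_lit 0) (nat_lit 0) (XT.lf (nat_lit 0) (nat_lit 78545033510) (nat_lit 76) (nat_lit 158468979637) (nat_lit 76) (nat_lit 44805788355) (nat_lit 6) (nat_lit 4) (nat_lit 7) (nat_lit 5) (nat_lit 7) (nat_lit 4) (nat_lit 308) (nat_lit 264) (nat_lit 148)) (XT.lf (nat_lit 0) (nat_lit 141592492440) (nat_lit 76) (nat_lit 136923225805) (nat_lit 76) (nat_lit 23258917176) (nat_lit 6) (nat_lit 4) (nat_lit 7) (nat_lit 5) (nat_lit 7) (nat_lit 4) (nat_lit 309) (nat_lit 264) (nat_lit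 147))))))) (XT.nd (nat_lit 1014) (nat_lit 0) (nat_lit 0) (XT.nd (nat_lit 468) (nat_lit 76) (nat_lit 0) (XT.nd (nat_lit 234) (nat_lit 76) (nat_lit 0) (XT.nd (nat_lit 78) (nat_lit 0) (nat_lit 0) (XT.lf (nat_lit 0) (nat_lit 10502907) (nat_lit 152) (nat_lit 113643497161) (nat_lit 76) (nat_lit 209671883744) (nat_lit 5) (nat_lit 5) (nat_lit 7) (nat_lit 5) (nat_lit 6) (nat_lit 4) (nat_lit 310) (nat_lit 264) (nat_lit 146)) (XT.nd (nat_lit 78) (nat_lit 0) (nat_lit 0) (XT.lf (nat_lit 0) (nat_lit 23884321200) (nat_lit 152) (nat_lit 63986913056) (nat_lit 76) (nat_lit 258681714152) (nat_lit 5) (nat_lit 5) (nat_lit 7) (nat_lit 5) (nat_lit 6) (nat_lit 4) (nat_lit 311) (nat_lit 264) (nat_lit 145)) (XT.lf (nat_lit 0) (nat_lit 49667517417) (nat_lit 152) (nat_lit 10358751912) (nat_lit 76) (nat_lit 311611951948) (nat_lit 5) (nat_lit 5) (nat_lit 7) (nat_lit 5) (nat_lit 6) (nat_lit 4) (nat_lit 312) (nat_lit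 264) (nat_lit 144)))) (XT.nd (nat_lit 78) (nat_lit 0) (nat_lit 0) (XT.lf (nat_lit 0) (nat_lit 50063144001) (nat_lit 76) (nat_lit 28653756683) (nat_lit 152) (nat_lit 319917133616) (nat_lit 4) (nat_lit 5) (nat_lit 5) (nat_lit 5) (nat_lit 6) (nat_lit 4) (nat_lit 313) (nat_lit 264) (nat_lit 143)) (XT.nd (nat_lit 78) (nat_lit 0) (nat_lit 0) (XT.lf (nat_lit 0) (nat_lit 110506082573) (nat_lit 152) (nat_lit 311992941148) (nat_lit 0) (nat_lit 5257221581) (nat_lit 4) (nat_lit 5) (nat_lit 6) (nat_lit 4) (nat_lit 4) (nat_lit 4) (nat_lit 314) (nat_lit 264) (nat_lit 142)) (XT.lf (nat_lit 0) (nat_lit 145582206013) (nat_lit 152) (nat_lit 273233830265) (nat_lit 0) (nat_lit 40332693060) (nat_lit 4) (nat_lit 5) (nat_lit 6) (nat_lit 4) (nat_lit 4) (nat_lit 4) (nat_lit 315) (nat_lit 264) (nat_lit 141))))) (XT.nd (nat_lit 234) (nat_lit 76) (nat_lit 0) (XT.nd (nat_lit 78) (nat_lit 0) (nat_lit 0) (XT.lf (nat_lit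 0) (nat_lit 183464005977) (nat_lit 152) (nat_lit 231374750494) (nat_lit 0) (nat_lit 78213889356) (nat_lit 4) (nat_lit 5) (nat_lit 6) (nat_lit 4) (nat_lit 4) (nat_lit 4) (nat_lit 316) (nat_lit 264) (nat_lit 140)) (XT.nd (nat_lit 78) (nat_lit 0) (nat_lit 0) (XT.lf (nat_lit 0) (nat_lit 224375967206) (nat_lit 152) (nat_lit 186167648028) (nat_lit 0) (nat_lit 119125291633) (nat_lit 4) (nat_lit 5) (nat_lit 6) (nat_lit 4) (nat_lit 4) (nat_lit 4) (nat_lit 317) (nat_lit 264) (nat_lit 139)) (XT.lf (nat_lit 0) (nat_lit 268560530951) (nat_lit 152) (nat_lit 137344628928) (nat_lit 0) (nat_lit 163309337830) (nat_lit 4) (nat_lit 5) (nat_lit 6) (nat_lit 4) (nat_lit 4) (nat_lit 4) (nat_lit 318) (nat_lit 264) (nat_lit 138)))) (XT.nd (nat_lit 156) (nat_lit 76) (nat_lit 0) (XT.nd (nat_lit 78) (nat_lit 0) (nat_lit 0) (XT.lf (nat_lit 0) (nat_lit 316279531664) (nat_lit 152) (nat_lit 84616371599) (nat_lit 0)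 (nat_lit 211027859332) (nat_lit 4) (nat_lit 5) (nat_lit 6) (nat_lit 4) (nat_lit 4) (nat_lit 4) (nat_lit 319) (nat_lit 264) (nat_lit 137)) (XT.lf (nat_lit 0) (nat_lit 367815748608) (nat_lit 152) (nat_lit 27670412293) (nat_lit 0) (nat_lit 262563632562) (nat_lit 4) (nat_lit 5) (nat_lit 6) (nat_lit 4) (nat_lit 4) (nat_lit 4) (nat_lit 320) (nat_lit 264) (nat_lit 136))) (XT.nd (nat_lit 78) (nat_lit 0) (nat_lit 0) (XT.lf (nat_lit 0) (nat_lit 35612171578) (nat_lit 76) (nat_lit 388718883593) (nat_lit 76) (nat_lit 283466356701) (nat_lit 3) (nat_lit 4) (nat_lit 4) (nat_lit 5) (nat_lit 4) (nat_lit 4) (nat_lit 321) (nat_lit 264) (nat_lit 135)) (XT.lf (nat_lit 0) (nat_lit 105530498888) (nat_lit 76) (nat_lit 380593372873) (nat_lit 76) (nat_lit 275340465568) (nat_lit 3) (nat_lit 4) (nat_lit 4) (nat_lit 5) (nat_lit 4) (nat_lit 4) (nat_lit 322) (nat_lit 264) (nat_lit 134)))))) (XT.nd (nat_lit 468) (nat_lit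 0) (nat_lit 0) (XT.nd (nat_lit 234) (nat_lit 0) (nat_lit 0) (XT.nd (nat_lit 78) (nat_lit 0) (nat_lit 0) (XT.lf (nat_lit 0) (nat_lit 181041825589) (nat_lit 76) (nat_lit 371818035676) (nat_lit 76) (nat_lit 266564776137) (nat_lit 3) (nat_lit 4) (nat_lit 4) (nat_lit 5) (nat_lit 4) (nat_lit 4) (nat_lit 323) (nat_lit 264) (nat_lit 133)) (XT.nd (nat_lit 78) (nat_lit 0) (nat_lit 0) (XT.lf (nat_lit 0) (nat_lit 262593626211) (nat_lit 76) (nat_lit 362340870004) (nat_lit 76) (nat_lit 257087284322) (nat_lit 3) (nat_lit 4) (nat_lit 4) (nat_lit 5) (nat_lit 4) (nat_lit 4) (nat_lit 324) (nat_lit 264) (nat_lit 132)) (XT.lf (nat_lit 0) (nat_lit 350669170682) (nat_lit 76) (nat_lit 352105714875) (nat_lit 76) (nat_lit 246851827209) (nat_lit 3) (nat_lit 4) (nat_lit 4) (nat_lit 5) (nat_lit 4) (nat_lit 4) (nat_lit 325) (nat_lit 264) (nat_lit 131)))) (XT.nd (nat_lit 78) (nat_lit 0) (nat_lit 0) (XT.lf (nat_lit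 0) (nat_lit 445790388155) (nat_lit 76) (nat_lit 341051917518) (nat_lit 76) (nat_lit 235797750237) (nat_lit 3) (nat_lit 4) (nat_lit 4) (nat_lit 5) (nat_lit 4) (nat_lit 4) (nat_lit 326) (nat_lit 264) (nat_lit 130)) (XT.nd (nat_lit 78) (nat_lit 0) (nat_lit 0) (XT.lf (nat_lit 0) (nat_lit 548520959919) (nat_lit 76) (nat_lit 329113973948) (nat_lit 76) (nat_lit 223859547764) (nat_lit 3) (nat_lit 4) (nat_lit 4) (nat_lit 5) (nat_lit 4) (nat_lit 4) (nat_lit 327) (nat_lit 264) (nat_lit 129)) (XT.lf (nat_lit 0) (nat_lit 659469659732) (nat_lit 76) (nat_lit 316221140797) (nat_lit 76) (nat_lit 210966474888) (nat_lit 3) (nat_lit 4) (nat_lit 4) (nat_lit 5) (nat_lit 4) (nat_lit 4) (nat_lit 328) (nat_lit 264) (nat_lit 128))))) (XT.nd (nat_lit 234) (nat_lit 0) (nat_lit 0) (XT.nd (nat_lit 78) (nat_lit 0) (nat_lit 0) (XT.lf (nat_lit 0) (nat_lit 779293961371) (nat_lit 76) (nat_lit 302297016089) (nat_lit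 76) (nat_lit 197042128213) (nat_lit 3) (nat_lit 4) (nat_lit 4) (nat_lit 5) (nat_lit 4) (nat_lit 4) (nat_lit 329) (nat_lit 264) (nat_lit 127)) (XT.nd (nat_lit 78) (nat_lit 0) (nat_lit 0) (XT.lf (nat_lit 0) (nat_lit 908703934772) (nat_lit 76) (nat_lit 287259086494) (nat_lit 76) (nat_lit 182003993092) (nat_lit 3) (nat_lit 4) (nat_lit 4) (nat_lit 5) (nat_lit 4) (nat_lit 4) (nat_lit 330) (nat_lit 264) (nat_lit 126)) (XT.lf (nat_lit 0) (nat_lit 1048466453851) (nat_lit 76) (nat_lit 271018238354) (nat_lit 76) (nat_lit 165762954651) (nat_lit 3) (nat_lit 4) (nat_lit 4) (nat_lit 5) (nat_lit 4) (nat_lit 4) (nat_lit 331) (nat_lit 264) (nat_lit 125)))) (XT.nd (nat_lit 156) (nat_lit 0) (nat_lit 0) (XT.nd (nat_lit 78) (nat_lit 0) (nat_lit 0) (XT.lf (nat_lit 0) (nat_lit 1199409740944) (nat_lit 76) (nat_lit 253478229607) (nat_lit 76) (nat_lit 148222769699) (nat_lit 3) (nat_lit 4) (nat_lit 4) (nat_lit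 5) (nat_lit 4) (nat_lit 4) (nat_lit 332) (nat_lit 264) (nat_lit 124)) (XT.lf (nat_lit 0) (nat_lit 1362428274788) (nat_lit 76) (nat_lit 234535119459) (nat_lit 76) (nat_lit 129279496399) (nat_lit 3) (nat_lit 4) (nat_lit 4) (nat_lit 5) (nat_lit 4) (nat_lit 4) (nat_lit 333) (nat_lit 264) (nat_lit 123))) (XT.nd (nat_lit 78) (nat_lit 0) (nat_lit 0) (XT.lf (nat_lit 0) (nat_lit 1538488091141) (nat_lit 76) (nat_lit 214076652444) (nat_lit 76) (nat_lit 108820878316) (nat_lit 3) (nat_lit 4) (nat_lit 4) (nat_lit 5) (nat_lit 4) (nat_lit 4) (nat_lit 334) (nat_lit 264) (nat_lit 122)) (XT.lf (nat_lit 0) (nat_lit 1728632507431) (nat_lit 76) (nat_lit 191981593201) (nat_lit 76) (nat_lit 86725679196) (nat_lit 3) (nat_lit 4) (nat_lit 4) (nat_lit 5) (nat_lit 4) (nat_lit 4) (nat_lit 335) (nat_lit 264) (nat_lit 121))))))))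
noncomputable def xc92 : XT := (XT.nd (nat_lit 33852) (nat_lit 0) (nat_lit 76) (XT.nd (nat_lit 32838) (nat_lit 0) (nat_lit 1064) (XT.nd (nat_lit 32370) (nat_lit 0) (nat_lit 2052) (XT.nd (nat_lit 32136) (nat_lit 0) (nat_lit 2584) (XT.nd (nat_lit 31980) (nat_lit 0) (nat_lit 2508) (XT.lf (nat_lit 0) (nat_lit 1933988305386) (nat_lit 76) (nat_lit 168119008046) (nat_lit 76) (nat_lit 62862964525) (nat_lit 3) (nat_lit 4) (nat_lit 4) (nat_lit 5) (nat_lit 4) (nat_lit 4) (nat_lit 336) (nat_lit 264) (nat_lit 120)) (XT.nd (nat_lit 78) (nat_lit 0) (nat_lit 0) (XT.lf (nat_lit 0) (nat_lit 4851637209) (nat_lit 532) (nat_lit 4612713241) (nat_lit 532) (nat_lit 4612713241) (nat_lit 36) (nat_lit 3) (nat_lit 43) (nat_lit 3) (nat_lit 43) (nat_lit 5) (nat_lit 265) (nat_lit 265) (nat_lit 190)) (XT.lf (nat_lit 76) (nat_lit 2960209229) (nat_lit 0) (nat_lit 7276260011) (nat_lit 532) (nat_lit 19031827107) (nat_lit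 37) (nat_lit 5) (nat_lit 36) (nat_lit 3) (nat_lit 43) (nat_lit 5) (nat_lit 266) (nat_lit 265) (nat_lit 189)))) (XT.nd (nat_lit 78) (nat_lit 0) (nat_lit 0) (XT.lf (nat_lit 0) (nat_lit 11191363902) (nat_lit 456) (nat_lit 13945222775) (nat_lit 532) (nat_lit 5304727732) (nat_lit 37) (nat_lit 5) (nat_lit 43) (nat_lit 5) (nat_lit 44) (nat_lit 5) (nat_lit 267) (nat_lit 265) (nat_lit 188)) (XT.nd (nat_lit 78) (nat_lit 0) (nat_lit 76) (XT.lf (nat_lit 0) (nat_lit 12404779548) (nat_lit 456) (nat_lit 786896046) (nat_lit 532) (nat_lit 18501964193) (nat_lit 37) (nat_lit 5) (nat_lit 43) (nat_lit 5) (nat_lit 44) (nat_lit 5) (nat_lit 268) (nat_lit 265) (nat_lit 187)) (XT.lf (nat_lit 0) (nat_lit 14050528760) (nat_lit 456) (nat_lit 18894857833) (nat_lit 532) (nat_lit 73977316) (nat_lit 38) (nat_lit 5) (nat_lit 44) (nat_lit 5) (nat_lit 45) (nat_lit 5) (nat_lit 269) (nat_lit 265) (nat_lit 186))))) (XT.nd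 (nat_lit 234) (nat_lit 608) (nat_lit 0) (XT.nd (nat_lit 78) (nat_lit 0) (nat_lit 0) (XT.lf (nat_lit 0) (nat_lit 16186713134) (nat_lit 456) (nat_lit 4523734193) (nat_lit 532) (nat_lit 13712027673) (nat_lit 38) (nat_lit 5) (nat_lit 44) (nat_lit 5) (nat_lit 45) (nat_lit 5) (nat_lit 270) (nat_lit 265) (nat_lit 185)) (XT.nd (nat_lit 78) (nat_lit 0) (nat_lit 76) (XT.lf (nat_lit 76) (nat_lit 11571603039) (nat_lit 0) (nat_lit 7194986858) (nat_lit 532) (nat_lit 17149450023) (nat_lit 39) (nat_lit 5) (nat_lit 38) (nat_lit 5) (nat_lit 45) (nat_lit 5) (nat_lit 271) (nat_lit 265) (nat_lit 184)) (XT.lf (nat_lit 0) (nat_lit 21852597057) (nat_lit 456) (nat_lit 8493273471) (nat_lit 76) (nat_lit 7159266912) (nat_lit 39) (nat_lit 5) (nat_lit 45) (nat_lit 5) (nat_lit 40) (nat_lit 5) (nat_lit 272) (nat_lit 265) (nat_lit 183)))) (XT.nd (nat_lit 78) (nat_lit 228) (nat_lit 0) (XT.lf (nat_lit 0) (nat_lit 8878916597)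 (nat_lit 456) (nat_lit 16702201518) (nat_lit 532) (nat_lit 13608618634) (nat_lit 33) (nat_lit 5) (nat_lit 39) (nat_lit 5) (nat_lit 40) (nat_lit 5) (nat_lit 273) (nat_lit 265) (nat_lit 182)) (XT.nd (nat_lit 78) (nat_lit 228) (nat_lit 0) (XT.lf (nat_lit 0) (nat_lit 28119668801) (nat_lit 456) (nat_lit 1715938430) (nat_lit 532) (nat_lit 11155304688) (nat_lit 33) (nat_lit 5) (nat_lit 39) (nat_lit 5) (nat_lit 40) (nat_lit 5) (nat_lit 274) (nat_lit 265) (nat_lit 181)) (XT.lf (nat_lit 0) (nat_lit 5906709101) (nat_lit 228) (nat_lit 29009595951) (nat_lit 304) (nat_lit 7981029221) (nat_lit 30) (nat_lit 5) (nat_lit 33) (nat_lit 5) (nat_lit 34) (nat_lit 5) (nat_lit 275) (nat_lit 265) (nat_lit 180)))))) (XT.nd (nat_lit 468) (nat_lit 532) (nat_lit 0) (XT.nd (nat_lit 234) (nat_lit 228) (nat_lit 0) (XT.nd (nat_lit 78) (nat_lit 228) (nat_lit 0) (XT.lf (nat_lit 0) (nat_lit 26867804876) (nat_lit 228)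 (nat_lit 13927035875) (nat_lit 304) (nat_lit 4130138670) (nat_lit 30) (nat_lit 5) (nat_lit 33) (nat_lit 5) (nat_lit 34) (nat_lit 5) (nat_lit 276) (nat_lit 265) (nat_lit 179)) (XT.nd (nat_lit 78) (nat_lit 0) (nat_lit 0) (XT.lf (nat_lit 0) (nat_lit 142380318) (nat_lit 228) (nat_lit 44656829997) (nat_lit 76) (nat_lit 2306387265) (nat_lit 27) (nat_lit 5) (nat_lit 30) (nat_lit 5) (nat_lit 28) (nat_lit 5) (nat_lit 277) (nat_lit 265) (nat_lit 178)) (XT.lf (nat_lit 0) (nat_lit 5398223148) (nat_lit 228) (nat_lit 24285171679) (nat_lit 76) (nat_lit 19699531226) (nat_lit 27) (nat_lit 5) (nat_lit 30) (nat_lit 5) (nat_lit 28) (nat_lit 5) (nat_lit 278) (nat_lit 265) (nat_lit 177)))) (XT.nd (nat_lit 78) (nat_lit 228) (nat_lit 0) (XT.lf (nat_lit 0) (nat_lit 11071178748) (nat_lit 228) (nat_lit 2287739038) (nat_lit 76) (nat_lit 38483805776) (nat_lit 27) (nat_lit 5) (nat_lit 30) (nat_lit 5) (nat_lit 28)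 (nat_lit 5) (nat_lit 279) (nat_lit 265) (nat_lit 176)) (XT.nd (nat_lit 78) (nat_lit 0) (nat_lit 0) (XT.lf (nat_lit 0) (nat_lit 17855135135) (nat_lit 304) (nat_lit 31976748255) (nat_lit 76) (nat_lit 4614861655) (nat_lit 24) (nat_lit 5) (nat_lit 28) (nat_lit 5) (nat_lit 25) (nat_lit 5) (nat_lit 280) (nat_lit 265) (nat_lit 175)) (XT.lf (nat_lit 0) (nat_lit 25589991776) (nat_lit 304) (nat_lit 8268043477) (nat_lit 76) (nat_lit 23368410625) (nat_lit 24) (nat_lit 5) (nat_lit 28) (nat_lit 5) (nat_lit 25) (nat_lit 5) (nat_lit 281) (nat_lit 265) (nat_lit 174))))) (XT.nd (nat_lit 234) (nat_lit 228) (nat_lit 0) (XT.nd (nat_lit 78) (nat_lit 152) (nat_lit 0) (XT.lf (nat_lit 0) (nat_lit 18246601637) (nat_lit 152) (nat_lit 16133110344) (nat_lit 228) (nat_lit 25813936214) (nat_lit 22) (nat_lit 5) (nat_lit 24) (nat_lit 5) (nat_lit 25) (nat_lit 5) (nat_lit 282) (nat_lit 265) (nat_lit 173)) (XT.nd (nat_lit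 78) (nat_lit 152) (nat_lit 0) (XT.lf (nat_lit 0) (nat_lit 44174276588) (nat_lit 228) (nat_lit 16109407874) (nat_lit 76) (nat_lit 3090419467) (nat_lit 22) (nat_lit 5) (nat_lit 25) (nat_lit 5) (nat_lit 23) (nat_lit 5) (nat_lit 283) (nat_lit 265) (nat_lit 172)) (XT.lf (nat_lit 0) (nat_lit 11971704912) (nat_lit 152) (nat_lit 43485205744) (nat_lit 228) (nat_lit 11295734910) (nat_lit 20) (nat_lit 5) (nat_lit 22) (nat_lit 5) (nat_lit 23) (nat_lit 5) (nat_lit 284) (nat_lit 265) (nat_lit 171)))) (XT.nd (nat_lit 156) (nat_lit 0) (nat_lit 0) (XT.nd (nat_lit 78) (nat_lit 228) (nat_lit 0) (XT.lf (nat_lit 0) (nat_lit 43212179964) (nat_lit 152) (nat_lit 24868080989) (nat_lit 228) (nat_lit 2286170207) (nat_lit 20) (nat_lit 5) (nat_lit 22) (nat_lit 5) (nat_lit 23) (nat_lit 5) (nat_lit 285) (nat_lit 265) (nat_lit 170)) (XT.lf (nat_lit 0) (nat_lit 2632040706) (nat_lit 152) (nat_lit 4500788130) (nat_lit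 228) (nat_lit 67117291465) (nat_lit 17) (nat_lit 5) (nat_lit 19) (nat_lit 5) (nat_lit 20) (nat_lit 5) (nat_lit 286) (nat_lit 265) (nat_lit 169))) (XT.nd (nat_lit 78) (nat_lit 0) (nat_lit 0) (XT.lf (nat_lit 0) (nat_lit 18362166546) (nat_lit 228) (nat_lit 42542271153) (nat_lit 76) (nat_lit 17440897081) (nat_lit 17) (nat_lit 5) (nat_lit 20) (nat_lit 5) (nat_lit 18) (nat_lit 5) (nat_lit 287) (nat_lit 265) (nat_lit 168)) (XT.lf (nat_lit 0) (nat_lit 30604741100) (nat_lit 228) (nat_lit 11260304054) (nat_lit 76) (nat_lit 40893936739) (nat_lit 17) (nat_lit 5) (nat_lit 20) (nat_lit 5) (nat_lit 18) (nat_lit 5) (nat_lit 288) (nat_lit 265) (nat_lit 167))))))) (XT.nd (nat_lit 1014) (nat_lit 304) (nat_lit 0) (XT.nd (nat_lit 468) (nat_lit 228) (nat_lit 0) (XT.nd (nat_lit 234) (nat_lit 228) (nat_lit 0) (XT.nd (nat_lit 78) (nat_lit 76) (nat_lit 0) (XT.lf (nat_lit 0) (nat_lit 23707379521) (nat_lit 152)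 (nat_lit 20687640552) (nat_lit 228) (nat_lit 43085242997) (nat_lit 15) (nat_lit 5) (nat_lit 17) (nat_lit 5) (nat_lit 18) (nat_lit 5) (nat_lit 289) (nat_lit 265) (nat_lit 166)) (XT.nd (nat_lit 78) (nat_lit 76) (nat_lit 0) (XT.lf (nat_lit 0) (nat_lit 59655105314) (nat_lit 228) (nat_lit 30505112970) (nat_lit 76) (nat_lit 2389707453) (nat_lit 15) (nat_lit 5) (nat_lit 18) (nat_lit 5) (nat_lit 16) (nat_lit 4) (nat_lit 290) (nat_lit 265) (nat_lit 165)) (XT.lf (nat_lit 0) (nat_lit 5141300101) (nat_lit 76) (nat_lit 71654007607) (nat_lit 152) (nat_lit 21177114173) (nat_lit 14) (nat_lit 5) (nat_lit 15) (nat_lit 5) (nat_lit 16) (nat_lit 4) (nat_lit 291) (nat_lit 265) (nat_lit 164)))) (XT.nd (nat_lit 78) (nat_lit 228) (nat_lit 0) (XT.lf (nat_lit 0) (nat_lit 45371719022) (nat_lit 76) (nat_lit 50767454578) (nat_lit 152) (nat_lit 7622953228) (nat_lit 14) (nat_lit 5) (nat_lit 15) (nat_lit 5) (nat_lit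 16) (nat_lit 4) (nat_lit 292) (nat_lit 265) (nat_lit 163)) (XT.nd (nat_lit 78) (nat_lit 152) (nat_lit 0) (XT.lf (nat_lit 0) (nat_lit 6663054856) (nat_lit 152) (nat_lit 21365616297) (nat_lit 76) (nat_lit 81972966502) (nat_lit 13) (nat_lit 5) (nat_lit 15) (nat_lit 5) (nat_lit 14) (nat_lit 5) (nat_lit 293) (nat_lit 265) (nat_lit 162)) (XT.lf (nat_lit 0) (nat_lit 19390897197) (nat_lit 152) (nat_lit 2754134552) (nat_lit 228) (nat_lit 94542247533) (nat_lit 11) (nat_lit 5) (nat_lit 13) (nat_lit 5) (nat_lit 14) (nat_lit 5) (nat_lit 294) (nat_lit 265) (nat_lit 161))))) (XT.nd (nat_lit 234) (nat_lit 152) (nat_lit 0) (XT.nd (nat_lit 78) (nat_lit 76) (nat_lit 0) (XT.lf (nat_lit 0) (nat_lit 40053764570) (nat_lit 228) (nat_lit 59845752267) (nat_lit 76) (nat_lit 23913203181) (nat_lit 11) (nat_lit 5) (nat_lit 14) (nat_lit 5) (nat_lit 12) (nat_lit 4) (nat_lit 295) (nat_lit 265) (nat_lit 160)) (XT.nd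 (nat_lit 78) (nat_lit 76) (nat_lit 0) (XT.lf (nat_lit 0) (nat_lit 59465441375) (nat_lit 228) (nat_lit 19472746377) (nat_lit 76) (nat_lit 52564391964) (nat_lit 11) (nat_lit 5) (nat_lit 14) (nat_lit 5) (nat_lit 12) (nat_lit 4) (nat_lit 296) (nat_lit 265) (nat_lit 159)) (XT.lf (nat_lit 0) (nat_lit 25398664069) (nat_lit 76) (nat_lit 55641031733) (nat_lit 152) (nat_lit 58719163995) (nat_lit 10) (nat_lit 5) (nat_lit 11) (nat_lit 5) (nat_lit 12) (nat_lit 4) (nat_lit 297) (nat_lit 265) (nat_lit 158)))) (XT.nd (nat_lit 156) (nat_lit 152) (nat_lit 0) (XT.nd (nat_lit 78) (nat_lit 0) (nat_lit 0) (XT.lf (nat_lit 0) (nat_lit 74965289863) (nat_lit 76) (nat_lit 29905867220) (nat_lit 152) (nat_lit 43761986741) (nat_lit 10) (nat_lit 5) (nat_lit 11) (nat_lit 5) (nat_lit 12) (nat_lit 4) (nat_lit 298) (nat_lit 265) (nat_lit 157)) (XT.lf (nat_lit 0) (nat_lit 128495458841) (nat_lit 76) (nat_lit 2112608928)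 (nat_lit 152) (nat_lit 27609390849) (nat_lit 10) (nat_lit 5) (nat_lit 11) (nat_lit 5) (nat_lit 12) (nat_lit 4) (nat_lit 299) (nat_lit 265) (nat_lit 156))) (XT.nd (nat_lit 78) (nat_lit 76) (nat_lit 0) (XT.lf (nat_lit 0) (nat_lit 17965410810) (nat_lit 76) (nat_lit 141540679138) (nat_lit 76) (nat_lit 8974258407) (nat_lit 9) (nat_lit 4) (nat_lit 10) (nat_lit 5) (nat_lit 10) (nat_lit 4) (nat_lit 300) (nat_lit 265) (nat_lit 155)) (XT.lf (nat_lit 0) (nat_lit 11481467434) (nat_lit 152) (nat_lit 108687036598) (nat_lit 76) (nat_lit 59303300657) (nat_lit 8) (nat_lit 5) (nat_lit 10) (nat_lit 5) (nat_lit 9) (nat_lit 4) (nat_lit 301) (nat_lit 265) (nat_lit 154)))))) (XT.nd (nat_lit 468) (nat_lit 228) (nat_lit 0) (XT.nd (nat_lit 234) (nat_lit 0) (nat_lit 0) (XT.nd (nat_lit 78) (nat_lit 76) (nat_lit 0) (XT.lf (nat_lit 0) (nat_lit 33087884479) (nat_lit 152) (nat_lit 63747604081) (nat_lit 76) (nat_lit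 94488517011) (nat_lit 8) (nat_lit 5) (nat_lit 10) (nat_lit 5) (nat_lit 9) (nat_lit 4) (nat_lit 302) (nat_lit 265) (nat_lit 153)) (XT.nd (nat_lit 78) (nat_lit 76) (nat_lit 0) (XT.lf (nat_lit 0) (nat_lit 56421959506) (nat_lit 152) (nat_lit 15214501115) (nat_lit 76) (nat_lit 132487992134) (nat_lit 8) (nat_lit 5) (nat_lit 10) (nat_lit 5) (nat_lit 9) (nat_lit 4) (nat_lit 303) (nat_lit 265) (nat_lit 152)) (XT.lf (nat_lit 0) (nat_lit 39158755412) (nat_lit 76) (nat_lit 43404982111) (nat_lit 152) (nat_lit 135309921698) (nat_lit 7) (nat_lit 5) (nat_lit 8) (nat_lit 5) (nat_lit 9) (nat_lit 4) (nat_lit 304) (nat_lit 265) (nat_lit 151)))) (XT.nd (nat_lit 78) (nat_lit 0) (nat_lit 0) (XT.lf (nat_lit 0) (nat_lit 98745795195) (nat_lit 76) (nat_lit 12466288444) (nat_lit 152) (nat_lit 121477502041) (nat_lit 7) (nat_lit 5) (nat_lit 8) (nat_lit 5) (nat_lit 9) (nat_lit 4) (nat_lit 305) (nat_lit 265) (nat_lit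 150)) (XT.nd (nat_lit 78) (nat_lit 0) (nat_lit 0) (XT.lf (nat_lit 0) (nat_lit 142655363705) (nat_lit 152) (nat_lit 86096061559) (nat_lit 0) (nat_lit 19899117121) (nat_lit 7) (nat_lit 5) (nat_lit 9) (nat_lit 4) (nat_lit 7) (nat_lit 4) (nat_lit 306) (nat_lit 265) (nat_lit 149)) (XT.lf (nat_lit 0) (nat_lit 176937237694) (nat_lit 152) (nat_lit 34745504358) (nat_lit 0) (nat_lit 54179784375) (nat_lit 7) (nat_lit 5) (nat_lit 9) (nat_lit 4) (nat_lit 7) (nat_lit 4) (nat_lit 307) (nat_lit 265) (nat_lit 148))))) (XT.nd (nat_lit 234) (nat_lit 152) (nat_lit 0) (XT.nd (nat_lit 78) (nat_lit 0) (nat_lit 0) (XT.lf (nat_lit 0) (nat_lit 21802652216) (nat_lit 76) (nat_lit 192682745010) (nat_lit 76) (nat_lit 69924174344) (nat_lit 6) (nat_lit 4) (nat_lit 7) (nat_lit 5) (nat_lit 7) (nat_lit 4) (nat_lit 308) (nat_lit 265) (nat_lit 147)) (XT.nd (nat_lit 78) (nat_lit 0) (nat_lit 0) (XT.lf (nat_lit 0) (nat_lit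 84849594672) (nat_lit 76) (nat_lit 171137219817) (nat_lit 76) (nat_lit 48377614571) (nat_lit 6) (nat_lit 4) (nat_lit 7) (nat_lit 5) (nat_lit 7) (nat_lit 4) (nat_lit 309) (nat_lit 265) (nat_lit 146)) (XT.lf (nat_lit 0) (nat_lit 152939297836) (nat_lit 76) (nat_lit 147868492952) (nat_lit 76) (nat_lit 25107929761) (nat_lit 6) (nat_lit 4) (nat_lit 7) (nat_lit 5) (nat_lit 7) (nat_lit 4) (nat_lit 310) (nat_lit 265) (nat_lit 145)))) (XT.nd (nat_lit 156) (nat_lit 76) (nat_lit 0) (XT.nd (nat_lit 78) (nat_lit 0) (nat_lit 0) (XT.lf (nat_lit 0) (nat_lit 21635241) (nat_lit 152) (nat_lit 122716448875) (nat_lit 76) (nat_lit 226453029457) (nat_lit 5) (nat_lit 5) (nat_lit 7) (nat_lit 5) (nat_lit 6) (nat_lit 4) (nat_lit 311) (nat_lit 265) (nat_lit 144)) (XT.lf (nat_lit 0) (nat_lit 25804596619) (nat_lit 152) (nat_lit 69088710492) (nat_lit 76) (nat_lit 279383098519) (nat_lit 5) (nat_lit 5) (nat_lit 7)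 (nat_lit 5) (nat_lit 6) (nat_lit 4) (nat_lit 312) (nat_lit 265) (nat_lit 143))) (XT.nd (nat_lit 78) (nat_lit 76) (nat_lit 0) (XT.lf (nat_lit 0) (nat_lit 53649742628) (nat_lit 152) (nat_lit 11171567242) (nat_lit 76) (nat_lit 336547248136) (nat_lit 5) (nat_lit 5) (nat_lit 7) (nat_lit 5) (nat_lit 6) (nat_lit 4) (nat_lit 313) (nat_lit 265) (nat_lit 142)) (XT.lf (nat_lit 0) (nat_lit 54083678197) (nat_lit 76) (nat_lit 30939117102) (nat_lit 152) (nat_lit 345501264389) (nat_lit 4) (nat_lit 5) (nat_lit 5) (nat_lit 5) (nat_lit 6) (nat_lit 4) (nat_lit 314) (nat_lit 265) (nat_lit 141))))))))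
noncomputable def xc93 : XT := (XT.nd (nat_lit 34008) (nat_lit 0) (nat_lit 608) (XT.nd (nat_lit 1014) (nat_lit 0) (nat_lit 0) (XT.nd (nat_lit 468) (nat_lit 76) (nat_lit 0) (XT.nd (nat_lit 234) (nat_lit 0) (nat_lit 0) (XT.nd (nat_lit 78) (nat_lit 0) (nat_lit 0) (XT.lf (nat_lit 0) (nat_lit 119354633503) (nat_lit 152) (nat_lit 336937549474) (nat_lit 0) (nat_lit 5683903884) (nat_lit 4) (nat_lit 5) (nat_lit 6) (nat_lit 4) (nat_lit 4) (nat_lit 4) (nat_lit 315) (nat_lit 265) (nat_lit 140)) (XT.nd (nat_lit 78) (nat_lit 0) (nat_lit 0) (XT.lf (nat_lit 0) (nat_lit 157236249461) (nat_lit 152) (nat_lit 295078808014) (nat_lit 0) (nat_lit 43564960891) (nat_lit 4) (nat_lit 5) (nat_lit 6) (nat_lit 4) (nat_lit 4) (nat_lit 4) (nat_lit 316) (nat_lit 265) (nat_lit 139)) (XT.lf (nat_lit 0) (nat_lit 198148040314) (nat_lit 152) (nat_lit 249872018800) (nat_lit 0) (nat_lit 84476234196) (nat_lit 4) (nat_lit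 5) (nat_lit 6) (nat_lit 4) (nat_lit 4) (nat_lit 4) (nat_lit 317) (nat_lit 265) (nat_lit 138)))) (XT.nd (nat_lit 78) (nat_lit 0) (nat_lit 0) (XT.lf (nat_lit 0) (nat_lit 242332446303) (nat_lit 152) (nat_lit 201049289748) (nat_lit 0) (nat_lit 128660160974) (nat_lit 4) (nat_lit 5) (nat_lit 6) (nat_lit 4) (nat_lit 4) (nat_lit 4) (nat_lit 318) (nat_lit 265) (nat_lit 137)) (XT.nd (nat_lit 78) (nat_lit 0) (nat_lit 0) (XT.lf (nat_lit 0) (nat_lit 290051300946) (nat_lit 152) (nat_lit 148321300980) (nat_lit 0) (nat_lit 176378571903) (nat_lit 4) (nat_lit 5) (nat_lit 6) (nat_lit 4) (nat_lit 4) (nat_lit 4) (nat_lit 319) (nat_lit 265) (nat_lit 136)) (XT.lf (nat_lit 0) (nat_lit 341587382640) (nat_lit 152) (nat_lit 91375590343) (nat_lit 0) (nat_lit 227914242751) (nat_lit 4) (nat_lit 5) (nat_lit 6) (nat_lit 4) (nat_lit 4) (nat_lit 4) (nat_lit 320) (nat_lit 265) (nat_lit 135))))) (XT.nd (nat_lit 234)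 (nat_lit 0) (nat_lit 0) (XT.nd (nat_lit 78) (nat_lit 76) (nat_lit 0) (XT.lf (nat_lit 0) (nat_lit 397246090389) (nat_lit 152) (nat_lit 29874701773) (nat_lit 0) (nat_lit 283572570087) (nat_lit 4) (nat_lit 5) (nat_lit 6) (nat_lit 4) (nat_lit 4) (nat_lit 4) (nat_lit 321) (nat_lit 265) (nat_lit 134)) (XT.nd (nat_lit 78) (nat_lit 0) (nat_lit 0) (XT.lf (nat_lit 0) (nat_lit 38470252263) (nat_lit 76) (nat_lit 419812211799) (nat_lit 76) (nat_lit 306138339263) (nat_lit 3) (nat_lit 4) (nat_lit 4) (nat_lit 5) (nat_lit 4) (nat_lit 4) (nat_lit 322) (nat_lit 265) (nat_lit 133)) (XT.lf (nat_lit 0) (nat_lit 113981371168) (nat_lit 76) (nat_lit 411036970036) (nat_lit 76) (nat_lit 297362771356) (nat_lit 3) (nat_lit 4) (nat_lit 4) (nat_lit 5) (nat_lit 4) (nat_lit 4) (nat_lit 323) (nat_lit 265) (nat_lit 132)))) (XT.nd (nat_lit 156) (nat_lit 0) (nat_lit 0) (XT.nd (nat_lit 78) (nat_lit 0) (nat_lit 0) (XT.lf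 (nat_lit 0) (nat_lit 195532979386) (nat_lit 76) (nat_lit 401559892728) (nat_lit 76) (nat_lit 287885392064) (nat_lit 3) (nat_lit 4) (nat_lit 4) (nat_lit 5) (nat_lit 4) (nat_lit 4) (nat_lit 324) (nat_lit 265) (nat_lit 131)) (XT.lf (nat_lit 0) (nat_lit 283608345705) (nat_lit 76) (nat_lit 391324819417) (nat_lit 76) (nat_lit 277650039138) (nat_lit 3) (nat_lit 4) (nat_lit 4) (nat_lit 5) (nat_lit 4) (nat_lit 4) (nat_lit 325) (nat_lit 265) (nat_lit 130))) (XT.nd (nat_lit 78) (nat_lit 0) (nat_lit 0) (XT.lf (nat_lit 0) (nat_lit 378729398223) (nat_lit 76) (nat_lit 380271097817) (nat_lit 76) (nat_lit 266596058636) (nat_lit 3) (nat_lit 4) (nat_lit 4) (nat_lit 5) (nat_lit 4) (nat_lit 4) (nat_lit 326) (nat_lit 265) (nat_lit 129)) (XT.lf (nat_lit 0) (nat_lit 481459817250) (nat_lit 76) (nat_lit 368333224394) (nat_lit 76) (nat_lit 254657945487) (nat_lit 3) (nat_lit 4) (nat_lit 4) (nat_lit 5) (nat_lit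 4) (nat_lit 4) (nat_lit 327) (nat_lit 265) (nat_lit 128)))))) (XT.nd (nat_lit 468) (nat_lit 0) (nat_lit 0) (XT.nd (nat_lit 234) (nat_lit 0) (nat_lit 0) (XT.nd (nat_lit 78) (nat_lit 0) (nat_lit 0) (XT.lf (nat_lit 0) (nat_lit 592408375641) (nat_lit 76) (nat_lit 355440456192) (nat_lit 76) (nat_lit 241764955318) (nat_lit 3) (nat_lit 4) (nat_lit 4) (nat_lit 5) (nat_lit 4) (nat_lit 4) (nat_lit 328) (nat_lit 265) (nat_lit 127)) (XT.nd (nat_lit 78) (nat_lit 0) (nat_lit 0) (XT.lf (nat_lit 0) (nat_lit 712232546333) (nat_lit 76) (nat_lit 341516391623) (nat_lit 76) (nat_lit 227840685224) (nat_lit 3) (nat_lit 4) (nat_lit 4) (nat_lit 5) (nat_lit 4) (nat_lit 4) (nat_lit 329) (nat_lit 265) (nat_lit 126)) (XT.lf (nat_lit 0) (nat_lit 841642398487) (nat_lit 76) (nat_lit 326478517712) (nat_lit 76) (nat_lit 212802621012) (nat_lit 3) (nat_lit 4) (nat_lit 4) (nat_lit 5) (nat_lit 4) (nat_lit 4) (nat_lit 330)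 (nat_lit 265) (nat_lit 125)))) (XT.nd (nat_lit 78) (nat_lit 0) (nat_lit 0) (XT.lf (nat_lit 0) (nat_lit 981404805301) (nat_lit 76) (nat_lit 310237721132) (nat_lit 76) (nat_lit 196561648226) (nat_lit 3) (nat_lit 4) (nat_lit 4) (nat_lit 5) (nat_lit 4) (nat_lit 4) (nat_lit 331) (nat_lit 265) (nat_lit 124)) (XT.nd (nat_lit 78) (nat_lit 0) (nat_lit 0) (XT.lf (nat_lit 0) (nat_lit 1132347988443) (nat_lit 76) (nat_lit 292697760125) (nat_lit 76) (nat_lit 179021524067) (nat_lit 3) (nat_lit 4) (nat_lit 4) (nat_lit 5) (nat_lit 4) (nat_lit 4) (nat_lit 332) (nat_lit 265) (nat_lit 123)) (XT.lf (nat_lit 0) (nat_lit 1295366426038) (nat_lit 76) (nat_lit 273754694181) (nat_lit 76) (nat_lit 160078307056) (nat_lit 3) (nat_lit 4) (nat_lit 4) (nat_lit 5) (nat_lit 4) (nat_lit 4) (nat_lit 333) (nat_lit 265) (nat_lit 122))))) (XT.nd (nat_lit 32214) (nat_lit 0) (nat_lit 2508) (XT.nd (nat_lit 78) (nat_lit 0) (nat_lit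 0) (XT.lf (nat_lit 0) (nat_lit 1471426153270) (nat_lit 76) (nat_lit 253296268095) (nat_lit 76) (nat_lit 139619741093) (nat_lit 3) (nat_lit 4) (nat_lit 4) (nat_lit 5) (nat_lit 4) (nat_lit 4) (nat_lit 334) (nat_lit 265) (nat_lit 121)) (XT.nd (nat_lit 78) (nat_lit 0) (nat_lit 0) (XT.lf (nat_lit 0) (nat_lit 1661570487042) (nat_lit 76) (nat_lit 231201246750) (nat_lit 76) (nat_lit 117524590232) (nat_lit 3) (nat_lit 4) (nat_lit 4) (nat_lit 5) (nat_lit 4) (nat_lit 4) (nat_lit 335) (nat_lit 265) (nat_lit 120)) (XT.lf (nat_lit 0) (nat_lit 1866926208590) (nat_lit 76) (nat_lit 207338696685) (nat_lit 76) (nat_lit 93661920245) (nat_lit 3) (nat_lit 4) (nat_lit 4) (nat_lit 5) (nat_lit 4) (nat_lit 4) (nat_lit 336) (nat_lit 265) (nat_lit 119)))) (XT.nd (nat_lit 156) (nat_lit 0) (nat_lit 76) (XT.nd (nat_lit 78) (nat_lit 0) (nat_lit 0) (XT.lf (nat_lit 0) (nat_lit 5311862334) (nat_lit 532) (nat_lit 4942608650)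 (nat_lit 532) (nat_lit 4942608650) (nat_lit 36) (nat_lit 3) (nat_lit 43) (nat_lit 3) (nat_lit 43) (nat_lit 5) (nat_lit 266) (nat_lit 266) (nat_lit 188)) (XT.lf (nat_lit 76) (nat_lit 3273288424) (nat_lit 0) (nat_lit 7917440151) (nat_lit 532) (nat_lit 20407497433) (nat_lit 37) (nat_lit 5) (nat_lit 36) (nat_lit 3) (nat_lit 43) (nat_lit 5) (nat_lit 267) (nat_lit 266) (nat_lit 187))) (XT.nd (nat_lit 78) (nat_lit 0) (nat_lit 0) (XT.lf (nat_lit 0) (nat_lit 12210673882) (nat_lit 456) (nat_lit 14978231928) (nat_lit 532) (nat_lit 5677139328) (nat_lit 37) (nat_lit 5) (nat_lit 43) (nat_lit 5) (nat_lit 44) (nat_lit 5) (nat_lit 268) (nat_lit 266) (nat_lit 186)) (XT.lf (nat_lit 0) (nat_lit 13511977530) (nat_lit 456) (nat_lit 773358221) (nat_lit 532) (nat_lit 19934004086) (nat_lit 37) (nat_lit 5) (nat_lit 43) (nat_lit 5) (nat_lit 44) (nat_lit 5) (nat_lit 269) (nat_lit 266) (nat_lit 185))))))) (XT.nd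 (nat_lit 1014) (nat_lit 988) (nat_lit 0) (XT.nd (nat_lit 468) (nat_lit 684) (nat_lit 0) (XT.nd (nat_lit 234) (nat_lit 380) (nat_lit 0) (XT.nd (nat_lit 78) (nat_lit 0) (nat_lit 0) (XT.lf (nat_lit 0) (nat_lit 15281867926) (nat_lit 456) (nat_lit 20321877195) (nat_lit 532) (nat_lit 48023148) (nat_lit 38) (nat_lit 5) (nat_lit 44) (nat_lit 5) (nat_lit 45) (nat_lit 5) (nat_lit 270) (nat_lit 266) (nat_lit 184)) (XT.nd (nat_lit 78) (nat_lit 0) (nat_lit 0) (XT.lf (nat_lit 0) (nat_lit 17580999134) (nat_lit 456) (nat_lit 4807328053) (nat_lit 532) (nat_lit 14779478448) (nat_lit 38) (nat_lit 5) (nat_lit 44) (nat_lit 5) (nat_lit 45) (nat_lit 5) (nat_lit 271) (nat_lit 266) (nat_lit 183)) (XT.lf (nat_lit 76) (nat_lit 12573653755) (nat_lit 0) (nat_lit 7788088659) (nat_lit 532) (nat_lit 18419593704) (nat_lit 39) (nat_lit 5) (nat_lit 38) (nat_lit 5) (nat_lit 45) (nat_lit 5) (nat_lit 272) (nat_lit 266)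 (nat_lit 182)))) (XT.nd (nat_lit 78) (nat_lit 456) (nat_lit 0) (XT.lf (nat_lit 0) (nat_lit 23687290360) (nat_lit 456) (nat_lit 9094281262) (nat_lit 76) (nat_lit 7716612627) (nat_lit 39) (nat_lit 5) (nat_lit 45) (nat_lit 5) (nat_lit 40) (nat_lit 5) (nat_lit 273) (nat_lit 266) (nat_lit 181)) (XT.nd (nat_lit 78) (nat_lit 0) (nat_lit 0) (XT.lf (nat_lit 0) (nat_lit 9665697832) (nat_lit 456) (nat_lit 18043827990) (nat_lit 532) (nat_lit 14608424052) (nat_lit 33) (nat_lit 5) (nat_lit 39) (nat_lit 5) (nat_lit 40) (nat_lit 5) (nat_lit 274) (nat_lit 266) (nat_lit 180)) (XT.lf (nat_lit 0) (nat_lit 30440045923) (nat_lit 456) (nat_lit 1858260125) (nat_lit 532) (nat_lit 11965428996) (nat_lit 33) (nat_lit 5) (nat_lit 39) (nat_lit 5) (nat_lit 40) (nat_lit 5) (nat_lit 275) (nat_lit 266) (nat_lit 179))))) (XT.nd (nat_lit 234) (nat_lit 228) (nat_lit 0) (XT.nd (nat_lit 78) (nat_lit 228) (nat_lit 0) (XT.lf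 (nat_lit 0) (nat_lit 6454661790) (nat_lit 228) (nat_lit 31326880743) (nat_lit 304) (nat_lit 8541470309) (nat_lit 30) (nat_lit 5) (nat_lit 33) (nat_lit 5) (nat_lit 34) (nat_lit 5) (nat_lit 276) (nat_lit 266) (nat_lit 178)) (XT.nd (nat_lit 78) (nat_lit 228) (nat_lit 0) (XT.lf (nat_lit 0) (nat_lit 29087058860) (nat_lit 228) (nat_lit 15037973852) (nat_lit 304) (nat_lit 4388289346) (nat_lit 30) (nat_lit 5) (nat_lit 33) (nat_lit 5) (nat_lit 34) (nat_lit 5) (nat_lit 277) (nat_lit 266) (nat_lit 177)) (XT.lf (nat_lit 0) (nat_lit 219218775) (nat_lit 228) (nat_lit 48152150684) (nat_lit 76) (nat_lit 2497159443) (nat_lit 27) (nat_lit 5) (nat_lit 30) (nat_lit 5) (nat_lit 28) (nat_lit 5) (nat_lit 278) (nat_lit 266) (nat_lit 176)))) (XT.nd (nat_lit 156) (nat_lit 228) (nat_lit 0) (XT.nd (nat_lit 78) (nat_lit 0) (nat_lit 0) (XT.lf (nat_lit 0) (nat_lit 5890681029) (nat_lit 228) (nat_lit 26156480124)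 (nat_lit 76) (nat_lit 21281291129) (nat_lit 27) (nat_lit 5) (nat_lit 30) (nat_lit 5) (nat_lit 28) (nat_lit 5) (nat_lit 279) (nat_lit 266) (nat_lit 175)) (XT.lf (nat_lit 0) (nat_lit 12012984187) (nat_lit 228) (nat_lit 2404549560) (nat_lit 76) (nat_lit 41567878206) (nat_lit 27) (nat_lit 5) (nat_lit 30) (nat_lit 5) (nat_lit 28) (nat_lit 5) (nat_lit 280) (nat_lit 266) (nat_lit 174))) (XT.nd (nat_lit 78) (nat_lit 0) (nat_lit 0) (XT.lf (nat_lit 0) (nat_lit 19337317878) (nat_lit 304) (nat_lit 34466117525) (nat_lit 76) (nat_lit 4994524709) (nat_lit 24) (nat_lit 5) (nat_lit 28) (nat_lit 5) (nat_lit 25) (nat_lit 5) (nat_lit 281) (nat_lit 266) (nat_lit 173)) (XT.lf (nat_lit 0) (nat_lit 27686979944) (nat_lit 304) (nat_lit 8865810483) (nat_lit 76) (nat_lit 25247581736) (nat_lit 24) (nat_lit 5) (nat_lit 28) (nat_lit 5) (nat_lit 25) (nat_lit 5) (nat_lit 282) (nat_lit 266) (nat_lit 172)))))) (XT.nd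 (nat_lit 468) (nat_lit 456) (nat_lit 0) (XT.nd (nat_lit 234) (nat_lit 228) (nat_lit 0) (XT.nd (nat_lit 78) (nat_lit 152) (nat_lit 0) (XT.lf (nat_lit 0) (nat_lit 19768394177) (nat_lit 152) (nat_lit 17409288178) (nat_lit 228) (nat_lit 27827459223) (nat_lit 22) (nat_lit 5) (nat_lit 24) (nat_lit 5) (nat_lit 25) (nat_lit 5) (nat_lit 283) (nat_lit 266) (nat_lit 171)) (XT.nd (nat_lit 78) (nat_lit 152) (nat_lit 0) (XT.lf (nat_lit 0) (nat_lit 47752608940) (nat_lit 228) (nat_lit 17337313416) (nat_lit 76) (nat_lit 3350381817) (nat_lit 22) (nat_lit 5) (nat_lit 25) (nat_lit 5) (nat_lit 23) (nat_lit 5) (nat_lit 284) (nat_lit 266) (nat_lit 170)) (XT.lf (nat_lit 0) (nat_lit 12988747960) (nat_lit 152) (nat_lit 46947243935) (nat_lit 228) (nat_lit 12153299294) (nat_lit 20) (nat_lit 5) (nat_lit 22) (nat_lit 5) (nat_lit 23) (nat_lit 5) (nat_lit 285) (nat_lit 266) (nat_lit 169)))) (XT.nd (nat_lit 78) (nat_lit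 228) (nat_lit 0) (XT.lf (nat_lit 0) (nat_lit 46724067931) (nat_lit 152) (nat_lit 26841992034) (nat_lit 228) (nat_lit 2426383815) (nat_lit 20) (nat_lit 5) (nat_lit 22) (nat_lit 5) (nat_lit 23) (nat_lit 5) (nat_lit 286) (nat_lit 266) (nat_lit 168)) (XT.nd (nat_lit 78) (nat_lit 0) (nat_lit 0) (XT.lf (nat_lit 0) (nat_lit 2898345127) (nat_lit 152) (nat_lit 4843992242) (nat_lit 228) (nat_lit 72444551987) (nat_lit 17) (nat_lit 5) (nat_lit 19) (nat_lit 5) (nat_lit 20) (nat_lit 5) (nat_lit 287) (nat_lit 266) (nat_lit 167)) (XT.lf (nat_lit 0) (nat_lit 19867517355) (nat_lit 228) (nat_lit 45891415553) (nat_lit 76) (nat_lit 18850998094) (nat_lit 17) (nat_lit 5) (nat_lit 20) (nat_lit 5) (nat_lit 18) (nat_lit 5) (nat_lit 288) (nat_lit 266) (nat_lit 166))))) (XT.nd (nat_lit 234) (nat_lit 304) (nat_lit 0) (XT.nd (nat_lit 78) (nat_lit 152) (nat_lit 0) (XT.lf (nat_lit 0) (nat_lit 33086803245) (nat_lit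 228) (nat_lit 12110908663) (nat_lit 76) (nat_lit 44179182463) (nat_lit 17) (nat_lit 5) (nat_lit 20) (nat_lit 5) (nat_lit 18) (nat_lit 5) (nat_lit 289) (nat_lit 266) (nat_lit 165)) (XT.nd (nat_lit 78) (nat_lit 0) (nat_lit 0) (XT.lf (nat_lit 0) (nat_lit 25652918213) (nat_lit 152) (nat_lit 22326068505) (nat_lit 228) (nat_lit 46497005004) (nat_lit 15) (nat_lit 5) (nat_lit 17) (nat_lit 5) (nat_lit 18) (nat_lit 5) (nat_lit 290) (nat_lit 266) (nat_lit 164)) (XT.lf (nat_lit 0) (nat_lit 64457850654) (nat_lit 228) (nat_lit 32898075808) (nat_lit 76) (nat_lit 2595470835) (nat_lit 15) (nat_lit 5) (nat_lit 18) (nat_lit 5) (nat_lit 16) (nat_lit 4) (nat_lit 291) (nat_lit 266) (nat_lit 163)))) (XT.nd (nat_lit 156) (nat_lit 228) (nat_lit 0) (XT.nd (nat_lit 78) (nat_lit 0) (nat_lit 0) (XT.lf (nat_lit 0) (nat_lit 5598849139) (nat_lit 76) (nat_lit 77369285114) (nat_lit 152) (nat_lit 22839656754) (nat_lit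 14) (nat_lit 5) (nat_lit 15) (nat_lit 5) (nat_lit 16) (nat_lit 4) (nat_lit 292) (nat_lit 266) (nat_lit 162)) (XT.lf (nat_lit 0) (nat_lit 49044276017) (nat_lit 76) (nat_lit 54813070295) (nat_lit 152) (nat_lit 8203505640) (nat_lit 14) (nat_lit 5) (nat_lit 15) (nat_lit 5) (nat_lit 16) (nat_lit 4) (nat_lit 293) (nat_lit 266) (nat_lit 161))) (XT.nd (nat_lit 78) (nat_lit 152) (nat_lit 0) (XT.lf (nat_lit 0) (nat_lit 7221857531) (nat_lit 152) (nat_lit 23033791325) (nat_lit 76) (nat_lit 88543988918) (nat_lit 13) (nat_lit 5) (nat_lit 15) (nat_lit 5) (nat_lit 14) (nat_lit 5) (nat_lit 294) (nat_lit 266) (nat_lit 160)) (XT.lf (nat_lit 0) (nat_lit 20982203393) (nat_lit 152) (nat_lit 2959243990) (nat_lit 228) (nat_lit 102078764166) (nat_lit 11) (nat_lit 5) (nat_lit 13) (nat_lit 5) (nat_lit 14) (nat_lit 5) (nat_lit 295) (nat_lit 266) (nat_lit 159))))))))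
noncomputable def xc94 : XT := (XT.nd (nat_lit 1950) (nat_lit 76) (nat_lit 0) (XT.nd (nat_lit 936) (nat_lit 228) (nat_lit 0) (XT.nd (nat_lit 468) (nat_lit 152) (nat_lit 0) (XT.nd (nat_lit 234) (nat_lit 76) (nat_lit 0) (XT.nd (nat_lit 78) (nat_lit 76) (nat_lit 0) (XT.lf (nat_lit 0) (nat_lit 43281379779) (nat_lit 228) (nat_lit 64594784279) (nat_lit 76) (nat_lit 25839648226) (nat_lit 11) (nat_lit 5) (nat_lit 14) (nat_lit 5) (nat_lit 12) (nat_lit 4) (nat_lit 296) (nat_lit 266) (nat_lit 158)) (XT.nd (nat_lit 78) (nat_lit 76) (nat_lit 0) (XT.lf (nat_lit 0) (nat_lit 64244263762) (nat_lit 228) (nat_lit 20994799264) (nat_lit 76) (nat_lit 56781940349) (nat_lit 11) (nat_lit 5) (nat_lit 14) (nat_lit 5) (nat_lit 12) (nat_lit 4) (nat_lit 297) (nat_lit 266) (nat_lit 157)) (XT.lf (nat_lit 0) (nat_lit 27465418529) (nat_lit 76) (nat_lit 60078279388) (nat_lit 152) (nat_lit 63394152927) (nat_lit 10) (nat_lit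 5) (nat_lit 11) (nat_lit 5) (nat_lit 12) (nat_lit 4) (nat_lit 298) (nat_lit 266) (nat_lit 156)))) (XT.nd (nat_lit 78) (nat_lit 76) (nat_lit 0) (XT.lf (nat_lit 0) (nat_lit 80994792065) (nat_lit 76) (nat_lit 32285341335) (nat_lit 152) (nat_lit 47242071432) (nat_lit 10) (nat_lit 5) (nat_lit 11) (nat_lit 5) (nat_lit 12) (nat_lit 4) (nat_lit 299) (nat_lit 266) (nat_lit 155)) (XT.nd (nat_lit 78) (nat_lit 76) (nat_lit 0) (XT.lf (nat_lit 0) (nat_lit 138804983524) (nat_lit 76) (nat_lit 2269584992) (nat_lit 152) (nat_lit 29798814109) (nat_lit 10) (nat_lit 5) (nat_lit 11) (nat_lit 5) (nat_lit 12) (nat_lit 4) (nat_lit 300) (nat_lit 266) (nat_lit 154)) (XT.lf (nat_lit 0) (nat_lit 19432928332) (nat_lit 76) (nat_lit 152851177816) (nat_lit 76) (nat_lit 9673226776) (nat_lit 9) (nat_lit 4) (nat_lit 10) (nat_lit 5) (nat_lit 10) (nat_lit 4) (nat_lit 301) (nat_lit 266) (nat_lit 153))))) (XT.nd (nat_lit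 234) (nat_lit 76) (nat_lit 0) (XT.nd (nat_lit 78) (nat_lit 0) (nat_lit 0) (XT.lf (nat_lit 0) (nat_lit 12416673006) (nat_lit 152) (nat_lit 117353044274) (nat_lit 76) (nat_lit 64058461598) (nat_lit 8) (nat_lit 5) (nat_lit 10) (nat_lit 5) (nat_lit 9) (nat_lit 4) (nat_lit 302) (nat_lit 266) (nat_lit 152)) (XT.nd (nat_lit 78) (nat_lit 0) (nat_lit 0) (XT.lf (nat_lit 0) (nat_lit 35750367254) (nat_lit 152) (nat_lit 68820601988) (nat_lit 76) (nat_lit 102057688083) (nat_lit 8) (nat_lit 5) (nat_lit 10) (nat_lit 5) (nat_lit 9) (nat_lit 4) (nat_lit 303) (nat_lit 266) (nat_lit 151)) (XT.lf (nat_lit 0) (nat_lit 60950023689) (nat_lit 152) (nat_lit 16406836742) (nat_lit 76) (nat_lit 143096373830) (nat_lit 8) (nat_lit 5) (nat_lit 10) (nat_lit 5) (nat_lit 9) (nat_lit 4) (nat_lit 304) (nat_lit 266) (nat_lit 150)))) (XT.nd (nat_lit 78) (nat_lit 0) (nat_lit 0) (XT.lf (nat_lit 0) (nat_lit 42315651839) (nat_lit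 76) (nat_lit 46867014213) (nat_lit 152) (nat_lit 146119751655) (nat_lit 7) (nat_lit 5) (nat_lit 8) (nat_lit 5) (nat_lit 9) (nat_lit 4) (nat_lit 305) (nat_lit 266) (nat_lit 149)) (XT.nd (nat_lit 78) (nat_lit 0) (nat_lit 0) (XT.lf (nat_lit 0) (nat_lit 106667862510) (nat_lit 76) (nat_lit 13453992939) (nat_lit 152) (nat_lit 131181846853) (nat_lit 7) (nat_lit 5) (nat_lit 8) (nat_lit 5) (nat_lit 9) (nat_lit 4) (nat_lit 306) (nat_lit 266) (nat_lit 148)) (XT.lf (nat_lit 0) (nat_lit 154079863139) (nat_lit 152) (nat_lit 92962243626) (nat_lit 0) (nat_lit 21499489472) (nat_lit 7) (nat_lit 5) (nat_lit 9) (nat_lit 4) (nat_lit 7) (nat_lit 4) (nat_lit 307) (nat_lit 266) (nat_lit 147)))))) (XT.nd (nat_lit 468) (nat_lit 76) (nat_lit 0) (XT.nd (nat_lit 234) (nat_lit 76) (nat_lit 0) (XT.nd (nat_lit 78) (nat_lit 76) (nat_lit 0) (XT.lf (nat_lit 0) (nat_lit 191103392948) (nat_lit 152) (nat_lit 37505234654)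 (nat_lit 0) (nat_lit 58521984701) (nat_lit 7) (nat_lit 5) (nat_lit 9) (nat_lit 4) (nat_lit 7) (nat_lit 4) (nat_lit 308) (nat_lit 266) (nat_lit 146)) (XT.nd (nat_lit 78) (nat_lit 0) (nat_lit 0) (XT.lf (nat_lit 0) (nat_lit 23566270394) (nat_lit 76) (nat_lit 208088773694) (nat_lit 76) (nat_lit 75506407502) (nat_lit 6) (nat_lit 4) (nat_lit 7) (nat_lit 5) (nat_lit 7) (nat_lit 4) (nat_lit 309) (nat_lit 266) (nat_lit 145)) (XT.lf (nat_lit 0) (nat_lit 91655530765) (nat_lit 76) (nat_lit 184820242850) (nat_lit 76) (nat_lit 52236989672) (nat_lit 6) (nat_lit 4) (nat_lit 7) (nat_lit 5) (nat_lit 7) (nat_lit 4) (nat_lit 310) (nat_lit 266) (nat_lit 144)))) (XT.nd (nat_lit 78) (nat_lit 76) (nat_lit 0) (XT.lf (nat_lit 0) (nat_lit 165191079181) (nat_lit 76) (nat_lit 159690607062) (nat_lit 76) (nat_lit 27106532600) (nat_lit 6) (nat_lit 4) (nat_lit 7) (nat_lit 5) (nat_lit 7) (nat_lit 4) (nat_lit 311) (nat_lit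 266) (nat_lit 143)) (XT.nd (nat_lit 78) (nat_lit 0) (nat_lit 0) (XT.lf (nat_lit 0) (nat_lit 32189878) (nat_lit 152) (nat_lit 132517879962) (nat_lit 76) (nat_lit 244575611847) (nat_lit 5) (nat_lit 5) (nat_lit 7) (nat_lit 5) (nat_lit 6) (nat_lit 4) (nat_lit 312) (nat_lit 266) (nat_lit 142)) (XT.lf (nat_lit 0) (nat_lit 27877134550) (nat_lit 152) (nat_lit 74601099161) (nat_lit 76) (nat_lit 301739616801) (nat_lit 5) (nat_lit 5) (nat_lit 7) (nat_lit 5) (nat_lit 6) (nat_lit 4) (nat_lit 313) (nat_lit 266) (nat_lit 141))))) (XT.nd (nat_lit 234) (nat_lit 0) (nat_lit 0) (XT.nd (nat_lit 78) (nat_lit 76) (nat_lit 0) (XT.lf (nat_lit 0) (nat_lit 57949287039) (nat_lit 152) (nat_lit 12051673945) (nat_lit 76) (nat_lit 363476463543) (nat_lit 5) (nat_lit 5) (nat_lit 7) (nat_lit 5) (nat_lit 6) (nat_lit 4) (nat_lit 314) (nat_lit 266) (nat_lit 140)) (XT.nd (nat_lit 78) (nat_lit 0) (nat_lit 0) (XT.lf (nat_lit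 0) (nat_lit 58423646352) (nat_lit 76) (nat_lit 33408296440) (nat_lit 152) (nat_lit 373133443801) (nat_lit 4) (nat_lit 5) (nat_lit 5) (nat_lit 5) (nat_lit 6) (nat_lit 4) (nat_lit 315) (nat_lit 266) (nat_lit 139)) (XT.lf (nat_lit 0) (nat_lit 128909918042) (nat_lit 152) (nat_lit 363879841699) (nat_lit 0) (nat_lit 6143849886) (nat_lit 4) (nat_lit 5) (nat_lit 6) (nat_lit 4) (nat_lit 4) (nat_lit 4) (nat_lit 316) (nat_lit 266) (nat_lit 138)))) (XT.nd (nat_lit 156) (nat_lit 0) (nat_lit 0) (XT.nd (nat_lit 78) (nat_lit 0) (nat_lit 0) (XT.lf (nat_lit 0) (nat_lit 169821551139) (nat_lit 152) (nat_lit 318673342532) (nat_lit 0) (nat_lit 47055003772) (nat_lit 4) (nat_lit 5) (nat_lit 6) (nat_lit 4) (nat_lit 4) (nat_lit 4) (nat_lit 317) (nat_lit 266) (nat_lit 137)) (XT.lf (nat_lit 0) (nat_lit 214005811058) (nat_lit 152) (nat_lit 269850882042) (nat_lit 0) (nat_lit 91238819978) (nat_lit 4) (nat_lit 5)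 (nat_lit 6) (nat_lit 4) (nat_lit 4) (nat_lit 4) (nat_lit 318) (nat_lit 266) (nat_lit 136))) (XT.nd (nat_lit 78) (nat_lit 0) (nat_lit 0) (XT.lf (nat_lit 0) (nat_lit 261724530451) (nat_lit 152) (nat_lit 217123141944) (nat_lit 0) (nat_lit 138957128524) (nat_lit 4) (nat_lit 5) (nat_lit 6) (nat_lit 4) (nat_lit 4) (nat_lit 4) (nat_lit 319) (nat_lit 266) (nat_lit 135)) (XT.lf (nat_lit 0) (nat_lit 313260486914) (nat_lit 152) (nat_lit 160177661556) (nat_lit 0) (nat_lit 190492704574) (nat_lit 4) (nat_lit 5) (nat_lit 6) (nat_lit 4) (nat_lit 4) (nat_lit 4) (nat_lit 320) (nat_lit 266) (nat_lit 134))))))) (XT.nd (nat_lit 1014) (nat_lit 0) (nat_lit 0) (XT.nd (nat_lit 468) (nat_lit 0) (nat_lit 0) (XT.nd (nat_lit 234) (nat_lit 0) (nat_lit 0) (XT.nd (nat_lit 78) (nat_lit 76) (nat_lit 0) (XT.lf (nat_lit 0) (nat_lit 368919078707) (nat_lit 152) (nat_lit 98676986179) (nat_lit 0) (nat_lit 246150944133) (nat_lit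 4) (nat_lit 5) (nat_lit 6) (nat_lit 4) (nat_lit 4) (nat_lit 4) (nat_lit 321) (nat_lit 266) (nat_lit 133)) (XT.nd (nat_lit 78) (nat_lit 76) (nat_lit 0) (XT.lf (nat_lit 0) (nat_lit 429030134524) (nat_lit 152) (nat_lit 32256667367) (nat_lit 0) (nat_lit 306261673807) (nat_lit 4) (nat_lit 5) (nat_lit 6) (nat_lit 4) (nat_lit 4) (nat_lit 4) (nat_lit 322) (nat_lit 266) (nat_lit 132)) (XT.lf (nat_lit 0) (nat_lit 41555680194) (nat_lit 76) (nat_lit 453393602940) (nat_lit 76) (nat_lit 330624840239) (nat_lit 3) (nat_lit 4) (nat_lit 4) (nat_lit 5) (nat_lit 4) (nat_lit 4) (nat_lit 323) (nat_lit 266) (nat_lit 131)))) (XT.nd (nat_lit 78) (nat_lit 0) (nat_lit 0) (XT.lf (nat_lit 0) (nat_lit 123107110259) (nat_lit 76) (nat_lit 443916607451) (nat_lit 76) (nat_lit 321147565134) (nat_lit 3) (nat_lit 4) (nat_lit 4) (nat_lit 5) (nat_lit 4) (nat_lit 4) (nat_lit 324) (nat_lit 266) (nat_lit 130)) (XT.nd (nat_lit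 78) (nat_lit 0) (nat_lit 0) (XT.lf (nat_lit 0) (nat_lit 211182311623) (nat_lit 76) (nat_lit 433681609898) (nat_lit 76) (nat_lit 310912308679) (nat_lit 3) (nat_lit 4) (nat_lit 4) (nat_lit 5) (nat_lit 4) (nat_lit 4) (nat_lit 325) (nat_lit 266) (nat_lit 129)) (XT.lf (nat_lit 0) (nat_lit 306303211405) (nat_lit 76) (nat_lit 422627958444) (nat_lit 76) (nat_lit 299858417500) (nat_lit 3) (nat_lit 4) (nat_lit 4) (nat_lit 5) (nat_lit 4) (nat_lit 4) (nat_lit 326) (nat_lit 266) (nat_lit 128))))) (XT.nd (nat_lit 234) (nat_lit 0) (nat_lit 0) (XT.nd (nat_lit 78) (nat_lit 0) (nat_lit 0) (XT.lf (nat_lit 0) (nat_lit 409033489009) (nat_lit 76) (nat_lit 410690149971) (nat_lit 76) (nat_lit 287920387059) (nat_lit 3) (nat_lit 4) (nat_lit 4) (nat_lit 5) (nat_lit 4) (nat_lit 4) (nat_lit 327) (nat_lit 266) (nat_lit 127)) (XT.nd (nat_lit 78) (nat_lit 0) (nat_lit 0) (XT.lf (nat_lit 0) (nat_lit 519981916453) (nat_lit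 76) (nat_lit 397797441908) (nat_lit 76) (nat_lit 275027473471) (nat_lit 3) (nat_lit 4) (nat_lit 4) (nat_lit 5) (nat_lit 4) (nat_lit 4) (nat_lit 328) (nat_lit 266) (nat_lit 126)) (XT.lf (nat_lit 0) (nat_lit 639805965899) (nat_lit 76) (nat_lit 383873433023) (nat_lit 76) (nat_lit 261103274286) (nat_lit 3) (nat_lit 4) (nat_lit 4) (nat_lit 5) (nat_lit 4) (nat_lit 4) (nat_lit 329) (nat_lit 266) (nat_lit 125)))) (XT.nd (nat_lit 156) (nat_lit 0) (nat_lit 0) (XT.nd (nat_lit 78) (nat_lit 0) (nat_lit 0) (XT.lf (nat_lit 0) (nat_lit 769215705787) (nat_lit 76) (nat_lit 368835610672) (nat_lit 76) (nat_lit 246065275729) (nat_lit 3) (nat_lit 4) (nat_lit 4) (nat_lit 5) (nat_lit 4) (nat_lit 4) (nat_lit 330) (nat_lit 266) (nat_lit 124)) (XT.lf (nat_lit 0) (nat_lit 908978008650) (nat_lit 76) (nat_lit 352594861832) (nat_lit 76) (nat_lit 229824363736) (nat_lit 3) (nat_lit 4) (nat_lit 4) (nat_lit 5) (nat_lit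 4) (nat_lit 4) (nat_lit 331) (nat_lit 266) (nat_lit 123))) (XT.nd (nat_lit 78) (nat_lit 0) (nat_lit 0) (XT.lf (nat_lit 0) (nat_lit 1059921095543) (nat_lit 76) (nat_lit 335054945028) (nat_lit 76) (nat_lit 212284295866) (nat_lit 3) (nat_lit 4) (nat_lit 4) (nat_lit 5) (nat_lit 4) (nat_lit 4) (nat_lit 332) (nat_lit 266) (nat_lit 122)) (XT.lf (nat_lit 0) (nat_lit 1222939444018) (nat_lit 76) (nat_lit 316111920014) (nat_lit 76) (nat_lit 193341130974) (nat_lit 3) (nat_lit 4) (nat_lit 4) (nat_lit 5) (nat_lit 4) (nat_lit 4) (nat_lit 333) (nat_lit 266) (nat_lit 121)))))) (XT.nd (nat_lit 32526) (nat_lit 0) (nat_lit 2280) (XT.nd (nat_lit 32292) (nat_lit 0) (nat_lit 2508) (XT.nd (nat_lit 78) (nat_lit 0) (nat_lit 0) (XT.lf (nat_lit 0) (nat_lit 1398999088731) (nat_lit 76) (nat_lit 295653531826) (nat_lit 76) (nat_lit 172882613271) (nat_lit 3) (nat_lit 4) (nat_lit 4) (nat_lit 5) (nat_lit 4) (nat_lit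 4) (nat_lit 334) (nat_lit 266) (nat_lit 120)) (XT.nd (nat_lit 78) (nat_lit 0) (nat_lit 0) (XT.lf (nat_lit 0) (nat_lit 1589143346096) (nat_lit 76) (nat_lit 273558545571) (nat_lit 76) (nat_lit 150787507094) (nat_lit 3) (nat_lit 4) (nat_lit 4) (nat_lit 5) (nat_lit 4) (nat_lit 4) (nat_lit 335) (nat_lit 266) (nat_lit 119)) (XT.lf (nat_lit 0) (nat_lit 1794498996898) (nat_lit 76) (nat_lit 249696027998) (nat_lit 76) (nat_lit 126924878481) (nat_lit 3) (nat_lit 4) (nat_lit 4) (nat_lit 5) (nat_lit 4) (nat_lit 4) (nat_lit 336) (nat_lit 266) (nat_lit 118)))) (XT.nd (nat_lit 78) (nat_lit 0) (nat_lit 0) (XT.lf (nat_lit 0) (nat_lit 5798620433) (nat_lit 532) (nat_lit 5304476833) (nat_lit 532) (nat_lit 5304476833) (nat_lit 36) (nat_lit 3) (nat_lit 43) (nat_lit 3) (nat_lit 43) (nat_lit 5) (nat_lit 267) (nat_lit 267) (nat_lit 186)) (XT.nd (nat_lit 78) (nat_lit 0) (nat_lit 76) (XT.lf (nat_lit 76) (nat_lit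 3600534263) (nat_lit 0) (nat_lit 8601486375) (nat_lit 532) (nat_lit 21914174866) (nat_lit 37) (nat_lit 5) (nat_lit 36) (nat_lit 3) (nat_lit 43) (nat_lit 5) (nat_lit 268) (nat_lit 267) (nat_lit 185)) (XT.lf (nat_lit 0) (nat_lit 13293838550) (nat_lit 456) (nat_lit 16105666863) (nat_lit 532) (nat_lit 6086757472) (nat_lit 37) (nat_lit 5) (nat_lit 43) (nat_lit 5) (nat_lit 44) (nat_lit 5) (nat_lit 269) (nat_lit 267) (nat_lit 184))))) (XT.nd (nat_lit 234) (nat_lit 304) (nat_lit 0) (XT.nd (nat_lit 78) (nat_lit 0) (nat_lit 76) (XT.lf (nat_lit 0) (nat_lit 14691371619) (nat_lit 456) (nat_lit 769649454) (nat_lit 532) (nat_lit 21487471633) (nat_lit 37) (nat_lit 5) (nat_lit 43) (nat_lit 5) (nat_lit 44) (nat_lit 5) (nat_lit 270) (nat_lit 267) (nat_lit 183)) (XT.nd (nat_lit 78) (nat_lit 0) (nat_lit 0) (XT.lf (nat_lit 0) (nat_lit 16596407129) (nat_lit 456) (nat_lit 21875122857) (nat_lit 532) (nat_lit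 24539594) (nat_lit 38) (nat_lit 5) (nat_lit 44) (nat_lit 5) (nat_lit 45) (nat_lit 5) (nat_lit 271) (nat_lit 267) (nat_lit 182)) (XT.lf (nat_lit 0) (nat_lit 19072654776) (nat_lit 456) (nat_lit 5124780489) (nat_lit 532) (nat_lit 15936535422) (nat_lit 38) (nat_lit 5) (nat_lit 44) (nat_lit 5) (nat_lit 45) (nat_lit 5) (nat_lit 272) (nat_lit 267) (nat_lit 181)))) (XT.nd (nat_lit 156) (nat_lit 380) (nat_lit 0) (XT.nd (nat_lit 78) (nat_lit 0) (nat_lit 76) (XT.lf (nat_lit 76) (nat_lit 13644980274) (nat_lit 0) (nat_lit 8426141627) (nat_lit 532) (nat_lit 19805873545) (nat_lit 39) (nat_lit 5) (nat_lit 38) (nat_lit 5) (nat_lit 45) (nat_lit 5) (nat_lit 273) (nat_lit 267) (nat_lit 180)) (XT.lf (nat_lit 0) (nat_lit 25656420999) (nat_lit 456) (nat_lit 9754562030) (nat_lit 76) (nat_lit 8320742359) (nat_lit 39) (nat_lit 5) (nat_lit 45) (nat_lit 5) (nat_lit 40) (nat_lit 5) (nat_lit 274) (nat_lit 267)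 (nat_lit 179))) (XT.nd (nat_lit 78) (nat_lit 0) (nat_lit 0) (XT.lf (nat_lit 0) (nat_lit 10504512563) (nat_lit 456) (nat_lit 19492007026) (nat_lit 532) (nat_lit 15700894211) (nat_lit 33) (nat_lit 5) (nat_lit 39) (nat_lit 5) (nat_lit 40) (nat_lit 5) (nat_lit 275) (nat_lit 267) (nat_lit 178)) (XT.lf (nat_lit 0) (nat_lit 32935952286) (nat_lit 456) (nat_lit 2011247599) (nat_lit 532) (nat_lit 12852104274) (nat_lit 33) (nat_lit 5) (nat_lit 39) (nat_lit 5) (nat_lit 40) (nat_lit 5) (nat_lit 276) (nat_lit 267) (nat_lit 177))))))))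
noncomputable def xc95 : XT := (XT.nd (nat_lit 2028) (nat_lit 456) (nat_lit 0) (XT.nd (nat_lit 1014) (nat_lit 608) (nat_lit 0) (XT.nd (nat_lit 468) (nat_lit 532) (nat_lit 0) (XT.nd (nat_lit 234) (nat_lit 228) (nat_lit 0) (XT.nd (nat_lit 78) (nat_lit 228) (nat_lit 0) (XT.lf (nat_lit 0) (nat_lit 7035691764) (nat_lit 228) (nat_lit 33830045190) (nat_lit 304) (nat_lit 9157880140) (nat_lit 30) (nat_lit 5) (nat_lit 33) (nat_lit 5) (nat_lit 34) (nat_lit 5) (nat_lit 277) (nat_lit 267) (nat_lit 176)) (XT.nd (nat_lit 78) (nat_lit 228) (nat_lit 0) (XT.lf (nat_lit 0) (nat_lit 31473891190) (nat_lit 228) (nat_lit 16238246935) (nat_lit 304) (nat_lit 4677400834) (nat_lit 30) (nat_lit 5) (nat_lit 33) (nat_lit 5) (nat_lit 34) (nat_lit 5) (nat_lit 278) (nat_lit 267) (nat_lit 175)) (XT.lf (nat_lit 0) (nat_lit 292867416) (nat_lit 228) (nat_lit 51938114137) (nat_lit 76) (nat_lit 2702300166) (nat_lit 27)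 (nat_lit 5) (nat_lit 30) (nat_lit 5) (nat_lit 28) (nat_lit 5) (nat_lit 279) (nat_lit 267) (nat_lit 174)))) (XT.nd (nat_lit 78) (nat_lit 228) (nat_lit 0) (XT.lf (nat_lit 0) (nat_lit 6413890269) (nat_lit 228) (nat_lit 28187694274) (nat_lit 76) (nat_lit 22988764760) (nat_lit 27) (nat_lit 5) (nat_lit 30) (nat_lit 5) (nat_lit 28) (nat_lit 5) (nat_lit 280) (nat_lit 267) (nat_lit 173)) (XT.nd (nat_lit 78) (nat_lit 228) (nat_lit 0) (XT.lf (nat_lit 0) (nat_lit 13022129179) (nat_lit 228) (nat_lit 2540150320) (nat_lit 76) (nat_lit 44897910629) (nat_lit 27) (nat_lit 5) (nat_lit 30) (nat_lit 5) (nat_lit 28) (nat_lit 5) (nat_lit 281) (nat_lit 267) (nat_lit 172)) (XT.lf (nat_lit 0) (nat_lit 20930404072) (nat_lit 304) (nat_lit 37164447231) (nat_lit 76) (nat_lit 5403066556) (nat_lit 24) (nat_lit 5) (nat_lit 28) (nat_lit 5) (nat_lit 25) (nat_lit 5) (nat_lit 282) (nat_lit 267) (nat_lit 171))))) (XT.nd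 (nat_lit 234) (nat_lit 380) (nat_lit 0) (XT.nd (nat_lit 78) (nat_lit 152) (nat_lit 0) (XT.lf (nat_lit 0) (nat_lit 29944624233) (nat_lit 304) (nat_lit 9520483010) (nat_lit 76) (nat_lit 27275702970) (nat_lit 24) (nat_lit 5) (nat_lit 28) (nat_lit 5) (nat_lit 25) (nat_lit 5) (nat_lit 283) (nat_lit 267) (nat_lit 170)) (XT.nd (nat_lit 78) (nat_lit 0) (nat_lit 0) (XT.lf (nat_lit 0) (nat_lit 21403075939) (nat_lit 152) (nat_lit 18789624687) (nat_lit 228) (nat_lit 30009424233) (nat_lit 22) (nat_lit 5) (nat_lit 24) (nat_lit 5) (nat_lit 25) (nat_lit 5) (nat_lit 284) (nat_lit 267) (nat_lit 169)) (XT.lf (nat_lit 0) (nat_lit 51610875118) (nat_lit 228) (nat_lit 18672131919) (nat_lit 76) (nat_lit 3629325251) (nat_lit 22) (nat_lit 5) (nat_lit 25) (nat_lit 5) (nat_lit 23) (nat_lit 5) (nat_lit 285) (nat_lit 267) (nat_lit 168)))) (XT.nd (nat_lit 156) (nat_lit 228) (nat_lit 0) (XT.nd (nat_lit 78) (nat_lit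 0) (nat_lit 0) (XT.lf (nat_lit 0) (nat_lit 14078693695) (nat_lit 152) (nat_lit 50688638789) (nat_lit 228) (nat_lit 13086044711) (nat_lit 20) (nat_lit 5) (nat_lit 22) (nat_lit 5) (nat_lit 23) (nat_lit 5) (nat_lit 286) (nat_lit 267) (nat_lit 167)) (XT.lf (nat_lit 0) (nat_lit 50509072901) (nat_lit 152) (nat_lit 28976032266) (nat_lit 228) (nat_lit 2583903292) (nat_lit 20) (nat_lit 5) (nat_lit 22) (nat_lit 5) (nat_lit 23) (nat_lit 5) (nat_lit 287) (nat_lit 267) (nat_lit 166))) (XT.nd (nat_lit 78) (nat_lit 0) (nat_lit 0) (XT.lf (nat_lit 0) (nat_lit 3178001802) (nat_lit 152) (nat_lit 5217057798) (nat_lit 228) (nat_lit 78204002638) (nat_lit 17) (nat_lit 5) (nat_lit 19) (nat_lit 5) (nat_lit 20) (nat_lit 5) (nat_lit 288) (nat_lit 267) (nat_lit 165)) (XT.lf (nat_lit 0) (nat_lit 21488106573) (nat_lit 228) (nat_lit 49516229060) (nat_lit 76) (nat_lit 20371791630) (nat_lit 17) (nat_lit 5) (nat_lit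 20) (nat_lit 5) (nat_lit 18) (nat_lit 5) (nat_lit 289) (nat_lit 267) (nat_lit 164)))))) (XT.nd (nat_lit 468) (nat_lit 304) (nat_lit 0) (XT.nd (nat_lit 234) (nat_lit 152) (nat_lit 0) (XT.nd (nat_lit 78) (nat_lit 152) (nat_lit 0) (XT.lf (nat_lit 0) (nat_lit 35762625125) (nat_lit 228) (nat_lit 13036726045) (nat_lit 76) (nat_lit 47725288994) (nat_lit 17) (nat_lit 5) (nat_lit 20) (nat_lit 5) (nat_lit 18) (nat_lit 5) (nat_lit 290) (nat_lit 267) (nat_lit 163)) (XT.nd (nat_lit 78) (nat_lit 0) (nat_lit 0) (XT.lf (nat_lit 0) (nat_lit 27747116974) (nat_lit 152) (nat_lit 24097936486) (nat_lit 228) (nat_lit 50186709306) (nat_lit 15) (nat_lit 5) (nat_lit 17) (nat_lit 5) (nat_lit 18) (nat_lit 5) (nat_lit 291) (nat_lit 267) (nat_lit 162)) (XT.lf (nat_lit 0) (nat_lit 69640487720) (nat_lit 228) (nat_lit 35489244404) (nat_lit 76) (nat_lit 2815614319) (nat_lit 15) (nat_lit 5) (nat_lit 18) (nat_lit 5)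 (nat_lit 16) (nat_lit 4) (nat_lit 292) (nat_lit 267) (nat_lit 161)))) (XT.nd (nat_lit 78) (nat_lit 76) (nat_lit 0) (XT.lf (nat_lit 0) (nat_lit 6086404730) (nat_lit 76) (nat_lit 83544216211) (nat_lit 152) (nat_lit 24639714622) (nat_lit 14) (nat_lit 5) (nat_lit 15) (nat_lit 5) (nat_lit 16) (nat_lit 4) (nat_lit 293) (nat_lit 267) (nat_lit 160)) (XT.nd (nat_lit 78) (nat_lit 76) (nat_lit 0) (XT.lf (nat_lit 0) (nat_lit 53004528894) (nat_lit 76) (nat_lit 59184586556) (nat_lit 152) (nat_lit 8834679914) (nat_lit 14) (nat_lit 5) (nat_lit 15) (nat_lit 5) (nat_lit 16) (nat_lit 4) (nat_lit 294) (nat_lit 267) (nat_lit 159)) (XT.lf (nat_lit 0) (nat_lit 7821689713) (nat_lit 152) (nat_lit 24841280060) (nat_lit 76) (nat_lit 95638812126) (nat_lit 13) (nat_lit 5) (nat_lit 15) (nat_lit 5) (nat_lit 14) (nat_lit 5) (nat_lit 295) (nat_lit 267) (nat_lit 158))))) (XT.nd (nat_lit 234) (nat_lit 152) (nat_lit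 0) (XT.nd (nat_lit 78) (nat_lit 0) (nat_lit 0) (XT.lf (nat_lit 0) (nat_lit 22695102728) (nat_lit 152) (nat_lit 3182933675) (nat_lit 228) (nat_lit 110222034462) (nat_lit 11) (nat_lit 5) (nat_lit 13) (nat_lit 5) (nat_lit 14) (nat_lit 5) (nat_lit 296) (nat_lit 267) (nat_lit 157)) (XT.nd (nat_lit 78) (nat_lit 0) (nat_lit 0) (XT.lf (nat_lit 0) (nat_lit 46763878196) (nat_lit 228) (nat_lit 69729249593) (nat_lit 76) (nat_lit 27918298814) (nat_lit 11) (nat_lit 5) (nat_lit 14) (nat_lit 5) (nat_lit 12) (nat_lit 4) (nat_lit 297) (nat_lit 267) (nat_lit 156)) (XT.lf (nat_lit 0) (nat_lit 69402312303) (nat_lit 228) (nat_lit 22643718919) (nat_lit 76) (nat_lit 61335124031) (nat_lit 11) (nat_lit 5) (nat_lit 14) (nat_lit 5) (nat_lit 12) (nat_lit 4) (nat_lit 298) (nat_lit 267) (nat_lit 155)))) (XT.nd (nat_lit 156) (nat_lit 76) (nat_lit 0) (XT.nd (nat_lit 78) (nat_lit 0) (nat_lit 0) (XT.lf (nat_lit 0) (nat_lit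 29692539986) (nat_lit 76) (nat_lit 64872509089) (nat_lit 152) (nat_lit 68446357154) (nat_lit 10) (nat_lit 5) (nat_lit 11) (nat_lit 5) (nat_lit 12) (nat_lit 4) (nat_lit 299) (nat_lit 267) (nat_lit 154)) (XT.lf (nat_lit 0) (nat_lit 87502049482) (nat_lit 76) (nat_lit 34857027299) (nat_lit 152) (nat_lit 51003540843) (nat_lit 10) (nat_lit 5) (nat_lit 11) (nat_lit 5) (nat_lit 12) (nat_lit 4) (nat_lit 300) (nat_lit 267) (nat_lit 153))) (XT.nd (nat_lit 78) (nat_lit 76) (nat_lit 0) (XT.lf (nat_lit 0) (nat_lit 149935006327) (nat_lit 76) (nat_lit 2440835733) (nat_lit 152) (nat_lit 32166148587) (nat_lit 10) (nat_lit 5) (nat_lit 11) (nat_lit 5) (nat_lit 12) (nat_lit 4) (nat_lit 301) (nat_lit 267) (nat_lit 152)) (XT.lf (nat_lit 0) (nat_lit 21013526812) (nat_lit 76) (nat_lit 165068336124) (nat_lit 76) (nat_lit 10430819226) (nat_lit 9) (nat_lit 4) (nat_lit 10) (nat_lit 5) (nat_lit 10) (nat_lit 4)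 (nat_lit 302) (nat_lit 267) (nat_lit 151))))))) (XT.nd (nat_lit 1014) (nat_lit 152) (nat_lit 0) (XT.nd (nat_lit 468) (nat_lit 152) (nat_lit 0) (XT.nd (nat_lit 234) (nat_lit 76) (nat_lit 0) (XT.nd (nat_lit 78) (nat_lit 0) (nat_lit 0) (XT.lf (nat_lit 0) (nat_lit 13424314270) (nat_lit 152) (nat_lit 126716463353) (nat_lit 76) (nat_lit 69192480851) (nat_lit 8) (nat_lit 5) (nat_lit 10) (nat_lit 5) (nat_lit 9) (nat_lit 4) (nat_lit 303) (nat_lit 267) (nat_lit 150)) (XT.nd (nat_lit 78) (nat_lit 0) (nat_lit 0) (XT.lf (nat_lit 0) (nat_lit 38623644248) (nat_lit 152) (nat_lit 74303264534) (nat_lit 76) (nat_lit 110230953431) (nat_lit 8) (nat_lit 5) (nat_lit 10) (nat_lit 5) (nat_lit 9) (nat_lit 4) (nat_lit 304) (nat_lit 267) (nat_lit 149)) (XT.lf (nat_lit 0) (nat_lit 65838291893) (nat_lit 152) (nat_lit 17698100706) (nat_lit 76) (nat_lit 154552093275) (nat_lit 8) (nat_lit 5) (nat_lit 10) (nat_lit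 5) (nat_lit 9) (nat_lit 4) (nat_lit 305) (nat_lit 267) (nat_lit 148)))) (XT.nd (nat_lit 78) (nat_lit 0) (nat_lit 0) (XT.lf (nat_lit 0) (nat_lit 45721648152) (nat_lit 76) (nat_lit 50607487776) (nat_lit 152) (nat_lit 157796502758) (nat_lit 7) (nat_lit 5) (nat_lit 8) (nat_lit 5) (nat_lit 9) (nat_lit 4) (nat_lit 306) (nat_lit 267) (nat_lit 147)) (XT.nd (nat_lit 78) (nat_lit 0) (nat_lit 0) (XT.lf (nat_lit 0) (nat_lit 115220499071) (nat_lit 76) (nat_lit 14522083139) (nat_lit 152) (nat_lit 141664515871) (nat_lit 7) (nat_lit 5) (nat_lit 8) (nat_lit 5) (nat_lit 9) (nat_lit 4) (nat_lit 307) (nat_lit 267) (nat_lit 146)) (XT.lf (nat_lit 0) (nat_lit 166416600559) (nat_lit 152) (nat_lit 100380787882) (nat_lit 0) (nat_lit 23226687127) (nat_lit 7) (nat_lit 5) (nat_lit 9) (nat_lit 4) (nat_lit 7) (nat_lit 4) (nat_lit 308) (nat_lit 267) (nat_lit 145))))) (XT.nd (nat_lit 234) (nat_lit 76) (nat_lit 0)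 (XT.nd (nat_lit 78) (nat_lit 76) (nat_lit 0) (XT.lf (nat_lit 0) (nat_lit 206401246207) (nat_lit 152) (nat_lit 40488583765) (nat_lit 0) (nat_lit 63210445789) (nat_lit 7) (nat_lit 5) (nat_lit 9) (nat_lit 4) (nat_lit 7) (nat_lit 4) (nat_lit 309) (nat_lit 267) (nat_lit 144)) (XT.nd (nat_lit 78) (nat_lit 0) (nat_lit 0) (XT.lf (nat_lit 0) (nat_lit 25468209543) (nat_lit 76) (nat_lit 224728510262) (nat_lit 76) (nat_lit 81536888560) (nat_lit 6) (nat_lit 4) (nat_lit 7) (nat_lit 5) (nat_lit 7) (nat_lit 4) (nat_lit 310) (nat_lit 267) (nat_lit 143)) (XT.lf (nat_lit 0) (nat_lit 99003378336) (nat_lit 76) (nat_lit 199599042531) (nat_lit 76) (nat_lit 56406660381) (nat_lit 6) (nat_lit 4) (nat_lit 7) (nat_lit 5) (nat_lit 7) (nat_lit 4) (nat_lit 311) (nat_lit 267) (nat_lit 142)))) (XT.nd (nat_lit 156) (nat_lit 0) (nat_lit 0) (XT.nd (nat_lit 78) (nat_lit 76) (nat_lit 0) (XT.lf (nat_lit 0) (nat_lit 178420629505)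 (nat_lit 76) (nat_lit 172459541046) (nat_lit 76) (nat_lit 29266454778) (nat_lit 6) (nat_lit 4) (nat_lit 7) (nat_lit 5) (nat_lit 7) (nat_lit 4) (nat_lit 312) (nat_lit 267) (nat_lit 141)) (XT.lf (nat_lit 0) (nat_lit 42330069) (nat_lit 152) (nat_lit 143105691683) (nat_lit 76) (nat_lit 264147096351) (nat_lit 5) (nat_lit 5) (nat_lit 7) (nat_lit 5) (nat_lit 6) (nat_lit 4) (nat_lit 313) (nat_lit 267) (nat_lit 140))) (XT.nd (nat_lit 78) (nat_lit 0) (nat_lit 0) (XT.lf (nat_lit 0) (nat_lit 30114309945) (nat_lit 152) (nat_lit 80556577209) (nat_lit 76) (nat_lit 325883819068) (nat_lit 5) (nat_lit 5) (nat_lit 7) (nat_lit 5) (nat_lit 6) (nat_lit 4) (nat_lit 314) (nat_lit 267) (nat_lit 139)) (XT.lf (nat_lit 0) (nat_lit 62591715772) (nat_lit 152) (nat_lit 13004132041) (nat_lit 76) (nat_lit 392559240740) (nat_lit 5) (nat_lit 5) (nat_lit 7) (nat_lit 5) (nat_lit 6) (nat_lit 4) (nat_lit 315) (nat_lit 267)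 (nat_lit 138)))))) (XT.nd (nat_lit 468) (nat_lit 76) (nat_lit 0) (XT.nd (nat_lit 234) (nat_lit 0) (nat_lit 0) (XT.nd (nat_lit 78) (nat_lit 0) (nat_lit 0) (XT.lf (nat_lit 0) (nat_lit 63108918290) (nat_lit 76) (nat_lit 36075858962) (nat_lit 152) (nat_lit 402977327690) (nat_lit 4) (nat_lit 5) (nat_lit 5) (nat_lit 5) (nat_lit 6) (nat_lit 4) (nat_lit 316) (nat_lit 267) (nat_lit 137)) (XT.nd (nat_lit 78) (nat_lit 0) (nat_lit 0) (XT.lf (nat_lit 0) (nat_lit 139228639004) (nat_lit 152) (nat_lit 392979330773) (nat_lit 0) (nat_lit 6639844923) (nat_lit 4) (nat_lit 5) (nat_lit 6) (nat_lit 4) (nat_lit 4) (nat_lit 4) (nat_lit 317) (nat_lit 267) (nat_lit 136)) (XT.lf (nat_lit 0) (nat_lit 183412763673) (nat_lit 152) (nat_lit 344157118952) (nat_lit 0) (nat_lit 50823558746) (nat_lit 4) (nat_lit 5) (nat_lit 6) (nat_lit 4) (nat_lit 4) (nat_lit 4) (nat_lit 318) (nat_lit 267) (nat_lit 135)))) (XT.nd (nat_lit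 78) (nat_lit 0) (nat_lit 0) (XT.lf (nat_lit 0) (nat_lit 231131357835) (nat_lit 152) (nat_lit 291429609102) (nat_lit 0) (nat_lit 98541772495) (nat_lit 4) (nat_lit 5) (nat_lit 6) (nat_lit 4) (nat_lit 4) (nat_lit 4) (nat_lit 319) (nat_lit 267) (nat_lit 134)) (XT.nd (nat_lit 78) (nat_lit 0) (nat_lit 0) (XT.lf (nat_lit 0) (nat_lit 282667198343) (nat_lit 152) (nat_lit 234484341908) (nat_lit 0) (nat_lit 150077260768) (nat_lit 4) (nat_lit 5) (nat_lit 6) (nat_lit 4) (nat_lit 4) (nat_lit 4) (nat_lit 320) (nat_lit 267) (nat_lit 133)) (XT.lf (nat_lit 0) (nat_lit 338325682771) (nat_lit 152) (nat_lit 172983863932) (nat_lit 0) (nat_lit 205735419053) (nat_lit 4) (nat_lit 5) (nat_lit 6) (nat_lit 4) (nat_lit 4) (nat_lit 4) (nat_lit 321) (nat_lit 267) (nat_lit 132))))) (XT.nd (nat_lit 234) (nat_lit 0) (nat_lit 0) (XT.nd (nat_lit 78) (nat_lit 76) (nat_lit 0) (XT.lf (nat_lit 0) (nat_lit 398436639174) (nat_lit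 152) (nat_lit 106563727899) (nat_lit 0) (nat_lit 265846073472) (nat_lit 4) (nat_lit 5) (nat_lit 6) (nat_lit 4) (nat_lit 4) (nat_lit 4) (nat_lit 322) (nat_lit 267) (nat_lit 131)) (XT.nd (nat_lit 78) (nat_lit 76) (nat_lit 0) (XT.lf (nat_lit 0) (nat_lit 463356280628) (nat_lit 152) (nat_lit 34830333002) (nat_lit 0) (nat_lit 330765435311) (nat_lit 4) (nat_lit 5) (nat_lit 6) (nat_lit 4) (nat_lit 4) (nat_lit 4) (nat_lit 323) (nat_lit 267) (nat_lit 130)) (XT.lf (nat_lit 0) (nat_lit 44886828496) (nat_lit 76) (nat_lit 489662016928) (nat_lit 76) (nat_lit 357070912708) (nat_lit 3) (nat_lit 4) (nat_lit 4) (nat_lit 5) (nat_lit 4) (nat_lit 4) (nat_lit 324) (nat_lit 267) (nat_lit 129)))) (XT.nd (nat_lit 156) (nat_lit 0) (nat_lit 0) (XT.nd (nat_lit 78) (nat_lit 0) (nat_lit 0) (XT.lf (nat_lit 0) (nat_lit 132961877123) (nat_lit 76) (nat_lit 479427089521) (nat_lit 76) (nat_lit 346835745577) (nat_lit 3)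 (nat_lit 4) (nat_lit 4) (nat_lit 5) (nat_lit 4) (nat_lit 4) (nat_lit 325) (nat_lit 267) (nat_lit 128)) (XT.lf (nat_lit 0) (nat_lit 228082635482) (nat_lit 76) (nat_lit 468373503017) (nat_lit 76) (nat_lit 335781937106) (nat_lit 3) (nat_lit 4) (nat_lit 4) (nat_lit 5) (nat_lit 4) (nat_lit 4) (nat_lit 326) (nat_lit 267) (nat_lit 127))) (XT.nd (nat_lit 78) (nat_lit 0) (nat_lit 0) (XT.lf (nat_lit 0) (nat_lit 330812782140) (nat_lit 76) (nat_lit 456435754683) (nat_lit 76) (nat_lit 323843983246) (nat_lit 3) (nat_lit 4) (nat_lit 4) (nat_lit 5) (nat_lit 4) (nat_lit 4) (nat_lit 327) (nat_lit 267) (nat_lit 126)) (XT.lf (nat_lit 0) (nat_lit 441761088337) (nat_lit 76) (nat_lit 443543102304) (nat_lit 76) (nat_lit 310951140566) (nat_lit 3) (nat_lit 4) (nat_lit 4) (nat_lit 5) (nat_lit 4) (nat_lit 4) (nat_lit 328) (nat_lit 267) (nat_lit 125))))))))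
noncomputable def xc96 : XT := (XT.nd (nat_lit 34164) (nat_lit 0) (nat_lit 228) (XT.nd (nat_lit 33150) (nat_lit 0) (nat_lit 1444) (XT.nd (nat_lit 468) (nat_lit 0) (nat_lit 0) (XT.nd (nat_lit 234) (nat_lit 0) (nat_lit 0) (XT.nd (nat_lit 78) (nat_lit 0) (nat_lit 0) (XT.lf (nat_lit 0) (nat_lit 561585025516) (nat_lit 76) (nat_lit 429619144979) (nat_lit 76) (nat_lit 297027007036) (nat_lit 3) (nat_lit 4) (nat_lit 4) (nat_lit 5) (nat_lit 4) (nat_lit 4) (nat_lit 329) (nat_lit 267) (nat_lit 124)) (XT.nd (nat_lit 78) (nat_lit 0) (nat_lit 0) (XT.lf (nat_lit 0) (nat_lit 690994661455) (nat_lit 76) (nat_lit 414581370368) (nat_lit 76) (nat_lit 281989069272) (nat_lit 3) (nat_lit 4) (nat_lit 4) (nat_lit 5) (nat_lit 4) (nat_lit 4) (nat_lit 330) (nat_lit 267) (nat_lit 123)) (XT.lf (nat_lit 0) (nat_lit 830756868068) (nat_lit 76) (nat_lit 398340665731) (nat_lit 76) (nat_lit 265748213568) (nat_lit 3) (nat_lit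 4) (nat_lit 4) (nat_lit 5) (nat_lit 4) (nat_lit 4) (nat_lit 331) (nat_lit 267) (nat_lit 122)))) (XT.nd (nat_lit 78) (nat_lit 0) (nat_lit 0) (XT.lf (nat_lit 0) (nat_lit 981699865841) (nat_lit 76) (nat_lit 380800789858) (nat_lit 76) (nat_lit 248208197817) (nat_lit 3) (nat_lit 4) (nat_lit 4) (nat_lit 5) (nat_lit 4) (nat_lit 4) (nat_lit 332) (nat_lit 267) (nat_lit 121)) (XT.nd (nat_lit 78) (nat_lit 0) (nat_lit 0) (XT.lf (nat_lit 0) (nat_lit 1144718131797) (nat_lit 76) (nat_lit 361857802741) (nat_lit 76) (nat_lit 229265081185) (nat_lit 3) (nat_lit 4) (nat_lit 4) (nat_lit 5) (nat_lit 4) (nat_lit 4) (nat_lit 333) (nat_lit 267) (nat_lit 120)) (XT.lf (nat_lit 0) (nat_lit 1320777700104) (nat_lit 76) (nat_lit 341399449644) (nat_lit 76) (nat_lit 208806608166) (nat_lit 3) (nat_lit 4) (nat_lit 4) (nat_lit 5) (nat_lit 4) (nat_lit 4) (nat_lit 334) (nat_lit 267) (nat_lit 119))))) (XT.nd (nat_lit 32448)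 (nat_lit 0) (nat_lit 2584) (XT.nd (nat_lit 32292) (nat_lit 0) (nat_lit 2508) (XT.lf (nat_lit 0) (nat_lit 1510921886723) (nat_lit 76) (nat_lit 319304495880) (nat_lit 76) (nat_lit 186711543363) (nat_lit 3) (nat_lit 4) (nat_lit 4) (nat_lit 5) (nat_lit 4) (nat_lit 4) (nat_lit 335) (nat_lit 267) (nat_lit 118)) (XT.nd (nat_lit 78) (nat_lit 0) (nat_lit 0) (XT.lf (nat_lit 0) (nat_lit 6315501420) (nat_lit 532) (nat_lit 5700079399) (nat_lit 532) (nat_lit 5700079399) (nat_lit 36) (nat_lit 3) (nat_lit 43) (nat_lit 3) (nat_lit 43) (nat_lit 5) (nat_lit 268) (nat_lit 268) (nat_lit 184)) (XT.lf (nat_lit 76) (nat_lit 3944632186) (nat_lit 0) (nat_lit 9333030363) (nat_lit 532) (nat_lit 23559350726) (nat_lit 37) (nat_lit 5) (nat_lit 36) (nat_lit 3) (nat_lit 43) (nat_lit 5) (nat_lit 269) (nat_lit 268) (nat_lit 183)))) (XT.nd (nat_lit 78) (nat_lit 0) (nat_lit 0) (XT.lf (nat_lit 0) (nat_lit 14448489973)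 (nat_lit 456) (nat_lit 17333400374) (nat_lit 532) (nat_lit 6535501051) (nat_lit 37) (nat_lit 5) (nat_lit 43) (nat_lit 5) (nat_lit 44) (nat_lit 5) (nat_lit 270) (nat_lit 268) (nat_lit 182)) (XT.nd (nat_lit 78) (nat_lit 0) (nat_lit 76) (XT.lf (nat_lit 0) (nat_lit 15951074255) (nat_lit 456) (nat_lit 774999338) (nat_lit 532) (nat_lit 23171101754) (nat_lit 37) (nat_lit 5) (nat_lit 43) (nat_lit 5) (nat_lit 44) (nat_lit 5) (nat_lit 271) (nat_lit 268) (nat_lit 181)) (XT.lf (nat_lit 0) (nat_lit 18002986098) (nat_lit 456) (nat_lit 23562971751) (nat_lit 532) (nat_lit 3075630) (nat_lit 38) (nat_lit 5) (nat_lit 44) (nat_lit 5) (nat_lit 45) (nat_lit 5) (nat_lit 272) (nat_lit 268) (nat_lit 180)))))) (XT.nd (nat_lit 468) (nat_lit 608) (nat_lit 0) (XT.nd (nat_lit 234) (nat_lit 608) (nat_lit 0) (XT.nd (nat_lit 78) (nat_lit 0) (nat_lit 0) (XT.lf (nat_lit 0) (nat_lit 20671491602) (nat_lit 456) (nat_lit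 5477206507) (nat_lit 532) (nat_lit 17189766468) (nat_lit 38) (nat_lit 5) (nat_lit 44) (nat_lit 5) (nat_lit 45) (nat_lit 5) (nat_lit 273) (nat_lit 268) (nat_lit 179)) (XT.nd (nat_lit 78) (nat_lit 0) (nat_lit 76) (XT.lf (nat_lit 76) (nat_lit 14792677992) (nat_lit 0) (nat_lit 9113098077) (nat_lit 532) (nat_lit 21315508332) (nat_lit 39) (nat_lit 5) (nat_lit 38) (nat_lit 5) (nat_lit 45) (nat_lit 5) (nat_lit 274) (nat_lit 268) (nat_lit 178)) (XT.lf (nat_lit 0) (nat_lit 27772504131) (nat_lit 456) (nat_lit 10477260897) (nat_lit 76) (nat_lit 8975085495) (nat_lit 39) (nat_lit 5) (nat_lit 45) (nat_lit 5) (nat_lit 40) (nat_lit 5) (nat_lit 275) (nat_lit 268) (nat_lit 177)))) (XT.nd (nat_lit 78) (nat_lit 228) (nat_lit 0) (XT.lf (nat_lit 0) (nat_lit 11401079762) (nat_lit 456) (nat_lit 21055373759) (nat_lit 532) (nat_lit 16891633302) (nat_lit 33) (nat_lit 5) (nat_lit 39) (nat_lit 5) (nat_lit 40) (nat_lit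 5) (nat_lit 276) (nat_lit 268) (nat_lit 176)) (XT.nd (nat_lit 78) (nat_lit 228) (nat_lit 0) (XT.lf (nat_lit 0) (nat_lit 35622871241) (nat_lit 456) (nat_lit 2175856824) (nat_lit 532) (nat_lit 13819779610) (nat_lit 33) (nat_lit 5) (nat_lit 39) (nat_lit 5) (nat_lit 40) (nat_lit 5) (nat_lit 277) (nat_lit 268) (nat_lit 175)) (XT.lf (nat_lit 0) (nat_lit 7653980088) (nat_lit 228) (nat_lit 36533888782) (nat_lit 304) (nat_lit 9833147903) (nat_lit 30) (nat_lit 5) (nat_lit 33) (nat_lit 5) (nat_lit 34) (nat_lit 5) (nat_lit 278) (nat_lit 268) (nat_lit 174))))) (XT.nd (nat_lit 234) (nat_lit 380) (nat_lit 0) (XT.nd (nat_lit 78) (nat_lit 228) (nat_lit 0) (XT.lf (nat_lit 0) (nat_lit 34043129321) (nat_lit 228) (nat_lit 17534936297) (nat_lit 304) (nat_lit 4998479337) (nat_lit 30) (nat_lit 5) (nat_lit 33) (nat_lit 5) (nat_lit 34) (nat_lit 5) (nat_lit 279) (nat_lit 268) (nat_lit 173)) (XT.nd (nat_lit 78)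 (nat_lit 0) (nat_lit 0) (XT.lf (nat_lit 0) (nat_lit 364403066) (nat_lit 228) (nat_lit 56036400064) (nat_lit 76) (nat_lit 2923086346) (nat_lit 27) (nat_lit 5) (nat_lit 30) (nat_lit 5) (nat_lit 28) (nat_lit 5) (nat_lit 280) (nat_lit 268) (nat_lit 172)) (XT.lf (nat_lit 0) (nat_lit 6971544321) (nat_lit 228) (nat_lit 30390151293) (nat_lit 76) (nat_lit 24832127206) (nat_lit 27) (nat_lit 5) (nat_lit 30) (nat_lit 5) (nat_lit 28) (nat_lit 5) (nat_lit 281) (nat_lit 268) (nat_lit 171)))) (XT.nd (nat_lit 156) (nat_lit 152) (nat_lit 0) (XT.nd (nat_lit 78) (nat_lit 228) (nat_lit 0) (XT.lf (nat_lit 0) (nat_lit 14105142875) (nat_lit 228) (nat_lit 2694697047) (nat_lit 76) (nat_lit 48493689095) (nat_lit 27) (nat_lit 5) (nat_lit 30) (nat_lit 5) (nat_lit 28) (nat_lit 5) (nat_lit 282) (nat_lit 268) (nat_lit 170)) (XT.lf (nat_lit 0) (nat_lit 22644360373) (nat_lit 304) (nat_lit 40087054573) (nat_lit 76)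 (nat_lit 5843010673) (nat_lit 24) (nat_lit 5) (nat_lit 28) (nat_lit 5) (nat_lit 25) (nat_lit 5) (nat_lit 283) (nat_lit 268) (nat_lit 169))) (XT.nd (nat_lit 78) (nat_lit 152) (nat_lit 0) (XT.lf (nat_lit 0) (nat_lit 32376790445) (nat_lit 304) (nat_lit 10235317543) (nat_lit 76) (nat_lit 29464887718) (nat_lit 24) (nat_lit 5) (nat_lit 28) (nat_lit 5) (nat_lit 25) (nat_lit 5) (nat_lit 284) (nat_lit 268) (nat_lit 168)) (XT.lf (nat_lit 0) (nat_lit 23160941208) (nat_lit 152) (nat_lit 20282158049) (nat_lit 228) (nat_lit 32372256593) (nat_lit 22) (nat_lit 5) (nat_lit 24) (nat_lit 5) (nat_lit 25) (nat_lit 5) (nat_lit 285) (nat_lit 268) (nat_lit 167))))))) (XT.nd (nat_lit 1014) (nat_lit 380) (nat_lit 0) (XT.nd (nat_lit 468) (nat_lit 456) (nat_lit 0) (XT.nd (nat_lit 234) (nat_lit 228) (nat_lit 0) (XT.nd (nat_lit 78) (nat_lit 152) (nat_lit 0) (XT.lf (nat_lit 0) (nat_lit 55772373268) (nat_lit 228)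 (nat_lit 20121178047) (nat_lit 76) (nat_lit 3929027314) (nat_lit 22) (nat_lit 5) (nat_lit 25) (nat_lit 5) (nat_lit 23) (nat_lit 5) (nat_lit 286) (nat_lit 268) (nat_lit 166)) (XT.nd (nat_lit 78) (nat_lit 0) (nat_lit 0) (XT.lf (nat_lit 0) (nat_lit 15248581352) (nat_lit 152) (nat_lit 54731397364) (nat_lit 228) (nat_lit 14099047521) (nat_lit 20) (nat_lit 5) (nat_lit 22) (nat_lit 5) (nat_lit 23) (nat_lit 5) (nat_lit 287) (nat_lit 268) (nat_lit 165)) (XT.lf (nat_lit 0) (nat_lit 54590161846) (nat_lit 152) (nat_lit 31282695840) (nat_lit 228) (nat_lit 2759244475) (nat_lit 20) (nat_lit 5) (nat_lit 22) (nat_lit 5) (nat_lit 23) (nat_lit 5) (nat_lit 288) (nat_lit 268) (nat_lit 164)))) (XT.nd (nat_lit 78) (nat_lit 0) (nat_lit 0) (XT.lf (nat_lit 0) (nat_lit 3473213366) (nat_lit 152) (nat_lit 5622030599) (nat_lit 228) (nat_lit 84429361337) (nat_lit 17) (nat_lit 5) (nat_lit 19) (nat_lit 5) (nat_lit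 20) (nat_lit 5) (nat_lit 289) (nat_lit 268) (nat_lit 163)) (XT.nd (nat_lit 78) (nat_lit 0) (nat_lit 0) (XT.lf (nat_lit 0) (nat_lit 23233893637) (nat_lit 228) (nat_lit 53437661356) (nat_lit 76) (nat_lit 22012434900) (nat_lit 17) (nat_lit 5) (nat_lit 20) (nat_lit 5) (nat_lit 18) (nat_lit 5) (nat_lit 290) (nat_lit 268) (nat_lit 162)) (XT.lf (nat_lit 0) (nat_lit 38648393040) (nat_lit 228) (nat_lit 14042751139) (nat_lit 76) (nat_lit 51553404649) (nat_lit 17) (nat_lit 5) (nat_lit 20) (nat_lit 5) (nat_lit 18) (nat_lit 5) (nat_lit 291) (nat_lit 268) (nat_lit 161))))) (XT.nd (nat_lit 234) (nat_lit 228) (nat_lit 0) (XT.nd (nat_lit 78) (nat_lit 76) (nat_lit 0) (XT.lf (nat_lit 0) (nat_lit 30002864816) (nat_lit 152) (nat_lit 26013582190) (nat_lit 228) (nat_lit 54175877791) (nat_lit 15) (nat_lit 5) (nat_lit 17) (nat_lit 5) (nat_lit 18) (nat_lit 5) (nat_lit 292) (nat_lit 268) (nat_lit 160)) (XT.nd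 (nat_lit 78) (nat_lit 76) (nat_lit 0) (XT.lf (nat_lit 0) (nat_lit 75234025275) (nat_lit 228) (nat_lit 38293509582) (nat_lit 76) (nat_lit 3051585187) (nat_lit 15) (nat_lit 5) (nat_lit 18) (nat_lit 5) (nat_lit 16) (nat_lit 4) (nat_lit 293) (nat_lit 268) (nat_lit 159)) (XT.lf (nat_lit 0) (nat_lit 6607308587) (nat_lit 76) (nat_lit 90215226320) (nat_lit 152) (nat_lit 26587645331) (nat_lit 14) (nat_lit 5) (nat_lit 15) (nat_lit 5) (nat_lit 16) (nat_lit 4) (nat_lit 294) (nat_lit 268) (nat_lit 158)))) (XT.nd (nat_lit 156) (nat_lit 152) (nat_lit 0) (XT.nd (nat_lit 78) (nat_lit 76) (nat_lit 0) (XT.lf (nat_lit 0) (nat_lit 57276364796) (nat_lit 76) (nat_lit 63907754232) (nat_lit 152) (nat_lit 9519929806) (nat_lit 14) (nat_lit 5) (nat_lit 15) (nat_lit 5) (nat_lit 16) (nat_lit 4) (nat_lit 295) (nat_lit 268) (nat_lit 157)) (XT.lf (nat_lit 0) (nat_lit 8466357999) (nat_lit 152) (nat_lit 26798391646)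 (nat_lit 76) (nat_lit 103299608536) (nat_lit 13) (nat_lit 5) (nat_lit 15) (nat_lit 5) (nat_lit 14) (nat_lit 5) (nat_lit 296) (nat_lit 268) (nat_lit 156))) (XT.nd (nat_lit 78) (nat_lit 0) (nat_lit 0) (XT.lf (nat_lit 0) (nat_lit 24540137440) (nat_lit 152) (nat_lit 3426380239) (nat_lit 228) (nat_lit 119020051987) (nat_lit 11) (nat_lit 5) (nat_lit 13) (nat_lit 5) (nat_lit 14) (nat_lit 5) (nat_lit 297) (nat_lit 268) (nat_lit 155)) (XT.lf (nat_lit 0) (nat_lit 50522124970) (nat_lit 228) (nat_lit 75279196702) (nat_lit 76) (nat_lit 30161603881) (nat_lit 11) (nat_lit 5) (nat_lit 14) (nat_lit 5) (nat_lit 12) (nat_lit 4) (nat_lit 298) (nat_lit 268) (nat_lit 154)))))) (XT.nd (nat_lit 468) (nat_lit 152) (nat_lit 0) (XT.nd (nat_lit 234) (nat_lit 152) (nat_lit 0) (XT.nd (nat_lit 78) (nat_lit 76) (nat_lit 0) (XT.lf (nat_lit 0) (nat_lit 74970364433) (nat_lit 228) (nat_lit 24428926750) (nat_lit 76) (nat_lit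 66251046140) (nat_lit 11) (nat_lit 5) (nat_lit 14) (nat_lit 5) (nat_lit 12) (nat_lit 4) (nat_lit 299) (nat_lit 268) (nat_lit 153)) (XT.nd (nat_lit 78) (nat_lit 0) (nat_lit 0) (XT.lf (nat_lit 0) (nat_lit 32093567307) (nat_lit 76) (nat_lit 70051993758) (nat_lit 152) (nat_lit 73905495075) (nat_lit 10) (nat_lit 5) (nat_lit 11) (nat_lit 5) (nat_lit 12) (nat_lit 4) (nat_lit 300) (nat_lit 268) (nat_lit 152)) (XT.lf (nat_lit 0) (nat_lit 94525939479) (nat_lit 76) (nat_lit 37636037577) (nat_lit 152) (nat_lit 55068480915) (nat_lit 10) (nat_lit 5) (nat_lit 11) (nat_lit 5) (nat_lit 12) (nat_lit 4) (nat_lit 301) (nat_lit 268) (nat_lit 151)))) (XT.nd (nat_lit 78) (nat_lit 152) (nat_lit 0) (XT.lf (nat_lit 0) (nat_lit 161951775387) (nat_lit 76) (nat_lit 2627258235) (nat_lit 152) (nat_lit 34725233811) (nat_lit 10) (nat_lit 5) (nat_lit 11) (nat_lit 5) (nat_lit 12) (nat_lit 4) (nat_lit 302) (nat_lit 268)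 (nat_lit 150)) (XT.nd (nat_lit 78) (nat_lit 76) (nat_lit 0) (XT.lf (nat_lit 0) (nat_lit 22716869085) (nat_lit 76) (nat_lit 178264427227) (nat_lit 76) (nat_lit 11251339555) (nat_lit 9) (nat_lit 4) (nat_lit 10) (nat_lit 5) (nat_lit 10) (nat_lit 4) (nat_lit 303) (nat_lit 268) (nat_lit 149)) (XT.lf (nat_lit 0) (nat_lit 14510525720) (nat_lit 152) (nat_lit 136832497447) (nat_lit 76) (nat_lit 74735888857) (nat_lit 8) (nat_lit 5) (nat_lit 10) (nat_lit 5) (nat_lit 9) (nat_lit 4) (nat_lit 304) (nat_lit 268) (nat_lit 148))))) (XT.nd (nat_lit 234) (nat_lit 76) (nat_lit 0) (XT.nd (nat_lit 78) (nat_lit 76) (nat_lit 0) (XT.lf (nat_lit 0) (nat_lit 41724893481) (nat_lit 152) (nat_lit 80227819239) (nat_lit 76) (nat_lit 119056845945) (nat_lit 8) (nat_lit 5) (nat_lit 10) (nat_lit 5) (nat_lit 9) (nat_lit 4) (nat_lit 305) (nat_lit 268) (nat_lit 147)) (XT.nd (nat_lit 78) (nat_lit 76) (nat_lit 0) (XT.lf (nat_lit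 0) (nat_lit 71115871627) (nat_lit 152) (nat_lit 19095702042) (nat_lit 76) (nat_lit 166923127624) (nat_lit 8) (nat_lit 5) (nat_lit 10) (nat_lit 5) (nat_lit 9) (nat_lit 4) (nat_lit 306) (nat_lit 268) (nat_lit 146)) (XT.lf (nat_lit 0) (nat_lit 49397164782) (nat_lit 76) (nat_lit 54648467135) (nat_lit 152) (nat_lit 170409224154) (nat_lit 7) (nat_lit 5) (nat_lit 8) (nat_lit 5) (nat_lit 9) (nat_lit 4) (nat_lit 307) (nat_lit 268) (nat_lit 145)))) (XT.nd (nat_lit 156) (nat_lit 76) (nat_lit 0) (XT.nd (nat_lit 78) (nat_lit 0) (nat_lit 0) (XT.lf (nat_lit 0) (nat_lit 124454606384) (nat_lit 76) (nat_lit 15676794546) (nat_lit 152) (nat_lit 152987493044) (nat_lit 7) (nat_lit 5) (nat_lit 8) (nat_lit 5) (nat_lit 9) (nat_lit 4) (nat_lit 308) (nat_lit 268) (nat_lit 144)) (XT.lf (nat_lit 0) (nat_lit 179738800662) (nat_lit 152) (nat_lit 108395445671) (nat_lit 0) (nat_lit 25091027941) (nat_lit 7) (nat_lit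 5) (nat_lit 9) (nat_lit 4) (nat_lit 7) (nat_lit 4) (nat_lit 309) (nat_lit 268) (nat_lit 143))) (XT.nd (nat_lit 78) (nat_lit 76) (nat_lit 0) (XT.lf (nat_lit 0) (nat_lit 222921560772) (nat_lit 152) (nat_lit 43713035983) (nat_lit 0) (nat_lit 68273027603) (nat_lit 7) (nat_lit 5) (nat_lit 9) (nat_lit 4) (nat_lit 7) (nat_lit 4) (nat_lit 310) (nat_lit 268) (nat_lit 142)) (XT.lf (nat_lit 0) (nat_lit 27519930297) (nat_lit 76) (nat_lit 242700476503) (nat_lit 76) (nat_lit 88051239215) (nat_lit 6) (nat_lit 4) (nat_lit 7) (nat_lit 5) (nat_lit 7) (nat_lit 4) (nat_lit 311) (nat_lit 268) (nat_lit 141))))))))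
noncomputable def xc97 : XT := (XT.nd (nat_lit 34242) (nat_lit 0) (nat_lit 836) (XT.nd (nat_lit 936) (nat_lit 76) (nat_lit 0) (XT.nd (nat_lit 468) (nat_lit 0) (nat_lit 0) (XT.nd (nat_lit 234) (nat_lit 76) (nat_lit 0) (XT.nd (nat_lit 78) (nat_lit 76) (nat_lit 0) (XT.lf (nat_lit 0) (nat_lit 106936856001) (nat_lit 76) (nat_lit 215561119099) (nat_lit 76) (nat_lit 60911229851) (nat_lit 6) (nat_lit 4) (nat_lit 7) (nat_lit 5) (nat_lit 7) (nat_lit 4) (nat_lit 312) (nat_lit 268) (nat_lit 140)) (XT.nd (nat_lit 78) (nat_lit 76) (nat_lit 0) (XT.lf (nat_lit 0) (nat_lit 192706508938) (nat_lit 76) (nat_lit 186250890594) (nat_lit 76) (nat_lit 31600397678) (nat_lit 6) (nat_lit 4) (nat_lit 7) (nat_lit 5) (nat_lit 7) (nat_lit 4) (nat_lit 313) (nat_lit 268) (nat_lit 139)) (XT.lf (nat_lit 0) (nat_lit 52202244) (nat_lit 152) (nat_lit 154542471198) (nat_lit 76) (nat_lit 285283524172) (nat_lit 5) (nat_lit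 5) (nat_lit 7) (nat_lit 5) (nat_lit 6) (nat_lit 4) (nat_lit 314) (nat_lit 268) (nat_lit 138)))) (XT.nd (nat_lit 78) (nat_lit 76) (nat_lit 0) (XT.lf (nat_lit 0) (nat_lit 32529460083) (nat_lit 152) (nat_lit 86990292442) (nat_lit 76) (nat_lit 351958839513) (nat_lit 5) (nat_lit 5) (nat_lit 7) (nat_lit 5) (nat_lit 6) (nat_lit 4) (nat_lit 315) (nat_lit 268) (nat_lit 137)) (XT.nd (nat_lit 78) (nat_lit 76) (nat_lit 0) (XT.lf (nat_lit 0) (nat_lit 67604613535) (nat_lit 152) (nat_lit 14034452471) (nat_lit 76) (nat_lit 423967975296) (nat_lit 5) (nat_lit 5) (nat_lit 7) (nat_lit 5) (nat_lit 6) (nat_lit 4) (nat_lit 316) (nat_lit 268) (nat_lit 136)) (XT.lf (nat_lit 0) (nat_lit 68167388465) (nat_lit 76) (nat_lit 38957554229) (nat_lit 152) (nat_lit 435209691190) (nat_lit 4) (nat_lit 5) (nat_lit 5) (nat_lit 5) (nat_lit 6) (nat_lit 4) (nat_lit 317) (nat_lit 268) (nat_lit 135))))) (XT.nd (nat_lit 234)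 (nat_lit 0) (nat_lit 0) (XT.nd (nat_lit 78) (nat_lit 0) (nat_lit 0) (XT.lf (nat_lit 0) (nat_lit 150372012017) (nat_lit 152) (nat_lit 424408333732) (nat_lit 0) (nat_lit 7174879436) (nat_lit 4) (nat_lit 5) (nat_lit 6) (nat_lit 4) (nat_lit 4) (nat_lit 4) (nat_lit 318) (nat_lit 268) (nat_lit 134)) (XT.nd (nat_lit 78) (nat_lit 0) (nat_lit 0) (XT.lf (nat_lit 0) (nat_lit 198090490223) (nat_lit 152) (nat_lit 371681037076) (nat_lit 0) (nat_lit 54893005408) (nat_lit 4) (nat_lit 5) (nat_lit 6) (nat_lit 4) (nat_lit 4) (nat_lit 4) (nat_lit 319) (nat_lit 268) (nat_lit 133)) (XT.lf (nat_lit 0) (nat_lit 249626223365) (nat_lit 152) (nat_lit 314735967282) (nat_lit 0) (nat_lit 106428412407) (nat_lit 4) (nat_lit 5) (nat_lit 6) (nat_lit 4) (nat_lit 4) (nat_lit 4) (nat_lit 320) (nat_lit 268) (nat_lit 132)))) (XT.nd (nat_lit 78) (nat_lit 0) (nat_lit 0) (XT.lf (nat_lit 0) (nat_lit 305284608380) (nat_lit 152)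 (nat_lit 253235672086) (nat_lit 0) (nat_lit 162086495438) (nat_lit 4) (nat_lit 5) (nat_lit 6) (nat_lit 4) (nat_lit 4) (nat_lit 4) (nat_lit 321) (nat_lit 268) (nat_lit 131)) (XT.nd (nat_lit 78) (nat_lit 0) (nat_lit 0) (XT.lf (nat_lit 0) (nat_lit 365395472735) (nat_lit 152) (nat_lit 186815705293) (nat_lit 0) (nat_lit 222197080178) (nat_lit 4) (nat_lit 5) (nat_lit 6) (nat_lit 4) (nat_lit 4) (nat_lit 4) (nat_lit 322) (nat_lit 268) (nat_lit 130)) (XT.lf (nat_lit 0) (nat_lit 430315028958) (nat_lit 152) (nat_lit 115082467100) (nat_lit 0) (nat_lit 287116377499) (nat_lit 4) (nat_lit 5) (nat_lit 6) (nat_lit 4) (nat_lit 4) (nat_lit 4) (nat_lit 323) (nat_lit 268) (nat_lit 129)))))) (XT.nd (nat_lit 468) (nat_lit 0) (nat_lit 0) (XT.nd (nat_lit 234) (nat_lit 0) (nat_lit 0) (XT.nd (nat_lit 78) (nat_lit 76) (nat_lit 0) (XT.lf (nat_lit 0) (nat_lit 500427985532) (nat_lit 152) (nat_lit 37610871651) (nat_lit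 0) (nat_lit 357229094348) (nat_lit 4) (nat_lit 5) (nat_lit 6) (nat_lit 4) (nat_lit 4) (nat_lit 4) (nat_lit 324) (nat_lit 268) (nat_lit 128)) (XT.nd (nat_lit 78) (nat_lit 0) (nat_lit 0) (XT.lf (nat_lit 0) (nat_lit 48483513704) (nat_lit 76) (nat_lit 528832342610) (nat_lit 76) (nat_lit 385633229458) (nat_lit 3) (nat_lit 4) (nat_lit 4) (nat_lit 5) (nat_lit 4) (nat_lit 4) (nat_lit 325) (nat_lit 268) (nat_lit 127)) (XT.lf (nat_lit 0) (nat_lit 143604141116) (nat_lit 76) (nat_lit 517778816245) (nat_lit 76) (nat_lit 374579497568) (nat_lit 3) (nat_lit 4) (nat_lit 4) (nat_lit 5) (nat_lit 4) (nat_lit 4) (nat_lit 326) (nat_lit 268) (nat_lit 126)))) (XT.nd (nat_lit 78) (nat_lit 0) (nat_lit 0) (XT.lf (nat_lit 0) (nat_lit 246334166527) (nat_lit 76) (nat_lit 505841123595) (nat_lit 76) (nat_lit 362641614616) (nat_lit 3) (nat_lit 4) (nat_lit 4) (nat_lit 5) (nat_lit 4) (nat_lit 4) (nat_lit 327) (nat_lit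 268) (nat_lit 125)) (XT.nd (nat_lit 78) (nat_lit 0) (nat_lit 0) (XT.lf (nat_lit 0) (nat_lit 357282360458) (nat_lit 76) (nat_lit 492948522776) (nat_lit 76) (nat_lit 349748837592) (nat_lit 3) (nat_lit 4) (nat_lit 4) (nat_lit 5) (nat_lit 4) (nat_lit 4) (nat_lit 328) (nat_lit 268) (nat_lit 124)) (XT.lf (nat_lit 0) (nat_lit 477106193688) (nat_lit 76) (nat_lit 479024613191) (nat_lit 76) (nat_lit 335824764855) (nat_lit 3) (nat_lit 4) (nat_lit 4) (nat_lit 5) (nat_lit 4) (nat_lit 4) (nat_lit 329) (nat_lit 268) (nat_lit 123))))) (XT.nd (nat_lit 234) (nat_lit 0) (nat_lit 0) (XT.nd (nat_lit 78) (nat_lit 0) (nat_lit 0) (XT.lf (nat_lit 0) (nat_lit 606515733376) (nat_lit 76) (nat_lit 463986882783) (nat_lit 76) (nat_lit 320786883380) (nat_lit 3) (nat_lit 4) (nat_lit 4) (nat_lit 5) (nat_lit 4) (nat_lit 4) (nat_lit 330) (nat_lit 268) (nat_lit 122)) (XT.nd (nat_lit 78) (nat_lit 0) (nat_lit 0) (XT.lf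 (nat_lit 0) (nat_lit 746277850870) (nat_lit 76) (nat_lit 447746219077) (nat_lit 76) (nat_lit 304546079796) (nat_lit 3) (nat_lit 4) (nat_lit 4) (nat_lit 5) (nat_lit 4) (nat_lit 4) (nat_lit 331) (nat_lit 268) (nat_lit 121)) (XT.lf (nat_lit 0) (nat_lit 897220766124) (nat_lit 76) (nat_lit 430206381100) (nat_lit 76) (nat_lit 287006112304) (nat_lit 3) (nat_lit 4) (nat_lit 4) (nat_lit 5) (nat_lit 4) (nat_lit 4) (nat_lit 332) (nat_lit 268) (nat_lit 120)))) (XT.nd (nat_lit 156) (nat_lit 0) (nat_lit 0) (XT.nd (nat_lit 78) (nat_lit 0) (nat_lit 0) (XT.lf (nat_lit 0) (nat_lit 1060238955673) (nat_lit 76) (nat_lit 411263429075) (nat_lit 76) (nat_lit 268063040356) (nat_lit 3) (nat_lit 4) (nat_lit 4) (nat_lit 5) (nat_lit 4) (nat_lit 4) (nat_lit 333) (nat_lit 268) (nat_lit 119)) (XT.lf (nat_lit 0) (nat_lit 1236298453234) (nat_lit 76) (nat_lit 390805108468) (nat_lit 76) (nat_lit 247604608711) (nat_lit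 3) (nat_lit 4) (nat_lit 4) (nat_lit 5) (nat_lit 4) (nat_lit 4) (nat_lit 334) (nat_lit 268) (nat_lit 118))) (XT.nd (nat_lit 32370) (nat_lit 0) (nat_lit 2508) (XT.lf (nat_lit 0) (nat_lit 1426442574347) (nat_lit 76) (nat_lit 368710184789) (nat_lit 76) (nat_lit 225509582218) (nat_lit 3) (nat_lit 4) (nat_lit 4) (nat_lit 5) (nat_lit 4) (nat_lit 4) (nat_lit 335) (nat_lit 268) (nat_lit 117)) (XT.lf (nat_lit 0) (nat_lit 6866173076) (nat_lit 532) (nat_lit 6131432475) (nat_lit 532) (nat_lit 6131432475) (nat_lit 36) (nat_lit 3) (nat_lit 43) (nat_lit 3) (nat_lit 43) (nat_lit 5) (nat_lit 269) (nat_lit 269) (nat_lit 182))))))) (XT.nd (nat_lit 1014) (nat_lit 988) (nat_lit 0) (XT.nd (nat_lit 468) (nat_lit 684) (nat_lit 0) (XT.nd (nat_lit 234) (nat_lit 0) (nat_lit 76) (XT.nd (nat_lit 78) (nat_lit 0) (nat_lit 76) (XT.lf (nat_lit 76) (nat_lit 4308261045) (nat_lit 0) (nat_lit 10116902798) (nat_lit 532)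 (nat_lit 25351542089) (nat_lit 37) (nat_lit 5) (nat_lit 36) (nat_lit 3) (nat_lit 43) (nat_lit 5) (nat_lit 270) (nat_lit 269) (nat_lit 181)) (XT.nd (nat_lit 78) (nat_lit 0) (nat_lit 0) (XT.lf (nat_lit 0) (nat_lit 15682510752) (nat_lit 456) (nat_lit 18668014930) (nat_lit 532) (nat_lit 7025593349) (nat_lit 37) (nat_lit 5) (nat_lit 43) (nat_lit 5) (nat_lit 44) (nat_lit 5) (nat_lit 271) (nat_lit 269) (nat_lit 180)) (XT.lf (nat_lit 0) (nat_lit 17299513511) (nat_lit 456) (nat_lit 788797919) (nat_lit 532) (nat_lit 24994467869) (nat_lit 37) (nat_lit 5) (nat_lit 43) (nat_lit 5) (nat_lit 44) (nat_lit 5) (nat_lit 272) (nat_lit 269) (nat_lit 179)))) (XT.nd (nat_lit 78) (nat_lit 0) (nat_lit 76) (XT.lf (nat_lit 76) (nat_lit 19493618565) (nat_lit 0) (nat_lit 17646033) (nat_lit 532) (nat_lit 25377494863) (nat_lit 38) (nat_lit 5) (nat_lit 37) (nat_lit 5) (nat_lit 44) (nat_lit 5) (nat_lit 273) (nat_lit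 269) (nat_lit 178)) (XT.nd (nat_lit 78) (nat_lit 0) (nat_lit 0) (XT.lf (nat_lit 0) (nat_lit 22387817621) (nat_lit 456) (nat_lit 5866037674) (nat_lit 532) (nat_lit 18546350573) (nat_lit 38) (nat_lit 5) (nat_lit 44) (nat_lit 5) (nat_lit 45) (nat_lit 5) (nat_lit 274) (nat_lit 269) (nat_lit 177)) (XT.lf (nat_lit 76) (nat_lit 16024188336) (nat_lit 0) (nat_lit 9853175689) (nat_lit 532) (nat_lit 22956589966) (nat_lit 39) (nat_lit 5) (nat_lit 38) (nat_lit 5) (nat_lit 45) (nat_lit 5) (nat_lit 275) (nat_lit 269) (nat_lit 176))))) (XT.nd (nat_lit 234) (nat_lit 456) (nat_lit 0) (XT.nd (nat_lit 78) (nat_lit 456) (nat_lit 0) (XT.lf (nat_lit 0) (nat_lit 30048805021) (nat_lit 456) (nat_lit 11266002387) (nat_lit 76) (nat_lit 9683390471) (nat_lit 39) (nat_lit 5) (nat_lit 45) (nat_lit 5) (nat_lit 40) (nat_lit 5) (nat_lit 276) (nat_lit 269) (nat_lit 175)) (XT.nd (nat_lit 78) (nat_lit 0) (nat_lit 0) (XT.lf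 (nat_lit 0) (nat_lit 12361353895) (nat_lit 456) (nat_lit 22743238305) (nat_lit 532) (nat_lit 18186951924) (nat_lit 33) (nat_lit 5) (nat_lit 39) (nat_lit 5) (nat_lit 40) (nat_lit 5) (nat_lit 277) (nat_lit 269) (nat_lit 174)) (XT.lf (nat_lit 0) (nat_lit 38517319230) (nat_lit 456) (nat_lit 2353105597) (nat_lit 532) (nat_lit 14873498977) (nat_lit 33) (nat_lit 5) (nat_lit 39) (nat_lit 5) (nat_lit 40) (nat_lit 5) (nat_lit 278) (nat_lit 269) (nat_lit 173)))) (XT.nd (nat_lit 156) (nat_lit 228) (nat_lit 0) (XT.nd (nat_lit 78) (nat_lit 0) (nat_lit 0) (XT.lf (nat_lit 0) (nat_lit 8313823343) (nat_lit 228) (nat_lit 39454405076) (nat_lit 304) (nat_lit 10570620509) (nat_lit 30) (nat_lit 5) (nat_lit 33) (nat_lit 5) (nat_lit 34) (nat_lit 5) (nat_lit 279) (nat_lit 269) (nat_lit 172)) (XT.lf (nat_lit 0) (nat_lit 36810584155) (nat_lit 228) (nat_lit 18935698971) (nat_lit 304) (nat_lit 5352821364) (nat_lit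 30) (nat_lit 5) (nat_lit 33) (nat_lit 5) (nat_lit 34) (nat_lit 5) (nat_lit 280) (nat_lit 269) (nat_lit 171))) (XT.nd (nat_lit 78) (nat_lit 0) (nat_lit 0) (XT.lf (nat_lit 0) (nat_lit 434798673) (nat_lit 228) (nat_lit 60470646771) (nat_lit 76) (nat_lit 3160878869) (nat_lit 27) (nat_lit 5) (nat_lit 30) (nat_lit 5) (nat_lit 28) (nat_lit 5) (nat_lit 281) (nat_lit 269) (nat_lit 170)) (XT.lf (nat_lit 0) (nat_lit 7567456165) (nat_lit 228) (nat_lit 32776302935) (nat_lit 76) (nat_lit 26822350731) (nat_lit 27) (nat_lit 5) (nat_lit 30) (nat_lit 5) (nat_lit 28) (nat_lit 5) (nat_lit 282) (nat_lit 269) (nat_lit 169)))))) (XT.nd (nat_lit 468) (nat_lit 456) (nat_lit 0) (XT.nd (nat_lit 234) (nat_lit 304) (nat_lit 0) (XT.nd (nat_lit 78) (nat_lit 228) (nat_lit 0) (XT.lf (nat_lit 0) (nat_lit 15268913840) (nat_lit 228) (nat_lit 2868550162) (nat_lit 76) (nat_lit 52376566953) (nat_lit 27) (nat_lit 5) (nat_lit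 30) (nat_lit 5) (nat_lit 28) (nat_lit 5) (nat_lit 283) (nat_lit 269) (nat_lit 168)) (XT.nd (nat_lit 78) (nat_lit 0) (nat_lit 0) (XT.lf (nat_lit 0) (nat_lit 24489794642) (nat_lit 304) (nat_lit 43250681802) (nat_lit 76) (nat_lit 6317052000) (nat_lit 24) (nat_lit 5) (nat_lit 28) (nat_lit 5) (nat_lit 25) (nat_lit 5) (nat_lit 284) (nat_lit 269) (nat_lit 167)) (XT.lf (nat_lit 0) (nat_lit 34998309087) (nat_lit 304) (nat_lit 11014015968) (nat_lit 76) (nat_lit 31828190285) (nat_lit 24) (nat_lit 5) (nat_lit 28) (nat_lit 5) (nat_lit 25) (nat_lit 5) (nat_lit 285) (nat_lit 269) (nat_lit 166)))) (XT.nd (nat_lit 78) (nat_lit 152) (nat_lit 0) (XT.lf (nat_lit 0) (nat_lit 25052927611) (nat_lit 152) (nat_lit 21895611512) (nat_lit 228) (nat_lit 34929525480) (nat_lit 22) (nat_lit 5) (nat_lit 24) (nat_lit 5) (nat_lit 25) (nat_lit 5) (nat_lit 286) (nat_lit 269) (nat_lit 165)) (XT.nd (nat_lit 78) (nat_lit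 152) (nat_lit 0) (XT.lf (nat_lit 0) (nat_lit 60262136501) (nat_lit 228) (nat_lit 21692528304) (nat_lit 76) (nat_lit 4251370798) (nat_lit 22) (nat_lit 5) (nat_lit 25) (nat_lit 5) (nat_lit 23) (nat_lit 5) (nat_lit 287) (nat_lit 269) (nat_lit 164)) (XT.lf (nat_lit 0) (nat_lit 16505841113) (nat_lit 152) (nat_lit 59099335998) (nat_lit 228) (nat_lit 15197924026) (nat_lit 20) (nat_lit 5) (nat_lit 22) (nat_lit 5) (nat_lit 23) (nat_lit 5) (nat_lit 288) (nat_lit 269) (nat_lit 163))))) (XT.nd (nat_lit 234) (nat_lit 228) (nat_lit 0) (XT.nd (nat_lit 78) (nat_lit 228) (nat_lit 0) (XT.lf (nat_lit 0) (nat_lit 58991979657) (nat_lit 152) (nat_lit 33775521549) (nat_lit 228) (nat_lit 2953088388) (nat_lit 20) (nat_lit 5) (nat_lit 22) (nat_lit 5) (nat_lit 23) (nat_lit 5) (nat_lit 289) (nat_lit 269) (nat_lit 162)) (XT.nd (nat_lit 78) (nat_lit 0) (nat_lit 0) (XT.lf (nat_lit 0) (nat_lit 3786196824) (nat_lit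 152) (nat_lit 6061169056) (nat_lit 228) (nat_lit 91157165738) (nat_lit 17) (nat_lit 5) (nat_lit 19) (nat_lit 5) (nat_lit 20) (nat_lit 5) (nat_lit 290) (nat_lit 269) (nat_lit 161)) (XT.lf (nat_lit 0) (nat_lit 25115529114) (nat_lit 228) (nat_lit 57678495570) (nat_lit 76) (nat_lit 23782774632) (nat_lit 17) (nat_lit 5) (nat_lit 20) (nat_lit 5) (nat_lit 18) (nat_lit 5) (nat_lit 291) (nat_lit 269) (nat_lit 160)))) (XT.nd (nat_lit 156) (nat_lit 76) (nat_lit 0) (XT.nd (nat_lit 78) (nat_lit 152) (nat_lit 0) (XT.lf (nat_lit 0) (nat_lit 41761490397) (nat_lit 228) (nat_lit 15134524290) (nat_lit 76) (nat_lit 55686329744) (nat_lit 17) (nat_lit 5) (nat_lit 20) (nat_lit 5) (nat_lit 18) (nat_lit 5) (nat_lit 292) (nat_lit 269) (nat_lit 159)) (XT.lf (nat_lit 0) (nat_lit 32433939752) (nat_lit 152) (nat_lit 28084218479) (nat_lit 228) (nat_lit 58487855885) (nat_lit 15) (nat_lit 5) (nat_lit 17) (nat_lit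 5) (nat_lit 18) (nat_lit 5) (nat_lit 293) (nat_lit 269) (nat_lit 158))) (XT.nd (nat_lit 78) (nat_lit 76) (nat_lit 0) (XT.lf (nat_lit 0) (nat_lit 81271864699) (nat_lit 228) (nat_lit 41327091195) (nat_lit 76) (nat_lit 3304904151) (nat_lit 15) (nat_lit 5) (nat_lit 18) (nat_lit 5) (nat_lit 16) (nat_lit 4) (nat_lit 294) (nat_lit 269) (nat_lit 157)) (XT.lf (nat_lit 0) (nat_lit 7165035487) (nat_lit 76) (nat_lit 97421704381) (nat_lit 152) (nat_lit 28694726864) (nat_lit 14) (nat_lit 5) (nat_lit 15) (nat_lit 5) (nat_lit 16) (nat_lit 4) (nat_lit 295) (nat_lit 269) (nat_lit 156))))))))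
noncomputable def xc98 : XT := (XT.nd (nat_lit 1950) (nat_lit 76) (nat_lit 0) (XT.nd (nat_lit 936) (nat_lit 304) (nat_lit 0) (XT.nd (nat_lit 468) (nat_lit 152) (nat_lit 0) (XT.nd (nat_lit 234) (nat_lit 76) (nat_lit 0) (XT.nd (nat_lit 78) (nat_lit 228) (nat_lit 0) (XT.lf (nat_lit 0) (nat_lit 61885457511) (nat_lit 76) (nat_lit 69010430085) (nat_lit 152) (nat_lit 10263070400) (nat_lit 14) (nat_lit 5) (nat_lit 15) (nat_lit 5) (nat_lit 16) (nat_lit 4) (nat_lit 296) (nat_lit 269) (nat_lit 155)) (XT.nd (nat_lit 78) (nat_lit 152) (nat_lit 0) (XT.lf (nat_lit 0) (nat_lit 9159898729) (nat_lit 152) (nat_lit 28916379217) (nat_lit 76) (nat_lit 111571886066) (nat_lit 13) (nat_lit 5) (nat_lit 15) (nat_lit 5) (nat_lit 14) (nat_lit 5) (nat_lit 297) (nat_lit 269) (nat_lit 154)) (XT.lf (nat_lit 0) (nat_lit 26528576912) (nat_lit 152) (nat_lit 3690898641) (nat_lit 228) (nat_lit 128524727793) (nat_lit 11)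 (nat_lit 5) (nat_lit 13) (nat_lit 5) (nat_lit 14) (nat_lit 5) (nat_lit 298) (nat_lit 269) (nat_lit 153)))) (XT.nd (nat_lit 78) (nat_lit 76) (nat_lit 0) (XT.lf (nat_lit 0) (nat_lit 54578586770) (nat_lit 228) (nat_lit 81277190140) (nat_lit 76) (nat_lit 32582969401) (nat_lit 11) (nat_lit 5) (nat_lit 14) (nat_lit 5) (nat_lit 12) (nat_lit 4) (nat_lit 299) (nat_lit 269) (nat_lit 152)) (XT.nd (nat_lit 78) (nat_lit 76) (nat_lit 0) (XT.lf (nat_lit 0) (nat_lit 80981597109) (nat_lit 228) (nat_lit 26360701724) (nat_lit 76) (nat_lit 71558942062) (nat_lit 11) (nat_lit 5) (nat_lit 14) (nat_lit 5) (nat_lit 12) (nat_lit 4) (nat_lit 300) (nat_lit 269) (nat_lit 151)) (XT.lf (nat_lit 0) (nat_lit 34683021245) (nat_lit 76) (nat_lit 75647308901) (nat_lit 152) (nat_lit 79803728018) (nat_lit 10) (nat_lit 5) (nat_lit 11) (nat_lit 5) (nat_lit 12) (nat_lit 4) (nat_lit 301) (nat_lit 269) (nat_lit 150))))) (XT.nd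 (nat_lit 234) (nat_lit 76) (nat_lit 0) (XT.nd (nat_lit 78) (nat_lit 76) (nat_lit 0) (XT.lf (nat_lit 0) (nat_lit 102108355891) (nat_lit 76) (nat_lit 40638731363) (nat_lit 152) (nat_lit 59460805071) (nat_lit 10) (nat_lit 5) (nat_lit 11) (nat_lit 5) (nat_lit 12) (nat_lit 4) (nat_lit 302) (nat_lit 269) (nat_lit 149)) (XT.nd (nat_lit 78) (nat_lit 76) (nat_lit 0) (XT.lf (nat_lit 0) (nat_lit 174926751912) (nat_lit 76) (nat_lit 2829856282) (nat_lit 152) (nat_lit 37491072593) (nat_lit 10) (nat_lit 5) (nat_lit 11) (nat_lit 5) (nat_lit 12) (nat_lit 4) (nat_lit 303) (nat_lit 269) (nat_lit 148)) (XT.lf (nat_lit 0) (nat_lit 24553303083) (nat_lit 76) (nat_lit 192517543180) (nat_lit 76) (nat_lit 12139490950) (nat_lit 9) (nat_lit 4) (nat_lit 10) (nat_lit 5) (nat_lit 10) (nat_lit 4) (nat_lit 304) (nat_lit 269) (nat_lit 147)))) (XT.nd (nat_lit 78) (nat_lit 0) (nat_lit 0) (XT.lf (nat_lit 0) (nat_lit 15681884160)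 (nat_lit 152) (nat_lit 147760850522) (nat_lit 76) (nat_lit 80721626854) (nat_lit 8) (nat_lit 5) (nat_lit 10) (nat_lit 5) (nat_lit 9) (nat_lit 4) (nat_lit 305) (nat_lit 269) (nat_lit 146)) (XT.nd (nat_lit 78) (nat_lit 0) (nat_lit 0) (XT.lf (nat_lit 0) (nat_lit 45072622351) (nat_lit 152) (nat_lit 86629149666) (nat_lit 76) (nat_lit 128587751850) (nat_lit 8) (nat_lit 5) (nat_lit 10) (nat_lit 5) (nat_lit 9) (nat_lit 4) (nat_lit 306) (nat_lit 269) (nat_lit 145)) (XT.lf (nat_lit 0) (nat_lit 76814157460) (nat_lit 152) (nat_lit 20607714584) (nat_lit 76) (nat_lit 180282865084) (nat_lit 8) (nat_lit 5) (nat_lit 10) (nat_lit 5) (nat_lit 9) (nat_lit 4) (nat_lit 307) (nat_lit 269) (nat_lit 144)))))) (XT.nd (nat_lit 468) (nat_lit 152) (nat_lit 0) (XT.nd (nat_lit 234) (nat_lit 76) (nat_lit 0) (XT.nd (nat_lit 78) (nat_lit 0) (nat_lit 0) (XT.lf (nat_lit 0) (nat_lit 53364185546) (nat_lit 76) (nat_lit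 59013811874) (nat_lit 152) (nat_lit 184032532368) (nat_lit 7) (nat_lit 5) (nat_lit 8) (nat_lit 5) (nat_lit 9) (nat_lit 4) (nat_lit 308) (nat_lit 269) (nat_lit 143)) (XT.nd (nat_lit 78) (nat_lit 0) (nat_lit 0) (XT.lf (nat_lit 0) (nat_lit 134425093025) (nat_lit 76) (nat_lit 16924889376) (nat_lit 152) (nat_lit 165217761266) (nat_lit 7) (nat_lit 5) (nat_lit 8) (nat_lit 5) (nat_lit 9) (nat_lit 4) (nat_lit 309) (nat_lit 269) (nat_lit 142)) (XT.lf (nat_lit 0) (nat_lit 194125511075) (nat_lit 152) (nat_lit 117053530877) (nat_lit 0) (nat_lit 27103630687) (nat_lit 7) (nat_lit 5) (nat_lit 9) (nat_lit 4) (nat_lit 7) (nat_lit 4) (nat_lit 310) (nat_lit 269) (nat_lit 141)))) (XT.nd (nat_lit 78) (nat_lit 76) (nat_lit 0) (XT.lf (nat_lit 0) (nat_lit 240762328560) (nat_lit 152) (nat_lit 47197532151) (nat_lit 0) (nat_lit 73739796211) (nat_lit 7) (nat_lit 5) (nat_lit 9) (nat_lit 4) (nat_lit 7) (nat_lit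 4) (nat_lit 311) (nat_lit 269) (nat_lit 140)) (XT.nd (nat_lit 78) (nat_lit 0) (nat_lit 0) (XT.lf (nat_lit 0) (nat_lit 29733753793) (nat_lit 76) (nat_lit 262111100888) (nat_lit 76) (nat_lit 95087964870) (nat_lit 6) (nat_lit 4) (nat_lit 7) (nat_lit 5) (nat_lit 7) (nat_lit 4) (nat_lit 312) (nat_lit 269) (nat_lit 139)) (XT.lf (nat_lit 0) (nat_lit 115503127696) (nat_lit 76) (nat_lit 232800995910) (nat_lit 76) (nat_lit 65777300941) (nat_lit 6) (nat_lit 4) (nat_lit 7) (nat_lit 5) (nat_lit 7) (nat_lit 4) (nat_lit 313) (nat_lit 269) (nat_lit 138))))) (XT.nd (nat_lit 234) (nat_lit 76) (nat_lit 0) (XT.nd (nat_lit 78) (nat_lit 76) (nat_lit 0) (XT.lf (nat_lit 0) (nat_lit 208133514111) (nat_lit 76) (nat_lit 201146320437) (nat_lit 76) (nat_lit 34122107920) (nat_lit 6) (nat_lit 4) (nat_lit 7) (nat_lit 5) (nat_lit 7) (nat_lit 4) (nat_lit 314) (nat_lit 269) (nat_lit 137)) (XT.nd (nat_lit 78) (nat_lit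 0) (nat_lit 0) (XT.lf (nat_lit 0) (nat_lit 61938926) (nat_lit 152) (nat_lit 166895858761) (nat_lit 76) (nat_lit 308110201402) (nat_lit 5) (nat_lit 5) (nat_lit 7) (nat_lit 5) (nat_lit 6) (nat_lit 4) (nat_lit 315) (nat_lit 269) (nat_lit 136)) (XT.lf (nat_lit 0) (nat_lit 35136965503) (nat_lit 152) (nat_lit 93940247195) (nat_lit 76) (nat_lit 380119246023) (nat_lit 5) (nat_lit 5) (nat_lit 7) (nat_lit 5) (nat_lit 6) (nat_lit 4) (nat_lit 316) (nat_lit 269) (nat_lit 135)))) (XT.nd (nat_lit 156) (nat_lit 0) (nat_lit 0) (XT.nd (nat_lit 78) (nat_lit 76) (nat_lit 0) (XT.lf (nat_lit 0) (nat_lit 73017749852) (nat_lit 152) (nat_lit 15148626593) (nat_lit 76) (nat_lit 457888838642) (nat_lit 5) (nat_lit 5) (nat_lit 7) (nat_lit 5) (nat_lit 6) (nat_lit 4) (nat_lit 317) (nat_lit 269) (nat_lit 134)) (XT.lf (nat_lit 0) (nat_lit 73629144350) (nat_lit 76) (nat_lit 42070409039) (nat_lit 152) (nat_lit 470021474446)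 (nat_lit 4) (nat_lit 5) (nat_lit 5) (nat_lit 5) (nat_lit 6) (nat_lit 4) (nat_lit 318) (nat_lit 269) (nat_lit 133))) (XT.nd (nat_lit 78) (nat_lit 0) (nat_lit 0) (XT.lf (nat_lit 0) (nat_lit 162406129881) (nat_lit 152) (nat_lit 458352989882) (nat_lit 0) (nat_lit 7752167904) (nat_lit 4) (nat_lit 5) (nat_lit 6) (nat_lit 4) (nat_lit 4) (nat_lit 4) (nat_lit 319) (nat_lit 269) (nat_lit 132)) (XT.lf (nat_lit 0) (nat_lit 213941763611) (nat_lit 152) (nat_lit 401408102868) (nat_lit 0) (nat_lit 59287499649) (nat_lit 4) (nat_lit 5) (nat_lit 6) (nat_lit 4) (nat_lit 4) (nat_lit 4) (nat_lit 320) (nat_lit 269) (nat_lit 131))))))) (XT.nd (nat_lit 1014) (nat_lit 0) (nat_lit 0) (XT.nd (nat_lit 468) (nat_lit 0) (nat_lit 0) (XT.nd (nat_lit 234) (nat_lit 76) (nat_lit 0) (XT.nd (nat_lit 78) (nat_lit 0) (nat_lit 0) (XT.lf (nat_lit 0) (nat_lit 269600056577) (nat_lit 152) (nat_lit 339907976911) (nat_lit 0) (nat_lit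 114945513000) (nat_lit 4) (nat_lit 5) (nat_lit 6) (nat_lit 4) (nat_lit 4) (nat_lit 4) (nat_lit 321) (nat_lit 269) (nat_lit 130)) (XT.nd (nat_lit 78) (nat_lit 0) (nat_lit 0) (XT.lf (nat_lit 0) (nat_lit 329710835701) (nat_lit 152) (nat_lit 273488166822) (nat_lit 0) (nat_lit 175056033222) (nat_lit 4) (nat_lit 5) (nat_lit 6) (nat_lit 4) (nat_lit 4) (nat_lit 4) (nat_lit 322) (nat_lit 269) (nat_lit 129)) (XT.lf (nat_lit 0) (nat_lit 394630313008) (nat_lit 152) (nat_lit 201755073725) (nat_lit 0) (nat_lit 239975270804) (nat_lit 4) (nat_lit 5) (nat_lit 6) (nat_lit 4) (nat_lit 4) (nat_lit 4) (nat_lit 323) (nat_lit 269) (nat_lit 128)))) (XT.nd (nat_lit 78) (nat_lit 76) (nat_lit 0) (XT.lf (nat_lit 0) (nat_lit 464743196510) (nat_lit 152) (nat_lit 124283612623) (nat_lit 0) (nat_lit 310087932339) (nat_lit 4) (nat_lit 5) (nat_lit 6) (nat_lit 4) (nat_lit 4) (nat_lit 4) (nat_lit 324) (nat_lit 269) (nat_lit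 127)) (XT.nd (nat_lit 78) (nat_lit 76) (nat_lit 0) (XT.lf (nat_lit 0) (nat_lit 540464969963) (nat_lit 152) (nat_lit 40614693379) (nat_lit 0) (nat_lit 385809500266) (nat_lit 4) (nat_lit 5) (nat_lit 6) (nat_lit 4) (nat_lit 4) (nat_lit 4) (nat_lit 325) (nat_lit 269) (nat_lit 126)) (XT.lf (nat_lit 0) (nat_lit 52367115007) (nat_lit 76) (nat_lit 571136670355) (nat_lit 76) (nat_lit 416481010356) (nat_lit 3) (nat_lit 4) (nat_lit 4) (nat_lit 5) (nat_lit 4) (nat_lit 4) (nat_lit 326) (nat_lit 269) (nat_lit 125))))) (XT.nd (nat_lit 234) (nat_lit 0) (nat_lit 0) (XT.nd (nat_lit 78) (nat_lit 0) (nat_lit 0) (XT.lf (nat_lit 0) (nat_lit 155097028152) (nat_lit 76) (nat_lit 559199029263) (nat_lit 76) (nat_lit 404543193060) (nat_lit 3) (nat_lit 4) (nat_lit 4) (nat_lit 5) (nat_lit 4) (nat_lit 4) (nat_lit 327) (nat_lit 269) (nat_lit 124)) (XT.nd (nat_lit 78) (nat_lit 0) (nat_lit 0) (XT.lf (nat_lit 0) (nat_lit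 266045118133) (nat_lit 76) (nat_lit 546306476185) (nat_lit 76) (nat_lit 391650476829) (nat_lit 3) (nat_lit 4) (nat_lit 4) (nat_lit 5) (nat_lit 4) (nat_lit 4) (nat_lit 328) (nat_lit 269) (nat_lit 123)) (XT.lf (nat_lit 0) (nat_lit 385868855113) (nat_lit 76) (nat_lit 532382610804) (nat_lit 76) (nat_lit 377726460381) (nat_lit 3) (nat_lit 4) (nat_lit 4) (nat_lit 5) (nat_lit 4) (nat_lit 4) (nat_lit 329) (nat_lit 269) (nat_lit 122)))) (XT.nd (nat_lit 156) (nat_lit 0) (nat_lit 0) (XT.nd (nat_lit 78) (nat_lit 0) (nat_lit 0) (XT.lf (nat_lit 0) (nat_lit 515278305682) (nat_lit 76) (nat_lit 517344921326) (nat_lit 76) (nat_lit 362688631026) (nat_lit 3) (nat_lit 4) (nat_lit 4) (nat_lit 5) (nat_lit 4) (nat_lit 4) (nat_lit 330) (nat_lit 269) (nat_lit 121)) (XT.lf (nat_lit 0) (nat_lit 655040340656) (nat_lit 76) (nat_lit 501104295517) (nat_lit 76) (nat_lit 346447875701) (nat_lit 3) (nat_lit 4) (nat_lit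 4) (nat_lit 5) (nat_lit 4) (nat_lit 4) (nat_lit 331) (nat_lit 269) (nat_lit 120))) (XT.nd (nat_lit 78) (nat_lit 0) (nat_lit 0) (XT.lf (nat_lit 0) (nat_lit 805983179504) (nat_lit 76) (nat_lit 483564492631) (nat_lit 76) (nat_lit 328907952893) (nat_lit 3) (nat_lit 4) (nat_lit 4) (nat_lit 5) (nat_lit 4) (nat_lit 4) (nat_lit 332) (nat_lit 269) (nat_lit 119)) (XT.lf (nat_lit 0) (nat_lit 969001298307) (nat_lit 76) (nat_lit 464621573096) (nat_lit 76) (nat_lit 309964922319) (nat_lit 3) (nat_lit 4) (nat_lit 4) (nat_lit 5) (nat_lit 4) (nat_lit 4) (nat_lit 333) (nat_lit 269) (nat_lit 118)))))) (XT.nd (nat_lit 32838) (nat_lit 0) (nat_lit 2052) (XT.nd (nat_lit 32604) (nat_lit 0) (nat_lit 2508) (XT.nd (nat_lit 78) (nat_lit 0) (nat_lit 0) (XT.lf (nat_lit 0) (nat_lit 1145060730361) (nat_lit 76) (nat_lit 444163282574) (nat_lit 76) (nat_lit 289506528984) (nat_lit 3) (nat_lit 4) (nat_lit 4) (nat_lit 5)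 (nat_lit 4) (nat_lit 4) (nat_lit 334) (nat_lit 269) (nat_lit 117)) (XT.nd (nat_lit 32448) (nat_lit 0) (nat_lit 2508) (XT.lf (nat_lit 0) (nat_lit 1335204790821) (nat_lit 76) (nat_lit 422068386751) (nat_lit 76) (nat_lit 267411537962) (nat_lit 3) (nat_lit 4) (nat_lit 4) (nat_lit 5) (nat_lit 4) (nat_lit 4) (nat_lit 335) (nat_lit 269) (nat_lit 116)) (XT.lf (nat_lit 0) (nat_lit 7454417147) (nat_lit 532) (nat_lit 6600810863) (nat_lit 532) (nat_lit 6600810863) (nat_lit 36) (nat_lit 3) (nat_lit 43) (nat_lit 3) (nat_lit 43) (nat_lit 5) (nat_lit 270) (nat_lit 270) (nat_lit 180)))) (XT.nd (nat_lit 78) (nat_lit 0) (nat_lit 76) (XT.lf (nat_lit 76) (nat_lit 4694124162) (nat_lit 0) (nat_lit 10958173750) (nat_lit 532) (nat_lit 27300313008) (nat_lit 37) (nat_lit 5) (nat_lit 36) (nat_lit 3) (nat_lit 43) (nat_lit 5) (nat_lit 271) (nat_lit 270) (nat_lit 179)) (XT.nd (nat_lit 78) (nat_lit 0) (nat_lit 0)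 (XT.lf (nat_lit 0) (nat_lit 17004105422) (nat_lit 456) (nat_lit 20116825231) (nat_lit 532) (nat_lit 7559564868) (nat_lit 37) (nat_lit 5) (nat_lit 43) (nat_lit 5) (nat_lit 44) (nat_lit 5) (nat_lit 272) (nat_lit 270) (nat_lit 178)) (XT.lf (nat_lit 0) (nat_lit 18745505898) (nat_lit 456) (nat_lit 810576852) (nat_lit 532) (nat_lit 26968029050) (nat_lit 37) (nat_lit 5) (nat_lit 43) (nat_lit 5) (nat_lit 44) (nat_lit 5) (nat_lit 273) (nat_lit 270) (nat_lit 177))))) (XT.nd (nat_lit 234) (nat_lit 532) (nat_lit 0) (XT.nd (nat_lit 78) (nat_lit 0) (nat_lit 76) (XT.lf (nat_lit 76) (nat_lit 21093386752) (nat_lit 0) (nat_lit 37184113) (nat_lit 532) (nat_lit 27344313854) (nat_lit 38) (nat_lit 5) (nat_lit 37) (nat_lit 5) (nat_lit 44) (nat_lit 5) (nat_lit 274) (nat_lit 270) (nat_lit 176)) (XT.nd (nat_lit 78) (nat_lit 0) (nat_lit 0) (XT.lf (nat_lit 0) (nat_lit 24232518177) (nat_lit 456) (nat_lit 6293015001)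 (nat_lit 532) (nat_lit 20014114507) (nat_lit 38) (nat_lit 5) (nat_lit 44) (nat_lit 5) (nat_lit 45) (nat_lit 5) (nat_lit 275) (nat_lit 270) (nat_lit 175)) (XT.lf (nat_lit 76) (nat_lit 17347358060) (nat_lit 0) (nat_lit 10650885991) (nat_lit 532) (nat_lit 24738111134) (nat_lit 39) (nat_lit 5) (nat_lit 38) (nat_lit 5) (nat_lit 45) (nat_lit 5) (nat_lit 276) (nat_lit 270) (nat_lit 174)))) (XT.nd (nat_lit 156) (nat_lit 228) (nat_lit 0) (XT.nd (nat_lit 78) (nat_lit 456) (nat_lit 0) (XT.lf (nat_lit 0) (nat_lit 32499434868) (nat_lit 456) (nat_lit 12124896276) (nat_lit 76) (nat_lit 10449743924) (nat_lit 39) (nat_lit 5) (nat_lit 45) (nat_lit 5) (nat_lit 40) (nat_lit 5) (nat_lit 277) (nat_lit 270) (nat_lit 173)) (XT.lf (nat_lit 0) (nat_lit 13391575438) (nat_lit 456) (nat_lit 24565642024) (nat_lit 532) (nat_lit 19593886779) (nat_lit 33) (nat_lit 5) (nat_lit 39) (nat_lit 5) (nat_lit 40) (nat_lit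 5) (nat_lit 278) (nat_lit 270) (nat_lit 172))) (XT.nd (nat_lit 78) (nat_lit 228) (nat_lit 0) (XT.lf (nat_lit 0) (nat_lit 41636957760) (nat_lit 456) (nat_lit 2544080577) (nat_lit 532) (nat_lit 16018914730) (nat_lit 33) (nat_lit 5) (nat_lit 39) (nat_lit 5) (nat_lit 40) (nat_lit 5) (nat_lit 279) (nat_lit 270) (nat_lit 171)) (XT.lf (nat_lit 0) (nat_lit 9019674107) (nat_lit 228) (nat_lit 42608875789) (nat_lit 304) (nat_lit 11374106891) (nat_lit 30) (nat_lit 5) (nat_lit 33) (nat_lit 5) (nat_lit 34) (nat_lit 5) (nat_lit 280) (nat_lit 270) (nat_lit 170))))))))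
noncomputable def xc99 : XT := (XT.nd (nat_lit 2028) (nat_lit 380) (nat_lit 0) (XT.nd (nat_lit 1014) (nat_lit 684) (nat_lit 0) (XT.nd (nat_lit 468) (nat_lit 532) (nat_lit 0) (XT.nd (nat_lit 234) (nat_lit 228) (nat_lit 0) (XT.nd (nat_lit 78) (nat_lit 228) (nat_lit 0) (XT.lf (nat_lit 0) (nat_lit 39793157644) (nat_lit 228) (nat_lit 20448812580) (nat_lit 304) (nat_lit 5742007018) (nat_lit 30) (nat_lit 5) (nat_lit 33) (nat_lit 5) (nat_lit 34) (nat_lit 5) (nat_lit 281) (nat_lit 270) (nat_lit 169)) (XT.nd (nat_lit 78) (nat_lit 0) (nat_lit 0) (XT.lf (nat_lit 0) (nat_lit 504942102) (nat_lit 228) (nat_lit 65266575863) (nat_lit 76) (nat_lit 3417131909) (nat_lit 27) (nat_lit 5) (nat_lit 30) (nat_lit 5) (nat_lit 28) (nat_lit 5) (nat_lit 282) (nat_lit 270) (nat_lit 168)) (XT.lf (nat_lit 0) (nat_lit 8205592968) (nat_lit 228) (nat_lit 35359775087) (nat_lit 76) (nat_lit 28971270947) (nat_lit 27) (nat_lit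 5) (nat_lit 30) (nat_lit 5) (nat_lit 28) (nat_lit 5) (nat_lit 283) (nat_lit 270) (nat_lit 167)))) (XT.nd (nat_lit 78) (nat_lit 228) (nat_lit 0) (XT.lf (nat_lit 0) (nat_lit 16520742049) (nat_lit 228) (nat_lit 3062263727) (nat_lit 76) (nat_lit 56569592455) (nat_lit 27) (nat_lit 5) (nat_lit 30) (nat_lit 5) (nat_lit 28) (nat_lit 5) (nat_lit 284) (nat_lit 270) (nat_lit 166)) (XT.nd (nat_lit 78) (nat_lit 0) (nat_lit 0) (XT.lf (nat_lit 0) (nat_lit 26478029515) (nat_lit 304) (nat_lit 46673581736) (nat_lit 76) (nat_lit 6828075001) (nat_lit 24) (nat_lit 5) (nat_lit 28) (nat_lit 5) (nat_lit 25) (nat_lit 5) (nat_lit 285) (nat_lit 270) (nat_lit 165)) (XT.lf (nat_lit 0) (nat_lit 37825073167) (nat_lit 304) (nat_lit 11860734829) (nat_lit 76) (nat_lit 34379685176) (nat_lit 24) (nat_lit 5) (nat_lit 28) (nat_lit 5) (nat_lit 25) (nat_lit 5) (nat_lit 286) (nat_lit 270) (nat_lit 164))))) (XT.nd (nat_lit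 234) (nat_lit 228) (nat_lit 0) (XT.nd (nat_lit 78) (nat_lit 152) (nat_lit 0) (XT.lf (nat_lit 0) (nat_lit 27090693289) (nat_lit 152) (nat_lit 23639442205) (nat_lit 228) (nat_lit 37696014026) (nat_lit 22) (nat_lit 5) (nat_lit 24) (nat_lit 5) (nat_lit 25) (nat_lit 5) (nat_lit 287) (nat_lit 270) (nat_lit 163)) (XT.nd (nat_lit 78) (nat_lit 152) (nat_lit 0) (XT.lf (nat_lit 0) (nat_lit 65107090079) (nat_lit 228) (nat_lit 23395056780) (nat_lit 76) (nat_lit 4598357433) (nat_lit 22) (nat_lit 5) (nat_lit 25) (nat_lit 5) (nat_lit 23) (nat_lit 5) (nat_lit 288) (nat_lit 270) (nat_lit 162)) (XT.lf (nat_lit 0) (nat_lit 17858349943) (nat_lit 152) (nat_lit 63818218102) (nat_lit 228) (nat_lit 16388854573) (nat_lit 20) (nat_lit 5) (nat_lit 22) (nat_lit 5) (nat_lit 23) (nat_lit 5) (nat_lit 289) (nat_lit 270) (nat_lit 161)))) (XT.nd (nat_lit 156) (nat_lit 0) (nat_lit 0) (XT.nd (nat_lit 78) (nat_lit 228)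 (nat_lit 0) (XT.lf (nat_lit 0) (nat_lit 63741006123) (nat_lit 152) (nat_lit 36469169961) (nat_lit 228) (nat_lit 3166276779) (nat_lit 20) (nat_lit 5) (nat_lit 22) (nat_lit 5) (nat_lit 23) (nat_lit 5) (nat_lit 290) (nat_lit 270) (nat_lit 160)) (XT.lf (nat_lit 0) (nat_lit 4119207787) (nat_lit 152) (nat_lit 6536954221) (nat_lit 228) (nat_lit 98426981361) (nat_lit 17) (nat_lit 5) (nat_lit 19) (nat_lit 5) (nat_lit 20) (nat_lit 5) (nat_lit 291) (nat_lit 270) (nat_lit 159))) (XT.nd (nat_lit 78) (nat_lit 0) (nat_lit 0) (XT.lf (nat_lit 0) (nat_lit 27144425066) (nat_lit 228) (nat_lit 62263472494) (nat_lit 76) (nat_lit 25693408383) (nat_lit 17) (nat_lit 5) (nat_lit 20) (nat_lit 5) (nat_lit 18) (nat_lit 5) (nat_lit 292) (nat_lit 270) (nat_lit 158)) (XT.lf (nat_lit 0) (nat_lit 45120607428) (nat_lit 228) (nat_lit 16318154084) (nat_lit 76) (nat_lit 60148654439) (nat_lit 17) (nat_lit 5) (nat_lit 20)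 (nat_lit 5) (nat_lit 18) (nat_lit 5) (nat_lit 293) (nat_lit 270) (nat_lit 157)))))) (XT.nd (nat_lit 468) (nat_lit 228) (nat_lit 0) (XT.nd (nat_lit 234) (nat_lit 228) (nat_lit 0) (XT.nd (nat_lit 78) (nat_lit 76) (nat_lit 0) (XT.lf (nat_lit 0) (nat_lit 35055100192) (nat_lit 152) (nat_lit 30321996521) (nat_lit 228) (nat_lit 63147943916) (nat_lit 15) (nat_lit 5) (nat_lit 17) (nat_lit 5) (nat_lit 18) (nat_lit 5) (nat_lit 294) (nat_lit 270) (nat_lit 156)) (XT.nd (nat_lit 78) (nat_lit 76) (nat_lit 0) (XT.lf (nat_lit 0) (nat_lit 87790003966) (nat_lit 228) (nat_lit 44607624785) (nat_lit 76) (nat_lit 3577177270) (nat_lit 15) (nat_lit 5) (nat_lit 18) (nat_lit 5) (nat_lit 16) (nat_lit 4) (nat_lit 295) (nat_lit 270) (nat_lit 155)) (XT.lf (nat_lit 0) (nat_lit 7763223077) (nat_lit 76) (nat_lit 105206232875) (nat_lit 152) (nat_lit 30973218170) (nat_lit 14) (nat_lit 5) (nat_lit 15) (nat_lit 5) (nat_lit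 16) (nat_lit 4) (nat_lit 296) (nat_lit 270) (nat_lit 154)))) (XT.nd (nat_lit 78) (nat_lit 228) (nat_lit 0) (XT.lf (nat_lit 0) (nat_lit 66859428141) (nat_lit 76) (nat_lit 74522738698) (nat_lit 152) (nat_lit 11068294881) (nat_lit 14) (nat_lit 5) (nat_lit 15) (nat_lit 5) (nat_lit 16) (nat_lit 4) (nat_lit 297) (nat_lit 270) (nat_lit 153)) (XT.nd (nat_lit 78) (nat_lit 152) (nat_lit 0) (XT.lf (nat_lit 0) (nat_lit 9906607028) (nat_lit 152) (nat_lit 31207498401) (nat_lit 76) (nat_lit 120504760448) (nat_lit 13) (nat_lit 5) (nat_lit 15) (nat_lit 5) (nat_lit 14) (nat_lit 5) (nat_lit 298) (nat_lit 270) (nat_lit 152)) (XT.lf (nat_lit 0) (nat_lit 28672492416) (nat_lit 152) (nat_lit 3977946923) (nat_lit 228) (nat_lit 138792192681) (nat_lit 11) (nat_lit 5) (nat_lit 13) (nat_lit 5) (nat_lit 14) (nat_lit 5) (nat_lit 299) (nat_lit 270) (nat_lit 151))))) (XT.nd (nat_lit 234) (nat_lit 152) (nat_lit 0)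 (XT.nd (nat_lit 78) (nat_lit 76) (nat_lit 0) (XT.lf (nat_lit 0) (nat_lit 58957469564) (nat_lit 228) (nat_lit 87758495753) (nat_lit 76) (nat_lit 35196840500) (nat_lit 11) (nat_lit 5) (nat_lit 14) (nat_lit 5) (nat_lit 12) (nat_lit 4) (nat_lit 300) (nat_lit 270) (nat_lit 150)) (XT.nd (nat_lit 78) (nat_lit 76) (nat_lit 0) (XT.lf (nat_lit 0) (nat_lit 87471787704) (nat_lit 228) (nat_lit 28450234160) (nat_lit 76) (nat_lit 77290355156) (nat_lit 11) (nat_lit 5) (nat_lit 14) (nat_lit 5) (nat_lit 12) (nat_lit 4) (nat_lit 301) (nat_lit 270) (nat_lit 149)) (XT.lf (nat_lit 0) (nat_lit 37476497439) (nat_lit 76) (nat_lit 81691511002) (nat_lit 152) (nat_lit 86175846336) (nat_lit 10) (nat_lit 5) (nat_lit 11) (nat_lit 5) (nat_lit 12) (nat_lit 4) (nat_lit 302) (nat_lit 270) (nat_lit 148)))) (XT.nd (nat_lit 156) (nat_lit 152) (nat_lit 0) (XT.nd (nat_lit 78) (nat_lit 0) (nat_lit 0) (XT.lf (nat_lit 0) (nat_lit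 110294463709) (nat_lit 76) (nat_lit 43882808936) (nat_lit 152) (nat_lit 64206391770) (nat_lit 10) (nat_lit 5) (nat_lit 11) (nat_lit 5) (nat_lit 12) (nat_lit 4) (nat_lit 303) (nat_lit 270) (nat_lit 147)) (XT.lf (nat_lit 0) (nat_lit 188937039608) (nat_lit 76) (nat_lit 3049743918) (nat_lit 152) (nat_lit 40479916079) (nat_lit 10) (nat_lit 5) (nat_lit 11) (nat_lit 5) (nat_lit 12) (nat_lit 4) (nat_lit 304) (nat_lit 270) (nat_lit 146))) (XT.nd (nat_lit 78) (nat_lit 76) (nat_lit 0) (XT.lf (nat_lit 0) (nat_lit 26533929188) (nat_lit 76) (nat_lit 207912055152) (nat_lit 76) (nat_lit 13100400081) (nat_lit 9) (nat_lit 4) (nat_lit 10) (nat_lit 5) (nat_lit 10) (nat_lit 4) (nat_lit 305) (nat_lit 270) (nat_lit 145)) (XT.lf (nat_lit 0) (nat_lit 16945450996) (nat_lit 152) (nat_lit 159566074942) (nat_lit 76) (nat_lit 87185244252) (nat_lit 8) (nat_lit 5) (nat_lit 10) (nat_lit 5) (nat_lit 9) (nat_lit 4)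 (nat_lit 306) (nat_lit 270) (nat_lit 144))))))) (XT.nd (nat_lit 1014) (nat_lit 76) (nat_lit 0) (XT.nd (nat_lit 468) (nat_lit 228) (nat_lit 0) (XT.nd (nat_lit 234) (nat_lit 0) (nat_lit 0) (XT.nd (nat_lit 78) (nat_lit 76) (nat_lit 0) (XT.lf (nat_lit 0) (nat_lit 48686780383) (nat_lit 152) (nat_lit 93544996804) (nat_lit 76) (nat_lit 138880223155) (nat_lit 8) (nat_lit 5) (nat_lit 10) (nat_lit 5) (nat_lit 9) (nat_lit 4) (nat_lit 307) (nat_lit 270) (nat_lit 143)) (XT.nd (nat_lit 78) (nat_lit 76) (nat_lit 0) (XT.lf (nat_lit 0) (nat_lit 82967019912) (nat_lit 152) (nat_lit 22242919866) (nat_lit 76) (nat_lit 194710541658) (nat_lit 8) (nat_lit 5) (nat_lit 10) (nat_lit 5) (nat_lit 9) (nat_lit 4) (nat_lit 308) (nat_lit 270) (nat_lit 142)) (XT.lf (nat_lit 0) (nat_lit 57646392733) (nat_lit 76) (nat_lit 63729316144) (nat_lit 152) (nat_lit 198747050493) (nat_lit 7) (nat_lit 5) (nat_lit 8) (nat_lit 5)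 (nat_lit 9) (nat_lit 4) (nat_lit 309) (nat_lit 270) (nat_lit 141)))) (XT.nd (nat_lit 78) (nat_lit 0) (nat_lit 0) (XT.lf (nat_lit 0) (nat_lit 145191204489) (nat_lit 76) (nat_lit 18273694712) (nat_lit 152) (nat_lit 178427696552) (nat_lit 7) (nat_lit 5) (nat_lit 8) (nat_lit 5) (nat_lit 9) (nat_lit 4) (nat_lit 310) (nat_lit 270) (nat_lit 140)) (XT.nd (nat_lit 78) (nat_lit 0) (nat_lit 0) (XT.lf (nat_lit 0) (nat_lit 209662073189) (nat_lit 152) (nat_lit 126406196023) (nat_lit 0) (nat_lit 29276482622) (nat_lit 7) (nat_lit 5) (nat_lit 9) (nat_lit 4) (nat_lit 7) (nat_lit 4) (nat_lit 311) (nat_lit 270) (nat_lit 139)) (XT.lf (nat_lit 0) (nat_lit 260029353019) (nat_lit 152) (nat_lit 50962577941) (nat_lit 0) (nat_lit 79643203501) (nat_lit 7) (nat_lit 5) (nat_lit 9) (nat_lit 4) (nat_lit 7) (nat_lit 4) (nat_lit 312) (nat_lit 270) (nat_lit 138))))) (XT.nd (nat_lit 234) (nat_lit 152) (nat_lit 0) (XT.nd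 (nat_lit 78) (nat_lit 0) (nat_lit 0) (XT.lf (nat_lit 0) (nat_lit 32122938555) (nat_lit 76) (nat_lit 283075347554) (nat_lit 76) (nat_lit 102688680487) (nat_lit 6) (nat_lit 4) (nat_lit 7) (nat_lit 5) (nat_lit 7) (nat_lit 4) (nat_lit 313) (nat_lit 270) (nat_lit 137)) (XT.nd (nat_lit 78) (nat_lit 0) (nat_lit 0) (XT.lf (nat_lit 0) (nat_lit 124753085743) (nat_lit 76) (nat_lit 251420777985) (nat_lit 76) (nat_lit 71033631708) (nat_lit 6) (nat_lit 4) (nat_lit 7) (nat_lit 5) (nat_lit 7) (nat_lit 4) (nat_lit 314) (nat_lit 270) (nat_lit 136)) (XT.lf (nat_lit 0) (nat_lit 224793183974) (nat_lit 76) (nat_lit 217234046815) (nat_lit 76) (nat_lit 36846456824) (nat_lit 6) (nat_lit 4) (nat_lit 7) (nat_lit 5) (nat_lit 7) (nat_lit 4) (nat_lit 315) (nat_lit 270) (nat_lit 135)))) (XT.nd (nat_lit 156) (nat_lit 76) (nat_lit 0) (XT.nd (nat_lit 78) (nat_lit 0) (nat_lit 0) (XT.lf (nat_lit 0) (nat_lit 71661274)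 (nat_lit 152) (nat_lit 180238945386) (nat_lit 76) (nat_lit 332762442837) (nat_lit 5) (nat_lit 5) (nat_lit 7) (nat_lit 5) (nat_lit 6) (nat_lit 4) (nat_lit 316) (nat_lit 270) (nat_lit 134)) (XT.lf (nat_lit 0) (nat_lit 37952336848) (nat_lit 152) (nat_lit 101447520604) (nat_lit 76) (nat_lit 410531957299) (nat_lit 5) (nat_lit 5) (nat_lit 7) (nat_lit 5) (nat_lit 6) (nat_lit 4) (nat_lit 317) (nat_lit 270) (nat_lit 133))) (XT.nd (nat_lit 78) (nat_lit 76) (nat_lit 0) (XT.lf (nat_lit 0) (nat_lit 78863256975) (nat_lit 152) (nat_lit 16353158974) (nat_lit 76) (nat_lit 494522882395) (nat_lit 5) (nat_lit 5) (nat_lit 7) (nat_lit 5) (nat_lit 6) (nat_lit 4) (nat_lit 318) (nat_lit 270) (nat_lit 132)) (XT.lf (nat_lit 0) (nat_lit 79526647373) (nat_lit 76) (nat_lit 45432827146) (nat_lit 152) (nat_lit 507618912533) (nat_lit 4) (nat_lit 5) (nat_lit 5) (nat_lit 5) (nat_lit 6) (nat_lit 4) (nat_lit 319) (nat_lit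 270) (nat_lit 131)))))) (XT.nd (nat_lit 468) (nat_lit 76) (nat_lit 0) (XT.nd (nat_lit 234) (nat_lit 0) (nat_lit 0) (XT.nd (nat_lit 78) (nat_lit 0) (nat_lit 0) (XT.lf (nat_lit 0) (nat_lit 175402355614) (nat_lit 152) (nat_lit 495014361319) (nat_lit 0) (nat_lit 8375168937) (nat_lit 4) (nat_lit 5) (nat_lit 6) (nat_lit 4) (nat_lit 4) (nat_lit 4) (nat_lit 320) (nat_lit 270) (nat_lit 130)) (XT.nd (nat_lit 78) (nat_lit 0) (nat_lit 0) (XT.lf (nat_lit 0) (nat_lit 231060563350) (nat_lit 152) (nat_lit 433514392066) (nat_lit 0) (nat_lit 64033117770) (nat_lit 4) (nat_lit 5) (nat_lit 6) (nat_lit 4) (nat_lit 4) (nat_lit 4) (nat_lit 321) (nat_lit 270) (nat_lit 129)) (XT.lf (nat_lit 0) (nat_lit 291171263557) (nat_lit 152) (nat_lit 367094727072) (nat_lit 0) (nat_lit 124143578252) (nat_lit 4) (nat_lit 5) (nat_lit 6) (nat_lit 4) (nat_lit 4) (nat_lit 4) (nat_lit 322) (nat_lit 270) (nat_lit 128)))) (XT.nd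 (nat_lit 78) (nat_lit 0) (nat_lit 0) (XT.lf (nat_lit 0) (nat_lit 356090667792) (nat_lit 152) (nat_lit 295361768323) (nat_lit 0) (nat_lit 189062760520) (nat_lit 4) (nat_lit 5) (nat_lit 6) (nat_lit 4) (nat_lit 4) (nat_lit 4) (nat_lit 323) (nat_lit 270) (nat_lit 127)) (XT.nd (nat_lit 78) (nat_lit 0) (nat_lit 0) (XT.lf (nat_lit 0) (nat_lit 426203483636) (nat_lit 152) (nat_lit 217890431618) (nat_lit 0) (nat_lit 259175370839) (nat_lit 4) (nat_lit 5) (nat_lit 6) (nat_lit 4) (nat_lit 4) (nat_lit 4) (nat_lit 324) (nat_lit 270) (nat_lit 126)) (XT.lf (nat_lit 0) (nat_lit 501925194442) (nat_lit 152) (nat_lit 134221627556) (nat_lit 0) (nat_lit 334896891343) (nat_lit 4) (nat_lit 5) (nat_lit 6) (nat_lit 4) (nat_lit 4) (nat_lit 4) (nat_lit 325) (nat_lit 270) (nat_lit 125))))) (XT.nd (nat_lit 234) (nat_lit 0) (nat_lit 0) (XT.nd (nat_lit 78) (nat_lit 76) (nat_lit 0) (XT.lf (nat_lit 0) (nat_lit 583704521460)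 (nat_lit 152) (nat_lit 43859540999) (nat_lit 0) (nat_lit 416676042156) (nat_lit 4) (nat_lit 5) (nat_lit 6) (nat_lit 4) (nat_lit 4) (nat_lit 4) (nat_lit 326) (nat_lit 270) (nat_lit 124)) (XT.nd (nat_lit 78) (nat_lit 0) (nat_lit 0) (XT.lf (nat_lit 0) (nat_lit 56560702492) (nat_lit 76) (nat_lit 616825666685) (nat_lit 76) (nat_lit 449797024228) (nat_lit 3) (nat_lit 4) (nat_lit 4) (nat_lit 5) (nat_lit 4) (nat_lit 4) (nat_lit 327) (nat_lit 270) (nat_lit 123)) (XT.lf (nat_lit 0) (nat_lit 167508696223) (nat_lit 76) (nat_lit 603933157810) (nat_lit 76) (nat_lit 436904364286) (nat_lit 3) (nat_lit 4) (nat_lit 4) (nat_lit 5) (nat_lit 4) (nat_lit 4) (nat_lit 328) (nat_lit 270) (nat_lit 122)))) (XT.nd (nat_lit 156) (nat_lit 0) (nat_lit 0) (XT.nd (nat_lit 78) (nat_lit 0) (nat_lit 0) (XT.lf (nat_lit 0) (nat_lit 287332344083) (nat_lit 76) (nat_lit 590009333359) (nat_lit 76) (nat_lit 422980399958) (nat_lit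 3) (nat_lit 4) (nat_lit 4) (nat_lit 5) (nat_lit 4) (nat_lit 4) (nat_lit 329) (nat_lit 270) (nat_lit 121)) (XT.lf (nat_lit 0) (nat_lit 416741712132) (nat_lit 76) (nat_lit 574971681779) (nat_lit 76) (nat_lit 407942618861) (nat_lit 3) (nat_lit 4) (nat_lit 4) (nat_lit 5) (nat_lit 4) (nat_lit 4) (nat_lit 330) (nat_lit 270) (nat_lit 120))) (XT.nd (nat_lit 78) (nat_lit 0) (nat_lit 0) (XT.lf (nat_lit 0) (nat_lit 556503670701) (nat_lit 76) (nat_lit 558731091060) (nat_lit 76) (nat_lit 391701908221) (nat_lit 3) (nat_lit 4) (nat_lit 4) (nat_lit 5) (nat_lit 4) (nat_lit 4) (nat_lit 331) (nat_lit 270) (nat_lit 119)) (XT.lf (nat_lit 0) (nat_lit 707446438802) (nat_lit 76) (nat_lit 541191320666) (nat_lit 76) (nat_lit 374162026788) (nat_lit 3) (nat_lit 4) (nat_lit 4) (nat_lit 5) (nat_lit 4) (nat_lit 4) (nat_lit 332) (nat_lit 270) (nat_lit 118))))))))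
noncomputable def xc100 : XT := (XT.nd (nat_lit 34398) (nat_lit 0) (nat_lit 152) (XT.nd (nat_lit 33384) (nat_lit 0) (nat_lit 1064) (XT.nd (nat_lit 32916) (nat_lit 0) (nat_lit 2280) (XT.nd (nat_lit 32682) (nat_lit 0) (nat_lit 2508) (XT.nd (nat_lit 78) (nat_lit 0) (nat_lit 0) (XT.lf (nat_lit 0) (nat_lit 870464492099) (nat_lit 76) (nat_lit 522248431215) (nat_lit 76) (nat_lit 355219034523) (nat_lit 3) (nat_lit 4) (nat_lit 4) (nat_lit 5) (nat_lit 4) (nat_lit 4) (nat_lit 333) (nat_lit 270) (nat_lit 117)) (XT.nd (nat_lit 78) (nat_lit 0) (nat_lit 0) (XT.lf (nat_lit 0) (nat_lit 1046523863500) (nat_lit 76) (nat_lit 501790168549) (nat_lit 76) (nat_lit 334760676659) (nat_lit 3) (nat_lit 4) (nat_lit 4) (nat_lit 5) (nat_lit 4) (nat_lit 4) (nat_lit 334) (nat_lit 270) (nat_lit 116)) (XT.lf (nat_lit 0) (nat_lit 1236667867798) (nat_lit 76) (nat_lit 479695298519) (nat_lit 76) (nat_lit 312665718482) (nat_lit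 3) (nat_lit 4) (nat_lit 4) (nat_lit 5) (nat_lit 4) (nat_lit 4) (nat_lit 335) (nat_lit 270) (nat_lit 115)))) (XT.nd (nat_lit 78) (nat_lit 0) (nat_lit 0) (XT.lf (nat_lit 0) (nat_lit 8084164059) (nat_lit 532) (nat_lit 7110754839) (nat_lit 532) (nat_lit 7110754839) (nat_lit 36) (nat_lit 3) (nat_lit 43) (nat_lit 3) (nat_lit 43) (nat_lit 5) (nat_lit 271) (nat_lit 271) (nat_lit 178)) (XT.nd (nat_lit 78) (nat_lit 0) (nat_lit 76) (XT.lf (nat_lit 76) (nat_lit 5104978368) (nat_lit 0) (nat_lit 11862192816) (nat_lit 532) (nat_lit 29416306115) (nat_lit 37) (nat_lit 5) (nat_lit 36) (nat_lit 3) (nat_lit 43) (nat_lit 5) (nat_lit 272) (nat_lit 271) (nat_lit 177)) (XT.lf (nat_lit 0) (nat_lit 18421870250) (nat_lit 456) (nat_lit 21687907452) (nat_lit 532) (nat_lit 8140259456) (nat_lit 37) (nat_lit 5) (nat_lit 43) (nat_lit 5) (nat_lit 44) (nat_lit 5) (nat_lit 273) (nat_lit 271) (nat_lit 176))))) (XT.nd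 (nat_lit 234) (nat_lit 304) (nat_lit 0) (XT.nd (nat_lit 78) (nat_lit 0) (nat_lit 0) (XT.lf (nat_lit 0) (nat_lit 20298328216) (nat_lit 456) (nat_lit 839993557) (nat_lit 532) (nat_lit 29103183780) (nat_lit 37) (nat_lit 5) (nat_lit 43) (nat_lit 5) (nat_lit 44) (nat_lit 5) (nat_lit 274) (nat_lit 271) (nat_lit 175)) (XT.nd (nat_lit 78) (nat_lit 0) (nat_lit 76) (XT.lf (nat_lit 76) (nat_lit 22815390187) (nat_lit 0) (nat_lit 55699305) (nat_lit 532) (nat_lit 29477520314) (nat_lit 38) (nat_lit 5) (nat_lit 37) (nat_lit 5) (nat_lit 44) (nat_lit 5) (nat_lit 275) (nat_lit 271) (nat_lit 174)) (XT.lf (nat_lit 0) (nat_lit 26217137418) (nat_lit 456) (nat_lit 6760185893) (nat_lit 532) (nat_lit 21601574161) (nat_lit 38) (nat_lit 5) (nat_lit 44) (nat_lit 5) (nat_lit 45) (nat_lit 5) (nat_lit 276) (nat_lit 271) (nat_lit 173)))) (XT.nd (nat_lit 78) (nat_lit 380) (nat_lit 0) (XT.lf (nat_lit 76) (nat_lit 18770498777)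 (nat_lit 0) (nat_lit 11511064078) (nat_lit 532) (nat_lit 26670001221) (nat_lit 39) (nat_lit 5) (nat_lit 38) (nat_lit 5) (nat_lit 45) (nat_lit 5) (nat_lit 277) (nat_lit 271) (nat_lit 172)) (XT.nd (nat_lit 78) (nat_lit 456) (nat_lit 0) (XT.lf (nat_lit 0) (nat_lit 35139449196) (nat_lit 456) (nat_lit 13058548557) (nat_lit 76) (nat_lit 11278592279) (nat_lit 39) (nat_lit 5) (nat_lit 45) (nat_lit 5) (nat_lit 40) (nat_lit 5) (nat_lit 278) (nat_lit 271) (nat_lit 171)) (XT.lf (nat_lit 0) (nat_lit 14498320909) (nat_lit 456) (nat_lit 26533417953) (nat_lit 532) (nat_lit 21120227198) (nat_lit 33) (nat_lit 5) (nat_lit 39) (nat_lit 5) (nat_lit 40) (nat_lit 5) (nat_lit 279) (nat_lit 271) (nat_lit 170)))))) (XT.nd (nat_lit 468) (nat_lit 760) (nat_lit 0) (XT.nd (nat_lit 234) (nat_lit 228) (nat_lit 0) (XT.nd (nat_lit 78) (nat_lit 228) (nat_lit 0) (XT.lf (nat_lit 0) (nat_lit 45000710155) (nat_lit 456)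 (nat_lit 2749944586) (nat_lit 532) (nat_lit 17262307053) (nat_lit 33) (nat_lit 5) (nat_lit 39) (nat_lit 5) (nat_lit 40) (nat_lit 5) (nat_lit 280) (nat_lit 271) (nat_lit 169)) (XT.nd (nat_lit 78) (nat_lit 0) (nat_lit 0) (XT.lf (nat_lit 0) (nat_lit 9776180218) (nat_lit 228) (nat_lit 46015972602) (nat_lit 304) (nat_lit 12247887244) (nat_lit 30) (nat_lit 5) (nat_lit 33) (nat_lit 5) (nat_lit 34) (nat_lit 5) (nat_lit 281) (nat_lit 271) (nat_lit 168)) (XT.lf (nat_lit 0) (nat_lit 43008954869) (nat_lit 228) (nat_lit 22083223837) (nat_lit 304) (nat_lit 6167897025) (nat_lit 30) (nat_lit 5) (nat_lit 33) (nat_lit 5) (nat_lit 34) (nat_lit 5) (nat_lit 282) (nat_lit 271) (nat_lit 167)))) (XT.nd (nat_lit 78) (nat_lit 0) (nat_lit 0) (XT.lf (nat_lit 0) (nat_lit 575652572) (nat_lit 228) (nat_lit 70452131485) (nat_lit 76) (nat_lit 3693402607) (nat_lit 27) (nat_lit 5) (nat_lit 30) (nat_lit 5) (nat_lit 28)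 (nat_lit 5) (nat_lit 283) (nat_lit 271) (nat_lit 166)) (XT.nd (nat_lit 78) (nat_lit 0) (nat_lit 0) (XT.lf (nat_lit 0) (nat_lit 8890109945) (nat_lit 228) (nat_lit 38155436310) (nat_lit 76) (nat_lit 31291657942) (nat_lit 27) (nat_lit 5) (nat_lit 30) (nat_lit 5) (nat_lit 28) (nat_lit 5) (nat_lit 284) (nat_lit 271) (nat_lit 165)) (XT.lf (nat_lit 0) (nat_lit 17868391727) (nat_lit 228) (nat_lit 3276577433) (nat_lit 76) (nat_lit 61097646259) (nat_lit 27) (nat_lit 5) (nat_lit 30) (nat_lit 5) (nat_lit 28) (nat_lit 5) (nat_lit 285) (nat_lit 271) (nat_lit 164))))) (XT.nd (nat_lit 234) (nat_lit 380) (nat_lit 0) (XT.nd (nat_lit 78) (nat_lit 152) (nat_lit 0) (XT.lf (nat_lit 0) (nat_lit 28621178685) (nat_lit 304) (nat_lit 50375614186) (nat_lit 76) (nat_lit 7379172546) (nat_lit 24) (nat_lit 5) (nat_lit 28) (nat_lit 5) (nat_lit 25) (nat_lit 5) (nat_lit 286) (nat_lit 271) (nat_lit 163)) (XT.nd (nat_lit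 78) (nat_lit 152) (nat_lit 0) (XT.lf (nat_lit 0) (nat_lit 40874140880) (nat_lit 304) (nat_lit 12780099088) (nat_lit 76) (nat_lit 37134552161) (nat_lit 24) (nat_lit 5) (nat_lit 28) (nat_lit 5) (nat_lit 25) (nat_lit 5) (nat_lit 287) (nat_lit 271) (nat_lit 162)) (XT.lf (nat_lit 0) (nat_lit 29286696582) (nat_lit 152) (nat_lit 25523894711) (nat_lit 228) (nat_lit 40687798122) (nat_lit 22) (nat_lit 5) (nat_lit 24) (nat_lit 5) (nat_lit 25) (nat_lit 5) (nat_lit 288) (nat_lit 271) (nat_lit 161)))) (XT.nd (nat_lit 156) (nat_lit 228) (nat_lit 0) (XT.nd (nat_lit 78) (nat_lit 152) (nat_lit 0) (XT.lf (nat_lit 0) (nat_lit 70336218548) (nat_lit 228) (nat_lit 25238477347) (nat_lit 76) (nat_lit 4972121922) (nat_lit 22) (nat_lit 5) (nat_lit 25) (nat_lit 5) (nat_lit 23) (nat_lit 5) (nat_lit 289) (nat_lit 271) (nat_lit 160)) (XT.lf (nat_lit 0) (nat_lit 19314488395) (nat_lit 152) (nat_lit 68915903965) (nat_lit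 228) (nat_lit 17678612309) (nat_lit 20) (nat_lit 5) (nat_lit 22) (nat_lit 5) (nat_lit 23) (nat_lit 5) (nat_lit 290) (nat_lit 271) (nat_lit 159))) (XT.nd (nat_lit 78) (nat_lit 228) (nat_lit 0) (XT.lf (nat_lit 0) (nat_lit 68865722220) (nat_lit 152) (nat_lit 39379507646) (nat_lit 228) (nat_lit 3399809819) (nat_lit 20) (nat_lit 5) (nat_lit 22) (nat_lit 5) (nat_lit 23) (nat_lit 5) (nat_lit 291) (nat_lit 271) (nat_lit 158)) (XT.lf (nat_lit 0) (nat_lit 4474563354) (nat_lit 152) (nat_lit 7052101608) (nat_lit 228) (nat_lit 106281628866) (nat_lit 17) (nat_lit 5) (nat_lit 19) (nat_lit 5) (nat_lit 20) (nat_lit 5) (nat_lit 292) (nat_lit 271) (nat_lit 157))))))) (XT.nd (nat_lit 1014) (nat_lit 380) (nat_lit 0) (XT.nd (nat_lit 468) (nat_lit 304) (nat_lit 0) (XT.nd (nat_lit 234) (nat_lit 76) (nat_lit 0) (XT.nd (nat_lit 78) (nat_lit 152) (nat_lit 0) (XT.lf (nat_lit 0) (nat_lit 29332828886) (nat_lit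 228) (nat_lit 67219427933) (nat_lit 76) (nat_lit 27755749864) (nat_lit 17) (nat_lit 5) (nat_lit 20) (nat_lit 5) (nat_lit 18) (nat_lit 5) (nat_lit 293) (nat_lit 271) (nat_lit 156)) (XT.nd (nat_lit 78) (nat_lit 152) (nat_lit 0) (XT.lf (nat_lit 0) (nat_lit 48745857702) (nat_lit 228) (nat_lit 17600344966) (nat_lit 76) (nat_lit 64966906804) (nat_lit 17) (nat_lit 5) (nat_lit 20) (nat_lit 5) (nat_lit 18) (nat_lit 5) (nat_lit 294) (nat_lit 271) (nat_lit 155)) (XT.lf (nat_lit 0) (nat_lit 37882180755) (nat_lit 152) (nat_lit 32740074970) (nat_lit 228) (nat_lit 68183541054) (nat_lit 15) (nat_lit 5) (nat_lit 17) (nat_lit 5) (nat_lit 18) (nat_lit 5) (nat_lit 295) (nat_lit 271) (nat_lit 154)))) (XT.nd (nat_lit 78) (nat_lit 76) (nat_lit 0) (XT.lf (nat_lit 0) (nat_lit 94827256144) (nat_lit 228) (nat_lit 48154257997) (nat_lit 76) (nat_lit 3870107955) (nat_lit 15) (nat_lit 5) (nat_lit 18) (nat_lit 5)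 (nat_lit 16) (nat_lit 4) (nat_lit 296) (nat_lit 271) (nat_lit 153)) (XT.nd (nat_lit 78) (nat_lit 0) (nat_lit 0) (XT.lf (nat_lit 0) (nat_lit 8405701320) (nat_lit 76) (nat_lit 113614837251) (nat_lit 152) (nat_lit 33436426410) (nat_lit 14) (nat_lit 5) (nat_lit 15) (nat_lit 5) (nat_lit 16) (nat_lit 4) (nat_lit 297) (nat_lit 271) (nat_lit 152)) (XT.lf (nat_lit 0) (nat_lit 72228016093) (nat_lit 76) (nat_lit 80477248300) (nat_lit 152) (nat_lit 11940194385) (nat_lit 14) (nat_lit 5) (nat_lit 15) (nat_lit 5) (nat_lit 16) (nat_lit 4) (nat_lit 298) (nat_lit 271) (nat_lit 151))))) (XT.nd (nat_lit 234) (nat_lit 76) (nat_lit 0) (XT.nd (nat_lit 78) (nat_lit 152) (nat_lit 0) (XT.lf (nat_lit 0) (nat_lit 10711066661) (nat_lit 152) (nat_lit 33685072936) (nat_lit 76) (nat_lit 130151248535) (nat_lit 13) (nat_lit 5) (nat_lit 15) (nat_lit 5) (nat_lit 14) (nat_lit 5) (nat_lit 299) (nat_lit 271) (nat_lit 150))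 (XT.nd (nat_lit 78) (nat_lit 0) (nat_lit 0) (XT.lf (nat_lit 0) (nat_lit 30984835493) (nat_lit 152) (nat_lit 4289132257) (nat_lit 228) (nat_lit 149883125251) (nat_lit 11) (nat_lit 5) (nat_lit 13) (nat_lit 5) (nat_lit 14) (nat_lit 5) (nat_lit 300) (nat_lit 271) (nat_lit 149)) (XT.lf (nat_lit 0) (nat_lit 63684866042) (nat_lit 228) (nat_lit 94761283097) (nat_lit 76) (nat_lit 38018789341) (nat_lit 11) (nat_lit 5) (nat_lit 14) (nat_lit 5) (nat_lit 12) (nat_lit 4) (nat_lit 301) (nat_lit 271) (nat_lit 148)))) (XT.nd (nat_lit 156) (nat_lit 0) (nat_lit 0) (XT.nd (nat_lit 78) (nat_lit 76) (nat_lit 0) (XT.lf (nat_lit 0) (nat_lit 94479529714) (nat_lit 228) (nat_lit 30709685933) (nat_lit 76) (nat_lit 83479325792) (nat_lit 11) (nat_lit 5) (nat_lit 14) (nat_lit 5) (nat_lit 12) (nat_lit 4) (nat_lit 302) (nat_lit 271) (nat_lit 147)) (XT.lf (nat_lit 0) (nat_lit 40490764777) (nat_lit 76) (nat_lit 88220331016)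 (nat_lit 152) (nat_lit 93059471722) (nat_lit 10) (nat_lit 5) (nat_lit 11) (nat_lit 5) (nat_lit 12) (nat_lit 4) (nat_lit 303) (nat_lit 271) (nat_lit 146))) (XT.nd (nat_lit 78) (nat_lit 0) (nat_lit 0) (XT.lf (nat_lit 0) (nat_lit 119132972234) (nat_lit 76) (nat_lit 47387414330) (nat_lit 152) (nat_lit 69333234296) (nat_lit 10) (nat_lit 5) (nat_lit 11) (nat_lit 5) (nat_lit 12) (nat_lit 4) (nat_lit 304) (nat_lit 271) (nat_lit 145)) (XT.lf (nat_lit 0) (nat_lit 204065846693) (nat_lit 76) (nat_lit 3288149987) (nat_lit 152) (nat_lit 43709356758) (nat_lit 10) (nat_lit 5) (nat_lit 11) (nat_lit 5) (nat_lit 12) (nat_lit 4) (nat_lit 305) (nat_lit 271) (nat_lit 144)))))) (XT.nd (nat_lit 468) (nat_lit 152) (nat_lit 0) (XT.nd (nat_lit 234) (nat_lit 76) (nat_lit 0) (XT.nd (nat_lit 78) (nat_lit 76) (nat_lit 0) (XT.lf (nat_lit 0) (nat_lit 28670671180) (nat_lit 76) (nat_lit 224539111228) (nat_lit 76) (nat_lit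 14139644241) (nat_lit 9) (nat_lit 4) (nat_lit 10) (nat_lit 5) (nat_lit 10) (nat_lit 4) (nat_lit 306) (nat_lit 271) (nat_lit 143)) (XT.nd (nat_lit 78) (nat_lit 0) (nat_lit 0) (XT.lf (nat_lit 0) (nat_lit 18308816931) (nat_lit 152) (nat_lit 172317949053) (nat_lit 76) (nat_lit 94165111159) (nat_lit 8) (nat_lit 5) (nat_lit 10) (nat_lit 5) (nat_lit 9) (nat_lit 4) (nat_lit 307) (nat_lit 271) (nat_lit 142)) (XT.lf (nat_lit 0) (nat_lit 52588880087) (nat_lit 152) (nat_lit 101016178137) (nat_lit 76) (nat_lit 149995314496) (nat_lit 8) (nat_lit 5) (nat_lit 10) (nat_lit 5) (nat_lit 9) (nat_lit 4) (nat_lit 308) (nat_lit 271) (nat_lit 141)))) (XT.nd (nat_lit 78) (nat_lit 76) (nat_lit 0) (XT.lf (nat_lit 0) (nat_lit 89611008610) (nat_lit 152) (nat_lit 24010854926) (nat_lit 76) (nat_lit 210291712295) (nat_lit 8) (nat_lit 5) (nat_lit 10) (nat_lit 5) (nat_lit 9) (nat_lit 4) (nat_lit 309) (nat_lit 271)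 (nat_lit 140)) (XT.nd (nat_lit 78) (nat_lit 0) (nat_lit 0) (XT.lf (nat_lit 0) (nat_lit 62269311579) (nat_lit 76) (nat_lit 68822859756) (nat_lit 152) (nat_lit 214639883407) (nat_lit 7) (nat_lit 5) (nat_lit 8) (nat_lit 5) (nat_lit 9) (nat_lit 4) (nat_lit 310) (nat_lit 271) (nat_lit 139)) (XT.lf (nat_lit 0) (nat_lit 156816878095) (nat_lit 76) (nat_lit 19731144289) (nat_lit 152) (nat_lit 192695494568) (nat_lit 7) (nat_lit 5) (nat_lit 8) (nat_lit 5) (nat_lit 9) (nat_lit 4) (nat_lit 311) (nat_lit 271) (nat_lit 138))))) (XT.nd (nat_lit 234) (nat_lit 76) (nat_lit 0) (XT.nd (nat_lit 78) (nat_lit 76) (nat_lit 0) (XT.lf (nat_lit 0) (nat_lit 226440629946) (nat_lit 152) (nat_lit 136508731721) (nat_lit 0) (nat_lit 31622511966) (nat_lit 7) (nat_lit 5) (nat_lit 9) (nat_lit 4) (nat_lit 7) (nat_lit 4) (nat_lit 312) (nat_lit 271) (nat_lit 137)) (XT.nd (nat_lit 78) (nat_lit 76) (nat_lit 0) (XT.lf (nat_lit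 0) (nat_lit 280836878021) (nat_lit 152) (nat_lit 55030361970) (nat_lit 0) (nat_lit 86018280831) (nat_lit 7) (nat_lit 5) (nat_lit 9) (nat_lit 4) (nat_lit 7) (nat_lit 4) (nat_lit 313) (nat_lit 271) (nat_lit 136)) (XT.lf (nat_lit 0) (nat_lit 34701762372) (nat_lit 76) (nat_lit 305717396101) (nat_lit 76) (nat_lit 110898355197) (nat_lit 6) (nat_lit 4) (nat_lit 7) (nat_lit 5) (nat_lit 7) (nat_lit 4) (nat_lit 314) (nat_lit 271) (nat_lit 135)))) (XT.nd (nat_lit 156) (nat_lit 76) (nat_lit 0) (XT.nd (nat_lit 78) (nat_lit 0) (nat_lit 0) (XT.lf (nat_lit 0) (nat_lit 134741655504) (nat_lit 76) (nat_lit 271530755727) (nat_lit 76) (nat_lit 76711303976) (nat_lit 6) (nat_lit 4) (nat_lit 7) (nat_lit 5) (nat_lit 7) (nat_lit 4) (nat_lit 315) (nat_lit 271) (nat_lit 134)) (XT.lf (nat_lit 0) (nat_lit 242784345082) (nat_lit 76) (nat_lit 234609358989) (nat_lit 76) (nat_lit 39789526825) (nat_lit 6) (nat_lit 4)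 (nat_lit 7) (nat_lit 5) (nat_lit 7) (nat_lit 4) (nat_lit 316) (nat_lit 271) (nat_lit 133))) (XT.nd (nat_lit 78) (nat_lit 0) (nat_lit 0) (XT.lf (nat_lit 0) (nat_lit 81481311) (nat_lit 152) (nat_lit 194650703270) (nat_lit 76) (nat_lit 359386374926) (nat_lit 5) (nat_lit 5) (nat_lit 7) (nat_lit 5) (nat_lit 6) (nat_lit 4) (nat_lit 317) (nat_lit 271) (nat_lit 132)) (XT.lf (nat_lit 0) (nat_lit 40992308180) (nat_lit 152) (nat_lit 109556509524) (nat_lit 76) (nat_lit 443377233015) (nat_lit 5) (nat_lit 5) (nat_lit 7) (nat_lit 5) (nat_lit 6) (nat_lit 4) (nat_lit 318) (nat_lit 271) (nat_lit 131))))))))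
noncomputable def xc101 : XT := (XT.nd (nat_lit 34554) (nat_lit 0) (nat_lit 532) (XT.nd (nat_lit 1014) (nat_lit 0) (nat_lit 0) (XT.nd (nat_lit 468) (nat_lit 76) (nat_lit 0) (XT.nd (nat_lit 234) (nat_lit 0) (nat_lit 0) (XT.nd (nat_lit 78) (nat_lit 76) (nat_lit 0) (XT.lf (nat_lit 0) (nat_lit 85175821593) (nat_lit 152) (nat_lit 17655103610) (nat_lit 76) (nat_lit 534087230701) (nat_lit 5) (nat_lit 5) (nat_lit 7) (nat_lit 5) (nat_lit 6) (nat_lit 4) (nat_lit 319) (nat_lit 271) (nat_lit 130)) (XT.nd (nat_lit 78) (nat_lit 0) (nat_lit 0) (XT.lf (nat_lit 0) (nat_lit 85894927547) (nat_lit 76) (nat_lit 49064697302) (nat_lit 152) (nat_lit 548224756237) (nat_lit 4) (nat_lit 5) (nat_lit 5) (nat_lit 5) (nat_lit 6) (nat_lit 4) (nat_lit 320) (nat_lit 271) (nat_lit 129)) (XT.lf (nat_lit 0) (nat_lit 189437746518) (nat_lit 152) (nat_lit 534609622233) (nat_lit 0) (nat_lit 9047606663) (nat_lit 4) (nat_lit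 5) (nat_lit 6) (nat_lit 4) (nat_lit 4) (nat_lit 4) (nat_lit 321) (nat_lit 271) (nat_lit 128)))) (XT.nd (nat_lit 78) (nat_lit 0) (nat_lit 0) (XT.lf (nat_lit 0) (nat_lit 249548373653) (nat_lit 152) (nat_lit 468190091587) (nat_lit 0) (nat_lit 69158011832) (nat_lit 4) (nat_lit 5) (nat_lit 6) (nat_lit 4) (nat_lit 4) (nat_lit 4) (nat_lit 322) (nat_lit 271) (nat_lit 127)) (XT.nd (nat_lit 78) (nat_lit 0) (nat_lit 0) (XT.lf (nat_lit 0) (nat_lit 314467710230) (nat_lit 152) (nat_lit 396457257234) (nat_lit 0) (nat_lit 134077142883) (nat_lit 4) (nat_lit 5) (nat_lit 6) (nat_lit 4) (nat_lit 4) (nat_lit 4) (nat_lit 323) (nat_lit 271) (nat_lit 126)) (XT.lf (nat_lit 0) (nat_lit 384580463427) (nat_lit 152) (nat_lit 318986035711) (nat_lit 0) (nat_lit 204189705779) (nat_lit 4) (nat_lit 5) (nat_lit 6) (nat_lit 4) (nat_lit 4) (nat_lit 4) (nat_lit 324) (nat_lit 271) (nat_lit 125))))) (XT.nd (nat_lit 234)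 (nat_lit 76) (nat_lit 0) (XT.nd (nat_lit 78) (nat_lit 0) (nat_lit 0) (XT.lf (nat_lit 0) (nat_lit 460302116227) (nat_lit 152) (nat_lit 235317338298) (nat_lit 0) (nat_lit 279911182373) (nat_lit 4) (nat_lit 5) (nat_lit 6) (nat_lit 4) (nat_lit 4) (nat_lit 4) (nat_lit 325) (nat_lit 271) (nat_lit 124)) (XT.nd (nat_lit 78) (nat_lit 0) (nat_lit 0) (XT.lf (nat_lit 0) (nat_lit 542081389534) (nat_lit 152) (nat_lit 144955350492) (nat_lit 0) (nat_lit 361690292528) (nat_lit 4) (nat_lit 5) (nat_lit 6) (nat_lit 4) (nat_lit 4) (nat_lit 4) (nat_lit 326) (nat_lit 271) (nat_lit 123)) (XT.lf (nat_lit 0) (nat_lit 630402901266) (nat_lit 152) (nat_lit 47364593846) (nat_lit 0) (nat_lit 450011653193) (nat_lit 4) (nat_lit 5) (nat_lit 6) (nat_lit 4) (nat_lit 4) (nat_lit 4) (nat_lit 327) (nat_lit 271) (nat_lit 122)))) (XT.nd (nat_lit 156) (nat_lit 0) (nat_lit 0) (XT.nd (nat_lit 78) (nat_lit 0) (nat_lit 0) (XT.lf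 (nat_lit 0) (nat_lit 61089175190) (nat_lit 76) (nat_lit 666170059099) (nat_lit 76) (nat_lit 485778671149) (nat_lit 3) (nat_lit 4) (nat_lit 4) (nat_lit 5) (nat_lit 4) (nat_lit 4) (nat_lit 328) (nat_lit 271) (nat_lit 121)) (XT.lf (nat_lit 0) (nat_lit 180912740531) (nat_lit 76) (nat_lit 652246272546) (nat_lit 76) (nat_lit 471854755080) (nat_lit 3) (nat_lit 4) (nat_lit 4) (nat_lit 5) (nat_lit 4) (nat_lit 4) (nat_lit 329) (nat_lit 271) (nat_lit 120))) (XT.nd (nat_lit 78) (nat_lit 0) (nat_lit 0) (XT.lf (nat_lit 0) (nat_lit 310322032174) (nat_lit 76) (nat_lit 637208656056) (nat_lit 76) (nat_lit 456817018668) (nat_lit 3) (nat_lit 4) (nat_lit 4) (nat_lit 5) (nat_lit 4) (nat_lit 4) (nat_lit 330) (nat_lit 271) (nat_lit 119)) (XT.lf (nat_lit 0) (nat_lit 450083919996) (nat_lit 76) (nat_lit 620968097829) (nat_lit 76) (nat_lit 440576349401) (nat_lit 3) (nat_lit 4) (nat_lit 4) (nat_lit 5) (nat_lit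 4) (nat_lit 4) (nat_lit 331) (nat_lit 271) (nat_lit 118)))))) (XT.nd (nat_lit 32994) (nat_lit 0) (nat_lit 2280) (XT.nd (nat_lit 234) (nat_lit 0) (nat_lit 0) (XT.nd (nat_lit 78) (nat_lit 0) (nat_lit 0) (XT.lf (nat_lit 0) (nat_lit 601026622591) (nat_lit 76) (nat_lit 603428357519) (nat_lit 76) (nat_lit 423036506277) (nat_lit 3) (nat_lit 4) (nat_lit 4) (nat_lit 5) (nat_lit 4) (nat_lit 4) (nat_lit 332) (nat_lit 271) (nat_lit 117)) (XT.nd (nat_lit 78) (nat_lit 0) (nat_lit 0) (XT.lf (nat_lit 0) (nat_lit 764044615234) (nat_lit 76) (nat_lit 584485495924) (nat_lit 76) (nat_lit 404093549485) (nat_lit 3) (nat_lit 4) (nat_lit 4) (nat_lit 5) (nat_lit 4) (nat_lit 4) (nat_lit 333) (nat_lit 271) (nat_lit 116)) (XT.lf (nat_lit 0) (nat_lit 940103930474) (nat_lit 76) (nat_lit 564027259051) (nat_lit 76) (nat_lit 383635224465) (nat_lit 3) (nat_lit 4) (nat_lit 4) (nat_lit 5) (nat_lit 4) (nat_lit 4) (nat_lit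 334) (nat_lit 271) (nat_lit 115)))) (XT.nd (nat_lit 32604) (nat_lit 0) (nat_lit 2508) (XT.lf (nat_lit 0) (nat_lit 1130247882772) (nat_lit 76) (nat_lit 541932412902) (nat_lit 76) (nat_lit 361540296700) (nat_lit 3) (nat_lit 4) (nat_lit 4) (nat_lit 5) (nat_lit 4) (nat_lit 4) (nat_lit 335) (nat_lit 271) (nat_lit 114)) (XT.nd (nat_lit 78) (nat_lit 0) (nat_lit 0) (XT.lf (nat_lit 0) (nat_lit 8759526762) (nat_lit 532) (nat_lit 7664079481) (nat_lit 532) (nat_lit 7664079481) (nat_lit 36) (nat_lit 3) (nat_lit 43) (nat_lit 3) (nat_lit 43) (nat_lit 5) (nat_lit 272) (nat_lit 272) (nat_lit 176)) (XT.lf (nat_lit 76) (nat_lit 5543661508) (nat_lit 0) (nat_lit 12834629460) (nat_lit 532) (nat_lit 31711284186) (nat_lit 37) (nat_lit 5) (nat_lit 36) (nat_lit 3) (nat_lit 43) (nat_lit 5) (nat_lit 273) (nat_lit 272) (nat_lit 175))))) (XT.nd (nat_lit 234) (nat_lit 304) (nat_lit 0) (XT.nd (nat_lit 78) (nat_lit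 0) (nat_lit 0) (XT.lf (nat_lit 0) (nat_lit 19944862321) (nat_lit 456) (nat_lit 23390135009) (nat_lit 532) (nat_lit 8770843552) (nat_lit 37) (nat_lit 5) (nat_lit 43) (nat_lit 5) (nat_lit 44) (nat_lit 5) (nat_lit 274) (nat_lit 272) (nat_lit 174)) (XT.nd (nat_lit 78) (nat_lit 0) (nat_lit 0) (XT.lf (nat_lit 0) (nat_lit 21967789335) (nat_lit 456) (nat_lit 876818006) (nat_lit 532) (nat_lit 31412330464) (nat_lit 37) (nat_lit 5) (nat_lit 43) (nat_lit 5) (nat_lit 44) (nat_lit 5) (nat_lit 275) (nat_lit 272) (nat_lit 173)) (XT.lf (nat_lit 76) (nat_lit 24670227450) (nat_lit 0) (nat_lit 73478692) (nat_lit 532) (nat_lit 31789135307) (nat_lit 38) (nat_lit 5) (nat_lit 37) (nat_lit 5) (nat_lit 44) (nat_lit 5) (nat_lit 276) (nat_lit 272) (nat_lit 172)))) (XT.nd (nat_lit 156) (nat_lit 380) (nat_lit 0) (XT.nd (nat_lit 78) (nat_lit 0) (nat_lit 0) (XT.lf (nat_lit 0) (nat_lit 28353961246) (nat_lit 456) (nat_lit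 7269904822) (nat_lit 532) (nat_lit 23317980696) (nat_lit 38) (nat_lit 5) (nat_lit 44) (nat_lit 5) (nat_lit 45) (nat_lit 5) (nat_lit 277) (nat_lit 272) (nat_lit 171)) (XT.lf (nat_lit 76) (nat_lit 20302447384) (nat_lit 0) (nat_lit 12438899827) (nat_lit 532) (nat_lit 28763170245) (nat_lit 39) (nat_lit 5) (nat_lit 38) (nat_lit 5) (nat_lit 45) (nat_lit 5) (nat_lit 278) (nat_lit 272) (nat_lit 170))) (XT.nd (nat_lit 78) (nat_lit 456) (nat_lit 0) (XT.lf (nat_lit 0) (nat_lit 37984949729) (nat_lit 456) (nat_lit 14072077244) (nat_lit 76) (nat_lit 12174765842) (nat_lit 39) (nat_lit 5) (nat_lit 45) (nat_lit 5) (nat_lit 40) (nat_lit 5) (nat_lit 279) (nat_lit 272) (nat_lit 169)) (XT.lf (nat_lit 0) (nat_lit 15688553040) (nat_lit 456) (nat_lit 28658255799) (nat_lit 532) (nat_lit 22774548286) (nat_lit 33) (nat_lit 5) (nat_lit 39) (nat_lit 5) (nat_lit 40) (nat_lit 5) (nat_lit 280) (nat_lit 272) (nat_lit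 168))))))) (XT.nd (nat_lit 1014) (nat_lit 532) (nat_lit 0) (XT.nd (nat_lit 468) (nat_lit 760) (nat_lit 0) (XT.nd (nat_lit 234) (nat_lit 228) (nat_lit 0) (XT.nd (nat_lit 78) (nat_lit 228) (nat_lit 0) (XT.lf (nat_lit 0) (nat_lit 48628884058) (nat_lit 456) (nat_lit 2971944235) (nat_lit 532) (nat_lit 18610609129) (nat_lit 33) (nat_lit 5) (nat_lit 39) (nat_lit 5) (nat_lit 40) (nat_lit 5) (nat_lit 281) (nat_lit 272) (nat_lit 167)) (XT.nd (nat_lit 78) (nat_lit 0) (nat_lit 0) (XT.lf (nat_lit 0) (nat_lit 10588223351) (nat_lit 228) (nat_lit 49695867309) (nat_lit 304) (nat_lit 13196726969) (nat_lit 30) (nat_lit 5) (nat_lit 33) (nat_lit 5) (nat_lit 34) (nat_lit 5) (nat_lit 282) (nat_lit 272) (nat_lit 166)) (XT.lf (nat_lit 0) (nat_lit 46477401551) (nat_lit 228) (nat_lit 23848601095) (nat_lit 304) (nat_lit 6632633181) (nat_lit 30) (nat_lit 5) (nat_lit 33) (nat_lit 5) (nat_lit 34) (nat_lit 5) (nat_lit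 283) (nat_lit 272) (nat_lit 165)))) (XT.nd (nat_lit 78) (nat_lit 0) (nat_lit 0) (XT.lf (nat_lit 0) (nat_lit 647695092) (nat_lit 228) (nat_lit 76057634610) (nat_lit 76) (nat_lit 3991361223) (nat_lit 27) (nat_lit 5) (nat_lit 30) (nat_lit 5) (nat_lit 28) (nat_lit 5) (nat_lit 284) (nat_lit 272) (nat_lit 164)) (XT.nd (nat_lit 78) (nat_lit 0) (nat_lit 0) (XT.lf (nat_lit 0) (nat_lit 9625383846) (nat_lit 228) (nat_lit 41179475480) (nat_lit 76) (nat_lit 33797292807) (nat_lit 27) (nat_lit 5) (nat_lit 30) (nat_lit 5) (nat_lit 28) (nat_lit 5) (nat_lit 285) (nat_lit 272) (nat_lit 163)) (XT.lf (nat_lit 0) (nat_lit 19320145570) (nat_lit 228) (nat_lit 3512411281) (nat_lit 76) (nat_lit 65987589653) (nat_lit 27) (nat_lit 5) (nat_lit 30) (nat_lit 5) (nat_lit 28) (nat_lit 5) (nat_lit 286) (nat_lit 272) (nat_lit 162))))) (XT.nd (nat_lit 234) (nat_lit 380) (nat_lit 0) (XT.nd (nat_lit 78) (nat_lit 152) (nat_lit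 0) (XT.lf (nat_lit 0) (nat_lit 30932226553) (nat_lit 304) (nat_lit 54378353573) (nat_lit 76) (nat_lit 7973665768) (nat_lit 24) (nat_lit 5) (nat_lit 28) (nat_lit 5) (nat_lit 25) (nat_lit 5) (nat_lit 287) (nat_lit 272) (nat_lit 161)) (XT.nd (nat_lit 78) (nat_lit 152) (nat_lit 0) (XT.lf (nat_lit 0) (nat_lit 44163843979) (nat_lit 304) (nat_lit 13777220212) (nat_lit 76) (nat_lit 40109167647) (nat_lit 24) (nat_lit 5) (nat_lit 28) (nat_lit 5) (nat_lit 25) (nat_lit 5) (nat_lit 288) (nat_lit 272) (nat_lit 160)) (XT.lf (nat_lit 0) (nat_lit 31654278940) (nat_lit 152) (nat_lit 27560059657) (nat_lit 228) (nat_lit 43922334123) (nat_lit 22) (nat_lit 5) (nat_lit 24) (nat_lit 5) (nat_lit 25) (nat_lit 5) (nat_lit 289) (nat_lit 272) (nat_lit 159)))) (XT.nd (nat_lit 156) (nat_lit 228) (nat_lit 0) (XT.nd (nat_lit 78) (nat_lit 152) (nat_lit 0) (XT.lf (nat_lit 0) (nat_lit 75980744001) (nat_lit 228) (nat_lit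 27233392319) (nat_lit 76) (nat_lit 5374946454) (nat_lit 22) (nat_lit 5) (nat_lit 25) (nat_lit 5) (nat_lit 23) (nat_lit 5) (nat_lit 290) (nat_lit 272) (nat_lit 158)) (XT.lf (nat_lit 0) (nat_lit 20883198955) (nat_lit 152) (nat_lit 74422513401) (nat_lit 228) (nat_lit 19074596570) (nat_lit 20) (nat_lit 5) (nat_lit 22) (nat_lit 5) (nat_lit 23) (nat_lit 5) (nat_lit 291) (nat_lit 272) (nat_lit 157))) (XT.nd (nat_lit 78) (nat_lit 228) (nat_lit 0) (XT.lf (nat_lit 0) (nat_lit 74396786932) (nat_lit 152) (nat_lit 42523698923) (nat_lit 228) (nat_lit 3654845786) (nat_lit 20) (nat_lit 5) (nat_lit 22) (nat_lit 5) (nat_lit 23) (nat_lit 5) (nat_lit 292) (nat_lit 272) (nat_lit 156)) (XT.lf (nat_lit 0) (nat_lit 4854664006) (nat_lit 152) (nat_lit 7609574820) (nat_lit 228) (nat_lit 114767431634) (nat_lit 17) (nat_lit 5) (nat_lit 19) (nat_lit 5) (nat_lit 20) (nat_lit 5) (nat_lit 293) (nat_lit 272) (nat_lit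 155)))))) (XT.nd (nat_lit 468) (nat_lit 304) (nat_lit 0) (XT.nd (nat_lit 234) (nat_lit 76) (nat_lit 0) (XT.nd (nat_lit 78) (nat_lit 152) (nat_lit 0) (XT.lf (nat_lit 0) (nat_lit 31693901197) (nat_lit 228) (nat_lit 72575443793) (nat_lit 76) (nat_lit 29982098752) (nat_lit 17) (nat_lit 5) (nat_lit 20) (nat_lit 5) (nat_lit 18) (nat_lit 5) (nat_lit 294) (nat_lit 272) (nat_lit 154)) (XT.nd (nat_lit 78) (nat_lit 152) (nat_lit 0) (XT.lf (nat_lit 0) (nat_lit 52658902244) (nat_lit 228) (nat_lit 18988429623) (nat_lit 76) (nat_lit 70169712031) (nat_lit 17) (nat_lit 5) (nat_lit 20) (nat_lit 5) (nat_lit 18) (nat_lit 5) (nat_lit 295) (nat_lit 272) (nat_lit 153)) (XT.lf (nat_lit 0) (nat_lit 40932193271) (nat_lit 152) (nat_lit 35352695514) (nat_lit 228) (nat_lit 73624302550) (nat_lit 15) (nat_lit 5) (nat_lit 17) (nat_lit 5) (nat_lit 18) (nat_lit 5) (nat_lit 296) (nat_lit 272) (nat_lit 152)))) (XT.nd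 (nat_lit 78) (nat_lit 76) (nat_lit 0) (XT.lf (nat_lit 0) (nat_lit 102425483842) (nat_lit 228) (nat_lit 51987757098) (nat_lit 76) (nat_lit 4185509205) (nat_lit 15) (nat_lit 5) (nat_lit 18) (nat_lit 5) (nat_lit 16) (nat_lit 4) (nat_lit 297) (nat_lit 272) (nat_lit 151)) (XT.nd (nat_lit 78) (nat_lit 0) (nat_lit 0) (XT.lf (nat_lit 0) (nat_lit 9096521964) (nat_lit 76) (nat_lit 122697256181) (nat_lit 152) (nat_lit 36098781184) (nat_lit 14) (nat_lit 5) (nat_lit 15) (nat_lit 5) (nat_lit 16) (nat_lit 4) (nat_lit 298) (nat_lit 272) (nat_lit 150)) (XT.lf (nat_lit 0) (nat_lit 78023261582) (nat_lit 76) (nat_lit 86909161451) (nat_lit 152) (nat_lit 12883780918) (nat_lit 14) (nat_lit 5) (nat_lit 15) (nat_lit 5) (nat_lit 16) (nat_lit 4) (nat_lit 299) (nat_lit 272) (nat_lit 149))))) (XT.nd (nat_lit 234) (nat_lit 76) (nat_lit 0) (XT.nd (nat_lit 78) (nat_lit 152) (nat_lit 0) (XT.lf (nat_lit 0) (nat_lit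 11578180964) (nat_lit 152) (nat_lit 36363567611) (nat_lit 76) (nat_lit 140568584401) (nat_lit 13) (nat_lit 5) (nat_lit 15) (nat_lit 5) (nat_lit 14) (nat_lit 5) (nat_lit 300) (nat_lit 272) (nat_lit 148)) (XT.nd (nat_lit 78) (nat_lit 0) (nat_lit 0) (XT.lf (nat_lit 0) (nat_lit 33479520551) (nat_lit 152) (nat_lit 4626218240) (nat_lit 228) (nat_lit 161863107537) (nat_lit 11) (nat_lit 5) (nat_lit 13) (nat_lit 5) (nat_lit 14) (nat_lit 5) (nat_lit 301) (nat_lit 272) (nat_lit 147)) (XT.lf (nat_lit 0) (nat_lit 68788913653) (nat_lit 228) (nat_lit 102326845967) (nat_lit 76) (nat_lit 41065609361) (nat_lit 11) (nat_lit 5) (nat_lit 14) (nat_lit 5) (nat_lit 12) (nat_lit 4) (nat_lit 302) (nat_lit 272) (nat_lit 146)))) (XT.nd (nat_lit 156) (nat_lit 0) (nat_lit 0) (XT.nd (nat_lit 78) (nat_lit 76) (nat_lit 0) (XT.lf (nat_lit 0) (nat_lit 102046464616) (nat_lit 228) (nat_lit 33152257310) (nat_lit 76) (nat_lit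 90162594886) (nat_lit 11) (nat_lit 5) (nat_lit 14) (nat_lit 5) (nat_lit 12) (nat_lit 4) (nat_lit 303) (nat_lit 272) (nat_lit 145)) (XT.lf (nat_lit 0) (nat_lit 43743869875) (nat_lit 76) (nat_lit 95272384052) (nat_lit 152) (nat_lit 100495276853) (nat_lit 10) (nat_lit 5) (nat_lit 11) (nat_lit 5) (nat_lit 12) (nat_lit 4) (nat_lit 304) (nat_lit 272) (nat_lit 144))) (XT.nd (nat_lit 78) (nat_lit 0) (nat_lit 0) (XT.lf (nat_lit 0) (nat_lit 128676428453) (nat_lit 76) (nat_lit 51173246879) (nat_lit 152) (nat_lit 74871603589) (nat_lit 10) (nat_lit 5) (nat_lit 11) (nat_lit 5) (nat_lit 12) (nat_lit 4) (nat_lit 305) (nat_lit 272) (nat_lit 143)) (XT.lf (nat_lit 0) (nat_lit 220402983354) (nat_lit 76) (nat_lit 3546423654) (nat_lit 152) (nat_lit 47198429881) (nat_lit 10) (nat_lit 5) (nat_lit 11) (nat_lit 5) (nat_lit 12) (nat_lit 4) (nat_lit 306) (nat_lit 272) (nat_lit 142))))))))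
noncomputable def xc102 : XT := (XT.nd (nat_lit 1950) (nat_lit 0) (nat_lit 0) (XT.nd (nat_lit 936) (nat_lit 152) (nat_lit 0) (XT.nd (nat_lit 468) (nat_lit 152) (nat_lit 0) (XT.nd (nat_lit 234) (nat_lit 76) (nat_lit 0) (XT.nd (nat_lit 78) (nat_lit 76) (nat_lit 0) (XT.lf (nat_lit 0) (nat_lit 30976351329) (nat_lit 76) (nat_lit 242497174681) (nat_lit 76) (nat_lit 15263281617) (nat_lit 9) (nat_lit 4) (nat_lit 10) (nat_lit 5) (nat_lit 10) (nat_lit 4) (nat_lit 307) (nat_lit 272) (nat_lit 141)) (XT.nd (nat_lit 78) (nat_lit 0) (nat_lit 0) (XT.lf (nat_lit 0) (nat_lit 19780149391) (nat_lit 152) (nat_lit 186091886448) (nat_lit 76) (nat_lit 101702647356) (nat_lit 8) (nat_lit 5) (nat_lit 10) (nat_lit 5) (nat_lit 9) (nat_lit 4) (nat_lit 308) (nat_lit 272) (nat_lit 140)) (XT.lf (nat_lit 0) (nat_lit 56802126702) (nat_lit 152) (nat_lit 109086825602) (nat_lit 76) (nat_lit 161998946418) (nat_lit 8) (nat_lit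 5) (nat_lit 10) (nat_lit 5) (nat_lit 9) (nat_lit 4) (nat_lit 309) (nat_lit 272) (nat_lit 139)))) (XT.nd (nat_lit 78) (nat_lit 76) (nat_lit 0) (XT.lf (nat_lit 0) (nat_lit 96785570973) (nat_lit 152) (nat_lit 25921865185) (nat_lit 76) (nat_lit 227118759245) (nat_lit 8) (nat_lit 5) (nat_lit 10) (nat_lit 5) (nat_lit 9) (nat_lit 4) (nat_lit 310) (nat_lit 272) (nat_lit 138)) (XT.nd (nat_lit 78) (nat_lit 0) (nat_lit 0) (XT.lf (nat_lit 0) (nat_lit 67260465067) (nat_lit 76) (nat_lit 74324571869) (nat_lit 152) (nat_lit 231805131757) (nat_lit 7) (nat_lit 5) (nat_lit 8) (nat_lit 5) (nat_lit 9) (nat_lit 4) (nat_lit 311) (nat_lit 272) (nat_lit 137)) (XT.lf (nat_lit 0) (nat_lit 169371125160) (nat_lit 76) (nat_lit 21305824104) (nat_lit 152) (nat_lit 208105631982) (nat_lit 7) (nat_lit 5) (nat_lit 8) (nat_lit 5) (nat_lit 9) (nat_lit 4) (nat_lit 312) (nat_lit 272) (nat_lit 136))))) (XT.nd (nat_lit 234)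 (nat_lit 76) (nat_lit 0) (XT.nd (nat_lit 78) (nat_lit 76) (nat_lit 0) (XT.lf (nat_lit 0) (nat_lit 244560673638) (nat_lit 152) (nat_lit 147420891179) (nat_lit 0) (nat_lit 34155665748) (nat_lit 7) (nat_lit 5) (nat_lit 9) (nat_lit 4) (nat_lit 7) (nat_lit 4) (nat_lit 313) (nat_lit 272) (nat_lit 135)) (XT.nd (nat_lit 78) (nat_lit 76) (nat_lit 0) (XT.lf (nat_lit 0) (nat_lit 303308266501) (nat_lit 152) (nat_lit 59424884371) (nat_lit 0) (nat_lit 92902847765) (nat_lit 7) (nat_lit 5) (nat_lit 9) (nat_lit 4) (nat_lit 7) (nat_lit 4) (nat_lit 314) (nat_lit 272) (nat_lit 134)) (XT.lf (nat_lit 0) (nat_lit 37485609752) (nat_lit 76) (nat_lit 330171376218) (nat_lit 76) (nat_lit 119765577068) (nat_lit 6) (nat_lit 4) (nat_lit 7) (nat_lit 5) (nat_lit 7) (nat_lit 4) (nat_lit 315) (nat_lit 272) (nat_lit 133)))) (XT.nd (nat_lit 78) (nat_lit 76) (nat_lit 0) (XT.lf (nat_lit 0) (nat_lit 145528123491) (nat_lit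 76) (nat_lit 293250057322) (nat_lit 76) (nat_lit 82843905938) (nat_lit 6) (nat_lit 4) (nat_lit 7) (nat_lit 5) (nat_lit 7) (nat_lit 4) (nat_lit 316) (nat_lit 272) (nat_lit 132)) (XT.nd (nat_lit 78) (nat_lit 76) (nat_lit 0) (XT.lf (nat_lit 0) (nat_lit 262213699675) (nat_lit 76) (nat_lit 253375182835) (nat_lit 76) (nat_lit 42968705308) (nat_lit 6) (nat_lit 4) (nat_lit 7) (nat_lit 5) (nat_lit 7) (nat_lit 4) (nat_lit 317) (nat_lit 272) (nat_lit 131)) (XT.lf (nat_lit 0) (nat_lit 91503875) (nat_lit 152) (nat_lit 210216451450) (nat_lit 76) (nat_lit 388139802634) (nat_lit 5) (nat_lit 5) (nat_lit 7) (nat_lit 5) (nat_lit 6) (nat_lit 4) (nat_lit 318) (nat_lit 272) (nat_lit 130)))))) (XT.nd (nat_lit 468) (nat_lit 76) (nat_lit 0) (XT.nd (nat_lit 234) (nat_lit 0) (nat_lit 0) (XT.nd (nat_lit 78) (nat_lit 76) (nat_lit 0) (XT.lf (nat_lit 0) (nat_lit 44274937334) (nat_lit 152) (nat_lit 118315189469)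 (nat_lit 76) (nat_lit 478849742873) (nat_lit 5) (nat_lit 5) (nat_lit 7) (nat_lit 5) (nat_lit 6) (nat_lit 4) (nat_lit 319) (nat_lit 272) (nat_lit 129)) (XT.nd (nat_lit 78) (nat_lit 76) (nat_lit 0) (XT.lf (nat_lit 0) (nat_lit 91992891487) (nat_lit 152) (nat_lit 19062103735) (nat_lit 76) (nat_lit 576816367691) (nat_lit 5) (nat_lit 5) (nat_lit 7) (nat_lit 5) (nat_lit 6) (nat_lit 4) (nat_lit 320) (nat_lit 272) (nat_lit 128)) (XT.lf (nat_lit 0) (nat_lit 92771792999) (nat_lit 76) (nat_lit 52987510247) (nat_lit 152) (nat_lit 592079590905) (nat_lit 4) (nat_lit 5) (nat_lit 5) (nat_lit 5) (nat_lit 6) (nat_lit 4) (nat_lit 321) (nat_lit 272) (nat_lit 127)))) (XT.nd (nat_lit 78) (nat_lit 0) (nat_lit 0) (XT.lf (nat_lit 0) (nat_lit 204595511827) (nat_lit 152) (nat_lit 577373344007) (nat_lit 0) (nat_lit 9773493567) (nat_lit 4) (nat_lit 5) (nat_lit 6) (nat_lit 4) (nat_lit 4) (nat_lit 4) (nat_lit 322)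 (nat_lit 272) (nat_lit 126)) (XT.nd (nat_lit 78) (nat_lit 0) (nat_lit 0) (XT.lf (nat_lit 0) (nat_lit 269514785757) (nat_lit 152) (nat_lit 505640624836) (nat_lit 0) (nat_lit 74692577195) (nat_lit 4) (nat_lit 5) (nat_lit 6) (nat_lit 4) (nat_lit 4) (nat_lit 4) (nat_lit 323) (nat_lit 272) (nat_lit 125)) (XT.lf (nat_lit 0) (nat_lit 339627480948) (nat_lit 152) (nat_lit 428169509963) (nat_lit 0) (nat_lit 144805096181) (nat_lit 4) (nat_lit 5) (nat_lit 6) (nat_lit 4) (nat_lit 4) (nat_lit 4) (nat_lit 324) (nat_lit 272) (nat_lit 124))))) (XT.nd (nat_lit 234) (nat_lit 76) (nat_lit 0) (XT.nd (nat_lit 78) (nat_lit 0) (nat_lit 0) (XT.lf (nat_lit 0) (nat_lit 415349080038) (nat_lit 152) (nat_lit 344500911300) (nat_lit 0) (nat_lit 220526532119) (nat_lit 4) (nat_lit 5) (nat_lit 6) (nat_lit 4) (nat_lit 4) (nat_lit 4) (nat_lit 325) (nat_lit 272) (nat_lit 123)) (XT.nd (nat_lit 78) (nat_lit 0) (nat_lit 0)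 (XT.lf (nat_lit 0) (nat_lit 497128303614) (nat_lit 152) (nat_lit 254139014928) (nat_lit 0) (nat_lit 302305604628) (nat_lit 4) (nat_lit 5) (nat_lit 6) (nat_lit 4) (nat_lit 4) (nat_lit 4) (nat_lit 326) (nat_lit 272) (nat_lit 122)) (XT.lf (nat_lit 0) (nat_lit 585449769298) (nat_lit 152) (nat_lit 156548342944) (nat_lit 0) (nat_lit 390626930435) (nat_lit 4) (nat_lit 5) (nat_lit 6) (nat_lit 4) (nat_lit 4) (nat_lit 4) (nat_lit 327) (nat_lit 272) (nat_lit 121)))) (XT.nd (nat_lit 156) (nat_lit 0) (nat_lit 0) (XT.nd (nat_lit 78) (nat_lit 76) (nat_lit 0) (XT.lf (nat_lit 0) (nat_lit 680836863553) (nat_lit 152) (nat_lit 51150580254) (nat_lit 0) (nat_lit 486013895174) (nat_lit 4) (nat_lit 5) (nat_lit 6) (nat_lit 4) (nat_lit 4) (nat_lit 4) (nat_lit 328) (nat_lit 272) (nat_lit 120)) (XT.lf (nat_lit 0) (nat_lit 65979409770) (nat_lit 76) (nat_lit 719462239856) (nat_lit 76) (nat_lit 524639151554) (nat_lit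 3) (nat_lit 4) (nat_lit 4) (nat_lit 5) (nat_lit 4) (nat_lit 4) (nat_lit 329) (nat_lit 272) (nat_lit 119))) (XT.nd (nat_lit 78) (nat_lit 0) (nat_lit 0) (XT.lf (nat_lit 0) (nat_lit 195388630667) (nat_lit 76) (nat_lit 704424655857) (nat_lit 76) (nat_lit 509601456517) (nat_lit 3) (nat_lit 4) (nat_lit 4) (nat_lit 5) (nat_lit 4) (nat_lit 4) (nat_lit 330) (nat_lit 272) (nat_lit 118)) (XT.lf (nat_lit 0) (nat_lit 335150452983) (nat_lit 76) (nat_lit 688184127714) (nat_lit 76) (nat_lit 493360825560) (nat_lit 3) (nat_lit 4) (nat_lit 4) (nat_lit 5) (nat_lit 4) (nat_lit 4) (nat_lit 331) (nat_lit 272) (nat_lit 117))))))) (XT.nd (nat_lit 33696) (nat_lit 0) (nat_lit 1064) (XT.nd (nat_lit 33150) (nat_lit 0) (nat_lit 2280) (XT.nd (nat_lit 32916) (nat_lit 0) (nat_lit 2508) (XT.nd (nat_lit 78) (nat_lit 0) (nat_lit 0) (XT.lf (nat_lit 0) (nat_lit 486093094924) (nat_lit 76) (nat_lit 670644415260) (nat_lit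 76) (nat_lit 475821017908) (nat_lit 3) (nat_lit 4) (nat_lit 4) (nat_lit 5) (nat_lit 4) (nat_lit 4) (nat_lit 332) (nat_lit 272) (nat_lit 116)) (XT.nd (nat_lit 78) (nat_lit 0) (nat_lit 0) (XT.lf (nat_lit 0) (nat_lit 649111031406) (nat_lit 76) (nat_lit 651701579458) (nat_lit 76) (nat_lit 456878093960) (nat_lit 3) (nat_lit 4) (nat_lit 4) (nat_lit 5) (nat_lit 4) (nat_lit 4) (nat_lit 333) (nat_lit 272) (nat_lit 115)) (XT.lf (nat_lit 0) (nat_lit 825170294646) (nat_lit 76) (nat_lit 631243366467) (nat_lit 76) (nat_lit 436419799352) (nat_lit 3) (nat_lit 4) (nat_lit 4) (nat_lit 5) (nat_lit 4) (nat_lit 4) (nat_lit 334) (nat_lit 272) (nat_lit 114)))) (XT.nd (nat_lit 78) (nat_lit 0) (nat_lit 0) (XT.lf (nat_lit 0) (nat_lit 9484834152) (nat_lit 532) (nat_lit 8263886441) (nat_lit 532) (nat_lit 8263886441) (nat_lit 36) (nat_lit 3) (nat_lit 43) (nat_lit 3) (nat_lit 43) (nat_lit 5) (nat_lit 273) (nat_lit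 273) (nat_lit 174)) (XT.nd (nat_lit 78) (nat_lit 0) (nat_lit 76) (XT.lf (nat_lit 76) (nat_lit 6013118825) (nat_lit 0) (nat_lit 13881514030) (nat_lit 532) (nat_lit 34198181418) (nat_lit 37) (nat_lit 5) (nat_lit 36) (nat_lit 3) (nat_lit 43) (nat_lit 5) (nat_lit 274) (nat_lit 273) (nat_lit 173)) (XT.lf (nat_lit 0) (nat_lit 21582668771) (nat_lit 456) (nat_lit 25233220776) (nat_lit 532) (nat_lit 9454818426) (nat_lit 37) (nat_lit 5) (nat_lit 43) (nat_lit 5) (nat_lit 44) (nat_lit 5) (nat_lit 275) (nat_lit 273) (nat_lit 172))))) (XT.nd (nat_lit 234) (nat_lit 304) (nat_lit 0) (XT.nd (nat_lit 78) (nat_lit 0) (nat_lit 0) (XT.lf (nat_lit 0) (nat_lit 23764302727) (nat_lit 456) (nat_lit 920921748) (nat_lit 532) (nat_lit 33908934854) (nat_lit 37) (nat_lit 5) (nat_lit 43) (nat_lit 5) (nat_lit 44) (nat_lit 5) (nat_lit 276) (nat_lit 273) (nat_lit 171)) (XT.nd (nat_lit 78) (nat_lit 0) (nat_lit 76) (XT.lf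 (nat_lit 76) (nat_lit 26669228060) (nat_lit 0) (nat_lit 90779693) (nat_lit 532) (nat_lit 34292325604) (nat_lit 38) (nat_lit 5) (nat_lit 37) (nat_lit 5) (nat_lit 44) (nat_lit 5) (nat_lit 277) (nat_lit 273) (nat_lit 170)) (XT.lf (nat_lit 0) (nat_lit 30656102592) (nat_lit 456) (nat_lit 7824837448) (nat_lit 532) (nat_lit 25173371657) (nat_lit 38) (nat_lit 5) (nat_lit 44) (nat_lit 5) (nat_lit 45) (nat_lit 5) (nat_lit 278) (nat_lit 273) (nat_lit 169)))) (XT.nd (nat_lit 156) (nat_lit 380) (nat_lit 0) (XT.nd (nat_lit 78) (nat_lit 0) (nat_lit 76) (XT.lf (nat_lit 76) (nat_lit 21952628003) (nat_lit 0) (nat_lit 13439970853) (nat_lit 532) (nat_lit 31029560736) (nat_lit 39) (nat_lit 5) (nat_lit 38) (nat_lit 5) (nat_lit 45) (nat_lit 5) (nat_lit 279) (nat_lit 273) (nat_lit 168)) (XT.lf (nat_lit 0) (nat_lit 41053190664) (nat_lit 456) (nat_lit 15171132864) (nat_lit 76) (nat_lit 13143505494) (nat_lit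 39) (nat_lit 5) (nat_lit 45) (nat_lit 5) (nat_lit 40) (nat_lit 5) (nat_lit 280) (nat_lit 273) (nat_lit 167))) (XT.nd (nat_lit 78) (nat_lit 0) (nat_lit 0) (XT.lf (nat_lit 0) (nat_lit 16969671626) (nat_lit 456) (nat_lit 30952771895) (nat_lit 532) (nat_lit 24566250585) (nat_lit 33) (nat_lit 5) (nat_lit 39) (nat_lit 5) (nat_lit 40) (nat_lit 5) (nat_lit 281) (nat_lit 273) (nat_lit 166)) (XT.lf (nat_lit 0) (nat_lit 52543300656) (nat_lit 456) (nat_lit 3211417952) (nat_lit 532) (nat_lit 20071437892) (nat_lit 33) (nat_lit 5) (nat_lit 39) (nat_lit 5) (nat_lit 40) (nat_lit 5) (nat_lit 282) (nat_lit 273) (nat_lit 165)))))) (XT.nd (nat_lit 468) (nat_lit 532) (nat_lit 0) (XT.nd (nat_lit 234) (nat_lit 228) (nat_lit 0) (XT.nd (nat_lit 78) (nat_lit 228) (nat_lit 0) (XT.lf (nat_lit 0) (nat_lit 11460957416) (nat_lit 228) (nat_lit 53670350908) (nat_lit 304) (nat_lit 14225895121) (nat_lit 30) (nat_lit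 5) (nat_lit 33) (nat_lit 5) (nat_lit 34) (nat_lit 5) (nat_lit 283) (nat_lit 273) (nat_lit 164)) (XT.nd (nat_lit 78) (nat_lit 228) (nat_lit 0) (XT.lf (nat_lit 0) (nat_lit 50219367931) (nat_lit 228) (nat_lit 25755391232) (nat_lit 304) (nat_lit 7138641979) (nat_lit 30) (nat_lit 5) (nat_lit 33) (nat_lit 5) (nat_lit 34) (nat_lit 5) (nat_lit 284) (nat_lit 273) (nat_lit 163)) (XT.lf (nat_lit 0) (nat_lit 721793205) (nat_lit 228) (nat_lit 82115953033) (nat_lit 76) (nat_lit 4312801815) (nat_lit 27) (nat_lit 5) (nat_lit 30) (nat_lit 5) (nat_lit 28) (nat_lit 5) (nat_lit 285) (nat_lit 273) (nat_lit 162)))) (XT.nd (nat_lit 78) (nat_lit 228) (nat_lit 0) (XT.lf (nat_lit 0) (nat_lit 10416046503) (nat_lit 228) (nat_lit 44449488753) (nat_lit 76) (nat_lit 36503050022) (nat_lit 27) (nat_lit 5) (nat_lit 30) (nat_lit 5) (nat_lit 28) (nat_lit 5) (nat_lit 286) (nat_lit 273) (nat_lit 161)) (XT.nd (nat_lit 78)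 (nat_lit 228) (nat_lit 0) (XT.lf (nat_lit 0) (nat_lit 20884860873) (nat_lit 228) (nat_lit 3770862734) (nat_lit 76) (nat_lit 71268424409) (nat_lit 27) (nat_lit 5) (nat_lit 30) (nat_lit 5) (nat_lit 28) (nat_lit 5) (nat_lit 287) (nat_lit 273) (nat_lit 160)) (XT.lf (nat_lit 0) (nat_lit 33425111926) (nat_lit 304) (nat_lit 58705208152) (nat_lit 76) (nat_lit 8615125059) (nat_lit 24) (nat_lit 5) (nat_lit 28) (nat_lit 5) (nat_lit 25) (nat_lit 5) (nat_lit 288) (nat_lit 273) (nat_lit 159))))) (XT.nd (nat_lit 234) (nat_lit 380) (nat_lit 0) (XT.nd (nat_lit 78) (nat_lit 152) (nat_lit 0) (XT.lf (nat_lit 0) (nat_lit 47713902652) (nat_lit 304) (nat_lit 14857718471) (nat_lit 76) (nat_lit 43321202939) (nat_lit 24) (nat_lit 5) (nat_lit 28) (nat_lit 5) (nat_lit 25) (nat_lit 5) (nat_lit 289) (nat_lit 273) (nat_lit 158)) (XT.nd (nat_lit 78) (nat_lit 0) (nat_lit 0) (XT.lf (nat_lit 0) (nat_lit 34207751769)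 (nat_lit 152) (nat_lit 29759937619) (nat_lit 228) (nat_lit 47418555825) (nat_lit 22) (nat_lit 5) (nat_lit 24) (nat_lit 5) (nat_lit 25) (nat_lit 5) (nat_lit 290) (nat_lit 273) (nat_lit 157)) (XT.lf (nat_lit 0) (nat_lit 82074316663) (nat_lit 228) (nat_lit 29391347642) (nat_lit 76) (nat_lit 5809275829) (nat_lit 22) (nat_lit 5) (nat_lit 25) (nat_lit 5) (nat_lit 23) (nat_lit 5) (nat_lit 291) (nat_lit 273) (nat_lit 156)))) (XT.nd (nat_lit 156) (nat_lit 228) (nat_lit 0) (XT.nd (nat_lit 78) (nat_lit 0) (nat_lit 0) (XT.lf (nat_lit 0) (nat_lit 22574046477) (nat_lit 152) (nat_lit 80370602127) (nat_lit 228) (nat_lit 20584870945) (nat_lit 20) (nat_lit 5) (nat_lit 22) (nat_lit 5) (nat_lit 23) (nat_lit 5) (nat_lit 292) (nat_lit 273) (nat_lit 155)) (XT.lf (nat_lit 0) (nat_lit 80367225818) (nat_lit 152) (nat_lit 45920305627) (nat_lit 228) (nat_lit 3932702569) (nat_lit 20) (nat_lit 5) (nat_lit 22) (nat_lit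 5) (nat_lit 23) (nat_lit 5) (nat_lit 293) (nat_lit 273) (nat_lit 154))) (XT.nd (nat_lit 78) (nat_lit 0) (nat_lit 0) (XT.lf (nat_lit 0) (nat_lit 5262014822) (nat_lit 152) (nat_lit 8212600994) (nat_lit 228) (nat_lit 123934484993) (nat_lit 17) (nat_lit 5) (nat_lit 19) (nat_lit 5) (nat_lit 20) (nat_lit 5) (nat_lit 294) (nat_lit 273) (nat_lit 153)) (XT.lf (nat_lit 0) (nat_lit 34241798409) (nat_lit 228) (nat_lit 78363013611) (nat_lit 76) (nat_lit 32385715432) (nat_lit 17) (nat_lit 5) (nat_lit 20) (nat_lit 5) (nat_lit 18) (nat_lit 5) (nat_lit 295) (nat_lit 273) (nat_lit 152))))))))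
noncomputable def xc103 : XT := (XT.nd (nat_lit 2028) (nat_lit 152) (nat_lit 0) (XT.nd (nat_lit 1014) (nat_lit 304) (nat_lit 0) (XT.nd (nat_lit 468) (nat_lit 304) (nat_lit 0) (XT.nd (nat_lit 234) (nat_lit 152) (nat_lit 0) (XT.nd (nat_lit 78) (nat_lit 152) (nat_lit 0) (XT.lf (nat_lit 0) (nat_lit 56883082123) (nat_lit 228) (nat_lit 20490406136) (nat_lit 76) (nat_lit 75787963791) (nat_lit 17) (nat_lit 5) (nat_lit 20) (nat_lit 5) (nat_lit 18) (nat_lit 5) (nat_lit 296) (nat_lit 273) (nat_lit 151)) (XT.nd (nat_lit 78) (nat_lit 0) (nat_lit 0) (XT.lf (nat_lit 0) (nat_lit 44223433732) (nat_lit 152) (nat_lit 38175265191) (nat_lit 228) (nat_lit 79502311064) (nat_lit 15) (nat_lit 5) (nat_lit 17) (nat_lit 5) (nat_lit 18) (nat_lit 5) (nat_lit 297) (nat_lit 273) (nat_lit 150)) (XT.lf (nat_lit 0) (nat_lit 110629851086) (nat_lit 228) (nat_lit 56130624083) (nat_lit 76) (nat_lit 4525316174) (nat_lit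 15) (nat_lit 5) (nat_lit 18) (nat_lit 5) (nat_lit 16) (nat_lit 4) (nat_lit 298) (nat_lit 273) (nat_lit 149)))) (XT.nd (nat_lit 78) (nat_lit 76) (nat_lit 0) (XT.lf (nat_lit 0) (nat_lit 9839988352) (nat_lit 76) (nat_lit 132507234164) (nat_lit 152) (nat_lit 38975916069) (nat_lit 14) (nat_lit 5) (nat_lit 15) (nat_lit 5) (nat_lit 16) (nat_lit 4) (nat_lit 299) (nat_lit 273) (nat_lit 148)) (XT.nd (nat_lit 78) (nat_lit 76) (nat_lit 0) (XT.lf (nat_lit 0) (nat_lit 84279700871) (nat_lit 76) (nat_lit 93856521671) (nat_lit 152) (nat_lit 13904513383) (nat_lit 14) (nat_lit 5) (nat_lit 15) (nat_lit 5) (nat_lit 16) (nat_lit 4) (nat_lit 300) (nat_lit 273) (nat_lit 147)) (XT.lf (nat_lit 0) (nat_lit 12513205134) (nat_lit 152) (nat_lit 39258668829) (nat_lit 76) (nat_lit 151818560165) (nat_lit 13) (nat_lit 5) (nat_lit 15) (nat_lit 5) (nat_lit 14) (nat_lit 5) (nat_lit 301) (nat_lit 273) (nat_lit 146)))))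 (XT.nd (nat_lit 234) (nat_lit 152) (nat_lit 0) (XT.nd (nat_lit 78) (nat_lit 0) (nat_lit 0) (XT.lf (nat_lit 0) (nat_lit 36171512356) (nat_lit 152) (nat_lit 4991133430) (nat_lit 228) (nat_lit 174803010277) (nat_lit 11) (nat_lit 5) (nat_lit 13) (nat_lit 5) (nat_lit 14) (nat_lit 5) (nat_lit 302) (nat_lit 273) (nat_lit 145)) (XT.nd (nat_lit 78) (nat_lit 0) (nat_lit 0) (XT.lf (nat_lit 0) (nat_lit 74299964269) (nat_lit 228) (nat_lit 110499842258) (nat_lit 76) (nat_lit 44355416472) (nat_lit 11) (nat_lit 5) (nat_lit 14) (nat_lit 5) (nat_lit 12) (nat_lit 4) (nat_lit 303) (nat_lit 273) (nat_lit 144)) (XT.lf (nat_lit 0) (nat_lit 110217531345) (nat_lit 228) (nat_lit 35792260685) (nat_lit 76) (nat_lit 97379823182) (nat_lit 11) (nat_lit 5) (nat_lit 14) (nat_lit 5) (nat_lit 12) (nat_lit 4) (nat_lit 304) (nat_lit 273) (nat_lit 143)))) (XT.nd (nat_lit 156) (nat_lit 76) (nat_lit 0) (XT.nd (nat_lit 78)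 (nat_lit 0) (nat_lit 0) (XT.lf (nat_lit 0) (nat_lit 47255248391) (nat_lit 76) (nat_lit 102889396445) (nat_lit 152) (nat_lit 108527223583) (nat_lit 10) (nat_lit 5) (nat_lit 11) (nat_lit 5) (nat_lit 12) (nat_lit 4) (nat_lit 305) (nat_lit 273) (nat_lit 142)) (XT.lf (nat_lit 0) (nat_lit 138981532476) (nat_lit 76) (nat_lit 55262682249) (nat_lit 152) (nat_lit 80854225008) (nat_lit 10) (nat_lit 5) (nat_lit 11) (nat_lit 5) (nat_lit 12) (nat_lit 4) (nat_lit 306) (nat_lit 273) (nat_lit 141))) (XT.nd (nat_lit 78) (nat_lit 76) (nat_lit 0) (XT.lf (nat_lit 0) (nat_lit 238045397714) (nat_lit 76) (nat_lit 3826040898) (nat_lit 152) (nat_lit 50967723838) (nat_lit 10) (nat_lit 5) (nat_lit 11) (nat_lit 5) (nat_lit 12) (nat_lit 4) (nat_lit 307) (nat_lit 273) (nat_lit 140)) (XT.lf (nat_lit 0) (nat_lit 33464770181) (nat_lit 76) (nat_lit 261892605852) (nat_lit 76) (nat_lit 16477884816) (nat_lit 9) (nat_lit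 4) (nat_lit 10) (nat_lit 5) (nat_lit 10) (nat_lit 4) (nat_lit 308) (nat_lit 273) (nat_lit 139)))))) (XT.nd (nat_lit 468) (nat_lit 152) (nat_lit 0) (XT.nd (nat_lit 234) (nat_lit 76) (nat_lit 0) (XT.nd (nat_lit 78) (nat_lit 0) (nat_lit 0) (XT.lf (nat_lit 0) (nat_lit 21368243016) (nat_lit 152) (nat_lit 200969379228) (nat_lit 76) (nat_lit 109842569111) (nat_lit 8) (nat_lit 5) (nat_lit 10) (nat_lit 5) (nat_lit 9) (nat_lit 4) (nat_lit 309) (nat_lit 273) (nat_lit 138)) (XT.nd (nat_lit 78) (nat_lit 0) (nat_lit 0) (XT.lf (nat_lit 0) (nat_lit 61351557648) (nat_lit 152) (nat_lit 117804643747) (nat_lit 76) (nat_lit 174962297286) (nat_lit 8) (nat_lit 5) (nat_lit 10) (nat_lit 5) (nat_lit 9) (nat_lit 4) (nat_lit 310) (nat_lit 273) (nat_lit 137)) (XT.lf (nat_lit 0) (nat_lit 104533287771) (nat_lit 152) (nat_lit 27987162637) (nat_lit 76) (nat_lit 245291440682) (nat_lit 8) (nat_lit 5) (nat_lit 10) (nat_lit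 5) (nat_lit 9) (nat_lit 4) (nat_lit 311) (nat_lit 273) (nat_lit 136)))) (XT.nd (nat_lit 78) (nat_lit 0) (nat_lit 0) (XT.lf (nat_lit 0) (nat_lit 72649540066) (nat_lit 76) (nat_lit 80267008241) (nat_lit 152) (nat_lit 250344447714) (nat_lit 7) (nat_lit 5) (nat_lit 8) (nat_lit 5) (nat_lit 9) (nat_lit 4) (nat_lit 312) (nat_lit 273) (nat_lit 135)) (XT.nd (nat_lit 78) (nat_lit 0) (nat_lit 0) (XT.lf (nat_lit 0) (nat_lit 182928442759) (nat_lit 76) (nat_lit 23007022090) (nat_lit 152) (nat_lit 224749365334) (nat_lit 7) (nat_lit 5) (nat_lit 8) (nat_lit 5) (nat_lit 9) (nat_lit 4) (nat_lit 313) (nat_lit 273) (nat_lit 134)) (XT.lf (nat_lit 0) (nat_lit 264129637009) (nat_lit 152) (nat_lit 159207241588) (nat_lit 0) (nat_lit 36890993514) (nat_lit 7) (nat_lit 5) (nat_lit 9) (nat_lit 4) (nat_lit 7) (nat_lit 4) (nat_lit 314) (nat_lit 273) (nat_lit 133))))) (XT.nd (nat_lit 234) (nat_lit 76) (nat_lit 0)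 (XT.nd (nat_lit 78) (nat_lit 76) (nat_lit 0) (XT.lf (nat_lit 0) (nat_lit 327576732895) (nat_lit 152) (nat_lit 64172096524) (nat_lit 0) (nat_lit 100337737166) (nat_lit 7) (nat_lit 5) (nat_lit 9) (nat_lit 4) (nat_lit 7) (nat_lit 4) (nat_lit 315) (nat_lit 273) (nat_lit 132)) (XT.nd (nat_lit 78) (nat_lit 0) (nat_lit 0) (XT.lf (nat_lit 0) (nat_lit 40491065520) (nat_lit 76) (nat_lit 356582161442) (nat_lit 76) (nat_lit 129342839570) (nat_lit 6) (nat_lit 4) (nat_lit 7) (nat_lit 5) (nat_lit 7) (nat_lit 4) (nat_lit 316) (nat_lit 273) (nat_lit 131)) (XT.lf (nat_lit 0) (nat_lit 157176490951) (nat_lit 76) (nat_lit 316707353693) (nat_lit 76) (nat_lit 89467729837) (nat_lit 6) (nat_lit 4) (nat_lit 7) (nat_lit 5) (nat_lit 7) (nat_lit 4) (nat_lit 317) (nat_lit 273) (nat_lit 130)))) (XT.nd (nat_lit 156) (nat_lit 0) (nat_lit 0) (XT.nd (nat_lit 78) (nat_lit 76) (nat_lit 0) (XT.lf (nat_lit 0) (nat_lit 283196460076)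 (nat_lit 76) (nat_lit 273642689855) (nat_lit 76) (nat_lit 46402786384) (nat_lit 6) (nat_lit 4) (nat_lit 7) (nat_lit 5) (nat_lit 7) (nat_lit 4) (nat_lit 318) (nat_lit 273) (nat_lit 129)) (XT.lf (nat_lit 0) (nat_lit 101828351) (nat_lit 152) (nat_lit 227028359402) (nat_lit 76) (nat_lit 419193145379) (nat_lit 5) (nat_lit 5) (nat_lit 7) (nat_lit 5) (nat_lit 6) (nat_lit 4) (nat_lit 319) (nat_lit 273) (nat_lit 128))) (XT.nd (nat_lit 78) (nat_lit 0) (nat_lit 0) (XT.lf (nat_lit 0) (nat_lit 47819713956) (nat_lit 152) (nat_lit 127775397068) (nat_lit 76) (nat_lit 517159720945) (nat_lit 5) (nat_lit 5) (nat_lit 7) (nat_lit 5) (nat_lit 6) (nat_lit 4) (nat_lit 320) (nat_lit 273) (nat_lit 127)) (XT.lf (nat_lit 0) (nat_lit 99354898394) (nat_lit 152) (nat_lit 20582435406) (nat_lit 76) (nat_lit 622963527702) (nat_lit 5) (nat_lit 5) (nat_lit 7) (nat_lit 5) (nat_lit 6) (nat_lit 4) (nat_lit 321) (nat_lit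 273) (nat_lit 126))))))) (XT.nd (nat_lit 33774) (nat_lit 0) (nat_lit 1824) (XT.nd (nat_lit 468) (nat_lit 76) (nat_lit 0) (XT.nd (nat_lit 234) (nat_lit 0) (nat_lit 0) (XT.nd (nat_lit 78) (nat_lit 0) (nat_lit 0) (XT.lf (nat_lit 0) (nat_lit 100198055684) (nat_lit 76) (nat_lit 57224485313) (nat_lit 152) (nat_lit 639443261134) (nat_lit 4) (nat_lit 5) (nat_lit 5) (nat_lit 5) (nat_lit 6) (nat_lit 4) (nat_lit 322) (nat_lit 273) (nat_lit 125)) (XT.nd (nat_lit 78) (nat_lit 0) (nat_lit 0) (XT.lf (nat_lit 0) (nat_lit 220965506673) (nat_lit 152) (nat_lit 623558883678) (nat_lit 0) (nat_lit 10557154920) (nat_lit 4) (nat_lit 5) (nat_lit 6) (nat_lit 4) (nat_lit 4) (nat_lit 4) (nat_lit 323) (nat_lit 273) (nat_lit 124)) (XT.lf (nat_lit 0) (nat_lit 291078148154) (nat_lit 152) (nat_lit 546087867555) (nat_lit 0) (nat_lit 80669633249) (nat_lit 4) (nat_lit 5) (nat_lit 6) (nat_lit 4) (nat_lit 4) (nat_lit 4)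 (nat_lit 324) (nat_lit 273) (nat_lit 123)))) (XT.nd (nat_lit 78) (nat_lit 0) (nat_lit 0) (XT.lf (nat_lit 0) (nat_lit 366799697513) (nat_lit 152) (nat_lit 462419360326) (nat_lit 0) (nat_lit 156391031540) (nat_lit 4) (nat_lit 5) (nat_lit 6) (nat_lit 4) (nat_lit 4) (nat_lit 4) (nat_lit 325) (nat_lit 273) (nat_lit 122)) (XT.nd (nat_lit 78) (nat_lit 0) (nat_lit 0) (XT.lf (nat_lit 0) (nat_lit 448578875042) (nat_lit 152) (nat_lit 372057548617) (nat_lit 0) (nat_lit 238170069192) (nat_lit 4) (nat_lit 5) (nat_lit 6) (nat_lit 4) (nat_lit 4) (nat_lit 4) (nat_lit 326) (nat_lit 273) (nat_lit 121)) (XT.lf (nat_lit 0) (nat_lit 536900298090) (nat_lit 152) (nat_lit 274466955024) (nat_lit 0) (nat_lit 326491362724) (nat_lit 4) (nat_lit 5) (nat_lit 6) (nat_lit 4) (nat_lit 4) (nat_lit 4) (nat_lit 327) (nat_lit 273) (nat_lit 120))))) (XT.nd (nat_lit 234) (nat_lit 0) (nat_lit 0) (XT.nd (nat_lit 78) (nat_lit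 76) (nat_lit 0) (XT.lf (nat_lit 0) (nat_lit 632287352867) (nat_lit 152) (nat_lit 169069264918) (nat_lit 0) (nat_lit 421878297579) (nat_lit 4) (nat_lit 5) (nat_lit 6) (nat_lit 4) (nat_lit 4) (nat_lit 4) (nat_lit 328) (nat_lit 273) (nat_lit 119)) (XT.nd (nat_lit 78) (nat_lit 76) (nat_lit 0) (XT.lf (nat_lit 0) (nat_lit 735305295994) (nat_lit 152) (nat_lit 55239899395) (nat_lit 0) (nat_lit 524896129667) (nat_lit 4) (nat_lit 5) (nat_lit 6) (nat_lit 4) (nat_lit 4) (nat_lit 4) (nat_lit 329) (nat_lit 273) (nat_lit 118)) (XT.lf (nat_lit 0) (nat_lit 71260420786) (nat_lit 76) (nat_lit 777017998218) (nat_lit 76) (nat_lit 566608729078) (nat_lit 3) (nat_lit 4) (nat_lit 4) (nat_lit 5) (nat_lit 4) (nat_lit 4) (nat_lit 330) (nat_lit 273) (nat_lit 117)))) (XT.nd (nat_lit 156) (nat_lit 0) (nat_lit 0) (XT.nd (nat_lit 78) (nat_lit 0) (nat_lit 0) (XT.lf (nat_lit 0) (nat_lit 211022182448) (nat_lit 76) (nat_lit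 760777497931) (nat_lit 76) (nat_lit 550368133593) (nat_lit 3) (nat_lit 4) (nat_lit 4) (nat_lit 5) (nat_lit 4) (nat_lit 4) (nat_lit 331) (nat_lit 273) (nat_lit 116)) (XT.lf (nat_lit 0) (nat_lit 361964768229) (nat_lit 76) (nat_lit 743237811270) (nat_lit 76) (nat_lit 532828358785) (nat_lit 3) (nat_lit 4) (nat_lit 4) (nat_lit 5) (nat_lit 4) (nat_lit 4) (nat_lit 332) (nat_lit 273) (nat_lit 115))) (XT.nd (nat_lit 78) (nat_lit 0) (nat_lit 0) (XT.lf (nat_lit 0) (nat_lit 524982652710) (nat_lit 76) (nat_lit 724294999350) (nat_lit 76) (nat_lit 513885465248) (nat_lit 3) (nat_lit 4) (nat_lit 4) (nat_lit 5) (nat_lit 4) (nat_lit 4) (nat_lit 333) (nat_lit 273) (nat_lit 114)) (XT.lf (nat_lit 0) (nat_lit 701041867801) (nat_lit 76) (nat_lit 703836808471) (nat_lit 76) (nat_lit 493427198798) (nat_lit 3) (nat_lit 4) (nat_lit 4) (nat_lit 5) (nat_lit 4) (nat_lit 4) (nat_lit 334) (nat_lit 273) (nat_lit 113))))))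 (XT.nd (nat_lit 468) (nat_lit 684) (nat_lit 0) (XT.nd (nat_lit 234) (nat_lit 0) (nat_lit 76) (XT.nd (nat_lit 78) (nat_lit 0) (nat_lit 0) (XT.lf (nat_lit 0) (nat_lit 10264664479) (nat_lit 532) (nat_lit 8913578120) (nat_lit 532) (nat_lit 8913578120) (nat_lit 36) (nat_lit 3) (nat_lit 43) (nat_lit 3) (nat_lit 43) (nat_lit 5) (nat_lit 274) (nat_lit 274) (nat_lit 172)) (XT.nd (nat_lit 78) (nat_lit 0) (nat_lit 76) (XT.lf (nat_lit 76) (nat_lit 6516428615) (nat_lit 0) (nat_lit 15009279848) (nat_lit 532) (nat_lit 36891164273) (nat_lit 37) (nat_lit 5) (nat_lit 36) (nat_lit 3) (nat_lit 43) (nat_lit 5) (nat_lit 275) (nat_lit 274) (nat_lit 171)) (XT.lf (nat_lit 0) (nat_lit 23345476944) (nat_lit 456) (nat_lit 27227765755) (nat_lit 532) (nat_lit 10196035339) (nat_lit 37) (nat_lit 5) (nat_lit 43) (nat_lit 5) (nat_lit 44) (nat_lit 5) (nat_lit 276) (nat_lit 274) (nat_lit 170)))) (XT.nd (nat_lit 78) (nat_lit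 0) (nat_lit 0) (XT.lf (nat_lit 0) (nat_lit 25698960530) (nat_lit 456) (nat_lit 972268930) (nat_lit 532) (nat_lit 36607604678) (nat_lit 37) (nat_lit 5) (nat_lit 43) (nat_lit 5) (nat_lit 44) (nat_lit 5) (nat_lit 277) (nat_lit 274) (nat_lit 169)) (XT.nd (nat_lit 78) (nat_lit 0) (nat_lit 76) (XT.lf (nat_lit 76) (nat_lit 28824527634) (nat_lit 0) (nat_lit 107835196) (nat_lit 532) (nat_lit 37001469087) (nat_lit 38) (nat_lit 5) (nat_lit 37) (nat_lit 5) (nat_lit 44) (nat_lit 5) (nat_lit 278) (nat_lit 274) (nat_lit 168)) (XT.lf (nat_lit 0) (nat_lit 33137589811) (nat_lit 456) (nat_lit 8427967998) (nat_lit 532) (nat_lit 27178627282) (nat_lit 38) (nat_lit 5) (nat_lit 44) (nat_lit 5) (nat_lit 45) (nat_lit 5) (nat_lit 279) (nat_lit 274) (nat_lit 167))))) (XT.nd (nat_lit 234) (nat_lit 456) (nat_lit 0) (XT.nd (nat_lit 78) (nat_lit 380) (nat_lit 0) (XT.lf (nat_lit 76) (nat_lit 23731116045) (nat_lit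 0) (nat_lit 14520277437) (nat_lit 532) (nat_lit 33482207548) (nat_lit 39) (nat_lit 5) (nat_lit 38) (nat_lit 5) (nat_lit 45) (nat_lit 5) (nat_lit 280) (nat_lit 274) (nat_lit 166)) (XT.nd (nat_lit 78) (nat_lit 456) (nat_lit 0) (XT.lf (nat_lit 0) (nat_lit 44362690221) (nat_lit 456) (nat_lit 16361923493) (nat_lit 76) (nat_lit 14190492094) (nat_lit 39) (nat_lit 5) (nat_lit 45) (nat_lit 5) (nat_lit 40) (nat_lit 5) (nat_lit 281) (nat_lit 274) (nat_lit 165)) (XT.lf (nat_lit 0) (nat_lit 18349565609) (nat_lit 456) (nat_lit 33430584552) (nat_lit 532) (nat_lit 26505606219) (nat_lit 33) (nat_lit 5) (nat_lit 39) (nat_lit 5) (nat_lit 40) (nat_lit 5) (nat_lit 282) (nat_lit 274) (nat_lit 164)))) (XT.nd (nat_lit 156) (nat_lit 228) (nat_lit 0) (XT.nd (nat_lit 78) (nat_lit 228) (nat_lit 0) (XT.lf (nat_lit 0) (nat_lit 56767431609) (nat_lit 456) (nat_lit 3469804448) (nat_lit 532) (nat_lit 21653130319) (nat_lit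 33) (nat_lit 5) (nat_lit 39) (nat_lit 5) (nat_lit 40) (nat_lit 5) (nat_lit 283) (nat_lit 274) (nat_lit 163)) (XT.lf (nat_lit 0) (nat_lit 12399847209) (nat_lit 228) (nat_lit 57962962360) (nat_lit 304) (nat_lit 15341187234) (nat_lit 30) (nat_lit 5) (nat_lit 33) (nat_lit 5) (nat_lit 34) (nat_lit 5) (nat_lit 284) (nat_lit 274) (nat_lit 162))) (XT.nd (nat_lit 78) (nat_lit 228) (nat_lit 0) (XT.lf (nat_lit 0) (nat_lit 54257299958) (nat_lit 228) (nat_lit 27814881215) (nat_lit 304) (nat_lit 7688641211) (nat_lit 30) (nat_lit 5) (nat_lit 33) (nat_lit 5) (nat_lit 34) (nat_lit 5) (nat_lit 285) (nat_lit 274) (nat_lit 161)) (XT.lf (nat_lit 0) (nat_lit 798640318) (nat_lit 228) (nat_lit 88662687826) (nat_lit 76) (nat_lit 4659653544) (nat_lit 27) (nat_lit 5) (nat_lit 30) (nat_lit 5) (nat_lit 28) (nat_lit 5) (nat_lit 286) (nat_lit 274) (nat_lit 160))))))))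
noncomputable def xc104 : XT := (XT.nd (nat_lit 1950) (nat_lit 380) (nat_lit 0) (XT.nd (nat_lit 936) (nat_lit 532) (nat_lit 0) (XT.nd (nat_lit 468) (nat_lit 532) (nat_lit 0) (XT.nd (nat_lit 234) (nat_lit 152) (nat_lit 0) (XT.nd (nat_lit 78) (nat_lit 228) (nat_lit 0) (XT.lf (nat_lit 0) (nat_lit 11267018794) (nat_lit 228) (nat_lit 47984576141) (nat_lit 76) (nat_lit 39424986231) (nat_lit 27) (nat_lit 5) (nat_lit 30) (nat_lit 5) (nat_lit 28) (nat_lit 5) (nat_lit 287) (nat_lit 274) (nat_lit 159)) (XT.nd (nat_lit 78) (nat_lit 228) (nat_lit 0) (XT.lf (nat_lit 0) (nat_lit 22572028049) (nat_lit 228) (nat_lit 4053206093) (nat_lit 76) (nat_lit 76971465221) (nat_lit 27) (nat_lit 5) (nat_lit 30) (nat_lit 5) (nat_lit 28) (nat_lit 5) (nat_lit 288) (nat_lit 274) (nat_lit 158)) (XT.lf (nat_lit 0) (nat_lit 36114816394) (nat_lit 304) (nat_lit 63381551325) (nat_lit 76) (nat_lit 9307392360) (nat_lit 24)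 (nat_lit 5) (nat_lit 28) (nat_lit 5) (nat_lit 25) (nat_lit 5) (nat_lit 289) (nat_lit 274) (nat_lit 157)))) (XT.nd (nat_lit 78) (nat_lit 152) (nat_lit 0) (XT.lf (nat_lit 0) (nat_lit 51545547748) (nat_lit 304) (nat_lit 16027749393) (nat_lit 76) (nat_lit 46789730004) (nat_lit 24) (nat_lit 5) (nat_lit 28) (nat_lit 5) (nat_lit 25) (nat_lit 5) (nat_lit 290) (nat_lit 274) (nat_lit 156)) (XT.nd (nat_lit 78) (nat_lit 0) (nat_lit 0) (XT.lf (nat_lit 0) (nat_lit 36962487920) (nat_lit 152) (nat_lit 32136508684) (nat_lit 228) (nat_lit 51196981111) (nat_lit 22) (nat_lit 5) (nat_lit 24) (nat_lit 5) (nat_lit 25) (nat_lit 5) (nat_lit 291) (nat_lit 274) (nat_lit 155)) (XT.lf (nat_lit 0) (nat_lit 88653219080) (nat_lit 228) (nat_lit 31724894769) (nat_lit 76) (nat_lit 6277733309) (nat_lit 22) (nat_lit 5) (nat_lit 25) (nat_lit 5) (nat_lit 23) (nat_lit 5) (nat_lit 292) (nat_lit 274) (nat_lit 154))))) (XT.nd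 (nat_lit 234) (nat_lit 152) (nat_lit 0) (XT.nd (nat_lit 78) (nat_lit 228) (nat_lit 0) (XT.lf (nat_lit 0) (nat_lit 24397281243) (nat_lit 152) (nat_lit 86795352880) (nat_lit 228) (nat_lit 22218206102) (nat_lit 20) (nat_lit 5) (nat_lit 22) (nat_lit 5) (nat_lit 23) (nat_lit 5) (nat_lit 293) (nat_lit 274) (nat_lit 153)) (XT.nd (nat_lit 78) (nat_lit 228) (nat_lit 0) (XT.lf (nat_lit 0) (nat_lit 86812632631) (nat_lit 152) (nat_lit 49589395433) (nat_lit 228) (nat_lit 4234860887) (nat_lit 20) (nat_lit 5) (nat_lit 22) (nat_lit 5) (nat_lit 23) (nat_lit 5) (nat_lit 294) (nat_lit 274) (nat_lit 152)) (XT.lf (nat_lit 0) (nat_lit 5699246322) (nat_lit 152) (nat_lit 8864688110) (nat_lit 228) (nat_lit 133836948551) (nat_lit 17) (nat_lit 5) (nat_lit 19) (nat_lit 5) (nat_lit 20) (nat_lit 5) (nat_lit 295) (nat_lit 274) (nat_lit 151)))) (XT.nd (nat_lit 78) (nat_lit 152) (nat_lit 0) (XT.lf (nat_lit 0) (nat_lit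 36991760523) (nat_lit 228) (nat_lit 84616223351) (nat_lit 76) (nat_lit 34980901183) (nat_lit 17) (nat_lit 5) (nat_lit 20) (nat_lit 5) (nat_lit 18) (nat_lit 5) (nat_lit 296) (nat_lit 274) (nat_lit 150)) (XT.nd (nat_lit 78) (nat_lit 152) (nat_lit 0) (XT.lf (nat_lit 0) (nat_lit 61443560398) (nat_lit 228) (nat_lit 22114979971) (nat_lit 76) (nat_lit 81855008779) (nat_lit 17) (nat_lit 5) (nat_lit 20) (nat_lit 5) (nat_lit 18) (nat_lit 5) (nat_lit 297) (nat_lit 274) (nat_lit 149)) (XT.lf (nat_lit 0) (nat_lit 47775595982) (nat_lit 152) (nat_lit 41224445901) (nat_lit 228) (nat_lit 85852263018) (nat_lit 15) (nat_lit 5) (nat_lit 17) (nat_lit 5) (nat_lit 18) (nat_lit 5) (nat_lit 298) (nat_lit 274) (nat_lit 148)))))) (XT.nd (nat_lit 468) (nat_lit 228) (nat_lit 0) (XT.nd (nat_lit 234) (nat_lit 228) (nat_lit 0) (XT.nd (nat_lit 78) (nat_lit 76) (nat_lit 0) (XT.lf (nat_lit 0) (nat_lit 119489094229)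 (nat_lit 228) (nat_lit 60607224917) (nat_lit 76) (nat_lit 4891599211) (nat_lit 15) (nat_lit 5) (nat_lit 18) (nat_lit 5) (nat_lit 16) (nat_lit 4) (nat_lit 299) (nat_lit 274) (nat_lit 147)) (XT.nd (nat_lit 78) (nat_lit 0) (nat_lit 0) (XT.lf (nat_lit 0) (nat_lit 10640685904) (nat_lit 76) (nat_lit 143102838178) (nat_lit 152) (nat_lit 42084757865) (nat_lit 14) (nat_lit 5) (nat_lit 15) (nat_lit 5) (nat_lit 16) (nat_lit 4) (nat_lit 300) (nat_lit 274) (nat_lit 146)) (XT.lf (nat_lit 0) (nat_lit 91034575537) (nat_lit 76) (nat_lit 101360437184) (nat_lit 152) (nat_lit 15008326778) (nat_lit 14) (nat_lit 5) (nat_lit 15) (nat_lit 5) (nat_lit 16) (nat_lit 4) (nat_lit 301) (nat_lit 274) (nat_lit 145)))) (XT.nd (nat_lit 78) (nat_lit 152) (nat_lit 0) (XT.lf (nat_lit 0) (nat_lit 13521780143) (nat_lit 152) (nat_lit 42387373146) (nat_lit 76) (nat_lit 163967893582) (nat_lit 13) (nat_lit 5) (nat_lit 15) (nat_lit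 5) (nat_lit 14) (nat_lit 5) (nat_lit 302) (nat_lit 274) (nat_lit 144)) (XT.nd (nat_lit 78) (nat_lit 0) (nat_lit 0) (XT.lf (nat_lit 0) (nat_lit 39076919010) (nat_lit 152) (nat_lit 5385981144) (nat_lit 228) (nat_lit 188779409996) (nat_lit 11) (nat_lit 5) (nat_lit 13) (nat_lit 5) (nat_lit 14) (nat_lit 5) (nat_lit 303) (nat_lit 274) (nat_lit 143)) (XT.lf (nat_lit 0) (nat_lit 80250766558) (nat_lit 228) (nat_lit 119328554444) (nat_lit 76) (nat_lit 47907757850) (nat_lit 11) (nat_lit 5) (nat_lit 14) (nat_lit 5) (nat_lit 12) (nat_lit 4) (nat_lit 304) (nat_lit 274) (nat_lit 142))))) (XT.nd (nat_lit 234) (nat_lit 152) (nat_lit 0) (XT.nd (nat_lit 78) (nat_lit 76) (nat_lit 0) (XT.lf (nat_lit 0) (nat_lit 119041234914) (nat_lit 228) (nat_lit 38645201545) (nat_lit 76) (nat_lit 105173827611) (nat_lit 11) (nat_lit 5) (nat_lit 14) (nat_lit 5) (nat_lit 12) (nat_lit 4) (nat_lit 305) (nat_lit 274) (nat_lit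 141)) (XT.nd (nat_lit 78) (nat_lit 0) (nat_lit 0) (XT.lf (nat_lit 0) (nat_lit 51045843954) (nat_lit 76) (nat_lit 111116451512) (nat_lit 152) (nat_lit 117202821036) (nat_lit 10) (nat_lit 5) (nat_lit 11) (nat_lit 5) (nat_lit 12) (nat_lit 4) (nat_lit 306) (nat_lit 274) (nat_lit 140)) (XT.lf (nat_lit 0) (nat_lit 150109477010) (nat_lit 76) (nat_lit 59679903636) (nat_lit 152) (nat_lit 87316470014) (nat_lit 10) (nat_lit 5) (nat_lit 11) (nat_lit 5) (nat_lit 12) (nat_lit 4) (nat_lit 307) (nat_lit 274) (nat_lit 139)))) (XT.nd (nat_lit 156) (nat_lit 76) (nat_lit 0) (XT.nd (nat_lit 78) (nat_lit 76) (nat_lit 0) (XT.lf (nat_lit 0) (nat_lit 257097753546) (nat_lit 76) (nat_lit 4128611954) (nat_lit 152) (nat_lit 55039500084) (nat_lit 10) (nat_lit 5) (nat_lit 11) (nat_lit 5) (nat_lit 12) (nat_lit 4) (nat_lit 308) (nat_lit 274) (nat_lit 138)) (XT.lf (nat_lit 0) (nat_lit 36150791599) (nat_lit 76) (nat_lit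 282840291067) (nat_lit 76) (nat_lit 17790577767) (nat_lit 9) (nat_lit 4) (nat_lit 10) (nat_lit 5) (nat_lit 10) (nat_lit 4) (nat_lit 309) (nat_lit 274) (nat_lit 137))) (XT.nd (nat_lit 78) (nat_lit 0) (nat_lit 0) (XT.lf (nat_lit 0) (nat_lit 23082573578) (nat_lit 152) (nat_lit 217038477804) (nat_lit 76) (nat_lit 118633155337) (nat_lit 8) (nat_lit 5) (nat_lit 10) (nat_lit 5) (nat_lit 9) (nat_lit 4) (nat_lit 310) (nat_lit 274) (nat_lit 136)) (XT.lf (nat_lit 0) (nat_lit 66264192556) (nat_lit 152) (nat_lit 127221189541) (nat_lit 76) (nat_lit 188962226159) (nat_lit 8) (nat_lit 5) (nat_lit 10) (nat_lit 5) (nat_lit 9) (nat_lit 4) (nat_lit 311) (nat_lit 274) (nat_lit 135))))))) (XT.nd (nat_lit 1014) (nat_lit 76) (nat_lit 0) (XT.nd (nat_lit 468) (nat_lit 152) (nat_lit 0) (XT.nd (nat_lit 234) (nat_lit 76) (nat_lit 0) (XT.nd (nat_lit 78) (nat_lit 76) (nat_lit 0) (XT.lf (nat_lit 0) (nat_lit 112900126993)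 (nat_lit 152) (nat_lit 30218889624) (nat_lit 76) (nat_lit 264917482872) (nat_lit 8) (nat_lit 5) (nat_lit 10) (nat_lit 5) (nat_lit 9) (nat_lit 4) (nat_lit 312) (nat_lit 274) (nat_lit 134)) (XT.nd (nat_lit 78) (nat_lit 0) (nat_lit 0) (XT.lf (nat_lit 0) (nat_lit 78468565852) (nat_lit 76) (nat_lit 86685343027) (nat_lit 152) (nat_lit 270367635746) (nat_lit 7) (nat_lit 5) (nat_lit 8) (nat_lit 5) (nat_lit 9) (nat_lit 4) (nat_lit 313) (nat_lit 274) (nat_lit 133)) (XT.lf (nat_lit 0) (nat_lit 197569257606) (nat_lit 76) (nat_lit 24844782123) (nat_lit 152) (nat_lit 242725270316) (nat_lit 7) (nat_lit 5) (nat_lit 8) (nat_lit 5) (nat_lit 9) (nat_lit 4) (nat_lit 314) (nat_lit 274) (nat_lit 132)))) (XT.nd (nat_lit 78) (nat_lit 76) (nat_lit 0) (XT.lf (nat_lit 0) (nat_lit 285263531186) (nat_lit 152) (nat_lit 171937544436) (nat_lit 0) (nat_lit 39844737422) (nat_lit 7) (nat_lit 5) (nat_lit 9) (nat_lit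 4) (nat_lit 7) (nat_lit 4) (nat_lit 315) (nat_lit 274) (nat_lit 131)) (XT.nd (nat_lit 78) (nat_lit 76) (nat_lit 0) (XT.lf (nat_lit 0) (nat_lit 353786133764) (nat_lit 152) (nat_lit 69300052691) (nat_lit 0) (nat_lit 108367038015) (nat_lit 7) (nat_lit 5) (nat_lit 9) (nat_lit 4) (nat_lit 7) (nat_lit 4) (nat_lit 316) (nat_lit 274) (nat_lit 130)) (XT.lf (nat_lit 0) (nat_lit 43736015188) (nat_lit 76) (nat_lit 385106226751) (nat_lit 76) (nat_lit 139686851387) (nat_lit 6) (nat_lit 4) (nat_lit 7) (nat_lit 5) (nat_lit 7) (nat_lit 4) (nat_lit 317) (nat_lit 274) (nat_lit 129))))) (XT.nd (nat_lit 234) (nat_lit 76) (nat_lit 0) (XT.nd (nat_lit 78) (nat_lit 76) (nat_lit 0) (XT.lf (nat_lit 0) (nat_lit 169755855066) (nat_lit 76) (nat_lit 342041620130) (nat_lit 76) (nat_lit 96621985863) (nat_lit 6) (nat_lit 4) (nat_lit 7) (nat_lit 5) (nat_lit 7) (nat_lit 4) (nat_lit 318) (nat_lit 274) (nat_lit 128)) (XT.nd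 (nat_lit 78) (nat_lit 76) (nat_lit 0) (XT.lf (nat_lit 0) (nat_lit 305857033215) (nat_lit 76) (nat_lit 295531955175) (nat_lit 76) (nat_lit 50112081183) (nat_lit 6) (nat_lit 4) (nat_lit 7) (nat_lit 5) (nat_lit 7) (nat_lit 4) (nat_lit 319) (nat_lit 274) (nat_lit 127)) (XT.lf (nat_lit 0) (nat_lit 112550208) (nat_lit 152) (nat_lit 245185991526) (nat_lit 76) (nat_lit 452730447604) (nat_lit 5) (nat_lit 5) (nat_lit 7) (nat_lit 5) (nat_lit 6) (nat_lit 4) (nat_lit 320) (nat_lit 274) (nat_lit 126)))) (XT.nd (nat_lit 156) (nat_lit 76) (nat_lit 0) (XT.nd (nat_lit 78) (nat_lit 0) (nat_lit 0) (XT.lf (nat_lit 0) (nat_lit 51647675877) (nat_lit 152) (nat_lit 137993135659) (nat_lit 76) (nat_lit 558534212135) (nat_lit 5) (nat_lit 5) (nat_lit 7) (nat_lit 5) (nat_lit 6) (nat_lit 4) (nat_lit 321) (nat_lit 274) (nat_lit 125)) (XT.lf (nat_lit 0) (nat_lit 107305498417) (nat_lit 152) (nat_lit 22225055076) (nat_lit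 76) (nat_lit 672802196505) (nat_lit 5) (nat_lit 5) (nat_lit 7) (nat_lit 5) (nat_lit 6) (nat_lit 4) (nat_lit 322) (nat_lit 274) (nat_lit 124))) (XT.nd (nat_lit 78) (nat_lit 0) (nat_lit 0) (XT.lf (nat_lit 0) (nat_lit 108217774664) (nat_lit 76) (nat_lit 61800707381) (nat_lit 152) (nat_lit 690596409744) (nat_lit 4) (nat_lit 5) (nat_lit 5) (nat_lit 5) (nat_lit 6) (nat_lit 4) (nat_lit 323) (nat_lit 274) (nat_lit 123)) (XT.lf (nat_lit 0) (nat_lit 238644765296) (nat_lit 152) (nat_lit 673439883938) (nat_lit 0) (nat_lit 11403254978) (nat_lit 4) (nat_lit 5) (nat_lit 6) (nat_lit 4) (nat_lit 4) (nat_lit 4) (nat_lit 324) (nat_lit 274) (nat_lit 122)))))) (XT.nd (nat_lit 468) (nat_lit 76) (nat_lit 0) (XT.nd (nat_lit 234) (nat_lit 0) (nat_lit 0) (XT.nd (nat_lit 78) (nat_lit 0) (nat_lit 0) (XT.lf (nat_lit 0) (nat_lit 314366268608) (nat_lit 152) (nat_lit 589771461372) (nat_lit 0) (nat_lit 87124618413)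 (nat_lit 4) (nat_lit 5) (nat_lit 6) (nat_lit 4) (nat_lit 4) (nat_lit 4) (nat_lit 325) (nat_lit 274) (nat_lit 121)) (XT.nd (nat_lit 78) (nat_lit 0) (nat_lit 0) (XT.lf (nat_lit 0) (nat_lit 396145403500) (nat_lit 152) (nat_lit 499409728054) (nat_lit 0) (nat_lit 168903623790) (nat_lit 4) (nat_lit 5) (nat_lit 6) (nat_lit 4) (nat_lit 4) (nat_lit 4) (nat_lit 326) (nat_lit 274) (nat_lit 120)) (XT.lf (nat_lit 0) (nat_lit 484466787070) (nat_lit 152) (nat_lit 401819207045) (nat_lit 0) (nat_lit 257224887437) (nat_lit 4) (nat_lit 5) (nat_lit 6) (nat_lit 4) (nat_lit 4) (nat_lit 4) (nat_lit 327) (nat_lit 274) (nat_lit 119)))) (XT.nd (nat_lit 78) (nat_lit 0) (nat_lit 0) (XT.lf (nat_lit 0) (nat_lit 579853805293) (nat_lit 152) (nat_lit 296421584146) (nat_lit 0) (nat_lit 352611794621) (nat_lit 4) (nat_lit 5) (nat_lit 6) (nat_lit 4) (nat_lit 4) (nat_lit 4) (nat_lit 328) (nat_lit 274) (nat_lit 118)) (XT.nd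 (nat_lit 78) (nat_lit 0) (nat_lit 0) (XT.lf (nat_lit 0) (nat_lit 682871714574) (nat_lit 152) (nat_lit 182592280853) (nat_lit 0) (nat_lit 455629601088) (nat_lit 4) (nat_lit 5) (nat_lit 6) (nat_lit 4) (nat_lit 4) (nat_lit 4) (nat_lit 329) (nat_lit 274) (nat_lit 117)) (XT.lf (nat_lit 0) (nat_lit 794130991412) (nat_lit 152) (nat_lit 59656753144) (nat_lit 0) (nat_lit 566888782728) (nat_lit 4) (nat_lit 5) (nat_lit 6) (nat_lit 4) (nat_lit 4) (nat_lit 4) (nat_lit 330) (nat_lit 274) (nat_lit 116))))) (XT.nd (nat_lit 234) (nat_lit 0) (nat_lit 0) (XT.nd (nat_lit 78) (nat_lit 0) (nat_lit 0) (XT.lf (nat_lit 0) (nat_lit 76963533456) (nat_lit 76) (nat_lit 839178391414) (nat_lit 76) (nat_lit 611936094584) (nat_lit 3) (nat_lit 4) (nat_lit 4) (nat_lit 5) (nat_lit 4) (nat_lit 4) (nat_lit 331) (nat_lit 274) (nat_lit 115)) (XT.nd (nat_lit 78) (nat_lit 0) (nat_lit 0) (XT.lf (nat_lit 0) (nat_lit 227906067236)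 (nat_lit 76) (nat_lit 821638728634) (nat_lit 76) (nat_lit 594396350188) (nat_lit 3) (nat_lit 4) (nat_lit 4) (nat_lit 5) (nat_lit 4) (nat_lit 4) (nat_lit 332) (nat_lit 274) (nat_lit 114)) (XT.lf (nat_lit 0) (nat_lit 390923903569) (nat_lit 76) (nat_lit 802695938828) (nat_lit 76) (nat_lit 575453484809) (nat_lit 3) (nat_lit 4) (nat_lit 4) (nat_lit 5) (nat_lit 4) (nat_lit 4) (nat_lit 333) (nat_lit 274) (nat_lit 113)))) (XT.nd (nat_lit 32994) (nat_lit 0) (nat_lit 2508) (XT.nd (nat_lit 32916) (nat_lit 0) (nat_lit 2508) (XT.lf (nat_lit 0) (nat_lit 566983074077) (nat_lit 76) (nat_lit 782237768424) (nat_lit 76) (nat_lit 554995244433) (nat_lit 3) (nat_lit 4) (nat_lit 4) (nat_lit 5) (nat_lit 4) (nat_lit 4) (nat_lit 334) (nat_lit 274) (nat_lit 112)) (XT.lf (nat_lit 0) (nat_lit 11103879128) (nat_lit 532) (nat_lit 9616874215) (nat_lit 532) (nat_lit 9616874215) (nat_lit 36) (nat_lit 3) (nat_lit 43)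 (nat_lit 3) (nat_lit 43) (nat_lit 5) (nat_lit 275) (nat_lit 275) (nat_lit 170))) (XT.nd (nat_lit 78) (nat_lit 0) (nat_lit 76) (XT.lf (nat_lit 76) (nat_lit 7056827510) (nat_lit 0) (nat_lit 16224806784) (nat_lit 532) (nat_lit 39805701878) (nat_lit 37) (nat_lit 5) (nat_lit 36) (nat_lit 3) (nat_lit 43) (nat_lit 5) (nat_lit 276) (nat_lit 275) (nat_lit 169)) (XT.lf (nat_lit 0) (nat_lit 25244146197) (nat_lit 456) (nat_lit 29385314276) (nat_lit 532) (nat_lit 10998713569) (nat_lit 37) (nat_lit 5) (nat_lit 43) (nat_lit 5) (nat_lit 44) (nat_lit 5) (nat_lit 277) (nat_lit 275) (nat_lit 168))))))))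
noncomputable def xc105 : XT := (XT.nd (nat_lit 2028) (nat_lit 684) (nat_lit 0) (XT.nd (nat_lit 1014) (nat_lit 836) (nat_lit 0) (XT.nd (nat_lit 468) (nat_lit 684) (nat_lit 0) (XT.nd (nat_lit 234) (nat_lit 304) (nat_lit 0) (XT.nd (nat_lit 78) (nat_lit 0) (nat_lit 0) (XT.lf (nat_lit 0) (nat_lit 27783609869) (nat_lit 456) (nat_lit 1030909019) (nat_lit 532) (nat_lit 39524171759) (nat_lit 37) (nat_lit 5) (nat_lit 43) (nat_lit 5) (nat_lit 44) (nat_lit 5) (nat_lit 278) (nat_lit 275) (nat_lit 167)) (XT.nd (nat_lit 78) (nat_lit 0) (nat_lit 76) (XT.lf (nat_lit 76) (nat_lit 31149146677) (nat_lit 0) (nat_lit 124858041) (nat_lit 532) (nat_lit 39932229133) (nat_lit 38) (nat_lit 5) (nat_lit 37) (nat_lit 5) (nat_lit 44) (nat_lit 5) (nat_lit 279) (nat_lit 275) (nat_lit 166)) (XT.lf (nat_lit 0) (nat_lit 35813458974) (nat_lit 456) (nat_lit 9082609719) (nat_lit 532) (nat_lit 29345532256) (nat_lit 38)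 (nat_lit 5) (nat_lit 44) (nat_lit 5) (nat_lit 45) (nat_lit 5) (nat_lit 280) (nat_lit 275) (nat_lit 165)))) (XT.nd (nat_lit 78) (nat_lit 380) (nat_lit 0) (XT.lf (nat_lit 76) (nat_lit 25648704954) (nat_lit 0) (nat_lit 15686279704) (nat_lit 532) (nat_lit 36135305718) (nat_lit 39) (nat_lit 5) (nat_lit 38) (nat_lit 5) (nat_lit 45) (nat_lit 5) (nat_lit 281) (nat_lit 275) (nat_lit 164)) (XT.nd (nat_lit 78) (nat_lit 456) (nat_lit 0) (XT.lf (nat_lit 0) (nat_lit 47933348361) (nat_lit 456) (nat_lit 17651244314) (nat_lit 76) (nat_lit 15321878718) (nat_lit 39) (nat_lit 5) (nat_lit 45) (nat_lit 5) (nat_lit 40) (nat_lit 5) (nat_lit 282) (nat_lit 275) (nat_lit 163)) (XT.lf (nat_lit 0) (nat_lit 19836666877) (nat_lit 456) (nat_lit 36106395261) (nat_lit 532) (nat_lit 28603811564) (nat_lit 33) (nat_lit 5) (nat_lit 39) (nat_lit 5) (nat_lit 40) (nat_lit 5) (nat_lit 283) (nat_lit 275) (nat_lit 162))))) (XT.nd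 (nat_lit 234) (nat_lit 456) (nat_lit 0) (XT.nd (nat_lit 78) (nat_lit 228) (nat_lit 0) (XT.lf (nat_lit 0) (nat_lit 61326544674) (nat_lit 456) (nat_lit 3748651716) (nat_lit 532) (nat_lit 23364785233) (nat_lit 33) (nat_lit 5) (nat_lit 39) (nat_lit 5) (nat_lit 40) (nat_lit 5) (nat_lit 284) (nat_lit 275) (nat_lit 161)) (XT.nd (nat_lit 78) (nat_lit 0) (nat_lit 0) (XT.lf (nat_lit 0) (nat_lit 13410707757) (nat_lit 228) (nat_lit 62599127760) (nat_lit 304) (nat_lit 16548952465) (nat_lit 30) (nat_lit 5) (nat_lit 33) (nat_lit 5) (nat_lit 34) (nat_lit 5) (nat_lit 285) (nat_lit 275) (nat_lit 160)) (XT.lf (nat_lit 0) (nat_lit 58615358743) (nat_lit 228) (nat_lit 30039264686) (nat_lit 304) (nat_lit 8285649409) (nat_lit 30) (nat_lit 5) (nat_lit 33) (nat_lit 5) (nat_lit 34) (nat_lit 5) (nat_lit 286) (nat_lit 275) (nat_lit 159)))) (XT.nd (nat_lit 156) (nat_lit 228) (nat_lit 0) (XT.nd (nat_lit 78) (nat_lit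 0) (nat_lit 0) (XT.lf (nat_lit 0) (nat_lit 878909849) (nat_lit 228) (nat_lit 95736377193) (nat_lit 76) (nat_lit 5033992686) (nat_lit 27) (nat_lit 5) (nat_lit 30) (nat_lit 5) (nat_lit 28) (nat_lit 5) (nat_lit 287) (nat_lit 275) (nat_lit 158)) (XT.lf (nat_lit 0) (nat_lit 12183545396) (nat_lit 228) (nat_lit 51805448104) (nat_lit 76) (nat_lit 42580435924) (nat_lit 27) (nat_lit 5) (nat_lit 30) (nat_lit 5) (nat_lit 28) (nat_lit 5) (nat_lit 288) (nat_lit 275) (nat_lit 157))) (XT.nd (nat_lit 78) (nat_lit 228) (nat_lit 0) (XT.lf (nat_lit 0) (nat_lit 24391832051) (nat_lit 228) (nat_lit 4360893942) (nat_lit 76) (nat_lit 83130525767) (nat_lit 27) (nat_lit 5) (nat_lit 30) (nat_lit 5) (nat_lit 28) (nat_lit 5) (nat_lit 289) (nat_lit 275) (nat_lit 156)) (XT.lf (nat_lit 0) (nat_lit 39017458080) (nat_lit 304) (nat_lit 68434865658) (nat_lit 76) (nat_lit 10054604888) (nat_lit 24) (nat_lit 5) (nat_lit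 28) (nat_lit 5) (nat_lit 25) (nat_lit 5) (nat_lit 290) (nat_lit 275) (nat_lit 155)))))) (XT.nd (nat_lit 468) (nat_lit 304) (nat_lit 0) (XT.nd (nat_lit 234) (nat_lit 380) (nat_lit 0) (XT.nd (nat_lit 78) (nat_lit 152) (nat_lit 0) (XT.lf (nat_lit 0) (nat_lit 55681651174) (nat_lit 304) (nat_lit 17294034369) (nat_lit 76) (nat_lit 50535335384) (nat_lit 24) (nat_lit 5) (nat_lit 28) (nat_lit 5) (nat_lit 25) (nat_lit 5) (nat_lit 291) (nat_lit 275) (nat_lit 154)) (XT.nd (nat_lit 78) (nat_lit 0) (nat_lit 0) (XT.lf (nat_lit 0) (nat_lit 39935018512) (nat_lit 152) (nat_lit 34703808026) (nat_lit 228) (nat_lit 55279828780) (nat_lit 22) (nat_lit 5) (nat_lit 24) (nat_lit 5) (nat_lit 25) (nat_lit 5) (nat_lit 292) (nat_lit 275) (nat_lit 153)) (XT.lf (nat_lit 0) (nat_lit 95756585217) (nat_lit 228) (nat_lit 34247659426) (nat_lit 76) (nat_lit 6783137341) (nat_lit 22) (nat_lit 5) (nat_lit 25) (nat_lit 5)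 (nat_lit 23) (nat_lit 5) (nat_lit 293) (nat_lit 275) (nat_lit 152)))) (XT.nd (nat_lit 78) (nat_lit 228) (nat_lit 0) (XT.lf (nat_lit 0) (nat_lit 26363905175) (nat_lit 152) (nat_lit 93734782365) (nat_lit 228) (nat_lit 23984127509) (nat_lit 20) (nat_lit 5) (nat_lit 22) (nat_lit 5) (nat_lit 23) (nat_lit 5) (nat_lit 294) (nat_lit 275) (nat_lit 151)) (XT.nd (nat_lit 78) (nat_lit 228) (nat_lit 0) (XT.lf (nat_lit 0) (nat_lit 93771385309) (nat_lit 152) (nat_lit 53552659340) (nat_lit 228) (nat_lit 4562969127) (nat_lit 20) (nat_lit 5) (nat_lit 22) (nat_lit 5) (nat_lit 23) (nat_lit 5) (nat_lit 295) (nat_lit 275) (nat_lit 150)) (XT.lf (nat_lit 0) (nat_lit 6169135200) (nat_lit 152) (nat_lit 9569644225) (nat_lit 228) (nat_lit 144533363246) (nat_lit 17) (nat_lit 5) (nat_lit 19) (nat_lit 5) (nat_lit 20) (nat_lit 5) (nat_lit 296) (nat_lit 275) (nat_lit 149))))) (XT.nd (nat_lit 234) (nat_lit 152) (nat_lit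 0) (XT.nd (nat_lit 78) (nat_lit 152) (nat_lit 0) (XT.lf (nat_lit 0) (nat_lit 39960204795) (nat_lit 228) (nat_lit 91371948389) (nat_lit 76) (nat_lit 37783084282) (nat_lit 17) (nat_lit 5) (nat_lit 20) (nat_lit 5) (nat_lit 18) (nat_lit 5) (nat_lit 297) (nat_lit 275) (nat_lit 148)) (XT.nd (nat_lit 78) (nat_lit 152) (nat_lit 0) (XT.lf (nat_lit 0) (nat_lit 66367474332) (nat_lit 228) (nat_lit 23871610934) (nat_lit 76) (nat_lit 88406845596) (nat_lit 17) (nat_lit 5) (nat_lit 20) (nat_lit 5) (nat_lit 18) (nat_lit 5) (nat_lit 298) (nat_lit 275) (nat_lit 147)) (XT.lf (nat_lit 0) (nat_lit 51609892933) (nat_lit 152) (nat_lit 44518251621) (nat_lit 228) (nat_lit 92711670971) (nat_lit 15) (nat_lit 5) (nat_lit 17) (nat_lit 5) (nat_lit 18) (nat_lit 5) (nat_lit 299) (nat_lit 275) (nat_lit 146)))) (XT.nd (nat_lit 156) (nat_lit 76) (nat_lit 0) (XT.nd (nat_lit 78) (nat_lit 76) (nat_lit 0) (XT.lf (nat_lit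 0) (nat_lit 129055813551) (nat_lit 228) (nat_lit 65443929544) (nat_lit 76) (nat_lit 5286577477) (nat_lit 15) (nat_lit 5) (nat_lit 18) (nat_lit 5) (nat_lit 16) (nat_lit 4) (nat_lit 300) (nat_lit 275) (nat_lit 145)) (XT.lf (nat_lit 0) (nat_lit 11503513550) (nat_lit 76) (nat_lit 154546800213) (nat_lit 152) (nat_lit 45443623980) (nat_lit 14) (nat_lit 5) (nat_lit 15) (nat_lit 5) (nat_lit 16) (nat_lit 4) (nat_lit 301) (nat_lit 275) (nat_lit 144))) (XT.nd (nat_lit 78) (nat_lit 76) (nat_lit 0) (XT.lf (nat_lit 0) (nat_lit 98328057111) (nat_lit 76) (nat_lit 109465323067) (nat_lit 152) (nat_lit 16201664666) (nat_lit 14) (nat_lit 5) (nat_lit 15) (nat_lit 5) (nat_lit 16) (nat_lit 4) (nat_lit 302) (nat_lit 275) (nat_lit 143)) (XT.lf (nat_lit 0) (nat_lit 14609968540) (nat_lit 152) (nat_lit 45768084200) (nat_lit 76) (nat_lit 177088624626) (nat_lit 13) (nat_lit 5) (nat_lit 15) (nat_lit 5) (nat_lit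 14) (nat_lit 5) (nat_lit 303) (nat_lit 275) (nat_lit 142))))))) (XT.nd (nat_lit 1014) (nat_lit 228) (nat_lit 0) (XT.nd (nat_lit 468) (nat_lit 228) (nat_lit 0) (XT.nd (nat_lit 234) (nat_lit 76) (nat_lit 0) (XT.nd (nat_lit 78) (nat_lit 0) (nat_lit 0) (XT.lf (nat_lit 0) (nat_lit 42213091106) (nat_lit 152) (nat_lit 5813050514) (nat_lit 228) (nat_lit 203875040314) (nat_lit 11) (nat_lit 5) (nat_lit 13) (nat_lit 5) (nat_lit 14) (nat_lit 5) (nat_lit 304) (nat_lit 275) (nat_lit 141)) (XT.nd (nat_lit 78) (nat_lit 0) (nat_lit 0) (XT.lf (nat_lit 0) (nat_lit 86676662199) (nat_lit 228) (nat_lit 128865172137) (nat_lit 76) (nat_lit 51743729010) (nat_lit 11) (nat_lit 5) (nat_lit 14) (nat_lit 5) (nat_lit 12) (nat_lit 4) (nat_lit 305) (nat_lit 275) (nat_lit 140)) (XT.lf (nat_lit 0) (nat_lit 128569935853) (nat_lit 228) (nat_lit 41727867056) (nat_lit 76) (nat_lit 113590836164) (nat_lit 11) (nat_lit 5)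 (nat_lit 14) (nat_lit 5) (nat_lit 12) (nat_lit 4) (nat_lit 306) (nat_lit 275) (nat_lit 139)))) (XT.nd (nat_lit 78) (nat_lit 0) (nat_lit 0) (XT.lf (nat_lit 0) (nat_lit 55138235485) (nat_lit 76) (nat_lit 120002255417) (nat_lit 152) (nat_lit 126573405058) (nat_lit 10) (nat_lit 5) (nat_lit 11) (nat_lit 5) (nat_lit 12) (nat_lit 4) (nat_lit 307) (nat_lit 275) (nat_lit 138)) (XT.nd (nat_lit 78) (nat_lit 0) (nat_lit 0) (XT.lf (nat_lit 0) (nat_lit 162126312963) (nat_lit 76) (nat_lit 64451043875) (nat_lit 152) (nat_lit 94296563855) (nat_lit 10) (nat_lit 5) (nat_lit 11) (nat_lit 5) (nat_lit 12) (nat_lit 4) (nat_lit 308) (nat_lit 275) (nat_lit 137)) (XT.lf (nat_lit 0) (nat_lit 277673053266) (nat_lit 76) (nat_lit 4455889751) (nat_lit 152) (nat_lit 59437823275) (nat_lit 10) (nat_lit 5) (nat_lit 11) (nat_lit 5) (nat_lit 12) (nat_lit 4) (nat_lit 309) (nat_lit 275) (nat_lit 136))))) (XT.nd (nat_lit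 234) (nat_lit 76) (nat_lit 0) (XT.nd (nat_lit 78) (nat_lit 76) (nat_lit 0) (XT.lf (nat_lit 0) (nat_lit 39050433633) (nat_lit 76) (nat_lit 305464322262) (nat_lit 76) (nat_lit 19209076188) (nat_lit 9) (nat_lit 4) (nat_lit 10) (nat_lit 5) (nat_lit 10) (nat_lit 4) (nat_lit 310) (nat_lit 275) (nat_lit 135)) (XT.nd (nat_lit 78) (nat_lit 0) (nat_lit 0) (XT.lf (nat_lit 0) (nat_lit 24933355664) (nat_lit 152) (nat_lit 234394310005) (nat_lit 76) (nat_lit 128126534700) (nat_lit 8) (nat_lit 5) (nat_lit 10) (nat_lit 5) (nat_lit 9) (nat_lit 4) (nat_lit 311) (nat_lit 275) (nat_lit 134)) (XT.lf (nat_lit 0) (nat_lit 71569194812) (nat_lit 152) (nat_lit 137392175423) (nat_lit 76) (nat_lit 204081729192) (nat_lit 8) (nat_lit 5) (nat_lit 10) (nat_lit 5) (nat_lit 9) (nat_lit 4) (nat_lit 312) (nat_lit 275) (nat_lit 133)))) (XT.nd (nat_lit 156) (nat_lit 0) (nat_lit 0) (XT.nd (nat_lit 78) (nat_lit 76) (nat_lit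 0) (XT.lf (nat_lit 0) (nat_lit 121935717571) (nat_lit 152) (nat_lit 32630188497) (nat_lit 76) (nat_lit 286113219410) (nat_lit 8) (nat_lit 5) (nat_lit 10) (nat_lit 5) (nat_lit 9) (nat_lit 4) (nat_lit 313) (nat_lit 275) (nat_lit 132)) (XT.lf (nat_lit 0) (nat_lit 84752106144) (nat_lit 76) (nat_lit 93617576271) (nat_lit 152) (nat_lit 291993301935) (nat_lit 7) (nat_lit 5) (nat_lit 8) (nat_lit 5) (nat_lit 9) (nat_lit 4) (nat_lit 314) (nat_lit 275) (nat_lit 131))) (XT.nd (nat_lit 78) (nat_lit 0) (nat_lit 0) (XT.lf (nat_lit 0) (nat_lit 213380404719) (nat_lit 76) (nat_lit 26829962657) (nat_lit 152) (nat_lit 262139824653) (nat_lit 7) (nat_lit 5) (nat_lit 8) (nat_lit 5) (nat_lit 9) (nat_lit 4) (nat_lit 315) (nat_lit 275) (nat_lit 130)) (XT.lf (nat_lit 0) (nat_lit 308087634271) (nat_lit 152) (nat_lit 185687166922) (nat_lit 0) (nat_lit 43034429263) (nat_lit 7) (nat_lit 5) (nat_lit 9) (nat_lit 4)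 (nat_lit 7) (nat_lit 4) (nat_lit 316) (nat_lit 275) (nat_lit 129)))))) (XT.nd (nat_lit 468) (nat_lit 76) (nat_lit 0) (XT.nd (nat_lit 234) (nat_lit 76) (nat_lit 0) (XT.nd (nat_lit 78) (nat_lit 76) (nat_lit 0) (XT.lf (nat_lit 0) (nat_lit 382091821308) (nat_lit 152) (nat_lit 74839074435) (nat_lit 0) (nat_lit 117038357397) (nat_lit 7) (nat_lit 5) (nat_lit 9) (nat_lit 4) (nat_lit 7) (nat_lit 4) (nat_lit 317) (nat_lit 275) (nat_lit 128)) (XT.nd (nat_lit 78) (nat_lit 0) (nat_lit 0) (XT.lf (nat_lit 0) (nat_lit 47239752736) (nat_lit 76) (nat_lit 415912575022) (nat_lit 76) (nat_lit 150858871387) (nat_lit 6) (nat_lit 4) (nat_lit 7) (nat_lit 5) (nat_lit 7) (nat_lit 4) (nat_lit 318) (nat_lit 275) (nat_lit 127)) (XT.lf (nat_lit 0) (nat_lit 183340820076) (nat_lit 76) (nat_lit 369402959121) (nat_lit 76) (nat_lit 104349033518) (nat_lit 6) (nat_lit 4) (nat_lit 7) (nat_lit 5) (nat_lit 7) (nat_lit 4)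 (nat_lit 319) (nat_lit 275) (nat_lit 126)))) (XT.nd (nat_lit 78) (nat_lit 76) (nat_lit 0) (XT.lf (nat_lit 0) (nat_lit 330329759395) (nat_lit 76) (nat_lit 319172668423) (nat_lit 76) (nat_lit 54118537295) (nat_lit 6) (nat_lit 4) (nat_lit 7) (nat_lit 5) (nat_lit 7) (nat_lit 4) (nat_lit 320) (nat_lit 275) (nat_lit 125)) (XT.nd (nat_lit 78) (nat_lit 0) (nat_lit 0) (XT.lf (nat_lit 0) (nat_lit 123762376) (nat_lit 152) (nat_lit 264796895686) (nat_lit 76) (nat_lit 488950470000) (nat_lit 5) (nat_lit 5) (nat_lit 7) (nat_lit 5) (nat_lit 6) (nat_lit 4) (nat_lit 321) (nat_lit 275) (nat_lit 124)) (XT.lf (nat_lit 0) (nat_lit 55781534532) (nat_lit 152) (nat_lit 149028905806) (nat_lit 76) (nat_lit 603218418168) (nat_lit 5) (nat_lit 5) (nat_lit 7) (nat_lit 5) (nat_lit 6) (nat_lit 4) (nat_lit 322) (nat_lit 275) (nat_lit 123))))) (XT.nd (nat_lit 234) (nat_lit 0) (nat_lit 0) (XT.nd (nat_lit 78) (nat_lit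 76) (nat_lit 0) (XT.lf (nat_lit 0) (nat_lit 115891831425) (nat_lit 152) (nat_lit 23999651422) (nat_lit 76) (nat_lit 726627732468) (nat_lit 5) (nat_lit 5) (nat_lit 7) (nat_lit 5) (nat_lit 6) (nat_lit 4) (nat_lit 323) (nat_lit 275) (nat_lit 122)) (XT.nd (nat_lit 78) (nat_lit 0) (nat_lit 0) (XT.lf (nat_lit 0) (nat_lit 116878518417) (nat_lit 76) (nat_lit 66743274982) (nat_lit 152) (nat_lit 745842140116) (nat_lit 4) (nat_lit 5) (nat_lit 5) (nat_lit 5) (nat_lit 6) (nat_lit 4) (nat_lit 324) (nat_lit 275) (nat_lit 121)) (XT.lf (nat_lit 0) (nat_lit 257738076706) (nat_lit 152) (nat_lit 727311893555) (nat_lit 0) (nat_lit 12316825103) (nat_lit 4) (nat_lit 5) (nat_lit 6) (nat_lit 4) (nat_lit 4) (nat_lit 4) (nat_lit 325) (nat_lit 275) (nat_lit 120)))) (XT.nd (nat_lit 156) (nat_lit 0) (nat_lit 0) (XT.nd (nat_lit 78) (nat_lit 0) (nat_lit 0) (XT.lf (nat_lit 0) (nat_lit 339517172121) (nat_lit 152) (nat_lit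 636950232820) (nat_lit 0) (nat_lit 94095800595) (nat_lit 4) (nat_lit 5) (nat_lit 6) (nat_lit 4) (nat_lit 4) (nat_lit 4) (nat_lit 326) (nat_lit 275) (nat_lit 119)) (XT.lf (nat_lit 0) (nat_lit 427838519136) (nat_lit 152) (nat_lit 539359779019) (nat_lit 0) (nat_lit 182417036572) (nat_lit 4) (nat_lit 5) (nat_lit 6) (nat_lit 4) (nat_lit 4) (nat_lit 4) (nat_lit 327) (nat_lit 275) (nat_lit 118))) (XT.nd (nat_lit 78) (nat_lit 0) (nat_lit 0) (XT.lf (nat_lit 0) (nat_lit 523225503513) (nat_lit 152) (nat_lit 433962218349) (nat_lit 0) (nat_lit 277803918135) (nat_lit 4) (nat_lit 5) (nat_lit 6) (nat_lit 4) (nat_lit 4) (nat_lit 4) (nat_lit 328) (nat_lit 275) (nat_lit 117)) (XT.lf (nat_lit 0) (nat_lit 626243381455) (nat_lit 152) (nat_lit 320132972675) (nat_lit 0) (nat_lit 380821700879) (nat_lit 4) (nat_lit 5) (nat_lit 6) (nat_lit 4) (nat_lit 4) (nat_lit 4) (nat_lit 329) (nat_lit 275) (nat_lit 116))))))))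
noncomputable def xc106 : XT := (XT.nd (nat_lit 34866) (nat_lit 0) (nat_lit 228) (XT.nd (nat_lit 33852) (nat_lit 0) (nat_lit 1292) (XT.nd (nat_lit 33384) (nat_lit 0) (nat_lit 2508) (XT.nd (nat_lit 234) (nat_lit 0) (nat_lit 0) (XT.nd (nat_lit 78) (nat_lit 76) (nat_lit 0) (XT.lf (nat_lit 0) (nat_lit 737502629275) (nat_lit 152) (nat_lit 197197498318) (nat_lit 0) (nat_lit 492080860553) (nat_lit 4) (nat_lit 5) (nat_lit 6) (nat_lit 4) (nat_lit 4) (nat_lit 4) (nat_lit 330) (nat_lit 275) (nat_lit 115)) (XT.nd (nat_lit 78) (nat_lit 76) (nat_lit 0) (XT.lf (nat_lit 0) (nat_lit 857662561036) (nat_lit 152) (nat_lit 64427288764) (nat_lit 0) (nat_lit 612240710696) (nat_lit 4) (nat_lit 5) (nat_lit 6) (nat_lit 4) (nat_lit 4) (nat_lit 4) (nat_lit 331) (nat_lit 275) (nat_lit 114)) (XT.lf (nat_lit 0) (nat_lit 83122570015) (nat_lit 76) (nat_lit 906311765383) (nat_lit 76) (nat_lit 660889839473) (nat_lit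 3) (nat_lit 4) (nat_lit 4) (nat_lit 5) (nat_lit 4) (nat_lit 4) (nat_lit 332) (nat_lit 275) (nat_lit 113)))) (XT.nd (nat_lit 78) (nat_lit 0) (nat_lit 0) (XT.lf (nat_lit 0) (nat_lit 246140361765) (nat_lit 76) (nat_lit 887368996051) (nat_lit 76) (nat_lit 641947000167) (nat_lit 3) (nat_lit 4) (nat_lit 4) (nat_lit 5) (nat_lit 4) (nat_lit 4) (nat_lit 333) (nat_lit 275) (nat_lit 112)) (XT.nd (nat_lit 32994) (nat_lit 0) (nat_lit 2508) (XT.lf (nat_lit 0) (nat_lit 422199490993) (nat_lit 76) (nat_lit 866910844606) (nat_lit 76) (nat_lit 621488783932) (nat_lit 3) (nat_lit 4) (nat_lit 4) (nat_lit 5) (nat_lit 4) (nat_lit 4) (nat_lit 334) (nat_lit 275) (nat_lit 111)) (XT.lf (nat_lit 0) (nat_lit 12007657129) (nat_lit 532) (nat_lit 10377830672) (nat_lit 532) (nat_lit 10377830672) (nat_lit 36) (nat_lit 3) (nat_lit 43) (nat_lit 3) (nat_lit 43) (nat_lit 5) (nat_lit 276) (nat_lit 276) (nat_lit 168)))))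 (XT.nd (nat_lit 234) (nat_lit 0) (nat_lit 76) (XT.nd (nat_lit 78) (nat_lit 0) (nat_lit 76) (XT.lf (nat_lit 76) (nat_lit 7637735684) (nat_lit 0) (nat_lit 17535466693) (nat_lit 532) (nat_lit 42958646080) (nat_lit 37) (nat_lit 5) (nat_lit 36) (nat_lit 3) (nat_lit 43) (nat_lit 5) (nat_lit 277) (nat_lit 276) (nat_lit 167)) (XT.nd (nat_lit 78) (nat_lit 0) (nat_lit 0) (XT.lf (nat_lit 0) (nat_lit 27290282056) (nat_lit 456) (nat_lit 31718415876) (nat_lit 532) (nat_lit 11867461309) (nat_lit 37) (nat_lit 5) (nat_lit 43) (nat_lit 5) (nat_lit 44) (nat_lit 5) (nat_lit 278) (nat_lit 276) (nat_lit 166)) (XT.lf (nat_lit 0) (nat_lit 30030932144) (nat_lit 456) (nat_lit 1096971054) (nat_lit 532) (nat_lit 42675782032) (nat_lit 37) (nat_lit 5) (nat_lit 43) (nat_lit 5) (nat_lit 44) (nat_lit 5) (nat_lit 279) (nat_lit 276) (nat_lit 165)))) (XT.nd (nat_lit 78) (nat_lit 0) (nat_lit 76) (XT.lf (nat_lit 76) (nat_lit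 33657073638) (nat_lit 0) (nat_lit 142044926) (nat_lit 532) (nat_lit 43101638156) (nat_lit 38) (nat_lit 5) (nat_lit 37) (nat_lit 5) (nat_lit 44) (nat_lit 5) (nat_lit 280) (nat_lit 276) (nat_lit 164)) (XT.nd (nat_lit 78) (nat_lit 0) (nat_lit 0) (XT.lf (nat_lit 0) (nat_lit 38699850831) (nat_lit 456) (nat_lit 9792418326) (nat_lit 532) (nat_lit 31686843210) (nat_lit 38) (nat_lit 5) (nat_lit 44) (nat_lit 5) (nat_lit 45) (nat_lit 5) (nat_lit 281) (nat_lit 276) (nat_lit 163)) (XT.lf (nat_lit 76) (nat_lit 27716976200) (nat_lit 0) (nat_lit 16944937286) (nat_lit 532) (nat_lit 39004286524) (nat_lit 39) (nat_lit 5) (nat_lit 38) (nat_lit 5) (nat_lit 45) (nat_lit 5) (nat_lit 282) (nat_lit 276) (nat_lit 162)))))) (XT.nd (nat_lit 468) (nat_lit 532) (nat_lit 0) (XT.nd (nat_lit 234) (nat_lit 456) (nat_lit 0) (XT.nd (nat_lit 78) (nat_lit 456) (nat_lit 0) (XT.lf (nat_lit 0) (nat_lit 51786571547) (nat_lit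 456) (nat_lit 19046511676) (nat_lit 76) (nat_lit 16544325909) (nat_lit 39) (nat_lit 5) (nat_lit 45) (nat_lit 5) (nat_lit 40) (nat_lit 5) (nat_lit 283) (nat_lit 276) (nat_lit 161)) (XT.nd (nat_lit 78) (nat_lit 0) (nat_lit 0) (XT.lf (nat_lit 0) (nat_lit 21440006280) (nat_lit 456) (nat_lit 38996076245) (nat_lit 532) (nat_lit 30873046570) (nat_lit 33) (nat_lit 5) (nat_lit 39) (nat_lit 5) (nat_lit 40) (nat_lit 5) (nat_lit 284) (nat_lit 276) (nat_lit 160)) (XT.lf (nat_lit 0) (nat_lit 66247859037) (nat_lit 456) (nat_lit 4049626597) (nat_lit 532) (nat_lit 25216310720) (nat_lit 33) (nat_lit 5) (nat_lit 39) (nat_lit 5) (nat_lit 40) (nat_lit 5) (nat_lit 285) (nat_lit 276) (nat_lit 159)))) (XT.nd (nat_lit 78) (nat_lit 228) (nat_lit 0) (XT.lf (nat_lit 0) (nat_lit 14499744737) (nat_lit 228) (nat_lit 67606310735) (nat_lit 304) (nat_lit 17856125052) (nat_lit 30) (nat_lit 5) (nat_lit 33) (nat_lit 5)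 (nat_lit 34) (nat_lit 5) (nat_lit 286) (nat_lit 276) (nat_lit 158)) (XT.nd (nat_lit 78) (nat_lit 228) (nat_lit 0) (XT.lf (nat_lit 0) (nat_lit 63319569256) (nat_lit 228) (nat_lit 32441713966) (nat_lit 304) (nat_lit 8932998018) (nat_lit 30) (nat_lit 5) (nat_lit 33) (nat_lit 5) (nat_lit 34) (nat_lit 5) (nat_lit 287) (nat_lit 276) (nat_lit 157)) (XT.lf (nat_lit 0) (nat_lit 963264395) (nat_lit 228) (nat_lit 103378718730) (nat_lit 76) (nat_lit 5438055430) (nat_lit 27) (nat_lit 5) (nat_lit 30) (nat_lit 5) (nat_lit 28) (nat_lit 5) (nat_lit 288) (nat_lit 276) (nat_lit 156))))) (XT.nd (nat_lit 234) (nat_lit 304) (nat_lit 0) (XT.nd (nat_lit 78) (nat_lit 228) (nat_lit 0) (XT.lf (nat_lit 0) (nat_lit 13171230655) (nat_lit 228) (nat_lit 55934542620) (nat_lit 76) (nat_lit 45988114621) (nat_lit 27) (nat_lit 5) (nat_lit 30) (nat_lit 5) (nat_lit 28) (nat_lit 5) (nat_lit 289) (nat_lit 276) (nat_lit 155))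 (XT.nd (nat_lit 78) (nat_lit 228) (nat_lit 0) (XT.lf (nat_lit 0) (nat_lit 26355217159) (nat_lit 228) (nat_lit 4695560521) (nat_lit 76) (nat_lit 89782119516) (nat_lit 27) (nat_lit 5) (nat_lit 30) (nat_lit 5) (nat_lit 28) (nat_lit 5) (nat_lit 290) (nat_lit 276) (nat_lit 154)) (XT.lf (nat_lit 0) (nat_lit 42150391398) (nat_lit 304) (nat_lit 73894900304) (nat_lit 76) (nat_lit 10861220483) (nat_lit 24) (nat_lit 5) (nat_lit 28) (nat_lit 5) (nat_lit 25) (nat_lit 5) (nat_lit 291) (nat_lit 276) (nat_lit 153)))) (XT.nd (nat_lit 156) (nat_lit 152) (nat_lit 0) (XT.nd (nat_lit 78) (nat_lit 152) (nat_lit 0) (XT.lf (nat_lit 0) (nat_lit 60146865371) (nat_lit 304) (nat_lit 18663895446) (nat_lit 76) (nat_lit 54580242959) (nat_lit 24) (nat_lit 5) (nat_lit 28) (nat_lit 5) (nat_lit 25) (nat_lit 5) (nat_lit 292) (nat_lit 276) (nat_lit 152)) (XT.lf (nat_lit 0) (nat_lit 43143135800) (nat_lit 152) (nat_lit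 37477007942) (nat_lit 228) (nat_lit 59691146135) (nat_lit 22) (nat_lit 5) (nat_lit 24) (nat_lit 5) (nat_lit 25) (nat_lit 5) (nat_lit 293) (nat_lit 276) (nat_lit 151))) (XT.nd (nat_lit 78) (nat_lit 152) (nat_lit 0) (XT.lf (nat_lit 0) (nat_lit 103426635878) (nat_lit 228) (nat_lit 36974417546) (nat_lit 76) (nat_lit 7328519269) (nat_lit 22) (nat_lit 5) (nat_lit 25) (nat_lit 5) (nat_lit 23) (nat_lit 5) (nat_lit 294) (nat_lit 276) (nat_lit 150)) (XT.lf (nat_lit 0) (nat_lit 28485741726) (nat_lit 152) (nat_lit 101229965207) (nat_lit 228) (nat_lit 25892968237) (nat_lit 20) (nat_lit 5) (nat_lit 22) (nat_lit 5) (nat_lit 23) (nat_lit 5) (nat_lit 295) (nat_lit 276) (nat_lit 149))))))) (XT.nd (nat_lit 1014) (nat_lit 304) (nat_lit 0) (XT.nd (nat_lit 468) (nat_lit 380) (nat_lit 0) (XT.nd (nat_lit 234) (nat_lit 152) (nat_lit 0) (XT.nd (nat_lit 78) (nat_lit 228) (nat_lit 0) (XT.lf (nat_lit 0) (nat_lit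 101284877741) (nat_lit 152) (nat_lit 57833538988) (nat_lit 228) (nat_lit 4918849738) (nat_lit 20) (nat_lit 5) (nat_lit 22) (nat_lit 5) (nat_lit 23) (nat_lit 5) (nat_lit 296) (nat_lit 276) (nat_lit 148)) (XT.nd (nat_lit 78) (nat_lit 0) (nat_lit 0) (XT.lf (nat_lit 0) (nat_lit 6674625183) (nat_lit 152) (nat_lit 10331598708) (nat_lit 228) (nat_lit 156086994936) (nat_lit 17) (nat_lit 5) (nat_lit 19) (nat_lit 5) (nat_lit 20) (nat_lit 5) (nat_lit 297) (nat_lit 276) (nat_lit 147)) (XT.lf (nat_lit 0) (nat_lit 43164825903) (nat_lit 228) (nat_lit 98670067747) (nat_lit 76) (nat_lit 40808912613) (nat_lit 17) (nat_lit 5) (nat_lit 20) (nat_lit 5) (nat_lit 18) (nat_lit 5) (nat_lit 298) (nat_lit 276) (nat_lit 146)))) (XT.nd (nat_lit 78) (nat_lit 152) (nat_lit 0) (XT.lf (nat_lit 0) (nat_lit 71684098875) (nat_lit 228) (nat_lit 25770565259) (nat_lit 76) (nat_lit 95482339159) (nat_lit 17) (nat_lit 5) (nat_lit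 20) (nat_lit 5) (nat_lit 18) (nat_lit 5) (nat_lit 299) (nat_lit 276) (nat_lit 145)) (XT.nd (nat_lit 78) (nat_lit 0) (nat_lit 0) (XT.lf (nat_lit 0) (nat_lit 55749186144) (nat_lit 152) (nat_lit 48076153835) (nat_lit 228) (nat_lit 100121083140) (nat_lit 15) (nat_lit 5) (nat_lit 17) (nat_lit 5) (nat_lit 18) (nat_lit 5) (nat_lit 300) (nat_lit 276) (nat_lit 144)) (XT.lf (nat_lit 0) (nat_lit 139386787366) (nat_lit 228) (nat_lit 70669264411) (nat_lit 76) (nat_lit 5712633244) (nat_lit 15) (nat_lit 5) (nat_lit 18) (nat_lit 5) (nat_lit 16) (nat_lit 4) (nat_lit 301) (nat_lit 276) (nat_lit 143))))) (XT.nd (nat_lit 234) (nat_lit 228) (nat_lit 0) (XT.nd (nat_lit 78) (nat_lit 76) (nat_lit 0) (XT.lf (nat_lit 0) (nat_lit 12433716422) (nat_lit 76) (nat_lit 166906887664) (nat_lit 152) (nat_lit 49072328478) (nat_lit 14) (nat_lit 5) (nat_lit 15) (nat_lit 5) (nat_lit 16) (nat_lit 4) (nat_lit 302) (nat_lit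 276) (nat_lit 142)) (XT.nd (nat_lit 78) (nat_lit 76) (nat_lit 0) (XT.lf (nat_lit 0) (nat_lit 106203488521) (nat_lit 76) (nat_lit 118219163202) (nat_lit 152) (nat_lit 17491515043) (nat_lit 14) (nat_lit 5) (nat_lit 15) (nat_lit 5) (nat_lit 16) (nat_lit 4) (nat_lit 303) (nat_lit 276) (nat_lit 141)) (XT.lf (nat_lit 0) (nat_lit 15784292418) (nat_lit 152) (nat_lit 49420718524) (nat_lit 76) (nat_lit 191258543435) (nat_lit 13) (nat_lit 5) (nat_lit 15) (nat_lit 5) (nat_lit 14) (nat_lit 5) (nat_lit 304) (nat_lit 276) (nat_lit 140)))) (XT.nd (nat_lit 156) (nat_lit 76) (nat_lit 0) (XT.nd (nat_lit 78) (nat_lit 0) (nat_lit 0) (XT.lf (nat_lit 0) (nat_lit 45598727708) (nat_lit 152) (nat_lit 6274828847) (nat_lit 228) (nat_lit 220179280094) (nat_lit 11) (nat_lit 5) (nat_lit 13) (nat_lit 5) (nat_lit 14) (nat_lit 5) (nat_lit 305) (nat_lit 276) (nat_lit 139)) (XT.lf (nat_lit 0) (nat_lit 93615797161) (nat_lit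 228) (nat_lit 139166098304) (nat_lit 76) (nat_lit 55886099872) (nat_lit 11) (nat_lit 5) (nat_lit 14) (nat_lit 5) (nat_lit 12) (nat_lit 4) (nat_lit 306) (nat_lit 276) (nat_lit 138))) (XT.nd (nat_lit 78) (nat_lit 76) (nat_lit 0) (XT.lf (nat_lit 0) (nat_lit 138860162190) (nat_lit 228) (nat_lit 45058422713) (nat_lit 76) (nat_lit 122680762818) (nat_lit 11) (nat_lit 5) (nat_lit 14) (nat_lit 5) (nat_lit 12) (nat_lit 4) (nat_lit 307) (nat_lit 276) (nat_lit 137)) (XT.lf (nat_lit 0) (nat_lit 59556773761) (nat_lit 76) (nat_lit 129599424691) (nat_lit 152) (nat_lit 136694440648) (nat_lit 10) (nat_lit 5) (nat_lit 11) (nat_lit 5) (nat_lit 12) (nat_lit 4) (nat_lit 308) (nat_lit 276) (nat_lit 136)))))) (XT.nd (nat_lit 468) (nat_lit 152) (nat_lit 0) (XT.nd (nat_lit 234) (nat_lit 76) (nat_lit 0) (XT.nd (nat_lit 78) (nat_lit 76) (nat_lit 0) (XT.lf (nat_lit 0) (nat_lit 175103343404) (nat_lit 76) (nat_lit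 69604339274) (nat_lit 152) (nat_lit 101835810431) (nat_lit 10) (nat_lit 5) (nat_lit 11) (nat_lit 5) (nat_lit 12) (nat_lit 4) (nat_lit 309) (nat_lit 276) (nat_lit 135)) (XT.nd (nat_lit 78) (nat_lit 76) (nat_lit 0) (XT.lf (nat_lit 0) (nat_lit 299893309939) (nat_lit 76) (nat_lit 4809779348) (nat_lit 152) (nat_lit 64188702348) (nat_lit 10) (nat_lit 5) (nat_lit 11) (nat_lit 5) (nat_lit 12) (nat_lit 4) (nat_lit 310) (nat_lit 276) (nat_lit 134)) (XT.lf (nat_lit 0) (nat_lit 42180965843) (nat_lit 76) (nat_lit 329898731341) (nat_lit 76) (nat_lit 20741731810) (nat_lit 9) (nat_lit 4) (nat_lit 10) (nat_lit 5) (nat_lit 10) (nat_lit 4) (nat_lit 311) (nat_lit 276) (nat_lit 133)))) (XT.nd (nat_lit 78) (nat_lit 0) (nat_lit 0) (XT.lf (nat_lit 0) (nat_lit 26931604536) (nat_lit 152) (nat_lit 253139642508) (nat_lit 76) (nat_lit 138378995384) (nat_lit 8) (nat_lit 5) (nat_lit 10) (nat_lit 5) (nat_lit 9) (nat_lit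 4) (nat_lit 312) (nat_lit 276) (nat_lit 132)) (XT.nd (nat_lit 78) (nat_lit 0) (nat_lit 0) (XT.lf (nat_lit 0) (nat_lit 77298045600) (nat_lit 152) (nat_lit 148377797329) (nat_lit 76) (nat_lit 220410432257) (nat_lit 8) (nat_lit 5) (nat_lit 10) (nat_lit 5) (nat_lit 9) (nat_lit 4) (nat_lit 313) (nat_lit 276) (nat_lit 131)) (XT.lf (nat_lit 0) (nat_lit 131693644609) (nat_lit 152) (nat_lit 35235277533) (nat_lit 76) (nat_lit 309004281342) (nat_lit 8) (nat_lit 5) (nat_lit 10) (nat_lit 5) (nat_lit 9) (nat_lit 4) (nat_lit 314) (nat_lit 276) (nat_lit 130))))) (XT.nd (nat_lit 234) (nat_lit 76) (nat_lit 0) (XT.nd (nat_lit 78) (nat_lit 0) (nat_lit 0) (XT.lf (nat_lit 0) (nat_lit 91537465843) (nat_lit 76) (nat_lit 101104758266) (nat_lit 152) (nat_lit 315349555637) (nat_lit 7) (nat_lit 5) (nat_lit 8) (nat_lit 5) (nat_lit 9) (nat_lit 4) (nat_lit 315) (nat_lit 276) (nat_lit 129)) (XT.nd (nat_lit 78) (nat_lit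 0) (nat_lit 0) (XT.lf (nat_lit 0) (nat_lit 230455643770) (nat_lit 76) (nat_lit 28974300311) (nat_lit 152) (nat_lit 283108037984) (nat_lit 7) (nat_lit 5) (nat_lit 8) (nat_lit 5) (nat_lit 9) (nat_lit 4) (nat_lit 316) (nat_lit 276) (nat_lit 128)) (XT.lf (nat_lit 0) (nat_lit 332737234682) (nat_lit 152) (nat_lit 200537526876) (nat_lit 0) (nat_lit 46478995031) (nat_lit 7) (nat_lit 5) (nat_lit 9) (nat_lit 4) (nat_lit 7) (nat_lit 4) (nat_lit 317) (nat_lit 276) (nat_lit 127)))) (XT.nd (nat_lit 156) (nat_lit 0) (nat_lit 0) (XT.nd (nat_lit 78) (nat_lit 76) (nat_lit 0) (XT.lf (nat_lit 0) (nat_lit 412661564854) (nat_lit 152) (nat_lit 80821928724) (nat_lit 0) (nat_lit 126403103236) (nat_lit 7) (nat_lit 5) (nat_lit 9) (nat_lit 4) (nat_lit 7) (nat_lit 4) (nat_lit 318) (nat_lit 276) (nat_lit 126)) (XT.lf (nat_lit 0) (nat_lit 51023096477) (nat_lit 76) (nat_lit 449183737858) (nat_lit 76) (nat_lit 162925070714)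 (nat_lit 6) (nat_lit 4) (nat_lit 7) (nat_lit 5) (nat_lit 7) (nat_lit 4) (nat_lit 319) (nat_lit 276) (nat_lit 125))) (XT.nd (nat_lit 78) (nat_lit 0) (nat_lit 0) (XT.lf (nat_lit 0) (nat_lit 198011940796) (nat_lit 76) (nat_lit 398953489216) (nat_lit 76) (nat_lit 112694631771) (nat_lit 6) (nat_lit 4) (nat_lit 7) (nat_lit 5) (nat_lit 7) (nat_lit 4) (nat_lit 320) (nat_lit 276) (nat_lit 124)) (XT.lf (nat_lit 0) (nat_lit 356759709696) (nat_lit 76) (nat_lit 344704901679) (nat_lit 76) (nat_lit 58445868029) (nat_lit 6) (nat_lit 4) (nat_lit 7) (nat_lit 5) (nat_lit 7) (nat_lit 4) (nat_lit 321) (nat_lit 276) (nat_lit 123))))))))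
noncomputable def xc107 : XT := (XT.nd (nat_lit 35100) (nat_lit 0) (nat_lit 304) (XT.nd (nat_lit 34086) (nat_lit 0) (nat_lit 1824) (XT.nd (nat_lit 468) (nat_lit 76) (nat_lit 0) (XT.nd (nat_lit 234) (nat_lit 76) (nat_lit 0) (XT.nd (nat_lit 78) (nat_lit 0) (nat_lit 0) (XT.lf (nat_lit 0) (nat_lit 135556500) (nat_lit 152) (nat_lit 285977239281) (nat_lit 76) (nat_lit 528067867842) (nat_lit 5) (nat_lit 5) (nat_lit 7) (nat_lit 5) (nat_lit 6) (nat_lit 4) (nat_lit 322) (nat_lit 276) (nat_lit 122)) (XT.nd (nat_lit 78) (nat_lit 0) (nat_lit 0) (XT.lf (nat_lit 0) (nat_lit 60245810197) (nat_lit 152) (nat_lit 160948062659) (nat_lit 76) (nat_lit 651477151105) (nat_lit 5) (nat_lit 5) (nat_lit 7) (nat_lit 5) (nat_lit 6) (nat_lit 4) (nat_lit 323) (nat_lit 276) (nat_lit 121)) (XT.lf (nat_lit 0) (nat_lit 125164800996) (nat_lit 152) (nat_lit 25916701674) (nat_lit 76) (nat_lit 784759117254) (nat_lit 5) (nat_lit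 5) (nat_lit 7) (nat_lit 5) (nat_lit 6) (nat_lit 4) (nat_lit 324) (nat_lit 276) (nat_lit 120)))) (XT.nd (nat_lit 78) (nat_lit 0) (nat_lit 0) (XT.lf (nat_lit 0) (nat_lit 126231647782) (nat_lit 76) (nat_lit 72081460412) (nat_lit 152) (nat_lit 805507811730) (nat_lit 4) (nat_lit 5) (nat_lit 5) (nat_lit 5) (nat_lit 6) (nat_lit 4) (nat_lit 325) (nat_lit 276) (nat_lit 119)) (XT.nd (nat_lit 78) (nat_lit 0) (nat_lit 0) (XT.lf (nat_lit 0) (nat_lit 278358606199) (nat_lit 152) (nat_lit 785494117760) (nat_lit 0) (nat_lit 13303293990) (nat_lit 4) (nat_lit 5) (nat_lit 6) (nat_lit 4) (nat_lit 4) (nat_lit 4) (nat_lit 326) (nat_lit 276) (nat_lit 118)) (XT.lf (nat_lit 0) (nat_lit 366679919368) (nat_lit 152) (nat_lit 687903726187) (nat_lit 0) (nat_lit 101624504346) (nat_lit 4) (nat_lit 5) (nat_lit 6) (nat_lit 4) (nat_lit 4) (nat_lit 4) (nat_lit 327) (nat_lit 276) (nat_lit 117))))) (XT.nd (nat_lit 234)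 (nat_lit 76) (nat_lit 0) (XT.nd (nat_lit 78) (nat_lit 0) (nat_lit 0) (XT.lf (nat_lit 0) (nat_lit 462066872406) (nat_lit 152) (nat_lit 582506223137) (nat_lit 0) (nat_lit 197011362185) (nat_lit 4) (nat_lit 5) (nat_lit 6) (nat_lit 4) (nat_lit 4) (nat_lit 4) (nat_lit 328) (nat_lit 276) (nat_lit 116)) (XT.nd (nat_lit 78) (nat_lit 0) (nat_lit 0) (XT.lf (nat_lit 0) (nat_lit 565084721330) (nat_lit 152) (nat_lit 468677030815) (nat_lit 0) (nat_lit 300029122963) (nat_lit 4) (nat_lit 5) (nat_lit 6) (nat_lit 4) (nat_lit 4) (nat_lit 4) (nat_lit 329) (nat_lit 276) (nat_lit 115)) (XT.lf (nat_lit 0) (nat_lit 676343942282) (nat_lit 152) (nat_lit 345741605858) (nat_lit 0) (nat_lit 411288262299) (nat_lit 4) (nat_lit 5) (nat_lit 6) (nat_lit 4) (nat_lit 4) (nat_lit 4) (nat_lit 330) (nat_lit 276) (nat_lit 114)))) (XT.nd (nat_lit 156) (nat_lit 76) (nat_lit 0) (XT.nd (nat_lit 78) (nat_lit 0) (nat_lit 0) (XT.lf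 (nat_lit 0) (nat_lit 796503849164) (nat_lit 152) (nat_lit 212971442043) (nat_lit 0) (nat_lit 531448093610) (nat_lit 4) (nat_lit 5) (nat_lit 6) (nat_lit 4) (nat_lit 4) (nat_lit 4) (nat_lit 331) (nat_lit 276) (nat_lit 113)) (XT.lf (nat_lit 0) (nat_lit 926276500684) (nat_lit 152) (nat_lit 69579753216) (nat_lit 0) (nat_lit 661220675156) (nat_lit 4) (nat_lit 5) (nat_lit 6) (nat_lit 4) (nat_lit 4) (nat_lit 4) (nat_lit 332) (nat_lit 276) (nat_lit 112))) (XT.nd (nat_lit 33150) (nat_lit 0) (nat_lit 2508) (XT.lf (nat_lit 0) (nat_lit 89774050754) (nat_lit 76) (nat_lit 978815937286) (nat_lit 76) (nat_lit 713760046968) (nat_lit 3) (nat_lit 4) (nat_lit 4) (nat_lit 5) (nat_lit 4) (nat_lit 4) (nat_lit 333) (nat_lit 276) (nat_lit 111)) (XT.lf (nat_lit 0) (nat_lit 12981530734) (nat_lit 532) (nat_lit 11200861070) (nat_lit 532) (nat_lit 11200861070) (nat_lit 36) (nat_lit 3) (nat_lit 43) (nat_lit 3) (nat_lit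 43) (nat_lit 5) (nat_lit 277) (nat_lit 277) (nat_lit 166)))))) (XT.nd (nat_lit 468) (nat_lit 684) (nat_lit 0) (XT.nd (nat_lit 234) (nat_lit 0) (nat_lit 76) (XT.nd (nat_lit 78) (nat_lit 0) (nat_lit 76) (XT.lf (nat_lit 76) (nat_lit 8262782294) (nat_lit 0) (nat_lit 18949171112) (nat_lit 532) (nat_lit 46368321349) (nat_lit 37) (nat_lit 5) (nat_lit 36) (nat_lit 3) (nat_lit 43) (nat_lit 5) (nat_lit 278) (nat_lit 277) (nat_lit 165)) (XT.nd (nat_lit 78) (nat_lit 0) (nat_lit 0) (XT.lf (nat_lit 0) (nat_lit 29496313403) (nat_lit 456) (nat_lit 34240694066) (nat_lit 532) (nat_lit 12807299447) (nat_lit 37) (nat_lit 5) (nat_lit 43) (nat_lit 5) (nat_lit 44) (nat_lit 5) (nat_lit 279) (nat_lit 277) (nat_lit 164)) (XT.lf (nat_lit 0) (nat_lit 32454525958) (nat_lit 456) (nat_lit 1170659219) (nat_lit 532) (nat_lit 46080993884) (nat_lit 37) (nat_lit 5) (nat_lit 43) (nat_lit 5) (nat_lit 44) (nat_lit 5) (nat_lit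 280) (nat_lit 277) (nat_lit 163)))) (XT.nd (nat_lit 78) (nat_lit 0) (nat_lit 76) (XT.lf (nat_lit 76) (nat_lit 36363352858) (nat_lit 0) (nat_lit 159579851) (nat_lit 532) (nat_lit 46528190584) (nat_lit 38) (nat_lit 5) (nat_lit 37) (nat_lit 5) (nat_lit 44) (nat_lit 5) (nat_lit 281) (nat_lit 277) (nat_lit 162)) (XT.nd (nat_lit 78) (nat_lit 0) (nat_lit 0) (XT.lf (nat_lit 0) (nat_lit 41814113194) (nat_lit 456) (nat_lit 10561408353) (nat_lit 532) (nat_lit 34216362318) (nat_lit 38) (nat_lit 5) (nat_lit 44) (nat_lit 5) (nat_lit 45) (nat_lit 5) (nat_lit 282) (nat_lit 277) (nat_lit 161)) (XT.lf (nat_lit 76) (nat_lit 29948373090) (nat_lit 0) (nat_lit 18303751753) (nat_lit 532) (nat_lit 42105902036) (nat_lit 39) (nat_lit 5) (nat_lit 38) (nat_lit 5) (nat_lit 45) (nat_lit 5) (nat_lit 283) (nat_lit 277) (nat_lit 160))))) (XT.nd (nat_lit 234) (nat_lit 456) (nat_lit 0) (XT.nd (nat_lit 78) (nat_lit 456)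 (nat_lit 0) (XT.lf (nat_lit 0) (nat_lit 55945405464) (nat_lit 456) (nat_lit 20555801725) (nat_lit 76) (nat_lit 17865040100) (nat_lit 39) (nat_lit 5) (nat_lit 45) (nat_lit 5) (nat_lit 40) (nat_lit 5) (nat_lit 284) (nat_lit 277) (nat_lit 159)) (XT.nd (nat_lit 78) (nat_lit 0) (nat_lit 0) (XT.lf (nat_lit 0) (nat_lit 23169272328) (nat_lit 456) (nat_lit 42116764885) (nat_lit 532) (nat_lit 33326540915) (nat_lit 33) (nat_lit 5) (nat_lit 39) (nat_lit 5) (nat_lit 40) (nat_lit 5) (nat_lit 285) (nat_lit 277) (nat_lit 158)) (XT.lf (nat_lit 0) (nat_lit 71560711414) (nat_lit 456) (nat_lit 4374525003) (nat_lit 532) (nat_lit 27218477261) (nat_lit 33) (nat_lit 5) (nat_lit 39) (nat_lit 5) (nat_lit 40) (nat_lit 5) (nat_lit 286) (nat_lit 277) (nat_lit 157)))) (XT.nd (nat_lit 156) (nat_lit 228) (nat_lit 0) (XT.nd (nat_lit 78) (nat_lit 0) (nat_lit 0) (XT.lf (nat_lit 0) (nat_lit 15673596366) (nat_lit 228)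 (nat_lit 73014174950) (nat_lit 304) (nat_lit 19270260110) (nat_lit 30) (nat_lit 5) (nat_lit 33) (nat_lit 5) (nat_lit 34) (nat_lit 5) (nat_lit 287) (nat_lit 277) (nat_lit 156)) (XT.lf (nat_lit 0) (nat_lit 68397979288) (nat_lit 228) (nat_lit 35036457895) (nat_lit 304) (nat_lit 9634346242) (nat_lit 30) (nat_lit 5) (nat_lit 33) (nat_lit 5) (nat_lit 34) (nat_lit 5) (nat_lit 288) (nat_lit 277) (nat_lit 155))) (XT.nd (nat_lit 78) (nat_lit 0) (nat_lit 0) (XT.lf (nat_lit 0) (nat_lit 1052364091) (nat_lit 228) (nat_lit 111634811292) (nat_lit 76) (nat_lit 5874251552) (nat_lit 27) (nat_lit 5) (nat_lit 30) (nat_lit 5) (nat_lit 28) (nat_lit 5) (nat_lit 289) (nat_lit 277) (nat_lit 154)) (XT.lf (nat_lit 0) (nat_lit 14236075908) (nat_lit 228) (nat_lit 60396153311) (nat_lit 76) (nat_lit 49668230168) (nat_lit 27) (nat_lit 5) (nat_lit 30) (nat_lit 5) (nat_lit 28) (nat_lit 5) (nat_lit 290) (nat_lit 277)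 (nat_lit 153))))))) (XT.nd (nat_lit 1014) (nat_lit 532) (nat_lit 0) (XT.nd (nat_lit 468) (nat_lit 456) (nat_lit 0) (XT.nd (nat_lit 234) (nat_lit 304) (nat_lit 0) (XT.nd (nat_lit 78) (nat_lit 228) (nat_lit 0) (XT.lf (nat_lit 0) (nat_lit 28473955643) (nat_lit 228) (nat_lit 5059026919) (nat_lit 76) (nat_lit 96965676464) (nat_lit 27) (nat_lit 5) (nat_lit 30) (nat_lit 5) (nat_lit 28) (nat_lit 5) (nat_lit 291) (nat_lit 277) (nat_lit 152)) (XT.nd (nat_lit 78) (nat_lit 0) (nat_lit 0) (XT.lf (nat_lit 0) (nat_lit 45532313546) (nat_lit 304) (nat_lit 79793842631) (nat_lit 76) (nat_lit 11732044737) (nat_lit 24) (nat_lit 5) (nat_lit 28) (nat_lit 5) (nat_lit 25) (nat_lit 5) (nat_lit 292) (nat_lit 277) (nat_lit 151)) (XT.lf (nat_lit 0) (nat_lit 64967772782) (nat_lit 304) (nat_lit 20145294399) (nat_lit 76) (nat_lit 58948446299) (nat_lit 24) (nat_lit 5) (nat_lit 28) (nat_lit 5) (nat_lit 25) (nat_lit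 5) (nat_lit 293) (nat_lit 277) (nat_lit 150)))) (XT.nd (nat_lit 78) (nat_lit 152) (nat_lit 0) (XT.lf (nat_lit 0) (nat_lit 46606002823) (nat_lit 152) (nat_lit 40472506776) (nat_lit 228) (nat_lit 64456947988) (nat_lit 22) (nat_lit 5) (nat_lit 24) (nat_lit 5) (nat_lit 25) (nat_lit 5) (nat_lit 294) (nat_lit 277) (nat_lit 149)) (XT.nd (nat_lit 78) (nat_lit 152) (nat_lit 0) (XT.lf (nat_lit 0) (nat_lit 111708931909) (nat_lit 228) (nat_lit 39921178706) (nat_lit 76) (nat_lit 7917142151) (nat_lit 22) (nat_lit 5) (nat_lit 25) (nat_lit 5) (nat_lit 23) (nat_lit 5) (nat_lit 295) (nat_lit 277) (nat_lit 148)) (XT.lf (nat_lit 0) (nat_lit 30775509960) (nat_lit 152) (nat_lit 109325276220) (nat_lit 228) (nat_lit 27955927067) (nat_lit 20) (nat_lit 5) (nat_lit 22) (nat_lit 5) (nat_lit 23) (nat_lit 5) (nat_lit 296) (nat_lit 277) (nat_lit 147))))) (XT.nd (nat_lit 234) (nat_lit 228) (nat_lit 0) (XT.nd (nat_lit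 78) (nat_lit 228) (nat_lit 0) (XT.lf (nat_lit 0) (nat_lit 109397768790) (nat_lit 152) (nat_lit 62457364511) (nat_lit 228) (nat_lit 5304507135) (nat_lit 20) (nat_lit 5) (nat_lit 22) (nat_lit 5) (nat_lit 23) (nat_lit 5) (nat_lit 297) (nat_lit 277) (nat_lit 146)) (XT.nd (nat_lit 78) (nat_lit 0) (nat_lit 0) (XT.lf (nat_lit 0) (nat_lit 7218848256) (nat_lit 152) (nat_lit 11155025563) (nat_lit 228) (nat_lit 168566206442) (nat_lit 17) (nat_lit 5) (nat_lit 19) (nat_lit 5) (nat_lit 20) (nat_lit 5) (nat_lit 298) (nat_lit 277) (nat_lit 145)) (XT.lf (nat_lit 0) (nat_lit 46624703268) (nat_lit 228) (nat_lit 106553696731) (nat_lit 76) (nat_lit 44076353321) (nat_lit 17) (nat_lit 5) (nat_lit 20) (nat_lit 5) (nat_lit 18) (nat_lit 5) (nat_lit 299) (nat_lit 277) (nat_lit 144)))) (XT.nd (nat_lit 156) (nat_lit 76) (nat_lit 0) (XT.nd (nat_lit 78) (nat_lit 152) (nat_lit 0) (XT.lf (nat_lit 0) (nat_lit 77425022427)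 (nat_lit 228) (nat_lit 27822973040) (nat_lit 76) (nat_lit 103123451939) (nat_lit 17) (nat_lit 5) (nat_lit 20) (nat_lit 5) (nat_lit 18) (nat_lit 5) (nat_lit 300) (nat_lit 277) (nat_lit 143)) (XT.lf (nat_lit 0) (nat_lit 60218124616) (nat_lit 152) (nat_lit 51919195803) (nat_lit 228) (nat_lit 108124321309) (nat_lit 15) (nat_lit 5) (nat_lit 17) (nat_lit 5) (nat_lit 18) (nat_lit 5) (nat_lit 301) (nat_lit 277) (nat_lit 142))) (XT.nd (nat_lit 78) (nat_lit 76) (nat_lit 0) (XT.lf (nat_lit 0) (nat_lit 150543310542) (nat_lit 228) (nat_lit 76314078286) (nat_lit 76) (nat_lit 6172327004) (nat_lit 15) (nat_lit 5) (nat_lit 18) (nat_lit 5) (nat_lit 16) (nat_lit 4) (nat_lit 302) (nat_lit 277) (nat_lit 141)) (XT.lf (nat_lit 0) (nat_lit 13436920071) (nat_lit 76) (nat_lit 180256303760) (nat_lit 152) (nat_lit 52992297352) (nat_lit 14) (nat_lit 5) (nat_lit 15) (nat_lit 5) (nat_lit 16) (nat_lit 4) (nat_lit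 303) (nat_lit 277) (nat_lit 140)))))) (XT.nd (nat_lit 468) (nat_lit 228) (nat_lit 0) (XT.nd (nat_lit 234) (nat_lit 76) (nat_lit 0) (XT.nd (nat_lit 78) (nat_lit 228) (nat_lit 0) (XT.lf (nat_lit 0) (nat_lit 114707643838) (nat_lit 76) (nat_lit 127673793558) (nat_lit 152) (nat_lit 18885449761) (nat_lit 14) (nat_lit 5) (nat_lit 15) (nat_lit 5) (nat_lit 16) (nat_lit 4) (nat_lit 304) (nat_lit 277) (nat_lit 139)) (XT.nd (nat_lit 78) (nat_lit 152) (nat_lit 0) (XT.lf (nat_lit 0) (nat_lit 17051773804) (nat_lit 152) (nat_lit 53366820783) (nat_lit 76) (nat_lit 206561652183) (nat_lit 13) (nat_lit 5) (nat_lit 15) (nat_lit 5) (nat_lit 14) (nat_lit 5) (nat_lit 305) (nat_lit 277) (nat_lit 138)) (XT.lf (nat_lit 0) (nat_lit 49253989876) (nat_lit 152) (nat_lit 6774015336) (nat_lit 228) (nat_lit 237788681277) (nat_lit 11) (nat_lit 5) (nat_lit 13) (nat_lit 5) (nat_lit 14) (nat_lit 5) (nat_lit 306) (nat_lit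 277) (nat_lit 137)))) (XT.nd (nat_lit 78) (nat_lit 76) (nat_lit 0) (XT.lf (nat_lit 0) (nat_lit 101109349331) (nat_lit 228) (nat_lit 150292280883) (nat_lit 76) (nat_lit 60359450603) (nat_lit 11) (nat_lit 5) (nat_lit 14) (nat_lit 5) (nat_lit 12) (nat_lit 4) (nat_lit 307) (nat_lit 277) (nat_lit 136)) (XT.nd (nat_lit 78) (nat_lit 76) (nat_lit 0) (XT.lf (nat_lit 0) (nat_lit 149972945903) (nat_lit 228) (nat_lit 48656517562) (nat_lit 76) (nat_lit 132497504159) (nat_lit 11) (nat_lit 5) (nat_lit 14) (nat_lit 5) (nat_lit 12) (nat_lit 4) (nat_lit 308) (nat_lit 277) (nat_lit 135)) (XT.lf (nat_lit 0) (nat_lit 64327728073) (nat_lit 76) (nat_lit 139964797083) (nat_lit 152) (nat_lit 147625849110) (nat_lit 10) (nat_lit 5) (nat_lit 11) (nat_lit 5) (nat_lit 12) (nat_lit 4) (nat_lit 309) (nat_lit 277) (nat_lit 134))))) (XT.nd (nat_lit 234) (nat_lit 152) (nat_lit 0) (XT.nd (nat_lit 78) (nat_lit 76) (nat_lit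 0) (XT.lf (nat_lit 0) (nat_lit 189117548294) (nat_lit 76) (nat_lit 75170296061) (nat_lit 152) (nat_lit 109978835646) (nat_lit 10) (nat_lit 5) (nat_lit 11) (nat_lit 5) (nat_lit 12) (nat_lit 4) (nat_lit 310) (nat_lit 277) (nat_lit 133)) (XT.nd (nat_lit 78) (nat_lit 76) (nat_lit 0) (XT.lf (nat_lit 0) (nat_lit 323890272344) (nat_lit 76) (nat_lit 5192348404) (nat_lit 152) (nat_lit 69320243332) (nat_lit 10) (nat_lit 5) (nat_lit 11) (nat_lit 5) (nat_lit 12) (nat_lit 4) (nat_lit 311) (nat_lit 277) (nat_lit 132)) (XT.lf (nat_lit 0) (nat_lit 45561013686) (nat_lit 76) (nat_lit 356288283566) (nat_lit 76) (nat_lit 22397580579) (nat_lit 9) (nat_lit 4) (nat_lit 10) (nat_lit 5) (nat_lit 10) (nat_lit 4) (nat_lit 312) (nat_lit 277) (nat_lit 131)))) (XT.nd (nat_lit 156) (nat_lit 76) (nat_lit 0) (XT.nd (nat_lit 78) (nat_lit 0) (nat_lit 0) (XT.lf (nat_lit 0) (nat_lit 29089202531) (nat_lit 152) (nat_lit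 273385487864) (nat_lit 76) (nat_lit 149451319394) (nat_lit 8) (nat_lit 5) (nat_lit 10) (nat_lit 5) (nat_lit 9) (nat_lit 4) (nat_lit 313) (nat_lit 277) (nat_lit 130)) (XT.lf (nat_lit 0) (nat_lit 83484731499) (nat_lit 152) (nat_lit 160243089594) (nat_lit 76) (nat_lit 238045122744) (nat_lit 8) (nat_lit 5) (nat_lit 10) (nat_lit 5) (nat_lit 9) (nat_lit 4) (nat_lit 314) (nat_lit 277) (nat_lit 129))) (XT.nd (nat_lit 78) (nat_lit 76) (nat_lit 0) (XT.lf (nat_lit 0) (nat_lit 142231767892) (nat_lit 152) (nat_lit 38049533511) (nat_lit 76) (nat_lit 333726342281) (nat_lit 8) (nat_lit 5) (nat_lit 10) (nat_lit 5) (nat_lit 9) (nat_lit 4) (nat_lit 315) (nat_lit 277) (nat_lit 128)) (XT.lf (nat_lit 0) (nat_lit 98864913734) (nat_lit 76) (nat_lit 109191232114) (nat_lit 152) (nat_lit 340574767643) (nat_lit 7) (nat_lit 5) (nat_lit 8) (nat_lit 5) (nat_lit 9) (nat_lit 4) (nat_lit 316) (nat_lit 277) (nat_lit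 127))))))))
noncomputable def xc108 : XT := (XT.nd (nat_lit 35100) (nat_lit 0) (nat_lit 456) (XT.nd (nat_lit 936) (nat_lit 0) (nat_lit 0) (XT.nd (nat_lit 468) (nat_lit 152) (nat_lit 0) (XT.nd (nat_lit 234) (nat_lit 76) (nat_lit 0) (XT.nd (nat_lit 78) (nat_lit 0) (nat_lit 0) (XT.lf (nat_lit 0) (nat_lit 248896216219) (nat_lit 76) (nat_lit 31290478769) (nat_lit 152) (nat_lit 305754132462) (nat_lit 7) (nat_lit 5) (nat_lit 8) (nat_lit 5) (nat_lit 9) (nat_lit 4) (nat_lit 317) (nat_lit 277) (nat_lit 126)) (XT.nd (nat_lit 78) (nat_lit 0) (nat_lit 0) (XT.lf (nat_lit 0) (nat_lit 359358433681) (nat_lit 152) (nat_lit 216576573780) (nat_lit 0) (nat_lit 50198867640) (nat_lit 7) (nat_lit 5) (nat_lit 9) (nat_lit 4) (nat_lit 7) (nat_lit 4) (nat_lit 318) (nat_lit 277) (nat_lit 125)) (XT.lf (nat_lit 0) (nat_lit 445676545806) (nat_lit 152) (nat_lit 87284020756) (nat_lit 0) (nat_lit 136516789464) (nat_lit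 7) (nat_lit 5) (nat_lit 9) (nat_lit 4) (nat_lit 7) (nat_lit 4) (nat_lit 319) (nat_lit 277) (nat_lit 124)))) (XT.nd (nat_lit 78) (nat_lit 0) (nat_lit 0) (XT.lf (nat_lit 0) (nat_lit 55108513745) (nat_lit 76) (nat_lit 485116856669) (nat_lit 76) (nat_lit 175956924122) (nat_lit 6) (nat_lit 4) (nat_lit 7) (nat_lit 5) (nat_lit 7) (nat_lit 4) (nat_lit 320) (nat_lit 277) (nat_lit 123)) (XT.nd (nat_lit 78) (nat_lit 0) (nat_lit 0) (XT.lf (nat_lit 0) (nat_lit 213856201198) (nat_lit 76) (nat_lit 430868305189) (nat_lit 76) (nat_lit 121708209489) (nat_lit 6) (nat_lit 4) (nat_lit 7) (nat_lit 5) (nat_lit 7) (nat_lit 4) (nat_lit 321) (nat_lit 277) (nat_lit 122)) (XT.lf (nat_lit 0) (nat_lit 385303546786) (nat_lit 76) (nat_lit 372279939032) (nat_lit 76) (nat_lit 63119692265) (nat_lit 6) (nat_lit 4) (nat_lit 7) (nat_lit 5) (nat_lit 7) (nat_lit 4) (nat_lit 322) (nat_lit 277) (nat_lit 121))))) (XT.nd (nat_lit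 234) (nat_lit 76) (nat_lit 0) (XT.nd (nat_lit 78) (nat_lit 0) (nat_lit 0) (XT.lf (nat_lit 0) (nat_lit 148024078) (nat_lit 152) (nat_lit 308852496561) (nat_lit 76) (nat_lit 570314463459) (nat_lit 5) (nat_lit 5) (nat_lit 7) (nat_lit 5) (nat_lit 6) (nat_lit 4) (nat_lit 323) (nat_lit 277) (nat_lit 120)) (XT.nd (nat_lit 78) (nat_lit 0) (nat_lit 0) (XT.lf (nat_lit 0) (nat_lit 65066977844) (nat_lit 152) (nat_lit 173821202244) (nat_lit 76) (nat_lit 703596402998) (nat_lit 5) (nat_lit 5) (nat_lit 7) (nat_lit 5) (nat_lit 6) (nat_lit 4) (nat_lit 324) (nat_lit 277) (nat_lit 119)) (XT.lf (nat_lit 0) (nat_lit 135179376586) (nat_lit 152) (nat_lit 27987532781) (nat_lit 76) (nat_lit 847540846454) (nat_lit 5) (nat_lit 5) (nat_lit 7) (nat_lit 5) (nat_lit 6) (nat_lit 4) (nat_lit 325) (nat_lit 277) (nat_lit 118)))) (XT.nd (nat_lit 78) (nat_lit 0) (nat_lit 0) (XT.lf (nat_lit 0) (nat_lit 136332621212) (nat_lit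 76) (nat_lit 77846882793) (nat_lit 152) (nat_lit 869946979540) (nat_lit 4) (nat_lit 5) (nat_lit 5) (nat_lit 5) (nat_lit 6) (nat_lit 4) (nat_lit 326) (nat_lit 277) (nat_lit 117)) (XT.nd (nat_lit 78) (nat_lit 0) (nat_lit 0) (XT.lf (nat_lit 0) (nat_lit 300628566433) (nat_lit 152) (nat_lit 848331308978) (nat_lit 0) (nat_lit 14368520197) (nat_lit 4) (nat_lit 5) (nat_lit 6) (nat_lit 4) (nat_lit 4) (nat_lit 4) (nat_lit 327) (nat_lit 277) (nat_lit 116)) (XT.lf (nat_lit 0) (nat_lit 396015490453) (nat_lit 152) (nat_lit 742933859280) (nat_lit 0) (nat_lit 109755356071) (nat_lit 4) (nat_lit 5) (nat_lit 6) (nat_lit 4) (nat_lit 4) (nat_lit 4) (nat_lit 328) (nat_lit 277) (nat_lit 115)))))) (XT.nd (nat_lit 33618) (nat_lit 0) (nat_lit 2432) (XT.nd (nat_lit 234) (nat_lit 0) (nat_lit 0) (XT.nd (nat_lit 78) (nat_lit 0) (nat_lit 0) (XT.lf (nat_lit 0) (nat_lit 499033312509) (nat_lit 152) (nat_lit 629104716357)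 (nat_lit 0) (nat_lit 212773096510) (nat_lit 4) (nat_lit 5) (nat_lit 6) (nat_lit 4) (nat_lit 4) (nat_lit 4) (nat_lit 329) (nat_lit 277) (nat_lit 114)) (XT.nd (nat_lit 78) (nat_lit 0) (nat_lit 0) (XT.lf (nat_lit 0) (nat_lit 610292508584) (nat_lit 152) (nat_lit 506169337139) (nat_lit 0) (nat_lit 324032217013) (nat_lit 4) (nat_lit 5) (nat_lit 6) (nat_lit 4) (nat_lit 4) (nat_lit 4) (nat_lit 330) (nat_lit 277) (nat_lit 113)) (XT.lf (nat_lit 0) (nat_lit 730452392431) (nat_lit 152) (nat_lit 373399215677) (nat_lit 0) (nat_lit 444192030887) (nat_lit 4) (nat_lit 5) (nat_lit 6) (nat_lit 4) (nat_lit 4) (nat_lit 4) (nat_lit 331) (nat_lit 277) (nat_lit 112)))) (XT.nd (nat_lit 78) (nat_lit 0) (nat_lit 0) (XT.lf (nat_lit 0) (nat_lit 860225022622) (nat_lit 152) (nat_lit 230007566065) (nat_lit 0) (nat_lit 573964596287) (nat_lit 4) (nat_lit 5) (nat_lit 6) (nat_lit 4) (nat_lit 4) (nat_lit 4) (nat_lit 332)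 (nat_lit 277) (nat_lit 111)) (XT.nd (nat_lit 33228) (nat_lit 0) (nat_lit 2432) (XT.lf (nat_lit 0) (nat_lit 1000379422150) (nat_lit 152) (nat_lit 75144660009) (nat_lit 0) (nat_lit 714118935825) (nat_lit 4) (nat_lit 5) (nat_lit 6) (nat_lit 4) (nat_lit 4) (nat_lit 4) (nat_lit 333) (nat_lit 277) (nat_lit 110)) (XT.lf (nat_lit 0) (nat_lit 14031422392) (nat_lit 532) (nat_lit 12090760497) (nat_lit 532) (nat_lit 12090760497) (nat_lit 36) (nat_lit 3) (nat_lit 43) (nat_lit 3) (nat_lit 43) (nat_lit 5) (nat_lit 278) (nat_lit 278) (nat_lit 164))))) (XT.nd (nat_lit 234) (nat_lit 0) (nat_lit 76) (XT.nd (nat_lit 78) (nat_lit 0) (nat_lit 76) (XT.lf (nat_lit 76) (nat_lit 8935831416) (nat_lit 0) (nat_lit 20474421574) (nat_lit 532) (nat_lit 50054624834) (nat_lit 37) (nat_lit 5) (nat_lit 36) (nat_lit 3) (nat_lit 43) (nat_lit 5) (nat_lit 279) (nat_lit 278) (nat_lit 163)) (XT.nd (nat_lit 78) (nat_lit 0)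 (nat_lit 0) (XT.lf (nat_lit 0) (nat_lit 31875573330) (nat_lit 456) (nat_lit 36966922259) (nat_lit 532) (nat_lit 13823688301) (nat_lit 37) (nat_lit 5) (nat_lit 43) (nat_lit 5) (nat_lit 44) (nat_lit 5) (nat_lit 280) (nat_lit 278) (nat_lit 162)) (XT.lf (nat_lit 0) (nat_lit 35068994382) (nat_lit 456) (nat_lit 1252249612) (nat_lit 532) (nat_lit 49759885338) (nat_lit 37) (nat_lit 5) (nat_lit 43) (nat_lit 5) (nat_lit 44) (nat_lit 5) (nat_lit 281) (nat_lit 278) (nat_lit 161)))) (XT.nd (nat_lit 156) (nat_lit 0) (nat_lit 76) (XT.nd (nat_lit 78) (nat_lit 0) (nat_lit 76) (XT.lf (nat_lit 76) (nat_lit 39284178055) (nat_lit 0) (nat_lit 177637162) (nat_lit 532) (nat_lit 50231945638) (nat_lit 38) (nat_lit 5) (nat_lit 37) (nat_lit 5) (nat_lit 44) (nat_lit 5) (nat_lit 282) (nat_lit 278) (nat_lit 160)) (XT.lf (nat_lit 0) (nat_lit 45174909513) (nat_lit 456) (nat_lit 11393972395) (nat_lit 532) (nat_lit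 36949017369) (nat_lit 38) (nat_lit 5) (nat_lit 44) (nat_lit 5) (nat_lit 45) (nat_lit 5) (nat_lit 283) (nat_lit 278) (nat_lit 159))) (XT.nd (nat_lit 78) (nat_lit 0) (nat_lit 76) (XT.lf (nat_lit 76) (nat_lit 32356278941) (nat_lit 0) (nat_lit 19770812081) (nat_lit 532) (nat_lit 45458318463) (nat_lit 39) (nat_lit 5) (nat_lit 38) (nat_lit 5) (nat_lit 45) (nat_lit 5) (nat_lit 284) (nat_lit 278) (nat_lit 158)) (XT.lf (nat_lit 0) (nat_lit 60434676614) (nat_lit 456) (nat_lit 22187893706) (nat_lit 76) (nat_lit 19291815426) (nat_lit 39) (nat_lit 5) (nat_lit 45) (nat_lit 5) (nat_lit 40) (nat_lit 5) (nat_lit 285) (nat_lit 278) (nat_lit 157))))))) (XT.nd (nat_lit 1014) (nat_lit 760) (nat_lit 0) (XT.nd (nat_lit 468) (nat_lit 532) (nat_lit 0) (XT.nd (nat_lit 234) (nat_lit 228) (nat_lit 0) (XT.nd (nat_lit 78) (nat_lit 228) (nat_lit 0) (XT.lf (nat_lit 0) (nat_lit 25034873052) (nat_lit 456) (nat_lit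 45486965592) (nat_lit 532) (nat_lit 35978647229) (nat_lit 33) (nat_lit 5) (nat_lit 39) (nat_lit 5) (nat_lit 40) (nat_lit 5) (nat_lit 286) (nat_lit 278) (nat_lit 156)) (XT.nd (nat_lit 78) (nat_lit 228) (nat_lit 0) (XT.lf (nat_lit 0) (nat_lit 77296734010) (nat_lit 456) (nat_lit 4725282852) (nat_lit 532) (nat_lit 29382976776) (nat_lit 33) (nat_lit 5) (nat_lit 39) (nat_lit 5) (nat_lit 40) (nat_lit 5) (nat_lit 287) (nat_lit 278) (nat_lit 155)) (XT.lf (nat_lit 0) (nat_lit 16939377122) (nat_lit 228) (nat_lit 78854759697) (nat_lit 304) (nat_lit 20799573865) (nat_lit 30) (nat_lit 5) (nat_lit 33) (nat_lit 5) (nat_lit 34) (nat_lit 5) (nat_lit 288) (nat_lit 278) (nat_lit 154)))) (XT.nd (nat_lit 78) (nat_lit 228) (nat_lit 0) (XT.lf (nat_lit 0) (nat_lit 73880829711) (nat_lit 228) (nat_lit 37838865963) (nat_lit 304) (nat_lit 10393698522) (nat_lit 30) (nat_lit 5) (nat_lit 33) (nat_lit 5) (nat_lit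 34) (nat_lit 5) (nat_lit 289) (nat_lit 278) (nat_lit 153)) (XT.nd (nat_lit 78) (nat_lit 0) (nat_lit 0) (XT.lf (nat_lit 0) (nat_lit 1146874330) (nat_lit 228) (nat_lit 120553417751) (nat_lit 76) (nat_lit 6345179062) (nat_lit 27) (nat_lit 5) (nat_lit 30) (nat_lit 5) (nat_lit 28) (nat_lit 5) (nat_lit 290) (nat_lit 278) (nat_lit 152)) (XT.lf (nat_lit 0) (nat_lit 15384518565) (nat_lit 228) (nat_lit 65216569239) (nat_lit 76) (nat_lit 53642602829) (nat_lit 27) (nat_lit 5) (nat_lit 30) (nat_lit 5) (nat_lit 28) (nat_lit 5) (nat_lit 291) (nat_lit 278) (nat_lit 151))))) (XT.nd (nat_lit 234) (nat_lit 304) (nat_lit 0) (XT.nd (nat_lit 78) (nat_lit 228) (nat_lit 0) (XT.lf (nat_lit 0) (nat_lit 30760720784) (nat_lit 228) (nat_lit 5453308020) (nat_lit 76) (nat_lit 104723777106) (nat_lit 27) (nat_lit 5) (nat_lit 30) (nat_lit 5) (nat_lit 28) (nat_lit 5) (nat_lit 292) (nat_lit 278) (nat_lit 150)) (XT.nd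 (nat_lit 78) (nat_lit 0) (nat_lit 0) (XT.lf (nat_lit 0) (nat_lit 49183378428) (nat_lit 304) (nat_lit 86166504965) (nat_lit 76) (nat_lit 12672260078) (nat_lit 24) (nat_lit 5) (nat_lit 28) (nat_lit 5) (nat_lit 25) (nat_lit 5) (nat_lit 293) (nat_lit 278) (nat_lit 149)) (XT.lf (nat_lit 0) (nat_lit 70173046270) (nat_lit 304) (nat_lit 21746876214) (nat_lit 76) (nat_lit 63665851412) (nat_lit 24) (nat_lit 5) (nat_lit 28) (nat_lit 5) (nat_lit 25) (nat_lit 5) (nat_lit 294) (nat_lit 278) (nat_lit 148)))) (XT.nd (nat_lit 156) (nat_lit 152) (nat_lit 0) (XT.nd (nat_lit 78) (nat_lit 0) (nat_lit 0) (XT.lf (nat_lit 0) (nat_lit 50344270565) (nat_lit 152) (nat_lit 43708025252) (nat_lit 228) (nat_lit 69605367820) (nat_lit 22) (nat_lit 5) (nat_lit 24) (nat_lit 5) (nat_lit 25) (nat_lit 5) (nat_lit 295) (nat_lit 278) (nat_lit 147)) (XT.lf (nat_lit 0) (nat_lit 120652646770) (nat_lit 228) (nat_lit 43105277457)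 (nat_lit 76) (nat_lit 8552520845) (nat_lit 22) (nat_lit 5) (nat_lit 25) (nat_lit 5) (nat_lit 23) (nat_lit 5) (nat_lit 296) (nat_lit 278) (nat_lit 146))) (XT.nd (nat_lit 78) (nat_lit 0) (nat_lit 0) (XT.lf (nat_lit 0) (nat_lit 33246903377) (nat_lit 152) (nat_lit 118068652396) (nat_lit 228) (nat_lit 30185132174) (nat_lit 20) (nat_lit 5) (nat_lit 22) (nat_lit 5) (nat_lit 23) (nat_lit 5) (nat_lit 297) (nat_lit 278) (nat_lit 145)) (XT.lf (nat_lit 0) (nat_lit 118158250127) (nat_lit 152) (nat_lit 67451503745) (nat_lit 228) (nat_lit 5722137097) (nat_lit 20) (nat_lit 5) (nat_lit 22) (nat_lit 5) (nat_lit 23) (nat_lit 5) (nat_lit 298) (nat_lit 278) (nat_lit 144)))))) (XT.nd (nat_lit 468) (nat_lit 304) (nat_lit 0) (XT.nd (nat_lit 234) (nat_lit 228) (nat_lit 0) (XT.nd (nat_lit 78) (nat_lit 0) (nat_lit 0) (XT.lf (nat_lit 0) (nat_lit 7805146461) (nat_lit 152) (nat_lit 12044768965) (nat_lit 228) (nat_lit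 182044860221) (nat_lit 17) (nat_lit 5) (nat_lit 19) (nat_lit 5) (nat_lit 20) (nat_lit 5) (nat_lit 299) (nat_lit 278) (nat_lit 143)) (XT.nd (nat_lit 78) (nat_lit 0) (nat_lit 0) (XT.lf (nat_lit 0) (nat_lit 50360416235) (nat_lit 228) (nat_lit 115069439285) (nat_lit 76) (nat_lit 47604800149) (nat_lit 17) (nat_lit 5) (nat_lit 20) (nat_lit 5) (nat_lit 18) (nat_lit 5) (nat_lit 300) (nat_lit 278) (nat_lit 142)) (XT.lf (nat_lit 0) (nat_lit 83624335985) (nat_lit 228) (nat_lit 30040891267) (nat_lit 76) (nat_lit 111375493430) (nat_lit 17) (nat_lit 5) (nat_lit 20) (nat_lit 5) (nat_lit 18) (nat_lit 5) (nat_lit 301) (nat_lit 278) (nat_lit 141)))) (XT.nd (nat_lit 78) (nat_lit 76) (nat_lit 0) (XT.lf (nat_lit 0) (nat_lit 65043293705) (nat_lit 152) (nat_lit 56070116293) (nat_lit 228) (nat_lit 116768738480) (nat_lit 15) (nat_lit 5) (nat_lit 17) (nat_lit 5) (nat_lit 18) (nat_lit 5) (nat_lit 302) (nat_lit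 278) (nat_lit 140)) (XT.nd (nat_lit 78) (nat_lit 76) (nat_lit 0) (XT.lf (nat_lit 0) (nat_lit 162591559497) (nat_lit 228) (nat_lit 82411722314) (nat_lit 76) (nat_lit 6668413491) (nat_lit 15) (nat_lit 5) (nat_lit 18) (nat_lit 5) (nat_lit 16) (nat_lit 4) (nat_lit 303) (nat_lit 278) (nat_lit 139)) (XT.lf (nat_lit 0) (nat_lit 14519166487) (nat_lit 76) (nat_lit 194674120375) (nat_lit 152) (nat_lit 57226693654) (nat_lit 14) (nat_lit 5) (nat_lit 15) (nat_lit 5) (nat_lit 16) (nat_lit 4) (nat_lit 304) (nat_lit 278) (nat_lit 138))))) (XT.nd (nat_lit 234) (nat_lit 76) (nat_lit 0) (XT.nd (nat_lit 78) (nat_lit 228) (nat_lit 0) (XT.lf (nat_lit 0) (nat_lit 123891007948) (nat_lit 76) (nat_lit 137885208444) (nat_lit 152) (nat_lit 20391667699) (nat_lit 14) (nat_lit 5) (nat_lit 15) (nat_lit 5) (nat_lit 16) (nat_lit 4) (nat_lit 305) (nat_lit 278) (nat_lit 137)) (XT.nd (nat_lit 78) (nat_lit 152) (nat_lit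 0) (XT.lf (nat_lit 0) (nat_lit 18419977773) (nat_lit 152) (nat_lit 57629689059) (nat_lit 76) (nat_lit 223088663638) (nat_lit 13) (nat_lit 5) (nat_lit 15) (nat_lit 5) (nat_lit 14) (nat_lit 5) (nat_lit 306) (nat_lit 278) (nat_lit 136)) (XT.lf (nat_lit 0) (nat_lit 53200622468) (nat_lit 152) (nat_lit 7313536170) (nat_lit 228) (nat_lit 256807539475) (nat_lit 11) (nat_lit 5) (nat_lit 13) (nat_lit 5) (nat_lit 14) (nat_lit 5) (nat_lit 307) (nat_lit 278) (nat_lit 135)))) (XT.nd (nat_lit 156) (nat_lit 76) (nat_lit 0) (XT.nd (nat_lit 78) (nat_lit 0) (nat_lit 0) (XT.lf (nat_lit 0) (nat_lit 109201773887) (nat_lit 228) (nat_lit 162309571717) (nat_lit 76) (nat_lit 65190318054) (nat_lit 11) (nat_lit 5) (nat_lit 14) (nat_lit 5) (nat_lit 12) (nat_lit 4) (nat_lit 308) (nat_lit 278) (nat_lit 134)) (XT.lf (nat_lit 0) (nat_lit 161974185843) (nat_lit 228) (nat_lit 52543398563) (nat_lit 76) (nat_lit 143099259495)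 (nat_lit 11) (nat_lit 5) (nat_lit 14) (nat_lit 5) (nat_lit 12) (nat_lit 4) (nat_lit 309) (nat_lit 278) (nat_lit 133))) (XT.nd (nat_lit 78) (nat_lit 0) (nat_lit 0) (XT.lf (nat_lit 0) (nat_lit 69479443928) (nat_lit 76) (nat_lit 151159767558) (nat_lit 152) (nat_lit 159432361835) (nat_lit 10) (nat_lit 5) (nat_lit 11) (nat_lit 5) (nat_lit 12) (nat_lit 4) (nat_lit 310) (nat_lit 278) (nat_lit 132)) (XT.lf (nat_lit 0) (nat_lit 204252042537) (nat_lit 76) (nat_lit 81181870402) (nat_lit 152) (nat_lit 118773850642) (nat_lit 10) (nat_lit 5) (nat_lit 11) (nat_lit 5) (nat_lit 12) (nat_lit 4) (nat_lit 311) (nat_lit 278) (nat_lit 131))))))))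
noncomputable def xc109 : XT := (XT.nd (nat_lit 35256) (nat_lit 0) (nat_lit 532) (XT.nd (nat_lit 1014) (nat_lit 76) (nat_lit 0) (XT.nd (nat_lit 468) (nat_lit 152) (nat_lit 0) (XT.nd (nat_lit 234) (nat_lit 76) (nat_lit 0) (XT.nd (nat_lit 78) (nat_lit 152) (nat_lit 0) (XT.lf (nat_lit 0) (nat_lit 349806207445) (nat_lit 76) (nat_lit 5605838735) (nat_lit 152) (nat_lit 74862814785) (nat_lit 10) (nat_lit 5) (nat_lit 11) (nat_lit 5) (nat_lit 12) (nat_lit 4) (nat_lit 312) (nat_lit 278) (nat_lit 130)) (XT.nd (nat_lit 78) (nat_lit 76) (nat_lit 0) (XT.lf (nat_lit 0) (nat_lit 49210670651) (nat_lit 76) (nat_lit 384789334694) (nat_lit 76) (nat_lit 24186395106) (nat_lit 9) (nat_lit 4) (nat_lit 10) (nat_lit 5) (nat_lit 10) (nat_lit 4) (nat_lit 313) (nat_lit 278) (nat_lit 129)) (XT.lf (nat_lit 0) (nat_lit 31418970448) (nat_lit 152) (nat_lit 295251760670) (nat_lit 76) (nat_lit 161409143377) (nat_lit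 8) (nat_lit 5) (nat_lit 10) (nat_lit 5) (nat_lit 9) (nat_lit 4) (nat_lit 314) (nat_lit 278) (nat_lit 128)))) (XT.nd (nat_lit 78) (nat_lit 76) (nat_lit 0) (XT.lf (nat_lit 0) (nat_lit 90165946792) (nat_lit 152) (nat_lit 173058308776) (nat_lit 76) (nat_lit 257090323704) (nat_lit 8) (nat_lit 5) (nat_lit 10) (nat_lit 5) (nat_lit 9) (nat_lit 4) (nat_lit 315) (nat_lit 278) (nat_lit 127)) (XT.nd (nat_lit 78) (nat_lit 76) (nat_lit 0) (XT.lf (nat_lit 0) (nat_lit 153612565595) (nat_lit 152) (nat_lit 41089581391) (nat_lit 76) (nat_lit 360425922942) (nat_lit 8) (nat_lit 5) (nat_lit 10) (nat_lit 5) (nat_lit 9) (nat_lit 4) (nat_lit 316) (nat_lit 278) (nat_lit 126)) (XT.lf (nat_lit 0) (nat_lit 106777922525) (nat_lit 76) (nat_lit 117924895899) (nat_lit 152) (nat_lit 367818389277) (nat_lit 7) (nat_lit 5) (nat_lit 8) (nat_lit 5) (nat_lit 9) (nat_lit 4) (nat_lit 317) (nat_lit 278) (nat_lit 125))))) (XT.nd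 (nat_lit 234) (nat_lit 152) (nat_lit 0) (XT.nd (nat_lit 78) (nat_lit 0) (nat_lit 0) (XT.lf (nat_lit 0) (nat_lit 268811446565) (nat_lit 76) (nat_lit 33792203380) (nat_lit 152) (nat_lit 330212278080) (nat_lit 7) (nat_lit 5) (nat_lit 8) (nat_lit 5) (nat_lit 9) (nat_lit 4) (nat_lit 318) (nat_lit 278) (nat_lit 124)) (XT.nd (nat_lit 78) (nat_lit 0) (nat_lit 0) (XT.lf (nat_lit 0) (nat_lit 388109011860) (nat_lit 152) (nat_lit 233899308696) (nat_lit 0) (nat_lit 54216108504) (nat_lit 7) (nat_lit 5) (nat_lit 9) (nat_lit 4) (nat_lit 7) (nat_lit 4) (nat_lit 319) (nat_lit 278) (nat_lit 123)) (XT.lf (nat_lit 0) (nat_lit 481332431956) (nat_lit 152) (nat_lit 94263602615) (nat_lit 0) (nat_lit 147439365447) (nat_lit 7) (nat_lit 5) (nat_lit 9) (nat_lit 4) (nat_lit 7) (nat_lit 4) (nat_lit 320) (nat_lit 278) (nat_lit 122)))) (XT.nd (nat_lit 156) (nat_lit 76) (nat_lit 0) (XT.nd (nat_lit 78) (nat_lit 0) (nat_lit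 0) (XT.lf (nat_lit 0) (nat_lit 59520255158) (nat_lit 76) (nat_lit 523924850421) (nat_lit 76) (nat_lit 190031632845) (nat_lit 6) (nat_lit 4) (nat_lit 7) (nat_lit 5) (nat_lit 7) (nat_lit 4) (nat_lit 321) (nat_lit 278) (nat_lit 121)) (XT.lf (nat_lit 0) (nat_lit 230967530918) (nat_lit 76) (nat_lit 465336515176) (nat_lit 76) (nat_lit 131443157723) (nat_lit 6) (nat_lit 4) (nat_lit 7) (nat_lit 5) (nat_lit 7) (nat_lit 4) (nat_lit 322) (nat_lit 278) (nat_lit 120))) (XT.nd (nat_lit 78) (nat_lit 76) (nat_lit 0) (XT.lf (nat_lit 0) (nat_lit 416130454254) (nat_lit 76) (nat_lit 402061172647) (nat_lit 76) (nat_lit 68167685678) (nat_lit 6) (nat_lit 4) (nat_lit 7) (nat_lit 5) (nat_lit 7) (nat_lit 4) (nat_lit 323) (nat_lit 278) (nat_lit 119)) (XT.lf (nat_lit 0) (nat_lit 161257514) (nat_lit 152) (nat_lit 333558191259) (nat_lit 76) (nat_lit 615940620354) (nat_lit 5) (nat_lit 5) (nat_lit 7) (nat_lit 5)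 (nat_lit 6) (nat_lit 4) (nat_lit 324) (nat_lit 278) (nat_lit 118)))))) (XT.nd (nat_lit 468) (nat_lit 0) (nat_lit 0) (XT.nd (nat_lit 234) (nat_lit 0) (nat_lit 0) (XT.nd (nat_lit 78) (nat_lit 76) (nat_lit 0) (XT.lf (nat_lit 0) (nat_lit 70273624506) (nat_lit 152) (nat_lit 187724578955) (nat_lit 76) (nat_lit 759885040996) (nat_lit 5) (nat_lit 5) (nat_lit 7) (nat_lit 5) (nat_lit 6) (nat_lit 4) (nat_lit 325) (nat_lit 278) (nat_lit 117)) (XT.nd (nat_lit 78) (nat_lit 76) (nat_lit 0) (XT.lf (nat_lit 0) (nat_lit 145994919709) (nat_lit 152) (nat_lit 30224387748) (nat_lit 76) (nat_lit 915344971354) (nat_lit 5) (nat_lit 5) (nat_lit 7) (nat_lit 5) (nat_lit 6) (nat_lit 4) (nat_lit 326) (nat_lit 278) (nat_lit 116)) (XT.lf (nat_lit 0) (nat_lit 147241324194) (nat_lit 76) (nat_lit 84073695101) (nat_lit 152) (nat_lit 939541488650) (nat_lit 4) (nat_lit 5) (nat_lit 5) (nat_lit 5) (nat_lit 6) (nat_lit 4)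 (nat_lit 327) (nat_lit 278) (nat_lit 115)))) (XT.nd (nat_lit 78) (nat_lit 0) (nat_lit 0) (XT.lf (nat_lit 0) (nat_lit 324679942059) (nat_lit 152) (nat_lit 916195809064) (nat_lit 0) (nat_lit 15518827162) (nat_lit 4) (nat_lit 5) (nat_lit 6) (nat_lit 4) (nat_lit 4) (nat_lit 4) (nat_lit 328) (nat_lit 278) (nat_lit 114)) (XT.nd (nat_lit 78) (nat_lit 0) (nat_lit 0) (XT.lf (nat_lit 0) (nat_lit 427697739237) (nat_lit 152) (nat_lit 802366711881) (nat_lit 0) (nat_lit 118536548769) (nat_lit 4) (nat_lit 5) (nat_lit 6) (nat_lit 4) (nat_lit 4) (nat_lit 4) (nat_lit 329) (nat_lit 278) (nat_lit 113)) (XT.lf (nat_lit 0) (nat_lit 538956912276) (nat_lit 152) (nat_lit 679431375016) (nat_lit 0) (nat_lit 229795651835) (nat_lit 4) (nat_lit 5) (nat_lit 6) (nat_lit 4) (nat_lit 4) (nat_lit 4) (nat_lit 330) (nat_lit 278) (nat_lit 112))))) (XT.nd (nat_lit 33462) (nat_lit 0) (nat_lit 2432) (XT.nd (nat_lit 78) (nat_lit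 0) (nat_lit 0) (XT.lf (nat_lit 0) (nat_lit 659116774794) (nat_lit 152) (nat_lit 546661292769) (nat_lit 0) (nat_lit 349955449563) (nat_lit 4) (nat_lit 5) (nat_lit 6) (nat_lit 4) (nat_lit 4) (nat_lit 4) (nat_lit 331) (nat_lit 278) (nat_lit 111)) (XT.nd (nat_lit 78) (nat_lit 0) (nat_lit 0) (XT.lf (nat_lit 0) (nat_lit 788889385236) (nat_lit 152) (nat_lit 403269679467) (nat_lit 0) (nat_lit 479728000014) (nat_lit 4) (nat_lit 5) (nat_lit 6) (nat_lit 4) (nat_lit 4) (nat_lit 4) (nat_lit 332) (nat_lit 278) (nat_lit 110)) (XT.lf (nat_lit 0) (nat_lit 929043766479) (nat_lit 152) (nat_lit 248406807032) (nat_lit 0) (nat_lit 619882325710) (nat_lit 4) (nat_lit 5) (nat_lit 6) (nat_lit 4) (nat_lit 4) (nat_lit 4) (nat_lit 333) (nat_lit 278) (nat_lit 109)))) (XT.nd (nat_lit 156) (nat_lit 0) (nat_lit 76) (XT.nd (nat_lit 78) (nat_lit 0) (nat_lit 0) (XT.lf (nat_lit 0) (nat_lit 15163683439) (nat_lit 532) (nat_lit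 13052732021) (nat_lit 532) (nat_lit 13052732021) (nat_lit 36) (nat_lit 3) (nat_lit 43) (nat_lit 3) (nat_lit 43) (nat_lit 5) (nat_lit 279) (nat_lit 279) (nat_lit 162)) (XT.lf (nat_lit 76) (nat_lit 9661008748) (nat_lit 0) (nat_lit 22120362931) (nat_lit 532) (nat_lit 54039136947) (nat_lit 37) (nat_lit 5) (nat_lit 36) (nat_lit 3) (nat_lit 43) (nat_lit 5) (nat_lit 280) (nat_lit 279) (nat_lit 161))) (XT.nd (nat_lit 78) (nat_lit 0) (nat_lit 0) (XT.lf (nat_lit 0) (nat_lit 34442384333) (nat_lit 456) (nat_lit 39913107201) (nat_lit 532) (nat_lit 14922557386) (nat_lit 37) (nat_lit 5) (nat_lit 43) (nat_lit 5) (nat_lit 44) (nat_lit 5) (nat_lit 281) (nat_lit 279) (nat_lit 160)) (XT.lf (nat_lit 0) (nat_lit 37890037207) (nat_lit 456) (nat_lit 1342088064) (nat_lit 532) (nat_lit 53734170629) (nat_lit 37) (nat_lit 5) (nat_lit 43) (nat_lit 5) (nat_lit 44) (nat_lit 5) (nat_lit 282) (nat_lit 279) (nat_lit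 159))))))) (XT.nd (nat_lit 1014) (nat_lit 988) (nat_lit 0) (XT.nd (nat_lit 468) (nat_lit 684) (nat_lit 0) (XT.nd (nat_lit 234) (nat_lit 304) (nat_lit 0) (XT.nd (nat_lit 78) (nat_lit 0) (nat_lit 76) (XT.lf (nat_lit 76) (nat_lit 42436992006) (nat_lit 0) (nat_lit 196384248) (nat_lit 532) (nat_lit 54234640356) (nat_lit 38) (nat_lit 5) (nat_lit 37) (nat_lit 5) (nat_lit 44) (nat_lit 5) (nat_lit 283) (nat_lit 279) (nat_lit 158)) (XT.nd (nat_lit 78) (nat_lit 0) (nat_lit 0) (XT.lf (nat_lit 0) (nat_lit 48802334427) (nat_lit 456) (nat_lit 12294903229) (nat_lit 532) (nat_lit 39900948760) (nat_lit 38) (nat_lit 5) (nat_lit 44) (nat_lit 5) (nat_lit 45) (nat_lit 5) (nat_lit 284) (nat_lit 279) (nat_lit 157)) (XT.lf (nat_lit 76) (nat_lit 34955100189) (nat_lit 0) (nat_lit 21354843464) (nat_lit 532) (nat_lit 49081218735) (nat_lit 39) (nat_lit 5) (nat_lit 38) (nat_lit 5) (nat_lit 45) (nat_lit 5) (nat_lit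 285) (nat_lit 279) (nat_lit 156)))) (XT.nd (nat_lit 78) (nat_lit 456) (nat_lit 0) (XT.lf (nat_lit 0) (nat_lit 65281143740) (nat_lit 456) (nat_lit 23952318072) (nat_lit 76) (nat_lit 20833079143) (nat_lit 39) (nat_lit 5) (nat_lit 45) (nat_lit 5) (nat_lit 40) (nat_lit 5) (nat_lit 286) (nat_lit 279) (nat_lit 155)) (XT.nd (nat_lit 78) (nat_lit 0) (nat_lit 0) (XT.lf (nat_lit 0) (nat_lit 27048001492) (nat_lit 456) (nat_lit 49126659737) (nat_lit 532) (nat_lit 38844921724) (nat_lit 33) (nat_lit 5) (nat_lit 39) (nat_lit 5) (nat_lit 40) (nat_lit 5) (nat_lit 287) (nat_lit 279) (nat_lit 154)) (XT.lf (nat_lit 0) (nat_lit 83490045505) (nat_lit 456) (nat_lit 5103987792) (nat_lit 532) (nat_lit 31722487804) (nat_lit 33) (nat_lit 5) (nat_lit 39) (nat_lit 5) (nat_lit 40) (nat_lit 5) (nat_lit 288) (nat_lit 279) (nat_lit 153))))) (XT.nd (nat_lit 234) (nat_lit 228) (nat_lit 0) (XT.nd (nat_lit 78) (nat_lit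 228) (nat_lit 0) (XT.lf (nat_lit 0) (nat_lit 18304723663) (nat_lit 228) (nat_lit 85162669581) (nat_lit 304) (nat_lit 22452988459) (nat_lit 30) (nat_lit 5) (nat_lit 33) (nat_lit 5) (nat_lit 34) (nat_lit 5) (nat_lit 289) (nat_lit 279) (nat_lit 152)) (XT.nd (nat_lit 78) (nat_lit 228) (nat_lit 0) (XT.lf (nat_lit 0) (nat_lit 79800737172) (nat_lit 228) (nat_lit 40865539229) (nat_lit 304) (nat_lit 11215424668) (nat_lit 30) (nat_lit 5) (nat_lit 33) (nat_lit 5) (nat_lit 34) (nat_lit 5) (nat_lit 290) (nat_lit 279) (nat_lit 151)) (XT.lf (nat_lit 0) (nat_lit 1247472965) (nat_lit 228) (nat_lit 130187250119) (nat_lit 76) (nat_lit 6853639912) (nat_lit 27) (nat_lit 5) (nat_lit 30) (nat_lit 5) (nat_lit 28) (nat_lit 5) (nat_lit 291) (nat_lit 279) (nat_lit 150)))) (XT.nd (nat_lit 156) (nat_lit 228) (nat_lit 0) (XT.nd (nat_lit 78) (nat_lit 0) (nat_lit 0) (XT.lf (nat_lit 0) (nat_lit 16623473281) (nat_lit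 228) (nat_lit 70424227137) (nat_lit 76) (nat_lit 57934794874) (nat_lit 27) (nat_lit 5) (nat_lit 30) (nat_lit 5) (nat_lit 28) (nat_lit 5) (nat_lit 292) (nat_lit 279) (nat_lit 149)) (XT.lf (nat_lit 0) (nat_lit 33229164771) (nat_lit 228) (nat_lit 5880621142) (nat_lit 76) (nat_lit 113102405033) (nat_lit 27) (nat_lit 5) (nat_lit 30) (nat_lit 5) (nat_lit 28) (nat_lit 5) (nat_lit 293) (nat_lit 279) (nat_lit 148))) (XT.nd (nat_lit 78) (nat_lit 0) (nat_lit 0) (XT.lf (nat_lit 0) (nat_lit 53125318762) (nat_lit 304) (nat_lit 93050527457) (nat_lit 76) (nat_lit 13687457004) (nat_lit 24) (nat_lit 5) (nat_lit 28) (nat_lit 5) (nat_lit 25) (nat_lit 5) (nat_lit 294) (nat_lit 279) (nat_lit 147)) (XT.lf (nat_lit 0) (nat_lit 75793621509) (nat_lit 304) (nat_lit 23478017139) (nat_lit 76) (nat_lit 68760430747) (nat_lit 24) (nat_lit 5) (nat_lit 28) (nat_lit 5) (nat_lit 25) (nat_lit 5) (nat_lit 295) (nat_lit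 279) (nat_lit 146)))))) (XT.nd (nat_lit 468) (nat_lit 456) (nat_lit 0) (XT.nd (nat_lit 234) (nat_lit 228) (nat_lit 0) (XT.nd (nat_lit 78) (nat_lit 152) (nat_lit 0) (XT.lf (nat_lit 0) (nat_lit 54380203428) (nat_lit 152) (nat_lit 47202710768) (nat_lit 228) (nat_lit 75166821931) (nat_lit 22) (nat_lit 5) (nat_lit 24) (nat_lit 5) (nat_lit 25) (nat_lit 5) (nat_lit 296) (nat_lit 279) (nat_lit 145)) (XT.nd (nat_lit 78) (nat_lit 152) (nat_lit 0) (XT.lf (nat_lit 0) (nat_lit 130310860149) (nat_lit 228) (nat_lit 46545473020) (nat_lit 76) (nat_lit 9238443468) (nat_lit 22) (nat_lit 5) (nat_lit 25) (nat_lit 5) (nat_lit 23) (nat_lit 5) (nat_lit 297) (nat_lit 279) (nat_lit 144)) (XT.lf (nat_lit 0) (nat_lit 35914674012) (nat_lit 152) (nat_lit 127511876136) (nat_lit 228) (nat_lit 32593710703) (nat_lit 20) (nat_lit 5) (nat_lit 22) (nat_lit 5) (nat_lit 23) (nat_lit 5) (nat_lit 298) (nat_lit 279) (nat_lit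 143)))) (XT.nd (nat_lit 78) (nat_lit 228) (nat_lit 0) (XT.lf (nat_lit 0) (nat_lit 127618334549) (nat_lit 152) (nat_lit 72845523626) (nat_lit 228) (nat_lit 6174137652) (nat_lit 20) (nat_lit 5) (nat_lit 22) (nat_lit 5) (nat_lit 23) (nat_lit 5) (nat_lit 299) (nat_lit 279) (nat_lit 142)) (XT.nd (nat_lit 78) (nat_lit 0) (nat_lit 0) (XT.lf (nat_lit 0) (nat_lit 8437094482) (nat_lit 152) (nat_lit 13006071124) (nat_lit 228) (nat_lit 196602753962) (nat_lit 17) (nat_lit 5) (nat_lit 19) (nat_lit 5) (nat_lit 20) (nat_lit 5) (nat_lit 300) (nat_lit 279) (nat_lit 141)) (XT.lf (nat_lit 0) (nat_lit 54394167834) (nat_lit 228) (nat_lit 124267661450) (nat_lit 76) (nat_lit 51415189101) (nat_lit 17) (nat_lit 5) (nat_lit 20) (nat_lit 5) (nat_lit 18) (nat_lit 5) (nat_lit 301) (nat_lit 279) (nat_lit 140))))) (XT.nd (nat_lit 234) (nat_lit 304) (nat_lit 0) (XT.nd (nat_lit 78) (nat_lit 152) (nat_lit 0) (XT.lf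 (nat_lit 0) (nat_lit 90318836846) (nat_lit 228) (nat_lit 32437372774) (nat_lit 76) (nat_lit 120287389331) (nat_lit 17) (nat_lit 5) (nat_lit 20) (nat_lit 5) (nat_lit 18) (nat_lit 5) (nat_lit 302) (nat_lit 279) (nat_lit 139)) (XT.nd (nat_lit 78) (nat_lit 0) (nat_lit 0) (XT.lf (nat_lit 0) (nat_lit 70253375102) (nat_lit 152) (nat_lit 60553483506) (nat_lit 228) (nat_lit 126105497731) (nat_lit 15) (nat_lit 5) (nat_lit 17) (nat_lit 5) (nat_lit 18) (nat_lit 5) (nat_lit 303) (nat_lit 279) (nat_lit 138)) (XT.lf (nat_lit 0) (nat_lit 175602985861) (nat_lit 228) (nat_lit 88998245290) (nat_lit 76) (nat_lit 7203858729) (nat_lit 15) (nat_lit 5) (nat_lit 18) (nat_lit 5) (nat_lit 16) (nat_lit 4) (nat_lit 304) (nat_lit 279) (nat_lit 137)))) (XT.nd (nat_lit 156) (nat_lit 228) (nat_lit 0) (XT.nd (nat_lit 78) (nat_lit 0) (nat_lit 0) (XT.lf (nat_lit 0) (nat_lit 15686952216) (nat_lit 76) (nat_lit 210245745748)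 (nat_lit 152) (nat_lit 61800553180) (nat_lit 14) (nat_lit 5) (nat_lit 15) (nat_lit 5) (nat_lit 16) (nat_lit 4) (nat_lit 305) (nat_lit 279) (nat_lit 136)) (XT.lf (nat_lit 0) (nat_lit 133808077852) (nat_lit 76) (nat_lit 148913891548) (nat_lit 152) (nat_lit 22019041887) (nat_lit 14) (nat_lit 5) (nat_lit 15) (nat_lit 5) (nat_lit 16) (nat_lit 4) (nat_lit 306) (nat_lit 279) (nat_lit 135))) (XT.nd (nat_lit 78) (nat_lit 152) (nat_lit 0) (XT.lf (nat_lit 0) (nat_lit 19897058560) (nat_lit 152) (nat_lit 62234510869) (nat_lit 76) (nat_lit 240937539378) (nat_lit 13) (nat_lit 5) (nat_lit 15) (nat_lit 5) (nat_lit 14) (nat_lit 5) (nat_lit 307) (nat_lit 279) (nat_lit 134)) (XT.lf (nat_lit 0) (nat_lit 57462084989) (nat_lit 152) (nat_lit 7896561113) (nat_lit 228) (nat_lit 277348510685) (nat_lit 11) (nat_lit 5) (nat_lit 13) (nat_lit 5) (nat_lit 14) (nat_lit 5) (nat_lit 308) (nat_lit 279) (nat_lit 133))))))))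
noncomputable def xc110 : XT := (XT.nd (nat_lit 35334) (nat_lit 0) (nat_lit 760) (XT.nd (nat_lit 936) (nat_lit 228) (nat_lit 0) (XT.nd (nat_lit 468) (nat_lit 152) (nat_lit 0) (XT.nd (nat_lit 234) (nat_lit 76) (nat_lit 0) (XT.nd (nat_lit 78) (nat_lit 76) (nat_lit 0) (XT.lf (nat_lit 0) (nat_lit 117941067898) (nat_lit 228) (nat_lit 175289114858) (nat_lit 76) (nat_lit 70407353687) (nat_lit 11) (nat_lit 5) (nat_lit 14) (nat_lit 5) (nat_lit 12) (nat_lit 4) (nat_lit 309) (nat_lit 279) (nat_lit 132)) (XT.nd (nat_lit 78) (nat_lit 76) (nat_lit 0) (XT.lf (nat_lit 0) (nat_lit 174935039321) (nat_lit 228) (nat_lit 56742034710) (nat_lit 76) (nat_lit 154548876355) (nat_lit 11) (nat_lit 5) (nat_lit 14) (nat_lit 5) (nat_lit 12) (nat_lit 4) (nat_lit 310) (nat_lit 279) (nat_lit 131)) (XT.lf (nat_lit 0) (nat_lit 75042512756) (nat_lit 76) (nat_lit 163250651421) (nat_lit 152) (nat_lit 172183902768) (nat_lit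 10) (nat_lit 5) (nat_lit 11) (nat_lit 5) (nat_lit 12) (nat_lit 4) (nat_lit 311) (nat_lit 279) (nat_lit 130)))) (XT.nd (nat_lit 78) (nat_lit 76) (nat_lit 0) (XT.lf (nat_lit 0) (nat_lit 220596570120) (nat_lit 76) (nat_lit 87674663052) (nat_lit 152) (nat_lit 128272936459) (nat_lit 10) (nat_lit 5) (nat_lit 11) (nat_lit 5) (nat_lit 12) (nat_lit 4) (nat_lit 312) (nat_lit 279) (nat_lit 129)) (XT.nd (nat_lit 78) (nat_lit 76) (nat_lit 0) (XT.lf (nat_lit 0) (nat_lit 377794744948) (nat_lit 76) (nat_lit 6052678998) (nat_lit 152) (nat_lit 80849226787) (nat_lit 10) (nat_lit 5) (nat_lit 11) (nat_lit 5) (nat_lit 12) (nat_lit 4) (nat_lit 313) (nat_lit 279) (nat_lit 128)) (XT.lf (nat_lit 0) (nat_lit 53151618843) (nat_lit 76) (nat_lit 415570756882) (nat_lit 76) (nat_lit 26118741626) (nat_lit 9) (nat_lit 4) (nat_lit 10) (nat_lit 5) (nat_lit 10) (nat_lit 4) (nat_lit 314) (nat_lit 279) (nat_lit 127)))))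 (XT.nd (nat_lit 234) (nat_lit 76) (nat_lit 0) (XT.nd (nat_lit 78) (nat_lit 0) (nat_lit 0) (XT.lf (nat_lit 0) (nat_lit 33934744355) (nat_lit 152) (nat_lit 318867986722) (nat_lit 76) (nat_lit 174323348126) (nat_lit 8) (nat_lit 5) (nat_lit 10) (nat_lit 5) (nat_lit 9) (nat_lit 4) (nat_lit 315) (nat_lit 279) (nat_lit 126)) (XT.nd (nat_lit 78) (nat_lit 0) (nat_lit 0) (XT.lf (nat_lit 0) (nat_lit 97381311675) (nat_lit 152) (nat_lit 186899348662) (nat_lit 76) (nat_lit 277658913748) (nat_lit 8) (nat_lit 5) (nat_lit 10) (nat_lit 5) (nat_lit 9) (nat_lit 4) (nat_lit 316) (nat_lit 279) (nat_lit 125)) (XT.lf (nat_lit 0) (nat_lit 165903505231) (nat_lit 152) (nat_lit 44373391591) (nat_lit 76) (nat_lit 389261259877) (nat_lit 8) (nat_lit 5) (nat_lit 10) (nat_lit 5) (nat_lit 9) (nat_lit 4) (nat_lit 317) (nat_lit 279) (nat_lit 124)))) (XT.nd (nat_lit 78) (nat_lit 0) (nat_lit 0) (XT.lf (nat_lit 0) (nat_lit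 115323427668) (nat_lit 76) (nat_lit 127357486006) (nat_lit 152) (nat_lit 397241837290) (nat_lit 7) (nat_lit 5) (nat_lit 8) (nat_lit 5) (nat_lit 9) (nat_lit 4) (nat_lit 318) (nat_lit 279) (nat_lit 123)) (XT.nd (nat_lit 78) (nat_lit 0) (nat_lit 0) (XT.lf (nat_lit 0) (nat_lit 290319391310) (nat_lit 76) (nat_lit 36494281906) (nat_lit 152) (nat_lit 356627387058) (nat_lit 7) (nat_lit 5) (nat_lit 8) (nat_lit 5) (nat_lit 9) (nat_lit 4) (nat_lit 319) (nat_lit 279) (nat_lit 122)) (XT.lf (nat_lit 0) (nat_lit 419159364739) (nat_lit 152) (nat_lit 252608346168) (nat_lit 0) (nat_lit 58554538690) (nat_lit 7) (nat_lit 5) (nat_lit 9) (nat_lit 4) (nat_lit 7) (nat_lit 4) (nat_lit 320) (nat_lit 279) (nat_lit 121)))))) (XT.nd (nat_lit 468) (nat_lit 76) (nat_lit 0) (XT.nd (nat_lit 234) (nat_lit 76) (nat_lit 0) (XT.nd (nat_lit 78) (nat_lit 76) (nat_lit 0) (XT.lf (nat_lit 0) (nat_lit 519840537559) (nat_lit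 152) (nat_lit 101801998950) (nat_lit 0) (nat_lit 159235571633) (nat_lit 7) (nat_lit 5) (nat_lit 9) (nat_lit 4) (nat_lit 7) (nat_lit 4) (nat_lit 321) (nat_lit 279) (nat_lit 120)) (XT.nd (nat_lit 78) (nat_lit 0) (nat_lit 0) (XT.lf (nat_lit 0) (nat_lit 64284499297) (nat_lit 76) (nat_lit 565837676948) (nat_lit 76) (nat_lit 205232581505) (nat_lit 6) (nat_lit 4) (nat_lit 7) (nat_lit 5) (nat_lit 7) (nat_lit 4) (nat_lit 322) (nat_lit 279) (nat_lit 119)) (XT.lf (nat_lit 0) (nat_lit 249447362767) (nat_lit 76) (nat_lit 502562360921) (nat_lit 76) (nat_lit 141957145557) (nat_lit 6) (nat_lit 4) (nat_lit 7) (nat_lit 5) (nat_lit 7) (nat_lit 4) (nat_lit 323) (nat_lit 279) (nat_lit 118)))) (XT.nd (nat_lit 78) (nat_lit 76) (nat_lit 0) (XT.lf (nat_lit 0) (nat_lit 449423140016) (nat_lit 76) (nat_lit 434225070654) (nat_lit 76) (nat_lit 73619744251) (nat_lit 6) (nat_lit 4) (nat_lit 7) (nat_lit 5) (nat_lit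 7) (nat_lit 4) (nat_lit 324) (nat_lit 279) (nat_lit 117)) (XT.nd (nat_lit 78) (nat_lit 0) (nat_lit 0) (XT.lf (nat_lit 0) (nat_lit 175351111) (nat_lit 152) (nat_lit 360240698904) (nat_lit 76) (nat_lit 665216727166) (nat_lit 5) (nat_lit 5) (nat_lit 7) (nat_lit 5) (nat_lit 6) (nat_lit 4) (nat_lit 325) (nat_lit 279) (nat_lit 116)) (XT.lf (nat_lit 0) (nat_lit 75896619093) (nat_lit 152) (nat_lit 202740556701) (nat_lit 76) (nat_lit 820676637965) (nat_lit 5) (nat_lit 5) (nat_lit 7) (nat_lit 5) (nat_lit 6) (nat_lit 4) (nat_lit 326) (nat_lit 279) (nat_lit 115))))) (XT.nd (nat_lit 234) (nat_lit 0) (nat_lit 0) (XT.nd (nat_lit 78) (nat_lit 76) (nat_lit 0) (XT.lf (nat_lit 0) (nat_lit 157675536087) (nat_lit 152) (nat_lit 32640497499) (nat_lit 76) (nat_lit 988573303959) (nat_lit 5) (nat_lit 5) (nat_lit 7) (nat_lit 5) (nat_lit 6) (nat_lit 4) (nat_lit 327) (nat_lit 279) (nat_lit 114)) (XT.nd (nat_lit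 78) (nat_lit 0) (nat_lit 0) (XT.lf (nat_lit 0) (nat_lit 159022424785) (nat_lit 76) (nat_lit 90798786254) (nat_lit 152) (nat_lit 1014703736709) (nat_lit 4) (nat_lit 5) (nat_lit 5) (nat_lit 5) (nat_lit 6) (nat_lit 4) (nat_lit 328) (nat_lit 279) (nat_lit 113)) (XT.lf (nat_lit 0) (nat_lit 350655272189) (nat_lit 152) (nat_lit 989489755141) (nat_lit 0) (nat_lit 16761040940) (nat_lit 4) (nat_lit 5) (nat_lit 6) (nat_lit 4) (nat_lit 4) (nat_lit 4) (nat_lit 329) (nat_lit 279) (nat_lit 112)))) (XT.nd (nat_lit 156) (nat_lit 0) (nat_lit 0) (XT.nd (nat_lit 78) (nat_lit 0) (nat_lit 0) (XT.lf (nat_lit 0) (nat_lit 461914423900) (nat_lit 152) (nat_lit 866554457491) (nat_lit 0) (nat_lit 128020127860) (nat_lit 4) (nat_lit 5) (nat_lit 6) (nat_lit 4) (nat_lit 4) (nat_lit 4) (nat_lit 330) (nat_lit 279) (nat_lit 111)) (XT.lf (nat_lit 0) (nat_lit 582074266669) (nat_lit 152) (nat_lit 733784411554) (nat_lit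 0) (nat_lit 248179910638) (nat_lit 4) (nat_lit 5) (nat_lit 6) (nat_lit 4) (nat_lit 4) (nat_lit 4) (nat_lit 331) (nat_lit 279) (nat_lit 110))) (XT.nd (nat_lit 33462) (nat_lit 0) (nat_lit 2432) (XT.lf (nat_lit 0) (nat_lit 711846858825) (nat_lit 152) (nat_lit 590392831872) (nat_lit 0) (nat_lit 377952447247) (nat_lit 4) (nat_lit 5) (nat_lit 6) (nat_lit 4) (nat_lit 4) (nat_lit 4) (nat_lit 332) (nat_lit 279) (nat_lit 109)) (XT.lf (nat_lit 0) (nat_lit 16385134816) (nat_lit 532) (nat_lit 14092415846) (nat_lit 532) (nat_lit 14092415846) (nat_lit 36) (nat_lit 3) (nat_lit 43) (nat_lit 3) (nat_lit 43) (nat_lit 5) (nat_lit 280) (nat_lit 280) (nat_lit 160))))))) (XT.nd (nat_lit 1014) (nat_lit 988) (nat_lit 0) (XT.nd (nat_lit 468) (nat_lit 684) (nat_lit 0) (XT.nd (nat_lit 234) (nat_lit 0) (nat_lit 76) (XT.nd (nat_lit 78) (nat_lit 0) (nat_lit 76) (XT.lf (nat_lit 76) (nat_lit 10442729313) (nat_lit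 0) (nat_lit 23896840071) (nat_lit 532) (nat_lit 58345242978) (nat_lit 37) (nat_lit 5) (nat_lit 36) (nat_lit 3) (nat_lit 43) (nat_lit 5) (nat_lit 281) (nat_lit 280) (nat_lit 159)) (XT.nd (nat_lit 78) (nat_lit 0) (nat_lit 0) (XT.lf (nat_lit 0) (nat_lit 37212148481) (nat_lit 456) (nat_lit 43096580299) (nat_lit 532) (nat_lit 16110338333) (nat_lit 37) (nat_lit 5) (nat_lit 43) (nat_lit 5) (nat_lit 44) (nat_lit 5) (nat_lit 282) (nat_lit 280) (nat_lit 158)) (XT.lf (nat_lit 0) (nat_lit 40934548889) (nat_lit 456) (nat_lit 1440588926) (nat_lit 532) (nat_lit 58027326831) (nat_lit 37) (nat_lit 5) (nat_lit 43) (nat_lit 5) (nat_lit 44) (nat_lit 5) (nat_lit 283) (nat_lit 280) (nat_lit 157)))) (XT.nd (nat_lit 78) (nat_lit 0) (nat_lit 76) (XT.lf (nat_lit 76) (nat_lit 45840593089) (nat_lit 0) (nat_lit 215983974) (nat_lit 532) (nat_lit 58559813391) (nat_lit 38) (nat_lit 5) (nat_lit 37) (nat_lit 5) (nat_lit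 44) (nat_lit 5) (nat_lit 284) (nat_lit 280) (nat_lit 156)) (XT.nd (nat_lit 78) (nat_lit 0) (nat_lit 0) (XT.lf (nat_lit 0) (nat_lit 52718037088) (nat_lit 456) (nat_lit 13269418878) (nat_lit 532) (nat_lit 43089603880) (nat_lit 38) (nat_lit 5) (nat_lit 44) (nat_lit 5) (nat_lit 45) (nat_lit 5) (nat_lit 285) (nat_lit 280) (nat_lit 155)) (XT.lf (nat_lit 76) (nat_lit 37760355026) (nat_lit 0) (nat_lit 23065259762) (nat_lit 532) (nat_lit 52995914789) (nat_lit 39) (nat_lit 5) (nat_lit 38) (nat_lit 5) (nat_lit 45) (nat_lit 5) (nat_lit 286) (nat_lit 280) (nat_lit 154))))) (XT.nd (nat_lit 234) (nat_lit 456) (nat_lit 0) (XT.nd (nat_lit 78) (nat_lit 456) (nat_lit 0) (XT.lf (nat_lit 0) (nat_lit 70513660100) (nat_lit 456) (nat_lit 25859409613) (nat_lit 76) (nat_lit 22497940909) (nat_lit 39) (nat_lit 5) (nat_lit 45) (nat_lit 5) (nat_lit 40) (nat_lit 5) (nat_lit 287) (nat_lit 280) (nat_lit 153)) (XT.nd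 (nat_lit 78) (nat_lit 0) (nat_lit 0) (XT.lf (nat_lit 0) (nat_lit 29220705291) (nat_lit 456) (nat_lit 53057424286) (nat_lit 532) (nat_lit 41942212578) (nat_lit 33) (nat_lit 5) (nat_lit 39) (nat_lit 5) (nat_lit 40) (nat_lit 5) (nat_lit 288) (nat_lit 280) (nat_lit 152)) (XT.lf (nat_lit 0) (nat_lit 90177456256) (nat_lit 456) (nat_lit 5512891788) (nat_lit 532) (nat_lit 34250747122) (nat_lit 33) (nat_lit 5) (nat_lit 39) (nat_lit 5) (nat_lit 40) (nat_lit 5) (nat_lit 289) (nat_lit 280) (nat_lit 151)))) (XT.nd (nat_lit 156) (nat_lit 228) (nat_lit 0) (XT.nd (nat_lit 78) (nat_lit 0) (nat_lit 0) (XT.lf (nat_lit 0) (nat_lit 19777843301) (nat_lit 228) (nat_lit 91975279434) (nat_lit 304) (nat_lit 24240181485) (nat_lit 30) (nat_lit 5) (nat_lit 33) (nat_lit 5) (nat_lit 34) (nat_lit 5) (nat_lit 290) (nat_lit 280) (nat_lit 150)) (XT.lf (nat_lit 0) (nat_lit 86192890354) (nat_lit 228) (nat_lit 44134408558)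 (nat_lit 304) (nat_lit 12104282667) (nat_lit 30) (nat_lit 5) (nat_lit 33) (nat_lit 5) (nat_lit 34) (nat_lit 5) (nat_lit 291) (nat_lit 280) (nat_lit 149))) (XT.nd (nat_lit 78) (nat_lit 0) (nat_lit 0) (XT.lf (nat_lit 0) (nat_lit 1354857128) (nat_lit 228) (nat_lit 140593278609) (nat_lit 76) (nat_lit 7402656864) (nat_lit 27) (nat_lit 5) (nat_lit 30) (nat_lit 5) (nat_lit 28) (nat_lit 5) (nat_lit 292) (nat_lit 280) (nat_lit 148)) (XT.lf (nat_lit 0) (nat_lit 17960375518) (nat_lit 228) (nat_lit 76049876863) (nat_lit 76) (nat_lit 62570250463) (nat_lit 27) (nat_lit 5) (nat_lit 30) (nat_lit 5) (nat_lit 28) (nat_lit 5) (nat_lit 293) (nat_lit 280) (nat_lit 147)))))) (XT.nd (nat_lit 468) (nat_lit 456) (nat_lit 0) (XT.nd (nat_lit 234) (nat_lit 304) (nat_lit 0) (XT.nd (nat_lit 78) (nat_lit 228) (nat_lit 0) (XT.lf (nat_lit 0) (nat_lit 35894002004) (nat_lit 228) (nat_lit 6343396348) (nat_lit 76) (nat_lit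 122151219657) (nat_lit 27) (nat_lit 5) (nat_lit 30) (nat_lit 5) (nat_lit 28) (nat_lit 5) (nat_lit 294) (nat_lit 280) (nat_lit 146)) (XT.nd (nat_lit 78) (nat_lit 0) (nat_lit 0) (XT.lf (nat_lit 0) (nat_lit 57381577167) (nat_lit 304) (nat_lit 100486598199) (nat_lit 76) (nat_lit 14783667658) (nat_lit 24) (nat_lit 5) (nat_lit 28) (nat_lit 5) (nat_lit 25) (nat_lit 5) (nat_lit 295) (nat_lit 280) (nat_lit 145)) (XT.lf (nat_lit 0) (nat_lit 81862882437) (nat_lit 304) (nat_lit 25348877534) (nat_lit 76) (nat_lit 74262389369) (nat_lit 24) (nat_lit 5) (nat_lit 28) (nat_lit 5) (nat_lit 25) (nat_lit 5) (nat_lit 296) (nat_lit 280) (nat_lit 144)))) (XT.nd (nat_lit 78) (nat_lit 152) (nat_lit 0) (XT.lf (nat_lit 0) (nat_lit 58737813819) (nat_lit 152) (nat_lit 50977250243) (nat_lit 228) (nat_lit 81174187478) (nat_lit 22) (nat_lit 5) (nat_lit 24) (nat_lit 5) (nat_lit 25) (nat_lit 5) (nat_lit 297) (nat_lit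 280) (nat_lit 143)) (XT.nd (nat_lit 78) (nat_lit 152) (nat_lit 0) (XT.lf (nat_lit 0) (nat_lit 140740874397) (nat_lit 228) (nat_lit 50262057849) (nat_lit 76) (nat_lit 9978994387) (nat_lit 22) (nat_lit 5) (nat_lit 25) (nat_lit 5) (nat_lit 23) (nat_lit 5) (nat_lit 298) (nat_lit 280) (nat_lit 142)) (XT.lf (nat_lit 0) (nat_lit 38794722388) (nat_lit 152) (nat_lit 137710881396) (nat_lit 228) (nat_lit 35195864585) (nat_lit 20) (nat_lit 5) (nat_lit 22) (nat_lit 5) (nat_lit 23) (nat_lit 5) (nat_lit 299) (nat_lit 280) (nat_lit 141))))) (XT.nd (nat_lit 234) (nat_lit 228) (nat_lit 0) (XT.nd (nat_lit 78) (nat_lit 228) (nat_lit 0) (XT.lf (nat_lit 0) (nat_lit 137834166549) (nat_lit 152) (nat_lit 78671364746) (nat_lit 228) (nat_lit 6663121466) (nat_lit 20) (nat_lit 5) (nat_lit 22) (nat_lit 5) (nat_lit 23) (nat_lit 5) (nat_lit 300) (nat_lit 280) (nat_lit 140)) (XT.nd (nat_lit 78) (nat_lit 0) (nat_lit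 0) (XT.lf (nat_lit 0) (nat_lit 9118523206) (nat_lit 152) (nat_lit 14044602632) (nat_lit 228) (nat_lit 212326091669) (nat_lit 17) (nat_lit 5) (nat_lit 19) (nat_lit 5) (nat_lit 20) (nat_lit 5) (nat_lit 301) (nat_lit 280) (nat_lit 139)) (XT.lf (nat_lit 0) (nat_lit 58749917910) (nat_lit 228) (nat_lit 134202787520) (nat_lit 76) (nat_lit 55530123143) (nat_lit 17) (nat_lit 5) (nat_lit 20) (nat_lit 5) (nat_lit 18) (nat_lit 5) (nat_lit 302) (nat_lit 280) (nat_lit 138)))) (XT.nd (nat_lit 156) (nat_lit 76) (nat_lit 0) (XT.nd (nat_lit 78) (nat_lit 152) (nat_lit 0) (XT.lf (nat_lit 0) (nat_lit 97548248099) (nat_lit 228) (nat_lit 35026541442) (nat_lit 76) (nat_lit 129911972063) (nat_lit 17) (nat_lit 5) (nat_lit 20) (nat_lit 5) (nat_lit 18) (nat_lit 5) (nat_lit 303) (nat_lit 280) (nat_lit 137)) (XT.lf (nat_lit 0) (nat_lit 75879318893) (nat_lit 152) (nat_lit 65395839955) (nat_lit 228) (nat_lit 136189873912)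 (nat_lit 15) (nat_lit 5) (nat_lit 17) (nat_lit 5) (nat_lit 18) (nat_lit 5) (nat_lit 304) (nat_lit 280) (nat_lit 136))) (XT.nd (nat_lit 78) (nat_lit 76) (nat_lit 0) (XT.lf (nat_lit 0) (nat_lit 189654741195) (nat_lit 228) (nat_lit 96112605247) (nat_lit 76) (nat_lit 7781858236) (nat_lit 15) (nat_lit 5) (nat_lit 18) (nat_lit 5) (nat_lit 16) (nat_lit 4) (nat_lit 305) (nat_lit 280) (nat_lit 135)) (XT.lf (nat_lit 0) (nat_lit 16947268826) (nat_lit 76) (nat_lit 227063429879) (nat_lit 152) (nat_lit 66740931483) (nat_lit 14) (nat_lit 5) (nat_lit 15) (nat_lit 5) (nat_lit 16) (nat_lit 4) (nat_lit 306) (nat_lit 280) (nat_lit 134))))))))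
noncomputable def xc111 : XT := (XT.nd (nat_lit 35490) (nat_lit 0) (nat_lit 836) (XT.nd (nat_lit 1014) (nat_lit 228) (nat_lit 0) (XT.nd (nat_lit 468) (nat_lit 228) (nat_lit 0) (XT.nd (nat_lit 234) (nat_lit 76) (nat_lit 0) (XT.nd (nat_lit 78) (nat_lit 228) (nat_lit 0) (XT.lf (nat_lit 0) (nat_lit 144517687444) (nat_lit 76) (nat_lit 160825173678) (nat_lit 152) (nat_lit 23777170839) (nat_lit 14) (nat_lit 5) (nat_lit 15) (nat_lit 5) (nat_lit 16) (nat_lit 4) (nat_lit 307) (nat_lit 280) (nat_lit 133)) (XT.nd (nat_lit 78) (nat_lit 152) (nat_lit 0) (XT.lf (nat_lit 0) (nat_lit 21491808984) (nat_lit 152) (nat_lit 67208510667) (nat_lit 76) (nat_lit 260214070862) (nat_lit 13) (nat_lit 5) (nat_lit 15) (nat_lit 5) (nat_lit 14) (nat_lit 5) (nat_lit 308) (nat_lit 280) (nat_lit 132)) (XT.lf (nat_lit 0) (nat_lit 62063692327) (nat_lit 152) (nat_lit 8526521642) (nat_lit 228) (nat_lit 299533277730) (nat_lit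 11) (nat_lit 5) (nat_lit 13) (nat_lit 5) (nat_lit 14) (nat_lit 5) (nat_lit 309) (nat_lit 280) (nat_lit 131)))) (XT.nd (nat_lit 78) (nat_lit 76) (nat_lit 0) (XT.lf (nat_lit 0) (nat_lit 127379055747) (nat_lit 228) (nat_lit 189307766512) (nat_lit 76) (nat_lit 76041493927) (nat_lit 11) (nat_lit 5) (nat_lit 14) (nat_lit 5) (nat_lit 12) (nat_lit 4) (nat_lit 310) (nat_lit 280) (nat_lit 130)) (XT.nd (nat_lit 78) (nat_lit 76) (nat_lit 0) (XT.lf (nat_lit 0) (nat_lit 188932344706) (nat_lit 228) (nat_lit 61277251622) (nat_lit 76) (nat_lit 166914223449) (nat_lit 11) (nat_lit 5) (nat_lit 14) (nat_lit 5) (nat_lit 12) (nat_lit 4) (nat_lit 311) (nat_lit 280) (nat_lit 129)) (XT.lf (nat_lit 0) (nat_lit 81049954684) (nat_lit 76) (nat_lit 176309076700) (nat_lit 152) (nat_lit 185956001809) (nat_lit 10) (nat_lit 5) (nat_lit 11) (nat_lit 5) (nat_lit 12) (nat_lit 4) (nat_lit 312) (nat_lit 280) (nat_lit 128)))))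 (XT.nd (nat_lit 234) (nat_lit 152) (nat_lit 0) (XT.nd (nat_lit 78) (nat_lit 76) (nat_lit 0) (XT.lf (nat_lit 0) (nat_lit 238248037310) (nat_lit 76) (nat_lit 94687129766) (nat_lit 152) (nat_lit 138532351764) (nat_lit 10) (nat_lit 5) (nat_lit 11) (nat_lit 5) (nat_lit 12) (nat_lit 4) (nat_lit 313) (nat_lit 280) (nat_lit 127)) (XT.nd (nat_lit 78) (nat_lit 76) (nat_lit 0) (XT.lf (nat_lit 0) (nat_lit 408021788970) (nat_lit 76) (nat_lit 6535498569) (nat_lit 152) (nat_lit 87314924549) (nat_lit 10) (nat_lit 5) (nat_lit 11) (nat_lit 5) (nat_lit 12) (nat_lit 4) (nat_lit 314) (nat_lit 280) (nat_lit 126)) (XT.lf (nat_lit 0) (nat_lit 57407258757) (nat_lit 76) (nat_lit 448814938878) (nat_lit 76) (nat_lit 28206041805) (nat_lit 9) (nat_lit 4) (nat_lit 10) (nat_lit 5) (nat_lit 10) (nat_lit 4) (nat_lit 315) (nat_lit 280) (nat_lit 125)))) (XT.nd (nat_lit 156) (nat_lit 76) (nat_lit 0) (XT.nd (nat_lit 78)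 (nat_lit 0) (nat_lit 0) (XT.lf (nat_lit 0) (nat_lit 36651458292) (nat_lit 152) (nat_lit 344374069349) (nat_lit 76) (nat_lit 188270479075) (nat_lit 8) (nat_lit 5) (nat_lit 10) (nat_lit 5) (nat_lit 9) (nat_lit 4) (nat_lit 316) (nat_lit 280) (nat_lit 124)) (XT.lf (nat_lit 0) (nat_lit 105173607710) (nat_lit 152) (nat_lit 201848188860) (nat_lit 76) (nat_lit 299872796383) (nat_lit 8) (nat_lit 5) (nat_lit 10) (nat_lit 5) (nat_lit 9) (nat_lit 4) (nat_lit 317) (nat_lit 280) (nat_lit 123))) (XT.nd (nat_lit 78) (nat_lit 76) (nat_lit 0) (XT.lf (nat_lit 0) (nat_lit 179177444076) (nat_lit 152) (nat_lit 47920385423) (nat_lit 76) (nat_lit 420403243570) (nat_lit 8) (nat_lit 5) (nat_lit 10) (nat_lit 5) (nat_lit 9) (nat_lit 4) (nat_lit 318) (nat_lit 280) (nat_lit 122)) (XT.lf (nat_lit 0) (nat_lit 124552106529) (nat_lit 76) (nat_lit 137544883271) (nat_lit 152) (nat_lit 429019449765) (nat_lit 7) (nat_lit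 5) (nat_lit 8) (nat_lit 5) (nat_lit 9) (nat_lit 4) (nat_lit 319) (nat_lit 280) (nat_lit 121)))))) (XT.nd (nat_lit 468) (nat_lit 152) (nat_lit 0) (XT.nd (nat_lit 234) (nat_lit 76) (nat_lit 0) (XT.nd (nat_lit 78) (nat_lit 0) (nat_lit 0) (XT.lf (nat_lit 0) (nat_lit 313547539511) (nat_lit 76) (nat_lit 39412711851) (nat_lit 152) (nat_lit 385155971998) (nat_lit 7) (nat_lit 5) (nat_lit 8) (nat_lit 5) (nat_lit 9) (nat_lit 4) (nat_lit 320) (nat_lit 280) (nat_lit 120)) (XT.nd (nat_lit 78) (nat_lit 0) (nat_lit 0) (XT.lf (nat_lit 0) (nat_lit 452693513036) (nat_lit 152) (nat_lit 272814521385) (nat_lit 0) (nat_lit 63239880443) (nat_lit 7) (nat_lit 5) (nat_lit 9) (nat_lit 4) (nat_lit 7) (nat_lit 4) (nat_lit 321) (nat_lit 280) (nat_lit 119)) (XT.lf (nat_lit 0) (nat_lit 561429076043) (nat_lit 152) (nat_lit 109943851018) (nat_lit 0) (nat_lit 171975323528) (nat_lit 7) (nat_lit 5) (nat_lit 9) (nat_lit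 4) (nat_lit 7) (nat_lit 4) (nat_lit 322) (nat_lit 280) (nat_lit 118)))) (XT.nd (nat_lit 78) (nat_lit 0) (nat_lit 0) (XT.lf (nat_lit 0) (nat_lit 69429508662) (nat_lit 76) (nat_lit 611103695298) (nat_lit 76) (nat_lit 221649831744) (nat_lit 6) (nat_lit 4) (nat_lit 7) (nat_lit 5) (nat_lit 7) (nat_lit 4) (nat_lit 323) (nat_lit 280) (nat_lit 117)) (XT.nd (nat_lit 78) (nat_lit 0) (nat_lit 0) (XT.lf (nat_lit 0) (nat_lit 269405234586) (nat_lit 76) (nat_lit 542766427753) (nat_lit 76) (nat_lit 153312461384) (nat_lit 6) (nat_lit 4) (nat_lit 7) (nat_lit 5) (nat_lit 7) (nat_lit 4) (nat_lit 324) (nat_lit 280) (nat_lit 116)) (XT.lf (nat_lit 0) (nat_lit 485378919734) (nat_lit 76) (nat_lit 468962222563) (nat_lit 76) (nat_lit 79508160997) (nat_lit 6) (nat_lit 4) (nat_lit 7) (nat_lit 5) (nat_lit 7) (nat_lit 4) (nat_lit 325) (nat_lit 280) (nat_lit 115))))) (XT.nd (nat_lit 234) (nat_lit 76) (nat_lit 0)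 (XT.nd (nat_lit 78) (nat_lit 0) (nat_lit 0) (XT.lf (nat_lit 0) (nat_lit 190402002) (nat_lit 152) (nat_lit 389058113548) (nat_lit 76) (nat_lit 718434800236) (nat_lit 5) (nat_lit 5) (nat_lit 7) (nat_lit 5) (nat_lit 6) (nat_lit 4) (nat_lit 326) (nat_lit 280) (nat_lit 114)) (XT.nd (nat_lit 78) (nat_lit 0) (nat_lit 0) (XT.lf (nat_lit 0) (nat_lit 81969295659) (nat_lit 152) (nat_lit 218958096358) (nat_lit 76) (nat_lit 886331449462) (nat_lit 5) (nat_lit 5) (nat_lit 7) (nat_lit 5) (nat_lit 6) (nat_lit 4) (nat_lit 327) (nat_lit 280) (nat_lit 113)) (XT.lf (nat_lit 0) (nat_lit 170290455862) (nat_lit 152) (nat_lit 35250158707) (nat_lit 76) (nat_lit 1067659798331) (nat_lit 5) (nat_lit 5) (nat_lit 7) (nat_lit 5) (nat_lit 6) (nat_lit 4) (nat_lit 328) (nat_lit 280) (nat_lit 112)))) (XT.nd (nat_lit 156) (nat_lit 0) (nat_lit 0) (XT.nd (nat_lit 78) (nat_lit 0) (nat_lit 0) (XT.lf (nat_lit 0) (nat_lit 171745757394)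 (nat_lit 76) (nat_lit 98061999465) (nat_lit 152) (nat_lit 1095879117408) (nat_lit 4) (nat_lit 5) (nat_lit 5) (nat_lit 5) (nat_lit 6) (nat_lit 4) (nat_lit 329) (nat_lit 280) (nat_lit 111)) (XT.lf (nat_lit 0) (nat_lit 378708495375) (nat_lit 152) (nat_lit 1068647462088) (nat_lit 0) (nat_lit 18102530872) (nat_lit 4) (nat_lit 5) (nat_lit 6) (nat_lit 4) (nat_lit 4) (nat_lit 4) (nat_lit 330) (nat_lit 280) (nat_lit 110))) (XT.nd (nat_lit 78) (nat_lit 0) (nat_lit 0) (XT.lf (nat_lit 0) (nat_lit 498868319859) (nat_lit 152) (nat_lit 935877449771) (nat_lit 0) (nat_lit 138262299808) (nat_lit 4) (nat_lit 5) (nat_lit 6) (nat_lit 4) (nat_lit 4) (nat_lit 4) (nat_lit 331) (nat_lit 280) (nat_lit 109)) (XT.lf (nat_lit 0) (nat_lit 628640895083) (nat_lit 152) (nat_lit 792485901220) (nat_lit 0) (nat_lit 268034823600) (nat_lit 4) (nat_lit 5) (nat_lit 6) (nat_lit 4) (nat_lit 4) (nat_lit 4) (nat_lit 332) (nat_lit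 280) (nat_lit 108))))))) (XT.nd (nat_lit 1014) (nat_lit 912) (nat_lit 0) (XT.nd (nat_lit 468) (nat_lit 684) (nat_lit 0) (XT.nd (nat_lit 234) (nat_lit 0) (nat_lit 76) (XT.nd (nat_lit 78) (nat_lit 0) (nat_lit 0) (XT.lf (nat_lit 0) (nat_lit 17703110125) (nat_lit 532) (nat_lit 15215921309) (nat_lit 532) (nat_lit 15215921309) (nat_lit 36) (nat_lit 3) (nat_lit 43) (nat_lit 3) (nat_lit 43) (nat_lit 5) (nat_lit 281) (nat_lit 281) (nat_lit 158)) (XT.nd (nat_lit 78) (nat_lit 0) (nat_lit 76) (XT.lf (nat_lit 76) (nat_lit 11285726418) (nat_lit 0) (nat_lit 25814458424) (nat_lit 532) (nat_lit 62998266287) (nat_lit 37) (nat_lit 5) (nat_lit 36) (nat_lit 3) (nat_lit 43) (nat_lit 5) (nat_lit 282) (nat_lit 281) (nat_lit 157)) (XT.lf (nat_lit 0) (nat_lit 40201443235) (nat_lit 456) (nat_lit 46536097294) (nat_lit 532) (nat_lit 17394001095) (nat_lit 37) (nat_lit 5) (nat_lit 43) (nat_lit 5) (nat_lit 44) (nat_lit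 5) (nat_lit 283) (nat_lit 281) (nat_lit 156)))) (XT.nd (nat_lit 78) (nat_lit 0) (nat_lit 0) (XT.lf (nat_lit 0) (nat_lit 44220722870) (nat_lit 456) (nat_lit 1548234717) (nat_lit 532) (nat_lit 62664731214) (nat_lit 37) (nat_lit 5) (nat_lit 43) (nat_lit 5) (nat_lit 44) (nat_lit 5) (nat_lit 284) (nat_lit 281) (nat_lit 155)) (XT.nd (nat_lit 78) (nat_lit 0) (nat_lit 76) (XT.lf (nat_lit 76) (nat_lit 49515249421) (nat_lit 0) (nat_lit 236596871) (nat_lit 532) (nat_lit 63232940202) (nat_lit 38) (nat_lit 5) (nat_lit 37) (nat_lit 5) (nat_lit 44) (nat_lit 5) (nat_lit 285) (nat_lit 281) (nat_lit 154)) (XT.lf (nat_lit 0) (nat_lit 56945353088) (nat_lit 456) (nat_lit 14323190659) (nat_lit 532) (nat_lit 46533839422) (nat_lit 38) (nat_lit 5) (nat_lit 44) (nat_lit 5) (nat_lit 45) (nat_lit 5) (nat_lit 286) (nat_lit 281) (nat_lit 153))))) (XT.nd (nat_lit 234) (nat_lit 456) (nat_lit 0) (XT.nd (nat_lit 78)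 (nat_lit 380) (nat_lit 0) (XT.lf (nat_lit 76) (nat_lit 40788768152) (nat_lit 0) (nat_lit 24912219930) (nat_lit 532) (nat_lit 57225470135) (nat_lit 39) (nat_lit 5) (nat_lit 38) (nat_lit 5) (nat_lit 45) (nat_lit 5) (nat_lit 287) (nat_lit 281) (nat_lit 152)) (XT.nd (nat_lit 78) (nat_lit 456) (nat_lit 0) (XT.lf (nat_lit 0) (nat_lit 76163347610) (nat_lit 456) (nat_lit 27920365824) (nat_lit 76) (nat_lit 24296246204) (nat_lit 39) (nat_lit 5) (nat_lit 45) (nat_lit 5) (nat_lit 40) (nat_lit 5) (nat_lit 288) (nat_lit 281) (nat_lit 151)) (XT.lf (nat_lit 0) (nat_lit 31565960891) (nat_lit 456) (nat_lit 57302559870) (nat_lit 532) (nat_lit 45288756523) (nat_lit 33) (nat_lit 5) (nat_lit 39) (nat_lit 5) (nat_lit 40) (nat_lit 5) (nat_lit 289) (nat_lit 281) (nat_lit 150)))) (XT.nd (nat_lit 156) (nat_lit 228) (nat_lit 0) (XT.nd (nat_lit 78) (nat_lit 228) (nat_lit 0) (XT.lf (nat_lit 0) (nat_lit 97398689031)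 (nat_lit 456) (nat_lit 5954424651) (nat_lit 532) (nat_lit 36982628130) (nat_lit 33) (nat_lit 5) (nat_lit 39) (nat_lit 5) (nat_lit 40) (nat_lit 5) (nat_lit 290) (nat_lit 281) (nat_lit 149)) (XT.lf (nat_lit 0) (nat_lit 21367565402) (nat_lit 228) (nat_lit 99332955669) (nat_lit 304) (nat_lit 26171640472) (nat_lit 30) (nat_lit 5) (nat_lit 33) (nat_lit 5) (nat_lit 34) (nat_lit 5) (nat_lit 291) (nat_lit 281) (nat_lit 148))) (XT.nd (nat_lit 78) (nat_lit 228) (nat_lit 0) (XT.lf (nat_lit 0) (nat_lit 93095261061) (nat_lit 228) (nat_lit 47664840761) (nat_lit 304) (nat_lit 13065444233) (nat_lit 30) (nat_lit 5) (nat_lit 33) (nat_lit 5) (nat_lit 34) (nat_lit 5) (nat_lit 292) (nat_lit 281) (nat_lit 147)) (XT.lf (nat_lit 0) (nat_lit 1469749749) (nat_lit 228) (nat_lit 151833066412) (nat_lit 76) (nat_lit 7995491634) (nat_lit 27) (nat_lit 5) (nat_lit 30) (nat_lit 5) (nat_lit 28) (nat_lit 5) (nat_lit 293)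 (nat_lit 281) (nat_lit 146)))))) (XT.nd (nat_lit 468) (nat_lit 532) (nat_lit 0) (XT.nd (nat_lit 234) (nat_lit 152) (nat_lit 0) (XT.nd (nat_lit 78) (nat_lit 228) (nat_lit 0) (XT.lf (nat_lit 0) (nat_lit 19403227829) (nat_lit 228) (nat_lit 82126761008) (nat_lit 76) (nat_lit 67576446631) (nat_lit 27) (nat_lit 5) (nat_lit 30) (nat_lit 5) (nat_lit 28) (nat_lit 5) (nat_lit 294) (nat_lit 281) (nat_lit 145)) (XT.nd (nat_lit 78) (nat_lit 228) (nat_lit 0) (XT.lf (nat_lit 0) (nat_lit 38771098340) (nat_lit 228) (nat_lit 6844288422) (nat_lit 76) (nat_lit 131923850684) (nat_lit 27) (nat_lit 5) (nat_lit 30) (nat_lit 5) (nat_lit 28) (nat_lit 5) (nat_lit 295) (nat_lit 281) (nat_lit 144)) (XT.lf (nat_lit 0) (nat_lit 61977447052) (nat_lit 304) (nat_lit 108518691817) (nat_lit 76) (nat_lit 15967401961) (nat_lit 24) (nat_lit 5) (nat_lit 28) (nat_lit 5) (nat_lit 25) (nat_lit 5) (nat_lit 296) (nat_lit 281)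 (nat_lit 143)))) (XT.nd (nat_lit 78) (nat_lit 152) (nat_lit 0) (XT.lf (nat_lit 0) (nat_lit 88416860913) (nat_lit 304) (nat_lit 27370459738) (nat_lit 76) (nat_lit 80204344305) (nat_lit 24) (nat_lit 5) (nat_lit 28) (nat_lit 5) (nat_lit 25) (nat_lit 5) (nat_lit 297) (nat_lit 281) (nat_lit 142)) (XT.nd (nat_lit 78) (nat_lit 0) (nat_lit 0) (XT.lf (nat_lit 0) (nat_lit 63443006720) (nat_lit 152) (nat_lit 55053992173) (nat_lit 228) (nat_lit 87662995412) (nat_lit 22) (nat_lit 5) (nat_lit 24) (nat_lit 5) (nat_lit 25) (nat_lit 5) (nat_lit 298) (nat_lit 281) (nat_lit 141)) (XT.lf (nat_lit 0) (nat_lit 152004555731) (nat_lit 228) (nat_lit 54276975656) (nat_lit 76) (nat_lit 10778578892) (nat_lit 22) (nat_lit 5) (nat_lit 25) (nat_lit 5) (nat_lit 23) (nat_lit 5) (nat_lit 299) (nat_lit 281) (nat_lit 140))))) (XT.nd (nat_lit 234) (nat_lit 152) (nat_lit 0) (XT.nd (nat_lit 78) (nat_lit 228) (nat_lit 0)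 (XT.lf (nat_lit 0) (nat_lit 41904193916) (nat_lit 152) (nat_lit 148726084528) (nat_lit 228) (nat_lit 38006953012) (nat_lit 20) (nat_lit 5) (nat_lit 22) (nat_lit 5) (nat_lit 23) (nat_lit 5) (nat_lit 300) (nat_lit 281) (nat_lit 139)) (XT.nd (nat_lit 78) (nat_lit 228) (nat_lit 0) (XT.lf (nat_lit 0) (nat_lit 148866357037) (nat_lit 152) (nat_lit 84963530056) (nat_lit 228) (nat_lit 7191929758) (nat_lit 20) (nat_lit 5) (nat_lit 22) (nat_lit 5) (nat_lit 23) (nat_lit 5) (nat_lit 301) (nat_lit 281) (nat_lit 138)) (XT.lf (nat_lit 0) (nat_lit 9853544471) (nat_lit 152) (nat_lit 15166495446) (nat_lit 228) (nat_lit 229307992952) (nat_lit 17) (nat_lit 5) (nat_lit 19) (nat_lit 5) (nat_lit 20) (nat_lit 5) (nat_lit 302) (nat_lit 281) (nat_lit 137)))) (XT.nd (nat_lit 156) (nat_lit 152) (nat_lit 0) (XT.nd (nat_lit 78) (nat_lit 0) (nat_lit 0) (XT.lf (nat_lit 0) (nat_lit 63453526440) (nat_lit 228) (nat_lit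 144933620564) (nat_lit 76) (nat_lit 59974006685) (nat_lit 17) (nat_lit 5) (nat_lit 20) (nat_lit 5) (nat_lit 18) (nat_lit 5) (nat_lit 303) (nat_lit 281) (nat_lit 136)) (XT.lf (nat_lit 0) (nat_lit 105355455259) (nat_lit 228) (nat_lit 37823674056) (nat_lit 76) (nat_lit 140306294357) (nat_lit 17) (nat_lit 5) (nat_lit 20) (nat_lit 5) (nat_lit 18) (nat_lit 5) (nat_lit 304) (nat_lit 281) (nat_lit 135))) (XT.nd (nat_lit 78) (nat_lit 0) (nat_lit 0) (XT.lf (nat_lit 0) (nat_lit 81954528759) (nat_lit 152) (nat_lit 70625859149) (nat_lit 228) (nat_lit 147081579911) (nat_lit 15) (nat_lit 5) (nat_lit 17) (nat_lit 5) (nat_lit 18) (nat_lit 5) (nat_lit 305) (nat_lit 281) (nat_lit 134)) (XT.lf (nat_lit 0) (nat_lit 204830135292) (nat_lit 228) (nat_lit 103796898590) (nat_lit 76) (nat_lit 8405856491) (nat_lit 15) (nat_lit 5) (nat_lit 18) (nat_lit 5) (nat_lit 16) (nat_lit 4) (nat_lit 306) (nat_lit 281) (nat_lit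 133))))))))
noncomputable def xc112 : XT := (XT.nd (nat_lit 1950) (nat_lit 0) (nat_lit 0) (XT.nd (nat_lit 936) (nat_lit 304) (nat_lit 0) (XT.nd (nat_lit 468) (nat_lit 228) (nat_lit 0) (XT.nd (nat_lit 234) (nat_lit 152) (nat_lit 0) (XT.nd (nat_lit 78) (nat_lit 76) (nat_lit 0) (XT.lf (nat_lit 0) (nat_lit 18307646040) (nat_lit 76) (nat_lit 245226810571) (nat_lit 152) (nat_lit 72077063039) (nat_lit 14) (nat_lit 5) (nat_lit 15) (nat_lit 5) (nat_lit 16) (nat_lit 4) (nat_lit 307) (nat_lit 281) (nat_lit 132)) (XT.nd (nat_lit 78) (nat_lit 76) (nat_lit 0) (XT.lf (nat_lit 0) (nat_lit 156083357725) (nat_lit 76) (nat_lit 173689619334) (nat_lit 152) (nat_lit 25676434355) (nat_lit 14) (nat_lit 5) (nat_lit 15) (nat_lit 5) (nat_lit 16) (nat_lit 4) (nat_lit 308) (nat_lit 281) (nat_lit 131)) (XT.lf (nat_lit 0) (nat_lit 23213713492) (nat_lit 152) (nat_lit 72581109668) (nat_lit 76) (nat_lit 281032506830)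 (nat_lit 13) (nat_lit 5) (nat_lit 15) (nat_lit 5) (nat_lit 14) (nat_lit 5) (nat_lit 309) (nat_lit 281) (nat_lit 130)))) (XT.nd (nat_lit 78) (nat_lit 0) (nat_lit 0) (XT.lf (nat_lit 0) (nat_lit 67032766227) (nat_lit 152) (nat_lit 9207130718) (nat_lit 228) (nat_lit 323493270358) (nat_lit 11) (nat_lit 5) (nat_lit 13) (nat_lit 5) (nat_lit 14) (nat_lit 5) (nat_lit 310) (nat_lit 281) (nat_lit 129)) (XT.nd (nat_lit 78) (nat_lit 0) (nat_lit 0) (XT.lf (nat_lit 0) (nat_lit 137571697095) (nat_lit 228) (nat_lit 204448549069) (nat_lit 76) (nat_lit 82126143983) (nat_lit 11) (nat_lit 5) (nat_lit 14) (nat_lit 5) (nat_lit 12) (nat_lit 4) (nat_lit 311) (nat_lit 281) (nat_lit 128)) (XT.lf (nat_lit 0) (nat_lit 204049077548) (nat_lit 228) (nat_lit 66175877340) (nat_lit 76) (nat_lit 180268593309) (nat_lit 11) (nat_lit 5) (nat_lit 14) (nat_lit 5) (nat_lit 12) (nat_lit 4) (nat_lit 312) (nat_lit 281) (nat_lit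 127))))) (XT.nd (nat_lit 234) (nat_lit 152) (nat_lit 0) (XT.nd (nat_lit 78) (nat_lit 0) (nat_lit 0) (XT.lf (nat_lit 0) (nat_lit 87537415485) (nat_lit 76) (nat_lit 190412408086) (nat_lit 152) (nat_lit 200830241573) (nat_lit 10) (nat_lit 5) (nat_lit 11) (nat_lit 5) (nat_lit 12) (nat_lit 4) (nat_lit 313) (nat_lit 281) (nat_lit 126)) (XT.nd (nat_lit 78) (nat_lit 0) (nat_lit 0) (XT.lf (nat_lit 0) (nat_lit 257311088097) (nat_lit 76) (nat_lit 102260808713) (nat_lit 152) (nat_lit 149612865478) (nat_lit 10) (nat_lit 5) (nat_lit 11) (nat_lit 5) (nat_lit 12) (nat_lit 4) (nat_lit 314) (nat_lit 281) (nat_lit 125)) (XT.lf (nat_lit 0) (nat_lit 440666502275) (nat_lit 76) (nat_lit 7057142682) (nat_lit 152) (nat_lit 94298197747) (nat_lit 10) (nat_lit 5) (nat_lit 11) (nat_lit 5) (nat_lit 12) (nat_lit 4) (nat_lit 315) (nat_lit 281) (nat_lit 124)))) (XT.nd (nat_lit 78) (nat_lit 76) (nat_lit 0) (XT.lf (nat_lit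 0) (nat_lit 62002849067) (nat_lit 76) (nat_lit 484718866365) (nat_lit 76) (nat_lit 30460639733) (nat_lit 9) (nat_lit 4) (nat_lit 10) (nat_lit 5) (nat_lit 10) (nat_lit 4) (nat_lit 316) (nat_lit 281) (nat_lit 123)) (XT.nd (nat_lit 78) (nat_lit 0) (nat_lit 0) (XT.lf (nat_lit 0) (nat_lit 39585233382) (nat_lit 152) (nat_lit 371921117401) (nat_lit 76) (nat_lit 203333200305) (nat_lit 8) (nat_lit 5) (nat_lit 10) (nat_lit 5) (nat_lit 9) (nat_lit 4) (nat_lit 317) (nat_lit 281) (nat_lit 122)) (XT.lf (nat_lit 0) (nat_lit 113589031907) (nat_lit 152) (nat_lit 217993379621) (nat_lit 76) (nat_lit 323863622783) (nat_lit 8) (nat_lit 5) (nat_lit 10) (nat_lit 5) (nat_lit 9) (nat_lit 4) (nat_lit 318) (nat_lit 281) (nat_lit 121)))))) (XT.nd (nat_lit 468) (nat_lit 152) (nat_lit 0) (XT.nd (nat_lit 234) (nat_lit 76) (nat_lit 0) (XT.nd (nat_lit 78) (nat_lit 76) (nat_lit 0) (XT.lf (nat_lit 0) (nat_lit 193513061436)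 (nat_lit 152) (nat_lit 51751549268) (nat_lit 76) (nat_lit 454036431471) (nat_lit 8) (nat_lit 5) (nat_lit 10) (nat_lit 5) (nat_lit 9) (nat_lit 4) (nat_lit 319) (nat_lit 281) (nat_lit 120)) (XT.nd (nat_lit 78) (nat_lit 0) (nat_lit 0) (XT.lf (nat_lit 0) (nat_lit 134518679585) (nat_lit 76) (nat_lit 148547443741) (nat_lit 152) (nat_lit 463339518686) (nat_lit 7) (nat_lit 5) (nat_lit 8) (nat_lit 5) (nat_lit 9) (nat_lit 4) (nat_lit 320) (nat_lit 281) (nat_lit 119)) (XT.lf (nat_lit 0) (nat_lit 338633569091) (nat_lit 76) (nat_lit 42564774918) (nat_lit 152) (nat_lit 415967072850) (nat_lit 7) (nat_lit 5) (nat_lit 8) (nat_lit 5) (nat_lit 9) (nat_lit 4) (nat_lit 321) (nat_lit 281) (nat_lit 118)))) (XT.nd (nat_lit 78) (nat_lit 76) (nat_lit 0) (XT.lf (nat_lit 0) (nat_lit 488910193597) (nat_lit 152) (nat_lit 294637546199) (nat_lit 0) (nat_lit 68299909920) (nat_lit 7) (nat_lit 5) (nat_lit 9) (nat_lit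 4) (nat_lit 7) (nat_lit 4) (nat_lit 322) (nat_lit 281) (nat_lit 117)) (XT.nd (nat_lit 78) (nat_lit 76) (nat_lit 0) (XT.lf (nat_lit 0) (nat_lit 606344512792) (nat_lit 152) (nat_lit 118737380491) (nat_lit 0) (nat_lit 185734126300) (nat_lit 7) (nat_lit 5) (nat_lit 9) (nat_lit 4) (nat_lit 7) (nat_lit 4) (nat_lit 323) (nat_lit 281) (nat_lit 116)) (XT.lf (nat_lit 0) (nat_lit 74985797872) (nat_lit 76) (nat_lit 659991137180) (nat_lit 76) (nat_lit 239380655490) (nat_lit 6) (nat_lit 4) (nat_lit 7) (nat_lit 5) (nat_lit 7) (nat_lit 4) (nat_lit 324) (nat_lit 281) (nat_lit 115))))) (XT.nd (nat_lit 234) (nat_lit 76) (nat_lit 0) (XT.nd (nat_lit 78) (nat_lit 76) (nat_lit 0) (XT.lf (nat_lit 0) (nat_lit 290959439016) (nat_lit 76) (nat_lit 586186951471) (nat_lit 76) (nat_lit 165576381635) (nat_lit 6) (nat_lit 4) (nat_lit 7) (nat_lit 5) (nat_lit 7) (nat_lit 4) (nat_lit 325) (nat_lit 281) (nat_lit 114))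 (XT.nd (nat_lit 78) (nat_lit 76) (nat_lit 0) (XT.lf (nat_lit 0) (nat_lit 524210886705) (nat_lit 76) (nat_lit 506478468422) (nat_lit 76) (nat_lit 85867816969) (nat_lit 6) (nat_lit 4) (nat_lit 7) (nat_lit 5) (nat_lit 7) (nat_lit 4) (nat_lit 326) (nat_lit 281) (nat_lit 113)) (XT.lf (nat_lit 0) (nat_lit 206511049) (nat_lit 152) (nat_lit 420181184040) (nat_lit 76) (nat_lit 775910214311) (nat_lit 5) (nat_lit 5) (nat_lit 7) (nat_lit 5) (nat_lit 6) (nat_lit 4) (nat_lit 327) (nat_lit 281) (nat_lit 112)))) (XT.nd (nat_lit 156) (nat_lit 76) (nat_lit 0) (XT.nd (nat_lit 78) (nat_lit 0) (nat_lit 0) (XT.lf (nat_lit 0) (nat_lit 88527651244) (nat_lit 152) (nat_lit 236473282408) (nat_lit 76) (nat_lit 957238548804) (nat_lit 5) (nat_lit 5) (nat_lit 7) (nat_lit 5) (nat_lit 6) (nat_lit 4) (nat_lit 328) (nat_lit 281) (nat_lit 111)) (XT.lf (nat_lit 0) (nat_lit 183914444120) (nat_lit 152) (nat_lit 38068818016)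 (nat_lit 76) (nat_lit 1153073122369) (nat_lit 5) (nat_lit 5) (nat_lit 7) (nat_lit 5) (nat_lit 6) (nat_lit 4) (nat_lit 329) (nat_lit 281) (nat_lit 110))) (XT.nd (nat_lit 78) (nat_lit 0) (nat_lit 0) (XT.lf (nat_lit 0) (nat_lit 185486737111) (nat_lit 76) (nat_lit 105906368124) (nat_lit 152) (nat_lit 1183548659559) (nat_lit 4) (nat_lit 5) (nat_lit 5) (nat_lit 5) (nat_lit 6) (nat_lit 4) (nat_lit 330) (nat_lit 281) (nat_lit 109)) (XT.lf (nat_lit 0) (nat_lit 409005862086) (nat_lit 152) (nat_lit 1154137995797) (nat_lit 0) (nat_lit 19551253452) (nat_lit 4) (nat_lit 5) (nat_lit 6) (nat_lit 4) (nat_lit 4) (nat_lit 4) (nat_lit 331) (nat_lit 281) (nat_lit 108))))))) (XT.nd (nat_lit 34554) (nat_lit 0) (nat_lit 836) (XT.nd (nat_lit 34008) (nat_lit 0) (nat_lit 1976) (XT.nd (nat_lit 33774) (nat_lit 0) (nat_lit 2508) (XT.nd (nat_lit 33618) (nat_lit 0) (nat_lit 2432) (XT.lf (nat_lit 0) (nat_lit 538778421634)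 (nat_lit 152) (nat_lit 1010746476069) (nat_lit 0) (nat_lit 149323765376) (nat_lit 4) (nat_lit 5) (nat_lit 6) (nat_lit 4) (nat_lit 4) (nat_lit 4) (nat_lit 332) (nat_lit 281) (nat_lit 107)) (XT.nd (nat_lit 78) (nat_lit 0) (nat_lit 0) (XT.lf (nat_lit 0) (nat_lit 19125501360) (nat_lit 532) (nat_lit 16429861847) (nat_lit 532) (nat_lit 16429861847) (nat_lit 36) (nat_lit 3) (nat_lit 43) (nat_lit 3) (nat_lit 43) (nat_lit 5) (nat_lit 282) (nat_lit 282) (nat_lit 156)) (XT.lf (nat_lit 76) (nat_lit 12195082096) (nat_lit 0) (nat_lit 27884648661) (nat_lit 532) (nat_lit 68025613761) (nat_lit 37) (nat_lit 5) (nat_lit 36) (nat_lit 3) (nat_lit 43) (nat_lit 5) (nat_lit 283) (nat_lit 282) (nat_lit 155)))) (XT.nd (nat_lit 78) (nat_lit 0) (nat_lit 0) (XT.lf (nat_lit 0) (nat_lit 43428123574) (nat_lit 456) (nat_lit 50251946815) (nat_lit 532) (nat_lit 18781093624) (nat_lit 37) (nat_lit 5) (nat_lit 43) (nat_lit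 5) (nat_lit 44) (nat_lit 5) (nat_lit 284) (nat_lit 282) (nat_lit 154)) (XT.nd (nat_lit 78) (nat_lit 0) (nat_lit 0) (XT.lf (nat_lit 0) (nat_lit 47768162995) (nat_lit 456) (nat_lit 1665576584) (nat_lit 532) (nat_lit 67673810120) (nat_lit 37) (nat_lit 5) (nat_lit 43) (nat_lit 5) (nat_lit 44) (nat_lit 5) (nat_lit 285) (nat_lit 282) (nat_lit 153)) (XT.lf (nat_lit 76) (nat_lit 53482821300) (nat_lit 0) (nat_lit 258383141) (nat_lit 532) (nat_lit 68281580340) (nat_lit 38) (nat_lit 5) (nat_lit 37) (nat_lit 5) (nat_lit 44) (nat_lit 5) (nat_lit 286) (nat_lit 282) (nat_lit 152))))) (XT.nd (nat_lit 234) (nat_lit 608) (nat_lit 0) (XT.nd (nat_lit 78) (nat_lit 0) (nat_lit 0) (XT.lf (nat_lit 0) (nat_lit 61509445871) (nat_lit 456) (nat_lit 15462374333) (nat_lit 532) (nat_lit 50254032200) (nat_lit 38) (nat_lit 5) (nat_lit 44) (nat_lit 5) (nat_lit 45) (nat_lit 5) (nat_lit 287) (nat_lit 282) (nat_lit 151))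 (XT.nd (nat_lit 78) (nat_lit 0) (nat_lit 76) (XT.lf (nat_lit 76) (nat_lit 44058372282) (nat_lit 0) (nat_lit 26906688768) (nat_lit 532) (nat_lit 61794833332) (nat_lit 39) (nat_lit 5) (nat_lit 38) (nat_lit 5) (nat_lit 45) (nat_lit 5) (nat_lit 288) (nat_lit 282) (nat_lit 150)) (XT.lf (nat_lit 0) (nat_lit 82263783991) (nat_lit 456) (nat_lit 30147310798) (nat_lit 76) (nat_lit 26238634191) (nat_lit 39) (nat_lit 5) (nat_lit 45) (nat_lit 5) (nat_lit 40) (nat_lit 5) (nat_lit 289) (nat_lit 282) (nat_lit 149)))) (XT.nd (nat_lit 156) (nat_lit 228) (nat_lit 0) (XT.nd (nat_lit 78) (nat_lit 0) (nat_lit 0) (XT.lf (nat_lit 0) (nat_lit 34097752831) (nat_lit 456) (nat_lit 61887229030) (nat_lit 532) (nat_lit 48904284118) (nat_lit 33) (nat_lit 5) (nat_lit 39) (nat_lit 5) (nat_lit 40) (nat_lit 5) (nat_lit 290) (nat_lit 282) (nat_lit 148)) (XT.lf (nat_lit 0) (nat_lit 105196616625) (nat_lit 456) (nat_lit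 6431208596) (nat_lit 532) (nat_lit 39934226411) (nat_lit 33) (nat_lit 5) (nat_lit 39) (nat_lit 5) (nat_lit 40) (nat_lit 5) (nat_lit 291) (nat_lit 282) (nat_lit 147))) (XT.nd (nat_lit 78) (nat_lit 0) (nat_lit 0) (XT.lf (nat_lit 0) (nat_lit 23083396077) (nat_lit 228) (nat_lit 107279295380) (nat_lit 304) (nat_lit 28258722592) (nat_lit 30) (nat_lit 5) (nat_lit 33) (nat_lit 5) (nat_lit 34) (nat_lit 5) (nat_lit 292) (nat_lit 282) (nat_lit 146)) (XT.lf (nat_lit 0) (nat_lit 100548831431) (nat_lit 228) (nat_lit 51477753261) (nat_lit 304) (nat_lit 14104523181) (nat_lit 30) (nat_lit 5) (nat_lit 33) (nat_lit 5) (nat_lit 34) (nat_lit 5) (nat_lit 293) (nat_lit 282) (nat_lit 145)))))) (XT.nd (nat_lit 468) (nat_lit 532) (nat_lit 0) (XT.nd (nat_lit 234) (nat_lit 380) (nat_lit 0) (XT.nd (nat_lit 78) (nat_lit 0) (nat_lit 0) (XT.lf (nat_lit 0) (nat_lit 1592905904) (nat_lit 228) (nat_lit 163973132091)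 (nat_lit 76) (nat_lit 8635664419) (nat_lit 27) (nat_lit 5) (nat_lit 30) (nat_lit 5) (nat_lit 28) (nat_lit 5) (nat_lit 294) (nat_lit 282) (nat_lit 144)) (XT.nd (nat_lit 78) (nat_lit 0) (nat_lit 0) (XT.lf (nat_lit 0) (nat_lit 20960649181) (nat_lit 228) (nat_lit 88690809634) (nat_lit 76) (nat_lit 72983056300) (nat_lit 27) (nat_lit 5) (nat_lit 30) (nat_lit 5) (nat_lit 28) (nat_lit 5) (nat_lit 295) (nat_lit 282) (nat_lit 143)) (XT.lf (nat_lit 0) (nat_lit 41877566878) (nat_lit 228) (nat_lit 7386190520) (nat_lit 76) (nat_lit 142478216090) (nat_lit 27) (nat_lit 5) (nat_lit 30) (nat_lit 5) (nat_lit 28) (nat_lit 5) (nat_lit 296) (nat_lit 282) (nat_lit 142)))) (XT.nd (nat_lit 78) (nat_lit 152) (nat_lit 0) (XT.lf (nat_lit 0) (nat_lit 66940224187) (nat_lit 304) (nat_lit 117194327905) (nat_lit 76) (nat_lit 17245686514) (nat_lit 24) (nat_lit 5) (nat_lit 28) (nat_lit 5) (nat_lit 25) (nat_lit 5) (nat_lit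 297) (nat_lit 282) (nat_lit 141)) (XT.nd (nat_lit 78) (nat_lit 152) (nat_lit 0) (XT.lf (nat_lit 0) (nat_lit 95494451796) (nat_lit 304) (nat_lit 29554671279) (nat_lit 76) (nat_lit 86621518142) (nat_lit 24) (nat_lit 5) (nat_lit 28) (nat_lit 5) (nat_lit 25) (nat_lit 5) (nat_lit 298) (nat_lit 282) (nat_lit 140)) (XT.lf (nat_lit 0) (nat_lit 68523735149) (nat_lit 152) (nat_lit 59457078618) (nat_lit 228) (nat_lit 94671639414) (nat_lit 22) (nat_lit 5) (nat_lit 24) (nat_lit 5) (nat_lit 25) (nat_lit 5) (nat_lit 299) (nat_lit 282) (nat_lit 139))))) (XT.nd (nat_lit 234) (nat_lit 380) (nat_lit 0) (XT.nd (nat_lit 78) (nat_lit 152) (nat_lit 0) (XT.lf (nat_lit 0) (nat_lit 164168702238) (nat_lit 228) (nat_lit 58613949534) (nat_lit 76) (nat_lit 11641949697) (nat_lit 22) (nat_lit 5) (nat_lit 25) (nat_lit 5) (nat_lit 23) (nat_lit 5) (nat_lit 300) (nat_lit 282) (nat_lit 138)) (XT.nd (nat_lit 78) (nat_lit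 0) (nat_lit 0) (XT.lf (nat_lit 0) (nat_lit 45261582359) (nat_lit 152) (nat_lit 160622741781) (nat_lit 228) (nat_lit 41043582007) (nat_lit 20) (nat_lit 5) (nat_lit 22) (nat_lit 5) (nat_lit 23) (nat_lit 5) (nat_lit 301) (nat_lit 282) (nat_lit 137)) (XT.lf (nat_lit 0) (nat_lit 160780344239) (nat_lit 152) (nat_lit 91759288841) (nat_lit 228) (nat_lit 7763647800) (nat_lit 20) (nat_lit 5) (nat_lit 22) (nat_lit 5) (nat_lit 23) (nat_lit 5) (nat_lit 302) (nat_lit 282) (nat_lit 136)))) (XT.nd (nat_lit 156) (nat_lit 152) (nat_lit 0) (XT.nd (nat_lit 78) (nat_lit 0) (nat_lit 0) (XT.lf (nat_lit 0) (nat_lit 10646577178) (nat_lit 152) (nat_lit 16378378699) (nat_lit 228) (nat_lit 247649043524) (nat_lit 17) (nat_lit 5) (nat_lit 19) (nat_lit 5) (nat_lit 20) (nat_lit 5) (nat_lit 303) (nat_lit 282) (nat_lit 135)) (XT.lf (nat_lit 0) (nat_lit 68532907919) (nat_lit 228) (nat_lit 156523689189) (nat_lit 76)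 (nat_lit 64773190672) (nat_lit 17) (nat_lit 5) (nat_lit 20) (nat_lit 5) (nat_lit 18) (nat_lit 5) (nat_lit 304) (nat_lit 282) (nat_lit 134))) (XT.nd (nat_lit 78) (nat_lit 152) (nat_lit 0) (XT.lf (nat_lit 0) (nat_lit 113786761461) (nat_lit 228) (nat_lit 40845289259) (nat_lit 76) (nat_lit 151531967769) (nat_lit 17) (nat_lit 5) (nat_lit 20) (nat_lit 5) (nat_lit 18) (nat_lit 5) (nat_lit 305) (nat_lit 282) (nat_lit 133)) (XT.lf (nat_lit 0) (nat_lit 88515061459) (nat_lit 152) (nat_lit 76274514983) (nat_lit 228) (nat_lit 158845119409) (nat_lit 15) (nat_lit 5) (nat_lit 17) (nat_lit 5) (nat_lit 18) (nat_lit 5) (nat_lit 306) (nat_lit 282) (nat_lit 132))))))))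
noncomputable def xc113 : XT := (XT.nd (nat_lit 35724) (nat_lit 0) (nat_lit 760) (XT.nd (nat_lit 1014) (nat_lit 304) (nat_lit 0) (XT.nd (nat_lit 468) (nat_lit 228) (nat_lit 0) (XT.nd (nat_lit 234) (nat_lit 228) (nat_lit 0) (XT.nd (nat_lit 78) (nat_lit 76) (nat_lit 0) (XT.lf (nat_lit 0) (nat_lit 221219130822) (nat_lit 228) (nat_lit 112096608059) (nat_lit 76) (nat_lit 9079567805) (nat_lit 15) (nat_lit 5) (nat_lit 18) (nat_lit 5) (nat_lit 16) (nat_lit 4) (nat_lit 307) (nat_lit 282) (nat_lit 131)) (XT.nd (nat_lit 78) (nat_lit 0) (nat_lit 0) (XT.lf (nat_lit 0) (nat_lit 19776197802) (nat_lit 76) (nat_lit 264843503344) (nat_lit 152) (nat_lit 77840533499) (nat_lit 14) (nat_lit 5) (nat_lit 15) (nat_lit 5) (nat_lit 16) (nat_lit 4) (nat_lit 308) (nat_lit 282) (nat_lit 130)) (XT.lf (nat_lit 0) (nat_lit 168573674564) (nat_lit 76) (nat_lit 187583444369) (nat_lit 152) (nat_lit 27728054119) (nat_lit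 14) (nat_lit 5) (nat_lit 15) (nat_lit 5) (nat_lit 16) (nat_lit 4) (nat_lit 309) (nat_lit 282) (nat_lit 129)))) (XT.nd (nat_lit 78) (nat_lit 152) (nat_lit 0) (XT.lf (nat_lit 0) (nat_lit 25073005179) (nat_lit 152) (nat_lit 78384098912) (nat_lit 76) (nat_lit 303516230748) (nat_lit 13) (nat_lit 5) (nat_lit 15) (nat_lit 5) (nat_lit 14) (nat_lit 5) (nat_lit 310) (nat_lit 282) (nat_lit 128)) (XT.nd (nat_lit 78) (nat_lit 0) (nat_lit 0) (XT.lf (nat_lit 0) (nat_lit 72398798460) (nat_lit 152) (nat_lit 9942404318) (nat_lit 228) (nat_lit 349370443244) (nat_lit 11) (nat_lit 5) (nat_lit 13) (nat_lit 5) (nat_lit 14) (nat_lit 5) (nat_lit 311) (nat_lit 282) (nat_lit 127)) (XT.lf (nat_lit 0) (nat_lit 148579419220) (nat_lit 228) (nat_lit 220801141872) (nat_lit 76) (nat_lit 88697376227) (nat_lit 11) (nat_lit 5) (nat_lit 14) (nat_lit 5) (nat_lit 12) (nat_lit 4) (nat_lit 312) (nat_lit 282) (nat_lit 126)))))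 (XT.nd (nat_lit 234) (nat_lit 152) (nat_lit 0) (XT.nd (nat_lit 78) (nat_lit 76) (nat_lit 0) (XT.lf (nat_lit 0) (nat_lit 220374842972) (nat_lit 228) (nat_lit 71466900192) (nat_lit 76) (nat_lit 194691137001) (nat_lit 11) (nat_lit 5) (nat_lit 14) (nat_lit 5) (nat_lit 12) (nat_lit 4) (nat_lit 313) (nat_lit 282) (nat_lit 125)) (XT.nd (nat_lit 78) (nat_lit 0) (nat_lit 0) (XT.lf (nat_lit 0) (nat_lit 94543378911) (nat_lit 76) (nat_lit 205644204961) (nat_lit 152) (nat_lit 216894740133) (nat_lit 10) (nat_lit 5) (nat_lit 11) (nat_lit 5) (nat_lit 12) (nat_lit 4) (nat_lit 314) (nat_lit 282) (nat_lit 124)) (XT.lf (nat_lit 0) (nat_lit 277898725318) (nat_lit 76) (nat_lit 110440566213) (nat_lit 152) (nat_lit 161580116229) (nat_lit 10) (nat_lit 5) (nat_lit 11) (nat_lit 5) (nat_lit 12) (nat_lit 4) (nat_lit 315) (nat_lit 282) (nat_lit 123)))) (XT.nd (nat_lit 156) (nat_lit 76) (nat_lit 0) (XT.nd (nat_lit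 78) (nat_lit 76) (nat_lit 0) (XT.lf (nat_lit 0) (nat_lit 475922368914) (nat_lit 76) (nat_lit 7620688914) (nat_lit 152) (nat_lit 101840406820) (nat_lit 10) (nat_lit 5) (nat_lit 11) (nat_lit 5) (nat_lit 12) (nat_lit 4) (nat_lit 316) (nat_lit 282) (nat_lit 122)) (XT.lf (nat_lit 0) (nat_lit 66965657246) (nat_lit 76) (nat_lit 523495288892) (nat_lit 76) (nat_lit 32895874471) (nat_lit 9) (nat_lit 4) (nat_lit 10) (nat_lit 5) (nat_lit 10) (nat_lit 4) (nat_lit 317) (nat_lit 282) (nat_lit 121))) (XT.nd (nat_lit 78) (nat_lit 0) (nat_lit 0) (XT.lf (nat_lit 0) (nat_lit 42753473886) (nat_lit 152) (nat_lit 401672339804) (nat_lit 76) (nat_lit 219600784744) (nat_lit 8) (nat_lit 5) (nat_lit 10) (nat_lit 5) (nat_lit 9) (nat_lit 4) (nat_lit 318) (nat_lit 282) (nat_lit 120)) (XT.lf (nat_lit 0) (nat_lit 122677470972) (nat_lit 152) (nat_lit 235430565742) (nat_lit 76) (nat_lit 349773572249) (nat_lit 8) (nat_lit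 5) (nat_lit 10) (nat_lit 5) (nat_lit 9) (nat_lit 4) (nat_lit 319) (nat_lit 282) (nat_lit 119)))))) (XT.nd (nat_lit 468) (nat_lit 152) (nat_lit 0) (XT.nd (nat_lit 234) (nat_lit 76) (nat_lit 0) (XT.nd (nat_lit 78) (nat_lit 76) (nat_lit 0) (XT.lf (nat_lit 0) (nat_lit 208995325344) (nat_lit 152) (nat_lit 55889558164) (nat_lit 76) (nat_lit 490360141956) (nat_lit 8) (nat_lit 5) (nat_lit 10) (nat_lit 5) (nat_lit 9) (nat_lit 4) (nat_lit 320) (nat_lit 282) (nat_lit 118)) (XT.nd (nat_lit 78) (nat_lit 0) (nat_lit 0) (XT.lf (nat_lit 0) (nat_lit 145282235452) (nat_lit 76) (nat_lit 160430356016) (nat_lit 152) (nat_lit 500405405266) (nat_lit 7) (nat_lit 5) (nat_lit 8) (nat_lit 5) (nat_lit 9) (nat_lit 4) (nat_lit 321) (nat_lit 282) (nat_lit 117)) (XT.lf (nat_lit 0) (nat_lit 365726163415) (nat_lit 76) (nat_lit 45969139112) (nat_lit 152) (nat_lit 449243258201) (nat_lit 7) (nat_lit 5) (nat_lit 8) (nat_lit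 5) (nat_lit 9) (nat_lit 4) (nat_lit 322) (nat_lit 282) (nat_lit 116)))) (XT.nd (nat_lit 78) (nat_lit 76) (nat_lit 0) (XT.lf (nat_lit 0) (nat_lit 528024037478) (nat_lit 152) (nat_lit 318206717851) (nat_lit 0) (nat_lit 73764622056) (nat_lit 7) (nat_lit 5) (nat_lit 9) (nat_lit 4) (nat_lit 7) (nat_lit 4) (nat_lit 323) (nat_lit 282) (nat_lit 115)) (XT.nd (nat_lit 78) (nat_lit 76) (nat_lit 0) (XT.lf (nat_lit 0) (nat_lit 654853026031) (nat_lit 152) (nat_lit 128234674593) (nat_lit 0) (nat_lit 200593522462) (nat_lit 7) (nat_lit 5) (nat_lit 9) (nat_lit 4) (nat_lit 7) (nat_lit 4) (nat_lit 324) (nat_lit 282) (nat_lit 114)) (XT.lf (nat_lit 0) (nat_lit 80986315094) (nat_lit 76) (nat_lit 712789696207) (nat_lit 76) (nat_lit 258530111022) (nat_lit 6) (nat_lit 4) (nat_lit 7) (nat_lit 5) (nat_lit 7) (nat_lit 4) (nat_lit 325) (nat_lit 282) (nat_lit 113))))) (XT.nd (nat_lit 234) (nat_lit 76) (nat_lit 0)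 (XT.nd (nat_lit 78) (nat_lit 76) (nat_lit 0) (XT.lf (nat_lit 0) (nat_lit 314237725056) (nat_lit 76) (nat_lit 633081229860) (nat_lit 76) (nat_lit 178821569103) (nat_lit 6) (nat_lit 4) (nat_lit 7) (nat_lit 5) (nat_lit 7) (nat_lit 4) (nat_lit 326) (nat_lit 282) (nat_lit 112)) (XT.nd (nat_lit 78) (nat_lit 76) (nat_lit 0) (XT.lf (nat_lit 0) (nat_lit 566149175159) (nat_lit 76) (nat_lit 546996118370) (nat_lit 76) (nat_lit 92736387639) (nat_lit 6) (nat_lit 4) (nat_lit 7) (nat_lit 5) (nat_lit 7) (nat_lit 4) (nat_lit 327) (nat_lit 282) (nat_lit 111)) (XT.lf (nat_lit 0) (nat_lit 223783723) (nat_lit 152) (nat_lit 453794325376) (nat_lit 76) (nat_lit 837983571627) (nat_lit 5) (nat_lit 5) (nat_lit 7) (nat_lit 5) (nat_lit 6) (nat_lit 4) (nat_lit 328) (nat_lit 282) (nat_lit 110)))) (XT.nd (nat_lit 156) (nat_lit 76) (nat_lit 0) (XT.nd (nat_lit 78) (nat_lit 0) (nat_lit 0) (XT.lf (nat_lit 0) (nat_lit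 95610559445) (nat_lit 152) (nat_lit 255389891864) (nat_lit 76) (nat_lit 1033818132866) (nat_lit 5) (nat_lit 5) (nat_lit 7) (nat_lit 5) (nat_lit 6) (nat_lit 4) (nat_lit 329) (nat_lit 282) (nat_lit 109)) (XT.lf (nat_lit 0) (nat_lit 198628244188) (nat_lit 152) (nat_lit 41113163146) (nat_lit 76) (nat_lit 1245319435268) (nat_lit 5) (nat_lit 5) (nat_lit 7) (nat_lit 5) (nat_lit 6) (nat_lit 4) (nat_lit 330) (nat_lit 282) (nat_lit 108))) (XT.nd (nat_lit 33774) (nat_lit 0) (nat_lit 2432) (XT.lf (nat_lit 0) (nat_lit 200326807016) (nat_lit 76) (nat_lit 114378370631) (nat_lit 152) (nat_lit 1278231877392) (nat_lit 4) (nat_lit 5) (nat_lit 5) (nat_lit 5) (nat_lit 6) (nat_lit 4) (nat_lit 331) (nat_lit 282) (nat_lit 107)) (XT.lf (nat_lit 0) (nat_lit 20660807608) (nat_lit 532) (nat_lit 17741393142) (nat_lit 532) (nat_lit 17741393142) (nat_lit 36) (nat_lit 3) (nat_lit 43) (nat_lit 3) (nat_lit 43) (nat_lit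 5) (nat_lit 283) (nat_lit 283) (nat_lit 154))))))) (XT.nd (nat_lit 1014) (nat_lit 988) (nat_lit 0) (XT.nd (nat_lit 468) (nat_lit 684) (nat_lit 0) (XT.nd (nat_lit 234) (nat_lit 0) (nat_lit 76) (XT.nd (nat_lit 78) (nat_lit 0) (nat_lit 76) (XT.lf (nat_lit 76) (nat_lit 13176259279) (nat_lit 0) (nat_lit 30119736022) (nat_lit 532) (nat_lit 73456934271) (nat_lit 37) (nat_lit 5) (nat_lit 36) (nat_lit 3) (nat_lit 43) (nat_lit 5) (nat_lit 284) (nat_lit 283) (nat_lit 153)) (XT.nd (nat_lit 78) (nat_lit 0) (nat_lit 0) (XT.lf (nat_lit 0) (nat_lit 46911431141) (nat_lit 456) (nat_lit 54266068385) (nat_lit 532) (nat_lit 20279785196) (nat_lit 37) (nat_lit 5) (nat_lit 43) (nat_lit 5) (nat_lit 44) (nat_lit 5) (nat_lit 285) (nat_lit 283) (nat_lit 152)) (XT.lf (nat_lit 0) (nat_lit 51598002777) (nat_lit 456) (nat_lit 1793235512) (nat_lit 532) (nat_lit 73084200191) (nat_lit 37) (nat_lit 5) (nat_lit 43) (nat_lit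 5) (nat_lit 44) (nat_lit 5) (nat_lit 286) (nat_lit 283) (nat_lit 151)))) (XT.nd (nat_lit 78) (nat_lit 0) (nat_lit 76) (XT.lf (nat_lit 76) (nat_lit 57766892755) (nat_lit 0) (nat_lit 281504513) (nat_lit 532) (nat_lit 73735537599) (nat_lit 38) (nat_lit 5) (nat_lit 37) (nat_lit 5) (nat_lit 44) (nat_lit 5) (nat_lit 287) (nat_lit 283) (nat_lit 150)) (XT.nd (nat_lit 78) (nat_lit 0) (nat_lit 0) (XT.lf (nat_lit 0) (nat_lit 66437458515) (nat_lit 456) (nat_lit 16693644476) (nat_lit 532) (nat_lit 54272199104) (nat_lit 38) (nat_lit 5) (nat_lit 44) (nat_lit 5) (nat_lit 45) (nat_lit 5) (nat_lit 288) (nat_lit 283) (nat_lit 149)) (XT.lf (nat_lit 76) (nat_lit 47588617063) (nat_lit 0) (nat_lit 29060502371) (nat_lit 532) (nat_lit 66730983086) (nat_lit 39) (nat_lit 5) (nat_lit 38) (nat_lit 5) (nat_lit 45) (nat_lit 5) (nat_lit 289) (nat_lit 283) (nat_lit 148))))) (XT.nd (nat_lit 234) (nat_lit 456) (nat_lit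 0) (XT.nd (nat_lit 78) (nat_lit 456) (nat_lit 0) (XT.lf (nat_lit 0) (nat_lit 88851204073) (nat_lit 456) (nat_lit 32553364959) (nat_lit 76) (nat_lit 28336600348) (nat_lit 39) (nat_lit 5) (nat_lit 45) (nat_lit 5) (nat_lit 40) (nat_lit 5) (nat_lit 290) (nat_lit 283) (nat_lit 147)) (XT.nd (nat_lit 78) (nat_lit 0) (nat_lit 0) (XT.lf (nat_lit 0) (nat_lit 36831158680) (nat_lit 456) (nat_lit 66838605475) (nat_lit 532) (nat_lit 52810134283) (nat_lit 33) (nat_lit 5) (nat_lit 39) (nat_lit 5) (nat_lit 40) (nat_lit 5) (nat_lit 291) (nat_lit 283) (nat_lit 146)) (XT.lf (nat_lit 0) (nat_lit 113617517827) (nat_lit 456) (nat_lit 6946073915) (nat_lit 532) (nat_lit 43122952891) (nat_lit 33) (nat_lit 5) (nat_lit 39) (nat_lit 5) (nat_lit 40) (nat_lit 5) (nat_lit 292) (nat_lit 283) (nat_lit 145)))) (XT.nd (nat_lit 156) (nat_lit 228) (nat_lit 0) (XT.nd (nat_lit 78) (nat_lit 0) (nat_lit 0) (XT.lf (nat_lit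 0) (nat_lit 24935576546) (nat_lit 228) (nat_lit 115861384602) (nat_lit 304) (nat_lit 30513719852) (nat_lit 30) (nat_lit 5) (nat_lit 33) (nat_lit 5) (nat_lit 34) (nat_lit 5) (nat_lit 293) (nat_lit 283) (nat_lit 144)) (XT.lf (nat_lit 0) (nat_lit 108597838669) (nat_lit 228) (nat_lit 55595737959) (nat_lit 304) (nat_lit 15227606752) (nat_lit 30) (nat_lit 5) (nat_lit 33) (nat_lit 5) (nat_lit 34) (nat_lit 5) (nat_lit 294) (nat_lit 283) (nat_lit 143))) (XT.nd (nat_lit 78) (nat_lit 0) (nat_lit 0) (XT.lf (nat_lit 0) (nat_lit 1725119048) (nat_lit 228) (nat_lit 177085341682) (nat_lit 76) (nat_lit 9326974924) (nat_lit 27) (nat_lit 5) (nat_lit 30) (nat_lit 5) (nat_lit 28) (nat_lit 5) (nat_lit 295) (nat_lit 283) (nat_lit 142)) (XT.lf (nat_lit 0) (nat_lit 22641927663) (nat_lit 228) (nat_lit 95780851279) (nat_lit 76) (nat_lit 78822124278) (nat_lit 27) (nat_lit 5) (nat_lit 30) (nat_lit 5) (nat_lit 28)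 (nat_lit 5) (nat_lit 296) (nat_lit 283) (nat_lit 141)))))) (XT.nd (nat_lit 468) (nat_lit 456) (nat_lit 0) (XT.nd (nat_lit 234) (nat_lit 304) (nat_lit 0) (XT.nd (nat_lit 78) (nat_lit 228) (nat_lit 0) (XT.lf (nat_lit 0) (nat_lit 45231870884) (nat_lit 228) (nat_lit 7972249534) (nat_lit 76) (nat_lit 153876865482) (nat_lit 27) (nat_lit 5) (nat_lit 30) (nat_lit 5) (nat_lit 28) (nat_lit 5) (nat_lit 297) (nat_lit 283) (nat_lit 140)) (XT.nd (nat_lit 78) (nat_lit 0) (nat_lit 0) (XT.lf (nat_lit 0) (nat_lit 72299369910) (nat_lit 304) (nat_lit 126564850768) (nat_lit 76) (nat_lit 18626106520) (nat_lit 24) (nat_lit 5) (nat_lit 28) (nat_lit 5) (nat_lit 25) (nat_lit 5) (nat_lit 298) (nat_lit 283) (nat_lit 139)) (XT.lf (nat_lit 0) (nat_lit 103137644780) (nat_lit 304) (nat_lit 31914393714) (nat_lit 76) (nat_lit 93551948006) (nat_lit 24) (nat_lit 5) (nat_lit 28) (nat_lit 5) (nat_lit 25) (nat_lit 5) (nat_lit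 299) (nat_lit 283) (nat_lit 138)))) (XT.nd (nat_lit 78) (nat_lit 152) (nat_lit 0) (XT.lf (nat_lit 0) (nat_lit 74010167474) (nat_lit 152) (nat_lit 64212587869) (nat_lit 228) (nat_lit 102241602022) (nat_lit 22) (nat_lit 5) (nat_lit 24) (nat_lit 5) (nat_lit 25) (nat_lit 5) (nat_lit 300) (nat_lit 283) (nat_lit 137)) (XT.nd (nat_lit 78) (nat_lit 152) (nat_lit 0) (XT.lf (nat_lit 0) (nat_lit 177305440915) (nat_lit 228) (nat_lit 63298620902) (nat_lit 76) (nat_lit 12574235451) (nat_lit 22) (nat_lit 5) (nat_lit 25) (nat_lit 5) (nat_lit 23) (nat_lit 5) (nat_lit 301) (nat_lit 283) (nat_lit 136)) (XT.lf (nat_lit 0) (nat_lit 48886841021) (nat_lit 152) (nat_lit 173471335550) (nat_lit 228) (nat_lit 44323701588) (nat_lit 20) (nat_lit 5) (nat_lit 22) (nat_lit 5) (nat_lit 23) (nat_lit 5) (nat_lit 302) (nat_lit 283) (nat_lit 135))))) (XT.nd (nat_lit 234) (nat_lit 228) (nat_lit 0) (XT.nd (nat_lit 78) (nat_lit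 228) (nat_lit 0) (XT.lf (nat_lit 0) (nat_lit 173646782956) (nat_lit 152) (nat_lit 99098897158) (nat_lit 228) (nat_lit 8381622049) (nat_lit 20) (nat_lit 5) (nat_lit 22) (nat_lit 5) (nat_lit 23) (nat_lit 5) (nat_lit 303) (nat_lit 283) (nat_lit 134)) (XT.nd (nat_lit 78) (nat_lit 0) (nat_lit 0) (XT.lf (nat_lit 0) (nat_lit 11502374983) (nat_lit 152) (nat_lit 17687417529) (nat_lit 228) (nat_lit 267457890133) (nat_lit 17) (nat_lit 5) (nat_lit 19) (nat_lit 5) (nat_lit 20) (nat_lit 5) (nat_lit 304) (nat_lit 283) (nat_lit 133)) (XT.lf (nat_lit 0) (nat_lit 74018197757) (nat_lit 228) (nat_lit 169041622545) (nat_lit 76) (nat_lit 69956129133) (nat_lit 17) (nat_lit 5) (nat_lit 20) (nat_lit 5) (nat_lit 18) (nat_lit 5) (nat_lit 305) (nat_lit 283) (nat_lit 132)))) (XT.nd (nat_lit 156) (nat_lit 76) (nat_lit 0) (XT.nd (nat_lit 78) (nat_lit 152) (nat_lit 0) (XT.lf (nat_lit 0) (nat_lit 122892162752) (nat_lit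 228) (nat_lit 44109244085) (nat_lit 76) (nat_lit 163655528160) (nat_lit 17) (nat_lit 5) (nat_lit 20) (nat_lit 5) (nat_lit 18) (nat_lit 5) (nat_lit 306) (nat_lit 283) (nat_lit 131)) (XT.lf (nat_lit 0) (nat_lit 95599841822) (nat_lit 152) (nat_lit 82375264850) (nat_lit 228) (nat_lit 171550168181) (nat_lit 15) (nat_lit 5) (nat_lit 17) (nat_lit 5) (nat_lit 18) (nat_lit 5) (nat_lit 307) (nat_lit 283) (nat_lit 130))) (XT.nd (nat_lit 78) (nat_lit 76) (nat_lit 0) (XT.lf (nat_lit 0) (nat_lit 238918877257) (nat_lit 228) (nat_lit 121060870982) (nat_lit 76) (nat_lit 9806998725) (nat_lit 15) (nat_lit 5) (nat_lit 18) (nat_lit 5) (nat_lit 16) (nat_lit 4) (nat_lit 308) (nat_lit 283) (nat_lit 129)) (XT.lf (nat_lit 0) (nat_lit 21361671609) (nat_lit 76) (nat_lit 286029738693) (nat_lit 152) (nat_lit 84065466007) (nat_lit 14) (nat_lit 5) (nat_lit 15) (nat_lit 5) (nat_lit 16) (nat_lit 4) (nat_lit 309) (nat_lit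 283) (nat_lit 128))))))))
noncomputable def xc114 : XT := (XT.nd (nat_lit 35724) (nat_lit 0) (nat_lit 608) (XT.nd (nat_lit 936) (nat_lit 228) (nat_lit 0) (XT.nd (nat_lit 468) (nat_lit 152) (nat_lit 0) (XT.nd (nat_lit 234) (nat_lit 76) (nat_lit 0) (XT.nd (nat_lit 78) (nat_lit 228) (nat_lit 0) (XT.lf (nat_lit 0) (nat_lit 182062696290) (nat_lit 76) (nat_lit 202588967216) (nat_lit 152) (nat_lit 29944159401) (nat_lit 14) (nat_lit 5) (nat_lit 15) (nat_lit 5) (nat_lit 16) (nat_lit 4) (nat_lit 310) (nat_lit 283) (nat_lit 127)) (XT.nd (nat_lit 78) (nat_lit 152) (nat_lit 0) (XT.lf (nat_lit 0) (nat_lit 27080727115) (nat_lit 152) (nat_lit 84651826542) (nat_lit 76) (nat_lit 327798492317) (nat_lit 13) (nat_lit 5) (nat_lit 15) (nat_lit 5) (nat_lit 14) (nat_lit 5) (nat_lit 311) (nat_lit 283) (nat_lit 126)) (XT.lf (nat_lit 0) (nat_lit 78193626663) (nat_lit 152) (nat_lit 10736684817) (nat_lit 228) (nat_lit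 377318116475) (nat_lit 11) (nat_lit 5) (nat_lit 13) (nat_lit 5) (nat_lit 14) (nat_lit 5) (nat_lit 312) (nat_lit 283) (nat_lit 125)))) (XT.nd (nat_lit 78) (nat_lit 76) (nat_lit 0) (XT.lf (nat_lit 0) (nat_lit 160467475739) (nat_lit 228) (nat_lit 238462411616) (nat_lit 76) (nat_lit 95794144314) (nat_lit 11) (nat_lit 5) (nat_lit 14) (nat_lit 5) (nat_lit 12) (nat_lit 4) (nat_lit 313) (nat_lit 283) (nat_lit 124)) (XT.nd (nat_lit 78) (nat_lit 76) (nat_lit 0) (XT.lf (nat_lit 0) (nat_lit 238006407245) (nat_lit 228) (nat_lit 77181639609) (nat_lit 76) (nat_lit 210267333506) (nat_lit 11) (nat_lit 5) (nat_lit 14) (nat_lit 5) (nat_lit 12) (nat_lit 4) (nat_lit 314) (nat_lit 283) (nat_lit 123)) (XT.lf (nat_lit 0) (nat_lit 102109395681) (nat_lit 76) (nat_lit 222094716175) (nat_lit 152) (nat_lit 234244672596) (nat_lit 10) (nat_lit 5) (nat_lit 11) (nat_lit 5) (nat_lit 12) (nat_lit 4) (nat_lit 315) (nat_lit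 283) (nat_lit 122))))) (XT.nd (nat_lit 234) (nat_lit 76) (nat_lit 0) (XT.nd (nat_lit 78) (nat_lit 76) (nat_lit 0) (XT.lf (nat_lit 0) (nat_lit 300132981174) (nat_lit 76) (nat_lit 119274862268) (nat_lit 152) (nat_lit 174505000761) (nat_lit 10) (nat_lit 5) (nat_lit 11) (nat_lit 5) (nat_lit 12) (nat_lit 4) (nat_lit 316) (nat_lit 283) (nat_lit 121)) (XT.nd (nat_lit 78) (nat_lit 76) (nat_lit 0) (XT.lf (nat_lit 0) (nat_lit 513998341603) (nat_lit 76) (nat_lit 8229465099) (nat_lit 152) (nat_lit 109986227545) (nat_lit 10) (nat_lit 5) (nat_lit 11) (nat_lit 5) (nat_lit 12) (nat_lit 4) (nat_lit 317) (nat_lit 283) (nat_lit 120)) (XT.lf (nat_lit 0) (nat_lit 72325121978) (nat_lit 76) (nat_lit 565373980263) (nat_lit 76) (nat_lit 35526158591) (nat_lit 9) (nat_lit 4) (nat_lit 10) (nat_lit 5) (nat_lit 10) (nat_lit 4) (nat_lit 318) (nat_lit 283) (nat_lit 119)))) (XT.nd (nat_lit 78) (nat_lit 0) (nat_lit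 0) (XT.lf (nat_lit 0) (nat_lit 46174970790) (nat_lit 152) (nat_lit 433804011943) (nat_lit 76) (nat_lit 237169643491) (nat_lit 8) (nat_lit 5) (nat_lit 10) (nat_lit 5) (nat_lit 9) (nat_lit 4) (nat_lit 319) (nat_lit 283) (nat_lit 118)) (XT.nd (nat_lit 78) (nat_lit 0) (nat_lit 0) (XT.lf (nat_lit 0) (nat_lit 132492797348) (nat_lit 152) (nat_lit 254263052626) (nat_lit 76) (nat_lit 377756195035) (nat_lit 8) (nat_lit 5) (nat_lit 10) (nat_lit 5) (nat_lit 9) (nat_lit 4) (nat_lit 320) (nat_lit 283) (nat_lit 117)) (XT.lf (nat_lit 0) (nat_lit 225715996462) (nat_lit 152) (nat_lit 60358909507) (nat_lit 76) (nat_lit 529589635725) (nat_lit 8) (nat_lit 5) (nat_lit 10) (nat_lit 5) (nat_lit 9) (nat_lit 4) (nat_lit 321) (nat_lit 283) (nat_lit 116)))))) (XT.nd (nat_lit 468) (nat_lit 76) (nat_lit 0) (XT.nd (nat_lit 234) (nat_lit 76) (nat_lit 0) (XT.nd (nat_lit 78) (nat_lit 0) (nat_lit 0) (XT.lf (nat_lit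 0) (nat_lit 156906581692) (nat_lit 76) (nat_lit 173264027276) (nat_lit 152) (nat_lit 540436744654) (nat_lit 7) (nat_lit 5) (nat_lit 8) (nat_lit 5) (nat_lit 9) (nat_lit 4) (nat_lit 322) (nat_lit 283) (nat_lit 115)) (XT.nd (nat_lit 78) (nat_lit 0) (nat_lit 0) (XT.lf (nat_lit 0) (nat_lit 394985892973) (nat_lit 76) (nat_lit 49645969110) (nat_lit 152) (nat_lit 485181706789) (nat_lit 7) (nat_lit 5) (nat_lit 8) (nat_lit 5) (nat_lit 9) (nat_lit 4) (nat_lit 323) (nat_lit 283) (nat_lit 114)) (XT.lf (nat_lit 0) (nat_lit 570266842158) (nat_lit 152) (nat_lit 343661684596) (nat_lit 0) (nat_lit 79666408540) (nat_lit 7) (nat_lit 5) (nat_lit 9) (nat_lit 4) (nat_lit 7) (nat_lit 4) (nat_lit 324) (nat_lit 283) (nat_lit 113)))) (XT.nd (nat_lit 78) (nat_lit 76) (nat_lit 0) (XT.lf (nat_lit 0) (nat_lit 707242084485) (nat_lit 152) (nat_lit 138491994225) (nat_lit 0) (nat_lit 216641575296) (nat_lit 7) (nat_lit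 5) (nat_lit 9) (nat_lit 4) (nat_lit 7) (nat_lit 4) (nat_lit 325) (nat_lit 283) (nat_lit 112)) (XT.nd (nat_lit 78) (nat_lit 0) (nat_lit 0) (XT.lf (nat_lit 0) (nat_lit 87466637819) (nat_lit 76) (nat_lit 769812244378) (nat_lit 76) (nat_lit 279211665216) (nat_lit 6) (nat_lit 4) (nat_lit 7) (nat_lit 5) (nat_lit 7) (nat_lit 4) (nat_lit 326) (nat_lit 283) (nat_lit 111)) (XT.lf (nat_lit 0) (nat_lit 339378055577) (nat_lit 76) (nat_lit 683727147206) (nat_lit 76) (nat_lit 193126503254) (nat_lit 6) (nat_lit 4) (nat_lit 7) (nat_lit 5) (nat_lit 7) (nat_lit 4) (nat_lit 327) (nat_lit 283) (nat_lit 110))))) (XT.nd (nat_lit 234) (nat_lit 0) (nat_lit 0) (XT.nd (nat_lit 78) (nat_lit 76) (nat_lit 0) (XT.lf (nat_lit 0) (nat_lit 611442324464) (nat_lit 76) (nat_lit 590755269837) (nat_lit 76) (nat_lit 100154565893) (nat_lit 6) (nat_lit 4) (nat_lit 7) (nat_lit 5) (nat_lit 7) (nat_lit 4) (nat_lit 328) (nat_lit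 283) (nat_lit 109)) (XT.nd (nat_lit 78) (nat_lit 0) (nat_lit 0) (XT.lf (nat_lit 0) (nat_lit 242330959) (nat_lit 152) (nat_lit 490096711094) (nat_lit 76) (nat_lit 905022720467) (nat_lit 5) (nat_lit 5) (nat_lit 7) (nat_lit 5) (nat_lit 6) (nat_lit 4) (nat_lit 329) (nat_lit 283) (nat_lit 108)) (XT.lf (nat_lit 0) (nat_lit 103260000996) (nat_lit 152) (nat_lit 275820008850) (nat_lit 76) (nat_lit 1116524012301) (nat_lit 5) (nat_lit 5) (nat_lit 7) (nat_lit 5) (nat_lit 6) (nat_lit 4) (nat_lit 330) (nat_lit 283) (nat_lit 107)))) (XT.nd (nat_lit 33930) (nat_lit 0) (nat_lit 2356) (XT.nd (nat_lit 33852) (nat_lit 0) (nat_lit 2356) (XT.lf (nat_lit 0) (nat_lit 214519056311) (nat_lit 152) (nat_lit 44401221417) (nat_lit 76) (nat_lit 1344945387131) (nat_lit 5) (nat_lit 5) (nat_lit 7) (nat_lit 5) (nat_lit 6) (nat_lit 4) (nat_lit 331) (nat_lit 283) (nat_lit 106)) (XT.lf (nat_lit 0) (nat_lit 22318187082)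 (nat_lit 532) (nat_lit 19158254617) (nat_lit 532) (nat_lit 19158254617) (nat_lit 36) (nat_lit 3) (nat_lit 43) (nat_lit 3) (nat_lit 43) (nat_lit 5) (nat_lit 284) (nat_lit 284) (nat_lit 152))) (XT.nd (nat_lit 78) (nat_lit 0) (nat_lit 76) (XT.lf (nat_lit 76) (nat_lit 14235135925) (nat_lit 0) (nat_lit 32533014722) (nat_lit 532) (nat_lit 79324290975) (nat_lit 37) (nat_lit 5) (nat_lit 36) (nat_lit 3) (nat_lit 43) (nat_lit 5) (nat_lit 285) (nat_lit 284) (nat_lit 151)) (XT.lf (nat_lit 0) (nat_lit 50672111134) (nat_lit 456) (nat_lit 58602180523) (nat_lit 532) (nat_lit 21898913624) (nat_lit 37) (nat_lit 5) (nat_lit 43) (nat_lit 5) (nat_lit 44) (nat_lit 5) (nat_lit 286) (nat_lit 284) (nat_lit 150))))))) (XT.nd (nat_lit 1014) (nat_lit 836) (nat_lit 0) (XT.nd (nat_lit 468) (nat_lit 684) (nat_lit 0) (XT.nd (nat_lit 234) (nat_lit 304) (nat_lit 0) (XT.nd (nat_lit 78) (nat_lit 0) (nat_lit 0) (XT.lf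 (nat_lit 0) (nat_lit 55733033278) (nat_lit 456) (nat_lit 1931904230) (nat_lit 532) (nat_lit 78927922884) (nat_lit 37) (nat_lit 5) (nat_lit 43) (nat_lit 5) (nat_lit 44) (nat_lit 5) (nat_lit 287) (nat_lit 284) (nat_lit 149)) (XT.nd (nat_lit 78) (nat_lit 0) (nat_lit 76) (XT.lf (nat_lit 76) (nat_lit 62392913030) (nat_lit 0) (nat_lit 306125972) (nat_lit 532) (nat_lit 79627033926) (nat_lit 38) (nat_lit 5) (nat_lit 37) (nat_lit 5) (nat_lit 44) (nat_lit 5) (nat_lit 288) (nat_lit 284) (nat_lit 148)) (XT.lf (nat_lit 0) (nat_lit 71758676882) (nat_lit 456) (nat_lit 18024232225) (nat_lit 532) (nat_lit 58612126892) (nat_lit 38) (nat_lit 5) (nat_lit 44) (nat_lit 5) (nat_lit 45) (nat_lit 5) (nat_lit 289) (nat_lit 284) (nat_lit 147)))) (XT.nd (nat_lit 78) (nat_lit 380) (nat_lit 0) (XT.lf (nat_lit 76) (nat_lit 51400486091) (nat_lit 0) (nat_lit 31386438669) (nat_lit 532) (nat_lit 72063085780) (nat_lit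 39) (nat_lit 5) (nat_lit 38) (nat_lit 5) (nat_lit 45) (nat_lit 5) (nat_lit 290) (nat_lit 284) (nat_lit 146)) (XT.nd (nat_lit 78) (nat_lit 456) (nat_lit 0) (XT.lf (nat_lit 0) (nat_lit 95964716519) (nat_lit 456) (nat_lit 35152721002) (nat_lit 76) (nat_lit 30602564230) (nat_lit 39) (nat_lit 5) (nat_lit 45) (nat_lit 5) (nat_lit 40) (nat_lit 5) (nat_lit 291) (nat_lit 284) (nat_lit 145)) (XT.lf (nat_lit 0) (nat_lit 39782440144) (nat_lit 456) (nat_lit 72186035239) (nat_lit 532) (nat_lit 57029378698) (nat_lit 33) (nat_lit 5) (nat_lit 39) (nat_lit 5) (nat_lit 40) (nat_lit 5) (nat_lit 292) (nat_lit 284) (nat_lit 144))))) (XT.nd (nat_lit 234) (nat_lit 456) (nat_lit 0) (XT.nd (nat_lit 78) (nat_lit 228) (nat_lit 0) (XT.lf (nat_lit 0) (nat_lit 122711353300) (nat_lit 456) (nat_lit 7502075871) (nat_lit 532) (nat_lit 46567635115) (nat_lit 33) (nat_lit 5) (nat_lit 39) (nat_lit 5) (nat_lit 40) (nat_lit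 5) (nat_lit 293) (nat_lit 284) (nat_lit 143)) (XT.nd (nat_lit 78) (nat_lit 0) (nat_lit 0) (XT.lf (nat_lit 0) (nat_lit 26935145562) (nat_lit 228) (nat_lit 125130077256) (nat_lit 304) (nat_lit 32949930140) (nat_lit 30) (nat_lit 5) (nat_lit 33) (nat_lit 5) (nat_lit 34) (nat_lit 5) (nat_lit 294) (nat_lit 284) (nat_lit 142)) (XT.lf (nat_lit 0) (nat_lit 117290038812) (nat_lit 228) (nat_lit 60043195038) (nat_lit 304) (nat_lit 16441290014) (nat_lit 30) (nat_lit 5) (nat_lit 33) (nat_lit 5) (nat_lit 34) (nat_lit 5) (nat_lit 295) (nat_lit 284) (nat_lit 141)))) (XT.nd (nat_lit 156) (nat_lit 228) (nat_lit 0) (XT.nd (nat_lit 78) (nat_lit 0) (nat_lit 0) (XT.lf (nat_lit 0) (nat_lit 1867227227) (nat_lit 228) (nat_lit 191247332790) (nat_lit 76) (nat_lit 10073525023) (nat_lit 27) (nat_lit 5) (nat_lit 30) (nat_lit 5) (nat_lit 28) (nat_lit 5) (nat_lit 296) (nat_lit 284) (nat_lit 140)) (XT.lf (nat_lit 0)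 (nat_lit 24457076927) (nat_lit 228) (nat_lit 103438841393) (nat_lit 76) (nat_lit 85128257280) (nat_lit 27) (nat_lit 5) (nat_lit 30) (nat_lit 5) (nat_lit 28) (nat_lit 5) (nat_lit 297) (nat_lit 284) (nat_lit 139))) (XT.nd (nat_lit 78) (nat_lit 228) (nat_lit 0) (XT.lf (nat_lit 0) (nat_lit 48853934491) (nat_lit 228) (nat_lit 8605883211) (nat_lit 76) (nat_lit 166187350887) (nat_lit 27) (nat_lit 5) (nat_lit 30) (nat_lit 5) (nat_lit 28) (nat_lit 5) (nat_lit 298) (nat_lit 284) (nat_lit 138)) (XT.lf (nat_lit 0) (nat_lit 78086686947) (nat_lit 304) (nat_lit 136685732101) (nat_lit 76) (nat_lit 20116850979) (nat_lit 24) (nat_lit 5) (nat_lit 28) (nat_lit 5) (nat_lit 25) (nat_lit 5) (nat_lit 299) (nat_lit 284) (nat_lit 137)))))) (XT.nd (nat_lit 468) (nat_lit 304) (nat_lit 0) (XT.nd (nat_lit 234) (nat_lit 380) (nat_lit 0) (XT.nd (nat_lit 78) (nat_lit 152) (nat_lit 0) (XT.lf (nat_lit 0) (nat_lit 111391774367)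 (nat_lit 304) (nat_lit 34463557499) (nat_lit 76) (nat_lit 101036711196) (nat_lit 24) (nat_lit 5) (nat_lit 28) (nat_lit 5) (nat_lit 25) (nat_lit 5) (nat_lit 300) (nat_lit 284) (nat_lit 136)) (XT.nd (nat_lit 78) (nat_lit 0) (nat_lit 0) (XT.lf (nat_lit 0) (nat_lit 79934867630) (nat_lit 152) (nat_lit 69348688659) (nat_lit 228) (nat_lit 110417699264) (nat_lit 22) (nat_lit 5) (nat_lit 24) (nat_lit 5) (nat_lit 25) (nat_lit 5) (nat_lit 301) (nat_lit 284) (nat_lit 135)) (XT.lf (nat_lit 0) (nat_lit 191492656107) (nat_lit 228) (nat_lit 68358700051) (nat_lit 76) (nat_lit 13580971423) (nat_lit 22) (nat_lit 5) (nat_lit 25) (nat_lit 5) (nat_lit 23) (nat_lit 5) (nat_lit 302) (nat_lit 284) (nat_lit 134)))) (XT.nd (nat_lit 78) (nat_lit 228) (nat_lit 0) (XT.lf (nat_lit 0) (nat_lit 52801502357) (nat_lit 152) (nat_lit 187347991662) (nat_lit 228) (nat_lit 47866711072) (nat_lit 20) (nat_lit 5) (nat_lit 22)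 (nat_lit 5) (nat_lit 23) (nat_lit 5) (nat_lit 303) (nat_lit 284) (nat_lit 133)) (XT.nd (nat_lit 78) (nat_lit 228) (nat_lit 0) (XT.lf (nat_lit 0) (nat_lit 187541964532) (nat_lit 152) (nat_lit 107025836031) (nat_lit 228) (nat_lit 9049478996) (nat_lit 20) (nat_lit 5) (nat_lit 22) (nat_lit 5) (nat_lit 23) (nat_lit 5) (nat_lit 304) (nat_lit 284) (nat_lit 132)) (XT.lf (nat_lit 0) (nat_lit 12426055749) (nat_lit 152) (nat_lit 19101355148) (nat_lit 228) (nat_lit 288851883422) (nat_lit 17) (nat_lit 5) (nat_lit 19) (nat_lit 5) (nat_lit 20) (nat_lit 5) (nat_lit 305) (nat_lit 284) (nat_lit 131))))) (XT.nd (nat_lit 234) (nat_lit 152) (nat_lit 0) (XT.nd (nat_lit 78) (nat_lit 152) (nat_lit 0) (XT.lf (nat_lit 0) (nat_lit 79941931702) (nat_lit 228) (nat_lit 182561555761) (nat_lit 76) (nat_lit 75553548139) (nat_lit 17) (nat_lit 5) (nat_lit 20) (nat_lit 5) (nat_lit 18) (nat_lit 5) (nat_lit 306) (nat_lit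 284) (nat_lit 130)) (XT.nd (nat_lit 78) (nat_lit 152) (nat_lit 0) (XT.lf (nat_lit 0) (nat_lit 132725645147) (nat_lit 228) (nat_lit 47634838623) (nat_lit 76) (nat_lit 176748830297) (nat_lit 17) (nat_lit 5) (nat_lit 20) (nat_lit 5) (nat_lit 18) (nat_lit 5) (nat_lit 307) (nat_lit 284) (nat_lit 129)) (XT.lf (nat_lit 0) (nat_lit 103250894536) (nat_lit 152) (nat_lit 88964247517) (nat_lit 228) (nat_lit 185271986179) (nat_lit 15) (nat_lit 5) (nat_lit 17) (nat_lit 5) (nat_lit 18) (nat_lit 5) (nat_lit 308) (nat_lit 284) (nat_lit 128)))) (XT.nd (nat_lit 156) (nat_lit 76) (nat_lit 0) (XT.nd (nat_lit 78) (nat_lit 76) (nat_lit 0) (XT.lf (nat_lit 0) (nat_lit 258034287274) (nat_lit 228) (nat_lit 130742769362) (nat_lit 76) (nat_lit 10592472115) (nat_lit 15) (nat_lit 5) (nat_lit 18) (nat_lit 5) (nat_lit 16) (nat_lit 4) (nat_lit 309) (nat_lit 284) (nat_lit 127)) (XT.lf (nat_lit 0) (nat_lit 23073501413)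 (nat_lit 76) (nat_lit 308911050471) (nat_lit 152) (nat_lit 90788722688) (nat_lit 14) (nat_lit 5) (nat_lit 15) (nat_lit 5) (nat_lit 16) (nat_lit 4) (nat_lit 310) (nat_lit 284) (nat_lit 126))) (XT.nd (nat_lit 78) (nat_lit 76) (nat_lit 0) (XT.lf (nat_lit 0) (nat_lit 196630393545) (nat_lit 76) (nat_lit 218795096337) (nat_lit 152) (nat_lit 32337858264) (nat_lit 14) (nat_lit 5) (nat_lit 15) (nat_lit 5) (nat_lit 16) (nat_lit 4) (nat_lit 311) (nat_lit 284) (nat_lit 125)) (XT.lf (nat_lit 0) (nat_lit 29248798386) (nat_lit 152) (nat_lit 91421400406) (nat_lit 76) (nat_lit 354023197413) (nat_lit 13) (nat_lit 5) (nat_lit 15) (nat_lit 5) (nat_lit 14) (nat_lit 5) (nat_lit 312) (nat_lit 284) (nat_lit 124))))))))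
noncomputable def xc115 : XT := (XT.nd (nat_lit 35880) (nat_lit 0) (nat_lit 380) (XT.nd (nat_lit 1014) (nat_lit 152) (nat_lit 0) (XT.nd (nat_lit 468) (nat_lit 228) (nat_lit 0) (XT.nd (nat_lit 234) (nat_lit 76) (nat_lit 0) (XT.nd (nat_lit 78) (nat_lit 0) (nat_lit 0) (XT.lf (nat_lit 0) (nat_lit 84451623935) (nat_lit 152) (nat_lit 11594666373) (nat_lit 228) (nat_lit 407501883498) (nat_lit 11) (nat_lit 5) (nat_lit 13) (nat_lit 5) (nat_lit 14) (nat_lit 5) (nat_lit 313) (nat_lit 284) (nat_lit 123)) (XT.nd (nat_lit 78) (nat_lit 0) (nat_lit 0) (XT.lf (nat_lit 0) (nat_lit 173306333830) (nat_lit 228) (nat_lit 257536985472) (nat_lit 76) (nat_lit 103458514326) (nat_lit 11) (nat_lit 5) (nat_lit 14) (nat_lit 5) (nat_lit 12) (nat_lit 4) (nat_lit 314) (nat_lit 284) (nat_lit 122)) (XT.lf (nat_lit 0) (nat_lit 257048271706) (nat_lit 228) (nat_lit 83353930896) (nat_lit 76) (nat_lit 227089496545) (nat_lit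 11) (nat_lit 5) (nat_lit 14) (nat_lit 5) (nat_lit 12) (nat_lit 4) (nat_lit 315) (nat_lit 284) (nat_lit 121)))) (XT.nd (nat_lit 78) (nat_lit 0) (nat_lit 0) (XT.lf (nat_lit 0) (nat_lit 110280330512) (nat_lit 76) (nat_lit 239861414540) (nat_lit 152) (nat_lit 252982834584) (nat_lit 10) (nat_lit 5) (nat_lit 11) (nat_lit 5) (nat_lit 12) (nat_lit 4) (nat_lit 316) (nat_lit 284) (nat_lit 120)) (XT.nd (nat_lit 78) (nat_lit 0) (nat_lit 0) (XT.lf (nat_lit 0) (nat_lit 324145641127) (nat_lit 76) (nat_lit 128816037426) (nat_lit 152) (nat_lit 188464093581) (nat_lit 10) (nat_lit 5) (nat_lit 11) (nat_lit 5) (nat_lit 12) (nat_lit 4) (nat_lit 317) (nat_lit 284) (nat_lit 119)) (XT.lf (nat_lit 0) (nat_lit 555120080653) (nat_lit 76) (nat_lit 8887068767) (nat_lit 152) (nat_lit 118783915340) (nat_lit 10) (nat_lit 5) (nat_lit 11) (nat_lit 5) (nat_lit 12) (nat_lit 4) (nat_lit 318) (nat_lit 284) (nat_lit 118)))))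 (XT.nd (nat_lit 234) (nat_lit 76) (nat_lit 0) (XT.nd (nat_lit 78) (nat_lit 76) (nat_lit 0) (XT.lf (nat_lit 0) (nat_lit 78113028300) (nat_lit 76) (nat_lit 610603099866) (nat_lit 76) (nat_lit 38367063145) (nat_lit 9) (nat_lit 4) (nat_lit 10) (nat_lit 5) (nat_lit 10) (nat_lit 4) (nat_lit 319) (nat_lit 284) (nat_lit 117)) (XT.nd (nat_lit 78) (nat_lit 0) (nat_lit 0) (XT.lf (nat_lit 0) (nat_lit 49870013543) (nat_lit 152) (nat_lit 468506519588) (nat_lit 76) (nat_lit 256143897383) (nat_lit 8) (nat_lit 5) (nat_lit 10) (nat_lit 5) (nat_lit 9) (nat_lit 4) (nat_lit 320) (nat_lit 284) (nat_lit 116)) (XT.lf (nat_lit 0) (nat_lit 143093188811) (nat_lit 152) (nat_lit 274602417845) (nat_lit 76) (nat_lit 407977322502) (nat_lit 8) (nat_lit 5) (nat_lit 10) (nat_lit 5) (nat_lit 9) (nat_lit 4) (nat_lit 321) (nat_lit 284) (nat_lit 115)))) (XT.nd (nat_lit 156) (nat_lit 0) (nat_lit 0) (XT.nd (nat_lit 78) (nat_lit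 76) (nat_lit 0) (XT.lf (nat_lit 0) (nat_lit 243774172175) (nat_lit 152) (nat_lit 65186067646) (nat_lit 76) (nat_lit 571957391642) (nat_lit 8) (nat_lit 5) (nat_lit 10) (nat_lit 5) (nat_lit 9) (nat_lit 4) (nat_lit 322) (nat_lit 284) (nat_lit 114)) (XT.lf (nat_lit 0) (nat_lit 169460623491) (nat_lit 76) (nat_lit 187124500262) (nat_lit 152) (nat_lit 583670747126) (nat_lit 7) (nat_lit 5) (nat_lit 8) (nat_lit 5) (nat_lit 9) (nat_lit 4) (nat_lit 323) (nat_lit 284) (nat_lit 113))) (XT.nd (nat_lit 78) (nat_lit 0) (nat_lit 0) (XT.lf (nat_lit 0) (nat_lit 426586167433) (nat_lit 76) (nat_lit 53617045531) (nat_lit 152) (nat_lit 523995375647) (nat_lit 7) (nat_lit 5) (nat_lit 8) (nat_lit 5) (nat_lit 9) (nat_lit 4) (nat_lit 324) (nat_lit 284) (nat_lit 112)) (XT.lf (nat_lit 0) (nat_lit 615888945431) (nat_lit 152) (nat_lit 371153272757) (nat_lit 0) (nat_lit 86040249962) (nat_lit 7) (nat_lit 5) (nat_lit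 9) (nat_lit 4) (nat_lit 7) (nat_lit 4) (nat_lit 325) (nat_lit 284) (nat_lit 111)))))) (XT.nd (nat_lit 34320) (nat_lit 0) (nat_lit 2356) (XT.nd (nat_lit 234) (nat_lit 76) (nat_lit 0) (XT.nd (nat_lit 78) (nat_lit 76) (nat_lit 0) (XT.lf (nat_lit 0) (nat_lit 763822151151) (nat_lit 152) (nat_lit 149570106904) (nat_lit 0) (nat_lit 233973390893) (nat_lit 7) (nat_lit 5) (nat_lit 9) (nat_lit 4) (nat_lit 7) (nat_lit 4) (nat_lit 326) (nat_lit 284) (nat_lit 110)) (XT.nd (nat_lit 78) (nat_lit 0) (nat_lit 0) (XT.lf (nat_lit 0) (nat_lit 94465184137) (nat_lit 76) (nat_lit 831396685926) (nat_lit 76) (nat_lit 301547865676) (nat_lit 6) (nat_lit 4) (nat_lit 7) (nat_lit 5) (nat_lit 7) (nat_lit 4) (nat_lit 327) (nat_lit 284) (nat_lit 109)) (XT.lf (nat_lit 0) (nat_lit 366529425294) (nat_lit 76) (nat_lit 738424820832) (nat_lit 76) (nat_lit 208575945035) (nat_lit 6) (nat_lit 4) (nat_lit 7) (nat_lit 5) (nat_lit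 7) (nat_lit 4) (nat_lit 328) (nat_lit 284) (nat_lit 108)))) (XT.nd (nat_lit 78) (nat_lit 76) (nat_lit 0) (XT.lf (nat_lit 0) (nat_lit 660358752339) (nat_lit 76) (nat_lit 638015230173) (nat_lit 76) (nat_lit 108166302944) (nat_lit 6) (nat_lit 4) (nat_lit 7) (nat_lit 5) (nat_lit 7) (nat_lit 4) (nat_lit 329) (nat_lit 284) (nat_lit 107)) (XT.nd (nat_lit 78) (nat_lit 0) (nat_lit 0) (XT.lf (nat_lit 0) (nat_lit 262270024) (nat_lit 152) (nat_lit 529303453201) (nat_lit 76) (nat_lit 977424935146) (nat_lit 5) (nat_lit 5) (nat_lit 7) (nat_lit 5) (nat_lit 6) (nat_lit 4) (nat_lit 330) (nat_lit 284) (nat_lit 106)) (XT.lf (nat_lit 0) (nat_lit 111521312731) (nat_lit 152) (nat_lit 297884688466) (nat_lit 76) (nat_lit 1205846300916) (nat_lit 5) (nat_lit 5) (nat_lit 7) (nat_lit 5) (nat_lit 6) (nat_lit 4) (nat_lit 331) (nat_lit 284) (nat_lit 105))))) (XT.nd (nat_lit 234) (nat_lit 0) (nat_lit 76) (XT.nd (nat_lit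 78) (nat_lit 0) (nat_lit 0) (XT.lf (nat_lit 0) (nat_lit 24107512818) (nat_lit 532) (nat_lit 20688814526) (nat_lit 532) (nat_lit 20688814526) (nat_lit 36) (nat_lit 3) (nat_lit 43) (nat_lit 3) (nat_lit 43) (nat_lit 5) (nat_lit 285) (nat_lit 285) (nat_lit 150)) (XT.nd (nat_lit 78) (nat_lit 0) (nat_lit 76) (XT.lf (nat_lit 76) (nat_lit 15378041367) (nat_lit 0) (nat_lit 35138827898) (nat_lit 532) (nat_lit 85662348419) (nat_lit 37) (nat_lit 5) (nat_lit 36) (nat_lit 3) (nat_lit 43) (nat_lit 5) (nat_lit 286) (nat_lit 285) (nat_lit 149)) (XT.lf (nat_lit 0) (nat_lit 54732537691) (nat_lit 456) (nat_lit 63285919666) (nat_lit 532) (nat_lit 23648036601) (nat_lit 37) (nat_lit 5) (nat_lit 43) (nat_lit 5) (nat_lit 44) (nat_lit 5) (nat_lit 287) (nat_lit 285) (nat_lit 148)))) (XT.nd (nat_lit 156) (nat_lit 0) (nat_lit 76) (XT.nd (nat_lit 78) (nat_lit 0) (nat_lit 0) (XT.lf (nat_lit 0) (nat_lit 60197840446)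 (nat_lit 456) (nat_lit 2082349810) (nat_lit 532) (nat_lit 85239573277) (nat_lit 37) (nat_lit 5) (nat_lit 43) (nat_lit 5) (nat_lit 44) (nat_lit 5) (nat_lit 288) (nat_lit 285) (nat_lit 147)) (XT.lf (nat_lit 76) (nat_lit 67388348862) (nat_lit 0) (nat_lit 332417403) (nat_lit 532) (nat_lit 85990898045) (nat_lit 38) (nat_lit 5) (nat_lit 37) (nat_lit 5) (nat_lit 44) (nat_lit 5) (nat_lit 289) (nat_lit 285) (nat_lit 146))) (XT.nd (nat_lit 78) (nat_lit 0) (nat_lit 0) (XT.lf (nat_lit 0) (nat_lit 77504705125) (nat_lit 456) (nat_lit 19461966576) (nat_lit 532) (nat_lit 63299512560) (nat_lit 38) (nat_lit 5) (nat_lit 44) (nat_lit 5) (nat_lit 45) (nat_lit 5) (nat_lit 290) (nat_lit 285) (nat_lit 145)) (XT.lf (nat_lit 76) (nat_lit 55516622769) (nat_lit 0) (nat_lit 33898293500) (nat_lit 532) (nat_lit 77822666289) (nat_lit 39) (nat_lit 5) (nat_lit 38) (nat_lit 5) (nat_lit 45) (nat_lit 5) (nat_lit 291)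 (nat_lit 285) (nat_lit 144))))))) (XT.nd (nat_lit 1014) (nat_lit 760) (nat_lit 0) (XT.nd (nat_lit 468) (nat_lit 532) (nat_lit 0) (XT.nd (nat_lit 234) (nat_lit 456) (nat_lit 0) (XT.nd (nat_lit 78) (nat_lit 456) (nat_lit 0) (XT.lf (nat_lit 0) (nat_lit 103646537290) (nat_lit 456) (nat_lit 37960726445) (nat_lit 76) (nat_lit 33049942769) (nat_lit 39) (nat_lit 5) (nat_lit 45) (nat_lit 5) (nat_lit 40) (nat_lit 5) (nat_lit 292) (nat_lit 285) (nat_lit 143)) (XT.nd (nat_lit 78) (nat_lit 0) (nat_lit 0) (XT.lf (nat_lit 0) (nat_lit 42969140955) (nat_lit 456) (nat_lit 77961210690) (nat_lit 532) (nat_lit 61586956765) (nat_lit 33) (nat_lit 5) (nat_lit 39) (nat_lit 5) (nat_lit 40) (nat_lit 5) (nat_lit 293) (nat_lit 285) (nat_lit 142)) (XT.lf (nat_lit 0) (nat_lit 132532063044) (nat_lit 456) (nat_lit 8102512896) (nat_lit 532) (nat_lit 50288627194) (nat_lit 33) (nat_lit 5) (nat_lit 39) (nat_lit 5) (nat_lit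 40) (nat_lit 5) (nat_lit 294) (nat_lit 285) (nat_lit 141)))) (XT.nd (nat_lit 78) (nat_lit 228) (nat_lit 0) (XT.lf (nat_lit 0) (nat_lit 29094006326) (nat_lit 228) (nat_lit 135140296439) (nat_lit 304) (nat_lit 35581734479) (nat_lit 30) (nat_lit 5) (nat_lit 33) (nat_lit 5) (nat_lit 34) (nat_lit 5) (nat_lit 295) (nat_lit 285) (nat_lit 140)) (XT.nd (nat_lit 78) (nat_lit 228) (nat_lit 0) (XT.lf (nat_lit 0) (nat_lit 126676991101) (nat_lit 228) (nat_lit 64846477495) (nat_lit 304) (nat_lit 17752713518) (nat_lit 30) (nat_lit 5) (nat_lit 33) (nat_lit 5) (nat_lit 34) (nat_lit 5) (nat_lit 296) (nat_lit 285) (nat_lit 139)) (XT.lf (nat_lit 0) (nat_lit 2020119341) (nat_lit 228) (nat_lit 206542973127) (nat_lit 76) (nat_lit 10879743191) (nat_lit 27) (nat_lit 5) (nat_lit 30) (nat_lit 5) (nat_lit 28) (nat_lit 5) (nat_lit 297) (nat_lit 285) (nat_lit 138))))) (XT.nd (nat_lit 234) (nat_lit 304) (nat_lit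 0) (XT.nd (nat_lit 78) (nat_lit 228) (nat_lit 0) (XT.lf (nat_lit 0) (nat_lit 26416896726) (nat_lit 228) (nat_lit 111710109552) (nat_lit 76) (nat_lit 91938829128) (nat_lit 27) (nat_lit 5) (nat_lit 30) (nat_lit 5) (nat_lit 28) (nat_lit 5) (nat_lit 298) (nat_lit 285) (nat_lit 137)) (XT.nd (nat_lit 78) (nat_lit 228) (nat_lit 0) (XT.lf (nat_lit 0) (nat_lit 52765261884) (nat_lit 228) (nat_lit 9290799096) (nat_lit 76) (nat_lit 179482627167) (nat_lit 27) (nat_lit 5) (nat_lit 30) (nat_lit 5) (nat_lit 28) (nat_lit 5) (nat_lit 299) (nat_lit 285) (nat_lit 136)) (XT.lf (nat_lit 0) (nat_lit 84336508944) (nat_lit 304) (nat_lit 147616898343) (nat_lit 76) (nat_lit 21726761418) (nat_lit 24) (nat_lit 5) (nat_lit 28) (nat_lit 5) (nat_lit 25) (nat_lit 5) (nat_lit 300) (nat_lit 285) (nat_lit 135)))) (XT.nd (nat_lit 156) (nat_lit 152) (nat_lit 0) (XT.nd (nat_lit 78) (nat_lit 152) (nat_lit 0) (XT.lf (nat_lit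 0) (nat_lit 120305789502) (nat_lit 304) (nat_lit 37217223279) (nat_lit 76) (nat_lit 109120168796) (nat_lit 24) (nat_lit 5) (nat_lit 28) (nat_lit 5) (nat_lit 25) (nat_lit 5) (nat_lit 301) (nat_lit 285) (nat_lit 134)) (XT.lf (nat_lit 0) (nat_lit 86332989308) (nat_lit 152) (nat_lit 74895806797) (nat_lit 228) (nat_lit 119248345211) (nat_lit 22) (nat_lit 5) (nat_lit 24) (nat_lit 5) (nat_lit 25) (nat_lit 5) (nat_lit 302) (nat_lit 285) (nat_lit 133))) (XT.nd (nat_lit 78) (nat_lit 152) (nat_lit 0) (XT.lf (nat_lit 0) (nat_lit 206814451929) (nat_lit 228) (nat_lit 73824129146) (nat_lit 76) (nat_lit 14668132552) (nat_lit 22) (nat_lit 5) (nat_lit 25) (nat_lit 5) (nat_lit 23) (nat_lit 5) (nat_lit 303) (nat_lit 285) (nat_lit 132)) (XT.lf (nat_lit 0) (nat_lit 57028806748) (nat_lit 152) (nat_lit 202334930161) (nat_lit 228) (nat_lit 51693573127) (nat_lit 20) (nat_lit 5) (nat_lit 22) (nat_lit 5) (nat_lit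 23) (nat_lit 5) (nat_lit 304) (nat_lit 285) (nat_lit 131)))))) (XT.nd (nat_lit 468) (nat_lit 380) (nat_lit 0) (XT.nd (nat_lit 234) (nat_lit 152) (nat_lit 0) (XT.nd (nat_lit 78) (nat_lit 228) (nat_lit 0) (XT.lf (nat_lit 0) (nat_lit 202548270031) (nat_lit 152) (nat_lit 115587068808) (nat_lit 228) (nat_lit 9771145805) (nat_lit 20) (nat_lit 5) (nat_lit 22) (nat_lit 5) (nat_lit 23) (nat_lit 5) (nat_lit 305) (nat_lit 285) (nat_lit 130)) (XT.nd (nat_lit 78) (nat_lit 0) (nat_lit 0) (XT.lf (nat_lit 0) (nat_lit 13423132979) (nat_lit 152) (nat_lit 20628558395) (nat_lit 228) (nat_lit 311957772502) (nat_lit 17) (nat_lit 5) (nat_lit 19) (nat_lit 5) (nat_lit 20) (nat_lit 5) (nat_lit 306) (nat_lit 285) (nat_lit 129)) (XT.lf (nat_lit 0) (nat_lit 86339239363) (nat_lit 228) (nat_lit 197163568195) (nat_lit 76) (nat_lit 81598628179) (nat_lit 17) (nat_lit 5) (nat_lit 20) (nat_lit 5) (nat_lit 18) (nat_lit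 5) (nat_lit 307) (nat_lit 285) (nat_lit 128)))) (XT.nd (nat_lit 78) (nat_lit 152) (nat_lit 0) (XT.lf (nat_lit 0) (nat_lit 143345505208) (nat_lit 228) (nat_lit 51442929393) (nat_lit 76) (nat_lit 190889473934) (nat_lit 17) (nat_lit 5) (nat_lit 20) (nat_lit 5) (nat_lit 18) (nat_lit 5) (nat_lit 308) (nat_lit 285) (nat_lit 127)) (XT.nd (nat_lit 78) (nat_lit 0) (nat_lit 0) (XT.lf (nat_lit 0) (nat_lit 111513594158) (nat_lit 152) (nat_lit 96080496953) (nat_lit 228) (nat_lit 200091862822) (nat_lit 15) (nat_lit 5) (nat_lit 17) (nat_lit 5) (nat_lit 18) (nat_lit 5) (nat_lit 309) (nat_lit 285) (nat_lit 126)) (XT.lf (nat_lit 0) (nat_lit 278678659059) (nat_lit 228) (nat_lit 141199643502) (nat_lit 76) (nat_lit 11440653055) (nat_lit 15) (nat_lit 5) (nat_lit 18) (nat_lit 5) (nat_lit 16) (nat_lit 4) (nat_lit 310) (nat_lit 285) (nat_lit 125))))) (XT.nd (nat_lit 234) (nat_lit 228) (nat_lit 0) (XT.nd (nat_lit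 78) (nat_lit 76) (nat_lit 0) (XT.lf (nat_lit 0) (nat_lit 24921864444) (nat_lit 76) (nat_lit 333623019457) (nat_lit 152) (nat_lit 98050122459) (nat_lit 14) (nat_lit 5) (nat_lit 15) (nat_lit 5) (nat_lit 16) (nat_lit 4) (nat_lit 311) (nat_lit 285) (nat_lit 124)) (XT.nd (nat_lit 78) (nat_lit 76) (nat_lit 0) (XT.lf (nat_lit 0) (nat_lit 212363124027) (nat_lit 76) (nat_lit 236297856773) (nat_lit 152) (nat_lit 34923314662) (nat_lit 14) (nat_lit 5) (nat_lit 15) (nat_lit 5) (nat_lit 16) (nat_lit 4) (nat_lit 312) (nat_lit 285) (nat_lit 123)) (XT.lf (nat_lit 0) (nat_lit 31590085232) (nat_lit 152) (nat_lit 98732907141) (nat_lit 76) (nat_lit 382345761121) (nat_lit 13) (nat_lit 5) (nat_lit 15) (nat_lit 5) (nat_lit 14) (nat_lit 5) (nat_lit 313) (nat_lit 285) (nat_lit 122)))) (XT.nd (nat_lit 156) (nat_lit 76) (nat_lit 0) (XT.nd (nat_lit 78) (nat_lit 0) (nat_lit 0) (XT.lf (nat_lit 0) (nat_lit 91209903317)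 (nat_lit 152) (nat_lit 12521422443) (nat_lit 228) (nat_lit 440100591882) (nat_lit 11) (nat_lit 5) (nat_lit 13) (nat_lit 5) (nat_lit 14) (nat_lit 5) (nat_lit 314) (nat_lit 285) (nat_lit 121)) (XT.lf (nat_lit 0) (nat_lit 187172092279) (nat_lit 228) (nat_lit 278137870345) (nat_lit 76) (nat_lit 111735914323) (nat_lit 11) (nat_lit 5) (nat_lit 14) (nat_lit 5) (nat_lit 12) (nat_lit 4) (nat_lit 315) (nat_lit 285) (nat_lit 120))) (XT.nd (nat_lit 78) (nat_lit 76) (nat_lit 0) (XT.lf (nat_lit 0) (nat_lit 277613292463) (nat_lit 228) (nat_lit 90020325029) (nat_lit 76) (nat_lit 245257321871) (nat_lit 11) (nat_lit 5) (nat_lit 14) (nat_lit 5) (nat_lit 12) (nat_lit 4) (nat_lit 316) (nat_lit 285) (nat_lit 119)) (XT.lf (nat_lit 0) (nat_lit 119104628674) (nat_lit 76) (nat_lit 259049574164) (nat_lit 152) (nat_lit 273220250942) (nat_lit 10) (nat_lit 5) (nat_lit 11) (nat_lit 5) (nat_lit 12) (nat_lit 4) (nat_lit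 317) (nat_lit 285) (nat_lit 118))))))))
noncomputable def xc116 : XT := (XT.nd (nat_lit 35958) (nat_lit 0) (nat_lit 152) (XT.nd (nat_lit 936) (nat_lit 0) (nat_lit 0) (XT.nd (nat_lit 468) (nat_lit 152) (nat_lit 0) (XT.nd (nat_lit 234) (nat_lit 76) (nat_lit 0) (XT.nd (nat_lit 78) (nat_lit 76) (nat_lit 0) (XT.lf (nat_lit 0) (nat_lit 350079025493) (nat_lit 76) (nat_lit 139120622699) (nat_lit 152) (nat_lit 203540100320) (nat_lit 10) (nat_lit 5) (nat_lit 11) (nat_lit 5) (nat_lit 12) (nat_lit 4) (nat_lit 318) (nat_lit 285) (nat_lit 117)) (XT.nd (nat_lit 78) (nat_lit 76) (nat_lit 0) (XT.lf (nat_lit 0) (nat_lit 599531291805) (nat_lit 76) (nat_lit 9597388230) (nat_lit 152) (nat_lit 128285590838) (nat_lit 10) (nat_lit 5) (nat_lit 11) (nat_lit 5) (nat_lit 12) (nat_lit 4) (nat_lit 319) (nat_lit 285) (nat_lit 116)) (XT.lf (nat_lit 0) (nat_lit 84363696562) (nat_lit 76) (nat_lit 659450662999) (nat_lit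 76) (nat_lit 41435409565) (nat_lit 9) (nat_lit 4) (nat_lit 10) (nat_lit 5) (nat_lit 10) (nat_lit 4) (nat_lit 320) (nat_lit 285) (nat_lit 115)))) (XT.nd (nat_lit 78) (nat_lit 0) (nat_lit 0) (XT.lf (nat_lit 0) (nat_lit 53860510623) (nat_lit 152) (nat_lit 505985486534) (nat_lit 76) (nat_lit 276635994233) (nat_lit 8) (nat_lit 5) (nat_lit 10) (nat_lit 5) (nat_lit 9) (nat_lit 4) (nat_lit 321) (nat_lit 285) (nat_lit 114)) (XT.nd (nat_lit 78) (nat_lit 0) (nat_lit 0) (XT.lf (nat_lit 0) (nat_lit 154541473542) (nat_lit 152) (nat_lit 296569171808) (nat_lit 76) (nat_lit 440616050024) (nat_lit 8) (nat_lit 5) (nat_lit 10) (nat_lit 5) (nat_lit 9) (nat_lit 4) (nat_lit 322) (nat_lit 285) (nat_lit 113)) (XT.lf (nat_lit 0) (nat_lit 263276874121) (nat_lit 152) (nat_lit 70399620221) (nat_lit 76) (nat_lit 617714484568) (nat_lit 8) (nat_lit 5) (nat_lit 10) (nat_lit 5) (nat_lit 9) (nat_lit 4) (nat_lit 323)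 (nat_lit 285) (nat_lit 112))))) (XT.nd (nat_lit 234) (nat_lit 76) (nat_lit 0) (XT.nd (nat_lit 78) (nat_lit 0) (nat_lit 0) (XT.lf (nat_lit 0) (nat_lit 183018772465) (nat_lit 76) (nat_lit 202093903703) (nat_lit 152) (nat_lit 630363603484) (nat_lit 7) (nat_lit 5) (nat_lit 8) (nat_lit 5) (nat_lit 9) (nat_lit 4) (nat_lit 324) (nat_lit 285) (nat_lit 111)) (XT.nd (nat_lit 78) (nat_lit 0) (nat_lit 0) (XT.lf (nat_lit 0) (nat_lit 460714263693) (nat_lit 76) (nat_lit 57905893822) (nat_lit 152) (nat_lit 565914261798) (nat_lit 7) (nat_lit 5) (nat_lit 8) (nat_lit 5) (nat_lit 9) (nat_lit 4) (nat_lit 325) (nat_lit 285) (nat_lit 110)) (XT.lf (nat_lit 0) (nat_lit 665160709127) (nat_lit 152) (nat_lit 400844380078) (nat_lit 0) (nat_lit 92923923267) (nat_lit 7) (nat_lit 5) (nat_lit 9) (nat_lit 4) (nat_lit 7) (nat_lit 4) (nat_lit 326) (nat_lit 285) (nat_lit 109)))) (XT.nd (nat_lit 78) (nat_lit 76) (nat_lit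 0) (XT.lf (nat_lit 0) (nat_lit 824928523301) (nat_lit 152) (nat_lit 161534646476) (nat_lit 0) (nat_lit 252691681893) (nat_lit 7) (nat_lit 5) (nat_lit 9) (nat_lit 4) (nat_lit 7) (nat_lit 4) (nat_lit 327) (nat_lit 285) (nat_lit 108)) (XT.nd (nat_lit 78) (nat_lit 0) (nat_lit 0) (XT.lf (nat_lit 0) (nat_lit 102023440785) (nat_lit 76) (nat_lit 897907959549) (nat_lit 76) (nat_lit 325671066709) (nat_lit 6) (nat_lit 4) (nat_lit 7) (nat_lit 5) (nat_lit 7) (nat_lit 4) (nat_lit 328) (nat_lit 285) (nat_lit 107)) (XT.lf (nat_lit 0) (nat_lit 395852744056) (nat_lit 76) (nat_lit 797498379415) (nat_lit 76) (nat_lit 225261438952) (nat_lit 6) (nat_lit 4) (nat_lit 7) (nat_lit 5) (nat_lit 7) (nat_lit 4) (nat_lit 329) (nat_lit 285) (nat_lit 106)))))) (XT.nd (nat_lit 34476) (nat_lit 0) (nat_lit 1824) (XT.nd (nat_lit 34242) (nat_lit 0) (nat_lit 2356) (XT.nd (nat_lit 34086) (nat_lit 0) (nat_lit 2280) (XT.lf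 (nat_lit 0) (nat_lit 713188345802) (nat_lit 76) (nat_lit 689056053139) (nat_lit 76) (nat_lit 116819068581) (nat_lit 6) (nat_lit 4) (nat_lit 7) (nat_lit 5) (nat_lit 7) (nat_lit 4) (nat_lit 330) (nat_lit 285) (nat_lit 105)) (XT.nd (nat_lit 78) (nat_lit 0) (nat_lit 0) (XT.lf (nat_lit 0) (nat_lit 26039432404) (nat_lit 532) (nat_lit 22342118882) (nat_lit 532) (nat_lit 22342118882) (nat_lit 36) (nat_lit 3) (nat_lit 43) (nat_lit 3) (nat_lit 43) (nat_lit 5) (nat_lit 286) (nat_lit 286) (nat_lit 148)) (XT.lf (nat_lit 76) (nat_lit 16611795109) (nat_lit 0) (nat_lit 37952653607) (nat_lit 532) (nat_lit 92508575460) (nat_lit 37) (nat_lit 5) (nat_lit 36) (nat_lit 3) (nat_lit 43) (nat_lit 5) (nat_lit 287) (nat_lit 286) (nat_lit 147)))) (XT.nd (nat_lit 78) (nat_lit 0) (nat_lit 0) (XT.lf (nat_lit 0) (nat_lit 59116848582) (nat_lit 456) (nat_lit 68344990685) (nat_lit 532) (nat_lit 25537487457) (nat_lit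 37) (nat_lit 5) (nat_lit 43) (nat_lit 5) (nat_lit 44) (nat_lit 5) (nat_lit 288) (nat_lit 286) (nat_lit 146)) (XT.nd (nat_lit 78) (nat_lit 0) (nat_lit 0) (XT.lf (nat_lit 0) (nat_lit 65018952752) (nat_lit 456) (nat_lit 2245416911) (nat_lit 532) (nat_lit 92056524258) (nat_lit 37) (nat_lit 5) (nat_lit 43) (nat_lit 5) (nat_lit 44) (nat_lit 5) (nat_lit 289) (nat_lit 286) (nat_lit 145)) (XT.lf (nat_lit 76) (nat_lit 72782848518) (nat_lit 0) (nat_lit 360555165) (nat_lit 532) (nat_lit 92864769859) (nat_lit 38) (nat_lit 5) (nat_lit 37) (nat_lit 5) (nat_lit 44) (nat_lit 5) (nat_lit 290) (nat_lit 286) (nat_lit 144))))) (XT.nd (nat_lit 234) (nat_lit 608) (nat_lit 0) (XT.nd (nat_lit 78) (nat_lit 0) (nat_lit 0) (XT.lf (nat_lit 0) (nat_lit 83709654660) (nat_lit 456) (nat_lit 21015319456) (nat_lit 532) (nat_lit 68362115125) (nat_lit 38) (nat_lit 5) (nat_lit 44) (nat_lit 5) (nat_lit 45) (nat_lit 5) (nat_lit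 291) (nat_lit 286) (nat_lit 143)) (XT.nd (nat_lit 78) (nat_lit 0) (nat_lit 76) (XT.lf (nat_lit 76) (nat_lit 59961465785) (nat_lit 0) (nat_lit 36610962652) (nat_lit 532) (nat_lit 84043793076) (nat_lit 39) (nat_lit 5) (nat_lit 38) (nat_lit 5) (nat_lit 45) (nat_lit 5) (nat_lit 292) (nat_lit 286) (nat_lit 142)) (XT.lf (nat_lit 0) (nat_lit 111942241284) (nat_lit 456) (nat_lit 40993973246) (nat_lit 76) (nat_lit 35693229515) (nat_lit 39) (nat_lit 5) (nat_lit 45) (nat_lit 5) (nat_lit 40) (nat_lit 5) (nat_lit 293) (nat_lit 286) (nat_lit 141)))) (XT.nd (nat_lit 156) (nat_lit 228) (nat_lit 0) (XT.nd (nat_lit 78) (nat_lit 0) (nat_lit 0) (XT.lf (nat_lit 0) (nat_lit 46410192120) (nat_lit 456) (nat_lit 84198358430) (nat_lit 532) (nat_lit 66509821890) (nat_lit 33) (nat_lit 5) (nat_lit 39) (nat_lit 5) (nat_lit 40) (nat_lit 5) (nat_lit 294) (nat_lit 286) (nat_lit 140)) (XT.lf (nat_lit 0) (nat_lit 143137887245)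 (nat_lit 456) (nat_lit 8750946229) (nat_lit 532) (nat_lit 54307929021) (nat_lit 33) (nat_lit 5) (nat_lit 39) (nat_lit 5) (nat_lit 40) (nat_lit 5) (nat_lit 295) (nat_lit 286) (nat_lit 139))) (XT.nd (nat_lit 78) (nat_lit 0) (nat_lit 0) (XT.lf (nat_lit 0) (nat_lit 31424998299) (nat_lit 228) (nat_lit 145951359834) (nat_lit 304) (nat_lit 38424680926) (nat_lit 30) (nat_lit 5) (nat_lit 33) (nat_lit 5) (nat_lit 34) (nat_lit 5) (nat_lit 296) (nat_lit 286) (nat_lit 138)) (XT.lf (nat_lit 0) (nat_lit 136814364711) (nat_lit 228) (nat_lit 70034047250) (nat_lit 304) (nat_lit 19169604385) (nat_lit 30) (nat_lit 5) (nat_lit 33) (nat_lit 5) (nat_lit 34) (nat_lit 5) (nat_lit 297) (nat_lit 286) (nat_lit 137))))))) (XT.nd (nat_lit 1014) (nat_lit 532) (nat_lit 0) (XT.nd (nat_lit 468) (nat_lit 532) (nat_lit 0) (XT.nd (nat_lit 234) (nat_lit 380) (nat_lit 0) (XT.nd (nat_lit 78) (nat_lit 0) (nat_lit 0) (XT.lf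 (nat_lit 0) (nat_lit 2184741523) (nat_lit 228) (nat_lit 223062856206) (nat_lit 76) (nat_lit 11750410855) (nat_lit 27) (nat_lit 5) (nat_lit 30) (nat_lit 5) (nat_lit 28) (nat_lit 5) (nat_lit 298) (nat_lit 286) (nat_lit 136)) (XT.nd (nat_lit 78) (nat_lit 0) (nat_lit 0) (XT.lf (nat_lit 0) (nat_lit 28533037940) (nat_lit 228) (nat_lit 120643626860) (nat_lit 76) (nat_lit 99294202318) (nat_lit 27) (nat_lit 5) (nat_lit 30) (nat_lit 5) (nat_lit 28) (nat_lit 5) (nat_lit 299) (nat_lit 286) (nat_lit 135)) (XT.lf (nat_lit 0) (nat_lit 56989065683) (nat_lit 228) (nat_lit 10031015380) (nat_lit 76) (nat_lit 193841484432) (nat_lit 27) (nat_lit 5) (nat_lit 30) (nat_lit 5) (nat_lit 28) (nat_lit 5) (nat_lit 300) (nat_lit 286) (nat_lit 134)))) (XT.nd (nat_lit 78) (nat_lit 152) (nat_lit 0) (XT.lf (nat_lit 0) (nat_lit 91085904831) (nat_lit 304) (nat_lit 159423084636) (nat_lit 76) (nat_lit 23465384466) (nat_lit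 24) (nat_lit 5) (nat_lit 28) (nat_lit 5) (nat_lit 25) (nat_lit 5) (nat_lit 301) (nat_lit 286) (nat_lit 133)) (XT.nd (nat_lit 78) (nat_lit 152) (nat_lit 0) (XT.lf (nat_lit 0) (nat_lit 129932544489) (nat_lit 304) (nat_lit 40191670054) (nat_lit 76) (nat_lit 117850228720) (nat_lit 24) (nat_lit 5) (nat_lit 28) (nat_lit 5) (nat_lit 25) (nat_lit 5) (nat_lit 302) (nat_lit 286) (nat_lit 132)) (XT.lf (nat_lit 0) (nat_lit 93242485335) (nat_lit 152) (nat_lit 80886805227) (nat_lit 228) (nat_lit 128785838006) (nat_lit 22) (nat_lit 5) (nat_lit 24) (nat_lit 5) (nat_lit 25) (nat_lit 5) (nat_lit 303) (nat_lit 286) (nat_lit 131))))) (XT.nd (nat_lit 234) (nat_lit 380) (nat_lit 0) (XT.nd (nat_lit 78) (nat_lit 152) (nat_lit 0) (XT.lf (nat_lit 0) (nat_lit 223361651406) (nat_lit 228) (nat_lit 79727258629) (nat_lit 76) (nat_lit 15842169074) (nat_lit 22) (nat_lit 5) (nat_lit 25) (nat_lit 5) (nat_lit 23) (nat_lit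 5) (nat_lit 304) (nat_lit 286) (nat_lit 130)) (XT.nd (nat_lit 78) (nat_lit 0) (nat_lit 0) (XT.lf (nat_lit 0) (nat_lit 61593841228) (nat_lit 152) (nat_lit 218520952255) (nat_lit 228) (nat_lit 55826937208) (nat_lit 20) (nat_lit 5) (nat_lit 22) (nat_lit 5) (nat_lit 23) (nat_lit 5) (nat_lit 305) (nat_lit 286) (nat_lit 129)) (XT.lf (nat_lit 0) (nat_lit 218754659356) (nat_lit 152) (nat_lit 124833319202) (nat_lit 228) (nat_lit 10550872869) (nat_lit 20) (nat_lit 5) (nat_lit 22) (nat_lit 5) (nat_lit 23) (nat_lit 5) (nat_lit 306) (nat_lit 286) (nat_lit 128)))) (XT.nd (nat_lit 156) (nat_lit 152) (nat_lit 0) (XT.nd (nat_lit 78) (nat_lit 0) (nat_lit 0) (XT.lf (nat_lit 0) (nat_lit 14499549435) (nat_lit 152) (nat_lit 22278067034) (nat_lit 228) (nat_lit 336912455351) (nat_lit 17) (nat_lit 5) (nat_lit 19) (nat_lit 5) (nat_lit 20) (nat_lit 5) (nat_lit 307) (nat_lit 286) (nat_lit 127)) (XT.lf (nat_lit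 0) (nat_lit 93248053002) (nat_lit 228) (nat_lit 212934157058) (nat_lit 76) (nat_lit 88127201038) (nat_lit 17) (nat_lit 5) (nat_lit 20) (nat_lit 5) (nat_lit 18) (nat_lit 5) (nat_lit 308) (nat_lit 286) (nat_lit 126))) (XT.nd (nat_lit 78) (nat_lit 152) (nat_lit 0) (XT.lf (nat_lit 0) (nat_lit 154814696078) (nat_lit 228) (nat_lit 55556052084) (nat_lit 76) (nat_lit 206161263889) (nat_lit 17) (nat_lit 5) (nat_lit 20) (nat_lit 5) (nat_lit 18) (nat_lit 5) (nat_lit 309) (nat_lit 286) (nat_lit 125)) (XT.lf (nat_lit 0) (nat_lit 120436934829) (nat_lit 152) (nat_lit 103766173365) (nat_lit 228) (nat_lit 216097598122) (nat_lit 15) (nat_lit 5) (nat_lit 17) (nat_lit 5) (nat_lit 18) (nat_lit 5) (nat_lit 310) (nat_lit 286) (nat_lit 124)))))) (XT.nd (nat_lit 468) (nat_lit 228) (nat_lit 0) (XT.nd (nat_lit 234) (nat_lit 228) (nat_lit 0) (XT.nd (nat_lit 78) (nat_lit 76) (nat_lit 0) (XT.lf (nat_lit 0) (nat_lit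 300974348220) (nat_lit 228) (nat_lit 152493430989) (nat_lit 76) (nat_lit 12356576743) (nat_lit 15) (nat_lit 5) (nat_lit 18) (nat_lit 5) (nat_lit 16) (nat_lit 4) (nat_lit 311) (nat_lit 286) (nat_lit 123)) (XT.nd (nat_lit 78) (nat_lit 0) (nat_lit 0) (XT.lf (nat_lit 0) (nat_lit 26917742301) (nat_lit 76) (nat_lit 360312076503) (nat_lit 152) (nat_lit 105892676456) (nat_lit 14) (nat_lit 5) (nat_lit 15) (nat_lit 5) (nat_lit 16) (nat_lit 4) (nat_lit 312) (nat_lit 286) (nat_lit 122)) (XT.lf (nat_lit 0) (nat_lit 229354144969) (nat_lit 76) (nat_lit 255200958917) (nat_lit 152) (nat_lit 37715831872) (nat_lit 14) (nat_lit 5) (nat_lit 15) (nat_lit 5) (nat_lit 16) (nat_lit 4) (nat_lit 313) (nat_lit 286) (nat_lit 121)))) (XT.nd (nat_lit 78) (nat_lit 152) (nat_lit 0) (XT.lf (nat_lit 0) (nat_lit 34118477729) (nat_lit 152) (nat_lit 106629649025) (nat_lit 76) (nat_lit 412934028932) (nat_lit 13) (nat_lit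 5) (nat_lit 15) (nat_lit 5) (nat_lit 14) (nat_lit 5) (nat_lit 314) (nat_lit 286) (nat_lit 120)) (XT.nd (nat_lit 78) (nat_lit 0) (nat_lit 0) (XT.lf (nat_lit 0) (nat_lit 98508538404) (nat_lit 152) (nat_lit 13522435586) (nat_lit 228) (nat_lit 475307402695) (nat_lit 11) (nat_lit 5) (nat_lit 13) (nat_lit 5) (nat_lit 14) (nat_lit 5) (nat_lit 315) (nat_lit 286) (nat_lit 119)) (XT.lf (nat_lit 0) (nat_lit 202146932828) (nat_lit 228) (nat_lit 300387121882) (nat_lit 76) (nat_lit 120675403768) (nat_lit 11) (nat_lit 5) (nat_lit 14) (nat_lit 5) (nat_lit 12) (nat_lit 4) (nat_lit 316) (nat_lit 286) (nat_lit 118))))) (XT.nd (nat_lit 234) (nat_lit 152) (nat_lit 0) (XT.nd (nat_lit 78) (nat_lit 76) (nat_lit 0) (XT.lf (nat_lit 0) (nat_lit 299823349534) (nat_lit 228) (nat_lit 97220304651) (nat_lit 76) (nat_lit 264878478267) (nat_lit 11) (nat_lit 5) (nat_lit 14) (nat_lit 5) (nat_lit 12) (nat_lit 4) (nat_lit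 317) (nat_lit 286) (nat_lit 117)) (XT.nd (nat_lit 78) (nat_lit 0) (nat_lit 0) (XT.lf (nat_lit 0) (nat_lit 128634603668) (nat_lit 76) (nat_lit 279772894058) (nat_lit 152) (nat_lit 295076833288) (nat_lit 10) (nat_lit 5) (nat_lit 11) (nat_lit 5) (nat_lit 12) (nat_lit 4) (nat_lit 318) (nat_lit 286) (nat_lit 116)) (XT.lf (nat_lit 0) (nat_lit 378086833366) (nat_lit 76) (nat_lit 150249674330) (nat_lit 152) (nat_lit 219822347484) (nat_lit 10) (nat_lit 5) (nat_lit 11) (nat_lit 5) (nat_lit 12) (nat_lit 4) (nat_lit 319) (nat_lit 286) (nat_lit 115)))) (XT.nd (nat_lit 156) (nat_lit 76) (nat_lit 0) (XT.nd (nat_lit 78) (nat_lit 76) (nat_lit 0) (XT.lf (nat_lit 0) (nat_lit 647495170921) (nat_lit 76) (nat_lit 10364625414) (nat_lit 152) (nat_lit 138547548419) (nat_lit 10) (nat_lit 5) (nat_lit 11) (nat_lit 5) (nat_lit 12) (nat_lit 4) (nat_lit 320) (nat_lit 286) (nat_lit 114)) (XT.lf (nat_lit 0) (nat_lit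 91114186318) (nat_lit 76) (nat_lit 712206128884) (nat_lit 76) (nat_lit 44749369017) (nat_lit 9) (nat_lit 4) (nat_lit 10) (nat_lit 5) (nat_lit 10) (nat_lit 4) (nat_lit 321) (nat_lit 286) (nat_lit 113))) (XT.nd (nat_lit 78) (nat_lit 0) (nat_lit 0) (XT.lf (nat_lit 0) (nat_lit 58170119645) (nat_lit 152) (nat_lit 546462992619) (nat_lit 76) (nat_lit 298767375365) (nat_lit 8) (nat_lit 5) (nat_lit 10) (nat_lit 5) (nat_lit 9) (nat_lit 4) (nat_lit 322) (nat_lit 286) (nat_lit 112)) (XT.lf (nat_lit 0) (nat_lit 166905502697) (nat_lit 152) (nat_lit 320293471444) (nat_lit 76) (nat_lit 475865798464) (nat_lit 8) (nat_lit 5) (nat_lit 10) (nat_lit 5) (nat_lit 9) (nat_lit 4) (nat_lit 323) (nat_lit 286) (nat_lit 111))))))))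
noncomputable def xc117 : XT := (XT.nd (nat_lit 36114) (nat_lit 0) (nat_lit 76) (XT.nd (nat_lit 35100) (nat_lit 0) (nat_lit 1216) (XT.nd (nat_lit 468) (nat_lit 0) (nat_lit 0) (XT.nd (nat_lit 234) (nat_lit 76) (nat_lit 0) (XT.nd (nat_lit 78) (nat_lit 76) (nat_lit 0) (XT.lf (nat_lit 0) (nat_lit 284339682635) (nat_lit 152) (nat_lit 76030447145) (nat_lit 76) (nat_lit 667132073369) (nat_lit 8) (nat_lit 5) (nat_lit 10) (nat_lit 5) (nat_lit 9) (nat_lit 4) (nat_lit 324) (nat_lit 286) (nat_lit 110)) (XT.nd (nat_lit 78) (nat_lit 0) (nat_lit 0) (XT.lf (nat_lit 0) (nat_lit 197661388027) (nat_lit 76) (nat_lit 218260938821) (nat_lit 152) (nat_lit 680792002966) (nat_lit 7) (nat_lit 5) (nat_lit 8) (nat_lit 5) (nat_lit 9) (nat_lit 4) (nat_lit 325) (nat_lit 286) (nat_lit 109)) (XT.lf (nat_lit 0) (nat_lit 497572436052) (nat_lit 76) (nat_lit 62537923496) (nat_lit 152) (nat_lit 611186764967) (nat_lit 7)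 (nat_lit 5) (nat_lit 8) (nat_lit 5) (nat_lit 9) (nat_lit 4) (nat_lit 326) (nat_lit 286) (nat_lit 108)))) (XT.nd (nat_lit 78) (nat_lit 76) (nat_lit 0) (XT.lf (nat_lit 0) (nat_lit 718374121466) (nat_lit 152) (nat_lit 432910940688) (nat_lit 0) (nat_lit 100358225766) (nat_lit 7) (nat_lit 5) (nat_lit 9) (nat_lit 4) (nat_lit 7) (nat_lit 4) (nat_lit 327) (nat_lit 286) (nat_lit 107)) (XT.nd (nat_lit 78) (nat_lit 76) (nat_lit 0) (XT.lf (nat_lit 0) (nat_lit 890923319618) (nat_lit 152) (nat_lit 174456501716) (nat_lit 0) (nat_lit 272907376295) (nat_lit 7) (nat_lit 5) (nat_lit 9) (nat_lit 4) (nat_lit 7) (nat_lit 4) (nat_lit 328) (nat_lit 286) (nat_lit 106)) (XT.lf (nat_lit 0) (nat_lit 110186209324) (nat_lit 76) (nat_lit 969740200865) (nat_lit 76) (nat_lit 351724213447) (nat_lit 6) (nat_lit 4) (nat_lit 7) (nat_lit 5) (nat_lit 7) (nat_lit 4) (nat_lit 329) (nat_lit 286) (nat_lit 105))))) (XT.nd (nat_lit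 34320) (nat_lit 0) (nat_lit 2356) (XT.nd (nat_lit 34164) (nat_lit 0) (nat_lit 2280) (XT.lf (nat_lit 0) (nat_lit 427521790688) (nat_lit 76) (nat_lit 861297883613) (nat_lit 76) (nat_lit 243281855366) (nat_lit 6) (nat_lit 4) (nat_lit 7) (nat_lit 5) (nat_lit 7) (nat_lit 4) (nat_lit 330) (nat_lit 286) (nat_lit 104)) (XT.nd (nat_lit 78) (nat_lit 0) (nat_lit 0) (XT.lf (nat_lit 0) (nat_lit 28125432128) (nat_lit 532) (nat_lit 24127944492) (nat_lit 532) (nat_lit 24127944492) (nat_lit 36) (nat_lit 3) (nat_lit 43) (nat_lit 3) (nat_lit 43) (nat_lit 5) (nat_lit 287) (nat_lit 287) (nat_lit 146)) (XT.lf (nat_lit 76) (nat_lit 17943748347) (nat_lit 0) (nat_lit 40991197409) (nat_lit 532) (nat_lit 99903465173) (nat_lit 37) (nat_lit 5) (nat_lit 36) (nat_lit 3) (nat_lit 43) (nat_lit 5) (nat_lit 288) (nat_lit 287) (nat_lit 145)))) (XT.nd (nat_lit 156) (nat_lit 0) (nat_lit 0) (XT.nd (nat_lit 78) (nat_lit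 0) (nat_lit 0) (XT.lf (nat_lit 0) (nat_lit 63851090052) (nat_lit 456) (nat_lit 73809329862) (nat_lit 532) (nat_lit 27578435638) (nat_lit 37) (nat_lit 5) (nat_lit 43) (nat_lit 5) (nat_lit 44) (nat_lit 5) (nat_lit 289) (nat_lit 287) (nat_lit 144)) (XT.lf (nat_lit 0) (nat_lit 70225000068) (nat_lit 456) (nat_lit 2422031674) (nat_lit 532) (nat_lit 99419147294) (nat_lit 37) (nat_lit 5) (nat_lit 43) (nat_lit 5) (nat_lit 44) (nat_lit 5) (nat_lit 290) (nat_lit 287) (nat_lit 143))) (XT.nd (nat_lit 78) (nat_lit 0) (nat_lit 76) (XT.lf (nat_lit 76) (nat_lit 78608418570) (nat_lit 0) (nat_lit 390723627) (nat_lit 532) (nat_lit 100289321792) (nat_lit 38) (nat_lit 5) (nat_lit 37) (nat_lit 5) (nat_lit 44) (nat_lit 5) (nat_lit 291) (nat_lit 287) (nat_lit 142)) (XT.lf (nat_lit 0) (nat_lit 90410347750) (nat_lit 456) (nat_lit 22693454781) (nat_lit 532) (nat_lit 73829919693) (nat_lit 38) (nat_lit 5) (nat_lit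 44) (nat_lit 5) (nat_lit 45) (nat_lit 5) (nat_lit 292) (nat_lit 287) (nat_lit 141)))))) (XT.nd (nat_lit 468) (nat_lit 608) (nat_lit 0) (XT.nd (nat_lit 234) (nat_lit 228) (nat_lit 0) (XT.nd (nat_lit 78) (nat_lit 380) (nat_lit 0) (XT.lf (nat_lit 76) (nat_lit 64761395046) (nat_lit 0) (nat_lit 39540530399) (nat_lit 532) (nat_lit 90763278590) (nat_lit 39) (nat_lit 5) (nat_lit 38) (nat_lit 5) (nat_lit 45) (nat_lit 5) (nat_lit 293) (nat_lit 287) (nat_lit 140)) (XT.nd (nat_lit 78) (nat_lit 456) (nat_lit 0) (XT.lf (nat_lit 0) (nat_lit 120901033661) (nat_lit 456) (nat_lit 44270394985) (nat_lit 76) (nat_lit 38548080302) (nat_lit 39) (nat_lit 5) (nat_lit 45) (nat_lit 5) (nat_lit 40) (nat_lit 5) (nat_lit 294) (nat_lit 287) (nat_lit 139)) (XT.lf (nat_lit 0) (nat_lit 50126025227) (nat_lit 456) (nat_lit 90934442198) (nat_lit 532) (nat_lit 71827099911) (nat_lit 33) (nat_lit 5) (nat_lit 39) (nat_lit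 5) (nat_lit 40) (nat_lit 5) (nat_lit 295) (nat_lit 287) (nat_lit 138)))) (XT.nd (nat_lit 78) (nat_lit 228) (nat_lit 0) (XT.lf (nat_lit 0) (nat_lit 154591712426) (nat_lit 456) (nat_lit 9451221088) (nat_lit 532) (nat_lit 58649315444) (nat_lit 33) (nat_lit 5) (nat_lit 39) (nat_lit 5) (nat_lit 40) (nat_lit 5) (nat_lit 296) (nat_lit 287) (nat_lit 137)) (XT.nd (nat_lit 78) (nat_lit 0) (nat_lit 0) (XT.lf (nat_lit 0) (nat_lit 33941974387) (nat_lit 228) (nat_lit 157627331172) (nat_lit 304) (nat_lit 41495575572) (nat_lit 30) (nat_lit 5) (nat_lit 33) (nat_lit 5) (nat_lit 34) (nat_lit 5) (nat_lit 297) (nat_lit 287) (nat_lit 136)) (XT.lf (nat_lit 0) (nat_lit 147762269650) (nat_lit 228) (nat_lit 75636643762) (nat_lit 304) (nat_lit 20700321044) (nat_lit 30) (nat_lit 5) (nat_lit 33) (nat_lit 5) (nat_lit 34) (nat_lit 5) (nat_lit 298) (nat_lit 287) (nat_lit 135))))) (XT.nd (nat_lit 234) (nat_lit 380)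 (nat_lit 0) (XT.nd (nat_lit 78) (nat_lit 0) (nat_lit 0) (XT.lf (nat_lit 0) (nat_lit 2362103693) (nat_lit 228) (nat_lit 240904837059) (nat_lit 76) (nat_lit 12690690816) (nat_lit 27) (nat_lit 5) (nat_lit 30) (nat_lit 5) (nat_lit 28) (nat_lit 5) (nat_lit 299) (nat_lit 287) (nat_lit 134)) (XT.nd (nat_lit 78) (nat_lit 0) (nat_lit 0) (XT.lf (nat_lit 0) (nat_lit 30818072502) (nat_lit 228) (nat_lit 130292295117) (nat_lit 76) (nat_lit 107237967293) (nat_lit 27) (nat_lit 5) (nat_lit 30) (nat_lit 5) (nat_lit 28) (nat_lit 5) (nat_lit 300) (nat_lit 287) (nat_lit 133)) (XT.lf (nat_lit 0) (nat_lit 61550405314) (nat_lit 228) (nat_lit 10830883747) (nat_lit 76) (nat_lit 209349015029) (nat_lit 27) (nat_lit 5) (nat_lit 30) (nat_lit 5) (nat_lit 28) (nat_lit 5) (nat_lit 301) (nat_lit 287) (nat_lit 132)))) (XT.nd (nat_lit 156) (nat_lit 152) (nat_lit 0) (XT.nd (nat_lit 78) (nat_lit 0) (nat_lit 0) (XT.lf (nat_lit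 0) (nat_lit 98374899279) (nat_lit 304) (nat_lit 172174217437) (nat_lit 76) (nat_lit 25343028575) (nat_lit 24) (nat_lit 5) (nat_lit 28) (nat_lit 5) (nat_lit 25) (nat_lit 5) (nat_lit 302) (nat_lit 287) (nat_lit 131)) (XT.lf (nat_lit 0) (nat_lit 140329112919) (nat_lit 304) (nat_lit 43404490723) (nat_lit 76) (nat_lit 127278629750) (nat_lit 24) (nat_lit 5) (nat_lit 28) (nat_lit 5) (nat_lit 25) (nat_lit 5) (nat_lit 303) (nat_lit 287) (nat_lit 130))) (XT.nd (nat_lit 78) (nat_lit 0) (nat_lit 0) (XT.lf (nat_lit 0) (nat_lit 100704333479) (nat_lit 152) (nat_lit 87357178561) (nat_lit 228) (nat_lit 139086669018) (nat_lit 22) (nat_lit 5) (nat_lit 24) (nat_lit 5) (nat_lit 25) (nat_lit 5) (nat_lit 304) (nat_lit 287) (nat_lit 129)) (XT.lf (nat_lit 0) (nat_lit 241232335340) (nat_lit 228) (nat_lit 86103038044) (nat_lit 76) (nat_lit 17110044930) (nat_lit 22) (nat_lit 5) (nat_lit 25) (nat_lit 5) (nat_lit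 23) (nat_lit 5) (nat_lit 305) (nat_lit 287) (nat_lit 128))))))) (XT.nd (nat_lit 1014) (nat_lit 304) (nat_lit 0) (XT.nd (nat_lit 468) (nat_lit 304) (nat_lit 0) (XT.nd (nat_lit 234) (nat_lit 152) (nat_lit 0) (XT.nd (nat_lit 78) (nat_lit 228) (nat_lit 0) (XT.lf (nat_lit 0) (nat_lit 66523689011) (nat_lit 152) (nat_lit 236001966296) (nat_lit 228) (nat_lit 60291273110) (nat_lit 20) (nat_lit 5) (nat_lit 22) (nat_lit 5) (nat_lit 23) (nat_lit 5) (nat_lit 306) (nat_lit 287) (nat_lit 127)) (XT.nd (nat_lit 78) (nat_lit 228) (nat_lit 0) (XT.lf (nat_lit 0) (nat_lit 236257199219) (nat_lit 152) (nat_lit 134819371647) (nat_lit 228) (nat_lit 11393258370) (nat_lit 20) (nat_lit 5) (nat_lit 22) (nat_lit 5) (nat_lit 23) (nat_lit 5) (nat_lit 307) (nat_lit 287) (nat_lit 126)) (XT.lf (nat_lit 0) (nat_lit 15661713165) (nat_lit 152) (nat_lit 24059647074) (nat_lit 228) (nat_lit 363863789441) (nat_lit 17) (nat_lit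 5) (nat_lit 19) (nat_lit 5) (nat_lit 20) (nat_lit 5) (nat_lit 308) (nat_lit 287) (nat_lit 125)))) (XT.nd (nat_lit 78) (nat_lit 152) (nat_lit 0) (XT.lf (nat_lit 0) (nat_lit 100709332847) (nat_lit 228) (nat_lit 229966749196) (nat_lit 76) (nat_lit 95177962344) (nat_lit 17) (nat_lit 5) (nat_lit 20) (nat_lit 5) (nat_lit 18) (nat_lit 5) (nat_lit 309) (nat_lit 287) (nat_lit 124)) (XT.nd (nat_lit 78) (nat_lit 152) (nat_lit 0) (XT.lf (nat_lit 0) (nat_lit 167201201028) (nat_lit 228) (nat_lit 59998554374) (nat_lit 76) (nat_lit 222654706873) (nat_lit 17) (nat_lit 5) (nat_lit 20) (nat_lit 5) (nat_lit 18) (nat_lit 5) (nat_lit 310) (nat_lit 287) (nat_lit 123)) (XT.lf (nat_lit 0) (nat_lit 130073821317) (nat_lit 152) (nat_lit 112066812790) (nat_lit 228) (nat_lit 233384022461) (nat_lit 15) (nat_lit 5) (nat_lit 17) (nat_lit 5) (nat_lit 18) (nat_lit 5) (nat_lit 311) (nat_lit 287) (nat_lit 122))))) (XT.nd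 (nat_lit 234) (nat_lit 228) (nat_lit 0) (XT.nd (nat_lit 78) (nat_lit 76) (nat_lit 0) (XT.lf (nat_lit 0) (nat_lit 325053493297) (nat_lit 228) (nat_lit 164691033046) (nat_lit 76) (nat_lit 13345678537) (nat_lit 15) (nat_lit 5) (nat_lit 18) (nat_lit 5) (nat_lit 16) (nat_lit 4) (nat_lit 312) (nat_lit 287) (nat_lit 121)) (XT.nd (nat_lit 78) (nat_lit 0) (nat_lit 0) (XT.lf (nat_lit 0) (nat_lit 29072986704) (nat_lit 76) (nat_lit 389136370033) (nat_lit 152) (nat_lit 114362842458) (nat_lit 14) (nat_lit 5) (nat_lit 15) (nat_lit 5) (nat_lit 16) (nat_lit 4) (nat_lit 313) (nat_lit 287) (nat_lit 120)) (XT.lf (nat_lit 0) (nat_lit 247704166399) (nat_lit 76) (nat_lit 275616412861) (nat_lit 152) (nat_lit 40731942761) (nat_lit 14) (nat_lit 5) (nat_lit 15) (nat_lit 5) (nat_lit 16) (nat_lit 4) (nat_lit 314) (nat_lit 287) (nat_lit 119)))) (XT.nd (nat_lit 156) (nat_lit 0) (nat_lit 0) (XT.nd (nat_lit 78) (nat_lit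 152) (nat_lit 0) (XT.lf (nat_lit 0) (nat_lit 36848972475) (nat_lit 152) (nat_lit 115158399987) (nat_lit 76) (nat_lit 445969271585) (nat_lit 13) (nat_lit 5) (nat_lit 15) (nat_lit 5) (nat_lit 14) (nat_lit 5) (nat_lit 315) (nat_lit 287) (nat_lit 118)) (XT.lf (nat_lit 0) (nat_lit 106390801399) (nat_lit 152) (nat_lit 14603629737) (nat_lit 228) (nat_lit 513330934780) (nat_lit 11) (nat_lit 5) (nat_lit 13) (nat_lit 5) (nat_lit 14) (nat_lit 5) (nat_lit 316) (nat_lit 287) (nat_lit 117))) (XT.nd (nat_lit 78) (nat_lit 0) (nat_lit 0) (XT.lf (nat_lit 0) (nat_lit 218319607523) (nat_lit 228) (nat_lit 324416567207) (nat_lit 76) (nat_lit 130329964446) (nat_lit 11) (nat_lit 5) (nat_lit 14) (nat_lit 5) (nat_lit 12) (nat_lit 4) (nat_lit 317) (nat_lit 287) (nat_lit 116)) (XT.lf (nat_lit 0) (nat_lit 323810069411) (nat_lit 228) (nat_lit 104996517518) (nat_lit 76) (nat_lit 286069245767) (nat_lit 11) (nat_lit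 5) (nat_lit 14) (nat_lit 5) (nat_lit 12) (nat_lit 4) (nat_lit 318) (nat_lit 287) (nat_lit 115)))))) (XT.nd (nat_lit 468) (nat_lit 76) (nat_lit 0) (XT.nd (nat_lit 234) (nat_lit 152) (nat_lit 0) (XT.nd (nat_lit 78) (nat_lit 0) (nat_lit 0) (XT.lf (nat_lit 0) (nat_lit 138926747733) (nat_lit 76) (nat_lit 302154171709) (nat_lit 152) (nat_lit 318682090264) (nat_lit 10) (nat_lit 5) (nat_lit 11) (nat_lit 5) (nat_lit 12) (nat_lit 4) (nat_lit 319) (nat_lit 287) (nat_lit 114)) (XT.nd (nat_lit 78) (nat_lit 0) (nat_lit 0) (XT.lf (nat_lit 0) (nat_lit 408335053897) (nat_lit 76) (nat_lit 162269135430) (nat_lit 152) (nat_lit 237407311499) (nat_lit 10) (nat_lit 5) (nat_lit 11) (nat_lit 5) (nat_lit 12) (nat_lit 4) (nat_lit 320) (nat_lit 287) (nat_lit 113)) (XT.lf (nat_lit 0) (nat_lit 699295964097) (nat_lit 76) (nat_lit 11193320589) (nat_lit 152) (nat_lit 149630589530) (nat_lit 10) (nat_lit 5) (nat_lit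 11) (nat_lit 5) (nat_lit 12) (nat_lit 4) (nat_lit 321) (nat_lit 287) (nat_lit 112)))) (XT.nd (nat_lit 78) (nat_lit 76) (nat_lit 0) (XT.lf (nat_lit 0) (nat_lit 98404516381) (nat_lit 76) (nat_lit 769182115804) (nat_lit 76) (nat_lit 48328569814) (nat_lit 9) (nat_lit 4) (nat_lit 10) (nat_lit 5) (nat_lit 10) (nat_lit 4) (nat_lit 322) (nat_lit 287) (nat_lit 111)) (XT.nd (nat_lit 78) (nat_lit 0) (nat_lit 0) (XT.lf (nat_lit 0) (nat_lit 62824387801) (nat_lit 152) (nat_lit 590178889336) (nat_lit 76) (nat_lit 322669195430) (nat_lit 8) (nat_lit 5) (nat_lit 10) (nat_lit 5) (nat_lit 9) (nat_lit 4) (nat_lit 323) (nat_lit 287) (nat_lit 110)) (XT.lf (nat_lit 0) (nat_lit 180258552712) (nat_lit 152) (nat_lit 345915891110) (nat_lit 76) (nat_lit 513935460523) (nat_lit 8) (nat_lit 5) (nat_lit 10) (nat_lit 5) (nat_lit 9) (nat_lit 4) (nat_lit 324) (nat_lit 287) (nat_lit 109))))) (XT.nd (nat_lit 234) (nat_lit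 0) (nat_lit 0) (XT.nd (nat_lit 78) (nat_lit 76) (nat_lit 0) (XT.lf (nat_lit 0) (nat_lit 307087421876) (nat_lit 152) (nat_lit 82111903242) (nat_lit 76) (nat_lit 720503007925) (nat_lit 8) (nat_lit 5) (nat_lit 10) (nat_lit 5) (nat_lit 9) (nat_lit 4) (nat_lit 325) (nat_lit 287) (nat_lit 108)) (XT.nd (nat_lit 78) (nat_lit 0) (nat_lit 0) (XT.lf (nat_lit 0) (nat_lit 213475253942) (nat_lit 76) (nat_lit 235721404823) (nat_lit 152) (nat_lit 735254772671) (nat_lit 7) (nat_lit 5) (nat_lit 8) (nat_lit 5) (nat_lit 9) (nat_lit 4) (nat_lit 326) (nat_lit 287) (nat_lit 107)) (XT.lf (nat_lit 0) (nat_lit 537379115078) (nat_lit 76) (nat_lit 67540578576) (nat_lit 152) (nat_lit 660081159375) (nat_lit 7) (nat_lit 5) (nat_lit 8) (nat_lit 5) (nat_lit 9) (nat_lit 4) (nat_lit 327) (nat_lit 287) (nat_lit 106)))) (XT.nd (nat_lit 34398) (nat_lit 0) (nat_lit 2204) (XT.nd (nat_lit 78) (nat_lit 0) (nat_lit 0) (XT.lf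 (nat_lit 0) (nat_lit 775844527529) (nat_lit 152) (nat_lit 467542967352) (nat_lit 0) (nat_lit 108387217022) (nat_lit 7) (nat_lit 5) (nat_lit 9) (nat_lit 4) (nat_lit 7) (nat_lit 4) (nat_lit 328) (nat_lit 287) (nat_lit 105)) (XT.lf (nat_lit 0) (nat_lit 962197626248) (nat_lit 152) (nat_lit 188412236121) (nat_lit 0) (nat_lit 294740274913) (nat_lit 7) (nat_lit 5) (nat_lit 9) (nat_lit 4) (nat_lit 7) (nat_lit 4) (nat_lit 329) (nat_lit 287) (nat_lit 104))) (XT.nd (nat_lit 78) (nat_lit 0) (nat_lit 0) (XT.lf (nat_lit 0) (nat_lit 30377905940) (nat_lit 532) (nat_lit 26056856405) (nat_lit 532) (nat_lit 26056856405) (nat_lit 36) (nat_lit 3) (nat_lit 43) (nat_lit 3) (nat_lit 43) (nat_lit 5) (nat_lit 288) (nat_lit 288) (nat_lit 144)) (XT.lf (nat_lit 76) (nat_lit 19381828487) (nat_lit 0) (nat_lit 44272492099) (nat_lit 532) (nat_lit 107890772974) (nat_lit 37) (nat_lit 5) (nat_lit 36) (nat_lit 3) (nat_lit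 43) (nat_lit 5) (nat_lit 289) (nat_lit 288) (nat_lit 143))))))))
noncomputable def xc118 : XT := (XT.nd (nat_lit 1950) (nat_lit 532) (nat_lit 0) (XT.nd (nat_lit 936) (nat_lit 988) (nat_lit 0) (XT.nd (nat_lit 468) (nat_lit 760) (nat_lit 0) (XT.nd (nat_lit 234) (nat_lit 0) (nat_lit 76) (XT.nd (nat_lit 78) (nat_lit 0) (nat_lit 0) (XT.lf (nat_lit 0) (nat_lit 68963372715) (nat_lit 456) (nat_lit 79711281261) (nat_lit 532) (nat_lit 29782952244) (nat_lit 37) (nat_lit 5) (nat_lit 43) (nat_lit 5) (nat_lit 44) (nat_lit 5) (nat_lit 290) (nat_lit 288) (nat_lit 142)) (XT.nd (nat_lit 78) (nat_lit 0) (nat_lit 0) (XT.lf (nat_lit 0) (nat_lit 75846884758) (nat_lit 456) (nat_lit 2613206253) (nat_lit 532) (nat_lit 107371051074) (nat_lit 37) (nat_lit 5) (nat_lit 43) (nat_lit 5) (nat_lit 44) (nat_lit 5) (nat_lit 291) (nat_lit 288) (nat_lit 141)) (XT.lf (nat_lit 76) (nat_lit 84899614492) (nat_lit 0) (nat_lit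 423116675) (nat_lit 532) (nat_lit 108308498353) (nat_lit 38) (nat_lit 5) (nat_lit 37) (nat_lit 5) (nat_lit 44) (nat_lit 5) (nat_lit 292) (nat_lit 288) (nat_lit 140)))) (XT.nd (nat_lit 78) (nat_lit 0) (nat_lit 0) (XT.lf (nat_lit 0) (nat_lit 97646536954) (nat_lit 456) (nat_lit 24506281787) (nat_lit 532) (nat_lit 79735314775) (nat_lit 38) (nat_lit 5) (nat_lit 44) (nat_lit 5) (nat_lit 45) (nat_lit 5) (nat_lit 293) (nat_lit 288) (nat_lit 139)) (XT.nd (nat_lit 78) (nat_lit 0) (nat_lit 76) (XT.lf (nat_lit 76) (nat_lit 69944888952) (nat_lit 0) (nat_lit 42704365024) (nat_lit 532) (nat_lit 98020896148) (nat_lit 39) (nat_lit 5) (nat_lit 38) (nat_lit 5) (nat_lit 45) (nat_lit 5) (nat_lit 294) (nat_lit 288) (nat_lit 138)) (XT.lf (nat_lit 0) (nat_lit 130576042515) (nat_lit 456) (nat_lit 47809372160) (nat_lit 76) (nat_lit 41631405828) (nat_lit 39) (nat_lit 5) (nat_lit 45) (nat_lit 5) (nat_lit 40)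 (nat_lit 5) (nat_lit 295) (nat_lit 288) (nat_lit 137))))) (XT.nd (nat_lit 234) (nat_lit 228) (nat_lit 0) (XT.nd (nat_lit 78) (nat_lit 228) (nat_lit 0) (XT.lf (nat_lit 0) (nat_lit 54138694469) (nat_lit 456) (nat_lit 98209381981) (nat_lit 532) (nat_lit 77570260590) (nat_lit 33) (nat_lit 5) (nat_lit 39) (nat_lit 5) (nat_lit 40) (nat_lit 5) (nat_lit 296) (nat_lit 288) (nat_lit 136)) (XT.nd (nat_lit 78) (nat_lit 228) (nat_lit 0) (XT.lf (nat_lit 0) (nat_lit 166961444997) (nat_lit 456) (nat_lit 10207489523) (nat_lit 532) (nat_lit 63338476130) (nat_lit 33) (nat_lit 5) (nat_lit 39) (nat_lit 5) (nat_lit 40) (nat_lit 5) (nat_lit 297) (nat_lit 288) (nat_lit 135)) (XT.lf (nat_lit 0) (nat_lit 36659883970) (nat_lit 228) (nat_lit 170237399825) (nat_lit 304) (nat_lit 44812581162) (nat_lit 30) (nat_lit 5) (nat_lit 33) (nat_lit 5) (nat_lit 34) (nat_lit 5) (nat_lit 298) (nat_lit 288) (nat_lit 134))))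 (XT.nd (nat_lit 78) (nat_lit 228) (nat_lit 0) (XT.lf (nat_lit 0) (nat_lit 159585613844) (nat_lit 228) (nat_lit 81687466152) (nat_lit 304) (nat_lit 22353901860) (nat_lit 30) (nat_lit 5) (nat_lit 33) (nat_lit 5) (nat_lit 34) (nat_lit 5) (nat_lit 299) (nat_lit 288) (nat_lit 133)) (XT.nd (nat_lit 78) (nat_lit 0) (nat_lit 0) (XT.lf (nat_lit 0) (nat_lit 2553286364) (nat_lit 228) (nat_lit 260174611160) (nat_lit 76) (nat_lit 13706157924) (nat_lit 27) (nat_lit 5) (nat_lit 30) (nat_lit 5) (nat_lit 28) (nat_lit 5) (nat_lit 300) (nat_lit 288) (nat_lit 132)) (XT.lf (nat_lit 0) (nat_lit 33285568650) (nat_lit 228) (nat_lit 140713259409) (nat_lit 76) (nat_lit 115817200826) (nat_lit 27) (nat_lit 5) (nat_lit 30) (nat_lit 5) (nat_lit 28) (nat_lit 5) (nat_lit 301) (nat_lit 288) (nat_lit 131)))))) (XT.nd (nat_lit 468) (nat_lit 456) (nat_lit 0) (XT.nd (nat_lit 234) (nat_lit 304) (nat_lit 0) (XT.nd (nat_lit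 78) (nat_lit 228) (nat_lit 0) (XT.lf (nat_lit 0) (nat_lit 66476336209) (nat_lit 228) (nat_lit 11695114338) (nat_lit 76) (nat_lit 226097117852) (nat_lit 27) (nat_lit 5) (nat_lit 30) (nat_lit 5) (nat_lit 28) (nat_lit 5) (nat_lit 302) (nat_lit 288) (nat_lit 130)) (XT.nd (nat_lit 78) (nat_lit 0) (nat_lit 0) (XT.lf (nat_lit 0) (nat_lit 106246710547) (nat_lit 304) (nat_lit 185945828040) (nat_lit 76) (nat_lit 27370825243) (nat_lit 24) (nat_lit 5) (nat_lit 28) (nat_lit 5) (nat_lit 25) (nat_lit 5) (nat_lit 303) (nat_lit 288) (nat_lit 129)) (XT.lf (nat_lit 0) (nat_lit 151557126513) (nat_lit 304) (nat_lit 46874695544) (nat_lit 76) (nat_lit 137461248262) (nat_lit 24) (nat_lit 5) (nat_lit 28) (nat_lit 5) (nat_lit 25) (nat_lit 5) (nat_lit 304) (nat_lit 288) (nat_lit 128)))) (XT.nd (nat_lit 78) (nat_lit 152) (nat_lit 0) (XT.lf (nat_lit 0) (nat_lit 108762780051) (nat_lit 152) (nat_lit 94345263232)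 (nat_lit 228) (nat_lit 150211856974) (nat_lit 22) (nat_lit 5) (nat_lit 24) (nat_lit 5) (nat_lit 25) (nat_lit 5) (nat_lit 305) (nat_lit 288) (nat_lit 127)) (XT.nd (nat_lit 78) (nat_lit 152) (nat_lit 0) (XT.lf (nat_lit 0) (nat_lit 260532424070) (nat_lit 228) (nat_lit 92989222380) (nat_lit 76) (nat_lit 18479279192) (nat_lit 22) (nat_lit 5) (nat_lit 25) (nat_lit 5) (nat_lit 23) (nat_lit 5) (nat_lit 306) (nat_lit 288) (nat_lit 126)) (XT.lf (nat_lit 0) (nat_lit 71847590720) (nat_lit 152) (nat_lit 254881555922) (nat_lit 228) (nat_lit 65113015396) (nat_lit 20) (nat_lit 5) (nat_lit 22) (nat_lit 5) (nat_lit 23) (nat_lit 5) (nat_lit 307) (nat_lit 288) (nat_lit 125))))) (XT.nd (nat_lit 234) (nat_lit 228) (nat_lit 0) (XT.nd (nat_lit 78) (nat_lit 228) (nat_lit 0) (XT.lf (nat_lit 0) (nat_lit 255159633109) (nat_lit 152) (nat_lit 145604395751) (nat_lit 228) (nat_lit 12303275000) (nat_lit 20) (nat_lit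 5) (nat_lit 22) (nat_lit 5) (nat_lit 23) (nat_lit 5) (nat_lit 308) (nat_lit 288) (nat_lit 124)) (XT.nd (nat_lit 78) (nat_lit 0) (nat_lit 0) (XT.lf (nat_lit 0) (nat_lit 16916536171) (nat_lit 152) (nat_lit 25983848432) (nat_lit 228) (nat_lit 392971467409) (nat_lit 17) (nat_lit 5) (nat_lit 19) (nat_lit 5) (nat_lit 20) (nat_lit 5) (nat_lit 309) (nat_lit 288) (nat_lit 123)) (XT.lf (nat_lit 0) (nat_lit 108767310275) (nat_lit 228) (nat_lit 248362254061) (nat_lit 76) (nat_lit 102792701066) (nat_lit 17) (nat_lit 5) (nat_lit 20) (nat_lit 5) (nat_lit 18) (nat_lit 5) (nat_lit 310) (nat_lit 288) (nat_lit 122)))) (XT.nd (nat_lit 156) (nat_lit 76) (nat_lit 0) (XT.nd (nat_lit 78) (nat_lit 152) (nat_lit 0) (XT.lf (nat_lit 0) (nat_lit 180578436740) (nat_lit 228) (nat_lit 64796739585) (nat_lit 76) (nat_lit 240467547992) (nat_lit 17) (nat_lit 5) (nat_lit 20) (nat_lit 5) (nat_lit 18) (nat_lit 5) (nat_lit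 311) (nat_lit 288) (nat_lit 121)) (XT.lf (nat_lit 0) (nat_lit 140481383146) (nat_lit 152) (nat_lit 121031596732) (nat_lit 228) (nat_lit 252053558121) (nat_lit 15) (nat_lit 5) (nat_lit 17) (nat_lit 5) (nat_lit 18) (nat_lit 5) (nat_lit 312) (nat_lit 288) (nat_lit 120))) (XT.nd (nat_lit 78) (nat_lit 76) (nat_lit 0) (XT.lf (nat_lit 0) (nat_lit 351058799183) (nat_lit 228) (nat_lit 177864710390) (nat_lit 76) (nat_lit 14413826351) (nat_lit 15) (nat_lit 5) (nat_lit 18) (nat_lit 5) (nat_lit 16) (nat_lit 4) (nat_lit 313) (nat_lit 288) (nat_lit 119)) (XT.lf (nat_lit 0) (nat_lit 31400390300) (nat_lit 76) (nat_lit 420266702997) (nat_lit 152) (nat_lit 123510799799) (nat_lit 14) (nat_lit 5) (nat_lit 15) (nat_lit 5) (nat_lit 16) (nat_lit 4) (nat_lit 314) (nat_lit 288) (nat_lit 118))))))) (XT.nd (nat_lit 1014) (nat_lit 0) (nat_lit 0) (XT.nd (nat_lit 468) (nat_lit 228) (nat_lit 0) (XT.nd (nat_lit 234)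 (nat_lit 76) (nat_lit 0) (XT.nd (nat_lit 78) (nat_lit 228) (nat_lit 0) (XT.lf (nat_lit 0) (nat_lit 267521948470) (nat_lit 76) (nat_lit 297665191966) (nat_lit 152) (nat_lit 43989507389) (nat_lit 14) (nat_lit 5) (nat_lit 15) (nat_lit 5) (nat_lit 16) (nat_lit 4) (nat_lit 315) (nat_lit 288) (nat_lit 117)) (XT.nd (nat_lit 78) (nat_lit 152) (nat_lit 0) (XT.lf (nat_lit 0) (nat_lit 39797761782) (nat_lit 152) (nat_lit 124369682275) (nat_lit 76) (nat_lit 481647259418) (nat_lit 13) (nat_lit 5) (nat_lit 15) (nat_lit 5) (nat_lit 14) (nat_lit 5) (nat_lit 316) (nat_lit 288) (nat_lit 116)) (XT.lf (nat_lit 0) (nat_lit 114903420040) (nat_lit 152) (nat_lit 15771405116) (nat_lit 228) (nat_lit 554396500671) (nat_lit 11) (nat_lit 5) (nat_lit 13) (nat_lit 5) (nat_lit 14) (nat_lit 5) (nat_lit 317) (nat_lit 288) (nat_lit 115)))) (XT.nd (nat_lit 78) (nat_lit 76) (nat_lit 0) (XT.lf (nat_lit 0) (nat_lit 235785964934)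 (nat_lit 228) (nat_lit 350368585633) (nat_lit 76) (nat_lit 140756814599) (nat_lit 11) (nat_lit 5) (nat_lit 14) (nat_lit 5) (nat_lit 12) (nat_lit 4) (nat_lit 318) (nat_lit 288) (nat_lit 114)) (XT.nd (nat_lit 78) (nat_lit 76) (nat_lit 0) (XT.lf (nat_lit 0) (nat_lit 349715605343) (nat_lit 228) (nat_lit 113395028781) (nat_lit 76) (nat_lit 308955204870) (nat_lit 11) (nat_lit 5) (nat_lit 14) (nat_lit 5) (nat_lit 12) (nat_lit 4) (nat_lit 319) (nat_lit 288) (nat_lit 113)) (XT.lf (nat_lit 0) (nat_lit 150042067054) (nat_lit 76) (nat_lit 326326030588) (nat_lit 152) (nat_lit 344175894723) (nat_lit 10) (nat_lit 5) (nat_lit 11) (nat_lit 5) (nat_lit 12) (nat_lit 4) (nat_lit 320) (nat_lit 288) (nat_lit 112))))) (XT.nd (nat_lit 234) (nat_lit 152) (nat_lit 0) (XT.nd (nat_lit 78) (nat_lit 76) (nat_lit 0) (XT.lf (nat_lit 0) (nat_lit 441002950341) (nat_lit 76) (nat_lit 175250226582) (nat_lit 152) (nat_lit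 256399190158) (nat_lit 10) (nat_lit 5) (nat_lit 11) (nat_lit 5) (nat_lit 12) (nat_lit 4) (nat_lit 321) (nat_lit 288) (nat_lit 111)) (XT.nd (nat_lit 78) (nat_lit 76) (nat_lit 0) (XT.lf (nat_lit 0) (nat_lit 755240652458) (nat_lit 76) (nat_lit 12088379122) (nat_lit 152) (nat_lit 161600382746) (nat_lit 10) (nat_lit 5) (nat_lit 11) (nat_lit 5) (nat_lit 12) (nat_lit 4) (nat_lit 322) (nat_lit 288) (nat_lit 110)) (XT.lf (nat_lit 0) (nat_lit 106277902345) (nat_lit 76) (nat_lit 830716253492) (nat_lit 76) (nat_lit 52194213488) (nat_lit 9) (nat_lit 4) (nat_lit 10) (nat_lit 5) (nat_lit 10) (nat_lit 4) (nat_lit 323) (nat_lit 288) (nat_lit 109)))) (XT.nd (nat_lit 156) (nat_lit 76) (nat_lit 0) (XT.nd (nat_lit 78) (nat_lit 0) (nat_lit 0) (XT.lf (nat_lit 0) (nat_lit 67850903455) (nat_lit 152) (nat_lit 637392220807) (nat_lit 76) (nat_lit 348483099751) (nat_lit 8) (nat_lit 5) (nat_lit 10) (nat_lit 5)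 (nat_lit 9) (nat_lit 4) (nat_lit 324) (nat_lit 288) (nat_lit 108)) (XT.lf (nat_lit 0) (nat_lit 194679759735) (nat_lit 152) (nat_lit 373588255292) (nat_lit 76) (nat_lit 555050638741) (nat_lit 8) (nat_lit 5) (nat_lit 10) (nat_lit 5) (nat_lit 9) (nat_lit 4) (nat_lit 325) (nat_lit 288) (nat_lit 107))) (XT.nd (nat_lit 78) (nat_lit 76) (nat_lit 0) (XT.lf (nat_lit 0) (nat_lit 331654899705) (nat_lit 152) (nat_lit 88680015588) (nat_lit 76) (nat_lit 778143564649) (nat_lit 8) (nat_lit 5) (nat_lit 10) (nat_lit 5) (nat_lit 9) (nat_lit 4) (nat_lit 326) (nat_lit 288) (nat_lit 106)) (XT.lf (nat_lit 0) (nat_lit 230554092907) (nat_lit 76) (nat_lit 254578766469) (nat_lit 152) (nat_lit 794074648198) (nat_lit 7) (nat_lit 5) (nat_lit 8) (nat_lit 5) (nat_lit 9) (nat_lit 4) (nat_lit 327) (nat_lit 288) (nat_lit 105)))))) (XT.nd (nat_lit 34788) (nat_lit 0) (nat_lit 1748) (XT.nd (nat_lit 34554) (nat_lit 0) (nat_lit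 2204) (XT.nd (nat_lit 78) (nat_lit 0) (nat_lit 0) (XT.lf (nat_lit 0) (nat_lit 580370202294) (nat_lit 76) (nat_lit 72943500103) (nat_lit 152) (nat_lit 712887183342) (nat_lit 7) (nat_lit 5) (nat_lit 8) (nat_lit 5) (nat_lit 9) (nat_lit 4) (nat_lit 328) (nat_lit 288) (nat_lit 104)) (XT.nd (nat_lit 34398) (nat_lit 0) (nat_lit 2204) (XT.lf (nat_lit 0) (nat_lit 837912498120) (nat_lit 152) (nat_lit 504945677210) (nat_lit 0) (nat_lit 117058480045) (nat_lit 7) (nat_lit 5) (nat_lit 9) (nat_lit 4) (nat_lit 7) (nat_lit 4) (nat_lit 329) (nat_lit 288) (nat_lit 103)) (XT.lf (nat_lit 0) (nat_lit 32810229671) (nat_lit 532) (nat_lit 28140270104) (nat_lit 532) (nat_lit 28140270104) (nat_lit 36) (nat_lit 3) (nat_lit 43) (nat_lit 3) (nat_lit 43) (nat_lit 5) (nat_lit 289) (nat_lit 289) (nat_lit 142)))) (XT.nd (nat_lit 78) (nat_lit 0) (nat_lit 76) (XT.lf (nat_lit 76) (nat_lit 20934586934) (nat_lit 0) (nat_lit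 47816005199) (nat_lit 532) (nat_lit 116517774341) (nat_lit 37) (nat_lit 5) (nat_lit 36) (nat_lit 3) (nat_lit 43) (nat_lit 5) (nat_lit 290) (nat_lit 289) (nat_lit 141)) (XT.nd (nat_lit 78) (nat_lit 0) (nat_lit 0) (XT.lf (nat_lit 0) (nat_lit 74484039463) (nat_lit 456) (nat_lit 86085787507) (nat_lit 532) (nat_lit 32164081013) (nat_lit 37) (nat_lit 5) (nat_lit 43) (nat_lit 5) (nat_lit 44) (nat_lit 5) (nat_lit 291) (nat_lit 289) (nat_lit 140)) (XT.lf (nat_lit 0) (nat_lit 81917966029) (nat_lit 456) (nat_lit 2820044000) (nat_lit 532) (nat_lit 115959339409) (nat_lit 37) (nat_lit 5) (nat_lit 43) (nat_lit 5) (nat_lit 44) (nat_lit 5) (nat_lit 292) (nat_lit 289) (nat_lit 139))))) (XT.nd (nat_lit 234) (nat_lit 532) (nat_lit 0) (XT.nd (nat_lit 78) (nat_lit 0) (nat_lit 76) (XT.lf (nat_lit 76) (nat_lit 91693746234) (nat_lit 0) (nat_lit 457939224) (nat_lit 532) (nat_lit 116969775286) (nat_lit 38) (nat_lit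 5) (nat_lit 37) (nat_lit 5) (nat_lit 44) (nat_lit 5) (nat_lit 293) (nat_lit 289) (nat_lit 138)) (XT.nd (nat_lit 78) (nat_lit 0) (nat_lit 0) (XT.lf (nat_lit 0) (nat_lit 105461141755) (nat_lit 456) (nat_lit 26464512918) (nat_lit 532) (nat_lit 86113283910) (nat_lit 38) (nat_lit 5) (nat_lit 44) (nat_lit 5) (nat_lit 45) (nat_lit 5) (nat_lit 294) (nat_lit 289) (nat_lit 137)) (XT.lf (nat_lit 76) (nat_lit 75542693977) (nat_lit 0) (nat_lit 46121221937) (nat_lit 532) (nat_lit 105859614540) (nat_lit 39) (nat_lit 5) (nat_lit 38) (nat_lit 5) (nat_lit 45) (nat_lit 5) (nat_lit 295) (nat_lit 289) (nat_lit 136)))) (XT.nd (nat_lit 156) (nat_lit 228) (nat_lit 0) (XT.nd (nat_lit 78) (nat_lit 456) (nat_lit 0) (XT.lf (nat_lit 0) (nat_lit 141024634628) (nat_lit 456) (nat_lit 51631846191) (nat_lit 76) (nat_lit 44961471708) (nat_lit 39) (nat_lit 5) (nat_lit 45) (nat_lit 5) (nat_lit 40) (nat_lit 5) (nat_lit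 296) (nat_lit 289) (nat_lit 135)) (XT.lf (nat_lit 0) (nat_lit 58472008154) (nat_lit 456) (nat_lit 106066290640) (nat_lit 532) (nat_lit 83773303151) (nat_lit 33) (nat_lit 5) (nat_lit 39) (nat_lit 5) (nat_lit 40) (nat_lit 5) (nat_lit 297) (nat_lit 289) (nat_lit 134))) (XT.nd (nat_lit 78) (nat_lit 228) (nat_lit 0) (XT.lf (nat_lit 0) (nat_lit 180320414418) (nat_lit 456) (nat_lit 11024235073) (nat_lit 532) (nat_lit 68403166918) (nat_lit 33) (nat_lit 5) (nat_lit 39) (nat_lit 5) (nat_lit 40) (nat_lit 5) (nat_lit 298) (nat_lit 289) (nat_lit 133)) (XT.lf (nat_lit 0) (nat_lit 39594862300) (nat_lit 228) (nat_lit 183856290782) (nat_lit 304) (nat_lit 48395323889) (nat_lit 30) (nat_lit 5) (nat_lit 33) (nat_lit 5) (nat_lit 34) (nat_lit 5) (nat_lit 299) (nat_lit 289) (nat_lit 132))))))))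
noncomputable def xc119 : XT := (XT.nd (nat_lit 2028) (nat_lit 76) (nat_lit 0) (XT.nd (nat_lit 1014) (nat_lit 684) (nat_lit 0) (XT.nd (nat_lit 468) (nat_lit 532) (nat_lit 0) (XT.nd (nat_lit 234) (nat_lit 228) (nat_lit 0) (XT.nd (nat_lit 78) (nat_lit 228) (nat_lit 0) (XT.lf (nat_lit 0) (nat_lit 172354488519) (nat_lit 228) (nat_lit 88222369899) (nat_lit 304) (nat_lit 24140117930) (nat_lit 30) (nat_lit 5) (nat_lit 33) (nat_lit 5) (nat_lit 34) (nat_lit 5) (nat_lit 300) (nat_lit 289) (nat_lit 131)) (XT.nd (nat_lit 78) (nat_lit 0) (nat_lit 0) (XT.lf (nat_lit 0) (nat_lit 2759447743) (nat_lit 228) (nat_lit 280986339944) (nat_lit 76) (nat_lit 14802832178) (nat_lit 27) (nat_lit 5) (nat_lit 30) (nat_lit 5) (nat_lit 28) (nat_lit 5) (nat_lit 301) (nat_lit 289) (nat_lit 130)) (XT.lf (nat_lit 0) (nat_lit 35950171985) (nat_lit 228) (nat_lit 151968245986) (nat_lit 76) (nat_lit 125082745060) (nat_lit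 27) (nat_lit 5) (nat_lit 30) (nat_lit 5) (nat_lit 28) (nat_lit 5) (nat_lit 302) (nat_lit 289) (nat_lit 129)))) (XT.nd (nat_lit 78) (nat_lit 228) (nat_lit 0) (XT.lf (nat_lit 0) (nat_lit 71796070738) (nat_lit 228) (nat_lit 12628802952) (nat_lit 76) (nat_lit 244185042990) (nat_lit 27) (nat_lit 5) (nat_lit 30) (nat_lit 5) (nat_lit 28) (nat_lit 5) (nat_lit 303) (nat_lit 289) (nat_lit 128)) (XT.nd (nat_lit 78) (nat_lit 0) (nat_lit 0) (XT.lf (nat_lit 0) (nat_lit 114748007169) (nat_lit 304) (nat_lit 200819499435) (nat_lit 76) (nat_lit 29560795089) (nat_lit 24) (nat_lit 5) (nat_lit 28) (nat_lit 5) (nat_lit 25) (nat_lit 5) (nat_lit 304) (nat_lit 289) (nat_lit 127)) (XT.lf (nat_lit 0) (nat_lit 163683140874) (nat_lit 304) (nat_lit 50622824106) (nat_lit 76) (nat_lit 148458429444) (nat_lit 24) (nat_lit 5) (nat_lit 28) (nat_lit 5) (nat_lit 25) (nat_lit 5) (nat_lit 305) (nat_lit 289) (nat_lit 126)))))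 (XT.nd (nat_lit 234) (nat_lit 228) (nat_lit 0) (XT.nd (nat_lit 78) (nat_lit 152) (nat_lit 0) (XT.lf (nat_lit 0) (nat_lit 117465602776) (nat_lit 152) (nat_lit 101892464527) (nat_lit 228) (nat_lit 162227308991) (nat_lit 22) (nat_lit 5) (nat_lit 24) (nat_lit 5) (nat_lit 25) (nat_lit 5) (nat_lit 306) (nat_lit 289) (nat_lit 125)) (XT.nd (nat_lit 78) (nat_lit 152) (nat_lit 0) (XT.lf (nat_lit 0) (nat_lit 281376305637) (nat_lit 228) (nat_lit 100426595161) (nat_lit 76) (nat_lit 19957990756) (nat_lit 22) (nat_lit 5) (nat_lit 25) (nat_lit 5) (nat_lit 23) (nat_lit 5) (nat_lit 307) (nat_lit 289) (nat_lit 124)) (XT.lf (nat_lit 0) (nat_lit 77597118303) (nat_lit 152) (nat_lit 275271593704) (nat_lit 228) (nat_lit 70320719554) (nat_lit 20) (nat_lit 5) (nat_lit 22) (nat_lit 5) (nat_lit 23) (nat_lit 5) (nat_lit 308) (nat_lit 289) (nat_lit 123)))) (XT.nd (nat_lit 156) (nat_lit 0) (nat_lit 0) (XT.nd (nat_lit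 78) (nat_lit 228) (nat_lit 0) (XT.lf (nat_lit 0) (nat_lit 275573996652) (nat_lit 152) (nat_lit 157252296770) (nat_lit 228) (nat_lit 13286298968) (nat_lit 20) (nat_lit 5) (nat_lit 22) (nat_lit 5) (nat_lit 23) (nat_lit 5) (nat_lit 309) (nat_lit 289) (nat_lit 122)) (XT.lf (nat_lit 0) (nat_lit 18271475965) (nat_lit 152) (nat_lit 28062067275) (nat_lit 228) (nat_lit 424407962933) (nat_lit 17) (nat_lit 5) (nat_lit 19) (nat_lit 5) (nat_lit 20) (nat_lit 5) (nat_lit 310) (nat_lit 289) (nat_lit 121))) (XT.nd (nat_lit 78) (nat_lit 0) (nat_lit 0) (XT.lf (nat_lit 0) (nat_lit 117469750309) (nat_lit 228) (nat_lit 268229661109) (nat_lit 76) (nat_lit 111016547307) (nat_lit 17) (nat_lit 5) (nat_lit 20) (nat_lit 5) (nat_lit 18) (nat_lit 5) (nat_lit 311) (nat_lit 289) (nat_lit 120)) (XT.lf (nat_lit 0) (nat_lit 195025688727) (nat_lit 228) (nat_lit 69979022014) (nat_lit 76) (nat_lit 259705350124) (nat_lit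 17) (nat_lit 5) (nat_lit 20) (nat_lit 5) (nat_lit 18) (nat_lit 5) (nat_lit 312) (nat_lit 289) (nat_lit 119)))))) (XT.nd (nat_lit 468) (nat_lit 228) (nat_lit 0) (XT.nd (nat_lit 234) (nat_lit 228) (nat_lit 0) (XT.nd (nat_lit 78) (nat_lit 76) (nat_lit 0) (XT.lf (nat_lit 0) (nat_lit 151721313656) (nat_lit 152) (nat_lit 130713643434) (nat_lit 228) (nat_lit 272216825850) (nat_lit 15) (nat_lit 5) (nat_lit 17) (nat_lit 5) (nat_lit 18) (nat_lit 5) (nat_lit 313) (nat_lit 289) (nat_lit 118)) (XT.nd (nat_lit 78) (nat_lit 76) (nat_lit 0) (XT.lf (nat_lit 0) (nat_lit 379144383110) (nat_lit 228) (nat_lit 192092510936) (nat_lit 76) (nat_lit 15567355582) (nat_lit 15) (nat_lit 5) (nat_lit 18) (nat_lit 5) (nat_lit 16) (nat_lit 4) (nat_lit 314) (nat_lit 289) (nat_lit 117)) (XT.lf (nat_lit 0) (nat_lit 33913762968) (nat_lit 76) (nat_lit 453887544863) (nat_lit 152) (nat_lit 133390746382) (nat_lit 14) (nat_lit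 5) (nat_lit 15) (nat_lit 5) (nat_lit 16) (nat_lit 4) (nat_lit 315) (nat_lit 289) (nat_lit 116)))) (XT.nd (nat_lit 78) (nat_lit 228) (nat_lit 0) (XT.lf (nat_lit 0) (nat_lit 288924946424) (nat_lit 76) (nat_lit 321477949569) (nat_lit 152) (nat_lit 47507818535) (nat_lit 14) (nat_lit 5) (nat_lit 15) (nat_lit 5) (nat_lit 16) (nat_lit 4) (nat_lit 316) (nat_lit 289) (nat_lit 115)) (XT.nd (nat_lit 78) (nat_lit 152) (nat_lit 0) (XT.lf (nat_lit 0) (nat_lit 42982329902) (nat_lit 152) (nat_lit 134318065403) (nat_lit 76) (nat_lit 520179422635) (nat_lit 13) (nat_lit 5) (nat_lit 15) (nat_lit 5) (nat_lit 14) (nat_lit 5) (nat_lit 317) (nat_lit 289) (nat_lit 114)) (XT.lf (nat_lit 0) (nat_lit 124096854934) (nat_lit 152) (nat_lit 17032675996) (nat_lit 228) (nat_lit 598747441497) (nat_lit 11) (nat_lit 5) (nat_lit 13) (nat_lit 5) (nat_lit 14) (nat_lit 5) (nat_lit 318) (nat_lit 289) (nat_lit 113))))) (XT.nd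 (nat_lit 234) (nat_lit 152) (nat_lit 0) (XT.nd (nat_lit 78) (nat_lit 76) (nat_lit 0) (XT.lf (nat_lit 0) (nat_lit 254649518407) (nat_lit 228) (nat_lit 378396951985) (nat_lit 76) (nat_lit 152017748140) (nat_lit 11) (nat_lit 5) (nat_lit 14) (nat_lit 5) (nat_lit 12) (nat_lit 4) (nat_lit 319) (nat_lit 289) (nat_lit 112)) (XT.nd (nat_lit 78) (nat_lit 76) (nat_lit 0) (XT.lf (nat_lit 0) (nat_lit 377693479954) (nat_lit 228) (nat_lit 122465593584) (nat_lit 76) (nat_lit 333671980864) (nat_lit 11) (nat_lit 5) (nat_lit 14) (nat_lit 5) (nat_lit 12) (nat_lit 4) (nat_lit 320) (nat_lit 289) (nat_lit 111)) (XT.lf (nat_lit 0) (nat_lit 162046443651) (nat_lit 76) (nat_lit 352431705921) (nat_lit 152) (nat_lit 371709312355) (nat_lit 10) (nat_lit 5) (nat_lit 11) (nat_lit 5) (nat_lit 12) (nat_lit 4) (nat_lit 321) (nat_lit 289) (nat_lit 110)))) (XT.nd (nat_lit 156) (nat_lit 152) (nat_lit 0) (XT.nd (nat_lit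 78) (nat_lit 0) (nat_lit 0) (XT.lf (nat_lit 0) (nat_lit 476284122695) (nat_lit 76) (nat_lit 189269867751) (nat_lit 152) (nat_lit 276910519865) (nat_lit 10) (nat_lit 5) (nat_lit 11) (nat_lit 5) (nat_lit 12) (nat_lit 4) (nat_lit 322) (nat_lit 289) (nat_lit 109)) (XT.lf (nat_lit 0) (nat_lit 815660771624) (nat_lit 76) (nat_lit 13055100418) (nat_lit 152) (nat_lit 174527852713) (nat_lit 10) (nat_lit 5) (nat_lit 11) (nat_lit 5) (nat_lit 12) (nat_lit 4) (nat_lit 323) (nat_lit 289) (nat_lit 108))) (XT.nd (nat_lit 78) (nat_lit 76) (nat_lit 0) (XT.lf (nat_lit 0) (nat_lit 114781013009) (nat_lit 76) (nat_lit 897173183765) (nat_lit 76) (nat_lit 56369200232) (nat_lit 9) (nat_lit 4) (nat_lit 10) (nat_lit 5) (nat_lit 10) (nat_lit 4) (nat_lit 324) (nat_lit 289) (nat_lit 107)) (XT.lf (nat_lit 0) (nat_lit 73279459810) (nat_lit 152) (nat_lit 688382758559) (nat_lit 76) (nat_lit 376362063821) (nat_lit 8)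 (nat_lit 5) (nat_lit 10) (nat_lit 5) (nat_lit 9) (nat_lit 4) (nat_lit 325) (nat_lit 289) (nat_lit 106))))))) (XT.nd (nat_lit 35490) (nat_lit 0) (nat_lit 760) (XT.nd (nat_lit 34944) (nat_lit 0) (nat_lit 1976) (XT.nd (nat_lit 34710) (nat_lit 0) (nat_lit 2204) (XT.nd (nat_lit 78) (nat_lit 76) (nat_lit 0) (XT.lf (nat_lit 0) (nat_lit 210254588735) (nat_lit 152) (nat_lit 403474538018) (nat_lit 76) (nat_lit 599454982516) (nat_lit 8) (nat_lit 5) (nat_lit 10) (nat_lit 5) (nat_lit 9) (nat_lit 4) (nat_lit 326) (nat_lit 289) (nat_lit 105)) (XT.nd (nat_lit 78) (nat_lit 76) (nat_lit 0) (XT.lf (nat_lit 0) (nat_lit 358187706701) (nat_lit 152) (nat_lit 95773696744) (nat_lit 76) (nat_lit 840395320816) (nat_lit 8) (nat_lit 5) (nat_lit 10) (nat_lit 5) (nat_lit 9) (nat_lit 4) (nat_lit 327) (nat_lit 289) (nat_lit 104)) (XT.lf (nat_lit 0) (nat_lit 248999122200) (nat_lit 76) (nat_lit 274944767084) (nat_lit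 152) (nat_lit 857600185995) (nat_lit 7) (nat_lit 5) (nat_lit 8) (nat_lit 5) (nat_lit 9) (nat_lit 4) (nat_lit 328) (nat_lit 289) (nat_lit 103)))) (XT.nd (nat_lit 78) (nat_lit 0) (nat_lit 0) (XT.lf (nat_lit 0) (nat_lit 35436840960) (nat_lit 532) (nat_lit 30390518793) (nat_lit 532) (nat_lit 30390518793) (nat_lit 36) (nat_lit 3) (nat_lit 43) (nat_lit 3) (nat_lit 43) (nat_lit 5) (nat_lit 290) (nat_lit 290) (nat_lit 140)) (XT.nd (nat_lit 78) (nat_lit 0) (nat_lit 76) (XT.lf (nat_lit 76) (nat_lit 22611250466) (nat_lit 0) (nat_lit 51642754864) (nat_lit 532) (nat_lit 125835543621) (nat_lit 37) (nat_lit 5) (nat_lit 36) (nat_lit 3) (nat_lit 43) (nat_lit 5) (nat_lit 291) (nat_lit 290) (nat_lit 139)) (XT.lf (nat_lit 0) (nat_lit 80445846407) (nat_lit 456) (nat_lit 92970596106) (nat_lit 532) (nat_lit 34735915131) (nat_lit 37) (nat_lit 5) (nat_lit 43) (nat_lit 5) (nat_lit 44) (nat_lit 5) (nat_lit 292)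 (nat_lit 290) (nat_lit 138))))) (XT.nd (nat_lit 234) (nat_lit 304) (nat_lit 0) (XT.nd (nat_lit 78) (nat_lit 0) (nat_lit 0) (XT.lf (nat_lit 0) (nat_lit 88474258671) (nat_lit 456) (nat_lit 3043745296) (nat_lit 532) (nat_lit 125234889930) (nat_lit 37) (nat_lit 5) (nat_lit 43) (nat_lit 5) (nat_lit 44) (nat_lit 5) (nat_lit 293) (nat_lit 290) (nat_lit 137)) (XT.nd (nat_lit 78) (nat_lit 0) (nat_lit 76) (XT.lf (nat_lit 76) (nat_lit 99031099999) (nat_lit 0) (nat_lit 495408736) (nat_lit 532) (nat_lit 126324439841) (nat_lit 38) (nat_lit 5) (nat_lit 37) (nat_lit 5) (nat_lit 44) (nat_lit 5) (nat_lit 294) (nat_lit 290) (nat_lit 136)) (XT.lf (nat_lit 0) (nat_lit 113900503812) (nat_lit 456) (nat_lit 28579726581) (nat_lit 532) (nat_lit 93001612701) (nat_lit 38) (nat_lit 5) (nat_lit 44) (nat_lit 5) (nat_lit 45) (nat_lit 5) (nat_lit 295) (nat_lit 290) (nat_lit 135)))) (XT.nd (nat_lit 156) (nat_lit 380)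 (nat_lit 0) (XT.nd (nat_lit 78) (nat_lit 0) (nat_lit 76) (XT.lf (nat_lit 76) (nat_lit 81588007565) (nat_lit 0) (nat_lit 49811354972) (nat_lit 532) (nat_lit 114325851724) (nat_lit 39) (nat_lit 5) (nat_lit 38) (nat_lit 5) (nat_lit 45) (nat_lit 5) (nat_lit 296) (nat_lit 290) (nat_lit 134)) (XT.lf (nat_lit 0) (nat_lit 152308756214) (nat_lit 456) (nat_lit 55760442806) (nat_lit 76) (nat_lit 48558006570) (nat_lit 39) (nat_lit 5) (nat_lit 45) (nat_lit 5) (nat_lit 40) (nat_lit 5) (nat_lit 297) (nat_lit 290) (nat_lit 133))) (XT.nd (nat_lit 78) (nat_lit 0) (nat_lit 0) (XT.lf (nat_lit 0) (nat_lit 63151670493) (nat_lit 456) (nat_lit 114551729436) (nat_lit 532) (nat_lit 90472956938) (nat_lit 33) (nat_lit 5) (nat_lit 39) (nat_lit 5) (nat_lit 40) (nat_lit 5) (nat_lit 298) (nat_lit 290) (nat_lit 132)) (XT.lf (nat_lit 0) (nat_lit 194747808393) (nat_lit 456) (nat_lit 11906299384) (nat_lit 532) (nat_lit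 73873373545) (nat_lit 33) (nat_lit 5) (nat_lit 39) (nat_lit 5) (nat_lit 40) (nat_lit 5) (nat_lit 299) (nat_lit 290) (nat_lit 131)))))) (XT.nd (nat_lit 468) (nat_lit 532) (nat_lit 0) (XT.nd (nat_lit 234) (nat_lit 228) (nat_lit 0) (XT.nd (nat_lit 78) (nat_lit 228) (nat_lit 0) (XT.lf (nat_lit 0) (nat_lit 42764326810) (nat_lit 228) (nat_lit 198564707429) (nat_lit 304) (nat_lit 52265008986) (nat_lit 30) (nat_lit 5) (nat_lit 33) (nat_lit 5) (nat_lit 34) (nat_lit 5) (nat_lit 300) (nat_lit 290) (nat_lit 130)) (XT.nd (nat_lit 78) (nat_lit 228) (nat_lit 0) (XT.lf (nat_lit 0) (nat_lit 186144584199) (nat_lit 228) (nat_lit 95280079291) (nat_lit 304) (nat_lit 26069530314) (nat_lit 30) (nat_lit 5) (nat_lit 33) (nat_lit 5) (nat_lit 34) (nat_lit 5) (nat_lit 301) (nat_lit 290) (nat_lit 129)) (XT.lf (nat_lit 0) (nat_lit 2981831195) (nat_lit 228) (nat_lit 303463326607) (nat_lit 76) (nat_lit 15987214463)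 (nat_lit 27) (nat_lit 5) (nat_lit 30) (nat_lit 5) (nat_lit 28) (nat_lit 5) (nat_lit 302) (nat_lit 290) (nat_lit 128)))) (XT.nd (nat_lit 78) (nat_lit 228) (nat_lit 0) (XT.lf (nat_lit 0) (nat_lit 38827692811) (nat_lit 228) (nat_lit 164123927394) (nat_lit 76) (nat_lit 135089508840) (nat_lit 27) (nat_lit 5) (nat_lit 30) (nat_lit 5) (nat_lit 28) (nat_lit 5) (nat_lit 303) (nat_lit 290) (nat_lit 127)) (XT.nd (nat_lit 78) (nat_lit 228) (nat_lit 0) (XT.lf (nat_lit 0) (nat_lit 77541151830) (nat_lit 228) (nat_lit 13637460642) (nat_lit 76) (nat_lit 263719979926) (nat_lit 27) (nat_lit 5) (nat_lit 30) (nat_lit 5) (nat_lit 28) (nat_lit 5) (nat_lit 304) (nat_lit 290) (nat_lit 126)) (XT.lf (nat_lit 0) (nat_lit 123929185001) (nat_lit 304) (nat_lit 216883349128) (nat_lit 76) (nat_lit 31925919178) (nat_lit 24) (nat_lit 5) (nat_lit 28) (nat_lit 5) (nat_lit 25) (nat_lit 5) (nat_lit 305) (nat_lit 290) (nat_lit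 125))))) (XT.nd (nat_lit 234) (nat_lit 380) (nat_lit 0) (XT.nd (nat_lit 78) (nat_lit 152) (nat_lit 0) (XT.lf (nat_lit 0) (nat_lit 176779030346) (nat_lit 304) (nat_lit 54671066459) (nat_lit 76) (nat_lit 160335344986) (nat_lit 24) (nat_lit 5) (nat_lit 28) (nat_lit 5) (nat_lit 25) (nat_lit 5) (nat_lit 306) (nat_lit 290) (nat_lit 124)) (XT.nd (nat_lit 78) (nat_lit 0) (nat_lit 0) (XT.lf (nat_lit 0) (nat_lit 126864394483) (nat_lit 152) (nat_lit 110043501808) (nat_lit 228) (nat_lit 175204210668) (nat_lit 22) (nat_lit 5) (nat_lit 24) (nat_lit 5) (nat_lit 25) (nat_lit 5) (nat_lit 307) (nat_lit 290) (nat_lit 123)) (XT.lf (nat_lit 0) (nat_lit 303887514032) (nat_lit 228) (nat_lit 108459209563) (nat_lit 76) (nat_lit 21554946569) (nat_lit 22) (nat_lit 5) (nat_lit 25) (nat_lit 5) (nat_lit 23) (nat_lit 5) (nat_lit 308) (nat_lit 290) (nat_lit 122)))) (XT.nd (nat_lit 156) (nat_lit 228) (nat_lit 0) (XT.nd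 (nat_lit 78) (nat_lit 0) (nat_lit 0) (XT.lf (nat_lit 0) (nat_lit 83806362669) (nat_lit 152) (nat_lit 297292903940) (nat_lit 228) (nat_lit 75945230792) (nat_lit 20) (nat_lit 5) (nat_lit 22) (nat_lit 5) (nat_lit 23) (nat_lit 5) (nat_lit 309) (nat_lit 290) (nat_lit 121)) (XT.lf (nat_lit 0) (nat_lit 297621282034) (nat_lit 152) (nat_lit 169832094160) (nat_lit 228) (nat_lit 14348141473) (nat_lit 20) (nat_lit 5) (nat_lit 22) (nat_lit 5) (nat_lit 23) (nat_lit 5) (nat_lit 310) (nat_lit 290) (nat_lit 120))) (XT.nd (nat_lit 78) (nat_lit 0) (nat_lit 0) (XT.lf (nat_lit 0) (nat_lit 19734580274) (nat_lit 152) (nat_lit 30306613391) (nat_lit 228) (nat_lit 458359552413) (nat_lit 17) (nat_lit 5) (nat_lit 19) (nat_lit 5) (nat_lit 20) (nat_lit 5) (nat_lit 311) (nat_lit 290) (nat_lit 119)) (XT.lf (nat_lit 0) (nat_lit 126868235008) (nat_lit 228) (nat_lit 289686685166) (nat_lit 76) (nat_lit 119898239882)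 (nat_lit 17) (nat_lit 5) (nat_lit 20) (nat_lit 5) (nat_lit 18) (nat_lit 5) (nat_lit 312) (nat_lit 290) (nat_lit 118))))))))
noncomputable def xc120 : XT := (XT.nd (nat_lit 36582) (nat_lit 0) (nat_lit 76) (XT.nd (nat_lit 936) (nat_lit 152) (nat_lit 0) (XT.nd (nat_lit 468) (nat_lit 228) (nat_lit 0) (XT.nd (nat_lit 234) (nat_lit 152) (nat_lit 0) (XT.nd (nat_lit 78) (nat_lit 152) (nat_lit 0) (XT.lf (nat_lit 0) (nat_lit 210628581487) (nat_lit 228) (nat_lit 75576094856) (nat_lit 76) (nat_lit 280482119606) (nat_lit 17) (nat_lit 5) (nat_lit 20) (nat_lit 5) (nat_lit 18) (nat_lit 5) (nat_lit 313) (nat_lit 290) (nat_lit 117)) (XT.nd (nat_lit 78) (nat_lit 0) (nat_lit 0) (XT.lf (nat_lit 0) (nat_lit 163860236048) (nat_lit 152) (nat_lit 141170322498) (nat_lit 228) (nat_lit 293993300072) (nat_lit 15) (nat_lit 5) (nat_lit 17) (nat_lit 5) (nat_lit 18) (nat_lit 5) (nat_lit 314) (nat_lit 290) (nat_lit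 116)) (XT.lf (nat_lit 0) (nat_lit 409476688210) (nat_lit 228) (nat_lit 207458731867) (nat_lit 76) (nat_lit 16813106789) (nat_lit 15) (nat_lit 5) (nat_lit 18) (nat_lit 5) (nat_lit 16) (nat_lit 4) (nat_lit 315) (nat_lit 290) (nat_lit 115)))) (XT.nd (nat_lit 78) (nat_lit 76) (nat_lit 0) (XT.lf (nat_lit 0) (nat_lit 36628014076) (nat_lit 76) (nat_lit 490198124606) (nat_lit 152) (nat_lit 144061219569) (nat_lit 14) (nat_lit 5) (nat_lit 15) (nat_lit 5) (nat_lit 16) (nat_lit 4) (nat_lit 316) (nat_lit 290) (nat_lit 114)) (XT.nd (nat_lit 78) (nat_lit 76) (nat_lit 0) (XT.lf (nat_lit 0) (nat_lit 312040007019) (nat_lit 76) (nat_lit 347195793084) (nat_lit 152) (nat_lit 51307715756) (nat_lit 14) (nat_lit 5) (nat_lit 15) (nat_lit 5) (nat_lit 16) (nat_lit 4) (nat_lit 317) (nat_lit 290) (nat_lit 113)) (XT.lf (nat_lit 0) (nat_lit 46421556879) (nat_lit 152) (nat_lit 145062489156) (nat_lit 76) (nat_lit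 561794104348) (nat_lit 13) (nat_lit 5) (nat_lit 15) (nat_lit 5) (nat_lit 14) (nat_lit 5) (nat_lit 318) (nat_lit 290) (nat_lit 112))))) (XT.nd (nat_lit 234) (nat_lit 76) (nat_lit 0) (XT.nd (nat_lit 78) (nat_lit 0) (nat_lit 0) (XT.lf (nat_lit 0) (nat_lit 134025598948) (nat_lit 152) (nat_lit 18394911535) (nat_lit 228) (nat_lit 646646568754) (nat_lit 11) (nat_lit 5) (nat_lit 13) (nat_lit 5) (nat_lit 14) (nat_lit 5) (nat_lit 319) (nat_lit 290) (nat_lit 111)) (XT.nd (nat_lit 78) (nat_lit 0) (nat_lit 0) (XT.lf (nat_lit 0) (nat_lit 275022059678) (nat_lit 228) (nat_lit 408667747497) (nat_lit 76) (nat_lit 164179500958) (nat_lit 11) (nat_lit 5) (nat_lit 14) (nat_lit 5) (nat_lit 12) (nat_lit 4) (nat_lit 320) (nat_lit 290) (nat_lit 110)) (XT.lf (nat_lit 0) (nat_lit 407909495201) (nat_lit 228) (nat_lit 132261951583) (nat_lit 76) (nat_lit 360366047636) (nat_lit 11) (nat_lit 5) (nat_lit 14) (nat_lit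 5) (nat_lit 12) (nat_lit 4) (nat_lit 321) (nat_lit 290) (nat_lit 109)))) (XT.nd (nat_lit 78) (nat_lit 0) (nat_lit 0) (XT.lf (nat_lit 0) (nat_lit 175011026113) (nat_lit 76) (nat_lit 380625893360) (nat_lit 152) (nat_lit 401445496690) (nat_lit 10) (nat_lit 5) (nat_lit 11) (nat_lit 5) (nat_lit 12) (nat_lit 4) (nat_lit 322) (nat_lit 290) (nat_lit 108)) (XT.nd (nat_lit 78) (nat_lit 0) (nat_lit 0) (XT.lf (nat_lit 0) (nat_lit 514387655260) (nat_lit 76) (nat_lit 204411133991) (nat_lit 152) (nat_lit 299062842331) (nat_lit 10) (nat_lit 5) (nat_lit 11) (nat_lit 5) (nat_lit 12) (nat_lit 4) (nat_lit 323) (nat_lit 290) (nat_lit 107)) (XT.lf (nat_lit 0) (nat_lit 880914376641) (nat_lit 76) (nat_lit 14099209210) (nat_lit 152) (nat_lit 188489600260) (nat_lit 10) (nat_lit 5) (nat_lit 11) (nat_lit 5) (nat_lit 12) (nat_lit 4) (nat_lit 324) (nat_lit 290) (nat_lit 106)))))) (XT.nd (nat_lit 35100) (nat_lit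 0) (nat_lit 1900) (XT.nd (nat_lit 34866) (nat_lit 0) (nat_lit 2128) (XT.nd (nat_lit 78) (nat_lit 76) (nat_lit 0) (XT.lf (nat_lit 0) (nat_lit 123964247202) (nat_lit 76) (nat_lit 968946721244) (nat_lit 76) (nat_lit 60878264427) (nat_lit 9) (nat_lit 4) (nat_lit 10) (nat_lit 5) (nat_lit 10) (nat_lit 4) (nat_lit 325) (nat_lit 290) (nat_lit 105)) (XT.nd (nat_lit 156) (nat_lit 0) (nat_lit 0) (XT.lf (nat_lit 0) (nat_lit 79142231615) (nat_lit 152) (nat_lit 743452659153) (nat_lit 76) (nat_lit 406471299922) (nat_lit 8) (nat_lit 5) (nat_lit 10) (nat_lit 5) (nat_lit 9) (nat_lit 4) (nat_lit 326) (nat_lit 290) (nat_lit 104)) (XT.lf (nat_lit 0) (nat_lit 386843079049) (nat_lit 152) (nat_lit 103434975122) (nat_lit 76) (nat_lit 907627178816) (nat_lit 8) (nat_lit 5) (nat_lit 10) (nat_lit 5) (nat_lit 9) (nat_lit 4) (nat_lit 328) (nat_lit 290) (nat_lit 102)))) (XT.nd (nat_lit 78) (nat_lit 0) (nat_lit 0)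 (XT.lf (nat_lit 0) (nat_lit 38273325373) (nat_lit 532) (nat_lit 32820926175) (nat_lit 532) (nat_lit 32820926175) (nat_lit 36) (nat_lit 3) (nat_lit 43) (nat_lit 3) (nat_lit 43) (nat_lit 5) (nat_lit 291) (nat_lit 291) (nat_lit 138)) (XT.nd (nat_lit 78) (nat_lit 0) (nat_lit 76) (XT.lf (nat_lit 76) (nat_lit 24421776512) (nat_lit 0) (nat_lit 55775434897) (nat_lit 532) (nat_lit 135899255537) (nat_lit 37) (nat_lit 5) (nat_lit 36) (nat_lit 3) (nat_lit 43) (nat_lit 5) (nat_lit 292) (nat_lit 291) (nat_lit 137)) (XT.lf (nat_lit 0) (nat_lit 86884157971) (nat_lit 456) (nat_lit 100406482477) (nat_lit 532) (nat_lit 37513680350) (nat_lit 37) (nat_lit 5) (nat_lit 43) (nat_lit 5) (nat_lit 44) (nat_lit 5) (nat_lit 293) (nat_lit 291) (nat_lit 136))))) (XT.nd (nat_lit 234) (nat_lit 304) (nat_lit 0) (XT.nd (nat_lit 78) (nat_lit 0) (nat_lit 0) (XT.lf (nat_lit 0) (nat_lit 95554647374) (nat_lit 456) (nat_lit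 3285614069) (nat_lit 532) (nat_lit 135252655205) (nat_lit 37) (nat_lit 5) (nat_lit 43) (nat_lit 5) (nat_lit 44) (nat_lit 5) (nat_lit 294) (nat_lit 291) (nat_lit 135)) (XT.nd (nat_lit 78) (nat_lit 0) (nat_lit 76) (XT.lf (nat_lit 76) (nat_lit 106955177562) (nat_lit 0) (nat_lit 535756777) (nat_lit 532) (nat_lit 136427893769) (nat_lit 38) (nat_lit 5) (nat_lit 37) (nat_lit 5) (nat_lit 44) (nat_lit 5) (nat_lit 295) (nat_lit 291) (nat_lit 134)) (XT.lf (nat_lit 0) (nat_lit 123014662359) (nat_lit 456) (nat_lit 30864435151) (nat_lit 532) (nat_lit 100441112497) (nat_lit 38) (nat_lit 5) (nat_lit 44) (nat_lit 5) (nat_lit 45) (nat_lit 5) (nat_lit 296) (nat_lit 291) (nat_lit 133)))) (XT.nd (nat_lit 156) (nat_lit 380) (nat_lit 0) (XT.nd (nat_lit 78) (nat_lit 0) (nat_lit 76) (XT.lf (nat_lit 76) (nat_lit 88116675459) (nat_lit 0) (nat_lit 53796636552) (nat_lit 532) (nat_lit 123469749099) (nat_lit 39)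 (nat_lit 5) (nat_lit 38) (nat_lit 5) (nat_lit 45) (nat_lit 5) (nat_lit 297) (nat_lit 291) (nat_lit 132)) (XT.lf (nat_lit 0) (nat_lit 164495300689) (nat_lit 456) (nat_lit 60219605493) (nat_lit 76) (nat_lit 52442318842) (nat_lit 39) (nat_lit 5) (nat_lit 45) (nat_lit 5) (nat_lit 40) (nat_lit 5) (nat_lit 298) (nat_lit 291) (nat_lit 131))) (XT.nd (nat_lit 78) (nat_lit 0) (nat_lit 0) (XT.lf (nat_lit 0) (nat_lit 68205434522) (nat_lit 456) (nat_lit 123715983999) (nat_lit 532) (nat_lit 97708898375) (nat_lit 33) (nat_lit 5) (nat_lit 39) (nat_lit 5) (nat_lit 40) (nat_lit 5) (nat_lit 299) (nat_lit 291) (nat_lit 130)) (XT.lf (nat_lit 0) (nat_lit 210329142684) (nat_lit 456) (nat_lit 12858910935) (nat_lit 532) (nat_lit 79781488690) (nat_lit 33) (nat_lit 5) (nat_lit 39) (nat_lit 5) (nat_lit 40) (nat_lit 5) (nat_lit 300) (nat_lit 291) (nat_lit 129))))))) (XT.nd (nat_lit 1014) (nat_lit 608) (nat_lit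 0) (XT.nd (nat_lit 468) (nat_lit 532) (nat_lit 0) (XT.nd (nat_lit 234) (nat_lit 228) (nat_lit 0) (XT.nd (nat_lit 78) (nat_lit 228) (nat_lit 0) (XT.lf (nat_lit 0) (nat_lit 46187080916) (nat_lit 228) (nat_lit 214449809764) (nat_lit 304) (nat_lit 56444545769) (nat_lit 30) (nat_lit 5) (nat_lit 33) (nat_lit 5) (nat_lit 34) (nat_lit 5) (nat_lit 301) (nat_lit 291) (nat_lit 128)) (XT.nd (nat_lit 78) (nat_lit 228) (nat_lit 0) (XT.lf (nat_lit 0) (nat_lit 201037639787) (nat_lit 228) (nat_lit 102902416875) (nat_lit 304) (nat_lit 28153552058) (nat_lit 30) (nat_lit 5) (nat_lit 33) (nat_lit 5) (nat_lit 34) (nat_lit 5) (nat_lit 302) (nat_lit 291) (nat_lit 127)) (XT.lf (nat_lit 0) (nat_lit 3221773124) (nat_lit 228) (nat_lit 327738746188) (nat_lit 76) (nat_lit 17266325116) (nat_lit 27) (nat_lit 5) (nat_lit 30) (nat_lit 5) (nat_lit 28) (nat_lit 5) (nat_lit 303) (nat_lit 291) (nat_lit 126)))) (XT.nd (nat_lit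 78) (nat_lit 228) (nat_lit 0) (XT.lf (nat_lit 0) (nat_lit 41935200303) (nat_lit 228) (nat_lit 177252317005) (nat_lit 76) (nat_lit 145896793156) (nat_lit 27) (nat_lit 5) (nat_lit 30) (nat_lit 5) (nat_lit 28) (nat_lit 5) (nat_lit 304) (nat_lit 291) (nat_lit 125)) (XT.nd (nat_lit 78) (nat_lit 228) (nat_lit 0) (XT.lf (nat_lit 0) (nat_lit 83745640335) (nat_lit 228) (nat_lit 14727045844) (nat_lit 76) (nat_lit 284817692772) (nat_lit 27) (nat_lit 5) (nat_lit 30) (nat_lit 5) (nat_lit 28) (nat_lit 5) (nat_lit 305) (nat_lit 291) (nat_lit 124)) (XT.lf (nat_lit 0) (nat_lit 133844666285) (nat_lit 304) (nat_lit 234232550785) (nat_lit 76) (nat_lit 34480216033) (nat_lit 24) (nat_lit 5) (nat_lit 28) (nat_lit 5) (nat_lit 25) (nat_lit 5) (nat_lit 306) (nat_lit 291) (nat_lit 123))))) (XT.nd (nat_lit 234) (nat_lit 380) (nat_lit 0) (XT.nd (nat_lit 78) (nat_lit 152) (nat_lit 0) (XT.lf (nat_lit 0) (nat_lit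 190922414333) (nat_lit 304) (nat_lit 59043394115) (nat_lit 76) (nat_lit 173162379364) (nat_lit 24) (nat_lit 5) (nat_lit 28) (nat_lit 5) (nat_lit 25) (nat_lit 5) (nat_lit 307) (nat_lit 291) (nat_lit 122)) (XT.nd (nat_lit 78) (nat_lit 0) (nat_lit 0) (XT.lf (nat_lit 0) (nat_lit 137014869331) (nat_lit 152) (nat_lit 118846673414) (nat_lit 228) (nat_lit 189219447519) (nat_lit 22) (nat_lit 5) (nat_lit 24) (nat_lit 5) (nat_lit 25) (nat_lit 5) (nat_lit 308) (nat_lit 291) (nat_lit 121)) (XT.lf (nat_lit 0) (nat_lit 328199461608) (nat_lit 228) (nat_lit 117134648994) (nat_lit 76) (nat_lit 23279613688) (nat_lit 22) (nat_lit 5) (nat_lit 25) (nat_lit 5) (nat_lit 23) (nat_lit 5) (nat_lit 309) (nat_lit 291) (nat_lit 120)))) (XT.nd (nat_lit 156) (nat_lit 228) (nat_lit 0) (XT.nd (nat_lit 78) (nat_lit 0) (nat_lit 0) (XT.lf (nat_lit 0) (nat_lit 90512136174) (nat_lit 152) (nat_lit 321075978522) (nat_lit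 228) (nat_lit 82019866466) (nat_lit 20) (nat_lit 5) (nat_lit 22) (nat_lit 5) (nat_lit 23) (nat_lit 5) (nat_lit 310) (nat_lit 291) (nat_lit 119)) (XT.lf (nat_lit 0) (nat_lit 321432155421) (nat_lit 152) (nat_lit 183418330458) (nat_lit 228) (nat_lit 15495082801) (nat_lit 20) (nat_lit 5) (nat_lit 22) (nat_lit 5) (nat_lit 23) (nat_lit 5) (nat_lit 311) (nat_lit 291) (nat_lit 118))) (XT.nd (nat_lit 78) (nat_lit 0) (nat_lit 0) (XT.lf (nat_lit 0) (nat_lit 21314535166) (nat_lit 152) (nat_lit 32730783009) (nat_lit 228) (nat_lit 495027418496) (nat_lit 17) (nat_lit 5) (nat_lit 19) (nat_lit 5) (nat_lit 20) (nat_lit 5) (nat_lit 312) (nat_lit 291) (nat_lit 117)) (XT.lf (nat_lit 0) (nat_lit 137018469422) (nat_lit 228) (nat_lit 312860463574) (nat_lit 76) (nat_lit 129490415250) (nat_lit 17) (nat_lit 5) (nat_lit 20) (nat_lit 5) (nat_lit 18) (nat_lit 5) (nat_lit 313) (nat_lit 291) (nat_lit 116)))))) (XT.nd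 (nat_lit 468) (nat_lit 304) (nat_lit 0) (XT.nd (nat_lit 234) (nat_lit 152) (nat_lit 0) (XT.nd (nat_lit 78) (nat_lit 152) (nat_lit 0) (XT.lf (nat_lit 0) (nat_lit 227479586166) (nat_lit 228) (nat_lit 81621111699) (nat_lit 76) (nat_lit 302920981932) (nat_lit 17) (nat_lit 5) (nat_lit 20) (nat_lit 5) (nat_lit 18) (nat_lit 5) (nat_lit 314) (nat_lit 291) (nat_lit 115)) (XT.nd (nat_lit 78) (nat_lit 0) (nat_lit 0) (XT.lf (nat_lit 0) (nat_lit 176970098571) (nat_lit 152) (nat_lit 152463594722) (nat_lit 228) (nat_lit 317512016610) (nat_lit 15) (nat_lit 5) (nat_lit 17) (nat_lit 5) (nat_lit 18) (nat_lit 5) (nat_lit 315) (nat_lit 291) (nat_lit 114)) (XT.lf (nat_lit 0) (nat_lit 442235470087) (nat_lit 228) (nat_lit 224054418805) (nat_lit 76) (nat_lit 18158466340) (nat_lit 15) (nat_lit 5) (nat_lit 18) (nat_lit 5) (nat_lit 16) (nat_lit 4) (nat_lit 316) (nat_lit 291) (nat_lit 113)))) (XT.nd (nat_lit 78)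 (nat_lit 76) (nat_lit 0) (XT.lf (nat_lit 0) (nat_lit 39559241203) (nat_lit 76) (nat_lit 529413611194) (nat_lit 152) (nat_lit 155585442818) (nat_lit 14) (nat_lit 5) (nat_lit 15) (nat_lit 5) (nat_lit 16) (nat_lit 4) (nat_lit 317) (nat_lit 291) (nat_lit 112)) (XT.nd (nat_lit 78) (nat_lit 76) (nat_lit 0) (XT.lf (nat_lit 0) (nat_lit 337004120545) (nat_lit 76) (nat_lit 374971120068) (nat_lit 152) (nat_lit 55411708649) (nat_lit 14) (nat_lit 5) (nat_lit 15) (nat_lit 5) (nat_lit 16) (nat_lit 4) (nat_lit 318) (nat_lit 291) (nat_lit 111)) (XT.lf (nat_lit 0) (nat_lit 50135830628) (nat_lit 152) (nat_lit 156666612534) (nat_lit 76) (nat_lit 606737913818) (nat_lit 13) (nat_lit 5) (nat_lit 15) (nat_lit 5) (nat_lit 14) (nat_lit 5) (nat_lit 319) (nat_lit 291) (nat_lit 110))))) (XT.nd (nat_lit 234) (nat_lit 152) (nat_lit 0) (XT.nd (nat_lit 78) (nat_lit 0) (nat_lit 0) (XT.lf (nat_lit 0) (nat_lit 144748500447)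 (nat_lit 152) (nat_lit 19866179921) (nat_lit 228) (nat_lit 698377721499) (nat_lit 11) (nat_lit 5) (nat_lit 13) (nat_lit 5) (nat_lit 14) (nat_lit 5) (nat_lit 320) (nat_lit 291) (nat_lit 109)) (XT.nd (nat_lit 78) (nat_lit 0) (nat_lit 0) (XT.lf (nat_lit 0) (nat_lit 297024321536) (nat_lit 228) (nat_lit 441360343697) (nat_lit 76) (nat_lit 177314146500) (nat_lit 11) (nat_lit 5) (nat_lit 14) (nat_lit 5) (nat_lit 12) (nat_lit 4) (nat_lit 321) (nat_lit 291) (nat_lit 108)) (XT.lf (nat_lit 0) (nat_lit 440542715080) (nat_lit 228) (nat_lit 142842145117) (nat_lit 76) (nat_lit 389195595767) (nat_lit 11) (nat_lit 5) (nat_lit 14) (nat_lit 5) (nat_lit 12) (nat_lit 4) (nat_lit 322) (nat_lit 291) (nat_lit 107)))) (XT.nd (nat_lit 156) (nat_lit 76) (nat_lit 0) (XT.nd (nat_lit 78) (nat_lit 0) (nat_lit 0) (XT.lf (nat_lit 0) (nat_lit 189012651489) (nat_lit 76) (nat_lit 411075665588) (nat_lit 152) (nat_lit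 433560655756) (nat_lit 10) (nat_lit 5) (nat_lit 11) (nat_lit 5) (nat_lit 12) (nat_lit 4) (nat_lit 323) (nat_lit 291) (nat_lit 106)) (XT.lf (nat_lit 0) (nat_lit 555539355909) (nat_lit 76) (nat_lit 220763747635) (nat_lit 152) (nat_lit 322987424652) (nat_lit 10) (nat_lit 5) (nat_lit 11) (nat_lit 5) (nat_lit 12) (nat_lit 4) (nat_lit 324) (nat_lit 291) (nat_lit 105))) (XT.nd (nat_lit 78) (nat_lit 76) (nat_lit 0) (XT.lf (nat_lit 0) (nat_lit 951388164020) (nat_lit 76) (nat_lit 15226889396) (nat_lit 152) (nat_lit 203568356184) (nat_lit 10) (nat_lit 5) (nat_lit 11) (nat_lit 5) (nat_lit 12) (nat_lit 4) (nat_lit 325) (nat_lit 291) (nat_lit 104)) (XT.lf (nat_lit 0) (nat_lit 133882032684) (nat_lit 76) (nat_lit 1046462186978) (nat_lit 76) (nat_lit 65748121068) (nat_lit 9) (nat_lit 4) (nat_lit 10) (nat_lit 5) (nat_lit 10) (nat_lit 4) (nat_lit 326) (nat_lit 291) (nat_lit 103))))))))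
noncomputable def xc121 : XT := (XT.nd (nat_lit 36738) (nat_lit 0) (nat_lit 76) (XT.nd (nat_lit 35724) (nat_lit 0) (nat_lit 532) (XT.nd (nat_lit 35178) (nat_lit 0) (nat_lit 1672) (XT.nd (nat_lit 34944) (nat_lit 0) (nat_lit 2204) (XT.nd (nat_lit 34788) (nat_lit 0) (nat_lit 2128) (XT.lf (nat_lit 0) (nat_lit 85473965956) (nat_lit 152) (nat_lit 802928254523) (nat_lit 76) (nat_lit 438989236251) (nat_lit 8) (nat_lit 5) (nat_lit 10) (nat_lit 5) (nat_lit 9) (nat_lit 4) (nat_lit 327) (nat_lit 291) (nat_lit 102)) (XT.nd (nat_lit 78) (nat_lit 0) (nat_lit 0) (XT.lf (nat_lit 0) (nat_lit 41336509249) (nat_lit 532) (nat_lit 35445885144) (nat_lit 532) (nat_lit 35445885144) (nat_lit 36) (nat_lit 3) (nat_lit 43) (nat_lit 3) (nat_lit 43) (nat_lit 5) (nat_lit 292) (nat_lit 292) (nat_lit 136)) (XT.lf (nat_lit 76) (nat_lit 26376912674) (nat_lit 0) (nat_lit 60238549630) (nat_lit 532) (nat_lit 146768511161)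 (nat_lit 37) (nat_lit 5) (nat_lit 36) (nat_lit 3) (nat_lit 43) (nat_lit 5) (nat_lit 293) (nat_lit 292) (nat_lit 135)))) (XT.nd (nat_lit 78) (nat_lit 0) (nat_lit 0) (XT.lf (nat_lit 0) (nat_lit 93837157284) (nat_lit 456) (nat_lit 108437491028) (nat_lit 532) (nat_lit 40513824853) (nat_lit 37) (nat_lit 5) (nat_lit 43) (nat_lit 5) (nat_lit 44) (nat_lit 5) (nat_lit 294) (nat_lit 292) (nat_lit 134)) (XT.nd (nat_lit 78) (nat_lit 0) (nat_lit 0) (XT.lf (nat_lit 0) (nat_lit 103201117938) (nat_lit 456) (nat_lit 3547065004) (nat_lit 532) (nat_lit 146071988062) (nat_lit 37) (nat_lit 5) (nat_lit 43) (nat_lit 5) (nat_lit 44) (nat_lit 5) (nat_lit 295) (nat_lit 292) (nat_lit 133)) (XT.lf (nat_lit 76) (nat_lit 115512954561) (nat_lit 0) (nat_lit 579230610) (nat_lit 532) (nat_lit 147339980845) (nat_lit 38) (nat_lit 5) (nat_lit 37) (nat_lit 5) (nat_lit 44) (nat_lit 5) (nat_lit 296) (nat_lit 292) (nat_lit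 132))))) (XT.nd (nat_lit 234) (nat_lit 608) (nat_lit 0) (XT.nd (nat_lit 78) (nat_lit 0) (nat_lit 0) (XT.lf (nat_lit 0) (nat_lit 132857651398) (nat_lit 456) (nat_lit 33332158588) (nat_lit 532) (nat_lit 108475862041) (nat_lit 38) (nat_lit 5) (nat_lit 44) (nat_lit 5) (nat_lit 45) (nat_lit 5) (nat_lit 297) (nat_lit 292) (nat_lit 131)) (XT.nd (nat_lit 78) (nat_lit 0) (nat_lit 76) (XT.lf (nat_lit 76) (nat_lit 95167404634) (nat_lit 0) (nat_lit 58100687419) (nat_lit 532) (nat_lit 133345467947) (nat_lit 39) (nat_lit 5) (nat_lit 38) (nat_lit 5) (nat_lit 45) (nat_lit 5) (nat_lit 298) (nat_lit 292) (nat_lit 130)) (XT.lf (nat_lit 0) (nat_lit 177656505658) (nat_lit 456) (nat_lit 65035739830) (nat_lit 76) (nat_lit 56637422924) (nat_lit 39) (nat_lit 5) (nat_lit 45) (nat_lit 5) (nat_lit 40) (nat_lit 5) (nat_lit 299) (nat_lit 292) (nat_lit 129)))) (XT.nd (nat_lit 156) (nat_lit 228) (nat_lit 0) (XT.nd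 (nat_lit 78) (nat_lit 0) (nat_lit 0) (XT.lf (nat_lit 0) (nat_lit 73663267080) (nat_lit 456) (nat_lit 133613362349) (nat_lit 532) (nat_lit 105523985487) (nat_lit 33) (nat_lit 5) (nat_lit 39) (nat_lit 5) (nat_lit 40) (nat_lit 5) (nat_lit 300) (nat_lit 292) (nat_lit 128)) (XT.lf (nat_lit 0) (nat_lit 227156768355) (nat_lit 456) (nat_lit 13887716059) (nat_lit 532) (nat_lit 86162503380) (nat_lit 33) (nat_lit 5) (nat_lit 39) (nat_lit 5) (nat_lit 40) (nat_lit 5) (nat_lit 301) (nat_lit 292) (nat_lit 127))) (XT.nd (nat_lit 78) (nat_lit 0) (nat_lit 0) (XT.lf (nat_lit 0) (nat_lit 49883425956) (nat_lit 228) (nat_lit 231605730879) (nat_lit 304) (nat_lit 60958682875) (nat_lit 30) (nat_lit 5) (nat_lit 33) (nat_lit 5) (nat_lit 34) (nat_lit 5) (nat_lit 302) (nat_lit 292) (nat_lit 126)) (XT.lf (nat_lit 0) (nat_lit 217121927422) (nat_lit 228) (nat_lit 111134551276) (nat_lit 304) (nat_lit 30404515337)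 (nat_lit 30) (nat_lit 5) (nat_lit 33) (nat_lit 5) (nat_lit 34) (nat_lit 5) (nat_lit 303) (nat_lit 292) (nat_lit 125)))))) (XT.nd (nat_lit 468) (nat_lit 532) (nat_lit 0) (XT.nd (nat_lit 234) (nat_lit 380) (nat_lit 0) (XT.nd (nat_lit 78) (nat_lit 0) (nat_lit 0) (XT.lf (nat_lit 0) (nat_lit 3480711332) (nat_lit 228) (nat_lit 353956434235) (nat_lit 76) (nat_lit 18647745577) (nat_lit 27) (nat_lit 5) (nat_lit 30) (nat_lit 5) (nat_lit 28) (nat_lit 5) (nat_lit 304) (nat_lit 292) (nat_lit 124)) (XT.nd (nat_lit 78) (nat_lit 0) (nat_lit 0) (XT.lf (nat_lit 0) (nat_lit 45291124066) (nat_lit 228) (nat_lit 191431195284) (nat_lit 76) (nat_lit 157568642582) (nat_lit 27) (nat_lit 5) (nat_lit 30) (nat_lit 5) (nat_lit 28) (nat_lit 5) (nat_lit 305) (nat_lit 292) (nat_lit 123)) (XT.lf (nat_lit 0) (nat_lit 90446317246) (nat_lit 228) (nat_lit 15903999251) (nat_lit 76) (nat_lit 307603206317) (nat_lit 27) (nat_lit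 5) (nat_lit 30) (nat_lit 5) (nat_lit 28) (nat_lit 5) (nat_lit 306) (nat_lit 292) (nat_lit 122)))) (XT.nd (nat_lit 78) (nat_lit 152) (nat_lit 0) (XT.lf (nat_lit 0) (nat_lit 144553222513) (nat_lit 304) (nat_lit 252969897755) (nat_lit 76) (nat_lit 37238824778) (nat_lit 24) (nat_lit 5) (nat_lit 28) (nat_lit 5) (nat_lit 25) (nat_lit 5) (nat_lit 307) (nat_lit 292) (nat_lit 121)) (XT.nd (nat_lit 78) (nat_lit 152) (nat_lit 0) (XT.lf (nat_lit 0) (nat_lit 206197117595) (nat_lit 304) (nat_lit 63765701669) (nat_lit 76) (nat_lit 187015546993) (nat_lit 24) (nat_lit 5) (nat_lit 28) (nat_lit 5) (nat_lit 25) (nat_lit 5) (nat_lit 308) (nat_lit 292) (nat_lit 120)) (XT.lf (nat_lit 0) (nat_lit 147977193385) (nat_lit 152) (nat_lit 128354142764) (nat_lit 228) (nat_lit 204356060245) (nat_lit 22) (nat_lit 5) (nat_lit 24) (nat_lit 5) (nat_lit 25) (nat_lit 5) (nat_lit 309) (nat_lit 292) (nat_lit 119))))) (XT.nd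 (nat_lit 234) (nat_lit 380) (nat_lit 0) (XT.nd (nat_lit 78) (nat_lit 152) (nat_lit 0) (XT.lf (nat_lit 0) (nat_lit 354456229969) (nat_lit 228) (nat_lit 126504308658) (nat_lit 76) (nat_lit 25142215460) (nat_lit 22) (nat_lit 5) (nat_lit 25) (nat_lit 5) (nat_lit 23) (nat_lit 5) (nat_lit 310) (nat_lit 292) (nat_lit 118)) (XT.nd (nat_lit 78) (nat_lit 0) (nat_lit 0) (XT.lf (nat_lit 0) (nat_lit 97754191165) (nat_lit 152) (nat_lit 346761750105) (nat_lit 228) (nat_lit 88580613200) (nat_lit 20) (nat_lit 5) (nat_lit 22) (nat_lit 5) (nat_lit 23) (nat_lit 5) (nat_lit 311) (nat_lit 292) (nat_lit 117)) (XT.lf (nat_lit 0) (nat_lit 347147731648) (nat_lit 152) (nat_lit 198091512914) (nat_lit 228) (nat_lit 16733909255) (nat_lit 20) (nat_lit 5) (nat_lit 22) (nat_lit 5) (nat_lit 23) (nat_lit 5) (nat_lit 312) (nat_lit 292) (nat_lit 116)))) (XT.nd (nat_lit 156) (nat_lit 152) (nat_lit 0) (XT.nd (nat_lit 78)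 (nat_lit 0) (nat_lit 0) (XT.lf (nat_lit 0) (nat_lit 23020716901) (nat_lit 152) (nat_lit 35348937476) (nat_lit 228) (nat_lit 534628841991) (nat_lit 17) (nat_lit 5) (nat_lit 19) (nat_lit 5) (nat_lit 20) (nat_lit 5) (nat_lit 313) (nat_lit 292) (nat_lit 115)) (XT.lf (nat_lit 0) (nat_lit 147980611938) (nat_lit 228) (nat_lit 337888309228) (nat_lit 76) (nat_lit 139849919542) (nat_lit 17) (nat_lit 5) (nat_lit 20) (nat_lit 5) (nat_lit 18) (nat_lit 5) (nat_lit 314) (nat_lit 292) (nat_lit 114))) (XT.nd (nat_lit 78) (nat_lit 152) (nat_lit 0) (XT.lf (nat_lit 0) (nat_lit 245678568766) (nat_lit 228) (nat_lit 88149882643) (nat_lit 76) (nat_lit 327154911479) (nat_lit 17) (nat_lit 5) (nat_lit 20) (nat_lit 5) (nat_lit 18) (nat_lit 5) (nat_lit 315) (nat_lit 292) (nat_lit 113)) (XT.lf (nat_lit 0) (nat_lit 191128601208) (nat_lit 152) (nat_lit 164660379165) (nat_lit 228) (nat_lit 342912337106) (nat_lit 15)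 (nat_lit 5) (nat_lit 17) (nat_lit 5) (nat_lit 18) (nat_lit 5) (nat_lit 316) (nat_lit 292) (nat_lit 112))))))) (XT.nd (nat_lit 35880) (nat_lit 0) (nat_lit 1140) (XT.nd (nat_lit 468) (nat_lit 152) (nat_lit 0) (XT.nd (nat_lit 234) (nat_lit 228) (nat_lit 0) (XT.nd (nat_lit 78) (nat_lit 76) (nat_lit 0) (XT.lf (nat_lit 0) (nat_lit 477614862238) (nat_lit 228) (nat_lit 241977905016) (nat_lit 76) (nat_lit 19611410287) (nat_lit 15) (nat_lit 5) (nat_lit 18) (nat_lit 5) (nat_lit 16) (nat_lit 4) (nat_lit 317) (nat_lit 292) (nat_lit 111)) (XT.nd (nat_lit 78) (nat_lit 0) (nat_lit 0) (XT.lf (nat_lit 0) (nat_lit 42724825836) (nat_lit 76) (nat_lit 571766388550) (nat_lit 152) (nat_lit 168031700125) (nat_lit 14) (nat_lit 5) (nat_lit 15) (nat_lit 5) (nat_lit 16) (nat_lit 4) (nat_lit 318) (nat_lit 292) (nat_lit 110)) (XT.lf (nat_lit 0) (nat_lit 363965232908) (nat_lit 76) (nat_lit 404968521211) (nat_lit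 152) (nat_lit 59844110046) (nat_lit 14) (nat_lit 5) (nat_lit 15) (nat_lit 5) (nat_lit 16) (nat_lit 4) (nat_lit 319) (nat_lit 292) (nat_lit 109)))) (XT.nd (nat_lit 78) (nat_lit 152) (nat_lit 0) (XT.lf (nat_lit 0) (nat_lit 54147167927) (nat_lit 152) (nat_lit 169199190719) (nat_lit 76) (nat_lit 655277187941) (nat_lit 13) (nat_lit 5) (nat_lit 15) (nat_lit 5) (nat_lit 14) (nat_lit 5) (nat_lit 320) (nat_lit 292) (nat_lit 108)) (XT.nd (nat_lit 78) (nat_lit 0) (nat_lit 0) (XT.lf (nat_lit 0) (nat_lit 156329112293) (nat_lit 152) (nat_lit 21455196076) (nat_lit 228) (nat_lit 754247448173) (nat_lit 11) (nat_lit 5) (nat_lit 13) (nat_lit 5) (nat_lit 14) (nat_lit 5) (nat_lit 321) (nat_lit 292) (nat_lit 107)) (XT.lf (nat_lit 0) (nat_lit 320786693429) (nat_lit 228) (nat_lit 476668465088) (nat_lit 76) (nat_lit 191499522961) (nat_lit 11) (nat_lit 5) (nat_lit 14) (nat_lit 5) (nat_lit 12) (nat_lit 4) (nat_lit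 322) (nat_lit 292) (nat_lit 106))))) (XT.nd (nat_lit 312) (nat_lit 76) (nat_lit 0) (XT.nd (nat_lit 78) (nat_lit 76) (nat_lit 0) (XT.lf (nat_lit 0) (nat_lit 475786526888) (nat_lit 228) (nat_lit 154268862926) (nat_lit 76) (nat_lit 420331470040) (nat_lit 11) (nat_lit 5) (nat_lit 14) (nat_lit 5) (nat_lit 12) (nat_lit 4) (nat_lit 323) (nat_lit 292) (nat_lit 105)) (XT.nd (nat_lit 78) (nat_lit 0) (nat_lit 0) (XT.lf (nat_lit 0) (nat_lit 204134300856) (nat_lit 76) (nat_lit 443961462284) (nat_lit 152) (nat_lit 468245096119) (nat_lit 10) (nat_lit 5) (nat_lit 11) (nat_lit 5) (nat_lit 12) (nat_lit 4) (nat_lit 324) (nat_lit 292) (nat_lit 104)) (XT.lf (nat_lit 0) (nat_lit 599983094427) (nat_lit 76) (nat_lit 238424609899) (nat_lit 152) (nat_lit 348826037053) (nat_lit 10) (nat_lit 5) (nat_lit 11) (nat_lit 5) (nat_lit 12) (nat_lit 4) (nat_lit 325) (nat_lit 292) (nat_lit 103)))) (XT.nd (nat_lit 34944)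 (nat_lit 0) (nat_lit 2052) (XT.nd (nat_lit 34866) (nat_lit 0) (nat_lit 2052) (XT.lf (nat_lit 0) (nat_lit 144593148888) (nat_lit 76) (nat_lit 1130178928769) (nat_lit 76) (nat_lit 71007623949) (nat_lit 9) (nat_lit 4) (nat_lit 10) (nat_lit 5) (nat_lit 10) (nat_lit 4) (nat_lit 327) (nat_lit 292) (nat_lit 101)) (XT.lf (nat_lit 0) (nat_lit 44644559829) (nat_lit 532) (nat_lit 38280942851) (nat_lit 532) (nat_lit 38280942851) (nat_lit 36) (nat_lit 3) (nat_lit 43) (nat_lit 3) (nat_lit 43) (nat_lit 5) (nat_lit 293) (nat_lit 293) (nat_lit 134))) (XT.nd (nat_lit 78) (nat_lit 0) (nat_lit 76) (XT.lf (nat_lit 76) (nat_lit 28488260854) (nat_lit 0) (nat_lit 65058559477) (nat_lit 532) (nat_lit 158507690253) (nat_lit 37) (nat_lit 5) (nat_lit 36) (nat_lit 3) (nat_lit 43) (nat_lit 5) (nat_lit 294) (nat_lit 293) (nat_lit 133)) (XT.lf (nat_lit 0) (nat_lit 101346073176) (nat_lit 456) (nat_lit 117111195689)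 (nat_lit 532) (nat_lit 43754116434) (nat_lit 37) (nat_lit 5) (nat_lit 43) (nat_lit 5) (nat_lit 44) (nat_lit 5) (nat_lit 295) (nat_lit 293) (nat_lit 132)))))) (XT.nd (nat_lit 468) (nat_lit 684) (nat_lit 0) (XT.nd (nat_lit 234) (nat_lit 304) (nat_lit 0) (XT.nd (nat_lit 78) (nat_lit 0) (nat_lit 0) (XT.lf (nat_lit 0) (nat_lit 111459006734) (nat_lit 456) (nat_lit 3829631480) (nat_lit 532) (nat_lit 157756993026) (nat_lit 37) (nat_lit 5) (nat_lit 43) (nat_lit 5) (nat_lit 44) (nat_lit 5) (nat_lit 296) (nat_lit 293) (nat_lit 131)) (XT.nd (nat_lit 78) (nat_lit 0) (nat_lit 76) (XT.lf (nat_lit 76) (nat_lit 124755159303) (nat_lit 0) (nat_lit 626094857) (nat_lit 532) (nat_lit 159125340813) (nat_lit 38) (nat_lit 5) (nat_lit 37) (nat_lit 5) (nat_lit 44) (nat_lit 5) (nat_lit 297) (nat_lit 293) (nat_lit 130)) (XT.lf (nat_lit 0) (nat_lit 143487820481) (nat_lit 456) (nat_lit 35997504102) (nat_lit 532)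 (nat_lit 117153468509) (nat_lit 38) (nat_lit 5) (nat_lit 44) (nat_lit 5) (nat_lit 45) (nat_lit 5) (nat_lit 298) (nat_lit 293) (nat_lit 129)))) (XT.nd (nat_lit 78) (nat_lit 380) (nat_lit 0) (XT.lf (nat_lit 76) (nat_lit 102781993111) (nat_lit 0) (nat_lit 62749016713) (nat_lit 532) (nat_lit 144011509806) (nat_lit 39) (nat_lit 5) (nat_lit 38) (nat_lit 5) (nat_lit 45) (nat_lit 5) (nat_lit 299) (nat_lit 293) (nat_lit 128)) (XT.nd (nat_lit 78) (nat_lit 456) (nat_lit 0) (XT.lf (nat_lit 0) (nat_lit 191870381490) (nat_lit 456) (nat_lit 70237369504) (nat_lit 76) (nat_lit 61168175482) (nat_lit 39) (nat_lit 5) (nat_lit 45) (nat_lit 5) (nat_lit 40) (nat_lit 5) (nat_lit 300) (nat_lit 293) (nat_lit 127)) (XT.lf (nat_lit 0) (nat_lit 79557526832) (nat_lit 456) (nat_lit 144302516753) (nat_lit 532) (nat_lit 113964511358) (nat_lit 33) (nat_lit 5) (nat_lit 39) (nat_lit 5) (nat_lit 40) (nat_lit 5) (nat_lit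 301) (nat_lit 293) (nat_lit 126))))) (XT.nd (nat_lit 234) (nat_lit 456) (nat_lit 0) (XT.nd (nat_lit 78) (nat_lit 228) (nat_lit 0) (XT.lf (nat_lit 0) (nat_lit 245330419439) (nat_lit 456) (nat_lit 14998812434) (nat_lit 532) (nat_lit 93054213865) (nat_lit 33) (nat_lit 5) (nat_lit 39) (nat_lit 5) (nat_lit 40) (nat_lit 5) (nat_lit 302) (nat_lit 293) (nat_lit 125)) (XT.nd (nat_lit 78) (nat_lit 0) (nat_lit 0) (XT.lf (nat_lit 0) (nat_lit 53875281932) (nat_lit 228) (nat_lit 250134134767) (nat_lit 304) (nat_lit 65834154463) (nat_lit 30) (nat_lit 5) (nat_lit 33) (nat_lit 5) (nat_lit 34) (nat_lit 5) (nat_lit 303) (nat_lit 293) (nat_lit 124)) (XT.lf (nat_lit 0) (nat_lit 234492775967) (nat_lit 228) (nat_lit 120025264838) (nat_lit 304) (nat_lit 32835744118) (nat_lit 30) (nat_lit 5) (nat_lit 33) (nat_lit 5) (nat_lit 34) (nat_lit 5) (nat_lit 304) (nat_lit 293) (nat_lit 123)))) (XT.nd (nat_lit 156)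 (nat_lit 228) (nat_lit 0) (XT.nd (nat_lit 78) (nat_lit 0) (nat_lit 0) (XT.lf (nat_lit 0) (nat_lit 3760193923) (nat_lit 228) (nat_lit 382271738712) (nat_lit 76) (nat_lit 20139663347) (nat_lit 27) (nat_lit 5) (nat_lit 30) (nat_lit 5) (nat_lit 28) (nat_lit 5) (nat_lit 305) (nat_lit 293) (nat_lit 122)) (XT.lf (nat_lit 0) (nat_lit 48915363699) (nat_lit 228) (nat_lit 206744570294) (nat_lit 76) (nat_lit 170174224844) (nat_lit 27) (nat_lit 5) (nat_lit 30) (nat_lit 5) (nat_lit 28) (nat_lit 5) (nat_lit 306) (nat_lit 293) (nat_lit 121))) (XT.nd (nat_lit 78) (nat_lit 228) (nat_lit 0) (XT.lf (nat_lit 0) (nat_lit 97682901985) (nat_lit 228) (nat_lit 17175281587) (nat_lit 76) (nat_lit 332211546948) (nat_lit 27) (nat_lit 5) (nat_lit 30) (nat_lit 5) (nat_lit 28) (nat_lit 5) (nat_lit 307) (nat_lit 293) (nat_lit 120)) (XT.lf (nat_lit 0) (nat_lit 156118323013) (nat_lit 304) (nat_lit 273206411820) (nat_lit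 76) (nat_lit 40218094908) (nat_lit 24) (nat_lit 5) (nat_lit 28) (nat_lit 5) (nat_lit 25) (nat_lit 5) (nat_lit 308) (nat_lit 293) (nat_lit 119))))))))
noncomputable def xc122 : XT := (XT.nd (nat_lit 36972) (nat_lit 0) (nat_lit 76) (XT.nd (nat_lit 936) (nat_lit 304) (nat_lit 0) (XT.nd (nat_lit 468) (nat_lit 228) (nat_lit 0) (XT.nd (nat_lit 234) (nat_lit 380) (nat_lit 0) (XT.nd (nat_lit 78) (nat_lit 152) (nat_lit 0) (XT.lf (nat_lit 0) (nat_lit 222693667280) (nat_lit 304) (nat_lit 68865959881) (nat_lit 76) (nat_lit 201976942741) (nat_lit 24) (nat_lit 5) (nat_lit 28) (nat_lit 5) (nat_lit 25) (nat_lit 5) (nat_lit 309) (nat_lit 293) (nat_lit 118)) (XT.nd (nat_lit 78) (nat_lit 0) (nat_lit 0) (XT.lf (nat_lit 0) (nat_lit 159816341513) (nat_lit 152) (nat_lit 138622247400) (nat_lit 228) (nat_lit 220703736530) (nat_lit 22) (nat_lit 5) (nat_lit 24) (nat_lit 5) (nat_lit 25) (nat_lit 5) (nat_lit 310)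 (nat_lit 293) (nat_lit 117)) (XT.lf (nat_lit 0) (nat_lit 382813424038) (nat_lit 228) (nat_lit 136623699771) (nat_lit 76) (nat_lit 27153792179) (nat_lit 22) (nat_lit 5) (nat_lit 25) (nat_lit 5) (nat_lit 23) (nat_lit 5) (nat_lit 311) (nat_lit 293) (nat_lit 116)))) (XT.nd (nat_lit 78) (nat_lit 228) (nat_lit 0) (XT.lf (nat_lit 0) (nat_lit 105575455896) (nat_lit 152) (nat_lit 374502427169) (nat_lit 228) (nat_lit 95666339877) (nat_lit 20) (nat_lit 5) (nat_lit 22) (nat_lit 5) (nat_lit 23) (nat_lit 5) (nat_lit 312) (nat_lit 293) (nat_lit 115)) (XT.nd (nat_lit 78) (nat_lit 228) (nat_lit 0) (XT.lf (nat_lit 0) (nat_lit 374920410772) (nat_lit 152) (nat_lit 213938590480) (nat_lit 228) (nat_lit 18071953126) (nat_lit 20) (nat_lit 5) (nat_lit 22) (nat_lit 5) (nat_lit 23) (nat_lit 5) (nat_lit 313) (nat_lit 293) (nat_lit 114)) (XT.lf (nat_lit 0) (nat_lit 24863247814) (nat_lit 152) (nat_lit 38176588265)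 (nat_lit 228) (nat_lit 577398489213) (nat_lit 17) (nat_lit 5) (nat_lit 19) (nat_lit 5) (nat_lit 20) (nat_lit 5) (nat_lit 314) (nat_lit 293) (nat_lit 113))))) (XT.nd (nat_lit 234) (nat_lit 76) (nat_lit 0) (XT.nd (nat_lit 78) (nat_lit 152) (nat_lit 0) (XT.lf (nat_lit 0) (nat_lit 159819630992) (nat_lit 228) (nat_lit 364918523974) (nat_lit 76) (nat_lit 151038145505) (nat_lit 17) (nat_lit 5) (nat_lit 20) (nat_lit 5) (nat_lit 18) (nat_lit 5) (nat_lit 315) (nat_lit 293) (nat_lit 112)) (XT.nd (nat_lit 78) (nat_lit 152) (nat_lit 0) (XT.lf (nat_lit 0) (nat_lit 265333382136) (nat_lit 228) (nat_lit 95201086224) (nat_lit 76) (nat_lit 353327519582) (nat_lit 17) (nat_lit 5) (nat_lit 20) (nat_lit 5) (nat_lit 18) (nat_lit 5) (nat_lit 316) (nat_lit 293) (nat_lit 111)) (XT.lf (nat_lit 0) (nat_lit 206419656411) (nat_lit 152) (nat_lit 177832949609) (nat_lit 228) (nat_lit 370344774663) (nat_lit 15) (nat_lit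 5) (nat_lit 17) (nat_lit 5) (nat_lit 18) (nat_lit 5) (nat_lit 317) (nat_lit 293) (nat_lit 110)))) (XT.nd (nat_lit 78) (nat_lit 76) (nat_lit 0) (XT.lf (nat_lit 0) (nat_lit 515824526650) (nat_lit 228) (nat_lit 261335393853) (nat_lit 76) (nat_lit 21180551710) (nat_lit 15) (nat_lit 5) (nat_lit 18) (nat_lit 5) (nat_lit 16) (nat_lit 4) (nat_lit 318) (nat_lit 293) (nat_lit 109)) (XT.nd (nat_lit 78) (nat_lit 0) (nat_lit 0) (XT.lf (nat_lit 0) (nat_lit 46143536644) (nat_lit 76) (nat_lit 617507432539) (nat_lit 152) (nat_lit 181473740492) (nat_lit 14) (nat_lit 5) (nat_lit 15) (nat_lit 5) (nat_lit 16) (nat_lit 4) (nat_lit 319) (nat_lit 293) (nat_lit 108)) (XT.lf (nat_lit 0) (nat_lit 393083122596) (nat_lit 76) (nat_lit 437365755598) (nat_lit 152) (nat_lit 64631179921) (nat_lit 14) (nat_lit 5) (nat_lit 15) (nat_lit 5) (nat_lit 16) (nat_lit 4) (nat_lit 320) (nat_lit 293) (nat_lit 107)))))) (XT.nd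 (nat_lit 35490) (nat_lit 0) (nat_lit 1976) (XT.nd (nat_lit 234) (nat_lit 76) (nat_lit 0) (XT.nd (nat_lit 78) (nat_lit 152) (nat_lit 0) (XT.lf (nat_lit 0) (nat_lit 58479345039) (nat_lit 152) (nat_lit 182734482271) (nat_lit 76) (nat_lit 707699569609) (nat_lit 13) (nat_lit 5) (nat_lit 15) (nat_lit 5) (nat_lit 14) (nat_lit 5) (nat_lit 321) (nat_lit 293) (nat_lit 106)) (XT.nd (nat_lit 78) (nat_lit 0) (nat_lit 0) (XT.lf (nat_lit 0) (nat_lit 168836068685) (nat_lit 152) (nat_lit 23171373217) (nat_lit 228) (nat_lit 814586823035) (nat_lit 11) (nat_lit 5) (nat_lit 13) (nat_lit 5) (nat_lit 14) (nat_lit 5) (nat_lit 322) (nat_lit 293) (nat_lit 105)) (XT.lf (nat_lit 0) (nat_lit 346449994275) (nat_lit 228) (nat_lit 514801336925) (nat_lit 76) (nat_lit 206819694623) (nat_lit 11) (nat_lit 5) (nat_lit 14) (nat_lit 5) (nat_lit 12) (nat_lit 4) (nat_lit 323) (nat_lit 293) (nat_lit 104)))) (XT.nd (nat_lit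 78) (nat_lit 76) (nat_lit 0) (XT.lf (nat_lit 0) (nat_lit 513849787346) (nat_lit 228) (nat_lit 166609811432) (nat_lit 76) (nat_lit 453958181926) (nat_lit 11) (nat_lit 5) (nat_lit 14) (nat_lit 5) (nat_lit 12) (nat_lit 4) (nat_lit 324) (nat_lit 293) (nat_lit 103)) (XT.nd (nat_lit 35100) (nat_lit 0) (nat_lit 1976) (XT.lf (nat_lit 0) (nat_lit 220465591262) (nat_lit 76) (nat_lit 479478159316) (nat_lit 152) (nat_lit 505704350502) (nat_lit 10) (nat_lit 5) (nat_lit 11) (nat_lit 5) (nat_lit 12) (nat_lit 4) (nat_lit 325) (nat_lit 293) (nat_lit 102)) (XT.lf (nat_lit 0) (nat_lit 48217093272) (nat_lit 532) (nat_lit 41342892641) (nat_lit 532) (nat_lit 41342892641) (nat_lit 36) (nat_lit 3) (nat_lit 43) (nat_lit 3) (nat_lit 43) (nat_lit 5) (nat_lit 294) (nat_lit 294) (nat_lit 132))))) (XT.nd (nat_lit 234) (nat_lit 0) (nat_lit 76) (XT.nd (nat_lit 78) (nat_lit 0) (nat_lit 76) (XT.lf (nat_lit 76) (nat_lit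 30768346384) (nat_lit 0) (nat_lit 70264038024) (nat_lit 532) (nat_lit 171186332051) (nat_lit 37) (nat_lit 5) (nat_lit 36) (nat_lit 3) (nat_lit 43) (nat_lit 5) (nat_lit 295) (nat_lit 294) (nat_lit 131)) (XT.nd (nat_lit 78) (nat_lit 0) (nat_lit 0) (XT.lf (nat_lit 0) (nat_lit 109455425105) (nat_lit 456) (nat_lit 126478981415) (nat_lit 532) (nat_lit 47253747526) (nat_lit 37) (nat_lit 5) (nat_lit 43) (nat_lit 5) (nat_lit 44) (nat_lit 5) (nat_lit 296) (nat_lit 294) (nat_lit 130)) (XT.lf (nat_lit 0) (nat_lit 120377269934) (nat_lit 456) (nat_lit 4134974286) (nat_lit 532) (nat_lit 170376905965) (nat_lit 37) (nat_lit 5) (nat_lit 43) (nat_lit 5) (nat_lit 44) (nat_lit 5) (nat_lit 297) (nat_lit 294) (nat_lit 129)))) (XT.nd (nat_lit 156) (nat_lit 0) (nat_lit 76) (XT.nd (nat_lit 78) (nat_lit 0) (nat_lit 76) (XT.lf (nat_lit 76) (nat_lit 134736573741) (nat_lit 0) (nat_lit 676633232) (nat_lit 532) (nat_lit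 171853791861) (nat_lit 38) (nat_lit 5) (nat_lit 37) (nat_lit 5) (nat_lit 44) (nat_lit 5) (nat_lit 298) (nat_lit 294) (nat_lit 128)) (XT.lf (nat_lit 0) (nat_lit 154968180971) (nat_lit 456) (nat_lit 38876252326) (nat_lit 532) (nat_lit 126525349475) (nat_lit 38) (nat_lit 5) (nat_lit 44) (nat_lit 5) (nat_lit 45) (nat_lit 5) (nat_lit 299) (nat_lit 294) (nat_lit 127))) (XT.nd (nat_lit 78) (nat_lit 0) (nat_lit 76) (XT.lf (nat_lit 76) (nat_lit 111005578028) (nat_lit 0) (nat_lit 67769173218) (nat_lit 532) (nat_lit 155531062641) (nat_lit 39) (nat_lit 5) (nat_lit 38) (nat_lit 5) (nat_lit 45) (nat_lit 5) (nat_lit 300) (nat_lit 294) (nat_lit 126)) (XT.lf (nat_lit 0) (nat_lit 207221174028) (nat_lit 456) (nat_lit 75855304956) (nat_lit 76) (nat_lit 66061422665) (nat_lit 39) (nat_lit 5) (nat_lit 45) (nat_lit 5) (nat_lit 40) (nat_lit 5) (nat_lit 301) (nat_lit 294) (nat_lit 125))))))) (XT.nd (nat_lit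 1014) (nat_lit 684) (nat_lit 0) (XT.nd (nat_lit 468) (nat_lit 532) (nat_lit 0) (XT.nd (nat_lit 234) (nat_lit 228) (nat_lit 0) (XT.nd (nat_lit 78) (nat_lit 228) (nat_lit 0) (XT.lf (nat_lit 0) (nat_lit 85923156400) (nat_lit 456) (nat_lit 155846791324) (nat_lit 532) (nat_lit 123080478022) (nat_lit 33) (nat_lit 5) (nat_lit 39) (nat_lit 5) (nat_lit 40) (nat_lit 5) (nat_lit 302) (nat_lit 294) (nat_lit 124)) (XT.nd (nat_lit 78) (nat_lit 228) (nat_lit 0) (XT.lf (nat_lit 0) (nat_lit 264957804311) (nat_lit 456) (nat_lit 16198785235) (nat_lit 532) (nat_lit 100497445191) (nat_lit 33) (nat_lit 5) (nat_lit 39) (nat_lit 5) (nat_lit 40) (nat_lit 5) (nat_lit 303) (nat_lit 294) (nat_lit 123)) (XT.lf (nat_lit 0) (nat_lit 58186317775) (nat_lit 228) (nat_lit 270144818752) (nat_lit 304) (nat_lit 71099838258) (nat_lit 30) (nat_lit 5) (nat_lit 33) (nat_lit 5) (nat_lit 34) (nat_lit 5) (nat_lit 304) (nat_lit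 294) (nat_lit 122)))) (XT.nd (nat_lit 78) (nat_lit 228) (nat_lit 0) (XT.lf (nat_lit 0) (nat_lit 253253136274) (nat_lit 228) (nat_lit 129627242696) (nat_lit 304) (nat_lit 35461632757) (nat_lit 30) (nat_lit 5) (nat_lit 33) (nat_lit 5) (nat_lit 34) (nat_lit 5) (nat_lit 305) (nat_lit 294) (nat_lit 121)) (XT.nd (nat_lit 78) (nat_lit 0) (nat_lit 0) (XT.lf (nat_lit 0) (nat_lit 4061888796) (nat_lit 228) (nat_lit 412852440205) (nat_lit 76) (nat_lit 21750920540) (nat_lit 27) (nat_lit 5) (nat_lit 30) (nat_lit 5) (nat_lit 28) (nat_lit 5) (nat_lit 306) (nat_lit 294) (nat_lit 120)) (XT.lf (nat_lit 0) (nat_lit 52829407017) (nat_lit 228) (nat_lit 223283175173) (nat_lit 76) (nat_lit 183788240725) (nat_lit 27) (nat_lit 5) (nat_lit 30) (nat_lit 5) (nat_lit 28) (nat_lit 5) (nat_lit 307) (nat_lit 294) (nat_lit 119))))) (XT.nd (nat_lit 234) (nat_lit 304) (nat_lit 0) (XT.nd (nat_lit 78) (nat_lit 228) (nat_lit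 0) (XT.lf (nat_lit 0) (nat_lit 105498288052) (nat_lit 228) (nat_lit 18548414536) (nat_lit 76) (nat_lit 358788542828) (nat_lit 27) (nat_lit 5) (nat_lit 30) (nat_lit 5) (nat_lit 28) (nat_lit 5) (nat_lit 308) (nat_lit 294) (nat_lit 118)) (XT.nd (nat_lit 78) (nat_lit 0) (nat_lit 0) (XT.lf (nat_lit 0) (nat_lit 168608511334) (nat_lit 304) (nat_lit 295062000765) (nat_lit 76) (nat_lit 43435683230) (nat_lit 24) (nat_lit 5) (nat_lit 28) (nat_lit 5) (nat_lit 25) (nat_lit 5) (nat_lit 309) (nat_lit 294) (nat_lit 117)) (XT.lf (nat_lit 0) (nat_lit 240509829625) (nat_lit 304) (nat_lit 74374381115) (nat_lit 76) (nat_lit 218135228466) (nat_lit 24) (nat_lit 5) (nat_lit 28) (nat_lit 5) (nat_lit 25) (nat_lit 5) (nat_lit 310) (nat_lit 294) (nat_lit 116)))) (XT.nd (nat_lit 156) (nat_lit 152) (nat_lit 0) (XT.nd (nat_lit 78) (nat_lit 0) (nat_lit 0) (XT.lf (nat_lit 0) (nat_lit 172602482731) (nat_lit 152) (nat_lit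 149711832759) (nat_lit 228) (nat_lit 238359342265) (nat_lit 22) (nat_lit 5) (nat_lit 24) (nat_lit 5) (nat_lit 25) (nat_lit 5) (nat_lit 311) (nat_lit 294) (nat_lit 115)) (XT.lf (nat_lit 0) (nat_lit 413439094388) (nat_lit 228) (nat_lit 147552778212) (nat_lit 76) (nat_lit 29326266577) (nat_lit 22) (nat_lit 5) (nat_lit 25) (nat_lit 5) (nat_lit 23) (nat_lit 5) (nat_lit 312) (nat_lit 294) (nat_lit 114))) (XT.nd (nat_lit 78) (nat_lit 0) (nat_lit 0) (XT.lf (nat_lit 0) (nat_lit 114022289212) (nat_lit 152) (nat_lit 404462395909) (nat_lit 228) (nat_lit 103319027743) (nat_lit 20) (nat_lit 5) (nat_lit 22) (nat_lit 5) (nat_lit 23) (nat_lit 5) (nat_lit 313) (nat_lit 294) (nat_lit 113)) (XT.lf (nat_lit 0) (nat_lit 404914781452) (nat_lit 152) (nat_lit 231053468985) (nat_lit 228) (nat_lit 19517135928) (nat_lit 20) (nat_lit 5) (nat_lit 22) (nat_lit 5) (nat_lit 23) (nat_lit 5) (nat_lit 314) (nat_lit 294)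 (nat_lit 112)))))) (XT.nd (nat_lit 468) (nat_lit 228) (nat_lit 0) (XT.nd (nat_lit 234) (nat_lit 228) (nat_lit 0) (XT.nd (nat_lit 78) (nat_lit 0) (nat_lit 0) (XT.lf (nat_lit 0) (nat_lit 26853056577) (nat_lit 152) (nat_lit 41230488810) (nat_lit 228) (nat_lit 623589802389) (nat_lit 17) (nat_lit 5) (nat_lit 19) (nat_lit 5) (nat_lit 20) (nat_lit 5) (nat_lit 315) (nat_lit 294) (nat_lit 111)) (XT.nd (nat_lit 78) (nat_lit 0) (nat_lit 0) (XT.lf (nat_lit 0) (nat_lit 172605690239) (nat_lit 228) (nat_lit 394111277160) (nat_lit 76) (nat_lit 163121396391) (nat_lit 17) (nat_lit 5) (nat_lit 20) (nat_lit 5) (nat_lit 18) (nat_lit 5) (nat_lit 316) (nat_lit 294) (nat_lit 110)) (XT.lf (nat_lit 0) (nat_lit 286560505270) (nat_lit 228) (nat_lit 102816498370) (nat_lit 76) (nat_lit 381593905636) (nat_lit 17) (nat_lit 5) (nat_lit 20) (nat_lit 5) (nat_lit 18) (nat_lit 5) (nat_lit 317) (nat_lit 294) (nat_lit 109))))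 (XT.nd (nat_lit 78) (nat_lit 76) (nat_lit 0) (XT.lf (nat_lit 0) (nat_lit 222933886593) (nat_lit 152) (nat_lit 192059362765) (nat_lit 228) (nat_lit 399971885605) (nat_lit 15) (nat_lit 5) (nat_lit 17) (nat_lit 5) (nat_lit 18) (nat_lit 5) (nat_lit 318) (nat_lit 294) (nat_lit 108)) (XT.nd (nat_lit 78) (nat_lit 76) (nat_lit 0) (XT.lf (nat_lit 0) (nat_lit 557090896388) (nat_lit 228) (nat_lit 282241587874) (nat_lit 76) (nat_lit 22875191835) (nat_lit 15) (nat_lit 5) (nat_lit 18) (nat_lit 5) (nat_lit 16) (nat_lit 4) (nat_lit 319) (nat_lit 294) (nat_lit 107)) (XT.lf (nat_lit 0) (nat_lit 49835640923) (nat_lit 76) (nat_lit 666907798152) (nat_lit 152) (nat_lit 195991214798) (nat_lit 14) (nat_lit 5) (nat_lit 15) (nat_lit 5) (nat_lit 16) (nat_lit 4) (nat_lit 320) (nat_lit 294) (nat_lit 106))))) (XT.nd (nat_lit 234) (nat_lit 0) (nat_lit 0) (XT.nd (nat_lit 78) (nat_lit 228) (nat_lit 0) (XT.lf (nat_lit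 0) (nat_lit 424530347726) (nat_lit 76) (nat_lit 472354804017) (nat_lit 152) (nat_lit 69801280857) (nat_lit 14) (nat_lit 5) (nat_lit 15) (nat_lit 5) (nat_lit 16) (nat_lit 4) (nat_lit 321) (nat_lit 294) (nat_lit 105)) (XT.nd (nat_lit 78) (nat_lit 152) (nat_lit 0) (XT.lf (nat_lit 0) (nat_lit 63158038730) (nat_lit 152) (nat_lit 197352688980) (nat_lit 76) (nat_lit 764315712333) (nat_lit 13) (nat_lit 5) (nat_lit 15) (nat_lit 5) (nat_lit 14) (nat_lit 5) (nat_lit 322) (nat_lit 294) (nat_lit 104)) (XT.lf (nat_lit 0) (nat_lit 182343492082) (nat_lit 152) (nat_lit 25024878561) (nat_lit 228) (nat_lit 879753407944) (nat_lit 11) (nat_lit 5) (nat_lit 13) (nat_lit 5) (nat_lit 14) (nat_lit 5) (nat_lit 323) (nat_lit 294) (nat_lit 103)))) (XT.nd (nat_lit 35334) (nat_lit 0) (nat_lit 1900) (XT.nd (nat_lit 35256) (nat_lit 0) (nat_lit 1900) (XT.lf (nat_lit 0) (nat_lit 374166307064) (nat_lit 228) (nat_lit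 555984924871) (nat_lit 76) (nat_lit 223365450085) (nat_lit 11) (nat_lit 5) (nat_lit 14) (nat_lit 5) (nat_lit 12) (nat_lit 4) (nat_lit 324) (nat_lit 294) (nat_lit 102)) (XT.lf (nat_lit 0) (nat_lit 52075291201) (nat_lit 532) (nat_lit 44649873403) (nat_lit 532) (nat_lit 44649873403) (nat_lit 36) (nat_lit 3) (nat_lit 43) (nat_lit 3) (nat_lit 43) (nat_lit 5) (nat_lit 295) (nat_lit 295) (nat_lit 130))) (XT.nd (nat_lit 78) (nat_lit 0) (nat_lit 76) (XT.lf (nat_lit 76) (nat_lit 33230692577) (nat_lit 0) (nat_lit 75885841613) (nat_lit 532) (nat_lit 184879546724) (nat_lit 37) (nat_lit 5) (nat_lit 36) (nat_lit 3) (nat_lit 43) (nat_lit 5) (nat_lit 296) (nat_lit 295) (nat_lit 129)) (XT.lf (nat_lit 0) (nat_lit 118213287504) (nat_lit 456) (nat_lit 136596348343) (nat_lit 532) (nat_lit 51033448714) (nat_lit 37) (nat_lit 5) (nat_lit 43) (nat_lit 5) (nat_lit 44) (nat_lit 5) (nat_lit 297) (nat_lit 295)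 (nat_lit 128))))))))
noncomputable def xc123 : XT := (XT.nd (nat_lit 37362) (nat_lit 0) (nat_lit 152) (XT.nd (nat_lit 1014) (nat_lit 836) (nat_lit 0) (XT.nd (nat_lit 468) (nat_lit 684) (nat_lit 0) (XT.nd (nat_lit 234) (nat_lit 304) (nat_lit 0) (XT.nd (nat_lit 78) (nat_lit 0) (nat_lit 0) (XT.lf (nat_lit 0) (nat_lit 130008774113) (nat_lit 456) (nat_lit 4464891132) (nat_lit 532) (nat_lit 184006504171) (nat_lit 37) (nat_lit 5) (nat_lit 43) (nat_lit 5) (nat_lit 44) (nat_lit 5) (nat_lit 298) (nat_lit 295) (nat_lit 127)) (XT.nd (nat_lit 78) (nat_lit 0) (nat_lit 76) (XT.lf (nat_lit 76) (nat_lit 145516358432) (nat_lit 0) (nat_lit 731150368) (nat_lit 532) (nat_lit 185600743857) (nat_lit 38) (nat_lit 5) (nat_lit 37) (nat_lit 5) (nat_lit 44) (nat_lit 5) (nat_lit 299) (nat_lit 295) (nat_lit 126)) (XT.lf (nat_lit 0) (nat_lit 167366779869) (nat_lit 456) (nat_lit 41985450503) (nat_lit 532) (nat_lit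 136647037485) (nat_lit 38) (nat_lit 5) (nat_lit 44) (nat_lit 5) (nat_lit 45) (nat_lit 5) (nat_lit 300) (nat_lit 295) (nat_lit 125)))) (XT.nd (nat_lit 78) (nat_lit 380) (nat_lit 0) (XT.lf (nat_lit 76) (nat_lit 119886903444) (nat_lit 0) (nat_lit 73190908695) (nat_lit 532) (nat_lit 167972374856) (nat_lit 39) (nat_lit 5) (nat_lit 38) (nat_lit 5) (nat_lit 45) (nat_lit 5) (nat_lit 301) (nat_lit 295) (nat_lit 124)) (XT.nd (nat_lit 78) (nat_lit 456) (nat_lit 0) (XT.lf (nat_lit 0) (nat_lit 223799864194) (nat_lit 456) (nat_lit 81922825624) (nat_lit 76) (nat_lit 71346159132) (nat_lit 39) (nat_lit 5) (nat_lit 45) (nat_lit 5) (nat_lit 40) (nat_lit 5) (nat_lit 302) (nat_lit 295) (nat_lit 123)) (XT.lf (nat_lit 0) (nat_lit 92797889761) (nat_lit 456) (nat_lit 168314597414) (nat_lit 532) (nat_lit 132925892390) (nat_lit 33) (nat_lit 5) (nat_lit 39) (nat_lit 5) (nat_lit 40) (nat_lit 5) (nat_lit 303) (nat_lit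 295) (nat_lit 122))))) (XT.nd (nat_lit 234) (nat_lit 456) (nat_lit 0) (XT.nd (nat_lit 78) (nat_lit 228) (nat_lit 0) (XT.lf (nat_lit 0) (nat_lit 286155244257) (nat_lit 456) (nat_lit 17494746186) (nat_lit 532) (nat_lit 108536292776) (nat_lit 33) (nat_lit 5) (nat_lit 39) (nat_lit 5) (nat_lit 40) (nat_lit 5) (nat_lit 304) (nat_lit 295) (nat_lit 121)) (XT.nd (nat_lit 78) (nat_lit 0) (nat_lit 0) (XT.lf (nat_lit 0) (nat_lit 62842091928) (nat_lit 228) (nat_lit 291756364133) (nat_lit 304) (nat_lit 76786926346) (nat_lit 30) (nat_lit 5) (nat_lit 33) (nat_lit 5) (nat_lit 34) (nat_lit 5) (nat_lit 305) (nat_lit 295) (nat_lit 120)) (XT.lf (nat_lit 0) (nat_lit 273514191557) (nat_lit 228) (nat_lit 139997384963) (nat_lit 304) (nat_lit 38297730996) (nat_lit 30) (nat_lit 5) (nat_lit 33) (nat_lit 5) (nat_lit 34) (nat_lit 5) (nat_lit 306) (nat_lit 295) (nat_lit 119)))) (XT.nd (nat_lit 156) (nat_lit 228)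 (nat_lit 0) (XT.nd (nat_lit 78) (nat_lit 0) (nat_lit 0) (XT.lf (nat_lit 0) (nat_lit 4387593808) (nat_lit 228) (nat_lit 445879745844) (nat_lit 76) (nat_lit 23491066307) (nat_lit 27) (nat_lit 5) (nat_lit 30) (nat_lit 5) (nat_lit 28) (nat_lit 5) (nat_lit 307) (nat_lit 295) (nat_lit 118)) (XT.lf (nat_lit 0) (nat_lit 57056457642) (nat_lit 228) (nat_lit 241145005504) (nat_lit 76) (nat_lit 198491366765) (nat_lit 27) (nat_lit 5) (nat_lit 30) (nat_lit 5) (nat_lit 28) (nat_lit 5) (nat_lit 308) (nat_lit 295) (nat_lit 117))) (XT.nd (nat_lit 78) (nat_lit 228) (nat_lit 0) (XT.lf (nat_lit 0) (nat_lit 113938797452) (nat_lit 228) (nat_lit 20031525029) (nat_lit 76) (nat_lit 387491688089) (nat_lit 27) (nat_lit 5) (nat_lit 30) (nat_lit 5) (nat_lit 28) (nat_lit 5) (nat_lit 309) (nat_lit 295) (nat_lit 116)) (XT.lf (nat_lit 0) (nat_lit 182097811650) (nat_lit 304) (nat_lit 318666168644) (nat_lit 76) (nat_lit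 46910658542) (nat_lit 24) (nat_lit 5) (nat_lit 28) (nat_lit 5) (nat_lit 25) (nat_lit 5) (nat_lit 310) (nat_lit 295) (nat_lit 115)))))) (XT.nd (nat_lit 468) (nat_lit 304) (nat_lit 0) (XT.nd (nat_lit 234) (nat_lit 380) (nat_lit 0) (XT.nd (nat_lit 78) (nat_lit 152) (nat_lit 0) (XT.lf (nat_lit 0) (nat_lit 259751189522) (nat_lit 304) (nat_lit 80323598103) (nat_lit 76) (nat_lit 235586158459) (nat_lit 24) (nat_lit 5) (nat_lit 28) (nat_lit 5) (nat_lit 25) (nat_lit 5) (nat_lit 311) (nat_lit 295) (nat_lit 114)) (XT.nd (nat_lit 78) (nat_lit 0) (nat_lit 0) (XT.lf (nat_lit 0) (nat_lit 186411396282) (nat_lit 152) (nat_lit 161688612686) (nat_lit 228) (nat_lit 257427495349) (nat_lit 22) (nat_lit 5) (nat_lit 24) (nat_lit 5) (nat_lit 25) (nat_lit 5) (nat_lit 312) (nat_lit 295) (nat_lit 113)) (XT.lf (nat_lit 0) (nat_lit 446514733279) (nat_lit 228) (nat_lit 159356299559) (nat_lit 76) (nat_lit 31672514529)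 (nat_lit 22) (nat_lit 5) (nat_lit 25) (nat_lit 5) (nat_lit 23) (nat_lit 5) (nat_lit 313) (nat_lit 295) (nat_lit 112)))) (XT.nd (nat_lit 78) (nat_lit 228) (nat_lit 0) (XT.lf (nat_lit 0) (nat_lit 123144755514) (nat_lit 152) (nat_lit 436819194310) (nat_lit 228) (nat_lit 111584018992) (nat_lit 20) (nat_lit 5) (nat_lit 22) (nat_lit 5) (nat_lit 23) (nat_lit 5) (nat_lit 314) (nat_lit 295) (nat_lit 111)) (XT.nd (nat_lit 78) (nat_lit 228) (nat_lit 0) (XT.lf (nat_lit 0) (nat_lit 437308596528) (nat_lit 152) (nat_lit 249537567548) (nat_lit 228) (nat_lit 21078015163) (nat_lit 20) (nat_lit 5) (nat_lit 22) (nat_lit 5) (nat_lit 23) (nat_lit 5) (nat_lit 315) (nat_lit 295) (nat_lit 110)) (XT.lf (nat_lit 0) (nat_lit 29001943196) (nat_lit 152) (nat_lit 44528733713) (nat_lit 228) (nat_lit 673476501359) (nat_lit 17) (nat_lit 5) (nat_lit 19) (nat_lit 5) (nat_lit 20) (nat_lit 5) (nat_lit 316) (nat_lit 295)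 (nat_lit 109))))) (XT.nd (nat_lit 234) (nat_lit 152) (nat_lit 0) (XT.nd (nat_lit 78) (nat_lit 152) (nat_lit 0) (XT.lf (nat_lit 0) (nat_lit 186414564498) (nat_lit 228) (nat_lit 425639554563) (nat_lit 76) (nat_lit 176171278924) (nat_lit 17) (nat_lit 5) (nat_lit 20) (nat_lit 5) (nat_lit 18) (nat_lit 5) (nat_lit 317) (nat_lit 295) (nat_lit 108)) (XT.nd (nat_lit 78) (nat_lit 152) (nat_lit 0) (XT.lf (nat_lit 0) (nat_lit 309485733691) (nat_lit 228) (nat_lit 111041239749) (nat_lit 76) (nat_lit 412121576254) (nat_lit 17) (nat_lit 5) (nat_lit 20) (nat_lit 5) (nat_lit 18) (nat_lit 5) (nat_lit 318) (nat_lit 295) (nat_lit 107)) (XT.lf (nat_lit 0) (nat_lit 240769161366) (nat_lit 152) (nat_lit 207423920760) (nat_lit 228) (nat_lit 431969232620) (nat_lit 15) (nat_lit 5) (nat_lit 17) (nat_lit 5) (nat_lit 18) (nat_lit 5) (nat_lit 319) (nat_lit 295) (nat_lit 106)))) (XT.nd (nat_lit 156) (nat_lit 76) (nat_lit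 0) (XT.nd (nat_lit 78) (nat_lit 76) (nat_lit 0) (XT.lf (nat_lit 0) (nat_lit 601658517556) (nat_lit 228) (nat_lit 304820368362) (nat_lit 76) (nat_lit 24705375210) (nat_lit 15) (nat_lit 5) (nat_lit 18) (nat_lit 5) (nat_lit 16) (nat_lit 4) (nat_lit 320) (nat_lit 295) (nat_lit 105)) (XT.lf (nat_lit 0) (nat_lit 53823024902) (nat_lit 76) (nat_lit 720260225681) (nat_lit 152) (nat_lit 211670147669) (nat_lit 14) (nat_lit 5) (nat_lit 15) (nat_lit 5) (nat_lit 16) (nat_lit 4) (nat_lit 321) (nat_lit 295) (nat_lit 104))) (XT.nd (nat_lit 78) (nat_lit 76) (nat_lit 0) (XT.lf (nat_lit 0) (nat_lit 458493268790) (nat_lit 76) (nat_lit 510143006558) (nat_lit 152) (nat_lit 75385045999) (nat_lit 14) (nat_lit 5) (nat_lit 15) (nat_lit 5) (nat_lit 16) (nat_lit 4) (nat_lit 322) (nat_lit 295) (nat_lit 103)) (XT.lf (nat_lit 0) (nat_lit 68210978543) (nat_lit 152) (nat_lit 213140430955) (nat_lit 76) (nat_lit 825461121201)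 (nat_lit 13) (nat_lit 5) (nat_lit 15) (nat_lit 5) (nat_lit 14) (nat_lit 5) (nat_lit 323) (nat_lit 295) (nat_lit 102))))))) (XT.nd (nat_lit 1014) (nat_lit 912) (nat_lit 0) (XT.nd (nat_lit 468) (nat_lit 684) (nat_lit 0) (XT.nd (nat_lit 234) (nat_lit 0) (nat_lit 76) (XT.nd (nat_lit 78) (nat_lit 0) (nat_lit 0) (XT.lf (nat_lit 0) (nat_lit 56242026488) (nat_lit 532) (nat_lit 48221476915) (nat_lit 532) (nat_lit 48221476915) (nat_lit 36) (nat_lit 3) (nat_lit 43) (nat_lit 3) (nat_lit 43) (nat_lit 5) (nat_lit 296) (nat_lit 296) (nat_lit 128)) (XT.nd (nat_lit 78) (nat_lit 0) (nat_lit 76) (XT.lf (nat_lit 76) (nat_lit 35889901140) (nat_lit 0) (nat_lit 81957292401) (nat_lit 532) (nat_lit 199668459937) (nat_lit 37) (nat_lit 5) (nat_lit 36) (nat_lit 3) (nat_lit 43) (nat_lit 5) (nat_lit 297) (nat_lit 296) (nat_lit 127)) (XT.lf (nat_lit 0) (nat_lit 127671575119) (nat_lit 456) (nat_lit 147523240379)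 (nat_lit 532) (nat_lit 55115611397) (nat_lit 37) (nat_lit 5) (nat_lit 43) (nat_lit 5) (nat_lit 44) (nat_lit 5) (nat_lit 298) (nat_lit 296) (nat_lit 126)))) (XT.nd (nat_lit 78) (nat_lit 0) (nat_lit 0) (XT.lf (nat_lit 0) (nat_lit 140410609944) (nat_lit 456) (nat_lit 4821327023) (nat_lit 532) (nat_lit 198726549306) (nat_lit 37) (nat_lit 5) (nat_lit 43) (nat_lit 5) (nat_lit 44) (nat_lit 5) (nat_lit 299) (nat_lit 296) (nat_lit 125)) (XT.nd (nat_lit 78) (nat_lit 0) (nat_lit 76) (XT.lf (nat_lit 76) (nat_lit 157158403382) (nat_lit 0) (nat_lit 789973739) (nat_lit 532) (nat_lit 200447644799) (nat_lit 38) (nat_lit 5) (nat_lit 37) (nat_lit 5) (nat_lit 44) (nat_lit 5) (nat_lit 300) (nat_lit 296) (nat_lit 124)) (XT.lf (nat_lit 0) (nat_lit 180757103414) (nat_lit 456) (nat_lit 45343513216) (nat_lit 532) (nat_lit 147578509033) (nat_lit 38) (nat_lit 5) (nat_lit 44) (nat_lit 5) (nat_lit 45) (nat_lit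 5) (nat_lit 301) (nat_lit 296) (nat_lit 123))))) (XT.nd (nat_lit 234) (nat_lit 456) (nat_lit 0) (XT.nd (nat_lit 78) (nat_lit 380) (nat_lit 0) (XT.lf (nat_lit 76) (nat_lit 129478609469) (nat_lit 0) (nat_lit 79046354246) (nat_lit 532) (nat_lit 181409159361) (nat_lit 39) (nat_lit 5) (nat_lit 38) (nat_lit 5) (nat_lit 45) (nat_lit 5) (nat_lit 302) (nat_lit 296) (nat_lit 122)) (XT.nd (nat_lit 78) (nat_lit 456) (nat_lit 0) (XT.lf (nat_lit 0) (nat_lit 241704707448) (nat_lit 456) (nat_lit 88475876873) (nat_lit 76) (nat_lit 77053699818) (nat_lit 39) (nat_lit 5) (nat_lit 45) (nat_lit 5) (nat_lit 40) (nat_lit 5) (nat_lit 303) (nat_lit 296) (nat_lit 121)) (XT.lf (nat_lit 0) (nat_lit 100222476128) (nat_lit 456) (nat_lit 181779819034) (nat_lit 532) (nat_lit 143559085975) (nat_lit 33) (nat_lit 5) (nat_lit 39) (nat_lit 5) (nat_lit 40) (nat_lit 5) (nat_lit 304) (nat_lit 296) (nat_lit 120)))) (XT.nd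 (nat_lit 156) (nat_lit 228) (nat_lit 0) (XT.nd (nat_lit 78) (nat_lit 228) (nat_lit 0) (XT.lf (nat_lit 0) (nat_lit 309048363044) (nat_lit 456) (nat_lit 18894375721) (nat_lit 532) (nat_lit 117218383415) (nat_lit 33) (nat_lit 5) (nat_lit 39) (nat_lit 5) (nat_lit 40) (nat_lit 5) (nat_lit 305) (nat_lit 296) (nat_lit 119)) (XT.lf (nat_lit 0) (nat_lit 67870204080) (nat_lit 228) (nat_lit 315096838867) (nat_lit 304) (nat_lit 82929109730) (nat_lit 30) (nat_lit 5) (nat_lit 33) (nat_lit 5) (nat_lit 34) (nat_lit 5) (nat_lit 306) (nat_lit 296) (nat_lit 118))) (XT.nd (nat_lit 78) (nat_lit 228) (nat_lit 0) (XT.lf (nat_lit 0) (nat_lit 295396016508) (nat_lit 228) (nat_lit 151197143912) (nat_lit 304) (nat_lit 41360835842) (nat_lit 30) (nat_lit 5) (nat_lit 33) (nat_lit 5) (nat_lit 34) (nat_lit 5) (nat_lit 307) (nat_lit 296) (nat_lit 117)) (XT.lf (nat_lit 0) (nat_lit 4739247668) (nat_lit 228) (nat_lit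 481549362841) (nat_lit 76) (nat_lit 25370413447) (nat_lit 27) (nat_lit 5) (nat_lit 30) (nat_lit 5) (nat_lit 28) (nat_lit 5) (nat_lit 308) (nat_lit 296) (nat_lit 116)))))) (XT.nd (nat_lit 468) (nat_lit 532) (nat_lit 0) (XT.nd (nat_lit 234) (nat_lit 152) (nat_lit 0) (XT.nd (nat_lit 78) (nat_lit 228) (nat_lit 0) (XT.lf (nat_lit 0) (nat_lit 61621572730) (nat_lit 228) (nat_lit 260435899768) (nat_lit 76) (nat_lit 214370733360) (nat_lit 27) (nat_lit 5) (nat_lit 30) (nat_lit 5) (nat_lit 28) (nat_lit 5) (nat_lit 309) (nat_lit 296) (nat_lit 115)) (XT.nd (nat_lit 78) (nat_lit 228) (nat_lit 0) (XT.lf (nat_lit 0) (nat_lit 123054455393) (nat_lit 228) (nat_lit 21633393164) (nat_lit 76) (nat_lit 418491076149) (nat_lit 27) (nat_lit 5) (nat_lit 30) (nat_lit 5) (nat_lit 28) (nat_lit 5) (nat_lit 310) (nat_lit 296) (nat_lit 114)) (XT.lf (nat_lit 0) (nat_lit 196666167626) (nat_lit 304) (nat_lit 344158782968)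 (nat_lit 76) (nat_lit 50663614667) (nat_lit 24) (nat_lit 5) (nat_lit 28) (nat_lit 5) (nat_lit 25) (nat_lit 5) (nat_lit 311) (nat_lit 296) (nat_lit 113)))) (XT.nd (nat_lit 78) (nat_lit 152) (nat_lit 0) (XT.lf (nat_lit 0) (nat_lit 280531776391) (nat_lit 304) (nat_lit 86748857092) (nat_lit 76) (nat_lit 254433146914) (nat_lit 24) (nat_lit 5) (nat_lit 28) (nat_lit 5) (nat_lit 25) (nat_lit 5) (nat_lit 312) (nat_lit 296) (nat_lit 112)) (XT.nd (nat_lit 78) (nat_lit 0) (nat_lit 0) (XT.lf (nat_lit 0) (nat_lit 201324920923) (nat_lit 152) (nat_lit 174623558787) (nat_lit 228) (nat_lit 278021185463) (nat_lit 22) (nat_lit 5) (nat_lit 24) (nat_lit 5) (nat_lit 25) (nat_lit 5) (nat_lit 313) (nat_lit 296) (nat_lit 111)) (XT.lf (nat_lit 0) (nat_lit 482236350333) (nat_lit 228) (nat_lit 172104202607) (nat_lit 76) (nat_lit 34206441399) (nat_lit 22) (nat_lit 5) (nat_lit 25) (nat_lit 5) (nat_lit 23) (nat_lit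 5) (nat_lit 314) (nat_lit 296) (nat_lit 110))))) (XT.nd (nat_lit 234) (nat_lit 152) (nat_lit 0) (XT.nd (nat_lit 78) (nat_lit 228) (nat_lit 0) (XT.lf (nat_lit 0) (nat_lit 132996921659) (nat_lit 152) (nat_lit 471764564155) (nat_lit 228) (nat_lit 120510285289) (nat_lit 20) (nat_lit 5) (nat_lit 22) (nat_lit 5) (nat_lit 23) (nat_lit 5) (nat_lit 315) (nat_lit 296) (nat_lit 109)) (XT.nd (nat_lit 78) (nat_lit 228) (nat_lit 0) (XT.lf (nat_lit 0) (nat_lit 472293826569) (nat_lit 152) (nat_lit 269500419526) (nat_lit 228) (nat_lit 22763834874) (nat_lit 20) (nat_lit 5) (nat_lit 22) (nat_lit 5) (nat_lit 23) (nat_lit 5) (nat_lit 316) (nat_lit 296) (nat_lit 108)) (XT.lf (nat_lit 0) (nat_lit 31322649143) (nat_lit 152) (nat_lit 48090865914) (nat_lit 228) (nat_lit 727354205469) (nat_lit 17) (nat_lit 5) (nat_lit 19) (nat_lit 5) (nat_lit 20) (nat_lit 5) (nat_lit 317) (nat_lit 296) (nat_lit 107)))) (XT.nd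 (nat_lit 156) (nat_lit 152) (nat_lit 0) (XT.nd (nat_lit 78) (nat_lit 0) (nat_lit 0) (XT.lf (nat_lit 0) (nat_lit 201328088916) (nat_lit 228) (nat_lit 459690183288) (nat_lit 76) (nat_lit 190265127689) (nat_lit 17) (nat_lit 5) (nat_lit 20) (nat_lit 5) (nat_lit 18) (nat_lit 5) (nat_lit 318) (nat_lit 296) (nat_lit 106)) (XT.lf (nat_lit 0) (nat_lit 334244925033) (nat_lit 228) (nat_lit 119924042967) (nat_lit 76) (nat_lit 445091437958) (nat_lit 17) (nat_lit 5) (nat_lit 20) (nat_lit 5) (nat_lit 18) (nat_lit 5) (nat_lit 319) (nat_lit 296) (nat_lit 105))) (XT.nd (nat_lit 78) (nat_lit 0) (nat_lit 0) (XT.lf (nat_lit 0) (nat_lit 260031177682) (nat_lit 152) (nat_lit 224017670647) (nat_lit 228) (nat_lit 466526425008) (nat_lit 15) (nat_lit 5) (nat_lit 17) (nat_lit 5) (nat_lit 18) (nat_lit 5) (nat_lit 320) (nat_lit 296) (nat_lit 104)) (XT.lf (nat_lit 0) (nat_lit 649791498563) (nat_lit 228) (nat_lit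 329205529260) (nat_lit 76) (nat_lit 26681949284) (nat_lit 15) (nat_lit 5) (nat_lit 18) (nat_lit 5) (nat_lit 16) (nat_lit 4) (nat_lit 321) (nat_lit 296) (nat_lit 103))))))))
noncomputable def xc124 : XT := (XT.nd (nat_lit 37362) (nat_lit 0) (nat_lit 76) (XT.nd (nat_lit 36348) (nat_lit 0) (nat_lit 228) (XT.nd (nat_lit 35880) (nat_lit 0) (nat_lit 1444) (XT.nd (nat_lit 35646) (nat_lit 0) (nat_lit 1672) (XT.nd (nat_lit 78) (nat_lit 0) (nat_lit 0) (XT.lf (nat_lit 0) (nat_lit 58129323604) (nat_lit 76) (nat_lit 777880875420) (nat_lit 152) (nat_lit 228603447143) (nat_lit 14) (nat_lit 5) (nat_lit 15) (nat_lit 5) (nat_lit 16) (nat_lit 4) (nat_lit 322) (nat_lit 296) (nat_lit 102)) (XT.nd (nat_lit 35490) (nat_lit 0) (nat_lit 1672) (XT.lf (nat_lit 0) (nat_lit 495173153172) (nat_lit 76) (nat_lit 550954291235) (nat_lit 152) (nat_lit 81415560476) (nat_lit 14) (nat_lit 5) (nat_lit 15) (nat_lit 5) (nat_lit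 16) (nat_lit 4) (nat_lit 323) (nat_lit 296) (nat_lit 101)) (XT.lf (nat_lit 0) (nat_lit 60741999025) (nat_lit 532) (nat_lit 52078863827) (nat_lit 532) (nat_lit 52078863827) (nat_lit 36) (nat_lit 3) (nat_lit 43) (nat_lit 3) (nat_lit 43) (nat_lit 5) (nat_lit 297) (nat_lit 297) (nat_lit 126)))) (XT.nd (nat_lit 78) (nat_lit 0) (nat_lit 76) (XT.lf (nat_lit 76) (nat_lit 38761738941) (nat_lit 0) (nat_lit 88514376015) (nat_lit 532) (nat_lit 215640693141) (nat_lit 37) (nat_lit 5) (nat_lit 36) (nat_lit 3) (nat_lit 43) (nat_lit 5) (nat_lit 298) (nat_lit 297) (nat_lit 125)) (XT.nd (nat_lit 78) (nat_lit 0) (nat_lit 0) (XT.lf (nat_lit 0) (nat_lit 137886351038) (nat_lit 456) (nat_lit 159324400165) (nat_lit 532) (nat_lit 59524420309) (nat_lit 37) (nat_lit 5) (nat_lit 43) (nat_lit 5) (nat_lit 44) (nat_lit 5) (nat_lit 299) (nat_lit 297) (nat_lit 124)) (XT.lf (nat_lit 0) (nat_lit 151644430878) (nat_lit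 456) (nat_lit 5206385552) (nat_lit 532) (nat_lit 214624265844) (nat_lit 37) (nat_lit 5) (nat_lit 43) (nat_lit 5) (nat_lit 44) (nat_lit 5) (nat_lit 300) (nat_lit 297) (nat_lit 123))))) (XT.nd (nat_lit 234) (nat_lit 304) (nat_lit 0) (XT.nd (nat_lit 78) (nat_lit 0) (nat_lit 76) (XT.lf (nat_lit 76) (nat_lit 169731706889) (nat_lit 0) (nat_lit 853455711) (nat_lit 532) (nat_lit 216482463099) (nat_lit 38) (nat_lit 5) (nat_lit 37) (nat_lit 5) (nat_lit 44) (nat_lit 5) (nat_lit 301) (nat_lit 297) (nat_lit 122)) (XT.nd (nat_lit 78) (nat_lit 0) (nat_lit 0) (XT.lf (nat_lit 0) (nat_lit 195218512870) (nat_lit 456) (nat_lit 48970331269) (nat_lit 532) (nat_lit 159384539883) (nat_lit 38) (nat_lit 5) (nat_lit 44) (nat_lit 5) (nat_lit 45) (nat_lit 5) (nat_lit 302) (nat_lit 297) (nat_lit 121)) (XT.lf (nat_lit 76) (nat_lit 139837544445) (nat_lit 0) (nat_lit 85370210782) (nat_lit 532) (nat_lit 195921030070)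 (nat_lit 39) (nat_lit 5) (nat_lit 38) (nat_lit 5) (nat_lit 45) (nat_lit 5) (nat_lit 303) (nat_lit 297) (nat_lit 120)))) (XT.nd (nat_lit 78) (nat_lit 456) (nat_lit 0) (XT.lf (nat_lit 0) (nat_lit 261041816313) (nat_lit 456) (nat_lit 95553282756) (nat_lit 76) (nat_lit 83217865449) (nat_lit 39) (nat_lit 5) (nat_lit 45) (nat_lit 5) (nat_lit 40) (nat_lit 5) (nat_lit 304) (nat_lit 297) (nat_lit 119)) (XT.nd (nat_lit 78) (nat_lit 0) (nat_lit 0) (XT.lf (nat_lit 0) (nat_lit 108240921669) (nat_lit 456) (nat_lit 196322250705) (nat_lit 532) (nat_lit 155043060276) (nat_lit 33) (nat_lit 5) (nat_lit 39) (nat_lit 5) (nat_lit 40) (nat_lit 5) (nat_lit 305) (nat_lit 297) (nat_lit 118)) (XT.lf (nat_lit 0) (nat_lit 333772831578) (nat_lit 456) (nat_lit 20405968508) (nat_lit 532) (nat_lit 126595157257) (nat_lit 33) (nat_lit 5) (nat_lit 39) (nat_lit 5) (nat_lit 40) (nat_lit 5) (nat_lit 306) (nat_lit 297) (nat_lit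 117)))))) (XT.nd (nat_lit 468) (nat_lit 532) (nat_lit 0) (XT.nd (nat_lit 234) (nat_lit 228) (nat_lit 0) (XT.nd (nat_lit 78) (nat_lit 228) (nat_lit 0) (XT.lf (nat_lit 0) (nat_lit 73300458949) (nat_lit 228) (nat_lit 340304556487) (nat_lit 304) (nat_lit 89562777737) (nat_lit 30) (nat_lit 5) (nat_lit 33) (nat_lit 5) (nat_lit 34) (nat_lit 5) (nat_lit 307) (nat_lit 297) (nat_lit 116)) (XT.nd (nat_lit 78) (nat_lit 228) (nat_lit 0) (XT.lf (nat_lit 0) (nat_lit 319028289073) (nat_lit 228) (nat_lit 163292888120) (nat_lit 304) (nat_lit 44669090884) (nat_lit 30) (nat_lit 5) (nat_lit 33) (nat_lit 5) (nat_lit 34) (nat_lit 5) (nat_lit 308) (nat_lit 297) (nat_lit 115)) (XT.lf (nat_lit 0) (nat_lit 5118941627) (nat_lit 228) (nat_lit 520072658002) (nat_lit 76) (nat_lit 27400099536) (nat_lit 27) (nat_lit 5) (nat_lit 30) (nat_lit 5) (nat_lit 28) (nat_lit 5) (nat_lit 309) (nat_lit 297) (nat_lit 114)))) (XT.nd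 (nat_lit 78) (nat_lit 228) (nat_lit 0) (XT.lf (nat_lit 0) (nat_lit 66551811646) (nat_lit 228) (nat_lit 281270166318) (nat_lit 76) (nat_lit 231520441115) (nat_lit 27) (nat_lit 5) (nat_lit 30) (nat_lit 5) (nat_lit 28) (nat_lit 5) (nat_lit 310) (nat_lit 297) (nat_lit 113)) (XT.nd (nat_lit 78) (nat_lit 228) (nat_lit 0) (XT.lf (nat_lit 0) (nat_lit 132899286915) (nat_lit 228) (nat_lit 23363504033) (nat_lit 76) (nat_lit 451970407692) (nat_lit 27) (nat_lit 5) (nat_lit 30) (nat_lit 5) (nat_lit 28) (nat_lit 5) (nat_lit 311) (nat_lit 297) (nat_lit 112)) (XT.lf (nat_lit 0) (nat_lit 212399916320) (nat_lit 304) (nat_lit 371690903328) (nat_lit 76) (nat_lit 54716792524) (nat_lit 24) (nat_lit 5) (nat_lit 28) (nat_lit 5) (nat_lit 25) (nat_lit 5) (nat_lit 312) (nat_lit 297) (nat_lit 111))))) (XT.nd (nat_lit 234) (nat_lit 380) (nat_lit 0) (XT.nd (nat_lit 78) (nat_lit 152) (nat_lit 0) (XT.lf (nat_lit 0)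 (nat_lit 302974740062) (nat_lit 304) (nat_lit 93688226513) (nat_lit 76) (nat_lit 274787880782) (nat_lit 24) (nat_lit 5) (nat_lit 28) (nat_lit 5) (nat_lit 25) (nat_lit 5) (nat_lit 313) (nat_lit 297) (nat_lit 110)) (XT.nd (nat_lit 78) (nat_lit 0) (nat_lit 0) (XT.lf (nat_lit 0) (nat_lit 217431440094) (nat_lit 152) (nat_lit 188593320965) (nat_lit 228) (nat_lit 300262443474) (nat_lit 22) (nat_lit 5) (nat_lit 24) (nat_lit 5) (nat_lit 25) (nat_lit 5) (nat_lit 314) (nat_lit 297) (nat_lit 109)) (XT.lf (nat_lit 0) (nat_lit 520815634209) (nat_lit 228) (nat_lit 185872023626) (nat_lit 76) (nat_lit 36943064485) (nat_lit 22) (nat_lit 5) (nat_lit 25) (nat_lit 5) (nat_lit 23) (nat_lit 5) (nat_lit 315) (nat_lit 297) (nat_lit 108)))) (XT.nd (nat_lit 156) (nat_lit 228) (nat_lit 0) (XT.nd (nat_lit 78) (nat_lit 0) (nat_lit 0) (XT.lf (nat_lit 0) (nat_lit 143637177538) (nat_lit 152) (nat_lit 509505587227)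 (nat_lit 228) (nat_lit 130150717833) (nat_lit 20) (nat_lit 5) (nat_lit 22) (nat_lit 5) (nat_lit 23) (nat_lit 5) (nat_lit 316) (nat_lit 297) (nat_lit 107)) (XT.lf (nat_lit 0) (nat_lit 510077797645) (nat_lit 152) (nat_lit 291060321550) (nat_lit 228) (nat_lit 24584580294) (nat_lit 20) (nat_lit 5) (nat_lit 22) (nat_lit 5) (nat_lit 23) (nat_lit 5) (nat_lit 317) (nat_lit 297) (nat_lit 106))) (XT.nd (nat_lit 78) (nat_lit 0) (nat_lit 0) (XT.lf (nat_lit 0) (nat_lit 33828933033) (nat_lit 152) (nat_lit 51937992443) (nat_lit 228) (nat_lit 785542185255) (nat_lit 17) (nat_lit 5) (nat_lit 19) (nat_lit 5) (nat_lit 20) (nat_lit 5) (nat_lit 318) (nat_lit 297) (nat_lit 105)) (XT.lf (nat_lit 0) (nat_lit 217434644036) (nat_lit 228) (nat_lit 496464938727) (nat_lit 76) (nat_lit 205486463463) (nat_lit 17) (nat_lit 5) (nat_lit 20) (nat_lit 5) (nat_lit 18) (nat_lit 5) (nat_lit 319) (nat_lit 297) (nat_lit 104)))))))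 (XT.nd (nat_lit 36582) (nat_lit 0) (nat_lit 152) (XT.nd (nat_lit 36036) (nat_lit 0) (nat_lit 1368) (XT.nd (nat_lit 35802) (nat_lit 0) (nat_lit 1596) (XT.nd (nat_lit 78) (nat_lit 152) (nat_lit 0) (XT.lf (nat_lit 0) (nat_lit 360984804227) (nat_lit 228) (nat_lit 129517541196) (nat_lit 76) (nat_lit 480698869252) (nat_lit 17) (nat_lit 5) (nat_lit 20) (nat_lit 5) (nat_lit 18) (nat_lit 5) (nat_lit 320) (nat_lit 297) (nat_lit 103)) (XT.nd (nat_lit 78) (nat_lit 0) (nat_lit 0) (XT.lf (nat_lit 0) (nat_lit 280834086339) (nat_lit 152) (nat_lit 241938943888) (nat_lit 228) (nat_lit 503848242179) (nat_lit 15) (nat_lit 5) (nat_lit 17) (nat_lit 5) (nat_lit 18) (nat_lit 5) (nat_lit 321) (nat_lit 297) (nat_lit 102)) (XT.lf (nat_lit 0) (nat_lit 701775075310) (nat_lit 228) (nat_lit 355541569876) (nat_lit 76) (nat_lit 28816628732) (nat_lit 15) (nat_lit 5) (nat_lit 18) (nat_lit 5) (nat_lit 16) (nat_lit 4)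 (nat_lit 322) (nat_lit 297) (nat_lit 101)))) (XT.nd (nat_lit 78) (nat_lit 0) (nat_lit 0) (XT.lf (nat_lit 0) (nat_lit 65601882282) (nat_lit 532) (nat_lit 56244888948) (nat_lit 532) (nat_lit 56244888948) (nat_lit 36) (nat_lit 3) (nat_lit 43) (nat_lit 3) (nat_lit 43) (nat_lit 5) (nat_lit 298) (nat_lit 298) (nat_lit 124)) (XT.nd (nat_lit 78) (nat_lit 0) (nat_lit 76) (XT.lf (nat_lit 76) (nat_lit 41863231650) (nat_lit 0) (nat_lit 95595954956) (nat_lit 532) (nat_lit 232890882414) (nat_lit 37) (nat_lit 5) (nat_lit 36) (nat_lit 3) (nat_lit 43) (nat_lit 5) (nat_lit 299) (nat_lit 298) (nat_lit 123)) (XT.lf (nat_lit 0) (nat_lit 148918159249) (nat_lit 456) (nat_lit 172069752518) (nat_lit 532) (nat_lit 64285996706) (nat_lit 37) (nat_lit 5) (nat_lit 43) (nat_lit 5) (nat_lit 44) (nat_lit 5) (nat_lit 300) (nat_lit 298) (nat_lit 122))))) (XT.nd (nat_lit 234) (nat_lit 304) (nat_lit 0) (XT.nd (nat_lit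 78) (nat_lit 0) (nat_lit 0) (XT.lf (nat_lit 0) (nat_lit 163776818800) (nat_lit 456) (nat_lit 5622341155) (nat_lit 532) (nat_lit 231793857826) (nat_lit 37) (nat_lit 5) (nat_lit 43) (nat_lit 5) (nat_lit 44) (nat_lit 5) (nat_lit 301) (nat_lit 298) (nat_lit 121)) (XT.nd (nat_lit 78) (nat_lit 0) (nat_lit 76) (XT.lf (nat_lit 76) (nat_lit 183310784625) (nat_lit 0) (nat_lit 921975713) (nat_lit 532) (nat_lit 233800208566) (nat_lit 38) (nat_lit 5) (nat_lit 37) (nat_lit 5) (nat_lit 44) (nat_lit 5) (nat_lit 302) (nat_lit 298) (nat_lit 120)) (XT.lf (nat_lit 0) (nat_lit 210836715079) (nat_lit 456) (nat_lit 52887389352) (nat_lit 532) (nat_lit 172135088849) (nat_lit 38) (nat_lit 5) (nat_lit 44) (nat_lit 5) (nat_lit 45) (nat_lit 5) (nat_lit 303) (nat_lit 298) (nat_lit 119)))) (XT.nd (nat_lit 156) (nat_lit 380) (nat_lit 0) (XT.nd (nat_lit 78) (nat_lit 0) (nat_lit 76) (XT.lf (nat_lit 76) (nat_lit 151025102029)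 (nat_lit 0) (nat_lit 92199954698) (nat_lit 532) (nat_lit 211593973415) (nat_lit 39) (nat_lit 5) (nat_lit 38) (nat_lit 5) (nat_lit 45) (nat_lit 5) (nat_lit 304) (nat_lit 298) (nat_lit 118)) (XT.lf (nat_lit 0) (nat_lit 281925789421) (nat_lit 456) (nat_lit 103196975875) (nat_lit 76) (nat_lit 89875182928) (nat_lit 39) (nat_lit 5) (nat_lit 45) (nat_lit 5) (nat_lit 40) (nat_lit 5) (nat_lit 305) (nat_lit 298) (nat_lit 117))) (XT.nd (nat_lit 78) (nat_lit 0) (nat_lit 0) (XT.lf (nat_lit 0) (nat_lit 116900750486) (nat_lit 456) (nat_lit 212028070326) (nat_lit 532) (nat_lit 167445859885) (nat_lit 33) (nat_lit 5) (nat_lit 39) (nat_lit 5) (nat_lit 40) (nat_lit 5) (nat_lit 306) (nat_lit 298) (nat_lit 116)) (XT.lf (nat_lit 0) (nat_lit 360475172071) (nat_lit 456) (nat_lit 22038482623) (nat_lit 532) (nat_lit 136722172417) (nat_lit 33) (nat_lit 5) (nat_lit 39) (nat_lit 5) (nat_lit 40) (nat_lit 5) (nat_lit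 307) (nat_lit 298) (nat_lit 115)))))) (XT.nd (nat_lit 468) (nat_lit 532) (nat_lit 0) (XT.nd (nat_lit 234) (nat_lit 228) (nat_lit 0) (XT.nd (nat_lit 78) (nat_lit 228) (nat_lit 0) (XT.lf (nat_lit 0) (nat_lit 79165043113) (nat_lit 228) (nat_lit 367528895723) (nat_lit 304) (nat_lit 96727233451) (nat_lit 30) (nat_lit 5) (nat_lit 33) (nat_lit 5) (nat_lit 34) (nat_lit 5) (nat_lit 308) (nat_lit 298) (nat_lit 114)) (XT.nd (nat_lit 78) (nat_lit 228) (nat_lit 0) (XT.lf (nat_lit 0) (nat_lit 344551059095) (nat_lit 228) (nat_lit 176356295760) (nat_lit 304) (nat_lit 48242093613) (nat_lit 30) (nat_lit 5) (nat_lit 33) (nat_lit 5) (nat_lit 34) (nat_lit 5) (nat_lit 309) (nat_lit 298) (nat_lit 113)) (XT.lf (nat_lit 0) (nat_lit 5528932048) (nat_lit 228) (nat_lit 561677910057) (nat_lit 76) (nat_lit 29592152949) (nat_lit 27) (nat_lit 5) (nat_lit 30) (nat_lit 5) (nat_lit 28) (nat_lit 5) (nat_lit 310) (nat_lit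 298) (nat_lit 112)))) (XT.nd (nat_lit 78) (nat_lit 228) (nat_lit 0) (XT.lf (nat_lit 0) (nat_lit 71876396477) (nat_lit 228) (nat_lit 303771260563) (nat_lit 76) (nat_lit 250042118488) (nat_lit 27) (nat_lit 5) (nat_lit 30) (nat_lit 5) (nat_lit 28) (nat_lit 5) (nat_lit 311) (nat_lit 298) (nat_lit 111)) (XT.nd (nat_lit 78) (nat_lit 228) (nat_lit 0) (XT.lf (nat_lit 0) (nat_lit 143531637182) (nat_lit 228) (nat_lit 25232103744) (nat_lit 76) (nat_lit 488128079273) (nat_lit 27) (nat_lit 5) (nat_lit 30) (nat_lit 5) (nat_lit 28) (nat_lit 5) (nat_lit 312) (nat_lit 298) (nat_lit 110)) (XT.lf (nat_lit 0) (nat_lit 229392299959) (nat_lit 304) (nat_lit 401425676385) (nat_lit 76) (nat_lit 59094211958) (nat_lit 24) (nat_lit 5) (nat_lit 28) (nat_lit 5) (nat_lit 25) (nat_lit 5) (nat_lit 313) (nat_lit 298) (nat_lit 109))))) (XT.nd (nat_lit 234) (nat_lit 380) (nat_lit 0) (XT.nd (nat_lit 78) (nat_lit 152)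 (nat_lit 0) (XT.lf (nat_lit 0) (nat_lit 327213080686) (nat_lit 304) (nat_lit 101182822404) (nat_lit 76) (nat_lit 296770981645) (nat_lit 24) (nat_lit 5) (nat_lit 28) (nat_lit 5) (nat_lit 25) (nat_lit 5) (nat_lit 314) (nat_lit 298) (nat_lit 108)) (XT.nd (nat_lit 78) (nat_lit 0) (nat_lit 0) (XT.lf (nat_lit 0) (nat_lit 234826405830) (nat_lit 152) (nat_lit 203680681597) (nat_lit 228) (nat_lit 324283064444) (nat_lit 22) (nat_lit 5) (nat_lit 24) (nat_lit 5) (nat_lit 25) (nat_lit 5) (nat_lit 315) (nat_lit 298) (nat_lit 107)) (XT.lf (nat_lit 0) (nat_lit 562481207177) (nat_lit 228) (nat_lit 200741343824) (nat_lit 76) (nat_lit 39898602043) (nat_lit 22) (nat_lit 5) (nat_lit 25) (nat_lit 5) (nat_lit 23) (nat_lit 5) (nat_lit 316) (nat_lit 298) (nat_lit 106)))) (XT.nd (nat_lit 156) (nat_lit 228) (nat_lit 0) (XT.nd (nat_lit 78) (nat_lit 0) (nat_lit 0) (XT.lf (nat_lit 0) (nat_lit 155128582251) (nat_lit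 152) (nat_lit 550265912411) (nat_lit 228) (nat_lit 140562440658) (nat_lit 20) (nat_lit 5) (nat_lit 22) (nat_lit 5) (nat_lit 23) (nat_lit 5) (nat_lit 317) (nat_lit 298) (nat_lit 105)) (XT.lf (nat_lit 0) (nat_lit 550884420077) (nat_lit 152) (nat_lit 314345034502) (nat_lit 228) (nat_lit 26551036902) (nat_lit 20) (nat_lit 5) (nat_lit 22) (nat_lit 5) (nat_lit 23) (nat_lit 5) (nat_lit 318) (nat_lit 298) (nat_lit 104))) (XT.nd (nat_lit 78) (nat_lit 0) (nat_lit 0) (XT.lf (nat_lit 0) (nat_lit 36535652303) (nat_lit 152) (nat_lit 56092909459) (nat_lit 228) (nat_lit 848385254304) (nat_lit 17) (nat_lit 5) (nat_lit 19) (nat_lit 5) (nat_lit 20) (nat_lit 5) (nat_lit 319) (nat_lit 298) (nat_lit 103)) (XT.lf (nat_lit 0) (nat_lit 234829679625) (nat_lit 228) (nat_lit 536181740114) (nat_lit 76) (nat_lit 221925488186) (nat_lit 17) (nat_lit 5) (nat_lit 20) (nat_lit 5) (nat_lit 18) (nat_lit 5) (nat_lit 320)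 (nat_lit 298) (nat_lit 102))))))))
noncomputable def xc125 : XT := (XT.nd (nat_lit 73554) (nat_lit 0) (nat_lit 228) (XT.nd (nat_lit 36738) (nat_lit 0) (nat_lit 0) (XT.nd (nat_lit 36192) (nat_lit 0) (nat_lit 988) (XT.nd (nat_lit 35958) (nat_lit 0) (nat_lit 1520) (XT.nd (nat_lit 35802) (nat_lit 0) (nat_lit 1444) (XT.lf (nat_lit 0) (nat_lit 389863833070) (nat_lit 228) (nat_lit 139878579944) (nat_lit 76) (nat_lit 519154878465) (nat_lit 17) (nat_lit 5) (nat_lit 20) (nat_lit 5) (nat_lit 18) (nat_lit 5) (nat_lit 321) (nat_lit 298) (nat_lit 101)) (XT.nd (nat_lit 78) (nat_lit 0) (nat_lit 0) (XT.lf (nat_lit 0) (nat_lit 70850481540) (nat_lit 532) (nat_lit 60744236591) (nat_lit 532) (nat_lit 60744236591) (nat_lit 36) (nat_lit 3) (nat_lit 43) (nat_lit 3) (nat_lit 43) (nat_lit 5) (nat_lit 299) (nat_lit 299) (nat_lit 122)) (XT.lf (nat_lit 76) (nat_lit 45212764798) (nat_lit 0) (nat_lit 103243999031)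 (nat_lit 532) (nat_lit 251521238931) (nat_lit 37) (nat_lit 5) (nat_lit 36) (nat_lit 3) (nat_lit 43) (nat_lit 5) (nat_lit 300) (nat_lit 299) (nat_lit 121)))) (XT.nd (nat_lit 78) (nat_lit 0) (nat_lit 0) (XT.lf (nat_lit 0) (nat_lit 160832383704) (nat_lit 456) (nat_lit 185834818608) (nat_lit 532) (nat_lit 69428553030) (nat_lit 37) (nat_lit 5) (nat_lit 43) (nat_lit 5) (nat_lit 44) (nat_lit 5) (nat_lit 301) (nat_lit 299) (nat_lit 120)) (XT.nd (nat_lit 78) (nat_lit 0) (nat_lit 0) (XT.lf (nat_lit 0) (nat_lit 176879678855) (nat_lit 456) (nat_lit 6071652418) (nat_lit 532) (nat_lit 250337066996) (nat_lit 37) (nat_lit 5) (nat_lit 43) (nat_lit 5) (nat_lit 44) (nat_lit 5) (nat_lit 302) (nat_lit 299) (nat_lit 119)) (XT.lf (nat_lit 76) (nat_lit 197976111373) (nat_lit 0) (nat_lit 995942572) (nat_lit 532) (nat_lit 252503495157) (nat_lit 38) (nat_lit 5) (nat_lit 37) (nat_lit 5) (nat_lit 44) (nat_lit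 5) (nat_lit 303) (nat_lit 299) (nat_lit 118))))) (XT.nd (nat_lit 234) (nat_lit 608) (nat_lit 0) (XT.nd (nat_lit 78) (nat_lit 0) (nat_lit 0) (XT.lf (nat_lit 0) (nat_lit 227704270580) (nat_lit 456) (nat_lit 57117893173) (nat_lit 532) (nat_lit 185905712294) (nat_lit 38) (nat_lit 5) (nat_lit 44) (nat_lit 5) (nat_lit 45) (nat_lit 5) (nat_lit 304) (nat_lit 299) (nat_lit 117)) (XT.nd (nat_lit 78) (nat_lit 0) (nat_lit 76) (XT.lf (nat_lit 76) (nat_lit 163107585182) (nat_lit 0) (nat_lit 99576060002) (nat_lit 532) (nat_lit 228520857663) (nat_lit 39) (nat_lit 5) (nat_lit 38) (nat_lit 5) (nat_lit 45) (nat_lit 5) (nat_lit 305) (nat_lit 299) (nat_lit 116)) (XT.lf (nat_lit 0) (nat_lit 304480390814) (nat_lit 456) (nat_lit 111452245689) (nat_lit 76) (nat_lit 97065101748) (nat_lit 39) (nat_lit 5) (nat_lit 45) (nat_lit 5) (nat_lit 40) (nat_lit 5) (nat_lit 306) (nat_lit 299) (nat_lit 115)))) (XT.nd (nat_lit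 156) (nat_lit 228) (nat_lit 0) (XT.nd (nat_lit 78) (nat_lit 0) (nat_lit 0) (XT.lf (nat_lit 0) (nat_lit 126253286421) (nat_lit 456) (nat_lit 228990349872) (nat_lit 532) (nat_lit 180840975509) (nat_lit 33) (nat_lit 5) (nat_lit 39) (nat_lit 5) (nat_lit 40) (nat_lit 5) (nat_lit 307) (nat_lit 299) (nat_lit 114)) (XT.lf (nat_lit 0) (nat_lit 389313626481) (nat_lit 456) (nat_lit 23801592640) (nat_lit 532) (nat_lit 147659434019) (nat_lit 33) (nat_lit 5) (nat_lit 39) (nat_lit 5) (nat_lit 40) (nat_lit 5) (nat_lit 308) (nat_lit 299) (nat_lit 113))) (XT.nd (nat_lit 78) (nat_lit 0) (nat_lit 0) (XT.lf (nat_lit 0) (nat_lit 85498715911) (nat_lit 228) (nat_lit 396931185706) (nat_lit 304) (nat_lit 104464926440) (nat_lit 30) (nat_lit 5) (nat_lit 33) (nat_lit 5) (nat_lit 34) (nat_lit 5) (nat_lit 309) (nat_lit 299) (nat_lit 112)) (XT.lf (nat_lit 0) (nat_lit 372115578404) (nat_lit 228) (nat_lit 190464779351)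 (nat_lit 304) (nat_lit 52101011392) (nat_lit 30) (nat_lit 5) (nat_lit 33) (nat_lit 5) (nat_lit 34) (nat_lit 5) (nat_lit 310) (nat_lit 299) (nat_lit 111)))))) (XT.nd (nat_lit 468) (nat_lit 380) (nat_lit 0) (XT.nd (nat_lit 234) (nat_lit 380) (nat_lit 0) (XT.nd (nat_lit 78) (nat_lit 0) (nat_lit 0) (XT.lf (nat_lit 0) (nat_lit 5971653925) (nat_lit 228) (nat_lit 606611662250) (nat_lit 76) (nat_lit 31959564151) (nat_lit 27) (nat_lit 5) (nat_lit 30) (nat_lit 5) (nat_lit 28) (nat_lit 5) (nat_lit 311) (nat_lit 299) (nat_lit 110)) (XT.nd (nat_lit 78) (nat_lit 0) (nat_lit 0) (XT.lf (nat_lit 0) (nat_lit 77626885337) (nat_lit 228) (nat_lit 328072516397) (nat_lit 76) (nat_lit 270045524047) (nat_lit 27) (nat_lit 5) (nat_lit 30) (nat_lit 5) (nat_lit 28) (nat_lit 5) (nat_lit 312) (nat_lit 299) (nat_lit 109)) (XT.lf (nat_lit 0) (nat_lit 155014517362) (nat_lit 228) (nat_lit 27250259996) (nat_lit 76) (nat_lit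 527178359023) (nat_lit 27) (nat_lit 5) (nat_lit 30) (nat_lit 5) (nat_lit 28) (nat_lit 5) (nat_lit 313) (nat_lit 299) (nat_lit 108)))) (XT.nd (nat_lit 78) (nat_lit 152) (nat_lit 0) (XT.lf (nat_lit 0) (nat_lit 247744018603) (nat_lit 304) (nat_lit 433539302505) (nat_lit 76) (nat_lit 63821814100) (nat_lit 24) (nat_lit 5) (nat_lit 28) (nat_lit 5) (nat_lit 25) (nat_lit 5) (nat_lit 314) (nat_lit 299) (nat_lit 107)) (XT.nd (nat_lit 78) (nat_lit 152) (nat_lit 0) (XT.lf (nat_lit 0) (nat_lit 353390437000) (nat_lit 304) (nat_lit 109277051908) (nat_lit 76) (nat_lit 320512720533) (nat_lit 24) (nat_lit 5) (nat_lit 28) (nat_lit 5) (nat_lit 25) (nat_lit 5) (nat_lit 315) (nat_lit 299) (nat_lit 106)) (XT.lf (nat_lit 0) (nat_lit 253612904552) (nat_lit 152) (nat_lit 219975046065) (nat_lit 228) (nat_lit 350225388519) (nat_lit 22) (nat_lit 5) (nat_lit 24) (nat_lit 5) (nat_lit 25) (nat_lit 5) (nat_lit 316)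 (nat_lit 299) (nat_lit 105))))) (XT.nd (nat_lit 234) (nat_lit 228) (nat_lit 0) (XT.nd (nat_lit 78) (nat_lit 152) (nat_lit 0) (XT.lf (nat_lit 0) (nat_lit 607479980012) (nat_lit 228) (nat_lit 216800272650) (nat_lit 76) (nat_lit 43090569423) (nat_lit 22) (nat_lit 5) (nat_lit 25) (nat_lit 5) (nat_lit 23) (nat_lit 5) (nat_lit 317) (nat_lit 299) (nat_lit 104)) (XT.nd (nat_lit 78) (nat_lit 0) (nat_lit 0) (XT.lf (nat_lit 0) (nat_lit 167539237924) (nat_lit 152) (nat_lit 594287080985) (nat_lit 228) (nat_lit 151807149044) (nat_lit 20) (nat_lit 5) (nat_lit 22) (nat_lit 5) (nat_lit 23) (nat_lit 5) (nat_lit 318) (nat_lit 299) (nat_lit 103)) (XT.lf (nat_lit 0) (nat_lit 594955515435) (nat_lit 152) (nat_lit 339492540578) (nat_lit 228) (nat_lit 28674854236) (nat_lit 20) (nat_lit 5) (nat_lit 22) (nat_lit 5) (nat_lit 23) (nat_lit 5) (nat_lit 319) (nat_lit 299) (nat_lit 102)))) (XT.nd (nat_lit 35958) (nat_lit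 0) (nat_lit 1444) (XT.nd (nat_lit 78) (nat_lit 0) (nat_lit 0) (XT.lf (nat_lit 0) (nat_lit 39458851391) (nat_lit 152) (nat_lit 60580237295) (nat_lit 228) (nat_lit 916255812499) (nat_lit 17) (nat_lit 5) (nat_lit 19) (nat_lit 5) (nat_lit 20) (nat_lit 5) (nat_lit 320) (nat_lit 299) (nat_lit 101)) (XT.lf (nat_lit 0) (nat_lit 253616280389) (nat_lit 228) (nat_lit 579075941779) (nat_lit 76) (nat_lit 239679619530) (nat_lit 17) (nat_lit 5) (nat_lit 20) (nat_lit 5) (nat_lit 18) (nat_lit 5) (nat_lit 321) (nat_lit 299) (nat_lit 100))) (XT.nd (nat_lit 78) (nat_lit 0) (nat_lit 0) (XT.lf (nat_lit 0) (nat_lit 76518904730) (nat_lit 532) (nat_lit 65603566781) (nat_lit 532) (nat_lit 65603566781) (nat_lit 36) (nat_lit 3) (nat_lit 43) (nat_lit 3) (nat_lit 43) (nat_lit 5) (nat_lit 300) (nat_lit 300) (nat_lit 120)) (XT.lf (nat_lit 76) (nat_lit 48830192889) (nat_lit 0) (nat_lit 111503834178) (nat_lit 532)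 (nat_lit 271642154372) (nat_lit 37) (nat_lit 5) (nat_lit 36) (nat_lit 3) (nat_lit 43) (nat_lit 5) (nat_lit 301) (nat_lit 300) (nat_lit 119))))))) (XT.nd (nat_lit 1014) (nat_lit 532) (nat_lit 0) (XT.nd (nat_lit 468) (nat_lit 760) (nat_lit 0) (XT.nd (nat_lit 234) (nat_lit 0) (nat_lit 76) (XT.nd (nat_lit 78) (nat_lit 0) (nat_lit 0) (XT.lf (nat_lit 0) (nat_lit 173699636021) (nat_lit 456) (nat_lit 200701163328) (nat_lit 532) (nat_lit 74982559999) (nat_lit 37) (nat_lit 5) (nat_lit 43) (nat_lit 5) (nat_lit 44) (nat_lit 5) (nat_lit 302) (nat_lit 300) (nat_lit 118)) (XT.nd (nat_lit 78) (nat_lit 0) (nat_lit 0) (XT.lf (nat_lit 0) (nat_lit 191030665776) (nat_lit 456) (nat_lit 6556976493) (nat_lit 532) (nat_lit 270363775621) (nat_lit 37) (nat_lit 5) (nat_lit 43) (nat_lit 5) (nat_lit 44) (nat_lit 5) (nat_lit 303) (nat_lit 300) (nat_lit 117)) (XT.lf (nat_lit 76) (nat_lit 213814598070) (nat_lit 0)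 (nat_lit 1075796992) (nat_lit 532) (nat_lit 272703148833) (nat_lit 38) (nat_lit 5) (nat_lit 37) (nat_lit 5) (nat_lit 44) (nat_lit 5) (nat_lit 304) (nat_lit 300) (nat_lit 116)))) (XT.nd (nat_lit 78) (nat_lit 0) (nat_lit 0) (XT.lf (nat_lit 0) (nat_lit 245921142314) (nat_lit 456) (nat_lit 61686906822) (nat_lit 532) (nat_lit 200778011816) (nat_lit 38) (nat_lit 5) (nat_lit 44) (nat_lit 5) (nat_lit 45) (nat_lit 5) (nat_lit 305) (nat_lit 300) (nat_lit 115)) (XT.nd (nat_lit 78) (nat_lit 0) (nat_lit 76) (XT.lf (nat_lit 76) (nat_lit 176156599224) (nat_lit 0) (nat_lit 107542238191) (nat_lit 532) (nat_lit 246801983045) (nat_lit 39) (nat_lit 5) (nat_lit 38) (nat_lit 5) (nat_lit 45) (nat_lit 5) (nat_lit 306) (nat_lit 300) (nat_lit 114)) (XT.lf (nat_lit 0) (nat_lit 328839283533) (nat_lit 456) (nat_lit 120368006743) (nat_lit 76) (nat_lit 104830227742) (nat_lit 39) (nat_lit 5) (nat_lit 45) (nat_lit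 5) (nat_lit 40) (nat_lit 5) (nat_lit 307) (nat_lit 300) (nat_lit 113))))) (XT.nd (nat_lit 234) (nat_lit 228) (nat_lit 0) (XT.nd (nat_lit 78) (nat_lit 228) (nat_lit 0) (XT.lf (nat_lit 0) (nat_lit 136353957338) (nat_lit 456) (nat_lit 247309606943) (nat_lit 532) (nat_lit 195307779298) (nat_lit 33) (nat_lit 5) (nat_lit 39) (nat_lit 5) (nat_lit 40) (nat_lit 5) (nat_lit 308) (nat_lit 300) (nat_lit 112)) (XT.nd (nat_lit 78) (nat_lit 228) (nat_lit 0) (XT.lf (nat_lit 0) (nat_lit 420459094380) (nat_lit 456) (nat_lit 25705746978) (nat_lit 532) (nat_lit 159471749619) (nat_lit 33) (nat_lit 5) (nat_lit 39) (nat_lit 5) (nat_lit 40) (nat_lit 5) (nat_lit 309) (nat_lit 300) (nat_lit 111)) (XT.lf (nat_lit 0) (nat_lit 92339015575) (nat_lit 228) (nat_lit 428685661979) (nat_lit 304) (nat_lit 112821704157) (nat_lit 30) (nat_lit 5) (nat_lit 33) (nat_lit 5) (nat_lit 34) (nat_lit 5) (nat_lit 310) (nat_lit 300)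 (nat_lit 110)))) (XT.nd (nat_lit 156) (nat_lit 0) (nat_lit 0) (XT.nd (nat_lit 78) (nat_lit 228) (nat_lit 0) (XT.lf (nat_lit 0) (nat_lit 401885197261) (nat_lit 228) (nat_lit 205701944492) (nat_lit 304) (nat_lit 56268706750) (nat_lit 30) (nat_lit 5) (nat_lit 33) (nat_lit 5) (nat_lit 34) (nat_lit 5) (nat_lit 311) (nat_lit 300) (nat_lit 109)) (XT.lf (nat_lit 0) (nat_lit 6449735445) (nat_lit 228) (nat_lit 655140183184) (nat_lit 76) (nat_lit 34516362691) (nat_lit 27) (nat_lit 5) (nat_lit 30) (nat_lit 5) (nat_lit 28) (nat_lit 5) (nat_lit 312) (nat_lit 300) (nat_lit 108))) (XT.nd (nat_lit 78) (nat_lit 0) (nat_lit 0) (XT.lf (nat_lit 0) (nat_lit 83837359502) (nat_lit 228) (nat_lit 354317936184) (nat_lit 76) (nat_lit 291649196904) (nat_lit 27) (nat_lit 5) (nat_lit 30) (nat_lit 5) (nat_lit 28) (nat_lit 5) (nat_lit 313) (nat_lit 300) (nat_lit 107)) (XT.lf (nat_lit 0) (nat_lit 167415978139) (nat_lit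 228) (nat_lit 29429927533) (nat_lit 76) (nat_lit 569352656386) (nat_lit 27) (nat_lit 5) (nat_lit 30) (nat_lit 5) (nat_lit 28) (nat_lit 5) (nat_lit 314) (nat_lit 300) (nat_lit 106)))))) (XT.nd (nat_lit 36426) (nat_lit 0) (nat_lit 1216) (XT.nd (nat_lit 234) (nat_lit 152) (nat_lit 0) (XT.nd (nat_lit 78) (nat_lit 152) (nat_lit 0) (XT.lf (nat_lit 0) (nat_lit 267563826998) (nat_lit 304) (nat_lit 468222079772) (nat_lit 76) (nat_lit 68927615114) (nat_lit 24) (nat_lit 5) (nat_lit 28) (nat_lit 5) (nat_lit 25) (nat_lit 5) (nat_lit 315) (nat_lit 300) (nat_lit 105)) (XT.nd (nat_lit 78) (nat_lit 152) (nat_lit 0) (XT.lf (nat_lit 0) (nat_lit 381661937614) (nat_lit 304) (nat_lit 118018876308) (nat_lit 76) (nat_lit 346153789922) (nat_lit 24) (nat_lit 5) (nat_lit 28) (nat_lit 5) (nat_lit 25) (nat_lit 5) (nat_lit 316) (nat_lit 300) (nat_lit 104)) (XT.lf (nat_lit 0) (nat_lit 273902268068) (nat_lit 152)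 (nat_lit 237572972539) (nat_lit 228) (nat_lit 378243144326) (nat_lit 22) (nat_lit 5) (nat_lit 24) (nat_lit 5) (nat_lit 25) (nat_lit 5) (nat_lit 317) (nat_lit 300) (nat_lit 103)))) (XT.nd (nat_lit 78) (nat_lit 152) (nat_lit 0) (XT.lf (nat_lit 0) (nat_lit 656078615262) (nat_lit 228) (nat_lit 234143969806) (nat_lit 76) (nat_lit 46537882893) (nat_lit 22) (nat_lit 5) (nat_lit 25) (nat_lit 5) (nat_lit 23) (nat_lit 5) (nat_lit 318) (nat_lit 300) (nat_lit 102)) (XT.nd (nat_lit 78) (nat_lit 0) (nat_lit 0) (XT.lf (nat_lit 0) (nat_lit 180942693395) (nat_lit 152) (nat_lit 641829957941) (nat_lit 228) (nat_lit 163951475026) (nat_lit 20) (nat_lit 5) (nat_lit 22) (nat_lit 5) (nat_lit 23) (nat_lit 5) (nat_lit 319) (nat_lit 300) (nat_lit 101)) (XT.lf (nat_lit 0) (nat_lit 642552249668) (nat_lit 152) (nat_lit 366651860933) (nat_lit 228) (nat_lit 30968614851) (nat_lit 20) (nat_lit 5) (nat_lit 22) (nat_lit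 5) (nat_lit 23) (nat_lit 5) (nat_lit 320) (nat_lit 300) (nat_lit 100))))) (XT.nd (nat_lit 234) (nat_lit 0) (nat_lit 76) (XT.nd (nat_lit 78) (nat_lit 0) (nat_lit 0) (XT.lf (nat_lit 0) (nat_lit 82640746898) (nat_lit 532) (nat_lit 70851673164) (nat_lit 532) (nat_lit 70851673164) (nat_lit 36) (nat_lit 3) (nat_lit 43) (nat_lit 3) (nat_lit 43) (nat_lit 5) (nat_lit 301) (nat_lit 301) (nat_lit 118)) (XT.nd (nat_lit 78) (nat_lit 0) (nat_lit 76) (XT.lf (nat_lit 76) (nat_lit 52736957178) (nat_lit 0) (nat_lit 120424411167) (nat_lit 532) (nat_lit 293372854848) (nat_lit 37) (nat_lit 5) (nat_lit 36) (nat_lit 3) (nat_lit 43) (nat_lit 5) (nat_lit 302) (nat_lit 301) (nat_lit 117)) (XT.lf (nat_lit 0) (nat_lit 187596174137) (nat_lit 456) (nat_lit 216756878507) (nat_lit 532) (nat_lit 80980927081) (nat_lit 37) (nat_lit 5) (nat_lit 43) (nat_lit 5) (nat_lit 44) (nat_lit 5) (nat_lit 303) (nat_lit 301) (nat_lit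 116)))) (XT.nd (nat_lit 156) (nat_lit 0) (nat_lit 76) (XT.nd (nat_lit 78) (nat_lit 0) (nat_lit 0) (XT.lf (nat_lit 0) (nat_lit 206313644254) (nat_lit 456) (nat_lit 7081184716) (nat_lit 532) (nat_lit 291992657561) (nat_lit 37) (nat_lit 5) (nat_lit 43) (nat_lit 5) (nat_lit 44) (nat_lit 5) (nat_lit 304) (nat_lit 301) (nat_lit 115)) (XT.lf (nat_lit 76) (nat_lit 230920106953) (nat_lit 0) (nat_lit 1162014226) (nat_lit 532) (nat_lit 294518864099) (nat_lit 38) (nat_lit 5) (nat_lit 37) (nat_lit 5) (nat_lit 44) (nat_lit 5) (nat_lit 305) (nat_lit 301) (nat_lit 114))) (XT.nd (nat_lit 78) (nat_lit 0) (nat_lit 0) (XT.lf (nat_lit 0) (nat_lit 265595288164) (nat_lit 456) (nat_lit 66621501167) (nat_lit 532) (nat_lit 216840117763) (nat_lit 38) (nat_lit 5) (nat_lit 44) (nat_lit 5) (nat_lit 45) (nat_lit 5) (nat_lit 306) (nat_lit 301) (nat_lit 113)) (XT.lf (nat_lit 76) (nat_lit 190249476293) (nat_lit 0)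 (nat_lit 116145697312) (nat_lit 532) (nat_lit 266545675955) (nat_lit 39) (nat_lit 5) (nat_lit 38) (nat_lit 5) (nat_lit 45) (nat_lit 5) (nat_lit 307) (nat_lit 301) (nat_lit 112))))))))
noncomputable def xc126 : XT := (XT.nd (nat_lit 38064) (nat_lit 0) (nat_lit 152) (XT.nd (nat_lit 37050) (nat_lit 0) (nat_lit 380) (XT.nd (nat_lit 468) (nat_lit 380) (nat_lit 0) (XT.nd (nat_lit 234) (nat_lit 456) (nat_lit 0) (XT.nd (nat_lit 78) (nat_lit 456) (nat_lit 0) (XT.lf (nat_lit 0) (nat_lit 355146821838) (nat_lit 456) (nat_lit 129997088399) (nat_lit 76) (nat_lit 113216575535) (nat_lit 39) (nat_lit 5) (nat_lit 45) (nat_lit 5) (nat_lit 40) (nat_lit 5) (nat_lit 308) (nat_lit 301) (nat_lit 111)) (XT.nd (nat_lit 78) (nat_lit 0) (nat_lit 0) (XT.lf (nat_lit 0) (nat_lit 147262623722) (nat_lit 456) (nat_lit 267094400430) (nat_lit 532) (nat_lit 210931995048) (nat_lit 33) (nat_lit 5) (nat_lit 39) (nat_lit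 5) (nat_lit 40) (nat_lit 5) (nat_lit 309) (nat_lit 301) (nat_lit 110)) (XT.lf (nat_lit 0) (nat_lit 454096145817) (nat_lit 456) (nat_lit 27762229822) (nat_lit 532) (nat_lit 172229113113) (nat_lit 33) (nat_lit 5) (nat_lit 39) (nat_lit 5) (nat_lit 40) (nat_lit 5) (nat_lit 310) (nat_lit 301) (nat_lit 109)))) (XT.nd (nat_lit 78) (nat_lit 228) (nat_lit 0) (XT.lf (nat_lit 0) (nat_lit 99726481806) (nat_lit 228) (nat_lit 462980499005) (nat_lit 304) (nat_lit 121847083495) (nat_lit 30) (nat_lit 5) (nat_lit 33) (nat_lit 5) (nat_lit 34) (nat_lit 5) (nat_lit 311) (nat_lit 301) (nat_lit 108)) (XT.nd (nat_lit 78) (nat_lit 228) (nat_lit 0) (XT.lf (nat_lit 0) (nat_lit 434036332472) (nat_lit 228) (nat_lit 222158085299) (nat_lit 304) (nat_lit 60769872739) (nat_lit 30) (nat_lit 5) (nat_lit 33) (nat_lit 5) (nat_lit 34) (nat_lit 5) (nat_lit 312) (nat_lit 301) (nat_lit 107)) (XT.lf (nat_lit 0) (nat_lit 6966013668)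 (nat_lit 228) (nat_lit 707551044575) (nat_lit 76) (nat_lit 37277700348) (nat_lit 27) (nat_lit 5) (nat_lit 30) (nat_lit 5) (nat_lit 28) (nat_lit 5) (nat_lit 313) (nat_lit 301) (nat_lit 106))))) (XT.nd (nat_lit 234) (nat_lit 152) (nat_lit 0) (XT.nd (nat_lit 78) (nat_lit 228) (nat_lit 0) (XT.lf (nat_lit 0) (nat_lit 90544625473) (nat_lit 228) (nat_lit 382663043983) (nat_lit 76) (nat_lit 314981159176) (nat_lit 27) (nat_lit 5) (nat_lit 30) (nat_lit 5) (nat_lit 28) (nat_lit 5) (nat_lit 314) (nat_lit 301) (nat_lit 105)) (XT.nd (nat_lit 78) (nat_lit 228) (nat_lit 0) (XT.lf (nat_lit 0) (nat_lit 180809513066) (nat_lit 228) (nat_lit 31784018868) (nat_lit 76) (nat_lit 614900893452) (nat_lit 27) (nat_lit 5) (nat_lit 30) (nat_lit 5) (nat_lit 28) (nat_lit 5) (nat_lit 315) (nat_lit 301) (nat_lit 104)) (XT.lf (nat_lit 0) (nat_lit 288969179134) (nat_lit 304) (nat_lit 505679531567) (nat_lit 76) (nat_lit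 74441872236) (nat_lit 24) (nat_lit 5) (nat_lit 28) (nat_lit 5) (nat_lit 25) (nat_lit 5) (nat_lit 316) (nat_lit 301) (nat_lit 103)))) (XT.nd (nat_lit 78) (nat_lit 152) (nat_lit 0) (XT.lf (nat_lit 0) (nat_lit 412195120379) (nat_lit 304) (nat_lit 127460095128) (nat_lit 76) (nat_lit 373846137480) (nat_lit 24) (nat_lit 5) (nat_lit 28) (nat_lit 5) (nat_lit 25) (nat_lit 5) (nat_lit 317) (nat_lit 301) (nat_lit 102)) (XT.nd (nat_lit 78) (nat_lit 0) (nat_lit 0) (XT.lf (nat_lit 0) (nat_lit 295814733422) (nat_lit 152) (nat_lit 256578744145) (nat_lit 228) (nat_lit 408502359869) (nat_lit 22) (nat_lit 5) (nat_lit 24) (nat_lit 5) (nat_lit 25) (nat_lit 5) (nat_lit 318) (nat_lit 301) (nat_lit 101)) (XT.lf (nat_lit 0) (nat_lit 708565107543) (nat_lit 228) (nat_lit 252875209049) (nat_lit 76) (nat_lit 50260971752) (nat_lit 22) (nat_lit 5) (nat_lit 25) (nat_lit 5) (nat_lit 23) (nat_lit 5) (nat_lit 319) (nat_lit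 301) (nat_lit 100)))))) (XT.nd (nat_lit 468) (nat_lit 684) (nat_lit 0) (XT.nd (nat_lit 234) (nat_lit 0) (nat_lit 76) (XT.nd (nat_lit 78) (nat_lit 0) (nat_lit 0) (XT.lf (nat_lit 0) (nat_lit 89252289391) (nat_lit 532) (nat_lit 76519653588) (nat_lit 532) (nat_lit 76519653588) (nat_lit 36) (nat_lit 3) (nat_lit 43) (nat_lit 3) (nat_lit 43) (nat_lit 5) (nat_lit 302) (nat_lit 302) (nat_lit 116)) (XT.nd (nat_lit 78) (nat_lit 0) (nat_lit 76) (XT.lf (nat_lit 76) (nat_lit 56956212841) (nat_lit 0) (nat_lit 130058595760) (nat_lit 532) (nat_lit 316842107213) (nat_lit 37) (nat_lit 5) (nat_lit 36) (nat_lit 3) (nat_lit 43) (nat_lit 5) (nat_lit 303) (nat_lit 302) (nat_lit 115)) (XT.lf (nat_lit 0) (nat_lit 202604354379) (nat_lit 456) (nat_lit 234097104810) (nat_lit 532) (nat_lit 87459197443) (nat_lit 37) (nat_lit 5) (nat_lit 43) (nat_lit 5) (nat_lit 44) (nat_lit 5) (nat_lit 304) (nat_lit 302) (nat_lit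 114)))) (XT.nd (nat_lit 78) (nat_lit 0) (nat_lit 0) (XT.lf (nat_lit 0) (nat_lit 222819186083) (nat_lit 456) (nat_lit 7647379514) (nat_lit 532) (nat_lit 315351881458) (nat_lit 37) (nat_lit 5) (nat_lit 43) (nat_lit 5) (nat_lit 44) (nat_lit 5) (nat_lit 305) (nat_lit 302) (nat_lit 113)) (XT.nd (nat_lit 78) (nat_lit 0) (nat_lit 76) (XT.lf (nat_lit 76) (nat_lit 249394007895) (nat_lit 0) (nat_lit 1255106945) (nat_lit 532) (nat_lit 318079913144) (nat_lit 38) (nat_lit 5) (nat_lit 37) (nat_lit 5) (nat_lit 44) (nat_lit 5) (nat_lit 306) (nat_lit 302) (nat_lit 112)) (XT.lf (nat_lit 0) (nat_lit 286843300848) (nat_lit 456) (nat_lit 71950914162) (nat_lit 532) (nat_lit 234187211445) (nat_lit 38) (nat_lit 5) (nat_lit 44) (nat_lit 5) (nat_lit 45) (nat_lit 5) (nat_lit 307) (nat_lit 302) (nat_lit 111))))) (XT.nd (nat_lit 234) (nat_lit 456) (nat_lit 0) (XT.nd (nat_lit 78) (nat_lit 380) (nat_lit 0) (XT.lf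 (nat_lit 76) (nat_lit 205469733721) (nat_lit 0) (nat_lit 125437421740) (nat_lit 532) (nat_lit 287868930740) (nat_lit 39) (nat_lit 5) (nat_lit 38) (nat_lit 5) (nat_lit 45) (nat_lit 5) (nat_lit 308) (nat_lit 302) (nat_lit 110)) (XT.nd (nat_lit 78) (nat_lit 456) (nat_lit 0) (XT.lf (nat_lit 0) (nat_lit 383558906767) (nat_lit 456) (nat_lit 140396547787) (nat_lit 76) (nat_lit 122273841199) (nat_lit 39) (nat_lit 5) (nat_lit 45) (nat_lit 5) (nat_lit 40) (nat_lit 5) (nat_lit 309) (nat_lit 302) (nat_lit 109)) (XT.lf (nat_lit 0) (nat_lit 159043933514) (nat_lit 456) (nat_lit 288461973840) (nat_lit 532) (nat_lit 227806206063) (nat_lit 33) (nat_lit 5) (nat_lit 39) (nat_lit 5) (nat_lit 40) (nat_lit 5) (nat_lit 310) (nat_lit 302) (nat_lit 108)))) (XT.nd (nat_lit 156) (nat_lit 228) (nat_lit 0) (XT.nd (nat_lit 78) (nat_lit 228) (nat_lit 0) (XT.lf (nat_lit 0) (nat_lit 490424115163) (nat_lit 456) (nat_lit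 29983228000) (nat_lit 532) (nat_lit 186007119395) (nat_lit 33) (nat_lit 5) (nat_lit 39) (nat_lit 5) (nat_lit 40) (nat_lit 5) (nat_lit 311) (nat_lit 302) (nat_lit 107)) (XT.lf (nat_lit 0) (nat_lit 107704896119) (nat_lit 228) (nat_lit 500018925266) (nat_lit 304) (nat_lit 131594544110) (nat_lit 30) (nat_lit 5) (nat_lit 33) (nat_lit 5) (nat_lit 34) (nat_lit 5) (nat_lit 312) (nat_lit 302) (nat_lit 106))) (XT.nd (nat_lit 78) (nat_lit 228) (nat_lit 0) (XT.lf (nat_lit 0) (nat_lit 468759512930) (nat_lit 228) (nat_lit 239930719476) (nat_lit 304) (nat_lit 65631179165) (nat_lit 30) (nat_lit 5) (nat_lit 33) (nat_lit 5) (nat_lit 34) (nat_lit 5) (nat_lit 313) (nat_lit 302) (nat_lit 105)) (XT.lf (nat_lit 0) (nat_lit 7523551438) (nat_lit 228) (nat_lit 764154825274) (nat_lit 76) (nat_lit 40259940931) (nat_lit 27) (nat_lit 5) (nat_lit 30) (nat_lit 5) (nat_lit 28) (nat_lit 5) (nat_lit 314) (nat_lit 302)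 (nat_lit 104))))))) (XT.nd (nat_lit 37284) (nat_lit 0) (nat_lit 0) (XT.nd (nat_lit 36738) (nat_lit 0) (nat_lit 684) (XT.nd (nat_lit 234) (nat_lit 0) (nat_lit 0) (XT.nd (nat_lit 78) (nat_lit 228) (nat_lit 0) (XT.lf (nat_lit 0) (nat_lit 97788433175) (nat_lit 228) (nat_lit 413275807070) (nat_lit 76) (nat_lit 340179674647) (nat_lit 27) (nat_lit 5) (nat_lit 30) (nat_lit 5) (nat_lit 28) (nat_lit 5) (nat_lit 315) (nat_lit 302) (nat_lit 103)) (XT.nd (nat_lit 78) (nat_lit 228) (nat_lit 0) (XT.lf (nat_lit 0) (nat_lit 195274494171) (nat_lit 228) (nat_lit 34326480719) (nat_lit 76) (nat_lit 664092985981) (nat_lit 27) (nat_lit 5) (nat_lit 30) (nat_lit 5) (nat_lit 28) (nat_lit 5) (nat_lit 316) (nat_lit 302) (nat_lit 102)) (XT.lf (nat_lit 0) (nat_lit 312086924349) (nat_lit 304) (nat_lit 546133624385) (nat_lit 76) (nat_lit 80397263093) (nat_lit 24) (nat_lit 5) (nat_lit 28) (nat_lit 5) (nat_lit 25)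 (nat_lit 5) (nat_lit 317) (nat_lit 302) (nat_lit 101)))) (XT.nd (nat_lit 36348) (nat_lit 0) (nat_lit 912) (XT.lf (nat_lit 0) (nat_lit 445170925273) (nat_lit 304) (nat_lit 137656653010) (nat_lit 76) (nat_lit 403753866514) (nat_lit 24) (nat_lit 5) (nat_lit 28) (nat_lit 5) (nat_lit 25) (nat_lit 5) (nat_lit 318) (nat_lit 302) (nat_lit 100)) (XT.nd (nat_lit 78) (nat_lit 0) (nat_lit 0) (XT.lf (nat_lit 0) (nat_lit 96392714948) (nat_lit 532) (nat_lit 82641094335) (nat_lit 532) (nat_lit 82641094335) (nat_lit 36) (nat_lit 3) (nat_lit 43) (nat_lit 3) (nat_lit 43) (nat_lit 5) (nat_lit 303) (nat_lit 303) (nat_lit 114)) (XT.lf (nat_lit 76) (nat_lit 61512966289) (nat_lit 0) (nat_lit 140463482065) (nat_lit 532) (nat_lit 342188981943) (nat_lit 37) (nat_lit 5) (nat_lit 36) (nat_lit 3) (nat_lit 43) (nat_lit 5) (nat_lit 304) (nat_lit 303) (nat_lit 113))))) (XT.nd (nat_lit 234) (nat_lit 304) (nat_lit 0)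 (XT.nd (nat_lit 78) (nat_lit 0) (nat_lit 0) (XT.lf (nat_lit 0) (nat_lit 218813119663) (nat_lit 456) (nat_lit 252824595436) (nat_lit 532) (nat_lit 94455758508) (nat_lit 37) (nat_lit 5) (nat_lit 43) (nat_lit 5) (nat_lit 44) (nat_lit 5) (nat_lit 305) (nat_lit 303) (nat_lit 112)) (XT.nd (nat_lit 78) (nat_lit 0) (nat_lit 0) (XT.lf (nat_lit 0) (nat_lit 240645107019) (nat_lit 456) (nat_lit 8258912691) (nat_lit 532) (nat_lit 340579870188) (nat_lit 37) (nat_lit 5) (nat_lit 43) (nat_lit 5) (nat_lit 44) (nat_lit 5) (nat_lit 306) (nat_lit 303) (nat_lit 111)) (XT.lf (nat_lit 76) (nat_lit 269345779199) (nat_lit 0) (nat_lit 1355628309) (nat_lit 532) (nat_lit 343525911748) (nat_lit 38) (nat_lit 5) (nat_lit 37) (nat_lit 5) (nat_lit 44) (nat_lit 5) (nat_lit 307) (nat_lit 303) (nat_lit 110)))) (XT.nd (nat_lit 156) (nat_lit 380) (nat_lit 0) (XT.nd (nat_lit 78) (nat_lit 0) (nat_lit 0) (XT.lf (nat_lit 0)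 (nat_lit 309791098961) (nat_lit 456) (nat_lit 77706724007) (nat_lit 532) (nat_lit 252922089133) (nat_lit 38) (nat_lit 5) (nat_lit 44) (nat_lit 5) (nat_lit 45) (nat_lit 5) (nat_lit 308) (nat_lit 303) (nat_lit 109)) (XT.lf (nat_lit 76) (nat_lit 221907569041) (nat_lit 0) (nat_lit 135472474330) (nat_lit 532) (nat_lit 310898102871) (nat_lit 39) (nat_lit 5) (nat_lit 38) (nat_lit 5) (nat_lit 45) (nat_lit 5) (nat_lit 309) (nat_lit 303) (nat_lit 108))) (XT.nd (nat_lit 78) (nat_lit 456) (nat_lit 0) (XT.lf (nat_lit 0) (nat_lit 414243910102) (nat_lit 456) (nat_lit 151628007821) (nat_lit 76) (nat_lit 132055696730) (nat_lit 39) (nat_lit 5) (nat_lit 45) (nat_lit 5) (nat_lit 40) (nat_lit 5) (nat_lit 310) (nat_lit 303) (nat_lit 107)) (XT.lf (nat_lit 0) (nat_lit 171767705307) (nat_lit 456) (nat_lit 311538950073) (nat_lit 532) (nat_lit 246030403689) (nat_lit 33) (nat_lit 5) (nat_lit 39) (nat_lit 5) (nat_lit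 40) (nat_lit 5) (nat_lit 311) (nat_lit 303) (nat_lit 106)))))) (XT.nd (nat_lit 468) (nat_lit 228) (nat_lit 0) (XT.nd (nat_lit 234) (nat_lit 228) (nat_lit 0) (XT.nd (nat_lit 78) (nat_lit 228) (nat_lit 0) (XT.lf (nat_lit 0) (nat_lit 529658282442) (nat_lit 456) (nat_lit 32381903208) (nat_lit 532) (nat_lit 200887412225) (nat_lit 33) (nat_lit 5) (nat_lit 39) (nat_lit 5) (nat_lit 40) (nat_lit 5) (nat_lit 312) (nat_lit 303) (nat_lit 105)) (XT.nd (nat_lit 78) (nat_lit 0) (nat_lit 0) (XT.lf (nat_lit 0) (nat_lit 116321541383) (nat_lit 228) (nat_lit 540020427577) (nat_lit 304) (nat_lit 142121845237) (nat_lit 30) (nat_lit 5) (nat_lit 33) (nat_lit 5) (nat_lit 34) (nat_lit 5) (nat_lit 313) (nat_lit 303) (nat_lit 104)) (XT.lf (nat_lit 0) (nat_lit 506260508756) (nat_lit 228) (nat_lit 259125166190) (nat_lit 304) (nat_lit 70881430534) (nat_lit 30) (nat_lit 5) (nat_lit 33) (nat_lit 5) (nat_lit 34) (nat_lit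 5) (nat_lit 314) (nat_lit 303) (nat_lit 103)))) (XT.nd (nat_lit 78) (nat_lit 0) (nat_lit 0) (XT.lf (nat_lit 0) (nat_lit 8125655612) (nat_lit 228) (nat_lit 825286951636) (nat_lit 76) (nat_lit 43480757258) (nat_lit 27) (nat_lit 5) (nat_lit 30) (nat_lit 5) (nat_lit 28) (nat_lit 5) (nat_lit 315) (nat_lit 303) (nat_lit 102)) (XT.nd (nat_lit 78) (nat_lit 0) (nat_lit 0) (XT.lf (nat_lit 0) (nat_lit 105611711587) (nat_lit 228) (nat_lit 446337631210) (nat_lit 76) (nat_lit 367394068111) (nat_lit 27) (nat_lit 5) (nat_lit 30) (nat_lit 5) (nat_lit 28) (nat_lit 5) (nat_lit 316) (nat_lit 303) (nat_lit 101)) (XT.lf (nat_lit 0) (nat_lit 210896642369) (nat_lit 228) (nat_lit 37072376560) (nat_lit 76) (nat_lit 717220442908) (nat_lit 27) (nat_lit 5) (nat_lit 30) (nat_lit 5) (nat_lit 28) (nat_lit 5) (nat_lit 317) (nat_lit 303) (nat_lit 100))))) (XT.nd (nat_lit 36582) (nat_lit 0) (nat_lit 988) (XT.nd (nat_lit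 36426) (nat_lit 0) (nat_lit 912) (XT.lf (nat_lit 0) (nat_lit 337054059097) (nat_lit 304) (nat_lit 589824083106) (nat_lit 76) (nat_lit 86829079358) (nat_lit 24) (nat_lit 5) (nat_lit 28) (nat_lit 5) (nat_lit 25) (nat_lit 5) (nat_lit 318) (nat_lit 303) (nat_lit 99)) (XT.nd (nat_lit 78) (nat_lit 0) (nat_lit 0) (XT.lf (nat_lit 0) (nat_lit 104104339967) (nat_lit 532) (nat_lit 89252269107) (nat_lit 532) (nat_lit 89252269107) (nat_lit 36) (nat_lit 3) (nat_lit 43) (nat_lit 3) (nat_lit 43) (nat_lit 5) (nat_lit 304) (nat_lit 304) (nat_lit 112)) (XT.lf (nat_lit 76) (nat_lit 66434223432) (nat_lit 0) (nat_lit 151700730937) (nat_lit 532) (nat_lit 369563677104) (nat_lit 37) (nat_lit 5) (nat_lit 36) (nat_lit 3) (nat_lit 43) (nat_lit 5) (nat_lit 305) (nat_lit 304) (nat_lit 111)))) (XT.nd (nat_lit 156) (nat_lit 0) (nat_lit 0) (XT.nd (nat_lit 78) (nat_lit 0) (nat_lit 0) (XT.lf (nat_lit 0) (nat_lit 236318526689)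 (nat_lit 456) (nat_lit 273050324938) (nat_lit 532) (nat_lit 102012069387) (nat_lit 37) (nat_lit 5) (nat_lit 43) (nat_lit 5) (nat_lit 44) (nat_lit 5) (nat_lit 306) (nat_lit 304) (nat_lit 110)) (XT.lf (nat_lit 0) (nat_lit 259897046556) (nat_lit 456) (nat_lit 8919405212) (nat_lit 532) (nat_lit 367826121097) (nat_lit 37) (nat_lit 5) (nat_lit 43) (nat_lit 5) (nat_lit 44) (nat_lit 5) (nat_lit 307) (nat_lit 304) (nat_lit 109))) (XT.nd (nat_lit 78) (nat_lit 0) (nat_lit 76) (XT.lf (nat_lit 76) (nat_lit 290893656447) (nat_lit 0) (nat_lit 1464175290) (nat_lit 532) (nat_lit 371007646514) (nat_lit 38) (nat_lit 5) (nat_lit 37) (nat_lit 5) (nat_lit 44) (nat_lit 5) (nat_lit 308) (nat_lit 304) (nat_lit 108)) (XT.lf (nat_lit 0) (nat_lit 334574673268) (nat_lit 456) (nat_lit 83923036201) (nat_lit 532) (nat_lit 273155771192) (nat_lit 38) (nat_lit 5) (nat_lit 44) (nat_lit 5) (nat_lit 45) (nat_lit 5) (nat_lit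 309) (nat_lit 304) (nat_lit 107))))))))
noncomputable def xc127 : XT := (XT.nd (nat_lit 75192) (nat_lit 0) (nat_lit 456) (XT.nd (nat_lit 37518) (nat_lit 0) (nat_lit 228) (XT.nd (nat_lit 468) (nat_lit 228) (nat_lit 0) (XT.nd (nat_lit 234) (nat_lit 228) (nat_lit 0) (XT.nd (nat_lit 78) (nat_lit 380) (nat_lit 0) (XT.lf (nat_lit 76) (nat_lit 239660394577) (nat_lit 0) (nat_lit 146310322732) (nat_lit 532) (nat_lit 335769657610) (nat_lit 39) (nat_lit 5) (nat_lit 38) (nat_lit 5) (nat_lit 45) (nat_lit 5) (nat_lit 310) (nat_lit 304) (nat_lit 106)) (XT.nd (nat_lit 78) (nat_lit 456) (nat_lit 0) (XT.lf (nat_lit 0) (nat_lit 447383672220) (nat_lit 456) (nat_lit 163758022289) (nat_lit 76) (nat_lit 142620108087) (nat_lit 39) (nat_lit 5) (nat_lit 45) (nat_lit 5) (nat_lit 40) (nat_lit 5) (nat_lit 311) (nat_lit 304) (nat_lit 105)) (XT.lf (nat_lit 0) (nat_lit 185509342163) (nat_lit 456) (nat_lit 336462081791)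 (nat_lit 532) (nat_lit 265712579761) (nat_lit 33) (nat_lit 5) (nat_lit 39) (nat_lit 5) (nat_lit 40) (nat_lit 5) (nat_lit 312) (nat_lit 304) (nat_lit 104)))) (XT.nd (nat_lit 78) (nat_lit 228) (nat_lit 0) (XT.lf (nat_lit 0) (nat_lit 572031149141) (nat_lit 456) (nat_lit 34972470013) (nat_lit 532) (nat_lit 216958167959) (nat_lit 33) (nat_lit 5) (nat_lit 39) (nat_lit 5) (nat_lit 40) (nat_lit 5) (nat_lit 313) (nat_lit 304) (nat_lit 103)) (XT.nd (nat_lit 78) (nat_lit 0) (nat_lit 0) (XT.lf (nat_lit 0) (nat_lit 125627482093) (nat_lit 228) (nat_lit 583222051743) (nat_lit 304) (nat_lit 153491367889) (nat_lit 30) (nat_lit 5) (nat_lit 33) (nat_lit 5) (nat_lit 34) (nat_lit 5) (nat_lit 314) (nat_lit 304) (nat_lit 102)) (XT.lf (nat_lit 0) (nat_lit 546761550752) (nat_lit 228) (nat_lit 279855170189) (nat_lit 304) (nat_lit 76551736674) (nat_lit 30) (nat_lit 5) (nat_lit 33) (nat_lit 5) (nat_lit 34) (nat_lit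 5) (nat_lit 315) (nat_lit 304) (nat_lit 101))))) (XT.nd (nat_lit 36738) (nat_lit 0) (nat_lit 684) (XT.nd (nat_lit 78) (nat_lit 0) (nat_lit 0) (XT.lf (nat_lit 0) (nat_lit 8775896726) (nat_lit 228) (nat_lit 891309685151) (nat_lit 76) (nat_lit 46959235887) (nat_lit 27) (nat_lit 5) (nat_lit 30) (nat_lit 5) (nat_lit 28) (nat_lit 5) (nat_lit 316) (nat_lit 304) (nat_lit 100)) (XT.nd (nat_lit 36582) (nat_lit 0) (nat_lit 684) (XT.lf (nat_lit 0) (nat_lit 114060823203) (nat_lit 228) (nat_lit 482044435581) (nat_lit 76) (nat_lit 396785610272) (nat_lit 27) (nat_lit 5) (nat_lit 30) (nat_lit 5) (nat_lit 28) (nat_lit 5) (nat_lit 317) (nat_lit 304) (nat_lit 99)) (XT.lf (nat_lit 0) (nat_lit 112432865340) (nat_lit 532) (nat_lit 96392353950) (nat_lit 532) (nat_lit 96392353950) (nat_lit 36) (nat_lit 3) (nat_lit 43) (nat_lit 3) (nat_lit 43) (nat_lit 5) (nat_lit 305) (nat_lit 305) (nat_lit 110)))) (XT.nd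 (nat_lit 156) (nat_lit 0) (nat_lit 76) (XT.nd (nat_lit 78) (nat_lit 0) (nat_lit 76) (XT.lf (nat_lit 76) (nat_lit 71749149783) (nat_lit 0) (nat_lit 163836935422) (nat_lit 532) (nat_lit 399128408281) (nat_lit 37) (nat_lit 5) (nat_lit 36) (nat_lit 3) (nat_lit 43) (nat_lit 5) (nat_lit 306) (nat_lit 305) (nat_lit 109)) (XT.lf (nat_lit 0) (nat_lit 255224315283) (nat_lit 456) (nat_lit 294894146772) (nat_lit 532) (nat_lit 110172906506) (nat_lit 37) (nat_lit 5) (nat_lit 43) (nat_lit 5) (nat_lit 44) (nat_lit 5) (nat_lit 307) (nat_lit 305) (nat_lit 108))) (XT.nd (nat_lit 78) (nat_lit 0) (nat_lit 0) (XT.lf (nat_lit 0) (nat_lit 280689094038) (nat_lit 456) (nat_lit 9632768592) (nat_lit 532) (nat_lit 397252091867) (nat_lit 37) (nat_lit 5) (nat_lit 43) (nat_lit 5) (nat_lit 44) (nat_lit 5) (nat_lit 308) (nat_lit 305) (nat_lit 107)) (XT.lf (nat_lit 76) (nat_lit 314165333215) (nat_lit 0) (nat_lit 1581392231)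 (nat_lit 532) (nat_lit 400687968305) (nat_lit 38) (nat_lit 5) (nat_lit 37) (nat_lit 5) (nat_lit 44) (nat_lit 5) (nat_lit 309) (nat_lit 305) (nat_lit 106)))))) (XT.nd (nat_lit 468) (nat_lit 0) (nat_lit 0) (XT.nd (nat_lit 234) (nat_lit 608) (nat_lit 0) (XT.nd (nat_lit 78) (nat_lit 0) (nat_lit 0) (XT.lf (nat_lit 0) (nat_lit 361340892663) (nat_lit 456) (nat_lit 90636685572) (nat_lit 532) (nat_lit 295008159952) (nat_lit 38) (nat_lit 5) (nat_lit 44) (nat_lit 5) (nat_lit 45) (nat_lit 5) (nat_lit 310) (nat_lit 305) (nat_lit 105)) (XT.nd (nat_lit 78) (nat_lit 0) (nat_lit 76) (XT.lf (nat_lit 76) (nat_lit 258833414768) (nat_lit 0) (nat_lit 158015191807) (nat_lit 532) (nat_lit 362630978598) (nat_lit 39) (nat_lit 5) (nat_lit 38) (nat_lit 5) (nat_lit 45) (nat_lit 5) (nat_lit 311) (nat_lit 305) (nat_lit 104)) (XT.lf (nat_lit 0) (nat_lit 483174579740) (nat_lit 456) (nat_lit 176858470179) (nat_lit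 76) (nat_lit 154029678685) (nat_lit 39) (nat_lit 5) (nat_lit 45) (nat_lit 5) (nat_lit 40) (nat_lit 5) (nat_lit 312) (nat_lit 305) (nat_lit 103)))) (XT.nd (nat_lit 78) (nat_lit 228) (nat_lit 0) (XT.lf (nat_lit 0) (nat_lit 200350278521) (nat_lit 456) (nat_lit 363379061804) (nat_lit 532) (nat_lit 286969366472) (nat_lit 33) (nat_lit 5) (nat_lit 39) (nat_lit 5) (nat_lit 40) (nat_lit 5) (nat_lit 313) (nat_lit 305) (nat_lit 102)) (XT.nd (nat_lit 78) (nat_lit 228) (nat_lit 0) (XT.lf (nat_lit 0) (nat_lit 617793816058) (nat_lit 456) (nat_lit 37770280086) (nat_lit 532) (nat_lit 234314617998) (nat_lit 33) (nat_lit 5) (nat_lit 39) (nat_lit 5) (nat_lit 40) (nat_lit 5) (nat_lit 314) (nat_lit 305) (nat_lit 101)) (XT.lf (nat_lit 0) (nat_lit 135677867045) (nat_lit 228) (nat_lit 629879807275) (nat_lit 304) (nat_lit 165770484447) (nat_lit 30) (nat_lit 5) (nat_lit 33) (nat_lit 5) (nat_lit 34) (nat_lit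 5) (nat_lit 315) (nat_lit 305) (nat_lit 100))))) (XT.nd (nat_lit 36894) (nat_lit 0) (nat_lit 532) (XT.nd (nat_lit 36738) (nat_lit 0) (nat_lit 456) (XT.lf (nat_lit 0) (nat_lit 590502647391) (nat_lit 228) (nat_lit 302243575835) (nat_lit 304) (nat_lit 82675697022) (nat_lit 30) (nat_lit 5) (nat_lit 33) (nat_lit 5) (nat_lit 34) (nat_lit 5) (nat_lit 316) (nat_lit 305) (nat_lit 99)) (XT.nd (nat_lit 78) (nat_lit 0) (nat_lit 0) (XT.lf (nat_lit 0) (nat_lit 121427647323) (nat_lit 532) (nat_lit 104103659373) (nat_lit 532) (nat_lit 104103659373) (nat_lit 36) (nat_lit 3) (nat_lit 43) (nat_lit 3) (nat_lit 43) (nat_lit 5) (nat_lit 306) (nat_lit 306) (nat_lit 108)) (XT.lf (nat_lit 76) (nat_lit 77489243354) (nat_lit 0) (nat_lit 176944015436) (nat_lit 532) (nat_lit 431058369736) (nat_lit 37) (nat_lit 5) (nat_lit 36) (nat_lit 3) (nat_lit 43) (nat_lit 5) (nat_lit 307) (nat_lit 306) (nat_lit 107)))) (XT.nd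 (nat_lit 156) (nat_lit 0) (nat_lit 0) (XT.nd (nat_lit 78) (nat_lit 0) (nat_lit 0) (XT.lf (nat_lit 0) (nat_lit 275642523244) (nat_lit 456) (nat_lit 318485503478) (nat_lit 532) (nat_lit 118986628917) (nat_lit 37) (nat_lit 5) (nat_lit 43) (nat_lit 5) (nat_lit 44) (nat_lit 5) (nat_lit 308) (nat_lit 306) (nat_lit 106)) (XT.lf (nat_lit 0) (nat_lit 303144464838) (nat_lit 456) (nat_lit 10403228009) (nat_lit 532) (nat_lit 429032157263) (nat_lit 37) (nat_lit 5) (nat_lit 43) (nat_lit 5) (nat_lit 44) (nat_lit 5) (nat_lit 309) (nat_lit 306) (nat_lit 105))) (XT.nd (nat_lit 78) (nat_lit 0) (nat_lit 76) (XT.lf (nat_lit 76) (nat_lit 339298717839) (nat_lit 0) (nat_lit 1707974698) (nat_lit 532) (nat_lit 432742757201) (nat_lit 38) (nat_lit 5) (nat_lit 37) (nat_lit 5) (nat_lit 44) (nat_lit 5) (nat_lit 310) (nat_lit 306) (nat_lit 104)) (XT.lf (nat_lit 0) (nat_lit 390248374581) (nat_lit 456) (nat_lit 97887454502)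 (nat_lit 532) (nat_lit 318608750218) (nat_lit 38) (nat_lit 5) (nat_lit 44) (nat_lit 5) (nat_lit 45) (nat_lit 5) (nat_lit 311) (nat_lit 306) (nat_lit 103))))))) (XT.nd (nat_lit 74802) (nat_lit 0) (nat_lit 228) (XT.nd (nat_lit 37284) (nat_lit 0) (nat_lit 228) (XT.nd (nat_lit 234) (nat_lit 0) (nat_lit 0) (XT.nd (nat_lit 78) (nat_lit 380) (nat_lit 0) (XT.lf (nat_lit 76) (nat_lit 279540249666) (nat_lit 0) (nat_lit 170656444238) (nat_lit 532) (nat_lit 391641241161) (nat_lit 39) (nat_lit 5) (nat_lit 38) (nat_lit 5) (nat_lit 45) (nat_lit 5) (nat_lit 312) (nat_lit 306) (nat_lit 102)) (XT.nd (nat_lit 78) (nat_lit 456) (nat_lit 0) (XT.lf (nat_lit 0) (nat_lit 521828729369) (nat_lit 456) (nat_lit 191006981561) (nat_lit 76) (nat_lit 166352020359) (nat_lit 39) (nat_lit 5) (nat_lit 45) (nat_lit 5) (nat_lit 40) (nat_lit 5) (nat_lit 313) (nat_lit 306) (nat_lit 101)) (XT.lf (nat_lit 0) (nat_lit 216378462826)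 (nat_lit 456) (nat_lit 392449398297) (nat_lit 532) (nat_lit 309926727458) (nat_lit 33) (nat_lit 5) (nat_lit 39) (nat_lit 5) (nat_lit 40) (nat_lit 5) (nat_lit 314) (nat_lit 306) (nat_lit 100)))) (XT.nd (nat_lit 36894) (nat_lit 0) (nat_lit 228) (XT.lf (nat_lit 0) (nat_lit 667217471364) (nat_lit 456) (nat_lit 40791913186) (nat_lit 532) (nat_lit 253059613057) (nat_lit 33) (nat_lit 5) (nat_lit 39) (nat_lit 5) (nat_lit 40) (nat_lit 5) (nat_lit 315) (nat_lit 306) (nat_lit 99)) (XT.nd (nat_lit 78) (nat_lit 0) (nat_lit 0) (XT.lf (nat_lit 0) (nat_lit 131141990073) (nat_lit 532) (nat_lit 112431881055) (nat_lit 532) (nat_lit 112431881055) (nat_lit 36) (nat_lit 3) (nat_lit 43) (nat_lit 3) (nat_lit 43) (nat_lit 5) (nat_lit 307) (nat_lit 307) (nat_lit 106)) (XT.lf (nat_lit 76) (nat_lit 83688521359) (nat_lit 0) (nat_lit 191099643992) (nat_lit 532) (nat_lit 465542772504) (nat_lit 37) (nat_lit 5) (nat_lit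 36) (nat_lit 3) (nat_lit 43) (nat_lit 5) (nat_lit 308) (nat_lit 307) (nat_lit 105))))) (XT.nd (nat_lit 234) (nat_lit 76) (nat_lit 0) (XT.nd (nat_lit 78) (nat_lit 0) (nat_lit 0) (XT.lf (nat_lit 0) (nat_lit 297694150360) (nat_lit 456) (nat_lit 343964193692) (nat_lit 532) (nat_lit 128505464830) (nat_lit 37) (nat_lit 5) (nat_lit 43) (nat_lit 5) (nat_lit 44) (nat_lit 5) (nat_lit 309) (nat_lit 307) (nat_lit 104)) (XT.nd (nat_lit 78) (nat_lit 0) (nat_lit 0) (XT.lf (nat_lit 0) (nat_lit 327396230596) (nat_lit 456) (nat_lit 11235347302) (nat_lit 532) (nat_lit 463354642436) (nat_lit 37) (nat_lit 5) (nat_lit 43) (nat_lit 5) (nat_lit 44) (nat_lit 5) (nat_lit 310) (nat_lit 307) (nat_lit 103)) (XT.lf (nat_lit 76) (nat_lit 366442750697) (nat_lit 0) (nat_lit 1844673621) (nat_lit 532) (nat_lit 467361964670) (nat_lit 38) (nat_lit 5) (nat_lit 37) (nat_lit 5) (nat_lit 44) (nat_lit 5) (nat_lit 311) (nat_lit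 307) (nat_lit 102)))) (XT.nd (nat_lit 156) (nat_lit 152) (nat_lit 0) (XT.nd (nat_lit 78) (nat_lit 0) (nat_lit 0) (XT.lf (nat_lit 0) (nat_lit 421468425022) (nat_lit 456) (nat_lit 105718308616) (nat_lit 532) (nat_lit 344097396626) (nat_lit 38) (nat_lit 5) (nat_lit 44) (nat_lit 5) (nat_lit 45) (nat_lit 5) (nat_lit 312) (nat_lit 307) (nat_lit 101)) (XT.lf (nat_lit 76) (nat_lit 301903608284) (nat_lit 0) (nat_lit 184308991572) (nat_lit 532) (nat_lit 422972355504) (nat_lit 39) (nat_lit 5) (nat_lit 38) (nat_lit 5) (nat_lit 45) (nat_lit 5) (nat_lit 313) (nat_lit 307) (nat_lit 100))) (XT.nd (nat_lit 37050) (nat_lit 228) (nat_lit 0) (XT.lf (nat_lit 0) (nat_lit 563575184825) (nat_lit 456) (nat_lit 206287397569) (nat_lit 76) (nat_lit 179660154021) (nat_lit 39) (nat_lit 5) (nat_lit 45) (nat_lit 5) (nat_lit 40) (nat_lit 5) (nat_lit 314) (nat_lit 307) (nat_lit 99)) (XT.lf (nat_lit 0) (nat_lit 141633461560)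 (nat_lit 532) (nat_lit 121426370611) (nat_lit 532) (nat_lit 121426370611) (nat_lit 36) (nat_lit 3) (nat_lit 43) (nat_lit 3) (nat_lit 43) (nat_lit 5) (nat_lit 308) (nat_lit 308) (nat_lit 104)))))) (XT.nd (nat_lit 37596) (nat_lit 0) (nat_lit 0) (XT.nd (nat_lit 234) (nat_lit 0) (nat_lit 0) (XT.nd (nat_lit 78) (nat_lit 0) (nat_lit 76) (XT.lf (nat_lit 76) (nat_lit 90383721840) (nat_lit 0) (nat_lit 206387707523) (nat_lit 532) (nat_lit 502785965558) (nat_lit 37) (nat_lit 5) (nat_lit 36) (nat_lit 3) (nat_lit 43) (nat_lit 5) (nat_lit 309) (nat_lit 308) (nat_lit 103)) (XT.nd (nat_lit 78) (nat_lit 0) (nat_lit 0) (XT.lf (nat_lit 0) (nat_lit 321509875510) (nat_lit 456) (nat_lit 371481200532) (nat_lit 532) (nat_lit 138785821082) (nat_lit 37) (nat_lit 5) (nat_lit 43) (nat_lit 5) (nat_lit 44) (nat_lit 5) (nat_lit 310) (nat_lit 308) (nat_lit 102)) (XT.lf (nat_lit 0) (nat_lit 353588107859) (nat_lit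 456) (nat_lit 12134055960) (nat_lit 532) (nat_lit 500422938892) (nat_lit 37) (nat_lit 5) (nat_lit 43) (nat_lit 5) (nat_lit 44) (nat_lit 5) (nat_lit 311) (nat_lit 308) (nat_lit 101)))) (XT.nd (nat_lit 78) (nat_lit 76) (nat_lit 0) (XT.lf (nat_lit 76) (nat_lit 395758286862) (nat_lit 0) (nat_lit 1992299763) (nat_lit 532) (nat_lit 504750739138) (nat_lit 38) (nat_lit 5) (nat_lit 37) (nat_lit 5) (nat_lit 44) (nat_lit 5) (nat_lit 312) (nat_lit 308) (nat_lit 100)) (XT.nd (nat_lit 37206) (nat_lit 152) (nat_lit 0) (XT.lf (nat_lit 0) (nat_lit 455186053751) (nat_lit 456) (nat_lit 114175651352) (nat_lit 532) (nat_lit 371625142394) (nat_lit 38) (nat_lit 5) (nat_lit 44) (nat_lit 5) (nat_lit 45) (nat_lit 5) (nat_lit 313) (nat_lit 308) (nat_lit 99)) (XT.lf (nat_lit 0) (nat_lit 152964234747) (nat_lit 532) (nat_lit 131140428024) (nat_lit 532) (nat_lit 131140428024) (nat_lit 36) (nat_lit 3) (nat_lit 43)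 (nat_lit 3) (nat_lit 43) (nat_lit 5) (nat_lit 309) (nat_lit 309) (nat_lit 102))))) (XT.nd (nat_lit 234) (nat_lit 0) (nat_lit 0) (XT.nd (nat_lit 78) (nat_lit 0) (nat_lit 76) (XT.lf (nat_lit 76) (nat_lit 97614521415) (nat_lit 0) (nat_lit 222898803009) (nat_lit 532) (nat_lit 543008646689) (nat_lit 37) (nat_lit 5) (nat_lit 36) (nat_lit 3) (nat_lit 43) (nat_lit 5) (nat_lit 310) (nat_lit 309) (nat_lit 101)) (XT.nd (nat_lit 78) (nat_lit 0) (nat_lit 0) (XT.lf (nat_lit 0) (nat_lit 347230831121) (nat_lit 456) (nat_lit 401199586272) (nat_lit 532) (nat_lit 149888617382) (nat_lit 37) (nat_lit 5) (nat_lit 43) (nat_lit 5) (nat_lit 44) (nat_lit 5) (nat_lit 311) (nat_lit 309) (nat_lit 100)) (XT.lf (nat_lit 0) (nat_lit 381875309793) (nat_lit 456) (nat_lit 13104678305) (nat_lit 532) (nat_lit 540456709756) (nat_lit 37) (nat_lit 5) (nat_lit 43) (nat_lit 5) (nat_lit 44) (nat_lit 5) (nat_lit 312) (nat_lit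 309) (nat_lit 99)))) (XT.nd (nat_lit 37362) (nat_lit 0) (nat_lit 0) (XT.nd (nat_lit 37284) (nat_lit 76) (nat_lit 0) (XT.lf (nat_lit 76) (nat_lit 427419049357) (nat_lit 0) (nat_lit 2151728542) (nat_lit 532) (nat_lit 545130641629) (nat_lit 38) (nat_lit 5) (nat_lit 37) (nat_lit 5) (nat_lit 44) (nat_lit 5) (nat_lit 313) (nat_lit 309) (nat_lit 98)) (XT.lf (nat_lit 0) (nat_lit 165201456056) (nat_lit 532) (nat_lit 141631617481) (nat_lit 532) (nat_lit 141631617481) (nat_lit 36) (nat_lit 3) (nat_lit 43) (nat_lit 3) (nat_lit 43) (nat_lit 5) (nat_lit 310) (nat_lit 310) (nat_lit 100))) (XT.nd (nat_lit 78) (nat_lit 0) (nat_lit 76) (XT.lf (nat_lit 76) (nat_lit 105423770430) (nat_lit 0) (nat_lit 240730774881) (nat_lit 532) (nat_lit 586449170289) (nat_lit 37) (nat_lit 5) (nat_lit 36) (nat_lit 3) (nat_lit 43) (nat_lit 5) (nat_lit 311) (nat_lit 310) (nat_lit 99)) (XT.lf (nat_lit 0) (nat_lit 375009439560)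 (nat_lit 456) (nat_lit 433295458608) (nat_lit 532) (nat_lit 161879647283) (nat_lit 37) (nat_lit 5) (nat_lit 43) (nat_lit 5) (nat_lit 44) (nat_lit 5) (nat_lit 312) (nat_lit 310) (nat_lit 98))))))))

set_option maxRecDepth 10000000 in
noncomputable def Tp : PT := (PT.nd (nat_lit 4586634) (PT.nd (nat_lit 4361370) (PT.nd (nat_lit 4099368) pc0 pc1) (PT.nd (nat_lit 113022) pc2 pc3)) (PT.nd (nat_lit 149604) (PT.nd (nat_lit 75114) pc4 pc5) (PT.nd (nat_lit 75816) pc6 pc7)))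

set_option maxRecDepth 10000000 in
noncomputable def Tx : XT := (XT.nd (nat_lit 7117578) (nat_lit 0) (nat_lit 76) XT.nil (XT.nd (nat_lit 4537416) (nat_lit 0) (nat_lit 0) (XT.nd (nat_lit 2172456) (nat_lit 0) (nat_lit 0) (XT.nd (nat_lit 1499316) (nat_lit 0) (nat_lit 0) (XT.nd (nat_lit 1049412) (nat_lit 0) (nat_lit 0) (XT.nd (nat_lit 748098) (nat_lit 0) (nat_lit 0) (XT.nd (nat_lit 523770) (nat_lit 0) (nat_lit 0) (XT.nd (nat_lit 373776) (nat_lit 0) (nat_lit 0) (XT.nd (nat_lit 261690) (nat_lit 0) (nat_lit 0) xc0 xc1) (XT.nd (nat_lit 75270) (nat_lit 0) (nat_lit 0) xc2 xc3)) (XT.nd (nat_lit 112866) (nat_lit 0) (nat_lit 0) (XT.nd (nat_lit 74022) (nat_lit 0) (nat_lit 0) xc4 xc5) (XT.nd (nat_lit 38610) (nat_lit 0) (nat_lit 0) xc6 xc7))) (XT.nd (nat_lit 151788) (nat_lit 0) (nat_lit 0) (XT.nd (nat_lit 76206) (nat_lit 0) (nat_lit 0) (XT.nd (nat_lit 38142) (nat_lit 0) (nat_lit 0) xc8 xc9) (XT.nd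 (nat_lit 37830) (nat_lit 0) (nat_lit 0) xc10 xc11)) (XT.nd (nat_lit 75036) (nat_lit 0) (nat_lit 0) (XT.nd (nat_lit 37518) (nat_lit 0) (nat_lit 0) xc12 xc13) (XT.nd (nat_lit 37284) (nat_lit 0) (nat_lit 0) xc14 xc15)))) (XT.nd (nat_lit 259818) (nat_lit 0) (nat_lit 0) (XT.nd (nat_lit 147108) (nat_lit 0) (nat_lit 0) (XT.nd (nat_lit 73866) (nat_lit 0) (nat_lit 0) (XT.nd (nat_lit 36972) (nat_lit 0) (nat_lit 0) xc16 xc17) (XT.nd (nat_lit 36660) (nat_lit 0) (nat_lit 0) xc18 xc19)) (XT.nd (nat_lit 40404) (nat_lit 0) (nat_lit 0) (XT.nd (nat_lit 3978) (nat_lit 0) (nat_lit 0) xc20 xc21) (XT.nd (nat_lit 36192) (nat_lit 0) (nat_lit 0) xc22 xc23))) (XT.nd (nat_lit 111306) (nat_lit 0) (nat_lit 0) (XT.nd (nat_lit 39936) (nat_lit 0) (nat_lit 0) (XT.nd (nat_lit 35880) (nat_lit 0) (nat_lit 0) xc24 xc25) (XT.nd (nat_lit 35724) (nat_lit 0) (nat_lit 0) xc26 xc27)) (XT.nd (nat_lit 39468) (nat_lit 0) (nat_lit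 0) (XT.nd (nat_lit 3978) (nat_lit 0) (nat_lit 0) xc28 xc29) (XT.nd (nat_lit 35256) (nat_lit 0) (nat_lit 0) xc30 xc31))))) (XT.nd (nat_lit 369096) (nat_lit 0) (nat_lit 0) (XT.nd (nat_lit 186420) (nat_lit 0) (nat_lit 0) (XT.nd (nat_lit 109044) (nat_lit 0) (nat_lit 0) (XT.nd (nat_lit 70122) (nat_lit 0) (nat_lit 0) (XT.nd (nat_lit 35100) (nat_lit 0) (nat_lit 0) xc32 xc33) (XT.nd (nat_lit 3978) (nat_lit 0) (nat_lit 0) xc34 xc35)) (XT.nd (nat_lit 38766) (nat_lit 0) (nat_lit 0) (XT.nd (nat_lit 3978) (nat_lit 0) (nat_lit 0) xc36 xc37) (XT.nd (nat_lit 34554) (nat_lit 0) (nat_lit 152) xc38 xc39))) (XT.nd (nat_lit 76752) (nat_lit 0) (nat_lit 0) (XT.nd (nat_lit 38454) (nat_lit 0) (nat_lit 0) (XT.nd (nat_lit 34398) (nat_lit 0) (nat_lit 0) xc40 xc41) (XT.nd (nat_lit 34242) (nat_lit 0) (nat_lit 0) xc42 xc43)) (XT.nd (nat_lit 38142) (nat_lit 0) (nat_lit 0) (XT.nd (nat_lit 34086) (nat_lit 0) (nat_lit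 0) xc44 xc45) (XT.nd (nat_lit 33930) (nat_lit 0) (nat_lit 0) xc46 xc47)))) (XT.nd (nat_lit 151320) (nat_lit 0) (nat_lit 0) (XT.nd (nat_lit 75426) (nat_lit 0) (nat_lit 0) (XT.nd (nat_lit 37674) (nat_lit 0) (nat_lit 0) (XT.nd (nat_lit 3978) (nat_lit 152) (nat_lit 0) xc48 xc49) (XT.nd (nat_lit 3978) (nat_lit 152) (nat_lit 0) xc50 xc51)) (XT.nd (nat_lit 37908) (nat_lit 0) (nat_lit 0) (XT.nd (nat_lit 3978) (nat_lit 152) (nat_lit 0) xc52 xc53) (XT.nd (nat_lit 3978) (nat_lit 152) (nat_lit 0) xc54 xc55))) (XT.nd (nat_lit 76206) (nat_lit 0) (nat_lit 0) (XT.nd (nat_lit 38064) (nat_lit 0) (nat_lit 0) (XT.nd (nat_lit 3978) (nat_lit 152) (nat_lit 0) xc56 xc57) (XT.nd (nat_lit 3978) (nat_lit 76) (nat_lit 0) xc58 xc59)) (XT.nd (nat_lit 38220) (nat_lit 0) (nat_lit 0) (XT.nd (nat_lit 3978) (nat_lit 0) (nat_lit 0) xc60 xc61) (XT.nd (nat_lit 3978) (nat_lit 0) (nat_lit 0) xc62 xc63)))))) (XT.nd (nat_lit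 752934) (nat_lit 0) (nat_lit 152) (XT.nd (nat_lit 340704) (nat_lit 0) (nat_lit 0) (XT.nd (nat_lit 184782) (nat_lit 0) (nat_lit 0) (XT.nd (nat_lit 76752) (nat_lit 0) (nat_lit 0) (XT.nd (nat_lit 38298) (nat_lit 0) (nat_lit 0) (XT.nd (nat_lit 34320) (nat_lit 0) (nat_lit 152) xc64 xc65) (XT.nd (nat_lit 34398) (nat_lit 0) (nat_lit 152) xc66 xc67)) (XT.nd (nat_lit 38610) (nat_lit 0) (nat_lit 0) (XT.nd (nat_lit 34554) (nat_lit 0) (nat_lit 0) xc68 xc69) (XT.nd (nat_lit 34632) (nat_lit 0) (nat_lit 0) xc70 xc71))) (XT.nd (nat_lit 77766) (nat_lit 0) (nat_lit 0) (XT.nd (nat_lit 38844) (nat_lit 0) (nat_lit 0) (XT.nd (nat_lit 3978) (nat_lit 152) (nat_lit 0) xc72 xc73) (XT.nd (nat_lit 3978) (nat_lit 152) (nat_lit 0) xc74 xc75)) (XT.nd (nat_lit 39000) (nat_lit 0) (nat_lit 0) (XT.nd (nat_lit 34944) (nat_lit 0) (nat_lit 152) xc76 xc77) (XT.nd (nat_lit 35100) (nat_lit 0) (nat_lit 0) xc78 xc79)))) (XT.nd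 (nat_lit 220584) (nat_lit 0) (nat_lit 152) (XT.nd (nat_lit 109902) (nat_lit 0) (nat_lit 0) (XT.nd (nat_lit 70512) (nat_lit 0) (nat_lit 0) (XT.nd (nat_lit 35178) (nat_lit 0) (nat_lit 0) xc80 xc81) (XT.nd (nat_lit 3978) (nat_lit 152) (nat_lit 0) xc82 xc83)) (XT.nd (nat_lit 39468) (nat_lit 0) (nat_lit 0) (XT.nd (nat_lit 35412) (nat_lit 0) (nat_lit 152) xc84 xc85) (XT.nd (nat_lit 35490) (nat_lit 0) (nat_lit 76) xc86 xc87))) (XT.nd (nat_lit 79638) (nat_lit 0) (nat_lit 0) (XT.nd (nat_lit 39780) (nat_lit 0) (nat_lit 0) (XT.nd (nat_lit 3978) (nat_lit 0) (nat_lit 0) xc88 xc89) (XT.nd (nat_lit 35802) (nat_lit 0) (nat_lit 0) xc90 xc91)) (XT.nd (nat_lit 71916) (nat_lit 0) (nat_lit 0) (XT.nd (nat_lit 35880) (nat_lit 0) (nat_lit 0) xc92 xc93) (XT.nd (nat_lit 36036) (nat_lit 0) (nat_lit 0) xc94 xc95))))) (XT.nd (nat_lit 523536) (nat_lit 0) (nat_lit 76) (XT.nd (nat_lit 259350) (nat_lit 0) (nat_lit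 0) (XT.nd (nat_lit 112866) (nat_lit 0) (nat_lit 0) (XT.nd (nat_lit 72462) (nat_lit 0) (nat_lit 0) (XT.nd (nat_lit 36192) (nat_lit 0) (nat_lit 0) xc96 xc97) (XT.nd (nat_lit 36348) (nat_lit 0) (nat_lit 0) xc98 xc99)) (XT.nd (nat_lit 73008) (nat_lit 0) (nat_lit 0) (XT.nd (nat_lit 36426) (nat_lit 0) (nat_lit 0) xc100 xc101) (XT.nd (nat_lit 36660) (nat_lit 0) (nat_lit 0) xc102 xc103))) (XT.nd (nat_lit 114894) (nat_lit 0) (nat_lit 76) (XT.nd (nat_lit 40872) (nat_lit 0) (nat_lit 0) (XT.nd (nat_lit 36816) (nat_lit 0) (nat_lit 76) xc104 xc105) (XT.nd (nat_lit 36894) (nat_lit 0) (nat_lit 0) xc106 xc107)) (XT.nd (nat_lit 74412) (nat_lit 0) (nat_lit 0) (XT.nd (nat_lit 37128) (nat_lit 0) (nat_lit 0) xc108 xc109) (XT.nd (nat_lit 37362) (nat_lit 0) (nat_lit 0) xc110 xc111)))) (XT.nd (nat_lit 338130) (nat_lit 0) (nat_lit 304) (XT.nd (nat_lit 150930) (nat_lit 0) (nat_lit 152) (XT.nd (nat_lit 75270)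 (nat_lit 0) (nat_lit 76) (XT.nd (nat_lit 37518) (nat_lit 0) (nat_lit 0) xc112 xc113) (XT.nd (nat_lit 37752) (nat_lit 0) (nat_lit 0) xc114 xc115)) (XT.nd (nat_lit 110370) (nat_lit 0) (nat_lit 76) (XT.nd (nat_lit 37986) (nat_lit 0) (nat_lit 0) xc116 xc117) (XT.nd (nat_lit 38298) (nat_lit 0) (nat_lit 0) xc118 xc119))) (XT.nd (nat_lit 225810) (nat_lit 0) (nat_lit 456) (XT.nd (nat_lit 112242) (nat_lit 0) (nat_lit 152) (XT.nd (nat_lit 38610) (nat_lit 0) (nat_lit 0) xc120 xc121) (XT.nd (nat_lit 74178) (nat_lit 0) (nat_lit 228) xc122 xc123)) (XT.nd (nat_lit 186498) (nat_lit 0) (nat_lit 608) (XT.nd (nat_lit 74958) (nat_lit 0) (nat_lit 228) xc124 xc125) (XT.nd (nat_lit 112710) (nat_lit 0) (nat_lit 380) xc126 xc127))))))) XT.nil))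

set_option maxRecDepth 10000000 in
noncomputable def Te : XT := XT.nil

set_option maxRecDepth 10000000 in
noncomputable def Tz : ZL := (ZL.cons (nat_lit 76) (nat_lit 6) (nat_lit 185209899982233382782) (ZL.cons (nat_lit 152) (nat_lit 6) (nat_lit 179340560072172794198) (ZL.cons (nat_lit 228) (nat_lit 3) (nat_lit 89415399159932635897) (ZL.cons (nat_lit 304) (nat_lit 6) (nat_lit 173001672969307358530) (ZL.cons (nat_lit 380) (nat_lit 6) (nat_lit 167687980965519299798) (ZL.cons (nat_lit 456) (nat_lit 3) (nat_lit 83607989671506167304) (ZL.cons (nat_lit 532) (nat_lit 6) (nat_lit 161949193601428196370) (ZL.cons (nat_lit 608) (nat_lit 6) (nat_lit 157170105162382593364) (ZL.cons (nat_lit 684) (nat_lit 3) (nat_lit 78366533311512146131) (ZL.cons (nat_lit 760) (nat_lit 6) (nat_lit 152008689648213342118) (ZL.cons (nat_lit 836) (nat_lit 6) (nat_lit 147748066368996466234) (ZL.cons (nat_lit 912) (nat_lit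 3) (nat_lit 73671700527387908532) (ZL.cons (nat_lit 988) (nat_lit 6) (nat_lit 143925948647422749786) (ZL.cons (nat_lit 1064) (nat_lit 6) (nat_lit 143146593227442240276) (ZL.cons (nat_lit 1140) (nat_lit 6) (nat_lit 139393396193902486856) (ZL.cons (nat_lit 1216) (nat_lit 3) (nat_lit 69509353044071313258) (ZL.cons (nat_lit 1292) (nat_lit 6) (nat_lit 136061568786550395298) (ZL.cons (nat_lit 1368) (nat_lit 6) (nat_lit 135339943397679553162) (ZL.cons (nat_lit 1444) (nat_lit 6) (nat_lit 133131366842972027286) (ZL.cons (nat_lit 1520) (nat_lit 6) (nat_lit 132088505080850276076) (ZL.cons (nat_lit 1596) (nat_lit 3) (nat_lit 65870784898869647140) (ZL.cons (nat_lit 1672) (nat_lit 6) (nat_lit 129245123355036547696) (ZL.cons (nat_lit 1748) (nat_lit 6) (nat_lit 128576951698674656826) (ZL.cons (nat_lit 1824) (nat_lit 6) (nat_lit 126792948550752064442) (ZL.cons (nat_lit 1900) (nat_lit 6) (nat_lit 125827335808046739248)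 (ZL.cons (nat_lit 1976) (nat_lit 3) (nat_lit 62753049717397915087) (ZL.cons (nat_lit 2052) (nat_lit 6) (nat_lit 124717449261749214560) (ZL.cons (nat_lit 2128) (nat_lit 6) (nat_lit 123476428105762931658) (ZL.cons (nat_lit 2204) (nat_lit 6) (nat_lit 122857750646168588260) (ZL.cons (nat_lit 2280) (nat_lit 6) (nat_lit 121510297286920811494) (ZL.cons (nat_lit 2356) (nat_lit 6) (nat_lit 120616211414045510388) (ZL.cons (nat_lit 2432) (nat_lit 3) (nat_lit 60159385163851038032) (ZL.cons (nat_lit 2508) (nat_lit 6) (nat_lit 119917292205927240270) (ZL.cons (nat_lit 2584) (nat_lit 6) (nat_lit 118768198542976978320) (ZL.cons (nat_lit 2660) (nat_lit 6) (nat_lit 118195349043352586288) (ZL.cons (nat_lit 2736) (nat_lit 3) (nat_lit 58559904887605864442) (ZL.cons (nat_lit 2812) (nat_lit 6) (nat_lit 117293363792249457920) (ZL.cons (nat_lit 2888) (nat_lit 6) (nat_lit 117815054311611757506) (ZL.cons (nat_lit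 2964) (nat_lit 6) (nat_lit 118687972832672626450) (ZL.cons (nat_lit 3040) (nat_lit 6) (nat_lit 117302760845578882240) (ZL.cons (nat_lit 3116) (nat_lit 6) (nat_lit 116474903555879529364) (ZL.cons (nat_lit 3192) (nat_lit 3) (nat_lit 58099747571299285828) (ZL.cons (nat_lit 3268) (nat_lit 6) (nat_lit 115126097966333798438) (ZL.cons (nat_lit 3344) (nat_lit 6) (nat_lit 115487090321772274838) (ZL.cons (nat_lit 3420) (nat_lit 6) (nat_lit 116211214246607381574) (ZL.cons (nat_lit 3496) (nat_lit 6) (nat_lit 115147238632764546438) (ZL.cons (nat_lit 3572) (nat_lit 6) (nat_lit 114616822429408627886) (ZL.cons (nat_lit 3648) (nat_lit 3) (nat_lit 56726811265353388533) (ZL.cons (nat_lit 3724) (nat_lit 6) (nat_lit 113641060869107524430) (ZL.cons (nat_lit 3800) (nat_lit 6) (nat_lit 114204486630018807980) (ZL.cons (nat_lit 3876) (nat_lit 6) (nat_lit 113437952102519407168) (ZL.cons (nat_lit 3952) (nat_lit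 3) (nat_lit 56591472156222223162) (ZL.cons (nat_lit 4028) (nat_lit 6) (nat_lit 112266026519823937382) (ZL.cons (nat_lit 4104) (nat_lit 6) (nat_lit 112655898263697491896) (ZL.cons (nat_lit 4180) (nat_lit 6) (nat_lit 112164772149479048792) (ZL.cons (nat_lit 4256) (nat_lit 3) (nat_lit 55676919461111027703) (ZL.cons (nat_lit 4332) (nat_lit 6) (nat_lit 111556272327694862556) (ZL.cons (nat_lit 4408) (nat_lit 3) (nat_lit 55660077001775690148) (ZL.cons (nat_lit 4484) (nat_lit 6) (nat_lit 110899092520167941424) (ZL.cons (nat_lit 4560) (nat_lit 1) (nat_lit 18446744073709551617) ZL.nil))))))))))))))))))))))))))))))))))))))))))))))))))))))))))))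

noncomputable def vl : XL := ⟨(nat_lit 0), (nat_lit 76), (nat_lit 102204138), (nat_lit 228), (nat_lit 452851566), (nat_lit 76), (nat_lit 102204138), (nat_lit 1), (nat_lit 5), (nat_lit 3), (nat_lit 4), (nat_lit 1), (nat_lit 4), (nat_lit 0), (nat_lit 0), (nat_lit 0)⟩

noncomputable def cp0 : Nat := (nat_lit 113219286681863480149794528301734958796120392112313336941214260323220020761244800486237223580562313088350848750531593035145796351859354950824290130722674686030194783070993137797573882756525693531211080485604687554742511831804040275357134581631210745093395581421597953184494101841807955569065513916667982074880317017775525528598900628435686810264197814587009110705222416738854835404567937514141459555865277126267934366445456436699827822412066389434856191011091354347228159301490736043175316231028948121490779516998778303628147870416330422842693656347674202770959585885255663448806955615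652054993458528372420989133952529168107989388926733853107173875621438725520870109654309886897199491195586618043423292914798283813514808203201095471488057402856245594620370659947835484956579986783637134553414790686522119213654266838139678475339333288728687234169955468782833152692189979321457241281378137479753460413846837716760395179920598950079710620416052918243684179210094381457141563136346319519291746320251683896337292512600123421853205454801386602552690627219394621904993231088807288952500458020649624721074489264379536534199989203410904356968422497789986770078393954889209332133271298167499020324220597163198070912759643333230085770310651679753436025933644153520333732518746906913500862800120975405944395456119473305741635786990148619185311390464508507818024097772364910859908823553930639765837709312)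

noncomputable def cp1 : Nat := (nat_lit 142072093956020349407921279153095770456522075596648676779798210828390236382367349914123847934106041287110429796096054503265243684993365925072812574802622983174507383570246693984235878994395781245866779293282278695170433444348961232177894634305169741927863317145863884749190517357962605080155808613971846311919260762919957332451869569395512958309177165561873497470687021168322344477598824908557692984792231092003803121663980218389839012330765416460628339727840973136519790344449825072991732061869398561347108562988411234704689592756557227142093803462583634575233299179931040451061614503871917024072212806884300999160560095308982416413718272499686309122818588397572658046515723328877650172090371752772120232511519534467758700433161072000615020988890502002113356652586069809025414405670383655561870384605883033654771802268569021000165034670557952886834201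916697420940184754159534213104880710967130950954331271325049357335462508209640086667204598986685613997003683676572055069452598118243934805518256410341553904034062566046637482470823191887324224857415684804768823779204378620207385381372740221019532743226940699448470244208800278836441775857016066524886532575882338514189854712280814818080118166872175525977601562461305463955423928284739074883777108425209972679707433109851088682087841549784383624626840838541998033824163318406158579946965186282269815702432435067394112447711161725559546839040)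

noncomputable def rc0 : Nat := (nat_lit 142072093956020349407921279153095770456522075596648676779798210828390236382367349914123847934106041287110429796096054503265243684993365925072812574802622983174507383570246693984235878994395781245866779293282278695170433444348961232177894634305169741927863317145863884749190517357962605080155808613971846311919260762919957332451869569395512958309177165561873497470687021168322344477598824908557692984792231092003803121663980218389839012330765416460628339727840973136519790344449825072991732061869398561347108562988411234704689592756557227142093803462583634575233299179931040451061614503871917024072212806884300999160560095308982416413718272499686309122818588397572658046515723328877650172090371752772120232511519534467758700433161072000615020988890502002113356652586069809025414405670383655561870384605883033654771802268569021000165034670557952886834201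916697420940184754159534213104880710967130950954331271325049357335462508209640086667204598986685613997003683676572055069452598118243934805518256410341553904034062566046637482470823191887324224857415684804768823779204378620207385381372740221019532743226940699448470244208800278836441775857016066524886532575882338514189854712280814818080118166872175525977601562461305463955423928284739074883777108425209972679707433109851088682087841549784383624626840838541998033824163318406158579946965186282269815702432435067394112447711161725559546839040)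

end Vale.Agent.Lib.P154.PChain.BS.S2
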