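import Vale.Agent.Lib.P154.PChain.BS.R2_0

set_option linter.all false

namespace Vale.Agent.Lib.P154.PChain.BS.S3

open Vale.Agent.Lib.P154.Chain

noncomputable def pc0 : PT := (PT.nd (nat_lit 3911934) (PT.nd (nat_lit 3762018) (PT.nd (nat_lit 3687060) (PT.nd (nat_lit 3686904) (PT.nd (nat_lit 3649542) (PT.nd (nat_lit 3649464) PT.nil (PT.lf (nat_lit 76) (nat_lit 6) (nat_lit 1) (nat_lit 3) (nat_lit 131) (nat_lit 97) (nat_lit 132))) (PT.lf (nat_lit 76) (nat_lit 6) (nat_lit 1) (nat_lit 1) (nat_lit 132) (nat_lit 97) (nat_lit 131))) (PT.nd (nat_lit 78) (PT.lf (nat_lit 152) (nat_lit 6) (nat_lit 2) (nat_lit 3) (nat_lit 130) (nat_lit 98) (nat_lit 132)) (PT.lf (nat_lit 228) (nat_lit 3) (nat_lit 3) (nat_lit 1) (nat_lit 131) (nat_lit 98) (nat_lit 131)))) (PT.nd (nat_lit 37440) (PT.nd (nat_lit 37362) (PT.lf (nat_lit 152) (nat_lit 6) (nat_lit 2) (nat_lit 1) (nat_lit 132) (nat_lit 98) (nat_lit 130))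 (PT.lf (nat_lit 304) (nat_lit 6) (nat_lit 4) (nat_lit 3) (nat_lit 130) (nat_lit 99) (nat_lit 131))) (PT.nd (nat_lit 37362) (PT.lf (nat_lit 304) (nat_lit 6) (nat_lit 4) (nat_lit 1) (nat_lit 131) (nat_lit 99) (nat_lit 130)) (PT.nd (nat_lit 78) (PT.lf (nat_lit 380) (nat_lit 6) (nat_lit 5) (nat_lit 3) (nat_lit 129) (nat_lit 100) (nat_lit 131)) (PT.lf (nat_lit 456) (nat_lit 3) (nat_lit 6) (nat_lit 1) (nat_lit 130) (nat_lit 100) (nat_lit 130)))))) (PT.nd (nat_lit 74958) (PT.nd (nat_lit 37440) (PT.nd (nat_lit 37362) (PT.lf (nat_lit 380) (nat_lit 6) (nat_lit 5) (nat_lit 1) (nat_lit 131) (nat_lit 100) (nat_lit 129)) (PT.lf (nat_lit 532) (nat_lit 6) (nat_lit 7) (nat_lit 3) (nat_lit 129) (nat_lit 101) (nat_lit 130))) (PT.nd (nat_lit 37362) (PT.lf (nat_lit 532) (nat_lit 6) (nat_lit 7) (nat_lit 1) (nat_lit 130) (nat_lit 101) (nat_lit 129)) (PT.nd (nat_lit 78) (PT.lf (nat_lit 608) (nat_lit 6) (nat_lit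 8) (nat_lit 3) (nat_lit 128) (nat_lit 102) (nat_lit 130)) (PT.lf (nat_lit 684) (nat_lit 3) (nat_lit 9) (nat_lit 1) (nat_lit 129) (nat_lit 102) (nat_lit 129))))) (PT.nd (nat_lit 37440) (PT.nd (nat_lit 37362) (PT.lf (nat_lit 608) (nat_lit 6) (nat_lit 8) (nat_lit 1) (nat_lit 130) (nat_lit 102) (nat_lit 128)) (PT.lf (nat_lit 760) (nat_lit 6) (nat_lit 10) (nat_lit 3) (nat_lit 128) (nat_lit 103) (nat_lit 129))) (PT.nd (nat_lit 37362) (PT.lf (nat_lit 760) (nat_lit 6) (nat_lit 10) (nat_lit 1) (nat_lit 129) (nat_lit 103) (nat_lit 128)) (PT.nd (nat_lit 78) (PT.lf (nat_lit 836) (nat_lit 6) (nat_lit 11) (nat_lit 3) (nat_lit 127) (nat_lit 104) (nat_lit 129)) (PT.lf (nat_lit 912) (nat_lit 3) (nat_lit 12) (nat_lit 1) (nat_lit 128) (nat_lit 104) (nat_lit 128))))))) (PT.nd (nat_lit 112398) (PT.nd (nat_lit 74802) (PT.nd (nat_lit 37362) (PT.nd (nat_lit 37284) (PT.lf (nat_lit 836) (nat_lit 6) (nat_lit 11)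 (nat_lit 1) (nat_lit 129) (nat_lit 104) (nat_lit 127)) (PT.lf (nat_lit 988) (nat_lit 6) (nat_lit 13) (nat_lit 3) (nat_lit 126) (nat_lit 105) (nat_lit 129))) (PT.nd (nat_lit 78) (PT.lf (nat_lit 1064) (nat_lit 6) (nat_lit 14) (nat_lit 3) (nat_lit 127) (nat_lit 105) (nat_lit 128)) (PT.nd (nat_lit 78) (PT.lf (nat_lit 1064) (nat_lit 6) (nat_lit 14) (nat_lit 1) (nat_lit 128) (nat_lit 105) (nat_lit 127)) (PT.lf (nat_lit 988) (nat_lit 6) (nat_lit 13) (nat_lit 1) (nat_lit 129) (nat_lit 105) (nat_lit 126))))) (PT.nd (nat_lit 156) (PT.nd (nat_lit 78) (PT.lf (nat_lit 1140) (nat_lit 6) (nat_lit 15) (nat_lit 3) (nat_lit 126) (nat_lit 106) (nat_lit 128)) (PT.lf (nat_lit 1216) (nat_lit 3) (nat_lit 16) (nat_lit 1) (nat_lit 127) (nat_lit 106) (nat_lit 127))) (PT.nd (nat_lit 37284) (PT.lf (nat_lit 1140) (nat_lit 6) (nat_lit 15) (nat_lit 1) (nat_lit 128) (nat_lit 106) (nat_lit 126)) (PT.nd (nat_lit 78) (PT.lf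 (nat_lit 1292) (nat_lit 6) (nat_lit 17) (nat_lit 3) (nat_lit 125) (nat_lit 107) (nat_lit 128)) (PT.lf (nat_lit 1368) (nat_lit 6) (nat_lit 18) (nat_lit 3) (nat_lit 126) (nat_lit 107) (nat_lit 127)))))) (PT.nd (nat_lit 37518) (PT.nd (nat_lit 37284) (PT.nd (nat_lit 78) (PT.lf (nat_lit 1368) (nat_lit 6) (nat_lit 18) (nat_lit 1) (nat_lit 127) (nat_lit 107) (nat_lit 126)) (PT.lf (nat_lit 1292) (nat_lit 6) (nat_lit 17) (nat_lit 1) (nat_lit 128) (nat_lit 107) (nat_lit 125))) (PT.nd (nat_lit 78) (PT.lf (nat_lit 1444) (nat_lit 6) (nat_lit 19) (nat_lit 3) (nat_lit 124) (nat_lit 108) (nat_lit 128)) (PT.nd (nat_lit 78) (PT.lf (nat_lit 1520) (nat_lit 6) (nat_lit 20) (nat_lit 3) (nat_lit 125) (nat_lit 108) (nat_lit 127)) (PT.lf (nat_lit 1596) (nat_lit 3) (nat_lit 21) (nat_lit 1) (nat_lit 126) (nat_lit 108) (nat_lit 126))))) (PT.nd (nat_lit 37284) (PT.nd (nat_lit 78) (PT.lf (nat_lit 1520) (nat_lit 6)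 (nat_lit 20) (nat_lit 1) (nat_lit 127) (nat_lit 108) (nat_lit 125)) (PT.lf (nat_lit 1444) (nat_lit 6) (nat_lit 19) (nat_lit 1) (nat_lit 128) (nat_lit 108) (nat_lit 124))) (PT.nd (nat_lit 78) (PT.lf (nat_lit 1672) (nat_lit 6) (nat_lit 22) (nat_lit 3) (nat_lit 124) (nat_lit 109) (nat_lit 127)) (PT.nd (nat_lit 78) (PT.lf (nat_lit 1748) (nat_lit 6) (nat_lit 23) (nat_lit 3) (nat_lit 125) (nat_lit 109) (nat_lit 126)) (PT.lf (nat_lit 1748) (nat_lit 6) (nat_lit 23) (nat_lit 1) (nat_lit 126) (nat_lit 109) (nat_lit 125))))))))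
noncomputable def pc1 : PT := (PT.nd (nat_lit 149760) (PT.nd (nat_lit 74880) (PT.nd (nat_lit 37440) (PT.nd (nat_lit 37284) (PT.nd (nat_lit 37206) (PT.lf (nat_lit 1672) (nat_lit 6) (nat_lit 22) (nat_lit 1) (nat_lit 127) (nat_lit 109) (nat_lit 124)) (PT.lf (nat_lit 1824) (nat_lit 6) (nat_lit 24) (nat_lit 3) (nat_lit 123) (nat_lit 110) (nat_lit 127))) (PT.nd (nat_lit 78) (PT.lf (nat_lit 1900) (nat_lit 6) (nat_lit 25) (nat_lit 3) (nat_lit 124) (nat_lit 110) (nat_lit 126)) (PT.lf (nat_lit 1976) (nat_lit 3) (nat_lit 26) (nat_lit 1) (nat_lit 125) (nat_lit 110) (nat_lit 125)))) (PT.nd (nat_lit 37206) (PT.nd (nat_lit 78) (PT.lf (nat_lit 1900) (nat_lit 6) (nat_lit 25) (nat_lit 1) (nat_lit 126) (nat_lit 110) (nat_lit 124)) (PT.lf (nat_lit 1824) (nat_lit 6) (nat_lit 24) (nat_lit 1) (nat_lit 127) (nat_lit 110) (nat_lit 123))) (PT.nd (nat_lit 78) (PT.lf (nat_lit 2052) (nat_lit 6) (nat_lit 27) (nat_lit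 3) (nat_lit 122) (nat_lit 111) (nat_lit 127)) (PT.nd (nat_lit 78) (PT.lf (nat_lit 2128) (nat_lit 6) (nat_lit 28) (nat_lit 3) (nat_lit 123) (nat_lit 111) (nat_lit 126)) (PT.lf (nat_lit 2204) (nat_lit 6) (nat_lit 29) (nat_lit 3) (nat_lit 124) (nat_lit 111) (nat_lit 125)))))) (PT.nd (nat_lit 37440) (PT.nd (nat_lit 156) (PT.nd (nat_lit 78) (PT.lf (nat_lit 2204) (nat_lit 6) (nat_lit 29) (nat_lit 1) (nat_lit 125) (nat_lit 111) (nat_lit 124)) (PT.lf (nat_lit 2128) (nat_lit 6) (nat_lit 28) (nat_lit 1) (nat_lit 126) (nat_lit 111) (nat_lit 123))) (PT.nd (nat_lit 37128) (PT.lf (nat_lit 2052) (nat_lit 6) (nat_lit 27) (nat_lit 1) (nat_lit 127) (nat_lit 111) (nat_lit 122)) (PT.nd (nat_lit 78) (PT.lf (nat_lit 2280) (nat_lit 6) (nat_lit 30) (nat_lit 3) (nat_lit 122) (nat_lit 112) (nat_lit 126)) (PT.lf (nat_lit 2356) (nat_lit 6) (nat_lit 31) (nat_lit 3) (nat_lit 123) (nat_lit 112) (nat_lit 125))))) (PT.nd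 (nat_lit 156) (PT.nd (nat_lit 78) (PT.lf (nat_lit 2432) (nat_lit 3) (nat_lit 32) (nat_lit 1) (nat_lit 124) (nat_lit 112) (nat_lit 124)) (PT.lf (nat_lit 2356) (nat_lit 6) (nat_lit 31) (nat_lit 1) (nat_lit 125) (nat_lit 112) (nat_lit 123))) (PT.nd (nat_lit 37128) (PT.lf (nat_lit 2280) (nat_lit 6) (nat_lit 30) (nat_lit 1) (nat_lit 126) (nat_lit 112) (nat_lit 122)) (PT.nd (nat_lit 78) (PT.lf (nat_lit 2508) (nat_lit 6) (nat_lit 33) (nat_lit 3) (nat_lit 121) (nat_lit 113) (nat_lit 126)) (PT.lf (nat_lit 2584) (nat_lit 6) (nat_lit 34) (nat_lit 3) (nat_lit 122) (nat_lit 113) (nat_lit 125))))))) (PT.nd (nat_lit 37752) (PT.nd (nat_lit 37362) (PT.nd (nat_lit 156) (PT.nd (nat_lit 78) (PT.lf (nat_lit 2660) (nat_lit 6) (nat_lit 35) (nat_lit 3) (nat_lit 123) (nat_lit 113) (nat_lit 124)) (PT.lf (nat_lit 2660) (nat_lit 6) (nat_lit 35) (nat_lit 1) (nat_lit 124) (nat_lit 113) (nat_lit 123))) (PT.nd (nat_lit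 78) (PT.lf (nat_lit 2584) (nat_lit 6) (nat_lit 34) (nat_lit 1) (nat_lit 125) (nat_lit 113) (nat_lit 122)) (PT.nd (nat_lit 37050) (PT.lf (nat_lit 2508) (nat_lit 6) (nat_lit 33) (nat_lit 1) (nat_lit 126) (nat_lit 113) (nat_lit 121)) (PT.lf (nat_lit 2964) (nat_lit 6) (nat_lit 39) (nat_lit 3) (nat_lit 120) (nat_lit 114) (nat_lit 126))))) (PT.nd (nat_lit 156) (PT.nd (nat_lit 78) (PT.lf (nat_lit 3040) (nat_lit 6) (nat_lit 40) (nat_lit 3) (nat_lit 121) (nat_lit 114) (nat_lit 125)) (PT.lf (nat_lit 3116) (nat_lit 6) (nat_lit 41) (nat_lit 3) (nat_lit 122) (nat_lit 114) (nat_lit 124))) (PT.nd (nat_lit 78) (PT.lf (nat_lit 3192) (nat_lit 3) (nat_lit 42) (nat_lit 1) (nat_lit 123) (nat_lit 114) (nat_lit 123)) (PT.nd (nat_lit 78) (PT.lf (nat_lit 3116) (nat_lit 6) (nat_lit 41) (nat_lit 1) (nat_lit 124) (nat_lit 114) (nat_lit 122)) (PT.lf (nat_lit 3040) (nat_lit 6) (nat_lit 40) (nat_lit 1) (nat_lit 125)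 (nat_lit 114) (nat_lit 121)))))) (PT.nd (nat_lit 37284) (PT.nd (nat_lit 37050) (PT.nd (nat_lit 36972) (PT.lf (nat_lit 2964) (nat_lit 6) (nat_lit 39) (nat_lit 1) (nat_lit 126) (nat_lit 114) (nat_lit 120)) (PT.lf (nat_lit 2888) (nat_lit 6) (nat_lit 38) (nat_lit 3) (nat_lit 119) (nat_lit 115) (nat_lit 126))) (PT.nd (nat_lit 78) (PT.lf (nat_lit 3420) (nat_lit 6) (nat_lit 45) (nat_lit 3) (nat_lit 120) (nat_lit 115) (nat_lit 125)) (PT.nd (nat_lit 78) (PT.lf (nat_lit 3496) (nat_lit 6) (nat_lit 46) (nat_lit 3) (nat_lit 121) (nat_lit 115) (nat_lit 124)) (PT.lf (nat_lit 3572) (nat_lit 6) (nat_lit 47) (nat_lit 3) (nat_lit 122) (nat_lit 115) (nat_lit 123))))) (PT.nd (nat_lit 156) (PT.nd (nat_lit 78) (PT.lf (nat_lit 3572) (nat_lit 6) (nat_lit 47) (nat_lit 1) (nat_lit 123) (nat_lit 115) (nat_lit 122)) (PT.lf (nat_lit 3496) (nat_lit 6) (nat_lit 46) (nat_lit 1) (nat_lit 124) (nat_lit 115) (nat_lit 121)))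 (PT.nd (nat_lit 78) (PT.lf (nat_lit 3420) (nat_lit 6) (nat_lit 45) (nat_lit 1) (nat_lit 125) (nat_lit 115) (nat_lit 120)) (PT.nd (nat_lit 36894) (PT.lf (nat_lit 2888) (nat_lit 6) (nat_lit 38) (nat_lit 1) (nat_lit 126) (nat_lit 115) (nat_lit 119)) (PT.lf (nat_lit 2812) (nat_lit 6) (nat_lit 37) (nat_lit 3) (nat_lit 118) (nat_lit 116) (nat_lit 126))))))))
noncomputable def pc2 : PT := (PT.nd (nat_lit 74880) (PT.nd (nat_lit 37440) (PT.nd (nat_lit 312) (PT.nd (nat_lit 156) (PT.nd (nat_lit 78) (PT.lf (nat_lit 3344) (nat_lit 6) (nat_lit 44) (nat_lit 3) (nat_lit 119) (nat_lit 116) (nat_lit 125)) (PT.lf (nat_lit 3800) (nat_lit 6) (nat_lit 50) (nat_lit 3) (nat_lit 120) (nat_lit 116) (nat_lit 124))) (PT.nd (nat_lit 78) (PT.lf (nat_lit 3876) (nat_lit 6) (nat_lit 51) (nat_lit 3) (nat_lit 121) (nat_lit 116) (nat_lit 123)) (PT.lf (nat_lit 3952) (nat_lit 3) (nat_lit 52) (nat_lit 1) (nat_lit 122) (nat_lit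 116) (nat_lit 122)))) (PT.nd (nat_lit 156) (PT.nd (nat_lit 78) (PT.lf (nat_lit 3876) (nat_lit 6) (nat_lit 51) (nat_lit 1) (nat_lit 123) (nat_lit 116) (nat_lit 121)) (PT.lf (nat_lit 3800) (nat_lit 6) (nat_lit 50) (nat_lit 1) (nat_lit 124) (nat_lit 116) (nat_lit 120))) (PT.nd (nat_lit 78) (PT.lf (nat_lit 3344) (nat_lit 6) (nat_lit 44) (nat_lit 1) (nat_lit 125) (nat_lit 116) (nat_lit 119)) (PT.nd (nat_lit 36816) (PT.lf (nat_lit 2812) (nat_lit 6) (nat_lit 37) (nat_lit 1) (nat_lit 126) (nat_lit 116) (nat_lit 118)) (PT.lf (nat_lit 2736) (nat_lit 3) (nat_lit 36) (nat_lit 3) (nat_lit 117) (nat_lit 117) (nat_lit 126)))))) (PT.nd (nat_lit 390) (PT.nd (nat_lit 156) (PT.nd (nat_lit 78) (PT.lf (nat_lit 3268) (nat_lit 6) (nat_lit 43) (nat_lit 3) (nat_lit 118) (nat_lit 117) (nat_lit 125)) (PT.lf (nat_lit 3724) (nat_lit 6) (nat_lit 49) (nat_lit 3) (nat_lit 119) (nat_lit 117) (nat_lit 124))) (PT.nd (nat_lit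 78) (PT.lf (nat_lit 4104) (nat_lit 6) (nat_lit 54) (nat_lit 3) (nat_lit 120) (nat_lit 117) (nat_lit 123)) (PT.nd (nat_lit 78) (PT.lf (nat_lit 4180) (nat_lit 6) (nat_lit 55) (nat_lit 3) (nat_lit 121) (nat_lit 117) (nat_lit 122)) (PT.lf (nat_lit 4180) (nat_lit 6) (nat_lit 55) (nat_lit 1) (nat_lit 122) (nat_lit 117) (nat_lit 121))))) (PT.nd (nat_lit 156) (PT.nd (nat_lit 78) (PT.lf (nat_lit 4104) (nat_lit 6) (nat_lit 54) (nat_lit 1) (nat_lit 123) (nat_lit 117) (nat_lit 120)) (PT.lf (nat_lit 3724) (nat_lit 6) (nat_lit 49) (nat_lit 1) (nat_lit 124) (nat_lit 117) (nat_lit 119))) (PT.nd (nat_lit 78) (PT.lf (nat_lit 3268) (nat_lit 6) (nat_lit 43) (nat_lit 1) (nat_lit 125) (nat_lit 117) (nat_lit 118)) (PT.nd (nat_lit 36738) (PT.lf (nat_lit 2736) (nat_lit 3) (nat_lit 36) (nat_lit 0) (nat_lit 126) (nat_lit 117) (nat_lit 117)) (PT.lf (nat_lit 2812) (nat_lit 6) (nat_lit 37) (nat_lit 5) (nat_lit 116)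 (nat_lit 118) (nat_lit 126))))))) (PT.nd (nat_lit 37362) (PT.nd (nat_lit 390) (PT.nd (nat_lit 156) (PT.nd (nat_lit 78) (PT.lf (nat_lit 3268) (nat_lit 6) (nat_lit 43) (nat_lit 5) (nat_lit 117) (nat_lit 118) (nat_lit 125)) (PT.lf (nat_lit 3648) (nat_lit 3) (nat_lit 48) (nat_lit 3) (nat_lit 118) (nat_lit 118) (nat_lit 124))) (PT.nd (nat_lit 78) (PT.lf (nat_lit 4028) (nat_lit 6) (nat_lit 53) (nat_lit 3) (nat_lit 119) (nat_lit 118) (nat_lit 123)) (PT.nd (nat_lit 78) (PT.lf (nat_lit 4332) (nat_lit 6) (nat_lit 57) (nat_lit 3) (nat_lit 120) (nat_lit 118) (nat_lit 122)) (PT.lf (nat_lit 4408) (nat_lit 3) (nat_lit 58) (nat_lit 1) (nat_lit 121) (nat_lit 118) (nat_lit 121))))) (PT.nd (nat_lit 156) (PT.nd (nat_lit 78) (PT.lf (nat_lit 4332) (nat_lit 6) (nat_lit 57) (nat_lit 1) (nat_lit 122) (nat_lit 118) (nat_lit 120)) (PT.lf (nat_lit 4028) (nat_lit 6) (nat_lit 53) (nat_lit 1) (nat_lit 123) (nat_lit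 118) (nat_lit 119))) (PT.nd (nat_lit 78) (PT.lf (nat_lit 3648) (nat_lit 3) (nat_lit 48) (nat_lit 0) (nat_lit 124) (nat_lit 118) (nat_lit 118)) (PT.nd (nat_lit 78) (PT.lf (nat_lit 3268) (nat_lit 6) (nat_lit 43) (nat_lit 0) (nat_lit 125) (nat_lit 118) (nat_lit 117)) (PT.lf (nat_lit 2812) (nat_lit 6) (nat_lit 37) (nat_lit 0) (nat_lit 126) (nat_lit 118) (nat_lit 116)))))) (PT.nd (nat_lit 390) (PT.nd (nat_lit 156) (PT.nd (nat_lit 78) (PT.lf (nat_lit 2888) (nat_lit 6) (nat_lit 38) (nat_lit 5) (nat_lit 115) (nat_lit 119) (nat_lit 126)) (PT.lf (nat_lit 3344) (nat_lit 6) (nat_lit 44) (nat_lit 5) (nat_lit 116) (nat_lit 119) (nat_lit 125))) (PT.nd (nat_lit 78) (PT.lf (nat_lit 3724) (nat_lit 6) (nat_lit 49) (nat_lit 5) (nat_lit 117) (nat_lit 119) (nat_lit 124)) (PT.nd (nat_lit 78) (PT.lf (nat_lit 4028) (nat_lit 6) (nat_lit 53) (nat_lit 5) (nat_lit 118) (nat_lit 119) (nat_lit 123)) (PT.lf (nat_lit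 4256) (nat_lit 3) (nat_lit 56) (nat_lit 3) (nat_lit 119) (nat_lit 119) (nat_lit 122))))) (PT.nd (nat_lit 156) (PT.nd (nat_lit 78) (PT.lf (nat_lit 4484) (nat_lit 6) (nat_lit 59) (nat_lit 3) (nat_lit 120) (nat_lit 119) (nat_lit 121)) (PT.lf (nat_lit 4484) (nat_lit 6) (nat_lit 59) (nat_lit 1) (nat_lit 121) (nat_lit 119) (nat_lit 120))) (PT.nd (nat_lit 78) (PT.lf (nat_lit 4256) (nat_lit 3) (nat_lit 56) (nat_lit 0) (nat_lit 122) (nat_lit 119) (nat_lit 119)) (PT.nd (nat_lit 78) (PT.lf (nat_lit 4028) (nat_lit 6) (nat_lit 53) (nat_lit 0) (nat_lit 123) (nat_lit 119) (nat_lit 118)) (PT.lf (nat_lit 3724) (nat_lit 6) (nat_lit 49) (nat_lit 0) (nat_lit 124) (nat_lit 119) (nat_lit 117))))))))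
noncomputable def pc3 : PT := (PT.nd (nat_lit 74412) (PT.nd (nat_lit 37206) (PT.nd (nat_lit 36816) (PT.nd (nat_lit 36660) (PT.nd (nat_lit 78) (PT.lf (nat_lit 3344) (nat_lit 6) (nat_lit 44) (nat_lit 0) (nat_lit 125) (nat_lit 119) (nat_lit 116)) (PT.lf (nat_lit 2888) (nat_lit 6) (nat_lit 38) (nat_lit 0) (nat_lit 126) (nat_lit 119) (nat_lit 115))) (PT.nd (nat_lit 78) (PT.lf (nat_lit 2964) (nat_lit 6) (nat_lit 39) (nat_lit 5) (nat_lit 114) (nat_lit 120) (nat_lit 126)) (PT.lf (nat_lit 3420) (nat_lit 6) (nat_lit 45) (nat_lit 5) (nat_lit 115) (nat_lit 120) (nat_lit 125)))) (PT.nd (nat_lit 156) (PT.nd (nat_lit 78) (PT.lf (nat_lit 3800) (nat_lit 6) (nat_lit 50) (nat_lit 5) (nat_lit 116) (nat_lit 120) (nat_lit 124)) (PT.lf (nat_lit 4104) (nat_lit 6) (nat_lit 54) (nat_lit 5) (nat_lit 117) (nat_lit 120) (nat_lit 123))) (PT.nd (nat_lit 78) (PT.lf (nat_lit 4332) (nat_lit 6) (nat_lit 57) (nat_lit 5)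 (nat_lit 118) (nat_lit 120) (nat_lit 122)) (PT.nd (nat_lit 78) (PT.lf (nat_lit 4484) (nat_lit 6) (nat_lit 59) (nat_lit 5) (nat_lit 119) (nat_lit 120) (nat_lit 121)) (PT.lf (nat_lit 4560) (nat_lit 1) (nat_lit 60) (nat_lit 0) (nat_lit 120) (nat_lit 120) (nat_lit 120)))))) (PT.nd (nat_lit 390) (PT.nd (nat_lit 156) (PT.nd (nat_lit 78) (PT.lf (nat_lit 4484) (nat_lit 6) (nat_lit 59) (nat_lit 0) (nat_lit 121) (nat_lit 120) (nat_lit 119)) (PT.lf (nat_lit 4332) (nat_lit 6) (nat_lit 57) (nat_lit 0) (nat_lit 122) (nat_lit 120) (nat_lit 118))) (PT.nd (nat_lit 78) (PT.lf (nat_lit 4104) (nat_lit 6) (nat_lit 54) (nat_lit 0) (nat_lit 123) (nat_lit 120) (nat_lit 117)) (PT.nd (nat_lit 78) (PT.lf (nat_lit 3800) (nat_lit 6) (nat_lit 50) (nat_lit 0) (nat_lit 124) (nat_lit 120) (nat_lit 116)) (PT.lf (nat_lit 3420) (nat_lit 6) (nat_lit 45) (nat_lit 0) (nat_lit 125) (nat_lit 120) (nat_lit 115))))) (PT.nd (nat_lit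 36582) (PT.nd (nat_lit 36504) (PT.lf (nat_lit 2964) (nat_lit 6) (nat_lit 39) (nat_lit 0) (nat_lit 126) (nat_lit 120) (nat_lit 114)) (PT.lf (nat_lit 2508) (nat_lit 6) (nat_lit 33) (nat_lit 5) (nat_lit 113) (nat_lit 121) (nat_lit 126))) (PT.nd (nat_lit 78) (PT.lf (nat_lit 3040) (nat_lit 6) (nat_lit 40) (nat_lit 5) (nat_lit 114) (nat_lit 121) (nat_lit 125)) (PT.nd (nat_lit 78) (PT.lf (nat_lit 3496) (nat_lit 6) (nat_lit 46) (nat_lit 5) (nat_lit 115) (nat_lit 121) (nat_lit 124)) (PT.lf (nat_lit 3876) (nat_lit 6) (nat_lit 51) (nat_lit 5) (nat_lit 116) (nat_lit 121) (nat_lit 123))))))) (PT.nd (nat_lit 37050) (PT.nd (nat_lit 390) (PT.nd (nat_lit 156) (PT.nd (nat_lit 78) (PT.lf (nat_lit 4180) (nat_lit 6) (nat_lit 55) (nat_lit 5) (nat_lit 117) (nat_lit 121) (nat_lit 122)) (PT.lf (nat_lit 4408) (nat_lit 3) (nat_lit 58) (nat_lit 4) (nat_lit 118) (nat_lit 121) (nat_lit 121))) (PT.nd (nat_lit 78) (PT.lf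 (nat_lit 4484) (nat_lit 6) (nat_lit 59) (nat_lit 4) (nat_lit 119) (nat_lit 121) (nat_lit 120)) (PT.nd (nat_lit 78) (PT.lf (nat_lit 4484) (nat_lit 6) (nat_lit 59) (nat_lit 2) (nat_lit 120) (nat_lit 121) (nat_lit 119)) (PT.lf (nat_lit 4408) (nat_lit 3) (nat_lit 58) (nat_lit 0) (nat_lit 121) (nat_lit 121) (nat_lit 118))))) (PT.nd (nat_lit 156) (PT.nd (nat_lit 78) (PT.lf (nat_lit 4180) (nat_lit 6) (nat_lit 55) (nat_lit 0) (nat_lit 122) (nat_lit 121) (nat_lit 117)) (PT.lf (nat_lit 3876) (nat_lit 6) (nat_lit 51) (nat_lit 0) (nat_lit 123) (nat_lit 121) (nat_lit 116))) (PT.nd (nat_lit 78) (PT.lf (nat_lit 3496) (nat_lit 6) (nat_lit 46) (nat_lit 0) (nat_lit 124) (nat_lit 121) (nat_lit 115)) (PT.nd (nat_lit 78) (PT.lf (nat_lit 3040) (nat_lit 6) (nat_lit 40) (nat_lit 0) (nat_lit 125) (nat_lit 121) (nat_lit 114)) (PT.lf (nat_lit 2508) (nat_lit 6) (nat_lit 33) (nat_lit 0) (nat_lit 126) (nat_lit 121)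 (nat_lit 113)))))) (PT.nd (nat_lit 390) (PT.nd (nat_lit 156) (PT.nd (nat_lit 78) (PT.lf (nat_lit 2052) (nat_lit 6) (nat_lit 27) (nat_lit 5) (nat_lit 111) (nat_lit 122) (nat_lit 127)) (PT.lf (nat_lit 2280) (nat_lit 6) (nat_lit 30) (nat_lit 5) (nat_lit 112) (nat_lit 122) (nat_lit 126))) (PT.nd (nat_lit 78) (PT.lf (nat_lit 2584) (nat_lit 6) (nat_lit 34) (nat_lit 5) (nat_lit 113) (nat_lit 122) (nat_lit 125)) (PT.nd (nat_lit 78) (PT.lf (nat_lit 3116) (nat_lit 6) (nat_lit 41) (nat_lit 5) (nat_lit 114) (nat_lit 122) (nat_lit 124)) (PT.lf (nat_lit 3572) (nat_lit 6) (nat_lit 47) (nat_lit 5) (nat_lit 115) (nat_lit 122) (nat_lit 123))))) (PT.nd (nat_lit 156) (PT.nd (nat_lit 78) (PT.lf (nat_lit 3952) (nat_lit 3) (nat_lit 52) (nat_lit 4) (nat_lit 116) (nat_lit 122) (nat_lit 122)) (PT.lf (nat_lit 4180) (nat_lit 6) (nat_lit 55) (nat_lit 4) (nat_lit 117) (nat_lit 122) (nat_lit 121))) (PT.nd (nat_lit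 78) (PT.lf (nat_lit 4332) (nat_lit 6) (nat_lit 57) (nat_lit 4) (nat_lit 118) (nat_lit 122) (nat_lit 120)) (PT.nd (nat_lit 78) (PT.lf (nat_lit 4256) (nat_lit 3) (nat_lit 56) (nat_lit 2) (nat_lit 119) (nat_lit 122) (nat_lit 119)) (PT.lf (nat_lit 4332) (nat_lit 6) (nat_lit 57) (nat_lit 2) (nat_lit 120) (nat_lit 122) (nat_lit 118))))))))
noncomputable def pc4 : PT := (PT.nd (nat_lit 37596) (PT.nd (nat_lit 36816) (PT.nd (nat_lit 312) (PT.nd (nat_lit 156) (PT.nd (nat_lit 78) (PT.lf (nat_lit 4180) (nat_lit 6) (nat_lit 55) (nat_lit 2) (nat_lit 121) (nat_lit 122) (nat_lit 117)) (PT.lf (nat_lit 3952) (nat_lit 3) (nat_lit 52) (nat_lit 0) (nat_lit 122) (nat_lit 122) (nat_lit 116))) (PT.nd (nat_lit 78) (PT.lf (nat_lit 3572) (nat_lit 6) (nat_lit 47) (nat_lit 0) (nat_lit 123) (nat_lit 122) (nat_lit 115)) (PT.lf (nat_lit 3116) (nat_lit 6) (nat_lit 41) (nat_lit 0) (nat_lit 124) (nat_lit 122) (nat_lit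 114)))) (PT.nd (nat_lit 156) (PT.nd (nat_lit 78) (PT.lf (nat_lit 2584) (nat_lit 6) (nat_lit 34) (nat_lit 0) (nat_lit 125) (nat_lit 122) (nat_lit 113)) (PT.lf (nat_lit 2280) (nat_lit 6) (nat_lit 30) (nat_lit 0) (nat_lit 126) (nat_lit 122) (nat_lit 112))) (PT.nd (nat_lit 36192) (PT.lf (nat_lit 2052) (nat_lit 6) (nat_lit 27) (nat_lit 0) (nat_lit 127) (nat_lit 122) (nat_lit 111)) (PT.nd (nat_lit 78) (PT.lf (nat_lit 1824) (nat_lit 6) (nat_lit 24) (nat_lit 5) (nat_lit 110) (nat_lit 123) (nat_lit 127)) (PT.lf (nat_lit 2128) (nat_lit 6) (nat_lit 28) (nat_lit 5) (nat_lit 111) (nat_lit 123) (nat_lit 126)))))) (PT.nd (nat_lit 390) (PT.nd (nat_lit 156) (PT.nd (nat_lit 78) (PT.lf (nat_lit 2356) (nat_lit 6) (nat_lit 31) (nat_lit 5) (nat_lit 112) (nat_lit 123) (nat_lit 125)) (PT.lf (nat_lit 2660) (nat_lit 6) (nat_lit 35) (nat_lit 5) (nat_lit 113) (nat_lit 123) (nat_lit 124))) (PT.nd (nat_lit 78) (PT.lf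 (nat_lit 3192) (nat_lit 3) (nat_lit 42) (nat_lit 4) (nat_lit 114) (nat_lit 123) (nat_lit 123)) (PT.nd (nat_lit 78) (PT.lf (nat_lit 3572) (nat_lit 6) (nat_lit 47) (nat_lit 4) (nat_lit 115) (nat_lit 123) (nat_lit 122)) (PT.lf (nat_lit 3876) (nat_lit 6) (nat_lit 51) (nat_lit 4) (nat_lit 116) (nat_lit 123) (nat_lit 121))))) (PT.nd (nat_lit 156) (PT.nd (nat_lit 78) (PT.lf (nat_lit 4104) (nat_lit 6) (nat_lit 54) (nat_lit 4) (nat_lit 117) (nat_lit 123) (nat_lit 120)) (PT.lf (nat_lit 4028) (nat_lit 6) (nat_lit 53) (nat_lit 4) (nat_lit 118) (nat_lit 123) (nat_lit 119))) (PT.nd (nat_lit 78) (PT.lf (nat_lit 4028) (nat_lit 6) (nat_lit 53) (nat_lit 2) (nat_lit 119) (nat_lit 123) (nat_lit 118)) (PT.nd (nat_lit 78) (PT.lf (nat_lit 4104) (nat_lit 6) (nat_lit 54) (nat_lit 2) (nat_lit 120) (nat_lit 123) (nat_lit 117)) (PT.lf (nat_lit 3876) (nat_lit 6) (nat_lit 51) (nat_lit 2) (nat_lit 121) (nat_lit 123)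 (nat_lit 116))))))) (PT.nd (nat_lit 36738) (PT.nd (nat_lit 390) (PT.nd (nat_lit 156) (PT.nd (nat_lit 78) (PT.lf (nat_lit 3572) (nat_lit 6) (nat_lit 47) (nat_lit 2) (nat_lit 122) (nat_lit 123) (nat_lit 115)) (PT.lf (nat_lit 3192) (nat_lit 3) (nat_lit 42) (nat_lit 0) (nat_lit 123) (nat_lit 123) (nat_lit 114))) (PT.nd (nat_lit 78) (PT.lf (nat_lit 2660) (nat_lit 6) (nat_lit 35) (nat_lit 0) (nat_lit 124) (nat_lit 123) (nat_lit 113)) (PT.nd (nat_lit 78) (PT.lf (nat_lit 2356) (nat_lit 6) (nat_lit 31) (nat_lit 0) (nat_lit 125) (nat_lit 123) (nat_lit 112)) (PT.lf (nat_lit 2128) (nat_lit 6) (nat_lit 28) (nat_lit 0) (nat_lit 126) (nat_lit 123) (nat_lit 111))))) (PT.nd (nat_lit 36114) (PT.nd (nat_lit 36036) (PT.lf (nat_lit 1824) (nat_lit 6) (nat_lit 24) (nat_lit 0) (nat_lit 127) (nat_lit 123) (nat_lit 110)) (PT.lf (nat_lit 1444) (nat_lit 6) (nat_lit 19) (nat_lit 5) (nat_lit 108) (nat_lit 124) (nat_lit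 128))) (PT.nd (nat_lit 78) (PT.lf (nat_lit 1672) (nat_lit 6) (nat_lit 22) (nat_lit 5) (nat_lit 109) (nat_lit 124) (nat_lit 127)) (PT.nd (nat_lit 78) (PT.lf (nat_lit 1900) (nat_lit 6) (nat_lit 25) (nat_lit 5) (nat_lit 110) (nat_lit 124) (nat_lit 126)) (PT.lf (nat_lit 2204) (nat_lit 6) (nat_lit 29) (nat_lit 5) (nat_lit 111) (nat_lit 124) (nat_lit 125)))))) (PT.nd (nat_lit 390) (PT.nd (nat_lit 156) (PT.nd (nat_lit 78) (PT.lf (nat_lit 2432) (nat_lit 3) (nat_lit 32) (nat_lit 4) (nat_lit 112) (nat_lit 124) (nat_lit 124)) (PT.lf (nat_lit 2660) (nat_lit 6) (nat_lit 35) (nat_lit 4) (nat_lit 113) (nat_lit 124) (nat_lit 123))) (PT.nd (nat_lit 78) (PT.lf (nat_lit 3116) (nat_lit 6) (nat_lit 41) (nat_lit 4) (nat_lit 114) (nat_lit 124) (nat_lit 122)) (PT.nd (nat_lit 78) (PT.lf (nat_lit 3496) (nat_lit 6) (nat_lit 46) (nat_lit 4) (nat_lit 115) (nat_lit 124) (nat_lit 121)) (PT.lf (nat_lit 3800) (nat_lit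 6) (nat_lit 50) (nat_lit 4) (nat_lit 116) (nat_lit 124) (nat_lit 120))))) (PT.nd (nat_lit 156) (PT.nd (nat_lit 78) (PT.lf (nat_lit 3724) (nat_lit 6) (nat_lit 49) (nat_lit 4) (nat_lit 117) (nat_lit 124) (nat_lit 119)) (PT.lf (nat_lit 3648) (nat_lit 3) (nat_lit 48) (nat_lit 2) (nat_lit 118) (nat_lit 124) (nat_lit 118))) (PT.nd (nat_lit 78) (PT.lf (nat_lit 3724) (nat_lit 6) (nat_lit 49) (nat_lit 2) (nat_lit 119) (nat_lit 124) (nat_lit 117)) (PT.nd (nat_lit 78) (PT.lf (nat_lit 3800) (nat_lit 6) (nat_lit 50) (nat_lit 2) (nat_lit 120) (nat_lit 124) (nat_lit 116)) (PT.lf (nat_lit 3496) (nat_lit 6) (nat_lit 46) (nat_lit 2) (nat_lit 121) (nat_lit 124) (nat_lit 115))))))))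
noncomputable def pc5 : PT := (PT.nd (nat_lit 37284) (PT.nd (nat_lit 36504) (PT.nd (nat_lit 312) (PT.nd (nat_lit 156) (PT.nd (nat_lit 78) (PT.lf (nat_lit 3116) (nat_lit 6) (nat_lit 41) (nat_lit 2) (nat_lit 122) (nat_lit 124) (nat_lit 114)) (PT.lf (nat_lit 2660) (nat_lit 6) (nat_lit 35) (nat_lit 2) (nat_lit 123) (nat_lit 124) (nat_lit 113))) (PT.nd (nat_lit 78) (PT.lf (nat_lit 2432) (nat_lit 3) (nat_lit 32) (nat_lit 0) (nat_lit 124) (nat_lit 124) (nat_lit 112)) (PT.lf (nat_lit 2204) (nat_lit 6) (nat_lit 29) (nat_lit 0) (nat_lit 125) (nat_lit 124) (nat_lit 111)))) (PT.nd (nat_lit 156) (PT.nd (nat_lit 78) (PT.lf (nat_lit 1900) (nat_lit 6) (nat_lit 25) (nat_lit 0) (nat_lit 126) (nat_lit 124) (nat_lit 110)) (PT.lf (nat_lit 1672) (nat_lit 6) (nat_lit 22) (nat_lit 0) (nat_lit 127) (nat_lit 124) (nat_lit 109))) (PT.nd (nat_lit 35880) (PT.lf (nat_lit 1444) (nat_lit 6) (nat_lit 19) (nat_lit 0)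 (nat_lit 128) (nat_lit 124) (nat_lit 108)) (PT.nd (nat_lit 78) (PT.lf (nat_lit 1292) (nat_lit 6) (nat_lit 17) (nat_lit 5) (nat_lit 107) (nat_lit 125) (nat_lit 128)) (PT.lf (nat_lit 1520) (nat_lit 6) (nat_lit 20) (nat_lit 5) (nat_lit 108) (nat_lit 125) (nat_lit 127)))))) (PT.nd (nat_lit 390) (PT.nd (nat_lit 156) (PT.nd (nat_lit 78) (PT.lf (nat_lit 1748) (nat_lit 6) (nat_lit 23) (nat_lit 5) (nat_lit 109) (nat_lit 125) (nat_lit 126)) (PT.lf (nat_lit 1976) (nat_lit 3) (nat_lit 26) (nat_lit 4) (nat_lit 110) (nat_lit 125) (nat_lit 125))) (PT.nd (nat_lit 78) (PT.lf (nat_lit 2204) (nat_lit 6) (nat_lit 29) (nat_lit 4) (nat_lit 111) (nat_lit 125) (nat_lit 124)) (PT.nd (nat_lit 78) (PT.lf (nat_lit 2356) (nat_lit 6) (nat_lit 31) (nat_lit 4) (nat_lit 112) (nat_lit 125) (nat_lit 123)) (PT.lf (nat_lit 2584) (nat_lit 6) (nat_lit 34) (nat_lit 4) (nat_lit 113) (nat_lit 125) (nat_lit 122))))) (PT.nd (nat_lit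 156) (PT.nd (nat_lit 78) (PT.lf (nat_lit 3040) (nat_lit 6) (nat_lit 40) (nat_lit 4) (nat_lit 114) (nat_lit 125) (nat_lit 121)) (PT.lf (nat_lit 3420) (nat_lit 6) (nat_lit 45) (nat_lit 4) (nat_lit 115) (nat_lit 125) (nat_lit 120))) (PT.nd (nat_lit 78) (PT.lf (nat_lit 3344) (nat_lit 6) (nat_lit 44) (nat_lit 4) (nat_lit 116) (nat_lit 125) (nat_lit 119)) (PT.nd (nat_lit 78) (PT.lf (nat_lit 3268) (nat_lit 6) (nat_lit 43) (nat_lit 4) (nat_lit 117) (nat_lit 125) (nat_lit 118)) (PT.lf (nat_lit 3268) (nat_lit 6) (nat_lit 43) (nat_lit 2) (nat_lit 118) (nat_lit 125) (nat_lit 117))))))) (PT.nd (nat_lit 36426) (PT.nd (nat_lit 390) (PT.nd (nat_lit 156) (PT.nd (nat_lit 78) (PT.lf (nat_lit 3344) (nat_lit 6) (nat_lit 44) (nat_lit 2) (nat_lit 119) (nat_lit 125) (nat_lit 116)) (PT.lf (nat_lit 3420) (nat_lit 6) (nat_lit 45) (nat_lit 2) (nat_lit 120) (nat_lit 125) (nat_lit 115))) (PT.nd (nat_lit 78) (PT.lf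 (nat_lit 3040) (nat_lit 6) (nat_lit 40) (nat_lit 2) (nat_lit 121) (nat_lit 125) (nat_lit 114)) (PT.nd (nat_lit 78) (PT.lf (nat_lit 2584) (nat_lit 6) (nat_lit 34) (nat_lit 2) (nat_lit 122) (nat_lit 125) (nat_lit 113)) (PT.lf (nat_lit 2356) (nat_lit 6) (nat_lit 31) (nat_lit 2) (nat_lit 123) (nat_lit 125) (nat_lit 112))))) (PT.nd (nat_lit 156) (PT.nd (nat_lit 78) (PT.lf (nat_lit 2204) (nat_lit 6) (nat_lit 29) (nat_lit 2) (nat_lit 124) (nat_lit 125) (nat_lit 111)) (PT.lf (nat_lit 1976) (nat_lit 3) (nat_lit 26) (nat_lit 0) (nat_lit 125) (nat_lit 125) (nat_lit 110))) (PT.nd (nat_lit 78) (PT.lf (nat_lit 1748) (nat_lit 6) (nat_lit 23) (nat_lit 0) (nat_lit 126) (nat_lit 125) (nat_lit 109)) (PT.nd (nat_lit 78) (PT.lf (nat_lit 1520) (nat_lit 6) (nat_lit 20) (nat_lit 0) (nat_lit 127) (nat_lit 125) (nat_lit 108)) (PT.lf (nat_lit 1292) (nat_lit 6) (nat_lit 17) (nat_lit 0) (nat_lit 128) (nat_lit 125)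 (nat_lit 107)))))) (PT.nd (nat_lit 390) (PT.nd (nat_lit 156) (PT.nd (nat_lit 78) (PT.lf (nat_lit 988) (nat_lit 6) (nat_lit 13) (nat_lit 5) (nat_lit 105) (nat_lit 126) (nat_lit 129)) (PT.lf (nat_lit 1140) (nat_lit 6) (nat_lit 15) (nat_lit 5) (nat_lit 106) (nat_lit 126) (nat_lit 128))) (PT.nd (nat_lit 78) (PT.lf (nat_lit 1368) (nat_lit 6) (nat_lit 18) (nat_lit 5) (nat_lit 107) (nat_lit 126) (nat_lit 127)) (PT.nd (nat_lit 78) (PT.lf (nat_lit 1596) (nat_lit 3) (nat_lit 21) (nat_lit 4) (nat_lit 108) (nat_lit 126) (nat_lit 126)) (PT.lf (nat_lit 1748) (nat_lit 6) (nat_lit 23) (nat_lit 4) (nat_lit 109) (nat_lit 126) (nat_lit 125))))) (PT.nd (nat_lit 156) (PT.nd (nat_lit 78) (PT.lf (nat_lit 1900) (nat_lit 6) (nat_lit 25) (nat_lit 4) (nat_lit 110) (nat_lit 126) (nat_lit 124)) (PT.lf (nat_lit 2128) (nat_lit 6) (nat_lit 28) (nat_lit 4) (nat_lit 111) (nat_lit 126) (nat_lit 123))) (PT.nd (nat_lit 78)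 (PT.lf (nat_lit 2280) (nat_lit 6) (nat_lit 30) (nat_lit 4) (nat_lit 112) (nat_lit 126) (nat_lit 122)) (PT.nd (nat_lit 78) (PT.lf (nat_lit 2508) (nat_lit 6) (nat_lit 33) (nat_lit 4) (nat_lit 113) (nat_lit 126) (nat_lit 121)) (PT.lf (nat_lit 2964) (nat_lit 6) (nat_lit 39) (nat_lit 4) (nat_lit 114) (nat_lit 126) (nat_lit 120))))))))
noncomputable def pc6 : PT := (PT.nd (nat_lit 36972) (PT.nd (nat_lit 702) (PT.nd (nat_lit 312) (PT.nd (nat_lit 156) (PT.nd (nat_lit 78) (PT.lf (nat_lit 2888) (nat_lit 6) (nat_lit 38) (nat_lit 4) (nat_lit 115) (nat_lit 126) (nat_lit 119)) (PT.lf (nat_lit 2812) (nat_lit 6) (nat_lit 37) (nat_lit 4) (nat_lit 116) (nat_lit 126) (nat_lit 118))) (PT.nd (nat_lit 78) (PT.lf (nat_lit 2736) (nat_lit 3) (nat_lit 36) (nat_lit 2) (nat_lit 117) (nat_lit 126) (nat_lit 117)) (PT.lf (nat_lit 2812) (nat_lit 6) (nat_lit 37) (nat_lit 2) (nat_lit 118) (nat_lit 126) (nat_lit 116))))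 (PT.nd (nat_lit 156) (PT.nd (nat_lit 78) (PT.lf (nat_lit 2888) (nat_lit 6) (nat_lit 38) (nat_lit 2) (nat_lit 119) (nat_lit 126) (nat_lit 115)) (PT.lf (nat_lit 2964) (nat_lit 6) (nat_lit 39) (nat_lit 2) (nat_lit 120) (nat_lit 126) (nat_lit 114))) (PT.nd (nat_lit 78) (PT.lf (nat_lit 2508) (nat_lit 6) (nat_lit 33) (nat_lit 2) (nat_lit 121) (nat_lit 126) (nat_lit 113)) (PT.nd (nat_lit 78) (PT.lf (nat_lit 2280) (nat_lit 6) (nat_lit 30) (nat_lit 2) (nat_lit 122) (nat_lit 126) (nat_lit 112)) (PT.lf (nat_lit 2128) (nat_lit 6) (nat_lit 28) (nat_lit 2) (nat_lit 123) (nat_lit 126) (nat_lit 111)))))) (PT.nd (nat_lit 390) (PT.nd (nat_lit 156) (PT.nd (nat_lit 78) (PT.lf (nat_lit 1900) (nat_lit 6) (nat_lit 25) (nat_lit 2) (nat_lit 124) (nat_lit 126) (nat_lit 110)) (PT.lf (nat_lit 1748) (nat_lit 6) (nat_lit 23) (nat_lit 2) (nat_lit 125) (nat_lit 126) (nat_lit 109))) (PT.nd (nat_lit 78) (PT.lf (nat_lit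 1596) (nat_lit 3) (nat_lit 21) (nat_lit 0) (nat_lit 126) (nat_lit 126) (nat_lit 108)) (PT.nd (nat_lit 78) (PT.lf (nat_lit 1368) (nat_lit 6) (nat_lit 18) (nat_lit 0) (nat_lit 127) (nat_lit 126) (nat_lit 107)) (PT.lf (nat_lit 1140) (nat_lit 6) (nat_lit 15) (nat_lit 0) (nat_lit 128) (nat_lit 126) (nat_lit 106))))) (PT.nd (nat_lit 35646) (PT.nd (nat_lit 35568) (PT.lf (nat_lit 988) (nat_lit 6) (nat_lit 13) (nat_lit 0) (nat_lit 129) (nat_lit 126) (nat_lit 105)) (PT.lf (nat_lit 836) (nat_lit 6) (nat_lit 11) (nat_lit 5) (nat_lit 104) (nat_lit 127) (nat_lit 129))) (PT.nd (nat_lit 78) (PT.lf (nat_lit 1064) (nat_lit 6) (nat_lit 14) (nat_lit 5) (nat_lit 105) (nat_lit 127) (nat_lit 128)) (PT.nd (nat_lit 78) (PT.lf (nat_lit 1216) (nat_lit 3) (nat_lit 16) (nat_lit 4) (nat_lit 106) (nat_lit 127) (nat_lit 127)) (PT.lf (nat_lit 1368) (nat_lit 6) (nat_lit 18) (nat_lit 4) (nat_lit 107) (nat_lit 127) (nat_lit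 126))))))) (PT.nd (nat_lit 1560) (PT.nd (nat_lit 1170) (PT.nd (nat_lit 156) (PT.nd (nat_lit 78) (PT.lf (nat_lit 1520) (nat_lit 6) (nat_lit 20) (nat_lit 4) (nat_lit 108) (nat_lit 127) (nat_lit 125)) (PT.lf (nat_lit 1672) (nat_lit 6) (nat_lit 22) (nat_lit 4) (nat_lit 109) (nat_lit 127) (nat_lit 124))) (PT.nd (nat_lit 78) (PT.lf (nat_lit 1824) (nat_lit 6) (nat_lit 24) (nat_lit 4) (nat_lit 110) (nat_lit 127) (nat_lit 123)) (PT.nd (nat_lit 858) (PT.lf (nat_lit 2052) (nat_lit 6) (nat_lit 27) (nat_lit 4) (nat_lit 111) (nat_lit 127) (nat_lit 122)) (PT.lf (nat_lit 2052) (nat_lit 6) (nat_lit 27) (nat_lit 2) (nat_lit 122) (nat_lit 127) (nat_lit 111))))) (PT.nd (nat_lit 156) (PT.nd (nat_lit 78) (PT.lf (nat_lit 1824) (nat_lit 6) (nat_lit 24) (nat_lit 2) (nat_lit 123) (nat_lit 127) (nat_lit 110)) (PT.lf (nat_lit 1672) (nat_lit 6) (nat_lit 22) (nat_lit 2) (nat_lit 124) (nat_lit 127) (nat_lit 109)))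 (PT.nd (nat_lit 78) (PT.lf (nat_lit 1520) (nat_lit 6) (nat_lit 20) (nat_lit 2) (nat_lit 125) (nat_lit 127) (nat_lit 108)) (PT.nd (nat_lit 78) (PT.lf (nat_lit 1368) (nat_lit 6) (nat_lit 18) (nat_lit 2) (nat_lit 126) (nat_lit 127) (nat_lit 107)) (PT.lf (nat_lit 1216) (nat_lit 3) (nat_lit 16) (nat_lit 0) (nat_lit 127) (nat_lit 127) (nat_lit 106)))))) (PT.nd (nat_lit 35724) (PT.nd (nat_lit 35490) (PT.nd (nat_lit 78) (PT.lf (nat_lit 1064) (nat_lit 6) (nat_lit 14) (nat_lit 0) (nat_lit 128) (nat_lit 127) (nat_lit 105)) (PT.lf (nat_lit 836) (nat_lit 6) (nat_lit 11) (nat_lit 0) (nat_lit 129) (nat_lit 127) (nat_lit 104))) (PT.nd (nat_lit 78) (PT.lf (nat_lit 608) (nat_lit 6) (nat_lit 8) (nat_lit 5) (nat_lit 102) (nat_lit 128) (nat_lit 130)) (PT.nd (nat_lit 78) (PT.lf (nat_lit 760) (nat_lit 6) (nat_lit 10) (nat_lit 5) (nat_lit 103) (nat_lit 128) (nat_lit 129)) (PT.lf (nat_lit 912) (nat_lit 3) (nat_lit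 12) (nat_lit 4) (nat_lit 104) (nat_lit 128) (nat_lit 128))))) (PT.nd (nat_lit 156) (PT.nd (nat_lit 78) (PT.lf (nat_lit 1064) (nat_lit 6) (nat_lit 14) (nat_lit 4) (nat_lit 105) (nat_lit 128) (nat_lit 127)) (PT.lf (nat_lit 1140) (nat_lit 6) (nat_lit 15) (nat_lit 4) (nat_lit 106) (nat_lit 128) (nat_lit 126))) (PT.nd (nat_lit 78) (PT.lf (nat_lit 1292) (nat_lit 6) (nat_lit 17) (nat_lit 4) (nat_lit 107) (nat_lit 128) (nat_lit 125)) (PT.nd (nat_lit 1248) (PT.lf (nat_lit 1444) (nat_lit 6) (nat_lit 19) (nat_lit 4) (nat_lit 108) (nat_lit 128) (nat_lit 124)) (PT.lf (nat_lit 1444) (nat_lit 6) (nat_lit 19) (nat_lit 2) (nat_lit 124) (nat_lit 128) (nat_lit 108))))))))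
noncomputable def pc7 : PT := (PT.nd (nat_lit 73086) (PT.nd (nat_lit 35880) (PT.nd (nat_lit 390) (PT.nd (nat_lit 156) (PT.nd (nat_lit 78) (PT.lf (nat_lit 1292) (nat_lit 6) (nat_lit 17) (nat_lit 2) (nat_lit 125) (nat_lit 128) (nat_lit 107)) (PT.lf (nat_lit 1140) (nat_lit 6) (nat_lit 15) (nat_lit 2) (nat_lit 126) (nat_lit 128) (nat_lit 106))) (PT.nd (nat_lit 78) (PT.lf (nat_lit 1064) (nat_lit 6) (nat_lit 14) (nat_lit 2) (nat_lit 127) (nat_lit 128) (nat_lit 105)) (PT.nd (nat_lit 78) (PT.lf (nat_lit 912) (nat_lit 3) (nat_lit 12) (nat_lit 0) (nat_lit 128) (nat_lit 128) (nat_lit 104)) (PT.lf (nat_lit 760) (nat_lit 6) (nat_lit 10) (nat_lit 0) (nat_lit 129) (nat_lit 128) (nat_lit 103))))) (PT.nd (nat_lit 35256) (PT.nd (nat_lit 35178) (PT.lf (nat_lit 608) (nat_lit 6) (nat_lit 8) (nat_lit 0) (nat_lit 130) (nat_lit 128) (nat_lit 102)) (PT.lf (nat_lit 380) (nat_lit 6) (nat_lit 5) (nat_lit 5) (nat_lit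 100) (nat_lit 129) (nat_lit 131))) (PT.nd (nat_lit 78) (PT.lf (nat_lit 532) (nat_lit 6) (nat_lit 7) (nat_lit 5) (nat_lit 101) (nat_lit 129) (nat_lit 130)) (PT.nd (nat_lit 78) (PT.lf (nat_lit 684) (nat_lit 3) (nat_lit 9) (nat_lit 4) (nat_lit 102) (nat_lit 129) (nat_lit 129)) (PT.lf (nat_lit 760) (nat_lit 6) (nat_lit 10) (nat_lit 4) (nat_lit 103) (nat_lit 129) (nat_lit 128)))))) (PT.nd (nat_lit 1950) (PT.nd (nat_lit 1716) (PT.nd (nat_lit 78) (PT.lf (nat_lit 836) (nat_lit 6) (nat_lit 11) (nat_lit 4) (nat_lit 104) (nat_lit 129) (nat_lit 127)) (PT.lf (nat_lit 988) (nat_lit 6) (nat_lit 13) (nat_lit 4) (nat_lit 105) (nat_lit 129) (nat_lit 126))) (PT.nd (nat_lit 78) (PT.lf (nat_lit 988) (nat_lit 6) (nat_lit 13) (nat_lit 2) (nat_lit 126) (nat_lit 129) (nat_lit 105)) (PT.nd (nat_lit 78) (PT.lf (nat_lit 836) (nat_lit 6) (nat_lit 11) (nat_lit 2) (nat_lit 127) (nat_lit 129) (nat_lit 104)) (PT.lf (nat_lit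 760) (nat_lit 6) (nat_lit 10) (nat_lit 2) (nat_lit 128) (nat_lit 129) (nat_lit 103))))) (PT.nd (nat_lit 156) (PT.nd (nat_lit 78) (PT.lf (nat_lit 684) (nat_lit 3) (nat_lit 9) (nat_lit 0) (nat_lit 129) (nat_lit 129) (nat_lit 102)) (PT.lf (nat_lit 532) (nat_lit 6) (nat_lit 7) (nat_lit 0) (nat_lit 130) (nat_lit 129) (nat_lit 101))) (PT.nd (nat_lit 34944) (PT.lf (nat_lit 380) (nat_lit 6) (nat_lit 5) (nat_lit 0) (nat_lit 131) (nat_lit 129) (nat_lit 100)) (PT.nd (nat_lit 78) (PT.lf (nat_lit 152) (nat_lit 6) (nat_lit 2) (nat_lit 5) (nat_lit 98) (nat_lit 130) (nat_lit 132)) (PT.lf (nat_lit 304) (nat_lit 6) (nat_lit 4) (nat_lit 5) (nat_lit 99) (nat_lit 130) (nat_lit 131))))))) (PT.nd (nat_lit 37440) (PT.nd (nat_lit 2340) (PT.nd (nat_lit 156) (PT.nd (nat_lit 78) (PT.lf (nat_lit 456) (nat_lit 3) (nat_lit 6) (nat_lit 4) (nat_lit 100) (nat_lit 130) (nat_lit 130)) (PT.lf (nat_lit 532) (nat_lit 6) (nat_lit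 7) (nat_lit 4) (nat_lit 101) (nat_lit 130) (nat_lit 129))) (PT.nd (nat_lit 2028) (PT.lf (nat_lit 608) (nat_lit 6) (nat_lit 8) (nat_lit 4) (nat_lit 102) (nat_lit 130) (nat_lit 128)) (PT.nd (nat_lit 78) (PT.lf (nat_lit 608) (nat_lit 6) (nat_lit 8) (nat_lit 2) (nat_lit 128) (nat_lit 130) (nat_lit 102)) (PT.lf (nat_lit 532) (nat_lit 6) (nat_lit 7) (nat_lit 2) (nat_lit 129) (nat_lit 130) (nat_lit 101))))) (PT.nd (nat_lit 156) (PT.nd (nat_lit 78) (PT.lf (nat_lit 456) (nat_lit 3) (nat_lit 6) (nat_lit 0) (nat_lit 130) (nat_lit 130) (nat_lit 100)) (PT.lf (nat_lit 304) (nat_lit 6) (nat_lit 4) (nat_lit 0) (nat_lit 131) (nat_lit 130) (nat_lit 99))) (PT.nd (nat_lit 34788) (PT.lf (nat_lit 152) (nat_lit 6) (nat_lit 2) (nat_lit 0) (nat_lit 132) (nat_lit 130) (nat_lit 98)) (PT.nd (nat_lit 78) (PT.lf (nat_lit 76) (nat_lit 6) (nat_lit 1) (nat_lit 5) (nat_lit 97) (nat_lit 131) (nat_lit 132)) (PT.lf (nat_lit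 228) (nat_lit 3) (nat_lit 3) (nat_lit 4) (nat_lit 98) (nat_lit 131) (nat_lit 131)))))) (PT.nd (nat_lit 2574) (PT.nd (nat_lit 2340) (PT.nd (nat_lit 78) (PT.lf (nat_lit 304) (nat_lit 6) (nat_lit 4) (nat_lit 4) (nat_lit 99) (nat_lit 131) (nat_lit 130)) (PT.lf (nat_lit 380) (nat_lit 6) (nat_lit 5) (nat_lit 4) (nat_lit 100) (nat_lit 131) (nat_lit 129))) (PT.nd (nat_lit 78) (PT.lf (nat_lit 380) (nat_lit 6) (nat_lit 5) (nat_lit 2) (nat_lit 129) (nat_lit 131) (nat_lit 100)) (PT.nd (nat_lit 78) (PT.lf (nat_lit 304) (nat_lit 6) (nat_lit 4) (nat_lit 2) (nat_lit 130) (nat_lit 131) (nat_lit 99)) (PT.lf (nat_lit 228) (nat_lit 3) (nat_lit 3) (nat_lit 0) (nat_lit 131) (nat_lit 131) (nat_lit 98))))) (PT.nd (nat_lit 34866) (PT.nd (nat_lit 34788) (PT.lf (nat_lit 76) (nat_lit 6) (nat_lit 1) (nat_lit 0) (nat_lit 132) (nat_lit 131) (nat_lit 97)) (PT.lf (nat_lit 76) (nat_lit 6) (nat_lit 1) (nat_lit 4) (nat_lit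 97) (nat_lit 132) (nat_lit 131))) (PT.nd (nat_lit 2496) (PT.lf (nat_lit 152) (nat_lit 6) (nat_lit 2) (nat_lit 4) (nat_lit 98) (nat_lit 132) (nat_lit 130)) (PT.nd (nat_lit 78) (PT.lf (nat_lit 152) (nat_lit 6) (nat_lit 2) (nat_lit 2) (nat_lit 130) (nat_lit 132) (nat_lit 98)) (PT.lf (nat_lit 76) (nat_lit 6) (nat_lit 1) (nat_lit 2) (nat_lit 131) (nat_lit 132) (nat_lit 97))))))))
noncomputable def xc0 : XT := (XT.nd (nat_lit 112554) (nat_lit 0) (nat_lit 0) (XT.nd (nat_lit 74958) (nat_lit 0) (nat_lit 0) (XT.nd (nat_lit 37518) (nat_lit 0) (nat_lit 0) (XT.nd (nat_lit 37362) (nat_lit 0) (nat_lit 0) (XT.nd (nat_lit 37284) (nat_lit 0) (nat_lit 0) (XT.lf (nat_lit 0) (nat_lit 154542955725) (nat_lit 76) (nat_lit 378885812757) (nat_lit 76) (nat_lit 378812683435) (nat_lit 1) (nat_lit 4) (nat_lit 2) (nat_lit 5) (nat_lit 2) (nat_lit 4) (nat_lit 325) (nat_lit 198) (nat_lit 197)) (XT.lf (nat_lit 0) (nat_lit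 58503233989) (nat_lit 76) (nat_lit 151829079368) (nat_lit 76) (nat_lit 151829079368) (nat_lit 1) (nat_lit 4) (nat_lit 2) (nat_lit 5) (nat_lit 2) (nat_lit 4) (nat_lit 322) (nat_lit 199) (nat_lit 199))) (XT.nd (nat_lit 78) (nat_lit 0) (nat_lit 0) (XT.lf (nat_lit 0) (nat_lit 128639971093) (nat_lit 76) (nat_lit 326822543919) (nat_lit 76) (nat_lit 326743564252) (nat_lit 1) (nat_lit 4) (nat_lit 2) (nat_lit 5) (nat_lit 2) (nat_lit 4) (nat_lit 323) (nat_lit 199) (nat_lit 198)) (XT.lf (nat_lit 0) (nat_lit 141093329089) (nat_lit 76) (nat_lit 351890932624) (nat_lit 76) (nat_lit 351738823635) (nat_lit 1) (nat_lit 4) (nat_lit 2) (nat_lit 5) (nat_lit 2) (nat_lit 4) (nat_lit 324) (nat_lit 199) (nat_lit 197)))) (XT.nd (nat_lit 37206) (nat_lit 0) (nat_lit 0) (XT.nd (nat_lit 37128) (nat_lit 0) (nat_lit 0) (XT.lf (nat_lit 0) (nat_lit 154440339643) (nat_lit 76) (nat_lit 379011878265) (nat_lit 76) (nat_lit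 378792056941) (nat_lit 1) (nat_lit 4) (nat_lit 2) (nat_lit 5) (nat_lit 2) (nat_lit 4) (nat_lit 325) (nat_lit 199) (nat_lit 196)) (XT.lf (nat_lit 0) (nat_lit 47994933303) (nat_lit 76) (nat_lit 131279784077) (nat_lit 76) (nat_lit 131279784077) (nat_lit 1) (nat_lit 4) (nat_lit 2) (nat_lit 5) (nat_lit 2) (nat_lit 4) (nat_lit 320) (nat_lit 200) (nat_lit 200))) (XT.nd (nat_lit 78) (nat_lit 0) (nat_lit 0) (XT.lf (nat_lit 0) (nat_lit 106123880467) (nat_lit 76) (nat_lit 282345804687) (nat_lit 76) (nat_lit 282260506647) (nat_lit 1) (nat_lit 4) (nat_lit 2) (nat_lit 5) (nat_lit 2) (nat_lit 4) (nat_lit 321) (nat_lit 200) (nat_lit 199)) (XT.nd (nat_lit 78) (nat_lit 0) (nat_lit 0) (XT.lf (nat_lit 0) (nat_lit 116948924037) (nat_lit 76) (nat_lit 303769861068) (nat_lit 76) (nat_lit 303605583361) (nat_lit 1) (nat_lit 4) (nat_lit 2) (nat_lit 5) (nat_lit 2) (nat_lit 4) (nat_lit 322) (nat_lit 200) (nat_lit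 198)) (XT.lf (nat_lit 0) (nat_lit 128529145725) (nat_lit 76) (nat_lit 326958694668) (nat_lit 76) (nat_lit 326721287638) (nat_lit 1) (nat_lit 4) (nat_lit 2) (nat_lit 5) (nat_lit 2) (nat_lit 4) (nat_lit 323) (nat_lit 200) (nat_lit 197)))))) (XT.nd (nat_lit 37206) (nat_lit 0) (nat_lit 0) (XT.nd (nat_lit 37050) (nat_lit 0) (nat_lit 0) (XT.nd (nat_lit 78) (nat_lit 0) (nat_lit 0) (XT.lf (nat_lit 0) (nat_lit 140933169066) (nat_lit 76) (nat_lit 352049720795) (nat_lit 76) (nat_lit 351744601431) (nat_lit 1) (nat_lit 4) (nat_lit 2) (nat_lit 5) (nat_lit 2) (nat_lit 4) (nat_lit 324) (nat_lit 200) (nat_lit 196)) (XT.lf (nat_lit 0) (nat_lit 154234499384) (nat_lit 76) (nat_lit 379191627013) (nat_lit 76) (nat_lit 378823811043) (nat_lit 1) (nat_lit 4) (nat_lit 2) (nat_lit 5) (nat_lit 2) (nat_lit 4) (nat_lit 325) (nat_lit 200) (nat_lit 195))) (XT.nd (nat_lit 78) (nat_lit 0) (nat_lit 0) (XT.lf (nat_lit 0)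 (nat_lit 38812786366) (nat_lit 76) (nat_lit 113750941116) (nat_lit 76) (nat_lit 113750941116) (nat_lit 1) (nat_lit 4) (nat_lit 2) (nat_lit 5) (nat_lit 2) (nat_lit 4) (nat_lit 318) (nat_lit 201) (nat_lit 201)) (XT.lf (nat_lit 0) (nat_lit 86486829044) (nat_lit 76) (nat_lit 244386021578) (nat_lit 76) (nat_lit 244293899695) (nat_lit 1) (nat_lit 4) (nat_lit 2) (nat_lit 5) (nat_lit 2) (nat_lit 4) (nat_lit 319) (nat_lit 201) (nat_lit 200)))) (XT.nd (nat_lit 156) (nat_lit 0) (nat_lit 0) (XT.nd (nat_lit 78) (nat_lit 0) (nat_lit 0) (XT.lf (nat_lit 0) (nat_lit 95927719151) (nat_lit 76) (nat_lit 262680206671) (nat_lit 76) (nat_lit 262502786747) (nat_lit 1) (nat_lit 4) (nat_lit 2) (nat_lit 5) (nat_lit 2) (nat_lit 4) (nat_lit 320) (nat_lit 201) (nat_lit 199)) (XT.lf (nat_lit 0) (nat_lit 106004189069) (nat_lit 76) (nat_lit 282492847496) (nat_lit 76) (nat_lit 282236447904) (nat_lit 1) (nat_lit 4) (nat_lit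 2) (nat_lit 5) (nat_lit 2) (nat_lit 4) (nat_lit 321) (nat_lit 201) (nat_lit 198))) (XT.nd (nat_lit 78) (nat_lit 0) (nat_lit 0) (XT.lf (nat_lit 0) (nat_lit 116775951213) (nat_lit 76) (nat_lit 303941352294) (nat_lit 76) (nat_lit 303611823381) (nat_lit 1) (nat_lit 4) (nat_lit 2) (nat_lit 5) (nat_lit 2) (nat_lit 4) (nat_lit 322) (nat_lit 201) (nat_lit 197)) (XT.nd (nat_lit 78) (nat_lit 0) (nat_lit 0) (XT.lf (nat_lit 0) (nat_lit 128306838246) (nat_lit 76) (nat_lit 327152823316) (nat_lit 76) (nat_lit 326755582068) (nat_lit 1) (nat_lit 4) (nat_lit 2) (nat_lit 5) (nat_lit 2) (nat_lit 4) (nat_lit 323) (nat_lit 201) (nat_lit 196)) (XT.lf (nat_lit 0) (nat_lit 140665181351) (nat_lit 76) (nat_lit 352264810021) (nat_lit 76) (nat_lit 351804872167) (nat_lit 1) (nat_lit 4) (nat_lit 2) (nat_lit 5) (nat_lit 2) (nat_lit 4) (nat_lit 324) (nat_lit 201) (nat_lit 195))))))) (XT.nd (nat_lit 37440) (nat_lit 0)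 (nat_lit 0) (XT.nd (nat_lit 37050) (nat_lit 0) (nat_lit 0) (XT.nd (nat_lit 36894) (nat_lit 0) (nat_lit 0) (XT.nd (nat_lit 36816) (nat_lit 0) (nat_lit 0) (XT.lf (nat_lit 0) (nat_lit 153924215155) (nat_lit 76) (nat_lit 379426124181) (nat_lit 76) (nat_lit 378908133914) (nat_lit 1) (nat_lit 4) (nat_lit 2) (nat_lit 5) (nat_lit 2) (nat_lit 4) (nat_lit 325) (nat_lit 201) (nat_lit 194)) (XT.lf (nat_lit 0) (nat_lit 30753764692) (nat_lit 76) (nat_lit 98818758443) (nat_lit 76) (nat_lit 98818758443) (nat_lit 1) (nat_lit 4) (nat_lit 2) (nat_lit 5) (nat_lit 2) (nat_lit 4) (nat_lit 316) (nat_lit 202) (nat_lit 202))) (XT.nd (nat_lit 78) (nat_lit 0) (nat_lit 0) (XT.lf (nat_lit 0) (nat_lit 69291439067) (nat_lit 76) (nat_lit 212027226107) (nat_lit 76) (nat_lit 211927734472) (nat_lit 1) (nat_lit 4) (nat_lit 2) (nat_lit 5) (nat_lit 2) (nat_lit 4) (nat_lit 317) (nat_lit 202) (nat_lit 201)) (XT.lf (nat_lit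 0) (nat_lit 77558453479) (nat_lit 76) (nat_lit 227632171831) (nat_lit 76) (nat_lit 227440558312) (nat_lit 1) (nat_lit 4) (nat_lit 2) (nat_lit 5) (nat_lit 2) (nat_lit 4) (nat_lit 318) (nat_lit 202) (nat_lit 200)))) (XT.nd (nat_lit 156) (nat_lit 0) (nat_lit 0) (XT.nd (nat_lit 78) (nat_lit 0) (nat_lit 0) (XT.lf (nat_lit 0) (nat_lit 86357562334) (nat_lit 76) (nat_lit 244544827811) (nat_lit 76) (nat_lit 244267916252) (nat_lit 1) (nat_lit 4) (nat_lit 2) (nat_lit 5) (nat_lit 2) (nat_lit 4) (nat_lit 319) (nat_lit 202) (nat_lit 199)) (XT.lf (nat_lit 0) (nat_lit 95740908500) (nat_lit 76) (nat_lit 262865417194) (nat_lit 76) (nat_lit 262509525968) (nat_lit 1) (nat_lit 4) (nat_lit 2) (nat_lit 5) (nat_lit 2) (nat_lit 4) (nat_lit 320) (nat_lit 202) (nat_lit 198))) (XT.nd (nat_lit 78) (nat_lit 0) (nat_lit 0) (XT.lf (nat_lit 0) (nat_lit 105764096991) (nat_lit 76) (nat_lit 282702506436) (nat_lit 76) (nat_lit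 282273485889) (nat_lit 1) (nat_lit 4) (nat_lit 2) (nat_lit 5) (nat_lit 2) (nat_lit 4) (nat_lit 321) (nat_lit 202) (nat_lit 197)) (XT.nd (nat_lit 78) (nat_lit 0) (nat_lit 0) (XT.lf (nat_lit 0) (nat_lit 116486524480) (nat_lit 76) (nat_lit 304173648658) (nat_lit 76) (nat_lit 303676915775) (nat_lit 1) (nat_lit 4) (nat_lit 2) (nat_lit 5) (nat_lit 2) (nat_lit 4) (nat_lit 322) (nat_lit 202) (nat_lit 196)) (XT.lf (nat_lit 0) (nat_lit 127971731278) (nat_lit 76) (nat_lit 327406080257) (nat_lit 76) (nat_lit 326846650769) (nat_lit 1) (nat_lit 4) (nat_lit 2) (nat_lit 5) (nat_lit 2) (nat_lit 4) (nat_lit 323) (nat_lit 202) (nat_lit 195)))))) (XT.nd (nat_lit 36894) (nat_lit 0) (nat_lit 0) (XT.nd (nat_lit 36738) (nat_lit 0) (nat_lit 0) (XT.nd (nat_lit 78) (nat_lit 0) (nat_lit 0) (XT.lf (nat_lit 0) (nat_lit 140287777869) (nat_lit 76) (nat_lit 352537474904) (nat_lit 76) (nat_lit 351919993002) (nat_lit 1)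 (nat_lit 4) (nat_lit 2) (nat_lit 5) (nat_lit 2) (nat_lit 4) (nat_lit 324) (nat_lit 202) (nat_lit 194)) (XT.lf (nat_lit 0) (nat_lit 153507648233) (nat_lit 76) (nat_lit 379716759380) (nat_lit 76) (nat_lit 379045525244) (nat_lit 1) (nat_lit 4) (nat_lit 2) (nat_lit 5) (nat_lit 2) (nat_lit 4) (nat_lit 325) (nat_lit 202) (nat_lit 193))) (XT.nd (nat_lit 78) (nat_lit 0) (nat_lit 0) (XT.lf (nat_lit 0) (nat_lit 23642697054) (nat_lit 76) (nat_lit 86120471428) (nat_lit 76) (nat_lit 86120471428) (nat_lit 1) (nat_lit 4) (nat_lit 2) (nat_lit 5) (nat_lit 2) (nat_lit 4) (nat_lit 314) (nat_lit 203) (nat_lit 203)) (XT.lf (nat_lit 0) (nat_lit 54160597557) (nat_lit 76) (nat_lit 184485222784) (nat_lit 76) (nat_lit 184377771818) (nat_lit 1) (nat_lit 4) (nat_lit 2) (nat_lit 5) (nat_lit 2) (nat_lit 4) (nat_lit 315) (nat_lit 203) (nat_lit 202)))) (XT.nd (nat_lit 156) (nat_lit 0) (nat_lit 0) (XT.nd (nat_lit 78)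 (nat_lit 0) (nat_lit 0) (XT.lf (nat_lit 0) (nat_lit 61435040590) (nat_lit 76) (nat_lit 197778229653) (nat_lit 76) (nat_lit 197571287053) (nat_lit 1) (nat_lit 4) (nat_lit 2) (nat_lit 5) (nat_lit 2) (nat_lit 4) (nat_lit 316) (nat_lit 203) (nat_lit 201)) (XT.lf (nat_lit 0) (nat_lit 69151831021) (nat_lit 76) (nat_lit 212198736838) (nat_lit 76) (nat_lit 211899672354) (nat_lit 1) (nat_lit 4) (nat_lit 2) (nat_lit 5) (nat_lit 2) (nat_lit 4) (nat_lit 317) (nat_lit 203) (nat_lit 200))) (XT.nd (nat_lit 78) (nat_lit 0) (nat_lit 0) (XT.lf (nat_lit 0) (nat_lit 77356697976) (nat_lit 76) (nat_lit 227832199196) (nat_lit 76) (nat_lit 227447836672) (nat_lit 1) (nat_lit 4) (nat_lit 2) (nat_lit 5) (nat_lit 2) (nat_lit 4) (nat_lit 318) (nat_lit 203) (nat_lit 199)) (XT.nd (nat_lit 78) (nat_lit 0) (nat_lit 0) (XT.lf (nat_lit 0) (nat_lit 86098262890) (nat_lit 76) (nat_lit 244771259467) (nat_lit 76) (nat_lit 244307917276)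 (nat_lit 1) (nat_lit 4) (nat_lit 2) (nat_lit 5) (nat_lit 2) (nat_lit 4) (nat_lit 319) (nat_lit 203) (nat_lit 198)) (XT.lf (nat_lit 0) (nat_lit 95428327629) (nat_lit 76) (nat_lit 263116297267) (nat_lit 76) (nat_lit 262579825755) (nat_lit 1) (nat_lit 4) (nat_lit 2) (nat_lit 5) (nat_lit 2) (nat_lit 4) (nat_lit 320) (nat_lit 203) (nat_lit 197))))))))
noncomputable def xc1 : XT := (XT.nd (nat_lit 37830) (nat_lit 0) (nat_lit 0) (XT.nd (nat_lit 37128) (nat_lit 0) (nat_lit 0) (XT.nd (nat_lit 312) (nat_lit 0) (nat_lit 0) (XT.nd (nat_lit 156) (nat_lit 0) (nat_lit 0) (XT.nd (nat_lit 78) (nat_lit 0) (nat_lit 0) (XT.lf (nat_lit 0) (nat_lit 105402181466) (nat_lit 76) (nat_lit 282976023932) (nat_lit 76) (nat_lit 282371840085) (nat_lit 1) (nat_lit 4) (nat_lit 2) (nat_lit 5) (nat_lit 2) (nat_lit 4) (nat_lit 321) (nat_lit 203) (nat_lit 196)) (XT.lf (nat_lit 0) (nat_lit 116078928719) (nat_lit 76) (nat_lit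 304468126731) (nat_lit 76) (nat_lit 303801246277) (nat_lit 1) (nat_lit 4) (nat_lit 2) (nat_lit 5) (nat_lit 2) (nat_lit 4) (nat_lit 322) (nat_lit 203) (nat_lit 195))) (XT.nd (nat_lit 78) (nat_lit 0) (nat_lit 0) (XT.lf (nat_lit 0) (nat_lit 127521839002) (nat_lit 76) (nat_lit 327719966272) (nat_lit 76) (nat_lit 326995033405) (nat_lit 1) (nat_lit 4) (nat_lit 2) (nat_lit 5) (nat_lit 2) (nat_lit 4) (nat_lit 323) (nat_lit 203) (nat_lit 194)) (XT.lf (nat_lit 0) (nat_lit 139798722153) (nat_lit 76) (nat_lit 352869331235) (nat_lit 76) (nat_lit 352090646134) (nat_lit 1) (nat_lit 4) (nat_lit 2) (nat_lit 5) (nat_lit 2) (nat_lit 4) (nat_lit 324) (nat_lit 203) (nat_lit 193)))) (XT.nd (nat_lit 36582) (nat_lit 0) (nat_lit 0) (XT.nd (nat_lit 36504) (nat_lit 0) (nat_lit 0) (XT.lf (nat_lit 0) (nat_lit 152982330073) (nat_lit 76) (nat_lit 380065254894) (nat_lit 76) (nat_lit 379236799205) (nat_lit 1) (nat_lit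 4) (nat_lit 2) (nat_lit 5) (nat_lit 2) (nat_lit 4) (nat_lit 325) (nat_lit 203) (nat_lit 192)) (XT.lf (nat_lit 0) (nat_lit 17328206772) (nat_lit 76) (nat_lit 75345682110) (nat_lit 76) (nat_lit 75345682110) (nat_lit 1) (nat_lit 4) (nat_lit 2) (nat_lit 5) (nat_lit 2) (nat_lit 4) (nat_lit 312) (nat_lit 204) (nat_lit 204))) (XT.nd (nat_lit 78) (nat_lit 0) (nat_lit 0) (XT.lf (nat_lit 0) (nat_lit 40768688300) (nat_lit 76) (nat_lit 161088878217) (nat_lit 76) (nat_lit 160972831174) (nat_lit 1) (nat_lit 4) (nat_lit 2) (nat_lit 5) (nat_lit 2) (nat_lit 4) (nat_lit 313) (nat_lit 204) (nat_lit 203)) (XT.nd (nat_lit 78) (nat_lit 0) (nat_lit 0) (XT.lf (nat_lit 0) (nat_lit 47207106212) (nat_lit 76) (nat_lit 172392912644) (nat_lit 76) (nat_lit 172169414637) (nat_lit 1) (nat_lit 4) (nat_lit 2) (nat_lit 5) (nat_lit 2) (nat_lit 4) (nat_lit 314) (nat_lit 204) (nat_lit 202)) (XT.lf (nat_lit 0) (nat_lit 54009820867)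 (nat_lit 76) (nat_lit 184670454374) (nat_lit 76) (nat_lit 184347464731) (nat_lit 1) (nat_lit 4) (nat_lit 2) (nat_lit 5) (nat_lit 2) (nat_lit 4) (nat_lit 315) (nat_lit 204) (nat_lit 201)))))) (XT.nd (nat_lit 312) (nat_lit 0) (nat_lit 0) (XT.nd (nat_lit 156) (nat_lit 0) (nat_lit 0) (XT.nd (nat_lit 78) (nat_lit 0) (nat_lit 0) (XT.lf (nat_lit 0) (nat_lit 61217144648) (nat_lit 76) (nat_lit 197994259207) (nat_lit 76) (nat_lit 197579147681) (nat_lit 1) (nat_lit 4) (nat_lit 2) (nat_lit 5) (nat_lit 2) (nat_lit 4) (nat_lit 316) (nat_lit 204) (nat_lit 200)) (XT.lf (nat_lit 0) (nat_lit 68871787621) (nat_lit 76) (nat_lit 212443283026) (nat_lit 76) (nat_lit 211942873459) (nat_lit 1) (nat_lit 4) (nat_lit 2) (nat_lit 5) (nat_lit 2) (nat_lit 4) (nat_lit 317) (nat_lit 204) (nat_lit 199))) (XT.nd (nat_lit 78) (nat_lit 0) (nat_lit 0) (XT.lf (nat_lit 0) (nat_lit 77019110636) (nat_lit 76) (nat_lit 228103149675)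 (nat_lit 76) (nat_lit 227523760441) (nat_lit 1) (nat_lit 4) (nat_lit 2) (nat_lit 5) (nat_lit 2) (nat_lit 4) (nat_lit 318) (nat_lit 204) (nat_lit 198)) (XT.lf (nat_lit 0) (nat_lit 85707394123) (nat_lit 76) (nat_lit 245066658363) (nat_lit 76) (nat_lit 244414139808) (nat_lit 1) (nat_lit 4) (nat_lit 2) (nat_lit 5) (nat_lit 2) (nat_lit 4) (nat_lit 319) (nat_lit 204) (nat_lit 197)))) (XT.nd (nat_lit 156) (nat_lit 0) (nat_lit 0) (XT.nd (nat_lit 78) (nat_lit 0) (nat_lit 0) (XT.lf (nat_lit 0) (nat_lit 94988124207) (nat_lit 76) (nat_lit 263434333587) (nat_lit 76) (nat_lit 262714102697) (nat_lit 1) (nat_lit 4) (nat_lit 2) (nat_lit 5) (nat_lit 2) (nat_lit 4) (nat_lit 320) (nat_lit 204) (nat_lit 196)) (XT.lf (nat_lit 0) (nat_lit 104916297808) (nat_lit 76) (nat_lit 283315020829) (nat_lit 76) (nat_lit 282532093333) (nat_lit 1) (nat_lit 4) (nat_lit 2) (nat_lit 5) (nat_lit 2) (nat_lit 4) (nat_lit 321)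 (nat_lit 204) (nat_lit 195))) (XT.nd (nat_lit 78) (nat_lit 0) (nat_lit 0) (XT.lf (nat_lit 0) (nat_lit 115550748546) (nat_lit 76) (nat_lit 304826531569) (nat_lit 76) (nat_lit 303985551660) (nat_lit 1) (nat_lit 4) (nat_lit 2) (nat_lit 5) (nat_lit 2) (nat_lit 4) (nat_lit 322) (nat_lit 204) (nat_lit 194)) (XT.nd (nat_lit 78) (nat_lit 0) (nat_lit 0) (XT.lf (nat_lit 0) (nat_lit 126954495390) (nat_lit 76) (nat_lit 328096341427) (nat_lit 76) (nat_lit 327201609283) (nat_lit 1) (nat_lit 4) (nat_lit 2) (nat_lit 5) (nat_lit 2) (nat_lit 4) (nat_lit 323) (nat_lit 204) (nat_lit 193)) (XT.lf (nat_lit 0) (nat_lit 139195116097) (nat_lit 76) (nat_lit 353262345572) (nat_lit 76) (nat_lit 352317842841) (nat_lit 1) (nat_lit 4) (nat_lit 2) (nat_lit 5) (nat_lit 2) (nat_lit 4) (nat_lit 324) (nat_lit 204) (nat_lit 192))))))) (XT.nd (nat_lit 36972) (nat_lit 0) (nat_lit 0) (XT.nd (nat_lit 36582) (nat_lit 0) (nat_lit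 0) (XT.nd (nat_lit 36426) (nat_lit 0) (nat_lit 0) (XT.nd (nat_lit 36348) (nat_lit 0) (nat_lit 0) (XT.lf (nat_lit 0) (nat_lit 152345147680) (nat_lit 76) (nat_lit 380473675880) (nat_lit 76) (nat_lit 379483089272) (nat_lit 1) (nat_lit 4) (nat_lit 2) (nat_lit 5) (nat_lit 2) (nat_lit 4) (nat_lit 325) (nat_lit 204) (nat_lit 191)) (XT.lf (nat_lit 0) (nat_lit 11679221504) (nat_lit 76) (nat_lit 66228937645) (nat_lit 76) (nat_lit 66228937645) (nat_lit 1) (nat_lit 4) (nat_lit 2) (nat_lit 5) (nat_lit 2) (nat_lit 4) (nat_lit 310) (nat_lit 205) (nat_lit 205))) (XT.nd (nat_lit 78) (nat_lit 0) (nat_lit 0) (XT.lf (nat_lit 0) (nat_lit 28834061055) (nat_lit 76) (nat_lit 141264086562) (nat_lit 76) (nat_lit 141138755756) (nat_lit 1) (nat_lit 4) (nat_lit 2) (nat_lit 5) (nat_lit 2) (nat_lit 4) (nat_lit 311) (nat_lit 205) (nat_lit 204)) (XT.lf (nat_lit 0) (nat_lit 34571862615) (nat_lit 76) (nat_lit 150855491591)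 (nat_lit 76) (nat_lit 150614113743) (nat_lit 1) (nat_lit 4) (nat_lit 2) (nat_lit 5) (nat_lit 2) (nat_lit 4) (nat_lit 312) (nat_lit 205) (nat_lit 203)))) (XT.nd (nat_lit 156) (nat_lit 0) (nat_lit 0) (XT.nd (nat_lit 78) (nat_lit 0) (nat_lit 0) (XT.lf (nat_lit 0) (nat_lit 40605849475) (nat_lit 76) (nat_lit 161288928334) (nat_lit 76) (nat_lit 160940099520) (nat_lit 1) (nat_lit 4) (nat_lit 2) (nat_lit 5) (nat_lit 2) (nat_lit 4) (nat_lit 313) (nat_lit 205) (nat_lit 202)) (XT.lf (nat_lit 0) (nat_lit 46971778594) (nat_lit 76) (nat_lit 172626224563) (nat_lit 76) (nat_lit 172177904115) (nat_lit 1) (nat_lit 4) (nat_lit 2) (nat_lit 5) (nat_lit 2) (nat_lit 4) (nat_lit 314) (nat_lit 205) (nat_lit 201))) (XT.nd (nat_lit 78) (nat_lit 0) (nat_lit 0) (XT.lf (nat_lit 0) (nat_lit 53707373995) (nat_lit 76) (nat_lit 184934564257) (nat_lit 76) (nat_lit 184394121925) (nat_lit 1) (nat_lit 4) (nat_lit 2) (nat_lit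 5) (nat_lit 2) (nat_lit 4) (nat_lit 315) (nat_lit 205) (nat_lit 200)) (XT.nd (nat_lit 78) (nat_lit 0) (nat_lit 0) (XT.lf (nat_lit 0) (nat_lit 60852550320) (nat_lit 76) (nat_lit 198286885724) (nat_lit 76) (nat_lit 197661145352) (nat_lit 1) (nat_lit 4) (nat_lit 2) (nat_lit 5) (nat_lit 2) (nat_lit 4) (nat_lit 316) (nat_lit 205) (nat_lit 199)) (XT.lf (nat_lit 0) (nat_lit 68449649353) (nat_lit 76) (nat_lit 212762313834) (nat_lit 76) (nat_lit 212057593794) (nat_lit 1) (nat_lit 4) (nat_lit 2) (nat_lit 5) (nat_lit 2) (nat_lit 4) (nat_lit 317) (nat_lit 205) (nat_lit 198)))))) (XT.nd (nat_lit 390) (nat_lit 0) (nat_lit 0) (XT.nd (nat_lit 156) (nat_lit 0) (nat_lit 0) (XT.nd (nat_lit 78) (nat_lit 0) (nat_lit 0) (XT.lf (nat_lit 0) (nat_lit 76543690940) (nat_lit 76) (nat_lit 228446628899) (nat_lit 76) (nat_lit 227668779538) (nat_lit 1) (nat_lit 4) (nat_lit 2) (nat_lit 5) (nat_lit 2) (nat_lit 4) (nat_lit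 318) (nat_lit 205) (nat_lit 197)) (XT.lf (nat_lit 0) (nat_lit 85182639772) (nat_lit 76) (nat_lit 245432775011) (nat_lit 76) (nat_lit 244587213315) (nat_lit 1) (nat_lit 4) (nat_lit 2) (nat_lit 5) (nat_lit 2) (nat_lit 4) (nat_lit 319) (nat_lit 205) (nat_lit 196))) (XT.nd (nat_lit 78) (nat_lit 0) (nat_lit 0) (XT.lf (nat_lit 0) (nat_lit 94417689621) (nat_lit 76) (nat_lit 263821410812) (nat_lit 76) (nat_lit 262913152510) (nat_lit 1) (nat_lit 4) (nat_lit 2) (nat_lit 5) (nat_lit 2) (nat_lit 4) (nat_lit 320) (nat_lit 205) (nat_lit 195)) (XT.nd (nat_lit 78) (nat_lit 0) (nat_lit 0) (XT.lf (nat_lit 0) (nat_lit 104303566707) (nat_lit 76) (nat_lit 283721505996) (nat_lit 76) (nat_lit 282755195280) (nat_lit 1) (nat_lit 4) (nat_lit 2) (nat_lit 5) (nat_lit 2) (nat_lit 4) (nat_lit 321) (nat_lit 205) (nat_lit 194)) (XT.lf (nat_lit 0) (nat_lit 114898854006) (nat_lit 76) (nat_lit 305250987052) (nat_lit 76)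 (nat_lit 304230924103) (nat_lit 1) (nat_lit 4) (nat_lit 2) (nat_lit 5) (nat_lit 2) (nat_lit 4) (nat_lit 322) (nat_lit 205) (nat_lit 193))))) (XT.nd (nat_lit 156) (nat_lit 0) (nat_lit 0) (XT.nd (nat_lit 78) (nat_lit 0) (nat_lit 0) (XT.lf (nat_lit 0) (nat_lit 126266338405) (nat_lit 76) (nat_lit 328537436092) (nat_lit 76) (nat_lit 327467602555) (nat_lit 1) (nat_lit 4) (nat_lit 2) (nat_lit 5) (nat_lit 2) (nat_lit 4) (nat_lit 323) (nat_lit 205) (nat_lit 192)) (XT.lf (nat_lit 0) (nat_lit 138473382776) (nat_lit 76) (nat_lit 353718846887) (nat_lit 76) (nat_lit 352602929473) (nat_lit 1) (nat_lit 4) (nat_lit 2) (nat_lit 5) (nat_lit 2) (nat_lit 4) (nat_lit 324) (nat_lit 205) (nat_lit 191))) (XT.nd (nat_lit 36192) (nat_lit 0) (nat_lit 0) (XT.lf (nat_lit 0) (nat_lit 151592325158) (nat_lit 76) (nat_lit 380944442612) (nat_lit 76) (nat_lit 379785854941) (nat_lit 1) (nat_lit 4) (nat_lit 2) (nat_lit 5)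 (nat_lit 2) (nat_lit 4) (nat_lit 325) (nat_lit 205) (nat_lit 190)) (XT.nd (nat_lit 78) (nat_lit 0) (nat_lit 0) (XT.lf (nat_lit 0) (nat_lit 6581973311) (nat_lit 76) (nat_lit 58543371456) (nat_lit 76) (nat_lit 58543371456) (nat_lit 1) (nat_lit 4) (nat_lit 2) (nat_lit 5) (nat_lit 2) (nat_lit 4) (nat_lit 308) (nat_lit 206) (nat_lit 206)) (XT.lf (nat_lit 0) (nat_lit 18112560367) (nat_lit 76) (nat_lit 124520030093) (nat_lit 76) (nat_lit 124384672822) (nat_lit 1) (nat_lit 4) (nat_lit 2) (nat_lit 5) (nat_lit 2) (nat_lit 4) (nat_lit 309) (nat_lit 206) (nat_lit 205))))))))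
noncomputable def xc2 : XT := (XT.nd (nat_lit 37362) (nat_lit 0) (nat_lit 0) (XT.nd (nat_lit 702) (nat_lit 0) (nat_lit 0) (XT.nd (nat_lit 312) (nat_lit 0) (nat_lit 0) (XT.nd (nat_lit 156) (nat_lit 0) (nat_lit 0) (XT.nd (nat_lit 78) (nat_lit 0) (nat_lit 0) (XT.lf (nat_lit 0) (nat_lit 23267128005) (nat_lit 76) (nat_lit 132635132852) (nat_lit 76) (nat_lit 132374444776) (nat_lit 1) (nat_lit 4) (nat_lit 2) (nat_lit 5) (nat_lit 2) (nat_lit 4) (nat_lit 310) (nat_lit 206) (nat_lit 204)) (XT.lf (nat_lit 0) (nat_lit 28658195124) (nat_lit 76) (nat_lit 141480140689) (nat_lit 76) (nat_lit 141103405570) (nat_lit 1) (nat_lit 4) (nat_lit 2) (nat_lit 5) (nat_lit 2) (nat_lit 4) (nat_lit 311) (nat_lit 206) (nat_lit 203))) (XT.nd (nat_lit 78) (nat_lit 0) (nat_lit 0) (XT.lf (nat_lit 0) (nat_lit 34317708788) (nat_lit 76) (nat_lit 151107468464) (nat_lit 76) (nat_lit 150623282380) (nat_lit 1) (nat_lit 4) (nat_lit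 2) (nat_lit 5) (nat_lit 2) (nat_lit 4) (nat_lit 312) (nat_lit 206) (nat_lit 202)) (XT.lf (nat_lit 0) (nat_lit 40279206854) (nat_lit 76) (nat_lit 161574167008) (nat_lit 76) (nat_lit 160990489289) (nat_lit 1) (nat_lit 4) (nat_lit 2) (nat_lit 5) (nat_lit 2) (nat_lit 4) (nat_lit 313) (nat_lit 206) (nat_lit 201)))) (XT.nd (nat_lit 156) (nat_lit 0) (nat_lit 0) (XT.nd (nat_lit 78) (nat_lit 0) (nat_lit 0) (XT.lf (nat_lit 0) (nat_lit 46578016720) (nat_lit 76) (nat_lit 172942261201) (nat_lit 76) (nat_lit 172266461599) (nat_lit 1) (nat_lit 4) (nat_lit 2) (nat_lit 5) (nat_lit 2) (nat_lit 4) (nat_lit 314) (nat_lit 206) (nat_lit 200)) (XT.lf (nat_lit 0) (nat_lit 53251464665) (nat_lit 76) (nat_lit 185279117529) (nat_lit 76) (nat_lit 184518019886) (nat_lit 1) (nat_lit 4) (nat_lit 2) (nat_lit 5) (nat_lit 2) (nat_lit 4) (nat_lit 315) (nat_lit 206) (nat_lit 199))) (XT.nd (nat_lit 78) (nat_lit 0) (nat_lit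 0) (XT.lf (nat_lit 0) (nat_lit 60339097048) (nat_lit 76) (nat_lit 198657843287) (nat_lit 76) (nat_lit 197817765977) (nat_lit 1) (nat_lit 4) (nat_lit 2) (nat_lit 5) (nat_lit 2) (nat_lit 4) (nat_lit 316) (nat_lit 206) (nat_lit 198)) (XT.nd (nat_lit 78) (nat_lit 0) (nat_lit 0) (XT.lf (nat_lit 0) (nat_lit 67882914654) (nat_lit 76) (nat_lit 213157719814) (nat_lit 76) (nat_lit 212244513182) (nat_lit 1) (nat_lit 4) (nat_lit 2) (nat_lit 5) (nat_lit 2) (nat_lit 4) (nat_lit 317) (nat_lit 206) (nat_lit 197)) (XT.lf (nat_lit 0) (nat_lit 75927621586) (nat_lit 76) (nat_lit 228864672303) (nat_lit 76) (nat_lit 227883753336) (nat_lit 1) (nat_lit 4) (nat_lit 2) (nat_lit 5) (nat_lit 2) (nat_lit 4) (nat_lit 318) (nat_lit 206) (nat_lit 196)))))) (XT.nd (nat_lit 312) (nat_lit 0) (nat_lit 0) (XT.nd (nat_lit 156) (nat_lit 0) (nat_lit 0) (XT.nd (nat_lit 78) (nat_lit 0) (nat_lit 0) (XT.lf (nat_lit 0) (nat_lit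 84520890183) (nat_lit 76) (nat_lit 245871778991) (nat_lit 76) (nat_lit 244828163419) (nat_lit 1) (nat_lit 4) (nat_lit 2) (nat_lit 5) (nat_lit 2) (nat_lit 4) (nat_lit 319) (nat_lit 206) (nat_lit 195)) (XT.lf (nat_lit 0) (nat_lit 93713643517) (nat_lit 76) (nat_lit 264279822734) (nat_lit 76) (nat_lit 263178154748) (nat_lit 1) (nat_lit 4) (nat_lit 2) (nat_lit 5) (nat_lit 2) (nat_lit 4) (nat_lit 320) (nat_lit 206) (nat_lit 194))) (XT.nd (nat_lit 78) (nat_lit 0) (nat_lit 0) (XT.lf (nat_lit 0) (nat_lit 103560357164) (nat_lit 76) (nat_lit 284197888234) (nat_lit 76) (nat_lit 283042468014) (nat_lit 1) (nat_lit 4) (nat_lit 2) (nat_lit 5) (nat_lit 2) (nat_lit 4) (nat_lit 321) (nat_lit 206) (nat_lit 193)) (XT.lf (nat_lit 0) (nat_lit 114119382019) (nat_lit 76) (nat_lit 305744008473) (nat_lit 76) (nat_lit 304538817666) (nat_lit 1) (nat_lit 4) (nat_lit 2) (nat_lit 5) (nat_lit 2) (nat_lit 4) (nat_lit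 322) (nat_lit 206) (nat_lit 192)))) (XT.nd (nat_lit 156) (nat_lit 0) (nat_lit 0) (XT.nd (nat_lit 78) (nat_lit 0) (nat_lit 0) (XT.lf (nat_lit 0) (nat_lit 125453290081) (nat_lit 76) (nat_lit 329045864163) (nat_lit 76) (nat_lit 327794589478) (nat_lit 1) (nat_lit 4) (nat_lit 2) (nat_lit 5) (nat_lit 2) (nat_lit 4) (nat_lit 323) (nat_lit 206) (nat_lit 191)) (XT.lf (nat_lit 0) (nat_lit 137629245251) (nat_lit 76) (nat_lit 354241540374) (nat_lit 76) (nat_lit 352947595433) (nat_lit 1) (nat_lit 4) (nat_lit 2) (nat_lit 5) (nat_lit 2) (nat_lit 4) (nat_lit 324) (nat_lit 206) (nat_lit 190))) (XT.nd (nat_lit 36036) (nat_lit 0) (nat_lit 0) (XT.lf (nat_lit 0) (nat_lit 150719401336) (nat_lit 76) (nat_lit 381480344818) (nat_lit 76) (nat_lit 380146890380) (nat_lit 1) (nat_lit 4) (nat_lit 2) (nat_lit 5) (nat_lit 2) (nat_lit 4) (nat_lit 325) (nat_lit 206) (nat_lit 189)) (XT.nd (nat_lit 78) (nat_lit 0) (nat_lit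 0) (XT.lf (nat_lit 0) (nat_lit 1937418424) (nat_lit 76) (nat_lit 52095255780) (nat_lit 76) (nat_lit 52095255780) (nat_lit 1) (nat_lit 4) (nat_lit 2) (nat_lit 5) (nat_lit 2) (nat_lit 4) (nat_lit 306) (nat_lit 207) (nat_lit 207)) (XT.lf (nat_lit 0) (nat_lit 8391961652) (nat_lit 76) (nat_lit 110437408053) (nat_lit 76) (nat_lit 110291222201) (nat_lit 1) (nat_lit 4) (nat_lit 2) (nat_lit 5) (nat_lit 2) (nat_lit 4) (nat_lit 307) (nat_lit 207) (nat_lit 206))))))) (XT.nd (nat_lit 702) (nat_lit 0) (nat_lit 0) (XT.nd (nat_lit 312) (nat_lit 0) (nat_lit 0) (XT.nd (nat_lit 156) (nat_lit 0) (nat_lit 0) (XT.nd (nat_lit 78) (nat_lit 0) (nat_lit 0) (XT.lf (nat_lit 0) (nat_lit 13065326419) (nat_lit 76) (nat_lit 117278181078) (nat_lit 76) (nat_lit 116996637956) (nat_lit 1) (nat_lit 4) (nat_lit 2) (nat_lit 5) (nat_lit 2) (nat_lit 4) (nat_lit 308) (nat_lit 207) (nat_lit 205)) (XT.lf (nat_lit 0) (nat_lit 17922625161)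 (nat_lit 76) (nat_lit 124753368549) (nat_lit 76) (nat_lit 124346494621) (nat_lit 1) (nat_lit 4) (nat_lit 2) (nat_lit 5) (nat_lit 2) (nat_lit 4) (nat_lit 309) (nat_lit 207) (nat_lit 204))) (XT.nd (nat_lit 78) (nat_lit 0) (nat_lit 0) (XT.lf (nat_lit 0) (nat_lit 22992641871) (nat_lit 76) (nat_lit 132907267874) (nat_lit 76) (nat_lit 132384346904) (nat_lit 1) (nat_lit 4) (nat_lit 2) (nat_lit 5) (nat_lit 2) (nat_lit 4) (nat_lit 310) (nat_lit 207) (nat_lit 203)) (XT.lf (nat_lit 0) (nat_lit 28305421094) (nat_lit 76) (nat_lit 141788198457) (nat_lit 76) (nat_lit 141157826521) (nat_lit 1) (nat_lit 4) (nat_lit 2) (nat_lit 5) (nat_lit 2) (nat_lit 4) (nat_lit 311) (nat_lit 207) (nat_lit 202)))) (XT.nd (nat_lit 156) (nat_lit 0) (nat_lit 0) (XT.nd (nat_lit 78) (nat_lit 0) (nat_lit 0) (XT.lf (nat_lit 0) (nat_lit 33892445964) (nat_lit 76) (nat_lit 151448788033) (nat_lit 76) (nat_lit 150718924463) (nat_lit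 1) (nat_lit 4) (nat_lit 2) (nat_lit 5) (nat_lit 2) (nat_lit 4) (nat_lit 312) (nat_lit 207) (nat_lit 201)) (XT.lf (nat_lit 0) (nat_lit 39786824777) (nat_lit 76) (nat_lit 161946284542) (nat_lit 76) (nat_lit 161124299087) (nat_lit 1) (nat_lit 4) (nat_lit 2) (nat_lit 5) (nat_lit 2) (nat_lit 4) (nat_lit 313) (nat_lit 207) (nat_lit 200))) (XT.nd (nat_lit 78) (nat_lit 0) (nat_lit 0) (XT.lf (nat_lit 0) (nat_lit 46023487186) (nat_lit 76) (nat_lit 173342895369) (nat_lit 76) (nat_lit 172435611874) (nat_lit 1) (nat_lit 4) (nat_lit 2) (nat_lit 5) (nat_lit 2) (nat_lit 4) (nat_lit 314) (nat_lit 207) (nat_lit 199)) (XT.nd (nat_lit 78) (nat_lit 0) (nat_lit 0) (XT.lf (nat_lit 0) (nat_lit 52639391190) (nat_lit 76) (nat_lit 185706155987) (nat_lit 76) (nat_lit 184719892825) (nat_lit 1) (nat_lit 4) (nat_lit 2) (nat_lit 5) (nat_lit 2) (nat_lit 4) (nat_lit 315) (nat_lit 207) (nat_lit 198)) (XT.lf (nat_lit 0)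 (nat_lit 59673742146) (nat_lit 76) (nat_lit 199109330163) (nat_lit 76) (nat_lit 198049937679) (nat_lit 1) (nat_lit 4) (nat_lit 2) (nat_lit 5) (nat_lit 2) (nat_lit 4) (nat_lit 316) (nat_lit 207) (nat_lit 197)))))) (XT.nd (nat_lit 390) (nat_lit 0) (nat_lit 0) (XT.nd (nat_lit 156) (nat_lit 0) (nat_lit 0) (XT.nd (nat_lit 78) (nat_lit 0) (nat_lit 0) (XT.lf (nat_lit 0) (nat_lit 67168225098) (nat_lit 76) (nat_lit 213631844112) (nat_lit 76) (nat_lit 212504739294) (nat_lit 1) (nat_lit 4) (nat_lit 2) (nat_lit 5) (nat_lit 2) (nat_lit 4) (nat_lit 317) (nat_lit 207) (nat_lit 196)) (XT.lf (nat_lit 0) (nat_lit 75167251794) (nat_lit 76) (nat_lit 229359757179) (nat_lit 76) (nat_lit 228169955754) (nat_lit 1) (nat_lit 4) (nat_lit 2) (nat_lit 5) (nat_lit 2) (nat_lit 4) (nat_lit 318) (nat_lit 207) (nat_lit 195))) (XT.nd (nat_lit 78) (nat_lit 0) (nat_lit 0) (XT.lf (nat_lit 0) (nat_lit 83718223876) (nat_lit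 76) (nat_lit 246386271809) (nat_lit 76) (nat_lit 245138417971) (nat_lit 1) (nat_lit 4) (nat_lit 2) (nat_lit 5) (nat_lit 2) (nat_lit 4) (nat_lit 319) (nat_lit 207) (nat_lit 194)) (XT.nd (nat_lit 78) (nat_lit 0) (nat_lit 0) (XT.lf (nat_lit 0) (nat_lit 92871813771) (nat_lit 76) (nat_lit 264812285868) (nat_lit 76) (nat_lit 263510679796) (nat_lit 1) (nat_lit 4) (nat_lit 2) (nat_lit 5) (nat_lit 2) (nat_lit 4) (nat_lit 320) (nat_lit 207) (nat_lit 193)) (XT.lf (nat_lit 0) (nat_lit 102682264974) (nat_lit 76) (nat_lit 284746990550) (nat_lit 76) (nat_lit 283395613891) (nat_lit 1) (nat_lit 4) (nat_lit 2) (nat_lit 5) (nat_lit 2) (nat_lit 4) (nat_lit 321) (nat_lit 207) (nat_lit 192))))) (XT.nd (nat_lit 156) (nat_lit 0) (nat_lit 0) (XT.nd (nat_lit 78) (nat_lit 0) (nat_lit 0) (XT.lf (nat_lit 0) (nat_lit 113207713492) (nat_lit 76) (nat_lit 306308517439) (nat_lit 76) (nat_lit 304911056903) (nat_lit 1)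 (nat_lit 4) (nat_lit 2) (nat_lit 5) (nat_lit 2) (nat_lit 4) (nat_lit 322) (nat_lit 207) (nat_lit 191)) (XT.lf (nat_lit 0) (nat_lit 124510532353) (nat_lit 76) (nat_lit 329624638545) (nat_lit 76) (nat_lit 328184507752) (nat_lit 1) (nat_lit 4) (nat_lit 2) (nat_lit 5) (nat_lit 2) (nat_lit 4) (nat_lit 323) (nat_lit 207) (nat_lit 190))) (XT.nd (nat_lit 78) (nat_lit 0) (nat_lit 0) (XT.lf (nat_lit 0) (nat_lit 136657701226) (nat_lit 76) (nat_lit 354833523476) (nat_lit 76) (nat_lit 353353883186) (nat_lit 1) (nat_lit 4) (nat_lit 2) (nat_lit 5) (nat_lit 2) (nat_lit 4) (nat_lit 324) (nat_lit 207) (nat_lit 189)) (XT.nd (nat_lit 35880) (nat_lit 0) (nat_lit 76) (XT.lf (nat_lit 0) (nat_lit 149721203332) (nat_lit 76) (nat_lit 382084558215) (nat_lit 76) (nat_lit 380568335058) (nat_lit 1) (nat_lit 4) (nat_lit 2) (nat_lit 5) (nat_lit 2) (nat_lit 4) (nat_lit 325) (nat_lit 207) (nat_lit 188)) (XT.lf (nat_lit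 0) (nat_lit 44414901464) (nat_lit 152) (nat_lit 2266057706) (nat_lit 0) (nat_lit 44414901464) (nat_lit 2) (nat_lit 5) (nat_lit 4) (nat_lit 4) (nat_lit 2) (nat_lit 4) (nat_lit 304) (nat_lit 208) (nat_lit 208))))))))
noncomputable def xc3 : XT := (XT.nd (nat_lit 1404) (nat_lit 0) (nat_lit 0) (XT.nd (nat_lit 702) (nat_lit 0) (nat_lit 0) (XT.nd (nat_lit 312) (nat_lit 0) (nat_lit 0) (XT.nd (nat_lit 156) (nat_lit 0) (nat_lit 0) (XT.nd (nat_lit 78) (nat_lit 76) (nat_lit 0) (XT.lf (nat_lit 0) (nat_lit 98153544032) (nat_lit 152) (nat_lit 496402821) (nat_lit 0) (nat_lit 97995663312) (nat_lit 2) (nat_lit 5) (nat_lit 4) (nat_lit 4) (nat_lit 2) (nat_lit 4) (nat_lit 305) (nat_lit 208) (nat_lit 207)) (XT.lf (nat_lit 0) (nat_lit 3768327029) (nat_lit 76) (nat_lit 104397264780) (nat_lit 76) (nat_lit 104093198208) (nat_lit 1) (nat_lit 4) (nat_lit 2) (nat_lit 5) (nat_lit 2) (nat_lit 4) (nat_lit 306) (nat_lit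 208) (nat_lit 206))) (XT.nd (nat_lit 78) (nat_lit 0) (nat_lit 0) (XT.lf (nat_lit 0) (nat_lit 8186831630) (nat_lit 76) (nat_lit 110689413586) (nat_lit 76) (nat_lit 110249989744) (nat_lit 1) (nat_lit 4) (nat_lit 2) (nat_lit 5) (nat_lit 2) (nat_lit 4) (nat_lit 307) (nat_lit 208) (nat_lit 205)) (XT.lf (nat_lit 0) (nat_lit 12768881394) (nat_lit 76) (nat_lit 117572086902) (nat_lit 76) (nat_lit 117007332253) (nat_lit 1) (nat_lit 4) (nat_lit 2) (nat_lit 5) (nat_lit 2) (nat_lit 4) (nat_lit 308) (nat_lit 208) (nat_lit 204)))) (XT.nd (nat_lit 156) (nat_lit 0) (nat_lit 0) (XT.nd (nat_lit 78) (nat_lit 0) (nat_lit 0) (XT.lf (nat_lit 0) (nat_lit 17541629208) (nat_lit 76) (nat_lit 125086070938) (nat_lit 76) (nat_lit 124405269248) (nat_lit 1) (nat_lit 4) (nat_lit 2) (nat_lit 5) (nat_lit 2) (nat_lit 4) (nat_lit 309) (nat_lit 208) (nat_lit 203)) (XT.lf (nat_lit 0) (nat_lit 22533358022) (nat_lit 76) (nat_lit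 133275893009) (nat_lit 76) (nat_lit 132487640353) (nat_lit 1) (nat_lit 4) (nat_lit 2) (nat_lit 5) (nat_lit 2) (nat_lit 4) (nat_lit 310) (nat_lit 208) (nat_lit 202))) (XT.nd (nat_lit 78) (nat_lit 0) (nat_lit 0) (XT.lf (nat_lit 0) (nat_lit 27773648451) (nat_lit 76) (nat_lit 142190085393) (nat_lit 76) (nat_lit 141302341103) (nat_lit 1) (nat_lit 4) (nat_lit 2) (nat_lit 5) (nat_lit 2) (nat_lit 4) (nat_lit 311) (nat_lit 208) (nat_lit 201)) (XT.nd (nat_lit 78) (nat_lit 0) (nat_lit 0) (XT.lf (nat_lit 0) (nat_lit 33293554068) (nat_lit 76) (nat_lit 151881472934) (nat_lit 76) (nat_lit 150901606760) (nat_lit 1) (nat_lit 4) (nat_lit 2) (nat_lit 5) (nat_lit 2) (nat_lit 4) (nat_lit 312) (nat_lit 208) (nat_lit 200)) (XT.lf (nat_lit 0) (nat_lit 39125785425) (nat_lit 76) (nat_lit 162407486077) (nat_lit 76) (nat_lit 161342321862) (nat_lit 1) (nat_lit 4) (nat_lit 2) (nat_lit 5) (nat_lit 2) (nat_lit 4) (nat_lit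 313) (nat_lit 208) (nat_lit 199)))))) (XT.nd (nat_lit 312) (nat_lit 0) (nat_lit 0) (XT.nd (nat_lit 156) (nat_lit 0) (nat_lit 0) (XT.nd (nat_lit 78) (nat_lit 0) (nat_lit 0) (XT.lf (nat_lit 0) (nat_lit 45304903892) (nat_lit 76) (nat_lit 173830501195) (nat_lit 76) (nat_lit 172686357313) (nat_lit 1) (nat_lit 4) (nat_lit 2) (nat_lit 5) (nat_lit 2) (nat_lit 4) (nat_lit 314) (nat_lit 208) (nat_lit 198)) (XT.lf (nat_lit 0) (nat_lit 51867526469) (nat_lit 76) (nat_lit 186218210230) (nat_lit 76) (nat_lit 185000937026) (nat_lit 1) (nat_lit 4) (nat_lit 2) (nat_lit 5) (nat_lit 2) (nat_lit 4) (nat_lit 315) (nat_lit 208) (nat_lit 197))) (XT.nd (nat_lit 78) (nat_lit 0) (nat_lit 0) (XT.lf (nat_lit 0) (nat_lit 58852542771) (nat_lit 76) (nat_lit 199644021829) (nat_lit 76) (nat_lit 198359036290) (nat_lit 1) (nat_lit 4) (nat_lit 2) (nat_lit 5) (nat_lit 2) (nat_lit 4) (nat_lit 316) (nat_lit 208) (nat_lit 196))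 (XT.lf (nat_lit 0) (nat_lit 66301345486) (nat_lit 76) (nat_lit 214187496355) (nat_lit 76) (nat_lit 212839814211) (nat_lit 1) (nat_lit 4) (nat_lit 2) (nat_lit 5) (nat_lit 2) (nat_lit 4) (nat_lit 317) (nat_lit 208) (nat_lit 195)))) (XT.nd (nat_lit 156) (nat_lit 0) (nat_lit 0) (XT.nd (nat_lit 78) (nat_lit 0) (nat_lit 0) (XT.lf (nat_lit 0) (nat_lit 74258075668) (nat_lit 76) (nat_lit 229934817363) (nat_lit 76) (nat_lit 228529082806) (nat_lit 1) (nat_lit 4) (nat_lit 2) (nat_lit 5) (nat_lit 2) (nat_lit 4) (nat_lit 318) (nat_lit 208) (nat_lit 194)) (XT.lf (nat_lit 0) (nat_lit 82769884311) (nat_lit 76) (nat_lit 246979302310) (nat_lit 76) (nat_lit 245519815518) (nat_lit 1) (nat_lit 4) (nat_lit 2) (nat_lit 5) (nat_lit 2) (nat_lit 4) (nat_lit 319) (nat_lit 208) (nat_lit 193))) (XT.nd (nat_lit 78) (nat_lit 0) (nat_lit 0) (XT.lf (nat_lit 0) (nat_lit 91887211762) (nat_lit 76) (nat_lit 265421955551)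 (nat_lit 76) (nat_lit 263912698172) (nat_lit 1) (nat_lit 4) (nat_lit 2) (nat_lit 5) (nat_lit 2) (nat_lit 4) (nat_lit 320) (nat_lit 208) (nat_lit 192)) (XT.nd (nat_lit 78) (nat_lit 0) (nat_lit 0) (XT.lf (nat_lit 0) (nat_lit 101664086627) (nat_lit 76) (nat_lit 285372066884) (nat_lit 76) (nat_lit 283816725627) (nat_lit 1) (nat_lit 4) (nat_lit 2) (nat_lit 5) (nat_lit 2) (nat_lit 4) (nat_lit 321) (nat_lit 208) (nat_lit 191)) (XT.lf (nat_lit 0) (nat_lit 112158445944) (nat_lit 76) (nat_lit 306947859189) (nat_lit 76) (nat_lit 305349847676) (nat_lit 1) (nat_lit 4) (nat_lit 2) (nat_lit 5) (nat_lit 2) (nat_lit 4) (nat_lit 322) (nat_lit 208) (nat_lit 190))))))) (XT.nd (nat_lit 36348) (nat_lit 0) (nat_lit 0) (XT.nd (nat_lit 35958) (nat_lit 0) (nat_lit 0) (XT.nd (nat_lit 156) (nat_lit 0) (nat_lit 0) (XT.nd (nat_lit 78) (nat_lit 0) (nat_lit 0) (XT.lf (nat_lit 0) (nat_lit 123432478509) (nat_lit 76) (nat_lit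 330277189014) (nat_lit 76) (nat_lit 328639668004) (nat_lit 1) (nat_lit 4) (nat_lit 2) (nat_lit 5) (nat_lit 2) (nat_lit 4) (nat_lit 323) (nat_lit 208) (nat_lit 189)) (XT.lf (nat_lit 0) (nat_lit 135552993402) (nat_lit 76) (nat_lit 355498304240) (nat_lit 76) (nat_lit 353824200362) (nat_lit 1) (nat_lit 4) (nat_lit 2) (nat_lit 5) (nat_lit 2) (nat_lit 4) (nat_lit 324) (nat_lit 208) (nat_lit 188))) (XT.nd (nat_lit 35724) (nat_lit 0) (nat_lit 76) (XT.lf (nat_lit 0) (nat_lit 148591815899) (nat_lit 76) (nat_lit 382760663327) (nat_lit 76) (nat_lit 381052686424) (nat_lit 1) (nat_lit 4) (nat_lit 2) (nat_lit 5) (nat_lit 2) (nat_lit 4) (nat_lit 325) (nat_lit 208) (nat_lit 187)) (XT.lf (nat_lit 0) (nat_lit 36044466813) (nat_lit 152) (nat_lit 6126611318) (nat_lit 0) (nat_lit 36044466813) (nat_lit 2) (nat_lit 5) (nat_lit 4) (nat_lit 4) (nat_lit 2) (nat_lit 4) (nat_lit 302) (nat_lit 209) (nat_lit 209))))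 (XT.nd (nat_lit 156) (nat_lit 76) (nat_lit 0) (XT.nd (nat_lit 78) (nat_lit 0) (nat_lit 0) (XT.lf (nat_lit 0) (nat_lit 80250793735) (nat_lit 152) (nat_lit 8483336077) (nat_lit 0) (nat_lit 80080282557) (nat_lit 2) (nat_lit 5) (nat_lit 4) (nat_lit 4) (nat_lit 2) (nat_lit 4) (nat_lit 303) (nat_lit 209) (nat_lit 208)) (XT.lf (nat_lit 0) (nat_lit 88939861752) (nat_lit 152) (nat_lit 4643464319) (nat_lit 0) (nat_lit 88611469854) (nat_lit 2) (nat_lit 5) (nat_lit 4) (nat_lit 4) (nat_lit 2) (nat_lit 4) (nat_lit 304) (nat_lit 209) (nat_lit 207))) (XT.nd (nat_lit 78) (nat_lit 76) (nat_lit 0) (XT.lf (nat_lit 0) (nat_lit 98207628451) (nat_lit 152) (nat_lit 710852568) (nat_lit 0) (nat_lit 97733050701) (nat_lit 2) (nat_lit 5) (nat_lit 4) (nat_lit 4) (nat_lit 2) (nat_lit 4) (nat_lit 305) (nat_lit 209) (nat_lit 206)) (XT.nd (nat_lit 78) (nat_lit 0) (nat_lit 0) (XT.lf (nat_lit 0) (nat_lit 3448166402) (nat_lit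 76) (nat_lit 104714683070) (nat_lit 76) (nat_lit 104104748050) (nat_lit 1) (nat_lit 4) (nat_lit 2) (nat_lit 5) (nat_lit 2) (nat_lit 4) (nat_lit 306) (nat_lit 209) (nat_lit 205)) (XT.lf (nat_lit 0) (nat_lit 7775356001) (nat_lit 76) (nat_lit 111048732167) (nat_lit 76) (nat_lit 110313466341) (nat_lit 1) (nat_lit 4) (nat_lit 2) (nat_lit 5) (nat_lit 2) (nat_lit 4) (nat_lit 307) (nat_lit 209) (nat_lit 204)))))) (XT.nd (nat_lit 390) (nat_lit 0) (nat_lit 0) (XT.nd (nat_lit 156) (nat_lit 0) (nat_lit 0) (XT.nd (nat_lit 78) (nat_lit 0) (nat_lit 0) (XT.lf (nat_lit 0) (nat_lit 12272854836) (nat_lit 76) (nat_lit 117970202048) (nat_lit 76) (nat_lit 117118889179) (nat_lit 1) (nat_lit 4) (nat_lit 2) (nat_lit 5) (nat_lit 2) (nat_lit 4) (nat_lit 308) (nat_lit 209) (nat_lit 203)) (XT.lf (nat_lit 0) (nat_lit 16967314753) (nat_lit 76) (nat_lit 125520108830) (nat_lit 76) (nat_lit 124561344996) (nat_lit 1) (nat_lit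 4) (nat_lit 2) (nat_lit 5) (nat_lit 2) (nat_lit 4) (nat_lit 309) (nat_lit 209) (nat_lit 202))) (XT.nd (nat_lit 78) (nat_lit 0) (nat_lit 0) (XT.lf (nat_lit 0) (nat_lit 21886554774) (nat_lit 76) (nat_lit 133743192703) (nat_lit 76) (nat_lit 132684937234) (nat_lit 1) (nat_lit 4) (nat_lit 2) (nat_lit 5) (nat_lit 2) (nat_lit 4) (nat_lit 310) (nat_lit 209) (nat_lit 201)) (XT.nd (nat_lit 78) (nat_lit 0) (nat_lit 0) (XT.lf (nat_lit 0) (nat_lit 27059725950) (nat_lit 76) (nat_lit 142688183051) (nat_lit 76) (nat_lit 141537805699) (nat_lit 1) (nat_lit 4) (nat_lit 2) (nat_lit 5) (nat_lit 2) (nat_lit 4) (nat_lit 311) (nat_lit 209) (nat_lit 200)) (XT.lf (nat_lit 0) (nat_lit 32517484110) (nat_lit 76) (nat_lit 152408087226) (nat_lit 76) (nat_lit 151172411833) (nat_lit 1) (nat_lit 4) (nat_lit 2) (nat_lit 5) (nat_lit 2) (nat_lit 4) (nat_lit 312) (nat_lit 209) (nat_lit 199))))) (XT.nd (nat_lit 156) (nat_lit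 0) (nat_lit 0) (XT.nd (nat_lit 78) (nat_lit 0) (nat_lit 0) (XT.lf (nat_lit 0) (nat_lit 38292171526) (nat_lit 76) (nat_lit 162960504659) (nat_lit 76) (nat_lit 161645849599) (nat_lit 1) (nat_lit 4) (nat_lit 2) (nat_lit 5) (nat_lit 2) (nat_lit 4) (nat_lit 313) (nat_lit 209) (nat_lit 198)) (XT.lf (nat_lit 0) (nat_lit 44418008567) (nat_lit 76) (nat_lit 174407968194) (nat_lit 76) (nat_lit 173020183813) (nat_lit 1) (nat_lit 4) (nat_lit 2) (nat_lit 5) (nat_lit 2) (nat_lit 4) (nat_lit 314) (nat_lit 209) (nat_lit 197))) (XT.nd (nat_lit 78) (nat_lit 0) (nat_lit 0) (XT.lf (nat_lit 0) (nat_lit 50931296489) (nat_lit 76) (nat_lit 186818314653) (nat_lit 76) (nat_lit 185362817937) (nat_lit 1) (nat_lit 4) (nat_lit 2) (nat_lit 5) (nat_lit 2) (nat_lit 4) (nat_lit 315) (nat_lit 209) (nat_lit 196)) (XT.nd (nat_lit 78) (nat_lit 0) (nat_lit 0) (XT.lf (nat_lit 0) (nat_lit 57870632555) (nat_lit 76) (nat_lit 200265086828)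 (nat_lit 76) (nat_lit 198746893506) (nat_lit 1) (nat_lit 4) (nat_lit 2) (nat_lit 5) (nat_lit 2) (nat_lit 4) (nat_lit 316) (nat_lit 209) (nat_lit 195)) (XT.lf (nat_lit 0) (nat_lit 65277138756) (nat_lit 76) (nat_lit 214827969297) (nat_lit 76) (nat_lit 213251723562) (nat_lit 1) (nat_lit 4) (nat_lit 2) (nat_lit 5) (nat_lit 2) (nat_lit 4) (nat_lit 317) (nat_lit 209) (nat_lit 194))))))))
noncomputable def xc4 : XT := (XT.nd (nat_lit 36894) (nat_lit 0) (nat_lit 0) (XT.nd (nat_lit 36192) (nat_lit 0) (nat_lit 0) (XT.nd (nat_lit 312) (nat_lit 0) (nat_lit 0) (XT.nd (nat_lit 156) (nat_lit 0) (nat_lit 0) (XT.nd (nat_lit 78) (nat_lit 0) (nat_lit 0) (XT.lf (nat_lit 0) (nat_lit 73194705498) (nat_lit 76) (nat_lit 230593260621) (nat_lit 76) (nat_lit 228963262652) (nat_lit 1) (nat_lit 4) (nat_lit 2) (nat_lit 5) (nat_lit 2) (nat_lit 4) (nat_lit 318) (nat_lit 209) (nat_lit 193)) (XT.lf (nat_lit 0) (nat_lit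 81670251697) (nat_lit 76) (nat_lit 247654384750) (nat_lit 76) (nat_lit 245974616193) (nat_lit 1) (nat_lit 4) (nat_lit 2) (nat_lit 5) (nat_lit 2) (nat_lit 4) (nat_lit 319) (nat_lit 209) (nat_lit 192))) (XT.nd (nat_lit 78) (nat_lit 0) (nat_lit 0) (XT.lf (nat_lit 0) (nat_lit 90754002811) (nat_lit 76) (nat_lit 266112444641) (nat_lit 76) (nat_lit 264386592207) (nat_lit 1) (nat_lit 4) (nat_lit 2) (nat_lit 5) (nat_lit 2) (nat_lit 4) (nat_lit 320) (nat_lit 209) (nat_lit 191)) (XT.lf (nat_lit 0) (nat_lit 100499788476) (nat_lit 76) (nat_lit 286076821390) (nat_lit 76) (nat_lit 284308298699) (nat_lit 1) (nat_lit 4) (nat_lit 2) (nat_lit 5) (nat_lit 2) (nat_lit 4) (nat_lit 321) (nat_lit 209) (nat_lit 190)))) (XT.nd (nat_lit 156) (nat_lit 0) (nat_lit 0) (XT.nd (nat_lit 78) (nat_lit 0) (nat_lit 0) (XT.lf (nat_lit 0) (nat_lit 110965361496) (nat_lit 76) (nat_lit 307665822414) (nat_lit 76) (nat_lit 305857790226)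 (nat_lit 1) (nat_lit 4) (nat_lit 2) (nat_lit 5) (nat_lit 2) (nat_lit 4) (nat_lit 322) (nat_lit 209) (nat_lit 189)) (XT.lf (nat_lit 0) (nat_lit 122212740081) (nat_lit 76) (nat_lit 331007382535) (nat_lit 76) (nat_lit 329162767480) (nat_lit 1) (nat_lit 4) (nat_lit 2) (nat_lit 5) (nat_lit 2) (nat_lit 4) (nat_lit 323) (nat_lit 209) (nat_lit 188))) (XT.nd (nat_lit 78) (nat_lit 0) (nat_lit 0) (XT.lf (nat_lit 0) (nat_lit 134308575365) (nat_lit 76) (nat_lit 356239822109) (nat_lit 76) (nat_lit 354361334028) (nat_lit 1) (nat_lit 4) (nat_lit 2) (nat_lit 5) (nat_lit 2) (nat_lit 4) (nat_lit 324) (nat_lit 209) (nat_lit 187)) (XT.nd (nat_lit 35568) (nat_lit 0) (nat_lit 76) (XT.lf (nat_lit 0) (nat_lit 147324546370) (nat_lit 76) (nat_lit 383512666703) (nat_lit 76) (nat_lit 381602814709) (nat_lit 1) (nat_lit 4) (nat_lit 2) (nat_lit 5) (nat_lit 2) (nat_lit 4) (nat_lit 325) (nat_lit 209) (nat_lit 186)) (XT.lf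 (nat_lit 0) (nat_lit 28705436051) (nat_lit 152) (nat_lit 9771120364) (nat_lit 0) (nat_lit 28705436051) (nat_lit 2) (nat_lit 5) (nat_lit 4) (nat_lit 4) (nat_lit 2) (nat_lit 4) (nat_lit 300) (nat_lit 210) (nat_lit 210)))))) (XT.nd (nat_lit 312) (nat_lit 76) (nat_lit 0) (XT.nd (nat_lit 156) (nat_lit 0) (nat_lit 0) (XT.nd (nat_lit 78) (nat_lit 0) (nat_lit 0) (XT.lf (nat_lit 0) (nat_lit 64590066921) (nat_lit 152) (nat_lit 15975464066) (nat_lit 0) (nat_lit 64405914850) (nat_lit 2) (nat_lit 5) (nat_lit 4) (nat_lit 4) (nat_lit 2) (nat_lit 4) (nat_lit 301) (nat_lit 210) (nat_lit 209)) (XT.lf (nat_lit 0) (nat_lit 72207797155) (nat_lit 152) (nat_lit 12373479456) (nat_lit 0) (nat_lit 71853133905) (nat_lit 2) (nat_lit 5) (nat_lit 4) (nat_lit 4) (nat_lit 2) (nat_lit 4) (nat_lit 302) (nat_lit 210) (nat_lit 208))) (XT.nd (nat_lit 78) (nat_lit 0) (nat_lit 0) (XT.lf (nat_lit 0) (nat_lit 80309204907) (nat_lit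 152) (nat_lit 8714941804) (nat_lit 0) (nat_lit 79796660937) (nat_lit 2) (nat_lit 5) (nat_lit 4) (nat_lit 4) (nat_lit 2) (nat_lit 4) (nat_lit 303) (nat_lit 210) (nat_lit 207)) (XT.lf (nat_lit 0) (nat_lit 88942298521) (nat_lit 152) (nat_lit 4978170886) (nat_lit 0) (nat_lit 88283568699) (nat_lit 2) (nat_lit 5) (nat_lit 4) (nat_lit 4) (nat_lit 2) (nat_lit 4) (nat_lit 304) (nat_lit 210) (nat_lit 206)))) (XT.nd (nat_lit 156) (nat_lit 0) (nat_lit 0) (XT.nd (nat_lit 78) (nat_lit 76) (nat_lit 0) (XT.lf (nat_lit 0) (nat_lit 98158237069) (nat_lit 152) (nat_lit 1141022874) (nat_lit 0) (nat_lit 97364149976) (nat_lit 2) (nat_lit 5) (nat_lit 4) (nat_lit 4) (nat_lit 2) (nat_lit 4) (nat_lit 305) (nat_lit 210) (nat_lit 205)) (XT.lf (nat_lit 0) (nat_lit 2912457720) (nat_lit 76) (nat_lit 105144647427) (nat_lit 76) (nat_lit 104225229529) (nat_lit 1) (nat_lit 4) (nat_lit 2) (nat_lit 5) (nat_lit 2) (nat_lit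 4) (nat_lit 306) (nat_lit 210) (nat_lit 204))) (XT.nd (nat_lit 78) (nat_lit 0) (nat_lit 0) (XT.lf (nat_lit 0) (nat_lit 7155096390) (nat_lit 76) (nat_lit 111517493090) (nat_lit 76) (nat_lit 110482028149) (nat_lit 1) (nat_lit 4) (nat_lit 2) (nat_lit 5) (nat_lit 2) (nat_lit 4) (nat_lit 307) (nat_lit 210) (nat_lit 203)) (XT.nd (nat_lit 78) (nat_lit 0) (nat_lit 0) (XT.lf (nat_lit 0) (nat_lit 11574307329) (nat_lit 76) (nat_lit 118474885716) (nat_lit 76) (nat_lit 117331969810) (nat_lit 1) (nat_lit 4) (nat_lit 2) (nat_lit 5) (nat_lit 2) (nat_lit 4) (nat_lit 308) (nat_lit 210) (nat_lit 202)) (XT.lf (nat_lit 0) (nat_lit 16196278452) (nat_lit 76) (nat_lit 126058054300) (nat_lit 76) (nat_lit 124815646760) (nat_lit 1) (nat_lit 4) (nat_lit 2) (nat_lit 5) (nat_lit 2) (nat_lit 4) (nat_lit 309) (nat_lit 210) (nat_lit 201))))))) (XT.nd (nat_lit 702) (nat_lit 0) (nat_lit 0) (XT.nd (nat_lit 312) (nat_lit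 0) (nat_lit 0) (XT.nd (nat_lit 156) (nat_lit 0) (nat_lit 0) (XT.nd (nat_lit 78) (nat_lit 0) (nat_lit 0) (XT.lf (nat_lit 0) (nat_lit 21048399220) (nat_lit 76) (nat_lit 134311936138) (nat_lit 76) (nat_lit 132977406713) (nat_lit 1) (nat_lit 4) (nat_lit 2) (nat_lit 5) (nat_lit 2) (nat_lit 4) (nat_lit 310) (nat_lit 210) (nat_lit 200)) (XT.lf (nat_lit 0) (nat_lit 26159422939) (nat_lit 76) (nat_lit 143285443120) (nat_lit 76) (nat_lit 141865615655) (nat_lit 1) (nat_lit 4) (nat_lit 2) (nat_lit 5) (nat_lit 2) (nat_lit 4) (nat_lit 311) (nat_lit 210) (nat_lit 199))) (XT.nd (nat_lit 78) (nat_lit 0) (nat_lit 0) (XT.lf (nat_lit 0) (nat_lit 31559637159) (nat_lit 76) (nat_lit 153031751585) (nat_lit 76) (nat_lit 151532944453) (nat_lit 1) (nat_lit 4) (nat_lit 2) (nat_lit 5) (nat_lit 2) (nat_lit 4) (nat_lit 312) (nat_lit 210) (nat_lit 198)) (XT.lf (nat_lit 0) (nat_lit 37281043148) (nat_lit 76) (nat_lit 163608617435)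 (nat_lit 76) (nat_lit 162036680982) (nat_lit 1) (nat_lit 4) (nat_lit 2) (nat_lit 5) (nat_lit 2) (nat_lit 4) (nat_lit 313) (nat_lit 210) (nat_lit 197)))) (XT.nd (nat_lit 156) (nat_lit 0) (nat_lit 0) (XT.nd (nat_lit 78) (nat_lit 0) (nat_lit 0) (XT.lf (nat_lit 0) (nat_lit 43357545534) (nat_lit 76) (nat_lit 175078718394) (nat_lit 76) (nat_lit 173439069606) (nat_lit 1) (nat_lit 4) (nat_lit 2) (nat_lit 5) (nat_lit 2) (nat_lit 4) (nat_lit 314) (nat_lit 210) (nat_lit 196)) (XT.lf (nat_lit 0) (nat_lit 49825153220) (nat_lit 76) (nat_lit 187510025429) (nat_lit 76) (nat_lit 185807680035) (nat_lit 1) (nat_lit 4) (nat_lit 2) (nat_lit 5) (nat_lit 2) (nat_lit 4) (nat_lit 315) (nat_lit 210) (nat_lit 195))) (XT.nd (nat_lit 78) (nat_lit 0) (nat_lit 0) (XT.lf (nat_lit 0) (nat_lit 56722192772) (nat_lit 76) (nat_lit 200976205547) (nat_lit 76) (nat_lit 199215807740) (nat_lit 1) (nat_lit 4) (nat_lit 2) (nat_lit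 5) (nat_lit 2) (nat_lit 4) (nat_lit 316) (nat_lit 210) (nat_lit 194)) (XT.nd (nat_lit 78) (nat_lit 0) (nat_lit 0) (XT.lf (nat_lit 0) (nat_lit 64089535533) (nat_lit 76) (nat_lit 215557058332) (nat_lit 76) (nat_lit 213742908290) (nat_lit 1) (nat_lit 4) (nat_lit 2) (nat_lit 5) (nat_lit 2) (nat_lit 4) (nat_lit 317) (nat_lit 210) (nat_lit 193)) (XT.lf (nat_lit 0) (nat_lit 71970839832) (nat_lit 76) (nat_lit 231338988838) (nat_lit 76) (nat_lit 229475068209) (nat_lit 1) (nat_lit 4) (nat_lit 2) (nat_lit 5) (nat_lit 2) (nat_lit 4) (nat_lit 318) (nat_lit 210) (nat_lit 192)))))) (XT.nd (nat_lit 390) (nat_lit 0) (nat_lit 0) (XT.nd (nat_lit 156) (nat_lit 0) (nat_lit 0) (XT.nd (nat_lit 78) (nat_lit 0) (nat_lit 0) (XT.lf (nat_lit 0) (nat_lit 80412809693) (nat_lit 76) (nat_lit 248415519617) (nat_lit 76) (nat_lit 246505515111) (nat_lit 1) (nat_lit 4) (nat_lit 2) (nat_lit 5) (nat_lit 2) (nat_lit 4) (nat_lit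 319) (nat_lit 210) (nat_lit 191)) (XT.lf (nat_lit 0) (nat_lit 89465471606) (nat_lit 76) (nat_lit 266887844925) (nat_lit 76) (nat_lit 264935170162) (nat_lit 1) (nat_lit 4) (nat_lit 2) (nat_lit 5) (nat_lit 2) (nat_lit 4) (nat_lit 320) (nat_lit 210) (nat_lit 190))) (XT.nd (nat_lit 78) (nat_lit 0) (nat_lit 0) (XT.lf (nat_lit 0) (nat_lit 99182470974) (nat_lit 76) (nat_lit 286865430393) (nat_lit 76) (nat_lit 284873246133) (nat_lit 1) (nat_lit 4) (nat_lit 2) (nat_lit 5) (nat_lit 2) (nat_lit 4) (nat_lit 321) (nat_lit 210) (nat_lit 189)) (XT.nd (nat_lit 78) (nat_lit 0) (nat_lit 0) (XT.lf (nat_lit 0) (nat_lit 109621390015) (nat_lit 76) (nat_lit 308466661712) (nat_lit 76) (nat_lit 306437894585) (nat_lit 1) (nat_lit 4) (nat_lit 2) (nat_lit 5) (nat_lit 2) (nat_lit 4) (nat_lit 322) (nat_lit 210) (nat_lit 188)) (XT.lf (nat_lit 0) (nat_lit 120844088990) (nat_lit 76) (nat_lit 331819546181) (nat_lit 76)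 (nat_lit 329756906028) (nat_lit 1) (nat_lit 4) (nat_lit 2) (nat_lit 5) (nat_lit 2) (nat_lit 4) (nat_lit 323) (nat_lit 210) (nat_lit 187))))) (XT.nd (nat_lit 35490) (nat_lit 0) (nat_lit 76) (XT.nd (nat_lit 78) (nat_lit 0) (nat_lit 0) (XT.lf (nat_lit 0) (nat_lit 132917072783) (nat_lit 76) (nat_lit 357062471261) (nat_lit 76) (nat_lit 354968467196) (nat_lit 1) (nat_lit 4) (nat_lit 2) (nat_lit 5) (nat_lit 2) (nat_lit 4) (nat_lit 324) (nat_lit 210) (nat_lit 186)) (XT.lf (nat_lit 0) (nat_lit 145911885001) (nat_lit 76) (nat_lit 384345024658) (nat_lit 76) (nat_lit 382221979933) (nat_lit 1) (nat_lit 4) (nat_lit 2) (nat_lit 5) (nat_lit 2) (nat_lit 4) (nat_lit 325) (nat_lit 210) (nat_lit 185))) (XT.nd (nat_lit 78) (nat_lit 0) (nat_lit 0) (XT.lf (nat_lit 0) (nat_lit 22237649307) (nat_lit 152) (nat_lit 13257182541) (nat_lit 0) (nat_lit 22237649307) (nat_lit 2) (nat_lit 5) (nat_lit 4) (nat_lit 4) (nat_lit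 2) (nat_lit 4) (nat_lit 298) (nat_lit 211) (nat_lit 211)) (XT.nd (nat_lit 78) (nat_lit 0) (nat_lit 0) (XT.lf (nat_lit 0) (nat_lit 50826553558) (nat_lit 152) (nat_lit 23094945896) (nat_lit 0) (nat_lit 50627669320) (nat_lit 2) (nat_lit 5) (nat_lit 4) (nat_lit 4) (nat_lit 2) (nat_lit 4) (nat_lit 299) (nat_lit 211) (nat_lit 210)) (XT.lf (nat_lit 0) (nat_lit 57539244712) (nat_lit 152) (nat_lit 19672118093) (nat_lit 0) (nat_lit 57156208403) (nat_lit 2) (nat_lit 5) (nat_lit 4) (nat_lit 4) (nat_lit 2) (nat_lit 4) (nat_lit 300) (nat_lit 211) (nat_lit 209))))))))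
noncomputable def xc5 : XT := (XT.nd (nat_lit 1404) (nat_lit 0) (nat_lit 0) (XT.nd (nat_lit 702) (nat_lit 0) (nat_lit 0) (XT.nd (nat_lit 312) (nat_lit 76) (nat_lit 0) (XT.nd (nat_lit 156) (nat_lit 0) (nat_lit 0) (XT.nd (nat_lit 78) (nat_lit 0) (nat_lit 0) (XT.lf (nat_lit 0) (nat_lit 64653150988) (nat_lit 152) (nat_lit 16225598251) (nat_lit 0) (nat_lit 64099603500) (nat_lit 2) (nat_lit 5) (nat_lit 4) (nat_lit 4) (nat_lit 2) (nat_lit 4) (nat_lit 301) (nat_lit 211) (nat_lit 208)) (XT.lf (nat_lit 0) (nat_lit 72210428865) (nat_lit 152) (nat_lit 12734962548) (nat_lit 0) (nat_lit 71499000658) (nat_lit 2) (nat_lit 5) (nat_lit 4) (nat_lit 4) (nat_lit 2) (nat_lit 4) (nat_lit 302) (nat_lit 211) (nat_lit 207))) (XT.nd (nat_lit 78) (nat_lit 0) (nat_lit 0) (XT.lf (nat_lit 0) (nat_lit 80255862214) (nat_lit 152) (nat_lit 9179525735) (nat_lit 0) (nat_lit 79398248155) (nat_lit 2) (nat_lit 5) (nat_lit 4)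 (nat_lit 4) (nat_lit 2) (nat_lit 4) (nat_lit 303) (nat_lit 211) (nat_lit 206)) (XT.lf (nat_lit 0) (nat_lit 88837127676) (nat_lit 152) (nat_lit 5538218557) (nat_lit 0) (nat_lit 87844156347) (nat_lit 2) (nat_lit 5) (nat_lit 4) (nat_lit 4) (nat_lit 2) (nat_lit 4) (nat_lit 304) (nat_lit 211) (nat_lit 205)))) (XT.nd (nat_lit 156) (nat_lit 0) (nat_lit 0) (XT.nd (nat_lit 78) (nat_lit 76) (nat_lit 0) (XT.lf (nat_lit 0) (nat_lit 98005077196) (nat_lit 152) (nat_lit 1789462898) (nat_lit 0) (nat_lit 96886775060) (nat_lit 2) (nat_lit 5) (nat_lit 4) (nat_lit 4) (nat_lit 2) (nat_lit 4) (nat_lit 305) (nat_lit 211) (nat_lit 204)) (XT.lf (nat_lit 0) (nat_lit 2158026411) (nat_lit 76) (nat_lit 105689705790) (nat_lit 76) (nat_lit 104455356611) (nat_lit 1) (nat_lit 4) (nat_lit 2) (nat_lit 5) (nat_lit 2) (nat_lit 4) (nat_lit 306) (nat_lit 211) (nat_lit 203))) (XT.nd (nat_lit 78) (nat_lit 0) (nat_lit 0) (XT.lf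 (nat_lit 0) (nat_lit 6322377185) (nat_lit 76) (nat_lit 112098474198) (nat_lit 76) (nat_lit 110756674054) (nat_lit 1) (nat_lit 4) (nat_lit 2) (nat_lit 5) (nat_lit 2) (nat_lit 4) (nat_lit 307) (nat_lit 211) (nat_lit 202)) (XT.nd (nat_lit 78) (nat_lit 0) (nat_lit 0) (XT.lf (nat_lit 0) (nat_lit 10669099330) (nat_lit 76) (nat_lit 119089128626) (nat_lit 76) (nat_lit 117647836848) (nat_lit 1) (nat_lit 4) (nat_lit 2) (nat_lit 5) (nat_lit 2) (nat_lit 4) (nat_lit 308) (nat_lit 211) (nat_lit 201)) (XT.lf (nat_lit 0) (nat_lit 15223951201) (nat_lit 76) (nat_lit 126703095175) (nat_lit 76) (nat_lit 125169681513) (nat_lit 1) (nat_lit 4) (nat_lit 2) (nat_lit 5) (nat_lit 2) (nat_lit 4) (nat_lit 309) (nat_lit 211) (nat_lit 200)))))) (XT.nd (nat_lit 312) (nat_lit 0) (nat_lit 0) (XT.nd (nat_lit 156) (nat_lit 0) (nat_lit 0) (XT.nd (nat_lit 78) (nat_lit 0) (nat_lit 0) (XT.lf (nat_lit 0) (nat_lit 20013924512)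 (nat_lit 76) (nat_lit 134985493645) (nat_lit 76) (nat_lit 133366781943) (nat_lit 1) (nat_lit 4) (nat_lit 2) (nat_lit 5) (nat_lit 2) (nat_lit 4) (nat_lit 310) (nat_lit 211) (nat_lit 199)) (XT.lf (nat_lit 0) (nat_lit 25067404291) (nat_lit 76) (nat_lit 143985404918) (nat_lit 76) (nat_lit 142287713549) (nat_lit 1) (nat_lit 4) (nat_lit 2) (nat_lit 5) (nat_lit 2) (nat_lit 4) (nat_lit 311) (nat_lit 211) (nat_lit 198))) (XT.nd (nat_lit 78) (nat_lit 0) (nat_lit 0) (XT.lf (nat_lit 0) (nat_lit 30414337083) (nat_lit 76) (nat_lit 153756161801) (nat_lit 76) (nat_lit 151985341110) (nat_lit 1) (nat_lit 4) (nat_lit 2) (nat_lit 5) (nat_lit 2) (nat_lit 4) (nat_lit 312) (nat_lit 211) (nat_lit 197)) (XT.lf (nat_lit 0) (nat_lit 36086408417) (nat_lit 76) (nat_lit 164355665074) (nat_lit 76) (nat_lit 162517132048) (nat_lit 1) (nat_lit 4) (nat_lit 2) (nat_lit 5) (nat_lit 2) (nat_lit 4) (nat_lit 313) (nat_lit 211)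 (nat_lit 196)))) (XT.nd (nat_lit 156) (nat_lit 0) (nat_lit 0) (XT.nd (nat_lit 78) (nat_lit 0) (nat_lit 0) (XT.lf (nat_lit 0) (nat_lit 42117230568) (nat_lit 76) (nat_lit 175846726610) (nat_lit 76) (nat_lit 173945496978) (nat_lit 1) (nat_lit 4) (nat_lit 2) (nat_lit 5) (nat_lit 2) (nat_lit 4) (nat_lit 314) (nat_lit 211) (nat_lit 195)) (XT.lf (nat_lit 0) (nat_lit 48542541740) (nat_lit 76) (nat_lit 188297441587) (nat_lit 76) (nat_lit 186338159542) (nat_lit 1) (nat_lit 4) (nat_lit 2) (nat_lit 5) (nat_lit 2) (nat_lit 4) (nat_lit 315) (nat_lit 211) (nat_lit 194))) (XT.nd (nat_lit 78) (nat_lit 0) (nat_lit 0) (XT.lf (nat_lit 0) (nat_lit 55400417851) (nat_lit 76) (nat_lit 201781592021) (nat_lit 76) (nat_lit 199768557742) (nat_lit 1) (nat_lit 4) (nat_lit 2) (nat_lit 5) (nat_lit 2) (nat_lit 4) (nat_lit 316) (nat_lit 211) (nat_lit 193)) (XT.nd (nat_lit 78) (nat_lit 0) (nat_lit 0) (XT.lf (nat_lit 0)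 (nat_lit 62731498169) (nat_lit 76) (nat_lit 216379083988) (nat_lit 76) (nat_lit 214316279121) (nat_lit 1) (nat_lit 4) (nat_lit 2) (nat_lit 5) (nat_lit 2) (nat_lit 4) (nat_lit 317) (nat_lit 211) (nat_lit 192)) (XT.lf (nat_lit 0) (nat_lit 70579226130) (nat_lit 76) (nat_lit 232176421145) (nat_lit 76) (nat_lit 230067532401) (nat_lit 1) (nat_lit 4) (nat_lit 2) (nat_lit 5) (nat_lit 2) (nat_lit 4) (nat_lit 318) (nat_lit 211) (nat_lit 191))))))) (XT.nd (nat_lit 35880) (nat_lit 0) (nat_lit 0) (XT.nd (nat_lit 312) (nat_lit 0) (nat_lit 0) (XT.nd (nat_lit 156) (nat_lit 0) (nat_lit 0) (XT.nd (nat_lit 78) (nat_lit 0) (nat_lit 0) (XT.lf (nat_lit 0) (nat_lit 78990106791) (nat_lit 76) (nat_lit 249267217340) (nat_lit 76) (nat_lit 247115658339) (nat_lit 1) (nat_lit 4) (nat_lit 2) (nat_lit 5) (nat_lit 2) (nat_lit 4) (nat_lit 319) (nat_lit 211) (nat_lit 190)) (XT.lf (nat_lit 0) (nat_lit 88013982407) (nat_lit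 76) (nat_lit 267752751367) (nat_lit 76) (nat_lit 265561682869) (nat_lit 1) (nat_lit 4) (nat_lit 2) (nat_lit 5) (nat_lit 2) (nat_lit 4) (nat_lit 320) (nat_lit 211) (nat_lit 189))) (XT.nd (nat_lit 78) (nat_lit 0) (nat_lit 0) (XT.lf (nat_lit 0) (nat_lit 97704327795) (nat_lit 76) (nat_lit 287742567130) (nat_lit 76) (nat_lit 285514915765) (nat_lit 1) (nat_lit 4) (nat_lit 2) (nat_lit 5) (nat_lit 2) (nat_lit 4) (nat_lit 321) (nat_lit 211) (nat_lit 188)) (XT.lf (nat_lit 0) (nat_lit 108118567227) (nat_lit 76) (nat_lit 309355122797) (nat_lit 76) (nat_lit 307093598407) (nat_lit 1) (nat_lit 4) (nat_lit 2) (nat_lit 5) (nat_lit 2) (nat_lit 4) (nat_lit 322) (nat_lit 211) (nat_lit 187)))) (XT.nd (nat_lit 156) (nat_lit 0) (nat_lit 0) (XT.nd (nat_lit 78) (nat_lit 0) (nat_lit 0) (XT.lf (nat_lit 0) (nat_lit 119318414711) (nat_lit 76) (nat_lit 332718492773) (nat_lit 76) (nat_lit 330425604470) (nat_lit 1)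 (nat_lit 4) (nat_lit 2) (nat_lit 5) (nat_lit 2) (nat_lit 4) (nat_lit 323) (nat_lit 211) (nat_lit 186)) (XT.lf (nat_lit 0) (nat_lit 131370239716) (nat_lit 76) (nat_lit 357971126656) (nat_lit 76) (nat_lit 355649197693) (nat_lit 1) (nat_lit 4) (nat_lit 2) (nat_lit 5) (nat_lit 2) (nat_lit 4) (nat_lit 324) (nat_lit 211) (nat_lit 185))) (XT.nd (nat_lit 35256) (nat_lit 0) (nat_lit 76) (XT.lf (nat_lit 0) (nat_lit 144345460464) (nat_lit 76) (nat_lit 385262669685) (nat_lit 76) (nat_lit 382913851223) (nat_lit 1) (nat_lit 4) (nat_lit 2) (nat_lit 5) (nat_lit 2) (nat_lit 4) (nat_lit 325) (nat_lit 211) (nat_lit 184)) (XT.nd (nat_lit 78) (nat_lit 0) (nat_lit 0) (XT.lf (nat_lit 0) (nat_lit 16502753819) (nat_lit 152) (nat_lit 16636320715) (nat_lit 0) (nat_lit 16502753819) (nat_lit 2) (nat_lit 5) (nat_lit 4) (nat_lit 4) (nat_lit 2) (nat_lit 4) (nat_lit 296) (nat_lit 212) (nat_lit 212)) (XT.lf (nat_lit 0)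 (nat_lit 38662637790) (nat_lit 152) (nat_lit 29950638879) (nat_lit 0) (nat_lit 38447842813) (nat_lit 2) (nat_lit 5) (nat_lit 4) (nat_lit 4) (nat_lit 2) (nat_lit 4) (nat_lit 297) (nat_lit 212) (nat_lit 211)))))) (XT.nd (nat_lit 390) (nat_lit 76) (nat_lit 0) (XT.nd (nat_lit 156) (nat_lit 0) (nat_lit 0) (XT.nd (nat_lit 78) (nat_lit 0) (nat_lit 0) (XT.lf (nat_lit 0) (nat_lit 44613941033) (nat_lit 152) (nat_lit 26654632637) (nat_lit 0) (nat_lit 44200261818) (nat_lit 2) (nat_lit 5) (nat_lit 4) (nat_lit 4) (nat_lit 2) (nat_lit 4) (nat_lit 298) (nat_lit 212) (nat_lit 210)) (XT.lf (nat_lit 0) (nat_lit 50894684349) (nat_lit 152) (nat_lit 23365090815) (nat_lit 0) (nat_lit 50296853063) (nat_lit 2) (nat_lit 5) (nat_lit 4) (nat_lit 4) (nat_lit 2) (nat_lit 4) (nat_lit 299) (nat_lit 212) (nat_lit 209))) (XT.nd (nat_lit 78) (nat_lit 0) (nat_lit 0) (XT.lf (nat_lit 0) (nat_lit 57542086960) (nat_lit 152)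 (nat_lit 20062519832) (nat_lit 0) (nat_lit 56773744496) (nat_lit 2) (nat_lit 5) (nat_lit 4) (nat_lit 4) (nat_lit 2) (nat_lit 4) (nat_lit 300) (nat_lit 212) (nat_lit 208)) (XT.nd (nat_lit 78) (nat_lit 0) (nat_lit 0) (XT.lf (nat_lit 0) (nat_lit 64595540879) (nat_lit 152) (nat_lit 16727348897) (nat_lit 0) (nat_lit 63669317695) (nat_lit 2) (nat_lit 5) (nat_lit 4) (nat_lit 4) (nat_lit 2) (nat_lit 4) (nat_lit 301) (nat_lit 212) (nat_lit 207)) (XT.lf (nat_lit 0) (nat_lit 72096844354) (nat_lit 152) (nat_lit 13339814033) (nat_lit 0) (nat_lit 71024435317) (nat_lit 2) (nat_lit 5) (nat_lit 4) (nat_lit 4) (nat_lit 2) (nat_lit 4) (nat_lit 302) (nat_lit 212) (nat_lit 206))))) (XT.nd (nat_lit 156) (nat_lit 76) (nat_lit 0) (XT.nd (nat_lit 78) (nat_lit 0) (nat_lit 0) (XT.lf (nat_lit 0) (nat_lit 80090449551) (nat_lit 152) (nat_lit 9879840961) (nat_lit 0) (nat_lit 78882683245) (nat_lit 2) (nat_lit 5) (nat_lit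 4) (nat_lit 4) (nat_lit 2) (nat_lit 4) (nat_lit 303) (nat_lit 212) (nat_lit 205)) (XT.lf (nat_lit 0) (nat_lit 88623725985) (nat_lit 152) (nat_lit 6326926136) (nat_lit 0) (nat_lit 87290628872) (nat_lit 2) (nat_lit 5) (nat_lit 4) (nat_lit 4) (nat_lit 2) (nat_lit 4) (nat_lit 304) (nat_lit 212) (nat_lit 204))) (XT.nd (nat_lit 78) (nat_lit 76) (nat_lit 0) (XT.lf (nat_lit 0) (nat_lit 97747241218) (nat_lit 152) (nat_lit 2660015248) (nat_lit 0) (nat_lit 96298097063) (nat_lit 2) (nat_lit 5) (nat_lit 4) (nat_lit 4) (nat_lit 2) (nat_lit 4) (nat_lit 305) (nat_lit 212) (nat_lit 203)) (XT.nd (nat_lit 78) (nat_lit 0) (nat_lit 0) (XT.lf (nat_lit 0) (nat_lit 1180401773) (nat_lit 76) (nat_lit 106353088132) (nat_lit 76) (nat_lit 104796493012) (nat_lit 1) (nat_lit 4) (nat_lit 2) (nat_lit 5) (nat_lit 2) (nat_lit 4) (nat_lit 306) (nat_lit 212) (nat_lit 202)) (XT.lf (nat_lit 0) (nat_lit 5272263754) (nat_lit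 76) (nat_lit 112795118342) (nat_lit 76) (nat_lit 111139031587) (nat_lit 1) (nat_lit 4) (nat_lit 2) (nat_lit 5) (nat_lit 2) (nat_lit 4) (nat_lit 307) (nat_lit 212) (nat_lit 201))))))))
noncomputable def xc6 : XT := (XT.nd (nat_lit 36426) (nat_lit 0) (nat_lit 0) (XT.nd (nat_lit 702) (nat_lit 0) (nat_lit 0) (XT.nd (nat_lit 312) (nat_lit 0) (nat_lit 0) (XT.nd (nat_lit 156) (nat_lit 0) (nat_lit 0) (XT.nd (nat_lit 78) (nat_lit 0) (nat_lit 0) (XT.lf (nat_lit 0) (nat_lit 9551866646) (nat_lit 76) (nat_lit 119816570735) (nat_lit 76) (nat_lit 118068362096) (nat_lit 1) (nat_lit 4) (nat_lit 2) (nat_lit 5) (nat_lit 2) (nat_lit 4) (nat_lit 308) (nat_lit 212) (nat_lit 200)) (XT.lf (nat_lit 0) (nat_lit 14044571061) (nat_lit 76) (nat_lit 127459053917) (nat_lit 76) (nat_lit 125625547238) (nat_lit 1) (nat_lit 4) (nat_lit 2) (nat_lit 5) (nat_lit 2) (nat_lit 4) (nat_lit 309) (nat_lit 212) (nat_lit 199))) (XT.nd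 (nat_lit 78) (nat_lit 0) (nat_lit 0) (XT.lf (nat_lit 0) (nat_lit 18777000430) (nat_lit 76) (nat_lit 135767856678) (nat_lit 76) (nat_lit 133855370332) (nat_lit 1) (nat_lit 4) (nat_lit 2) (nat_lit 5) (nat_lit 2) (nat_lit 4) (nat_lit 310) (nat_lit 212) (nat_lit 198)) (XT.lf (nat_lit 0) (nat_lit 23777198782) (nat_lit 76) (nat_lit 144792216368) (nat_lit 76) (nat_lit 142806600701) (nat_lit 1) (nat_lit 4) (nat_lit 2) (nat_lit 5) (nat_lit 2) (nat_lit 4) (nat_lit 311) (nat_lit 212) (nat_lit 197)))) (XT.nd (nat_lit 156) (nat_lit 0) (nat_lit 0) (XT.nd (nat_lit 78) (nat_lit 0) (nat_lit 0) (XT.lf (nat_lit 0) (nat_lit 29074796919) (nat_lit 76) (nat_lit 154585610674) (nat_lit 76) (nat_lit 152532282671) (nat_lit 1) (nat_lit 4) (nat_lit 2) (nat_lit 5) (nat_lit 2) (nat_lit 4) (nat_lit 312) (nat_lit 212) (nat_lit 196)) (XT.lf (nat_lit 0) (nat_lit 34701188018) (nat_lit 76) (nat_lit 165206074525) (nat_lit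 76) (nat_lit 163090049916) (nat_lit 1) (nat_lit 4) (nat_lit 2) (nat_lit 5) (nat_lit 2) (nat_lit 4) (nat_lit 313) (nat_lit 212) (nat_lit 195))) (XT.nd (nat_lit 78) (nat_lit 0) (nat_lit 0) (XT.lf (nat_lit 0) (nat_lit 40689713654) (nat_lit 76) (nat_lit 176716544002) (nat_lit 76) (nat_lit 174542466980) (nat_lit 1) (nat_lit 4) (nat_lit 2) (nat_lit 5) (nat_lit 2) (nat_lit 4) (nat_lit 314) (nat_lit 212) (nat_lit 194)) (XT.nd (nat_lit 78) (nat_lit 0) (nat_lit 0) (XT.lf (nat_lit 0) (nat_lit 47075861386) (nat_lit 76) (nat_lit 189185229296) (nat_lit 76) (nat_lit 186957400040) (nat_lit 1) (nat_lit 4) (nat_lit 2) (nat_lit 5) (nat_lit 2) (nat_lit 4) (nat_lit 315) (nat_lit 212) (nat_lit 193)) (XT.lf (nat_lit 0) (nat_lit 53897475054) (nat_lit 76) (nat_lit 202686018912) (nat_lit 76) (nat_lit 200408419068) (nat_lit 1) (nat_lit 4) (nat_lit 2) (nat_lit 5) (nat_lit 2) (nat_lit 4) (nat_lit 316) (nat_lit 212)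 (nat_lit 192)))))) (XT.nd (nat_lit 312) (nat_lit 0) (nat_lit 0) (XT.nd (nat_lit 156) (nat_lit 0) (nat_lit 0) (XT.nd (nat_lit 78) (nat_lit 0) (nat_lit 0) (XT.lf (nat_lit 0) (nat_lit 61194979034) (nat_lit 76) (nat_lit 217298917529) (nat_lit 76) (nat_lit 214975233808) (nat_lit 1) (nat_lit 4) (nat_lit 2) (nat_lit 5) (nat_lit 2) (nat_lit 4) (nat_lit 317) (nat_lit 212) (nat_lit 191)) (XT.lf (nat_lit 0) (nat_lit 69011617795) (nat_lit 76) (nat_lit 233110520102) (nat_lit 76) (nat_lit 230744166124) (nat_lit 1) (nat_lit 4) (nat_lit 2) (nat_lit 5) (nat_lit 2) (nat_lit 4) (nat_lit 318) (nat_lit 212) (nat_lit 190))) (XT.nd (nat_lit 78) (nat_lit 0) (nat_lit 0) (XT.lf (nat_lit 0) (nat_lit 77393712159) (nat_lit 76) (nat_lit 250214525016) (nat_lit 76) (nat_lit 247808661542) (nat_lit 1) (nat_lit 4) (nat_lit 2) (nat_lit 5) (nat_lit 2) (nat_lit 4) (nat_lit 319) (nat_lit 212) (nat_lit 189)) (XT.lf (nat_lit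 0) (nat_lit 86390933795) (nat_lit 76) (nat_lit 268712289338) (nat_lit 76) (nat_lit 266269842996) (nat_lit 1) (nat_lit 4) (nat_lit 2) (nat_lit 5) (nat_lit 2) (nat_lit 4) (nat_lit 320) (nat_lit 212) (nat_lit 188)))) (XT.nd (nat_lit 156) (nat_lit 0) (nat_lit 0) (XT.nd (nat_lit 78) (nat_lit 0) (nat_lit 0) (XT.lf (nat_lit 0) (nat_lit 96056599574) (nat_lit 76) (nat_lit 288713429449) (nat_lit 76) (nat_lit 286237110082) (nat_lit 1) (nat_lit 4) (nat_lit 2) (nat_lit 5) (nat_lit 2) (nat_lit 4) (nat_lit 321) (nat_lit 212) (nat_lit 187)) (XT.lf (nat_lit 0) (nat_lit 106447987515) (nat_lit 76) (nat_lit 310336470624) (nat_lit 76) (nat_lit 307828787344) (nat_lit 1) (nat_lit 4) (nat_lit 2) (nat_lit 5) (nat_lit 2) (nat_lit 4) (nat_lit 322) (nat_lit 212) (nat_lit 186))) (XT.nd (nat_lit 78) (nat_lit 0) (nat_lit 0) (XT.lf (nat_lit 0) (nat_lit 117626676212) (nat_lit 76) (nat_lit 333709549402) (nat_lit 76) (nat_lit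 331172825462) (nat_lit 1) (nat_lit 4) (nat_lit 2) (nat_lit 5) (nat_lit 2) (nat_lit 4) (nat_lit 323) (nat_lit 212) (nat_lit 185)) (XT.nd (nat_lit 78) (nat_lit 0) (nat_lit 0) (XT.lf (nat_lit 0) (nat_lit 129658909746) (nat_lit 76) (nat_lit 358971172918) (nat_lit 76) (nat_lit 356407559478) (nat_lit 1) (nat_lit 4) (nat_lit 2) (nat_lit 5) (nat_lit 2) (nat_lit 4) (nat_lit 324) (nat_lit 212) (nat_lit 184)) (XT.lf (nat_lit 0) (nat_lit 142615990244) (nat_lit 76) (nat_lit 386271039681) (nat_lit 76) (nat_lit 383682528556) (nat_lit 1) (nat_lit 4) (nat_lit 2) (nat_lit 5) (nat_lit 2) (nat_lit 4) (nat_lit 325) (nat_lit 212) (nat_lit 183))))))) (XT.nd (nat_lit 702) (nat_lit 76) (nat_lit 0) (XT.nd (nat_lit 312) (nat_lit 0) (nat_lit 0) (XT.nd (nat_lit 156) (nat_lit 0) (nat_lit 0) (XT.nd (nat_lit 78) (nat_lit 0) (nat_lit 0) (XT.lf (nat_lit 0) (nat_lit 11381009591) (nat_lit 152) (nat_lit 19955020928) (nat_lit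 0) (nat_lit 11381009591) (nat_lit 2) (nat_lit 5) (nat_lit 4) (nat_lit 4) (nat_lit 2) (nat_lit 4) (nat_lit 294) (nat_lit 213) (nat_lit 213)) (XT.lf (nat_lit 0) (nat_lit 27841005421) (nat_lit 152) (nat_lit 36640326231) (nat_lit 0) (nat_lit 27609026846) (nat_lit 2) (nat_lit 5) (nat_lit 4) (nat_lit 4) (nat_lit 2) (nat_lit 4) (nat_lit 295) (nat_lit 213) (nat_lit 212))) (XT.nd (nat_lit 78) (nat_lit 0) (nat_lit 0) (XT.lf (nat_lit 0) (nat_lit 33155241452) (nat_lit 152) (nat_lit 33424130389) (nat_lit 0) (nat_lit 32708467900) (nat_lit 2) (nat_lit 5) (nat_lit 4) (nat_lit 4) (nat_lit 2) (nat_lit 4) (nat_lit 296) (nat_lit 213) (nat_lit 211)) (XT.lf (nat_lit 0) (nat_lit 38736219045) (nat_lit 152) (nat_lit 30242395392) (nat_lit 0) (nat_lit 38090561255) (nat_lit 2) (nat_lit 5) (nat_lit 4) (nat_lit 4) (nat_lit 2) (nat_lit 4) (nat_lit 297) (nat_lit 213) (nat_lit 210)))) (XT.nd (nat_lit 156) (nat_lit 0)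 (nat_lit 0) (XT.nd (nat_lit 78) (nat_lit 0) (nat_lit 0) (XT.lf (nat_lit 0) (nat_lit 44617010660) (nat_lit 152) (nat_lit 27076266515) (nat_lit 0) (nat_lit 43787200798) (nat_lit 2) (nat_lit 5) (nat_lit 4) (nat_lit 4) (nat_lit 2) (nat_lit 4) (nat_lit 298) (nat_lit 213) (nat_lit 209)) (XT.lf (nat_lit 0) (nat_lit 50832465432) (nat_lit 152) (nat_lit 23906981513) (nat_lit 0) (nat_lit 49832144393) (nat_lit 2) (nat_lit 5) (nat_lit 4) (nat_lit 4) (nat_lit 2) (nat_lit 4) (nat_lit 299) (nat_lit 213) (nat_lit 208))) (XT.nd (nat_lit 78) (nat_lit 0) (nat_lit 0) (XT.lf (nat_lit 0) (nat_lit 57419415687) (nat_lit 152) (nat_lit 20715759437) (nat_lit 0) (nat_lit 56261213928) (nat_lit 2) (nat_lit 5) (nat_lit 4) (nat_lit 4) (nat_lit 2) (nat_lit 4) (nat_lit 300) (nat_lit 213) (nat_lit 207)) (XT.nd (nat_lit 78) (nat_lit 0) (nat_lit 0) (XT.lf (nat_lit 0) (nat_lit 64416895204) (nat_lit 152) (nat_lit 17483689341)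 (nat_lit 0) (nat_lit 63112507592) (nat_lit 2) (nat_lit 5) (nat_lit 4) (nat_lit 4) (nat_lit 2) (nat_lit 4) (nat_lit 301) (nat_lit 213) (nat_lit 206)) (XT.lf (nat_lit 0) (nat_lit 71866370527) (nat_lit 152) (nat_lit 14191618218) (nat_lit 0) (nat_lit 70426625645) (nat_lit 2) (nat_lit 5) (nat_lit 4) (nat_lit 4) (nat_lit 2) (nat_lit 4) (nat_lit 302) (nat_lit 213) (nat_lit 205)))))) (XT.nd (nat_lit 390) (nat_lit 0) (nat_lit 0) (XT.nd (nat_lit 156) (nat_lit 76) (nat_lit 0) (XT.nd (nat_lit 78) (nat_lit 0) (nat_lit 0) (XT.lf (nat_lit 0) (nat_lit 79811986695) (nat_lit 152) (nat_lit 10820037498) (nat_lit 0) (nat_lit 78246911008) (nat_lit 2) (nat_lit 5) (nat_lit 4) (nat_lit 4) (nat_lit 2) (nat_lit 4) (nat_lit 303) (nat_lit 213) (nat_lit 204)) (XT.lf (nat_lit 0) (nat_lit 88300828843) (nat_lit 152) (nat_lit 7348967443) (nat_lit 0) (nat_lit 86619706113) (nat_lit 2) (nat_lit 5) (nat_lit 4) (nat_lit 4)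 (nat_lit 2) (nat_lit 4) (nat_lit 304) (nat_lit 213) (nat_lit 203))) (XT.nd (nat_lit 78) (nat_lit 76) (nat_lit 0) (XT.lf (nat_lit 0) (nat_lit 97383201218) (nat_lit 152) (nat_lit 3757838750) (nat_lit 0) (nat_lit 95594627523) (nat_lit 2) (nat_lit 5) (nat_lit 4) (nat_lit 4) (nat_lit 2) (nat_lit 4) (nat_lit 305) (nat_lit 213) (nat_lit 202)) (XT.nd (nat_lit 78) (nat_lit 76) (nat_lit 0) (XT.lf (nat_lit 0) (nat_lit 107112925288) (nat_lit 152) (nat_lit 25370656) (nat_lit 0) (nat_lit 105224859959) (nat_lit 2) (nat_lit 5) (nat_lit 4) (nat_lit 4) (nat_lit 2) (nat_lit 4) (nat_lit 306) (nat_lit 213) (nat_lit 201)) (XT.lf (nat_lit 0) (nat_lit 3998533202) (nat_lit 76) (nat_lit 113611553784) (nat_lit 76) (nat_lit 111631366570) (nat_lit 1) (nat_lit 4) (nat_lit 2) (nat_lit 5) (nat_lit 2) (nat_lit 4) (nat_lit 307) (nat_lit 213) (nat_lit 200))))) (XT.nd (nat_lit 156) (nat_lit 0) (nat_lit 0) (XT.nd (nat_lit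 78) (nat_lit 0) (nat_lit 0) (XT.lf (nat_lit 0) (nat_lit 8215988638) (nat_lit 76) (nat_lit 120661522810) (nat_lit 76) (nat_lit 118596037556) (nat_lit 1) (nat_lit 4) (nat_lit 2) (nat_lit 5) (nat_lit 2) (nat_lit 4) (nat_lit 308) (nat_lit 213) (nat_lit 199)) (XT.lf (nat_lit 0) (nat_lit 12651149111) (nat_lit 76) (nat_lit 128330410283) (nat_lit 76) (nat_lit 126185945362) (nat_lit 1) (nat_lit 4) (nat_lit 2) (nat_lit 5) (nat_lit 2) (nat_lit 4) (nat_lit 309) (nat_lit 213) (nat_lit 198))) (XT.nd (nat_lit 78) (nat_lit 0) (nat_lit 0) (XT.lf (nat_lit 0) (nat_lit 17330297054) (nat_lit 76) (nat_lit 136663661462) (nat_lit 76) (nat_lit 134446067219) (nat_lit 1) (nat_lit 4) (nat_lit 2) (nat_lit 5) (nat_lit 2) (nat_lit 4) (nat_lit 310) (nat_lit 213) (nat_lit 197)) (XT.nd (nat_lit 78) (nat_lit 0) (nat_lit 0) (XT.lf (nat_lit 0) (nat_lit 22281160750) (nat_lit 76) (nat_lit 145710658575) (nat_lit 76) (nat_lit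 143425351997) (nat_lit 1) (nat_lit 4) (nat_lit 2) (nat_lit 5) (nat_lit 2) (nat_lit 4) (nat_lit 311) (nat_lit 213) (nat_lit 196)) (XT.lf (nat_lit 0) (nat_lit 27533078652) (nat_lit 76) (nat_lit 155525013458) (nat_lit 76) (nat_lit 153177010274) (nat_lit 1) (nat_lit 4) (nat_lit 2) (nat_lit 5) (nat_lit 2) (nat_lit 4) (nat_lit 312) (nat_lit 213) (nat_lit 195))))))))
noncomputable def xc7 : XT := (XT.nd (nat_lit 36270) (nat_lit 0) (nat_lit 0) (XT.nd (nat_lit 702) (nat_lit 0) (nat_lit 0) (XT.nd (nat_lit 312) (nat_lit 0) (nat_lit 0) (XT.nd (nat_lit 156) (nat_lit 0) (nat_lit 0) (XT.nd (nat_lit 78) (nat_lit 0) (nat_lit 0) (XT.lf (nat_lit 0) (nat_lit 33117173236) (nat_lit 76) (nat_lit 166164885250) (nat_lit 76) (nat_lit 163758829653) (nat_lit 1) (nat_lit 4) (nat_lit 2) (nat_lit 5) (nat_lit 2) (nat_lit 4) (nat_lit 313) (nat_lit 213) (nat_lit 194)) (XT.lf (nat_lit 0) (nat_lit 39066535432) (nat_lit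 76) (nat_lit 177693325044) (nat_lit 76) (nat_lit 175233517213) (nat_lit 1) (nat_lit 4) (nat_lit 2) (nat_lit 5) (nat_lit 2) (nat_lit 4) (nat_lit 314) (nat_lit 213) (nat_lit 193))) (XT.nd (nat_lit 78) (nat_lit 0) (nat_lit 0) (XT.lf (nat_lit 0) (nat_lit 45416420721) (nat_lit 76) (nat_lit 190178649520) (nat_lit 76) (nat_lit 187669071101) (nat_lit 1) (nat_lit 4) (nat_lit 2) (nat_lit 5) (nat_lit 2) (nat_lit 4) (nat_lit 315) (nat_lit 213) (nat_lit 192)) (XT.lf (nat_lit 0) (nat_lit 52204458052) (nat_lit 76) (nat_lit 203694845786) (nat_lit 76) (nat_lit 201139183490) (nat_lit 1) (nat_lit 4) (nat_lit 2) (nat_lit 5) (nat_lit 2) (nat_lit 4) (nat_lit 316) (nat_lit 213) (nat_lit 191)))) (XT.nd (nat_lit 156) (nat_lit 0) (nat_lit 0) (XT.nd (nat_lit 78) (nat_lit 0) (nat_lit 0) (XT.lf (nat_lit 0) (nat_lit 59470872831) (nat_lit 76) (nat_lit 218322009819) (nat_lit 76) (nat_lit 215723677267) (nat_lit 1) (nat_lit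 4) (nat_lit 2) (nat_lit 5) (nat_lit 2) (nat_lit 4) (nat_lit 317) (nat_lit 213) (nat_lit 190)) (XT.lf (nat_lit 0) (nat_lit 67258725295) (nat_lit 76) (nat_lit 234146821111) (nat_lit 76) (nat_lit 231508979062) (nat_lit 1) (nat_lit 4) (nat_lit 2) (nat_lit 5) (nat_lit 2) (nat_lit 4) (nat_lit 318) (nat_lit 213) (nat_lit 189))) (XT.nd (nat_lit 78) (nat_lit 0) (nat_lit 0) (XT.lf (nat_lit 0) (nat_lit 75614165680) (nat_lit 76) (nat_lit 251263056321) (nat_lit 76) (nat_lit 248588631404) (nat_lit 1) (nat_lit 4) (nat_lit 2) (nat_lit 5) (nat_lit 2) (nat_lit 4) (nat_lit 319) (nat_lit 213) (nat_lit 188)) (XT.nd (nat_lit 78) (nat_lit 0) (nat_lit 0) (XT.lf (nat_lit 0) (nat_lit 84586707706) (nat_lit 76) (nat_lit 269772144991) (nat_lit 76) (nat_lit 267063847049) (nat_lit 1) (nat_lit 4) (nat_lit 2) (nat_lit 5) (nat_lit 2) (nat_lit 4) (nat_lit 320) (nat_lit 213) (nat_lit 187)) (XT.lf (nat_lit 0) (nat_lit 94229521995)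 (nat_lit 76) (nat_lit 289783770609) (nat_lit 76) (nat_lit 287044108754) (nat_lit 1) (nat_lit 4) (nat_lit 2) (nat_lit 5) (nat_lit 2) (nat_lit 4) (nat_lit 321) (nat_lit 213) (nat_lit 186)))))) (XT.nd (nat_lit 35178) (nat_lit 0) (nat_lit 76) (XT.nd (nat_lit 156) (nat_lit 0) (nat_lit 0) (XT.nd (nat_lit 78) (nat_lit 0) (nat_lit 0) (XT.lf (nat_lit 0) (nat_lit 104599751147) (nat_lit 76) (nat_lit 311416520586) (nat_lit 76) (nat_lit 308647818072) (nat_lit 1) (nat_lit 4) (nat_lit 2) (nat_lit 5) (nat_lit 2) (nat_lit 4) (nat_lit 322) (nat_lit 213) (nat_lit 185)) (XT.lf (nat_lit 0) (nat_lit 115758848374) (nat_lit 76) (nat_lit 334798588997) (nat_lit 76) (nat_lit 332002996982) (nat_lit 1) (nat_lit 4) (nat_lit 2) (nat_lit 5) (nat_lit 2) (nat_lit 4) (nat_lit 323) (nat_lit 213) (nat_lit 184))) (XT.nd (nat_lit 78) (nat_lit 0) (nat_lit 0) (XT.lf (nat_lit 0) (nat_lit 127772941659) (nat_lit 76) (nat_lit 360068536246)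 (nat_lit 76) (nat_lit 357248046547) (nat_lit 1) (nat_lit 4) (nat_lit 2) (nat_lit 5) (nat_lit 2) (nat_lit 4) (nat_lit 324) (nat_lit 213) (nat_lit 183)) (XT.lf (nat_lit 0) (nat_lit 140713225628) (nat_lit 76) (nat_lit 387376110170) (nat_lit 76) (nat_lit 384532567058) (nat_lit 1) (nat_lit 4) (nat_lit 2) (nat_lit 5) (nat_lit 2) (nat_lit 4) (nat_lit 325) (nat_lit 213) (nat_lit 182)))) (XT.nd (nat_lit 156) (nat_lit 0) (nat_lit 0) (XT.nd (nat_lit 78) (nat_lit 0) (nat_lit 0) (XT.lf (nat_lit 0) (nat_lit 6768544085) (nat_lit 152) (nat_lit 23255636042) (nat_lit 0) (nat_lit 6768544085) (nat_lit 2) (nat_lit 5) (nat_lit 4) (nat_lit 4) (nat_lit 2) (nat_lit 4) (nat_lit 292) (nat_lit 214) (nat_lit 214)) (XT.lf (nat_lit 0) (nat_lit 18138721904) (nat_lit 152) (nat_lit 43252653359) (nat_lit 0) (nat_lit 17888185043) (nat_lit 2) (nat_lit 5) (nat_lit 4) (nat_lit 4) (nat_lit 2) (nat_lit 4) (nat_lit 293) (nat_lit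 214) (nat_lit 213))) (XT.nd (nat_lit 78) (nat_lit 0) (nat_lit 0) (XT.lf (nat_lit 0) (nat_lit 22923731701) (nat_lit 152) (nat_lit 40073649932) (nat_lit 0) (nat_lit 22441216265) (nat_lit 2) (nat_lit 5) (nat_lit 4) (nat_lit 4) (nat_lit 2) (nat_lit 4) (nat_lit 294) (nat_lit 214) (nat_lit 212)) (XT.nd (nat_lit 78) (nat_lit 0) (nat_lit 0) (XT.lf (nat_lit 0) (nat_lit 27920473176) (nat_lit 152) (nat_lit 36955423265) (nat_lit 0) (nat_lit 27223162763) (nat_lit 2) (nat_lit 5) (nat_lit 4) (nat_lit 4) (nat_lit 2) (nat_lit 4) (nat_lit 295) (nat_lit 214) (nat_lit 211)) (XT.lf (nat_lit 0) (nat_lit 33158556649) (nat_lit 152) (nat_lit 33879494977) (nat_lit 0) (nat_lit 32262361999) (nat_lit 2) (nat_lit 5) (nat_lit 4) (nat_lit 4) (nat_lit 2) (nat_lit 4) (nat_lit 296) (nat_lit 214) (nat_lit 210))))))) (XT.nd (nat_lit 702) (nat_lit 76) (nat_lit 0) (XT.nd (nat_lit 312) (nat_lit 0) (nat_lit 0) (XT.nd (nat_lit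 156) (nat_lit 0) (nat_lit 0) (XT.nd (nat_lit 78) (nat_lit 0) (nat_lit 0) (XT.lf (nat_lit 0) (nat_lit 38669022614) (nat_lit 152) (nat_lit 30827637345) (nat_lit 0) (nat_lit 37588675892) (nat_lit 2) (nat_lit 5) (nat_lit 4) (nat_lit 4) (nat_lit 2) (nat_lit 4) (nat_lit 297) (nat_lit 214) (nat_lit 209)) (XT.lf (nat_lit 0) (nat_lit 44484525685) (nat_lit 152) (nat_lit 27781765288) (nat_lit 0) (nat_lit 43233667785) (nat_lit 2) (nat_lit 5) (nat_lit 4) (nat_lit 4) (nat_lit 2) (nat_lit 4) (nat_lit 298) (nat_lit 214) (nat_lit 208))) (XT.nd (nat_lit 78) (nat_lit 0) (nat_lit 0) (XT.lf (nat_lit 0) (nat_lit 50639528102) (nat_lit 152) (nat_lit 24723829192) (nat_lit 0) (nat_lit 49230789482) (nat_lit 2) (nat_lit 5) (nat_lit 4) (nat_lit 4) (nat_lit 2) (nat_lit 4) (nat_lit 299) (nat_lit 214) (nat_lit 207)) (XT.lf (nat_lit 0) (nat_lit 57170503954) (nat_lit 152) (nat_lit 21635707956) (nat_lit 0) (nat_lit 55615579482)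 (nat_lit 2) (nat_lit 5) (nat_lit 4) (nat_lit 4) (nat_lit 2) (nat_lit 4) (nat_lit 300) (nat_lit 214) (nat_lit 206)))) (XT.nd (nat_lit 156) (nat_lit 0) (nat_lit 0) (XT.nd (nat_lit 78) (nat_lit 0) (nat_lit 0) (XT.lf (nat_lit 0) (nat_lit 64116155319) (nat_lit 152) (nat_lit 18499101601) (nat_lit 0) (nat_lit 62425873577) (nat_lit 2) (nat_lit 5) (nat_lit 4) (nat_lit 4) (nat_lit 2) (nat_lit 4) (nat_lit 301) (nat_lit 214) (nat_lit 205)) (XT.lf (nat_lit 0) (nat_lit 71517641613) (nat_lit 152) (nat_lit 15295422830) (nat_lit 0) (nat_lit 69702029065) (nat_lit 2) (nat_lit 5) (nat_lit 4) (nat_lit 4) (nat_lit 2) (nat_lit 4) (nat_lit 302) (nat_lit 214) (nat_lit 204))) (XT.nd (nat_lit 78) (nat_lit 0) (nat_lit 0) (XT.lf (nat_lit 0) (nat_lit 79418823496) (nat_lit 152) (nat_lit 12005686881) (nat_lit 0) (nat_lit 77487163905) (nat_lit 2) (nat_lit 5) (nat_lit 4) (nat_lit 4) (nat_lit 2) (nat_lit 4) (nat_lit 303)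 (nat_lit 214) (nat_lit 203)) (XT.nd (nat_lit 78) (nat_lit 0) (nat_lit 0) (XT.lf (nat_lit 0) (nat_lit 87866522786) (nat_lit 152) (nat_lit 8610399022) (nat_lit 0) (nat_lit 85827412230) (nat_lit 2) (nat_lit 5) (nat_lit 4) (nat_lit 4) (nat_lit 2) (nat_lit 4) (nat_lit 304) (nat_lit 214) (nat_lit 202)) (XT.lf (nat_lit 0) (nat_lit 96910799923) (nat_lit 152) (nat_lit 5089439028) (nat_lit 0) (nat_lit 94772197733) (nat_lit 2) (nat_lit 5) (nat_lit 4) (nat_lit 4) (nat_lit 2) (nat_lit 4) (nat_lit 305) (nat_lit 214) (nat_lit 201)))))) (XT.nd (nat_lit 390) (nat_lit 0) (nat_lit 0) (XT.nd (nat_lit 156) (nat_lit 0) (nat_lit 0) (XT.nd (nat_lit 78) (nat_lit 76) (nat_lit 0) (XT.lf (nat_lit 0) (nat_lit 106605250624) (nat_lit 152) (nat_lit 1421941951) (nat_lit 0) (nat_lit 104374526550) (nat_lit 2) (nat_lit 5) (nat_lit 4) (nat_lit 4) (nat_lit 2) (nat_lit 4) (nat_lit 306) (nat_lit 214) (nat_lit 200)) (XT.lf (nat_lit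 0) (nat_lit 2493637496) (nat_lit 76) (nat_lit 114552618659) (nat_lit 76) (nat_lit 112236596544) (nat_lit 1) (nat_lit 4) (nat_lit 2) (nat_lit 5) (nat_lit 2) (nat_lit 4) (nat_lit 307) (nat_lit 214) (nat_lit 199))) (XT.nd (nat_lit 78) (nat_lit 0) (nat_lit 0) (XT.lf (nat_lit 0) (nat_lit 6653548991) (nat_lit 76) (nat_lit 121628991976) (nat_lit 76) (nat_lit 119233990194) (nat_lit 1) (nat_lit 4) (nat_lit 2) (nat_lit 5) (nat_lit 2) (nat_lit 4) (nat_lit 308) (nat_lit 214) (nat_lit 198)) (XT.nd (nat_lit 78) (nat_lit 0) (nat_lit 0) (XT.lf (nat_lit 0) (nat_lit 11035428037) (nat_lit 76) (nat_lit 129322327866) (nat_lit 76) (nat_lit 126854196763) (nat_lit 1) (nat_lit 4) (nat_lit 2) (nat_lit 5) (nat_lit 2) (nat_lit 4) (nat_lit 309) (nat_lit 214) (nat_lit 197)) (XT.lf (nat_lit 0) (nat_lit 15665241325) (nat_lit 76) (nat_lit 137678216468) (nat_lit 76) (nat_lit 135142373030) (nat_lit 1) (nat_lit 4) (nat_lit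 2) (nat_lit 5) (nat_lit 2) (nat_lit 4) (nat_lit 310) (nat_lit 214) (nat_lit 196))))) (XT.nd (nat_lit 156) (nat_lit 0) (nat_lit 0) (XT.nd (nat_lit 78) (nat_lit 0) (nat_lit 0) (XT.lf (nat_lit 0) (nat_lit 20570424786) (nat_lit 76) (nat_lit 146746174158) (nat_lit 76) (nat_lit 144147634114) (nat_lit 1) (nat_lit 4) (nat_lit 2) (nat_lit 5) (nat_lit 2) (nat_lit 4) (nat_lit 311) (nat_lit 214) (nat_lit 195)) (XT.lf (nat_lit 0) (nat_lit 25780046174) (nat_lit 76) (nat_lit 156579936983) (nat_lit 76) (nat_lit 153923344525) (nat_lit 1) (nat_lit 4) (nat_lit 2) (nat_lit 5) (nat_lit 2) (nat_lit 4) (nat_lit 312) (nat_lit 214) (nat_lit 194))) (XT.nd (nat_lit 78) (nat_lit 0) (nat_lit 0) (XT.lf (nat_lit 0) (nat_lit 31324977318) (nat_lit 76) (nat_lit 167237779092) (nat_lit 76) (nat_lit 164527434400) (nat_lit 1) (nat_lit 4) (nat_lit 2) (nat_lit 5) (nat_lit 2) (nat_lit 4) (nat_lit 313) (nat_lit 214) (nat_lit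 193)) (XT.nd (nat_lit 78) (nat_lit 0) (nat_lit 0) (XT.lf (nat_lit 0) (nat_lit 37238077070) (nat_lit 76) (nat_lit 178782858068) (nat_lit 76) (nat_lit 176022742788) (nat_lit 1) (nat_lit 4) (nat_lit 2) (nat_lit 5) (nat_lit 2) (nat_lit 4) (nat_lit 314) (nat_lit 214) (nat_lit 192)) (XT.lf (nat_lit 0) (nat_lit 43554386022) (nat_lit 76) (nat_lit 191283589194) (nat_lit 76) (nat_lit 188477390037) (nat_lit 1) (nat_lit 4) (nat_lit 2) (nat_lit 5) (nat_lit 2) (nat_lit 4) (nat_lit 315) (nat_lit 214) (nat_lit 191))))))))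
noncomputable def xc8 : XT := (XT.nd (nat_lit 36114) (nat_lit 0) (nat_lit 0) (XT.nd (nat_lit 702) (nat_lit 0) (nat_lit 0) (XT.nd (nat_lit 312) (nat_lit 0) (nat_lit 0) (XT.nd (nat_lit 156) (nat_lit 0) (nat_lit 0) (XT.nd (nat_lit 78) (nat_lit 0) (nat_lit 0) (XT.lf (nat_lit 0) (nat_lit 50311334152) (nat_lit 76) (nat_lit 204814050876) (nat_lit 76) (nat_lit 201965181463) (nat_lit 1) (nat_lit 4) (nat_lit 2) (nat_lit 5) (nat_lit 2) (nat_lit 4) (nat_lit 316) (nat_lit 214) (nat_lit 190)) (XT.lf (nat_lit 0) (nat_lit 57548962634) (nat_lit 76) (nat_lit 219454423629) (nat_lit 76) (nat_lit 216566044718) (nat_lit 1) (nat_lit 4) (nat_lit 2) (nat_lit 5) (nat_lit 2) (nat_lit 4) (nat_lit 317) (nat_lit 214) (nat_lit 189))) (XT.nd (nat_lit 78) (nat_lit 0) (nat_lit 0) (XT.lf (nat_lit 0) (nat_lit 65310161119) (nat_lit 76) (nat_lit 235291465216) (nat_lit 76) (nat_lit 232366503438) (nat_lit 1) (nat_lit 4) (nat_lit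 2) (nat_lit 5) (nat_lit 2) (nat_lit 4) (nat_lit 318) (nat_lit 214) (nat_lit 188)) (XT.lf (nat_lit 0) (nat_lit 73640921894) (nat_lit 76) (nat_lit 252419024774) (nat_lit 76) (nat_lit 249460189970) (nat_lit 1) (nat_lit 4) (nat_lit 2) (nat_lit 5) (nat_lit 2) (nat_lit 4) (nat_lit 319) (nat_lit 214) (nat_lit 187)))) (XT.nd (nat_lit 156) (nat_lit 0) (nat_lit 0) (XT.nd (nat_lit 78) (nat_lit 0) (nat_lit 0) (XT.lf (nat_lit 0) (nat_lit 82590612430) (nat_lit 76) (nat_lit 270938598950) (nat_lit 76) (nat_lit 267948400235) (nat_lit 1) (nat_lit 4) (nat_lit 2) (nat_lit 5) (nat_lit 2) (nat_lit 4) (nat_lit 320) (nat_lit 214) (nat_lit 186)) (XT.lf (nat_lit 0) (nat_lit 92212267930) (nat_lit 76) (nat_lit 290959933371) (nat_lit 76) (nat_lit 287940693996) (nat_lit 1) (nat_lit 4) (nat_lit 2) (nat_lit 5) (nat_lit 2) (nat_lit 4) (nat_lit 321) (nat_lit 214) (nat_lit 185))) (XT.nd (nat_lit 78) (nat_lit 0) (nat_lit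 0) (XT.lf (nat_lit 0) (nat_lit 102562905612) (nat_lit 76) (nat_lit 312601672981) (nat_lit 76) (nat_lit 309555544106) (nat_lit 1) (nat_lit 4) (nat_lit 2) (nat_lit 5) (nat_lit 2) (nat_lit 4) (nat_lit 322) (nat_lit 214) (nat_lit 184)) (XT.nd (nat_lit 78) (nat_lit 0) (nat_lit 0) (XT.lf (nat_lit 0) (nat_lit 113703862589) (nat_lit 76) (nat_lit 335992065125) (nat_lit 76) (nat_lit 332921038565) (nat_lit 1) (nat_lit 4) (nat_lit 2) (nat_lit 5) (nat_lit 2) (nat_lit 4) (nat_lit 323) (nat_lit 214) (nat_lit 183)) (XT.lf (nat_lit 0) (nat_lit 125701159346) (nat_lit 76) (nat_lit 361269719535) (nat_lit 76) (nat_lit 358175639563) (nat_lit 1) (nat_lit 4) (nat_lit 2) (nat_lit 5) (nat_lit 2) (nat_lit 4) (nat_lit 324) (nat_lit 214) (nat_lit 182)))))) (XT.nd (nat_lit 35022) (nat_lit 0) (nat_lit 76) (XT.nd (nat_lit 34866) (nat_lit 0) (nat_lit 76) (XT.nd (nat_lit 34788) (nat_lit 0) (nat_lit 76) (XT.lf (nat_lit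 0) (nat_lit 138625890975) (nat_lit 76) (nat_lit 388584429718) (nat_lit 76) (nat_lit 385469003994) (nat_lit 1) (nat_lit 4) (nat_lit 2) (nat_lit 5) (nat_lit 2) (nat_lit 4) (nat_lit 325) (nat_lit 214) (nat_lit 181)) (XT.lf (nat_lit 0) (nat_lit 2574991369) (nat_lit 152) (nat_lit 26577175265) (nat_lit 0) (nat_lit 2574991369) (nat_lit 2) (nat_lit 5) (nat_lit 4) (nat_lit 4) (nat_lit 2) (nat_lit 4) (nat_lit 290) (nat_lit 215) (nat_lit 215))) (XT.nd (nat_lit 78) (nat_lit 0) (nat_lit 0) (XT.lf (nat_lit 0) (nat_lit 9362141372) (nat_lit 152) (nat_lit 49868816442) (nat_lit 0) (nat_lit 9091561562) (nat_lit 2) (nat_lit 5) (nat_lit 4) (nat_lit 4) (nat_lit 2) (nat_lit 4) (nat_lit 291) (nat_lit 215) (nat_lit 214)) (XT.lf (nat_lit 0) (nat_lit 13711737690) (nat_lit 152) (nat_lit 46687968806) (nat_lit 0) (nat_lit 13190621019) (nat_lit 2) (nat_lit 5) (nat_lit 4) (nat_lit 4) (nat_lit 2) (nat_lit 4) (nat_lit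 292) (nat_lit 215) (nat_lit 213)))) (XT.nd (nat_lit 156) (nat_lit 0) (nat_lit 0) (XT.nd (nat_lit 78) (nat_lit 0) (nat_lit 0) (XT.lf (nat_lit 0) (nat_lit 18224547079) (nat_lit 152) (nat_lit 43592958156) (nat_lit 0) (nat_lit 17471451834) (nat_lit 2) (nat_lit 5) (nat_lit 4) (nat_lit 4) (nat_lit 2) (nat_lit 4) (nat_lit 293) (nat_lit 215) (nat_lit 212)) (XT.lf (nat_lit 0) (nat_lit 22927312114) (nat_lit 152) (nat_lit 40565443687) (nat_lit 0) (nat_lit 21959421892) (nat_lit 2) (nat_lit 5) (nat_lit 4) (nat_lit 4) (nat_lit 2) (nat_lit 4) (nat_lit 294) (nat_lit 215) (nat_lit 211))) (XT.nd (nat_lit 78) (nat_lit 0) (nat_lit 0) (XT.lf (nat_lit 0) (nat_lit 27847901031) (nat_lit 152) (nat_lit 37587484574) (nat_lit 0) (nat_lit 26681126571) (nat_lit 2) (nat_lit 5) (nat_lit 4) (nat_lit 4) (nat_lit 2) (nat_lit 4) (nat_lit 295) (nat_lit 215) (nat_lit 210)) (XT.nd (nat_lit 78) (nat_lit 0) (nat_lit 0) (XT.lf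 (nat_lit 0) (nat_lit 33015472877) (nat_lit 152) (nat_lit 34641433651) (nat_lit 0) (nat_lit 31664546345) (nat_lit 2) (nat_lit 5) (nat_lit 4) (nat_lit 4) (nat_lit 2) (nat_lit 4) (nat_lit 296) (nat_lit 215) (nat_lit 209)) (XT.lf (nat_lit 0) (nat_lit 38460650298) (nat_lit 152) (nat_lit 31709832839) (nat_lit 0) (nat_lit 36939212588) (nat_lit 2) (nat_lit 5) (nat_lit 4) (nat_lit 4) (nat_lit 2) (nat_lit 4) (nat_lit 297) (nat_lit 215) (nat_lit 208))))))) (XT.nd (nat_lit 702) (nat_lit 76) (nat_lit 0) (XT.nd (nat_lit 312) (nat_lit 0) (nat_lit 0) (XT.nd (nat_lit 156) (nat_lit 0) (nat_lit 0) (XT.nd (nat_lit 78) (nat_lit 0) (nat_lit 0) (XT.lf (nat_lit 0) (nat_lit 44215701014) (nat_lit 152) (nat_lit 28775309689) (nat_lit 0) (nat_lit 42536382584) (nat_lit 2) (nat_lit 5) (nat_lit 4) (nat_lit 4) (nat_lit 2) (nat_lit 4) (nat_lit 298) (nat_lit 215) (nat_lit 207)) (XT.lf (nat_lit 0) (nat_lit 50314729027)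 (nat_lit 152) (nat_lit 25820474433) (nat_lit 0) (nat_lit 48489224745) (nat_lit 2) (nat_lit 5) (nat_lit 4) (nat_lit 4) (nat_lit 2) (nat_lit 4) (nat_lit 299) (nat_lit 215) (nat_lit 206))) (XT.nd (nat_lit 78) (nat_lit 0) (nat_lit 0) (XT.lf (nat_lit 0) (nat_lit 56793876728) (nat_lit 152) (nat_lit 22827816937) (nat_lit 0) (nat_lit 54833015175) (nat_lit 2) (nat_lit 5) (nat_lit 4) (nat_lit 4) (nat_lit 2) (nat_lit 4) (nat_lit 300) (nat_lit 215) (nat_lit 205)) (XT.lf (nat_lit 0) (nat_lit 63691539064) (nat_lit 152) (nat_lit 19779602935) (nat_lit 0) (nat_lit 61605346706) (nat_lit 2) (nat_lit 5) (nat_lit 4) (nat_lit 4) (nat_lit 2) (nat_lit 4) (nat_lit 301) (nat_lit 215) (nat_lit 204)))) (XT.nd (nat_lit 156) (nat_lit 0) (nat_lit 0) (XT.nd (nat_lit 78) (nat_lit 0) (nat_lit 0) (XT.lf (nat_lit 0) (nat_lit 71048591072) (nat_lit 152) (nat_lit 16657768935) (nat_lit 0) (nat_lit 68846351671) (nat_lit 2) (nat_lit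 5) (nat_lit 4) (nat_lit 4) (nat_lit 2) (nat_lit 4) (nat_lit 302) (nat_lit 215) (nat_lit 203)) (XT.lf (nat_lit 0) (nat_lit 78908630097) (nat_lit 152) (nat_lit 13443815180) (nat_lit 0) (nat_lit 76598939731) (nat_lit 2) (nat_lit 5) (nat_lit 4) (nat_lit 4) (nat_lit 2) (nat_lit 4) (nat_lit 303) (nat_lit 215) (nat_lit 202))) (XT.nd (nat_lit 78) (nat_lit 0) (nat_lit 0) (XT.lf (nat_lit 0) (nat_lit 87318234149) (nat_lit 152) (nat_lit 10118696020) (nat_lit 0) (nat_lit 84909052148) (nat_lit 2) (nat_lit 5) (nat_lit 4) (nat_lit 4) (nat_lit 2) (nat_lit 4) (nat_lit 304) (nat_lit 215) (nat_lit 201)) (XT.nd (nat_lit 78) (nat_lit 0) (nat_lit 0) (XT.lf (nat_lit 0) (nat_lit 96327237917) (nat_lit 152) (nat_lit 6662707044) (nat_lit 0) (nat_lit 93825934033) (nat_lit 2) (nat_lit 5) (nat_lit 4) (nat_lit 4) (nat_lit 2) (nat_lit 4) (nat_lit 305) (nat_lit 215) (nat_lit 200)) (XT.lf (nat_lit 0) (nat_lit 105989028092)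 (nat_lit 152) (nat_lit 3055368317) (nat_lit 0) (nat_lit 103402426167) (nat_lit 2) (nat_lit 5) (nat_lit 4) (nat_lit 4) (nat_lit 2) (nat_lit 4) (nat_lit 306) (nat_lit 215) (nat_lit 199)))))) (XT.nd (nat_lit 312) (nat_lit 0) (nat_lit 0) (XT.nd (nat_lit 156) (nat_lit 0) (nat_lit 0) (XT.nd (nat_lit 78) (nat_lit 0) (nat_lit 0) (XT.lf (nat_lit 0) (nat_lit 748658737) (nat_lit 76) (nat_lit 115623889649) (nat_lit 76) (nat_lit 112958308057) (nat_lit 1) (nat_lit 4) (nat_lit 2) (nat_lit 5) (nat_lit 2) (nat_lit 4) (nat_lit 307) (nat_lit 215) (nat_lit 198)) (XT.lf (nat_lit 0) (nat_lit 4855288804) (nat_lit 76) (nat_lit 122724711383) (nat_lit 76) (nat_lit 119986000470) (nat_lit 1) (nat_lit 4) (nat_lit 2) (nat_lit 5) (nat_lit 2) (nat_lit 4) (nat_lit 308) (nat_lit 215) (nat_lit 197))) (XT.nd (nat_lit 78) (nat_lit 0) (nat_lit 0) (XT.lf (nat_lit 0) (nat_lit 9187833196) (nat_lit 76) (nat_lit 130440684696)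 (nat_lit 76) (nat_lit 127634261448) (nat_lit 1) (nat_lit 4) (nat_lit 2) (nat_lit 5) (nat_lit 2) (nat_lit 4) (nat_lit 309) (nat_lit 215) (nat_lit 196)) (XT.lf (nat_lit 0) (nat_lit 13771966248) (nat_lit 76) (nat_lit 138817533875) (nat_lit 76) (nat_lit 135948414021) (nat_lit 1) (nat_lit 4) (nat_lit 2) (nat_lit 5) (nat_lit 2) (nat_lit 4) (nat_lit 310) (nat_lit 215) (nat_lit 195)))) (XT.nd (nat_lit 156) (nat_lit 0) (nat_lit 0) (XT.nd (nat_lit 78) (nat_lit 0) (nat_lit 0) (XT.lf (nat_lit 0) (nat_lit 18634853195) (nat_lit 76) (nat_lit 147904899508) (nat_lit 76) (nat_lit 144977727240) (nat_lit 1) (nat_lit 4) (nat_lit 2) (nat_lit 5) (nat_lit 2) (nat_lit 4) (nat_lit 311) (nat_lit 215) (nat_lit 194)) (XT.lf (nat_lit 0) (nat_lit 23805311142) (nat_lit 76) (nat_lit 157756632649) (nat_lit 76) (nat_lit 154775708147) (nat_lit 1) (nat_lit 4) (nat_lit 2) (nat_lit 5) (nat_lit 2) (nat_lit 4) (nat_lit 312)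 (nat_lit 215) (nat_lit 193))) (XT.nd (nat_lit 78) (nat_lit 0) (nat_lit 0) (XT.lf (nat_lit 0) (nat_lit 29313979843) (nat_lit 76) (nat_lit 168431113939) (nat_lit 76) (nat_lit 165400418850) (nat_lit 1) (nat_lit 4) (nat_lit 2) (nat_lit 5) (nat_lit 2) (nat_lit 4) (nat_lit 313) (nat_lit 215) (nat_lit 192)) (XT.nd (nat_lit 78) (nat_lit 0) (nat_lit 0) (XT.lf (nat_lit 0) (nat_lit 35193503258) (nat_lit 76) (nat_lit 179991599565) (nat_lit 76) (nat_lit 176914820599) (nat_lit 1) (nat_lit 4) (nat_lit 2) (nat_lit 5) (nat_lit 2) (nat_lit 4) (nat_lit 314) (nat_lit 215) (nat_lit 191)) (XT.lf (nat_lit 0) (nat_lit 41478723009) (nat_lit 76) (nat_lit 192506596108) (nat_lit 76) (nat_lit 189387146885) (nat_lit 1) (nat_lit 4) (nat_lit 2) (nat_lit 5) (nat_lit 2) (nat_lit 4) (nat_lit 315) (nat_lit 215) (nat_lit 190))))))))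
noncomputable def xc9 : XT := (XT.nd (nat_lit 35958) (nat_lit 0) (nat_lit 0) (XT.nd (nat_lit 702) (nat_lit 0) (nat_lit 0) (XT.nd (nat_lit 312) (nat_lit 0) (nat_lit 0) (XT.nd (nat_lit 156) (nat_lit 0) (nat_lit 0) (XT.nd (nat_lit 78) (nat_lit 0) (nat_lit 0) (XT.lf (nat_lit 0) (nat_lit 48206884842) (nat_lit 76) (nat_lit 206050266509) (nat_lit 76) (nat_lit 202891307789) (nat_lit 1) (nat_lit 4) (nat_lit 2) (nat_lit 5) (nat_lit 2) (nat_lit 4) (nat_lit 316) (nat_lit 215) (nat_lit 189)) (XT.lf (nat_lit 0) (nat_lit 55417859345) (nat_lit 76) (nat_lit 220702869557) (nat_lit 76) (nat_lit 217507327970) (nat_lit 1) (nat_lit 4) (nat_lit 2) (nat_lit 5) (nat_lit 2) (nat_lit 4) (nat_lit 317) (nat_lit 215) (nat_lit 188))) (XT.nd (nat_lit 78) (nat_lit 0) (nat_lit 0) (XT.lf (nat_lit 0) (nat_lit 63154378220) (nat_lit 76) (nat_lit 236551235492) (nat_lit 76) (nat_lit 233321820879) (nat_lit 1) (nat_lit 4) (nat_lit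 2) (nat_lit 5) (nat_lit 2) (nat_lit 4) (nat_lit 318) (nat_lit 215) (nat_lit 187)) (XT.lf (nat_lit 0) (nat_lit 71462287504) (nat_lit 76) (nat_lit 253689280557) (nat_lit 76) (nat_lit 250428502031) (nat_lit 1) (nat_lit 4) (nat_lit 2) (nat_lit 5) (nat_lit 2) (nat_lit 4) (nat_lit 319) (nat_lit 215) (nat_lit 186)))) (XT.nd (nat_lit 156) (nat_lit 0) (nat_lit 0) (XT.nd (nat_lit 78) (nat_lit 0) (nat_lit 0) (XT.lf (nat_lit 0) (nat_lit 80390819252) (nat_lit 76) (nat_lit 272218563536) (nat_lit 76) (nat_lit 268928744351) (nat_lit 1) (nat_lit 4) (nat_lit 2) (nat_lit 5) (nat_lit 2) (nat_lit 4) (nat_lit 320) (nat_lit 215) (nat_lit 185)) (XT.lf (nat_lit 0) (nat_lit 89992883282) (nat_lit 76) (nat_lit 292248887590) (nat_lit 76) (nat_lit 288932178905) (nat_lit 1) (nat_lit 4) (nat_lit 2) (nat_lit 5) (nat_lit 2) (nat_lit 4) (nat_lit 321) (nat_lit 215) (nat_lit 184))) (XT.nd (nat_lit 78) (nat_lit 0) (nat_lit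 0) (XT.lf (nat_lit 0) (nat_lit 100325380715) (nat_lit 76) (nat_lit 313898950933) (nat_lit 76) (nat_lit 310557344563) (nat_lit 1) (nat_lit 4) (nat_lit 2) (nat_lit 5) (nat_lit 2) (nat_lit 4) (nat_lit 322) (nat_lit 215) (nat_lit 183)) (XT.nd (nat_lit 78) (nat_lit 0) (nat_lit 0) (XT.lf (nat_lit 0) (nat_lit 111449541163) (nat_lit 76) (nat_lit 337297050238) (nat_lit 76) (nat_lit 333932390456) (nat_lit 1) (nat_lit 4) (nat_lit 2) (nat_lit 5) (nat_lit 2) (nat_lit 4) (nat_lit 323) (nat_lit 215) (nat_lit 182)) (XT.lf (nat_lit 0) (nat_lit 123431285580) (nat_lit 76) (nat_lit 362581840907) (nat_lit 76) (nat_lit 359195835374) (nat_lit 1) (nat_lit 4) (nat_lit 2) (nat_lit 5) (nat_lit 2) (nat_lit 4) (nat_lit 324) (nat_lit 215) (nat_lit 181)))))) (XT.nd (nat_lit 34866) (nat_lit 0) (nat_lit 76) (XT.nd (nat_lit 34710) (nat_lit 0) (nat_lit 76) (XT.nd (nat_lit 34632) (nat_lit 0) (nat_lit 228) (XT.lf (nat_lit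 0) (nat_lit 136341616893) (nat_lit 76) (nat_lit 389903158739) (nat_lit 76) (nat_lit 386497388620) (nat_lit 1) (nat_lit 4) (nat_lit 2) (nat_lit 5) (nat_lit 2) (nat_lit 4) (nat_lit 325) (nat_lit 215) (nat_lit 180)) (XT.lf (nat_lit 0) (nat_lit 24879055306) (nat_lit 76) (nat_lit 1257918098) (nat_lit 76) (nat_lit 1257918098) (nat_lit 4) (nat_lit 4) (nat_lit 5) (nat_lit 5) (nat_lit 5) (nat_lit 4) (nat_lit 288) (nat_lit 216) (nat_lit 216))) (XT.nd (nat_lit 78) (nat_lit 0) (nat_lit 0) (XT.lf (nat_lit 0) (nat_lit 1342527047) (nat_lit 152) (nat_lit 56564040905) (nat_lit 0) (nat_lit 1050300852) (nat_lit 2) (nat_lit 5) (nat_lit 4) (nat_lit 4) (nat_lit 2) (nat_lit 4) (nat_lit 289) (nat_lit 216) (nat_lit 215)) (XT.lf (nat_lit 0) (nat_lit 5338604220) (nat_lit 152) (nat_lit 53345182990) (nat_lit 0) (nat_lit 4775798216) (nat_lit 2) (nat_lit 5) (nat_lit 4) (nat_lit 4) (nat_lit 2) (nat_lit 4) (nat_lit 290)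 (nat_lit 216) (nat_lit 214)))) (XT.nd (nat_lit 156) (nat_lit 0) (nat_lit 0) (XT.nd (nat_lit 78) (nat_lit 0) (nat_lit 0) (XT.lf (nat_lit 0) (nat_lit 9454832561) (nat_lit 152) (nat_lit 50236345622) (nat_lit 0) (nat_lit 8641489696) (nat_lit 2) (nat_lit 5) (nat_lit 4) (nat_lit 4) (nat_lit 2) (nat_lit 4) (nat_lit 291) (nat_lit 216) (nat_lit 213)) (XT.lf (nat_lit 0) (nat_lit 13715604536) (nat_lit 152) (nat_lit 47219106062) (nat_lit 0) (nat_lit 12670283096) (nat_lit 2) (nat_lit 5) (nat_lit 4) (nat_lit 4) (nat_lit 2) (nat_lit 4) (nat_lit 292) (nat_lit 216) (nat_lit 212))) (XT.nd (nat_lit 78) (nat_lit 0) (nat_lit 0) (XT.lf (nat_lit 0) (nat_lit 18146169163) (nat_lit 152) (nat_lit 44275584370) (nat_lit 0) (nat_lit 16886052746) (nat_lit 2) (nat_lit 5) (nat_lit 4) (nat_lit 4) (nat_lit 2) (nat_lit 4) (nat_lit 293) (nat_lit 216) (nat_lit 211)) (XT.nd (nat_lit 78) (nat_lit 0) (nat_lit 0) (XT.lf (nat_lit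 0) (nat_lit 22772781640) (nat_lit 152) (nat_lit 41388337456) (nat_lit 0) (nat_lit 21313780985) (nat_lit 2) (nat_lit 5) (nat_lit 4) (nat_lit 4) (nat_lit 2) (nat_lit 4) (nat_lit 294) (nat_lit 216) (nat_lit 210)) (XT.lf (nat_lit 0) (nat_lit 27622858930) (nat_lit 152) (nat_lit 38540255708) (nat_lit 0) (nat_lit 25979706203) (nat_lit 2) (nat_lit 5) (nat_lit 4) (nat_lit 4) (nat_lit 2) (nat_lit 4) (nat_lit 295) (nat_lit 216) (nat_lit 209))))))) (XT.nd (nat_lit 702) (nat_lit 76) (nat_lit 0) (XT.nd (nat_lit 312) (nat_lit 0) (nat_lit 0) (XT.nd (nat_lit 156) (nat_lit 0) (nat_lit 0) (XT.nd (nat_lit 78) (nat_lit 0) (nat_lit 0) (XT.lf (nat_lit 0) (nat_lit 32725142231) (nat_lit 152) (nat_lit 35714461605) (nat_lit 0) (nat_lit 30911478327) (nat_lit 2) (nat_lit 5) (nat_lit 4) (nat_lit 4) (nat_lit 2) (nat_lit 4) (nat_lit 296) (nat_lit 216) (nat_lit 208)) (XT.lf (nat_lit 0) (nat_lit 38109867297) (nat_lit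 152) (nat_lit 32894209700) (nat_lit 0) (nat_lit 36138322672) (nat_lit 2) (nat_lit 5) (nat_lit 4) (nat_lit 4) (nat_lit 2) (nat_lit 4) (nat_lit 297) (nat_lit 216) (nat_lit 207))) (XT.nd (nat_lit 78) (nat_lit 0) (nat_lit 0) (XT.lf (nat_lit 0) (nat_lit 43808943609) (nat_lit 152) (nat_lit 30062787389) (nat_lit 0) (nat_lit 41691213133) (nat_lit 2) (nat_lit 5) (nat_lit 4) (nat_lit 4) (nat_lit 2) (nat_lit 4) (nat_lit 298) (nat_lit 216) (nat_lit 206)) (XT.lf (nat_lit 0) (nat_lit 49856143472) (nat_lit 152) (nat_lit 27203415874) (nat_lit 0) (nat_lit 47603055725) (nat_lit 2) (nat_lit 5) (nat_lit 4) (nat_lit 4) (nat_lit 2) (nat_lit 4) (nat_lit 299) (nat_lit 216) (nat_lit 205)))) (XT.nd (nat_lit 156) (nat_lit 0) (nat_lit 0) (XT.nd (nat_lit 78) (nat_lit 0) (nat_lit 0) (XT.lf (nat_lit 0) (nat_lit 56287302143) (nat_lit 152) (nat_lit 24299150730) (nat_lit 0) (nat_lit 53908883590) (nat_lit 2) (nat_lit 5)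 (nat_lit 4) (nat_lit 4) (nat_lit 2) (nat_lit 4) (nat_lit 300) (nat_lit 216) (nat_lit 204)) (XT.lf (nat_lit 0) (nat_lit 63140530193) (nat_lit 152) (nat_lit 21332781498) (nat_lit 0) (nat_lit 60646064598) (nat_lit 2) (nat_lit 5) (nat_lit 4) (nat_lit 4) (nat_lit 2) (nat_lit 4) (nat_lit 301) (nat_lit 216) (nat_lit 203))) (XT.nd (nat_lit 78) (nat_lit 0) (nat_lit 0) (XT.lf (nat_lit 0) (nat_lit 70456439344) (nat_lit 152) (nat_lit 18286729693) (nat_lit 0) (nat_lit 67854522783) (nat_lit 2) (nat_lit 5) (nat_lit 4) (nat_lit 4) (nat_lit 2) (nat_lit 4) (nat_lit 302) (nat_lit 216) (nat_lit 202)) (XT.nd (nat_lit 78) (nat_lit 0) (nat_lit 0) (XT.lf (nat_lit 0) (nat_lit 78278383131) (nat_lit 152) (nat_lit 15142944638) (nat_lit 0) (nat_lit 75576974936) (nat_lit 2) (nat_lit 5) (nat_lit 4) (nat_lit 4) (nat_lit 2) (nat_lit 4) (nat_lit 303) (nat_lit 216) (nat_lit 201)) (XT.lf (nat_lit 0) (nat_lit 86652713813)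 (nat_lit 152) (nat_lit 11882796496) (nat_lit 0) (nat_lit 83859183735) (nat_lit 2) (nat_lit 5) (nat_lit 4) (nat_lit 4) (nat_lit 2) (nat_lit 4) (nat_lit 304) (nat_lit 216) (nat_lit 200)))))) (XT.nd (nat_lit 390) (nat_lit 0) (nat_lit 0) (XT.nd (nat_lit 156) (nat_lit 76) (nat_lit 0) (XT.nd (nat_lit 78) (nat_lit 0) (nat_lit 0) (XT.lf (nat_lit 0) (nat_lit 95629057055) (nat_lit 152) (nat_lit 8486965869) (nat_lit 0) (nat_lit 92750228936) (nat_lit 2) (nat_lit 5) (nat_lit 4) (nat_lit 4) (nat_lit 2) (nat_lit 4) (nat_lit 305) (nat_lit 216) (nat_lit 199)) (XT.lf (nat_lit 0) (nat_lit 105260606001) (nat_lit 152) (nat_lit 4935329318) (nat_lit 0) (nat_lit 102302798215) (nat_lit 2) (nat_lit 5) (nat_lit 4) (nat_lit 4) (nat_lit 2) (nat_lit 4) (nat_lit 306) (nat_lit 216) (nat_lit 198))) (XT.nd (nat_lit 78) (nat_lit 76) (nat_lit 0) (XT.lf (nat_lit 0) (nat_lit 115604436497) (nat_lit 152) (nat_lit 1206840107)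 (nat_lit 0) (nat_lit 112573499389) (nat_lit 2) (nat_lit 5) (nat_lit 4) (nat_lit 4) (nat_lit 2) (nat_lit 4) (nat_lit 307) (nat_lit 216) (nat_lit 197)) (XT.nd (nat_lit 78) (nat_lit 0) (nat_lit 0) (XT.lf (nat_lit 0) (nat_lit 2810551721) (nat_lit 76) (nat_lit 123955174183) (nat_lit 76) (nat_lit 120856524740) (nat_lit 1) (nat_lit 4) (nat_lit 2) (nat_lit 5) (nat_lit 2) (nat_lit 4) (nat_lit 308) (nat_lit 216) (nat_lit 196)) (XT.lf (nat_lit 0) (nat_lit 7097415877) (nat_lit 76) (nat_lit 131692108073) (nat_lit 76) (nat_lit 128530762025) (nat_lit 1) (nat_lit 4) (nat_lit 2) (nat_lit 5) (nat_lit 2) (nat_lit 4) (nat_lit 309) (nat_lit 216) (nat_lit 195))))) (XT.nd (nat_lit 156) (nat_lit 0) (nat_lit 0) (XT.nd (nat_lit 78) (nat_lit 0) (nat_lit 0) (XT.lf (nat_lit 0) (nat_lit 11639252415) (nat_lit 76) (nat_lit 140088365194) (nat_lit 76) (nat_lit 136868966732) (nat_lit 1) (nat_lit 4) (nat_lit 2) (nat_lit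 5) (nat_lit 2) (nat_lit 4) (nat_lit 310) (nat_lit 216) (nat_lit 194)) (XT.lf (nat_lit 0) (nat_lit 16462975921) (nat_lit 76) (nat_lit 149193701143) (nat_lit 76) (nat_lit 145920550447) (nat_lit 1) (nat_lit 4) (nat_lit 2) (nat_lit 5) (nat_lit 2) (nat_lit 4) (nat_lit 311) (nat_lit 216) (nat_lit 193))) (XT.nd (nat_lit 78) (nat_lit 0) (nat_lit 0) (XT.lf (nat_lit 0) (nat_lit 21597171425) (nat_lit 76) (nat_lit 159062073466) (nat_lit 76) (nat_lit 155739152182) (nat_lit 1) (nat_lit 4) (nat_lit 2) (nat_lit 5) (nat_lit 2) (nat_lit 4) (nat_lit 312) (nat_lit 216) (nat_lit 192)) (XT.nd (nat_lit 78) (nat_lit 0) (nat_lit 0) (XT.lf (nat_lit 0) (nat_lit 27072263789) (nat_lit 76) (nat_lit 169751961407) (nat_lit 76) (nat_lit 166382956246) (nat_lit 1) (nat_lit 4) (nat_lit 2) (nat_lit 5) (nat_lit 2) (nat_lit 4) (nat_lit 313) (nat_lit 216) (nat_lit 191)) (XT.lf (nat_lit 0) (nat_lit 32920698003) (nat_lit 76)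 (nat_lit 181326712449) (nat_lit 76) (nat_lit 177915037031) (nat_lit 1) (nat_lit 4) (nat_lit 2) (nat_lit 5) (nat_lit 2) (nat_lit 4) (nat_lit 314) (nat_lit 216) (nat_lit 190))))))))
noncomputable def xc10 : XT := (XT.nd (nat_lit 35802) (nat_lit 0) (nat_lit 0) (XT.nd (nat_lit 702) (nat_lit 0) (nat_lit 0) (XT.nd (nat_lit 312) (nat_lit 0) (nat_lit 0) (XT.nd (nat_lit 156) (nat_lit 0) (nat_lit 0) (XT.nd (nat_lit 78) (nat_lit 0) (nat_lit 0) (XT.lf (nat_lit 0) (nat_lit 39177131457) (nat_lit 76) (nat_lit 193854917710) (nat_lit 76) (nat_lit 190403732796) (nat_lit 1) (nat_lit 4) (nat_lit 2) (nat_lit 5) (nat_lit 2) (nat_lit 4) (nat_lit 315) (nat_lit 216) (nat_lit 189)) (XT.lf (nat_lit 0) (nat_lit 45878639311) (nat_lit 76) (nat_lit 207410818407) (nat_lit 76) (nat_lit 203923050625) (nat_lit 1) (nat_lit 4) (nat_lit 2) (nat_lit 5) (nat_lit 2) (nat_lit 4) (nat_lit 316) (nat_lit 216) (nat_lit 188))) (XT.nd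 (nat_lit 78) (nat_lit 0) (nat_lit 0) (XT.lf (nat_lit 0) (nat_lit 53064934204) (nat_lit 76) (nat_lit 222074745803) (nat_lit 76) (nat_lit 218553104996) (nat_lit 1) (nat_lit 4) (nat_lit 2) (nat_lit 5) (nat_lit 2) (nat_lit 4) (nat_lit 317) (nat_lit 216) (nat_lit 187)) (XT.lf (nat_lit 0) (nat_lit 60778601588) (nat_lit 76) (nat_lit 237933597245) (nat_lit 76) (nat_lit 234380592525) (nat_lit 1) (nat_lit 4) (nat_lit 2) (nat_lit 5) (nat_lit 2) (nat_lit 4) (nat_lit 318) (nat_lit 216) (nat_lit 186)))) (XT.nd (nat_lit 156) (nat_lit 0) (nat_lit 0) (XT.nd (nat_lit 78) (nat_lit 0) (nat_lit 0) (XT.lf (nat_lit 0) (nat_lit 69065352084) (nat_lit 76) (nat_lit 255081351113) (nat_lit 76) (nat_lit 251499305733) (nat_lit 1) (nat_lit 4) (nat_lit 2) (nat_lit 5) (nat_lit 2) (nat_lit 4) (nat_lit 319) (nat_lit 216) (nat_lit 185)) (XT.lf (nat_lit 0) (nat_lit 77974292362) (nat_lit 76) (nat_lit 273619623725) (nat_lit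 76) (nat_lit 270010688845) (nat_lit 1) (nat_lit 4) (nat_lit 2) (nat_lit 5) (nat_lit 2) (nat_lit 4) (nat_lit 320) (nat_lit 216) (nat_lit 184))) (XT.nd (nat_lit 78) (nat_lit 0) (nat_lit 0) (XT.lf (nat_lit 0) (nat_lit 87558216142) (nat_lit 76) (nat_lit 293658271511) (nat_lit 76) (nat_lit 290024438947) (nat_lit 1) (nat_lit 4) (nat_lit 2) (nat_lit 5) (nat_lit 2) (nat_lit 4) (nat_lit 321) (nat_lit 216) (nat_lit 183)) (XT.nd (nat_lit 78) (nat_lit 0) (nat_lit 0) (XT.lf (nat_lit 0) (nat_lit 97873917047) (nat_lit 76) (nat_lit 315316042015) (nat_lit 76) (nat_lit 311659156039) (nat_lit 1) (nat_lit 4) (nat_lit 2) (nat_lit 5) (nat_lit 2) (nat_lit 4) (nat_lit 322) (nat_lit 216) (nat_lit 182)) (XT.lf (nat_lit 0) (nat_lit 108982525155) (nat_lit 76) (nat_lit 338721277580) (nat_lit 76) (nat_lit 335043045852) (nat_lit 1) (nat_lit 4) (nat_lit 2) (nat_lit 5) (nat_lit 2) (nat_lit 4) (nat_lit 323) (nat_lit 216)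 (nat_lit 181)))))) (XT.nd (nat_lit 34710) (nat_lit 0) (nat_lit 76) (XT.nd (nat_lit 34554) (nat_lit 0) (nat_lit 228) (XT.nd (nat_lit 78) (nat_lit 0) (nat_lit 0) (XT.lf (nat_lit 0) (nat_lit 120949869256) (nat_lit 76) (nat_lit 364012675898) (nat_lit 76) (nat_lit 360314679584) (nat_lit 1) (nat_lit 4) (nat_lit 2) (nat_lit 5) (nat_lit 2) (nat_lit 4) (nat_lit 324) (nat_lit 216) (nat_lit 180)) (XT.lf (nat_lit 0) (nat_lit 133846866944) (nat_lit 76) (nat_lit 391340111922) (nat_lit 76) (nat_lit 387623815067) (nat_lit 1) (nat_lit 4) (nat_lit 2) (nat_lit 5) (nat_lit 2) (nat_lit 4) (nat_lit 325) (nat_lit 216) (nat_lit 179))) (XT.nd (nat_lit 78) (nat_lit 0) (nat_lit 0) (XT.lf (nat_lit 0) (nat_lit 14123062286) (nat_lit 76) (nat_lit 4782809168) (nat_lit 76) (nat_lit 4782809168) (nat_lit 4) (nat_lit 4) (nat_lit 5) (nat_lit 5) (nat_lit 5) (nat_lit 4) (nat_lit 286) (nat_lit 217) (nat_lit 217)) (XT.lf (nat_lit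 0) (nat_lit 38688014156) (nat_lit 76) (nat_lit 6290802407) (nat_lit 76) (nat_lit 5959417903) (nat_lit 4) (nat_lit 4) (nat_lit 5) (nat_lit 5) (nat_lit 5) (nat_lit 4) (nat_lit 287) (nat_lit 217) (nat_lit 216)))) (XT.nd (nat_lit 156) (nat_lit 0) (nat_lit 0) (XT.nd (nat_lit 78) (nat_lit 152) (nat_lit 0) (XT.lf (nat_lit 0) (nat_lit 49566310339) (nat_lit 76) (nat_lit 2933535051) (nat_lit 76) (nat_lit 2295313042) (nat_lit 4) (nat_lit 4) (nat_lit 5) (nat_lit 5) (nat_lit 5) (nat_lit 4) (nat_lit 288) (nat_lit 217) (nat_lit 215)) (XT.lf (nat_lit 0) (nat_lit 1442633532) (nat_lit 152) (nat_lit 56960972420) (nat_lit 0) (nat_lit 564223237) (nat_lit 2) (nat_lit 5) (nat_lit 4) (nat_lit 4) (nat_lit 2) (nat_lit 4) (nat_lit 289) (nat_lit 217) (nat_lit 214))) (XT.nd (nat_lit 78) (nat_lit 0) (nat_lit 0) (XT.lf (nat_lit 0) (nat_lit 5342780414) (nat_lit 152) (nat_lit 53918811226) (nat_lit 0) (nat_lit 4213833258)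 (nat_lit 2) (nat_lit 5) (nat_lit 4) (nat_lit 4) (nat_lit 2) (nat_lit 4) (nat_lit 290) (nat_lit 217) (nat_lit 213)) (XT.nd (nat_lit 78) (nat_lit 0) (nat_lit 0) (XT.lf (nat_lit 0) (nat_lit 9370184412) (nat_lit 152) (nat_lit 50973581934) (nat_lit 0) (nat_lit 8009258682) (nat_lit 2) (nat_lit 5) (nat_lit 4) (nat_lit 4) (nat_lit 2) (nat_lit 4) (nat_lit 291) (nat_lit 217) (nat_lit 212)) (XT.lf (nat_lit 0) (nat_lit 13548711624) (nat_lit 152) (nat_lit 48107831332) (nat_lit 0) (nat_lit 11972990917) (nat_lit 2) (nat_lit 5) (nat_lit 4) (nat_lit 4) (nat_lit 2) (nat_lit 4) (nat_lit 292) (nat_lit 217) (nat_lit 211))))))) (XT.nd (nat_lit 702) (nat_lit 76) (nat_lit 0) (XT.nd (nat_lit 312) (nat_lit 0) (nat_lit 0) (XT.nd (nat_lit 156) (nat_lit 0) (nat_lit 0) (XT.nd (nat_lit 78) (nat_lit 0) (nat_lit 0) (XT.lf (nat_lit 0) (nat_lit 17903123693) (nat_lit 152) (nat_lit 45304577194) (nat_lit 0) (nat_lit 16128518749)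 (nat_lit 2) (nat_lit 5) (nat_lit 4) (nat_lit 4) (nat_lit 2) (nat_lit 4) (nat_lit 293) (nat_lit 217) (nat_lit 210)) (XT.lf (nat_lit 0) (nat_lit 22459224543) (nat_lit 152) (nat_lit 42547207645) (nat_lit 0) (nat_lit 20500467526) (nat_lit 2) (nat_lit 5) (nat_lit 4) (nat_lit 4) (nat_lit 2) (nat_lit 4) (nat_lit 294) (nat_lit 217) (nat_lit 209))) (XT.nd (nat_lit 78) (nat_lit 0) (nat_lit 0) (XT.lf (nat_lit 0) (nat_lit 27244013288) (nat_lit 152) (nat_lit 39819382717) (nat_lit 0) (nat_lit 25114745094) (nat_lit 2) (nat_lit 5) (nat_lit 4) (nat_lit 4) (nat_lit 2) (nat_lit 4) (nat_lit 295) (nat_lit 217) (nat_lit 208)) (XT.lf (nat_lit 0) (nat_lit 32285844234) (nat_lit 152) (nat_lit 37104937520) (nat_lit 0) (nat_lit 29998695320) (nat_lit 2) (nat_lit 5) (nat_lit 4) (nat_lit 4) (nat_lit 2) (nat_lit 4) (nat_lit 296) (nat_lit 217) (nat_lit 207)))) (XT.nd (nat_lit 156) (nat_lit 0) (nat_lit 0) (XT.nd (nat_lit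 78) (nat_lit 0) (nat_lit 0) (XT.lf (nat_lit 0) (nat_lit 37614594897) (nat_lit 152) (nat_lit 34387786455) (nat_lit 0) (nat_lit 35181260130) (nat_lit 2) (nat_lit 5) (nat_lit 4) (nat_lit 4) (nat_lit 2) (nat_lit 4) (nat_lit 297) (nat_lit 217) (nat_lit 206)) (XT.lf (nat_lit 0) (nat_lit 43261843058) (nat_lit 152) (nat_lit 31651827885) (nat_lit 0) (nat_lit 40693151021) (nat_lit 2) (nat_lit 5) (nat_lit 4) (nat_lit 4) (nat_lit 2) (nat_lit 4) (nat_lit 298) (nat_lit 217) (nat_lit 205))) (XT.nd (nat_lit 78) (nat_lit 0) (nat_lit 0) (XT.lf (nat_lit 0) (nat_lit 49261053891) (nat_lit 152) (nat_lit 28880848722) (nat_lit 0) (nat_lit 46567031048) (nat_lit 2) (nat_lit 5) (nat_lit 4) (nat_lit 4) (nat_lit 2) (nat_lit 4) (nat_lit 299) (nat_lit 217) (nat_lit 204)) (XT.nd (nat_lit 78) (nat_lit 0) (nat_lit 0) (XT.lf (nat_lit 0) (nat_lit 55647778277) (nat_lit 152) (nat_lit 26058428349) (nat_lit 0) (nat_lit 52837708391)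 (nat_lit 2) (nat_lit 5) (nat_lit 4) (nat_lit 4) (nat_lit 2) (nat_lit 4) (nat_lit 300) (nat_lit 217) (nat_lit 203)) (XT.lf (nat_lit 0) (nat_lit 62459863469) (nat_lit 152) (nat_lit 23167841312) (nat_lit 0) (nat_lit 59542342619) (nat_lit 2) (nat_lit 5) (nat_lit 4) (nat_lit 4) (nat_lit 2) (nat_lit 4) (nat_lit 301) (nat_lit 217) (nat_lit 202)))))) (XT.nd (nat_lit 390) (nat_lit 76) (nat_lit 0) (XT.nd (nat_lit 156) (nat_lit 0) (nat_lit 0) (XT.nd (nat_lit 78) (nat_lit 0) (nat_lit 0) (XT.lf (nat_lit 0) (nat_lit 69737677382) (nat_lit 152) (nat_lit 20191958206) (nat_lit 0) (nat_lit 66720664897) (nat_lit 2) (nat_lit 5) (nat_lit 4) (nat_lit 4) (nat_lit 2) (nat_lit 4) (nat_lit 302) (nat_lit 217) (nat_lit 201)) (XT.lf (nat_lit 0) (nat_lit 77524347800) (nat_lit 152) (nat_lit 17113144169) (nat_lit 0) (nat_lit 74415213431) (nat_lit 2) (nat_lit 5) (nat_lit 4) (nat_lit 4) (nat_lit 2) (nat_lit 4) (nat_lit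 303) (nat_lit 217) (nat_lit 200))) (XT.nd (nat_lit 78) (nat_lit 0) (nat_lit 0) (XT.lf (nat_lit 0) (nat_lit 85866017956) (nat_lit 152) (nat_lit 13913154376) (nat_lit 0) (nat_lit 82671585546) (nat_lit 2) (nat_lit 5) (nat_lit 4) (nat_lit 4) (nat_lit 2) (nat_lit 4) (nat_lit 304) (nat_lit 217) (nat_lit 199)) (XT.nd (nat_lit 78) (nat_lit 0) (nat_lit 0) (XT.lf (nat_lit 0) (nat_lit 94812119969) (nat_lit 152) (nat_lit 10573025926) (nat_lit 0) (nat_lit 91538707892) (nat_lit 2) (nat_lit 5) (nat_lit 4) (nat_lit 4) (nat_lit 2) (nat_lit 4) (nat_lit 305) (nat_lit 217) (nat_lit 198)) (XT.lf (nat_lit 0) (nat_lit 104415667777) (nat_lit 152) (nat_lit 7072965463) (nat_lit 0) (nat_lit 101069126379) (nat_lit 2) (nat_lit 5) (nat_lit 4) (nat_lit 4) (nat_lit 2) (nat_lit 4) (nat_lit 306) (nat_lit 217) (nat_lit 197))))) (XT.nd (nat_lit 156) (nat_lit 0) (nat_lit 0) (XT.nd (nat_lit 78) (nat_lit 76) (nat_lit 0) (XT.lf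 (nat_lit 0) (nat_lit 114733571294) (nat_lit 152) (nat_lit 3392231890) (nat_lit 0) (nat_lit 111319317561) (nat_lit 2) (nat_lit 5) (nat_lit 4) (nat_lit 4) (nat_lit 2) (nat_lit 4) (nat_lit 307) (nat_lit 217) (nat_lit 196)) (XT.lf (nat_lit 0) (nat_lit 507220781) (nat_lit 76) (nat_lit 125327672007) (nat_lit 76) (nat_lit 121850721668) (nat_lit 1) (nat_lit 4) (nat_lit 2) (nat_lit 5) (nat_lit 2) (nat_lit 4) (nat_lit 308) (nat_lit 217) (nat_lit 195))) (XT.nd (nat_lit 78) (nat_lit 0) (nat_lit 0) (XT.lf (nat_lit 0) (nat_lit 4751788422) (nat_lit 76) (nat_lit 133084013840) (nat_lit 76) (nat_lit 129549011088) (nat_lit 1) (nat_lit 4) (nat_lit 2) (nat_lit 5) (nat_lit 2) (nat_lit 4) (nat_lit 309) (nat_lit 217) (nat_lit 194)) (XT.nd (nat_lit 78) (nat_lit 0) (nat_lit 0) (XT.lf (nat_lit 0) (nat_lit 9254461520) (nat_lit 76) (nat_lit 141498241277) (nat_lit 76) (nat_lit 137909486290) (nat_lit 1) (nat_lit 4)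 (nat_lit 2) (nat_lit 5) (nat_lit 2) (nat_lit 4) (nat_lit 310) (nat_lit 217) (nat_lit 193)) (XT.lf (nat_lit 0) (nat_lit 14041922583) (nat_lit 76) (nat_lit 150620216407) (nat_lit 76) (nat_lit 146981690834) (nat_lit 1) (nat_lit 4) (nat_lit 2) (nat_lit 5) (nat_lit 2) (nat_lit 4) (nat_lit 311) (nat_lit 217) (nat_lit 192))))))))
noncomputable def xc11 : XT := (XT.nd (nat_lit 35724) (nat_lit 0) (nat_lit 76) (XT.nd (nat_lit 702) (nat_lit 0) (nat_lit 0) (XT.nd (nat_lit 312) (nat_lit 0) (nat_lit 0) (XT.nd (nat_lit 156) (nat_lit 0) (nat_lit 0) (XT.nd (nat_lit 78) (nat_lit 0) (nat_lit 0) (XT.lf (nat_lit 0) (nat_lit 19142541750) (nat_lit 76) (nat_lit 160503995380) (nat_lit 76) (nat_lit 156819385929) (nat_lit 1) (nat_lit 4) (nat_lit 2) (nat_lit 5) (nat_lit 2) (nat_lit 4) (nat_lit 312) (nat_lit 217) (nat_lit 191)) (XT.lf (nat_lit 0) (nat_lit 24586544912) (nat_lit 76) (nat_lit 171208148738) (nat_lit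 76) (nat_lit 167480869030) (nat_lit 1) (nat_lit 4) (nat_lit 2) (nat_lit 5) (nat_lit 2) (nat_lit 4) (nat_lit 313) (nat_lit 217) (nat_lit 190))) (XT.nd (nat_lit 78) (nat_lit 0) (nat_lit 0) (XT.lf (nat_lit 0) (nat_lit 30406192830) (nat_lit 76) (nat_lit 182796108499) (nat_lit 76) (nat_lit 179029319295) (nat_lit 1) (nat_lit 4) (nat_lit 2) (nat_lit 5) (nat_lit 2) (nat_lit 4) (nat_lit 314) (nat_lit 217) (nat_lit 189)) (XT.lf (nat_lit 0) (nat_lit 36635972305) (nat_lit 76) (nat_lit 195336544056) (nat_lit 76) (nat_lit 191533171984) (nat_lit 1) (nat_lit 4) (nat_lit 2) (nat_lit 5) (nat_lit 2) (nat_lit 4) (nat_lit 315) (nat_lit 217) (nat_lit 188)))) (XT.nd (nat_lit 156) (nat_lit 0) (nat_lit 0) (XT.nd (nat_lit 78) (nat_lit 0) (nat_lit 0) (XT.lf (nat_lit 0) (nat_lit 43312800548) (nat_lit 76) (nat_lit 208903769101) (nat_lit 76) (nat_lit 205066524003) (nat_lit 1) (nat_lit 4) (nat_lit 2) (nat_lit 5) (nat_lit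 2) (nat_lit 4) (nat_lit 316) (nat_lit 217) (nat_lit 187)) (XT.lf (nat_lit 0) (nat_lit 50476243951) (nat_lit 76) (nat_lit 223578182003) (nat_lit 76) (nat_lit 219709572993) (nat_lit 1) (nat_lit 4) (nat_lit 2) (nat_lit 5) (nat_lit 2) (nat_lit 4) (nat_lit 317) (nat_lit 217) (nat_lit 186))) (XT.nd (nat_lit 78) (nat_lit 0) (nat_lit 0) (XT.lf (nat_lit 0) (nat_lit 58168752547) (nat_lit 76) (nat_lit 239446742248) (nat_lit 76) (nat_lit 235549092579) (nat_lit 1) (nat_lit 4) (nat_lit 2) (nat_lit 5) (nat_lit 2) (nat_lit 4) (nat_lit 318) (nat_lit 217) (nat_lit 185)) (XT.nd (nat_lit 78) (nat_lit 0) (nat_lit 0) (XT.lf (nat_lit 0) (nat_lit 66435911573) (nat_lit 76) (nat_lit 256603485748) (nat_lit 76) (nat_lit 252678946578) (nat_lit 1) (nat_lit 4) (nat_lit 2) (nat_lit 5) (nat_lit 2) (nat_lit 4) (nat_lit 319) (nat_lit 217) (nat_lit 184)) (XT.lf (nat_lit 0) (nat_lit 75326711601) (nat_lit 76) (nat_lit 275150082093)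 (nat_lit 76) (nat_lit 271200645239) (nat_lit 1) (nat_lit 4) (nat_lit 2) (nat_lit 5) (nat_lit 2) (nat_lit 4) (nat_lit 320) (nat_lit 217) (nat_lit 183)))))) (XT.nd (nat_lit 34632) (nat_lit 0) (nat_lit 228) (XT.nd (nat_lit 156) (nat_lit 0) (nat_lit 0) (XT.nd (nat_lit 78) (nat_lit 0) (nat_lit 0) (XT.lf (nat_lit 0) (nat_lit 84893838853) (nat_lit 76) (nat_lit 295196437041) (nat_lit 76) (nat_lit 291223946774) (nat_lit 1) (nat_lit 4) (nat_lit 2) (nat_lit 5) (nat_lit 2) (nat_lit 4) (nat_lit 321) (nat_lit 217) (nat_lit 182)) (XT.lf (nat_lit 0) (nat_lit 95193987417) (nat_lit 76) (nat_lit 316861343805) (nat_lit 76) (nat_lit 312867507786) (nat_lit 1) (nat_lit 4) (nat_lit 2) (nat_lit 5) (nat_lit 2) (nat_lit 4) (nat_lit 322) (nat_lit 217) (nat_lit 181))) (XT.nd (nat_lit 78) (nat_lit 0) (nat_lit 0) (XT.lf (nat_lit 0) (nat_lit 106288195210) (nat_lit 76) (nat_lit 340273187017) (nat_lit 76) (nat_lit 336259586414)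 (nat_lit 1) (nat_lit 4) (nat_lit 2) (nat_lit 5) (nat_lit 2) (nat_lit 4) (nat_lit 323) (nat_lit 217) (nat_lit 180)) (XT.lf (nat_lit 0) (nat_lit 118242205685) (nat_lit 76) (nat_lit 365570703528) (nat_lit 76) (nat_lit 361538802383) (nat_lit 1) (nat_lit 4) (nat_lit 2) (nat_lit 5) (nat_lit 2) (nat_lit 4) (nat_lit 324) (nat_lit 217) (nat_lit 179)))) (XT.nd (nat_lit 156) (nat_lit 0) (nat_lit 0) (XT.nd (nat_lit 78) (nat_lit 0) (nat_lit 0) (XT.lf (nat_lit 0) (nat_lit 4324994509) (nat_lit 76) (nat_lit 8101182891) (nat_lit 76) (nat_lit 8101182891) (nat_lit 4) (nat_lit 4) (nat_lit 5) (nat_lit 5) (nat_lit 5) (nat_lit 4) (nat_lit 284) (nat_lit 218) (nat_lit 218)) (XT.lf (nat_lit 0) (nat_lit 18178763727) (nat_lit 76) (nat_lit 13135284418) (nat_lit 76) (nat_lit 12777389153) (nat_lit 4) (nat_lit 4) (nat_lit 5) (nat_lit 5) (nat_lit 5) (nat_lit 4) (nat_lit 285) (nat_lit 218) (nat_lit 217))) (XT.nd (nat_lit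 78) (nat_lit 0) (nat_lit 0) (XT.lf (nat_lit 0) (nat_lit 28038980279) (nat_lit 76) (nat_lit 10016733098) (nat_lit 76) (nat_lit 9327453328) (nat_lit 4) (nat_lit 4) (nat_lit 5) (nat_lit 5) (nat_lit 5) (nat_lit 4) (nat_lit 286) (nat_lit 218) (nat_lit 216)) (XT.nd (nat_lit 78) (nat_lit 0) (nat_lit 0) (XT.lf (nat_lit 0) (nat_lit 38289069590) (nat_lit 76) (nat_lit 6828231518) (nat_lit 76) (nat_lit 5832114245) (nat_lit 4) (nat_lit 4) (nat_lit 5) (nat_lit 5) (nat_lit 5) (nat_lit 4) (nat_lit 287) (nat_lit 218) (nat_lit 215)) (XT.lf (nat_lit 0) (nat_lit 48989772928) (nat_lit 76) (nat_lit 3550884855) (nat_lit 76) (nat_lit 2270658781) (nat_lit 4) (nat_lit 4) (nat_lit 5) (nat_lit 5) (nat_lit 5) (nat_lit 4) (nat_lit 288) (nat_lit 218) (nat_lit 214))))))) (XT.nd (nat_lit 702) (nat_lit 0) (nat_lit 0) (XT.nd (nat_lit 312) (nat_lit 0) (nat_lit 0) (XT.nd (nat_lit 156) (nat_lit 0) (nat_lit 0) (XT.nd (nat_lit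 78) (nat_lit 0) (nat_lit 0) (XT.lf (nat_lit 0) (nat_lit 1230618957) (nat_lit 76) (nat_lit 122507255) (nat_lit 152) (nat_lit 57636593063) (nat_lit 2) (nat_lit 5) (nat_lit 3) (nat_lit 5) (nat_lit 4) (nat_lit 4) (nat_lit 289) (nat_lit 218) (nat_lit 213)) (XT.lf (nat_lit 0) (nat_lit 5162536069) (nat_lit 152) (nat_lit 54878634518) (nat_lit 0) (nat_lit 3460757705) (nat_lit 2) (nat_lit 5) (nat_lit 4) (nat_lit 4) (nat_lit 2) (nat_lit 4) (nat_lit 290) (nat_lit 218) (nat_lit 212))) (XT.nd (nat_lit 78) (nat_lit 0) (nat_lit 0) (XT.lf (nat_lit 0) (nat_lit 9107695305) (nat_lit 152) (nat_lit 52084894184) (nat_lit 0) (nat_lit 7191121964) (nat_lit 2) (nat_lit 5) (nat_lit 4) (nat_lit 4) (nat_lit 2) (nat_lit 4) (nat_lit 291) (nat_lit 218) (nat_lit 211)) (XT.lf (nat_lit 0) (nat_lit 13210069959) (nat_lit 152) (nat_lit 49359411136) (nat_lit 0) (nat_lit 11094612381) (nat_lit 2) (nat_lit 5) (nat_lit 4) (nat_lit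 4) (nat_lit 2) (nat_lit 4) (nat_lit 292) (nat_lit 218) (nat_lit 210)))) (XT.nd (nat_lit 156) (nat_lit 0) (nat_lit 0) (XT.nd (nat_lit 78) (nat_lit 0) (nat_lit 0) (XT.lf (nat_lit 0) (nat_lit 17493970401) (nat_lit 152) (nat_lit 46686034364) (nat_lit 0) (nat_lit 15194360751) (nat_lit 2) (nat_lit 5) (nat_lit 4) (nat_lit 4) (nat_lit 2) (nat_lit 4) (nat_lit 293) (nat_lit 218) (nat_lit 209)) (XT.lf (nat_lit 0) (nat_lit 21984782706) (nat_lit 152) (nat_lit 44048921634) (nat_lit 0) (nat_lit 19514661878) (nat_lit 2) (nat_lit 5) (nat_lit 4) (nat_lit 4) (nat_lit 2) (nat_lit 4) (nat_lit 294) (nat_lit 218) (nat_lit 208))) (XT.nd (nat_lit 78) (nat_lit 0) (nat_lit 0) (XT.lf (nat_lit 0) (nat_lit 26709119096) (nat_lit 152) (nat_lit 41432445613) (nat_lit 0) (nat_lit 24081117548) (nat_lit 2) (nat_lit 5) (nat_lit 4) (nat_lit 4) (nat_lit 2) (nat_lit 4) (nat_lit 295) (nat_lit 218) (nat_lit 207)) (XT.nd (nat_lit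 78) (nat_lit 0) (nat_lit 0) (XT.lf (nat_lit 0) (nat_lit 31694975639) (nat_lit 152) (nat_lit 38821101256) (nat_lit 0) (nat_lit 28920788239) (nat_lit 2) (nat_lit 5) (nat_lit 4) (nat_lit 4) (nat_lit 2) (nat_lit 4) (nat_lit 296) (nat_lit 218) (nat_lit 206)) (XT.lf (nat_lit 0) (nat_lit 36971898150) (nat_lit 152) (nat_lit 36199413931) (nat_lit 0) (nat_lit 34062353480) (nat_lit 2) (nat_lit 5) (nat_lit 4) (nat_lit 4) (nat_lit 2) (nat_lit 4) (nat_lit 297) (nat_lit 218) (nat_lit 205)))))) (XT.nd (nat_lit 390) (nat_lit 0) (nat_lit 0) (XT.nd (nat_lit 156) (nat_lit 0) (nat_lit 0) (XT.nd (nat_lit 78) (nat_lit 0) (nat_lit 0) (XT.lf (nat_lit 0) (nat_lit 42571157282) (nat_lit 152) (nat_lit 33551847714) (nat_lit 0) (nat_lit 39536281806) (nat_lit 2) (nat_lit 5) (nat_lit 4) (nat_lit 4) (nat_lit 2) (nat_lit 4) (nat_lit 298) (nat_lit 218) (nat_lit 204)) (XT.lf (nat_lit 0) (nat_lit 48525933829) (nat_lit 152)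 (nat_lit 30862713321) (nat_lit 0) (nat_lit 45375011311) (nat_lit 2) (nat_lit 5) (nat_lit 4) (nat_lit 4) (nat_lit 2) (nat_lit 4) (nat_lit 299) (nat_lit 218) (nat_lit 203))) (XT.nd (nat_lit 78) (nat_lit 0) (nat_lit 0) (XT.lf (nat_lit 0) (nat_lit 54871515357) (nat_lit 152) (nat_lit 28116075144) (nat_lit 0) (nat_lit 51613141874) (nat_lit 2) (nat_lit 5) (nat_lit 4) (nat_lit 4) (nat_lit 2) (nat_lit 4) (nat_lit 300) (nat_lit 218) (nat_lit 202)) (XT.nd (nat_lit 78) (nat_lit 0) (nat_lit 0) (XT.lf (nat_lit 0) (nat_lit 61645505312) (nat_lit 152) (nat_lit 25295656806) (nat_lit 0) (nat_lit 58287640193) (nat_lit 2) (nat_lit 5) (nat_lit 4) (nat_lit 4) (nat_lit 2) (nat_lit 4) (nat_lit 301) (nat_lit 218) (nat_lit 201)) (XT.lf (nat_lit 0) (nat_lit 68888045855) (nat_lit 152) (nat_lit 22384744718) (nat_lit 0) (nat_lit 65438058853) (nat_lit 2) (nat_lit 5) (nat_lit 4) (nat_lit 4) (nat_lit 2) (nat_lit 4) (nat_lit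 302) (nat_lit 218) (nat_lit 200))))) (XT.nd (nat_lit 156) (nat_lit 0) (nat_lit 0) (XT.nd (nat_lit 78) (nat_lit 0) (nat_lit 0) (XT.lf (nat_lit 0) (nat_lit 76642055747) (nat_lit 152) (nat_lit 19366089030) (nat_lit 0) (nat_lit 73106770704) (nat_lit 2) (nat_lit 5) (nat_lit 4) (nat_lit 4) (nat_lit 2) (nat_lit 4) (nat_lit 303) (nat_lit 218) (nat_lit 199)) (XT.lf (nat_lit 0) (nat_lit 84953484674) (nat_lit 152) (nat_lit 16221801413) (nat_lit 0) (nat_lit 81339219964) (nat_lit 2) (nat_lit 5) (nat_lit 4) (nat_lit 4) (nat_lit 2) (nat_lit 4) (nat_lit 304) (nat_lit 218) (nat_lit 198))) (XT.nd (nat_lit 78) (nat_lit 0) (nat_lit 0) (XT.lf (nat_lit 0) (nat_lit 93871585550) (nat_lit 152) (nat_lit 12933249051) (nat_lit 0) (nat_lit 90184191519) (nat_lit 2) (nat_lit 5) (nat_lit 4) (nat_lit 4) (nat_lit 2) (nat_lit 4) (nat_lit 305) (nat_lit 218) (nat_lit 197)) (XT.nd (nat_lit 78) (nat_lit 0) (nat_lit 0) (XT.lf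 (nat_lit 0) (nat_lit 103449206379) (nat_lit 152) (nat_lit 9480944226) (nat_lit 0) (nat_lit 99694100013) (nat_lit 2) (nat_lit 5) (nat_lit 4) (nat_lit 4) (nat_lit 2) (nat_lit 4) (nat_lit 306) (nat_lit 218) (nat_lit 196)) (XT.lf (nat_lit 0) (nat_lit 113743103434) (nat_lit 152) (nat_lit 5844428836) (nat_lit 0) (nat_lit 109925300461) (nat_lit 2) (nat_lit 5) (nat_lit 4) (nat_lit 4) (nat_lit 2) (nat_lit 4) (nat_lit 307) (nat_lit 218) (nat_lit 195))))))))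
noncomputable def xc12 : XT := (XT.nd (nat_lit 35568) (nat_lit 0) (nat_lit 76) (XT.nd (nat_lit 702) (nat_lit 0) (nat_lit 0) (XT.nd (nat_lit 312) (nat_lit 0) (nat_lit 0) (XT.nd (nat_lit 156) (nat_lit 0) (nat_lit 0) (XT.nd (nat_lit 78) (nat_lit 76) (nat_lit 0) (XT.lf (nat_lit 0) (nat_lit 124814277585) (nat_lit 152) (nat_lit 2002153159) (nat_lit 0) (nat_lit 120938422199) (nat_lit 2) (nat_lit 5) (nat_lit 4) (nat_lit 4) (nat_lit 2) (nat_lit 4) (nat_lit 308) (nat_lit 218) (nat_lit 194)) (XT.lf (nat_lit 0) (nat_lit 2137050816) (nat_lit 76) (nat_lit 134624650325) (nat_lit 76) (nat_lit 130695042706) (nat_lit 1) (nat_lit 4) (nat_lit 2) (nat_lit 5) (nat_lit 2) (nat_lit 4) (nat_lit 309) (nat_lit 218) (nat_lit 193))) (XT.nd (nat_lit 78) (nat_lit 0) (nat_lit 0) (XT.lf (nat_lit 0) (nat_lit 6603461471) (nat_lit 76) (nat_lit 143055516944) (nat_lit 76) (nat_lit 139076138737) (nat_lit 1) (nat_lit 4) (nat_lit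 2) (nat_lit 5) (nat_lit 2) (nat_lit 4) (nat_lit 310) (nat_lit 218) (nat_lit 192)) (XT.lf (nat_lit 0) (nat_lit 11357346197) (nat_lit 76) (nat_lit 152192898725) (nat_lit 76) (nat_lit 148167436641) (nat_lit 1) (nat_lit 4) (nat_lit 2) (nat_lit 5) (nat_lit 2) (nat_lit 4) (nat_lit 311) (nat_lit 218) (nat_lit 191)))) (XT.nd (nat_lit 156) (nat_lit 0) (nat_lit 0) (XT.nd (nat_lit 78) (nat_lit 0) (nat_lit 0) (XT.lf (nat_lit 0) (nat_lit 16426876163) (nat_lit 76) (nat_lit 162090943115) (nat_lit 76) (nat_lit 158022810774) (nat_lit 1) (nat_lit 4) (nat_lit 2) (nat_lit 5) (nat_lit 2) (nat_lit 4) (nat_lit 312) (nat_lit 218) (nat_lit 190)) (XT.lf (nat_lit 0) (nat_lit 21842093028) (nat_lit 76) (nat_lit 172808305191) (nat_lit 76) (nat_lit 168700663353) (nat_lit 1) (nat_lit 4) (nat_lit 2) (nat_lit 5) (nat_lit 2) (nat_lit 4) (nat_lit 313) (nat_lit 218) (nat_lit 189))) (XT.nd (nat_lit 78) (nat_lit 0) (nat_lit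 0) (XT.lf (nat_lit 0) (nat_lit 27635086966) (nat_lit 76) (nat_lit 184408495248) (nat_lit 76) (nat_lit 180264270542) (nat_lit 1) (nat_lit 4) (nat_lit 2) (nat_lit 5) (nat_lit 2) (nat_lit 4) (nat_lit 314) (nat_lit 218) (nat_lit 188)) (XT.nd (nat_lit 78) (nat_lit 0) (nat_lit 0) (XT.lf (nat_lit 0) (nat_lit 33840186831) (nat_lit 76) (nat_lit 196960255152) (nat_lit 76) (nat_lit 192782157421) (nat_lit 1) (nat_lit 4) (nat_lit 2) (nat_lit 5) (nat_lit 2) (nat_lit 4) (nat_lit 315) (nat_lit 218) (nat_lit 187)) (XT.lf (nat_lit 0) (nat_lit 40494163584) (nat_lit 76) (nat_lit 210537965704) (nat_lit 76) (nat_lit 206328504061) (nat_lit 1) (nat_lit 4) (nat_lit 2) (nat_lit 5) (nat_lit 2) (nat_lit 4) (nat_lit 316) (nat_lit 218) (nat_lit 186)))))) (XT.nd (nat_lit 312) (nat_lit 0) (nat_lit 0) (XT.nd (nat_lit 156) (nat_lit 0) (nat_lit 0) (XT.nd (nat_lit 78) (nat_lit 0) (nat_lit 0) (XT.lf (nat_lit 0) (nat_lit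 47636448199) (nat_lit 76) (nat_lit 225222087410) (nat_lit 76) (nat_lit 220983585107) (nat_lit 1) (nat_lit 4) (nat_lit 2) (nat_lit 5) (nat_lit 2) (nat_lit 4) (nat_lit 317) (nat_lit 218) (nat_lit 185)) (XT.lf (nat_lit 0) (nat_lit 55309365325) (nat_lit 76) (nat_lit 241099637287) (nat_lit 76) (nat_lit 236834245484) (nat_lit 1) (nat_lit 4) (nat_lit 2) (nat_lit 5) (nat_lit 2) (nat_lit 4) (nat_lit 318) (nat_lit 218) (nat_lit 184))) (XT.nd (nat_lit 78) (nat_lit 0) (nat_lit 0) (XT.lf (nat_lit 0) (nat_lit 63558384101) (nat_lit 76) (nat_lit 258264704520) (nat_lit 76) (nat_lit 253974415032) (nat_lit 1) (nat_lit 4) (nat_lit 2) (nat_lit 5) (nat_lit 2) (nat_lit 4) (nat_lit 319) (nat_lit 218) (nat_lit 183)) (XT.lf (nat_lit 0) (nat_lit 72432387601) (nat_lit 76) (nat_lit 276819008026) (nat_lit 76) (nat_lit 272505665126) (nat_lit 1) (nat_lit 4) (nat_lit 2) (nat_lit 5) (nat_lit 2) (nat_lit 4) (nat_lit 320)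 (nat_lit 218) (nat_lit 182)))) (XT.nd (nat_lit 156) (nat_lit 0) (nat_lit 0) (XT.nd (nat_lit 78) (nat_lit 0) (nat_lit 0) (XT.lf (nat_lit 0) (nat_lit 81983962513) (nat_lit 76) (nat_lit 296872499233) (nat_lit 76) (nat_lit 292537810582) (nat_lit 1) (nat_lit 4) (nat_lit 2) (nat_lit 5) (nat_lit 2) (nat_lit 4) (nat_lit 321) (nat_lit 218) (nat_lit 181)) (XT.lf (nat_lit 0) (nat_lit 92269710761) (nat_lit 76) (nat_lit 318544013645) (nat_lit 76) (nat_lit 314189560409) (nat_lit 1) (nat_lit 4) (nat_lit 2) (nat_lit 5) (nat_lit 2) (nat_lit 4) (nat_lit 322) (nat_lit 218) (nat_lit 180))) (XT.nd (nat_lit 78) (nat_lit 0) (nat_lit 0) (XT.lf (nat_lit 0) (nat_lit 103350584929) (nat_lit 76) (nat_lit 341961975051) (nat_lit 76) (nat_lit 337589221272) (nat_lit 1) (nat_lit 4) (nat_lit 2) (nat_lit 5) (nat_lit 2) (nat_lit 4) (nat_lit 323) (nat_lit 218) (nat_lit 179)) (XT.nd (nat_lit 34242) (nat_lit 0) (nat_lit 304)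 (XT.lf (nat_lit 0) (nat_lit 115292249455) (nat_lit 76) (nat_lit 367265156555) (nat_lit 76) (nat_lit 362875457830) (nat_lit 1) (nat_lit 4) (nat_lit 2) (nat_lit 5) (nat_lit 2) (nat_lit 4) (nat_lit 324) (nat_lit 218) (nat_lit 178)) (XT.lf (nat_lit 0) (nat_lit 6641627183) (nat_lit 152) (nat_lit 4547566672) (nat_lit 0) (nat_lit 6641627183) (nat_lit 5) (nat_lit 5) (nat_lit 7) (nat_lit 4) (nat_lit 5) (nat_lit 4) (nat_lit 282) (nat_lit 219) (nat_lit 219))))))) (XT.nd (nat_lit 702) (nat_lit 0) (nat_lit 0) (XT.nd (nat_lit 312) (nat_lit 152) (nat_lit 0) (XT.nd (nat_lit 156) (nat_lit 0) (nat_lit 0) (XT.nd (nat_lit 78) (nat_lit 76) (nat_lit 0) (XT.lf (nat_lit 0) (nat_lit 19028295894) (nat_lit 152) (nat_lit 584484944) (nat_lit 0) (nat_lit 18641769008) (nat_lit 5) (nat_lit 5) (nat_lit 7) (nat_lit 4) (nat_lit 5) (nat_lit 4) (nat_lit 283) (nat_lit 219) (nat_lit 218)) (XT.lf (nat_lit 0) (nat_lit 8426273181)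 (nat_lit 76) (nat_lit 16689569725) (nat_lit 76) (nat_lit 15945147574) (nat_lit 4) (nat_lit 4) (nat_lit 5) (nat_lit 5) (nat_lit 5) (nat_lit 4) (nat_lit 284) (nat_lit 219) (nat_lit 217))) (XT.nd (nat_lit 78) (nat_lit 0) (nat_lit 0) (XT.lf (nat_lit 0) (nat_lit 17747903595) (nat_lit 76) (nat_lit 13715707858) (nat_lit 76) (nat_lit 12639901202) (nat_lit 4) (nat_lit 4) (nat_lit 5) (nat_lit 5) (nat_lit 5) (nat_lit 4) (nat_lit 285) (nat_lit 219) (nat_lit 216)) (XT.lf (nat_lit 0) (nat_lit 27416319875) (nat_lit 76) (nat_lit 10683470887) (nat_lit 76) (nat_lit 9300826727) (nat_lit 4) (nat_lit 4) (nat_lit 5) (nat_lit 5) (nat_lit 5) (nat_lit 4) (nat_lit 286) (nat_lit 219) (nat_lit 215)))) (XT.nd (nat_lit 156) (nat_lit 152) (nat_lit 0) (XT.nd (nat_lit 78) (nat_lit 0) (nat_lit 0) (XT.lf (nat_lit 0) (nat_lit 37488816341) (nat_lit 76) (nat_lit 7574890001) (nat_lit 76) (nat_lit 5908137041) (nat_lit 4) (nat_lit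 4) (nat_lit 5) (nat_lit 5) (nat_lit 5) (nat_lit 4) (nat_lit 287) (nat_lit 219) (nat_lit 214)) (XT.lf (nat_lit 0) (nat_lit 48025081860) (nat_lit 76) (nat_lit 4371543980) (nat_lit 76) (nat_lit 2441727316) (nat_lit 4) (nat_lit 4) (nat_lit 5) (nat_lit 5) (nat_lit 5) (nat_lit 4) (nat_lit 288) (nat_lit 219) (nat_lit 213))) (XT.nd (nat_lit 78) (nat_lit 0) (nat_lit 0) (XT.lf (nat_lit 0) (nat_lit 48579082) (nat_lit 76) (nat_lit 1035310308) (nat_lit 152) (nat_lit 57938258654) (nat_lit 2) (nat_lit 5) (nat_lit 3) (nat_lit 5) (nat_lit 4) (nat_lit 4) (nat_lit 289) (nat_lit 219) (nat_lit 212)) (XT.nd (nat_lit 78) (nat_lit 0) (nat_lit 0) (XT.lf (nat_lit 0) (nat_lit 4796803071) (nat_lit 152) (nat_lit 56230340707) (nat_lit 0) (nat_lit 2512108886) (nat_lit 2) (nat_lit 5) (nat_lit 4) (nat_lit 4) (nat_lit 2) (nat_lit 4) (nat_lit 290) (nat_lit 219) (nat_lit 211)) (XT.lf (nat_lit 0) (nat_lit 8665809749) (nat_lit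 152) (nat_lit 53576867927) (nat_lit 0) (nat_lit 6182231327) (nat_lit 2) (nat_lit 5) (nat_lit 4) (nat_lit 4) (nat_lit 2) (nat_lit 4) (nat_lit 291) (nat_lit 219) (nat_lit 210)))))) (XT.nd (nat_lit 390) (nat_lit 0) (nat_lit 0) (XT.nd (nat_lit 156) (nat_lit 0) (nat_lit 0) (XT.nd (nat_lit 78) (nat_lit 0) (nat_lit 0) (XT.lf (nat_lit 0) (nat_lit 12697672776) (nat_lit 152) (nat_lit 50981262244) (nat_lit 0) (nat_lit 10029942282) (nat_lit 2) (nat_lit 5) (nat_lit 4) (nat_lit 4) (nat_lit 2) (nat_lit 4) (nat_lit 292) (nat_lit 219) (nat_lit 209)) (XT.lf (nat_lit 0) (nat_lit 16916284673) (nat_lit 152) (nat_lit 48428142291) (nat_lit 0) (nat_lit 14078043002) (nat_lit 2) (nat_lit 5) (nat_lit 4) (nat_lit 4) (nat_lit 2) (nat_lit 4) (nat_lit 293) (nat_lit 219) (nat_lit 208))) (XT.nd (nat_lit 78) (nat_lit 0) (nat_lit 0) (XT.lf (nat_lit 0) (nat_lit 21346644623) (nat_lit 152) (nat_lit 45902378469) (nat_lit 0)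 (nat_lit 18350522231) (nat_lit 2) (nat_lit 5) (nat_lit 4) (nat_lit 4) (nat_lit 2) (nat_lit 4) (nat_lit 294) (nat_lit 219) (nat_lit 207)) (XT.nd (nat_lit 78) (nat_lit 0) (nat_lit 0) (XT.lf (nat_lit 0) (nat_lit 26015006610) (nat_lit 152) (nat_lit 43389003287) (nat_lit 0) (nat_lit 22872698366) (nat_lit 2) (nat_lit 5) (nat_lit 4) (nat_lit 4) (nat_lit 2) (nat_lit 4) (nat_lit 295) (nat_lit 219) (nat_lit 206)) (XT.lf (nat_lit 0) (nat_lit 30949035001) (nat_lit 152) (nat_lit 40873122671) (nat_lit 0) (nat_lit 27671369487) (nat_lit 2) (nat_lit 5) (nat_lit 4) (nat_lit 4) (nat_lit 2) (nat_lit 4) (nat_lit 296) (nat_lit 219) (nat_lit 205))))) (XT.nd (nat_lit 156) (nat_lit 0) (nat_lit 0) (XT.nd (nat_lit 78) (nat_lit 0) (nat_lit 0) (XT.lf (nat_lit 0) (nat_lit 36177968483) (nat_lit 152) (nat_lit 38339827699) (nat_lit 0) (nat_lit 32774972163) (nat_lit 2) (nat_lit 5) (nat_lit 4) (nat_lit 4) (nat_lit 2) (nat_lit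 4) (nat_lit 297) (nat_lit 219) (nat_lit 204)) (XT.lf (nat_lit 0) (nat_lit 41732793329) (nat_lit 152) (nat_lit 35774106252) (nat_lit 0) (nat_lit 38213749967) (nat_lit 2) (nat_lit 5) (nat_lit 4) (nat_lit 4) (nat_lit 2) (nat_lit 4) (nat_lit 298) (nat_lit 219) (nat_lit 203))) (XT.nd (nat_lit 78) (nat_lit 0) (nat_lit 0) (XT.lf (nat_lit 0) (nat_lit 47646427019) (nat_lit 152) (nat_lit 33160754055) (nat_lit 0) (nat_lit 44019932692) (nat_lit 2) (nat_lit 5) (nat_lit 4) (nat_lit 4) (nat_lit 2) (nat_lit 4) (nat_lit 299) (nat_lit 219) (nat_lit 202)) (XT.nd (nat_lit 78) (nat_lit 0) (nat_lit 0) (XT.lf (nat_lit 0) (nat_lit 53953913309) (nat_lit 152) (nat_lit 30484284576) (nat_lit 0) (nat_lit 50227927347) (nat_lit 2) (nat_lit 5) (nat_lit 4) (nat_lit 4) (nat_lit 2) (nat_lit 4) (nat_lit 300) (nat_lit 219) (nat_lit 201)) (XT.lf (nat_lit 0) (nat_lit 60692629894) (nat_lit 152) (nat_lit 27728837256) (nat_lit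 0) (nat_lit 56874522048) (nat_lit 2) (nat_lit 5) (nat_lit 4) (nat_lit 4) (nat_lit 2) (nat_lit 4) (nat_lit 301) (nat_lit 219) (nat_lit 200))))))))
noncomputable def xc13 : XT := (XT.nd (nat_lit 1404) (nat_lit 0) (nat_lit 0) (XT.nd (nat_lit 702) (nat_lit 0) (nat_lit 0) (XT.nd (nat_lit 312) (nat_lit 76) (nat_lit 0) (XT.nd (nat_lit 156) (nat_lit 0) (nat_lit 0) (XT.nd (nat_lit 78) (nat_lit 0) (nat_lit 0) (XT.lf (nat_lit 0) (nat_lit 67902509911) (nat_lit 152) (nat_lit 24878083517) (nat_lit 0) (nat_lit 63999104025) (nat_lit 2) (nat_lit 5) (nat_lit 4) (nat_lit 4) (nat_lit 2) (nat_lit 4) (nat_lit 302) (nat_lit 219) (nat_lit 199)) (XT.lf (nat_lit 0) (nat_lit 75626278574) (nat_lit 152) (nat_lit 21915130006) (nat_lit 0) (nat_lit 71643893020) (nat_lit 2) (nat_lit 5) (nat_lit 4) (nat_lit 4) (nat_lit 2) (nat_lit 4) (nat_lit 303) (nat_lit 219) (nat_lit 198))) (XT.nd (nat_lit 78) (nat_lit 0) (nat_lit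 0) (XT.lf (nat_lit 0) (nat_lit 83909706364) (nat_lit 152) (nat_lit 18822418477) (nat_lit 0) (nat_lit 79854191489) (nat_lit 2) (nat_lit 5) (nat_lit 4) (nat_lit 4) (nat_lit 2) (nat_lit 4) (nat_lit 304) (nat_lit 219) (nat_lit 197)) (XT.lf (nat_lit 0) (nat_lit 92801880261) (nat_lit 152) (nat_lit 15581621753) (nat_lit 0) (nat_lit 88678653051) (nat_lit 2) (nat_lit 5) (nat_lit 4) (nat_lit 4) (nat_lit 2) (nat_lit 4) (nat_lit 305) (nat_lit 219) (nat_lit 196)))) (XT.nd (nat_lit 156) (nat_lit 76) (nat_lit 0) (XT.nd (nat_lit 78) (nat_lit 0) (nat_lit 0) (XT.lf (nat_lit 0) (nat_lit 102355494628) (nat_lit 152) (nat_lit 12173535111) (nat_lit 0) (nat_lit 98169570812) (nat_lit 2) (nat_lit 5) (nat_lit 4) (nat_lit 4) (nat_lit 2) (nat_lit 4) (nat_lit 306) (nat_lit 219) (nat_lit 195)) (XT.lf (nat_lit 0) (nat_lit 112627163477) (nat_lit 152) (nat_lit 8577962482) (nat_lit 0) (nat_lit 108383187247) (nat_lit 2)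 (nat_lit 5) (nat_lit 4) (nat_lit 4) (nat_lit 2) (nat_lit 4) (nat_lit 307) (nat_lit 219) (nat_lit 194))) (XT.nd (nat_lit 78) (nat_lit 76) (nat_lit 0) (XT.lf (nat_lit 0) (nat_lit 123677755956) (nat_lit 152) (nat_lit 4773596770) (nat_lit 0) (nat_lit 119380027492) (nat_lit 2) (nat_lit 5) (nat_lit 4) (nat_lit 4) (nat_lit 2) (nat_lit 4) (nat_lit 308) (nat_lit 219) (nat_lit 193)) (XT.nd (nat_lit 78) (nat_lit 76) (nat_lit 0) (XT.lf (nat_lit 0) (nat_lit 135572757057) (nat_lit 152) (nat_lit 737893586) (nat_lit 0) (nat_lit 131225258006) (nat_lit 2) (nat_lit 5) (nat_lit 4) (nat_lit 4) (nat_lit 2) (nat_lit 4) (nat_lit 309) (nat_lit 219) (nat_lit 192)) (XT.lf (nat_lit 0) (nat_lit 3670542637) (nat_lit 76) (nat_lit 144769420497) (nat_lit 76) (nat_lit 140375837569) (nat_lit 1) (nat_lit 4) (nat_lit 2) (nat_lit 5) (nat_lit 2) (nat_lit 4) (nat_lit 310) (nat_lit 219) (nat_lit 191)))))) (XT.nd (nat_lit 312)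 (nat_lit 0) (nat_lit 0) (XT.nd (nat_lit 156) (nat_lit 0) (nat_lit 0) (XT.nd (nat_lit 78) (nat_lit 0) (nat_lit 0) (XT.lf (nat_lit 0) (nat_lit 8393338161) (nat_lit 76) (nat_lit 153921067695) (nat_lit 76) (nat_lit 149484814510) (nat_lit 1) (nat_lit 4) (nat_lit 2) (nat_lit 5) (nat_lit 2) (nat_lit 4) (nat_lit 311) (nat_lit 219) (nat_lit 190)) (XT.lf (nat_lit 0) (nat_lit 13434081830) (nat_lit 76) (nat_lit 163832320803) (nat_lit 76) (nat_lit 159356558121) (nat_lit 1) (nat_lit 4) (nat_lit 2) (nat_lit 5) (nat_lit 2) (nat_lit 4) (nat_lit 312) (nat_lit 219) (nat_lit 189))) (XT.nd (nat_lit 78) (nat_lit 0) (nat_lit 0) (XT.lf (nat_lit 0) (nat_lit 18822644717) (nat_lit 76) (nat_lit 174561913175) (nat_lit 76) (nat_lit 170049567625) (nat_lit 1) (nat_lit 4) (nat_lit 2) (nat_lit 5) (nat_lit 2) (nat_lit 4) (nat_lit 313) (nat_lit 219) (nat_lit 188)) (XT.lf (nat_lit 0) (nat_lit 24590959045) (nat_lit 76) (nat_lit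 186173427579) (nat_lit 76) (nat_lit 181627209005) (nat_lit 1) (nat_lit 4) (nat_lit 2) (nat_lit 5) (nat_lit 2) (nat_lit 4) (nat_lit 314) (nat_lit 219) (nat_lit 187)))) (XT.nd (nat_lit 156) (nat_lit 0) (nat_lit 0) (XT.nd (nat_lit 78) (nat_lit 0) (nat_lit 0) (XT.lf (nat_lit 0) (nat_lit 30773207419) (nat_lit 76) (nat_lit 198735672991) (nat_lit 76) (nat_lit 194158090504) (nat_lit 1) (nat_lit 4) (nat_lit 2) (nat_lit 5) (nat_lit 2) (nat_lit 4) (nat_lit 315) (nat_lit 219) (nat_lit 186)) (XT.lf (nat_lit 0) (nat_lit 37406025385) (nat_lit 76) (nat_lit 212323092346) (nat_lit 76) (nat_lit 207716469198) (nat_lit 1) (nat_lit 4) (nat_lit 2) (nat_lit 5) (nat_lit 2) (nat_lit 4) (nat_lit 316) (nat_lit 219) (nat_lit 185))) (XT.nd (nat_lit 78) (nat_lit 0) (nat_lit 0) (XT.lf (nat_lit 0) (nat_lit 44528718529) (nat_lit 76) (nat_lit 227016203683) (nat_lit 76) (nat_lit 222382691037) (nat_lit 1) (nat_lit 4) (nat_lit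 2) (nat_lit 5) (nat_lit 2) (nat_lit 4) (nat_lit 317) (nat_lit 219) (nat_lit 184)) (XT.nd (nat_lit 78) (nat_lit 0) (nat_lit 0) (XT.lf (nat_lit 0) (nat_lit 52183495405) (nat_lit 76) (nat_lit 242902077294) (nat_lit 76) (nat_lit 238243666962) (nat_lit 1) (nat_lit 4) (nat_lit 2) (nat_lit 5) (nat_lit 2) (nat_lit 4) (nat_lit 318) (nat_lit 219) (nat_lit 183)) (XT.lf (nat_lit 0) (nat_lit 60415717653) (nat_lit 76) (nat_lit 260074851688) (nat_lit 76) (nat_lit 255393387944) (nat_lit 1) (nat_lit 4) (nat_lit 2) (nat_lit 5) (nat_lit 2) (nat_lit 4) (nat_lit 319) (nat_lit 219) (nat_lit 182))))))) (XT.nd (nat_lit 34710) (nat_lit 0) (nat_lit 76) (XT.nd (nat_lit 312) (nat_lit 0) (nat_lit 0) (XT.nd (nat_lit 156) (nat_lit 0) (nat_lit 0) (XT.nd (nat_lit 78) (nat_lit 0) (nat_lit 0) (XT.lf (nat_lit 0) (nat_lit 69274168813) (nat_lit 76) (nat_lit 278636291454) (nat_lit 76) (nat_lit 273933481959) (nat_lit 1) (nat_lit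 4) (nat_lit 2) (nat_lit 5) (nat_lit 2) (nat_lit 4) (nat_lit 320) (nat_lit 219) (nat_lit 181)) (XT.lf (nat_lit 0) (nat_lit 78811343409) (nat_lit 76) (nat_lit 298696390310) (nat_lit 76) (nat_lit 293973816229) (nat_lit 1) (nat_lit 4) (nat_lit 2) (nat_lit 5) (nat_lit 2) (nat_lit 4) (nat_lit 321) (nat_lit 219) (nat_lit 180))) (XT.nd (nat_lit 78) (nat_lit 0) (nat_lit 0) (XT.lf (nat_lit 0) (nat_lit 89083758032) (nat_lit 76) (nat_lit 320374022914) (nat_lit 76) (nat_lit 315633148292) (nat_lit 1) (nat_lit 4) (nat_lit 2) (nat_lit 5) (nat_lit 2) (nat_lit 4) (nat_lit 322) (nat_lit 219) (nat_lit 179)) (XT.lf (nat_lit 0) (nat_lit 100152286250) (nat_lit 76) (nat_lit 343797649313) (nat_lit 76) (nat_lit 339039829744) (nat_lit 1) (nat_lit 4) (nat_lit 2) (nat_lit 5) (nat_lit 2) (nat_lit 4) (nat_lit 323) (nat_lit 219) (nat_lit 178)))) (XT.nd (nat_lit 34164) (nat_lit 0) (nat_lit 304) (XT.nd (nat_lit 34086)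 (nat_lit 0) (nat_lit 304) (XT.lf (nat_lit 0) (nat_lit 112082519341) (nat_lit 76) (nat_lit 369106076181) (nat_lit 76) (nat_lit 364332566847) (nat_lit 1) (nat_lit 4) (nat_lit 2) (nat_lit 5) (nat_lit 2) (nat_lit 4) (nat_lit 324) (nat_lit 219) (nat_lit 177)) (XT.lf (nat_lit 0) (nat_lit 1423885769) (nat_lit 152) (nat_lit 12686629003) (nat_lit 0) (nat_lit 1423885769) (nat_lit 5) (nat_lit 5) (nat_lit 7) (nat_lit 4) (nat_lit 5) (nat_lit 4) (nat_lit 280) (nat_lit 220) (nat_lit 220))) (XT.nd (nat_lit 78) (nat_lit 0) (nat_lit 0) (XT.lf (nat_lit 0) (nat_lit 8132564934) (nat_lit 152) (nat_lit 17425798854) (nat_lit 0) (nat_lit 7715115897) (nat_lit 5) (nat_lit 5) (nat_lit 7) (nat_lit 4) (nat_lit 5) (nat_lit 4) (nat_lit 281) (nat_lit 220) (nat_lit 219)) (XT.nd (nat_lit 78) (nat_lit 0) (nat_lit 0) (XT.lf (nat_lit 0) (nat_lit 13571593779) (nat_lit 152) (nat_lit 9329013321) (nat_lit 0) (nat_lit 12767617855)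 (nat_lit 5) (nat_lit 5) (nat_lit 7) (nat_lit 4) (nat_lit 5) (nat_lit 4) (nat_lit 282) (nat_lit 220) (nat_lit 218)) (XT.lf (nat_lit 0) (nat_lit 19197089356) (nat_lit 152) (nat_lit 1034920455) (nat_lit 0) (nat_lit 18035218168) (nat_lit 5) (nat_lit 5) (nat_lit 7) (nat_lit 4) (nat_lit 5) (nat_lit 4) (nat_lit 283) (nat_lit 220) (nat_lit 217)))))) (XT.nd (nat_lit 390) (nat_lit 152) (nat_lit 0) (XT.nd (nat_lit 156) (nat_lit 0) (nat_lit 0) (XT.nd (nat_lit 78) (nat_lit 0) (nat_lit 0) (XT.lf (nat_lit 0) (nat_lit 7753799945) (nat_lit 76) (nat_lit 17409646537) (nat_lit 76) (nat_lit 15916390844) (nat_lit 4) (nat_lit 4) (nat_lit 5) (nat_lit 5) (nat_lit 5) (nat_lit 4) (nat_lit 284) (nat_lit 220) (nat_lit 216)) (XT.lf (nat_lit 0) (nat_lit 16883630086) (nat_lit 76) (nat_lit 14522099019) (nat_lit 76) (nat_lit 12722005822) (nat_lit 4) (nat_lit 4) (nat_lit 5) (nat_lit 5) (nat_lit 5) (nat_lit 4) (nat_lit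 285) (nat_lit 220) (nat_lit 215))) (XT.nd (nat_lit 78) (nat_lit 0) (nat_lit 0) (XT.lf (nat_lit 0) (nat_lit 26374453522) (nat_lit 76) (nat_lit 11569782741) (nat_lit 76) (nat_lit 9485580744) (nat_lit 4) (nat_lit 4) (nat_lit 5) (nat_lit 5) (nat_lit 5) (nat_lit 4) (nat_lit 286) (nat_lit 220) (nat_lit 214)) (XT.nd (nat_lit 78) (nat_lit 0) (nat_lit 0) (XT.lf (nat_lit 0) (nat_lit 36282512169) (nat_lit 76) (nat_lit 8535202498) (nat_lit 76) (nat_lit 6187936797) (nat_lit 4) (nat_lit 4) (nat_lit 5) (nat_lit 5) (nat_lit 5) (nat_lit 4) (nat_lit 287) (nat_lit 220) (nat_lit 213)) (XT.lf (nat_lit 0) (nat_lit 46666520448) (nat_lit 76) (nat_lit 5400375590) (nat_lit 76) (nat_lit 2809532385) (nat_lit 4) (nat_lit 4) (nat_lit 5) (nat_lit 5) (nat_lit 5) (nat_lit 4) (nat_lit 288) (nat_lit 220) (nat_lit 212))))) (XT.nd (nat_lit 156) (nat_lit 0) (nat_lit 0) (XT.nd (nat_lit 78) (nat_lit 76) (nat_lit 0) (XT.lf (nat_lit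 0) (nat_lit 648219596) (nat_lit 152) (nat_lit 1487527756) (nat_lit 76) (nat_lit 56928815714) (nat_lit 3) (nat_lit 5) (nat_lit 5) (nat_lit 5) (nat_lit 4) (nat_lit 4) (nat_lit 289) (nat_lit 220) (nat_lit 211)) (XT.lf (nat_lit 0) (nat_lit 4243414112) (nat_lit 152) (nat_lit 57981939904) (nat_lit 0) (nat_lit 1362265179) (nat_lit 2) (nat_lit 5) (nat_lit 4) (nat_lit 4) (nat_lit 2) (nat_lit 4) (nat_lit 290) (nat_lit 220) (nat_lit 210))) (XT.nd (nat_lit 78) (nat_lit 0) (nat_lit 0) (XT.lf (nat_lit 0) (nat_lit 8041909163) (nat_lit 152) (nat_lit 55458344489) (nat_lit 0) (nat_lit 4976608157) (nat_lit 2) (nat_lit 5) (nat_lit 4) (nat_lit 4) (nat_lit 2) (nat_lit 4) (nat_lit 291) (nat_lit 220) (nat_lit 209)) (XT.nd (nat_lit 78) (nat_lit 0) (nat_lit 0) (XT.lf (nat_lit 0) (nat_lit 12008483646) (nat_lit 152) (nat_lit 52982995626) (nat_lit 0) (nat_lit 8772671463) (nat_lit 2) (nat_lit 5) (nat_lit 4) (nat_lit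 4) (nat_lit 2) (nat_lit 4) (nat_lit 292) (nat_lit 220) (nat_lit 208)) (XT.lf (nat_lit 0) (nat_lit 16166643188) (nat_lit 152) (nat_lit 50541224580) (nat_lit 0) (nat_lit 12772950285) (nat_lit 2) (nat_lit 5) (nat_lit 4) (nat_lit 4) (nat_lit 2) (nat_lit 4) (nat_lit 293) (nat_lit 220) (nat_lit 207))))))))
noncomputable def xc14 : XT := (XT.nd (nat_lit 1404) (nat_lit 0) (nat_lit 0) (XT.nd (nat_lit 702) (nat_lit 76) (nat_lit 0) (XT.nd (nat_lit 312) (nat_lit 0) (nat_lit 0) (XT.nd (nat_lit 156) (nat_lit 0) (nat_lit 0) (XT.nd (nat_lit 78) (nat_lit 0) (nat_lit 0) (XT.lf (nat_lit 0) (nat_lit 20541028734) (nat_lit 152) (nat_lit 48118561597) (nat_lit 0) (nat_lit 17001149979) (nat_lit 2) (nat_lit 5) (nat_lit 4) (nat_lit 4) (nat_lit 2) (nat_lit 4) (nat_lit 294) (nat_lit 220) (nat_lit 206)) (XT.lf (nat_lit 0) (nat_lit 25157562570) (nat_lit 152) (nat_lit 45700650156) (nat_lit 0) (nat_lit 21482326544) (nat_lit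 2) (nat_lit 5) (nat_lit 4) (nat_lit 4) (nat_lit 2) (nat_lit 4) (nat_lit 295) (nat_lit 220) (nat_lit 205))) (XT.nd (nat_lit 78) (nat_lit 0) (nat_lit 0) (XT.lf (nat_lit 0) (nat_lit 30043601932) (nat_lit 152) (nat_lit 43273161892) (nat_lit 0) (nat_lit 26243035101) (nat_lit 2) (nat_lit 5) (nat_lit 4) (nat_lit 4) (nat_lit 2) (nat_lit 4) (nat_lit 296) (nat_lit 220) (nat_lit 204)) (XT.lf (nat_lit 0) (nat_lit 35228101128) (nat_lit 152) (nat_lit 40821711691) (nat_lit 0) (nat_lit 31311487254) (nat_lit 2) (nat_lit 5) (nat_lit 4) (nat_lit 4) (nat_lit 2) (nat_lit 4) (nat_lit 297) (nat_lit 220) (nat_lit 203)))) (XT.nd (nat_lit 156) (nat_lit 0) (nat_lit 0) (XT.nd (nat_lit 78) (nat_lit 0) (nat_lit 0) (XT.lf (nat_lit 0) (nat_lit 40741783117) (nat_lit 152) (nat_lit 38331772438) (nat_lit 0) (nat_lit 36717718278) (nat_lit 2) (nat_lit 5) (nat_lit 4) (nat_lit 4) (nat_lit 2) (nat_lit 4) (nat_lit 298) (nat_lit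 220) (nat_lit 202)) (XT.lf (nat_lit 0) (nat_lit 46617321569) (nat_lit 152) (nat_lit 35788588940) (nat_lit 0) (nat_lit 42493765095) (nat_lit 2) (nat_lit 5) (nat_lit 4) (nat_lit 4) (nat_lit 2) (nat_lit 4) (nat_lit 299) (nat_lit 220) (nat_lit 201))) (XT.nd (nat_lit 78) (nat_lit 0) (nat_lit 0) (XT.lf (nat_lit 0) (nat_lit 52889534489) (nat_lit 152) (nat_lit 33177090480) (nat_lit 0) (nat_lit 48673856132) (nat_lit 2) (nat_lit 5) (nat_lit 4) (nat_lit 4) (nat_lit 2) (nat_lit 4) (nat_lit 300) (nat_lit 220) (nat_lit 200)) (XT.nd (nat_lit 78) (nat_lit 0) (nat_lit 0) (XT.lf (nat_lit 0) (nat_lit 59595590548) (nat_lit 152) (nat_lit 30481801509) (nat_lit 0) (nat_lit 55294614150) (nat_lit 2) (nat_lit 5) (nat_lit 4) (nat_lit 4) (nat_lit 2) (nat_lit 4) (nat_lit 301) (nat_lit 220) (nat_lit 199)) (XT.lf (nat_lit 0) (nat_lit 66775229336) (nat_lit 152) (nat_lit 27686749947) (nat_lit 0) (nat_lit 62395273271)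 (nat_lit 2) (nat_lit 5) (nat_lit 4) (nat_lit 4) (nat_lit 2) (nat_lit 4) (nat_lit 302) (nat_lit 220) (nat_lit 198)))))) (XT.nd (nat_lit 312) (nat_lit 76) (nat_lit 0) (XT.nd (nat_lit 156) (nat_lit 0) (nat_lit 0) (XT.nd (nat_lit 78) (nat_lit 0) (nat_lit 0) (XT.lf (nat_lit 0) (nat_lit 74470996862) (nat_lit 152) (nat_lit 24775372523) (nat_lit 0) (nat_lit 70017911475) (nat_lit 2) (nat_lit 5) (nat_lit 4) (nat_lit 4) (nat_lit 2) (nat_lit 4) (nat_lit 303) (nat_lit 220) (nat_lit 197)) (XT.lf (nat_lit 0) (nat_lit 82728497673) (nat_lit 152) (nat_lit 21730416632) (nat_lit 0) (nat_lit 78207699951) (nat_lit 2) (nat_lit 5) (nat_lit 4) (nat_lit 4) (nat_lit 2) (nat_lit 4) (nat_lit 304) (nat_lit 220) (nat_lit 196))) (XT.nd (nat_lit 78) (nat_lit 0) (nat_lit 0) (XT.lf (nat_lit 0) (nat_lit 91596665107) (nat_lit 152) (nat_lit 18533838091) (nat_lit 0) (nat_lit 87013170780) (nat_lit 2) (nat_lit 5) (nat_lit 4)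 (nat_lit 4) (nat_lit 2) (nat_lit 4) (nat_lit 305) (nat_lit 220) (nat_lit 195)) (XT.lf (nat_lit 0) (nat_lit 101128051269) (nat_lit 152) (nat_lit 15166694211) (nat_lit 0) (nat_lit 96486504528) (nat_lit 2) (nat_lit 5) (nat_lit 4) (nat_lit 4) (nat_lit 2) (nat_lit 4) (nat_lit 306) (nat_lit 220) (nat_lit 194)))) (XT.nd (nat_lit 156) (nat_lit 76) (nat_lit 0) (XT.nd (nat_lit 78) (nat_lit 0) (nat_lit 0) (XT.lf (nat_lit 0) (nat_lit 111379138446) (nat_lit 152) (nat_lit 11609031547) (nat_lit 0) (nat_lit 106683839470) (nat_lit 2) (nat_lit 5) (nat_lit 4) (nat_lit 4) (nat_lit 2) (nat_lit 4) (nat_lit 307) (nat_lit 220) (nat_lit 193)) (XT.lf (nat_lit 0) (nat_lit 122410673821) (nat_lit 152) (nat_lit 7839767655) (nat_lit 0) (nat_lit 117665604258) (nat_lit 2) (nat_lit 5) (nat_lit 4) (nat_lit 4) (nat_lit 2) (nat_lit 4) (nat_lit 308) (nat_lit 220) (nat_lit 192))) (XT.nd (nat_lit 78) (nat_lit 76) (nat_lit 0)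 (XT.lf (nat_lit 0) (nat_lit 134288029456) (nat_lit 152) (nat_lit 3836566154) (nat_lit 0) (nat_lit 129496876016) (nat_lit 2) (nat_lit 5) (nat_lit 4) (nat_lit 4) (nat_lit 2) (nat_lit 4) (nat_lit 309) (nat_lit 220) (nat_lit 191)) (XT.nd (nat_lit 78) (nat_lit 0) (nat_lit 0) (XT.lf (nat_lit 0) (nat_lit 438324758) (nat_lit 76) (nat_lit 146650108401) (nat_lit 76) (nat_lit 141816284705) (nat_lit 1) (nat_lit 4) (nat_lit 2) (nat_lit 5) (nat_lit 2) (nat_lit 4) (nat_lit 310) (nat_lit 220) (nat_lit 190)) (XT.lf (nat_lit 0) (nat_lit 5132333985) (nat_lit 76) (nat_lit 155814964317) (nat_lit 76) (nat_lit 150941631124) (nat_lit 1) (nat_lit 4) (nat_lit 2) (nat_lit 5) (nat_lit 2) (nat_lit 4) (nat_lit 311) (nat_lit 220) (nat_lit 189))))))) (XT.nd (nat_lit 702) (nat_lit 0) (nat_lit 0) (XT.nd (nat_lit 312) (nat_lit 0) (nat_lit 0) (XT.nd (nat_lit 156) (nat_lit 0) (nat_lit 0) (XT.nd (nat_lit 78) (nat_lit 0) (nat_lit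 0) (XT.lf (nat_lit 0) (nat_lit 10146423675) (nat_lit 76) (nat_lit 165738447721) (nat_lit 76) (nat_lit 160828531660) (nat_lit 1) (nat_lit 4) (nat_lit 2) (nat_lit 5) (nat_lit 2) (nat_lit 4) (nat_lit 312) (nat_lit 220) (nat_lit 188)) (XT.lf (nat_lit 0) (nat_lit 15510306952) (nat_lit 76) (nat_lit 176479364441) (nat_lit 76) (nat_lit 171535575354) (nat_lit 1) (nat_lit 4) (nat_lit 2) (nat_lit 5) (nat_lit 2) (nat_lit 4) (nat_lit 313) (nat_lit 220) (nat_lit 187))) (XT.nd (nat_lit 78) (nat_lit 0) (nat_lit 0) (XT.lf (nat_lit 0) (nat_lit 21255769790) (nat_lit 76) (nat_lit 188101364352) (nat_lit 76) (nat_lit 183126211353) (nat_lit 1) (nat_lit 4) (nat_lit 2) (nat_lit 5) (nat_lit 2) (nat_lit 4) (nat_lit 314) (nat_lit 220) (nat_lit 186)) (XT.lf (nat_lit 0) (nat_lit 27416859376) (nat_lit 76) (nat_lit 200673318567) (nat_lit 76) (nat_lit 195669124908) (nat_lit 1) (nat_lit 4) (nat_lit 2) (nat_lit 5) (nat_lit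 2) (nat_lit 4) (nat_lit 315) (nat_lit 220) (nat_lit 185)))) (XT.nd (nat_lit 156) (nat_lit 0) (nat_lit 0) (XT.nd (nat_lit 78) (nat_lit 0) (nat_lit 0) (XT.lf (nat_lit 0) (nat_lit 34030085871) (nat_lit 76) (nat_lit 214269727553) (nat_lit 76) (nat_lit 209238644395) (nat_lit 1) (nat_lit 4) (nat_lit 2) (nat_lit 5) (nat_lit 2) (nat_lit 4) (nat_lit 316) (nat_lit 220) (nat_lit 184)) (XT.lf (nat_lit 0) (nat_lit 41134638766) (nat_lit 76) (nat_lit 228971162625) (nat_lit 76) (nat_lit 223915181782) (nat_lit 1) (nat_lit 4) (nat_lit 2) (nat_lit 5) (nat_lit 2) (nat_lit 4) (nat_lit 317) (nat_lit 220) (nat_lit 183))) (XT.nd (nat_lit 78) (nat_lit 0) (nat_lit 0) (XT.lf (nat_lit 0) (nat_lit 48772619114) (nat_lit 76) (nat_lit 244864743396) (nat_lit 76) (nat_lit 239785709141) (nat_lit 1) (nat_lit 4) (nat_lit 2) (nat_lit 5) (nat_lit 2) (nat_lit 4) (nat_lit 318) (nat_lit 220) (nat_lit 182)) (XT.nd (nat_lit 78)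 (nat_lit 0) (nat_lit 0) (XT.lf (nat_lit 0) (nat_lit 56989289021) (nat_lit 76) (nat_lit 262044654050) (nat_lit 76) (nat_lit 256944274043) (nat_lit 1) (nat_lit 4) (nat_lit 2) (nat_lit 5) (nat_lit 2) (nat_lit 4) (nat_lit 319) (nat_lit 220) (nat_lit 181)) (XT.lf (nat_lit 0) (nat_lit 65833339865) (nat_lit 76) (nat_lit 280612701464) (nat_lit 76) (nat_lit 275492556872) (nat_lit 1) (nat_lit 4) (nat_lit 2) (nat_lit 5) (nat_lit 2) (nat_lit 4) (nat_lit 320) (nat_lit 220) (nat_lit 180)))))) (XT.nd (nat_lit 34242) (nat_lit 0) (nat_lit 304) (XT.nd (nat_lit 156) (nat_lit 0) (nat_lit 0) (XT.nd (nat_lit 78) (nat_lit 0) (nat_lit 0) (XT.lf (nat_lit 0) (nat_lit 75357180836) (nat_lit 76) (nat_lit 300678918512) (nat_lit 76) (nat_lit 295540473379) (nat_lit 1) (nat_lit 4) (nat_lit 2) (nat_lit 5) (nat_lit 2) (nat_lit 4) (nat_lit 321) (nat_lit 220) (nat_lit 179)) (XT.lf (nat_lit 0) (nat_lit 85617249509) (nat_lit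 76) (nat_lit 322362216110) (nat_lit 76) (nat_lit 317206826030) (nat_lit 1) (nat_lit 4) (nat_lit 2) (nat_lit 5) (nat_lit 2) (nat_lit 4) (nat_lit 322) (nat_lit 220) (nat_lit 178))) (XT.nd (nat_lit 78) (nat_lit 0) (nat_lit 0) (XT.lf (nat_lit 0) (nat_lit 96674346293) (nat_lit 76) (nat_lit 345791087873) (nat_lit 76) (nat_lit 340620008028) (nat_lit 1) (nat_lit 4) (nat_lit 2) (nat_lit 5) (nat_lit 2) (nat_lit 4) (nat_lit 323) (nat_lit 220) (nat_lit 177)) (XT.nd (nat_lit 33930) (nat_lit 0) (nat_lit 456) (XT.lf (nat_lit 0) (nat_lit 108593994722) (nat_lit 76) (nat_lit 371104371559) (nat_lit 76) (nat_lit 365918764155) (nat_lit 1) (nat_lit 4) (nat_lit 2) (nat_lit 5) (nat_lit 2) (nat_lit 4) (nat_lit 324) (nat_lit 220) (nat_lit 176)) (XT.lf (nat_lit 0) (nat_lit 6901878402) (nat_lit 76) (nat_lit 3336410370) (nat_lit 76) (nat_lit 3336410370) (nat_lit 7) (nat_lit 4) (nat_lit 8) (nat_lit 5) (nat_lit 8)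 (nat_lit 4) (nat_lit 278) (nat_lit 221) (nat_lit 221))))) (XT.nd (nat_lit 156) (nat_lit 0) (nat_lit 0) (XT.nd (nat_lit 78) (nat_lit 152) (nat_lit 0) (XT.lf (nat_lit 0) (nat_lit 24924561507) (nat_lit 76) (nat_lit 2291686416) (nat_lit 76) (nat_lit 1818299208) (nat_lit 7) (nat_lit 4) (nat_lit 8) (nat_lit 5) (nat_lit 8) (nat_lit 4) (nat_lit 279) (nat_lit 221) (nat_lit 220)) (XT.lf (nat_lit 0) (nat_lit 3159178103) (nat_lit 152) (nat_lit 25625848381) (nat_lit 0) (nat_lit 2290884106) (nat_lit 5) (nat_lit 5) (nat_lit 7) (nat_lit 4) (nat_lit 5) (nat_lit 4) (nat_lit 280) (nat_lit 221) (nat_lit 219))) (XT.nd (nat_lit 78) (nat_lit 0) (nat_lit 0) (XT.lf (nat_lit 0) (nat_lit 8314861872) (nat_lit 152) (nat_lit 17912269205) (nat_lit 0) (nat_lit 7060040989) (nat_lit 5) (nat_lit 5) (nat_lit 7) (nat_lit 4) (nat_lit 5) (nat_lit 4) (nat_lit 281) (nat_lit 221) (nat_lit 218)) (XT.nd (nat_lit 78) (nat_lit 0)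 (nat_lit 0) (XT.lf (nat_lit 0) (nat_lit 13634344768) (nat_lit 152) (nat_lit 10032039205) (nat_lit 0) (nat_lit 12021628619) (nat_lit 5) (nat_lit 5) (nat_lit 7) (nat_lit 4) (nat_lit 5) (nat_lit 4) (nat_lit 282) (nat_lit 221) (nat_lit 217)) (XT.lf (nat_lit 0) (nat_lit 19149149651) (nat_lit 152) (nat_lit 1938460722) (nat_lit 0) (nat_lit 17205048998) (nat_lit 5) (nat_lit 5) (nat_lit 7) (nat_lit 4) (nat_lit 5) (nat_lit 4) (nat_lit 283) (nat_lit 221) (nat_lit 216))))))))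
noncomputable def xc15 : XT := (XT.nd (nat_lit 1404) (nat_lit 76) (nat_lit 0) (XT.nd (nat_lit 702) (nat_lit 0) (nat_lit 0) (XT.nd (nat_lit 312) (nat_lit 152) (nat_lit 0) (XT.nd (nat_lit 156) (nat_lit 0) (nat_lit 0) (XT.nd (nat_lit 78) (nat_lit 0) (nat_lit 0) (XT.lf (nat_lit 0) (nat_lit 6628584283) (nat_lit 76) (nat_lit 18366863340) (nat_lit 76) (nat_lit 16115925183) (nat_lit 4) (nat_lit 4) (nat_lit 5) (nat_lit 5) (nat_lit 5) (nat_lit 4) (nat_lit 284) (nat_lit 221) (nat_lit 215)) (XT.lf (nat_lit 0) (nat_lit 15580821580) (nat_lit 76) (nat_lit 15559236515) (nat_lit 76) (nat_lit 13024189558) (nat_lit 4) (nat_lit 4) (nat_lit 5) (nat_lit 5) (nat_lit 5) (nat_lit 4) (nat_lit 285) (nat_lit 221) (nat_lit 214))) (XT.nd (nat_lit 78) (nat_lit 0) (nat_lit 0) (XT.lf (nat_lit 0) (nat_lit 24907207196) (nat_lit 76) (nat_lit 12680920880) (nat_lit 76) (nat_lit 9882810219) (nat_lit 4) (nat_lit 4) (nat_lit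 5) (nat_lit 5) (nat_lit 5) (nat_lit 4) (nat_lit 286) (nat_lit 221) (nat_lit 213)) (XT.lf (nat_lit 0) (nat_lit 34663008603) (nat_lit 76) (nat_lit 9714859750) (nat_lit 76) (nat_lit 6673171585) (nat_lit 4) (nat_lit 4) (nat_lit 5) (nat_lit 5) (nat_lit 5) (nat_lit 4) (nat_lit 287) (nat_lit 221) (nat_lit 212)))) (XT.nd (nat_lit 156) (nat_lit 76) (nat_lit 0) (XT.nd (nat_lit 78) (nat_lit 76) (nat_lit 0) (XT.lf (nat_lit 0) (nat_lit 44906037956) (nat_lit 76) (nat_lit 6643476465) (nat_lit 76) (nat_lit 3376253575) (nat_lit 4) (nat_lit 4) (nat_lit 5) (nat_lit 5) (nat_lit 5) (nat_lit 4) (nat_lit 288) (nat_lit 221) (nat_lit 211)) (XT.lf (nat_lit 0) (nat_lit 26601536) (nat_lit 152) (nat_lit 3421518190) (nat_lit 76) (nat_lit 55669942643) (nat_lit 3) (nat_lit 5) (nat_lit 5) (nat_lit 5) (nat_lit 4) (nat_lit 4) (nat_lit 289) (nat_lit 221) (nat_lit 210))) (XT.nd (nat_lit 78) (nat_lit 0) (nat_lit 0) (XT.lf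 (nat_lit 0) (nat_lit 3499089852) (nat_lit 152) (nat_lit 60143811956) (nat_lit 0) (nat_lit 4412694) (nat_lit 2) (nat_lit 5) (nat_lit 4) (nat_lit 4) (nat_lit 2) (nat_lit 4) (nat_lit 290) (nat_lit 221) (nat_lit 209)) (XT.nd (nat_lit 78) (nat_lit 0) (nat_lit 0) (XT.lf (nat_lit 0) (nat_lit 7232296359) (nat_lit 152) (nat_lit 57740473361) (nat_lit 0) (nat_lit 3567108023) (nat_lit 2) (nat_lit 5) (nat_lit 4) (nat_lit 4) (nat_lit 2) (nat_lit 4) (nat_lit 291) (nat_lit 221) (nat_lit 208)) (XT.lf (nat_lit 0) (nat_lit 11138418486) (nat_lit 152) (nat_lit 55376473404) (nat_lit 0) (nat_lit 7315349430) (nat_lit 2) (nat_lit 5) (nat_lit 4) (nat_lit 4) (nat_lit 2) (nat_lit 4) (nat_lit 292) (nat_lit 221) (nat_lit 207)))))) (XT.nd (nat_lit 312) (nat_lit 0) (nat_lit 0) (XT.nd (nat_lit 156) (nat_lit 0) (nat_lit 0) (XT.nd (nat_lit 78) (nat_lit 0) (nat_lit 0) (XT.lf (nat_lit 0) (nat_lit 15240603625) (nat_lit 152)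 (nat_lit 53037803198) (nat_lit 0) (nat_lit 11271348717) (nat_lit 2) (nat_lit 5) (nat_lit 4) (nat_lit 4) (nat_lit 2) (nat_lit 4) (nat_lit 293) (nat_lit 221) (nat_lit 206)) (XT.lf (nat_lit 0) (nat_lit 19563161020) (nat_lit 152) (nat_lit 50710603956) (nat_lit 0) (nat_lit 15458548842) (nat_lit 2) (nat_lit 5) (nat_lit 4) (nat_lit 4) (nat_lit 2) (nat_lit 4) (nat_lit 294) (nat_lit 221) (nat_lit 205))) (XT.nd (nat_lit 78) (nat_lit 0) (nat_lit 0) (XT.lf (nat_lit 0) (nat_lit 24131705826) (nat_lit 152) (nat_lit 48381084867) (nat_lit 0) (nat_lit 19901762843) (nat_lit 2) (nat_lit 5) (nat_lit 4) (nat_lit 4) (nat_lit 2) (nat_lit 4) (nat_lit 295) (nat_lit 221) (nat_lit 204)) (XT.lf (nat_lit 0) (nat_lit 28973310903) (nat_lit 152) (nat_lit 46035441374) (nat_lit 0) (nat_lit 24627320876) (nat_lit 2) (nat_lit 5) (nat_lit 4) (nat_lit 4) (nat_lit 2) (nat_lit 4) (nat_lit 296) (nat_lit 221) (nat_lit 203)))) (XT.nd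 (nat_lit 156) (nat_lit 0) (nat_lit 0) (XT.nd (nat_lit 78) (nat_lit 0) (nat_lit 0) (XT.lf (nat_lit 0) (nat_lit 34116667241) (nat_lit 152) (nat_lit 43659773367) (nat_lit 0) (nat_lit 29663226250) (nat_lit 2) (nat_lit 5) (nat_lit 4) (nat_lit 4) (nat_lit 2) (nat_lit 4) (nat_lit 297) (nat_lit 221) (nat_lit 202)) (XT.lf (nat_lit 0) (nat_lit 39592253992) (nat_lit 152) (nat_lit 41240002814) (nat_lit 0) (nat_lit 35039321365) (nat_lit 2) (nat_lit 5) (nat_lit 4) (nat_lit 4) (nat_lit 2) (nat_lit 4) (nat_lit 298) (nat_lit 221) (nat_lit 201))) (XT.nd (nat_lit 78) (nat_lit 0) (nat_lit 0) (XT.lf (nat_lit 0) (nat_lit 45432519075) (nat_lit 152) (nat_lit 38761790334) (nat_lit 0) (nat_lit 40787464565) (nat_lit 2) (nat_lit 5) (nat_lit 4) (nat_lit 4) (nat_lit 2) (nat_lit 4) (nat_lit 299) (nat_lit 221) (nat_lit 200)) (XT.nd (nat_lit 78) (nat_lit 0) (nat_lit 0) (XT.lf (nat_lit 0) (nat_lit 51672071468) (nat_lit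 152) (nat_lit 36210450223) (nat_lit 0) (nat_lit 46941718918) (nat_lit 2) (nat_lit 5) (nat_lit 4) (nat_lit 4) (nat_lit 2) (nat_lit 4) (nat_lit 300) (nat_lit 221) (nat_lit 199)) (XT.lf (nat_lit 0) (nat_lit 58347886299) (nat_lit 152) (nat_lit 33570863428) (nat_lit 0) (nat_lit 53538554081) (nat_lit 2) (nat_lit 5) (nat_lit 4) (nat_lit 4) (nat_lit 2) (nat_lit 4) (nat_lit 301) (nat_lit 221) (nat_lit 198))))))) (XT.nd (nat_lit 702) (nat_lit 76) (nat_lit 0) (XT.nd (nat_lit 312) (nat_lit 0) (nat_lit 0) (XT.nd (nat_lit 156) (nat_lit 0) (nat_lit 0) (XT.nd (nat_lit 78) (nat_lit 0) (nat_lit 0) (XT.lf (nat_lit 0) (nat_lit 65499523950) (nat_lit 152) (nat_lit 30827387954) (nat_lit 0) (nat_lit 60617062411) (nat_lit 2) (nat_lit 5) (nat_lit 4) (nat_lit 4) (nat_lit 2) (nat_lit 4) (nat_lit 302) (nat_lit 221) (nat_lit 197)) (XT.lf (nat_lit 0) (nat_lit 73169364496) (nat_lit 152) (nat_lit 27963766169) (nat_lit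 0) (nat_lit 68219190622) (nat_lit 2) (nat_lit 5) (nat_lit 4) (nat_lit 4) (nat_lit 2) (nat_lit 4) (nat_lit 303) (nat_lit 221) (nat_lit 196))) (XT.nd (nat_lit 78) (nat_lit 0) (nat_lit 0) (XT.lf (nat_lit 0) (nat_lit 81402858845) (nat_lit 152) (nat_lit 24963028461) (nat_lit 0) (nat_lit 76389988365) (nat_lit 2) (nat_lit 5) (nat_lit 4) (nat_lit 4) (nat_lit 2) (nat_lit 4) (nat_lit 304) (nat_lit 221) (nat_lit 195)) (XT.lf (nat_lit 0) (nat_lit 90248798074) (nat_lit 152) (nat_lit 21807392681) (nat_lit 0) (nat_lit 85177875181) (nat_lit 2) (nat_lit 5) (nat_lit 4) (nat_lit 4) (nat_lit 2) (nat_lit 4) (nat_lit 305) (nat_lit 221) (nat_lit 194)))) (XT.nd (nat_lit 156) (nat_lit 0) (nat_lit 0) (XT.nd (nat_lit 78) (nat_lit 0) (nat_lit 0) (XT.lf (nat_lit 0) (nat_lit 99759602563) (nat_lit 152) (nat_lit 18478158766) (nat_lit 0) (nat_lit 94634927436) (nat_lit 2) (nat_lit 5) (nat_lit 4) (nat_lit 4) (nat_lit 2)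 (nat_lit 4) (nat_lit 306) (nat_lit 221) (nat_lit 193)) (XT.lf (nat_lit 0) (nat_lit 109991632636) (nat_lit 152) (nat_lit 14955597922) (nat_lit 0) (nat_lit 104817186921) (nat_lit 2) (nat_lit 5) (nat_lit 4) (nat_lit 4) (nat_lit 2) (nat_lit 4) (nat_lit 307) (nat_lit 221) (nat_lit 192))) (XT.nd (nat_lit 78) (nat_lit 0) (nat_lit 0) (XT.lf (nat_lit 0) (nat_lit 121005522545) (nat_lit 152) (nat_lit 11218835714) (nat_lit 0) (nat_lit 115784992953) (nat_lit 2) (nat_lit 5) (nat_lit 4) (nat_lit 4) (nat_lit 2) (nat_lit 4) (nat_lit 308) (nat_lit 221) (nat_lit 191)) (XT.nd (nat_lit 78) (nat_lit 0) (nat_lit 0) (XT.lf (nat_lit 0) (nat_lit 132866539786) (nat_lit 152) (nat_lit 7245728366) (nat_lit 0) (nat_lit 127603339937) (nat_lit 2) (nat_lit 5) (nat_lit 4) (nat_lit 4) (nat_lit 2) (nat_lit 4) (nat_lit 309) (nat_lit 221) (nat_lit 190)) (XT.lf (nat_lit 0) (nat_lit 145644971868) (nat_lit 152) (nat_lit 3012731538)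 (nat_lit 0) (nat_lit 140342262522) (nat_lit 2) (nat_lit 5) (nat_lit 4) (nat_lit 4) (nat_lit 2) (nat_lit 4) (nat_lit 310) (nat_lit 221) (nat_lit 189)))))) (XT.nd (nat_lit 390) (nat_lit 0) (nat_lit 0) (XT.nd (nat_lit 156) (nat_lit 0) (nat_lit 0) (XT.nd (nat_lit 78) (nat_lit 0) (nat_lit 0) (XT.lf (nat_lit 0) (nat_lit 1555009199) (nat_lit 76) (nat_lit 157885811684) (nat_lit 76) (nat_lit 152546519471) (nat_lit 1) (nat_lit 4) (nat_lit 2) (nat_lit 5) (nat_lit 2) (nat_lit 4) (nat_lit 311) (nat_lit 221) (nat_lit 188)) (XT.lf (nat_lit 0) (nat_lit 6544419279) (nat_lit 76) (nat_lit 167820619436) (nat_lit 76) (nat_lit 162447454197) (nat_lit 1) (nat_lit 4) (nat_lit 2) (nat_lit 5) (nat_lit 2) (nat_lit 4) (nat_lit 312) (nat_lit 221) (nat_lit 187))) (XT.nd (nat_lit 78) (nat_lit 0) (nat_lit 0) (XT.lf (nat_lit 0) (nat_lit 11885451065) (nat_lit 76) (nat_lit 178572021662) (nat_lit 76) (nat_lit 173167492511)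 (nat_lit 1) (nat_lit 4) (nat_lit 2) (nat_lit 5) (nat_lit 2) (nat_lit 4) (nat_lit 313) (nat_lit 221) (nat_lit 186)) (XT.nd (nat_lit 78) (nat_lit 0) (nat_lit 0) (XT.lf (nat_lit 0) (nat_lit 17609755115) (nat_lit 76) (nat_lit 190203730377) (nat_lit 76) (nat_lit 184770160566) (nat_lit 1) (nat_lit 4) (nat_lit 2) (nat_lit 5) (nat_lit 2) (nat_lit 4) (nat_lit 314) (nat_lit 221) (nat_lit 185)) (XT.lf (nat_lit 0) (nat_lit 23751253231) (nat_lit 76) (nat_lit 202784674224) (nat_lit 76) (nat_lit 197324214913) (nat_lit 1) (nat_lit 4) (nat_lit 2) (nat_lit 5) (nat_lit 2) (nat_lit 4) (nat_lit 315) (nat_lit 221) (nat_lit 184))))) (XT.nd (nat_lit 156) (nat_lit 0) (nat_lit 0) (XT.nd (nat_lit 78) (nat_lit 0) (nat_lit 0) (XT.lf (nat_lit 0) (nat_lit 30346339476) (nat_lit 76) (nat_lit 216389406944) (nat_lit 76) (nat_lit 210904049948) (nat_lit 1) (nat_lit 4) (nat_lit 2) (nat_lit 5) (nat_lit 2) (nat_lit 4) (nat_lit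 316) (nat_lit 221) (nat_lit 183)) (XT.lf (nat_lit 0) (nat_lit 37434095843) (nat_lit 76) (nat_lit 231098549176) (nat_lit 76) (nat_lit 225590138768) (nat_lit 1) (nat_lit 4) (nat_lit 2) (nat_lit 5) (nat_lit 2) (nat_lit 4) (nat_lit 317) (nat_lit 221) (nat_lit 182))) (XT.nd (nat_lit 78) (nat_lit 0) (nat_lit 0) (XT.lf (nat_lit 0) (nat_lit 45056523850) (nat_lit 76) (nat_lit 246999266207) (nat_lit 76) (nat_lit 241469510048) (nat_lit 1) (nat_lit 4) (nat_lit 2) (nat_lit 5) (nat_lit 2) (nat_lit 4) (nat_lit 318) (nat_lit 221) (nat_lit 181)) (XT.nd (nat_lit 78) (nat_lit 0) (nat_lit 0) (XT.lf (nat_lit 0) (nat_lit 53258793442) (nat_lit 76) (nat_lit 264185784509) (nat_lit 76) (nat_lit 258636263765) (nat_lit 1) (nat_lit 4) (nat_lit 2) (nat_lit 5) (nat_lit 2) (nat_lit 4) (nat_lit 319) (nat_lit 221) (nat_lit 180)) (XT.lf (nat_lit 0) (nat_lit 62089510661) (nat_lit 76) (nat_lit 282759950116) (nat_lit 76)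 (nat_lit 277192128830) (nat_lit 1) (nat_lit 4) (nat_lit 2) (nat_lit 5) (nat_lit 2) (nat_lit 4) (nat_lit 320) (nat_lit 221) (nat_lit 179))))))))
noncomputable def xc16 : XT := (XT.nd (nat_lit 35100) (nat_lit 0) (nat_lit 76) (XT.nd (nat_lit 34398) (nat_lit 0) (nat_lit 228) (XT.nd (nat_lit 34008) (nat_lit 0) (nat_lit 304) (XT.nd (nat_lit 156) (nat_lit 0) (nat_lit 0) (XT.nd (nat_lit 78) (nat_lit 0) (nat_lit 0) (XT.lf (nat_lit 0) (nat_lit 71601005682) (nat_lit 76) (nat_lit 302831832157) (nat_lit 76) (nat_lit 297247065925) (nat_lit 1) (nat_lit 4) (nat_lit 2) (nat_lit 5) (nat_lit 2) (nat_lit 4) (nat_lit 321) (nat_lit 221) (nat_lit 178)) (XT.lf (nat_lit 0) (nat_lit 81849642921) (nat_lit 76) (nat_lit 324520375119) (nat_lit 76) (nat_lit 318919919122) (nat_lit 1) (nat_lit 4) (nat_lit 2) (nat_lit 5) (nat_lit 2) (nat_lit 4) (nat_lit 322) (nat_lit 221) (nat_lit 177))) (XT.nd (nat_lit 78) (nat_lit 0)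 (nat_lit 0) (XT.lf (nat_lit 0) (nat_lit 92896155043) (nat_lit 76) (nat_lit 347954103701) (nat_lit 76) (nat_lit 342339120143) (nat_lit 1) (nat_lit 4) (nat_lit 2) (nat_lit 5) (nat_lit 2) (nat_lit 4) (nat_lit 323) (nat_lit 221) (nat_lit 176)) (XT.lf (nat_lit 0) (nat_lit 104806002860) (nat_lit 76) (nat_lit 373271884441) (nat_lit 76) (nat_lit 367643449440) (nat_lit 1) (nat_lit 4) (nat_lit 2) (nat_lit 5) (nat_lit 2) (nat_lit 4) (nat_lit 324) (nat_lit 221) (nat_lit 175)))) (XT.nd (nat_lit 156) (nat_lit 152) (nat_lit 0) (XT.nd (nat_lit 78) (nat_lit 76) (nat_lit 0) (XT.lf (nat_lit 0) (nat_lit 4206406252) (nat_lit 152) (nat_lit 3495304434) (nat_lit 0) (nat_lit 4206406252) (nat_lit 8) (nat_lit 5) (nat_lit 10) (nat_lit 4) (nat_lit 8) (nat_lit 4) (nat_lit 276) (nat_lit 222) (nat_lit 222)) (XT.lf (nat_lit 0) (nat_lit 3018334524) (nat_lit 76) (nat_lit 11455398793) (nat_lit 76) (nat_lit 10944140609)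 (nat_lit 7) (nat_lit 4) (nat_lit 8) (nat_lit 5) (nat_lit 8) (nat_lit 4) (nat_lit 277) (nat_lit 222) (nat_lit 221))) (XT.nd (nat_lit 78) (nat_lit 152) (nat_lit 0) (XT.lf (nat_lit 0) (nat_lit 13550174420) (nat_lit 76) (nat_lit 7295565047) (nat_lit 76) (nat_lit 6310919654) (nat_lit 7) (nat_lit 4) (nat_lit 8) (nat_lit 5) (nat_lit 8) (nat_lit 4) (nat_lit 278) (nat_lit 222) (nat_lit 220)) (XT.nd (nat_lit 78) (nat_lit 152) (nat_lit 0) (XT.lf (nat_lit 0) (nat_lit 24436180620) (nat_lit 76) (nat_lit 3017658613) (nat_lit 76) (nat_lit 1594691731) (nat_lit 7) (nat_lit 4) (nat_lit 8) (nat_lit 5) (nat_lit 8) (nat_lit 4) (nat_lit 279) (nat_lit 222) (nat_lit 219)) (XT.lf (nat_lit 0) (nat_lit 3226949171) (nat_lit 152) (nat_lit 26385116336) (nat_lit 0) (nat_lit 1485215731) (nat_lit 5) (nat_lit 5) (nat_lit 7) (nat_lit 4) (nat_lit 5) (nat_lit 4) (nat_lit 280) (nat_lit 222) (nat_lit 218)))))) (XT.nd (nat_lit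 312) (nat_lit 0) (nat_lit 0) (XT.nd (nat_lit 156) (nat_lit 76) (nat_lit 0) (XT.nd (nat_lit 78) (nat_lit 0) (nat_lit 0) (XT.lf (nat_lit 0) (nat_lit 8263086991) (nat_lit 152) (nat_lit 18888092694) (nat_lit 0) (nat_lit 6163458286) (nat_lit 5) (nat_lit 5) (nat_lit 7) (nat_lit 4) (nat_lit 5) (nat_lit 4) (nat_lit 281) (nat_lit 222) (nat_lit 217)) (XT.lf (nat_lit 0) (nat_lit 13471879192) (nat_lit 152) (nat_lit 11208377077) (nat_lit 0) (nat_lit 11040865982) (nat_lit 5) (nat_lit 5) (nat_lit 7) (nat_lit 4) (nat_lit 5) (nat_lit 4) (nat_lit 282) (nat_lit 222) (nat_lit 216))) (XT.nd (nat_lit 78) (nat_lit 76) (nat_lit 0) (XT.lf (nat_lit 0) (nat_lit 18884192691) (nat_lit 152) (nat_lit 3300460060) (nat_lit 0) (nat_lit 16146341977) (nat_lit 5) (nat_lit 5) (nat_lit 7) (nat_lit 4) (nat_lit 5) (nat_lit 4) (nat_lit 283) (nat_lit 222) (nat_lit 215)) (XT.lf (nat_lit 0) (nat_lit 5043958251) (nat_lit 76) (nat_lit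 19566892530) (nat_lit 76) (nat_lit 16544933016) (nat_lit 4) (nat_lit 4) (nat_lit 5) (nat_lit 5) (nat_lit 5) (nat_lit 4) (nat_lit 284) (nat_lit 222) (nat_lit 214)))) (XT.nd (nat_lit 156) (nat_lit 0) (nat_lit 0) (XT.nd (nat_lit 78) (nat_lit 0) (nat_lit 0) (XT.lf (nat_lit 0) (nat_lit 13831757729) (nat_lit 76) (nat_lit 16833266347) (nat_lit 76) (nat_lit 13548243129) (nat_lit 4) (nat_lit 4) (nat_lit 5) (nat_lit 5) (nat_lit 5) (nat_lit 4) (nat_lit 285) (nat_lit 222) (nat_lit 213)) (XT.lf (nat_lit 0) (nat_lit 23005886105) (nat_lit 76) (nat_lit 14023469825) (nat_lit 76) (nat_lit 10494869104) (nat_lit 4) (nat_lit 4) (nat_lit 5) (nat_lit 5) (nat_lit 5) (nat_lit 4) (nat_lit 286) (nat_lit 222) (nat_lit 212))) (XT.nd (nat_lit 78) (nat_lit 0) (nat_lit 0) (XT.lf (nat_lit 0) (nat_lit 32620708586) (nat_lit 76) (nat_lit 11120852318) (nat_lit 76) (nat_lit 7366716871) (nat_lit 4) (nat_lit 4) (nat_lit 5)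 (nat_lit 5) (nat_lit 5) (nat_lit 4) (nat_lit 287) (nat_lit 222) (nat_lit 211)) (XT.nd (nat_lit 78) (nat_lit 0) (nat_lit 0) (XT.lf (nat_lit 0) (nat_lit 42733201897) (nat_lit 76) (nat_lit 8108213129) (nat_lit 76) (nat_lit 4145249232) (nat_lit 4) (nat_lit 4) (nat_lit 5) (nat_lit 5) (nat_lit 5) (nat_lit 4) (nat_lit 288) (nat_lit 222) (nat_lit 210)) (XT.lf (nat_lit 0) (nat_lit 53403291924) (nat_lit 76) (nat_lit 4967699582) (nat_lit 76) (nat_lit 811376009) (nat_lit 4) (nat_lit 4) (nat_lit 5) (nat_lit 5) (nat_lit 5) (nat_lit 4) (nat_lit 289) (nat_lit 222) (nat_lit 209))))))) (XT.nd (nat_lit 702) (nat_lit 0) (nat_lit 0) (XT.nd (nat_lit 312) (nat_lit 0) (nat_lit 0) (XT.nd (nat_lit 156) (nat_lit 0) (nat_lit 0) (XT.nd (nat_lit 78) (nat_lit 0) (nat_lit 0) (XT.lf (nat_lit 0) (nat_lit 963344220) (nat_lit 76) (nat_lit 1621389696) (nat_lit 152) (nat_lit 61132692697) (nat_lit 2) (nat_lit 5) (nat_lit 3)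 (nat_lit 5) (nat_lit 4) (nat_lit 4) (nat_lit 290) (nat_lit 222) (nat_lit 208)) (XT.lf (nat_lit 0) (nat_lit 6232173630) (nat_lit 152) (nat_lit 60436778268) (nat_lit 0) (nat_lit 1945378330) (nat_lit 2) (nat_lit 5) (nat_lit 4) (nat_lit 4) (nat_lit 2) (nat_lit 4) (nat_lit 291) (nat_lit 222) (nat_lit 207))) (XT.nd (nat_lit 78) (nat_lit 0) (nat_lit 0) (XT.lf (nat_lit 0) (nat_lit 10082321354) (nat_lit 152) (nat_lit 58175879152) (nat_lit 0) (nat_lit 5649340202) (nat_lit 2) (nat_lit 5) (nat_lit 4) (nat_lit 4) (nat_lit 2) (nat_lit 4) (nat_lit 292) (nat_lit 222) (nat_lit 206)) (XT.lf (nat_lit 0) (nat_lit 14132678342) (nat_lit 152) (nat_lit 55932672686) (nat_lit 0) (nat_lit 9564339919) (nat_lit 2) (nat_lit 5) (nat_lit 4) (nat_lit 4) (nat_lit 2) (nat_lit 4) (nat_lit 293) (nat_lit 222) (nat_lit 205)))) (XT.nd (nat_lit 156) (nat_lit 0) (nat_lit 0) (XT.nd (nat_lit 78) (nat_lit 0) (nat_lit 0) (XT.lf (nat_lit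 0) (nat_lit 18407246708) (nat_lit 152) (nat_lit 53693865796) (nat_lit 0) (nat_lit 13713577480) (nat_lit 2) (nat_lit 5) (nat_lit 4) (nat_lit 4) (nat_lit 2) (nat_lit 4) (nat_lit 294) (nat_lit 222) (nat_lit 204)) (XT.lf (nat_lit 0) (nat_lit 22931357229) (nat_lit 152) (nat_lit 51446191478) (nat_lit 0) (nat_lit 18121640958) (nat_lit 2) (nat_lit 5) (nat_lit 4) (nat_lit 4) (nat_lit 2) (nat_lit 4) (nat_lit 295) (nat_lit 222) (nat_lit 203))) (XT.nd (nat_lit 78) (nat_lit 0) (nat_lit 0) (XT.lf (nat_lit 0) (nat_lit 27731819447) (nat_lit 152) (nat_lit 49176330180) (nat_lit 0) (nat_lit 22814652211) (nat_lit 2) (nat_lit 5) (nat_lit 4) (nat_lit 4) (nat_lit 2) (nat_lit 4) (nat_lit 296) (nat_lit 222) (nat_lit 202)) (XT.nd (nat_lit 78) (nat_lit 0) (nat_lit 0) (XT.lf (nat_lit 0) (nat_lit 32837080548) (nat_lit 152) (nat_lit 46870830873) (nat_lit 0) (nat_lit 27820421677) (nat_lit 2) (nat_lit 5) (nat_lit 4)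 (nat_lit 4) (nat_lit 2) (nat_lit 4) (nat_lit 297) (nat_lit 222) (nat_lit 201)) (XT.lf (nat_lit 0) (nat_lit 38277393929) (nat_lit 152) (nat_lit 44516031337) (nat_lit 0) (nat_lit 33168613175) (nat_lit 2) (nat_lit 5) (nat_lit 4) (nat_lit 4) (nat_lit 2) (nat_lit 4) (nat_lit 298) (nat_lit 222) (nat_lit 200)))))) (XT.nd (nat_lit 312) (nat_lit 0) (nat_lit 0) (XT.nd (nat_lit 156) (nat_lit 0) (nat_lit 0) (XT.nd (nat_lit 78) (nat_lit 0) (nat_lit 0) (XT.lf (nat_lit 0) (nat_lit 44084998485) (nat_lit 152) (nat_lit 42097977207) (nat_lit 0) (nat_lit 38890919690) (nat_lit 2) (nat_lit 5) (nat_lit 4) (nat_lit 4) (nat_lit 2) (nat_lit 4) (nat_lit 299) (nat_lit 222) (nat_lit 199)) (XT.lf (nat_lit 0) (nat_lit 50294309651) (nat_lit 152) (nat_lit 39602339271) (nat_lit 0) (nat_lit 45021251189) (nat_lit 2) (nat_lit 5) (nat_lit 4) (nat_lit 4) (nat_lit 2) (nat_lit 4) (nat_lit 300) (nat_lit 222) (nat_lit 198))) (XT.nd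 (nat_lit 78) (nat_lit 0) (nat_lit 0) (XT.lf (nat_lit 0) (nat_lit 56942123344) (nat_lit 152) (nat_lit 37014328565) (nat_lit 0) (nat_lit 51595935560) (nat_lit 2) (nat_lit 5) (nat_lit 4) (nat_lit 4) (nat_lit 2) (nat_lit 4) (nat_lit 301) (nat_lit 222) (nat_lit 197)) (XT.lf (nat_lit 0) (nat_lit 64067834015) (nat_lit 152) (nat_lit 34318608729) (nat_lit 0) (nat_lit 58653933897) (nat_lit 2) (nat_lit 5) (nat_lit 4) (nat_lit 4) (nat_lit 2) (nat_lit 4) (nat_lit 302) (nat_lit 222) (nat_lit 196)))) (XT.nd (nat_lit 156) (nat_lit 0) (nat_lit 0) (XT.nd (nat_lit 78) (nat_lit 0) (nat_lit 0) (XT.lf (nat_lit 0) (nat_lit 71713668100) (nat_lit 152) (nat_lit 31499205126) (nat_lit 0) (nat_lit 66237071375) (nat_lit 2) (nat_lit 5) (nat_lit 4) (nat_lit 4) (nat_lit 2) (nat_lit 4) (nat_lit 303) (nat_lit 222) (nat_lit 195)) (XT.lf (nat_lit 0) (nat_lit 79924934243) (nat_lit 152) (nat_lit 28539410180) (nat_lit 0) (nat_lit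 74390285105) (nat_lit 2) (nat_lit 5) (nat_lit 4) (nat_lit 4) (nat_lit 2) (nat_lit 4) (nat_lit 304) (nat_lit 222) (nat_lit 194))) (XT.nd (nat_lit 78) (nat_lit 0) (nat_lit 0) (XT.lf (nat_lit 0) (nat_lit 88750291800) (nat_lit 152) (nat_lit 25421684365) (nat_lit 0) (nat_lit 83161890428) (nat_lit 2) (nat_lit 5) (nat_lit 4) (nat_lit 4) (nat_lit 2) (nat_lit 4) (nat_lit 305) (nat_lit 222) (nat_lit 193)) (XT.nd (nat_lit 78) (nat_lit 0) (nat_lit 0) (XT.lf (nat_lit 0) (nat_lit 98242039186) (nat_lit 152) (nat_lit 22127552270) (nat_lit 0) (nat_lit 92603867226) (nat_lit 2) (nat_lit 5) (nat_lit 4) (nat_lit 4) (nat_lit 2) (nat_lit 4) (nat_lit 306) (nat_lit 222) (nat_lit 192)) (XT.lf (nat_lit 0) (nat_lit 108456423792) (nat_lit 152) (nat_lit 18637493110) (nat_lit 0) (nat_lit 102772167956) (nat_lit 2) (nat_lit 5) (nat_lit 4) (nat_lit 4) (nat_lit 2) (nat_lit 4) (nat_lit 307) (nat_lit 222) (nat_lit 191))))))))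
noncomputable def xc17 : XT := (XT.nd (nat_lit 34944) (nat_lit 0) (nat_lit 76) (XT.nd (nat_lit 702) (nat_lit 0) (nat_lit 0) (XT.nd (nat_lit 312) (nat_lit 76) (nat_lit 0) (XT.nd (nat_lit 156) (nat_lit 0) (nat_lit 0) (XT.nd (nat_lit 78) (nat_lit 0) (nat_lit 0) (XT.lf (nat_lit 0) (nat_lit 119453975307) (nat_lit 152) (nat_lit 14930825054) (nat_lit 0) (nat_lit 113727049213) (nat_lit 2) (nat_lit 5) (nat_lit 4) (nat_lit 4) (nat_lit 2) (nat_lit 4) (nat_lit 308) (nat_lit 222) (nat_lit 190)) (XT.lf (nat_lit 0) (nat_lit 131299864404) (nat_lit 152) (nat_lit 10985582662) (nat_lit 0) (nat_lit 125533428813) (nat_lit 2) (nat_lit 5) (nat_lit 4) (nat_lit 4) (nat_lit 2) (nat_lit 4) (nat_lit 309) (nat_lit 222) (nat_lit 189))) (XT.nd (nat_lit 78) (nat_lit 0) (nat_lit 0) (XT.lf (nat_lit 0) (nat_lit 144064288946) (nat_lit 152) (nat_lit 6778386720) (nat_lit 0) (nat_lit 138261270488) (nat_lit 2) (nat_lit 5) (nat_lit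 4) (nat_lit 4) (nat_lit 2) (nat_lit 4) (nat_lit 310) (nat_lit 222) (nat_lit 188)) (XT.lf (nat_lit 0) (nat_lit 157822889966) (nat_lit 152) (nat_lit 2284305695) (nat_lit 0) (nat_lit 151985998483) (nat_lit 2) (nat_lit 5) (nat_lit 4) (nat_lit 4) (nat_lit 2) (nat_lit 4) (nat_lit 311) (nat_lit 222) (nat_lit 187)))) (XT.nd (nat_lit 156) (nat_lit 0) (nat_lit 0) (XT.nd (nat_lit 78) (nat_lit 0) (nat_lit 0) (XT.lf (nat_lit 0) (nat_lit 2606723431) (nat_lit 76) (nat_lit 170091174742) (nat_lit 76) (nat_lit 164222919347) (nat_lit 1) (nat_lit 4) (nat_lit 2) (nat_lit 5) (nat_lit 2) (nat_lit 4) (nat_lit 312) (nat_lit 222) (nat_lit 186)) (XT.lf (nat_lit 0) (nat_lit 7926596429) (nat_lit 76) (nat_lit 180852285772) (nat_lit 76) (nat_lit 174954989716) (nat_lit 1) (nat_lit 4) (nat_lit 2) (nat_lit 5) (nat_lit 2) (nat_lit 4) (nat_lit 313) (nat_lit 222) (nat_lit 185))) (XT.nd (nat_lit 78) (nat_lit 0) (nat_lit 0)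 (XT.lf (nat_lit 0) (nat_lit 13631309008) (nat_lit 76) (nat_lit 192492984119) (nat_lit 76) (nat_lit 186568798563) (nat_lit 1) (nat_lit 4) (nat_lit 2) (nat_lit 5) (nat_lit 2) (nat_lit 4) (nat_lit 314) (nat_lit 222) (nat_lit 184)) (XT.nd (nat_lit 78) (nat_lit 0) (nat_lit 0) (XT.lf (nat_lit 0) (nat_lit 19754666874) (nat_lit 76) (nat_lit 205082251699) (nat_lit 76) (nat_lit 199133168459) (nat_lit 1) (nat_lit 4) (nat_lit 2) (nat_lit 5) (nat_lit 2) (nat_lit 4) (nat_lit 315) (nat_lit 222) (nat_lit 183)) (XT.lf (nat_lit 0) (nat_lit 26332956592) (nat_lit 76) (nat_lit 218694691580) (nat_lit 76) (nat_lit 212722554928) (nat_lit 1) (nat_lit 4) (nat_lit 2) (nat_lit 5) (nat_lit 2) (nat_lit 4) (nat_lit 316) (nat_lit 222) (nat_lit 182)))))) (XT.nd (nat_lit 312) (nat_lit 0) (nat_lit 0) (XT.nd (nat_lit 156) (nat_lit 0) (nat_lit 0) (XT.nd (nat_lit 78) (nat_lit 0) (nat_lit 0) (XT.lf (nat_lit 0) (nat_lit 33405160618)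 (nat_lit 76) (nat_lit 233410970072) (nat_lit 76) (nat_lit 227417487668) (nat_lit 1) (nat_lit 4) (nat_lit 2) (nat_lit 5) (nat_lit 2) (nat_lit 4) (nat_lit 317) (nat_lit 222) (nat_lit 181)) (XT.lf (nat_lit 0) (nat_lit 41013188310) (nat_lit 76) (nat_lit 249318294751) (nat_lit 76) (nat_lit 243305047762) (nat_lit 1) (nat_lit 4) (nat_lit 2) (nat_lit 5) (nat_lit 2) (nat_lit 4) (nat_lit 318) (nat_lit 222) (nat_lit 180))) (XT.nd (nat_lit 78) (nat_lit 0) (nat_lit 0) (XT.lf (nat_lit 0) (nat_lit 49202124276) (nat_lit 76) (nat_lit 266510931246) (nat_lit 76) (nat_lit 260479383715) (nat_lit 1) (nat_lit 4) (nat_lit 2) (nat_lit 5) (nat_lit 2) (nat_lit 4) (nat_lit 319) (nat_lit 222) (nat_lit 179)) (XT.lf (nat_lit 0) (nat_lit 58020495545) (nat_lit 76) (nat_lit 285090761846) (nat_lit 76) (nat_lit 279042269369) (nat_lit 1) (nat_lit 4) (nat_lit 2) (nat_lit 5) (nat_lit 2) (nat_lit 4) (nat_lit 320) (nat_lit 222)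 (nat_lit 178)))) (XT.nd (nat_lit 156) (nat_lit 0) (nat_lit 0) (XT.nd (nat_lit 78) (nat_lit 0) (nat_lit 0) (XT.lf (nat_lit 0) (nat_lit 67520559132) (nat_lit 76) (nat_lit 305167889251) (nat_lit 76) (nat_lit 299103707010) (nat_lit 1) (nat_lit 4) (nat_lit 2) (nat_lit 5) (nat_lit 2) (nat_lit 4) (nat_lit 321) (nat_lit 222) (nat_lit 177)) (XT.lf (nat_lit 0) (nat_lit 77758611709) (nat_lit 76) (nat_lit 326861289032) (nat_lit 76) (nat_lit 320782579230) (nat_lit 1) (nat_lit 4) (nat_lit 2) (nat_lit 5) (nat_lit 2) (nat_lit 4) (nat_lit 322) (nat_lit 222) (nat_lit 176))) (XT.nd (nat_lit 78) (nat_lit 0) (nat_lit 0) (XT.lf (nat_lit 0) (nat_lit 88795323218) (nat_lit 76) (nat_lit 350299514667) (nat_lit 76) (nat_lit 344207353421) (nat_lit 1) (nat_lit 4) (nat_lit 2) (nat_lit 5) (nat_lit 2) (nat_lit 4) (nat_lit 323) (nat_lit 222) (nat_lit 175)) (XT.nd (nat_lit 33618) (nat_lit 0) (nat_lit 684) (XT.lf (nat_lit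 0) (nat_lit 100696096394) (nat_lit 76) (nat_lit 375621459347) (nat_lit 76) (nat_lit 369516843060) (nat_lit 1) (nat_lit 4) (nat_lit 2) (nat_lit 5) (nat_lit 2) (nat_lit 4) (nat_lit 324) (nat_lit 222) (nat_lit 174)) (XT.lf (nat_lit 0) (nat_lit 8069958006) (nat_lit 76) (nat_lit 1211034248) (nat_lit 76) (nat_lit 1211034248) (nat_lit 10) (nat_lit 4) (nat_lit 11) (nat_lit 5) (nat_lit 11) (nat_lit 4) (nat_lit 274) (nat_lit 223) (nat_lit 223))))))) (XT.nd (nat_lit 702) (nat_lit 228) (nat_lit 0) (XT.nd (nat_lit 312) (nat_lit 152) (nat_lit 0) (XT.nd (nat_lit 156) (nat_lit 76) (nat_lit 0) (XT.nd (nat_lit 78) (nat_lit 0) (nat_lit 0) (XT.lf (nat_lit 0) (nat_lit 3109316342) (nat_lit 152) (nat_lit 16679269083) (nat_lit 0) (nat_lit 2557157502) (nat_lit 8) (nat_lit 5) (nat_lit 10) (nat_lit 4) (nat_lit 8) (nat_lit 4) (nat_lit 275) (nat_lit 223) (nat_lit 222)) (XT.lf (nat_lit 0) (nat_lit 8815783243) (nat_lit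 152) (nat_lit 7255712326) (nat_lit 0) (nat_lit 7752366219) (nat_lit 8) (nat_lit 5) (nat_lit 10) (nat_lit 4) (nat_lit 8) (nat_lit 4) (nat_lit 276) (nat_lit 223) (nat_lit 221))) (XT.nd (nat_lit 78) (nat_lit 0) (nat_lit 0) (XT.lf (nat_lit 0) (nat_lit 2490883166) (nat_lit 76) (nat_lit 12239448765) (nat_lit 76) (nat_lit 10702644533) (nat_lit 7) (nat_lit 4) (nat_lit 8) (nat_lit 5) (nat_lit 8) (nat_lit 4) (nat_lit 277) (nat_lit 223) (nat_lit 220)) (XT.lf (nat_lit 0) (nat_lit 12787924558) (nat_lit 76) (nat_lit 8182842909) (nat_lit 76) (nat_lit 6207717188) (nat_lit 7) (nat_lit 4) (nat_lit 8) (nat_lit 5) (nat_lit 8) (nat_lit 4) (nat_lit 278) (nat_lit 223) (nat_lit 219)))) (XT.nd (nat_lit 156) (nat_lit 0) (nat_lit 0) (XT.nd (nat_lit 78) (nat_lit 152) (nat_lit 0) (XT.lf (nat_lit 0) (nat_lit 23456524736) (nat_lit 76) (nat_lit 4000517855) (nat_lit 76) (nat_lit 1619538903) (nat_lit 7) (nat_lit 4) (nat_lit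 8) (nat_lit 5) (nat_lit 8) (nat_lit 4) (nat_lit 279) (nat_lit 223) (nat_lit 218)) (XT.lf (nat_lit 0) (nat_lit 3051486349) (nat_lit 152) (nat_lit 27655561238) (nat_lit 0) (nat_lit 425992083) (nat_lit 5) (nat_lit 5) (nat_lit 7) (nat_lit 4) (nat_lit 5) (nat_lit 4) (nat_lit 280) (nat_lit 223) (nat_lit 217))) (XT.nd (nat_lit 78) (nat_lit 0) (nat_lit 0) (XT.lf (nat_lit 0) (nat_lit 7976933475) (nat_lit 152) (nat_lit 20359051979) (nat_lit 0) (nat_lit 5020054704) (nat_lit 5) (nat_lit 5) (nat_lit 7) (nat_lit 4) (nat_lit 5) (nat_lit 4) (nat_lit 281) (nat_lit 223) (nat_lit 216)) (XT.nd (nat_lit 78) (nat_lit 0) (nat_lit 0) (XT.lf (nat_lit 0) (nat_lit 13083234292) (nat_lit 152) (nat_lit 12864997828) (nat_lit 0) (nat_lit 9819518017) (nat_lit 5) (nat_lit 5) (nat_lit 7) (nat_lit 4) (nat_lit 5) (nat_lit 4) (nat_lit 282) (nat_lit 223) (nat_lit 215)) (XT.lf (nat_lit 0) (nat_lit 18400648362) (nat_lit 152)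 (nat_lit 5128989575) (nat_lit 0) (nat_lit 14852823287) (nat_lit 5) (nat_lit 5) (nat_lit 7) (nat_lit 4) (nat_lit 5) (nat_lit 4) (nat_lit 283) (nat_lit 223) (nat_lit 214)))))) (XT.nd (nat_lit 390) (nat_lit 152) (nat_lit 0) (XT.nd (nat_lit 156) (nat_lit 0) (nat_lit 0) (XT.nd (nat_lit 78) (nat_lit 0) (nat_lit 0) (XT.lf (nat_lit 0) (nat_lit 2990531473) (nat_lit 76) (nat_lit 21016845391) (nat_lit 76) (nat_lit 17205956612) (nat_lit 4) (nat_lit 4) (nat_lit 5) (nat_lit 5) (nat_lit 5) (nat_lit 4) (nat_lit 284) (nat_lit 223) (nat_lit 213)) (XT.lf (nat_lit 0) (nat_lit 11626073711) (nat_lit 76) (nat_lit 18351738321) (nat_lit 76) (nat_lit 14297272038) (nat_lit 4) (nat_lit 4) (nat_lit 5) (nat_lit 5) (nat_lit 5) (nat_lit 4) (nat_lit 285) (nat_lit 223) (nat_lit 212))) (XT.nd (nat_lit 78) (nat_lit 0) (nat_lit 0) (XT.lf (nat_lit 0) (nat_lit 20659223161) (nat_lit 76) (nat_lit 15605385423) (nat_lit 76) (nat_lit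 11325384414) (nat_lit 4) (nat_lit 4) (nat_lit 5) (nat_lit 5) (nat_lit 5) (nat_lit 4) (nat_lit 286) (nat_lit 223) (nat_lit 211)) (XT.nd (nat_lit 78) (nat_lit 0) (nat_lit 0) (XT.lf (nat_lit 0) (nat_lit 30143509599) (nat_lit 76) (nat_lit 12761512011) (nat_lit 76) (nat_lit 8272682553) (nat_lit 4) (nat_lit 4) (nat_lit 5) (nat_lit 5) (nat_lit 5) (nat_lit 4) (nat_lit 287) (nat_lit 223) (nat_lit 210)) (XT.lf (nat_lit 0) (nat_lit 40135136204) (nat_lit 76) (nat_lit 9803265503) (nat_lit 76) (nat_lit 5121076369) (nat_lit 4) (nat_lit 4) (nat_lit 5) (nat_lit 5) (nat_lit 5) (nat_lit 4) (nat_lit 288) (nat_lit 223) (nat_lit 209))))) (XT.nd (nat_lit 156) (nat_lit 76) (nat_lit 0) (XT.nd (nat_lit 78) (nat_lit 76) (nat_lit 0) (XT.lf (nat_lit 0) (nat_lit 50693312614) (nat_lit 76) (nat_lit 6713115549) (nat_lit 76) (nat_lit 1851889679) (nat_lit 4) (nat_lit 4) (nat_lit 5) (nat_lit 5) (nat_lit 5) (nat_lit 4) (nat_lit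 289) (nat_lit 223) (nat_lit 208)) (XT.lf (nat_lit 0) (nat_lit 1504504754) (nat_lit 152) (nat_lit 1942765880) (nat_lit 76) (nat_lit 60350621531) (nat_lit 3) (nat_lit 5) (nat_lit 5) (nat_lit 5) (nat_lit 4) (nat_lit 4) (nat_lit 290) (nat_lit 223) (nat_lit 207))) (XT.nd (nat_lit 78) (nat_lit 0) (nat_lit 0) (XT.lf (nat_lit 0) (nat_lit 5035614325) (nat_lit 152) (nat_lit 63563237315) (nat_lit 0) (nat_lit 101808828) (nat_lit 2) (nat_lit 5) (nat_lit 4) (nat_lit 4) (nat_lit 2) (nat_lit 4) (nat_lit 291) (nat_lit 223) (nat_lit 206)) (XT.nd (nat_lit 78) (nat_lit 0) (nat_lit 0) (XT.lf (nat_lit 0) (nat_lit 8833933898) (nat_lit 152) (nat_lit 61397801939) (nat_lit 0) (nat_lit 3764771131) (nat_lit 2) (nat_lit 5) (nat_lit 4) (nat_lit 4) (nat_lit 2) (nat_lit 4) (nat_lit 292) (nat_lit 223) (nat_lit 205)) (XT.lf (nat_lit 0) (nat_lit 12836301856) (nat_lit 152) (nat_lit 59242987826) (nat_lit 0) (nat_lit 7641808284)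 (nat_lit 2) (nat_lit 5) (nat_lit 4) (nat_lit 4) (nat_lit 2) (nat_lit 4) (nat_lit 293) (nat_lit 223) (nat_lit 204))))))))
noncomputable def xc18 : XT := (XT.nd (nat_lit 1404) (nat_lit 76) (nat_lit 0) (XT.nd (nat_lit 702) (nat_lit 0) (nat_lit 0) (XT.nd (nat_lit 312) (nat_lit 0) (nat_lit 0) (XT.nd (nat_lit 156) (nat_lit 0) (nat_lit 0) (XT.nd (nat_lit 78) (nat_lit 0) (nat_lit 0) (XT.lf (nat_lit 0) (nat_lit 17066435936) (nat_lit 152) (nat_lit 57086025707) (nat_lit 0) (nat_lit 11755895321) (nat_lit 2) (nat_lit 5) (nat_lit 4) (nat_lit 4) (nat_lit 2) (nat_lit 4) (nat_lit 294) (nat_lit 223) (nat_lit 203)) (XT.lf (nat_lit 0) (nat_lit 21549403600) (nat_lit 152) (nat_lit 54914133583) (nat_lit 0) (nat_lit 16131412019) (nat_lit 2) (nat_lit 5) (nat_lit 4) (nat_lit 4) (nat_lit 2) (nat_lit 4) (nat_lit 295) (nat_lit 223) (nat_lit 202))) (XT.nd (nat_lit 78) (nat_lit 0) (nat_lit 0) (XT.lf (nat_lit 0) (nat_lit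 26311770580) (nat_lit 152) (nat_lit 52714440985) (nat_lit 0) (nat_lit 20794287365) (nat_lit 2) (nat_lit 5) (nat_lit 4) (nat_lit 4) (nat_lit 2) (nat_lit 4) (nat_lit 296) (nat_lit 223) (nat_lit 201)) (XT.lf (nat_lit 0) (nat_lit 31381758312) (nat_lit 152) (nat_lit 50473912695) (nat_lit 0) (nat_lit 25772153213) (nat_lit 2) (nat_lit 5) (nat_lit 4) (nat_lit 4) (nat_lit 2) (nat_lit 4) (nat_lit 297) (nat_lit 223) (nat_lit 200)))) (XT.nd (nat_lit 156) (nat_lit 0) (nat_lit 0) (XT.nd (nat_lit 78) (nat_lit 0) (nat_lit 0) (XT.lf (nat_lit 0) (nat_lit 36789411166) (nat_lit 152) (nat_lit 48179271510) (nat_lit 0) (nat_lit 31094508027) (nat_lit 2) (nat_lit 5) (nat_lit 4) (nat_lit 4) (nat_lit 2) (nat_lit 4) (nat_lit 298) (nat_lit 223) (nat_lit 199)) (XT.lf (nat_lit 0) (nat_lit 42566774494) (nat_lit 152) (nat_lit 45816919555) (nat_lit 0) (nat_lit 36792891687) (nat_lit 2) (nat_lit 5) (nat_lit 4) (nat_lit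 4) (nat_lit 2) (nat_lit 4) (nat_lit 299) (nat_lit 223) (nat_lit 198))) (XT.nd (nat_lit 78) (nat_lit 0) (nat_lit 0) (XT.lf (nat_lit 0) (nat_lit 48748084522) (nat_lit 152) (nat_lit 43372857708) (nat_lit 0) (nat_lit 42901072394) (nat_lit 2) (nat_lit 5) (nat_lit 4) (nat_lit 4) (nat_lit 2) (nat_lit 4) (nat_lit 300) (nat_lit 223) (nat_lit 197)) (XT.nd (nat_lit 78) (nat_lit 0) (nat_lit 0) (XT.lf (nat_lit 0) (nat_lit 55369971236) (nat_lit 152) (nat_lit 40832602639) (nat_lit 0) (nat_lit 49455246773) (nat_lit 2) (nat_lit 5) (nat_lit 4) (nat_lit 4) (nat_lit 2) (nat_lit 4) (nat_lit 301) (nat_lit 223) (nat_lit 196)) (XT.lf (nat_lit 0) (nat_lit 62471675445) (nat_lit 152) (nat_lit 38181100986) (nat_lit 0) (nat_lit 56494254377) (nat_lit 2) (nat_lit 5) (nat_lit 4) (nat_lit 4) (nat_lit 2) (nat_lit 4) (nat_lit 302) (nat_lit 223) (nat_lit 195)))))) (XT.nd (nat_lit 312) (nat_lit 0) (nat_lit 0) (XT.nd (nat_lit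 156) (nat_lit 0) (nat_lit 0) (XT.nd (nat_lit 78) (nat_lit 0) (nat_lit 0) (XT.lf (nat_lit 0) (nat_lit 70095281324) (nat_lit 152) (nat_lit 35402640145) (nat_lit 0) (nat_lit 64059807842) (nat_lit 2) (nat_lit 5) (nat_lit 4) (nat_lit 4) (nat_lit 2) (nat_lit 4) (nat_lit 303) (nat_lit 223) (nat_lit 194)) (XT.lf (nat_lit 0) (nat_lit 78285965795) (nat_lit 152) (nat_lit 32480755164) (nat_lit 0) (nat_lit 72196740079) (nat_lit 2) (nat_lit 5) (nat_lit 4) (nat_lit 4) (nat_lit 2) (nat_lit 4) (nat_lit 304) (nat_lit 223) (nat_lit 193))) (XT.nd (nat_lit 78) (nat_lit 0) (nat_lit 0) (XT.lf (nat_lit 0) (nat_lit 87092266248) (nat_lit 152) (nat_lit 29398131169) (nat_lit 0) (nat_lit 80953269945) (nat_lit 2) (nat_lit 5) (nat_lit 4) (nat_lit 4) (nat_lit 2) (nat_lit 4) (nat_lit 305) (nat_lit 223) (nat_lit 192)) (XT.lf (nat_lit 0) (nat_lit 96566368168) (nat_lit 152) (nat_lit 26136500757) (nat_lit 0) (nat_lit 90381287987)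 (nat_lit 2) (nat_lit 5) (nat_lit 4) (nat_lit 4) (nat_lit 2) (nat_lit 4) (nat_lit 306) (nat_lit 223) (nat_lit 191)))) (XT.nd (nat_lit 156) (nat_lit 0) (nat_lit 0) (XT.nd (nat_lit 78) (nat_lit 0) (nat_lit 0) (XT.lf (nat_lit 0) (nat_lit 106764414380) (nat_lit 152) (nat_lit 22676535750) (nat_lit 0) (nat_lit 100536663942) (nat_lit 2) (nat_lit 5) (nat_lit 4) (nat_lit 4) (nat_lit 2) (nat_lit 4) (nat_lit 307) (nat_lit 223) (nat_lit 190)) (XT.lf (nat_lit 0) (nat_lit 117746837751) (nat_lit 152) (nat_lit 18997732650) (nat_lit 0) (nat_lit 111479577816) (nat_lit 2) (nat_lit 5) (nat_lit 4) (nat_lit 4) (nat_lit 2) (nat_lit 4) (nat_lit 308) (nat_lit 223) (nat_lit 189))) (XT.nd (nat_lit 78) (nat_lit 0) (nat_lit 0) (XT.lf (nat_lit 0) (nat_lit 129578719308) (nat_lit 152) (nat_lit 15078291143) (nat_lit 0) (nat_lit 123274876506) (nat_lit 2) (nat_lit 5) (nat_lit 4) (nat_lit 4) (nat_lit 2) (nat_lit 4) (nat_lit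 309) (nat_lit 223) (nat_lit 188)) (XT.nd (nat_lit 78) (nat_lit 0) (nat_lit 0) (XT.lf (nat_lit 0) (nat_lit 142330173905) (nat_lit 152) (nat_lit 10894984909) (nat_lit 0) (nat_lit 135992458078) (nat_lit 2) (nat_lit 5) (nat_lit 4) (nat_lit 4) (nat_lit 2) (nat_lit 4) (nat_lit 310) (nat_lit 223) (nat_lit 187)) (XT.lf (nat_lit 0) (nat_lit 156076765718) (nat_lit 152) (nat_lit 6423023985) (nat_lit 0) (nat_lit 149707685978) (nat_lit 2) (nat_lit 5) (nat_lit 4) (nat_lit 4) (nat_lit 2) (nat_lit 4) (nat_lit 311) (nat_lit 223) (nat_lit 186))))))) (XT.nd (nat_lit 702) (nat_lit 0) (nat_lit 0) (XT.nd (nat_lit 312) (nat_lit 0) (nat_lit 0) (XT.nd (nat_lit 156) (nat_lit 0) (nat_lit 0) (XT.nd (nat_lit 78) (nat_lit 76) (nat_lit 0) (XT.lf (nat_lit 0) (nat_lit 170899956030) (nat_lit 152) (nat_lit 1635907861) (nat_lit 0) (nat_lit 164501835630) (nat_lit 2) (nat_lit 5) (nat_lit 4) (nat_lit 4) (nat_lit 2) (nat_lit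 4) (nat_lit 312) (nat_lit 223) (nat_lit 185)) (XT.lf (nat_lit 0) (nat_lit 3610283163) (nat_lit 76) (nat_lit 183333669445) (nat_lit 76) (nat_lit 176908659546) (nat_lit 1) (nat_lit 4) (nat_lit 2) (nat_lit 5) (nat_lit 2) (nat_lit 4) (nat_lit 313) (nat_lit 223) (nat_lit 184))) (XT.nd (nat_lit 78) (nat_lit 0) (nat_lit 0) (XT.lf (nat_lit 0) (nat_lit 9296855493) (nat_lit 76) (nat_lit 194982691525) (nat_lit 76) (nat_lit 188532783941) (nat_lit 1) (nat_lit 4) (nat_lit 2) (nat_lit 5) (nat_lit 2) (nat_lit 4) (nat_lit 314) (nat_lit 223) (nat_lit 183)) (XT.lf (nat_lit 0) (nat_lit 15403416831) (nat_lit 76) (nat_lit 207579666266) (nat_lit 76) (nat_lit 201106705270) (nat_lit 1) (nat_lit 4) (nat_lit 2) (nat_lit 5) (nat_lit 2) (nat_lit 4) (nat_lit 315) (nat_lit 223) (nat_lit 182)))) (XT.nd (nat_lit 156) (nat_lit 0) (nat_lit 0) (XT.nd (nat_lit 78) (nat_lit 0) (nat_lit 0) (XT.lf (nat_lit 0) (nat_lit 21966154208)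 (nat_lit 76) (nat_lit 221199242407) (nat_lit 76) (nat_lit 214704935659) (nat_lit 1) (nat_lit 4) (nat_lit 2) (nat_lit 5) (nat_lit 2) (nat_lit 4) (nat_lit 316) (nat_lit 223) (nat_lit 181)) (XT.lf (nat_lit 0) (nat_lit 29023957918) (nat_lit 76) (nat_lit 235922128547) (nat_lit 76) (nat_lit 229408057214) (nat_lit 1) (nat_lit 4) (nat_lit 2) (nat_lit 5) (nat_lit 2) (nat_lit 4) (nat_lit 317) (nat_lit 223) (nat_lit 180))) (XT.nd (nat_lit 78) (nat_lit 0) (nat_lit 0) (XT.lf (nat_lit 0) (nat_lit 36618651985) (nat_lit 76) (nat_lit 251835571420) (nat_lit 76) (nat_lit 245303199545) (nat_lit 1) (nat_lit 4) (nat_lit 2) (nat_lit 5) (nat_lit 2) (nat_lit 4) (nat_lit 318) (nat_lit 223) (nat_lit 179)) (XT.nd (nat_lit 78) (nat_lit 0) (nat_lit 0) (XT.lf (nat_lit 0) (nat_lit 44795242002) (nat_lit 76) (nat_lit 269033872907) (nat_lit 76) (nat_lit 262484556086) (nat_lit 1) (nat_lit 4) (nat_lit 2) (nat_lit 5) (nat_lit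 2) (nat_lit 4) (nat_lit 319) (nat_lit 223) (nat_lit 178)) (XT.lf (nat_lit 0) (nat_lit 53602181837) (nat_lit 76) (nat_lit 287618948871) (nat_lit 76) (nat_lit 281053942286) (nat_lit 1) (nat_lit 4) (nat_lit 2) (nat_lit 5) (nat_lit 2) (nat_lit 4) (nat_lit 320) (nat_lit 223) (nat_lit 177)))))) (XT.nd (nat_lit 33774) (nat_lit 0) (nat_lit 456) (XT.nd (nat_lit 156) (nat_lit 0) (nat_lit 0) (XT.nd (nat_lit 78) (nat_lit 0) (nat_lit 0) (XT.lf (nat_lit 0) (nat_lit 63091660762) (nat_lit 76) (nat_lit 307700933095) (nat_lit 76) (nat_lit 301121398949) (nat_lit 1) (nat_lit 4) (nat_lit 2) (nat_lit 5) (nat_lit 2) (nat_lit 4) (nat_lit 321) (nat_lit 223) (nat_lit 176)) (XT.lf (nat_lit 0) (nat_lit 73319912726) (nat_lit 76) (nat_lit 329398829930) (nat_lit 76) (nat_lit 322805844340) (nat_lit 1) (nat_lit 4) (nat_lit 2) (nat_lit 5) (nat_lit 2) (nat_lit 4) (nat_lit 322) (nat_lit 223) (nat_lit 175))) (XT.nd (nat_lit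 78) (nat_lit 0) (nat_lit 0) (XT.lf (nat_lit 0) (nat_lit 84347549594) (nat_lit 76) (nat_lit 352841219505) (nat_lit 76) (nat_lit 346235778873) (nat_lit 1) (nat_lit 4) (nat_lit 2) (nat_lit 5) (nat_lit 2) (nat_lit 4) (nat_lit 323) (nat_lit 223) (nat_lit 174)) (XT.nd (nat_lit 33462) (nat_lit 0) (nat_lit 760) (XT.lf (nat_lit 0) (nat_lit 96239920323) (nat_lit 76) (nat_lit 378167019684) (nat_lit 76) (nat_lit 371550046607) (nat_lit 1) (nat_lit 4) (nat_lit 2) (nat_lit 5) (nat_lit 2) (nat_lit 4) (nat_lit 324) (nat_lit 223) (nat_lit 173)) (XT.lf (nat_lit 0) (nat_lit 3158027653) (nat_lit 152) (nat_lit 2969860895) (nat_lit 0) (nat_lit 3158027653) (nat_lit 11) (nat_lit 5) (nat_lit 13) (nat_lit 4) (nat_lit 11) (nat_lit 4) (nat_lit 272) (nat_lit 224) (nat_lit 224))))) (XT.nd (nat_lit 156) (nat_lit 228) (nat_lit 0) (XT.nd (nat_lit 78) (nat_lit 0) (nat_lit 0) (XT.lf (nat_lit 0) (nat_lit 4711520290) (nat_lit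 76) (nat_lit 7822309342) (nat_lit 76) (nat_lit 7196161218) (nat_lit 10) (nat_lit 4) (nat_lit 11) (nat_lit 5) (nat_lit 11) (nat_lit 4) (nat_lit 273) (nat_lit 224) (nat_lit 223)) (XT.lf (nat_lit 0) (nat_lit 15874127795) (nat_lit 76) (nat_lit 3161820217) (nat_lit 76) (nat_lit 1955905311) (nat_lit 10) (nat_lit 4) (nat_lit 11) (nat_lit 5) (nat_lit 11) (nat_lit 4) (nat_lit 274) (nat_lit 224) (nat_lit 222))) (XT.nd (nat_lit 78) (nat_lit 76) (nat_lit 0) (XT.lf (nat_lit 0) (nat_lit 3395336638) (nat_lit 152) (nat_lit 17230684273) (nat_lit 0) (nat_lit 1735588067) (nat_lit 8) (nat_lit 5) (nat_lit 10) (nat_lit 4) (nat_lit 8) (nat_lit 4) (nat_lit 275) (nat_lit 224) (nat_lit 221)) (XT.nd (nat_lit 78) (nat_lit 76) (nat_lit 0) (XT.lf (nat_lit 0) (nat_lit 8963666409) (nat_lit 152) (nat_lit 8052593681) (nat_lit 0) (nat_lit 6830530630) (nat_lit 8) (nat_lit 5) (nat_lit 10) (nat_lit 4) (nat_lit 8) (nat_lit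 4) (nat_lit 276) (nat_lit 224) (nat_lit 220)) (XT.lf (nat_lit 0) (nat_lit 1432854812) (nat_lit 76) (nat_lit 13300936747) (nat_lit 76) (nat_lit 10729479479) (nat_lit 7) (nat_lit 4) (nat_lit 8) (nat_lit 5) (nat_lit 8) (nat_lit 4) (nat_lit 277) (nat_lit 224) (nat_lit 219))))))))
noncomputable def xc19 : XT := (XT.nd (nat_lit 1404) (nat_lit 76) (nat_lit 0) (XT.nd (nat_lit 702) (nat_lit 152) (nat_lit 0) (XT.nd (nat_lit 312) (nat_lit 76) (nat_lit 0) (XT.nd (nat_lit 156) (nat_lit 152) (nat_lit 0) (XT.nd (nat_lit 78) (nat_lit 0) (nat_lit 0) (XT.lf (nat_lit 0) (nat_lit 11512490182) (nat_lit 76) (nat_lit 9339912271) (nat_lit 76) (nat_lit 6362601773) (nat_lit 7) (nat_lit 4) (nat_lit 8) (nat_lit 5) (nat_lit 8) (nat_lit 4) (nat_lit 278) (nat_lit 224) (nat_lit 218)) (XT.lf (nat_lit 0) (nat_lit 21979788488) (nat_lit 76) (nat_lit 5246088494) (nat_lit 76) (nat_lit 1892987968) (nat_lit 7) (nat_lit 4) (nat_lit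 8) (nat_lit 5) (nat_lit 8) (nat_lit 4) (nat_lit 279) (nat_lit 224) (nat_lit 217))) (XT.nd (nat_lit 78) (nat_lit 0) (nat_lit 0) (XT.lf (nat_lit 0) (nat_lit 1723561672) (nat_lit 76) (nat_lit 922592438) (nat_lit 152) (nat_lit 28536523463) (nat_lit 5) (nat_lit 5) (nat_lit 6) (nat_lit 5) (nat_lit 7) (nat_lit 4) (nat_lit 280) (nat_lit 224) (nat_lit 216)) (XT.lf (nat_lit 0) (nat_lit 7454705599) (nat_lit 152) (nat_lit 22333863855) (nat_lit 0) (nat_lit 3623054518) (nat_lit 5) (nat_lit 5) (nat_lit 7) (nat_lit 4) (nat_lit 5) (nat_lit 4) (nat_lit 281) (nat_lit 224) (nat_lit 215)))) (XT.nd (nat_lit 156) (nat_lit 76) (nat_lit 0) (XT.nd (nat_lit 78) (nat_lit 0) (nat_lit 0) (XT.lf (nat_lit 0) (nat_lit 12466106988) (nat_lit 152) (nat_lit 15011718469) (nat_lit 0) (nat_lit 8350347106) (nat_lit 5) (nat_lit 5) (nat_lit 7) (nat_lit 4) (nat_lit 5) (nat_lit 4) (nat_lit 282) (nat_lit 224) (nat_lit 214)) (XT.lf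 (nat_lit 0) (nat_lit 17695651216) (nat_lit 152) (nat_lit 7434884999) (nat_lit 0) (nat_lit 13316827631) (nat_lit 5) (nat_lit 5) (nat_lit 7) (nat_lit 4) (nat_lit 5) (nat_lit 4) (nat_lit 283) (nat_lit 224) (nat_lit 213))) (XT.nd (nat_lit 78) (nat_lit 0) (nat_lit 0) (XT.lf (nat_lit 0) (nat_lit 456135494) (nat_lit 76) (nat_lit 22725314236) (nat_lit 76) (nat_lit 18102913147) (nat_lit 4) (nat_lit 4) (nat_lit 5) (nat_lit 5) (nat_lit 5) (nat_lit 4) (nat_lit 284) (nat_lit 224) (nat_lit 212)) (XT.nd (nat_lit 78) (nat_lit 0) (nat_lit 0) (XT.lf (nat_lit 0) (nat_lit 8950698805) (nat_lit 76) (nat_lit 20123650790) (nat_lit 76) (nat_lit 15275714975) (nat_lit 4) (nat_lit 4) (nat_lit 5) (nat_lit 5) (nat_lit 5) (nat_lit 4) (nat_lit 285) (nat_lit 224) (nat_lit 211)) (XT.lf (nat_lit 0) (nat_lit 17853312213) (nat_lit 76) (nat_lit 17436041987) (nat_lit 76) (nat_lit 12379277722) (nat_lit 4) (nat_lit 4) (nat_lit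 5) (nat_lit 5) (nat_lit 5) (nat_lit 4) (nat_lit 286) (nat_lit 224) (nat_lit 210)))))) (XT.nd (nat_lit 312) (nat_lit 76) (nat_lit 0) (XT.nd (nat_lit 156) (nat_lit 76) (nat_lit 0) (XT.nd (nat_lit 78) (nat_lit 0) (nat_lit 0) (XT.lf (nat_lit 0) (nat_lit 27216731945) (nat_lit 76) (nat_lit 14646561256) (nat_lit 76) (nat_lit 9396437316) (nat_lit 4) (nat_lit 4) (nat_lit 5) (nat_lit 5) (nat_lit 5) (nat_lit 4) (nat_lit 287) (nat_lit 224) (nat_lit 209)) (XT.lf (nat_lit 0) (nat_lit 37096444933) (nat_lit 76) (nat_lit 11738678342) (nat_lit 76) (nat_lit 6309517665) (nat_lit 4) (nat_lit 4) (nat_lit 5) (nat_lit 5) (nat_lit 5) (nat_lit 4) (nat_lit 288) (nat_lit 224) (nat_lit 208))) (XT.nd (nat_lit 78) (nat_lit 76) (nat_lit 0) (XT.lf (nat_lit 0) (nat_lit 47550997625) (nat_lit 76) (nat_lit 8695161345) (nat_lit 76) (nat_lit 3100225912) (nat_lit 4) (nat_lit 4) (nat_lit 5) (nat_lit 5) (nat_lit 5) (nat_lit 4)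 (nat_lit 289) (nat_lit 224) (nat_lit 207)) (XT.lf (nat_lit 0) (nat_lit 242439812) (nat_lit 152) (nat_lit 5251428962) (nat_lit 76) (nat_lit 58395797276) (nat_lit 3) (nat_lit 5) (nat_lit 5) (nat_lit 5) (nat_lit 4) (nat_lit 4) (nat_lit 290) (nat_lit 224) (nat_lit 206)))) (XT.nd (nat_lit 156) (nat_lit 0) (nat_lit 0) (XT.nd (nat_lit 78) (nat_lit 0) (nat_lit 0) (XT.lf (nat_lit 0) (nat_lit 1627562841) (nat_lit 76) (nat_lit 2039812062) (nat_lit 152) (nat_lit 65130412787) (nat_lit 2) (nat_lit 5) (nat_lit 3) (nat_lit 5) (nat_lit 4) (nat_lit 4) (nat_lit 291) (nat_lit 224) (nat_lit 205)) (XT.lf (nat_lit 0) (nat_lit 7385858264) (nat_lit 152) (nat_lit 65061334642) (nat_lit 0) (nat_lit 1650474400) (nat_lit 2) (nat_lit 5) (nat_lit 4) (nat_lit 4) (nat_lit 2) (nat_lit 4) (nat_lit 292) (nat_lit 224) (nat_lit 204))) (XT.nd (nat_lit 78) (nat_lit 0) (nat_lit 0) (XT.lf (nat_lit 0) (nat_lit 11343791937) (nat_lit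 152) (nat_lit 62988365300) (nat_lit 0) (nat_lit 5492361030) (nat_lit 2) (nat_lit 5) (nat_lit 4) (nat_lit 4) (nat_lit 2) (nat_lit 4) (nat_lit 293) (nat_lit 224) (nat_lit 203)) (XT.nd (nat_lit 78) (nat_lit 0) (nat_lit 0) (XT.lf (nat_lit 0) (nat_lit 15532783160) (nat_lit 152) (nat_lit 60907185376) (nat_lit 0) (nat_lit 9573901287) (nat_lit 2) (nat_lit 5) (nat_lit 4) (nat_lit 4) (nat_lit 2) (nat_lit 4) (nat_lit 294) (nat_lit 224) (nat_lit 202)) (XT.lf (nat_lit 0) (nat_lit 19977655584) (nat_lit 152) (nat_lit 58805461952) (nat_lit 0) (nat_lit 13919282078) (nat_lit 2) (nat_lit 5) (nat_lit 4) (nat_lit 4) (nat_lit 2) (nat_lit 4) (nat_lit 295) (nat_lit 224) (nat_lit 201))))))) (XT.nd (nat_lit 702) (nat_lit 76) (nat_lit 0) (XT.nd (nat_lit 312) (nat_lit 0) (nat_lit 0) (XT.nd (nat_lit 156) (nat_lit 0) (nat_lit 0) (XT.nd (nat_lit 78) (nat_lit 0) (nat_lit 0) (XT.lf (nat_lit 0) (nat_lit 24704749196) (nat_lit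 152) (nat_lit 56670740371) (nat_lit 0) (nat_lit 18554253806) (nat_lit 2) (nat_lit 5) (nat_lit 4) (nat_lit 4) (nat_lit 2) (nat_lit 4) (nat_lit 296) (nat_lit 224) (nat_lit 200)) (XT.lf (nat_lit 0) (nat_lit 29742076401) (nat_lit 152) (nat_lit 54490370431) (nat_lit 0) (nat_lit 23506282970) (nat_lit 2) (nat_lit 5) (nat_lit 4) (nat_lit 4) (nat_lit 2) (nat_lit 4) (nat_lit 297) (nat_lit 224) (nat_lit 199))) (XT.nd (nat_lit 78) (nat_lit 0) (nat_lit 0) (XT.lf (nat_lit 0) (nat_lit 35119488027) (nat_lit 152) (nat_lit 52251431421) (nat_lit 0) (nat_lit 28804714929) (nat_lit 2) (nat_lit 5) (nat_lit 4) (nat_lit 4) (nat_lit 2) (nat_lit 4) (nat_lit 298) (nat_lit 224) (nat_lit 198)) (XT.lf (nat_lit 0) (nat_lit 40868850217) (nat_lit 152) (nat_lit 49940655555) (nat_lit 0) (nat_lit 34480947798) (nat_lit 2) (nat_lit 5) (nat_lit 4) (nat_lit 4) (nat_lit 2) (nat_lit 4) (nat_lit 299) (nat_lit 224) (nat_lit 197))))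 (XT.nd (nat_lit 156) (nat_lit 0) (nat_lit 0) (XT.nd (nat_lit 78) (nat_lit 0) (nat_lit 0) (XT.lf (nat_lit 0) (nat_lit 47024233266) (nat_lit 152) (nat_lit 47544349345) (nat_lit 0) (nat_lit 40568618512) (nat_lit 2) (nat_lit 5) (nat_lit 4) (nat_lit 4) (nat_lit 2) (nat_lit 4) (nat_lit 300) (nat_lit 224) (nat_lit 196)) (XT.lf (nat_lit 0) (nat_lit 53622113518) (nat_lit 152) (nat_lit 45048312460) (nat_lit 0) (nat_lit 47103802157) (nat_lit 2) (nat_lit 5) (nat_lit 4) (nat_lit 4) (nat_lit 2) (nat_lit 4) (nat_lit 301) (nat_lit 224) (nat_lit 195))) (XT.nd (nat_lit 78) (nat_lit 0) (nat_lit 0) (XT.lf (nat_lit 0) (nat_lit 60701589522) (nat_lit 152) (nat_lit 42437753569) (nat_lit 0) (nat_lit 54125225748) (nat_lit 2) (nat_lit 5) (nat_lit 4) (nat_lit 4) (nat_lit 2) (nat_lit 4) (nat_lit 302) (nat_lit 224) (nat_lit 194)) (XT.nd (nat_lit 78) (nat_lit 0) (nat_lit 0) (XT.lf (nat_lit 0) (nat_lit 68304613728)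 (nat_lit 152) (nat_lit 39697202693) (nat_lit 0) (nat_lit 61674497720) (nat_lit 2) (nat_lit 5) (nat_lit 4) (nat_lit 4) (nat_lit 2) (nat_lit 4) (nat_lit 303) (nat_lit 224) (nat_lit 193)) (XT.lf (nat_lit 0) (nat_lit 76476241096) (nat_lit 152) (nat_lit 36810419531) (nat_lit 0) (nat_lit 69796354500) (nat_lit 2) (nat_lit 5) (nat_lit 4) (nat_lit 4) (nat_lit 2) (nat_lit 4) (nat_lit 304) (nat_lit 224) (nat_lit 192)))))) (XT.nd (nat_lit 390) (nat_lit 76) (nat_lit 0) (XT.nd (nat_lit 156) (nat_lit 0) (nat_lit 0) (XT.nd (nat_lit 78) (nat_lit 0) (nat_lit 0) (XT.lf (nat_lit 0) (nat_lit 85264896083) (nat_lit 152) (nat_lit 33760297220) (nat_lit 0) (nat_lit 78538925610) (nat_lit 2) (nat_lit 5) (nat_lit 4) (nat_lit 4) (nat_lit 2) (nat_lit 4) (nat_lit 305) (nat_lit 224) (nat_lit 191)) (XT.lf (nat_lit 0) (nat_lit 94722659607) (nat_lit 152) (nat_lit 30528760961) (nat_lit 0) (nat_lit 87954018878) (nat_lit 2)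 (nat_lit 5) (nat_lit 4) (nat_lit 4) (nat_lit 2) (nat_lit 4) (nat_lit 306) (nat_lit 224) (nat_lit 190))) (XT.nd (nat_lit 78) (nat_lit 0) (nat_lit 0) (XT.lf (nat_lit 0) (nat_lit 104905577676) (nat_lit 152) (nat_lit 27096660909) (nat_lit 0) (nat_lit 98097427450) (nat_lit 2) (nat_lit 5) (nat_lit 4) (nat_lit 4) (nat_lit 2) (nat_lit 4) (nat_lit 307) (nat_lit 224) (nat_lit 189)) (XT.nd (nat_lit 78) (nat_lit 0) (nat_lit 0) (XT.lf (nat_lit 0) (nat_lit 115873993507) (nat_lit 152) (nat_lit 23443658694) (nat_lit 0) (nat_lit 109029260413) (nat_lit 2) (nat_lit 5) (nat_lit 4) (nat_lit 4) (nat_lit 2) (nat_lit 4) (nat_lit 308) (nat_lit 224) (nat_lit 188)) (XT.lf (nat_lit 0) (nat_lit 127692905120) (nat_lit 152) (nat_lit 19548106896) (nat_lit 0) (nat_lit 120814299000) (nat_lit 2) (nat_lit 5) (nat_lit 4) (nat_lit 4) (nat_lit 2) (nat_lit 4) (nat_lit 309) (nat_lit 224) (nat_lit 187))))) (XT.nd (nat_lit 156)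 (nat_lit 76) (nat_lit 0) (XT.nd (nat_lit 78) (nat_lit 0) (nat_lit 0) (XT.lf (nat_lit 0) (nat_lit 140432350509) (nat_lit 152) (nat_lit 15386920762) (nat_lit 0) (nat_lit 133522380477) (nat_lit 2) (nat_lit 5) (nat_lit 4) (nat_lit 4) (nat_lit 2) (nat_lit 4) (nat_lit 310) (nat_lit 224) (nat_lit 186)) (XT.lf (nat_lit 0) (nat_lit 154167822685) (nat_lit 152) (nat_lit 10935441412) (nat_lit 0) (nat_lit 147228811993) (nat_lit 2) (nat_lit 5) (nat_lit 4) (nat_lit 4) (nat_lit 2) (nat_lit 4) (nat_lit 311) (nat_lit 224) (nat_lit 185))) (XT.nd (nat_lit 78) (nat_lit 76) (nat_lit 0) (XT.lf (nat_lit 0) (nat_lit 168980717037) (nat_lit 152) (nat_lit 6167289710) (nat_lit 0) (nat_lit 162014816846) (nat_lit 2) (nat_lit 5) (nat_lit 4) (nat_lit 4) (nat_lit 2) (nat_lit 4) (nat_lit 312) (nat_lit 224) (nat_lit 184)) (XT.nd (nat_lit 78) (nat_lit 76) (nat_lit 0) (XT.lf (nat_lit 0) (nat_lit 184958813681) (nat_lit 152)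 (nat_lit 1054209941) (nat_lit 0) (nat_lit 177968015805) (nat_lit 2) (nat_lit 5) (nat_lit 4) (nat_lit 4) (nat_lit 2) (nat_lit 4) (nat_lit 313) (nat_lit 224) (nat_lit 183)) (XT.lf (nat_lit 0) (nat_lit 4580708919) (nat_lit 76) (nat_lit 197687606419) (nat_lit 76) (nat_lit 190673755131) (nat_lit 1) (nat_lit 4) (nat_lit 2) (nat_lit 5) (nat_lit 2) (nat_lit 4) (nat_lit 314) (nat_lit 224) (nat_lit 182))))))))
noncomputable def xc20 : XT := (XT.nd (nat_lit 34632) (nat_lit 0) (nat_lit 76) (XT.nd (nat_lit 702) (nat_lit 0) (nat_lit 0) (XT.nd (nat_lit 312) (nat_lit 0) (nat_lit 0) (XT.nd (nat_lit 156) (nat_lit 0) (nat_lit 0) (XT.nd (nat_lit 78) (nat_lit 0) (nat_lit 0) (XT.lf (nat_lit 0) (nat_lit 10671717916) (nat_lit 76) (nat_lit 210291717420) (nat_lit 76) (nat_lit 203256520380) (nat_lit 1) (nat_lit 4) (nat_lit 2) (nat_lit 5) (nat_lit 2) (nat_lit 4) (nat_lit 315) (nat_lit 224) (nat_lit 181)) (XT.lf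 (nat_lit 0) (nat_lit 17220054977) (nat_lit 76) (nat_lit 223917901209) (nat_lit 76) (nat_lit 216862939584) (nat_lit 1) (nat_lit 4) (nat_lit 2) (nat_lit 5) (nat_lit 2) (nat_lit 4) (nat_lit 316) (nat_lit 224) (nat_lit 180))) (XT.nd (nat_lit 78) (nat_lit 0) (nat_lit 0) (XT.lf (nat_lit 0) (nat_lit 24264525062) (nat_lit 76) (nat_lit 238646905542) (nat_lit 76) (nat_lit 231573643375) (nat_lit 1) (nat_lit 4) (nat_lit 2) (nat_lit 5) (nat_lit 2) (nat_lit 4) (nat_lit 317) (nat_lit 224) (nat_lit 179)) (XT.lf (nat_lit 0) (nat_lit 31846873180) (nat_lit 76) (nat_lit 254566013407) (nat_lit 76) (nat_lit 247475806294) (nat_lit 1) (nat_lit 4) (nat_lit 2) (nat_lit 5) (nat_lit 2) (nat_lit 4) (nat_lit 318) (nat_lit 224) (nat_lit 178)))) (XT.nd (nat_lit 156) (nat_lit 0) (nat_lit 0) (XT.nd (nat_lit 78) (nat_lit 0) (nat_lit 0) (XT.lf (nat_lit 0) (nat_lit 40012031762) (nat_lit 76) (nat_lit 271769560259) (nat_lit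 76) (nat_lit 264663663381) (nat_lit 1) (nat_lit 4) (nat_lit 2) (nat_lit 5) (nat_lit 2) (nat_lit 4) (nat_lit 319) (nat_lit 224) (nat_lit 177)) (XT.lf (nat_lit 0) (nat_lit 48808386935) (nat_lit 76) (nat_lit 290359493042) (nat_lit 76) (nat_lit 283239068604) (nat_lit 1) (nat_lit 4) (nat_lit 2) (nat_lit 5) (nat_lit 2) (nat_lit 4) (nat_lit 320) (nat_lit 224) (nat_lit 176))) (XT.nd (nat_lit 78) (nat_lit 0) (nat_lit 0) (XT.lf (nat_lit 0) (nat_lit 58288065247) (nat_lit 76) (nat_lit 310445974320) (nat_lit 76) (nat_lit 303312098438) (nat_lit 1) (nat_lit 4) (nat_lit 2) (nat_lit 5) (nat_lit 2) (nat_lit 4) (nat_lit 321) (nat_lit 224) (nat_lit 175)) (XT.nd (nat_lit 78) (nat_lit 0) (nat_lit 0) (XT.lf (nat_lit 0) (nat_lit 68507242570) (nat_lit 76) (nat_lit 332148035093) (nat_lit 76) (nat_lit 325001704170) (nat_lit 1) (nat_lit 4) (nat_lit 2) (nat_lit 5) (nat_lit 2) (nat_lit 4) (nat_lit 322) (nat_lit 224)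 (nat_lit 174)) (XT.lf (nat_lit 0) (nat_lit 79526476992) (nat_lit 76) (nat_lit 355594280167) (nat_lit 76) (nat_lit 348436416799) (nat_lit 1) (nat_lit 4) (nat_lit 2) (nat_lit 5) (nat_lit 2) (nat_lit 4) (nat_lit 323) (nat_lit 224) (nat_lit 173)))))) (XT.nd (nat_lit 33540) (nat_lit 0) (nat_lit 532) (XT.nd (nat_lit 33384) (nat_lit 0) (nat_lit 760) (XT.nd (nat_lit 33306) (nat_lit 0) (nat_lit 912) (XT.lf (nat_lit 0) (nat_lit 91411067680) (nat_lit 76) (nat_lit 380923650253) (nat_lit 76) (nat_lit 373755108694) (nat_lit 1) (nat_lit 4) (nat_lit 2) (nat_lit 5) (nat_lit 2) (nat_lit 4) (nat_lit 324) (nat_lit 224) (nat_lit 172)) (XT.lf (nat_lit 0) (nat_lit 3620592350) (nat_lit 152) (nat_lit 2320636830) (nat_lit 152) (nat_lit 2320636830) (nat_lit 13) (nat_lit 4) (nat_lit 15) (nat_lit 5) (nat_lit 15) (nat_lit 4) (nat_lit 270) (nat_lit 225) (nat_lit 225))) (XT.nd (nat_lit 78) (nat_lit 0) (nat_lit 0) (XT.lf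 (nat_lit 0) (nat_lit 995295332) (nat_lit 152) (nat_lit 16197500310) (nat_lit 0) (nat_lit 319055358) (nat_lit 11) (nat_lit 5) (nat_lit 13) (nat_lit 4) (nat_lit 11) (nat_lit 4) (nat_lit 271) (nat_lit 225) (nat_lit 224)) (XT.lf (nat_lit 0) (nat_lit 6832417562) (nat_lit 152) (nat_lit 6217585633) (nat_lit 0) (nat_lit 5530029465) (nat_lit 11) (nat_lit 5) (nat_lit 13) (nat_lit 4) (nat_lit 11) (nat_lit 4) (nat_lit 272) (nat_lit 225) (nat_lit 223)))) (XT.nd (nat_lit 156) (nat_lit 152) (nat_lit 0) (XT.nd (nat_lit 78) (nat_lit 0) (nat_lit 0) (XT.lf (nat_lit 0) (nat_lit 4158680797) (nat_lit 76) (nat_lit 8734844794) (nat_lit 76) (nat_lit 6852689915) (nat_lit 10) (nat_lit 4) (nat_lit 11) (nat_lit 5) (nat_lit 11) (nat_lit 4) (nat_lit 273) (nat_lit 225) (nat_lit 222)) (XT.lf (nat_lit 0) (nat_lit 15075188100) (nat_lit 76) (nat_lit 4179544183) (nat_lit 76) (nat_lit 1760568210) (nat_lit 10) (nat_lit 4)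 (nat_lit 11) (nat_lit 5) (nat_lit 11) (nat_lit 4) (nat_lit 274) (nat_lit 225) (nat_lit 221))) (XT.nd (nat_lit 78) (nat_lit 0) (nat_lit 0) (XT.lf (nat_lit 0) (nat_lit 3416913327) (nat_lit 152) (nat_lit 18336782300) (nat_lit 0) (nat_lit 639739478) (nat_lit 8) (nat_lit 5) (nat_lit 10) (nat_lit 4) (nat_lit 8) (nat_lit 4) (nat_lit 275) (nat_lit 225) (nat_lit 220)) (XT.nd (nat_lit 78) (nat_lit 0) (nat_lit 0) (XT.lf (nat_lit 0) (nat_lit 8857338347) (nat_lit 152) (nat_lit 9385975192) (nat_lit 0) (nat_lit 5641843009) (nat_lit 8) (nat_lit 5) (nat_lit 10) (nat_lit 4) (nat_lit 8) (nat_lit 4) (nat_lit 276) (nat_lit 225) (nat_lit 219)) (XT.lf (nat_lit 0) (nat_lit 14486662293) (nat_lit 152) (nat_lit 156834672) (nat_lit 0) (nat_lit 10865313725) (nat_lit 8) (nat_lit 5) (nat_lit 10) (nat_lit 4) (nat_lit 8) (nat_lit 4) (nat_lit 277) (nat_lit 225) (nat_lit 218))))))) (XT.nd (nat_lit 702) (nat_lit 152) (nat_lit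 0) (XT.nd (nat_lit 312) (nat_lit 76) (nat_lit 0) (XT.nd (nat_lit 156) (nat_lit 152) (nat_lit 0) (XT.nd (nat_lit 78) (nat_lit 0) (nat_lit 0) (XT.lf (nat_lit 0) (nat_lit 9716313162) (nat_lit 76) (nat_lit 10773629839) (nat_lit 76) (nat_lit 6776491242) (nat_lit 7) (nat_lit 4) (nat_lit 8) (nat_lit 5) (nat_lit 8) (nat_lit 4) (nat_lit 278) (nat_lit 225) (nat_lit 217)) (XT.lf (nat_lit 0) (nat_lit 19997220846) (nat_lit 76) (nat_lit 6761751690) (nat_lit 76) (nat_lit 2416659363) (nat_lit 7) (nat_lit 4) (nat_lit 8) (nat_lit 5) (nat_lit 8) (nat_lit 4) (nat_lit 279) (nat_lit 225) (nat_lit 216))) (XT.nd (nat_lit 78) (nat_lit 76) (nat_lit 0) (XT.lf (nat_lit 0) (nat_lit 2013937344) (nat_lit 152) (nat_lit 538700149) (nat_lit 76) (nat_lit 28693582265) (nat_lit 6) (nat_lit 5) (nat_lit 8) (nat_lit 5) (nat_lit 7) (nat_lit 4) (nat_lit 280) (nat_lit 225) (nat_lit 215)) (XT.lf (nat_lit 0) (nat_lit 6693308682)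 (nat_lit 152) (nat_lit 24824230912) (nat_lit 0) (nat_lit 1964179209) (nat_lit 5) (nat_lit 5) (nat_lit 7) (nat_lit 4) (nat_lit 5) (nat_lit 4) (nat_lit 281) (nat_lit 225) (nat_lit 214)))) (XT.nd (nat_lit 156) (nat_lit 76) (nat_lit 0) (XT.nd (nat_lit 78) (nat_lit 0) (nat_lit 0) (XT.lf (nat_lit 0) (nat_lit 11616840228) (nat_lit 152) (nat_lit 17661260308) (nat_lit 0) (nat_lit 6624647052) (nat_lit 5) (nat_lit 5) (nat_lit 7) (nat_lit 4) (nat_lit 5) (nat_lit 4) (nat_lit 282) (nat_lit 225) (nat_lit 213)) (XT.lf (nat_lit 0) (nat_lit 16765023492) (nat_lit 152) (nat_lit 10231810895) (nat_lit 0) (nat_lit 11529252812) (nat_lit 5) (nat_lit 5) (nat_lit 7) (nat_lit 4) (nat_lit 5) (nat_lit 4) (nat_lit 283) (nat_lit 225) (nat_lit 212))) (XT.nd (nat_lit 78) (nat_lit 76) (nat_lit 0) (XT.lf (nat_lit 0) (nat_lit 22168366226) (nat_lit 152) (nat_lit 2491856306) (nat_lit 0) (nat_lit 16707060820) (nat_lit 5) (nat_lit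 5) (nat_lit 7) (nat_lit 4) (nat_lit 5) (nat_lit 4) (nat_lit 284) (nat_lit 225) (nat_lit 211)) (XT.nd (nat_lit 78) (nat_lit 0) (nat_lit 0) (XT.lf (nat_lit 0) (nat_lit 5789778939) (nat_lit 76) (nat_lit 22159503974) (nat_lit 76) (nat_lit 16489370119) (nat_lit 4) (nat_lit 4) (nat_lit 5) (nat_lit 5) (nat_lit 5) (nat_lit 4) (nat_lit 285) (nat_lit 225) (nat_lit 210)) (XT.lf (nat_lit 0) (nat_lit 14571525641) (nat_lit 76) (nat_lit 19526287852) (nat_lit 76) (nat_lit 13662794322) (nat_lit 4) (nat_lit 4) (nat_lit 5) (nat_lit 5) (nat_lit 5) (nat_lit 4) (nat_lit 286) (nat_lit 225) (nat_lit 209)))))) (XT.nd (nat_lit 390) (nat_lit 76) (nat_lit 0) (XT.nd (nat_lit 156) (nat_lit 76) (nat_lit 0) (XT.nd (nat_lit 78) (nat_lit 0) (nat_lit 0) (XT.lf (nat_lit 0) (nat_lit 23823031756) (nat_lit 76) (nat_lit 16787170716) (nat_lit 76) (nat_lit 10744640448) (nat_lit 4) (nat_lit 4) (nat_lit 5) (nat_lit 5) (nat_lit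 5) (nat_lit 4) (nat_lit 287) (nat_lit 225) (nat_lit 208)) (XT.lf (nat_lit 0) (nat_lit 33599121025) (nat_lit 76) (nat_lit 13925920758) (nat_lit 76) (nat_lit 7717615735) (nat_lit 4) (nat_lit 4) (nat_lit 5) (nat_lit 5) (nat_lit 5) (nat_lit 4) (nat_lit 288) (nat_lit 225) (nat_lit 207))) (XT.nd (nat_lit 78) (nat_lit 76) (nat_lit 0) (XT.lf (nat_lit 0) (nat_lit 43957725828) (nat_lit 76) (nat_lit 10925582426) (nat_lit 76) (nat_lit 4563782257) (nat_lit 4) (nat_lit 4) (nat_lit 5) (nat_lit 5) (nat_lit 5) (nat_lit 4) (nat_lit 289) (nat_lit 225) (nat_lit 206)) (XT.nd (nat_lit 78) (nat_lit 76) (nat_lit 0) (XT.lf (nat_lit 0) (nat_lit 54960230490) (nat_lit 76) (nat_lit 7768375935) (nat_lit 76) (nat_lit 1264450633) (nat_lit 4) (nat_lit 4) (nat_lit 5) (nat_lit 5) (nat_lit 5) (nat_lit 4) (nat_lit 290) (nat_lit 225) (nat_lit 205)) (XT.lf (nat_lit 0) (nat_lit 2129519211) (nat_lit 152) (nat_lit 2270008264)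 (nat_lit 76) (nat_lit 64506251389) (nat_lit 3) (nat_lit 5) (nat_lit 5) (nat_lit 5) (nat_lit 4) (nat_lit 4) (nat_lit 291) (nat_lit 225) (nat_lit 204))))) (XT.nd (nat_lit 156) (nat_lit 0) (nat_lit 0) (XT.nd (nat_lit 78) (nat_lit 0) (nat_lit 0) (XT.lf (nat_lit 0) (nat_lit 5011476317) (nat_lit 76) (nat_lit 729425321) (nat_lit 152) (nat_lit 68470150137) (nat_lit 2) (nat_lit 5) (nat_lit 3) (nat_lit 5) (nat_lit 4) (nat_lit 4) (nat_lit 292) (nat_lit 225) (nat_lit 203)) (XT.lf (nat_lit 0) (nat_lit 9646304080) (nat_lit 152) (nat_lit 67190999938) (nat_lit 0) (nat_lit 3103260693) (nat_lit 2) (nat_lit 5) (nat_lit 4) (nat_lit 4) (nat_lit 2) (nat_lit 4) (nat_lit 293) (nat_lit 225) (nat_lit 202))) (XT.nd (nat_lit 78) (nat_lit 0) (nat_lit 0) (XT.lf (nat_lit 0) (nat_lit 13797200065) (nat_lit 152) (nat_lit 65179988713) (nat_lit 0) (nat_lit 7154665043) (nat_lit 2) (nat_lit 5) (nat_lit 4) (nat_lit 4) (nat_lit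 2) (nat_lit 4) (nat_lit 294) (nat_lit 225) (nat_lit 201)) (XT.nd (nat_lit 78) (nat_lit 0) (nat_lit 0) (XT.lf (nat_lit 0) (nat_lit 18206799121) (nat_lit 152) (nat_lit 63143236306) (nat_lit 0) (nat_lit 11472142215) (nat_lit 2) (nat_lit 5) (nat_lit 4) (nat_lit 4) (nat_lit 2) (nat_lit 4) (nat_lit 295) (nat_lit 225) (nat_lit 200)) (XT.lf (nat_lit 0) (nat_lit 22901232206) (nat_lit 152) (nat_lit 61068673075) (nat_lit 0) (nat_lit 16081277260) (nat_lit 2) (nat_lit 5) (nat_lit 4) (nat_lit 4) (nat_lit 2) (nat_lit 4) (nat_lit 296) (nat_lit 225) (nat_lit 199))))))))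
noncomputable def xc21 : XT := (XT.nd (nat_lit 1404) (nat_lit 76) (nat_lit 0) (XT.nd (nat_lit 702) (nat_lit 0) (nat_lit 0) (XT.nd (nat_lit 312) (nat_lit 0) (nat_lit 0) (XT.nd (nat_lit 156) (nat_lit 0) (nat_lit 0) (XT.nd (nat_lit 78) (nat_lit 0) (nat_lit 0) (XT.lf (nat_lit 0) (nat_lit 27908318182) (nat_lit 152) (nat_lit 58944005311) (nat_lit 0) (nat_lit 21009383569) (nat_lit 2) (nat_lit 5) (nat_lit 4) (nat_lit 4) (nat_lit 2) (nat_lit 4) (nat_lit 297) (nat_lit 225) (nat_lit 198)) (XT.lf (nat_lit 0) (nat_lit 33257728671) (nat_lit 152) (nat_lit 56756642390) (nat_lit 0) (nat_lit 26285664736) (nat_lit 2) (nat_lit 5) (nat_lit 4) (nat_lit 4) (nat_lit 2) (nat_lit 4) (nat_lit 298) (nat_lit 225) (nat_lit 197))) (XT.nd (nat_lit 78) (nat_lit 0) (nat_lit 0) (XT.lf (nat_lit 0) (nat_lit 38981163882) (nat_lit 152) (nat_lit 54493622161) (nat_lit 0) (nat_lit 31941387613) (nat_lit 2) (nat_lit 5) (nat_lit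 4) (nat_lit 4) (nat_lit 2) (nat_lit 4) (nat_lit 299) (nat_lit 225) (nat_lit 196)) (XT.lf (nat_lit 0) (nat_lit 45112540469) (nat_lit 152) (nat_lit 52141534135) (nat_lit 0) (nat_lit 38010067593) (nat_lit 2) (nat_lit 5) (nat_lit 4) (nat_lit 4) (nat_lit 2) (nat_lit 4) (nat_lit 300) (nat_lit 225) (nat_lit 195)))) (XT.nd (nat_lit 156) (nat_lit 0) (nat_lit 0) (XT.nd (nat_lit 78) (nat_lit 0) (nat_lit 0) (XT.lf (nat_lit 0) (nat_lit 51688192515) (nat_lit 152) (nat_lit 49686440011) (nat_lit 0) (nat_lit 44527667226) (nat_lit 2) (nat_lit 5) (nat_lit 4) (nat_lit 4) (nat_lit 2) (nat_lit 4) (nat_lit 301) (nat_lit 225) (nat_lit 194)) (XT.lf (nat_lit 0) (nat_lit 58747086846) (nat_lit 152) (nat_lit 47113791085) (nat_lit 0) (nat_lit 51532809323) (nat_lit 2) (nat_lit 5) (nat_lit 4) (nat_lit 4) (nat_lit 2) (nat_lit 4) (nat_lit 302) (nat_lit 225) (nat_lit 193))) (XT.nd (nat_lit 78) (nat_lit 0) (nat_lit 0) (XT.lf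 (nat_lit 0) (nat_lit 66331053949) (nat_lit 152) (nat_lit 44408342028) (nat_lit 0) (nat_lit 59067005839) (nat_lit 2) (nat_lit 5) (nat_lit 4) (nat_lit 4) (nat_lit 2) (nat_lit 4) (nat_lit 303) (nat_lit 225) (nat_lit 192)) (XT.nd (nat_lit 78) (nat_lit 0) (nat_lit 0) (XT.lf (nat_lit 0) (nat_lit 74485035851) (nat_lit 152) (nat_lit 41554060551) (nat_lit 0) (nat_lit 67174903863) (nat_lit 2) (nat_lit 5) (nat_lit 4) (nat_lit 4) (nat_lit 2) (nat_lit 4) (nat_lit 304) (nat_lit 225) (nat_lit 191)) (XT.lf (nat_lit 0) (nat_lit 83257352443) (nat_lit 152) (nat_lit 38534032392) (nat_lit 0) (nat_lit 75904550198) (nat_lit 2) (nat_lit 5) (nat_lit 4) (nat_lit 4) (nat_lit 2) (nat_lit 4) (nat_lit 305) (nat_lit 225) (nat_lit 190)))))) (XT.nd (nat_lit 312) (nat_lit 0) (nat_lit 0) (XT.nd (nat_lit 156) (nat_lit 0) (nat_lit 0) (XT.nd (nat_lit 78) (nat_lit 0) (nat_lit 0) (XT.lf (nat_lit 0) (nat_lit 92699987824) (nat_lit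 152) (nat_lit 35330361089) (nat_lit 0) (nat_lit 85307676083) (nat_lit 2) (nat_lit 5) (nat_lit 4) (nat_lit 4) (nat_lit 2) (nat_lit 4) (nat_lit 306) (nat_lit 225) (nat_lit 189)) (XT.lf (nat_lit 0) (nat_lit 102868898353) (nat_lit 152) (nat_lit 31924061922) (nat_lit 0) (nat_lit 95440003744) (nat_lit 2) (nat_lit 5) (nat_lit 4) (nat_lit 4) (nat_lit 2) (nat_lit 4) (nat_lit 307) (nat_lit 225) (nat_lit 188))) (XT.nd (nat_lit 78) (nat_lit 0) (nat_lit 0) (XT.lf (nat_lit 0) (nat_lit 113824344239) (nat_lit 152) (nat_lit 28294949416) (nat_lit 0) (nat_lit 106361576605) (nat_lit 2) (nat_lit 5) (nat_lit 4) (nat_lit 4) (nat_lit 2) (nat_lit 4) (nat_lit 308) (nat_lit 225) (nat_lit 187)) (XT.lf (nat_lit 0) (nat_lit 125631246644) (nat_lit 152) (nat_lit 24421517718) (nat_lit 0) (nat_lit 118137115097) (nat_lit 2) (nat_lit 5) (nat_lit 4) (nat_lit 4) (nat_lit 2) (nat_lit 4) (nat_lit 309) (nat_lit 225) (nat_lit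 186)))) (XT.nd (nat_lit 156) (nat_lit 0) (nat_lit 0) (XT.nd (nat_lit 78) (nat_lit 0) (nat_lit 0) (XT.lf (nat_lit 0) (nat_lit 138359572396) (nat_lit 152) (nat_lit 20280813158) (nat_lit 0) (nat_lit 130836400190) (nat_lit 2) (nat_lit 5) (nat_lit 4) (nat_lit 4) (nat_lit 2) (nat_lit 4) (nat_lit 310) (nat_lit 225) (nat_lit 185)) (XT.lf (nat_lit 0) (nat_lit 152084748612) (nat_lit 152) (nat_lit 15848298229) (nat_lit 0) (nat_lit 144534686905) (nat_lit 2) (nat_lit 5) (nat_lit 4) (nat_lit 4) (nat_lit 2) (nat_lit 4) (nat_lit 311) (nat_lit 225) (nat_lit 184))) (XT.nd (nat_lit 78) (nat_lit 0) (nat_lit 0) (XT.lf (nat_lit 0) (nat_lit 166888109668) (nat_lit 152) (nat_lit 11097706176) (nat_lit 0) (nat_lit 159313150277) (nat_lit 2) (nat_lit 5) (nat_lit 4) (nat_lit 4) (nat_lit 2) (nat_lit 4) (nat_lit 312) (nat_lit 225) (nat_lit 183)) (XT.nd (nat_lit 78) (nat_lit 0) (nat_lit 0) (XT.lf (nat_lit 0) (nat_lit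 182857379186) (nat_lit 152) (nat_lit 6000885341) (nat_lit 0) (nat_lit 175259366383) (nat_lit 2) (nat_lit 5) (nat_lit 4) (nat_lit 4) (nat_lit 2) (nat_lit 4) (nat_lit 313) (nat_lit 225) (nat_lit 182)) (XT.lf (nat_lit 0) (nat_lit 200087189874) (nat_lit 152) (nat_lit 527632341) (nat_lit 0) (nat_lit 192467831319) (nat_lit 2) (nat_lit 5) (nat_lit 4) (nat_lit 4) (nat_lit 2) (nat_lit 4) (nat_lit 314) (nat_lit 225) (nat_lit 181))))))) (XT.nd (nat_lit 702) (nat_lit 0) (nat_lit 0) (XT.nd (nat_lit 312) (nat_lit 0) (nat_lit 0) (XT.nd (nat_lit 156) (nat_lit 0) (nat_lit 0) (XT.nd (nat_lit 78) (nat_lit 0) (nat_lit 0) (XT.lf (nat_lit 0) (nat_lit 5531530431) (nat_lit 76) (nat_lit 213234476574) (nat_lit 76) (nat_lit 205595353434) (nat_lit 1) (nat_lit 4) (nat_lit 2) (nat_lit 5) (nat_lit 2) (nat_lit 4) (nat_lit 315) (nat_lit 225) (nat_lit 180)) (XT.lf (nat_lit 0) (nat_lit 12066533867) (nat_lit 76) (nat_lit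 226866778555) (nat_lit 76) (nat_lit 219209354874) (nat_lit 1) (nat_lit 4) (nat_lit 2) (nat_lit 5) (nat_lit 2) (nat_lit 4) (nat_lit 316) (nat_lit 225) (nat_lit 179))) (XT.nd (nat_lit 78) (nat_lit 0) (nat_lit 0) (XT.lf (nat_lit 0) (nat_lit 19098658003) (nat_lit 76) (nat_lit 241601447881) (nat_lit 76) (nat_lit 233927079254) (nat_lit 1) (nat_lit 4) (nat_lit 2) (nat_lit 5) (nat_lit 2) (nat_lit 4) (nat_lit 317) (nat_lit 225) (nat_lit 178)) (XT.lf (nat_lit 0) (nat_lit 26669574686) (nat_lit 76) (nat_lit 257525801111) (nat_lit 76) (nat_lit 249835742718) (nat_lit 1) (nat_lit 4) (nat_lit 2) (nat_lit 5) (nat_lit 2) (nat_lit 4) (nat_lit 318) (nat_lit 225) (nat_lit 177)))) (XT.nd (nat_lit 156) (nat_lit 0) (nat_lit 0) (XT.nd (nat_lit 78) (nat_lit 0) (nat_lit 0) (XT.lf (nat_lit 0) (nat_lit 34824148606) (nat_lit 76) (nat_lit 274734204781) (nat_lit 76) (nat_lit 267029618829) (nat_lit 1) (nat_lit 4) (nat_lit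 2) (nat_lit 5) (nat_lit 2) (nat_lit 4) (nat_lit 319) (nat_lit 225) (nat_lit 176)) (XT.lf (nat_lit 0) (nat_lit 43610703167) (nat_lit 76) (nat_lit 293328634618) (nat_lit 76) (nat_lit 285610597221) (nat_lit 1) (nat_lit 4) (nat_lit 2) (nat_lit 5) (nat_lit 2) (nat_lit 4) (nat_lit 320) (nat_lit 225) (nat_lit 175))) (XT.nd (nat_lit 78) (nat_lit 0) (nat_lit 0) (XT.lf (nat_lit 0) (nat_lit 53081306837) (nat_lit 76) (nat_lit 313419279835) (nat_lit 76) (nat_lit 305688787397) (nat_lit 1) (nat_lit 4) (nat_lit 2) (nat_lit 5) (nat_lit 2) (nat_lit 4) (nat_lit 321) (nat_lit 225) (nat_lit 174)) (XT.nd (nat_lit 78) (nat_lit 0) (nat_lit 0) (XT.lf (nat_lit 0) (nat_lit 63292081715) (nat_lit 76) (nat_lit 335125196108) (nat_lit 76) (nat_lit 327383171225) (nat_lit 1) (nat_lit 4) (nat_lit 2) (nat_lit 5) (nat_lit 2) (nat_lit 4) (nat_lit 322) (nat_lit 225) (nat_lit 173)) (XT.lf (nat_lit 0) (nat_lit 74303536094) (nat_lit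 76) (nat_lit 358575011089) (nat_lit 76) (nat_lit 350822308015) (nat_lit 1) (nat_lit 4) (nat_lit 2) (nat_lit 5) (nat_lit 2) (nat_lit 4) (nat_lit 323) (nat_lit 225) (nat_lit 172)))))) (XT.nd (nat_lit 33462) (nat_lit 0) (nat_lit 532) (XT.nd (nat_lit 33228) (nat_lit 0) (nat_lit 760) (XT.nd (nat_lit 33150) (nat_lit 0) (nat_lit 1064) (XT.lf (nat_lit 0) (nat_lit 86180923039) (nat_lit 76) (nat_lit 383907686644) (nat_lit 76) (nat_lit 376145096356) (nat_lit 1) (nat_lit 4) (nat_lit 2) (nat_lit 5) (nat_lit 2) (nat_lit 4) (nat_lit 324) (nat_lit 225) (nat_lit 171)) (XT.lf (nat_lit 0) (nat_lit 140663330) (nat_lit 152) (nat_lit 7111693302) (nat_lit 0) (nat_lit 140663330) (nat_lit 15) (nat_lit 5) (nat_lit 17) (nat_lit 4) (nat_lit 15) (nat_lit 4) (nat_lit 268) (nat_lit 226) (nat_lit 226))) (XT.nd (nat_lit 78) (nat_lit 304) (nat_lit 0) (XT.lf (nat_lit 0) (nat_lit 6255643294) (nat_lit 152) (nat_lit 3875508416)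 (nat_lit 0) (nat_lit 5488787163) (nat_lit 15) (nat_lit 5) (nat_lit 17) (nat_lit 4) (nat_lit 15) (nat_lit 4) (nat_lit 269) (nat_lit 226) (nat_lit 225)) (XT.nd (nat_lit 78) (nat_lit 152) (nat_lit 0) (XT.lf (nat_lit 0) (nat_lit 6963043120) (nat_lit 152) (nat_lit 5522997365) (nat_lit 152) (nat_lit 4046089262) (nat_lit 13) (nat_lit 4) (nat_lit 15) (nat_lit 5) (nat_lit 15) (nat_lit 4) (nat_lit 270) (nat_lit 226) (nat_lit 224)) (XT.lf (nat_lit 0) (nat_lit 742617848) (nat_lit 76) (nat_lit 660787752) (nat_lit 152) (nat_lit 16124986097) (nat_lit 11) (nat_lit 5) (nat_lit 12) (nat_lit 5) (nat_lit 13) (nat_lit 4) (nat_lit 271) (nat_lit 226) (nat_lit 223))))) (XT.nd (nat_lit 156) (nat_lit 152) (nat_lit 0) (XT.nd (nat_lit 78) (nat_lit 76) (nat_lit 0) (XT.lf (nat_lit 0) (nat_lit 7082176158) (nat_lit 152) (nat_lit 7052823759) (nat_lit 0) (nat_lit 4469682107) (nat_lit 11) (nat_lit 5) (nat_lit 13) (nat_lit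 4) (nat_lit 11) (nat_lit 4) (nat_lit 272) (nat_lit 226) (nat_lit 222)) (XT.lf (nat_lit 0) (nat_lit 3049725725) (nat_lit 76) (nat_lit 9939175192) (nat_lit 76) (nat_lit 6789860047) (nat_lit 10) (nat_lit 4) (nat_lit 11) (nat_lit 5) (nat_lit 11) (nat_lit 4) (nat_lit 273) (nat_lit 226) (nat_lit 221))) (XT.nd (nat_lit 78) (nat_lit 152) (nat_lit 0) (XT.lf (nat_lit 0) (nat_lit 13738362471) (nat_lit 76) (nat_lit 5481271353) (nat_lit 76) (nat_lit 1834899640) (nat_lit 10) (nat_lit 4) (nat_lit 11) (nat_lit 5) (nat_lit 11) (nat_lit 4) (nat_lit 274) (nat_lit 226) (nat_lit 220)) (XT.nd (nat_lit 78) (nat_lit 0) (nat_lit 0) (XT.lf (nat_lit 0) (nat_lit 2424812628) (nat_lit 76) (nat_lit 761246837) (nat_lit 152) (nat_lit 19254756176) (nat_lit 8) (nat_lit 5) (nat_lit 9) (nat_lit 5) (nat_lit 10) (nat_lit 4) (nat_lit 275) (nat_lit 226) (nat_lit 219)) (XT.lf (nat_lit 0) (nat_lit 8496168965) (nat_lit 152) (nat_lit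 11263758381) (nat_lit 0) (nat_lit 4179259280) (nat_lit 8) (nat_lit 5) (nat_lit 10) (nat_lit 4) (nat_lit 8) (nat_lit 4) (nat_lit 276) (nat_lit 226) (nat_lit 218))))))))
noncomputable def xc22 : XT := (XT.nd (nat_lit 1404) (nat_lit 0) (nat_lit 0) (XT.nd (nat_lit 702) (nat_lit 152) (nat_lit 0) (XT.nd (nat_lit 312) (nat_lit 152) (nat_lit 0) (XT.nd (nat_lit 156) (nat_lit 76) (nat_lit 0) (XT.nd (nat_lit 78) (nat_lit 76) (nat_lit 0) (XT.lf (nat_lit 0) (nat_lit 14015835203) (nat_lit 152) (nat_lit 2229476816) (nat_lit 0) (nat_lit 9323135491) (nat_lit 8) (nat_lit 5) (nat_lit 10) (nat_lit 4) (nat_lit 8) (nat_lit 4) (nat_lit 277) (nat_lit 226) (nat_lit 217)) (XT.lf (nat_lit 0) (nat_lit 7388749487) (nat_lit 76) (nat_lit 12492491718) (nat_lit 76) (nat_lit 7451838275) (nat_lit 7) (nat_lit 4) (nat_lit 8) (nat_lit 5) (nat_lit 8) (nat_lit 4) (nat_lit 278) (nat_lit 226) (nat_lit 216))) (XT.nd (nat_lit 78)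 (nat_lit 76) (nat_lit 0) (XT.lf (nat_lit 0) (nat_lit 17497073261) (nat_lit 76) (nat_lit 8556489149) (nat_lit 76) (nat_lit 3193656327) (nat_lit 7) (nat_lit 4) (nat_lit 8) (nat_lit 5) (nat_lit 8) (nat_lit 4) (nat_lit 279) (nat_lit 226) (nat_lit 215)) (XT.lf (nat_lit 0) (nat_lit 1170701266) (nat_lit 152) (nat_lit 3261209465) (nat_lit 76) (nat_lit 26891151453) (nat_lit 6) (nat_lit 5) (nat_lit 8) (nat_lit 5) (nat_lit 7) (nat_lit 4) (nat_lit 280) (nat_lit 226) (nat_lit 214)))) (XT.nd (nat_lit 156) (nat_lit 76) (nat_lit 0) (XT.nd (nat_lit 78) (nat_lit 0) (nat_lit 0) (XT.lf (nat_lit 0) (nat_lit 5688230740) (nat_lit 152) (nat_lit 27844910881) (nat_lit 0) (nat_lit 33598405) (nat_lit 5) (nat_lit 5) (nat_lit 7) (nat_lit 4) (nat_lit 5) (nat_lit 4) (nat_lit 281) (nat_lit 226) (nat_lit 213)) (XT.lf (nat_lit 0) (nat_lit 10530401322) (nat_lit 152) (nat_lit 20829324334) (nat_lit 0) (nat_lit 4632191483)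 (nat_lit 5) (nat_lit 5) (nat_lit 7) (nat_lit 4) (nat_lit 5) (nat_lit 4) (nat_lit 282) (nat_lit 226) (nat_lit 212))) (XT.nd (nat_lit 78) (nat_lit 76) (nat_lit 0) (XT.lf (nat_lit 0) (nat_lit 15603250359) (nat_lit 152) (nat_lit 13536341641) (nat_lit 0) (nat_lit 9479505795) (nat_lit 5) (nat_lit 5) (nat_lit 7) (nat_lit 4) (nat_lit 5) (nat_lit 4) (nat_lit 283) (nat_lit 226) (nat_lit 211)) (XT.nd (nat_lit 78) (nat_lit 76) (nat_lit 0) (XT.lf (nat_lit 0) (nat_lit 20936839179) (nat_lit 152) (nat_lit 5922745126) (nat_lit 0) (nat_lit 14604266166) (nat_lit 5) (nat_lit 5) (nat_lit 7) (nat_lit 4) (nat_lit 5) (nat_lit 4) (nat_lit 284) (nat_lit 226) (nat_lit 210)) (XT.lf (nat_lit 0) (nat_lit 2124582734) (nat_lit 76) (nat_lit 24471362191) (nat_lit 76) (nat_lit 17945429502) (nat_lit 4) (nat_lit 4) (nat_lit 5) (nat_lit 5) (nat_lit 5) (nat_lit 4) (nat_lit 285) (nat_lit 226) (nat_lit 209)))))) (XT.nd (nat_lit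 312) (nat_lit 152) (nat_lit 0) (XT.nd (nat_lit 156) (nat_lit 0) (nat_lit 0) (XT.nd (nat_lit 78) (nat_lit 0) (nat_lit 0) (XT.lf (nat_lit 0) (nat_lit 10794415820) (nat_lit 76) (nat_lit 21888509662) (nat_lit 76) (nat_lit 15183540237) (nat_lit 4) (nat_lit 4) (nat_lit 5) (nat_lit 5) (nat_lit 5) (nat_lit 4) (nat_lit 286) (nat_lit 226) (nat_lit 208)) (XT.lf (nat_lit 0) (nat_lit 19942298216) (nat_lit 76) (nat_lit 19196025482) (nat_lit 76) (nat_lit 12325281301) (nat_lit 4) (nat_lit 4) (nat_lit 5) (nat_lit 5) (nat_lit 5) (nat_lit 4) (nat_lit 287) (nat_lit 226) (nat_lit 207))) (XT.nd (nat_lit 78) (nat_lit 0) (nat_lit 0) (XT.lf (nat_lit 0) (nat_lit 29622439597) (nat_lit 76) (nat_lit 16377954189) (nat_lit 76) (nat_lit 9353714863) (nat_lit 4) (nat_lit 4) (nat_lit 5) (nat_lit 5) (nat_lit 5) (nat_lit 4) (nat_lit 288) (nat_lit 226) (nat_lit 206)) (XT.lf (nat_lit 0) (nat_lit 39892203763) (nat_lit 76) (nat_lit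 13417596101) (nat_lit 76) (nat_lit 6251231641) (nat_lit 4) (nat_lit 4) (nat_lit 5) (nat_lit 5) (nat_lit 5) (nat_lit 4) (nat_lit 289) (nat_lit 226) (nat_lit 205)))) (XT.nd (nat_lit 156) (nat_lit 76) (nat_lit 0) (XT.nd (nat_lit 78) (nat_lit 76) (nat_lit 0) (XT.lf (nat_lit 0) (nat_lit 50812448575) (nat_lit 76) (nat_lit 10297408355) (nat_lit 76) (nat_lit 2999446548) (nat_lit 4) (nat_lit 4) (nat_lit 5) (nat_lit 5) (nat_lit 5) (nat_lit 4) (nat_lit 290) (nat_lit 226) (nat_lit 204)) (XT.lf (nat_lit 0) (nat_lit 407438494) (nat_lit 152) (nat_lit 6584562287) (nat_lit 76) (nat_lit 62033547934) (nat_lit 3) (nat_lit 5) (nat_lit 5) (nat_lit 5) (nat_lit 4) (nat_lit 4) (nat_lit 291) (nat_lit 226) (nat_lit 203))) (XT.nd (nat_lit 78) (nat_lit 0) (nat_lit 0) (XT.lf (nat_lit 0) (nat_lit 480022820) (nat_lit 76) (nat_lit 3428590611) (nat_lit 152) (nat_lit 70427753986) (nat_lit 2) (nat_lit 5) (nat_lit 3) (nat_lit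 5) (nat_lit 4) (nat_lit 4) (nat_lit 292) (nat_lit 226) (nat_lit 202)) (XT.nd (nat_lit 78) (nat_lit 0) (nat_lit 0) (XT.lf (nat_lit 0) (nat_lit 7733779100) (nat_lit 152) (nat_lit 71875796241) (nat_lit 0) (nat_lit 460349642) (nat_lit 2) (nat_lit 5) (nat_lit 4) (nat_lit 4) (nat_lit 2) (nat_lit 4) (nat_lit 293) (nat_lit 226) (nat_lit 201)) (XT.lf (nat_lit 0) (nat_lit 11849401715) (nat_lit 152) (nat_lit 69929756033) (nat_lit 0) (nat_lit 4483850374) (nat_lit 2) (nat_lit 5) (nat_lit 4) (nat_lit 4) (nat_lit 2) (nat_lit 4) (nat_lit 294) (nat_lit 226) (nat_lit 200))))))) (XT.nd (nat_lit 702) (nat_lit 0) (nat_lit 0) (XT.nd (nat_lit 312) (nat_lit 0) (nat_lit 0) (XT.nd (nat_lit 156) (nat_lit 0) (nat_lit 0) (XT.nd (nat_lit 78) (nat_lit 0) (nat_lit 0) (XT.lf (nat_lit 0) (nat_lit 16226340244) (nat_lit 152) (nat_lit 67953161977) (nat_lit 0) (nat_lit 8775490862) (nat_lit 2) (nat_lit 5) (nat_lit 4) (nat_lit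 4) (nat_lit 2) (nat_lit 4) (nat_lit 295) (nat_lit 226) (nat_lit 199)) (XT.lf (nat_lit 0) (nat_lit 20890532101) (nat_lit 152) (nat_lit 65934300921) (nat_lit 0) (nat_lit 13360703051) (nat_lit 2) (nat_lit 5) (nat_lit 4) (nat_lit 4) (nat_lit 2) (nat_lit 4) (nat_lit 296) (nat_lit 226) (nat_lit 198))) (XT.nd (nat_lit 78) (nat_lit 0) (nat_lit 0) (XT.lf (nat_lit 0) (nat_lit 25869616940) (nat_lit 152) (nat_lit 63861209246) (nat_lit 0) (nat_lit 18266658569) (nat_lit 2) (nat_lit 5) (nat_lit 4) (nat_lit 4) (nat_lit 2) (nat_lit 4) (nat_lit 297) (nat_lit 226) (nat_lit 197)) (XT.lf (nat_lit 0) (nat_lit 31193100449) (nat_lit 152) (nat_lit 61721601962) (nat_lit 0) (nat_lit 23522429744) (nat_lit 2) (nat_lit 5) (nat_lit 4) (nat_lit 4) (nat_lit 2) (nat_lit 4) (nat_lit 298) (nat_lit 226) (nat_lit 196)))) (XT.nd (nat_lit 156) (nat_lit 0) (nat_lit 0) (XT.nd (nat_lit 78) (nat_lit 0) (nat_lit 0) (XT.lf (nat_lit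 0) (nat_lit 36892529198) (nat_lit 152) (nat_lit 59502799916) (nat_lit 0) (nat_lit 29159161887) (nat_lit 2) (nat_lit 5) (nat_lit 4) (nat_lit 4) (nat_lit 2) (nat_lit 4) (nat_lit 299) (nat_lit 226) (nat_lit 195)) (XT.lf (nat_lit 0) (nat_lit 43001677579) (nat_lit 152) (nat_lit 57191654652) (nat_lit 0) (nat_lit 35210257855) (nat_lit 2) (nat_lit 5) (nat_lit 4) (nat_lit 4) (nat_lit 2) (nat_lit 4) (nat_lit 300) (nat_lit 226) (nat_lit 194))) (XT.nd (nat_lit 78) (nat_lit 0) (nat_lit 0) (XT.lf (nat_lit 0) (nat_lit 49556747953) (nat_lit 152) (nat_lit 54774470493) (nat_lit 0) (nat_lit 41711575994) (nat_lit 2) (nat_lit 5) (nat_lit 4) (nat_lit 4) (nat_lit 2) (nat_lit 4) (nat_lit 301) (nat_lit 226) (nat_lit 193)) (XT.nd (nat_lit 78) (nat_lit 0) (nat_lit 0) (XT.lf (nat_lit 0) (nat_lit 56596585182) (nat_lit 152) (nat_lit 52236923386) (nat_lit 0) (nat_lit 48701642635) (nat_lit 2) (nat_lit 5) (nat_lit 4)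 (nat_lit 4) (nat_lit 2) (nat_lit 4) (nat_lit 302) (nat_lit 226) (nat_lit 192)) (XT.lf (nat_lit 0) (nat_lit 64162906818) (nat_lit 152) (nat_lit 49563976014) (nat_lit 0) (nat_lit 56221880394) (nat_lit 2) (nat_lit 5) (nat_lit 4) (nat_lit 4) (nat_lit 2) (nat_lit 4) (nat_lit 303) (nat_lit 226) (nat_lit 191)))))) (XT.nd (nat_lit 390) (nat_lit 0) (nat_lit 0) (XT.nd (nat_lit 156) (nat_lit 0) (nat_lit 0) (XT.nd (nat_lit 78) (nat_lit 0) (nat_lit 0) (XT.lf (nat_lit 0) (nat_lit 72300550325) (nat_lit 152) (nat_lit 46739788689) (nat_lit 0) (nat_lit 64316853644) (nat_lit 2) (nat_lit 5) (nat_lit 4) (nat_lit 4) (nat_lit 2) (nat_lit 4) (nat_lit 304) (nat_lit 226) (nat_lit 190)) (XT.lf (nat_lit 0) (nat_lit 81057738774) (nat_lit 152) (nat_lit 43747625486) (nat_lit 0) (nat_lit 73034532596) (nat_lit 2) (nat_lit 5) (nat_lit 4) (nat_lit 4) (nat_lit 2) (nat_lit 4) (nat_lit 305) (nat_lit 226) (nat_lit 189))) (XT.nd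 (nat_lit 78) (nat_lit 0) (nat_lit 0) (XT.lf (nat_lit 0) (nat_lit 90486366615) (nat_lit 152) (nat_lit 40569755068) (nat_lit 0) (nat_lit 82426577570) (nat_lit 2) (nat_lit 5) (nat_lit 4) (nat_lit 4) (nat_lit 2) (nat_lit 4) (nat_lit 306) (nat_lit 226) (nat_lit 188)) (XT.nd (nat_lit 78) (nat_lit 0) (nat_lit 0) (XT.lf (nat_lit 0) (nat_lit 100642307199) (nat_lit 152) (nat_lit 37187345610) (nat_lit 0) (nat_lit 92548645129) (nat_lit 2) (nat_lit 5) (nat_lit 4) (nat_lit 4) (nat_lit 2) (nat_lit 4) (nat_lit 307) (nat_lit 226) (nat_lit 187)) (XT.lf (nat_lit 0) (nat_lit 111585743877) (nat_lit 152) (nat_lit 33580353204) (nat_lit 0) (nat_lit 103460717894) (nat_lit 2) (nat_lit 5) (nat_lit 4) (nat_lit 4) (nat_lit 2) (nat_lit 4) (nat_lit 308) (nat_lit 226) (nat_lit 186))))) (XT.nd (nat_lit 156) (nat_lit 0) (nat_lit 0) (XT.nd (nat_lit 78) (nat_lit 0) (nat_lit 0) (XT.lf (nat_lit 0) (nat_lit 123381526645) (nat_lit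 152) (nat_lit 29727403080) (nat_lit 0) (nat_lit 115227460003) (nat_lit 2) (nat_lit 5) (nat_lit 4) (nat_lit 4) (nat_lit 2) (nat_lit 4) (nat_lit 309) (nat_lit 226) (nat_lit 185)) (XT.lf (nat_lit 0) (nat_lit 136099556438) (nat_lit 152) (nat_lit 25605662941) (nat_lit 0) (nat_lit 127918600295) (nat_lit 2) (nat_lit 5) (nat_lit 4) (nat_lit 4) (nat_lit 2) (nat_lit 4) (nat_lit 310) (nat_lit 226) (nat_lit 184))) (XT.nd (nat_lit 78) (nat_lit 0) (nat_lit 0) (XT.lf (nat_lit 0) (nat_lit 149815199357) (nat_lit 152) (nat_lit 21190707661) (nat_lit 0) (nat_lit 141609345529) (nat_lit 2) (nat_lit 5) (nat_lit 4) (nat_lit 4) (nat_lit 2) (nat_lit 4) (nat_lit 311) (nat_lit 226) (nat_lit 183)) (XT.nd (nat_lit 78) (nat_lit 0) (nat_lit 0) (XT.lf (nat_lit 0) (nat_lit 164609733286) (nat_lit 152) (nat_lit 16456374542) (nat_lit 0) (nat_lit 156380826047) (nat_lit 2) (nat_lit 5) (nat_lit 4) (nat_lit 4) (nat_lit 2) (nat_lit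 4) (nat_lit 312) (nat_lit 226) (nat_lit 182)) (XT.lf (nat_lit 0) (nat_lit 180570829539) (nat_lit 152) (nat_lit 11374608275) (nat_lit 0) (nat_lit 172320576548) (nat_lit 2) (nat_lit 5) (nat_lit 4) (nat_lit 4) (nat_lit 2) (nat_lit 4) (nat_lit 313) (nat_lit 226) (nat_lit 181))))))))
noncomputable def xc23 : XT := (XT.nd (nat_lit 34320) (nat_lit 0) (nat_lit 228) (XT.nd (nat_lit 702) (nat_lit 0) (nat_lit 0) (XT.nd (nat_lit 312) (nat_lit 0) (nat_lit 0) (XT.nd (nat_lit 156) (nat_lit 76) (nat_lit 0) (XT.nd (nat_lit 78) (nat_lit 0) (nat_lit 0) (XT.lf (nat_lit 0) (nat_lit 197793072389) (nat_lit 152) (nat_lit 5915294691) (nat_lit 0) (nat_lit 189523054813) (nat_lit 2) (nat_lit 5) (nat_lit 4) (nat_lit 4) (nat_lit 2) (nat_lit 4) (nat_lit 314) (nat_lit 226) (nat_lit 180)) (XT.lf (nat_lit 0) (nat_lit 216378519571) (nat_lit 152) (nat_lit 46082303) (nat_lit 0) (nat_lit 208090201453) (nat_lit 2) (nat_lit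 5) (nat_lit 4) (nat_lit 4) (nat_lit 2) (nat_lit 4) (nat_lit 315) (nat_lit 226) (nat_lit 179))) (XT.nd (nat_lit 78) (nat_lit 0) (nat_lit 0) (XT.lf (nat_lit 0) (nat_lit 6475051494) (nat_lit 76) (nat_lit 230063349275) (nat_lit 76) (nat_lit 221758086211) (nat_lit 1) (nat_lit 4) (nat_lit 2) (nat_lit 5) (nat_lit 2) (nat_lit 4) (nat_lit 316) (nat_lit 226) (nat_lit 178)) (XT.lf (nat_lit 0) (nat_lit 13495744195) (nat_lit 76) (nat_lit 244803263966) (nat_lit 76) (nat_lit 236482311137) (nat_lit 1) (nat_lit 4) (nat_lit 2) (nat_lit 5) (nat_lit 2) (nat_lit 4) (nat_lit 317) (nat_lit 226) (nat_lit 177)))) (XT.nd (nat_lit 156) (nat_lit 0) (nat_lit 0) (XT.nd (nat_lit 78) (nat_lit 0) (nat_lit 0) (XT.lf (nat_lit 0) (nat_lit 21056076216) (nat_lit 76) (nat_lit 260732474014) (nat_lit 76) (nat_lit 252396993625) (nat_lit 1) (nat_lit 4) (nat_lit 2) (nat_lit 5) (nat_lit 2) (nat_lit 4) (nat_lit 318) (nat_lit 226)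 (nat_lit 176)) (XT.lf (nat_lit 0) (nat_lit 29200849524) (nat_lit 76) (nat_lit 277945374738) (nat_lit 76) (nat_lit 269596442905) (nat_lit 1) (nat_lit 4) (nat_lit 2) (nat_lit 5) (nat_lit 2) (nat_lit 4) (nat_lit 319) (nat_lit 226) (nat_lit 175))) (XT.nd (nat_lit 78) (nat_lit 0) (nat_lit 0) (XT.lf (nat_lit 0) (nat_lit 37978329443) (nat_lit 76) (nat_lit 296543968514) (nat_lit 76) (nat_lit 288182581640) (nat_lit 1) (nat_lit 4) (nat_lit 2) (nat_lit 5) (nat_lit 2) (nat_lit 4) (nat_lit 320) (nat_lit 226) (nat_lit 174)) (XT.nd (nat_lit 78) (nat_lit 0) (nat_lit 0) (XT.lf (nat_lit 0) (nat_lit 47440530668) (nat_lit 76) (nat_lit 316638469231) (nat_lit 76) (nat_lit 308265549911) (nat_lit 1) (nat_lit 4) (nat_lit 2) (nat_lit 5) (nat_lit 2) (nat_lit 4) (nat_lit 321) (nat_lit 226) (nat_lit 173)) (XT.lf (nat_lit 0) (nat_lit 57643525503) (nat_lit 76) (nat_lit 338347955410) (nat_lit 76) (nat_lit 329964357900)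 (nat_lit 1) (nat_lit 4) (nat_lit 2) (nat_lit 5) (nat_lit 2) (nat_lit 4) (nat_lit 322) (nat_lit 226) (nat_lit 172)))))) (XT.nd (nat_lit 33228) (nat_lit 0) (nat_lit 760) (XT.nd (nat_lit 33072) (nat_lit 0) (nat_lit 1216) (XT.nd (nat_lit 78) (nat_lit 0) (nat_lit 0) (XT.lf (nat_lit 0) (nat_lit 68647776139) (nat_lit 76) (nat_lit 361801075860) (nat_lit 76) (nat_lit 353407591136) (nat_lit 1) (nat_lit 4) (nat_lit 2) (nat_lit 5) (nat_lit 2) (nat_lit 4) (nat_lit 323) (nat_lit 226) (nat_lit 171)) (XT.lf (nat_lit 0) (nat_lit 80518492952) (nat_lit 76) (nat_lit 387136812034) (nat_lit 76) (nat_lit 378734172484) (nat_lit 1) (nat_lit 4) (nat_lit 2) (nat_lit 5) (nat_lit 2) (nat_lit 4) (nat_lit 324) (nat_lit 226) (nat_lit 170))) (XT.nd (nat_lit 78) (nat_lit 152) (nat_lit 0) (XT.lf (nat_lit 0) (nat_lit 1616332930) (nat_lit 152) (nat_lit 3418568718) (nat_lit 0) (nat_lit 1616332930) (nat_lit 19) (nat_lit 5)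 (nat_lit 21) (nat_lit 4) (nat_lit 19) (nat_lit 4) (nat_lit 266) (nat_lit 227) (nat_lit 227)) (XT.lf (nat_lit 0) (nat_lit 3847485042) (nat_lit 152) (nat_lit 5518393036) (nat_lit 152) (nat_lit 4648778184) (nat_lit 17) (nat_lit 4) (nat_lit 19) (nat_lit 5) (nat_lit 19) (nat_lit 4) (nat_lit 267) (nat_lit 227) (nat_lit 226)))) (XT.nd (nat_lit 156) (nat_lit 304) (nat_lit 0) (XT.nd (nat_lit 78) (nat_lit 0) (nat_lit 0) (XT.lf (nat_lit 0) (nat_lit 269580323) (nat_lit 76) (nat_lit 678904609) (nat_lit 152) (nat_lit 13845860057) (nat_lit 15) (nat_lit 5) (nat_lit 16) (nat_lit 5) (nat_lit 17) (nat_lit 4) (nat_lit 268) (nat_lit 227) (nat_lit 225)) (XT.lf (nat_lit 0) (nat_lit 6753270525) (nat_lit 152) (nat_lit 4435526188) (nat_lit 0) (nat_lit 4448157801) (nat_lit 15) (nat_lit 5) (nat_lit 17) (nat_lit 4) (nat_lit 15) (nat_lit 4) (nat_lit 269) (nat_lit 227) (nat_lit 224))) (XT.nd (nat_lit 78) (nat_lit 152)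 (nat_lit 0) (XT.lf (nat_lit 0) (nat_lit 6126970130) (nat_lit 152) (nat_lit 6696485405) (nat_lit 152) (nat_lit 3733917151) (nat_lit 13) (nat_lit 4) (nat_lit 15) (nat_lit 5) (nat_lit 15) (nat_lit 4) (nat_lit 270) (nat_lit 227) (nat_lit 223)) (XT.nd (nat_lit 78) (nat_lit 76) (nat_lit 0) (XT.lf (nat_lit 0) (nat_lit 1551521774) (nat_lit 228) (nat_lit 390703736) (nat_lit 76) (nat_lit 15619059740) (nat_lit 12) (nat_lit 5) (nat_lit 15) (nat_lit 5) (nat_lit 13) (nat_lit 4) (nat_lit 271) (nat_lit 227) (nat_lit 222)) (XT.lf (nat_lit 0) (nat_lit 7066811144) (nat_lit 152) (nat_lit 8450385728) (nat_lit 0) (nat_lit 3128729694) (nat_lit 11) (nat_lit 5) (nat_lit 13) (nat_lit 4) (nat_lit 11) (nat_lit 4) (nat_lit 272) (nat_lit 227) (nat_lit 221))))))) (XT.nd (nat_lit 702) (nat_lit 76) (nat_lit 0) (XT.nd (nat_lit 312) (nat_lit 228) (nat_lit 0) (XT.nd (nat_lit 156) (nat_lit 152) (nat_lit 0) (XT.nd (nat_lit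 78) (nat_lit 0) (nat_lit 0) (XT.lf (nat_lit 0) (nat_lit 1378083488) (nat_lit 76) (nat_lit 11442437308) (nat_lit 76) (nat_lit 7007299290) (nat_lit 10) (nat_lit 4) (nat_lit 11) (nat_lit 5) (nat_lit 11) (nat_lit 4) (nat_lit 273) (nat_lit 227) (nat_lit 220)) (XT.lf (nat_lit 0) (nat_lit 11855728977) (nat_lit 76) (nat_lit 7074715666) (nat_lit 76) (nat_lit 2179340084) (nat_lit 10) (nat_lit 4) (nat_lit 11) (nat_lit 5) (nat_lit 11) (nat_lit 4) (nat_lit 274) (nat_lit 227) (nat_lit 219))) (XT.nd (nat_lit 78) (nat_lit 0) (nat_lit 0) (XT.lf (nat_lit 0) (nat_lit 222559940) (nat_lit 76) (nat_lit 2481870017) (nat_lit 152) (nat_lit 19799450261) (nat_lit 8) (nat_lit 5) (nat_lit 9) (nat_lit 5) (nat_lit 10) (nat_lit 4) (nat_lit 275) (nat_lit 227) (nat_lit 218)) (XT.lf (nat_lit 0) (nat_lit 7878017999) (nat_lit 152) (nat_lit 13697070851) (nat_lit 0) (nat_lit 2434112281) (nat_lit 8) (nat_lit 5) (nat_lit 10)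 (nat_lit 4) (nat_lit 8) (nat_lit 4) (nat_lit 276) (nat_lit 227) (nat_lit 217)))) (XT.nd (nat_lit 156) (nat_lit 152) (nat_lit 0) (XT.nd (nat_lit 78) (nat_lit 76) (nat_lit 0) (XT.lf (nat_lit 0) (nat_lit 13296149323) (nat_lit 152) (nat_lit 4843214245) (nat_lit 0) (nat_lit 7504289876) (nat_lit 8) (nat_lit 5) (nat_lit 10) (nat_lit 4) (nat_lit 8) (nat_lit 4) (nat_lit 277) (nat_lit 227) (nat_lit 216)) (XT.lf (nat_lit 0) (nat_lit 4516006185) (nat_lit 76) (nat_lit 14506683755) (nat_lit 76) (nat_lit 8392644928) (nat_lit 7) (nat_lit 4) (nat_lit 8) (nat_lit 5) (nat_lit 8) (nat_lit 4) (nat_lit 278) (nat_lit 227) (nat_lit 215))) (XT.nd (nat_lit 78) (nat_lit 152) (nat_lit 0) (XT.lf (nat_lit 0) (nat_lit 14464530044) (nat_lit 76) (nat_lit 10640936354) (nat_lit 76) (nat_lit 4228583287) (nat_lit 7) (nat_lit 4) (nat_lit 8) (nat_lit 5) (nat_lit 8) (nat_lit 4) (nat_lit 279) (nat_lit 227) (nat_lit 214)) (XT.nd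 (nat_lit 78) (nat_lit 76) (nat_lit 0) (XT.lf (nat_lit 0) (nat_lit 84539294) (nat_lit 152) (nat_lit 6515264402) (nat_lit 76) (nat_lit 24815202001) (nat_lit 6) (nat_lit 5) (nat_lit 8) (nat_lit 5) (nat_lit 7) (nat_lit 4) (nat_lit 280) (nat_lit 227) (nat_lit 213)) (XT.lf (nat_lit 0) (nat_lit 2216465854) (nat_lit 76) (nat_lit 2252213262) (nat_lit 152) (nat_lit 29196754184) (nat_lit 5) (nat_lit 5) (nat_lit 6) (nat_lit 5) (nat_lit 7) (nat_lit 4) (nat_lit 281) (nat_lit 227) (nat_lit 212)))))) (XT.nd (nat_lit 390) (nat_lit 0) (nat_lit 0) (XT.nd (nat_lit 156) (nat_lit 76) (nat_lit 0) (XT.nd (nat_lit 78) (nat_lit 0) (nat_lit 0) (XT.lf (nat_lit 0) (nat_lit 9200352111) (nat_lit 152) (nat_lit 24534684259) (nat_lit 0) (nat_lit 2361173257) (nat_lit 5) (nat_lit 5) (nat_lit 7) (nat_lit 4) (nat_lit 5) (nat_lit 4) (nat_lit 282) (nat_lit 227) (nat_lit 211)) (XT.lf (nat_lit 0) (nat_lit 14203447235) (nat_lit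 152) (nat_lit 17368059640) (nat_lit 0) (nat_lit 7155439931) (nat_lit 5) (nat_lit 5) (nat_lit 7) (nat_lit 4) (nat_lit 5) (nat_lit 4) (nat_lit 283) (nat_lit 227) (nat_lit 210))) (XT.nd (nat_lit 78) (nat_lit 76) (nat_lit 0) (XT.lf (nat_lit 0) (nat_lit 19472449098) (nat_lit 152) (nat_lit 9871461342) (nat_lit 0) (nat_lit 12231082119) (nat_lit 5) (nat_lit 5) (nat_lit 7) (nat_lit 4) (nat_lit 5) (nat_lit 4) (nat_lit 284) (nat_lit 227) (nat_lit 209)) (XT.nd (nat_lit 78) (nat_lit 76) (nat_lit 0) (XT.lf (nat_lit 0) (nat_lit 25038581416) (nat_lit 152) (nat_lit 2000465078) (nat_lit 0) (nat_lit 17618177700) (nat_lit 5) (nat_lit 5) (nat_lit 7) (nat_lit 4) (nat_lit 5) (nat_lit 4) (nat_lit 285) (nat_lit 227) (nat_lit 208)) (XT.lf (nat_lit 0) (nat_lit 6499599877) (nat_lit 76) (nat_lit 24536705768) (nat_lit 76) (nat_lit 16950527295) (nat_lit 4) (nat_lit 4) (nat_lit 5) (nat_lit 5) (nat_lit 5) (nat_lit 4)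 (nat_lit 286) (nat_lit 227) (nat_lit 207))))) (XT.nd (nat_lit 156) (nat_lit 0) (nat_lit 0) (XT.nd (nat_lit 78) (nat_lit 0) (nat_lit 0) (XT.lf (nat_lit 0) (nat_lit 15551534385) (nat_lit 76) (nat_lit 21887400252) (nat_lit 76) (nat_lit 14147726635) (nat_lit 4) (nat_lit 4) (nat_lit 5) (nat_lit 5) (nat_lit 5) (nat_lit 4) (nat_lit 287) (nat_lit 227) (nat_lit 206)) (XT.lf (nat_lit 0) (nat_lit 25142835129) (nat_lit 76) (nat_lit 19109309203) (nat_lit 76) (nat_lit 11227510452) (nat_lit 4) (nat_lit 4) (nat_lit 5) (nat_lit 5) (nat_lit 5) (nat_lit 4) (nat_lit 288) (nat_lit 227) (nat_lit 205))) (XT.nd (nat_lit 78) (nat_lit 0) (nat_lit 0) (XT.lf (nat_lit 0) (nat_lit 35330339446) (nat_lit 76) (nat_lit 16185969860) (nat_lit 76) (nat_lit 8172573762) (nat_lit 4) (nat_lit 4) (nat_lit 5) (nat_lit 5) (nat_lit 5) (nat_lit 4) (nat_lit 289) (nat_lit 227) (nat_lit 204)) (XT.nd (nat_lit 78) (nat_lit 0) (nat_lit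 0) (XT.lf (nat_lit 0) (nat_lit 46174417731) (nat_lit 76) (nat_lit 13100058729) (nat_lit 76) (nat_lit 4964813237) (nat_lit 4) (nat_lit 4) (nat_lit 5) (nat_lit 5) (nat_lit 5) (nat_lit 4) (nat_lit 290) (nat_lit 227) (nat_lit 203)) (XT.lf (nat_lit 0) (nat_lit 57739331191) (nat_lit 76) (nat_lit 9833288931) (nat_lit 76) (nat_lit 1585219925) (nat_lit 4) (nat_lit 4) (nat_lit 5) (nat_lit 5) (nat_lit 5) (nat_lit 4) (nat_lit 291) (nat_lit 227) (nat_lit 202))))))))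
noncomputable def xc24 : XT := (XT.nd (nat_lit 1404) (nat_lit 76) (nat_lit 0) (XT.nd (nat_lit 702) (nat_lit 0) (nat_lit 0) (XT.nd (nat_lit 312) (nat_lit 0) (nat_lit 0) (XT.nd (nat_lit 156) (nat_lit 0) (nat_lit 0) (XT.nd (nat_lit 78) (nat_lit 76) (nat_lit 0) (XT.lf (nat_lit 0) (nat_lit 1922661519) (nat_lit 152) (nat_lit 4411079106) (nat_lit 76) (nat_lit 68138389922) (nat_lit 3) (nat_lit 5) (nat_lit 5) (nat_lit 5) (nat_lit 4) (nat_lit 4) (nat_lit 292) (nat_lit 227) (nat_lit 201)) (XT.lf (nat_lit 0) (nat_lit 3101323315) (nat_lit 76) (nat_lit 2533109130) (nat_lit 152) (nat_lit 74576955766) (nat_lit 2) (nat_lit 5) (nat_lit 3) (nat_lit 5) (nat_lit 4) (nat_lit 4) (nat_lit 293) (nat_lit 227) (nat_lit 200))) (XT.nd (nat_lit 78) (nat_lit 0) (nat_lit 0) (XT.lf (nat_lit 0) (nat_lit 9677845602) (nat_lit 152) (nat_lit 75184634107) (nat_lit 0) (nat_lit 1545630229) (nat_lit 2) (nat_lit 5) (nat_lit 4)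 (nat_lit 4) (nat_lit 2) (nat_lit 4) (nat_lit 294) (nat_lit 227) (nat_lit 199)) (XT.lf (nat_lit 0) (nat_lit 14024542903) (nat_lit 152) (nat_lit 73263742226) (nat_lit 0) (nat_lit 5813347862) (nat_lit 2) (nat_lit 5) (nat_lit 4) (nat_lit 4) (nat_lit 2) (nat_lit 4) (nat_lit 295) (nat_lit 227) (nat_lit 198)))) (XT.nd (nat_lit 156) (nat_lit 0) (nat_lit 0) (XT.nd (nat_lit 78) (nat_lit 0) (nat_lit 0) (XT.lf (nat_lit 0) (nat_lit 18660733622) (nat_lit 152) (nat_lit 71296457259) (nat_lit 0) (nat_lit 10376409260) (nat_lit 2) (nat_lit 5) (nat_lit 4) (nat_lit 4) (nat_lit 2) (nat_lit 4) (nat_lit 296) (nat_lit 227) (nat_lit 197)) (XT.lf (nat_lit 0) (nat_lit 23613891482) (nat_lit 152) (nat_lit 69271121221) (nat_lit 0) (nat_lit 15261854785) (nat_lit 2) (nat_lit 5) (nat_lit 4) (nat_lit 4) (nat_lit 2) (nat_lit 4) (nat_lit 297) (nat_lit 227) (nat_lit 196))) (XT.nd (nat_lit 78) (nat_lit 0) (nat_lit 0) (XT.lf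 (nat_lit 0) (nat_lit 28913368529) (nat_lit 152) (nat_lit 67175732121) (nat_lit 0) (nat_lit 20498635226) (nat_lit 2) (nat_lit 5) (nat_lit 4) (nat_lit 4) (nat_lit 2) (nat_lit 4) (nat_lit 298) (nat_lit 227) (nat_lit 195)) (XT.nd (nat_lit 78) (nat_lit 0) (nat_lit 0) (XT.lf (nat_lit 0) (nat_lit 34590569072) (nat_lit 152) (nat_lit 64997872837) (nat_lit 0) (nat_lit 26117783356) (nat_lit 2) (nat_lit 5) (nat_lit 4) (nat_lit 4) (nat_lit 2) (nat_lit 4) (nat_lit 299) (nat_lit 227) (nat_lit 194)) (XT.lf (nat_lit 0) (nat_lit 40679135782) (nat_lit 152) (nat_lit 62724637538) (nat_lit 0) (nat_lit 32152597831) (nat_lit 2) (nat_lit 5) (nat_lit 4) (nat_lit 4) (nat_lit 2) (nat_lit 4) (nat_lit 300) (nat_lit 227) (nat_lit 193)))))) (XT.nd (nat_lit 312) (nat_lit 0) (nat_lit 0) (XT.nd (nat_lit 156) (nat_lit 0) (nat_lit 0) (XT.nd (nat_lit 78) (nat_lit 0) (nat_lit 0) (XT.lf (nat_lit 0) (nat_lit 47215149052) (nat_lit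 152) (nat_lit 60342555198) (nat_lit 0) (nat_lit 38638840514) (nat_lit 2) (nat_lit 5) (nat_lit 4) (nat_lit 4) (nat_lit 2) (nat_lit 4) (nat_lit 301) (nat_lit 227) (nat_lit 192)) (XT.lf (nat_lit 0) (nat_lit 54237340814) (nat_lit 152) (nat_lit 57837509775) (nat_lit 0) (nat_lit 45614948399) (nat_lit 2) (nat_lit 5) (nat_lit 4) (nat_lit 4) (nat_lit 2) (nat_lit 4) (nat_lit 302) (nat_lit 227) (nat_lit 191))) (XT.nd (nat_lit 78) (nat_lit 0) (nat_lit 0) (XT.lf (nat_lit 0) (nat_lit 61787324056) (nat_lit 152) (nat_lit 55194656556) (nat_lit 0) (nat_lit 53122261384) (nat_lit 2) (nat_lit 5) (nat_lit 4) (nat_lit 4) (nat_lit 2) (nat_lit 4) (nat_lit 303) (nat_lit 227) (nat_lit 190)) (XT.lf (nat_lit 0) (nat_lit 69909839419) (nat_lit 152) (nat_lit 52398334186) (nat_lit 0) (nat_lit 61205267250) (nat_lit 2) (nat_lit 5) (nat_lit 4) (nat_lit 4) (nat_lit 2) (nat_lit 4) (nat_lit 304) (nat_lit 227) (nat_lit 189))))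 (XT.nd (nat_lit 156) (nat_lit 0) (nat_lit 0) (XT.nd (nat_lit 78) (nat_lit 0) (nat_lit 0) (XT.lf (nat_lit 0) (nat_lit 78653020328) (nat_lit 152) (nat_lit 49431971869) (nat_lit 0) (nat_lit 69911865291) (nat_lit 2) (nat_lit 5) (nat_lit 4) (nat_lit 4) (nat_lit 2) (nat_lit 4) (nat_lit 305) (nat_lit 227) (nat_lit 188)) (XT.lf (nat_lit 0) (nat_lit 88068678224) (nat_lit 152) (nat_lit 46277991159) (nat_lit 0) (nat_lit 79293650163) (nat_lit 2) (nat_lit 5) (nat_lit 4) (nat_lit 4) (nat_lit 2) (nat_lit 4) (nat_lit 306) (nat_lit 227) (nat_lit 187))) (XT.nd (nat_lit 78) (nat_lit 0) (nat_lit 0) (XT.lf (nat_lit 0) (nat_lit 98212609601) (nat_lit 152) (nat_lit 42917701801) (nat_lit 0) (nat_lit 89406217626) (nat_lit 2) (nat_lit 5) (nat_lit 4) (nat_lit 4) (nat_lit 2) (nat_lit 4) (nat_lit 307) (nat_lit 227) (nat_lit 186)) (XT.nd (nat_lit 78) (nat_lit 0) (nat_lit 0) (XT.lf (nat_lit 0) (nat_lit 109144926642)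 (nat_lit 152) (nat_lit 39331190969) (nat_lit 0) (nat_lit 100309494008) (nat_lit 2) (nat_lit 5) (nat_lit 4) (nat_lit 4) (nat_lit 2) (nat_lit 4) (nat_lit 308) (nat_lit 227) (nat_lit 185)) (XT.lf (nat_lit 0) (nat_lit 120930413450) (nat_lit 152) (nat_lit 35497205266) (nat_lit 0) (nat_lit 112068091316) (nat_lit 2) (nat_lit 5) (nat_lit 4) (nat_lit 4) (nat_lit 2) (nat_lit 4) (nat_lit 309) (nat_lit 227) (nat_lit 184))))))) (XT.nd (nat_lit 702) (nat_lit 0) (nat_lit 0) (XT.nd (nat_lit 312) (nat_lit 76) (nat_lit 0) (XT.nd (nat_lit 156) (nat_lit 0) (nat_lit 0) (XT.nd (nat_lit 78) (nat_lit 0) (nat_lit 0) (XT.lf (nat_lit 0) (nat_lit 133638909946) (nat_lit 152) (nat_lit 31393024776) (nat_lit 0) (nat_lit 124751690127) (nat_lit 2) (nat_lit 5) (nat_lit 4) (nat_lit 4) (nat_lit 2) (nat_lit 4) (nat_lit 310) (nat_lit 227) (nat_lit 183)) (XT.lf (nat_lit 0) (nat_lit 147345725738) (nat_lit 152) (nat_lit 26994328430)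 (nat_lit 0) (nat_lit 138435452508) (nat_lit 2) (nat_lit 5) (nat_lit 4) (nat_lit 4) (nat_lit 2) (nat_lit 4) (nat_lit 311) (nat_lit 227) (nat_lit 182))) (XT.nd (nat_lit 78) (nat_lit 0) (nat_lit 0) (XT.lf (nat_lit 0) (nat_lit 162132086403) (nat_lit 152) (nat_lit 22275049880) (nat_lit 0) (nat_lit 153200467421) (nat_lit 2) (nat_lit 5) (nat_lit 4) (nat_lit 4) (nat_lit 2) (nat_lit 4) (nat_lit 312) (nat_lit 227) (nat_lit 181)) (XT.lf (nat_lit 0) (nat_lit 178085614818) (nat_lit 152) (nat_lit 17207223029) (nat_lit 0) (nat_lit 169134231250) (nat_lit 2) (nat_lit 5) (nat_lit 4) (nat_lit 4) (nat_lit 2) (nat_lit 4) (nat_lit 313) (nat_lit 227) (nat_lit 180)))) (XT.nd (nat_lit 156) (nat_lit 76) (nat_lit 0) (XT.nd (nat_lit 78) (nat_lit 0) (nat_lit 0) (XT.lf (nat_lit 0) (nat_lit 195300850410) (nat_lit 152) (nat_lit 11760816311) (nat_lit 0) (nat_lit 186331166301) (nat_lit 2) (nat_lit 5) (nat_lit 4) (nat_lit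 4) (nat_lit 2) (nat_lit 4) (nat_lit 314) (nat_lit 227) (nat_lit 179)) (XT.lf (nat_lit 0) (nat_lit 213879809391) (nat_lit 152) (nat_lit 5903554724) (nat_lit 0) (nat_lit 204893180336) (nat_lit 2) (nat_lit 5) (nat_lit 4) (nat_lit 4) (nat_lit 2) (nat_lit 4) (nat_lit 315) (nat_lit 227) (nat_lit 178))) (XT.nd (nat_lit 78) (nat_lit 0) (nat_lit 0) (XT.lf (nat_lit 0) (nat_lit 412473146) (nat_lit 76) (nat_lit 233526556010) (nat_lit 76) (nat_lit 224524237190) (nat_lit 1) (nat_lit 4) (nat_lit 2) (nat_lit 5) (nat_lit 2) (nat_lit 4) (nat_lit 316) (nat_lit 227) (nat_lit 177)) (XT.nd (nat_lit 78) (nat_lit 0) (nat_lit 0) (XT.lf (nat_lit 0) (nat_lit 7422581186) (nat_lit 76) (nat_lit 248271327519) (nat_lit 76) (nat_lit 239254481139) (nat_lit 1) (nat_lit 4) (nat_lit 2) (nat_lit 5) (nat_lit 2) (nat_lit 4) (nat_lit 317) (nat_lit 227) (nat_lit 176)) (XT.lf (nat_lit 0) (nat_lit 14973112594) (nat_lit 76) (nat_lit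 264205034621) (nat_lit 76) (nat_lit 255174736797) (nat_lit 1) (nat_lit 4) (nat_lit 2) (nat_lit 5) (nat_lit 2) (nat_lit 4) (nat_lit 318) (nat_lit 227) (nat_lit 175)))))) (XT.nd (nat_lit 312) (nat_lit 0) (nat_lit 0) (XT.nd (nat_lit 156) (nat_lit 0) (nat_lit 0) (XT.nd (nat_lit 78) (nat_lit 0) (nat_lit 0) (XT.lf (nat_lit 0) (nat_lit 23108811261) (nat_lit 76) (nat_lit 281422099285) (nat_lit 76) (nat_lit 272379346420) (nat_lit 1) (nat_lit 4) (nat_lit 2) (nat_lit 5) (nat_lit 2) (nat_lit 4) (nat_lit 319) (nat_lit 227) (nat_lit 174)) (XT.lf (nat_lit 0) (nat_lit 31877888734) (nat_lit 76) (nat_lit 300024548560) (nat_lit 76) (nat_lit 290970263249) (nat_lit 1) (nat_lit 4) (nat_lit 2) (nat_lit 5) (nat_lit 2) (nat_lit 4) (nat_lit 320) (nat_lit 227) (nat_lit 173))) (XT.nd (nat_lit 78) (nat_lit 0) (nat_lit 0) (XT.lf (nat_lit 0) (nat_lit 41332309916) (nat_lit 76) (nat_lit 320122619183) (nat_lit 76) (nat_lit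 311057655682) (nat_lit 1) (nat_lit 4) (nat_lit 2) (nat_lit 5) (nat_lit 2) (nat_lit 4) (nat_lit 321) (nat_lit 227) (nat_lit 172)) (XT.lf (nat_lit 0) (nat_lit 51528101009) (nat_lit 76) (nat_lit 341835410832) (nat_lit 76) (nat_lit 332760560117) (nat_lit 1) (nat_lit 4) (nat_lit 2) (nat_lit 5) (nat_lit 2) (nat_lit 4) (nat_lit 322) (nat_lit 227) (nat_lit 171)))) (XT.nd (nat_lit 32916) (nat_lit 0) (nat_lit 1368) (XT.nd (nat_lit 78) (nat_lit 0) (nat_lit 0) (XT.lf (nat_lit 0) (nat_lit 62525681513) (nat_lit 76) (nat_lit 365291591901) (nat_lit 76) (nat_lit 356207586360) (nat_lit 1) (nat_lit 4) (nat_lit 2) (nat_lit 5) (nat_lit 2) (nat_lit 4) (nat_lit 323) (nat_lit 227) (nat_lit 170)) (XT.lf (nat_lit 0) (nat_lit 74390222277) (nat_lit 76) (nat_lit 390630161983) (nat_lit 76) (nat_lit 381537679749) (nat_lit 1) (nat_lit 4) (nat_lit 2) (nat_lit 5) (nat_lit 2) (nat_lit 4) (nat_lit 324) (nat_lit 227) (nat_lit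 169))) (XT.nd (nat_lit 78) (nat_lit 304) (nat_lit 0) (XT.lf (nat_lit 0) (nat_lit 2371729597) (nat_lit 228) (nat_lit 1278110809) (nat_lit 0) (nat_lit 2371729597) (nat_lit 23) (nat_lit 5) (nat_lit 26) (nat_lit 4) (nat_lit 23) (nat_lit 4) (nat_lit 264) (nat_lit 228) (nat_lit 228)) (XT.nd (nat_lit 78) (nat_lit 152) (nat_lit 0) (XT.lf (nat_lit 0) (nat_lit 8222143217) (nat_lit 152) (nat_lit 2707093076) (nat_lit 152) (nat_lit 1720949834) (nat_lit 21) (nat_lit 4) (nat_lit 23) (nat_lit 5) (nat_lit 23) (nat_lit 4) (nat_lit 265) (nat_lit 228) (nat_lit 227)) (XT.lf (nat_lit 0) (nat_lit 4000869824) (nat_lit 152) (nat_lit 7118364017) (nat_lit 0) (nat_lit 2192070933) (nat_lit 19) (nat_lit 5) (nat_lit 21) (nat_lit 4) (nat_lit 19) (nat_lit 4) (nat_lit 266) (nat_lit 228) (nat_lit 226))))))))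
noncomputable def xc25 : XT := (XT.nd (nat_lit 1404) (nat_lit 228) (nat_lit 0) (XT.nd (nat_lit 702) (nat_lit 304) (nat_lit 0) (XT.nd (nat_lit 312) (nat_lit 304) (nat_lit 0) (XT.nd (nat_lit 156) (nat_lit 228) (nat_lit 0) (XT.nd (nat_lit 78) (nat_lit 76) (nat_lit 0) (XT.lf (nat_lit 0) (nat_lit 3287955025) (nat_lit 152) (nat_lit 6679076302) (nat_lit 152) (nat_lit 4065078473) (nat_lit 17) (nat_lit 4) (nat_lit 19) (nat_lit 5) (nat_lit 19) (nat_lit 4) (nat_lit 267) (nat_lit 228) (nat_lit 225)) (XT.lf (nat_lit 0) (nat_lit 1356112341) (nat_lit 228) (nat_lit 579522099) (nat_lit 76) (nat_lit 12883811965) (nat_lit 16) (nat_lit 5) (nat_lit 19) (nat_lit 5) (nat_lit 17) (nat_lit 4) (nat_lit 268) (nat_lit 228) (nat_lit 224))) (XT.nd (nat_lit 78) (nat_lit 152) (nat_lit 0) (XT.lf (nat_lit 0) (nat_lit 6984617758) (nat_lit 152) (nat_lit 5558880356) (nat_lit 0) (nat_lit 3127588514) (nat_lit 15) (nat_lit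 5) (nat_lit 17) (nat_lit 4) (nat_lit 15) (nat_lit 4) (nat_lit 269) (nat_lit 228) (nat_lit 223)) (XT.lf (nat_lit 0) (nat_lit 4728011224) (nat_lit 152) (nat_lit 8168691783) (nat_lit 152) (nat_lit 3702907419) (nat_lit 13) (nat_lit 4) (nat_lit 15) (nat_lit 5) (nat_lit 15) (nat_lit 4) (nat_lit 270) (nat_lit 228) (nat_lit 222)))) (XT.nd (nat_lit 156) (nat_lit 152) (nat_lit 0) (XT.nd (nat_lit 78) (nat_lit 76) (nat_lit 0) (XT.lf (nat_lit 0) (nat_lit 1449622210) (nat_lit 228) (nat_lit 2057720981) (nat_lit 76) (nat_lit 14102928363) (nat_lit 12) (nat_lit 5) (nat_lit 15) (nat_lit 5) (nat_lit 13) (nat_lit 4) (nat_lit 271) (nat_lit 228) (nat_lit 221)) (XT.lf (nat_lit 0) (nat_lit 6786231469) (nat_lit 152) (nat_lit 10418553390) (nat_lit 0) (nat_lit 1499225840) (nat_lit 11) (nat_lit 5) (nat_lit 13) (nat_lit 4) (nat_lit 11) (nat_lit 4) (nat_lit 272) (nat_lit 228) (nat_lit 220))) (XT.nd (nat_lit 78) (nat_lit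 152) (nat_lit 0) (XT.lf (nat_lit 0) (nat_lit 12400910481) (nat_lit 152) (nat_lit 838429669) (nat_lit 0) (nat_lit 6653667289) (nat_lit 11) (nat_lit 5) (nat_lit 13) (nat_lit 4) (nat_lit 11) (nat_lit 4) (nat_lit 273) (nat_lit 228) (nat_lit 219)) (XT.nd (nat_lit 78) (nat_lit 76) (nat_lit 0) (XT.lf (nat_lit 0) (nat_lit 9416131273) (nat_lit 76) (nat_lit 8969319755) (nat_lit 76) (nat_lit 2795930671) (nat_lit 10) (nat_lit 4) (nat_lit 11) (nat_lit 5) (nat_lit 11) (nat_lit 4) (nat_lit 274) (nat_lit 228) (nat_lit 218)) (XT.lf (nat_lit 0) (nat_lit 1998701214) (nat_lit 152) (nat_lit 2470631124) (nat_lit 76) (nat_lit 18112193688) (nat_lit 9) (nat_lit 5) (nat_lit 11) (nat_lit 5) (nat_lit 10) (nat_lit 4) (nat_lit 275) (nat_lit 228) (nat_lit 217)))))) (XT.nd (nat_lit 312) (nat_lit 152) (nat_lit 0) (XT.nd (nat_lit 156) (nat_lit 76) (nat_lit 0) (XT.nd (nat_lit 78) (nat_lit 0) (nat_lit 0) (XT.lf (nat_lit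 0) (nat_lit 6999222334) (nat_lit 152) (nat_lit 16700332232) (nat_lit 0) (nat_lit 396060401) (nat_lit 8) (nat_lit 5) (nat_lit 10) (nat_lit 4) (nat_lit 8) (nat_lit 4) (nat_lit 276) (nat_lit 228) (nat_lit 216)) (XT.lf (nat_lit 0) (nat_lit 12323339848) (nat_lit 152) (nat_lit 8013535772) (nat_lit 0) (nat_lit 5397998535) (nat_lit 8) (nat_lit 5) (nat_lit 10) (nat_lit 4) (nat_lit 8) (nat_lit 4) (nat_lit 277) (nat_lit 228) (nat_lit 215))) (XT.nd (nat_lit 78) (nat_lit 0) (nat_lit 0) (XT.lf (nat_lit 0) (nat_lit 1081059594) (nat_lit 76) (nat_lit 16828141904) (nat_lit 76) (nat_lit 9604486351) (nat_lit 7) (nat_lit 4) (nat_lit 8) (nat_lit 5) (nat_lit 8) (nat_lit 4) (nat_lit 278) (nat_lit 228) (nat_lit 214)) (XT.lf (nat_lit 0) (nat_lit 10881620567) (nat_lit 76) (nat_lit 13027445584) (nat_lit 76) (nat_lit 5527573142) (nat_lit 7) (nat_lit 4) (nat_lit 8) (nat_lit 5) (nat_lit 8) (nat_lit 4) (nat_lit 279)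 (nat_lit 228) (nat_lit 213)))) (XT.nd (nat_lit 156) (nat_lit 76) (nat_lit 0) (XT.nd (nat_lit 78) (nat_lit 76) (nat_lit 0) (XT.lf (nat_lit 0) (nat_lit 21181260861) (nat_lit 76) (nat_lit 9047977123) (nat_lit 76) (nat_lit 1292348302) (nat_lit 7) (nat_lit 4) (nat_lit 8) (nat_lit 5) (nat_lit 8) (nat_lit 4) (nat_lit 280) (nat_lit 228) (nat_lit 212)) (XT.lf (nat_lit 0) (nat_lit 3026225128) (nat_lit 152) (nat_lit 1788678769) (nat_lit 76) (nat_lit 28963539666) (nat_lit 6) (nat_lit 5) (nat_lit 8) (nat_lit 5) (nat_lit 7) (nat_lit 4) (nat_lit 281) (nat_lit 228) (nat_lit 211))) (XT.nd (nat_lit 78) (nat_lit 0) (nat_lit 0) (XT.lf (nat_lit 0) (nat_lit 7413526620) (nat_lit 76) (nat_lit 208540099) (nat_lit 152) (nat_lit 28594013568) (nat_lit 5) (nat_lit 5) (nat_lit 6) (nat_lit 5) (nat_lit 7) (nat_lit 4) (nat_lit 282) (nat_lit 228) (nat_lit 210)) (XT.nd (nat_lit 78) (nat_lit 0) (nat_lit 0) (XT.lf (nat_lit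 0) (nat_lit 12557318991) (nat_lit 152) (nat_lit 21749671369) (nat_lit 0) (nat_lit 4543282977) (nat_lit 5) (nat_lit 5) (nat_lit 7) (nat_lit 4) (nat_lit 5) (nat_lit 4) (nat_lit 283) (nat_lit 228) (nat_lit 209)) (XT.lf (nat_lit 0) (nat_lit 17766518116) (nat_lit 152) (nat_lit 14361404753) (nat_lit 0) (nat_lit 9573445366) (nat_lit 5) (nat_lit 5) (nat_lit 7) (nat_lit 4) (nat_lit 5) (nat_lit 4) (nat_lit 284) (nat_lit 228) (nat_lit 208))))))) (XT.nd (nat_lit 702) (nat_lit 76) (nat_lit 0) (XT.nd (nat_lit 312) (nat_lit 76) (nat_lit 0) (XT.nd (nat_lit 156) (nat_lit 0) (nat_lit 0) (XT.nd (nat_lit 78) (nat_lit 76) (nat_lit 0) (XT.lf (nat_lit 0) (nat_lit 23277277529) (nat_lit 152) (nat_lit 6590715603) (nat_lit 0) (nat_lit 14918430022) (nat_lit 5) (nat_lit 5) (nat_lit 7) (nat_lit 4) (nat_lit 5) (nat_lit 4) (nat_lit 285) (nat_lit 228) (nat_lit 207)) (XT.lf (nat_lit 0) (nat_lit 1661627052) (nat_lit 76)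 (nat_lit 27486569183) (nat_lit 76) (nat_lit 18974226532) (nat_lit 4) (nat_lit 4) (nat_lit 5) (nat_lit 5) (nat_lit 5) (nat_lit 4) (nat_lit 286) (nat_lit 228) (nat_lit 206))) (XT.nd (nat_lit 78) (nat_lit 0) (nat_lit 0) (XT.lf (nat_lit 0) (nat_lit 10624720923) (nat_lit 76) (nat_lit 24877243911) (nat_lit 76) (nat_lit 16222776126) (nat_lit 4) (nat_lit 4) (nat_lit 5) (nat_lit 5) (nat_lit 5) (nat_lit 4) (nat_lit 287) (nat_lit 228) (nat_lit 205)) (XT.lf (nat_lit 0) (nat_lit 20133761817) (nat_lit 76) (nat_lit 22136171607) (nat_lit 76) (nat_lit 13350106476) (nat_lit 4) (nat_lit 4) (nat_lit 5) (nat_lit 5) (nat_lit 5) (nat_lit 4) (nat_lit 288) (nat_lit 228) (nat_lit 204)))) (XT.nd (nat_lit 156) (nat_lit 76) (nat_lit 0) (XT.nd (nat_lit 78) (nat_lit 0) (nat_lit 0) (XT.lf (nat_lit 0) (nat_lit 30245099607) (nat_lit 76) (nat_lit 19247108879) (nat_lit 76) (nat_lit 10339194354) (nat_lit 4) (nat_lit 4) (nat_lit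 5) (nat_lit 5) (nat_lit 5) (nat_lit 4) (nat_lit 289) (nat_lit 228) (nat_lit 203)) (XT.lf (nat_lit 0) (nat_lit 41018653331) (nat_lit 76) (nat_lit 16192935356) (nat_lit 76) (nat_lit 7172197317) (nat_lit 4) (nat_lit 4) (nat_lit 5) (nat_lit 5) (nat_lit 5) (nat_lit 4) (nat_lit 290) (nat_lit 228) (nat_lit 202))) (XT.nd (nat_lit 78) (nat_lit 76) (nat_lit 0) (XT.lf (nat_lit 0) (nat_lit 52518266270) (nat_lit 76) (nat_lit 12955552230) (nat_lit 76) (nat_lit 3830347975) (nat_lit 4) (nat_lit 4) (nat_lit 5) (nat_lit 5) (nat_lit 5) (nat_lit 4) (nat_lit 291) (nat_lit 228) (nat_lit 201)) (XT.nd (nat_lit 78) (nat_lit 76) (nat_lit 0) (XT.lf (nat_lit 0) (nat_lit 64812084278) (nat_lit 76) (nat_lit 9515775011) (nat_lit 76) (nat_lit 293842778) (nat_lit 4) (nat_lit 4) (nat_lit 5) (nat_lit 5) (nat_lit 5) (nat_lit 4) (nat_lit 292) (nat_lit 228) (nat_lit 200)) (XT.lf (nat_lit 0) (nat_lit 3347588935) (nat_lit 152)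 (nat_lit 2448937859) (nat_lit 76) (nat_lit 74568677638) (nat_lit 3) (nat_lit 5) (nat_lit 5) (nat_lit 5) (nat_lit 4) (nat_lit 4) (nat_lit 293) (nat_lit 228) (nat_lit 199)))))) (XT.nd (nat_lit 390) (nat_lit 0) (nat_lit 0) (XT.nd (nat_lit 156) (nat_lit 0) (nat_lit 0) (XT.nd (nat_lit 78) (nat_lit 0) (nat_lit 0) (XT.lf (nat_lit 0) (nat_lit 5563848479) (nat_lit 76) (nat_lit 1732869718) (nat_lit 152) (nat_lit 79269948186) (nat_lit 2) (nat_lit 5) (nat_lit 3) (nat_lit 5) (nat_lit 4) (nat_lit 4) (nat_lit 294) (nat_lit 228) (nat_lit 198)) (XT.lf (nat_lit 0) (nat_lit 11588359408) (nat_lit 152) (nat_lit 79106447160) (nat_lit 0) (nat_lit 2568159776) (nat_lit 2) (nat_lit 5) (nat_lit 4) (nat_lit 4) (nat_lit 2) (nat_lit 4) (nat_lit 295) (nat_lit 228) (nat_lit 197))) (XT.nd (nat_lit 78) (nat_lit 0) (nat_lit 0) (XT.lf (nat_lit 0) (nat_lit 16198623148) (nat_lit 152) (nat_lit 77186917831) (nat_lit 0) (nat_lit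 7110711181) (nat_lit 2) (nat_lit 5) (nat_lit 4) (nat_lit 4) (nat_lit 2) (nat_lit 4) (nat_lit 296) (nat_lit 228) (nat_lit 196)) (XT.nd (nat_lit 78) (nat_lit 0) (nat_lit 0) (XT.lf (nat_lit 0) (nat_lit 21127774546) (nat_lit 152) (nat_lit 75205799976) (nat_lit 0) (nat_lit 11977165972) (nat_lit 2) (nat_lit 5) (nat_lit 4) (nat_lit 4) (nat_lit 2) (nat_lit 4) (nat_lit 297) (nat_lit 228) (nat_lit 195)) (XT.lf (nat_lit 0) (nat_lit 26405023387) (nat_lit 152) (nat_lit 73151353637) (nat_lit 0) (nat_lit 17196362401) (nat_lit 2) (nat_lit 5) (nat_lit 4) (nat_lit 4) (nat_lit 2) (nat_lit 4) (nat_lit 298) (nat_lit 228) (nat_lit 194))))) (XT.nd (nat_lit 156) (nat_lit 0) (nat_lit 0) (XT.nd (nat_lit 78) (nat_lit 0) (nat_lit 0) (XT.lf (nat_lit 0) (nat_lit 32061642259) (nat_lit 152) (nat_lit 71011404318) (nat_lit 0) (nat_lit 22799229038) (nat_lit 2) (nat_lit 5) (nat_lit 4) (nat_lit 4) (nat_lit 2) (nat_lit 4)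 (nat_lit 299) (nat_lit 228) (nat_lit 193)) (XT.lf (nat_lit 0) (nat_lit 38131151864) (nat_lit 152) (nat_lit 68773270838) (nat_lit 0) (nat_lit 28818968056) (nat_lit 2) (nat_lit 5) (nat_lit 4) (nat_lit 4) (nat_lit 2) (nat_lit 4) (nat_lit 300) (nat_lit 228) (nat_lit 192))) (XT.nd (nat_lit 78) (nat_lit 0) (nat_lit 0) (XT.lf (nat_lit 0) (nat_lit 44649519668) (nat_lit 152) (nat_lit 66423690183) (nat_lit 0) (nat_lit 35291251983) (nat_lit 2) (nat_lit 5) (nat_lit 4) (nat_lit 4) (nat_lit 2) (nat_lit 4) (nat_lit 301) (nat_lit 228) (nat_lit 191)) (XT.nd (nat_lit 78) (nat_lit 0) (nat_lit 0) (XT.lf (nat_lit 0) (nat_lit 51655373035) (nat_lit 152) (nat_lit 63948738913) (nat_lit 0) (nat_lit 42254435093) (nat_lit 2) (nat_lit 5) (nat_lit 4) (nat_lit 4) (nat_lit 2) (nat_lit 4) (nat_lit 302) (nat_lit 228) (nat_lit 190)) (XT.lf (nat_lit 0) (nat_lit 59190228134) (nat_lit 152) (nat_lit 61333750649) (nat_lit 0)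 (nat_lit 49749780695) (nat_lit 2) (nat_lit 5) (nat_lit 4) (nat_lit 4) (nat_lit 2) (nat_lit 4) (nat_lit 303) (nat_lit 228) (nat_lit 189))))))))
noncomputable def xc26 : XT := (XT.nd (nat_lit 1404) (nat_lit 0) (nat_lit 0) (XT.nd (nat_lit 702) (nat_lit 76) (nat_lit 0) (XT.nd (nat_lit 312) (nat_lit 0) (nat_lit 0) (XT.nd (nat_lit 156) (nat_lit 0) (nat_lit 0) (XT.nd (nat_lit 78) (nat_lit 0) (nat_lit 0) (XT.lf (nat_lit 0) (nat_lit 67298735957) (nat_lit 152) (nat_lit 58563229165) (nat_lit 0) (nat_lit 57821705650) (nat_lit 2) (nat_lit 5) (nat_lit 4) (nat_lit 4) (nat_lit 2) (nat_lit 4) (nat_lit 304) (nat_lit 228) (nat_lit 188)) (XT.lf (nat_lit 0) (nat_lit 76028946921) (nat_lit 152) (nat_lit 55620756555) (nat_lit 0) (nat_lit 66518043589) (nat_lit 2) (nat_lit 5) (nat_lit 4) (nat_lit 4) (nat_lit 2) (nat_lit 4) (nat_lit 305) (nat_lit 228) (nat_lit 187))) (XT.nd (nat_lit 78) (nat_lit 0) (nat_lit 0)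 (XT.lf (nat_lit 0) (nat_lit 85432595610) (nat_lit 152) (nat_lit 52488895946) (nat_lit 0) (nat_lit 75890328366) (nat_lit 2) (nat_lit 5) (nat_lit 4) (nat_lit 4) (nat_lit 2) (nat_lit 4) (nat_lit 306) (nat_lit 228) (nat_lit 186)) (XT.lf (nat_lit 0) (nat_lit 95565407349) (nat_lit 152) (nat_lit 49149088162) (nat_lit 0) (nat_lit 85994099445) (nat_lit 2) (nat_lit 5) (nat_lit 4) (nat_lit 4) (nat_lit 2) (nat_lit 4) (nat_lit 307) (nat_lit 228) (nat_lit 185)))) (XT.nd (nat_lit 156) (nat_lit 0) (nat_lit 0) (XT.nd (nat_lit 78) (nat_lit 0) (nat_lit 0) (XT.lf (nat_lit 0) (nat_lit 106487428431) (nat_lit 152) (nat_lit 45581541751) (nat_lit 0) (nat_lit 96889231027) (nat_lit 2) (nat_lit 5) (nat_lit 4) (nat_lit 4) (nat_lit 2) (nat_lit 4) (nat_lit 308) (nat_lit 228) (nat_lit 184)) (XT.lf (nat_lit 0) (nat_lit 118263381942) (nat_lit 152) (nat_lit 41765115697) (nat_lit 0) (nat_lit 108640286853) (nat_lit 2) (nat_lit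 5) (nat_lit 4) (nat_lit 4) (nat_lit 2) (nat_lit 4) (nat_lit 309) (nat_lit 228) (nat_lit 183))) (XT.nd (nat_lit 78) (nat_lit 0) (nat_lit 0) (XT.lf (nat_lit 0) (nat_lit 130963051311) (nat_lit 152) (nat_lit 37677194142) (nat_lit 0) (nat_lit 121316902811) (nat_lit 2) (nat_lit 5) (nat_lit 4) (nat_lit 4) (nat_lit 2) (nat_lit 4) (nat_lit 310) (nat_lit 228) (nat_lit 182)) (XT.nd (nat_lit 78) (nat_lit 0) (nat_lit 0) (XT.lf (nat_lit 0) (nat_lit 144661693839) (nat_lit 152) (nat_lit 33293552364) (nat_lit 0) (nat_lit 134994199586) (nat_lit 2) (nat_lit 5) (nat_lit 4) (nat_lit 4) (nat_lit 2) (nat_lit 4) (nat_lit 311) (nat_lit 228) (nat_lit 181)) (XT.lf (nat_lit 0) (nat_lit 159440486666) (nat_lit 152) (nat_lit 28588213229) (nat_lit 0) (nat_lit 149753227828) (nat_lit 2) (nat_lit 5) (nat_lit 4) (nat_lit 4) (nat_lit 2) (nat_lit 4) (nat_lit 312) (nat_lit 228) (nat_lit 180)))))) (XT.nd (nat_lit 312) (nat_lit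 76) (nat_lit 0) (XT.nd (nat_lit 156) (nat_lit 0) (nat_lit 0) (XT.nd (nat_lit 78) (nat_lit 0) (nat_lit 0) (XT.lf (nat_lit 0) (nat_lit 175387007823) (nat_lit 152) (nat_lit 23533293244) (nat_lit 0) (nat_lit 165681448444) (nat_lit 2) (nat_lit 5) (nat_lit 4) (nat_lit 4) (nat_lit 2) (nat_lit 4) (nat_lit 313) (nat_lit 228) (nat_lit 179)) (XT.lf (nat_lit 0) (nat_lit 192595755214) (nat_lit 152) (nat_lit 18098837328) (nat_lit 0) (nat_lit 182873250889) (nat_lit 2) (nat_lit 5) (nat_lit 4) (nat_lit 4) (nat_lit 2) (nat_lit 4) (nat_lit 314) (nat_lit 228) (nat_lit 178))) (XT.nd (nat_lit 78) (nat_lit 0) (nat_lit 0) (XT.lf (nat_lit 0) (nat_lit 211168706601) (nat_lit 152) (nat_lit 12252641298) (nat_lit 0) (nat_lit 201430512511) (nat_lit 2) (nat_lit 5) (nat_lit 4) (nat_lit 4) (nat_lit 2) (nat_lit 4) (nat_lit 315) (nat_lit 228) (nat_lit 177)) (XT.lf (nat_lit 0) (nat_lit 231215923919) (nat_lit 152) (nat_lit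 5960061030) (nat_lit 0) (nat_lit 221463202268) (nat_lit 2) (nat_lit 5) (nat_lit 4) (nat_lit 4) (nat_lit 2) (nat_lit 4) (nat_lit 316) (nat_lit 228) (nat_lit 176)))) (XT.nd (nat_lit 156) (nat_lit 0) (nat_lit 0) (XT.nd (nat_lit 78) (nat_lit 0) (nat_lit 0) (XT.lf (nat_lit 0) (nat_lit 843179861) (nat_lit 76) (nat_lit 252026190030) (nat_lit 76) (nat_lit 242260016935) (nat_lit 1) (nat_lit 4) (nat_lit 2) (nat_lit 5) (nat_lit 2) (nat_lit 4) (nat_lit 317) (nat_lit 228) (nat_lit 175)) (XT.lf (nat_lit 0) (nat_lit 8384636628) (nat_lit 76) (nat_lit 267964061071) (nat_lit 76) (nat_lit 258185432935) (nat_lit 1) (nat_lit 4) (nat_lit 2) (nat_lit 5) (nat_lit 2) (nat_lit 4) (nat_lit 318) (nat_lit 228) (nat_lit 174))) (XT.nd (nat_lit 78) (nat_lit 0) (nat_lit 0) (XT.lf (nat_lit 0) (nat_lit 16511932849) (nat_lit 76) (nat_lit 285184981234) (nat_lit 76) (nat_lit 275394820653) (nat_lit 1) (nat_lit 4) (nat_lit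 2) (nat_lit 5) (nat_lit 2) (nat_lit 4) (nat_lit 319) (nat_lit 228) (nat_lit 173)) (XT.nd (nat_lit 78) (nat_lit 0) (nat_lit 0) (XT.lf (nat_lit 0) (nat_lit 25273230280) (nat_lit 76) (nat_lit 303791000416) (nat_lit 76) (nat_lit 293990161644) (nat_lit 1) (nat_lit 4) (nat_lit 2) (nat_lit 5) (nat_lit 2) (nat_lit 4) (nat_lit 320) (nat_lit 228) (nat_lit 172)) (XT.lf (nat_lit 0) (nat_lit 34720447720) (nat_lit 76) (nat_lit 323892376508) (nat_lit 76) (nat_lit 314081650523) (nat_lit 1) (nat_lit 4) (nat_lit 2) (nat_lit 5) (nat_lit 2) (nat_lit 4) (nat_lit 321) (nat_lit 228) (nat_lit 171))))))) (XT.nd (nat_lit 33306) (nat_lit 0) (nat_lit 532) (XT.nd (nat_lit 32916) (nat_lit 0) (nat_lit 1216) (XT.nd (nat_lit 156) (nat_lit 0) (nat_lit 0) (XT.nd (nat_lit 78) (nat_lit 0) (nat_lit 0) (XT.lf (nat_lit 0) (nat_lit 44909568680) (nat_lit 76) (nat_lit 345608228776) (nat_lit 76) (nat_lit 335788347964) (nat_lit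 1) (nat_lit 4) (nat_lit 2) (nat_lit 5) (nat_lit 2) (nat_lit 4) (nat_lit 322) (nat_lit 228) (nat_lit 170)) (XT.lf (nat_lit 0) (nat_lit 55900973135) (nat_lit 76) (nat_lit 369067243753) (nat_lit 76) (nat_lit 359238886249) (nat_lit 1) (nat_lit 4) (nat_lit 2) (nat_lit 5) (nat_lit 2) (nat_lit 4) (nat_lit 323) (nat_lit 228) (nat_lit 169))) (XT.nd (nat_lit 32682) (nat_lit 0) (nat_lit 2052) (XT.lf (nat_lit 0) (nat_lit 67759795336) (nat_lit 76) (nat_lit 394408437822) (nat_lit 76) (nat_lit 384572231529) (nat_lit 1) (nat_lit 4) (nat_lit 2) (nat_lit 5) (nat_lit 2) (nat_lit 4) (nat_lit 324) (nat_lit 228) (nat_lit 168)) (XT.lf (nat_lit 0) (nat_lit 2637788217) (nat_lit 228) (nat_lit 210573557) (nat_lit 0) (nat_lit 2637788217) (nat_lit 28) (nat_lit 5) (nat_lit 31) (nat_lit 4) (nat_lit 28) (nat_lit 4) (nat_lit 262) (nat_lit 229) (nat_lit 229)))) (XT.nd (nat_lit 156) (nat_lit 456) (nat_lit 0) (XT.nd (nat_lit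 78) (nat_lit 228) (nat_lit 0) (XT.lf (nat_lit 0) (nat_lit 10188429521) (nat_lit 152) (nat_lit 1209977765) (nat_lit 152) (nat_lit 91691329) (nat_lit 26) (nat_lit 4) (nat_lit 28) (nat_lit 5) (nat_lit 28) (nat_lit 4) (nat_lit 263) (nat_lit 229) (nat_lit 228)) (XT.lf (nat_lit 0) (nat_lit 5637785938) (nat_lit 228) (nat_lit 2827606495) (nat_lit 0) (nat_lit 3586607995) (nat_lit 23) (nat_lit 5) (nat_lit 26) (nat_lit 4) (nat_lit 23) (nat_lit 4) (nat_lit 264) (nat_lit 229) (nat_lit 227))) (XT.nd (nat_lit 78) (nat_lit 304) (nat_lit 0) (XT.lf (nat_lit 0) (nat_lit 7682194310) (nat_lit 152) (nat_lit 3974875685) (nat_lit 152) (nat_lit 1010602148) (nat_lit 21) (nat_lit 4) (nat_lit 23) (nat_lit 5) (nat_lit 23) (nat_lit 4) (nat_lit 265) (nat_lit 229) (nat_lit 226)) (XT.nd (nat_lit 78) (nat_lit 152) (nat_lit 0) (XT.lf (nat_lit 0) (nat_lit 4501235147) (nat_lit 152) (nat_lit 7963710287) (nat_lit 0) (nat_lit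 872918555) (nat_lit 19) (nat_lit 5) (nat_lit 21) (nat_lit 4) (nat_lit 19) (nat_lit 4) (nat_lit 266) (nat_lit 229) (nat_lit 225)) (XT.lf (nat_lit 0) (nat_lit 2165579257) (nat_lit 152) (nat_lit 8137706105) (nat_lit 152) (nat_lit 3763834942) (nat_lit 17) (nat_lit 4) (nat_lit 19) (nat_lit 5) (nat_lit 19) (nat_lit 4) (nat_lit 267) (nat_lit 229) (nat_lit 224)))))) (XT.nd (nat_lit 390) (nat_lit 228) (nat_lit 0) (XT.nd (nat_lit 156) (nat_lit 304) (nat_lit 0) (XT.nd (nat_lit 78) (nat_lit 76) (nat_lit 0) (XT.lf (nat_lit 0) (nat_lit 1505879604) (nat_lit 228) (nat_lit 1977146280) (nat_lit 76) (nat_lit 11378504282) (nat_lit 16) (nat_lit 5) (nat_lit 19) (nat_lit 5) (nat_lit 17) (nat_lit 4) (nat_lit 268) (nat_lit 229) (nat_lit 223)) (XT.lf (nat_lit 0) (nat_lit 6951055941) (nat_lit 152) (nat_lit 7252227834) (nat_lit 0) (nat_lit 1519253707) (nat_lit 15) (nat_lit 5) (nat_lit 17) (nat_lit 4) (nat_lit 15)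 (nat_lit 4) (nat_lit 269) (nat_lit 229) (nat_lit 222))) (XT.nd (nat_lit 78) (nat_lit 152) (nat_lit 0) (XT.lf (nat_lit 0) (nat_lit 2757876277) (nat_lit 152) (nat_lit 9948340687) (nat_lit 152) (nat_lit 3952876304) (nat_lit 13) (nat_lit 4) (nat_lit 15) (nat_lit 5) (nat_lit 15) (nat_lit 4) (nat_lit 270) (nat_lit 229) (nat_lit 221)) (XT.nd (nat_lit 78) (nat_lit 76) (nat_lit 0) (XT.lf (nat_lit 0) (nat_lit 1085508714) (nat_lit 228) (nat_lit 4292080915) (nat_lit 76) (nat_lit 12298630984) (nat_lit 12) (nat_lit 5) (nat_lit 15) (nat_lit 5) (nat_lit 13) (nat_lit 4) (nat_lit 271) (nat_lit 229) (nat_lit 220)) (XT.lf (nat_lit 0) (nat_lit 5803032051) (nat_lit 76) (nat_lit 442653447) (nat_lit 152) (nat_lit 12533247573) (nat_lit 11) (nat_lit 5) (nat_lit 12) (nat_lit 5) (nat_lit 13) (nat_lit 4) (nat_lit 272) (nat_lit 229) (nat_lit 219))))) (XT.nd (nat_lit 156) (nat_lit 152) (nat_lit 0) (XT.nd (nat_lit 78)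 (nat_lit 76) (nat_lit 0) (XT.lf (nat_lit 0) (nat_lit 11744643361) (nat_lit 152) (nat_lit 3577975701) (nat_lit 0) (nat_lit 4651237259) (nat_lit 11) (nat_lit 5) (nat_lit 13) (nat_lit 4) (nat_lit 11) (nat_lit 4) (nat_lit 273) (nat_lit 229) (nat_lit 218)) (XT.lf (nat_lit 0) (nat_lit 6405112482) (nat_lit 76) (nat_lit 11176310903) (nat_lit 76) (nat_lit 3688325270) (nat_lit 10) (nat_lit 4) (nat_lit 11) (nat_lit 5) (nat_lit 11) (nat_lit 4) (nat_lit 274) (nat_lit 229) (nat_lit 217))) (XT.nd (nat_lit 78) (nat_lit 76) (nat_lit 0) (XT.lf (nat_lit 0) (nat_lit 1037277960) (nat_lit 152) (nat_lit 5726917228) (nat_lit 76) (nat_lit 15911388657) (nat_lit 9) (nat_lit 5) (nat_lit 11) (nat_lit 5) (nat_lit 10) (nat_lit 4) (nat_lit 275) (nat_lit 229) (nat_lit 216)) (XT.nd (nat_lit 78) (nat_lit 0) (nat_lit 0) (XT.lf (nat_lit 0) (nat_lit 3874627643) (nat_lit 76) (nat_lit 2011349449) (nat_lit 152) (nat_lit 18311392981)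 (nat_lit 8) (nat_lit 5) (nat_lit 9) (nat_lit 5) (nat_lit 10) (nat_lit 4) (nat_lit 276) (nat_lit 229) (nat_lit 215)) (XT.lf (nat_lit 0) (nat_lit 11091641981) (nat_lit 152) (nat_lit 11759228489) (nat_lit 0) (nat_lit 2991779743) (nat_lit 8) (nat_lit 5) (nat_lit 10) (nat_lit 4) (nat_lit 8) (nat_lit 4) (nat_lit 277) (nat_lit 229) (nat_lit 214))))))))
noncomputable def xc27 : XT := (XT.nd (nat_lit 1404) (nat_lit 0) (nat_lit 0) (XT.nd (nat_lit 702) (nat_lit 228) (nat_lit 0) (XT.nd (nat_lit 312) (nat_lit 76) (nat_lit 0) (XT.nd (nat_lit 156) (nat_lit 76) (nat_lit 0) (XT.nd (nat_lit 78) (nat_lit 76) (nat_lit 0) (XT.lf (nat_lit 0) (nat_lit 16580023573) (nat_lit 152) (nat_lit 2842460929) (nat_lit 0) (nat_lit 8203944446) (nat_lit 8) (nat_lit 5) (nat_lit 10) (nat_lit 4) (nat_lit 8) (nat_lit 4) (nat_lit 278) (nat_lit 229) (nat_lit 213)) (XT.lf (nat_lit 0) (nat_lit 6727112776) (nat_lit 76) (nat_lit 15730159117)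 (nat_lit 76) (nat_lit 7098323611) (nat_lit 7) (nat_lit 4) (nat_lit 8) (nat_lit 5) (nat_lit 8) (nat_lit 4) (nat_lit 279) (nat_lit 229) (nat_lit 212))) (XT.nd (nat_lit 78) (nat_lit 76) (nat_lit 0) (XT.lf (nat_lit 0) (nat_lit 16899898744) (nat_lit 76) (nat_lit 11806461472) (nat_lit 76) (nat_lit 2937814505) (nat_lit 7) (nat_lit 4) (nat_lit 8) (nat_lit 5) (nat_lit 8) (nat_lit 4) (nat_lit 280) (nat_lit 229) (nat_lit 211)) (XT.lf (nat_lit 0) (nat_lit 1366457116) (nat_lit 152) (nat_lit 6286679750) (nat_lit 76) (nat_lit 26252596827) (nat_lit 6) (nat_lit 5) (nat_lit 8) (nat_lit 5) (nat_lit 7) (nat_lit 4) (nat_lit 281) (nat_lit 229) (nat_lit 210)))) (XT.nd (nat_lit 156) (nat_lit 0) (nat_lit 0) (XT.nd (nat_lit 78) (nat_lit 0) (nat_lit 0) (XT.lf (nat_lit 0) (nat_lit 2652264433) (nat_lit 76) (nat_lit 3173691143) (nat_lit 152) (nat_lit 30524295726) (nat_lit 5) (nat_lit 5) (nat_lit 6) (nat_lit 5) (nat_lit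 7) (nat_lit 4) (nat_lit 282) (nat_lit 229) (nat_lit 209)) (XT.lf (nat_lit 0) (nat_lit 10655110792) (nat_lit 152) (nat_lit 26707141936) (nat_lit 0) (nat_lit 1627555485) (nat_lit 5) (nat_lit 5) (nat_lit 7) (nat_lit 4) (nat_lit 5) (nat_lit 4) (nat_lit 283) (nat_lit 229) (nat_lit 208))) (XT.nd (nat_lit 78) (nat_lit 0) (nat_lit 0) (XT.lf (nat_lit 0) (nat_lit 15808937012) (nat_lit 152) (nat_lit 19419182433) (nat_lit 0) (nat_lit 6615606949) (nat_lit 5) (nat_lit 5) (nat_lit 7) (nat_lit 4) (nat_lit 5) (nat_lit 4) (nat_lit 284) (nat_lit 229) (nat_lit 207)) (XT.nd (nat_lit 78) (nat_lit 0) (nat_lit 0) (XT.lf (nat_lit 0) (nat_lit 21268425216) (nat_lit 152) (nat_lit 11741370239) (nat_lit 0) (nat_lit 11921600009) (nat_lit 5) (nat_lit 5) (nat_lit 7) (nat_lit 4) (nat_lit 5) (nat_lit 4) (nat_lit 285) (nat_lit 229) (nat_lit 206)) (XT.lf (nat_lit 0) (nat_lit 27065927926) (nat_lit 152) (nat_lit 3628207208)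 (nat_lit 0) (nat_lit 17576977584) (nat_lit 5) (nat_lit 5) (nat_lit 7) (nat_lit 4) (nat_lit 5) (nat_lit 4) (nat_lit 286) (nat_lit 229) (nat_lit 205)))))) (XT.nd (nat_lit 312) (nat_lit 152) (nat_lit 0) (XT.nd (nat_lit 156) (nat_lit 0) (nat_lit 0) (XT.nd (nat_lit 78) (nat_lit 0) (nat_lit 0) (XT.lf (nat_lit 0) (nat_lit 5132661897) (nat_lit 76) (nat_lit 28183274052) (nat_lit 76) (nat_lit 18562726365) (nat_lit 4) (nat_lit 4) (nat_lit 5) (nat_lit 5) (nat_lit 5) (nat_lit 4) (nat_lit 287) (nat_lit 229) (nat_lit 204)) (XT.lf (nat_lit 0) (nat_lit 14565536264) (nat_lit 76) (nat_lit 25476478364) (nat_lit 76) (nat_lit 15734081282) (nat_lit 4) (nat_lit 4) (nat_lit 5) (nat_lit 5) (nat_lit 5) (nat_lit 4) (nat_lit 288) (nat_lit 229) (nat_lit 203))) (XT.nd (nat_lit 78) (nat_lit 0) (nat_lit 0) (XT.lf (nat_lit 0) (nat_lit 24606349492) (nat_lit 76) (nat_lit 22619153243) (nat_lit 76) (nat_lit 12763932647) (nat_lit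 4) (nat_lit 4) (nat_lit 5) (nat_lit 5) (nat_lit 5) (nat_lit 4) (nat_lit 289) (nat_lit 229) (nat_lit 202)) (XT.lf (nat_lit 0) (nat_lit 35314602695) (nat_lit 76) (nat_lit 19594366393) (nat_lit 76) (nat_lit 9634679581) (nat_lit 4) (nat_lit 4) (nat_lit 5) (nat_lit 5) (nat_lit 5) (nat_lit 4) (nat_lit 290) (nat_lit 229) (nat_lit 201)))) (XT.nd (nat_lit 156) (nat_lit 152) (nat_lit 0) (XT.nd (nat_lit 78) (nat_lit 0) (nat_lit 0) (XT.lf (nat_lit 0) (nat_lit 46753752189) (nat_lit 76) (nat_lit 16384193150) (nat_lit 76) (nat_lit 6327778360) (nat_lit 4) (nat_lit 4) (nat_lit 5) (nat_lit 5) (nat_lit 5) (nat_lit 4) (nat_lit 291) (nat_lit 229) (nat_lit 200)) (XT.lf (nat_lit 0) (nat_lit 58991585527) (nat_lit 76) (nat_lit 12969610266) (nat_lit 76) (nat_lit 2823632534) (nat_lit 4) (nat_lit 4) (nat_lit 5) (nat_lit 5) (nat_lit 5) (nat_lit 4) (nat_lit 292) (nat_lit 229) (nat_lit 199))) (XT.nd (nat_lit 78) (nat_lit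 76) (nat_lit 0) (XT.lf (nat_lit 0) (nat_lit 869764852) (nat_lit 152) (nat_lit 8445888435) (nat_lit 76) (nat_lit 71216128461) (nat_lit 3) (nat_lit 5) (nat_lit 5) (nat_lit 5) (nat_lit 4) (nat_lit 4) (nat_lit 293) (nat_lit 229) (nat_lit 198)) (XT.nd (nat_lit 78) (nat_lit 76) (nat_lit 0) (XT.lf (nat_lit 0) (nat_lit 4705171850) (nat_lit 152) (nat_lit 660089877) (nat_lit 76) (nat_lit 81373692188) (nat_lit 3) (nat_lit 5) (nat_lit 5) (nat_lit 5) (nat_lit 4) (nat_lit 4) (nat_lit 294) (nat_lit 229) (nat_lit 197)) (XT.lf (nat_lit 0) (nat_lit 7907463986) (nat_lit 76) (nat_lit 1011684359) (nat_lit 152) (nat_lit 84520011084) (nat_lit 2) (nat_lit 5) (nat_lit 3) (nat_lit 5) (nat_lit 4) (nat_lit 4) (nat_lit 295) (nat_lit 229) (nat_lit 196))))))) (XT.nd (nat_lit 702) (nat_lit 0) (nat_lit 0) (XT.nd (nat_lit 312) (nat_lit 0) (nat_lit 0) (XT.nd (nat_lit 156) (nat_lit 0) (nat_lit 0) (XT.nd (nat_lit 78) (nat_lit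 0) (nat_lit 0) (XT.lf (nat_lit 0) (nat_lit 13489610395) (nat_lit 152) (nat_lit 83640589069) (nat_lit 0) (nat_lit 3544256529) (nat_lit 2) (nat_lit 5) (nat_lit 4) (nat_lit 4) (nat_lit 2) (nat_lit 4) (nat_lit 296) (nat_lit 229) (nat_lit 195)) (XT.lf (nat_lit 0) (nat_lit 18396533587) (nat_lit 152) (nat_lit 81700413975) (nat_lit 0) (nat_lit 8393127308) (nat_lit 2) (nat_lit 5) (nat_lit 4) (nat_lit 4) (nat_lit 2) (nat_lit 4) (nat_lit 297) (nat_lit 229) (nat_lit 194))) (XT.nd (nat_lit 78) (nat_lit 0) (nat_lit 0) (XT.lf (nat_lit 0) (nat_lit 23653200756) (nat_lit 152) (nat_lit 79683877602) (nat_lit 0) (nat_lit 13596042244) (nat_lit 2) (nat_lit 5) (nat_lit 4) (nat_lit 4) (nat_lit 2) (nat_lit 4) (nat_lit 298) (nat_lit 229) (nat_lit 193)) (XT.lf (nat_lit 0) (nat_lit 29290762524) (nat_lit 152) (nat_lit 77579030102) (nat_lit 0) (nat_lit 19183833424) (nat_lit 2) (nat_lit 5) (nat_lit 4) (nat_lit 4) (nat_lit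 2) (nat_lit 4) (nat_lit 299) (nat_lit 229) (nat_lit 192)))) (XT.nd (nat_lit 156) (nat_lit 0) (nat_lit 0) (XT.nd (nat_lit 78) (nat_lit 0) (nat_lit 0) (XT.lf (nat_lit 0) (nat_lit 35342626663) (nat_lit 152) (nat_lit 75373398306) (nat_lit 0) (nat_lit 25189613686) (nat_lit 2) (nat_lit 5) (nat_lit 4) (nat_lit 4) (nat_lit 2) (nat_lit 4) (nat_lit 300) (nat_lit 229) (nat_lit 191)) (XT.lf (nat_lit 0) (nat_lit 41844656073) (nat_lit 152) (nat_lit 73053911804) (nat_lit 0) (nat_lit 31648972838) (nat_lit 2) (nat_lit 5) (nat_lit 4) (nat_lit 4) (nat_lit 2) (nat_lit 4) (nat_lit 301) (nat_lit 229) (nat_lit 190))) (XT.nd (nat_lit 78) (nat_lit 0) (nat_lit 0) (XT.lf (nat_lit 0) (nat_lit 48835381297) (nat_lit 152) (nat_lit 70606825489) (nat_lit 0) (nat_lit 38600188565) (nat_lit 2) (nat_lit 5) (nat_lit 4) (nat_lit 4) (nat_lit 2) (nat_lit 4) (nat_lit 302) (nat_lit 229) (nat_lit 189)) (XT.nd (nat_lit 78) (nat_lit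 0) (nat_lit 0) (XT.lf (nat_lit 0) (nat_lit 56356228855) (nat_lit 152) (nat_lit 68017638110) (nat_lit 0) (nat_lit 46084453256) (nat_lit 2) (nat_lit 5) (nat_lit 4) (nat_lit 4) (nat_lit 2) (nat_lit 4) (nat_lit 303) (nat_lit 229) (nat_lit 188)) (XT.lf (nat_lit 0) (nat_lit 64451766733) (nat_lit 152) (nat_lit 65271006335) (nat_lit 0) (nat_lit 54146118109) (nat_lit 2) (nat_lit 5) (nat_lit 4) (nat_lit 4) (nat_lit 2) (nat_lit 4) (nat_lit 304) (nat_lit 229) (nat_lit 187)))))) (XT.nd (nat_lit 390) (nat_lit 0) (nat_lit 0) (XT.nd (nat_lit 156) (nat_lit 0) (nat_lit 0) (XT.nd (nat_lit 78) (nat_lit 0) (nat_lit 0) (XT.lf (nat_lit 0) (nat_lit 73169968490) (nat_lit 152) (nat_lit 62350653825) (nat_lit 0) (nat_lit 62832955953) (nat_lit 2) (nat_lit 5) (nat_lit 4) (nat_lit 4) (nat_lit 2) (nat_lit 4) (nat_lit 305) (nat_lit 229) (nat_lit 186)) (XT.lf (nat_lit 0) (nat_lit 82562497542) (nat_lit 152) (nat_lit 59239274790)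 (nat_lit 0) (nat_lit 72196444346) (nat_lit 2) (nat_lit 5) (nat_lit 4) (nat_lit 4) (nat_lit 2) (nat_lit 4) (nat_lit 306) (nat_lit 229) (nat_lit 185))) (XT.nd (nat_lit 78) (nat_lit 0) (nat_lit 0) (XT.lf (nat_lit 0) (nat_lit 92685013321) (nat_lit 152) (nat_lit 55918431428) (nat_lit 0) (nat_lit 82292070625) (nat_lit 2) (nat_lit 5) (nat_lit 4) (nat_lit 4) (nat_lit 2) (nat_lit 4) (nat_lit 307) (nat_lit 229) (nat_lit 184)) (XT.nd (nat_lit 78) (nat_lit 0) (nat_lit 0) (XT.lf (nat_lit 0) (nat_lit 103597501106) (nat_lit 152) (nat_lit 52368444666) (nat_lit 0) (nat_lit 93179660725) (nat_lit 2) (nat_lit 5) (nat_lit 4) (nat_lit 4) (nat_lit 2) (nat_lit 4) (nat_lit 308) (nat_lit 229) (nat_lit 183)) (XT.lf (nat_lit 0) (nat_lit 115364627491) (nat_lit 152) (nat_lit 48568277545) (nat_lit 0) (nat_lit 104923733698) (nat_lit 2) (nat_lit 5) (nat_lit 4) (nat_lit 4) (nat_lit 2) (nat_lit 4) (nat_lit 309) (nat_lit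 229) (nat_lit 182))))) (XT.nd (nat_lit 156) (nat_lit 0) (nat_lit 0) (XT.nd (nat_lit 78) (nat_lit 0) (nat_lit 0) (XT.lf (nat_lit 0) (nat_lit 128056123595) (nat_lit 152) (nat_lit 44495410558) (nat_lit 0) (nat_lit 117593884050) (nat_lit 2) (nat_lit 5) (nat_lit 4) (nat_lit 4) (nat_lit 2) (nat_lit 4) (nat_lit 310) (nat_lit 229) (nat_lit 181)) (XT.lf (nat_lit 0) (nat_lit 141747198285) (nat_lit 152) (nat_lit 40125708196) (nat_lit 0) (nat_lit 131265194155) (nat_lit 2) (nat_lit 5) (nat_lit 4) (nat_lit 4) (nat_lit 2) (nat_lit 4) (nat_lit 311) (nat_lit 229) (nat_lit 180))) (XT.nd (nat_lit 78) (nat_lit 0) (nat_lit 0) (XT.lf (nat_lit 0) (nat_lit 156518983854) (nat_lit 152) (nat_lit 35433275927) (nat_lit 0) (nat_lit 146018679183) (nat_lit 2) (nat_lit 5) (nat_lit 4) (nat_lit 4) (nat_lit 2) (nat_lit 4) (nat_lit 312) (nat_lit 229) (nat_lit 179)) (XT.nd (nat_lit 78) (nat_lit 0) (nat_lit 0) (XT.lf (nat_lit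 0) (nat_lit 172459016810) (nat_lit 152) (nat_lit 30390306744) (nat_lit 0) (nat_lit 161941767192) (nat_lit 2) (nat_lit 5) (nat_lit 4) (nat_lit 4) (nat_lit 2) (nat_lit 4) (nat_lit 313) (nat_lit 229) (nat_lit 178)) (XT.lf (nat_lit 0) (nat_lit 189661756607) (nat_lit 152) (nat_lit 24966916386) (nat_lit 0) (nat_lit 179128817225) (nat_lit 2) (nat_lit 5) (nat_lit 4) (nat_lit 4) (nat_lit 2) (nat_lit 4) (nat_lit 314) (nat_lit 229) (nat_lit 177))))))))
noncomputable def xc28 : XT := (XT.nd (nat_lit 33852) (nat_lit 0) (nat_lit 304) (XT.nd (nat_lit 702) (nat_lit 0) (nat_lit 0) (XT.nd (nat_lit 312) (nat_lit 0) (nat_lit 0) (XT.nd (nat_lit 156) (nat_lit 76) (nat_lit 0) (XT.nd (nat_lit 78) (nat_lit 0) (nat_lit 0) (XT.lf (nat_lit 0) (nat_lit 208229145407) (nat_lit 152) (nat_lit 19130966243) (nat_lit 0) (nat_lit 197681678465) (nat_lit 2) (nat_lit 5) (nat_lit 4) (nat_lit 4) (nat_lit 2) (nat_lit 4) (nat_lit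 315) (nat_lit 229) (nat_lit 176)) (XT.lf (nat_lit 0) (nat_lit 228271212181) (nat_lit 152) (nat_lit 12847872906) (nat_lit 0) (nat_lit 217710293794) (nat_lit 2) (nat_lit 5) (nat_lit 4) (nat_lit 4) (nat_lit 2) (nat_lit 4) (nat_lit 316) (nat_lit 229) (nat_lit 175))) (XT.nd (nat_lit 78) (nat_lit 76) (nat_lit 0) (XT.lf (nat_lit 0) (nat_lit 249906724732) (nat_lit 152) (nat_lit 6080403231) (nat_lit 0) (nat_lit 239333351304) (nat_lit 2) (nat_lit 5) (nat_lit 4) (nat_lit 4) (nat_lit 2) (nat_lit 4) (nat_lit 317) (nat_lit 229) (nat_lit 174)) (XT.lf (nat_lit 0) (nat_lit 1251605498) (nat_lit 76) (nat_lit 272031829075) (nat_lit 76) (nat_lit 261446923202) (nat_lit 1) (nat_lit 4) (nat_lit 2) (nat_lit 5) (nat_lit 2) (nat_lit 4) (nat_lit 318) (nat_lit 229) (nat_lit 173)))) (XT.nd (nat_lit 156) (nat_lit 0) (nat_lit 0) (XT.nd (nat_lit 78) (nat_lit 0) (nat_lit 0) (XT.lf (nat_lit 0) (nat_lit 9371121677) (nat_lit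 76) (nat_lit 289256319145) (nat_lit 76) (nat_lit 278660735081) (nat_lit 1) (nat_lit 4) (nat_lit 2) (nat_lit 5) (nat_lit 2) (nat_lit 4) (nat_lit 319) (nat_lit 229) (nat_lit 172)) (XT.lf (nat_lit 0) (nat_lit 18125215365) (nat_lit 76) (nat_lit 307865643796) (nat_lit 76) (nat_lit 297260172519) (nat_lit 1) (nat_lit 4) (nat_lit 2) (nat_lit 5) (nat_lit 2) (nat_lit 4) (nat_lit 320) (nat_lit 229) (nat_lit 171))) (XT.nd (nat_lit 78) (nat_lit 0) (nat_lit 0) (XT.lf (nat_lit 0) (nat_lit 27565762672) (nat_lit 76) (nat_lit 327970080508) (nat_lit 76) (nat_lit 317355454403) (nat_lit 1) (nat_lit 4) (nat_lit 2) (nat_lit 5) (nat_lit 2) (nat_lit 4) (nat_lit 321) (nat_lit 229) (nat_lit 170)) (XT.nd (nat_lit 78) (nat_lit 0) (nat_lit 0) (XT.lf (nat_lit 0) (nat_lit 37748707583) (nat_lit 76) (nat_lit 349688766683) (nat_lit 76) (nat_lit 339065663887) (nat_lit 1) (nat_lit 4) (nat_lit 2) (nat_lit 5) (nat_lit 2) (nat_lit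 4) (nat_lit 322) (nat_lit 229) (nat_lit 169)) (XT.lf (nat_lit 0) (nat_lit 48734393476) (nat_lit 76) (nat_lit 373150405647) (nat_lit 76) (nat_lit 362519454062) (nat_lit 1) (nat_lit 4) (nat_lit 2) (nat_lit 5) (nat_lit 2) (nat_lit 4) (nat_lit 323) (nat_lit 229) (nat_lit 168)))))) (XT.nd (nat_lit 32760) (nat_lit 0) (nat_lit 1216) (XT.nd (nat_lit 32604) (nat_lit 0) (nat_lit 2052) (XT.nd (nat_lit 32526) (nat_lit 0) (nat_lit 2280) (XT.lf (nat_lit 0) (nat_lit 60587920710) (nat_lit 76) (nat_lit 398494029335) (nat_lit 76) (nat_lit 387855810353) (nat_lit 1) (nat_lit 4) (nat_lit 2) (nat_lit 5) (nat_lit 2) (nat_lit 4) (nat_lit 324) (nat_lit 229) (nat_lit 167)) (XT.lf (nat_lit 0) (nat_lit 154183735) (nat_lit 228) (nat_lit 2438184775) (nat_lit 228) (nat_lit 2438184775) (nat_lit 31) (nat_lit 4) (nat_lit 34) (nat_lit 5) (nat_lit 34) (nat_lit 4) (nat_lit 260) (nat_lit 230) (nat_lit 230))) (XT.nd (nat_lit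 78) (nat_lit 0) (nat_lit 0) (XT.lf (nat_lit 0) (nat_lit 46978358) (nat_lit 152) (nat_lit 594541240) (nat_lit 228) (nat_lit 9860672977) (nat_lit 28) (nat_lit 5) (nat_lit 30) (nat_lit 5) (nat_lit 31) (nat_lit 4) (nat_lit 261) (nat_lit 230) (nat_lit 229)) (XT.lf (nat_lit 0) (nat_lit 6312453276) (nat_lit 228) (nat_lit 682341420) (nat_lit 0) (nat_lit 3986417489) (nat_lit 28) (nat_lit 5) (nat_lit 31) (nat_lit 4) (nat_lit 28) (nat_lit 4) (nat_lit 262) (nat_lit 230) (nat_lit 228)))) (XT.nd (nat_lit 156) (nat_lit 456) (nat_lit 0) (XT.nd (nat_lit 78) (nat_lit 152) (nat_lit 0) (XT.lf (nat_lit 0) (nat_lit 736920817) (nat_lit 228) (nat_lit 1850798514) (nat_lit 76) (nat_lit 8919354906) (nat_lit 25) (nat_lit 5) (nat_lit 28) (nat_lit 5) (nat_lit 26) (nat_lit 4) (nat_lit 263) (nat_lit 230) (nat_lit 227)) (XT.lf (nat_lit 0) (nat_lit 6274887937) (nat_lit 228) (nat_lit 3643369332) (nat_lit 0) (nat_lit 2160376922)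 (nat_lit 23) (nat_lit 5) (nat_lit 26) (nat_lit 4) (nat_lit 23) (nat_lit 4) (nat_lit 264) (nat_lit 230) (nat_lit 226))) (XT.nd (nat_lit 78) (nat_lit 304) (nat_lit 0) (XT.lf (nat_lit 0) (nat_lit 6599096798) (nat_lit 152) (nat_lit 5531810449) (nat_lit 152) (nat_lit 571840550) (nat_lit 21) (nat_lit 4) (nat_lit 23) (nat_lit 5) (nat_lit 23) (nat_lit 4) (nat_lit 265) (nat_lit 230) (nat_lit 225)) (XT.nd (nat_lit 78) (nat_lit 152) (nat_lit 0) (XT.lf (nat_lit 0) (nat_lit 3991711405) (nat_lit 76) (nat_lit 756831815) (nat_lit 152) (nat_lit 8633170154) (nat_lit 19) (nat_lit 5) (nat_lit 20) (nat_lit 5) (nat_lit 21) (nat_lit 4) (nat_lit 266) (nat_lit 230) (nat_lit 224)) (XT.lf (nat_lit 0) (nat_lit 473706623) (nat_lit 152) (nat_lit 9902926178) (nat_lit 152) (nat_lit 3743262444) (nat_lit 17) (nat_lit 4) (nat_lit 19) (nat_lit 5) (nat_lit 19) (nat_lit 4) (nat_lit 267) (nat_lit 230) (nat_lit 223))))))) (XT.nd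 (nat_lit 702) (nat_lit 304) (nat_lit 0) (XT.nd (nat_lit 312) (nat_lit 228) (nat_lit 0) (XT.nd (nat_lit 156) (nat_lit 228) (nat_lit 0) (XT.nd (nat_lit 78) (nat_lit 76) (nat_lit 0) (XT.lf (nat_lit 0) (nat_lit 1394465326) (nat_lit 228) (nat_lit 3940202691) (nat_lit 76) (nat_lit 9586388085) (nat_lit 16) (nat_lit 5) (nat_lit 19) (nat_lit 5) (nat_lit 17) (nat_lit 4) (nat_lit 268) (nat_lit 230) (nat_lit 222)) (XT.lf (nat_lit 0) (nat_lit 6259465205) (nat_lit 76) (nat_lit 399152878) (nat_lit 152) (nat_lit 9132682290) (nat_lit 15) (nat_lit 5) (nat_lit 16) (nat_lit 5) (nat_lit 17) (nat_lit 4) (nat_lit 269) (nat_lit 230) (nat_lit 221))) (XT.nd (nat_lit 78) (nat_lit 76) (nat_lit 0) (XT.lf (nat_lit 0) (nat_lit 204890413) (nat_lit 152) (nat_lit 12045978182) (nat_lit 152) (nat_lit 4485305104) (nat_lit 13) (nat_lit 4) (nat_lit 15) (nat_lit 5) (nat_lit 15) (nat_lit 4) (nat_lit 270) (nat_lit 230) (nat_lit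 220)) (XT.lf (nat_lit 0) (nat_lit 457023575) (nat_lit 228) (nat_lit 7107024190) (nat_lit 76) (nat_lit 10195475473) (nat_lit 12) (nat_lit 5) (nat_lit 15) (nat_lit 5) (nat_lit 13) (nat_lit 4) (nat_lit 271) (nat_lit 230) (nat_lit 219)))) (XT.nd (nat_lit 156) (nat_lit 152) (nat_lit 0) (XT.nd (nat_lit 78) (nat_lit 0) (nat_lit 0) (XT.lf (nat_lit 0) (nat_lit 2710220141) (nat_lit 76) (nat_lit 2753972955) (nat_lit 152) (nat_lit 13405833416) (nat_lit 11) (nat_lit 5) (nat_lit 12) (nat_lit 5) (nat_lit 13) (nat_lit 4) (nat_lit 272) (nat_lit 230) (nat_lit 218)) (XT.lf (nat_lit 0) (nat_lit 10826314703) (nat_lit 152) (nat_lit 6900896230) (nat_lit 0) (nat_lit 2344710690) (nat_lit 11) (nat_lit 5) (nat_lit 13) (nat_lit 4) (nat_lit 11) (nat_lit 4) (nat_lit 273) (nat_lit 230) (nat_lit 217))) (XT.nd (nat_lit 78) (nat_lit 76) (nat_lit 0) (XT.lf (nat_lit 0) (nat_lit 2804829532) (nat_lit 76) (nat_lit 13708767576)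 (nat_lit 76) (nat_lit 4861812147) (nat_lit 10) (nat_lit 4) (nat_lit 11) (nat_lit 5) (nat_lit 11) (nat_lit 4) (nat_lit 274) (nat_lit 230) (nat_lit 216)) (XT.nd (nat_lit 78) (nat_lit 76) (nat_lit 0) (XT.lf (nat_lit 0) (nat_lit 13210865599) (nat_lit 76) (nat_lit 9380505273) (nat_lit 76) (nat_lit 195261496) (nat_lit 10) (nat_lit 4) (nat_lit 11) (nat_lit 5) (nat_lit 11) (nat_lit 4) (nat_lit 275) (nat_lit 230) (nat_lit 215)) (XT.lf (nat_lit 0) (nat_lit 4515524999) (nat_lit 152) (nat_lit 241647481) (nat_lit 76) (nat_lit 19558704976) (nat_lit 9) (nat_lit 5) (nat_lit 11) (nat_lit 5) (nat_lit 10) (nat_lit 4) (nat_lit 276) (nat_lit 230) (nat_lit 214)))))) (XT.nd (nat_lit 390) (nat_lit 152) (nat_lit 0) (XT.nd (nat_lit 156) (nat_lit 76) (nat_lit 0) (XT.nd (nat_lit 78) (nat_lit 0) (nat_lit 0) (XT.lf (nat_lit 0) (nat_lit 9593756771) (nat_lit 152) (nat_lit 16102489094) (nat_lit 0) (nat_lit 271374425)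 (nat_lit 8) (nat_lit 5) (nat_lit 10) (nat_lit 4) (nat_lit 8) (nat_lit 4) (nat_lit 277) (nat_lit 230) (nat_lit 213)) (XT.lf (nat_lit 0) (nat_lit 15007507170) (nat_lit 152) (nat_lit 7318339264) (nat_lit 0) (nat_lit 5429368445) (nat_lit 8) (nat_lit 5) (nat_lit 10) (nat_lit 4) (nat_lit 8) (nat_lit 4) (nat_lit 278) (nat_lit 230) (nat_lit 212))) (XT.nd (nat_lit 78) (nat_lit 0) (nat_lit 0) (XT.lf (nat_lit 0) (nat_lit 1976387364) (nat_lit 76) (nat_lit 18765093031) (nat_lit 76) (nat_lit 8950142844) (nat_lit 7) (nat_lit 4) (nat_lit 8) (nat_lit 5) (nat_lit 8) (nat_lit 4) (nat_lit 279) (nat_lit 230) (nat_lit 211)) (XT.nd (nat_lit 78) (nat_lit 0) (nat_lit 0) (XT.lf (nat_lit 0) (nat_lit 12031715624) (nat_lit 76) (nat_lit 14893035032) (nat_lit 76) (nat_lit 4858814973) (nat_lit 7) (nat_lit 4) (nat_lit 8) (nat_lit 5) (nat_lit 8) (nat_lit 4) (nat_lit 280) (nat_lit 230) (nat_lit 210)) (XT.lf (nat_lit 0)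 (nat_lit 22665255297) (nat_lit 76) (nat_lit 10810666525) (nat_lit 76) (nat_lit 573418807) (nat_lit 7) (nat_lit 4) (nat_lit 8) (nat_lit 5) (nat_lit 8) (nat_lit 4) (nat_lit 281) (nat_lit 230) (nat_lit 209))))) (XT.nd (nat_lit 156) (nat_lit 0) (nat_lit 0) (XT.nd (nat_lit 78) (nat_lit 76) (nat_lit 0) (XT.lf (nat_lit 0) (nat_lit 3805609942) (nat_lit 152) (nat_lit 2623735909) (nat_lit 76) (nat_lit 30069960165) (nat_lit 6) (nat_lit 5) (nat_lit 8) (nat_lit 5) (nat_lit 7) (nat_lit 4) (nat_lit 282) (nat_lit 230) (nat_lit 208)) (XT.lf (nat_lit 0) (nat_lit 6849279818) (nat_lit 76) (nat_lit 1662222427) (nat_lit 152) (nat_lit 30633578466) (nat_lit 5) (nat_lit 5) (nat_lit 6) (nat_lit 5) (nat_lit 7) (nat_lit 4) (nat_lit 283) (nat_lit 230) (nat_lit 207))) (XT.nd (nat_lit 78) (nat_lit 0) (nat_lit 0) (XT.lf (nat_lit 0) (nat_lit 13588105306) (nat_lit 152) (nat_lit 25074766396) (nat_lit 0) (nat_lit 3340038937)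 (nat_lit 5) (nat_lit 5) (nat_lit 7) (nat_lit 4) (nat_lit 5) (nat_lit 4) (nat_lit 284) (nat_lit 230) (nat_lit 206)) (XT.nd (nat_lit 78) (nat_lit 0) (nat_lit 0) (XT.lf (nat_lit 0) (nat_lit 19000120168) (nat_lit 152) (nat_lit 17482951384) (nat_lit 0) (nat_lit 8609928666) (nat_lit 5) (nat_lit 5) (nat_lit 7) (nat_lit 4) (nat_lit 5) (nat_lit 4) (nat_lit 285) (nat_lit 230) (nat_lit 205)) (XT.lf (nat_lit 0) (nat_lit 24753666080) (nat_lit 152) (nat_lit 9449415374) (nat_lit 0) (nat_lit 14231877232) (nat_lit 5) (nat_lit 5) (nat_lit 7) (nat_lit 4) (nat_lit 5) (nat_lit 4) (nat_lit 286) (nat_lit 230) (nat_lit 204))))))))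
noncomputable def xc29 : XT := (XT.nd (nat_lit 1404) (nat_lit 76) (nat_lit 0) (XT.nd (nat_lit 702) (nat_lit 0) (nat_lit 0) (XT.nd (nat_lit 312) (nat_lit 152) (nat_lit 0) (XT.nd (nat_lit 156) (nat_lit 0) (nat_lit 0) (XT.nd (nat_lit 78) (nat_lit 76) (nat_lit 0) (XT.lf (nat_lit 0) (nat_lit 30882838129) (nat_lit 152) (nat_lit 926552225) (nat_lit 0) (nat_lit 20239199886) (nat_lit 5) (nat_lit 5) (nat_lit 7) (nat_lit 4) (nat_lit 5) (nat_lit 4) (nat_lit 287) (nat_lit 230) (nat_lit 203)) (XT.lf (nat_lit 0) (nat_lit 8405161578) (nat_lit 76) (nat_lit 29150023884) (nat_lit 76) (nat_lit 18393562127) (nat_lit 4) (nat_lit 4) (nat_lit 5) (nat_lit 5) (nat_lit 5) (nat_lit 4) (nat_lit 288) (nat_lit 230) (nat_lit 202))) (XT.nd (nat_lit 78) (nat_lit 0) (nat_lit 0) (XT.lf (nat_lit 0) (nat_lit 18380674285) (nat_lit 76) (nat_lit 26322085436) (nat_lit 76) (nat_lit 15461157463) (nat_lit 4) (nat_lit 4) (nat_lit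 5) (nat_lit 5) (nat_lit 5) (nat_lit 4) (nat_lit 289) (nat_lit 230) (nat_lit 201)) (XT.lf (nat_lit 0) (nat_lit 29028464044) (nat_lit 76) (nat_lit 23324508468) (nat_lit 76) (nat_lit 12366852517) (nat_lit 4) (nat_lit 4) (nat_lit 5) (nat_lit 5) (nat_lit 5) (nat_lit 4) (nat_lit 290) (nat_lit 230) (nat_lit 200)))) (XT.nd (nat_lit 156) (nat_lit 152) (nat_lit 0) (XT.nd (nat_lit 78) (nat_lit 0) (nat_lit 0) (XT.lf (nat_lit 0) (nat_lit 40411628867) (nat_lit 76) (nat_lit 20139529561) (nat_lit 76) (nat_lit 9092310668) (nat_lit 4) (nat_lit 4) (nat_lit 5) (nat_lit 5) (nat_lit 5) (nat_lit 4) (nat_lit 291) (nat_lit 230) (nat_lit 199)) (XT.lf (nat_lit 0) (nat_lit 52597624546) (nat_lit 76) (nat_lit 16748274766) (nat_lit 76) (nat_lit 5618127222) (nat_lit 4) (nat_lit 4) (nat_lit 5) (nat_lit 5) (nat_lit 5) (nat_lit 4) (nat_lit 292) (nat_lit 230) (nat_lit 198))) (XT.nd (nat_lit 78) (nat_lit 152) (nat_lit 0)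 (XT.lf (nat_lit 0) (nat_lit 65658664389) (nat_lit 76) (nat_lit 13130647758) (nat_lit 76) (nat_lit 1923714426) (nat_lit 4) (nat_lit 4) (nat_lit 5) (nat_lit 5) (nat_lit 5) (nat_lit 4) (nat_lit 293) (nat_lit 230) (nat_lit 197)) (XT.nd (nat_lit 78) (nat_lit 76) (nat_lit 0) (XT.lf (nat_lit 0) (nat_lit 1948397708) (nat_lit 152) (nat_lit 7283815981) (nat_lit 76) (nat_lit 77690752384) (nat_lit 3) (nat_lit 5) (nat_lit 5) (nat_lit 5) (nat_lit 4) (nat_lit 4) (nat_lit 294) (nat_lit 230) (nat_lit 196)) (XT.lf (nat_lit 0) (nat_lit 1021408770) (nat_lit 76) (nat_lit 5010430980) (nat_lit 152) (nat_lit 87597879223) (nat_lit 2) (nat_lit 5) (nat_lit 3) (nat_lit 5) (nat_lit 4) (nat_lit 4) (nat_lit 295) (nat_lit 230) (nat_lit 195)))))) (XT.nd (nat_lit 312) (nat_lit 0) (nat_lit 0) (XT.nd (nat_lit 156) (nat_lit 0) (nat_lit 0) (XT.nd (nat_lit 78) (nat_lit 0) (nat_lit 0) (XT.lf (nat_lit 0) (nat_lit 10167725396)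 (nat_lit 76) (nat_lit 355466384) (nat_lit 152) (nat_lit 90345798392) (nat_lit 2) (nat_lit 5) (nat_lit 3) (nat_lit 5) (nat_lit 4) (nat_lit 4) (nat_lit 296) (nat_lit 230) (nat_lit 194)) (XT.lf (nat_lit 0) (nat_lit 15403983474) (nat_lit 152) (nat_lit 88793449822) (nat_lit 0) (nat_lit 4488500045) (nat_lit 2) (nat_lit 5) (nat_lit 4) (nat_lit 4) (nat_lit 2) (nat_lit 4) (nat_lit 297) (nat_lit 230) (nat_lit 193))) (XT.nd (nat_lit 78) (nat_lit 0) (nat_lit 0) (XT.lf (nat_lit 0) (nat_lit 20641593540) (nat_lit 152) (nat_lit 86812015267) (nat_lit 0) (nat_lit 9676339524) (nat_lit 2) (nat_lit 5) (nat_lit 4) (nat_lit 4) (nat_lit 2) (nat_lit 4) (nat_lit 298) (nat_lit 230) (nat_lit 192)) (XT.lf (nat_lit 0) (nat_lit 26261509841) (nat_lit 152) (nat_lit 84739669452) (nat_lit 0) (nat_lit 15250171948) (nat_lit 2) (nat_lit 5) (nat_lit 4) (nat_lit 4) (nat_lit 2) (nat_lit 4) (nat_lit 299) (nat_lit 230) (nat_lit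 191)))) (XT.nd (nat_lit 156) (nat_lit 0) (nat_lit 0) (XT.nd (nat_lit 78) (nat_lit 0) (nat_lit 0) (XT.lf (nat_lit 0) (nat_lit 32297035586) (nat_lit 152) (nat_lit 82564131809) (nat_lit 0) (nat_lit 21243027436) (nat_lit 2) (nat_lit 5) (nat_lit 4) (nat_lit 4) (nat_lit 2) (nat_lit 4) (nat_lit 300) (nat_lit 230) (nat_lit 190)) (XT.lf (nat_lit 0) (nat_lit 38783936851) (nat_lit 152) (nat_lit 80272510262) (nat_lit 0) (nat_lit 27690419205) (nat_lit 2) (nat_lit 5) (nat_lit 4) (nat_lit 4) (nat_lit 2) (nat_lit 4) (nat_lit 301) (nat_lit 230) (nat_lit 189))) (XT.nd (nat_lit 78) (nat_lit 0) (nat_lit 0) (XT.lf (nat_lit 0) (nat_lit 45760654535) (nat_lit 152) (nat_lit 77851224833) (nat_lit 0) (nat_lit 34630554021) (nat_lit 2) (nat_lit 5) (nat_lit 4) (nat_lit 4) (nat_lit 2) (nat_lit 4) (nat_lit 302) (nat_lit 230) (nat_lit 188)) (XT.nd (nat_lit 78) (nat_lit 0) (nat_lit 0) (XT.lf (nat_lit 0) (nat_lit 53268532149)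 (nat_lit 152) (nat_lit 75285927162) (nat_lit 0) (nat_lit 42104558610) (nat_lit 2) (nat_lit 5) (nat_lit 4) (nat_lit 4) (nat_lit 2) (nat_lit 4) (nat_lit 303) (nat_lit 230) (nat_lit 187)) (XT.lf (nat_lit 0) (nat_lit 61352060820) (nat_lit 152) (nat_lit 72561415487) (nat_lit 0) (nat_lit 50156723368) (nat_lit 2) (nat_lit 5) (nat_lit 4) (nat_lit 4) (nat_lit 2) (nat_lit 4) (nat_lit 304) (nat_lit 230) (nat_lit 186))))))) (XT.nd (nat_lit 702) (nat_lit 76) (nat_lit 0) (XT.nd (nat_lit 312) (nat_lit 0) (nat_lit 0) (XT.nd (nat_lit 156) (nat_lit 0) (nat_lit 0) (XT.nd (nat_lit 78) (nat_lit 0) (nat_lit 0) (XT.lf (nat_lit 0) (nat_lit 70059142939) (nat_lit 152) (nat_lit 69661544552) (nat_lit 0) (nat_lit 58834764827) (nat_lit 2) (nat_lit 5) (nat_lit 4) (nat_lit 4) (nat_lit 2) (nat_lit 4) (nat_lit 305) (nat_lit 230) (nat_lit 185)) (XT.lf (nat_lit 0) (nat_lit 79441376031) (nat_lit 152) (nat_lit 66569129938)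 (nat_lit 0) (nat_lit 68190108420) (nat_lit 2) (nat_lit 5) (nat_lit 4) (nat_lit 4) (nat_lit 2) (nat_lit 4) (nat_lit 306) (nat_lit 230) (nat_lit 184))) (XT.nd (nat_lit 78) (nat_lit 0) (nat_lit 0) (XT.lf (nat_lit 0) (nat_lit 89554358514) (nat_lit 152) (nat_lit 63265846224) (nat_lit 0) (nat_lit 78278193217) (nat_lit 2) (nat_lit 5) (nat_lit 4) (nat_lit 4) (nat_lit 2) (nat_lit 4) (nat_lit 307) (nat_lit 230) (nat_lit 183)) (XT.lf (nat_lit 0) (nat_lit 100458019172) (nat_lit 152) (nat_lit 59732118396) (nat_lit 0) (nat_lit 89158800464) (nat_lit 2) (nat_lit 5) (nat_lit 4) (nat_lit 4) (nat_lit 2) (nat_lit 4) (nat_lit 308) (nat_lit 230) (nat_lit 182)))) (XT.nd (nat_lit 156) (nat_lit 0) (nat_lit 0) (XT.nd (nat_lit 78) (nat_lit 0) (nat_lit 0) (XT.lf (nat_lit 0) (nat_lit 112216972292) (nat_lit 152) (nat_lit 55947005844) (nat_lit 0) (nat_lit 100896407832) (nat_lit 2) (nat_lit 5) (nat_lit 4) (nat_lit 4)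 (nat_lit 2) (nat_lit 4) (nat_lit 309) (nat_lit 230) (nat_lit 181)) (XT.lf (nat_lit 0) (nat_lit 124900900559) (nat_lit 152) (nat_lit 51888078273) (nat_lit 0) (nat_lit 113560571513) (nat_lit 2) (nat_lit 5) (nat_lit 4) (nat_lit 4) (nat_lit 2) (nat_lit 4) (nat_lit 310) (nat_lit 230) (nat_lit 180))) (XT.nd (nat_lit 78) (nat_lit 0) (nat_lit 0) (XT.lf (nat_lit 0) (nat_lit 138584967991) (nat_lit 152) (nat_lit 47531282777) (nat_lit 0) (nat_lit 127226338404) (nat_lit 2) (nat_lit 5) (nat_lit 4) (nat_lit 4) (nat_lit 2) (nat_lit 4) (nat_lit 311) (nat_lit 230) (nat_lit 179)) (XT.nd (nat_lit 78) (nat_lit 0) (nat_lit 0) (XT.lf (nat_lit 0) (nat_lit 153350265359) (nat_lit 152) (nat_lit 42850801309) (nat_lit 0) (nat_lit 141974690826) (nat_lit 2) (nat_lit 5) (nat_lit 4) (nat_lit 4) (nat_lit 2) (nat_lit 4) (nat_lit 312) (nat_lit 230) (nat_lit 178)) (XT.lf (nat_lit 0) (nat_lit 169284290721) (nat_lit 152) (nat_lit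 37818897684) (nat_lit 0) (nat_lit 157893026423) (nat_lit 2) (nat_lit 5) (nat_lit 4) (nat_lit 4) (nat_lit 2) (nat_lit 4) (nat_lit 313) (nat_lit 230) (nat_lit 177)))))) (XT.nd (nat_lit 390) (nat_lit 76) (nat_lit 0) (XT.nd (nat_lit 156) (nat_lit 0) (nat_lit 0) (XT.nd (nat_lit 78) (nat_lit 0) (nat_lit 0) (XT.lf (nat_lit 0) (nat_lit 186481467931) (nat_lit 152) (nat_lit 32405753212) (nat_lit 0) (nat_lit 175075676073) (nat_lit 2) (nat_lit 5) (nat_lit 4) (nat_lit 4) (nat_lit 2) (nat_lit 4) (nat_lit 314) (nat_lit 230) (nat_lit 176)) (XT.lf (nat_lit 0) (nat_lit 205043706188) (nat_lit 152) (nat_lit 26579290001) (nat_lit 0) (nat_lit 193624462885) (nat_lit 2) (nat_lit 5) (nat_lit 4) (nat_lit 4) (nat_lit 2) (nat_lit 4) (nat_lit 315) (nat_lit 230) (nat_lit 175))) (XT.nd (nat_lit 78) (nat_lit 0) (nat_lit 0) (XT.lf (nat_lit 0) (nat_lit 225081003940) (nat_lit 152) (nat_lit 20304980860) (nat_lit 0) (nat_lit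 213649305597) (nat_lit 2) (nat_lit 5) (nat_lit 4) (nat_lit 4) (nat_lit 2) (nat_lit 4) (nat_lit 316) (nat_lit 230) (nat_lit 174)) (XT.nd (nat_lit 78) (nat_lit 0) (nat_lit 0) (XT.lf (nat_lit 0) (nat_lit 246712100730) (nat_lit 152) (nat_lit 13545644700) (nat_lit 0) (nat_lit 235268869941) (nat_lit 2) (nat_lit 5) (nat_lit 4) (nat_lit 4) (nat_lit 2) (nat_lit 4) (nat_lit 317) (nat_lit 230) (nat_lit 173)) (XT.lf (nat_lit 0) (nat_lit 270065180835) (nat_lit 152) (nat_lit 6261226195) (nat_lit 0) (nat_lit 258611271856) (nat_lit 2) (nat_lit 5) (nat_lit 4) (nat_lit 4) (nat_lit 2) (nat_lit 4) (nat_lit 318) (nat_lit 230) (nat_lit 172))))) (XT.nd (nat_lit 156) (nat_lit 0) (nat_lit 0) (XT.nd (nat_lit 78) (nat_lit 0) (nat_lit 0) (XT.lf (nat_lit 0) (nat_lit 1644061825) (nat_lit 76) (nat_lit 293660239464) (nat_lit 76) (nat_lit 282196443272) (nat_lit 1) (nat_lit 4) (nat_lit 2) (nat_lit 5) (nat_lit 2) (nat_lit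 4) (nat_lit 319) (nat_lit 230) (nat_lit 171)) (XT.lf (nat_lit 0) (nat_lit 10391485381) (nat_lit 76) (nat_lit 312272624735) (nat_lit 76) (nat_lit 300799673715) (nat_lit 1) (nat_lit 4) (nat_lit 2) (nat_lit 5) (nat_lit 2) (nat_lit 4) (nat_lit 320) (nat_lit 230) (nat_lit 170))) (XT.nd (nat_lit 78) (nat_lit 0) (nat_lit 0) (XT.lf (nat_lit 0) (nat_lit 19825856640) (nat_lit 76) (nat_lit 332379895353) (nat_lit 76) (nat_lit 320898467642) (nat_lit 1) (nat_lit 4) (nat_lit 2) (nat_lit 5) (nat_lit 2) (nat_lit 4) (nat_lit 321) (nat_lit 230) (nat_lit 169)) (XT.nd (nat_lit 78) (nat_lit 0) (nat_lit 0) (XT.lf (nat_lit 0) (nat_lit 30003082988) (nat_lit 76) (nat_lit 354101205517) (nat_lit 76) (nat_lit 342611929017) (nat_lit 1) (nat_lit 4) (nat_lit 2) (nat_lit 5) (nat_lit 2) (nat_lit 4) (nat_lit 322) (nat_lit 230) (nat_lit 168)) (XT.lf (nat_lit 0) (nat_lit 40983473914) (nat_lit 76) (nat_lit 377565274099) (nat_lit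 76) (nat_lit 366068730202) (nat_lit 1) (nat_lit 4) (nat_lit 2) (nat_lit 5) (nat_lit 2) (nat_lit 4) (nat_lit 323) (nat_lit 230) (nat_lit 167))))))))
noncomputable def xc30 : XT := (XT.nd (nat_lit 33696) (nat_lit 0) (nat_lit 228) (XT.nd (nat_lit 32994) (nat_lit 0) (nat_lit 760) (XT.nd (nat_lit 32604) (nat_lit 0) (nat_lit 1520) (XT.nd (nat_lit 32448) (nat_lit 0) (nat_lit 2280) (XT.nd (nat_lit 32370) (nat_lit 0) (nat_lit 2736) (XT.lf (nat_lit 0) (nat_lit 52832098402) (nat_lit 76) (nat_lit 402911147434) (nat_lit 76) (nat_lit 391407874466) (nat_lit 1) (nat_lit 4) (nat_lit 2) (nat_lit 5) (nat_lit 2) (nat_lit 4) (nat_lit 324) (nat_lit 230) (nat_lit 166)) (XT.lf (nat_lit 0) (nat_lit 81691154) (nat_lit 228) (nat_lit 2280972400) (nat_lit 228) (nat_lit 2280972400) (nat_lit 37) (nat_lit 4) (nat_lit 40) (nat_lit 5) (nat_lit 40) (nat_lit 4) (nat_lit 258) (nat_lit 231) (nat_lit 231))) (XT.nd (nat_lit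 78) (nat_lit 228) (nat_lit 0) (XT.lf (nat_lit 0) (nat_lit 281938728) (nat_lit 152) (nat_lit 557088530) (nat_lit 228) (nat_lit 8822872712) (nat_lit 34) (nat_lit 5) (nat_lit 36) (nat_lit 5) (nat_lit 37) (nat_lit 4) (nat_lit 259) (nat_lit 231) (nat_lit 230)) (XT.lf (nat_lit 0) (nat_lit 49493567) (nat_lit 228) (nat_lit 6329266884) (nat_lit 228) (nat_lit 3691542301) (nat_lit 31) (nat_lit 4) (nat_lit 34) (nat_lit 5) (nat_lit 34) (nat_lit 4) (nat_lit 260) (nat_lit 231) (nat_lit 229)))) (XT.nd (nat_lit 156) (nat_lit 532) (nat_lit 0) (XT.nd (nat_lit 78) (nat_lit 152) (nat_lit 0) (XT.lf (nat_lit 0) (nat_lit 1622092418) (nat_lit 304) (nat_lit 486635884) (nat_lit 76) (nat_lit 8410420731) (nat_lit 30) (nat_lit 5) (nat_lit 34) (nat_lit 5) (nat_lit 31) (nat_lit 4) (nat_lit 261) (nat_lit 231) (nat_lit 228)) (XT.lf (nat_lit 0) (nat_lit 7103192468) (nat_lit 228) (nat_lit 1467472152) (nat_lit 0) (nat_lit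 2437336977) (nat_lit 28) (nat_lit 5) (nat_lit 31) (nat_lit 4) (nat_lit 28) (nat_lit 4) (nat_lit 262) (nat_lit 231) (nat_lit 227))) (XT.nd (nat_lit 78) (nat_lit 304) (nat_lit 0) (XT.lf (nat_lit 0) (nat_lit 1310674338) (nat_lit 228) (nat_lit 2937723470) (nat_lit 76) (nat_lit 7293457671) (nat_lit 25) (nat_lit 5) (nat_lit 28) (nat_lit 5) (nat_lit 26) (nat_lit 4) (nat_lit 263) (nat_lit 231) (nat_lit 226)) (XT.nd (nat_lit 78) (nat_lit 152) (nat_lit 0) (XT.lf (nat_lit 0) (nat_lit 6658540611) (nat_lit 228) (nat_lit 5008344279) (nat_lit 0) (nat_lit 456314237) (nat_lit 23) (nat_lit 5) (nat_lit 26) (nat_lit 4) (nat_lit 23) (nat_lit 4) (nat_lit 264) (nat_lit 231) (nat_lit 225)) (XT.lf (nat_lit 0) (nat_lit 4966432327) (nat_lit 152) (nat_lit 7387123645) (nat_lit 152) (nat_lit 402064971) (nat_lit 21) (nat_lit 4) (nat_lit 23) (nat_lit 5) (nat_lit 23) (nat_lit 4) (nat_lit 265) (nat_lit 231) (nat_lit 224))))))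 (XT.nd (nat_lit 312) (nat_lit 304) (nat_lit 0) (XT.nd (nat_lit 156) (nat_lit 304) (nat_lit 0) (XT.nd (nat_lit 78) (nat_lit 0) (nat_lit 0) (XT.lf (nat_lit 0) (nat_lit 2030107897) (nat_lit 76) (nat_lit 2721117123) (nat_lit 152) (nat_lit 8691539486) (nat_lit 19) (nat_lit 5) (nat_lit 20) (nat_lit 5) (nat_lit 21) (nat_lit 4) (nat_lit 266) (nat_lit 231) (nat_lit 223)) (XT.lf (nat_lit 0) (nat_lit 10215575255) (nat_lit 152) (nat_lit 1740151520) (nat_lit 0) (nat_lit 2233617239) (nat_lit 19) (nat_lit 5) (nat_lit 21) (nat_lit 4) (nat_lit 19) (nat_lit 4) (nat_lit 267) (nat_lit 231) (nat_lit 222))) (XT.nd (nat_lit 78) (nat_lit 76) (nat_lit 0) (XT.lf (nat_lit 0) (nat_lit 1021209274) (nat_lit 228) (nat_lit 6480324259) (nat_lit 76) (nat_lit 7496843427) (nat_lit 16) (nat_lit 5) (nat_lit 19) (nat_lit 5) (nat_lit 17) (nat_lit 4) (nat_lit 268) (nat_lit 231) (nat_lit 221)) (XT.lf (nat_lit 0) (nat_lit 3442198507)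 (nat_lit 76) (nat_lit 2686585222) (nat_lit 152) (nat_lit 9747838431) (nat_lit 15) (nat_lit 5) (nat_lit 16) (nat_lit 5) (nat_lit 17) (nat_lit 4) (nat_lit 269) (nat_lit 231) (nat_lit 220)))) (XT.nd (nat_lit 156) (nat_lit 152) (nat_lit 0) (XT.nd (nat_lit 78) (nat_lit 152) (nat_lit 0) (XT.lf (nat_lit 0) (nat_lit 11573956033) (nat_lit 152) (nat_lit 2851782367) (nat_lit 0) (nat_lit 2403270270) (nat_lit 15) (nat_lit 5) (nat_lit 17) (nat_lit 4) (nat_lit 15) (nat_lit 4) (nat_lit 270) (nat_lit 231) (nat_lit 219)) (XT.lf (nat_lit 0) (nat_lit 7333997002) (nat_lit 152) (nat_lit 10072230270) (nat_lit 152) (nat_lit 454091320) (nat_lit 13) (nat_lit 4) (nat_lit 15) (nat_lit 5) (nat_lit 15) (nat_lit 4) (nat_lit 271) (nat_lit 231) (nat_lit 218))) (XT.nd (nat_lit 78) (nat_lit 76) (nat_lit 0) (XT.lf (nat_lit 0) (nat_lit 4428335048) (nat_lit 228) (nat_lit 954360607) (nat_lit 76) (nat_lit 13595574587) (nat_lit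 12) (nat_lit 5) (nat_lit 15) (nat_lit 5) (nat_lit 13) (nat_lit 4) (nat_lit 272) (nat_lit 231) (nat_lit 217)) (XT.nd (nat_lit 78) (nat_lit 0) (nat_lit 0) (XT.lf (nat_lit 0) (nat_lit 9356167001) (nat_lit 76) (nat_lit 288824922) (nat_lit 152) (nat_lit 10542567082) (nat_lit 11) (nat_lit 5) (nat_lit 12) (nat_lit 5) (nat_lit 13) (nat_lit 4) (nat_lit 273) (nat_lit 231) (nat_lit 216)) (XT.lf (nat_lit 0) (nat_lit 15197596757) (nat_lit 152) (nat_lit 1361050125) (nat_lit 0) (nat_lit 4939245129) (nat_lit 11) (nat_lit 5) (nat_lit 13) (nat_lit 4) (nat_lit 11) (nat_lit 4) (nat_lit 274) (nat_lit 231) (nat_lit 215))))))) (XT.nd (nat_lit 702) (nat_lit 76) (nat_lit 0) (XT.nd (nat_lit 312) (nat_lit 228) (nat_lit 0) (XT.nd (nat_lit 156) (nat_lit 76) (nat_lit 0) (XT.nd (nat_lit 78) (nat_lit 76) (nat_lit 0) (XT.lf (nat_lit 0) (nat_lit 8856386374) (nat_lit 76) (nat_lit 12314811110) (nat_lit 76) (nat_lit 1743229530)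 (nat_lit 10) (nat_lit 4) (nat_lit 11) (nat_lit 5) (nat_lit 11) (nat_lit 4) (nat_lit 275) (nat_lit 231) (nat_lit 214)) (XT.lf (nat_lit 0) (nat_lit 2939630843) (nat_lit 152) (nat_lit 4835366085) (nat_lit 76) (nat_lit 16673848155) (nat_lit 9) (nat_lit 5) (nat_lit 11) (nat_lit 5) (nat_lit 10) (nat_lit 4) (nat_lit 276) (nat_lit 231) (nat_lit 213))) (XT.nd (nat_lit 78) (nat_lit 0) (nat_lit 0) (XT.lf (nat_lit 0) (nat_lit 4994400084) (nat_lit 76) (nat_lit 2871235816) (nat_lit 152) (nat_lit 18242647648) (nat_lit 8) (nat_lit 5) (nat_lit 9) (nat_lit 5) (nat_lit 10) (nat_lit 4) (nat_lit 277) (nat_lit 231) (nat_lit 212)) (XT.lf (nat_lit 0) (nat_lit 13165455304) (nat_lit 152) (nat_lit 12407699791) (nat_lit 0) (nat_lit 2328497641) (nat_lit 8) (nat_lit 5) (nat_lit 10) (nat_lit 4) (nat_lit 8) (nat_lit 4) (nat_lit 278) (nat_lit 231) (nat_lit 211)))) (XT.nd (nat_lit 156) (nat_lit 152) (nat_lit 0) (XT.nd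 (nat_lit 78) (nat_lit 76) (nat_lit 0) (XT.lf (nat_lit 0) (nat_lit 18804587365) (nat_lit 152) (nat_lit 3289928229) (nat_lit 0) (nat_lit 7748359829) (nat_lit 8) (nat_lit 5) (nat_lit 10) (nat_lit 4) (nat_lit 8) (nat_lit 4) (nat_lit 279) (nat_lit 231) (nat_lit 210)) (XT.lf (nat_lit 0) (nat_lit 6547863007) (nat_lit 76) (nat_lit 18325988609) (nat_lit 76) (nat_lit 7066733414) (nat_lit 7) (nat_lit 4) (nat_lit 8) (nat_lit 5) (nat_lit 8) (nat_lit 4) (nat_lit 280) (nat_lit 231) (nat_lit 209))) (XT.nd (nat_lit 78) (nat_lit 152) (nat_lit 0) (XT.lf (nat_lit 0) (nat_lit 17080701626) (nat_lit 76) (nat_lit 14287892775) (nat_lit 76) (nat_lit 2840649006) (nat_lit 7) (nat_lit 4) (nat_lit 8) (nat_lit 5) (nat_lit 8) (nat_lit 4) (nat_lit 281) (nat_lit 231) (nat_lit 208)) (XT.nd (nat_lit 78) (nat_lit 76) (nat_lit 0) (XT.lf (nat_lit 0) (nat_lit 1557784702) (nat_lit 152) (nat_lit 8427848622) (nat_lit 76) (nat_lit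 26678058026) (nat_lit 6) (nat_lit 5) (nat_lit 8) (nat_lit 5) (nat_lit 7) (nat_lit 4) (nat_lit 282) (nat_lit 231) (nat_lit 207)) (XT.lf (nat_lit 0) (nat_lit 762333778) (nat_lit 76) (nat_lit 5357086193) (nat_lit 152) (nat_lit 33197309516) (nat_lit 5) (nat_lit 5) (nat_lit 6) (nat_lit 5) (nat_lit 7) (nat_lit 4) (nat_lit 283) (nat_lit 231) (nat_lit 206)))))) (XT.nd (nat_lit 390) (nat_lit 0) (nat_lit 0) (XT.nd (nat_lit 156) (nat_lit 76) (nat_lit 0) (XT.nd (nat_lit 78) (nat_lit 0) (nat_lit 0) (XT.lf (nat_lit 0) (nat_lit 10813575281) (nat_lit 76) (nat_lit 281685126) (nat_lit 152) (nat_lit 31084383983) (nat_lit 5) (nat_lit 5) (nat_lit 6) (nat_lit 5) (nat_lit 7) (nat_lit 4) (nat_lit 284) (nat_lit 231) (nat_lit 205)) (XT.lf (nat_lit 0) (nat_lit 16458920578) (nat_lit 152) (nat_lit 23849483224) (nat_lit 0) (nat_lit 4963791275) (nat_lit 5) (nat_lit 5) (nat_lit 7) (nat_lit 4) (nat_lit 5) (nat_lit 4)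 (nat_lit 285) (nat_lit 231) (nat_lit 204))) (XT.nd (nat_lit 78) (nat_lit 76) (nat_lit 0) (XT.lf (nat_lit 0) (nat_lit 22171765751) (nat_lit 152) (nat_lit 15889675936) (nat_lit 0) (nat_lit 10554787054) (nat_lit 5) (nat_lit 5) (nat_lit 7) (nat_lit 4) (nat_lit 5) (nat_lit 4) (nat_lit 286) (nat_lit 231) (nat_lit 203)) (XT.nd (nat_lit 78) (nat_lit 76) (nat_lit 0) (XT.lf (nat_lit 0) (nat_lit 28263251931) (nat_lit 152) (nat_lit 7435080122) (nat_lit 0) (nat_lit 16533449720) (nat_lit 5) (nat_lit 5) (nat_lit 7) (nat_lit 4) (nat_lit 5) (nat_lit 4) (nat_lit 287) (nat_lit 231) (nat_lit 202)) (XT.lf (nat_lit 0) (nat_lit 1616131835) (nat_lit 76) (nat_lit 33178577326) (nat_lit 76) (nat_lit 21344308898) (nat_lit 4) (nat_lit 4) (nat_lit 5) (nat_lit 5) (nat_lit 5) (nat_lit 4) (nat_lit 288) (nat_lit 231) (nat_lit 201))))) (XT.nd (nat_lit 156) (nat_lit 0) (nat_lit 0) (XT.nd (nat_lit 78) (nat_lit 0) (nat_lit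 0) (XT.lf (nat_lit 0) (nat_lit 11531181097) (nat_lit 76) (nat_lit 30377848760) (nat_lit 76) (nat_lit 18446852355) (nat_lit 4) (nat_lit 4) (nat_lit 5) (nat_lit 5) (nat_lit 5) (nat_lit 4) (nat_lit 289) (nat_lit 231) (nat_lit 200)) (XT.lf (nat_lit 0) (nat_lit 22122986184) (nat_lit 76) (nat_lit 27405466128) (nat_lit 76) (nat_lit 15384906780) (nat_lit 4) (nat_lit 4) (nat_lit 5) (nat_lit 5) (nat_lit 5) (nat_lit 4) (nat_lit 290) (nat_lit 231) (nat_lit 199))) (XT.nd (nat_lit 78) (nat_lit 0) (nat_lit 0) (XT.lf (nat_lit 0) (nat_lit 33454313349) (nat_lit 76) (nat_lit 24243815310) (nat_lit 76) (nat_lit 12140327311) (nat_lit 4) (nat_lit 4) (nat_lit 5) (nat_lit 5) (nat_lit 5) (nat_lit 4) (nat_lit 291) (nat_lit 231) (nat_lit 198)) (XT.nd (nat_lit 78) (nat_lit 0) (nat_lit 0) (XT.lf (nat_lit 0) (nat_lit 45592311196) (nat_lit 76) (nat_lit 20874160597) (nat_lit 76) (nat_lit 8693886811) (nat_lit 4) (nat_lit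 4) (nat_lit 5) (nat_lit 5) (nat_lit 5) (nat_lit 4) (nat_lit 292) (nat_lit 231) (nat_lit 197)) (XT.lf (nat_lit 0) (nat_lit 58608908602) (nat_lit 76) (nat_lit 17276533664) (nat_lit 76) (nat_lit 5025161927) (nat_lit 4) (nat_lit 4) (nat_lit 5) (nat_lit 5) (nat_lit 5) (nat_lit 4) (nat_lit 293) (nat_lit 231) (nat_lit 196))))))))
noncomputable def xc31 : XT := (XT.nd (nat_lit 1404) (nat_lit 76) (nat_lit 0) (XT.nd (nat_lit 702) (nat_lit 0) (nat_lit 0) (XT.nd (nat_lit 312) (nat_lit 0) (nat_lit 0) (XT.nd (nat_lit 156) (nat_lit 76) (nat_lit 0) (XT.nd (nat_lit 78) (nat_lit 76) (nat_lit 0) (XT.lf (nat_lit 0) (nat_lit 72581240959) (nat_lit 76) (nat_lit 13429615243) (nat_lit 76) (nat_lit 1112412069) (nat_lit 4) (nat_lit 4) (nat_lit 5) (nat_lit 5) (nat_lit 5) (nat_lit 4) (nat_lit 294) (nat_lit 231) (nat_lit 195)) (XT.lf (nat_lit 0) (nat_lit 2969368690) (nat_lit 152) (nat_lit 6290952391) (nat_lit 76)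 (nat_lit 84572450887) (nat_lit 3) (nat_lit 5) (nat_lit 5) (nat_lit 5) (nat_lit 4) (nat_lit 4) (nat_lit 295) (nat_lit 231) (nat_lit 194))) (XT.nd (nat_lit 78) (nat_lit 0) (nat_lit 0) (XT.lf (nat_lit 0) (nat_lit 2610218037) (nat_lit 76) (nat_lit 4728716641) (nat_lit 152) (nat_lit 93739215507) (nat_lit 2) (nat_lit 5) (nat_lit 3) (nat_lit 5) (nat_lit 4) (nat_lit 4) (nat_lit 296) (nat_lit 231) (nat_lit 193)) (XT.lf (nat_lit 0) (nat_lit 12132390576) (nat_lit 152) (nat_lit 96526940320) (nat_lit 0) (nat_lit 240145651) (nat_lit 2) (nat_lit 5) (nat_lit 4) (nat_lit 4) (nat_lit 2) (nat_lit 4) (nat_lit 297) (nat_lit 231) (nat_lit 192)))) (XT.nd (nat_lit 156) (nat_lit 0) (nat_lit 0) (XT.nd (nat_lit 78) (nat_lit 0) (nat_lit 0) (XT.lf (nat_lit 0) (nat_lit 17352355176) (nat_lit 152) (nat_lit 94578007450) (nat_lit 0) (nat_lit 5414026374) (nat_lit 2) (nat_lit 5) (nat_lit 4) (nat_lit 4) (nat_lit 2) (nat_lit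 4) (nat_lit 298) (nat_lit 231) (nat_lit 191)) (XT.lf (nat_lit 0) (nat_lit 22955933082) (nat_lit 152) (nat_lit 92535755787) (nat_lit 0) (nat_lit 10974934024) (nat_lit 2) (nat_lit 5) (nat_lit 4) (nat_lit 4) (nat_lit 2) (nat_lit 4) (nat_lit 299) (nat_lit 231) (nat_lit 190))) (XT.nd (nat_lit 78) (nat_lit 0) (nat_lit 0) (XT.lf (nat_lit 0) (nat_lit 28976330683) (nat_lit 152) (nat_lit 90388083100) (nat_lit 0) (nat_lit 16955822128) (nat_lit 2) (nat_lit 5) (nat_lit 4) (nat_lit 4) (nat_lit 2) (nat_lit 4) (nat_lit 300) (nat_lit 231) (nat_lit 189)) (XT.nd (nat_lit 78) (nat_lit 0) (nat_lit 0) (XT.lf (nat_lit 0) (nat_lit 35449224409) (nat_lit 152) (nat_lit 88122262438) (nat_lit 0) (nat_lit 23392132986) (nat_lit 2) (nat_lit 5) (nat_lit 4) (nat_lit 4) (nat_lit 2) (nat_lit 4) (nat_lit 301) (nat_lit 231) (nat_lit 188)) (XT.lf (nat_lit 0) (nat_lit 42412972148) (nat_lit 152) (nat_lit 85724866717) (nat_lit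 0) (nat_lit 30322007700) (nat_lit 2) (nat_lit 5) (nat_lit 4) (nat_lit 4) (nat_lit 2) (nat_lit 4) (nat_lit 302) (nat_lit 231) (nat_lit 187)))))) (XT.nd (nat_lit 312) (nat_lit 0) (nat_lit 0) (XT.nd (nat_lit 156) (nat_lit 0) (nat_lit 0) (XT.nd (nat_lit 78) (nat_lit 0) (nat_lit 0) (XT.lf (nat_lit 0) (nat_lit 49908840554) (nat_lit 152) (nat_lit 83181689147) (nat_lit 0) (nat_lit 37786512194) (nat_lit 2) (nat_lit 5) (nat_lit 4) (nat_lit 4) (nat_lit 2) (nat_lit 4) (nat_lit 303) (nat_lit 231) (nat_lit 186)) (XT.lf (nat_lit 0) (nat_lit 57981249588) (nat_lit 152) (nat_lit 80477659046) (nat_lit 0) (nat_lit 45829880568) (nat_lit 2) (nat_lit 5) (nat_lit 4) (nat_lit 4) (nat_lit 2) (nat_lit 4) (nat_lit 304) (nat_lit 231) (nat_lit 185))) (XT.nd (nat_lit 78) (nat_lit 0) (nat_lit 0) (XT.lf (nat_lit 0) (nat_lit 66678035747) (nat_lit 152) (nat_lit 77596752532) (nat_lit 0) (nat_lit 54499777227) (nat_lit 2)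 (nat_lit 5) (nat_lit 4) (nat_lit 4) (nat_lit 2) (nat_lit 4) (nat_lit 305) (nat_lit 231) (nat_lit 184)) (XT.lf (nat_lit 0) (nat_lit 76050735543) (nat_lit 152) (nat_lit 74521897567) (nat_lit 0) (nat_lit 63847579338) (nat_lit 2) (nat_lit 5) (nat_lit 4) (nat_lit 4) (nat_lit 2) (nat_lit 4) (nat_lit 306) (nat_lit 231) (nat_lit 183)))) (XT.nd (nat_lit 156) (nat_lit 0) (nat_lit 0) (XT.nd (nat_lit 78) (nat_lit 0) (nat_lit 0) (XT.lf (nat_lit 0) (nat_lit 86154890899) (nat_lit 152) (nat_lit 71234872787) (nat_lit 0) (nat_lit 73928681282) (nat_lit 2) (nat_lit 5) (nat_lit 4) (nat_lit 4) (nat_lit 2) (nat_lit 4) (nat_lit 307) (nat_lit 231) (nat_lit 182)) (XT.lf (nat_lit 0) (nat_lit 97050378293) (nat_lit 152) (nat_lit 67716199527) (nat_lit 0) (nat_lit 84802822924) (nat_lit 2) (nat_lit 5) (nat_lit 4) (nat_lit 4) (nat_lit 2) (nat_lit 4) (nat_lit 308) (nat_lit 231) (nat_lit 181))) (XT.nd (nat_lit 78) (nat_lit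 0) (nat_lit 0) (XT.lf (nat_lit 0) (nat_lit 108801763575) (nat_lit 152) (nat_lit 63945026391) (nat_lit 0) (nat_lit 96534443621) (nat_lit 2) (nat_lit 5) (nat_lit 4) (nat_lit 4) (nat_lit 2) (nat_lit 4) (nat_lit 309) (nat_lit 231) (nat_lit 180)) (XT.nd (nat_lit 78) (nat_lit 0) (nat_lit 0) (XT.lf (nat_lit 0) (nat_lit 121478684584) (nat_lit 152) (nat_lit 59899005686) (nat_lit 0) (nat_lit 109193064088) (nat_lit 2) (nat_lit 5) (nat_lit 4) (nat_lit 4) (nat_lit 2) (nat_lit 4) (nat_lit 310) (nat_lit 231) (nat_lit 179)) (XT.lf (nat_lit 0) (nat_lit 135156263814) (nat_lit 152) (nat_lit 55554160992) (nat_lit 0) (nat_lit 122853698373) (nat_lit 2) (nat_lit 5) (nat_lit 4) (nat_lit 4) (nat_lit 2) (nat_lit 4) (nat_lit 311) (nat_lit 231) (nat_lit 178))))))) (XT.nd (nat_lit 702) (nat_lit 0) (nat_lit 0) (XT.nd (nat_lit 312) (nat_lit 76) (nat_lit 0) (XT.nd (nat_lit 156) (nat_lit 0) (nat_lit 0) (XT.nd (nat_lit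 78) (nat_lit 0) (nat_lit 0) (XT.lf (nat_lit 0) (nat_lit 149915553588) (nat_lit 152) (nat_lit 50884745082) (nat_lit 0) (nat_lit 137597298382) (nat_lit 2) (nat_lit 5) (nat_lit 4) (nat_lit 4) (nat_lit 2) (nat_lit 4) (nat_lit 312) (nat_lit 231) (nat_lit 177)) (XT.lf (nat_lit 0) (nat_lit 165844016363) (nat_lit 152) (nat_lit 45863087342) (nat_lit 0) (nat_lit 153511233597) (nat_lit 2) (nat_lit 5) (nat_lit 4) (nat_lit 4) (nat_lit 2) (nat_lit 4) (nat_lit 313) (nat_lit 231) (nat_lit 176))) (XT.nd (nat_lit 78) (nat_lit 0) (nat_lit 0) (XT.lf (nat_lit 0) (nat_lit 183036043030) (nat_lit 152) (nat_lit 40459429802) (nat_lit 0) (nat_lit 170689808819) (nat_lit 2) (nat_lit 5) (nat_lit 4) (nat_lit 4) (nat_lit 2) (nat_lit 4) (nat_lit 314) (nat_lit 231) (nat_lit 175)) (XT.lf (nat_lit 0) (nat_lit 201593512265) (nat_lit 152) (nat_lit 34641750787) (nat_lit 0) (nat_lit 189234823013) (nat_lit 2) (nat_lit 5) (nat_lit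 4) (nat_lit 4) (nat_lit 2) (nat_lit 4) (nat_lit 315) (nat_lit 231) (nat_lit 174)))) (XT.nd (nat_lit 156) (nat_lit 76) (nat_lit 0) (XT.nd (nat_lit 78) (nat_lit 0) (nat_lit 0) (XT.lf (nat_lit 0) (nat_lit 221626394257) (nat_lit 152) (nat_lit 28375575162) (nat_lit 0) (nat_lit 209256172559) (nat_lit 2) (nat_lit 5) (nat_lit 4) (nat_lit 4) (nat_lit 2) (nat_lit 4) (nat_lit 316) (nat_lit 231) (nat_lit 173)) (XT.lf (nat_lit 0) (nat_lit 243253402379) (nat_lit 152) (nat_lit 21623770034) (nat_lit 0) (nat_lit 230872502491) (nat_lit 2) (nat_lit 5) (nat_lit 4) (nat_lit 4) (nat_lit 2) (nat_lit 4) (nat_lit 317) (nat_lit 231) (nat_lit 172))) (XT.nd (nat_lit 78) (nat_lit 76) (nat_lit 0) (XT.lf (nat_lit 0) (nat_lit 266602696681) (nat_lit 152) (nat_lit 14346324707) (nat_lit 0) (nat_lit 254211909580) (nat_lit 2) (nat_lit 5) (nat_lit 4) (nat_lit 4) (nat_lit 2) (nat_lit 4) (nat_lit 318) (nat_lit 231) (nat_lit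 171)) (XT.nd (nat_lit 78) (nat_lit 76) (nat_lit 0) (XT.lf (nat_lit 0) (nat_lit 291812643351) (nat_lit 152) (nat_lit 6500113578) (nat_lit 0) (nat_lit 279412701422) (nat_lit 2) (nat_lit 5) (nat_lit 4) (nat_lit 4) (nat_lit 2) (nat_lit 4) (nat_lit 319) (nat_lit 231) (nat_lit 170)) (XT.lf (nat_lit 0) (nat_lit 2026210818) (nat_lit 76) (nat_lit 317038058675) (nat_lit 76) (nat_lit 304629640055) (nat_lit 1) (nat_lit 4) (nat_lit 2) (nat_lit 5) (nat_lit 2) (nat_lit 4) (nat_lit 320) (nat_lit 231) (nat_lit 169)))))) (XT.nd (nat_lit 32526) (nat_lit 0) (nat_lit 2204) (XT.nd (nat_lit 156) (nat_lit 0) (nat_lit 0) (XT.nd (nat_lit 78) (nat_lit 0) (nat_lit 0) (XT.lf (nat_lit 0) (nat_lit 11454863513) (nat_lit 76) (nat_lit 337147953282) (nat_lit 76) (nat_lit 324731685873) (nat_lit 1) (nat_lit 4) (nat_lit 2) (nat_lit 5) (nat_lit 2) (nat_lit 4) (nat_lit 321) (nat_lit 231) (nat_lit 168)) (XT.lf (nat_lit 0) (nat_lit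 21626794895) (nat_lit 76) (nat_lit 358871693064) (nat_lit 76) (nat_lit 346448158258) (nat_lit 1) (nat_lit 4) (nat_lit 2) (nat_lit 5) (nat_lit 2) (nat_lit 4) (nat_lit 322) (nat_lit 231) (nat_lit 167))) (XT.nd (nat_lit 78) (nat_lit 0) (nat_lit 0) (XT.lf (nat_lit 0) (nat_lit 32602283075) (nat_lit 76) (nat_lit 382338011293) (nat_lit 76) (nat_lit 369907747416) (nat_lit 1) (nat_lit 4) (nat_lit 2) (nat_lit 5) (nat_lit 2) (nat_lit 4) (nat_lit 323) (nat_lit 231) (nat_lit 166)) (XT.nd (nat_lit 32214) (nat_lit 0) (nat_lit 3572) (XT.lf (nat_lit 0) (nat_lit 44446367983) (nat_lit 76) (nat_lit 407685967634) (nat_lit 76) (nat_lit 395249473136) (nat_lit 1) (nat_lit 4) (nat_lit 2) (nat_lit 5) (nat_lit 2) (nat_lit 4) (nat_lit 324) (nat_lit 231) (nat_lit 165)) (XT.lf (nat_lit 0) (nat_lit 2053108589) (nat_lit 304) (nat_lit 209870309) (nat_lit 0) (nat_lit 2053108589) (nat_lit 48) (nat_lit 5) (nat_lit 52) (nat_lit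 4) (nat_lit 48) (nat_lit 4) (nat_lit 256) (nat_lit 232) (nat_lit 232))))) (XT.nd (nat_lit 156) (nat_lit 760) (nat_lit 0) (XT.nd (nat_lit 78) (nat_lit 228) (nat_lit 0) (XT.lf (nat_lit 0) (nat_lit 730318501) (nat_lit 380) (nat_lit 133615223) (nat_lit 76) (nat_lit 8085448157) (nat_lit 43) (nat_lit 5) (nat_lit 48) (nat_lit 5) (nat_lit 44) (nat_lit 4) (nat_lit 257) (nat_lit 232) (nat_lit 231)) (XT.lf (nat_lit 0) (nat_lit 6103174988) (nat_lit 304) (nat_lit 81338816) (nat_lit 0) (nat_lit 3111995311) (nat_lit 40) (nat_lit 5) (nat_lit 44) (nat_lit 4) (nat_lit 40) (nat_lit 4) (nat_lit 258) (nat_lit 232) (nat_lit 230))) (XT.nd (nat_lit 78) (nat_lit 456) (nat_lit 0) (XT.lf (nat_lit 0) (nat_lit 1991496659) (nat_lit 304) (nat_lit 240155185) (nat_lit 76) (nat_lit 7447451758) (nat_lit 36) (nat_lit 5) (nat_lit 40) (nat_lit 5) (nat_lit 37) (nat_lit 4) (nat_lit 259) (nat_lit 232) (nat_lit 229)) (XT.nd (nat_lit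 78) (nat_lit 304) (nat_lit 0) (XT.lf (nat_lit 0) (nat_lit 7341558311) (nat_lit 228) (nat_lit 705340467) (nat_lit 0) (nat_lit 2050478185) (nat_lit 34) (nat_lit 5) (nat_lit 37) (nat_lit 4) (nat_lit 34) (nat_lit 4) (nat_lit 260) (nat_lit 232) (nat_lit 228)) (XT.lf (nat_lit 0) (nat_lit 2362971611) (nat_lit 304) (nat_lit 1534211247) (nat_lit 76) (nat_lit 6656895967) (nat_lit 30) (nat_lit 5) (nat_lit 34) (nat_lit 5) (nat_lit 31) (nat_lit 4) (nat_lit 261) (nat_lit 232) (nat_lit 227))))))))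
noncomputable def xc32 : XT := (XT.nd (nat_lit 1404) (nat_lit 456) (nat_lit 0) (XT.nd (nat_lit 702) (nat_lit 532) (nat_lit 0) (XT.nd (nat_lit 312) (nat_lit 456) (nat_lit 0) (XT.nd (nat_lit 156) (nat_lit 304) (nat_lit 0) (XT.nd (nat_lit 78) (nat_lit 228) (nat_lit 0) (XT.lf (nat_lit 0) (nat_lit 7652479871) (nat_lit 228) (nat_lit 2781191938) (nat_lit 0) (nat_lit 619155162) (nat_lit 28) (nat_lit 5) (nat_lit 31) (nat_lit 4) (nat_lit 28) (nat_lit 4) (nat_lit 262) (nat_lit 232) (nat_lit 226)) (XT.lf (nat_lit 0) (nat_lit 1635903949) (nat_lit 228) (nat_lit 4567453439) (nat_lit 76) (nat_lit 5391362640) (nat_lit 25) (nat_lit 5) (nat_lit 28) (nat_lit 5) (nat_lit 26) (nat_lit 4) (nat_lit 263) (nat_lit 232) (nat_lit 225))) (XT.nd (nat_lit 78) (nat_lit 152) (nat_lit 0) (XT.lf (nat_lit 0) (nat_lit 5229331795) (nat_lit 152) (nat_lit 1586454665) (nat_lit 228) (nat_lit 5368934415) (nat_lit 23) (nat_lit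 5) (nat_lit 25) (nat_lit 5) (nat_lit 26) (nat_lit 4) (nat_lit 264) (nat_lit 232) (nat_lit 224)) (XT.lf (nat_lit 0) (nat_lit 2774525846) (nat_lit 152) (nat_lit 9551809724) (nat_lit 152) (nat_lit 500269335) (nat_lit 21) (nat_lit 4) (nat_lit 23) (nat_lit 5) (nat_lit 23) (nat_lit 4) (nat_lit 265) (nat_lit 232) (nat_lit 223)))) (XT.nd (nat_lit 156) (nat_lit 304) (nat_lit 0) (XT.nd (nat_lit 78) (nat_lit 76) (nat_lit 0) (XT.lf (nat_lit 0) (nat_lit 4503140570) (nat_lit 228) (nat_lit 491254741) (nat_lit 76) (nat_lit 8527291652) (nat_lit 20) (nat_lit 5) (nat_lit 23) (nat_lit 5) (nat_lit 21) (nat_lit 4) (nat_lit 266) (nat_lit 232) (nat_lit 222)) (XT.lf (nat_lit 0) (nat_lit 9762860571) (nat_lit 76) (nat_lit 45427721) (nat_lit 152) (nat_lit 4468133369) (nat_lit 19) (nat_lit 5) (nat_lit 20) (nat_lit 5) (nat_lit 21) (nat_lit 4) (nat_lit 267) (nat_lit 232) (nat_lit 221))) (XT.nd (nat_lit 78) (nat_lit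 76) (nat_lit 0) (XT.lf (nat_lit 0) (nat_lit 383899561) (nat_lit 228) (nat_lit 9612563555) (nat_lit 76) (nat_lit 5097487819) (nat_lit 16) (nat_lit 5) (nat_lit 19) (nat_lit 5) (nat_lit 17) (nat_lit 4) (nat_lit 268) (nat_lit 232) (nat_lit 220)) (XT.nd (nat_lit 78) (nat_lit 0) (nat_lit 0) (XT.lf (nat_lit 0) (nat_lit 27543938) (nat_lit 76) (nat_lit 5306365089) (nat_lit 152) (nat_lit 10646324630) (nat_lit 15) (nat_lit 5) (nat_lit 16) (nat_lit 5) (nat_lit 17) (nat_lit 4) (nat_lit 269) (nat_lit 232) (nat_lit 219)) (XT.lf (nat_lit 0) (nat_lit 10437671080) (nat_lit 76) (nat_lit 203532088) (nat_lit 152) (nat_lit 6298458384) (nat_lit 15) (nat_lit 5) (nat_lit 16) (nat_lit 5) (nat_lit 17) (nat_lit 4) (nat_lit 270) (nat_lit 232) (nat_lit 218)))))) (XT.nd (nat_lit 312) (nat_lit 228) (nat_lit 0) (XT.nd (nat_lit 156) (nat_lit 76) (nat_lit 0) (XT.nd (nat_lit 78) (nat_lit 76) (nat_lit 0) (XT.lf (nat_lit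 0) (nat_lit 3404086366) (nat_lit 152) (nat_lit 12912118448) (nat_lit 152) (nat_lit 1662766689) (nat_lit 13) (nat_lit 4) (nat_lit 15) (nat_lit 5) (nat_lit 15) (nat_lit 4) (nat_lit 271) (nat_lit 232) (nat_lit 217)) (XT.lf (nat_lit 0) (nat_lit 3168564487) (nat_lit 228) (nat_lit 5137413546) (nat_lit 76) (nat_lit 10796498095) (nat_lit 12) (nat_lit 5) (nat_lit 15) (nat_lit 5) (nat_lit 13) (nat_lit 4) (nat_lit 272) (nat_lit 232) (nat_lit 216))) (XT.nd (nat_lit 78) (nat_lit 0) (nat_lit 0) (XT.lf (nat_lit 0) (nat_lit 4888108086) (nat_lit 76) (nat_lit 3344224400) (nat_lit 152) (nat_lit 12087188345) (nat_lit 11) (nat_lit 5) (nat_lit 12) (nat_lit 5) (nat_lit 13) (nat_lit 4) (nat_lit 273) (nat_lit 232) (nat_lit 215)) (XT.lf (nat_lit 0) (nat_lit 13657255308) (nat_lit 152) (nat_lit 6052368616) (nat_lit 0) (nat_lit 1926717249) (nat_lit 11) (nat_lit 5) (nat_lit 13) (nat_lit 4) (nat_lit 11) (nat_lit 4)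 (nat_lit 274) (nat_lit 232) (nat_lit 214)))) (XT.nd (nat_lit 156) (nat_lit 76) (nat_lit 0) (XT.nd (nat_lit 78) (nat_lit 76) (nat_lit 0) (XT.lf (nat_lit 0) (nat_lit 3876991425) (nat_lit 76) (nat_lit 15602067982) (nat_lit 76) (nat_lit 3581502190) (nat_lit 10) (nat_lit 4) (nat_lit 11) (nat_lit 5) (nat_lit 11) (nat_lit 4) (nat_lit 275) (nat_lit 232) (nat_lit 213)) (XT.lf (nat_lit 0) (nat_lit 1088462197) (nat_lit 152) (nat_lit 10057762486) (nat_lit 76) (nat_lit 13453860918) (nat_lit 9) (nat_lit 5) (nat_lit 11) (nat_lit 5) (nat_lit 10) (nat_lit 4) (nat_lit 276) (nat_lit 232) (nat_lit 212))) (XT.nd (nat_lit 78) (nat_lit 76) (nat_lit 0) (XT.lf (nat_lit 0) (nat_lit 5870071976) (nat_lit 152) (nat_lit 504114473) (nat_lit 76) (nat_lit 19892635430) (nat_lit 9) (nat_lit 5) (nat_lit 11) (nat_lit 5) (nat_lit 10) (nat_lit 4) (nat_lit 277) (nat_lit 232) (nat_lit 211)) (XT.nd (nat_lit 78) (nat_lit 0) (nat_lit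 0) (XT.lf (nat_lit 0) (nat_lit 9906990944) (nat_lit 76) (nat_lit 1153977999) (nat_lit 152) (nat_lit 17004740515) (nat_lit 8) (nat_lit 5) (nat_lit 9) (nat_lit 5) (nat_lit 10) (nat_lit 4) (nat_lit 278) (nat_lit 232) (nat_lit 210)) (XT.lf (nat_lit 0) (nat_lit 16622839526) (nat_lit 152) (nat_lit 9128206352) (nat_lit 0) (nat_lit 4259816256) (nat_lit 8) (nat_lit 5) (nat_lit 10) (nat_lit 4) (nat_lit 8) (nat_lit 4) (nat_lit 279) (nat_lit 232) (nat_lit 209))))))) (XT.nd (nat_lit 702) (nat_lit 228) (nat_lit 0) (XT.nd (nat_lit 312) (nat_lit 76) (nat_lit 0) (XT.nd (nat_lit 156) (nat_lit 76) (nat_lit 0) (XT.nd (nat_lit 78) (nat_lit 0) (nat_lit 0) (XT.lf (nat_lit 0) (nat_lit 415843989) (nat_lit 76) (nat_lit 22125665631) (nat_lit 76) (nat_lit 9574653787) (nat_lit 7) (nat_lit 4) (nat_lit 8) (nat_lit 5) (nat_lit 8) (nat_lit 4) (nat_lit 280) (nat_lit 232) (nat_lit 208)) (XT.lf (nat_lit 0) (nat_lit 10855440892)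 (nat_lit 76) (nat_lit 18128563012) (nat_lit 76) (nat_lit 5403487675) (nat_lit 7) (nat_lit 4) (nat_lit 8) (nat_lit 5) (nat_lit 8) (nat_lit 4) (nat_lit 281) (nat_lit 232) (nat_lit 207))) (XT.nd (nat_lit 78) (nat_lit 76) (nat_lit 0) (XT.lf (nat_lit 0) (nat_lit 21950628910) (nat_lit 76) (nat_lit 13890642081) (nat_lit 76) (nat_lit 1004396842) (nat_lit 7) (nat_lit 4) (nat_lit 8) (nat_lit 5) (nat_lit 8) (nat_lit 4) (nat_lit 282) (nat_lit 232) (nat_lit 206)) (XT.lf (nat_lit 0) (nat_lit 3531906615) (nat_lit 152) (nat_lit 5795068068) (nat_lit 76) (nat_lit 30175436140) (nat_lit 6) (nat_lit 5) (nat_lit 8) (nat_lit 5) (nat_lit 7) (nat_lit 4) (nat_lit 283) (nat_lit 232) (nat_lit 205)))) (XT.nd (nat_lit 156) (nat_lit 0) (nat_lit 0) (XT.nd (nat_lit 78) (nat_lit 0) (nat_lit 0) (XT.lf (nat_lit 0) (nat_lit 3986610368) (nat_lit 76) (nat_lit 4384250222) (nat_lit 152) (nat_lit 34001352832) (nat_lit 5) (nat_lit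 5) (nat_lit 6) (nat_lit 5) (nat_lit 7) (nat_lit 4) (nat_lit 284) (nat_lit 232) (nat_lit 204)) (XT.lf (nat_lit 0) (nat_lit 13629767484) (nat_lit 152) (nat_lit 30878693353) (nat_lit 0) (nat_lit 961581096) (nat_lit 5) (nat_lit 5) (nat_lit 7) (nat_lit 4) (nat_lit 5) (nat_lit 4) (nat_lit 285) (nat_lit 232) (nat_lit 203))) (XT.nd (nat_lit 78) (nat_lit 0) (nat_lit 0) (XT.lf (nat_lit 0) (nat_lit 19304926788) (nat_lit 152) (nat_lit 22987153400) (nat_lit 0) (nat_lit 6523916887) (nat_lit 5) (nat_lit 5) (nat_lit 7) (nat_lit 4) (nat_lit 5) (nat_lit 4) (nat_lit 286) (nat_lit 232) (nat_lit 202)) (XT.nd (nat_lit 78) (nat_lit 0) (nat_lit 0) (XT.lf (nat_lit 0) (nat_lit 25361518645) (nat_lit 152) (nat_lit 14595768083) (nat_lit 0) (nat_lit 12476042527) (nat_lit 5) (nat_lit 5) (nat_lit 7) (nat_lit 4) (nat_lit 5) (nat_lit 4) (nat_lit 287) (nat_lit 232) (nat_lit 201)) (XT.lf (nat_lit 0) (nat_lit 31835433969)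 (nat_lit 152) (nat_lit 5654810674) (nat_lit 0) (nat_lit 18853229873) (nat_lit 5) (nat_lit 5) (nat_lit 7) (nat_lit 4) (nat_lit 5) (nat_lit 4) (nat_lit 288) (nat_lit 232) (nat_lit 200)))))) (XT.nd (nat_lit 312) (nat_lit 152) (nat_lit 0) (XT.nd (nat_lit 156) (nat_lit 0) (nat_lit 0) (XT.nd (nat_lit 78) (nat_lit 0) (nat_lit 0) (XT.lf (nat_lit 0) (nat_lit 4017280337) (nat_lit 76) (nat_lit 34810477369) (nat_lit 76) (nat_lit 21738710331) (nat_lit 4) (nat_lit 4) (nat_lit 5) (nat_lit 5) (nat_lit 5) (nat_lit 4) (nat_lit 289) (nat_lit 232) (nat_lit 199)) (XT.lf (nat_lit 0) (nat_lit 14557247766) (nat_lit 76) (nat_lit 31861422825) (nat_lit 76) (nat_lit 18706727136) (nat_lit 4) (nat_lit 4) (nat_lit 5) (nat_lit 5) (nat_lit 5) (nat_lit 4) (nat_lit 290) (nat_lit 232) (nat_lit 198))) (XT.nd (nat_lit 78) (nat_lit 0) (nat_lit 0) (XT.lf (nat_lit 0) (nat_lit 25840577099) (nat_lit 76) (nat_lit 28721372089) (nat_lit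 76) (nat_lit 15489890613) (nat_lit 4) (nat_lit 4) (nat_lit 5) (nat_lit 5) (nat_lit 5) (nat_lit 4) (nat_lit 291) (nat_lit 232) (nat_lit 197)) (XT.lf (nat_lit 0) (nat_lit 37934132509) (nat_lit 76) (nat_lit 25371717452) (nat_lit 76) (nat_lit 12069138024) (nat_lit 4) (nat_lit 4) (nat_lit 5) (nat_lit 5) (nat_lit 5) (nat_lit 4) (nat_lit 292) (nat_lit 232) (nat_lit 196)))) (XT.nd (nat_lit 156) (nat_lit 152) (nat_lit 0) (XT.nd (nat_lit 78) (nat_lit 0) (nat_lit 0) (XT.lf (nat_lit 0) (nat_lit 50909579510) (nat_lit 76) (nat_lit 21792609108) (nat_lit 76) (nat_lit 8424198244) (nat_lit 4) (nat_lit 4) (nat_lit 5) (nat_lit 5) (nat_lit 5) (nat_lit 4) (nat_lit 293) (nat_lit 232) (nat_lit 195)) (XT.lf (nat_lit 0) (nat_lit 64843809641) (nat_lit 76) (nat_lit 17962837528) (nat_lit 76) (nat_lit 4533471630) (nat_lit 4) (nat_lit 4) (nat_lit 5) (nat_lit 5) (nat_lit 5) (nat_lit 4) (nat_lit 294) (nat_lit 232) (nat_lit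 194))) (XT.nd (nat_lit 78) (nat_lit 152) (nat_lit 0) (XT.lf (nat_lit 0) (nat_lit 79819396116) (nat_lit 76) (nat_lit 13859707768) (nat_lit 76) (nat_lit 373902024) (nat_lit 4) (nat_lit 4) (nat_lit 5) (nat_lit 5) (nat_lit 5) (nat_lit 4) (nat_lit 295) (nat_lit 232) (nat_lit 193)) (XT.nd (nat_lit 78) (nat_lit 76) (nat_lit 0) (XT.lf (nat_lit 0) (nat_lit 3948601284) (nat_lit 152) (nat_lit 5443432227) (nat_lit 76) (nat_lit 91909610394) (nat_lit 3) (nat_lit 5) (nat_lit 5) (nat_lit 5) (nat_lit 4) (nat_lit 4) (nat_lit 296) (nat_lit 232) (nat_lit 192)) (XT.lf (nat_lit 0) (nat_lit 4111127872) (nat_lit 76) (nat_lit 4521838373) (nat_lit 152) (nat_lit 100495473758) (nat_lit 2) (nat_lit 5) (nat_lit 3) (nat_lit 5) (nat_lit 4) (nat_lit 4) (nat_lit 297) (nat_lit 232) (nat_lit 191))))))))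
noncomputable def xc33 : XT := (XT.nd (nat_lit 1404) (nat_lit 76) (nat_lit 0) (XT.nd (nat_lit 702) (nat_lit 0) (nat_lit 0) (XT.nd (nat_lit 312) (nat_lit 0) (nat_lit 0) (XT.nd (nat_lit 156) (nat_lit 0) (nat_lit 0) (XT.nd (nat_lit 78) (nat_lit 0) (nat_lit 0) (XT.lf (nat_lit 0) (nat_lit 13765993881) (nat_lit 152) (nat_lit 103027874844) (nat_lit 0) (nat_lit 783844642) (nat_lit 2) (nat_lit 5) (nat_lit 4) (nat_lit 4) (nat_lit 2) (nat_lit 4) (nat_lit 298) (nat_lit 232) (nat_lit 190)) (XT.lf (nat_lit 0) (nat_lit 19354443645) (nat_lit 152) (nat_lit 101013488137) (nat_lit 0) (nat_lit 6332784908) (nat_lit 2) (nat_lit 5) (nat_lit 4) (nat_lit 4) (nat_lit 2) (nat_lit 4) (nat_lit 299) (nat_lit 232) (nat_lit 189))) (XT.nd (nat_lit 78) (nat_lit 0) (nat_lit 0) (XT.lf (nat_lit 0) (nat_lit 25360833706) (nat_lit 152) (nat_lit 98891616335) (nat_lit 0) (nat_lit 12302592102) (nat_lit 2) (nat_lit 5) (nat_lit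 4) (nat_lit 4) (nat_lit 2) (nat_lit 4) (nat_lit 300) (nat_lit 232) (nat_lit 188)) (XT.lf (nat_lit 0) (nat_lit 31820757487) (nat_lit 152) (nat_lit 96649685382) (nat_lit 0) (nat_lit 18728642857) (nat_lit 2) (nat_lit 5) (nat_lit 4) (nat_lit 4) (nat_lit 2) (nat_lit 4) (nat_lit 301) (nat_lit 232) (nat_lit 187)))) (XT.nd (nat_lit 156) (nat_lit 0) (nat_lit 0) (XT.nd (nat_lit 78) (nat_lit 0) (nat_lit 0) (XT.lf (nat_lit 0) (nat_lit 38772496018) (nat_lit 152) (nat_lit 94274409761) (nat_lit 0) (nat_lit 25649017476) (nat_lit 2) (nat_lit 5) (nat_lit 4) (nat_lit 4) (nat_lit 2) (nat_lit 4) (nat_lit 302) (nat_lit 232) (nat_lit 186)) (XT.lf (nat_lit 0) (nat_lit 46257244787) (nat_lit 152) (nat_lit 91751713765) (nat_lit 0) (nat_lit 33104725586) (nat_lit 2) (nat_lit 5) (nat_lit 4) (nat_lit 4) (nat_lit 2) (nat_lit 4) (nat_lit 303) (nat_lit 232) (nat_lit 185))) (XT.nd (nat_lit 78) (nat_lit 0) (nat_lit 0) (XT.lf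 (nat_lit 0) (nat_lit 54319357861) (nat_lit 152) (nat_lit 89066648085) (nat_lit 0) (nat_lit 41139949159) (nat_lit 2) (nat_lit 5) (nat_lit 4) (nat_lit 4) (nat_lit 2) (nat_lit 4) (nat_lit 304) (nat_lit 232) (nat_lit 184)) (XT.nd (nat_lit 78) (nat_lit 0) (nat_lit 0) (XT.lf (nat_lit 0) (nat_lit 63006610724) (nat_lit 152) (nat_lit 86203301220) (nat_lit 0) (nat_lit 49802304337) (nat_lit 2) (nat_lit 5) (nat_lit 4) (nat_lit 4) (nat_lit 2) (nat_lit 4) (nat_lit 305) (nat_lit 232) (nat_lit 183)) (XT.lf (nat_lit 0) (nat_lit 72370483393) (nat_lit 152) (nat_lit 83144705188) (nat_lit 0) (nat_lit 59143123595) (nat_lit 2) (nat_lit 5) (nat_lit 4) (nat_lit 4) (nat_lit 2) (nat_lit 4) (nat_lit 306) (nat_lit 232) (nat_lit 182)))))) (XT.nd (nat_lit 312) (nat_lit 0) (nat_lit 0) (XT.nd (nat_lit 156) (nat_lit 0) (nat_lit 0) (XT.nd (nat_lit 78) (nat_lit 0) (nat_lit 0) (XT.lf (nat_lit 0) (nat_lit 82466465484) (nat_lit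 152) (nat_lit 79872734977) (nat_lit 0) (nat_lit 69217759934) (nat_lit 2) (nat_lit 5) (nat_lit 4) (nat_lit 4) (nat_lit 2) (nat_lit 4) (nat_lit 307) (nat_lit 232) (nat_lit 181)) (XT.lf (nat_lit 0) (nat_lit 93354385040) (nat_lit 152) (nat_lit 76368001133) (nat_lit 0) (nat_lit 80085914904) (nat_lit 2) (nat_lit 5) (nat_lit 4) (nat_lit 4) (nat_lit 2) (nat_lit 4) (nat_lit 308) (nat_lit 232) (nat_lit 180))) (XT.nd (nat_lit 78) (nat_lit 0) (nat_lit 0) (XT.lf (nat_lit 0) (nat_lit 105098763064) (nat_lit 152) (nat_lit 72609734863) (nat_lit 0) (nat_lit 91811992387) (nat_lit 2) (nat_lit 5) (nat_lit 4) (nat_lit 4) (nat_lit 2) (nat_lit 4) (nat_lit 309) (nat_lit 232) (nat_lit 179)) (XT.lf (nat_lit 0) (nat_lit 117769195872) (nat_lit 152) (nat_lit 68575664960) (nat_lit 0) (nat_lit 104465480249) (nat_lit 2) (nat_lit 5) (nat_lit 4) (nat_lit 4) (nat_lit 2) (nat_lit 4) (nat_lit 310) (nat_lit 232) (nat_lit 178))))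 (XT.nd (nat_lit 156) (nat_lit 0) (nat_lit 0) (XT.nd (nat_lit 78) (nat_lit 0) (nat_lit 0) (XT.lf (nat_lit 0) (nat_lit 131440767508) (nat_lit 152) (nat_lit 64241885823) (nat_lit 0) (nat_lit 118121362121) (nat_lit 2) (nat_lit 5) (nat_lit 4) (nat_lit 4) (nat_lit 2) (nat_lit 4) (nat_lit 311) (nat_lit 232) (nat_lit 177)) (XT.lf (nat_lit 0) (nat_lit 146194494696) (nat_lit 152) (nat_lit 59582715799) (nat_lit 0) (nat_lit 132860561748) (nat_lit 2) (nat_lit 5) (nat_lit 4) (nat_lit 4) (nat_lit 2) (nat_lit 4) (nat_lit 312) (nat_lit 232) (nat_lit 176))) (XT.nd (nat_lit 78) (nat_lit 0) (nat_lit 0) (XT.lf (nat_lit 0) (nat_lit 162117806927) (nat_lit 152) (nat_lit 54570544992) (nat_lit 0) (nat_lit 148770422535) (nat_lit 2) (nat_lit 5) (nat_lit 4) (nat_lit 4) (nat_lit 2) (nat_lit 4) (nat_lit 313) (nat_lit 232) (nat_lit 175)) (XT.nd (nat_lit 78) (nat_lit 0) (nat_lit 0) (XT.lf (nat_lit 0) (nat_lit 179305064573)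 (nat_lit 152) (nat_lit 49175671648) (nat_lit 0) (nat_lit 165945225139) (nat_lit 2) (nat_lit 5) (nat_lit 4) (nat_lit 4) (nat_lit 2) (nat_lit 4) (nat_lit 314) (nat_lit 232) (nat_lit 174)) (XT.lf (nat_lit 0) (nat_lit 197858118047) (nat_lit 152) (nat_lit 43366126148) (nat_lit 0) (nat_lit 184486746168) (nat_lit 2) (nat_lit 5) (nat_lit 4) (nat_lit 4) (nat_lit 2) (nat_lit 4) (nat_lit 315) (nat_lit 232) (nat_lit 173))))))) (XT.nd (nat_lit 32682) (nat_lit 0) (nat_lit 1824) (XT.nd (nat_lit 312) (nat_lit 76) (nat_lit 0) (XT.nd (nat_lit 156) (nat_lit 0) (nat_lit 0) (XT.nd (nat_lit 78) (nat_lit 0) (nat_lit 0) (XT.lf (nat_lit 0) (nat_lit 217886911371) (nat_lit 152) (nat_lit 37107481556) (nat_lit 0) (nat_lit 204504861302) (nat_lit 2) (nat_lit 5) (nat_lit 4) (nat_lit 4) (nat_lit 2) (nat_lit 4) (nat_lit 316) (nat_lit 232) (nat_lit 172)) (XT.lf (nat_lit 0) (nat_lit 239510133690) (nat_lit 152) (nat_lit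 30362649606) (nat_lit 0) (nat_lit 226118196408) (nat_lit 2) (nat_lit 5) (nat_lit 4) (nat_lit 4) (nat_lit 2) (nat_lit 4) (nat_lit 317) (nat_lit 232) (nat_lit 171))) (XT.nd (nat_lit 78) (nat_lit 0) (nat_lit 0) (XT.lf (nat_lit 0) (nat_lit 262855922619) (nat_lit 152) (nat_lit 23091660925) (nat_lit 0) (nat_lit 249454830509) (nat_lit 2) (nat_lit 5) (nat_lit 4) (nat_lit 4) (nat_lit 2) (nat_lit 4) (nat_lit 318) (nat_lit 232) (nat_lit 170)) (XT.lf (nat_lit 0) (nat_lit 288062623572) (nat_lit 152) (nat_lit 15251428172) (nat_lit 0) (nat_lit 274653054771) (nat_lit 2) (nat_lit 5) (nat_lit 4) (nat_lit 4) (nat_lit 2) (nat_lit 4) (nat_lit 319) (nat_lit 232) (nat_lit 169)))) (XT.nd (nat_lit 156) (nat_lit 0) (nat_lit 0) (XT.nd (nat_lit 78) (nat_lit 76) (nat_lit 0) (XT.lf (nat_lit 0) (nat_lit 315279609593) (nat_lit 152) (nat_lit 6795490709) (nat_lit 0) (nat_lit 301862192003) (nat_lit 2) (nat_lit 5) (nat_lit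 4) (nat_lit 4) (nat_lit 2) (nat_lit 4) (nat_lit 320) (nat_lit 232) (nat_lit 168)) (XT.lf (nat_lit 0) (nat_lit 2403177407) (nat_lit 76) (nat_lit 342302509451) (nat_lit 76) (nat_lit 328877824464) (nat_lit 1) (nat_lit 4) (nat_lit 2) (nat_lit 5) (nat_lit 2) (nat_lit 4) (nat_lit 321) (nat_lit 232) (nat_lit 167))) (XT.nd (nat_lit 78) (nat_lit 0) (nat_lit 0) (XT.lf (nat_lit 0) (nat_lit 12570206043) (nat_lit 76) (nat_lit 364028498880) (nat_lit 76) (nat_lit 350597084822) (nat_lit 1) (nat_lit 4) (nat_lit 2) (nat_lit 5) (nat_lit 2) (nat_lit 4) (nat_lit 322) (nat_lit 232) (nat_lit 166)) (XT.nd (nat_lit 78) (nat_lit 0) (nat_lit 0) (XT.lf (nat_lit 0) (nat_lit 23541154642) (nat_lit 76) (nat_lit 387496900115) (nat_lit 76) (nat_lit 374059255436) (nat_lit 1) (nat_lit 4) (nat_lit 2) (nat_lit 5) (nat_lit 2) (nat_lit 4) (nat_lit 323) (nat_lit 232) (nat_lit 165)) (XT.lf (nat_lit 0) (nat_lit 35381036236) (nat_lit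 76) (nat_lit 412846785166) (nat_lit 76) (nat_lit 399403371392) (nat_lit 1) (nat_lit 4) (nat_lit 2) (nat_lit 5) (nat_lit 2) (nat_lit 4) (nat_lit 324) (nat_lit 232) (nat_lit 164)))))) (XT.nd (nat_lit 390) (nat_lit 1140) (nat_lit 0) (XT.nd (nat_lit 156) (nat_lit 836) (nat_lit 0) (XT.nd (nat_lit 78) (nat_lit 380) (nat_lit 0) (XT.lf (nat_lit 0) (nat_lit 1741988136) (nat_lit 380) (nat_lit 556583963) (nat_lit 0) (nat_lit 1741988136) (nat_lit 56) (nat_lit 5) (nat_lit 61) (nat_lit 4) (nat_lit 56) (nat_lit 4) (nat_lit 254) (nat_lit 233) (nat_lit 233)) (XT.lf (nat_lit 0) (nat_lit 509170314) (nat_lit 380) (nat_lit 805491938) (nat_lit 76) (nat_lit 7033029416) (nat_lit 51) (nat_lit 5) (nat_lit 56) (nat_lit 5) (nat_lit 52) (nat_lit 4) (nat_lit 255) (nat_lit 233) (nat_lit 232))) (XT.nd (nat_lit 78) (nat_lit 608) (nat_lit 0) (XT.lf (nat_lit 0) (nat_lit 5692937411) (nat_lit 304) (nat_lit 647560856) (nat_lit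 0) (nat_lit 2300939657) (nat_lit 48) (nat_lit 5) (nat_lit 52) (nat_lit 4) (nat_lit 48) (nat_lit 4) (nat_lit 256) (nat_lit 233) (nat_lit 231)) (XT.nd (nat_lit 78) (nat_lit 228) (nat_lit 0) (XT.lf (nat_lit 0) (nat_lit 2085381046) (nat_lit 380) (nat_lit 626937119) (nat_lit 76) (nat_lit 6254164522) (nat_lit 43) (nat_lit 5) (nat_lit 48) (nat_lit 5) (nat_lit 44) (nat_lit 4) (nat_lit 257) (nat_lit 233) (nat_lit 230)) (XT.lf (nat_lit 0) (nat_lit 7261371649) (nat_lit 304) (nat_lit 801233640) (nat_lit 0) (nat_lit 1261286786) (nat_lit 40) (nat_lit 5) (nat_lit 44) (nat_lit 4) (nat_lit 40) (nat_lit 4) (nat_lit 258) (nat_lit 233) (nat_lit 229))))) (XT.nd (nat_lit 156) (nat_lit 684) (nat_lit 0) (XT.nd (nat_lit 78) (nat_lit 152) (nat_lit 0) (XT.lf (nat_lit 0) (nat_lit 2920054678) (nat_lit 304) (nat_lit 1246883569) (nat_lit 76) (nat_lit 5547355689) (nat_lit 36) (nat_lit 5) (nat_lit 40) (nat_lit 5) (nat_lit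 37) (nat_lit 4) (nat_lit 259) (nat_lit 233) (nat_lit 228)) (XT.lf (nat_lit 0) (nat_lit 8076344369) (nat_lit 228) (nat_lit 1965715712) (nat_lit 0) (nat_lit 100554150) (nat_lit 34) (nat_lit 5) (nat_lit 37) (nat_lit 4) (nat_lit 34) (nat_lit 4) (nat_lit 260) (nat_lit 233) (nat_lit 227))) (XT.nd (nat_lit 78) (nat_lit 380) (nat_lit 0) (XT.lf (nat_lit 0) (nat_lit 2867814111) (nat_lit 304) (nat_lit 3103459184) (nat_lit 76) (nat_lit 4635952322) (nat_lit 30) (nat_lit 5) (nat_lit 34) (nat_lit 5) (nat_lit 31) (nat_lit 4) (nat_lit 261) (nat_lit 233) (nat_lit 226)) (XT.nd (nat_lit 78) (nat_lit 228) (nat_lit 0) (XT.lf (nat_lit 0) (nat_lit 6459622230) (nat_lit 152) (nat_lit 1527801555) (nat_lit 228) (nat_lit 3127337493) (nat_lit 28) (nat_lit 5) (nat_lit 30) (nat_lit 5) (nat_lit 31) (nat_lit 4) (nat_lit 262) (nat_lit 233) (nat_lit 225)) (XT.lf (nat_lit 0) (nat_lit 1714536936) (nat_lit 228) (nat_lit 6749646081)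 (nat_lit 76) (nat_lit 3201798138) (nat_lit 25) (nat_lit 5) (nat_lit 28) (nat_lit 5) (nat_lit 26) (nat_lit 4) (nat_lit 263) (nat_lit 233) (nat_lit 224))))))))
noncomputable def xc34 : XT := (XT.nd (nat_lit 1404) (nat_lit 380) (nat_lit 0) (XT.nd (nat_lit 702) (nat_lit 380) (nat_lit 0) (XT.nd (nat_lit 312) (nat_lit 532) (nat_lit 0) (XT.nd (nat_lit 156) (nat_lit 152) (nat_lit 0) (XT.nd (nat_lit 78) (nat_lit 152) (nat_lit 0) (XT.lf (nat_lit 0) (nat_lit 2780879757) (nat_lit 152) (nat_lit 3953956104) (nat_lit 228) (nat_lit 5529364222) (nat_lit 23) (nat_lit 5) (nat_lit 25) (nat_lit 5) (nat_lit 26) (nat_lit 4) (nat_lit 264) (nat_lit 233) (nat_lit 223)) (XT.lf (nat_lit 0) (nat_lit 10388281) (nat_lit 152) (nat_lit 12038696455) (nat_lit 152) (nat_lit 867035592) (nat_lit 21) (nat_lit 4) (nat_lit 23) (nat_lit 5) (nat_lit 23) (nat_lit 4) (nat_lit 265) (nat_lit 233) (nat_lit 222))) (XT.nd (nat_lit 78)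 (nat_lit 76) (nat_lit 0) (XT.lf (nat_lit 0) (nat_lit 4035772784) (nat_lit 228) (nat_lit 3519764174) (nat_lit 76) (nat_lit 6061763821) (nat_lit 20) (nat_lit 5) (nat_lit 23) (nat_lit 5) (nat_lit 21) (nat_lit 4) (nat_lit 266) (nat_lit 233) (nat_lit 221)) (XT.lf (nat_lit 0) (nat_lit 6461480148) (nat_lit 76) (nat_lit 2723877724) (nat_lit 152) (nat_lit 5194636353) (nat_lit 19) (nat_lit 5) (nat_lit 20) (nat_lit 5) (nat_lit 21) (nat_lit 4) (nat_lit 267) (nat_lit 233) (nat_lit 220)))) (XT.nd (nat_lit 156) (nat_lit 304) (nat_lit 0) (XT.nd (nat_lit 78) (nat_lit 76) (nat_lit 0) (XT.lf (nat_lit 0) (nat_lit 1844034937) (nat_lit 152) (nat_lit 12825414075) (nat_lit 152) (nat_lit 538475026) (nat_lit 17) (nat_lit 4) (nat_lit 19) (nat_lit 5) (nat_lit 19) (nat_lit 4) (nat_lit 268) (nat_lit 233) (nat_lit 219)) (XT.lf (nat_lit 0) (nat_lit 4331808724) (nat_lit 228) (nat_lit 3876557009) (nat_lit 76) (nat_lit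 7891256873) (nat_lit 16) (nat_lit 5) (nat_lit 19) (nat_lit 5) (nat_lit 17) (nat_lit 4) (nat_lit 269) (nat_lit 233) (nat_lit 218))) (XT.nd (nat_lit 78) (nat_lit 228) (nat_lit 0) (XT.lf (nat_lit 0) (nat_lit 6252059205) (nat_lit 76) (nat_lit 3232744712) (nat_lit 152) (nat_lit 7582098081) (nat_lit 15) (nat_lit 5) (nat_lit 16) (nat_lit 5) (nat_lit 17) (nat_lit 4) (nat_lit 270) (nat_lit 233) (nat_lit 217)) (XT.nd (nat_lit 78) (nat_lit 228) (nat_lit 0) (XT.lf (nat_lit 0) (nat_lit 14973498028) (nat_lit 152) (nat_lit 1115885101) (nat_lit 0) (nat_lit 2026270635) (nat_lit 15) (nat_lit 5) (nat_lit 17) (nat_lit 4) (nat_lit 15) (nat_lit 4) (nat_lit 271) (nat_lit 233) (nat_lit 216)) (XT.lf (nat_lit 0) (nat_lit 1635101975) (nat_lit 228) (nat_lit 9950471108) (nat_lit 76) (nat_lit 7659922828) (nat_lit 12) (nat_lit 5) (nat_lit 15) (nat_lit 5) (nat_lit 13) (nat_lit 4) (nat_lit 272) (nat_lit 233) (nat_lit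 215)))))) (XT.nd (nat_lit 312) (nat_lit 228) (nat_lit 0) (XT.nd (nat_lit 156) (nat_lit 76) (nat_lit 0) (XT.nd (nat_lit 78) (nat_lit 76) (nat_lit 0) (XT.lf (nat_lit 0) (nat_lit 6545580728) (nat_lit 228) (nat_lit 212881114) (nat_lit 76) (nat_lit 13711846471) (nat_lit 12) (nat_lit 5) (nat_lit 15) (nat_lit 5) (nat_lit 13) (nat_lit 4) (nat_lit 273) (nat_lit 233) (nat_lit 214)) (XT.lf (nat_lit 0) (nat_lit 10382806812) (nat_lit 76) (nat_lit 1479952963) (nat_lit 152) (nat_lit 9929851659) (nat_lit 11) (nat_lit 5) (nat_lit 12) (nat_lit 5) (nat_lit 13) (nat_lit 4) (nat_lit 274) (nat_lit 233) (nat_lit 213))) (XT.nd (nat_lit 78) (nat_lit 76) (nat_lit 0) (XT.lf (nat_lit 0) (nat_lit 17532358149) (nat_lit 152) (nat_lit 1700597343) (nat_lit 0) (nat_lit 3991575161) (nat_lit 11) (nat_lit 5) (nat_lit 13) (nat_lit 4) (nat_lit 11) (nat_lit 4) (nat_lit 275) (nat_lit 233) (nat_lit 212)) (XT.lf (nat_lit 0) (nat_lit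 8812946540) (nat_lit 76) (nat_lit 14873068901) (nat_lit 76) (nat_lit 1083633879) (nat_lit 10) (nat_lit 4) (nat_lit 11) (nat_lit 5) (nat_lit 11) (nat_lit 4) (nat_lit 276) (nat_lit 233) (nat_lit 211)))) (XT.nd (nat_lit 156) (nat_lit 76) (nat_lit 0) (XT.nd (nat_lit 78) (nat_lit 76) (nat_lit 0) (XT.lf (nat_lit 0) (nat_lit 3671160159) (nat_lit 152) (nat_lit 6493790060) (nat_lit 76) (nat_lit 16275428515) (nat_lit 9) (nat_lit 5) (nat_lit 11) (nat_lit 5) (nat_lit 10) (nat_lit 4) (nat_lit 277) (nat_lit 233) (nat_lit 210)) (XT.lf (nat_lit 0) (nat_lit 3616294282) (nat_lit 76) (nat_lit 5090604113) (nat_lit 152) (nat_lit 19540192770) (nat_lit 8) (nat_lit 5) (nat_lit 9) (nat_lit 5) (nat_lit 10) (nat_lit 4) (nat_lit 278) (nat_lit 233) (nat_lit 209))) (XT.nd (nat_lit 78) (nat_lit 76) (nat_lit 0) (XT.lf (nat_lit 0) (nat_lit 14152451057) (nat_lit 152) (nat_lit 15636300946) (nat_lit 0) (nat_lit 409369693)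 (nat_lit 8) (nat_lit 5) (nat_lit 10) (nat_lit 4) (nat_lit 8) (nat_lit 4) (nat_lit 279) (nat_lit 233) (nat_lit 208)) (XT.nd (nat_lit 78) (nat_lit 76) (nat_lit 0) (XT.lf (nat_lit 0) (nat_lit 20013835925) (nat_lit 152) (nat_lit 6195817608) (nat_lit 0) (nat_lit 6096691067) (nat_lit 8) (nat_lit 5) (nat_lit 10) (nat_lit 4) (nat_lit 8) (nat_lit 4) (nat_lit 280) (nat_lit 233) (nat_lit 207)) (XT.lf (nat_lit 0) (nat_lit 3952582661) (nat_lit 76) (nat_lit 22355436765) (nat_lit 76) (nat_lit 8277122005) (nat_lit 7) (nat_lit 4) (nat_lit 8) (nat_lit 5) (nat_lit 8) (nat_lit 4) (nat_lit 281) (nat_lit 233) (nat_lit 206))))))) (XT.nd (nat_lit 702) (nat_lit 152) (nat_lit 0) (XT.nd (nat_lit 312) (nat_lit 76) (nat_lit 0) (XT.nd (nat_lit 156) (nat_lit 76) (nat_lit 0) (XT.nd (nat_lit 78) (nat_lit 76) (nat_lit 0) (XT.lf (nat_lit 0) (nat_lit 14967830935) (nat_lit 76) (nat_lit 18152660909) (nat_lit 76) (nat_lit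 3925114758) (nat_lit 7) (nat_lit 4) (nat_lit 8) (nat_lit 5) (nat_lit 8) (nat_lit 4) (nat_lit 282) (nat_lit 233) (nat_lit 205)) (XT.lf (nat_lit 0) (nat_lit 662469340) (nat_lit 152) (nat_lit 13007661216) (nat_lit 76) (nat_lit 26036652469) (nat_lit 6) (nat_lit 5) (nat_lit 8) (nat_lit 5) (nat_lit 7) (nat_lit 4) (nat_lit 283) (nat_lit 233) (nat_lit 204))) (XT.nd (nat_lit 78) (nat_lit 76) (nat_lit 0) (XT.lf (nat_lit 0) (nat_lit 5400106552) (nat_lit 152) (nat_lit 3423446796) (nat_lit 76) (nat_lit 33758138274) (nat_lit 6) (nat_lit 5) (nat_lit 8) (nat_lit 5) (nat_lit 7) (nat_lit 4) (nat_lit 284) (nat_lit 233) (nat_lit 203)) (XT.lf (nat_lit 0) (nat_lit 7017550417) (nat_lit 76) (nat_lit 3533513160) (nat_lit 152) (nat_lit 35133891233) (nat_lit 5) (nat_lit 5) (nat_lit 6) (nat_lit 5) (nat_lit 7) (nat_lit 4) (nat_lit 285) (nat_lit 233) (nat_lit 202)))) (XT.nd (nat_lit 156) (nat_lit 76) (nat_lit 0) (XT.nd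 (nat_lit 78) (nat_lit 0) (nat_lit 0) (XT.lf (nat_lit 0) (nat_lit 16136160516) (nat_lit 152) (nat_lit 30783906894) (nat_lit 0) (nat_lit 2115380093) (nat_lit 5) (nat_lit 5) (nat_lit 7) (nat_lit 4) (nat_lit 5) (nat_lit 4) (nat_lit 286) (nat_lit 233) (nat_lit 201)) (XT.lf (nat_lit 0) (nat_lit 22160442814) (nat_lit 152) (nat_lit 22451049814) (nat_lit 0) (nat_lit 8042934413) (nat_lit 5) (nat_lit 5) (nat_lit 7) (nat_lit 4) (nat_lit 5) (nat_lit 4) (nat_lit 287) (nat_lit 233) (nat_lit 200))) (XT.nd (nat_lit 78) (nat_lit 76) (nat_lit 0) (XT.lf (nat_lit 0) (nat_lit 28604441880) (nat_lit 152) (nat_lit 13564285217) (nat_lit 0) (nat_lit 14397370536) (nat_lit 5) (nat_lit 5) (nat_lit 7) (nat_lit 4) (nat_lit 5) (nat_lit 4) (nat_lit 288) (nat_lit 233) (nat_lit 199)) (XT.nd (nat_lit 78) (nat_lit 76) (nat_lit 0) (XT.lf (nat_lit 0) (nat_lit 35506344375) (nat_lit 152) (nat_lit 4070950793) (nat_lit 0) (nat_lit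 21216344380) (nat_lit 5) (nat_lit 5) (nat_lit 7) (nat_lit 4) (nat_lit 5) (nat_lit 4) (nat_lit 289) (nat_lit 233) (nat_lit 198)) (XT.lf (nat_lit 0) (nat_lit 6286414784) (nat_lit 76) (nat_lit 36718784229) (nat_lit 76) (nat_lit 22351998447) (nat_lit 4) (nat_lit 4) (nat_lit 5) (nat_lit 5) (nat_lit 5) (nat_lit 4) (nat_lit 290) (nat_lit 233) (nat_lit 197)))))) (XT.nd (nat_lit 390) (nat_lit 152) (nat_lit 0) (XT.nd (nat_lit 156) (nat_lit 0) (nat_lit 0) (XT.nd (nat_lit 78) (nat_lit 0) (nat_lit 0) (XT.lf (nat_lit 0) (nat_lit 17525301680) (nat_lit 76) (nat_lit 33598733568) (nat_lit 76) (nat_lit 19160849835) (nat_lit 4) (nat_lit 4) (nat_lit 5) (nat_lit 5) (nat_lit 5) (nat_lit 4) (nat_lit 291) (nat_lit 233) (nat_lit 196)) (XT.lf (nat_lit 0) (nat_lit 29577706685) (nat_lit 76) (nat_lit 30267597520) (nat_lit 76) (nat_lit 15763882350) (nat_lit 4) (nat_lit 4) (nat_lit 5) (nat_lit 5) (nat_lit 5) (nat_lit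 4) (nat_lit 292) (nat_lit 233) (nat_lit 195))) (XT.nd (nat_lit 78) (nat_lit 0) (nat_lit 0) (XT.lf (nat_lit 0) (nat_lit 42515051460) (nat_lit 76) (nat_lit 26705636018) (nat_lit 76) (nat_lit 12140965815) (nat_lit 4) (nat_lit 4) (nat_lit 5) (nat_lit 5) (nat_lit 5) (nat_lit 4) (nat_lit 293) (nat_lit 233) (nat_lit 194)) (XT.nd (nat_lit 78) (nat_lit 0) (nat_lit 0) (XT.lf (nat_lit 0) (nat_lit 56414001752) (nat_lit 76) (nat_lit 22891741143) (nat_lit 76) (nat_lit 8270631093) (nat_lit 4) (nat_lit 4) (nat_lit 5) (nat_lit 5) (nat_lit 5) (nat_lit 4) (nat_lit 294) (nat_lit 233) (nat_lit 193)) (XT.lf (nat_lit 0) (nat_lit 71356921709) (nat_lit 76) (nat_lit 18803312036) (nat_lit 76) (nat_lit 4129942869) (nat_lit 4) (nat_lit 4) (nat_lit 5) (nat_lit 5) (nat_lit 5) (nat_lit 4) (nat_lit 295) (nat_lit 233) (nat_lit 192))))) (XT.nd (nat_lit 156) (nat_lit 76) (nat_lit 0) (XT.nd (nat_lit 78) (nat_lit 0) (nat_lit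 0) (XT.lf (nat_lit 0) (nat_lit 295853999) (nat_lit 152) (nat_lit 14115256538) (nat_lit 76) (nat_lit 87131497539) (nat_lit 3) (nat_lit 5) (nat_lit 5) (nat_lit 5) (nat_lit 4) (nat_lit 4) (nat_lit 296) (nat_lit 233) (nat_lit 191)) (XT.lf (nat_lit 0) (nat_lit 4900363100) (nat_lit 152) (nat_lit 4720816651) (nat_lit 76) (nat_lit 99752231280) (nat_lit 3) (nat_lit 5) (nat_lit 5) (nat_lit 5) (nat_lit 4) (nat_lit 4) (nat_lit 297) (nat_lit 233) (nat_lit 190))) (XT.nd (nat_lit 78) (nat_lit 0) (nat_lit 0) (XT.lf (nat_lit 0) (nat_lit 5547779069) (nat_lit 76) (nat_lit 4381891686) (nat_lit 152) (nat_lit 107898212662) (nat_lit 2) (nat_lit 5) (nat_lit 3) (nat_lit 5) (nat_lit 4) (nat_lit 4) (nat_lit 298) (nat_lit 233) (nat_lit 189)) (XT.nd (nat_lit 78) (nat_lit 0) (nat_lit 0) (XT.lf (nat_lit 0) (nat_lit 15435699368) (nat_lit 152) (nat_lit 110223104916) (nat_lit 0) (nat_lit 1296215569) (nat_lit 2) (nat_lit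 5) (nat_lit 4) (nat_lit 4) (nat_lit 2) (nat_lit 4) (nat_lit 299) (nat_lit 233) (nat_lit 188)) (XT.lf (nat_lit 0) (nat_lit 21429119485) (nat_lit 152) (nat_lit 108125122822) (nat_lit 0) (nat_lit 7255762660) (nat_lit 2) (nat_lit 5) (nat_lit 4) (nat_lit 4) (nat_lit 2) (nat_lit 4) (nat_lit 300) (nat_lit 233) (nat_lit 187))))))))
noncomputable def xc35 : XT := (XT.nd (nat_lit 1404) (nat_lit 76) (nat_lit 0) (XT.nd (nat_lit 702) (nat_lit 0) (nat_lit 0) (XT.nd (nat_lit 312) (nat_lit 0) (nat_lit 0) (XT.nd (nat_lit 156) (nat_lit 0) (nat_lit 0) (XT.nd (nat_lit 78) (nat_lit 0) (nat_lit 0) (XT.lf (nat_lit 0) (nat_lit 27877034058) (nat_lit 152) (nat_lit 105905311969) (nat_lit 0) (nat_lit 13672313321) (nat_lit 2) (nat_lit 5) (nat_lit 4) (nat_lit 4) (nat_lit 2) (nat_lit 4) (nat_lit 301) (nat_lit 233) (nat_lit 186)) (XT.lf (nat_lit 0) (nat_lit 34817652953) (nat_lit 152) (nat_lit 103550517923) (nat_lit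 0) (nat_lit 20583891555) (nat_lit 2) (nat_lit 5) (nat_lit 4) (nat_lit 4) (nat_lit 2) (nat_lit 4) (nat_lit 302) (nat_lit 233) (nat_lit 185))) (XT.nd (nat_lit 78) (nat_lit 0) (nat_lit 0) (XT.lf (nat_lit 0) (nat_lit 42292105762) (nat_lit 152) (nat_lit 101046786348) (nat_lit 0) (nat_lit 28031454864) (nat_lit 2) (nat_lit 5) (nat_lit 4) (nat_lit 4) (nat_lit 2) (nat_lit 4) (nat_lit 303) (nat_lit 233) (nat_lit 184)) (XT.lf (nat_lit 0) (nat_lit 50344685539) (nat_lit 152) (nat_lit 98379280317) (nat_lit 0) (nat_lit 36059136957) (nat_lit 2) (nat_lit 5) (nat_lit 4) (nat_lit 4) (nat_lit 2) (nat_lit 4) (nat_lit 304) (nat_lit 233) (nat_lit 183)))) (XT.nd (nat_lit 156) (nat_lit 0) (nat_lit 0) (XT.nd (nat_lit 78) (nat_lit 0) (nat_lit 0) (XT.lf (nat_lit 0) (nat_lit 59023111276) (nat_lit 152) (nat_lit 95532192386) (nat_lit 0) (nat_lit 44714509281) (nat_lit 2) (nat_lit 5) (nat_lit 4) (nat_lit 4) (nat_lit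 2) (nat_lit 4) (nat_lit 305) (nat_lit 233) (nat_lit 182)) (XT.lf (nat_lit 0) (nat_lit 68378810680) (nat_lit 152) (nat_lit 92488650923) (nat_lit 0) (nat_lit 54048862934) (nat_lit 2) (nat_lit 5) (nat_lit 4) (nat_lit 4) (nat_lit 2) (nat_lit 4) (nat_lit 306) (nat_lit 233) (nat_lit 181))) (XT.nd (nat_lit 78) (nat_lit 0) (nat_lit 0) (XT.lf (nat_lit 0) (nat_lit 78467224933) (nat_lit 152) (nat_lit 89230620127) (nat_lit 0) (nat_lit 64117512602) (nat_lit 2) (nat_lit 5) (nat_lit 4) (nat_lit 4) (nat_lit 2) (nat_lit 4) (nat_lit 307) (nat_lit 233) (nat_lit 180)) (XT.nd (nat_lit 78) (nat_lit 0) (nat_lit 0) (XT.lf (nat_lit 0) (nat_lit 89348137231) (nat_lit 152) (nat_lit 85738793149) (nat_lit 0) (nat_lit 74980124358) (nat_lit 2) (nat_lit 5) (nat_lit 4) (nat_lit 4) (nat_lit 2) (nat_lit 4) (nat_lit 308) (nat_lit 233) (nat_lit 179)) (XT.lf (nat_lit 0) (nat_lit 101086027054) (nat_lit 152) (nat_lit 81992477681)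 (nat_lit 0) (nat_lit 86701069235) (nat_lit 2) (nat_lit 5) (nat_lit 4) (nat_lit 4) (nat_lit 2) (nat_lit 4) (nat_lit 309) (nat_lit 233) (nat_lit 178)))))) (XT.nd (nat_lit 312) (nat_lit 0) (nat_lit 0) (XT.nd (nat_lit 156) (nat_lit 0) (nat_lit 0) (XT.nd (nat_lit 78) (nat_lit 0) (nat_lit 0) (XT.lf (nat_lit 0) (nat_lit 113750452268) (nat_lit 152) (nat_lit 77969473335) (nat_lit 0) (nat_lit 99349804684) (nat_lit 2) (nat_lit 5) (nat_lit 4) (nat_lit 4) (nat_lit 2) (nat_lit 4) (nat_lit 310) (nat_lit 233) (nat_lit 177)) (XT.lf (nat_lit 0) (nat_lit 127416461318) (nat_lit 152) (nat_lit 73645940085) (nat_lit 0) (nat_lit 113001286174) (nat_lit 2) (nat_lit 5) (nat_lit 4) (nat_lit 4) (nat_lit 2) (nat_lit 4) (nat_lit 311) (nat_lit 233) (nat_lit 176))) (XT.nd (nat_lit 78) (nat_lit 0) (nat_lit 0) (XT.lf (nat_lit 0) (nat_lit 142165037961) (nat_lit 152) (nat_lit 68996256993) (nat_lit 0) (nat_lit 127736411373)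 (nat_lit 2) (nat_lit 5) (nat_lit 4) (nat_lit 4) (nat_lit 2) (nat_lit 4) (nat_lit 312) (nat_lit 233) (nat_lit 175)) (XT.lf (nat_lit 0) (nat_lit 158083581171) (nat_lit 152) (nat_lit 63992870382) (nat_lit 0) (nat_lit 143642499542) (nat_lit 2) (nat_lit 5) (nat_lit 4) (nat_lit 4) (nat_lit 2) (nat_lit 4) (nat_lit 313) (nat_lit 233) (nat_lit 174)))) (XT.nd (nat_lit 156) (nat_lit 0) (nat_lit 0) (XT.nd (nat_lit 78) (nat_lit 0) (nat_lit 0) (XT.lf (nat_lit 0) (nat_lit 175266423056) (nat_lit 152) (nat_lit 58606130553) (nat_lit 0) (nat_lit 160813808981) (nat_lit 2) (nat_lit 5) (nat_lit 4) (nat_lit 4) (nat_lit 2) (nat_lit 4) (nat_lit 314) (nat_lit 233) (nat_lit 173)) (XT.lf (nat_lit 0) (nat_lit 193815387863) (nat_lit 152) (nat_lit 52804116085) (nat_lit 0) (nat_lit 179352095597) (nat_lit 2) (nat_lit 5) (nat_lit 4) (nat_lit 4) (nat_lit 2) (nat_lit 4) (nat_lit 315) (nat_lit 233) (nat_lit 172))) (XT.nd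 (nat_lit 78) (nat_lit 0) (nat_lit 0) (XT.lf (nat_lit 0) (nat_lit 213840395383) (nat_lit 152) (nat_lit 46552444671) (nat_lit 0) (nat_lit 199367215905) (nat_lit 2) (nat_lit 5) (nat_lit 4) (nat_lit 4) (nat_lit 2) (nat_lit 4) (nat_lit 316) (nat_lit 233) (nat_lit 171)) (XT.nd (nat_lit 78) (nat_lit 0) (nat_lit 0) (XT.lf (nat_lit 0) (nat_lit 235460112329) (nat_lit 152) (nat_lit 39814069368) (nat_lit 0) (nat_lit 220977778024) (nat_lit 2) (nat_lit 5) (nat_lit 4) (nat_lit 4) (nat_lit 2) (nat_lit 4) (nat_lit 317) (nat_lit 233) (nat_lit 170)) (XT.lf (nat_lit 0) (nat_lit 258802655542) (nat_lit 152) (nat_lit 32549059063) (nat_lit 0) (nat_lit 244311844545) (nat_lit 2) (nat_lit 5) (nat_lit 4) (nat_lit 4) (nat_lit 2) (nat_lit 4) (nat_lit 318) (nat_lit 233) (nat_lit 169))))))) (XT.nd (nat_lit 32604) (nat_lit 0) (nat_lit 1672) (XT.nd (nat_lit 312) (nat_lit 0) (nat_lit 0) (XT.nd (nat_lit 156) (nat_lit 76)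 (nat_lit 0) (XT.nd (nat_lit 78) (nat_lit 0) (nat_lit 0) (XT.lf (nat_lit 0) (nat_lit 284006351203) (nat_lit 152) (nat_lit 24714361844) (nat_lit 0) (nat_lit 269507691417) (nat_lit 2) (nat_lit 5) (nat_lit 4) (nat_lit 4) (nat_lit 2) (nat_lit 4) (nat_lit 319) (nat_lit 233) (nat_lit 168)) (XT.lf (nat_lit 0) (nat_lit 311220554545) (nat_lit 152) (nat_lit 16263549875) (nat_lit 0) (nat_lit 296714627362) (nat_lit 2) (nat_lit 5) (nat_lit 4) (nat_lit 4) (nat_lit 2) (nat_lit 4) (nat_lit 320) (nat_lit 233) (nat_lit 167))) (XT.nd (nat_lit 78) (nat_lit 76) (nat_lit 0) (XT.lf (nat_lit 0) (nat_lit 340606534923) (nat_lit 152) (nat_lit 7146544271) (nat_lit 0) (nat_lit 326093878669) (nat_lit 2) (nat_lit 5) (nat_lit 4) (nat_lit 4) (nat_lit 2) (nat_lit 4) (nat_lit 321) (nat_lit 233) (nat_lit 166)) (XT.lf (nat_lit 0) (nat_lit 2779647755) (nat_lit 76) (nat_lit 369602181814) (nat_lit 76) (nat_lit 355083294939)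 (nat_lit 1) (nat_lit 4) (nat_lit 2) (nat_lit 5) (nat_lit 2) (nat_lit 4) (nat_lit 322) (nat_lit 233) (nat_lit 165)))) (XT.nd (nat_lit 32058) (nat_lit 0) (nat_lit 3800) (XT.nd (nat_lit 31980) (nat_lit 0) (nat_lit 4940) (XT.lf (nat_lit 0) (nat_lit 13746393040) (nat_lit 76) (nat_lit 393072511759) (nat_lit 76) (nat_lit 378547855790) (nat_lit 1) (nat_lit 4) (nat_lit 2) (nat_lit 5) (nat_lit 2) (nat_lit 4) (nat_lit 323) (nat_lit 233) (nat_lit 164)) (XT.lf (nat_lit 0) (nat_lit 1486873920) (nat_lit 380) (nat_lit 837617427) (nat_lit 0) (nat_lit 1486873920) (nat_lit 66) (nat_lit 5) (nat_lit 71) (nat_lit 4) (nat_lit 66) (nat_lit 4) (nat_lit 252) (nat_lit 234) (nat_lit 234))) (XT.nd (nat_lit 78) (nat_lit 684) (nat_lit 0) (XT.lf (nat_lit 0) (nat_lit 310259279) (nat_lit 456) (nat_lit 1461064564) (nat_lit 76) (nat_lit 6072769528) (nat_lit 60) (nat_lit 5) (nat_lit 66) (nat_lit 5) (nat_lit 61) (nat_lit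 4) (nat_lit 253) (nat_lit 234) (nat_lit 233)) (XT.nd (nat_lit 78) (nat_lit 380) (nat_lit 0) (XT.lf (nat_lit 0) (nat_lit 5304229413) (nat_lit 380) (nat_lit 1328645664) (nat_lit 0) (nat_lit 1457703959) (nat_lit 56) (nat_lit 5) (nat_lit 61) (nat_lit 4) (nat_lit 56) (nat_lit 4) (nat_lit 254) (nat_lit 234) (nat_lit 232)) (XT.lf (nat_lit 0) (nat_lit 2088100751) (nat_lit 380) (nat_lit 1278225471) (nat_lit 76) (nat_lit 4998643285) (nat_lit 51) (nat_lit 5) (nat_lit 56) (nat_lit 5) (nat_lit 52) (nat_lit 4) (nat_lit 255) (nat_lit 234) (nat_lit 231)))))) (XT.nd (nat_lit 390) (nat_lit 836) (nat_lit 0) (XT.nd (nat_lit 156) (nat_lit 684) (nat_lit 0) (XT.nd (nat_lit 78) (nat_lit 380) (nat_lit 0) (XT.lf (nat_lit 0) (nat_lit 7070503144) (nat_lit 304) (nat_lit 1332371614) (nat_lit 0) (nat_lit 266406909) (nat_lit 48) (nat_lit 5) (nat_lit 52) (nat_lit 4) (nat_lit 48) (nat_lit 4) (nat_lit 256) (nat_lit 234)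 (nat_lit 230)) (XT.lf (nat_lit 0) (nat_lit 3224962749) (nat_lit 380) (nat_lit 1591043440) (nat_lit 76) (nat_lit 4186052490) (nat_lit 43) (nat_lit 5) (nat_lit 48) (nat_lit 5) (nat_lit 44) (nat_lit 4) (nat_lit 257) (nat_lit 234) (nat_lit 229))) (XT.nd (nat_lit 78) (nat_lit 456) (nat_lit 0) (XT.lf (nat_lit 0) (nat_lit 7349681980) (nat_lit 228) (nat_lit 868101138) (nat_lit 304) (nat_lit 1151249814) (nat_lit 40) (nat_lit 5) (nat_lit 43) (nat_lit 5) (nat_lit 44) (nat_lit 4) (nat_lit 258) (nat_lit 234) (nat_lit 228)) (XT.nd (nat_lit 78) (nat_lit 152) (nat_lit 0) (XT.lf (nat_lit 0) (nat_lit 3625802027) (nat_lit 304) (nat_lit 2753236023) (nat_lit 76) (nat_lit 3388861551) (nat_lit 36) (nat_lit 5) (nat_lit 40) (nat_lit 5) (nat_lit 37) (nat_lit 4) (nat_lit 259) (nat_lit 234) (nat_lit 227)) (XT.lf (nat_lit 0) (nat_lit 6429714857) (nat_lit 152) (nat_lit 2191196032) (nat_lit 228) (nat_lit 1583699840)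 (nat_lit 34) (nat_lit 5) (nat_lit 36) (nat_lit 5) (nat_lit 37) (nat_lit 4) (nat_lit 260) (nat_lit 234) (nat_lit 226))))) (XT.nd (nat_lit 156) (nat_lit 380) (nat_lit 0) (XT.nd (nat_lit 78) (nat_lit 152) (nat_lit 0) (XT.lf (nat_lit 0) (nat_lit 3139611575) (nat_lit 304) (nat_lit 5203678943) (nat_lit 76) (nat_lit 2335613834) (nat_lit 30) (nat_lit 5) (nat_lit 34) (nat_lit 5) (nat_lit 31) (nat_lit 4) (nat_lit 261) (nat_lit 234) (nat_lit 225)) (XT.lf (nat_lit 0) (nat_lit 4103511449) (nat_lit 152) (nat_lit 3997204030) (nat_lit 228) (nat_lit 3093920737) (nat_lit 28) (nat_lit 5) (nat_lit 30) (nat_lit 5) (nat_lit 31) (nat_lit 4) (nat_lit 262) (nat_lit 234) (nat_lit 224))) (XT.nd (nat_lit 78) (nat_lit 152) (nat_lit 0) (XT.lf (nat_lit 0) (nat_lit 1547039273) (nat_lit 228) (nat_lit 9497232907) (nat_lit 76) (nat_lit 711788969) (nat_lit 25) (nat_lit 5) (nat_lit 28) (nat_lit 5) (nat_lit 26) (nat_lit 4)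 (nat_lit 263) (nat_lit 234) (nat_lit 223)) (XT.nd (nat_lit 78) (nat_lit 152) (nat_lit 0) (XT.lf (nat_lit 0) (nat_lit 6411553845) (nat_lit 228) (nat_lit 229688182) (nat_lit 76) (nat_lit 5721048472) (nat_lit 25) (nat_lit 5) (nat_lit 28) (nat_lit 5) (nat_lit 26) (nat_lit 4) (nat_lit 264) (nat_lit 234) (nat_lit 222)) (XT.lf (nat_lit 0) (nat_lit 9756463786) (nat_lit 152) (nat_lit 1844680967) (nat_lit 228) (nat_lit 1419503706) (nat_lit 23) (nat_lit 5) (nat_lit 25) (nat_lit 5) (nat_lit 26) (nat_lit 4) (nat_lit 265) (nat_lit 234) (nat_lit 221))))))))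
noncomputable def xc36 : XT := (XT.nd (nat_lit 1404) (nat_lit 380) (nat_lit 0) (XT.nd (nat_lit 702) (nat_lit 304) (nat_lit 0) (XT.nd (nat_lit 312) (nat_lit 380) (nat_lit 0) (XT.nd (nat_lit 156) (nat_lit 228) (nat_lit 0) (XT.nd (nat_lit 78) (nat_lit 76) (nat_lit 0) (XT.lf (nat_lit 0) (nat_lit 3314656402) (nat_lit 228) (nat_lit 7138343255) (nat_lit 76) (nat_lit 3278757683) (nat_lit 20) (nat_lit 5) (nat_lit 23) (nat_lit 5) (nat_lit 21) (nat_lit 4) (nat_lit 266) (nat_lit 234) (nat_lit 220)) (XT.lf (nat_lit 0) (nat_lit 2563314879) (nat_lit 76) (nat_lit 5743751593) (nat_lit 152) (nat_lit 6195410303) (nat_lit 19) (nat_lit 5) (nat_lit 20) (nat_lit 5) (nat_lit 21) (nat_lit 4) (nat_lit 267) (nat_lit 234) (nat_lit 219))) (XT.nd (nat_lit 78) (nat_lit 228) (nat_lit 0) (XT.lf (nat_lit 0) (nat_lit 12987981736) (nat_lit 76) (nat_lit 644930587) (nat_lit 152) (nat_lit 1705561378) (nat_lit 19) (nat_lit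 5) (nat_lit 20) (nat_lit 5) (nat_lit 21) (nat_lit 4) (nat_lit 268) (nat_lit 234) (nat_lit 218)) (XT.lf (nat_lit 0) (nat_lit 3064094742) (nat_lit 228) (nat_lit 8400761641) (nat_lit 76) (nat_lit 4773262596) (nat_lit 16) (nat_lit 5) (nat_lit 19) (nat_lit 5) (nat_lit 17) (nat_lit 4) (nat_lit 269) (nat_lit 234) (nat_lit 217)))) (XT.nd (nat_lit 156) (nat_lit 304) (nat_lit 0) (XT.nd (nat_lit 78) (nat_lit 0) (nat_lit 0) (XT.lf (nat_lit 0) (nat_lit 1436287599) (nat_lit 76) (nat_lit 6622855522) (nat_lit 152) (nat_lit 9154279027) (nat_lit 15) (nat_lit 5) (nat_lit 16) (nat_lit 5) (nat_lit 17) (nat_lit 4) (nat_lit 270) (nat_lit 234) (nat_lit 216)) (XT.lf (nat_lit 0) (nat_lit 12086853359) (nat_lit 76) (nat_lit 1349620818) (nat_lit 152) (nat_lit 4831384960) (nat_lit 15) (nat_lit 5) (nat_lit 16) (nat_lit 5) (nat_lit 17) (nat_lit 4) (nat_lit 271) (nat_lit 234) (nat_lit 215))) (XT.nd (nat_lit 78) (nat_lit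 152) (nat_lit 0) (XT.lf (nat_lit 0) (nat_lit 3983054314) (nat_lit 152) (nat_lit 15237847755) (nat_lit 152) (nat_lit 187128968) (nat_lit 13) (nat_lit 4) (nat_lit 15) (nat_lit 5) (nat_lit 15) (nat_lit 4) (nat_lit 272) (nat_lit 234) (nat_lit 214)) (XT.nd (nat_lit 78) (nat_lit 76) (nat_lit 0) (XT.lf (nat_lit 0) (nat_lit 4658068543) (nat_lit 228) (nat_lit 5806207393) (nat_lit 76) (nat_lit 10172372699) (nat_lit 12) (nat_lit 5) (nat_lit 15) (nat_lit 5) (nat_lit 13) (nat_lit 4) (nat_lit 273) (nat_lit 234) (nat_lit 213)) (XT.lf (nat_lit 0) (nat_lit 4488088405) (nat_lit 76) (nat_lit 5329134872) (nat_lit 152) (nat_lit 12149718204) (nat_lit 11) (nat_lit 5) (nat_lit 12) (nat_lit 5) (nat_lit 13) (nat_lit 4) (nat_lit 274) (nat_lit 234) (nat_lit 212)))))) (XT.nd (nat_lit 312) (nat_lit 152) (nat_lit 0) (XT.nd (nat_lit 156) (nat_lit 76) (nat_lit 0) (XT.nd (nat_lit 78) (nat_lit 76) (nat_lit 0) (XT.lf (nat_lit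 0) (nat_lit 15363235492) (nat_lit 152) (nat_lit 7819892835) (nat_lit 0) (nat_lit 221993633) (nat_lit 11) (nat_lit 5) (nat_lit 13) (nat_lit 4) (nat_lit 11) (nat_lit 4) (nat_lit 275) (nat_lit 234) (nat_lit 211)) (XT.lf (nat_lit 0) (nat_lit 2385771345) (nat_lit 76) (nat_lit 18971988517) (nat_lit 76) (nat_lit 3600513292) (nat_lit 10) (nat_lit 4) (nat_lit 11) (nat_lit 5) (nat_lit 11) (nat_lit 4) (nat_lit 276) (nat_lit 234) (nat_lit 210))) (XT.nd (nat_lit 78) (nat_lit 0) (nat_lit 0) (XT.lf (nat_lit 0) (nat_lit 1177893279) (nat_lit 152) (nat_lit 13169973043) (nat_lit 76) (nat_lit 12286015106) (nat_lit 9) (nat_lit 5) (nat_lit 11) (nat_lit 5) (nat_lit 10) (nat_lit 4) (nat_lit 277) (nat_lit 234) (nat_lit 209)) (XT.lf (nat_lit 0) (nat_lit 6104445725) (nat_lit 152) (nat_lit 3267928531) (nat_lit 76) (nat_lit 19073740852) (nat_lit 9) (nat_lit 5) (nat_lit 11) (nat_lit 5) (nat_lit 10) (nat_lit 4) (nat_lit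 278) (nat_lit 234) (nat_lit 208)))) (XT.nd (nat_lit 156) (nat_lit 76) (nat_lit 0) (XT.nd (nat_lit 78) (nat_lit 0) (nat_lit 0) (XT.lf (nat_lit 0) (nat_lit 7488193571) (nat_lit 76) (nat_lit 3952295457) (nat_lit 152) (nat_lit 18962189449) (nat_lit 8) (nat_lit 5) (nat_lit 9) (nat_lit 5) (nat_lit 10) (nat_lit 4) (nat_lit 279) (nat_lit 234) (nat_lit 207)) (XT.lf (nat_lit 0) (nat_lit 17193137176) (nat_lit 152) (nat_lit 13495866826) (nat_lit 0) (nat_lit 1827387334) (nat_lit 8) (nat_lit 5) (nat_lit 10) (nat_lit 4) (nat_lit 8) (nat_lit 4) (nat_lit 280) (nat_lit 234) (nat_lit 206))) (XT.nd (nat_lit 78) (nat_lit 76) (nat_lit 0) (XT.lf (nat_lit 0) (nat_lit 23382063201) (nat_lit 152) (nat_lit 3551355057) (nat_lit 0) (nat_lit 7867081968) (nat_lit 8) (nat_lit 5) (nat_lit 10) (nat_lit 4) (nat_lit 8) (nat_lit 4) (nat_lit 281) (nat_lit 234) (nat_lit 205)) (XT.nd (nat_lit 78) (nat_lit 0) (nat_lit 0) (XT.lf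 (nat_lit 0) (nat_lit 7272451099) (nat_lit 76) (nat_lit 22823328054) (nat_lit 76) (nat_lit 7170169608) (nat_lit 7) (nat_lit 4) (nat_lit 8) (nat_lit 5) (nat_lit 8) (nat_lit 4) (nat_lit 282) (nat_lit 234) (nat_lit 204)) (XT.lf (nat_lit 0) (nat_lit 18946425767) (nat_lit 76) (nat_lit 18382148178) (nat_lit 76) (nat_lit 2601047867) (nat_lit 7) (nat_lit 4) (nat_lit 8) (nat_lit 5) (nat_lit 8) (nat_lit 4) (nat_lit 283) (nat_lit 234) (nat_lit 203))))))) (XT.nd (nat_lit 702) (nat_lit 152) (nat_lit 0) (XT.nd (nat_lit 312) (nat_lit 76) (nat_lit 0) (XT.nd (nat_lit 156) (nat_lit 76) (nat_lit 0) (XT.nd (nat_lit 78) (nat_lit 0) (nat_lit 0) (XT.lf (nat_lit 0) (nat_lit 2183658931) (nat_lit 152) (nat_lit 11423064189) (nat_lit 76) (nat_lit 29201683965) (nat_lit 6) (nat_lit 5) (nat_lit 8) (nat_lit 5) (nat_lit 7) (nat_lit 4) (nat_lit 284) (nat_lit 234) (nat_lit 202)) (XT.lf (nat_lit 0) (nat_lit 7191552154) (nat_lit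 152) (nat_lit 1266572610) (nat_lit 76) (nat_lit 37460733132) (nat_lit 6) (nat_lit 5) (nat_lit 8) (nat_lit 5) (nat_lit 7) (nat_lit 4) (nat_lit 285) (nat_lit 234) (nat_lit 201))) (XT.nd (nat_lit 78) (nat_lit 0) (nat_lit 0) (XT.lf (nat_lit 0) (nat_lit 9904066950) (nat_lit 76) (nat_lit 2786121271) (nat_lit 152) (nat_lit 36583517291) (nat_lit 5) (nat_lit 5) (nat_lit 6) (nat_lit 5) (nat_lit 7) (nat_lit 4) (nat_lit 286) (nat_lit 234) (nat_lit 200)) (XT.lf (nat_lit 0) (nat_lit 18641055101) (nat_lit 152) (nat_lit 31047475133) (nat_lit 0) (nat_lit 3207855107) (nat_lit 5) (nat_lit 5) (nat_lit 7) (nat_lit 4) (nat_lit 5) (nat_lit 4) (nat_lit 287) (nat_lit 234) (nat_lit 199)))) (XT.nd (nat_lit 156) (nat_lit 76) (nat_lit 0) (XT.nd (nat_lit 78) (nat_lit 0) (nat_lit 0) (XT.lf (nat_lit 0) (nat_lit 25057353928) (nat_lit 152) (nat_lit 22210889065) (nat_lit 0) (nat_lit 9541225283) (nat_lit 5) (nat_lit 5)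 (nat_lit 7) (nat_lit 4) (nat_lit 5) (nat_lit 4) (nat_lit 288) (nat_lit 234) (nat_lit 198)) (XT.lf (nat_lit 0) (nat_lit 31933608053) (nat_lit 152) (nat_lit 12764016243) (nat_lit 0) (nat_lit 16340693621) (nat_lit 5) (nat_lit 5) (nat_lit 7) (nat_lit 4) (nat_lit 5) (nat_lit 4) (nat_lit 289) (nat_lit 234) (nat_lit 197))) (XT.nd (nat_lit 78) (nat_lit 76) (nat_lit 0) (XT.lf (nat_lit 0) (nat_lit 39310565649) (nat_lit 152) (nat_lit 2650875198) (nat_lit 0) (nat_lit 23646553266) (nat_lit 5) (nat_lit 5) (nat_lit 7) (nat_lit 4) (nat_lit 5) (nat_lit 4) (nat_lit 290) (nat_lit 234) (nat_lit 196)) (XT.nd (nat_lit 78) (nat_lit 0) (nat_lit 0) (XT.lf (nat_lit 0) (nat_lit 8459211386) (nat_lit 76) (nat_lit 38904802631) (nat_lit 76) (nat_lit 23174958811) (nat_lit 4) (nat_lit 4) (nat_lit 5) (nat_lit 5) (nat_lit 5) (nat_lit 4) (nat_lit 291) (nat_lit 234) (nat_lit 195)) (XT.lf (nat_lit 0) (nat_lit 20473514165)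 (nat_lit 76) (nat_lit 35590813424) (nat_lit 76) (nat_lit 19800014571) (nat_lit 4) (nat_lit 4) (nat_lit 5) (nat_lit 5) (nat_lit 5) (nat_lit 4) (nat_lit 292) (nat_lit 234) (nat_lit 194)))))) (XT.nd (nat_lit 390) (nat_lit 76) (nat_lit 0) (XT.nd (nat_lit 156) (nat_lit 76) (nat_lit 0) (XT.nd (nat_lit 78) (nat_lit 0) (nat_lit 0) (XT.lf (nat_lit 0) (nat_lit 33375579101) (nat_lit 76) (nat_lit 32044728628) (nat_lit 76) (nat_lit 16197489928) (nat_lit 4) (nat_lit 4) (nat_lit 5) (nat_lit 5) (nat_lit 5) (nat_lit 4) (nat_lit 293) (nat_lit 234) (nat_lit 193)) (XT.lf (nat_lit 0) (nat_lit 47241862874) (nat_lit 76) (nat_lit 28245534405) (nat_lit 76) (nat_lit 12346036589) (nat_lit 4) (nat_lit 4) (nat_lit 5) (nat_lit 5) (nat_lit 5) (nat_lit 4) (nat_lit 294) (nat_lit 234) (nat_lit 192))) (XT.nd (nat_lit 78) (nat_lit 76) (nat_lit 0) (XT.lf (nat_lit 0) (nat_lit 62154536055) (nat_lit 76) (nat_lit 24170717014)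 (nat_lit 76) (nat_lit 8222831126) (nat_lit 4) (nat_lit 4) (nat_lit 5) (nat_lit 5) (nat_lit 5) (nat_lit 4) (nat_lit 295) (nat_lit 234) (nat_lit 191)) (XT.nd (nat_lit 78) (nat_lit 76) (nat_lit 0) (XT.lf (nat_lit 0) (nat_lit 78201970042) (nat_lit 76) (nat_lit 19796129387) (nat_lit 76) (nat_lit 3803439729) (nat_lit 4) (nat_lit 4) (nat_lit 5) (nat_lit 5) (nat_lit 5) (nat_lit 4) (nat_lit 296) (nat_lit 234) (nat_lit 190)) (XT.lf (nat_lit 0) (nat_lit 908294275) (nat_lit 152) (nat_lit 14172171364) (nat_lit 76) (nat_lit 94555584059) (nat_lit 3) (nat_lit 5) (nat_lit 5) (nat_lit 5) (nat_lit 4) (nat_lit 4) (nat_lit 297) (nat_lit 234) (nat_lit 189))))) (XT.nd (nat_lit 156) (nat_lit 0) (nat_lit 0) (XT.nd (nat_lit 78) (nat_lit 76) (nat_lit 0) (XT.lf (nat_lit 0) (nat_lit 5837551366) (nat_lit 152) (nat_lit 4105606337) (nat_lit 76) (nat_lit 108152378964) (nat_lit 3) (nat_lit 5) (nat_lit 5) (nat_lit 5) (nat_lit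 4) (nat_lit 4) (nat_lit 298) (nat_lit 234) (nat_lit 188)) (XT.lf (nat_lit 0) (nat_lit 6941327875) (nat_lit 76) (nat_lit 4302321486) (nat_lit 152) (nat_lit 115984031440) (nat_lit 2) (nat_lit 5) (nat_lit 3) (nat_lit 5) (nat_lit 4) (nat_lit 4) (nat_lit 299) (nat_lit 234) (nat_lit 187))) (XT.nd (nat_lit 78) (nat_lit 0) (nat_lit 0) (XT.lf (nat_lit 0) (nat_lit 17157888974) (nat_lit 152) (nat_lit 118143319637) (nat_lit 0) (nat_lit 1785426665) (nat_lit 2) (nat_lit 5) (nat_lit 4) (nat_lit 4) (nat_lit 2) (nat_lit 4) (nat_lit 300) (nat_lit 234) (nat_lit 186)) (XT.nd (nat_lit 78) (nat_lit 0) (nat_lit 0) (XT.lf (nat_lit 0) (nat_lit 23594683911) (nat_lit 152) (nat_lit 115943990359) (nat_lit 0) (nat_lit 8193180942) (nat_lit 2) (nat_lit 5) (nat_lit 4) (nat_lit 4) (nat_lit 2) (nat_lit 4) (nat_lit 301) (nat_lit 234) (nat_lit 185)) (XT.lf (nat_lit 0) (nat_lit 30525006845) (nat_lit 152) (nat_lit 113608160733)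 (nat_lit 0) (nat_lit 15096614376) (nat_lit 2) (nat_lit 5) (nat_lit 4) (nat_lit 4) (nat_lit 2) (nat_lit 4) (nat_lit 302) (nat_lit 234) (nat_lit 184))))))))
noncomputable def xc37 : XT := (XT.nd (nat_lit 1404) (nat_lit 76) (nat_lit 0) (XT.nd (nat_lit 702) (nat_lit 0) (nat_lit 0) (XT.nd (nat_lit 312) (nat_lit 0) (nat_lit 0) (XT.nd (nat_lit 156) (nat_lit 0) (nat_lit 0) (XT.nd (nat_lit 78) (nat_lit 0) (nat_lit 0) (XT.lf (nat_lit 0) (nat_lit 37989926358) (nat_lit 152) (nat_lit 111121988807) (nat_lit 0) (nat_lit 22536636204) (nat_lit 2) (nat_lit 5) (nat_lit 4) (nat_lit 4) (nat_lit 2) (nat_lit 4) (nat_lit 303) (nat_lit 234) (nat_lit 183)) (XT.lf (nat_lit 0) (nat_lit 46033679009) (nat_lit 152) (nat_lit 108470741710) (nat_lit 0) (nat_lit 30557335443) (nat_lit 2) (nat_lit 5) (nat_lit 4) (nat_lit 4) (nat_lit 2) (nat_lit 4) (nat_lit 304) (nat_lit 234) (nat_lit 182))) (XT.nd (nat_lit 78) (nat_lit 0)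 (nat_lit 0) (XT.lf (nat_lit 0) (nat_lit 54703931480) (nat_lit 152) (nat_lit 105638708347) (nat_lit 0) (nat_lit 39206242162) (nat_lit 2) (nat_lit 5) (nat_lit 4) (nat_lit 4) (nat_lit 2) (nat_lit 4) (nat_lit 305) (nat_lit 234) (nat_lit 181)) (XT.lf (nat_lit 0) (nat_lit 64052063046) (nat_lit 152) (nat_lit 102609106300) (nat_lit 0) (nat_lit 48534609143) (nat_lit 2) (nat_lit 5) (nat_lit 4) (nat_lit 4) (nat_lit 2) (nat_lit 4) (nat_lit 306) (nat_lit 234) (nat_lit 180)))) (XT.nd (nat_lit 156) (nat_lit 0) (nat_lit 0) (XT.nd (nat_lit 78) (nat_lit 0) (nat_lit 0) (XT.lf (nat_lit 0) (nat_lit 74133470042) (nat_lit 152) (nat_lit 99363982371) (nat_lit 0) (nat_lit 58597715597) (nat_lit 2) (nat_lit 5) (nat_lit 4) (nat_lit 4) (nat_lit 2) (nat_lit 4) (nat_lit 307) (nat_lit 234) (nat_lit 179)) (XT.lf (nat_lit 0) (nat_lit 85007894138) (nat_lit 152) (nat_lit 95884106195) (nat_lit 0) (nat_lit 69455194748) (nat_lit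 2) (nat_lit 5) (nat_lit 4) (nat_lit 4) (nat_lit 2) (nat_lit 4) (nat_lit 308) (nat_lit 234) (nat_lit 178))) (XT.nd (nat_lit 78) (nat_lit 0) (nat_lit 0) (XT.lf (nat_lit 0) (nat_lit 96739776368) (nat_lit 152) (nat_lit 92148856284) (nat_lit 0) (nat_lit 81171387212) (nat_lit 2) (nat_lit 5) (nat_lit 4) (nat_lit 4) (nat_lit 2) (nat_lit 4) (nat_lit 309) (nat_lit 234) (nat_lit 177)) (XT.nd (nat_lit 78) (nat_lit 0) (nat_lit 0) (XT.lf (nat_lit 0) (nat_lit 109398638994) (nat_lit 152) (nat_lit 88136097824) (nat_lit 0) (nat_lit 93815722279) (nat_lit 2) (nat_lit 5) (nat_lit 4) (nat_lit 4) (nat_lit 2) (nat_lit 4) (nat_lit 310) (nat_lit 234) (nat_lit 176)) (XT.lf (nat_lit 0) (nat_lit 123059497501) (nat_lit 152) (nat_lit 83822051506) (nat_lit 0) (nat_lit 107463129341) (nat_lit 2) (nat_lit 5) (nat_lit 4) (nat_lit 4) (nat_lit 2) (nat_lit 4) (nat_lit 311) (nat_lit 234) (nat_lit 175)))))) (XT.nd (nat_lit 312)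 (nat_lit 0) (nat_lit 0) (XT.nd (nat_lit 156) (nat_lit 0) (nat_lit 0) (XT.nd (nat_lit 78) (nat_lit 0) (nat_lit 0) (XT.lf (nat_lit 0) (nat_lit 137803305123) (nat_lit 152) (nat_lit 79181152610) (nat_lit 0) (nat_lit 122194481922) (nat_lit 2) (nat_lit 5) (nat_lit 4) (nat_lit 4) (nat_lit 2) (nat_lit 4) (nat_lit 312) (nat_lit 234) (nat_lit 174)) (XT.lf (nat_lit 0) (nat_lit 153717432572) (nat_lit 152) (nat_lit 74185899514) (nat_lit 0) (nat_lit 138097076926) (nat_lit 2) (nat_lit 5) (nat_lit 4) (nat_lit 4) (nat_lit 2) (nat_lit 4) (nat_lit 313) (nat_lit 234) (nat_lit 173))) (XT.nd (nat_lit 78) (nat_lit 0) (nat_lit 0) (XT.lf (nat_lit 0) (nat_lit 170896185789) (nat_lit 152) (nat_lit 68806690718) (nat_lit 0) (nat_lit 155265151952) (nat_lit 2) (nat_lit 5) (nat_lit 4) (nat_lit 4) (nat_lit 2) (nat_lit 4) (nat_lit 314) (nat_lit 234) (nat_lit 172)) (XT.lf (nat_lit 0) (nat_lit 189441364793) (nat_lit 152)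 (nat_lit 63011649428) (nat_lit 0) (nat_lit 173800443743) (nat_lit 2) (nat_lit 5) (nat_lit 4) (nat_lit 4) (nat_lit 2) (nat_lit 4) (nat_lit 315) (nat_lit 234) (nat_lit 171)))) (XT.nd (nat_lit 156) (nat_lit 0) (nat_lit 0) (XT.nd (nat_lit 78) (nat_lit 0) (nat_lit 0) (XT.lf (nat_lit 0) (nat_lit 209462866940) (nat_lit 152) (nat_lit 56766434660) (nat_lit 0) (nat_lit 193812791063) (nat_lit 2) (nat_lit 5) (nat_lit 4) (nat_lit 4) (nat_lit 2) (nat_lit 4) (nat_lit 316) (nat_lit 234) (nat_lit 170)) (XT.lf (nat_lit 0) (nat_lit 231079338170) (nat_lit 152) (nat_lit 50034037733) (nat_lit 0) (nat_lit 215420785602) (nat_lit 2) (nat_lit 5) (nat_lit 4) (nat_lit 4) (nat_lit 2) (nat_lit 4) (nat_lit 317) (nat_lit 234) (nat_lit 169))) (XT.nd (nat_lit 78) (nat_lit 0) (nat_lit 0) (XT.lf (nat_lit 0) (nat_lit 254418876090) (nat_lit 152) (nat_lit 42774562962) (nat_lit 0) (nat_lit 238752474733) (nat_lit 2) (nat_lit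 5) (nat_lit 4) (nat_lit 4) (nat_lit 2) (nat_lit 4) (nat_lit 318) (nat_lit 234) (nat_lit 168)) (XT.nd (nat_lit 78) (nat_lit 0) (nat_lit 0) (XT.lf (nat_lit 0) (nat_lit 279619789073) (nat_lit 152) (nat_lit 34944991237) (nat_lit 0) (nat_lit 263946120318) (nat_lit 2) (nat_lit 5) (nat_lit 4) (nat_lit 4) (nat_lit 2) (nat_lit 4) (nat_lit 319) (nat_lit 234) (nat_lit 167)) (XT.lf (nat_lit 0) (nat_lit 306831415861) (nat_lit 152) (nat_lit 26498925096) (nat_lit 0) (nat_lit 291151018036) (nat_lit 2) (nat_lit 5) (nat_lit 4) (nat_lit 4) (nat_lit 2) (nat_lit 4) (nat_lit 320) (nat_lit 234) (nat_lit 166))))))) (XT.nd (nat_lit 32448) (nat_lit 0) (nat_lit 1672) (XT.nd (nat_lit 32058) (nat_lit 0) (nat_lit 3800) (XT.nd (nat_lit 156) (nat_lit 76) (nat_lit 0) (XT.nd (nat_lit 78) (nat_lit 0) (nat_lit 0) (XT.lf (nat_lit 0) (nat_lit 336215010541) (nat_lit 152) (nat_lit 17386313777) (nat_lit 0) (nat_lit 320528382094)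 (nat_lit 2) (nat_lit 5) (nat_lit 4) (nat_lit 4) (nat_lit 2) (nat_lit 4) (nat_lit 321) (nat_lit 234) (nat_lit 165)) (XT.lf (nat_lit 0) (nat_lit 367944698117) (nat_lit 152) (nat_lit 7553156620) (nat_lit 0) (nat_lit 352252300576) (nat_lit 2) (nat_lit 5) (nat_lit 4) (nat_lit 4) (nat_lit 2) (nat_lit 4) (nat_lit 322) (nat_lit 234) (nat_lit 164))) (XT.nd (nat_lit 31824) (nat_lit 0) (nat_lit 6004) (XT.lf (nat_lit 0) (nat_lit 3159955237) (nat_lit 76) (nat_lit 399097886886) (nat_lit 76) (nat_lit 383400147592) (nat_lit 1) (nat_lit 4) (nat_lit 2) (nat_lit 5) (nat_lit 2) (nat_lit 4) (nat_lit 323) (nat_lit 234) (nat_lit 163)) (XT.lf (nat_lit 0) (nat_lit 1333385220) (nat_lit 684) (nat_lit 957239308) (nat_lit 0) (nat_lit 1333385220) (nat_lit 80) (nat_lit 5) (nat_lit 89) (nat_lit 4) (nat_lit 80) (nat_lit 4) (nat_lit 250) (nat_lit 235) (nat_lit 235)))) (XT.nd (nat_lit 156) (nat_lit 1140) (nat_lit 0) (XT.nd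 (nat_lit 78) (nat_lit 304) (nat_lit 0) (XT.lf (nat_lit 0) (nat_lit 241349452) (nat_lit 760) (nat_lit 1883340586) (nat_lit 76) (nat_lit 5303708165) (nat_lit 70) (nat_lit 5) (nat_lit 80) (nat_lit 5) (nat_lit 71) (nat_lit 4) (nat_lit 251) (nat_lit 235) (nat_lit 234)) (XT.lf (nat_lit 0) (nat_lit 5058400514) (nat_lit 380) (nat_lit 1877591105) (nat_lit 0) (nat_lit 696440650) (nat_lit 66) (nat_lit 5) (nat_lit 71) (nat_lit 4) (nat_lit 66) (nat_lit 4) (nat_lit 252) (nat_lit 235) (nat_lit 233))) (XT.nd (nat_lit 78) (nat_lit 684) (nat_lit 0) (XT.lf (nat_lit 0) (nat_lit 2142192855) (nat_lit 456) (nat_lit 1912220147) (nat_lit 76) (nat_lit 3807202115) (nat_lit 60) (nat_lit 5) (nat_lit 66) (nat_lit 5) (nat_lit 61) (nat_lit 4) (nat_lit 253) (nat_lit 235) (nat_lit 232)) (XT.nd (nat_lit 78) (nat_lit 380) (nat_lit 0) (XT.lf (nat_lit 0) (nat_lit 6129333633) (nat_lit 304) (nat_lit 812603450) (nat_lit 380)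 (nat_lit 1176439351) (nat_lit 56) (nat_lit 5) (nat_lit 60) (nat_lit 5) (nat_lit 61) (nat_lit 4) (nat_lit 254) (nat_lit 235) (nat_lit 231)) (XT.lf (nat_lit 0) (nat_lit 3465216030) (nat_lit 380) (nat_lit 2197621304) (nat_lit 76) (nat_lit 2738233868) (nat_lit 51) (nat_lit 5) (nat_lit 56) (nat_lit 5) (nat_lit 52) (nat_lit 4) (nat_lit 255) (nat_lit 235) (nat_lit 230)))))) (XT.nd (nat_lit 390) (nat_lit 836) (nat_lit 0) (XT.nd (nat_lit 156) (nat_lit 684) (nat_lit 0) (XT.nd (nat_lit 78) (nat_lit 380) (nat_lit 0) (XT.lf (nat_lit 0) (nat_lit 6203609374) (nat_lit 228) (nat_lit 2075878638) (nat_lit 304) (nat_lit 434762675) (nat_lit 48) (nat_lit 5) (nat_lit 51) (nat_lit 5) (nat_lit 52) (nat_lit 4) (nat_lit 256) (nat_lit 235) (nat_lit 229)) (XT.lf (nat_lit 0) (nat_lit 4155816689) (nat_lit 380) (nat_lit 3031647409) (nat_lit 76) (nat_lit 1868856583) (nat_lit 43) (nat_lit 5) (nat_lit 48) (nat_lit 5) (nat_lit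 44) (nat_lit 4) (nat_lit 257) (nat_lit 235) (nat_lit 228))) (XT.nd (nat_lit 78) (nat_lit 456) (nat_lit 0) (XT.lf (nat_lit 0) (nat_lit 5677785021) (nat_lit 228) (nat_lit 3311249085) (nat_lit 304) (nat_lit 442617228) (nat_lit 40) (nat_lit 5) (nat_lit 43) (nat_lit 5) (nat_lit 44) (nat_lit 4) (nat_lit 258) (nat_lit 235) (nat_lit 227)) (XT.nd (nat_lit 78) (nat_lit 152) (nat_lit 0) (XT.lf (nat_lit 0) (nat_lit 4112920913) (nat_lit 304) (nat_lit 4768139078) (nat_lit 76) (nat_lit 959178267) (nat_lit 36) (nat_lit 5) (nat_lit 40) (nat_lit 5) (nat_lit 37) (nat_lit 4) (nat_lit 259) (nat_lit 235) (nat_lit 226)) (XT.lf (nat_lit 0) (nat_lit 4169738779) (nat_lit 152) (nat_lit 4780549060) (nat_lit 228) (nat_lit 1334855860) (nat_lit 34) (nat_lit 5) (nat_lit 36) (nat_lit 5) (nat_lit 37) (nat_lit 4) (nat_lit 260) (nat_lit 235) (nat_lit 225))))) (XT.nd (nat_lit 156) (nat_lit 380) (nat_lit 0) (XT.nd (nat_lit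 78) (nat_lit 152) (nat_lit 0) (XT.lf (nat_lit 0) (nat_lit 2917858384) (nat_lit 228) (nat_lit 266273547) (nat_lit 304) (nat_lit 7585199999) (nat_lit 30) (nat_lit 5) (nat_lit 33) (nat_lit 5) (nat_lit 34) (nat_lit 5) (nat_lit 261) (nat_lit 235) (nat_lit 224)) (XT.lf (nat_lit 0) (nat_lit 1199826243) (nat_lit 152) (nat_lit 6783213691) (nat_lit 228) (nat_lit 3310384500) (nat_lit 28) (nat_lit 5) (nat_lit 30) (nat_lit 5) (nat_lit 31) (nat_lit 4) (nat_lit 262) (nat_lit 235) (nat_lit 223))) (XT.nd (nat_lit 78) (nat_lit 304) (nat_lit 0) (XT.lf (nat_lit 0) (nat_lit 1181740685) (nat_lit 228) (nat_lit 964562394) (nat_lit 76) (nat_lit 9716724623) (nat_lit 27) (nat_lit 5) (nat_lit 30) (nat_lit 5) (nat_lit 28) (nat_lit 5) (nat_lit 263) (nat_lit 235) (nat_lit 222)) (XT.nd (nat_lit 78) (nat_lit 152) (nat_lit 0) (XT.lf (nat_lit 0) (nat_lit 5892889409) (nat_lit 228) (nat_lit 3720039701) (nat_lit 76) (nat_lit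 2864201053) (nat_lit 25) (nat_lit 5) (nat_lit 28) (nat_lit 5) (nat_lit 26) (nat_lit 4) (nat_lit 264) (nat_lit 235) (nat_lit 221)) (XT.lf (nat_lit 0) (nat_lit 5996617681) (nat_lit 152) (nat_lit 4930824288) (nat_lit 228) (nat_lit 2215987719) (nat_lit 23) (nat_lit 5) (nat_lit 25) (nat_lit 5) (nat_lit 26) (nat_lit 4) (nat_lit 265) (nat_lit 235) (nat_lit 220))))))))
noncomputable def xc38 : XT := (XT.nd (nat_lit 1404) (nat_lit 380) (nat_lit 0) (XT.nd (nat_lit 702) (nat_lit 380) (nat_lit 0) (XT.nd (nat_lit 312) (nat_lit 304) (nat_lit 0) (XT.nd (nat_lit 156) (nat_lit 304) (nat_lit 0) (XT.nd (nat_lit 78) (nat_lit 0) (nat_lit 0) (XT.lf (nat_lit 0) (nat_lit 2335518143) (nat_lit 228) (nat_lit 11368435416) (nat_lit 76) (nat_lit 161781349) (nat_lit 20) (nat_lit 5) (nat_lit 23) (nat_lit 5) (nat_lit 21) (nat_lit 4) (nat_lit 266) (nat_lit 235) (nat_lit 219)) (XT.lf (nat_lit 0) (nat_lit 7198728301) (nat_lit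 228) (nat_lit 1892171731) (nat_lit 76) (nat_lit 5552169156) (nat_lit 20) (nat_lit 5) (nat_lit 23) (nat_lit 5) (nat_lit 21) (nat_lit 4) (nat_lit 267) (nat_lit 235) (nat_lit 218))) (XT.nd (nat_lit 78) (nat_lit 228) (nat_lit 0) (XT.lf (nat_lit 0) (nat_lit 8332808936) (nat_lit 76) (nat_lit 4076531948) (nat_lit 152) (nat_lit 3075630272) (nat_lit 19) (nat_lit 5) (nat_lit 20) (nat_lit 5) (nat_lit 21) (nat_lit 4) (nat_lit 268) (nat_lit 235) (nat_lit 217)) (XT.lf (nat_lit 0) (nat_lit 1522824665) (nat_lit 228) (nat_lit 13572761635) (nat_lit 76) (nat_lit 1300978697) (nat_lit 16) (nat_lit 5) (nat_lit 19) (nat_lit 5) (nat_lit 17) (nat_lit 4) (nat_lit 269) (nat_lit 235) (nat_lit 216)))) (XT.nd (nat_lit 156) (nat_lit 228) (nat_lit 0) (XT.nd (nat_lit 78) (nat_lit 76) (nat_lit 0) (XT.lf (nat_lit 0) (nat_lit 6418819752) (nat_lit 228) (nat_lit 3908934612) (nat_lit 76) (nat_lit 7049183538) (nat_lit 16) (nat_lit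 5) (nat_lit 19) (nat_lit 5) (nat_lit 17) (nat_lit 4) (nat_lit 270) (nat_lit 235) (nat_lit 215)) (XT.lf (nat_lit 0) (nat_lit 6490662290) (nat_lit 76) (nat_lit 5169588157) (nat_lit 152) (nat_lit 6778027861) (nat_lit 15) (nat_lit 5) (nat_lit 16) (nat_lit 5) (nat_lit 17) (nat_lit 4) (nat_lit 271) (nat_lit 235) (nat_lit 214))) (XT.nd (nat_lit 78) (nat_lit 228) (nat_lit 0) (XT.lf (nat_lit 0) (nat_lit 17254688334) (nat_lit 152) (nat_lit 1966870269) (nat_lit 0) (nat_lit 366491474) (nat_lit 15) (nat_lit 5) (nat_lit 17) (nat_lit 4) (nat_lit 15) (nat_lit 4) (nat_lit 272) (nat_lit 235) (nat_lit 213)) (XT.nd (nat_lit 78) (nat_lit 0) (nat_lit 0) (XT.lf (nat_lit 0) (nat_lit 2482293606) (nat_lit 228) (nat_lit 12081466373) (nat_lit 76) (nat_lit 6259583391) (nat_lit 12) (nat_lit 5) (nat_lit 15) (nat_lit 5) (nat_lit 13) (nat_lit 4) (nat_lit 273) (nat_lit 235) (nat_lit 212)) (XT.lf (nat_lit 0) (nat_lit 7510273705)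 (nat_lit 228) (nat_lit 2035191808) (nat_lit 76) (nat_lit 12614811388) (nat_lit 12) (nat_lit 5) (nat_lit 15) (nat_lit 5) (nat_lit 13) (nat_lit 4) (nat_lit 274) (nat_lit 235) (nat_lit 211)))))) (XT.nd (nat_lit 312) (nat_lit 152) (nat_lit 0) (XT.nd (nat_lit 156) (nat_lit 152) (nat_lit 0) (XT.nd (nat_lit 78) (nat_lit 0) (nat_lit 0) (XT.lf (nat_lit 0) (nat_lit 8898577457) (nat_lit 76) (nat_lit 4063166638) (nat_lit 152) (nat_lit 10641516259) (nat_lit 11) (nat_lit 5) (nat_lit 12) (nat_lit 5) (nat_lit 13) (nat_lit 4) (nat_lit 275) (nat_lit 235) (nat_lit 210)) (XT.lf (nat_lit 0) (nat_lit 18801150337) (nat_lit 152) (nat_lit 4606542693) (nat_lit 0) (nat_lit 1756544686) (nat_lit 11) (nat_lit 5) (nat_lit 13) (nat_lit 4) (nat_lit 11) (nat_lit 4) (nat_lit 276) (nat_lit 235) (nat_lit 209))) (XT.nd (nat_lit 78) (nat_lit 76) (nat_lit 0) (XT.lf (nat_lit 0) (nat_lit 6248738900) (nat_lit 76) (nat_lit 18920210656)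 (nat_lit 76) (nat_lit 1678217004) (nat_lit 10) (nat_lit 4) (nat_lit 11) (nat_lit 5) (nat_lit 11) (nat_lit 4) (nat_lit 277) (nat_lit 235) (nat_lit 208)) (XT.lf (nat_lit 0) (nat_lit 3253229142) (nat_lit 152) (nat_lit 10755640578) (nat_lit 76) (nat_lit 14654338958) (nat_lit 9) (nat_lit 5) (nat_lit 11) (nat_lit 5) (nat_lit 10) (nat_lit 4) (nat_lit 278) (nat_lit 235) (nat_lit 207)))) (XT.nd (nat_lit 156) (nat_lit 76) (nat_lit 0) (XT.nd (nat_lit 78) (nat_lit 76) (nat_lit 0) (XT.lf (nat_lit 0) (nat_lit 8427157310) (nat_lit 152) (nat_lit 318316231) (nat_lit 76) (nat_lit 21882457383) (nat_lit 9) (nat_lit 5) (nat_lit 11) (nat_lit 5) (nat_lit 10) (nat_lit 4) (nat_lit 279) (nat_lit 235) (nat_lit 206)) (XT.lf (nat_lit 0) (nat_lit 11158747468) (nat_lit 76) (nat_lit 2943413091) (nat_lit 152) (nat_lit 18643414654) (nat_lit 8) (nat_lit 5) (nat_lit 9) (nat_lit 5) (nat_lit 10) (nat_lit 4) (nat_lit 280)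 (nat_lit 235) (nat_lit 205))) (XT.nd (nat_lit 78) (nat_lit 76) (nat_lit 0) (XT.lf (nat_lit 0) (nat_lit 20204810745) (nat_lit 152) (nat_lit 11668010283) (nat_lit 0) (nat_lit 3161222409) (nat_lit 8) (nat_lit 5) (nat_lit 10) (nat_lit 4) (nat_lit 8) (nat_lit 4) (nat_lit 281) (nat_lit 235) (nat_lit 204)) (XT.nd (nat_lit 78) (nat_lit 76) (nat_lit 0) (XT.lf (nat_lit 0) (nat_lit 26767649178) (nat_lit 152) (nat_lit 1143309861) (nat_lit 0) (nat_lit 9596118977) (nat_lit 8) (nat_lit 5) (nat_lit 10) (nat_lit 4) (nat_lit 8) (nat_lit 4) (nat_lit 282) (nat_lit 235) (nat_lit 203)) (XT.lf (nat_lit 0) (nat_lit 10429403073) (nat_lit 76) (nat_lit 23517040962) (nat_lit 76) (nat_lit 6227046072) (nat_lit 7) (nat_lit 4) (nat_lit 8) (nat_lit 5) (nat_lit 8) (nat_lit 4) (nat_lit 283) (nat_lit 235) (nat_lit 202))))))) (XT.nd (nat_lit 702) (nat_lit 152) (nat_lit 0) (XT.nd (nat_lit 312) (nat_lit 76) (nat_lit 0) (XT.nd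 (nat_lit 156) (nat_lit 76) (nat_lit 0) (XT.nd (nat_lit 78) (nat_lit 76) (nat_lit 0) (XT.lf (nat_lit 0) (nat_lit 22846543426) (nat_lit 76) (nat_lit 18804429905) (nat_lit 76) (nat_lit 1404745489) (nat_lit 7) (nat_lit 4) (nat_lit 8) (nat_lit 5) (nat_lit 8) (nat_lit 4) (nat_lit 284) (nat_lit 235) (nat_lit 201)) (XT.lf (nat_lit 0) (nat_lit 3617089681) (nat_lit 152) (nat_lit 10086214945) (nat_lit 76) (nat_lit 32465544419) (nat_lit 6) (nat_lit 5) (nat_lit 8) (nat_lit 5) (nat_lit 7) (nat_lit 4) (nat_lit 285) (nat_lit 235) (nat_lit 200))) (XT.nd (nat_lit 78) (nat_lit 0) (nat_lit 0) (XT.lf (nat_lit 0) (nat_lit 739754626) (nat_lit 76) (nat_lit 8204169524) (nat_lit 152) (nat_lit 40588392110) (nat_lit 5) (nat_lit 5) (nat_lit 6) (nat_lit 5) (nat_lit 7) (nat_lit 4) (nat_lit 286) (nat_lit 235) (nat_lit 199)) (XT.lf (nat_lit 0) (nat_lit 12689801514) (nat_lit 76) (nat_lit 2125889451) (nat_lit 152) (nat_lit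 38343287459) (nat_lit 5) (nat_lit 5) (nat_lit 6) (nat_lit 5) (nat_lit 7) (nat_lit 4) (nat_lit 287) (nat_lit 235) (nat_lit 198)))) (XT.nd (nat_lit 156) (nat_lit 76) (nat_lit 0) (XT.nd (nat_lit 78) (nat_lit 0) (nat_lit 0) (XT.lf (nat_lit 0) (nat_lit 21173150331) (nat_lit 152) (nat_lit 31645861352) (nat_lit 0) (nat_lit 4256016957) (nat_lit 5) (nat_lit 5) (nat_lit 7) (nat_lit 4) (nat_lit 5) (nat_lit 4) (nat_lit 288) (nat_lit 235) (nat_lit 197)) (XT.lf (nat_lit 0) (nat_lit 28025655967) (nat_lit 152) (nat_lit 22242008532) (nat_lit 0) (nat_lit 11037424641) (nat_lit 5) (nat_lit 5) (nat_lit 7) (nat_lit 4) (nat_lit 5) (nat_lit 4) (nat_lit 289) (nat_lit 235) (nat_lit 196))) (XT.nd (nat_lit 78) (nat_lit 76) (nat_lit 0) (XT.lf (nat_lit 0) (nat_lit 35380624220) (nat_lit 152) (nat_lit 12168700822) (nat_lit 0) (nat_lit 18326561458) (nat_lit 5) (nat_lit 5) (nat_lit 7) (nat_lit 4) (nat_lit 5) (nat_lit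 4) (nat_lit 290) (nat_lit 235) (nat_lit 195)) (XT.nd (nat_lit 78) (nat_lit 76) (nat_lit 0) (XT.lf (nat_lit 0) (nat_lit 43281640089) (nat_lit 152) (nat_lit 1366244547) (nat_lit 0) (nat_lit 26166622293) (nat_lit 5) (nat_lit 5) (nat_lit 7) (nat_lit 4) (nat_lit 5) (nat_lit 4) (nat_lit 291) (nat_lit 235) (nat_lit 194)) (XT.lf (nat_lit 0) (nat_lit 10567604177) (nat_lit 76) (nat_lit 41372910148) (nat_lit 76) (nat_lit 24201452505) (nat_lit 4) (nat_lit 4) (nat_lit 5) (nat_lit 5) (nat_lit 5) (nat_lit 4) (nat_lit 292) (nat_lit 235) (nat_lit 193)))))) (XT.nd (nat_lit 390) (nat_lit 152) (nat_lit 0) (XT.nd (nat_lit 156) (nat_lit 0) (nat_lit 0) (XT.nd (nat_lit 78) (nat_lit 0) (nat_lit 0) (XT.lf (nat_lit 0) (nat_lit 23437002595) (nat_lit 76) (nat_lit 37841526004) (nat_lit 76) (nat_lit 20617809245) (nat_lit 4) (nat_lit 4) (nat_lit 5) (nat_lit 5) (nat_lit 5) (nat_lit 4) (nat_lit 293) (nat_lit 235) (nat_lit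 192)) (XT.lf (nat_lit 0) (nat_lit 37273039592) (nat_lit 76) (nat_lit 34055943497) (nat_lit 76) (nat_lit 16783838667) (nat_lit 4) (nat_lit 4) (nat_lit 5) (nat_lit 5) (nat_lit 5) (nat_lit 4) (nat_lit 294) (nat_lit 235) (nat_lit 191))) (XT.nd (nat_lit 78) (nat_lit 0) (nat_lit 0) (XT.lf (nat_lit 0) (nat_lit 52157706500) (nat_lit 76) (nat_lit 29993729546) (nat_lit 76) (nat_lit 12676820946) (nat_lit 4) (nat_lit 4) (nat_lit 5) (nat_lit 5) (nat_lit 5) (nat_lit 4) (nat_lit 295) (nat_lit 235) (nat_lit 190)) (XT.nd (nat_lit 78) (nat_lit 0) (nat_lit 0) (XT.lf (nat_lit 0) (nat_lit 68179208751) (nat_lit 76) (nat_lit 25630811771) (nat_lit 76) (nat_lit 8272418200) (nat_lit 4) (nat_lit 4) (nat_lit 5) (nat_lit 5) (nat_lit 5) (nat_lit 4) (nat_lit 296) (nat_lit 235) (nat_lit 189)) (XT.lf (nat_lit 0) (nat_lit 85432488581) (nat_lit 76) (nat_lit 20941335845) (nat_lit 76) (nat_lit 3544530263) (nat_lit 4) (nat_lit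 4) (nat_lit 5) (nat_lit 5) (nat_lit 5) (nat_lit 4) (nat_lit 297) (nat_lit 235) (nat_lit 188))))) (XT.nd (nat_lit 156) (nat_lit 76) (nat_lit 0) (XT.nd (nat_lit 78) (nat_lit 0) (nat_lit 0) (XT.lf (nat_lit 0) (nat_lit 1485734871) (nat_lit 152) (nat_lit 14386615771) (nat_lit 76) (nat_lit 102508891138) (nat_lit 3) (nat_lit 5) (nat_lit 5) (nat_lit 5) (nat_lit 4) (nat_lit 4) (nat_lit 298) (nat_lit 235) (nat_lit 187)) (XT.lf (nat_lit 0) (nat_lit 6771941637) (nat_lit 152) (nat_lit 3582824009) (nat_lit 76) (nat_lit 117164625165) (nat_lit 3) (nat_lit 5) (nat_lit 5) (nat_lit 5) (nat_lit 4) (nat_lit 4) (nat_lit 299) (nat_lit 235) (nat_lit 186))) (XT.nd (nat_lit 78) (nat_lit 0) (nat_lit 0) (XT.lf (nat_lit 0) (nat_lit 8310871485) (nat_lit 76) (nat_lit 4277747317) (nat_lit 152) (nat_lit 124794614180) (nat_lit 2) (nat_lit 5) (nat_lit 3) (nat_lit 5) (nat_lit 4) (nat_lit 4) (nat_lit 300) (nat_lit 235) (nat_lit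 185)) (XT.nd (nat_lit 78) (nat_lit 0) (nat_lit 0) (XT.lf (nat_lit 0) (nat_lit 18948330154) (nat_lit 152) (nat_lit 126825209015) (nat_lit 0) (nat_lit 2258776788) (nat_lit 2) (nat_lit 5) (nat_lit 4) (nat_lit 4) (nat_lit 2) (nat_lit 4) (nat_lit 301) (nat_lit 235) (nat_lit 184)) (XT.lf (nat_lit 0) (nat_lit 25869119792) (nat_lit 152) (nat_lit 124506939038) (nat_lit 0) (nat_lit 9154668741) (nat_lit 2) (nat_lit 5) (nat_lit 4) (nat_lit 4) (nat_lit 2) (nat_lit 4) (nat_lit 302) (nat_lit 235) (nat_lit 183))))))))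
noncomputable def xc39 : XT := (XT.nd (nat_lit 1404) (nat_lit 0) (nat_lit 0) (XT.nd (nat_lit 702) (nat_lit 0) (nat_lit 0) (XT.nd (nat_lit 312) (nat_lit 0) (nat_lit 0) (XT.nd (nat_lit 156) (nat_lit 0) (nat_lit 0) (XT.nd (nat_lit 78) (nat_lit 0) (nat_lit 0) (XT.lf (nat_lit 0) (nat_lit 33325212179) (nat_lit 152) (nat_lit 122037026046) (nat_lit 0) (nat_lit 16587707715) (nat_lit 2) (nat_lit 5) (nat_lit 4) (nat_lit 4) (nat_lit 2) (nat_lit 4) (nat_lit 303) (nat_lit 235) (nat_lit 182)) (XT.lf (nat_lit 0) (nat_lit 41360791564) (nat_lit 152) (nat_lit 119400833517) (nat_lit 0) (nat_lit 24601941349) (nat_lit 2) (nat_lit 5) (nat_lit 4) (nat_lit 4) (nat_lit 2) (nat_lit 4) (nat_lit 304) (nat_lit 235) (nat_lit 181))) (XT.nd (nat_lit 78) (nat_lit 0) (nat_lit 0) (XT.lf (nat_lit 0) (nat_lit 50023476198) (nat_lit 152) (nat_lit 116582739570) (nat_lit 0) (nat_lit 33244861398) (nat_lit 2) (nat_lit 5) (nat_lit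 4) (nat_lit 4) (nat_lit 2) (nat_lit 4) (nat_lit 305) (nat_lit 235) (nat_lit 180)) (XT.lf (nat_lit 0) (nat_lit 59364600506) (nat_lit 152) (nat_lit 113566044389) (nat_lit 0) (nat_lit 42567685165) (nat_lit 2) (nat_lit 5) (nat_lit 4) (nat_lit 4) (nat_lit 2) (nat_lit 4) (nat_lit 306) (nat_lit 235) (nat_lit 179)))) (XT.nd (nat_lit 156) (nat_lit 0) (nat_lit 0) (XT.nd (nat_lit 78) (nat_lit 0) (nat_lit 0) (XT.lf (nat_lit 0) (nat_lit 69439519301) (nat_lit 152) (nat_lit 110332871261) (nat_lit 0) (nat_lit 52625659013) (nat_lit 2) (nat_lit 5) (nat_lit 4) (nat_lit 4) (nat_lit 2) (nat_lit 4) (nat_lit 307) (nat_lit 235) (nat_lit 178)) (XT.lf (nat_lit 0) (nat_lit 80307935803) (nat_lit 152) (nat_lit 106864060643) (nat_lit 0) (nat_lit 63478385751) (nat_lit 2) (nat_lit 5) (nat_lit 4) (nat_lit 4) (nat_lit 2) (nat_lit 4) (nat_lit 308) (nat_lit 235) (nat_lit 177))) (XT.nd (nat_lit 78) (nat_lit 0) (nat_lit 0)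 (XT.lf (nat_lit 0) (nat_lit 92034255446) (nat_lit 152) (nat_lit 103139056618) (nat_lit 0) (nat_lit 75190177833) (nat_lit 2) (nat_lit 5) (nat_lit 4) (nat_lit 4) (nat_lit 2) (nat_lit 4) (nat_lit 309) (nat_lit 235) (nat_lit 176)) (XT.nd (nat_lit 78) (nat_lit 0) (nat_lit 0) (XT.lf (nat_lit 0) (nat_lit 104687967529) (nat_lit 152) (nat_lit 99135785091) (nat_lit 0) (nat_lit 87830438472) (nat_lit 2) (nat_lit 5) (nat_lit 4) (nat_lit 4) (nat_lit 2) (nat_lit 4) (nat_lit 310) (nat_lit 235) (nat_lit 175)) (XT.lf (nat_lit 0) (nat_lit 118344057014) (nat_lit 152) (nat_lit 94830522968) (nat_lit 0) (nat_lit 101474072916) (nat_lit 2) (nat_lit 5) (nat_lit 4) (nat_lit 4) (nat_lit 2) (nat_lit 4) (nat_lit 311) (nat_lit 235) (nat_lit 174)))))) (XT.nd (nat_lit 312) (nat_lit 0) (nat_lit 0) (XT.nd (nat_lit 156) (nat_lit 0) (nat_lit 0) (XT.nd (nat_lit 78) (nat_lit 0) (nat_lit 0) (XT.lf (nat_lit 0) (nat_lit 133083448875)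 (nat_lit 152) (nat_lit 90197757588) (nat_lit 0) (nat_lit 116201932331) (nat_lit 2) (nat_lit 5) (nat_lit 4) (nat_lit 4) (nat_lit 2) (nat_lit 4) (nat_lit 312) (nat_lit 235) (nat_lit 173)) (XT.lf (nat_lit 0) (nat_lit 148993487657) (nat_lit 152) (nat_lit 85210035524) (nat_lit 0) (nat_lit 132101292923) (nat_lit 2) (nat_lit 5) (nat_lit 4) (nat_lit 4) (nat_lit 2) (nat_lit 4) (nat_lit 313) (nat_lit 235) (nat_lit 172))) (XT.nd (nat_lit 78) (nat_lit 0) (nat_lit 0) (XT.lf (nat_lit 0) (nat_lit 166168455071) (nat_lit 152) (nat_lit 79837799906) (nat_lit 0) (nat_lit 149266373124) (nat_lit 2) (nat_lit 5) (nat_lit 4) (nat_lit 4) (nat_lit 2) (nat_lit 4) (nat_lit 314) (nat_lit 235) (nat_lit 171)) (XT.lf (nat_lit 0) (nat_lit 184710128701) (nat_lit 152) (nat_lit 74049215263) (nat_lit 0) (nat_lit 167798891927) (nat_lit 2) (nat_lit 5) (nat_lit 4) (nat_lit 4) (nat_lit 2) (nat_lit 4) (nat_lit 315) (nat_lit 235)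 (nat_lit 170)))) (XT.nd (nat_lit 156) (nat_lit 0) (nat_lit 0) (XT.nd (nat_lit 78) (nat_lit 0) (nat_lit 0) (XT.lf (nat_lit 0) (nat_lit 204728385133) (nat_lit 152) (nat_lit 67809978871) (nat_lit 0) (nat_lit 187808671667) (nat_lit 2) (nat_lit 5) (nat_lit 4) (nat_lit 4) (nat_lit 2) (nat_lit 4) (nat_lit 316) (nat_lit 235) (nat_lit 169)) (XT.lf (nat_lit 0) (nat_lit 226341851070) (nat_lit 152) (nat_lit 61083117478) (nat_lit 0) (nat_lit 209414288815) (nat_lit 2) (nat_lit 5) (nat_lit 4) (nat_lit 4) (nat_lit 2) (nat_lit 4) (nat_lit 317) (nat_lit 235) (nat_lit 168))) (XT.nd (nat_lit 78) (nat_lit 0) (nat_lit 0) (XT.lf (nat_lit 0) (nat_lit 249678606311) (nat_lit 152) (nat_lit 53828768201) (nat_lit 0) (nat_lit 232743776660) (nat_lit 2) (nat_lit 5) (nat_lit 4) (nat_lit 4) (nat_lit 2) (nat_lit 4) (nat_lit 318) (nat_lit 235) (nat_lit 167)) (XT.nd (nat_lit 78) (nat_lit 0) (nat_lit 0) (XT.lf (nat_lit 0)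 (nat_lit 274876942740) (nat_lit 152) (nat_lit 46003942304) (nat_lit 0) (nat_lit 257935384017) (nat_lit 2) (nat_lit 5) (nat_lit 4) (nat_lit 4) (nat_lit 2) (nat_lit 4) (nat_lit 319) (nat_lit 235) (nat_lit 166)) (XT.lf (nat_lit 0) (nat_lit 302086183830) (nat_lit 152) (nat_lit 37562270448) (nat_lit 0) (nat_lit 285138394486) (nat_lit 2) (nat_lit 5) (nat_lit 4) (nat_lit 4) (nat_lit 2) (nat_lit 4) (nat_lit 320) (nat_lit 235) (nat_lit 165))))))) (XT.nd (nat_lit 32292) (nat_lit 0) (nat_lit 1900) (XT.nd (nat_lit 31902) (nat_lit 0) (nat_lit 4408) (XT.nd (nat_lit 156) (nat_lit 0) (nat_lit 0) (XT.nd (nat_lit 78) (nat_lit 0) (nat_lit 0) (XT.lf (nat_lit 0) (nat_lit 331467569530) (nat_lit 152) (nat_lit 28453727911) (nat_lit 0) (nat_lit 314514011092) (nat_lit 2) (nat_lit 5) (nat_lit 4) (nat_lit 4) (nat_lit 2) (nat_lit 4) (nat_lit 321) (nat_lit 235) (nat_lit 164)) (XT.lf (nat_lit 0) (nat_lit 363195211754)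 (nat_lit 152) (nat_lit 18624338145) (nat_lit 0) (nat_lit 346236311562) (nat_lit 2) (nat_lit 5) (nat_lit 4) (nat_lit 4) (nat_lit 2) (nat_lit 4) (nat_lit 322) (nat_lit 235) (nat_lit 163))) (XT.nd (nat_lit 31668) (nat_lit 0) (nat_lit 7144) (XT.lf (nat_lit 0) (nat_lit 397457126161) (nat_lit 152) (nat_lit 8015852914) (nat_lit 0) (nat_lit 380493279900) (nat_lit 2) (nat_lit 5) (nat_lit 4) (nat_lit 4) (nat_lit 2) (nat_lit 4) (nat_lit 323) (nat_lit 235) (nat_lit 162)) (XT.lf (nat_lit 0) (nat_lit 1317652578) (nat_lit 532) (nat_lit 839751485) (nat_lit 0) (nat_lit 1317652578) (nat_lit 96) (nat_lit 5) (nat_lit 103) (nat_lit 4) (nat_lit 96) (nat_lit 4) (nat_lit 248) (nat_lit 236) (nat_lit 236)))) (XT.nd (nat_lit 156) (nat_lit 1520) (nat_lit 0) (XT.nd (nat_lit 78) (nat_lit 608) (nat_lit 0) (XT.lf (nat_lit 0) (nat_lit 387401595) (nat_lit 608) (nat_lit 1902600026) (nat_lit 76) (nat_lit 4802718310) (nat_lit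 88) (nat_lit 5) (nat_lit 96) (nat_lit 5) (nat_lit 89) (nat_lit 4) (nat_lit 249) (nat_lit 236) (nat_lit 235)) (XT.lf (nat_lit 0) (nat_lit 5050834110) (nat_lit 684) (nat_lit 2102812151) (nat_lit 0) (nat_lit 104371624) (nat_lit 80) (nat_lit 5) (nat_lit 89) (nat_lit 4) (nat_lit 80) (nat_lit 4) (nat_lit 250) (nat_lit 236) (nat_lit 234))) (XT.nd (nat_lit 78) (nat_lit 760) (nat_lit 0) (XT.lf (nat_lit 0) (nat_lit 2359343149) (nat_lit 760) (nat_lit 2311759922) (nat_lit 76) (nat_lit 2775135741) (nat_lit 70) (nat_lit 5) (nat_lit 80) (nat_lit 5) (nat_lit 71) (nat_lit 4) (nat_lit 251) (nat_lit 236) (nat_lit 233)) (XT.nd (nat_lit 78) (nat_lit 456) (nat_lit 0) (XT.lf (nat_lit 0) (nat_lit 5145471971) (nat_lit 304) (nat_lit 1846103037) (nat_lit 380) (nat_lit 668578808) (nat_lit 66) (nat_lit 5) (nat_lit 70) (nat_lit 5) (nat_lit 71) (nat_lit 4) (nat_lit 252) (nat_lit 236) (nat_lit 232)) (XT.lf (nat_lit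 0) (nat_lit 3786939991) (nat_lit 456) (nat_lit 2784463282) (nat_lit 76) (nat_lit 1326996246) (nat_lit 60) (nat_lit 5) (nat_lit 66) (nat_lit 5) (nat_lit 61) (nat_lit 4) (nat_lit 253) (nat_lit 236) (nat_lit 231)))))) (XT.nd (nat_lit 390) (nat_lit 912) (nat_lit 0) (XT.nd (nat_lit 156) (nat_lit 912) (nat_lit 0) (XT.nd (nat_lit 78) (nat_lit 304) (nat_lit 0) (XT.lf (nat_lit 0) (nat_lit 249094863) (nat_lit 380) (nat_lit 3116770682) (nat_lit 76) (nat_lit 4797886946) (nat_lit 55) (nat_lit 5) (nat_lit 60) (nat_lit 5) (nat_lit 56) (nat_lit 5) (nat_lit 254) (nat_lit 236) (nat_lit 230)) (XT.lf (nat_lit 0) (nat_lit 4648676834) (nat_lit 380) (nat_lit 3569127709) (nat_lit 76) (nat_lit 238406146) (nat_lit 51) (nat_lit 5) (nat_lit 56) (nat_lit 5) (nat_lit 52) (nat_lit 4) (nat_lit 255) (nat_lit 236) (nat_lit 229))) (XT.nd (nat_lit 78) (nat_lit 608) (nat_lit 0) (XT.lf (nat_lit 0) (nat_lit 508234765) (nat_lit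 304) (nat_lit 4173353818) (nat_lit 76) (nat_lit 4095822808) (nat_lit 47) (nat_lit 5) (nat_lit 51) (nat_lit 5) (nat_lit 48) (nat_lit 5) (nat_lit 256) (nat_lit 236) (nat_lit 228)) (XT.nd (nat_lit 78) (nat_lit 304) (nat_lit 0) (XT.lf (nat_lit 0) (nat_lit 4160260557) (nat_lit 304) (nat_lit 734668716) (nat_lit 380) (nat_lit 4234087457) (nat_lit 43) (nat_lit 5) (nat_lit 47) (nat_lit 5) (nat_lit 48) (nat_lit 5) (nat_lit 257) (nat_lit 236) (nat_lit 227)) (XT.lf (nat_lit 0) (nat_lit 44736928) (nat_lit 304) (nat_lit 5995436560) (nat_lit 76) (nat_lit 3472925952) (nat_lit 39) (nat_lit 5) (nat_lit 43) (nat_lit 5) (nat_lit 40) (nat_lit 5) (nat_lit 258) (nat_lit 236) (nat_lit 226))))) (XT.nd (nat_lit 156) (nat_lit 532) (nat_lit 0) (XT.nd (nat_lit 78) (nat_lit 152) (nat_lit 0) (XT.lf (nat_lit 0) (nat_lit 2598465411) (nat_lit 228) (nat_lit 1814156625) (nat_lit 304) (nat_lit 5517700344) (nat_lit 36) (nat_lit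 5) (nat_lit 39) (nat_lit 5) (nat_lit 40) (nat_lit 5) (nat_lit 259) (nat_lit 236) (nat_lit 225)) (XT.lf (nat_lit 0) (nat_lit 1385280767) (nat_lit 152) (nat_lit 7679524473) (nat_lit 228) (nat_lit 1319966225) (nat_lit 34) (nat_lit 5) (nat_lit 36) (nat_lit 5) (nat_lit 37) (nat_lit 4) (nat_lit 260) (nat_lit 236) (nat_lit 224))) (XT.nd (nat_lit 78) (nat_lit 456) (nat_lit 0) (XT.lf (nat_lit 0) (nat_lit 3043597723) (nat_lit 228) (nat_lit 216710535) (nat_lit 76) (nat_lit 7616638025) (nat_lit 33) (nat_lit 5) (nat_lit 36) (nat_lit 5) (nat_lit 34) (nat_lit 5) (nat_lit 261) (nat_lit 236) (nat_lit 223)) (XT.nd (nat_lit 78) (nat_lit 228) (nat_lit 0) (XT.lf (nat_lit 0) (nat_lit 7669119650) (nat_lit 304) (nat_lit 2196029749) (nat_lit 76) (nat_lit 1544790955) (nat_lit 30) (nat_lit 5) (nat_lit 34) (nat_lit 5) (nat_lit 31) (nat_lit 4) (nat_lit 262) (nat_lit 236) (nat_lit 222)) (XT.lf (nat_lit 0) (nat_lit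 628314246) (nat_lit 228) (nat_lit 4695560251) (nat_lit 76) (nat_lit 6663048304) (nat_lit 27) (nat_lit 5) (nat_lit 30) (nat_lit 5) (nat_lit 28) (nat_lit 5) (nat_lit 263) (nat_lit 236) (nat_lit 221))))))))
noncomputable def xc40 : XT := (XT.nd (nat_lit 1404) (nat_lit 380) (nat_lit 0) (XT.nd (nat_lit 702) (nat_lit 532) (nat_lit 0) (XT.nd (nat_lit 312) (nat_lit 380) (nat_lit 0) (XT.nd (nat_lit 156) (nat_lit 228) (nat_lit 0) (XT.nd (nat_lit 78) (nat_lit 152) (nat_lit 0) (XT.lf (nat_lit 0) (nat_lit 4806276309) (nat_lit 152) (nat_lit 331247046) (nat_lit 228) (nat_lit 7473788533) (nat_lit 25) (nat_lit 5) (nat_lit 27) (nat_lit 5) (nat_lit 28) (nat_lit 5) (nat_lit 264) (nat_lit 236) (nat_lit 220)) (XT.lf (nat_lit 0) (nat_lit 1639222194) (nat_lit 152) (nat_lit 8370450303) (nat_lit 228) (nat_lit 3276234687) (nat_lit 23) (nat_lit 5) (nat_lit 25) (nat_lit 5) (nat_lit 26) (nat_lit 4) (nat_lit 265) (nat_lit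 236) (nat_lit 219))) (XT.nd (nat_lit 78) (nat_lit 152) (nat_lit 0) (XT.lf (nat_lit 0) (nat_lit 1181362862) (nat_lit 228) (nat_lit 2198407581) (nat_lit 76) (nat_lit 10635816623) (nat_lit 22) (nat_lit 5) (nat_lit 25) (nat_lit 5) (nat_lit 23) (nat_lit 5) (nat_lit 266) (nat_lit 236) (nat_lit 218)) (XT.lf (nat_lit 0) (nat_lit 5873192360) (nat_lit 228) (nat_lit 6891577857) (nat_lit 76) (nat_lit 2036863540) (nat_lit 20) (nat_lit 5) (nat_lit 23) (nat_lit 5) (nat_lit 21) (nat_lit 4) (nat_lit 267) (nat_lit 236) (nat_lit 217)))) (XT.nd (nat_lit 156) (nat_lit 304) (nat_lit 0) (XT.nd (nat_lit 78) (nat_lit 0) (nat_lit 0) (XT.lf (nat_lit 0) (nat_lit 3041134638) (nat_lit 76) (nat_lit 7883595491) (nat_lit 152) (nat_lit 4726892094) (nat_lit 19) (nat_lit 5) (nat_lit 20) (nat_lit 5) (nat_lit 21) (nat_lit 4) (nat_lit 268) (nat_lit 236) (nat_lit 216)) (XT.lf (nat_lit 0) (nat_lit 13770034532) (nat_lit 76) (nat_lit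 2579335082) (nat_lit 152) (nat_lit 222046902) (nat_lit 19) (nat_lit 5) (nat_lit 20) (nat_lit 5) (nat_lit 21) (nat_lit 4) (nat_lit 269) (nat_lit 236) (nat_lit 215))) (XT.nd (nat_lit 78) (nat_lit 76) (nat_lit 0) (XT.lf (nat_lit 0) (nat_lit 4523907518) (nat_lit 228) (nat_lit 9877204825) (nat_lit 76) (nat_lit 3158816191) (nat_lit 16) (nat_lit 5) (nat_lit 19) (nat_lit 5) (nat_lit 17) (nat_lit 4) (nat_lit 270) (nat_lit 236) (nat_lit 214)) (XT.nd (nat_lit 78) (nat_lit 0) (nat_lit 0) (XT.lf (nat_lit 0) (nat_lit 212348715) (nat_lit 76) (nat_lit 9389270567) (nat_lit 152) (nat_lit 9027935973) (nat_lit 15) (nat_lit 5) (nat_lit 16) (nat_lit 5) (nat_lit 17) (nat_lit 4) (nat_lit 271) (nat_lit 236) (nat_lit 213)) (XT.lf (nat_lit 0) (nat_lit 11244716098) (nat_lit 76) (nat_lit 3882970190) (nat_lit 152) (nat_lit 4655152216) (nat_lit 15) (nat_lit 5) (nat_lit 16) (nat_lit 5) (nat_lit 17) (nat_lit 4) (nat_lit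 272) (nat_lit 236) (nat_lit 212)))))) (XT.nd (nat_lit 312) (nat_lit 228) (nat_lit 0) (XT.nd (nat_lit 156) (nat_lit 76) (nat_lit 0) (XT.nd (nat_lit 78) (nat_lit 0) (nat_lit 0) (XT.lf (nat_lit 0) (nat_lit 5362438) (nat_lit 228) (nat_lit 19075844773) (nat_lit 76) (nat_lit 1950291646) (nat_lit 12) (nat_lit 5) (nat_lit 15) (nat_lit 5) (nat_lit 13) (nat_lit 4) (nat_lit 273) (nat_lit 236) (nat_lit 211)) (XT.lf (nat_lit 0) (nat_lit 4976765687) (nat_lit 228) (nat_lit 9126213149) (nat_lit 76) (nat_lit 8268358277) (nat_lit 12) (nat_lit 5) (nat_lit 15) (nat_lit 5) (nat_lit 13) (nat_lit 4) (nat_lit 274) (nat_lit 236) (nat_lit 210))) (XT.nd (nat_lit 78) (nat_lit 0) (nat_lit 0) (XT.lf (nat_lit 0) (nat_lit 1480651970) (nat_lit 76) (nat_lit 8779383528) (nat_lit 152) (nat_lit 13562765358) (nat_lit 11) (nat_lit 5) (nat_lit 12) (nat_lit 5) (nat_lit 13) (nat_lit 4) (nat_lit 275) (nat_lit 236) (nat_lit 209))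 (XT.lf (nat_lit 0) (nat_lit 13083922141) (nat_lit 76) (nat_lit 2937346320) (nat_lit 152) (nat_lit 9366483478) (nat_lit 11) (nat_lit 5) (nat_lit 12) (nat_lit 5) (nat_lit 13) (nat_lit 4) (nat_lit 276) (nat_lit 236) (nat_lit 208)))) (XT.nd (nat_lit 156) (nat_lit 76) (nat_lit 0) (XT.nd (nat_lit 78) (nat_lit 152) (nat_lit 0) (XT.lf (nat_lit 0) (nat_lit 22198980365) (nat_lit 152) (nat_lit 1683792472) (nat_lit 0) (nat_lit 3197472550) (nat_lit 11) (nat_lit 5) (nat_lit 13) (nat_lit 4) (nat_lit 11) (nat_lit 4) (nat_lit 277) (nat_lit 236) (nat_lit 207)) (XT.lf (nat_lit 0) (nat_lit 79892061) (nat_lit 152) (nat_lit 19006957487) (nat_lit 76) (nat_lit 9815631835) (nat_lit 9) (nat_lit 5) (nat_lit 11) (nat_lit 5) (nat_lit 10) (nat_lit 4) (nat_lit 278) (nat_lit 236) (nat_lit 206))) (XT.nd (nat_lit 78) (nat_lit 76) (nat_lit 0) (XT.lf (nat_lit 0) (nat_lit 5211965184) (nat_lit 152) (nat_lit 8642900545) (nat_lit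 76) (nat_lit 17014479837) (nat_lit 9) (nat_lit 5) (nat_lit 11) (nat_lit 5) (nat_lit 10) (nat_lit 4) (nat_lit 279) (nat_lit 236) (nat_lit 205)) (XT.nd (nat_lit 78) (nat_lit 0) (nat_lit 0) (XT.lf (nat_lit 0) (nat_lit 2488831509) (nat_lit 76) (nat_lit 8224020566) (nat_lit 152) (nat_lit 22282889138) (nat_lit 8) (nat_lit 5) (nat_lit 9) (nat_lit 5) (nat_lit 10) (nat_lit 4) (nat_lit 280) (nat_lit 236) (nat_lit 204)) (XT.lf (nat_lit 0) (nat_lit 14684762089) (nat_lit 76) (nat_lit 2042855614) (nat_lit 152) (nat_lit 18561028129) (nat_lit 8) (nat_lit 5) (nat_lit 9) (nat_lit 5) (nat_lit 10) (nat_lit 4) (nat_lit 281) (nat_lit 236) (nat_lit 203))))))) (XT.nd (nat_lit 702) (nat_lit 152) (nat_lit 0) (XT.nd (nat_lit 312) (nat_lit 152) (nat_lit 0) (XT.nd (nat_lit 156) (nat_lit 0) (nat_lit 0) (XT.nd (nat_lit 78) (nat_lit 76) (nat_lit 0) (XT.lf (nat_lit 0) (nat_lit 23223992753) (nat_lit 152) (nat_lit 10108716290)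 (nat_lit 0) (nat_lit 4432333583) (nat_lit 8) (nat_lit 5) (nat_lit 10) (nat_lit 4) (nat_lit 8) (nat_lit 4) (nat_lit 282) (nat_lit 236) (nat_lit 202)) (XT.lf (nat_lit 0) (nat_lit 1108801721) (nat_lit 76) (nat_lit 29116457142) (nat_lit 76) (nat_lit 10215108445) (nat_lit 7) (nat_lit 4) (nat_lit 8) (nat_lit 5) (nat_lit 8) (nat_lit 4) (nat_lit 283) (nat_lit 236) (nat_lit 201))) (XT.nd (nat_lit 78) (nat_lit 0) (nat_lit 0) (XT.lf (nat_lit 0) (nat_lit 13471536428) (nat_lit 76) (nat_lit 24427765232) (nat_lit 76) (nat_lit 5424852159) (nat_lit 7) (nat_lit 4) (nat_lit 8) (nat_lit 5) (nat_lit 8) (nat_lit 4) (nat_lit 284) (nat_lit 236) (nat_lit 200)) (XT.lf (nat_lit 0) (nat_lit 26718508668) (nat_lit 76) (nat_lit 19410044477) (nat_lit 76) (nat_lit 313090314) (nat_lit 7) (nat_lit 4) (nat_lit 8) (nat_lit 5) (nat_lit 8) (nat_lit 4) (nat_lit 285) (nat_lit 236) (nat_lit 199)))) (XT.nd (nat_lit 156) (nat_lit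 0) (nat_lit 0) (XT.nd (nat_lit 78) (nat_lit 76) (nat_lit 0) (XT.lf (nat_lit 0) (nat_lit 4985621838) (nat_lit 152) (nat_lit 8963504477) (nat_lit 76) (nat_lit 35858163260) (nat_lit 6) (nat_lit 5) (nat_lit 8) (nat_lit 5) (nat_lit 7) (nat_lit 4) (nat_lit 286) (nat_lit 236) (nat_lit 198)) (XT.lf (nat_lit 0) (nat_lit 2644684262) (nat_lit 76) (nat_lit 8042797974) (nat_lit 152) (nat_lit 42754990132) (nat_lit 5) (nat_lit 5) (nat_lit 6) (nat_lit 5) (nat_lit 7) (nat_lit 4) (nat_lit 287) (nat_lit 236) (nat_lit 197))) (XT.nd (nat_lit 78) (nat_lit 0) (nat_lit 0) (XT.lf (nat_lit 0) (nat_lit 15414012734) (nat_lit 76) (nat_lit 1538826244) (nat_lit 152) (nat_lit 40410312171) (nat_lit 5) (nat_lit 5) (nat_lit 6) (nat_lit 5) (nat_lit 7) (nat_lit 4) (nat_lit 288) (nat_lit 236) (nat_lit 196)) (XT.nd (nat_lit 78) (nat_lit 0) (nat_lit 0) (XT.lf (nat_lit 0) (nat_lit 23759329881) (nat_lit 152) (nat_lit 32561093539)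 (nat_lit 0) (nat_lit 5275110661) (nat_lit 5) (nat_lit 5) (nat_lit 7) (nat_lit 4) (nat_lit 5) (nat_lit 4) (nat_lit 289) (nat_lit 236) (nat_lit 195)) (XT.lf (nat_lit 0) (nat_lit 31093937632) (nat_lit 152) (nat_lit 22524668547) (nat_lit 0) (nat_lit 12548763379) (nat_lit 5) (nat_lit 5) (nat_lit 7) (nat_lit 4) (nat_lit 5) (nat_lit 4) (nat_lit 290) (nat_lit 236) (nat_lit 194)))))) (XT.nd (nat_lit 312) (nat_lit 76) (nat_lit 0) (XT.nd (nat_lit 156) (nat_lit 76) (nat_lit 0) (XT.nd (nat_lit 78) (nat_lit 0) (nat_lit 0) (XT.lf (nat_lit 0) (nat_lit 38976101184) (nat_lit 152) (nat_lit 11756362936) (nat_lit 0) (nat_lit 20374487084) (nat_lit 5) (nat_lit 5) (nat_lit 7) (nat_lit 4) (nat_lit 5) (nat_lit 4) (nat_lit 291) (nat_lit 236) (nat_lit 193)) (XT.lf (nat_lit 0) (nat_lit 47452529654) (nat_lit 152) (nat_lit 192364526) (nat_lit 0) (nat_lit 28798656437) (nat_lit 5) (nat_lit 5) (nat_lit 7) (nat_lit 4)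 (nat_lit 5) (nat_lit 4) (nat_lit 292) (nat_lit 236) (nat_lit 192))) (XT.nd (nat_lit 78) (nat_lit 0) (nat_lit 0) (XT.lf (nat_lit 0) (nat_lit 12640426675) (nat_lit 76) (nat_lit 44130379539) (nat_lit 76) (nat_lit 25428118251) (nat_lit 4) (nat_lit 4) (nat_lit 5) (nat_lit 5) (nat_lit 5) (nat_lit 4) (nat_lit 293) (nat_lit 236) (nat_lit 191)) (XT.lf (nat_lit 0) (nat_lit 26448457398) (nat_lit 76) (nat_lit 40357400472) (nat_lit 76) (nat_lit 21610335415) (nat_lit 4) (nat_lit 4) (nat_lit 5) (nat_lit 5) (nat_lit 5) (nat_lit 4) (nat_lit 294) (nat_lit 236) (nat_lit 190)))) (XT.nd (nat_lit 156) (nat_lit 76) (nat_lit 0) (XT.nd (nat_lit 78) (nat_lit 0) (nat_lit 0) (XT.lf (nat_lit 0) (nat_lit 41307192571) (nat_lit 76) (nat_lit 36306856373) (nat_lit 76) (nat_lit 17518306345) (nat_lit 4) (nat_lit 4) (nat_lit 5) (nat_lit 5) (nat_lit 5) (nat_lit 4) (nat_lit 295) (nat_lit 236) (nat_lit 189)) (XT.lf (nat_lit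 0) (nat_lit 57304683956) (nat_lit 76) (nat_lit 31954744017) (nat_lit 76) (nat_lit 13127781978) (nat_lit 4) (nat_lit 4) (nat_lit 5) (nat_lit 5) (nat_lit 5) (nat_lit 4) (nat_lit 296) (nat_lit 236) (nat_lit 188))) (XT.nd (nat_lit 78) (nat_lit 76) (nat_lit 0) (XT.lf (nat_lit 0) (nat_lit 74535731503) (nat_lit 76) (nat_lit 27275273109) (nat_lit 76) (nat_lit 8412744393) (nat_lit 4) (nat_lit 4) (nat_lit 5) (nat_lit 5) (nat_lit 5) (nat_lit 4) (nat_lit 297) (nat_lit 236) (nat_lit 187)) (XT.nd (nat_lit 78) (nat_lit 76) (nat_lit 0) (XT.lf (nat_lit 0) (nat_lit 93102445123) (nat_lit 76) (nat_lit 22240713450) (nat_lit 76) (nat_lit 3345252626) (nat_lit 4) (nat_lit 4) (nat_lit 5) (nat_lit 5) (nat_lit 5) (nat_lit 4) (nat_lit 298) (nat_lit 236) (nat_lit 186)) (XT.lf (nat_lit 0) (nat_lit 2037358625) (nat_lit 152) (nat_lit 14749368333) (nat_lit 76) (nat_lit 111042987506) (nat_lit 3) (nat_lit 5) (nat_lit 5)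 (nat_lit 5) (nat_lit 4) (nat_lit 4) (nat_lit 299) (nat_lit 236) (nat_lit 185))))))))
noncomputable def xc41 : XT := (XT.nd (nat_lit 1404) (nat_lit 0) (nat_lit 0) (XT.nd (nat_lit 702) (nat_lit 0) (nat_lit 0) (XT.nd (nat_lit 312) (nat_lit 0) (nat_lit 0) (XT.nd (nat_lit 156) (nat_lit 0) (nat_lit 0) (XT.nd (nat_lit 78) (nat_lit 76) (nat_lit 0) (XT.lf (nat_lit 0) (nat_lit 7714405268) (nat_lit 152) (nat_lit 3139656690) (nat_lit 76) (nat_lit 126846485064) (nat_lit 3) (nat_lit 5) (nat_lit 5) (nat_lit 5) (nat_lit 4) (nat_lit 4) (nat_lit 300) (nat_lit 236) (nat_lit 184)) (XT.lf (nat_lit 0) (nat_lit 9673818519) (nat_lit 76) (nat_lit 4303814934) (nat_lit 152) (nat_lit 134376828911) (nat_lit 2) (nat_lit 5) (nat_lit 3) (nat_lit 5) (nat_lit 4) (nat_lit 4) (nat_lit 301) (nat_lit 236) (nat_lit 183))) (XT.nd (nat_lit 78) (nat_lit 0) (nat_lit 0) (XT.lf (nat_lit 0) (nat_lit 20822401352) (nat_lit 152) (nat_lit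 136311438190) (nat_lit 0) (nat_lit 2722843120) (nat_lit 2) (nat_lit 5) (nat_lit 4) (nat_lit 4) (nat_lit 2) (nat_lit 4) (nat_lit 302) (nat_lit 236) (nat_lit 182)) (XT.lf (nat_lit 0) (nat_lit 28270320474) (nat_lit 152) (nat_lit 133856579767) (nat_lit 0) (nat_lit 10149416490) (nat_lit 2) (nat_lit 5) (nat_lit 4) (nat_lit 4) (nat_lit 2) (nat_lit 4) (nat_lit 303) (nat_lit 236) (nat_lit 181)))) (XT.nd (nat_lit 156) (nat_lit 0) (nat_lit 0) (XT.nd (nat_lit 78) (nat_lit 0) (nat_lit 0) (XT.lf (nat_lit 0) (nat_lit 36298332021) (nat_lit 152) (nat_lit 131234326653) (nat_lit 0) (nat_lit 18157663452) (nat_lit 2) (nat_lit 5) (nat_lit 4) (nat_lit 4) (nat_lit 2) (nat_lit 4) (nat_lit 304) (nat_lit 236) (nat_lit 180)) (XT.lf (nat_lit 0) (nat_lit 44954009397) (nat_lit 152) (nat_lit 128429139572) (nat_lit 0) (nat_lit 26795040287) (nat_lit 2) (nat_lit 5) (nat_lit 4) (nat_lit 4) (nat_lit 2) (nat_lit 4) (nat_lit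 305) (nat_lit 236) (nat_lit 179))) (XT.nd (nat_lit 78) (nat_lit 0) (nat_lit 0) (XT.lf (nat_lit 0) (nat_lit 54288645504) (nat_lit 152) (nat_lit 125424395193) (nat_lit 0) (nat_lit 36112731448) (nat_lit 2) (nat_lit 5) (nat_lit 4) (nat_lit 4) (nat_lit 2) (nat_lit 4) (nat_lit 306) (nat_lit 236) (nat_lit 178)) (XT.nd (nat_lit 78) (nat_lit 0) (nat_lit 0) (XT.lf (nat_lit 0) (nat_lit 64357556705) (nat_lit 152) (nat_lit 122202287623) (nat_lit 0) (nat_lit 46165952884) (nat_lit 2) (nat_lit 5) (nat_lit 4) (nat_lit 4) (nat_lit 2) (nat_lit 4) (nat_lit 307) (nat_lit 236) (nat_lit 177)) (XT.lf (nat_lit 0) (nat_lit 75220410621) (nat_lit 152) (nat_lit 118743722891) (nat_lit 0) (nat_lit 57014279239) (nat_lit 2) (nat_lit 5) (nat_lit 4) (nat_lit 4) (nat_lit 2) (nat_lit 4) (nat_lit 308) (nat_lit 236) (nat_lit 176)))))) (XT.nd (nat_lit 312) (nat_lit 0) (nat_lit 0) (XT.nd (nat_lit 156) (nat_lit 0) (nat_lit 0)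 (XT.nd (nat_lit 78) (nat_lit 0) (nat_lit 0) (XT.lf (nat_lit 0) (nat_lit 86941579720) (nat_lit 152) (nat_lit 115028205798) (nat_lit 0) (nat_lit 68721996894) (nat_lit 2) (nat_lit 5) (nat_lit 4) (nat_lit 4) (nat_lit 2) (nat_lit 4) (nat_lit 309) (nat_lit 236) (nat_lit 175)) (XT.lf (nat_lit 0) (nat_lit 99590522781) (nat_lit 152) (nat_lit 111033718466) (nat_lit 0) (nat_lit 81358484914) (nat_lit 2) (nat_lit 5) (nat_lit 4) (nat_lit 4) (nat_lit 2) (nat_lit 4) (nat_lit 310) (nat_lit 236) (nat_lit 174))) (XT.nd (nat_lit 78) (nat_lit 0) (nat_lit 0) (XT.lf (nat_lit 0) (nat_lit 113242196505) (nat_lit 152) (nat_lit 106736589859) (nat_lit 0) (nat_lit 94998626193) (nat_lit 2) (nat_lit 5) (nat_lit 4) (nat_lit 4) (nat_lit 2) (nat_lit 4) (nat_lit 311) (nat_lit 236) (nat_lit 173)) (XT.lf (nat_lit 0) (nat_lit 127977499699) (nat_lit 152) (nat_lit 102111355511) (nat_lit 0) (nat_lit 109723251196) (nat_lit 2)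 (nat_lit 5) (nat_lit 4) (nat_lit 4) (nat_lit 2) (nat_lit 4) (nat_lit 312) (nat_lit 236) (nat_lit 172)))) (XT.nd (nat_lit 156) (nat_lit 0) (nat_lit 0) (XT.nd (nat_lit 78) (nat_lit 0) (nat_lit 0) (XT.lf (nat_lit 0) (nat_lit 143883752678) (nat_lit 152) (nat_lit 97130606626) (nat_lit 0) (nat_lit 125619616962) (nat_lit 2) (nat_lit 5) (nat_lit 4) (nat_lit 4) (nat_lit 2) (nat_lit 4) (nat_lit 313) (nat_lit 236) (nat_lit 171)) (XT.lf (nat_lit 0) (nat_lit 161055214718) (nat_lit 152) (nat_lit 91764827654) (nat_lit 0) (nat_lit 142781924175) (nat_lit 2) (nat_lit 5) (nat_lit 4) (nat_lit 4) (nat_lit 2) (nat_lit 4) (nat_lit 314) (nat_lit 236) (nat_lit 170))) (XT.nd (nat_lit 78) (nat_lit 0) (nat_lit 0) (XT.lf (nat_lit 0) (nat_lit 179593642633) (nat_lit 152) (nat_lit 85982221387) (nat_lit 0) (nat_lit 161311875398) (nat_lit 2) (nat_lit 5) (nat_lit 4) (nat_lit 4) (nat_lit 2) (nat_lit 4) (nat_lit 315) (nat_lit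 236) (nat_lit 169)) (XT.nd (nat_lit 78) (nat_lit 0) (nat_lit 0) (XT.lf (nat_lit 0) (nat_lit 199608893772) (nat_lit 152) (nat_lit 79748520529) (nat_lit 0) (nat_lit 181319277748) (nat_lit 2) (nat_lit 5) (nat_lit 4) (nat_lit 4) (nat_lit 2) (nat_lit 4) (nat_lit 316) (nat_lit 236) (nat_lit 168)) (XT.lf (nat_lit 0) (nat_lit 221219577031) (nat_lit 152) (nat_lit 73026784630) (nat_lit 0) (nat_lit 202922693610) (nat_lit 2) (nat_lit 5) (nat_lit 4) (nat_lit 4) (nat_lit 2) (nat_lit 4) (nat_lit 317) (nat_lit 236) (nat_lit 167))))))) (XT.nd (nat_lit 32136) (nat_lit 0) (nat_lit 2812) (XT.nd (nat_lit 312) (nat_lit 0) (nat_lit 0) (XT.nd (nat_lit 156) (nat_lit 0) (nat_lit 0) (XT.nd (nat_lit 78) (nat_lit 0) (nat_lit 0) (XT.lf (nat_lit 0) (nat_lit 244553755718) (nat_lit 152) (nat_lit 65777181181) (nat_lit 0) (nat_lit 226250143226) (nat_lit 2) (nat_lit 5) (nat_lit 4) (nat_lit 4) (nat_lit 2) (nat_lit 4) (nat_lit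 318) (nat_lit 236) (nat_lit 166)) (XT.lf (nat_lit 0) (nat_lit 269749706448) (nat_lit 152) (nat_lit 57956749569) (nat_lit 0) (nat_lit 251439863335) (nat_lit 2) (nat_lit 5) (nat_lit 4) (nat_lit 4) (nat_lit 2) (nat_lit 4) (nat_lit 319) (nat_lit 236) (nat_lit 165))) (XT.nd (nat_lit 78) (nat_lit 0) (nat_lit 0) (XT.lf (nat_lit 0) (nat_lit 296956738559) (nat_lit 152) (nat_lit 49519146495) (nat_lit 0) (nat_lit 278641126352) (nat_lit 2) (nat_lit 5) (nat_lit 4) (nat_lit 4) (nat_lit 2) (nat_lit 4) (nat_lit 320) (nat_lit 236) (nat_lit 164)) (XT.lf (nat_lit 0) (nat_lit 326336078907) (nat_lit 152) (nat_lit 40414371350) (nat_lit 0) (nat_lit 308015124946) (nat_lit 2) (nat_lit 5) (nat_lit 4) (nat_lit 4) (nat_lit 2) (nat_lit 4) (nat_lit 321) (nat_lit 236) (nat_lit 163)))) (XT.nd (nat_lit 31590) (nat_lit 0) (nat_lit 7144) (XT.nd (nat_lit 78) (nat_lit 0) (nat_lit 0) (XT.lf (nat_lit 0) (nat_lit 358061827287)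 (nat_lit 152) (nat_lit 30588469909) (nat_lit 0) (nat_lit 339735927258) (nat_lit 2) (nat_lit 5) (nat_lit 4) (nat_lit 4) (nat_lit 2) (nat_lit 4) (nat_lit 322) (nat_lit 236) (nat_lit 162)) (XT.lf (nat_lit 0) (nat_lit 392321988134) (nat_lit 152) (nat_lit 19983214608) (nat_lit 0) (nat_lit 373991508412) (nat_lit 2) (nat_lit 5) (nat_lit 4) (nat_lit 4) (nat_lit 2) (nat_lit 4) (nat_lit 323) (nat_lit 236) (nat_lit 161))) (XT.nd (nat_lit 78) (nat_lit 912) (nat_lit 0) (XT.lf (nat_lit 0) (nat_lit 1469250366) (nat_lit 380) (nat_lit 423467658) (nat_lit 0) (nat_lit 1469250366) (nat_lit 108) (nat_lit 5) (nat_lit 113) (nat_lit 4) (nat_lit 108) (nat_lit 4) (nat_lit 246) (nat_lit 237) (nat_lit 237)) (XT.nd (nat_lit 78) (nat_lit 456) (nat_lit 0) (XT.lf (nat_lit 0) (nat_lit 817238437) (nat_lit 456) (nat_lit 1382802123) (nat_lit 76) (nat_lit 4631076617) (nat_lit 102) (nat_lit 5) (nat_lit 108) (nat_lit 5) (nat_lit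 103) (nat_lit 4) (nat_lit 247) (nat_lit 237) (nat_lit 236)) (XT.lf (nat_lit 0) (nat_lit 5103446880) (nat_lit 456) (nat_lit 259089588) (nat_lit 532) (nat_lit 1597729831) (nat_lit 96) (nat_lit 5) (nat_lit 102) (nat_lit 5) (nat_lit 103) (nat_lit 4) (nat_lit 248) (nat_lit 237) (nat_lit 235)))))) (XT.nd (nat_lit 390) (nat_lit 1596) (nat_lit 0) (XT.nd (nat_lit 156) (nat_lit 1444) (nat_lit 0) (XT.nd (nat_lit 78) (nat_lit 684) (nat_lit 0) (XT.lf (nat_lit 0) (nat_lit 2828959285) (nat_lit 608) (nat_lit 2306934236) (nat_lit 76) (nat_lit 1975070019) (nat_lit 88) (nat_lit 5) (nat_lit 96) (nat_lit 5) (nat_lit 89) (nat_lit 4) (nat_lit 249) (nat_lit 237) (nat_lit 234)) (XT.lf (nat_lit 0) (nat_lit 26642429) (nat_lit 684) (nat_lit 2712125407) (nat_lit 76) (nat_lit 4547144633) (nat_lit 79) (nat_lit 5) (nat_lit 88) (nat_lit 5) (nat_lit 80) (nat_lit 5) (nat_lit 250) (nat_lit 237) (nat_lit 233))) (XT.nd (nat_lit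 78) (nat_lit 760) (nat_lit 0) (XT.lf (nat_lit 0) (nat_lit 4305888925) (nat_lit 760) (nat_lit 3134008462) (nat_lit 76) (nat_lit 43984810) (nat_lit 70) (nat_lit 5) (nat_lit 80) (nat_lit 5) (nat_lit 71) (nat_lit 4) (nat_lit 251) (nat_lit 237) (nat_lit 232)) (XT.nd (nat_lit 78) (nat_lit 380) (nat_lit 0) (XT.lf (nat_lit 0) (nat_lit 1029712486) (nat_lit 380) (nat_lit 3592692328) (nat_lit 76) (nat_lit 3083534147) (nat_lit 65) (nat_lit 5) (nat_lit 70) (nat_lit 5) (nat_lit 66) (nat_lit 5) (nat_lit 252) (nat_lit 237) (nat_lit 231)) (XT.lf (nat_lit 0) (nat_lit 3848287665) (nat_lit 380) (nat_lit 1428258795) (nat_lit 456) (nat_lit 2677003141) (nat_lit 60) (nat_lit 5) (nat_lit 65) (nat_lit 5) (nat_lit 66) (nat_lit 5) (nat_lit 253) (nat_lit 237) (nat_lit 230))))) (XT.nd (nat_lit 156) (nat_lit 912) (nat_lit 0) (XT.nd (nat_lit 78) (nat_lit 304) (nat_lit 0) (XT.lf (nat_lit 0) (nat_lit 1450801083) (nat_lit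 380) (nat_lit 4706324019) (nat_lit 76) (nat_lit 2070460413) (nat_lit 55) (nat_lit 5) (nat_lit 60) (nat_lit 5) (nat_lit 56) (nat_lit 5) (nat_lit 254) (nat_lit 237) (nat_lit 229)) (XT.lf (nat_lit 0) (nat_lit 3087238779) (nat_lit 304) (nat_lit 2598832544) (nat_lit 380) (nat_lit 2842614646) (nat_lit 51) (nat_lit 5) (nat_lit 55) (nat_lit 5) (nat_lit 56) (nat_lit 5) (nat_lit 255) (nat_lit 237) (nat_lit 228))) (XT.nd (nat_lit 78) (nat_lit 608) (nat_lit 0) (XT.lf (nat_lit 0) (nat_lit 1240777679) (nat_lit 304) (nat_lit 6321437315) (nat_lit 76) (nat_lit 1297369317) (nat_lit 47) (nat_lit 5) (nat_lit 51) (nat_lit 5) (nat_lit 48) (nat_lit 5) (nat_lit 256) (nat_lit 237) (nat_lit 227)) (XT.nd (nat_lit 78) (nat_lit 304) (nat_lit 0) (XT.lf (nat_lit 0) (nat_lit 1782484019) (nat_lit 304) (nat_lit 3687286604) (nat_lit 380) (nat_lit 3749652488) (nat_lit 43) (nat_lit 5) (nat_lit 47) (nat_lit 5) (nat_lit 48)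 (nat_lit 5) (nat_lit 257) (nat_lit 237) (nat_lit 226)) (XT.lf (nat_lit 0) (nat_lit 307964368) (nat_lit 304) (nat_lit 8760143271) (nat_lit 76) (nat_lit 545612355) (nat_lit 39) (nat_lit 5) (nat_lit 43) (nat_lit 5) (nat_lit 40) (nat_lit 5) (nat_lit 258) (nat_lit 237) (nat_lit 225))))))))
noncomputable def xc42 : XT := (XT.nd (nat_lit 1404) (nat_lit 532) (nat_lit 0) (XT.nd (nat_lit 702) (nat_lit 684) (nat_lit 0) (XT.nd (nat_lit 312) (nat_lit 760) (nat_lit 0) (XT.nd (nat_lit 156) (nat_lit 456) (nat_lit 0) (XT.nd (nat_lit 78) (nat_lit 228) (nat_lit 0) (XT.lf (nat_lit 0) (nat_lit 4524963549) (nat_lit 304) (nat_lit 399135767) (nat_lit 76) (nat_lit 5114672374) (nat_lit 39) (nat_lit 5) (nat_lit 43) (nat_lit 5) (nat_lit 40) (nat_lit 5) (nat_lit 259) (nat_lit 237) (nat_lit 224)) (XT.lf (nat_lit 0) (nat_lit 8618225599) (nat_lit 228) (nat_lit 383190116) (nat_lit 304) (nat_lit 1500854998) (nat_lit 36)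 (nat_lit 5) (nat_lit 39) (nat_lit 5) (nat_lit 40) (nat_lit 5) (nat_lit 260) (nat_lit 237) (nat_lit 223))) (XT.nd (nat_lit 78) (nat_lit 228) (nat_lit 0) (XT.lf (nat_lit 0) (nat_lit 2730341588) (nat_lit 228) (nat_lit 3803286736) (nat_lit 76) (nat_lit 4468098527) (nat_lit 33) (nat_lit 5) (nat_lit 36) (nat_lit 5) (nat_lit 34) (nat_lit 5) (nat_lit 261) (nat_lit 237) (nat_lit 222)) (XT.lf (nat_lit 0) (nat_lit 5395978154) (nat_lit 228) (nat_lit 1781166854) (nat_lit 304) (nat_lit 4366726898) (nat_lit 30) (nat_lit 5) (nat_lit 33) (nat_lit 5) (nat_lit 34) (nat_lit 5) (nat_lit 262) (nat_lit 237) (nat_lit 221)))) (XT.nd (nat_lit 156) (nat_lit 380) (nat_lit 0) (XT.nd (nat_lit 78) (nat_lit 228) (nat_lit 0) (XT.lf (nat_lit 0) (nat_lit 3111156332) (nat_lit 152) (nat_lit 8850679774) (nat_lit 228) (nat_lit 168859478) (nat_lit 28) (nat_lit 5) (nat_lit 30) (nat_lit 5) (nat_lit 31) (nat_lit 4) (nat_lit 263)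 (nat_lit 237) (nat_lit 220)) (XT.lf (nat_lit 0) (nat_lit 207829012) (nat_lit 152) (nat_lit 3979739585) (nat_lit 228) (nat_lit 8575732771) (nat_lit 25) (nat_lit 5) (nat_lit 27) (nat_lit 5) (nat_lit 28) (nat_lit 5) (nat_lit 264) (nat_lit 237) (nat_lit 219))) (XT.nd (nat_lit 78) (nat_lit 380) (nat_lit 0) (XT.lf (nat_lit 0) (nat_lit 8894568574) (nat_lit 228) (nat_lit 3234593992) (nat_lit 76) (nat_lit 1317154147) (nat_lit 25) (nat_lit 5) (nat_lit 28) (nat_lit 5) (nat_lit 26) (nat_lit 4) (nat_lit 265) (nat_lit 237) (nat_lit 218)) (XT.nd (nat_lit 78) (nat_lit 228) (nat_lit 0) (XT.lf (nat_lit 0) (nat_lit 6734100101) (nat_lit 152) (nat_lit 7257204072) (nat_lit 228) (nat_lit 192323470) (nat_lit 23) (nat_lit 5) (nat_lit 25) (nat_lit 5) (nat_lit 26) (nat_lit 4) (nat_lit 266) (nat_lit 237) (nat_lit 217)) (XT.lf (nat_lit 0) (nat_lit 2403241946) (nat_lit 152) (nat_lit 1909148301) (nat_lit 228) (nat_lit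 10667230546) (nat_lit 20) (nat_lit 5) (nat_lit 22) (nat_lit 5) (nat_lit 23) (nat_lit 5) (nat_lit 267) (nat_lit 237) (nat_lit 216)))))) (XT.nd (nat_lit 312) (nat_lit 380) (nat_lit 0) (XT.nd (nat_lit 156) (nat_lit 228) (nat_lit 0) (XT.nd (nat_lit 78) (nat_lit 76) (nat_lit 0) (XT.lf (nat_lit 0) (nat_lit 9215846758) (nat_lit 228) (nat_lit 2824992226) (nat_lit 76) (nat_lit 3796297263) (nat_lit 20) (nat_lit 5) (nat_lit 23) (nat_lit 5) (nat_lit 21) (nat_lit 4) (nat_lit 268) (nat_lit 237) (nat_lit 215)) (XT.lf (nat_lit 0) (nat_lit 7701648447) (nat_lit 76) (nat_lit 6826024407) (nat_lit 152) (nat_lit 2235012173) (nat_lit 19) (nat_lit 5) (nat_lit 20) (nat_lit 5) (nat_lit 21) (nat_lit 4) (nat_lit 269) (nat_lit 237) (nat_lit 214))) (XT.nd (nat_lit 78) (nat_lit 0) (nat_lit 0) (XT.lf (nat_lit 0) (nat_lit 1195669330) (nat_lit 152) (nat_lit 1163245022) (nat_lit 228) (nat_lit 15404777233) (nat_lit 16)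 (nat_lit 5) (nat_lit 18) (nat_lit 5) (nat_lit 19) (nat_lit 5) (nat_lit 270) (nat_lit 237) (nat_lit 213)) (XT.lf (nat_lit 0) (nat_lit 7354318817) (nat_lit 228) (nat_lit 6568120459) (nat_lit 76) (nat_lit 4915087329) (nat_lit 16) (nat_lit 5) (nat_lit 19) (nat_lit 5) (nat_lit 17) (nat_lit 4) (nat_lit 271) (nat_lit 237) (nat_lit 212)))) (XT.nd (nat_lit 156) (nat_lit 304) (nat_lit 0) (XT.nd (nat_lit 78) (nat_lit 0) (nat_lit 0) (XT.lf (nat_lit 0) (nat_lit 4150448488) (nat_lit 76) (nat_lit 8566166825) (nat_lit 152) (nat_lit 7282469116) (nat_lit 15) (nat_lit 5) (nat_lit 16) (nat_lit 5) (nat_lit 17) (nat_lit 4) (nat_lit 272) (nat_lit 237) (nat_lit 211)) (XT.lf (nat_lit 0) (nat_lit 15774952529) (nat_lit 76) (nat_lit 2735973186) (nat_lit 152) (nat_lit 2742655379) (nat_lit 15) (nat_lit 5) (nat_lit 16) (nat_lit 5) (nat_lit 17) (nat_lit 4) (nat_lit 273) (nat_lit 237) (nat_lit 210))) (XT.nd (nat_lit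 78) (nat_lit 76) (nat_lit 0) (XT.lf (nat_lit 0) (nat_lit 2131614204) (nat_lit 228) (nat_lit 16970643342) (nat_lit 76) (nat_lit 3502618881) (nat_lit 12) (nat_lit 5) (nat_lit 15) (nat_lit 5) (nat_lit 13) (nat_lit 4) (nat_lit 274) (nat_lit 237) (nat_lit 209)) (XT.nd (nat_lit 78) (nat_lit 76) (nat_lit 0) (XT.lf (nat_lit 0) (nat_lit 7343261358) (nat_lit 228) (nat_lit 6494024077) (nat_lit 76) (nat_lit 10222700924) (nat_lit 12) (nat_lit 5) (nat_lit 15) (nat_lit 5) (nat_lit 13) (nat_lit 4) (nat_lit 275) (nat_lit 237) (nat_lit 208)) (XT.lf (nat_lit 0) (nat_lit 4815269394) (nat_lit 76) (nat_lit 8138332683) (nat_lit 152) (nat_lit 12678940215) (nat_lit 11) (nat_lit 5) (nat_lit 12) (nat_lit 5) (nat_lit 13) (nat_lit 4) (nat_lit 276) (nat_lit 237) (nat_lit 207))))))) (XT.nd (nat_lit 702) (nat_lit 228) (nat_lit 0) (XT.nd (nat_lit 312) (nat_lit 152) (nat_lit 0) (XT.nd (nat_lit 156) (nat_lit 76) (nat_lit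 0) (XT.nd (nat_lit 78) (nat_lit 76) (nat_lit 0) (XT.lf (nat_lit 0) (nat_lit 17108566714) (nat_lit 76) (nat_lit 1928443722) (nat_lit 152) (nat_lit 8292796257) (nat_lit 11) (nat_lit 5) (nat_lit 12) (nat_lit 5) (nat_lit 13) (nat_lit 4) (nat_lit 277) (nat_lit 237) (nat_lit 206)) (XT.lf (nat_lit 0) (nat_lit 1036412457) (nat_lit 76) (nat_lit 24578242744) (nat_lit 76) (nat_lit 3547926278) (nat_lit 10) (nat_lit 4) (nat_lit 11) (nat_lit 5) (nat_lit 11) (nat_lit 4) (nat_lit 278) (nat_lit 237) (nat_lit 205))) (XT.nd (nat_lit 78) (nat_lit 0) (nat_lit 0) (XT.lf (nat_lit 0) (nat_lit 1658947972) (nat_lit 152) (nat_lit 17774559197) (nat_lit 76) (nat_lit 11700691421) (nat_lit 9) (nat_lit 5) (nat_lit 11) (nat_lit 5) (nat_lit 10) (nat_lit 4) (nat_lit 279) (nat_lit 237) (nat_lit 204)) (XT.lf (nat_lit 0) (nat_lit 7085093275) (nat_lit 152) (nat_lit 6785300284) (nat_lit 76) (nat_lit 19393979927) (nat_lit 9)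 (nat_lit 5) (nat_lit 11) (nat_lit 5) (nat_lit 10) (nat_lit 4) (nat_lit 280) (nat_lit 237) (nat_lit 203)))) (XT.nd (nat_lit 156) (nat_lit 76) (nat_lit 0) (XT.nd (nat_lit 78) (nat_lit 0) (nat_lit 0) (XT.lf (nat_lit 0) (nat_lit 5126192497) (nat_lit 76) (nat_lit 7830062097) (nat_lit 152) (nat_lit 22608242771) (nat_lit 8) (nat_lit 5) (nat_lit 9) (nat_lit 5) (nat_lit 10) (nat_lit 4) (nat_lit 281) (nat_lit 237) (nat_lit 202)) (XT.lf (nat_lit 0) (nat_lit 18117186081) (nat_lit 76) (nat_lit 1232320995) (nat_lit 152) (nat_lit 18696579364) (nat_lit 8) (nat_lit 5) (nat_lit 9) (nat_lit 5) (nat_lit 10) (nat_lit 4) (nat_lit 282) (nat_lit 237) (nat_lit 201))) (XT.nd (nat_lit 78) (nat_lit 76) (nat_lit 0) (XT.lf (nat_lit 0) (nat_lit 26284584626) (nat_lit 152) (nat_lit 8780295268) (nat_lit 0) (nat_lit 5659874129) (nat_lit 8) (nat_lit 5) (nat_lit 10) (nat_lit 4) (nat_lit 8) (nat_lit 4) (nat_lit 283) (nat_lit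 237) (nat_lit 200)) (XT.nd (nat_lit 78) (nat_lit 0) (nat_lit 0) (XT.lf (nat_lit 0) (nat_lit 3241747626) (nat_lit 76) (nat_lit 30547033892) (nat_lit 76) (nat_lit 9828282306) (nat_lit 7) (nat_lit 4) (nat_lit 8) (nat_lit 5) (nat_lit 8) (nat_lit 4) (nat_lit 284) (nat_lit 237) (nat_lit 199)) (XT.lf (nat_lit 0) (nat_lit 16442075794) (nat_lit 76) (nat_lit 25549819951) (nat_lit 76) (nat_lit 4743993281) (nat_lit 7) (nat_lit 4) (nat_lit 8) (nat_lit 5) (nat_lit 8) (nat_lit 4) (nat_lit 285) (nat_lit 237) (nat_lit 198)))))) (XT.nd (nat_lit 390) (nat_lit 76) (nat_lit 0) (XT.nd (nat_lit 156) (nat_lit 76) (nat_lit 0) (XT.nd (nat_lit 78) (nat_lit 0) (nat_lit 0) (XT.lf (nat_lit 0) (nat_lit 671911809) (nat_lit 152) (nat_lit 19509032537) (nat_lit 76) (nat_lit 29925306227) (nat_lit 6) (nat_lit 5) (nat_lit 8) (nat_lit 5) (nat_lit 7) (nat_lit 4) (nat_lit 286) (nat_lit 237) (nat_lit 197)) (XT.lf (nat_lit 0)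 (nat_lit 6309681618) (nat_lit 152) (nat_lit 8026257276) (nat_lit 76) (nat_lit 39408722433) (nat_lit 6) (nat_lit 5) (nat_lit 8) (nat_lit 5) (nat_lit 7) (nat_lit 4) (nat_lit 287) (nat_lit 237) (nat_lit 196))) (XT.nd (nat_lit 78) (nat_lit 0) (nat_lit 0) (XT.lf (nat_lit 0) (nat_lit 4438691502) (nat_lit 76) (nat_lit 7985171476) (nat_lit 152) (nat_lit 45249057597) (nat_lit 5) (nat_lit 5) (nat_lit 6) (nat_lit 5) (nat_lit 7) (nat_lit 4) (nat_lit 288) (nat_lit 237) (nat_lit 195)) (XT.nd (nat_lit 78) (nat_lit 0) (nat_lit 0) (XT.lf (nat_lit 0) (nat_lit 18112349029) (nat_lit 76) (nat_lit 1012811662) (nat_lit 152) (nat_lit 42785422566) (nat_lit 5) (nat_lit 5) (nat_lit 6) (nat_lit 5) (nat_lit 7) (nat_lit 4) (nat_lit 289) (nat_lit 237) (nat_lit 194)) (XT.lf (nat_lit 0) (nat_lit 26425103297) (nat_lit 152) (nat_lit 33780147071) (nat_lit 0) (nat_lit 6278920224) (nat_lit 5) (nat_lit 5) (nat_lit 7) (nat_lit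 4) (nat_lit 5) (nat_lit 4) (nat_lit 290) (nat_lit 237) (nat_lit 193))))) (XT.nd (nat_lit 156) (nat_lit 76) (nat_lit 0) (XT.nd (nat_lit 78) (nat_lit 0) (nat_lit 0) (XT.lf (nat_lit 0) (nat_lit 34289811000) (nat_lit 152) (nat_lit 23043462446) (nat_lit 0) (nat_lit 14091368809) (nat_lit 5) (nat_lit 5) (nat_lit 7) (nat_lit 4) (nat_lit 5) (nat_lit 4) (nat_lit 291) (nat_lit 237) (nat_lit 192)) (XT.lf (nat_lit 0) (nat_lit 42750076646) (nat_lit 152) (nat_lit 11508742726) (nat_lit 0) (nat_lit 22503246385) (nat_lit 5) (nat_lit 5) (nat_lit 7) (nat_lit 4) (nat_lit 5) (nat_lit 4) (nat_lit 292) (nat_lit 237) (nat_lit 191))) (XT.nd (nat_lit 78) (nat_lit 0) (nat_lit 0) (XT.lf (nat_lit 0) (nat_lit 921871631) (nat_lit 76) (nat_lit 50948556512) (nat_lit 76) (nat_lit 30656922481) (nat_lit 4) (nat_lit 4) (nat_lit 5) (nat_lit 5) (nat_lit 5) (nat_lit 4) (nat_lit 293) (nat_lit 237) (nat_lit 190)) (XT.nd (nat_lit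 78) (nat_lit 0) (nat_lit 0) (XT.lf (nat_lit 0) (nat_lit 14703970620) (nat_lit 76) (nat_lit 47187247298) (nat_lit 76) (nat_lit 26854128295) (nat_lit 4) (nat_lit 4) (nat_lit 5) (nat_lit 5) (nat_lit 5) (nat_lit 4) (nat_lit 294) (nat_lit 237) (nat_lit 189)) (XT.lf (nat_lit 0) (nat_lit 29538694926) (nat_lit 76) (nat_lit 43147508618) (nat_lit 76) (nat_lit 22775977604) (nat_lit 4) (nat_lit 4) (nat_lit 5) (nat_lit 5) (nat_lit 5) (nat_lit 4) (nat_lit 295) (nat_lit 237) (nat_lit 188))))))))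
noncomputable def xc43 : XT := (XT.nd (nat_lit 1404) (nat_lit 0) (nat_lit 0) (XT.nd (nat_lit 702) (nat_lit 0) (nat_lit 0) (XT.nd (nat_lit 312) (nat_lit 152) (nat_lit 0) (XT.nd (nat_lit 156) (nat_lit 0) (nat_lit 0) (XT.nd (nat_lit 78) (nat_lit 0) (nat_lit 0) (XT.lf (nat_lit 0) (nat_lit 45513954028) (nat_lit 76) (nat_lit 38805401279) (nat_lit 76) (nat_lit 18398303589) (nat_lit 4) (nat_lit 4) (nat_lit 5) (nat_lit 5) (nat_lit 5) (nat_lit 4) (nat_lit 296) (nat_lit 237) (nat_lit 187)) (XT.lf (nat_lit 0) (nat_lit 62724416128) (nat_lit 76) (nat_lit 34135194276) (nat_lit 76) (nat_lit 13695164477) (nat_lit 4) (nat_lit 4) (nat_lit 5) (nat_lit 5) (nat_lit 5) (nat_lit 4) (nat_lit 297) (nat_lit 237) (nat_lit 186))) (XT.nd (nat_lit 78) (nat_lit 0) (nat_lit 0) (XT.lf (nat_lit 0) (nat_lit 81272069149) (nat_lit 76) (nat_lit 29109212307) (nat_lit 76) (nat_lit 8638689816) (nat_lit 4) (nat_lit 4) (nat_lit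 5) (nat_lit 5) (nat_lit 5) (nat_lit 4) (nat_lit 298) (nat_lit 237) (nat_lit 185)) (XT.lf (nat_lit 0) (nat_lit 101266825108) (nat_lit 76) (nat_lit 23697671775) (nat_lit 76) (nat_lit 3198915310) (nat_lit 4) (nat_lit 4) (nat_lit 5) (nat_lit 5) (nat_lit 5) (nat_lit 4) (nat_lit 299) (nat_lit 237) (nat_lit 184)))) (XT.nd (nat_lit 156) (nat_lit 76) (nat_lit 0) (XT.nd (nat_lit 78) (nat_lit 0) (nat_lit 0) (XT.lf (nat_lit 0) (nat_lit 2571373519) (nat_lit 152) (nat_lit 15253583319) (nat_lit 76) (nat_lit 120212250475) (nat_lit 3) (nat_lit 5) (nat_lit 5) (nat_lit 5) (nat_lit 4) (nat_lit 4) (nat_lit 300) (nat_lit 237) (nat_lit 183)) (XT.lf (nat_lit 0) (nat_lit 8675100471) (nat_lit 152) (nat_lit 2765149150) (nat_lit 76) (nat_lit 137258855692) (nat_lit 3) (nat_lit 5) (nat_lit 5) (nat_lit 5) (nat_lit 4) (nat_lit 4) (nat_lit 301) (nat_lit 237) (nat_lit 182))) (XT.nd (nat_lit 78) (nat_lit 0) (nat_lit 0)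 (XT.lf (nat_lit 0) (nat_lit 11046212782) (nat_lit 76) (nat_lit 4377070602) (nat_lit 152) (nat_lit 144782878513) (nat_lit 2) (nat_lit 5) (nat_lit 3) (nat_lit 5) (nat_lit 4) (nat_lit 4) (nat_lit 302) (nat_lit 237) (nat_lit 181)) (XT.nd (nat_lit 78) (nat_lit 0) (nat_lit 0) (XT.lf (nat_lit 0) (nat_lit 22795296329) (nat_lit 152) (nat_lit 146650691769) (nat_lit 0) (nat_lit 3183609690) (nat_lit 2) (nat_lit 5) (nat_lit 4) (nat_lit 4) (nat_lit 2) (nat_lit 4) (nat_lit 303) (nat_lit 237) (nat_lit 180)) (XT.lf (nat_lit 0) (nat_lit 30816300619) (nat_lit 152) (nat_lit 144041345522) (nat_lit 0) (nat_lit 11186313438) (nat_lit 2) (nat_lit 5) (nat_lit 4) (nat_lit 4) (nat_lit 2) (nat_lit 4) (nat_lit 304) (nat_lit 237) (nat_lit 179)))))) (XT.nd (nat_lit 312) (nat_lit 0) (nat_lit 0) (XT.nd (nat_lit 156) (nat_lit 0) (nat_lit 0) (XT.nd (nat_lit 78) (nat_lit 0) (nat_lit 0) (XT.lf (nat_lit 0) (nat_lit 39465489794)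 (nat_lit 152) (nat_lit 141248109243) (nat_lit 0) (nat_lit 19818557667) (nat_lit 2) (nat_lit 5) (nat_lit 4) (nat_lit 4) (nat_lit 2) (nat_lit 4) (nat_lit 305) (nat_lit 237) (nat_lit 178)) (XT.lf (nat_lit 0) (nat_lit 48794118307) (nat_lit 152) (nat_lit 138254430421) (nat_lit 0) (nat_lit 29131496415) (nat_lit 2) (nat_lit 5) (nat_lit 4) (nat_lit 4) (nat_lit 2) (nat_lit 4) (nat_lit 306) (nat_lit 237) (nat_lit 177))) (XT.nd (nat_lit 78) (nat_lit 0) (nat_lit 0) (XT.lf (nat_lit 0) (nat_lit 58857466921) (nat_lit 152) (nat_lit 135042568737) (nat_lit 0) (nat_lit 39180317469) (nat_lit 2) (nat_lit 5) (nat_lit 4) (nat_lit 4) (nat_lit 2) (nat_lit 4) (nat_lit 307) (nat_lit 237) (nat_lit 176)) (XT.lf (nat_lit 0) (nat_lit 69715170293) (nat_lit 152) (nat_lit 131593490937) (nat_lit 0) (nat_lit 50024569397) (nat_lit 2) (nat_lit 5) (nat_lit 4) (nat_lit 4) (nat_lit 2) (nat_lit 4) (nat_lit 308) (nat_lit 237)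 (nat_lit 175)))) (XT.nd (nat_lit 156) (nat_lit 0) (nat_lit 0) (XT.nd (nat_lit 78) (nat_lit 0) (nat_lit 0) (XT.lf (nat_lit 0) (nat_lit 81431570371) (nat_lit 152) (nat_lit 127886758040) (nat_lit 0) (nat_lit 61728514433) (nat_lit 2) (nat_lit 5) (nat_lit 4) (nat_lit 4) (nat_lit 2) (nat_lit 4) (nat_lit 309) (nat_lit 237) (nat_lit 174)) (XT.lf (nat_lit 0) (nat_lit 94076097671) (nat_lit 152) (nat_lit 123900404224) (nat_lit 0) (nat_lit 74361509288) (nat_lit 2) (nat_lit 5) (nat_lit 4) (nat_lit 4) (nat_lit 2) (nat_lit 4) (nat_lit 310) (nat_lit 237) (nat_lit 173))) (XT.nd (nat_lit 78) (nat_lit 0) (nat_lit 0) (XT.lf (nat_lit 0) (nat_lit 107723682728) (nat_lit 152) (nat_lit 119610806649) (nat_lit 0) (nat_lit 87998416155) (nat_lit 2) (nat_lit 5) (nat_lit 4) (nat_lit 4) (nat_lit 2) (nat_lit 4) (nat_lit 311) (nat_lit 237) (nat_lit 172)) (XT.nd (nat_lit 78) (nat_lit 0) (nat_lit 0) (XT.lf (nat_lit 0) (nat_lit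 122455200119) (nat_lit 152) (nat_lit 114992545479) (nat_lit 0) (nat_lit 102720046332) (nat_lit 2) (nat_lit 5) (nat_lit 4) (nat_lit 4) (nat_lit 2) (nat_lit 4) (nat_lit 312) (nat_lit 237) (nat_lit 171)) (XT.lf (nat_lit 0) (nat_lit 138357947724) (nat_lit 152) (nat_lit 110018253240) (nat_lit 0) (nat_lit 118613639110) (nat_lit 2) (nat_lit 5) (nat_lit 4) (nat_lit 4) (nat_lit 2) (nat_lit 4) (nat_lit 313) (nat_lit 237) (nat_lit 170))))))) (XT.nd (nat_lit 702) (nat_lit 0) (nat_lit 0) (XT.nd (nat_lit 312) (nat_lit 0) (nat_lit 0) (XT.nd (nat_lit 156) (nat_lit 0) (nat_lit 0) (XT.nd (nat_lit 78) (nat_lit 0) (nat_lit 0) (XT.lf (nat_lit 0) (nat_lit 155526164048) (nat_lit 152) (nat_lit 104658452644) (nat_lit 0) (nat_lit 135773378743) (nat_lit 2) (nat_lit 5) (nat_lit 4) (nat_lit 4) (nat_lit 2) (nat_lit 4) (nat_lit 314) (nat_lit 237) (nat_lit 169)) (XT.lf (nat_lit 0) (nat_lit 174061586670) (nat_lit 152)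 (nat_lit 98881381911) (nat_lit 0) (nat_lit 154300952576) (nat_lit 2) (nat_lit 5) (nat_lit 4) (nat_lit 4) (nat_lit 2) (nat_lit 4) (nat_lit 315) (nat_lit 237) (nat_lit 168))) (XT.nd (nat_lit 78) (nat_lit 0) (nat_lit 0) (XT.lf (nat_lit 0) (nat_lit 194074055131) (nat_lit 152) (nat_lit 92652806547) (nat_lit 0) (nat_lit 174306153640) (nat_lit 2) (nat_lit 5) (nat_lit 4) (nat_lit 4) (nat_lit 2) (nat_lit 4) (nat_lit 316) (nat_lit 237) (nat_lit 167)) (XT.lf (nat_lit 0) (nat_lit 215682161836) (nat_lit 152) (nat_lit 85935816476) (nat_lit 0) (nat_lit 195907531273) (nat_lit 2) (nat_lit 5) (nat_lit 4) (nat_lit 4) (nat_lit 2) (nat_lit 4) (nat_lit 317) (nat_lit 237) (nat_lit 166)))) (XT.nd (nat_lit 156) (nat_lit 0) (nat_lit 0) (XT.nd (nat_lit 78) (nat_lit 0) (nat_lit 0) (XT.lf (nat_lit 0) (nat_lit 239013954825) (nat_lit 152) (nat_lit 78690607312) (nat_lit 0) (nat_lit 219233093641) (nat_lit 2) (nat_lit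 5) (nat_lit 4) (nat_lit 4) (nat_lit 2) (nat_lit 4) (nat_lit 318) (nat_lit 237) (nat_lit 165)) (XT.lf (nat_lit 0) (nat_lit 264207696575) (nat_lit 152) (nat_lit 70874244482) (nat_lit 0) (nat_lit 244421066298) (nat_lit 2) (nat_lit 5) (nat_lit 4) (nat_lit 4) (nat_lit 2) (nat_lit 4) (nat_lit 319) (nat_lit 237) (nat_lit 164))) (XT.nd (nat_lit 78) (nat_lit 0) (nat_lit 0) (XT.lf (nat_lit 0) (nat_lit 291412683334) (nat_lit 152) (nat_lit 62440408800) (nat_lit 0) (nat_lit 271620711303) (nat_lit 2) (nat_lit 5) (nat_lit 4) (nat_lit 4) (nat_lit 2) (nat_lit 4) (nat_lit 320) (nat_lit 237) (nat_lit 163)) (XT.nd (nat_lit 78) (nat_lit 0) (nat_lit 0) (XT.lf (nat_lit 0) (nat_lit 320790129838) (nat_lit 152) (nat_lit 53339121980) (nat_lit 0) (nat_lit 300993211739) (nat_lit 2) (nat_lit 5) (nat_lit 4) (nat_lit 4) (nat_lit 2) (nat_lit 4) (nat_lit 321) (nat_lit 237) (nat_lit 162)) (XT.lf (nat_lit 0) (nat_lit 352514124659)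 (nat_lit 152) (nat_lit 43516450469) (nat_lit 0) (nat_lit 332712626867) (nat_lit 2) (nat_lit 5) (nat_lit 4) (nat_lit 4) (nat_lit 2) (nat_lit 4) (nat_lit 322) (nat_lit 237) (nat_lit 161)))))) (XT.nd (nat_lit 31668) (nat_lit 0) (nat_lit 4788) (XT.nd (nat_lit 31434) (nat_lit 0) (nat_lit 7600) (XT.nd (nat_lit 31356) (nat_lit 0) (nat_lit 8436) (XT.lf (nat_lit 0) (nat_lit 386772661840) (nat_lit 152) (nat_lit 32914185846) (nat_lit 0) (nat_lit 366966923591) (nat_lit 2) (nat_lit 5) (nat_lit 4) (nat_lit 4) (nat_lit 2) (nat_lit 4) (nat_lit 323) (nat_lit 237) (nat_lit 160)) (XT.lf (nat_lit 0) (nat_lit 355413962) (nat_lit 228) (nat_lit 1463648706) (nat_lit 228) (nat_lit 1463648706) (nat_lit 113) (nat_lit 4) (nat_lit 116) (nat_lit 5) (nat_lit 116) (nat_lit 4) (nat_lit 244) (nat_lit 238) (nat_lit 238))) (XT.nd (nat_lit 78) (nat_lit 760) (nat_lit 0) (XT.lf (nat_lit 0) (nat_lit 1588796866) (nat_lit 304)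 (nat_lit 210898226) (nat_lit 76) (nat_lit 4839625984) (nat_lit 112) (nat_lit 5) (nat_lit 116) (nat_lit 5) (nat_lit 113) (nat_lit 4) (nat_lit 245) (nat_lit 238) (nat_lit 237)) (XT.nd (nat_lit 78) (nat_lit 456) (nat_lit 0) (XT.lf (nat_lit 0) (nat_lit 5725432203) (nat_lit 304) (nat_lit 325500465) (nat_lit 380) (nat_lit 683530053) (nat_lit 108) (nat_lit 5) (nat_lit 112) (nat_lit 5) (nat_lit 113) (nat_lit 4) (nat_lit 246) (nat_lit 238) (nat_lit 236)) (XT.lf (nat_lit 0) (nat_lit 3624906412) (nat_lit 456) (nat_lit 1761486928) (nat_lit 76) (nat_lit 1463465010) (nat_lit 102) (nat_lit 5) (nat_lit 108) (nat_lit 5) (nat_lit 103) (nat_lit 4) (nat_lit 247) (nat_lit 238) (nat_lit 235))))) (XT.nd (nat_lit 156) (nat_lit 1748) (nat_lit 0) (XT.nd (nat_lit 78) (nat_lit 532) (nat_lit 0) (XT.lf (nat_lit 0) (nat_lit 967487269) (nat_lit 532) (nat_lit 2442718417) (nat_lit 76) (nat_lit 3577934885) (nat_lit 95)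 (nat_lit 5) (nat_lit 102) (nat_lit 5) (nat_lit 96) (nat_lit 5) (nat_lit 248) (nat_lit 238) (nat_lit 234)) (XT.lf (nat_lit 0) (nat_lit 4056117465) (nat_lit 532) (nat_lit 1076777492) (nat_lit 608) (nat_lit 2015928543) (nat_lit 88) (nat_lit 5) (nat_lit 95) (nat_lit 5) (nat_lit 96) (nat_lit 5) (nat_lit 249) (nat_lit 238) (nat_lit 233))) (XT.nd (nat_lit 78) (nat_lit 1064) (nat_lit 0) (XT.lf (nat_lit 0) (nat_lit 2029171625) (nat_lit 684) (nat_lit 3739513797) (nat_lit 76) (nat_lit 1563508895) (nat_lit 79) (nat_lit 5) (nat_lit 88) (nat_lit 5) (nat_lit 80) (nat_lit 5) (nat_lit 250) (nat_lit 238) (nat_lit 232)) (XT.nd (nat_lit 78) (nat_lit 380) (nat_lit 0) (XT.lf (nat_lit 0) (nat_lit 3137379325) (nat_lit 684) (nat_lit 3002012370) (nat_lit 760) (nat_lit 1399816246) (nat_lit 70) (nat_lit 5) (nat_lit 79) (nat_lit 5) (nat_lit 80) (nat_lit 5) (nat_lit 251) (nat_lit 238) (nat_lit 231)) (XT.lf (nat_lit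 0) (nat_lit 2537551210) (nat_lit 380) (nat_lit 5097782875) (nat_lit 76) (nat_lit 135736330) (nat_lit 65) (nat_lit 5) (nat_lit 70) (nat_lit 5) (nat_lit 66) (nat_lit 5) (nat_lit 252) (nat_lit 238) (nat_lit 230))))))))
noncomputable def xc44 : XT := (XT.nd (nat_lit 1404) (nat_lit 988) (nat_lit 0) (XT.nd (nat_lit 702) (nat_lit 1140) (nat_lit 0) (XT.nd (nat_lit 312) (nat_lit 1292) (nat_lit 0) (XT.nd (nat_lit 156) (nat_lit 380) (nat_lit 0) (XT.nd (nat_lit 78) (nat_lit 380) (nat_lit 0) (XT.lf (nat_lit 0) (nat_lit 2141872777) (nat_lit 380) (nat_lit 4480896628) (nat_lit 456) (nat_lit 1404476285) (nat_lit 60) (nat_lit 5) (nat_lit 65) (nat_lit 5) (nat_lit 66) (nat_lit 5) (nat_lit 253) (nat_lit 238) (nat_lit 229)) (XT.lf (nat_lit 0) (nat_lit 1546988430) (nat_lit 304) (nat_lit 941159643) (nat_lit 380) (nat_lit 5822289367) (nat_lit 55) (nat_lit 5) (nat_lit 59) (nat_lit 5) (nat_lit 60) (nat_lit 5) (nat_lit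 254) (nat_lit 238) (nat_lit 228))) (XT.nd (nat_lit 78) (nat_lit 76) (nat_lit 0) (XT.lf (nat_lit 0) (nat_lit 827488369) (nat_lit 304) (nat_lit 5723452159) (nat_lit 380) (nat_lit 2069616321) (nat_lit 51) (nat_lit 5) (nat_lit 55) (nat_lit 5) (nat_lit 56) (nat_lit 5) (nat_lit 255) (nat_lit 238) (nat_lit 227)) (XT.lf (nat_lit 0) (nat_lit 1810296503) (nat_lit 380) (nat_lit 28448160) (nat_lit 76) (nat_lit 7121392412) (nat_lit 50) (nat_lit 5) (nat_lit 55) (nat_lit 5) (nat_lit 51) (nat_lit 5) (nat_lit 256) (nat_lit 238) (nat_lit 226)))) (XT.nd (nat_lit 156) (nat_lit 684) (nat_lit 0) (XT.nd (nat_lit 78) (nat_lit 380) (nat_lit 0) (XT.lf (nat_lit 0) (nat_lit 5870639436) (nat_lit 304) (nat_lit 1056174964) (nat_lit 76) (nat_lit 2401916552) (nat_lit 47) (nat_lit 5) (nat_lit 51) (nat_lit 5) (nat_lit 48) (nat_lit 5) (nat_lit 257) (nat_lit 238) (nat_lit 225)) (XT.lf (nat_lit 0) (nat_lit 443089530) (nat_lit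 380) (nat_lit 2292683394) (nat_lit 76) (nat_lit 6994666968) (nat_lit 42) (nat_lit 5) (nat_lit 47) (nat_lit 5) (nat_lit 43) (nat_lit 5) (nat_lit 258) (nat_lit 238) (nat_lit 224))) (XT.nd (nat_lit 78) (nat_lit 456) (nat_lit 0) (XT.lf (nat_lit 0) (nat_lit 4477645654) (nat_lit 304) (nat_lit 3835088328) (nat_lit 76) (nat_lit 1852143146) (nat_lit 39) (nat_lit 5) (nat_lit 43) (nat_lit 5) (nat_lit 40) (nat_lit 5) (nat_lit 259) (nat_lit 238) (nat_lit 223)) (XT.nd (nat_lit 78) (nat_lit 228) (nat_lit 0) (XT.lf (nat_lit 0) (nat_lit 4936053468) (nat_lit 228) (nat_lit 3865976622) (nat_lit 304) (nat_lit 1834193325) (nat_lit 36) (nat_lit 5) (nat_lit 39) (nat_lit 5) (nat_lit 40) (nat_lit 5) (nat_lit 260) (nat_lit 238) (nat_lit 222)) (XT.lf (nat_lit 0) (nat_lit 2196951249) (nat_lit 228) (nat_lit 7956513693) (nat_lit 76) (nat_lit 993225932) (nat_lit 33) (nat_lit 5) (nat_lit 36) (nat_lit 5) (nat_lit 34)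 (nat_lit 5) (nat_lit 261) (nat_lit 238) (nat_lit 221)))))) (XT.nd (nat_lit 312) (nat_lit 532) (nat_lit 0) (XT.nd (nat_lit 156) (nat_lit 380) (nat_lit 0) (XT.nd (nat_lit 78) (nat_lit 0) (nat_lit 0) (XT.lf (nat_lit 0) (nat_lit 976788215) (nat_lit 228) (nat_lit 5511132144) (nat_lit 304) (nat_lit 5208906415) (nat_lit 30) (nat_lit 5) (nat_lit 33) (nat_lit 5) (nat_lit 34) (nat_lit 5) (nat_lit 262) (nat_lit 238) (nat_lit 220)) (XT.lf (nat_lit 0) (nat_lit 10661130512) (nat_lit 228) (nat_lit 428521510) (nat_lit 304) (nat_lit 1203330781) (nat_lit 30) (nat_lit 5) (nat_lit 33) (nat_lit 5) (nat_lit 34) (nat_lit 5) (nat_lit 263) (nat_lit 238) (nat_lit 219))) (XT.nd (nat_lit 78) (nat_lit 152) (nat_lit 0) (XT.lf (nat_lit 0) (nat_lit 3069528332) (nat_lit 228) (nat_lit 4856419689) (nat_lit 76) (nat_lit 5006444631) (nat_lit 27) (nat_lit 5) (nat_lit 30) (nat_lit 5) (nat_lit 28) (nat_lit 5) (nat_lit 264)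 (nat_lit 238) (nat_lit 218)) (XT.lf (nat_lit 0) (nat_lit 4894132138) (nat_lit 152) (nat_lit 2706959473) (nat_lit 228) (nat_lit 6023238769) (nat_lit 25) (nat_lit 5) (nat_lit 27) (nat_lit 5) (nat_lit 28) (nat_lit 5) (nat_lit 265) (nat_lit 238) (nat_lit 217)))) (XT.nd (nat_lit 156) (nat_lit 304) (nat_lit 0) (XT.nd (nat_lit 78) (nat_lit 76) (nat_lit 0) (XT.lf (nat_lit 0) (nat_lit 987187857) (nat_lit 152) (nat_lit 11507840436) (nat_lit 228) (nat_lit 1876892358) (nat_lit 23) (nat_lit 5) (nat_lit 25) (nat_lit 5) (nat_lit 26) (nat_lit 4) (nat_lit 266) (nat_lit 238) (nat_lit 216)) (XT.lf (nat_lit 0) (nat_lit 2575787736) (nat_lit 228) (nat_lit 3689836280) (nat_lit 76) (nat_lit 8909025270) (nat_lit 22) (nat_lit 5) (nat_lit 25) (nat_lit 5) (nat_lit 23) (nat_lit 5) (nat_lit 267) (nat_lit 238) (nat_lit 215))) (XT.nd (nat_lit 78) (nat_lit 152) (nat_lit 0) (XT.lf (nat_lit 0) (nat_lit 6758761384) (nat_lit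 152) (nat_lit 534776803) (nat_lit 228) (nat_lit 8748025674) (nat_lit 20) (nat_lit 5) (nat_lit 22) (nat_lit 5) (nat_lit 23) (nat_lit 5) (nat_lit 268) (nat_lit 238) (nat_lit 214)) (XT.nd (nat_lit 78) (nat_lit 76) (nat_lit 0) (XT.lf (nat_lit 0) (nat_lit 938150165) (nat_lit 76) (nat_lit 11492573601) (nat_lit 152) (nat_lit 4545226289) (nat_lit 19) (nat_lit 5) (nat_lit 20) (nat_lit 5) (nat_lit 21) (nat_lit 4) (nat_lit 269) (nat_lit 238) (nat_lit 213)) (XT.lf (nat_lit 0) (nat_lit 45278965) (nat_lit 152) (nat_lit 5878650830) (nat_lit 76) (nat_lit 12058791324) (nat_lit 18) (nat_lit 5) (nat_lit 20) (nat_lit 5) (nat_lit 19) (nat_lit 5) (nat_lit 270) (nat_lit 238) (nat_lit 212))))))) (XT.nd (nat_lit 702) (nat_lit 380) (nat_lit 0) (XT.nd (nat_lit 312) (nat_lit 380) (nat_lit 0) (XT.nd (nat_lit 156) (nat_lit 76) (nat_lit 0) (XT.nd (nat_lit 78) (nat_lit 0) (nat_lit 0) (XT.lf (nat_lit 0) (nat_lit 4813660005)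 (nat_lit 228) (nat_lit 14078237792) (nat_lit 76) (nat_lit 176095564) (nat_lit 16) (nat_lit 5) (nat_lit 19) (nat_lit 5) (nat_lit 17) (nat_lit 4) (nat_lit 271) (nat_lit 238) (nat_lit 211)) (XT.lf (nat_lit 0) (nat_lit 10059004083) (nat_lit 228) (nat_lit 3579114719) (nat_lit 76) (nat_lit 6597359681) (nat_lit 16) (nat_lit 5) (nat_lit 19) (nat_lit 5) (nat_lit 17) (nat_lit 4) (nat_lit 272) (nat_lit 238) (nat_lit 210))) (XT.nd (nat_lit 78) (nat_lit 0) (nat_lit 0) (XT.lf (nat_lit 0) (nat_lit 7844205796) (nat_lit 76) (nat_lit 7901798487) (nat_lit 152) (nat_lit 5749410151) (nat_lit 15) (nat_lit 5) (nat_lit 16) (nat_lit 5) (nat_lit 17) (nat_lit 4) (nat_lit 273) (nat_lit 238) (nat_lit 209)) (XT.lf (nat_lit 0) (nat_lit 20149653759) (nat_lit 76) (nat_lit 1705164297) (nat_lit 152) (nat_lit 1003126611) (nat_lit 15) (nat_lit 5) (nat_lit 16) (nat_lit 5) (nat_lit 17) (nat_lit 4) (nat_lit 274) (nat_lit 238)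 (nat_lit 208)))) (XT.nd (nat_lit 156) (nat_lit 152) (nat_lit 0) (XT.nd (nat_lit 78) (nat_lit 0) (nat_lit 0) (XT.lf (nat_lit 0) (nat_lit 4124693726) (nat_lit 228) (nat_lit 15215066917) (nat_lit 76) (nat_lit 4979933932) (nat_lit 12) (nat_lit 5) (nat_lit 15) (nat_lit 5) (nat_lit 13) (nat_lit 4) (nat_lit 275) (nat_lit 238) (nat_lit 207)) (XT.lf (nat_lit 0) (nat_lit 9618268921) (nat_lit 228) (nat_lit 4130927584) (nat_lit 76) (nat_lit 12148948054) (nat_lit 12) (nat_lit 5) (nat_lit 15) (nat_lit 5) (nat_lit 13) (nat_lit 4) (nat_lit 276) (nat_lit 238) (nat_lit 206))) (XT.nd (nat_lit 78) (nat_lit 76) (nat_lit 0) (XT.lf (nat_lit 0) (nat_lit 7957834281) (nat_lit 76) (nat_lit 7637649017) (nat_lit 152) (nat_lit 12005287006) (nat_lit 11) (nat_lit 5) (nat_lit 12) (nat_lit 5) (nat_lit 13) (nat_lit 4) (nat_lit 277) (nat_lit 238) (nat_lit 205)) (XT.nd (nat_lit 78) (nat_lit 76) (nat_lit 0) (XT.lf (nat_lit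 0) (nat_lit 21030347732) (nat_lit 76) (nat_lit 1016283775) (nat_lit 152) (nat_lit 7393286229) (nat_lit 11) (nat_lit 5) (nat_lit 12) (nat_lit 5) (nat_lit 13) (nat_lit 4) (nat_lit 278) (nat_lit 238) (nat_lit 204)) (XT.lf (nat_lit 0) (nat_lit 3618498991) (nat_lit 76) (nat_lit 25476301694) (nat_lit 76) (nat_lit 2327441918) (nat_lit 10) (nat_lit 4) (nat_lit 11) (nat_lit 5) (nat_lit 11) (nat_lit 4) (nat_lit 279) (nat_lit 238) (nat_lit 203)))))) (XT.nd (nat_lit 390) (nat_lit 228) (nat_lit 0) (XT.nd (nat_lit 156) (nat_lit 76) (nat_lit 0) (XT.nd (nat_lit 78) (nat_lit 0) (nat_lit 0) (XT.lf (nat_lit 0) (nat_lit 3139970176) (nat_lit 152) (nat_lit 16836308837) (nat_lit 76) (nat_lit 13579655719) (nat_lit 9) (nat_lit 5) (nat_lit 11) (nat_lit 5) (nat_lit 10) (nat_lit 4) (nat_lit 280) (nat_lit 238) (nat_lit 202)) (XT.lf (nat_lit 0) (nat_lit 8900332558) (nat_lit 152) (nat_lit 5142739958) (nat_lit 76) (nat_lit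 21818562195) (nat_lit 9) (nat_lit 5) (nat_lit 11) (nat_lit 5) (nat_lit 10) (nat_lit 4) (nat_lit 281) (nat_lit 238) (nat_lit 201))) (XT.nd (nat_lit 78) (nat_lit 0) (nat_lit 0) (XT.lf (nat_lit 0) (nat_lit 7626698105) (nat_lit 76) (nat_lit 7554649408) (nat_lit 152) (nat_lit 23167521623) (nat_lit 8) (nat_lit 5) (nat_lit 9) (nat_lit 5) (nat_lit 10) (nat_lit 4) (nat_lit 282) (nat_lit 238) (nat_lit 200)) (XT.nd (nat_lit 78) (nat_lit 0) (nat_lit 0) (XT.lf (nat_lit 0) (nat_lit 21502125975) (nat_lit 76) (nat_lit 495890326) (nat_lit 152) (nat_lit 19035471851) (nat_lit 8) (nat_lit 5) (nat_lit 9) (nat_lit 5) (nat_lit 10) (nat_lit 4) (nat_lit 283) (nat_lit 238) (nat_lit 199)) (XT.lf (nat_lit 0) (nat_lit 29418449178) (nat_lit 152) (nat_lit 7650484385) (nat_lit 0) (nat_lit 6861081292) (nat_lit 8) (nat_lit 5) (nat_lit 10) (nat_lit 4) (nat_lit 8) (nat_lit 4) (nat_lit 284) (nat_lit 238) (nat_lit 198)))))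 (XT.nd (nat_lit 156) (nat_lit 152) (nat_lit 0) (XT.nd (nat_lit 78) (nat_lit 0) (nat_lit 0) (XT.lf (nat_lit 0) (nat_lit 5253695262) (nat_lit 76) (nat_lit 32220272066) (nat_lit 76) (nat_lit 9582279104) (nat_lit 7) (nat_lit 4) (nat_lit 8) (nat_lit 5) (nat_lit 8) (nat_lit 4) (nat_lit 285) (nat_lit 238) (nat_lit 197)) (XT.lf (nat_lit 0) (nat_lit 19380226882) (nat_lit 76) (nat_lit 26880356901) (nat_lit 76) (nat_lit 4167711089) (nat_lit 7) (nat_lit 4) (nat_lit 8) (nat_lit 5) (nat_lit 8) (nat_lit 4) (nat_lit 286) (nat_lit 238) (nat_lit 196))) (XT.nd (nat_lit 78) (nat_lit 76) (nat_lit 0) (XT.lf (nat_lit 0) (nat_lit 1582340710) (nat_lit 152) (nat_lit 19537970364) (nat_lit 76) (nat_lit 32950725273) (nat_lit 6) (nat_lit 5) (nat_lit 8) (nat_lit 5) (nat_lit 7) (nat_lit 4) (nat_lit 287) (nat_lit 238) (nat_lit 195)) (XT.nd (nat_lit 78) (nat_lit 76) (nat_lit 0) (XT.lf (nat_lit 0) (nat_lit 7607674626)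 (nat_lit 152) (nat_lit 7250038621) (nat_lit 76) (nat_lit 43146044808) (nat_lit 6) (nat_lit 5) (nat_lit 8) (nat_lit 5) (nat_lit 7) (nat_lit 4) (nat_lit 288) (nat_lit 238) (nat_lit 194)) (XT.lf (nat_lit 0) (nat_lit 6150467634) (nat_lit 76) (nat_lit 8022947525) (nat_lit 152) (nat_lit 48074802040) (nat_lit 5) (nat_lit 5) (nat_lit 6) (nat_lit 5) (nat_lit 7) (nat_lit 4) (nat_lit 289) (nat_lit 238) (nat_lit 193))))))))
noncomputable def xc45 : XT := (XT.nd (nat_lit 1404) (nat_lit 0) (nat_lit 0) (XT.nd (nat_lit 702) (nat_lit 152) (nat_lit 0) (XT.nd (nat_lit 312) (nat_lit 76) (nat_lit 0) (XT.nd (nat_lit 156) (nat_lit 0) (nat_lit 0) (XT.nd (nat_lit 78) (nat_lit 0) (nat_lit 0) (XT.lf (nat_lit 0) (nat_lit 20817522888) (nat_lit 76) (nat_lit 537320235) (nat_lit 152) (nat_lit 45472904366) (nat_lit 5) (nat_lit 5) (nat_lit 6) (nat_lit 5) (nat_lit 7) (nat_lit 4) (nat_lit 290) (nat_lit 238) (nat_lit 192))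 (XT.lf (nat_lit 0) (nat_lit 29194998929) (nat_lit 152) (nat_lit 35294429592) (nat_lit 0) (nat_lit 7280034175) (nat_lit 5) (nat_lit 5) (nat_lit 7) (nat_lit 4) (nat_lit 5) (nat_lit 4) (nat_lit 291) (nat_lit 238) (nat_lit 191))) (XT.nd (nat_lit 78) (nat_lit 0) (nat_lit 0) (XT.lf (nat_lit 0) (nat_lit 37640298998) (nat_lit 152) (nat_lit 23786819770) (nat_lit 0) (nat_lit 15680530475) (nat_lit 5) (nat_lit 5) (nat_lit 7) (nat_lit 4) (nat_lit 5) (nat_lit 4) (nat_lit 292) (nat_lit 238) (nat_lit 190)) (XT.lf (nat_lit 0) (nat_lit 46732400480) (nat_lit 152) (nat_lit 11410812819) (nat_lit 0) (nat_lit 24731146985) (nat_lit 5) (nat_lit 5) (nat_lit 7) (nat_lit 4) (nat_lit 5) (nat_lit 4) (nat_lit 293) (nat_lit 238) (nat_lit 189)))) (XT.nd (nat_lit 156) (nat_lit 0) (nat_lit 0) (XT.nd (nat_lit 78) (nat_lit 0) (nat_lit 0) (XT.lf (nat_lit 0) (nat_lit 1969982298) (nat_lit 76) (nat_lit 54585957141) (nat_lit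 76) (nat_lit 32546291635) (nat_lit 4) (nat_lit 4) (nat_lit 5) (nat_lit 5) (nat_lit 5) (nat_lit 4) (nat_lit 294) (nat_lit 238) (nat_lit 188)) (XT.lf (nat_lit 0) (nat_lit 16782474321) (nat_lit 76) (nat_lit 50556223478) (nat_lit 76) (nat_lit 28480991295) (nat_lit 4) (nat_lit 4) (nat_lit 5) (nat_lit 5) (nat_lit 5) (nat_lit 4) (nat_lit 295) (nat_lit 238) (nat_lit 187))) (XT.nd (nat_lit 78) (nat_lit 0) (nat_lit 0) (XT.lf (nat_lit 0) (nat_lit 32737147976) (nat_lit 76) (nat_lit 46223380044) (nat_lit 76) (nat_lit 24115215754) (nat_lit 4) (nat_lit 4) (nat_lit 5) (nat_lit 5) (nat_lit 5) (nat_lit 4) (nat_lit 296) (nat_lit 238) (nat_lit 186)) (XT.nd (nat_lit 78) (nat_lit 0) (nat_lit 0) (XT.lf (nat_lit 0) (nat_lit 49928549476) (nat_lit 76) (nat_lit 41561750731) (nat_lit 76) (nat_lit 19423093747) (nat_lit 4) (nat_lit 4) (nat_lit 5) (nat_lit 5) (nat_lit 5) (nat_lit 4) (nat_lit 297) (nat_lit 238) (nat_lit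 185)) (XT.lf (nat_lit 0) (nat_lit 68458553794) (nat_lit 76) (nat_lit 36543711067) (nat_lit 76) (nat_lit 14376820109) (nat_lit 4) (nat_lit 4) (nat_lit 5) (nat_lit 5) (nat_lit 5) (nat_lit 4) (nat_lit 298) (nat_lit 238) (nat_lit 184)))))) (XT.nd (nat_lit 312) (nat_lit 76) (nat_lit 0) (XT.nd (nat_lit 156) (nat_lit 76) (nat_lit 0) (XT.nd (nat_lit 78) (nat_lit 0) (nat_lit 0) (XT.lf (nat_lit 0) (nat_lit 88436968362) (nat_lit 76) (nat_lit 31139524522) (nat_lit 76) (nat_lit 8946490995) (nat_lit 4) (nat_lit 4) (nat_lit 5) (nat_lit 5) (nat_lit 5) (nat_lit 4) (nat_lit 299) (nat_lit 238) (nat_lit 183)) (XT.lf (nat_lit 0) (nat_lit 109982183785) (nat_lit 76) (nat_lit 25317166287) (nat_lit 76) (nat_lit 3099926677) (nat_lit 4) (nat_lit 4) (nat_lit 5) (nat_lit 5) (nat_lit 5) (nat_lit 4) (nat_lit 300) (nat_lit 238) (nat_lit 182))) (XT.nd (nat_lit 78) (nat_lit 0) (nat_lit 0) (XT.lf (nat_lit 0) (nat_lit 3095178569)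 (nat_lit 152) (nat_lit 15894536581) (nat_lit 76) (nat_lit 130074278497) (nat_lit 3) (nat_lit 5) (nat_lit 5) (nat_lit 5) (nat_lit 4) (nat_lit 4) (nat_lit 301) (nat_lit 238) (nat_lit 181)) (XT.lf (nat_lit 0) (nat_lit 9663641072) (nat_lit 152) (nat_lit 2449941264) (nat_lit 76) (nat_lit 148466460430) (nat_lit 3) (nat_lit 5) (nat_lit 5) (nat_lit 5) (nat_lit 4) (nat_lit 4) (nat_lit 302) (nat_lit 238) (nat_lit 180)))) (XT.nd (nat_lit 156) (nat_lit 0) (nat_lit 0) (XT.nd (nat_lit 78) (nat_lit 0) (nat_lit 0) (XT.lf (nat_lit 0) (nat_lit 12443017471) (nat_lit 76) (nat_lit 4494854969) (nat_lit 152) (nat_lit 156070501326) (nat_lit 2) (nat_lit 5) (nat_lit 3) (nat_lit 5) (nat_lit 4) (nat_lit 4) (nat_lit 303) (nat_lit 238) (nat_lit 179)) (XT.lf (nat_lit 0) (nat_lit 24882211246) (nat_lit 152) (nat_lit 157897783567) (nat_lit 0) (nat_lit 3646579603) (nat_lit 2) (nat_lit 5) (nat_lit 4) (nat_lit 4) (nat_lit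 2) (nat_lit 4) (nat_lit 304) (nat_lit 238) (nat_lit 178))) (XT.nd (nat_lit 78) (nat_lit 0) (nat_lit 0) (XT.lf (nat_lit 0) (nat_lit 33525392827) (nat_lit 152) (nat_lit 155115612846) (nat_lit 0) (nat_lit 12274071419) (nat_lit 2) (nat_lit 5) (nat_lit 4) (nat_lit 4) (nat_lit 2) (nat_lit 4) (nat_lit 305) (nat_lit 238) (nat_lit 177)) (XT.nd (nat_lit 78) (nat_lit 0) (nat_lit 0) (XT.lf (nat_lit 0) (nat_lit 42848458754) (nat_lit 152) (nat_lit 152132179910) (nat_lit 0) (nat_lit 21582609785) (nat_lit 2) (nat_lit 5) (nat_lit 4) (nat_lit 4) (nat_lit 2) (nat_lit 4) (nat_lit 306) (nat_lit 238) (nat_lit 176)) (XT.lf (nat_lit 0) (nat_lit 52906656824) (nat_lit 152) (nat_lit 148929805158) (nat_lit 0) (nat_lit 31627356411) (nat_lit 2) (nat_lit 5) (nat_lit 4) (nat_lit 4) (nat_lit 2) (nat_lit 4) (nat_lit 307) (nat_lit 238) (nat_lit 175))))))) (XT.nd (nat_lit 702) (nat_lit 0) (nat_lit 0) (XT.nd (nat_lit 312)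 (nat_lit 0) (nat_lit 0) (XT.nd (nat_lit 156) (nat_lit 0) (nat_lit 0) (XT.nd (nat_lit 78) (nat_lit 0) (nat_lit 0) (XT.lf (nat_lit 0) (nat_lit 63759591175) (nat_lit 152) (nat_lit 145489511554) (nat_lit 0) (nat_lit 42467835721) (nat_lit 2) (nat_lit 5) (nat_lit 4) (nat_lit 4) (nat_lit 2) (nat_lit 4) (nat_lit 308) (nat_lit 238) (nat_lit 174)) (XT.lf (nat_lit 0) (nat_lit 75471575491) (nat_lit 152) (nat_lit 141790912173) (nat_lit 0) (nat_lit 54168287592) (nat_lit 2) (nat_lit 5) (nat_lit 4) (nat_lit 4) (nat_lit 2) (nat_lit 4) (nat_lit 309) (nat_lit 238) (nat_lit 173))) (XT.nd (nat_lit 78) (nat_lit 0) (nat_lit 0) (XT.lf (nat_lit 0) (nat_lit 88112014124) (nat_lit 152) (nat_lit 137812089389) (nat_lit 0) (nat_lit 66798048035) (nat_lit 2) (nat_lit 5) (nat_lit 4) (nat_lit 4) (nat_lit 2) (nat_lit 4) (nat_lit 310) (nat_lit 238) (nat_lit 172)) (XT.lf (nat_lit 0) (nat_lit 101755813378) (nat_lit 152) (nat_lit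 133529464992) (nat_lit 0) (nat_lit 80431960075) (nat_lit 2) (nat_lit 5) (nat_lit 4) (nat_lit 4) (nat_lit 2) (nat_lit 4) (nat_lit 311) (nat_lit 238) (nat_lit 171)))) (XT.nd (nat_lit 156) (nat_lit 0) (nat_lit 0) (XT.nd (nat_lit 78) (nat_lit 0) (nat_lit 0) (XT.lf (nat_lit 0) (nat_lit 116483825395) (nat_lit 152) (nat_lit 128917660469) (nat_lit 0) (nat_lit 95150817265) (nat_lit 2) (nat_lit 5) (nat_lit 4) (nat_lit 4) (nat_lit 2) (nat_lit 4) (nat_lit 312) (nat_lit 238) (nat_lit 170)) (XT.lf (nat_lit 0) (nat_lit 132383327284) (nat_lit 152) (nat_lit 123949346606) (nat_lit 0) (nat_lit 111041842463) (nat_lit 2) (nat_lit 5) (nat_lit 4) (nat_lit 4) (nat_lit 2) (nat_lit 4) (nat_lit 313) (nat_lit 238) (nat_lit 169))) (XT.nd (nat_lit 78) (nat_lit 0) (nat_lit 0) (XT.lf (nat_lit 0) (nat_lit 149548538316) (nat_lit 152) (nat_lit 118595081544) (nat_lit 0) (nat_lit 128199204706) (nat_lit 2) (nat_lit 5) (nat_lit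 4) (nat_lit 4) (nat_lit 2) (nat_lit 4) (nat_lit 314) (nat_lit 238) (nat_lit 168)) (XT.nd (nat_lit 78) (nat_lit 0) (nat_lit 0) (XT.lf (nat_lit 0) (nat_lit 168081178260) (nat_lit 152) (nat_lit 112823136305) (nat_lit 0) (nat_lit 146724577252) (nat_lit 2) (nat_lit 5) (nat_lit 4) (nat_lit 4) (nat_lit 2) (nat_lit 4) (nat_lit 315) (nat_lit 238) (nat_lit 167)) (XT.lf (nat_lit 0) (nat_lit 188091070166) (nat_lit 152) (nat_lit 106599306769) (nat_lit 0) (nat_lit 166727740088) (nat_lit 2) (nat_lit 5) (nat_lit 4) (nat_lit 4) (nat_lit 2) (nat_lit 4) (nat_lit 316) (nat_lit 238) (nat_lit 166)))))) (XT.nd (nat_lit 390) (nat_lit 0) (nat_lit 0) (XT.nd (nat_lit 156) (nat_lit 0) (nat_lit 0) (XT.nd (nat_lit 78) (nat_lit 0) (nat_lit 0) (XT.lf (nat_lit 0) (nat_lit 209696791173) (nat_lit 152) (nat_lit 99886710983) (nat_lit 0) (nat_lit 188327230473) (nat_lit 2) (nat_lit 5) (nat_lit 4) (nat_lit 4) (nat_lit 2) (nat_lit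 4) (nat_lit 317) (nat_lit 238) (nat_lit 165)) (XT.lf (nat_lit 0) (nat_lit 233026375183) (nat_lit 152) (nat_lit 92645570601) (nat_lit 0) (nat_lit 211651045389) (nat_lit 2) (nat_lit 5) (nat_lit 4) (nat_lit 4) (nat_lit 2) (nat_lit 4) (nat_lit 318) (nat_lit 238) (nat_lit 164))) (XT.nd (nat_lit 78) (nat_lit 0) (nat_lit 0) (XT.lf (nat_lit 0) (nat_lit 258218071581) (nat_lit 152) (nat_lit 84832975163) (nat_lit 0) (nat_lit 236837400034) (nat_lit 2) (nat_lit 5) (nat_lit 4) (nat_lit 4) (nat_lit 2) (nat_lit 4) (nat_lit 319) (nat_lit 238) (nat_lit 163)) (XT.nd (nat_lit 78) (nat_lit 0) (nat_lit 0) (XT.lf (nat_lit 0) (nat_lit 285421164496) (nat_lit 152) (nat_lit 76402627806) (nat_lit 0) (nat_lit 264035546880) (nat_lit 2) (nat_lit 5) (nat_lit 4) (nat_lit 4) (nat_lit 2) (nat_lit 4) (nat_lit 320) (nat_lit 238) (nat_lit 162)) (XT.lf (nat_lit 0) (nat_lit 314796857441) (nat_lit 152) (nat_lit 67304570916)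 (nat_lit 0) (nat_lit 293406660132) (nat_lit 2) (nat_lit 5) (nat_lit 4) (nat_lit 4) (nat_lit 2) (nat_lit 4) (nat_lit 321) (nat_lit 238) (nat_lit 161))))) (XT.nd (nat_lit 31278) (nat_lit 0) (nat_lit 8360) (XT.nd (nat_lit 78) (nat_lit 0) (nat_lit 0) (XT.lf (nat_lit 0) (nat_lit 346519228595) (nat_lit 152) (nat_lit 57484890082) (nat_lit 0) (nat_lit 325124790830) (nat_lit 2) (nat_lit 5) (nat_lit 4) (nat_lit 4) (nat_lit 2) (nat_lit 4) (nat_lit 322) (nat_lit 238) (nat_lit 160)) (XT.lf (nat_lit 0) (nat_lit 380776262382) (nat_lit 152) (nat_lit 46885394604) (nat_lit 0) (nat_lit 359377898268) (nat_lit 2) (nat_lit 5) (nat_lit 4) (nat_lit 4) (nat_lit 2) (nat_lit 4) (nat_lit 323) (nat_lit 238) (nat_lit 159))) (XT.nd (nat_lit 78) (nat_lit 532) (nat_lit 0) (XT.lf (nat_lit 0) (nat_lit 1559639439) (nat_lit 76) (nat_lit 838099504) (nat_lit 76) (nat_lit 838099504) (nat_lit 119) (nat_lit 4) (nat_lit 120) (nat_lit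 5) (nat_lit 120) (nat_lit 4) (nat_lit 242) (nat_lit 239) (nat_lit 239)) (XT.nd (nat_lit 78) (nat_lit 304) (nat_lit 0) (XT.lf (nat_lit 0) (nat_lit 1768235142) (nat_lit 152) (nat_lit 1012676958) (nat_lit 228) (nat_lit 3732239138) (nat_lit 116) (nat_lit 5) (nat_lit 118) (nat_lit 5) (nat_lit 119) (nat_lit 4) (nat_lit 243) (nat_lit 239) (nat_lit 238)) (XT.lf (nat_lit 0) (nat_lit 556543232) (nat_lit 228) (nat_lit 26269432) (nat_lit 304) (nat_lit 5993513677) (nat_lit 112) (nat_lit 5) (nat_lit 115) (nat_lit 5) (nat_lit 116) (nat_lit 5) (nat_lit 244) (nat_lit 239) (nat_lit 237))))))))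
noncomputable def xc46 : XT := (XT.nd (nat_lit 1404) (nat_lit 1824) (nat_lit 0) (XT.nd (nat_lit 702) (nat_lit 2052) (nat_lit 0) (XT.nd (nat_lit 312) (nat_lit 2660) (nat_lit 0) (XT.nd (nat_lit 156) (nat_lit 912) (nat_lit 0) (XT.nd (nat_lit 78) (nat_lit 380) (nat_lit 0) (XT.lf (nat_lit 0) (nat_lit 4810839180) (nat_lit 304) (nat_lit 562125794) (nat_lit 76) (nat_lit 1285701252) (nat_lit 112) (nat_lit 5) (nat_lit 116) (nat_lit 5) (nat_lit 113) (nat_lit 4) (nat_lit 245) (nat_lit 239) (nat_lit 236)) (XT.lf (nat_lit 0) (nat_lit 2247198188) (nat_lit 380) (nat_lit 1572392501) (nat_lit 76) (nat_lit 2942706434) (nat_lit 107) (nat_lit 5) (nat_lit 112) (nat_lit 5) (nat_lit 108) (nat_lit 5) (nat_lit 246) (nat_lit 239) (nat_lit 235))) (XT.nd (nat_lit 78) (nat_lit 532) (nat_lit 0) (XT.lf (nat_lit 0) (nat_lit 4384643631) (nat_lit 380) (nat_lit 1942300202) (nat_lit 456) (nat_lit 561378995) (nat_lit 102)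 (nat_lit 5) (nat_lit 107) (nat_lit 5) (nat_lit 108) (nat_lit 5) (nat_lit 247) (nat_lit 239) (nat_lit 234)) (XT.lf (nat_lit 0) (nat_lit 3337228510) (nat_lit 532) (nat_lit 3405086928) (nat_lit 76) (nat_lit 293365091) (nat_lit 95) (nat_lit 5) (nat_lit 102) (nat_lit 5) (nat_lit 96) (nat_lit 5) (nat_lit 248) (nat_lit 239) (nat_lit 233)))) (XT.nd (nat_lit 156) (nat_lit 1444) (nat_lit 0) (XT.nd (nat_lit 78) (nat_lit 608) (nat_lit 0) (XT.lf (nat_lit 0) (nat_lit 121527310) (nat_lit 608) (nat_lit 4284825451) (nat_lit 76) (nat_lit 2799158727) (nat_lit 87) (nat_lit 5) (nat_lit 95) (nat_lit 5) (nat_lit 88) (nat_lit 5) (nat_lit 249) (nat_lit 239) (nat_lit 232)) (XT.lf (nat_lit 0) (nat_lit 2216326096) (nat_lit 608) (nat_lit 1691282875) (nat_lit 684) (nat_lit 3490017004) (nat_lit 79) (nat_lit 5) (nat_lit 87) (nat_lit 5) (nat_lit 88) (nat_lit 5) (nat_lit 250) (nat_lit 239) (nat_lit 231))) (XT.nd (nat_lit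 78) (nat_lit 684) (nat_lit 0) (XT.lf (nat_lit 0) (nat_lit 206583052) (nat_lit 760) (nat_lit 6083437623) (nat_lit 76) (nat_lit 1324488009) (nat_lit 69) (nat_lit 5) (nat_lit 79) (nat_lit 5) (nat_lit 70) (nat_lit 5) (nat_lit 251) (nat_lit 239) (nat_lit 230)) (XT.nd (nat_lit 78) (nat_lit 380) (nat_lit 0) (XT.lf (nat_lit 0) (nat_lit 776245909) (nat_lit 304) (nat_lit 3158335967) (nat_lit 380) (nat_lit 3919408663) (nat_lit 65) (nat_lit 5) (nat_lit 69) (nat_lit 5) (nat_lit 70) (nat_lit 5) (nat_lit 252) (nat_lit 239) (nat_lit 229)) (XT.lf (nat_lit 0) (nat_lit 7052807) (nat_lit 380) (nat_lit 7805130468) (nat_lit 456) (nat_lit 308811382) (nat_lit 60) (nat_lit 5) (nat_lit 65) (nat_lit 5) (nat_lit 66) (nat_lit 5) (nat_lit 253) (nat_lit 239) (nat_lit 228)))))) (XT.nd (nat_lit 312) (nat_lit 1064) (nat_lit 0) (XT.nd (nat_lit 156) (nat_lit 608) (nat_lit 0) (XT.nd (nat_lit 78) (nat_lit 304) (nat_lit 0)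 (XT.lf (nat_lit 0) (nat_lit 3404513191) (nat_lit 456) (nat_lit 882503239) (nat_lit 76) (nat_lit 4123921306) (nat_lit 59) (nat_lit 5) (nat_lit 65) (nat_lit 5) (nat_lit 60) (nat_lit 5) (nat_lit 254) (nat_lit 239) (nat_lit 227)) (XT.lf (nat_lit 0) (nat_lit 6883913859) (nat_lit 304) (nat_lit 396529500) (nat_lit 380) (nat_lit 1450322702) (nat_lit 55) (nat_lit 5) (nat_lit 59) (nat_lit 5) (nat_lit 60) (nat_lit 5) (nat_lit 255) (nat_lit 239) (nat_lit 226))) (XT.nd (nat_lit 78) (nat_lit 228) (nat_lit 0) (XT.lf (nat_lit 0) (nat_lit 2264187963) (nat_lit 380) (nat_lit 3010891327) (nat_lit 76) (nat_lit 3802385172) (nat_lit 50) (nat_lit 5) (nat_lit 55) (nat_lit 5) (nat_lit 51) (nat_lit 5) (nat_lit 256) (nat_lit 239) (nat_lit 225)) (XT.lf (nat_lit 0) (nat_lit 5105580063) (nat_lit 228) (nat_lit 1029098584) (nat_lit 304) (nat_lit 3321170986) (nat_lit 47) (nat_lit 5) (nat_lit 50) (nat_lit 5) (nat_lit 51)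 (nat_lit 5) (nat_lit 257) (nat_lit 239) (nat_lit 224)))) (XT.nd (nat_lit 156) (nat_lit 456) (nat_lit 0) (XT.nd (nat_lit 78) (nat_lit 228) (nat_lit 0) (XT.lf (nat_lit 0) (nat_lit 406004913) (nat_lit 380) (nat_lit 5940181093) (nat_lit 76) (nat_lit 3520010209) (nat_lit 42) (nat_lit 5) (nat_lit 47) (nat_lit 5) (nat_lit 43) (nat_lit 5) (nat_lit 258) (nat_lit 239) (nat_lit 223)) (XT.lf (nat_lit 0) (nat_lit 2469173035) (nat_lit 228) (nat_lit 1788570179) (nat_lit 304) (nat_lit 6052275005) (nat_lit 39) (nat_lit 5) (nat_lit 42) (nat_lit 5) (nat_lit 43) (nat_lit 5) (nat_lit 259) (nat_lit 239) (nat_lit 222))) (XT.nd (nat_lit 78) (nat_lit 228) (nat_lit 0) (XT.lf (nat_lit 0) (nat_lit 703907715) (nat_lit 228) (nat_lit 7696646813) (nat_lit 304) (nat_lit 2390114448) (nat_lit 36) (nat_lit 5) (nat_lit 39) (nat_lit 5) (nat_lit 40) (nat_lit 5) (nat_lit 260) (nat_lit 239) (nat_lit 221)) (XT.nd (nat_lit 78)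 (nat_lit 152) (nat_lit 0) (XT.lf (nat_lit 0) (nat_lit 1508311243) (nat_lit 304) (nat_lit 1390241295) (nat_lit 76) (nat_lit 8410742592) (nat_lit 35) (nat_lit 5) (nat_lit 39) (nat_lit 5) (nat_lit 36) (nat_lit 5) (nat_lit 261) (nat_lit 239) (nat_lit 220)) (XT.lf (nat_lit 0) (nat_lit 5635578686) (nat_lit 228) (nat_lit 3914262040) (nat_lit 76) (nat_lit 2317959766) (nat_lit 33) (nat_lit 5) (nat_lit 36) (nat_lit 5) (nat_lit 34) (nat_lit 5) (nat_lit 262) (nat_lit 239) (nat_lit 219))))))) (XT.nd (nat_lit 702) (nat_lit 684) (nat_lit 0) (XT.nd (nat_lit 312) (nat_lit 532) (nat_lit 0) (XT.nd (nat_lit 156) (nat_lit 152) (nat_lit 0) (XT.nd (nat_lit 78) (nat_lit 228) (nat_lit 0) (XT.lf (nat_lit 0) (nat_lit 5530370259) (nat_lit 228) (nat_lit 4567635038) (nat_lit 304) (nat_lit 2373087197) (nat_lit 30) (nat_lit 5) (nat_lit 33) (nat_lit 5) (nat_lit 34) (nat_lit 5) (nat_lit 263) (nat_lit 239) (nat_lit 218))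 (XT.lf (nat_lit 0) (nat_lit 1711491302) (nat_lit 228) (nat_lit 10550316119) (nat_lit 76) (nat_lit 861044635) (nat_lit 27) (nat_lit 5) (nat_lit 30) (nat_lit 5) (nat_lit 28) (nat_lit 5) (nat_lit 264) (nat_lit 239) (nat_lit 217))) (XT.nd (nat_lit 78) (nat_lit 152) (nat_lit 0) (XT.lf (nat_lit 0) (nat_lit 6098063548) (nat_lit 228) (nat_lit 1059546241) (nat_lit 76) (nat_lit 6664568942) (nat_lit 27) (nat_lit 5) (nat_lit 30) (nat_lit 5) (nat_lit 28) (nat_lit 5) (nat_lit 265) (nat_lit 239) (nat_lit 216)) (XT.lf (nat_lit 0) (nat_lit 9289157913) (nat_lit 152) (nat_lit 1559353611) (nat_lit 228) (nat_lit 3728560984) (nat_lit 25) (nat_lit 5) (nat_lit 27) (nat_lit 5) (nat_lit 28) (nat_lit 5) (nat_lit 266) (nat_lit 239) (nat_lit 215)))) (XT.nd (nat_lit 156) (nat_lit 304) (nat_lit 0) (XT.nd (nat_lit 78) (nat_lit 0) (nat_lit 0) (XT.lf (nat_lit 0) (nat_lit 608990874) (nat_lit 228) (nat_lit 10393853824)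 (nat_lit 76) (nat_lit 4387235409) (nat_lit 22) (nat_lit 5) (nat_lit 25) (nat_lit 5) (nat_lit 23) (nat_lit 5) (nat_lit 267) (nat_lit 239) (nat_lit 214)) (XT.lf (nat_lit 0) (nat_lit 5162551275) (nat_lit 228) (nat_lit 253532664) (nat_lit 76) (nat_lit 10849225633) (nat_lit 22) (nat_lit 5) (nat_lit 25) (nat_lit 5) (nat_lit 23) (nat_lit 5) (nat_lit 268) (nat_lit 239) (nat_lit 213))) (XT.nd (nat_lit 78) (nat_lit 152) (nat_lit 0) (XT.lf (nat_lit 0) (nat_lit 10148524405) (nat_lit 228) (nat_lit 6350562042) (nat_lit 76) (nat_lit 708267524) (nat_lit 20) (nat_lit 5) (nat_lit 23) (nat_lit 5) (nat_lit 21) (nat_lit 4) (nat_lit 269) (nat_lit 239) (nat_lit 212)) (XT.nd (nat_lit 78) (nat_lit 76) (nat_lit 0) (XT.lf (nat_lit 0) (nat_lit 4519736241) (nat_lit 76) (nat_lit 11071785283) (nat_lit 152) (nat_lit 2630521022) (nat_lit 19) (nat_lit 5) (nat_lit 20) (nat_lit 5) (nat_lit 21) (nat_lit 4) (nat_lit 270)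 (nat_lit 239) (nat_lit 211)) (XT.lf (nat_lit 0) (nat_lit 2090940906) (nat_lit 152) (nat_lit 3031399783) (nat_lit 76) (nat_lit 14193662876) (nat_lit 18) (nat_lit 5) (nat_lit 20) (nat_lit 5) (nat_lit 19) (nat_lit 5) (nat_lit 271) (nat_lit 239) (nat_lit 210)))))) (XT.nd (nat_lit 390) (nat_lit 228) (nat_lit 0) (XT.nd (nat_lit 156) (nat_lit 304) (nat_lit 0) (XT.nd (nat_lit 78) (nat_lit 0) (nat_lit 0) (XT.lf (nat_lit 0) (nat_lit 7158326658) (nat_lit 228) (nat_lit 11950371467) (nat_lit 76) (nat_lit 1383762252) (nat_lit 16) (nat_lit 5) (nat_lit 19) (nat_lit 5) (nat_lit 17) (nat_lit 4) (nat_lit 272) (nat_lit 239) (nat_lit 209)) (XT.lf (nat_lit 0) (nat_lit 12678144643) (nat_lit 228) (nat_lit 852364870) (nat_lit 76) (nat_lit 8230314235) (nat_lit 16) (nat_lit 5) (nat_lit 19) (nat_lit 5) (nat_lit 17) (nat_lit 4) (nat_lit 273) (nat_lit 239) (nat_lit 208))) (XT.nd (nat_lit 78) (nat_lit 228) (nat_lit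 0) (XT.lf (nat_lit 0) (nat_lit 11353876544) (nat_lit 76) (nat_lit 7376825009) (nat_lit 152) (nat_lit 4395528520) (nat_lit 15) (nat_lit 5) (nat_lit 16) (nat_lit 5) (nat_lit 17) (nat_lit 4) (nat_lit 274) (nat_lit 239) (nat_lit 207)) (XT.nd (nat_lit 78) (nat_lit 152) (nat_lit 0) (XT.lf (nat_lit 0) (nat_lit 577020685) (nat_lit 152) (nat_lit 183379671) (nat_lit 76) (nat_lit 23843476105) (nat_lit 14) (nat_lit 5) (nat_lit 16) (nat_lit 5) (nat_lit 15) (nat_lit 5) (nat_lit 275) (nat_lit 239) (nat_lit 206)) (XT.lf (nat_lit 0) (nat_lit 6017212422) (nat_lit 228) (nat_lit 13763181142) (nat_lit 76) (nat_lit 6404653699) (nat_lit 12) (nat_lit 5) (nat_lit 15) (nat_lit 5) (nat_lit 13) (nat_lit 4) (nat_lit 276) (nat_lit 239) (nat_lit 205))))) (XT.nd (nat_lit 156) (nat_lit 152) (nat_lit 0) (XT.nd (nat_lit 78) (nat_lit 76) (nat_lit 0) (XT.lf (nat_lit 0) (nat_lit 11834529691) (nat_lit 228) (nat_lit 1990021117)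 (nat_lit 76) (nat_lit 14071164873) (nat_lit 12) (nat_lit 5) (nat_lit 15) (nat_lit 5) (nat_lit 13) (nat_lit 4) (nat_lit 277) (nat_lit 239) (nat_lit 204)) (XT.lf (nat_lit 0) (nat_lit 10958438505) (nat_lit 76) (nat_lit 7261220712) (nat_lit 152) (nat_lit 11518549108) (nat_lit 11) (nat_lit 5) (nat_lit 12) (nat_lit 5) (nat_lit 13) (nat_lit 4) (nat_lit 278) (nat_lit 239) (nat_lit 203))) (XT.nd (nat_lit 78) (nat_lit 152) (nat_lit 0) (XT.lf (nat_lit 0) (nat_lit 24901643589) (nat_lit 76) (nat_lit 183289971) (nat_lit 152) (nat_lit 6644785370) (nat_lit 11) (nat_lit 5) (nat_lit 12) (nat_lit 5) (nat_lit 13) (nat_lit 4) (nat_lit 279) (nat_lit 239) (nat_lit 202)) (XT.nd (nat_lit 78) (nat_lit 76) (nat_lit 0) (XT.lf (nat_lit 0) (nat_lit 6050617402) (nat_lit 76) (nat_lit 26598596099) (nat_lit 76) (nat_lit 1223926657) (nat_lit 10) (nat_lit 4) (nat_lit 11) (nat_lit 5) (nat_lit 11) (nat_lit 4) (nat_lit 280)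 (nat_lit 239) (nat_lit 201)) (XT.lf (nat_lit 0) (nat_lit 4547123180) (nat_lit 152) (nat_lit 16159709517) (nat_lit 76) (nat_lit 15474420652) (nat_lit 9) (nat_lit 5) (nat_lit 11) (nat_lit 5) (nat_lit 10) (nat_lit 4) (nat_lit 281) (nat_lit 239) (nat_lit 200))))))))
noncomputable def xc47 : XT := (XT.nd (nat_lit 1404) (nat_lit 152) (nat_lit 0) (XT.nd (nat_lit 702) (nat_lit 76) (nat_lit 0) (XT.nd (nat_lit 312) (nat_lit 228) (nat_lit 0) (XT.nd (nat_lit 156) (nat_lit 0) (nat_lit 0) (XT.nd (nat_lit 78) (nat_lit 76) (nat_lit 0) (XT.lf (nat_lit 0) (nat_lit 10682688227) (nat_lit 152) (nat_lit 3680544315) (nat_lit 76) (nat_lit 24312558723) (nat_lit 9) (nat_lit 5) (nat_lit 11) (nat_lit 5) (nat_lit 10) (nat_lit 4) (nat_lit 282) (nat_lit 239) (nat_lit 199)) (XT.lf (nat_lit 0) (nat_lit 10029023775) (nat_lit 76) (nat_lit 7385858075) (nat_lit 152) (nat_lit 23949780888) (nat_lit 8) (nat_lit 5) (nat_lit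 9) (nat_lit 5) (nat_lit 10) (nat_lit 4) (nat_lit 283) (nat_lit 239) (nat_lit 198))) (XT.nd (nat_lit 78) (nat_lit 0) (nat_lit 0) (XT.lf (nat_lit 0) (nat_lit 24704216157) (nat_lit 152) (nat_lit 19388996105) (nat_lit 0) (nat_lit 174558680) (nat_lit 8) (nat_lit 5) (nat_lit 10) (nat_lit 4) (nat_lit 8) (nat_lit 4) (nat_lit 284) (nat_lit 239) (nat_lit 197)) (XT.lf (nat_lit 0) (nat_lit 32655925268) (nat_lit 152) (nat_lit 6691677367) (nat_lit 0) (nat_lit 8051614942) (nat_lit 8) (nat_lit 5) (nat_lit 10) (nat_lit 4) (nat_lit 8) (nat_lit 4) (nat_lit 285) (nat_lit 239) (nat_lit 196)))) (XT.nd (nat_lit 156) (nat_lit 152) (nat_lit 0) (XT.nd (nat_lit 78) (nat_lit 0) (nat_lit 0) (XT.lf (nat_lit 0) (nat_lit 7176569609) (nat_lit 76) (nat_lit 34137293233) (nat_lit 76) (nat_lit 9463859900) (nat_lit 7) (nat_lit 4) (nat_lit 8) (nat_lit 5) (nat_lit 8) (nat_lit 4) (nat_lit 286) (nat_lit 239) (nat_lit 195)) (XT.lf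 (nat_lit 0) (nat_lit 22321921630) (nat_lit 76) (nat_lit 28419118232) (nat_lit 76) (nat_lit 3681682113) (nat_lit 7) (nat_lit 4) (nat_lit 8) (nat_lit 5) (nat_lit 8) (nat_lit 4) (nat_lit 287) (nat_lit 239) (nat_lit 194))) (XT.nd (nat_lit 78) (nat_lit 76) (nat_lit 0) (XT.lf (nat_lit 0) (nat_lit 2443389520) (nat_lit 152) (nat_lit 19787749440) (nat_lit 76) (nat_lit 36128102351) (nat_lit 6) (nat_lit 5) (nat_lit 8) (nat_lit 5) (nat_lit 7) (nat_lit 4) (nat_lit 288) (nat_lit 239) (nat_lit 193)) (XT.nd (nat_lit 78) (nat_lit 76) (nat_lit 0) (XT.lf (nat_lit 0) (nat_lit 8896345590) (nat_lit 152) (nat_lit 6614061569) (nat_lit 76) (nat_lit 47098949742) (nat_lit 6) (nat_lit 5) (nat_lit 8) (nat_lit 5) (nat_lit 7) (nat_lit 4) (nat_lit 289) (nat_lit 239) (nat_lit 192)) (XT.lf (nat_lit 0) (nat_lit 7805640171) (nat_lit 76) (nat_lit 8149490402) (nat_lit 152) (nat_lit 51239904717) (nat_lit 5) (nat_lit 5) (nat_lit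 6) (nat_lit 5) (nat_lit 7) (nat_lit 4) (nat_lit 290) (nat_lit 239) (nat_lit 191)))))) (XT.nd (nat_lit 312) (nat_lit 76) (nat_lit 0) (XT.nd (nat_lit 156) (nat_lit 0) (nat_lit 0) (XT.nd (nat_lit 78) (nat_lit 0) (nat_lit 0) (XT.lf (nat_lit 0) (nat_lit 23559901688) (nat_lit 76) (nat_lit 103182775) (nat_lit 152) (nat_lit 48480290895) (nat_lit 5) (nat_lit 5) (nat_lit 6) (nat_lit 5) (nat_lit 7) (nat_lit 4) (nat_lit 291) (nat_lit 239) (nat_lit 190)) (XT.lf (nat_lit 0) (nat_lit 32092916545) (nat_lit 152) (nat_lit 37099354634) (nat_lit 0) (nat_lit 8290077799) (nat_lit 5) (nat_lit 5) (nat_lit 7) (nat_lit 4) (nat_lit 5) (nat_lit 4) (nat_lit 292) (nat_lit 239) (nat_lit 189))) (XT.nd (nat_lit 78) (nat_lit 0) (nat_lit 0) (XT.lf (nat_lit 0) (nat_lit 41172187457) (nat_lit 152) (nat_lit 24746590051) (nat_lit 0) (nat_lit 17330936700) (nat_lit 5) (nat_lit 5) (nat_lit 7) (nat_lit 4) (nat_lit 5) (nat_lit 4)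 (nat_lit 293) (nat_lit 239) (nat_lit 188)) (XT.lf (nat_lit 0) (nat_lit 50953089314) (nat_lit 152) (nat_lit 11450367381) (nat_lit 0) (nat_lit 27076271880) (nat_lit 5) (nat_lit 5) (nat_lit 7) (nat_lit 4) (nat_lit 5) (nat_lit 4) (nat_lit 294) (nat_lit 239) (nat_lit 187)))) (XT.nd (nat_lit 156) (nat_lit 0) (nat_lit 0) (XT.nd (nat_lit 78) (nat_lit 0) (nat_lit 0) (XT.lf (nat_lit 0) (nat_lit 2962938337) (nat_lit 76) (nat_lit 58576904449) (nat_lit 76) (nat_lit 34667154907) (nat_lit 4) (nat_lit 4) (nat_lit 5) (nat_lit 5) (nat_lit 5) (nat_lit 4) (nat_lit 295) (nat_lit 239) (nat_lit 186)) (XT.lf (nat_lit 0) (nat_lit 18898551393) (nat_lit 76) (nat_lit 54252638705) (nat_lit 76) (nat_lit 30312396471) (nat_lit 4) (nat_lit 4) (nat_lit 5) (nat_lit 5) (nat_lit 5) (nat_lit 4) (nat_lit 296) (nat_lit 239) (nat_lit 185))) (XT.nd (nat_lit 78) (nat_lit 0) (nat_lit 0) (XT.lf (nat_lit 0) (nat_lit 36072304190)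 (nat_lit 76) (nat_lit 49598951697) (nat_lit 76) (nat_lit 25630475488) (nat_lit 4) (nat_lit 4) (nat_lit 5) (nat_lit 5) (nat_lit 5) (nat_lit 4) (nat_lit 297) (nat_lit 239) (nat_lit 184)) (XT.nd (nat_lit 78) (nat_lit 0) (nat_lit 0) (XT.lf (nat_lit 0) (nat_lit 54585967115) (nat_lit 76) (nat_lit 44588266020) (nat_lit 76) (nat_lit 20593647241) (nat_lit 4) (nat_lit 4) (nat_lit 5) (nat_lit 5) (nat_lit 5) (nat_lit 4) (nat_lit 298) (nat_lit 239) (nat_lit 183)) (XT.lf (nat_lit 0) (nat_lit 74549250765) (nat_lit 76) (nat_lit 39190888722) (nat_lit 76) (nat_lit 15172063861) (nat_lit 4) (nat_lit 4) (nat_lit 5) (nat_lit 5) (nat_lit 5) (nat_lit 4) (nat_lit 299) (nat_lit 239) (nat_lit 182))))))) (XT.nd (nat_lit 702) (nat_lit 0) (nat_lit 0) (XT.nd (nat_lit 312) (nat_lit 76) (nat_lit 0) (XT.nd (nat_lit 156) (nat_lit 76) (nat_lit 0) (XT.nd (nat_lit 78) (nat_lit 0) (nat_lit 0) (XT.lf (nat_lit 0) (nat_lit 96080456078)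 (nat_lit 76) (nat_lit 33374835344) (nat_lit 76) (nat_lit 9333597444) (nat_lit 4) (nat_lit 4) (nat_lit 5) (nat_lit 5) (nat_lit 5) (nat_lit 4) (nat_lit 300) (nat_lit 239) (nat_lit 181)) (XT.lf (nat_lit 0) (nat_lit 119307175384) (nat_lit 76) (nat_lit 27105640386) (nat_lit 76) (nat_lit 3043649672) (nat_lit 4) (nat_lit 4) (nat_lit 5) (nat_lit 5) (nat_lit 5) (nat_lit 4) (nat_lit 301) (nat_lit 239) (nat_lit 180))) (XT.nd (nat_lit 78) (nat_lit 0) (nat_lit 0) (XT.lf (nat_lit 0) (nat_lit 3615508191) (nat_lit 152) (nat_lit 16669414491) (nat_lit 76) (nat_lit 140690309927) (nat_lit 3) (nat_lit 5) (nat_lit 5) (nat_lit 5) (nat_lit 4) (nat_lit 4) (nat_lit 302) (nat_lit 239) (nat_lit 179)) (XT.lf (nat_lit 0) (nat_lit 10689246558) (nat_lit 152) (nat_lit 2186043032) (nat_lit 76) (nat_lit 160538304254) (nat_lit 3) (nat_lit 5) (nat_lit 5) (nat_lit 5) (nat_lit 4) (nat_lit 4) (nat_lit 303) (nat_lit 239) (nat_lit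 178)))) (XT.nd (nat_lit 156) (nat_lit 0) (nat_lit 0) (XT.nd (nat_lit 78) (nat_lit 0) (nat_lit 0) (XT.lf (nat_lit 0) (nat_lit 13878365990) (nat_lit 76) (nat_lit 4655213873) (nat_lit 152) (nat_lit 168303220078) (nat_lit 2) (nat_lit 5) (nat_lit 3) (nat_lit 5) (nat_lit 4) (nat_lit 4) (nat_lit 304) (nat_lit 239) (nat_lit 177)) (XT.lf (nat_lit 0) (nat_lit 27098517922) (nat_lit 152) (nat_lit 170113828181) (nat_lit 0) (nat_lit 4116873477) (nat_lit 2) (nat_lit 5) (nat_lit 4) (nat_lit 4) (nat_lit 2) (nat_lit 4) (nat_lit 305) (nat_lit 239) (nat_lit 176))) (XT.nd (nat_lit 78) (nat_lit 0) (nat_lit 0) (XT.lf (nat_lit 0) (nat_lit 36416433305) (nat_lit 152) (nat_lit 167139882178) (nat_lit 0) (nat_lit 13421337415) (nat_lit 2) (nat_lit 5) (nat_lit 4) (nat_lit 4) (nat_lit 2) (nat_lit 4) (nat_lit 306) (nat_lit 239) (nat_lit 175)) (XT.nd (nat_lit 78) (nat_lit 0) (nat_lit 0) (XT.lf (nat_lit 0) (nat_lit 46469862354)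 (nat_lit 152) (nat_lit 163946291622) (nat_lit 0) (nat_lit 23462311423) (nat_lit 2) (nat_lit 5) (nat_lit 4) (nat_lit 4) (nat_lit 2) (nat_lit 4) (nat_lit 307) (nat_lit 239) (nat_lit 174)) (XT.lf (nat_lit 0) (nat_lit 57318380944) (nat_lit 152) (nat_lit 160514131533) (nat_lit 0) (nat_lit 34299297567) (nat_lit 2) (nat_lit 5) (nat_lit 4) (nat_lit 4) (nat_lit 2) (nat_lit 4) (nat_lit 308) (nat_lit 239) (nat_lit 173)))))) (XT.nd (nat_lit 390) (nat_lit 0) (nat_lit 0) (XT.nd (nat_lit 156) (nat_lit 0) (nat_lit 0) (XT.nd (nat_lit 78) (nat_lit 0) (nat_lit 0) (XT.lf (nat_lit 0) (nat_lit 69026276593) (nat_lit 152) (nat_lit 156823063184) (nat_lit 0) (nat_lit 45996515026) (nat_lit 2) (nat_lit 5) (nat_lit 4) (nat_lit 4) (nat_lit 2) (nat_lit 4) (nat_lit 309) (nat_lit 239) (nat_lit 172)) (XT.lf (nat_lit 0) (nat_lit 81662929423) (nat_lit 152) (nat_lit 152851213578) (nat_lit 0) (nat_lit 58623280643) (nat_lit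 2) (nat_lit 5) (nat_lit 4) (nat_lit 4) (nat_lit 2) (nat_lit 4) (nat_lit 310) (nat_lit 239) (nat_lit 171))) (XT.nd (nat_lit 78) (nat_lit 0) (nat_lit 0) (XT.lf (nat_lit 0) (nat_lit 95303223303) (nat_lit 152) (nat_lit 148575045828) (nat_lit 0) (nat_lit 72254419696) (nat_lit 2) (nat_lit 5) (nat_lit 4) (nat_lit 4) (nat_lit 2) (nat_lit 4) (nat_lit 311) (nat_lit 239) (nat_lit 170)) (XT.nd (nat_lit 78) (nat_lit 0) (nat_lit 0) (XT.lf (nat_lit 0) (nat_lit 110027989604) (nat_lit 152) (nat_lit 143969219680) (nat_lit 0) (nat_lit 86970709305) (nat_lit 2) (nat_lit 5) (nat_lit 4) (nat_lit 4) (nat_lit 2) (nat_lit 4) (nat_lit 312) (nat_lit 239) (nat_lit 169)) (XT.lf (nat_lit 0) (nat_lit 125924486201) (nat_lit 152) (nat_lit 139006441351) (nat_lit 0) (nat_lit 102859357113) (nat_lit 2) (nat_lit 5) (nat_lit 4) (nat_lit 4) (nat_lit 2) (nat_lit 4) (nat_lit 313) (nat_lit 239) (nat_lit 168))))) (XT.nd (nat_lit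 156) (nat_lit 0) (nat_lit 0) (XT.nd (nat_lit 78) (nat_lit 0) (nat_lit 0) (XT.lf (nat_lit 0) (nat_lit 143086914555) (nat_lit 152) (nat_lit 133657301783) (nat_lit 0) (nat_lit 120014518070) (nat_lit 2) (nat_lit 5) (nat_lit 4) (nat_lit 4) (nat_lit 2) (nat_lit 4) (nat_lit 314) (nat_lit 239) (nat_lit 167)) (XT.lf (nat_lit 0) (nat_lit 161616977944) (nat_lit 152) (nat_lit 127890102372) (nat_lit 0) (nat_lit 138537852388) (nat_lit 2) (nat_lit 5) (nat_lit 4) (nat_lit 4) (nat_lit 2) (nat_lit 4) (nat_lit 315) (nat_lit 239) (nat_lit 166))) (XT.nd (nat_lit 78) (nat_lit 0) (nat_lit 0) (XT.lf (nat_lit 0) (nat_lit 181624484152) (nat_lit 152) (nat_lit 121670667121) (nat_lit 0) (nat_lit 158539127975) (nat_lit 2) (nat_lit 5) (nat_lit 4) (nat_lit 4) (nat_lit 2) (nat_lit 4) (nat_lit 316) (nat_lit 239) (nat_lit 165)) (XT.nd (nat_lit 78) (nat_lit 0) (nat_lit 0) (XT.lf (nat_lit 0) (nat_lit 203227996179) (nat_lit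 152) (nat_lit 114962140117) (nat_lit 0) (nat_lit 180136870908) (nat_lit 2) (nat_lit 5) (nat_lit 4) (nat_lit 4) (nat_lit 2) (nat_lit 4) (nat_lit 317) (nat_lit 239) (nat_lit 164)) (XT.lf (nat_lit 0) (nat_lit 226555534837) (nat_lit 152) (nat_lit 107724767127) (nat_lit 0) (nat_lit 203459067812) (nat_lit 2) (nat_lit 5) (nat_lit 4) (nat_lit 4) (nat_lit 2) (nat_lit 4) (nat_lit 318) (nat_lit 239) (nat_lit 163))))))))
noncomputable def xc48 : XT := (XT.nd (nat_lit 32370) (nat_lit 0) (nat_lit 1368) (XT.nd (nat_lit 31668) (nat_lit 0) (nat_lit 5092) (XT.nd (nat_lit 312) (nat_lit 0) (nat_lit 0) (XT.nd (nat_lit 156) (nat_lit 0) (nat_lit 0) (XT.nd (nat_lit 78) (nat_lit 0) (nat_lit 0) (XT.lf (nat_lit 0) (nat_lit 251745337392) (nat_lit 152) (nat_lit 99915660014) (nat_lit 0) (nat_lit 228643924298) (nat_lit 2) (nat_lit 5) (nat_lit 4) (nat_lit 4) (nat_lit 2) (nat_lit 4) (nat_lit 319) (nat_lit 239) (nat_lit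 162)) (XT.lf (nat_lit 0) (nat_lit 278946676747) (nat_lit 152) (nat_lit 91488542588) (nat_lit 0) (nat_lit 255840683961) (nat_lit 2) (nat_lit 5) (nat_lit 4) (nat_lit 4) (nat_lit 2) (nat_lit 4) (nat_lit 320) (nat_lit 239) (nat_lit 161))) (XT.nd (nat_lit 78) (nat_lit 0) (nat_lit 0) (XT.lf (nat_lit 0) (nat_lit 308320746026) (nat_lit 152) (nat_lit 82393476374) (nat_lit 0) (nat_lit 285210512783) (nat_lit 2) (nat_lit 5) (nat_lit 4) (nat_lit 4) (nat_lit 2) (nat_lit 4) (nat_lit 321) (nat_lit 239) (nat_lit 160)) (XT.lf (nat_lit 0) (nat_lit 340041613786) (nat_lit 152) (nat_lit 72576564686) (nat_lit 0) (nat_lit 316927454195) (nat_lit 2) (nat_lit 5) (nat_lit 4) (nat_lit 4) (nat_lit 2) (nat_lit 4) (nat_lit 322) (nat_lit 239) (nat_lit 159)))) (XT.nd (nat_lit 31122) (nat_lit 0) (nat_lit 8664) (XT.nd (nat_lit 31044) (nat_lit 0) (nat_lit 9044) (XT.lf (nat_lit 0) (nat_lit 374297255540) (nat_lit 152) (nat_lit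 61979633230) (nat_lit 0) (nat_lit 351179460442) (nat_lit 2) (nat_lit 5) (nat_lit 4) (nat_lit 4) (nat_lit 2) (nat_lit 4) (nat_lit 323) (nat_lit 239) (nat_lit 158)) (XT.lf (nat_lit 0) (nat_lit 1073741823) (nat_lit 0) (nat_lit 0) (nat_lit 0) (nat_lit 0) (nat_lit 121) (nat_lit 0) (nat_lit 1) (nat_lit 0) (nat_lit 1) (nat_lit 0) (nat_lit 240) (nat_lit 240) (nat_lit 240))) (XT.nd (nat_lit 78) (nat_lit 304) (nat_lit 0) (XT.lf (nat_lit 0) (nat_lit 4433845728) (nat_lit 76) (nat_lit 1831063732) (nat_lit 0) (nat_lit 186600291) (nat_lit 120) (nat_lit 5) (nat_lit 121) (nat_lit 0) (nat_lit 120) (nat_lit 4) (nat_lit 241) (nat_lit 240) (nat_lit 239)) (XT.nd (nat_lit 78) (nat_lit 152) (nat_lit 0) (XT.lf (nat_lit 0) (nat_lit 2270605841) (nat_lit 152) (nat_lit 3525138125) (nat_lit 76) (nat_lit 686067847) (nat_lit 118) (nat_lit 5) (nat_lit 120) (nat_lit 5) (nat_lit 119) (nat_lit 4) (nat_lit 242) (nat_lit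 240) (nat_lit 238)) (XT.lf (nat_lit 0) (nat_lit 1435911716) (nat_lit 152) (nat_lit 5030976190) (nat_lit 228) (nat_lit 66591740) (nat_lit 116) (nat_lit 5) (nat_lit 118) (nat_lit 5) (nat_lit 119) (nat_lit 4) (nat_lit 243) (nat_lit 240) (nat_lit 237)))))) (XT.nd (nat_lit 312) (nat_lit 2432) (nat_lit 0) (XT.nd (nat_lit 156) (nat_lit 760) (nat_lit 0) (XT.nd (nat_lit 78) (nat_lit 76) (nat_lit 0) (XT.lf (nat_lit 0) (nat_lit 4150517) (nat_lit 228) (nat_lit 3925378032) (nat_lit 304) (nat_lit 2675352972) (nat_lit 112) (nat_lit 5) (nat_lit 115) (nat_lit 5) (nat_lit 116) (nat_lit 5) (nat_lit 244) (nat_lit 240) (nat_lit 236)) (XT.lf (nat_lit 0) (nat_lit 1217780777) (nat_lit 304) (nat_lit 1271343978) (nat_lit 76) (nat_lit 4208112324) (nat_lit 111) (nat_lit 5) (nat_lit 115) (nat_lit 5) (nat_lit 112) (nat_lit 5) (nat_lit 245) (nat_lit 240) (nat_lit 235))) (XT.nd (nat_lit 78) (nat_lit 456) (nat_lit 0)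 (XT.lf (nat_lit 0) (nat_lit 4334596489) (nat_lit 304) (nat_lit 707794232) (nat_lit 380) (nat_lit 1768421417) (nat_lit 107) (nat_lit 5) (nat_lit 111) (nat_lit 5) (nat_lit 112) (nat_lit 5) (nat_lit 246) (nat_lit 240) (nat_lit 234)) (XT.lf (nat_lit 0) (nat_lit 1925044378) (nat_lit 456) (nat_lit 3641084124) (nat_lit 76) (nat_lit 1379244693) (nat_lit 101) (nat_lit 5) (nat_lit 107) (nat_lit 5) (nat_lit 102) (nat_lit 5) (nat_lit 247) (nat_lit 240) (nat_lit 233)))) (XT.nd (nat_lit 156) (nat_lit 1368) (nat_lit 0) (XT.nd (nat_lit 78) (nat_lit 608) (nat_lit 0) (XT.lf (nat_lit 0) (nat_lit 2325590552) (nat_lit 456) (nat_lit 3302647161) (nat_lit 532) (nat_lit 1473599254) (nat_lit 95) (nat_lit 5) (nat_lit 101) (nat_lit 5) (nat_lit 102) (nat_lit 5) (nat_lit 248) (nat_lit 240) (nat_lit 232)) (XT.lf (nat_lit 0) (nat_lit 1384718844) (nat_lit 532) (nat_lit 679645455) (nat_lit 608) (nat_lit 5216699721) (nat_lit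 87) (nat_lit 5) (nat_lit 94) (nat_lit 5) (nat_lit 95) (nat_lit 5) (nat_lit 249) (nat_lit 240) (nat_lit 231))) (XT.nd (nat_lit 78) (nat_lit 760) (nat_lit 0) (XT.lf (nat_lit 0) (nat_lit 433982458) (nat_lit 608) (nat_lit 5241565543) (nat_lit 684) (nat_lit 1806924081) (nat_lit 79) (nat_lit 5) (nat_lit 87) (nat_lit 5) (nat_lit 88) (nat_lit 5) (nat_lit 250) (nat_lit 240) (nat_lit 230)) (XT.nd (nat_lit 78) (nat_lit 684) (nat_lit 0) (XT.lf (nat_lit 0) (nat_lit 1659386734) (nat_lit 684) (nat_lit 513479327) (nat_lit 76) (nat_lit 5534479674) (nat_lit 78) (nat_lit 5) (nat_lit 87) (nat_lit 5) (nat_lit 79) (nat_lit 5) (nat_lit 251) (nat_lit 240) (nat_lit 229)) (XT.lf (nat_lit 0) (nat_lit 5210032806) (nat_lit 760) (nat_lit 1494397226) (nat_lit 76) (nat_lit 1251713199) (nat_lit 69) (nat_lit 5) (nat_lit 79) (nat_lit 5) (nat_lit 70) (nat_lit 5) (nat_lit 252) (nat_lit 240) (nat_lit 228))))))) (XT.nd (nat_lit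 702) (nat_lit 1140) (nat_lit 0) (XT.nd (nat_lit 312) (nat_lit 1140) (nat_lit 0) (XT.nd (nat_lit 156) (nat_lit 684) (nat_lit 0) (XT.nd (nat_lit 78) (nat_lit 380) (nat_lit 0) (XT.lf (nat_lit 0) (nat_lit 689077726) (nat_lit 380) (nat_lit 2548447850) (nat_lit 76) (nat_lit 4992728992) (nat_lit 64) (nat_lit 5) (nat_lit 69) (nat_lit 5) (nat_lit 65) (nat_lit 5) (nat_lit 253) (nat_lit 240) (nat_lit 227)) (XT.lf (nat_lit 0) (nat_lit 4189009613) (nat_lit 456) (nat_lit 3711537600) (nat_lit 76) (nat_lit 629950604) (nat_lit 59) (nat_lit 5) (nat_lit 65) (nat_lit 5) (nat_lit 60) (nat_lit 5) (nat_lit 254) (nat_lit 240) (nat_lit 226))) (XT.nd (nat_lit 78) (nat_lit 380) (nat_lit 0) (XT.lf (nat_lit 0) (nat_lit 3842388478) (nat_lit 304) (nat_lit 4072116315) (nat_lit 380) (nat_lit 943681803) (nat_lit 55) (nat_lit 5) (nat_lit 59) (nat_lit 5) (nat_lit 60) (nat_lit 5) (nat_lit 255) (nat_lit 240) (nat_lit 225))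 (XT.lf (nat_lit 0) (nat_lit 2544245847) (nat_lit 380) (nat_lit 6486824445) (nat_lit 76) (nat_lit 184236248) (nat_lit 50) (nat_lit 5) (nat_lit 55) (nat_lit 5) (nat_lit 51) (nat_lit 5) (nat_lit 256) (nat_lit 240) (nat_lit 224)))) (XT.nd (nat_lit 156) (nat_lit 836) (nat_lit 0) (XT.nd (nat_lit 78) (nat_lit 76) (nat_lit 0) (XT.lf (nat_lit 0) (nat_lit 1397497141) (nat_lit 228) (nat_lit 4865798419) (nat_lit 304) (nat_lit 3338244757) (nat_lit 47) (nat_lit 5) (nat_lit 50) (nat_lit 5) (nat_lit 51) (nat_lit 5) (nat_lit 257) (nat_lit 240) (nat_lit 223)) (XT.lf (nat_lit 0) (nat_lit 180468271) (nat_lit 304) (nat_lit 107200596) (nat_lit 76) (nat_lit 9734925706) (nat_lit 46) (nat_lit 5) (nat_lit 50) (nat_lit 5) (nat_lit 47) (nat_lit 5) (nat_lit 258) (nat_lit 240) (nat_lit 222))) (XT.nd (nat_lit 78) (nat_lit 532) (nat_lit 0) (XT.lf (nat_lit 0) (nat_lit 3902055502) (nat_lit 380) (nat_lit 1909615818) (nat_lit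 76) (nat_lit 4661478623) (nat_lit 42) (nat_lit 5) (nat_lit 47) (nat_lit 5) (nat_lit 43) (nat_lit 5) (nat_lit 259) (nat_lit 240) (nat_lit 221)) (XT.nd (nat_lit 78) (nat_lit 304) (nat_lit 0) (XT.lf (nat_lit 0) (nat_lit 6976670943) (nat_lit 228) (nat_lit 895991787) (nat_lit 304) (nat_lit 3089957259) (nat_lit 39) (nat_lit 5) (nat_lit 42) (nat_lit 5) (nat_lit 43) (nat_lit 5) (nat_lit 260) (nat_lit 240) (nat_lit 220)) (XT.lf (nat_lit 0) (nat_lit 673367040) (nat_lit 304) (nat_lit 6469127875) (nat_lit 76) (nat_lit 4347356968) (nat_lit 35) (nat_lit 5) (nat_lit 39) (nat_lit 5) (nat_lit 36) (nat_lit 5) (nat_lit 261) (nat_lit 240) (nat_lit 219)))))) (XT.nd (nat_lit 312) (nat_lit 532) (nat_lit 0) (XT.nd (nat_lit 156) (nat_lit 456) (nat_lit 0) (XT.nd (nat_lit 78) (nat_lit 0) (nat_lit 0) (XT.lf (nat_lit 0) (nat_lit 2642631780) (nat_lit 152) (nat_lit 1964707111) (nat_lit 228) (nat_lit 7450853855) (nat_lit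 33) (nat_lit 5) (nat_lit 35) (nat_lit 5) (nat_lit 36) (nat_lit 5) (nat_lit 262) (nat_lit 240) (nat_lit 218)) (XT.lf (nat_lit 0) (nat_lit 8883811243) (nat_lit 228) (nat_lit 216109495) (nat_lit 76) (nat_lit 3571019797) (nat_lit 33) (nat_lit 5) (nat_lit 36) (nat_lit 5) (nat_lit 34) (nat_lit 5) (nat_lit 263) (nat_lit 240) (nat_lit 217))) (XT.nd (nat_lit 78) (nat_lit 152) (nat_lit 0) (XT.lf (nat_lit 0) (nat_lit 218367334) (nat_lit 304) (nat_lit 3524091051) (nat_lit 76) (nat_lit 9587701970) (nat_lit 29) (nat_lit 5) (nat_lit 33) (nat_lit 5) (nat_lit 30) (nat_lit 5) (nat_lit 264) (nat_lit 240) (nat_lit 216)) (XT.lf (nat_lit 0) (nat_lit 4425237410) (nat_lit 228) (nat_lit 7518983054) (nat_lit 76) (nat_lit 2094380744) (nat_lit 27) (nat_lit 5) (nat_lit 30) (nat_lit 5) (nat_lit 28) (nat_lit 5) (nat_lit 265) (nat_lit 240) (nat_lit 215)))) (XT.nd (nat_lit 156) (nat_lit 380) (nat_lit 0) (XT.nd (nat_lit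 78) (nat_lit 0) (nat_lit 0) (XT.lf (nat_lit 0) (nat_lit 2524794007) (nat_lit 152) (nat_lit 6486484478) (nat_lit 228) (nat_lit 5790556354) (nat_lit 25) (nat_lit 5) (nat_lit 27) (nat_lit 5) (nat_lit 28) (nat_lit 5) (nat_lit 266) (nat_lit 240) (nat_lit 214)) (XT.lf (nat_lit 0) (nat_lit 13464642401) (nat_lit 152) (nat_lit 514552329) (nat_lit 228) (nat_lit 1646413004) (nat_lit 25) (nat_lit 5) (nat_lit 27) (nat_lit 5) (nat_lit 28) (nat_lit 5) (nat_lit 267) (nat_lit 240) (nat_lit 213))) (XT.nd (nat_lit 78) (nat_lit 152) (nat_lit 0) (XT.lf (nat_lit 0) (nat_lit 2862062478) (nat_lit 228) (nat_lit 7770278317) (nat_lit 76) (nat_lit 5874768262) (nat_lit 22) (nat_lit 5) (nat_lit 25) (nat_lit 5) (nat_lit 23) (nat_lit 5) (nat_lit 268) (nat_lit 240) (nat_lit 212)) (XT.nd (nat_lit 78) (nat_lit 0) (nat_lit 0) (XT.lf (nat_lit 0) (nat_lit 3022061233) (nat_lit 152) (nat_lit 4641743965) (nat_lit 228) (nat_lit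 9794650130) (nat_lit 20) (nat_lit 5) (nat_lit 22) (nat_lit 5) (nat_lit 23) (nat_lit 5) (nat_lit 269) (nat_lit 240) (nat_lit 211)) (XT.lf (nat_lit 0) (nat_lit 12915585092) (nat_lit 228) (nat_lit 3715733788) (nat_lit 76) (nat_lit 1851469545) (nat_lit 20) (nat_lit 5) (nat_lit 23) (nat_lit 5) (nat_lit 21) (nat_lit 4) (nat_lit 270) (nat_lit 240) (nat_lit 210))))))))
noncomputable def xc49 : XT := (XT.nd (nat_lit 1404) (nat_lit 380) (nat_lit 0) (XT.nd (nat_lit 702) (nat_lit 304) (nat_lit 0) (XT.nd (nat_lit 312) (nat_lit 304) (nat_lit 0) (XT.nd (nat_lit 156) (nat_lit 228) (nat_lit 0) (XT.nd (nat_lit 78) (nat_lit 76) (nat_lit 0) (XT.lf (nat_lit 0) (nat_lit 7887602918) (nat_lit 76) (nat_lit 10808527586) (nat_lit 152) (nat_lit 887667633) (nat_lit 19) (nat_lit 5) (nat_lit 20) (nat_lit 5) (nat_lit 21) (nat_lit 4) (nat_lit 271) (nat_lit 240) (nat_lit 209)) (XT.lf (nat_lit 0) (nat_lit 4008936021) (nat_lit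 152) (nat_lit 429653266) (nat_lit 76) (nat_lit 16332386570) (nat_lit 18) (nat_lit 5) (nat_lit 20) (nat_lit 5) (nat_lit 19) (nat_lit 5) (nat_lit 272) (nat_lit 240) (nat_lit 208))) (XT.nd (nat_lit 78) (nat_lit 76) (nat_lit 0) (XT.lf (nat_lit 0) (nat_lit 9411011526) (nat_lit 228) (nat_lit 10116513196) (nat_lit 76) (nat_lit 2517764880) (nat_lit 16) (nat_lit 5) (nat_lit 19) (nat_lit 5) (nat_lit 17) (nat_lit 4) (nat_lit 273) (nat_lit 240) (nat_lit 207)) (XT.lf (nat_lit 0) (nat_lit 1717651121) (nat_lit 76) (nat_lit 13557135344) (nat_lit 152) (nat_lit 8145407126) (nat_lit 15) (nat_lit 5) (nat_lit 16) (nat_lit 5) (nat_lit 17) (nat_lit 4) (nat_lit 274) (nat_lit 240) (nat_lit 206)))) (XT.nd (nat_lit 156) (nat_lit 76) (nat_lit 0) (XT.nd (nat_lit 78) (nat_lit 228) (nat_lit 0) (XT.lf (nat_lit 0) (nat_lit 14733152275) (nat_lit 76) (nat_lit 6974929381) (nat_lit 152) (nat_lit 3192100120) (nat_lit 15)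 (nat_lit 5) (nat_lit 16) (nat_lit 5) (nat_lit 17) (nat_lit 4) (nat_lit 275) (nat_lit 240) (nat_lit 205)) (XT.lf (nat_lit 0) (nat_lit 2053913136) (nat_lit 228) (nat_lit 24292689992) (nat_lit 76) (nat_lit 152106431) (nat_lit 12) (nat_lit 5) (nat_lit 15) (nat_lit 5) (nat_lit 13) (nat_lit 4) (nat_lit 276) (nat_lit 240) (nat_lit 204))) (XT.nd (nat_lit 78) (nat_lit 76) (nat_lit 0) (XT.lf (nat_lit 0) (nat_lit 7838218357) (nat_lit 228) (nat_lit 12575920194) (nat_lit 76) (nat_lit 7796934305) (nat_lit 12) (nat_lit 5) (nat_lit 15) (nat_lit 5) (nat_lit 13) (nat_lit 4) (nat_lit 277) (nat_lit 240) (nat_lit 203)) (XT.nd (nat_lit 78) (nat_lit 76) (nat_lit 0) (XT.lf (nat_lit 0) (nat_lit 14021689235) (nat_lit 228) (nat_lit 30412214) (nat_lit 76) (nat_lit 16011587979) (nat_lit 12) (nat_lit 5) (nat_lit 15) (nat_lit 5) (nat_lit 13) (nat_lit 4) (nat_lit 278) (nat_lit 240) (nat_lit 202)) (XT.lf (nat_lit 0)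 (nat_lit 13861843251) (nat_lit 76) (nat_lit 6995547530) (nat_lit 152) (nat_lit 11199325853) (nat_lit 11) (nat_lit 5) (nat_lit 12) (nat_lit 5) (nat_lit 13) (nat_lit 4) (nat_lit 279) (nat_lit 240) (nat_lit 201)))))) (XT.nd (nat_lit 312) (nat_lit 152) (nat_lit 0) (XT.nd (nat_lit 156) (nat_lit 76) (nat_lit 0) (XT.nd (nat_lit 78) (nat_lit 76) (nat_lit 0) (XT.lf (nat_lit 0) (nat_lit 28193615577) (nat_lit 152) (nat_lit 5450804210) (nat_lit 0) (nat_lit 567155980) (nat_lit 11) (nat_lit 5) (nat_lit 13) (nat_lit 4) (nat_lit 11) (nat_lit 4) (nat_lit 280) (nat_lit 240) (nat_lit 200)) (XT.lf (nat_lit 0) (nat_lit 8371633952) (nat_lit 76) (nat_lit 27941324553) (nat_lit 76) (nat_lit 216121812) (nat_lit 10) (nat_lit 4) (nat_lit 11) (nat_lit 5) (nat_lit 11) (nat_lit 4) (nat_lit 281) (nat_lit 240) (nat_lit 199))) (XT.nd (nat_lit 78) (nat_lit 0) (nat_lit 0) (XT.lf (nat_lit 0) (nat_lit 5901938465) (nat_lit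 152) (nat_lit 15717657723) (nat_lit 76) (nat_lit 17405440556) (nat_lit 9) (nat_lit 5) (nat_lit 11) (nat_lit 5) (nat_lit 10) (nat_lit 4) (nat_lit 282) (nat_lit 240) (nat_lit 198)) (XT.lf (nat_lit 0) (nat_lit 12454937943) (nat_lit 152) (nat_lit 2368665124) (nat_lit 76) (nat_lit 26899291431) (nat_lit 9) (nat_lit 5) (nat_lit 11) (nat_lit 5) (nat_lit 10) (nat_lit 4) (nat_lit 283) (nat_lit 240) (nat_lit 197)))) (XT.nd (nat_lit 156) (nat_lit 76) (nat_lit 0) (XT.nd (nat_lit 78) (nat_lit 0) (nat_lit 0) (XT.lf (nat_lit 0) (nat_lit 12367859585) (nat_lit 76) (nat_lit 7313863822) (nat_lit 152) (nat_lit 24947431342) (nat_lit 8) (nat_lit 5) (nat_lit 9) (nat_lit 5) (nat_lit 10) (nat_lit 4) (nat_lit 284) (nat_lit 240) (nat_lit 196)) (XT.lf (nat_lit 0) (nat_lit 27499072112) (nat_lit 152) (nat_lit 19485628970) (nat_lit 0) (nat_lit 782641103) (nat_lit 8) (nat_lit 5) (nat_lit 10) (nat_lit 4) (nat_lit 8) (nat_lit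 4) (nat_lit 285) (nat_lit 240) (nat_lit 195))) (XT.nd (nat_lit 78) (nat_lit 76) (nat_lit 0) (XT.lf (nat_lit 0) (nat_lit 36026286940) (nat_lit 152) (nat_lit 5880264498) (nat_lit 0) (nat_lit 9245853145) (nat_lit 8) (nat_lit 5) (nat_lit 10) (nat_lit 4) (nat_lit 8) (nat_lit 4) (nat_lit 286) (nat_lit 240) (nat_lit 194)) (XT.nd (nat_lit 78) (nat_lit 0) (nat_lit 0) (XT.lf (nat_lit 0) (nat_lit 9038914250) (nat_lit 76) (nat_lit 36301918155) (nat_lit 76) (nat_lit 9462222522) (nat_lit 7) (nat_lit 4) (nat_lit 8) (nat_lit 5) (nat_lit 8) (nat_lit 4) (nat_lit 287) (nat_lit 240) (nat_lit 193)) (XT.lf (nat_lit 0) (nat_lit 25300470798) (nat_lit 76) (nat_lit 30168241638) (nat_lit 76) (nat_lit 3273673932) (nat_lit 7) (nat_lit 4) (nat_lit 8) (nat_lit 5) (nat_lit 8) (nat_lit 4) (nat_lit 288) (nat_lit 240) (nat_lit 192))))))) (XT.nd (nat_lit 702) (nat_lit 152) (nat_lit 0) (XT.nd (nat_lit 312) (nat_lit 76) (nat_lit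 0) (XT.nd (nat_lit 156) (nat_lit 76) (nat_lit 0) (XT.nd (nat_lit 78) (nat_lit 0) (nat_lit 0) (XT.lf (nat_lit 0) (nat_lit 3268543084) (nat_lit 152) (nat_lit 20244861856) (nat_lit 76) (nat_lit 39482444380) (nat_lit 6) (nat_lit 5) (nat_lit 8) (nat_lit 5) (nat_lit 7) (nat_lit 4) (nat_lit 289) (nat_lit 240) (nat_lit 191)) (XT.lf (nat_lit 0) (nat_lit 10191092498) (nat_lit 152) (nat_lit 6100679515) (nat_lit 76) (nat_lit 51296582241) (nat_lit 6) (nat_lit 5) (nat_lit 8) (nat_lit 5) (nat_lit 7) (nat_lit 4) (nat_lit 290) (nat_lit 240) (nat_lit 190))) (XT.nd (nat_lit 78) (nat_lit 0) (nat_lit 0) (XT.lf (nat_lit 0) (nat_lit 9427292282) (nat_lit 76) (nat_lit 8359669005) (nat_lit 152) (nat_lit 54755350964) (nat_lit 5) (nat_lit 5) (nat_lit 6) (nat_lit 5) (nat_lit 7) (nat_lit 4) (nat_lit 291) (nat_lit 240) (nat_lit 189)) (XT.lf (nat_lit 0) (nat_lit 26075055910) (nat_lit 152) (nat_lit 51525236413) (nat_lit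 0) (nat_lit 288093081) (nat_lit 5) (nat_lit 5) (nat_lit 7) (nat_lit 4) (nat_lit 5) (nat_lit 4) (nat_lit 292) (nat_lit 240) (nat_lit 188)))) (XT.nd (nat_lit 156) (nat_lit 76) (nat_lit 0) (XT.nd (nat_lit 78) (nat_lit 0) (nat_lit 0) (XT.lf (nat_lit 0) (nat_lit 35142446664) (nat_lit 152) (nat_lit 39193992541) (nat_lit 0) (nat_lit 9319917159) (nat_lit 5) (nat_lit 5) (nat_lit 7) (nat_lit 4) (nat_lit 5) (nat_lit 4) (nat_lit 293) (nat_lit 240) (nat_lit 187)) (XT.lf (nat_lit 0) (nat_lit 44912348375) (nat_lit 152) (nat_lit 25917696455) (nat_lit 0) (nat_lit 19056886762) (nat_lit 5) (nat_lit 5) (nat_lit 7) (nat_lit 4) (nat_lit 5) (nat_lit 4) (nat_lit 294) (nat_lit 240) (nat_lit 186))) (XT.nd (nat_lit 78) (nat_lit 76) (nat_lit 0) (XT.lf (nat_lit 0) (nat_lit 55442656757) (nat_lit 152) (nat_lit 11617673808) (nat_lit 0) (nat_lit 29556702451) (nat_lit 5) (nat_lit 5) (nat_lit 7) (nat_lit 4) (nat_lit 5)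 (nat_lit 4) (nat_lit 295) (nat_lit 240) (nat_lit 185)) (XT.nd (nat_lit 78) (nat_lit 0) (nat_lit 0) (XT.lf (nat_lit 0) (nat_lit 3916157780) (nat_lit 76) (nat_lit 62940758054) (nat_lit 76) (nat_lit 37026569774) (nat_lit 4) (nat_lit 4) (nat_lit 5) (nat_lit 5) (nat_lit 5) (nat_lit 4) (nat_lit 296) (nat_lit 240) (nat_lit 184)) (XT.lf (nat_lit 0) (nat_lit 21073569185) (nat_lit 76) (nat_lit 58294425033) (nat_lit 76) (nat_lit 32354094183) (nat_lit 4) (nat_lit 4) (nat_lit 5) (nat_lit 5) (nat_lit 5) (nat_lit 4) (nat_lit 297) (nat_lit 240) (nat_lit 183)))))) (XT.nd (nat_lit 390) (nat_lit 152) (nat_lit 0) (XT.nd (nat_lit 156) (nat_lit 0) (nat_lit 0) (XT.nd (nat_lit 78) (nat_lit 0) (nat_lit 0) (XT.lf (nat_lit 0) (nat_lit 39572101192) (nat_lit 76) (nat_lit 53290548602) (nat_lit 76) (nat_lit 27326011670) (nat_lit 4) (nat_lit 4) (nat_lit 5) (nat_lit 5) (nat_lit 5) (nat_lit 4) (nat_lit 298) (nat_lit 240)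 (nat_lit 182)) (XT.lf (nat_lit 0) (nat_lit 59521374732) (nat_lit 76) (nat_lit 47899476162) (nat_lit 76) (nat_lit 21912526190) (nat_lit 4) (nat_lit 4) (nat_lit 5) (nat_lit 5) (nat_lit 5) (nat_lit 4) (nat_lit 299) (nat_lit 240) (nat_lit 181))) (XT.nd (nat_lit 78) (nat_lit 0) (nat_lit 0) (XT.lf (nat_lit 0) (nat_lit 81039607722) (nat_lit 76) (nat_lit 42089260616) (nat_lit 76) (nat_lit 16081557830) (nat_lit 4) (nat_lit 4) (nat_lit 5) (nat_lit 5) (nat_lit 5) (nat_lit 4) (nat_lit 300) (nat_lit 240) (nat_lit 180)) (XT.nd (nat_lit 78) (nat_lit 0) (nat_lit 0) (XT.lf (nat_lit 0) (nat_lit 104254315616) (nat_lit 76) (nat_lit 35825471058) (nat_lit 76) (nat_lit 9798552703) (nat_lit 4) (nat_lit 4) (nat_lit 5) (nat_lit 5) (nat_lit 5) (nat_lit 4) (nat_lit 301) (nat_lit 240) (nat_lit 179)) (XT.lf (nat_lit 0) (nat_lit 129303067055) (nat_lit 76) (nat_lit 29070988734) (nat_lit 76) (nat_lit 3026278186) (nat_lit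 4) (nat_lit 4) (nat_lit 5) (nat_lit 5) (nat_lit 5) (nat_lit 4) (nat_lit 302) (nat_lit 240) (nat_lit 178))))) (XT.nd (nat_lit 156) (nat_lit 76) (nat_lit 0) (XT.nd (nat_lit 78) (nat_lit 0) (nat_lit 0) (XT.lf (nat_lit 0) (nat_lit 4138558291) (nat_lit 152) (nat_lit 17577140304) (nat_lit 76) (nat_lit 152125652305) (nat_lit 3) (nat_lit 5) (nat_lit 5) (nat_lit 5) (nat_lit 4) (nat_lit 4) (nat_lit 303) (nat_lit 240) (nat_lit 177)) (XT.lf (nat_lit 0) (nat_lit 11760876509) (nat_lit 152) (nat_lit 1966641895) (nat_lit 76) (nat_lit 173548144135) (nat_lit 3) (nat_lit 5) (nat_lit 5) (nat_lit 5) (nat_lit 4) (nat_lit 4) (nat_lit 304) (nat_lit 240) (nat_lit 176))) (XT.nd (nat_lit 78) (nat_lit 0) (nat_lit 0) (XT.lf (nat_lit 0) (nat_lit 15365784722) (nat_lit 76) (nat_lit 4856823803) (nat_lit 152) (nat_lit 181550638389) (nat_lit 2) (nat_lit 5) (nat_lit 3) (nat_lit 5) (nat_lit 4) (nat_lit 4) (nat_lit 305) (nat_lit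 240) (nat_lit 175)) (XT.nd (nat_lit 78) (nat_lit 0) (nat_lit 0) (XT.lf (nat_lit 0) (nat_lit 29459926256) (nat_lit 152) (nat_lit 183366471754) (nat_lit 0) (nat_lit 4599316209) (nat_lit 2) (nat_lit 5) (nat_lit 4) (nat_lit 4) (nat_lit 2) (nat_lit 4) (nat_lit 306) (nat_lit 240) (nat_lit 174)) (XT.lf (nat_lit 0) (nat_lit 39508939544) (nat_lit 152) (nat_lit 180181014713) (nat_lit 0) (nat_lit 14636797051) (nat_lit 2) (nat_lit 5) (nat_lit 4) (nat_lit 4) (nat_lit 2) (nat_lit 4) (nat_lit 307) (nat_lit 240) (nat_lit 173))))))))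
noncomputable def xc50 : XT := (XT.nd (nat_lit 32448) (nat_lit 0) (nat_lit 2812) (XT.nd (nat_lit 702) (nat_lit 0) (nat_lit 0) (XT.nd (nat_lit 312) (nat_lit 0) (nat_lit 0) (XT.nd (nat_lit 156) (nat_lit 0) (nat_lit 0) (XT.nd (nat_lit 78) (nat_lit 0) (nat_lit 0) (XT.lf (nat_lit 0) (nat_lit 50353369466) (nat_lit 152) (nat_lit 176756385657) (nat_lit 0) (nat_lit 25470548784) (nat_lit 2) (nat_lit 5) (nat_lit 4) (nat_lit 4) (nat_lit 2) (nat_lit 4) (nat_lit 308) (nat_lit 240) (nat_lit 172)) (XT.lf (nat_lit 0) (nat_lit 62057479312) (nat_lit 152) (nat_lit 173072290486) (nat_lit 0) (nat_lit 37164771416) (nat_lit 2) (nat_lit 5) (nat_lit 4) (nat_lit 4) (nat_lit 2) (nat_lit 4) (nat_lit 309) (nat_lit 240) (nat_lit 171))) (XT.nd (nat_lit 78) (nat_lit 0) (nat_lit 0) (XT.lf (nat_lit 0) (nat_lit 74690626769) (nat_lit 152) (nat_lit 169106897526) (nat_lit 0) (nat_lit 49788764046) (nat_lit 2) (nat_lit 5) (nat_lit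 4) (nat_lit 4) (nat_lit 2) (nat_lit 4) (nat_lit 310) (nat_lit 240) (nat_lit 170)) (XT.lf (nat_lit 0) (nat_lit 88327674933) (nat_lit 152) (nat_lit 164836708152) (nat_lit 0) (nat_lit 63417335518) (nat_lit 2) (nat_lit 5) (nat_lit 4) (nat_lit 4) (nat_lit 2) (nat_lit 4) (nat_lit 311) (nat_lit 240) (nat_lit 169)))) (XT.nd (nat_lit 156) (nat_lit 0) (nat_lit 0) (XT.nd (nat_lit 78) (nat_lit 0) (nat_lit 0) (XT.lf (nat_lit 0) (nat_lit 103049435942) (nat_lit 152) (nat_lit 160236417539) (nat_lit 0) (nat_lit 78131247738) (nat_lit 2) (nat_lit 5) (nat_lit 4) (nat_lit 4) (nat_lit 2) (nat_lit 4) (nat_lit 312) (nat_lit 240) (nat_lit 168)) (XT.lf (nat_lit 0) (nat_lit 118943149860) (nat_lit 152) (nat_lit 155278764704) (nat_lit 0) (nat_lit 94017694260) (nat_lit 2) (nat_lit 5) (nat_lit 4) (nat_lit 4) (nat_lit 2) (nat_lit 4) (nat_lit 313) (nat_lit 240) (nat_lit 167))) (XT.nd (nat_lit 78) (nat_lit 0) (nat_lit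 0) (XT.lf (nat_lit 0) (nat_lit 136103001660) (nat_lit 152) (nat_lit 149934370964) (nat_lit 0) (nat_lit 111170816988) (nat_lit 2) (nat_lit 5) (nat_lit 4) (nat_lit 4) (nat_lit 2) (nat_lit 4) (nat_lit 314) (nat_lit 240) (nat_lit 166)) (XT.nd (nat_lit 78) (nat_lit 0) (nat_lit 0) (XT.lf (nat_lit 0) (nat_lit 154630679351) (nat_lit 152) (nat_lit 144171565838) (nat_lit 0) (nat_lit 129692264058) (nat_lit 2) (nat_lit 5) (nat_lit 4) (nat_lit 4) (nat_lit 2) (nat_lit 4) (nat_lit 315) (nat_lit 240) (nat_lit 165)) (XT.lf (nat_lit 0) (nat_lit 174635976579) (nat_lit 152) (nat_lit 137956199369) (nat_lit 0) (nat_lit 149691792192) (nat_lit 2) (nat_lit 5) (nat_lit 4) (nat_lit 4) (nat_lit 2) (nat_lit 4) (nat_lit 316) (nat_lit 240) (nat_lit 164)))))) (XT.nd (nat_lit 312) (nat_lit 0) (nat_lit 0) (XT.nd (nat_lit 156) (nat_lit 0) (nat_lit 0) (XT.nd (nat_lit 78) (nat_lit 0) (nat_lit 0) (XT.lf (nat_lit 0) (nat_lit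 196237443255) (nat_lit 152) (nat_lit 131251439757) (nat_lit 0) (nat_lit 171287917114) (nat_lit 2) (nat_lit 5) (nat_lit 4) (nat_lit 4) (nat_lit 2) (nat_lit 4) (nat_lit 317) (nat_lit 240) (nat_lit 163)) (XT.lf (nat_lit 0) (nat_lit 219563088069) (nat_lit 152) (nat_lit 124017555092) (nat_lit 0) (nat_lit 194608615859) (nat_lit 2) (nat_lit 5) (nat_lit 4) (nat_lit 4) (nat_lit 2) (nat_lit 4) (nat_lit 318) (nat_lit 240) (nat_lit 162))) (XT.nd (nat_lit 78) (nat_lit 0) (nat_lit 0) (XT.lf (nat_lit 0) (nat_lit 244751137064) (nat_lit 152) (nat_lit 116211677909) (nat_lit 0) (nat_lit 219792085162) (nat_lit 2) (nat_lit 5) (nat_lit 4) (nat_lit 4) (nat_lit 2) (nat_lit 4) (nat_lit 319) (nat_lit 240) (nat_lit 161)) (XT.lf (nat_lit 0) (nat_lit 271950852753) (nat_lit 152) (nat_lit 107787551159) (nat_lit 0) (nat_lit 246987560395) (nat_lit 2) (nat_lit 5) (nat_lit 4) (nat_lit 4) (nat_lit 2) (nat_lit 4) (nat_lit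 320) (nat_lit 240) (nat_lit 160)))) (XT.nd (nat_lit 156) (nat_lit 0) (nat_lit 0) (XT.nd (nat_lit 78) (nat_lit 0) (nat_lit 0) (XT.lf (nat_lit 0) (nat_lit 301323418637) (nat_lit 152) (nat_lit 98695254091) (nat_lit 0) (nat_lit 276356199931) (nat_lit 2) (nat_lit 5) (nat_lit 4) (nat_lit 4) (nat_lit 2) (nat_lit 4) (nat_lit 321) (nat_lit 240) (nat_lit 159)) (XT.lf (nat_lit 0) (nat_lit 333042894365) (nat_lit 152) (nat_lit 88880906426) (nat_lit 0) (nat_lit 308072040151) (nat_lit 2) (nat_lit 5) (nat_lit 4) (nat_lit 4) (nat_lit 2) (nat_lit 4) (nat_lit 322) (nat_lit 240) (nat_lit 158))) (XT.nd (nat_lit 31122) (nat_lit 0) (nat_lit 8740) (XT.lf (nat_lit 0) (nat_lit 367297247201) (nat_lit 152) (nat_lit 78286349066) (nat_lit 0) (nat_lit 342323026776) (nat_lit 2) (nat_lit 5) (nat_lit 4) (nat_lit 4) (nat_lit 2) (nat_lit 4) (nat_lit 323) (nat_lit 240) (nat_lit 157)) (XT.nd (nat_lit 78) (nat_lit 0) (nat_lit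 0) (XT.lf (nat_lit 0) (nat_lit 1053044985) (nat_lit 228) (nat_lit 1091258354) (nat_lit 228) (nat_lit 1091258354) (nat_lit 117) (nat_lit 3) (nat_lit 120) (nat_lit 3) (nat_lit 120) (nat_lit 5) (nat_lit 241) (nat_lit 241) (nat_lit 238)) (XT.lf (nat_lit 76) (nat_lit 2459513633) (nat_lit 0) (nat_lit 3652585041) (nat_lit 228) (nat_lit 399778861) (nat_lit 118) (nat_lit 5) (nat_lit 117) (nat_lit 3) (nat_lit 120) (nat_lit 5) (nat_lit 242) (nat_lit 241) (nat_lit 237))))))) (XT.nd (nat_lit 702) (nat_lit 2964) (nat_lit 0) (XT.nd (nat_lit 312) (nat_lit 2128) (nat_lit 0) (XT.nd (nat_lit 156) (nat_lit 304) (nat_lit 0) (XT.nd (nat_lit 78) (nat_lit 304) (nat_lit 0) (XT.lf (nat_lit 76) (nat_lit 731841601) (nat_lit 0) (nat_lit 2676266022) (nat_lit 304) (nat_lit 3164365785) (nat_lit 115) (nat_lit 5) (nat_lit 114) (nat_lit 5) (nat_lit 118) (nat_lit 5) (nat_lit 243) (nat_lit 241) (nat_lit 236)) (XT.lf (nat_lit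 0) (nat_lit 530909433) (nat_lit 304) (nat_lit 844055542) (nat_lit 380) (nat_lit 5279309926) (nat_lit 110) (nat_lit 5) (nat_lit 114) (nat_lit 5) (nat_lit 115) (nat_lit 5) (nat_lit 244) (nat_lit 241) (nat_lit 235))) (XT.nd (nat_lit 78) (nat_lit 380) (nat_lit 0) (XT.lf (nat_lit 0) (nat_lit 4132355637) (nat_lit 304) (nat_lit 2334640931) (nat_lit 76) (nat_lit 288671367) (nat_lit 111) (nat_lit 5) (nat_lit 115) (nat_lit 5) (nat_lit 112) (nat_lit 5) (nat_lit 245) (nat_lit 241) (nat_lit 234)) (XT.lf (nat_lit 0) (nat_lit 872264671) (nat_lit 380) (nat_lit 3768724970) (nat_lit 76) (nat_lit 2237162169) (nat_lit 106) (nat_lit 5) (nat_lit 111) (nat_lit 5) (nat_lit 107) (nat_lit 5) (nat_lit 246) (nat_lit 241) (nat_lit 233)))) (XT.nd (nat_lit 156) (nat_lit 1216) (nat_lit 0) (XT.nd (nat_lit 78) (nat_lit 532) (nat_lit 0) (XT.lf (nat_lit 0) (nat_lit 1850944419) (nat_lit 380) (nat_lit 2461761110) (nat_lit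 456) (nat_lit 2709120035) (nat_lit 101) (nat_lit 5) (nat_lit 106) (nat_lit 5) (nat_lit 107) (nat_lit 5) (nat_lit 247) (nat_lit 241) (nat_lit 232)) (XT.lf (nat_lit 0) (nat_lit 601539904) (nat_lit 532) (nat_lit 6530539023) (nat_lit 76) (nat_lit 56612157) (nat_lit 94) (nat_lit 5) (nat_lit 101) (nat_lit 5) (nat_lit 95) (nat_lit 5) (nat_lit 248) (nat_lit 241) (nat_lit 231))) (XT.nd (nat_lit 78) (nat_lit 1216) (nat_lit 0) (XT.lf (nat_lit 0) (nat_lit 3935768573) (nat_lit 532) (nat_lit 549853725) (nat_lit 76) (nat_lit 2889522692) (nat_lit 94) (nat_lit 5) (nat_lit 101) (nat_lit 5) (nat_lit 95) (nat_lit 5) (nat_lit 249) (nat_lit 241) (nat_lit 230)) (XT.nd (nat_lit 78) (nat_lit 684) (nat_lit 0) (XT.lf (nat_lit 0) (nat_lit 5879941562) (nat_lit 532) (nat_lit 1488690394) (nat_lit 608) (nat_lit 217345148) (nat_lit 87) (nat_lit 5) (nat_lit 94) (nat_lit 5) (nat_lit 95) (nat_lit 5) (nat_lit 250) (nat_lit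 241) (nat_lit 229)) (XT.lf (nat_lit 0) (nat_lit 3025765338) (nat_lit 684) (nat_lit 2930533642) (nat_lit 76) (nat_lit 1862375085) (nat_lit 78) (nat_lit 5) (nat_lit 87) (nat_lit 5) (nat_lit 79) (nat_lit 5) (nat_lit 251) (nat_lit 241) (nat_lit 228)))))) (XT.nd (nat_lit 390) (nat_lit 1140) (nat_lit 0) (XT.nd (nat_lit 156) (nat_lit 760) (nat_lit 0) (XT.nd (nat_lit 78) (nat_lit 380) (nat_lit 0) (XT.lf (nat_lit 0) (nat_lit 3876330510) (nat_lit 684) (nat_lit 2527053344) (nat_lit 760) (nat_lit 1673153904) (nat_lit 69) (nat_lit 5) (nat_lit 78) (nat_lit 5) (nat_lit 79) (nat_lit 5) (nat_lit 252) (nat_lit 241) (nat_lit 227)) (XT.lf (nat_lit 0) (nat_lit 1534664699) (nat_lit 380) (nat_lit 5557640785) (nat_lit 76) (nat_lit 1267523231) (nat_lit 64) (nat_lit 5) (nat_lit 69) (nat_lit 5) (nat_lit 65) (nat_lit 5) (nat_lit 253) (nat_lit 241) (nat_lit 226))) (XT.nd (nat_lit 78) (nat_lit 380) (nat_lit 0) (XT.lf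 (nat_lit 0) (nat_lit 1611167580) (nat_lit 380) (nat_lit 3261893096) (nat_lit 456) (nat_lit 3795426789) (nat_lit 59) (nat_lit 5) (nat_lit 64) (nat_lit 5) (nat_lit 65) (nat_lit 5) (nat_lit 254) (nat_lit 241) (nat_lit 225)) (XT.nd (nat_lit 78) (nat_lit 76) (nat_lit 0) (XT.lf (nat_lit 0) (nat_lit 328451472) (nat_lit 304) (nat_lit 8068992230) (nat_lit 380) (nat_lit 609101763) (nat_lit 55) (nat_lit 5) (nat_lit 59) (nat_lit 5) (nat_lit 60) (nat_lit 5) (nat_lit 255) (nat_lit 241) (nat_lit 224)) (XT.lf (nat_lit 0) (nat_lit 2730889876) (nat_lit 380) (nat_lit 1128632005) (nat_lit 76) (nat_lit 5511020268) (nat_lit 54) (nat_lit 5) (nat_lit 59) (nat_lit 5) (nat_lit 55) (nat_lit 5) (nat_lit 256) (nat_lit 241) (nat_lit 223))))) (XT.nd (nat_lit 156) (nat_lit 608) (nat_lit 0) (XT.nd (nat_lit 78) (nat_lit 228) (nat_lit 0) (XT.lf (nat_lit 0) (nat_lit 6262742657) (nat_lit 380) (nat_lit 2742315643) (nat_lit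 76) (nat_lit 761333543) (nat_lit 50) (nat_lit 5) (nat_lit 55) (nat_lit 5) (nat_lit 51) (nat_lit 5) (nat_lit 257) (nat_lit 241) (nat_lit 222)) (XT.lf (nat_lit 0) (nat_lit 5587467122) (nat_lit 228) (nat_lit 4495153694) (nat_lit 304) (nat_lit 111508011) (nat_lit 47) (nat_lit 5) (nat_lit 50) (nat_lit 5) (nat_lit 51) (nat_lit 5) (nat_lit 258) (nat_lit 241) (nat_lit 221))) (XT.nd (nat_lit 78) (nat_lit 228) (nat_lit 0) (XT.lf (nat_lit 0) (nat_lit 3395166573) (nat_lit 380) (nat_lit 6767200716) (nat_lit 76) (nat_lit 493537121) (nat_lit 42) (nat_lit 5) (nat_lit 47) (nat_lit 5) (nat_lit 43) (nat_lit 5) (nat_lit 259) (nat_lit 241) (nat_lit 220)) (XT.nd (nat_lit 78) (nat_lit 0) (nat_lit 0) (XT.lf (nat_lit 0) (nat_lit 1860130618) (nat_lit 228) (nat_lit 5352584361) (nat_lit 304) (nat_lit 3940506016) (nat_lit 39) (nat_lit 5) (nat_lit 42) (nat_lit 5) (nat_lit 43) (nat_lit 5) (nat_lit 260) (nat_lit 241)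 (nat_lit 219)) (XT.lf (nat_lit 0) (nat_lit 11229904125) (nat_lit 228) (nat_lit 79756172) (nat_lit 304) (nat_lit 382335813) (nat_lit 39) (nat_lit 5) (nat_lit 42) (nat_lit 5) (nat_lit 43) (nat_lit 5) (nat_lit 261) (nat_lit 241) (nat_lit 218))))))))
noncomputable def xc51 : XT := (XT.nd (nat_lit 1404) (nat_lit 532) (nat_lit 0) (XT.nd (nat_lit 702) (nat_lit 684) (nat_lit 0) (XT.nd (nat_lit 312) (nat_lit 684) (nat_lit 0) (XT.nd (nat_lit 156) (nat_lit 304) (nat_lit 0) (XT.nd (nat_lit 78) (nat_lit 152) (nat_lit 0) (XT.lf (nat_lit 0) (nat_lit 3446777015) (nat_lit 304) (nat_lit 3227851014) (nat_lit 76) (nat_lit 5592020291) (nat_lit 35) (nat_lit 5) (nat_lit 39) (nat_lit 5) (nat_lit 36) (nat_lit 5) (nat_lit 262) (nat_lit 241) (nat_lit 217)) (XT.lf (nat_lit 0) (nat_lit 6449496238) (nat_lit 152) (nat_lit 1100658036) (nat_lit 228) (nat_lit 5338042958) (nat_lit 33) (nat_lit 5) (nat_lit 35) (nat_lit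 5) (nat_lit 36) (nat_lit 5) (nat_lit 263) (nat_lit 241) (nat_lit 216))) (XT.nd (nat_lit 78) (nat_lit 76) (nat_lit 0) (XT.lf (nat_lit 0) (nat_lit 3311632304) (nat_lit 228) (nat_lit 8732895537) (nat_lit 304) (nat_lit 1512087796) (nat_lit 30) (nat_lit 5) (nat_lit 33) (nat_lit 5) (nat_lit 34) (nat_lit 5) (nat_lit 264) (nat_lit 241) (nat_lit 215)) (XT.lf (nat_lit 0) (nat_lit 2550027057) (nat_lit 304) (nat_lit 435069795) (nat_lit 76) (nat_lit 11290917118) (nat_lit 29) (nat_lit 5) (nat_lit 33) (nat_lit 5) (nat_lit 30) (nat_lit 5) (nat_lit 265) (nat_lit 241) (nat_lit 214)))) (XT.nd (nat_lit 156) (nat_lit 380) (nat_lit 0) (XT.nd (nat_lit 78) (nat_lit 152) (nat_lit 0) (XT.lf (nat_lit 0) (nat_lit 6988470056) (nat_lit 228) (nat_lit 4798006538) (nat_lit 76) (nat_lit 3260261568) (nat_lit 27) (nat_lit 5) (nat_lit 30) (nat_lit 5) (nat_lit 28) (nat_lit 5) (nat_lit 266) (nat_lit 241) (nat_lit 213)) (XT.lf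 (nat_lit 0) (nat_lit 5904881097) (nat_lit 152) (nat_lit 5922486967) (nat_lit 228) (nat_lit 4049696363) (nat_lit 25) (nat_lit 5) (nat_lit 27) (nat_lit 5) (nat_lit 28) (nat_lit 5) (nat_lit 267) (nat_lit 241) (nat_lit 212))) (XT.nd (nat_lit 78) (nat_lit 152) (nat_lit 0) (XT.lf (nat_lit 0) (nat_lit 272916063) (nat_lit 228) (nat_lit 16052341826) (nat_lit 76) (nat_lit 448413472) (nat_lit 22) (nat_lit 5) (nat_lit 25) (nat_lit 5) (nat_lit 23) (nat_lit 5) (nat_lit 268) (nat_lit 241) (nat_lit 211)) (XT.nd (nat_lit 78) (nat_lit 152) (nat_lit 0) (XT.lf (nat_lit 0) (nat_lit 4980904306) (nat_lit 228) (nat_lit 5429723103) (nat_lit 76) (nat_lit 7319161606) (nat_lit 22) (nat_lit 5) (nat_lit 25) (nat_lit 5) (nat_lit 23) (nat_lit 5) (nat_lit 269) (nat_lit 241) (nat_lit 210)) (XT.lf (nat_lit 0) (nat_lit 6097270988) (nat_lit 152) (nat_lit 3973762594) (nat_lit 228) (nat_lit 8691248523) (nat_lit 20) (nat_lit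 5) (nat_lit 22) (nat_lit 5) (nat_lit 23) (nat_lit 5) (nat_lit 270) (nat_lit 241) (nat_lit 209)))))) (XT.nd (nat_lit 312) (nat_lit 380) (nat_lit 0) (XT.nd (nat_lit 156) (nat_lit 152) (nat_lit 0) (XT.nd (nat_lit 78) (nat_lit 152) (nat_lit 0) (XT.lf (nat_lit 0) (nat_lit 15625082529) (nat_lit 228) (nat_lit 1318485275) (nat_lit 76) (nat_lit 2931120562) (nat_lit 20) (nat_lit 5) (nat_lit 23) (nat_lit 5) (nat_lit 21) (nat_lit 4) (nat_lit 271) (nat_lit 241) (nat_lit 208)) (XT.lf (nat_lit 0) (nat_lit 693039627) (nat_lit 152) (nat_lit 9983350454) (nat_lit 76) (nat_lit 10391241779) (nat_lit 18) (nat_lit 5) (nat_lit 20) (nat_lit 5) (nat_lit 19) (nat_lit 5) (nat_lit 272) (nat_lit 241) (nat_lit 207))) (XT.nd (nat_lit 78) (nat_lit 0) (nat_lit 0) (XT.lf (nat_lit 0) (nat_lit 2039752518) (nat_lit 152) (nat_lit 3822704722) (nat_lit 228) (nat_lit 16491179824) (nat_lit 16) (nat_lit 5) (nat_lit 18) (nat_lit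 5) (nat_lit 19) (nat_lit 5) (nat_lit 273) (nat_lit 241) (nat_lit 206)) (XT.lf (nat_lit 0) (nat_lit 11604237728) (nat_lit 228) (nat_lit 8533954975) (nat_lit 76) (nat_lit 3596502298) (nat_lit 16) (nat_lit 5) (nat_lit 19) (nat_lit 5) (nat_lit 17) (nat_lit 4) (nat_lit 274) (nat_lit 241) (nat_lit 205)))) (XT.nd (nat_lit 156) (nat_lit 304) (nat_lit 0) (XT.nd (nat_lit 78) (nat_lit 0) (nat_lit 0) (XT.lf (nat_lit 0) (nat_lit 4142994329) (nat_lit 76) (nat_lit 13723149107) (nat_lit 152) (nat_lit 7357159435) (nat_lit 15) (nat_lit 5) (nat_lit 16) (nat_lit 5) (nat_lit 17) (nat_lit 4) (nat_lit 275) (nat_lit 241) (nat_lit 204)) (XT.lf (nat_lit 0) (nat_lit 18030259196) (nat_lit 76) (nat_lit 6682407932) (nat_lit 152) (nat_lit 2114245666) (nat_lit 15) (nat_lit 5) (nat_lit 16) (nat_lit 5) (nat_lit 17) (nat_lit 4) (nat_lit 276) (nat_lit 241) (nat_lit 203))) (XT.nd (nat_lit 78) (nat_lit 76) (nat_lit 0) (XT.lf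 (nat_lit 0) (nat_lit 3458623355) (nat_lit 228) (nat_lit 24117294599) (nat_lit 76) (nat_lit 979004862) (nat_lit 12) (nat_lit 5) (nat_lit 15) (nat_lit 5) (nat_lit 13) (nat_lit 4) (nat_lit 277) (nat_lit 241) (nat_lit 202)) (XT.nd (nat_lit 78) (nat_lit 76) (nat_lit 0) (XT.lf (nat_lit 0) (nat_lit 9613791722) (nat_lit 228) (nat_lit 11620132150) (nat_lit 76) (nat_lit 9175068602) (nat_lit 12) (nat_lit 5) (nat_lit 15) (nat_lit 5) (nat_lit 13) (nat_lit 4) (nat_lit 278) (nat_lit 241) (nat_lit 201)) (XT.lf (nat_lit 0) (nat_lit 1842670340) (nat_lit 76) (nat_lit 14392963927) (nat_lit 152) (nat_lit 16177113511) (nat_lit 11) (nat_lit 5) (nat_lit 12) (nat_lit 5) (nat_lit 13) (nat_lit 4) (nat_lit 279) (nat_lit 241) (nat_lit 200))))))) (XT.nd (nat_lit 702) (nat_lit 228) (nat_lit 0) (XT.nd (nat_lit 312) (nat_lit 152) (nat_lit 0) (XT.nd (nat_lit 156) (nat_lit 152) (nat_lit 0) (XT.nd (nat_lit 78) (nat_lit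 0) (nat_lit 0) (XT.lf (nat_lit 0) (nat_lit 16708384732) (nat_lit 76) (nat_lit 6829393288) (nat_lit 152) (nat_lit 11031565488) (nat_lit 11) (nat_lit 5) (nat_lit 12) (nat_lit 5) (nat_lit 13) (nat_lit 4) (nat_lit 280) (nat_lit 241) (nat_lit 199)) (XT.lf (nat_lit 0) (nat_lit 31396445303) (nat_lit 152) (nat_lit 4240412309) (nat_lit 0) (nat_lit 1263054361) (nat_lit 11) (nat_lit 5) (nat_lit 13) (nat_lit 4) (nat_lit 11) (nat_lit 4) (nat_lit 281) (nat_lit 241) (nat_lit 198))) (XT.nd (nat_lit 78) (nat_lit 0) (nat_lit 0) (XT.lf (nat_lit 0) (nat_lit 691693728) (nat_lit 152) (nat_lit 28800075130) (nat_lit 76) (nat_lit 9912860028) (nat_lit 9) (nat_lit 5) (nat_lit 11) (nat_lit 5) (nat_lit 10) (nat_lit 4) (nat_lit 282) (nat_lit 241) (nat_lit 197)) (XT.lf (nat_lit 0) (nat_lit 7223755263) (nat_lit 152) (nat_lit 15487734474) (nat_lit 76) (nat_lit 19392068403) (nat_lit 9) (nat_lit 5) (nat_lit 11) (nat_lit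 5) (nat_lit 10) (nat_lit 4) (nat_lit 283) (nat_lit 241) (nat_lit 196)))) (XT.nd (nat_lit 156) (nat_lit 76) (nat_lit 0) (XT.nd (nat_lit 78) (nat_lit 76) (nat_lit 0) (XT.lf (nat_lit 0) (nat_lit 14238056794) (nat_lit 152) (nat_lit 1180995495) (nat_lit 76) (nat_lit 29601413081) (nat_lit 9) (nat_lit 5) (nat_lit 11) (nat_lit 5) (nat_lit 10) (nat_lit 4) (nat_lit 284) (nat_lit 241) (nat_lit 195)) (XT.lf (nat_lit 0) (nat_lit 14674601372) (nat_lit 76) (nat_lit 7330674832) (nat_lit 152) (nat_lit 26155904162) (nat_lit 8) (nat_lit 5) (nat_lit 9) (nat_lit 5) (nat_lit 10) (nat_lit 4) (nat_lit 285) (nat_lit 241) (nat_lit 194))) (XT.nd (nat_lit 78) (nat_lit 76) (nat_lit 0) (XT.lf (nat_lit 0) (nat_lit 30400745706) (nat_lit 152) (nat_lit 19797491271) (nat_lit 0) (nat_lit 1354612584) (nat_lit 8) (nat_lit 5) (nat_lit 10) (nat_lit 4) (nat_lit 8) (nat_lit 4) (nat_lit 286) (nat_lit 241) (nat_lit 193)) (XT.nd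 (nat_lit 78) (nat_lit 76) (nat_lit 0) (XT.lf (nat_lit 0) (nat_lit 39558156400) (nat_lit 152) (nat_lit 5196067124) (nat_lit 0) (nat_lit 10457151205) (nat_lit 8) (nat_lit 5) (nat_lit 10) (nat_lit 4) (nat_lit 8) (nat_lit 4) (nat_lit 287) (nat_lit 241) (nat_lit 192)) (XT.lf (nat_lit 0) (nat_lit 10866467609) (nat_lit 76) (nat_lit 38720510447) (nat_lit 76) (nat_lit 9568697778) (nat_lit 7) (nat_lit 4) (nat_lit 8) (nat_lit 5) (nat_lit 8) (nat_lit 4) (nat_lit 288) (nat_lit 241) (nat_lit 191)))))) (XT.nd (nat_lit 390) (nat_lit 76) (nat_lit 0) (XT.nd (nat_lit 156) (nat_lit 76) (nat_lit 0) (XT.nd (nat_lit 78) (nat_lit 76) (nat_lit 0) (XT.lf (nat_lit 0) (nat_lit 28347138295) (nat_lit 76) (nat_lit 32132107302) (nat_lit 76) (nat_lit 2933250675) (nat_lit 7) (nat_lit 4) (nat_lit 8) (nat_lit 5) (nat_lit 8) (nat_lit 4) (nat_lit 289) (nat_lit 241) (nat_lit 190)) (XT.lf (nat_lit 0) (nat_lit 4069877699) (nat_lit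 152) (nat_lit 20899166564) (nat_lit 76) (nat_lit 43038925597) (nat_lit 6) (nat_lit 5) (nat_lit 8) (nat_lit 5) (nat_lit 7) (nat_lit 4) (nat_lit 290) (nat_lit 241) (nat_lit 189))) (XT.nd (nat_lit 78) (nat_lit 76) (nat_lit 0) (XT.lf (nat_lit 0) (nat_lit 11506242091) (nat_lit 152) (nat_lit 5694952172) (nat_lit 76) (nat_lit 55768721474) (nat_lit 6) (nat_lit 5) (nat_lit 8) (nat_lit 5) (nat_lit 7) (nat_lit 4) (nat_lit 291) (nat_lit 241) (nat_lit 188)) (XT.nd (nat_lit 78) (nat_lit 0) (nat_lit 0) (XT.lf (nat_lit 0) (nat_lit 11036414705) (nat_lit 76) (nat_lit 8649686843) (nat_lit 152) (nat_lit 58635310823) (nat_lit 5) (nat_lit 5) (nat_lit 6) (nat_lit 5) (nat_lit 7) (nat_lit 4) (nat_lit 292) (nat_lit 241) (nat_lit 187)) (XT.lf (nat_lit 0) (nat_lit 28607446304) (nat_lit 152) (nat_lit 54838634526) (nat_lit 0) (nat_lit 650615654) (nat_lit 5) (nat_lit 5) (nat_lit 7) (nat_lit 4) (nat_lit 5) (nat_lit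 4) (nat_lit 293) (nat_lit 241) (nat_lit 186))))) (XT.nd (nat_lit 156) (nat_lit 76) (nat_lit 0) (XT.nd (nat_lit 78) (nat_lit 0) (nat_lit 0) (XT.lf (nat_lit 0) (nat_lit 38367162695) (nat_lit 152) (nat_lit 41580788981) (nat_lit 0) (nat_lit 10379839352) (nat_lit 5) (nat_lit 5) (nat_lit 7) (nat_lit 4) (nat_lit 5) (nat_lit 4) (nat_lit 294) (nat_lit 241) (nat_lit 185)) (XT.lf (nat_lit 0) (nat_lit 48888040225) (nat_lit 152) (nat_lit 27297850169) (nat_lit 0) (nat_lit 20872482907) (nat_lit 5) (nat_lit 5) (nat_lit 7) (nat_lit 4) (nat_lit 5) (nat_lit 4) (nat_lit 295) (nat_lit 241) (nat_lit 184))) (XT.nd (nat_lit 78) (nat_lit 76) (nat_lit 0) (XT.lf (nat_lit 0) (nat_lit 60232424834) (nat_lit 152) (nat_lit 11905178451) (nat_lit 0) (nat_lit 32190724947) (nat_lit 5) (nat_lit 5) (nat_lit 7) (nat_lit 4) (nat_lit 5) (nat_lit 4) (nat_lit 296) (nat_lit 241) (nat_lit 183)) (XT.nd (nat_lit 78) (nat_lit 0) (nat_lit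 0) (XT.lf (nat_lit 0) (nat_lit 4843463070) (nat_lit 76) (nat_lit 67699699468) (nat_lit 76) (nat_lit 39633793498) (nat_lit 4) (nat_lit 4) (nat_lit 5) (nat_lit 5) (nat_lit 5) (nat_lit 4) (nat_lit 297) (nat_lit 241) (nat_lit 182)) (XT.lf (nat_lit 0) (nat_lit 23327984968) (nat_lit 76) (nat_lit 62702127896) (nat_lit 76) (nat_lit 34613808886) (nat_lit 4) (nat_lit 4) (nat_lit 5) (nat_lit 5) (nat_lit 5) (nat_lit 4) (nat_lit 298) (nat_lit 241) (nat_lit 181))))))))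
noncomputable def xc52 : XT := (XT.nd (nat_lit 1404) (nat_lit 0) (nat_lit 0) (XT.nd (nat_lit 702) (nat_lit 0) (nat_lit 0) (XT.nd (nat_lit 312) (nat_lit 152) (nat_lit 0) (XT.nd (nat_lit 156) (nat_lit 0) (nat_lit 0) (XT.nd (nat_lit 78) (nat_lit 0) (nat_lit 0) (XT.lf (nat_lit 0) (nat_lit 43264286184) (nat_lit 76) (nat_lit 57316893287) (nat_lit 76) (nat_lit 29207821464) (nat_lit 4) (nat_lit 4) (nat_lit 5) (nat_lit 5) (nat_lit 5) (nat_lit 4) (nat_lit 299) (nat_lit 241) (nat_lit 180)) (XT.lf (nat_lit 0) (nat_lit 64770507763) (nat_lit 76) (nat_lit 51512083141) (nat_lit 76) (nat_lit 23383795748) (nat_lit 4) (nat_lit 4) (nat_lit 5) (nat_lit 5) (nat_lit 5) (nat_lit 4) (nat_lit 300) (nat_lit 241) (nat_lit 179))) (XT.nd (nat_lit 78) (nat_lit 0) (nat_lit 0) (XT.lf (nat_lit 0) (nat_lit 87974093980) (nat_lit 76) (nat_lit 45253298582) (nat_lit 76) (nat_lit 17107218996) (nat_lit 4) (nat_lit 4) (nat_lit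 5) (nat_lit 5) (nat_lit 5) (nat_lit 4) (nat_lit 301) (nat_lit 241) (nat_lit 178)) (XT.lf (nat_lit 0) (nat_lit 113012547570) (nat_lit 76) (nat_lit 38503450517) (nat_lit 76) (nat_lit 10340896678) (nat_lit 4) (nat_lit 4) (nat_lit 5) (nat_lit 5) (nat_lit 5) (nat_lit 4) (nat_lit 302) (nat_lit 241) (nat_lit 177)))) (XT.nd (nat_lit 156) (nat_lit 76) (nat_lit 0) (XT.nd (nat_lit 78) (nat_lit 76) (nat_lit 0) (XT.lf (nat_lit 0) (nat_lit 140034244553) (nat_lit 76) (nat_lit 31222539846) (nat_lit 76) (nat_lit 3044732069) (nat_lit 4) (nat_lit 4) (nat_lit 5) (nat_lit 5) (nat_lit 5) (nat_lit 4) (nat_lit 303) (nat_lit 241) (nat_lit 176)) (XT.lf (nat_lit 0) (nat_lit 4670096867) (nat_lit 152) (nat_lit 18618233214) (nat_lit 76) (nat_lit 164450126286) (nat_lit 3) (nat_lit 5) (nat_lit 5) (nat_lit 5) (nat_lit 4) (nat_lit 4) (nat_lit 304) (nat_lit 241) (nat_lit 175))) (XT.nd (nat_lit 78) (nat_lit 76) (nat_lit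 0) (XT.lf (nat_lit 0) (nat_lit 12887352105) (nat_lit 152) (nat_lit 1785937770) (nat_lit 76) (nat_lit 187574978811) (nat_lit 3) (nat_lit 5) (nat_lit 5) (nat_lit 5) (nat_lit 4) (nat_lit 4) (nat_lit 305) (nat_lit 241) (nat_lit 174)) (XT.nd (nat_lit 78) (nat_lit 0) (nat_lit 0) (XT.lf (nat_lit 0) (nat_lit 16918392366) (nat_lit 76) (nat_lit 5098930082) (nat_lit 152) (nat_lit 195888784714) (nat_lit 2) (nat_lit 5) (nat_lit 3) (nat_lit 5) (nat_lit 4) (nat_lit 4) (nat_lit 306) (nat_lit 241) (nat_lit 173)) (XT.lf (nat_lit 0) (nat_lit 31982638481) (nat_lit 152) (nat_lit 197730180200) (nat_lit 0) (nat_lit 5098513953) (nat_lit 2) (nat_lit 5) (nat_lit 4) (nat_lit 4) (nat_lit 2) (nat_lit 4) (nat_lit 307) (nat_lit 241) (nat_lit 172)))))) (XT.nd (nat_lit 312) (nat_lit 0) (nat_lit 0) (XT.nd (nat_lit 156) (nat_lit 0) (nat_lit 0) (XT.nd (nat_lit 78) (nat_lit 0) (nat_lit 0) (XT.lf (nat_lit 0) (nat_lit 42823282600)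 (nat_lit 152) (nat_lit 194312524321) (nat_lit 0) (nat_lit 15929270859) (nat_lit 2) (nat_lit 5) (nat_lit 4) (nat_lit 4) (nat_lit 2) (nat_lit 4) (nat_lit 308) (nat_lit 241) (nat_lit 171)) (XT.lf (nat_lit 0) (nat_lit 54523887073) (nat_lit 152) (nat_lit 190634885797) (nat_lit 0) (nat_lit 27620720504) (nat_lit 2) (nat_lit 5) (nat_lit 4) (nat_lit 4) (nat_lit 2) (nat_lit 4) (nat_lit 309) (nat_lit 241) (nat_lit 170))) (XT.nd (nat_lit 78) (nat_lit 0) (nat_lit 0) (XT.lf (nat_lit 0) (nat_lit 67153788813) (nat_lit 152) (nat_lit 186675471213) (nat_lit 0) (nat_lit 40242145554) (nat_lit 2) (nat_lit 5) (nat_lit 4) (nat_lit 4) (nat_lit 2) (nat_lit 4) (nat_lit 310) (nat_lit 241) (nat_lit 169)) (XT.lf (nat_lit 0) (nat_lit 80787831685) (nat_lit 152) (nat_lit 182410817373) (nat_lit 0) (nat_lit 53868339636) (nat_lit 2) (nat_lit 5) (nat_lit 4) (nat_lit 4) (nat_lit 2) (nat_lit 4) (nat_lit 311) (nat_lit 241)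 (nat_lit 168)))) (XT.nd (nat_lit 156) (nat_lit 0) (nat_lit 0) (XT.nd (nat_lit 78) (nat_lit 0) (nat_lit 0) (XT.lf (nat_lit 0) (nat_lit 95506810015) (nat_lit 152) (nat_lit 177815652254) (nat_lit 0) (nat_lit 68580050570) (nat_lit 2) (nat_lit 5) (nat_lit 4) (nat_lit 4) (nat_lit 2) (nat_lit 4) (nat_lit 312) (nat_lit 241) (nat_lit 167)) (XT.lf (nat_lit 0) (nat_lit 111397947380) (nat_lit 152) (nat_lit 172862745247) (nat_lit 0) (nat_lit 84464458863) (nat_lit 2) (nat_lit 5) (nat_lit 4) (nat_lit 4) (nat_lit 2) (nat_lit 4) (nat_lit 313) (nat_lit 241) (nat_lit 166))) (XT.nd (nat_lit 78) (nat_lit 0) (nat_lit 0) (XT.lf (nat_lit 0) (nat_lit 128555413481) (nat_lit 152) (nat_lit 167522745792) (nat_lit 0) (nat_lit 101615694343) (nat_lit 2) (nat_lit 5) (nat_lit 4) (nat_lit 4) (nat_lit 2) (nat_lit 4) (nat_lit 314) (nat_lit 241) (nat_lit 165)) (XT.nd (nat_lit 78) (nat_lit 0) (nat_lit 0) (XT.lf (nat_lit 0)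 (nat_lit 147080882192) (nat_lit 152) (nat_lit 161764009448) (nat_lit 0) (nat_lit 120135393960) (nat_lit 2) (nat_lit 5) (nat_lit 4) (nat_lit 4) (nat_lit 2) (nat_lit 4) (nat_lit 315) (nat_lit 241) (nat_lit 164)) (XT.lf (nat_lit 0) (nat_lit 167084134069) (nat_lit 152) (nat_lit 155552410371) (nat_lit 0) (nat_lit 140133304083) (nat_lit 2) (nat_lit 5) (nat_lit 4) (nat_lit 4) (nat_lit 2) (nat_lit 4) (nat_lit 316) (nat_lit 241) (nat_lit 163))))))) (XT.nd (nat_lit 31824) (nat_lit 0) (nat_lit 5016) (XT.nd (nat_lit 312) (nat_lit 0) (nat_lit 0) (XT.nd (nat_lit 156) (nat_lit 0) (nat_lit 0) (XT.nd (nat_lit 78) (nat_lit 0) (nat_lit 0) (XT.lf (nat_lit 0) (nat_lit 188683706901) (nat_lit 152) (nat_lit 148851139083) (nat_lit 0) (nat_lit 161727930847) (nat_lit 2) (nat_lit 5) (nat_lit 4) (nat_lit 4) (nat_lit 2) (nat_lit 4) (nat_lit 317) (nat_lit 241) (nat_lit 162)) (XT.lf (nat_lit 0) (nat_lit 212007598155)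 (nat_lit 152) (nat_lit 141620484349) (nat_lit 0) (nat_lit 185047242408) (nat_lit 2) (nat_lit 5) (nat_lit 4) (nat_lit 4) (nat_lit 2) (nat_lit 4) (nat_lit 318) (nat_lit 241) (nat_lit 161))) (XT.nd (nat_lit 78) (nat_lit 0) (nat_lit 0) (XT.lf (nat_lit 0) (nat_lit 237194023484) (nat_lit 152) (nat_lit 133817597843) (nat_lit 0) (nat_lit 210229427281) (nat_lit 2) (nat_lit 5) (nat_lit 4) (nat_lit 4) (nat_lit 2) (nat_lit 4) (nat_lit 319) (nat_lit 241) (nat_lit 160)) (XT.lf (nat_lit 0) (nat_lit 264392235779) (nat_lit 152) (nat_lit 125396240238) (nat_lit 0) (nat_lit 237423713227) (nat_lit 2) (nat_lit 5) (nat_lit 4) (nat_lit 4) (nat_lit 2) (nat_lit 4) (nat_lit 320) (nat_lit 241) (nat_lit 159)))) (XT.nd (nat_lit 156) (nat_lit 0) (nat_lit 0) (XT.nd (nat_lit 78) (nat_lit 0) (nat_lit 0) (XT.lf (nat_lit 0) (nat_lit 293763409631) (nat_lit 152) (nat_lit 116306507193) (nat_lit 0) (nat_lit 266791251571) (nat_lit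 2) (nat_lit 5) (nat_lit 4) (nat_lit 4) (nat_lit 2) (nat_lit 4) (nat_lit 321) (nat_lit 241) (nat_lit 158)) (XT.lf (nat_lit 0) (nat_lit 325481596440) (nat_lit 152) (nat_lit 106494533623) (nat_lit 0) (nat_lit 298506072170) (nat_lit 2) (nat_lit 5) (nat_lit 4) (nat_lit 4) (nat_lit 2) (nat_lit 4) (nat_lit 322) (nat_lit 241) (nat_lit 157))) (XT.nd (nat_lit 31200) (nat_lit 0) (nat_lit 8132) (XT.lf (nat_lit 0) (nat_lit 359734755833) (nat_lit 152) (nat_lit 95902174500) (nat_lit 0) (nat_lit 332756114701) (nat_lit 2) (nat_lit 5) (nat_lit 4) (nat_lit 4) (nat_lit 2) (nat_lit 4) (nat_lit 323) (nat_lit 241) (nat_lit 156)) (XT.nd (nat_lit 78) (nat_lit 380) (nat_lit 0) (XT.lf (nat_lit 0) (nat_lit 808655361) (nat_lit 0) (nat_lit 808655361) (nat_lit 228) (nat_lit 1663535824) (nat_lit 114) (nat_lit 5) (nat_lit 114) (nat_lit 3) (nat_lit 117) (nat_lit 3) (nat_lit 242) (nat_lit 242) (nat_lit 236)) (XT.lf (nat_lit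 0) (nat_lit 182673750) (nat_lit 380) (nat_lit 275880919) (nat_lit 380) (nat_lit 6174593333) (nat_lit 109) (nat_lit 3) (nat_lit 114) (nat_lit 3) (nat_lit 114) (nat_lit 5) (nat_lit 243) (nat_lit 242) (nat_lit 235)))))) (XT.nd (nat_lit 390) (nat_lit 2432) (nat_lit 0) (XT.nd (nat_lit 156) (nat_lit 380) (nat_lit 0) (XT.nd (nat_lit 78) (nat_lit 380) (nat_lit 0) (XT.lf (nat_lit 0) (nat_lit 3594878816) (nat_lit 304) (nat_lit 2067157334) (nat_lit 380) (nat_lit 1060355634) (nat_lit 110) (nat_lit 5) (nat_lit 114) (nat_lit 5) (nat_lit 115) (nat_lit 5) (nat_lit 244) (nat_lit 242) (nat_lit 234)) (XT.lf (nat_lit 0) (nat_lit 173439308) (nat_lit 380) (nat_lit 3772846696) (nat_lit 456) (nat_lit 2887292594) (nat_lit 105) (nat_lit 5) (nat_lit 110) (nat_lit 5) (nat_lit 111) (nat_lit 5) (nat_lit 245) (nat_lit 242) (nat_lit 233))) (XT.nd (nat_lit 78) (nat_lit 380) (nat_lit 0) (XT.lf (nat_lit 76) (nat_lit 1514110300)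 (nat_lit 0) (nat_lit 1863728847) (nat_lit 456) (nat_lit 3587208180) (nat_lit 106) (nat_lit 5) (nat_lit 105) (nat_lit 5) (nat_lit 111) (nat_lit 5) (nat_lit 246) (nat_lit 242) (nat_lit 232)) (XT.nd (nat_lit 78) (nat_lit 76) (nat_lit 0) (XT.lf (nat_lit 0) (nat_lit 38602101) (nat_lit 380) (nat_lit 6582355375) (nat_lit 456) (nat_lit 498251934) (nat_lit 101) (nat_lit 5) (nat_lit 106) (nat_lit 5) (nat_lit 107) (nat_lit 5) (nat_lit 247) (nat_lit 242) (nat_lit 231)) (XT.lf (nat_lit 0) (nat_lit 2596660960) (nat_lit 456) (nat_lit 1408024000) (nat_lit 76) (nat_lit 3287462027) (nat_lit 100) (nat_lit 5) (nat_lit 106) (nat_lit 5) (nat_lit 101) (nat_lit 5) (nat_lit 248) (nat_lit 242) (nat_lit 230))))) (XT.nd (nat_lit 156) (nat_lit 1368) (nat_lit 0) (XT.nd (nat_lit 78) (nat_lit 608) (nat_lit 0) (XT.lf (nat_lit 0) (nat_lit 4663165031) (nat_lit 456) (nat_lit 1073930160) (nat_lit 532) (nat_lit 1751703462)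 (nat_lit 94) (nat_lit 5) (nat_lit 100) (nat_lit 5) (nat_lit 101) (nat_lit 5) (nat_lit 249) (nat_lit 242) (nat_lit 229)) (XT.lf (nat_lit 0) (nat_lit 1249554756) (nat_lit 608) (nat_lit 4282584090) (nat_lit 76) (nat_lit 2175477797) (nat_lit 86) (nat_lit 5) (nat_lit 94) (nat_lit 5) (nat_lit 87) (nat_lit 5) (nat_lit 250) (nat_lit 242) (nat_lit 228))) (XT.nd (nat_lit 78) (nat_lit 760) (nat_lit 0) (XT.lf (nat_lit 0) (nat_lit 2154528272) (nat_lit 608) (nat_lit 2147194139) (nat_lit 684) (nat_lit 3648035664) (nat_lit 78) (nat_lit 5) (nat_lit 86) (nat_lit 5) (nat_lit 87) (nat_lit 5) (nat_lit 251) (nat_lit 242) (nat_lit 227)) (XT.nd (nat_lit 78) (nat_lit 76) (nat_lit 0) (XT.lf (nat_lit 0) (nat_lit 850027444) (nat_lit 684) (nat_lit 6644705430) (nat_lit 760) (nat_lit 722503387) (nat_lit 69) (nat_lit 5) (nat_lit 78) (nat_lit 5) (nat_lit 79) (nat_lit 5) (nat_lit 252) (nat_lit 242) (nat_lit 226)) (XT.lf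 (nat_lit 0) (nat_lit 2290803586) (nat_lit 760) (nat_lit 546194199) (nat_lit 76) (nat_lit 5671330266) (nat_lit 68) (nat_lit 5) (nat_lit 78) (nat_lit 5) (nat_lit 69) (nat_lit 5) (nat_lit 253) (nat_lit 242) (nat_lit 225))))))))
noncomputable def xc53 : XT := (XT.nd (nat_lit 1404) (nat_lit 988) (nat_lit 0) (XT.nd (nat_lit 702) (nat_lit 1140) (nat_lit 0) (XT.nd (nat_lit 312) (nat_lit 1140) (nat_lit 0) (XT.nd (nat_lit 156) (nat_lit 684) (nat_lit 0) (XT.nd (nat_lit 78) (nat_lit 380) (nat_lit 0) (XT.lf (nat_lit 0) (nat_lit 5457161847) (nat_lit 380) (nat_lit 2009729979) (nat_lit 76) (nat_lit 1359010476) (nat_lit 64) (nat_lit 5) (nat_lit 69) (nat_lit 5) (nat_lit 65) (nat_lit 5) (nat_lit 254) (nat_lit 242) (nat_lit 224)) (XT.lf (nat_lit 0) (nat_lit 5559072912) (nat_lit 380) (nat_lit 3281721034) (nat_lit 456) (nat_lit 330494287) (nat_lit 59) (nat_lit 5) (nat_lit 64) (nat_lit 5) (nat_lit 65) (nat_lit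 5) (nat_lit 255) (nat_lit 242) (nat_lit 223))) (XT.nd (nat_lit 78) (nat_lit 304) (nat_lit 0) (XT.lf (nat_lit 0) (nat_lit 2805304590) (nat_lit 380) (nat_lit 5406035979) (nat_lit 76) (nat_lit 1333746706) (nat_lit 54) (nat_lit 5) (nat_lit 59) (nat_lit 5) (nat_lit 55) (nat_lit 5) (nat_lit 256) (nat_lit 242) (nat_lit 222)) (XT.lf (nat_lit 0) (nat_lit 2524884857) (nat_lit 304) (nat_lit 3651007691) (nat_lit 380) (nat_lit 3773344765) (nat_lit 50) (nat_lit 5) (nat_lit 54) (nat_lit 5) (nat_lit 55) (nat_lit 5) (nat_lit 257) (nat_lit 242) (nat_lit 221)))) (XT.nd (nat_lit 156) (nat_lit 836) (nat_lit 0) (XT.nd (nat_lit 78) (nat_lit 76) (nat_lit 0) (XT.lf (nat_lit 0) (nat_lit 716455425) (nat_lit 228) (nat_lit 9072001730) (nat_lit 304) (nat_lit 599102360) (nat_lit 47) (nat_lit 5) (nat_lit 50) (nat_lit 5) (nat_lit 51) (nat_lit 5) (nat_lit 258) (nat_lit 242) (nat_lit 220)) (XT.lf (nat_lit 0) (nat_lit 2782922579)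 (nat_lit 304) (nat_lit 1373214129) (nat_lit 76) (nat_lit 6700785409) (nat_lit 46) (nat_lit 5) (nat_lit 50) (nat_lit 5) (nat_lit 47) (nat_lit 5) (nat_lit 259) (nat_lit 242) (nat_lit 219))) (XT.nd (nat_lit 78) (nat_lit 532) (nat_lit 0) (XT.lf (nat_lit 0) (nat_lit 6416273589) (nat_lit 380) (nat_lit 3731743527) (nat_lit 76) (nat_lit 1215610712) (nat_lit 42) (nat_lit 5) (nat_lit 47) (nat_lit 5) (nat_lit 43) (nat_lit 5) (nat_lit 260) (nat_lit 242) (nat_lit 218)) (XT.nd (nat_lit 78) (nat_lit 304) (nat_lit 0) (XT.lf (nat_lit 0) (nat_lit 5430329500) (nat_lit 228) (nat_lit 4958647630) (nat_lit 304) (nat_lit 1519803880) (nat_lit 39) (nat_lit 5) (nat_lit 42) (nat_lit 5) (nat_lit 43) (nat_lit 5) (nat_lit 261) (nat_lit 242) (nat_lit 217)) (XT.lf (nat_lit 0) (nat_lit 2108860449) (nat_lit 304) (nat_lit 9655018159) (nat_lit 76) (nat_lit 732431662) (nat_lit 35) (nat_lit 5) (nat_lit 39) (nat_lit 5) (nat_lit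 36) (nat_lit 5) (nat_lit 262) (nat_lit 242) (nat_lit 216)))))) (XT.nd (nat_lit 312) (nat_lit 532) (nat_lit 0) (XT.nd (nat_lit 156) (nat_lit 456) (nat_lit 0) (XT.nd (nat_lit 78) (nat_lit 152) (nat_lit 0) (XT.lf (nat_lit 0) (nat_lit 6054086916) (nat_lit 304) (nat_lit 263507858) (nat_lit 76) (nat_lit 6808307468) (nat_lit 35) (nat_lit 5) (nat_lit 39) (nat_lit 5) (nat_lit 36) (nat_lit 5) (nat_lit 263) (nat_lit 242) (nat_lit 215)) (XT.lf (nat_lit 0) (nat_lit 10047978155) (nat_lit 152) (nat_lit 313174289) (nat_lit 228) (nat_lit 3442659092) (nat_lit 33) (nat_lit 5) (nat_lit 35) (nat_lit 5) (nat_lit 36) (nat_lit 5) (nat_lit 264) (nat_lit 242) (nat_lit 214))) (XT.nd (nat_lit 78) (nat_lit 152) (nat_lit 0) (XT.lf (nat_lit 0) (nat_lit 561981962) (nat_lit 304) (nat_lit 7917836789) (nat_lit 76) (nat_lit 6050972063) (nat_lit 29) (nat_lit 5) (nat_lit 33) (nat_lit 5) (nat_lit 30) (nat_lit 5) (nat_lit 265)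 (nat_lit 242) (nat_lit 213)) (XT.lf (nat_lit 0) (nat_lit 2500191405) (nat_lit 152) (nat_lit 2276918023) (nat_lit 228) (nat_lit 10535673815) (nat_lit 27) (nat_lit 5) (nat_lit 29) (nat_lit 5) (nat_lit 30) (nat_lit 5) (nat_lit 266) (nat_lit 242) (nat_lit 212)))) (XT.nd (nat_lit 156) (nat_lit 380) (nat_lit 0) (XT.nd (nat_lit 78) (nat_lit 152) (nat_lit 0) (XT.lf (nat_lit 0) (nat_lit 9441592287) (nat_lit 228) (nat_lit 2333342980) (nat_lit 76) (nat_lit 4376989870) (nat_lit 27) (nat_lit 5) (nat_lit 30) (nat_lit 5) (nat_lit 28) (nat_lit 5) (nat_lit 267) (nat_lit 242) (nat_lit 211)) (XT.lf (nat_lit 0) (nat_lit 9101983150) (nat_lit 152) (nat_lit 5467859768) (nat_lit 228) (nat_lit 2484007721) (nat_lit 25) (nat_lit 5) (nat_lit 27) (nat_lit 5) (nat_lit 28) (nat_lit 5) (nat_lit 268) (nat_lit 242) (nat_lit 210))) (XT.nd (nat_lit 78) (nat_lit 152) (nat_lit 0) (XT.lf (nat_lit 0) (nat_lit 2044635301) (nat_lit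 228) (nat_lit 14593772246) (nat_lit 76) (nat_lit 1386519775) (nat_lit 22) (nat_lit 5) (nat_lit 25) (nat_lit 5) (nat_lit 23) (nat_lit 5) (nat_lit 269) (nat_lit 242) (nat_lit 209)) (XT.nd (nat_lit 78) (nat_lit 152) (nat_lit 0) (XT.lf (nat_lit 0) (nat_lit 6999641422) (nat_lit 228) (nat_lit 3324511204) (nat_lit 76) (nat_lit 8740095669) (nat_lit 22) (nat_lit 5) (nat_lit 25) (nat_lit 5) (nat_lit 23) (nat_lit 5) (nat_lit 270) (nat_lit 242) (nat_lit 208)) (XT.lf (nat_lit 0) (nat_lit 9014274938) (nat_lit 152) (nat_lit 3400613457) (nat_lit 228) (nat_lit 7768772671) (nat_lit 20) (nat_lit 5) (nat_lit 22) (nat_lit 5) (nat_lit 23) (nat_lit 5) (nat_lit 271) (nat_lit 242) (nat_lit 207))))))) (XT.nd (nat_lit 702) (nat_lit 304) (nat_lit 0) (XT.nd (nat_lit 312) (nat_lit 380) (nat_lit 0) (XT.nd (nat_lit 156) (nat_lit 152) (nat_lit 0) (XT.nd (nat_lit 78) (nat_lit 76) (nat_lit 0) (XT.lf (nat_lit 0) (nat_lit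 915441381) (nat_lit 76) (nat_lit 17411055092) (nat_lit 152) (nat_lit 3063101223) (nat_lit 19) (nat_lit 5) (nat_lit 20) (nat_lit 5) (nat_lit 21) (nat_lit 4) (nat_lit 272) (nat_lit 242) (nat_lit 206)) (XT.lf (nat_lit 0) (nat_lit 2138260653) (nat_lit 152) (nat_lit 8524154392) (nat_lit 76) (nat_lit 12018937967) (nat_lit 18) (nat_lit 5) (nat_lit 20) (nat_lit 5) (nat_lit 19) (nat_lit 5) (nat_lit 273) (nat_lit 242) (nat_lit 205))) (XT.nd (nat_lit 78) (nat_lit 0) (nat_lit 0) (XT.lf (nat_lit 0) (nat_lit 4362672796) (nat_lit 152) (nat_lit 3289331966) (nat_lit 228) (nat_lit 16421858216) (nat_lit 16) (nat_lit 5) (nat_lit 18) (nat_lit 5) (nat_lit 19) (nat_lit 5) (nat_lit 274) (nat_lit 242) (nat_lit 204)) (XT.lf (nat_lit 0) (nat_lit 13767440670) (nat_lit 228) (nat_lit 7166020416) (nat_lit 76) (nat_lit 4636379741) (nat_lit 16) (nat_lit 5) (nat_lit 19) (nat_lit 5) (nat_lit 17) (nat_lit 4) (nat_lit 275)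 (nat_lit 242) (nat_lit 203)))) (XT.nd (nat_lit 156) (nat_lit 304) (nat_lit 0) (XT.nd (nat_lit 78) (nat_lit 0) (nat_lit 0) (XT.lf (nat_lit 0) (nat_lit 6435966040) (nat_lit 76) (nat_lit 14033486407) (nat_lit 152) (nat_lit 6711266946) (nat_lit 15) (nat_lit 5) (nat_lit 16) (nat_lit 5) (nat_lit 17) (nat_lit 4) (nat_lit 276) (nat_lit 242) (nat_lit 202)) (XT.lf (nat_lit 0) (nat_lit 21288913418) (nat_lit 76) (nat_lit 6487820354) (nat_lit 152) (nat_lit 1140361946) (nat_lit 15) (nat_lit 5) (nat_lit 16) (nat_lit 5) (nat_lit 17) (nat_lit 4) (nat_lit 277) (nat_lit 242) (nat_lit 201))) (XT.nd (nat_lit 78) (nat_lit 76) (nat_lit 0) (XT.lf (nat_lit 0) (nat_lit 4798753869) (nat_lit 228) (nat_lit 24230139594) (nat_lit 76) (nat_lit 1755824836) (nat_lit 12) (nat_lit 5) (nat_lit 15) (nat_lit 5) (nat_lit 13) (nat_lit 4) (nat_lit 278) (nat_lit 242) (nat_lit 200)) (XT.nd (nat_lit 78) (nat_lit 76) (nat_lit 0)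 (XT.lf (nat_lit 0) (nat_lit 11367562324) (nat_lit 228) (nat_lit 10867762562) (nat_lit 76) (nat_lit 10555832965) (nat_lit 12) (nat_lit 5) (nat_lit 15) (nat_lit 5) (nat_lit 13) (nat_lit 4) (nat_lit 279) (nat_lit 242) (nat_lit 199)) (XT.lf (nat_lit 0) (nat_lit 3598967319) (nat_lit 76) (nat_lit 14872365815) (nat_lit 152) (nat_lit 16486369228) (nat_lit 11) (nat_lit 5) (nat_lit 12) (nat_lit 5) (nat_lit 13) (nat_lit 4) (nat_lit 280) (nat_lit 242) (nat_lit 198)))))) (XT.nd (nat_lit 390) (nat_lit 152) (nat_lit 0) (XT.nd (nat_lit 156) (nat_lit 152) (nat_lit 0) (XT.nd (nat_lit 78) (nat_lit 0) (nat_lit 0) (XT.lf (nat_lit 0) (nat_lit 19534762319) (nat_lit 76) (nat_lit 6753489911) (nat_lit 152) (nat_lit 11002133909) (nat_lit 11) (nat_lit 5) (nat_lit 12) (nat_lit 5) (nat_lit 13) (nat_lit 4) (nat_lit 281) (nat_lit 242) (nat_lit 197)) (XT.lf (nat_lit 0) (nat_lit 34720352696) (nat_lit 152) (nat_lit 3168074446)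 (nat_lit 0) (nat_lit 1921819819) (nat_lit 11) (nat_lit 5) (nat_lit 13) (nat_lit 4) (nat_lit 11) (nat_lit 4) (nat_lit 282) (nat_lit 242) (nat_lit 196))) (XT.nd (nat_lit 78) (nat_lit 0) (nat_lit 0) (XT.lf (nat_lit 0) (nat_lit 1533753041) (nat_lit 152) (nat_lit 29726918301) (nat_lit 76) (nat_lit 11256067165) (nat_lit 9) (nat_lit 5) (nat_lit 11) (nat_lit 5) (nat_lit 10) (nat_lit 4) (nat_lit 283) (nat_lit 242) (nat_lit 195)) (XT.nd (nat_lit 78) (nat_lit 0) (nat_lit 0) (XT.lf (nat_lit 0) (nat_lit 8530103660) (nat_lit 152) (nat_lit 15451602455) (nat_lit 76) (nat_lit 21452858261) (nat_lit 9) (nat_lit 5) (nat_lit 11) (nat_lit 5) (nat_lit 10) (nat_lit 4) (nat_lit 284) (nat_lit 242) (nat_lit 194)) (XT.lf (nat_lit 0) (nat_lit 16051590204) (nat_lit 152) (nat_lit 94779970) (nat_lit 76) (nat_lit 32441215373) (nat_lit 9) (nat_lit 5) (nat_lit 11) (nat_lit 5) (nat_lit 10) (nat_lit 4) (nat_lit 285) (nat_lit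 242) (nat_lit 193))))) (XT.nd (nat_lit 156) (nat_lit 76) (nat_lit 0) (XT.nd (nat_lit 78) (nat_lit 0) (nat_lit 0) (XT.lf (nat_lit 0) (nat_lit 16977953073) (nat_lit 76) (nat_lit 7429904799) (nat_lit 152) (nat_lit 27573375048) (nat_lit 8) (nat_lit 5) (nat_lit 9) (nat_lit 5) (nat_lit 10) (nat_lit 4) (nat_lit 286) (nat_lit 242) (nat_lit 192)) (XT.lf (nat_lit 0) (nat_lit 33434441015) (nat_lit 152) (nat_lit 20312199338) (nat_lit 0) (nat_lit 1899675857) (nat_lit 8) (nat_lit 5) (nat_lit 10) (nat_lit 4) (nat_lit 8) (nat_lit 4) (nat_lit 287) (nat_lit 242) (nat_lit 191))) (XT.nd (nat_lit 78) (nat_lit 76) (nat_lit 0) (XT.lf (nat_lit 0) (nat_lit 43279878960) (nat_lit 152) (nat_lit 4621853202) (nat_lit 0) (nat_lit 11698069845) (nat_lit 8) (nat_lit 5) (nat_lit 10) (nat_lit 4) (nat_lit 8) (nat_lit 4) (nat_lit 288) (nat_lit 242) (nat_lit 190)) (XT.nd (nat_lit 78) (nat_lit 0) (nat_lit 0) (XT.lf (nat_lit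 0) (nat_lit 12682664493) (nat_lit 76) (nat_lit 41401860850) (nat_lit 76) (nat_lit 9776492515) (nat_lit 7) (nat_lit 4) (nat_lit 8) (nat_lit 5) (nat_lit 8) (nat_lit 4) (nat_lit 289) (nat_lit 242) (nat_lit 189)) (XT.lf (nat_lit 0) (nat_lit 31491649613) (nat_lit 76) (nat_lit 34317221782) (nat_lit 76) (nat_lit 2651520835) (nat_lit 7) (nat_lit 4) (nat_lit 8) (nat_lit 5) (nat_lit 8) (nat_lit 4) (nat_lit 290) (nat_lit 242) (nat_lit 188))))))))
noncomputable def xc54 : XT := (XT.nd (nat_lit 1404) (nat_lit 0) (nat_lit 0) (XT.nd (nat_lit 702) (nat_lit 152) (nat_lit 0) (XT.nd (nat_lit 312) (nat_lit 76) (nat_lit 0) (XT.nd (nat_lit 156) (nat_lit 76) (nat_lit 0) (XT.nd (nat_lit 78) (nat_lit 0) (nat_lit 0) (XT.lf (nat_lit 0) (nat_lit 4858303278) (nat_lit 152) (nat_lit 21743524237) (nat_lit 76) (nat_lit 46823162473) (nat_lit 6) (nat_lit 5) (nat_lit 8) (nat_lit 5) (nat_lit 7) (nat_lit 4) (nat_lit 291)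 (nat_lit 242) (nat_lit 187)) (XT.lf (nat_lit 0) (nat_lit 12855292720) (nat_lit 152) (nat_lit 5384274593) (nat_lit 76) (nat_lit 60546073663) (nat_lit 6) (nat_lit 5) (nat_lit 8) (nat_lit 5) (nat_lit 7) (nat_lit 4) (nat_lit 292) (nat_lit 242) (nat_lit 186))) (XT.nd (nat_lit 78) (nat_lit 0) (nat_lit 0) (XT.lf (nat_lit 0) (nat_lit 12652300310) (nat_lit 76) (nat_lit 9016939840) (nat_lit 152) (nat_lit 62897064856) (nat_lit 5) (nat_lit 5) (nat_lit 6) (nat_lit 5) (nat_lit 7) (nat_lit 4) (nat_lit 293) (nat_lit 242) (nat_lit 185)) (XT.lf (nat_lit 0) (nat_lit 31278745988) (nat_lit 152) (nat_lit 58532463285) (nat_lit 0) (nat_lit 993710110) (nat_lit 5) (nat_lit 5) (nat_lit 7) (nat_lit 4) (nat_lit 5) (nat_lit 4) (nat_lit 294) (nat_lit 242) (nat_lit 184)))) (XT.nd (nat_lit 156) (nat_lit 76) (nat_lit 0) (XT.nd (nat_lit 78) (nat_lit 0) (nat_lit 0) (XT.lf (nat_lit 0) (nat_lit 41790891247) (nat_lit 152)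 (nat_lit 44265342838) (nat_lit 0) (nat_lit 11479712800) (nat_lit 5) (nat_lit 5) (nat_lit 7) (nat_lit 4) (nat_lit 5) (nat_lit 4) (nat_lit 295) (nat_lit 242) (nat_lit 183)) (XT.lf (nat_lit 0) (nat_lit 53127190421) (nat_lit 152) (nat_lit 28887317755) (nat_lit 0) (nat_lit 22791805891) (nat_lit 5) (nat_lit 5) (nat_lit 7) (nat_lit 4) (nat_lit 5) (nat_lit 4) (nat_lit 296) (nat_lit 242) (nat_lit 182))) (XT.nd (nat_lit 78) (nat_lit 76) (nat_lit 0) (XT.lf (nat_lit 0) (nat_lit 65354821579) (nat_lit 152) (nat_lit 12307258998) (nat_lit 0) (nat_lit 34997024009) (nat_lit 5) (nat_lit 5) (nat_lit 7) (nat_lit 4) (nat_lit 5) (nat_lit 4) (nat_lit 297) (nat_lit 242) (nat_lit 181)) (XT.nd (nat_lit 78) (nat_lit 0) (nat_lit 0) (XT.lf (nat_lit 0) (nat_lit 5757357012) (nat_lit 76) (nat_lit 72878776222) (nat_lit 76) (nat_lit 42500225839) (nat_lit 4) (nat_lit 4) (nat_lit 5) (nat_lit 5) (nat_lit 5) (nat_lit 4) (nat_lit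 298) (nat_lit 242) (nat_lit 180)) (XT.lf (nat_lit 0) (nat_lit 25681646817) (nat_lit 76) (nat_lit 67498947013) (nat_lit 76) (nat_lit 37101181061) (nat_lit 4) (nat_lit 4) (nat_lit 5) (nat_lit 5) (nat_lit 5) (nat_lit 4) (nat_lit 299) (nat_lit 242) (nat_lit 179)))))) (XT.nd (nat_lit 312) (nat_lit 152) (nat_lit 0) (XT.nd (nat_lit 156) (nat_lit 0) (nat_lit 0) (XT.nd (nat_lit 78) (nat_lit 0) (nat_lit 0) (XT.lf (nat_lit 0) (nat_lit 47176746719) (nat_lit 76) (nat_lit 61699141866) (nat_lit 76) (nat_lit 31283583721) (nat_lit 4) (nat_lit 4) (nat_lit 5) (nat_lit 5) (nat_lit 5) (nat_lit 4) (nat_lit 300) (nat_lit 242) (nat_lit 178)) (XT.lf (nat_lit 0) (nat_lit 70370035088) (nat_lit 76) (nat_lit 55444991567) (nat_lit 76) (nat_lit 25012959168) (nat_lit 4) (nat_lit 4) (nat_lit 5) (nat_lit 5) (nat_lit 5) (nat_lit 4) (nat_lit 301) (nat_lit 242) (nat_lit 177))) (XT.nd (nat_lit 78) (nat_lit 0) (nat_lit 0)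 (XT.lf (nat_lit 0) (nat_lit 95398953633) (nat_lit 76) (nat_lit 48699434482) (nat_lit 76) (nat_lit 18252148145) (nat_lit 4) (nat_lit 4) (nat_lit 5) (nat_lit 5) (nat_lit 5) (nat_lit 4) (nat_lit 302) (nat_lit 242) (nat_lit 176)) (XT.lf (nat_lit 0) (nat_lit 122411821870) (nat_lit 76) (nat_lit 41422496941) (nat_lit 76) (nat_lit 10961086588) (nat_lit 4) (nat_lit 4) (nat_lit 5) (nat_lit 5) (nat_lit 5) (nat_lit 4) (nat_lit 303) (nat_lit 242) (nat_lit 175)))) (XT.nd (nat_lit 156) (nat_lit 76) (nat_lit 0) (XT.nd (nat_lit 78) (nat_lit 76) (nat_lit 0) (XT.lf (nat_lit 0) (nat_lit 151568716056) (nat_lit 76) (nat_lit 33571056351) (nat_lit 76) (nat_lit 3096568204) (nat_lit 4) (nat_lit 4) (nat_lit 5) (nat_lit 5) (nat_lit 5) (nat_lit 4) (nat_lit 304) (nat_lit 242) (nat_lit 174)) (XT.lf (nat_lit 0) (nat_lit 5215561538) (nat_lit 152) (nat_lit 19794696060) (nat_lit 76) (nat_lit 177738528190) (nat_lit 3) (nat_lit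 5) (nat_lit 5) (nat_lit 5) (nat_lit 4) (nat_lit 4) (nat_lit 305) (nat_lit 242) (nat_lit 173))) (XT.nd (nat_lit 78) (nat_lit 76) (nat_lit 0) (XT.lf (nat_lit 0) (nat_lit 14077467053) (nat_lit 152) (nat_lit 1639001855) (nat_lit 76) (nat_lit 202703562117) (nat_lit 3) (nat_lit 5) (nat_lit 5) (nat_lit 5) (nat_lit 4) (nat_lit 4) (nat_lit 306) (nat_lit 242) (nat_lit 172)) (XT.nd (nat_lit 78) (nat_lit 0) (nat_lit 0) (XT.lf (nat_lit 0) (nat_lit 18549079862) (nat_lit 76) (nat_lit 5381296113) (nat_lit 152) (nat_lit 211400504135) (nat_lit 2) (nat_lit 5) (nat_lit 3) (nat_lit 5) (nat_lit 4) (nat_lit 4) (nat_lit 307) (nat_lit 242) (nat_lit 171)) (XT.lf (nat_lit 0) (nat_lit 34683497608) (nat_lit 152) (nat_lit 213286583903) (nat_lit 0) (nat_lit 5618922887) (nat_lit 2) (nat_lit 5) (nat_lit 4) (nat_lit 4) (nat_lit 2) (nat_lit 4) (nat_lit 308) (nat_lit 242) (nat_lit 170))))))) (XT.nd (nat_lit 702) (nat_lit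 0) (nat_lit 0) (XT.nd (nat_lit 312) (nat_lit 0) (nat_lit 0) (XT.nd (nat_lit 156) (nat_lit 0) (nat_lit 0) (XT.nd (nat_lit 78) (nat_lit 0) (nat_lit 0) (XT.lf (nat_lit 0) (nat_lit 46380856364) (nat_lit 152) (nat_lit 209614923755) (nat_lit 0) (nat_lit 17307804952) (nat_lit 2) (nat_lit 5) (nat_lit 4) (nat_lit 4) (nat_lit 2) (nat_lit 4) (nat_lit 309) (nat_lit 242) (nat_lit 169)) (XT.lf (nat_lit 0) (nat_lit 59007752813) (nat_lit 152) (nat_lit 205661044706) (nat_lit 0) (nat_lit 29926852612) (nat_lit 2) (nat_lit 5) (nat_lit 4) (nat_lit 4) (nat_lit 2) (nat_lit 4) (nat_lit 310) (nat_lit 242) (nat_lit 168))) (XT.nd (nat_lit 78) (nat_lit 0) (nat_lit 0) (XT.lf (nat_lit 0) (nat_lit 72639013006) (nat_lit 152) (nat_lit 201401516360) (nat_lit 0) (nat_lit 43550845408) (nat_lit 2) (nat_lit 5) (nat_lit 4) (nat_lit 4) (nat_lit 2) (nat_lit 4) (nat_lit 311) (nat_lit 242) (nat_lit 167)) (XT.lf (nat_lit 0) (nat_lit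 87355414782) (nat_lit 152) (nat_lit 196811097068) (nat_lit 0) (nat_lit 58260518113) (nat_lit 2) (nat_lit 5) (nat_lit 4) (nat_lit 4) (nat_lit 2) (nat_lit 4) (nat_lit 312) (nat_lit 242) (nat_lit 166)))) (XT.nd (nat_lit 156) (nat_lit 0) (nat_lit 0) (XT.nd (nat_lit 78) (nat_lit 0) (nat_lit 0) (XT.lf (nat_lit 0) (nat_lit 103244166448) (nat_lit 152) (nat_lit 191862584346) (nat_lit 0) (nat_lit 74143039158) (nat_lit 2) (nat_lit 5) (nat_lit 4) (nat_lit 4) (nat_lit 2) (nat_lit 4) (nat_lit 313) (nat_lit 242) (nat_lit 165)) (XT.lf (nat_lit 0) (nat_lit 120399423570) (nat_lit 152) (nat_lit 186526653674) (nat_lit 0) (nat_lit 91292527185) (nat_lit 2) (nat_lit 5) (nat_lit 4) (nat_lit 4) (nat_lit 2) (nat_lit 4) (nat_lit 314) (nat_lit 242) (nat_lit 164))) (XT.nd (nat_lit 78) (nat_lit 0) (nat_lit 0) (XT.lf (nat_lit 0) (nat_lit 138922846930) (nat_lit 152) (nat_lit 180771684721) (nat_lit 0) (nat_lit 109810608791)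 (nat_lit 2) (nat_lit 5) (nat_lit 4) (nat_lit 4) (nat_lit 2) (nat_lit 4) (nat_lit 315) (nat_lit 242) (nat_lit 163)) (XT.nd (nat_lit 78) (nat_lit 0) (nat_lit 0) (XT.lf (nat_lit 0) (nat_lit 158924204962) (nat_lit 152) (nat_lit 174563573969) (nat_lit 0) (nat_lit 129807020756) (nat_lit 2) (nat_lit 5) (nat_lit 4) (nat_lit 4) (nat_lit 2) (nat_lit 4) (nat_lit 316) (nat_lit 242) (nat_lit 162)) (XT.lf (nat_lit 0) (nat_lit 180522024234) (nat_lit 152) (nat_lit 167865532612) (nat_lit 0) (nat_lit 151400260335) (nat_lit 2) (nat_lit 5) (nat_lit 4) (nat_lit 4) (nat_lit 2) (nat_lit 4) (nat_lit 317) (nat_lit 242) (nat_lit 161)))))) (XT.nd (nat_lit 390) (nat_lit 0) (nat_lit 0) (XT.nd (nat_lit 156) (nat_lit 0) (nat_lit 0) (XT.nd (nat_lit 78) (nat_lit 0) (nat_lit 0) (XT.lf (nat_lit 0) (nat_lit 203844291822) (nat_lit 152) (nat_lit 160637868554) (nat_lit 0) (nat_lit 174718287467) (nat_lit 2) (nat_lit 5) (nat_lit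 4) (nat_lit 4) (nat_lit 2) (nat_lit 4) (nat_lit 318) (nat_lit 242) (nat_lit 160)) (XT.lf (nat_lit 0) (nat_lit 229029213757) (nat_lit 152) (nat_lit 152837751194) (nat_lit 0) (nat_lit 199899283053) (nat_lit 2) (nat_lit 5) (nat_lit 4) (nat_lit 4) (nat_lit 2) (nat_lit 4) (nat_lit 319) (nat_lit 242) (nat_lit 159))) (XT.nd (nat_lit 78) (nat_lit 0) (nat_lit 0) (XT.lf (nat_lit 0) (nat_lit 256226034020) (nat_lit 152) (nat_lit 144418957612) (nat_lit 0) (nat_lit 227092467808) (nat_lit 2) (nat_lit 5) (nat_lit 4) (nat_lit 4) (nat_lit 2) (nat_lit 4) (nat_lit 320) (nat_lit 242) (nat_lit 158)) (XT.nd (nat_lit 78) (nat_lit 0) (nat_lit 0) (XT.lf (nat_lit 0) (nat_lit 285595918953) (nat_lit 152) (nat_lit 135331598662) (nat_lit 0) (nat_lit 256458986531) (nat_lit 2) (nat_lit 5) (nat_lit 4) (nat_lit 4) (nat_lit 2) (nat_lit 4) (nat_lit 321) (nat_lit 242) (nat_lit 157)) (XT.lf (nat_lit 0) (nat_lit 317312912320)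 (nat_lit 152) (nat_lit 125521823329) (nat_lit 0) (nat_lit 288172863035) (nat_lit 2) (nat_lit 5) (nat_lit 4) (nat_lit 4) (nat_lit 2) (nat_lit 4) (nat_lit 322) (nat_lit 242) (nat_lit 156))))) (XT.nd (nat_lit 31356) (nat_lit 0) (nat_lit 7752) (XT.nd (nat_lit 31278) (nat_lit 0) (nat_lit 8132) (XT.lf (nat_lit 0) (nat_lit 351564966673) (nat_lit 152) (nat_lit 114931499610) (nat_lit 0) (nat_lit 322422031405) (nat_lit 2) (nat_lit 5) (nat_lit 4) (nat_lit 4) (nat_lit 2) (nat_lit 4) (nat_lit 323) (nat_lit 242) (nat_lit 155)) (XT.lf (nat_lit 0) (nat_lit 1708019389) (nat_lit 380) (nat_lit 823821134) (nat_lit 380) (nat_lit 823821134) (nat_lit 109) (nat_lit 3) (nat_lit 114) (nat_lit 3) (nat_lit 114) (nat_lit 5) (nat_lit 243) (nat_lit 243) (nat_lit 234))) (XT.nd (nat_lit 78) (nat_lit 380) (nat_lit 0) (XT.lf (nat_lit 76) (nat_lit 3170362780) (nat_lit 0) (nat_lit 3460006564) (nat_lit 380) (nat_lit 180853500)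 (nat_lit 110) (nat_lit 5) (nat_lit 109) (nat_lit 3) (nat_lit 114) (nat_lit 5) (nat_lit 244) (nat_lit 243) (nat_lit 233)) (XT.nd (nat_lit 78) (nat_lit 0) (nat_lit 76) (XT.lf (nat_lit 76) (nat_lit 1330604932) (nat_lit 0) (nat_lit 1488234119) (nat_lit 456) (nat_lit 4112289717) (nat_lit 105) (nat_lit 5) (nat_lit 104) (nat_lit 5) (nat_lit 110) (nat_lit 5) (nat_lit 245) (nat_lit 243) (nat_lit 232)) (XT.lf (nat_lit 0) (nat_lit 5837137102) (nat_lit 380) (nat_lit 428640375) (nat_lit 456) (nat_lit 806747311) (nat_lit 105) (nat_lit 5) (nat_lit 110) (nat_lit 5) (nat_lit 111) (nat_lit 5) (nat_lit 246) (nat_lit 243) (nat_lit 231))))))))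
noncomputable def xc55 : XT := (XT.nd (nat_lit 1404) (nat_lit 1672) (nat_lit 0) (XT.nd (nat_lit 702) (nat_lit 1976) (nat_lit 0) (XT.nd (nat_lit 312) (nat_lit 2052) (nat_lit 0) (XT.nd (nat_lit 156) (nat_lit 988) (nat_lit 0) (XT.nd (nat_lit 78) (nat_lit 0) (nat_lit 0) (XT.lf (nat_lit 0) (nat_lit 1644863814) (nat_lit 456) (nat_lit 2138293111) (nat_lit 532) (nat_lit 3450100604) (nat_lit 99) (nat_lit 5) (nat_lit 105) (nat_lit 5) (nat_lit 106) (nat_lit 5) (nat_lit 247) (nat_lit 243) (nat_lit 230)) (XT.lf (nat_lit 76) (nat_lit 3588134657) (nat_lit 0) (nat_lit 932258346) (nat_lit 532) (nat_lit 2896093012) (nat_lit 100) (nat_lit 5) (nat_lit 99) (nat_lit 5) (nat_lit 106) (nat_lit 5) (nat_lit 248) (nat_lit 243) (nat_lit 229))) (XT.nd (nat_lit 78) (nat_lit 608) (nat_lit 0) (XT.lf (nat_lit 0) (nat_lit 2087688580) (nat_lit 456) (nat_lit 5403676760) (nat_lit 532) (nat_lit 130715839) (nat_lit 94) (nat_lit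 5) (nat_lit 100) (nat_lit 5) (nat_lit 101) (nat_lit 5) (nat_lit 249) (nat_lit 243) (nat_lit 228)) (XT.lf (nat_lit 0) (nat_lit 546991975) (nat_lit 532) (nat_lit 2081383194) (nat_lit 608) (nat_lit 5221187685) (nat_lit 86) (nat_lit 5) (nat_lit 93) (nat_lit 5) (nat_lit 94) (nat_lit 5) (nat_lit 250) (nat_lit 243) (nat_lit 227)))) (XT.nd (nat_lit 156) (nat_lit 1368) (nat_lit 0) (XT.nd (nat_lit 78) (nat_lit 684) (nat_lit 0) (XT.lf (nat_lit 0) (nat_lit 5511837686) (nat_lit 608) (nat_lit 991465388) (nat_lit 76) (nat_lit 1597220559) (nat_lit 86) (nat_lit 5) (nat_lit 94) (nat_lit 5) (nat_lit 87) (nat_lit 5) (nat_lit 251) (nat_lit 243) (nat_lit 226)) (XT.lf (nat_lit 0) (nat_lit 172527848) (nat_lit 684) (nat_lit 2575977592) (nat_lit 76) (nat_lit 5627248993) (nat_lit 77) (nat_lit 5) (nat_lit 86) (nat_lit 5) (nat_lit 78) (nat_lit 5) (nat_lit 252) (nat_lit 243) (nat_lit 225))) (XT.nd (nat_lit 78) (nat_lit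 684) (nat_lit 0) (XT.lf (nat_lit 0) (nat_lit 2985387893) (nat_lit 760) (nat_lit 4276053539) (nat_lit 76) (nat_lit 1414020507) (nat_lit 68) (nat_lit 5) (nat_lit 78) (nat_lit 5) (nat_lit 69) (nat_lit 5) (nat_lit 253) (nat_lit 243) (nat_lit 224)) (XT.nd (nat_lit 78) (nat_lit 380) (nat_lit 0) (XT.lf (nat_lit 0) (nat_lit 2899533114) (nat_lit 304) (nat_lit 3083431414) (nat_lit 380) (nat_lit 3018801128) (nat_lit 64) (nat_lit 5) (nat_lit 68) (nat_lit 5) (nat_lit 69) (nat_lit 5) (nat_lit 254) (nat_lit 243) (nat_lit 223)) (XT.lf (nat_lit 0) (nat_lit 1293846966) (nat_lit 380) (nat_lit 7877739274) (nat_lit 456) (nat_lit 185584741) (nat_lit 59) (nat_lit 5) (nat_lit 64) (nat_lit 5) (nat_lit 65) (nat_lit 5) (nat_lit 255) (nat_lit 243) (nat_lit 222)))))) (XT.nd (nat_lit 312) (nat_lit 988) (nat_lit 0) (XT.nd (nat_lit 156) (nat_lit 608) (nat_lit 0) (XT.nd (nat_lit 78) (nat_lit 304) (nat_lit 0) (XT.lf (nat_lit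 0) (nat_lit 2782018553) (nat_lit 456) (nat_lit 508400788) (nat_lit 76) (nat_lit 6448852541) (nat_lit 58) (nat_lit 5) (nat_lit 64) (nat_lit 5) (nat_lit 59) (nat_lit 5) (nat_lit 256) (nat_lit 243) (nat_lit 221)) (XT.lf (nat_lit 0) (nat_lit 5980757618) (nat_lit 380) (nat_lit 2446856506) (nat_lit 76) (nat_lit 1724619780) (nat_lit 54) (nat_lit 5) (nat_lit 59) (nat_lit 5) (nat_lit 55) (nat_lit 5) (nat_lit 257) (nat_lit 243) (nat_lit 220))) (XT.nd (nat_lit 78) (nat_lit 304) (nat_lit 0) (XT.lf (nat_lit 0) (nat_lit 5971140484) (nat_lit 304) (nat_lit 3481909479) (nat_lit 380) (nat_lit 1144723034) (nat_lit 50) (nat_lit 5) (nat_lit 54) (nat_lit 5) (nat_lit 55) (nat_lit 5) (nat_lit 258) (nat_lit 243) (nat_lit 219)) (XT.lf (nat_lit 0) (nat_lit 2058397694) (nat_lit 304) (nat_lit 7101264268) (nat_lit 76) (nat_lit 1917897201) (nat_lit 46) (nat_lit 5) (nat_lit 50) (nat_lit 5) (nat_lit 47) (nat_lit 5) (nat_lit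 259) (nat_lit 243) (nat_lit 218)))) (XT.nd (nat_lit 156) (nat_lit 684) (nat_lit 0) (XT.nd (nat_lit 78) (nat_lit 0) (nat_lit 0) (XT.lf (nat_lit 0) (nat_lit 1656451256) (nat_lit 304) (nat_lit 3860818110) (nat_lit 380) (nat_lit 6075885454) (nat_lit 42) (nat_lit 5) (nat_lit 46) (nat_lit 5) (nat_lit 47) (nat_lit 5) (nat_lit 260) (nat_lit 243) (nat_lit 217)) (XT.lf (nat_lit 0) (nat_lit 9286823153) (nat_lit 380) (nat_lit 963725014) (nat_lit 76) (nat_lit 1898071007) (nat_lit 42) (nat_lit 5) (nat_lit 47) (nat_lit 5) (nat_lit 43) (nat_lit 5) (nat_lit 261) (nat_lit 243) (nat_lit 216))) (XT.nd (nat_lit 78) (nat_lit 380) (nat_lit 0) (XT.lf (nat_lit 0) (nat_lit 681701495) (nat_lit 304) (nat_lit 3957237480) (nat_lit 76) (nat_lit 8104798543) (nat_lit 38) (nat_lit 5) (nat_lit 42) (nat_lit 5) (nat_lit 39) (nat_lit 5) (nat_lit 262) (nat_lit 243) (nat_lit 215)) (XT.nd (nat_lit 78) (nat_lit 152) (nat_lit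 0) (XT.lf (nat_lit 0) (nat_lit 4436428304) (nat_lit 304) (nat_lit 7443557355) (nat_lit 76) (nat_lit 1502994300) (nat_lit 35) (nat_lit 5) (nat_lit 39) (nat_lit 5) (nat_lit 36) (nat_lit 5) (nat_lit 263) (nat_lit 243) (nat_lit 214)) (XT.lf (nat_lit 0) (nat_lit 2560188970) (nat_lit 152) (nat_lit 6017140159) (nat_lit 228) (nat_lit 5491984547) (nat_lit 33) (nat_lit 5) (nat_lit 35) (nat_lit 5) (nat_lit 36) (nat_lit 5) (nat_lit 264) (nat_lit 243) (nat_lit 213))))))) (XT.nd (nat_lit 702) (nat_lit 608) (nat_lit 0) (XT.nd (nat_lit 312) (nat_lit 608) (nat_lit 0) (XT.nd (nat_lit 156) (nat_lit 152) (nat_lit 0) (XT.nd (nat_lit 78) (nat_lit 304) (nat_lit 0) (XT.lf (nat_lit 0) (nat_lit 13088618035) (nat_lit 228) (nat_lit 1321000401) (nat_lit 76) (nat_lit 399203628) (nat_lit 33) (nat_lit 5) (nat_lit 36) (nat_lit 5) (nat_lit 34) (nat_lit 5) (nat_lit 265) (nat_lit 243) (nat_lit 212)) (XT.lf (nat_lit 0) (nat_lit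 2444019420) (nat_lit 304) (nat_lit 5875296098) (nat_lit 76) (nat_lit 7278234770) (nat_lit 29) (nat_lit 5) (nat_lit 33) (nat_lit 5) (nat_lit 30) (nat_lit 5) (nat_lit 266) (nat_lit 243) (nat_lit 211))) (XT.nd (nat_lit 78) (nat_lit 0) (nat_lit 0) (XT.lf (nat_lit 0) (nat_lit 5259880059) (nat_lit 152) (nat_lit 1640360780) (nat_lit 228) (nat_lit 9546952259) (nat_lit 27) (nat_lit 5) (nat_lit 29) (nat_lit 5) (nat_lit 30) (nat_lit 5) (nat_lit 267) (nat_lit 243) (nat_lit 210)) (XT.lf (nat_lit 0) (nat_lit 11820757655) (nat_lit 228) (nat_lit 77877290) (nat_lit 76) (nat_lit 5460951681) (nat_lit 27) (nat_lit 5) (nat_lit 30) (nat_lit 5) (nat_lit 28) (nat_lit 5) (nat_lit 268) (nat_lit 243) (nat_lit 209)))) (XT.nd (nat_lit 156) (nat_lit 228) (nat_lit 0) (XT.nd (nat_lit 78) (nat_lit 228) (nat_lit 0) (XT.lf (nat_lit 0) (nat_lit 12166142801) (nat_lit 152) (nat_lit 5109312763) (nat_lit 228) (nat_lit 1062645734)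 (nat_lit 25) (nat_lit 5) (nat_lit 27) (nat_lit 5) (nat_lit 28) (nat_lit 5) (nat_lit 269) (nat_lit 243) (nat_lit 208)) (XT.lf (nat_lit 0) (nat_lit 3708451284) (nat_lit 228) (nat_lit 13409802038) (nat_lit 76) (nat_lit 2270960925) (nat_lit 22) (nat_lit 5) (nat_lit 25) (nat_lit 5) (nat_lit 23) (nat_lit 5) (nat_lit 270) (nat_lit 243) (nat_lit 207))) (XT.nd (nat_lit 78) (nat_lit 228) (nat_lit 0) (XT.lf (nat_lit 0) (nat_lit 8948728624) (nat_lit 228) (nat_lit 1413183223) (nat_lit 76) (nat_lit 10155525146) (nat_lit 22) (nat_lit 5) (nat_lit 25) (nat_lit 5) (nat_lit 23) (nat_lit 5) (nat_lit 271) (nat_lit 243) (nat_lit 206)) (XT.nd (nat_lit 78) (nat_lit 76) (nat_lit 0) (XT.lf (nat_lit 0) (nat_lit 11818083489) (nat_lit 152) (nat_lit 2908730654) (nat_lit 228) (nat_lit 7003292545) (nat_lit 20) (nat_lit 5) (nat_lit 22) (nat_lit 5) (nat_lit 23) (nat_lit 5) (nat_lit 272) (nat_lit 243) (nat_lit 205)) (XT.lf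 (nat_lit 0) (nat_lit 3034705638) (nat_lit 76) (nat_lit 18021949053) (nat_lit 152) (nat_lit 1978769517) (nat_lit 19) (nat_lit 5) (nat_lit 20) (nat_lit 5) (nat_lit 21) (nat_lit 4) (nat_lit 273) (nat_lit 243) (nat_lit 204)))))) (XT.nd (nat_lit 390) (nat_lit 304) (nat_lit 0) (XT.nd (nat_lit 156) (nat_lit 76) (nat_lit 0) (XT.nd (nat_lit 78) (nat_lit 152) (nat_lit 0) (XT.lf (nat_lit 0) (nat_lit 3500832012) (nat_lit 152) (nat_lit 7270332200) (nat_lit 76) (nat_lit 13663234937) (nat_lit 18) (nat_lit 5) (nat_lit 20) (nat_lit 5) (nat_lit 19) (nat_lit 5) (nat_lit 274) (nat_lit 243) (nat_lit 203)) (XT.lf (nat_lit 0) (nat_lit 6563315629) (nat_lit 152) (nat_lit 2833009101) (nat_lit 228) (nat_lit 16545092475) (nat_lit 16) (nat_lit 5) (nat_lit 18) (nat_lit 5) (nat_lit 19) (nat_lit 5) (nat_lit 275) (nat_lit 243) (nat_lit 202))) (XT.nd (nat_lit 78) (nat_lit 76) (nat_lit 0) (XT.lf (nat_lit 0) (nat_lit 15927532703)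 (nat_lit 228) (nat_lit 5981199377) (nat_lit 76) (nat_lit 5652143738) (nat_lit 16) (nat_lit 5) (nat_lit 19) (nat_lit 5) (nat_lit 17) (nat_lit 4) (nat_lit 276) (nat_lit 243) (nat_lit 201)) (XT.nd (nat_lit 78) (nat_lit 0) (nat_lit 0) (XT.lf (nat_lit 0) (nat_lit 8632540996) (nat_lit 76) (nat_lit 14480998456) (nat_lit 152) (nat_lit 6189813326) (nat_lit 15) (nat_lit 5) (nat_lit 16) (nat_lit 5) (nat_lit 17) (nat_lit 4) (nat_lit 277) (nat_lit 243) (nat_lit 200)) (XT.lf (nat_lit 0) (nat_lit 24549153966) (nat_lit 76) (nat_lit 6381691479) (nat_lit 152) (nat_lit 251632590) (nat_lit 15) (nat_lit 5) (nat_lit 16) (nat_lit 5) (nat_lit 17) (nat_lit 4) (nat_lit 278) (nat_lit 243) (nat_lit 199))))) (XT.nd (nat_lit 156) (nat_lit 76) (nat_lit 0) (XT.nd (nat_lit 78) (nat_lit 0) (nat_lit 0) (XT.lf (nat_lit 0) (nat_lit 6094383127) (nat_lit 228) (nat_lit 24611161724) (nat_lit 76) (nat_lit 2495141633) (nat_lit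 12) (nat_lit 5) (nat_lit 15) (nat_lit 5) (nat_lit 13) (nat_lit 4) (nat_lit 279) (nat_lit 243) (nat_lit 198)) (XT.lf (nat_lit 0) (nat_lit 13121160781) (nat_lit 228) (nat_lit 10295156680) (nat_lit 76) (nat_lit 11954791093) (nat_lit 12) (nat_lit 5) (nat_lit 15) (nat_lit 5) (nat_lit 13) (nat_lit 4) (nat_lit 280) (nat_lit 243) (nat_lit 197))) (XT.nd (nat_lit 78) (nat_lit 0) (nat_lit 0) (XT.lf (nat_lit 0) (nat_lit 5266242860) (nat_lit 76) (nat_lit 15485993192) (nat_lit 152) (nat_lit 16960874305) (nat_lit 11) (nat_lit 5) (nat_lit 12) (nat_lit 5) (nat_lit 13) (nat_lit 4) (nat_lit 281) (nat_lit 243) (nat_lit 196)) (XT.nd (nat_lit 78) (nat_lit 0) (nat_lit 0) (XT.lf (nat_lit 0) (nat_lit 22374726781) (nat_lit 76) (nat_lit 6760285875) (nat_lit 152) (nat_lit 11100448638) (nat_lit 11) (nat_lit 5) (nat_lit 12) (nat_lit 5) (nat_lit 13) (nat_lit 4) (nat_lit 282) (nat_lit 243) (nat_lit 195)) (XT.lf (nat_lit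 0) (nat_lit 38194304445) (nat_lit 152) (nat_lit 2211325916) (nat_lit 0) (nat_lit 2553721363) (nat_lit 11) (nat_lit 5) (nat_lit 13) (nat_lit 4) (nat_lit 11) (nat_lit 4) (nat_lit 283) (nat_lit 243) (nat_lit 194))))))))
noncomputable def xc56 : XT := (XT.nd (nat_lit 1404) (nat_lit 152) (nat_lit 0) (XT.nd (nat_lit 702) (nat_lit 152) (nat_lit 0) (XT.nd (nat_lit 312) (nat_lit 152) (nat_lit 0) (XT.nd (nat_lit 156) (nat_lit 76) (nat_lit 0) (XT.nd (nat_lit 78) (nat_lit 0) (nat_lit 0) (XT.lf (nat_lit 0) (nat_lit 2330942151) (nat_lit 152) (nat_lit 30924376600) (nat_lit 76) (nat_lit 12628241784) (nat_lit 9) (nat_lit 5) (nat_lit 11) (nat_lit 5) (nat_lit 10) (nat_lit 4) (nat_lit 284) (nat_lit 243) (nat_lit 193)) (XT.lf (nat_lit 0) (nat_lit 9837038682) (nat_lit 152) (nat_lit 15594494388) (nat_lit 76) (nat_lit 23605836223) (nat_lit 9) (nat_lit 5) (nat_lit 11) (nat_lit 5) (nat_lit 10) (nat_lit 4) (nat_lit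 285) (nat_lit 243) (nat_lit 192))) (XT.nd (nat_lit 78) (nat_lit 0) (nat_lit 0) (XT.lf (nat_lit 0) (nat_lit 939978617) (nat_lit 76) (nat_lit 16988679994) (nat_lit 152) (nat_lit 34515607188) (nat_lit 8) (nat_lit 5) (nat_lit 9) (nat_lit 5) (nat_lit 10) (nat_lit 4) (nat_lit 286) (nat_lit 243) (nat_lit 191)) (XT.lf (nat_lit 0) (nat_lit 19304453715) (nat_lit 76) (nat_lit 7606581117) (nat_lit 152) (nat_lit 29200540107) (nat_lit 8) (nat_lit 5) (nat_lit 9) (nat_lit 5) (nat_lit 10) (nat_lit 4) (nat_lit 287) (nat_lit 243) (nat_lit 190)))) (XT.nd (nat_lit 156) (nat_lit 152) (nat_lit 0) (XT.nd (nat_lit 78) (nat_lit 0) (nat_lit 0) (XT.lf (nat_lit 0) (nat_lit 36625001896) (nat_lit 152) (nat_lit 21020601867) (nat_lit 0) (nat_lit 2426044873) (nat_lit 8) (nat_lit 5) (nat_lit 10) (nat_lit 4) (nat_lit 8) (nat_lit 4) (nat_lit 288) (nat_lit 243) (nat_lit 189)) (XT.lf (nat_lit 0) (nat_lit 47219867055) (nat_lit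 152) (nat_lit 4142922367) (nat_lit 0) (nat_lit 12980577420) (nat_lit 8) (nat_lit 5) (nat_lit 10) (nat_lit 4) (nat_lit 8) (nat_lit 4) (nat_lit 289) (nat_lit 243) (nat_lit 188))) (XT.nd (nat_lit 78) (nat_lit 76) (nat_lit 0) (XT.lf (nat_lit 0) (nat_lit 14509074185) (nat_lit 76) (nat_lit 44357107770) (nat_lit 76) (nat_lit 10080473125) (nat_lit 7) (nat_lit 4) (nat_lit 8) (nat_lit 5) (nat_lit 8) (nat_lit 4) (nat_lit 290) (nat_lit 243) (nat_lit 187)) (XT.nd (nat_lit 78) (nat_lit 76) (nat_lit 0) (XT.lf (nat_lit 0) (nat_lit 34762645037) (nat_lit 76) (nat_lit 36732134758) (nat_lit 76) (nat_lit 2420921399) (nat_lit 7) (nat_lit 4) (nat_lit 8) (nat_lit 5) (nat_lit 8) (nat_lit 4) (nat_lit 291) (nat_lit 243) (nat_lit 186)) (XT.lf (nat_lit 0) (nat_lit 5643774264) (nat_lit 152) (nat_lit 22773493442) (nat_lit 76) (nat_lit 50861473314) (nat_lit 6) (nat_lit 5) (nat_lit 8) (nat_lit 5) (nat_lit 7) (nat_lit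 4) (nat_lit 292) (nat_lit 243) (nat_lit 185)))))) (XT.nd (nat_lit 312) (nat_lit 76) (nat_lit 0) (XT.nd (nat_lit 156) (nat_lit 0) (nat_lit 0) (XT.nd (nat_lit 78) (nat_lit 76) (nat_lit 0) (XT.lf (nat_lit 0) (nat_lit 14251129772) (nat_lit 152) (nat_lit 5158060326) (nat_lit 76) (nat_lit 65660553855) (nat_lit 6) (nat_lit 5) (nat_lit 8) (nat_lit 5) (nat_lit 7) (nat_lit 4) (nat_lit 293) (nat_lit 243) (nat_lit 184)) (XT.lf (nat_lit 0) (nat_lit 14292890053) (nat_lit 76) (nat_lit 9459898293) (nat_lit 152) (nat_lit 67560970964) (nat_lit 5) (nat_lit 5) (nat_lit 6) (nat_lit 5) (nat_lit 7) (nat_lit 4) (nat_lit 294) (nat_lit 243) (nat_lit 183))) (XT.nd (nat_lit 78) (nat_lit 0) (nat_lit 0) (XT.lf (nat_lit 0) (nat_lit 34109152646) (nat_lit 152) (nat_lit 62620699921) (nat_lit 0) (nat_lit 1322731271) (nat_lit 5) (nat_lit 5) (nat_lit 7) (nat_lit 4) (nat_lit 5) (nat_lit 4) (nat_lit 295) (nat_lit 243) (nat_lit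 182)) (XT.lf (nat_lit 0) (nat_lit 45437965305) (nat_lit 152) (nat_lit 47256236536) (nat_lit 0) (nat_lit 12629130891) (nat_lit 5) (nat_lit 5) (nat_lit 7) (nat_lit 4) (nat_lit 5) (nat_lit 4) (nat_lit 296) (nat_lit 243) (nat_lit 181)))) (XT.nd (nat_lit 156) (nat_lit 76) (nat_lit 0) (XT.nd (nat_lit 78) (nat_lit 0) (nat_lit 0) (XT.lf (nat_lit 0) (nat_lit 57658664504) (nat_lit 152) (nat_lit 30688734907) (nat_lit 0) (nat_lit 24829077276) (nat_lit 5) (nat_lit 5) (nat_lit 7) (nat_lit 4) (nat_lit 5) (nat_lit 4) (nat_lit 297) (nat_lit 243) (nat_lit 180)) (XT.lf (nat_lit 0) (nat_lit 70843669203) (nat_lit 152) (nat_lit 12820017247) (nat_lit 0) (nat_lit 37994866405) (nat_lit 5) (nat_lit 5) (nat_lit 7) (nat_lit 4) (nat_lit 5) (nat_lit 4) (nat_lit 298) (nat_lit 243) (nat_lit 179))) (XT.nd (nat_lit 78) (nat_lit 0) (nat_lit 0) (XT.lf (nat_lit 0) (nat_lit 6669263213) (nat_lit 76) (nat_lit 78505975436) (nat_lit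 76) (nat_lit 45639380446) (nat_lit 4) (nat_lit 4) (nat_lit 5) (nat_lit 5) (nat_lit 5) (nat_lit 4) (nat_lit 299) (nat_lit 243) (nat_lit 178)) (XT.nd (nat_lit 78) (nat_lit 0) (nat_lit 0) (XT.lf (nat_lit 0) (nat_lit 28154065267) (nat_lit 76) (nat_lit 72710804549) (nat_lit 76) (nat_lit 39827735305) (nat_lit 4) (nat_lit 4) (nat_lit 5) (nat_lit 5) (nat_lit 5) (nat_lit 4) (nat_lit 300) (nat_lit 243) (nat_lit 177)) (XT.lf (nat_lit 0) (nat_lit 51337818590) (nat_lit 76) (nat_lit 66460945229) (nat_lit 76) (nat_lit 33562622047) (nat_lit 4) (nat_lit 4) (nat_lit 5) (nat_lit 5) (nat_lit 5) (nat_lit 4) (nat_lit 301) (nat_lit 243) (nat_lit 176))))))) (XT.nd (nat_lit 702) (nat_lit 0) (nat_lit 0) (XT.nd (nat_lit 312) (nat_lit 152) (nat_lit 0) (XT.nd (nat_lit 156) (nat_lit 0) (nat_lit 0) (XT.nd (nat_lit 78) (nat_lit 0) (nat_lit 0) (XT.lf (nat_lit 0) (nat_lit 76357908389) (nat_lit 76) (nat_lit 59719361275)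 (nat_lit 76) (nat_lit 26806914076) (nat_lit 4) (nat_lit 4) (nat_lit 5) (nat_lit 5) (nat_lit 5) (nat_lit 4) (nat_lit 302) (nat_lit 243) (nat_lit 175)) (XT.lf (nat_lit 0) (nat_lit 103362601862) (nat_lit 76) (nat_lit 52446102558) (nat_lit 76) (nat_lit 19520577566) (nat_lit 4) (nat_lit 4) (nat_lit 5) (nat_lit 5) (nat_lit 5) (nat_lit 4) (nat_lit 303) (nat_lit 243) (nat_lit 174))) (XT.nd (nat_lit 78) (nat_lit 0) (nat_lit 0) (XT.lf (nat_lit 0) (nat_lit 132511926822) (nat_lit 76) (nat_lit 44598068287) (nat_lit 76) (nat_lit 11660434227) (nat_lit 4) (nat_lit 4) (nat_lit 5) (nat_lit 5) (nat_lit 5) (nat_lit 4) (nat_lit 304) (nat_lit 243) (nat_lit 173)) (XT.lf (nat_lit 0) (nat_lit 163978620010) (nat_lit 76) (nat_lit 36128751591) (nat_lit 76) (nat_lit 3179905432) (nat_lit 4) (nat_lit 4) (nat_lit 5) (nat_lit 5) (nat_lit 5) (nat_lit 4) (nat_lit 305) (nat_lit 243) (nat_lit 172)))) (XT.nd (nat_lit 156)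 (nat_lit 76) (nat_lit 0) (XT.nd (nat_lit 78) (nat_lit 0) (nat_lit 0) (XT.lf (nat_lit 0) (nat_lit 5780146072) (nat_lit 152) (nat_lit 21109928285) (nat_lit 76) (nat_lit 192071115076) (nat_lit 3) (nat_lit 5) (nat_lit 5) (nat_lit 5) (nat_lit 4) (nat_lit 4) (nat_lit 306) (nat_lit 243) (nat_lit 171)) (XT.lf (nat_lit 0) (nat_lit 15340089982) (nat_lit 152) (nat_lit 1521655837) (nat_lit 76) (nat_lit 219024943967) (nat_lit 3) (nat_lit 5) (nat_lit 5) (nat_lit 5) (nat_lit 4) (nat_lit 4) (nat_lit 307) (nat_lit 243) (nat_lit 170))) (XT.nd (nat_lit 78) (nat_lit 0) (nat_lit 0) (XT.lf (nat_lit 0) (nat_lit 20270674380) (nat_lit 76) (nat_lit 5704162306) (nat_lit 152) (nat_lit 228175898928) (nat_lit 2) (nat_lit 5) (nat_lit 3) (nat_lit 5) (nat_lit 4) (nat_lit 4) (nat_lit 308) (nat_lit 243) (nat_lit 169)) (XT.nd (nat_lit 78) (nat_lit 0) (nat_lit 0) (XT.lf (nat_lit 0) (nat_lit 37580132191) (nat_lit 152) (nat_lit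 230124878661) (nat_lit 0) (nat_lit 6164911185) (nat_lit 2) (nat_lit 5) (nat_lit 4) (nat_lit 4) (nat_lit 2) (nat_lit 4) (nat_lit 309) (nat_lit 243) (nat_lit 168)) (XT.lf (nat_lit 0) (nat_lit 50204245961) (nat_lit 152) (nat_lit 226176125105) (nat_lit 0) (nat_lit 18781757558) (nat_lit 2) (nat_lit 5) (nat_lit 4) (nat_lit 4) (nat_lit 2) (nat_lit 4) (nat_lit 310) (nat_lit 243) (nat_lit 167)))))) (XT.nd (nat_lit 312) (nat_lit 0) (nat_lit 0) (XT.nd (nat_lit 156) (nat_lit 0) (nat_lit 0) (XT.nd (nat_lit 78) (nat_lit 0) (nat_lit 0) (XT.lf (nat_lit 0) (nat_lit 63832929600) (nat_lit 152) (nat_lit 221921342587) (nat_lit 0) (nat_lit 32403712126) (nat_lit 2) (nat_lit 5) (nat_lit 4) (nat_lit 4) (nat_lit 2) (nat_lit 4) (nat_lit 311) (nat_lit 243) (nat_lit 166)) (XT.lf (nat_lit 0) (nat_lit 78546945678) (nat_lit 152) (nat_lit 217335317580) (nat_lit 0) (nat_lit 47111497583) (nat_lit 2) (nat_lit 5) (nat_lit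 4) (nat_lit 4) (nat_lit 2) (nat_lit 4) (nat_lit 312) (nat_lit 243) (nat_lit 165))) (XT.nd (nat_lit 78) (nat_lit 0) (nat_lit 0) (XT.lf (nat_lit 0) (nat_lit 94433488365) (nat_lit 152) (nat_lit 212390873641) (nat_lit 0) (nat_lit 62992271175) (nat_lit 2) (nat_lit 5) (nat_lit 4) (nat_lit 4) (nat_lit 2) (nat_lit 4) (nat_lit 313) (nat_lit 243) (nat_lit 164)) (XT.lf (nat_lit 0) (nat_lit 111586700135) (nat_lit 152) (nat_lit 207058710359) (nat_lit 0) (nat_lit 80140141191) (nat_lit 2) (nat_lit 5) (nat_lit 4) (nat_lit 4) (nat_lit 2) (nat_lit 4) (nat_lit 314) (nat_lit 243) (nat_lit 163)))) (XT.nd (nat_lit 156) (nat_lit 0) (nat_lit 0) (XT.nd (nat_lit 78) (nat_lit 0) (nat_lit 0) (XT.lf (nat_lit 0) (nat_lit 130108229650) (nat_lit 152) (nat_lit 201307229732) (nat_lit 0) (nat_lit 98656724639) (nat_lit 2) (nat_lit 5) (nat_lit 4) (nat_lit 4) (nat_lit 2) (nat_lit 4) (nat_lit 315) (nat_lit 243) (nat_lit 162))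 (XT.lf (nat_lit 0) (nat_lit 150107834124) (nat_lit 152) (nat_lit 195102348911) (nat_lit 0) (nat_lit 118651749420) (nat_lit 2) (nat_lit 5) (nat_lit 4) (nat_lit 4) (nat_lit 2) (nat_lit 4) (nat_lit 316) (nat_lit 243) (nat_lit 161))) (XT.nd (nat_lit 78) (nat_lit 0) (nat_lit 0) (XT.lf (nat_lit 0) (nat_lit 171704029729) (nat_lit 152) (nat_lit 188407298231) (nat_lit 0) (nat_lit 140243704569) (nat_lit 2) (nat_lit 5) (nat_lit 4) (nat_lit 4) (nat_lit 2) (nat_lit 4) (nat_lit 317) (nat_lit 243) (nat_lit 160)) (XT.nd (nat_lit 78) (nat_lit 0) (nat_lit 0) (XT.lf (nat_lit 0) (nat_lit 195024793923) (nat_lit 152) (nat_lit 181182403318) (nat_lit 0) (nat_lit 163560542414) (nat_lit 2) (nat_lit 5) (nat_lit 4) (nat_lit 4) (nat_lit 2) (nat_lit 4) (nat_lit 318) (nat_lit 243) (nat_lit 159)) (XT.lf (nat_lit 0) (nat_lit 220208323826) (nat_lit 152) (nat_lit 173384849980) (nat_lit 0) (nat_lit 188740436809) (nat_lit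 2) (nat_lit 5) (nat_lit 4) (nat_lit 4) (nat_lit 2) (nat_lit 4) (nat_lit 319) (nat_lit 243) (nat_lit 158))))))))
noncomputable def xc57 : XT := (XT.nd (nat_lit 32760) (nat_lit 0) (nat_lit 1064) (XT.nd (nat_lit 32058) (nat_lit 0) (nat_lit 3648) (XT.nd (nat_lit 31668) (nat_lit 0) (nat_lit 6840) (XT.nd (nat_lit 156) (nat_lit 0) (nat_lit 0) (XT.nd (nat_lit 78) (nat_lit 0) (nat_lit 0) (XT.lf (nat_lit 0) (nat_lit 247403855170) (nat_lit 152) (nat_lit 164968430494) (nat_lit 0) (nat_lit 215932601943) (nat_lit 2) (nat_lit 5) (nat_lit 4) (nat_lit 4) (nat_lit 2) (nat_lit 4) (nat_lit 320) (nat_lit 243) (nat_lit 157)) (XT.lf (nat_lit 0) (nat_lit 276772546660) (nat_lit 152) (nat_lit 155883269781) (nat_lit 0) (nat_lit 245298176571) (nat_lit 2) (nat_lit 5) (nat_lit 4) (nat_lit 4) (nat_lit 2) (nat_lit 4) (nat_lit 321) (nat_lit 243) (nat_lit 156))) (XT.nd (nat_lit 31434) (nat_lit 0) (nat_lit 7752) (XT.lf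 (nat_lit 0) (nat_lit 308488434987) (nat_lit 152) (nat_lit 146075529852) (nat_lit 0) (nat_lit 277011178915) (nat_lit 2) (nat_lit 5) (nat_lit 4) (nat_lit 4) (nat_lit 2) (nat_lit 4) (nat_lit 322) (nat_lit 243) (nat_lit 155)) (XT.lf (nat_lit 0) (nat_lit 658206408) (nat_lit 0) (nat_lit 658206408) (nat_lit 380) (nat_lit 2143510803) (nat_lit 104) (nat_lit 5) (nat_lit 104) (nat_lit 3) (nat_lit 109) (nat_lit 3) (nat_lit 244) (nat_lit 244) (nat_lit 232)))) (XT.nd (nat_lit 156) (nat_lit 456) (nat_lit 0) (XT.nd (nat_lit 78) (nat_lit 456) (nat_lit 0) (XT.lf (nat_lit 0) (nat_lit 5446526174) (nat_lit 380) (nat_lit 735525559) (nat_lit 456) (nat_lit 867192630) (nat_lit 104) (nat_lit 5) (nat_lit 109) (nat_lit 3) (nat_lit 110) (nat_lit 5) (nat_lit 245) (nat_lit 244) (nat_lit 231)) (XT.lf (nat_lit 0) (nat_lit 1075669505) (nat_lit 456) (nat_lit 2724478830) (nat_lit 532) (nat_lit 3397932673) (nat_lit 98) (nat_lit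 5) (nat_lit 104) (nat_lit 5) (nat_lit 105) (nat_lit 5) (nat_lit 246) (nat_lit 244) (nat_lit 230))) (XT.nd (nat_lit 78) (nat_lit 456) (nat_lit 0) (XT.lf (nat_lit 76) (nat_lit 2671336003) (nat_lit 0) (nat_lit 1041233319) (nat_lit 532) (nat_lit 3655978648) (nat_lit 99) (nat_lit 5) (nat_lit 98) (nat_lit 5) (nat_lit 105) (nat_lit 5) (nat_lit 247) (nat_lit 244) (nat_lit 229)) (XT.nd (nat_lit 78) (nat_lit 532) (nat_lit 0) (XT.lf (nat_lit 76) (nat_lit 880902282) (nat_lit 0) (nat_lit 5534690256) (nat_lit 532) (nat_lit 1145279620) (nat_lit 100) (nat_lit 5) (nat_lit 99) (nat_lit 5) (nat_lit 106) (nat_lit 5) (nat_lit 248) (nat_lit 244) (nat_lit 228)) (XT.lf (nat_lit 0) (nat_lit 1390408997) (nat_lit 532) (nat_lit 898226013) (nat_lit 608) (nat_lit 5485874183) (nat_lit 92) (nat_lit 5) (nat_lit 99) (nat_lit 5) (nat_lit 100) (nat_lit 5) (nat_lit 249) (nat_lit 244) (nat_lit 227)))))) (XT.nd (nat_lit 312)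 (nat_lit 1368) (nat_lit 0) (XT.nd (nat_lit 156) (nat_lit 1368) (nat_lit 0) (XT.nd (nat_lit 78) (nat_lit 532) (nat_lit 0) (XT.lf (nat_lit 0) (nat_lit 3984756559) (nat_lit 532) (nat_lit 2686391559) (nat_lit 76) (nat_lit 1339152785) (nat_lit 93) (nat_lit 5) (nat_lit 100) (nat_lit 5) (nat_lit 94) (nat_lit 5) (nat_lit 250) (nat_lit 244) (nat_lit 226)) (XT.lf (nat_lit 0) (nat_lit 3736383370) (nat_lit 532) (nat_lit 2967495467) (nat_lit 608) (nat_lit 1565955497) (nat_lit 86) (nat_lit 5) (nat_lit 93) (nat_lit 5) (nat_lit 94) (nat_lit 5) (nat_lit 251) (nat_lit 244) (nat_lit 225))) (XT.nd (nat_lit 78) (nat_lit 684) (nat_lit 0) (XT.lf (nat_lit 0) (nat_lit 967171557) (nat_lit 684) (nat_lit 6458574183) (nat_lit 76) (nat_lit 1128602274) (nat_lit 77) (nat_lit 5) (nat_lit 86) (nat_lit 5) (nat_lit 78) (nat_lit 5) (nat_lit 252) (nat_lit 244) (nat_lit 224)) (XT.lf (nat_lit 0) (nat_lit 333344132) (nat_lit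 684) (nat_lit 3275804961) (nat_lit 760) (nat_lit 5253740937) (nat_lit 68) (nat_lit 5) (nat_lit 77) (nat_lit 5) (nat_lit 78) (nat_lit 5) (nat_lit 253) (nat_lit 244) (nat_lit 223)))) (XT.nd (nat_lit 156) (nat_lit 1064) (nat_lit 0) (XT.nd (nat_lit 78) (nat_lit 304) (nat_lit 0) (XT.lf (nat_lit 0) (nat_lit 6431280792) (nat_lit 760) (nat_lit 1473119598) (nat_lit 76) (nat_lit 1293834478) (nat_lit 68) (nat_lit 5) (nat_lit 78) (nat_lit 5) (nat_lit 69) (nat_lit 5) (nat_lit 254) (nat_lit 244) (nat_lit 222)) (XT.lf (nat_lit 0) (nat_lit 6139835328) (nat_lit 304) (nat_lit 3338236703) (nat_lit 380) (nat_lit 82908645) (nat_lit 64) (nat_lit 5) (nat_lit 68) (nat_lit 5) (nat_lit 69) (nat_lit 5) (nat_lit 255) (nat_lit 244) (nat_lit 221))) (XT.nd (nat_lit 78) (nat_lit 608) (nat_lit 0) (XT.lf (nat_lit 0) (nat_lit 2701843050) (nat_lit 456) (nat_lit 5568946730) (nat_lit 76) (nat_lit 1681409449) (nat_lit 58)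 (nat_lit 5) (nat_lit 64) (nat_lit 5) (nat_lit 59) (nat_lit 5) (nat_lit 256) (nat_lit 244) (nat_lit 220)) (XT.nd (nat_lit 78) (nat_lit 304) (nat_lit 0) (XT.lf (nat_lit 0) (nat_lit 2432785848) (nat_lit 304) (nat_lit 3291128193) (nat_lit 380) (nat_lit 4650283891) (nat_lit 54) (nat_lit 5) (nat_lit 58) (nat_lit 5) (nat_lit 59) (nat_lit 5) (nat_lit 257) (nat_lit 244) (nat_lit 219)) (XT.lf (nat_lit 0) (nat_lit 273967441) (nat_lit 304) (nat_lit 8719559616) (nat_lit 380) (nat_lit 1836532155) (nat_lit 50) (nat_lit 5) (nat_lit 54) (nat_lit 5) (nat_lit 55) (nat_lit 5) (nat_lit 258) (nat_lit 244) (nat_lit 218))))))) (XT.nd (nat_lit 702) (nat_lit 988) (nat_lit 0) (XT.nd (nat_lit 312) (nat_lit 760) (nat_lit 0) (XT.nd (nat_lit 156) (nat_lit 532) (nat_lit 0) (XT.nd (nat_lit 78) (nat_lit 228) (nat_lit 0) (XT.lf (nat_lit 0) (nat_lit 1235277518) (nat_lit 380) (nat_lit 2108878185) (nat_lit 76) (nat_lit 7974068371)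 (nat_lit 49) (nat_lit 5) (nat_lit 54) (nat_lit 5) (nat_lit 50) (nat_lit 5) (nat_lit 259) (nat_lit 244) (nat_lit 217)) (XT.lf (nat_lit 0) (nat_lit 4524783524) (nat_lit 304) (nat_lit 4811489732) (nat_lit 76) (nat_lit 2506168442) (nat_lit 46) (nat_lit 5) (nat_lit 50) (nat_lit 5) (nat_lit 47) (nat_lit 5) (nat_lit 260) (nat_lit 244) (nat_lit 216))) (XT.nd (nat_lit 78) (nat_lit 228) (nat_lit 0) (XT.lf (nat_lit 0) (nat_lit 4522643239) (nat_lit 304) (nat_lit 3609904697) (nat_lit 380) (nat_lit 4273589884) (nat_lit 42) (nat_lit 5) (nat_lit 46) (nat_lit 5) (nat_lit 47) (nat_lit 5) (nat_lit 261) (nat_lit 244) (nat_lit 215)) (XT.lf (nat_lit 0) (nat_lit 1640771122) (nat_lit 228) (nat_lit 10435574861) (nat_lit 304) (nat_lit 936487085) (nat_lit 39) (nat_lit 5) (nat_lit 42) (nat_lit 5) (nat_lit 43) (nat_lit 5) (nat_lit 262) (nat_lit 244) (nat_lit 214)))) (XT.nd (nat_lit 156) (nat_lit 456) (nat_lit 0)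 (XT.nd (nat_lit 78) (nat_lit 228) (nat_lit 0) (XT.lf (nat_lit 0) (nat_lit 2682872571) (nat_lit 304) (nat_lit 1689914316) (nat_lit 76) (nat_lit 9288402901) (nat_lit 38) (nat_lit 5) (nat_lit 42) (nat_lit 5) (nat_lit 39) (nat_lit 5) (nat_lit 263) (nat_lit 244) (nat_lit 213)) (XT.lf (nat_lit 0) (nat_lit 6642216212) (nat_lit 304) (nat_lit 5480860996) (nat_lit 76) (nat_lit 2233631740) (nat_lit 35) (nat_lit 5) (nat_lit 39) (nat_lit 5) (nat_lit 36) (nat_lit 5) (nat_lit 264) (nat_lit 244) (nat_lit 212))) (XT.nd (nat_lit 78) (nat_lit 304) (nat_lit 0) (XT.lf (nat_lit 0) (nat_lit 5212009609) (nat_lit 152) (nat_lit 5803482357) (nat_lit 228) (nat_lit 4087725640) (nat_lit 33) (nat_lit 5) (nat_lit 35) (nat_lit 5) (nat_lit 36) (nat_lit 5) (nat_lit 265) (nat_lit 244) (nat_lit 211)) (XT.nd (nat_lit 78) (nat_lit 76) (nat_lit 0) (XT.lf (nat_lit 0) (nat_lit 944087497) (nat_lit 228) (nat_lit 14838607848) (nat_lit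 304) (nat_lit 124740184) (nat_lit 30) (nat_lit 5) (nat_lit 33) (nat_lit 5) (nat_lit 34) (nat_lit 5) (nat_lit 266) (nat_lit 244) (nat_lit 210)) (XT.lf (nat_lit 0) (nat_lit 4214540031) (nat_lit 304) (nat_lit 4051108851) (nat_lit 76) (nat_lit 8497654854) (nat_lit 29) (nat_lit 5) (nat_lit 33) (nat_lit 5) (nat_lit 30) (nat_lit 5) (nat_lit 267) (nat_lit 244) (nat_lit 209)))))) (XT.nd (nat_lit 390) (nat_lit 304) (nat_lit 0) (XT.nd (nat_lit 156) (nat_lit 380) (nat_lit 0) (XT.nd (nat_lit 78) (nat_lit 152) (nat_lit 0) (XT.lf (nat_lit 0) (nat_lit 7875177787) (nat_lit 152) (nat_lit 1069677189) (nat_lit 228) (nat_lit 8740427694) (nat_lit 27) (nat_lit 5) (nat_lit 29) (nat_lit 5) (nat_lit 30) (nat_lit 5) (nat_lit 268) (nat_lit 244) (nat_lit 208)) (XT.lf (nat_lit 0) (nat_lit 2076075440) (nat_lit 152) (nat_lit 12114935526) (nat_lit 228) (nat_lit 4483283204) (nat_lit 25) (nat_lit 5) (nat_lit 27) (nat_lit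 5) (nat_lit 28) (nat_lit 5) (nat_lit 269) (nat_lit 244) (nat_lit 207))) (XT.nd (nat_lit 78) (nat_lit 304) (nat_lit 0) (XT.lf (nat_lit 0) (nat_lit 233579135) (nat_lit 228) (nat_lit 4598101932) (nat_lit 76) (nat_lit 14904643655) (nat_lit 24) (nat_lit 5) (nat_lit 27) (nat_lit 5) (nat_lit 25) (nat_lit 5) (nat_lit 270) (nat_lit 244) (nat_lit 206)) (XT.nd (nat_lit 78) (nat_lit 152) (nat_lit 0) (XT.lf (nat_lit 0) (nat_lit 5291345802) (nat_lit 228) (nat_lit 12466577982) (nat_lit 76) (nat_lit 3115806154) (nat_lit 22) (nat_lit 5) (nat_lit 25) (nat_lit 5) (nat_lit 23) (nat_lit 5) (nat_lit 271) (nat_lit 244) (nat_lit 205)) (XT.lf (nat_lit 0) (nat_lit 351692760) (nat_lit 152) (nat_lit 10509368040) (nat_lit 228) (nat_lit 11235810079) (nat_lit 20) (nat_lit 5) (nat_lit 22) (nat_lit 5) (nat_lit 23) (nat_lit 5) (nat_lit 272) (nat_lit 244) (nat_lit 204))))) (XT.nd (nat_lit 156) (nat_lit 228) (nat_lit 0)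 (XT.nd (nat_lit 78) (nat_lit 76) (nat_lit 0) (XT.lf (nat_lit 0) (nat_lit 14549081057) (nat_lit 152) (nat_lit 2486480650) (nat_lit 228) (nat_lit 6374442488) (nat_lit 20) (nat_lit 5) (nat_lit 22) (nat_lit 5) (nat_lit 23) (nat_lit 5) (nat_lit 273) (nat_lit 244) (nat_lit 203)) (XT.lf (nat_lit 0) (nat_lit 5031622132) (nat_lit 76) (nat_lit 18793274210) (nat_lit 152) (nat_lit 997342165) (nat_lit 19) (nat_lit 5) (nat_lit 20) (nat_lit 5) (nat_lit 21) (nat_lit 4) (nat_lit 274) (nat_lit 244) (nat_lit 202))) (XT.nd (nat_lit 78) (nat_lit 152) (nat_lit 0) (XT.lf (nat_lit 0) (nat_lit 4802426786) (nat_lit 152) (nat_lit 6192361260) (nat_lit 76) (nat_lit 15341669188) (nat_lit 18) (nat_lit 5) (nat_lit 20) (nat_lit 5) (nat_lit 19) (nat_lit 5) (nat_lit 275) (nat_lit 244) (nat_lit 201)) (XT.nd (nat_lit 78) (nat_lit 0) (nat_lit 0) (XT.lf (nat_lit 0) (nat_lit 8675854310) (nat_lit 152) (nat_lit 2442820764) (nat_lit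 228) (nat_lit 16848025663) (nat_lit 16) (nat_lit 5) (nat_lit 18) (nat_lit 5) (nat_lit 19) (nat_lit 5) (nat_lit 276) (nat_lit 244) (nat_lit 200)) (XT.lf (nat_lit 0) (nat_lit 18109397167) (nat_lit 228) (nat_lit 4952405656) (nat_lit 76) (nat_lit 6657173277) (nat_lit 16) (nat_lit 5) (nat_lit 19) (nat_lit 5) (nat_lit 17) (nat_lit 4) (nat_lit 277) (nat_lit 244) (nat_lit 199))))))))
noncomputable def xc58 : XT := (XT.nd (nat_lit 1404) (nat_lit 228) (nat_lit 0) (XT.nd (nat_lit 702) (nat_lit 304) (nat_lit 0) (XT.nd (nat_lit 312) (nat_lit 228) (nat_lit 0) (XT.nd (nat_lit 156) (nat_lit 152) (nat_lit 0) (XT.nd (nat_lit 78) (nat_lit 76) (nat_lit 0) (XT.lf (nat_lit 0) (nat_lit 10764928975) (nat_lit 76) (nat_lit 15060631570) (nat_lit 152) (nat_lit 5777629585) (nat_lit 15) (nat_lit 5) (nat_lit 16) (nat_lit 5) (nat_lit 17) (nat_lit 4) (nat_lit 278) (nat_lit 244) (nat_lit 198)) (XT.lf (nat_lit 0) (nat_lit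 550200975) (nat_lit 152) (nat_lit 5796738678) (nat_lit 76) (nat_lit 27288553221) (nat_lit 14) (nat_lit 5) (nat_lit 16) (nat_lit 5) (nat_lit 15) (nat_lit 5) (nat_lit 279) (nat_lit 244) (nat_lit 197))) (XT.nd (nat_lit 78) (nat_lit 0) (nat_lit 0) (XT.lf (nat_lit 0) (nat_lit 7363594398) (nat_lit 228) (nat_lit 25244844582) (nat_lit 76) (nat_lit 3208171012) (nat_lit 12) (nat_lit 5) (nat_lit 15) (nat_lit 5) (nat_lit 13) (nat_lit 4) (nat_lit 280) (nat_lit 244) (nat_lit 196)) (XT.lf (nat_lit 0) (nat_lit 14894613477) (nat_lit 228) (nat_lit 9882463585) (nat_lit 76) (nat_lit 13386561462) (nat_lit 12) (nat_lit 5) (nat_lit 15) (nat_lit 5) (nat_lit 13) (nat_lit 4) (nat_lit 281) (nat_lit 244) (nat_lit 195)))) (XT.nd (nat_lit 156) (nat_lit 152) (nat_lit 0) (XT.nd (nat_lit 78) (nat_lit 0) (nat_lit 0) (XT.lf (nat_lit 0) (nat_lit 6870119583) (nat_lit 76) (nat_lit 16230906694) (nat_lit 152) (nat_lit 17593803524)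 (nat_lit 11) (nat_lit 5) (nat_lit 12) (nat_lit 5) (nat_lit 13) (nat_lit 4) (nat_lit 282) (nat_lit 244) (nat_lit 194)) (XT.lf (nat_lit 0) (nat_lit 25259683899) (nat_lit 76) (nat_lit 6843732862) (nat_lit 152) (nat_lit 11318169044) (nat_lit 11) (nat_lit 5) (nat_lit 12) (nat_lit 5) (nat_lit 13) (nat_lit 4) (nat_lit 283) (nat_lit 244) (nat_lit 193))) (XT.nd (nat_lit 78) (nat_lit 152) (nat_lit 0) (XT.lf (nat_lit 0) (nat_lit 41846833997) (nat_lit 152) (nat_lit 1350685277) (nat_lit 0) (nat_lit 3167960737) (nat_lit 11) (nat_lit 5) (nat_lit 13) (nat_lit 4) (nat_lit 11) (nat_lit 4) (nat_lit 284) (nat_lit 244) (nat_lit 192)) (XT.nd (nat_lit 78) (nat_lit 0) (nat_lit 0) (XT.lf (nat_lit 0) (nat_lit 3095683013) (nat_lit 152) (nat_lit 32386070929) (nat_lit 76) (nat_lit 14042898628) (nat_lit 9) (nat_lit 5) (nat_lit 11) (nat_lit 5) (nat_lit 10) (nat_lit 4) (nat_lit 285) (nat_lit 244) (nat_lit 191)) (XT.lf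 (nat_lit 0) (nat_lit 11159432786) (nat_lit 152) (nat_lit 15904780051) (nat_lit 76) (nat_lit 25868745251) (nat_lit 9) (nat_lit 5) (nat_lit 11) (nat_lit 5) (nat_lit 10) (nat_lit 4) (nat_lit 286) (nat_lit 244) (nat_lit 190)))))) (XT.nd (nat_lit 312) (nat_lit 228) (nat_lit 0) (XT.nd (nat_lit 156) (nat_lit 0) (nat_lit 0) (XT.nd (nat_lit 78) (nat_lit 0) (nat_lit 0) (XT.lf (nat_lit 0) (nat_lit 1911718013) (nat_lit 76) (nat_lit 17961000258) (nat_lit 152) (nat_lit 36741017851) (nat_lit 8) (nat_lit 5) (nat_lit 9) (nat_lit 5) (nat_lit 10) (nat_lit 4) (nat_lit 287) (nat_lit 244) (nat_lit 189)) (XT.lf (nat_lit 0) (nat_lit 21678940667) (nat_lit 76) (nat_lit 7856983407) (nat_lit 152) (nat_lit 31040437101) (nat_lit 8) (nat_lit 5) (nat_lit 9) (nat_lit 5) (nat_lit 10) (nat_lit 4) (nat_lit 288) (nat_lit 244) (nat_lit 188))) (XT.nd (nat_lit 78) (nat_lit 0) (nat_lit 0) (XT.lf (nat_lit 0) (nat_lit 39997222213)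 (nat_lit 152) (nat_lit 21916436043) (nat_lit 0) (nat_lit 2941111786) (nat_lit 8) (nat_lit 5) (nat_lit 10) (nat_lit 4) (nat_lit 8) (nat_lit 4) (nat_lit 289) (nat_lit 244) (nat_lit 187)) (XT.lf (nat_lit 0) (nat_lit 51406919535) (nat_lit 152) (nat_lit 3746750626) (nat_lit 0) (nat_lit 14316230394) (nat_lit 8) (nat_lit 5) (nat_lit 10) (nat_lit 4) (nat_lit 8) (nat_lit 4) (nat_lit 290) (nat_lit 244) (nat_lit 186)))) (XT.nd (nat_lit 156) (nat_lit 152) (nat_lit 0) (XT.nd (nat_lit 78) (nat_lit 0) (nat_lit 0) (XT.lf (nat_lit 0) (nat_lit 16365784801) (nat_lit 76) (nat_lit 47599690497) (nat_lit 76) (nat_lit 10476984029) (nat_lit 7) (nat_lit 4) (nat_lit 8) (nat_lit 5) (nat_lit 8) (nat_lit 4) (nat_lit 291) (nat_lit 244) (nat_lit 185)) (XT.lf (nat_lit 0) (nat_lit 38188086901) (nat_lit 76) (nat_lit 39387385265) (nat_lit 76) (nat_lit 2235033124) (nat_lit 7) (nat_lit 4) (nat_lit 8) (nat_lit 5) (nat_lit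 8) (nat_lit 4) (nat_lit 292) (nat_lit 244) (nat_lit 184))) (XT.nd (nat_lit 78) (nat_lit 76) (nat_lit 0) (XT.lf (nat_lit 0) (nat_lit 6435474015) (nat_lit 152) (nat_lit 23987080108) (nat_lit 76) (nat_lit 55181126641) (nat_lit 6) (nat_lit 5) (nat_lit 8) (nat_lit 5) (nat_lit 7) (nat_lit 4) (nat_lit 293) (nat_lit 244) (nat_lit 183)) (XT.nd (nat_lit 78) (nat_lit 76) (nat_lit 0) (XT.lf (nat_lit 0) (nat_lit 15706218125) (nat_lit 152) (nat_lit 5007471069) (nat_lit 76) (nat_lit 71145560628) (nat_lit 6) (nat_lit 5) (nat_lit 8) (nat_lit 5) (nat_lit 7) (nat_lit 4) (nat_lit 294) (nat_lit 244) (nat_lit 182)) (XT.lf (nat_lit 0) (nat_lit 15975077873) (nat_lit 76) (nat_lit 9978009829) (nat_lit 152) (nat_lit 72650468770) (nat_lit 5) (nat_lit 5) (nat_lit 6) (nat_lit 5) (nat_lit 7) (nat_lit 4) (nat_lit 295) (nat_lit 244) (nat_lit 181))))))) (XT.nd (nat_lit 702) (nat_lit 152) (nat_lit 0) (XT.nd (nat_lit 312)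 (nat_lit 76) (nat_lit 0) (XT.nd (nat_lit 156) (nat_lit 0) (nat_lit 0) (XT.nd (nat_lit 78) (nat_lit 0) (nat_lit 0) (XT.lf (nat_lit 0) (nat_lit 37119183707) (nat_lit 152) (nat_lit 67120787646) (nat_lit 0) (nat_lit 1642476686) (nat_lit 5) (nat_lit 5) (nat_lit 7) (nat_lit 4) (nat_lit 5) (nat_lit 4) (nat_lit 296) (nat_lit 244) (nat_lit 180)) (XT.lf (nat_lit 0) (nat_lit 49333464427) (nat_lit 152) (nat_lit 50564912989) (nat_lit 0) (nat_lit 13837541837) (nat_lit 5) (nat_lit 5) (nat_lit 7) (nat_lit 4) (nat_lit 5) (nat_lit 4) (nat_lit 297) (nat_lit 244) (nat_lit 179))) (XT.nd (nat_lit 78) (nat_lit 0) (nat_lit 0) (XT.lf (nat_lit 0) (nat_lit 62512526089) (nat_lit 152) (nat_lit 32706961042) (nat_lit 0) (nat_lit 26998811306) (nat_lit 5) (nat_lit 5) (nat_lit 7) (nat_lit 4) (nat_lit 5) (nat_lit 4) (nat_lit 298) (nat_lit 244) (nat_lit 178)) (XT.lf (nat_lit 0) (nat_lit 76734466835) (nat_lit 152) (nat_lit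 13441106907) (nat_lit 0) (nat_lit 41204277799) (nat_lit 5) (nat_lit 5) (nat_lit 7) (nat_lit 4) (nat_lit 5) (nat_lit 4) (nat_lit 299) (nat_lit 244) (nat_lit 177)))) (XT.nd (nat_lit 156) (nat_lit 0) (nat_lit 0) (XT.nd (nat_lit 78) (nat_lit 0) (nat_lit 0) (XT.lf (nat_lit 0) (nat_lit 7589736404) (nat_lit 76) (nat_lit 84612325485) (nat_lit 76) (nat_lit 49066882511) (nat_lit 4) (nat_lit 4) (nat_lit 5) (nat_lit 5) (nat_lit 5) (nat_lit 4) (nat_lit 300) (nat_lit 244) (nat_lit 176)) (XT.lf (nat_lit 0) (nat_lit 30764660982) (nat_lit 76) (nat_lit 78366439295) (nat_lit 76) (nat_lit 42806872304) (nat_lit 4) (nat_lit 4) (nat_lit 5) (nat_lit 5) (nat_lit 5) (nat_lit 4) (nat_lit 301) (nat_lit 244) (nat_lit 175))) (XT.nd (nat_lit 78) (nat_lit 0) (nat_lit 0) (XT.lf (nat_lit 0) (nat_lit 55776576017) (nat_lit 76) (nat_lit 71628534165) (nat_lit 76) (nat_lit 36055889381) (nat_lit 4) (nat_lit 4) (nat_lit 5) (nat_lit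 5) (nat_lit 5) (nat_lit 4) (nat_lit 302) (nat_lit 244) (nat_lit 174)) (XT.nd (nat_lit 78) (nat_lit 0) (nat_lit 0) (XT.lf (nat_lit 0) (nat_lit 82773700263) (nat_lit 76) (nat_lit 64358681767) (nat_lit 76) (nat_lit 28773927915) (nat_lit 4) (nat_lit 4) (nat_lit 5) (nat_lit 5) (nat_lit 5) (nat_lit 4) (nat_lit 303) (nat_lit 244) (nat_lit 173)) (XT.lf (nat_lit 0) (nat_lit 111916016680) (nat_lit 76) (nat_lit 56513801494) (nat_lit 76) (nat_lit 20917835542) (nat_lit 4) (nat_lit 4) (nat_lit 5) (nat_lit 5) (nat_lit 5) (nat_lit 4) (nat_lit 304) (nat_lit 244) (nat_lit 172)))))) (XT.nd (nat_lit 390) (nat_lit 0) (nat_lit 0) (XT.nd (nat_lit 156) (nat_lit 152) (nat_lit 0) (XT.nd (nat_lit 78) (nat_lit 0) (nat_lit 0) (XT.lf (nat_lit 0) (nat_lit 143376220477) (nat_lit 76) (nat_lit 48047405168) (nat_lit 76) (nat_lit 12441057642) (nat_lit 4) (nat_lit 4) (nat_lit 5) (nat_lit 5) (nat_lit 5) (nat_lit 4) (nat_lit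 305) (nat_lit 244) (nat_lit 171)) (XT.lf (nat_lit 0) (nat_lit 177340742489) (nat_lit 76) (nat_lit 38909321550) (nat_lit 76) (nat_lit 3293361456) (nat_lit 4) (nat_lit 4) (nat_lit 5) (nat_lit 5) (nat_lit 5) (nat_lit 4) (nat_lit 306) (nat_lit 244) (nat_lit 170))) (XT.nd (nat_lit 78) (nat_lit 76) (nat_lit 0) (XT.lf (nat_lit 0) (nat_lit 6368877725) (nat_lit 152) (nat_lit 22568661282) (nat_lit 76) (nat_lit 207534116208) (nat_lit 3) (nat_lit 5) (nat_lit 5) (nat_lit 5) (nat_lit 4) (nat_lit 4) (nat_lit 307) (nat_lit 244) (nat_lit 169)) (XT.nd (nat_lit 78) (nat_lit 76) (nat_lit 0) (XT.lf (nat_lit 0) (nat_lit 16684260114) (nat_lit 152) (nat_lit 1430368614) (nat_lit 76) (nat_lit 236637043119) (nat_lit 3) (nat_lit 5) (nat_lit 5) (nat_lit 5) (nat_lit 4) (nat_lit 4) (nat_lit 308) (nat_lit 244) (nat_lit 168)) (XT.lf (nat_lit 0) (nat_lit 22096090445) (nat_lit 76) (nat_lit 6068213486) (nat_lit 152) (nat_lit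 246312819318) (nat_lit 2) (nat_lit 5) (nat_lit 3) (nat_lit 5) (nat_lit 4) (nat_lit 4) (nat_lit 309) (nat_lit 244) (nat_lit 167))))) (XT.nd (nat_lit 156) (nat_lit 0) (nat_lit 0) (XT.nd (nat_lit 78) (nat_lit 0) (nat_lit 0) (XT.lf (nat_lit 0) (nat_lit 40691099329) (nat_lit 152) (nat_lit 248342283258) (nat_lit 0) (nat_lit 6740815386) (nat_lit 2) (nat_lit 5) (nat_lit 4) (nat_lit 4) (nat_lit 2) (nat_lit 4) (nat_lit 310) (nat_lit 244) (nat_lit 166)) (XT.lf (nat_lit 0) (nat_lit 54317397270) (nat_lit 152) (nat_lit 244091895025) (nat_lit 0) (nat_lit 20360882705) (nat_lit 2) (nat_lit 5) (nat_lit 4) (nat_lit 4) (nat_lit 2) (nat_lit 4) (nat_lit 311) (nat_lit 244) (nat_lit 165))) (XT.nd (nat_lit 78) (nat_lit 0) (nat_lit 0) (XT.lf (nat_lit 0) (nat_lit 69029204368) (nat_lit 152) (nat_lit 239509938801) (nat_lit 0) (nat_lit 35066920710) (nat_lit 2) (nat_lit 5) (nat_lit 4) (nat_lit 4) (nat_lit 2) (nat_lit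 4) (nat_lit 312) (nat_lit 244) (nat_lit 164)) (XT.nd (nat_lit 78) (nat_lit 0) (nat_lit 0) (XT.lf (nat_lit 0) (nat_lit 84913701703) (nat_lit 152) (nat_lit 234569262253) (nat_lit 0) (nat_lit 50946076291) (nat_lit 2) (nat_lit 5) (nat_lit 4) (nat_lit 4) (nat_lit 2) (nat_lit 4) (nat_lit 313) (nat_lit 244) (nat_lit 163)) (XT.lf (nat_lit 0) (nat_lit 102065019629) (nat_lit 152) (nat_lit 229240587297) (nat_lit 0) (nat_lit 68092448148) (nat_lit 2) (nat_lit 5) (nat_lit 4) (nat_lit 4) (nat_lit 2) (nat_lit 4) (nat_lit 314) (nat_lit 244) (nat_lit 162))))))))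
noncomputable def xc59 : XT := (XT.nd (nat_lit 32838) (nat_lit 0) (nat_lit 1368) (XT.nd (nat_lit 32136) (nat_lit 0) (nat_lit 5016) (XT.nd (nat_lit 312) (nat_lit 0) (nat_lit 0) (XT.nd (nat_lit 156) (nat_lit 0) (nat_lit 0) (XT.nd (nat_lit 78) (nat_lit 0) (nat_lit 0) (XT.lf (nat_lit 0) (nat_lit 120584795585) (nat_lit 152) (nat_lit 223492336600) (nat_lit 0) (nat_lit 86607644412) (nat_lit 2) (nat_lit 5) (nat_lit 4) (nat_lit 4) (nat_lit 2) (nat_lit 4) (nat_lit 315) (nat_lit 244) (nat_lit 161)) (XT.lf (nat_lit 0) (nat_lit 140582776392) (nat_lit 152) (nat_lit 217290446455) (nat_lit 0) (nat_lit 106601384763) (nat_lit 2) (nat_lit 5) (nat_lit 4) (nat_lit 4) (nat_lit 2) (nat_lit 4) (nat_lit 316) (nat_lit 244) (nat_lit 160))) (XT.nd (nat_lit 78) (nat_lit 0) (nat_lit 0) (XT.lf (nat_lit 0) (nat_lit 162177468603) (nat_lit 152) (nat_lit 210598164920) (nat_lit 0) (nat_lit 128192150626) (nat_lit 2) (nat_lit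 5) (nat_lit 4) (nat_lit 4) (nat_lit 2) (nat_lit 4) (nat_lit 317) (nat_lit 244) (nat_lit 159)) (XT.lf (nat_lit 0) (nat_lit 185496840765) (nat_lit 152) (nat_lit 203375834030) (nat_lit 0) (nat_lit 151507887279) (nat_lit 2) (nat_lit 5) (nat_lit 4) (nat_lit 4) (nat_lit 2) (nat_lit 4) (nat_lit 318) (nat_lit 244) (nat_lit 158)))) (XT.nd (nat_lit 156) (nat_lit 0) (nat_lit 0) (XT.nd (nat_lit 78) (nat_lit 0) (nat_lit 0) (XT.lf (nat_lit 0) (nat_lit 210679081749) (nat_lit 152) (nat_lit 195580654788) (nat_lit 0) (nat_lit 176686762053) (nat_lit 2) (nat_lit 5) (nat_lit 4) (nat_lit 4) (nat_lit 2) (nat_lit 4) (nat_lit 319) (nat_lit 244) (nat_lit 157)) (XT.lf (nat_lit 0) (nat_lit 237873419651) (nat_lit 152) (nat_lit 187166433538) (nat_lit 0) (nat_lit 203877983092) (nat_lit 2) (nat_lit 5) (nat_lit 4) (nat_lit 4) (nat_lit 2) (nat_lit 4) (nat_lit 320) (nat_lit 244) (nat_lit 156))) (XT.nd (nat_lit 78) (nat_lit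 0) (nat_lit 0) (XT.lf (nat_lit 0) (nat_lit 267241006101) (nat_lit 152) (nat_lit 178083308230) (nat_lit 0) (nat_lit 233242683559) (nat_lit 2) (nat_lit 5) (nat_lit 4) (nat_lit 4) (nat_lit 2) (nat_lit 4) (nat_lit 321) (nat_lit 244) (nat_lit 155)) (XT.nd (nat_lit 31512) (nat_lit 0) (nat_lit 7220) (XT.lf (nat_lit 0) (nat_lit 298955871243) (nat_lit 152) (nat_lit 168277452934) (nat_lit 0) (nat_lit 264954876494) (nat_lit 2) (nat_lit 5) (nat_lit 4) (nat_lit 4) (nat_lit 2) (nat_lit 4) (nat_lit 322) (nat_lit 244) (nat_lit 154)) (XT.lf (nat_lit 0) (nat_lit 443126064) (nat_lit 532) (nat_lit 1575032372) (nat_lit 532) (nat_lit 1575032372) (nat_lit 97) (nat_lit 3) (nat_lit 104) (nat_lit 3) (nat_lit 104) (nat_lit 5) (nat_lit 245) (nat_lit 245) (nat_lit 230)))))) (XT.nd (nat_lit 312) (nat_lit 1748) (nat_lit 0) (XT.nd (nat_lit 156) (nat_lit 456) (nat_lit 0) (XT.nd (nat_lit 78) (nat_lit 0) (nat_lit 76) (XT.lf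 (nat_lit 76) (nat_lit 1929543559) (nat_lit 0) (nat_lit 1380107520) (nat_lit 532) (nat_lit 4035008660) (nat_lit 98) (nat_lit 5) (nat_lit 97) (nat_lit 3) (nat_lit 104) (nat_lit 5) (nat_lit 246) (nat_lit 245) (nat_lit 229)) (XT.lf (nat_lit 0) (nat_lit 5769742554) (nat_lit 456) (nat_lit 152016872) (nat_lit 532) (nat_lit 1602678096) (nat_lit 98) (nat_lit 5) (nat_lit 104) (nat_lit 5) (nat_lit 105) (nat_lit 5) (nat_lit 247) (nat_lit 245) (nat_lit 228))) (XT.nd (nat_lit 78) (nat_lit 0) (nat_lit 76) (XT.lf (nat_lit 0) (nat_lit 574014091) (nat_lit 532) (nat_lit 2180002340) (nat_lit 608) (nat_lit 4970459586) (nat_lit 91) (nat_lit 5) (nat_lit 98) (nat_lit 5) (nat_lit 99) (nat_lit 5) (nat_lit 248) (nat_lit 245) (nat_lit 227)) (XT.lf (nat_lit 0) (nat_lit 2893502285) (nat_lit 532) (nat_lit 4243611484) (nat_lit 608) (nat_lit 809466540) (nat_lit 92) (nat_lit 5) (nat_lit 99) (nat_lit 5) (nat_lit 100) (nat_lit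 5) (nat_lit 249) (nat_lit 245) (nat_lit 226)))) (XT.nd (nat_lit 156) (nat_lit 1824) (nat_lit 0) (XT.nd (nat_lit 78) (nat_lit 0) (nat_lit 76) (XT.lf (nat_lit 76) (nat_lit 1821018840) (nat_lit 0) (nat_lit 3496846386) (nat_lit 608) (nat_lit 2873361662) (nat_lit 93) (nat_lit 5) (nat_lit 92) (nat_lit 5) (nat_lit 100) (nat_lit 5) (nat_lit 250) (nat_lit 245) (nat_lit 225)) (XT.lf (nat_lit 0) (nat_lit 7836982939) (nat_lit 532) (nat_lit 81902728) (nat_lit 76) (nat_lit 542204178) (nat_lit 93) (nat_lit 5) (nat_lit 100) (nat_lit 5) (nat_lit 94) (nat_lit 5) (nat_lit 251) (nat_lit 245) (nat_lit 224))) (XT.nd (nat_lit 78) (nat_lit 1292) (nat_lit 0) (XT.lf (nat_lit 0) (nat_lit 1743014726) (nat_lit 608) (nat_lit 2049303982) (nat_lit 76) (nat_lit 4959632975) (nat_lit 85) (nat_lit 5) (nat_lit 93) (nat_lit 5) (nat_lit 86) (nat_lit 5) (nat_lit 252) (nat_lit 245) (nat_lit 223)) (XT.nd (nat_lit 78) (nat_lit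 684) (nat_lit 0) (XT.lf (nat_lit 0) (nat_lit 4209003228) (nat_lit 684) (nat_lit 4100509341) (nat_lit 76) (nat_lit 760049456) (nat_lit 77) (nat_lit 5) (nat_lit 86) (nat_lit 5) (nat_lit 78) (nat_lit 5) (nat_lit 253) (nat_lit 245) (nat_lit 222)) (XT.lf (nat_lit 0) (nat_lit 3109829274) (nat_lit 684) (nat_lit 3761037761) (nat_lit 760) (nat_lit 2542302182) (nat_lit 68) (nat_lit 5) (nat_lit 77) (nat_lit 5) (nat_lit 78) (nat_lit 5) (nat_lit 254) (nat_lit 245) (nat_lit 221))))))) (XT.nd (nat_lit 702) (nat_lit 1368) (nat_lit 0) (XT.nd (nat_lit 312) (nat_lit 1216) (nat_lit 0) (XT.nd (nat_lit 156) (nat_lit 684) (nat_lit 0) (XT.nd (nat_lit 78) (nat_lit 76) (nat_lit 0) (XT.lf (nat_lit 0) (nat_lit 1141925805) (nat_lit 304) (nat_lit 8571224750) (nat_lit 380) (nat_lit 73220371) (nat_lit 64) (nat_lit 5) (nat_lit 68) (nat_lit 5) (nat_lit 69) (nat_lit 5) (nat_lit 255) (nat_lit 245) (nat_lit 220)) (XT.lf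 (nat_lit 0) (nat_lit 2550241588) (nat_lit 380) (nat_lit 1018835305) (nat_lit 76) (nat_lit 6616757284) (nat_lit 63) (nat_lit 5) (nat_lit 68) (nat_lit 5) (nat_lit 64) (nat_lit 5) (nat_lit 256) (nat_lit 245) (nat_lit 219))) (XT.nd (nat_lit 78) (nat_lit 304) (nat_lit 0) (XT.lf (nat_lit 0) (nat_lit 5400723272) (nat_lit 456) (nat_lit 3325578802) (nat_lit 76) (nat_lit 1890298492) (nat_lit 58) (nat_lit 5) (nat_lit 64) (nat_lit 5) (nat_lit 59) (nat_lit 5) (nat_lit 257) (nat_lit 245) (nat_lit 218)) (XT.lf (nat_lit 0) (nat_lit 5199436775) (nat_lit 304) (nat_lit 3321373601) (nat_lit 380) (nat_lit 2559302042) (nat_lit 54) (nat_lit 5) (nat_lit 58) (nat_lit 5) (nat_lit 59) (nat_lit 5) (nat_lit 258) (nat_lit 245) (nat_lit 217)))) (XT.nd (nat_lit 156) (nat_lit 608) (nat_lit 0) (XT.nd (nat_lit 78) (nat_lit 228) (nat_lit 0) (XT.lf (nat_lit 0) (nat_lit 331888439) (nat_lit 380) (nat_lit 8713516633) (nat_lit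 76) (nat_lit 2533777733) (nat_lit 49) (nat_lit 5) (nat_lit 54) (nat_lit 5) (nat_lit 50) (nat_lit 5) (nat_lit 259) (nat_lit 245) (nat_lit 216)) (XT.lf (nat_lit 0) (nat_lit 187768733) (nat_lit 228) (nat_lit 3234318350) (nat_lit 304) (nat_lit 8691421015) (nat_lit 46) (nat_lit 5) (nat_lit 49) (nat_lit 5) (nat_lit 50) (nat_lit 5) (nat_lit 260) (nat_lit 245) (nat_lit 215))) (XT.nd (nat_lit 78) (nat_lit 608) (nat_lit 0) (XT.lf (nat_lit 0) (nat_lit 6860114983) (nat_lit 304) (nat_lit 2746241149) (nat_lit 76) (nat_lit 3079466672) (nat_lit 46) (nat_lit 5) (nat_lit 50) (nat_lit 5) (nat_lit 47) (nat_lit 5) (nat_lit 261) (nat_lit 245) (nat_lit 214)) (XT.nd (nat_lit 78) (nat_lit 304) (nat_lit 0) (XT.lf (nat_lit 0) (nat_lit 7228141155) (nat_lit 304) (nat_lit 3418776924) (nat_lit 380) (nat_lit 2653571719) (nat_lit 42) (nat_lit 5) (nat_lit 46) (nat_lit 5) (nat_lit 47) (nat_lit 5) (nat_lit 262) (nat_lit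 245) (nat_lit 213)) (XT.lf (nat_lit 0) (nat_lit 823405032) (nat_lit 304) (nat_lit 9873534017) (nat_lit 76) (nat_lit 3263222494) (nat_lit 38) (nat_lit 5) (nat_lit 42) (nat_lit 5) (nat_lit 39) (nat_lit 5) (nat_lit 263) (nat_lit 245) (nat_lit 212)))))) (XT.nd (nat_lit 390) (nat_lit 684) (nat_lit 0) (XT.nd (nat_lit 156) (nat_lit 456) (nat_lit 0) (XT.nd (nat_lit 78) (nat_lit 0) (nat_lit 0) (XT.lf (nat_lit 0) (nat_lit 403073024) (nat_lit 228) (nat_lit 4169648169) (nat_lit 304) (nat_lit 10093560498) (nat_lit 35) (nat_lit 5) (nat_lit 38) (nat_lit 5) (nat_lit 39) (nat_lit 5) (nat_lit 264) (nat_lit 245) (nat_lit 211)) (XT.lf (nat_lit 0) (nat_lit 8760419335) (nat_lit 304) (nat_lit 3726102040) (nat_lit 76) (nat_lit 2935640090) (nat_lit 35) (nat_lit 5) (nat_lit 39) (nat_lit 5) (nat_lit 36) (nat_lit 5) (nat_lit 265) (nat_lit 245) (nat_lit 210))) (XT.nd (nat_lit 78) (nat_lit 304) (nat_lit 0) (XT.lf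 (nat_lit 0) (nat_lit 7726883204) (nat_lit 152) (nat_lit 5671885591) (nat_lit 228) (nat_lit 2834138693) (nat_lit 33) (nat_lit 5) (nat_lit 35) (nat_lit 5) (nat_lit 36) (nat_lit 5) (nat_lit 266) (nat_lit 245) (nat_lit 209)) (XT.nd (nat_lit 78) (nat_lit 0) (nat_lit 0) (XT.lf (nat_lit 0) (nat_lit 1327924923) (nat_lit 304) (nat_lit 14034043144) (nat_lit 76) (nat_lit 1742194717) (nat_lit 29) (nat_lit 5) (nat_lit 33) (nat_lit 5) (nat_lit 30) (nat_lit 5) (nat_lit 267) (nat_lit 245) (nat_lit 208)) (XT.lf (nat_lit 0) (nat_lit 5902011067) (nat_lit 304) (nat_lit 2408281462) (nat_lit 76) (nat_lit 9723730361) (nat_lit 29) (nat_lit 5) (nat_lit 33) (nat_lit 5) (nat_lit 30) (nat_lit 5) (nat_lit 268) (nat_lit 245) (nat_lit 207))))) (XT.nd (nat_lit 156) (nat_lit 380) (nat_lit 0) (XT.nd (nat_lit 78) (nat_lit 152) (nat_lit 0) (XT.lf (nat_lit 0) (nat_lit 10386628330) (nat_lit 152) (nat_lit 553474569) (nat_lit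 228) (nat_lit 8093399267) (nat_lit 27) (nat_lit 5) (nat_lit 29) (nat_lit 5) (nat_lit 30) (nat_lit 5) (nat_lit 269) (nat_lit 245) (nat_lit 206)) (XT.lf (nat_lit 0) (nat_lit 4096554384) (nat_lit 152) (nat_lit 12452259126) (nat_lit 228) (nat_lit 3555872055) (nat_lit 25) (nat_lit 5) (nat_lit 27) (nat_lit 5) (nat_lit 28) (nat_lit 5) (nat_lit 270) (nat_lit 245) (nat_lit 205))) (XT.nd (nat_lit 78) (nat_lit 304) (nat_lit 0) (XT.lf (nat_lit 0) (nat_lit 1404961217) (nat_lit 228) (nat_lit 3208666910) (nat_lit 76) (nat_lit 16641828405) (nat_lit 24) (nat_lit 5) (nat_lit 27) (nat_lit 5) (nat_lit 25) (nat_lit 5) (nat_lit 271) (nat_lit 245) (nat_lit 204)) (XT.nd (nat_lit 78) (nat_lit 152) (nat_lit 0) (XT.lf (nat_lit 0) (nat_lit 6817378444) (nat_lit 228) (nat_lit 11735502112) (nat_lit 76) (nat_lit 3933630621) (nat_lit 22) (nat_lit 5) (nat_lit 25) (nat_lit 5) (nat_lit 23) (nat_lit 5) (nat_lit 272) (nat_lit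 245) (nat_lit 203)) (XT.lf (nat_lit 0) (nat_lit 2033116040) (nat_lit 152) (nat_lit 10743683727) (nat_lit 228) (nat_lit 11033643904) (nat_lit 20) (nat_lit 5) (nat_lit 22) (nat_lit 5) (nat_lit 23) (nat_lit 5) (nat_lit 273) (nat_lit 245) (nat_lit 202))))))))
noncomputable def xc60 : XT := (XT.nd (nat_lit 1404) (nat_lit 456) (nat_lit 0) (XT.nd (nat_lit 702) (nat_lit 304) (nat_lit 0) (XT.nd (nat_lit 312) (nat_lit 304) (nat_lit 0) (XT.nd (nat_lit 156) (nat_lit 228) (nat_lit 0) (XT.nd (nat_lit 78) (nat_lit 76) (nat_lit 0) (XT.lf (nat_lit 0) (nat_lit 17243829634) (nat_lit 152) (nat_lit 2123886365) (nat_lit 228) (nat_lit 5864924756) (nat_lit 20) (nat_lit 5) (nat_lit 22) (nat_lit 5) (nat_lit 23) (nat_lit 5) (nat_lit 274) (nat_lit 245) (nat_lit 201)) (XT.lf (nat_lit 0) (nat_lit 6938044258) (nat_lit 76) (nat_lit 19721949823) (nat_lit 152) (nat_lit 99995697) (nat_lit 19) (nat_lit 5) (nat_lit 20) (nat_lit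 5) (nat_lit 21) (nat_lit 4) (nat_lit 275) (nat_lit 245) (nat_lit 200))) (XT.nd (nat_lit 78) (nat_lit 152) (nat_lit 0) (XT.lf (nat_lit 0) (nat_lit 6062416721) (nat_lit 152) (nat_lit 5264912784) (nat_lit 76) (nat_lit 17070867827) (nat_lit 18) (nat_lit 5) (nat_lit 20) (nat_lit 5) (nat_lit 19) (nat_lit 5) (nat_lit 276) (nat_lit 245) (nat_lit 199)) (XT.lf (nat_lit 0) (nat_lit 10730925253) (nat_lit 152) (nat_lit 2109414922) (nat_lit 228) (nat_lit 17320804093) (nat_lit 16) (nat_lit 5) (nat_lit 18) (nat_lit 5) (nat_lit 19) (nat_lit 5) (nat_lit 277) (nat_lit 245) (nat_lit 198)))) (XT.nd (nat_lit 156) (nat_lit 228) (nat_lit 0) (XT.nd (nat_lit 78) (nat_lit 76) (nat_lit 0) (XT.lf (nat_lit 0) (nat_lit 20336322679) (nat_lit 228) (nat_lit 4056340161) (nat_lit 76) (nat_lit 7663733799) (nat_lit 16) (nat_lit 5) (nat_lit 19) (nat_lit 5) (nat_lit 17) (nat_lit 4) (nat_lit 278) (nat_lit 245) (nat_lit 197))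 (XT.lf (nat_lit 0) (nat_lit 12862221286) (nat_lit 76) (nat_lit 15769214295) (nat_lit 152) (nat_lit 5461917450) (nat_lit 15) (nat_lit 5) (nat_lit 16) (nat_lit 5) (nat_lit 17) (nat_lit 4) (nat_lit 279) (nat_lit 245) (nat_lit 196))) (XT.nd (nat_lit 78) (nat_lit 152) (nat_lit 0) (XT.lf (nat_lit 0) (nat_lit 1291461612) (nat_lit 152) (nat_lit 5091917817) (nat_lit 76) (nat_lit 29907119924) (nat_lit 14) (nat_lit 5) (nat_lit 16) (nat_lit 5) (nat_lit 15) (nat_lit 5) (nat_lit 280) (nat_lit 245) (nat_lit 195)) (XT.nd (nat_lit 78) (nat_lit 0) (nat_lit 0) (XT.lf (nat_lit 0) (nat_lit 8622829944) (nat_lit 228) (nat_lit 26119704713) (nat_lit 76) (nat_lit 3904997916) (nat_lit 12) (nat_lit 5) (nat_lit 15) (nat_lit 5) (nat_lit 13) (nat_lit 4) (nat_lit 281) (nat_lit 245) (nat_lit 194)) (XT.lf (nat_lit 0) (nat_lit 16706689958) (nat_lit 228) (nat_lit 9613127862) (nat_lit 76) (nat_lit 14865054178) (nat_lit 12)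 (nat_lit 5) (nat_lit 15) (nat_lit 5) (nat_lit 13) (nat_lit 4) (nat_lit 282) (nat_lit 245) (nat_lit 193)))))) (XT.nd (nat_lit 312) (nat_lit 76) (nat_lit 0) (XT.nd (nat_lit 156) (nat_lit 152) (nat_lit 0) (XT.nd (nat_lit 78) (nat_lit 0) (nat_lit 0) (XT.lf (nat_lit 0) (nat_lit 8433598572) (nat_lit 76) (nat_lit 17105883041) (nat_lit 152) (nat_lit 18380645319) (nat_lit 11) (nat_lit 5) (nat_lit 12) (nat_lit 5) (nat_lit 13) (nat_lit 4) (nat_lit 283) (nat_lit 245) (nat_lit 192)) (XT.lf (nat_lit 0) (nat_lit 28219226595) (nat_lit 76) (nat_lit 6999105391) (nat_lit 152) (nat_lit 11648935079) (nat_lit 11) (nat_lit 5) (nat_lit 12) (nat_lit 5) (nat_lit 13) (nat_lit 4) (nat_lit 284) (nat_lit 245) (nat_lit 191))) (XT.nd (nat_lit 78) (nat_lit 152) (nat_lit 0) (XT.lf (nat_lit 0) (nat_lit 45706399301) (nat_lit 152) (nat_lit 569211025) (nat_lit 0) (nat_lit 3772856500) (nat_lit 11) (nat_lit 5) (nat_lit 13)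 (nat_lit 4) (nat_lit 11) (nat_lit 4) (nat_lit 285) (nat_lit 245) (nat_lit 190)) (XT.lf (nat_lit 0) (nat_lit 3839107107) (nat_lit 152) (nat_lit 34109110411) (nat_lit 76) (nat_lit 15513036195) (nat_lit 9) (nat_lit 5) (nat_lit 11) (nat_lit 5) (nat_lit 10) (nat_lit 4) (nat_lit 286) (nat_lit 245) (nat_lit 189)))) (XT.nd (nat_lit 156) (nat_lit 0) (nat_lit 0) (XT.nd (nat_lit 78) (nat_lit 76) (nat_lit 0) (XT.lf (nat_lit 0) (nat_lit 12511233199) (nat_lit 152) (nat_lit 16373601165) (nat_lit 76) (nat_lit 28259268646) (nat_lit 9) (nat_lit 5) (nat_lit 11) (nat_lit 5) (nat_lit 10) (nat_lit 4) (nat_lit 287) (nat_lit 245) (nat_lit 188)) (XT.lf (nat_lit 0) (nat_lit 2833294950) (nat_lit 76) (nat_lit 19066283798) (nat_lit 152) (nat_lit 39220904636) (nat_lit 8) (nat_lit 5) (nat_lit 9) (nat_lit 5) (nat_lit 10) (nat_lit 4) (nat_lit 288) (nat_lit 245) (nat_lit 187))) (XT.nd (nat_lit 78) (nat_lit 0) (nat_lit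 0) (XT.lf (nat_lit 0) (nat_lit 24124959157) (nat_lit 76) (nat_lit 8178508302) (nat_lit 152) (nat_lit 33098306660) (nat_lit 8) (nat_lit 5) (nat_lit 9) (nat_lit 5) (nat_lit 10) (nat_lit 4) (nat_lit 289) (nat_lit 245) (nat_lit 186)) (XT.nd (nat_lit 78) (nat_lit 0) (nat_lit 0) (XT.lf (nat_lit 0) (nat_lit 43576132505) (nat_lit 152) (nat_lit 22996042101) (nat_lit 0) (nat_lit 3451592192) (nat_lit 8) (nat_lit 5) (nat_lit 10) (nat_lit 4) (nat_lit 8) (nat_lit 4) (nat_lit 290) (nat_lit 245) (nat_lit 185)) (XT.lf (nat_lit 0) (nat_lit 55870521722) (nat_lit 152) (nat_lit 3422686208) (nat_lit 0) (nat_lit 15716335736) (nat_lit 8) (nat_lit 5) (nat_lit 10) (nat_lit 4) (nat_lit 8) (nat_lit 4) (nat_lit 291) (nat_lit 245) (nat_lit 184))))))) (XT.nd (nat_lit 702) (nat_lit 228) (nat_lit 0) (XT.nd (nat_lit 312) (nat_lit 76) (nat_lit 0) (XT.nd (nat_lit 156) (nat_lit 76) (nat_lit 0) (XT.nd (nat_lit 78) (nat_lit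 0) (nat_lit 0) (XT.lf (nat_lit 0) (nat_lit 18271742270) (nat_lit 76) (nat_lit 51145332150) (nat_lit 76) (nat_lit 10963696466) (nat_lit 7) (nat_lit 4) (nat_lit 8) (nat_lit 5) (nat_lit 8) (nat_lit 4) (nat_lit 292) (nat_lit 245) (nat_lit 183)) (XT.lf (nat_lit 0) (nat_lit 41795628932) (nat_lit 76) (nat_lit 42295474617) (nat_lit 76) (nat_lit 2088422547) (nat_lit 7) (nat_lit 4) (nat_lit 8) (nat_lit 5) (nat_lit 8) (nat_lit 4) (nat_lit 293) (nat_lit 245) (nat_lit 182))) (XT.nd (nat_lit 78) (nat_lit 0) (nat_lit 0) (XT.lf (nat_lit 0) (nat_lit 7241976724) (nat_lit 152) (nat_lit 25384533476) (nat_lit 76) (nat_lit 59810582017) (nat_lit 6) (nat_lit 5) (nat_lit 8) (nat_lit 5) (nat_lit 7) (nat_lit 4) (nat_lit 294) (nat_lit 245) (nat_lit 181)) (XT.lf (nat_lit 0) (nat_lit 17232775564) (nat_lit 152) (nat_lit 4925186310) (nat_lit 76) (nat_lit 77036247372) (nat_lit 6) (nat_lit 5) (nat_lit 8) (nat_lit 5) (nat_lit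 7) (nat_lit 4) (nat_lit 295) (nat_lit 245) (nat_lit 180)))) (XT.nd (nat_lit 156) (nat_lit 0) (nat_lit 0) (XT.nd (nat_lit 78) (nat_lit 0) (nat_lit 0) (XT.lf (nat_lit 0) (nat_lit 17714981065) (nat_lit 76) (nat_lit 10571620705) (nat_lit 152) (nat_lit 78192118866) (nat_lit 5) (nat_lit 5) (nat_lit 6) (nat_lit 5) (nat_lit 7) (nat_lit 4) (nat_lit 296) (nat_lit 245) (nat_lit 179)) (XT.lf (nat_lit 0) (nat_lit 40329886827) (nat_lit 152) (nat_lit 72053578001) (nat_lit 0) (nat_lit 1957282668) (nat_lit 5) (nat_lit 5) (nat_lit 7) (nat_lit 4) (nat_lit 5) (nat_lit 4) (nat_lit 297) (nat_lit 245) (nat_lit 178))) (XT.nd (nat_lit 78) (nat_lit 0) (nat_lit 0) (XT.lf (nat_lit 0) (nat_lit 53503445678) (nat_lit 152) (nat_lit 54205594308) (nat_lit 0) (nat_lit 15114367265) (nat_lit 5) (nat_lit 5) (nat_lit 7) (nat_lit 4) (nat_lit 5) (nat_lit 4) (nat_lit 298) (nat_lit 245) (nat_lit 177)) (XT.nd (nat_lit 78) (nat_lit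 0) (nat_lit 0) (XT.lf (nat_lit 0) (nat_lit 67720291228) (nat_lit 152) (nat_lit 34948970037) (nat_lit 0) (nat_lit 29315958878) (nat_lit 5) (nat_lit 5) (nat_lit 7) (nat_lit 4) (nat_lit 5) (nat_lit 4) (nat_lit 299) (nat_lit 245) (nat_lit 176)) (XT.lf (nat_lit 0) (nat_lit 83064671453) (nat_lit 152) (nat_lit 14169591859) (nat_lit 0) (nat_lit 44646215086) (nat_lit 5) (nat_lit 5) (nat_lit 7) (nat_lit 4) (nat_lit 5) (nat_lit 4) (nat_lit 300) (nat_lit 245) (nat_lit 175)))))) (XT.nd (nat_lit 390) (nat_lit 152) (nat_lit 0) (XT.nd (nat_lit 156) (nat_lit 0) (nat_lit 0) (XT.nd (nat_lit 78) (nat_lit 0) (nat_lit 0) (XT.lf (nat_lit 0) (nat_lit 8528647255) (nat_lit 76) (nat_lit 91232024841) (nat_lit 76) (nat_lit 52800490681) (nat_lit 4) (nat_lit 4) (nat_lit 5) (nat_lit 5) (nat_lit 5) (nat_lit 4) (nat_lit 301) (nat_lit 245) (nat_lit 174)) (XT.lf (nat_lit 0) (nat_lit 33532993064) (nat_lit 76) (nat_lit 84497526029)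 (nat_lit 76) (nat_lit 46053882801) (nat_lit 4) (nat_lit 4) (nat_lit 5) (nat_lit 5) (nat_lit 5) (nat_lit 4) (nat_lit 302) (nat_lit 245) (nat_lit 173))) (XT.nd (nat_lit 78) (nat_lit 0) (nat_lit 0) (XT.lf (nat_lit 0) (nat_lit 60523108767) (nat_lit 76) (nat_lit 77230827630) (nat_lit 76) (nat_lit 38775972302) (nat_lit 4) (nat_lit 4) (nat_lit 5) (nat_lit 5) (nat_lit 5) (nat_lit 4) (nat_lit 303) (nat_lit 245) (nat_lit 172)) (XT.nd (nat_lit 78) (nat_lit 0) (nat_lit 0) (XT.lf (nat_lit 0) (nat_lit 89658935793) (nat_lit 76) (nat_lit 69388867727) (nat_lit 76) (nat_lit 30923630825) (nat_lit 4) (nat_lit 4) (nat_lit 5) (nat_lit 5) (nat_lit 5) (nat_lit 4) (nat_lit 304) (nat_lit 245) (nat_lit 171)) (XT.lf (nat_lit 0) (nat_lit 121113130893) (nat_lit 76) (nat_lit 60925175446) (nat_lit 76) (nat_lit 22450325975) (nat_lit 4) (nat_lit 4) (nat_lit 5) (nat_lit 5) (nat_lit 5) (nat_lit 4) (nat_lit 305) (nat_lit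 245) (nat_lit 170))))) (XT.nd (nat_lit 156) (nat_lit 152) (nat_lit 0) (XT.nd (nat_lit 78) (nat_lit 0) (nat_lit 0) (XT.lf (nat_lit 0) (nat_lit 155072089298) (nat_lit 76) (nat_lit 51789595574) (nat_lit 76) (nat_lit 13305845577) (nat_lit 4) (nat_lit 4) (nat_lit 5) (nat_lit 5) (nat_lit 5) (nat_lit 4) (nat_lit 306) (nat_lit 245) (nat_lit 169)) (XT.lf (nat_lit 0) (nat_lit 191737049280) (nat_lit 76) (nat_lit 41927991341) (nat_lit 76) (nat_lit 3436000116) (nat_lit 4) (nat_lit 4) (nat_lit 5) (nat_lit 5) (nat_lit 5) (nat_lit 4) (nat_lit 307) (nat_lit 245) (nat_lit 168))) (XT.nd (nat_lit 78) (nat_lit 76) (nat_lit 0) (XT.lf (nat_lit 0) (nat_lit 6986686955) (nat_lit 152) (nat_lit 24176913731) (nat_lit 76) (nat_lit 224220274796) (nat_lit 3) (nat_lit 5) (nat_lit 5) (nat_lit 5) (nat_lit 4) (nat_lit 4) (nat_lit 308) (nat_lit 245) (nat_lit 167)) (XT.nd (nat_lit 78) (nat_lit 76) (nat_lit 0) (XT.lf (nat_lit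 0) (nat_lit 18119277786) (nat_lit 152) (nat_lit 1362168053) (nat_lit 76) (nat_lit 255645255913) (nat_lit 3) (nat_lit 5) (nat_lit 5) (nat_lit 5) (nat_lit 4) (nat_lit 4) (nat_lit 309) (nat_lit 245) (nat_lit 166)) (XT.lf (nat_lit 0) (nat_lit 24038470851) (nat_lit 76) (nat_lit 6474553792) (nat_lit 152) (nat_lit 265917406314) (nat_lit 2) (nat_lit 5) (nat_lit 3) (nat_lit 5) (nat_lit 4) (nat_lit 4) (nat_lit 310) (nat_lit 245) (nat_lit 165))))))))
noncomputable def xc61 : XT := (XT.nd (nat_lit 32916) (nat_lit 0) (nat_lit 1900) (XT.nd (nat_lit 702) (nat_lit 0) (nat_lit 0) (XT.nd (nat_lit 312) (nat_lit 0) (nat_lit 0) (XT.nd (nat_lit 156) (nat_lit 0) (nat_lit 0) (XT.nd (nat_lit 78) (nat_lit 0) (nat_lit 0) (XT.lf (nat_lit 0) (nat_lit 44036027675) (nat_lit 152) (nat_lit 268044554726) (nat_lit 0) (nat_lit 7350992230) (nat_lit 2) (nat_lit 5) (nat_lit 4) (nat_lit 4) (nat_lit 2) (nat_lit 4) (nat_lit 311)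 (nat_lit 245) (nat_lit 164)) (XT.lf (nat_lit 0) (nat_lit 58745789422) (nat_lit 152) (nat_lit 263466365893) (nat_lit 0) (nat_lit 22055412223) (nat_lit 2) (nat_lit 5) (nat_lit 4) (nat_lit 4) (nat_lit 2) (nat_lit 4) (nat_lit 312) (nat_lit 245) (nat_lit 163))) (XT.nd (nat_lit 78) (nat_lit 0) (nat_lit 0) (XT.lf (nat_lit 0) (nat_lit 74628392912) (nat_lit 152) (nat_lit 258529177670) (nat_lit 0) (nat_lit 37933069645) (nat_lit 2) (nat_lit 5) (nat_lit 4) (nat_lit 4) (nat_lit 2) (nat_lit 4) (nat_lit 313) (nat_lit 245) (nat_lit 162)) (XT.lf (nat_lit 0) (nat_lit 91777957279) (nat_lit 152) (nat_lit 253203732645) (nat_lit 0) (nat_lit 55078054319) (nat_lit 2) (nat_lit 5) (nat_lit 4) (nat_lit 4) (nat_lit 2) (nat_lit 4) (nat_lit 314) (nat_lit 245) (nat_lit 161)))) (XT.nd (nat_lit 156) (nat_lit 0) (nat_lit 0) (XT.nd (nat_lit 78) (nat_lit 0) (nat_lit 0) (XT.lf (nat_lit 0) (nat_lit 110296109569) (nat_lit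 152) (nat_lit 247458472625) (nat_lit 0) (nat_lit 73591966153) (nat_lit 2) (nat_lit 5) (nat_lit 4) (nat_lit 4) (nat_lit 2) (nat_lit 4) (nat_lit 315) (nat_lit 245) (nat_lit 160)) (XT.lf (nat_lit 0) (nat_lit 130292586982) (nat_lit 152) (nat_lit 241259351625) (nat_lit 0) (nat_lit 93584517217) (nat_lit 2) (nat_lit 5) (nat_lit 4) (nat_lit 4) (nat_lit 2) (nat_lit 4) (nat_lit 316) (nat_lit 245) (nat_lit 159))) (XT.nd (nat_lit 78) (nat_lit 0) (nat_lit 0) (XT.lf (nat_lit 0) (nat_lit 151885887161) (nat_lit 152) (nat_lit 234569634113) (nat_lit 0) (nat_lit 115174181889) (nat_lit 2) (nat_lit 5) (nat_lit 4) (nat_lit 4) (nat_lit 2) (nat_lit 4) (nat_lit 317) (nat_lit 245) (nat_lit 158)) (XT.nd (nat_lit 78) (nat_lit 0) (nat_lit 0) (XT.lf (nat_lit 0) (nat_lit 175203970404) (nat_lit 152) (nat_lit 227349677318) (nat_lit 0) (nat_lit 138488898921) (nat_lit 2) (nat_lit 5) (nat_lit 4) (nat_lit 4) (nat_lit 2)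 (nat_lit 4) (nat_lit 318) (nat_lit 245) (nat_lit 157)) (XT.lf (nat_lit 0) (nat_lit 200385017945) (nat_lit 152) (nat_lit 219556696313) (nat_lit 0) (nat_lit 163666829600) (nat_lit 2) (nat_lit 5) (nat_lit 4) (nat_lit 4) (nat_lit 2) (nat_lit 4) (nat_lit 319) (nat_lit 245) (nat_lit 156)))))) (XT.nd (nat_lit 31824) (nat_lit 0) (nat_lit 6232) (XT.nd (nat_lit 156) (nat_lit 0) (nat_lit 0) (XT.nd (nat_lit 78) (nat_lit 0) (nat_lit 0) (XT.lf (nat_lit 0) (nat_lit 227578250807) (nat_lit 152) (nat_lit 211144510467) (nat_lit 0) (nat_lit 190857176478) (nat_lit 2) (nat_lit 5) (nat_lit 4) (nat_lit 4) (nat_lit 2) (nat_lit 4) (nat_lit 320) (nat_lit 245) (nat_lit 155)) (XT.lf (nat_lit 0) (nat_lit 256944814072) (nat_lit 152) (nat_lit 202063269792) (nat_lit 0) (nat_lit 220221067537) (nat_lit 2) (nat_lit 5) (nat_lit 4) (nat_lit 4) (nat_lit 2) (nat_lit 4) (nat_lit 321) (nat_lit 245) (nat_lit 154))) (XT.nd (nat_lit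 31590) (nat_lit 0) (nat_lit 7220) (XT.lf (nat_lit 0) (nat_lit 288658731820) (nat_lit 152) (nat_lit 192259159528) (nat_lit 0) (nat_lit 251932511020) (nat_lit 2) (nat_lit 5) (nat_lit 4) (nat_lit 4) (nat_lit 2) (nat_lit 4) (nat_lit 322) (nat_lit 245) (nat_lit 153)) (XT.lf (nat_lit 0) (nat_lit 2779693726) (nat_lit 532) (nat_lit 488175986) (nat_lit 532) (nat_lit 488175986) (nat_lit 97) (nat_lit 3) (nat_lit 104) (nat_lit 3) (nat_lit 104) (nat_lit 5) (nat_lit 246) (nat_lit 246) (nat_lit 228)))) (XT.nd (nat_lit 156) (nat_lit 456) (nat_lit 0) (XT.nd (nat_lit 78) (nat_lit 0) (nat_lit 76) (XT.lf (nat_lit 0) (nat_lit 166783987) (nat_lit 532) (nat_lit 3298163580) (nat_lit 608) (nat_lit 4234597694) (nat_lit 90) (nat_lit 5) (nat_lit 97) (nat_lit 3) (nat_lit 98) (nat_lit 5) (nat_lit 247) (nat_lit 246) (nat_lit 227)) (XT.lf (nat_lit 0) (nat_lit 2233351109) (nat_lit 532) (nat_lit 5644889640) (nat_lit 608)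 (nat_lit 30656350) (nat_lit 91) (nat_lit 5) (nat_lit 98) (nat_lit 5) (nat_lit 99) (nat_lit 5) (nat_lit 248) (nat_lit 246) (nat_lit 226))) (XT.nd (nat_lit 78) (nat_lit 532) (nat_lit 0) (XT.lf (nat_lit 76) (nat_lit 75429472) (nat_lit 0) (nat_lit 4314626957) (nat_lit 608) (nat_lit 3749439744) (nat_lit 92) (nat_lit 5) (nat_lit 91) (nat_lit 5) (nat_lit 99) (nat_lit 5) (nat_lit 249) (nat_lit 246) (nat_lit 225)) (XT.nd (nat_lit 78) (nat_lit 532) (nat_lit 0) (XT.lf (nat_lit 76) (nat_lit 6335936903) (nat_lit 0) (nat_lit 300959481) (nat_lit 608) (nat_lit 1756451816) (nat_lit 92) (nat_lit 5) (nat_lit 91) (nat_lit 5) (nat_lit 99) (nat_lit 5) (nat_lit 250) (nat_lit 246) (nat_lit 224)) (XT.lf (nat_lit 0) (nat_lit 347135994) (nat_lit 608) (nat_lit 4288369766) (nat_lit 684) (nat_lit 4034105787) (nat_lit 84) (nat_lit 5) (nat_lit 92) (nat_lit 5) (nat_lit 93) (nat_lit 5) (nat_lit 251) (nat_lit 246) (nat_lit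 223))))))) (XT.nd (nat_lit 702) (nat_lit 1672) (nat_lit 0) (XT.nd (nat_lit 312) (nat_lit 1444) (nat_lit 0) (XT.nd (nat_lit 156) (nat_lit 684) (nat_lit 0) (XT.nd (nat_lit 78) (nat_lit 532) (nat_lit 0) (XT.lf (nat_lit 76) (nat_lit 2361897872) (nat_lit 0) (nat_lit 115734538) (nat_lit 684) (nat_lit 6493455143) (nat_lit 85) (nat_lit 5) (nat_lit 84) (nat_lit 5) (nat_lit 93) (nat_lit 5) (nat_lit 252) (nat_lit 246) (nat_lit 222)) (XT.lf (nat_lit 0) (nat_lit 211577503) (nat_lit 608) (nat_lit 4572086966) (nat_lit 684) (nat_lit 4513280206) (nat_lit 77) (nat_lit 5) (nat_lit 85) (nat_lit 5) (nat_lit 86) (nat_lit 5) (nat_lit 253) (nat_lit 246) (nat_lit 221))) (XT.nd (nat_lit 78) (nat_lit 684) (nat_lit 0) (XT.lf (nat_lit 0) (nat_lit 7258736129) (nat_lit 684) (nat_lit 1963914649) (nat_lit 76) (nat_lit 427471211) (nat_lit 77) (nat_lit 5) (nat_lit 86) (nat_lit 5) (nat_lit 78) (nat_lit 5) (nat_lit 254)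 (nat_lit 246) (nat_lit 220)) (XT.lf (nat_lit 0) (nat_lit 5716141002) (nat_lit 684) (nat_lit 4253251716) (nat_lit 760) (nat_lit 60725769) (nat_lit 68) (nat_lit 5) (nat_lit 77) (nat_lit 5) (nat_lit 78) (nat_lit 5) (nat_lit 255) (nat_lit 246) (nat_lit 219)))) (XT.nd (nat_lit 156) (nat_lit 684) (nat_lit 0) (XT.nd (nat_lit 78) (nat_lit 380) (nat_lit 0) (XT.lf (nat_lit 0) (nat_lit 2365042843) (nat_lit 380) (nat_lit 6858281214) (nat_lit 76) (nat_lit 1216300819) (nat_lit 63) (nat_lit 5) (nat_lit 68) (nat_lit 5) (nat_lit 64) (nat_lit 5) (nat_lit 256) (nat_lit 246) (nat_lit 218)) (XT.lf (nat_lit 0) (nat_lit 1232135463) (nat_lit 380) (nat_lit 3802093886) (nat_lit 456) (nat_lit 5845400952) (nat_lit 58) (nat_lit 5) (nat_lit 63) (nat_lit 5) (nat_lit 64) (nat_lit 5) (nat_lit 257) (nat_lit 246) (nat_lit 217))) (XT.nd (nat_lit 78) (nat_lit 684) (nat_lit 0) (XT.lf (nat_lit 0) (nat_lit 7961324324) (nat_lit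 456) (nat_lit 1286340755) (nat_lit 76) (nat_lit 2105288050) (nat_lit 58) (nat_lit 5) (nat_lit 64) (nat_lit 5) (nat_lit 59) (nat_lit 5) (nat_lit 258) (nat_lit 246) (nat_lit 216)) (XT.nd (nat_lit 78) (nat_lit 380) (nat_lit 0) (XT.lf (nat_lit 0) (nat_lit 7820491220) (nat_lit 304) (nat_lit 3387285094) (nat_lit 380) (nat_lit 652416781) (nat_lit 54) (nat_lit 5) (nat_lit 58) (nat_lit 5) (nat_lit 59) (nat_lit 5) (nat_lit 259) (nat_lit 246) (nat_lit 215)) (XT.lf (nat_lit 0) (nat_lit 2289046706) (nat_lit 380) (nat_lit 7133424444) (nat_lit 76) (nat_lit 2981169128) (nat_lit 49) (nat_lit 5) (nat_lit 54) (nat_lit 5) (nat_lit 50) (nat_lit 5) (nat_lit 260) (nat_lit 246) (nat_lit 214)))))) (XT.nd (nat_lit 390) (nat_lit 608) (nat_lit 0) (XT.nd (nat_lit 156) (nat_lit 836) (nat_lit 0) (XT.nd (nat_lit 78) (nat_lit 0) (nat_lit 0) (XT.lf (nat_lit 0) (nat_lit 2381000565) (nat_lit 228) (nat_lit 3136460704) (nat_lit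 304) (nat_lit 7469096382) (nat_lit 46) (nat_lit 5) (nat_lit 49) (nat_lit 5) (nat_lit 50) (nat_lit 5) (nat_lit 261) (nat_lit 246) (nat_lit 213)) (XT.lf (nat_lit 0) (nat_lit 9100752694) (nat_lit 304) (nat_lit 865316503) (nat_lit 76) (nat_lit 3645443994) (nat_lit 46) (nat_lit 5) (nat_lit 50) (nat_lit 5) (nat_lit 47) (nat_lit 5) (nat_lit 262) (nat_lit 246) (nat_lit 212))) (XT.nd (nat_lit 78) (nat_lit 532) (nat_lit 0) (XT.lf (nat_lit 0) (nat_lit 9815725829) (nat_lit 304) (nat_lit 3280824903) (nat_lit 380) (nat_lit 1183839834) (nat_lit 42) (nat_lit 5) (nat_lit 46) (nat_lit 5) (nat_lit 47) (nat_lit 5) (nat_lit 263) (nat_lit 246) (nat_lit 211)) (XT.nd (nat_lit 78) (nat_lit 228) (nat_lit 0) (XT.lf (nat_lit 0) (nat_lit 2434579024) (nat_lit 304) (nat_lit 8612231895) (nat_lit 76) (nat_lit 3949155562) (nat_lit 38) (nat_lit 5) (nat_lit 42) (nat_lit 5) (nat_lit 39) (nat_lit 5) (nat_lit 264) (nat_lit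 246) (nat_lit 210)) (XT.lf (nat_lit 0) (nat_lit 2397361716) (nat_lit 228) (nat_lit 4002644966) (nat_lit 304) (nat_lit 9363038502) (nat_lit 35) (nat_lit 5) (nat_lit 38) (nat_lit 5) (nat_lit 39) (nat_lit 5) (nat_lit 265) (nat_lit 246) (nat_lit 209))))) (XT.nd (nat_lit 156) (nat_lit 456) (nat_lit 0) (XT.nd (nat_lit 78) (nat_lit 152) (nat_lit 0) (XT.lf (nat_lit 0) (nat_lit 10821700264) (nat_lit 304) (nat_lit 2143850839) (nat_lit 76) (nat_lit 3619151973) (nat_lit 35) (nat_lit 5) (nat_lit 39) (nat_lit 5) (nat_lit 36) (nat_lit 5) (nat_lit 266) (nat_lit 246) (nat_lit 208)) (XT.lf (nat_lit 0) (nat_lit 10143655968) (nat_lit 152) (nat_lit 5614769364) (nat_lit 228) (nat_lit 1705755764) (nat_lit 33) (nat_lit 5) (nat_lit 35) (nat_lit 5) (nat_lit 36) (nat_lit 5) (nat_lit 267) (nat_lit 246) (nat_lit 207))) (XT.nd (nat_lit 78) (nat_lit 152) (nat_lit 0) (XT.lf (nat_lit 0) (nat_lit 2684443948) (nat_lit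 304) (nat_lit 13335547988) (nat_lit 76) (nat_lit 2387369479) (nat_lit 29) (nat_lit 5) (nat_lit 33) (nat_lit 5) (nat_lit 30) (nat_lit 5) (nat_lit 268) (nat_lit 246) (nat_lit 206)) (XT.nd (nat_lit 78) (nat_lit 152) (nat_lit 0) (XT.lf (nat_lit 0) (nat_lit 7531843278) (nat_lit 304) (nat_lit 914630454) (nat_lit 76) (nat_lit 10969961368) (nat_lit 29) (nat_lit 5) (nat_lit 33) (nat_lit 5) (nat_lit 30) (nat_lit 5) (nat_lit 269) (nat_lit 246) (nat_lit 205)) (XT.lf (nat_lit 0) (nat_lit 12830586991) (nat_lit 152) (nat_lit 81825928) (nat_lit 228) (nat_lit 7586667984) (nat_lit 27) (nat_lit 5) (nat_lit 29) (nat_lit 5) (nat_lit 30) (nat_lit 5) (nat_lit 270) (nat_lit 246) (nat_lit 204))))))))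
noncomputable def xc62 : XT := (XT.nd (nat_lit 1404) (nat_lit 380) (nat_lit 0) (XT.nd (nat_lit 702) (nat_lit 532) (nat_lit 0) (XT.nd (nat_lit 312) (nat_lit 304) (nat_lit 0) (XT.nd (nat_lit 156) (nat_lit 304) (nat_lit 0) (XT.nd (nat_lit 78) (nat_lit 76) (nat_lit 0) (XT.lf (nat_lit 0) (nat_lit 6014121762) (nat_lit 152) (nat_lit 12906712111) (nat_lit 228) (nat_lit 2737740820) (nat_lit 25) (nat_lit 5) (nat_lit 27) (nat_lit 5) (nat_lit 28) (nat_lit 5) (nat_lit 271) (nat_lit 246) (nat_lit 203)) (XT.lf (nat_lit 0) (nat_lit 2505608931) (nat_lit 228) (nat_lit 1958773177) (nat_lit 76) (nat_lit 18440264234) (nat_lit 24) (nat_lit 5) (nat_lit 27) (nat_lit 5) (nat_lit 25) (nat_lit 5) (nat_lit 272) (nat_lit 246) (nat_lit 202))) (XT.nd (nat_lit 78) (nat_lit 152) (nat_lit 0) (XT.lf (nat_lit 0) (nat_lit 8308177652) (nat_lit 228) (nat_lit 11192516056) (nat_lit 76) (nat_lit 4735769609) (nat_lit 22) (nat_lit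 5) (nat_lit 25) (nat_lit 5) (nat_lit 23) (nat_lit 5) (nat_lit 273) (nat_lit 246) (nat_lit 201)) (XT.lf (nat_lit 0) (nat_lit 3613193186) (nat_lit 152) (nat_lit 11083259224) (nat_lit 228) (nat_lit 10972378814) (nat_lit 20) (nat_lit 5) (nat_lit 22) (nat_lit 5) (nat_lit 23) (nat_lit 5) (nat_lit 274) (nat_lit 246) (nat_lit 200)))) (XT.nd (nat_lit 156) (nat_lit 152) (nat_lit 0) (XT.nd (nat_lit 78) (nat_lit 152) (nat_lit 0) (XT.lf (nat_lit 0) (nat_lit 19935769211) (nat_lit 152) (nat_lit 1812390607) (nat_lit 228) (nat_lit 5460084845) (nat_lit 20) (nat_lit 5) (nat_lit 22) (nat_lit 5) (nat_lit 23) (nat_lit 5) (nat_lit 275) (nat_lit 246) (nat_lit 199)) (XT.lf (nat_lit 0) (nat_lit 706383202) (nat_lit 152) (nat_lit 20088573037) (nat_lit 76) (nat_lit 8064086953) (nat_lit 18) (nat_lit 5) (nat_lit 20) (nat_lit 5) (nat_lit 19) (nat_lit 5) (nat_lit 276) (nat_lit 246) (nat_lit 198))) (XT.nd (nat_lit 78)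 (nat_lit 152) (nat_lit 0) (XT.lf (nat_lit 0) (nat_lit 7298263791) (nat_lit 152) (nat_lit 4466252089) (nat_lit 76) (nat_lit 18866805689) (nat_lit 18) (nat_lit 5) (nat_lit 20) (nat_lit 5) (nat_lit 19) (nat_lit 5) (nat_lit 277) (nat_lit 246) (nat_lit 197)) (XT.nd (nat_lit 78) (nat_lit 0) (nat_lit 0) (XT.lf (nat_lit 0) (nat_lit 12756239636) (nat_lit 152) (nat_lit 1824780339) (nat_lit 228) (nat_lit 17956242406) (nat_lit 16) (nat_lit 5) (nat_lit 18) (nat_lit 5) (nat_lit 19) (nat_lit 5) (nat_lit 278) (nat_lit 246) (nat_lit 196)) (XT.lf (nat_lit 0) (nat_lit 22630387047) (nat_lit 228) (nat_lit 3272944468) (nat_lit 76) (nat_lit 8683199667) (nat_lit 16) (nat_lit 5) (nat_lit 19) (nat_lit 5) (nat_lit 17) (nat_lit 4) (nat_lit 279) (nat_lit 246) (nat_lit 195)))))) (XT.nd (nat_lit 312) (nat_lit 228) (nat_lit 0) (XT.nd (nat_lit 156) (nat_lit 152) (nat_lit 0) (XT.nd (nat_lit 78) (nat_lit 76) (nat_lit 0)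 (XT.lf (nat_lit 0) (nat_lit 14950953784) (nat_lit 76) (nat_lit 16605281789) (nat_lit 152) (nat_lit 5231927685) (nat_lit 15) (nat_lit 5) (nat_lit 16) (nat_lit 5) (nat_lit 17) (nat_lit 4) (nat_lit 280) (nat_lit 246) (nat_lit 194)) (XT.lf (nat_lit 0) (nat_lit 1992553369) (nat_lit 152) (nat_lit 4497419428) (nat_lit 76) (nat_lit 32673045523) (nat_lit 14) (nat_lit 5) (nat_lit 16) (nat_lit 5) (nat_lit 15) (nat_lit 5) (nat_lit 281) (nat_lit 246) (nat_lit 193))) (XT.nd (nat_lit 78) (nat_lit 0) (nat_lit 0) (XT.lf (nat_lit 0) (nat_lit 9887200230) (nat_lit 228) (nat_lit 27227861822) (nat_lit 76) (nat_lit 4594775341) (nat_lit 12) (nat_lit 5) (nat_lit 15) (nat_lit 5) (nat_lit 13) (nat_lit 4) (nat_lit 282) (nat_lit 246) (nat_lit 192)) (XT.lf (nat_lit 0) (nat_lit 18575210239) (nat_lit 228) (nat_lit 9473456546) (nat_lit 76) (nat_lit 16403682208) (nat_lit 12) (nat_lit 5) (nat_lit 15) (nat_lit 5) (nat_lit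 13) (nat_lit 4) (nat_lit 283) (nat_lit 246) (nat_lit 191)))) (XT.nd (nat_lit 156) (nat_lit 152) (nat_lit 0) (XT.nd (nat_lit 78) (nat_lit 0) (nat_lit 0) (XT.lf (nat_lit 0) (nat_lit 9977516072) (nat_lit 76) (nat_lit 18111273963) (nat_lit 152) (nat_lit 19318978900) (nat_lit 11) (nat_lit 5) (nat_lit 12) (nat_lit 5) (nat_lit 13) (nat_lit 4) (nat_lit 284) (nat_lit 246) (nat_lit 190)) (XT.lf (nat_lit 0) (nat_lit 31281606958) (nat_lit 76) (nat_lit 7222848894) (nat_lit 152) (nat_lit 12088147992) (nat_lit 11) (nat_lit 5) (nat_lit 12) (nat_lit 5) (nat_lit 13) (nat_lit 4) (nat_lit 285) (nat_lit 246) (nat_lit 189))) (XT.nd (nat_lit 78) (nat_lit 76) (nat_lit 0) (XT.lf (nat_lit 0) (nat_lit 152769477) (nat_lit 76) (nat_lit 49651328868) (nat_lit 76) (nat_lit 4225620064) (nat_lit 10) (nat_lit 4) (nat_lit 11) (nat_lit 5) (nat_lit 11) (nat_lit 4) (nat_lit 286) (nat_lit 246) (nat_lit 188)) (XT.nd (nat_lit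 78) (nat_lit 0) (nat_lit 0) (XT.lf (nat_lit 0) (nat_lit 4571278074) (nat_lit 152) (nat_lit 36093801012) (nat_lit 76) (nat_lit 17051323326) (nat_lit 9) (nat_lit 5) (nat_lit 11) (nat_lit 5) (nat_lit 10) (nat_lit 4) (nat_lit 287) (nat_lit 246) (nat_lit 187)) (XT.lf (nat_lit 0) (nat_lit 13905689631) (nat_lit 152) (nat_lit 16994564970) (nat_lit 76) (nat_lit 30795236282) (nat_lit 9) (nat_lit 5) (nat_lit 11) (nat_lit 5) (nat_lit 10) (nat_lit 4) (nat_lit 288) (nat_lit 246) (nat_lit 186))))))) (XT.nd (nat_lit 702) (nat_lit 76) (nat_lit 0) (XT.nd (nat_lit 312) (nat_lit 228) (nat_lit 0) (XT.nd (nat_lit 156) (nat_lit 0) (nat_lit 0) (XT.nd (nat_lit 78) (nat_lit 0) (nat_lit 0) (XT.lf (nat_lit 0) (nat_lit 3718943024) (nat_lit 76) (nat_lit 20307295967) (nat_lit 152) (nat_lit 41964720146) (nat_lit 8) (nat_lit 5) (nat_lit 9) (nat_lit 5) (nat_lit 10) (nat_lit 4) (nat_lit 289) (nat_lit 246) (nat_lit 185))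 (XT.lf (nat_lit 0) (nat_lit 26665126703) (nat_lit 76) (nat_lit 8569556988) (nat_lit 152) (nat_lit 35381488913) (nat_lit 8) (nat_lit 5) (nat_lit 9) (nat_lit 5) (nat_lit 10) (nat_lit 4) (nat_lit 290) (nat_lit 246) (nat_lit 184))) (XT.nd (nat_lit 78) (nat_lit 0) (nat_lit 0) (XT.lf (nat_lit 0) (nat_lit 47387268128) (nat_lit 152) (nat_lit 24258128741) (nat_lit 0) (nat_lit 3963651891) (nat_lit 8) (nat_lit 5) (nat_lit 10) (nat_lit 4) (nat_lit 8) (nat_lit 4) (nat_lit 291) (nat_lit 246) (nat_lit 183)) (XT.lf (nat_lit 0) (nat_lit 60641131074) (nat_lit 152) (nat_lit 3161689319) (nat_lit 0) (nat_lit 17192098451) (nat_lit 8) (nat_lit 5) (nat_lit 10) (nat_lit 4) (nat_lit 8) (nat_lit 4) (nat_lit 292) (nat_lit 246) (nat_lit 182)))) (XT.nd (nat_lit 156) (nat_lit 152) (nat_lit 0) (XT.nd (nat_lit 78) (nat_lit 0) (nat_lit 0) (XT.lf (nat_lit 0) (nat_lit 20245051170) (nat_lit 76) (nat_lit 55012049954) (nat_lit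 76) (nat_lit 11539483640) (nat_lit 7) (nat_lit 4) (nat_lit 8) (nat_lit 5) (nat_lit 8) (nat_lit 4) (nat_lit 293) (nat_lit 246) (nat_lit 181)) (XT.lf (nat_lit 0) (nat_lit 45612954726) (nat_lit 76) (nat_lit 45470863728) (nat_lit 76) (nat_lit 1976506959) (nat_lit 7) (nat_lit 4) (nat_lit 8) (nat_lit 5) (nat_lit 8) (nat_lit 4) (nat_lit 294) (nat_lit 246) (nat_lit 180))) (XT.nd (nat_lit 78) (nat_lit 76) (nat_lit 0) (XT.lf (nat_lit 0) (nat_lit 8071390407) (nat_lit 152) (nat_lit 26968182780) (nat_lit 76) (nat_lit 64779726629) (nat_lit 6) (nat_lit 5) (nat_lit 8) (nat_lit 5) (nat_lit 7) (nat_lit 4) (nat_lit 295) (nat_lit 246) (nat_lit 179)) (XT.nd (nat_lit 78) (nat_lit 76) (nat_lit 0) (XT.lf (nat_lit 0) (nat_lit 18842930521) (nat_lit 152) (nat_lit 4905207349) (nat_lit 76) (nat_lit 83369793504) (nat_lit 6) (nat_lit 5) (nat_lit 8) (nat_lit 5) (nat_lit 7) (nat_lit 4) (nat_lit 296) (nat_lit 246) (nat_lit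 178)) (XT.lf (nat_lit 0) (nat_lit 19528181747) (nat_lit 76) (nat_lit 11241913195) (nat_lit 152) (nat_lit 84215674755) (nat_lit 5) (nat_lit 5) (nat_lit 6) (nat_lit 5) (nat_lit 7) (nat_lit 4) (nat_lit 297) (nat_lit 246) (nat_lit 177)))))) (XT.nd (nat_lit 390) (nat_lit 0) (nat_lit 0) (XT.nd (nat_lit 156) (nat_lit 76) (nat_lit 0) (XT.nd (nat_lit 78) (nat_lit 0) (nat_lit 0) (XT.lf (nat_lit 0) (nat_lit 43763040826) (nat_lit 152) (nat_lit 77443316352) (nat_lit 0) (nat_lit 2271107949) (nat_lit 5) (nat_lit 5) (nat_lit 7) (nat_lit 4) (nat_lit 5) (nat_lit 4) (nat_lit 298) (nat_lit 246) (nat_lit 176)) (XT.lf (nat_lit 0) (nat_lit 57975168602) (nat_lit 152) (nat_lit 58195238251) (nat_lit 0) (nat_lit 16469111709) (nat_lit 5) (nat_lit 5) (nat_lit 7) (nat_lit 4) (nat_lit 5) (nat_lit 4) (nat_lit 299) (nat_lit 246) (nat_lit 175))) (XT.nd (nat_lit 78) (nat_lit 76) (nat_lit 0) (XT.lf (nat_lit 0) (nat_lit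 73315180517) (nat_lit 152) (nat_lit 37423773195) (nat_lit 0) (nat_lit 31796045831) (nat_lit 5) (nat_lit 5) (nat_lit 7) (nat_lit 4) (nat_lit 5) (nat_lit 4) (nat_lit 300) (nat_lit 246) (nat_lit 174)) (XT.nd (nat_lit 78) (nat_lit 76) (nat_lit 0) (XT.lf (nat_lit 0) (nat_lit 89873980346) (nat_lit 152) (nat_lit 15005831018) (nat_lit 0) (nat_lit 48342736592) (nat_lit 5) (nat_lit 5) (nat_lit 7) (nat_lit 4) (nat_lit 5) (nat_lit 4) (nat_lit 301) (nat_lit 246) (nat_lit 173)) (XT.lf (nat_lit 0) (nat_lit 9495345705) (nat_lit 76) (nat_lit 98402597560) (nat_lit 76) (nat_lit 56860141706) (nat_lit 4) (nat_lit 4) (nat_lit 5) (nat_lit 5) (nat_lit 5) (nat_lit 4) (nat_lit 302) (nat_lit 246) (nat_lit 172))))) (XT.nd (nat_lit 156) (nat_lit 0) (nat_lit 0) (XT.nd (nat_lit 78) (nat_lit 0) (nat_lit 0) (XT.lf (nat_lit 0) (nat_lit 36478972017) (nat_lit 76) (nat_lit 91138819530) (nat_lit 76) (nat_lit 49585982102)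 (nat_lit 4) (nat_lit 4) (nat_lit 5) (nat_lit 5) (nat_lit 5) (nat_lit 4) (nat_lit 303) (nat_lit 246) (nat_lit 171)) (XT.lf (nat_lit 0) (nat_lit 65608790347) (nat_lit 76) (nat_lit 83299563672) (nat_lit 76) (nat_lit 41737113676) (nat_lit 4) (nat_lit 4) (nat_lit 5) (nat_lit 5) (nat_lit 5) (nat_lit 4) (nat_lit 304) (nat_lit 246) (nat_lit 170))) (XT.nd (nat_lit 78) (nat_lit 0) (nat_lit 0) (XT.lf (nat_lit 0) (nat_lit 97057421840) (nat_lit 76) (nat_lit 74838375137) (nat_lit 76) (nat_lit 33267024614) (nat_lit 4) (nat_lit 4) (nat_lit 5) (nat_lit 5) (nat_lit 5) (nat_lit 4) (nat_lit 305) (nat_lit 246) (nat_lit 169)) (XT.nd (nat_lit 78) (nat_lit 0) (nat_lit 0) (XT.lf (nat_lit 0) (nat_lit 131011228757) (nat_lit 76) (nat_lit 65705113548) (nat_lit 76) (nat_lit 24125521798) (nat_lit 4) (nat_lit 4) (nat_lit 5) (nat_lit 5) (nat_lit 5) (nat_lit 4) (nat_lit 306) (nat_lit 246) (nat_lit 168)) (XT.lf (nat_lit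 0) (nat_lit 167671418842) (nat_lit 76) (nat_lit 55845655874) (nat_lit 76) (nat_lit 14258433357) (nat_lit 4) (nat_lit 4) (nat_lit 5) (nat_lit 5) (nat_lit 5) (nat_lit 4) (nat_lit 307) (nat_lit 246) (nat_lit 167))))))))
noncomputable def xc63 : XT := (XT.nd (nat_lit 32994) (nat_lit 0) (nat_lit 2356) (XT.nd (nat_lit 702) (nat_lit 0) (nat_lit 0) (XT.nd (nat_lit 312) (nat_lit 0) (nat_lit 0) (XT.nd (nat_lit 156) (nat_lit 76) (nat_lit 0) (XT.nd (nat_lit 78) (nat_lit 76) (nat_lit 0) (XT.lf (nat_lit 0) (nat_lit 207255237668) (nat_lit 76) (nat_lit 45201575699) (nat_lit 76) (nat_lit 3607287657) (nat_lit 4) (nat_lit 4) (nat_lit 5) (nat_lit 5) (nat_lit 5) (nat_lit 4) (nat_lit 308) (nat_lit 246) (nat_lit 166)) (XT.lf (nat_lit 0) (nat_lit 7638470859) (nat_lit 152) (nat_lit 25941964932) (nat_lit 76) (nat_lit 242229423951) (nat_lit 3) (nat_lit 5) (nat_lit 5) (nat_lit 5) (nat_lit 4) (nat_lit 4) (nat_lit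 309) (nat_lit 246) (nat_lit 165))) (XT.nd (nat_lit 78) (nat_lit 76) (nat_lit 0) (XT.lf (nat_lit 0) (nat_lit 19654791257) (nat_lit 152) (nat_lit 1314565666) (nat_lit 76) (nat_lit 276163105248) (nat_lit 3) (nat_lit 5) (nat_lit 5) (nat_lit 5) (nat_lit 4) (nat_lit 4) (nat_lit 310) (nat_lit 246) (nat_lit 164)) (XT.lf (nat_lit 0) (nat_lit 26111319756) (nat_lit 76) (nat_lit 6924688215) (nat_lit 152) (nat_lit 287104688951) (nat_lit 2) (nat_lit 5) (nat_lit 3) (nat_lit 5) (nat_lit 4) (nat_lit 4) (nat_lit 311) (nat_lit 246) (nat_lit 163)))) (XT.nd (nat_lit 156) (nat_lit 0) (nat_lit 0) (XT.nd (nat_lit 78) (nat_lit 0) (nat_lit 0) (XT.lf (nat_lit 0) (nat_lit 47635762084) (nat_lit 152) (nat_lit 289346562869) (nat_lit 0) (nat_lit 7999866887) (nat_lit 2) (nat_lit 5) (nat_lit 4) (nat_lit 4) (nat_lit 2) (nat_lit 4) (nat_lit 312) (nat_lit 246) (nat_lit 162)) (XT.lf (nat_lit 0) (nat_lit 63516612015) (nat_lit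 152) (nat_lit 284412604576) (nat_lit 0) (nat_lit 23876137126) (nat_lit 2) (nat_lit 5) (nat_lit 4) (nat_lit 4) (nat_lit 2) (nat_lit 4) (nat_lit 313) (nat_lit 246) (nat_lit 161))) (XT.nd (nat_lit 78) (nat_lit 0) (nat_lit 0) (XT.lf (nat_lit 0) (nat_lit 80664552715) (nat_lit 152) (nat_lit 279090150228) (nat_lit 0) (nat_lit 41019837370) (nat_lit 2) (nat_lit 5) (nat_lit 4) (nat_lit 4) (nat_lit 2) (nat_lit 4) (nat_lit 314) (nat_lit 246) (nat_lit 160)) (XT.nd (nat_lit 78) (nat_lit 0) (nat_lit 0) (XT.lf (nat_lit 0) (nat_lit 99181201611) (nat_lit 152) (nat_lit 273347659353) (nat_lit 0) (nat_lit 59532559917) (nat_lit 2) (nat_lit 5) (nat_lit 4) (nat_lit 4) (nat_lit 2) (nat_lit 4) (nat_lit 315) (nat_lit 246) (nat_lit 159)) (XT.lf (nat_lit 0) (nat_lit 119176286992) (nat_lit 152) (nat_lit 267151102376) (nat_lit 0) (nat_lit 79524009790) (nat_lit 2) (nat_lit 5) (nat_lit 4) (nat_lit 4) (nat_lit 2) (nat_lit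 4) (nat_lit 316) (nat_lit 246) (nat_lit 158)))))) (XT.nd (nat_lit 312) (nat_lit 0) (nat_lit 0) (XT.nd (nat_lit 156) (nat_lit 0) (nat_lit 0) (XT.nd (nat_lit 78) (nat_lit 0) (nat_lit 0) (XT.lf (nat_lit 0) (nat_lit 140768298252) (nat_lit 152) (nat_lit 260463758959) (nat_lit 0) (nat_lit 101112654840) (nat_lit 2) (nat_lit 5) (nat_lit 4) (nat_lit 4) (nat_lit 2) (nat_lit 4) (nat_lit 317) (nat_lit 246) (nat_lit 157)) (XT.lf (nat_lit 0) (nat_lit 164085188053) (nat_lit 152) (nat_lit 253246000402) (nat_lit 0) (nat_lit 124426427778) (nat_lit 2) (nat_lit 5) (nat_lit 4) (nat_lit 4) (nat_lit 2) (nat_lit 4) (nat_lit 318) (nat_lit 246) (nat_lit 156))) (XT.nd (nat_lit 78) (nat_lit 0) (nat_lit 0) (XT.lf (nat_lit 0) (nat_lit 189265130554) (nat_lit 152) (nat_lit 245455054800) (nat_lit 0) (nat_lit 149603484296) (nat_lit 2) (nat_lit 5) (nat_lit 4) (nat_lit 4) (nat_lit 2) (nat_lit 4) (nat_lit 319) (nat_lit 246)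 (nat_lit 155)) (XT.lf (nat_lit 0) (nat_lit 216457340230) (nat_lit 152) (nat_lit 237044753589) (nat_lit 0) (nat_lit 176793021765) (nat_lit 2) (nat_lit 5) (nat_lit 4) (nat_lit 4) (nat_lit 2) (nat_lit 4) (nat_lit 320) (nat_lit 246) (nat_lit 154)))) (XT.nd (nat_lit 31746) (nat_lit 0) (nat_lit 6688) (XT.nd (nat_lit 78) (nat_lit 0) (nat_lit 0) (XT.lf (nat_lit 0) (nat_lit 245822956102) (nat_lit 152) (nat_lit 227965257944) (nat_lit 0) (nat_lit 206156163372) (nat_lit 2) (nat_lit 5) (nat_lit 4) (nat_lit 4) (nat_lit 2) (nat_lit 4) (nat_lit 321) (nat_lit 246) (nat_lit 153)) (XT.lf (nat_lit 0) (nat_lit 277535996634) (nat_lit 152) (nat_lit 218162763449) (nat_lit 0) (nat_lit 237866912917) (nat_lit 2) (nat_lit 5) (nat_lit 4) (nat_lit 4) (nat_lit 2) (nat_lit 4) (nat_lit 322) (nat_lit 246) (nat_lit 152))) (XT.nd (nat_lit 78) (nat_lit 0) (nat_lit 0) (XT.lf (nat_lit 0) (nat_lit 504333260) (nat_lit 0) (nat_lit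 504333260) (nat_lit 532) (nat_lit 2939423913) (nat_lit 90) (nat_lit 5) (nat_lit 90) (nat_lit 3) (nat_lit 97) (nat_lit 3) (nat_lit 247) (nat_lit 247) (nat_lit 226)) (XT.nd (nat_lit 78) (nat_lit 0) (nat_lit 0) (XT.lf (nat_lit 0) (nat_lit 3939657079) (nat_lit 532) (nat_lit 1433995165) (nat_lit 608) (nat_lit 2739448254) (nat_lit 90) (nat_lit 5) (nat_lit 97) (nat_lit 3) (nat_lit 98) (nat_lit 5) (nat_lit 248) (nat_lit 247) (nat_lit 225)) (XT.lf (nat_lit 76) (nat_lit 4481229051) (nat_lit 0) (nat_lit 1443083263) (nat_lit 608) (nat_lit 2428319060) (nat_lit 91) (nat_lit 5) (nat_lit 90) (nat_lit 5) (nat_lit 98) (nat_lit 5) (nat_lit 249) (nat_lit 247) (nat_lit 224))))))) (XT.nd (nat_lit 702) (nat_lit 1900) (nat_lit 0) (XT.nd (nat_lit 312) (nat_lit 1900) (nat_lit 0) (XT.nd (nat_lit 156) (nat_lit 0) (nat_lit 76) (XT.nd (nat_lit 78) (nat_lit 608) (nat_lit 0) (XT.lf (nat_lit 76) (nat_lit 2231394541)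 (nat_lit 0) (nat_lit 5774694460) (nat_lit 608) (nat_lit 608952467) (nat_lit 92) (nat_lit 5) (nat_lit 91) (nat_lit 5) (nat_lit 99) (nat_lit 5) (nat_lit 250) (nat_lit 247) (nat_lit 223)) (XT.lf (nat_lit 0) (nat_lit 1247382796) (nat_lit 608) (nat_lit 88840768) (nat_lit 684) (nat_lit 7564980611) (nat_lit 83) (nat_lit 5) (nat_lit 91) (nat_lit 5) (nat_lit 92) (nat_lit 5) (nat_lit 251) (nat_lit 247) (nat_lit 222))) (XT.nd (nat_lit 78) (nat_lit 0) (nat_lit 0) (XT.lf (nat_lit 0) (nat_lit 3247886838) (nat_lit 608) (nat_lit 2451222612) (nat_lit 684) (nat_lit 3510319308) (nat_lit 84) (nat_lit 5) (nat_lit 92) (nat_lit 5) (nat_lit 93) (nat_lit 5) (nat_lit 252) (nat_lit 247) (nat_lit 221)) (XT.lf (nat_lit 76) (nat_lit 4636316875) (nat_lit 0) (nat_lit 732252749) (nat_lit 684) (nat_lit 4176214236) (nat_lit 85) (nat_lit 5) (nat_lit 84) (nat_lit 5) (nat_lit 93) (nat_lit 5) (nat_lit 253) (nat_lit 247) (nat_lit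 220)))) (XT.nd (nat_lit 156) (nat_lit 1444) (nat_lit 0) (XT.nd (nat_lit 78) (nat_lit 0) (nat_lit 0) (XT.lf (nat_lit 0) (nat_lit 2370141040) (nat_lit 608) (nat_lit 5314140214) (nat_lit 684) (nat_lit 2221861364) (nat_lit 77) (nat_lit 5) (nat_lit 85) (nat_lit 5) (nat_lit 86) (nat_lit 5) (nat_lit 254) (nat_lit 247) (nat_lit 219)) (XT.lf (nat_lit 0) (nat_lit 10165406078) (nat_lit 684) (nat_lit 8000181) (nat_lit 76) (nat_lit 124407076) (nat_lit 77) (nat_lit 5) (nat_lit 86) (nat_lit 5) (nat_lit 78) (nat_lit 5) (nat_lit 255) (nat_lit 247) (nat_lit 218))) (XT.nd (nat_lit 78) (nat_lit 684) (nat_lit 0) (XT.lf (nat_lit 0) (nat_lit 2164760358) (nat_lit 760) (nat_lit 2556125669) (nat_lit 76) (nat_lit 5993208694) (nat_lit 67) (nat_lit 5) (nat_lit 77) (nat_lit 5) (nat_lit 68) (nat_lit 5) (nat_lit 256) (nat_lit 247) (nat_lit 217)) (XT.nd (nat_lit 78) (nat_lit 380) (nat_lit 0) (XT.lf (nat_lit 0) (nat_lit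 4647516037) (nat_lit 380) (nat_lit 5283757078) (nat_lit 76) (nat_lit 1232309941) (nat_lit 63) (nat_lit 5) (nat_lit 68) (nat_lit 5) (nat_lit 64) (nat_lit 5) (nat_lit 257) (nat_lit 247) (nat_lit 216)) (XT.lf (nat_lit 0) (nat_lit 3361621830) (nat_lit 380) (nat_lit 4045266897) (nat_lit 456) (nat_lit 4238552686) (nat_lit 58) (nat_lit 5) (nat_lit 63) (nat_lit 5) (nat_lit 64) (nat_lit 5) (nat_lit 258) (nat_lit 247) (nat_lit 215)))))) (XT.nd (nat_lit 390) (nat_lit 684) (nat_lit 0) (XT.nd (nat_lit 156) (nat_lit 836) (nat_lit 0) (XT.nd (nat_lit 78) (nat_lit 76) (nat_lit 0) (XT.lf (nat_lit 0) (nat_lit 606575969) (nat_lit 304) (nat_lit 9826007359) (nat_lit 380) (nat_lit 1731274268) (nat_lit 54) (nat_lit 5) (nat_lit 58) (nat_lit 5) (nat_lit 59) (nat_lit 5) (nat_lit 259) (nat_lit 247) (nat_lit 214)) (XT.lf (nat_lit 0) (nat_lit 1070380153) (nat_lit 380) (nat_lit 2398465422) (nat_lit 76) (nat_lit 9248140364)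 (nat_lit 53) (nat_lit 5) (nat_lit 58) (nat_lit 5) (nat_lit 54) (nat_lit 5) (nat_lit 260) (nat_lit 247) (nat_lit 213))) (XT.nd (nat_lit 78) (nat_lit 532) (nat_lit 0) (XT.lf (nat_lit 0) (nat_lit 4127354935) (nat_lit 380) (nat_lit 5751789140) (nat_lit 76) (nat_lit 3429444189) (nat_lit 49) (nat_lit 5) (nat_lit 54) (nat_lit 5) (nat_lit 50) (nat_lit 5) (nat_lit 261) (nat_lit 247) (nat_lit 212)) (XT.nd (nat_lit 78) (nat_lit 304) (nat_lit 0) (XT.lf (nat_lit 0) (nat_lit 4438944888) (nat_lit 228) (nat_lit 3081647867) (nat_lit 304) (nat_lit 6422558324) (nat_lit 46) (nat_lit 5) (nat_lit 49) (nat_lit 5) (nat_lit 50) (nat_lit 5) (nat_lit 262) (nat_lit 247) (nat_lit 211)) (XT.lf (nat_lit 0) (nat_lit 895051875) (nat_lit 304) (nat_lit 10398205564) (nat_lit 380) (nat_lit 3330024531) (nat_lit 42) (nat_lit 5) (nat_lit 46) (nat_lit 5) (nat_lit 47) (nat_lit 5) (nat_lit 263) (nat_lit 247) (nat_lit 210)))))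 (XT.nd (nat_lit 156) (nat_lit 380) (nat_lit 0) (XT.nd (nat_lit 78) (nat_lit 228) (nat_lit 0) (XT.lf (nat_lit 0) (nat_lit 158278579) (nat_lit 380) (nat_lit 3029576156) (nat_lit 76) (nat_lit 12162704304) (nat_lit 41) (nat_lit 5) (nat_lit 46) (nat_lit 5) (nat_lit 42) (nat_lit 5) (nat_lit 264) (nat_lit 247) (nat_lit 209)) (XT.lf (nat_lit 0) (nat_lit 3954192389) (nat_lit 304) (nat_lit 7542650052) (nat_lit 76) (nat_lit 4629350069) (nat_lit 38) (nat_lit 5) (nat_lit 42) (nat_lit 5) (nat_lit 39) (nat_lit 5) (nat_lit 265) (nat_lit 247) (nat_lit 208))) (XT.nd (nat_lit 78) (nat_lit 152) (nat_lit 0) (XT.lf (nat_lit 0) (nat_lit 4271286156) (nat_lit 228) (nat_lit 3893694134) (nat_lit 304) (nat_lit 8793488615) (nat_lit 35) (nat_lit 5) (nat_lit 38) (nat_lit 5) (nat_lit 39) (nat_lit 5) (nat_lit 266) (nat_lit 247) (nat_lit 207)) (XT.nd (nat_lit 78) (nat_lit 152) (nat_lit 0) (XT.lf (nat_lit 0) (nat_lit 12853800639)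 (nat_lit 304) (nat_lit 703270973) (nat_lit 76) (nat_lit 4293338345) (nat_lit 35) (nat_lit 5) (nat_lit 39) (nat_lit 5) (nat_lit 36) (nat_lit 5) (nat_lit 267) (nat_lit 247) (nat_lit 206)) (XT.lf (nat_lit 0) (nat_lit 12497177001) (nat_lit 152) (nat_lit 5625964739) (nat_lit 228) (nat_lit 680424366) (nat_lit 33) (nat_lit 5) (nat_lit 35) (nat_lit 5) (nat_lit 36) (nat_lit 5) (nat_lit 268) (nat_lit 247) (nat_lit 205))))))))
noncomputable def xc64 : XT := (XT.nd (nat_lit 1404) (nat_lit 532) (nat_lit 0) (XT.nd (nat_lit 702) (nat_lit 532) (nat_lit 0) (XT.nd (nat_lit 312) (nat_lit 532) (nat_lit 0) (XT.nd (nat_lit 156) (nat_lit 152) (nat_lit 0) (XT.nd (nat_lit 78) (nat_lit 152) (nat_lit 0) (XT.lf (nat_lit 0) (nat_lit 3971117357) (nat_lit 304) (nat_lit 12840990415) (nat_lit 76) (nat_lit 3012000313) (nat_lit 29) (nat_lit 5) (nat_lit 33) (nat_lit 5) (nat_lit 30) (nat_lit 5) (nat_lit 269) (nat_lit 247)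 (nat_lit 204)) (XT.lf (nat_lit 0) (nat_lit 473082760) (nat_lit 152) (nat_lit 8661210696) (nat_lit 228) (nat_lit 11783381364) (nat_lit 27) (nat_lit 5) (nat_lit 29) (nat_lit 5) (nat_lit 30) (nat_lit 5) (nat_lit 270) (nat_lit 247) (nat_lit 203))) (XT.nd (nat_lit 78) (nat_lit 152) (nat_lit 0) (XT.lf (nat_lit 0) (nat_lit 14891520086) (nat_lit 228) (nat_lit 6855632466) (nat_lit 76) (nat_lit 342623234) (nat_lit 27) (nat_lit 5) (nat_lit 30) (nat_lit 5) (nat_lit 28) (nat_lit 5) (nat_lit 271) (nat_lit 247) (nat_lit 202)) (XT.lf (nat_lit 0) (nat_lit 7858285650) (nat_lit 152) (nat_lit 13474804853) (nat_lit 228) (nat_lit 2011457446) (nat_lit 25) (nat_lit 5) (nat_lit 27) (nat_lit 5) (nat_lit 28) (nat_lit 5) (nat_lit 272) (nat_lit 247) (nat_lit 201)))) (XT.nd (nat_lit 156) (nat_lit 304) (nat_lit 0) (XT.nd (nat_lit 78) (nat_lit 152) (nat_lit 0) (XT.lf (nat_lit 0) (nat_lit 3553323434) (nat_lit 228) (nat_lit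 823819436) (nat_lit 76) (nat_lit 20315939382) (nat_lit 24) (nat_lit 5) (nat_lit 27) (nat_lit 5) (nat_lit 25) (nat_lit 5) (nat_lit 273) (nat_lit 247) (nat_lit 200)) (XT.lf (nat_lit 0) (nat_lit 9783367643) (nat_lit 228) (nat_lit 10817490192) (nat_lit 76) (nat_lit 5532539732) (nat_lit 22) (nat_lit 5) (nat_lit 25) (nat_lit 5) (nat_lit 23) (nat_lit 5) (nat_lit 274) (nat_lit 247) (nat_lit 199))) (XT.nd (nat_lit 78) (nat_lit 152) (nat_lit 0) (XT.lf (nat_lit 0) (nat_lit 5117464573) (nat_lit 152) (nat_lit 11524173048) (nat_lit 228) (nat_lit 11040878479) (nat_lit 20) (nat_lit 5) (nat_lit 22) (nat_lit 5) (nat_lit 23) (nat_lit 5) (nat_lit 275) (nat_lit 247) (nat_lit 198)) (XT.nd (nat_lit 78) (nat_lit 152) (nat_lit 0) (XT.lf (nat_lit 0) (nat_lit 22655830685) (nat_lit 152) (nat_lit 1544653231) (nat_lit 228) (nat_lit 5147548447) (nat_lit 20) (nat_lit 5) (nat_lit 22) (nat_lit 5) (nat_lit 23) (nat_lit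 5) (nat_lit 276) (nat_lit 247) (nat_lit 197)) (XT.lf (nat_lit 0) (nat_lit 1458128795) (nat_lit 152) (nat_lit 20566164697) (nat_lit 76) (nat_lit 9107610609) (nat_lit 18) (nat_lit 5) (nat_lit 20) (nat_lit 5) (nat_lit 19) (nat_lit 5) (nat_lit 277) (nat_lit 247) (nat_lit 196)))))) (XT.nd (nat_lit 312) (nat_lit 304) (nat_lit 0) (XT.nd (nat_lit 156) (nat_lit 76) (nat_lit 0) (XT.nd (nat_lit 78) (nat_lit 152) (nat_lit 0) (XT.lf (nat_lit 0) (nat_lit 8525860947) (nat_lit 152) (nat_lit 3777724308) (nat_lit 76) (nat_lit 20745035977) (nat_lit 18) (nat_lit 5) (nat_lit 20) (nat_lit 5) (nat_lit 19) (nat_lit 5) (nat_lit 278) (nat_lit 247) (nat_lit 195)) (XT.lf (nat_lit 0) (nat_lit 14777116346) (nat_lit 152) (nat_lit 1582055824) (nat_lit 228) (nat_lit 18749543913) (nat_lit 16) (nat_lit 5) (nat_lit 18) (nat_lit 5) (nat_lit 19) (nat_lit 5) (nat_lit 279) (nat_lit 247) (nat_lit 194))) (XT.nd (nat_lit 78) (nat_lit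 76) (nat_lit 0) (XT.lf (nat_lit 0) (nat_lit 25012798939) (nat_lit 228) (nat_lit 2584931856) (nat_lit 76) (nat_lit 9726249985) (nat_lit 16) (nat_lit 5) (nat_lit 19) (nat_lit 5) (nat_lit 17) (nat_lit 4) (nat_lit 280) (nat_lit 247) (nat_lit 193)) (XT.lf (nat_lit 0) (nat_lit 17055599012) (nat_lit 76) (nat_lit 17568932684) (nat_lit 152) (nat_lit 5078685638) (nat_lit 15) (nat_lit 5) (nat_lit 16) (nat_lit 5) (nat_lit 17) (nat_lit 4) (nat_lit 281) (nat_lit 247) (nat_lit 192)))) (XT.nd (nat_lit 156) (nat_lit 76) (nat_lit 0) (XT.nd (nat_lit 78) (nat_lit 152) (nat_lit 0) (XT.lf (nat_lit 0) (nat_lit 2664453205) (nat_lit 152) (nat_lit 3998286530) (nat_lit 76) (nat_lit 35606981763) (nat_lit 14) (nat_lit 5) (nat_lit 16) (nat_lit 5) (nat_lit 15) (nat_lit 5) (nat_lit 282) (nat_lit 247) (nat_lit 191)) (XT.lf (nat_lit 0) (nat_lit 11170755031) (nat_lit 228) (nat_lit 28564681929) (nat_lit 76) (nat_lit 5285897827)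 (nat_lit 12) (nat_lit 5) (nat_lit 15) (nat_lit 5) (nat_lit 13) (nat_lit 4) (nat_lit 283) (nat_lit 247) (nat_lit 190))) (XT.nd (nat_lit 78) (nat_lit 76) (nat_lit 0) (XT.lf (nat_lit 0) (nat_lit 20517318522) (nat_lit 228) (nat_lit 9452250812) (nat_lit 76) (nat_lit 18015551284) (nat_lit 12) (nat_lit 5) (nat_lit 15) (nat_lit 5) (nat_lit 13) (nat_lit 4) (nat_lit 284) (nat_lit 247) (nat_lit 189)) (XT.nd (nat_lit 78) (nat_lit 0) (nat_lit 0) (XT.lf (nat_lit 0) (nat_lit 11520941649) (nat_lit 76) (nat_lit 19248893539) (nat_lit 152) (nat_lit 20408291756) (nat_lit 11) (nat_lit 5) (nat_lit 12) (nat_lit 5) (nat_lit 13) (nat_lit 4) (nat_lit 285) (nat_lit 247) (nat_lit 188)) (XT.lf (nat_lit 0) (nat_lit 34474158007) (nat_lit 76) (nat_lit 7512452416) (nat_lit 152) (nat_lit 12632787372) (nat_lit 11) (nat_lit 5) (nat_lit 12) (nat_lit 5) (nat_lit 13) (nat_lit 4) (nat_lit 286) (nat_lit 247) (nat_lit 187)))))))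 (XT.nd (nat_lit 702) (nat_lit 228) (nat_lit 0) (XT.nd (nat_lit 312) (nat_lit 76) (nat_lit 0) (XT.nd (nat_lit 156) (nat_lit 76) (nat_lit 0) (XT.nd (nat_lit 78) (nat_lit 76) (nat_lit 0) (XT.lf (nat_lit 0) (nat_lit 840440047) (nat_lit 76) (nat_lit 53334733757) (nat_lit 76) (nat_lit 4157099096) (nat_lit 10) (nat_lit 4) (nat_lit 11) (nat_lit 5) (nat_lit 11) (nat_lit 4) (nat_lit 287) (nat_lit 247) (nat_lit 186)) (XT.lf (nat_lit 0) (nat_lit 5301385668) (nat_lit 152) (nat_lit 38343412234) (nat_lit 76) (nat_lit 18670268215) (nat_lit 9) (nat_lit 5) (nat_lit 11) (nat_lit 5) (nat_lit 10) (nat_lit 4) (nat_lit 288) (nat_lit 247) (nat_lit 185))) (XT.nd (nat_lit 78) (nat_lit 76) (nat_lit 0) (XT.lf (nat_lit 0) (nat_lit 15355557160) (nat_lit 152) (nat_lit 17763488632) (nat_lit 76) (nat_lit 33494817242) (nat_lit 9) (nat_lit 5) (nat_lit 11) (nat_lit 5) (nat_lit 10) (nat_lit 4) (nat_lit 289) (nat_lit 247)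 (nat_lit 184)) (XT.lf (nat_lit 0) (nat_lit 4581431441) (nat_lit 76) (nat_lit 21688146332) (nat_lit 152) (nat_lit 44984228981) (nat_lit 8) (nat_lit 5) (nat_lit 9) (nat_lit 5) (nat_lit 10) (nat_lit 4) (nat_lit 290) (nat_lit 247) (nat_lit 183)))) (XT.nd (nat_lit 156) (nat_lit 76) (nat_lit 0) (XT.nd (nat_lit 78) (nat_lit 0) (nat_lit 0) (XT.lf (nat_lit 0) (nat_lit 29321459964) (nat_lit 76) (nat_lit 9029442554) (nat_lit 152) (nat_lit 37899351752) (nat_lit 8) (nat_lit 5) (nat_lit 9) (nat_lit 5) (nat_lit 10) (nat_lit 4) (nat_lit 291) (nat_lit 247) (nat_lit 182)) (XT.lf (nat_lit 0) (nat_lit 51456923294) (nat_lit 152) (nat_lit 25703582942) (nat_lit 0) (nat_lit 4483017983) (nat_lit 8) (nat_lit 5) (nat_lit 10) (nat_lit 4) (nat_lit 8) (nat_lit 4) (nat_lit 292) (nat_lit 247) (nat_lit 181))) (XT.nd (nat_lit 78) (nat_lit 76) (nat_lit 0) (XT.lf (nat_lit 0) (nat_lit 65750452778) (nat_lit 152) (nat_lit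 2956109559) (nat_lit 0) (nat_lit 18754757013) (nat_lit 8) (nat_lit 5) (nat_lit 10) (nat_lit 4) (nat_lit 8) (nat_lit 4) (nat_lit 293) (nat_lit 247) (nat_lit 180)) (XT.nd (nat_lit 78) (nat_lit 0) (nat_lit 0) (XT.lf (nat_lit 0) (nat_lit 22303243670) (nat_lit 76) (nat_lit 59220190933) (nat_lit 76) (nat_lit 12204318820) (nat_lit 7) (nat_lit 4) (nat_lit 8) (nat_lit 5) (nat_lit 8) (nat_lit 4) (nat_lit 294) (nat_lit 247) (nat_lit 179)) (XT.lf (nat_lit 0) (nat_lit 49668091481) (nat_lit 76) (nat_lit 48929992995) (nat_lit 76) (nat_lit 1895439079) (nat_lit 7) (nat_lit 4) (nat_lit 8) (nat_lit 5) (nat_lit 8) (nat_lit 4) (nat_lit 295) (nat_lit 247) (nat_lit 178)))))) (XT.nd (nat_lit 312) (nat_lit 76) (nat_lit 0) (XT.nd (nat_lit 156) (nat_lit 76) (nat_lit 0) (XT.nd (nat_lit 78) (nat_lit 0) (nat_lit 0) (XT.lf (nat_lit 0) (nat_lit 8931483966) (nat_lit 152) (nat_lit 28742309749) (nat_lit 76) (nat_lit 70120110631)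 (nat_lit 6) (nat_lit 5) (nat_lit 8) (nat_lit 5) (nat_lit 7) (nat_lit 4) (nat_lit 296) (nat_lit 247) (nat_lit 177)) (XT.lf (nat_lit 0) (nat_lit 20548867117) (nat_lit 152) (nat_lit 4942690925) (nat_lit 76) (nat_lit 90185678718) (nat_lit 6) (nat_lit 5) (nat_lit 8) (nat_lit 5) (nat_lit 7) (nat_lit 4) (nat_lit 297) (nat_lit 247) (nat_lit 176))) (XT.nd (nat_lit 78) (nat_lit 0) (nat_lit 0) (XT.lf (nat_lit 0) (nat_lit 21429944342) (nat_lit 76) (nat_lit 11990857158) (nat_lit 152) (nat_lit 90754185921) (nat_lit 5) (nat_lit 5) (nat_lit 6) (nat_lit 5) (nat_lit 7) (nat_lit 4) (nat_lit 298) (nat_lit 247) (nat_lit 175)) (XT.lf (nat_lit 0) (nat_lit 47441350083) (nat_lit 152) (nat_lit 83317667215) (nat_lit 0) (nat_lit 2587606829) (nat_lit 5) (nat_lit 5) (nat_lit 7) (nat_lit 4) (nat_lit 5) (nat_lit 4) (nat_lit 299) (nat_lit 247) (nat_lit 174)))) (XT.nd (nat_lit 156) (nat_lit 76) (nat_lit 0) (XT.nd (nat_lit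 78) (nat_lit 0) (nat_lit 0) (XT.lf (nat_lit 0) (nat_lit 62777317267) (nat_lit 152) (nat_lit 62553529122) (nat_lit 0) (nat_lit 17911464945) (nat_lit 5) (nat_lit 5) (nat_lit 7) (nat_lit 4) (nat_lit 5) (nat_lit 4) (nat_lit 300) (nat_lit 247) (nat_lit 173)) (XT.lf (nat_lit 0) (nat_lit 79332371975) (nat_lit 152) (nat_lit 40142371170) (nat_lit 0) (nat_lit 34455307553) (nat_lit 5) (nat_lit 5) (nat_lit 7) (nat_lit 4) (nat_lit 5) (nat_lit 4) (nat_lit 301) (nat_lit 247) (nat_lit 172))) (XT.nd (nat_lit 78) (nat_lit 76) (nat_lit 0) (XT.lf (nat_lit 0) (nat_lit 97204618232) (nat_lit 152) (nat_lit 15951386499) (nat_lit 0) (nat_lit 52317172237) (nat_lit 5) (nat_lit 5) (nat_lit 7) (nat_lit 4) (nat_lit 5) (nat_lit 4) (nat_lit 302) (nat_lit 247) (nat_lit 171)) (XT.nd (nat_lit 78) (nat_lit 0) (nat_lit 0) (XT.lf (nat_lit 0) (nat_lit 10498806240) (nat_lit 76) (nat_lit 106165075197) (nat_lit 76) (nat_lit 61268016632)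 (nat_lit 4) (nat_lit 4) (nat_lit 5) (nat_lit 5) (nat_lit 5) (nat_lit 4) (nat_lit 303) (nat_lit 247) (nat_lit 170)) (XT.lf (nat_lit 0) (nat_lit 39623060962) (nat_lit 76) (nat_lit 98328323085) (nat_lit 76) (nat_lit 53422363994) (nat_lit 4) (nat_lit 4) (nat_lit 5) (nat_lit 5) (nat_lit 5) (nat_lit 4) (nat_lit 304) (nat_lit 247) (nat_lit 169))))))))
noncomputable def xc65 : XT := (XT.nd (nat_lit 33072) (nat_lit 0) (nat_lit 2736) (XT.nd (nat_lit 702) (nat_lit 0) (nat_lit 0) (XT.nd (nat_lit 312) (nat_lit 152) (nat_lit 0) (XT.nd (nat_lit 156) (nat_lit 0) (nat_lit 0) (XT.nd (nat_lit 78) (nat_lit 0) (nat_lit 0) (XT.lf (nat_lit 0) (nat_lit 71066540967) (nat_lit 76) (nat_lit 89869452833) (nat_lit 76) (nat_lit 44955252514) (nat_lit 4) (nat_lit 4) (nat_lit 5) (nat_lit 5) (nat_lit 5) (nat_lit 4) (nat_lit 305) (nat_lit 247) (nat_lit 168)) (XT.lf (nat_lit 0) (nat_lit 105015577987) (nat_lit 76) (nat_lit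 80738337803) (nat_lit 76) (nat_lit 35816506717) (nat_lit 4) (nat_lit 4) (nat_lit 5) (nat_lit 5) (nat_lit 5) (nat_lit 4) (nat_lit 306) (nat_lit 247) (nat_lit 167))) (XT.nd (nat_lit 78) (nat_lit 0) (nat_lit 0) (XT.lf (nat_lit 0) (nat_lit 141671351502) (nat_lit 76) (nat_lit 70880867683) (nat_lit 76) (nat_lit 25951971072) (nat_lit 4) (nat_lit 4) (nat_lit 5) (nat_lit 5) (nat_lit 5) (nat_lit 4) (nat_lit 307) (nat_lit 247) (nat_lit 166)) (XT.lf (nat_lit 0) (nat_lit 181251080910) (nat_lit 76) (nat_lit 60238627835) (nat_lit 76) (nat_lit 15303189072) (nat_lit 4) (nat_lit 4) (nat_lit 5) (nat_lit 5) (nat_lit 5) (nat_lit 4) (nat_lit 308) (nat_lit 247) (nat_lit 165)))) (XT.nd (nat_lit 156) (nat_lit 76) (nat_lit 0) (XT.nd (nat_lit 78) (nat_lit 76) (nat_lit 0) (XT.lf (nat_lit 0) (nat_lit 223989312755) (nat_lit 76) (nat_lit 48748553136) (nat_lit 76) (nat_lit 3807056824) (nat_lit 4) (nat_lit 4) (nat_lit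 5) (nat_lit 5) (nat_lit 5) (nat_lit 4) (nat_lit 309) (nat_lit 247) (nat_lit 164)) (XT.lf (nat_lit 0) (nat_lit 8329151535) (nat_lit 152) (nat_lit 27872344505) (nat_lit 76) (nat_lit 261669100887) (nat_lit 3) (nat_lit 5) (nat_lit 5) (nat_lit 5) (nat_lit 4) (nat_lit 4) (nat_lit 310) (nat_lit 247) (nat_lit 163))) (XT.nd (nat_lit 78) (nat_lit 76) (nat_lit 0) (XT.lf (nat_lit 0) (nat_lit 21300881045) (nat_lit 152) (nat_lit 1285492381) (nat_lit 76) (nat_lit 298312934242) (nat_lit 3) (nat_lit 5) (nat_lit 5) (nat_lit 5) (nat_lit 4) (nat_lit 4) (nat_lit 311) (nat_lit 247) (nat_lit 162)) (XT.nd (nat_lit 78) (nat_lit 0) (nat_lit 0) (XT.lf (nat_lit 0) (nat_lit 28328630031) (nat_lit 76) (nat_lit 7420510082) (nat_lit 152) (nat_lit 309999238735) (nat_lit 2) (nat_lit 5) (nat_lit 3) (nat_lit 5) (nat_lit 4) (nat_lit 4) (nat_lit 312) (nat_lit 247) (nat_lit 161)) (XT.lf (nat_lit 0) (nat_lit 51512511420) (nat_lit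 152) (nat_lit 312372926243) (nat_lit 0) (nat_lit 8691978391) (nat_lit 2) (nat_lit 5) (nat_lit 4) (nat_lit 4) (nat_lit 2) (nat_lit 4) (nat_lit 313) (nat_lit 247) (nat_lit 160)))))) (XT.nd (nat_lit 312) (nat_lit 0) (nat_lit 0) (XT.nd (nat_lit 156) (nat_lit 0) (nat_lit 0) (XT.nd (nat_lit 78) (nat_lit 0) (nat_lit 0) (XT.lf (nat_lit 0) (nat_lit 68658948726) (nat_lit 152) (nat_lit 307053241039) (nat_lit 0) (nat_lit 25834489348) (nat_lit 2) (nat_lit 5) (nat_lit 4) (nat_lit 4) (nat_lit 2) (nat_lit 4) (nat_lit 314) (nat_lit 247) (nat_lit 159)) (XT.lf (nat_lit 0) (nat_lit 87174205590) (nat_lit 152) (nat_lit 301313314187) (nat_lit 0) (nat_lit 44346110704) (nat_lit 2) (nat_lit 5) (nat_lit 4) (nat_lit 4) (nat_lit 2) (nat_lit 4) (nat_lit 315) (nat_lit 247) (nat_lit 158))) (XT.nd (nat_lit 78) (nat_lit 0) (nat_lit 0) (XT.lf (nat_lit 0) (nat_lit 107168002052) (nat_lit 152) (nat_lit 295119131306) (nat_lit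 0) (nat_lit 64336540955) (nat_lit 2) (nat_lit 5) (nat_lit 4) (nat_lit 4) (nat_lit 2) (nat_lit 4) (nat_lit 316) (nat_lit 247) (nat_lit 157)) (XT.lf (nat_lit 0) (nat_lit 128758819870) (nat_lit 152) (nat_lit 288433986126) (nat_lit 0) (nat_lit 85924241911) (nat_lit 2) (nat_lit 5) (nat_lit 4) (nat_lit 4) (nat_lit 2) (nat_lit 4) (nat_lit 317) (nat_lit 247) (nat_lit 156)))) (XT.nd (nat_lit 156) (nat_lit 0) (nat_lit 0) (XT.nd (nat_lit 78) (nat_lit 0) (nat_lit 0) (XT.lf (nat_lit 0) (nat_lit 152074604630) (nat_lit 152) (nat_lit 281218262973) (nat_lit 0) (nat_lit 109237140688) (nat_lit 2) (nat_lit 5) (nat_lit 4) (nat_lit 4) (nat_lit 2) (nat_lit 4) (nat_lit 318) (nat_lit 247) (nat_lit 155)) (XT.lf (nat_lit 0) (nat_lit 177253523946) (nat_lit 152) (nat_lit 273429202005) (nat_lit 0) (nat_lit 134413387798) (nat_lit 2) (nat_lit 5) (nat_lit 4) (nat_lit 4) (nat_lit 2) (nat_lit 4) (nat_lit 319) (nat_lit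 247) (nat_lit 154))) (XT.nd (nat_lit 78) (nat_lit 0) (nat_lit 0) (XT.lf (nat_lit 0) (nat_lit 204444786229) (nat_lit 152) (nat_lit 265020645824) (nat_lit 0) (nat_lit 161602175815) (nat_lit 2) (nat_lit 5) (nat_lit 4) (nat_lit 4) (nat_lit 2) (nat_lit 4) (nat_lit 320) (nat_lit 247) (nat_lit 153)) (XT.nd (nat_lit 78) (nat_lit 0) (nat_lit 0) (XT.lf (nat_lit 0) (nat_lit 233809524885) (nat_lit 152) (nat_lit 255942765949) (nat_lit 0) (nat_lit 190964623484) (nat_lit 2) (nat_lit 5) (nat_lit 4) (nat_lit 4) (nat_lit 2) (nat_lit 4) (nat_lit 321) (nat_lit 247) (nat_lit 152)) (XT.lf (nat_lit 0) (nat_lit 265521753179) (nat_lit 152) (nat_lit 246141767537) (nat_lit 0) (nat_lit 222674730495) (nat_lit 2) (nat_lit 5) (nat_lit 4) (nat_lit 4) (nat_lit 2) (nat_lit 4) (nat_lit 322) (nat_lit 247) (nat_lit 151))))))) (XT.nd (nat_lit 702) (nat_lit 2204) (nat_lit 0) (XT.nd (nat_lit 312) (nat_lit 1140) (nat_lit 0)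 (XT.nd (nat_lit 156) (nat_lit 608) (nat_lit 0) (XT.nd (nat_lit 78) (nat_lit 0) (nat_lit 0) (XT.lf (nat_lit 0) (nat_lit 1421788644) (nat_lit 0) (nat_lit 1421788644) (nat_lit 532) (nat_lit 1325968089) (nat_lit 90) (nat_lit 5) (nat_lit 90) (nat_lit 3) (nat_lit 97) (nat_lit 3) (nat_lit 248) (nat_lit 248) (nat_lit 224)) (XT.lf (nat_lit 76) (nat_lit 284837234) (nat_lit 0) (nat_lit 7197630854) (nat_lit 608) (nat_lit 1105925532) (nat_lit 91) (nat_lit 5) (nat_lit 90) (nat_lit 5) (nat_lit 98) (nat_lit 5) (nat_lit 249) (nat_lit 248) (nat_lit 223))) (XT.nd (nat_lit 78) (nat_lit 0) (nat_lit 76) (XT.lf (nat_lit 0) (nat_lit 533499221) (nat_lit 608) (nat_lit 2282531001) (nat_lit 684) (nat_lit 6042340789) (nat_lit 82) (nat_lit 5) (nat_lit 90) (nat_lit 5) (nat_lit 91) (nat_lit 5) (nat_lit 250) (nat_lit 248) (nat_lit 222)) (XT.lf (nat_lit 0) (nat_lit 2218599300) (nat_lit 608) (nat_lit 4936342439) (nat_lit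 684) (nat_lit 1996952810) (nat_lit 83) (nat_lit 5) (nat_lit 91) (nat_lit 5) (nat_lit 92) (nat_lit 5) (nat_lit 251) (nat_lit 248) (nat_lit 221)))) (XT.nd (nat_lit 156) (nat_lit 1216) (nat_lit 0) (XT.nd (nat_lit 78) (nat_lit 0) (nat_lit 76) (XT.lf (nat_lit 76) (nat_lit 1763961792) (nat_lit 0) (nat_lit 2254472812) (nat_lit 684) (nat_lit 5451948481) (nat_lit 84) (nat_lit 5) (nat_lit 83) (nat_lit 5) (nat_lit 92) (nat_lit 5) (nat_lit 252) (nat_lit 248) (nat_lit 220)) (XT.lf (nat_lit 0) (nat_lit 5970835039) (nat_lit 608) (nat_lit 778135977) (nat_lit 684) (nat_lit 3065394730) (nat_lit 84) (nat_lit 5) (nat_lit 92) (nat_lit 5) (nat_lit 93) (nat_lit 5) (nat_lit 253) (nat_lit 248) (nat_lit 219))) (XT.nd (nat_lit 78) (nat_lit 1292) (nat_lit 0) (XT.lf (nat_lit 76) (nat_lit 6795174191) (nat_lit 0) (nat_lit 1311460067) (nat_lit 684) (nat_lit 2078283496) (nat_lit 85) (nat_lit 5) (nat_lit 84) (nat_lit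 5) (nat_lit 93) (nat_lit 5) (nat_lit 254) (nat_lit 248) (nat_lit 218)) (XT.nd (nat_lit 78) (nat_lit 760) (nat_lit 0) (XT.lf (nat_lit 0) (nat_lit 4395861150) (nat_lit 608) (nat_lit 6061876275) (nat_lit 684) (nat_lit 125535121) (nat_lit 77) (nat_lit 5) (nat_lit 85) (nat_lit 5) (nat_lit 86) (nat_lit 5) (nat_lit 255) (nat_lit 248) (nat_lit 217)) (XT.lf (nat_lit 0) (nat_lit 1828356106) (nat_lit 684) (nat_lit 97796076) (nat_lit 760) (nat_lit 9085820772) (nat_lit 67) (nat_lit 5) (nat_lit 76) (nat_lit 5) (nat_lit 77) (nat_lit 5) (nat_lit 256) (nat_lit 248) (nat_lit 216)))))) (XT.nd (nat_lit 390) (nat_lit 1140) (nat_lit 0) (XT.nd (nat_lit 156) (nat_lit 760) (nat_lit 0) (XT.nd (nat_lit 78) (nat_lit 304) (nat_lit 0) (XT.lf (nat_lit 0) (nat_lit 4248302209) (nat_lit 760) (nat_lit 958535760) (nat_lit 76) (nat_lit 6262803017) (nat_lit 67) (nat_lit 5) (nat_lit 77) (nat_lit 5) (nat_lit 68) (nat_lit 5)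 (nat_lit 257) (nat_lit 248) (nat_lit 215)) (XT.lf (nat_lit 0) (nat_lit 6813958752) (nat_lit 380) (nat_lit 3886167321) (nat_lit 76) (nat_lit 1261197426) (nat_lit 63) (nat_lit 5) (nat_lit 68) (nat_lit 5) (nat_lit 64) (nat_lit 5) (nat_lit 258) (nat_lit 248) (nat_lit 214))) (XT.nd (nat_lit 78) (nat_lit 380) (nat_lit 0) (XT.lf (nat_lit 0) (nat_lit 5371734300) (nat_lit 380) (nat_lit 4316595296) (nat_lit 456) (nat_lit 2799104371) (nat_lit 58) (nat_lit 5) (nat_lit 63) (nat_lit 5) (nat_lit 64) (nat_lit 5) (nat_lit 259) (nat_lit 248) (nat_lit 213)) (XT.nd (nat_lit 78) (nat_lit 76) (nat_lit 0) (XT.lf (nat_lit 0) (nat_lit 2405581126) (nat_lit 304) (nat_lit 10453481540) (nat_lit 380) (nat_lit 193496691) (nat_lit 54) (nat_lit 5) (nat_lit 58) (nat_lit 5) (nat_lit 59) (nat_lit 5) (nat_lit 260) (nat_lit 248) (nat_lit 212)) (XT.lf (nat_lit 0) (nat_lit 2658443996) (nat_lit 380) (nat_lit 915607004) (nat_lit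 76) (nat_lit 10080927688) (nat_lit 53) (nat_lit 5) (nat_lit 58) (nat_lit 5) (nat_lit 54) (nat_lit 5) (nat_lit 261) (nat_lit 248) (nat_lit 211))))) (XT.nd (nat_lit 156) (nat_lit 608) (nat_lit 0) (XT.nd (nat_lit 78) (nat_lit 228) (nat_lit 0) (XT.lf (nat_lit 0) (nat_lit 5876597250) (nat_lit 380) (nat_lit 4538141755) (nat_lit 76) (nat_lit 3883653573) (nat_lit 49) (nat_lit 5) (nat_lit 54) (nat_lit 5) (nat_lit 50) (nat_lit 5) (nat_lit 262) (nat_lit 248) (nat_lit 210)) (XT.lf (nat_lit 0) (nat_lit 6395110100) (nat_lit 228) (nat_lit 3066065762) (nat_lit 304) (nat_lit 5526841582) (nat_lit 46) (nat_lit 5) (nat_lit 49) (nat_lit 5) (nat_lit 50) (nat_lit 5) (nat_lit 263) (nat_lit 248) (nat_lit 209))) (XT.nd (nat_lit 78) (nat_lit 304) (nat_lit 0) (XT.lf (nat_lit 0) (nat_lit 2561729646) (nat_lit 304) (nat_lit 10903436420) (nat_lit 380) (nat_lit 2261186674) (nat_lit 42) (nat_lit 5) (nat_lit 46) (nat_lit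 5) (nat_lit 47) (nat_lit 5) (nat_lit 264) (nat_lit 248) (nat_lit 208)) (XT.nd (nat_lit 78) (nat_lit 228) (nat_lit 0) (XT.lf (nat_lit 0) (nat_lit 1367703648) (nat_lit 380) (nat_lit 1752480606) (nat_lit 76) (nat_lit 13395610127) (nat_lit 41) (nat_lit 5) (nat_lit 46) (nat_lit 5) (nat_lit 42) (nat_lit 5) (nat_lit 265) (nat_lit 248) (nat_lit 207)) (XT.lf (nat_lit 0) (nat_lit 5406370580) (nat_lit 304) (nat_lit 6638379962) (nat_lit 76) (nat_lit 5311994080) (nat_lit 38) (nat_lit 5) (nat_lit 42) (nat_lit 5) (nat_lit 39) (nat_lit 5) (nat_lit 266) (nat_lit 248) (nat_lit 206))))))))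
noncomputable def xc66 : XT := (XT.nd (nat_lit 1404) (nat_lit 532) (nat_lit 0) (XT.nd (nat_lit 702) (nat_lit 760) (nat_lit 0) (XT.nd (nat_lit 312) (nat_lit 532) (nat_lit 0) (XT.nd (nat_lit 156) (nat_lit 304) (nat_lit 0) (XT.nd (nat_lit 78) (nat_lit 152) (nat_lit 0) (XT.lf (nat_lit 0) (nat_lit 6055149116) (nat_lit 228) (nat_lit 3837252054) (nat_lit 304) (nat_lit 8366486766) (nat_lit 35) (nat_lit 5) (nat_lit 38) (nat_lit 5) (nat_lit 39) (nat_lit 5) (nat_lit 267) (nat_lit 248) (nat_lit 205)) (XT.lf (nat_lit 0) (nat_lit 643157987) (nat_lit 152) (nat_lit 14248957640) (nat_lit 228) (nat_lit 4333467914) (nat_lit 33) (nat_lit 5) (nat_lit 35) (nat_lit 5) (nat_lit 36) (nat_lit 5) (nat_lit 268) (nat_lit 248) (nat_lit 204))) (XT.nd (nat_lit 78) (nat_lit 228) (nat_lit 0) (XT.lf (nat_lit 0) (nat_lit 252831205) (nat_lit 228) (nat_lit 5443426344) (nat_lit 76) (nat_lit 14561879080) (nat_lit 32) (nat_lit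 5) (nat_lit 35) (nat_lit 5) (nat_lit 33) (nat_lit 5) (nat_lit 269) (nat_lit 248) (nat_lit 203)) (XT.lf (nat_lit 0) (nat_lit 5207803569) (nat_lit 304) (nat_lit 12529619603) (nat_lit 76) (nat_lit 3624737838) (nat_lit 29) (nat_lit 5) (nat_lit 33) (nat_lit 5) (nat_lit 30) (nat_lit 5) (nat_lit 270) (nat_lit 248) (nat_lit 202)))) (XT.nd (nat_lit 156) (nat_lit 380) (nat_lit 0) (XT.nd (nat_lit 78) (nat_lit 0) (nat_lit 0) (XT.lf (nat_lit 0) (nat_lit 1791403327) (nat_lit 152) (nat_lit 8944548376) (nat_lit 228) (nat_lit 11809808141) (nat_lit 27) (nat_lit 5) (nat_lit 29) (nat_lit 5) (nat_lit 30) (nat_lit 5) (nat_lit 271) (nat_lit 248) (nat_lit 201)) (XT.lf (nat_lit 0) (nat_lit 16895164968) (nat_lit 228) (nat_lit 6182408488) (nat_lit 76) (nat_lit 737117096) (nat_lit 27) (nat_lit 5) (nat_lit 30) (nat_lit 5) (nat_lit 28) (nat_lit 5) (nat_lit 272) (nat_lit 248) (nat_lit 200))) (XT.nd (nat_lit 78) (nat_lit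 228) (nat_lit 0) (XT.lf (nat_lit 0) (nat_lit 9655530589) (nat_lit 152) (nat_lit 14154603177) (nat_lit 228) (nat_lit 1361929392) (nat_lit 25) (nat_lit 5) (nat_lit 27) (nat_lit 5) (nat_lit 28) (nat_lit 5) (nat_lit 273) (nat_lit 248) (nat_lit 199)) (XT.nd (nat_lit 78) (nat_lit 0) (nat_lit 0) (XT.lf (nat_lit 0) (nat_lit 224858364) (nat_lit 152) (nat_lit 4342635465) (nat_lit 228) (nat_lit 22063191605) (nat_lit 22) (nat_lit 5) (nat_lit 24) (nat_lit 5) (nat_lit 25) (nat_lit 5) (nat_lit 274) (nat_lit 248) (nat_lit 198)) (XT.lf (nat_lit 0) (nat_lit 11260940843) (nat_lit 228) (nat_lit 10593702896) (nat_lit 76) (nat_lit 6333432138) (nat_lit 22) (nat_lit 5) (nat_lit 25) (nat_lit 5) (nat_lit 23) (nat_lit 5) (nat_lit 275) (nat_lit 248) (nat_lit 197)))))) (XT.nd (nat_lit 312) (nat_lit 456) (nat_lit 0) (XT.nd (nat_lit 156) (nat_lit 152) (nat_lit 0) (XT.nd (nat_lit 78) (nat_lit 0) (nat_lit 0) (XT.lf (nat_lit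 0) (nat_lit 6568713533) (nat_lit 152) (nat_lit 12063950758) (nat_lit 228) (nat_lit 11230312474) (nat_lit 20) (nat_lit 5) (nat_lit 22) (nat_lit 5) (nat_lit 23) (nat_lit 5) (nat_lit 276) (nat_lit 248) (nat_lit 196)) (XT.lf (nat_lit 0) (nat_lit 25432974726) (nat_lit 152) (nat_lit 1314377218) (nat_lit 228) (nat_lit 4916911321) (nat_lit 20) (nat_lit 5) (nat_lit 22) (nat_lit 5) (nat_lit 23) (nat_lit 5) (nat_lit 277) (nat_lit 248) (nat_lit 195))) (XT.nd (nat_lit 78) (nat_lit 0) (nat_lit 0) (XT.lf (nat_lit 0) (nat_lit 2170830999) (nat_lit 152) (nat_lit 21243098662) (nat_lit 76) (nat_lit 10177780414) (nat_lit 18) (nat_lit 5) (nat_lit 20) (nat_lit 5) (nat_lit 19) (nat_lit 5) (nat_lit 278) (nat_lit 248) (nat_lit 194)) (XT.lf (nat_lit 0) (nat_lit 9759829731) (nat_lit 152) (nat_lit 3183313354) (nat_lit 76) (nat_lit 22720899000) (nat_lit 18) (nat_lit 5) (nat_lit 20) (nat_lit 5) (nat_lit 19) (nat_lit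 5) (nat_lit 279) (nat_lit 248) (nat_lit 193)))) (XT.nd (nat_lit 156) (nat_lit 304) (nat_lit 0) (XT.nd (nat_lit 78) (nat_lit 0) (nat_lit 0) (XT.lf (nat_lit 0) (nat_lit 16816948153) (nat_lit 152) (nat_lit 1375366739) (nat_lit 228) (nat_lit 19698068909) (nat_lit 16) (nat_lit 5) (nat_lit 18) (nat_lit 5) (nat_lit 19) (nat_lit 5) (nat_lit 280) (nat_lit 248) (nat_lit 192)) (XT.lf (nat_lit 0) (nat_lit 27504204308) (nat_lit 228) (nat_lit 1977384695) (nat_lit 76) (nat_lit 10803041980) (nat_lit 16) (nat_lit 5) (nat_lit 19) (nat_lit 5) (nat_lit 17) (nat_lit 4) (nat_lit 281) (nat_lit 248) (nat_lit 191))) (XT.nd (nat_lit 78) (nat_lit 228) (nat_lit 0) (XT.lf (nat_lit 0) (nat_lit 19198998344) (nat_lit 76) (nat_lit 18661714404) (nat_lit 152) (nat_lit 4994757356) (nat_lit 15) (nat_lit 5) (nat_lit 16) (nat_lit 5) (nat_lit 17) (nat_lit 4) (nat_lit 282) (nat_lit 248) (nat_lit 190)) (XT.nd (nat_lit 78) (nat_lit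 152) (nat_lit 0) (XT.lf (nat_lit 0) (nat_lit 3316991805) (nat_lit 152) (nat_lit 3581758461) (nat_lit 76) (nat_lit 38729968114) (nat_lit 14) (nat_lit 5) (nat_lit 16) (nat_lit 5) (nat_lit 15) (nat_lit 5) (nat_lit 283) (nat_lit 248) (nat_lit 189)) (XT.lf (nat_lit 0) (nat_lit 12486722345) (nat_lit 228) (nat_lit 30128484023) (nat_lit 76) (nat_lit 5986153449) (nat_lit 12) (nat_lit 5) (nat_lit 15) (nat_lit 5) (nat_lit 13) (nat_lit 4) (nat_lit 284) (nat_lit 248) (nat_lit 188))))))) (XT.nd (nat_lit 702) (nat_lit 228) (nat_lit 0) (XT.nd (nat_lit 312) (nat_lit 152) (nat_lit 0) (XT.nd (nat_lit 156) (nat_lit 76) (nat_lit 0) (XT.nd (nat_lit 78) (nat_lit 76) (nat_lit 0) (XT.lf (nat_lit 0) (nat_lit 22549728922) (nat_lit 228) (nat_lit 9540493413) (nat_lit 76) (nat_lit 19713632235) (nat_lit 12) (nat_lit 5) (nat_lit 15) (nat_lit 5) (nat_lit 13) (nat_lit 4) (nat_lit 285) (nat_lit 248) (nat_lit 187)) (XT.lf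 (nat_lit 0) (nat_lit 13081526697) (nat_lit 76) (nat_lit 20521930588) (nat_lit 152) (nat_lit 21649832448) (nat_lit 11) (nat_lit 5) (nat_lit 12) (nat_lit 5) (nat_lit 13) (nat_lit 4) (nat_lit 286) (nat_lit 248) (nat_lit 186))) (XT.nd (nat_lit 78) (nat_lit 76) (nat_lit 0) (XT.lf (nat_lit 0) (nat_lit 37823673717) (nat_lit 76) (nat_lit 7866342652) (nat_lit 152) (nat_lit 13281259762) (nat_lit 11) (nat_lit 5) (nat_lit 12) (nat_lit 5) (nat_lit 13) (nat_lit 4) (nat_lit 287) (nat_lit 248) (nat_lit 185)) (XT.lf (nat_lit 0) (nat_lit 1486763909) (nat_lit 76) (nat_lit 57353997522) (nat_lit 76) (nat_lit 4141098288) (nat_lit 10) (nat_lit 4) (nat_lit 11) (nat_lit 5) (nat_lit 11) (nat_lit 4) (nat_lit 288) (nat_lit 248) (nat_lit 184)))) (XT.nd (nat_lit 156) (nat_lit 76) (nat_lit 0) (XT.nd (nat_lit 78) (nat_lit 0) (nat_lit 0) (XT.lf (nat_lit 0) (nat_lit 6037915373) (nat_lit 152) (nat_lit 40863994901) (nat_lit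 76) (nat_lit 20382373059) (nat_lit 9) (nat_lit 5) (nat_lit 11) (nat_lit 5) (nat_lit 10) (nat_lit 4) (nat_lit 289) (nat_lit 248) (nat_lit 183)) (XT.lf (nat_lit 0) (nat_lit 16873278447) (nat_lit 152) (nat_lit 18678187804) (nat_lit 76) (nat_lit 36376702054) (nat_lit 9) (nat_lit 5) (nat_lit 11) (nat_lit 5) (nat_lit 10) (nat_lit 4) (nat_lit 290) (nat_lit 248) (nat_lit 182))) (XT.nd (nat_lit 78) (nat_lit 0) (nat_lit 0) (XT.lf (nat_lit 0) (nat_lit 5432319220) (nat_lit 76) (nat_lit 23214236008) (nat_lit 152) (nat_lit 48293470749) (nat_lit 8) (nat_lit 5) (nat_lit 9) (nat_lit 5) (nat_lit 10) (nat_lit 4) (nat_lit 291) (nat_lit 248) (nat_lit 181)) (XT.nd (nat_lit 78) (nat_lit 0) (nat_lit 0) (XT.lf (nat_lit 0) (nat_lit 32115670524) (nat_lit 76) (nat_lit 9558314597) (nat_lit 152) (nat_lit 40663247530) (nat_lit 8) (nat_lit 5) (nat_lit 9) (nat_lit 5) (nat_lit 10) (nat_lit 4) (nat_lit 292) (nat_lit 248)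 (nat_lit 180)) (XT.lf (nat_lit 0) (nat_lit 55812394953) (nat_lit 152) (nat_lit 27335318738) (nat_lit 0) (nat_lit 5015076724) (nat_lit 8) (nat_lit 5) (nat_lit 10) (nat_lit 4) (nat_lit 8) (nat_lit 4) (nat_lit 293) (nat_lit 248) (nat_lit 179)))))) (XT.nd (nat_lit 390) (nat_lit 76) (nat_lit 0) (XT.nd (nat_lit 156) (nat_lit 76) (nat_lit 0) (XT.nd (nat_lit 78) (nat_lit 76) (nat_lit 0) (XT.lf (nat_lit 0) (nat_lit 71231709181) (nat_lit 152) (nat_lit 2799495695) (nat_lit 0) (nat_lit 20415709149) (nat_lit 8) (nat_lit 5) (nat_lit 10) (nat_lit 4) (nat_lit 8) (nat_lit 4) (nat_lit 294) (nat_lit 248) (nat_lit 178)) (XT.lf (nat_lit 0) (nat_lit 24463522031) (nat_lit 76) (nat_lit 63792491550) (nat_lit 76) (nat_lit 12959193552) (nat_lit 7) (nat_lit 4) (nat_lit 8) (nat_lit 5) (nat_lit 8) (nat_lit 4) (nat_lit 295) (nat_lit 248) (nat_lit 177))) (XT.nd (nat_lit 78) (nat_lit 76) (nat_lit 0) (XT.lf (nat_lit 0)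 (nat_lit 53989704417) (nat_lit 76) (nat_lit 52691323307) (nat_lit 76) (nat_lit 1842008674) (nat_lit 7) (nat_lit 4) (nat_lit 8) (nat_lit 5) (nat_lit 8) (nat_lit 4) (nat_lit 296) (nat_lit 248) (nat_lit 176)) (XT.nd (nat_lit 78) (nat_lit 0) (nat_lit 0) (XT.lf (nat_lit 0) (nat_lit 9829800974) (nat_lit 152) (nat_lit 30713052852) (nat_lit 76) (nat_lit 75865184050) (nat_lit 6) (nat_lit 5) (nat_lit 8) (nat_lit 5) (nat_lit 7) (nat_lit 4) (nat_lit 297) (nat_lit 248) (nat_lit 175)) (XT.lf (nat_lit 0) (nat_lit 22362960089) (nat_lit 152) (nat_lit 5033808349) (nat_lit 76) (nat_lit 97525963172) (nat_lit 6) (nat_lit 5) (nat_lit 8) (nat_lit 5) (nat_lit 7) (nat_lit 4) (nat_lit 298) (nat_lit 248) (nat_lit 174))))) (XT.nd (nat_lit 156) (nat_lit 0) (nat_lit 0) (XT.nd (nat_lit 78) (nat_lit 0) (nat_lit 0) (XT.lf (nat_lit 0) (nat_lit 23435413326) (nat_lit 76) (nat_lit 12821174176) (nat_lit 152) (nat_lit 97844130863)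 (nat_lit 5) (nat_lit 5) (nat_lit 6) (nat_lit 5) (nat_lit 7) (nat_lit 4) (nat_lit 299) (nat_lit 248) (nat_lit 173)) (XT.lf (nat_lit 0) (nat_lit 51388635105) (nat_lit 152) (nat_lit 89707776712) (nat_lit 0) (nat_lit 2910193430) (nat_lit 5) (nat_lit 5) (nat_lit 7) (nat_lit 4) (nat_lit 5) (nat_lit 4) (nat_lit 300) (nat_lit 248) (nat_lit 172))) (XT.nd (nat_lit 78) (nat_lit 0) (nat_lit 0) (XT.lf (nat_lit 0) (nat_lit 67940222108) (nat_lit 152) (nat_lit 67302900452) (nat_lit 0) (nat_lit 19451398858) (nat_lit 5) (nat_lit 5) (nat_lit 7) (nat_lit 4) (nat_lit 5) (nat_lit 4) (nat_lit 301) (nat_lit 248) (nat_lit 171)) (XT.nd (nat_lit 78) (nat_lit 0) (nat_lit 0) (XT.lf (nat_lit 0) (nat_lit 85809257528) (nat_lit 152) (nat_lit 43117732161) (nat_lit 0) (nat_lit 37310821710) (nat_lit 5) (nat_lit 5) (nat_lit 7) (nat_lit 4) (nat_lit 5) (nat_lit 4) (nat_lit 302) (nat_lit 248) (nat_lit 170)) (XT.lf (nat_lit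 0) (nat_lit 105101631946) (nat_lit 152) (nat_lit 17008952324) (nat_lit 0) (nat_lit 56594295602) (nat_lit 5) (nat_lit 5) (nat_lit 7) (nat_lit 4) (nat_lit 5) (nat_lit 4) (nat_lit 303) (nat_lit 248) (nat_lit 169))))))))
noncomputable def xc67 : XT := (XT.nd (nat_lit 1404) (nat_lit 0) (nat_lit 0) (XT.nd (nat_lit 702) (nat_lit 76) (nat_lit 0) (XT.nd (nat_lit 312) (nat_lit 76) (nat_lit 0) (XT.nd (nat_lit 156) (nat_lit 0) (nat_lit 0) (XT.nd (nat_lit 78) (nat_lit 0) (nat_lit 0) (XT.lf (nat_lit 0) (nat_lit 11547758131) (nat_lit 76) (nat_lit 114564205279) (nat_lit 76) (nat_lit 66048627707) (nat_lit 4) (nat_lit 4) (nat_lit 5) (nat_lit 5) (nat_lit 5) (nat_lit 4) (nat_lit 304) (nat_lit 248) (nat_lit 168)) (XT.lf (nat_lit 0) (nat_lit 42986468239) (nat_lit 76) (nat_lit 106107481586) (nat_lit 76) (nat_lit 57584273247) (nat_lit 4) (nat_lit 4) (nat_lit 5) (nat_lit 5) (nat_lit 5) (nat_lit 4) (nat_lit 305)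 (nat_lit 248) (nat_lit 167))) (XT.nd (nat_lit 78) (nat_lit 0) (nat_lit 0) (XT.lf (nat_lit 0) (nat_lit 76931088689) (nat_lit 76) (nat_lit 96978354110) (nat_lit 76) (nat_lit 48448080246) (nat_lit 4) (nat_lit 4) (nat_lit 5) (nat_lit 5) (nat_lit 5) (nat_lit 4) (nat_lit 306) (nat_lit 248) (nat_lit 166)) (XT.lf (nat_lit 0) (nat_lit 113582772786) (nat_lit 76) (nat_lit 87122724318) (nat_lit 76) (nat_lit 38585908302) (nat_lit 4) (nat_lit 4) (nat_lit 5) (nat_lit 5) (nat_lit 5) (nat_lit 4) (nat_lit 307) (nat_lit 248) (nat_lit 165)))) (XT.nd (nat_lit 156) (nat_lit 76) (nat_lit 0) (XT.nd (nat_lit 78) (nat_lit 0) (nat_lit 0) (XT.lf (nat_lit 0) (nat_lit 153158715696) (nat_lit 76) (nat_lit 76482188478) (nat_lit 76) (nat_lit 27939314913) (nat_lit 4) (nat_lit 4) (nat_lit 5) (nat_lit 5) (nat_lit 5) (nat_lit 4) (nat_lit 308) (nat_lit 248) (nat_lit 164)) (XT.lf (nat_lit 0) (nat_lit 195893441525) (nat_lit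 76) (nat_lit 64993691563) (nat_lit 76) (nat_lit 16445209156) (nat_lit 4) (nat_lit 4) (nat_lit 5) (nat_lit 5) (nat_lit 5) (nat_lit 4) (nat_lit 309) (nat_lit 248) (nat_lit 163))) (XT.nd (nat_lit 78) (nat_lit 76) (nat_lit 0) (XT.lf (nat_lit 0) (nat_lit 242040193092) (nat_lit 76) (nat_lit 52589153591) (nat_lit 76) (nat_lit 4035477813) (nat_lit 4) (nat_lit 4) (nat_lit 5) (nat_lit 5) (nat_lit 5) (nat_lit 4) (nat_lit 310) (nat_lit 248) (nat_lit 162)) (XT.nd (nat_lit 78) (nat_lit 0) (nat_lit 0) (XT.lf (nat_lit 0) (nat_lit 9063730406) (nat_lit 152) (nat_lit 29977837122) (nat_lit 76) (nat_lit 282655203564) (nat_lit 3) (nat_lit 5) (nat_lit 5) (nat_lit 5) (nat_lit 4) (nat_lit 4) (nat_lit 311) (nat_lit 248) (nat_lit 161)) (XT.lf (nat_lit 0) (nat_lit 23068142962) (nat_lit 152) (nat_lit 1273243861) (nat_lit 76) (nat_lit 322226649172) (nat_lit 3) (nat_lit 5) (nat_lit 5) (nat_lit 5) (nat_lit 4) (nat_lit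 4) (nat_lit 312) (nat_lit 248) (nat_lit 160)))))) (XT.nd (nat_lit 312) (nat_lit 0) (nat_lit 0) (XT.nd (nat_lit 156) (nat_lit 0) (nat_lit 0) (XT.nd (nat_lit 78) (nat_lit 0) (nat_lit 0) (XT.lf (nat_lit 0) (nat_lit 30705006764) (nat_lit 76) (nat_lit 7964293901) (nat_lit 152) (nat_lit 334735884510) (nat_lit 2) (nat_lit 5) (nat_lit 3) (nat_lit 5) (nat_lit 4) (nat_lit 4) (nat_lit 313) (nat_lit 248) (nat_lit 159)) (XT.lf (nat_lit 0) (nat_lit 55690000991) (nat_lit 152) (nat_lit 337258712283) (nat_lit 0) (nat_lit 9432023007) (nat_lit 2) (nat_lit 5) (nat_lit 4) (nat_lit 4) (nat_lit 2) (nat_lit 4) (nat_lit 314) (nat_lit 248) (nat_lit 158))) (XT.nd (nat_lit 78) (nat_lit 0) (nat_lit 0) (XT.lf (nat_lit 0) (nat_lit 74203968937) (nat_lit 152) (nat_lit 331521159527) (nat_lit 0) (nat_lit 27942624741) (nat_lit 2) (nat_lit 5) (nat_lit 4) (nat_lit 4) (nat_lit 2) (nat_lit 4) (nat_lit 315) (nat_lit 248) (nat_lit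 157)) (XT.lf (nat_lit 0) (nat_lit 94196571956) (nat_lit 152) (nat_lit 325329174882) (nat_lit 0) (nat_lit 47932110898) (nat_lit 2) (nat_lit 5) (nat_lit 4) (nat_lit 4) (nat_lit 2) (nat_lit 4) (nat_lit 316) (nat_lit 248) (nat_lit 156)))) (XT.nd (nat_lit 156) (nat_lit 0) (nat_lit 0) (XT.nd (nat_lit 78) (nat_lit 0) (nat_lit 0) (XT.lf (nat_lit 0) (nat_lit 115786284734) (nat_lit 152) (nat_lit 318646065107) (nat_lit 0) (nat_lit 69518937693) (nat_lit 2) (nat_lit 5) (nat_lit 4) (nat_lit 4) (nat_lit 2) (nat_lit 4) (nat_lit 317) (nat_lit 248) (nat_lit 155)) (XT.lf (nat_lit 0) (nat_lit 139101046309) (nat_lit 152) (nat_lit 311432226587) (nat_lit 0) (nat_lit 92831027062) (nat_lit 2) (nat_lit 5) (nat_lit 4) (nat_lit 4) (nat_lit 2) (nat_lit 4) (nat_lit 318) (nat_lit 248) (nat_lit 154))) (XT.nd (nat_lit 78) (nat_lit 0) (nat_lit 0) (XT.lf (nat_lit 0) (nat_lit 164279018232) (nat_lit 152) (nat_lit 303644910650)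 (nat_lit 0) (nat_lit 118006524719) (nat_lit 2) (nat_lit 5) (nat_lit 4) (nat_lit 4) (nat_lit 2) (nat_lit 4) (nat_lit 319) (nat_lit 248) (nat_lit 153)) (XT.nd (nat_lit 78) (nat_lit 0) (nat_lit 0) (XT.lf (nat_lit 0) (nat_lit 191469403298) (nat_lit 152) (nat_lit 295237970239) (nat_lit 0) (nat_lit 145194618799) (nat_lit 2) (nat_lit 5) (nat_lit 4) (nat_lit 4) (nat_lit 2) (nat_lit 4) (nat_lit 320) (nat_lit 248) (nat_lit 152)) (XT.lf (nat_lit 0) (nat_lit 220833329717) (nat_lit 152) (nat_lit 286161586447) (nat_lit 0) (nat_lit 174556423933) (nat_lit 2) (nat_lit 5) (nat_lit 4) (nat_lit 4) (nat_lit 2) (nat_lit 4) (nat_lit 321) (nat_lit 248) (nat_lit 151))))))) (XT.nd (nat_lit 32448) (nat_lit 0) (nat_lit 2964) (XT.nd (nat_lit 32058) (nat_lit 0) (nat_lit 5624) (XT.nd (nat_lit 31902) (nat_lit 0) (nat_lit 6080) (XT.nd (nat_lit 31824) (nat_lit 0) (nat_lit 6004) (XT.lf (nat_lit 0) (nat_lit 252544805940)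 (nat_lit 152) (nat_lit 276361973297) (nat_lit 0) (nat_lit 206265936004) (nat_lit 2) (nat_lit 5) (nat_lit 4) (nat_lit 4) (nat_lit 2) (nat_lit 4) (nat_lit 322) (nat_lit 248) (nat_lit 150)) (XT.lf (nat_lit 0) (nat_lit 147947540) (nat_lit 684) (nat_lit 2137057989) (nat_lit 684) (nat_lit 2137057989) (nat_lit 81) (nat_lit 3) (nat_lit 90) (nat_lit 3) (nat_lit 90) (nat_lit 5) (nat_lit 249) (nat_lit 249) (nat_lit 222))) (XT.nd (nat_lit 78) (nat_lit 0) (nat_lit 0) (XT.lf (nat_lit 0) (nat_lit 1688407116) (nat_lit 608) (nat_lit 7229158145) (nat_lit 684) (nat_lit 206500607) (nat_lit 82) (nat_lit 5) (nat_lit 90) (nat_lit 5) (nat_lit 91) (nat_lit 5) (nat_lit 250) (nat_lit 249) (nat_lit 221)) (XT.lf (nat_lit 0) (nat_lit 3210048090) (nat_lit 608) (nat_lit 872508641) (nat_lit 684) (nat_lit 5343436148) (nat_lit 82) (nat_lit 5) (nat_lit 90) (nat_lit 5) (nat_lit 91) (nat_lit 5) (nat_lit 251) (nat_lit 249)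 (nat_lit 220)))) (XT.nd (nat_lit 156) (nat_lit 532) (nat_lit 0) (XT.nd (nat_lit 78) (nat_lit 0) (nat_lit 0) (XT.lf (nat_lit 0) (nat_lit 4843976871) (nat_lit 608) (nat_lit 3661386844) (nat_lit 684) (nat_lit 1247626467) (nat_lit 83) (nat_lit 5) (nat_lit 91) (nat_lit 5) (nat_lit 92) (nat_lit 5) (nat_lit 252) (nat_lit 249) (nat_lit 219)) (XT.lf (nat_lit 76) (nat_lit 3502371515) (nat_lit 0) (nat_lit 3129040543) (nat_lit 684) (nat_lit 3474006678) (nat_lit 84) (nat_lit 5) (nat_lit 83) (nat_lit 5) (nat_lit 92) (nat_lit 5) (nat_lit 253) (nat_lit 249) (nat_lit 218))) (XT.nd (nat_lit 78) (nat_lit 608) (nat_lit 0) (XT.lf (nat_lit 76) (nat_lit 787337239) (nat_lit 0) (nat_lit 7785183184) (nat_lit 684) (nat_lit 1913367856) (nat_lit 85) (nat_lit 5) (nat_lit 84) (nat_lit 5) (nat_lit 93) (nat_lit 5) (nat_lit 254) (nat_lit 249) (nat_lit 217)) (XT.nd (nat_lit 78) (nat_lit 608) (nat_lit 0) (XT.lf (nat_lit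 76) (nat_lit 8871668756) (nat_lit 0) (nat_lit 1862730696) (nat_lit 684) (nat_lit 159474263) (nat_lit 85) (nat_lit 5) (nat_lit 84) (nat_lit 5) (nat_lit 93) (nat_lit 5) (nat_lit 255) (nat_lit 249) (nat_lit 216)) (XT.lf (nat_lit 0) (nat_lit 1756013249) (nat_lit 684) (nat_lit 5037655850) (nat_lit 76) (nat_lit 4535945235) (nat_lit 76) (nat_lit 5) (nat_lit 85) (nat_lit 5) (nat_lit 77) (nat_lit 5) (nat_lit 256) (nat_lit 249) (nat_lit 215)))))) (XT.nd (nat_lit 390) (nat_lit 912) (nat_lit 0) (XT.nd (nat_lit 156) (nat_lit 760) (nat_lit 0) (XT.nd (nat_lit 78) (nat_lit 304) (nat_lit 0) (XT.lf (nat_lit 0) (nat_lit 3545869528) (nat_lit 684) (nat_lit 306361772) (nat_lit 760) (nat_lit 7946486012) (nat_lit 67) (nat_lit 5) (nat_lit 76) (nat_lit 5) (nat_lit 77) (nat_lit 5) (nat_lit 257) (nat_lit 249) (nat_lit 214)) (XT.lf (nat_lit 0) (nat_lit 526629933) (nat_lit 304) (nat_lit 5707585287) (nat_lit 380) (nat_lit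 6065496335) (nat_lit 63) (nat_lit 5) (nat_lit 67) (nat_lit 5) (nat_lit 68) (nat_lit 5) (nat_lit 258) (nat_lit 249) (nat_lit 213))) (XT.nd (nat_lit 78) (nat_lit 760) (nat_lit 0) (XT.lf (nat_lit 0) (nat_lit 8897691220) (nat_lit 380) (nat_lit 2636455148) (nat_lit 76) (nat_lit 1302339010) (nat_lit 63) (nat_lit 5) (nat_lit 68) (nat_lit 5) (nat_lit 64) (nat_lit 5) (nat_lit 259) (nat_lit 249) (nat_lit 212)) (XT.nd (nat_lit 78) (nat_lit 380) (nat_lit 0) (XT.lf (nat_lit 0) (nat_lit 7294256587) (nat_lit 380) (nat_lit 4617090142) (nat_lit 456) (nat_lit 1498227740) (nat_lit 58) (nat_lit 5) (nat_lit 63) (nat_lit 5) (nat_lit 64) (nat_lit 5) (nat_lit 260) (nat_lit 249) (nat_lit 211)) (XT.lf (nat_lit 0) (nat_lit 1188854189) (nat_lit 380) (nat_lit 9944792623) (nat_lit 76) (nat_lit 2889793275) (nat_lit 53) (nat_lit 5) (nat_lit 58) (nat_lit 5) (nat_lit 54) (nat_lit 5) (nat_lit 261) (nat_lit 249) (nat_lit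 210))))) (XT.nd (nat_lit 156) (nat_lit 608) (nat_lit 0) (XT.nd (nat_lit 78) (nat_lit 0) (nat_lit 0) (XT.lf (nat_lit 0) (nat_lit 461738850) (nat_lit 304) (nat_lit 3704684207) (nat_lit 380) (nat_lit 10512549812) (nat_lit 49) (nat_lit 5) (nat_lit 53) (nat_lit 5) (nat_lit 54) (nat_lit 5) (nat_lit 262) (nat_lit 249) (nat_lit 209)) (XT.lf (nat_lit 0) (nat_lit 7563335044) (nat_lit 380) (nat_lit 3466187508) (nat_lit 76) (nat_lit 4348541546) (nat_lit 49) (nat_lit 5) (nat_lit 54) (nat_lit 5) (nat_lit 50) (nat_lit 5) (nat_lit 263) (nat_lit 249) (nat_lit 208))) (XT.nd (nat_lit 78) (nat_lit 380) (nat_lit 0) (XT.lf (nat_lit 0) (nat_lit 8279360902) (nat_lit 228) (nat_lit 3086630572) (nat_lit 304) (nat_lit 4760551489) (nat_lit 46) (nat_lit 5) (nat_lit 49) (nat_lit 5) (nat_lit 50) (nat_lit 5) (nat_lit 264) (nat_lit 249) (nat_lit 207)) (XT.nd (nat_lit 78) (nat_lit 76) (nat_lit 0) (XT.lf (nat_lit 0) (nat_lit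 4134186555) (nat_lit 304) (nat_lit 11495682536) (nat_lit 380) (nat_lit 1297328677) (nat_lit 42) (nat_lit 5) (nat_lit 46) (nat_lit 5) (nat_lit 47) (nat_lit 5) (nat_lit 265) (nat_lit 249) (nat_lit 206)) (XT.lf (nat_lit 0) (nat_lit 2503151133) (nat_lit 380) (nat_lit 589985604) (nat_lit 76) (nat_lit 14690072277) (nat_lit 41) (nat_lit 5) (nat_lit 46) (nat_lit 5) (nat_lit 42) (nat_lit 5) (nat_lit 266) (nat_lit 249) (nat_lit 205))))))))
noncomputable def xc68 : XT := (XT.nd (nat_lit 1404) (nat_lit 684) (nat_lit 0) (XT.nd (nat_lit 702) (nat_lit 608) (nat_lit 0) (XT.nd (nat_lit 312) (nat_lit 760) (nat_lit 0) (XT.nd (nat_lit 156) (nat_lit 228) (nat_lit 0) (XT.nd (nat_lit 78) (nat_lit 228) (nat_lit 0) (XT.lf (nat_lit 0) (nat_lit 6812682353) (nat_lit 304) (nat_lit 5876855971) (nat_lit 76) (nat_lit 6004697096) (nat_lit 38) (nat_lit 5) (nat_lit 42) (nat_lit 5) (nat_lit 39) (nat_lit 5) (nat_lit 267)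 (nat_lit 249) (nat_lit 204)) (XT.lf (nat_lit 0) (nat_lit 7775980856) (nat_lit 228) (nat_lit 3828785021) (nat_lit 304) (nat_lit 8066600513) (nat_lit 35) (nat_lit 5) (nat_lit 38) (nat_lit 5) (nat_lit 39) (nat_lit 5) (nat_lit 268) (nat_lit 249) (nat_lit 203))) (XT.nd (nat_lit 78) (nat_lit 76) (nat_lit 0) (XT.lf (nat_lit 0) (nat_lit 1918722610) (nat_lit 152) (nat_lit 15041186705) (nat_lit 228) (nat_lit 3757877512) (nat_lit 33) (nat_lit 5) (nat_lit 35) (nat_lit 5) (nat_lit 36) (nat_lit 5) (nat_lit 269) (nat_lit 249) (nat_lit 202)) (XT.lf (nat_lit 0) (nat_lit 1099677613) (nat_lit 228) (nat_lit 4716348418) (nat_lit 76) (nat_lit 16019647309) (nat_lit 32) (nat_lit 5) (nat_lit 35) (nat_lit 5) (nat_lit 33) (nat_lit 5) (nat_lit 270) (nat_lit 249) (nat_lit 201)))) (XT.nd (nat_lit 156) (nat_lit 380) (nat_lit 0) (XT.nd (nat_lit 78) (nat_lit 152) (nat_lit 0) (XT.lf (nat_lit 0) (nat_lit 6412319506) (nat_lit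 304) (nat_lit 12384312521) (nat_lit 76) (nat_lit 4233456148) (nat_lit 29) (nat_lit 5) (nat_lit 33) (nat_lit 5) (nat_lit 30) (nat_lit 5) (nat_lit 271) (nat_lit 249) (nat_lit 200)) (XT.lf (nat_lit 0) (nat_lit 3032515615) (nat_lit 152) (nat_lit 9308981267) (nat_lit 228) (nat_lit 11969061471) (nat_lit 27) (nat_lit 5) (nat_lit 29) (nat_lit 5) (nat_lit 30) (nat_lit 5) (nat_lit 272) (nat_lit 249) (nat_lit 199))) (XT.nd (nat_lit 78) (nat_lit 380) (nat_lit 0) (XT.lf (nat_lit 0) (nat_lit 18943214444) (nat_lit 228) (nat_lit 5629612128) (nat_lit 76) (nat_lit 1110801830) (nat_lit 27) (nat_lit 5) (nat_lit 30) (nat_lit 5) (nat_lit 28) (nat_lit 5) (nat_lit 273) (nat_lit 249) (nat_lit 198)) (XT.nd (nat_lit 78) (nat_lit 228) (nat_lit 0) (XT.lf (nat_lit 0) (nat_lit 11429843823) (nat_lit 152) (nat_lit 14945591060) (nat_lit 228) (nat_lit 776058083) (nat_lit 25) (nat_lit 5) (nat_lit 27) (nat_lit 5) (nat_lit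 28) (nat_lit 5) (nat_lit 274) (nat_lit 249) (nat_lit 197)) (XT.lf (nat_lit 0) (nat_lit 1223644085) (nat_lit 152) (nat_lit 4347327889) (nat_lit 228) (nat_lit 23157108523) (nat_lit 22) (nat_lit 5) (nat_lit 24) (nat_lit 5) (nat_lit 25) (nat_lit 5) (nat_lit 275) (nat_lit 249) (nat_lit 196)))))) (XT.nd (nat_lit 312) (nat_lit 304) (nat_lit 0) (XT.nd (nat_lit 156) (nat_lit 152) (nat_lit 0) (XT.nd (nat_lit 78) (nat_lit 152) (nat_lit 0) (XT.lf (nat_lit 0) (nat_lit 12757584104) (nat_lit 228) (nat_lit 10507397248) (nat_lit 76) (nat_lit 7147281973) (nat_lit 22) (nat_lit 5) (nat_lit 25) (nat_lit 5) (nat_lit 23) (nat_lit 5) (nat_lit 276) (nat_lit 249) (nat_lit 195)) (XT.lf (nat_lit 0) (nat_lit 7987430603) (nat_lit 152) (nat_lit 12701429530) (nat_lit 228) (nat_lit 11533884692) (nat_lit 20) (nat_lit 5) (nat_lit 22) (nat_lit 5) (nat_lit 23) (nat_lit 5) (nat_lit 277) (nat_lit 249) (nat_lit 194))) (XT.nd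 (nat_lit 78) (nat_lit 152) (nat_lit 0) (XT.lf (nat_lit 0) (nat_lit 28294668248) (nat_lit 152) (nat_lit 1116159535) (nat_lit 228) (nat_lit 4759474615) (nat_lit 20) (nat_lit 5) (nat_lit 22) (nat_lit 5) (nat_lit 23) (nat_lit 5) (nat_lit 278) (nat_lit 249) (nat_lit 193)) (XT.lf (nat_lit 0) (nat_lit 2855515913) (nat_lit 152) (nat_lit 22112334612) (nat_lit 76) (nat_lit 11284836315) (nat_lit 18) (nat_lit 5) (nat_lit 20) (nat_lit 5) (nat_lit 19) (nat_lit 5) (nat_lit 279) (nat_lit 249) (nat_lit 192)))) (XT.nd (nat_lit 156) (nat_lit 152) (nat_lit 0) (XT.nd (nat_lit 78) (nat_lit 152) (nat_lit 0) (XT.lf (nat_lit 0) (nat_lit 11013781325) (nat_lit 152) (nat_lit 2669263660) (nat_lit 76) (nat_lit 24809713019) (nat_lit 18) (nat_lit 5) (nat_lit 20) (nat_lit 5) (nat_lit 19) (nat_lit 5) (nat_lit 280) (nat_lit 249) (nat_lit 191)) (XT.lf (nat_lit 0) (nat_lit 18897611361) (nat_lit 152) (nat_lit 1199684872)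 (nat_lit 228) (nat_lit 20801144774) (nat_lit 16) (nat_lit 5) (nat_lit 18) (nat_lit 5) (nat_lit 19) (nat_lit 5) (nat_lit 281) (nat_lit 249) (nat_lit 190))) (XT.nd (nat_lit 78) (nat_lit 152) (nat_lit 0) (XT.lf (nat_lit 0) (nat_lit 30124963711) (nat_lit 228) (nat_lit 1437408711) (nat_lit 76) (nat_lit 11923365582) (nat_lit 16) (nat_lit 5) (nat_lit 19) (nat_lit 5) (nat_lit 17) (nat_lit 4) (nat_lit 282) (nat_lit 249) (nat_lit 189)) (XT.nd (nat_lit 78) (nat_lit 76) (nat_lit 0) (XT.lf (nat_lit 0) (nat_lit 21402743496) (nat_lit 76) (nat_lit 19886533505) (nat_lit 152) (nat_lit 4974050622) (nat_lit 15) (nat_lit 5) (nat_lit 16) (nat_lit 5) (nat_lit 17) (nat_lit 4) (nat_lit 283) (nat_lit 249) (nat_lit 188)) (XT.lf (nat_lit 0) (nat_lit 3959050690) (nat_lit 152) (nat_lit 3236962555) (nat_lit 76) (nat_lit 42063643178) (nat_lit 14) (nat_lit 5) (nat_lit 16) (nat_lit 5) (nat_lit 15) (nat_lit 5) (nat_lit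 284) (nat_lit 249) (nat_lit 187))))))) (XT.nd (nat_lit 702) (nat_lit 228) (nat_lit 0) (XT.nd (nat_lit 312) (nat_lit 228) (nat_lit 0) (XT.nd (nat_lit 156) (nat_lit 76) (nat_lit 0) (XT.nd (nat_lit 78) (nat_lit 0) (nat_lit 0) (XT.lf (nat_lit 0) (nat_lit 13847720242) (nat_lit 228) (nat_lit 31920302131) (nat_lit 76) (nat_lit 6702857621) (nat_lit 12) (nat_lit 5) (nat_lit 15) (nat_lit 5) (nat_lit 13) (nat_lit 4) (nat_lit 285) (nat_lit 249) (nat_lit 186)) (XT.lf (nat_lit 0) (nat_lit 24688948078) (nat_lit 228) (nat_lit 9731084169) (nat_lit 76) (nat_lit 21510919014) (nat_lit 12) (nat_lit 5) (nat_lit 15) (nat_lit 5) (nat_lit 13) (nat_lit 4) (nat_lit 286) (nat_lit 249) (nat_lit 185))) (XT.nd (nat_lit 78) (nat_lit 0) (nat_lit 0) (XT.lf (nat_lit 0) (nat_lit 14675810934) (nat_lit 76) (nat_lit 21934883222) (nat_lit 152) (nat_lit 23046494415) (nat_lit 11) (nat_lit 5) (nat_lit 12) (nat_lit 5) (nat_lit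 13) (nat_lit 4) (nat_lit 287) (nat_lit 249) (nat_lit 184)) (XT.lf (nat_lit 0) (nat_lit 41356754746) (nat_lit 76) (nat_lit 8283796533) (nat_lit 152) (nat_lit 14033274775) (nat_lit 11) (nat_lit 5) (nat_lit 12) (nat_lit 5) (nat_lit 13) (nat_lit 4) (nat_lit 288) (nat_lit 249) (nat_lit 183)))) (XT.nd (nat_lit 156) (nat_lit 76) (nat_lit 0) (XT.nd (nat_lit 78) (nat_lit 76) (nat_lit 0) (XT.lf (nat_lit 0) (nat_lit 2102180209) (nat_lit 76) (nat_lit 61730113160) (nat_lit 76) (nat_lit 4173544642) (nat_lit 10) (nat_lit 4) (nat_lit 11) (nat_lit 5) (nat_lit 11) (nat_lit 4) (nat_lit 289) (nat_lit 249) (nat_lit 182)) (XT.lf (nat_lit 0) (nat_lit 6788797412) (nat_lit 152) (nat_lit 43664244199) (nat_lit 76) (nat_lit 22200277193) (nat_lit 9) (nat_lit 5) (nat_lit 11) (nat_lit 5) (nat_lit 10) (nat_lit 4) (nat_lit 290) (nat_lit 249) (nat_lit 181))) (XT.nd (nat_lit 78) (nat_lit 76) (nat_lit 0) (XT.lf (nat_lit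 0) (nat_lit 18471148880) (nat_lit 152) (nat_lit 19738303667) (nat_lit 76) (nat_lit 39460277375) (nat_lit 9) (nat_lit 5) (nat_lit 11) (nat_lit 5) (nat_lit 10) (nat_lit 4) (nat_lit 291) (nat_lit 249) (nat_lit 180)) (XT.nd (nat_lit 78) (nat_lit 0) (nat_lit 0) (XT.lf (nat_lit 0) (nat_lit 6282176760) (nat_lit 76) (nat_lit 24892223628) (nat_lit 152) (nat_lit 51908751778) (nat_lit 8) (nat_lit 5) (nat_lit 9) (nat_lit 5) (nat_lit 10) (nat_lit 4) (nat_lit 292) (nat_lit 249) (nat_lit 179)) (XT.lf (nat_lit 0) (nat_lit 35069435280) (nat_lit 76) (nat_lit 10157098968) (nat_lit 152) (nat_lit 43686495637) (nat_lit 8) (nat_lit 5) (nat_lit 9) (nat_lit 5) (nat_lit 10) (nat_lit 4) (nat_lit 293) (nat_lit 249) (nat_lit 178)))))) (XT.nd (nat_lit 390) (nat_lit 76) (nat_lit 0) (XT.nd (nat_lit 156) (nat_lit 152) (nat_lit 0) (XT.nd (nat_lit 78) (nat_lit 0) (nat_lit 0) (XT.lf (nat_lit 0) (nat_lit 60482220050) (nat_lit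 152) (nat_lit 29158160322) (nat_lit 0) (nat_lit 5564960246) (nat_lit 8) (nat_lit 5) (nat_lit 10) (nat_lit 4) (nat_lit 8) (nat_lit 4) (nat_lit 294) (nat_lit 249) (nat_lit 177)) (XT.lf (nat_lit 0) (nat_lit 77119906565) (nat_lit 152) (nat_lit 2686433207) (nat_lit 0) (nat_lit 22186630126) (nat_lit 8) (nat_lit 5) (nat_lit 10) (nat_lit 4) (nat_lit 8) (nat_lit 4) (nat_lit 295) (nat_lit 249) (nat_lit 176))) (XT.nd (nat_lit 78) (nat_lit 76) (nat_lit 0) (XT.lf (nat_lit 0) (nat_lit 26742979366) (nat_lit 76) (nat_lit 68754160200) (nat_lit 76) (nat_lit 13806053543) (nat_lit 7) (nat_lit 4) (nat_lit 8) (nat_lit 5) (nat_lit 8) (nat_lit 4) (nat_lit 296) (nat_lit 249) (nat_lit 175)) (XT.nd (nat_lit 78) (nat_lit 76) (nat_lit 0) (XT.lf (nat_lit 0) (nat_lit 58607376670) (nat_lit 76) (nat_lit 56775397066) (nat_lit 76) (nat_lit 1813558727) (nat_lit 7) (nat_lit 4) (nat_lit 8) (nat_lit 5) (nat_lit 8) (nat_lit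 4) (nat_lit 297) (nat_lit 249) (nat_lit 174)) (XT.lf (nat_lit 0) (nat_lit 10773762462) (nat_lit 152) (nat_lit 32888339811) (nat_lit 76) (nat_lit 82050537808) (nat_lit 6) (nat_lit 5) (nat_lit 8) (nat_lit 5) (nat_lit 7) (nat_lit 4) (nat_lit 298) (nat_lit 249) (nat_lit 173))))) (XT.nd (nat_lit 156) (nat_lit 0) (nat_lit 0) (XT.nd (nat_lit 78) (nat_lit 76) (nat_lit 0) (XT.lf (nat_lit 0) (nat_lit 24297901905) (nat_lit 152) (nat_lit 5175626658) (nat_lit 76) (nat_lit 105435576367) (nat_lit 6) (nat_lit 5) (nat_lit 8) (nat_lit 5) (nat_lit 7) (nat_lit 4) (nat_lit 299) (nat_lit 249) (nat_lit 172)) (XT.lf (nat_lit 0) (nat_lit 25559794948) (nat_lit 76) (nat_lit 13736312937) (nat_lit 152) (nat_lit 105525579430) (nat_lit 5) (nat_lit 5) (nat_lit 6) (nat_lit 5) (nat_lit 7) (nat_lit 4) (nat_lit 300) (nat_lit 249) (nat_lit 171))) (XT.nd (nat_lit 78) (nat_lit 0) (nat_lit 0) (XT.lf (nat_lit 0) (nat_lit 55630021709)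 (nat_lit 152) (nat_lit 96648370146) (nat_lit 0) (nat_lit 3242098457) (nat_lit 5) (nat_lit 5) (nat_lit 7) (nat_lit 4) (nat_lit 5) (nat_lit 4) (nat_lit 301) (nat_lit 249) (nat_lit 170)) (XT.nd (nat_lit 78) (nat_lit 0) (nat_lit 0) (XT.lf (nat_lit 0) (nat_lit 73496084132) (nat_lit 152) (nat_lit 72468587392) (nat_lit 0) (nat_lit 21099260353) (nat_lit 5) (nat_lit 5) (nat_lit 7) (nat_lit 4) (nat_lit 5) (nat_lit 4) (nat_lit 302) (nat_lit 249) (nat_lit 169)) (XT.lf (nat_lit 0) (nat_lit 92785705774) (nat_lit 152) (nat_lit 46364794164) (nat_lit 0) (nat_lit 40380640768) (nat_lit 5) (nat_lit 5) (nat_lit 7) (nat_lit 4) (nat_lit 5) (nat_lit 4) (nat_lit 303) (nat_lit 249) (nat_lit 168))))))))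
noncomputable def xc69 : XT := (XT.nd (nat_lit 1404) (nat_lit 0) (nat_lit 0) (XT.nd (nat_lit 702) (nat_lit 76) (nat_lit 0) (XT.nd (nat_lit 312) (nat_lit 76) (nat_lit 0) (XT.nd (nat_lit 156) (nat_lit 0) (nat_lit 0) (XT.nd (nat_lit 78) (nat_lit 76) (nat_lit 0) (XT.lf (nat_lit 0) (nat_lit 113613195505) (nat_lit 152) (nat_lit 18182301315) (nat_lit 0) (nat_lit 61200499732) (nat_lit 5) (nat_lit 5) (nat_lit 7) (nat_lit 4) (nat_lit 5) (nat_lit 4) (nat_lit 304) (nat_lit 249) (nat_lit 167)) (XT.lf (nat_lit 0) (nat_lit 12650803226) (nat_lit 76) (nat_lit 123648686752) (nat_lit 76) (nat_lit 71228925454) (nat_lit 4) (nat_lit 4) (nat_lit 5) (nat_lit 5) (nat_lit 5) (nat_lit 4) (nat_lit 305) (nat_lit 249) (nat_lit 166))) (XT.nd (nat_lit 78) (nat_lit 0) (nat_lit 0) (XT.lf (nat_lit 0) (nat_lit 46591334258) (nat_lit 76) (nat_lit 114521399604) (nat_lit 76) (nat_lit 62095096154) (nat_lit 4) (nat_lit 4) (nat_lit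 5) (nat_lit 5) (nat_lit 5) (nat_lit 4) (nat_lit 306) (nat_lit 249) (nat_lit 165)) (XT.lf (nat_lit 0) (nat_lit 83239231858) (nat_lit 76) (nat_lit 104667473820) (nat_lit 76) (nat_lit 52235112821) (nat_lit 4) (nat_lit 4) (nat_lit 5) (nat_lit 5) (nat_lit 5) (nat_lit 4) (nat_lit 307) (nat_lit 249) (nat_lit 164)))) (XT.nd (nat_lit 156) (nat_lit 76) (nat_lit 0) (XT.nd (nat_lit 78) (nat_lit 0) (nat_lit 0) (XT.lf (nat_lit 0) (nat_lit 122811668752) (nat_lit 76) (nat_lit 94028515764) (nat_lit 76) (nat_lit 41590545924) (nat_lit 4) (nat_lit 4) (nat_lit 5) (nat_lit 5) (nat_lit 5) (nat_lit 4) (nat_lit 308) (nat_lit 249) (nat_lit 163)) (XT.lf (nat_lit 0) (nat_lit 165543148269) (nat_lit 76) (nat_lit 82541479761) (nat_lit 76) (nat_lit 30098316549) (nat_lit 4) (nat_lit 4) (nat_lit 5) (nat_lit 5) (nat_lit 5) (nat_lit 4) (nat_lit 309) (nat_lit 249) (nat_lit 162))) (XT.nd (nat_lit 78) (nat_lit 76) (nat_lit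 0) (XT.lf (nat_lit 0) (nat_lit 211686893993) (nat_lit 76) (nat_lit 70138294485) (nat_lit 76) (nat_lit 17690322595) (nat_lit 4) (nat_lit 4) (nat_lit 5) (nat_lit 5) (nat_lit 5) (nat_lit 4) (nat_lit 310) (nat_lit 249) (nat_lit 161)) (XT.nd (nat_lit 78) (nat_lit 76) (nat_lit 0) (XT.lf (nat_lit 0) (nat_lit 261516350341) (nat_lit 76) (nat_lit 56745459579) (nat_lit 76) (nat_lit 4293035210) (nat_lit 4) (nat_lit 4) (nat_lit 5) (nat_lit 5) (nat_lit 5) (nat_lit 4) (nat_lit 311) (nat_lit 249) (nat_lit 160)) (XT.lf (nat_lit 0) (nat_lit 9847339425) (nat_lit 152) (nat_lit 32269501212) (nat_lit 76) (nat_lit 305312694099) (nat_lit 3) (nat_lit 5) (nat_lit 5) (nat_lit 5) (nat_lit 4) (nat_lit 4) (nat_lit 312) (nat_lit 249) (nat_lit 159)))))) (XT.nd (nat_lit 312) (nat_lit 0) (nat_lit 0) (XT.nd (nat_lit 156) (nat_lit 0) (nat_lit 0) (XT.nd (nat_lit 78) (nat_lit 76) (nat_lit 0) (XT.lf (nat_lit 0) (nat_lit 24967770868)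 (nat_lit 152) (nat_lit 1276434036) (nat_lit 76) (nat_lit 348046516523) (nat_lit 3) (nat_lit 5) (nat_lit 5) (nat_lit 5) (nat_lit 4) (nat_lit 4) (nat_lit 313) (nat_lit 249) (nat_lit 158)) (XT.lf (nat_lit 0) (nat_lit 33255788589) (nat_lit 76) (nat_lit 8558693082) (nat_lit 152) (nat_lit 361460491448) (nat_lit 2) (nat_lit 5) (nat_lit 3) (nat_lit 5) (nat_lit 4) (nat_lit 4) (nat_lit 314) (nat_lit 249) (nat_lit 157))) (XT.nd (nat_lit 78) (nat_lit 0) (nat_lit 0) (XT.lf (nat_lit 0) (nat_lit 60193630989) (nat_lit 152) (nat_lit 364150204826) (nat_lit 0) (nat_lit 10224896186) (nat_lit 2) (nat_lit 5) (nat_lit 4) (nat_lit 4) (nat_lit 2) (nat_lit 4) (nat_lit 315) (nat_lit 249) (nat_lit 156)) (XT.lf (nat_lit 0) (nat_lit 80185128969) (nat_lit 152) (nat_lit 357960255586) (nat_lit 0) (nat_lit 30213508182) (nat_lit 2) (nat_lit 5) (nat_lit 4) (nat_lit 4) (nat_lit 2) (nat_lit 4) (nat_lit 316) (nat_lit 249)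 (nat_lit 155)))) (XT.nd (nat_lit 156) (nat_lit 0) (nat_lit 0) (XT.nd (nat_lit 78) (nat_lit 0) (nat_lit 0) (XT.lf (nat_lit 0) (nat_lit 101773818562) (nat_lit 152) (nat_lit 351279030444) (nat_lit 0) (nat_lit 51799525568) (nat_lit 2) (nat_lit 5) (nat_lit 4) (nat_lit 4) (nat_lit 2) (nat_lit 4) (nat_lit 317) (nat_lit 249) (nat_lit 154)) (XT.lf (nat_lit 0) (nat_lit 125087632743) (nat_lit 152) (nat_lit 344066936955) (nat_lit 0) (nat_lit 75110865484) (nat_lit 2) (nat_lit 5) (nat_lit 4) (nat_lit 4) (nat_lit 2) (nat_lit 4) (nat_lit 318) (nat_lit 249) (nat_lit 153))) (XT.nd (nat_lit 78) (nat_lit 0) (nat_lit 0) (XT.lf (nat_lit 0) (nat_lit 150264727450) (nat_lit 152) (nat_lit 336281236787) (nat_lit 0) (nat_lit 100285669204) (nat_lit 2) (nat_lit 5) (nat_lit 4) (nat_lit 4) (nat_lit 2) (nat_lit 4) (nat_lit 319) (nat_lit 249) (nat_lit 152)) (XT.nd (nat_lit 78) (nat_lit 0) (nat_lit 0) (XT.lf (nat_lit 0)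 (nat_lit 177454300279) (nat_lit 152) (nat_lit 327875792459) (nat_lit 0) (nat_lit 127473120749) (nat_lit 2) (nat_lit 5) (nat_lit 4) (nat_lit 4) (nat_lit 2) (nat_lit 4) (nat_lit 320) (nat_lit 249) (nat_lit 151)) (XT.lf (nat_lit 0) (nat_lit 206817474626) (nat_lit 152) (nat_lit 318800793929) (nat_lit 0) (nat_lit 156834330944) (nat_lit 2) (nat_lit 5) (nat_lit 4) (nat_lit 4) (nat_lit 2) (nat_lit 4) (nat_lit 321) (nat_lit 249) (nat_lit 150))))))) (XT.nd (nat_lit 32526) (nat_lit 0) (nat_lit 2736) (XT.nd (nat_lit 32136) (nat_lit 0) (nat_lit 5548) (XT.nd (nat_lit 31980) (nat_lit 0) (nat_lit 6004) (XT.nd (nat_lit 31902) (nat_lit 0) (nat_lit 6004) (XT.lf (nat_lit 0) (nat_lit 238528254486) (nat_lit 152) (nat_lit 309002463429) (nat_lit 0) (nat_lit 188543292146) (nat_lit 2) (nat_lit 5) (nat_lit 4) (nat_lit 4) (nat_lit 2) (nat_lit 4) (nat_lit 322) (nat_lit 249) (nat_lit 149)) (XT.lf (nat_lit 0) (nat_lit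 1475077134) (nat_lit 684) (nat_lit 1615154797) (nat_lit 684) (nat_lit 1615154797) (nat_lit 81) (nat_lit 3) (nat_lit 90) (nat_lit 3) (nat_lit 90) (nat_lit 5) (nat_lit 250) (nat_lit 250) (nat_lit 220))) (XT.nd (nat_lit 78) (nat_lit 0) (nat_lit 76) (XT.lf (nat_lit 76) (nat_lit 3375790584) (nat_lit 0) (nat_lit 900516212) (nat_lit 684) (nat_lit 5446381535) (nat_lit 82) (nat_lit 5) (nat_lit 81) (nat_lit 3) (nat_lit 90) (nat_lit 5) (nat_lit 251) (nat_lit 250) (nat_lit 219)) (XT.lf (nat_lit 76) (nat_lit 437099688) (nat_lit 0) (nat_lit 5294694682) (nat_lit 684) (nat_lit 4327010956) (nat_lit 83) (nat_lit 5) (nat_lit 82) (nat_lit 5) (nat_lit 91) (nat_lit 5) (nat_lit 252) (nat_lit 250) (nat_lit 218)))) (XT.nd (nat_lit 156) (nat_lit 608) (nat_lit 0) (XT.nd (nat_lit 78) (nat_lit 0) (nat_lit 0) (XT.lf (nat_lit 0) (nat_lit 7330165826) (nat_lit 608) (nat_lit 2522659425) (nat_lit 684) (nat_lit 568044808)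 (nat_lit 83) (nat_lit 5) (nat_lit 91) (nat_lit 5) (nat_lit 92) (nat_lit 5) (nat_lit 253) (nat_lit 250) (nat_lit 217)) (XT.lf (nat_lit 76) (nat_lit 5151982343) (nat_lit 0) (nat_lit 3974536889) (nat_lit 684) (nat_lit 1682227554) (nat_lit 84) (nat_lit 5) (nat_lit 83) (nat_lit 5) (nat_lit 92) (nat_lit 5) (nat_lit 254) (nat_lit 250) (nat_lit 216))) (XT.nd (nat_lit 78) (nat_lit 684) (nat_lit 0) (XT.lf (nat_lit 76) (nat_lit 2269658134) (nat_lit 0) (nat_lit 8821288415) (nat_lit 684) (nat_lit 135815143) (nat_lit 85) (nat_lit 5) (nat_lit 84) (nat_lit 5) (nat_lit 93) (nat_lit 5) (nat_lit 255) (nat_lit 250) (nat_lit 215)) (XT.nd (nat_lit 78) (nat_lit 0) (nat_lit 76) (XT.lf (nat_lit 0) (nat_lit 1563678612) (nat_lit 684) (nat_lit 804265344) (nat_lit 760) (nat_lit 9305440060) (nat_lit 75) (nat_lit 5) (nat_lit 84) (nat_lit 5) (nat_lit 85) (nat_lit 5) (nat_lit 256) (nat_lit 250) (nat_lit 214)) (XT.lf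 (nat_lit 0) (nat_lit 3514508575) (nat_lit 684) (nat_lit 4032376389) (nat_lit 76) (nat_lit 4602999535) (nat_lit 76) (nat_lit 5) (nat_lit 85) (nat_lit 5) (nat_lit 77) (nat_lit 5) (nat_lit 257) (nat_lit 250) (nat_lit 213)))))) (XT.nd (nat_lit 390) (nat_lit 1140) (nat_lit 0) (XT.nd (nat_lit 156) (nat_lit 760) (nat_lit 0) (XT.nd (nat_lit 78) (nat_lit 304) (nat_lit 0) (XT.lf (nat_lit 0) (nat_lit 5176628369) (nat_lit 684) (nat_lit 502974632) (nat_lit 760) (nat_lit 6982238825) (nat_lit 67) (nat_lit 5) (nat_lit 76) (nat_lit 5) (nat_lit 77) (nat_lit 5) (nat_lit 258) (nat_lit 250) (nat_lit 212)) (XT.lf (nat_lit 0) (nat_lit 1937139579) (nat_lit 304) (nat_lit 6221349475) (nat_lit 380) (nat_lit 5049465916) (nat_lit 63) (nat_lit 5) (nat_lit 67) (nat_lit 5) (nat_lit 68) (nat_lit 5) (nat_lit 259) (nat_lit 250) (nat_lit 211))) (XT.nd (nat_lit 78) (nat_lit 760) (nat_lit 0) (XT.lf (nat_lit 0) (nat_lit 10928621545)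 (nat_lit 380) (nat_lit 1509403831) (nat_lit 76) (nat_lit 1355296526) (nat_lit 63) (nat_lit 5) (nat_lit 68) (nat_lit 5) (nat_lit 64) (nat_lit 5) (nat_lit 260) (nat_lit 250) (nat_lit 210)) (XT.nd (nat_lit 78) (nat_lit 380) (nat_lit 0) (XT.lf (nat_lit 0) (nat_lit 9157618395) (nat_lit 380) (nat_lit 4948020472) (nat_lit 456) (nat_lit 310811456) (nat_lit 58) (nat_lit 5) (nat_lit 63) (nat_lit 5) (nat_lit 64) (nat_lit 5) (nat_lit 261) (nat_lit 250) (nat_lit 209)) (XT.lf (nat_lit 0) (nat_lit 2476642621) (nat_lit 380) (nat_lit 9410916877) (nat_lit 76) (nat_lit 3194752406) (nat_lit 53) (nat_lit 5) (nat_lit 58) (nat_lit 5) (nat_lit 54) (nat_lit 5) (nat_lit 262) (nat_lit 250) (nat_lit 208))))) (XT.nd (nat_lit 156) (nat_lit 836) (nat_lit 0) (XT.nd (nat_lit 78) (nat_lit 0) (nat_lit 0) (XT.lf (nat_lit 0) (nat_lit 1770360439) (nat_lit 304) (nat_lit 3853564413) (nat_lit 380) (nat_lit 10170036648) (nat_lit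 49) (nat_lit 5) (nat_lit 53) (nat_lit 5) (nat_lit 54) (nat_lit 5) (nat_lit 263) (nat_lit 250) (nat_lit 207)) (XT.lf (nat_lit 0) (nat_lit 9211448842) (nat_lit 380) (nat_lit 2513196511) (nat_lit 76) (nat_lit 4828622819) (nat_lit 49) (nat_lit 5) (nat_lit 54) (nat_lit 5) (nat_lit 50) (nat_lit 5) (nat_lit 264) (nat_lit 250) (nat_lit 206))) (XT.nd (nat_lit 78) (nat_lit 608) (nat_lit 0) (XT.lf (nat_lit 0) (nat_lit 10118529041) (nat_lit 228) (nat_lit 3140899451) (nat_lit 304) (nat_lit 4105355295) (nat_lit 46) (nat_lit 5) (nat_lit 49) (nat_lit 5) (nat_lit 50) (nat_lit 5) (nat_lit 265) (nat_lit 250) (nat_lit 205)) (XT.nd (nat_lit 78) (nat_lit 304) (nat_lit 0) (XT.lf (nat_lit 0) (nat_lit 5637348208) (nat_lit 304) (nat_lit 12175257580) (nat_lit 380) (nat_lit 419673843) (nat_lit 42) (nat_lit 5) (nat_lit 46) (nat_lit 5) (nat_lit 47) (nat_lit 5) (nat_lit 266) (nat_lit 250) (nat_lit 204)) (XT.lf (nat_lit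 0) (nat_lit 495525112) (nat_lit 228) (nat_lit 3095271020) (nat_lit 304) (nat_lit 15568516009) (nat_lit 38) (nat_lit 5) (nat_lit 41) (nat_lit 5) (nat_lit 42) (nat_lit 5) (nat_lit 267) (nat_lit 250) (nat_lit 203))))))))
noncomputable def xc70 : XT := (XT.nd (nat_lit 1404) (nat_lit 684) (nat_lit 0) (XT.nd (nat_lit 702) (nat_lit 608) (nat_lit 0) (XT.nd (nat_lit 312) (nat_lit 760) (nat_lit 0) (XT.nd (nat_lit 156) (nat_lit 228) (nat_lit 0) (XT.nd (nat_lit 78) (nat_lit 228) (nat_lit 0) (XT.lf (nat_lit 0) (nat_lit 8192575307) (nat_lit 304) (nat_lit 5238813101) (nat_lit 76) (nat_lit 6714619752) (nat_lit 38) (nat_lit 5) (nat_lit 42) (nat_lit 5) (nat_lit 39) (nat_lit 5) (nat_lit 268) (nat_lit 250) (nat_lit 202)) (XT.lf (nat_lit 0) (nat_lit 9458090027) (nat_lit 228) (nat_lit 3864642695) (nat_lit 304) (nat_lit 7880991316) (nat_lit 35) (nat_lit 5) (nat_lit 38) (nat_lit 5) (nat_lit 39) (nat_lit 5) (nat_lit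 269) (nat_lit 250) (nat_lit 201))) (XT.nd (nat_lit 78) (nat_lit 76) (nat_lit 0) (XT.lf (nat_lit 0) (nat_lit 3121699144) (nat_lit 152) (nat_lit 15946395610) (nat_lit 228) (nat_lit 3267811695) (nat_lit 33) (nat_lit 5) (nat_lit 35) (nat_lit 5) (nat_lit 36) (nat_lit 5) (nat_lit 270) (nat_lit 250) (nat_lit 200)) (XT.lf (nat_lit 0) (nat_lit 1896345162) (nat_lit 228) (nat_lit 4096955303) (nat_lit 76) (nat_lit 17552263249) (nat_lit 32) (nat_lit 5) (nat_lit 35) (nat_lit 5) (nat_lit 33) (nat_lit 5) (nat_lit 271) (nat_lit 250) (nat_lit 199)))) (XT.nd (nat_lit 156) (nat_lit 380) (nat_lit 0) (XT.nd (nat_lit 78) (nat_lit 152) (nat_lit 0) (XT.lf (nat_lit 0) (nat_lit 7600795166) (nat_lit 304) (nat_lit 12391109777) (nat_lit 76) (nat_lit 4845400201) (nat_lit 29) (nat_lit 5) (nat_lit 33) (nat_lit 5) (nat_lit 30) (nat_lit 5) (nat_lit 272) (nat_lit 250) (nat_lit 198)) (XT.lf (nat_lit 0) (nat_lit 4216303440)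 (nat_lit 152) (nat_lit 9752661548) (nat_lit 228) (nat_lit 12253119893) (nat_lit 27) (nat_lit 5) (nat_lit 29) (nat_lit 5) (nat_lit 30) (nat_lit 5) (nat_lit 273) (nat_lit 250) (nat_lit 197))) (XT.nd (nat_lit 78) (nat_lit 380) (nat_lit 0) (XT.lf (nat_lit 0) (nat_lit 21055753457) (nat_lit 228) (nat_lit 5182013815) (nat_lit 76) (nat_lit 1469483678) (nat_lit 27) (nat_lit 5) (nat_lit 30) (nat_lit 5) (nat_lit 28) (nat_lit 5) (nat_lit 274) (nat_lit 250) (nat_lit 196)) (XT.nd (nat_lit 78) (nat_lit 228) (nat_lit 0) (XT.lf (nat_lit 0) (nat_lit 13203174049) (nat_lit 152) (nat_lit 15848559700) (nat_lit 228) (nat_lit 242441718) (nat_lit 25) (nat_lit 5) (nat_lit 27) (nat_lit 5) (nat_lit 28) (nat_lit 5) (nat_lit 275) (nat_lit 250) (nat_lit 195)) (XT.lf (nat_lit 0) (nat_lit 2162411000) (nat_lit 152) (nat_lit 4401288319) (nat_lit 228) (nat_lit 24434284192) (nat_lit 22) (nat_lit 5) (nat_lit 24) (nat_lit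 5) (nat_lit 25) (nat_lit 5) (nat_lit 276) (nat_lit 250) (nat_lit 194)))))) (XT.nd (nat_lit 312) (nat_lit 304) (nat_lit 0) (XT.nd (nat_lit 156) (nat_lit 152) (nat_lit 0) (XT.nd (nat_lit 78) (nat_lit 152) (nat_lit 0) (XT.lf (nat_lit 0) (nat_lit 14288965861) (nat_lit 228) (nat_lit 10547404427) (nat_lit 76) (nat_lit 7982417808) (nat_lit 22) (nat_lit 5) (nat_lit 25) (nat_lit 5) (nat_lit 23) (nat_lit 5) (nat_lit 277) (nat_lit 250) (nat_lit 193)) (XT.lf (nat_lit 0) (nat_lit 9392217222) (nat_lit 152) (nat_lit 13436647726) (nat_lit 228) (nat_lit 11946605086) (nat_lit 20) (nat_lit 5) (nat_lit 22) (nat_lit 5) (nat_lit 23) (nat_lit 5) (nat_lit 278) (nat_lit 250) (nat_lit 192))) (XT.nd (nat_lit 78) (nat_lit 152) (nat_lit 0) (XT.lf (nat_lit 0) (nat_lit 31267308533) (nat_lit 152) (nat_lit 945363255) (nat_lit 228) (nat_lit 4668019269) (nat_lit 20) (nat_lit 5) (nat_lit 22) (nat_lit 5) (nat_lit 23) (nat_lit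 5) (nat_lit 279) (nat_lit 250) (nat_lit 191)) (XT.lf (nat_lit 0) (nat_lit 3522073126) (nat_lit 152) (nat_lit 23169548453) (nat_lit 76) (nat_lit 12438680720) (nat_lit 18) (nat_lit 5) (nat_lit 20) (nat_lit 5) (nat_lit 19) (nat_lit 5) (nat_lit 280) (nat_lit 250) (nat_lit 190)))) (XT.nd (nat_lit 156) (nat_lit 152) (nat_lit 0) (XT.nd (nat_lit 78) (nat_lit 152) (nat_lit 0) (XT.lf (nat_lit 0) (nat_lit 12300546739) (nat_lit 152) (nat_lit 2223755746) (nat_lit 76) (nat_lit 27026950709) (nat_lit 18) (nat_lit 5) (nat_lit 20) (nat_lit 5) (nat_lit 19) (nat_lit 5) (nat_lit 281) (nat_lit 250) (nat_lit 189)) (XT.lf (nat_lit 0) (nat_lit 21039827811) (nat_lit 152) (nat_lit 1050708353) (nat_lit 228) (nat_lit 22059912584) (nat_lit 16) (nat_lit 5) (nat_lit 18) (nat_lit 5) (nat_lit 19) (nat_lit 5) (nat_lit 282) (nat_lit 250) (nat_lit 188))) (XT.nd (nat_lit 78) (nat_lit 152) (nat_lit 0) (XT.lf (nat_lit 0) (nat_lit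 32895405815) (nat_lit 228) (nat_lit 953835941) (nat_lit 76) (nat_lit 13096782363) (nat_lit 16) (nat_lit 5) (nat_lit 19) (nat_lit 5) (nat_lit 17) (nat_lit 4) (nat_lit 283) (nat_lit 250) (nat_lit 187)) (XT.nd (nat_lit 78) (nat_lit 76) (nat_lit 0) (XT.lf (nat_lit 0) (nat_lit 23687515516) (nat_lit 76) (nat_lit 21247588173) (nat_lit 152) (nat_lit 5011646034) (nat_lit 15) (nat_lit 5) (nat_lit 16) (nat_lit 5) (nat_lit 17) (nat_lit 4) (nat_lit 284) (nat_lit 250) (nat_lit 186)) (XT.lf (nat_lit 0) (nat_lit 4598733884) (nat_lit 152) (nat_lit 2954650197) (nat_lit 76) (nat_lit 45630447265) (nat_lit 14) (nat_lit 5) (nat_lit 16) (nat_lit 5) (nat_lit 15) (nat_lit 5) (nat_lit 285) (nat_lit 250) (nat_lit 185))))))) (XT.nd (nat_lit 702) (nat_lit 228) (nat_lit 0) (XT.nd (nat_lit 312) (nat_lit 228) (nat_lit 0) (XT.nd (nat_lit 156) (nat_lit 76) (nat_lit 0) (XT.nd (nat_lit 78) (nat_lit 0) (nat_lit 0) (XT.lf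 (nat_lit 0) (nat_lit 15265946048) (nat_lit 228) (nat_lit 33943696008) (nat_lit 76) (nat_lit 7442971602) (nat_lit 12) (nat_lit 5) (nat_lit 15) (nat_lit 5) (nat_lit 13) (nat_lit 4) (nat_lit 286) (nat_lit 250) (nat_lit 184)) (XT.lf (nat_lit 0) (nat_lit 26951478913) (nat_lit 228) (nat_lit 10018616928) (nat_lit 76) (nat_lit 23420575286) (nat_lit 12) (nat_lit 5) (nat_lit 15) (nat_lit 5) (nat_lit 13) (nat_lit 4) (nat_lit 287) (nat_lit 250) (nat_lit 183))) (XT.nd (nat_lit 78) (nat_lit 0) (nat_lit 0) (XT.lf (nat_lit 0) (nat_lit 16319493523) (nat_lit 76) (nat_lit 23493513203) (nat_lit 152) (nat_lit 24602727146) (nat_lit 11) (nat_lit 5) (nat_lit 12) (nat_lit 5) (nat_lit 13) (nat_lit 4) (nat_lit 288) (nat_lit 250) (nat_lit 182)) (XT.lf (nat_lit 0) (nat_lit 45100126342) (nat_lit 76) (nat_lit 8764870000) (nat_lit 152) (nat_lit 14889745255) (nat_lit 11) (nat_lit 5) (nat_lit 12) (nat_lit 5) (nat_lit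 13) (nat_lit 4) (nat_lit 289) (nat_lit 250) (nat_lit 181)))) (XT.nd (nat_lit 156) (nat_lit 76) (nat_lit 0) (XT.nd (nat_lit 78) (nat_lit 76) (nat_lit 0) (XT.lf (nat_lit 0) (nat_lit 2696002077) (nat_lit 76) (nat_lit 66486591347) (nat_lit 76) (nat_lit 4251219787) (nat_lit 10) (nat_lit 4) (nat_lit 11) (nat_lit 5) (nat_lit 11) (nat_lit 4) (nat_lit 290) (nat_lit 250) (nat_lit 180)) (XT.lf (nat_lit 0) (nat_lit 7561538387) (nat_lit 152) (nat_lit 46755403030) (nat_lit 76) (nat_lit 24136891180) (nat_lit 9) (nat_lit 5) (nat_lit 11) (nat_lit 5) (nat_lit 10) (nat_lit 4) (nat_lit 291) (nat_lit 250) (nat_lit 179))) (XT.nd (nat_lit 78) (nat_lit 76) (nat_lit 0) (XT.lf (nat_lit 0) (nat_lit 20161467811) (nat_lit 152) (nat_lit 20945163604) (nat_lit 76) (nat_lit 42765795687) (nat_lit 9) (nat_lit 5) (nat_lit 11) (nat_lit 5) (nat_lit 10) (nat_lit 4) (nat_lit 292) (nat_lit 250) (nat_lit 178)) (XT.nd (nat_lit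 78) (nat_lit 0) (nat_lit 0) (XT.lf (nat_lit 0) (nat_lit 7140779710) (nat_lit 76) (nat_lit 26730008187) (nat_lit 152) (nat_lit 55848663313) (nat_lit 8) (nat_lit 5) (nat_lit 9) (nat_lit 5) (nat_lit 10) (nat_lit 4) (nat_lit 293) (nat_lit 250) (nat_lit 177)) (XT.lf (nat_lit 0) (nat_lit 38204646407) (nat_lit 76) (nat_lit 10827450839) (nat_lit 152) (nat_lit 46984388800) (nat_lit 8) (nat_lit 5) (nat_lit 9) (nat_lit 5) (nat_lit 10) (nat_lit 4) (nat_lit 294) (nat_lit 250) (nat_lit 176)))))) (XT.nd (nat_lit 390) (nat_lit 76) (nat_lit 0) (XT.nd (nat_lit 156) (nat_lit 152) (nat_lit 0) (XT.nd (nat_lit 78) (nat_lit 0) (nat_lit 0) (XT.lf (nat_lit 0) (nat_lit 65496409366) (nat_lit 152) (nat_lit 31178755607) (nat_lit 0) (nat_lit 6137623960) (nat_lit 8) (nat_lit 5) (nat_lit 10) (nat_lit 4) (nat_lit 8) (nat_lit 4) (nat_lit 295) (nat_lit 250) (nat_lit 175)) (XT.lf (nat_lit 0) (nat_lit 83452102527) (nat_lit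 152) (nat_lit 2612405696) (nat_lit 0) (nat_lit 24079585438) (nat_lit 8) (nat_lit 5) (nat_lit 10) (nat_lit 4) (nat_lit 8) (nat_lit 4) (nat_lit 296) (nat_lit 250) (nat_lit 174))) (XT.nd (nat_lit 78) (nat_lit 76) (nat_lit 0) (XT.lf (nat_lit 0) (nat_lit 29158802807) (nat_lit 76) (nat_lit 74132981807) (nat_lit 76) (nat_lit 14747750196) (nat_lit 7) (nat_lit 4) (nat_lit 8) (nat_lit 5) (nat_lit 8) (nat_lit 4) (nat_lit 297) (nat_lit 250) (nat_lit 173)) (XT.nd (nat_lit 78) (nat_lit 76) (nat_lit 0) (XT.lf (nat_lit 0) (nat_lit 63551878927) (nat_lit 76) (nat_lit 61204918452) (nat_lit 76) (nat_lit 1807914137) (nat_lit 7) (nat_lit 4) (nat_lit 8) (nat_lit 5) (nat_lit 8) (nat_lit 4) (nat_lit 298) (nat_lit 250) (nat_lit 172)) (XT.lf (nat_lit 0) (nat_lit 11770760690) (nat_lit 152) (nat_lit 35277845552) (nat_lit 76) (nat_lit 88714151334) (nat_lit 6) (nat_lit 5) (nat_lit 8) (nat_lit 5) (nat_lit 7) (nat_lit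 4) (nat_lit 299) (nat_lit 250) (nat_lit 171))))) (XT.nd (nat_lit 156) (nat_lit 0) (nat_lit 0) (XT.nd (nat_lit 78) (nat_lit 76) (nat_lit 0) (XT.lf (nat_lit 0) (nat_lit 26366824086) (nat_lit 152) (nat_lit 5366008787) (nat_lit 76) (nat_lit 113962617386) (nat_lit 6) (nat_lit 5) (nat_lit 8) (nat_lit 5) (nat_lit 7) (nat_lit 4) (nat_lit 300) (nat_lit 250) (nat_lit 170)) (XT.lf (nat_lit 0) (nat_lit 27818526209) (nat_lit 76) (nat_lit 14740434730) (nat_lit 152) (nat_lit 113842384099) (nat_lit 5) (nat_lit 5) (nat_lit 6) (nat_lit 5) (nat_lit 7) (nat_lit 4) (nat_lit 301) (nat_lit 250) (nat_lit 169))) (XT.nd (nat_lit 78) (nat_lit 0) (nat_lit 0) (XT.lf (nat_lit 0) (nat_lit 60192131090) (nat_lit 152) (nat_lit 104177883188) (nat_lit 0) (nat_lit 3586419655) (nat_lit 5) (nat_lit 5) (nat_lit 7) (nat_lit 4) (nat_lit 5) (nat_lit 4) (nat_lit 302) (nat_lit 250) (nat_lit 168)) (XT.nd (nat_lit 78) (nat_lit 0)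 (nat_lit 0) (XT.lf (nat_lit 0) (nat_lit 79479203865) (nat_lit 152) (nat_lit 78078707189) (nat_lit 0) (nat_lit 22865861664) (nat_lit 5) (nat_lit 5) (nat_lit 7) (nat_lit 4) (nat_lit 5) (nat_lit 4) (nat_lit 303) (nat_lit 250) (nat_lit 167)) (XT.lf (nat_lit 0) (nat_lit 100304333535) (nat_lit 152) (nat_lit 49900489554) (nat_lit 0) (nat_lit 43683925809) (nat_lit 5) (nat_lit 5) (nat_lit 7) (nat_lit 4) (nat_lit 5) (nat_lit 4) (nat_lit 304) (nat_lit 250) (nat_lit 166))))))))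
noncomputable def xc71 : XT := (XT.nd (nat_lit 33306) (nat_lit 0) (nat_lit 2736) (XT.nd (nat_lit 702) (nat_lit 76) (nat_lit 0) (XT.nd (nat_lit 312) (nat_lit 76) (nat_lit 0) (XT.nd (nat_lit 156) (nat_lit 0) (nat_lit 0) (XT.nd (nat_lit 78) (nat_lit 76) (nat_lit 0) (XT.lf (nat_lit 0) (nat_lit 122790928275) (nat_lit 152) (nat_lit 19476248251) (nat_lit 0) (nat_lit 66163978396) (nat_lit 5) (nat_lit 5) (nat_lit 7) (nat_lit 4) (nat_lit 5) (nat_lit 4) (nat_lit 305) (nat_lit 250) (nat_lit 165)) (XT.lf (nat_lit 0) (nat_lit 13816523558) (nat_lit 76) (nat_lit 133471433073) (nat_lit 76) (nat_lit 76838425646) (nat_lit 4) (nat_lit 4) (nat_lit 5) (nat_lit 5) (nat_lit 5) (nat_lit 4) (nat_lit 306) (nat_lit 250) (nat_lit 164))) (XT.nd (nat_lit 78) (nat_lit 0) (nat_lit 0) (XT.lf (nat_lit 0) (nat_lit 50460915142) (nat_lit 76) (nat_lit 123619085073) (nat_lit 76) (nat_lit 66980468804) (nat_lit 4) (nat_lit 4)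 (nat_lit 5) (nat_lit 5) (nat_lit 5) (nat_lit 4) (nat_lit 307) (nat_lit 250) (nat_lit 163)) (XT.lf (nat_lit 0) (nat_lit 90030105724) (nat_lit 76) (nat_lit 112981587930) (nat_lit 76) (nat_lit 56337778289) (nat_lit 4) (nat_lit 4) (nat_lit 5) (nat_lit 5) (nat_lit 5) (nat_lit 4) (nat_lit 308) (nat_lit 250) (nat_lit 162)))) (XT.nd (nat_lit 156) (nat_lit 76) (nat_lit 0) (XT.nd (nat_lit 78) (nat_lit 0) (nat_lit 0) (XT.lf (nat_lit 0) (nat_lit 132758579397) (nat_lit 76) (nat_lit 101495904622) (nat_lit 76) (nat_lit 44847286304) (nat_lit 4) (nat_lit 4) (nat_lit 5) (nat_lit 5) (nat_lit 5) (nat_lit 4) (nat_lit 309) (nat_lit 250) (nat_lit 161)) (XT.lf (nat_lit 0) (nat_lit 178899541932) (nat_lit 76) (nat_lit 89093971842) (nat_lit 76) (nat_lit 32440901045) (nat_lit 4) (nat_lit 4) (nat_lit 5) (nat_lit 5) (nat_lit 5) (nat_lit 4) (nat_lit 310) (nat_lit 250) (nat_lit 160))) (XT.nd (nat_lit 78) (nat_lit 76)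 (nat_lit 0) (XT.lf (nat_lit 0) (nat_lit 228726421254) (nat_lit 76) (nat_lit 75702296655) (nat_lit 76) (nat_lit 19045103192) (nat_lit 4) (nat_lit 4) (nat_lit 5) (nat_lit 5) (nat_lit 5) (nat_lit 4) (nat_lit 311) (nat_lit 250) (nat_lit 159)) (XT.nd (nat_lit 78) (nat_lit 76) (nat_lit 0) (XT.lf (nat_lit 0) (nat_lit 282534487759) (nat_lit 76) (nat_lit 61241520985) (nat_lit 76) (nat_lit 4580510239) (nat_lit 4) (nat_lit 4) (nat_lit 5) (nat_lit 5) (nat_lit 5) (nat_lit 4) (nat_lit 312) (nat_lit 250) (nat_lit 158)) (XT.lf (nat_lit 0) (nat_lit 10685289976) (nat_lit 152) (nat_lit 34759700815) (nat_lit 76) (nat_lit 329776353532) (nat_lit 3) (nat_lit 5) (nat_lit 5) (nat_lit 5) (nat_lit 4) (nat_lit 4) (nat_lit 313) (nat_lit 250) (nat_lit 157)))))) (XT.nd (nat_lit 312) (nat_lit 0) (nat_lit 0) (XT.nd (nat_lit 156) (nat_lit 0) (nat_lit 0) (XT.nd (nat_lit 78) (nat_lit 76) (nat_lit 0) (XT.lf (nat_lit 0) (nat_lit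 27011640128) (nat_lit 152) (nat_lit 1293955710) (nat_lit 76) (nat_lit 375926019238) (nat_lit 3) (nat_lit 5) (nat_lit 5) (nat_lit 5) (nat_lit 4) (nat_lit 4) (nat_lit 314) (nat_lit 250) (nat_lit 156)) (XT.lf (nat_lit 0) (nat_lit 35997168415) (nat_lit 76) (nat_lit 9206742155) (nat_lit 152) (nat_lit 390330808282) (nat_lit 2) (nat_lit 5) (nat_lit 3) (nat_lit 5) (nat_lit 4) (nat_lit 4) (nat_lit 315) (nat_lit 250) (nat_lit 155))) (XT.nd (nat_lit 78) (nat_lit 0) (nat_lit 0) (XT.lf (nat_lit 0) (nat_lit 65050642318) (nat_lit 152) (nat_lit 393205742783) (nat_lit 0) (nat_lit 11075733678) (nat_lit 2) (nat_lit 5) (nat_lit 4) (nat_lit 4) (nat_lit 2) (nat_lit 4) (nat_lit 316) (nat_lit 250) (nat_lit 154)) (XT.lf (nat_lit 0) (nat_lit 86638384517) (nat_lit 152) (nat_lit 386526262672) (nat_lit 0) (nat_lit 32661001612) (nat_lit 2) (nat_lit 5) (nat_lit 4) (nat_lit 4) (nat_lit 2) (nat_lit 4) (nat_lit 317) (nat_lit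 250) (nat_lit 153)))) (XT.nd (nat_lit 156) (nat_lit 0) (nat_lit 0) (XT.nd (nat_lit 78) (nat_lit 0) (nat_lit 0) (XT.lf (nat_lit 0) (nat_lit 109951321483) (nat_lit 152) (nat_lit 379315784953) (nat_lit 0) (nat_lit 55971647591) (nat_lit 2) (nat_lit 5) (nat_lit 4) (nat_lit 4) (nat_lit 2) (nat_lit 4) (nat_lit 318) (nat_lit 250) (nat_lit 152)) (XT.lf (nat_lit 0) (nat_lit 135127603952) (nat_lit 152) (nat_lit 371531580868) (nat_lit 0) (nat_lit 81145808776) (nat_lit 2) (nat_lit 5) (nat_lit 4) (nat_lit 4) (nat_lit 2) (nat_lit 4) (nat_lit 319) (nat_lit 250) (nat_lit 151))) (XT.nd (nat_lit 78) (nat_lit 0) (nat_lit 0) (XT.lf (nat_lit 0) (nat_lit 162316424710) (nat_lit 152) (nat_lit 363127521802) (nat_lit 0) (nat_lit 108332665382) (nat_lit 2) (nat_lit 5) (nat_lit 4) (nat_lit 4) (nat_lit 2) (nat_lit 4) (nat_lit 320) (nat_lit 250) (nat_lit 150)) (XT.nd (nat_lit 78) (nat_lit 0) (nat_lit 0) (XT.lf (nat_lit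 0) (nat_lit 191678902694) (nat_lit 152) (nat_lit 354053805922) (nat_lit 0) (nat_lit 137693324707) (nat_lit 2) (nat_lit 5) (nat_lit 4) (nat_lit 4) (nat_lit 2) (nat_lit 4) (nat_lit 321) (nat_lit 250) (nat_lit 149)) (XT.lf (nat_lit 0) (nat_lit 223389037774) (nat_lit 152) (nat_lit 344256663060) (nat_lit 0) (nat_lit 169401775844) (nat_lit 2) (nat_lit 5) (nat_lit 4) (nat_lit 4) (nat_lit 2) (nat_lit 4) (nat_lit 322) (nat_lit 250) (nat_lit 148))))))) (XT.nd (nat_lit 702) (nat_lit 2204) (nat_lit 0) (XT.nd (nat_lit 312) (nat_lit 1064) (nat_lit 0) (XT.nd (nat_lit 156) (nat_lit 0) (nat_lit 76) (XT.nd (nat_lit 78) (nat_lit 0) (nat_lit 0) (XT.lf (nat_lit 0) (nat_lit 2720735731) (nat_lit 684) (nat_lit 1150344691) (nat_lit 684) (nat_lit 1150344691) (nat_lit 81) (nat_lit 3) (nat_lit 90) (nat_lit 3) (nat_lit 90) (nat_lit 5) (nat_lit 251) (nat_lit 251) (nat_lit 218)) (XT.lf (nat_lit 76) (nat_lit 4782267822)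 (nat_lit 0) (nat_lit 1942131359) (nat_lit 684) (nat_lit 3663379027) (nat_lit 82) (nat_lit 5) (nat_lit 81) (nat_lit 3) (nat_lit 90) (nat_lit 5) (nat_lit 252) (nat_lit 251) (nat_lit 217))) (XT.nd (nat_lit 78) (nat_lit 0) (nat_lit 0) (XT.lf (nat_lit 76) (nat_lit 1681400674) (nat_lit 0) (nat_lit 6463790616) (nat_lit 684) (nat_lit 2613700055) (nat_lit 83) (nat_lit 5) (nat_lit 82) (nat_lit 5) (nat_lit 91) (nat_lit 5) (nat_lit 253) (nat_lit 251) (nat_lit 216)) (XT.lf (nat_lit 76) (nat_lit 9660209995) (nat_lit 0) (nat_lit 56523539) (nat_lit 684) (nat_lit 1441431982) (nat_lit 83) (nat_lit 5) (nat_lit 82) (nat_lit 5) (nat_lit 91) (nat_lit 5) (nat_lit 254) (nat_lit 251) (nat_lit 215)))) (XT.nd (nat_lit 156) (nat_lit 608) (nat_lit 0) (XT.nd (nat_lit 78) (nat_lit 608) (nat_lit 0) (XT.lf (nat_lit 76) (nat_lit 6738198807) (nat_lit 0) (nat_lit 4802764846) (nat_lit 684) (nat_lit 42371894) (nat_lit 84)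 (nat_lit 5) (nat_lit 83) (nat_lit 5) (nat_lit 92) (nat_lit 5) (nat_lit 255) (nat_lit 251) (nat_lit 214)) (XT.lf (nat_lit 0) (nat_lit 1460234990) (nat_lit 684) (nat_lit 8396356767) (nat_lit 760) (nat_lit 2183116073) (nat_lit 75) (nat_lit 5) (nat_lit 84) (nat_lit 5) (nat_lit 85) (nat_lit 5) (nat_lit 256) (nat_lit 251) (nat_lit 213))) (XT.nd (nat_lit 78) (nat_lit 608) (nat_lit 0) (XT.lf (nat_lit 76) (nat_lit 322287325) (nat_lit 0) (nat_lit 2855055032) (nat_lit 760) (nat_lit 9350670697) (nat_lit 76) (nat_lit 5) (nat_lit 75) (nat_lit 5) (nat_lit 85) (nat_lit 5) (nat_lit 257) (nat_lit 251) (nat_lit 212)) (XT.nd (nat_lit 78) (nat_lit 684) (nat_lit 0) (XT.lf (nat_lit 0) (nat_lit 5182855703) (nat_lit 684) (nat_lit 3147583159) (nat_lit 76) (nat_lit 4717620396) (nat_lit 76) (nat_lit 5) (nat_lit 85) (nat_lit 5) (nat_lit 77) (nat_lit 5) (nat_lit 258) (nat_lit 251) (nat_lit 211)) (XT.lf (nat_lit 0)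 (nat_lit 6745670571) (nat_lit 684) (nat_lit 690763973) (nat_lit 760) (nat_lit 6169104909) (nat_lit 67) (nat_lit 5) (nat_lit 76) (nat_lit 5) (nat_lit 77) (nat_lit 5) (nat_lit 259) (nat_lit 251) (nat_lit 210)))))) (XT.nd (nat_lit 390) (nat_lit 836) (nat_lit 0) (XT.nd (nat_lit 156) (nat_lit 1064) (nat_lit 0) (XT.nd (nat_lit 78) (nat_lit 0) (nat_lit 0) (XT.lf (nat_lit 0) (nat_lit 3265275398) (nat_lit 304) (nat_lit 6768060661) (nat_lit 380) (nat_lit 4166326031) (nat_lit 63) (nat_lit 5) (nat_lit 67) (nat_lit 5) (nat_lit 68) (nat_lit 5) (nat_lit 260) (nat_lit 251) (nat_lit 209)) (XT.lf (nat_lit 0) (nat_lit 12933839790) (nat_lit 380) (nat_lit 483064464) (nat_lit 76) (nat_lit 1419799120) (nat_lit 63) (nat_lit 5) (nat_lit 68) (nat_lit 5) (nat_lit 64) (nat_lit 5) (nat_lit 261) (nat_lit 251) (nat_lit 208))) (XT.nd (nat_lit 78) (nat_lit 608) (nat_lit 0) (XT.lf (nat_lit 0) (nat_lit 759972677) (nat_lit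 456) (nat_lit 4538065496) (nat_lit 76) (nat_lit 10214625152) (nat_lit 57) (nat_lit 5) (nat_lit 63) (nat_lit 5) (nat_lit 58) (nat_lit 5) (nat_lit 262) (nat_lit 251) (nat_lit 207)) (XT.nd (nat_lit 78) (nat_lit 304) (nat_lit 0) (XT.lf (nat_lit 0) (nat_lit 3697304978) (nat_lit 380) (nat_lit 9023993283) (nat_lit 76) (nat_lit 3513583343) (nat_lit 53) (nat_lit 5) (nat_lit 58) (nat_lit 5) (nat_lit 54) (nat_lit 5) (nat_lit 263) (nat_lit 251) (nat_lit 206)) (XT.lf (nat_lit 0) (nat_lit 3002252033) (nat_lit 304) (nat_lit 4035396780) (nat_lit 380) (nat_lit 9968964383) (nat_lit 49) (nat_lit 5) (nat_lit 53) (nat_lit 5) (nat_lit 54) (nat_lit 5) (nat_lit 264) (nat_lit 251) (nat_lit 205))))) (XT.nd (nat_lit 156) (nat_lit 608) (nat_lit 0) (XT.nd (nat_lit 78) (nat_lit 228) (nat_lit 0) (XT.lf (nat_lit 0) (nat_lit 10842609428) (nat_lit 380) (nat_lit 1659480287) (nat_lit 76) (nat_lit 5328251078) (nat_lit 49)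 (nat_lit 5) (nat_lit 54) (nat_lit 5) (nat_lit 50) (nat_lit 5) (nat_lit 265) (nat_lit 251) (nat_lit 204)) (XT.lf (nat_lit 0) (nat_lit 11936944207) (nat_lit 228) (nat_lit 3226995167) (nat_lit 304) (nat_lit 3545546140) (nat_lit 46) (nat_lit 5) (nat_lit 49) (nat_lit 5) (nat_lit 50) (nat_lit 5) (nat_lit 266) (nat_lit 251) (nat_lit 203))) (XT.nd (nat_lit 78) (nat_lit 228) (nat_lit 0) (XT.lf (nat_lit 0) (nat_lit 375755648) (nat_lit 380) (nat_lit 12561329408) (nat_lit 76) (nat_lit 6711383761) (nat_lit 41) (nat_lit 5) (nat_lit 46) (nat_lit 5) (nat_lit 42) (nat_lit 5) (nat_lit 267) (nat_lit 251) (nat_lit 202)) (XT.nd (nat_lit 78) (nat_lit 0) (nat_lit 0) (XT.lf (nat_lit 0) (nat_lit 1524345585) (nat_lit 228) (nat_lit 3123321642) (nat_lit 304) (nat_lit 16004037130) (nat_lit 38) (nat_lit 5) (nat_lit 41) (nat_lit 5) (nat_lit 42) (nat_lit 5) (nat_lit 268) (nat_lit 251) (nat_lit 201)) (XT.lf (nat_lit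 0) (nat_lit 9563754966) (nat_lit 304) (nat_lit 4707822687) (nat_lit 76) (nat_lit 7448588789) (nat_lit 38) (nat_lit 5) (nat_lit 42) (nat_lit 5) (nat_lit 39) (nat_lit 5) (nat_lit 269) (nat_lit 251) (nat_lit 200))))))))
noncomputable def xc72 : XT := (XT.nd (nat_lit 1404) (nat_lit 532) (nat_lit 0) (XT.nd (nat_lit 702) (nat_lit 760) (nat_lit 0) (XT.nd (nat_lit 312) (nat_lit 532) (nat_lit 0) (XT.nd (nat_lit 156) (nat_lit 304) (nat_lit 0) (XT.nd (nat_lit 78) (nat_lit 152) (nat_lit 0) (XT.lf (nat_lit 0) (nat_lit 11123542701) (nat_lit 228) (nat_lit 3941951004) (nat_lit 304) (nat_lit 7799075871) (nat_lit 35) (nat_lit 5) (nat_lit 38) (nat_lit 5) (nat_lit 39) (nat_lit 5) (nat_lit 270) (nat_lit 251) (nat_lit 199)) (XT.lf (nat_lit 0) (nat_lit 4271193927) (nat_lit 152) (nat_lit 16966546533) (nat_lit 228) (nat_lit 2851342239) (nat_lit 33) (nat_lit 5) (nat_lit 35) (nat_lit 5) (nat_lit 36) (nat_lit 5)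 (nat_lit 271) (nat_lit 251) (nat_lit 198))) (XT.nd (nat_lit 78) (nat_lit 228) (nat_lit 0) (XT.lf (nat_lit 0) (nat_lit 2655643087) (nat_lit 228) (nat_lit 3570201277) (nat_lit 76) (nat_lit 19171674209) (nat_lit 32) (nat_lit 5) (nat_lit 35) (nat_lit 5) (nat_lit 33) (nat_lit 5) (nat_lit 272) (nat_lit 251) (nat_lit 197)) (XT.lf (nat_lit 0) (nat_lit 8787982664) (nat_lit 304) (nat_lit 12538821960) (nat_lit 76) (nat_lit 5467315106) (nat_lit 29) (nat_lit 5) (nat_lit 33) (nat_lit 5) (nat_lit 30) (nat_lit 5) (nat_lit 273) (nat_lit 251) (nat_lit 196)))) (XT.nd (nat_lit 156) (nat_lit 380) (nat_lit 0) (XT.nd (nat_lit 78) (nat_lit 0) (nat_lit 0) (XT.lf (nat_lit 0) (nat_lit 5360523503) (nat_lit 152) (nat_lit 10274782720) (nat_lit 228) (nat_lit 12655980513) (nat_lit 27) (nat_lit 5) (nat_lit 29) (nat_lit 5) (nat_lit 30) (nat_lit 5) (nat_lit 274) (nat_lit 251) (nat_lit 195)) (XT.lf (nat_lit 0) (nat_lit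 23252115189) (nat_lit 228) (nat_lit 4826712709) (nat_lit 76) (nat_lit 1818367561) (nat_lit 27) (nat_lit 5) (nat_lit 30) (nat_lit 5) (nat_lit 28) (nat_lit 5) (nat_lit 275) (nat_lit 251) (nat_lit 194))) (XT.nd (nat_lit 78) (nat_lit 152) (nat_lit 0) (XT.lf (nat_lit 0) (nat_lit 240914814) (nat_lit 228) (nat_lit 16620524889) (nat_lit 76) (nat_lit 14750838087) (nat_lit 24) (nat_lit 5) (nat_lit 27) (nat_lit 5) (nat_lit 25) (nat_lit 5) (nat_lit 276) (nat_lit 251) (nat_lit 193)) (XT.nd (nat_lit 78) (nat_lit 0) (nat_lit 0) (XT.lf (nat_lit 0) (nat_lit 3056318994) (nat_lit 152) (nat_lit 4501483119) (nat_lit 228) (nat_lit 25895720160) (nat_lit 22) (nat_lit 5) (nat_lit 24) (nat_lit 5) (nat_lit 25) (nat_lit 5) (nat_lit 277) (nat_lit 251) (nat_lit 192)) (XT.lf (nat_lit 0) (nat_lit 15869990391) (nat_lit 228) (nat_lit 10704824523) (nat_lit 76) (nat_lit 8846794222) (nat_lit 22) (nat_lit 5) (nat_lit 25)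 (nat_lit 5) (nat_lit 23) (nat_lit 5) (nat_lit 278) (nat_lit 251) (nat_lit 191)))))) (XT.nd (nat_lit 312) (nat_lit 456) (nat_lit 0) (XT.nd (nat_lit 156) (nat_lit 152) (nat_lit 0) (XT.nd (nat_lit 78) (nat_lit 0) (nat_lit 0) (XT.lf (nat_lit 0) (nat_lit 10800137955) (nat_lit 152) (nat_lit 14270756356) (nat_lit 228) (nat_lit 12465098942) (nat_lit 20) (nat_lit 5) (nat_lit 22) (nat_lit 5) (nat_lit 23) (nat_lit 5) (nat_lit 279) (nat_lit 251) (nat_lit 190)) (XT.lf (nat_lit 0) (nat_lit 34376603730) (nat_lit 152) (nat_lit 798007882) (nat_lit 228) (nat_lit 4636614003) (nat_lit 20) (nat_lit 5) (nat_lit 22) (nat_lit 5) (nat_lit 23) (nat_lit 5) (nat_lit 280) (nat_lit 251) (nat_lit 189))) (XT.nd (nat_lit 78) (nat_lit 0) (nat_lit 0) (XT.lf (nat_lit 0) (nat_lit 4179452780) (nat_lit 152) (nat_lit 24412881766) (nat_lit 76) (nat_lit 13649016518) (nat_lit 18) (nat_lit 5) (nat_lit 20) (nat_lit 5) (nat_lit 19)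 (nat_lit 5) (nat_lit 281) (nat_lit 251) (nat_lit 188)) (XT.lf (nat_lit 0) (nat_lit 13632381038) (nat_lit 152) (nat_lit 1836627907) (nat_lit 76) (nat_lit 29388404303) (nat_lit 18) (nat_lit 5) (nat_lit 20) (nat_lit 5) (nat_lit 19) (nat_lit 5) (nat_lit 282) (nat_lit 251) (nat_lit 187)))) (XT.nd (nat_lit 156) (nat_lit 304) (nat_lit 0) (XT.nd (nat_lit 78) (nat_lit 0) (nat_lit 0) (XT.lf (nat_lit 0) (nat_lit 23263486893) (nat_lit 152) (nat_lit 924758756) (nat_lit 228) (nat_lit 23477205787) (nat_lit 16) (nat_lit 5) (nat_lit 18) (nat_lit 5) (nat_lit 19) (nat_lit 5) (nat_lit 283) (nat_lit 251) (nat_lit 186)) (XT.lf (nat_lit 0) (nat_lit 35836061779) (nat_lit 228) (nat_lit 516969405) (nat_lit 76) (nat_lit 14332751576) (nat_lit 16) (nat_lit 5) (nat_lit 19) (nat_lit 5) (nat_lit 17) (nat_lit 4) (nat_lit 284) (nat_lit 251) (nat_lit 185))) (XT.nd (nat_lit 78) (nat_lit 228) (nat_lit 0) (XT.lf (nat_lit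 0) (nat_lit 26073388278) (nat_lit 76) (nat_lit 22750320455) (nat_lit 152) (nat_lit 5103653988) (nat_lit 15) (nat_lit 5) (nat_lit 16) (nat_lit 5) (nat_lit 17) (nat_lit 4) (nat_lit 285) (nat_lit 251) (nat_lit 184)) (XT.nd (nat_lit 78) (nat_lit 152) (nat_lit 0) (XT.lf (nat_lit 0) (nat_lit 5243518003) (nat_lit 152) (nat_lit 2726970977) (nat_lit 76) (nat_lit 49453819117) (nat_lit 14) (nat_lit 5) (nat_lit 16) (nat_lit 5) (nat_lit 15) (nat_lit 5) (nat_lit 286) (nat_lit 251) (nat_lit 183)) (XT.lf (nat_lit 0) (nat_lit 16753346721) (nat_lit 228) (nat_lit 36204604674) (nat_lit 76) (nat_lit 8213208173) (nat_lit 12) (nat_lit 5) (nat_lit 15) (nat_lit 5) (nat_lit 13) (nat_lit 4) (nat_lit 287) (nat_lit 251) (nat_lit 182))))))) (XT.nd (nat_lit 702) (nat_lit 228) (nat_lit 0) (XT.nd (nat_lit 312) (nat_lit 152) (nat_lit 0) (XT.nd (nat_lit 156) (nat_lit 76) (nat_lit 0) (XT.nd (nat_lit 78) (nat_lit 76) (nat_lit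 0) (XT.lf (nat_lit 0) (nat_lit 29354009252) (nat_lit 228) (nat_lit 10399192380) (nat_lit 76) (nat_lit 25456072089) (nat_lit 12) (nat_lit 5) (nat_lit 15) (nat_lit 5) (nat_lit 13) (nat_lit 4) (nat_lit 288) (nat_lit 251) (nat_lit 181)) (XT.lf (nat_lit 0) (nat_lit 18027674501) (nat_lit 76) (nat_lit 25204818096) (nat_lit 152) (nat_lit 26324471704) (nat_lit 11) (nat_lit 5) (nat_lit 12) (nat_lit 5) (nat_lit 13) (nat_lit 4) (nat_lit 289) (nat_lit 251) (nat_lit 180))) (XT.nd (nat_lit 78) (nat_lit 76) (nat_lit 0) (XT.lf (nat_lit 0) (nat_lit 49080934132) (nat_lit 76) (nat_lit 9310340931) (nat_lit 152) (nat_lit 15852708567) (nat_lit 11) (nat_lit 5) (nat_lit 12) (nat_lit 5) (nat_lit 13) (nat_lit 4) (nat_lit 290) (nat_lit 251) (nat_lit 179)) (XT.lf (nat_lit 0) (nat_lit 3276606328) (nat_lit 76) (nat_lit 71649542260) (nat_lit 76) (nat_lit 4371659940) (nat_lit 10) (nat_lit 4) (nat_lit 11) (nat_lit 5)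 (nat_lit 11) (nat_lit 4) (nat_lit 291) (nat_lit 251) (nat_lit 178)))) (XT.nd (nat_lit 156) (nat_lit 76) (nat_lit 0) (XT.nd (nat_lit 78) (nat_lit 0) (nat_lit 0) (XT.lf (nat_lit 0) (nat_lit 8363338329) (nat_lit 152) (nat_lit 50151201609) (nat_lit 76) (nat_lit 26205524069) (nat_lit 9) (nat_lit 5) (nat_lit 11) (nat_lit 5) (nat_lit 10) (nat_lit 4) (nat_lit 292) (nat_lit 251) (nat_lit 177)) (XT.lf (nat_lit 0) (nat_lit 21956678635) (nat_lit 152) (nat_lit 22301671448) (nat_lit 76) (nat_lit 46314542300) (nat_lit 9) (nat_lit 5) (nat_lit 11) (nat_lit 5) (nat_lit 10) (nat_lit 4) (nat_lit 293) (nat_lit 251) (nat_lit 176))) (XT.nd (nat_lit 78) (nat_lit 0) (nat_lit 0) (XT.lf (nat_lit 0) (nat_lit 8017279406) (nat_lit 76) (nat_lit 28736727318) (nat_lit 152) (nat_lit 60134124445) (nat_lit 8) (nat_lit 5) (nat_lit 9) (nat_lit 5) (nat_lit 10) (nat_lit 4) (nat_lit 294) (nat_lit 251) (nat_lit 175)) (XT.nd (nat_lit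 78) (nat_lit 0) (nat_lit 0) (XT.lf (nat_lit 0) (nat_lit 41543645266) (nat_lit 76) (nat_lit 11571719568) (nat_lit 152) (nat_lit 50574221447) (nat_lit 8) (nat_lit 5) (nat_lit 9) (nat_lit 5) (nat_lit 10) (nat_lit 4) (nat_lit 295) (nat_lit 251) (nat_lit 174)) (XT.lf (nat_lit 0) (nat_lit 70886680853) (nat_lit 152) (nat_lit 33405517012) (nat_lit 0) (nat_lit 6737916193) (nat_lit 8) (nat_lit 5) (nat_lit 10) (nat_lit 4) (nat_lit 8) (nat_lit 4) (nat_lit 296) (nat_lit 251) (nat_lit 173)))))) (XT.nd (nat_lit 312) (nat_lit 76) (nat_lit 0) (XT.nd (nat_lit 156) (nat_lit 76) (nat_lit 0) (XT.nd (nat_lit 78) (nat_lit 76) (nat_lit 0) (XT.lf (nat_lit 0) (nat_lit 90267676968) (nat_lit 152) (nat_lit 2573676815) (nat_lit 0) (nat_lit 26107139603) (nat_lit 8) (nat_lit 5) (nat_lit 10) (nat_lit 4) (nat_lit 8) (nat_lit 4) (nat_lit 297) (nat_lit 251) (nat_lit 172)) (XT.lf (nat_lit 0) (nat_lit 31728462701) (nat_lit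 76) (nat_lit 79959444075) (nat_lit 76) (nat_lit 15788006057) (nat_lit 7) (nat_lit 4) (nat_lit 8) (nat_lit 5) (nat_lit 8) (nat_lit 4) (nat_lit 298) (nat_lit 251) (nat_lit 171))) (XT.nd (nat_lit 78) (nat_lit 76) (nat_lit 0) (XT.lf (nat_lit 0) (nat_lit 68855432639) (nat_lit 76) (nat_lit 66004852413) (nat_lit 76) (nat_lit 1823321199) (nat_lit 7) (nat_lit 4) (nat_lit 8) (nat_lit 5) (nat_lit 8) (nat_lit 4) (nat_lit 299) (nat_lit 251) (nat_lit 170)) (XT.lf (nat_lit 0) (nat_lit 12828245645) (nat_lit 152) (nat_lit 37892973193) (nat_lit 76) (nat_lit 95896649097) (nat_lit 6) (nat_lit 5) (nat_lit 8) (nat_lit 5) (nat_lit 7) (nat_lit 4) (nat_lit 300) (nat_lit 251) (nat_lit 169)))) (XT.nd (nat_lit 156) (nat_lit 0) (nat_lit 0) (XT.nd (nat_lit 78) (nat_lit 76) (nat_lit 0) (XT.lf (nat_lit 0) (nat_lit 28583414550) (nat_lit 152) (nat_lit 5603530227) (nat_lit 76) (nat_lit 123158669051) (nat_lit 6) (nat_lit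 5) (nat_lit 8) (nat_lit 5) (nat_lit 7) (nat_lit 4) (nat_lit 301) (nat_lit 251) (nat_lit 168)) (XT.lf (nat_lit 0) (nat_lit 30227433945) (nat_lit 76) (nat_lit 15838408155) (nat_lit 152) (nat_lit 122842400268) (nat_lit 5) (nat_lit 5) (nat_lit 6) (nat_lit 5) (nat_lit 7) (nat_lit 4) (nat_lit 302) (nat_lit 251) (nat_lit 167))) (XT.nd (nat_lit 78) (nat_lit 0) (nat_lit 0) (XT.lf (nat_lit 0) (nat_lit 65103272876) (nat_lit 152) (nat_lit 112338625699) (nat_lit 0) (nat_lit 3946167007) (nat_lit 5) (nat_lit 5) (nat_lit 7) (nat_lit 4) (nat_lit 5) (nat_lit 4) (nat_lit 303) (nat_lit 251) (nat_lit 166)) (XT.nd (nat_lit 78) (nat_lit 0) (nat_lit 0) (XT.lf (nat_lit 0) (nat_lit 85926217304) (nat_lit 152) (nat_lit 84164366595) (nat_lit 0) (nat_lit 24762569282) (nat_lit 5) (nat_lit 5) (nat_lit 7) (nat_lit 4) (nat_lit 5) (nat_lit 4) (nat_lit 304) (nat_lit 251) (nat_lit 165)) (XT.lf (nat_lit 0) (nat_lit 108410788671)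 (nat_lit 152) (nat_lit 53743790598) (nat_lit 0) (nat_lit 47241083100) (nat_lit 5) (nat_lit 5) (nat_lit 7) (nat_lit 4) (nat_lit 5) (nat_lit 4) (nat_lit 305) (nat_lit 251) (nat_lit 164))))))))
noncomputable def xc73 : XT := (XT.nd (nat_lit 33384) (nat_lit 0) (nat_lit 2508) (XT.nd (nat_lit 702) (nat_lit 76) (nat_lit 0) (XT.nd (nat_lit 312) (nat_lit 76) (nat_lit 0) (XT.nd (nat_lit 156) (nat_lit 0) (nat_lit 0) (XT.nd (nat_lit 78) (nat_lit 76) (nat_lit 0) (XT.lf (nat_lit 0) (nat_lit 132690228882) (nat_lit 152) (nat_lit 20896627629) (nat_lit 0) (nat_lit 71514914470) (nat_lit 5) (nat_lit 5) (nat_lit 7) (nat_lit 4) (nat_lit 5) (nat_lit 4) (nat_lit 306) (nat_lit 251) (nat_lit 163)) (XT.lf (nat_lit 0) (nat_lit 15053580760) (nat_lit 76) (nat_lit 144089863923) (nat_lit 76) (nat_lit 82909356140) (nat_lit 4) (nat_lit 4) (nat_lit 5) (nat_lit 5) (nat_lit 5) (nat_lit 4) (nat_lit 307) (nat_lit 251) (nat_lit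 162))) (XT.nd (nat_lit 78) (nat_lit 0) (nat_lit 0) (XT.lf (nat_lit 0) (nat_lit 54619765499) (nat_lit 76) (nat_lit 133453719476) (nat_lit 76) (nat_lit 72268403015) (nat_lit 4) (nat_lit 4) (nat_lit 5) (nat_lit 5) (nat_lit 5) (nat_lit 4) (nat_lit 308) (nat_lit 251) (nat_lit 161)) (XT.lf (nat_lit 0) (nat_lit 97345455983) (nat_lit 76) (nat_lit 121969288665) (nat_lit 76) (nat_lit 60779519725) (nat_lit 4) (nat_lit 4) (nat_lit 5) (nat_lit 5) (nat_lit 5) (nat_lit 4) (nat_lit 309) (nat_lit 251) (nat_lit 160)))) (XT.nd (nat_lit 156) (nat_lit 76) (nat_lit 0) (XT.nd (nat_lit 78) (nat_lit 0) (nat_lit 0) (XT.lf (nat_lit 0) (nat_lit 143483841491) (nat_lit 76) (nat_lit 109568515604) (nat_lit 76) (nat_lit 48374623998) (nat_lit 4) (nat_lit 4) (nat_lit 5) (nat_lit 5) (nat_lit 5) (nat_lit 4) (nat_lit 310) (nat_lit 251) (nat_lit 159)) (XT.lf (nat_lit 0) (nat_lit 193308334677) (nat_lit 76) (nat_lit 96177914230)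 (nat_lit 76) (nat_lit 34980205341) (nat_lit 4) (nat_lit 4) (nat_lit 5) (nat_lit 5) (nat_lit 5) (nat_lit 4) (nat_lit 311) (nat_lit 251) (nat_lit 158))) (XT.nd (nat_lit 78) (nat_lit 76) (nat_lit 0) (XT.lf (nat_lit 0) (nat_lit 247114191798) (nat_lit 76) (nat_lit 81718132832) (nat_lit 76) (nat_lit 20516889422) (nat_lit 4) (nat_lit 4) (nat_lit 5) (nat_lit 5) (nat_lit 5) (nat_lit 4) (nat_lit 312) (nat_lit 251) (nat_lit 157)) (XT.nd (nat_lit 78) (nat_lit 76) (nat_lit 0) (XT.lf (nat_lit 0) (nat_lit 305220262376) (nat_lit 76) (nat_lit 66103483817) (nat_lit 76) (nat_lit 4898967701) (nat_lit 4) (nat_lit 4) (nat_lit 5) (nat_lit 5) (nat_lit 5) (nat_lit 4) (nat_lit 313) (nat_lit 251) (nat_lit 156)) (XT.lf (nat_lit 0) (nat_lit 11583120202) (nat_lit 152) (nat_lit 37462149983) (nat_lit 76) (nat_lit 356191592734) (nat_lit 3) (nat_lit 5) (nat_lit 5) (nat_lit 5) (nat_lit 4) (nat_lit 4) (nat_lit 314) (nat_lit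 251) (nat_lit 155)))))) (XT.nd (nat_lit 312) (nat_lit 0) (nat_lit 0) (XT.nd (nat_lit 156) (nat_lit 0) (nat_lit 0) (XT.nd (nat_lit 78) (nat_lit 76) (nat_lit 0) (XT.lf (nat_lit 0) (nat_lit 29212392660) (nat_lit 152) (nat_lit 1324947261) (nat_lit 76) (nat_lit 406030777555) (nat_lit 3) (nat_lit 5) (nat_lit 5) (nat_lit 5) (nat_lit 4) (nat_lit 4) (nat_lit 315) (nat_lit 251) (nat_lit 154)) (XT.lf (nat_lit 0) (nat_lit 38946314950) (nat_lit 76) (nat_lit 9911863168) (nat_lit 152) (nat_lit 421517387414) (nat_lit 2) (nat_lit 5) (nat_lit 3) (nat_lit 5) (nat_lit 4) (nat_lit 4) (nat_lit 316) (nat_lit 251) (nat_lit 153))) (XT.nd (nat_lit 78) (nat_lit 0) (nat_lit 0) (XT.lf (nat_lit 0) (nat_lit 70290291140) (nat_lit 152) (nat_lit 424596634279) (nat_lit 0) (nat_lit 11989952349) (nat_lit 2) (nat_lit 5) (nat_lit 4) (nat_lit 4) (nat_lit 2) (nat_lit 4) (nat_lit 317) (nat_lit 251) (nat_lit 152)) (XT.lf (nat_lit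 0) (nat_lit 93602415868) (nat_lit 152) (nat_lit 417387652643) (nat_lit 0) (nat_lit 35299955794) (nat_lit 2) (nat_lit 5) (nat_lit 4) (nat_lit 4) (nat_lit 2) (nat_lit 4) (nat_lit 318) (nat_lit 251) (nat_lit 151)))) (XT.nd (nat_lit 156) (nat_lit 0) (nat_lit 0) (XT.nd (nat_lit 78) (nat_lit 0) (nat_lit 0) (XT.lf (nat_lit 0) (nat_lit 118777946265) (nat_lit 152) (nat_lit 409604833820) (nat_lit 0) (nat_lit 60473522040) (nat_lit 2) (nat_lit 5) (nat_lit 4) (nat_lit 4) (nat_lit 2) (nat_lit 4) (nat_lit 319) (nat_lit 251) (nat_lit 150)) (XT.lf (nat_lit 0) (nat_lit 145966070661) (nat_lit 152) (nat_lit 401202057404) (nat_lit 0) (nat_lit 87659827776) (nat_lit 2) (nat_lit 5) (nat_lit 4) (nat_lit 4) (nat_lit 2) (nat_lit 4) (nat_lit 320) (nat_lit 251) (nat_lit 149))) (XT.nd (nat_lit 78) (nat_lit 0) (nat_lit 0) (XT.lf (nat_lit 0) (nat_lit 175327903865) (nat_lit 152) (nat_lit 392129529163) (nat_lit 0) (nat_lit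 117019977036) (nat_lit 2) (nat_lit 5) (nat_lit 4) (nat_lit 4) (nat_lit 2) (nat_lit 4) (nat_lit 321) (nat_lit 251) (nat_lit 148)) (XT.nd (nat_lit 32058) (nat_lit 0) (nat_lit 6004) (XT.lf (nat_lit 0) (nat_lit 207037441926) (nat_lit 152) (nat_lit 382333485967) (nat_lit 0) (nat_lit 148727955891) (nat_lit 2) (nat_lit 5) (nat_lit 4) (nat_lit 4) (nat_lit 2) (nat_lit 4) (nat_lit 322) (nat_lit 251) (nat_lit 147)) (XT.lf (nat_lit 0) (nat_lit 3905174791) (nat_lit 684) (nat_lit 733093727) (nat_lit 684) (nat_lit 733093727) (nat_lit 81) (nat_lit 3) (nat_lit 90) (nat_lit 3) (nat_lit 90) (nat_lit 5) (nat_lit 252) (nat_lit 252) (nat_lit 216))))))) (XT.nd (nat_lit 702) (nat_lit 2128) (nat_lit 0) (XT.nd (nat_lit 312) (nat_lit 760) (nat_lit 0) (XT.nd (nat_lit 156) (nat_lit 608) (nat_lit 0) (XT.nd (nat_lit 78) (nat_lit 0) (nat_lit 76) (XT.lf (nat_lit 76) (nat_lit 6139141078) (nat_lit 0) (nat_lit 2928755169)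 (nat_lit 684) (nat_lit 2054260537) (nat_lit 82) (nat_lit 5) (nat_lit 81) (nat_lit 3) (nat_lit 90) (nat_lit 5) (nat_lit 253) (nat_lit 252) (nat_lit 215)) (XT.lf (nat_lit 76) (nat_lit 2852720865) (nat_lit 0) (nat_lit 7620057411) (nat_lit 684) (nat_lit 1057130955) (nat_lit 83) (nat_lit 5) (nat_lit 82) (nat_lit 5) (nat_lit 91) (nat_lit 5) (nat_lit 254) (nat_lit 252) (nat_lit 214))) (XT.nd (nat_lit 78) (nat_lit 0) (nat_lit 76) (XT.lf (nat_lit 0) (nat_lit 75627952) (nat_lit 684) (nat_lit 575954772) (nat_lit 760) (nat_lit 11316125579) (nat_lit 73) (nat_lit 5) (nat_lit 82) (nat_lit 5) (nat_lit 83) (nat_lit 5) (nat_lit 255) (nat_lit 252) (nat_lit 213)) (XT.lf (nat_lit 0) (nat_lit 1428303233) (nat_lit 684) (nat_lit 4171963791) (nat_lit 760) (nat_lit 6831327867) (nat_lit 74) (nat_lit 5) (nat_lit 83) (nat_lit 5) (nat_lit 84) (nat_lit 5) (nat_lit 256) (nat_lit 252) (nat_lit 212)))) (XT.nd (nat_lit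 156) (nat_lit 912) (nat_lit 0) (XT.nd (nat_lit 78) (nat_lit 0) (nat_lit 0) (XT.lf (nat_lit 0) (nat_lit 2950699759) (nat_lit 684) (nat_lit 7974936892) (nat_lit 760) (nat_lit 2004108830) (nat_lit 75) (nat_lit 5) (nat_lit 84) (nat_lit 5) (nat_lit 85) (nat_lit 5) (nat_lit 257) (nat_lit 252) (nat_lit 211)) (XT.lf (nat_lit 76) (nat_lit 1393692698) (nat_lit 0) (nat_lit 3326056558) (nat_lit 760) (nat_lit 8741967311) (nat_lit 76) (nat_lit 5) (nat_lit 75) (nat_lit 5) (nat_lit 85) (nat_lit 5) (nat_lit 258) (nat_lit 252) (nat_lit 210))) (XT.nd (nat_lit 78) (nat_lit 988) (nat_lit 0) (XT.lf (nat_lit 0) (nat_lit 6786772947) (nat_lit 684) (nat_lit 2364253202) (nat_lit 76) (nat_lit 4877592527) (nat_lit 76) (nat_lit 5) (nat_lit 85) (nat_lit 5) (nat_lit 77) (nat_lit 5) (nat_lit 259) (nat_lit 252) (nat_lit 209)) (XT.nd (nat_lit 78) (nat_lit 304) (nat_lit 0) (XT.lf (nat_lit 0) (nat_lit 8275475051) (nat_lit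 684) (nat_lit 872526608) (nat_lit 760) (nat_lit 5486610478) (nat_lit 67) (nat_lit 5) (nat_lit 76) (nat_lit 5) (nat_lit 77) (nat_lit 5) (nat_lit 260) (nat_lit 252) (nat_lit 208)) (XT.lf (nat_lit 0) (nat_lit 4532297030) (nat_lit 304) (nat_lit 7351517883) (nat_lit 380) (nat_lit 3396153755) (nat_lit 63) (nat_lit 5) (nat_lit 67) (nat_lit 5) (nat_lit 68) (nat_lit 5) (nat_lit 261) (nat_lit 252) (nat_lit 207)))))) (XT.nd (nat_lit 390) (nat_lit 1064) (nat_lit 0) (XT.nd (nat_lit 156) (nat_lit 608) (nat_lit 0) (XT.nd (nat_lit 78) (nat_lit 76) (nat_lit 0) (XT.lf (nat_lit 0) (nat_lit 477003697) (nat_lit 380) (nat_lit 14468579564) (nat_lit 456) (nat_lit 1026171428) (nat_lit 58) (nat_lit 5) (nat_lit 63) (nat_lit 5) (nat_lit 64) (nat_lit 5) (nat_lit 262) (nat_lit 252) (nat_lit 206)) (XT.lf (nat_lit 0) (nat_lit 1750901931) (nat_lit 456) (nat_lit 3926974815) (nat_lit 76) (nat_lit 11026618346) (nat_lit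 57) (nat_lit 5) (nat_lit 63) (nat_lit 5) (nat_lit 58) (nat_lit 5) (nat_lit 263) (nat_lit 252) (nat_lit 205))) (XT.nd (nat_lit 78) (nat_lit 304) (nat_lit 0) (XT.lf (nat_lit 0) (nat_lit 4869744852) (nat_lit 380) (nat_lit 8768720578) (nat_lit 76) (nat_lit 3848897329) (nat_lit 53) (nat_lit 5) (nat_lit 58) (nat_lit 5) (nat_lit 54) (nat_lit 5) (nat_lit 264) (nat_lit 252) (nat_lit 204)) (XT.nd (nat_lit 78) (nat_lit 0) (nat_lit 0) (XT.lf (nat_lit 0) (nat_lit 4177156782) (nat_lit 304) (nat_lit 4249815639) (nat_lit 380) (nat_lit 9896561097) (nat_lit 49) (nat_lit 5) (nat_lit 53) (nat_lit 5) (nat_lit 54) (nat_lit 5) (nat_lit 265) (nat_lit 252) (nat_lit 203)) (XT.lf (nat_lit 0) (nat_lit 12476688861) (nat_lit 380) (nat_lit 887941774) (nat_lit 76) (nat_lit 5851680603) (nat_lit 49) (nat_lit 5) (nat_lit 54) (nat_lit 5) (nat_lit 50) (nat_lit 5) (nat_lit 266) (nat_lit 252) (nat_lit 202))))) (XT.nd (nat_lit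 156) (nat_lit 456) (nat_lit 0) (XT.nd (nat_lit 78) (nat_lit 380) (nat_lit 0) (XT.lf (nat_lit 0) (nat_lit 13756897036) (nat_lit 228) (nat_lit 3343542777) (nat_lit 304) (nat_lit 3067669273) (nat_lit 46) (nat_lit 5) (nat_lit 49) (nat_lit 5) (nat_lit 50) (nat_lit 5) (nat_lit 267) (nat_lit 252) (nat_lit 201)) (XT.lf (nat_lit 0) (nat_lit 1104115690) (nat_lit 380) (nat_lit 12679644486) (nat_lit 76) (nat_lit 7399937477) (nat_lit 41) (nat_lit 5) (nat_lit 46) (nat_lit 5) (nat_lit 42) (nat_lit 5) (nat_lit 268) (nat_lit 252) (nat_lit 200))) (XT.nd (nat_lit 78) (nat_lit 228) (nat_lit 0) (XT.lf (nat_lit 0) (nat_lit 2494354329) (nat_lit 228) (nat_lit 3184940580) (nat_lit 304) (nat_lit 16589949812) (nat_lit 38) (nat_lit 5) (nat_lit 41) (nat_lit 5) (nat_lit 42) (nat_lit 5) (nat_lit 269) (nat_lit 252) (nat_lit 199)) (XT.nd (nat_lit 78) (nat_lit 228) (nat_lit 0) (XT.lf (nat_lit 0) (nat_lit 10942515886)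 (nat_lit 304) (nat_lit 4269894779) (nat_lit 76) (nat_lit 8213199707) (nat_lit 38) (nat_lit 5) (nat_lit 42) (nat_lit 5) (nat_lit 39) (nat_lit 5) (nat_lit 270) (nat_lit 252) (nat_lit 198)) (XT.lf (nat_lit 0) (nat_lit 12792580328) (nat_lit 228) (nat_lit 4058521842) (nat_lit 304) (nat_lit 7812238265) (nat_lit 35) (nat_lit 5) (nat_lit 38) (nat_lit 5) (nat_lit 39) (nat_lit 5) (nat_lit 271) (nat_lit 252) (nat_lit 197))))))))
noncomputable def xc74 : XT := (XT.nd (nat_lit 1404) (nat_lit 608) (nat_lit 0) (XT.nd (nat_lit 702) (nat_lit 608) (nat_lit 0) (XT.nd (nat_lit 312) (nat_lit 532) (nat_lit 0) (XT.nd (nat_lit 156) (nat_lit 380) (nat_lit 0) (XT.nd (nat_lit 78) (nat_lit 76) (nat_lit 0) (XT.lf (nat_lit 0) (nat_lit 5384287633) (nat_lit 152) (nat_lit 18104768124) (nat_lit 228) (nat_lit 2498264441) (nat_lit 33) (nat_lit 5) (nat_lit 35) (nat_lit 5) (nat_lit 36) (nat_lit 5) (nat_lit 272) (nat_lit 252)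 (nat_lit 196)) (XT.lf (nat_lit 0) (nat_lit 3389005296) (nat_lit 228) (nat_lit 3123212398) (nat_lit 76) (nat_lit 20889933094) (nat_lit 32) (nat_lit 5) (nat_lit 35) (nat_lit 5) (nat_lit 33) (nat_lit 5) (nat_lit 273) (nat_lit 252) (nat_lit 195))) (XT.nd (nat_lit 78) (nat_lit 152) (nat_lit 0) (XT.lf (nat_lit 0) (nat_lit 9987526665) (nat_lit 304) (nat_lit 12818696750) (nat_lit 76) (nat_lit 6105560129) (nat_lit 29) (nat_lit 5) (nat_lit 33) (nat_lit 5) (nat_lit 30) (nat_lit 5) (nat_lit 274) (nat_lit 252) (nat_lit 194)) (XT.lf (nat_lit 0) (nat_lit 6481165614) (nat_lit 152) (nat_lit 10875493259) (nat_lit 228) (nat_lit 13173440975) (nat_lit 27) (nat_lit 5) (nat_lit 29) (nat_lit 5) (nat_lit 30) (nat_lit 5) (nat_lit 275) (nat_lit 252) (nat_lit 193)))) (XT.nd (nat_lit 156) (nat_lit 304) (nat_lit 0) (XT.nd (nat_lit 78) (nat_lit 228) (nat_lit 0) (XT.lf (nat_lit 0) (nat_lit 25551157394) (nat_lit 228)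 (nat_lit 4552816966) (nat_lit 76) (nat_lit 2162161031) (nat_lit 27) (nat_lit 5) (nat_lit 30) (nat_lit 5) (nat_lit 28) (nat_lit 5) (nat_lit 276) (nat_lit 252) (nat_lit 192)) (XT.lf (nat_lit 0) (nat_lit 684031835) (nat_lit 228) (nat_lit 17304017503) (nat_lit 76) (nat_lit 16131231838) (nat_lit 24) (nat_lit 5) (nat_lit 27) (nat_lit 5) (nat_lit 25) (nat_lit 5) (nat_lit 277) (nat_lit 252) (nat_lit 191))) (XT.nd (nat_lit 78) (nat_lit 152) (nat_lit 0) (XT.lf (nat_lit 0) (nat_lit 3918893026) (nat_lit 152) (nat_lit 4645631034) (nat_lit 228) (nat_lit 27544446731) (nat_lit 22) (nat_lit 5) (nat_lit 24) (nat_lit 5) (nat_lit 25) (nat_lit 5) (nat_lit 278) (nat_lit 252) (nat_lit 190)) (XT.nd (nat_lit 78) (nat_lit 152) (nat_lit 0) (XT.lf (nat_lit 0) (nat_lit 17515024517) (nat_lit 228) (nat_lit 10972756903) (nat_lit 76) (nat_lit 9748110281) (nat_lit 22) (nat_lit 5) (nat_lit 25) (nat_lit 5) (nat_lit 23)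 (nat_lit 5) (nat_lit 279) (nat_lit 252) (nat_lit 189)) (XT.lf (nat_lit 0) (nat_lit 12227029098) (nat_lit 152) (nat_lit 15205949796) (nat_lit 228) (nat_lit 13087448703) (nat_lit 20) (nat_lit 5) (nat_lit 22) (nat_lit 5) (nat_lit 23) (nat_lit 5) (nat_lit 280) (nat_lit 252) (nat_lit 188)))))) (XT.nd (nat_lit 312) (nat_lit 304) (nat_lit 0) (XT.nd (nat_lit 156) (nat_lit 152) (nat_lit 0) (XT.nd (nat_lit 78) (nat_lit 152) (nat_lit 0) (XT.lf (nat_lit 0) (nat_lit 37647917312) (nat_lit 152) (nat_lit 670675301) (nat_lit 228) (nat_lit 4660452240) (nat_lit 20) (nat_lit 5) (nat_lit 22) (nat_lit 5) (nat_lit 23) (nat_lit 5) (nat_lit 281) (nat_lit 252) (nat_lit 187)) (XT.lf (nat_lit 0) (nat_lit 4835837298) (nat_lit 152) (nat_lit 25842737957) (nat_lit 76) (nat_lit 14925472596) (nat_lit 18) (nat_lit 5) (nat_lit 20) (nat_lit 5) (nat_lit 19) (nat_lit 5) (nat_lit 282) (nat_lit 252) (nat_lit 186))) (XT.nd (nat_lit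 78) (nat_lit 152) (nat_lit 0) (XT.lf (nat_lit 0) (nat_lit 15021145868) (nat_lit 152) (nat_lit 1499137444) (nat_lit 76) (nat_lit 31910342163) (nat_lit 18) (nat_lit 5) (nat_lit 20) (nat_lit 5) (nat_lit 19) (nat_lit 5) (nat_lit 283) (nat_lit 252) (nat_lit 185)) (XT.lf (nat_lit 0) (nat_lit 25587934207) (nat_lit 152) (nat_lit 818692932) (nat_lit 228) (nat_lit 25057457177) (nat_lit 16) (nat_lit 5) (nat_lit 18) (nat_lit 5) (nat_lit 19) (nat_lit 5) (nat_lit 284) (nat_lit 252) (nat_lit 184)))) (XT.nd (nat_lit 156) (nat_lit 228) (nat_lit 0) (XT.nd (nat_lit 78) (nat_lit 76) (nat_lit 0) (XT.lf (nat_lit 0) (nat_lit 38967884562) (nat_lit 228) (nat_lit 118363471) (nat_lit 76) (nat_lit 15640745694) (nat_lit 16) (nat_lit 5) (nat_lit 19) (nat_lit 5) (nat_lit 17) (nat_lit 4) (nat_lit 285) (nat_lit 252) (nat_lit 183)) (XT.lf (nat_lit 0) (nat_lit 28580102550) (nat_lit 76) (nat_lit 24401386239) (nat_lit 152)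 (nat_lit 5247094002) (nat_lit 15) (nat_lit 5) (nat_lit 16) (nat_lit 5) (nat_lit 17) (nat_lit 4) (nat_lit 286) (nat_lit 252) (nat_lit 182))) (XT.nd (nat_lit 78) (nat_lit 152) (nat_lit 0) (XT.lf (nat_lit 0) (nat_lit 5900384052) (nat_lit 152) (nat_lit 2547279515) (nat_lit 76) (nat_lit 53558389454) (nat_lit 14) (nat_lit 5) (nat_lit 16) (nat_lit 5) (nat_lit 15) (nat_lit 5) (nat_lit 287) (nat_lit 252) (nat_lit 181)) (XT.nd (nat_lit 78) (nat_lit 0) (nat_lit 0) (XT.lf (nat_lit 0) (nat_lit 18321773743) (nat_lit 228) (nat_lit 38711237953) (nat_lit 76) (nat_lit 9020126661) (nat_lit 12) (nat_lit 5) (nat_lit 15) (nat_lit 5) (nat_lit 13) (nat_lit 4) (nat_lit 288) (nat_lit 252) (nat_lit 180)) (XT.lf (nat_lit 0) (nat_lit 31913588589) (nat_lit 228) (nat_lit 10870261942) (nat_lit 76) (nat_lit 27631318814) (nat_lit 12) (nat_lit 5) (nat_lit 15) (nat_lit 5) (nat_lit 13) (nat_lit 4) (nat_lit 289) (nat_lit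 252) (nat_lit 179))))))) (XT.nd (nat_lit 702) (nat_lit 304) (nat_lit 0) (XT.nd (nat_lit 312) (nat_lit 76) (nat_lit 0) (XT.nd (nat_lit 156) (nat_lit 152) (nat_lit 0) (XT.nd (nat_lit 78) (nat_lit 0) (nat_lit 0) (XT.lf (nat_lit 0) (nat_lit 19815071501) (nat_lit 76) (nat_lit 27077019591) (nat_lit 152) (nat_lit 28219118044) (nat_lit 11) (nat_lit 5) (nat_lit 12) (nat_lit 5) (nat_lit 13) (nat_lit 4) (nat_lit 290) (nat_lit 252) (nat_lit 178)) (XT.lf (nat_lit 0) (nat_lit 53327022788) (nat_lit 76) (nat_lit 9921664545) (nat_lit 152) (nat_lit 16925266551) (nat_lit 11) (nat_lit 5) (nat_lit 12) (nat_lit 5) (nat_lit 13) (nat_lit 4) (nat_lit 291) (nat_lit 252) (nat_lit 177))) (XT.nd (nat_lit 78) (nat_lit 76) (nat_lit 0) (XT.lf (nat_lit 0) (nat_lit 3851598417) (nat_lit 76) (nat_lit 77247781022) (nat_lit 76) (nat_lit 4533071893) (nat_lit 10) (nat_lit 4) (nat_lit 11) (nat_lit 5) (nat_lit 11) (nat_lit 4)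 (nat_lit 292) (nat_lit 252) (nat_lit 176)) (XT.lf (nat_lit 0) (nat_lit 9201195579) (nat_lit 152) (nat_lit 53867829919) (nat_lit 76) (nat_lit 28420005770) (nat_lit 9) (nat_lit 5) (nat_lit 11) (nat_lit 5) (nat_lit 10) (nat_lit 4) (nat_lit 293) (nat_lit 252) (nat_lit 175)))) (XT.nd (nat_lit 156) (nat_lit 0) (nat_lit 0) (XT.nd (nat_lit 78) (nat_lit 76) (nat_lit 0) (XT.lf (nat_lit 0) (nat_lit 23869500133) (nat_lit 152) (nat_lit 23812223851) (nat_lit 76) (nat_lit 50129001772) (nat_lit 9) (nat_lit 5) (nat_lit 11) (nat_lit 5) (nat_lit 10) (nat_lit 4) (nat_lit 294) (nat_lit 252) (nat_lit 174)) (XT.lf (nat_lit 0) (nat_lit 8920353562) (nat_lit 76) (nat_lit 30922769820) (nat_lit 152) (nat_lit 64788448422) (nat_lit 8) (nat_lit 5) (nat_lit 9) (nat_lit 5) (nat_lit 10) (nat_lit 4) (nat_lit 295) (nat_lit 252) (nat_lit 173))) (XT.nd (nat_lit 78) (nat_lit 0) (nat_lit 0) (XT.lf (nat_lit 0) (nat_lit 45109444113)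 (nat_lit 76) (nat_lit 12392924094) (nat_lit 152) (nat_lit 54475338813) (nat_lit 8) (nat_lit 5) (nat_lit 9) (nat_lit 5) (nat_lit 10) (nat_lit 4) (nat_lit 296) (nat_lit 252) (nat_lit 172)) (XT.nd (nat_lit 78) (nat_lit 0) (nat_lit 0) (XT.lf (nat_lit 0) (nat_lit 76686695172) (nat_lit 152) (nat_lit 35848586765) (nat_lit 0) (nat_lit 7370641460) (nat_lit 8) (nat_lit 5) (nat_lit 10) (nat_lit 4) (nat_lit 8) (nat_lit 4) (nat_lit 297) (nat_lit 252) (nat_lit 171)) (XT.lf (nat_lit 0) (nat_lit 97608609506) (nat_lit 152) (nat_lit 2567189842) (nat_lit 0) (nat_lit 28282462597) (nat_lit 8) (nat_lit 5) (nat_lit 10) (nat_lit 4) (nat_lit 8) (nat_lit 4) (nat_lit 298) (nat_lit 252) (nat_lit 170)))))) (XT.nd (nat_lit 390) (nat_lit 76) (nat_lit 0) (XT.nd (nat_lit 156) (nat_lit 152) (nat_lit 0) (XT.nd (nat_lit 78) (nat_lit 0) (nat_lit 0) (XT.lf (nat_lit 0) (nat_lit 34469891012) (nat_lit 76) (nat_lit 86266885235)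 (nat_lit 76) (nat_lit 16931392773) (nat_lit 7) (nat_lit 4) (nat_lit 8) (nat_lit 5) (nat_lit 8) (nat_lit 4) (nat_lit 299) (nat_lit 252) (nat_lit 169)) (XT.lf (nat_lit 0) (nat_lit 74551970300) (nat_lit 76) (nat_lit 71202542119) (nat_lit 76) (nat_lit 1858396369) (nat_lit 7) (nat_lit 4) (nat_lit 8) (nat_lit 5) (nat_lit 8) (nat_lit 4) (nat_lit 300) (nat_lit 252) (nat_lit 168))) (XT.nd (nat_lit 78) (nat_lit 76) (nat_lit 0) (XT.lf (nat_lit 0) (nat_lit 13953805794) (nat_lit 152) (nat_lit 40746856176) (nat_lit 76) (nat_lit 103641568316) (nat_lit 6) (nat_lit 5) (nat_lit 8) (nat_lit 5) (nat_lit 7) (nat_lit 4) (nat_lit 301) (nat_lit 252) (nat_lit 167)) (XT.nd (nat_lit 78) (nat_lit 76) (nat_lit 0) (XT.lf (nat_lit 0) (nat_lit 30962032619) (nat_lit 152) (nat_lit 5887409985) (nat_lit 76) (nat_lit 133079128586) (nat_lit 6) (nat_lit 5) (nat_lit 8) (nat_lit 5) (nat_lit 7) (nat_lit 4) (nat_lit 302) (nat_lit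 252) (nat_lit 166)) (XT.lf (nat_lit 0) (nat_lit 32802886581) (nat_lit 76) (nat_lit 17035812295) (nat_lit 152) (nat_lit 132577735911) (nat_lit 5) (nat_lit 5) (nat_lit 6) (nat_lit 5) (nat_lit 7) (nat_lit 4) (nat_lit 303) (nat_lit 252) (nat_lit 165))))) (XT.nd (nat_lit 156) (nat_lit 76) (nat_lit 0) (XT.nd (nat_lit 78) (nat_lit 0) (nat_lit 0) (XT.lf (nat_lit 0) (nat_lit 70393643159) (nat_lit 152) (nat_lit 121176977635) (nat_lit 0) (nat_lit 4324303594) (nat_lit 5) (nat_lit 5) (nat_lit 7) (nat_lit 4) (nat_lit 5) (nat_lit 4) (nat_lit 304) (nat_lit 252) (nat_lit 164)) (XT.lf (nat_lit 0) (nat_lit 92876341033) (nat_lit 152) (nat_lit 90759795441) (nat_lit 0) (nat_lit 26801392627) (nat_lit 5) (nat_lit 5) (nat_lit 7) (nat_lit 4) (nat_lit 5) (nat_lit 4) (nat_lit 305) (nat_lit 252) (nat_lit 163))) (XT.nd (nat_lit 78) (nat_lit 76) (nat_lit 0) (XT.lf (nat_lit 0) (nat_lit 117154046528) (nat_lit 152) (nat_lit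 57915774881) (nat_lit 0) (nat_lit 51073904751) (nat_lit 5) (nat_lit 5) (nat_lit 7) (nat_lit 4) (nat_lit 5) (nat_lit 4) (nat_lit 306) (nat_lit 252) (nat_lit 162)) (XT.nd (nat_lit 78) (nat_lit 76) (nat_lit 0) (XT.lf (nat_lit 0) (nat_lit 143370627529) (nat_lit 152) (nat_lit 22450284725) (nat_lit 0) (nat_lit 77285677074) (nat_lit 5) (nat_lit 5) (nat_lit 7) (nat_lit 4) (nat_lit 5) (nat_lit 4) (nat_lit 307) (nat_lit 252) (nat_lit 161)) (XT.lf (nat_lit 0) (nat_lit 16370809022) (nat_lit 76) (nat_lit 155566226738) (nat_lit 76) (nat_lit 89476823804) (nat_lit 4) (nat_lit 4) (nat_lit 5) (nat_lit 5) (nat_lit 5) (nat_lit 4) (nat_lit 308) (nat_lit 252) (nat_lit 160))))))))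
noncomputable def xc75 : XT := (XT.nd (nat_lit 33540) (nat_lit 0) (nat_lit 1900) (XT.nd (nat_lit 702) (nat_lit 0) (nat_lit 0) (XT.nd (nat_lit 312) (nat_lit 152) (nat_lit 0) (XT.nd (nat_lit 156) (nat_lit 0) (nat_lit 0) (XT.nd (nat_lit 78) (nat_lit 0) (nat_lit 0) (XT.lf (nat_lit 0) (nat_lit 59093922480) (nat_lit 76) (nat_lit 144082955646) (nat_lit 76) (nat_lit 77989430045) (nat_lit 4) (nat_lit 4) (nat_lit 5) (nat_lit 5) (nat_lit 5) (nat_lit 4) (nat_lit 309) (nat_lit 252) (nat_lit 159)) (XT.lf (nat_lit 0) (nat_lit 105229921853) (nat_lit 76) (nat_lit 131683256398) (nat_lit 76) (nat_lit 65585913515) (nat_lit 4) (nat_lit 4) (nat_lit 5) (nat_lit 5) (nat_lit 5) (nat_lit 4) (nat_lit 310) (nat_lit 252) (nat_lit 158))) (XT.nd (nat_lit 78) (nat_lit 0) (nat_lit 0) (XT.lf (nat_lit 0) (nat_lit 155052205654) (nat_lit 76) (nat_lit 118293649297) (nat_lit 76) (nat_lit 52192771892) (nat_lit 4) (nat_lit 4)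 (nat_lit 5) (nat_lit 5) (nat_lit 5) (nat_lit 4) (nat_lit 311) (nat_lit 252) (nat_lit 157)) (XT.lf (nat_lit 0) (nat_lit 208856017047) (nat_lit 76) (nat_lit 103834788521) (nat_lit 76) (nat_lit 37730638411) (nat_lit 4) (nat_lit 4) (nat_lit 5) (nat_lit 5) (nat_lit 5) (nat_lit 4) (nat_lit 312) (nat_lit 252) (nat_lit 156)))) (XT.nd (nat_lit 156) (nat_lit 152) (nat_lit 0) (XT.nd (nat_lit 78) (nat_lit 0) (nat_lit 0) (XT.lf (nat_lit 0) (nat_lit 266960193434) (nat_lit 76) (nat_lit 88220991934) (nat_lit 76) (nat_lit 22113811541) (nat_lit 4) (nat_lit 4) (nat_lit 5) (nat_lit 5) (nat_lit 5) (nat_lit 4) (nat_lit 313) (nat_lit 252) (nat_lit 155)) (XT.lf (nat_lit 0) (nat_lit 329709055859) (nat_lit 76) (nat_lit 71359733332) (nat_lit 76) (nat_lit 5249747123) (nat_lit 4) (nat_lit 4) (nat_lit 5) (nat_lit 5) (nat_lit 5) (nat_lit 4) (nat_lit 314) (nat_lit 252) (nat_lit 154))) (XT.nd (nat_lit 78) (nat_lit 76)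 (nat_lit 0) (XT.lf (nat_lit 0) (nat_lit 12546641413) (nat_lit 152) (nat_lit 40391969291) (nat_lit 76) (nat_lit 384715324576) (nat_lit 3) (nat_lit 5) (nat_lit 5) (nat_lit 5) (nat_lit 4) (nat_lit 4) (nat_lit 315) (nat_lit 252) (nat_lit 153)) (XT.nd (nat_lit 78) (nat_lit 76) (nat_lit 0) (XT.lf (nat_lit 0) (nat_lit 31583524438) (nat_lit 152) (nat_lit 1368764625) (nat_lit 76) (nat_lit 438539540151) (nat_lit 3) (nat_lit 5) (nat_lit 5) (nat_lit 5) (nat_lit 4) (nat_lit 4) (nat_lit 316) (nat_lit 252) (nat_lit 152)) (XT.lf (nat_lit 0) (nat_lit 42121496365) (nat_lit 76) (nat_lit 10677876043) (nat_lit 152) (nat_lit 455204582994) (nat_lit 2) (nat_lit 5) (nat_lit 3) (nat_lit 5) (nat_lit 4) (nat_lit 4) (nat_lit 317) (nat_lit 252) (nat_lit 151)))))) (XT.nd (nat_lit 32448) (nat_lit 0) (nat_lit 5396) (XT.nd (nat_lit 156) (nat_lit 0) (nat_lit 0) (XT.nd (nat_lit 78) (nat_lit 0) (nat_lit 0) (XT.lf (nat_lit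 0) (nat_lit 75944033495) (nat_lit 152) (nat_lit 458508151093) (nat_lit 0) (nat_lit 12973291179) (nat_lit 2) (nat_lit 5) (nat_lit 4) (nat_lit 4) (nat_lit 2) (nat_lit 4) (nat_lit 318) (nat_lit 252) (nat_lit 150)) (XT.lf (nat_lit 0) (nat_lit 101118867530) (nat_lit 152) (nat_lit 450726614920) (nat_lit 0) (nat_lit 38146306555) (nat_lit 2) (nat_lit 5) (nat_lit 4) (nat_lit 4) (nat_lit 2) (nat_lit 4) (nat_lit 319) (nat_lit 252) (nat_lit 149))) (XT.nd (nat_lit 78) (nat_lit 0) (nat_lit 0) (XT.lf (nat_lit 0) (nat_lit 128306347145) (nat_lit 152) (nat_lit 442325026143) (nat_lit 0) (nat_lit 65332102227) (nat_lit 2) (nat_lit 5) (nat_lit 4) (nat_lit 4) (nat_lit 2) (nat_lit 4) (nat_lit 320) (nat_lit 252) (nat_lit 148)) (XT.lf (nat_lit 0) (nat_lit 157667583330) (nat_lit 152) (nat_lit 433253597567) (nat_lit 0) (nat_lit 94691779205) (nat_lit 2) (nat_lit 5) (nat_lit 4) (nat_lit 4) (nat_lit 2) (nat_lit 4)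 (nat_lit 321) (nat_lit 252) (nat_lit 147)))) (XT.nd (nat_lit 156) (nat_lit 608) (nat_lit 0) (XT.nd (nat_lit 78) (nat_lit 0) (nat_lit 0) (XT.lf (nat_lit 0) (nat_lit 5046446971) (nat_lit 684) (nat_lit 355116962) (nat_lit 684) (nat_lit 355116962) (nat_lit 81) (nat_lit 3) (nat_lit 90) (nat_lit 3) (nat_lit 90) (nat_lit 5) (nat_lit 253) (nat_lit 253) (nat_lit 214)) (XT.lf (nat_lit 76) (nat_lit 7465570573) (nat_lit 0) (nat_lit 3875721307) (nat_lit 684) (nat_lit 587781068) (nat_lit 82) (nat_lit 5) (nat_lit 81) (nat_lit 3) (nat_lit 90) (nat_lit 5) (nat_lit 254) (nat_lit 253) (nat_lit 213))) (XT.nd (nat_lit 78) (nat_lit 0) (nat_lit 0) (XT.lf (nat_lit 0) (nat_lit 360163183) (nat_lit 684) (nat_lit 8411379003) (nat_lit 760) (nat_lit 3603571677) (nat_lit 73) (nat_lit 5) (nat_lit 82) (nat_lit 5) (nat_lit 83) (nat_lit 5) (nat_lit 255) (nat_lit 253) (nat_lit 212)) (XT.nd (nat_lit 78) (nat_lit 0) (nat_lit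 76) (XT.lf (nat_lit 76) (nat_lit 258615867) (nat_lit 0) (nat_lit 1183880632) (nat_lit 760) (nat_lit 11410130875) (nat_lit 74) (nat_lit 5) (nat_lit 73) (nat_lit 5) (nat_lit 83) (nat_lit 5) (nat_lit 256) (nat_lit 253) (nat_lit 211)) (XT.lf (nat_lit 0) (nat_lit 2805084828) (nat_lit 684) (nat_lit 3596882228) (nat_lit 760) (nat_lit 6956903006) (nat_lit 74) (nat_lit 5) (nat_lit 83) (nat_lit 5) (nat_lit 84) (nat_lit 5) (nat_lit 257) (nat_lit 253) (nat_lit 210))))))) (XT.nd (nat_lit 702) (nat_lit 1672) (nat_lit 0) (XT.nd (nat_lit 312) (nat_lit 1368) (nat_lit 0) (XT.nd (nat_lit 156) (nat_lit 608) (nat_lit 0) (XT.nd (nat_lit 78) (nat_lit 0) (nat_lit 0) (XT.lf (nat_lit 0) (nat_lit 4364435754) (nat_lit 684) (nat_lit 7675750416) (nat_lit 760) (nat_lit 1861234065) (nat_lit 75) (nat_lit 5) (nat_lit 84) (nat_lit 5) (nat_lit 85) (nat_lit 5) (nat_lit 258) (nat_lit 253) (nat_lit 209)) (XT.lf (nat_lit 76)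 (nat_lit 2401640779) (nat_lit 0) (nat_lit 3800129015) (nat_lit 760) (nat_lit 8278124215) (nat_lit 76) (nat_lit 5) (nat_lit 75) (nat_lit 5) (nat_lit 85) (nat_lit 5) (nat_lit 259) (nat_lit 253) (nat_lit 208))) (XT.nd (nat_lit 78) (nat_lit 684) (nat_lit 0) (XT.lf (nat_lit 0) (nat_lit 8349338229) (nat_lit 684) (nat_lit 1665930659) (nat_lit 76) (nat_lit 5081382319) (nat_lit 76) (nat_lit 5) (nat_lit 85) (nat_lit 5) (nat_lit 77) (nat_lit 5) (nat_lit 260) (nat_lit 253) (nat_lit 207)) (XT.lf (nat_lit 0) (nat_lit 9786407803) (nat_lit 684) (nat_lit 1050783398) (nat_lit 760) (nat_lit 4917289296) (nat_lit 67) (nat_lit 5) (nat_lit 76) (nat_lit 5) (nat_lit 77) (nat_lit 5) (nat_lit 261) (nat_lit 253) (nat_lit 206)))) (XT.nd (nat_lit 156) (nat_lit 684) (nat_lit 0) (XT.nd (nat_lit 78) (nat_lit 380) (nat_lit 0) (XT.lf (nat_lit 0) (nat_lit 5757191834) (nat_lit 304) (nat_lit 7975658150) (nat_lit 380) (nat_lit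 2721791221) (nat_lit 63) (nat_lit 5) (nat_lit 67) (nat_lit 5) (nat_lit 68) (nat_lit 5) (nat_lit 262) (nat_lit 253) (nat_lit 205)) (XT.lf (nat_lit 0) (nat_lit 1386188853) (nat_lit 380) (nat_lit 15599906434) (nat_lit 456) (nat_lit 218556081) (nat_lit 58) (nat_lit 5) (nat_lit 63) (nat_lit 5) (nat_lit 64) (nat_lit 5) (nat_lit 263) (nat_lit 253) (nat_lit 204))) (XT.nd (nat_lit 78) (nat_lit 608) (nat_lit 0) (XT.lf (nat_lit 0) (nat_lit 2688411877) (nat_lit 456) (nat_lit 3405968259) (nat_lit 76) (nat_lit 11904309527) (nat_lit 57) (nat_lit 5) (nat_lit 63) (nat_lit 5) (nat_lit 58) (nat_lit 5) (nat_lit 264) (nat_lit 253) (nat_lit 203)) (XT.nd (nat_lit 78) (nat_lit 304) (nat_lit 0) (XT.lf (nat_lit 0) (nat_lit 6010915212) (nat_lit 380) (nat_lit 8632433444) (nat_lit 76) (nat_lit 4203300301) (nat_lit 53) (nat_lit 5) (nat_lit 58) (nat_lit 5) (nat_lit 54) (nat_lit 5) (nat_lit 265) (nat_lit 253) (nat_lit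 202)) (XT.lf (nat_lit 0) (nat_lit 5312704999) (nat_lit 304) (nat_lit 4496854317) (nat_lit 380) (nat_lit 9942469425) (nat_lit 49) (nat_lit 5) (nat_lit 53) (nat_lit 5) (nat_lit 54) (nat_lit 5) (nat_lit 266) (nat_lit 253) (nat_lit 201)))))) (XT.nd (nat_lit 390) (nat_lit 836) (nat_lit 0) (XT.nd (nat_lit 156) (nat_lit 608) (nat_lit 0) (XT.nd (nat_lit 78) (nat_lit 228) (nat_lit 0) (XT.lf (nat_lit 0) (nat_lit 14132120505) (nat_lit 380) (nat_lit 183688248) (nat_lit 76) (nat_lit 6403122183) (nat_lit 49) (nat_lit 5) (nat_lit 54) (nat_lit 5) (nat_lit 50) (nat_lit 5) (nat_lit 267) (nat_lit 253) (nat_lit 200)) (XT.lf (nat_lit 0) (nat_lit 15599044557) (nat_lit 228) (nat_lit 3489616732) (nat_lit 304) (nat_lit 2660201677) (nat_lit 46) (nat_lit 5) (nat_lit 49) (nat_lit 5) (nat_lit 50) (nat_lit 5) (nat_lit 268) (nat_lit 253) (nat_lit 199))) (XT.nd (nat_lit 78) (nat_lit 228) (nat_lit 0) (XT.lf (nat_lit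 0) (nat_lit 1791124291) (nat_lit 380) (nat_lit 12933906929) (nat_lit 76) (nat_lit 8121941919) (nat_lit 41) (nat_lit 5) (nat_lit 46) (nat_lit 5) (nat_lit 42) (nat_lit 5) (nat_lit 269) (nat_lit 253) (nat_lit 198)) (XT.nd (nat_lit 78) (nat_lit 0) (nat_lit 0) (XT.lf (nat_lit 0) (nat_lit 3420978377) (nat_lit 228) (nat_lit 3278344543) (nat_lit 304) (nat_lit 17321800900) (nat_lit 38) (nat_lit 5) (nat_lit 41) (nat_lit 5) (nat_lit 42) (nat_lit 5) (nat_lit 270) (nat_lit 253) (nat_lit 197)) (XT.lf (nat_lit 0) (nat_lit 12344032145) (nat_lit 304) (nat_lit 3913137833) (nat_lit 76) (nat_lit 9014909160) (nat_lit 38) (nat_lit 5) (nat_lit 42) (nat_lit 5) (nat_lit 39) (nat_lit 5) (nat_lit 271) (nat_lit 253) (nat_lit 196))))) (XT.nd (nat_lit 156) (nat_lit 456) (nat_lit 0) (XT.nd (nat_lit 78) (nat_lit 152) (nat_lit 0) (XT.lf (nat_lit 0) (nat_lit 14483985906) (nat_lit 228) (nat_lit 4212777284) (nat_lit 304)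 (nat_lit 7913585917) (nat_lit 35) (nat_lit 5) (nat_lit 38) (nat_lit 5) (nat_lit 39) (nat_lit 5) (nat_lit 272) (nat_lit 253) (nat_lit 195)) (XT.lf (nat_lit 0) (nat_lit 6476380260) (nat_lit 152) (nat_lit 19365304812) (nat_lit 228) (nat_lit 2199852981) (nat_lit 33) (nat_lit 5) (nat_lit 35) (nat_lit 5) (nat_lit 36) (nat_lit 5) (nat_lit 273) (nat_lit 253) (nat_lit 194))) (XT.nd (nat_lit 78) (nat_lit 380) (nat_lit 0) (XT.lf (nat_lit 0) (nat_lit 4106722737) (nat_lit 228) (nat_lit 2744978699) (nat_lit 76) (nat_lit 22719328143) (nat_lit 32) (nat_lit 5) (nat_lit 35) (nat_lit 5) (nat_lit 33) (nat_lit 5) (nat_lit 274) (nat_lit 253) (nat_lit 193)) (XT.nd (nat_lit 78) (nat_lit 152) (nat_lit 0) (XT.lf (nat_lit 0) (nat_lit 11212202142) (nat_lit 304) (nat_lit 13224138506) (nat_lit 76) (nat_lit 6766209857) (nat_lit 29) (nat_lit 5) (nat_lit 33) (nat_lit 5) (nat_lit 30) (nat_lit 5) (nat_lit 275) (nat_lit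 253) (nat_lit 192)) (XT.lf (nat_lit 0) (nat_lit 7592766056) (nat_lit 152) (nat_lit 11555827577) (nat_lit 228) (nat_lit 13802918122) (nat_lit 27) (nat_lit 5) (nat_lit 29) (nat_lit 5) (nat_lit 30) (nat_lit 5) (nat_lit 276) (nat_lit 253) (nat_lit 191))))))))
noncomputable def xc76 : XT := (XT.nd (nat_lit 1404) (nat_lit 380) (nat_lit 0) (XT.nd (nat_lit 702) (nat_lit 532) (nat_lit 0) (XT.nd (nat_lit 312) (nat_lit 456) (nat_lit 0) (XT.nd (nat_lit 156) (nat_lit 152) (nat_lit 0) (XT.nd (nat_lit 78) (nat_lit 228) (nat_lit 0) (XT.lf (nat_lit 0) (nat_lit 27971512837) (nat_lit 228) (nat_lit 4351170616) (nat_lit 76) (nat_lit 2505164834) (nat_lit 27) (nat_lit 5) (nat_lit 30) (nat_lit 5) (nat_lit 28) (nat_lit 5) (nat_lit 277) (nat_lit 253) (nat_lit 190)) (XT.lf (nat_lit 0) (nat_lit 1102132156) (nat_lit 228) (nat_lit 18134369958) (nat_lit 76) (nat_lit 17593478246) (nat_lit 24) (nat_lit 5) (nat_lit 27)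 (nat_lit 5) (nat_lit 25) (nat_lit 5) (nat_lit 278) (nat_lit 253) (nat_lit 189))) (XT.nd (nat_lit 78) (nat_lit 0) (nat_lit 0) (XT.lf (nat_lit 0) (nat_lit 4762298597) (nat_lit 152) (nat_lit 4832121421) (nat_lit 228) (nat_lit 29385407269) (nat_lit 22) (nat_lit 5) (nat_lit 24) (nat_lit 5) (nat_lit 25) (nat_lit 5) (nat_lit 279) (nat_lit 253) (nat_lit 188)) (XT.lf (nat_lit 0) (nat_lit 19238101388) (nat_lit 228) (nat_lit 11346073355) (nat_lit 76) (nat_lit 10693916340) (nat_lit 22) (nat_lit 5) (nat_lit 25) (nat_lit 5) (nat_lit 23) (nat_lit 5) (nat_lit 280) (nat_lit 253) (nat_lit 187)))) (XT.nd (nat_lit 156) (nat_lit 304) (nat_lit 0) (XT.nd (nat_lit 78) (nat_lit 0) (nat_lit 0) (XT.lf (nat_lit 0) (nat_lit 13687770392) (nat_lit 152) (nat_lit 16245413547) (nat_lit 228) (nat_lit 13813064151) (nat_lit 20) (nat_lit 5) (nat_lit 22) (nat_lit 5) (nat_lit 23) (nat_lit 5) (nat_lit 281) (nat_lit 253) (nat_lit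 186)) (XT.lf (nat_lit 0) (nat_lit 41106583073) (nat_lit 152) (nat_lit 560429110) (nat_lit 228) (nat_lit 4735713930) (nat_lit 20) (nat_lit 5) (nat_lit 22) (nat_lit 5) (nat_lit 23) (nat_lit 5) (nat_lit 282) (nat_lit 253) (nat_lit 185))) (XT.nd (nat_lit 78) (nat_lit 152) (nat_lit 0) (XT.lf (nat_lit 0) (nat_lit 5498791641) (nat_lit 152) (nat_lit 27461619313) (nat_lit 76) (nat_lit 16277719215) (nat_lit 18) (nat_lit 5) (nat_lit 20) (nat_lit 5) (nat_lit 19) (nat_lit 5) (nat_lit 283) (nat_lit 253) (nat_lit 184)) (XT.nd (nat_lit 78) (nat_lit 152) (nat_lit 0) (XT.lf (nat_lit 0) (nat_lit 16478473981) (nat_lit 152) (nat_lit 1203755773) (nat_lit 76) (nat_lit 34609659176) (nat_lit 18) (nat_lit 5) (nat_lit 20) (nat_lit 5) (nat_lit 19) (nat_lit 5) (nat_lit 284) (nat_lit 253) (nat_lit 183)) (XT.lf (nat_lit 0) (nat_lit 28032232628) (nat_lit 152) (nat_lit 729827492) (nat_lit 228) (nat_lit 26806631021) (nat_lit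 16) (nat_lit 5) (nat_lit 18) (nat_lit 5) (nat_lit 19) (nat_lit 5) (nat_lit 285) (nat_lit 253) (nat_lit 182)))))) (XT.nd (nat_lit 312) (nat_lit 228) (nat_lit 0) (XT.nd (nat_lit 156) (nat_lit 228) (nat_lit 0) (XT.nd (nat_lit 78) (nat_lit 0) (nat_lit 0) (XT.lf (nat_lit 0) (nat_lit 257610368) (nat_lit 76) (nat_lit 42058868475) (nat_lit 152) (nat_lit 16776769189) (nat_lit 15) (nat_lit 5) (nat_lit 16) (nat_lit 5) (nat_lit 17) (nat_lit 4) (nat_lit 286) (nat_lit 253) (nat_lit 181)) (XT.lf (nat_lit 0) (nat_lit 31227315975) (nat_lit 76) (nat_lit 26208641298) (nat_lit 152) (nat_lit 5439793359) (nat_lit 15) (nat_lit 5) (nat_lit 16) (nat_lit 5) (nat_lit 17) (nat_lit 4) (nat_lit 287) (nat_lit 253) (nat_lit 180))) (XT.nd (nat_lit 78) (nat_lit 152) (nat_lit 0) (XT.lf (nat_lit 0) (nat_lit 6575933816) (nat_lit 152) (nat_lit 2409970365) (nat_lit 76) (nat_lit 57970173785) (nat_lit 14) (nat_lit 5) (nat_lit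 16) (nat_lit 5) (nat_lit 15) (nat_lit 5) (nat_lit 288) (nat_lit 253) (nat_lit 179)) (XT.lf (nat_lit 0) (nat_lit 19983125454) (nat_lit 228) (nat_lit 41474001963) (nat_lit 76) (nat_lit 9870219162) (nat_lit 12) (nat_lit 5) (nat_lit 15) (nat_lit 5) (nat_lit 13) (nat_lit 4) (nat_lit 289) (nat_lit 253) (nat_lit 178)))) (XT.nd (nat_lit 156) (nat_lit 152) (nat_lit 0) (XT.nd (nat_lit 78) (nat_lit 76) (nat_lit 0) (XT.lf (nat_lit 0) (nat_lit 34647795872) (nat_lit 228) (nat_lit 11430498614) (nat_lit 76) (nat_lit 29960789475) (nat_lit 12) (nat_lit 5) (nat_lit 15) (nat_lit 5) (nat_lit 13) (nat_lit 4) (nat_lit 290) (nat_lit 253) (nat_lit 177)) (XT.lf (nat_lit 0) (nat_lit 21696216041) (nat_lit 76) (nat_lit 29119566658) (nat_lit 152) (nat_lit 30295482024) (nat_lit 11) (nat_lit 5) (nat_lit 12) (nat_lit 5) (nat_lit 13) (nat_lit 4) (nat_lit 291) (nat_lit 253) (nat_lit 176))) (XT.nd (nat_lit 78) (nat_lit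 152) (nat_lit 0) (XT.lf (nat_lit 0) (nat_lit 57867202036) (nat_lit 76) (nat_lit 10600939838) (nat_lit 152) (nat_lit 18111542076) (nat_lit 11) (nat_lit 5) (nat_lit 12) (nat_lit 5) (nat_lit 13) (nat_lit 4) (nat_lit 292) (nat_lit 253) (nat_lit 175)) (XT.nd (nat_lit 78) (nat_lit 76) (nat_lit 0) (XT.lf (nat_lit 0) (nat_lit 4427956387) (nat_lit 76) (nat_lit 83312956198) (nat_lit 76) (nat_lit 4734262876) (nat_lit 10) (nat_lit 4) (nat_lit 11) (nat_lit 5) (nat_lit 11) (nat_lit 4) (nat_lit 293) (nat_lit 253) (nat_lit 174)) (XT.lf (nat_lit 0) (nat_lit 10082001603) (nat_lit 152) (nat_lit 57923940281) (nat_lit 76) (nat_lit 30794806313) (nat_lit 9) (nat_lit 5) (nat_lit 11) (nat_lit 5) (nat_lit 10) (nat_lit 4) (nat_lit 294) (nat_lit 253) (nat_lit 173))))))) (XT.nd (nat_lit 702) (nat_lit 152) (nat_lit 0) (XT.nd (nat_lit 312) (nat_lit 152) (nat_lit 0) (XT.nd (nat_lit 156) (nat_lit 0) (nat_lit 0) (XT.nd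 (nat_lit 78) (nat_lit 76) (nat_lit 0) (XT.lf (nat_lit 0) (nat_lit 25913051234) (nat_lit 152) (nat_lit 25482649878) (nat_lit 76) (nat_lit 54233025694) (nat_lit 9) (nat_lit 5) (nat_lit 11) (nat_lit 5) (nat_lit 10) (nat_lit 4) (nat_lit 295) (nat_lit 253) (nat_lit 172)) (XT.lf (nat_lit 0) (nat_lit 9858340388) (nat_lit 76) (nat_lit 33299801554) (nat_lit 152) (nat_lit 69837431378) (nat_lit 8) (nat_lit 5) (nat_lit 9) (nat_lit 5) (nat_lit 10) (nat_lit 4) (nat_lit 296) (nat_lit 253) (nat_lit 171))) (XT.nd (nat_lit 78) (nat_lit 0) (nat_lit 0) (XT.lf (nat_lit 0) (nat_lit 48925939032) (nat_lit 76) (nat_lit 13294737788) (nat_lit 152) (nat_lit 58709205809) (nat_lit 8) (nat_lit 5) (nat_lit 9) (nat_lit 5) (nat_lit 10) (nat_lit 4) (nat_lit 297) (nat_lit 253) (nat_lit 170)) (XT.lf (nat_lit 0) (nat_lit 82932295953) (nat_lit 152) (nat_lit 38519824523) (nat_lit 0) (nat_lit 8040618542) (nat_lit 8) (nat_lit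 5) (nat_lit 10) (nat_lit 4) (nat_lit 8) (nat_lit 4) (nat_lit 298) (nat_lit 253) (nat_lit 169)))) (XT.nd (nat_lit 156) (nat_lit 76) (nat_lit 0) (XT.nd (nat_lit 78) (nat_lit 76) (nat_lit 0) (XT.lf (nat_lit 0) (nat_lit 105519766013) (nat_lit 152) (nat_lit 2590482452) (nat_lit 0) (nat_lit 30619435313) (nat_lit 8) (nat_lit 5) (nat_lit 10) (nat_lit 4) (nat_lit 8) (nat_lit 4) (nat_lit 299) (nat_lit 253) (nat_lit 168)) (XT.lf (nat_lit 0) (nat_lit 37401651783) (nat_lit 76) (nat_lit 93091663380) (nat_lit 76) (nat_lit 18183320375) (nat_lit 7) (nat_lit 4) (nat_lit 8) (nat_lit 5) (nat_lit 8) (nat_lit 4) (nat_lit 300) (nat_lit 253) (nat_lit 167))) (XT.nd (nat_lit 78) (nat_lit 76) (nat_lit 0) (XT.lf (nat_lit 0) (nat_lit 80677395971) (nat_lit 76) (nat_lit 76827844866) (nat_lit 76) (nat_lit 1912083059) (nat_lit 7) (nat_lit 4) (nat_lit 8) (nat_lit 5) (nat_lit 8) (nat_lit 4) (nat_lit 301) (nat_lit 253)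 (nat_lit 166)) (XT.nd (nat_lit 78) (nat_lit 0) (nat_lit 0) (XT.lf (nat_lit 0) (nat_lit 15155244429) (nat_lit 152) (nat_lit 43854379985) (nat_lit 76) (nat_lit 111995640088) (nat_lit 6) (nat_lit 5) (nat_lit 8) (nat_lit 5) (nat_lit 7) (nat_lit 4) (nat_lit 302) (nat_lit 253) (nat_lit 165)) (XT.lf (nat_lit 0) (nat_lit 33517823165) (nat_lit 152) (nat_lit 6217454002) (nat_lit 76) (nat_lit 143783557304) (nat_lit 6) (nat_lit 5) (nat_lit 8) (nat_lit 5) (nat_lit 7) (nat_lit 4) (nat_lit 303) (nat_lit 253) (nat_lit 164)))))) (XT.nd (nat_lit 390) (nat_lit 76) (nat_lit 0) (XT.nd (nat_lit 156) (nat_lit 0) (nat_lit 0) (XT.nd (nat_lit 78) (nat_lit 0) (nat_lit 0) (XT.lf (nat_lit 0) (nat_lit 35561940828) (nat_lit 76) (nat_lit 18338947759) (nat_lit 152) (nat_lit 143105031278) (nat_lit 5) (nat_lit 5) (nat_lit 6) (nat_lit 5) (nat_lit 7) (nat_lit 4) (nat_lit 304) (nat_lit 253) (nat_lit 163)) (XT.lf (nat_lit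 0) (nat_lit 76095529376) (nat_lit 152) (nat_lit 130743616882) (nat_lit 0) (nat_lit 4723782884) (nat_lit 5) (nat_lit 5) (nat_lit 7) (nat_lit 4) (nat_lit 5) (nat_lit 4) (nat_lit 305) (nat_lit 253) (nat_lit 162))) (XT.nd (nat_lit 78) (nat_lit 0) (nat_lit 0) (XT.lf (nat_lit 0) (nat_lit 100371628653) (nat_lit 152) (nat_lit 97902505961) (nat_lit 0) (nat_lit 28995073484) (nat_lit 5) (nat_lit 5) (nat_lit 7) (nat_lit 4) (nat_lit 5) (nat_lit 4) (nat_lit 306) (nat_lit 253) (nat_lit 161)) (XT.nd (nat_lit 78) (nat_lit 0) (nat_lit 0) (XT.lf (nat_lit 0) (nat_lit 126586722415) (nat_lit 152) (nat_lit 62439709914) (nat_lit 0) (nat_lit 55205714766) (nat_lit 5) (nat_lit 5) (nat_lit 7) (nat_lit 4) (nat_lit 5) (nat_lit 4) (nat_lit 307) (nat_lit 253) (nat_lit 160)) (XT.lf (nat_lit 0) (nat_lit 154896159365) (nat_lit 152) (nat_lit 24145078838) (nat_lit 0) (nat_lit 83511029051) (nat_lit 5) (nat_lit 5) (nat_lit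 7) (nat_lit 4) (nat_lit 5) (nat_lit 4) (nat_lit 308) (nat_lit 253) (nat_lit 159))))) (XT.nd (nat_lit 156) (nat_lit 0) (nat_lit 0) (XT.nd (nat_lit 78) (nat_lit 0) (nat_lit 0) (XT.lf (nat_lit 0) (nat_lit 17777303135) (nat_lit 76) (nat_lit 167967949517) (nat_lit 76) (nat_lit 96579001920) (nat_lit 4) (nat_lit 4) (nat_lit 5) (nat_lit 5) (nat_lit 5) (nat_lit 4) (nat_lit 309) (nat_lit 253) (nat_lit 158)) (XT.lf (nat_lit 0) (nat_lit 63911093122) (nat_lit 76) (nat_lit 155569244542) (nat_lit 76) (nat_lit 84176762423) (nat_lit 4) (nat_lit 4) (nat_lit 5) (nat_lit 5) (nat_lit 5) (nat_lit 4) (nat_lit 310) (nat_lit 253) (nat_lit 157))) (XT.nd (nat_lit 78) (nat_lit 0) (nat_lit 0) (XT.lf (nat_lit 0) (nat_lit 113731331197) (nat_lit 76) (nat_lit 142180558063) (nat_lit 76) (nat_lit 70784803239) (nat_lit 4) (nat_lit 4) (nat_lit 5) (nat_lit 5) (nat_lit 5) (nat_lit 4) (nat_lit 311) (nat_lit 253) (nat_lit 156))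 (XT.nd (nat_lit 78) (nat_lit 0) (nat_lit 0) (XT.lf (nat_lit 0) (nat_lit 167533248399) (nat_lit 76) (nat_lit 127722549715) (nat_lit 76) (nat_lit 56323764609) (nat_lit 4) (nat_lit 4) (nat_lit 5) (nat_lit 5) (nat_lit 5) (nat_lit 4) (nat_lit 312) (nat_lit 253) (nat_lit 155)) (XT.lf (nat_lit 0) (nat_lit 225635670904) (nat_lit 76) (nat_lit 112109542413) (nat_lit 76) (nat_lit 40707951489) (nat_lit 4) (nat_lit 4) (nat_lit 5) (nat_lit 5) (nat_lit 5) (nat_lit 4) (nat_lit 313) (nat_lit 253) (nat_lit 154))))))))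
noncomputable def xc77 : XT := (XT.nd (nat_lit 33618) (nat_lit 0) (nat_lit 1368) (XT.nd (nat_lit 32916) (nat_lit 0) (nat_lit 4636) (XT.nd (nat_lit 312) (nat_lit 76) (nat_lit 0) (XT.nd (nat_lit 156) (nat_lit 76) (nat_lit 0) (XT.nd (nat_lit 78) (nat_lit 0) (nat_lit 0) (XT.lf (nat_lit 0) (nat_lit 288382909365) (nat_lit 76) (nat_lit 95249014631) (nat_lit 76) (nat_lit 23844825729) (nat_lit 4) (nat_lit 4) (nat_lit 5) (nat_lit 5) (nat_lit 5) (nat_lit 4) (nat_lit 314) (nat_lit 253) (nat_lit 153)) (XT.lf (nat_lit 0) (nat_lit 356146799269) (nat_lit 76) (nat_lit 77041052131) (nat_lit 76) (nat_lit 5634457693) (nat_lit 4) (nat_lit 4) (nat_lit 5) (nat_lit 5) (nat_lit 5) (nat_lit 4) (nat_lit 315) (nat_lit 253) (nat_lit 152))) (XT.nd (nat_lit 78) (nat_lit 0) (nat_lit 0) (XT.lf (nat_lit 0) (nat_lit 13581984175) (nat_lit 152) (nat_lit 43565754226) (nat_lit 76) (nat_lit 415516902758) (nat_lit 3) (nat_lit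 5) (nat_lit 5) (nat_lit 5) (nat_lit 4) (nat_lit 4) (nat_lit 316) (nat_lit 253) (nat_lit 151)) (XT.lf (nat_lit 0) (nat_lit 34139476253) (nat_lit 152) (nat_lit 1424957824) (nat_lit 76) (nat_lit 473645251711) (nat_lit 3) (nat_lit 5) (nat_lit 5) (nat_lit 5) (nat_lit 4) (nat_lit 4) (nat_lit 317) (nat_lit 253) (nat_lit 150)))) (XT.nd (nat_lit 156) (nat_lit 0) (nat_lit 0) (XT.nd (nat_lit 78) (nat_lit 0) (nat_lit 0) (XT.lf (nat_lit 0) (nat_lit 45542207345) (nat_lit 76) (nat_lit 11509012694) (nat_lit 152) (nat_lit 491591632578) (nat_lit 2) (nat_lit 5) (nat_lit 3) (nat_lit 5) (nat_lit 4) (nat_lit 4) (nat_lit 318) (nat_lit 253) (nat_lit 149)) (XT.lf (nat_lit 0) (nat_lit 82045721353) (nat_lit 152) (nat_lit 495140608797) (nat_lit 0) (nat_lit 14031852897) (nat_lit 2) (nat_lit 5) (nat_lit 4) (nat_lit 4) (nat_lit 2) (nat_lit 4) (nat_lit 319) (nat_lit 253) (nat_lit 148))) (XT.nd (nat_lit 78) (nat_lit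 0) (nat_lit 0) (XT.lf (nat_lit 0) (nat_lit 109232603949) (nat_lit 152) (nat_lit 486740119685) (nat_lit 0) (nat_lit 41217176287) (nat_lit 2) (nat_lit 5) (nat_lit 4) (nat_lit 4) (nat_lit 2) (nat_lit 4) (nat_lit 320) (nat_lit 253) (nat_lit 147)) (XT.nd (nat_lit 32292) (nat_lit 0) (nat_lit 6004) (XT.lf (nat_lit 0) (nat_lit 138593287340) (nat_lit 152) (nat_lit 477669709318) (nat_lit 0) (nat_lit 70576415967) (nat_lit 2) (nat_lit 5) (nat_lit 4) (nat_lit 4) (nat_lit 2) (nat_lit 4) (nat_lit 321) (nat_lit 253) (nat_lit 146)) (XT.lf (nat_lit 0) (nat_lit 6160775038) (nat_lit 684) (nat_lit 9191389) (nat_lit 684) (nat_lit 9191389) (nat_lit 81) (nat_lit 3) (nat_lit 90) (nat_lit 3) (nat_lit 90) (nat_lit 5) (nat_lit 254) (nat_lit 254) (nat_lit 212)))))) (XT.nd (nat_lit 312) (nat_lit 684) (nat_lit 0) (XT.nd (nat_lit 156) (nat_lit 0) (nat_lit 76) (XT.nd (nat_lit 78) (nat_lit 0) (nat_lit 76) (XT.lf (nat_lit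 0) (nat_lit 738929657) (nat_lit 684) (nat_lit 4045331214) (nat_lit 760) (nat_lit 8027506011) (nat_lit 72) (nat_lit 5) (nat_lit 81) (nat_lit 3) (nat_lit 82) (nat_lit 5) (nat_lit 255) (nat_lit 254) (nat_lit 211)) (XT.lf (nat_lit 0) (nat_lit 1645254564) (nat_lit 684) (nat_lit 8276539603) (nat_lit 760) (nat_lit 3376388336) (nat_lit 73) (nat_lit 5) (nat_lit 82) (nat_lit 5) (nat_lit 83) (nat_lit 5) (nat_lit 256) (nat_lit 254) (nat_lit 210))) (XT.nd (nat_lit 78) (nat_lit 0) (nat_lit 76) (XT.lf (nat_lit 76) (nat_lit 1051951039) (nat_lit 0) (nat_lit 1681229021) (nat_lit 760) (nat_lit 11085072429) (nat_lit 74) (nat_lit 5) (nat_lit 73) (nat_lit 5) (nat_lit 83) (nat_lit 5) (nat_lit 257) (nat_lit 254) (nat_lit 209)) (XT.lf (nat_lit 0) (nat_lit 4111896738) (nat_lit 684) (nat_lit 3105450136) (nat_lit 760) (nat_lit 7152574682) (nat_lit 74) (nat_lit 5) (nat_lit 83) (nat_lit 5) (nat_lit 84) (nat_lit 5)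 (nat_lit 258) (nat_lit 254) (nat_lit 208)))) (XT.nd (nat_lit 156) (nat_lit 912) (nat_lit 0) (XT.nd (nat_lit 78) (nat_lit 0) (nat_lit 0) (XT.lf (nat_lit 0) (nat_lit 5723261409) (nat_lit 684) (nat_lit 7486328430) (nat_lit 760) (nat_lit 1750184684) (nat_lit 75) (nat_lit 5) (nat_lit 84) (nat_lit 5) (nat_lit 85) (nat_lit 5) (nat_lit 259) (nat_lit 254) (nat_lit 207)) (XT.lf (nat_lit 76) (nat_lit 3362335711) (nat_lit 0) (nat_lit 4282455464) (nat_lit 760) (nat_lit 7943117224) (nat_lit 76) (nat_lit 5) (nat_lit 75) (nat_lit 5) (nat_lit 85) (nat_lit 5) (nat_lit 260) (nat_lit 254) (nat_lit 206))) (XT.nd (nat_lit 78) (nat_lit 988) (nat_lit 0) (XT.lf (nat_lit 0) (nat_lit 9891448050) (nat_lit 684) (nat_lit 1038348802) (nat_lit 76) (nat_lit 5328069851) (nat_lit 76) (nat_lit 5) (nat_lit 85) (nat_lit 5) (nat_lit 77) (nat_lit 5) (nat_lit 261) (nat_lit 254) (nat_lit 205)) (XT.nd (nat_lit 78) (nat_lit 304)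 (nat_lit 0) (XT.lf (nat_lit 0) (nat_lit 11297110849) (nat_lit 684) (nat_lit 1227828462) (nat_lit 760) (nat_lit 4446260557) (nat_lit 67) (nat_lit 5) (nat_lit 76) (nat_lit 5) (nat_lit 77) (nat_lit 5) (nat_lit 262) (nat_lit 254) (nat_lit 204)) (XT.lf (nat_lit 0) (nat_lit 6957059913) (nat_lit 304) (nat_lit 8644591148) (nat_lit 380) (nat_lit 2128444982) (nat_lit 63) (nat_lit 5) (nat_lit 67) (nat_lit 5) (nat_lit 68) (nat_lit 5) (nat_lit 263) (nat_lit 254) (nat_lit 203))))))) (XT.nd (nat_lit 702) (nat_lit 1368) (nat_lit 0) (XT.nd (nat_lit 312) (nat_lit 836) (nat_lit 0) (XT.nd (nat_lit 156) (nat_lit 608) (nat_lit 0) (XT.nd (nat_lit 78) (nat_lit 0) (nat_lit 0) (XT.lf (nat_lit 0) (nat_lit 509882529) (nat_lit 456) (nat_lit 16306953761) (nat_lit 76) (nat_lit 1725329749) (nat_lit 57) (nat_lit 5) (nat_lit 63) (nat_lit 5) (nat_lit 58) (nat_lit 5) (nat_lit 264) (nat_lit 254) (nat_lit 202)) (XT.lf (nat_lit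 0) (nat_lit 3587159203) (nat_lit 456) (nat_lit 2962426737) (nat_lit 76) (nat_lit 12852849174) (nat_lit 57) (nat_lit 5) (nat_lit 63) (nat_lit 5) (nat_lit 58) (nat_lit 5) (nat_lit 265) (nat_lit 254) (nat_lit 201))) (XT.nd (nat_lit 78) (nat_lit 304) (nat_lit 0) (XT.lf (nat_lit 0) (nat_lit 7136156375) (nat_lit 380) (nat_lit 8604762704) (nat_lit 76) (nat_lit 4579423023) (nat_lit 53) (nat_lit 5) (nat_lit 58) (nat_lit 5) (nat_lit 54) (nat_lit 5) (nat_lit 266) (nat_lit 254) (nat_lit 200)) (XT.lf (nat_lit 0) (nat_lit 6424771875) (nat_lit 304) (nat_lit 4776915957) (nat_lit 380) (nat_lit 10098449489) (nat_lit 49) (nat_lit 5) (nat_lit 53) (nat_lit 5) (nat_lit 54) (nat_lit 5) (nat_lit 267) (nat_lit 254) (nat_lit 199)))) (XT.nd (nat_lit 156) (nat_lit 608) (nat_lit 0) (XT.nd (nat_lit 78) (nat_lit 0) (nat_lit 0) (XT.lf (nat_lit 0) (nat_lit 481719982) (nat_lit 228) (nat_lit 15352016998) (nat_lit 304)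 (nat_lit 6512595412) (nat_lit 46) (nat_lit 5) (nat_lit 49) (nat_lit 5) (nat_lit 50) (nat_lit 5) (nat_lit 268) (nat_lit 254) (nat_lit 198)) (XT.lf (nat_lit 0) (nat_lit 17482766955) (nat_lit 228) (nat_lit 3664697021) (nat_lit 304) (nat_lit 2313277468) (nat_lit 46) (nat_lit 5) (nat_lit 49) (nat_lit 5) (nat_lit 50) (nat_lit 5) (nat_lit 269) (nat_lit 254) (nat_lit 197))) (XT.nd (nat_lit 78) (nat_lit 228) (nat_lit 0) (XT.lf (nat_lit 0) (nat_lit 2447685279) (nat_lit 380) (nat_lit 13316948429) (nat_lit 76) (nat_lit 8883159416) (nat_lit 41) (nat_lit 5) (nat_lit 46) (nat_lit 5) (nat_lit 42) (nat_lit 5) (nat_lit 270) (nat_lit 254) (nat_lit 196)) (XT.nd (nat_lit 78) (nat_lit 0) (nat_lit 0) (XT.lf (nat_lit 0) (nat_lit 4318006871) (nat_lit 228) (nat_lit 3402245094) (nat_lit 304) (nat_lit 18197132681) (nat_lit 38) (nat_lit 5) (nat_lit 41) (nat_lit 5) (nat_lit 42) (nat_lit 5) (nat_lit 271) (nat_lit 254)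 (nat_lit 195)) (XT.lf (nat_lit 0) (nat_lit 13782613520) (nat_lit 304) (nat_lit 3627467556) (nat_lit 76) (nat_lit 9860118934) (nat_lit 38) (nat_lit 5) (nat_lit 42) (nat_lit 5) (nat_lit 39) (nat_lit 5) (nat_lit 272) (nat_lit 254) (nat_lit 194)))))) (XT.nd (nat_lit 390) (nat_lit 532) (nat_lit 0) (XT.nd (nat_lit 156) (nat_lit 456) (nat_lit 0) (XT.nd (nat_lit 78) (nat_lit 152) (nat_lit 0) (XT.lf (nat_lit 0) (nat_lit 16215406383) (nat_lit 228) (nat_lit 4403686379) (nat_lit 304) (nat_lit 8097743255) (nat_lit 35) (nat_lit 5) (nat_lit 38) (nat_lit 5) (nat_lit 39) (nat_lit 5) (nat_lit 273) (nat_lit 254) (nat_lit 193)) (XT.lf (nat_lit 0) (nat_lit 7561491381) (nat_lit 152) (nat_lit 20753482589) (nat_lit 228) (nat_lit 1948652764) (nat_lit 33) (nat_lit 5) (nat_lit 35) (nat_lit 5) (nat_lit 36) (nat_lit 5) (nat_lit 274) (nat_lit 254) (nat_lit 192))) (XT.nd (nat_lit 78) (nat_lit 380) (nat_lit 0) (XT.lf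 (nat_lit 0) (nat_lit 4818145517) (nat_lit 228) (nat_lit 2426090464) (nat_lit 76) (nat_lit 24672505740) (nat_lit 32) (nat_lit 5) (nat_lit 35) (nat_lit 5) (nat_lit 33) (nat_lit 5) (nat_lit 275) (nat_lit 254) (nat_lit 191)) (XT.nd (nat_lit 78) (nat_lit 152) (nat_lit 0) (XT.lf (nat_lit 0) (nat_lit 12474124596) (nat_lit 304) (nat_lit 13750473236) (nat_lit 76) (nat_lit 7455144606) (nat_lit 29) (nat_lit 5) (nat_lit 33) (nat_lit 5) (nat_lit 30) (nat_lit 5) (nat_lit 276) (nat_lit 254) (nat_lit 190)) (XT.lf (nat_lit 0) (nat_lit 8708681162) (nat_lit 152) (nat_lit 12317652200) (nat_lit 228) (nat_lit 14543298579) (nat_lit 27) (nat_lit 5) (nat_lit 29) (nat_lit 5) (nat_lit 30) (nat_lit 5) (nat_lit 277) (nat_lit 254) (nat_lit 189))))) (XT.nd (nat_lit 156) (nat_lit 304) (nat_lit 0) (XT.nd (nat_lit 78) (nat_lit 228) (nat_lit 0) (XT.lf (nat_lit 0) (nat_lit 30531818613) (nat_lit 228) (nat_lit 4214120482)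 (nat_lit 76) (nat_lit 2851352129) (nat_lit 27) (nat_lit 5) (nat_lit 30) (nat_lit 5) (nat_lit 28) (nat_lit 5) (nat_lit 278) (nat_lit 254) (nat_lit 188)) (XT.lf (nat_lit 0) (nat_lit 1501840601) (nat_lit 228) (nat_lit 19110180473) (nat_lit 76) (nat_lit 19148202613) (nat_lit 24) (nat_lit 5) (nat_lit 27) (nat_lit 5) (nat_lit 25) (nat_lit 5) (nat_lit 279) (nat_lit 254) (nat_lit 187))) (XT.nd (nat_lit 78) (nat_lit 152) (nat_lit 0) (XT.lf (nat_lit 0) (nat_lit 5597581293) (nat_lit 152) (nat_lit 5059946197) (nat_lit 228) (nat_lit 31425372909) (nat_lit 22) (nat_lit 5) (nat_lit 24) (nat_lit 5) (nat_lit 25) (nat_lit 5) (nat_lit 280) (nat_lit 254) (nat_lit 186)) (XT.nd (nat_lit 78) (nat_lit 152) (nat_lit 0) (XT.lf (nat_lit 0) (nat_lit 21053105354) (nat_lit 228) (nat_lit 11821228274) (nat_lit 76) (nat_lit 11691711229) (nat_lit 22) (nat_lit 5) (nat_lit 25) (nat_lit 5) (nat_lit 23) (nat_lit 5) (nat_lit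 281) (nat_lit 254) (nat_lit 185)) (XT.lf (nat_lit 0) (nat_lit 15196525706) (nat_lit 152) (nat_lit 17393287172) (nat_lit 228) (nat_lit 14642577349) (nat_lit 20) (nat_lit 5) (nat_lit 22) (nat_lit 5) (nat_lit 23) (nat_lit 5) (nat_lit 282) (nat_lit 254) (nat_lit 184))))))))
noncomputable def xc78 : XT := (XT.nd (nat_lit 1404) (nat_lit 456) (nat_lit 0) (XT.nd (nat_lit 702) (nat_lit 304) (nat_lit 0) (XT.nd (nat_lit 312) (nat_lit 304) (nat_lit 0) (XT.nd (nat_lit 156) (nat_lit 152) (nat_lit 0) (XT.nd (nat_lit 78) (nat_lit 152) (nat_lit 0) (XT.lf (nat_lit 0) (nat_lit 44778196462) (nat_lit 152) (nat_lit 464745421) (nat_lit 228) (nat_lit 4859448883) (nat_lit 20) (nat_lit 5) (nat_lit 22) (nat_lit 5) (nat_lit 23) (nat_lit 5) (nat_lit 283) (nat_lit 254) (nat_lit 183)) (XT.lf (nat_lit 0) (nat_lit 6175395383) (nat_lit 152) (nat_lit 29274000092) (nat_lit 76) (nat_lit 17715575307) (nat_lit 18) (nat_lit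 5) (nat_lit 20) (nat_lit 5) (nat_lit 19) (nat_lit 5) (nat_lit 284) (nat_lit 254) (nat_lit 182))) (XT.nd (nat_lit 78) (nat_lit 152) (nat_lit 0) (XT.lf (nat_lit 0) (nat_lit 18015918947) (nat_lit 152) (nat_lit 943992563) (nat_lit 76) (nat_lit 37504023165) (nat_lit 18) (nat_lit 5) (nat_lit 20) (nat_lit 5) (nat_lit 19) (nat_lit 5) (nat_lit 285) (nat_lit 254) (nat_lit 181)) (XT.lf (nat_lit 0) (nat_lit 30615400817) (nat_lit 152) (nat_lit 655874121) (nat_lit 228) (nat_lit 28732177681) (nat_lit 16) (nat_lit 5) (nat_lit 18) (nat_lit 5) (nat_lit 19) (nat_lit 5) (nat_lit 286) (nat_lit 254) (nat_lit 180)))) (XT.nd (nat_lit 156) (nat_lit 228) (nat_lit 0) (XT.nd (nat_lit 78) (nat_lit 0) (nat_lit 0) (XT.lf (nat_lit 0) (nat_lit 612298106) (nat_lit 76) (nat_lit 45289452175) (nat_lit 152) (nat_lit 17908662425) (nat_lit 15) (nat_lit 5) (nat_lit 16) (nat_lit 5) (nat_lit 17) (nat_lit 4) (nat_lit 287) (nat_lit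 254) (nat_lit 179)) (XT.lf (nat_lit 0) (nat_lit 34034833575) (nat_lit 76) (nat_lit 28181142067) (nat_lit 152) (nat_lit 5680302477) (nat_lit 15) (nat_lit 5) (nat_lit 16) (nat_lit 5) (nat_lit 17) (nat_lit 4) (nat_lit 288) (nat_lit 254) (nat_lit 178))) (XT.nd (nat_lit 78) (nat_lit 152) (nat_lit 0) (XT.lf (nat_lit 0) (nat_lit 7276493296) (nat_lit 152) (nat_lit 2310337000) (nat_lit 76) (nat_lit 62716766747) (nat_lit 14) (nat_lit 5) (nat_lit 16) (nat_lit 5) (nat_lit 15) (nat_lit 5) (nat_lit 289) (nat_lit 254) (nat_lit 177)) (XT.nd (nat_lit 78) (nat_lit 0) (nat_lit 0) (XT.lf (nat_lit 0) (nat_lit 21749479375) (nat_lit 228) (nat_lit 44505455191) (nat_lit 76) (nat_lit 10769989616) (nat_lit 12) (nat_lit 5) (nat_lit 15) (nat_lit 5) (nat_lit 13) (nat_lit 4) (nat_lit 290) (nat_lit 254) (nat_lit 176)) (XT.lf (nat_lit 0) (nat_lit 37574900917) (nat_lit 228) (nat_lit 12079691346) (nat_lit 76) (nat_lit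 32459646079) (nat_lit 12) (nat_lit 5) (nat_lit 15) (nat_lit 5) (nat_lit 13) (nat_lit 4) (nat_lit 291) (nat_lit 254) (nat_lit 175)))))) (XT.nd (nat_lit 312) (nat_lit 76) (nat_lit 0) (XT.nd (nat_lit 156) (nat_lit 152) (nat_lit 0) (XT.nd (nat_lit 78) (nat_lit 0) (nat_lit 0) (XT.lf (nat_lit 0) (nat_lit 23685633162) (nat_lit 76) (nat_lit 31343152481) (nat_lit 152) (nat_lit 32563800401) (nat_lit 11) (nat_lit 5) (nat_lit 12) (nat_lit 5) (nat_lit 13) (nat_lit 4) (nat_lit 292) (nat_lit 254) (nat_lit 174)) (XT.lf (nat_lit 0) (nat_lit 62731503976) (nat_lit 76) (nat_lit 11350885849) (nat_lit 152) (nat_lit 19416650456) (nat_lit 11) (nat_lit 5) (nat_lit 12) (nat_lit 5) (nat_lit 13) (nat_lit 4) (nat_lit 293) (nat_lit 254) (nat_lit 173))) (XT.nd (nat_lit 78) (nat_lit 76) (nat_lit 0) (XT.lf (nat_lit 0) (nat_lit 5012156971) (nat_lit 76) (nat_lit 89879701107) (nat_lit 76) (nat_lit 4974582466) (nat_lit 10)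 (nat_lit 4) (nat_lit 11) (nat_lit 5) (nat_lit 11) (nat_lit 4) (nat_lit 294) (nat_lit 254) (nat_lit 172)) (XT.lf (nat_lit 0) (nat_lit 11012627556) (nat_lit 152) (nat_lit 62340677837) (nat_lit 76) (nat_lit 33345153577) (nat_lit 9) (nat_lit 5) (nat_lit 11) (nat_lit 5) (nat_lit 10) (nat_lit 4) (nat_lit 295) (nat_lit 254) (nat_lit 171)))) (XT.nd (nat_lit 156) (nat_lit 0) (nat_lit 0) (XT.nd (nat_lit 78) (nat_lit 76) (nat_lit 0) (XT.lf (nat_lit 0) (nat_lit 28100971096) (nat_lit 152) (nat_lit 27320171436) (nat_lit 76) (nat_lit 58652003637) (nat_lit 9) (nat_lit 5) (nat_lit 11) (nat_lit 5) (nat_lit 10) (nat_lit 4) (nat_lit 296) (nat_lit 254) (nat_lit 170)) (XT.lf (nat_lit 0) (nat_lit 10839358907) (nat_lit 76) (nat_lit 35880803981) (nat_lit 152) (nat_lit 75309462825) (nat_lit 8) (nat_lit 5) (nat_lit 9) (nat_lit 5) (nat_lit 10) (nat_lit 4) (nat_lit 297) (nat_lit 254) (nat_lit 169))) (XT.nd (nat_lit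 78) (nat_lit 0) (nat_lit 0) (XT.lf (nat_lit 0) (nat_lit 53018117199) (nat_lit 76) (nat_lit 14281481906) (nat_lit 152) (nat_lit 63299494993) (nat_lit 8) (nat_lit 5) (nat_lit 9) (nat_lit 5) (nat_lit 10) (nat_lit 4) (nat_lit 298) (nat_lit 254) (nat_lit 168)) (XT.nd (nat_lit 78) (nat_lit 0) (nat_lit 0) (XT.lf (nat_lit 0) (nat_lit 89661757173) (nat_lit 152) (nat_lit 41432815505) (nat_lit 0) (nat_lit 8752734422) (nat_lit 8) (nat_lit 5) (nat_lit 10) (nat_lit 4) (nat_lit 8) (nat_lit 4) (nat_lit 299) (nat_lit 254) (nat_lit 167)) (XT.lf (nat_lit 0) (nat_lit 114049196872) (nat_lit 152) (nat_lit 2641614586) (nat_lit 0) (nat_lit 33132755320) (nat_lit 8) (nat_lit 5) (nat_lit 10) (nat_lit 4) (nat_lit 8) (nat_lit 4) (nat_lit 300) (nat_lit 254) (nat_lit 166))))))) (XT.nd (nat_lit 702) (nat_lit 228) (nat_lit 0) (XT.nd (nat_lit 312) (nat_lit 76) (nat_lit 0) (XT.nd (nat_lit 156) (nat_lit 76) (nat_lit 0)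 (XT.nd (nat_lit 78) (nat_lit 0) (nat_lit 0) (XT.lf (nat_lit 0) (nat_lit 40543106192) (nat_lit 76) (nat_lit 100473347725) (nat_lit 76) (nat_lit 19550036913) (nat_lit 7) (nat_lit 4) (nat_lit 8) (nat_lit 5) (nat_lit 8) (nat_lit 4) (nat_lit 301) (nat_lit 254) (nat_lit 165)) (XT.lf (nat_lit 0) (nat_lit 87269849006) (nat_lit 76) (nat_lit 82913286598) (nat_lit 76) (nat_lit 1983615360) (nat_lit 7) (nat_lit 4) (nat_lit 8) (nat_lit 5) (nat_lit 8) (nat_lit 4) (nat_lit 302) (nat_lit 254) (nat_lit 164))) (XT.nd (nat_lit 78) (nat_lit 0) (nat_lit 0) (XT.lf (nat_lit 0) (nat_lit 16440652814) (nat_lit 152) (nat_lit 47232222252) (nat_lit 76) (nat_lit 121009086139) (nat_lit 6) (nat_lit 5) (nat_lit 8) (nat_lit 5) (nat_lit 7) (nat_lit 4) (nat_lit 303) (nat_lit 254) (nat_lit 163)) (XT.lf (nat_lit 0) (nat_lit 36266831269) (nat_lit 152) (nat_lit 6594009459) (nat_lit 76) (nat_lit 155336051929) (nat_lit 6) (nat_lit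 5) (nat_lit 8) (nat_lit 5) (nat_lit 7) (nat_lit 4) (nat_lit 304) (nat_lit 254) (nat_lit 162)))) (XT.nd (nat_lit 156) (nat_lit 0) (nat_lit 0) (XT.nd (nat_lit 78) (nat_lit 0) (nat_lit 0) (XT.lf (nat_lit 0) (nat_lit 38522485360) (nat_lit 76) (nat_lit 19754855143) (nat_lit 152) (nat_lit 154485769594) (nat_lit 5) (nat_lit 5) (nat_lit 6) (nat_lit 5) (nat_lit 7) (nat_lit 4) (nat_lit 305) (nat_lit 254) (nat_lit 161)) (XT.lf (nat_lit 0) (nat_lit 82243523890) (nat_lit 152) (nat_lit 141093779274) (nat_lit 0) (nat_lit 5147583151) (nat_lit 5) (nat_lit 5) (nat_lit 7) (nat_lit 4) (nat_lit 5) (nat_lit 4) (nat_lit 306) (nat_lit 254) (nat_lit 160))) (XT.nd (nat_lit 78) (nat_lit 0) (nat_lit 0) (XT.lf (nat_lit 0) (nat_lit 108457240578) (nat_lit 152) (nat_lit 105633477773) (nat_lit 0) (nat_lit 31357177173) (nat_lit 5) (nat_lit 5) (nat_lit 7) (nat_lit 4) (nat_lit 5) (nat_lit 4) (nat_lit 307) (nat_lit 254)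 (nat_lit 159)) (XT.nd (nat_lit 78) (nat_lit 0) (nat_lit 0) (XT.lf (nat_lit 0) (nat_lit 136765402461) (nat_lit 152) (nat_lit 67341156461) (nat_lit 0) (nat_lit 59661521773) (nat_lit 5) (nat_lit 5) (nat_lit 7) (nat_lit 4) (nat_lit 5) (nat_lit 4) (nat_lit 308) (nat_lit 254) (nat_lit 158)) (XT.lf (nat_lit 0) (nat_lit 167335761608) (nat_lit 152) (nat_lit 25989897880) (nat_lit 0) (nat_lit 90228346398) (nat_lit 5) (nat_lit 5) (nat_lit 7) (nat_lit 4) (nat_lit 5) (nat_lit 4) (nat_lit 309) (nat_lit 254) (nat_lit 157)))))) (XT.nd (nat_lit 390) (nat_lit 152) (nat_lit 0) (XT.nd (nat_lit 156) (nat_lit 0) (nat_lit 0) (XT.nd (nat_lit 78) (nat_lit 0) (nat_lit 0) (XT.lf (nat_lit 0) (nat_lit 19282502982) (nat_lit 76) (nat_lit 181368026632) (nat_lit 76) (nat_lit 104257338717) (nat_lit 4) (nat_lit 4) (nat_lit 5) (nat_lit 5) (nat_lit 5) (nat_lit 4) (nat_lit 310) (nat_lit 254) (nat_lit 156)) (XT.lf (nat_lit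 0) (nat_lit 69100846864) (nat_lit 76) (nat_lit 167980192580) (nat_lit 76) (nat_lit 90866474383) (nat_lit 4) (nat_lit 4) (nat_lit 5) (nat_lit 5) (nat_lit 5) (nat_lit 4) (nat_lit 311) (nat_lit 254) (nat_lit 155))) (XT.nd (nat_lit 78) (nat_lit 0) (nat_lit 0) (XT.lf (nat_lit 0) (nat_lit 122901010185) (nat_lit 76) (nat_lit 153522973518) (nat_lit 76) (nat_lit 76406449503) (nat_lit 4) (nat_lit 4) (nat_lit 5) (nat_lit 5) (nat_lit 5) (nat_lit 4) (nat_lit 312) (nat_lit 254) (nat_lit 154)) (XT.nd (nat_lit 78) (nat_lit 0) (nat_lit 0) (XT.lf (nat_lit 0) (nat_lit 181001808727) (nat_lit 76) (nat_lit 137910697035) (nat_lit 76) (nat_lit 60791575042) (nat_lit 4) (nat_lit 4) (nat_lit 5) (nat_lit 5) (nat_lit 5) (nat_lit 4) (nat_lit 313) (nat_lit 254) (nat_lit 153)) (XT.lf (nat_lit 0) (nat_lit 243747543517) (nat_lit 76) (nat_lit 121050845938) (nat_lit 76) (nat_lit 43929318409) (nat_lit 4) (nat_lit 4) (nat_lit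 5) (nat_lit 5) (nat_lit 5) (nat_lit 4) (nat_lit 314) (nat_lit 254) (nat_lit 152))))) (XT.nd (nat_lit 156) (nat_lit 152) (nat_lit 0) (XT.nd (nat_lit 78) (nat_lit 0) (nat_lit 0) (XT.lf (nat_lit 0) (nat_lit 311510041134) (nat_lit 76) (nat_lit 102843509998) (nat_lit 76) (nat_lit 25719755121) (nat_lit 4) (nat_lit 4) (nat_lit 5) (nat_lit 5) (nat_lit 5) (nat_lit 4) (nat_lit 315) (nat_lit 254) (nat_lit 151)) (XT.lf (nat_lit 0) (nat_lit 384690857117) (nat_lit 76) (nat_lit 83180793890) (nat_lit 76) (nat_lit 6054976654) (nat_lit 4) (nat_lit 4) (nat_lit 5) (nat_lit 5) (nat_lit 5) (nat_lit 4) (nat_lit 316) (nat_lit 254) (nat_lit 150))) (XT.nd (nat_lit 78) (nat_lit 76) (nat_lit 0) (XT.lf (nat_lit 0) (nat_lit 14695644632) (nat_lit 152) (nat_lit 47001655332) (nat_lit 76) (nat_lit 448779133078) (nat_lit 3) (nat_lit 5) (nat_lit 5) (nat_lit 5) (nat_lit 4) (nat_lit 4) (nat_lit 317) (nat_lit 254) (nat_lit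 149)) (XT.nd (nat_lit 78) (nat_lit 76) (nat_lit 0) (XT.lf (nat_lit 0) (nat_lit 36895728541) (nat_lit 152) (nat_lit 1493251458) (nat_lit 76) (nat_lit 511556203421) (nat_lit 3) (nat_lit 5) (nat_lit 5) (nat_lit 5) (nat_lit 4) (nat_lit 4) (nat_lit 318) (nat_lit 254) (nat_lit 148)) (XT.lf (nat_lit 0) (nat_lit 49229300729) (nat_lit 76) (nat_lit 12409934814) (nat_lit 152) (nat_lit 530893828535) (nat_lit 2) (nat_lit 5) (nat_lit 3) (nat_lit 5) (nat_lit 4) (nat_lit 4) (nat_lit 319) (nat_lit 254) (nat_lit 147))))))))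
noncomputable def xc79 : XT := (XT.nd (nat_lit 33696) (nat_lit 0) (nat_lit 988) (XT.nd (nat_lit 32994) (nat_lit 0) (nat_lit 3344) (XT.nd (nat_lit 32604) (nat_lit 0) (nat_lit 5396) (XT.nd (nat_lit 32448) (nat_lit 0) (nat_lit 5320) (XT.nd (nat_lit 78) (nat_lit 0) (nat_lit 0) (XT.lf (nat_lit 0) (nat_lit 88631811484) (nat_lit 152) (nat_lit 534710538585) (nat_lit 0) (nat_lit 15172146692) (nat_lit 2) (nat_lit 5) (nat_lit 4) (nat_lit 4) (nat_lit 2) (nat_lit 4) (nat_lit 320) (nat_lit 254) (nat_lit 146)) (XT.lf (nat_lit 0) (nat_lit 117991983027) (nat_lit 152) (nat_lit 525641071005) (nat_lit 0) (nat_lit 44530981466) (nat_lit 2) (nat_lit 5) (nat_lit 4) (nat_lit 4) (nat_lit 2) (nat_lit 4) (nat_lit 321) (nat_lit 254) (nat_lit 145))) (XT.nd (nat_lit 78) (nat_lit 0) (nat_lit 0) (XT.lf (nat_lit 0) (nat_lit 305988954) (nat_lit 0) (nat_lit 305988954) (nat_lit 684) (nat_lit 6027904959) (nat_lit 72) (nat_lit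 5) (nat_lit 72) (nat_lit 3) (nat_lit 81) (nat_lit 3) (nat_lit 255) (nat_lit 255) (nat_lit 210)) (XT.lf (nat_lit 0) (nat_lit 1958379706) (nat_lit 684) (nat_lit 3712801770) (nat_lit 760) (nat_lit 8103689089) (nat_lit 72) (nat_lit 5) (nat_lit 81) (nat_lit 3) (nat_lit 82) (nat_lit 5) (nat_lit 256) (nat_lit 255) (nat_lit 209)))) (XT.nd (nat_lit 156) (nat_lit 0) (nat_lit 76) (XT.nd (nat_lit 78) (nat_lit 0) (nat_lit 0) (XT.lf (nat_lit 0) (nat_lit 2853931108) (nat_lit 684) (nat_lit 8246147578) (nat_lit 760) (nat_lit 3204567753) (nat_lit 73) (nat_lit 5) (nat_lit 82) (nat_lit 5) (nat_lit 83) (nat_lit 5) (nat_lit 257) (nat_lit 255) (nat_lit 208)) (XT.lf (nat_lit 76) (nat_lit 1798526448) (nat_lit 0) (nat_lit 2160924478) (nat_lit 760) (nat_lit 10910605148) (nat_lit 74) (nat_lit 5) (nat_lit 73) (nat_lit 5) (nat_lit 83) (nat_lit 5) (nat_lit 258) (nat_lit 255) (nat_lit 207))) (XT.nd (nat_lit 78) (nat_lit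 0) (nat_lit 76) (XT.lf (nat_lit 0) (nat_lit 5368836410) (nat_lit 684) (nat_lit 2685862595) (nat_lit 760) (nat_lit 7415383739) (nat_lit 74) (nat_lit 5) (nat_lit 83) (nat_lit 5) (nat_lit 84) (nat_lit 5) (nat_lit 259) (nat_lit 255) (nat_lit 206)) (XT.nd (nat_lit 78) (nat_lit 0) (nat_lit 0) (XT.lf (nat_lit 0) (nat_lit 7046752290) (nat_lit 684) (nat_lit 7396378378) (nat_lit 760) (nat_lit 1667335855) (nat_lit 75) (nat_lit 5) (nat_lit 84) (nat_lit 5) (nat_lit 85) (nat_lit 5) (nat_lit 260) (nat_lit 255) (nat_lit 205)) (XT.lf (nat_lit 76) (nat_lit 4290242038) (nat_lit 0) (nat_lit 4777929240) (nat_lit 760) (nat_lit 7723579524) (nat_lit 76) (nat_lit 5) (nat_lit 75) (nat_lit 5) (nat_lit 85) (nat_lit 5) (nat_lit 261) (nat_lit 255) (nat_lit 204)))))) (XT.nd (nat_lit 312) (nat_lit 836) (nat_lit 0) (XT.nd (nat_lit 156) (nat_lit 760) (nat_lit 0) (XT.nd (nat_lit 78) (nat_lit 684) (nat_lit 0) (XT.lf (nat_lit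 0) (nat_lit 11432217566) (nat_lit 684) (nat_lit 469105055) (nat_lit 76) (nat_lit 5617292930) (nat_lit 76) (nat_lit 5) (nat_lit 85) (nat_lit 5) (nat_lit 77) (nat_lit 5) (nat_lit 262) (nat_lit 255) (nat_lit 203)) (XT.lf (nat_lit 0) (nat_lit 12824842698) (nat_lit 684) (nat_lit 1405772153) (nat_lit 760) (nat_lit 4060867537) (nat_lit 67) (nat_lit 5) (nat_lit 76) (nat_lit 5) (nat_lit 77) (nat_lit 5) (nat_lit 263) (nat_lit 255) (nat_lit 202))) (XT.nd (nat_lit 78) (nat_lit 456) (nat_lit 0) (XT.lf (nat_lit 0) (nat_lit 8147449064) (nat_lit 304) (nat_lit 9362633359) (nat_lit 380) (nat_lit 1603342035) (nat_lit 63) (nat_lit 5) (nat_lit 67) (nat_lit 5) (nat_lit 68) (nat_lit 5) (nat_lit 264) (nat_lit 255) (nat_lit 201)) (XT.lf (nat_lit 0) (nat_lit 1183704960) (nat_lit 456) (nat_lit 16948529522) (nat_lit 76) (nat_lit 1859832874) (nat_lit 57) (nat_lit 5) (nat_lit 63) (nat_lit 5) (nat_lit 58) (nat_lit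 5) (nat_lit 265) (nat_lit 255) (nat_lit 200)))) (XT.nd (nat_lit 156) (nat_lit 532) (nat_lit 0) (XT.nd (nat_lit 78) (nat_lit 304) (nat_lit 0) (XT.lf (nat_lit 0) (nat_lit 4460272521) (nat_lit 456) (nat_lit 2585550006) (nat_lit 76) (nat_lit 13877814835) (nat_lit 57) (nat_lit 5) (nat_lit 63) (nat_lit 5) (nat_lit 58) (nat_lit 5) (nat_lit 266) (nat_lit 255) (nat_lit 199)) (XT.lf (nat_lit 0) (nat_lit 8259490539) (nat_lit 380) (nat_lit 8677346897) (nat_lit 76) (nat_lit 4979949275) (nat_lit 53) (nat_lit 5) (nat_lit 58) (nat_lit 5) (nat_lit 54) (nat_lit 5) (nat_lit 267) (nat_lit 255) (nat_lit 198))) (XT.nd (nat_lit 78) (nat_lit 228) (nat_lit 0) (XT.lf (nat_lit 0) (nat_lit 7527788669) (nat_lit 304) (nat_lit 5090750727) (nat_lit 380) (nat_lit 10358128011) (nat_lit 49) (nat_lit 5) (nat_lit 53) (nat_lit 5) (nat_lit 54) (nat_lit 5) (nat_lit 268) (nat_lit 255) (nat_lit 197)) (XT.nd (nat_lit 78) (nat_lit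 0) (nat_lit 0) (XT.lf (nat_lit 0) (nat_lit 1108960204) (nat_lit 228) (nat_lit 16483799608) (nat_lit 304) (nat_lit 6515324948) (nat_lit 46) (nat_lit 5) (nat_lit 49) (nat_lit 5) (nat_lit 50) (nat_lit 5) (nat_lit 269) (nat_lit 255) (nat_lit 196)) (XT.lf (nat_lit 0) (nat_lit 19426483332) (nat_lit 228) (nat_lit 3868633199) (nat_lit 304) (nat_lit 2018452539) (nat_lit 46) (nat_lit 5) (nat_lit 49) (nat_lit 5) (nat_lit 50) (nat_lit 5) (nat_lit 270) (nat_lit 255) (nat_lit 195))))))) (XT.nd (nat_lit 702) (nat_lit 912) (nat_lit 0) (XT.nd (nat_lit 312) (nat_lit 608) (nat_lit 0) (XT.nd (nat_lit 156) (nat_lit 228) (nat_lit 0) (XT.nd (nat_lit 78) (nat_lit 228) (nat_lit 0) (XT.lf (nat_lit 0) (nat_lit 3083547293) (nat_lit 380) (nat_lit 13823601412) (nat_lit 76) (nat_lit 9689372991) (nat_lit 41) (nat_lit 5) (nat_lit 46) (nat_lit 5) (nat_lit 42) (nat_lit 5) (nat_lit 271) (nat_lit 255) (nat_lit 194)) (XT.lf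 (nat_lit 0) (nat_lit 5197869766) (nat_lit 228) (nat_lit 3555797291) (nat_lit 304) (nat_lit 19215307023) (nat_lit 38) (nat_lit 5) (nat_lit 41) (nat_lit 5) (nat_lit 42) (nat_lit 5) (nat_lit 272) (nat_lit 255) (nat_lit 193))) (XT.nd (nat_lit 78) (nat_lit 228) (nat_lit 0) (XT.lf (nat_lit 0) (nat_lit 15271932825) (nat_lit 304) (nat_lit 3404357945) (nat_lit 76) (nat_lit 10755253072) (nat_lit 38) (nat_lit 5) (nat_lit 42) (nat_lit 5) (nat_lit 39) (nat_lit 5) (nat_lit 273) (nat_lit 255) (nat_lit 192)) (XT.lf (nat_lit 0) (nat_lit 18003638213) (nat_lit 228) (nat_lit 4630712867) (nat_lit 304) (nat_lit 8360677998) (nat_lit 35) (nat_lit 5) (nat_lit 38) (nat_lit 5) (nat_lit 39) (nat_lit 5) (nat_lit 274) (nat_lit 255) (nat_lit 191)))) (XT.nd (nat_lit 156) (nat_lit 380) (nat_lit 0) (XT.nd (nat_lit 78) (nat_lit 76) (nat_lit 0) (XT.lf (nat_lit 0) (nat_lit 8652522403) (nat_lit 152) (nat_lit 22275689688)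 (nat_lit 228) (nat_lit 1738299739) (nat_lit 33) (nat_lit 5) (nat_lit 35) (nat_lit 5) (nat_lit 36) (nat_lit 5) (nat_lit 275) (nat_lit 255) (nat_lit 190)) (XT.lf (nat_lit 0) (nat_lit 5531859298) (nat_lit 228) (nat_lit 2158512293) (nat_lit 76) (nat_lit 26762588217) (nat_lit 32) (nat_lit 5) (nat_lit 35) (nat_lit 5) (nat_lit 33) (nat_lit 5) (nat_lit 276) (nat_lit 255) (nat_lit 189))) (XT.nd (nat_lit 78) (nat_lit 152) (nat_lit 0) (XT.lf (nat_lit 0) (nat_lit 13784937179) (nat_lit 304) (nat_lit 14394752906) (nat_lit 76) (nat_lit 8178131929) (nat_lit 29) (nat_lit 5) (nat_lit 33) (nat_lit 5) (nat_lit 30) (nat_lit 5) (nat_lit 277) (nat_lit 255) (nat_lit 188)) (XT.nd (nat_lit 78) (nat_lit 0) (nat_lit 0) (XT.lf (nat_lit 0) (nat_lit 9841327148) (nat_lit 152) (nat_lit 13163625433) (nat_lit 228) (nat_lit 15394817170) (nat_lit 27) (nat_lit 5) (nat_lit 29) (nat_lit 5) (nat_lit 30) (nat_lit 5) (nat_lit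 278) (nat_lit 255) (nat_lit 187)) (XT.lf (nat_lit 0) (nat_lit 33250928530) (nat_lit 228) (nat_lit 4135317523) (nat_lit 76) (nat_lit 3204438101) (nat_lit 27) (nat_lit 5) (nat_lit 30) (nat_lit 5) (nat_lit 28) (nat_lit 5) (nat_lit 279) (nat_lit 255) (nat_lit 186)))))) (XT.nd (nat_lit 390) (nat_lit 380) (nat_lit 0) (XT.nd (nat_lit 156) (nat_lit 152) (nat_lit 0) (XT.nd (nat_lit 78) (nat_lit 152) (nat_lit 0) (XT.lf (nat_lit 0) (nat_lit 1889081360) (nat_lit 228) (nat_lit 20231811199) (nat_lit 76) (nat_lit 20806298627) (nat_lit 24) (nat_lit 5) (nat_lit 27) (nat_lit 5) (nat_lit 25) (nat_lit 5) (nat_lit 280) (nat_lit 255) (nat_lit 185)) (XT.lf (nat_lit 0) (nat_lit 6434875801) (nat_lit 152) (nat_lit 5328643695) (nat_lit 228) (nat_lit 33672884445) (nat_lit 22) (nat_lit 5) (nat_lit 24) (nat_lit 5) (nat_lit 25) (nat_lit 5) (nat_lit 281) (nat_lit 255) (nat_lit 184))) (XT.nd (nat_lit 78) (nat_lit 152)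 (nat_lit 0) (XT.lf (nat_lit 0) (nat_lit 22973941450) (nat_lit 228) (nat_lit 12396100962) (nat_lit 76) (nat_lit 12749031651) (nat_lit 22) (nat_lit 5) (nat_lit 25) (nat_lit 5) (nat_lit 23) (nat_lit 5) (nat_lit 282) (nat_lit 255) (nat_lit 183)) (XT.nd (nat_lit 78) (nat_lit 0) (nat_lit 0) (XT.lf (nat_lit 0) (nat_lit 16766957709) (nat_lit 152) (nat_lit 18654640871) (nat_lit 228) (nat_lit 15577759314) (nat_lit 20) (nat_lit 5) (nat_lit 22) (nat_lit 5) (nat_lit 23) (nat_lit 5) (nat_lit 283) (nat_lit 255) (nat_lit 182)) (XT.lf (nat_lit 0) (nat_lit 48688887314) (nat_lit 152) (nat_lit 381453504) (nat_lit 228) (nat_lit 5029478661) (nat_lit 20) (nat_lit 5) (nat_lit 22) (nat_lit 5) (nat_lit 23) (nat_lit 5) (nat_lit 284) (nat_lit 255) (nat_lit 181))))) (XT.nd (nat_lit 156) (nat_lit 228) (nat_lit 0) (XT.nd (nat_lit 78) (nat_lit 0) (nat_lit 0) (XT.lf (nat_lit 0) (nat_lit 6872359464) (nat_lit 152) (nat_lit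 31286231514) (nat_lit 76) (nat_lit 19249109531) (nat_lit 18) (nat_lit 5) (nat_lit 20) (nat_lit 5) (nat_lit 19) (nat_lit 5) (nat_lit 285) (nat_lit 255) (nat_lit 180)) (XT.lf (nat_lit 0) (nat_lit 19645092880) (nat_lit 152) (nat_lit 714244759) (nat_lit 76) (nat_lit 40612019276) (nat_lit 18) (nat_lit 5) (nat_lit 20) (nat_lit 5) (nat_lit 19) (nat_lit 5) (nat_lit 286) (nat_lit 255) (nat_lit 179))) (XT.nd (nat_lit 78) (nat_lit 76) (nat_lit 0) (XT.lf (nat_lit 0) (nat_lit 33356633550) (nat_lit 152) (nat_lit 594884200) (nat_lit 228) (nat_lit 30843008564) (nat_lit 16) (nat_lit 5) (nat_lit 18) (nat_lit 5) (nat_lit 19) (nat_lit 5) (nat_lit 287) (nat_lit 255) (nat_lit 178)) (XT.nd (nat_lit 78) (nat_lit 0) (nat_lit 0) (XT.lf (nat_lit 0) (nat_lit 947700771) (nat_lit 76) (nat_lit 48797617112) (nat_lit 152) (nat_lit 19161101391) (nat_lit 15) (nat_lit 5) (nat_lit 16) (nat_lit 5) (nat_lit 17) (nat_lit 4)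 (nat_lit 288) (nat_lit 255) (nat_lit 177)) (XT.lf (nat_lit 0) (nat_lit 37022822870) (nat_lit 76) (nat_lit 30329160065) (nat_lit 152) (nat_lit 5967824797) (nat_lit 15) (nat_lit 5) (nat_lit 16) (nat_lit 5) (nat_lit 17) (nat_lit 4) (nat_lit 289) (nat_lit 255) (nat_lit 176))))))))
noncomputable def xc80 : XT := (XT.nd (nat_lit 1404) (nat_lit 228) (nat_lit 0) (XT.nd (nat_lit 702) (nat_lit 228) (nat_lit 0) (XT.nd (nat_lit 312) (nat_lit 228) (nat_lit 0) (XT.nd (nat_lit 156) (nat_lit 76) (nat_lit 0) (XT.nd (nat_lit 78) (nat_lit 152) (nat_lit 0) (XT.lf (nat_lit 0) (nat_lit 8008205330) (nat_lit 152) (nat_lit 2244451516) (nat_lit 76) (nat_lit 67827540064) (nat_lit 14) (nat_lit 5) (nat_lit 16) (nat_lit 5) (nat_lit 15) (nat_lit 5) (nat_lit 290) (nat_lit 255) (nat_lit 175)) (XT.lf (nat_lit 0) (nat_lit 23633216776) (nat_lit 228) (nat_lit 47820292387) (nat_lit 76) (nat_lit 11726027162) (nat_lit 12) (nat_lit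 5) (nat_lit 15) (nat_lit 5) (nat_lit 13) (nat_lit 4) (nat_lit 291) (nat_lit 255) (nat_lit 174))) (XT.nd (nat_lit 78) (nat_lit 76) (nat_lit 0) (XT.lf (nat_lit 0) (nat_lit 40714021741) (nat_lit 228) (nat_lit 12818659969) (nat_lit 76) (nat_lit 35143860706) (nat_lit 12) (nat_lit 5) (nat_lit 15) (nat_lit 5) (nat_lit 13) (nat_lit 4) (nat_lit 292) (nat_lit 255) (nat_lit 173)) (XT.lf (nat_lit 0) (nat_lit 25798007682) (nat_lit 76) (nat_lit 33759744331) (nat_lit 152) (nat_lit 35035742409) (nat_lit 11) (nat_lit 5) (nat_lit 12) (nat_lit 5) (nat_lit 13) (nat_lit 4) (nat_lit 293) (nat_lit 255) (nat_lit 172)))) (XT.nd (nat_lit 156) (nat_lit 152) (nat_lit 0) (XT.nd (nat_lit 78) (nat_lit 76) (nat_lit 0) (XT.lf (nat_lit 0) (nat_lit 67951435282) (nat_lit 76) (nat_lit 12174826765) (nat_lit 152) (nat_lit 20846684322) (nat_lit 11) (nat_lit 5) (nat_lit 12) (nat_lit 5) (nat_lit 13) (nat_lit 4) (nat_lit 294)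 (nat_lit 255) (nat_lit 171)) (XT.lf (nat_lit 0) (nat_lit 5610286657) (nat_lit 76) (nat_lit 96985808003) (nat_lit 76) (nat_lit 5253874988) (nat_lit 10) (nat_lit 4) (nat_lit 11) (nat_lit 5) (nat_lit 11) (nat_lit 4) (nat_lit 295) (nat_lit 255) (nat_lit 170))) (XT.nd (nat_lit 78) (nat_lit 76) (nat_lit 0) (XT.lf (nat_lit 0) (nat_lit 12000004207) (nat_lit 152) (nat_lit 67141737219) (nat_lit 76) (nat_lit 36087150945) (nat_lit 9) (nat_lit 5) (nat_lit 11) (nat_lit 5) (nat_lit 10) (nat_lit 4) (nat_lit 296) (nat_lit 255) (nat_lit 169)) (XT.nd (nat_lit 78) (nat_lit 76) (nat_lit 0) (XT.lf (nat_lit 0) (nat_lit 30447536235) (nat_lit 152) (nat_lit 29333382516) (nat_lit 76) (nat_lit 63413039004) (nat_lit 9) (nat_lit 5) (nat_lit 11) (nat_lit 5) (nat_lit 10) (nat_lit 4) (nat_lit 297) (nat_lit 255) (nat_lit 168)) (XT.lf (nat_lit 0) (nat_lit 11871417845) (nat_lit 76) (nat_lit 38680124869) (nat_lit 152) (nat_lit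 81235657554) (nat_lit 8) (nat_lit 5) (nat_lit 9) (nat_lit 5) (nat_lit 10) (nat_lit 4) (nat_lit 298) (nat_lit 255) (nat_lit 167)))))) (XT.nd (nat_lit 312) (nat_lit 152) (nat_lit 0) (XT.nd (nat_lit 156) (nat_lit 76) (nat_lit 0) (XT.nd (nat_lit 78) (nat_lit 0) (nat_lit 0) (XT.lf (nat_lit 0) (nat_lit 57412261228) (nat_lit 76) (nat_lit 15358126912) (nat_lit 152) (nat_lit 68272193206) (nat_lit 8) (nat_lit 5) (nat_lit 9) (nat_lit 5) (nat_lit 10) (nat_lit 4) (nat_lit 299) (nat_lit 255) (nat_lit 166)) (XT.lf (nat_lit 0) (nat_lit 96916039948) (nat_lit 152) (nat_lit 44602897725) (nat_lit 0) (nat_lit 9511995011) (nat_lit 8) (nat_lit 5) (nat_lit 10) (nat_lit 4) (nat_lit 8) (nat_lit 4) (nat_lit 300) (nat_lit 255) (nat_lit 165))) (XT.nd (nat_lit 78) (nat_lit 76) (nat_lit 0) (XT.lf (nat_lit 0) (nat_lit 123248449475) (nat_lit 152) (nat_lit 2719107622) (nat_lit 0) (nat_lit 35838044111) (nat_lit 8) (nat_lit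 5) (nat_lit 10) (nat_lit 4) (nat_lit 8) (nat_lit 4) (nat_lit 301) (nat_lit 255) (nat_lit 164)) (XT.lf (nat_lit 0) (nat_lit 43914574462) (nat_lit 76) (nat_lit 108454932343) (nat_lit 76) (nat_lit 21038637696) (nat_lit 7) (nat_lit 4) (nat_lit 8) (nat_lit 5) (nat_lit 8) (nat_lit 4) (nat_lit 302) (nat_lit 255) (nat_lit 163)))) (XT.nd (nat_lit 156) (nat_lit 76) (nat_lit 0) (XT.nd (nat_lit 78) (nat_lit 76) (nat_lit 0) (XT.lf (nat_lit 0) (nat_lit 94369973755) (nat_lit 76) (nat_lit 89494235451) (nat_lit 76) (nat_lit 2072487765) (nat_lit 7) (nat_lit 4) (nat_lit 8) (nat_lit 5) (nat_lit 8) (nat_lit 4) (nat_lit 303) (nat_lit 255) (nat_lit 162)) (XT.lf (nat_lit 0) (nat_lit 17818481196) (nat_lit 152) (nat_lit 50898910344) (nat_lit 76) (nat_lit 130735933438) (nat_lit 6) (nat_lit 5) (nat_lit 8) (nat_lit 5) (nat_lit 7) (nat_lit 4) (nat_lit 304) (nat_lit 255) (nat_lit 161))) (XT.nd (nat_lit 78) (nat_lit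 76) (nat_lit 0) (XT.lf (nat_lit 0) (nat_lit 39226118657) (nat_lit 152) (nat_lit 7017928653) (nat_lit 76) (nat_lit 167805640165) (nat_lit 6) (nat_lit 5) (nat_lit 8) (nat_lit 5) (nat_lit 7) (nat_lit 4) (nat_lit 305) (nat_lit 255) (nat_lit 160)) (XT.nd (nat_lit 78) (nat_lit 0) (nat_lit 0) (XT.lf (nat_lit 0) (nat_lit 41703383354) (nat_lit 76) (nat_lit 21291340574) (nat_lit 152) (nat_lit 166786620028) (nat_lit 5) (nat_lit 5) (nat_lit 6) (nat_lit 5) (nat_lit 7) (nat_lit 4) (nat_lit 306) (nat_lit 255) (nat_lit 159)) (XT.lf (nat_lit 0) (nat_lit 88874748054) (nat_lit 152) (nat_lit 152287551371) (nat_lit 0) (nat_lit 5598739628) (nat_lit 5) (nat_lit 5) (nat_lit 7) (nat_lit 4) (nat_lit 5) (nat_lit 4) (nat_lit 307) (nat_lit 255) (nat_lit 158))))))) (XT.nd (nat_lit 702) (nat_lit 152) (nat_lit 0) (XT.nd (nat_lit 312) (nat_lit 0) (nat_lit 0) (XT.nd (nat_lit 156) (nat_lit 76) (nat_lit 0) (XT.nd (nat_lit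 78) (nat_lit 0) (nat_lit 0) (XT.lf (nat_lit 0) (nat_lit 117181729318) (nat_lit 152) (nat_lit 113997368730) (nat_lit 0) (nat_lit 33902186370) (nat_lit 5) (nat_lit 5) (nat_lit 7) (nat_lit 4) (nat_lit 5) (nat_lit 4) (nat_lit 308) (nat_lit 255) (nat_lit 157)) (XT.lf (nat_lit 0) (nat_lit 147750995300) (nat_lit 152) (nat_lit 72648090400) (nat_lit 0) (nat_lit 64468179647) (nat_lit 5) (nat_lit 5) (nat_lit 7) (nat_lit 4) (nat_lit 5) (nat_lit 4) (nat_lit 309) (nat_lit 255) (nat_lit 156))) (XT.nd (nat_lit 78) (nat_lit 76) (nat_lit 0) (XT.lf (nat_lit 0) (nat_lit 180763697205) (nat_lit 152) (nat_lit 27994683620) (nat_lit 0) (nat_lit 97477851270) (nat_lit 5) (nat_lit 5) (nat_lit 7) (nat_lit 4) (nat_lit 5) (nat_lit 4) (nat_lit 310) (nat_lit 255) (nat_lit 155)) (XT.lf (nat_lit 0) (nat_lit 20896275713) (nat_lit 76) (nat_lit 195845439572) (nat_lit 76) (nat_lit 112556787820) (nat_lit 4) (nat_lit 4) (nat_lit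 5) (nat_lit 5) (nat_lit 5) (nat_lit 4) (nat_lit 311) (nat_lit 255) (nat_lit 154)))) (XT.nd (nat_lit 156) (nat_lit 0) (nat_lit 0) (XT.nd (nat_lit 78) (nat_lit 0) (nat_lit 0) (XT.lf (nat_lit 0) (nat_lit 74694815070) (nat_lit 76) (nat_lit 181388951329) (nat_lit 76) (nat_lit 98097701598) (nat_lit 4) (nat_lit 4) (nat_lit 5) (nat_lit 5) (nat_lit 5) (nat_lit 4) (nat_lit 312) (nat_lit 255) (nat_lit 153)) (XT.lf (nat_lit 0) (nat_lit 132794109941) (nat_lit 76) (nat_lit 165777351531) (nat_lit 76) (nat_lit 82483696264) (nat_lit 4) (nat_lit 4) (nat_lit 5) (nat_lit 5) (nat_lit 5) (nat_lit 4) (nat_lit 313) (nat_lit 255) (nat_lit 152))) (XT.nd (nat_lit 78) (nat_lit 0) (nat_lit 0) (XT.lf (nat_lit 0) (nat_lit 195538452444) (nat_lit 76) (nat_lit 148918126994) (nat_lit 76) (nat_lit 65622244379) (nat_lit 4) (nat_lit 4) (nat_lit 5) (nat_lit 5) (nat_lit 5) (nat_lit 4) (nat_lit 314) (nat_lit 255) (nat_lit 151))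 (XT.nd (nat_lit 78) (nat_lit 0) (nat_lit 0) (XT.lf (nat_lit 0) (nat_lit 263299660906) (nat_lit 76) (nat_lit 130711371202) (nat_lit 76) (nat_lit 47413426227) (nat_lit 4) (nat_lit 4) (nat_lit 5) (nat_lit 5) (nat_lit 5) (nat_lit 4) (nat_lit 315) (nat_lit 255) (nat_lit 150)) (XT.lf (nat_lit 0) (nat_lit 336479283227) (nat_lit 76) (nat_lit 111049192269) (nat_lit 76) (nat_lit 27749337702) (nat_lit 4) (nat_lit 4) (nat_lit 5) (nat_lit 5) (nat_lit 5) (nat_lit 4) (nat_lit 316) (nat_lit 255) (nat_lit 149)))))) (XT.nd (nat_lit 312) (nat_lit 0) (nat_lit 0) (XT.nd (nat_lit 156) (nat_lit 76) (nat_lit 0) (XT.nd (nat_lit 78) (nat_lit 76) (nat_lit 0) (XT.lf (nat_lit 0) (nat_lit 415510976430) (nat_lit 76) (nat_lit 89815073579) (nat_lit 76) (nat_lit 6513450872) (nat_lit 4) (nat_lit 4) (nat_lit 5) (nat_lit 5) (nat_lit 5) (nat_lit 4) (nat_lit 317) (nat_lit 255) (nat_lit 148)) (XT.lf (nat_lit 0) (nat_lit 15894531561)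 (nat_lit 152) (nat_lit 50719470173) (nat_lit 76) (nat_lit 484699363329) (nat_lit 3) (nat_lit 5) (nat_lit 5) (nat_lit 5) (nat_lit 4) (nat_lit 4) (nat_lit 318) (nat_lit 255) (nat_lit 147))) (XT.nd (nat_lit 78) (nat_lit 76) (nat_lit 0) (XT.lf (nat_lit 0) (nat_lit 39868901046) (nat_lit 152) (nat_lit 1573528624) (nat_lit 76) (nat_lit 552497273403) (nat_lit 3) (nat_lit 5) (nat_lit 5) (nat_lit 5) (nat_lit 4) (nat_lit 4) (nat_lit 319) (nat_lit 255) (nat_lit 146)) (XT.lf (nat_lit 0) (nat_lit 53205124894) (nat_lit 76) (nat_lit 13385755237) (nat_lit 152) (nat_lit 573343785907) (nat_lit 2) (nat_lit 5) (nat_lit 3) (nat_lit 5) (nat_lit 4) (nat_lit 4) (nat_lit 320) (nat_lit 255) (nat_lit 145)))) (XT.nd (nat_lit 32526) (nat_lit 0) (nat_lit 5320) (XT.nd (nat_lit 32448) (nat_lit 0) (nat_lit 5320) (XT.lf (nat_lit 0) (nat_lit 95741588590) (nat_lit 152) (nat_lit 577451957362) (nat_lit 0) (nat_lit 16401132387)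 (nat_lit 2) (nat_lit 5) (nat_lit 4) (nat_lit 4) (nat_lit 2) (nat_lit 4) (nat_lit 321) (nat_lit 255) (nat_lit 144)) (XT.lf (nat_lit 0) (nat_lit 601177559) (nat_lit 0) (nat_lit 601177559) (nat_lit 684) (nat_lit 5939878503) (nat_lit 72) (nat_lit 5) (nat_lit 72) (nat_lit 3) (nat_lit 81) (nat_lit 3) (nat_lit 256) (nat_lit 256) (nat_lit 208))) (XT.nd (nat_lit 78) (nat_lit 0) (nat_lit 76) (XT.lf (nat_lit 0) (nat_lit 3109850903) (nat_lit 684) (nat_lit 3447277952) (nat_lit 760) (nat_lit 8266715524) (nat_lit 72) (nat_lit 5) (nat_lit 81) (nat_lit 3) (nat_lit 82) (nat_lit 5) (nat_lit 257) (nat_lit 256) (nat_lit 207)) (XT.nd (nat_lit 78) (nat_lit 0) (nat_lit 0) (XT.lf (nat_lit 0) (nat_lit 4005647670) (nat_lit 684) (nat_lit 8312119226) (nat_lit 760) (nat_lit 3082048015) (nat_lit 73) (nat_lit 5) (nat_lit 82) (nat_lit 5) (nat_lit 83) (nat_lit 5) (nat_lit 258) (nat_lit 256) (nat_lit 206)) (XT.lf (nat_lit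 76) (nat_lit 2510326368) (nat_lit 0) (nat_lit 2629749340) (nat_lit 760) (nat_lit 10873582953) (nat_lit 74) (nat_lit 5) (nat_lit 73) (nat_lit 5) (nat_lit 83) (nat_lit 5) (nat_lit 259) (nat_lit 256) (nat_lit 205))))))))
noncomputable def xc81 : XT := (XT.nd (nat_lit 1404) (nat_lit 1672) (nat_lit 0) (XT.nd (nat_lit 702) (nat_lit 1596) (nat_lit 0) (XT.nd (nat_lit 312) (nat_lit 1064) (nat_lit 0) (XT.nd (nat_lit 156) (nat_lit 532) (nat_lit 0) (XT.nd (nat_lit 78) (nat_lit 0) (nat_lit 76) (XT.lf (nat_lit 0) (nat_lit 6593943401) (nat_lit 684) (nat_lit 2328009079) (nat_lit 760) (nat_lit 7743356450) (nat_lit 74) (nat_lit 5) (nat_lit 83) (nat_lit 5) (nat_lit 84) (nat_lit 5) (nat_lit 260) (nat_lit 256) (nat_lit 204)) (XT.lf (nat_lit 0) (nat_lit 8352630649) (nat_lit 684) (nat_lit 7397505377) (nat_lit 760) (nat_lit 1609653105) (nat_lit 75) (nat_lit 5) (nat_lit 84) (nat_lit 5) (nat_lit 85) (nat_lit 5)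 (nat_lit 261) (nat_lit 256) (nat_lit 203))) (XT.nd (nat_lit 78) (nat_lit 608) (nat_lit 0) (XT.lf (nat_lit 76) (nat_lit 5198378642) (nat_lit 0) (nat_lit 5291231257) (nat_lit 760) (nat_lit 7608452272) (nat_lit 76) (nat_lit 5) (nat_lit 75) (nat_lit 5) (nat_lit 85) (nat_lit 5) (nat_lit 262) (nat_lit 256) (nat_lit 202)) (XT.lf (nat_lit 0) (nat_lit 54358451) (nat_lit 684) (nat_lit 12935820934) (nat_lit 760) (nat_lit 5895691884) (nat_lit 67) (nat_lit 5) (nat_lit 76) (nat_lit 5) (nat_lit 77) (nat_lit 5) (nat_lit 263) (nat_lit 256) (nat_lit 201)))) (XT.nd (nat_lit 156) (nat_lit 760) (nat_lit 0) (XT.nd (nat_lit 78) (nat_lit 304) (nat_lit 0) (XT.lf (nat_lit 0) (nat_lit 14385777801) (nat_lit 684) (nat_lit 1586578759) (nat_lit 760) (nat_lit 3750368401) (nat_lit 67) (nat_lit 5) (nat_lit 76) (nat_lit 5) (nat_lit 77) (nat_lit 5) (nat_lit 264) (nat_lit 256) (nat_lit 200)) (XT.lf (nat_lit 0) (nat_lit 9342647217)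 (nat_lit 304) (nat_lit 10134342004) (nat_lit 380) (nat_lit 1135434376) (nat_lit 63) (nat_lit 5) (nat_lit 67) (nat_lit 5) (nat_lit 68) (nat_lit 5) (nat_lit 265) (nat_lit 256) (nat_lit 199))) (XT.nd (nat_lit 78) (nat_lit 304) (nat_lit 0) (XT.lf (nat_lit 0) (nat_lit 1821124118) (nat_lit 456) (nat_lit 17736012930) (nat_lit 76) (nat_lit 2005598881) (nat_lit 57) (nat_lit 5) (nat_lit 63) (nat_lit 5) (nat_lit 58) (nat_lit 5) (nat_lit 266) (nat_lit 256) (nat_lit 198)) (XT.nd (nat_lit 78) (nat_lit 304) (nat_lit 0) (XT.lf (nat_lit 0) (nat_lit 5319615398) (nat_lit 456) (nat_lit 2266098680) (nat_lit 76) (nat_lit 14985243148) (nat_lit 57) (nat_lit 5) (nat_lit 63) (nat_lit 5) (nat_lit 58) (nat_lit 5) (nat_lit 267) (nat_lit 256) (nat_lit 197)) (XT.lf (nat_lit 0) (nat_lit 9393879459) (nat_lit 380) (nat_lit 8843588127) (nat_lit 76) (nat_lit 5407642550) (nat_lit 53) (nat_lit 5) (nat_lit 58) (nat_lit 5)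 (nat_lit 54) (nat_lit 5) (nat_lit 268) (nat_lit 256) (nat_lit 196)))))) (XT.nd (nat_lit 312) (nat_lit 684) (nat_lit 0) (XT.nd (nat_lit 156) (nat_lit 380) (nat_lit 0) (XT.nd (nat_lit 78) (nat_lit 228) (nat_lit 0) (XT.lf (nat_lit 0) (nat_lit 8635014373) (nat_lit 304) (nat_lit 5439438678) (nat_lit 380) (nat_lit 10716787308) (nat_lit 49) (nat_lit 5) (nat_lit 53) (nat_lit 5) (nat_lit 54) (nat_lit 5) (nat_lit 269) (nat_lit 256) (nat_lit 195)) (XT.lf (nat_lit 0) (nat_lit 1702394633) (nat_lit 228) (nat_lit 17719874333) (nat_lit 304) (nat_lit 6592211013) (nat_lit 46) (nat_lit 5) (nat_lit 49) (nat_lit 5) (nat_lit 50) (nat_lit 5) (nat_lit 270) (nat_lit 256) (nat_lit 194))) (XT.nd (nat_lit 78) (nat_lit 380) (nat_lit 0) (XT.lf (nat_lit 0) (nat_lit 21447933121) (nat_lit 228) (nat_lit 4101615297) (nat_lit 304) (nat_lit 1768502880) (nat_lit 46) (nat_lit 5) (nat_lit 49) (nat_lit 5) (nat_lit 50) (nat_lit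 5) (nat_lit 271) (nat_lit 256) (nat_lit 193)) (XT.lf (nat_lit 0) (nat_lit 3707500617) (nat_lit 380) (nat_lit 14450491846) (nat_lit 76) (nat_lit 10546450833) (nat_lit 41) (nat_lit 5) (nat_lit 46) (nat_lit 5) (nat_lit 42) (nat_lit 5) (nat_lit 272) (nat_lit 256) (nat_lit 192)))) (XT.nd (nat_lit 156) (nat_lit 456) (nat_lit 0) (XT.nd (nat_lit 78) (nat_lit 0) (nat_lit 0) (XT.lf (nat_lit 0) (nat_lit 6071880370) (nat_lit 228) (nat_lit 3738557189) (nat_lit 304) (nat_lit 20377363313) (nat_lit 38) (nat_lit 5) (nat_lit 41) (nat_lit 5) (nat_lit 42) (nat_lit 5) (nat_lit 273) (nat_lit 256) (nat_lit 191)) (XT.lf (nat_lit 0) (nat_lit 16825229137) (nat_lit 304) (nat_lit 3236628550) (nat_lit 76) (nat_lit 11706829545) (nat_lit 38) (nat_lit 5) (nat_lit 42) (nat_lit 5) (nat_lit 39) (nat_lit 5) (nat_lit 274) (nat_lit 256) (nat_lit 190))) (XT.nd (nat_lit 78) (nat_lit 228) (nat_lit 0) (XT.lf (nat_lit 0) (nat_lit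 19864882046) (nat_lit 228) (nat_lit 4893772415) (nat_lit 304) (nat_lit 8699555629) (nat_lit 35) (nat_lit 5) (nat_lit 38) (nat_lit 5) (nat_lit 39) (nat_lit 5) (nat_lit 275) (nat_lit 256) (nat_lit 189)) (XT.nd (nat_lit 78) (nat_lit 76) (nat_lit 0) (XT.lf (nat_lit 0) (nat_lit 9761486636) (nat_lit 152) (nat_lit 23939370799) (nat_lit 228) (nat_lit 1563367450) (nat_lit 33) (nat_lit 5) (nat_lit 35) (nat_lit 5) (nat_lit 36) (nat_lit 5) (nat_lit 276) (nat_lit 256) (nat_lit 188)) (XT.lf (nat_lit 0) (nat_lit 6255839918) (nat_lit 228) (nat_lit 1935389601) (nat_lit 76) (nat_lit 29003288362) (nat_lit 32) (nat_lit 5) (nat_lit 35) (nat_lit 5) (nat_lit 33) (nat_lit 5) (nat_lit 277) (nat_lit 256) (nat_lit 187))))))) (XT.nd (nat_lit 702) (nat_lit 608) (nat_lit 0) (XT.nd (nat_lit 312) (nat_lit 456) (nat_lit 0) (XT.nd (nat_lit 156) (nat_lit 228) (nat_lit 0) (XT.nd (nat_lit 78) (nat_lit 152) (nat_lit 0) (XT.lf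 (nat_lit 0) (nat_lit 15155978565) (nat_lit 304) (nat_lit 15155593951) (nat_lit 76) (nat_lit 8940900791) (nat_lit 29) (nat_lit 5) (nat_lit 33) (nat_lit 5) (nat_lit 30) (nat_lit 5) (nat_lit 278) (nat_lit 256) (nat_lit 186)) (XT.lf (nat_lit 0) (nat_lit 11002391458) (nat_lit 152) (nat_lit 14097169048) (nat_lit 228) (nat_lit 16358959732) (nat_lit 27) (nat_lit 5) (nat_lit 29) (nat_lit 5) (nat_lit 30) (nat_lit 5) (nat_lit 279) (nat_lit 256) (nat_lit 185))) (XT.nd (nat_lit 78) (nat_lit 228) (nat_lit 0) (XT.lf (nat_lit 0) (nat_lit 36148112233) (nat_lit 228) (nat_lit 4109547762) (nat_lit 76) (nat_lit 3567941471) (nat_lit 27) (nat_lit 5) (nat_lit 30) (nat_lit 5) (nat_lit 28) (nat_lit 5) (nat_lit 280) (nat_lit 256) (nat_lit 184)) (XT.lf (nat_lit 0) (nat_lit 2269197506) (nat_lit 228) (nat_lit 21501261692) (nat_lit 76) (nat_lit 22579032802) (nat_lit 24) (nat_lit 5) (nat_lit 27) (nat_lit 5) (nat_lit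 25) (nat_lit 5) (nat_lit 281) (nat_lit 256) (nat_lit 183)))) (XT.nd (nat_lit 156) (nat_lit 304) (nat_lit 0) (XT.nd (nat_lit 78) (nat_lit 0) (nat_lit 0) (XT.lf (nat_lit 0) (nat_lit 7283589051) (nat_lit 152) (nat_lit 5638252923) (nat_lit 228) (nat_lit 36138218719) (nat_lit 22) (nat_lit 5) (nat_lit 24) (nat_lit 5) (nat_lit 25) (nat_lit 5) (nat_lit 282) (nat_lit 256) (nat_lit 182)) (XT.lf (nat_lit 0) (nat_lit 25014692558) (nat_lit 228) (nat_lit 13069865879) (nat_lit 76) (nat_lit 13873535393) (nat_lit 22) (nat_lit 5) (nat_lit 25) (nat_lit 5) (nat_lit 23) (nat_lit 5) (nat_lit 283) (nat_lit 256) (nat_lit 181))) (XT.nd (nat_lit 78) (nat_lit 152) (nat_lit 0) (XT.lf (nat_lit 0) (nat_lit 18412420933) (nat_lit 152) (nat_lit 20035464408) (nat_lit 228) (nat_lit 16621455862) (nat_lit 20) (nat_lit 5) (nat_lit 22) (nat_lit 5) (nat_lit 23) (nat_lit 5) (nat_lit 284) (nat_lit 256) (nat_lit 180)) (XT.nd (nat_lit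 78) (nat_lit 152) (nat_lit 0) (XT.lf (nat_lit 0) (nat_lit 52865578491) (nat_lit 152) (nat_lit 308684847) (nat_lit 228) (nat_lit 5244314550) (nat_lit 20) (nat_lit 5) (nat_lit 22) (nat_lit 5) (nat_lit 23) (nat_lit 5) (nat_lit 285) (nat_lit 256) (nat_lit 179)) (XT.lf (nat_lit 0) (nat_lit 7596130090) (nat_lit 152) (nat_lit 33506475213) (nat_lit 76) (nat_lit 20888736681) (nat_lit 18) (nat_lit 5) (nat_lit 20) (nat_lit 5) (nat_lit 19) (nat_lit 5) (nat_lit 286) (nat_lit 256) (nat_lit 178)))))) (XT.nd (nat_lit 390) (nat_lit 304) (nat_lit 0) (XT.nd (nat_lit 156) (nat_lit 152) (nat_lit 0) (XT.nd (nat_lit 78) (nat_lit 152) (nat_lit 0) (XT.lf (nat_lit 0) (nat_lit 21377794632) (nat_lit 152) (nat_lit 509666911) (nat_lit 76) (nat_lit 43953294140) (nat_lit 18) (nat_lit 5) (nat_lit 20) (nat_lit 5) (nat_lit 19) (nat_lit 5) (nat_lit 287) (nat_lit 256) (nat_lit 177)) (XT.lf (nat_lit 0) (nat_lit 36275507742)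 (nat_lit 152) (nat_lit 545201401) (nat_lit 228) (nat_lit 33149489602) (nat_lit 16) (nat_lit 5) (nat_lit 18) (nat_lit 5) (nat_lit 19) (nat_lit 5) (nat_lit 288) (nat_lit 256) (nat_lit 176))) (XT.nd (nat_lit 78) (nat_lit 76) (nat_lit 0) (XT.lf (nat_lit 0) (nat_lit 1269074804) (nat_lit 76) (nat_lit 52602840031) (nat_lit 152) (nat_lit 20539450726) (nat_lit 15) (nat_lit 5) (nat_lit 16) (nat_lit 5) (nat_lit 17) (nat_lit 4) (nat_lit 289) (nat_lit 256) (nat_lit 175)) (XT.nd (nat_lit 78) (nat_lit 76) (nat_lit 0) (XT.lf (nat_lit 0) (nat_lit 40212017191) (nat_lit 76) (nat_lit 32664209120) (nat_lit 152) (nat_lit 6302159321) (nat_lit 15) (nat_lit 5) (nat_lit 16) (nat_lit 5) (nat_lit 17) (nat_lit 4) (nat_lit 290) (nat_lit 256) (nat_lit 174)) (XT.lf (nat_lit 0) (nat_lit 8777113274) (nat_lit 152) (nat_lit 2209062126) (nat_lit 76) (nat_lit 73333846131) (nat_lit 14) (nat_lit 5) (nat_lit 16) (nat_lit 5)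 (nat_lit 15) (nat_lit 5) (nat_lit 291) (nat_lit 256) (nat_lit 173))))) (XT.nd (nat_lit 156) (nat_lit 152) (nat_lit 0) (XT.nd (nat_lit 78) (nat_lit 0) (nat_lit 0) (XT.lf (nat_lit 0) (nat_lit 25647141480) (nat_lit 228) (nat_lit 51435354034) (nat_lit 76) (nat_lit 12745075020) (nat_lit 12) (nat_lit 5) (nat_lit 15) (nat_lit 5) (nat_lit 13) (nat_lit 4) (nat_lit 292) (nat_lit 256) (nat_lit 172)) (XT.lf (nat_lit 0) (nat_lit 44085279926) (nat_lit 228) (nat_lit 13649188188) (nat_lit 76) (nat_lit 38030337790) (nat_lit 12) (nat_lit 5) (nat_lit 15) (nat_lit 5) (nat_lit 13) (nat_lit 4) (nat_lit 293) (nat_lit 256) (nat_lit 171))) (XT.nd (nat_lit 78) (nat_lit 76) (nat_lit 0) (XT.lf (nat_lit 0) (nat_lit 28048339952) (nat_lit 76) (nat_lit 36382625774) (nat_lit 152) (nat_lit 37724436829) (nat_lit 11) (nat_lit 5) (nat_lit 12) (nat_lit 5) (nat_lit 13) (nat_lit 4) (nat_lit 294) (nat_lit 256) (nat_lit 170))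 (XT.nd (nat_lit 78) (nat_lit 76) (nat_lit 0) (XT.lf (nat_lit 0) (nat_lit 73560227563) (nat_lit 76) (nat_lit 13076685033) (nat_lit 152) (nat_lit 22408710760) (nat_lit 11) (nat_lit 5) (nat_lit 12) (nat_lit 5) (nat_lit 13) (nat_lit 4) (nat_lit 295) (nat_lit 256) (nat_lit 169)) (XT.lf (nat_lit 0) (nat_lit 6228140049) (nat_lit 76) (nat_lit 104672425393) (nat_lit 76) (nat_lit 5572441096) (nat_lit 10) (nat_lit 4) (nat_lit 11) (nat_lit 5) (nat_lit 11) (nat_lit 4) (nat_lit 296) (nat_lit 256) (nat_lit 168))))))))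
noncomputable def xc82 : XT := (XT.nd (nat_lit 1404) (nat_lit 152) (nat_lit 0) (XT.nd (nat_lit 702) (nat_lit 152) (nat_lit 0) (XT.nd (nat_lit 312) (nat_lit 152) (nat_lit 0) (XT.nd (nat_lit 156) (nat_lit 76) (nat_lit 0) (XT.nd (nat_lit 78) (nat_lit 0) (nat_lit 0) (XT.lf (nat_lit 0) (nat_lit 13051196629) (nat_lit 152) (nat_lit 72353444127) (nat_lit 76) (nat_lit 39037896239) (nat_lit 9) (nat_lit 5) (nat_lit 11) (nat_lit 5) (nat_lit 10) (nat_lit 4) (nat_lit 297) (nat_lit 256) (nat_lit 167)) (XT.lf (nat_lit 0) (nat_lit 32967776249) (nat_lit 152) (nat_lit 31532245647) (nat_lit 76) (nat_lit 68545131400) (nat_lit 9) (nat_lit 5) (nat_lit 11) (nat_lit 5) (nat_lit 10) (nat_lit 4) (nat_lit 298) (nat_lit 256) (nat_lit 166))) (XT.nd (nat_lit 78) (nat_lit 0) (nat_lit 0) (XT.lf (nat_lit 0) (nat_lit 12962515211) (nat_lit 76) (nat_lit 41713540833) (nat_lit 152) (nat_lit 87650008875) (nat_lit 8) (nat_lit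 5) (nat_lit 9) (nat_lit 5) (nat_lit 10) (nat_lit 4) (nat_lit 299) (nat_lit 256) (nat_lit 165)) (XT.lf (nat_lit 0) (nat_lit 62136153181) (nat_lit 76) (nat_lit 16530301116) (nat_lit 152) (nat_lit 73655726734) (nat_lit 8) (nat_lit 5) (nat_lit 9) (nat_lit 5) (nat_lit 10) (nat_lit 4) (nat_lit 300) (nat_lit 256) (nat_lit 164)))) (XT.nd (nat_lit 156) (nat_lit 152) (nat_lit 0) (XT.nd (nat_lit 78) (nat_lit 0) (nat_lit 0) (XT.lf (nat_lit 0) (nat_lit 104739060971) (nat_lit 152) (nat_lit 48047207200) (nat_lit 0) (nat_lit 10323573469) (nat_lit 8) (nat_lit 5) (nat_lit 10) (nat_lit 4) (nat_lit 8) (nat_lit 4) (nat_lit 301) (nat_lit 256) (nat_lit 163)) (XT.lf (nat_lit 0) (nat_lit 133172897495) (nat_lit 152) (nat_lit 2821893322) (nat_lit 0) (nat_lit 38751956953) (nat_lit 8) (nat_lit 5) (nat_lit 10) (nat_lit 4) (nat_lit 8) (nat_lit 4) (nat_lit 302) (nat_lit 256) (nat_lit 162))) (XT.nd (nat_lit 78) (nat_lit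 76) (nat_lit 0) (XT.lf (nat_lit 0) (nat_lit 47537496742) (nat_lit 76) (nat_lit 117083073157) (nat_lit 76) (nat_lit 22657083504) (nat_lit 7) (nat_lit 4) (nat_lit 8) (nat_lit 5) (nat_lit 8) (nat_lit 4) (nat_lit 303) (nat_lit 256) (nat_lit 161)) (XT.nd (nat_lit 78) (nat_lit 76) (nat_lit 0) (XT.lf (nat_lit 0) (nat_lit 102021197880) (nat_lit 76) (nat_lit 96609094868) (nat_lit 76) (nat_lit 2178430112) (nat_lit 7) (nat_lit 4) (nat_lit 8) (nat_lit 5) (nat_lit 8) (nat_lit 4) (nat_lit 304) (nat_lit 256) (nat_lit 160)) (XT.lf (nat_lit 0) (nat_lit 19297608661) (nat_lit 152) (nat_lit 54874895798) (nat_lit 76) (nat_lit 141234348929) (nat_lit 6) (nat_lit 5) (nat_lit 8) (nat_lit 5) (nat_lit 7) (nat_lit 4) (nat_lit 305) (nat_lit 256) (nat_lit 159)))))) (XT.nd (nat_lit 312) (nat_lit 76) (nat_lit 0) (XT.nd (nat_lit 156) (nat_lit 0) (nat_lit 0) (XT.nd (nat_lit 78) (nat_lit 76) (nat_lit 0) (XT.lf (nat_lit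 0) (nat_lit 42413883121) (nat_lit 152) (nat_lit 7490541304) (nat_lit 76) (nat_lit 181266703245) (nat_lit 6) (nat_lit 5) (nat_lit 8) (nat_lit 5) (nat_lit 7) (nat_lit 4) (nat_lit 306) (nat_lit 256) (nat_lit 158)) (XT.lf (nat_lit 0) (nat_lit 45124615584) (nat_lit 76) (nat_lit 22957008091) (nat_lit 152) (nat_lit 180079814434) (nat_lit 5) (nat_lit 5) (nat_lit 6) (nat_lit 5) (nat_lit 7) (nat_lit 4) (nat_lit 307) (nat_lit 256) (nat_lit 157))) (XT.nd (nat_lit 78) (nat_lit 0) (nat_lit 0) (XT.lf (nat_lit 0) (nat_lit 96029088541) (nat_lit 152) (nat_lit 164390196902) (nat_lit 0) (nat_lit 6080374931) (nat_lit 5) (nat_lit 5) (nat_lit 7) (nat_lit 4) (nat_lit 5) (nat_lit 4) (nat_lit 308) (nat_lit 256) (nat_lit 156)) (XT.lf (nat_lit 0) (nat_lit 126597342332) (nat_lit 152) (nat_lit 123042752138) (nat_lit 0) (nat_lit 36645598440) (nat_lit 5) (nat_lit 5) (nat_lit 7) (nat_lit 4) (nat_lit 5) (nat_lit 4) (nat_lit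 309) (nat_lit 256) (nat_lit 155)))) (XT.nd (nat_lit 156) (nat_lit 76) (nat_lit 0) (XT.nd (nat_lit 78) (nat_lit 0) (nat_lit 0) (XT.lf (nat_lit 0) (nat_lit 159609107025) (nat_lit 152) (nat_lit 78391043103) (nat_lit 0) (nat_lit 69654557315) (nat_lit 5) (nat_lit 5) (nat_lit 7) (nat_lit 4) (nat_lit 5) (nat_lit 4) (nat_lit 310) (nat_lit 256) (nat_lit 154)) (XT.lf (nat_lit 0) (nat_lit 195260007890) (nat_lit 152) (nat_lit 30170467079) (nat_lit 0) (nat_lit 105302860201) (nat_lit 5) (nat_lit 5) (nat_lit 7) (nat_lit 4) (nat_lit 5) (nat_lit 4) (nat_lit 311) (nat_lit 256) (nat_lit 153))) (XT.nd (nat_lit 78) (nat_lit 0) (nat_lit 0) (XT.lf (nat_lit 0) (nat_lit 22628996711) (nat_lit 76) (nat_lit 211485614870) (nat_lit 76) (nat_lit 121526061645) (nat_lit 4) (nat_lit 4) (nat_lit 5) (nat_lit 5) (nat_lit 5) (nat_lit 4) (nat_lit 312) (nat_lit 256) (nat_lit 152)) (XT.nd (nat_lit 78) (nat_lit 0) (nat_lit 0)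 (XT.lf (nat_lit 0) (nat_lit 80726899295) (nat_lit 76) (nat_lit 195874641632) (nat_lit 76) (nat_lit 105912861059) (nat_lit 4) (nat_lit 4) (nat_lit 5) (nat_lit 5) (nat_lit 5) (nat_lit 4) (nat_lit 313) (nat_lit 256) (nat_lit 151)) (XT.lf (nat_lit 0) (nat_lit 143469952643) (nat_lit 76) (nat_lit 179015997243) (nat_lit 76) (nat_lit 89052154311) (nat_lit 4) (nat_lit 4) (nat_lit 5) (nat_lit 5) (nat_lit 5) (nat_lit 4) (nat_lit 314) (nat_lit 256) (nat_lit 150))))))) (XT.nd (nat_lit 33150) (nat_lit 0) (nat_lit 4180) (XT.nd (nat_lit 312) (nat_lit 152) (nat_lit 0) (XT.nd (nat_lit 156) (nat_lit 0) (nat_lit 0) (XT.nd (nat_lit 78) (nat_lit 0) (nat_lit 0) (XT.lf (nat_lit 0) (nat_lit 211229967443) (nat_lit 76) (nat_lit 160809778625) (nat_lit 76) (nat_lit 70844026101) (nat_lit 4) (nat_lit 4) (nat_lit 5) (nat_lit 5) (nat_lit 5) (nat_lit 4) (nat_lit 315) (nat_lit 256) (nat_lit 149)) (XT.lf (nat_lit 0) (nat_lit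 284408484522) (nat_lit 76) (nat_lit 141148097075) (nat_lit 76) (nat_lit 51180576411) (nat_lit 4) (nat_lit 4) (nat_lit 5) (nat_lit 5) (nat_lit 5) (nat_lit 4) (nat_lit 316) (nat_lit 256) (nat_lit 148))) (XT.nd (nat_lit 78) (nat_lit 0) (nat_lit 0) (XT.lf (nat_lit 0) (nat_lit 363439154351) (nat_lit 76) (nat_lit 119914438926) (nat_lit 76) (nat_lit 29945281094) (nat_lit 4) (nat_lit 4) (nat_lit 5) (nat_lit 5) (nat_lit 5) (nat_lit 4) (nat_lit 317) (nat_lit 256) (nat_lit 147)) (XT.lf (nat_lit 0) (nat_lit 448790306828) (nat_lit 76) (nat_lit 96982975090) (nat_lit 76) (nat_lit 7012301363) (nat_lit 4) (nat_lit 4) (nat_lit 5) (nat_lit 5) (nat_lit 5) (nat_lit 4) (nat_lit 318) (nat_lit 256) (nat_lit 146)))) (XT.nd (nat_lit 156) (nat_lit 76) (nat_lit 0) (XT.nd (nat_lit 78) (nat_lit 0) (nat_lit 0) (XT.lf (nat_lit 0) (nat_lit 17186014661) (nat_lit 152) (nat_lit 54740747278) (nat_lit 76) (nat_lit 523490658421)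 (nat_lit 3) (nat_lit 5) (nat_lit 5) (nat_lit 5) (nat_lit 4) (nat_lit 4) (nat_lit 319) (nat_lit 256) (nat_lit 145)) (XT.lf (nat_lit 0) (nat_lit 43076858107) (nat_lit 152) (nat_lit 1665817850) (nat_lit 76) (nat_lit 596711264559) (nat_lit 3) (nat_lit 5) (nat_lit 5) (nat_lit 5) (nat_lit 4) (nat_lit 4) (nat_lit 320) (nat_lit 256) (nat_lit 144))) (XT.nd (nat_lit 32526) (nat_lit 0) (nat_lit 5320) (XT.lf (nat_lit 0) (nat_lit 57493668036) (nat_lit 76) (nat_lit 14442062877) (nat_lit 152) (nat_lit 619192814062) (nat_lit 2) (nat_lit 5) (nat_lit 3) (nat_lit 5) (nat_lit 4) (nat_lit 4) (nat_lit 321) (nat_lit 256) (nat_lit 143)) (XT.nd (nat_lit 78) (nat_lit 0) (nat_lit 0) (XT.lf (nat_lit 0) (nat_lit 881361517) (nat_lit 0) (nat_lit 881361517) (nat_lit 684) (nat_lit 5926163731) (nat_lit 72) (nat_lit 5) (nat_lit 72) (nat_lit 3) (nat_lit 81) (nat_lit 3) (nat_lit 257) (nat_lit 257) (nat_lit 206)) (XT.lf (nat_lit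 0) (nat_lit 4211520337) (nat_lit 684) (nat_lit 3240765984) (nat_lit 760) (nat_lit 8512013077) (nat_lit 72) (nat_lit 5) (nat_lit 81) (nat_lit 3) (nat_lit 82) (nat_lit 5) (nat_lit 258) (nat_lit 257) (nat_lit 205)))))) (XT.nd (nat_lit 390) (nat_lit 1216) (nat_lit 0) (XT.nd (nat_lit 156) (nat_lit 0) (nat_lit 76) (XT.nd (nat_lit 78) (nat_lit 0) (nat_lit 0) (XT.lf (nat_lit 0) (nat_lit 5117767928) (nat_lit 684) (nat_lit 8468069424) (nat_lit 760) (nat_lit 3003778901) (nat_lit 73) (nat_lit 5) (nat_lit 82) (nat_lit 5) (nat_lit 83) (nat_lit 5) (nat_lit 259) (nat_lit 257) (nat_lit 204)) (XT.lf (nat_lit 76) (nat_lit 3198050458) (nat_lit 0) (nat_lit 3093859487) (nat_lit 760) (nat_lit 10963402196) (nat_lit 74) (nat_lit 5) (nat_lit 73) (nat_lit 5) (nat_lit 83) (nat_lit 5) (nat_lit 260) (nat_lit 257) (nat_lit 203))) (XT.nd (nat_lit 78) (nat_lit 0) (nat_lit 76) (XT.lf (nat_lit 0) (nat_lit 7803557707) (nat_lit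 684) (nat_lit 2023232553) (nat_lit 760) (nat_lit 8135408996) (nat_lit 74) (nat_lit 5) (nat_lit 83) (nat_lit 5) (nat_lit 84) (nat_lit 5) (nat_lit 261) (nat_lit 257) (nat_lit 202)) (XT.nd (nat_lit 78) (nat_lit 0) (nat_lit 0) (XT.lf (nat_lit 0) (nat_lit 9657104969) (nat_lit 684) (nat_lit 7482975843) (nat_lit 760) (nat_lit 1574613953) (nat_lit 75) (nat_lit 5) (nat_lit 84) (nat_lit 5) (nat_lit 85) (nat_lit 5) (nat_lit 262) (nat_lit 257) (nat_lit 201)) (XT.lf (nat_lit 76) (nat_lit 6098574415) (nat_lit 0) (nat_lit 5826899166) (nat_lit 760) (nat_lit 7588687428) (nat_lit 76) (nat_lit 5) (nat_lit 75) (nat_lit 5) (nat_lit 85) (nat_lit 5) (nat_lit 263) (nat_lit 257) (nat_lit 200))))) (XT.nd (nat_lit 156) (nat_lit 760) (nat_lit 0) (XT.nd (nat_lit 78) (nat_lit 0) (nat_lit 0) (XT.lf (nat_lit 0) (nat_lit 554029059) (nat_lit 684) (nat_lit 14033968862) (nat_lit 760) (nat_lit 5779043032) (nat_lit 67) (nat_lit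 5) (nat_lit 76) (nat_lit 5) (nat_lit 77) (nat_lit 5) (nat_lit 264) (nat_lit 257) (nat_lit 199)) (XT.lf (nat_lit 0) (nat_lit 15995271443) (nat_lit 684) (nat_lit 1772099739) (nat_lit 760) (nat_lit 3505671759) (nat_lit 67) (nat_lit 5) (nat_lit 76) (nat_lit 5) (nat_lit 77) (nat_lit 5) (nat_lit 265) (nat_lit 257) (nat_lit 198))) (XT.nd (nat_lit 78) (nat_lit 456) (nat_lit 0) (XT.lf (nat_lit 0) (nat_lit 10555938819) (nat_lit 304) (nat_lit 10964549220) (nat_lit 380) (nat_lit 715145136) (nat_lit 63) (nat_lit 5) (nat_lit 67) (nat_lit 5) (nat_lit 68) (nat_lit 5) (nat_lit 266) (nat_lit 257) (nat_lit 197)) (XT.nd (nat_lit 78) (nat_lit 0) (nat_lit 0) (XT.lf (nat_lit 0) (nat_lit 2432111340) (nat_lit 456) (nat_lit 18667583477) (nat_lit 76) (nat_lit 2163457094) (nat_lit 57) (nat_lit 5) (nat_lit 63) (nat_lit 5) (nat_lit 58) (nat_lit 5) (nat_lit 267) (nat_lit 257) (nat_lit 196)) (XT.lf (nat_lit 0) (nat_lit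 6176015456) (nat_lit 456) (nat_lit 1996173159) (nat_lit 76) (nat_lit 16181664732) (nat_lit 57) (nat_lit 5) (nat_lit 63) (nat_lit 5) (nat_lit 58) (nat_lit 5) (nat_lit 268) (nat_lit 257) (nat_lit 195))))))))
noncomputable def xc83 : XT := (XT.nd (nat_lit 1404) (nat_lit 988) (nat_lit 0) (XT.nd (nat_lit 702) (nat_lit 988) (nat_lit 0) (XT.nd (nat_lit 312) (nat_lit 988) (nat_lit 0) (XT.nd (nat_lit 156) (nat_lit 228) (nat_lit 0) (XT.nd (nat_lit 78) (nat_lit 304) (nat_lit 0) (XT.lf (nat_lit 0) (nat_lit 10551450923) (nat_lit 380) (nat_lit 9098446128) (nat_lit 76) (nat_lit 5865371695) (nat_lit 53) (nat_lit 5) (nat_lit 58) (nat_lit 5) (nat_lit 54) (nat_lit 5) (nat_lit 269) (nat_lit 257) (nat_lit 194)) (XT.lf (nat_lit 0) (nat_lit 9758773864) (nat_lit 304) (nat_lit 5824377631) (nat_lit 380) (nat_lit 11171188812) (nat_lit 49) (nat_lit 5) (nat_lit 53) (nat_lit 5) (nat_lit 54) (nat_lit 5) (nat_lit 270)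 (nat_lit 257) (nat_lit 193))) (XT.nd (nat_lit 78) (nat_lit 0) (nat_lit 0) (XT.lf (nat_lit 0) (nat_lit 2271300205) (nat_lit 228) (nat_lit 19066623022) (nat_lit 304) (nat_lit 6738638021) (nat_lit 46) (nat_lit 5) (nat_lit 49) (nat_lit 5) (nat_lit 50) (nat_lit 5) (nat_lit 271) (nat_lit 257) (nat_lit 192)) (XT.lf (nat_lit 0) (nat_lit 23564428884) (nat_lit 228) (nat_lit 4364150763) (nat_lit 304) (nat_lit 1557251746) (nat_lit 46) (nat_lit 5) (nat_lit 49) (nat_lit 5) (nat_lit 50) (nat_lit 5) (nat_lit 272) (nat_lit 257) (nat_lit 191)))) (XT.nd (nat_lit 156) (nat_lit 380) (nat_lit 0) (XT.nd (nat_lit 78) (nat_lit 228) (nat_lit 0) (XT.lf (nat_lit 0) (nat_lit 4327548489) (nat_lit 380) (nat_lit 15195867889) (nat_lit 76) (nat_lit 11460406957) (nat_lit 41) (nat_lit 5) (nat_lit 46) (nat_lit 5) (nat_lit 42) (nat_lit 5) (nat_lit 273) (nat_lit 257) (nat_lit 190)) (XT.lf (nat_lit 0) (nat_lit 6950447178) (nat_lit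 228) (nat_lit 3950447076) (nat_lit 304) (nat_lit 21685906055) (nat_lit 38) (nat_lit 5) (nat_lit 41) (nat_lit 5) (nat_lit 42) (nat_lit 5) (nat_lit 274) (nat_lit 257) (nat_lit 189))) (XT.nd (nat_lit 78) (nat_lit 380) (nat_lit 0) (XT.lf (nat_lit 0) (nat_lit 18455491026) (nat_lit 304) (nat_lit 3118262853) (nat_lit 76) (nat_lit 12721527681) (nat_lit 38) (nat_lit 5) (nat_lit 42) (nat_lit 5) (nat_lit 39) (nat_lit 5) (nat_lit 275) (nat_lit 257) (nat_lit 188)) (XT.nd (nat_lit 78) (nat_lit 152) (nat_lit 0) (XT.lf (nat_lit 0) (nat_lit 21814971766) (nat_lit 228) (nat_lit 5193198179) (nat_lit 304) (nat_lit 9112618322) (nat_lit 35) (nat_lit 5) (nat_lit 38) (nat_lit 5) (nat_lit 39) (nat_lit 5) (nat_lit 276) (nat_lit 257) (nat_lit 187)) (XT.lf (nat_lit 0) (nat_lit 10899712186) (nat_lit 152) (nat_lit 25753033782) (nat_lit 228) (nat_lit 1419235657) (nat_lit 33) (nat_lit 5) (nat_lit 35) (nat_lit 5) (nat_lit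 36) (nat_lit 5) (nat_lit 277) (nat_lit 257) (nat_lit 186)))))) (XT.nd (nat_lit 312) (nat_lit 532) (nat_lit 0) (XT.nd (nat_lit 156) (nat_lit 152) (nat_lit 0) (XT.nd (nat_lit 78) (nat_lit 228) (nat_lit 0) (XT.lf (nat_lit 0) (nat_lit 6997589584) (nat_lit 228) (nat_lit 1750882912) (nat_lit 76) (nat_lit 31409022185) (nat_lit 32) (nat_lit 5) (nat_lit 35) (nat_lit 5) (nat_lit 33) (nat_lit 5) (nat_lit 278) (nat_lit 257) (nat_lit 185)) (XT.lf (nat_lit 0) (nat_lit 16598434913) (nat_lit 304) (nat_lit 16033045593) (nat_lit 76) (nat_lit 9749209813) (nat_lit 29) (nat_lit 5) (nat_lit 33) (nat_lit 5) (nat_lit 30) (nat_lit 5) (nat_lit 279) (nat_lit 257) (nat_lit 184))) (XT.nd (nat_lit 78) (nat_lit 0) (nat_lit 0) (XT.lf (nat_lit 0) (nat_lit 12203020137) (nat_lit 152) (nat_lit 15122450786) (nat_lit 228) (nat_lit 17438387406) (nat_lit 27) (nat_lit 5) (nat_lit 29) (nat_lit 5) (nat_lit 30) (nat_lit 5) (nat_lit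 280) (nat_lit 257) (nat_lit 183)) (XT.lf (nat_lit 0) (nat_lit 39243244323) (nat_lit 228) (nat_lit 4132588707) (nat_lit 76) (nat_lit 3945239204) (nat_lit 27) (nat_lit 5) (nat_lit 30) (nat_lit 5) (nat_lit 28) (nat_lit 5) (nat_lit 281) (nat_lit 257) (nat_lit 182)))) (XT.nd (nat_lit 156) (nat_lit 152) (nat_lit 0) (XT.nd (nat_lit 78) (nat_lit 152) (nat_lit 0) (XT.lf (nat_lit 0) (nat_lit 2647055011) (nat_lit 228) (nat_lit 22922070444) (nat_lit 76) (nat_lit 24478145452) (nat_lit 24) (nat_lit 5) (nat_lit 27) (nat_lit 5) (nat_lit 25) (nat_lit 5) (nat_lit 282) (nat_lit 257) (nat_lit 181)) (XT.lf (nat_lit 0) (nat_lit 8152561485) (nat_lit 152) (nat_lit 5989276919) (nat_lit 228) (nat_lit 38833377312) (nat_lit 22) (nat_lit 5) (nat_lit 24) (nat_lit 5) (nat_lit 25) (nat_lit 5) (nat_lit 283) (nat_lit 257) (nat_lit 180))) (XT.nd (nat_lit 78) (nat_lit 152) (nat_lit 0) (XT.lf (nat_lit 0) (nat_lit 27189766961)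 (nat_lit 228) (nat_lit 13842887282) (nat_lit 76) (nat_lit 15073079755) (nat_lit 22) (nat_lit 5) (nat_lit 25) (nat_lit 5) (nat_lit 23) (nat_lit 5) (nat_lit 284) (nat_lit 257) (nat_lit 179)) (XT.nd (nat_lit 78) (nat_lit 0) (nat_lit 0) (XT.lf (nat_lit 0) (nat_lit 20146137007) (nat_lit 152) (nat_lit 21542667359) (nat_lit 228) (nat_lit 17777540475) (nat_lit 20) (nat_lit 5) (nat_lit 22) (nat_lit 5) (nat_lit 23) (nat_lit 5) (nat_lit 285) (nat_lit 257) (nat_lit 178)) (XT.lf (nat_lit 0) (nat_lit 57336234400) (nat_lit 152) (nat_lit 244829448) (nat_lit 228) (nat_lit 5503089476) (nat_lit 20) (nat_lit 5) (nat_lit 22) (nat_lit 5) (nat_lit 23) (nat_lit 5) (nat_lit 286) (nat_lit 257) (nat_lit 177))))))) (XT.nd (nat_lit 702) (nat_lit 304) (nat_lit 0) (XT.nd (nat_lit 312) (nat_lit 304) (nat_lit 0) (XT.nd (nat_lit 156) (nat_lit 228) (nat_lit 0) (XT.nd (nat_lit 78) (nat_lit 0) (nat_lit 0) (XT.lf (nat_lit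 0) (nat_lit 8352981906) (nat_lit 152) (nat_lit 35944662278) (nat_lit 76) (nat_lit 22645310913) (nat_lit 18) (nat_lit 5) (nat_lit 20) (nat_lit 5) (nat_lit 19) (nat_lit 5) (nat_lit 287) (nat_lit 257) (nat_lit 176)) (XT.lf (nat_lit 0) (nat_lit 23226130619) (nat_lit 152) (nat_lit 326059753) (nat_lit 76) (nat_lit 47548701465) (nat_lit 18) (nat_lit 5) (nat_lit 20) (nat_lit 5) (nat_lit 19) (nat_lit 5) (nat_lit 288) (nat_lit 257) (nat_lit 175))) (XT.nd (nat_lit 78) (nat_lit 76) (nat_lit 0) (XT.lf (nat_lit 0) (nat_lit 39392177570) (nat_lit 152) (nat_lit 505421135) (nat_lit 228) (nat_lit 35663451817) (nat_lit 16) (nat_lit 5) (nat_lit 18) (nat_lit 5) (nat_lit 19) (nat_lit 5) (nat_lit 289) (nat_lit 257) (nat_lit 174)) (XT.lf (nat_lit 0) (nat_lit 1581127170) (nat_lit 76) (nat_lit 56726545242) (nat_lit 152) (nat_lit 22050114691) (nat_lit 15) (nat_lit 5) (nat_lit 16) (nat_lit 5) (nat_lit 17) (nat_lit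 4) (nat_lit 290) (nat_lit 257) (nat_lit 173)))) (XT.nd (nat_lit 156) (nat_lit 228) (nat_lit 0) (XT.nd (nat_lit 78) (nat_lit 76) (nat_lit 0) (XT.lf (nat_lit 0) (nat_lit 43623910401) (nat_lit 76) (nat_lit 35199084746) (nat_lit 152) (nat_lit 6683654204) (nat_lit 15) (nat_lit 5) (nat_lit 16) (nat_lit 5) (nat_lit 17) (nat_lit 4) (nat_lit 291) (nat_lit 257) (nat_lit 172)) (XT.lf (nat_lit 0) (nat_lit 9589237341) (nat_lit 152) (nat_lit 2201505966) (nat_lit 76) (nat_lit 79269229115) (nat_lit 14) (nat_lit 5) (nat_lit 16) (nat_lit 5) (nat_lit 15) (nat_lit 5) (nat_lit 292) (nat_lit 257) (nat_lit 171))) (XT.nd (nat_lit 78) (nat_lit 76) (nat_lit 0) (XT.lf (nat_lit 0) (nat_lit 27804594693) (nat_lit 228) (nat_lit 55369659599) (nat_lit 76) (nat_lit 13834096048) (nat_lit 12) (nat_lit 5) (nat_lit 15) (nat_lit 5) (nat_lit 13) (nat_lit 4) (nat_lit 293) (nat_lit 257) (nat_lit 170)) (XT.nd (nat_lit 78) (nat_lit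 76) (nat_lit 0) (XT.lf (nat_lit 0) (nat_lit 47709955927) (nat_lit 228) (nat_lit 14573972542) (nat_lit 76) (nat_lit 41137037985) (nat_lit 12) (nat_lit 5) (nat_lit 15) (nat_lit 5) (nat_lit 13) (nat_lit 4) (nat_lit 294) (nat_lit 257) (nat_lit 169)) (XT.lf (nat_lit 0) (nat_lit 30452093685) (nat_lit 76) (nat_lit 39226450768) (nat_lit 152) (nat_lit 40644513713) (nat_lit 11) (nat_lit 5) (nat_lit 12) (nat_lit 5) (nat_lit 13) (nat_lit 4) (nat_lit 295) (nat_lit 257) (nat_lit 168)))))) (XT.nd (nat_lit 390) (nat_lit 76) (nat_lit 0) (XT.nd (nat_lit 156) (nat_lit 152) (nat_lit 0) (XT.nd (nat_lit 78) (nat_lit 76) (nat_lit 0) (XT.lf (nat_lit 0) (nat_lit 79593088857) (nat_lit 76) (nat_lit 14060981810) (nat_lit 152) (nat_lit 24110779785) (nat_lit 11) (nat_lit 5) (nat_lit 12) (nat_lit 5) (nat_lit 13) (nat_lit 4) (nat_lit 296) (nat_lit 257) (nat_lit 167)) (XT.lf (nat_lit 0) (nat_lit 6871307627) (nat_lit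 76) (nat_lit 112984279052) (nat_lit 76) (nat_lit 5931007396) (nat_lit 10) (nat_lit 4) (nat_lit 11) (nat_lit 5) (nat_lit 11) (nat_lit 4) (nat_lit 297) (nat_lit 257) (nat_lit 166))) (XT.nd (nat_lit 78) (nat_lit 76) (nat_lit 0) (XT.lf (nat_lit 0) (nat_lit 14173474873) (nat_lit 152) (nat_lit 78004860888) (nat_lit 76) (nat_lit 42215603193) (nat_lit 9) (nat_lit 5) (nat_lit 11) (nat_lit 5) (nat_lit 10) (nat_lit 4) (nat_lit 298) (nat_lit 257) (nat_lit 165)) (XT.nd (nat_lit 78) (nat_lit 76) (nat_lit 0) (XT.lf (nat_lit 0) (nat_lit 35677589566) (nat_lit 152) (nat_lit 33928104216) (nat_lit 76) (nat_lit 74079367149) (nat_lit 9) (nat_lit 5) (nat_lit 11) (nat_lit 5) (nat_lit 10) (nat_lit 4) (nat_lit 299) (nat_lit 257) (nat_lit 164)) (XT.lf (nat_lit 0) (nat_lit 14120730367) (nat_lit 76) (nat_lit 44998331555) (nat_lit 152) (nat_lit 94589563355) (nat_lit 8) (nat_lit 5) (nat_lit 9) (nat_lit 5) (nat_lit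 10) (nat_lit 4) (nat_lit 300) (nat_lit 257) (nat_lit 163))))) (XT.nd (nat_lit 156) (nat_lit 76) (nat_lit 0) (XT.nd (nat_lit 78) (nat_lit 0) (nat_lit 0) (XT.lf (nat_lit 0) (nat_lit 67219280564) (nat_lit 76) (nat_lit 17804306182) (nat_lit 152) (nat_lit 79481105029) (nat_lit 8) (nat_lit 5) (nat_lit 9) (nat_lit 5) (nat_lit 10) (nat_lit 4) (nat_lit 301) (nat_lit 257) (nat_lit 162)) (XT.lf (nat_lit 0) (nat_lit 113177974795) (nat_lit 152) (nat_lit 51784740341) (nat_lit 0) (nat_lit 11192856858) (nat_lit 8) (nat_lit 5) (nat_lit 10) (nat_lit 4) (nat_lit 8) (nat_lit 4) (nat_lit 302) (nat_lit 257) (nat_lit 161))) (XT.nd (nat_lit 78) (nat_lit 76) (nat_lit 0) (XT.lf (nat_lit 0) (nat_lit 143882089430) (nat_lit 152) (nat_lit 2949271237) (nat_lit 0) (nat_lit 41892296390) (nat_lit 8) (nat_lit 5) (nat_lit 10) (nat_lit 4) (nat_lit 8) (nat_lit 4) (nat_lit 303) (nat_lit 257) (nat_lit 160)) (XT.nd (nat_lit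 78) (nat_lit 0) (nat_lit 0) (XT.lf (nat_lit 0) (nat_lit 51434594838) (nat_lit 76) (nat_lit 126408349177) (nat_lit 76) (nat_lit 24414227338) (nat_lit 7) (nat_lit 4) (nat_lit 8) (nat_lit 5) (nat_lit 8) (nat_lit 4) (nat_lit 304) (nat_lit 257) (nat_lit 159)) (XT.lf (nat_lit 0) (nat_lit 110270021819) (nat_lit 76) (nat_lit 104299517057) (nat_lit 76) (nat_lit 2301387071) (nat_lit 7) (nat_lit 4) (nat_lit 8) (nat_lit 5) (nat_lit 8) (nat_lit 4) (nat_lit 305) (nat_lit 257) (nat_lit 158))))))))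
noncomputable def xc84 : XT := (XT.nd (nat_lit 33930) (nat_lit 0) (nat_lit 2280) (XT.nd (nat_lit 702) (nat_lit 76) (nat_lit 0) (XT.nd (nat_lit 312) (nat_lit 76) (nat_lit 0) (XT.nd (nat_lit 156) (nat_lit 76) (nat_lit 0) (XT.nd (nat_lit 78) (nat_lit 0) (nat_lit 0) (XT.lf (nat_lit 0) (nat_lit 20887412698) (nat_lit 152) (nat_lit 59182645201) (nat_lit 76) (nat_lit 152566996720) (nat_lit 6) (nat_lit 5) (nat_lit 8) (nat_lit 5) (nat_lit 7) (nat_lit 4) (nat_lit 306) (nat_lit 257) (nat_lit 157)) (XT.lf (nat_lit 0) (nat_lit 45849582052) (nat_lit 152) (nat_lit 8013634366) (nat_lit 76) (nat_lit 195799428279) (nat_lit 6) (nat_lit 5) (nat_lit 8) (nat_lit 5) (nat_lit 7) (nat_lit 4) (nat_lit 307) (nat_lit 257) (nat_lit 156))) (XT.nd (nat_lit 78) (nat_lit 0) (nat_lit 0) (XT.lf (nat_lit 0) (nat_lit 48807425675) (nat_lit 76) (nat_lit 24761298737) (nat_lit 152) (nat_lit 194443559674) (nat_lit 5) (nat_lit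 5) (nat_lit 6) (nat_lit 5) (nat_lit 7) (nat_lit 4) (nat_lit 308) (nat_lit 257) (nat_lit 155)) (XT.lf (nat_lit 0) (nat_lit 103749447725) (nat_lit 152) (nat_lit 177472518126) (nat_lit 0) (nat_lit 6595728221) (nat_lit 5) (nat_lit 5) (nat_lit 7) (nat_lit 4) (nat_lit 5) (nat_lit 4) (nat_lit 309) (nat_lit 257) (nat_lit 154)))) (XT.nd (nat_lit 156) (nat_lit 76) (nat_lit 0) (XT.nd (nat_lit 78) (nat_lit 0) (nat_lit 0) (XT.lf (nat_lit 0) (nat_lit 136760344627) (nat_lit 152) (nat_lit 132822381079) (nat_lit 0) (nat_lit 39604027145) (nat_lit 5) (nat_lit 5) (nat_lit 7) (nat_lit 4) (nat_lit 5) (nat_lit 4) (nat_lit 310) (nat_lit 257) (nat_lit 153)) (XT.lf (nat_lit 0) (nat_lit 172410441983) (nat_lit 152) (nat_lit 84603260598) (nat_lit 0) (nat_lit 75251718965) (nat_lit 5) (nat_lit 5) (nat_lit 7) (nat_lit 4) (nat_lit 5) (nat_lit 4) (nat_lit 311) (nat_lit 257) (nat_lit 152))) (XT.nd (nat_lit 78) (nat_lit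 76) (nat_lit 0) (XT.lf (nat_lit 0) (nat_lit 210910999628) (nat_lit 152) (nat_lit 32529413748) (nat_lit 0) (nat_lit 113750049262) (nat_lit 5) (nat_lit 5) (nat_lit 7) (nat_lit 4) (nat_lit 5) (nat_lit 4) (nat_lit 312) (nat_lit 257) (nat_lit 151)) (XT.nd (nat_lit 78) (nat_lit 0) (nat_lit 0) (XT.lf (nat_lit 0) (nat_lit 24491630355) (nat_lit 76) (nat_lit 228380921648) (nat_lit 76) (nat_lit 131217908923) (nat_lit 4) (nat_lit 4) (nat_lit 5) (nat_lit 5) (nat_lit 5) (nat_lit 4) (nat_lit 313) (nat_lit 257) (nat_lit 150)) (XT.lf (nat_lit 0) (nat_lit 87233490041) (nat_lit 76) (nat_lit 211522814434) (nat_lit 76) (nat_lit 114357892116) (nat_lit 4) (nat_lit 4) (nat_lit 5) (nat_lit 5) (nat_lit 5) (nat_lit 4) (nat_lit 314) (nat_lit 257) (nat_lit 149)))))) (XT.nd (nat_lit 312) (nat_lit 76) (nat_lit 0) (XT.nd (nat_lit 156) (nat_lit 0) (nat_lit 0) (XT.nd (nat_lit 78) (nat_lit 0) (nat_lit 0) (XT.lf (nat_lit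 0) (nat_lit 154992399598) (nat_lit 76) (nat_lit 193317093199) (nat_lit 76) (nat_lit 96150402741) (nat_lit 4) (nat_lit 4) (nat_lit 5) (nat_lit 5) (nat_lit 5) (nat_lit 4) (nat_lit 315) (nat_lit 257) (nat_lit 148)) (XT.lf (nat_lit 0) (nat_lit 228169893304) (nat_lit 76) (nat_lit 173655872190) (nat_lit 76) (nat_lit 76487544564) (nat_lit 4) (nat_lit 4) (nat_lit 5) (nat_lit 5) (nat_lit 5) (nat_lit 4) (nat_lit 316) (nat_lit 257) (nat_lit 147))) (XT.nd (nat_lit 78) (nat_lit 0) (nat_lit 0) (XT.lf (nat_lit 0) (nat_lit 307199615567) (nat_lit 76) (nat_lit 152422640466) (nat_lit 76) (nat_lit 55252796945) (nat_lit 4) (nat_lit 4) (nat_lit 5) (nat_lit 5) (nat_lit 5) (nat_lit 4) (nat_lit 317) (nat_lit 257) (nat_lit 146)) (XT.lf (nat_lit 0) (nat_lit 392549890666) (nat_lit 76) (nat_lit 129491571470) (nat_lit 76) (nat_lit 32320324342) (nat_lit 4) (nat_lit 4) (nat_lit 5) (nat_lit 5) (nat_lit 5) (nat_lit 4)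 (nat_lit 318) (nat_lit 257) (nat_lit 145)))) (XT.nd (nat_lit 156) (nat_lit 0) (nat_lit 0) (XT.nd (nat_lit 78) (nat_lit 76) (nat_lit 0) (XT.lf (nat_lit 0) (nat_lit 484726498009) (nat_lit 76) (nat_lit 104726777385) (nat_lit 76) (nat_lit 7554230621) (nat_lit 4) (nat_lit 4) (nat_lit 5) (nat_lit 5) (nat_lit 5) (nat_lit 4) (nat_lit 319) (nat_lit 257) (nat_lit 144)) (XT.lf (nat_lit 0) (nat_lit 18577974516) (nat_lit 152) (nat_lit 59088902371) (nat_lit 76) (nat_lit 565383067839) (nat_lit 3) (nat_lit 5) (nat_lit 5) (nat_lit 5) (nat_lit 4) (nat_lit 4) (nat_lit 320) (nat_lit 257) (nat_lit 143))) (XT.nd (nat_lit 32604) (nat_lit 0) (nat_lit 5244) (XT.lf (nat_lit 0) (nat_lit 46538820350) (nat_lit 152) (nat_lit 1770282641) (nat_lit 76) (nat_lit 644460347894) (nat_lit 3) (nat_lit 5) (nat_lit 5) (nat_lit 5) (nat_lit 4) (nat_lit 4) (nat_lit 321) (nat_lit 257) (nat_lit 142)) (XT.nd (nat_lit 78) (nat_lit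 0) (nat_lit 0) (XT.lf (nat_lit 0) (nat_lit 1150849994) (nat_lit 0) (nat_lit 1150849994) (nat_lit 684) (nat_lit 5981099549) (nat_lit 72) (nat_lit 5) (nat_lit 72) (nat_lit 3) (nat_lit 81) (nat_lit 3) (nat_lit 258) (nat_lit 258) (nat_lit 204)) (XT.lf (nat_lit 0) (nat_lit 5279650264) (nat_lit 684) (nat_lit 3086537719) (nat_lit 760) (nat_lit 8836287147) (nat_lit 72) (nat_lit 5) (nat_lit 81) (nat_lit 3) (nat_lit 82) (nat_lit 5) (nat_lit 259) (nat_lit 258) (nat_lit 203))))))) (XT.nd (nat_lit 702) (nat_lit 1824) (nat_lit 0) (XT.nd (nat_lit 312) (nat_lit 1216) (nat_lit 0) (XT.nd (nat_lit 156) (nat_lit 0) (nat_lit 76) (XT.nd (nat_lit 78) (nat_lit 0) (nat_lit 0) (XT.lf (nat_lit 0) (nat_lit 6205917452) (nat_lit 684) (nat_lit 8709112937) (nat_lit 760) (nat_lit 2965589310) (nat_lit 73) (nat_lit 5) (nat_lit 82) (nat_lit 5) (nat_lit 83) (nat_lit 5) (nat_lit 260) (nat_lit 258) (nat_lit 202)) (XT.lf (nat_lit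 76) (nat_lit 3871331034) (nat_lit 0) (nat_lit 3558900996) (nat_lit 760) (nat_lit 11171692314) (nat_lit 74) (nat_lit 5) (nat_lit 73) (nat_lit 5) (nat_lit 83) (nat_lit 5) (nat_lit 261) (nat_lit 258) (nat_lit 201))) (XT.nd (nat_lit 78) (nat_lit 0) (nat_lit 76) (XT.lf (nat_lit 0) (nat_lit 9012632132) (nat_lit 684) (nat_lit 1764123005) (nat_lit 760) (nat_lit 8591269175) (nat_lit 74) (nat_lit 5) (nat_lit 83) (nat_lit 5) (nat_lit 84) (nat_lit 5) (nat_lit 262) (nat_lit 258) (nat_lit 200)) (XT.lf (nat_lit 0) (nat_lit 10975167080) (nat_lit 684) (nat_lit 7647517577) (nat_lit 760) (nat_lit 1560141195) (nat_lit 75) (nat_lit 5) (nat_lit 84) (nat_lit 5) (nat_lit 85) (nat_lit 5) (nat_lit 263) (nat_lit 258) (nat_lit 199)))) (XT.nd (nat_lit 156) (nat_lit 760) (nat_lit 0) (XT.nd (nat_lit 78) (nat_lit 608) (nat_lit 0) (XT.lf (nat_lit 76) (nat_lit 7001691405) (nat_lit 0) (nat_lit 6389389755) (nat_lit 760)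 (nat_lit 7656995534) (nat_lit 76) (nat_lit 5) (nat_lit 75) (nat_lit 5) (nat_lit 85) (nat_lit 5) (nat_lit 264) (nat_lit 258) (nat_lit 198)) (XT.lf (nat_lit 0) (nat_lit 1023010105) (nat_lit 684) (nat_lit 15210940704) (nat_lit 760) (nat_lit 5736990444) (nat_lit 67) (nat_lit 5) (nat_lit 76) (nat_lit 5) (nat_lit 77) (nat_lit 5) (nat_lit 265) (nat_lit 258) (nat_lit 197))) (XT.nd (nat_lit 78) (nat_lit 760) (nat_lit 0) (XT.lf (nat_lit 0) (nat_lit 17668095678) (nat_lit 684) (nat_lit 1964103212) (nat_lit 760) (nat_lit 3319110656) (nat_lit 67) (nat_lit 5) (nat_lit 76) (nat_lit 5) (nat_lit 77) (nat_lit 5) (nat_lit 266) (nat_lit 258) (nat_lit 196)) (XT.nd (nat_lit 78) (nat_lit 456) (nat_lit 0) (XT.lf (nat_lit 0) (nat_lit 11799830784) (nat_lit 304) (nat_lit 11858396848) (nat_lit 380) (nat_lit 334150308) (nat_lit 63) (nat_lit 5) (nat_lit 67) (nat_lit 5) (nat_lit 68) (nat_lit 5) (nat_lit 267) (nat_lit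 258) (nat_lit 195)) (XT.lf (nat_lit 0) (nat_lit 3025597679) (nat_lit 456) (nat_lit 19743199956) (nat_lit 76) (nat_lit 2334313413) (nat_lit 57) (nat_lit 5) (nat_lit 63) (nat_lit 5) (nat_lit 58) (nat_lit 5) (nat_lit 268) (nat_lit 258) (nat_lit 194)))))) (XT.nd (nat_lit 390) (nat_lit 988) (nat_lit 0) (XT.nd (nat_lit 156) (nat_lit 532) (nat_lit 0) (XT.nd (nat_lit 78) (nat_lit 304) (nat_lit 0) (XT.lf (nat_lit 0) (nat_lit 7039464685) (nat_lit 456) (nat_lit 1769024235) (nat_lit 76) (nat_lit 17474142125) (nat_lit 57) (nat_lit 5) (nat_lit 63) (nat_lit 5) (nat_lit 58) (nat_lit 5) (nat_lit 269) (nat_lit 258) (nat_lit 193)) (XT.lf (nat_lit 0) (nat_lit 11743698948) (nat_lit 380) (nat_lit 9438265364) (nat_lit 76) (nat_lit 6356135845) (nat_lit 53) (nat_lit 5) (nat_lit 58) (nat_lit 5) (nat_lit 54) (nat_lit 5) (nat_lit 270) (nat_lit 258) (nat_lit 192))) (XT.nd (nat_lit 78) (nat_lit 228) (nat_lit 0) (XT.lf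 (nat_lit 0) (nat_lit 10910667768) (nat_lit 304) (nat_lit 6247275594) (nat_lit 380) (nat_lit 11719426543) (nat_lit 49) (nat_lit 5) (nat_lit 53) (nat_lit 5) (nat_lit 54) (nat_lit 5) (nat_lit 271) (nat_lit 258) (nat_lit 191)) (XT.nd (nat_lit 78) (nat_lit 0) (nat_lit 0) (XT.lf (nat_lit 0) (nat_lit 2823986734) (nat_lit 228) (nat_lit 20531217903) (nat_lit 304) (nat_lit 6951125948) (nat_lit 46) (nat_lit 5) (nat_lit 49) (nat_lit 5) (nat_lit 50) (nat_lit 5) (nat_lit 272) (nat_lit 258) (nat_lit 190)) (XT.lf (nat_lit 0) (nat_lit 25793085521) (nat_lit 228) (nat_lit 4657046749) (nat_lit 304) (nat_lit 1379421595) (nat_lit 46) (nat_lit 5) (nat_lit 49) (nat_lit 5) (nat_lit 50) (nat_lit 5) (nat_lit 273) (nat_lit 258) (nat_lit 189))))) (XT.nd (nat_lit 156) (nat_lit 380) (nat_lit 0) (XT.nd (nat_lit 78) (nat_lit 228) (nat_lit 0) (XT.lf (nat_lit 0) (nat_lit 4951056743) (nat_lit 380) (nat_lit 16059459727)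 (nat_lit 76) (nat_lit 12437459042) (nat_lit 41) (nat_lit 5) (nat_lit 46) (nat_lit 5) (nat_lit 42) (nat_lit 5) (nat_lit 274) (nat_lit 258) (nat_lit 188)) (XT.lf (nat_lit 0) (nat_lit 7843259682) (nat_lit 228) (nat_lit 4191727450) (nat_lit 304) (nat_lit 23145018660) (nat_lit 38) (nat_lit 5) (nat_lit 41) (nat_lit 5) (nat_lit 42) (nat_lit 5) (nat_lit 275) (nat_lit 258) (nat_lit 187))) (XT.nd (nat_lit 78) (nat_lit 380) (nat_lit 0) (XT.lf (nat_lit 0) (nat_lit 20175623344) (nat_lit 304) (nat_lit 3044253391) (nat_lit 76) (nat_lit 13806252444) (nat_lit 38) (nat_lit 5) (nat_lit 42) (nat_lit 5) (nat_lit 39) (nat_lit 5) (nat_lit 276) (nat_lit 258) (nat_lit 186)) (XT.nd (nat_lit 78) (nat_lit 152) (nat_lit 0) (XT.lf (nat_lit 0) (nat_lit 23869582365) (nat_lit 228) (nat_lit 5529713678) (nat_lit 304) (nat_lit 9599085128) (nat_lit 35) (nat_lit 5) (nat_lit 38) (nat_lit 5) (nat_lit 39) (nat_lit 5) (nat_lit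 277) (nat_lit 258) (nat_lit 185)) (XT.lf (nat_lit 0) (nat_lit 12078021997) (nat_lit 152) (nat_lit 27726268014) (nat_lit 228) (nat_lit 1301977879) (nat_lit 33) (nat_lit 5) (nat_lit 35) (nat_lit 5) (nat_lit 36) (nat_lit 5) (nat_lit 278) (nat_lit 258) (nat_lit 184))))))))
noncomputable def xc85 : XT := (XT.nd (nat_lit 1404) (nat_lit 532) (nat_lit 0) (XT.nd (nat_lit 702) (nat_lit 684) (nat_lit 0) (XT.nd (nat_lit 312) (nat_lit 532) (nat_lit 0) (XT.nd (nat_lit 156) (nat_lit 152) (nat_lit 0) (XT.nd (nat_lit 78) (nat_lit 228) (nat_lit 0) (XT.lf (nat_lit 0) (nat_lit 7764257582) (nat_lit 228) (nat_lit 1600026028) (nat_lit 76) (nat_lit 33995021356) (nat_lit 32) (nat_lit 5) (nat_lit 35) (nat_lit 5) (nat_lit 33) (nat_lit 5) (nat_lit 279) (nat_lit 258) (nat_lit 183)) (XT.lf (nat_lit 0) (nat_lit 18123478827) (nat_lit 304) (nat_lit 17028484273) (nat_lit 76) (nat_lit 10608910794) (nat_lit 29) (nat_lit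 5) (nat_lit 33) (nat_lit 5) (nat_lit 30) (nat_lit 5) (nat_lit 280) (nat_lit 258) (nat_lit 182))) (XT.nd (nat_lit 78) (nat_lit 0) (nat_lit 0) (XT.lf (nat_lit 0) (nat_lit 13453985137) (nat_lit 152) (nat_lit 16244376663) (nat_lit 228) (nat_lit 18636879948) (nat_lit 27) (nat_lit 5) (nat_lit 29) (nat_lit 5) (nat_lit 30) (nat_lit 5) (nat_lit 281) (nat_lit 258) (nat_lit 181)) (XT.lf (nat_lit 0) (nat_lit 42556986371) (nat_lit 228) (nat_lit 4201087713) (nat_lit 76) (nat_lit 4339615555) (nat_lit 27) (nat_lit 5) (nat_lit 30) (nat_lit 5) (nat_lit 28) (nat_lit 5) (nat_lit 282) (nat_lit 258) (nat_lit 180)))) (XT.nd (nat_lit 156) (nat_lit 152) (nat_lit 0) (XT.nd (nat_lit 78) (nat_lit 152) (nat_lit 0) (XT.lf (nat_lit 0) (nat_lit 3027133630) (nat_lit 228) (nat_lit 24499241271) (nat_lit 76) (nat_lit 26515949578) (nat_lit 24) (nat_lit 5) (nat_lit 27) (nat_lit 5) (nat_lit 25) (nat_lit 5) (nat_lit 283) (nat_lit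 258) (nat_lit 179)) (XT.lf (nat_lit 0) (nat_lit 9050209914) (nat_lit 152) (nat_lit 6382654122) (nat_lit 228) (nat_lit 41772095761) (nat_lit 22) (nat_lit 5) (nat_lit 24) (nat_lit 5) (nat_lit 25) (nat_lit 5) (nat_lit 284) (nat_lit 258) (nat_lit 178))) (XT.nd (nat_lit 78) (nat_lit 152) (nat_lit 0) (XT.lf (nat_lit 0) (nat_lit 29514038680) (nat_lit 228) (nat_lit 14716635251) (nat_lit 76) (nat_lit 16355796447) (nat_lit 22) (nat_lit 5) (nat_lit 25) (nat_lit 5) (nat_lit 23) (nat_lit 5) (nat_lit 285) (nat_lit 258) (nat_lit 177)) (XT.nd (nat_lit 78) (nat_lit 0) (nat_lit 0) (XT.lf (nat_lit 0) (nat_lit 21981355402) (nat_lit 152) (nat_lit 23184089835) (nat_lit 228) (nat_lit 19050882382) (nat_lit 20) (nat_lit 5) (nat_lit 22) (nat_lit 5) (nat_lit 23) (nat_lit 5) (nat_lit 286) (nat_lit 258) (nat_lit 176)) (XT.lf (nat_lit 0) (nat_lit 62130102999) (nat_lit 152) (nat_lit 188498291) (nat_lit 228) (nat_lit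 5805502069) (nat_lit 20) (nat_lit 5) (nat_lit 22) (nat_lit 5) (nat_lit 23) (nat_lit 5) (nat_lit 287) (nat_lit 258) (nat_lit 175)))))) (XT.nd (nat_lit 312) (nat_lit 304) (nat_lit 0) (XT.nd (nat_lit 156) (nat_lit 228) (nat_lit 0) (XT.nd (nat_lit 78) (nat_lit 0) (nat_lit 0) (XT.lf (nat_lit 0) (nat_lit 9149102326) (nat_lit 152) (nat_lit 38612475527) (nat_lit 76) (nat_lit 24530217077) (nat_lit 18) (nat_lit 5) (nat_lit 20) (nat_lit 5) (nat_lit 19) (nat_lit 5) (nat_lit 288) (nat_lit 258) (nat_lit 174)) (XT.lf (nat_lit 0) (nat_lit 25202630205) (nat_lit 152) (nat_lit 159774410) (nat_lit 76) (nat_lit 51420450630) (nat_lit 18) (nat_lit 5) (nat_lit 20) (nat_lit 5) (nat_lit 19) (nat_lit 5) (nat_lit 289) (nat_lit 258) (nat_lit 173))) (XT.nd (nat_lit 78) (nat_lit 76) (nat_lit 0) (XT.lf (nat_lit 0) (nat_lit 42727561727) (nat_lit 152) (nat_lit 474355874) (nat_lit 228) (nat_lit 38398217817) (nat_lit 16)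 (nat_lit 5) (nat_lit 18) (nat_lit 5) (nat_lit 19) (nat_lit 5) (nat_lit 290) (nat_lit 258) (nat_lit 172)) (XT.lf (nat_lit 0) (nat_lit 1888109782) (nat_lit 76) (nat_lit 61192204877) (nat_lit 152) (nat_lit 23700533253) (nat_lit 15) (nat_lit 5) (nat_lit 16) (nat_lit 5) (nat_lit 17) (nat_lit 4) (nat_lit 291) (nat_lit 258) (nat_lit 171)))) (XT.nd (nat_lit 156) (nat_lit 228) (nat_lit 0) (XT.nd (nat_lit 78) (nat_lit 76) (nat_lit 0) (XT.lf (nat_lit 0) (nat_lit 47280945862) (nat_lit 76) (nat_lit 37947915244) (nat_lit 152) (nat_lit 7113170046) (nat_lit 15) (nat_lit 5) (nat_lit 16) (nat_lit 5) (nat_lit 17) (nat_lit 4) (nat_lit 292) (nat_lit 258) (nat_lit 170)) (XT.lf (nat_lit 0) (nat_lit 10450645022) (nat_lit 152) (nat_lit 2219635076) (nat_lit 76) (nat_lit 85669645439) (nat_lit 14) (nat_lit 5) (nat_lit 16) (nat_lit 5) (nat_lit 15) (nat_lit 5) (nat_lit 293) (nat_lit 258) (nat_lit 169))) (XT.nd (nat_lit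 78) (nat_lit 76) (nat_lit 0) (XT.lf (nat_lit 0) (nat_lit 30119567460) (nat_lit 228) (nat_lit 59644463198) (nat_lit 76) (nat_lit 15000335928) (nat_lit 12) (nat_lit 5) (nat_lit 15) (nat_lit 5) (nat_lit 13) (nat_lit 4) (nat_lit 294) (nat_lit 258) (nat_lit 168)) (XT.nd (nat_lit 78) (nat_lit 76) (nat_lit 0) (XT.lf (nat_lit 0) (nat_lit 51610646096) (nat_lit 228) (nat_lit 15596585560) (nat_lit 76) (nat_lit 44483104909) (nat_lit 12) (nat_lit 5) (nat_lit 15) (nat_lit 5) (nat_lit 13) (nat_lit 4) (nat_lit 295) (nat_lit 258) (nat_lit 167)) (XT.lf (nat_lit 0) (nat_lit 33025338114) (nat_lit 76) (nat_lit 42307309398) (nat_lit 152) (nat_lit 43812160147) (nat_lit 11) (nat_lit 5) (nat_lit 12) (nat_lit 5) (nat_lit 13) (nat_lit 4) (nat_lit 296) (nat_lit 258) (nat_lit 166))))))) (XT.nd (nat_lit 702) (nat_lit 228) (nat_lit 0) (XT.nd (nat_lit 312) (nat_lit 152) (nat_lit 0) (XT.nd (nat_lit 156) (nat_lit 76)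 (nat_lit 0) (XT.nd (nat_lit 78) (nat_lit 76) (nat_lit 0) (XT.lf (nat_lit 0) (nat_lit 86087459053) (nat_lit 76) (nat_lit 15132844214) (nat_lit 152) (nat_lit 25961943406) (nat_lit 11) (nat_lit 5) (nat_lit 12) (nat_lit 5) (nat_lit 13) (nat_lit 4) (nat_lit 297) (nat_lit 258) (nat_lit 165)) (XT.lf (nat_lit 0) (nat_lit 7545254671) (nat_lit 76) (nat_lit 121969917491) (nat_lit 76) (nat_lit 6330703190) (nat_lit 10) (nat_lit 4) (nat_lit 11) (nat_lit 5) (nat_lit 11) (nat_lit 4) (nat_lit 298) (nat_lit 258) (nat_lit 164))) (XT.nd (nat_lit 78) (nat_lit 0) (nat_lit 0) (XT.lf (nat_lit 0) (nat_lit 15374381767) (nat_lit 152) (nat_lit 84127915423) (nat_lit 76) (nat_lit 45639726668) (nat_lit 9) (nat_lit 5) (nat_lit 11) (nat_lit 5) (nat_lit 10) (nat_lit 4) (nat_lit 299) (nat_lit 258) (nat_lit 163)) (XT.lf (nat_lit 0) (nat_lit 38593860531) (nat_lit 152) (nat_lit 36533709649) (nat_lit 76) (nat_lit 80049119501)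 (nat_lit 9) (nat_lit 5) (nat_lit 11) (nat_lit 5) (nat_lit 10) (nat_lit 4) (nat_lit 300) (nat_lit 258) (nat_lit 162)))) (XT.nd (nat_lit 156) (nat_lit 76) (nat_lit 0) (XT.nd (nat_lit 78) (nat_lit 0) (nat_lit 0) (XT.lf (nat_lit 0) (nat_lit 15354310212) (nat_lit 76) (nat_lit 48553365650) (nat_lit 152) (nat_lit 102094617457) (nat_lit 8) (nat_lit 5) (nat_lit 9) (nat_lit 5) (nat_lit 10) (nat_lit 4) (nat_lit 301) (nat_lit 258) (nat_lit 161)) (XT.lf (nat_lit 0) (nat_lit 72693046542) (nat_lit 76) (nat_lit 19187139168) (nat_lit 152) (nat_lit 85782083278) (nat_lit 8) (nat_lit 5) (nat_lit 9) (nat_lit 5) (nat_lit 10) (nat_lit 4) (nat_lit 302) (nat_lit 258) (nat_lit 160))) (XT.nd (nat_lit 78) (nat_lit 76) (nat_lit 0) (XT.lf (nat_lit 0) (nat_lit 122283472163) (nat_lit 152) (nat_lit 55836432947) (nat_lit 0) (nat_lit 12125491778) (nat_lit 8) (nat_lit 5) (nat_lit 10) (nat_lit 4) (nat_lit 8) (nat_lit 4)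 (nat_lit 303) (nat_lit 258) (nat_lit 159)) (XT.nd (nat_lit 78) (nat_lit 76) (nat_lit 0) (XT.lf (nat_lit 0) (nat_lit 155440118977) (nat_lit 152) (nat_lit 3100873472) (nat_lit 0) (nat_lit 45278130445) (nat_lit 8) (nat_lit 5) (nat_lit 10) (nat_lit 4) (nat_lit 8) (nat_lit 4) (nat_lit 304) (nat_lit 258) (nat_lit 158)) (XT.lf (nat_lit 0) (nat_lit 55630036599) (nat_lit 76) (nat_lit 136485549148) (nat_lit 76) (nat_lit 26319849368) (nat_lit 7) (nat_lit 4) (nat_lit 8) (nat_lit 5) (nat_lit 8) (nat_lit 4) (nat_lit 305) (nat_lit 258) (nat_lit 157)))))) (XT.nd (nat_lit 390) (nat_lit 76) (nat_lit 0) (XT.nd (nat_lit 156) (nat_lit 76) (nat_lit 0) (XT.nd (nat_lit 78) (nat_lit 76) (nat_lit 0) (XT.lf (nat_lit 0) (nat_lit 119166321873) (nat_lit 76) (nat_lit 112610637715) (nat_lit 76) (nat_lit 2441501594) (nat_lit 7) (nat_lit 4) (nat_lit 8) (nat_lit 5) (nat_lit 8) (nat_lit 4) (nat_lit 306) (nat_lit 258) (nat_lit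 156)) (XT.lf (nat_lit 0) (nat_lit 22597839308) (nat_lit 152) (nat_lit 63846747335) (nat_lit 76) (nat_lit 164801420138) (nat_lit 6) (nat_lit 5) (nat_lit 8) (nat_lit 5) (nat_lit 7) (nat_lit 4) (nat_lit 307) (nat_lit 258) (nat_lit 155))) (XT.nd (nat_lit 78) (nat_lit 76) (nat_lit 0) (XT.lf (nat_lit 0) (nat_lit 49554061203) (nat_lit 152) (nat_lit 8589438558) (nat_lit 76) (nat_lit 211490293357) (nat_lit 6) (nat_lit 5) (nat_lit 8) (nat_lit 5) (nat_lit 7) (nat_lit 4) (nat_lit 308) (nat_lit 258) (nat_lit 154)) (XT.nd (nat_lit 78) (nat_lit 0) (nat_lit 0) (XT.lf (nat_lit 0) (nat_lit 52774469013) (nat_lit 76) (nat_lit 26714536311) (nat_lit 152) (nat_lit 209962487594) (nat_lit 5) (nat_lit 5) (nat_lit 6) (nat_lit 5) (nat_lit 7) (nat_lit 4) (nat_lit 309) (nat_lit 258) (nat_lit 153)) (XT.lf (nat_lit 0) (nat_lit 112082009939) (nat_lit 152) (nat_lit 191611253622) (nat_lit 0) (nat_lit 7148183543) (nat_lit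 5) (nat_lit 5) (nat_lit 7) (nat_lit 4) (nat_lit 5) (nat_lit 4) (nat_lit 310) (nat_lit 258) (nat_lit 152))))) (XT.nd (nat_lit 156) (nat_lit 76) (nat_lit 0) (XT.nd (nat_lit 78) (nat_lit 0) (nat_lit 0) (XT.lf (nat_lit 0) (nat_lit 147731363305) (nat_lit 152) (nat_lit 143393480867) (nat_lit 0) (nat_lit 42795309561) (nat_lit 5) (nat_lit 5) (nat_lit 7) (nat_lit 4) (nat_lit 5) (nat_lit 4) (nat_lit 311) (nat_lit 258) (nat_lit 151)) (XT.lf (nat_lit 0) (nat_lit 186231232071) (nat_lit 152) (nat_lit 91320881910) (nat_lit 0) (nat_lit 81293115968) (nat_lit 5) (nat_lit 5) (nat_lit 7) (nat_lit 4) (nat_lit 5) (nat_lit 4) (nat_lit 312) (nat_lit 258) (nat_lit 150))) (XT.nd (nat_lit 78) (nat_lit 76) (nat_lit 0) (XT.lf (nat_lit 0) (nat_lit 227809763607) (nat_lit 152) (nat_lit 35084878389) (nat_lit 0) (nat_lit 122869737912) (nat_lit 5) (nat_lit 5) (nat_lit 7) (nat_lit 4) (nat_lit 5) (nat_lit 4) (nat_lit 313)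 (nat_lit 258) (nat_lit 149)) (XT.nd (nat_lit 78) (nat_lit 0) (nat_lit 0) (XT.lf (nat_lit 0) (nat_lit 26495811527) (nat_lit 76) (nat_lit 246631211558) (nat_lit 76) (nat_lit 141689417722) (nat_lit 4) (nat_lit 4) (nat_lit 5) (nat_lit 5) (nat_lit 5) (nat_lit 4) (nat_lit 314) (nat_lit 258) (nat_lit 148)) (XT.lf (nat_lit 0) (nat_lit 94253697711) (nat_lit 76) (nat_lit 228425950863) (nat_lit 76) (nat_lit 123482519860) (nat_lit 4) (nat_lit 4) (nat_lit 5) (nat_lit 5) (nat_lit 5) (nat_lit 4) (nat_lit 315) (nat_lit 258) (nat_lit 147))))))))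
noncomputable def xc86 : XT := (XT.nd (nat_lit 34008) (nat_lit 0) (nat_lit 1140) (XT.nd (nat_lit 33306) (nat_lit 0) (nat_lit 4104) (XT.nd (nat_lit 312) (nat_lit 76) (nat_lit 0) (XT.nd (nat_lit 156) (nat_lit 0) (nat_lit 0) (XT.nd (nat_lit 78) (nat_lit 0) (nat_lit 0) (XT.lf (nat_lit 0) (nat_lit 167430243849) (nat_lit 76) (nat_lit 208765156280) (nat_lit 76) (nat_lit 103820209382) (nat_lit 4) (nat_lit 4) (nat_lit 5) (nat_lit 5) (nat_lit 5) (nat_lit 4) (nat_lit 316) (nat_lit 258) (nat_lit 146)) (XT.lf (nat_lit 0) (nat_lit 246459088735) (nat_lit 76) (nat_lit 187532319396) (nat_lit 76) (nat_lit 82585968890) (nat_lit 4) (nat_lit 4) (nat_lit 5) (nat_lit 5) (nat_lit 5) (nat_lit 4) (nat_lit 317) (nat_lit 258) (nat_lit 145))) (XT.nd (nat_lit 78) (nat_lit 0) (nat_lit 0) (XT.lf (nat_lit 0) (nat_lit 331808551447) (nat_lit 76) (nat_lit 164601615992) (nat_lit 76) (nat_lit 59653965849) (nat_lit 4) (nat_lit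 4) (nat_lit 5) (nat_lit 5) (nat_lit 5) (nat_lit 4) (nat_lit 318) (nat_lit 258) (nat_lit 144)) (XT.lf (nat_lit 0) (nat_lit 423984406581) (nat_lit 76) (nat_lit 139837160417) (nat_lit 76) (nat_lit 34888306908) (nat_lit 4) (nat_lit 4) (nat_lit 5) (nat_lit 5) (nat_lit 5) (nat_lit 4) (nat_lit 319) (nat_lit 258) (nat_lit 143)))) (XT.nd (nat_lit 32760) (nat_lit 0) (nat_lit 5244) (XT.nd (nat_lit 78) (nat_lit 76) (nat_lit 0) (XT.lf (nat_lit 0) (nat_lit 523532881426) (nat_lit 76) (nat_lit 113092200344) (nat_lit 76) (nat_lit 8142232607) (nat_lit 4) (nat_lit 4) (nat_lit 5) (nat_lit 5) (nat_lit 5) (nat_lit 4) (nat_lit 320) (nat_lit 258) (nat_lit 142)) (XT.lf (nat_lit 0) (nat_lit 20078854695) (nat_lit 152) (nat_lit 63789347304) (nat_lit 76) (nat_lit 610624993054) (nat_lit 3) (nat_lit 5) (nat_lit 5) (nat_lit 5) (nat_lit 4) (nat_lit 4) (nat_lit 321) (nat_lit 258) (nat_lit 141))) (XT.nd (nat_lit 78) (nat_lit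 0) (nat_lit 0) (XT.lf (nat_lit 0) (nat_lit 1413510891) (nat_lit 0) (nat_lit 1413510891) (nat_lit 684) (nat_lit 6100227705) (nat_lit 72) (nat_lit 5) (nat_lit 72) (nat_lit 3) (nat_lit 81) (nat_lit 3) (nat_lit 259) (nat_lit 259) (nat_lit 202)) (XT.nd (nat_lit 78) (nat_lit 0) (nat_lit 76) (XT.lf (nat_lit 0) (nat_lit 6328915547) (nat_lit 684) (nat_lit 2978960098) (nat_lit 760) (nat_lit 9237388528) (nat_lit 72) (nat_lit 5) (nat_lit 81) (nat_lit 3) (nat_lit 82) (nat_lit 5) (nat_lit 260) (nat_lit 259) (nat_lit 201)) (XT.lf (nat_lit 0) (nat_lit 7284290788) (nat_lit 684) (nat_lit 9031697562) (nat_lit 760) (nat_lit 2964074536) (nat_lit 73) (nat_lit 5) (nat_lit 82) (nat_lit 5) (nat_lit 83) (nat_lit 5) (nat_lit 261) (nat_lit 259) (nat_lit 200)))))) (XT.nd (nat_lit 312) (nat_lit 1216) (nat_lit 0) (XT.nd (nat_lit 156) (nat_lit 0) (nat_lit 152) (XT.nd (nat_lit 78) (nat_lit 0) (nat_lit 76) (XT.lf (nat_lit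 76) (nat_lit 4538922067) (nat_lit 0) (nat_lit 4030112346) (nat_lit 760) (nat_lit 11492054878) (nat_lit 74) (nat_lit 5) (nat_lit 73) (nat_lit 5) (nat_lit 83) (nat_lit 5) (nat_lit 262) (nat_lit 259) (nat_lit 199)) (XT.lf (nat_lit 0) (nat_lit 10235005708) (nat_lit 684) (nat_lit 1544340507) (nat_lit 760) (nat_lit 9111413182) (nat_lit 74) (nat_lit 5) (nat_lit 83) (nat_lit 5) (nat_lit 84) (nat_lit 5) (nat_lit 263) (nat_lit 259) (nat_lit 198))) (XT.nd (nat_lit 78) (nat_lit 0) (nat_lit 0) (XT.lf (nat_lit 0) (nat_lit 12320853384) (nat_lit 684) (nat_lit 7887151344) (nat_lit 760) (nat_lit 1564546221) (nat_lit 75) (nat_lit 5) (nat_lit 84) (nat_lit 5) (nat_lit 85) (nat_lit 5) (nat_lit 264) (nat_lit 259) (nat_lit 197)) (XT.lf (nat_lit 76) (nat_lit 7917820404) (nat_lit 0) (nat_lit 6983135804) (nat_lit 760) (nat_lit 7807632262) (nat_lit 76) (nat_lit 5) (nat_lit 75) (nat_lit 5) (nat_lit 85) (nat_lit 5)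 (nat_lit 265) (nat_lit 259) (nat_lit 196)))) (XT.nd (nat_lit 156) (nat_lit 760) (nat_lit 0) (XT.nd (nat_lit 78) (nat_lit 0) (nat_lit 0) (XT.lf (nat_lit 0) (nat_lit 1468927320) (nat_lit 684) (nat_lit 16474330306) (nat_lit 760) (nat_lit 5763528528) (nat_lit 67) (nat_lit 5) (nat_lit 76) (nat_lit 5) (nat_lit 77) (nat_lit 5) (nat_lit 266) (nat_lit 259) (nat_lit 195)) (XT.lf (nat_lit 0) (nat_lit 19418651116) (nat_lit 684) (nat_lit 2164300307) (nat_lit 760) (nat_lit 3184249554) (nat_lit 67) (nat_lit 5) (nat_lit 76) (nat_lit 5) (nat_lit 77) (nat_lit 5) (nat_lit 267) (nat_lit 259) (nat_lit 194))) (XT.nd (nat_lit 78) (nat_lit 380) (nat_lit 0) (XT.lf (nat_lit 0) (nat_lit 14335075) (nat_lit 380) (nat_lit 12806794324) (nat_lit 76) (nat_lit 13071674979) (nat_lit 62) (nat_lit 5) (nat_lit 67) (nat_lit 5) (nat_lit 63) (nat_lit 5) (nat_lit 268) (nat_lit 259) (nat_lit 193)) (XT.nd (nat_lit 78) (nat_lit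 0) (nat_lit 0) (XT.lf (nat_lit 0) (nat_lit 3609652893) (nat_lit 456) (nat_lit 20964468196) (nat_lit 76) (nat_lit 2519154981) (nat_lit 57) (nat_lit 5) (nat_lit 63) (nat_lit 5) (nat_lit 58) (nat_lit 5) (nat_lit 269) (nat_lit 259) (nat_lit 192)) (XT.lf (nat_lit 0) (nat_lit 7919295378) (nat_lit 456) (nat_lit 1578890844) (nat_lit 76) (nat_lit 18870310990) (nat_lit 57) (nat_lit 5) (nat_lit 63) (nat_lit 5) (nat_lit 58) (nat_lit 5) (nat_lit 270) (nat_lit 259) (nat_lit 191))))))) (XT.nd (nat_lit 702) (nat_lit 1140) (nat_lit 0) (XT.nd (nat_lit 312) (nat_lit 988) (nat_lit 0) (XT.nd (nat_lit 156) (nat_lit 228) (nat_lit 0) (XT.nd (nat_lit 78) (nat_lit 304) (nat_lit 0) (XT.lf (nat_lit 0) (nat_lit 12981661901) (nat_lit 380) (nat_lit 9860630730) (nat_lit 76) (nat_lit 6883089002) (nat_lit 53) (nat_lit 5) (nat_lit 58) (nat_lit 5) (nat_lit 54) (nat_lit 5) (nat_lit 271) (nat_lit 259) (nat_lit 190)) (XT.lf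 (nat_lit 0) (nat_lit 12101758495) (nat_lit 304) (nat_lit 6710147278) (nat_lit 380) (nat_lit 12360806649) (nat_lit 49) (nat_lit 5) (nat_lit 53) (nat_lit 5) (nat_lit 54) (nat_lit 5) (nat_lit 272) (nat_lit 259) (nat_lit 189))) (XT.nd (nat_lit 78) (nat_lit 0) (nat_lit 0) (XT.lf (nat_lit 0) (nat_lit 3367963382) (nat_lit 228) (nat_lit 22121644895) (nat_lit 304) (nat_lit 7227206495) (nat_lit 46) (nat_lit 5) (nat_lit 49) (nat_lit 5) (nat_lit 50) (nat_lit 5) (nat_lit 273) (nat_lit 259) (nat_lit 188)) (XT.lf (nat_lit 0) (nat_lit 28151030242) (nat_lit 228) (nat_lit 4981397119) (nat_lit 304) (nat_lit 1230507240) (nat_lit 46) (nat_lit 5) (nat_lit 49) (nat_lit 5) (nat_lit 50) (nat_lit 5) (nat_lit 274) (nat_lit 259) (nat_lit 187)))) (XT.nd (nat_lit 156) (nat_lit 380) (nat_lit 0) (XT.nd (nat_lit 78) (nat_lit 228) (nat_lit 0) (XT.lf (nat_lit 0) (nat_lit 5584885088) (nat_lit 380) (nat_lit 17042366717)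 (nat_lit 76) (nat_lit 13484084304) (nat_lit 41) (nat_lit 5) (nat_lit 46) (nat_lit 5) (nat_lit 42) (nat_lit 5) (nat_lit 275) (nat_lit 259) (nat_lit 186)) (XT.lf (nat_lit 0) (nat_lit 8759452221) (nat_lit 228) (nat_lit 4462974947) (nat_lit 304) (nat_lit 24760200503) (nat_lit 38) (nat_lit 5) (nat_lit 41) (nat_lit 5) (nat_lit 42) (nat_lit 5) (nat_lit 276) (nat_lit 259) (nat_lit 185))) (XT.nd (nat_lit 78) (nat_lit 380) (nat_lit 0) (XT.lf (nat_lit 0) (nat_lit 21998600713) (nat_lit 304) (nat_lit 3010469853) (nat_lit 76) (nat_lit 14968196525) (nat_lit 38) (nat_lit 5) (nat_lit 42) (nat_lit 5) (nat_lit 39) (nat_lit 5) (nat_lit 277) (nat_lit 259) (nat_lit 184)) (XT.nd (nat_lit 78) (nat_lit 152) (nat_lit 0) (XT.lf (nat_lit 0) (nat_lit 26044420608) (nat_lit 228) (nat_lit 5904412142) (nat_lit 304) (nat_lit 10159070702) (nat_lit 35) (nat_lit 5) (nat_lit 38) (nat_lit 5) (nat_lit 39) (nat_lit 5) (nat_lit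 278) (nat_lit 259) (nat_lit 183)) (XT.lf (nat_lit 0) (nat_lit 13306894788) (nat_lit 152) (nat_lit 29869773715) (nat_lit 228) (nat_lit 1208265199) (nat_lit 33) (nat_lit 5) (nat_lit 35) (nat_lit 5) (nat_lit 36) (nat_lit 5) (nat_lit 279) (nat_lit 259) (nat_lit 182)))))) (XT.nd (nat_lit 390) (nat_lit 456) (nat_lit 0) (XT.nd (nat_lit 156) (nat_lit 380) (nat_lit 0) (XT.nd (nat_lit 78) (nat_lit 228) (nat_lit 0) (XT.lf (nat_lit 0) (nat_lit 8562748008) (nat_lit 228) (nat_lit 1478604655) (nat_lit 76) (nat_lit 36777446620) (nat_lit 32) (nat_lit 5) (nat_lit 35) (nat_lit 5) (nat_lit 33) (nat_lit 5) (nat_lit 280) (nat_lit 259) (nat_lit 181)) (XT.lf (nat_lit 0) (nat_lit 19742397875) (nat_lit 304) (nat_lit 18144531047) (nat_lit 76) (nat_lit 11526008600) (nat_lit 29) (nat_lit 5) (nat_lit 33) (nat_lit 5) (nat_lit 30) (nat_lit 5) (nat_lit 281) (nat_lit 259) (nat_lit 180))) (XT.nd (nat_lit 78) (nat_lit 228)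 (nat_lit 0) (XT.lf (nat_lit 0) (nat_lit 14765834975) (nat_lit 152) (nat_lit 17468592273) (nat_lit 228) (nat_lit 19959296008) (nat_lit 27) (nat_lit 5) (nat_lit 29) (nat_lit 5) (nat_lit 30) (nat_lit 5) (nat_lit 282) (nat_lit 259) (nat_lit 179)) (XT.nd (nat_lit 78) (nat_lit 228) (nat_lit 0) (XT.lf (nat_lit 0) (nat_lit 46110964436) (nat_lit 228) (nat_lit 4312459289) (nat_lit 76) (nat_lit 4754306417) (nat_lit 27) (nat_lit 5) (nat_lit 30) (nat_lit 5) (nat_lit 28) (nat_lit 5) (nat_lit 283) (nat_lit 259) (nat_lit 178)) (XT.lf (nat_lit 0) (nat_lit 3413606634) (nat_lit 228) (nat_lit 26239191883) (nat_lit 76) (nat_lit 28705428983) (nat_lit 24) (nat_lit 5) (nat_lit 27) (nat_lit 5) (nat_lit 25) (nat_lit 5) (nat_lit 284) (nat_lit 259) (nat_lit 177))))) (XT.nd (nat_lit 156) (nat_lit 304) (nat_lit 0) (XT.nd (nat_lit 78) (nat_lit 0) (nat_lit 0) (XT.lf (nat_lit 0) (nat_lit 9984654957) (nat_lit 152) (nat_lit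 6819736830) (nat_lit 228) (nat_lit 44969871880) (nat_lit 22) (nat_lit 5) (nat_lit 24) (nat_lit 5) (nat_lit 25) (nat_lit 5) (nat_lit 285) (nat_lit 259) (nat_lit 176)) (XT.lf (nat_lit 0) (nat_lit 32002982729) (nat_lit 228) (nat_lit 15693620552) (nat_lit 76) (nat_lit 17730164065) (nat_lit 22) (nat_lit 5) (nat_lit 25) (nat_lit 5) (nat_lit 23) (nat_lit 5) (nat_lit 286) (nat_lit 259) (nat_lit 175))) (XT.nd (nat_lit 78) (nat_lit 152) (nat_lit 0) (XT.lf (nat_lit 0) (nat_lit 23931502582) (nat_lit 152) (nat_lit 24968523028) (nat_lit 228) (nat_lit 20447328375) (nat_lit 20) (nat_lit 5) (nat_lit 22) (nat_lit 5) (nat_lit 23) (nat_lit 5) (nat_lit 287) (nat_lit 259) (nat_lit 174)) (XT.nd (nat_lit 78) (nat_lit 152) (nat_lit 0) (XT.lf (nat_lit 0) (nat_lit 67277954524) (nat_lit 152) (nat_lit 138491124) (nat_lit 228) (nat_lit 6151771311) (nat_lit 20) (nat_lit 5) (nat_lit 22) (nat_lit 5) (nat_lit 23) (nat_lit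 5) (nat_lit 288) (nat_lit 259) (nat_lit 173)) (XT.lf (nat_lit 0) (nat_lit 9990668600) (nat_lit 152) (nat_lit 41523353085) (nat_lit 76) (nat_lit 26555461339) (nat_lit 18) (nat_lit 5) (nat_lit 20) (nat_lit 5) (nat_lit 19) (nat_lit 5) (nat_lit 289) (nat_lit 259) (nat_lit 172))))))))
noncomputable def xc87 : XT := (XT.nd (nat_lit 1404) (nat_lit 228) (nat_lit 0) (XT.nd (nat_lit 702) (nat_lit 304) (nat_lit 0) (XT.nd (nat_lit 312) (nat_lit 304) (nat_lit 0) (XT.nd (nat_lit 156) (nat_lit 76) (nat_lit 0) (XT.nd (nat_lit 78) (nat_lit 152) (nat_lit 0) (XT.lf (nat_lit 0) (nat_lit 27320357370) (nat_lit 152) (nat_lit 7629989) (nat_lit 76) (nat_lit 55592259732) (nat_lit 18) (nat_lit 5) (nat_lit 20) (nat_lit 5) (nat_lit 19) (nat_lit 5) (nat_lit 290) (nat_lit 259) (nat_lit 171)) (XT.lf (nat_lit 0) (nat_lit 46303525540) (nat_lit 152) (nat_lit 451005517) (nat_lit 228) (nat_lit 41368643362) (nat_lit 16) (nat_lit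 5) (nat_lit 18) (nat_lit 5) (nat_lit 19) (nat_lit 5) (nat_lit 291) (nat_lit 259) (nat_lit 170))) (XT.nd (nat_lit 78) (nat_lit 0) (nat_lit 0) (XT.lf (nat_lit 0) (nat_lit 2193901740) (nat_lit 76) (nat_lit 66025455080) (nat_lit 152) (nat_lit 25499190270) (nat_lit 15) (nat_lit 5) (nat_lit 16) (nat_lit 5) (nat_lit 17) (nat_lit 4) (nat_lit 292) (nat_lit 259) (nat_lit 169)) (XT.lf (nat_lit 0) (nat_lit 51206702248) (nat_lit 76) (nat_lit 40926224216) (nat_lit 152) (nat_lit 7592051758) (nat_lit 15) (nat_lit 5) (nat_lit 16) (nat_lit 5) (nat_lit 17) (nat_lit 4) (nat_lit 293) (nat_lit 259) (nat_lit 168)))) (XT.nd (nat_lit 156) (nat_lit 76) (nat_lit 0) (XT.nd (nat_lit 78) (nat_lit 152) (nat_lit 0) (XT.lf (nat_lit 0) (nat_lit 11367516835) (nat_lit 152) (nat_lit 2261753750) (nat_lit 76) (nat_lit 92573695465) (nat_lit 14) (nat_lit 5) (nat_lit 16) (nat_lit 5) (nat_lit 15) (nat_lit 5) (nat_lit 294) (nat_lit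 259) (nat_lit 167)) (XT.lf (nat_lit 0) (nat_lit 32606812204) (nat_lit 228) (nat_lit 64283330638) (nat_lit 76) (nat_lit 16251384918) (nat_lit 12) (nat_lit 5) (nat_lit 15) (nat_lit 5) (nat_lit 13) (nat_lit 4) (nat_lit 295) (nat_lit 259) (nat_lit 166))) (XT.nd (nat_lit 78) (nat_lit 76) (nat_lit 0) (XT.lf (nat_lit 0) (nat_lit 55811423106) (nat_lit 228) (nat_lit 16721451649) (nat_lit 76) (nat_lit 48088996002) (nat_lit 12) (nat_lit 5) (nat_lit 15) (nat_lit 5) (nat_lit 13) (nat_lit 4) (nat_lit 296) (nat_lit 259) (nat_lit 165)) (XT.nd (nat_lit 78) (nat_lit 0) (nat_lit 0) (XT.lf (nat_lit 0) (nat_lit 35784886540) (nat_lit 76) (nat_lit 45642805131) (nat_lit 152) (nat_lit 47245189660) (nat_lit 11) (nat_lit 5) (nat_lit 12) (nat_lit 5) (nat_lit 13) (nat_lit 4) (nat_lit 297) (nat_lit 259) (nat_lit 164)) (XT.lf (nat_lit 0) (nat_lit 93083271867) (nat_lit 76) (nat_lit 16298018956) (nat_lit 152) (nat_lit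 27972284713) (nat_lit 11) (nat_lit 5) (nat_lit 12) (nat_lit 5) (nat_lit 13) (nat_lit 4) (nat_lit 298) (nat_lit 259) (nat_lit 163)))))) (XT.nd (nat_lit 312) (nat_lit 76) (nat_lit 0) (XT.nd (nat_lit 156) (nat_lit 76) (nat_lit 0) (XT.nd (nat_lit 78) (nat_lit 76) (nat_lit 0) (XT.lf (nat_lit 0) (nat_lit 8255392906) (nat_lit 76) (nat_lit 131681982867) (nat_lit 76) (nat_lit 6773043536) (nat_lit 10) (nat_lit 4) (nat_lit 11) (nat_lit 5) (nat_lit 11) (nat_lit 4) (nat_lit 299) (nat_lit 259) (nat_lit 162)) (XT.lf (nat_lit 0) (nat_lit 16661798791) (nat_lit 152) (nat_lit 90757553376) (nat_lit 76) (nat_lit 49331092746) (nat_lit 9) (nat_lit 5) (nat_lit 11) (nat_lit 5) (nat_lit 10) (nat_lit 4) (nat_lit 300) (nat_lit 259) (nat_lit 161))) (XT.nd (nat_lit 78) (nat_lit 76) (nat_lit 0) (XT.lf (nat_lit 0) (nat_lit 41734579080) (nat_lit 152) (nat_lit 39363262642) (nat_lit 76) (nat_lit 86490260121) (nat_lit 9)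 (nat_lit 5) (nat_lit 11) (nat_lit 5) (nat_lit 10) (nat_lit 4) (nat_lit 301) (nat_lit 259) (nat_lit 160)) (XT.lf (nat_lit 0) (nat_lit 16671750893) (nat_lit 76) (nat_lit 52399198320) (nat_lit 152) (nat_lit 110208936711) (nat_lit 8) (nat_lit 5) (nat_lit 9) (nat_lit 5) (nat_lit 10) (nat_lit 4) (nat_lit 302) (nat_lit 259) (nat_lit 159)))) (XT.nd (nat_lit 156) (nat_lit 76) (nat_lit 0) (XT.nd (nat_lit 78) (nat_lit 0) (nat_lit 0) (XT.lf (nat_lit 0) (nat_lit 78590986435) (nat_lit 76) (nat_lit 20686520874) (nat_lit 152) (nat_lit 92595344253) (nat_lit 8) (nat_lit 5) (nat_lit 9) (nat_lit 5) (nat_lit 10) (nat_lit 4) (nat_lit 303) (nat_lit 259) (nat_lit 158)) (XT.lf (nat_lit 0) (nat_lit 132110096596) (nat_lit 152) (nat_lit 60225255486) (nat_lit 0) (nat_lit 13127429586) (nat_lit 8) (nat_lit 5) (nat_lit 10) (nat_lit 4) (nat_lit 8) (nat_lit 4) (nat_lit 304) (nat_lit 259) (nat_lit 157))) (XT.nd (nat_lit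 78) (nat_lit 76) (nat_lit 0) (XT.lf (nat_lit 0) (nat_lit 167916019848) (nat_lit 152) (nat_lit 3276635853) (nat_lit 0) (nat_lit 48929916497) (nat_lit 8) (nat_lit 5) (nat_lit 10) (nat_lit 4) (nat_lit 8) (nat_lit 4) (nat_lit 305) (nat_lit 259) (nat_lit 156)) (XT.nd (nat_lit 78) (nat_lit 0) (nat_lit 0) (XT.lf (nat_lit 0) (nat_lit 60149604628) (nat_lit 76) (nat_lit 147373985018) (nat_lit 76) (nat_lit 28384699871) (nat_lit 7) (nat_lit 4) (nat_lit 8) (nat_lit 5) (nat_lit 8) (nat_lit 4) (nat_lit 306) (nat_lit 259) (nat_lit 155)) (XT.lf (nat_lit 0) (nat_lit 128763669383) (nat_lit 76) (nat_lit 121591333119) (nat_lit 76) (nat_lit 2599101864) (nat_lit 7) (nat_lit 4) (nat_lit 8) (nat_lit 5) (nat_lit 8) (nat_lit 4) (nat_lit 307) (nat_lit 259) (nat_lit 154))))))) (XT.nd (nat_lit 702) (nat_lit 0) (nat_lit 0) (XT.nd (nat_lit 312) (nat_lit 76) (nat_lit 0) (XT.nd (nat_lit 156) (nat_lit 76) (nat_lit 0) (XT.nd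 (nat_lit 78) (nat_lit 0) (nat_lit 0) (XT.lf (nat_lit 0) (nat_lit 24439474403) (nat_lit 152) (nat_lit 68894036605) (nat_lit 76) (nat_lit 178010451170) (nat_lit 6) (nat_lit 5) (nat_lit 8) (nat_lit 5) (nat_lit 7) (nat_lit 4) (nat_lit 308) (nat_lit 259) (nat_lit 153)) (XT.lf (nat_lit 0) (nat_lit 53549689757) (nat_lit 152) (nat_lit 9220620941) (nat_lit 76) (nat_lit 228432588512) (nat_lit 6) (nat_lit 5) (nat_lit 8) (nat_lit 5) (nat_lit 7) (nat_lit 4) (nat_lit 309) (nat_lit 259) (nat_lit 152))) (XT.nd (nat_lit 78) (nat_lit 0) (nat_lit 0) (XT.lf (nat_lit 0) (nat_lit 57049966730) (nat_lit 76) (nat_lit 28827979801) (nat_lit 152) (nat_lit 226728144991) (nat_lit 5) (nat_lit 5) (nat_lit 6) (nat_lit 5) (nat_lit 7) (nat_lit 4) (nat_lit 310) (nat_lit 259) (nat_lit 151)) (XT.lf (nat_lit 0) (nat_lit 121076525463) (nat_lit 152) (nat_lit 206889514377) (nat_lit 0) (nat_lit 7741297713) (nat_lit 5) (nat_lit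 5) (nat_lit 7) (nat_lit 4) (nat_lit 5) (nat_lit 4) (nat_lit 311) (nat_lit 259) (nat_lit 150)))) (XT.nd (nat_lit 156) (nat_lit 76) (nat_lit 0) (XT.nd (nat_lit 78) (nat_lit 0) (nat_lit 0) (XT.lf (nat_lit 0) (nat_lit 159575756378) (nat_lit 152) (nat_lit 154818070878) (nat_lit 0) (nat_lit 46238619035) (nat_lit 5) (nat_lit 5) (nat_lit 7) (nat_lit 4) (nat_lit 5) (nat_lit 4) (nat_lit 312) (nat_lit 259) (nat_lit 149)) (XT.lf (nat_lit 0) (nat_lit 201153697311) (nat_lit 152) (nat_lit 98583137224) (nat_lit 0) (nat_lit 87814791828) (nat_lit 5) (nat_lit 5) (nat_lit 7) (nat_lit 4) (nat_lit 5) (nat_lit 4) (nat_lit 313) (nat_lit 259) (nat_lit 148))) (XT.nd (nat_lit 78) (nat_lit 76) (nat_lit 0) (XT.lf (nat_lit 0) (nat_lit 246056736061) (nat_lit 152) (nat_lit 37851469364) (nat_lit 0) (nat_lit 132716193411) (nat_lit 5) (nat_lit 5) (nat_lit 7) (nat_lit 4) (nat_lit 5) (nat_lit 4) (nat_lit 314) (nat_lit 259)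 (nat_lit 147)) (XT.nd (nat_lit 78) (nat_lit 0) (nat_lit 0) (XT.lf (nat_lit 0) (nat_lit 28653928732) (nat_lit 76) (nat_lit 266344404107) (nat_lit 76) (nat_lit 153002345561) (nat_lit 4) (nat_lit 4) (nat_lit 5) (nat_lit 5) (nat_lit 5) (nat_lit 4) (nat_lit 315) (nat_lit 259) (nat_lit 146)) (XT.lf (nat_lit 0) (nat_lit 101829597494) (nat_lit 76) (nat_lit 246684004363) (nat_lit 76) (nat_lit 133340542210) (nat_lit 4) (nat_lit 4) (nat_lit 5) (nat_lit 5) (nat_lit 5) (nat_lit 4) (nat_lit 316) (nat_lit 259) (nat_lit 145)))))) (XT.nd (nat_lit 33150) (nat_lit 0) (nat_lit 5168) (XT.nd (nat_lit 156) (nat_lit 0) (nat_lit 0) (XT.nd (nat_lit 78) (nat_lit 0) (nat_lit 0) (XT.lf (nat_lit 0) (nat_lit 180857629993) (nat_lit 76) (nat_lit 225451533071) (nat_lit 76) (nat_lit 112106771281) (nat_lit 4) (nat_lit 4) (nat_lit 5) (nat_lit 5) (nat_lit 5) (nat_lit 4) (nat_lit 317) (nat_lit 259) (nat_lit 144)) (XT.lf (nat_lit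 0) (nat_lit 266206340496) (nat_lit 76) (nat_lit 202521168177) (nat_lit 76) (nat_lit 89175203021) (nat_lit 4) (nat_lit 4) (nat_lit 5) (nat_lit 5) (nat_lit 5) (nat_lit 4) (nat_lit 318) (nat_lit 259) (nat_lit 143))) (XT.nd (nat_lit 78) (nat_lit 0) (nat_lit 0) (XT.lf (nat_lit 0) (nat_lit 358381499139) (nat_lit 76) (nat_lit 177757026039) (nat_lit 76) (nat_lit 64409946654) (nat_lit 4) (nat_lit 4) (nat_lit 5) (nat_lit 5) (nat_lit 5) (nat_lit 4) (nat_lit 319) (nat_lit 259) (nat_lit 142)) (XT.nd (nat_lit 32838) (nat_lit 0) (nat_lit 5168) (XT.lf (nat_lit 0) (nat_lit 457929329086) (nat_lit 76) (nat_lit 151012356184) (nat_lit 76) (nat_lit 37664245106) (nat_lit 4) (nat_lit 4) (nat_lit 5) (nat_lit 5) (nat_lit 5) (nat_lit 4) (nat_lit 320) (nat_lit 259) (nat_lit 141)) (XT.lf (nat_lit 0) (nat_lit 1672847675) (nat_lit 0) (nat_lit 1672847675) (nat_lit 684) (nat_lit 6280152807) (nat_lit 72) (nat_lit 5) (nat_lit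 72) (nat_lit 3) (nat_lit 81) (nat_lit 3) (nat_lit 260) (nat_lit 260) (nat_lit 200))))) (XT.nd (nat_lit 156) (nat_lit 0) (nat_lit 76) (XT.nd (nat_lit 78) (nat_lit 0) (nat_lit 76) (XT.lf (nat_lit 0) (nat_lit 7372688720) (nat_lit 684) (nat_lit 2913349748) (nat_lit 760) (nat_lit 9714204035) (nat_lit 72) (nat_lit 5) (nat_lit 81) (nat_lit 3) (nat_lit 82) (nat_lit 5) (nat_lit 261) (nat_lit 260) (nat_lit 199)) (XT.lf (nat_lit 0) (nat_lit 8365919459) (nat_lit 684) (nat_lit 9433464839) (nat_lit 760) (nat_lit 2996500637) (nat_lit 73) (nat_lit 5) (nat_lit 82) (nat_lit 5) (nat_lit 83) (nat_lit 5) (nat_lit 262) (nat_lit 260) (nat_lit 198))) (XT.nd (nat_lit 78) (nat_lit 0) (nat_lit 76) (XT.lf (nat_lit 76) (nat_lit 5208864151) (nat_lit 0) (nat_lit 4512414399) (nat_lit 760) (nat_lit 11919844490) (nat_lit 74) (nat_lit 5) (nat_lit 73) (nat_lit 5) (nat_lit 83) (nat_lit 5) (nat_lit 263) (nat_lit 260) (nat_lit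 197)) (XT.nd (nat_lit 78) (nat_lit 0) (nat_lit 76) (XT.lf (nat_lit 0) (nat_lit 11483644132) (nat_lit 684) (nat_lit 1358463588) (nat_lit 760) (nat_lit 9697015599) (nat_lit 74) (nat_lit 5) (nat_lit 83) (nat_lit 5) (nat_lit 84) (nat_lit 5) (nat_lit 264) (nat_lit 260) (nat_lit 196)) (XT.lf (nat_lit 0) (nat_lit 13707475819) (nat_lit 684) (nat_lit 8199049687) (nat_lit 760) (nat_lit 1586480949) (nat_lit 75) (nat_lit 5) (nat_lit 84) (nat_lit 5) (nat_lit 85) (nat_lit 5) (nat_lit 265) (nat_lit 260) (nat_lit 195))))))))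
noncomputable def xc88 : XT := (XT.nd (nat_lit 1404) (nat_lit 1368) (nat_lit 0) (XT.nd (nat_lit 702) (nat_lit 1444) (nat_lit 0) (XT.nd (nat_lit 312) (nat_lit 1216) (nat_lit 0) (XT.nd (nat_lit 156) (nat_lit 380) (nat_lit 0) (XT.nd (nat_lit 78) (nat_lit 608) (nat_lit 0) (XT.lf (nat_lit 76) (nat_lit 8856453244) (nat_lit 0) (nat_lit 7612598457) (nat_lit 760) (nat_lit 8036218395) (nat_lit 76) (nat_lit 5) (nat_lit 75) (nat_lit 5) (nat_lit 85) (nat_lit 5) (nat_lit 266) (nat_lit 260) (nat_lit 194)) (XT.lf (nat_lit 0) (nat_lit 1898578343) (nat_lit 684) (nat_lit 17832155284) (nat_lit 760) (nat_lit 5853879370) (nat_lit 67) (nat_lit 5) (nat_lit 76) (nat_lit 5) (nat_lit 77) (nat_lit 5) (nat_lit 267) (nat_lit 260) (nat_lit 193))) (XT.nd (nat_lit 78) (nat_lit 380) (nat_lit 0) (XT.lf (nat_lit 0) (nat_lit 21261158795) (nat_lit 684) (nat_lit 2374368919) (nat_lit 760) (nat_lit 3095719666) (nat_lit 67) (nat_lit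 5) (nat_lit 76) (nat_lit 5) (nat_lit 77) (nat_lit 5) (nat_lit 268) (nat_lit 260) (nat_lit 192)) (XT.lf (nat_lit 0) (nat_lit 327267650) (nat_lit 380) (nat_lit 13526534868) (nat_lit 76) (nat_lit 14093926281) (nat_lit 62) (nat_lit 5) (nat_lit 67) (nat_lit 5) (nat_lit 63) (nat_lit 5) (nat_lit 269) (nat_lit 260) (nat_lit 191)))) (XT.nd (nat_lit 156) (nat_lit 836) (nat_lit 0) (XT.nd (nat_lit 78) (nat_lit 0) (nat_lit 0) (XT.lf (nat_lit 0) (nat_lit 4191641345) (nat_lit 456) (nat_lit 22334537383) (nat_lit 76) (nat_lit 2719055431) (nat_lit 57) (nat_lit 5) (nat_lit 63) (nat_lit 5) (nat_lit 58) (nat_lit 5) (nat_lit 270) (nat_lit 260) (nat_lit 190)) (XT.lf (nat_lit 0) (nat_lit 8824335509) (nat_lit 456) (nat_lit 1420861122) (nat_lit 76) (nat_lit 20378424806) (nat_lit 57) (nat_lit 5) (nat_lit 63) (nat_lit 5) (nat_lit 58) (nat_lit 5) (nat_lit 271) (nat_lit 260) (nat_lit 189))) (XT.nd (nat_lit 78) (nat_lit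 532) (nat_lit 0) (XT.lf (nat_lit 0) (nat_lit 14276082230) (nat_lit 380) (nat_lit 10364248109) (nat_lit 76) (nat_lit 7449564559) (nat_lit 53) (nat_lit 5) (nat_lit 58) (nat_lit 5) (nat_lit 54) (nat_lit 5) (nat_lit 272) (nat_lit 260) (nat_lit 188)) (XT.nd (nat_lit 78) (nat_lit 228) (nat_lit 0) (XT.lf (nat_lit 0) (nat_lit 13342736372) (nat_lit 304) (nat_lit 7215314373) (nat_lit 380) (nat_lit 13095749698) (nat_lit 49) (nat_lit 5) (nat_lit 53) (nat_lit 5) (nat_lit 54) (nat_lit 5) (nat_lit 273) (nat_lit 260) (nat_lit 187)) (XT.lf (nat_lit 0) (nat_lit 3910083674) (nat_lit 228) (nat_lit 23846734478) (nat_lit 304) (nat_lit 7565319976) (nat_lit 46) (nat_lit 5) (nat_lit 49) (nat_lit 5) (nat_lit 50) (nat_lit 5) (nat_lit 274) (nat_lit 260) (nat_lit 186)))))) (XT.nd (nat_lit 312) (nat_lit 836) (nat_lit 0) (XT.nd (nat_lit 156) (nat_lit 228) (nat_lit 0) (XT.nd (nat_lit 78) (nat_lit 380) (nat_lit 0) (XT.lf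 (nat_lit 0) (nat_lit 30655597126) (nat_lit 228) (nat_lit 5338573695) (nat_lit 304) (nat_lit 1106667228) (nat_lit 46) (nat_lit 5) (nat_lit 49) (nat_lit 5) (nat_lit 50) (nat_lit 5) (nat_lit 275) (nat_lit 260) (nat_lit 185)) (XT.lf (nat_lit 0) (nat_lit 6235502889) (nat_lit 380) (nat_lit 18146968513) (nat_lit 76) (nat_lit 14607074199) (nat_lit 41) (nat_lit 5) (nat_lit 46) (nat_lit 5) (nat_lit 42) (nat_lit 5) (nat_lit 276) (nat_lit 260) (nat_lit 184))) (XT.nd (nat_lit 78) (nat_lit 0) (nat_lit 0) (XT.lf (nat_lit 0) (nat_lit 9707749349) (nat_lit 228) (nat_lit 4765065498) (nat_lit 304) (nat_lit 26538324800) (nat_lit 38) (nat_lit 5) (nat_lit 41) (nat_lit 5) (nat_lit 42) (nat_lit 5) (nat_lit 277) (nat_lit 260) (nat_lit 183)) (XT.lf (nat_lit 0) (nat_lit 23937610427) (nat_lit 304) (nat_lit 3013546975) (nat_lit 76) (nat_lit 16214901121) (nat_lit 38) (nat_lit 5) (nat_lit 42) (nat_lit 5) (nat_lit 39)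 (nat_lit 5) (nat_lit 278) (nat_lit 260) (nat_lit 182)))) (XT.nd (nat_lit 156) (nat_lit 456) (nat_lit 0) (XT.nd (nat_lit 78) (nat_lit 152) (nat_lit 0) (XT.lf (nat_lit 0) (nat_lit 28355401944) (nat_lit 228) (nat_lit 6318741596) (nat_lit 304) (nat_lit 10793520263) (nat_lit 35) (nat_lit 5) (nat_lit 38) (nat_lit 5) (nat_lit 39) (nat_lit 5) (nat_lit 279) (nat_lit 260) (nat_lit 181)) (XT.lf (nat_lit 0) (nat_lit 14596610151) (nat_lit 152) (nat_lit 32195401789) (nat_lit 228) (nat_lit 1135284001) (nat_lit 33) (nat_lit 5) (nat_lit 35) (nat_lit 5) (nat_lit 36) (nat_lit 5) (nat_lit 280) (nat_lit 260) (nat_lit 180))) (XT.nd (nat_lit 78) (nat_lit 380) (nat_lit 0) (XT.lf (nat_lit 0) (nat_lit 9399816735) (nat_lit 228) (nat_lit 1383052617) (nat_lit 76) (nat_lit 39773503424) (nat_lit 32) (nat_lit 5) (nat_lit 35) (nat_lit 5) (nat_lit 33) (nat_lit 5) (nat_lit 281) (nat_lit 260) (nat_lit 179)) (XT.nd (nat_lit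 78) (nat_lit 152) (nat_lit 0) (XT.lf (nat_lit 0) (nat_lit 21466714895) (nat_lit 304) (nat_lit 19384989306) (nat_lit 76) (nat_lit 12506718353) (nat_lit 29) (nat_lit 5) (nat_lit 33) (nat_lit 5) (nat_lit 30) (nat_lit 5) (nat_lit 282) (nat_lit 260) (nat_lit 178)) (XT.lf (nat_lit 0) (nat_lit 16149031666) (nat_lit 152) (nat_lit 18801492445) (nat_lit 228) (nat_lit 21411548659) (nat_lit 27) (nat_lit 5) (nat_lit 29) (nat_lit 5) (nat_lit 30) (nat_lit 5) (nat_lit 283) (nat_lit 260) (nat_lit 177))))))) (XT.nd (nat_lit 702) (nat_lit 532) (nat_lit 0) (XT.nd (nat_lit 312) (nat_lit 456) (nat_lit 0) (XT.nd (nat_lit 156) (nat_lit 152) (nat_lit 0) (XT.nd (nat_lit 78) (nat_lit 228) (nat_lit 0) (XT.lf (nat_lit 0) (nat_lit 49927944433) (nat_lit 228) (nat_lit 4464798762) (nat_lit 76) (nat_lit 5192539834) (nat_lit 27) (nat_lit 5) (nat_lit 30) (nat_lit 5) (nat_lit 28) (nat_lit 5) (nat_lit 284) (nat_lit 260) (nat_lit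 176)) (XT.lf (nat_lit 0) (nat_lit 3810411140) (nat_lit 228) (nat_lit 28149722390) (nat_lit 76) (nat_lit 31060336757) (nat_lit 24) (nat_lit 5) (nat_lit 27) (nat_lit 5) (nat_lit 25) (nat_lit 5) (nat_lit 285) (nat_lit 260) (nat_lit 175))) (XT.nd (nat_lit 78) (nat_lit 0) (nat_lit 0) (XT.lf (nat_lit 0) (nat_lit 10963835660) (nat_lit 152) (nat_lit 7302275978) (nat_lit 228) (nat_lit 48444012090) (nat_lit 22) (nat_lit 5) (nat_lit 24) (nat_lit 5) (nat_lit 25) (nat_lit 5) (nat_lit 286) (nat_lit 260) (nat_lit 174)) (XT.lf (nat_lit 0) (nat_lit 34672807215) (nat_lit 228) (nat_lit 16777346205) (nat_lit 76) (nat_lit 19205079164) (nat_lit 22) (nat_lit 5) (nat_lit 25) (nat_lit 5) (nat_lit 23) (nat_lit 5) (nat_lit 287) (nat_lit 260) (nat_lit 173)))) (XT.nd (nat_lit 156) (nat_lit 304) (nat_lit 0) (XT.nd (nat_lit 78) (nat_lit 0) (nat_lit 0) (XT.lf (nat_lit 0) (nat_lit 26010322126) (nat_lit 152) (nat_lit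 26905739102) (nat_lit 228) (nat_lit 21973697123) (nat_lit 20) (nat_lit 5) (nat_lit 22) (nat_lit 5) (nat_lit 23) (nat_lit 5) (nat_lit 288) (nat_lit 260) (nat_lit 172)) (XT.lf (nat_lit 0) (nat_lit 72812319902) (nat_lit 152) (nat_lit 93768776) (nat_lit 228) (nat_lit 6542600495) (nat_lit 20) (nat_lit 5) (nat_lit 22) (nat_lit 5) (nat_lit 23) (nat_lit 5) (nat_lit 289) (nat_lit 260) (nat_lit 171))) (XT.nd (nat_lit 78) (nat_lit 152) (nat_lit 0) (XT.lf (nat_lit 0) (nat_lit 10883919078) (nat_lit 152) (nat_lit 44692511726) (nat_lit 76) (nat_lit 28733762182) (nat_lit 18) (nat_lit 5) (nat_lit 20) (nat_lit 5) (nat_lit 19) (nat_lit 5) (nat_lit 290) (nat_lit 260) (nat_lit 170)) (XT.nd (nat_lit 78) (nat_lit 0) (nat_lit 0) (XT.lf (nat_lit 0) (nat_lit 137560179) (nat_lit 152) (nat_lit 29457607730) (nat_lit 228) (nat_lit 59954102046) (nat_lit 16) (nat_lit 5) (nat_lit 18) (nat_lit 5) (nat_lit 19) (nat_lit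 5) (nat_lit 291) (nat_lit 260) (nat_lit 169)) (XT.lf (nat_lit 0) (nat_lit 50143060391) (nat_lit 152) (nat_lit 434532094) (nat_lit 228) (nat_lit 44591173343) (nat_lit 16) (nat_lit 5) (nat_lit 18) (nat_lit 5) (nat_lit 19) (nat_lit 5) (nat_lit 292) (nat_lit 260) (nat_lit 168)))))) (XT.nd (nat_lit 312) (nat_lit 228) (nat_lit 0) (XT.nd (nat_lit 156) (nat_lit 228) (nat_lit 0) (XT.nd (nat_lit 78) (nat_lit 0) (nat_lit 0) (XT.lf (nat_lit 0) (nat_lit 2502081210) (nat_lit 76) (nat_lit 71254228294) (nat_lit 152) (nat_lit 27455633000) (nat_lit 15) (nat_lit 5) (nat_lit 16) (nat_lit 5) (nat_lit 17) (nat_lit 4) (nat_lit 293) (nat_lit 260) (nat_lit 167)) (XT.lf (nat_lit 0) (nat_lit 55426078550) (nat_lit 76) (nat_lit 44151004384) (nat_lit 152) (nat_lit 8122108035) (nat_lit 15) (nat_lit 5) (nat_lit 16) (nat_lit 5) (nat_lit 17) (nat_lit 4) (nat_lit 294) (nat_lit 260) (nat_lit 166))) (XT.nd (nat_lit 78) (nat_lit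 152) (nat_lit 0) (XT.lf (nat_lit 0) (nat_lit 12346208486) (nat_lit 152) (nat_lit 2326565679) (nat_lit 76) (nat_lit 100022868185) (nat_lit 14) (nat_lit 5) (nat_lit 16) (nat_lit 5) (nat_lit 15) (nat_lit 5) (nat_lit 295) (nat_lit 260) (nat_lit 165)) (XT.lf (nat_lit 0) (nat_lit 35281954700) (nat_lit 228) (nat_lit 69312237130) (nat_lit 76) (nat_lit 17595238952) (nat_lit 12) (nat_lit 5) (nat_lit 15) (nat_lit 5) (nat_lit 13) (nat_lit 4) (nat_lit 296) (nat_lit 260) (nat_lit 164)))) (XT.nd (nat_lit 156) (nat_lit 152) (nat_lit 0) (XT.nd (nat_lit 78) (nat_lit 76) (nat_lit 0) (XT.lf (nat_lit 0) (nat_lit 60338001325) (nat_lit 228) (nat_lit 17953834485) (nat_lit 76) (nat_lit 51976618683) (nat_lit 12) (nat_lit 5) (nat_lit 15) (nat_lit 5) (nat_lit 13) (nat_lit 4) (nat_lit 297) (nat_lit 260) (nat_lit 163)) (XT.lf (nat_lit 0) (nat_lit 38748433102) (nat_lit 76) (nat_lit 49252143620) (nat_lit 152) (nat_lit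 50963125051) (nat_lit 11) (nat_lit 5) (nat_lit 12) (nat_lit 5) (nat_lit 13) (nat_lit 4) (nat_lit 298) (nat_lit 260) (nat_lit 162))) (XT.nd (nat_lit 78) (nat_lit 152) (nat_lit 0) (XT.lf (nat_lit 0) (nat_lit 100623225874) (nat_lit 76) (nat_lit 17562892027) (nat_lit 152) (nat_lit 30152956581) (nat_lit 11) (nat_lit 5) (nat_lit 12) (nat_lit 5) (nat_lit 13) (nat_lit 4) (nat_lit 299) (nat_lit 260) (nat_lit 161)) (XT.nd (nat_lit 78) (nat_lit 76) (nat_lit 0) (XT.lf (nat_lit 0) (nat_lit 9007146237) (nat_lit 76) (nat_lit 142177508556) (nat_lit 76) (nat_lit 7259917960) (nat_lit 10) (nat_lit 4) (nat_lit 11) (nat_lit 5) (nat_lit 11) (nat_lit 4) (nat_lit 300) (nat_lit 260) (nat_lit 160)) (XT.lf (nat_lit 0) (nat_lit 18044010940) (nat_lit 152) (nat_lit 97931913406) (nat_lit 76) (nat_lit 53312034851) (nat_lit 9) (nat_lit 5) (nat_lit 11) (nat_lit 5) (nat_lit 10) (nat_lit 4) (nat_lit 301) (nat_lit 260) (nat_lit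 159))))))))
noncomputable def xc89 : XT := (XT.nd (nat_lit 1404) (nat_lit 0) (nat_lit 0) (XT.nd (nat_lit 702) (nat_lit 152) (nat_lit 0) (XT.nd (nat_lit 312) (nat_lit 152) (nat_lit 0) (XT.nd (nat_lit 156) (nat_lit 0) (nat_lit 0) (XT.nd (nat_lit 78) (nat_lit 76) (nat_lit 0) (XT.lf (nat_lit 0) (nat_lit 45118964152) (nat_lit 152) (nat_lit 42432467876) (nat_lit 76) (nat_lit 93441383418) (nat_lit 9) (nat_lit 5) (nat_lit 11) (nat_lit 5) (nat_lit 10) (nat_lit 4) (nat_lit 302) (nat_lit 260) (nat_lit 158)) (XT.lf (nat_lit 0) (nat_lit 18081876307) (nat_lit 76) (nat_lit 56558181012) (nat_lit 152) (nat_lit 118979998234) (nat_lit 8) (nat_lit 5) (nat_lit 9) (nat_lit 5) (nat_lit 10) (nat_lit 4) (nat_lit 303) (nat_lit 260) (nat_lit 157))) (XT.nd (nat_lit 78) (nat_lit 0) (nat_lit 0) (XT.lf (nat_lit 0) (nat_lit 84948992520) (nat_lit 76) (nat_lit 22310930346) (nat_lit 152) (nat_lit 99960700113) (nat_lit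 8) (nat_lit 5) (nat_lit 9) (nat_lit 5) (nat_lit 10) (nat_lit 4) (nat_lit 304) (nat_lit 260) (nat_lit 156)) (XT.lf (nat_lit 0) (nat_lit 142716581502) (nat_lit 152) (nat_lit 64976324539) (nat_lit 0) (nat_lit 14204971747) (nat_lit 8) (nat_lit 5) (nat_lit 10) (nat_lit 4) (nat_lit 8) (nat_lit 4) (nat_lit 305) (nat_lit 260) (nat_lit 155)))) (XT.nd (nat_lit 156) (nat_lit 76) (nat_lit 0) (XT.nd (nat_lit 78) (nat_lit 76) (nat_lit 0) (XT.lf (nat_lit 0) (nat_lit 181384187712) (nat_lit 152) (nat_lit 3476774697) (nat_lit 0) (nat_lit 52869631848) (nat_lit 8) (nat_lit 5) (nat_lit 10) (nat_lit 4) (nat_lit 8) (nat_lit 4) (nat_lit 306) (nat_lit 260) (nat_lit 154)) (XT.lf (nat_lit 0) (nat_lit 65020870925) (nat_lit 76) (nat_lit 159137833807) (nat_lit 76) (nat_lit 30620550066) (nat_lit 7) (nat_lit 4) (nat_lit 8) (nat_lit 5) (nat_lit 8) (nat_lit 4) (nat_lit 307) (nat_lit 260) (nat_lit 153))) (XT.nd (nat_lit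 78) (nat_lit 76) (nat_lit 0) (XT.lf (nat_lit 0) (nat_lit 139119668421) (nat_lit 76) (nat_lit 131294500868) (nat_lit 76) (nat_lit 2774691315) (nat_lit 7) (nat_lit 4) (nat_lit 8) (nat_lit 5) (nat_lit 8) (nat_lit 4) (nat_lit 308) (nat_lit 260) (nat_lit 152)) (XT.nd (nat_lit 78) (nat_lit 0) (nat_lit 0) (XT.lf (nat_lit 0) (nat_lit 26423617224) (nat_lit 152) (nat_lit 74353732958) (nat_lit 76) (nat_lit 192272649937) (nat_lit 6) (nat_lit 5) (nat_lit 8) (nat_lit 5) (nat_lit 7) (nat_lit 4) (nat_lit 309) (nat_lit 260) (nat_lit 151)) (XT.lf (nat_lit 0) (nat_lit 57860502779) (nat_lit 152) (nat_lit 9910283048) (nat_lit 76) (nat_lit 246726975845) (nat_lit 6) (nat_lit 5) (nat_lit 8) (nat_lit 5) (nat_lit 7) (nat_lit 4) (nat_lit 310) (nat_lit 260) (nat_lit 150)))))) (XT.nd (nat_lit 312) (nat_lit 76) (nat_lit 0) (XT.nd (nat_lit 156) (nat_lit 0) (nat_lit 0) (XT.nd (nat_lit 78) (nat_lit 0) (nat_lit 0) (XT.lf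 (nat_lit 0) (nat_lit 61659866156) (nat_lit 76) (nat_lit 31113882611) (nat_lit 152) (nat_lit 244839526211) (nat_lit 5) (nat_lit 5) (nat_lit 6) (nat_lit 5) (nat_lit 7) (nat_lit 4) (nat_lit 311) (nat_lit 260) (nat_lit 149)) (XT.lf (nat_lit 0) (nat_lit 130786614175) (nat_lit 152) (nat_lit 223397260287) (nat_lit 0) (nat_lit 8378828112) (nat_lit 5) (nat_lit 5) (nat_lit 7) (nat_lit 4) (nat_lit 5) (nat_lit 4) (nat_lit 312) (nat_lit 260) (nat_lit 148))) (XT.nd (nat_lit 78) (nat_lit 0) (nat_lit 0) (XT.lf (nat_lit 0) (nat_lit 172364008254) (nat_lit 152) (nat_lit 167163317252) (nat_lit 0) (nat_lit 49954585024) (nat_lit 5) (nat_lit 5) (nat_lit 7) (nat_lit 4) (nat_lit 5) (nat_lit 4) (nat_lit 313) (nat_lit 260) (nat_lit 147)) (XT.lf (nat_lit 0) (nat_lit 217266540657) (nat_lit 152) (nat_lit 106432566632) (nat_lit 0) (nat_lit 94855601531) (nat_lit 5) (nat_lit 5) (nat_lit 7) (nat_lit 4) (nat_lit 5) (nat_lit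 4) (nat_lit 314) (nat_lit 260) (nat_lit 146)))) (XT.nd (nat_lit 156) (nat_lit 0) (nat_lit 0) (XT.nd (nat_lit 78) (nat_lit 76) (nat_lit 0) (XT.lf (nat_lit 0) (nat_lit 265760300465) (nat_lit 152) (nat_lit 40845122497) (nat_lit 0) (nat_lit 143347957733) (nat_lit 5) (nat_lit 5) (nat_lit 7) (nat_lit 4) (nat_lit 5) (nat_lit 4) (nat_lit 315) (nat_lit 260) (nat_lit 145)) (XT.lf (nat_lit 0) (nat_lit 30979209666) (nat_lit 76) (nat_lit 287637120724) (nat_lit 76) (nat_lit 165223478355) (nat_lit 4) (nat_lit 4) (nat_lit 5) (nat_lit 5) (nat_lit 5) (nat_lit 4) (nat_lit 316) (nat_lit 260) (nat_lit 144))) (XT.nd (nat_lit 78) (nat_lit 0) (nat_lit 0) (XT.lf (nat_lit 0) (nat_lit 110006489955) (nat_lit 76) (nat_lit 266404987942) (nat_lit 76) (nat_lit 143990142206) (nat_lit 4) (nat_lit 4) (nat_lit 5) (nat_lit 5) (nat_lit 5) (nat_lit 4) (nat_lit 317) (nat_lit 260) (nat_lit 143)) (XT.nd (nat_lit 78) (nat_lit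 0) (nat_lit 0) (XT.lf (nat_lit 0) (nat_lit 195354503968) (nat_lit 76) (nat_lit 243474936484) (nat_lit 76) (nat_lit 121058976520) (nat_lit 4) (nat_lit 4) (nat_lit 5) (nat_lit 5) (nat_lit 5) (nat_lit 4) (nat_lit 318) (nat_lit 260) (nat_lit 142)) (XT.lf (nat_lit 0) (nat_lit 287529017713) (nat_lit 76) (nat_lit 218711084564) (nat_lit 76) (nat_lit 96294092907) (nat_lit 4) (nat_lit 4) (nat_lit 5) (nat_lit 5) (nat_lit 5) (nat_lit 4) (nat_lit 319) (nat_lit 260) (nat_lit 141))))))) (XT.nd (nat_lit 33540) (nat_lit 0) (nat_lit 2584) (XT.nd (nat_lit 33150) (nat_lit 0) (nat_lit 4788) (XT.nd (nat_lit 32994) (nat_lit 0) (nat_lit 5168) (XT.nd (nat_lit 32916) (nat_lit 0) (nat_lit 5168) (XT.lf (nat_lit 0) (nat_lit 387076250531) (nat_lit 76) (nat_lit 191966683431) (nat_lit 76) (nat_lit 69548736502) (nat_lit 4) (nat_lit 4) (nat_lit 5) (nat_lit 5) (nat_lit 5) (nat_lit 4) (nat_lit 320) (nat_lit 260) (nat_lit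 140)) (XT.lf (nat_lit 0) (nat_lit 1932066362) (nat_lit 0) (nat_lit 1932066362) (nat_lit 684) (nat_lit 6518424844) (nat_lit 72) (nat_lit 5) (nat_lit 72) (nat_lit 3) (nat_lit 81) (nat_lit 3) (nat_lit 261) (nat_lit 261) (nat_lit 198))) (XT.nd (nat_lit 78) (nat_lit 0) (nat_lit 76) (XT.lf (nat_lit 0) (nat_lit 8423289079) (nat_lit 684) (nat_lit 2885849176) (nat_lit 760) (nat_lit 10266567059) (nat_lit 72) (nat_lit 5) (nat_lit 81) (nat_lit 3) (nat_lit 82) (nat_lit 5) (nat_lit 262) (nat_lit 261) (nat_lit 197)) (XT.lf (nat_lit 0) (nat_lit 9462906843) (nat_lit 684) (nat_lit 9913134715) (nat_lit 760) (nat_lit 3060723550) (nat_lit 73) (nat_lit 5) (nat_lit 82) (nat_lit 5) (nat_lit 83) (nat_lit 5) (nat_lit 263) (nat_lit 261) (nat_lit 196)))) (XT.nd (nat_lit 156) (nat_lit 456) (nat_lit 0) (XT.nd (nat_lit 78) (nat_lit 0) (nat_lit 76) (XT.lf (nat_lit 76) (nat_lit 5888629112) (nat_lit 0) (nat_lit 5010490083)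 (nat_lit 760) (nat_lit 12451985910) (nat_lit 74) (nat_lit 5) (nat_lit 73) (nat_lit 5) (nat_lit 83) (nat_lit 5) (nat_lit 264) (nat_lit 261) (nat_lit 195)) (XT.lf (nat_lit 0) (nat_lit 12770852438) (nat_lit 684) (nat_lit 1201859332) (nat_lit 760) (nat_lit 10349911074) (nat_lit 74) (nat_lit 5) (nat_lit 83) (nat_lit 5) (nat_lit 84) (nat_lit 5) (nat_lit 265) (nat_lit 261) (nat_lit 194))) (XT.nd (nat_lit 78) (nat_lit 608) (nat_lit 0) (XT.lf (nat_lit 0) (nat_lit 15147827454) (nat_lit 684) (nat_lit 8581419337) (nat_lit 760) (nat_lit 1624897222) (nat_lit 75) (nat_lit 5) (nat_lit 84) (nat_lit 5) (nat_lit 85) (nat_lit 5) (nat_lit 266) (nat_lit 261) (nat_lit 193)) (XT.nd (nat_lit 78) (nat_lit 608) (nat_lit 0) (XT.lf (nat_lit 76) (nat_lit 9826635491) (nat_lit 0) (nat_lit 8282316028) (nat_lit 760) (nat_lit 8339588735) (nat_lit 76) (nat_lit 5) (nat_lit 75) (nat_lit 5) (nat_lit 85) (nat_lit 5) (nat_lit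 267) (nat_lit 261) (nat_lit 192)) (XT.lf (nat_lit 0) (nat_lit 2318071638) (nat_lit 684) (nat_lit 19292917140) (nat_lit 760) (nat_lit 6004347264) (nat_lit 67) (nat_lit 5) (nat_lit 76) (nat_lit 5) (nat_lit 77) (nat_lit 5) (nat_lit 268) (nat_lit 261) (nat_lit 191)))))) (XT.nd (nat_lit 390) (nat_lit 1140) (nat_lit 0) (XT.nd (nat_lit 156) (nat_lit 684) (nat_lit 0) (XT.nd (nat_lit 78) (nat_lit 380) (nat_lit 0) (XT.lf (nat_lit 0) (nat_lit 23209835784) (nat_lit 684) (nat_lit 2595975314) (nat_lit 760) (nat_lit 3049078670) (nat_lit 67) (nat_lit 5) (nat_lit 76) (nat_lit 5) (nat_lit 77) (nat_lit 5) (nat_lit 269) (nat_lit 261) (nat_lit 190)) (XT.lf (nat_lit 0) (nat_lit 620755105) (nat_lit 380) (nat_lit 14347338212) (nat_lit 76) (nat_lit 15201307756) (nat_lit 62) (nat_lit 5) (nat_lit 67) (nat_lit 5) (nat_lit 63) (nat_lit 5) (nat_lit 270) (nat_lit 261) (nat_lit 189))) (XT.nd (nat_lit 78) (nat_lit 304)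 (nat_lit 0) (XT.lf (nat_lit 0) (nat_lit 4778358302) (nat_lit 456) (nat_lit 23858021680) (nat_lit 76) (nat_lit 2935180732) (nat_lit 57) (nat_lit 5) (nat_lit 63) (nat_lit 5) (nat_lit 58) (nat_lit 5) (nat_lit 271) (nat_lit 261) (nat_lit 188)) (XT.nd (nat_lit 78) (nat_lit 304) (nat_lit 0) (XT.lf (nat_lit 0) (nat_lit 9763046840) (nat_lit 456) (nat_lit 1290753443) (nat_lit 76) (nat_lit 22007403297) (nat_lit 57) (nat_lit 5) (nat_lit 63) (nat_lit 5) (nat_lit 58) (nat_lit 5) (nat_lit 272) (nat_lit 261) (nat_lit 187)) (XT.lf (nat_lit 0) (nat_lit 15637550990) (nat_lit 380) (nat_lit 10948846567) (nat_lit 76) (nat_lit 8059100058) (nat_lit 53) (nat_lit 5) (nat_lit 58) (nat_lit 5) (nat_lit 54) (nat_lit 5) (nat_lit 273) (nat_lit 261) (nat_lit 186))))) (XT.nd (nat_lit 156) (nat_lit 608) (nat_lit 0) (XT.nd (nat_lit 78) (nat_lit 228) (nat_lit 0) (XT.lf (nat_lit 0) (nat_lit 14644069202) (nat_lit 304) (nat_lit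 7765409305) (nat_lit 380) (nat_lit 13925712929) (nat_lit 49) (nat_lit 5) (nat_lit 53) (nat_lit 5) (nat_lit 54) (nat_lit 5) (nat_lit 274) (nat_lit 261) (nat_lit 185)) (XT.lf (nat_lit 0) (nat_lit 4456672279) (nat_lit 228) (nat_lit 25716199908) (nat_lit 304) (nat_lit 7964730211) (nat_lit 46) (nat_lit 5) (nat_lit 49) (nat_lit 5) (nat_lit 50) (nat_lit 5) (nat_lit 275) (nat_lit 261) (nat_lit 184))) (XT.nd (nat_lit 78) (nat_lit 608) (nat_lit 0) (XT.lf (nat_lit 0) (nat_lit 33324509628) (nat_lit 228) (nat_lit 5730221324) (nat_lit 304) (nat_lit 1004630826) (nat_lit 46) (nat_lit 5) (nat_lit 49) (nat_lit 5) (nat_lit 50) (nat_lit 5) (nat_lit 276) (nat_lit 261) (nat_lit 183)) (XT.nd (nat_lit 78) (nat_lit 228) (nat_lit 0) (XT.lf (nat_lit 0) (nat_lit 6909091914) (nat_lit 380) (nat_lit 19376857388) (nat_lit 76) (nat_lit 15813588652) (nat_lit 41) (nat_lit 5) (nat_lit 46) (nat_lit 5) (nat_lit 42) (nat_lit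 5) (nat_lit 277) (nat_lit 261) (nat_lit 182)) (XT.lf (nat_lit 0) (nat_lit 10696595763) (nat_lit 228) (nat_lit 5099162161) (nat_lit 304) (nat_lit 28487615284) (nat_lit 38) (nat_lit 5) (nat_lit 41) (nat_lit 5) (nat_lit 42) (nat_lit 5) (nat_lit 278) (nat_lit 261) (nat_lit 181))))))))
noncomputable def xc90 : XT := (XT.nd (nat_lit 1404) (nat_lit 684) (nat_lit 0) (XT.nd (nat_lit 702) (nat_lit 608) (nat_lit 0) (XT.nd (nat_lit 312) (nat_lit 760) (nat_lit 0) (XT.nd (nat_lit 156) (nat_lit 228) (nat_lit 0) (XT.nd (nat_lit 78) (nat_lit 228) (nat_lit 0) (XT.lf (nat_lit 0) (nat_lit 26006187211) (nat_lit 304) (nat_lit 3050789454) (nat_lit 76) (nat_lit 17554316181) (nat_lit 38) (nat_lit 5) (nat_lit 42) (nat_lit 5) (nat_lit 39) (nat_lit 5) (nat_lit 279) (nat_lit 261) (nat_lit 180)) (XT.lf (nat_lit 0) (nat_lit 30818816684) (nat_lit 228) (nat_lit 6774495110) (nat_lit 304) (nat_lit 11504158867) (nat_lit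 35) (nat_lit 5) (nat_lit 38) (nat_lit 5) (nat_lit 39) (nat_lit 5) (nat_lit 280) (nat_lit 261) (nat_lit 179))) (XT.nd (nat_lit 78) (nat_lit 76) (nat_lit 0) (XT.lf (nat_lit 0) (nat_lit 15957380611) (nat_lit 152) (nat_lit 34716203836) (nat_lit 228) (nat_lit 1080665695) (nat_lit 33) (nat_lit 5) (nat_lit 35) (nat_lit 5) (nat_lit 36) (nat_lit 5) (nat_lit 281) (nat_lit 261) (nat_lit 178)) (XT.lf (nat_lit 0) (nat_lit 10282159486) (nat_lit 228) (nat_lit 1310363141) (nat_lit 76) (nat_lit 43001560887) (nat_lit 32) (nat_lit 5) (nat_lit 35) (nat_lit 5) (nat_lit 33) (nat_lit 5) (nat_lit 282) (nat_lit 261) (nat_lit 177)))) (XT.nd (nat_lit 156) (nat_lit 380) (nat_lit 0) (XT.nd (nat_lit 78) (nat_lit 152) (nat_lit 0) (XT.lf (nat_lit 0) (nat_lit 23308302078) (nat_lit 304) (nat_lit 20754800603) (nat_lit 76) (nat_lit 13557520795) (nat_lit 29) (nat_lit 5) (nat_lit 33) (nat_lit 5) (nat_lit 30) (nat_lit 5) (nat_lit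 283) (nat_lit 261) (nat_lit 176)) (XT.lf (nat_lit 0) (nat_lit 17614076535) (nat_lit 152) (nat_lit 20250238718) (nat_lit 228) (nat_lit 23000594783) (nat_lit 27) (nat_lit 5) (nat_lit 29) (nat_lit 5) (nat_lit 30) (nat_lit 5) (nat_lit 284) (nat_lit 261) (nat_lit 175))) (XT.nd (nat_lit 78) (nat_lit 380) (nat_lit 0) (XT.lf (nat_lit 0) (nat_lit 54032007527) (nat_lit 228) (nat_lit 4656810105) (nat_lit 76) (nat_lit 5657573426) (nat_lit 27) (nat_lit 5) (nat_lit 30) (nat_lit 5) (nat_lit 28) (nat_lit 5) (nat_lit 285) (nat_lit 261) (nat_lit 174)) (XT.nd (nat_lit 78) (nat_lit 152) (nat_lit 0) (XT.lf (nat_lit 0) (nat_lit 4221310540) (nat_lit 228) (nat_lit 30240001927) (nat_lit 76) (nat_lit 33595295261) (nat_lit 24) (nat_lit 5) (nat_lit 27) (nat_lit 5) (nat_lit 25) (nat_lit 5) (nat_lit 286) (nat_lit 261) (nat_lit 173)) (XT.lf (nat_lit 0) (nat_lit 11995613558) (nat_lit 152) (nat_lit 7832411590) (nat_lit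 228) (nat_lit 52213694975) (nat_lit 22) (nat_lit 5) (nat_lit 24) (nat_lit 5) (nat_lit 25) (nat_lit 5) (nat_lit 287) (nat_lit 261) (nat_lit 172)))))) (XT.nd (nat_lit 312) (nat_lit 304) (nat_lit 0) (XT.nd (nat_lit 156) (nat_lit 152) (nat_lit 0) (XT.nd (nat_lit 78) (nat_lit 152) (nat_lit 0) (XT.lf (nat_lit 0) (nat_lit 37540584010) (nat_lit 228) (nat_lit 17972273964) (nat_lit 76) (nat_lit 20789926833) (nat_lit 22) (nat_lit 5) (nat_lit 25) (nat_lit 5) (nat_lit 23) (nat_lit 5) (nat_lit 288) (nat_lit 261) (nat_lit 171)) (XT.lf (nat_lit 0) (nat_lit 28232008096) (nat_lit 152) (nat_lit 29006530047) (nat_lit 228) (nat_lit 23637785003) (nat_lit 20) (nat_lit 5) (nat_lit 22) (nat_lit 5) (nat_lit 23) (nat_lit 5) (nat_lit 289) (nat_lit 261) (nat_lit 170))) (XT.nd (nat_lit 78) (nat_lit 152) (nat_lit 0) (XT.lf (nat_lit 0) (nat_lit 78767731605) (nat_lit 152) (nat_lit 53429368) (nat_lit 228) (nat_lit 6979149378)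 (nat_lit 20) (nat_lit 5) (nat_lit 22) (nat_lit 5) (nat_lit 23) (nat_lit 5) (nat_lit 290) (nat_lit 261) (nat_lit 169)) (XT.lf (nat_lit 0) (nat_lit 11835219873) (nat_lit 152) (nat_lit 48136988791) (nat_lit 76) (nat_lit 31078642801) (nat_lit 18) (nat_lit 5) (nat_lit 20) (nat_lit 5) (nat_lit 19) (nat_lit 5) (nat_lit 291) (nat_lit 261) (nat_lit 168)))) (XT.nd (nat_lit 156) (nat_lit 152) (nat_lit 0) (XT.nd (nat_lit 78) (nat_lit 0) (nat_lit 0) (XT.lf (nat_lit 0) (nat_lit 273799075) (nat_lit 152) (nat_lit 31765555363) (nat_lit 228) (nat_lit 64669910313) (nat_lit 16) (nat_lit 5) (nat_lit 18) (nat_lit 5) (nat_lit 19) (nat_lit 5) (nat_lit 292) (nat_lit 261) (nat_lit 167)) (XT.lf (nat_lit 0) (nat_lit 54270462706) (nat_lit 152) (nat_lit 424238194) (nat_lit 228) (nat_lit 48083911750) (nat_lit 16) (nat_lit 5) (nat_lit 18) (nat_lit 5) (nat_lit 19) (nat_lit 5) (nat_lit 293) (nat_lit 261) (nat_lit 166)))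 (XT.nd (nat_lit 78) (nat_lit 76) (nat_lit 0) (XT.lf (nat_lit 0) (nat_lit 2815988560) (nat_lit 76) (nat_lit 76908901956) (nat_lit 152) (nat_lit 29580502285) (nat_lit 15) (nat_lit 5) (nat_lit 16) (nat_lit 5) (nat_lit 17) (nat_lit 4) (nat_lit 294) (nat_lit 261) (nat_lit 165)) (XT.nd (nat_lit 78) (nat_lit 76) (nat_lit 0) (XT.lf (nat_lit 0) (nat_lit 59965480438) (nat_lit 76) (nat_lit 47640802695) (nat_lit 152) (nat_lit 8705597646) (nat_lit 15) (nat_lit 5) (nat_lit 16) (nat_lit 5) (nat_lit 17) (nat_lit 4) (nat_lit 295) (nat_lit 261) (nat_lit 164)) (XT.lf (nat_lit 0) (nat_lit 13393310433) (nat_lit 152) (nat_lit 2413129572) (nat_lit 76) (nat_lit 108061800764) (nat_lit 14) (nat_lit 5) (nat_lit 16) (nat_lit 5) (nat_lit 15) (nat_lit 5) (nat_lit 296) (nat_lit 261) (nat_lit 163))))))) (XT.nd (nat_lit 702) (nat_lit 228) (nat_lit 0) (XT.nd (nat_lit 312) (nat_lit 228) (nat_lit 0) (XT.nd (nat_lit 156)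 (nat_lit 76) (nat_lit 0) (XT.nd (nat_lit 78) (nat_lit 0) (nat_lit 0) (XT.lf (nat_lit 0) (nat_lit 38161607716) (nat_lit 228) (nat_lit 74759685271) (nat_lit 76) (nat_lit 19040360847) (nat_lit 12) (nat_lit 5) (nat_lit 15) (nat_lit 5) (nat_lit 13) (nat_lit 4) (nat_lit 297) (nat_lit 261) (nat_lit 162)) (XT.lf (nat_lit 0) (nat_lit 65217908689) (nat_lit 228) (nat_lit 19299834921) (nat_lit 76) (nat_lit 56169472972) (nat_lit 12) (nat_lit 5) (nat_lit 15) (nat_lit 5) (nat_lit 13) (nat_lit 4) (nat_lit 298) (nat_lit 261) (nat_lit 161))) (XT.nd (nat_lit 78) (nat_lit 0) (nat_lit 0) (XT.lf (nat_lit 0) (nat_lit 41934689470) (nat_lit 76) (nat_lit 53156233215) (nat_lit 152) (nat_lit 54987294583) (nat_lit 11) (nat_lit 5) (nat_lit 12) (nat_lit 5) (nat_lit 13) (nat_lit 4) (nat_lit 299) (nat_lit 261) (nat_lit 160)) (XT.lf (nat_lit 0) (nat_lit 108753067019) (nat_lit 76) (nat_lit 18934514228) (nat_lit 152) (nat_lit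 32516229707) (nat_lit 11) (nat_lit 5) (nat_lit 12) (nat_lit 5) (nat_lit 13) (nat_lit 4) (nat_lit 300) (nat_lit 261) (nat_lit 159)))) (XT.nd (nat_lit 156) (nat_lit 76) (nat_lit 0) (XT.nd (nat_lit 78) (nat_lit 76) (nat_lit 0) (XT.lf (nat_lit 0) (nat_lit 9806011744) (nat_lit 76) (nat_lit 153518244784) (nat_lit 76) (nat_lit 7793584289) (nat_lit 10) (nat_lit 4) (nat_lit 11) (nat_lit 5) (nat_lit 11) (nat_lit 4) (nat_lit 301) (nat_lit 261) (nat_lit 158)) (XT.lf (nat_lit 0) (nat_lit 19529771395) (nat_lit 152) (nat_lit 105692525944) (nat_lit 76) (nat_lit 57606536979) (nat_lit 9) (nat_lit 5) (nat_lit 11) (nat_lit 5) (nat_lit 10) (nat_lit 4) (nat_lit 302) (nat_lit 261) (nat_lit 157))) (XT.nd (nat_lit 78) (nat_lit 76) (nat_lit 0) (XT.lf (nat_lit 0) (nat_lit 48767592006) (nat_lit 152) (nat_lit 45758601848) (nat_lit 76) (nat_lit 100944045331) (nat_lit 9) (nat_lit 5) (nat_lit 11) (nat_lit 5) (nat_lit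 10) (nat_lit 4) (nat_lit 303) (nat_lit 261) (nat_lit 156)) (XT.nd (nat_lit 78) (nat_lit 0) (nat_lit 0) (XT.lf (nat_lit 0) (nat_lit 19593914531) (nat_lit 76) (nat_lit 61054583458) (nat_lit 152) (nat_lit 128459257648) (nat_lit 8) (nat_lit 5) (nat_lit 9) (nat_lit 5) (nat_lit 10) (nat_lit 4) (nat_lit 304) (nat_lit 261) (nat_lit 155)) (XT.lf (nat_lit 0) (nat_lit 91805549069) (nat_lit 76) (nat_lit 24069645482) (nat_lit 152) (nat_lit 107921314970) (nat_lit 8) (nat_lit 5) (nat_lit 9) (nat_lit 5) (nat_lit 10) (nat_lit 4) (nat_lit 305) (nat_lit 261) (nat_lit 154)))))) (XT.nd (nat_lit 390) (nat_lit 76) (nat_lit 0) (XT.nd (nat_lit 156) (nat_lit 152) (nat_lit 0) (XT.nd (nat_lit 78) (nat_lit 0) (nat_lit 0) (XT.lf (nat_lit 0) (nat_lit 154166210129) (nat_lit 152) (nat_lit 70117030480) (nat_lit 0) (nat_lit 15364815811) (nat_lit 8) (nat_lit 5) (nat_lit 10) (nat_lit 4) (nat_lit 8) (nat_lit 4) (nat_lit 306)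 (nat_lit 261) (nat_lit 153)) (XT.lf (nat_lit 0) (nat_lit 195924832087) (nat_lit 152) (nat_lit 3701768504) (nat_lit 0) (nat_lit 57120911956) (nat_lit 8) (nat_lit 5) (nat_lit 10) (nat_lit 4) (nat_lit 8) (nat_lit 4) (nat_lit 307) (nat_lit 261) (nat_lit 152))) (XT.nd (nat_lit 78) (nat_lit 76) (nat_lit 0) (XT.lf (nat_lit 0) (nat_lit 70273379013) (nat_lit 76) (nat_lit 171846509678) (nat_lit 76) (nat_lit 33040250832) (nat_lit 7) (nat_lit 4) (nat_lit 8) (nat_lit 5) (nat_lit 8) (nat_lit 4) (nat_lit 308) (nat_lit 261) (nat_lit 151)) (XT.nd (nat_lit 78) (nat_lit 76) (nat_lit 0) (XT.lf (nat_lit 0) (nat_lit 150296314501) (nat_lit 76) (nat_lit 141777365722) (nat_lit 76) (nat_lit 2968941398) (nat_lit 7) (nat_lit 4) (nat_lit 8) (nat_lit 5) (nat_lit 8) (nat_lit 4) (nat_lit 309) (nat_lit 261) (nat_lit 150)) (XT.lf (nat_lit 0) (nat_lit 28562356455) (nat_lit 152) (nat_lit 80257598660) (nat_lit 76) (nat_lit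 207672776980) (nat_lit 6) (nat_lit 5) (nat_lit 8) (nat_lit 5) (nat_lit 7) (nat_lit 4) (nat_lit 310) (nat_lit 261) (nat_lit 149))))) (XT.nd (nat_lit 156) (nat_lit 0) (nat_lit 0) (XT.nd (nat_lit 78) (nat_lit 76) (nat_lit 0) (XT.lf (nat_lit 0) (nat_lit 62512352125) (nat_lit 152) (nat_lit 10661964085) (nat_lit 76) (nat_lit 266482092291) (nat_lit 6) (nat_lit 5) (nat_lit 8) (nat_lit 5) (nat_lit 7) (nat_lit 4) (nat_lit 311) (nat_lit 261) (nat_lit 148)) (XT.lf (nat_lit 0) (nat_lit 66632009091) (nat_lit 76) (nat_lit 33585558742) (nat_lit 152) (nat_lit 264403651289) (nat_lit 5) (nat_lit 5) (nat_lit 6) (nat_lit 5) (nat_lit 7) (nat_lit 4) (nat_lit 312) (nat_lit 261) (nat_lit 147))) (XT.nd (nat_lit 78) (nat_lit 0) (nat_lit 0) (XT.lf (nat_lit 0) (nat_lit 141270090870) (nat_lit 152) (nat_lit 241231819540) (nat_lit 0) (nat_lit 9064760718) (nat_lit 5) (nat_lit 5) (nat_lit 7) (nat_lit 4) (nat_lit 5) (nat_lit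 4) (nat_lit 313) (nat_lit 261) (nat_lit 146)) (XT.nd (nat_lit 78) (nat_lit 0) (nat_lit 0) (XT.lf (nat_lit 0) (nat_lit 186172154433) (nat_lit 152) (nat_lit 180501918216) (nat_lit 0) (nat_lit 53965420675) (nat_lit 5) (nat_lit 5) (nat_lit 7) (nat_lit 4) (nat_lit 5) (nat_lit 4) (nat_lit 314) (nat_lit 261) (nat_lit 145)) (XT.lf (nat_lit 0) (nat_lit 234665480131) (nat_lit 152) (nat_lit 114915260465) (nat_lit 0) (nat_lit 102457446736) (nat_lit 5) (nat_lit 5) (nat_lit 7) (nat_lit 4) (nat_lit 5) (nat_lit 4) (nat_lit 315) (nat_lit 261) (nat_lit 144))))))))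
noncomputable def xc91 : XT := (XT.nd (nat_lit 34320) (nat_lit 0) (nat_lit 912) (XT.nd (nat_lit 33618) (nat_lit 0) (nat_lit 3724) (XT.nd (nat_lit 312) (nat_lit 0) (nat_lit 0) (XT.nd (nat_lit 156) (nat_lit 0) (nat_lit 0) (XT.nd (nat_lit 78) (nat_lit 76) (nat_lit 0) (XT.lf (nat_lit 0) (nat_lit 287037435819) (nat_lit 152) (nat_lit 44083184614) (nat_lit 0) (nat_lit 154828199057) (nat_lit 5) (nat_lit 5) (nat_lit 7) (nat_lit 4) (nat_lit 5) (nat_lit 4) (nat_lit 316) (nat_lit 261) (nat_lit 143)) (XT.lf (nat_lit 0) (nat_lit 33485810015) (nat_lit 76) (nat_lit 310635371150) (nat_lit 76) (nat_lit 178425020159) (nat_lit 4) (nat_lit 4) (nat_lit 5) (nat_lit 5) (nat_lit 5) (nat_lit 4) (nat_lit 317) (nat_lit 261) (nat_lit 142))) (XT.nd (nat_lit 78) (nat_lit 0) (nat_lit 0) (XT.lf (nat_lit 0) (nat_lit 118833179130) (nat_lit 76) (nat_lit 287705609910) (nat_lit 76) (nat_lit 155494227227) (nat_lit 4) (nat_lit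 4) (nat_lit 5) (nat_lit 5) (nat_lit 5) (nat_lit 4) (nat_lit 318) (nat_lit 261) (nat_lit 141)) (XT.lf (nat_lit 0) (nat_lit 211007095747) (nat_lit 76) (nat_lit 262942026712) (nat_lit 76) (nat_lit 130729688757) (nat_lit 4) (nat_lit 4) (nat_lit 5) (nat_lit 5) (nat_lit 5) (nat_lit 4) (nat_lit 319) (nat_lit 261) (nat_lit 140)))) (XT.nd (nat_lit 33072) (nat_lit 0) (nat_lit 5168) (XT.nd (nat_lit 32994) (nat_lit 0) (nat_lit 5168) (XT.lf (nat_lit 0) (nat_lit 310553775668) (nat_lit 76) (nat_lit 236197874393) (nat_lit 76) (nat_lit 103984651928) (nat_lit 4) (nat_lit 4) (nat_lit 5) (nat_lit 5) (nat_lit 5) (nat_lit 4) (nat_lit 320) (nat_lit 261) (nat_lit 139)) (XT.lf (nat_lit 0) (nat_lit 2194134133) (nat_lit 0) (nat_lit 2194134133) (nat_lit 684) (nat_lit 6813441195) (nat_lit 72) (nat_lit 5) (nat_lit 72) (nat_lit 3) (nat_lit 81) (nat_lit 3) (nat_lit 262) (nat_lit 262) (nat_lit 196))) (XT.nd (nat_lit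 78) (nat_lit 0) (nat_lit 76) (XT.lf (nat_lit 0) (nat_lit 9492201299) (nat_lit 684) (nat_lit 2893321575) (nat_lit 760) (nat_lit 10895185550) (nat_lit 72) (nat_lit 5) (nat_lit 81) (nat_lit 3) (nat_lit 82) (nat_lit 5) (nat_lit 263) (nat_lit 262) (nat_lit 195)) (XT.nd (nat_lit 78) (nat_lit 0) (nat_lit 0) (XT.lf (nat_lit 0) (nat_lit 10586635059) (nat_lit 684) (nat_lit 10470411049) (nat_lit 760) (nat_lit 3155120924) (nat_lit 73) (nat_lit 5) (nat_lit 82) (nat_lit 5) (nat_lit 83) (nat_lit 5) (nat_lit 264) (nat_lit 262) (nat_lit 194)) (XT.lf (nat_lit 76) (nat_lit 6585247414) (nat_lit 0) (nat_lit 5528855466) (nat_lit 760) (nat_lit 13086822646) (nat_lit 74) (nat_lit 5) (nat_lit 73) (nat_lit 5) (nat_lit 83) (nat_lit 5) (nat_lit 265) (nat_lit 262) (nat_lit 193)))))) (XT.nd (nat_lit 312) (nat_lit 1064) (nat_lit 0) (XT.nd (nat_lit 156) (nat_lit 532) (nat_lit 0) (XT.nd (nat_lit 78) (nat_lit 0) (nat_lit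 76) (XT.lf (nat_lit 0) (nat_lit 14108464371) (nat_lit 684) (nat_lit 1070572084) (nat_lit 760) (nat_lit 11072566364) (nat_lit 74) (nat_lit 5) (nat_lit 83) (nat_lit 5) (nat_lit 84) (nat_lit 5) (nat_lit 266) (nat_lit 262) (nat_lit 192)) (XT.lf (nat_lit 0) (nat_lit 16654366931) (nat_lit 684) (nat_lit 9033404141) (nat_lit 760) (nat_lit 1679012625) (nat_lit 75) (nat_lit 5) (nat_lit 84) (nat_lit 5) (nat_lit 85) (nat_lit 5) (nat_lit 267) (nat_lit 262) (nat_lit 191))) (XT.nd (nat_lit 78) (nat_lit 608) (nat_lit 0) (XT.lf (nat_lit 76) (nat_lit 10837102739) (nat_lit 0) (nat_lit 8996950088) (nat_lit 760) (nat_lit 8715666043) (nat_lit 76) (nat_lit 5) (nat_lit 75) (nat_lit 5) (nat_lit 85) (nat_lit 5) (nat_lit 268) (nat_lit 262) (nat_lit 190)) (XT.lf (nat_lit 0) (nat_lit 2732947262) (nat_lit 684) (nat_lit 20865662439) (nat_lit 760) (nat_lit 6212196369) (nat_lit 67) (nat_lit 5) (nat_lit 76) (nat_lit 5)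 (nat_lit 77) (nat_lit 5) (nat_lit 269) (nat_lit 262) (nat_lit 189)))) (XT.nd (nat_lit 156) (nat_lit 684) (nat_lit 0) (XT.nd (nat_lit 78) (nat_lit 380) (nat_lit 0) (XT.lf (nat_lit 0) (nat_lit 25279057733) (nat_lit 684) (nat_lit 2830794013) (nat_lit 760) (nat_lit 3040691374) (nat_lit 67) (nat_lit 5) (nat_lit 76) (nat_lit 5) (nat_lit 77) (nat_lit 5) (nat_lit 270) (nat_lit 262) (nat_lit 188)) (XT.lf (nat_lit 0) (nat_lit 899587361) (nat_lit 380) (nat_lit 15271085964) (nat_lit 76) (nat_lit 16400151894) (nat_lit 62) (nat_lit 5) (nat_lit 67) (nat_lit 5) (nat_lit 63) (nat_lit 5) (nat_lit 271) (nat_lit 262) (nat_lit 187))) (XT.nd (nat_lit 78) (nat_lit 304) (nat_lit 0) (XT.lf (nat_lit 0) (nat_lit 5376149642) (nat_lit 456) (nat_lit 25540944369) (nat_lit 76) (nat_lit 3168795660) (nat_lit 57) (nat_lit 5) (nat_lit 63) (nat_lit 5) (nat_lit 58) (nat_lit 5) (nat_lit 272) (nat_lit 262) (nat_lit 186)) (XT.nd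 (nat_lit 78) (nat_lit 304) (nat_lit 0) (XT.lf (nat_lit 0) (nat_lit 10743648620) (nat_lit 456) (nat_lit 1185014603) (nat_lit 76) (nat_lit 23766884883) (nat_lit 57) (nat_lit 5) (nat_lit 63) (nat_lit 5) (nat_lit 58) (nat_lit 5) (nat_lit 273) (nat_lit 262) (nat_lit 185)) (XT.lf (nat_lit 0) (nat_lit 17076639930) (nat_lit 380) (nat_lit 11615099464) (nat_lit 76) (nat_lit 8715462437) (nat_lit 53) (nat_lit 5) (nat_lit 58) (nat_lit 5) (nat_lit 54) (nat_lit 5) (nat_lit 274) (nat_lit 262) (nat_lit 184))))))) (XT.nd (nat_lit 702) (nat_lit 1216) (nat_lit 0) (XT.nd (nat_lit 312) (nat_lit 684) (nat_lit 0) (XT.nd (nat_lit 156) (nat_lit 380) (nat_lit 0) (XT.nd (nat_lit 78) (nat_lit 228) (nat_lit 0) (XT.lf (nat_lit 0) (nat_lit 16016138223) (nat_lit 304) (nat_lit 8363382259) (nat_lit 380) (nat_lit 14853130093) (nat_lit 49) (nat_lit 5) (nat_lit 53) (nat_lit 5) (nat_lit 54) (nat_lit 5) (nat_lit 275) (nat_lit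 262) (nat_lit 183)) (XT.lf (nat_lit 0) (nat_lit 5013636370) (nat_lit 228) (nat_lit 27740682692) (nat_lit 304) (nat_lit 8425455128) (nat_lit 46) (nat_lit 5) (nat_lit 49) (nat_lit 5) (nat_lit 50) (nat_lit 5) (nat_lit 276) (nat_lit 262) (nat_lit 182))) (XT.nd (nat_lit 78) (nat_lit 380) (nat_lit 0) (XT.lf (nat_lit 0) (nat_lit 36176054017) (nat_lit 228) (nat_lit 6158256429) (nat_lit 304) (nat_lit 921618421) (nat_lit 46) (nat_lit 5) (nat_lit 49) (nat_lit 5) (nat_lit 50) (nat_lit 5) (nat_lit 277) (nat_lit 262) (nat_lit 181)) (XT.lf (nat_lit 0) (nat_lit 7611638193) (nat_lit 380) (nat_lit 20736789411) (nat_lit 76) (nat_lit 17111210481) (nat_lit 41) (nat_lit 5) (nat_lit 46) (nat_lit 5) (nat_lit 42) (nat_lit 5) (nat_lit 278) (nat_lit 262) (nat_lit 180)))) (XT.nd (nat_lit 156) (nat_lit 456) (nat_lit 0) (XT.nd (nat_lit 78) (nat_lit 0) (nat_lit 0) (XT.lf (nat_lit 0) (nat_lit 11734273412) (nat_lit 228)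 (nat_lit 5466707122) (nat_lit 304) (nat_lit 30617640024) (nat_lit 38) (nat_lit 5) (nat_lit 41) (nat_lit 5) (nat_lit 42) (nat_lit 5) (nat_lit 279) (nat_lit 262) (nat_lit 179)) (XT.lf (nat_lit 0) (nat_lit 28218341953) (nat_lit 304) (nat_lit 3120091570) (nat_lit 76) (nat_lit 18994860868) (nat_lit 38) (nat_lit 5) (nat_lit 42) (nat_lit 5) (nat_lit 39) (nat_lit 5) (nat_lit 280) (nat_lit 262) (nat_lit 178))) (XT.nd (nat_lit 78) (nat_lit 228) (nat_lit 0) (XT.lf (nat_lit 0) (nat_lit 33451488158) (nat_lit 228) (nat_lit 7273805701) (nat_lit 304) (nat_lit 12293453325) (nat_lit 35) (nat_lit 5) (nat_lit 38) (nat_lit 5) (nat_lit 39) (nat_lit 5) (nat_lit 281) (nat_lit 262) (nat_lit 177)) (XT.nd (nat_lit 78) (nat_lit 76) (nat_lit 0) (XT.lf (nat_lit 0) (nat_lit 17399473160) (nat_lit 152) (nat_lit 37446492174) (nat_lit 228) (nat_lit 1042426712) (nat_lit 33) (nat_lit 5) (nat_lit 35) (nat_lit 5) (nat_lit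 36) (nat_lit 5) (nat_lit 282) (nat_lit 262) (nat_lit 176)) (XT.lf (nat_lit 0) (nat_lit 11216492715) (nat_lit 228) (nat_lit 1258013107) (nat_lit 76) (nat_lit 46481275255) (nat_lit 32) (nat_lit 5) (nat_lit 35) (nat_lit 5) (nat_lit 33) (nat_lit 5) (nat_lit 283) (nat_lit 262) (nat_lit 175)))))) (XT.nd (nat_lit 390) (nat_lit 456) (nat_lit 0) (XT.nd (nat_lit 156) (nat_lit 380) (nat_lit 0) (XT.nd (nat_lit 78) (nat_lit 152) (nat_lit 0) (XT.lf (nat_lit 0) (nat_lit 25279490585) (nat_lit 304) (nat_lit 22260016744) (nat_lit 76) (nat_lit 14685216572) (nat_lit 29) (nat_lit 5) (nat_lit 33) (nat_lit 5) (nat_lit 30) (nat_lit 5) (nat_lit 284) (nat_lit 262) (nat_lit 174)) (XT.lf (nat_lit 0) (nat_lit 19171627157) (nat_lit 152) (nat_lit 21822784287) (nat_lit 228) (nat_lit 24734437145) (nat_lit 27) (nat_lit 5) (nat_lit 29) (nat_lit 5) (nat_lit 30) (nat_lit 5) (nat_lit 285) (nat_lit 262) (nat_lit 173))) (XT.nd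 (nat_lit 78) (nat_lit 380) (nat_lit 0) (XT.lf (nat_lit 0) (nat_lit 58448727543) (nat_lit 228) (nat_lit 4887746068) (nat_lit 76) (nat_lit 6152729373) (nat_lit 27) (nat_lit 5) (nat_lit 30) (nat_lit 5) (nat_lit 28) (nat_lit 5) (nat_lit 286) (nat_lit 262) (nat_lit 172)) (XT.nd (nat_lit 78) (nat_lit 152) (nat_lit 0) (XT.lf (nat_lit 0) (nat_lit 4649950319) (nat_lit 228) (nat_lit 32520571891) (nat_lit 76) (nat_lit 36325898617) (nat_lit 24) (nat_lit 5) (nat_lit 27) (nat_lit 5) (nat_lit 25) (nat_lit 5) (nat_lit 287) (nat_lit 262) (nat_lit 171)) (XT.lf (nat_lit 0) (nat_lit 13087868135) (nat_lit 152) (nat_lit 8412668383) (nat_lit 228) (nat_lit 56300051476) (nat_lit 22) (nat_lit 5) (nat_lit 24) (nat_lit 5) (nat_lit 25) (nat_lit 5) (nat_lit 288) (nat_lit 262) (nat_lit 170))))) (XT.nd (nat_lit 156) (nat_lit 304) (nat_lit 0) (XT.nd (nat_lit 78) (nat_lit 152) (nat_lit 0) (XT.lf (nat_lit 0) (nat_lit 40624379614)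 (nat_lit 228) (nat_lit 19283804220) (nat_lit 76) (nat_lit 22494651617) (nat_lit 22) (nat_lit 5) (nat_lit 25) (nat_lit 5) (nat_lit 23) (nat_lit 5) (nat_lit 289) (nat_lit 262) (nat_lit 169)) (XT.lf (nat_lit 0) (nat_lit 30611333661) (nat_lit 152) (nat_lit 31282755311) (nat_lit 228) (nat_lit 25448382659) (nat_lit 20) (nat_lit 5) (nat_lit 22) (nat_lit 5) (nat_lit 23) (nat_lit 5) (nat_lit 290) (nat_lit 262) (nat_lit 168))) (XT.nd (nat_lit 78) (nat_lit 304) (nat_lit 0) (XT.lf (nat_lit 0) (nat_lit 85180969502) (nat_lit 152) (nat_lit 16687847) (nat_lit 228) (nat_lit 7463013602) (nat_lit 20) (nat_lit 5) (nat_lit 22) (nat_lit 5) (nat_lit 23) (nat_lit 5) (nat_lit 291) (nat_lit 262) (nat_lit 167)) (XT.nd (nat_lit 78) (nat_lit 152) (nat_lit 0) (XT.lf (nat_lit 0) (nat_lit 12851128056) (nat_lit 152) (nat_lit 51875701775) (nat_lit 76) (nat_lit 33604525826) (nat_lit 18) (nat_lit 5) (nat_lit 20) (nat_lit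 5) (nat_lit 19) (nat_lit 5) (nat_lit 292) (nat_lit 262) (nat_lit 166)) (XT.lf (nat_lit 0) (nat_lit 403071040) (nat_lit 152) (nat_lit 34265080840) (nat_lit 228) (nat_lit 69774470304) (nat_lit 16) (nat_lit 5) (nat_lit 18) (nat_lit 5) (nat_lit 19) (nat_lit 5) (nat_lit 293) (nat_lit 262) (nat_lit 165))))))))
noncomputable def xc92 : XT := (XT.nd (nat_lit 1404) (nat_lit 152) (nat_lit 0) (XT.nd (nat_lit 702) (nat_lit 304) (nat_lit 0) (XT.nd (nat_lit 312) (nat_lit 304) (nat_lit 0) (XT.nd (nat_lit 156) (nat_lit 76) (nat_lit 0) (XT.nd (nat_lit 78) (nat_lit 76) (nat_lit 0) (XT.lf (nat_lit 0) (nat_lit 58711514573) (nat_lit 152) (nat_lit 419548590) (nat_lit 228) (nat_lit 51866705400) (nat_lit 16) (nat_lit 5) (nat_lit 18) (nat_lit 5) (nat_lit 19) (nat_lit 5) (nat_lit 294) (nat_lit 262) (nat_lit 164)) (XT.lf (nat_lit 0) (nat_lit 3138782094) (nat_lit 76) (nat_lit 83022464076) (nat_lit 152) (nat_lit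 31885572993) (nat_lit 15) (nat_lit 5) (nat_lit 16) (nat_lit 5) (nat_lit 17) (nat_lit 4) (nat_lit 295) (nat_lit 262) (nat_lit 163))) (XT.nd (nat_lit 78) (nat_lit 76) (nat_lit 0) (XT.lf (nat_lit 0) (nat_lit 64853010030) (nat_lit 76) (nat_lit 51415816878) (nat_lit 152) (nat_lit 9345221870) (nat_lit 15) (nat_lit 5) (nat_lit 16) (nat_lit 5) (nat_lit 17) (nat_lit 4) (nat_lit 296) (nat_lit 262) (nat_lit 162)) (XT.lf (nat_lit 0) (nat_lit 14515705710) (nat_lit 152) (nat_lit 2520822118) (nat_lit 76) (nat_lit 116738554774) (nat_lit 14) (nat_lit 5) (nat_lit 16) (nat_lit 5) (nat_lit 15) (nat_lit 5) (nat_lit 297) (nat_lit 262) (nat_lit 161)))) (XT.nd (nat_lit 156) (nat_lit 152) (nat_lit 0) (XT.nd (nat_lit 78) (nat_lit 0) (nat_lit 0) (XT.lf (nat_lit 0) (nat_lit 41263487498) (nat_lit 228) (nat_lit 80656843127) (nat_lit 76) (nat_lit 20595742302) (nat_lit 12) (nat_lit 5) (nat_lit 15) (nat_lit 5) (nat_lit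 13) (nat_lit 4) (nat_lit 298) (nat_lit 262) (nat_lit 160)) (XT.lf (nat_lit 0) (nat_lit 70480666537) (nat_lit 228) (nat_lit 20766398598) (nat_lit 76) (nat_lit 60692801725) (nat_lit 12) (nat_lit 5) (nat_lit 15) (nat_lit 5) (nat_lit 13) (nat_lit 4) (nat_lit 299) (nat_lit 262) (nat_lit 159))) (XT.nd (nat_lit 78) (nat_lit 76) (nat_lit 0) (XT.lf (nat_lit 0) (nat_lit 45363523030) (nat_lit 76) (nat_lit 57377797464) (nat_lit 152) (nat_lit 59340941669) (nat_lit 11) (nat_lit 5) (nat_lit 12) (nat_lit 5) (nat_lit 13) (nat_lit 4) (nat_lit 300) (nat_lit 262) (nat_lit 158)) (XT.nd (nat_lit 78) (nat_lit 76) (nat_lit 0) (XT.lf (nat_lit 0) (nat_lit 117521884975) (nat_lit 76) (nat_lit 20420632395) (nat_lit 152) (nat_lit 35075549861) (nat_lit 11) (nat_lit 5) (nat_lit 12) (nat_lit 5) (nat_lit 13) (nat_lit 4) (nat_lit 301) (nat_lit 262) (nat_lit 157)) (XT.lf (nat_lit 0) (nat_lit 10657617004) (nat_lit 76) (nat_lit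 165771013990) (nat_lit 76) (nat_lit 8376667133) (nat_lit 10) (nat_lit 4) (nat_lit 11) (nat_lit 5) (nat_lit 11) (nat_lit 4) (nat_lit 302) (nat_lit 262) (nat_lit 156)))))) (XT.nd (nat_lit 312) (nat_lit 152) (nat_lit 0) (XT.nd (nat_lit 156) (nat_lit 76) (nat_lit 0) (XT.nd (nat_lit 78) (nat_lit 0) (nat_lit 0) (XT.lf (nat_lit 0) (nat_lit 21128366738) (nat_lit 152) (nat_lit 114084535929) (nat_lit 76) (nat_lit 62240385159) (nat_lit 9) (nat_lit 5) (nat_lit 11) (nat_lit 5) (nat_lit 10) (nat_lit 4) (nat_lit 303) (nat_lit 262) (nat_lit 155)) (XT.lf (nat_lit 0) (nat_lit 52702530507) (nat_lit 152) (nat_lit 49360593616) (nat_lit 76) (nat_lit 109043018237) (nat_lit 9) (nat_lit 5) (nat_lit 11) (nat_lit 5) (nat_lit 10) (nat_lit 4) (nat_lit 304) (nat_lit 262) (nat_lit 154))) (XT.nd (nat_lit 78) (nat_lit 0) (nat_lit 0) (XT.lf (nat_lit 0) (nat_lit 21217573201) (nat_lit 76) (nat_lit 65914728569) (nat_lit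 152) (nat_lit 138702441638) (nat_lit 8) (nat_lit 5) (nat_lit 9) (nat_lit 5) (nat_lit 10) (nat_lit 4) (nat_lit 305) (nat_lit 262) (nat_lit 153)) (XT.lf (nat_lit 0) (nat_lit 99201979575) (nat_lit 76) (nat_lit 25972789744) (nat_lit 152) (nat_lit 116523949221) (nat_lit 8) (nat_lit 5) (nat_lit 9) (nat_lit 5) (nat_lit 10) (nat_lit 4) (nat_lit 306) (nat_lit 262) (nat_lit 152)))) (XT.nd (nat_lit 156) (nat_lit 152) (nat_lit 0) (XT.nd (nat_lit 78) (nat_lit 0) (nat_lit 0) (XT.lf (nat_lit 0) (nat_lit 166527200790) (nat_lit 152) (nat_lit 75677181651) (nat_lit 0) (nat_lit 16614102521) (nat_lit 8) (nat_lit 5) (nat_lit 10) (nat_lit 4) (nat_lit 8) (nat_lit 4) (nat_lit 307) (nat_lit 262) (nat_lit 151)) (XT.lf (nat_lit 0) (nat_lit 211624461108) (nat_lit 152) (nat_lit 3952343996) (nat_lit 0) (nat_lit 61709197362) (nat_lit 8) (nat_lit 5) (nat_lit 10) (nat_lit 4) (nat_lit 8) (nat_lit 4) (nat_lit 308) (nat_lit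 262) (nat_lit 150))) (XT.nd (nat_lit 78) (nat_lit 76) (nat_lit 0) (XT.lf (nat_lit 0) (nat_lit 75938835080) (nat_lit 76) (nat_lit 185575068215) (nat_lit 76) (nat_lit 35657799397) (nat_lit 7) (nat_lit 4) (nat_lit 8) (nat_lit 5) (nat_lit 8) (nat_lit 4) (nat_lit 309) (nat_lit 262) (nat_lit 149)) (XT.nd (nat_lit 78) (nat_lit 76) (nat_lit 0) (XT.lf (nat_lit 0) (nat_lit 162360376833) (nat_lit 76) (nat_lit 153101812167) (nat_lit 76) (nat_lit 3182686801) (nat_lit 7) (nat_lit 4) (nat_lit 8) (nat_lit 5) (nat_lit 8) (nat_lit 4) (nat_lit 310) (nat_lit 262) (nat_lit 148)) (XT.lf (nat_lit 0) (nat_lit 30868649715) (nat_lit 152) (nat_lit 86640112474) (nat_lit 76) (nat_lit 224302301341) (nat_lit 6) (nat_lit 5) (nat_lit 8) (nat_lit 5) (nat_lit 7) (nat_lit 4) (nat_lit 311) (nat_lit 262) (nat_lit 147))))))) (XT.nd (nat_lit 33696) (nat_lit 0) (nat_lit 4408) (XT.nd (nat_lit 312) (nat_lit 76) (nat_lit 0) (XT.nd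 (nat_lit 156) (nat_lit 0) (nat_lit 0) (XT.nd (nat_lit 78) (nat_lit 76) (nat_lit 0) (XT.lf (nat_lit 0) (nat_lit 67533066909) (nat_lit 152) (nat_lit 11479648916) (nat_lit 76) (nat_lit 287815198750) (nat_lit 6) (nat_lit 5) (nat_lit 8) (nat_lit 5) (nat_lit 7) (nat_lit 4) (nat_lit 312) (nat_lit 262) (nat_lit 146)) (XT.lf (nat_lit 0) (nat_lit 71996309223) (nat_lit 76) (nat_lit 36257456187) (nat_lit 152) (nat_lit 285536192861) (nat_lit 5) (nat_lit 5) (nat_lit 6) (nat_lit 5) (nat_lit 7) (nat_lit 4) (nat_lit 313) (nat_lit 262) (nat_lit 145))) (XT.nd (nat_lit 78) (nat_lit 0) (nat_lit 0) (XT.lf (nat_lit 0) (nat_lit 152589314361) (nat_lit 152) (nat_lit 260498453607) (nat_lit 0) (nat_lit 9803338658) (nat_lit 5) (nat_lit 5) (nat_lit 7) (nat_lit 4) (nat_lit 5) (nat_lit 4) (nat_lit 314) (nat_lit 262) (nat_lit 144)) (XT.lf (nat_lit 0) (nat_lit 201082238104) (nat_lit 152) (nat_lit 194912523990) (nat_lit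 0) (nat_lit 58295059035) (nat_lit 5) (nat_lit 5) (nat_lit 7) (nat_lit 4) (nat_lit 5) (nat_lit 4) (nat_lit 315) (nat_lit 262) (nat_lit 143)))) (XT.nd (nat_lit 156) (nat_lit 76) (nat_lit 0) (XT.nd (nat_lit 78) (nat_lit 0) (nat_lit 0) (XT.lf (nat_lit 0) (nat_lit 253453821612) (nat_lit 152) (nat_lit 124081122337) (nat_lit 0) (nat_lit 110665528314) (nat_lit 5) (nat_lit 5) (nat_lit 7) (nat_lit 4) (nat_lit 5) (nat_lit 4) (nat_lit 316) (nat_lit 262) (nat_lit 142)) (XT.lf (nat_lit 0) (nat_lit 310014415009) (nat_lit 152) (nat_lit 47584507008) (nat_lit 0) (nat_lit 167225090018) (nat_lit 5) (nat_lit 5) (nat_lit 7) (nat_lit 4) (nat_lit 5) (nat_lit 4) (nat_lit 317) (nat_lit 262) (nat_lit 141))) (XT.nd (nat_lit 78) (nat_lit 0) (nat_lit 0) (XT.lf (nat_lit 0) (nat_lit 36188906278) (nat_lit 76) (nat_lit 335475296150) (nat_lit 76) (nat_lit 192685015888) (nat_lit 4) (nat_lit 4) (nat_lit 5) (nat_lit 5) (nat_lit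 5) (nat_lit 4) (nat_lit 318) (nat_lit 262) (nat_lit 140)) (XT.nd (nat_lit 78) (nat_lit 0) (nat_lit 0) (XT.lf (nat_lit 0) (nat_lit 128362269998) (nat_lit 76) (nat_lit 310711961767) (nat_lit 76) (nat_lit 167920796994) (nat_lit 4) (nat_lit 4) (nat_lit 5) (nat_lit 5) (nat_lit 5) (nat_lit 4) (nat_lit 319) (nat_lit 262) (nat_lit 139)) (XT.lf (nat_lit 0) (nat_lit 227908437979) (nat_lit 76) (nat_lit 283968039833) (nat_lit 76) (nat_lit 141176056069) (nat_lit 4) (nat_lit 4) (nat_lit 5) (nat_lit 5) (nat_lit 5) (nat_lit 4) (nat_lit 320) (nat_lit 262) (nat_lit 138)))))) (XT.nd (nat_lit 390) (nat_lit 760) (nat_lit 0) (XT.nd (nat_lit 156) (nat_lit 0) (nat_lit 76) (XT.nd (nat_lit 78) (nat_lit 0) (nat_lit 0) (XT.lf (nat_lit 0) (nat_lit 2461830898) (nat_lit 0) (nat_lit 2461830898) (nat_lit 684) (nat_lit 7164365568) (nat_lit 72) (nat_lit 5) (nat_lit 72) (nat_lit 3) (nat_lit 81) (nat_lit 3) (nat_lit 263)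 (nat_lit 263) (nat_lit 194)) (XT.lf (nat_lit 0) (nat_lit 10590268326) (nat_lit 684) (nat_lit 2933261637) (nat_lit 760) (nat_lit 11601585309) (nat_lit 72) (nat_lit 5) (nat_lit 81) (nat_lit 3) (nat_lit 82) (nat_lit 5) (nat_lit 264) (nat_lit 263) (nat_lit 193))) (XT.nd (nat_lit 78) (nat_lit 0) (nat_lit 0) (XT.lf (nat_lit 0) (nat_lit 11747948295) (nat_lit 684) (nat_lit 11105905349) (nat_lit 760) (nat_lit 3278534962) (nat_lit 73) (nat_lit 5) (nat_lit 82) (nat_lit 5) (nat_lit 83) (nat_lit 5) (nat_lit 265) (nat_lit 263) (nat_lit 192)) (XT.nd (nat_lit 78) (nat_lit 0) (nat_lit 76) (XT.lf (nat_lit 76) (nat_lit 7305421094) (nat_lit 0) (nat_lit 6071923656) (nat_lit 760) (nat_lit 13823992963) (nat_lit 74) (nat_lit 5) (nat_lit 73) (nat_lit 5) (nat_lit 83) (nat_lit 5) (nat_lit 266) (nat_lit 263) (nat_lit 191)) (XT.lf (nat_lit 0) (nat_lit 15508012352) (nat_lit 684) (nat_lit 961228144) (nat_lit 760) (nat_lit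 11868061662) (nat_lit 74) (nat_lit 5) (nat_lit 83) (nat_lit 5) (nat_lit 84) (nat_lit 5) (nat_lit 267) (nat_lit 263) (nat_lit 190))))) (XT.nd (nat_lit 156) (nat_lit 988) (nat_lit 0) (XT.nd (nat_lit 78) (nat_lit 0) (nat_lit 0) (XT.lf (nat_lit 0) (nat_lit 18239385422) (nat_lit 684) (nat_lit 9555005877) (nat_lit 760) (nat_lit 1748281874) (nat_lit 75) (nat_lit 5) (nat_lit 84) (nat_lit 5) (nat_lit 85) (nat_lit 5) (nat_lit 268) (nat_lit 263) (nat_lit 189)) (XT.lf (nat_lit 76) (nat_lit 11896403271) (nat_lit 0) (nat_lit 9761329533) (nat_lit 760) (nat_lit 9163356748) (nat_lit 76) (nat_lit 5) (nat_lit 75) (nat_lit 5) (nat_lit 85) (nat_lit 5) (nat_lit 269) (nat_lit 263) (nat_lit 188))) (XT.nd (nat_lit 78) (nat_lit 380) (nat_lit 0) (XT.lf (nat_lit 0) (nat_lit 3148282197) (nat_lit 684) (nat_lit 22560045687) (nat_lit 760) (nat_lit 6475548386) (nat_lit 67) (nat_lit 5) (nat_lit 76) (nat_lit 5) (nat_lit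 77) (nat_lit 5) (nat_lit 270) (nat_lit 263) (nat_lit 187)) (XT.nd (nat_lit 78) (nat_lit 380) (nat_lit 0) (XT.lf (nat_lit 0) (nat_lit 27483511198) (nat_lit 684) (nat_lit 3080526287) (nat_lit 760) (nat_lit 3067628450) (nat_lit 67) (nat_lit 5) (nat_lit 76) (nat_lit 5) (nat_lit 77) (nat_lit 5) (nat_lit 271) (nat_lit 263) (nat_lit 186)) (XT.lf (nat_lit 0) (nat_lit 1168032271) (nat_lit 380) (nat_lit 16300695248) (nat_lit 76) (nat_lit 17697365964) (nat_lit 62) (nat_lit 5) (nat_lit 67) (nat_lit 5) (nat_lit 63) (nat_lit 5) (nat_lit 272) (nat_lit 263) (nat_lit 185))))))))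
noncomputable def xc93 : XT := (XT.nd (nat_lit 1404) (nat_lit 1064) (nat_lit 0) (XT.nd (nat_lit 702) (nat_lit 1216) (nat_lit 0) (XT.nd (nat_lit 312) (nat_lit 836) (nat_lit 0) (XT.nd (nat_lit 156) (nat_lit 608) (nat_lit 0) (XT.nd (nat_lit 78) (nat_lit 0) (nat_lit 0) (XT.lf (nat_lit 0) (nat_lit 5991017570) (nat_lit 456) (nat_lit 27390702219) (nat_lit 76) (nat_lit 3421270908) (nat_lit 57) (nat_lit 5) (nat_lit 63) (nat_lit 5) (nat_lit 58) (nat_lit 5) (nat_lit 273) (nat_lit 263) (nat_lit 184)) (XT.lf (nat_lit 0) (nat_lit 11774229358) (nat_lit 456) (nat_lit 1100632716) (nat_lit 76) (nat_lit 25667283448) (nat_lit 57) (nat_lit 5) (nat_lit 63) (nat_lit 5) (nat_lit 58) (nat_lit 5) (nat_lit 274) (nat_lit 263) (nat_lit 183))) (XT.nd (nat_lit 78) (nat_lit 304) (nat_lit 0) (XT.lf (nat_lit 0) (nat_lit 18604023577) (nat_lit 380) (nat_lit 12364562199) (nat_lit 76) (nat_lit 9422674032) (nat_lit 53) (nat_lit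 5) (nat_lit 58) (nat_lit 5) (nat_lit 54) (nat_lit 5) (nat_lit 275) (nat_lit 263) (nat_lit 182)) (XT.lf (nat_lit 0) (nat_lit 17469362995) (nat_lit 304) (nat_lit 9012511319) (nat_lit 380) (nat_lit 15881366894) (nat_lit 49) (nat_lit 5) (nat_lit 53) (nat_lit 5) (nat_lit 54) (nat_lit 5) (nat_lit 276) (nat_lit 263) (nat_lit 181)))) (XT.nd (nat_lit 156) (nat_lit 608) (nat_lit 0) (XT.nd (nat_lit 78) (nat_lit 0) (nat_lit 0) (XT.lf (nat_lit 0) (nat_lit 5586563963) (nat_lit 228) (nat_lit 29931805269) (nat_lit 304) (nat_lit 8948211102) (nat_lit 46) (nat_lit 5) (nat_lit 49) (nat_lit 5) (nat_lit 50) (nat_lit 5) (nat_lit 277) (nat_lit 263) (nat_lit 180)) (XT.lf (nat_lit 0) (nat_lit 39229246379) (nat_lit 228) (nat_lit 6624868759) (nat_lit 304) (nat_lit 855273417) (nat_lit 46) (nat_lit 5) (nat_lit 49) (nat_lit 5) (nat_lit 50) (nat_lit 5) (nat_lit 278) (nat_lit 263) (nat_lit 179))) (XT.nd (nat_lit 78)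 (nat_lit 228) (nat_lit 0) (XT.lf (nat_lit 0) (nat_lit 8349014829) (nat_lit 380) (nat_lit 22232652515) (nat_lit 76) (nat_lit 18508000613) (nat_lit 41) (nat_lit 5) (nat_lit 46) (nat_lit 5) (nat_lit 42) (nat_lit 5) (nat_lit 279) (nat_lit 263) (nat_lit 178)) (XT.nd (nat_lit 78) (nat_lit 0) (nat_lit 0) (XT.lf (nat_lit 0) (nat_lit 12829008074) (nat_lit 228) (nat_lit 5869417481) (nat_lit 304) (nat_lit 32939321045) (nat_lit 38) (nat_lit 5) (nat_lit 41) (nat_lit 5) (nat_lit 42) (nat_lit 5) (nat_lit 280) (nat_lit 263) (nat_lit 177)) (XT.lf (nat_lit 0) (nat_lit 30588686337) (nat_lit 304) (nat_lit 3219869470) (nat_lit 76) (nat_lit 20545484881) (nat_lit 38) (nat_lit 5) (nat_lit 42) (nat_lit 5) (nat_lit 39) (nat_lit 5) (nat_lit 281) (nat_lit 263) (nat_lit 176)))))) (XT.nd (nat_lit 312) (nat_lit 532) (nat_lit 0) (XT.nd (nat_lit 156) (nat_lit 304) (nat_lit 0) (XT.nd (nat_lit 78) (nat_lit 152) (nat_lit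 0) (XT.lf (nat_lit 0) (nat_lit 36270925232) (nat_lit 228) (nat_lit 7819145499) (nat_lit 304) (nat_lit 13164585411) (nat_lit 35) (nat_lit 5) (nat_lit 38) (nat_lit 5) (nat_lit 39) (nat_lit 5) (nat_lit 282) (nat_lit 263) (nat_lit 175)) (XT.lf (nat_lit 0) (nat_lit 18933322387) (nat_lit 152) (nat_lit 40401909791) (nat_lit 228) (nat_lit 1018917353) (nat_lit 33) (nat_lit 5) (nat_lit 35) (nat_lit 5) (nat_lit 36) (nat_lit 5) (nat_lit 283) (nat_lit 263) (nat_lit 174))) (XT.nd (nat_lit 78) (nat_lit 228) (nat_lit 0) (XT.lf (nat_lit 0) (nat_lit 12209628722) (nat_lit 228) (nat_lit 1223898424) (nat_lit 76) (nat_lit 50233718887) (nat_lit 32) (nat_lit 5) (nat_lit 35) (nat_lit 5) (nat_lit 33) (nat_lit 5) (nat_lit 284) (nat_lit 263) (nat_lit 173)) (XT.lf (nat_lit 0) (nat_lit 27393177285) (nat_lit 304) (nat_lit 23907786613) (nat_lit 76) (nat_lit 15896980154) (nat_lit 29) (nat_lit 5) (nat_lit 33) (nat_lit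 5) (nat_lit 30) (nat_lit 5) (nat_lit 285) (nat_lit 263) (nat_lit 172)))) (XT.nd (nat_lit 156) (nat_lit 380) (nat_lit 0) (XT.nd (nat_lit 78) (nat_lit 0) (nat_lit 0) (XT.lf (nat_lit 0) (nat_lit 20832607415) (nat_lit 152) (nat_lit 23527906132) (nat_lit 228) (nat_lit 26622138259) (nat_lit 27) (nat_lit 5) (nat_lit 29) (nat_lit 5) (nat_lit 30) (nat_lit 5) (nat_lit 286) (nat_lit 263) (nat_lit 171)) (XT.lf (nat_lit 0) (nat_lit 63205352267) (nat_lit 228) (nat_lit 5157358993) (nat_lit 76) (nat_lit 6681427551) (nat_lit 27) (nat_lit 5) (nat_lit 30) (nat_lit 5) (nat_lit 28) (nat_lit 5) (nat_lit 287) (nat_lit 263) (nat_lit 170))) (XT.nd (nat_lit 78) (nat_lit 152) (nat_lit 0) (XT.lf (nat_lit 0) (nat_lit 5099908394) (nat_lit 228) (nat_lit 35003364598) (nat_lit 76) (nat_lit 39268818702) (nat_lit 24) (nat_lit 5) (nat_lit 27) (nat_lit 5) (nat_lit 25) (nat_lit 5) (nat_lit 288) (nat_lit 263) (nat_lit 169))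 (XT.nd (nat_lit 78) (nat_lit 0) (nat_lit 0) (XT.lf (nat_lit 0) (nat_lit 14248585421) (nat_lit 152) (nat_lit 9045956087) (nat_lit 228) (nat_lit 60726261444) (nat_lit 22) (nat_lit 5) (nat_lit 24) (nat_lit 5) (nat_lit 25) (nat_lit 5) (nat_lit 289) (nat_lit 263) (nat_lit 168)) (XT.lf (nat_lit 0) (nat_lit 43943387668) (nat_lit 228) (nat_lit 20718268107) (nat_lit 76) (nat_lit 24329829574) (nat_lit 22) (nat_lit 5) (nat_lit 25) (nat_lit 5) (nat_lit 23) (nat_lit 5) (nat_lit 290) (nat_lit 263) (nat_lit 167))))))) (XT.nd (nat_lit 702) (nat_lit 304) (nat_lit 0) (XT.nd (nat_lit 312) (nat_lit 304) (nat_lit 0) (XT.nd (nat_lit 156) (nat_lit 304) (nat_lit 0) (XT.nd (nat_lit 78) (nat_lit 0) (nat_lit 0) (XT.lf (nat_lit 0) (nat_lit 33163776806) (nat_lit 152) (nat_lit 33747398079) (nat_lit 228) (nat_lit 27415301672) (nat_lit 20) (nat_lit 5) (nat_lit 22) (nat_lit 5) (nat_lit 23) (nat_lit 5) (nat_lit 291) (nat_lit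 263) (nat_lit 166)) (XT.lf (nat_lit 0) (nat_lit 92074440154) (nat_lit 228) (nat_lit 7979336624) (nat_lit 76) (nat_lit 16592982) (nat_lit 20) (nat_lit 5) (nat_lit 23) (nat_lit 5) (nat_lit 21) (nat_lit 4) (nat_lit 292) (nat_lit 263) (nat_lit 165))) (XT.nd (nat_lit 78) (nat_lit 152) (nat_lit 0) (XT.lf (nat_lit 0) (nat_lit 13938452349) (nat_lit 152) (nat_lit 55929524962) (nat_lit 76) (nat_lit 36326831309) (nat_lit 18) (nat_lit 5) (nat_lit 20) (nat_lit 5) (nat_lit 19) (nat_lit 5) (nat_lit 293) (nat_lit 263) (nat_lit 164)) (XT.lf (nat_lit 0) (nat_lit 527367512) (nat_lit 152) (nat_lit 36970520031) (nat_lit 228) (nat_lit 75297243401) (nat_lit 16) (nat_lit 5) (nat_lit 18) (nat_lit 5) (nat_lit 19) (nat_lit 5) (nat_lit 294) (nat_lit 263) (nat_lit 163)))) (XT.nd (nat_lit 156) (nat_lit 228) (nat_lit 0) (XT.nd (nat_lit 78) (nat_lit 76) (nat_lit 0) (XT.lf (nat_lit 0) (nat_lit 63493667951) (nat_lit 152)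 (nat_lit 419994629) (nat_lit 228) (nat_lit 55961241343) (nat_lit 16) (nat_lit 5) (nat_lit 18) (nat_lit 5) (nat_lit 19) (nat_lit 5) (nat_lit 295) (nat_lit 263) (nat_lit 162)) (XT.lf (nat_lit 0) (nat_lit 3473487584) (nat_lit 76) (nat_lit 89630696357) (nat_lit 152) (nat_lit 34383804400) (nat_lit 15) (nat_lit 5) (nat_lit 16) (nat_lit 5) (nat_lit 17) (nat_lit 4) (nat_lit 296) (nat_lit 263) (nat_lit 161))) (XT.nd (nat_lit 78) (nat_lit 228) (nat_lit 0) (XT.lf (nat_lit 0) (nat_lit 70118660946) (nat_lit 76) (nat_lit 55498003667) (nat_lit 152) (nat_lit 10044122552) (nat_lit 15) (nat_lit 5) (nat_lit 16) (nat_lit 5) (nat_lit 17) (nat_lit 4) (nat_lit 297) (nat_lit 263) (nat_lit 160)) (XT.nd (nat_lit 78) (nat_lit 152) (nat_lit 0) (XT.lf (nat_lit 0) (nat_lit 15720626812) (nat_lit 152) (nat_lit 2649307315) (nat_lit 76) (nat_lit 126104911060) (nat_lit 14) (nat_lit 5) (nat_lit 16) (nat_lit 5) (nat_lit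 15) (nat_lit 5) (nat_lit 298) (nat_lit 263) (nat_lit 159)) (XT.lf (nat_lit 0) (nat_lit 44606534233) (nat_lit 228) (nat_lit 87037702507) (nat_lit 76) (nat_lit 22270967348) (nat_lit 12) (nat_lit 5) (nat_lit 15) (nat_lit 5) (nat_lit 13) (nat_lit 4) (nat_lit 299) (nat_lit 263) (nat_lit 158)))))) (XT.nd (nat_lit 390) (nat_lit 76) (nat_lit 0) (XT.nd (nat_lit 156) (nat_lit 152) (nat_lit 0) (XT.nd (nat_lit 78) (nat_lit 76) (nat_lit 0) (XT.lf (nat_lit 0) (nat_lit 76157978874) (nat_lit 228) (nat_lit 22361332643) (nat_lit 76) (nat_lit 65573749623) (nat_lit 12) (nat_lit 5) (nat_lit 15) (nat_lit 5) (nat_lit 13) (nat_lit 4) (nat_lit 300) (nat_lit 263) (nat_lit 157)) (XT.lf (nat_lit 0) (nat_lit 49056098016) (nat_lit 76) (nat_lit 61941499992) (nat_lit 152) (nat_lit 64049348277) (nat_lit 11) (nat_lit 5) (nat_lit 12) (nat_lit 5) (nat_lit 13) (nat_lit 4) (nat_lit 301) (nat_lit 263) (nat_lit 156))) (XT.nd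 (nat_lit 78) (nat_lit 152) (nat_lit 0) (XT.lf (nat_lit 0) (nat_lit 126982425720) (nat_lit 76) (nat_lit 22029726255) (nat_lit 152) (nat_lit 37845604289) (nat_lit 11) (nat_lit 5) (nat_lit 12) (nat_lit 5) (nat_lit 13) (nat_lit 4) (nat_lit 302) (nat_lit 263) (nat_lit 155)) (XT.nd (nat_lit 78) (nat_lit 76) (nat_lit 0) (XT.lf (nat_lit 0) (nat_lit 11567774651) (nat_lit 76) (nat_lit 179008097735) (nat_lit 76) (nat_lit 9012160673) (nat_lit 10) (nat_lit 4) (nat_lit 11) (nat_lit 5) (nat_lit 11) (nat_lit 4) (nat_lit 303) (nat_lit 263) (nat_lit 154)) (XT.lf (nat_lit 0) (nat_lit 22849683429) (nat_lit 152) (nat_lit 123156950303) (nat_lit 76) (nat_lit 67241328268) (nat_lit 9) (nat_lit 5) (nat_lit 11) (nat_lit 5) (nat_lit 10) (nat_lit 4) (nat_lit 304) (nat_lit 263) (nat_lit 153))))) (XT.nd (nat_lit 156) (nat_lit 0) (nat_lit 0) (XT.nd (nat_lit 78) (nat_lit 76) (nat_lit 0) (XT.lf (nat_lit 0) (nat_lit 56947480496)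 (nat_lit 152) (nat_lit 53259118420) (nat_lit 76) (nat_lit 117786563674) (nat_lit 9) (nat_lit 5) (nat_lit 11) (nat_lit 5) (nat_lit 10) (nat_lit 4) (nat_lit 305) (nat_lit 263) (nat_lit 152)) (XT.lf (nat_lit 0) (nat_lit 22963114780) (nat_lit 76) (nat_lit 71167140765) (nat_lit 152) (nat_lit 149769867574) (nat_lit 8) (nat_lit 5) (nat_lit 9) (nat_lit 5) (nat_lit 10) (nat_lit 4) (nat_lit 306) (nat_lit 263) (nat_lit 151))) (XT.nd (nat_lit 78) (nat_lit 0) (nat_lit 0) (XT.lf (nat_lit 0) (nat_lit 107182708055) (nat_lit 76) (nat_lit 28031385064) (nat_lit 152) (nat_lit 125819226830) (nat_lit 8) (nat_lit 5) (nat_lit 9) (nat_lit 5) (nat_lit 10) (nat_lit 4) (nat_lit 307) (nat_lit 263) (nat_lit 150)) (XT.nd (nat_lit 78) (nat_lit 0) (nat_lit 0) (XT.lf (nat_lit 0) (nat_lit 179873119867) (nat_lit 152) (nat_lit 81689165453) (nat_lit 0) (nat_lit 17960464472) (nat_lit 8) (nat_lit 5) (nat_lit 10) (nat_lit 4)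 (nat_lit 8) (nat_lit 4) (nat_lit 308) (nat_lit 263) (nat_lit 149)) (XT.lf (nat_lit 0) (nat_lit 228576402269) (nat_lit 152) (nat_lit 4229466025) (nat_lit 0) (nat_lit 66661890326) (nat_lit 8) (nat_lit 5) (nat_lit 10) (nat_lit 4) (nat_lit 8) (nat_lit 4) (nat_lit 309) (nat_lit 263) (nat_lit 148))))))))
noncomputable def xc94 : XT := (XT.nd (nat_lit 34476) (nat_lit 0) (nat_lit 1520) (XT.nd (nat_lit 702) (nat_lit 76) (nat_lit 0) (XT.nd (nat_lit 312) (nat_lit 76) (nat_lit 0) (XT.nd (nat_lit 156) (nat_lit 76) (nat_lit 0) (XT.nd (nat_lit 78) (nat_lit 0) (nat_lit 0) (XT.lf (nat_lit 0) (nat_lit 82051309638) (nat_lit 76) (nat_lit 200404645143) (nat_lit 76) (nat_lit 38488414174) (nat_lit 7) (nat_lit 4) (nat_lit 8) (nat_lit 5) (nat_lit 8) (nat_lit 4) (nat_lit 310) (nat_lit 263) (nat_lit 147)) (XT.lf (nat_lit 0) (nat_lit 175383806750) (nat_lit 76) (nat_lit 165334745539) (nat_lit 76) (nat_lit 3416922880)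 (nat_lit 7) (nat_lit 4) (nat_lit 8) (nat_lit 5) (nat_lit 8) (nat_lit 4) (nat_lit 311) (nat_lit 263) (nat_lit 146))) (XT.nd (nat_lit 78) (nat_lit 0) (nat_lit 0) (XT.lf (nat_lit 0) (nat_lit 33356407076) (nat_lit 152) (nat_lit 93538661938) (nat_lit 76) (nat_lit 242259947556) (nat_lit 6) (nat_lit 5) (nat_lit 8) (nat_lit 5) (nat_lit 7) (nat_lit 4) (nat_lit 312) (nat_lit 263) (nat_lit 145)) (XT.lf (nat_lit 0) (nat_lit 72952624655) (nat_lit 152) (nat_lit 12367780521) (nat_lit 76) (nat_lit 310852879565) (nat_lit 6) (nat_lit 5) (nat_lit 8) (nat_lit 5) (nat_lit 7) (nat_lit 4) (nat_lit 313) (nat_lit 263) (nat_lit 144)))) (XT.nd (nat_lit 156) (nat_lit 0) (nat_lit 0) (XT.nd (nat_lit 78) (nat_lit 0) (nat_lit 0) (XT.lf (nat_lit 0) (nat_lit 77784940063) (nat_lit 76) (nat_lit 39145237821) (nat_lit 152) (nat_lit 308362155394) (nat_lit 5) (nat_lit 5) (nat_lit 6) (nat_lit 5) (nat_lit 7) (nat_lit 4) (nat_lit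 314) (nat_lit 263) (nat_lit 143)) (XT.lf (nat_lit 0) (nat_lit 164811562580) (nat_lit 152) (nat_lit 281310970930) (nat_lit 0) (nat_lit 10599091590) (nat_lit 5) (nat_lit 5) (nat_lit 7) (nat_lit 4) (nat_lit 5) (nat_lit 4) (nat_lit 315) (nat_lit 263) (nat_lit 142))) (XT.nd (nat_lit 78) (nat_lit 0) (nat_lit 0) (XT.lf (nat_lit 0) (nat_lit 217182801477) (nat_lit 152) (nat_lit 210480193535) (nat_lit 0) (nat_lit 62969298793) (nat_lit 5) (nat_lit 5) (nat_lit 7) (nat_lit 4) (nat_lit 5) (nat_lit 4) (nat_lit 316) (nat_lit 263) (nat_lit 141)) (XT.nd (nat_lit 78) (nat_lit 0) (nat_lit 0) (XT.lf (nat_lit 0) (nat_lit 273743075789) (nat_lit 152) (nat_lit 133984156222) (nat_lit 0) (nat_lit 119528617834) (nat_lit 5) (nat_lit 5) (nat_lit 7) (nat_lit 4) (nat_lit 5) (nat_lit 4) (nat_lit 317) (nat_lit 263) (nat_lit 140)) (XT.lf (nat_lit 0) (nat_lit 334827557514) (nat_lit 152) (nat_lit 51369549140) (nat_lit 0)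 (nat_lit 180612215048) (nat_lit 5) (nat_lit 5) (nat_lit 7) (nat_lit 4) (nat_lit 5) (nat_lit 4) (nat_lit 318) (nat_lit 263) (nat_lit 139)))))) (XT.nd (nat_lit 33384) (nat_lit 0) (nat_lit 5244) (XT.nd (nat_lit 33228) (nat_lit 0) (nat_lit 5168) (XT.nd (nat_lit 78) (nat_lit 0) (nat_lit 0) (XT.lf (nat_lit 0) (nat_lit 39104793352) (nat_lit 76) (nat_lit 362303970827) (nat_lit 76) (nat_lit 208087809370) (nat_lit 4) (nat_lit 4) (nat_lit 5) (nat_lit 5) (nat_lit 5) (nat_lit 4) (nat_lit 319) (nat_lit 263) (nat_lit 138)) (XT.lf (nat_lit 0) (nat_lit 138650487313) (nat_lit 76) (nat_lit 335560262213) (nat_lit 76) (nat_lit 181343342431) (nat_lit 4) (nat_lit 4) (nat_lit 5) (nat_lit 5) (nat_lit 5) (nat_lit 4) (nat_lit 320) (nat_lit 263) (nat_lit 137))) (XT.nd (nat_lit 78) (nat_lit 0) (nat_lit 0) (XT.lf (nat_lit 0) (nat_lit 2737794889) (nat_lit 0) (nat_lit 2737794889) (nat_lit 684) (nat_lit 7571061690) (nat_lit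 72) (nat_lit 5) (nat_lit 72) (nat_lit 3) (nat_lit 81) (nat_lit 3) (nat_lit 264) (nat_lit 264) (nat_lit 192)) (XT.lf (nat_lit 0) (nat_lit 11727862668) (nat_lit 684) (nat_lit 3003720181) (nat_lit 760) (nat_lit 12388066828) (nat_lit 72) (nat_lit 5) (nat_lit 81) (nat_lit 3) (nat_lit 82) (nat_lit 5) (nat_lit 265) (nat_lit 264) (nat_lit 191)))) (XT.nd (nat_lit 156) (nat_lit 0) (nat_lit 76) (XT.nd (nat_lit 78) (nat_lit 0) (nat_lit 0) (XT.lf (nat_lit 0) (nat_lit 12957316422) (nat_lit 684) (nat_lit 11821076523) (nat_lit 760) (nat_lit 3430224793) (nat_lit 73) (nat_lit 5) (nat_lit 82) (nat_lit 5) (nat_lit 83) (nat_lit 5) (nat_lit 266) (nat_lit 264) (nat_lit 190)) (XT.lf (nat_lit 76) (nat_lit 8055624575) (nat_lit 0) (nat_lit 6644062796) (nat_lit 760) (nat_lit 14664329844) (nat_lit 74) (nat_lit 5) (nat_lit 73) (nat_lit 5) (nat_lit 83) (nat_lit 5) (nat_lit 267) (nat_lit 264) (nat_lit 189))) (XT.nd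 (nat_lit 78) (nat_lit 0) (nat_lit 76) (XT.lf (nat_lit 0) (nat_lit 16980881419) (nat_lit 684) (nat_lit 870954151) (nat_lit 760) (nat_lit 12740080317) (nat_lit 74) (nat_lit 5) (nat_lit 83) (nat_lit 5) (nat_lit 84) (nat_lit 5) (nat_lit 268) (nat_lit 264) (nat_lit 188)) (XT.nd (nat_lit 78) (nat_lit 0) (nat_lit 0) (XT.lf (nat_lit 0) (nat_lit 19915159315) (nat_lit 684) (nat_lit 10147020721) (nat_lit 760) (nat_lit 1832373024) (nat_lit 75) (nat_lit 5) (nat_lit 84) (nat_lit 5) (nat_lit 85) (nat_lit 5) (nat_lit 269) (nat_lit 264) (nat_lit 187)) (XT.lf (nat_lit 76) (nat_lit 13013009490) (nat_lit 0) (nat_lit 10580493302) (nat_lit 760) (nat_lit 9682465602) (nat_lit 76) (nat_lit 5) (nat_lit 75) (nat_lit 5) (nat_lit 85) (nat_lit 5) (nat_lit 270) (nat_lit 264) (nat_lit 186))))))) (XT.nd (nat_lit 702) (nat_lit 1672) (nat_lit 0) (XT.nd (nat_lit 312) (nat_lit 836) (nat_lit 0) (XT.nd (nat_lit 156) (nat_lit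 760) (nat_lit 0) (XT.nd (nat_lit 78) (nat_lit 0) (nat_lit 0) (XT.lf (nat_lit 0) (nat_lit 3568782594) (nat_lit 684) (nat_lit 24386394484) (nat_lit 760) (nat_lit 6793297595) (nat_lit 67) (nat_lit 5) (nat_lit 76) (nat_lit 5) (nat_lit 77) (nat_lit 5) (nat_lit 271) (nat_lit 264) (nat_lit 185)) (XT.lf (nat_lit 0) (nat_lit 29838338225) (nat_lit 684) (nat_lit 3346917596) (nat_lit 760) (nat_lit 3127580706) (nat_lit 67) (nat_lit 5) (nat_lit 76) (nat_lit 5) (nat_lit 77) (nat_lit 5) (nat_lit 272) (nat_lit 264) (nat_lit 184))) (XT.nd (nat_lit 78) (nat_lit 380) (nat_lit 0) (XT.lf (nat_lit 0) (nat_lit 1429923003) (nat_lit 380) (nat_lit 17440075290) (nat_lit 76) (nat_lit 19100468271) (nat_lit 62) (nat_lit 5) (nat_lit 67) (nat_lit 5) (nat_lit 63) (nat_lit 5) (nat_lit 273) (nat_lit 264) (nat_lit 183)) (XT.lf (nat_lit 0) (nat_lit 6628714576) (nat_lit 456) (nat_lit 29416048160) (nat_lit 76) (nat_lit 3694090890)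 (nat_lit 57) (nat_lit 5) (nat_lit 63) (nat_lit 5) (nat_lit 58) (nat_lit 5) (nat_lit 274) (nat_lit 264) (nat_lit 182)))) (XT.nd (nat_lit 156) (nat_lit 532) (nat_lit 0) (XT.nd (nat_lit 78) (nat_lit 304) (nat_lit 0) (XT.lf (nat_lit 0) (nat_lit 12862848818) (nat_lit 456) (nat_lit 1035062744) (nat_lit 76) (nat_lit 27719849743) (nat_lit 57) (nat_lit 5) (nat_lit 63) (nat_lit 5) (nat_lit 58) (nat_lit 5) (nat_lit 275) (nat_lit 264) (nat_lit 181)) (XT.lf (nat_lit 0) (nat_lit 20230593451) (nat_lit 380) (nat_lit 13199624618) (nat_lit 76) (nat_lit 10185039567) (nat_lit 53) (nat_lit 5) (nat_lit 58) (nat_lit 5) (nat_lit 54) (nat_lit 5) (nat_lit 276) (nat_lit 264) (nat_lit 180))) (XT.nd (nat_lit 78) (nat_lit 228) (nat_lit 0) (XT.lf (nat_lit 0) (nat_lit 19014317483) (nat_lit 304) (nat_lit 9716415585) (nat_lit 380) (nat_lit 17014690370) (nat_lit 49) (nat_lit 5) (nat_lit 53) (nat_lit 5) (nat_lit 54) (nat_lit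 5) (nat_lit 277) (nat_lit 264) (nat_lit 179)) (XT.nd (nat_lit 78) (nat_lit 0) (nat_lit 0) (XT.lf (nat_lit 0) (nat_lit 6180811340) (nat_lit 228) (nat_lit 32302231002) (nat_lit 304) (nat_lit 9534369400) (nat_lit 46) (nat_lit 5) (nat_lit 49) (nat_lit 5) (nat_lit 50) (nat_lit 5) (nat_lit 278) (nat_lit 264) (nat_lit 178)) (XT.lf (nat_lit 0) (nat_lit 42503995589) (nat_lit 228) (nat_lit 7132526141) (nat_lit 304) (nat_lit 803604003) (nat_lit 46) (nat_lit 5) (nat_lit 49) (nat_lit 5) (nat_lit 50) (nat_lit 5) (nat_lit 279) (nat_lit 264) (nat_lit 177)))))) (XT.nd (nat_lit 390) (nat_lit 684) (nat_lit 0) (XT.nd (nat_lit 156) (nat_lit 380) (nat_lit 0) (XT.nd (nat_lit 78) (nat_lit 228) (nat_lit 0) (XT.lf (nat_lit 0) (nat_lit 9127057398) (nat_lit 380) (nat_lit 23871449860) (nat_lit 76) (nat_lit 20012554665) (nat_lit 41) (nat_lit 5) (nat_lit 46) (nat_lit 5) (nat_lit 42) (nat_lit 5) (nat_lit 280) (nat_lit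 264) (nat_lit 176)) (XT.lf (nat_lit 0) (nat_lit 13989067393) (nat_lit 228) (nat_lit 6309284485) (nat_lit 304) (nat_lit 35464958687) (nat_lit 38) (nat_lit 5) (nat_lit 41) (nat_lit 5) (nat_lit 42) (nat_lit 5) (nat_lit 281) (nat_lit 264) (nat_lit 175))) (XT.nd (nat_lit 78) (nat_lit 380) (nat_lit 0) (XT.lf (nat_lit 0) (nat_lit 33132555101) (nat_lit 304) (nat_lit 3349004446) (nat_lit 76) (nat_lit 22215731306) (nat_lit 38) (nat_lit 5) (nat_lit 42) (nat_lit 5) (nat_lit 39) (nat_lit 5) (nat_lit 282) (nat_lit 264) (nat_lit 174)) (XT.nd (nat_lit 78) (nat_lit 152) (nat_lit 0) (XT.lf (nat_lit 0) (nat_lit 39295471353) (nat_lit 228) (nat_lit 8413328838) (nat_lit 304) (nat_lit 14121435217) (nat_lit 35) (nat_lit 5) (nat_lit 38) (nat_lit 5) (nat_lit 39) (nat_lit 5) (nat_lit 283) (nat_lit 264) (nat_lit 173)) (XT.lf (nat_lit 0) (nat_lit 20569637162) (nat_lit 152) (nat_lit 43599510313) (nat_lit 228) (nat_lit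 1008778224) (nat_lit 33) (nat_lit 5) (nat_lit 35) (nat_lit 5) (nat_lit 36) (nat_lit 5) (nat_lit 284) (nat_lit 264) (nat_lit 172))))) (XT.nd (nat_lit 156) (nat_lit 380) (nat_lit 0) (XT.nd (nat_lit 78) (nat_lit 228) (nat_lit 0) (XT.lf (nat_lit 0) (nat_lit 13268546301) (nat_lit 228) (nat_lit 1206278978) (nat_lit 76) (nat_lit 54281515861) (nat_lit 32) (nat_lit 5) (nat_lit 35) (nat_lit 5) (nat_lit 33) (nat_lit 5) (nat_lit 285) (nat_lit 264) (nat_lit 171)) (XT.lf (nat_lit 0) (nat_lit 29662930038) (nat_lit 304) (nat_lit 25706356498) (nat_lit 76) (nat_lit 17200414026) (nat_lit 29) (nat_lit 5) (nat_lit 33) (nat_lit 5) (nat_lit 30) (nat_lit 5) (nat_lit 286) (nat_lit 264) (nat_lit 170))) (XT.nd (nat_lit 78) (nat_lit 228) (nat_lit 0) (XT.lf (nat_lit 0) (nat_lit 22608312446) (nat_lit 152) (nat_lit 25375244162) (nat_lit 228) (nat_lit 28673845312) (nat_lit 27) (nat_lit 5) (nat_lit 29) (nat_lit 5) (nat_lit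 30) (nat_lit 5) (nat_lit 287) (nat_lit 264) (nat_lit 169)) (XT.nd (nat_lit 78) (nat_lit 228) (nat_lit 0) (XT.lf (nat_lit 0) (nat_lit 68330990428) (nat_lit 228) (nat_lit 5465860984) (nat_lit 76) (nat_lit 7247217329) (nat_lit 27) (nat_lit 5) (nat_lit 30) (nat_lit 5) (nat_lit 28) (nat_lit 5) (nat_lit 288) (nat_lit 264) (nat_lit 168)) (XT.lf (nat_lit 0) (nat_lit 5574740958) (nat_lit 228) (nat_lit 37701736437) (nat_lit 76) (nat_lit 42441915587) (nat_lit 24) (nat_lit 5) (nat_lit 27) (nat_lit 5) (nat_lit 25) (nat_lit 5) (nat_lit 289) (nat_lit 264) (nat_lit 167))))))))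
noncomputable def xc95 : XT := (XT.nd (nat_lit 1404) (nat_lit 304) (nat_lit 0) (XT.nd (nat_lit 702) (nat_lit 532) (nat_lit 0) (XT.nd (nat_lit 312) (nat_lit 380) (nat_lit 0) (XT.nd (nat_lit 156) (nat_lit 152) (nat_lit 0) (XT.nd (nat_lit 78) (nat_lit 0) (nat_lit 0) (XT.lf (nat_lit 0) (nat_lit 15485941250) (nat_lit 152) (nat_lit 9735574132) (nat_lit 228) (nat_lit 65517666415) (nat_lit 22) (nat_lit 5) (nat_lit 24) (nat_lit 5) (nat_lit 25) (nat_lit 5) (nat_lit 290) (nat_lit 264) (nat_lit 166)) (XT.lf (nat_lit 0) (nat_lit 47518064516) (nat_lit 228) (nat_lit 22282930816) (nat_lit 76) (nat_lit 26306742198) (nat_lit 22) (nat_lit 5) (nat_lit 25) (nat_lit 5) (nat_lit 23) (nat_lit 5) (nat_lit 291) (nat_lit 264) (nat_lit 165))) (XT.nd (nat_lit 78) (nat_lit 0) (nat_lit 0) (XT.lf (nat_lit 0) (nat_lit 35905644771) (nat_lit 152) (nat_lit 36414630205) (nat_lit 228) (nat_lit 29549410924) (nat_lit 20) (nat_lit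 5) (nat_lit 22) (nat_lit 5) (nat_lit 23) (nat_lit 5) (nat_lit 292) (nat_lit 264) (nat_lit 164)) (XT.lf (nat_lit 0) (nat_lit 99492908745) (nat_lit 228) (nat_lit 8533270356) (nat_lit 76) (nat_lit 47103389) (nat_lit 20) (nat_lit 5) (nat_lit 23) (nat_lit 5) (nat_lit 21) (nat_lit 4) (nat_lit 293) (nat_lit 264) (nat_lit 163)))) (XT.nd (nat_lit 156) (nat_lit 76) (nat_lit 0) (XT.nd (nat_lit 78) (nat_lit 152) (nat_lit 0) (XT.lf (nat_lit 0) (nat_lit 15104312185) (nat_lit 152) (nat_lit 60321382711) (nat_lit 76) (nat_lit 39262078823) (nat_lit 18) (nat_lit 5) (nat_lit 20) (nat_lit 5) (nat_lit 19) (nat_lit 5) (nat_lit 294) (nat_lit 264) (nat_lit 162)) (XT.lf (nat_lit 0) (nat_lit 648475627) (nat_lit 152) (nat_lit 39897496958) (nat_lit 228) (nat_lit 81270281679) (nat_lit 16) (nat_lit 5) (nat_lit 18) (nat_lit 5) (nat_lit 19) (nat_lit 5) (nat_lit 295) (nat_lit 264) (nat_lit 161))) (XT.nd (nat_lit 78) (nat_lit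 76) (nat_lit 0) (XT.lf (nat_lit 0) (nat_lit 68646234270) (nat_lit 152) (nat_lit 425200981) (nat_lit 228) (nat_lit 60391158064) (nat_lit 16) (nat_lit 5) (nat_lit 18) (nat_lit 5) (nat_lit 19) (nat_lit 5) (nat_lit 296) (nat_lit 264) (nat_lit 160)) (XT.nd (nat_lit 78) (nat_lit 0) (nat_lit 0) (XT.lf (nat_lit 0) (nat_lit 3823042621) (nat_lit 76) (nat_lit 96772375620) (nat_lit 152) (nat_lit 37089400356) (nat_lit 15) (nat_lit 5) (nat_lit 16) (nat_lit 5) (nat_lit 17) (nat_lit 4) (nat_lit 297) (nat_lit 264) (nat_lit 159)) (XT.lf (nat_lit 0) (nat_lit 75794520517) (nat_lit 76) (nat_lit 59911199104) (nat_lit 152) (nat_lit 10805885324) (nat_lit 15) (nat_lit 5) (nat_lit 16) (nat_lit 5) (nat_lit 17) (nat_lit 4) (nat_lit 298) (nat_lit 264) (nat_lit 158)))))) (XT.nd (nat_lit 312) (nat_lit 228) (nat_lit 0) (XT.nd (nat_lit 156) (nat_lit 76) (nat_lit 0) (XT.nd (nat_lit 78) (nat_lit 152) (nat_lit 0) (XT.lf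 (nat_lit 0) (nat_lit 17015712353) (nat_lit 152) (nat_lit 2798511355) (nat_lit 76) (nat_lit 136216685206) (nat_lit 14) (nat_lit 5) (nat_lit 16) (nat_lit 5) (nat_lit 15) (nat_lit 5) (nat_lit 299) (nat_lit 264) (nat_lit 157)) (XT.lf (nat_lit 0) (nat_lit 48211037539) (nat_lit 228) (nat_lit 93939257741) (nat_lit 76) (nat_lit 24076277848) (nat_lit 12) (nat_lit 5) (nat_lit 15) (nat_lit 5) (nat_lit 13) (nat_lit 4) (nat_lit 300) (nat_lit 264) (nat_lit 156))) (XT.nd (nat_lit 78) (nat_lit 76) (nat_lit 0) (XT.lf (nat_lit 0) (nat_lit 82283932524) (nat_lit 228) (nat_lit 24093330952) (nat_lit 76) (nat_lit 70841532104) (nat_lit 12) (nat_lit 5) (nat_lit 15) (nat_lit 5) (nat_lit 13) (nat_lit 4) (nat_lit 301) (nat_lit 264) (nat_lit 155)) (XT.lf (nat_lit 0) (nat_lit 53035020994) (nat_lit 76) (nat_lit 66874082277) (nat_lit 152) (nat_lit 69139972472) (nat_lit 11) (nat_lit 5) (nat_lit 12) (nat_lit 5) (nat_lit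 13) (nat_lit 4) (nat_lit 302) (nat_lit 264) (nat_lit 154)))) (XT.nd (nat_lit 156) (nat_lit 152) (nat_lit 0) (XT.nd (nat_lit 78) (nat_lit 76) (nat_lit 0) (XT.lf (nat_lit 0) (nat_lit 137191422682) (nat_lit 76) (nat_lit 23771050917) (nat_lit 152) (nat_lit 40842397385) (nat_lit 11) (nat_lit 5) (nat_lit 12) (nat_lit 5) (nat_lit 13) (nat_lit 4) (nat_lit 303) (nat_lit 264) (nat_lit 153)) (XT.lf (nat_lit 0) (nat_lit 12542535003) (nat_lit 76) (nat_lit 193307657270) (nat_lit 76) (nat_lit 9703435454) (nat_lit 10) (nat_lit 4) (nat_lit 11) (nat_lit 5) (nat_lit 11) (nat_lit 4) (nat_lit 304) (nat_lit 264) (nat_lit 152))) (XT.nd (nat_lit 78) (nat_lit 76) (nat_lit 0) (XT.lf (nat_lit 0) (nat_lit 24704276204) (nat_lit 152) (nat_lit 132962911248) (nat_lit 76) (nat_lit 72639249324) (nat_lit 9) (nat_lit 5) (nat_lit 11) (nat_lit 5) (nat_lit 10) (nat_lit 4) (nat_lit 305) (nat_lit 264) (nat_lit 151)) (XT.nd (nat_lit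 78) (nat_lit 76) (nat_lit 0) (XT.lf (nat_lit 0) (nat_lit 61527925325) (nat_lit 152) (nat_lit 57476704301) (nat_lit 76) (nat_lit 127226724689) (nat_lit 9) (nat_lit 5) (nat_lit 11) (nat_lit 5) (nat_lit 10) (nat_lit 4) (nat_lit 306) (nat_lit 264) (nat_lit 150)) (XT.lf (nat_lit 0) (nat_lit 24841432587) (nat_lit 76) (nat_lit 76842708452) (nat_lit 152) (nat_lit 161726791861) (nat_lit 8) (nat_lit 5) (nat_lit 9) (nat_lit 5) (nat_lit 10) (nat_lit 4) (nat_lit 307) (nat_lit 264) (nat_lit 149))))))) (XT.nd (nat_lit 702) (nat_lit 76) (nat_lit 0) (XT.nd (nat_lit 312) (nat_lit 152) (nat_lit 0) (XT.nd (nat_lit 156) (nat_lit 76) (nat_lit 0) (XT.nd (nat_lit 78) (nat_lit 0) (nat_lit 0) (XT.lf (nat_lit 0) (nat_lit 115795536388) (nat_lit 76) (nat_lit 30257411078) (nat_lit 152) (nat_lit 135861926904) (nat_lit 8) (nat_lit 5) (nat_lit 9) (nat_lit 5) (nat_lit 10) (nat_lit 4) (nat_lit 308) (nat_lit 264) (nat_lit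 148)) (XT.lf (nat_lit 0) (nat_lit 194283325263) (nat_lit 152) (nat_lit 88188126939) (nat_lit 0) (nat_lit 19412076791) (nat_lit 8) (nat_lit 5) (nat_lit 10) (nat_lit 4) (nat_lit 8) (nat_lit 4) (nat_lit 309) (nat_lit 264) (nat_lit 147))) (XT.nd (nat_lit 78) (nat_lit 76) (nat_lit 0) (XT.lf (nat_lit 0) (nat_lit 246881362419) (nat_lit 152) (nat_lit 4534330945) (nat_lit 0) (nat_lit 72008522257) (nat_lit 8) (nat_lit 5) (nat_lit 10) (nat_lit 4) (nat_lit 8) (nat_lit 4) (nat_lit 310) (nat_lit 264) (nat_lit 146)) (XT.lf (nat_lit 0) (nat_lit 88647451234) (nat_lit 76) (nat_lit 216422931938) (nat_lit 76) (nat_lit 41548617988) (nat_lit 7) (nat_lit 4) (nat_lit 8) (nat_lit 5) (nat_lit 8) (nat_lit 4) (nat_lit 311) (nat_lit 264) (nat_lit 145)))) (XT.nd (nat_lit 156) (nat_lit 76) (nat_lit 0) (XT.nd (nat_lit 78) (nat_lit 76) (nat_lit 0) (XT.lf (nat_lit 0) (nat_lit 189444175016) (nat_lit 76) (nat_lit 178548483686)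 (nat_lit 76) (nat_lit 3672805118) (nat_lit 7) (nat_lit 4) (nat_lit 8) (nat_lit 5) (nat_lit 8) (nat_lit 4) (nat_lit 312) (nat_lit 264) (nat_lit 144)) (XT.lf (nat_lit 0) (nat_lit 36040579265) (nat_lit 152) (nat_lit 100993754608) (nat_lit 76) (nat_lit 261652284947) (nat_lit 6) (nat_lit 5) (nat_lit 8) (nat_lit 5) (nat_lit 7) (nat_lit 4) (nat_lit 313) (nat_lit 264) (nat_lit 143))) (XT.nd (nat_lit 78) (nat_lit 76) (nat_lit 0) (XT.lf (nat_lit 0) (nat_lit 78803334278) (nat_lit 152) (nat_lit 13331276772) (nat_lit 76) (nat_lit 335731796585) (nat_lit 6) (nat_lit 5) (nat_lit 8) (nat_lit 5) (nat_lit 7) (nat_lit 4) (nat_lit 314) (nat_lit 264) (nat_lit 142)) (XT.nd (nat_lit 78) (nat_lit 0) (nat_lit 0) (XT.lf (nat_lit 0) (nat_lit 84032534738) (nat_lit 76) (nat_lit 42265870168) (nat_lit 152) (nat_lit 333016610595) (nat_lit 5) (nat_lit 5) (nat_lit 6) (nat_lit 5) (nat_lit 7) (nat_lit 4) (nat_lit 315) (nat_lit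 264) (nat_lit 141)) (XT.lf (nat_lit 0) (nat_lit 178009436035) (nat_lit 152) (nat_lit 303792392701) (nat_lit 0) (nat_lit 11456866172) (nat_lit 5) (nat_lit 5) (nat_lit 7) (nat_lit 4) (nat_lit 5) (nat_lit 4) (nat_lit 316) (nat_lit 264) (nat_lit 140)))))) (XT.nd (nat_lit 33540) (nat_lit 0) (nat_lit 5168) (XT.nd (nat_lit 156) (nat_lit 76) (nat_lit 0) (XT.nd (nat_lit 78) (nat_lit 0) (nat_lit 0) (XT.lf (nat_lit 0) (nat_lit 234569414899) (nat_lit 152) (nat_lit 227296890589) (nat_lit 0) (nat_lit 68015960526) (nat_lit 5) (nat_lit 5) (nat_lit 7) (nat_lit 4) (nat_lit 5) (nat_lit 4) (nat_lit 317) (nat_lit 264) (nat_lit 139)) (XT.lf (nat_lit 0) (nat_lit 295653623060) (nat_lit 152) (nat_lit 144682779063) (nat_lit 0) (nat_lit 129099349696) (nat_lit 5) (nat_lit 5) (nat_lit 7) (nat_lit 4) (nat_lit 5) (nat_lit 4) (nat_lit 318) (nat_lit 264) (nat_lit 138))) (XT.nd (nat_lit 78) (nat_lit 76) (nat_lit 0) (XT.lf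 (nat_lit 0) (nat_lit 361624041011) (nat_lit 152) (nat_lit 55460493019) (nat_lit 0) (nat_lit 195069009321) (nat_lit 5) (nat_lit 5) (nat_lit 7) (nat_lit 4) (nat_lit 5) (nat_lit 4) (nat_lit 319) (nat_lit 264) (nat_lit 137)) (XT.nd (nat_lit 33228) (nat_lit 0) (nat_lit 5168) (XT.lf (nat_lit 0) (nat_lit 42250987668) (nat_lit 76) (nat_lit 391280273219) (nat_lit 76) (nat_lit 224724539377) (nat_lit 4) (nat_lit 4) (nat_lit 5) (nat_lit 5) (nat_lit 5) (nat_lit 4) (nat_lit 320) (nat_lit 264) (nat_lit 136)) (XT.lf (nat_lit 0) (nat_lit 3024563267) (nat_lit 0) (nat_lit 3024563267) (nat_lit 684) (nat_lit 8034039901) (nat_lit 72) (nat_lit 5) (nat_lit 72) (nat_lit 3) (nat_lit 81) (nat_lit 3) (nat_lit 265) (nat_lit 265) (nat_lit 190))))) (XT.nd (nat_lit 156) (nat_lit 0) (nat_lit 76) (XT.nd (nat_lit 78) (nat_lit 0) (nat_lit 76) (XT.lf (nat_lit 0) (nat_lit 12915039621) (nat_lit 684) (nat_lit 3103240715) (nat_lit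 760) (nat_lit 13257674156) (nat_lit 72) (nat_lit 5) (nat_lit 81) (nat_lit 3) (nat_lit 82) (nat_lit 5) (nat_lit 266) (nat_lit 265) (nat_lit 189)) (XT.lf (nat_lit 0) (nat_lit 14224982208) (nat_lit 684) (nat_lit 12618184751) (nat_lit 760) (nat_lit 3609827133) (nat_lit 73) (nat_lit 5) (nat_lit 82) (nat_lit 5) (nat_lit 83) (nat_lit 5) (nat_lit 267) (nat_lit 265) (nat_lit 188))) (XT.nd (nat_lit 78) (nat_lit 0) (nat_lit 76) (XT.lf (nat_lit 76) (nat_lit 8842195420) (nat_lit 0) (nat_lit 7249649247) (nat_lit 760) (nat_lit 15609781995) (nat_lit 74) (nat_lit 5) (nat_lit 73) (nat_lit 5) (nat_lit 83) (nat_lit 5) (nat_lit 268) (nat_lit 265) (nat_lit 187)) (XT.nd (nat_lit 78) (nat_lit 0) (nat_lit 76) (XT.lf (nat_lit 0) (nat_lit 18538450080) (nat_lit 684) (nat_lit 797307228) (nat_lit 760) (nat_lit 13692906188) (nat_lit 74) (nat_lit 5) (nat_lit 83) (nat_lit 5) (nat_lit 84) (nat_lit 5) (nat_lit 269) (nat_lit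 265) (nat_lit 186)) (XT.lf (nat_lit 0) (nat_lit 21694091418) (nat_lit 684) (nat_lit 10810989488) (nat_lit 760) (nat_lit 1931147879) (nat_lit 75) (nat_lit 5) (nat_lit 84) (nat_lit 5) (nat_lit 85) (nat_lit 5) (nat_lit 270) (nat_lit 265) (nat_lit 185))))))))
noncomputable def xc96 : XT := (XT.nd (nat_lit 1404) (nat_lit 1368) (nat_lit 0) (XT.nd (nat_lit 702) (nat_lit 1444) (nat_lit 0) (XT.nd (nat_lit 312) (nat_lit 1216) (nat_lit 0) (XT.nd (nat_lit 156) (nat_lit 380) (nat_lit 0) (XT.nd (nat_lit 78) (nat_lit 608) (nat_lit 0) (XT.lf (nat_lit 76) (nat_lit 14195420241) (nat_lit 0) (nat_lit 11459732325) (nat_lit 760) (nat_lit 10273626905) (nat_lit 76) (nat_lit 5) (nat_lit 75) (nat_lit 5) (nat_lit 85) (nat_lit 5) (nat_lit 271) (nat_lit 265) (nat_lit 184)) (XT.lf (nat_lit 0) (nat_lit 3998864952) (nat_lit 684) (nat_lit 26355777530) (nat_lit 760) (nat_lit 7165041014) (nat_lit 67) (nat_lit 5) (nat_lit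 76) (nat_lit 5) (nat_lit 77) (nat_lit 5) (nat_lit 272) (nat_lit 265) (nat_lit 183))) (XT.nd (nat_lit 78) (nat_lit 380) (nat_lit 0) (XT.lf (nat_lit 0) (nat_lit 32359275422) (nat_lit 684) (nat_lit 3631774232) (nat_lit 760) (nat_lit 3218786803) (nat_lit 67) (nat_lit 5) (nat_lit 76) (nat_lit 5) (nat_lit 77) (nat_lit 5) (nat_lit 273) (nat_lit 265) (nat_lit 182)) (XT.lf (nat_lit 0) (nat_lit 1688733980) (nat_lit 380) (nat_lit 18694098548) (nat_lit 76) (nat_lit 20617628701) (nat_lit 62) (nat_lit 5) (nat_lit 67) (nat_lit 5) (nat_lit 63) (nat_lit 5) (nat_lit 274) (nat_lit 265) (nat_lit 181)))) (XT.nd (nat_lit 156) (nat_lit 836) (nat_lit 0) (XT.nd (nat_lit 78) (nat_lit 0) (nat_lit 0) (XT.lf (nat_lit 0) (nat_lit 7294827586) (nat_lit 456) (nat_lit 31627090727) (nat_lit 76) (nat_lit 3988862253) (nat_lit 57) (nat_lit 5) (nat_lit 63) (nat_lit 5) (nat_lit 58) (nat_lit 5) (nat_lit 275) (nat_lit 265) (nat_lit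 180)) (XT.lf (nat_lit 0) (nat_lit 14017632135) (nat_lit 456) (nat_lit 986162869) (nat_lit 76) (nat_lit 29936737808) (nat_lit 57) (nat_lit 5) (nat_lit 63) (nat_lit 5) (nat_lit 58) (nat_lit 5) (nat_lit 276) (nat_lit 265) (nat_lit 179))) (XT.nd (nat_lit 78) (nat_lit 532) (nat_lit 0) (XT.lf (nat_lit 0) (nat_lit 21967566294) (nat_lit 380) (nat_lit 14123476482) (nat_lit 76) (nat_lit 11007174362) (nat_lit 53) (nat_lit 5) (nat_lit 58) (nat_lit 5) (nat_lit 54) (nat_lit 5) (nat_lit 277) (nat_lit 265) (nat_lit 178)) (XT.nd (nat_lit 78) (nat_lit 228) (nat_lit 0) (XT.lf (nat_lit 0) (nat_lit 20661839294) (nat_lit 304) (nat_lit 10479071219) (nat_lit 380) (nat_lit 18258250822) (nat_lit 49) (nat_lit 5) (nat_lit 53) (nat_lit 5) (nat_lit 54) (nat_lit 5) (nat_lit 278) (nat_lit 265) (nat_lit 177)) (XT.lf (nat_lit 0) (nat_lit 6801581340) (nat_lit 228) (nat_lit 34865731594) (nat_lit 304) (nat_lit 10185923315)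 (nat_lit 46) (nat_lit 5) (nat_lit 49) (nat_lit 5) (nat_lit 50) (nat_lit 5) (nat_lit 279) (nat_lit 265) (nat_lit 176)))))) (XT.nd (nat_lit 312) (nat_lit 836) (nat_lit 0) (XT.nd (nat_lit 156) (nat_lit 228) (nat_lit 0) (XT.nd (nat_lit 78) (nat_lit 380) (nat_lit 0) (XT.lf (nat_lit 0) (nat_lit 46021264396) (nat_lit 228) (nat_lit 7683982040) (nat_lit 304) (nat_lit 764933401) (nat_lit 46) (nat_lit 5) (nat_lit 49) (nat_lit 5) (nat_lit 50) (nat_lit 5) (nat_lit 280) (nat_lit 265) (nat_lit 175)) (XT.lf (nat_lit 0) (nat_lit 9951633326) (nat_lit 380) (nat_lit 25661297145) (nat_lit 76) (nat_lit 21634061441) (nat_lit 41) (nat_lit 5) (nat_lit 46) (nat_lit 5) (nat_lit 42) (nat_lit 5) (nat_lit 281) (nat_lit 265) (nat_lit 174))) (XT.nd (nat_lit 78) (nat_lit 0) (nat_lit 0) (XT.lf (nat_lit 0) (nat_lit 15222852140) (nat_lit 228) (nat_lit 6788575946) (nat_lit 304) (nat_lit 38208269886) (nat_lit 38) (nat_lit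 5) (nat_lit 41) (nat_lit 5) (nat_lit 42) (nat_lit 5) (nat_lit 282) (nat_lit 265) (nat_lit 173)) (XT.lf (nat_lit 0) (nat_lit 35866127495) (nat_lit 304) (nat_lit 3506795701) (nat_lit 76) (nat_lit 24015801568) (nat_lit 38) (nat_lit 5) (nat_lit 42) (nat_lit 5) (nat_lit 39) (nat_lit 5) (nat_lit 283) (nat_lit 265) (nat_lit 172)))) (XT.nd (nat_lit 156) (nat_lit 456) (nat_lit 0) (XT.nd (nat_lit 78) (nat_lit 152) (nat_lit 0) (XT.lf (nat_lit 0) (nat_lit 42544452085) (nat_lit 228) (nat_lit 9059519030) (nat_lit 304) (nat_lit 15168573708) (nat_lit 35) (nat_lit 5) (nat_lit 38) (nat_lit 5) (nat_lit 39) (nat_lit 5) (nat_lit 284) (nat_lit 265) (nat_lit 171)) (XT.lf (nat_lit 0) (nat_lit 22319502531) (nat_lit 152) (nat_lit 47057848143) (nat_lit 228) (nat_lit 1010903221) (nat_lit 33) (nat_lit 5) (nat_lit 35) (nat_lit 5) (nat_lit 36) (nat_lit 5) (nat_lit 285) (nat_lit 265) (nat_lit 170))) (XT.nd (nat_lit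 78) (nat_lit 380) (nat_lit 0) (XT.lf (nat_lit 0) (nat_lit 14400458059) (nat_lit 228) (nat_lit 1203731810) (nat_lit 76) (nat_lit 58648985228) (nat_lit 32) (nat_lit 5) (nat_lit 35) (nat_lit 5) (nat_lit 33) (nat_lit 5) (nat_lit 286) (nat_lit 265) (nat_lit 169)) (XT.nd (nat_lit 78) (nat_lit 152) (nat_lit 0) (XT.lf (nat_lit 0) (nat_lit 32103092846) (nat_lit 304) (nat_lit 27665082915) (nat_lit 76) (nat_lit 18603603750) (nat_lit 29) (nat_lit 5) (nat_lit 33) (nat_lit 5) (nat_lit 30) (nat_lit 5) (nat_lit 287) (nat_lit 265) (nat_lit 168)) (XT.lf (nat_lit 0) (nat_lit 24510510053) (nat_lit 152) (nat_lit 27375347320) (nat_lit 228) (nat_lit 30900825633) (nat_lit 27) (nat_lit 5) (nat_lit 29) (nat_lit 5) (nat_lit 30) (nat_lit 5) (nat_lit 288) (nat_lit 265) (nat_lit 167))))))) (XT.nd (nat_lit 702) (nat_lit 532) (nat_lit 0) (XT.nd (nat_lit 312) (nat_lit 456) (nat_lit 0) (XT.nd (nat_lit 156) (nat_lit 152)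 (nat_lit 0) (XT.nd (nat_lit 78) (nat_lit 228) (nat_lit 0) (XT.lf (nat_lit 0) (nat_lit 73856806064) (nat_lit 228) (nat_lit 5813892269) (nat_lit 76) (nat_lit 7853808479) (nat_lit 27) (nat_lit 5) (nat_lit 30) (nat_lit 5) (nat_lit 28) (nat_lit 5) (nat_lit 289) (nat_lit 265) (nat_lit 166)) (XT.lf (nat_lit 0) (nat_lit 6078024669) (nat_lit 228) (nat_lit 40630514817) (nat_lit 76) (nat_lit 45864353358) (nat_lit 24) (nat_lit 5) (nat_lit 27) (nat_lit 5) (nat_lit 25) (nat_lit 5) (nat_lit 290) (nat_lit 265) (nat_lit 165))) (XT.nd (nat_lit 78) (nat_lit 0) (nat_lit 0) (XT.lf (nat_lit 0) (nat_lit 16808380503) (nat_lit 152) (nat_lit 10485220438) (nat_lit 228) (nat_lit 70701898705) (nat_lit 22) (nat_lit 5) (nat_lit 24) (nat_lit 5) (nat_lit 25) (nat_lit 5) (nat_lit 291) (nat_lit 265) (nat_lit 164)) (XT.lf (nat_lit 0) (nat_lit 51370269137) (nat_lit 228) (nat_lit 23986005319) (nat_lit 76) (nat_lit 28437452920)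 (nat_lit 22) (nat_lit 5) (nat_lit 25) (nat_lit 5) (nat_lit 23) (nat_lit 5) (nat_lit 292) (nat_lit 265) (nat_lit 163)))) (XT.nd (nat_lit 156) (nat_lit 304) (nat_lit 0) (XT.nd (nat_lit 78) (nat_lit 0) (nat_lit 0) (XT.lf (nat_lit 0) (nat_lit 38854198736) (nat_lit 152) (nat_lit 39299885910) (nat_lit 228) (nat_lit 31862682314) (nat_lit 20) (nat_lit 5) (nat_lit 22) (nat_lit 5) (nat_lit 23) (nat_lit 5) (nat_lit 293) (nat_lit 265) (nat_lit 162)) (XT.lf (nat_lit 0) (nat_lit 107497363202) (nat_lit 228) (nat_lit 9143561272) (nat_lit 76) (nat_lit 75891352) (nat_lit 20) (nat_lit 5) (nat_lit 23) (nat_lit 5) (nat_lit 21) (nat_lit 4) (nat_lit 294) (nat_lit 265) (nat_lit 161))) (XT.nd (nat_lit 78) (nat_lit 152) (nat_lit 0) (XT.lf (nat_lit 0) (nat_lit 16356195954) (nat_lit 152) (nat_lit 65076359232) (nat_lit 76) (nat_lit 42427994553) (nat_lit 18) (nat_lit 5) (nat_lit 20) (nat_lit 5) (nat_lit 19) (nat_lit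 5) (nat_lit 295) (nat_lit 265) (nat_lit 160)) (XT.nd (nat_lit 78) (nat_lit 0) (nat_lit 0) (XT.lf (nat_lit 0) (nat_lit 768013755) (nat_lit 152) (nat_lit 43063006699) (nat_lit 228) (nat_lit 87728401819) (nat_lit 16) (nat_lit 5) (nat_lit 18) (nat_lit 5) (nat_lit 19) (nat_lit 5) (nat_lit 296) (nat_lit 265) (nat_lit 159)) (XT.lf (nat_lit 0) (nat_lit 74200581232) (nat_lit 152) (nat_lit 434874452) (nat_lit 228) (nat_lit 65182170714) (nat_lit 16) (nat_lit 5) (nat_lit 18) (nat_lit 5) (nat_lit 19) (nat_lit 5) (nat_lit 297) (nat_lit 265) (nat_lit 158)))))) (XT.nd (nat_lit 312) (nat_lit 228) (nat_lit 0) (XT.nd (nat_lit 156) (nat_lit 228) (nat_lit 0) (XT.nd (nat_lit 78) (nat_lit 0) (nat_lit 0) (XT.lf (nat_lit 0) (nat_lit 4190336675) (nat_lit 76) (nat_lit 104489494506) (nat_lit 152) (nat_lit 40017879206) (nat_lit 15) (nat_lit 5) (nat_lit 16) (nat_lit 5) (nat_lit 17) (nat_lit 4) (nat_lit 298) (nat_lit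 265) (nat_lit 157)) (XT.lf (nat_lit 0) (nat_lit 81914980902) (nat_lit 76) (nat_lit 64681251362) (nat_lit 152) (nat_lit 11634547651) (nat_lit 15) (nat_lit 5) (nat_lit 16) (nat_lit 5) (nat_lit 17) (nat_lit 4) (nat_lit 299) (nat_lit 265) (nat_lit 156))) (XT.nd (nat_lit 78) (nat_lit 152) (nat_lit 0) (XT.lf (nat_lit 0) (nat_lit 18409064159) (nat_lit 152) (nat_lit 2968602358) (nat_lit 76) (nat_lit 147134065686) (nat_lit 14) (nat_lit 5) (nat_lit 16) (nat_lit 5) (nat_lit 15) (nat_lit 5) (nat_lit 300) (nat_lit 265) (nat_lit 155)) (XT.lf (nat_lit 0) (nat_lit 52098768080) (nat_lit 228) (nat_lit 101401705488) (nat_lit 76) (nat_lit 26022641660) (nat_lit 12) (nat_lit 5) (nat_lit 15) (nat_lit 5) (nat_lit 13) (nat_lit 4) (nat_lit 301) (nat_lit 265) (nat_lit 154)))) (XT.nd (nat_lit 156) (nat_lit 152) (nat_lit 0) (XT.nd (nat_lit 78) (nat_lit 76) (nat_lit 0) (XT.lf (nat_lit 0) (nat_lit 88895209661) (nat_lit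 228) (nat_lit 25972007732) (nat_lit 76) (nat_lit 76527615399) (nat_lit 12) (nat_lit 5) (nat_lit 15) (nat_lit 5) (nat_lit 13) (nat_lit 4) (nat_lit 302) (nat_lit 265) (nat_lit 153)) (XT.lf (nat_lit 0) (nat_lit 57324492029) (nat_lit 76) (nat_lit 72204514934) (nat_lit 152) (nat_lit 74642600596) (nat_lit 11) (nat_lit 5) (nat_lit 12) (nat_lit 5) (nat_lit 13) (nat_lit 4) (nat_lit 303) (nat_lit 265) (nat_lit 152))) (XT.nd (nat_lit 78) (nat_lit 152) (nat_lit 0) (XT.lf (nat_lit 0) (nat_lit 148209948863) (nat_lit 76) (nat_lit 25654685060) (nat_lit 152) (nat_lit 44083335774) (nat_lit 11) (nat_lit 5) (nat_lit 12) (nat_lit 5) (nat_lit 13) (nat_lit 4) (nat_lit 304) (nat_lit 265) (nat_lit 151)) (XT.nd (nat_lit 78) (nat_lit 76) (nat_lit 0) (XT.lf (nat_lit 0) (nat_lit 13588237511) (nat_lit 76) (nat_lit 208754190048) (nat_lit 76) (nat_lit 10454248981) (nat_lit 10) (nat_lit 4) (nat_lit 11) (nat_lit 5) (nat_lit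 11) (nat_lit 4) (nat_lit 305) (nat_lit 265) (nat_lit 150)) (XT.lf (nat_lit 0) (nat_lit 26703439031) (nat_lit 152) (nat_lit 143559996378) (nat_lit 76) (nat_lit 78466348456) (nat_lit 9) (nat_lit 5) (nat_lit 11) (nat_lit 5) (nat_lit 10) (nat_lit 4) (nat_lit 306) (nat_lit 265) (nat_lit 149))))))))
noncomputable def xc97 : XT := (XT.nd (nat_lit 34710) (nat_lit 0) (nat_lit 1672) (XT.nd (nat_lit 702) (nat_lit 76) (nat_lit 0) (XT.nd (nat_lit 312) (nat_lit 152) (nat_lit 0) (XT.nd (nat_lit 156) (nat_lit 0) (nat_lit 0) (XT.nd (nat_lit 78) (nat_lit 76) (nat_lit 0) (XT.lf (nat_lit 0) (nat_lit 66471289657) (nat_lit 152) (nat_lit 62037851970) (nat_lit 76) (nat_lit 137419639688) (nat_lit 9) (nat_lit 5) (nat_lit 11) (nat_lit 5) (nat_lit 10) (nat_lit 4) (nat_lit 307) (nat_lit 265) (nat_lit 148)) (XT.lf (nat_lit 0) (nat_lit 26864128387) (nat_lit 76) (nat_lit 82974861432) (nat_lit 152) (nat_lit 174643788846)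 (nat_lit 8) (nat_lit 5) (nat_lit 9) (nat_lit 5) (nat_lit 10) (nat_lit 4) (nat_lit 308) (nat_lit 265) (nat_lit 147))) (XT.nd (nat_lit 78) (nat_lit 0) (nat_lit 0) (XT.lf (nat_lit 0) (nat_lit 125091939664) (nat_lit 76) (nat_lit 32663870913) (nat_lit 152) (nat_lit 146711301089) (nat_lit 8) (nat_lit 5) (nat_lit 9) (nat_lit 5) (nat_lit 10) (nat_lit 4) (nat_lit 309) (nat_lit 265) (nat_lit 146)) (XT.lf (nat_lit 0) (nat_lit 209843443108) (nat_lit 152) (nat_lit 95212165648) (nat_lit 0) (nat_lit 20977710255) (nat_lit 8) (nat_lit 5) (nat_lit 10) (nat_lit 4) (nat_lit 8) (nat_lit 4) (nat_lit 310) (nat_lit 265) (nat_lit 145)))) (XT.nd (nat_lit 156) (nat_lit 76) (nat_lit 0) (XT.nd (nat_lit 78) (nat_lit 76) (nat_lit 0) (XT.lf (nat_lit 0) (nat_lit 266648030509) (nat_lit 152) (nat_lit 4868363119) (nat_lit 0) (nat_lit 77780933038) (nat_lit 8) (nat_lit 5) (nat_lit 10) (nat_lit 4) (nat_lit 8) (nat_lit 4) (nat_lit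 311) (nat_lit 265) (nat_lit 144)) (XT.lf (nat_lit 0) (nat_lit 95766713746) (nat_lit 76) (nat_lit 233724691033) (nat_lit 76) (nat_lit 44856330027) (nat_lit 7) (nat_lit 4) (nat_lit 8) (nat_lit 5) (nat_lit 8) (nat_lit 4) (nat_lit 312) (nat_lit 265) (nat_lit 143))) (XT.nd (nat_lit 78) (nat_lit 76) (nat_lit 0) (XT.lf (nat_lit 0) (nat_lit 204625140882) (nat_lit 76) (nat_lit 192821181399) (nat_lit 76) (nat_lit 3951650453) (nat_lit 7) (nat_lit 4) (nat_lit 8) (nat_lit 5) (nat_lit 8) (nat_lit 4) (nat_lit 313) (nat_lit 265) (nat_lit 142)) (XT.nd (nat_lit 78) (nat_lit 0) (nat_lit 0) (XT.lf (nat_lit 0) (nat_lit 38937251209) (nat_lit 152) (nat_lit 109049249244) (nat_lit 76) (nat_lit 282594362794) (nat_lit 6) (nat_lit 5) (nat_lit 8) (nat_lit 5) (nat_lit 7) (nat_lit 4) (nat_lit 314) (nat_lit 265) (nat_lit 141)) (XT.lf (nat_lit 0) (nat_lit 85120032133) (nat_lit 152) (nat_lit 14375551384) (nat_lit 76)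 (nat_lit 362599502396) (nat_lit 6) (nat_lit 5) (nat_lit 8) (nat_lit 5) (nat_lit 7) (nat_lit 4) (nat_lit 315) (nat_lit 265) (nat_lit 140)))))) (XT.nd (nat_lit 33618) (nat_lit 0) (nat_lit 5092) (XT.nd (nat_lit 156) (nat_lit 0) (nat_lit 0) (XT.nd (nat_lit 78) (nat_lit 0) (nat_lit 0) (XT.lf (nat_lit 0) (nat_lit 90776399065) (nat_lit 76) (nat_lit 45637720476) (nat_lit 152) (nat_lit 359645493258) (nat_lit 5) (nat_lit 5) (nat_lit 6) (nat_lit 5) (nat_lit 7) (nat_lit 4) (nat_lit 316) (nat_lit 265) (nat_lit 139)) (XT.lf (nat_lit 0) (nat_lit 192261292126) (nat_lit 152) (nat_lit 328075674461) (nat_lit 0) (nat_lit 12381857901) (nat_lit 5) (nat_lit 5) (nat_lit 7) (nat_lit 4) (nat_lit 5) (nat_lit 4) (nat_lit 317) (nat_lit 265) (nat_lit 138))) (XT.nd (nat_lit 78) (nat_lit 0) (nat_lit 0) (XT.lf (nat_lit 0) (nat_lit 253345246987) (nat_lit 152) (nat_lit 245462021784) (nat_lit 0) (nat_lit 73465054437) (nat_lit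 5) (nat_lit 5) (nat_lit 7) (nat_lit 4) (nat_lit 5) (nat_lit 4) (nat_lit 318) (nat_lit 265) (nat_lit 137)) (XT.lf (nat_lit 0) (nat_lit 319315430401) (nat_lit 152) (nat_lit 156240160599) (nat_lit 0) (nat_lit 139434535698) (nat_lit 5) (nat_lit 5) (nat_lit 7) (nat_lit 4) (nat_lit 5) (nat_lit 4) (nat_lit 319) (nat_lit 265) (nat_lit 136)))) (XT.nd (nat_lit 156) (nat_lit 0) (nat_lit 76) (XT.nd (nat_lit 78) (nat_lit 0) (nat_lit 0) (XT.lf (nat_lit 0) (nat_lit 3324608563) (nat_lit 0) (nat_lit 3324608563) (nat_lit 684) (nat_lit 8554415079) (nat_lit 72) (nat_lit 5) (nat_lit 72) (nat_lit 3) (nat_lit 81) (nat_lit 3) (nat_lit 266) (nat_lit 266) (nat_lit 188)) (XT.lf (nat_lit 0) (nat_lit 14161675524) (nat_lit 684) (nat_lit 3230806316) (nat_lit 760) (nat_lit 14214174560) (nat_lit 72) (nat_lit 5) (nat_lit 81) (nat_lit 3) (nat_lit 82) (nat_lit 5) (nat_lit 267) (nat_lit 266) (nat_lit 187))) (XT.nd (nat_lit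 78) (nat_lit 0) (nat_lit 0) (XT.lf (nat_lit 0) (nat_lit 15561095044) (nat_lit 684) (nat_lit 13500257936) (nat_lit 760) (nat_lit 3817324172) (nat_lit 73) (nat_lit 5) (nat_lit 82) (nat_lit 5) (nat_lit 83) (nat_lit 5) (nat_lit 268) (nat_lit 266) (nat_lit 186)) (XT.nd (nat_lit 78) (nat_lit 0) (nat_lit 76) (XT.lf (nat_lit 76) (nat_lit 9671416801) (nat_lit 0) (nat_lit 7893116923) (nat_lit 760) (nat_lit 16663353447) (nat_lit 74) (nat_lit 5) (nat_lit 73) (nat_lit 5) (nat_lit 83) (nat_lit 5) (nat_lit 269) (nat_lit 266) (nat_lit 185)) (XT.lf (nat_lit 0) (nat_lit 20192220657) (nat_lit 684) (nat_lit 738215215) (nat_lit 760) (nat_lit 14731428057) (nat_lit 74) (nat_lit 5) (nat_lit 83) (nat_lit 5) (nat_lit 84) (nat_lit 5) (nat_lit 270) (nat_lit 266) (nat_lit 184))))))) (XT.nd (nat_lit 702) (nat_lit 1672) (nat_lit 0) (XT.nd (nat_lit 312) (nat_lit 1368) (nat_lit 0) (XT.nd (nat_lit 156) (nat_lit 608) (nat_lit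 0) (XT.nd (nat_lit 78) (nat_lit 0) (nat_lit 0) (XT.lf (nat_lit 0) (nat_lit 23588843146) (nat_lit 684) (nat_lit 11549160065) (nat_lit 760) (nat_lit 2044646066) (nat_lit 75) (nat_lit 5) (nat_lit 84) (nat_lit 5) (nat_lit 85) (nat_lit 5) (nat_lit 271) (nat_lit 266) (nat_lit 183)) (XT.lf (nat_lit 76) (nat_lit 15452255841) (nat_lit 0) (nat_lit 12404631246) (nat_lit 760) (nat_lit 10938250300) (nat_lit 76) (nat_lit 5) (nat_lit 75) (nat_lit 5) (nat_lit 85) (nat_lit 5) (nat_lit 272) (nat_lit 266) (nat_lit 182))) (XT.nd (nat_lit 78) (nat_lit 0) (nat_lit 0) (XT.lf (nat_lit 0) (nat_lit 4442727981) (nat_lit 684) (nat_lit 28480076054) (nat_lit 760) (nat_lit 7591021739) (nat_lit 67) (nat_lit 5) (nat_lit 76) (nat_lit 5) (nat_lit 77) (nat_lit 5) (nat_lit 273) (nat_lit 266) (nat_lit 181)) (XT.lf (nat_lit 0) (nat_lit 35062789523) (nat_lit 684) (nat_lit 3936979432) (nat_lit 760) (nat_lit 3339972566) (nat_lit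 67) (nat_lit 5) (nat_lit 76) (nat_lit 5) (nat_lit 77) (nat_lit 5) (nat_lit 274) (nat_lit 266) (nat_lit 180)))) (XT.nd (nat_lit 156) (nat_lit 608) (nat_lit 0) (XT.nd (nat_lit 78) (nat_lit 380) (nat_lit 0) (XT.lf (nat_lit 0) (nat_lit 1947647117) (nat_lit 380) (nat_lit 20068584967) (nat_lit 76) (nat_lit 22257713695) (nat_lit 62) (nat_lit 5) (nat_lit 67) (nat_lit 5) (nat_lit 63) (nat_lit 5) (nat_lit 275) (nat_lit 266) (nat_lit 179)) (XT.lf (nat_lit 0) (nat_lit 7994853988) (nat_lit 456) (nat_lit 34035309009) (nat_lit 76) (nat_lit 4307323164) (nat_lit 57) (nat_lit 5) (nat_lit 63) (nat_lit 5) (nat_lit 58) (nat_lit 5) (nat_lit 276) (nat_lit 266) (nat_lit 178))) (XT.nd (nat_lit 78) (nat_lit 608) (nat_lit 0) (XT.lf (nat_lit 0) (nat_lit 15246857702) (nat_lit 456) (nat_lit 952140180) (nat_lit 76) (nat_lit 32331076768) (nat_lit 57) (nat_lit 5) (nat_lit 63) (nat_lit 5) (nat_lit 58) (nat_lit 5) (nat_lit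 277) (nat_lit 266) (nat_lit 177)) (XT.nd (nat_lit 78) (nat_lit 304) (nat_lit 0) (XT.lf (nat_lit 0) (nat_lit 23826587995) (nat_lit 380) (nat_lit 15140084621) (nat_lit 76) (nat_lit 11894034001) (nat_lit 53) (nat_lit 5) (nat_lit 58) (nat_lit 5) (nat_lit 54) (nat_lit 5) (nat_lit 278) (nat_lit 266) (nat_lit 176)) (XT.lf (nat_lit 0) (nat_lit 22423133842) (nat_lit 304) (nat_lit 11304830376) (nat_lit 380) (nat_lit 19618075173) (nat_lit 49) (nat_lit 5) (nat_lit 53) (nat_lit 5) (nat_lit 54) (nat_lit 5) (nat_lit 279) (nat_lit 266) (nat_lit 175)))))) (XT.nd (nat_lit 390) (nat_lit 836) (nat_lit 0) (XT.nd (nat_lit 156) (nat_lit 608) (nat_lit 0) (XT.nd (nat_lit 78) (nat_lit 0) (nat_lit 0) (XT.lf (nat_lit 0) (nat_lit 7453994106) (nat_lit 228) (nat_lit 37637262165) (nat_lit 304) (nat_lit 10905464845) (nat_lit 46) (nat_lit 5) (nat_lit 49) (nat_lit 5) (nat_lit 50) (nat_lit 5) (nat_lit 280) (nat_lit 266)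 (nat_lit 174)) (XT.lf (nat_lit 0) (nat_lit 49803230603) (nat_lit 228) (nat_lit 8282285829) (nat_lit 304) (nat_lit 737857392) (nat_lit 46) (nat_lit 5) (nat_lit 49) (nat_lit 5) (nat_lit 50) (nat_lit 5) (nat_lit 281) (nat_lit 266) (nat_lit 173))) (XT.nd (nat_lit 78) (nat_lit 228) (nat_lit 0) (XT.lf (nat_lit 0) (nat_lit 10828706495) (nat_lit 380) (nat_lit 27611432824) (nat_lit 76) (nat_lit 23382363863) (nat_lit 41) (nat_lit 5) (nat_lit 46) (nat_lit 5) (nat_lit 42) (nat_lit 5) (nat_lit 282) (nat_lit 266) (nat_lit 172)) (XT.nd (nat_lit 78) (nat_lit 0) (nat_lit 0) (XT.lf (nat_lit 0) (nat_lit 16538982229) (nat_lit 228) (nat_lit 7309841635) (nat_lit 304) (nat_lit 41184439797) (nat_lit 38) (nat_lit 5) (nat_lit 41) (nat_lit 5) (nat_lit 42) (nat_lit 5) (nat_lit 283) (nat_lit 266) (nat_lit 171)) (XT.lf (nat_lit 0) (nat_lit 38806549369) (nat_lit 304) (nat_lit 3692921405) (nat_lit 76) (nat_lit 25956623098)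 (nat_lit 38) (nat_lit 5) (nat_lit 42) (nat_lit 5) (nat_lit 39) (nat_lit 5) (nat_lit 284) (nat_lit 266) (nat_lit 170))))) (XT.nd (nat_lit 156) (nat_lit 456) (nat_lit 0) (XT.nd (nat_lit 78) (nat_lit 152) (nat_lit 0) (XT.lf (nat_lit 0) (nat_lit 46038322915) (nat_lit 228) (nat_lit 9761238615) (nat_lit 304) (nat_lit 16311263715) (nat_lit 35) (nat_lit 5) (nat_lit 38) (nat_lit 5) (nat_lit 39) (nat_lit 5) (nat_lit 285) (nat_lit 266) (nat_lit 169)) (XT.lf (nat_lit 0) (nat_lit 24194478368) (nat_lit 152) (nat_lit 50797079052) (nat_lit 228) (nat_lit 1024408142) (nat_lit 33) (nat_lit 5) (nat_lit 35) (nat_lit 5) (nat_lit 36) (nat_lit 5) (nat_lit 286) (nat_lit 266) (nat_lit 168))) (XT.nd (nat_lit 78) (nat_lit 380) (nat_lit 0) (XT.lf (nat_lit 0) (nat_lit 15612875409) (nat_lit 228) (nat_lit 1215111386) (nat_lit 76) (nat_lit 63362293020) (nat_lit 32) (nat_lit 5) (nat_lit 35) (nat_lit 5) (nat_lit 33) (nat_lit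 5) (nat_lit 287) (nat_lit 266) (nat_lit 167)) (XT.nd (nat_lit 78) (nat_lit 152) (nat_lit 0) (XT.lf (nat_lit 0) (nat_lit 34728892060) (nat_lit 304) (nat_lit 29794457156) (nat_lit 76) (nat_lit 20115174458) (nat_lit 29) (nat_lit 5) (nat_lit 33) (nat_lit 5) (nat_lit 30) (nat_lit 5) (nat_lit 288) (nat_lit 266) (nat_lit 166)) (XT.lf (nat_lit 0) (nat_lit 26551539996) (nat_lit 152) (nat_lit 29539726636) (nat_lit 228) (nat_lit 33315512308) (nat_lit 27) (nat_lit 5) (nat_lit 29) (nat_lit 5) (nat_lit 30) (nat_lit 5) (nat_lit 289) (nat_lit 266) (nat_lit 165))))))))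
noncomputable def xc98 : XT := (XT.nd (nat_lit 1404) (nat_lit 304) (nat_lit 0) (XT.nd (nat_lit 702) (nat_lit 532) (nat_lit 0) (XT.nd (nat_lit 312) (nat_lit 456) (nat_lit 0) (XT.nd (nat_lit 156) (nat_lit 152) (nat_lit 0) (XT.nd (nat_lit 78) (nat_lit 228) (nat_lit 0) (XT.lf (nat_lit 0) (nat_lit 79816221951) (nat_lit 228) (nat_lit 6202496798) (nat_lit 76) (nat_lit 8505101638) (nat_lit 27) (nat_lit 5) (nat_lit 30) (nat_lit 5) (nat_lit 28) (nat_lit 5) (nat_lit 290) (nat_lit 266) (nat_lit 164)) (XT.lf (nat_lit 0) (nat_lit 6613395958) (nat_lit 228) (nat_lit 43806058424) (nat_lit 76) (nat_lit 49556722240) (nat_lit 24) (nat_lit 5) (nat_lit 27) (nat_lit 5) (nat_lit 25) (nat_lit 5) (nat_lit 291) (nat_lit 266) (nat_lit 163))) (XT.nd (nat_lit 78) (nat_lit 0) (nat_lit 0) (XT.lf (nat_lit 0) (nat_lit 18224693564) (nat_lit 152) (nat_lit 11299004102) (nat_lit 228) (nat_lit 76309027091) (nat_lit 22) (nat_lit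 5) (nat_lit 24) (nat_lit 5) (nat_lit 25) (nat_lit 5) (nat_lit 292) (nat_lit 266) (nat_lit 162)) (XT.lf (nat_lit 0) (nat_lit 55523408723) (nat_lit 228) (nat_lit 25836675900) (nat_lit 76) (nat_lit 30734886865) (nat_lit 22) (nat_lit 5) (nat_lit 25) (nat_lit 5) (nat_lit 23) (nat_lit 5) (nat_lit 293) (nat_lit 266) (nat_lit 161)))) (XT.nd (nat_lit 156) (nat_lit 304) (nat_lit 0) (XT.nd (nat_lit 78) (nat_lit 0) (nat_lit 0) (XT.lf (nat_lit 0) (nat_lit 42027780162) (nat_lit 152) (nat_lit 42419944417) (nat_lit 228) (nat_lit 34368245696) (nat_lit 20) (nat_lit 5) (nat_lit 22) (nat_lit 5) (nat_lit 23) (nat_lit 5) (nat_lit 294) (nat_lit 266) (nat_lit 160)) (XT.lf (nat_lit 0) (nat_lit 116135751159) (nat_lit 228) (nat_lit 9812999954) (nat_lit 76) (nat_lit 103413012) (nat_lit 20) (nat_lit 5) (nat_lit 23) (nat_lit 5) (nat_lit 21) (nat_lit 4) (nat_lit 295) (nat_lit 266) (nat_lit 159))) (XT.nd (nat_lit 78)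 (nat_lit 152) (nat_lit 0) (XT.lf (nat_lit 0) (nat_lit 17702019128) (nat_lit 152) (nat_lit 70221824886) (nat_lit 76) (nat_lit 45843624228) (nat_lit 18) (nat_lit 5) (nat_lit 20) (nat_lit 5) (nat_lit 19) (nat_lit 5) (nat_lit 296) (nat_lit 266) (nat_lit 158)) (XT.nd (nat_lit 78) (nat_lit 0) (nat_lit 0) (XT.lf (nat_lit 0) (nat_lit 887462466) (nat_lit 152) (nat_lit 46485507783) (nat_lit 228) (nat_lit 94709377672) (nat_lit 16) (nat_lit 5) (nat_lit 18) (nat_lit 5) (nat_lit 19) (nat_lit 5) (nat_lit 297) (nat_lit 266) (nat_lit 157)) (XT.lf (nat_lit 0) (nat_lit 80190338481) (nat_lit 152) (nat_lit 448794546) (nat_lit 228) (nat_lit 70362210768) (nat_lit 16) (nat_lit 5) (nat_lit 18) (nat_lit 5) (nat_lit 19) (nat_lit 5) (nat_lit 298) (nat_lit 266) (nat_lit 156)))))) (XT.nd (nat_lit 312) (nat_lit 228) (nat_lit 0) (XT.nd (nat_lit 156) (nat_lit 228) (nat_lit 0) (XT.nd (nat_lit 78) (nat_lit 0) (nat_lit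 0) (XT.lf (nat_lit 0) (nat_lit 4578247631) (nat_lit 76) (nat_lit 112827502520) (nat_lit 152) (nat_lit 43186153525) (nat_lit 15) (nat_lit 5) (nat_lit 16) (nat_lit 5) (nat_lit 17) (nat_lit 4) (nat_lit 299) (nat_lit 266) (nat_lit 155)) (XT.lf (nat_lit 0) (nat_lit 88516960877) (nat_lit 76) (nat_lit 69836166706) (nat_lit 152) (nat_lit 12534611447) (nat_lit 15) (nat_lit 5) (nat_lit 16) (nat_lit 5) (nat_lit 17) (nat_lit 4) (nat_lit 300) (nat_lit 266) (nat_lit 154))) (XT.nd (nat_lit 78) (nat_lit 152) (nat_lit 0) (XT.lf (nat_lit 0) (nat_lit 19909305425) (nat_lit 152) (nat_lit 3159974373) (nat_lit 76) (nat_lit 158921976867) (nat_lit 14) (nat_lit 5) (nat_lit 16) (nat_lit 5) (nat_lit 15) (nat_lit 5) (nat_lit 301) (nat_lit 266) (nat_lit 153)) (XT.lf (nat_lit 0) (nat_lit 56293116318) (nat_lit 228) (nat_lit 109468666282) (nat_lit 76) (nat_lit 28121824036) (nat_lit 12) (nat_lit 5) (nat_lit 15) (nat_lit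 5) (nat_lit 13) (nat_lit 4) (nat_lit 302) (nat_lit 266) (nat_lit 152)))) (XT.nd (nat_lit 156) (nat_lit 152) (nat_lit 0) (XT.nd (nat_lit 78) (nat_lit 76) (nat_lit 0) (XT.lf (nat_lit 0) (nat_lit 96031314204) (nat_lit 228) (nat_lit 28007939050) (nat_lit 76) (nat_lit 82665908930) (nat_lit 12) (nat_lit 5) (nat_lit 15) (nat_lit 5) (nat_lit 13) (nat_lit 4) (nat_lit 303) (nat_lit 266) (nat_lit 151)) (XT.lf (nat_lit 0) (nat_lit 61950462842) (nat_lit 76) (nat_lit 77964163231) (nat_lit 152) (nat_lit 80589514753) (nat_lit 11) (nat_lit 5) (nat_lit 12) (nat_lit 5) (nat_lit 13) (nat_lit 4) (nat_lit 304) (nat_lit 266) (nat_lit 150))) (XT.nd (nat_lit 78) (nat_lit 152) (nat_lit 0) (XT.lf (nat_lit 0) (nat_lit 160103792412) (nat_lit 76) (nat_lit 27691584959) (nat_lit 152) (nat_lit 47587323108) (nat_lit 11) (nat_lit 5) (nat_lit 12) (nat_lit 5) (nat_lit 13) (nat_lit 4) (nat_lit 305) (nat_lit 266) (nat_lit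 149)) (XT.nd (nat_lit 78) (nat_lit 76) (nat_lit 0) (XT.lf (nat_lit 0) (nat_lit 14711561694) (nat_lit 76) (nat_lit 225439024733) (nat_lit 76) (nat_lit 11268759930) (nat_lit 10) (nat_lit 4) (nat_lit 11) (nat_lit 5) (nat_lit 11) (nat_lit 4) (nat_lit 306) (nat_lit 266) (nat_lit 148)) (XT.lf (nat_lit 0) (nat_lit 28859279251) (nat_lit 152) (nat_lit 155010547314) (nat_lit 76) (nat_lit 84757338762) (nat_lit 9) (nat_lit 5) (nat_lit 11) (nat_lit 5) (nat_lit 10) (nat_lit 4) (nat_lit 307) (nat_lit 266) (nat_lit 147))))))) (XT.nd (nat_lit 702) (nat_lit 76) (nat_lit 0) (XT.nd (nat_lit 312) (nat_lit 152) (nat_lit 0) (XT.nd (nat_lit 156) (nat_lit 0) (nat_lit 0) (XT.nd (nat_lit 78) (nat_lit 76) (nat_lit 0) (XT.lf (nat_lit 0) (nat_lit 71807108661) (nat_lit 152) (nat_lit 66969168299) (nat_lit 76) (nat_lit 148425879780) (nat_lit 9) (nat_lit 5) (nat_lit 11) (nat_lit 5) (nat_lit 10) (nat_lit 4) (nat_lit 308)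 (nat_lit 266) (nat_lit 146)) (XT.lf (nat_lit 0) (nat_lit 29043592328) (nat_lit 76) (nat_lit 89599764188) (nat_lit 152) (nat_lit 188597162354) (nat_lit 8) (nat_lit 5) (nat_lit 9) (nat_lit 5) (nat_lit 10) (nat_lit 4) (nat_lit 309) (nat_lit 266) (nat_lit 145))) (XT.nd (nat_lit 78) (nat_lit 0) (nat_lit 0) (XT.lf (nat_lit 0) (nat_lit 135127381569) (nat_lit 76) (nat_lit 35264863772) (nat_lit 152) (nat_lit 158431418511) (nat_lit 8) (nat_lit 5) (nat_lit 9) (nat_lit 5) (nat_lit 10) (nat_lit 4) (nat_lit 310) (nat_lit 266) (nat_lit 144)) (XT.lf (nat_lit 0) (nat_lit 226645880682) (nat_lit 152) (nat_lit 102802551584) (nat_lit 0) (nat_lit 22666787260) (nat_lit 8) (nat_lit 5) (nat_lit 10) (nat_lit 4) (nat_lit 8) (nat_lit 4) (nat_lit 311) (nat_lit 266) (nat_lit 143)))) (XT.nd (nat_lit 156) (nat_lit 76) (nat_lit 0) (XT.nd (nat_lit 78) (nat_lit 76) (nat_lit 0) (XT.lf (nat_lit 0) (nat_lit 287993726770)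 (nat_lit 152) (nat_lit 5233214283) (nat_lit 0) (nat_lit 84013463408) (nat_lit 8) (nat_lit 5) (nat_lit 10) (nat_lit 4) (nat_lit 8) (nat_lit 4) (nat_lit 312) (nat_lit 266) (nat_lit 142)) (XT.lf (nat_lit 0) (nat_lit 103451598868) (nat_lit 76) (nat_lit 252412313555) (nat_lit 76) (nat_lit 48430966915) (nat_lit 7) (nat_lit 4) (nat_lit 8) (nat_lit 5) (nat_lit 8) (nat_lit 4) (nat_lit 313) (nat_lit 266) (nat_lit 141))) (XT.nd (nat_lit 78) (nat_lit 76) (nat_lit 0) (XT.lf (nat_lit 0) (nat_lit 221016955877) (nat_lit 76) (nat_lit 208237290022) (nat_lit 76) (nat_lit 4254940347) (nat_lit 7) (nat_lit 4) (nat_lit 8) (nat_lit 5) (nat_lit 8) (nat_lit 4) (nat_lit 314) (nat_lit 266) (nat_lit 140)) (XT.nd (nat_lit 78) (nat_lit 0) (nat_lit 0) (XT.lf (nat_lit 0) (nat_lit 42063741596) (nat_lit 152) (nat_lit 117752608138) (nat_lit 76) (nat_lit 305210395229) (nat_lit 6) (nat_lit 5) (nat_lit 8) (nat_lit 5) (nat_lit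 7) (nat_lit 4) (nat_lit 315) (nat_lit 266) (nat_lit 139)) (XT.lf (nat_lit 0) (nat_lit 91940292380) (nat_lit 152) (nat_lit 15506538971) (nat_lit 76) (nat_lit 391615317598) (nat_lit 6) (nat_lit 5) (nat_lit 8) (nat_lit 5) (nat_lit 7) (nat_lit 4) (nat_lit 316) (nat_lit 266) (nat_lit 138)))))) (XT.nd (nat_lit 33774) (nat_lit 0) (nat_lit 5168) (XT.nd (nat_lit 156) (nat_lit 0) (nat_lit 0) (XT.nd (nat_lit 78) (nat_lit 0) (nat_lit 0) (XT.lf (nat_lit 0) (nat_lit 98056739341) (nat_lit 76) (nat_lit 49280662577) (nat_lit 152) (nat_lit 388406462122) (nat_lit 5) (nat_lit 5) (nat_lit 6) (nat_lit 5) (nat_lit 7) (nat_lit 4) (nat_lit 317) (nat_lit 266) (nat_lit 137)) (XT.lf (nat_lit 0) (nat_lit 207651712992) (nat_lit 152) (nat_lit 354304487630) (nat_lit 0) (nat_lit 13379644560) (nat_lit 5) (nat_lit 5) (nat_lit 7) (nat_lit 4) (nat_lit 5) (nat_lit 4) (nat_lit 318) (nat_lit 266) (nat_lit 136))) (XT.nd (nat_lit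 33462) (nat_lit 0) (nat_lit 5092) (XT.lf (nat_lit 0) (nat_lit 273621679243) (nat_lit 152) (nat_lit 265083019833) (nat_lit 0) (nat_lit 79348960668) (nat_lit 5) (nat_lit 5) (nat_lit 7) (nat_lit 4) (nat_lit 5) (nat_lit 4) (nat_lit 319) (nat_lit 266) (nat_lit 135)) (XT.nd (nat_lit 78) (nat_lit 0) (nat_lit 0) (XT.lf (nat_lit 0) (nat_lit 3640371689) (nat_lit 0) (nat_lit 3640371689) (nat_lit 684) (nat_lit 9133874583) (nat_lit 72) (nat_lit 5) (nat_lit 72) (nat_lit 3) (nat_lit 81) (nat_lit 3) (nat_lit 267) (nat_lit 267) (nat_lit 186)) (XT.lf (nat_lit 0) (nat_lit 15477593733) (nat_lit 684) (nat_lit 3385795464) (nat_lit 760) (nat_lit 15262047955) (nat_lit 72) (nat_lit 5) (nat_lit 81) (nat_lit 3) (nat_lit 82) (nat_lit 5) (nat_lit 268) (nat_lit 267) (nat_lit 185))))) (XT.nd (nat_lit 156) (nat_lit 0) (nat_lit 76) (XT.nd (nat_lit 78) (nat_lit 0) (nat_lit 0) (XT.lf (nat_lit 0) (nat_lit 16975833693) (nat_lit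 684) (nat_lit 14471069384) (nat_lit 760) (nat_lit 4053017778) (nat_lit 73) (nat_lit 5) (nat_lit 82) (nat_lit 5) (nat_lit 83) (nat_lit 5) (nat_lit 269) (nat_lit 267) (nat_lit 184)) (XT.lf (nat_lit 76) (nat_lit 10549593234) (nat_lit 0) (nat_lit 8579003636) (nat_lit 760) (nat_lit 17829059662) (nat_lit 74) (nat_lit 5) (nat_lit 73) (nat_lit 5) (nat_lit 83) (nat_lit 5) (nat_lit 270) (nat_lit 267) (nat_lit 183))) (XT.nd (nat_lit 78) (nat_lit 0) (nat_lit 76) (XT.lf (nat_lit 0) (nat_lit 21953941392) (nat_lit 684) (nat_lit 691925561) (nat_lit 760) (nat_lit 15861150613) (nat_lit 74) (nat_lit 5) (nat_lit 83) (nat_lit 5) (nat_lit 84) (nat_lit 5) (nat_lit 271) (nat_lit 267) (nat_lit 182)) (XT.nd (nat_lit 78) (nat_lit 0) (nat_lit 0) (XT.lf (nat_lit 0) (nat_lit 25612459870) (nat_lit 684) (nat_lit 12364460684) (nat_lit 760) (nat_lit 2173072309) (nat_lit 75) (nat_lit 5) (nat_lit 84) (nat_lit 5) (nat_lit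 85) (nat_lit 5) (nat_lit 272) (nat_lit 267) (nat_lit 181)) (XT.lf (nat_lit 76) (nat_lit 16792347472) (nat_lit 0) (nat_lit 13421110401) (nat_lit 760) (nat_lit 11678479429) (nat_lit 76) (nat_lit 5) (nat_lit 75) (nat_lit 5) (nat_lit 85) (nat_lit 5) (nat_lit 273) (nat_lit 267) (nat_lit 180))))))))
noncomputable def xc99 : XT := (XT.nd (nat_lit 1404) (nat_lit 1444) (nat_lit 0) (XT.nd (nat_lit 702) (nat_lit 1444) (nat_lit 0) (XT.nd (nat_lit 312) (nat_lit 836) (nat_lit 0) (XT.nd (nat_lit 156) (nat_lit 760) (nat_lit 0) (XT.nd (nat_lit 78) (nat_lit 0) (nat_lit 0) (XT.lf (nat_lit 0) (nat_lit 4904416652) (nat_lit 684) (nat_lit 30772059233) (nat_lit 760) (nat_lit 8072083866) (nat_lit 67) (nat_lit 5) (nat_lit 76) (nat_lit 5) (nat_lit 77) (nat_lit 5) (nat_lit 274) (nat_lit 267) (nat_lit 179)) (XT.lf (nat_lit 0) (nat_lit 37966211233) (nat_lit 684) (nat_lit 4264509170) (nat_lit 760) (nat_lit 3490300360)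 (nat_lit 67) (nat_lit 5) (nat_lit 76) (nat_lit 5) (nat_lit 77) (nat_lit 5) (nat_lit 275) (nat_lit 267) (nat_lit 178))) (XT.nd (nat_lit 78) (nat_lit 380) (nat_lit 0) (XT.lf (nat_lit 0) (nat_lit 2209609794) (nat_lit 380) (nat_lit 21570298217) (nat_lit 76) (nat_lit 24030335848) (nat_lit 62) (nat_lit 5) (nat_lit 67) (nat_lit 5) (nat_lit 63) (nat_lit 5) (nat_lit 276) (nat_lit 267) (nat_lit 177)) (XT.lf (nat_lit 0) (nat_lit 8734271007) (nat_lit 456) (nat_lit 36653582138) (nat_lit 76) (nat_lit 4651353402) (nat_lit 57) (nat_lit 5) (nat_lit 63) (nat_lit 5) (nat_lit 58) (nat_lit 5) (nat_lit 277) (nat_lit 267) (nat_lit 176)))) (XT.nd (nat_lit 156) (nat_lit 532) (nat_lit 0) (XT.nd (nat_lit 78) (nat_lit 304) (nat_lit 0) (XT.lf (nat_lit 0) (nat_lit 16559040299) (nat_lit 456) (nat_lit 931504365) (nat_lit 76) (nat_lit 34917048451) (nat_lit 57) (nat_lit 5) (nat_lit 63) (nat_lit 5) (nat_lit 58) (nat_lit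 5) (nat_lit 278) (nat_lit 267) (nat_lit 175)) (XT.lf (nat_lit 0) (nat_lit 25819834718) (nat_lit 380) (nat_lit 16254180640) (nat_lit 76) (nat_lit 12850945687) (nat_lit 53) (nat_lit 5) (nat_lit 58) (nat_lit 5) (nat_lit 54) (nat_lit 5) (nat_lit 279) (nat_lit 267) (nat_lit 174))) (XT.nd (nat_lit 78) (nat_lit 228) (nat_lit 0) (XT.lf (nat_lit 0) (nat_lit 24309874986) (nat_lit 304) (nat_lit 12198443023) (nat_lit 380) (nat_lit 21101070815) (nat_lit 49) (nat_lit 5) (nat_lit 53) (nat_lit 5) (nat_lit 54) (nat_lit 5) (nat_lit 280) (nat_lit 267) (nat_lit 173)) (XT.nd (nat_lit 78) (nat_lit 0) (nat_lit 0) (XT.lf (nat_lit 0) (nat_lit 8143151648) (nat_lit 228) (nat_lit 40633044274) (nat_lit 304) (nat_lit 11696169920) (nat_lit 46) (nat_lit 5) (nat_lit 49) (nat_lit 5) (nat_lit 50) (nat_lit 5) (nat_lit 281) (nat_lit 267) (nat_lit 172)) (XT.lf (nat_lit 0) (nat_lit 53873450174) (nat_lit 228) (nat_lit 8930795672)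 (nat_lit 304) (nat_lit 721208101) (nat_lit 46) (nat_lit 5) (nat_lit 49) (nat_lit 5) (nat_lit 50) (nat_lit 5) (nat_lit 282) (nat_lit 267) (nat_lit 171)))))) (XT.nd (nat_lit 312) (nat_lit 608) (nat_lit 0) (XT.nd (nat_lit 156) (nat_lit 228) (nat_lit 0) (XT.nd (nat_lit 78) (nat_lit 228) (nat_lit 0) (XT.lf (nat_lit 0) (nat_lit 11764398166) (nat_lit 380) (nat_lit 29732240374) (nat_lit 76) (nat_lit 25268022850) (nat_lit 41) (nat_lit 5) (nat_lit 46) (nat_lit 5) (nat_lit 42) (nat_lit 5) (nat_lit 283) (nat_lit 267) (nat_lit 170)) (XT.lf (nat_lit 0) (nat_lit 17946378857) (nat_lit 228) (nat_lit 7875921502) (nat_lit 304) (nat_lit 44410186338) (nat_lit 38) (nat_lit 5) (nat_lit 41) (nat_lit 5) (nat_lit 42) (nat_lit 5) (nat_lit 284) (nat_lit 267) (nat_lit 169))) (XT.nd (nat_lit 78) (nat_lit 228) (nat_lit 0) (XT.lf (nat_lit 0) (nat_lit 41972057264) (nat_lit 304) (nat_lit 3907406941) (nat_lit 76) (nat_lit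 28049920269) (nat_lit 38) (nat_lit 5) (nat_lit 42) (nat_lit 5) (nat_lit 39) (nat_lit 5) (nat_lit 285) (nat_lit 267) (nat_lit 168)) (XT.lf (nat_lit 0) (nat_lit 49798819016) (nat_lit 228) (nat_lit 10522382957) (nat_lit 304) (nat_lit 17555468747) (nat_lit 35) (nat_lit 5) (nat_lit 38) (nat_lit 5) (nat_lit 39) (nat_lit 5) (nat_lit 286) (nat_lit 267) (nat_lit 167)))) (XT.nd (nat_lit 156) (nat_lit 380) (nat_lit 0) (XT.nd (nat_lit 78) (nat_lit 76) (nat_lit 0) (XT.lf (nat_lit 0) (nat_lit 26206696132) (nat_lit 152) (nat_lit 54839071590) (nat_lit 228) (nat_lit 1048604161) (nat_lit 33) (nat_lit 5) (nat_lit 35) (nat_lit 5) (nat_lit 36) (nat_lit 5) (nat_lit 287) (nat_lit 267) (nat_lit 166)) (XT.lf (nat_lit 0) (nat_lit 16913672163) (nat_lit 228) (nat_lit 1239515968) (nat_lit 76) (nat_lit 68449614058) (nat_lit 32) (nat_lit 5) (nat_lit 35) (nat_lit 5) (nat_lit 33) (nat_lit 5) (nat_lit 288) (nat_lit 267)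 (nat_lit 165))) (XT.nd (nat_lit 78) (nat_lit 152) (nat_lit 0) (XT.lf (nat_lit 0) (nat_lit 37556544806) (nat_lit 304) (nat_lit 32106140965) (nat_lit 76) (nat_lit 21744349328) (nat_lit 29) (nat_lit 5) (nat_lit 33) (nat_lit 5) (nat_lit 30) (nat_lit 5) (nat_lit 289) (nat_lit 267) (nat_lit 164)) (XT.nd (nat_lit 78) (nat_lit 0) (nat_lit 0) (XT.lf (nat_lit 0) (nat_lit 28744412457) (nat_lit 152) (nat_lit 31880915338) (nat_lit 228) (nat_lit 35931559726) (nat_lit 27) (nat_lit 5) (nat_lit 29) (nat_lit 5) (nat_lit 30) (nat_lit 5) (nat_lit 290) (nat_lit 267) (nat_lit 163)) (XT.lf (nat_lit 0) (nat_lit 86245133734) (nat_lit 228) (nat_lit 6633104247) (nat_lit 76) (nat_lit 9205218685) (nat_lit 27) (nat_lit 5) (nat_lit 30) (nat_lit 5) (nat_lit 28) (nat_lit 5) (nat_lit 291) (nat_lit 267) (nat_lit 162))))))) (XT.nd (nat_lit 702) (nat_lit 532) (nat_lit 0) (XT.nd (nat_lit 312) (nat_lit 380) (nat_lit 0) (XT.nd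 (nat_lit 156) (nat_lit 152) (nat_lit 0) (XT.nd (nat_lit 78) (nat_lit 152) (nat_lit 0) (XT.lf (nat_lit 0) (nat_lit 7184588104) (nat_lit 228) (nat_lit 47246330496) (nat_lit 76) (nat_lit 53541167953) (nat_lit 24) (nat_lit 5) (nat_lit 27) (nat_lit 5) (nat_lit 25) (nat_lit 5) (nat_lit 292) (nat_lit 267) (nat_lit 161)) (XT.lf (nat_lit 0) (nat_lit 19744091049) (nat_lit 152) (nat_lit 12181461835) (nat_lit 228) (nat_lit 82371719499) (nat_lit 22) (nat_lit 5) (nat_lit 24) (nat_lit 5) (nat_lit 25) (nat_lit 5) (nat_lit 293) (nat_lit 267) (nat_lit 160))) (XT.nd (nat_lit 78) (nat_lit 152) (nat_lit 0) (XT.lf (nat_lit 0) (nat_lit 60002591140) (nat_lit 228) (nat_lit 27845131025) (nat_lit 76) (nat_lit 33212914535) (nat_lit 22) (nat_lit 5) (nat_lit 25) (nat_lit 5) (nat_lit 23) (nat_lit 5) (nat_lit 294) (nat_lit 267) (nat_lit 159)) (XT.lf (nat_lit 0) (nat_lit 45445940098) (nat_lit 152) (nat_lit 45793021824)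 (nat_lit 228) (nat_lit 37080452948) (nat_lit 20) (nat_lit 5) (nat_lit 22) (nat_lit 5) (nat_lit 23) (nat_lit 5) (nat_lit 295) (nat_lit 267) (nat_lit 158)))) (XT.nd (nat_lit 156) (nat_lit 228) (nat_lit 0) (XT.nd (nat_lit 78) (nat_lit 152) (nat_lit 0) (XT.lf (nat_lit 0) (nat_lit 125459703587) (nat_lit 228) (nat_lit 10544845317) (nat_lit 76) (nat_lit 130076273) (nat_lit 20) (nat_lit 5) (nat_lit 23) (nat_lit 5) (nat_lit 21) (nat_lit 4) (nat_lit 296) (nat_lit 267) (nat_lit 157)) (XT.lf (nat_lit 0) (nat_lit 19150182971) (nat_lit 152) (nat_lit 75787579205) (nat_lit 76) (nat_lit 49529452738) (nat_lit 18) (nat_lit 5) (nat_lit 20) (nat_lit 5) (nat_lit 19) (nat_lit 5) (nat_lit 297) (nat_lit 267) (nat_lit 156))) (XT.nd (nat_lit 78) (nat_lit 76) (nat_lit 0) (XT.lf (nat_lit 0) (nat_lit 1008191640) (nat_lit 152) (nat_lit 50185024459) (nat_lit 228) (nat_lit 102254152327) (nat_lit 16) (nat_lit 5) (nat_lit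 18) (nat_lit 5) (nat_lit 19) (nat_lit 5) (nat_lit 298) (nat_lit 267) (nat_lit 155)) (XT.nd (nat_lit 78) (nat_lit 76) (nat_lit 0) (XT.lf (nat_lit 0) (nat_lit 86651613872) (nat_lit 152) (nat_lit 466805566) (nat_lit 228) (nat_lit 75961580630) (nat_lit 16) (nat_lit 5) (nat_lit 18) (nat_lit 5) (nat_lit 19) (nat_lit 5) (nat_lit 299) (nat_lit 267) (nat_lit 154)) (XT.lf (nat_lit 0) (nat_lit 4989675499) (nat_lit 76) (nat_lit 121835568680) (nat_lit 152) (nat_lit 46612619867) (nat_lit 15) (nat_lit 5) (nat_lit 16) (nat_lit 5) (nat_lit 17) (nat_lit 4) (nat_lit 300) (nat_lit 267) (nat_lit 153)))))) (XT.nd (nat_lit 390) (nat_lit 228) (nat_lit 0) (XT.nd (nat_lit 156) (nat_lit 228) (nat_lit 0) (XT.nd (nat_lit 78) (nat_lit 76) (nat_lit 0) (XT.lf (nat_lit 0) (nat_lit 95640140023) (nat_lit 76) (nat_lit 75406269263) (nat_lit 152) (nat_lit 13511060047) (nat_lit 15) (nat_lit 5) (nat_lit 16) (nat_lit 5) (nat_lit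 17) (nat_lit 4) (nat_lit 301) (nat_lit 267) (nat_lit 152)) (XT.lf (nat_lit 0) (nat_lit 21525640508) (nat_lit 152) (nat_lit 3373235136) (nat_lit 76) (nat_lit 171650469177) (nat_lit 14) (nat_lit 5) (nat_lit 16) (nat_lit 5) (nat_lit 15) (nat_lit 5) (nat_lit 302) (nat_lit 267) (nat_lit 151))) (XT.nd (nat_lit 78) (nat_lit 76) (nat_lit 0) (XT.lf (nat_lit 0) (nat_lit 60819239485) (nat_lit 228) (nat_lit 118187428751) (nat_lit 76) (nat_lit 30386462828) (nat_lit 12) (nat_lit 5) (nat_lit 15) (nat_lit 5) (nat_lit 13) (nat_lit 4) (nat_lit 303) (nat_lit 267) (nat_lit 150)) (XT.nd (nat_lit 78) (nat_lit 76) (nat_lit 0) (XT.lf (nat_lit 0) (nat_lit 103734813656) (nat_lit 228) (nat_lit 30212712290) (nat_lit 76) (nat_lit 89292971338) (nat_lit 12) (nat_lit 5) (nat_lit 15) (nat_lit 5) (nat_lit 13) (nat_lit 4) (nat_lit 304) (nat_lit 267) (nat_lit 149)) (XT.lf (nat_lit 0) (nat_lit 66940803239) (nat_lit 76) (nat_lit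 84186967673) (nat_lit 152) (nat_lit 87015676371) (nat_lit 11) (nat_lit 5) (nat_lit 12) (nat_lit 5) (nat_lit 13) (nat_lit 4) (nat_lit 305) (nat_lit 267) (nat_lit 148))))) (XT.nd (nat_lit 156) (nat_lit 152) (nat_lit 0) (XT.nd (nat_lit 78) (nat_lit 76) (nat_lit 0) (XT.lf (nat_lit 0) (nat_lit 172943858184) (nat_lit 76) (nat_lit 29893644518) (nat_lit 152) (nat_lit 51374864917) (nat_lit 11) (nat_lit 5) (nat_lit 12) (nat_lit 5) (nat_lit 13) (nat_lit 4) (nat_lit 306) (nat_lit 267) (nat_lit 147)) (XT.lf (nat_lit 0) (nat_lit 15919578178) (nat_lit 76) (nat_lit 243460857516) (nat_lit 76) (nat_lit 12151545901) (nat_lit 10) (nat_lit 4) (nat_lit 11) (nat_lit 5) (nat_lit 11) (nat_lit 4) (nat_lit 307) (nat_lit 267) (nat_lit 146))) (XT.nd (nat_lit 78) (nat_lit 76) (nat_lit 0) (XT.lf (nat_lit 0) (nat_lit 31184795510) (nat_lit 152) (nat_lit 167382028295) (nat_lit 76) (nat_lit 91549656341) (nat_lit 9) (nat_lit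 5) (nat_lit 11) (nat_lit 5) (nat_lit 10) (nat_lit 4) (nat_lit 308) (nat_lit 267) (nat_lit 145)) (XT.nd (nat_lit 78) (nat_lit 76) (nat_lit 0) (XT.lf (nat_lit 0) (nat_lit 77567208760) (nat_lit 152) (nat_lit 72299513982) (nat_lit 76) (nat_lit 160310811716) (nat_lit 9) (nat_lit 5) (nat_lit 11) (nat_lit 5) (nat_lit 10) (nat_lit 4) (nat_lit 309) (nat_lit 267) (nat_lit 144)) (XT.lf (nat_lit 0) (nat_lit 31393085948) (nat_lit 76) (nat_lit 96756526052) (nat_lit 152) (nat_lit 203669392134) (nat_lit 8) (nat_lit 5) (nat_lit 9) (nat_lit 5) (nat_lit 10) (nat_lit 4) (nat_lit 310) (nat_lit 267) (nat_lit 143))))))))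
noncomputable def xc100 : XT := (XT.nd (nat_lit 34866) (nat_lit 0) (nat_lit 1292) (XT.nd (nat_lit 34164) (nat_lit 0) (nat_lit 4712) (XT.nd (nat_lit 312) (nat_lit 152) (nat_lit 0) (XT.nd (nat_lit 156) (nat_lit 76) (nat_lit 0) (XT.nd (nat_lit 78) (nat_lit 0) (nat_lit 0) (XT.lf (nat_lit 0) (nat_lit 145961651940) (nat_lit 76) (nat_lit 38075664659) (nat_lit 152) (nat_lit 171091540131) (nat_lit 8) (nat_lit 5) (nat_lit 9) (nat_lit 5) (nat_lit 10) (nat_lit 4) (nat_lit 311) (nat_lit 267) (nat_lit 142)) (XT.lf (nat_lit 0) (nat_lit 244790378748) (nat_lit 152) (nat_lit 111003961372) (nat_lit 0) (nat_lit 24489441099) (nat_lit 8) (nat_lit 5) (nat_lit 10) (nat_lit 4) (nat_lit 8) (nat_lit 4) (nat_lit 312) (nat_lit 267) (nat_lit 141))) (XT.nd (nat_lit 78) (nat_lit 76) (nat_lit 0) (XT.lf (nat_lit 0) (nat_lit 311045102329) (nat_lit 152) (nat_lit 5630765557) (nat_lit 0) (nat_lit 90743161645) (nat_lit 8)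 (nat_lit 5) (nat_lit 10) (nat_lit 4) (nat_lit 8) (nat_lit 4) (nat_lit 313) (nat_lit 267) (nat_lit 140)) (XT.lf (nat_lit 0) (nat_lit 111747915411) (nat_lit 76) (nat_lit 272596422816) (nat_lit 76) (nat_lit 52293553396) (nat_lit 7) (nat_lit 4) (nat_lit 8) (nat_lit 5) (nat_lit 8) (nat_lit 4) (nat_lit 314) (nat_lit 267) (nat_lit 139)))) (XT.nd (nat_lit 156) (nat_lit 76) (nat_lit 0) (XT.nd (nat_lit 78) (nat_lit 76) (nat_lit 0) (XT.lf (nat_lit 0) (nat_lit 238717005526) (nat_lit 76) (nat_lit 224888054869) (nat_lit 76) (nat_lit 4584325508) (nat_lit 7) (nat_lit 4) (nat_lit 8) (nat_lit 5) (nat_lit 8) (nat_lit 4) (nat_lit 315) (nat_lit 267) (nat_lit 138)) (XT.lf (nat_lit 0) (nat_lit 45438709142) (nat_lit 152) (nat_lit 127155171859) (nat_lit 76) (nat_lit 329634500005) (nat_lit 6) (nat_lit 5) (nat_lit 8) (nat_lit 5) (nat_lit 7) (nat_lit 4) (nat_lit 316) (nat_lit 267) (nat_lit 137))) (XT.nd (nat_lit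 78) (nat_lit 76) (nat_lit 0) (XT.lf (nat_lit 0) (nat_lit 99304653010) (nat_lit 152) (nat_lit 16730724191) (nat_lit 76) (nat_lit 422951277411) (nat_lit 6) (nat_lit 5) (nat_lit 8) (nat_lit 5) (nat_lit 7) (nat_lit 4) (nat_lit 317) (nat_lit 267) (nat_lit 136)) (XT.nd (nat_lit 78) (nat_lit 0) (nat_lit 0) (XT.lf (nat_lit 0) (nat_lit 105916906361) (nat_lit 76) (nat_lit 53216192113) (nat_lit 152) (nat_lit 419469830774) (nat_lit 5) (nat_lit 5) (nat_lit 6) (nat_lit 5) (nat_lit 7) (nat_lit 4) (nat_lit 318) (nat_lit 267) (nat_lit 135)) (XT.lf (nat_lit 0) (nat_lit 224272009750) (nat_lit 152) (nat_lit 382634065442) (nat_lit 0) (nat_lit 14456221566) (nat_lit 5) (nat_lit 5) (nat_lit 7) (nat_lit 4) (nat_lit 5) (nat_lit 4) (nat_lit 319) (nat_lit 267) (nat_lit 134)))))) (XT.nd (nat_lit 312) (nat_lit 380) (nat_lit 0) (XT.nd (nat_lit 156) (nat_lit 0) (nat_lit 76) (XT.nd (nat_lit 78) (nat_lit 0) (nat_lit 0)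 (XT.lf (nat_lit 0) (nat_lit 3974292131) (nat_lit 0) (nat_lit 3974292131) (nat_lit 684) (nat_lit 9774655106) (nat_lit 72) (nat_lit 5) (nat_lit 72) (nat_lit 3) (nat_lit 81) (nat_lit 3) (nat_lit 268) (nat_lit 268) (nat_lit 184)) (XT.lf (nat_lit 0) (nat_lit 16872680661) (nat_lit 684) (nat_lit 3567945661) (nat_lit 760) (nat_lit 16406485241) (nat_lit 72) (nat_lit 5) (nat_lit 81) (nat_lit 3) (nat_lit 82) (nat_lit 5) (nat_lit 269) (nat_lit 268) (nat_lit 183))) (XT.nd (nat_lit 78) (nat_lit 0) (nat_lit 0) (XT.lf (nat_lit 0) (nat_lit 18479520284) (nat_lit 684) (nat_lit 15535125659) (nat_lit 760) (nat_lit 4317509262) (nat_lit 73) (nat_lit 5) (nat_lit 82) (nat_lit 5) (nat_lit 83) (nat_lit 5) (nat_lit 270) (nat_lit 268) (nat_lit 182)) (XT.lf (nat_lit 76) (nat_lit 11483120954) (nat_lit 0) (nat_lit 9311995188) (nat_lit 760) (nat_lit 19111898443) (nat_lit 74) (nat_lit 5) (nat_lit 73) (nat_lit 5) (nat_lit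 83) (nat_lit 5) (nat_lit 271) (nat_lit 268) (nat_lit 181)))) (XT.nd (nat_lit 156) (nat_lit 532) (nat_lit 0) (XT.nd (nat_lit 78) (nat_lit 0) (nat_lit 76) (XT.lf (nat_lit 0) (nat_lit 23835722308) (nat_lit 684) (nat_lit 656961643) (nat_lit 760) (nat_lit 17088211653) (nat_lit 74) (nat_lit 5) (nat_lit 83) (nat_lit 5) (nat_lit 84) (nat_lit 5) (nat_lit 272) (nat_lit 268) (nat_lit 180)) (XT.lf (nat_lit 0) (nat_lit 27778491358) (nat_lit 684) (nat_lit 13260482949) (nat_lit 760) (nat_lit 2316786541) (nat_lit 75) (nat_lit 5) (nat_lit 84) (nat_lit 5) (nat_lit 85) (nat_lit 5) (nat_lit 273) (nat_lit 268) (nat_lit 179))) (XT.nd (nat_lit 78) (nat_lit 608) (nat_lit 0) (XT.lf (nat_lit 76) (nat_lit 18224822345) (nat_lit 0) (nat_lit 14515468519) (nat_lit 760) (nat_lit 12497162022) (nat_lit 76) (nat_lit 5) (nat_lit 75) (nat_lit 5) (nat_lit 85) (nat_lit 5) (nat_lit 274) (nat_lit 268) (nat_lit 178)) (XT.nd (nat_lit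 78) (nat_lit 0) (nat_lit 0) (XT.lf (nat_lit 0) (nat_lit 5387879751) (nat_lit 684) (nat_lit 33245464141) (nat_lit 760) (nat_lit 8609637602) (nat_lit 67) (nat_lit 5) (nat_lit 76) (nat_lit 5) (nat_lit 77) (nat_lit 5) (nat_lit 275) (nat_lit 268) (nat_lit 177)) (XT.lf (nat_lit 0) (nat_lit 41087869028) (nat_lit 684) (nat_lit 4616447839) (nat_lit 760) (nat_lit 3669327191) (nat_lit 67) (nat_lit 5) (nat_lit 76) (nat_lit 5) (nat_lit 77) (nat_lit 5) (nat_lit 276) (nat_lit 268) (nat_lit 176))))))) (XT.nd (nat_lit 702) (nat_lit 1216) (nat_lit 0) (XT.nd (nat_lit 312) (nat_lit 1140) (nat_lit 0) (XT.nd (nat_lit 156) (nat_lit 304) (nat_lit 0) (XT.nd (nat_lit 78) (nat_lit 380) (nat_lit 0) (XT.lf (nat_lit 0) (nat_lit 2477385872) (nat_lit 380) (nat_lit 23206952984) (nat_lit 76) (nat_lit 25945908341) (nat_lit 62) (nat_lit 5) (nat_lit 67) (nat_lit 5) (nat_lit 63) (nat_lit 5) (nat_lit 277) (nat_lit 268) (nat_lit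 175)) (XT.lf (nat_lit 0) (nat_lit 9518599708) (nat_lit 456) (nat_lit 39496232570) (nat_lit 76) (nat_lit 5022985324) (nat_lit 57) (nat_lit 5) (nat_lit 63) (nat_lit 5) (nat_lit 58) (nat_lit 5) (nat_lit 278) (nat_lit 268) (nat_lit 174))) (XT.nd (nat_lit 78) (nat_lit 304) (nat_lit 0) (XT.lf (nat_lit 0) (nat_lit 17963010764) (nat_lit 456) (nat_lit 923028289) (nat_lit 76) (nat_lit 37709971262) (nat_lit 57) (nat_lit 5) (nat_lit 63) (nat_lit 5) (nat_lit 58) (nat_lit 5) (nat_lit 279) (nat_lit 268) (nat_lit 173)) (XT.lf (nat_lit 0) (nat_lit 27960112581) (nat_lit 380) (nat_lit 17471258274) (nat_lit 76) (nat_lit 13883641513) (nat_lit 53) (nat_lit 5) (nat_lit 58) (nat_lit 5) (nat_lit 54) (nat_lit 5) (nat_lit 280) (nat_lit 268) (nat_lit 172)))) (XT.nd (nat_lit 156) (nat_lit 608) (nat_lit 0) (XT.nd (nat_lit 78) (nat_lit 228) (nat_lit 0) (XT.lf (nat_lit 0) (nat_lit 26334303562) (nat_lit 304) (nat_lit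 13165081682) (nat_lit 380) (nat_lit 22715039220) (nat_lit 49) (nat_lit 5) (nat_lit 53) (nat_lit 5) (nat_lit 54) (nat_lit 5) (nat_lit 281) (nat_lit 268) (nat_lit 171)) (XT.lf (nat_lit 0) (nat_lit 8874197413) (nat_lit 228) (nat_lit 43870657239) (nat_lit 304) (nat_lit 12561791401) (nat_lit 46) (nat_lit 5) (nat_lit 49) (nat_lit 5) (nat_lit 50) (nat_lit 5) (nat_lit 282) (nat_lit 268) (nat_lit 170))) (XT.nd (nat_lit 78) (nat_lit 608) (nat_lit 0) (XT.lf (nat_lit 0) (nat_lit 58257023997) (nat_lit 228) (nat_lit 9633193977) (nat_lit 304) (nat_lit 714023163) (nat_lit 46) (nat_lit 5) (nat_lit 49) (nat_lit 5) (nat_lit 50) (nat_lit 5) (nat_lit 283) (nat_lit 268) (nat_lit 169)) (XT.nd (nat_lit 78) (nat_lit 228) (nat_lit 0) (XT.lf (nat_lit 0) (nat_lit 12765045175) (nat_lit 380) (nat_lit 32035281987) (nat_lit 76) (nat_lit 27302384670) (nat_lit 41) (nat_lit 5) (nat_lit 46) (nat_lit 5) (nat_lit 42) (nat_lit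 5) (nat_lit 284) (nat_lit 268) (nat_lit 168)) (XT.lf (nat_lit 0) (nat_lit 19454344009) (nat_lit 228) (nat_lit 8489956587) (nat_lit 304) (nat_lit 47903837458) (nat_lit 38) (nat_lit 5) (nat_lit 41) (nat_lit 5) (nat_lit 42) (nat_lit 5) (nat_lit 285) (nat_lit 268) (nat_lit 167)))))) (XT.nd (nat_lit 390) (nat_lit 532) (nat_lit 0) (XT.nd (nat_lit 156) (nat_lit 456) (nat_lit 0) (XT.nd (nat_lit 78) (nat_lit 228) (nat_lit 0) (XT.lf (nat_lit 0) (nat_lit 45382105749) (nat_lit 304) (nat_lit 4150599482) (nat_lit 76) (nat_lit 30308289167) (nat_lit 38) (nat_lit 5) (nat_lit 42) (nat_lit 5) (nat_lit 39) (nat_lit 5) (nat_lit 286) (nat_lit 268) (nat_lit 166)) (XT.lf (nat_lit 0) (nat_lit 53849108511) (nat_lit 228) (nat_lit 11347237082) (nat_lit 304) (nat_lit 18907869154) (nat_lit 35) (nat_lit 5) (nat_lit 38) (nat_lit 5) (nat_lit 39) (nat_lit 5) (nat_lit 287) (nat_lit 268) (nat_lit 165))) (XT.nd (nat_lit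 78) (nat_lit 304) (nat_lit 0) (XT.lf (nat_lit 0) (nat_lit 28368954984) (nat_lit 152) (nat_lit 59207529806) (nat_lit 228) (nat_lit 1082975491) (nat_lit 33) (nat_lit 5) (nat_lit 35) (nat_lit 5) (nat_lit 36) (nat_lit 5) (nat_lit 288) (nat_lit 268) (nat_lit 164)) (XT.nd (nat_lit 78) (nat_lit 228) (nat_lit 0) (XT.lf (nat_lit 0) (nat_lit 18311147557) (nat_lit 228) (nat_lit 1276259268) (nat_lit 76) (nat_lit 73941304717) (nat_lit 32) (nat_lit 5) (nat_lit 35) (nat_lit 5) (nat_lit 33) (nat_lit 5) (nat_lit 289) (nat_lit 268) (nat_lit 163)) (XT.lf (nat_lit 0) (nat_lit 40603370672) (nat_lit 304) (nat_lit 34613012931) (nat_lit 76) (nat_lit 23501010539) (nat_lit 29) (nat_lit 5) (nat_lit 33) (nat_lit 5) (nat_lit 30) (nat_lit 5) (nat_lit 290) (nat_lit 268) (nat_lit 162))))) (XT.nd (nat_lit 156) (nat_lit 380) (nat_lit 0) (XT.nd (nat_lit 78) (nat_lit 0) (nat_lit 0) (XT.lf (nat_lit 0) (nat_lit 31102906864)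 (nat_lit 152) (nat_lit 34412536174) (nat_lit 228) (nat_lit 38763908950) (nat_lit 27) (nat_lit 5) (nat_lit 29) (nat_lit 5) (nat_lit 30) (nat_lit 5) (nat_lit 291) (nat_lit 268) (nat_lit 161)) (XT.lf (nat_lit 0) (nat_lit 93182136431) (nat_lit 228) (nat_lit 7107517766) (nat_lit 76) (nat_lit 9958533399) (nat_lit 27) (nat_lit 5) (nat_lit 30) (nat_lit 5) (nat_lit 28) (nat_lit 5) (nat_lit 292) (nat_lit 268) (nat_lit 160))) (XT.nd (nat_lit 78) (nat_lit 152) (nat_lit 0) (XT.lf (nat_lit 0) (nat_lit 7795466667) (nat_lit 228) (nat_lit 50970984980) (nat_lit 76) (nat_lit 57841529233) (nat_lit 24) (nat_lit 5) (nat_lit 27) (nat_lit 5) (nat_lit 25) (nat_lit 5) (nat_lit 293) (nat_lit 268) (nat_lit 159)) (XT.nd (nat_lit 78) (nat_lit 0) (nat_lit 0) (XT.lf (nat_lit 0) (nat_lit 21376277798) (nat_lit 152) (nat_lit 13137578065) (nat_lit 228) (nat_lit 88925423316) (nat_lit 22) (nat_lit 5) (nat_lit 24) (nat_lit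 5) (nat_lit 25) (nat_lit 5) (nat_lit 294) (nat_lit 268) (nat_lit 158)) (XT.lf (nat_lit 0) (nat_lit 64834785501) (nat_lit 228) (nat_lit 30022605236) (nat_lit 76) (nat_lit 35886440086) (nat_lit 22) (nat_lit 5) (nat_lit 25) (nat_lit 5) (nat_lit 23) (nat_lit 5) (nat_lit 295) (nat_lit 268) (nat_lit 157))))))))
noncomputable def xc101 : XT := (XT.nd (nat_lit 1404) (nat_lit 228) (nat_lit 0) (XT.nd (nat_lit 702) (nat_lit 304) (nat_lit 0) (XT.nd (nat_lit 312) (nat_lit 304) (nat_lit 0) (XT.nd (nat_lit 156) (nat_lit 304) (nat_lit 0) (XT.nd (nat_lit 78) (nat_lit 0) (nat_lit 0) (XT.lf (nat_lit 0) (nat_lit 49129572717) (nat_lit 152) (nat_lit 49438872566) (nat_lit 228) (nat_lit 40014951252) (nat_lit 20) (nat_lit 5) (nat_lit 22) (nat_lit 5) (nat_lit 23) (nat_lit 5) (nat_lit 296) (nat_lit 268) (nat_lit 156)) (XT.lf (nat_lit 0) (nat_lit 135524851219) (nat_lit 228) (nat_lit 11342827118) (nat_lit 76) (nat_lit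 156249025) (nat_lit 20) (nat_lit 5) (nat_lit 23) (nat_lit 5) (nat_lit 21) (nat_lit 4) (nat_lit 297) (nat_lit 268) (nat_lit 155))) (XT.nd (nat_lit 78) (nat_lit 152) (nat_lit 0) (XT.lf (nat_lit 0) (nat_lit 20709634434) (nat_lit 152) (nat_lit 81806011063) (nat_lit 76) (nat_lit 53507531326) (nat_lit 18) (nat_lit 5) (nat_lit 20) (nat_lit 5) (nat_lit 19) (nat_lit 5) (nat_lit 298) (nat_lit 268) (nat_lit 154)) (XT.lf (nat_lit 0) (nat_lit 1131484297) (nat_lit 152) (nat_lit 54183259246) (nat_lit 228) (nat_lit 110407070626) (nat_lit 16) (nat_lit 5) (nat_lit 18) (nat_lit 5) (nat_lit 19) (nat_lit 5) (nat_lit 299) (nat_lit 268) (nat_lit 153)))) (XT.nd (nat_lit 156) (nat_lit 228) (nat_lit 0) (XT.nd (nat_lit 78) (nat_lit 76) (nat_lit 0) (XT.lf (nat_lit 0) (nat_lit 93623221987) (nat_lit 152) (nat_lit 488810040) (nat_lit 228) (nat_lit 82013123851) (nat_lit 16) (nat_lit 5) (nat_lit 18) (nat_lit 5) (nat_lit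 19) (nat_lit 5) (nat_lit 300) (nat_lit 268) (nat_lit 152)) (XT.lf (nat_lit 0) (nat_lit 5427573869) (nat_lit 76) (nat_lit 131566867157) (nat_lit 152) (nat_lit 50317258793) (nat_lit 15) (nat_lit 5) (nat_lit 16) (nat_lit 5) (nat_lit 17) (nat_lit 4) (nat_lit 301) (nat_lit 268) (nat_lit 151))) (XT.nd (nat_lit 78) (nat_lit 228) (nat_lit 0) (XT.lf (nat_lit 0) (nat_lit 103327207085) (nat_lit 76) (nat_lit 81424375417) (nat_lit 152) (nat_lit 14569379422) (nat_lit 15) (nat_lit 5) (nat_lit 16) (nat_lit 5) (nat_lit 17) (nat_lit 4) (nat_lit 302) (nat_lit 268) (nat_lit 150)) (XT.nd (nat_lit 78) (nat_lit 152) (nat_lit 0) (XT.lf (nat_lit 0) (nat_lit 23267916928) (nat_lit 152) (nat_lit 3609197183) (nat_lit 76) (nat_lit 185395138879) (nat_lit 14) (nat_lit 5) (nat_lit 16) (nat_lit 5) (nat_lit 15) (nat_lit 5) (nat_lit 303) (nat_lit 268) (nat_lit 149)) (XT.lf (nat_lit 0) (nat_lit 65704217825) (nat_lit 228)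 (nat_lit 127609217603) (nat_lit 76) (nat_lit 32830148089) (nat_lit 12) (nat_lit 5) (nat_lit 15) (nat_lit 5) (nat_lit 13) (nat_lit 4) (nat_lit 304) (nat_lit 268) (nat_lit 148)))))) (XT.nd (nat_lit 312) (nat_lit 152) (nat_lit 0) (XT.nd (nat_lit 156) (nat_lit 76) (nat_lit 0) (XT.nd (nat_lit 78) (nat_lit 76) (nat_lit 0) (XT.lf (nat_lit 0) (nat_lit 112051597991) (nat_lit 228) (nat_lit 32598983489) (nat_lit 76) (nat_lit 96448231485) (nat_lit 12) (nat_lit 5) (nat_lit 15) (nat_lit 5) (nat_lit 13) (nat_lit 4) (nat_lit 305) (nat_lit 268) (nat_lit 147)) (XT.lf (nat_lit 0) (nat_lit 72325477108) (nat_lit 76) (nat_lit 90909640607) (nat_lit 152) (nat_lit 93958926740) (nat_lit 11) (nat_lit 5) (nat_lit 12) (nat_lit 5) (nat_lit 13) (nat_lit 4) (nat_lit 306) (nat_lit 268) (nat_lit 146))) (XT.nd (nat_lit 78) (nat_lit 76) (nat_lit 0) (XT.lf (nat_lit 0) (nat_lit 186806597960) (nat_lit 76) (nat_lit 32273761562)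 (nat_lit 152) (nat_lit 55468183980) (nat_lit 11) (nat_lit 5) (nat_lit 12) (nat_lit 5) (nat_lit 13) (nat_lit 4) (nat_lit 307) (nat_lit 268) (nat_lit 145)) (XT.lf (nat_lit 0) (nat_lit 17219800424) (nat_lit 76) (nat_lit 262926332774) (nat_lit 76) (nat_lit 13107624629) (nat_lit 10) (nat_lit 4) (nat_lit 11) (nat_lit 5) (nat_lit 11) (nat_lit 4) (nat_lit 308) (nat_lit 268) (nat_lit 144)))) (XT.nd (nat_lit 156) (nat_lit 76) (nat_lit 0) (XT.nd (nat_lit 78) (nat_lit 0) (nat_lit 0) (XT.lf (nat_lit 0) (nat_lit 33693960082) (nat_lit 152) (nat_lit 180747416688) (nat_lit 76) (nat_lit 98883685843) (nat_lit 9) (nat_lit 5) (nat_lit 11) (nat_lit 5) (nat_lit 10) (nat_lit 4) (nat_lit 309) (nat_lit 268) (nat_lit 143)) (XT.lf (nat_lit 0) (nat_lit 83785901138) (nat_lit 152) (nat_lit 78060165960) (nat_lit 76) (nat_lit 173144988685) (nat_lit 9) (nat_lit 5) (nat_lit 11) (nat_lit 5) (nat_lit 10) (nat_lit 4) (nat_lit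 310) (nat_lit 268) (nat_lit 142))) (XT.nd (nat_lit 78) (nat_lit 0) (nat_lit 0) (XT.lf (nat_lit 0) (nat_lit 33926828977) (nat_lit 76) (nat_lit 104487429419) (nat_lit 152) (nat_lit 219949617708) (nat_lit 8) (nat_lit 5) (nat_lit 9) (nat_lit 5) (nat_lit 10) (nat_lit 4) (nat_lit 311) (nat_lit 268) (nat_lit 141)) (XT.nd (nat_lit 78) (nat_lit 0) (nat_lit 0) (XT.lf (nat_lit 0) (nat_lit 157659228682) (nat_lit 76) (nat_lit 41112811612) (nat_lit 152) (nat_lit 184766524642) (nat_lit 8) (nat_lit 5) (nat_lit 9) (nat_lit 5) (nat_lit 10) (nat_lit 4) (nat_lit 312) (nat_lit 268) (nat_lit 140)) (XT.lf (nat_lit 0) (nat_lit 264384606657) (nat_lit 152) (nat_lit 119864735810) (nat_lit 0) (nat_lit 26456578947) (nat_lit 8) (nat_lit 5) (nat_lit 10) (nat_lit 4) (nat_lit 8) (nat_lit 4) (nat_lit 313) (nat_lit 268) (nat_lit 139))))))) (XT.nd (nat_lit 34242) (nat_lit 0) (nat_lit 3648) (XT.nd (nat_lit 312) (nat_lit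 76) (nat_lit 0) (XT.nd (nat_lit 156) (nat_lit 76) (nat_lit 0) (XT.nd (nat_lit 78) (nat_lit 76) (nat_lit 0) (XT.lf (nat_lit 0) (nat_lit 335938893487) (nat_lit 152) (nat_lit 6063131920) (nat_lit 0) (nat_lit 98010005836) (nat_lit 8) (nat_lit 5) (nat_lit 10) (nat_lit 4) (nat_lit 8) (nat_lit 4) (nat_lit 314) (nat_lit 268) (nat_lit 138)) (XT.lf (nat_lit 0) (nat_lit 120705057143) (nat_lit 76) (nat_lit 294396527054) (nat_lit 76) (nat_lit 56466843162) (nat_lit 7) (nat_lit 4) (nat_lit 8) (nat_lit 5) (nat_lit 8) (nat_lit 4) (nat_lit 315) (nat_lit 268) (nat_lit 137))) (XT.nd (nat_lit 78) (nat_lit 76) (nat_lit 0) (XT.lf (nat_lit 0) (nat_lit 257830392357) (nat_lit 76) (nat_lit 242872053343) (nat_lit 76) (nat_lit 4941632191) (nat_lit 7) (nat_lit 4) (nat_lit 8) (nat_lit 5) (nat_lit 8) (nat_lit 4) (nat_lit 316) (nat_lit 268) (nat_lit 136)) (XT.lf (nat_lit 0) (nat_lit 49082266280) (nat_lit 152) (nat_lit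 137312457925) (nat_lit 76) (nat_lit 356011495566) (nat_lit 6) (nat_lit 5) (nat_lit 8) (nat_lit 5) (nat_lit 7) (nat_lit 4) (nat_lit 317) (nat_lit 268) (nat_lit 135)))) (XT.nd (nat_lit 33696) (nat_lit 0) (nat_lit 5092) (XT.nd (nat_lit 78) (nat_lit 76) (nat_lit 0) (XT.lf (nat_lit 0) (nat_lit 107256858961) (nat_lit 152) (nat_lit 18055175012) (nat_lit 76) (nat_lit 456793153271) (nat_lit 6) (nat_lit 5) (nat_lit 8) (nat_lit 5) (nat_lit 7) (nat_lit 4) (nat_lit 318) (nat_lit 268) (nat_lit 134)) (XT.lf (nat_lit 0) (nat_lit 114403657252) (nat_lit 76) (nat_lit 57467551721) (nat_lit 152) (nat_lit 453019574029) (nat_lit 5) (nat_lit 5) (nat_lit 6) (nat_lit 5) (nat_lit 7) (nat_lit 4) (nat_lit 319) (nat_lit 268) (nat_lit 133))) (XT.nd (nat_lit 78) (nat_lit 0) (nat_lit 0) (XT.lf (nat_lit 0) (nat_lit 4328835902) (nat_lit 0) (nat_lit 4328835902) (nat_lit 684) (nat_lit 10479527512) (nat_lit 72) (nat_lit 5)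 (nat_lit 72) (nat_lit 3) (nat_lit 81) (nat_lit 3) (nat_lit 269) (nat_lit 269) (nat_lit 182)) (XT.nd (nat_lit 78) (nat_lit 0) (nat_lit 76) (XT.lf (nat_lit 0) (nat_lit 18356993940) (nat_lit 684) (nat_lit 3777323837) (nat_lit 760) (nat_lit 17653394877) (nat_lit 72) (nat_lit 5) (nat_lit 81) (nat_lit 3) (nat_lit 82) (nat_lit 5) (nat_lit 270) (nat_lit 269) (nat_lit 181)) (XT.lf (nat_lit 0) (nat_lit 20082727496) (nat_lit 684) (nat_lit 16697663699) (nat_lit 760) (nat_lit 4611684061) (nat_lit 73) (nat_lit 5) (nat_lit 82) (nat_lit 5) (nat_lit 83) (nat_lit 5) (nat_lit 271) (nat_lit 269) (nat_lit 180)))))) (XT.nd (nat_lit 390) (nat_lit 1064) (nat_lit 0) (XT.nd (nat_lit 156) (nat_lit 456) (nat_lit 0) (XT.nd (nat_lit 78) (nat_lit 0) (nat_lit 76) (XT.lf (nat_lit 76) (nat_lit 12478554119) (nat_lit 0) (nat_lit 10096967888) (nat_lit 760) (nat_lit 20517834208) (nat_lit 74) (nat_lit 5) (nat_lit 73) (nat_lit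 5) (nat_lit 83) (nat_lit 5) (nat_lit 272) (nat_lit 269) (nat_lit 179)) (XT.lf (nat_lit 0) (nat_lit 25850146627) (nat_lit 684) (nat_lit 632085480) (nat_lit 760) (nat_lit 18419405237) (nat_lit 74) (nat_lit 5) (nat_lit 83) (nat_lit 5) (nat_lit 84) (nat_lit 5) (nat_lit 273) (nat_lit 269) (nat_lit 178))) (XT.nd (nat_lit 78) (nat_lit 608) (nat_lit 0) (XT.lf (nat_lit 0) (nat_lit 30101109057) (nat_lit 684) (nat_lit 14241473685) (nat_lit 760) (nat_lit 2476296515) (nat_lit 75) (nat_lit 5) (nat_lit 84) (nat_lit 5) (nat_lit 85) (nat_lit 5) (nat_lit 274) (nat_lit 269) (nat_lit 177)) (XT.nd (nat_lit 78) (nat_lit 608) (nat_lit 0) (XT.lf (nat_lit 76) (nat_lit 19759185940) (nat_lit 0) (nat_lit 15694426582) (nat_lit 760) (nat_lit 13397830251) (nat_lit 76) (nat_lit 5) (nat_lit 75) (nat_lit 5) (nat_lit 85) (nat_lit 5) (nat_lit 275) (nat_lit 269) (nat_lit 176)) (XT.lf (nat_lit 0) (nat_lit 5897022072) (nat_lit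 684) (nat_lit 35915080842) (nat_lit 760) (nat_lit 9205633428) (nat_lit 67) (nat_lit 5) (nat_lit 76) (nat_lit 5) (nat_lit 77) (nat_lit 5) (nat_lit 276) (nat_lit 269) (nat_lit 175))))) (XT.nd (nat_lit 156) (nat_lit 684) (nat_lit 0) (XT.nd (nat_lit 78) (nat_lit 380) (nat_lit 0) (XT.lf (nat_lit 0) (nat_lit 44447224421) (nat_lit 684) (nat_lit 4995004008) (nat_lit 760) (nat_lit 3876970419) (nat_lit 67) (nat_lit 5) (nat_lit 76) (nat_lit 5) (nat_lit 77) (nat_lit 5) (nat_lit 277) (nat_lit 269) (nat_lit 174)) (XT.lf (nat_lit 0) (nat_lit 2753600827) (nat_lit 380) (nat_lit 24987232567) (nat_lit 76) (nat_lit 28015704486) (nat_lit 62) (nat_lit 5) (nat_lit 67) (nat_lit 5) (nat_lit 63) (nat_lit 5) (nat_lit 278) (nat_lit 269) (nat_lit 173))) (XT.nd (nat_lit 78) (nat_lit 304) (nat_lit 0) (XT.lf (nat_lit 0) (nat_lit 10353464759) (nat_lit 456) (nat_lit 42579082635) (nat_lit 76) (nat_lit 5424415756) (nat_lit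 57) (nat_lit 5) (nat_lit 63) (nat_lit 5) (nat_lit 58) (nat_lit 5) (nat_lit 279) (nat_lit 269) (nat_lit 172)) (XT.nd (nat_lit 78) (nat_lit 304) (nat_lit 0) (XT.lf (nat_lit 0) (nat_lit 19467993361) (nat_lit 456) (nat_lit 925714496) (nat_lit 76) (nat_lit 40726390821) (nat_lit 57) (nat_lit 5) (nat_lit 63) (nat_lit 5) (nat_lit 58) (nat_lit 5) (nat_lit 280) (nat_lit 269) (nat_lit 171)) (XT.lf (nat_lit 0) (nat_lit 30260957155) (nat_lit 380) (nat_lit 18797579635) (nat_lit 76) (nat_lit 14998293885) (nat_lit 53) (nat_lit 5) (nat_lit 58) (nat_lit 5) (nat_lit 54) (nat_lit 5) (nat_lit 281) (nat_lit 269) (nat_lit 170))))))))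
noncomputable def xc102 : XT := (XT.nd (nat_lit 1404) (nat_lit 912) (nat_lit 0) (XT.nd (nat_lit 702) (nat_lit 1064) (nat_lit 0) (XT.nd (nat_lit 312) (nat_lit 684) (nat_lit 0) (XT.nd (nat_lit 156) (nat_lit 380) (nat_lit 0) (XT.nd (nat_lit 78) (nat_lit 228) (nat_lit 0) (XT.lf (nat_lit 0) (nat_lit 28509325090) (nat_lit 304) (nat_lit 14210369165) (nat_lit 380) (nat_lit 24468698753) (nat_lit 49) (nat_lit 5) (nat_lit 53) (nat_lit 5) (nat_lit 54) (nat_lit 5) (nat_lit 282) (nat_lit 269) (nat_lit 169)) (XT.lf (nat_lit 0) (nat_lit 9652371918) (nat_lit 228) (nat_lit 47369138198) (nat_lit 304) (nat_lit 13506659171) (nat_lit 46) (nat_lit 5) (nat_lit 49) (nat_lit 5) (nat_lit 50) (nat_lit 5) (nat_lit 283) (nat_lit 269) (nat_lit 168))) (XT.nd (nat_lit 78) (nat_lit 380) (nat_lit 0) (XT.lf (nat_lit 0) (nat_lit 62980769909) (nat_lit 228) (nat_lit 10393505403) (nat_lit 304) (nat_lit 715519514) (nat_lit 46)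 (nat_lit 5) (nat_lit 49) (nat_lit 5) (nat_lit 50) (nat_lit 5) (nat_lit 284) (nat_lit 269) (nat_lit 167)) (XT.lf (nat_lit 0) (nat_lit 13837256297) (nat_lit 380) (nat_lit 34533343215) (nat_lit 76) (nat_lit 29497652254) (nat_lit 41) (nat_lit 5) (nat_lit 46) (nat_lit 5) (nat_lit 42) (nat_lit 5) (nat_lit 285) (nat_lit 269) (nat_lit 166)))) (XT.nd (nat_lit 156) (nat_lit 456) (nat_lit 0) (XT.nd (nat_lit 78) (nat_lit 0) (nat_lit 0) (XT.lf (nat_lit 0) (nat_lit 21072638413) (nat_lit 228) (nat_lit 9155402569) (nat_lit 304) (nat_lit 51685421042) (nat_lit 38) (nat_lit 5) (nat_lit 41) (nat_lit 5) (nat_lit 42) (nat_lit 5) (nat_lit 286) (nat_lit 269) (nat_lit 165)) (XT.lf (nat_lit 0) (nat_lit 49057499230) (nat_lit 304) (nat_lit 4423148115) (nat_lit 76) (nat_lit 32745276783) (nat_lit 38) (nat_lit 5) (nat_lit 42) (nat_lit 5) (nat_lit 39) (nat_lit 5) (nat_lit 287) (nat_lit 269) (nat_lit 164))) (XT.nd (nat_lit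 78) (nat_lit 228) (nat_lit 0) (XT.lf (nat_lit 0) (nat_lit 58213950750) (nat_lit 228) (nat_lit 12240495720) (nat_lit 304) (nat_lit 20375885267) (nat_lit 35) (nat_lit 5) (nat_lit 38) (nat_lit 5) (nat_lit 39) (nat_lit 5) (nat_lit 288) (nat_lit 269) (nat_lit 163)) (XT.nd (nat_lit 78) (nat_lit 76) (nat_lit 0) (XT.lf (nat_lit 0) (nat_lit 30694818400) (nat_lit 152) (nat_lit 63928127808) (nat_lit 228) (nat_lit 1127160681) (nat_lit 33) (nat_lit 5) (nat_lit 35) (nat_lit 5) (nat_lit 36) (nat_lit 5) (nat_lit 289) (nat_lit 269) (nat_lit 162)) (XT.lf (nat_lit 0) (nat_lit 19814089447) (nat_lit 228) (nat_lit 1324846655) (nat_lit 76) (nat_lit 79870087776) (nat_lit 32) (nat_lit 5) (nat_lit 35) (nat_lit 5) (nat_lit 33) (nat_lit 5) (nat_lit 290) (nat_lit 269) (nat_lit 161)))))) (XT.nd (nat_lit 312) (nat_lit 456) (nat_lit 0) (XT.nd (nat_lit 156) (nat_lit 228) (nat_lit 0) (XT.nd (nat_lit 78) (nat_lit 152)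 (nat_lit 0) (XT.lf (nat_lit 0) (nat_lit 43887907714) (nat_lit 304) (nat_lit 37329225338) (nat_lit 76) (nat_lit 25395763249) (nat_lit 29) (nat_lit 5) (nat_lit 33) (nat_lit 5) (nat_lit 30) (nat_lit 5) (nat_lit 291) (nat_lit 269) (nat_lit 160)) (XT.lf (nat_lit 0) (nat_lit 33641672173) (nat_lit 152) (nat_lit 37149376181) (nat_lit 228) (nat_lit 41828862927) (nat_lit 27) (nat_lit 5) (nat_lit 29) (nat_lit 5) (nat_lit 30) (nat_lit 5) (nat_lit 292) (nat_lit 269) (nat_lit 159))) (XT.nd (nat_lit 78) (nat_lit 228) (nat_lit 0) (XT.lf (nat_lit 0) (nat_lit 100668764957) (nat_lit 228) (nat_lit 7627906892) (nat_lit 76) (nat_lit 10769702713) (nat_lit 27) (nat_lit 5) (nat_lit 30) (nat_lit 5) (nat_lit 28) (nat_lit 5) (nat_lit 293) (nat_lit 269) (nat_lit 158)) (XT.lf (nat_lit 0) (nat_lit 8450063803) (nat_lit 228) (nat_lit 55001465599) (nat_lit 76) (nat_lit 62483484497) (nat_lit 24) (nat_lit 5) (nat_lit 27)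 (nat_lit 5) (nat_lit 25) (nat_lit 5) (nat_lit 294) (nat_lit 269) (nat_lit 157)))) (XT.nd (nat_lit 156) (nat_lit 304) (nat_lit 0) (XT.nd (nat_lit 78) (nat_lit 0) (nat_lit 0) (XT.lf (nat_lit 0) (nat_lit 23131527026) (nat_lit 152) (nat_lit 14172808662) (nat_lit 228) (nat_lit 96008564054) (nat_lit 22) (nat_lit 5) (nat_lit 24) (nat_lit 5) (nat_lit 25) (nat_lit 5) (nat_lit 295) (nat_lit 269) (nat_lit 156)) (XT.lf (nat_lit 0) (nat_lit 70048992098) (nat_lit 228) (nat_lit 32381429882) (nat_lit 76) (nat_lit 38771494857) (nat_lit 22) (nat_lit 5) (nat_lit 25) (nat_lit 5) (nat_lit 23) (nat_lit 5) (nat_lit 296) (nat_lit 269) (nat_lit 155))) (XT.nd (nat_lit 78) (nat_lit 152) (nat_lit 0) (XT.lf (nat_lit 0) (nat_lit 53101054284) (nat_lit 152) (nat_lit 53378900921) (nat_lit 228) (nat_lit 43188765724) (nat_lit 20) (nat_lit 5) (nat_lit 22) (nat_lit 5) (nat_lit 23) (nat_lit 5) (nat_lit 297) (nat_lit 269)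 (nat_lit 154)) (XT.nd (nat_lit 78) (nat_lit 152) (nat_lit 0) (XT.lf (nat_lit 0) (nat_lit 146391163171) (nat_lit 228) (nat_lit 12211153643) (nat_lit 76) (nat_lit 182266308) (nat_lit 20) (nat_lit 5) (nat_lit 23) (nat_lit 5) (nat_lit 21) (nat_lit 4) (nat_lit 298) (nat_lit 269) (nat_lit 153)) (XT.lf (nat_lit 0) (nat_lit 22389927845) (nat_lit 152) (nat_lit 88312276518) (nat_lit 76) (nat_lit 57801613230) (nat_lit 18) (nat_lit 5) (nat_lit 20) (nat_lit 5) (nat_lit 19) (nat_lit 5) (nat_lit 299) (nat_lit 269) (nat_lit 152))))))) (XT.nd (nat_lit 702) (nat_lit 380) (nat_lit 0) (XT.nd (nat_lit 312) (nat_lit 304) (nat_lit 0) (XT.nd (nat_lit 156) (nat_lit 76) (nat_lit 0) (XT.nd (nat_lit 78) (nat_lit 0) (nat_lit 0) (XT.lf (nat_lit 0) (nat_lit 1258557676) (nat_lit 152) (nat_lit 58503716308) (nat_lit 228) (nat_lit 119216133285) (nat_lit 16) (nat_lit 5) (nat_lit 18) (nat_lit 5) (nat_lit 19) (nat_lit 5)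 (nat_lit 300) (nat_lit 269) (nat_lit 151)) (XT.lf (nat_lit 0) (nat_lit 101146926630) (nat_lit 152) (nat_lit 514763290) (nat_lit 228) (nat_lit 88552411731) (nat_lit 16) (nat_lit 5) (nat_lit 18) (nat_lit 5) (nat_lit 19) (nat_lit 5) (nat_lit 301) (nat_lit 269) (nat_lit 150))) (XT.nd (nat_lit 78) (nat_lit 0) (nat_lit 0) (XT.lf (nat_lit 0) (nat_lit 5894979649) (nat_lit 76) (nat_lit 142078887467) (nat_lit 152) (nat_lit 54321745582) (nat_lit 15) (nat_lit 5) (nat_lit 16) (nat_lit 5) (nat_lit 17) (nat_lit 4) (nat_lit 302) (nat_lit 269) (nat_lit 149)) (XT.lf (nat_lit 0) (nat_lit 111624124273) (nat_lit 76) (nat_lit 87925983727) (nat_lit 152) (nat_lit 15715583558) (nat_lit 15) (nat_lit 5) (nat_lit 16) (nat_lit 5) (nat_lit 17) (nat_lit 4) (nat_lit 303) (nat_lit 269) (nat_lit 148)))) (XT.nd (nat_lit 156) (nat_lit 76) (nat_lit 0) (XT.nd (nat_lit 78) (nat_lit 152) (nat_lit 0) (XT.lf (nat_lit 0) (nat_lit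 25146690114) (nat_lit 152) (nat_lit 3868871945) (nat_lit 76) (nat_lit 200237580038) (nat_lit 14) (nat_lit 5) (nat_lit 16) (nat_lit 5) (nat_lit 15) (nat_lit 5) (nat_lit 304) (nat_lit 269) (nat_lit 147)) (XT.lf (nat_lit 0) (nat_lit 70977221216) (nat_lit 228) (nat_lit 137789486692) (nat_lit 76) (nat_lit 35467506640) (nat_lit 12) (nat_lit 5) (nat_lit 15) (nat_lit 5) (nat_lit 13) (nat_lit 4) (nat_lit 305) (nat_lit 269) (nat_lit 146))) (XT.nd (nat_lit 78) (nat_lit 76) (nat_lit 0) (XT.lf (nat_lit 0) (nat_lit 121031157279) (nat_lit 228) (nat_lit 35180542613) (nat_lit 76) (nat_lit 104174225840) (nat_lit 12) (nat_lit 5) (nat_lit 15) (nat_lit 5) (nat_lit 13) (nat_lit 4) (nat_lit 306) (nat_lit 269) (nat_lit 145)) (XT.nd (nat_lit 78) (nat_lit 0) (nat_lit 0) (XT.lf (nat_lit 0) (nat_lit 78136729278) (nat_lit 76) (nat_lit 98171879895) (nat_lit 152) (nat_lit 101460205573) (nat_lit 11) (nat_lit 5) (nat_lit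 12) (nat_lit 5) (nat_lit 13) (nat_lit 4) (nat_lit 307) (nat_lit 269) (nat_lit 144)) (XT.lf (nat_lit 0) (nat_lit 201774472093) (nat_lit 76) (nat_lit 34845910671) (nat_lit 152) (nat_lit 59891346749) (nat_lit 11) (nat_lit 5) (nat_lit 12) (nat_lit 5) (nat_lit 13) (nat_lit 4) (nat_lit 308) (nat_lit 269) (nat_lit 143)))))) (XT.nd (nat_lit 390) (nat_lit 152) (nat_lit 0) (XT.nd (nat_lit 156) (nat_lit 76) (nat_lit 0) (XT.nd (nat_lit 78) (nat_lit 76) (nat_lit 0) (XT.lf (nat_lit 0) (nat_lit 18620237674) (nat_lit 76) (nat_lit 283950671441) (nat_lit 76) (nat_lit 14142478646) (nat_lit 10) (nat_lit 4) (nat_lit 11) (nat_lit 5) (nat_lit 11) (nat_lit 4) (nat_lit 309) (nat_lit 269) (nat_lit 142)) (XT.lf (nat_lit 0) (nat_lit 36401806219) (nat_lit 152) (nat_lit 195185627485) (nat_lit 76) (nat_lit 106803002962) (nat_lit 9) (nat_lit 5) (nat_lit 11) (nat_lit 5) (nat_lit 10) (nat_lit 4) (nat_lit 310) (nat_lit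 269) (nat_lit 141))) (XT.nd (nat_lit 78) (nat_lit 76) (nat_lit 0) (XT.lf (nat_lit 0) (nat_lit 90500189276) (nat_lit 152) (nat_lit 84284995406) (nat_lit 76) (nat_lit 187004571346) (nat_lit 9) (nat_lit 5) (nat_lit 11) (nat_lit 5) (nat_lit 10) (nat_lit 4) (nat_lit 311) (nat_lit 269) (nat_lit 140)) (XT.nd (nat_lit 78) (nat_lit 0) (nat_lit 0) (XT.lf (nat_lit 0) (nat_lit 36660090653) (nat_lit 76) (nat_lit 112838177272) (nat_lit 152) (nat_lit 237534162402) (nat_lit 8) (nat_lit 5) (nat_lit 9) (nat_lit 5) (nat_lit 10) (nat_lit 4) (nat_lit 312) (nat_lit 269) (nat_lit 139)) (XT.lf (nat_lit 0) (nat_lit 170289666382) (nat_lit 76) (nat_lit 44394200893) (nat_lit 152) (nat_lit 199537268166) (nat_lit 8) (nat_lit 5) (nat_lit 9) (nat_lit 5) (nat_lit 10) (nat_lit 4) (nat_lit 313) (nat_lit 269) (nat_lit 138))))) (XT.nd (nat_lit 156) (nat_lit 152) (nat_lit 0) (XT.nd (nat_lit 78) (nat_lit 0) (nat_lit 0) (XT.lf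 (nat_lit 0) (nat_lit 285544803867) (nat_lit 152) (nat_lit 129437160156) (nat_lit 0) (nat_lit 28579949022) (nat_lit 8) (nat_lit 5) (nat_lit 10) (nat_lit 4) (nat_lit 8) (nat_lit 4) (nat_lit 314) (nat_lit 269) (nat_lit 137)) (XT.lf (nat_lit 0) (nat_lit 362822735223) (nat_lit 152) (nat_lit 6532669030) (nat_lit 0) (nat_lit 105857143117) (nat_lit 8) (nat_lit 5) (nat_lit 10) (nat_lit 4) (nat_lit 8) (nat_lit 4) (nat_lit 315) (nat_lit 269) (nat_lit 136))) (XT.nd (nat_lit 78) (nat_lit 76) (nat_lit 0) (XT.lf (nat_lit 0) (nat_lit 130376300963) (nat_lit 76) (nat_lit 317941725223) (nat_lit 76) (nat_lit 60975450468) (nat_lit 7) (nat_lit 4) (nat_lit 8) (nat_lit 5) (nat_lit 8) (nat_lit 4) (nat_lit 316) (nat_lit 269) (nat_lit 135)) (XT.nd (nat_lit 78) (nat_lit 76) (nat_lit 0) (XT.lf (nat_lit 0) (nat_lit 278470563790) (nat_lit 76) (nat_lit 262295776874) (nat_lit 76) (nat_lit 5328870038) (nat_lit 7) (nat_lit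 4) (nat_lit 8) (nat_lit 5) (nat_lit 8) (nat_lit 4) (nat_lit 317) (nat_lit 269) (nat_lit 134)) (XT.lf (nat_lit 0) (nat_lit 53016101018) (nat_lit 152) (nat_lit 148284485009) (nat_lit 76) (nat_lit 384497761199) (nat_lit 6) (nat_lit 5) (nat_lit 8) (nat_lit 5) (nat_lit 7) (nat_lit 4) (nat_lit 318) (nat_lit 269) (nat_lit 133))))))))
noncomputable def xc103 : XT := (XT.nd (nat_lit 35022) (nat_lit 0) (nat_lit 608) (XT.nd (nat_lit 34320) (nat_lit 0) (nat_lit 2660) (XT.nd (nat_lit 33930) (nat_lit 0) (nat_lit 4636) (XT.nd (nat_lit 33774) (nat_lit 0) (nat_lit 5016) (XT.nd (nat_lit 33696) (nat_lit 0) (nat_lit 5016) (XT.lf (nat_lit 0) (nat_lit 115844123822) (nat_lit 152) (nat_lit 19487580171) (nat_lit 76) (nat_lit 493341555522) (nat_lit 6) (nat_lit 5) (nat_lit 8) (nat_lit 5) (nat_lit 7) (nat_lit 4) (nat_lit 319) (nat_lit 269) (nat_lit 132)) (XT.lf (nat_lit 0) (nat_lit 4706521718) (nat_lit 0) (nat_lit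 4706521718) (nat_lit 684) (nat_lit 11251788888) (nat_lit 72) (nat_lit 5) (nat_lit 72) (nat_lit 3) (nat_lit 81) (nat_lit 3) (nat_lit 270) (nat_lit 270) (nat_lit 180))) (XT.nd (nat_lit 78) (nat_lit 0) (nat_lit 76) (XT.lf (nat_lit 0) (nat_lit 19940864520) (nat_lit 684) (nat_lit 4014302717) (nat_lit 760) (nat_lit 19009417167) (nat_lit 72) (nat_lit 5) (nat_lit 81) (nat_lit 3) (nat_lit 82) (nat_lit 5) (nat_lit 271) (nat_lit 270) (nat_lit 179)) (XT.lf (nat_lit 0) (nat_lit 21796380665) (nat_lit 684) (nat_lit 17964656482) (nat_lit 760) (nat_lit 4936700798) (nat_lit 73) (nat_lit 5) (nat_lit 82) (nat_lit 5) (nat_lit 83) (nat_lit 5) (nat_lit 272) (nat_lit 270) (nat_lit 178)))) (XT.nd (nat_lit 156) (nat_lit 456) (nat_lit 0) (XT.nd (nat_lit 78) (nat_lit 0) (nat_lit 76) (XT.lf (nat_lit 76) (nat_lit 13542667914) (nat_lit 0) (nat_lit 10939030089) (nat_lit 760) (nat_lit 22053794457) (nat_lit 74) (nat_lit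 5) (nat_lit 73) (nat_lit 5) (nat_lit 83) (nat_lit 5) (nat_lit 273) (nat_lit 270) (nat_lit 177)) (XT.lf (nat_lit 0) (nat_lit 28010379322) (nat_lit 684) (nat_lit 616265919) (nat_lit 760) (nat_lit 19862210616) (nat_lit 74) (nat_lit 5) (nat_lit 83) (nat_lit 5) (nat_lit 84) (nat_lit 5) (nat_lit 274) (nat_lit 270) (nat_lit 176))) (XT.nd (nat_lit 78) (nat_lit 608) (nat_lit 0) (XT.lf (nat_lit 0) (nat_lit 32595221779) (nat_lit 684) (nat_lit 15312334876) (nat_lit 760) (nat_lit 2652252646) (nat_lit 75) (nat_lit 5) (nat_lit 84) (nat_lit 5) (nat_lit 85) (nat_lit 5) (nat_lit 275) (nat_lit 270) (nat_lit 175)) (XT.nd (nat_lit 78) (nat_lit 608) (nat_lit 0) (XT.lf (nat_lit 76) (nat_lit 21405402474) (nat_lit 0) (nat_lit 16965173251) (nat_lit 760) (nat_lit 14384690335) (nat_lit 76) (nat_lit 5) (nat_lit 75) (nat_lit 5) (nat_lit 85) (nat_lit 5) (nat_lit 276) (nat_lit 270) (nat_lit 174)) (XT.lf (nat_lit 0)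 (nat_lit 6435752237) (nat_lit 684) (nat_lit 38796843182) (nat_lit 760) (nat_lit 9862544336) (nat_lit 67) (nat_lit 5) (nat_lit 76) (nat_lit 5) (nat_lit 77) (nat_lit 5) (nat_lit 277) (nat_lit 270) (nat_lit 173)))))) (XT.nd (nat_lit 312) (nat_lit 1216) (nat_lit 0) (XT.nd (nat_lit 156) (nat_lit 380) (nat_lit 0) (XT.nd (nat_lit 78) (nat_lit 380) (nat_lit 0) (XT.lf (nat_lit 0) (nat_lit 48065010151) (nat_lit 684) (nat_lit 5402526433) (nat_lit 760) (nat_lit 4113480121) (nat_lit 67) (nat_lit 5) (nat_lit 76) (nat_lit 5) (nat_lit 77) (nat_lit 5) (nat_lit 278) (nat_lit 270) (nat_lit 172)) (XT.lf (nat_lit 0) (nat_lit 3040781971) (nat_lit 380) (nat_lit 26920816235) (nat_lit 76) (nat_lit 30251922675) (nat_lit 62) (nat_lit 5) (nat_lit 67) (nat_lit 5) (nat_lit 63) (nat_lit 5) (nat_lit 279) (nat_lit 270) (nat_lit 171))) (XT.nd (nat_lit 78) (nat_lit 0) (nat_lit 0) (XT.lf (nat_lit 0) (nat_lit 11244650955)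 (nat_lit 456) (nat_lit 45919524008) (nat_lit 76) (nat_lit 5858018885) (nat_lit 57) (nat_lit 5) (nat_lit 63) (nat_lit 5) (nat_lit 58) (nat_lit 5) (nat_lit 280) (nat_lit 270) (nat_lit 170)) (XT.lf (nat_lit 0) (nat_lit 21083681917) (nat_lit 456) (nat_lit 938766806) (nat_lit 76) (nat_lit 43984177891) (nat_lit 57) (nat_lit 5) (nat_lit 63) (nat_lit 5) (nat_lit 58) (nat_lit 5) (nat_lit 281) (nat_lit 270) (nat_lit 169)))) (XT.nd (nat_lit 156) (nat_lit 608) (nat_lit 0) (XT.nd (nat_lit 78) (nat_lit 304) (nat_lit 0) (XT.lf (nat_lit 0) (nat_lit 32736733906) (nat_lit 380) (nat_lit 20240189760) (nat_lit 76) (nat_lit 16201553358) (nat_lit 53) (nat_lit 5) (nat_lit 58) (nat_lit 5) (nat_lit 54) (nat_lit 5) (nat_lit 282) (nat_lit 270) (nat_lit 168)) (XT.lf (nat_lit 0) (nat_lit 30848607829) (nat_lit 304) (nat_lit 15340409387) (nat_lit 380) (nat_lit 26371716254) (nat_lit 49) (nat_lit 5) (nat_lit 53) (nat_lit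 5) (nat_lit 54) (nat_lit 5) (nat_lit 283) (nat_lit 270) (nat_lit 167))) (XT.nd (nat_lit 78) (nat_lit 380) (nat_lit 0) (XT.lf (nat_lit 0) (nat_lit 10483065367) (nat_lit 228) (nat_lit 51149091391) (nat_lit 304) (nat_lit 14535686810) (nat_lit 46) (nat_lit 5) (nat_lit 49) (nat_lit 5) (nat_lit 50) (nat_lit 5) (nat_lit 284) (nat_lit 270) (nat_lit 166)) (XT.nd (nat_lit 78) (nat_lit 380) (nat_lit 0) (XT.lf (nat_lit 0) (nat_lit 68073401591) (nat_lit 228) (nat_lit 11216117444) (nat_lit 304) (nat_lit 725071173) (nat_lit 46) (nat_lit 5) (nat_lit 49) (nat_lit 5) (nat_lit 50) (nat_lit 5) (nat_lit 285) (nat_lit 270) (nat_lit 165)) (XT.lf (nat_lit 0) (nat_lit 14987967517) (nat_lit 380) (nat_lit 37240488269) (nat_lit 76) (nat_lit 31866961014) (nat_lit 41) (nat_lit 5) (nat_lit 46) (nat_lit 5) (nat_lit 42) (nat_lit 5) (nat_lit 286) (nat_lit 270) (nat_lit 164))))))) (XT.nd (nat_lit 702) (nat_lit 760) (nat_lit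 0) (XT.nd (nat_lit 312) (nat_lit 684) (nat_lit 0) (XT.nd (nat_lit 156) (nat_lit 380) (nat_lit 0) (XT.nd (nat_lit 78) (nat_lit 0) (nat_lit 0) (XT.lf (nat_lit 0) (nat_lit 22811558953) (nat_lit 228) (nat_lit 9876045899) (nat_lit 304) (nat_lit 55776767575) (nat_lit 38) (nat_lit 5) (nat_lit 41) (nat_lit 5) (nat_lit 42) (nat_lit 5) (nat_lit 287) (nat_lit 270) (nat_lit 163)) (XT.lf (nat_lit 0) (nat_lit 53020529399) (nat_lit 304) (nat_lit 4725988882) (nat_lit 76) (nat_lit 35375465183) (nat_lit 38) (nat_lit 5) (nat_lit 42) (nat_lit 5) (nat_lit 39) (nat_lit 5) (nat_lit 288) (nat_lit 270) (nat_lit 162))) (XT.nd (nat_lit 78) (nat_lit 152) (nat_lit 0) (XT.lf (nat_lit 0) (nat_lit 62919861012) (nat_lit 228) (nat_lit 13207286536) (nat_lit 304) (nat_lit 21967707272) (nat_lit 35) (nat_lit 5) (nat_lit 38) (nat_lit 5) (nat_lit 39) (nat_lit 5) (nat_lit 289) (nat_lit 270) (nat_lit 161)) (XT.lf (nat_lit 0)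 (nat_lit 33198712357) (nat_lit 152) (nat_lit 69028656855) (nat_lit 228) (nat_lit 1180937060) (nat_lit 33) (nat_lit 5) (nat_lit 35) (nat_lit 5) (nat_lit 36) (nat_lit 5) (nat_lit 290) (nat_lit 270) (nat_lit 160)))) (XT.nd (nat_lit 156) (nat_lit 380) (nat_lit 0) (XT.nd (nat_lit 78) (nat_lit 228) (nat_lit 0) (XT.lf (nat_lit 0) (nat_lit 21431838419) (nat_lit 228) (nat_lit 1384955310) (nat_lit 76) (nat_lit 86271250594) (nat_lit 32) (nat_lit 5) (nat_lit 35) (nat_lit 5) (nat_lit 33) (nat_lit 5) (nat_lit 291) (nat_lit 270) (nat_lit 159)) (XT.lf (nat_lit 0) (nat_lit 47430033771) (nat_lit 304) (nat_lit 40270271332) (nat_lit 76) (nat_lit 27440003070) (nat_lit 29) (nat_lit 5) (nat_lit 33) (nat_lit 5) (nat_lit 30) (nat_lit 5) (nat_lit 292) (nat_lit 270) (nat_lit 158))) (XT.nd (nat_lit 78) (nat_lit 228) (nat_lit 0) (XT.lf (nat_lit 0) (nat_lit 36376329643) (nat_lit 152) (nat_lit 40107469205) (nat_lit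 228) (nat_lit 45144171670) (nat_lit 27) (nat_lit 5) (nat_lit 29) (nat_lit 5) (nat_lit 30) (nat_lit 5) (nat_lit 293) (nat_lit 270) (nat_lit 157)) (XT.nd (nat_lit 78) (nat_lit 228) (nat_lit 0) (XT.lf (nat_lit 0) (nat_lit 108749750389) (nat_lit 228) (nat_lit 8196805171) (nat_lit 76) (nat_lit 11643698891) (nat_lit 27) (nat_lit 5) (nat_lit 30) (nat_lit 5) (nat_lit 28) (nat_lit 5) (nat_lit 294) (nat_lit 270) (nat_lit 156)) (XT.lf (nat_lit 0) (nat_lit 9152611948) (nat_lit 228) (nat_lit 59361118016) (nat_lit 76) (nat_lit 67494708632) (nat_lit 24) (nat_lit 5) (nat_lit 27) (nat_lit 5) (nat_lit 25) (nat_lit 5) (nat_lit 295) (nat_lit 270) (nat_lit 155)))))) (XT.nd (nat_lit 390) (nat_lit 304) (nat_lit 0) (XT.nd (nat_lit 156) (nat_lit 304) (nat_lit 0) (XT.nd (nat_lit 78) (nat_lit 0) (nat_lit 0) (XT.lf (nat_lit 0) (nat_lit 25020755467) (nat_lit 152) (nat_lit 15293108279) (nat_lit 228) (nat_lit 103662763300)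 (nat_lit 22) (nat_lit 5) (nat_lit 24) (nat_lit 5) (nat_lit 25) (nat_lit 5) (nat_lit 296) (nat_lit 270) (nat_lit 154)) (XT.lf (nat_lit 0) (nat_lit 75676422917) (nat_lit 228) (nat_lit 34935092617) (nat_lit 76) (nat_lit 41885336842) (nat_lit 22) (nat_lit 5) (nat_lit 25) (nat_lit 5) (nat_lit 23) (nat_lit 5) (nat_lit 297) (nat_lit 270) (nat_lit 153))) (XT.nd (nat_lit 78) (nat_lit 152) (nat_lit 0) (XT.lf (nat_lit 0) (nat_lit 57384388755) (nat_lit 152) (nat_lit 57636283082) (nat_lit 228) (nat_lit 46620391648) (nat_lit 20) (nat_lit 5) (nat_lit 22) (nat_lit 5) (nat_lit 23) (nat_lit 5) (nat_lit 298) (nat_lit 270) (nat_lit 152)) (XT.nd (nat_lit 78) (nat_lit 152) (nat_lit 0) (XT.lf (nat_lit 0) (nat_lit 158123310010) (nat_lit 228) (nat_lit 13154524293) (nat_lit 76) (nat_lit 208436570) (nat_lit 20) (nat_lit 5) (nat_lit 23) (nat_lit 5) (nat_lit 21) (nat_lit 4) (nat_lit 299) (nat_lit 270) (nat_lit 151))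 (XT.lf (nat_lit 0) (nat_lit 24201288958) (nat_lit 152) (nat_lit 95344495067) (nat_lit 76) (nat_lit 62437298700) (nat_lit 18) (nat_lit 5) (nat_lit 20) (nat_lit 5) (nat_lit 19) (nat_lit 5) (nat_lit 300) (nat_lit 270) (nat_lit 150))))) (XT.nd (nat_lit 156) (nat_lit 152) (nat_lit 0) (XT.nd (nat_lit 78) (nat_lit 0) (nat_lit 0) (XT.lf (nat_lit 0) (nat_lit 1390581997) (nat_lit 152) (nat_lit 63171836248) (nat_lit 228) (nat_lit 128733273922) (nat_lit 16) (nat_lit 5) (nat_lit 18) (nat_lit 5) (nat_lit 19) (nat_lit 5) (nat_lit 301) (nat_lit 270) (nat_lit 149)) (XT.lf (nat_lit 0) (nat_lit 109267699008) (nat_lit 152) (nat_lit 544669015) (nat_lit 228) (nat_lit 95617947238) (nat_lit 16) (nat_lit 5) (nat_lit 18) (nat_lit 5) (nat_lit 19) (nat_lit 5) (nat_lit 302) (nat_lit 270) (nat_lit 148))) (XT.nd (nat_lit 78) (nat_lit 76) (nat_lit 0) (XT.lf (nat_lit 0) (nat_lit 6395041559) (nat_lit 76) (nat_lit 153433770943)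 (nat_lit 152) (nat_lit 58649572064) (nat_lit 15) (nat_lit 5) (nat_lit 16) (nat_lit 5) (nat_lit 17) (nat_lit 4) (nat_lit 303) (nat_lit 270) (nat_lit 147)) (XT.nd (nat_lit 78) (nat_lit 76) (nat_lit 0) (XT.lf (nat_lit 0) (nat_lit 120580409342) (nat_lit 76) (nat_lit 94949481385) (nat_lit 152) (nat_lit 16956243980) (nat_lit 15) (nat_lit 5) (nat_lit 16) (nat_lit 5) (nat_lit 17) (nat_lit 4) (nat_lit 304) (nat_lit 270) (nat_lit 146)) (XT.lf (nat_lit 0) (nat_lit 27173291433) (nat_lit 152) (nat_lit 4153466567) (nat_lit 76) (nat_lit 216265871462) (nat_lit 14) (nat_lit 5) (nat_lit 16) (nat_lit 5) (nat_lit 15) (nat_lit 5) (nat_lit 305) (nat_lit 270) (nat_lit 145))))))))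
noncomputable def xc104 : XT := (XT.nd (nat_lit 35178) (nat_lit 0) (nat_lit 1672) (XT.nd (nat_lit 702) (nat_lit 76) (nat_lit 0) (XT.nd (nat_lit 312) (nat_lit 228) (nat_lit 0) (XT.nd (nat_lit 156) (nat_lit 76) (nat_lit 0) (XT.nd (nat_lit 78) (nat_lit 0) (nat_lit 0) (XT.lf (nat_lit 0) (nat_lit 76669687291) (nat_lit 228) (nat_lit 148788238632) (nat_lit 76) (nat_lit 38314292205) (nat_lit 12) (nat_lit 5) (nat_lit 15) (nat_lit 5) (nat_lit 13) (nat_lit 4) (nat_lit 306) (nat_lit 270) (nat_lit 144)) (XT.lf (nat_lit 0) (nat_lit 130726879841) (nat_lit 228) (nat_lit 37972386952) (nat_lit 76) (nat_lit 112516853754) (nat_lit 12) (nat_lit 5) (nat_lit 15) (nat_lit 5) (nat_lit 13) (nat_lit 4) (nat_lit 307) (nat_lit 270) (nat_lit 143))) (XT.nd (nat_lit 78) (nat_lit 0) (nat_lit 0) (XT.lf (nat_lit 0) (nat_lit 84409284562) (nat_lit 76) (nat_lit 106016600827) (nat_lit 152) (nat_lit 109563788732) (nat_lit 11)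 (nat_lit 5) (nat_lit 12) (nat_lit 5) (nat_lit 13) (nat_lit 4) (nat_lit 308) (nat_lit 270) (nat_lit 142)) (XT.lf (nat_lit 0) (nat_lit 217936445548) (nat_lit 76) (nat_lit 37625222915) (nat_lit 152) (nat_lit 64670401445) (nat_lit 11) (nat_lit 5) (nat_lit 12) (nat_lit 5) (nat_lit 13) (nat_lit 4) (nat_lit 309) (nat_lit 270) (nat_lit 141)))) (XT.nd (nat_lit 156) (nat_lit 76) (nat_lit 0) (XT.nd (nat_lit 78) (nat_lit 76) (nat_lit 0) (XT.lf (nat_lit 0) (nat_lit 20129449637) (nat_lit 76) (nat_lit 306658350708) (nat_lit 76) (nat_lit 15262083425) (nat_lit 10) (nat_lit 4) (nat_lit 11) (nat_lit 5) (nat_lit 11) (nat_lit 4) (nat_lit 310) (nat_lit 270) (nat_lit 140)) (XT.lf (nat_lit 0) (nat_lit 39324521131) (nat_lit 152) (nat_lit 210781974137) (nat_lit 76) (nat_lit 115354635389) (nat_lit 9) (nat_lit 5) (nat_lit 11) (nat_lit 5) (nat_lit 10) (nat_lit 4) (nat_lit 311) (nat_lit 270) (nat_lit 139))) (XT.nd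 (nat_lit 78) (nat_lit 76) (nat_lit 0) (XT.lf (nat_lit 0) (nat_lit 97749991838) (nat_lit 152) (nat_lit 91010662125) (nat_lit 76) (nat_lit 201971781675) (nat_lit 9) (nat_lit 5) (nat_lit 11) (nat_lit 5) (nat_lit 10) (nat_lit 4) (nat_lit 312) (nat_lit 270) (nat_lit 138)) (XT.nd (nat_lit 78) (nat_lit 0) (nat_lit 0) (XT.lf (nat_lit 0) (nat_lit 39609286244) (nat_lit 76) (nat_lit 121858161410) (nat_lit 152) (nat_lit 256527100536) (nat_lit 8) (nat_lit 5) (nat_lit 9) (nat_lit 5) (nat_lit 10) (nat_lit 4) (nat_lit 313) (nat_lit 270) (nat_lit 137)) (XT.lf (nat_lit 0) (nat_lit 183928014080) (nat_lit 76) (nat_lit 47939190627) (nat_lit 152) (nat_lit 215491180306) (nat_lit 8) (nat_lit 5) (nat_lit 9) (nat_lit 5) (nat_lit 10) (nat_lit 4) (nat_lit 314) (nat_lit 270) (nat_lit 136)))))) (XT.nd (nat_lit 34086) (nat_lit 0) (nat_lit 4940) (XT.nd (nat_lit 156) (nat_lit 76) (nat_lit 0) (XT.nd (nat_lit 78) (nat_lit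 0) (nat_lit 0) (XT.lf (nat_lit 0) (nat_lit 308396471747) (nat_lit 152) (nat_lit 139777768668) (nat_lit 0) (nat_lit 30872212364) (nat_lit 8) (nat_lit 5) (nat_lit 10) (nat_lit 4) (nat_lit 8) (nat_lit 4) (nat_lit 315) (nat_lit 270) (nat_lit 135)) (XT.lf (nat_lit 0) (nat_lit 391856038828) (nat_lit 152) (nat_lit 7041982275) (nat_lit 0) (nat_lit 114331147363) (nat_lit 8) (nat_lit 5) (nat_lit 10) (nat_lit 4) (nat_lit 8) (nat_lit 4) (nat_lit 316) (nat_lit 270) (nat_lit 134))) (XT.nd (nat_lit 78) (nat_lit 0) (nat_lit 0) (XT.lf (nat_lit 0) (nat_lit 140819127304) (nat_lit 76) (nat_lit 343371469966) (nat_lit 76) (nat_lit 65845993239) (nat_lit 7) (nat_lit 4) (nat_lit 8) (nat_lit 5) (nat_lit 8) (nat_lit 4) (nat_lit 317) (nat_lit 270) (nat_lit 133)) (XT.lf (nat_lit 0) (nat_lit 300759988768) (nat_lit 76) (nat_lit 283274260067) (nat_lit 76) (nat_lit 5748241431) (nat_lit 7) (nat_lit 4) (nat_lit 8) (nat_lit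 5) (nat_lit 8) (nat_lit 4) (nat_lit 318) (nat_lit 270) (nat_lit 132)))) (XT.nd (nat_lit 156) (nat_lit 0) (nat_lit 76) (XT.nd (nat_lit 78) (nat_lit 0) (nat_lit 0) (XT.lf (nat_lit 0) (nat_lit 5109945843) (nat_lit 0) (nat_lit 5109945843) (nat_lit 684) (nat_lit 12095261195) (nat_lit 72) (nat_lit 5) (nat_lit 72) (nat_lit 3) (nat_lit 81) (nat_lit 3) (nat_lit 271) (nat_lit 271) (nat_lit 178)) (XT.lf (nat_lit 0) (nat_lit 21634994333) (nat_lit 684) (nat_lit 4279542419) (nat_lit 760) (nat_lit 20481945832) (nat_lit 72) (nat_lit 5) (nat_lit 81) (nat_lit 3) (nat_lit 82) (nat_lit 5) (nat_lit 272) (nat_lit 271) (nat_lit 177))) (XT.nd (nat_lit 78) (nat_lit 0) (nat_lit 0) (XT.lf (nat_lit 0) (nat_lit 23631856354) (nat_lit 684) (nat_lit 19342826675) (nat_lit 760) (nat_lit 5293984265) (nat_lit 73) (nat_lit 5) (nat_lit 82) (nat_lit 5) (nat_lit 83) (nat_lit 5) (nat_lit 273) (nat_lit 271) (nat_lit 176)) (XT.nd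 (nat_lit 78) (nat_lit 0) (nat_lit 76) (XT.lf (nat_lit 76) (nat_lit 14682519504) (nat_lit 0) (nat_lit 11843563308) (nat_lit 760) (nat_lit 23727677500) (nat_lit 74) (nat_lit 5) (nat_lit 73) (nat_lit 5) (nat_lit 83) (nat_lit 5) (nat_lit 274) (nat_lit 271) (nat_lit 175)) (XT.lf (nat_lit 0) (nat_lit 30330274282) (nat_lit 684) (nat_lit 608651556) (nat_lit 760) (nat_lit 21424826834) (nat_lit 74) (nat_lit 5) (nat_lit 83) (nat_lit 5) (nat_lit 84) (nat_lit 5) (nat_lit 275) (nat_lit 271) (nat_lit 174))))))) (XT.nd (nat_lit 702) (nat_lit 1520) (nat_lit 0) (XT.nd (nat_lit 312) (nat_lit 1368) (nat_lit 0) (XT.nd (nat_lit 156) (nat_lit 608) (nat_lit 0) (XT.nd (nat_lit 78) (nat_lit 0) (nat_lit 0) (XT.lf (nat_lit 0) (nat_lit 35276591234) (nat_lit 684) (nat_lit 16478631076) (nat_lit 760) (nat_lit 2845444868) (nat_lit 75) (nat_lit 5) (nat_lit 84) (nat_lit 5) (nat_lit 85) (nat_lit 5) (nat_lit 276) (nat_lit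 271) (nat_lit 173)) (XT.lf (nat_lit 76) (nat_lit 23173974641) (nat_lit 0) (nat_lit 18335412267) (nat_lit 760) (nat_lit 15462620625) (nat_lit 76) (nat_lit 5) (nat_lit 75) (nat_lit 5) (nat_lit 85) (nat_lit 5) (nat_lit 277) (nat_lit 271) (nat_lit 172))) (XT.nd (nat_lit 78) (nat_lit 0) (nat_lit 0) (XT.lf (nat_lit 0) (nat_lit 7008027024) (nat_lit 684) (nat_lit 41907925918) (nat_lit 760) (nat_lit 10583355354) (nat_lit 67) (nat_lit 5) (nat_lit 76) (nat_lit 5) (nat_lit 77) (nat_lit 5) (nat_lit 278) (nat_lit 271) (nat_lit 171)) (XT.lf (nat_lit 0) (nat_lit 51963372637) (nat_lit 684) (nat_lit 5841520474) (nat_lit 760) (nat_lit 4379417300) (nat_lit 67) (nat_lit 5) (nat_lit 76) (nat_lit 5) (nat_lit 77) (nat_lit 5) (nat_lit 279) (nat_lit 271) (nat_lit 170)))) (XT.nd (nat_lit 156) (nat_lit 608) (nat_lit 0) (XT.nd (nat_lit 78) (nat_lit 380) (nat_lit 0) (XT.lf (nat_lit 0) (nat_lit 3341394561) (nat_lit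 380) (nat_lit 29018415916) (nat_lit 76) (nat_lit 32667757069) (nat_lit 62) (nat_lit 5) (nat_lit 67) (nat_lit 5) (nat_lit 63) (nat_lit 5) (nat_lit 280) (nat_lit 271) (nat_lit 169)) (XT.lf (nat_lit 0) (nat_lit 12198157371) (nat_lit 456) (nat_lit 49536599957) (nat_lit 76) (nat_lit 6326360214) (nat_lit 57) (nat_lit 5) (nat_lit 63) (nat_lit 5) (nat_lit 58) (nat_lit 5) (nat_lit 281) (nat_lit 271) (nat_lit 168))) (XT.nd (nat_lit 78) (nat_lit 608) (nat_lit 0) (XT.lf (nat_lit 0) (nat_lit 22820315675) (nat_lit 456) (nat_lit 961566325) (nat_lit 76) (nat_lit 47502634176) (nat_lit 57) (nat_lit 5) (nat_lit 63) (nat_lit 5) (nat_lit 58) (nat_lit 5) (nat_lit 282) (nat_lit 271) (nat_lit 167)) (XT.nd (nat_lit 78) (nat_lit 304) (nat_lit 0) (XT.lf (nat_lit 0) (nat_lit 35402740672) (nat_lit 380) (nat_lit 21806939024) (nat_lit 76) (nat_lit 17500589118) (nat_lit 53) (nat_lit 5) (nat_lit 58) (nat_lit 5) (nat_lit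 54) (nat_lit 5) (nat_lit 283) (nat_lit 271) (nat_lit 166)) (XT.lf (nat_lit 0) (nat_lit 33366682268) (nat_lit 304) (nat_lit 16561821398) (nat_lit 380) (nat_lit 28434747108) (nat_lit 49) (nat_lit 5) (nat_lit 53) (nat_lit 5) (nat_lit 54) (nat_lit 5) (nat_lit 284) (nat_lit 271) (nat_lit 165)))))) (XT.nd (nat_lit 312) (nat_lit 684) (nat_lit 0) (XT.nd (nat_lit 156) (nat_lit 608) (nat_lit 0) (XT.nd (nat_lit 78) (nat_lit 0) (nat_lit 0) (XT.lf (nat_lit 0) (nat_lit 11371868087) (nat_lit 228) (nat_lit 55232807229) (nat_lit 304) (nat_lit 15654384437) (nat_lit 46) (nat_lit 5) (nat_lit 49) (nat_lit 5) (nat_lit 50) (nat_lit 5) (nat_lit 285) (nat_lit 271) (nat_lit 164)) (XT.lf (nat_lit 0) (nat_lit 73565715838) (nat_lit 228) (nat_lit 12105803623) (nat_lit 304) (nat_lit 742190462) (nat_lit 46) (nat_lit 5) (nat_lit 49) (nat_lit 5) (nat_lit 50) (nat_lit 5) (nat_lit 286) (nat_lit 271) (nat_lit 163))) (XT.nd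 (nat_lit 78) (nat_lit 228) (nat_lit 0) (XT.lf (nat_lit 0) (nat_lit 16224496959) (nat_lit 380) (nat_lit 40172125819) (nat_lit 76) (nat_lit 34424459682) (nat_lit 41) (nat_lit 5) (nat_lit 46) (nat_lit 5) (nat_lit 42) (nat_lit 5) (nat_lit 287) (nat_lit 271) (nat_lit 162)) (XT.lf (nat_lit 0) (nat_lit 24682016477) (nat_lit 228) (nat_lit 10656022510) (nat_lit 304) (nat_lit 60201625759) (nat_lit 38) (nat_lit 5) (nat_lit 41) (nat_lit 5) (nat_lit 42) (nat_lit 5) (nat_lit 288) (nat_lit 271) (nat_lit 161)))) (XT.nd (nat_lit 156) (nat_lit 456) (nat_lit 0) (XT.nd (nat_lit 78) (nat_lit 228) (nat_lit 0) (XT.lf (nat_lit 0) (nat_lit 57295119479) (nat_lit 304) (nat_lit 5060334212) (nat_lit 76) (nat_lit 38214561261) (nat_lit 38) (nat_lit 5) (nat_lit 42) (nat_lit 5) (nat_lit 39) (nat_lit 5) (nat_lit 289) (nat_lit 271) (nat_lit 160)) (XT.lf (nat_lit 0) (nat_lit 67995283057) (nat_lit 228) (nat_lit 14253196584)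 (nat_lit 304) (nat_lit 23692331658) (nat_lit 35) (nat_lit 5) (nat_lit 38) (nat_lit 5) (nat_lit 39) (nat_lit 5) (nat_lit 290) (nat_lit 271) (nat_lit 159))) (XT.nd (nat_lit 78) (nat_lit 304) (nat_lit 0) (XT.lf (nat_lit 0) (nat_lit 35896026085) (nat_lit 152) (nat_lit 74539185705) (nat_lit 228) (nat_lit 1244207913) (nat_lit 33) (nat_lit 5) (nat_lit 35) (nat_lit 5) (nat_lit 36) (nat_lit 5) (nat_lit 291) (nat_lit 271) (nat_lit 158)) (XT.nd (nat_lit 78) (nat_lit 228) (nat_lit 0) (XT.lf (nat_lit 0) (nat_lit 23174353442) (nat_lit 228) (nat_lit 1456417822) (nat_lit 76) (nat_lit 93182857875) (nat_lit 32) (nat_lit 5) (nat_lit 35) (nat_lit 5) (nat_lit 33) (nat_lit 5) (nat_lit 292) (nat_lit 271) (nat_lit 157)) (XT.lf (nat_lit 0) (nat_lit 51251094086) (nat_lit 304) (nat_lit 43453062421) (nat_lit 76) (nat_lit 29645987576) (nat_lit 29) (nat_lit 5) (nat_lit 33) (nat_lit 5) (nat_lit 30) (nat_lit 5) (nat_lit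 293) (nat_lit 271) (nat_lit 156))))))))
noncomputable def xc105 : XT := (XT.nd (nat_lit 1404) (nat_lit 228) (nat_lit 0) (XT.nd (nat_lit 702) (nat_lit 456) (nat_lit 0) (XT.nd (nat_lit 312) (nat_lit 456) (nat_lit 0) (XT.nd (nat_lit 156) (nat_lit 380) (nat_lit 0) (XT.nd (nat_lit 78) (nat_lit 0) (nat_lit 0) (XT.lf (nat_lit 0) (nat_lit 39323579102) (nat_lit 152) (nat_lit 43304186538) (nat_lit 228) (nat_lit 48729127650) (nat_lit 27) (nat_lit 5) (nat_lit 29) (nat_lit 5) (nat_lit 30) (nat_lit 5) (nat_lit 294) (nat_lit 271) (nat_lit 155)) (XT.lf (nat_lit 0) (nat_lit 117473293722) (nat_lit 228) (nat_lit 8817112109) (nat_lit 76) (nat_lit 12585842917) (nat_lit 27) (nat_lit 5) (nat_lit 30) (nat_lit 5) (nat_lit 28) (nat_lit 5) (nat_lit 295) (nat_lit 271) (nat_lit 154))) (XT.nd (nat_lit 78) (nat_lit 152) (nat_lit 0) (XT.lf (nat_lit 0) (nat_lit 9907577283) (nat_lit 228) (nat_lit 64075315387) (nat_lit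 76) (nat_lit 72905040960) (nat_lit 24) (nat_lit 5) (nat_lit 27) (nat_lit 5) (nat_lit 25) (nat_lit 5) (nat_lit 296) (nat_lit 271) (nat_lit 153)) (XT.lf (nat_lit 0) (nat_lit 27055600300) (nat_lit 152) (nat_lit 16504961369) (nat_lit 228) (nat_lit 111933076994) (nat_lit 22) (nat_lit 5) (nat_lit 24) (nat_lit 5) (nat_lit 25) (nat_lit 5) (nat_lit 297) (nat_lit 271) (nat_lit 152)))) (XT.nd (nat_lit 156) (nat_lit 304) (nat_lit 0) (XT.nd (nat_lit 78) (nat_lit 152) (nat_lit 0) (XT.lf (nat_lit 0) (nat_lit 81750694030) (nat_lit 228) (nat_lit 37698305670) (nat_lit 76) (nat_lit 45246556791) (nat_lit 22) (nat_lit 5) (nat_lit 25) (nat_lit 5) (nat_lit 23) (nat_lit 5) (nat_lit 298) (nat_lit 271) (nat_lit 151)) (XT.lf (nat_lit 0) (nat_lit 62005361159) (nat_lit 152) (nat_lit 62236100413) (nat_lit 228) (nat_lit 50329896666) (nat_lit 20) (nat_lit 5) (nat_lit 22) (nat_lit 5) (nat_lit 23) (nat_lit 5) (nat_lit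 299) (nat_lit 271) (nat_lit 150))) (XT.nd (nat_lit 78) (nat_lit 304) (nat_lit 0) (XT.lf (nat_lit 0) (nat_lit 170791053570) (nat_lit 228) (nat_lit 14178146831) (nat_lit 76) (nat_lit 235047160) (nat_lit 20) (nat_lit 5) (nat_lit 23) (nat_lit 5) (nat_lit 21) (nat_lit 4) (nat_lit 300) (nat_lit 271) (nat_lit 149)) (XT.nd (nat_lit 78) (nat_lit 152) (nat_lit 0) (XT.lf (nat_lit 0) (nat_lit 26154681929) (nat_lit 152) (nat_lit 102943965190) (nat_lit 76) (nat_lit 67442190356) (nat_lit 18) (nat_lit 5) (nat_lit 20) (nat_lit 5) (nat_lit 19) (nat_lit 5) (nat_lit 301) (nat_lit 271) (nat_lit 148)) (XT.lf (nat_lit 0) (nat_lit 1528697304) (nat_lit 152) (nat_lit 68215143021) (nat_lit 228) (nat_lit 139014660436) (nat_lit 16) (nat_lit 5) (nat_lit 18) (nat_lit 5) (nat_lit 19) (nat_lit 5) (nat_lit 302) (nat_lit 271) (nat_lit 147)))))) (XT.nd (nat_lit 312) (nat_lit 304) (nat_lit 0) (XT.nd (nat_lit 156) (nat_lit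 76) (nat_lit 0) (XT.nd (nat_lit 78) (nat_lit 76) (nat_lit 0) (XT.lf (nat_lit 0) (nat_lit 118033993398) (nat_lit 152) (nat_lit 578575752) (nat_lit 228) (nat_lit 103251387277) (nat_lit 16) (nat_lit 5) (nat_lit 18) (nat_lit 5) (nat_lit 19) (nat_lit 5) (nat_lit 303) (nat_lit 271) (nat_lit 146)) (XT.lf (nat_lit 0) (nat_lit 6931047780) (nat_lit 76) (nat_lit 165698675359) (nat_lit 152) (nat_lit 63326180178) (nat_lit 15) (nat_lit 5) (nat_lit 16) (nat_lit 5) (nat_lit 17) (nat_lit 4) (nat_lit 304) (nat_lit 271) (nat_lit 145))) (XT.nd (nat_lit 78) (nat_lit 76) (nat_lit 0) (XT.lf (nat_lit 0) (nat_lit 130249437364) (nat_lit 76) (nat_lit 102536368361) (nat_lit 152) (nat_lit 18298523451) (nat_lit 15) (nat_lit 5) (nat_lit 16) (nat_lit 5) (nat_lit 17) (nat_lit 4) (nat_lit 305) (nat_lit 271) (nat_lit 144)) (XT.lf (nat_lit 0) (nat_lit 29359900042) (nat_lit 152) (nat_lit 4464383181) (nat_lit 76) (nat_lit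 233575101588) (nat_lit 14) (nat_lit 5) (nat_lit 16) (nat_lit 5) (nat_lit 15) (nat_lit 5) (nat_lit 306) (nat_lit 271) (nat_lit 143)))) (XT.nd (nat_lit 156) (nat_lit 152) (nat_lit 0) (XT.nd (nat_lit 78) (nat_lit 0) (nat_lit 0) (XT.lf (nat_lit 0) (nat_lit 82815512256) (nat_lit 228) (nat_lit 160670372659) (nat_lit 76) (nat_lit 41387481736) (nat_lit 12) (nat_lit 5) (nat_lit 15) (nat_lit 5) (nat_lit 13) (nat_lit 4) (nat_lit 307) (nat_lit 271) (nat_lit 142)) (XT.lf (nat_lit 0) (nat_lit 141196372804) (nat_lit 228) (nat_lit 40990802849) (nat_lit 76) (nat_lit 121525652196) (nat_lit 12) (nat_lit 5) (nat_lit 15) (nat_lit 5) (nat_lit 13) (nat_lit 4) (nat_lit 308) (nat_lit 271) (nat_lit 141))) (XT.nd (nat_lit 78) (nat_lit 76) (nat_lit 0) (XT.lf (nat_lit 0) (nat_lit 91180560370) (nat_lit 76) (nat_lit 114490187588) (nat_lit 152) (nat_lit 118317546421) (nat_lit 11) (nat_lit 5) (nat_lit 12) (nat_lit 5)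 (nat_lit 13) (nat_lit 4) (nat_lit 309) (nat_lit 271) (nat_lit 140)) (XT.nd (nat_lit 78) (nat_lit 76) (nat_lit 0) (XT.lf (nat_lit 0) (nat_lit 235388521417) (nat_lit 76) (nat_lit 40628072872) (nat_lit 152) (nat_lit 69833528551) (nat_lit 11) (nat_lit 5) (nat_lit 12) (nat_lit 5) (nat_lit 13) (nat_lit 4) (nat_lit 310) (nat_lit 271) (nat_lit 139)) (XT.lf (nat_lit 0) (nat_lit 21756603405) (nat_lit 76) (nat_lit 331183839026) (nat_lit 76) (nat_lit 16472939062) (nat_lit 10) (nat_lit 4) (nat_lit 11) (nat_lit 5) (nat_lit 11) (nat_lit 4) (nat_lit 311) (nat_lit 271) (nat_lit 138))))))) (XT.nd (nat_lit 34554) (nat_lit 0) (nat_lit 3800) (XT.nd (nat_lit 312) (nat_lit 76) (nat_lit 0) (XT.nd (nat_lit 156) (nat_lit 76) (nat_lit 0) (XT.nd (nat_lit 78) (nat_lit 0) (nat_lit 0) (XT.lf (nat_lit 0) (nat_lit 42479545247) (nat_lit 152) (nat_lit 227628668259) (nat_lit 76) (nat_lit 124589343833) (nat_lit 9) (nat_lit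 5) (nat_lit 11) (nat_lit 5) (nat_lit 10) (nat_lit 4) (nat_lit 312) (nat_lit 271) (nat_lit 137)) (XT.lf (nat_lit 0) (nat_lit 105578382320) (nat_lit 152) (nat_lit 98276826383) (nat_lit 76) (nat_lit 218135392369) (nat_lit 9) (nat_lit 5) (nat_lit 11) (nat_lit 5) (nat_lit 10) (nat_lit 4) (nat_lit 313) (nat_lit 271) (nat_lit 136))) (XT.nd (nat_lit 78) (nat_lit 0) (nat_lit 0) (XT.lf (nat_lit 0) (nat_lit 42792079502) (nat_lit 76) (nat_lit 131600752899) (nat_lit 152) (nat_lit 277040871067) (nat_lit 8) (nat_lit 5) (nat_lit 9) (nat_lit 5) (nat_lit 10) (nat_lit 4) (nat_lit 314) (nat_lit 271) (nat_lit 135)) (XT.lf (nat_lit 0) (nat_lit 198655264798) (nat_lit 76) (nat_lit 51768713449) (nat_lit 152) (nat_lit 232722699257) (nat_lit 8) (nat_lit 5) (nat_lit 9) (nat_lit 5) (nat_lit 10) (nat_lit 4) (nat_lit 315) (nat_lit 271) (nat_lit 134)))) (XT.nd (nat_lit 156) (nat_lit 76) (nat_lit 0) (XT.nd (nat_lit 78)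 (nat_lit 0) (nat_lit 0) (XT.lf (nat_lit 0) (nat_lit 333075119846) (nat_lit 152) (nat_lit 150947675090) (nat_lit 0) (nat_lit 33347019720) (nat_lit 8) (nat_lit 5) (nat_lit 10) (nat_lit 4) (nat_lit 8) (nat_lit 4) (nat_lit 316) (nat_lit 271) (nat_lit 133)) (XT.lf (nat_lit 0) (nat_lit 423210938934) (nat_lit 152) (nat_lit 7593938013) (nat_lit 0) (nat_lit 123482296899) (nat_lit 8) (nat_lit 5) (nat_lit 10) (nat_lit 4) (nat_lit 8) (nat_lit 4) (nat_lit 317) (nat_lit 271) (nat_lit 132))) (XT.nd (nat_lit 33930) (nat_lit 0) (nat_lit 4940) (XT.lf (nat_lit 0) (nat_lit 152095564779) (nat_lit 76) (nat_lit 370836392232) (nat_lit 76) (nat_lit 71107248430) (nat_lit 7) (nat_lit 4) (nat_lit 8) (nat_lit 5) (nat_lit 8) (nat_lit 4) (nat_lit 318) (nat_lit 271) (nat_lit 131)) (XT.nd (nat_lit 78) (nat_lit 0) (nat_lit 0) (XT.lf (nat_lit 0) (nat_lit 5541805971) (nat_lit 0) (nat_lit 5541805971) (nat_lit 684) (nat_lit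 13014296011) (nat_lit 72) (nat_lit 5) (nat_lit 72) (nat_lit 3) (nat_lit 81) (nat_lit 3) (nat_lit 272) (nat_lit 272) (nat_lit 176)) (XT.lf (nat_lit 0) (nat_lit 23450550955) (nat_lit 684) (nat_lit 4573976701) (nat_lit 760) (nat_lit 22079156585) (nat_lit 72) (nat_lit 5) (nat_lit 81) (nat_lit 3) (nat_lit 82) (nat_lit 5) (nat_lit 273) (nat_lit 272) (nat_lit 175)))))) (XT.nd (nat_lit 390) (nat_lit 1216) (nat_lit 0) (XT.nd (nat_lit 156) (nat_lit 0) (nat_lit 76) (XT.nd (nat_lit 78) (nat_lit 0) (nat_lit 0) (XT.lf (nat_lit 0) (nat_lit 25601078760) (nat_lit 684) (nat_lit 20839667825) (nat_lit 760) (nat_lit 5685221974) (nat_lit 73) (nat_lit 5) (nat_lit 82) (nat_lit 5) (nat_lit 83) (nat_lit 5) (nat_lit 274) (nat_lit 272) (nat_lit 174)) (XT.lf (nat_lit 76) (nat_lit 15905507687) (nat_lit 0) (nat_lit 12816263403) (nat_lit 760) (nat_lit 25548370683) (nat_lit 74) (nat_lit 5) (nat_lit 73) (nat_lit 5) (nat_lit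 83) (nat_lit 5) (nat_lit 275) (nat_lit 272) (nat_lit 173))) (XT.nd (nat_lit 78) (nat_lit 0) (nat_lit 76) (XT.lf (nat_lit 0) (nat_lit 32824481387) (nat_lit 684) (nat_lit 608547696) (nat_lit 760) (nat_lit 23116212988) (nat_lit 74) (nat_lit 5) (nat_lit 83) (nat_lit 5) (nat_lit 84) (nat_lit 5) (nat_lit 276) (nat_lit 272) (nat_lit 172)) (XT.nd (nat_lit 78) (nat_lit 0) (nat_lit 0) (XT.lf (nat_lit 0) (nat_lit 38161948739) (nat_lit 684) (nat_lit 17746603841) (nat_lit 760) (nat_lit 3056801318) (nat_lit 75) (nat_lit 5) (nat_lit 84) (nat_lit 5) (nat_lit 85) (nat_lit 5) (nat_lit 277) (nat_lit 272) (nat_lit 171)) (XT.lf (nat_lit 76) (nat_lit 25076023587) (nat_lit 0) (nat_lit 19813412220) (nat_lit 760) (nat_lit 16637177482) (nat_lit 76) (nat_lit 5) (nat_lit 75) (nat_lit 5) (nat_lit 85) (nat_lit 5) (nat_lit 278) (nat_lit 272) (nat_lit 170))))) (XT.nd (nat_lit 156) (nat_lit 760) (nat_lit 0) (XT.nd (nat_lit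 78) (nat_lit 0) (nat_lit 0) (XT.lf (nat_lit 0) (nat_lit 7617892958) (nat_lit 684) (nat_lit 45266848813) (nat_lit 760) (nat_lit 11371559680) (nat_lit 67) (nat_lit 5) (nat_lit 76) (nat_lit 5) (nat_lit 77) (nat_lit 5) (nat_lit 279) (nat_lit 272) (nat_lit 169)) (XT.lf (nat_lit 0) (nat_lit 56166020015) (nat_lit 684) (nat_lit 6314665095) (nat_lit 760) (nat_lit 4675637256) (nat_lit 67) (nat_lit 5) (nat_lit 76) (nat_lit 5) (nat_lit 77) (nat_lit 5) (nat_lit 280) (nat_lit 272) (nat_lit 168))) (XT.nd (nat_lit 78) (nat_lit 380) (nat_lit 0) (XT.lf (nat_lit 0) (nat_lit 3657874536) (nat_lit 380) (nat_lit 31291821958) (nat_lit 76) (nat_lit 35277474429) (nat_lit 62) (nat_lit 5) (nat_lit 67) (nat_lit 5) (nat_lit 63) (nat_lit 5) (nat_lit 281) (nat_lit 272) (nat_lit 167)) (XT.nd (nat_lit 78) (nat_lit 0) (nat_lit 0) (XT.lf (nat_lit 0) (nat_lit 13220249965) (nat_lit 456) (nat_lit 53451100337) (nat_lit 76)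 (nat_lit 6832211674) (nat_lit 57) (nat_lit 5) (nat_lit 63) (nat_lit 5) (nat_lit 58) (nat_lit 5) (nat_lit 282) (nat_lit 272) (nat_lit 166)) (XT.lf (nat_lit 0) (nat_lit 24688755747) (nat_lit 456) (nat_lit 993651245) (nat_lit 76) (nat_lit 51302606616) (nat_lit 57) (nat_lit 5) (nat_lit 63) (nat_lit 5) (nat_lit 58) (nat_lit 5) (nat_lit 283) (nat_lit 272) (nat_lit 165))))))))
noncomputable def xc106 : XT := (XT.nd (nat_lit 1404) (nat_lit 912) (nat_lit 0) (XT.nd (nat_lit 702) (nat_lit 988) (nat_lit 0) (XT.nd (nat_lit 312) (nat_lit 988) (nat_lit 0) (XT.nd (nat_lit 156) (nat_lit 228) (nat_lit 0) (XT.nd (nat_lit 78) (nat_lit 304) (nat_lit 0) (XT.lf (nat_lit 0) (nat_lit 38275313196) (nat_lit 380) (nat_lit 23506513078) (nat_lit 76) (nat_lit 18903132381) (nat_lit 53) (nat_lit 5) (nat_lit 58) (nat_lit 5) (nat_lit 54) (nat_lit 5) (nat_lit 284) (nat_lit 272) (nat_lit 164)) (XT.lf (nat_lit 0) (nat_lit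 36079043094) (nat_lit 304) (nat_lit 17881776764) (nat_lit 380) (nat_lit 30669483627) (nat_lit 49) (nat_lit 5) (nat_lit 53) (nat_lit 5) (nat_lit 54) (nat_lit 5) (nat_lit 285) (nat_lit 272) (nat_lit 163))) (XT.nd (nat_lit 78) (nat_lit 0) (nat_lit 0) (XT.lf (nat_lit 0) (nat_lit 12324619497) (nat_lit 228) (nat_lit 59644391792) (nat_lit 304) (nat_lit 16868877410) (nat_lit 46) (nat_lit 5) (nat_lit 49) (nat_lit 5) (nat_lit 50) (nat_lit 5) (nat_lit 286) (nat_lit 272) (nat_lit 162)) (XT.lf (nat_lit 0) (nat_lit 79490789738) (nat_lit 228) (nat_lit 13067749380) (nat_lit 304) (nat_lit 766512197) (nat_lit 46) (nat_lit 5) (nat_lit 49) (nat_lit 5) (nat_lit 50) (nat_lit 5) (nat_lit 287) (nat_lit 272) (nat_lit 161)))) (XT.nd (nat_lit 156) (nat_lit 380) (nat_lit 0) (XT.nd (nat_lit 78) (nat_lit 228) (nat_lit 0) (XT.lf (nat_lit 0) (nat_lit 17554600097) (nat_lit 380) (nat_lit 43345085261) (nat_lit 76) (nat_lit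 37185396726) (nat_lit 41) (nat_lit 5) (nat_lit 46) (nat_lit 5) (nat_lit 42) (nat_lit 5) (nat_lit 288) (nat_lit 272) (nat_lit 160)) (XT.lf (nat_lit 0) (nat_lit 26695614839) (nat_lit 228) (nat_lit 11499839135) (nat_lit 304) (nat_lit 64985791467) (nat_lit 38) (nat_lit 5) (nat_lit 41) (nat_lit 5) (nat_lit 42) (nat_lit 5) (nat_lit 289) (nat_lit 272) (nat_lit 159))) (XT.nd (nat_lit 78) (nat_lit 380) (nat_lit 0) (XT.lf (nat_lit 0) (nat_lit 61906976404) (nat_lit 304) (nat_lit 5427666281) (nat_lit 76) (nat_lit 41279492676) (nat_lit 38) (nat_lit 5) (nat_lit 42) (nat_lit 5) (nat_lit 39) (nat_lit 5) (nat_lit 290) (nat_lit 272) (nat_lit 158)) (XT.nd (nat_lit 78) (nat_lit 152) (nat_lit 0) (XT.lf (nat_lit 0) (nat_lit 73470770897) (nat_lit 228) (nat_lit 15384302040) (nat_lit 304) (nat_lit 25559604169) (nat_lit 35) (nat_lit 5) (nat_lit 38) (nat_lit 5) (nat_lit 39) (nat_lit 5) (nat_lit 291) (nat_lit 272)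 (nat_lit 157)) (XT.lf (nat_lit 0) (nat_lit 38803216351) (nat_lit 152) (nat_lit 80492235085) (nat_lit 228) (nat_lit 1316992050) (nat_lit 33) (nat_lit 5) (nat_lit 35) (nat_lit 5) (nat_lit 36) (nat_lit 5) (nat_lit 292) (nat_lit 272) (nat_lit 156)))))) (XT.nd (nat_lit 312) (nat_lit 532) (nat_lit 0) (XT.nd (nat_lit 156) (nat_lit 152) (nat_lit 0) (XT.nd (nat_lit 78) (nat_lit 228) (nat_lit 0) (XT.lf (nat_lit 0) (nat_lit 25052279726) (nat_lit 228) (nat_lit 1539208756) (nat_lit 76) (nat_lit 100645980361) (nat_lit 32) (nat_lit 5) (nat_lit 35) (nat_lit 5) (nat_lit 33) (nat_lit 5) (nat_lit 293) (nat_lit 272) (nat_lit 155)) (XT.lf (nat_lit 0) (nat_lit 55374036219) (nat_lit 304) (nat_lit 46896016418) (nat_lit 76) (nat_lit 32026912347) (nat_lit 29) (nat_lit 5) (nat_lit 33) (nat_lit 5) (nat_lit 30) (nat_lit 5) (nat_lit 294) (nat_lit 272) (nat_lit 154))) (XT.nd (nat_lit 78) (nat_lit 0) (nat_lit 0) (XT.lf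 (nat_lit 0) (nat_lit 42501309640) (nat_lit 152) (nat_lit 46758336100) (nat_lit 228) (nat_lit 52604671722) (nat_lit 27) (nat_lit 5) (nat_lit 29) (nat_lit 5) (nat_lit 30) (nat_lit 5) (nat_lit 295) (nat_lit 272) (nat_lit 153)) (XT.lf (nat_lit 0) (nat_lit 126891358953) (nat_lit 228) (nat_lit 9492099154) (nat_lit 76) (nat_lit 13601839392) (nat_lit 27) (nat_lit 5) (nat_lit 30) (nat_lit 5) (nat_lit 28) (nat_lit 5) (nat_lit 296) (nat_lit 272) (nat_lit 152)))) (XT.nd (nat_lit 156) (nat_lit 152) (nat_lit 0) (XT.nd (nat_lit 78) (nat_lit 152) (nat_lit 0) (XT.lf (nat_lit 0) (nat_lit 10719693393) (nat_lit 228) (nat_lit 69171597759) (nat_lit 76) (nat_lit 78746665462) (nat_lit 24) (nat_lit 5) (nat_lit 27) (nat_lit 5) (nat_lit 25) (nat_lit 5) (nat_lit 297) (nat_lit 272) (nat_lit 151)) (XT.lf (nat_lit 0) (nat_lit 29248498594) (nat_lit 152) (nat_lit 17815416944) (nat_lit 228) (nat_lit 120868255243) (nat_lit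 22) (nat_lit 5) (nat_lit 24) (nat_lit 5) (nat_lit 25) (nat_lit 5) (nat_lit 298) (nat_lit 272) (nat_lit 150))) (XT.nd (nat_lit 78) (nat_lit 152) (nat_lit 0) (XT.lf (nat_lit 0) (nat_lit 88308031171) (nat_lit 228) (nat_lit 40687083057) (nat_lit 76) (nat_lit 48875191659) (nat_lit 22) (nat_lit 5) (nat_lit 25) (nat_lit 5) (nat_lit 23) (nat_lit 5) (nat_lit 299) (nat_lit 272) (nat_lit 149)) (XT.nd (nat_lit 78) (nat_lit 0) (nat_lit 0) (XT.lf (nat_lit 0) (nat_lit 66991699948) (nat_lit 152) (nat_lit 67205484574) (nat_lit 228) (nat_lit 54339033328) (nat_lit 20) (nat_lit 5) (nat_lit 22) (nat_lit 5) (nat_lit 23) (nat_lit 5) (nat_lit 300) (nat_lit 272) (nat_lit 148)) (XT.lf (nat_lit 0) (nat_lit 184469666010) (nat_lit 228) (nat_lit 15287759169) (nat_lit 76) (nat_lit 262369163) (nat_lit 20) (nat_lit 5) (nat_lit 23) (nat_lit 5) (nat_lit 21) (nat_lit 4) (nat_lit 301) (nat_lit 272) (nat_lit 147))))))) (XT.nd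 (nat_lit 702) (nat_lit 228) (nat_lit 0) (XT.nd (nat_lit 312) (nat_lit 304) (nat_lit 0) (XT.nd (nat_lit 156) (nat_lit 76) (nat_lit 0) (XT.nd (nat_lit 78) (nat_lit 152) (nat_lit 0) (XT.lf (nat_lit 0) (nat_lit 28261879746) (nat_lit 152) (nat_lit 111155400202) (nat_lit 76) (nat_lit 72846059891) (nat_lit 18) (nat_lit 5) (nat_lit 20) (nat_lit 5) (nat_lit 19) (nat_lit 5) (nat_lit 302) (nat_lit 272) (nat_lit 146)) (XT.lf (nat_lit 0) (nat_lit 1674028709) (nat_lit 152) (nat_lit 73663403736) (nat_lit 228) (nat_lit 150121022401) (nat_lit 16) (nat_lit 5) (nat_lit 18) (nat_lit 5) (nat_lit 19) (nat_lit 5) (nat_lit 303) (nat_lit 272) (nat_lit 145))) (XT.nd (nat_lit 78) (nat_lit 76) (nat_lit 0) (XT.lf (nat_lit 0) (nat_lit 127498042148) (nat_lit 152) (nat_lit 616574103) (nat_lit 228) (nat_lit 111497784490) (nat_lit 16) (nat_lit 5) (nat_lit 18) (nat_lit 5) (nat_lit 19) (nat_lit 5) (nat_lit 304) (nat_lit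 272) (nat_lit 144)) (XT.lf (nat_lit 0) (nat_lit 7506453153) (nat_lit 76) (nat_lit 178946169818) (nat_lit 152) (nat_lit 68379107881) (nat_lit 15) (nat_lit 5) (nat_lit 16) (nat_lit 5) (nat_lit 17) (nat_lit 4) (nat_lit 305) (nat_lit 272) (nat_lit 143)))) (XT.nd (nat_lit 156) (nat_lit 228) (nat_lit 0) (XT.nd (nat_lit 78) (nat_lit 76) (nat_lit 0) (XT.lf (nat_lit 0) (nat_lit 140688764159) (nat_lit 76) (nat_lit 110731500450) (nat_lit 152) (nat_lit 19750213928) (nat_lit 15) (nat_lit 5) (nat_lit 16) (nat_lit 5) (nat_lit 17) (nat_lit 4) (nat_lit 306) (nat_lit 272) (nat_lit 142)) (XT.lf (nat_lit 0) (nat_lit 31719619080) (nat_lit 152) (nat_lit 4803220468) (nat_lit 76) (nat_lit 252267934482) (nat_lit 14) (nat_lit 5) (nat_lit 16) (nat_lit 5) (nat_lit 15) (nat_lit 5) (nat_lit 307) (nat_lit 272) (nat_lit 141))) (XT.nd (nat_lit 78) (nat_lit 76) (nat_lit 0) (XT.lf (nat_lit 0) (nat_lit 89451255622) (nat_lit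 228) (nat_lit 173506062601) (nat_lit 76) (nat_lit 44705378555) (nat_lit 12) (nat_lit 5) (nat_lit 15) (nat_lit 5) (nat_lit 13) (nat_lit 4) (nat_lit 308) (nat_lit 272) (nat_lit 140)) (XT.nd (nat_lit 78) (nat_lit 76) (nat_lit 0) (XT.lf (nat_lit 0) (nat_lit 152501807059) (nat_lit 228) (nat_lit 44253456086) (nat_lit 76) (nat_lit 131254091669) (nat_lit 12) (nat_lit 5) (nat_lit 15) (nat_lit 5) (nat_lit 13) (nat_lit 4) (nat_lit 309) (nat_lit 272) (nat_lit 139)) (XT.lf (nat_lit 0) (nat_lit 98490894297) (nat_lit 76) (nat_lit 123642765673) (nat_lit 152) (nat_lit 127773223274) (nat_lit 11) (nat_lit 5) (nat_lit 12) (nat_lit 5) (nat_lit 13) (nat_lit 4) (nat_lit 310) (nat_lit 272) (nat_lit 138)))))) (XT.nd (nat_lit 390) (nat_lit 0) (nat_lit 0) (XT.nd (nat_lit 156) (nat_lit 152) (nat_lit 0) (XT.nd (nat_lit 78) (nat_lit 76) (nat_lit 0) (XT.lf (nat_lit 0) (nat_lit 254234315257) (nat_lit 76) (nat_lit 43872173404)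 (nat_lit 152) (nat_lit 75411204483) (nat_lit 11) (nat_lit 5) (nat_lit 12) (nat_lit 5) (nat_lit 13) (nat_lit 4) (nat_lit 311) (nat_lit 272) (nat_lit 137)) (XT.lf (nat_lit 0) (nat_lit 23511533080) (nat_lit 76) (nat_lit 357672390679) (nat_lit 76) (nat_lit 17782105603) (nat_lit 10) (nat_lit 4) (nat_lit 11) (nat_lit 5) (nat_lit 11) (nat_lit 4) (nat_lit 312) (nat_lit 272) (nat_lit 136))) (XT.nd (nat_lit 78) (nat_lit 76) (nat_lit 0) (XT.lf (nat_lit 0) (nat_lit 45885678437) (nat_lit 152) (nat_lit 245825361060) (nat_lit 76) (nat_lit 134561924821) (nat_lit 9) (nat_lit 5) (nat_lit 11) (nat_lit 5) (nat_lit 10) (nat_lit 4) (nat_lit 313) (nat_lit 272) (nat_lit 135)) (XT.nd (nat_lit 78) (nat_lit 76) (nat_lit 0) (XT.lf (nat_lit 0) (nat_lit 114031846952) (nat_lit 152) (nat_lit 106126379290) (nat_lit 76) (nat_lit 235591254759) (nat_lit 9) (nat_lit 5) (nat_lit 11) (nat_lit 5) (nat_lit 10) (nat_lit 4) (nat_lit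 314) (nat_lit 272) (nat_lit 134)) (XT.lf (nat_lit 0) (nat_lit 46227491780) (nat_lit 76) (nat_lit 142123616437) (nat_lit 152) (nat_lit 299196941239) (nat_lit 8) (nat_lit 5) (nat_lit 9) (nat_lit 5) (nat_lit 10) (nat_lit 4) (nat_lit 315) (nat_lit 272) (nat_lit 133))))) (XT.nd (nat_lit 156) (nat_lit 0) (nat_lit 0) (XT.nd (nat_lit 78) (nat_lit 0) (nat_lit 0) (XT.lf (nat_lit 0) (nat_lit 214558839609) (nat_lit 76) (nat_lit 55905398771) (nat_lit 152) (nat_lit 251333848981) (nat_lit 8) (nat_lit 5) (nat_lit 9) (nat_lit 5) (nat_lit 10) (nat_lit 4) (nat_lit 316) (nat_lit 272) (nat_lit 132)) (XT.lf (nat_lit 0) (nat_lit 359727071100) (nat_lit 152) (nat_lit 163012930908) (nat_lit 0) (nat_lit 36019094027) (nat_lit 8) (nat_lit 5) (nat_lit 10) (nat_lit 4) (nat_lit 8) (nat_lit 4) (nat_lit 317) (nat_lit 272) (nat_lit 131))) (XT.nd (nat_lit 34008) (nat_lit 0) (nat_lit 4864) (XT.lf (nat_lit 0) (nat_lit 457073315591)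 (nat_lit 152) (nat_lit 8191676953) (nat_lit 0) (nat_lit 133364873919) (nat_lit 8) (nat_lit 5) (nat_lit 10) (nat_lit 4) (nat_lit 8) (nat_lit 4) (nat_lit 318) (nat_lit 272) (nat_lit 130)) (XT.nd (nat_lit 78) (nat_lit 0) (nat_lit 0) (XT.lf (nat_lit 0) (nat_lit 6004924506) (nat_lit 0) (nat_lit 6004924506) (nat_lit 684) (nat_lit 14013784959) (nat_lit 72) (nat_lit 5) (nat_lit 72) (nat_lit 3) (nat_lit 81) (nat_lit 3) (nat_lit 273) (nat_lit 273) (nat_lit 174)) (XT.lf (nat_lit 0) (nat_lit 25399260561) (nat_lit 684) (nat_lit 4898803349) (nat_lit 760) (nat_lit 23810042511) (nat_lit 72) (nat_lit 5) (nat_lit 81) (nat_lit 3) (nat_lit 82) (nat_lit 5) (nat_lit 274) (nat_lit 273) (nat_lit 173))))))))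
noncomputable def xc107 : XT := (XT.nd (nat_lit 1404) (nat_lit 1824) (nat_lit 0) (XT.nd (nat_lit 702) (nat_lit 1672) (nat_lit 0) (XT.nd (nat_lit 312) (nat_lit 1216) (nat_lit 0) (XT.nd (nat_lit 156) (nat_lit 0) (nat_lit 76) (XT.nd (nat_lit 78) (nat_lit 0) (nat_lit 0) (XT.lf (nat_lit 0) (nat_lit 27716615248) (nat_lit 684) (nat_lit 22463472780) (nat_lit 760) (nat_lit 6112363949) (nat_lit 73) (nat_lit 5) (nat_lit 82) (nat_lit 5) (nat_lit 83) (nat_lit 5) (nat_lit 275) (nat_lit 273) (nat_lit 172)) (XT.lf (nat_lit 76) (nat_lit 17219432032) (nat_lit 0) (nat_lit 13863182299) (nat_lit 760) (nat_lit 27525778561) (nat_lit 74) (nat_lit 5) (nat_lit 73) (nat_lit 5) (nat_lit 83) (nat_lit 5) (nat_lit 276) (nat_lit 273) (nat_lit 171))) (XT.nd (nat_lit 78) (nat_lit 0) (nat_lit 76) (XT.lf (nat_lit 0) (nat_lit 35508554749) (nat_lit 684) (nat_lit 615396820) (nat_lit 760) (nat_lit 24946134177) (nat_lit 74)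 (nat_lit 5) (nat_lit 83) (nat_lit 5) (nat_lit 84) (nat_lit 5) (nat_lit 277) (nat_lit 273) (nat_lit 170)) (XT.lf (nat_lit 0) (nat_lit 41269114348) (nat_lit 684) (nat_lit 19123192812) (nat_lit 760) (nat_lit 3287388685) (nat_lit 75) (nat_lit 5) (nat_lit 84) (nat_lit 5) (nat_lit 85) (nat_lit 5) (nat_lit 278) (nat_lit 273) (nat_lit 169)))) (XT.nd (nat_lit 156) (nat_lit 760) (nat_lit 0) (XT.nd (nat_lit 78) (nat_lit 608) (nat_lit 0) (XT.lf (nat_lit 76) (nat_lit 27123370026) (nat_lit 0) (nat_lit 21408059077) (nat_lit 760) (nat_lit 17914608477) (nat_lit 76) (nat_lit 5) (nat_lit 75) (nat_lit 5) (nat_lit 85) (nat_lit 5) (nat_lit 279) (nat_lit 273) (nat_lit 168)) (XT.lf (nat_lit 0) (nat_lit 8269525845) (nat_lit 684) (nat_lit 48893588369) (nat_lit 760) (nat_lit 12231160909) (nat_lit 67) (nat_lit 5) (nat_lit 76) (nat_lit 5) (nat_lit 77) (nat_lit 5) (nat_lit 280) (nat_lit 273) (nat_lit 167))) (XT.nd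 (nat_lit 78) (nat_lit 760) (nat_lit 0) (XT.lf (nat_lit 0) (nat_lit 60698377034) (nat_lit 684) (nat_lit 6824830572) (nat_lit 760) (nat_lit 5003277547) (nat_lit 67) (nat_lit 5) (nat_lit 76) (nat_lit 5) (nat_lit 77) (nat_lit 5) (nat_lit 281) (nat_lit 273) (nat_lit 166)) (XT.nd (nat_lit 78) (nat_lit 380) (nat_lit 0) (XT.lf (nat_lit 0) (nat_lit 3992658484) (nat_lit 380) (nat_lit 33753957811) (nat_lit 76) (nat_lit 38096497482) (nat_lit 62) (nat_lit 5) (nat_lit 67) (nat_lit 5) (nat_lit 63) (nat_lit 5) (nat_lit 282) (nat_lit 273) (nat_lit 165)) (XT.lf (nat_lit 0) (nat_lit 14317513312) (nat_lit 456) (nat_lit 57685669489) (nat_lit 76) (nat_lit 7378567966) (nat_lit 57) (nat_lit 5) (nat_lit 63) (nat_lit 5) (nat_lit 58) (nat_lit 5) (nat_lit 283) (nat_lit 273) (nat_lit 164)))))) (XT.nd (nat_lit 312) (nat_lit 836) (nat_lit 0) (XT.nd (nat_lit 156) (nat_lit 532) (nat_lit 0) (XT.nd (nat_lit 78) (nat_lit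 304) (nat_lit 0) (XT.lf (nat_lit 0) (nat_lit 26700563013) (nat_lit 456) (nat_lit 1034699942) (nat_lit 76) (nat_lit 55406610847) (nat_lit 57) (nat_lit 5) (nat_lit 63) (nat_lit 5) (nat_lit 58) (nat_lit 5) (nat_lit 284) (nat_lit 273) (nat_lit 163)) (XT.lf (nat_lit 0) (nat_lit 41371934676) (nat_lit 380) (nat_lit 25348470109) (nat_lit 76) (nat_lit 20417523005) (nat_lit 53) (nat_lit 5) (nat_lit 58) (nat_lit 5) (nat_lit 54) (nat_lit 5) (nat_lit 285) (nat_lit 273) (nat_lit 162))) (XT.nd (nat_lit 78) (nat_lit 228) (nat_lit 0) (XT.lf (nat_lit 0) (nat_lit 39002254612) (nat_lit 304) (nat_lit 19308040488) (nat_lit 380) (nat_lit 33088711685) (nat_lit 49) (nat_lit 5) (nat_lit 53) (nat_lit 5) (nat_lit 54) (nat_lit 5) (nat_lit 286) (nat_lit 273) (nat_lit 161)) (XT.lf (nat_lit 0) (nat_lit 13347456309) (nat_lit 228) (nat_lit 64409907457) (nat_lit 304) (nat_lit 18185930657) (nat_lit 46) (nat_lit 5) (nat_lit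 49) (nat_lit 5) (nat_lit 50) (nat_lit 5) (nat_lit 287) (nat_lit 273) (nat_lit 160)))) (XT.nd (nat_lit 156) (nat_lit 456) (nat_lit 0) (XT.nd (nat_lit 78) (nat_lit 380) (nat_lit 0) (XT.lf (nat_lit 0) (nat_lit 85884189262) (nat_lit 228) (nat_lit 14107580739) (nat_lit 304) (nat_lit 797780445) (nat_lit 46) (nat_lit 5) (nat_lit 49) (nat_lit 5) (nat_lit 50) (nat_lit 5) (nat_lit 288) (nat_lit 273) (nat_lit 159)) (XT.lf (nat_lit 0) (nat_lit 18986525874) (nat_lit 380) (nat_lit 46777703550) (nat_lit 76) (nat_lit 40166212920) (nat_lit 41) (nat_lit 5) (nat_lit 46) (nat_lit 5) (nat_lit 42) (nat_lit 5) (nat_lit 289) (nat_lit 273) (nat_lit 158))) (XT.nd (nat_lit 78) (nat_lit 228) (nat_lit 0) (XT.lf (nat_lit 0) (nat_lit 28864731999) (nat_lit 228) (nat_lit 12412397275) (nat_lit 304) (nat_lit 70157250503) (nat_lit 38) (nat_lit 5) (nat_lit 41) (nat_lit 5) (nat_lit 42) (nat_lit 5) (nat_lit 290) (nat_lit 273)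 (nat_lit 157)) (XT.nd (nat_lit 78) (nat_lit 228) (nat_lit 0) (XT.lf (nat_lit 0) (nat_lit 66883752080) (nat_lit 304) (nat_lit 5829733949) (nat_lit 76) (nat_lit 44588510625) (nat_lit 38) (nat_lit 5) (nat_lit 42) (nat_lit 5) (nat_lit 39) (nat_lit 5) (nat_lit 291) (nat_lit 273) (nat_lit 156)) (XT.lf (nat_lit 0) (nat_lit 79379181194) (nat_lit 228) (nat_lit 16607201322) (nat_lit 304) (nat_lit 27580269260) (nat_lit 35) (nat_lit 5) (nat_lit 38) (nat_lit 5) (nat_lit 39) (nat_lit 5) (nat_lit 292) (nat_lit 273) (nat_lit 155))))))) (XT.nd (nat_lit 702) (nat_lit 684) (nat_lit 0) (XT.nd (nat_lit 312) (nat_lit 532) (nat_lit 0) (XT.nd (nat_lit 156) (nat_lit 380) (nat_lit 0) (XT.nd (nat_lit 78) (nat_lit 76) (nat_lit 0) (XT.lf (nat_lit 0) (nat_lit 41937916199) (nat_lit 152) (nat_lit 86922967223) (nat_lit 228) (nat_lit 1399415461) (nat_lit 33) (nat_lit 5) (nat_lit 35) (nat_lit 5) (nat_lit 36) (nat_lit 5)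 (nat_lit 293) (nat_lit 273) (nat_lit 154)) (XT.lf (nat_lit 0) (nat_lit 27077019381) (nat_lit 228) (nat_lit 1633433856) (nat_lit 76) (nat_lit 108704940902) (nat_lit 32) (nat_lit 5) (nat_lit 35) (nat_lit 5) (nat_lit 33) (nat_lit 5) (nat_lit 294) (nat_lit 273) (nat_lit 153))) (XT.nd (nat_lit 78) (nat_lit 152) (nat_lit 0) (XT.lf (nat_lit 0) (nat_lit 59823553258) (nat_lit 304) (nat_lit 50619156068) (nat_lit 76) (nat_lit 34596992087) (nat_lit 29) (nat_lit 5) (nat_lit 33) (nat_lit 5) (nat_lit 30) (nat_lit 5) (nat_lit 295) (nat_lit 273) (nat_lit 152)) (XT.lf (nat_lit 0) (nat_lit 45928715689) (nat_lit 152) (nat_lit 50490270684) (nat_lit 228) (nat_lit 56793510018) (nat_lit 27) (nat_lit 5) (nat_lit 29) (nat_lit 5) (nat_lit 30) (nat_lit 5) (nat_lit 296) (nat_lit 273) (nat_lit 151)))) (XT.nd (nat_lit 156) (nat_lit 304) (nat_lit 0) (XT.nd (nat_lit 78) (nat_lit 228) (nat_lit 0) (XT.lf (nat_lit 0) (nat_lit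 137059987400) (nat_lit 228) (nat_lit 10225419483) (nat_lit 76) (nat_lit 14697813225) (nat_lit 27) (nat_lit 5) (nat_lit 30) (nat_lit 5) (nat_lit 28) (nat_lit 5) (nat_lit 297) (nat_lit 273) (nat_lit 150)) (XT.lf (nat_lit 0) (nat_lit 11593995483) (nat_lit 228) (nat_lit 74679825872) (nat_lit 76) (nat_lit 85054304413) (nat_lit 24) (nat_lit 5) (nat_lit 27) (nat_lit 5) (nat_lit 25) (nat_lit 5) (nat_lit 298) (nat_lit 273) (nat_lit 149))) (XT.nd (nat_lit 78) (nat_lit 152) (nat_lit 0) (XT.lf (nat_lit 0) (nat_lit 31612770003) (nat_lit 152) (nat_lit 19232127207) (nat_lit 228) (nat_lit 130521025067) (nat_lit 22) (nat_lit 5) (nat_lit 24) (nat_lit 5) (nat_lit 25) (nat_lit 5) (nat_lit 299) (nat_lit 273) (nat_lit 148)) (XT.nd (nat_lit 78) (nat_lit 152) (nat_lit 0) (XT.lf (nat_lit 0) (nat_lit 95387489867) (nat_lit 228) (nat_lit 43918826907) (nat_lit 76) (nat_lit 52792846158) (nat_lit 22) (nat_lit 5) (nat_lit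 25) (nat_lit 5) (nat_lit 23) (nat_lit 5) (nat_lit 300) (nat_lit 273) (nat_lit 147)) (XT.lf (nat_lit 0) (nat_lit 72373249504) (nat_lit 152) (nat_lit 72573775302) (nat_lit 228) (nat_lit 58671362553) (nat_lit 20) (nat_lit 5) (nat_lit 22) (nat_lit 5) (nat_lit 23) (nat_lit 5) (nat_lit 301) (nat_lit 273) (nat_lit 146)))))) (XT.nd (nat_lit 390) (nat_lit 304) (nat_lit 0) (XT.nd (nat_lit 156) (nat_lit 228) (nat_lit 0) (XT.nd (nat_lit 78) (nat_lit 152) (nat_lit 0) (XT.lf (nat_lit 0) (nat_lit 199240380713) (nat_lit 228) (nat_lit 16489655582) (nat_lit 76) (nat_lit 290661705) (nat_lit 20) (nat_lit 5) (nat_lit 23) (nat_lit 5) (nat_lit 21) (nat_lit 4) (nat_lit 302) (nat_lit 273) (nat_lit 145)) (XT.lf (nat_lit 0) (nat_lit 30535538684) (nat_lit 152) (nat_lit 120027185610) (nat_lit 76) (nat_lit 78681027182) (nat_lit 18) (nat_lit 5) (nat_lit 20) (nat_lit 5) (nat_lit 19) (nat_lit 5) (nat_lit 303) (nat_lit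 273) (nat_lit 144))) (XT.nd (nat_lit 78) (nat_lit 76) (nat_lit 0) (XT.lf (nat_lit 0) (nat_lit 1827700337) (nat_lit 152) (nat_lit 79548802230) (nat_lit 228) (nat_lit 162118006258) (nat_lit 16) (nat_lit 5) (nat_lit 18) (nat_lit 5) (nat_lit 19) (nat_lit 5) (nat_lit 304) (nat_lit 273) (nat_lit 143)) (XT.nd (nat_lit 78) (nat_lit 76) (nat_lit 0) (XT.lf (nat_lit 0) (nat_lit 137716171938) (nat_lit 152) (nat_lit 658794656) (nat_lit 228) (nat_lit 120405849902) (nat_lit 16) (nat_lit 5) (nat_lit 18) (nat_lit 5) (nat_lit 19) (nat_lit 5) (nat_lit 305) (nat_lit 273) (nat_lit 142)) (XT.lf (nat_lit 0) (nat_lit 8124906262) (nat_lit 76) (nat_lit 193254662126) (nat_lit 152) (nat_lit 73838148179) (nat_lit 15) (nat_lit 5) (nat_lit 16) (nat_lit 5) (nat_lit 17) (nat_lit 4) (nat_lit 306) (nat_lit 273) (nat_lit 141))))) (XT.nd (nat_lit 156) (nat_lit 228) (nat_lit 0) (XT.nd (nat_lit 78) (nat_lit 76) (nat_lit 0)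 (XT.lf (nat_lit 0) (nat_lit 151960473493) (nat_lit 76) (nat_lit 119583352636) (nat_lit 152) (nat_lit 21319778883) (nat_lit 15) (nat_lit 5) (nat_lit 16) (nat_lit 5) (nat_lit 17) (nat_lit 4) (nat_lit 307) (nat_lit 273) (nat_lit 140)) (XT.lf (nat_lit 0) (nat_lit 34266556778) (nat_lit 152) (nat_lit 5171777345) (nat_lit 76) (nat_lit 272455220379) (nat_lit 14) (nat_lit 5) (nat_lit 16) (nat_lit 5) (nat_lit 15) (nat_lit 5) (nat_lit 308) (nat_lit 273) (nat_lit 139))) (XT.nd (nat_lit 78) (nat_lit 76) (nat_lit 0) (XT.lf (nat_lit 0) (nat_lit 96616360174) (nat_lit 228) (nat_lit 187371167062) (nat_lit 76) (nat_lit 48287723002) (nat_lit 12) (nat_lit 5) (nat_lit 15) (nat_lit 5) (nat_lit 13) (nat_lit 4) (nat_lit 309) (nat_lit 273) (nat_lit 138)) (XT.nd (nat_lit 78) (nat_lit 76) (nat_lit 0) (XT.lf (nat_lit 0) (nat_lit 164710288756) (nat_lit 228) (nat_lit 47779491326) (nat_lit 76) (nat_lit 141759895079)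 (nat_lit 12) (nat_lit 5) (nat_lit 15) (nat_lit 5) (nat_lit 13) (nat_lit 4) (nat_lit 310) (nat_lit 273) (nat_lit 137)) (XT.lf (nat_lit 0) (nat_lit 106383788181) (nat_lit 76) (nat_lit 133528496836) (nat_lit 152) (nat_lit 137986741920) (nat_lit 11) (nat_lit 5) (nat_lit 12) (nat_lit 5) (nat_lit 13) (nat_lit 4) (nat_lit 311) (nat_lit 273) (nat_lit 136))))))))
noncomputable def xc108 : XT := (XT.nd (nat_lit 35412) (nat_lit 0) (nat_lit 912) (XT.nd (nat_lit 34710) (nat_lit 0) (nat_lit 3724) (XT.nd (nat_lit 312) (nat_lit 76) (nat_lit 0) (XT.nd (nat_lit 156) (nat_lit 76) (nat_lit 0) (XT.nd (nat_lit 78) (nat_lit 76) (nat_lit 0) (XT.lf (nat_lit 0) (nat_lit 274585673756) (nat_lit 76) (nat_lit 47376678674) (nat_lit 152) (nat_lit 81436379346) (nat_lit 11) (nat_lit 5) (nat_lit 12) (nat_lit 5) (nat_lit 13) (nat_lit 4) (nat_lit 312) (nat_lit 273) (nat_lit 135)) (XT.lf (nat_lit 0) (nat_lit 25404802608)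 (nat_lit 76) (nat_lit 386280904611) (nat_lit 76) (nat_lit 19197242138) (nat_lit 10) (nat_lit 4) (nat_lit 11) (nat_lit 5) (nat_lit 11) (nat_lit 4) (nat_lit 313) (nat_lit 273) (nat_lit 134))) (XT.nd (nat_lit 78) (nat_lit 0) (nat_lit 0) (XT.lf (nat_lit 0) (nat_lit 49563193865) (nat_lit 152) (nat_lit 265479729572) (nat_lit 76) (nat_lit 145331537141) (nat_lit 9) (nat_lit 5) (nat_lit 11) (nat_lit 5) (nat_lit 10) (nat_lit 4) (nat_lit 314) (nat_lit 273) (nat_lit 133)) (XT.lf (nat_lit 0) (nat_lit 123160562443) (nat_lit 152) (nat_lit 114605692992) (nat_lit 76) (nat_lit 254442868412) (nat_lit 9) (nat_lit 5) (nat_lit 11) (nat_lit 5) (nat_lit 10) (nat_lit 4) (nat_lit 315) (nat_lit 273) (nat_lit 132)))) (XT.nd (nat_lit 156) (nat_lit 0) (nat_lit 0) (XT.nd (nat_lit 78) (nat_lit 0) (nat_lit 0) (XT.lf (nat_lit 0) (nat_lit 49936018556) (nat_lit 76) (nat_lit 153489050425) (nat_lit 152) (nat_lit 323126524117)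 (nat_lit 8) (nat_lit 5) (nat_lit 9) (nat_lit 5) (nat_lit 10) (nat_lit 4) (nat_lit 316) (nat_lit 273) (nat_lit 131)) (XT.lf (nat_lit 0) (nat_lit 231733109216) (nat_lit 76) (nat_lit 60373705370) (nat_lit 152) (nat_lit 271434841694) (nat_lit 8) (nat_lit 5) (nat_lit 9) (nat_lit 5) (nat_lit 10) (nat_lit 4) (nat_lit 317) (nat_lit 273) (nat_lit 130))) (XT.nd (nat_lit 34086) (nat_lit 0) (nat_lit 4864) (XT.lf (nat_lit 0) (nat_lit 388510330809) (nat_lit 152) (nat_lit 176044913435) (nat_lit 0) (nat_lit 38904319019) (nat_lit 8) (nat_lit 5) (nat_lit 10) (nat_lit 4) (nat_lit 8) (nat_lit 4) (nat_lit 318) (nat_lit 273) (nat_lit 129)) (XT.nd (nat_lit 78) (nat_lit 0) (nat_lit 0) (XT.lf (nat_lit 0) (nat_lit 6502271533) (nat_lit 0) (nat_lit 6502271533) (nat_lit 684) (nat_lit 15099175537) (nat_lit 72) (nat_lit 5) (nat_lit 72) (nat_lit 3) (nat_lit 81) (nat_lit 3) (nat_lit 274) (nat_lit 274) (nat_lit 172))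 (XT.lf (nat_lit 0) (nat_lit 27493500386) (nat_lit 684) (nat_lit 5255478289) (nat_lit 760) (nat_lit 25684456166) (nat_lit 72) (nat_lit 5) (nat_lit 81) (nat_lit 3) (nat_lit 82) (nat_lit 5) (nat_lit 275) (nat_lit 274) (nat_lit 171)))))) (XT.nd (nat_lit 312) (nat_lit 1216) (nat_lit 0) (XT.nd (nat_lit 156) (nat_lit 0) (nat_lit 76) (XT.nd (nat_lit 78) (nat_lit 0) (nat_lit 0) (XT.lf (nat_lit 0) (nat_lit 29991772132) (nat_lit 684) (nat_lit 24223369129) (nat_lit 760) (nat_lit 6577625542) (nat_lit 73) (nat_lit 5) (nat_lit 82) (nat_lit 5) (nat_lit 83) (nat_lit 5) (nat_lit 276) (nat_lit 274) (nat_lit 170)) (XT.lf (nat_lit 76) (nat_lit 18632552206) (nat_lit 0) (nat_lit 14990770683) (nat_lit 760) (nat_lit 29670860584) (nat_lit 74) (nat_lit 5) (nat_lit 73) (nat_lit 5) (nat_lit 83) (nat_lit 5) (nat_lit 277) (nat_lit 274) (nat_lit 169))) (XT.nd (nat_lit 78) (nat_lit 0) (nat_lit 76) (XT.lf (nat_lit 0)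 (nat_lit 38399063247) (nat_lit 684) (nat_lit 628762060) (nat_lit 760) (nat_lit 26925213242) (nat_lit 74) (nat_lit 5) (nat_lit 83) (nat_lit 5) (nat_lit 84) (nat_lit 5) (nat_lit 278) (nat_lit 274) (nat_lit 168)) (XT.lf (nat_lit 0) (nat_lit 44617119585) (nat_lit 684) (nat_lit 20616063210) (nat_lit 760) (nat_lit 3538414125) (nat_lit 75) (nat_lit 5) (nat_lit 84) (nat_lit 5) (nat_lit 85) (nat_lit 5) (nat_lit 279) (nat_lit 274) (nat_lit 167)))) (XT.nd (nat_lit 156) (nat_lit 760) (nat_lit 0) (XT.nd (nat_lit 78) (nat_lit 608) (nat_lit 0) (XT.lf (nat_lit 76) (nat_lit 29328617331) (nat_lit 0) (nat_lit 23128911861) (nat_lit 760) (nat_lit 19301872488) (nat_lit 76) (nat_lit 5) (nat_lit 75) (nat_lit 5) (nat_lit 85) (nat_lit 5) (nat_lit 280) (nat_lit 274) (nat_lit 166)) (XT.lf (nat_lit 0) (nat_lit 8967268855) (nat_lit 684) (nat_lit 52809697910) (nat_lit 760) (nat_lit 13166680922) (nat_lit 67) (nat_lit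 5) (nat_lit 76) (nat_lit 5) (nat_lit 77) (nat_lit 5) (nat_lit 281) (nat_lit 274) (nat_lit 165))) (XT.nd (nat_lit 78) (nat_lit 760) (nat_lit 0) (XT.lf (nat_lit 0) (nat_lit 65587748069) (nat_lit 684) (nat_lit 7375097084) (nat_lit 760) (nat_lit 5363750066) (nat_lit 67) (nat_lit 5) (nat_lit 76) (nat_lit 5) (nat_lit 77) (nat_lit 5) (nat_lit 282) (nat_lit 274) (nat_lit 164)) (XT.nd (nat_lit 78) (nat_lit 380) (nat_lit 0) (XT.lf (nat_lit 0) (nat_lit 4348211412) (nat_lit 380) (nat_lit 36418943586) (nat_lit 76) (nat_lit 41141495314) (nat_lit 62) (nat_lit 5) (nat_lit 67) (nat_lit 5) (nat_lit 63) (nat_lit 5) (nat_lit 283) (nat_lit 274) (nat_lit 163)) (XT.lf (nat_lit 0) (nat_lit 15496902160) (nat_lit 456) (nat_lit 62264927304) (nat_lit 76) (nat_lit 7968664238) (nat_lit 57) (nat_lit 5) (nat_lit 63) (nat_lit 5) (nat_lit 58) (nat_lit 5) (nat_lit 284) (nat_lit 274) (nat_lit 162))))))) (XT.nd (nat_lit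 702) (nat_lit 1140) (nat_lit 0) (XT.nd (nat_lit 312) (nat_lit 836) (nat_lit 0) (XT.nd (nat_lit 156) (nat_lit 532) (nat_lit 0) (XT.nd (nat_lit 78) (nat_lit 304) (nat_lit 0) (XT.lf (nat_lit 0) (nat_lit 28868078223) (nat_lit 456) (nat_lit 1084516915) (nat_lit 76) (nat_lit 59838964562) (nat_lit 57) (nat_lit 5) (nat_lit 63) (nat_lit 5) (nat_lit 58) (nat_lit 5) (nat_lit 285) (nat_lit 274) (nat_lit 161)) (XT.lf (nat_lit 0) (nat_lit 44711350308) (nat_lit 380) (nat_lit 27343285291) (nat_lit 76) (nat_lit 22052759578) (nat_lit 53) (nat_lit 5) (nat_lit 58) (nat_lit 5) (nat_lit 54) (nat_lit 5) (nat_lit 286) (nat_lit 274) (nat_lit 160))) (XT.nd (nat_lit 78) (nat_lit 228) (nat_lit 0) (XT.lf (nat_lit 0) (nat_lit 42154060556) (nat_lit 304) (nat_lit 20849015673) (nat_lit 380) (nat_lit 35706375636) (nat_lit 49) (nat_lit 5) (nat_lit 53) (nat_lit 5) (nat_lit 54) (nat_lit 5) (nat_lit 287) (nat_lit 274) (nat_lit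 159)) (XT.lf (nat_lit 0) (nat_lit 14446860541) (nat_lit 228) (nat_lit 69557525432) (nat_lit 304) (nat_lit 19612978509) (nat_lit 46) (nat_lit 5) (nat_lit 49) (nat_lit 5) (nat_lit 50) (nat_lit 5) (nat_lit 288) (nat_lit 274) (nat_lit 158)))) (XT.nd (nat_lit 156) (nat_lit 456) (nat_lit 0) (XT.nd (nat_lit 78) (nat_lit 380) (nat_lit 0) (XT.lf (nat_lit 0) (nat_lit 92784190817) (nat_lit 228) (nat_lit 15231395882) (nat_lit 304) (nat_lit 835837510) (nat_lit 46) (nat_lit 5) (nat_lit 49) (nat_lit 5) (nat_lit 50) (nat_lit 5) (nat_lit 289) (nat_lit 274) (nat_lit 157)) (XT.lf (nat_lit 0) (nat_lit 20529074289) (nat_lit 380) (nat_lit 50489922807) (nat_lit 76) (nat_lit 43384640660) (nat_lit 41) (nat_lit 5) (nat_lit 46) (nat_lit 5) (nat_lit 42) (nat_lit 5) (nat_lit 290) (nat_lit 274) (nat_lit 156))) (XT.nd (nat_lit 78) (nat_lit 228) (nat_lit 0) (XT.lf (nat_lit 0) (nat_lit 31202603952) (nat_lit 228) (nat_lit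 13399019894) (nat_lit 304) (nat_lit 75746335789) (nat_lit 38) (nat_lit 5) (nat_lit 41) (nat_lit 5) (nat_lit 42) (nat_lit 5) (nat_lit 291) (nat_lit 274) (nat_lit 155)) (XT.nd (nat_lit 78) (nat_lit 228) (nat_lit 0) (XT.lf (nat_lit 0) (nat_lit 72255214905) (nat_lit 304) (nat_lit 6268552964) (nat_lit 76) (nat_lit 48161300095) (nat_lit 38) (nat_lit 5) (nat_lit 42) (nat_lit 5) (nat_lit 39) (nat_lit 5) (nat_lit 292) (nat_lit 274) (nat_lit 154)) (XT.lf (nat_lit 0) (nat_lit 85755877679) (nat_lit 228) (nat_lit 17929051706) (nat_lit 304) (nat_lit 29766026155) (nat_lit 35) (nat_lit 5) (nat_lit 38) (nat_lit 5) (nat_lit 39) (nat_lit 5) (nat_lit 293) (nat_lit 274) (nat_lit 153)))))) (XT.nd (nat_lit 390) (nat_lit 532) (nat_lit 0) (XT.nd (nat_lit 156) (nat_lit 380) (nat_lit 0) (XT.nd (nat_lit 78) (nat_lit 76) (nat_lit 0) (XT.lf (nat_lit 0) (nat_lit 45319049066) (nat_lit 152) (nat_lit 93869391475) (nat_lit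 228) (nat_lit 1491704814) (nat_lit 33) (nat_lit 5) (nat_lit 35) (nat_lit 5) (nat_lit 36) (nat_lit 5) (nat_lit 294) (nat_lit 274) (nat_lit 152)) (XT.lf (nat_lit 0) (nat_lit 29260805484) (nat_lit 228) (nat_lit 1739321527) (nat_lit 76) (nat_lit 117407579411) (nat_lit 32) (nat_lit 5) (nat_lit 35) (nat_lit 5) (nat_lit 33) (nat_lit 5) (nat_lit 295) (nat_lit 274) (nat_lit 151))) (XT.nd (nat_lit 78) (nat_lit 152) (nat_lit 0) (XT.lf (nat_lit 0) (nat_lit 64626236336) (nat_lit 304) (nat_lit 54644218677) (nat_lit 76) (nat_lit 37371547368) (nat_lit 29) (nat_lit 5) (nat_lit 33) (nat_lit 5) (nat_lit 30) (nat_lit 5) (nat_lit 296) (nat_lit 274) (nat_lit 150)) (XT.nd (nat_lit 78) (nat_lit 0) (nat_lit 0) (XT.lf (nat_lit 0) (nat_lit 49626419389) (nat_lit 152) (nat_lit 54522005794) (nat_lit 228) (nat_lit 61320242327) (nat_lit 27) (nat_lit 5) (nat_lit 29) (nat_lit 5) (nat_lit 30) (nat_lit 5) (nat_lit 297)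 (nat_lit 274) (nat_lit 149)) (XT.lf (nat_lit 0) (nat_lit 148039635269) (nat_lit 228) (nat_lit 11021121421) (nat_lit 76) (nat_lit 15880348401) (nat_lit 27) (nat_lit 5) (nat_lit 30) (nat_lit 5) (nat_lit 28) (nat_lit 5) (nat_lit 298) (nat_lit 274) (nat_lit 148))))) (XT.nd (nat_lit 156) (nat_lit 152) (nat_lit 0) (XT.nd (nat_lit 78) (nat_lit 152) (nat_lit 0) (XT.lf (nat_lit 0) (nat_lit 12535855500) (nat_lit 228) (nat_lit 80632350053) (nat_lit 76) (nat_lit 91865426642) (nat_lit 24) (nat_lit 5) (nat_lit 27) (nat_lit 5) (nat_lit 25) (nat_lit 5) (nat_lit 299) (nat_lit 274) (nat_lit 147)) (XT.lf (nat_lit 0) (nat_lit 34162703402) (nat_lit 152) (nat_lit 20763390206) (nat_lit 228) (nat_lit 140948397576) (nat_lit 22) (nat_lit 5) (nat_lit 24) (nat_lit 5) (nat_lit 25) (nat_lit 5) (nat_lit 300) (nat_lit 274) (nat_lit 146))) (XT.nd (nat_lit 78) (nat_lit 152) (nat_lit 0) (XT.lf (nat_lit 0) (nat_lit 103031191562)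 (nat_lit 228) (nat_lit 47412423256) (nat_lit 76) (nat_lit 57022823204) (nat_lit 22) (nat_lit 5) (nat_lit 25) (nat_lit 5) (nat_lit 23) (nat_lit 5) (nat_lit 301) (nat_lit 274) (nat_lit 145)) (XT.nd (nat_lit 78) (nat_lit 0) (nat_lit 0) (XT.lf (nat_lit 0) (nat_lit 78182154012) (nat_lit 152) (nat_lit 78372691696) (nat_lit 228) (nat_lit 63352388565) (nat_lit 20) (nat_lit 5) (nat_lit 22) (nat_lit 5) (nat_lit 23) (nat_lit 5) (nat_lit 302) (nat_lit 274) (nat_lit 144)) (XT.lf (nat_lit 0) (nat_lit 215190877821) (nat_lit 228) (nat_lit 17790717328) (nat_lit 76) (nat_lit 320175795) (nat_lit 20) (nat_lit 5) (nat_lit 23) (nat_lit 5) (nat_lit 21) (nat_lit 4) (nat_lit 303) (nat_lit 274) (nat_lit 143))))))))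
noncomputable def xc109 : XT := (XT.nd (nat_lit 35490) (nat_lit 0) (nat_lit 1824) (XT.nd (nat_lit 702) (nat_lit 228) (nat_lit 0) (XT.nd (nat_lit 312) (nat_lit 304) (nat_lit 0) (XT.nd (nat_lit 156) (nat_lit 76) (nat_lit 0) (XT.nd (nat_lit 78) (nat_lit 152) (nat_lit 0) (XT.lf (nat_lit 0) (nat_lit 32989277320) (nat_lit 152) (nat_lit 129611659320) (nat_lit 76) (nat_lit 84981752926) (nat_lit 18) (nat_lit 5) (nat_lit 20) (nat_lit 5) (nat_lit 19) (nat_lit 5) (nat_lit 304) (nat_lit 274) (nat_lit 142)) (XT.lf (nat_lit 0) (nat_lit 1990848233) (nat_lit 152) (nat_lit 85906127358) (nat_lit 228) (nat_lit 175076560327) (nat_lit 16) (nat_lit 5) (nat_lit 18) (nat_lit 5) (nat_lit 19) (nat_lit 5) (nat_lit 305) (nat_lit 274) (nat_lit 141))) (XT.nd (nat_lit 78) (nat_lit 76) (nat_lit 0) (XT.lf (nat_lit 0) (nat_lit 148749143350) (nat_lit 152) (nat_lit 705406515) (nat_lit 228) (nat_lit 130028237865) (nat_lit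 16) (nat_lit 5) (nat_lit 18) (nat_lit 5) (nat_lit 19) (nat_lit 5) (nat_lit 306) (nat_lit 274) (nat_lit 140)) (XT.lf (nat_lit 0) (nat_lit 8790276727) (nat_lit 76) (nat_lit 208708861162) (nat_lit 152) (nat_lit 79735522108) (nat_lit 15) (nat_lit 5) (nat_lit 16) (nat_lit 5) (nat_lit 17) (nat_lit 4) (nat_lit 307) (nat_lit 274) (nat_lit 139)))) (XT.nd (nat_lit 156) (nat_lit 228) (nat_lit 0) (XT.nd (nat_lit 78) (nat_lit 76) (nat_lit 0) (XT.lf (nat_lit 0) (nat_lit 164131550228) (nat_lit 76) (nat_lit 129144304241) (nat_lit 152) (nat_lit 23016400151) (nat_lit 15) (nat_lit 5) (nat_lit 16) (nat_lit 5) (nat_lit 17) (nat_lit 4) (nat_lit 308) (nat_lit 274) (nat_lit 138)) (XT.lf (nat_lit 0) (nat_lit 37015913017) (nat_lit 152) (nat_lit 5572058661) (nat_lit 76) (nat_lit 294256654417) (nat_lit 14) (nat_lit 5) (nat_lit 16) (nat_lit 5) (nat_lit 15) (nat_lit 5) (nat_lit 309) (nat_lit 274) (nat_lit 137))) (XT.nd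 (nat_lit 78) (nat_lit 76) (nat_lit 0) (XT.lf (nat_lit 0) (nat_lit 104353388554) (nat_lit 228) (nat_lit 202347674087) (nat_lit 76) (nat_lit 52155811284) (nat_lit 12) (nat_lit 5) (nat_lit 15) (nat_lit 5) (nat_lit 13) (nat_lit 4) (nat_lit 310) (nat_lit 274) (nat_lit 136)) (XT.nd (nat_lit 78) (nat_lit 76) (nat_lit 0) (XT.lf (nat_lit 0) (nat_lit 177894259603) (nat_lit 228) (nat_lit 51589641057) (nat_lit 76) (nat_lit 153105381539) (nat_lit 12) (nat_lit 5) (nat_lit 15) (nat_lit 5) (nat_lit 13) (nat_lit 4) (nat_lit 311) (nat_lit 274) (nat_lit 135)) (XT.lf (nat_lit 0) (nat_lit 114906170197) (nat_lit 76) (nat_lit 144205898247) (nat_lit 152) (nat_lit 149018531741) (nat_lit 11) (nat_lit 5) (nat_lit 12) (nat_lit 5) (nat_lit 13) (nat_lit 4) (nat_lit 312) (nat_lit 274) (nat_lit 134)))))) (XT.nd (nat_lit 312) (nat_lit 76) (nat_lit 0) (XT.nd (nat_lit 156) (nat_lit 76) (nat_lit 0) (XT.nd (nat_lit 78) (nat_lit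 76) (nat_lit 0) (XT.lf (nat_lit 0) (nat_lit 296563341509) (nat_lit 76) (nat_lit 51162295990) (nat_lit 152) (nat_lit 87944669756) (nat_lit 11) (nat_lit 5) (nat_lit 12) (nat_lit 5) (nat_lit 13) (nat_lit 4) (nat_lit 313) (nat_lit 274) (nat_lit 133)) (XT.lf (nat_lit 0) (nat_lit 27447772277) (nat_lit 76) (nat_lit 417178852526) (nat_lit 76) (nat_lit 20726649841) (nat_lit 10) (nat_lit 4) (nat_lit 11) (nat_lit 5) (nat_lit 11) (nat_lit 4) (nat_lit 314) (nat_lit 274) (nat_lit 132))) (XT.nd (nat_lit 78) (nat_lit 0) (nat_lit 0) (XT.lf (nat_lit 0) (nat_lit 53533960240) (nat_lit 152) (nat_lit 286708111047) (nat_lit 76) (nat_lit 156962053883) (nat_lit 9) (nat_lit 5) (nat_lit 11) (nat_lit 5) (nat_lit 10) (nat_lit 4) (nat_lit 315) (nat_lit 274) (nat_lit 131)) (XT.lf (nat_lit 0) (nat_lit 133018695277) (nat_lit 152) (nat_lit 123764892051) (nat_lit 76) (nat_lit 274801995821) (nat_lit 9) (nat_lit 5) (nat_lit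 11) (nat_lit 5) (nat_lit 10) (nat_lit 4) (nat_lit 316) (nat_lit 274) (nat_lit 130)))) (XT.nd (nat_lit 34242) (nat_lit 0) (nat_lit 4864) (XT.nd (nat_lit 78) (nat_lit 0) (nat_lit 0) (XT.lf (nat_lit 0) (nat_lit 53939754150) (nat_lit 76) (nat_lit 165764354734) (nat_lit 152) (nat_lit 348971354189) (nat_lit 8) (nat_lit 5) (nat_lit 9) (nat_lit 5) (nat_lit 10) (nat_lit 4) (nat_lit 317) (nat_lit 274) (nat_lit 129)) (XT.lf (nat_lit 0) (nat_lit 250279956202) (nat_lit 76) (nat_lit 65200065017) (nat_lit 152) (nat_lit 293144729162) (nat_lit 8) (nat_lit 5) (nat_lit 9) (nat_lit 5) (nat_lit 10) (nat_lit 4) (nat_lit 318) (nat_lit 274) (nat_lit 128))) (XT.nd (nat_lit 78) (nat_lit 0) (nat_lit 0) (XT.lf (nat_lit 0) (nat_lit 7036987779) (nat_lit 0) (nat_lit 7036987779) (nat_lit 684) (nat_lit 16276492108) (nat_lit 72) (nat_lit 5) (nat_lit 72) (nat_lit 3) (nat_lit 81) (nat_lit 3) (nat_lit 275) (nat_lit 275)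 (nat_lit 170)) (XT.nd (nat_lit 78) (nat_lit 0) (nat_lit 76) (XT.lf (nat_lit 0) (nat_lit 29746391752) (nat_lit 684) (nat_lit 5645713082) (nat_lit 760) (nat_lit 27713158350) (nat_lit 72) (nat_lit 5) (nat_lit 81) (nat_lit 3) (nat_lit 82) (nat_lit 5) (nat_lit 276) (nat_lit 275) (nat_lit 169)) (XT.lf (nat_lit 0) (nat_lit 32440691804) (nat_lit 684) (nat_lit 26129361539) (nat_lit 760) (nat_lit 7083493060) (nat_lit 73) (nat_lit 5) (nat_lit 82) (nat_lit 5) (nat_lit 83) (nat_lit 5) (nat_lit 277) (nat_lit 275) (nat_lit 168))))))) (XT.nd (nat_lit 702) (nat_lit 1900) (nat_lit 0) (XT.nd (nat_lit 312) (nat_lit 1216) (nat_lit 0) (XT.nd (nat_lit 156) (nat_lit 0) (nat_lit 152) (XT.nd (nat_lit 78) (nat_lit 0) (nat_lit 76) (XT.lf (nat_lit 76) (nat_lit 20153648162) (nat_lit 0) (nat_lit 16205922084) (nat_lit 760) (nat_lit 31995678041) (nat_lit 74) (nat_lit 5) (nat_lit 73) (nat_lit 5) (nat_lit 83) (nat_lit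 5) (nat_lit 278) (nat_lit 275) (nat_lit 167)) (XT.lf (nat_lit 0) (nat_lit 41513704458) (nat_lit 684) (nat_lit 648313277) (nat_lit 760) (nat_lit 29064988472) (nat_lit 74) (nat_lit 5) (nat_lit 83) (nat_lit 5) (nat_lit 84) (nat_lit 5) (nat_lit 279) (nat_lit 275) (nat_lit 166))) (XT.nd (nat_lit 78) (nat_lit 0) (nat_lit 0) (XT.lf (nat_lit 0) (nat_lit 48226334907) (nat_lit 684) (nat_lit 22233639567) (nat_lit 760) (nat_lit 3811228636) (nat_lit 75) (nat_lit 5) (nat_lit 84) (nat_lit 5) (nat_lit 85) (nat_lit 5) (nat_lit 280) (nat_lit 275) (nat_lit 165)) (XT.lf (nat_lit 76) (nat_lit 31705237396) (nat_lit 0) (nat_lit 24986261896) (nat_lit 760) (nat_lit 20806666434) (nat_lit 76) (nat_lit 5) (nat_lit 75) (nat_lit 5) (nat_lit 85) (nat_lit 5) (nat_lit 281) (nat_lit 275) (nat_lit 164)))) (XT.nd (nat_lit 156) (nat_lit 760) (nat_lit 0) (XT.nd (nat_lit 78) (nat_lit 0) (nat_lit 0) (XT.lf (nat_lit 0) (nat_lit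 9715669690) (nat_lit 684) (nat_lit 57038436767) (nat_lit 760) (nat_lit 14183173094) (nat_lit 67) (nat_lit 5) (nat_lit 76) (nat_lit 5) (nat_lit 77) (nat_lit 5) (nat_lit 282) (nat_lit 275) (nat_lit 163)) (XT.lf (nat_lit 0) (nat_lit 70863489513) (nat_lit 684) (nat_lit 7968774318) (nat_lit 760) (nat_lit 5758736829) (nat_lit 67) (nat_lit 5) (nat_lit 76) (nat_lit 5) (nat_lit 77) (nat_lit 5) (nat_lit 283) (nat_lit 275) (nat_lit 162))) (XT.nd (nat_lit 78) (nat_lit 380) (nat_lit 0) (XT.lf (nat_lit 0) (nat_lit 4727052763) (nat_lit 380) (nat_lit 39302168563) (nat_lit 76) (nat_lit 44430481291) (nat_lit 62) (nat_lit 5) (nat_lit 67) (nat_lit 5) (nat_lit 63) (nat_lit 5) (nat_lit 284) (nat_lit 275) (nat_lit 161)) (XT.nd (nat_lit 78) (nat_lit 0) (nat_lit 0) (XT.lf (nat_lit 0) (nat_lit 16765793379) (nat_lit 456) (nat_lit 67215603875) (nat_lit 76) (nat_lit 8605995198) (nat_lit 57) (nat_lit 5) (nat_lit 63)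 (nat_lit 5) (nat_lit 58) (nat_lit 5) (nat_lit 285) (nat_lit 275) (nat_lit 160)) (XT.lf (nat_lit 0) (nat_lit 31204505079) (nat_lit 456) (nat_lit 1143021219) (nat_lit 76) (nat_lit 64625931562) (nat_lit 57) (nat_lit 5) (nat_lit 63) (nat_lit 5) (nat_lit 58) (nat_lit 5) (nat_lit 286) (nat_lit 275) (nat_lit 159)))))) (XT.nd (nat_lit 390) (nat_lit 684) (nat_lit 0) (XT.nd (nat_lit 156) (nat_lit 608) (nat_lit 0) (XT.nd (nat_lit 78) (nat_lit 304) (nat_lit 0) (XT.lf (nat_lit 0) (nat_lit 48313687738) (nat_lit 380) (nat_lit 29502402412) (nat_lit 76) (nat_lit 23818553332) (nat_lit 53) (nat_lit 5) (nat_lit 58) (nat_lit 5) (nat_lit 54) (nat_lit 5) (nat_lit 287) (nat_lit 275) (nat_lit 158)) (XT.lf (nat_lit 0) (nat_lit 45553499233) (nat_lit 304) (nat_lit 22513792162) (nat_lit 380) (nat_lit 38537651647) (nat_lit 49) (nat_lit 5) (nat_lit 53) (nat_lit 5) (nat_lit 54) (nat_lit 5) (nat_lit 288) (nat_lit 275)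 (nat_lit 157))) (XT.nd (nat_lit 78) (nat_lit 380) (nat_lit 0) (XT.lf (nat_lit 0) (nat_lit 15629707916) (nat_lit 228) (nat_lit 75117691063) (nat_lit 304) (nat_lit 21158159966) (nat_lit 46) (nat_lit 5) (nat_lit 49) (nat_lit 5) (nat_lit 50) (nat_lit 5) (nat_lit 289) (nat_lit 275) (nat_lit 156)) (XT.nd (nat_lit 78) (nat_lit 380) (nat_lit 0) (XT.lf (nat_lit 0) (nat_lit 100232017315) (nat_lit 228) (nat_lit 16445799772) (nat_lit 304) (nat_lit 880614858) (nat_lit 46) (nat_lit 5) (nat_lit 49) (nat_lit 5) (nat_lit 50) (nat_lit 5) (nat_lit 290) (nat_lit 275) (nat_lit 155)) (XT.lf (nat_lit 0) (nat_lit 22191656015) (nat_lit 380) (nat_lit 54503399016) (nat_lit 76) (nat_lit 46859810667) (nat_lit 41) (nat_lit 5) (nat_lit 46) (nat_lit 5) (nat_lit 42) (nat_lit 5) (nat_lit 291) (nat_lit 275) (nat_lit 154))))) (XT.nd (nat_lit 156) (nat_lit 456) (nat_lit 0) (XT.nd (nat_lit 78) (nat_lit 0) (nat_lit 0) (XT.lf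 (nat_lit 0) (nat_lit 33723412227) (nat_lit 228) (nat_lit 14465480955) (nat_lit 304) (nat_lit 81785899687) (nat_lit 38) (nat_lit 5) (nat_lit 41) (nat_lit 5) (nat_lit 42) (nat_lit 5) (nat_lit 292) (nat_lit 275) (nat_lit 153)) (XT.lf (nat_lit 0) (nat_lit 78053432729) (nat_lit 304) (nat_lit 6746409201) (nat_lit 76) (nat_lit 52019098324) (nat_lit 38) (nat_lit 5) (nat_lit 42) (nat_lit 5) (nat_lit 39) (nat_lit 5) (nat_lit 293) (nat_lit 275) (nat_lit 152))) (XT.nd (nat_lit 78) (nat_lit 228) (nat_lit 0) (XT.lf (nat_lit 0) (nat_lit 92638949050) (nat_lit 228) (nat_lit 19357609620) (nat_lit 304) (nat_lit 32129591645) (nat_lit 35) (nat_lit 5) (nat_lit 38) (nat_lit 5) (nat_lit 39) (nat_lit 5) (nat_lit 294) (nat_lit 275) (nat_lit 151)) (XT.nd (nat_lit 78) (nat_lit 76) (nat_lit 0) (XT.lf (nat_lit 0) (nat_lit 48966949167) (nat_lit 152) (nat_lit 101372587232) (nat_lit 228) (nat_lit 1594182589) (nat_lit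 33) (nat_lit 5) (nat_lit 35) (nat_lit 5) (nat_lit 36) (nat_lit 5) (nat_lit 295) (nat_lit 275) (nat_lit 150)) (XT.lf (nat_lit 0) (nat_lit 31616780135) (nat_lit 228) (nat_lit 1857216360) (nat_lit 76) (nat_lit 126805538334) (nat_lit 32) (nat_lit 5) (nat_lit 35) (nat_lit 5) (nat_lit 33) (nat_lit 5) (nat_lit 296) (nat_lit 275) (nat_lit 149))))))))
noncomputable def xc110 : XT := (XT.nd (nat_lit 1404) (nat_lit 152) (nat_lit 0) (XT.nd (nat_lit 702) (nat_lit 532) (nat_lit 0) (XT.nd (nat_lit 312) (nat_lit 456) (nat_lit 0) (XT.nd (nat_lit 156) (nat_lit 228) (nat_lit 0) (XT.nd (nat_lit 78) (nat_lit 152) (nat_lit 0) (XT.lf (nat_lit 0) (nat_lit 69810737522) (nat_lit 304) (nat_lit 58994777197) (nat_lit 76) (nat_lit 40367097557) (nat_lit 29) (nat_lit 5) (nat_lit 33) (nat_lit 5) (nat_lit 30) (nat_lit 5) (nat_lit 297) (nat_lit 275) (nat_lit 148)) (XT.lf (nat_lit 0) (nat_lit 53616600195) (nat_lit 152)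 (nat_lit 58877347753) (nat_lit 228) (nat_lit 66211502580) (nat_lit 27) (nat_lit 5) (nat_lit 29) (nat_lit 5) (nat_lit 30) (nat_lit 5) (nat_lit 298) (nat_lit 275) (nat_lit 147))) (XT.nd (nat_lit 78) (nat_lit 228) (nat_lit 0) (XT.lf (nat_lit 0) (nat_lit 159895536609) (nat_lit 228) (nat_lit 11883665369) (nat_lit 76) (nat_lit 17156529119) (nat_lit 27) (nat_lit 5) (nat_lit 30) (nat_lit 5) (nat_lit 28) (nat_lit 5) (nat_lit 299) (nat_lit 275) (nat_lit 146)) (XT.lf (nat_lit 0) (nat_lit 13551018504) (nat_lit 228) (nat_lit 87064195011) (nat_lit 76) (nat_lit 99220471710) (nat_lit 24) (nat_lit 5) (nat_lit 27) (nat_lit 5) (nat_lit 25) (nat_lit 5) (nat_lit 300) (nat_lit 275) (nat_lit 145)))) (XT.nd (nat_lit 156) (nat_lit 304) (nat_lit 0) (XT.nd (nat_lit 78) (nat_lit 0) (nat_lit 0) (XT.lf (nat_lit 0) (nat_lit 36913648170) (nat_lit 152) (nat_lit 22418196696) (nat_lit 228) (nat_lit 152212001297) (nat_lit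 22) (nat_lit 5) (nat_lit 24) (nat_lit 5) (nat_lit 25) (nat_lit 5) (nat_lit 301) (nat_lit 275) (nat_lit 144)) (XT.lf (nat_lit 0) (nat_lit 111284577239) (nat_lit 228) (nat_lit 51188347669) (nat_lit 76) (nat_lit 61590264076) (nat_lit 22) (nat_lit 5) (nat_lit 25) (nat_lit 5) (nat_lit 23) (nat_lit 5) (nat_lit 302) (nat_lit 275) (nat_lit 143))) (XT.nd (nat_lit 78) (nat_lit 152) (nat_lit 0) (XT.lf (nat_lit 0) (nat_lit 84453053963) (nat_lit 152) (nat_lit 84636517981) (nat_lit 228) (nat_lit 68409706029) (nat_lit 20) (nat_lit 5) (nat_lit 22) (nat_lit 5) (nat_lit 23) (nat_lit 5) (nat_lit 303) (nat_lit 275) (nat_lit 142)) (XT.nd (nat_lit 78) (nat_lit 152) (nat_lit 0) (XT.lf (nat_lit 0) (nat_lit 232415807384) (nat_lit 228) (nat_lit 19198447708) (nat_lit 76) (nat_lit 351157789) (nat_lit 20) (nat_lit 5) (nat_lit 23) (nat_lit 5) (nat_lit 21) (nat_lit 4) (nat_lit 304) (nat_lit 275) (nat_lit 141)) (XT.lf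 (nat_lit 0) (nat_lit 35637760676) (nat_lit 152) (nat_lit 139965416192) (nat_lit 76) (nat_lit 91785646014) (nat_lit 18) (nat_lit 5) (nat_lit 20) (nat_lit 5) (nat_lit 19) (nat_lit 5) (nat_lit 305) (nat_lit 275) (nat_lit 140)))))) (XT.nd (nat_lit 312) (nat_lit 304) (nat_lit 0) (XT.nd (nat_lit 156) (nat_lit 76) (nat_lit 0) (XT.nd (nat_lit 78) (nat_lit 0) (nat_lit 0) (XT.lf (nat_lit 0) (nat_lit 2164632440) (nat_lit 152) (nat_lit 92772977070) (nat_lit 228) (nat_lit 189073351792) (nat_lit 16) (nat_lit 5) (nat_lit 18) (nat_lit 5) (nat_lit 19) (nat_lit 5) (nat_lit 306) (nat_lit 275) (nat_lit 139)) (XT.lf (nat_lit 0) (nat_lit 160662515881) (nat_lit 152) (nat_lit 756616373) (nat_lit 228) (nat_lit 140421854893) (nat_lit 16) (nat_lit 5) (nat_lit 18) (nat_lit 5) (nat_lit 19) (nat_lit 5) (nat_lit 307) (nat_lit 275) (nat_lit 138))) (XT.nd (nat_lit 78) (nat_lit 0) (nat_lit 0) (XT.lf (nat_lit 0) (nat_lit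 9506682991) (nat_lit 76) (nat_lit 225400276901) (nat_lit 152) (nat_lit 86106066616) (nat_lit 15) (nat_lit 5) (nat_lit 16) (nat_lit 5) (nat_lit 17) (nat_lit 4) (nat_lit 308) (nat_lit 275) (nat_lit 137)) (XT.lf (nat_lit 0) (nat_lit 177274281770) (nat_lit 76) (nat_lit 139470947512) (nat_lit 152) (nat_lit 24850029514) (nat_lit 15) (nat_lit 5) (nat_lit 16) (nat_lit 5) (nat_lit 17) (nat_lit 4) (nat_lit 309) (nat_lit 275) (nat_lit 136)))) (XT.nd (nat_lit 156) (nat_lit 76) (nat_lit 0) (XT.nd (nat_lit 78) (nat_lit 152) (nat_lit 0) (XT.lf (nat_lit 0) (nat_lit 39984071945) (nat_lit 152) (nat_lit 6006282826) (nat_lit 76) (nat_lit 317801487531) (nat_lit 14) (nat_lit 5) (nat_lit 16) (nat_lit 5) (nat_lit 15) (nat_lit 5) (nat_lit 310) (nat_lit 275) (nat_lit 135)) (XT.lf (nat_lit 0) (nat_lit 112708277922) (nat_lit 228) (nat_lit 218524182853) (nat_lit 76) (nat_lit 56332623274) (nat_lit 12) (nat_lit 5)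 (nat_lit 15) (nat_lit 5) (nat_lit 13) (nat_lit 4) (nat_lit 311) (nat_lit 275) (nat_lit 134))) (XT.nd (nat_lit 78) (nat_lit 76) (nat_lit 0) (XT.lf (nat_lit 0) (nat_lit 192131928412) (nat_lit 228) (nat_lit 55706344600) (nat_lit 76) (nat_lit 165357837142) (nat_lit 12) (nat_lit 5) (nat_lit 15) (nat_lit 5) (nat_lit 13) (nat_lit 4) (nat_lit 312) (nat_lit 275) (nat_lit 133)) (XT.nd (nat_lit 78) (nat_lit 0) (nat_lit 0) (XT.lf (nat_lit 0) (nat_lit 124108676639) (nat_lit 76) (nat_lit 155738187721) (nat_lit 152) (nat_lit 160933884708) (nat_lit 11) (nat_lit 5) (nat_lit 12) (nat_lit 5) (nat_lit 13) (nat_lit 4) (nat_lit 313) (nat_lit 275) (nat_lit 132)) (XT.lf (nat_lit 0) (nat_lit 320297679966) (nat_lit 76) (nat_lit 55251407089) (nat_lit 152) (nat_lit 94974567806) (nat_lit 11) (nat_lit 5) (nat_lit 12) (nat_lit 5) (nat_lit 13) (nat_lit 4) (nat_lit 314) (nat_lit 275) (nat_lit 131))))))) (XT.nd (nat_lit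 34944) (nat_lit 0) (nat_lit 2812) (XT.nd (nat_lit 34554) (nat_lit 0) (nat_lit 4788) (XT.nd (nat_lit 156) (nat_lit 0) (nat_lit 0) (XT.nd (nat_lit 78) (nat_lit 76) (nat_lit 0) (XT.lf (nat_lit 0) (nat_lit 29652669386) (nat_lit 76) (nat_lit 450549281739) (nat_lit 76) (nat_lit 22379319150) (nat_lit 10) (nat_lit 4) (nat_lit 11) (nat_lit 5) (nat_lit 11) (nat_lit 4) (nat_lit 315) (nat_lit 275) (nat_lit 130)) (XT.lf (nat_lit 0) (nat_lit 57821573206) (nat_lit 152) (nat_lit 309636189208) (nat_lit 76) (nat_lit 169522442208) (nat_lit 9) (nat_lit 5) (nat_lit 11) (nat_lit 5) (nat_lit 10) (nat_lit 4) (nat_lit 316) (nat_lit 275) (nat_lit 129))) (XT.nd (nat_lit 34320) (nat_lit 0) (nat_lit 4788) (XT.lf (nat_lit 0) (nat_lit 143664724369) (nat_lit 152) (nat_lit 133658147561) (nat_lit 76) (nat_lit 296789325871) (nat_lit 9) (nat_lit 5) (nat_lit 11) (nat_lit 5) (nat_lit 10) (nat_lit 4) (nat_lit 317) (nat_lit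 275) (nat_lit 128)) (XT.lf (nat_lit 0) (nat_lit 7612407811) (nat_lit 0) (nat_lit 7612407811) (nat_lit 684) (nat_lit 17552361929) (nat_lit 72) (nat_lit 5) (nat_lit 72) (nat_lit 3) (nat_lit 81) (nat_lit 3) (nat_lit 276) (nat_lit 276) (nat_lit 168)))) (XT.nd (nat_lit 156) (nat_lit 0) (nat_lit 76) (XT.nd (nat_lit 78) (nat_lit 0) (nat_lit 76) (XT.lf (nat_lit 0) (nat_lit 32171894702) (nat_lit 684) (nat_lit 6071475521) (nat_lit 760) (nat_lit 29907873647) (nat_lit 72) (nat_lit 5) (nat_lit 81) (nat_lit 3) (nat_lit 82) (nat_lit 5) (nat_lit 277) (nat_lit 276) (nat_lit 167)) (XT.lf (nat_lit 0) (nat_lit 35078452207) (nat_lit 684) (nat_lit 28192380969) (nat_lit 760) (nat_lit 7632732067) (nat_lit 73) (nat_lit 5) (nat_lit 82) (nat_lit 5) (nat_lit 83) (nat_lit 5) (nat_lit 278) (nat_lit 276) (nat_lit 166))) (XT.nd (nat_lit 78) (nat_lit 0) (nat_lit 76) (XT.lf (nat_lit 76) (nat_lit 21792081802) (nat_lit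 0) (nat_lit 17516018748) (nat_lit 760) (nat_lit 34513450091) (nat_lit 74) (nat_lit 5) (nat_lit 73) (nat_lit 5) (nat_lit 83) (nat_lit 5) (nat_lit 279) (nat_lit 276) (nat_lit 165)) (XT.nd (nat_lit 78) (nat_lit 0) (nat_lit 76) (XT.lf (nat_lit 0) (nat_lit 44871423029) (nat_lit 684) (nat_lit 673815387) (nat_lit 760) (nat_lit 31377977477) (nat_lit 74) (nat_lit 5) (nat_lit 83) (nat_lit 5) (nat_lit 84) (nat_lit 5) (nat_lit 280) (nat_lit 276) (nat_lit 164)) (XT.lf (nat_lit 0) (nat_lit 52118603013) (nat_lit 684) (nat_lit 23985145633) (nat_lit 760) (nat_lit 4107331814) (nat_lit 75) (nat_lit 5) (nat_lit 84) (nat_lit 5) (nat_lit 85) (nat_lit 5) (nat_lit 281) (nat_lit 276) (nat_lit 163)))))) (XT.nd (nat_lit 390) (nat_lit 836) (nat_lit 0) (XT.nd (nat_lit 156) (nat_lit 760) (nat_lit 0) (XT.nd (nat_lit 78) (nat_lit 608) (nat_lit 0) (XT.lf (nat_lit 76) (nat_lit 34267660056) (nat_lit 0) (nat_lit 26991196015)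 (nat_lit 760) (nat_lit 22437458448) (nat_lit 76) (nat_lit 5) (nat_lit 75) (nat_lit 5) (nat_lit 85) (nat_lit 5) (nat_lit 282) (nat_lit 276) (nat_lit 162)) (XT.lf (nat_lit 0) (nat_lit 10519517338) (nat_lit 684) (nat_lit 61604909363) (nat_lit 760) (nat_lit 15286240606) (nat_lit 67) (nat_lit 5) (nat_lit 76) (nat_lit 5) (nat_lit 77) (nat_lit 5) (nat_lit 283) (nat_lit 276) (nat_lit 161))) (XT.nd (nat_lit 78) (nat_lit 760) (nat_lit 0) (XT.lf (nat_lit 0) (nat_lit 76557192816) (nat_lit 684) (nat_lit 8609422240) (nat_lit 760) (nat_lit 6190189168) (nat_lit 67) (nat_lit 5) (nat_lit 76) (nat_lit 5) (nat_lit 77) (nat_lit 5) (nat_lit 284) (nat_lit 276) (nat_lit 160)) (XT.nd (nat_lit 78) (nat_lit 380) (nat_lit 0) (XT.lf (nat_lit 0) (nat_lit 5131781145) (nat_lit 380) (nat_lit 42420372819) (nat_lit 76) (nat_lit 47982919068) (nat_lit 62) (nat_lit 5) (nat_lit 67) (nat_lit 5) (nat_lit 63) (nat_lit 5) (nat_lit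 285) (nat_lit 276) (nat_lit 159)) (XT.lf (nat_lit 0) (nat_lit 18132038885) (nat_lit 456) (nat_lit 72566688251) (nat_lit 76) (nat_lit 9294335772) (nat_lit 57) (nat_lit 5) (nat_lit 63) (nat_lit 5) (nat_lit 58) (nat_lit 5) (nat_lit 286) (nat_lit 276) (nat_lit 158))))) (XT.nd (nat_lit 156) (nat_lit 532) (nat_lit 0) (XT.nd (nat_lit 78) (nat_lit 304) (nat_lit 0) (XT.lf (nat_lit 0) (nat_lit 33723997000) (nat_lit 456) (nat_lit 1210237052) (nat_lit 76) (nat_lit 69795877344) (nat_lit 57) (nat_lit 5) (nat_lit 63) (nat_lit 5) (nat_lit 58) (nat_lit 5) (nat_lit 287) (nat_lit 276) (nat_lit 157)) (XT.lf (nat_lit 0) (nat_lit 52200584373) (nat_lit 380) (nat_lit 31838292733) (nat_lit 76) (nat_lit 25725386183) (nat_lit 53) (nat_lit 5) (nat_lit 58) (nat_lit 5) (nat_lit 54) (nat_lit 5) (nat_lit 288) (nat_lit 276) (nat_lit 156))) (XT.nd (nat_lit 78) (nat_lit 228) (nat_lit 0) (XT.lf (nat_lit 0) (nat_lit 49221024913)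 (nat_lit 304) (nat_lit 24312199407) (nat_lit 380) (nat_lit 41599029657) (nat_lit 49) (nat_lit 5) (nat_lit 53) (nat_lit 5) (nat_lit 54) (nat_lit 5) (nat_lit 289) (nat_lit 276) (nat_lit 155)) (XT.nd (nat_lit 78) (nat_lit 0) (nat_lit 0) (XT.lf (nat_lit 0) (nat_lit 16903317172) (nat_lit 228) (nat_lit 81123302847) (nat_lit 304) (nat_lit 22830359381) (nat_lit 46) (nat_lit 5) (nat_lit 49) (nat_lit 5) (nat_lit 50) (nat_lit 5) (nat_lit 290) (nat_lit 276) (nat_lit 154)) (XT.lf (nat_lit 0) (nat_lit 108272090387) (nat_lit 228) (nat_lit 17757941993) (nat_lit 304) (nat_lit 932125731) (nat_lit 46) (nat_lit 5) (nat_lit 49) (nat_lit 5) (nat_lit 50) (nat_lit 5) (nat_lit 291) (nat_lit 276) (nat_lit 153))))))))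
noncomputable def xc111 : XT := (XT.nd (nat_lit 1404) (nat_lit 456) (nat_lit 0) (XT.nd (nat_lit 702) (nat_lit 912) (nat_lit 0) (XT.nd (nat_lit 312) (nat_lit 608) (nat_lit 0) (XT.nd (nat_lit 156) (nat_lit 228) (nat_lit 0) (XT.nd (nat_lit 78) (nat_lit 228) (nat_lit 0) (XT.lf (nat_lit 0) (nat_lit 23984354566) (nat_lit 380) (nat_lit 58841622227) (nat_lit 76) (nat_lit 50612366743) (nat_lit 41) (nat_lit 5) (nat_lit 46) (nat_lit 5) (nat_lit 42) (nat_lit 5) (nat_lit 292) (nat_lit 276) (nat_lit 152)) (XT.lf (nat_lit 0) (nat_lit 36442375706) (nat_lit 228) (nat_lit 15618037907) (nat_lit 304) (nat_lit 88311502317) (nat_lit 38) (nat_lit 5) (nat_lit 41) (nat_lit 5) (nat_lit 42) (nat_lit 5) (nat_lit 293) (nat_lit 276) (nat_lit 151))) (XT.nd (nat_lit 78) (nat_lit 228) (nat_lit 0) (XT.lf (nat_lit 0) (nat_lit 84312968521) (nat_lit 304) (nat_lit 7265864734) (nat_lit 76) (nat_lit 56184822196) (nat_lit 38)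 (nat_lit 5) (nat_lit 42) (nat_lit 5) (nat_lit 39) (nat_lit 5) (nat_lit 294) (nat_lit 276) (nat_lit 150)) (XT.lf (nat_lit 0) (nat_lit 100069441823) (nat_lit 228) (nat_lit 20901274783) (nat_lit 304) (nat_lit 34684769845) (nat_lit 35) (nat_lit 5) (nat_lit 38) (nat_lit 5) (nat_lit 39) (nat_lit 5) (nat_lit 295) (nat_lit 276) (nat_lit 149)))) (XT.nd (nat_lit 156) (nat_lit 380) (nat_lit 0) (XT.nd (nat_lit 78) (nat_lit 76) (nat_lit 0) (XT.lf (nat_lit 0) (nat_lit 52903489065) (nat_lit 152) (nat_lit 109476945342) (nat_lit 228) (nat_lit 1707263655) (nat_lit 33) (nat_lit 5) (nat_lit 35) (nat_lit 5) (nat_lit 36) (nat_lit 5) (nat_lit 296) (nat_lit 276) (nat_lit 148)) (XT.lf (nat_lit 0) (nat_lit 34159077118) (nat_lit 228) (nat_lit 1987574456) (nat_lit 76) (nat_lit 136954570367) (nat_lit 32) (nat_lit 5) (nat_lit 35) (nat_lit 5) (nat_lit 33) (nat_lit 5) (nat_lit 297) (nat_lit 276) (nat_lit 147))) (XT.nd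 (nat_lit 78) (nat_lit 152) (nat_lit 0) (XT.lf (nat_lit 0) (nat_lit 75407944157) (nat_lit 304) (nat_lit 63696373283) (nat_lit 76) (nat_lit 43601460561) (nat_lit 29) (nat_lit 5) (nat_lit 33) (nat_lit 5) (nat_lit 30) (nat_lit 5) (nat_lit 298) (nat_lit 276) (nat_lit 146)) (XT.nd (nat_lit 78) (nat_lit 0) (nat_lit 0) (XT.lf (nat_lit 0) (nat_lit 57923132646) (nat_lit 152) (nat_lit 63582032740) (nat_lit 228) (nat_lit 71496112144) (nat_lit 27) (nat_lit 5) (nat_lit 29) (nat_lit 5) (nat_lit 30) (nat_lit 5) (nat_lit 299) (nat_lit 276) (nat_lit 145)) (XT.lf (nat_lit 0) (nat_lit 172698093906) (nat_lit 228) (nat_lit 12817944191) (nat_lit 76) (nat_lit 18533983585) (nat_lit 27) (nat_lit 5) (nat_lit 30) (nat_lit 5) (nat_lit 28) (nat_lit 5) (nat_lit 300) (nat_lit 276) (nat_lit 144)))))) (XT.nd (nat_lit 312) (nat_lit 380) (nat_lit 0) (XT.nd (nat_lit 156) (nat_lit 152) (nat_lit 0) (XT.nd (nat_lit 78) (nat_lit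 152) (nat_lit 0) (XT.lf (nat_lit 0) (nat_lit 14645640591) (nat_lit 228) (nat_lit 94013261471) (nat_lit 76) (nat_lit 107163091387) (nat_lit 24) (nat_lit 5) (nat_lit 27) (nat_lit 5) (nat_lit 25) (nat_lit 5) (nat_lit 301) (nat_lit 276) (nat_lit 143)) (XT.lf (nat_lit 0) (nat_lit 39882110820) (nat_lit 152) (nat_lit 24206281438) (nat_lit 228) (nat_lit 164378443494) (nat_lit 22) (nat_lit 5) (nat_lit 24) (nat_lit 5) (nat_lit 25) (nat_lit 5) (nat_lit 302) (nat_lit 276) (nat_lit 142))) (XT.nd (nat_lit 78) (nat_lit 152) (nat_lit 0) (XT.lf (nat_lit 0) (nat_lit 120196680139) (nat_lit 228) (nat_lit 55268781183) (nat_lit 76) (nat_lit 66522299173) (nat_lit 22) (nat_lit 5) (nat_lit 25) (nat_lit 5) (nat_lit 23) (nat_lit 5) (nat_lit 303) (nat_lit 276) (nat_lit 141)) (XT.lf (nat_lit 0) (nat_lit 91223296591) (nat_lit 152) (nat_lit 91402304773) (nat_lit 228) (nat_lit 73873160133) (nat_lit 20) (nat_lit 5) (nat_lit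 22) (nat_lit 5) (nat_lit 23) (nat_lit 5) (nat_lit 304) (nat_lit 276) (nat_lit 140)))) (XT.nd (nat_lit 156) (nat_lit 228) (nat_lit 0) (XT.nd (nat_lit 78) (nat_lit 152) (nat_lit 0) (XT.lf (nat_lit 0) (nat_lit 251017353300) (nat_lit 228) (nat_lit 20721011619) (nat_lit 76) (nat_lit 383852547) (nat_lit 20) (nat_lit 5) (nat_lit 23) (nat_lit 5) (nat_lit 21) (nat_lit 4) (nat_lit 305) (nat_lit 276) (nat_lit 139)) (XT.lf (nat_lit 0) (nat_lit 38496790078) (nat_lit 152) (nat_lit 151149638622) (nat_lit 76) (nat_lit 99133086905) (nat_lit 18) (nat_lit 5) (nat_lit 20) (nat_lit 5) (nat_lit 19) (nat_lit 5) (nat_lit 306) (nat_lit 276) (nat_lit 138))) (XT.nd (nat_lit 78) (nat_lit 76) (nat_lit 0) (XT.lf (nat_lit 0) (nat_lit 2350248464) (nat_lit 152) (nat_lit 100189979437) (nat_lit 228) (nat_lit 204191218083) (nat_lit 16) (nat_lit 5) (nat_lit 18) (nat_lit 5) (nat_lit 19) (nat_lit 5) (nat_lit 307) (nat_lit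 276) (nat_lit 137)) (XT.nd (nat_lit 78) (nat_lit 76) (nat_lit 0) (XT.lf (nat_lit 0) (nat_lit 173527040697) (nat_lit 152) (nat_lit 812668091) (nat_lit 228) (nat_lit 151648194162) (nat_lit 16) (nat_lit 5) (nat_lit 18) (nat_lit 5) (nat_lit 19) (nat_lit 5) (nat_lit 308) (nat_lit 276) (nat_lit 136)) (XT.lf (nat_lit 0) (nat_lit 10278520892) (nat_lit 76) (nat_lit 243427761026) (nat_lit 152) (nat_lit 92987438381) (nat_lit 15) (nat_lit 5) (nat_lit 16) (nat_lit 5) (nat_lit 17) (nat_lit 4) (nat_lit 309) (nat_lit 276) (nat_lit 135))))))) (XT.nd (nat_lit 35022) (nat_lit 0) (nat_lit 3648) (XT.nd (nat_lit 312) (nat_lit 228) (nat_lit 0) (XT.nd (nat_lit 156) (nat_lit 152) (nat_lit 0) (XT.nd (nat_lit 78) (nat_lit 76) (nat_lit 0) (XT.lf (nat_lit 0) (nat_lit 191466690295) (nat_lit 76) (nat_lit 150624421437) (nat_lit 152) (nat_lit 26831445242) (nat_lit 15) (nat_lit 5) (nat_lit 16) (nat_lit 5) (nat_lit 17)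 (nat_lit 4) (nat_lit 310) (nat_lit 276) (nat_lit 134)) (XT.lf (nat_lit 0) (nat_lit 43188701237) (nat_lit 152) (nat_lit 6476891310) (nat_lit 76) (nat_lit 343229293744) (nat_lit 14) (nat_lit 5) (nat_lit 16) (nat_lit 5) (nat_lit 15) (nat_lit 5) (nat_lit 311) (nat_lit 276) (nat_lit 133))) (XT.nd (nat_lit 78) (nat_lit 0) (nat_lit 0) (XT.lf (nat_lit 0) (nat_lit 121730614268) (nat_lit 228) (nat_lit 235996425127) (nat_lit 76) (nat_lit 60842960062) (nat_lit 12) (nat_lit 5) (nat_lit 15) (nat_lit 5) (nat_lit 13) (nat_lit 4) (nat_lit 312) (nat_lit 276) (nat_lit 132)) (XT.lf (nat_lit 0) (nat_lit 207507736492) (nat_lit 228) (nat_lit 60153877767) (nat_lit 76) (nat_lit 178589914971) (nat_lit 12) (nat_lit 5) (nat_lit 15) (nat_lit 5) (nat_lit 13) (nat_lit 4) (nat_lit 313) (nat_lit 276) (nat_lit 131)))) (XT.nd (nat_lit 156) (nat_lit 152) (nat_lit 0) (XT.nd (nat_lit 78) (nat_lit 0) (nat_lit 0) (XT.lf (nat_lit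 0) (nat_lit 134045955155) (nat_lit 76) (nat_lit 168193657016) (nat_lit 152) (nat_lit 173803340364) (nat_lit 11) (nat_lit 5) (nat_lit 12) (nat_lit 5) (nat_lit 13) (nat_lit 4) (nat_lit 314) (nat_lit 276) (nat_lit 130)) (XT.lf (nat_lit 0) (nat_lit 345929442868) (nat_lit 76) (nat_lit 59668199543) (nat_lit 152) (nat_lit 102567667379) (nat_lit 11) (nat_lit 5) (nat_lit 12) (nat_lit 5) (nat_lit 13) (nat_lit 4) (nat_lit 315) (nat_lit 276) (nat_lit 129))) (XT.nd (nat_lit 78) (nat_lit 76) (nat_lit 0) (XT.lf (nat_lit 0) (nat_lit 32032663567) (nat_lit 76) (nat_lit 486589898670) (nat_lit 76) (nat_lit 24164981315) (nat_lit 10) (nat_lit 4) (nat_lit 11) (nat_lit 5) (nat_lit 11) (nat_lit 4) (nat_lit 316) (nat_lit 276) (nat_lit 128)) (XT.nd (nat_lit 34398) (nat_lit 0) (nat_lit 4788) (XT.lf (nat_lit 0) (nat_lit 62451496720) (nat_lit 152) (nat_lit 334399736332) (nat_lit 76) (nat_lit 183087173125) (nat_lit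 9) (nat_lit 5) (nat_lit 11) (nat_lit 5) (nat_lit 10) (nat_lit 4) (nat_lit 317) (nat_lit 276) (nat_lit 127)) (XT.lf (nat_lit 0) (nat_lit 8232083744) (nat_lit 0) (nat_lit 8232083744) (nat_lit 684) (nat_lit 18934046128) (nat_lit 72) (nat_lit 5) (nat_lit 72) (nat_lit 3) (nat_lit 81) (nat_lit 3) (nat_lit 277) (nat_lit 277) (nat_lit 166)))))) (XT.nd (nat_lit 390) (nat_lit 1140) (nat_lit 0) (XT.nd (nat_lit 156) (nat_lit 0) (nat_lit 76) (XT.nd (nat_lit 78) (nat_lit 0) (nat_lit 76) (XT.lf (nat_lit 0) (nat_lit 34784905203) (nat_lit 684) (nat_lit 6534993110) (nat_lit 760) (nat_lit 32281352843) (nat_lit 72) (nat_lit 5) (nat_lit 81) (nat_lit 3) (nat_lit 82) (nat_lit 5) (nat_lit 278) (nat_lit 277) (nat_lit 165)) (XT.lf (nat_lit 0) (nat_lit 37921169621) (nat_lit 684) (nat_lit 30424340811) (nat_lit 760) (nat_lit 8228398268) (nat_lit 73) (nat_lit 5) (nat_lit 82) (nat_lit 5) (nat_lit 83) (nat_lit 5) (nat_lit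 279) (nat_lit 277) (nat_lit 164))) (XT.nd (nat_lit 78) (nat_lit 0) (nat_lit 76) (XT.lf (nat_lit 76) (nat_lit 23557860715) (nat_lit 0) (nat_lit 18928979685) (nat_lit 760) (nat_lit 37238618868) (nat_lit 74) (nat_lit 5) (nat_lit 73) (nat_lit 5) (nat_lit 83) (nat_lit 5) (nat_lit 280) (nat_lit 277) (nat_lit 163)) (XT.nd (nat_lit 78) (nat_lit 0) (nat_lit 76) (XT.lf (nat_lit 0) (nat_lit 48492534517) (nat_lit 684) (nat_lit 705118635) (nat_lit 760) (nat_lit 33877747506) (nat_lit 74) (nat_lit 5) (nat_lit 83) (nat_lit 5) (nat_lit 84) (nat_lit 5) (nat_lit 281) (nat_lit 277) (nat_lit 162)) (XT.lf (nat_lit 0) (nat_lit 56317379073) (nat_lit 684) (nat_lit 25880650443) (nat_lit 760) (nat_lit 4428377967) (nat_lit 75) (nat_lit 5) (nat_lit 84) (nat_lit 5) (nat_lit 85) (nat_lit 5) (nat_lit 282) (nat_lit 277) (nat_lit 161))))) (XT.nd (nat_lit 156) (nat_lit 760) (nat_lit 0) (XT.nd (nat_lit 78) (nat_lit 608)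 (nat_lit 0) (XT.lf (nat_lit 76) (nat_lit 37031366814) (nat_lit 0) (nat_lit 29155664165) (nat_lit 760) (nat_lit 24203527396) (nat_lit 76) (nat_lit 5) (nat_lit 75) (nat_lit 5) (nat_lit 85) (nat_lit 5) (nat_lit 283) (nat_lit 277) (nat_lit 160)) (XT.lf (nat_lit 0) (nat_lit 11383878856) (nat_lit 684) (nat_lit 66536215053) (nat_lit 760) (nat_lit 16482059663) (nat_lit 67) (nat_lit 5) (nat_lit 76) (nat_lit 5) (nat_lit 77) (nat_lit 5) (nat_lit 284) (nat_lit 277) (nat_lit 159))) (XT.nd (nat_lit 78) (nat_lit 760) (nat_lit 0) (XT.lf (nat_lit 0) (nat_lit 82702879473) (nat_lit 684) (nat_lit 9300873187) (nat_lit 760) (nat_lit 6660330050) (nat_lit 67) (nat_lit 5) (nat_lit 76) (nat_lit 5) (nat_lit 77) (nat_lit 5) (nat_lit 285) (nat_lit 277) (nat_lit 158)) (XT.nd (nat_lit 78) (nat_lit 380) (nat_lit 0) (XT.lf (nat_lit 0) (nat_lit 5565098124) (nat_lit 380) (nat_lit 45791738216) (nat_lit 76) (nat_lit 51819837293)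 (nat_lit 62) (nat_lit 5) (nat_lit 67) (nat_lit 5) (nat_lit 63) (nat_lit 5) (nat_lit 286) (nat_lit 277) (nat_lit 157)) (XT.lf (nat_lit 0) (nat_lit 19604020064) (nat_lit 456) (nat_lit 78349591955) (nat_lit 76) (nat_lit 10037763428) (nat_lit 57) (nat_lit 5) (nat_lit 63) (nat_lit 5) (nat_lit 58) (nat_lit 5) (nat_lit 287) (nat_lit 277) (nat_lit 156))))))))
noncomputable def xc112 : XT := (XT.nd (nat_lit 1404) (nat_lit 760) (nat_lit 0) (XT.nd (nat_lit 702) (nat_lit 1140) (nat_lit 0) (XT.nd (nat_lit 312) (nat_lit 836) (nat_lit 0) (XT.nd (nat_lit 156) (nat_lit 532) (nat_lit 0) (XT.nd (nat_lit 78) (nat_lit 304) (nat_lit 0) (XT.lf (nat_lit 0) (nat_lit 36441748305) (nat_lit 456) (nat_lit 1286286241) (nat_lit 76) (nat_lit 75379437155) (nat_lit 57) (nat_lit 5) (nat_lit 63) (nat_lit 5) (nat_lit 58) (nat_lit 5) (nat_lit 288) (nat_lit 277) (nat_lit 155)) (XT.lf (nat_lit 0) (nat_lit 56395322494) (nat_lit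 380) (nat_lit 34364521215) (nat_lit 76) (nat_lit 27784573270) (nat_lit 53) (nat_lit 5) (nat_lit 58) (nat_lit 5) (nat_lit 54) (nat_lit 5) (nat_lit 289) (nat_lit 277) (nat_lit 154))) (XT.nd (nat_lit 78) (nat_lit 228) (nat_lit 0) (XT.lf (nat_lit 0) (nat_lit 53178636383) (nat_lit 304) (nat_lit 26254863863) (nat_lit 380) (nat_lit 44908404257) (nat_lit 49) (nat_lit 5) (nat_lit 53) (nat_lit 5) (nat_lit 54) (nat_lit 5) (nat_lit 290) (nat_lit 277) (nat_lit 153)) (XT.lf (nat_lit 0) (nat_lit 18275500775) (nat_lit 228) (nat_lit 87609906185) (nat_lit 304) (nat_lit 24639252654) (nat_lit 46) (nat_lit 5) (nat_lit 49) (nat_lit 5) (nat_lit 50) (nat_lit 5) (nat_lit 291) (nat_lit 277) (nat_lit 152)))) (XT.nd (nat_lit 156) (nat_lit 456) (nat_lit 0) (XT.nd (nat_lit 78) (nat_lit 380) (nat_lit 0) (XT.lf (nat_lit 0) (nat_lit 116952300423) (nat_lit 228) (nat_lit 19175558011) (nat_lit 304) (nat_lit 990459235) (nat_lit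 46) (nat_lit 5) (nat_lit 49) (nat_lit 5) (nat_lit 50) (nat_lit 5) (nat_lit 292) (nat_lit 277) (nat_lit 151)) (XT.lf (nat_lit 0) (nat_lit 25917991536) (nat_lit 380) (nat_lit 63530048790) (nat_lit 76) (nat_lit 54664589297) (nat_lit 41) (nat_lit 5) (nat_lit 46) (nat_lit 5) (nat_lit 42) (nat_lit 5) (nat_lit 293) (nat_lit 277) (nat_lit 150))) (XT.nd (nat_lit 78) (nat_lit 228) (nat_lit 0) (XT.lf (nat_lit 0) (nat_lit 39375847467) (nat_lit 228) (nat_lit 16863467287) (nat_lit 304) (nat_lit 95361616821) (nat_lit 38) (nat_lit 5) (nat_lit 41) (nat_lit 5) (nat_lit 42) (nat_lit 5) (nat_lit 294) (nat_lit 277) (nat_lit 149)) (XT.nd (nat_lit 78) (nat_lit 228) (nat_lit 0) (XT.lf (nat_lit 0) (nat_lit 91071089999) (nat_lit 304) (nat_lit 7829766627) (nat_lit 76) (nat_lit 60683205371) (nat_lit 38) (nat_lit 5) (nat_lit 42) (nat_lit 5) (nat_lit 39) (nat_lit 5) (nat_lit 295) (nat_lit 277) (nat_lit 148)) (XT.lf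 (nat_lit 0) (nat_lit 108091609694) (nat_lit 228) (nat_lit 22569138420) (nat_lit 304) (nat_lit 37446529201) (nat_lit 35) (nat_lit 5) (nat_lit 38) (nat_lit 5) (nat_lit 39) (nat_lit 5) (nat_lit 296) (nat_lit 277) (nat_lit 147)))))) (XT.nd (nat_lit 312) (nat_lit 532) (nat_lit 0) (XT.nd (nat_lit 156) (nat_lit 380) (nat_lit 0) (XT.nd (nat_lit 78) (nat_lit 76) (nat_lit 0) (XT.lf (nat_lit 0) (nat_lit 57152215347) (nat_lit 152) (nat_lit 118230429443) (nat_lit 228) (nat_lit 1831453165) (nat_lit 33) (nat_lit 5) (nat_lit 35) (nat_lit 5) (nat_lit 36) (nat_lit 5) (nat_lit 297) (nat_lit 277) (nat_lit 146)) (XT.lf (nat_lit 0) (nat_lit 36902909745) (nat_lit 228) (nat_lit 2130960374) (nat_lit 76) (nat_lit 147914870295) (nat_lit 32) (nat_lit 5) (nat_lit 35) (nat_lit 5) (nat_lit 33) (nat_lit 5) (nat_lit 298) (nat_lit 277) (nat_lit 145))) (XT.nd (nat_lit 78) (nat_lit 152) (nat_lit 0) (XT.lf (nat_lit 0) (nat_lit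 81451165794) (nat_lit 304) (nat_lit 68776662973) (nat_lit 76) (nat_lit 47093859984) (nat_lit 29) (nat_lit 5) (nat_lit 33) (nat_lit 5) (nat_lit 30) (nat_lit 5) (nat_lit 299) (nat_lit 277) (nat_lit 144)) (XT.lf (nat_lit 0) (nat_lit 62571733289) (nat_lit 152) (nat_lit 68663877567) (nat_lit 228) (nat_lit 77205246724) (nat_lit 27) (nat_lit 5) (nat_lit 29) (nat_lit 5) (nat_lit 30) (nat_lit 5) (nat_lit 300) (nat_lit 277) (nat_lit 143)))) (XT.nd (nat_lit 156) (nat_lit 304) (nat_lit 0) (XT.nd (nat_lit 78) (nat_lit 228) (nat_lit 0) (XT.lf (nat_lit 0) (nat_lit 186523298730) (nat_lit 228) (nat_lit 13829307016) (nat_lit 76) (nat_lit 20020930785) (nat_lit 27) (nat_lit 5) (nat_lit 30) (nat_lit 5) (nat_lit 28) (nat_lit 5) (nat_lit 301) (nat_lit 277) (nat_lit 142)) (XT.lf (nat_lit 0) (nat_lit 15826328710) (nat_lit 228) (nat_lit 101520545690) (nat_lit 76) (nat_lit 115740409910) (nat_lit 24) (nat_lit 5)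 (nat_lit 27) (nat_lit 5) (nat_lit 25) (nat_lit 5) (nat_lit 302) (nat_lit 277) (nat_lit 141))) (XT.nd (nat_lit 78) (nat_lit 152) (nat_lit 0) (XT.lf (nat_lit 0) (nat_lit 43085857665) (nat_lit 152) (nat_lit 26138179192) (nat_lit 228) (nat_lit 177519701564) (nat_lit 22) (nat_lit 5) (nat_lit 24) (nat_lit 5) (nat_lit 25) (nat_lit 5) (nat_lit 303) (nat_lit 277) (nat_lit 140)) (XT.nd (nat_lit 78) (nat_lit 152) (nat_lit 0) (XT.lf (nat_lit 0) (nat_lit 129820419283) (nat_lit 228) (nat_lit 59677737124) (nat_lit 76) (nat_lit 71848210311) (nat_lit 22) (nat_lit 5) (nat_lit 25) (nat_lit 5) (nat_lit 23) (nat_lit 5) (nat_lit 304) (nat_lit 277) (nat_lit 139)) (XT.lf (nat_lit 0) (nat_lit 98533161614) (nat_lit 152) (nat_lit 98710087023) (nat_lit 228) (nat_lit 79775020507) (nat_lit 20) (nat_lit 5) (nat_lit 22) (nat_lit 5) (nat_lit 23) (nat_lit 5) (nat_lit 305) (nat_lit 277) (nat_lit 138))))))) (XT.nd (nat_lit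 702) (nat_lit 152) (nat_lit 0) (XT.nd (nat_lit 312) (nat_lit 304) (nat_lit 0) (XT.nd (nat_lit 156) (nat_lit 152) (nat_lit 0) (XT.nd (nat_lit 78) (nat_lit 152) (nat_lit 0) (XT.lf (nat_lit 0) (nat_lit 271105841465) (nat_lit 228) (nat_lit 22367279736) (nat_lit 76) (nat_lit 418506339) (nat_lit 20) (nat_lit 5) (nat_lit 23) (nat_lit 5) (nat_lit 21) (nat_lit 4) (nat_lit 306) (nat_lit 277) (nat_lit 137)) (XT.lf (nat_lit 0) (nat_lit 41583399323) (nat_lit 152) (nat_lit 163230454992) (nat_lit 76) (nat_lit 107067668365) (nat_lit 18) (nat_lit 5) (nat_lit 20) (nat_lit 5) (nat_lit 19) (nat_lit 5) (nat_lit 307) (nat_lit 277) (nat_lit 136))) (XT.nd (nat_lit 78) (nat_lit 0) (nat_lit 0) (XT.lf (nat_lit 0) (nat_lit 2548938291) (nat_lit 152) (nat_lit 108201031874) (nat_lit 228) (nat_lit 220519655231) (nat_lit 16) (nat_lit 5) (nat_lit 18) (nat_lit 5) (nat_lit 19) (nat_lit 5) (nat_lit 308) (nat_lit 277) (nat_lit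 135)) (XT.lf (nat_lit 0) (nat_lit 187419083535) (nat_lit 152) (nat_lit 873842726) (nat_lit 228) (nat_lit 163773697566) (nat_lit 16) (nat_lit 5) (nat_lit 18) (nat_lit 5) (nat_lit 19) (nat_lit 5) (nat_lit 309) (nat_lit 277) (nat_lit 134)))) (XT.nd (nat_lit 156) (nat_lit 228) (nat_lit 0) (XT.nd (nat_lit 78) (nat_lit 0) (nat_lit 0) (XT.lf (nat_lit 0) (nat_lit 11110493290) (nat_lit 76) (nat_lit 262898091282) (nat_lit 152) (nat_lit 100420334717) (nat_lit 15) (nat_lit 5) (nat_lit 16) (nat_lit 5) (nat_lit 17) (nat_lit 4) (nat_lit 310) (nat_lit 277) (nat_lit 133)) (XT.lf (nat_lit 0) (nat_lit 206792998413) (nat_lit 76) (nat_lit 162670772720) (nat_lit 152) (nat_lit 28972313885) (nat_lit 15) (nat_lit 5) (nat_lit 16) (nat_lit 5) (nat_lit 17) (nat_lit 4) (nat_lit 311) (nat_lit 277) (nat_lit 132))) (XT.nd (nat_lit 78) (nat_lit 152) (nat_lit 0) (XT.lf (nat_lit 0) (nat_lit 46648858668) (nat_lit 152) (nat_lit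 6986559982) (nat_lit 76) (nat_lit 370690798431) (nat_lit 14) (nat_lit 5) (nat_lit 16) (nat_lit 5) (nat_lit 15) (nat_lit 5) (nat_lit 312) (nat_lit 277) (nat_lit 131)) (XT.nd (nat_lit 78) (nat_lit 0) (nat_lit 0) (XT.lf (nat_lit 0) (nat_lit 131473928045) (nat_lit 228) (nat_lit 254867829507) (nat_lit 76) (nat_lit 65713592105) (nat_lit 12) (nat_lit 5) (nat_lit 15) (nat_lit 5) (nat_lit 13) (nat_lit 4) (nat_lit 313) (nat_lit 277) (nat_lit 130)) (XT.lf (nat_lit 0) (nat_lit 224112859704) (nat_lit 228) (nat_lit 64958493885) (nat_lit 76) (nat_lit 192880066723) (nat_lit 12) (nat_lit 5) (nat_lit 15) (nat_lit 5) (nat_lit 13) (nat_lit 4) (nat_lit 314) (nat_lit 277) (nat_lit 129)))))) (XT.nd (nat_lit 34710) (nat_lit 0) (nat_lit 4712) (XT.nd (nat_lit 156) (nat_lit 76) (nat_lit 0) (XT.nd (nat_lit 78) (nat_lit 0) (nat_lit 0) (XT.lf (nat_lit 0) (nat_lit 144776991294) (nat_lit 76) (nat_lit 181646075398) (nat_lit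 152) (nat_lit 187703102175) (nat_lit 11) (nat_lit 5) (nat_lit 12) (nat_lit 5) (nat_lit 13) (nat_lit 4) (nat_lit 315) (nat_lit 277) (nat_lit 128)) (XT.lf (nat_lit 0) (nat_lit 373610612859) (nat_lit 76) (nat_lit 64438809044) (nat_lit 152) (nat_lit 110768909085) (nat_lit 11) (nat_lit 5) (nat_lit 12) (nat_lit 5) (nat_lit 13) (nat_lit 4) (nat_lit 316) (nat_lit 277) (nat_lit 127))) (XT.nd (nat_lit 34476) (nat_lit 0) (nat_lit 4712) (XT.lf (nat_lit 0) (nat_lit 34601947288) (nat_lit 76) (nat_lit 525514239390) (nat_lit 76) (nat_lit 26094164589) (nat_lit 10) (nat_lit 4) (nat_lit 11) (nat_lit 5) (nat_lit 11) (nat_lit 4) (nat_lit 317) (nat_lit 277) (nat_lit 126)) (XT.lf (nat_lit 0) (nat_lit 8899809658) (nat_lit 0) (nat_lit 8899809658) (nat_lit 684) (nat_lit 20429475617) (nat_lit 72) (nat_lit 5) (nat_lit 72) (nat_lit 3) (nat_lit 81) (nat_lit 3) (nat_lit 278) (nat_lit 278) (nat_lit 164)))) (XT.nd (nat_lit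 156) (nat_lit 0) (nat_lit 76) (XT.nd (nat_lit 78) (nat_lit 0) (nat_lit 76) (XT.lf (nat_lit 0) (nat_lit 37601355820) (nat_lit 684) (nat_lit 7038759250) (nat_lit 760) (nat_lit 34847442437) (nat_lit 72) (nat_lit 5) (nat_lit 81) (nat_lit 3) (nat_lit 82) (nat_lit 5) (nat_lit 279) (nat_lit 278) (nat_lit 163)) (XT.lf (nat_lit 0) (nat_lit 40986105678) (nat_lit 684) (nat_lit 32838200083) (nat_lit 760) (nat_lit 8873850887) (nat_lit 73) (nat_lit 5) (nat_lit 82) (nat_lit 5) (nat_lit 83) (nat_lit 5) (nat_lit 280) (nat_lit 278) (nat_lit 162))) (XT.nd (nat_lit 78) (nat_lit 0) (nat_lit 76) (XT.lf (nat_lit 76) (nat_lit 25461704565) (nat_lit 0) (nat_lit 20453311296) (nat_lit 760) (nat_lit 40186923716) (nat_lit 74) (nat_lit 5) (nat_lit 73) (nat_lit 5) (nat_lit 83) (nat_lit 5) (nat_lit 281) (nat_lit 278) (nat_lit 161)) (XT.nd (nat_lit 78) (nat_lit 0) (nat_lit 76) (XT.lf (nat_lit 0) (nat_lit 52398855699)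 (nat_lit 684) (nat_lit 742150569) (nat_lit 760) (nat_lit 36578992538) (nat_lit 74) (nat_lit 5) (nat_lit 83) (nat_lit 5) (nat_lit 84) (nat_lit 5) (nat_lit 282) (nat_lit 278) (nat_lit 160)) (XT.lf (nat_lit 0) (nat_lit 60847878984) (nat_lit 684) (nat_lit 27931120619) (nat_lit 760) (nat_lit 4776183534) (nat_lit 75) (nat_lit 5) (nat_lit 84) (nat_lit 5) (nat_lit 85) (nat_lit 5) (nat_lit 283) (nat_lit 278) (nat_lit 159))))))))
noncomputable def xc113 : XT := (XT.nd (nat_lit 1404) (nat_lit 1216) (nat_lit 0) (XT.nd (nat_lit 702) (nat_lit 1444) (nat_lit 0) (XT.nd (nat_lit 312) (nat_lit 1216) (nat_lit 0) (XT.nd (nat_lit 156) (nat_lit 380) (nat_lit 0) (XT.nd (nat_lit 78) (nat_lit 608) (nat_lit 0) (XT.lf (nat_lit 76) (nat_lit 40012989632) (nat_lit 0) (nat_lit 31492551857) (nat_lit 760) (nat_lit 26115008725) (nat_lit 76) (nat_lit 5) (nat_lit 75) (nat_lit 5) (nat_lit 85) (nat_lit 5) (nat_lit 284) (nat_lit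 278) (nat_lit 158)) (XT.lf (nat_lit 0) (nat_lit 12314136601) (nat_lit 684) (nat_lit 71861609635) (nat_lit 760) (nat_lit 17777407537) (nat_lit 67) (nat_lit 5) (nat_lit 76) (nat_lit 5) (nat_lit 77) (nat_lit 5) (nat_lit 285) (nat_lit 278) (nat_lit 157))) (XT.nd (nat_lit 78) (nat_lit 380) (nat_lit 0) (XT.lf (nat_lit 0) (nat_lit 89337209310) (nat_lit 684) (nat_lit 10047255429) (nat_lit 760) (nat_lit 7171659325) (nat_lit 67) (nat_lit 5) (nat_lit 76) (nat_lit 5) (nat_lit 77) (nat_lit 5) (nat_lit 286) (nat_lit 278) (nat_lit 156)) (XT.lf (nat_lit 0) (nat_lit 6029831425) (nat_lit 380) (nat_lit 49435989115) (nat_lit 76) (nat_lit 55963953682) (nat_lit 62) (nat_lit 5) (nat_lit 67) (nat_lit 5) (nat_lit 63) (nat_lit 5) (nat_lit 287) (nat_lit 278) (nat_lit 155)))) (XT.nd (nat_lit 156) (nat_lit 836) (nat_lit 0) (XT.nd (nat_lit 78) (nat_lit 0) (nat_lit 0) (XT.lf (nat_lit 0) (nat_lit 21190704211) (nat_lit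 456) (nat_lit 84598328038) (nat_lit 76) (nat_lit 10840682302) (nat_lit 57) (nat_lit 5) (nat_lit 63) (nat_lit 5) (nat_lit 58) (nat_lit 5) (nat_lit 288) (nat_lit 278) (nat_lit 154)) (XT.lf (nat_lit 0) (nat_lit 39374090523) (nat_lit 456) (nat_lit 1371382407) (nat_lit 76) (nat_lit 81409697498) (nat_lit 57) (nat_lit 5) (nat_lit 63) (nat_lit 5) (nat_lit 58) (nat_lit 5) (nat_lit 289) (nat_lit 278) (nat_lit 153))) (XT.nd (nat_lit 78) (nat_lit 532) (nat_lit 0) (XT.lf (nat_lit 0) (nat_lit 60922973133) (nat_lit 380) (nat_lit 37095820311) (nat_lit 76) (nat_lit 30008330381) (nat_lit 53) (nat_lit 5) (nat_lit 58) (nat_lit 5) (nat_lit 54) (nat_lit 5) (nat_lit 290) (nat_lit 278) (nat_lit 152)) (XT.nd (nat_lit 78) (nat_lit 228) (nat_lit 0) (XT.lf (nat_lit 0) (nat_lit 57450013608) (nat_lit 304) (nat_lit 28353271237) (nat_lit 380) (nat_lit 48485174873) (nat_lit 49) (nat_lit 5) (nat_lit 53) (nat_lit 5) (nat_lit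 54) (nat_lit 5) (nat_lit 291) (nat_lit 278) (nat_lit 151)) (XT.lf (nat_lit 0) (nat_lit 19754617508) (nat_lit 228) (nat_lit 94615902993) (nat_lit 304) (nat_lit 26595359020) (nat_lit 46) (nat_lit 5) (nat_lit 49) (nat_lit 5) (nat_lit 50) (nat_lit 5) (nat_lit 292) (nat_lit 278) (nat_lit 150)))))) (XT.nd (nat_lit 312) (nat_lit 836) (nat_lit 0) (XT.nd (nat_lit 156) (nat_lit 228) (nat_lit 0) (XT.nd (nat_lit 78) (nat_lit 380) (nat_lit 0) (XT.lf (nat_lit 0) (nat_lit 126324296190) (nat_lit 228) (nat_lit 20707014053) (nat_lit 304) (nat_lit 1055775746) (nat_lit 46) (nat_lit 5) (nat_lit 49) (nat_lit 5) (nat_lit 50) (nat_lit 5) (nat_lit 293) (nat_lit 278) (nat_lit 149)) (XT.lf (nat_lit 0) (nat_lit 28004195438) (nat_lit 380) (nat_lit 68596246234) (nat_lit 76) (nat_lit 59040528402) (nat_lit 41) (nat_lit 5) (nat_lit 46) (nat_lit 5) (nat_lit 42) (nat_lit 5) (nat_lit 294) (nat_lit 278) (nat_lit 148))) (XT.nd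 (nat_lit 78) (nat_lit 0) (nat_lit 0) (XT.lf (nat_lit 0) (nat_lit 42541417411) (nat_lit 228) (nat_lit 18209103609) (nat_lit 304) (nat_lit 102977852683) (nat_lit 38) (nat_lit 5) (nat_lit 41) (nat_lit 5) (nat_lit 42) (nat_lit 5) (nat_lit 295) (nat_lit 278) (nat_lit 147)) (XT.lf (nat_lit 0) (nat_lit 98367994617) (nat_lit 304) (nat_lit 8441258308) (nat_lit 76) (nat_lit 65540945991) (nat_lit 38) (nat_lit 5) (nat_lit 42) (nat_lit 5) (nat_lit 39) (nat_lit 5) (nat_lit 296) (nat_lit 278) (nat_lit 146)))) (XT.nd (nat_lit 156) (nat_lit 456) (nat_lit 0) (XT.nd (nat_lit 78) (nat_lit 152) (nat_lit 0) (XT.lf (nat_lit 0) (nat_lit 116753181032) (nat_lit 228) (nat_lit 24371035796) (nat_lit 304) (nat_lit 40431087072) (nat_lit 35) (nat_lit 5) (nat_lit 38) (nat_lit 5) (nat_lit 39) (nat_lit 5) (nat_lit 297) (nat_lit 278) (nat_lit 145)) (XT.lf (nat_lit 0) (nat_lit 61738493361) (nat_lit 152) (nat_lit 127684858718)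 (nat_lit 228) (nat_lit 1967345634) (nat_lit 33) (nat_lit 5) (nat_lit 35) (nat_lit 5) (nat_lit 36) (nat_lit 5) (nat_lit 298) (nat_lit 278) (nat_lit 144))) (XT.nd (nat_lit 78) (nat_lit 380) (nat_lit 0) (XT.lf (nat_lit 0) (nat_lit 39864664522) (nat_lit 228) (nat_lit 2288045539) (nat_lit 76) (nat_lit 159751432945) (nat_lit 32) (nat_lit 5) (nat_lit 35) (nat_lit 5) (nat_lit 33) (nat_lit 5) (nat_lit 299) (nat_lit 278) (nat_lit 143)) (XT.nd (nat_lit 78) (nat_lit 152) (nat_lit 0) (XT.lf (nat_lit 0) (nat_lit 87976334936) (nat_lit 304) (nat_lit 74265575698) (nat_lit 76) (nat_lit 50865040403) (nat_lit 29) (nat_lit 5) (nat_lit 33) (nat_lit 5) (nat_lit 30) (nat_lit 5) (nat_lit 300) (nat_lit 278) (nat_lit 142)) (XT.lf (nat_lit 0) (nat_lit 67590117726) (nat_lit 152) (nat_lit 74152943026) (nat_lit 228) (nat_lit 83372617773) (nat_lit 27) (nat_lit 5) (nat_lit 29) (nat_lit 5) (nat_lit 30) (nat_lit 5) (nat_lit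 301) (nat_lit 278) (nat_lit 141))))))) (XT.nd (nat_lit 702) (nat_lit 380) (nat_lit 0) (XT.nd (nat_lit 312) (nat_lit 456) (nat_lit 0) (XT.nd (nat_lit 156) (nat_lit 152) (nat_lit 0) (XT.nd (nat_lit 78) (nat_lit 228) (nat_lit 0) (XT.lf (nat_lit 0) (nat_lit 201453185014) (nat_lit 228) (nat_lit 14923586498) (nat_lit 76) (nat_lit 21626230516) (nat_lit 27) (nat_lit 5) (nat_lit 30) (nat_lit 5) (nat_lit 28) (nat_lit 5) (nat_lit 302) (nat_lit 278) (nat_lit 140)) (XT.lf (nat_lit 0) (nat_lit 17100182667) (nat_lit 228) (nat_lit 109630378046) (nat_lit 76) (nat_lit 125003304578) (nat_lit 24) (nat_lit 5) (nat_lit 27) (nat_lit 5) (nat_lit 25) (nat_lit 5) (nat_lit 303) (nat_lit 278) (nat_lit 139))) (XT.nd (nat_lit 78) (nat_lit 0) (nat_lit 0) (XT.lf (nat_lit 0) (nat_lit 46544024272) (nat_lit 152) (nat_lit 28225285686) (nat_lit 228) (nat_lit 191713546714) (nat_lit 22) (nat_lit 5) (nat_lit 24) (nat_lit 5)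 (nat_lit 25) (nat_lit 5) (nat_lit 304) (nat_lit 278) (nat_lit 138)) (XT.lf (nat_lit 0) (nat_lit 140212915594) (nat_lit 228) (nat_lit 64441199447) (nat_lit 76) (nat_lit 77599605548) (nat_lit 22) (nat_lit 5) (nat_lit 25) (nat_lit 5) (nat_lit 23) (nat_lit 5) (nat_lit 305) (nat_lit 278) (nat_lit 137)))) (XT.nd (nat_lit 156) (nat_lit 304) (nat_lit 0) (XT.nd (nat_lit 78) (nat_lit 0) (nat_lit 0) (XT.lf (nat_lit 0) (nat_lit 106426103719) (nat_lit 152) (nat_lit 106603119867) (nat_lit 228) (nat_lit 86150169922) (nat_lit 20) (nat_lit 5) (nat_lit 22) (nat_lit 5) (nat_lit 23) (nat_lit 5) (nat_lit 306) (nat_lit 278) (nat_lit 136)) (XT.lf (nat_lit 0) (nat_lit 292800395804) (nat_lit 228) (nat_lit 24146877467) (nat_lit 76) (nat_lit 455369553) (nat_lit 20) (nat_lit 5) (nat_lit 23) (nat_lit 5) (nat_lit 21) (nat_lit 4) (nat_lit 307) (nat_lit 278) (nat_lit 135))) (XT.nd (nat_lit 78) (nat_lit 152) (nat_lit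 0) (XT.lf (nat_lit 0) (nat_lit 44915957790) (nat_lit 152) (nat_lit 176279328017) (nat_lit 76) (nat_lit 115636455041) (nat_lit 18) (nat_lit 5) (nat_lit 20) (nat_lit 5) (nat_lit 19) (nat_lit 5) (nat_lit 308) (nat_lit 278) (nat_lit 134)) (XT.nd (nat_lit 78) (nat_lit 0) (nat_lit 0) (XT.lf (nat_lit 0) (nat_lit 2762001116) (nat_lit 152) (nat_lit 116853559967) (nat_lit 228) (nat_lit 238155346049) (nat_lit 16) (nat_lit 5) (nat_lit 18) (nat_lit 5) (nat_lit 19) (nat_lit 5) (nat_lit 309) (nat_lit 278) (nat_lit 133)) (XT.lf (nat_lit 0) (nat_lit 202421080368) (nat_lit 152) (nat_lit 940458980) (nat_lit 228) (nat_lit 176870147445) (nat_lit 16) (nat_lit 5) (nat_lit 18) (nat_lit 5) (nat_lit 19) (nat_lit 5) (nat_lit 310) (nat_lit 278) (nat_lit 132)))))) (XT.nd (nat_lit 390) (nat_lit 76) (nat_lit 0) (XT.nd (nat_lit 156) (nat_lit 228) (nat_lit 0) (XT.nd (nat_lit 78) (nat_lit 0) (nat_lit 0) (XT.lf (nat_lit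 0) (nat_lit 12007640988) (nat_lit 76) (nat_lit 283926603000) (nat_lit 152) (nat_lit 108448732812) (nat_lit 15) (nat_lit 5) (nat_lit 16) (nat_lit 5) (nat_lit 17) (nat_lit 4) (nat_lit 311) (nat_lit 278) (nat_lit 131)) (XT.lf (nat_lit 0) (nat_lit 223344131097) (nat_lit 76) (nat_lit 175681346033) (nat_lit 152) (nat_lit 31285257623) (nat_lit 15) (nat_lit 5) (nat_lit 16) (nat_lit 5) (nat_lit 17) (nat_lit 4) (nat_lit 312) (nat_lit 278) (nat_lit 130))) (XT.nd (nat_lit 78) (nat_lit 152) (nat_lit 0) (XT.lf (nat_lit 0) (nat_lit 50385106637) (nat_lit 152) (nat_lit 7538212291) (nat_lit 76) (nat_lit 400348772514) (nat_lit 14) (nat_lit 5) (nat_lit 16) (nat_lit 5) (nat_lit 15) (nat_lit 5) (nat_lit 313) (nat_lit 278) (nat_lit 129)) (XT.nd (nat_lit 78) (nat_lit 0) (nat_lit 0) (XT.lf (nat_lit 0) (nat_lit 141996012931) (nat_lit 228) (nat_lit 275250131698) (nat_lit 76) (nat_lit 70973418875) (nat_lit 12) (nat_lit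 5) (nat_lit 15) (nat_lit 5) (nat_lit 13) (nat_lit 4) (nat_lit 314) (nat_lit 278) (nat_lit 128)) (XT.lf (nat_lit 0) (nat_lit 242045750185) (nat_lit 228) (nat_lit 70148576943) (nat_lit 76) (nat_lit 208313008544) (nat_lit 12) (nat_lit 5) (nat_lit 15) (nat_lit 5) (nat_lit 13) (nat_lit 4) (nat_lit 315) (nat_lit 278) (nat_lit 127))))) (XT.nd (nat_lit 34632) (nat_lit 0) (nat_lit 4636) (XT.nd (nat_lit 78) (nat_lit 0) (nat_lit 0) (XT.lf (nat_lit 0) (nat_lit 156365460377) (nat_lit 76) (nat_lit 196175125817) (nat_lit 152) (nat_lit 202715487679) (nat_lit 11) (nat_lit 5) (nat_lit 12) (nat_lit 5) (nat_lit 13) (nat_lit 4) (nat_lit 316) (nat_lit 278) (nat_lit 126)) (XT.lf (nat_lit 0) (nat_lit 403505304275) (nat_lit 76) (nat_lit 69591473385) (nat_lit 152) (nat_lit 119626845266) (nat_lit 11) (nat_lit 5) (nat_lit 12) (nat_lit 5) (nat_lit 13) (nat_lit 4) (nat_lit 317) (nat_lit 278) (nat_lit 125))) (XT.nd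 (nat_lit 78) (nat_lit 0) (nat_lit 0) (XT.lf (nat_lit 0) (nat_lit 9619646981) (nat_lit 0) (nat_lit 9619646981) (nat_lit 684) (nat_lit 22047291999) (nat_lit 72) (nat_lit 5) (nat_lit 72) (nat_lit 3) (nat_lit 81) (nat_lit 3) (nat_lit 279) (nat_lit 279) (nat_lit 162)) (XT.nd (nat_lit 78) (nat_lit 0) (nat_lit 76) (XT.lf (nat_lit 0) (nat_lit 40638320767) (nat_lit 684) (nat_lit 7585541994) (nat_lit 760) (nat_lit 37621161499) (nat_lit 72) (nat_lit 5) (nat_lit 81) (nat_lit 3) (nat_lit 82) (nat_lit 5) (nat_lit 280) (nat_lit 279) (nat_lit 161)) (XT.lf (nat_lit 0) (nat_lit 44291779530) (nat_lit 684) (nat_lit 35448033873) (nat_lit 760) (nat_lit 9572768525) (nat_lit 73) (nat_lit 5) (nat_lit 82) (nat_lit 5) (nat_lit 83) (nat_lit 5) (nat_lit 281) (nat_lit 279) (nat_lit 160))))))))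
noncomputable def xc114 : XT := (XT.nd (nat_lit 1404) (nat_lit 1596) (nat_lit 0) (XT.nd (nat_lit 702) (nat_lit 1824) (nat_lit 0) (XT.nd (nat_lit 312) (nat_lit 1216) (nat_lit 0) (XT.nd (nat_lit 156) (nat_lit 0) (nat_lit 152) (XT.nd (nat_lit 78) (nat_lit 0) (nat_lit 76) (XT.lf (nat_lit 76) (nat_lit 27515114691) (nat_lit 0) (nat_lit 22098160935) (nat_lit 760) (nat_lit 43375484727) (nat_lit 74) (nat_lit 5) (nat_lit 73) (nat_lit 5) (nat_lit 83) (nat_lit 5) (nat_lit 282) (nat_lit 279) (nat_lit 159)) (XT.lf (nat_lit 0) (nat_lit 56613842362) (nat_lit 684) (nat_lit 784909483) (nat_lit 760) (nat_lit 39497617525) (nat_lit 74) (nat_lit 5) (nat_lit 83) (nat_lit 5) (nat_lit 84) (nat_lit 5) (nat_lit 283) (nat_lit 279) (nat_lit 158))) (XT.nd (nat_lit 78) (nat_lit 0) (nat_lit 0) (XT.lf (nat_lit 0) (nat_lit 65737236724) (nat_lit 684) (nat_lit 30148479045) (nat_lit 760) (nat_lit 5152735804) (nat_lit 75)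 (nat_lit 5) (nat_lit 84) (nat_lit 5) (nat_lit 85) (nat_lit 5) (nat_lit 284) (nat_lit 279) (nat_lit 157)) (XT.lf (nat_lit 76) (nat_lit 43230415524) (nat_lit 0) (nat_lit 34015757925) (nat_lit 760) (nat_lit 28182946680) (nat_lit 76) (nat_lit 5) (nat_lit 75) (nat_lit 5) (nat_lit 85) (nat_lit 5) (nat_lit 285) (nat_lit 279) (nat_lit 156)))) (XT.nd (nat_lit 156) (nat_lit 760) (nat_lit 0) (XT.nd (nat_lit 78) (nat_lit 0) (nat_lit 0) (XT.lf (nat_lit 0) (nat_lit 13316026306) (nat_lit 684) (nat_lit 77612679505) (nat_lit 760) (nat_lit 19179695390) (nat_lit 67) (nat_lit 5) (nat_lit 76) (nat_lit 5) (nat_lit 77) (nat_lit 5) (nat_lit 286) (nat_lit 279) (nat_lit 155)) (XT.lf (nat_lit 0) (nat_lit 96499703441) (nat_lit 684) (nat_lit 10853018362) (nat_lit 760) (nat_lit 7726961748) (nat_lit 67) (nat_lit 5) (nat_lit 76) (nat_lit 5) (nat_lit 77) (nat_lit 5) (nat_lit 287) (nat_lit 279) (nat_lit 154))) (XT.nd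 (nat_lit 78) (nat_lit 380) (nat_lit 0) (XT.lf (nat_lit 0) (nat_lit 6528957867) (nat_lit 380) (nat_lit 53374503224) (nat_lit 76) (nat_lit 60439809180) (nat_lit 62) (nat_lit 5) (nat_lit 67) (nat_lit 5) (nat_lit 63) (nat_lit 5) (nat_lit 288) (nat_lit 279) (nat_lit 153)) (XT.nd (nat_lit 78) (nat_lit 0) (nat_lit 0) (XT.lf (nat_lit 0) (nat_lit 22901703468) (nat_lit 456) (nat_lit 91349706565) (nat_lit 76) (nat_lit 11707849266) (nat_lit 57) (nat_lit 5) (nat_lit 63) (nat_lit 5) (nat_lit 58) (nat_lit 5) (nat_lit 289) (nat_lit 279) (nat_lit 152)) (XT.lf (nat_lit 0) (nat_lit 42538594542) (nat_lit 456) (nat_lit 1465826595) (nat_lit 76) (nat_lit 87922392168) (nat_lit 57) (nat_lit 5) (nat_lit 63) (nat_lit 5) (nat_lit 58) (nat_lit 5) (nat_lit 290) (nat_lit 279) (nat_lit 151)))))) (XT.nd (nat_lit 312) (nat_lit 988) (nat_lit 0) (XT.nd (nat_lit 156) (nat_lit 228) (nat_lit 0) (XT.nd (nat_lit 78) (nat_lit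 304) (nat_lit 0) (XT.lf (nat_lit 0) (nat_lit 65810549700) (nat_lit 380) (nat_lit 40048171635) (nat_lit 76) (nat_lit 32409846648) (nat_lit 53) (nat_lit 5) (nat_lit 58) (nat_lit 5) (nat_lit 54) (nat_lit 5) (nat_lit 291) (nat_lit 279) (nat_lit 150)) (XT.lf (nat_lit 0) (nat_lit 62060663456) (nat_lit 304) (nat_lit 30619833918) (nat_lit 380) (nat_lit 52350355696) (nat_lit 49) (nat_lit 5) (nat_lit 53) (nat_lit 5) (nat_lit 54) (nat_lit 5) (nat_lit 292) (nat_lit 279) (nat_lit 149))) (XT.nd (nat_lit 78) (nat_lit 0) (nat_lit 0) (XT.lf (nat_lit 0) (nat_lit 21349627402) (nat_lit 228) (nat_lit 102182778382) (nat_lit 304) (nat_lit 28710098641) (nat_lit 46) (nat_lit 5) (nat_lit 49) (nat_lit 5) (nat_lit 50) (nat_lit 5) (nat_lit 293) (nat_lit 279) (nat_lit 148)) (XT.lf (nat_lit 0) (nat_lit 136443795898) (nat_lit 228) (nat_lit 22361355871) (nat_lit 304) (nat_lit 1128303454) (nat_lit 46) (nat_lit 5) (nat_lit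 49) (nat_lit 5) (nat_lit 50) (nat_lit 5) (nat_lit 294) (nat_lit 279) (nat_lit 147)))) (XT.nd (nat_lit 156) (nat_lit 380) (nat_lit 0) (XT.nd (nat_lit 78) (nat_lit 228) (nat_lit 0) (XT.lf (nat_lit 0) (nat_lit 30255474642) (nat_lit 380) (nat_lit 74070051505) (nat_lit 76) (nat_lit 63766147184) (nat_lit 41) (nat_lit 5) (nat_lit 46) (nat_lit 5) (nat_lit 42) (nat_lit 5) (nat_lit 295) (nat_lit 279) (nat_lit 146)) (XT.lf (nat_lit 0) (nat_lit 45958021397) (nat_lit 228) (nat_lit 19662881743) (nat_lit 304) (nat_lit 111205198280) (nat_lit 38) (nat_lit 5) (nat_lit 41) (nat_lit 5) (nat_lit 42) (nat_lit 5) (nat_lit 296) (nat_lit 279) (nat_lit 145))) (XT.nd (nat_lit 78) (nat_lit 380) (nat_lit 0) (XT.lf (nat_lit 0) (nat_lit 106247051314) (nat_lit 304) (nat_lit 9103793499) (nat_lit 76) (nat_lit 70786865866) (nat_lit 38) (nat_lit 5) (nat_lit 42) (nat_lit 5) (nat_lit 39) (nat_lit 5) (nat_lit 297) (nat_lit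 279) (nat_lit 144)) (XT.nd (nat_lit 78) (nat_lit 152) (nat_lit 0) (XT.lf (nat_lit 0) (nat_lit 126105646216) (nat_lit 228) (nat_lit 26317603349) (nat_lit 304) (nat_lit 43656002309) (nat_lit 35) (nat_lit 5) (nat_lit 38) (nat_lit 5) (nat_lit 39) (nat_lit 5) (nat_lit 298) (nat_lit 279) (nat_lit 143)) (XT.lf (nat_lit 0) (nat_lit 66689661982) (nat_lit 152) (nat_lit 137896213703) (nat_lit 228) (nat_lit 2115625102) (nat_lit 33) (nat_lit 5) (nat_lit 35) (nat_lit 5) (nat_lit 36) (nat_lit 5) (nat_lit 299) (nat_lit 279) (nat_lit 142))))))) (XT.nd (nat_lit 702) (nat_lit 608) (nat_lit 0) (XT.nd (nat_lit 312) (nat_lit 532) (nat_lit 0) (XT.nd (nat_lit 156) (nat_lit 152) (nat_lit 0) (XT.nd (nat_lit 78) (nat_lit 228) (nat_lit 0) (XT.lf (nat_lit 0) (nat_lit 43062001261) (nat_lit 228) (nat_lit 2459607988) (nat_lit 76) (nat_lit 172534439408) (nat_lit 32) (nat_lit 5) (nat_lit 35) (nat_lit 5) (nat_lit 33) (nat_lit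 5) (nat_lit 300) (nat_lit 279) (nat_lit 141)) (XT.lf (nat_lit 0) (nat_lit 95022222834) (nat_lit 304) (nat_lit 80195487467) (nat_lit 76) (nat_lit 54937391458) (nat_lit 29) (nat_lit 5) (nat_lit 33) (nat_lit 5) (nat_lit 30) (nat_lit 5) (nat_lit 301) (nat_lit 279) (nat_lit 140))) (XT.nd (nat_lit 78) (nat_lit 0) (nat_lit 0) (XT.lf (nat_lit 0) (nat_lit 73008168857) (nat_lit 152) (nat_lit 80081710750) (nat_lit 228) (nat_lit 90034669402) (nat_lit 27) (nat_lit 5) (nat_lit 29) (nat_lit 5) (nat_lit 30) (nat_lit 5) (nat_lit 302) (nat_lit 279) (nat_lit 139)) (XT.lf (nat_lit 0) (nat_lit 217576317719) (nat_lit 228) (nat_lit 16107129556) (nat_lit 76) (nat_lit 23359437040) (nat_lit 27) (nat_lit 5) (nat_lit 30) (nat_lit 5) (nat_lit 28) (nat_lit 5) (nat_lit 303) (nat_lit 279) (nat_lit 138)))) (XT.nd (nat_lit 156) (nat_lit 152) (nat_lit 0) (XT.nd (nat_lit 78) (nat_lit 152) (nat_lit 0) (XT.lf (nat_lit 0)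 (nat_lit 18474839651) (nat_lit 228) (nat_lit 118390682005) (nat_lit 76) (nat_lit 135006708412) (nat_lit 24) (nat_lit 5) (nat_lit 27) (nat_lit 5) (nat_lit 25) (nat_lit 5) (nat_lit 304) (nat_lit 279) (nat_lit 137)) (XT.lf (nat_lit 0) (nat_lit 50277232423) (nat_lit 152) (nat_lit 30479923904) (nat_lit 228) (nat_lit 207044002386) (nat_lit 22) (nat_lit 5) (nat_lit 24) (nat_lit 5) (nat_lit 25) (nat_lit 5) (nat_lit 305) (nat_lit 279) (nat_lit 136))) (XT.nd (nat_lit 78) (nat_lit 152) (nat_lit 0) (XT.lf (nat_lit 0) (nat_lit 151435832559) (nat_lit 228) (nat_lit 69587273312) (nat_lit 76) (nat_lit 83810607610) (nat_lit 22) (nat_lit 5) (nat_lit 25) (nat_lit 5) (nat_lit 23) (nat_lit 5) (nat_lit 306) (nat_lit 279) (nat_lit 135)) (XT.nd (nat_lit 78) (nat_lit 0) (nat_lit 0) (XT.lf (nat_lit 0) (nat_lit 114949013327) (nat_lit 152) (nat_lit 115128133758) (nat_lit 228) (nat_lit 93036308836) (nat_lit 20) (nat_lit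 5) (nat_lit 22) (nat_lit 5) (nat_lit 23) (nat_lit 5) (nat_lit 307) (nat_lit 279) (nat_lit 134)) (XT.lf (nat_lit 0) (nat_lit 316229646108) (nat_lit 228) (nat_lit 26070238906) (nat_lit 76) (nat_lit 494699243) (nat_lit 20) (nat_lit 5) (nat_lit 23) (nat_lit 5) (nat_lit 21) (nat_lit 4) (nat_lit 308) (nat_lit 279) (nat_lit 133)))))) (XT.nd (nat_lit 390) (nat_lit 228) (nat_lit 0) (XT.nd (nat_lit 156) (nat_lit 76) (nat_lit 0) (XT.nd (nat_lit 78) (nat_lit 152) (nat_lit 0) (XT.lf (nat_lit 0) (nat_lit 48514281157) (nat_lit 152) (nat_lit 190373475207) (nat_lit 76) (nat_lit 124890263425) (nat_lit 18) (nat_lit 5) (nat_lit 20) (nat_lit 5) (nat_lit 19) (nat_lit 5) (nat_lit 309) (nat_lit 279) (nat_lit 132)) (XT.lf (nat_lit 0) (nat_lit 2990803937) (nat_lit 152) (nat_lit 126198797391) (nat_lit 228) (nat_lit 257202731209) (nat_lit 16) (nat_lit 5) (nat_lit 18) (nat_lit 5) (nat_lit 19) (nat_lit 5) (nat_lit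 310) (nat_lit 279) (nat_lit 131))) (XT.nd (nat_lit 78) (nat_lit 76) (nat_lit 0) (XT.lf (nat_lit 0) (nat_lit 218622028586) (nat_lit 152) (nat_lit 1012874056) (nat_lit 228) (nat_lit 191015090237) (nat_lit 16) (nat_lit 5) (nat_lit 18) (nat_lit 5) (nat_lit 19) (nat_lit 5) (nat_lit 311) (nat_lit 279) (nat_lit 130)) (XT.nd (nat_lit 78) (nat_lit 0) (nat_lit 0) (XT.lf (nat_lit 0) (nat_lit 12975375240) (nat_lit 76) (nat_lit 306637871514) (nat_lit 152) (nat_lit 117120148685) (nat_lit 15) (nat_lit 5) (nat_lit 16) (nat_lit 5) (nat_lit 17) (nat_lit 4) (nat_lit 312) (nat_lit 279) (nat_lit 129)) (XT.lf (nat_lit 0) (nat_lit 241218256929) (nat_lit 76) (nat_lit 189733205821) (nat_lit 152) (nat_lit 33783927537) (nat_lit 15) (nat_lit 5) (nat_lit 16) (nat_lit 5) (nat_lit 17) (nat_lit 4) (nat_lit 313) (nat_lit 279) (nat_lit 128))))) (XT.nd (nat_lit 156) (nat_lit 0) (nat_lit 0) (XT.nd (nat_lit 78) (nat_lit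 152) (nat_lit 0) (XT.lf (nat_lit 0) (nat_lit 54419635398) (nat_lit 152) (nat_lit 8135034286) (nat_lit 76) (nat_lit 432378997883) (nat_lit 14) (nat_lit 5) (nat_lit 16) (nat_lit 5) (nat_lit 15) (nat_lit 5) (nat_lit 314) (nat_lit 279) (nat_lit 127)) (XT.lf (nat_lit 0) (nat_lit 153359269618) (nat_lit 228) (nat_lit 297264034407) (nat_lit 76) (nat_lit 76653640981) (nat_lit 12) (nat_lit 5) (nat_lit 15) (nat_lit 5) (nat_lit 13) (nat_lit 4) (nat_lit 315) (nat_lit 279) (nat_lit 126))) (XT.nd (nat_lit 34710) (nat_lit 0) (nat_lit 4560) (XT.lf (nat_lit 0) (nat_lit 261412720990) (nat_lit 228) (nat_lit 75754807703) (nat_lit 76) (nat_lit 224980223854) (nat_lit 12) (nat_lit 5) (nat_lit 15) (nat_lit 5) (nat_lit 13) (nat_lit 4) (nat_lit 316) (nat_lit 279) (nat_lit 125)) (XT.nd (nat_lit 78) (nat_lit 0) (nat_lit 0) (XT.lf (nat_lit 0) (nat_lit 10395951036) (nat_lit 0) (nat_lit 10395951036) (nat_lit 684) (nat_lit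 23796893546) (nat_lit 72) (nat_lit 5) (nat_lit 72) (nat_lit 3) (nat_lit 81) (nat_lit 3) (nat_lit 280) (nat_lit 280) (nat_lit 160)) (XT.lf (nat_lit 0) (nat_lit 43914126211) (nat_lit 684) (nat_lit 8178395303) (nat_lit 760) (nat_lit 40618786232) (nat_lit 72) (nat_lit 5) (nat_lit 81) (nat_lit 3) (nat_lit 82) (nat_lit 5) (nat_lit 281) (nat_lit 280) (nat_lit 159))))))))
noncomputable def xc115 : XT := (XT.nd (nat_lit 1404) (nat_lit 1748) (nat_lit 0) (XT.nd (nat_lit 702) (nat_lit 1672) (nat_lit 0) (XT.nd (nat_lit 312) (nat_lit 1216) (nat_lit 0) (XT.nd (nat_lit 156) (nat_lit 0) (nat_lit 76) (XT.nd (nat_lit 78) (nat_lit 0) (nat_lit 0) (XT.lf (nat_lit 0) (nat_lit 47858086053) (nat_lit 684) (nat_lit 38269111309) (nat_lit 760) (nat_lit 10329167481) (nat_lit 73) (nat_lit 5) (nat_lit 82) (nat_lit 5) (nat_lit 83) (nat_lit 5) (nat_lit 282) (nat_lit 280) (nat_lit 158)) (XT.lf (nat_lit 76) (nat_lit 29730447460)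 (nat_lit 0) (nat_lit 23873373837) (nat_lit 760) (nat_lit 46822895859) (nat_lit 74) (nat_lit 5) (nat_lit 73) (nat_lit 5) (nat_lit 83) (nat_lit 5) (nat_lit 283) (nat_lit 280) (nat_lit 157))) (XT.nd (nat_lit 78) (nat_lit 0) (nat_lit 76) (XT.lf (nat_lit 0) (nat_lit 61162735594) (nat_lit 684) (nat_lit 833459159) (nat_lit 760) (nat_lit 42650830204) (nat_lit 74) (nat_lit 5) (nat_lit 83) (nat_lit 5) (nat_lit 84) (nat_lit 5) (nat_lit 284) (nat_lit 280) (nat_lit 156)) (XT.lf (nat_lit 0) (nat_lit 71014671957) (nat_lit 684) (nat_lit 32545670106) (nat_lit 760) (nat_lit 5560202943) (nat_lit 75) (nat_lit 5) (nat_lit 84) (nat_lit 5) (nat_lit 85) (nat_lit 5) (nat_lit 285) (nat_lit 280) (nat_lit 155)))) (XT.nd (nat_lit 156) (nat_lit 760) (nat_lit 0) (XT.nd (nat_lit 78) (nat_lit 608) (nat_lit 0) (XT.lf (nat_lit 76) (nat_lit 46702897738) (nat_lit 0) (nat_lit 36740278091) (nat_lit 760) (nat_lit 30419353040)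 (nat_lit 76) (nat_lit 5) (nat_lit 75) (nat_lit 5) (nat_lit 85) (nat_lit 5) (nat_lit 286) (nat_lit 280) (nat_lit 154)) (XT.lf (nat_lit 0) (nat_lit 14395676361) (nat_lit 684) (nat_lit 83823529512) (nat_lit 760) (nat_lit 20697005908) (nat_lit 67) (nat_lit 5) (nat_lit 76) (nat_lit 5) (nat_lit 77) (nat_lit 5) (nat_lit 287) (nat_lit 280) (nat_lit 153))) (XT.nd (nat_lit 78) (nat_lit 760) (nat_lit 0) (XT.lf (nat_lit 0) (nat_lit 104232983373) (nat_lit 684) (nat_lit 11722959504) (nat_lit 760) (nat_lit 8329317656) (nat_lit 67) (nat_lit 5) (nat_lit 76) (nat_lit 5) (nat_lit 77) (nat_lit 5) (nat_lit 288) (nat_lit 280) (nat_lit 152)) (XT.nd (nat_lit 78) (nat_lit 380) (nat_lit 0) (XT.lf (nat_lit 0) (nat_lit 7065626286) (nat_lit 380) (nat_lit 57630433116) (nat_lit 76) (nat_lit 65273912984) (nat_lit 62) (nat_lit 5) (nat_lit 67) (nat_lit 5) (nat_lit 63) (nat_lit 5) (nat_lit 289) (nat_lit 280) (nat_lit 151))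 (XT.lf (nat_lit 0) (nat_lit 24747336762) (nat_lit 456) (nat_lit 98643547530) (nat_lit 76) (nat_lit 12644402087) (nat_lit 57) (nat_lit 5) (nat_lit 63) (nat_lit 5) (nat_lit 58) (nat_lit 5) (nat_lit 290) (nat_lit 280) (nat_lit 150)))))) (XT.nd (nat_lit 312) (nat_lit 836) (nat_lit 0) (XT.nd (nat_lit 156) (nat_lit 532) (nat_lit 0) (XT.nd (nat_lit 78) (nat_lit 304) (nat_lit 0) (XT.lf (nat_lit 0) (nat_lit 45954179343) (nat_lit 456) (nat_lit 1570004241) (nat_lit 76) (nat_lit 94956113986) (nat_lit 57) (nat_lit 5) (nat_lit 63) (nat_lit 5) (nat_lit 58) (nat_lit 5) (nat_lit 291) (nat_lit 280) (nat_lit 149)) (XT.lf (nat_lit 0) (nat_lit 71087172410) (nat_lit 380) (nat_lit 43238895821) (nat_lit 76) (nat_lit 35003362978) (nat_lit 53) (nat_lit 5) (nat_lit 58) (nat_lit 5) (nat_lit 54) (nat_lit 5) (nat_lit 292) (nat_lit 280) (nat_lit 148))) (XT.nd (nat_lit 78) (nat_lit 228) (nat_lit 0) (XT.lf (nat_lit 0)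 (nat_lit 67038075484) (nat_lit 304) (nat_lit 33067963997) (nat_lit 380) (nat_lit 56526695909) (nat_lit 49) (nat_lit 5) (nat_lit 53) (nat_lit 5) (nat_lit 54) (nat_lit 5) (nat_lit 293) (nat_lit 280) (nat_lit 147)) (XT.lf (nat_lit 0) (nat_lit 23070149457) (nat_lit 228) (nat_lit 110355345739) (nat_lit 304) (nat_lit 30995856207) (nat_lit 46) (nat_lit 5) (nat_lit 49) (nat_lit 5) (nat_lit 50) (nat_lit 5) (nat_lit 294) (nat_lit 280) (nat_lit 146)))) (XT.nd (nat_lit 156) (nat_lit 456) (nat_lit 0) (XT.nd (nat_lit 78) (nat_lit 380) (nat_lit 0) (XT.lf (nat_lit 0) (nat_lit 147370921665) (nat_lit 228) (nat_lit 24148361643) (nat_lit 304) (nat_lit 1208335947) (nat_lit 46) (nat_lit 5) (nat_lit 49) (nat_lit 5) (nat_lit 50) (nat_lit 5) (nat_lit 295) (nat_lit 280) (nat_lit 145)) (XT.lf (nat_lit 0) (nat_lit 32685294961) (nat_lit 380) (nat_lit 79983743393) (nat_lit 76) (nat_lit 68869476433) (nat_lit 41) (nat_lit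 5) (nat_lit 46) (nat_lit 5) (nat_lit 42) (nat_lit 5) (nat_lit 296) (nat_lit 280) (nat_lit 144))) (XT.nd (nat_lit 78) (nat_lit 228) (nat_lit 0) (XT.lf (nat_lit 0) (nat_lit 49646057649) (nat_lit 228) (nat_lit 21233383001) (nat_lit 304) (nat_lit 120092284052) (nat_lit 38) (nat_lit 5) (nat_lit 41) (nat_lit 5) (nat_lit 42) (nat_lit 5) (nat_lit 297) (nat_lit 280) (nat_lit 143)) (XT.nd (nat_lit 78) (nat_lit 228) (nat_lit 0) (XT.lf (nat_lit 0) (nat_lit 114755060556) (nat_lit 304) (nat_lit 9821152643) (nat_lit 76) (nat_lit 76452082107) (nat_lit 38) (nat_lit 5) (nat_lit 42) (nat_lit 5) (nat_lit 39) (nat_lit 5) (nat_lit 298) (nat_lit 280) (nat_lit 142)) (XT.lf (nat_lit 0) (nat_lit 136204566622) (nat_lit 228) (nat_lit 28420340740) (nat_lit 304) (nat_lit 47140276278) (nat_lit 35) (nat_lit 5) (nat_lit 38) (nat_lit 5) (nat_lit 39) (nat_lit 5) (nat_lit 299) (nat_lit 280) (nat_lit 141))))))) (XT.nd (nat_lit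 702) (nat_lit 608) (nat_lit 0) (XT.nd (nat_lit 312) (nat_lit 532) (nat_lit 0) (XT.nd (nat_lit 156) (nat_lit 380) (nat_lit 0) (XT.nd (nat_lit 78) (nat_lit 76) (nat_lit 0) (XT.lf (nat_lit 0) (nat_lit 72035199439) (nat_lit 152) (nat_lit 148924966946) (nat_lit 228) (nat_lit 2277066312) (nat_lit 33) (nat_lit 5) (nat_lit 35) (nat_lit 5) (nat_lit 36) (nat_lit 5) (nat_lit 300) (nat_lit 280) (nat_lit 140)) (XT.lf (nat_lit 0) (nat_lit 46513960314) (nat_lit 228) (nat_lit 2646533353) (nat_lit 76) (nat_lit 186339673836) (nat_lit 32) (nat_lit 5) (nat_lit 35) (nat_lit 5) (nat_lit 33) (nat_lit 5) (nat_lit 301) (nat_lit 280) (nat_lit 139))) (XT.nd (nat_lit 78) (nat_lit 152) (nat_lit 0) (XT.lf (nat_lit 0) (nat_lit 102630671703) (nat_lit 304) (nat_lit 86601409139) (nat_lit 76) (nat_lit 59335081525) (nat_lit 29) (nat_lit 5) (nat_lit 33) (nat_lit 5) (nat_lit 30) (nat_lit 5) (nat_lit 302) (nat_lit 280) (nat_lit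 138)) (XT.lf (nat_lit 0) (nat_lit 78858117387) (nat_lit 152) (nat_lit 86485274600) (nat_lit 228) (nat_lit 97230791897) (nat_lit 27) (nat_lit 5) (nat_lit 29) (nat_lit 5) (nat_lit 30) (nat_lit 5) (nat_lit 303) (nat_lit 280) (nat_lit 137)))) (XT.nd (nat_lit 156) (nat_lit 304) (nat_lit 0) (XT.nd (nat_lit 78) (nat_lit 228) (nat_lit 0) (XT.lf (nat_lit 0) (nat_lit 234988319829) (nat_lit 228) (nat_lit 17386831727) (nat_lit 76) (nat_lit 25230856684) (nat_lit 27) (nat_lit 5) (nat_lit 30) (nat_lit 5) (nat_lit 28) (nat_lit 5) (nat_lit 304) (nat_lit 280) (nat_lit 136)) (XT.lf (nat_lit 0) (nat_lit 19958521584) (nat_lit 228) (nat_lit 127853254909) (nat_lit 76) (nat_lit 145809936673) (nat_lit 24) (nat_lit 5) (nat_lit 27) (nat_lit 5) (nat_lit 25) (nat_lit 5) (nat_lit 305) (nat_lit 280) (nat_lit 135))) (XT.nd (nat_lit 78) (nat_lit 152) (nat_lit 0) (XT.lf (nat_lit 0) (nat_lit 54307715380) (nat_lit 152)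 (nat_lit 32915416036) (nat_lit 228) (nat_lit 223601840080) (nat_lit 22) (nat_lit 5) (nat_lit 24) (nat_lit 5) (nat_lit 25) (nat_lit 5) (nat_lit 306) (nat_lit 280) (nat_lit 134)) (XT.nd (nat_lit 78) (nat_lit 152) (nat_lit 0) (XT.lf (nat_lit 0) (nat_lit 163555743504) (nat_lit 228) (nat_lit 75146348720) (nat_lit 76) (nat_lit 90518057057) (nat_lit 22) (nat_lit 5) (nat_lit 25) (nat_lit 5) (nat_lit 23) (nat_lit 5) (nat_lit 307) (nat_lit 280) (nat_lit 133)) (XT.lf (nat_lit 0) (nat_lit 124152497245) (nat_lit 152) (nat_lit 124335610369) (nat_lit 228) (nat_lit 100474176953) (nat_lit 20) (nat_lit 5) (nat_lit 22) (nat_lit 5) (nat_lit 23) (nat_lit 5) (nat_lit 308) (nat_lit 280) (nat_lit 132)))))) (XT.nd (nat_lit 390) (nat_lit 228) (nat_lit 0) (XT.nd (nat_lit 156) (nat_lit 228) (nat_lit 0) (XT.nd (nat_lit 78) (nat_lit 152) (nat_lit 0) (XT.lf (nat_lit 0) (nat_lit 341532491938) (nat_lit 228) (nat_lit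 28148666010) (nat_lit 76) (nat_lit 536761572) (nat_lit 20) (nat_lit 5) (nat_lit 23) (nat_lit 5) (nat_lit 21) (nat_lit 4) (nat_lit 309) (nat_lit 280) (nat_lit 131)) (XT.lf (nat_lit 0) (nat_lit 52399750419) (nat_lit 152) (nat_lit 205596323858) (nat_lit 76) (nat_lit 134883963906) (nat_lit 18) (nat_lit 5) (nat_lit 20) (nat_lit 5) (nat_lit 19) (nat_lit 5) (nat_lit 310) (nat_lit 280) (nat_lit 130))) (XT.nd (nat_lit 78) (nat_lit 76) (nat_lit 0) (XT.lf (nat_lit 0) (nat_lit 3236792130) (nat_lit 152) (nat_lit 136292088551) (nat_lit 228) (nat_lit 277774626553) (nat_lit 16) (nat_lit 5) (nat_lit 18) (nat_lit 5) (nat_lit 19) (nat_lit 5) (nat_lit 311) (nat_lit 280) (nat_lit 129)) (XT.nd (nat_lit 78) (nat_lit 76) (nat_lit 0) (XT.lf (nat_lit 0) (nat_lit 236118016686) (nat_lit 152) (nat_lit 1091484877) (nat_lit 228) (nat_lit 206292294537) (nat_lit 16) (nat_lit 5) (nat_lit 18) (nat_lit 5) (nat_lit 19) (nat_lit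 5) (nat_lit 312) (nat_lit 280) (nat_lit 128)) (XT.lf (nat_lit 0) (nat_lit 14019512060) (nat_lit 76) (nat_lit 331166449481) (nat_lit 152) (nat_lit 126485917343) (nat_lit 15) (nat_lit 5) (nat_lit 16) (nat_lit 5) (nat_lit 17) (nat_lit 4) (nat_lit 313) (nat_lit 280) (nat_lit 127))))) (XT.nd (nat_lit 34944) (nat_lit 0) (nat_lit 4560) (XT.nd (nat_lit 156) (nat_lit 228) (nat_lit 0) (XT.lf (nat_lit 0) (nat_lit 260521371929) (nat_lit 76) (nat_lit 204909592144) (nat_lit 152) (nat_lit 36483083187) (nat_lit 15) (nat_lit 5) (nat_lit 16) (nat_lit 5) (nat_lit 17) (nat_lit 4) (nat_lit 314) (nat_lit 280) (nat_lit 126)) (XT.lf (nat_lit 0) (nat_lit 165631076733) (nat_lit 228) (nat_lit 321039920682) (nat_lit 76) (nat_lit 82787945802) (nat_lit 12) (nat_lit 5) (nat_lit 15) (nat_lit 5) (nat_lit 13) (nat_lit 4) (nat_lit 316) (nat_lit 280) (nat_lit 124))) (XT.nd (nat_lit 78) (nat_lit 0) (nat_lit 0) (XT.lf (nat_lit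 0) (nat_lit 11233398978) (nat_lit 0) (nat_lit 11233398978) (nat_lit 684) (nat_lit 25688486410) (nat_lit 72) (nat_lit 5) (nat_lit 72) (nat_lit 3) (nat_lit 81) (nat_lit 3) (nat_lit 281) (nat_lit 281) (nat_lit 158)) (XT.nd (nat_lit 78) (nat_lit 0) (nat_lit 76) (XT.lf (nat_lit 0) (nat_lit 47448466684) (nat_lit 684) (nat_lit 8820672714) (nat_lit 760) (nat_lit 43857942606) (nat_lit 72) (nat_lit 5) (nat_lit 81) (nat_lit 3) (nat_lit 82) (nat_lit 5) (nat_lit 282) (nat_lit 281) (nat_lit 157)) (XT.lf (nat_lit 0) (nat_lit 51706421004) (nat_lit 684) (nat_lit 41317981370) (nat_lit 760) (nat_lit 11147422582) (nat_lit 73) (nat_lit 5) (nat_lit 82) (nat_lit 5) (nat_lit 83) (nat_lit 5) (nat_lit 283) (nat_lit 281) (nat_lit 156))))))))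
noncomputable def xc116 : XT := (XT.nd (nat_lit 1404) (nat_lit 1444) (nat_lit 0) (XT.nd (nat_lit 702) (nat_lit 1824) (nat_lit 0) (XT.nd (nat_lit 312) (nat_lit 1216) (nat_lit 0) (XT.nd (nat_lit 156) (nat_lit 0) (nat_lit 152) (XT.nd (nat_lit 78) (nat_lit 0) (nat_lit 76) (XT.lf (nat_lit 76) (nat_lit 32120991962) (nat_lit 0) (nat_lit 25789553781) (nat_lit 760) (nat_lit 50549327969) (nat_lit 74) (nat_lit 5) (nat_lit 73) (nat_lit 5) (nat_lit 83) (nat_lit 5) (nat_lit 284) (nat_lit 281) (nat_lit 155)) (XT.lf (nat_lit 0) (nat_lit 66072717612) (nat_lit 684) (nat_lit 887924744) (nat_lit 760) (nat_lit 46057240994) (nat_lit 74) (nat_lit 5) (nat_lit 83) (nat_lit 5) (nat_lit 84) (nat_lit 5) (nat_lit 285) (nat_lit 281) (nat_lit 154))) (XT.nd (nat_lit 78) (nat_lit 0) (nat_lit 0) (XT.lf (nat_lit 0) (nat_lit 76711669011) (nat_lit 684) (nat_lit 35136731753) (nat_lit 760) (nat_lit 6000945339) (nat_lit 75)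 (nat_lit 5) (nat_lit 84) (nat_lit 5) (nat_lit 85) (nat_lit 5) (nat_lit 286) (nat_lit 281) (nat_lit 153)) (XT.lf (nat_lit 76) (nat_lit 50451174287) (nat_lit 0) (nat_lit 39682294862) (nat_lit 760) (nat_lit 32837272532) (nat_lit 76) (nat_lit 5) (nat_lit 75) (nat_lit 5) (nat_lit 85) (nat_lit 5) (nat_lit 287) (nat_lit 281) (nat_lit 152)))) (XT.nd (nat_lit 156) (nat_lit 760) (nat_lit 0) (XT.nd (nat_lit 78) (nat_lit 0) (nat_lit 0) (XT.lf (nat_lit 0) (nat_lit 15559648671) (nat_lit 684) (nat_lit 90530985645) (nat_lit 760) (nat_lit 22338135795) (nat_lit 67) (nat_lit 5) (nat_lit 76) (nat_lit 5) (nat_lit 77) (nat_lit 5) (nat_lit 288) (nat_lit 281) (nat_lit 151)) (XT.lf (nat_lit 0) (nat_lit 112583027785) (nat_lit 684) (nat_lit 12662253460) (nat_lit 760) (nat_lit 8982116231) (nat_lit 67) (nat_lit 5) (nat_lit 76) (nat_lit 5) (nat_lit 77) (nat_lit 5) (nat_lit 289) (nat_lit 281) (nat_lit 150))) (XT.nd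 (nat_lit 78) (nat_lit 380) (nat_lit 0) (XT.lf (nat_lit 0) (nat_lit 7643180736) (nat_lit 380) (nat_lit 62228838987) (nat_lit 76) (nat_lit 70494899299) (nat_lit 62) (nat_lit 5) (nat_lit 67) (nat_lit 5) (nat_lit 63) (nat_lit 5) (nat_lit 290) (nat_lit 281) (nat_lit 149)) (XT.nd (nat_lit 78) (nat_lit 0) (nat_lit 0) (XT.lf (nat_lit 0) (nat_lit 26738695219) (nat_lit 456) (nat_lit 106522912369) (nat_lit 76) (nat_lit 13655889851) (nat_lit 57) (nat_lit 5) (nat_lit 63) (nat_lit 5) (nat_lit 58) (nat_lit 5) (nat_lit 291) (nat_lit 281) (nat_lit 148)) (XT.lf (nat_lit 0) (nat_lit 49641228057) (nat_lit 456) (nat_lit 1684383318) (nat_lit 76) (nat_lit 102552543472) (nat_lit 57) (nat_lit 5) (nat_lit 63) (nat_lit 5) (nat_lit 58) (nat_lit 5) (nat_lit 292) (nat_lit 281) (nat_lit 147)))))) (XT.nd (nat_lit 312) (nat_lit 988) (nat_lit 0) (XT.nd (nat_lit 156) (nat_lit 228) (nat_lit 0) (XT.nd (nat_lit 78) (nat_lit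 304) (nat_lit 0) (XT.lf (nat_lit 0) (nat_lit 76784244570) (nat_lit 380) (nat_lit 46686751018) (nat_lit 76) (nat_lit 37804256671) (nat_lit 53) (nat_lit 5) (nat_lit 58) (nat_lit 5) (nat_lit 54) (nat_lit 5) (nat_lit 293) (nat_lit 281) (nat_lit 146)) (XT.lf (nat_lit 0) (nat_lit 72411888799) (nat_lit 304) (nat_lit 35712152287) (nat_lit 380) (nat_lit 61038810797) (nat_lit 49) (nat_lit 5) (nat_lit 53) (nat_lit 5) (nat_lit 54) (nat_lit 5) (nat_lit 294) (nat_lit 281) (nat_lit 145))) (XT.nd (nat_lit 78) (nat_lit 0) (nat_lit 0) (XT.lf (nat_lit 0) (nat_lit 24926522613) (nat_lit 228) (nat_lit 119182011641) (nat_lit 304) (nat_lit 33466050830) (nat_lit 46) (nat_lit 5) (nat_lit 49) (nat_lit 5) (nat_lit 50) (nat_lit 5) (nat_lit 295) (nat_lit 281) (nat_lit 144)) (XT.lf (nat_lit 0) (nat_lit 159170559472) (nat_lit 228) (nat_lit 26078599318) (nat_lit 304) (nat_lit 1296230718) (nat_lit 46) (nat_lit 5) (nat_lit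 49) (nat_lit 5) (nat_lit 50) (nat_lit 5) (nat_lit 296) (nat_lit 281) (nat_lit 143)))) (XT.nd (nat_lit 156) (nat_lit 380) (nat_lit 0) (XT.nd (nat_lit 78) (nat_lit 228) (nat_lit 0) (XT.lf (nat_lit 0) (nat_lit 35308162408) (nat_lit 380) (nat_lit 86372230046) (nat_lit 76) (nat_lit 74380781354) (nat_lit 41) (nat_lit 5) (nat_lit 46) (nat_lit 5) (nat_lit 42) (nat_lit 5) (nat_lit 297) (nat_lit 281) (nat_lit 142)) (XT.lf (nat_lit 0) (nat_lit 53627511244) (nat_lit 228) (nat_lit 22929885189) (nat_lit 304) (nat_lit 129691667728) (nat_lit 38) (nat_lit 5) (nat_lit 41) (nat_lit 5) (nat_lit 42) (nat_lit 5) (nat_lit 298) (nat_lit 281) (nat_lit 141))) (XT.nd (nat_lit 78) (nat_lit 380) (nat_lit 0) (XT.lf (nat_lit 0) (nat_lit 123942534277) (nat_lit 304) (nat_lit 10597461850) (nat_lit 76) (nat_lit 82570192238) (nat_lit 38) (nat_lit 5) (nat_lit 42) (nat_lit 5) (nat_lit 39) (nat_lit 5) (nat_lit 299) (nat_lit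 281) (nat_lit 140)) (XT.nd (nat_lit 78) (nat_lit 152) (nat_lit 0) (XT.lf (nat_lit 0) (nat_lit 147109907183) (nat_lit 228) (nat_lit 30691678153) (nat_lit 304) (nat_lit 50904462874) (nat_lit 35) (nat_lit 5) (nat_lit 38) (nat_lit 5) (nat_lit 39) (nat_lit 5) (nat_lit 300) (nat_lit 281) (nat_lit 139)) (XT.lf (nat_lit 0) (nat_lit 77806901282) (nat_lit 152) (nat_lit 160836440421) (nat_lit 228) (nat_lit 2452536830) (nat_lit 33) (nat_lit 5) (nat_lit 35) (nat_lit 5) (nat_lit 36) (nat_lit 5) (nat_lit 301) (nat_lit 281) (nat_lit 138))))))) (XT.nd (nat_lit 702) (nat_lit 456) (nat_lit 0) (XT.nd (nat_lit 312) (nat_lit 532) (nat_lit 0) (XT.nd (nat_lit 156) (nat_lit 152) (nat_lit 0) (XT.nd (nat_lit 78) (nat_lit 228) (nat_lit 0) (XT.lf (nat_lit 0) (nat_lit 50241077613) (nat_lit 228) (nat_lit 2849817001) (nat_lit 76) (nat_lit 201248973322) (nat_lit 32) (nat_lit 5) (nat_lit 35) (nat_lit 5) (nat_lit 33) (nat_lit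 5) (nat_lit 302) (nat_lit 281) (nat_lit 137)) (XT.lf (nat_lit 0) (nat_lit 110846844782) (nat_lit 304) (nat_lit 93521190831) (nat_lit 76) (nat_lit 64084201791) (nat_lit 29) (nat_lit 5) (nat_lit 33) (nat_lit 5) (nat_lit 30) (nat_lit 5) (nat_lit 303) (nat_lit 281) (nat_lit 136))) (XT.nd (nat_lit 78) (nat_lit 0) (nat_lit 0) (XT.lf (nat_lit 0) (nat_lit 85174735761) (nat_lit 152) (nat_lit 93401547691) (nat_lit 228) (nat_lit 105003553039) (nat_lit 27) (nat_lit 5) (nat_lit 29) (nat_lit 5) (nat_lit 30) (nat_lit 5) (nat_lit 304) (nat_lit 281) (nat_lit 135)) (XT.lf (nat_lit 0) (nat_lit 253792440880) (nat_lit 228) (nat_lit 18770175218) (nat_lit 76) (nat_lit 27251609752) (nat_lit 27) (nat_lit 5) (nat_lit 30) (nat_lit 5) (nat_lit 28) (nat_lit 5) (nat_lit 305) (nat_lit 281) (nat_lit 134)))) (XT.nd (nat_lit 156) (nat_lit 152) (nat_lit 0) (XT.nd (nat_lit 78) (nat_lit 152) (nat_lit 0) (XT.lf (nat_lit 0)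 (nat_lit 21560085652) (nat_lit 228) (nat_lit 138074072180) (nat_lit 76) (nat_lit 157477039210) (nat_lit 24) (nat_lit 5) (nat_lit 27) (nat_lit 5) (nat_lit 25) (nat_lit 5) (nat_lit 306) (nat_lit 281) (nat_lit 133)) (XT.lf (nat_lit 0) (nat_lit 58659452263) (nat_lit 152) (nat_lit 35546161509) (nat_lit 228) (nat_lit 241485115461) (nat_lit 22) (nat_lit 5) (nat_lit 24) (nat_lit 5) (nat_lit 25) (nat_lit 5) (nat_lit 307) (nat_lit 281) (nat_lit 132))) (XT.nd (nat_lit 78) (nat_lit 152) (nat_lit 0) (XT.lf (nat_lit 0) (nat_lit 176644527693) (nat_lit 228) (nat_lit 81151278105) (nat_lit 76) (nat_lit 97761731422) (nat_lit 22) (nat_lit 5) (nat_lit 25) (nat_lit 5) (nat_lit 23) (nat_lit 5) (nat_lit 308) (nat_lit 281) (nat_lit 131)) (XT.nd (nat_lit 78) (nat_lit 0) (nat_lit 0) (XT.lf (nat_lit 0) (nat_lit 134091180952) (nat_lit 152) (nat_lit 134280080864) (nat_lit 228) (nat_lit 108507793044) (nat_lit 20) (nat_lit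 5) (nat_lit 22) (nat_lit 5) (nat_lit 23) (nat_lit 5) (nat_lit 309) (nat_lit 281) (nat_lit 130)) (XT.lf (nat_lit 0) (nat_lit 368858927149) (nat_lit 228) (nat_lit 30394393303) (nat_lit 76) (nat_lit 581834177) (nat_lit 20) (nat_lit 5) (nat_lit 23) (nat_lit 5) (nat_lit 21) (nat_lit 4) (nat_lit 310) (nat_lit 281) (nat_lit 129)))))) (XT.nd (nat_lit 35256) (nat_lit 0) (nat_lit 4408) (XT.nd (nat_lit 156) (nat_lit 152) (nat_lit 0) (XT.nd (nat_lit 78) (nat_lit 152) (nat_lit 0) (XT.lf (nat_lit 0) (nat_lit 56595439960) (nat_lit 152) (nat_lit 222038003218) (nat_lit 76) (nat_lit 145676806711) (nat_lit 18) (nat_lit 5) (nat_lit 20) (nat_lit 5) (nat_lit 19) (nat_lit 5) (nat_lit 311) (nat_lit 281) (nat_lit 128)) (XT.lf (nat_lit 0) (nat_lit 3501500142) (nat_lit 152) (nat_lit 147193215725) (nat_lit 228) (nat_lit 299992890272) (nat_lit 16) (nat_lit 5) (nat_lit 18) (nat_lit 5) (nat_lit 19) (nat_lit 5) (nat_lit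 312) (nat_lit 281) (nat_lit 127))) (XT.nd (nat_lit 78) (nat_lit 152) (nat_lit 0) (XT.lf (nat_lit 0) (nat_lit 255012795652) (nat_lit 152) (nat_lit 1176729676) (nat_lit 228) (nat_lit 222792246243) (nat_lit 16) (nat_lit 5) (nat_lit 18) (nat_lit 5) (nat_lit 19) (nat_lit 5) (nat_lit 313) (nat_lit 281) (nat_lit 126)) (XT.nd (nat_lit 156) (nat_lit 76) (nat_lit 0) (XT.lf (nat_lit 0) (nat_lit 15146308623) (nat_lit 76) (nat_lit 357657663455) (nat_lit 152) (nat_lit 136601495774) (nat_lit 15) (nat_lit 5) (nat_lit 16) (nat_lit 5) (nat_lit 17) (nat_lit 4) (nat_lit 314) (nat_lit 281) (nat_lit 125)) (XT.lf (nat_lit 0) (nat_lit 63481241865) (nat_lit 152) (nat_lit 9478347952) (nat_lit 76) (nat_lit 504330722474) (nat_lit 14) (nat_lit 5) (nat_lit 16) (nat_lit 5) (nat_lit 15) (nat_lit 5) (nat_lit 316) (nat_lit 281) (nat_lit 123))))) (XT.nd (nat_lit 156) (nat_lit 0) (nat_lit 76) (XT.nd (nat_lit 78) (nat_lit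 0) (nat_lit 0) (XT.lf (nat_lit 0) (nat_lit 12137019335) (nat_lit 0) (nat_lit 12137019335) (nat_lit 684) (nat_lit 27733141267) (nat_lit 72) (nat_lit 5) (nat_lit 72) (nat_lit 3) (nat_lit 81) (nat_lit 3) (nat_lit 282) (nat_lit 282) (nat_lit 156)) (XT.lf (nat_lit 0) (nat_lit 51262528497) (nat_lit 684) (nat_lit 9516043426) (nat_lit 760) (nat_lit 47357707538) (nat_lit 72) (nat_lit 5) (nat_lit 81) (nat_lit 3) (nat_lit 82) (nat_lit 5) (nat_lit 283) (nat_lit 282) (nat_lit 155))) (XT.nd (nat_lit 78) (nat_lit 0) (nat_lit 0) (XT.lf (nat_lit 0) (nat_lit 55859814028) (nat_lit 684) (nat_lit 44612566962) (nat_lit 760) (nat_lit 12032290551) (nat_lit 73) (nat_lit 5) (nat_lit 82) (nat_lit 5) (nat_lit 83) (nat_lit 5) (nat_lit 284) (nat_lit 282) (nat_lit 154)) (XT.nd (nat_lit 78) (nat_lit 0) (nat_lit 76) (XT.lf (nat_lit 76) (nat_lit 34701052582) (nat_lit 0) (nat_lit 27858127923) (nat_lit 760) (nat_lit 54576642211)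 (nat_lit 74) (nat_lit 5) (nat_lit 73) (nat_lit 5) (nat_lit 83) (nat_lit 5) (nat_lit 285) (nat_lit 282) (nat_lit 153)) (XT.lf (nat_lit 0) (nat_lit 71373078206) (nat_lit 684) (nat_lit 948489632) (nat_lit 760) (nat_lit 49736971486) (nat_lit 74) (nat_lit 5) (nat_lit 83) (nat_lit 5) (nat_lit 84) (nat_lit 5) (nat_lit 286) (nat_lit 282) (nat_lit 152))))))))
noncomputable def xc117 : XT := (XT.nd (nat_lit 1404) (nat_lit 1064) (nat_lit 0) (XT.nd (nat_lit 702) (nat_lit 1520) (nat_lit 0) (XT.nd (nat_lit 312) (nat_lit 1368) (nat_lit 0) (XT.nd (nat_lit 156) (nat_lit 608) (nat_lit 0) (XT.nd (nat_lit 78) (nat_lit 0) (nat_lit 0) (XT.lf (nat_lit 0) (nat_lit 82862168459) (nat_lit 684) (nat_lit 37936874717) (nat_lit 760) (nat_lit 6477528306) (nat_lit 75) (nat_lit 5) (nat_lit 84) (nat_lit 5) (nat_lit 85) (nat_lit 5) (nat_lit 287) (nat_lit 282) (nat_lit 151)) (XT.lf (nat_lit 76) (nat_lit 54497594644) (nat_lit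 0) (nat_lit 42859274305) (nat_lit 760) (nat_lit 35450855200) (nat_lit 76) (nat_lit 5) (nat_lit 75) (nat_lit 5) (nat_lit 85) (nat_lit 5) (nat_lit 288) (nat_lit 282) (nat_lit 150))) (XT.nd (nat_lit 78) (nat_lit 0) (nat_lit 0) (XT.lf (nat_lit 0) (nat_lit 16814981437) (nat_lit 684) (nat_lit 97774813752) (nat_lit 760) (nat_lit 24112643291) (nat_lit 67) (nat_lit 5) (nat_lit 76) (nat_lit 5) (nat_lit 77) (nat_lit 5) (nat_lit 289) (nat_lit 282) (nat_lit 149)) (XT.lf (nat_lit 0) (nat_lit 121599448593) (nat_lit 684) (nat_lit 13676483048) (nat_lit 760) (nat_lit 9689071299) (nat_lit 67) (nat_lit 5) (nat_lit 76) (nat_lit 5) (nat_lit 77) (nat_lit 5) (nat_lit 290) (nat_lit 282) (nat_lit 148)))) (XT.nd (nat_lit 156) (nat_lit 608) (nat_lit 0) (XT.nd (nat_lit 78) (nat_lit 380) (nat_lit 0) (XT.lf (nat_lit 0) (nat_lit 8265184189) (nat_lit 380) (nat_lit 67196833368) (nat_lit 76) (nat_lit 76133696726) (nat_lit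 62) (nat_lit 5) (nat_lit 67) (nat_lit 5) (nat_lit 63) (nat_lit 5) (nat_lit 291) (nat_lit 282) (nat_lit 147)) (XT.lf (nat_lit 0) (nat_lit 28887711546) (nat_lit 456) (nat_lit 115034355300) (nat_lit 76) (nat_lit 14748305823) (nat_lit 57) (nat_lit 5) (nat_lit 63) (nat_lit 5) (nat_lit 58) (nat_lit 5) (nat_lit 292) (nat_lit 282) (nat_lit 146))) (XT.nd (nat_lit 78) (nat_lit 608) (nat_lit 0) (XT.lf (nat_lit 0) (nat_lit 53621712144) (nat_lit 456) (nat_lit 1809513559) (nat_lit 76) (nat_lit 110756695825) (nat_lit 57) (nat_lit 5) (nat_lit 63) (nat_lit 5) (nat_lit 58) (nat_lit 5) (nat_lit 293) (nat_lit 282) (nat_lit 145)) (XT.nd (nat_lit 78) (nat_lit 304) (nat_lit 0) (XT.lf (nat_lit 0) (nat_lit 82935641857) (nat_lit 380) (nat_lit 50412040492) (nat_lit 76) (nat_lit 40829132746) (nat_lit 53) (nat_lit 5) (nat_lit 58) (nat_lit 5) (nat_lit 54) (nat_lit 5) (nat_lit 294) (nat_lit 282) (nat_lit 144)) (XT.lf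 (nat_lit 0) (nat_lit 78214071106) (nat_lit 304) (nat_lit 38568053801) (nat_lit 380) (nat_lit 65913324454) (nat_lit 49) (nat_lit 5) (nat_lit 53) (nat_lit 5) (nat_lit 54) (nat_lit 5) (nat_lit 295) (nat_lit 282) (nat_lit 143)))))) (XT.nd (nat_lit 312) (nat_lit 684) (nat_lit 0) (XT.nd (nat_lit 156) (nat_lit 608) (nat_lit 0) (XT.nd (nat_lit 78) (nat_lit 0) (nat_lit 0) (XT.lf (nat_lit 0) (nat_lit 26929870417) (nat_lit 228) (nat_lit 128715062150) (nat_lit 304) (nat_lit 36135212578) (nat_lit 46) (nat_lit 5) (nat_lit 49) (nat_lit 5) (nat_lit 50) (nat_lit 5) (nat_lit 296) (nat_lit 282) (nat_lit 142)) (XT.lf (nat_lit 0) (nat_lit 171912746817) (nat_lit 228) (nat_lit 28163488724) (nat_lit 304) (nat_lit 1392408510) (nat_lit 46) (nat_lit 5) (nat_lit 49) (nat_lit 5) (nat_lit 50) (nat_lit 5) (nat_lit 297) (nat_lit 282) (nat_lit 141))) (XT.nd (nat_lit 78) (nat_lit 228) (nat_lit 0) (XT.lf (nat_lit 0) (nat_lit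 38139711705) (nat_lit 380) (nat_lit 93273252603) (nat_lit 76) (nat_lit 80332741466) (nat_lit 41) (nat_lit 5) (nat_lit 46) (nat_lit 5) (nat_lit 42) (nat_lit 5) (nat_lit 298) (nat_lit 282) (nat_lit 140)) (XT.lf (nat_lit 0) (nat_lit 57926087471) (nat_lit 228) (nat_lit 24762416906) (nat_lit 304) (nat_lit 140060143252) (nat_lit 38) (nat_lit 5) (nat_lit 41) (nat_lit 5) (nat_lit 42) (nat_lit 5) (nat_lit 299) (nat_lit 282) (nat_lit 139)))) (XT.nd (nat_lit 156) (nat_lit 456) (nat_lit 0) (XT.nd (nat_lit 78) (nat_lit 228) (nat_lit 0) (XT.lf (nat_lit 0) (nat_lit 133863997441) (nat_lit 304) (nat_lit 11437214385) (nat_lit 76) (nat_lit 89177473909) (nat_lit 38) (nat_lit 5) (nat_lit 42) (nat_lit 5) (nat_lit 39) (nat_lit 5) (nat_lit 300) (nat_lit 282) (nat_lit 138)) (XT.lf (nat_lit 0) (nat_lit 158886394571) (nat_lit 228) (nat_lit 33145049232) (nat_lit 304) (nat_lit 54970788091) (nat_lit 35) (nat_lit 5)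 (nat_lit 38) (nat_lit 5) (nat_lit 39) (nat_lit 5) (nat_lit 301) (nat_lit 282) (nat_lit 137))) (XT.nd (nat_lit 78) (nat_lit 304) (nat_lit 0) (XT.lf (nat_lit 0) (nat_lit 84039071600) (nat_lit 152) (nat_lit 173701191834) (nat_lit 228) (nat_lit 2643000077) (nat_lit 33) (nat_lit 5) (nat_lit 35) (nat_lit 5) (nat_lit 36) (nat_lit 5) (nat_lit 302) (nat_lit 282) (nat_lit 136)) (XT.nd (nat_lit 78) (nat_lit 228) (nat_lit 0) (XT.lf (nat_lit 0) (nat_lit 54265508261) (nat_lit 228) (nat_lit 3070567261) (nat_lit 76) (nat_lit 217350713530) (nat_lit 32) (nat_lit 5) (nat_lit 35) (nat_lit 5) (nat_lit 33) (nat_lit 5) (nat_lit 303) (nat_lit 282) (nat_lit 135)) (XT.lf (nat_lit 0) (nat_lit 119719495780) (nat_lit 304) (nat_lit 100995743574) (nat_lit 76) (nat_lit 69212921596) (nat_lit 29) (nat_lit 5) (nat_lit 33) (nat_lit 5) (nat_lit 30) (nat_lit 5) (nat_lit 304) (nat_lit 282) (nat_lit 134))))))) (XT.nd (nat_lit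 702) (nat_lit 76) (nat_lit 0) (XT.nd (nat_lit 312) (nat_lit 456) (nat_lit 0) (XT.nd (nat_lit 156) (nat_lit 380) (nat_lit 0) (XT.nd (nat_lit 78) (nat_lit 0) (nat_lit 0) (XT.lf (nat_lit 0) (nat_lit 91995546740) (nat_lit 152) (nat_lit 100871486256) (nat_lit 228) (nat_lit 113398948557) (nat_lit 27) (nat_lit 5) (nat_lit 29) (nat_lit 5) (nat_lit 30) (nat_lit 5) (nat_lit 305) (nat_lit 282) (nat_lit 133)) (XT.lf (nat_lit 0) (nat_lit 274100170396) (nat_lit 228) (nat_lit 20265270848) (nat_lit 76) (nat_lit 29433697152) (nat_lit 27) (nat_lit 5) (nat_lit 30) (nat_lit 5) (nat_lit 28) (nat_lit 5) (nat_lit 306) (nat_lit 282) (nat_lit 132))) (XT.nd (nat_lit 78) (nat_lit 152) (nat_lit 0) (XT.lf (nat_lit 0) (nat_lit 23289078324) (nat_lit 228) (nat_lit 149113616677) (nat_lit 76) (nat_lit 170077180744) (nat_lit 24) (nat_lit 5) (nat_lit 27) (nat_lit 5) (nat_lit 25) (nat_lit 5) (nat_lit 307) (nat_lit 282) (nat_lit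 131)) (XT.lf (nat_lit 0) (nat_lit 63358312398) (nat_lit 152) (nat_lit 38387721534) (nat_lit 228) (nat_lit 260799747892) (nat_lit 22) (nat_lit 5) (nat_lit 24) (nat_lit 5) (nat_lit 25) (nat_lit 5) (nat_lit 308) (nat_lit 282) (nat_lit 130)))) (XT.nd (nat_lit 156) (nat_lit 304) (nat_lit 0) (XT.nd (nat_lit 78) (nat_lit 152) (nat_lit 0) (XT.lf (nat_lit 0) (nat_lit 190779797648) (nat_lit 228) (nat_lit 87637568872) (nat_lit 76) (nat_lit 105584581630) (nat_lit 22) (nat_lit 5) (nat_lit 25) (nat_lit 5) (nat_lit 23) (nat_lit 5) (nat_lit 309) (nat_lit 282) (nat_lit 129)) (XT.lf (nat_lit 0) (nat_lit 144824034350) (nat_lit 152) (nat_lit 145020448295) (nat_lit 228) (nat_lit 117184714443) (nat_lit 20) (nat_lit 5) (nat_lit 22) (nat_lit 5) (nat_lit 23) (nat_lit 5) (nat_lit 310) (nat_lit 282) (nat_lit 128))) (XT.nd (nat_lit 78) (nat_lit 304) (nat_lit 0) (XT.lf (nat_lit 0) (nat_lit 398370929949) (nat_lit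 228) (nat_lit 32820658426) (nat_lit 76) (nat_lit 630208482) (nat_lit 20) (nat_lit 5) (nat_lit 23) (nat_lit 5) (nat_lit 21) (nat_lit 4) (nat_lit 311) (nat_lit 282) (nat_lit 127)) (XT.nd (nat_lit 78) (nat_lit 152) (nat_lit 0) (XT.lf (nat_lit 0) (nat_lit 61126255461) (nat_lit 152) (nat_lit 239795876682) (nat_lit 76) (nat_lit 157332773686) (nat_lit 18) (nat_lit 5) (nat_lit 20) (nat_lit 5) (nat_lit 19) (nat_lit 5) (nat_lit 312) (nat_lit 282) (nat_lit 126)) (XT.lf (nat_lit 0) (nat_lit 3786562404) (nat_lit 152) (nat_lit 158966752620) (nat_lit 228) (nat_lit 323989143848) (nat_lit 16) (nat_lit 5) (nat_lit 18) (nat_lit 5) (nat_lit 19) (nat_lit 5) (nat_lit 313) (nat_lit 282) (nat_lit 125)))))) (XT.nd (nat_lit 35256) (nat_lit 0) (nat_lit 4408) (XT.nd (nat_lit 156) (nat_lit 0) (nat_lit 0) (XT.nd (nat_lit 78) (nat_lit 76) (nat_lit 0) (XT.lf (nat_lit 0) (nat_lit 275418395462) (nat_lit 152) (nat_lit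 1269089937) (nat_lit 228) (nat_lit 240612683678) (nat_lit 16) (nat_lit 5) (nat_lit 18) (nat_lit 5) (nat_lit 19) (nat_lit 5) (nat_lit 314) (nat_lit 282) (nat_lit 124)) (XT.lf (nat_lit 0) (nat_lit 16362501994) (nat_lit 76) (nat_lit 386268474418) (nat_lit 152) (nat_lit 147526790542) (nat_lit 15) (nat_lit 5) (nat_lit 16) (nat_lit 5) (nat_lit 17) (nat_lit 4) (nat_lit 315) (nat_lit 282) (nat_lit 123))) (XT.nd (nat_lit 34944) (nat_lit 0) (nat_lit 4332) (XT.lf (nat_lit 0) (nat_lit 303881520002) (nat_lit 76) (nat_lit 239002777670) (nat_lit 152) (nat_lit 42547957630) (nat_lit 15) (nat_lit 5) (nat_lit 16) (nat_lit 5) (nat_lit 17) (nat_lit 4) (nat_lit 316) (nat_lit 282) (nat_lit 122)) (XT.nd (nat_lit 78) (nat_lit 0) (nat_lit 0) (XT.lf (nat_lit 0) (nat_lit 13112223370) (nat_lit 0) (nat_lit 13112223370) (nat_lit 684) (nat_lit 29942855620) (nat_lit 72) (nat_lit 5) (nat_lit 72) (nat_lit 3) (nat_lit 81)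 (nat_lit 3) (nat_lit 283) (nat_lit 283) (nat_lit 154)) (XT.lf (nat_lit 0) (nat_lit 55379121036) (nat_lit 684) (nat_lit 10268510795) (nat_lit 760) (nat_lit 51138719136) (nat_lit 72) (nat_lit 5) (nat_lit 81) (nat_lit 3) (nat_lit 82) (nat_lit 5) (nat_lit 284) (nat_lit 283) (nat_lit 153))))) (XT.nd (nat_lit 156) (nat_lit 0) (nat_lit 76) (XT.nd (nat_lit 78) (nat_lit 0) (nat_lit 0) (XT.lf (nat_lit 0) (nat_lit 60343070467) (nat_lit 684) (nat_lit 48172267692) (nat_lit 760) (nat_lit 12988936006) (nat_lit 73) (nat_lit 5) (nat_lit 82) (nat_lit 5) (nat_lit 83) (nat_lit 5) (nat_lit 285) (nat_lit 283) (nat_lit 152)) (XT.lf (nat_lit 76) (nat_lit 37486037048) (nat_lit 0) (nat_lit 30091416222) (nat_lit 760) (nat_lit 58928514333) (nat_lit 74) (nat_lit 5) (nat_lit 73) (nat_lit 5) (nat_lit 83) (nat_lit 5) (nat_lit 286) (nat_lit 283) (nat_lit 151))) (XT.nd (nat_lit 78) (nat_lit 0) (nat_lit 76) (XT.lf (nat_lit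 0) (nat_lit 77095392900) (nat_lit 684) (nat_lit 1015393245) (nat_lit 760) (nat_lit 53711772151) (nat_lit 74) (nat_lit 5) (nat_lit 83) (nat_lit 5) (nat_lit 84) (nat_lit 5) (nat_lit 287) (nat_lit 283) (nat_lit 150)) (XT.nd (nat_lit 78) (nat_lit 0) (nat_lit 0) (XT.lf (nat_lit 0) (nat_lit 89502772532) (nat_lit 684) (nat_lit 40962569227) (nat_lit 760) (nat_lit 6992736177) (nat_lit 75) (nat_lit 5) (nat_lit 84) (nat_lit 5) (nat_lit 85) (nat_lit 5) (nat_lit 288) (nat_lit 283) (nat_lit 149)) (XT.lf (nat_lit 76) (nat_lit 58866255452) (nat_lit 0) (nat_lit 46290070308) (nat_lit 760) (nat_lit 38275436017) (nat_lit 76) (nat_lit 5) (nat_lit 75) (nat_lit 5) (nat_lit 85) (nat_lit 5) (nat_lit 289) (nat_lit 283) (nat_lit 148))))))))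
noncomputable def xc118 : XT := (XT.nd (nat_lit 1404) (nat_lit 836) (nat_lit 0) (XT.nd (nat_lit 702) (nat_lit 1444) (nat_lit 0) (XT.nd (nat_lit 312) (nat_lit 836) (nat_lit 0) (XT.nd (nat_lit 156) (nat_lit 760) (nat_lit 0) (XT.nd (nat_lit 78) (nat_lit 0) (nat_lit 0) (XT.lf (nat_lit 0) (nat_lit 18169234197) (nat_lit 684) (nat_lit 105597955621) (nat_lit 760) (nat_lit 26030900837) (nat_lit 67) (nat_lit 5) (nat_lit 76) (nat_lit 5) (nat_lit 77) (nat_lit 5) (nat_lit 290) (nat_lit 283) (nat_lit 147)) (XT.lf (nat_lit 0) (nat_lit 131335788041) (nat_lit 684) (nat_lit 14771672774) (nat_lit 760) (nat_lit 10454239673) (nat_lit 67) (nat_lit 5) (nat_lit 76) (nat_lit 5) (nat_lit 77) (nat_lit 5) (nat_lit 291) (nat_lit 283) (nat_lit 146))) (XT.nd (nat_lit 78) (nat_lit 380) (nat_lit 0) (XT.lf (nat_lit 0) (nat_lit 8935442986) (nat_lit 380) (nat_lit 72563738526) (nat_lit 76) (nat_lit 82223711295) (nat_lit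 62) (nat_lit 5) (nat_lit 67) (nat_lit 5) (nat_lit 63) (nat_lit 5) (nat_lit 292) (nat_lit 283) (nat_lit 145)) (XT.lf (nat_lit 0) (nat_lit 31207233879) (nat_lit 456) (nat_lit 124228195924) (nat_lit 76) (nat_lit 15928122951) (nat_lit 57) (nat_lit 5) (nat_lit 63) (nat_lit 5) (nat_lit 58) (nat_lit 5) (nat_lit 293) (nat_lit 283) (nat_lit 144)))) (XT.nd (nat_lit 156) (nat_lit 532) (nat_lit 0) (XT.nd (nat_lit 78) (nat_lit 304) (nat_lit 0) (XT.lf (nat_lit 0) (nat_lit 57919324495) (nat_lit 456) (nat_lit 1946026681) (nat_lit 76) (nat_lit 119617187659) (nat_lit 57) (nat_lit 5) (nat_lit 63) (nat_lit 5) (nat_lit 58) (nat_lit 5) (nat_lit 294) (nat_lit 283) (nat_lit 143)) (XT.lf (nat_lit 0) (nat_lit 89577915807) (nat_lit 380) (nat_lit 54436729891) (nat_lit 76) (nat_lit 44095922506) (nat_lit 53) (nat_lit 5) (nat_lit 58) (nat_lit 5) (nat_lit 54) (nat_lit 5) (nat_lit 295) (nat_lit 283) (nat_lit 142))) (XT.nd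 (nat_lit 78) (nat_lit 228) (nat_lit 0) (XT.lf (nat_lit 0) (nat_lit 84479111064) (nat_lit 304) (nat_lit 41652580178) (nat_lit 380) (nat_lit 71179024834) (nat_lit 49) (nat_lit 5) (nat_lit 53) (nat_lit 5) (nat_lit 54) (nat_lit 5) (nat_lit 296) (nat_lit 283) (nat_lit 141)) (XT.nd (nat_lit 78) (nat_lit 0) (nat_lit 0) (XT.lf (nat_lit 0) (nat_lit 29092169853) (nat_lit 228) (nat_lit 139010972178) (nat_lit 304) (nat_lit 39019066004) (nat_lit 46) (nat_lit 5) (nat_lit 49) (nat_lit 5) (nat_lit 50) (nat_lit 5) (nat_lit 297) (nat_lit 283) (nat_lit 140)) (XT.lf (nat_lit 0) (nat_lit 185673090454) (nat_lit 228) (nat_lit 30415368799) (nat_lit 304) (nat_lit 1497353432) (nat_lit 46) (nat_lit 5) (nat_lit 49) (nat_lit 5) (nat_lit 50) (nat_lit 5) (nat_lit 298) (nat_lit 283) (nat_lit 139)))))) (XT.nd (nat_lit 312) (nat_lit 608) (nat_lit 0) (XT.nd (nat_lit 156) (nat_lit 228) (nat_lit 0) (XT.nd (nat_lit 78) (nat_lit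 228) (nat_lit 0) (XT.lf (nat_lit 0) (nat_lit 41196801112) (nat_lit 380) (nat_lit 100727606085) (nat_lit 76) (nat_lit 86760644738) (nat_lit 41) (nat_lit 5) (nat_lit 46) (nat_lit 5) (nat_lit 42) (nat_lit 5) (nat_lit 299) (nat_lit 283) (nat_lit 138)) (XT.lf (nat_lit 0) (nat_lit 62567354962) (nat_lit 228) (nat_lit 26741816382) (nat_lit 304) (nat_lit 151259075172) (nat_lit 38) (nat_lit 5) (nat_lit 41) (nat_lit 5) (nat_lit 42) (nat_lit 5) (nat_lit 300) (nat_lit 283) (nat_lit 137))) (XT.nd (nat_lit 78) (nat_lit 228) (nat_lit 0) (XT.lf (nat_lit 0) (nat_lit 144578313071) (nat_lit 304) (nat_lit 12345294747) (nat_lit 76) (nat_lit 96313100398) (nat_lit 38) (nat_lit 5) (nat_lit 42) (nat_lit 5) (nat_lit 39) (nat_lit 5) (nat_lit 301) (nat_lit 283) (nat_lit 136)) (XT.lf (nat_lit 0) (nat_lit 171603903199) (nat_lit 228) (nat_lit 35794970065) (nat_lit 304) (nat_lit 59363279831) (nat_lit 35) (nat_lit 5)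 (nat_lit 38) (nat_lit 5) (nat_lit 39) (nat_lit 5) (nat_lit 302) (nat_lit 283) (nat_lit 135)))) (XT.nd (nat_lit 156) (nat_lit 380) (nat_lit 0) (XT.nd (nat_lit 78) (nat_lit 76) (nat_lit 0) (XT.lf (nat_lit 0) (nat_lit 90768728721) (nat_lit 152) (nat_lit 187595432053) (nat_lit 228) (nat_lit 2849519215) (nat_lit 33) (nat_lit 5) (nat_lit 35) (nat_lit 5) (nat_lit 36) (nat_lit 5) (nat_lit 303) (nat_lit 283) (nat_lit 134)) (XT.lf (nat_lit 0) (nat_lit 58611159449) (nat_lit 228) (nat_lit 3310009710) (nat_lit 76) (nat_lit 234740332976) (nat_lit 32) (nat_lit 5) (nat_lit 35) (nat_lit 5) (nat_lit 33) (nat_lit 5) (nat_lit 304) (nat_lit 283) (nat_lit 133))) (XT.nd (nat_lit 78) (nat_lit 152) (nat_lit 0) (XT.lf (nat_lit 0) (nat_lit 129301259330) (nat_lit 304) (nat_lit 109069279497) (nat_lit 76) (nat_lit 74751655995) (nat_lit 29) (nat_lit 5) (nat_lit 33) (nat_lit 5) (nat_lit 30) (nat_lit 5) (nat_lit 305)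 (nat_lit 283) (nat_lit 132)) (XT.nd (nat_lit 78) (nat_lit 0) (nat_lit 0) (XT.lf (nat_lit 0) (nat_lit 99361047920) (nat_lit 152) (nat_lit 108939331656) (nat_lit 228) (nat_lit 122466673148) (nat_lit 27) (nat_lit 5) (nat_lit 29) (nat_lit 5) (nat_lit 30) (nat_lit 5) (nat_lit 306) (nat_lit 283) (nat_lit 131)) (XT.lf (nat_lit 0) (nat_lit 296031899945) (nat_lit 228) (nat_lit 21880904049) (nat_lit 76) (nat_lit 31790072125) (nat_lit 27) (nat_lit 5) (nat_lit 30) (nat_lit 5) (nat_lit 28) (nat_lit 5) (nat_lit 307) (nat_lit 283) (nat_lit 130))))))) (XT.nd (nat_lit 35724) (nat_lit 0) (nat_lit 3116) (XT.nd (nat_lit 312) (nat_lit 304) (nat_lit 0) (XT.nd (nat_lit 156) (nat_lit 152) (nat_lit 0) (XT.nd (nat_lit 78) (nat_lit 152) (nat_lit 0) (XT.lf (nat_lit 0) (nat_lit 25155793256) (nat_lit 228) (nat_lit 161037235095) (nat_lit 76) (nat_lit 183685051360) (nat_lit 24) (nat_lit 5) (nat_lit 27) (nat_lit 5) (nat_lit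 25) (nat_lit 5) (nat_lit 308) (nat_lit 283) (nat_lit 129)) (XT.lf (nat_lit 0) (nat_lit 68432210547) (nat_lit 152) (nat_lit 41456910643) (nat_lit 228) (nat_lit 281660146786) (nat_lit 22) (nat_lit 5) (nat_lit 24) (nat_lit 5) (nat_lit 25) (nat_lit 5) (nat_lit 309) (nat_lit 283) (nat_lit 128))) (XT.nd (nat_lit 78) (nat_lit 152) (nat_lit 0) (XT.lf (nat_lit 0) (nat_lit 206045360250) (nat_lit 228) (nat_lit 94643591972) (nat_lit 76) (nat_lit 114032987130) (nat_lit 22) (nat_lit 5) (nat_lit 25) (nat_lit 5) (nat_lit 23) (nat_lit 5) (nat_lit 310) (nat_lit 283) (nat_lit 127)) (XT.lf (nat_lit 0) (nat_lit 156414722977) (nat_lit 152) (nat_lit 156620336011) (nat_lit 228) (nat_lit 126556317693) (nat_lit 20) (nat_lit 5) (nat_lit 22) (nat_lit 5) (nat_lit 23) (nat_lit 5) (nat_lit 311) (nat_lit 283) (nat_lit 126)))) (XT.nd (nat_lit 156) (nat_lit 152) (nat_lit 0) (XT.nd (nat_lit 78) (nat_lit 152) (nat_lit 0)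 (XT.lf (nat_lit 0) (nat_lit 430243423814) (nat_lit 228) (nat_lit 35441778915) (nat_lit 76) (nat_lit 682192008) (nat_lit 20) (nat_lit 5) (nat_lit 23) (nat_lit 5) (nat_lit 21) (nat_lit 4) (nat_lit 312) (nat_lit 283) (nat_lit 125)) (XT.lf (nat_lit 0) (nat_lit 66019082496) (nat_lit 152) (nat_lit 258975117124) (nat_lit 76) (nat_lit 169920958028) (nat_lit 18) (nat_lit 5) (nat_lit 20) (nat_lit 5) (nat_lit 19) (nat_lit 5) (nat_lit 313) (nat_lit 283) (nat_lit 124))) (XT.nd (nat_lit 78) (nat_lit 0) (nat_lit 0) (XT.lf (nat_lit 0) (nat_lit 4093724580) (nat_lit 152) (nat_lit 171682446429) (nat_lit 228) (nat_lit 349905551036) (nat_lit 16) (nat_lit 5) (nat_lit 18) (nat_lit 5) (nat_lit 19) (nat_lit 5) (nat_lit 314) (nat_lit 283) (nat_lit 123)) (XT.nd (nat_lit 35100) (nat_lit 0) (nat_lit 4256) (XT.lf (nat_lit 0) (nat_lit 297455790418) (nat_lit 152) (nat_lit 1369092687) (nat_lit 228) (nat_lit 259859175855)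 (nat_lit 16) (nat_lit 5) (nat_lit 18) (nat_lit 5) (nat_lit 19) (nat_lit 5) (nat_lit 315) (nat_lit 283) (nat_lit 122)) (XT.lf (nat_lit 0) (nat_lit 14164838490) (nat_lit 0) (nat_lit 14164838490) (nat_lit 684) (nat_lit 32330622077) (nat_lit 72) (nat_lit 5) (nat_lit 72) (nat_lit 3) (nat_lit 81) (nat_lit 3) (nat_lit 284) (nat_lit 284) (nat_lit 152)))))) (XT.nd (nat_lit 390) (nat_lit 1140) (nat_lit 0) (XT.nd (nat_lit 156) (nat_lit 0) (nat_lit 76) (XT.nd (nat_lit 78) (nat_lit 0) (nat_lit 76) (XT.lf (nat_lit 0) (nat_lit 59822816853) (nat_lit 684) (nat_lit 11082433270) (nat_lit 760) (nat_lit 55223296601) (nat_lit 72) (nat_lit 5) (nat_lit 81) (nat_lit 3) (nat_lit 82) (nat_lit 5) (nat_lit 285) (nat_lit 284) (nat_lit 151)) (XT.lf (nat_lit 0) (nat_lit 65182922926) (nat_lit 684) (nat_lit 52018071888) (nat_lit 760) (nat_lit 14022960189) (nat_lit 73) (nat_lit 5) (nat_lit 82) (nat_lit 5) (nat_lit 83)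 (nat_lit 5) (nat_lit 286) (nat_lit 284) (nat_lit 150))) (XT.nd (nat_lit 78) (nat_lit 0) (nat_lit 76) (XT.lf (nat_lit 76) (nat_lit 40492550551) (nat_lit 0) (nat_lit 32502705913) (nat_lit 760) (nat_lit 63630570467) (nat_lit 74) (nat_lit 5) (nat_lit 73) (nat_lit 5) (nat_lit 83) (nat_lit 5) (nat_lit 287) (nat_lit 284) (nat_lit 149)) (XT.nd (nat_lit 78) (nat_lit 0) (nat_lit 76) (XT.lf (nat_lit 0) (nat_lit 83273714007) (nat_lit 684) (nat_lit 1088929610) (nat_lit 760) (nat_lit 58005149919) (nat_lit 74) (nat_lit 5) (nat_lit 83) (nat_lit 5) (nat_lit 84) (nat_lit 5) (nat_lit 288) (nat_lit 284) (nat_lit 148)) (XT.lf (nat_lit 0) (nat_lit 96672965696) (nat_lit 684) (nat_lit 44231639694) (nat_lit 760) (nat_lit 7549587862) (nat_lit 75) (nat_lit 5) (nat_lit 84) (nat_lit 5) (nat_lit 85) (nat_lit 5) (nat_lit 289) (nat_lit 284) (nat_lit 147))))) (XT.nd (nat_lit 156) (nat_lit 760) (nat_lit 0) (XT.nd (nat_lit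 78) (nat_lit 608) (nat_lit 0) (XT.lf (nat_lit 76) (nat_lit 63583146111) (nat_lit 0) (nat_lit 49995036957) (nat_lit 760) (nat_lit 41327622135) (nat_lit 76) (nat_lit 5) (nat_lit 75) (nat_lit 5) (nat_lit 85) (nat_lit 5) (nat_lit 290) (nat_lit 284) (nat_lit 146)) (XT.lf (nat_lit 0) (nat_lit 19630535490) (nat_lit 684) (nat_lit 114046783814) (nat_lit 760) (nat_lit 28104153154) (nat_lit 67) (nat_lit 5) (nat_lit 76) (nat_lit 5) (nat_lit 77) (nat_lit 5) (nat_lit 291) (nat_lit 284) (nat_lit 145))) (XT.nd (nat_lit 78) (nat_lit 760) (nat_lit 0) (XT.lf (nat_lit 0) (nat_lit 141849838637) (nat_lit 684) (nat_lit 15954324877) (nat_lit 760) (nat_lit 11282042041) (nat_lit 67) (nat_lit 5) (nat_lit 76) (nat_lit 5) (nat_lit 77) (nat_lit 5) (nat_lit 292) (nat_lit 284) (nat_lit 144)) (XT.nd (nat_lit 78) (nat_lit 380) (nat_lit 0) (XT.lf (nat_lit 0) (nat_lit 9658032251) (nat_lit 380) (nat_lit 78361257438) (nat_lit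 76) (nat_lit 88801024206) (nat_lit 62) (nat_lit 5) (nat_lit 67) (nat_lit 5) (nat_lit 63) (nat_lit 5) (nat_lit 293) (nat_lit 284) (nat_lit 143)) (XT.lf (nat_lit 0) (nat_lit 33711104608) (nat_lit 456) (nat_lit 134158814595) (nat_lit 76) (nat_lit 17202332202) (nat_lit 57) (nat_lit 5) (nat_lit 63) (nat_lit 5) (nat_lit 58) (nat_lit 5) (nat_lit 294) (nat_lit 284) (nat_lit 142))))))))
noncomputable def xc119 : XT := (XT.nd (nat_lit 1404) (nat_lit 304) (nat_lit 0) (XT.nd (nat_lit 702) (nat_lit 1140) (nat_lit 0) (XT.nd (nat_lit 312) (nat_lit 836) (nat_lit 0) (XT.nd (nat_lit 156) (nat_lit 532) (nat_lit 0) (XT.nd (nat_lit 78) (nat_lit 304) (nat_lit 0) (XT.lf (nat_lit 0) (nat_lit 62559622323) (nat_lit 456) (nat_lit 2094637516) (nat_lit 76) (nat_lit 129186525093) (nat_lit 57) (nat_lit 5) (nat_lit 63) (nat_lit 5) (nat_lit 58) (nat_lit 5) (nat_lit 295) (nat_lit 284) (nat_lit 141)) (XT.lf (nat_lit 0)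 (nat_lit 96750512755) (nat_lit 380) (nat_lit 58784574798) (nat_lit 76) (nat_lit 47623989945) (nat_lit 53) (nat_lit 5) (nat_lit 58) (nat_lit 5) (nat_lit 54) (nat_lit 5) (nat_lit 296) (nat_lit 284) (nat_lit 140))) (XT.nd (nat_lit 78) (nat_lit 228) (nat_lit 0) (XT.lf (nat_lit 0) (nat_lit 91244225160) (nat_lit 304) (nat_lit 44983999618) (nat_lit 380) (nat_lit 76867032027) (nat_lit 49) (nat_lit 5) (nat_lit 53) (nat_lit 5) (nat_lit 54) (nat_lit 5) (nat_lit 297) (nat_lit 284) (nat_lit 139)) (XT.lf (nat_lit 0) (nat_lit 31426324822) (nat_lit 228) (nat_lit 150130739746) (nat_lit 304) (nat_lit 42134621137) (nat_lit 46) (nat_lit 5) (nat_lit 49) (nat_lit 5) (nat_lit 50) (nat_lit 5) (nat_lit 298) (nat_lit 284) (nat_lit 138)))) (XT.nd (nat_lit 156) (nat_lit 456) (nat_lit 0) (XT.nd (nat_lit 78) (nat_lit 380) (nat_lit 0) (XT.lf (nat_lit 0) (nat_lit 200533216747) (nat_lit 228) (nat_lit 32847570335) (nat_lit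 304) (nat_lit 1611613792) (nat_lit 46) (nat_lit 5) (nat_lit 49) (nat_lit 5) (nat_lit 50) (nat_lit 5) (nat_lit 299) (nat_lit 284) (nat_lit 137)) (XT.lf (nat_lit 0) (nat_lit 44497614191) (nat_lit 380) (nat_lit 108779378763) (nat_lit 76) (nat_lit 93702597101) (nat_lit 41) (nat_lit 5) (nat_lit 46) (nat_lit 5) (nat_lit 42) (nat_lit 5) (nat_lit 300) (nat_lit 284) (nat_lit 136))) (XT.nd (nat_lit 78) (nat_lit 228) (nat_lit 0) (XT.lf (nat_lit 0) (nat_lit 67578899475) (nat_lit 228) (nat_lit 28879795200) (nat_lit 304) (nat_lit 163354760429) (nat_lit 38) (nat_lit 5) (nat_lit 41) (nat_lit 5) (nat_lit 42) (nat_lit 5) (nat_lit 301) (nat_lit 284) (nat_lit 135)) (XT.nd (nat_lit 78) (nat_lit 228) (nat_lit 0) (XT.lf (nat_lit 0) (nat_lit 156149032708) (nat_lit 304) (nat_lit 13327005443) (nat_lit 76) (nat_lit 104019373204) (nat_lit 38) (nat_lit 5) (nat_lit 42) (nat_lit 5) (nat_lit 39) (nat_lit 5) (nat_lit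 302) (nat_lit 284) (nat_lit 134)) (XT.lf (nat_lit 0) (nat_lit 185337871372) (nat_lit 228) (nat_lit 38657124678) (nat_lit 304) (nat_lit 64107908654) (nat_lit 35) (nat_lit 5) (nat_lit 38) (nat_lit 5) (nat_lit 39) (nat_lit 5) (nat_lit 303) (nat_lit 284) (nat_lit 133)))))) (XT.nd (nat_lit 312) (nat_lit 532) (nat_lit 0) (XT.nd (nat_lit 156) (nat_lit 380) (nat_lit 0) (XT.nd (nat_lit 78) (nat_lit 76) (nat_lit 0) (XT.lf (nat_lit 0) (nat_lit 98035826635) (nat_lit 152) (nat_lit 202601476144) (nat_lit 228) (nat_lit 3073261902) (nat_lit 33) (nat_lit 5) (nat_lit 35) (nat_lit 5) (nat_lit 36) (nat_lit 5) (nat_lit 304) (nat_lit 284) (nat_lit 132)) (XT.lf (nat_lit 0) (nat_lit 63303833521) (nat_lit 228) (nat_lit 3569492472) (nat_lit 76) (nat_lit 253520899090) (nat_lit 32) (nat_lit 5) (nat_lit 35) (nat_lit 5) (nat_lit 33) (nat_lit 5) (nat_lit 305) (nat_lit 284) (nat_lit 131))) (XT.nd (nat_lit 78) (nat_lit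 152) (nat_lit 0) (XT.lf (nat_lit 0) (nat_lit 139648964233) (nat_lit 304) (nat_lit 117789571889) (nat_lit 76) (nat_lit 80733246525) (nat_lit 29) (nat_lit 5) (nat_lit 33) (nat_lit 5) (nat_lit 30) (nat_lit 5) (nat_lit 306) (nat_lit 284) (nat_lit 130)) (XT.lf (nat_lit 0) (nat_lit 107314953564) (nat_lit 152) (nat_lit 117652871964) (nat_lit 228) (nat_lit 132260413640) (nat_lit 27) (nat_lit 5) (nat_lit 29) (nat_lit 5) (nat_lit 30) (nat_lit 5) (nat_lit 307) (nat_lit 284) (nat_lit 129)))) (XT.nd (nat_lit 156) (nat_lit 304) (nat_lit 0) (XT.nd (nat_lit 78) (nat_lit 228) (nat_lit 0) (XT.lf (nat_lit 0) (nat_lit 319717637740) (nat_lit 228) (nat_lit 23626585164) (nat_lit 76) (nat_lit 34334717539) (nat_lit 27) (nat_lit 5) (nat_lit 30) (nat_lit 5) (nat_lit 28) (nat_lit 5) (nat_lit 308) (nat_lit 284) (nat_lit 128)) (XT.lf (nat_lit 0) (nat_lit 27171333419) (nat_lit 228) (nat_lit 173915523474) (nat_lit 76)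 (nat_lit 198381309650) (nat_lit 24) (nat_lit 5) (nat_lit 27) (nat_lit 5) (nat_lit 25) (nat_lit 5) (nat_lit 309) (nat_lit 284) (nat_lit 127))) (XT.nd (nat_lit 78) (nat_lit 152) (nat_lit 0) (XT.lf (nat_lit 0) (nat_lit 73911273980) (nat_lit 152) (nat_lit 44771895753) (nat_lit 228) (nat_lit 304189888453) (nat_lit 22) (nat_lit 5) (nat_lit 24) (nat_lit 5) (nat_lit 25) (nat_lit 5) (nat_lit 310) (nat_lit 284) (nat_lit 126)) (XT.nd (nat_lit 78) (nat_lit 152) (nat_lit 0) (XT.lf (nat_lit 0) (nat_lit 222531714370) (nat_lit 228) (nat_lit 102210807718) (nat_lit 76) (nat_lit 123157031252) (nat_lit 22) (nat_lit 5) (nat_lit 25) (nat_lit 5) (nat_lit 23) (nat_lit 5) (nat_lit 311) (nat_lit 284) (nat_lit 125)) (XT.lf (nat_lit 0) (nat_lit 168931986789) (nat_lit 152) (nat_lit 169148464138) (nat_lit 228) (nat_lit 136678101995) (nat_lit 20) (nat_lit 5) (nat_lit 22) (nat_lit 5) (nat_lit 23) (nat_lit 5) (nat_lit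 312) (nat_lit 284) (nat_lit 124))))))) (XT.nd (nat_lit 35880) (nat_lit 0) (nat_lit 1900) (XT.nd (nat_lit 35490) (nat_lit 0) (nat_lit 4332) (XT.nd (nat_lit 35334) (nat_lit 0) (nat_lit 4256) (XT.nd (nat_lit 156) (nat_lit 304) (nat_lit 0) (XT.lf (nat_lit 0) (nat_lit 464665314959) (nat_lit 228) (nat_lit 38273235610) (nat_lit 76) (nat_lit 738110688) (nat_lit 20) (nat_lit 5) (nat_lit 23) (nat_lit 5) (nat_lit 21) (nat_lit 4) (nat_lit 313) (nat_lit 284) (nat_lit 123)) (XT.lf (nat_lit 0) (nat_lit 4424855249) (nat_lit 152) (nat_lit 185415630620) (nat_lit 228) (nat_lit 377895659455) (nat_lit 16) (nat_lit 5) (nat_lit 18) (nat_lit 5) (nat_lit 19) (nat_lit 5) (nat_lit 315) (nat_lit 284) (nat_lit 121))) (XT.nd (nat_lit 78) (nat_lit 0) (nat_lit 0) (XT.lf (nat_lit 0) (nat_lit 15301143925) (nat_lit 0) (nat_lit 15301143925) (nat_lit 684) (nat_lit 34910502919) (nat_lit 72) (nat_lit 5) (nat_lit 72) (nat_lit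 3) (nat_lit 81) (nat_lit 3) (nat_lit 285) (nat_lit 285) (nat_lit 150)) (XT.lf (nat_lit 0) (nat_lit 64620101508) (nat_lit 684) (nat_lit 11962547831) (nat_lit 760) (nat_lit 59635570424) (nat_lit 72) (nat_lit 5) (nat_lit 81) (nat_lit 3) (nat_lit 82) (nat_lit 5) (nat_lit 286) (nat_lit 285) (nat_lit 149)))) (XT.nd (nat_lit 156) (nat_lit 0) (nat_lit 76) (XT.nd (nat_lit 78) (nat_lit 0) (nat_lit 0) (XT.lf (nat_lit 0) (nat_lit 70408193610) (nat_lit 684) (nat_lit 56172678460) (nat_lit 760) (nat_lit 15140432552) (nat_lit 73) (nat_lit 5) (nat_lit 82) (nat_lit 5) (nat_lit 83) (nat_lit 5) (nat_lit 287) (nat_lit 285) (nat_lit 148)) (XT.lf (nat_lit 76) (nat_lit 43738496551) (nat_lit 0) (nat_lit 35106331503) (nat_lit 760) (nat_lit 68710535126) (nat_lit 74) (nat_lit 5) (nat_lit 73) (nat_lit 5) (nat_lit 83) (nat_lit 5) (nat_lit 288) (nat_lit 285) (nat_lit 147))) (XT.nd (nat_lit 78) (nat_lit 0) (nat_lit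 76) (XT.lf (nat_lit 0) (nat_lit 89944775802) (nat_lit 684) (nat_lit 1169446676) (nat_lit 760) (nat_lit 62642506354) (nat_lit 74) (nat_lit 5) (nat_lit 83) (nat_lit 5) (nat_lit 84) (nat_lit 5) (nat_lit 289) (nat_lit 285) (nat_lit 146)) (XT.nd (nat_lit 78) (nat_lit 0) (nat_lit 0) (XT.lf (nat_lit 0) (nat_lit 104415351788) (nat_lit 684) (nat_lit 47763367825) (nat_lit 760) (nat_lit 8151353922) (nat_lit 75) (nat_lit 5) (nat_lit 84) (nat_lit 5) (nat_lit 85) (nat_lit 5) (nat_lit 290) (nat_lit 285) (nat_lit 145)) (XT.lf (nat_lit 76) (nat_lit 68676305192) (nat_lit 0) (nat_lit 53996149708) (nat_lit 760) (nat_lit 44625388178) (nat_lit 76) (nat_lit 5) (nat_lit 75) (nat_lit 5) (nat_lit 85) (nat_lit 5) (nat_lit 291) (nat_lit 285) (nat_lit 144)))))) (XT.nd (nat_lit 390) (nat_lit 1216) (nat_lit 0) (XT.nd (nat_lit 156) (nat_lit 760) (nat_lit 0) (XT.nd (nat_lit 78) (nat_lit 0) (nat_lit 0) (XT.lf (nat_lit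 0) (nat_lit 21207633470) (nat_lit 684) (nat_lit 123171376779) (nat_lit 760) (nat_lit 30344580957) (nat_lit 67) (nat_lit 5) (nat_lit 76) (nat_lit 5) (nat_lit 77) (nat_lit 5) (nat_lit 292) (nat_lit 285) (nat_lit 143)) (XT.lf (nat_lit 0) (nat_lit 153203987895) (nat_lit 684) (nat_lit 17231458144) (nat_lit 760) (nat_lit 12177286470) (nat_lit 67) (nat_lit 5) (nat_lit 76) (nat_lit 5) (nat_lit 77) (nat_lit 5) (nat_lit 293) (nat_lit 285) (nat_lit 142))) (XT.nd (nat_lit 78) (nat_lit 380) (nat_lit 0) (XT.lf (nat_lit 0) (nat_lit 10437322486) (nat_lit 380) (nat_lit 84623659258) (nat_lit 76) (nat_lit 95904605462) (nat_lit 62) (nat_lit 5) (nat_lit 67) (nat_lit 5) (nat_lit 63) (nat_lit 5) (nat_lit 294) (nat_lit 285) (nat_lit 141)) (XT.nd (nat_lit 78) (nat_lit 0) (nat_lit 0) (XT.lf (nat_lit 0) (nat_lit 36414244706) (nat_lit 456) (nat_lit 144884972263) (nat_lit 76) (nat_lit 18578483983) (nat_lit 57) (nat_lit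 5) (nat_lit 63) (nat_lit 5) (nat_lit 58) (nat_lit 5) (nat_lit 295) (nat_lit 285) (nat_lit 140)) (XT.lf (nat_lit 0) (nat_lit 67570180748) (nat_lit 456) (nat_lit 2256146018) (nat_lit 76) (nat_lit 139521414883) (nat_lit 57) (nat_lit 5) (nat_lit 63) (nat_lit 5) (nat_lit 58) (nat_lit 5) (nat_lit 296) (nat_lit 285) (nat_lit 139))))) (XT.nd (nat_lit 156) (nat_lit 608) (nat_lit 0) (XT.nd (nat_lit 78) (nat_lit 304) (nat_lit 0) (XT.lf (nat_lit 0) (nat_lit 104496009609) (nat_lit 380) (nat_lit 63481259262) (nat_lit 76) (nat_lit 51434246622) (nat_lit 53) (nat_lit 5) (nat_lit 58) (nat_lit 5) (nat_lit 54) (nat_lit 5) (nat_lit 297) (nat_lit 285) (nat_lit 138)) (XT.lf (nat_lit 0) (nat_lit 98549580397) (nat_lit 304) (nat_lit 48582044884) (nat_lit 380) (nat_lit 83010980671) (nat_lit 49) (nat_lit 5) (nat_lit 53) (nat_lit 5) (nat_lit 54) (nat_lit 5) (nat_lit 298) (nat_lit 285) (nat_lit 137))) (XT.nd (nat_lit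 78) (nat_lit 380) (nat_lit 0) (XT.lf (nat_lit 0) (nat_lit 33946244750) (nat_lit 228) (nat_lit 162140247104) (nat_lit 304) (nat_lit 45500272389) (nat_lit 46) (nat_lit 5) (nat_lit 49) (nat_lit 5) (nat_lit 50) (nat_lit 5) (nat_lit 299) (nat_lit 285) (nat_lit 136)) (XT.nd (nat_lit 78) (nat_lit 380) (nat_lit 0) (XT.lf (nat_lit 0) (nat_lit 216581257365) (nat_lit 228) (nat_lit 35474494645) (nat_lit 304) (nat_lit 1735803600) (nat_lit 46) (nat_lit 5) (nat_lit 49) (nat_lit 5) (nat_lit 50) (nat_lit 5) (nat_lit 300) (nat_lit 285) (nat_lit 135)) (XT.lf (nat_lit 0) (nat_lit 48061769168) (nat_lit 380) (nat_lit 117476211396) (nat_lit 76) (nat_lit 101199748614) (nat_lit 41) (nat_lit 5) (nat_lit 46) (nat_lit 5) (nat_lit 42) (nat_lit 5) (nat_lit 301) (nat_lit 285) (nat_lit 134))))))))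
noncomputable def xc120 : XT := (XT.nd (nat_lit 36660) (nat_lit 0) (nat_lit 836) (XT.nd (nat_lit 702) (nat_lit 456) (nat_lit 0) (XT.nd (nat_lit 312) (nat_lit 684) (nat_lit 0) (XT.nd (nat_lit 156) (nat_lit 380) (nat_lit 0) (XT.nd (nat_lit 78) (nat_lit 0) (nat_lit 0) (XT.lf (nat_lit 0) (nat_lit 72990489310) (nat_lit 228) (nat_lit 31189007269) (nat_lit 304) (nat_lit 176418819626) (nat_lit 38) (nat_lit 5) (nat_lit 41) (nat_lit 5) (nat_lit 42) (nat_lit 5) (nat_lit 302) (nat_lit 285) (nat_lit 133)) (XT.lf (nat_lit 0) (nat_lit 168644774418) (nat_lit 304) (nat_lit 14388096533) (nat_lit 76) (nat_lit 112341973107) (nat_lit 38) (nat_lit 5) (nat_lit 42) (nat_lit 5) (nat_lit 39) (nat_lit 5) (nat_lit 303) (nat_lit 285) (nat_lit 132))) (XT.nd (nat_lit 78) (nat_lit 152) (nat_lit 0) (XT.lf (nat_lit 0) (nat_lit 200169750120) (nat_lit 228) (nat_lit 41748457520) (nat_lit 304) (nat_lit 69232740281) (nat_lit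 35) (nat_lit 5) (nat_lit 38) (nat_lit 5) (nat_lit 39) (nat_lit 5) (nat_lit 304) (nat_lit 285) (nat_lit 131)) (XT.lf (nat_lit 0) (nat_lit 105883493534) (nat_lit 152) (nat_lit 218808230662) (nat_lit 228) (nat_lit 3315505869) (nat_lit 33) (nat_lit 5) (nat_lit 35) (nat_lit 5) (nat_lit 36) (nat_lit 5) (nat_lit 305) (nat_lit 285) (nat_lit 130)))) (XT.nd (nat_lit 156) (nat_lit 380) (nat_lit 0) (XT.nd (nat_lit 78) (nat_lit 228) (nat_lit 0) (XT.lf (nat_lit 0) (nat_lit 68371382072) (nat_lit 228) (nat_lit 3850492530) (nat_lit 76) (nat_lit 273803719401) (nat_lit 32) (nat_lit 5) (nat_lit 35) (nat_lit 5) (nat_lit 33) (nat_lit 5) (nat_lit 306) (nat_lit 285) (nat_lit 129)) (XT.lf (nat_lit 0) (nat_lit 150823971354) (nat_lit 304) (nat_lit 127208236639) (nat_lit 76) (nat_lit 87193156291) (nat_lit 29) (nat_lit 5) (nat_lit 33) (nat_lit 5) (nat_lit 30) (nat_lit 5) (nat_lit 307) (nat_lit 285) (nat_lit 128)))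 (XT.nd (nat_lit 78) (nat_lit 228) (nat_lit 0) (XT.lf (nat_lit 0) (nat_lit 115904455243) (nat_lit 152) (nat_lit 127063724643) (nat_lit 228) (nat_lit 142838166005) (nat_lit 27) (nat_lit 5) (nat_lit 29) (nat_lit 5) (nat_lit 30) (nat_lit 5) (nat_lit 308) (nat_lit 285) (nat_lit 127)) (XT.nd (nat_lit 78) (nat_lit 228) (nat_lit 0) (XT.lf (nat_lit 0) (nat_lit 345297780070) (nat_lit 228) (nat_lit 25512604288) (nat_lit 76) (nat_lit 37082729204) (nat_lit 27) (nat_lit 5) (nat_lit 30) (nat_lit 5) (nat_lit 28) (nat_lit 5) (nat_lit 309) (nat_lit 285) (nat_lit 126)) (XT.lf (nat_lit 0) (nat_lit 29347677869) (nat_lit 228) (nat_lit 187824744065) (nat_lit 76) (nat_lit 214253061148) (nat_lit 24) (nat_lit 5) (nat_lit 27) (nat_lit 5) (nat_lit 25) (nat_lit 5) (nat_lit 310) (nat_lit 285) (nat_lit 125)))))) (XT.nd (nat_lit 35568) (nat_lit 0) (nat_lit 4104) (XT.nd (nat_lit 156) (nat_lit 304) (nat_lit 0) (XT.nd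 (nat_lit 78) (nat_lit 0) (nat_lit 0) (XT.lf (nat_lit 0) (nat_lit 79828022425) (nat_lit 152) (nat_lit 48352303327) (nat_lit 228) (nat_lit 328522447433) (nat_lit 22) (nat_lit 5) (nat_lit 24) (nat_lit 5) (nat_lit 25) (nat_lit 5) (nat_lit 311) (nat_lit 285) (nat_lit 124)) (XT.lf (nat_lit 0) (nat_lit 240336588025) (nat_lit 228) (nat_lit 110384010116) (nat_lit 76) (nat_lit 133010798444) (nat_lit 22) (nat_lit 5) (nat_lit 25) (nat_lit 5) (nat_lit 23) (nat_lit 5) (nat_lit 312) (nat_lit 285) (nat_lit 123))) (XT.nd (nat_lit 156) (nat_lit 152) (nat_lit 0) (XT.lf (nat_lit 0) (nat_lit 182450048796) (nat_lit 152) (nat_lit 182679056329) (nat_lit 228) (nat_lit 147610017238) (nat_lit 20) (nat_lit 5) (nat_lit 22) (nat_lit 5) (nat_lit 23) (nat_lit 5) (nat_lit 313) (nat_lit 285) (nat_lit 122)) (XT.lf (nat_lit 0) (nat_lit 77009186583) (nat_lit 152) (nat_lit 302061219090) (nat_lit 76) (nat_lit 198198400600)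 (nat_lit 18) (nat_lit 5) (nat_lit 20) (nat_lit 5) (nat_lit 19) (nat_lit 5) (nat_lit 315) (nat_lit 285) (nat_lit 120)))) (XT.nd (nat_lit 156) (nat_lit 0) (nat_lit 76) (XT.nd (nat_lit 78) (nat_lit 0) (nat_lit 0) (XT.lf (nat_lit 0) (nat_lit 16527908927) (nat_lit 0) (nat_lit 16527908927) (nat_lit 684) (nat_lit 37697711359) (nat_lit 72) (nat_lit 5) (nat_lit 72) (nat_lit 3) (nat_lit 81) (nat_lit 3) (nat_lit 286) (nat_lit 286) (nat_lit 148)) (XT.lf (nat_lit 0) (nat_lit 69799534136) (nat_lit 684) (nat_lit 12913996016) (nat_lit 760) (nat_lit 64401623615) (nat_lit 72) (nat_lit 5) (nat_lit 81) (nat_lit 3) (nat_lit 82) (nat_lit 5) (nat_lit 287) (nat_lit 286) (nat_lit 147))) (XT.nd (nat_lit 78) (nat_lit 0) (nat_lit 0) (XT.lf (nat_lit 0) (nat_lit 76049968484) (nat_lit 684) (nat_lit 60660629244) (nat_lit 760) (nat_lit 16347925341) (nat_lit 73) (nat_lit 5) (nat_lit 82) (nat_lit 5) (nat_lit 83) (nat_lit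 5) (nat_lit 288) (nat_lit 286) (nat_lit 146)) (XT.nd (nat_lit 78) (nat_lit 0) (nat_lit 76) (XT.lf (nat_lit 76) (nat_lit 47243184949) (nat_lit 0) (nat_lit 37917760791) (nat_lit 760) (nat_lit 74198392186) (nat_lit 74) (nat_lit 5) (nat_lit 73) (nat_lit 5) (nat_lit 83) (nat_lit 5) (nat_lit 289) (nat_lit 286) (nat_lit 145)) (XT.lf (nat_lit 0) (nat_lit 97148215096) (nat_lit 684) (nat_lit 1257346286) (nat_lit 760) (nat_lit 67651287213) (nat_lit 74) (nat_lit 5) (nat_lit 83) (nat_lit 5) (nat_lit 84) (nat_lit 5) (nat_lit 290) (nat_lit 286) (nat_lit 144))))))) (XT.nd (nat_lit 702) (nat_lit 1520) (nat_lit 0) (XT.nd (nat_lit 312) (nat_lit 1368) (nat_lit 0) (XT.nd (nat_lit 156) (nat_lit 608) (nat_lit 0) (XT.nd (nat_lit 78) (nat_lit 0) (nat_lit 0) (XT.lf (nat_lit 0) (nat_lit 112775909179) (nat_lit 684) (nat_lit 51578604736) (nat_lit 760) (nat_lit 8801575261) (nat_lit 75) (nat_lit 5) (nat_lit 84) (nat_lit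 5) (nat_lit 85) (nat_lit 5) (nat_lit 291) (nat_lit 286) (nat_lit 143)) (XT.lf (nat_lit 76) (nat_lit 74175988648) (nat_lit 0) (nat_lit 58317136090) (nat_lit 760) (nat_lit 48188180097) (nat_lit 76) (nat_lit 5) (nat_lit 75) (nat_lit 5) (nat_lit 85) (nat_lit 5) (nat_lit 292) (nat_lit 286) (nat_lit 142))) (XT.nd (nat_lit 78) (nat_lit 0) (nat_lit 0) (XT.lf (nat_lit 0) (nat_lit 22909949858) (nat_lit 684) (nat_lit 133025815882) (nat_lit 760) (nat_lit 32765370642) (nat_lit 67) (nat_lit 5) (nat_lit 76) (nat_lit 5) (nat_lit 77) (nat_lit 5) (nat_lit 293) (nat_lit 286) (nat_lit 141)) (XT.lf (nat_lit 0) (nat_lit 165465589992) (nat_lit 684) (nat_lit 18610649760) (nat_lit 760) (nat_lit 13145194580) (nat_lit 67) (nat_lit 5) (nat_lit 76) (nat_lit 5) (nat_lit 77) (nat_lit 5) (nat_lit 294) (nat_lit 286) (nat_lit 140)))) (XT.nd (nat_lit 156) (nat_lit 608) (nat_lit 0) (XT.nd (nat_lit 78) (nat_lit 380) (nat_lit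 0) (XT.lf (nat_lit 0) (nat_lit 11278007579) (nat_lit 380) (nat_lit 91387980347) (nat_lit 76) (nat_lit 103576544647) (nat_lit 62) (nat_lit 5) (nat_lit 67) (nat_lit 5) (nat_lit 63) (nat_lit 5) (nat_lit 295) (nat_lit 286) (nat_lit 139)) (XT.lf (nat_lit 0) (nat_lit 39332744134) (nat_lit 456) (nat_lit 156470156619) (nat_lit 76) (nat_lit 20064732870) (nat_lit 57) (nat_lit 5) (nat_lit 63) (nat_lit 5) (nat_lit 58) (nat_lit 5) (nat_lit 296) (nat_lit 286) (nat_lit 138))) (XT.nd (nat_lit 78) (nat_lit 608) (nat_lit 0) (XT.lf (nat_lit 0) (nat_lit 72980758033) (nat_lit 456) (nat_lit 2431440084) (nat_lit 76) (nat_lit 150683100452) (nat_lit 57) (nat_lit 5) (nat_lit 63) (nat_lit 5) (nat_lit 58) (nat_lit 5) (nat_lit 297) (nat_lit 286) (nat_lit 137)) (XT.nd (nat_lit 78) (nat_lit 304) (nat_lit 0) (XT.lf (nat_lit 0) (nat_lit 112860367875) (nat_lit 380) (nat_lit 68554546080) (nat_lit 76) (nat_lit 55549275688)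 (nat_lit 53) (nat_lit 5) (nat_lit 58) (nat_lit 5) (nat_lit 54) (nat_lit 5) (nat_lit 298) (nat_lit 286) (nat_lit 136)) (XT.lf (nat_lit 0) (nat_lit 106438534161) (nat_lit 304) (nat_lit 52468030025) (nat_lit 380) (nat_lit 89647217563) (nat_lit 49) (nat_lit 5) (nat_lit 53) (nat_lit 5) (nat_lit 54) (nat_lit 5) (nat_lit 299) (nat_lit 286) (nat_lit 135)))))) (XT.nd (nat_lit 312) (nat_lit 684) (nat_lit 0) (XT.nd (nat_lit 156) (nat_lit 608) (nat_lit 0) (XT.nd (nat_lit 78) (nat_lit 0) (nat_lit 0) (XT.lf (nat_lit 0) (nat_lit 36666928847) (nat_lit 228) (nat_lit 175110650838) (nat_lit 304) (nat_lit 49135905944) (nat_lit 46) (nat_lit 5) (nat_lit 49) (nat_lit 5) (nat_lit 50) (nat_lit 5) (nat_lit 300) (nat_lit 286) (nat_lit 134)) (XT.lf (nat_lit 0) (nat_lit 233912373249) (nat_lit 228) (nat_lit 38311698629) (nat_lit 304) (nat_lit 1870604707) (nat_lit 46) (nat_lit 5) (nat_lit 49) (nat_lit 5) (nat_lit 50)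 (nat_lit 5) (nat_lit 301) (nat_lit 286) (nat_lit 133))) (XT.nd (nat_lit 78) (nat_lit 228) (nat_lit 0) (XT.lf (nat_lit 0) (nat_lit 51910436560) (nat_lit 380) (nat_lit 126869577796) (nat_lit 76) (nat_lit 109296537612) (nat_lit 41) (nat_lit 5) (nat_lit 46) (nat_lit 5) (nat_lit 42) (nat_lit 5) (nat_lit 302) (nat_lit 286) (nat_lit 132)) (XT.lf (nat_lit 0) (nat_lit 78834253384) (nat_lit 228) (nat_lit 33683123438) (nat_lit 304) (nat_lit 190528620089) (nat_lit 38) (nat_lit 5) (nat_lit 41) (nat_lit 5) (nat_lit 42) (nat_lit 5) (nat_lit 303) (nat_lit 286) (nat_lit 131)))) (XT.nd (nat_lit 156) (nat_lit 456) (nat_lit 0) (XT.nd (nat_lit 78) (nat_lit 228) (nat_lit 0) (XT.lf (nat_lit 0) (nat_lit 182139630629) (nat_lit 304) (nat_lit 15534798109) (nat_lit 76) (nat_lit 121330231202) (nat_lit 38) (nat_lit 5) (nat_lit 42) (nat_lit 5) (nat_lit 39) (nat_lit 5) (nat_lit 304) (nat_lit 286) (nat_lit 130)) (XT.lf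 (nat_lit 0) (nat_lit 216187487397) (nat_lit 228) (nat_lit 45087273480) (nat_lit 304) (nat_lit 74768100703) (nat_lit 35) (nat_lit 5) (nat_lit 38) (nat_lit 5) (nat_lit 39) (nat_lit 5) (nat_lit 305) (nat_lit 286) (nat_lit 129))) (XT.nd (nat_lit 78) (nat_lit 304) (nat_lit 0) (XT.lf (nat_lit 0) (nat_lit 114358288902) (nat_lit 152) (nat_lit 236311720070) (nat_lit 228) (nat_lit 3577645357) (nat_lit 33) (nat_lit 5) (nat_lit 35) (nat_lit 5) (nat_lit 36) (nat_lit 5) (nat_lit 306) (nat_lit 286) (nat_lit 128)) (XT.nd (nat_lit 78) (nat_lit 228) (nat_lit 0) (XT.lf (nat_lit 0) (nat_lit 73843872018) (nat_lit 228) (nat_lit 4154623033) (nat_lit 76) (nat_lit 295709001508) (nat_lit 32) (nat_lit 5) (nat_lit 35) (nat_lit 5) (nat_lit 33) (nat_lit 5) (nat_lit 307) (nat_lit 286) (nat_lit 127)) (XT.lf (nat_lit 0) (nat_lit 162892538225) (nat_lit 304) (nat_lit 137381036687) (nat_lit 76) (nat_lit 94169680505) (nat_lit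 29) (nat_lit 5) (nat_lit 33) (nat_lit 5) (nat_lit 30) (nat_lit 5) (nat_lit 308) (nat_lit 286) (nat_lit 126))))))))
noncomputable def xc121 : XT := (XT.nd (nat_lit 36816) (nat_lit 0) (nat_lit 152) (XT.nd (nat_lit 36114) (nat_lit 0) (nat_lit 2356) (XT.nd (nat_lit 312) (nat_lit 0) (nat_lit 0) (XT.nd (nat_lit 156) (nat_lit 380) (nat_lit 0) (XT.nd (nat_lit 78) (nat_lit 0) (nat_lit 0) (XT.lf (nat_lit 0) (nat_lit 125180502843) (nat_lit 152) (nat_lit 137227641991) (nat_lit 228) (nat_lit 154262578060) (nat_lit 27) (nat_lit 5) (nat_lit 29) (nat_lit 5) (nat_lit 30) (nat_lit 5) (nat_lit 309) (nat_lit 286) (nat_lit 125)) (XT.lf (nat_lit 0) (nat_lit 372923944133) (nat_lit 228) (nat_lit 27550090949) (nat_lit 76) (nat_lit 40050405722) (nat_lit 27) (nat_lit 5) (nat_lit 30) (nat_lit 5) (nat_lit 28) (nat_lit 5) (nat_lit 310) (nat_lit 286) (nat_lit 124))) (XT.nd (nat_lit 78) (nat_lit 152) (nat_lit 0) (XT.lf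 (nat_lit 0) (nat_lit 31697753567) (nat_lit 228) (nat_lit 202847275984) (nat_lit 76) (nat_lit 231394374906) (nat_lit 24) (nat_lit 5) (nat_lit 27) (nat_lit 5) (nat_lit 25) (nat_lit 5) (nat_lit 311) (nat_lit 286) (nat_lit 123)) (XT.lf (nat_lit 0) (nat_lit 86217561996) (nat_lit 152) (nat_lit 52219335256) (nat_lit 228) (nat_lit 354801986630) (nat_lit 22) (nat_lit 5) (nat_lit 24) (nat_lit 5) (nat_lit 25) (nat_lit 5) (nat_lit 312) (nat_lit 286) (nat_lit 122)))) (XT.nd (nat_lit 35568) (nat_lit 0) (nat_lit 3800) (XT.nd (nat_lit 35490) (nat_lit 0) (nat_lit 3800) (XT.lf (nat_lit 0) (nat_lit 259565518243) (nat_lit 228) (nat_lit 119211591162) (nat_lit 76) (nat_lit 143652695148) (nat_lit 22) (nat_lit 5) (nat_lit 25) (nat_lit 5) (nat_lit 23) (nat_lit 5) (nat_lit 313) (nat_lit 286) (nat_lit 121)) (XT.lf (nat_lit 0) (nat_lit 17852433725) (nat_lit 0) (nat_lit 17852433725) (nat_lit 684) (nat_lit 40708699913)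 (nat_lit 72) (nat_lit 5) (nat_lit 72) (nat_lit 3) (nat_lit 81) (nat_lit 3) (nat_lit 287) (nat_lit 287) (nat_lit 146))) (XT.nd (nat_lit 78) (nat_lit 0) (nat_lit 76) (XT.lf (nat_lit 0) (nat_lit 75391919799) (nat_lit 684) (nat_lit 13942352630) (nat_lit 760) (nat_lit 69549644757) (nat_lit 72) (nat_lit 5) (nat_lit 81) (nat_lit 3) (nat_lit 82) (nat_lit 5) (nat_lit 288) (nat_lit 287) (nat_lit 145)) (XT.nd (nat_lit 78) (nat_lit 0) (nat_lit 0) (XT.lf (nat_lit 0) (nat_lit 82141784364) (nat_lit 684) (nat_lit 65508452582) (nat_lit 760) (nat_lit 17652551365) (nat_lit 73) (nat_lit 5) (nat_lit 82) (nat_lit 5) (nat_lit 83) (nat_lit 5) (nat_lit 289) (nat_lit 287) (nat_lit 144)) (XT.lf (nat_lit 76) (nat_lit 51027448279) (nat_lit 0) (nat_lit 40953687457) (nat_lit 760) (nat_lit 80126559730) (nat_lit 74) (nat_lit 5) (nat_lit 73) (nat_lit 5) (nat_lit 83) (nat_lit 5) (nat_lit 290) (nat_lit 287) (nat_lit 143))))))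 (XT.nd (nat_lit 312) (nat_lit 1064) (nat_lit 0) (XT.nd (nat_lit 156) (nat_lit 532) (nat_lit 0) (XT.nd (nat_lit 78) (nat_lit 0) (nat_lit 76) (XT.lf (nat_lit 0) (nat_lit 104926808613) (nat_lit 684) (nat_lit 1353084774) (nat_lit 760) (nat_lit 73061144263) (nat_lit 74) (nat_lit 5) (nat_lit 83) (nat_lit 5) (nat_lit 84) (nat_lit 5) (nat_lit 291) (nat_lit 287) (nat_lit 142)) (XT.lf (nat_lit 0) (nat_lit 121804265563) (nat_lit 684) (nat_lit 55699892674) (nat_lit 760) (nat_lit 9504083504) (nat_lit 75) (nat_lit 5) (nat_lit 84) (nat_lit 5) (nat_lit 85) (nat_lit 5) (nat_lit 292) (nat_lit 287) (nat_lit 141))) (XT.nd (nat_lit 78) (nat_lit 608) (nat_lit 0) (XT.lf (nat_lit 76) (nat_lit 80114850868) (nat_lit 0) (nat_lit 62983616721) (nat_lit 760) (nat_lit 52037028112) (nat_lit 76) (nat_lit 5) (nat_lit 75) (nat_lit 5) (nat_lit 85) (nat_lit 5) (nat_lit 293) (nat_lit 287) (nat_lit 140)) (XT.lf (nat_lit 0)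 (nat_lit 24747637574) (nat_lit 684) (nat_lit 143668506118) (nat_lit 760) (nat_lit 35380790286) (nat_lit 67) (nat_lit 5) (nat_lit 76) (nat_lit 5) (nat_lit 77) (nat_lit 5) (nat_lit 294) (nat_lit 287) (nat_lit 139)))) (XT.nd (nat_lit 156) (nat_lit 684) (nat_lit 0) (XT.nd (nat_lit 78) (nat_lit 380) (nat_lit 0) (XT.lf (nat_lit 0) (nat_lit 178707366569) (nat_lit 684) (nat_lit 20100080413) (nat_lit 760) (nat_lit 14191430511) (nat_lit 67) (nat_lit 5) (nat_lit 76) (nat_lit 5) (nat_lit 77) (nat_lit 5) (nat_lit 295) (nat_lit 287) (nat_lit 138)) (XT.lf (nat_lit 0) (nat_lit 12185134410) (nat_lit 380) (nat_lit 98694241982) (nat_lit 76) (nat_lit 111862300204) (nat_lit 62) (nat_lit 5) (nat_lit 67) (nat_lit 5) (nat_lit 63) (nat_lit 5) (nat_lit 296) (nat_lit 287) (nat_lit 137))) (XT.nd (nat_lit 78) (nat_lit 304) (nat_lit 0) (XT.lf (nat_lit 0) (nat_lit 42483958873) (nat_lit 456) (nat_lit 168982956541) (nat_lit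 76) (nat_lit 21669885924) (nat_lit 57) (nat_lit 5) (nat_lit 63) (nat_lit 5) (nat_lit 58) (nat_lit 5) (nat_lit 297) (nat_lit 287) (nat_lit 136)) (XT.nd (nat_lit 78) (nat_lit 304) (nat_lit 0) (XT.lf (nat_lit 0) (nat_lit 78823473498) (nat_lit 456) (nat_lit 2621499172) (nat_lit 76) (nat_lit 162737724807) (nat_lit 57) (nat_lit 5) (nat_lit 63) (nat_lit 5) (nat_lit 58) (nat_lit 5) (nat_lit 298) (nat_lit 287) (nat_lit 135)) (XT.lf (nat_lit 0) (nat_lit 121893207506) (nat_lit 380) (nat_lit 74034439668) (nat_lit 76) (nat_lit 59993465803) (nat_lit 53) (nat_lit 5) (nat_lit 58) (nat_lit 5) (nat_lit 54) (nat_lit 5) (nat_lit 299) (nat_lit 287) (nat_lit 134))))))) (XT.nd (nat_lit 702) (nat_lit 608) (nat_lit 0) (XT.nd (nat_lit 312) (nat_lit 684) (nat_lit 0) (XT.nd (nat_lit 156) (nat_lit 380) (nat_lit 0) (XT.nd (nat_lit 78) (nat_lit 228) (nat_lit 0) (XT.lf (nat_lit 0) (nat_lit 114957892727) (nat_lit 304)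 (nat_lit 56664976500) (nat_lit 380) (nat_lit 96815015577) (nat_lit 49) (nat_lit 5) (nat_lit 53) (nat_lit 5) (nat_lit 54) (nat_lit 5) (nat_lit 300) (nat_lit 287) (nat_lit 133)) (XT.lf (nat_lit 0) (nat_lit 39604556575) (nat_lit 228) (nat_lit 189118803287) (nat_lit 304) (nat_lit 53063016214) (nat_lit 46) (nat_lit 5) (nat_lit 49) (nat_lit 5) (nat_lit 50) (nat_lit 5) (nat_lit 301) (nat_lit 287) (nat_lit 132))) (XT.nd (nat_lit 78) (nat_lit 380) (nat_lit 0) (XT.lf (nat_lit 0) (nat_lit 252629319979) (nat_lit 228) (nat_lit 41375986725) (nat_lit 304) (nat_lit 2016769560) (nat_lit 46) (nat_lit 5) (nat_lit 49) (nat_lit 5) (nat_lit 50) (nat_lit 5) (nat_lit 302) (nat_lit 287) (nat_lit 131)) (XT.lf (nat_lit 0) (nat_lit 56066465809) (nat_lit 380) (nat_lit 137015088369) (nat_lit 76) (nat_lit 118040954302) (nat_lit 41) (nat_lit 5) (nat_lit 46) (nat_lit 5) (nat_lit 42) (nat_lit 5) (nat_lit 303) (nat_lit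 287) (nat_lit 130)))) (XT.nd (nat_lit 156) (nat_lit 456) (nat_lit 0) (XT.nd (nat_lit 78) (nat_lit 0) (nat_lit 0) (XT.lf (nat_lit 0) (nat_lit 85144873052) (nat_lit 228) (nat_lit 36376912191) (nat_lit 304) (nat_lit 205767733164) (nat_lit 38) (nat_lit 5) (nat_lit 41) (nat_lit 5) (nat_lit 42) (nat_lit 5) (nat_lit 304) (nat_lit 287) (nat_lit 129)) (XT.lf (nat_lit 0) (nat_lit 196713608228) (nat_lit 304) (nat_lit 16773855838) (nat_lit 76) (nat_lit 131037421513) (nat_lit 38) (nat_lit 5) (nat_lit 42) (nat_lit 5) (nat_lit 39) (nat_lit 5) (nat_lit 305) (nat_lit 287) (nat_lit 128))) (XT.nd (nat_lit 78) (nat_lit 228) (nat_lit 0) (XT.lf (nat_lit 0) (nat_lit 233486050577) (nat_lit 228) (nat_lit 48693346029) (nat_lit 304) (nat_lit 80746754863) (nat_lit 35) (nat_lit 5) (nat_lit 38) (nat_lit 5) (nat_lit 39) (nat_lit 5) (nat_lit 306) (nat_lit 287) (nat_lit 127)) (XT.nd (nat_lit 78) (nat_lit 76) (nat_lit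 0) (XT.lf (nat_lit 0) (nat_lit 123510480722) (nat_lit 152) (nat_lit 255215655408) (nat_lit 228) (nat_lit 3861198394) (nat_lit 33) (nat_lit 5) (nat_lit 35) (nat_lit 5) (nat_lit 36) (nat_lit 5) (nat_lit 307) (nat_lit 287) (nat_lit 126)) (XT.lf (nat_lit 0) (nat_lit 79753764649) (nat_lit 228) (nat_lit 4483641624) (nat_lit 76) (nat_lit 319366565725) (nat_lit 32) (nat_lit 5) (nat_lit 35) (nat_lit 5) (nat_lit 33) (nat_lit 5) (nat_lit 308) (nat_lit 287) (nat_lit 125)))))) (XT.nd (nat_lit 35958) (nat_lit 0) (nat_lit 3648) (XT.nd (nat_lit 156) (nat_lit 228) (nat_lit 0) (XT.nd (nat_lit 78) (nat_lit 152) (nat_lit 0) (XT.lf (nat_lit 0) (nat_lit 175926212513) (nat_lit 304) (nat_lit 148368211251) (nat_lit 76) (nat_lit 101704173765) (nat_lit 29) (nat_lit 5) (nat_lit 33) (nat_lit 5) (nat_lit 30) (nat_lit 5) (nat_lit 309) (nat_lit 287) (nat_lit 124)) (XT.lf (nat_lit 0) (nat_lit 135198107663) (nat_lit 152)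 (nat_lit 148204841157) (nat_lit 228) (nat_lit 166601319879) (nat_lit 27) (nat_lit 5) (nat_lit 29) (nat_lit 5) (nat_lit 30) (nat_lit 5) (nat_lit 310) (nat_lit 287) (nat_lit 123))) (XT.nd (nat_lit 78) (nat_lit 228) (nat_lit 0) (XT.lf (nat_lit 0) (nat_lit 402759867258) (nat_lit 228) (nat_lit 29751078950) (nat_lit 76) (nat_lit 43255345400) (nat_lit 27) (nat_lit 5) (nat_lit 30) (nat_lit 5) (nat_lit 28) (nat_lit 5) (nat_lit 311) (nat_lit 287) (nat_lit 122)) (XT.nd (nat_lit 35646) (nat_lit 0) (nat_lit 3648) (XT.lf (nat_lit 0) (nat_lit 34235512696) (nat_lit 228) (nat_lit 219072102297) (nat_lit 76) (nat_lit 249906841280) (nat_lit 24) (nat_lit 5) (nat_lit 27) (nat_lit 5) (nat_lit 25) (nat_lit 5) (nat_lit 312) (nat_lit 287) (nat_lit 121)) (XT.lf (nat_lit 0) (nat_lit 19282593516) (nat_lit 0) (nat_lit 19282593516) (nat_lit 684) (nat_lit 43961256370) (nat_lit 72) (nat_lit 5) (nat_lit 72) (nat_lit 3)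 (nat_lit 81) (nat_lit 3) (nat_lit 288) (nat_lit 288) (nat_lit 144))))) (XT.nd (nat_lit 156) (nat_lit 0) (nat_lit 76) (XT.nd (nat_lit 78) (nat_lit 0) (nat_lit 76) (XT.lf (nat_lit 0) (nat_lit 81430494690) (nat_lit 684) (nat_lit 15053657278) (nat_lit 760) (nat_lit 75110093749) (nat_lit 72) (nat_lit 5) (nat_lit 81) (nat_lit 3) (nat_lit 82) (nat_lit 5) (nat_lit 289) (nat_lit 288) (nat_lit 143)) (XT.lf (nat_lit 0) (nat_lit 88719830133) (nat_lit 684) (nat_lit 70744818946) (nat_lit 760) (nat_lit 19062005129) (nat_lit 73) (nat_lit 5) (nat_lit 82) (nat_lit 5) (nat_lit 83) (nat_lit 5) (nat_lit 290) (nat_lit 288) (nat_lit 142))) (XT.nd (nat_lit 78) (nat_lit 0) (nat_lit 76) (XT.lf (nat_lit 76) (nat_lit 55113766683) (nat_lit 0) (nat_lit 44232130776) (nat_lit 760) (nat_lit 86530079714) (nat_lit 74) (nat_lit 5) (nat_lit 73) (nat_lit 5) (nat_lit 83) (nat_lit 5) (nat_lit 291) (nat_lit 288) (nat_lit 141))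 (XT.nd (nat_lit 78) (nat_lit 0) (nat_lit 76) (XT.lf (nat_lit 0) (nat_lit 113326728601) (nat_lit 684) (nat_lit 1457174135) (nat_lit 760) (nat_lit 78904110284) (nat_lit 74) (nat_lit 5) (nat_lit 83) (nat_lit 5) (nat_lit 84) (nat_lit 5) (nat_lit 292) (nat_lit 288) (nat_lit 140)) (XT.lf (nat_lit 0) (nat_lit 131553994024) (nat_lit 684) (nat_lit 60151597016) (nat_lit 760) (nat_lit 10263023201) (nat_lit 75) (nat_lit 5) (nat_lit 84) (nat_lit 5) (nat_lit 85) (nat_lit 5) (nat_lit 293) (nat_lit 288) (nat_lit 139))))))))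
noncomputable def xc122 : XT := (XT.nd (nat_lit 1404) (nat_lit 0) (nat_lit 0) (XT.nd (nat_lit 702) (nat_lit 1444) (nat_lit 0) (XT.nd (nat_lit 312) (nat_lit 1216) (nat_lit 0) (XT.nd (nat_lit 156) (nat_lit 380) (nat_lit 0) (XT.nd (nat_lit 78) (nat_lit 608) (nat_lit 0) (XT.lf (nat_lit 76) (nat_lit 86528139698) (nat_lit 0) (nat_lit 68023257485) (nat_lit 760) (nat_lit 56194669381) (nat_lit 76) (nat_lit 5) (nat_lit 75) (nat_lit 5) (nat_lit 85) (nat_lit 5) (nat_lit 294) (nat_lit 288) (nat_lit 138)) (XT.lf (nat_lit 0) (nat_lit 26731642447) (nat_lit 684) (nat_lit 155162522416) (nat_lit 760) (nat_lit 38206272365) (nat_lit 67) (nat_lit 5) (nat_lit 76) (nat_lit 5) (nat_lit 77) (nat_lit 5) (nat_lit 295) (nat_lit 288) (nat_lit 137))) (XT.nd (nat_lit 78) (nat_lit 380) (nat_lit 0) (XT.lf (nat_lit 0) (nat_lit 193007839105) (nat_lit 684) (nat_lit 21708582965) (nat_lit 760) (nat_lit 15322132781) (nat_lit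 67) (nat_lit 5) (nat_lit 76) (nat_lit 5) (nat_lit 77) (nat_lit 5) (nat_lit 296) (nat_lit 288) (nat_lit 136)) (XT.lf (nat_lit 0) (nat_lit 13164134314) (nat_lit 380) (nat_lit 106585686010) (nat_lit 76) (nat_lit 120810968707) (nat_lit 62) (nat_lit 5) (nat_lit 67) (nat_lit 5) (nat_lit 63) (nat_lit 5) (nat_lit 297) (nat_lit 288) (nat_lit 135)))) (XT.nd (nat_lit 156) (nat_lit 836) (nat_lit 0) (XT.nd (nat_lit 78) (nat_lit 0) (nat_lit 0) (XT.lf (nat_lit 0) (nat_lit 45886615233) (nat_lit 456) (nat_lit 182497467029) (nat_lit 76) (nat_lit 23403454871) (nat_lit 57) (nat_lit 5) (nat_lit 63) (nat_lit 5) (nat_lit 58) (nat_lit 5) (nat_lit 298) (nat_lit 288) (nat_lit 134)) (XT.lf (nat_lit 0) (nat_lit 85132999202) (nat_lit 456) (nat_lit 2827398703) (nat_lit 76) (nat_lit 175756722489) (nat_lit 57) (nat_lit 5) (nat_lit 63) (nat_lit 5) (nat_lit 58) (nat_lit 5) (nat_lit 299) (nat_lit 288) (nat_lit 133))) (XT.nd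 (nat_lit 78) (nat_lit 532) (nat_lit 0) (XT.lf (nat_lit 0) (nat_lit 131648102206) (nat_lit 380) (nat_lit 79953362453) (nat_lit 76) (nat_lit 64793155738) (nat_lit 53) (nat_lit 5) (nat_lit 58) (nat_lit 5) (nat_lit 54) (nat_lit 5) (nat_lit 300) (nat_lit 288) (nat_lit 132)) (XT.nd (nat_lit 78) (nat_lit 228) (nat_lit 0) (XT.lf (nat_lit 0) (nat_lit 124158189983) (nat_lit 304) (nat_lit 61197749442) (nat_lit 380) (nat_lit 104556805137) (nat_lit 49) (nat_lit 5) (nat_lit 53) (nat_lit 5) (nat_lit 54) (nat_lit 5) (nat_lit 301) (nat_lit 288) (nat_lit 131)) (XT.lf (nat_lit 0) (nat_lit 42776584871) (nat_lit 228) (nat_lit 204247707740) (nat_lit 304) (nat_lit 57304832027) (nat_lit 46) (nat_lit 5) (nat_lit 49) (nat_lit 5) (nat_lit 50) (nat_lit 5) (nat_lit 302) (nat_lit 288) (nat_lit 130)))))) (XT.nd (nat_lit 312) (nat_lit 836) (nat_lit 0) (XT.nd (nat_lit 156) (nat_lit 228) (nat_lit 0) (XT.nd (nat_lit 78)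 (nat_lit 380) (nat_lit 0) (XT.lf (nat_lit 0) (nat_lit 272843057957) (nat_lit 228) (nat_lit 44685510284) (nat_lit 304) (nat_lit 2175124564) (nat_lit 46) (nat_lit 5) (nat_lit 49) (nat_lit 5) (nat_lit 50) (nat_lit 5) (nat_lit 303) (nat_lit 288) (nat_lit 129)) (XT.lf (nat_lit 0) (nat_lit 60554521691) (nat_lit 380) (nat_lit 147972818372) (nat_lit 76) (nat_lit 127484825365) (nat_lit 41) (nat_lit 5) (nat_lit 46) (nat_lit 5) (nat_lit 42) (nat_lit 5) (nat_lit 304) (nat_lit 288) (nat_lit 128))) (XT.nd (nat_lit 78) (nat_lit 0) (nat_lit 0) (XT.lf (nat_lit 0) (nat_lit 91959788855) (nat_lit 228) (nat_lit 39286326893) (nat_lit 304) (nat_lit 222226428453) (nat_lit 38) (nat_lit 5) (nat_lit 41) (nat_lit 5) (nat_lit 42) (nat_lit 5) (nat_lit 305) (nat_lit 288) (nat_lit 127)) (XT.lf (nat_lit 0) (nat_lit 212453103563) (nat_lit 304) (nat_lit 18112569757) (nat_lit 76) (nat_lit 141521076942) (nat_lit 38) (nat_lit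 5) (nat_lit 42) (nat_lit 5) (nat_lit 39) (nat_lit 5) (nat_lit 306) (nat_lit 288) (nat_lit 126)))) (XT.nd (nat_lit 156) (nat_lit 456) (nat_lit 0) (XT.nd (nat_lit 78) (nat_lit 152) (nat_lit 0) (XT.lf (nat_lit 0) (nat_lit 252167990339) (nat_lit 228) (nat_lit 52588034108) (nat_lit 304) (nat_lit 87204099936) (nat_lit 35) (nat_lit 5) (nat_lit 38) (nat_lit 5) (nat_lit 39) (nat_lit 5) (nat_lit 307) (nat_lit 288) (nat_lit 125)) (XT.lf (nat_lit 0) (nat_lit 133394344478) (nat_lit 152) (nat_lit 275632048558) (nat_lit 228) (nat_lit 4167814952) (nat_lit 33) (nat_lit 5) (nat_lit 35) (nat_lit 5) (nat_lit 36) (nat_lit 5) (nat_lit 308) (nat_lit 288) (nat_lit 124))) (XT.nd (nat_lit 78) (nat_lit 380) (nat_lit 0) (XT.lf (nat_lit 0) (nat_lit 86136108749) (nat_lit 228) (nat_lit 4839459796) (nat_lit 76) (nat_lit 344916614660) (nat_lit 32) (nat_lit 5) (nat_lit 35) (nat_lit 5) (nat_lit 33) (nat_lit 5) (nat_lit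 309) (nat_lit 288) (nat_lit 123)) (XT.nd (nat_lit 78) (nat_lit 152) (nat_lit 0) (XT.lf (nat_lit 0) (nat_lit 190002256728) (nat_lit 304) (nat_lit 160234831757) (nat_lit 76) (nat_lit 109841295406) (nat_lit 29) (nat_lit 5) (nat_lit 33) (nat_lit 5) (nat_lit 30) (nat_lit 5) (nat_lit 310) (nat_lit 288) (nat_lit 122)) (XT.lf (nat_lit 0) (nat_lit 146016669404) (nat_lit 152) (nat_lit 160060360656) (nat_lit 228) (nat_lit 179927484089) (nat_lit 27) (nat_lit 5) (nat_lit 29) (nat_lit 5) (nat_lit 30) (nat_lit 5) (nat_lit 311) (nat_lit 288) (nat_lit 121))))))) (XT.nd (nat_lit 36348) (nat_lit 0) (nat_lit 836) (XT.nd (nat_lit 35958) (nat_lit 0) (nat_lit 3040) (XT.nd (nat_lit 35802) (nat_lit 0) (nat_lit 3420) (XT.nd (nat_lit 35724) (nat_lit 0) (nat_lit 3420) (XT.lf (nat_lit 0) (nat_lit 434982377828) (nat_lit 228) (nat_lit 32128576725) (nat_lit 76) (nat_lit 46716550826) (nat_lit 27) (nat_lit 5) (nat_lit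 30) (nat_lit 5) (nat_lit 28) (nat_lit 5) (nat_lit 312) (nat_lit 288) (nat_lit 120)) (XT.lf (nat_lit 0) (nat_lit 20826885748) (nat_lit 0) (nat_lit 20826885748) (nat_lit 684) (nat_lit 47474607895) (nat_lit 72) (nat_lit 5) (nat_lit 72) (nat_lit 3) (nat_lit 81) (nat_lit 3) (nat_lit 289) (nat_lit 289) (nat_lit 142))) (XT.nd (nat_lit 78) (nat_lit 0) (nat_lit 76) (XT.lf (nat_lit 0) (nat_lit 87951125371) (nat_lit 684) (nat_lit 16254448864) (nat_lit 760) (nat_lit 81115881197) (nat_lit 72) (nat_lit 5) (nat_lit 81) (nat_lit 3) (nat_lit 82) (nat_lit 5) (nat_lit 290) (nat_lit 289) (nat_lit 141)) (XT.lf (nat_lit 0) (nat_lit 95823163303) (nat_lit 684) (nat_lit 76400709466) (nat_lit 760) (nat_lit 20584607562) (nat_lit 73) (nat_lit 5) (nat_lit 82) (nat_lit 5) (nat_lit 83) (nat_lit 5) (nat_lit 291) (nat_lit 289) (nat_lit 140)))) (XT.nd (nat_lit 156) (nat_lit 456) (nat_lit 0) (XT.nd (nat_lit 78) (nat_lit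 0) (nat_lit 76) (XT.lf (nat_lit 76) (nat_lit 59526402434) (nat_lit 0) (nat_lit 47772543077) (nat_lit 760) (nat_lit 93446823545) (nat_lit 74) (nat_lit 5) (nat_lit 73) (nat_lit 5) (nat_lit 83) (nat_lit 5) (nat_lit 292) (nat_lit 289) (nat_lit 139)) (XT.lf (nat_lit 0) (nat_lit 122397818277) (nat_lit 684) (nat_lit 1570183749) (nat_lit 760) (nat_lit 85214788283) (nat_lit 74) (nat_lit 5) (nat_lit 83) (nat_lit 5) (nat_lit 84) (nat_lit 5) (nat_lit 293) (nat_lit 289) (nat_lit 138))) (XT.nd (nat_lit 78) (nat_lit 608) (nat_lit 0) (XT.lf (nat_lit 0) (nat_lit 142082932216) (nat_lit 684) (nat_lit 64960049304) (nat_lit 760) (nat_lit 11082875942) (nat_lit 75) (nat_lit 5) (nat_lit 84) (nat_lit 5) (nat_lit 85) (nat_lit 5) (nat_lit 294) (nat_lit 289) (nat_lit 137)) (XT.nd (nat_lit 78) (nat_lit 608) (nat_lit 0) (XT.lf (nat_lit 76) (nat_lit 93453906616) (nat_lit 0) (nat_lit 73465933779) (nat_lit 760) (nat_lit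 60685681048) (nat_lit 76) (nat_lit 5) (nat_lit 75) (nat_lit 5) (nat_lit 85) (nat_lit 5) (nat_lit 295) (nat_lit 289) (nat_lit 136)) (XT.lf (nat_lit 0) (nat_lit 28873769409) (nat_lit 684) (nat_lit 167575983578) (nat_lit 760) (nat_lit 41258503626) (nat_lit 67) (nat_lit 5) (nat_lit 76) (nat_lit 5) (nat_lit 77) (nat_lit 5) (nat_lit 296) (nat_lit 289) (nat_lit 135)))))) (XT.nd (nat_lit 390) (nat_lit 1140) (nat_lit 0) (XT.nd (nat_lit 156) (nat_lit 684) (nat_lit 0) (XT.nd (nat_lit 78) (nat_lit 380) (nat_lit 0) (XT.lf (nat_lit 0) (nat_lit 208451795461) (nat_lit 684) (nat_lit 23445694943) (nat_lit 760) (nat_lit 16543949211) (nat_lit 67) (nat_lit 5) (nat_lit 76) (nat_lit 5) (nat_lit 77) (nat_lit 5) (nat_lit 297) (nat_lit 289) (nat_lit 134)) (XT.lf (nat_lit 0) (nat_lit 14220856581) (nat_lit 380) (nat_lit 115109029806) (nat_lit 76) (nat_lit 130475575702) (nat_lit 62) (nat_lit 5) (nat_lit 67) (nat_lit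 5) (nat_lit 63) (nat_lit 5) (nat_lit 298) (nat_lit 289) (nat_lit 133))) (XT.nd (nat_lit 78) (nat_lit 304) (nat_lit 0) (XT.lf (nat_lit 0) (nat_lit 49560922067) (nat_lit 456) (nat_lit 197093726982) (nat_lit 76) (nat_lit 25275712463) (nat_lit 57) (nat_lit 5) (nat_lit 63) (nat_lit 5) (nat_lit 58) (nat_lit 5) (nat_lit 299) (nat_lit 289) (nat_lit 132)) (XT.nd (nat_lit 78) (nat_lit 304) (nat_lit 0) (XT.lf (nat_lit 0) (nat_lit 91946766560) (nat_lit 456) (nat_lit 3050315220) (nat_lit 76) (nat_lit 189817242882) (nat_lit 57) (nat_lit 5) (nat_lit 63) (nat_lit 5) (nat_lit 58) (nat_lit 5) (nat_lit 300) (nat_lit 289) (nat_lit 131)) (XT.lf (nat_lit 0) (nat_lit 142182898000) (nat_lit 380) (nat_lit 86346345793) (nat_lit 76) (nat_lit 69976790527) (nat_lit 53) (nat_lit 5) (nat_lit 58) (nat_lit 5) (nat_lit 54) (nat_lit 5) (nat_lit 301) (nat_lit 289) (nat_lit 130))))) (XT.nd (nat_lit 156) (nat_lit 608) (nat_lit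 0) (XT.nd (nat_lit 78) (nat_lit 228) (nat_lit 0) (XT.lf (nat_lit 0) (nat_lit 134093988047) (nat_lit 304) (nat_lit 66093204876) (nat_lit 380) (nat_lit 112918424576) (nat_lit 49) (nat_lit 5) (nat_lit 53) (nat_lit 5) (nat_lit 54) (nat_lit 5) (nat_lit 302) (nat_lit 289) (nat_lit 129)) (XT.lf (nat_lit 0) (nat_lit 46201852752) (nat_lit 228) (nat_lit 220587010119) (nat_lit 304) (nat_lit 61886453256) (nat_lit 46) (nat_lit 5) (nat_lit 49) (nat_lit 5) (nat_lit 50) (nat_lit 5) (nat_lit 303) (nat_lit 289) (nat_lit 128))) (XT.nd (nat_lit 78) (nat_lit 608) (nat_lit 0) (XT.lf (nat_lit 0) (nat_lit 294673411011) (nat_lit 228) (nat_lit 48259874958) (nat_lit 304) (nat_lit 2346574036) (nat_lit 46) (nat_lit 5) (nat_lit 49) (nat_lit 5) (nat_lit 50) (nat_lit 5) (nat_lit 304) (nat_lit 289) (nat_lit 127)) (XT.nd (nat_lit 78) (nat_lit 228) (nat_lit 0) (XT.lf (nat_lit 0) (nat_lit 65401231349) (nat_lit 380) (nat_lit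 159807662817) (nat_lit 76) (nat_lit 137684121270) (nat_lit 41) (nat_lit 5) (nat_lit 46) (nat_lit 5) (nat_lit 42) (nat_lit 5) (nat_lit 305) (nat_lit 289) (nat_lit 126)) (XT.lf (nat_lit 0) (nat_lit 99319423436) (nat_lit 228) (nat_lit 42428600094) (nat_lit 304) (nat_lit 240002207883) (nat_lit 38) (nat_lit 5) (nat_lit 41) (nat_lit 5) (nat_lit 42) (nat_lit 5) (nat_lit 306) (nat_lit 289) (nat_lit 125))))))))
noncomputable def xc123 : XT := (XT.nd (nat_lit 37128) (nat_lit 0) (nat_lit 380) (XT.nd (nat_lit 36426) (nat_lit 0) (nat_lit 2280) (XT.nd (nat_lit 312) (nat_lit 380) (nat_lit 0) (XT.nd (nat_lit 156) (nat_lit 228) (nat_lit 0) (XT.nd (nat_lit 78) (nat_lit 228) (nat_lit 0) (XT.lf (nat_lit 0) (nat_lit 229451415185) (nat_lit 304) (nat_lit 19558836529) (nat_lit 76) (nat_lit 152843330405) (nat_lit 38) (nat_lit 5) (nat_lit 42) (nat_lit 5) (nat_lit 39) (nat_lit 5) (nat_lit 307) (nat_lit 289) (nat_lit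 124)) (XT.lf (nat_lit 0) (nat_lit 272344049351) (nat_lit 228) (nat_lit 56794408452) (nat_lit 304) (nat_lit 94178374334) (nat_lit 35) (nat_lit 5) (nat_lit 38) (nat_lit 5) (nat_lit 39) (nat_lit 5) (nat_lit 308) (nat_lit 289) (nat_lit 123))) (XT.nd (nat_lit 78) (nat_lit 76) (nat_lit 0) (XT.lf (nat_lit 0) (nat_lit 144068485743) (nat_lit 152) (nat_lit 297681875746) (nat_lit 228) (nat_lit 4499286004) (nat_lit 33) (nat_lit 5) (nat_lit 35) (nat_lit 5) (nat_lit 36) (nat_lit 5) (nat_lit 309) (nat_lit 289) (nat_lit 122)) (XT.lf (nat_lit 0) (nat_lit 93028748930) (nat_lit 228) (nat_lit 5224153310) (nat_lit 76) (nat_lit 372510564269) (nat_lit 32) (nat_lit 5) (nat_lit 35) (nat_lit 5) (nat_lit 33) (nat_lit 5) (nat_lit 310) (nat_lit 289) (nat_lit 121)))) (XT.nd (nat_lit 35880) (nat_lit 0) (nat_lit 3420) (XT.nd (nat_lit 78) (nat_lit 152) (nat_lit 0) (XT.lf (nat_lit 0) (nat_lit 205204106688) (nat_lit 304)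 (nat_lit 173051186547) (nat_lit 76) (nat_lit 118629274398) (nat_lit 29) (nat_lit 5) (nat_lit 33) (nat_lit 5) (nat_lit 30) (nat_lit 5) (nat_lit 311) (nat_lit 289) (nat_lit 120)) (XT.lf (nat_lit 0) (nat_lit 157700329027) (nat_lit 152) (nat_lit 172864445516) (nat_lit 228) (nat_lit 194320018396) (nat_lit 27) (nat_lit 5) (nat_lit 29) (nat_lit 5) (nat_lit 30) (nat_lit 5) (nat_lit 312) (nat_lit 289) (nat_lit 119))) (XT.nd (nat_lit 78) (nat_lit 0) (nat_lit 0) (XT.lf (nat_lit 0) (nat_lit 22494481010) (nat_lit 0) (nat_lit 22494481010) (nat_lit 684) (nat_lit 51269533844) (nat_lit 72) (nat_lit 5) (nat_lit 72) (nat_lit 3) (nat_lit 81) (nat_lit 3) (nat_lit 290) (nat_lit 290) (nat_lit 140)) (XT.nd (nat_lit 78) (nat_lit 0) (nat_lit 76) (XT.lf (nat_lit 0) (nat_lit 94992523277) (nat_lit 684) (nat_lit 17551803232) (nat_lit 760) (nat_lit 87602562485) (nat_lit 72) (nat_lit 5) (nat_lit 81) (nat_lit 3) (nat_lit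 82) (nat_lit 5) (nat_lit 291) (nat_lit 290) (nat_lit 139)) (XT.lf (nat_lit 0) (nat_lit 103493943287) (nat_lit 684) (nat_lit 82509598360) (nat_lit 760) (nat_lit 22229354581) (nat_lit 73) (nat_lit 5) (nat_lit 82) (nat_lit 5) (nat_lit 83) (nat_lit 5) (nat_lit 292) (nat_lit 290) (nat_lit 138)))))) (XT.nd (nat_lit 312) (nat_lit 1216) (nat_lit 0) (XT.nd (nat_lit 156) (nat_lit 0) (nat_lit 152) (XT.nd (nat_lit 78) (nat_lit 0) (nat_lit 76) (XT.lf (nat_lit 76) (nat_lit 64291544820) (nat_lit 0) (nat_lit 51595925604) (nat_lit 760) (nat_lit 100917714707) (nat_lit 74) (nat_lit 5) (nat_lit 73) (nat_lit 5) (nat_lit 83) (nat_lit 5) (nat_lit 293) (nat_lit 290) (nat_lit 137)) (XT.lf (nat_lit 0) (nat_lit 132193888756) (nat_lit 684) (nat_lit 1692742621) (nat_lit 760) (nat_lit 92030556031) (nat_lit 74) (nat_lit 5) (nat_lit 83) (nat_lit 5) (nat_lit 84) (nat_lit 5) (nat_lit 294) (nat_lit 290) (nat_lit 136)))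 (XT.nd (nat_lit 78) (nat_lit 0) (nat_lit 0) (XT.lf (nat_lit 0) (nat_lit 153453526558) (nat_lit 684) (nat_lit 70153702123) (nat_lit 760) (nat_lit 11968486543) (nat_lit 75) (nat_lit 5) (nat_lit 84) (nat_lit 5) (nat_lit 85) (nat_lit 5) (nat_lit 295) (nat_lit 290) (nat_lit 135)) (XT.lf (nat_lit 76) (nat_lit 100933233327) (nat_lit 0) (nat_lit 79343907808) (nat_lit 760) (nat_lit 65536624452) (nat_lit 76) (nat_lit 5) (nat_lit 75) (nat_lit 5) (nat_lit 85) (nat_lit 5) (nat_lit 296) (nat_lit 290) (nat_lit 134)))) (XT.nd (nat_lit 156) (nat_lit 760) (nat_lit 0) (XT.nd (nat_lit 78) (nat_lit 0) (nat_lit 0) (XT.lf (nat_lit 0) (nat_lit 31186753579) (nat_lit 684) (nat_lit 180982456099) (nat_lit 760) (nat_lit 44555522627) (nat_lit 67) (nat_lit 5) (nat_lit 76) (nat_lit 5) (nat_lit 77) (nat_lit 5) (nat_lit 297) (nat_lit 290) (nat_lit 133)) (XT.lf (nat_lit 0) (nat_lit 225130793374) (nat_lit 684) (nat_lit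 25321715201) (nat_lit 760) (nat_lit 17864075065) (nat_lit 67) (nat_lit 5) (nat_lit 76) (nat_lit 5) (nat_lit 77) (nat_lit 5) (nat_lit 298) (nat_lit 290) (nat_lit 132))) (XT.nd (nat_lit 78) (nat_lit 380) (nat_lit 0) (XT.lf (nat_lit 0) (nat_lit 15361604258) (nat_lit 380) (nat_lit 124314742000) (nat_lit 76) (nat_lit 140913389846) (nat_lit 62) (nat_lit 5) (nat_lit 67) (nat_lit 5) (nat_lit 63) (nat_lit 5) (nat_lit 299) (nat_lit 290) (nat_lit 131)) (XT.nd (nat_lit 78) (nat_lit 0) (nat_lit 0) (XT.lf (nat_lit 0) (nat_lit 53528691593) (nat_lit 456) (nat_lit 212858192381) (nat_lit 76) (nat_lit 27297753343) (nat_lit 57) (nat_lit 5) (nat_lit 63) (nat_lit 5) (nat_lit 58) (nat_lit 5) (nat_lit 300) (nat_lit 290) (nat_lit 130)) (XT.lf (nat_lit 0) (nat_lit 99305189144) (nat_lit 456) (nat_lit 3291532327) (nat_lit 76) (nat_lit 205002607389) (nat_lit 57) (nat_lit 5) (nat_lit 63) (nat_lit 5) (nat_lit 58) (nat_lit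 5) (nat_lit 301) (nat_lit 290) (nat_lit 129))))))) (XT.nd (nat_lit 702) (nat_lit 76) (nat_lit 0) (XT.nd (nat_lit 312) (nat_lit 988) (nat_lit 0) (XT.nd (nat_lit 156) (nat_lit 228) (nat_lit 0) (XT.nd (nat_lit 78) (nat_lit 304) (nat_lit 0) (XT.lf (nat_lit 0) (nat_lit 153560056946) (nat_lit 380) (nat_lit 93251236536) (nat_lit 76) (nat_lit 75575090089) (nat_lit 53) (nat_lit 5) (nat_lit 58) (nat_lit 5) (nat_lit 54) (nat_lit 5) (nat_lit 302) (nat_lit 290) (nat_lit 128)) (XT.lf (nat_lit 0) (nat_lit 144824201591) (nat_lit 304) (nat_lit 71380348748) (nat_lit 380) (nat_lit 121949390851) (nat_lit 49) (nat_lit 5) (nat_lit 53) (nat_lit 5) (nat_lit 54) (nat_lit 5) (nat_lit 303) (nat_lit 290) (nat_lit 127))) (XT.nd (nat_lit 78) (nat_lit 0) (nat_lit 0) (XT.lf (nat_lit 0) (nat_lit 49900693952) (nat_lit 228) (nat_lit 238233530051) (nat_lit 304) (nat_lit 66834998689) (nat_lit 46) (nat_lit 5) (nat_lit 49)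 (nat_lit 5) (nat_lit 50) (nat_lit 5) (nat_lit 304) (nat_lit 290) (nat_lit 126)) (XT.lf (nat_lit 0) (nat_lit 318249777392) (nat_lit 228) (nat_lit 52120256735) (nat_lit 304) (nat_lit 2532104748) (nat_lit 46) (nat_lit 5) (nat_lit 49) (nat_lit 5) (nat_lit 50) (nat_lit 5) (nat_lit 305) (nat_lit 290) (nat_lit 125)))) (XT.nd (nat_lit 156) (nat_lit 380) (nat_lit 0) (XT.nd (nat_lit 78) (nat_lit 228) (nat_lit 0) (XT.lf (nat_lit 0) (nat_lit 70635342823) (nat_lit 380) (nat_lit 172589720094) (nat_lit 76) (nat_lit 148699288108) (nat_lit 41) (nat_lit 5) (nat_lit 46) (nat_lit 5) (nat_lit 42) (nat_lit 5) (nat_lit 306) (nat_lit 290) (nat_lit 124)) (XT.lf (nat_lit 0) (nat_lit 107267421989) (nat_lit 228) (nat_lit 45822345448) (nat_lit 304) (nat_lit 259200382760) (nat_lit 38) (nat_lit 5) (nat_lit 41) (nat_lit 5) (nat_lit 42) (nat_lit 5) (nat_lit 307) (nat_lit 290) (nat_lit 123))) (XT.nd (nat_lit 78) (nat_lit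 380) (nat_lit 0) (XT.lf (nat_lit 0) (nat_lit 247809297380) (nat_lit 304) (nat_lit 21121195363) (nat_lit 76) (nat_lit 165071283212) (nat_lit 38) (nat_lit 5) (nat_lit 42) (nat_lit 5) (nat_lit 39) (nat_lit 5) (nat_lit 308) (nat_lit 290) (nat_lit 122)) (XT.nd (nat_lit 78) (nat_lit 152) (nat_lit 0) (XT.lf (nat_lit 0) (nat_lit 294133819341) (nat_lit 228) (nat_lit 61337388096) (nat_lit 304) (nat_lit 101710883652) (nat_lit 35) (nat_lit 5) (nat_lit 38) (nat_lit 5) (nat_lit 39) (nat_lit 5) (nat_lit 309) (nat_lit 290) (nat_lit 121)) (XT.lf (nat_lit 0) (nat_lit 155596188287) (nat_lit 152) (nat_lit 321495794207) (nat_lit 228) (nat_lit 4857553521) (nat_lit 33) (nat_lit 5) (nat_lit 35) (nat_lit 5) (nat_lit 36) (nat_lit 5) (nat_lit 310) (nat_lit 290) (nat_lit 120)))))) (XT.nd (nat_lit 36270) (nat_lit 0) (nat_lit 2660) (XT.nd (nat_lit 36036) (nat_lit 0) (nat_lit 3040) (XT.nd (nat_lit 35958) (nat_lit 0)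 (nat_lit 3040) (XT.lf (nat_lit 0) (nat_lit 100472550457) (nat_lit 228) (nat_lit 5639973718) (nat_lit 76) (nat_lit 402311941335) (nat_lit 32) (nat_lit 5) (nat_lit 35) (nat_lit 5) (nat_lit 33) (nat_lit 5) (nat_lit 311) (nat_lit 290) (nat_lit 119)) (XT.lf (nat_lit 0) (nat_lit 24295277833) (nat_lit 0) (nat_lit 24295277833) (nat_lit 684) (nat_lit 55368487941) (nat_lit 72) (nat_lit 5) (nat_lit 72) (nat_lit 3) (nat_lit 81) (nat_lit 3) (nat_lit 291) (nat_lit 291) (nat_lit 138))) (XT.nd (nat_lit 78) (nat_lit 0) (nat_lit 76) (XT.lf (nat_lit 0) (nat_lit 102596475787) (nat_lit 684) (nat_lit 18953374154) (nat_lit 760) (nat_lit 94608547656) (nat_lit 72) (nat_lit 5) (nat_lit 81) (nat_lit 3) (nat_lit 82) (nat_lit 5) (nat_lit 292) (nat_lit 291) (nat_lit 137)) (XT.nd (nat_lit 78) (nat_lit 0) (nat_lit 0) (XT.lf (nat_lit 0) (nat_lit 111777682789) (nat_lit 684) (nat_lit 89107650297) (nat_lit 760) (nat_lit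 24005969763) (nat_lit 73) (nat_lit 5) (nat_lit 82) (nat_lit 5) (nat_lit 83) (nat_lit 5) (nat_lit 293) (nat_lit 291) (nat_lit 136)) (XT.lf (nat_lit 76) (nat_lit 69437466307) (nat_lit 0) (nat_lit 55724953460) (nat_lit 760) (nat_lit 108986969743) (nat_lit 74) (nat_lit 5) (nat_lit 73) (nat_lit 5) (nat_lit 83) (nat_lit 5) (nat_lit 294) (nat_lit 291) (nat_lit 135))))) (XT.nd (nat_lit 156) (nat_lit 532) (nat_lit 0) (XT.nd (nat_lit 78) (nat_lit 0) (nat_lit 76) (XT.lf (nat_lit 0) (nat_lit 142773039274) (nat_lit 684) (nat_lit 1825542151) (nat_lit 760) (nat_lit 99391787109) (nat_lit 74) (nat_lit 5) (nat_lit 83) (nat_lit 5) (nat_lit 84) (nat_lit 5) (nat_lit 295) (nat_lit 291) (nat_lit 134)) (XT.lf (nat_lit 0) (nat_lit 165733203543) (nat_lit 684) (nat_lit 75763296710) (nat_lit 760) (nat_lit 12925091432) (nat_lit 75) (nat_lit 5) (nat_lit 84) (nat_lit 5) (nat_lit 85) (nat_lit 5) (nat_lit 296) (nat_lit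 291) (nat_lit 133))) (XT.nd (nat_lit 78) (nat_lit 608) (nat_lit 0) (XT.lf (nat_lit 76) (nat_lit 109010476169) (nat_lit 0) (nat_lit 85692019993) (nat_lit 760) (nat_lit 70776201288) (nat_lit 76) (nat_lit 5) (nat_lit 75) (nat_lit 5) (nat_lit 85) (nat_lit 5) (nat_lit 297) (nat_lit 291) (nat_lit 132)) (XT.nd (nat_lit 78) (nat_lit 0) (nat_lit 0) (XT.lf (nat_lit 0) (nat_lit 33684336714) (nat_lit 684) (nat_lit 195461390237) (nat_lit 760) (nat_lit 48116825471) (nat_lit 67) (nat_lit 5) (nat_lit 76) (nat_lit 5) (nat_lit 77) (nat_lit 5) (nat_lit 298) (nat_lit 291) (nat_lit 131)) (XT.lf (nat_lit 0) (nat_lit 243143703925) (nat_lit 684) (nat_lit 27347765055) (nat_lit 760) (nat_lit 19290294620) (nat_lit 67) (nat_lit 5) (nat_lit 76) (nat_lit 5) (nat_lit 77) (nat_lit 5) (nat_lit 299) (nat_lit 291) (nat_lit 130))))))))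
noncomputable def xc124 : XT := (XT.nd (nat_lit 37362) (nat_lit 0) (nat_lit 380) (XT.nd (nat_lit 702) (nat_lit 380) (nat_lit 0) (XT.nd (nat_lit 312) (nat_lit 1140) (nat_lit 0) (XT.nd (nat_lit 156) (nat_lit 304) (nat_lit 0) (XT.nd (nat_lit 78) (nat_lit 380) (nat_lit 0) (XT.lf (nat_lit 0) (nat_lit 16593172474) (nat_lit 380) (nat_lit 134257340607) (nat_lit 76) (nat_lit 152186262207) (nat_lit 62) (nat_lit 5) (nat_lit 67) (nat_lit 5) (nat_lit 63) (nat_lit 5) (nat_lit 300) (nat_lit 291) (nat_lit 129)) (XT.lf (nat_lit 0) (nat_lit 57813469569) (nat_lit 456) (nat_lit 229884247670) (nat_lit 76) (nat_lit 29481559792) (nat_lit 57) (nat_lit 5) (nat_lit 63) (nat_lit 5) (nat_lit 58) (nat_lit 5) (nat_lit 301) (nat_lit 291) (nat_lit 128))) (XT.nd (nat_lit 78) (nat_lit 304) (nat_lit 0) (XT.lf (nat_lit 0) (nat_lit 107251903024) (nat_lit 456) (nat_lit 3552447412) (nat_lit 76) (nat_lit 221402803186) (nat_lit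 57) (nat_lit 5) (nat_lit 63) (nat_lit 5) (nat_lit 58) (nat_lit 5) (nat_lit 302) (nat_lit 291) (nat_lit 127)) (XT.lf (nat_lit 0) (nat_lit 165847028089) (nat_lit 380) (nat_lit 100708920404) (nat_lit 76) (nat_lit 81621231315) (nat_lit 53) (nat_lit 5) (nat_lit 58) (nat_lit 5) (nat_lit 54) (nat_lit 5) (nat_lit 303) (nat_lit 291) (nat_lit 126)))) (XT.nd (nat_lit 156) (nat_lit 608) (nat_lit 0) (XT.nd (nat_lit 78) (nat_lit 228) (nat_lit 0) (XT.lf (nat_lit 0) (nat_lit 156412447819) (nat_lit 304) (nat_lit 77090508714) (nat_lit 380) (nat_lit 131703192177) (nat_lit 49) (nat_lit 5) (nat_lit 53) (nat_lit 5) (nat_lit 54) (nat_lit 5) (nat_lit 304) (nat_lit 291) (nat_lit 125)) (XT.lf (nat_lit 0) (nat_lit 53895058264) (nat_lit 228) (nat_lit 257291834473) (nat_lit 304) (nat_lit 72179765981) (nat_lit 46) (nat_lit 5) (nat_lit 49) (nat_lit 5) (nat_lit 50) (nat_lit 5) (nat_lit 305) (nat_lit 291) (nat_lit 124)))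 (XT.nd (nat_lit 78) (nat_lit 608) (nat_lit 0) (XT.lf (nat_lit 0) (nat_lit 343711897358) (nat_lit 228) (nat_lit 56289527290) (nat_lit 304) (nat_lit 2732791089) (nat_lit 46) (nat_lit 5) (nat_lit 49) (nat_lit 5) (nat_lit 50) (nat_lit 5) (nat_lit 306) (nat_lit 291) (nat_lit 123)) (XT.nd (nat_lit 78) (nat_lit 228) (nat_lit 0) (XT.lf (nat_lit 0) (nat_lit 76287896043) (nat_lit 380) (nat_lit 186394706560) (nat_lit 76) (nat_lit 160595605931) (nat_lit 41) (nat_lit 5) (nat_lit 46) (nat_lit 5) (nat_lit 42) (nat_lit 5) (nat_lit 307) (nat_lit 291) (nat_lit 122)) (XT.lf (nat_lit 0) (nat_lit 115850911666) (nat_lit 228) (nat_lit 49487667847) (nat_lit 304) (nat_lit 279934697199) (nat_lit 38) (nat_lit 5) (nat_lit 41) (nat_lit 5) (nat_lit 42) (nat_lit 5) (nat_lit 308) (nat_lit 291) (nat_lit 121)))))) (XT.nd (nat_lit 36270) (nat_lit 0) (nat_lit 2964) (XT.nd (nat_lit 156) (nat_lit 152) (nat_lit 0) (XT.nd (nat_lit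 78) (nat_lit 228) (nat_lit 0) (XT.lf (nat_lit 0) (nat_lit 267635557785) (nat_lit 304) (nat_lit 22808877886) (nat_lit 76) (nat_lit 178277402856) (nat_lit 38) (nat_lit 5) (nat_lit 42) (nat_lit 5) (nat_lit 39) (nat_lit 5) (nat_lit 309) (nat_lit 291) (nat_lit 120)) (XT.lf (nat_lit 0) (nat_lit 317666450508) (nat_lit 228) (nat_lit 66243887862) (nat_lit 304) (nat_lit 109846244888) (nat_lit 35) (nat_lit 5) (nat_lit 38) (nat_lit 5) (nat_lit 39) (nat_lit 5) (nat_lit 310) (nat_lit 291) (nat_lit 119))) (XT.nd (nat_lit 36036) (nat_lit 0) (nat_lit 2964) (XT.lf (nat_lit 0) (nat_lit 168045789801) (nat_lit 152) (nat_lit 347214916249) (nat_lit 228) (nat_lit 5244721448) (nat_lit 33) (nat_lit 5) (nat_lit 35) (nat_lit 5) (nat_lit 36) (nat_lit 5) (nat_lit 311) (nat_lit 291) (nat_lit 118)) (XT.lf (nat_lit 0) (nat_lit 26239961739) (nat_lit 0) (nat_lit 26239961739) (nat_lit 684) (nat_lit 59795730514) (nat_lit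 72) (nat_lit 5) (nat_lit 72) (nat_lit 3) (nat_lit 81) (nat_lit 3) (nat_lit 292) (nat_lit 292) (nat_lit 136)))) (XT.nd (nat_lit 156) (nat_lit 0) (nat_lit 76) (XT.nd (nat_lit 78) (nat_lit 0) (nat_lit 76) (XT.lf (nat_lit 0) (nat_lit 110808095297) (nat_lit 684) (nat_lit 20467437865) (nat_lit 760) (nat_lit 102175328323) (nat_lit 72) (nat_lit 5) (nat_lit 81) (nat_lit 3) (nat_lit 82) (nat_lit 5) (nat_lit 293) (nat_lit 292) (nat_lit 135)) (XT.lf (nat_lit 0) (nat_lit 120723518845) (nat_lit 684) (nat_lit 96233933847) (nat_lit 760) (nat_lit 25924961418) (nat_lit 73) (nat_lit 5) (nat_lit 82) (nat_lit 5) (nat_lit 83) (nat_lit 5) (nat_lit 294) (nat_lit 292) (nat_lit 134))) (XT.nd (nat_lit 78) (nat_lit 0) (nat_lit 76) (XT.lf (nat_lit 76) (nat_lit 74994690893) (nat_lit 0) (nat_lit 60184110408) (nat_lit 760) (nat_lit 117702358958) (nat_lit 74) (nat_lit 5) (nat_lit 73) (nat_lit 5) (nat_lit 83) (nat_lit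 5) (nat_lit 295) (nat_lit 292) (nat_lit 133)) (XT.nd (nat_lit 78) (nat_lit 0) (nat_lit 76) (XT.lf (nat_lit 0) (nat_lit 154198002631) (nat_lit 684) (nat_lit 1969339398) (nat_lit 760) (nat_lit 107342089779) (nat_lit 74) (nat_lit 5) (nat_lit 83) (nat_lit 5) (nat_lit 84) (nat_lit 5) (nat_lit 296) (nat_lit 292) (nat_lit 132)) (XT.lf (nat_lit 0) (nat_lit 178994770372) (nat_lit 684) (nat_lit 81822044275) (nat_lit 760) (nat_lit 13958349402) (nat_lit 75) (nat_lit 5) (nat_lit 84) (nat_lit 5) (nat_lit 85) (nat_lit 5) (nat_lit 297) (nat_lit 292) (nat_lit 131))))))) (XT.nd (nat_lit 702) (nat_lit 608) (nat_lit 0) (XT.nd (nat_lit 312) (nat_lit 1216) (nat_lit 0) (XT.nd (nat_lit 156) (nat_lit 380) (nat_lit 0) (XT.nd (nat_lit 78) (nat_lit 608) (nat_lit 0) (XT.lf (nat_lit 76) (nat_lit 117733529776) (nat_lit 0) (nat_lit 92547895619) (nat_lit 760) (nat_lit 76435422630) (nat_lit 76) (nat_lit 5) (nat_lit 75)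 (nat_lit 5) (nat_lit 85) (nat_lit 5) (nat_lit 298) (nat_lit 292) (nat_lit 130)) (XT.lf (nat_lit 0) (nat_lit 36381349467) (nat_lit 684) (nat_lit 211098590936) (nat_lit 760) (nat_lit 51963480352) (nat_lit 67) (nat_lit 5) (nat_lit 76) (nat_lit 5) (nat_lit 77) (nat_lit 5) (nat_lit 299) (nat_lit 292) (nat_lit 129))) (XT.nd (nat_lit 78) (nat_lit 380) (nat_lit 0) (XT.lf (nat_lit 0) (nat_lit 262597298217) (nat_lit 684) (nat_lit 29535854297) (nat_lit 760) (nat_lit 20831026378) (nat_lit 67) (nat_lit 5) (nat_lit 76) (nat_lit 5) (nat_lit 77) (nat_lit 5) (nat_lit 300) (nat_lit 292) (nat_lit 128)) (XT.lf (nat_lit 0) (nat_lit 17922889540) (nat_lit 380) (nat_lit 144995715277) (nat_lit 76) (nat_lit 164360992722) (nat_lit 62) (nat_lit 5) (nat_lit 67) (nat_lit 5) (nat_lit 63) (nat_lit 5) (nat_lit 301) (nat_lit 292) (nat_lit 127)))) (XT.nd (nat_lit 156) (nat_lit 836) (nat_lit 0) (XT.nd (nat_lit 78) (nat_lit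 0) (nat_lit 0) (XT.lf (nat_lit 0) (nat_lit 62440675605) (nat_lit 456) (nat_lit 248272758315) (nat_lit 76) (nat_lit 31840072730) (nat_lit 57) (nat_lit 5) (nat_lit 63) (nat_lit 5) (nat_lit 58) (nat_lit 5) (nat_lit 302) (nat_lit 292) (nat_lit 126)) (XT.lf (nat_lit 0) (nat_lit 115834026072) (nat_lit 456) (nat_lit 3834579160) (nat_lit 76) (nat_lit 239115016472) (nat_lit 57) (nat_lit 5) (nat_lit 63) (nat_lit 5) (nat_lit 58) (nat_lit 5) (nat_lit 303) (nat_lit 292) (nat_lit 125))) (XT.nd (nat_lit 78) (nat_lit 532) (nat_lit 0) (XT.lf (nat_lit 0) (nat_lit 179116647834) (nat_lit 380) (nat_lit 108763563516) (nat_lit 76) (nat_lit 88151044719) (nat_lit 53) (nat_lit 5) (nat_lit 58) (nat_lit 5) (nat_lit 54) (nat_lit 5) (nat_lit 304) (nat_lit 292) (nat_lit 124)) (XT.nd (nat_lit 78) (nat_lit 228) (nat_lit 0) (XT.lf (nat_lit 0) (nat_lit 168927424182) (nat_lit 304) (nat_lit 83257519700) (nat_lit 380) (nat_lit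 142237604323) (nat_lit 49) (nat_lit 5) (nat_lit 53) (nat_lit 5) (nat_lit 54) (nat_lit 5) (nat_lit 305) (nat_lit 292) (nat_lit 123)) (XT.lf (nat_lit 0) (nat_lit 58208642346) (nat_lit 228) (nat_lit 277874857173) (nat_lit 304) (nat_lit 77952404631) (nat_lit 46) (nat_lit 5) (nat_lit 49) (nat_lit 5) (nat_lit 50) (nat_lit 5) (nat_lit 306) (nat_lit 292) (nat_lit 122)))))) (XT.nd (nat_lit 36504) (nat_lit 0) (nat_lit 2584) (XT.nd (nat_lit 156) (nat_lit 228) (nat_lit 0) (XT.nd (nat_lit 78) (nat_lit 380) (nat_lit 0) (XT.lf (nat_lit 0) (nat_lit 371210681943) (nat_lit 228) (nat_lit 60792389419) (nat_lit 304) (nat_lit 2949800830) (nat_lit 46) (nat_lit 5) (nat_lit 49) (nat_lit 5) (nat_lit 50) (nat_lit 5) (nat_lit 307) (nat_lit 292) (nat_lit 121)) (XT.lf (nat_lit 0) (nat_lit 82392407316) (nat_lit 380) (nat_lit 201304404534) (nat_lit 76) (nat_lit 173443575714) (nat_lit 41) (nat_lit 5) (nat_lit 46) (nat_lit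 5) (nat_lit 42) (nat_lit 5) (nat_lit 308) (nat_lit 292) (nat_lit 120))) (XT.nd (nat_lit 78) (nat_lit 0) (nat_lit 0) (XT.lf (nat_lit 0) (nat_lit 125120781511) (nat_lit 228) (nat_lit 53446282409) (nat_lit 304) (nat_lit 302328001626) (nat_lit 38) (nat_lit 5) (nat_lit 41) (nat_lit 5) (nat_lit 42) (nat_lit 5) (nat_lit 309) (nat_lit 292) (nat_lit 119)) (XT.nd (nat_lit 36192) (nat_lit 0) (nat_lit 2584) (XT.lf (nat_lit 0) (nat_lit 289047702660) (nat_lit 304) (nat_lit 24631862202) (nat_lit 76) (nat_lit 192539952585) (nat_lit 38) (nat_lit 5) (nat_lit 42) (nat_lit 5) (nat_lit 39) (nat_lit 5) (nat_lit 310) (nat_lit 292) (nat_lit 118)) (XT.lf (nat_lit 0) (nat_lit 28340068896) (nat_lit 0) (nat_lit 28340068896) (nat_lit 684) (nat_lit 64577471549) (nat_lit 72) (nat_lit 5) (nat_lit 72) (nat_lit 3) (nat_lit 81) (nat_lit 3) (nat_lit 293) (nat_lit 293) (nat_lit 134))))) (XT.nd (nat_lit 156) (nat_lit 0) (nat_lit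 76) (XT.nd (nat_lit 78) (nat_lit 0) (nat_lit 76) (XT.lf (nat_lit 0) (nat_lit 119676087783) (nat_lit 684) (nat_lit 22102941414) (nat_lit 760) (nat_lit 110347722949) (nat_lit 72) (nat_lit 5) (nat_lit 81) (nat_lit 3) (nat_lit 82) (nat_lit 5) (nat_lit 294) (nat_lit 293) (nat_lit 133)) (XT.lf (nat_lit 0) (nat_lit 130384505148) (nat_lit 684) (nat_lit 103930652263) (nat_lit 760) (nat_lit 27997684390) (nat_lit 73) (nat_lit 5) (nat_lit 82) (nat_lit 5) (nat_lit 83) (nat_lit 5) (nat_lit 295) (nat_lit 293) (nat_lit 132))) (XT.nd (nat_lit 78) (nat_lit 0) (nat_lit 76) (XT.lf (nat_lit 76) (nat_lit 80996175699) (nat_lit 0) (nat_lit 64999834329) (nat_lit 760) (nat_lit 127115488377) (nat_lit 74) (nat_lit 5) (nat_lit 73) (nat_lit 5) (nat_lit 83) (nat_lit 5) (nat_lit 296) (nat_lit 293) (nat_lit 131)) (XT.nd (nat_lit 78) (nat_lit 0) (nat_lit 76) (XT.lf (nat_lit 0) (nat_lit 166536517922) (nat_lit 684) (nat_lit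 2124960860) (nat_lit 760) (nat_lit 115928565073) (nat_lit 74) (nat_lit 5) (nat_lit 83) (nat_lit 5) (nat_lit 84) (nat_lit 5) (nat_lit 297) (nat_lit 293) (nat_lit 130)) (XT.lf (nat_lit 0) (nat_lit 193316847325) (nat_lit 684) (nat_lit 88365822073) (nat_lit 760) (nat_lit 15074374913) (nat_lit 75) (nat_lit 5) (nat_lit 84) (nat_lit 5) (nat_lit 85) (nat_lit 5) (nat_lit 298) (nat_lit 293) (nat_lit 129))))))))
noncomputable def xc125 : XT := (XT.nd (nat_lit 37596) (nat_lit 0) (nat_lit 228) (XT.nd (nat_lit 702) (nat_lit 608) (nat_lit 0) (XT.nd (nat_lit 312) (nat_lit 1216) (nat_lit 0) (XT.nd (nat_lit 156) (nat_lit 380) (nat_lit 0) (XT.nd (nat_lit 78) (nat_lit 608) (nat_lit 0) (XT.lf (nat_lit 76) (nat_lit 127154111604) (nat_lit 0) (nat_lit 99952167963) (nat_lit 760) (nat_lit 82547791797) (nat_lit 76) (nat_lit 5) (nat_lit 75) (nat_lit 5) (nat_lit 85) (nat_lit 5) (nat_lit 299) (nat_lit 293) (nat_lit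 128)) (XT.lf (nat_lit 0) (nat_lit 39293799997) (nat_lit 684) (nat_lit 227986726394) (nat_lit 760) (nat_lit 56118251546) (nat_lit 67) (nat_lit 5) (nat_lit 76) (nat_lit 5) (nat_lit 77) (nat_lit 5) (nat_lit 300) (nat_lit 293) (nat_lit 127))) (XT.nd (nat_lit 78) (nat_lit 380) (nat_lit 0) (XT.lf (nat_lit 0) (nat_lit 283606880752) (nat_lit 684) (nat_lit 31898952440) (nat_lit 760) (nat_lit 22495372161) (nat_lit 67) (nat_lit 5) (nat_lit 76) (nat_lit 5) (nat_lit 77) (nat_lit 5) (nat_lit 301) (nat_lit 293) (nat_lit 126)) (XT.lf (nat_lit 0) (nat_lit 19358661090) (nat_lit 380) (nat_lit 156593475568) (nat_lit 76) (nat_lit 177509725996) (nat_lit 62) (nat_lit 5) (nat_lit 67) (nat_lit 5) (nat_lit 63) (nat_lit 5) (nat_lit 302) (nat_lit 293) (nat_lit 125)))) (XT.nd (nat_lit 156) (nat_lit 836) (nat_lit 0) (XT.nd (nat_lit 78) (nat_lit 0) (nat_lit 0) (XT.lf (nat_lit 0) (nat_lit 67437754474) (nat_lit 456)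 (nat_lit 268132667828) (nat_lit 76) (nat_lit 34387268392) (nat_lit 57) (nat_lit 5) (nat_lit 63) (nat_lit 5) (nat_lit 58) (nat_lit 5) (nat_lit 303) (nat_lit 293) (nat_lit 124)) (XT.lf (nat_lit 0) (nat_lit 125102437807) (nat_lit 456) (nat_lit 4139575907) (nat_lit 76) (nat_lit 258244208386) (nat_lit 57) (nat_lit 5) (nat_lit 63) (nat_lit 5) (nat_lit 58) (nat_lit 5) (nat_lit 304) (nat_lit 293) (nat_lit 123))) (XT.nd (nat_lit 78) (nat_lit 532) (nat_lit 0) (XT.lf (nat_lit 0) (nat_lit 193447572167) (nat_lit 380) (nat_lit 117462873460) (nat_lit 76) (nat_lit 95203226805) (nat_lit 53) (nat_lit 5) (nat_lit 58) (nat_lit 5) (nat_lit 54) (nat_lit 5) (nat_lit 305) (nat_lit 293) (nat_lit 122)) (XT.nd (nat_lit 78) (nat_lit 228) (nat_lit 0) (XT.lf (nat_lit 0) (nat_lit 182443316109) (nat_lit 304) (nat_lit 89917924337) (nat_lit 380) (nat_lit 153615032398) (nat_lit 49) (nat_lit 5) (nat_lit 53) (nat_lit 5)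 (nat_lit 54) (nat_lit 5) (nat_lit 306) (nat_lit 293) (nat_lit 121)) (XT.lf (nat_lit 0) (nat_lit 62867030767) (nat_lit 228) (nat_lit 300104567919) (nat_lit 304) (nat_lit 84187102978) (nat_lit 46) (nat_lit 5) (nat_lit 49) (nat_lit 5) (nat_lit 50) (nat_lit 5) (nat_lit 307) (nat_lit 293) (nat_lit 120)))))) (XT.nd (nat_lit 36504) (nat_lit 0) (nat_lit 2584) (XT.nd (nat_lit 156) (nat_lit 228) (nat_lit 0) (XT.nd (nat_lit 78) (nat_lit 380) (nat_lit 0) (XT.lf (nat_lit 0) (nat_lit 400909107826) (nat_lit 228) (nat_lit 65655523325) (nat_lit 304) (nat_lit 3184401542) (nat_lit 46) (nat_lit 5) (nat_lit 49) (nat_lit 5) (nat_lit 50) (nat_lit 5) (nat_lit 308) (nat_lit 293) (nat_lit 119)) (XT.lf (nat_lit 0) (nat_lit 88985068411) (nat_lit 380) (nat_lit 217407146342) (nat_lit 76) (nat_lit 187319337241) (nat_lit 41) (nat_lit 5) (nat_lit 46) (nat_lit 5) (nat_lit 42) (nat_lit 5) (nat_lit 309) (nat_lit 293) (nat_lit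 118))) (XT.nd (nat_lit 36270) (nat_lit 0) (nat_lit 2584) (XT.lf (nat_lit 0) (nat_lit 135131984594) (nat_lit 228) (nat_lit 57721643038) (nat_lit 304) (nat_lit 326512980312) (nat_lit 38) (nat_lit 5) (nat_lit 41) (nat_lit 5) (nat_lit 42) (nat_lit 5) (nat_lit 310) (nat_lit 293) (nat_lit 117)) (XT.lf (nat_lit 0) (nat_lit 30608054773) (nat_lit 0) (nat_lit 30608054773) (nat_lit 684) (nat_lit 69742025406) (nat_lit 72) (nat_lit 5) (nat_lit 72) (nat_lit 3) (nat_lit 81) (nat_lit 3) (nat_lit 294) (nat_lit 294) (nat_lit 132)))) (XT.nd (nat_lit 156) (nat_lit 0) (nat_lit 76) (XT.nd (nat_lit 78) (nat_lit 0) (nat_lit 76) (XT.lf (nat_lit 0) (nat_lit 129253042486) (nat_lit 684) (nat_lit 23869555089) (nat_lit 760) (nat_lit 119174141917) (nat_lit 72) (nat_lit 5) (nat_lit 81) (nat_lit 3) (nat_lit 82) (nat_lit 5) (nat_lit 295) (nat_lit 294) (nat_lit 131)) (XT.lf (nat_lit 0) (nat_lit 140817927421) (nat_lit 684)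 (nat_lit 112243392946) (nat_lit 760) (nat_lit 30236406941) (nat_lit 73) (nat_lit 5) (nat_lit 82) (nat_lit 5) (nat_lit 83) (nat_lit 5) (nat_lit 296) (nat_lit 294) (nat_lit 130))) (XT.nd (nat_lit 78) (nat_lit 0) (nat_lit 76) (XT.lf (nat_lit 76) (nat_lit 87477506873) (nat_lit 0) (nat_lit 70200674203) (nat_lit 760) (nat_lit 137282104593) (nat_lit 74) (nat_lit 5) (nat_lit 73) (nat_lit 5) (nat_lit 83) (nat_lit 5) (nat_lit 297) (nat_lit 294) (nat_lit 129)) (XT.nd (nat_lit 78) (nat_lit 0) (nat_lit 76) (XT.lf (nat_lit 0) (nat_lit 179861732806) (nat_lit 684) (nat_lit 2293306760) (nat_lit 760) (nat_lit 125202085628) (nat_lit 74) (nat_lit 5) (nat_lit 83) (nat_lit 5) (nat_lit 84) (nat_lit 5) (nat_lit 298) (nat_lit 294) (nat_lit 128)) (XT.lf (nat_lit 0) (nat_lit 208784334449) (nat_lit 684) (nat_lit 95433385384) (nat_lit 760) (nat_lit 16279774116) (nat_lit 75) (nat_lit 5) (nat_lit 84) (nat_lit 5) (nat_lit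 85) (nat_lit 5) (nat_lit 299) (nat_lit 294) (nat_lit 127))))))) (XT.nd (nat_lit 702) (nat_lit 380) (nat_lit 0) (XT.nd (nat_lit 312) (nat_lit 1216) (nat_lit 0) (XT.nd (nat_lit 156) (nat_lit 380) (nat_lit 0) (XT.nd (nat_lit 78) (nat_lit 608) (nat_lit 0) (XT.lf (nat_lit 76) (nat_lit 137328069001) (nat_lit 0) (nat_lit 107948719225) (nat_lit 760) (nat_lit 89149502106) (nat_lit 76) (nat_lit 5) (nat_lit 75) (nat_lit 5) (nat_lit 85) (nat_lit 5) (nat_lit 300) (nat_lit 294) (nat_lit 126)) (XT.lf (nat_lit 0) (nat_lit 42438969439) (nat_lit 684) (nat_lit 246225877282) (nat_lit 760) (nat_lit 60605733589) (nat_lit 67) (nat_lit 5) (nat_lit 76) (nat_lit 5) (nat_lit 77) (nat_lit 5) (nat_lit 301) (nat_lit 294) (nat_lit 125))) (XT.nd (nat_lit 78) (nat_lit 380) (nat_lit 0) (XT.lf (nat_lit 0) (nat_lit 306296973289) (nat_lit 684) (nat_lit 34451065651) (nat_lit 760) (nat_lit 24293170377) (nat_lit 67) (nat_lit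 5) (nat_lit 76) (nat_lit 5) (nat_lit 77) (nat_lit 5) (nat_lit 302) (nat_lit 294) (nat_lit 124)) (XT.lf (nat_lit 0) (nat_lit 20909017547) (nat_lit 380) (nat_lit 169119327302) (nat_lit 76) (nat_lit 191710378781) (nat_lit 62) (nat_lit 5) (nat_lit 67) (nat_lit 5) (nat_lit 63) (nat_lit 5) (nat_lit 303) (nat_lit 294) (nat_lit 123)))) (XT.nd (nat_lit 156) (nat_lit 836) (nat_lit 0) (XT.nd (nat_lit 78) (nat_lit 0) (nat_lit 0) (XT.lf (nat_lit 0) (nat_lit 72834339321) (nat_lit 456) (nat_lit 289581642749) (nat_lit 76) (nat_lit 37138241155) (nat_lit 57) (nat_lit 5) (nat_lit 63) (nat_lit 5) (nat_lit 58) (nat_lit 5) (nat_lit 304) (nat_lit 294) (nat_lit 122)) (XT.lf (nat_lit 0) (nat_lit 135112081432) (nat_lit 456) (nat_lit 4469224845) (nat_lit 76) (nat_lit 278903736995) (nat_lit 57) (nat_lit 5) (nat_lit 63) (nat_lit 5) (nat_lit 58) (nat_lit 5) (nat_lit 305) (nat_lit 294) (nat_lit 121))) (XT.nd (nat_lit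 78) (nat_lit 532) (nat_lit 0) (XT.lf (nat_lit 0) (nat_lit 208924743257) (nat_lit 380) (nat_lit 126858381442) (nat_lit 76) (nat_lit 102819569404) (nat_lit 53) (nat_lit 5) (nat_lit 58) (nat_lit 5) (nat_lit 54) (nat_lit 5) (nat_lit 306) (nat_lit 294) (nat_lit 120)) (XT.nd (nat_lit 78) (nat_lit 228) (nat_lit 0) (XT.lf (nat_lit 0) (nat_lit 197040237153) (nat_lit 304) (nat_lit 97111189440) (nat_lit 380) (nat_lit 165902880163) (nat_lit 49) (nat_lit 5) (nat_lit 53) (nat_lit 5) (nat_lit 54) (nat_lit 5) (nat_lit 307) (nat_lit 294) (nat_lit 119)) (XT.lf (nat_lit 0) (nat_lit 67897848162) (nat_lit 228) (nat_lit 324112695159) (nat_lit 304) (nat_lit 90920790332) (nat_lit 46) (nat_lit 5) (nat_lit 49) (nat_lit 5) (nat_lit 50) (nat_lit 5) (nat_lit 308) (nat_lit 294) (nat_lit 118)))))) (XT.nd (nat_lit 36660) (nat_lit 0) (nat_lit 1976) (XT.nd (nat_lit 36426) (nat_lit 0) (nat_lit 2356) (XT.nd (nat_lit 78)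 (nat_lit 380) (nat_lit 0) (XT.lf (nat_lit 0) (nat_lit 432983183613) (nat_lit 228) (nat_lit 70907744642) (nat_lit 304) (nat_lit 3437967661) (nat_lit 46) (nat_lit 5) (nat_lit 49) (nat_lit 5) (nat_lit 50) (nat_lit 5) (nat_lit 309) (nat_lit 294) (nat_lit 117)) (XT.lf (nat_lit 0) (nat_lit 96104961427) (nat_lit 380) (nat_lit 234798337258) (nat_lit 76) (nat_lit 202305120392) (nat_lit 41) (nat_lit 5) (nat_lit 46) (nat_lit 5) (nat_lit 42) (nat_lit 5) (nat_lit 310) (nat_lit 294) (nat_lit 116))) (XT.nd (nat_lit 78) (nat_lit 0) (nat_lit 0) (XT.lf (nat_lit 0) (nat_lit 33057368193) (nat_lit 0) (nat_lit 33057368193) (nat_lit 684) (nat_lit 75319978088) (nat_lit 72) (nat_lit 5) (nat_lit 72) (nat_lit 3) (nat_lit 81) (nat_lit 3) (nat_lit 295) (nat_lit 295) (nat_lit 130)) (XT.nd (nat_lit 78) (nat_lit 0) (nat_lit 76) (XT.lf (nat_lit 0) (nat_lit 139595744459) (nat_lit 684) (nat_lit 25777729202) (nat_lit 760)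 (nat_lit 128706873966) (nat_lit 72) (nat_lit 5) (nat_lit 81) (nat_lit 3) (nat_lit 82) (nat_lit 5) (nat_lit 296) (nat_lit 295) (nat_lit 129)) (XT.lf (nat_lit 0) (nat_lit 152085643732) (nat_lit 684) (nat_lit 121221397049) (nat_lit 760) (nat_lit 32654383111) (nat_lit 73) (nat_lit 5) (nat_lit 82) (nat_lit 5) (nat_lit 83) (nat_lit 5) (nat_lit 297) (nat_lit 295) (nat_lit 128))))) (XT.nd (nat_lit 156) (nat_lit 456) (nat_lit 0) (XT.nd (nat_lit 78) (nat_lit 0) (nat_lit 76) (XT.lf (nat_lit 76) (nat_lit 94477110988) (nat_lit 0) (nat_lit 75817459560) (nat_lit 760) (nat_lit 148262424285) (nat_lit 74) (nat_lit 5) (nat_lit 73) (nat_lit 5) (nat_lit 83) (nat_lit 5) (nat_lit 298) (nat_lit 295) (nat_lit 127)) (XT.lf (nat_lit 0) (nat_lit 194252637695) (nat_lit 684) (nat_lit 2475355861) (nat_lit 760) (nat_lit 135217596914) (nat_lit 74) (nat_lit 5) (nat_lit 83) (nat_lit 5) (nat_lit 84) (nat_lit 5) (nat_lit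 299) (nat_lit 295) (nat_lit 126))) (XT.nd (nat_lit 78) (nat_lit 608) (nat_lit 0) (XT.lf (nat_lit 0) (nat_lit 225488915342) (nat_lit 684) (nat_lit 103066596633) (nat_lit 760) (nat_lit 17581683831) (nat_lit 75) (nat_lit 5) (nat_lit 84) (nat_lit 5) (nat_lit 85) (nat_lit 5) (nat_lit 300) (nat_lit 295) (nat_lit 125)) (XT.nd (nat_lit 78) (nat_lit 608) (nat_lit 0) (XT.lf (nat_lit 76) (nat_lit 148315710670) (nat_lit 0) (nat_lit 116584940686) (nat_lit 760) (nat_lit 96279650688) (nat_lit 76) (nat_lit 5) (nat_lit 75) (nat_lit 5) (nat_lit 85) (nat_lit 5) (nat_lit 301) (nat_lit 295) (nat_lit 124)) (XT.lf (nat_lit 0) (nat_lit 45835514842) (nat_lit 684) (nat_lit 265924129886) (nat_lit 760) (nat_lit 65452496391) (nat_lit 67) (nat_lit 5) (nat_lit 76) (nat_lit 5) (nat_lit 77) (nat_lit 5) (nat_lit 302) (nat_lit 295) (nat_lit 123))))))))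
noncomputable def xc126 : XT := (XT.nd (nat_lit 37830) (nat_lit 0) (nat_lit 228) (XT.nd (nat_lit 37128) (nat_lit 0) (nat_lit 836) (XT.nd (nat_lit 312) (nat_lit 836) (nat_lit 0) (XT.nd (nat_lit 156) (nat_lit 380) (nat_lit 0) (XT.nd (nat_lit 78) (nat_lit 380) (nat_lit 0) (XT.lf (nat_lit 0) (nat_lit 330802053234) (nat_lit 684) (nat_lit 37207319812) (nat_lit 760) (nat_lit 26235053743) (nat_lit 67) (nat_lit 5) (nat_lit 76) (nat_lit 5) (nat_lit 77) (nat_lit 5) (nat_lit 303) (nat_lit 295) (nat_lit 122)) (XT.lf (nat_lit 0) (nat_lit 22583165193) (nat_lit 380) (nat_lit 182647479186) (nat_lit 76) (nat_lit 207047101664) (nat_lit 62) (nat_lit 5) (nat_lit 67) (nat_lit 5) (nat_lit 63) (nat_lit 5) (nat_lit 304) (nat_lit 295) (nat_lit 121))) (XT.nd (nat_lit 78) (nat_lit 0) (nat_lit 0) (XT.lf (nat_lit 0) (nat_lit 78662427764) (nat_lit 456) (nat_lit 312746769415) (nat_lit 76) (nat_lit 40109292983) (nat_lit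 57) (nat_lit 5) (nat_lit 63) (nat_lit 5) (nat_lit 58) (nat_lit 5) (nat_lit 305) (nat_lit 295) (nat_lit 120)) (XT.lf (nat_lit 0) (nat_lit 145922289889) (nat_lit 456) (nat_lit 4825462134) (nat_lit 76) (nat_lit 301216029042) (nat_lit 57) (nat_lit 5) (nat_lit 63) (nat_lit 5) (nat_lit 58) (nat_lit 5) (nat_lit 306) (nat_lit 295) (nat_lit 119)))) (XT.nd (nat_lit 156) (nat_lit 228) (nat_lit 0) (XT.nd (nat_lit 78) (nat_lit 304) (nat_lit 0) (XT.lf (nat_lit 0) (nat_lit 225639893257) (nat_lit 380) (nat_lit 137005747178) (nat_lit 76) (nat_lit 111045207362) (nat_lit 53) (nat_lit 5) (nat_lit 58) (nat_lit 5) (nat_lit 54) (nat_lit 5) (nat_lit 307) (nat_lit 295) (nat_lit 118)) (XT.lf (nat_lit 0) (nat_lit 212804704200) (nat_lit 304) (nat_lit 104879939839) (nat_lit 380) (nat_lit 179173949029) (nat_lit 49) (nat_lit 5) (nat_lit 53) (nat_lit 5) (nat_lit 54) (nat_lit 5) (nat_lit 308) (nat_lit 295) (nat_lit 117)))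 (XT.nd (nat_lit 36504) (nat_lit 0) (nat_lit 1976) (XT.lf (nat_lit 0) (nat_lit 73330923386) (nat_lit 228) (nat_lit 350041506560) (nat_lit 304) (nat_lit 98193355406) (nat_lit 46) (nat_lit 5) (nat_lit 49) (nat_lit 5) (nat_lit 50) (nat_lit 5) (nat_lit 309) (nat_lit 295) (nat_lit 116)) (XT.nd (nat_lit 78) (nat_lit 0) (nat_lit 0) (XT.lf (nat_lit 0) (nat_lit 35702531240) (nat_lit 0) (nat_lit 35702531240) (nat_lit 684) (nat_lit 81344368044) (nat_lit 72) (nat_lit 5) (nat_lit 72) (nat_lit 3) (nat_lit 81) (nat_lit 3) (nat_lit 296) (nat_lit 296) (nat_lit 128)) (XT.lf (nat_lit 0) (nat_lit 150765511846) (nat_lit 684) (nat_lit 27838755585) (nat_lit 760) (nat_lit 139002395673) (nat_lit 72) (nat_lit 5) (nat_lit 81) (nat_lit 3) (nat_lit 82) (nat_lit 5) (nat_lit 297) (nat_lit 296) (nat_lit 127)))))) (XT.nd (nat_lit 312) (nat_lit 1216) (nat_lit 0) (XT.nd (nat_lit 156) (nat_lit 0) (nat_lit 76) (XT.nd (nat_lit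 78) (nat_lit 0) (nat_lit 0) (XT.lf (nat_lit 0) (nat_lit 164254451778) (nat_lit 684) (nat_lit 130917850811) (nat_lit 760) (nat_lit 35265930960) (nat_lit 73) (nat_lit 5) (nat_lit 82) (nat_lit 5) (nat_lit 83) (nat_lit 5) (nat_lit 298) (nat_lit 296) (nat_lit 126)) (XT.lf (nat_lit 76) (nat_lit 102036483198) (nat_lit 0) (nat_lit 81883483399) (nat_lit 760) (nat_lit 160121490351) (nat_lit 74) (nat_lit 5) (nat_lit 73) (nat_lit 5) (nat_lit 83) (nat_lit 5) (nat_lit 299) (nat_lit 296) (nat_lit 125))) (XT.nd (nat_lit 78) (nat_lit 0) (nat_lit 76) (XT.lf (nat_lit 0) (nat_lit 209794534466) (nat_lit 684) (nat_lit 2672170819) (nat_lit 760) (nat_lit 146034442626) (nat_lit 74) (nat_lit 5) (nat_lit 83) (nat_lit 5) (nat_lit 84) (nat_lit 5) (nat_lit 300) (nat_lit 296) (nat_lit 124)) (XT.lf (nat_lit 0) (nat_lit 243529601046) (nat_lit 684) (nat_lit 111310673009) (nat_lit 760) (nat_lit 18987813691) (nat_lit 75)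 (nat_lit 5) (nat_lit 84) (nat_lit 5) (nat_lit 85) (nat_lit 5) (nat_lit 301) (nat_lit 296) (nat_lit 123)))) (XT.nd (nat_lit 156) (nat_lit 760) (nat_lit 0) (XT.nd (nat_lit 78) (nat_lit 608) (nat_lit 0) (XT.lf (nat_lit 76) (nat_lit 160182164497) (nat_lit 0) (nat_lit 125912013654) (nat_lit 760) (nat_lit 103980469600) (nat_lit 76) (nat_lit 5) (nat_lit 75) (nat_lit 5) (nat_lit 85) (nat_lit 5) (nat_lit 302) (nat_lit 296) (nat_lit 122)) (XT.lf (nat_lit 0) (nat_lit 49503580180) (nat_lit 684) (nat_lit 287198216675) (nat_lit 760) (nat_lit 70687242154) (nat_lit 67) (nat_lit 5) (nat_lit 76) (nat_lit 5) (nat_lit 77) (nat_lit 5) (nat_lit 303) (nat_lit 296) (nat_lit 121))) (XT.nd (nat_lit 78) (nat_lit 760) (nat_lit 0) (XT.lf (nat_lit 0) (nat_lit 357267350965) (nat_lit 684) (nat_lit 40184050209) (nat_lit 760) (nat_lit 28332511794) (nat_lit 67) (nat_lit 5) (nat_lit 76) (nat_lit 5) (nat_lit 77) (nat_lit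 5) (nat_lit 304) (nat_lit 296) (nat_lit 120)) (XT.nd (nat_lit 78) (nat_lit 380) (nat_lit 0) (XT.lf (nat_lit 0) (nat_lit 24391041182) (nat_lit 380) (nat_lit 197258082133) (nat_lit 76) (nat_lit 223610777701) (nat_lit 62) (nat_lit 5) (nat_lit 67) (nat_lit 5) (nat_lit 63) (nat_lit 5) (nat_lit 305) (nat_lit 296) (nat_lit 119)) (XT.lf (nat_lit 0) (nat_lit 84956571932) (nat_lit 456) (nat_lit 337765306618) (nat_lit 76) (nat_lit 43318030021) (nat_lit 57) (nat_lit 5) (nat_lit 63) (nat_lit 5) (nat_lit 58) (nat_lit 5) (nat_lit 306) (nat_lit 296) (nat_lit 118))))))) (XT.nd (nat_lit 37206) (nat_lit 0) (nat_lit 608) (XT.nd (nat_lit 36816) (nat_lit 0) (nat_lit 1748) (XT.nd (nat_lit 156) (nat_lit 304) (nat_lit 0) (XT.nd (nat_lit 78) (nat_lit 304) (nat_lit 0) (XT.lf (nat_lit 0) (nat_lit 157597137845) (nat_lit 456) (nat_lit 5210383966) (nat_lit 76) (nat_lit 325313305439) (nat_lit 57) (nat_lit 5) (nat_lit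 63) (nat_lit 5) (nat_lit 58) (nat_lit 5) (nat_lit 307) (nat_lit 296) (nat_lit 117)) (XT.lf (nat_lit 0) (nat_lit 243692088266) (nat_lit 380) (nat_lit 147965088315) (nat_lit 76) (nat_lit 119928886028) (nat_lit 53) (nat_lit 5) (nat_lit 58) (nat_lit 5) (nat_lit 54) (nat_lit 5) (nat_lit 308) (nat_lit 296) (nat_lit 116))) (XT.nd (nat_lit 36582) (nat_lit 0) (nat_lit 1748) (XT.lf (nat_lit 0) (nat_lit 229830150559) (nat_lit 304) (nat_lit 113270210921) (nat_lit 380) (nat_lit 193506869113) (nat_lit 49) (nat_lit 5) (nat_lit 53) (nat_lit 5) (nat_lit 54) (nat_lit 5) (nat_lit 309) (nat_lit 296) (nat_lit 115)) (XT.lf (nat_lit 0) (nat_lit 38559225502) (nat_lit 0) (nat_lit 38559225502) (nat_lit 684) (nat_lit 87850881572) (nat_lit 72) (nat_lit 5) (nat_lit 72) (nat_lit 3) (nat_lit 81) (nat_lit 3) (nat_lit 297) (nat_lit 297) (nat_lit 126)))) (XT.nd (nat_lit 156) (nat_lit 0) (nat_lit 76) (XT.nd (nat_lit 78)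 (nat_lit 0) (nat_lit 76) (XT.lf (nat_lit 0) (nat_lit 162828559919) (nat_lit 684) (nat_lit 30064834124) (nat_lit 760) (nat_lit 150121705803) (nat_lit 72) (nat_lit 5) (nat_lit 81) (nat_lit 3) (nat_lit 82) (nat_lit 5) (nat_lit 298) (nat_lit 297) (nat_lit 125)) (XT.lf (nat_lit 0) (nat_lit 177396485345) (nat_lit 684) (nat_lit 141390200341) (nat_lit 760) (nat_lit 38086517165) (nat_lit 73) (nat_lit 5) (nat_lit 82) (nat_lit 5) (nat_lit 83) (nat_lit 5) (nat_lit 299) (nat_lit 297) (nat_lit 124))) (XT.nd (nat_lit 78) (nat_lit 0) (nat_lit 76) (XT.lf (nat_lit 76) (nat_lit 110200433516) (nat_lit 0) (nat_lit 88434699686) (nat_lit 760) (nat_lit 172929556736) (nat_lit 74) (nat_lit 5) (nat_lit 73) (nat_lit 5) (nat_lit 83) (nat_lit 5) (nat_lit 300) (nat_lit 297) (nat_lit 123)) (XT.nd (nat_lit 78) (nat_lit 0) (nat_lit 76) (XT.lf (nat_lit 0) (nat_lit 226579542486) (nat_lit 684) (nat_lit 2884904094) (nat_lit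 760) (nat_lit 157716716176) (nat_lit 74) (nat_lit 5) (nat_lit 83) (nat_lit 5) (nat_lit 84) (nat_lit 5) (nat_lit 301) (nat_lit 297) (nat_lit 122)) (XT.lf (nat_lit 0) (nat_lit 263013317276) (nat_lit 684) (nat_lit 120214454014) (nat_lit 760) (nat_lit 20506491695) (nat_lit 75) (nat_lit 5) (nat_lit 84) (nat_lit 5) (nat_lit 85) (nat_lit 5) (nat_lit 302) (nat_lit 297) (nat_lit 121)))))) (XT.nd (nat_lit 390) (nat_lit 0) (nat_lit 0) (XT.nd (nat_lit 156) (nat_lit 760) (nat_lit 0) (XT.nd (nat_lit 78) (nat_lit 608) (nat_lit 0) (XT.lf (nat_lit 76) (nat_lit 172997763868) (nat_lit 0) (nat_lit 135985212839) (nat_lit 760) (nat_lit 112297575598) (nat_lit 76) (nat_lit 5) (nat_lit 75) (nat_lit 5) (nat_lit 85) (nat_lit 5) (nat_lit 303) (nat_lit 297) (nat_lit 120)) (XT.lf (nat_lit 0) (nat_lit 53464916106) (nat_lit 684) (nat_lit 310174208094) (nat_lit 760) (nat_lit 76340974999) (nat_lit 67) (nat_lit 5) (nat_lit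 76) (nat_lit 5) (nat_lit 77) (nat_lit 5) (nat_lit 304) (nat_lit 297) (nat_lit 119))) (XT.nd (nat_lit 78) (nat_lit 760) (nat_lit 0) (XT.lf (nat_lit 0) (nat_lit 385849710812) (nat_lit 684) (nat_lit 43398898379) (nat_lit 760) (nat_lit 30597958546) (nat_lit 67) (nat_lit 5) (nat_lit 76) (nat_lit 5) (nat_lit 77) (nat_lit 5) (nat_lit 305) (nat_lit 297) (nat_lit 118)) (XT.nd (nat_lit 78) (nat_lit 380) (nat_lit 0) (XT.lf (nat_lit 0) (nat_lit 26343372807) (nat_lit 380) (nat_lit 213037703851) (nat_lit 76) (nat_lit 241499560961) (nat_lit 62) (nat_lit 5) (nat_lit 67) (nat_lit 5) (nat_lit 63) (nat_lit 5) (nat_lit 306) (nat_lit 297) (nat_lit 117)) (XT.lf (nat_lit 0) (nat_lit 91754083580) (nat_lit 456) (nat_lit 364785498611) (nat_lit 76) (nat_lit 46783466936) (nat_lit 57) (nat_lit 5) (nat_lit 63) (nat_lit 5) (nat_lit 58) (nat_lit 5) (nat_lit 307) (nat_lit 297) (nat_lit 116))))) (XT.nd (nat_lit 36816)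 (nat_lit 0) (nat_lit 1140) (XT.nd (nat_lit 36738) (nat_lit 0) (nat_lit 1140) (XT.lf (nat_lit 0) (nat_lit 170205821738) (nat_lit 456) (nat_lit 5626258631) (nat_lit 76) (nat_lit 351338364794) (nat_lit 57) (nat_lit 5) (nat_lit 63) (nat_lit 5) (nat_lit 58) (nat_lit 5) (nat_lit 308) (nat_lit 297) (nat_lit 115)) (XT.lf (nat_lit 0) (nat_lit 41644385149) (nat_lit 0) (nat_lit 41644385149) (nat_lit 684) (nat_lit 94878063968) (nat_lit 72) (nat_lit 5) (nat_lit 72) (nat_lit 3) (nat_lit 81) (nat_lit 3) (nat_lit 298) (nat_lit 298) (nat_lit 124))) (XT.nd (nat_lit 78) (nat_lit 0) (nat_lit 76) (XT.lf (nat_lit 0) (nat_lit 175856394031) (nat_lit 684) (nat_lit 32469144733) (nat_lit 760) (nat_lit 162130686502) (nat_lit 72) (nat_lit 5) (nat_lit 81) (nat_lit 3) (nat_lit 82) (nat_lit 5) (nat_lit 299) (nat_lit 298) (nat_lit 123)) (XT.nd (nat_lit 78) (nat_lit 0) (nat_lit 0) (XT.lf (nat_lit 0) (nat_lit 191589642293)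 (nat_lit 684) (nat_lit 152700491700) (nat_lit 760) (nat_lit 41132848457) (nat_lit 73) (nat_lit 5) (nat_lit 82) (nat_lit 5) (nat_lit 83) (nat_lit 5) (nat_lit 300) (nat_lit 298) (nat_lit 122)) (XT.lf (nat_lit 76) (nat_lit 119017352682) (nat_lit 0) (nat_lit 95509936580) (nat_lit 760) (nat_lit 186762504229) (nat_lit 74) (nat_lit 5) (nat_lit 73) (nat_lit 5) (nat_lit 83) (nat_lit 5) (nat_lit 301) (nat_lit 298) (nat_lit 121))))))))
noncomputable def xc127 : XT := (XT.nd (nat_lit 75036) (nat_lit 0) (nat_lit 760) (XT.nd (nat_lit 37440) (nat_lit 0) (nat_lit 760) (XT.nd (nat_lit 312) (nat_lit 760) (nat_lit 0) (XT.nd (nat_lit 156) (nat_lit 532) (nat_lit 0) (XT.nd (nat_lit 78) (nat_lit 0) (nat_lit 76) (XT.lf (nat_lit 0) (nat_lit 244707144965) (nat_lit 684) (nat_lit 3114804455) (nat_lit 760) (nat_lit 170333640353) (nat_lit 74) (nat_lit 5) (nat_lit 83) (nat_lit 5) (nat_lit 84) (nat_lit 5) (nat_lit 302)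 (nat_lit 298) (nat_lit 120)) (XT.lf (nat_lit 0) (nat_lit 284055538476) (nat_lit 684) (nat_lit 129830690551) (nat_lit 760) (nat_lit 22146713455) (nat_lit 75) (nat_lit 5) (nat_lit 84) (nat_lit 5) (nat_lit 85) (nat_lit 5) (nat_lit 303) (nat_lit 298) (nat_lit 119))) (XT.nd (nat_lit 78) (nat_lit 608) (nat_lit 0) (XT.lf (nat_lit 76) (nat_lit 186838464789) (nat_lit 0) (nat_lit 146864233993) (nat_lit 760) (nat_lit 121280240039) (nat_lit 76) (nat_lit 5) (nat_lit 75) (nat_lit 5) (nat_lit 85) (nat_lit 5) (nat_lit 304) (nat_lit 298) (nat_lit 118)) (XT.lf (nat_lit 0) (nat_lit 57743009181) (nat_lit 684) (nat_lit 334988259698) (nat_lit 760) (nat_lit 82447184304) (nat_lit 67) (nat_lit 5) (nat_lit 76) (nat_lit 5) (nat_lit 77) (nat_lit 5) (nat_lit 305) (nat_lit 298) (nat_lit 117)))) (XT.nd (nat_lit 156) (nat_lit 380) (nat_lit 0) (XT.nd (nat_lit 78) (nat_lit 380) (nat_lit 0) (XT.lf (nat_lit 0) (nat_lit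 416718520813) (nat_lit 684) (nat_lit 46870916690) (nat_lit 760) (nat_lit 33044805697) (nat_lit 67) (nat_lit 5) (nat_lit 76) (nat_lit 5) (nat_lit 77) (nat_lit 5) (nat_lit 306) (nat_lit 298) (nat_lit 116)) (XT.lf (nat_lit 0) (nat_lit 28451741407) (nat_lit 380) (nat_lit 230079841513) (nat_lit 76) (nat_lit 260819458145) (nat_lit 62) (nat_lit 5) (nat_lit 67) (nat_lit 5) (nat_lit 63) (nat_lit 5) (nat_lit 307) (nat_lit 298) (nat_lit 115))) (XT.nd (nat_lit 36816) (nat_lit 0) (nat_lit 1140) (XT.lf (nat_lit 0) (nat_lit 99095255511) (nat_lit 456) (nat_lit 393967453266) (nat_lit 76) (nat_lit 50526139586) (nat_lit 57) (nat_lit 5) (nat_lit 63) (nat_lit 5) (nat_lit 58) (nat_lit 5) (nat_lit 308) (nat_lit 298) (nat_lit 114)) (XT.nd (nat_lit 78) (nat_lit 0) (nat_lit 0) (XT.lf (nat_lit 0) (nat_lit 44976297422) (nat_lit 0) (nat_lit 44976297422) (nat_lit 684) (nat_lit 102467547657) (nat_lit 72) (nat_lit 5)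 (nat_lit 72) (nat_lit 3) (nat_lit 81) (nat_lit 3) (nat_lit 299) (nat_lit 299) (nat_lit 122)) (XT.lf (nat_lit 0) (nat_lit 189926233844) (nat_lit 684) (nat_lit 35065925179) (nat_lit 760) (nat_lit 175100493475) (nat_lit 72) (nat_lit 5) (nat_lit 81) (nat_lit 3) (nat_lit 82) (nat_lit 5) (nat_lit 300) (nat_lit 299) (nat_lit 121)))))) (XT.nd (nat_lit 312) (nat_lit 456) (nat_lit 0) (XT.nd (nat_lit 156) (nat_lit 0) (nat_lit 76) (XT.nd (nat_lit 78) (nat_lit 0) (nat_lit 0) (XT.lf (nat_lit 0) (nat_lit 206918046634) (nat_lit 684) (nat_lit 164915738281) (nat_lit 760) (nat_lit 44422970434) (nat_lit 73) (nat_lit 5) (nat_lit 82) (nat_lit 5) (nat_lit 83) (nat_lit 5) (nat_lit 301) (nat_lit 299) (nat_lit 120)) (XT.lf (nat_lit 76) (nat_lit 128539499199) (nat_lit 0) (nat_lit 103151126670) (nat_lit 760) (nat_lit 201702289678) (nat_lit 74) (nat_lit 5) (nat_lit 73) (nat_lit 5) (nat_lit 83) (nat_lit 5) (nat_lit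 302) (nat_lit 299) (nat_lit 119))) (XT.nd (nat_lit 78) (nat_lit 0) (nat_lit 76) (XT.lf (nat_lit 0) (nat_lit 264284778873) (nat_lit 684) (nat_lit 3363224093) (nat_lit 760) (nat_lit 183959977400) (nat_lit 74) (nat_lit 5) (nat_lit 83) (nat_lit 5) (nat_lit 84) (nat_lit 5) (nat_lit 303) (nat_lit 299) (nat_lit 118)) (XT.lf (nat_lit 0) (nat_lit 306780972481) (nat_lit 684) (nat_lit 140216357229) (nat_lit 760) (nat_lit 23918195409) (nat_lit 75) (nat_lit 5) (nat_lit 84) (nat_lit 5) (nat_lit 85) (nat_lit 5) (nat_lit 304) (nat_lit 299) (nat_lit 117)))) (XT.nd (nat_lit 156) (nat_lit 0) (nat_lit 0) (XT.nd (nat_lit 78) (nat_lit 608) (nat_lit 0) (XT.lf (nat_lit 76) (nat_lit 201786296268) (nat_lit 0) (nat_lit 158613547719) (nat_lit 760) (nat_lit 130981680498) (nat_lit 76) (nat_lit 5) (nat_lit 75) (nat_lit 5) (nat_lit 85) (nat_lit 5) (nat_lit 305) (nat_lit 299) (nat_lit 116)) (XT.lf (nat_lit 0) (nat_lit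 62363221338) (nat_lit 684) (nat_lit 361787419031) (nat_lit 760) (nat_lit 89042042814) (nat_lit 67) (nat_lit 5) (nat_lit 76) (nat_lit 5) (nat_lit 77) (nat_lit 5) (nat_lit 306) (nat_lit 299) (nat_lit 115))) (XT.nd (nat_lit 36972) (nat_lit 0) (nat_lit 380) (XT.lf (nat_lit 0) (nat_lit 450056716758) (nat_lit 684) (nat_lit 50620681282) (nat_lit 760) (nat_lit 35687541788) (nat_lit 67) (nat_lit 5) (nat_lit 76) (nat_lit 5) (nat_lit 77) (nat_lit 5) (nat_lit 307) (nat_lit 299) (nat_lit 114)) (XT.nd (nat_lit 78) (nat_lit 0) (nat_lit 0) (XT.lf (nat_lit 0) (nat_lit 48574711109) (nat_lit 0) (nat_lit 48574711109) (nat_lit 684) (nat_lit 110664298668) (nat_lit 72) (nat_lit 5) (nat_lit 72) (nat_lit 3) (nat_lit 81) (nat_lit 3) (nat_lit 300) (nat_lit 300) (nat_lit 120)) (XT.lf (nat_lit 0) (nat_lit 205121471347) (nat_lit 684) (nat_lit 37870555219) (nat_lit 760) (nat_lit 189107977444) (nat_lit 72) (nat_lit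 5) (nat_lit 81) (nat_lit 3) (nat_lit 82) (nat_lit 5) (nat_lit 301) (nat_lit 300) (nat_lit 119))))))) (XT.nd (nat_lit 37674) (nat_lit 0) (nat_lit 380) (XT.nd (nat_lit 312) (nat_lit 456) (nat_lit 0) (XT.nd (nat_lit 156) (nat_lit 0) (nat_lit 76) (XT.nd (nat_lit 78) (nat_lit 0) (nat_lit 0) (XT.lf (nat_lit 0) (nat_lit 223472547426) (nat_lit 684) (nat_lit 178108317684) (nat_lit 760) (nat_lit 47976374341) (nat_lit 73) (nat_lit 5) (nat_lit 82) (nat_lit 5) (nat_lit 83) (nat_lit 5) (nat_lit 302) (nat_lit 300) (nat_lit 118)) (XT.lf (nat_lit 76) (nat_lit 138823309257) (nat_lit 0) (nat_lit 111403555592) (nat_lit 760) (nat_lit 217837431280) (nat_lit 74) (nat_lit 5) (nat_lit 73) (nat_lit 5) (nat_lit 83) (nat_lit 5) (nat_lit 303) (nat_lit 300) (nat_lit 117))) (XT.nd (nat_lit 78) (nat_lit 0) (nat_lit 76) (XT.lf (nat_lit 0) (nat_lit 285428471944) (nat_lit 684) (nat_lit 3631626398) (nat_lit 760) (nat_lit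 198676471939) (nat_lit 74) (nat_lit 5) (nat_lit 83) (nat_lit 5) (nat_lit 84) (nat_lit 5) (nat_lit 304) (nat_lit 300) (nat_lit 116)) (XT.lf (nat_lit 0) (nat_lit 331324299840) (nat_lit 684) (nat_lit 151432989739) (nat_lit 760) (nat_lit 25831432316) (nat_lit 75) (nat_lit 5) (nat_lit 84) (nat_lit 5) (nat_lit 85) (nat_lit 5) (nat_lit 305) (nat_lit 300) (nat_lit 115)))) (XT.nd (nat_lit 37128) (nat_lit 0) (nat_lit 380) (XT.nd (nat_lit 78) (nat_lit 608) (nat_lit 0) (XT.lf (nat_lit 76) (nat_lit 217929846657) (nat_lit 0) (nat_lit 171302781576) (nat_lit 760) (nat_lit 141459375823) (nat_lit 76) (nat_lit 5) (nat_lit 75) (nat_lit 5) (nat_lit 85) (nat_lit 5) (nat_lit 306) (nat_lit 300) (nat_lit 114)) (XT.lf (nat_lit 0) (nat_lit 67352940415) (nat_lit 684) (nat_lit 390730497050) (nat_lit 760) (nat_lit 96164620716) (nat_lit 67) (nat_lit 5) (nat_lit 76) (nat_lit 5) (nat_lit 77) (nat_lit 5) (nat_lit 307)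 (nat_lit 300) (nat_lit 113))) (XT.nd (nat_lit 78) (nat_lit 0) (nat_lit 0) (XT.lf (nat_lit 0) (nat_lit 52460953682) (nat_lit 0) (nat_lit 52460953682) (nat_lit 684) (nat_lit 119516882889) (nat_lit 72) (nat_lit 5) (nat_lit 72) (nat_lit 3) (nat_lit 81) (nat_lit 3) (nat_lit 301) (nat_lit 301) (nat_lit 118)) (XT.nd (nat_lit 78) (nat_lit 0) (nat_lit 76) (XT.lf (nat_lit 0) (nat_lit 221532165388) (nat_lit 684) (nat_lit 40899647531) (nat_lit 760) (nat_lit 204236139379) (nat_lit 72) (nat_lit 5) (nat_lit 81) (nat_lit 3) (nat_lit 82) (nat_lit 5) (nat_lit 302) (nat_lit 301) (nat_lit 117)) (XT.lf (nat_lit 0) (nat_lit 241351257480) (nat_lit 684) (nat_lit 192356400401) (nat_lit 760) (nat_lit 51814112437) (nat_lit 73) (nat_lit 5) (nat_lit 82) (nat_lit 5) (nat_lit 83) (nat_lit 5) (nat_lit 303) (nat_lit 301) (nat_lit 116)))))) (XT.nd (nat_lit 37518) (nat_lit 0) (nat_lit 0) (XT.nd (nat_lit 156) (nat_lit 76)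 (nat_lit 0) (XT.nd (nat_lit 78) (nat_lit 0) (nat_lit 76) (XT.lf (nat_lit 76) (nat_lit 149929731373) (nat_lit 0) (nat_lit 120316130497) (nat_lit 760) (nat_lit 235263532803) (nat_lit 74) (nat_lit 5) (nat_lit 73) (nat_lit 5) (nat_lit 83) (nat_lit 5) (nat_lit 304) (nat_lit 301) (nat_lit 115)) (XT.lf (nat_lit 0) (nat_lit 308263530530) (nat_lit 684) (nat_lit 3921594419) (nat_lit 760) (nat_lit 214570329361) (nat_lit 74) (nat_lit 5) (nat_lit 83) (nat_lit 5) (nat_lit 84) (nat_lit 5) (nat_lit 305) (nat_lit 301) (nat_lit 114))) (XT.nd (nat_lit 37206) (nat_lit 228) (nat_lit 0) (XT.lf (nat_lit 0) (nat_lit 357830972188) (nat_lit 684) (nat_lit 163547049298) (nat_lit 760) (nat_lit 27897759379) (nat_lit 75) (nat_lit 5) (nat_lit 84) (nat_lit 5) (nat_lit 85) (nat_lit 5) (nat_lit 306) (nat_lit 301) (nat_lit 113)) (XT.nd (nat_lit 78) (nat_lit 0) (nat_lit 0) (XT.lf (nat_lit 0) (nat_lit 56658057758) (nat_lit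 0) (nat_lit 56658057758) (nat_lit 684) (nat_lit 129077753691) (nat_lit 72) (nat_lit 5) (nat_lit 72) (nat_lit 3) (nat_lit 81) (nat_lit 3) (nat_lit 302) (nat_lit 302) (nat_lit 116)) (XT.lf (nat_lit 0) (nat_lit 239255575668) (nat_lit 684) (nat_lit 44171145993) (nat_lit 760) (nat_lit 220574622213) (nat_lit 72) (nat_lit 5) (nat_lit 81) (nat_lit 3) (nat_lit 82) (nat_lit 5) (nat_lit 303) (nat_lit 302) (nat_lit 115))))) (XT.nd (nat_lit 37440) (nat_lit 76) (nat_lit 0) (XT.nd (nat_lit 78) (nat_lit 0) (nat_lit 0) (XT.lf (nat_lit 0) (nat_lit 260660135051) (nat_lit 684) (nat_lit 207744412863) (nat_lit 760) (nat_lit 55958922629) (nat_lit 73) (nat_lit 5) (nat_lit 82) (nat_lit 5) (nat_lit 83) (nat_lit 5) (nat_lit 304) (nat_lit 302) (nat_lit 114)) (XT.lf (nat_lit 76) (nat_lit 161924587742) (nat_lit 0) (nat_lit 129941669956) (nat_lit 760) (nat_lit 254083849841) (nat_lit 74) (nat_lit 5) (nat_lit 73) (nat_lit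 5) (nat_lit 83) (nat_lit 5) (nat_lit 305) (nat_lit 302) (nat_lit 113))) (XT.nd (nat_lit 78) (nat_lit 0) (nat_lit 0) (XT.lf (nat_lit 0) (nat_lit 61190897664) (nat_lit 0) (nat_lit 61190897664) (nat_lit 684) (nat_lit 139403562610) (nat_lit 72) (nat_lit 5) (nat_lit 72) (nat_lit 3) (nat_lit 81) (nat_lit 3) (nat_lit 303) (nat_lit 303) (nat_lit 114)) (XT.nd (nat_lit 78) (nat_lit 0) (nat_lit 76) (XT.lf (nat_lit 0) (nat_lit 258396739355) (nat_lit 684) (nat_lit 47704431859) (nat_lit 760) (nat_lit 238220241925) (nat_lit 72) (nat_lit 5) (nat_lit 81) (nat_lit 3) (nat_lit 82) (nat_lit 5) (nat_lit 304) (nat_lit 303) (nat_lit 113)) (XT.lf (nat_lit 0) (nat_lit 281513611983) (nat_lit 684) (nat_lit 224363537591) (nat_lit 760) (nat_lit 60435363117) (nat_lit 73) (nat_lit 5) (nat_lit 82) (nat_lit 5) (nat_lit 83) (nat_lit 5) (nat_lit 305) (nat_lit 303) (nat_lit 112))))))))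

set_option maxRecDepth 10000000 in
noncomputable def Tp : PT := (PT.nd (nat_lit 4586634) (PT.nd (nat_lit 4361370) (PT.nd (nat_lit 4099368) pc0 pc1) (PT.nd (nat_lit 113022) pc2 pc3)) (PT.nd (nat_lit 149604) (PT.nd (nat_lit 75114) pc4 pc5) (PT.nd (nat_lit 75816) pc6 pc7)))

set_option maxRecDepth 10000000 in
noncomputable def Tx : XT := (XT.nd (nat_lit 7453914) (nat_lit 0) (nat_lit 76) XT.nil (XT.nd (nat_lit 3937908) (nat_lit 0) (nat_lit 0) (XT.nd (nat_lit 1834014) (nat_lit 0) (nat_lit 76) (XT.nd (nat_lit 1270698) (nat_lit 0) (nat_lit 0) (XT.nd (nat_lit 862602) (nat_lit 0) (nat_lit 0) (XT.nd (nat_lit 599586) (nat_lit 0) (nat_lit 0) (XT.nd (nat_lit 412152) (nat_lit 0) (nat_lit 0) (XT.nd (nat_lit 298974) (nat_lit 0) (nat_lit 0) (XT.nd (nat_lit 187278) (nat_lit 0) (nat_lit 0) xc0 xc1) (XT.nd (nat_lit 74646) (nat_lit 0) (nat_lit 0) xc2 xc3)) (XT.nd (nat_lit 111774) (nat_lit 0) (nat_lit 0)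 (XT.nd (nat_lit 73710) (nat_lit 0) (nat_lit 0) xc4 xc5) (XT.nd (nat_lit 37908) (nat_lit 0) (nat_lit 0) xc6 xc7))) (XT.nd (nat_lit 149448) (nat_lit 0) (nat_lit 0) (XT.nd (nat_lit 74958) (nat_lit 0) (nat_lit 0) (XT.nd (nat_lit 37518) (nat_lit 0) (nat_lit 0) xc8 xc9) (XT.nd (nat_lit 37284) (nat_lit 0) (nat_lit 0) xc10 xc11)) (XT.nd (nat_lit 73944) (nat_lit 0) (nat_lit 0) (XT.nd (nat_lit 37050) (nat_lit 0) (nat_lit 0) xc12 xc13) (XT.nd (nat_lit 36738) (nat_lit 0) (nat_lit 0) xc14 xc15)))) (XT.nd (nat_lit 222846) (nat_lit 0) (nat_lit 0) (XT.nd (nat_lit 112086) (nat_lit 0) (nat_lit 0) (XT.nd (nat_lit 72930) (nat_lit 0) (nat_lit 0) (XT.nd (nat_lit 36504) (nat_lit 0) (nat_lit 0) xc16 xc17) (XT.nd (nat_lit 36270) (nat_lit 0) (nat_lit 0) xc18 xc19)) (XT.nd (nat_lit 72072) (nat_lit 0) (nat_lit 0) (XT.nd (nat_lit 36114) (nat_lit 0) (nat_lit 0) xc20 xc21) (XT.nd (nat_lit 2886) (nat_lit 76) (nat_lit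 0) xc22 xc23))) (XT.nd (nat_lit 76830) (nat_lit 0) (nat_lit 0) (XT.nd (nat_lit 38454) (nat_lit 0) (nat_lit 0) (XT.nd (nat_lit 35568) (nat_lit 0) (nat_lit 76) xc24 xc25) (XT.nd (nat_lit 35490) (nat_lit 0) (nat_lit 76) xc26 xc27)) (XT.nd (nat_lit 38220) (nat_lit 0) (nat_lit 0) (XT.nd (nat_lit 35334) (nat_lit 0) (nat_lit 0) xc28 xc29) (XT.nd (nat_lit 35178) (nat_lit 0) (nat_lit 0) xc30 xc31))))) (XT.nd (nat_lit 267072) (nat_lit 0) (nat_lit 76) (XT.nd (nat_lit 150228) (nat_lit 0) (nat_lit 76) (XT.nd (nat_lit 75348) (nat_lit 0) (nat_lit 0) (XT.nd (nat_lit 37674) (nat_lit 0) (nat_lit 0) (XT.nd (nat_lit 2808) (nat_lit 76) (nat_lit 0) xc32 xc33) (XT.nd (nat_lit 2886) (nat_lit 76) (nat_lit 0) xc34 xc35)) (XT.nd (nat_lit 37518) (nat_lit 0) (nat_lit 76) (XT.nd (nat_lit 2886) (nat_lit 76) (nat_lit 0) xc36 xc37) (XT.nd (nat_lit 2886) (nat_lit 0) (nat_lit 0) xc38 xc39))) (XT.nd (nat_lit 74178) (nat_lit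 0) (nat_lit 0) (XT.nd (nat_lit 37128) (nat_lit 0) (nat_lit 0) (XT.nd (nat_lit 2808) (nat_lit 76) (nat_lit 0) xc40 xc41) (XT.nd (nat_lit 2886) (nat_lit 152) (nat_lit 0) xc42 xc43)) (XT.nd (nat_lit 36894) (nat_lit 0) (nat_lit 0) (XT.nd (nat_lit 2886) (nat_lit 228) (nat_lit 0) xc44 xc45) (XT.nd (nat_lit 2886) (nat_lit 532) (nat_lit 0) xc46 xc47)))) (XT.nd (nat_lit 147342) (nat_lit 0) (nat_lit 0) (XT.nd (nat_lit 73476) (nat_lit 0) (nat_lit 0) (XT.nd (nat_lit 36660) (nat_lit 0) (nat_lit 0) (XT.nd (nat_lit 33774) (nat_lit 0) (nat_lit 0) xc48 xc49) (XT.nd (nat_lit 33930) (nat_lit 0) (nat_lit 152) xc50 xc51)) (XT.nd (nat_lit 36894) (nat_lit 0) (nat_lit 0) (XT.nd (nat_lit 34008) (nat_lit 0) (nat_lit 380) xc52 xc53) (XT.nd (nat_lit 34086) (nat_lit 0) (nat_lit 684) xc54 xc55))) (XT.nd (nat_lit 74256) (nat_lit 0) (nat_lit 0) (XT.nd (nat_lit 37050) (nat_lit 0) (nat_lit 0) (XT.nd (nat_lit 2808) (nat_lit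 0) (nat_lit 0) xc56 xc57) (XT.nd (nat_lit 2886) (nat_lit 0) (nat_lit 0) xc58 xc59)) (XT.nd (nat_lit 37284) (nat_lit 0) (nat_lit 0) (XT.nd (nat_lit 2886) (nat_lit 0) (nat_lit 0) xc60 xc61) (XT.nd (nat_lit 2886) (nat_lit 152) (nat_lit 0) xc62 xc63)))))) (XT.nd (nat_lit 675480) (nat_lit 0) (nat_lit 228) (XT.nd (nat_lit 301782) (nat_lit 0) (nat_lit 0) (XT.nd (nat_lit 150150) (nat_lit 0) (nat_lit 0) (XT.nd (nat_lit 74880) (nat_lit 0) (nat_lit 0) (XT.nd (nat_lit 37362) (nat_lit 0) (nat_lit 0) (XT.nd (nat_lit 2808) (nat_lit 152) (nat_lit 0) xc64 xc65) (XT.nd (nat_lit 2886) (nat_lit 228) (nat_lit 0) xc66 xc67)) (XT.nd (nat_lit 37596) (nat_lit 0) (nat_lit 0) (XT.nd (nat_lit 2886) (nat_lit 228) (nat_lit 0) xc68 xc69) (XT.nd (nat_lit 2886) (nat_lit 228) (nat_lit 0) xc70 xc71))) (XT.nd (nat_lit 75582) (nat_lit 0) (nat_lit 0) (XT.nd (nat_lit 37674) (nat_lit 0) (nat_lit 0) (XT.nd (nat_lit 2808) (nat_lit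 228) (nat_lit 0) xc72 xc73) (XT.nd (nat_lit 2886) (nat_lit 152) (nat_lit 0) xc74 xc75)) (XT.nd (nat_lit 37986) (nat_lit 0) (nat_lit 0) (XT.nd (nat_lit 2886) (nat_lit 152) (nat_lit 0) xc76 xc77) (XT.nd (nat_lit 2886) (nat_lit 0) (nat_lit 0) xc78 xc79)))) (XT.nd (nat_lit 185718) (nat_lit 0) (nat_lit 152) (XT.nd (nat_lit 76284) (nat_lit 0) (nat_lit 76) (XT.nd (nat_lit 38064) (nat_lit 0) (nat_lit 0) (XT.nd (nat_lit 35178) (nat_lit 0) (nat_lit 608) xc80 xc81) (XT.nd (nat_lit 35334) (nat_lit 0) (nat_lit 380) xc82 xc83)) (XT.nd (nat_lit 38298) (nat_lit 0) (nat_lit 0) (XT.nd (nat_lit 35412) (nat_lit 0) (nat_lit 76) xc84 xc85) (XT.nd (nat_lit 35490) (nat_lit 0) (nat_lit 76) xc86 xc87))) (XT.nd (nat_lit 77220) (nat_lit 0) (nat_lit 0) (XT.nd (nat_lit 38532) (nat_lit 0) (nat_lit 0) (XT.nd (nat_lit 2808) (nat_lit 380) (nat_lit 0) xc88 xc89) (XT.nd (nat_lit 2886) (nat_lit 76) (nat_lit 0) xc90 xc91))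 (XT.nd (nat_lit 38766) (nat_lit 0) (nat_lit 0) (XT.nd (nat_lit 35880) (nat_lit 0) (nat_lit 304) xc92 xc93) (XT.nd (nat_lit 35958) (nat_lit 0) (nat_lit 0) xc94 xc95))))) (XT.nd (nat_lit 451542) (nat_lit 0) (nat_lit 380) (XT.nd (nat_lit 190320) (nat_lit 0) (nat_lit 152) (XT.nd (nat_lit 78156) (nat_lit 0) (nat_lit 0) (XT.nd (nat_lit 39000) (nat_lit 0) (nat_lit 0) (XT.nd (nat_lit 2808) (nat_lit 304) (nat_lit 0) xc96 xc97) (XT.nd (nat_lit 36270) (nat_lit 0) (nat_lit 228) xc98 xc99)) (XT.nd (nat_lit 72774) (nat_lit 0) (nat_lit 76) (XT.nd (nat_lit 36348) (nat_lit 0) (nat_lit 0) xc100 xc101) (XT.nd (nat_lit 2886) (nat_lit 0) (nat_lit 0) xc102 xc103))) (XT.nd (nat_lit 113022) (nat_lit 0) (nat_lit 76) (XT.nd (nat_lit 73320) (nat_lit 0) (nat_lit 76) (XT.nd (nat_lit 36582) (nat_lit 0) (nat_lit 0) xc104 xc105) (XT.nd (nat_lit 36816) (nat_lit 0) (nat_lit 228) xc106 xc107)) (XT.nd (nat_lit 73866) (nat_lit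 0) (nat_lit 76) (XT.nd (nat_lit 36894) (nat_lit 0) (nat_lit 0) xc108 xc109) (XT.nd (nat_lit 37128) (nat_lit 0) (nat_lit 0) xc110 xc111)))) (XT.nd (nat_lit 301236) (nat_lit 0) (nat_lit 608) (XT.nd (nat_lit 149760) (nat_lit 0) (nat_lit 304) (XT.nd (nat_lit 74568) (nat_lit 0) (nat_lit 152) (XT.nd (nat_lit 37206) (nat_lit 0) (nat_lit 76) xc112 xc113) (XT.nd (nat_lit 37518) (nat_lit 0) (nat_lit 0) xc114 xc115)) (XT.nd (nat_lit 75504) (nat_lit 0) (nat_lit 152) (XT.nd (nat_lit 37752) (nat_lit 0) (nat_lit 76) xc116 xc117) (XT.nd (nat_lit 37908) (nat_lit 0) (nat_lit 0) xc118 xc119))) (XT.nd (nat_lit 224952) (nat_lit 0) (nat_lit 1140) (XT.nd (nat_lit 111930) (nat_lit 0) (nat_lit 684) (XT.nd (nat_lit 38064) (nat_lit 0) (nat_lit 304) xc120 xc121) (XT.nd (nat_lit 38532) (nat_lit 0) (nat_lit 0) xc122 xc123)) (XT.nd (nat_lit 150306) (nat_lit 0) (nat_lit 988) (XT.nd (nat_lit 74958) (nat_lit 0) (nat_lit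 380) xc124 xc125) (XT.nd (nat_lit 112476) (nat_lit 0) (nat_lit 836) xc126 xc127))))))) XT.nil))

set_option maxRecDepth 10000000 in
noncomputable def Te : XT := XT.nil

set_option maxRecDepth 10000000 in
noncomputable def Tz : ZL := (ZL.cons (nat_lit 76) (nat_lit 6) (nat_lit 185209899982233382782) (ZL.cons (nat_lit 152) (nat_lit 6) (nat_lit 179340560072172794198) (ZL.cons (nat_lit 228) (nat_lit 3) (nat_lit 89415399159932635897) (ZL.cons (nat_lit 304) (nat_lit 6) (nat_lit 173001672969307358530) (ZL.cons (nat_lit 380) (nat_lit 6) (nat_lit 167687980965519299798) (ZL.cons (nat_lit 456) (nat_lit 3) (nat_lit 83607989671506167304) (ZL.cons (nat_lit 532) (nat_lit 6) (nat_lit 161949193601428196370) (ZL.cons (nat_lit 608) (nat_lit 6) (nat_lit 157170105162382593364) (ZL.cons (nat_lit 684) (nat_lit 3) (nat_lit 78366533311512146131) (ZL.cons (nat_lit 760) (nat_lit 6) (nat_lit 152008689648213342118)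 (ZL.cons (nat_lit 836) (nat_lit 6) (nat_lit 147748066368996466234) (ZL.cons (nat_lit 912) (nat_lit 3) (nat_lit 73671700527387908532) (ZL.cons (nat_lit 988) (nat_lit 6) (nat_lit 143925948647422749786) (ZL.cons (nat_lit 1064) (nat_lit 6) (nat_lit 143146593227442240276) (ZL.cons (nat_lit 1140) (nat_lit 6) (nat_lit 139393396193902486856) (ZL.cons (nat_lit 1216) (nat_lit 3) (nat_lit 69509353044071313258) (ZL.cons (nat_lit 1292) (nat_lit 6) (nat_lit 136061568786550395298) (ZL.cons (nat_lit 1368) (nat_lit 6) (nat_lit 135339943397679553162) (ZL.cons (nat_lit 1444) (nat_lit 6) (nat_lit 133131366842972027286) (ZL.cons (nat_lit 1520) (nat_lit 6) (nat_lit 132088505080850276076) (ZL.cons (nat_lit 1596) (nat_lit 3) (nat_lit 65870784898869647140) (ZL.cons (nat_lit 1672) (nat_lit 6) (nat_lit 129245123355036547696) (ZL.cons (nat_lit 1748) (nat_lit 6) (nat_lit 128576951698674656826) (ZL.cons (nat_lit 1824)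 (nat_lit 6) (nat_lit 126792948550752064442) (ZL.cons (nat_lit 1900) (nat_lit 6) (nat_lit 125827335808046739248) (ZL.cons (nat_lit 1976) (nat_lit 3) (nat_lit 62753049717397915087) (ZL.cons (nat_lit 2052) (nat_lit 6) (nat_lit 124717449261749214560) (ZL.cons (nat_lit 2128) (nat_lit 6) (nat_lit 123476428105762931658) (ZL.cons (nat_lit 2204) (nat_lit 6) (nat_lit 122857750646168588260) (ZL.cons (nat_lit 2280) (nat_lit 6) (nat_lit 121510297286920811494) (ZL.cons (nat_lit 2356) (nat_lit 6) (nat_lit 120616211414045510388) (ZL.cons (nat_lit 2432) (nat_lit 3) (nat_lit 60159385163851038032) (ZL.cons (nat_lit 2508) (nat_lit 6) (nat_lit 119917292205927240270) (ZL.cons (nat_lit 2584) (nat_lit 6) (nat_lit 118768198542976978320) (ZL.cons (nat_lit 2660) (nat_lit 6) (nat_lit 118195349043352586288) (ZL.cons (nat_lit 2736) (nat_lit 3) (nat_lit 58559904887605864442) (ZL.cons (nat_lit 2812) (nat_lit 6) (nat_lit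 117293363792249457920) (ZL.cons (nat_lit 2888) (nat_lit 6) (nat_lit 117815054311611757506) (ZL.cons (nat_lit 2964) (nat_lit 6) (nat_lit 118687972832672626450) (ZL.cons (nat_lit 3040) (nat_lit 6) (nat_lit 117302760845578882240) (ZL.cons (nat_lit 3116) (nat_lit 6) (nat_lit 116474903555879529364) (ZL.cons (nat_lit 3192) (nat_lit 3) (nat_lit 58099747571299285828) (ZL.cons (nat_lit 3268) (nat_lit 6) (nat_lit 115126097966333798438) (ZL.cons (nat_lit 3344) (nat_lit 6) (nat_lit 115487090321772274838) (ZL.cons (nat_lit 3420) (nat_lit 6) (nat_lit 116211214246607381574) (ZL.cons (nat_lit 3496) (nat_lit 6) (nat_lit 115147238632764546438) (ZL.cons (nat_lit 3572) (nat_lit 6) (nat_lit 114616822429408627886) (ZL.cons (nat_lit 3648) (nat_lit 3) (nat_lit 56726811265353388533) (ZL.cons (nat_lit 3724) (nat_lit 6) (nat_lit 113641060869107524430) (ZL.cons (nat_lit 3800) (nat_lit 6) (nat_lit 114204486630018807980)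 (ZL.cons (nat_lit 3876) (nat_lit 6) (nat_lit 113437952102519407168) (ZL.cons (nat_lit 3952) (nat_lit 3) (nat_lit 56591472156222223162) (ZL.cons (nat_lit 4028) (nat_lit 6) (nat_lit 112266026519823937382) (ZL.cons (nat_lit 4104) (nat_lit 6) (nat_lit 112655898263697491896) (ZL.cons (nat_lit 4180) (nat_lit 6) (nat_lit 112164772149479048792) (ZL.cons (nat_lit 4256) (nat_lit 3) (nat_lit 55676919461111027703) (ZL.cons (nat_lit 4332) (nat_lit 6) (nat_lit 111556272327694862556) (ZL.cons (nat_lit 4408) (nat_lit 3) (nat_lit 55660077001775690148) (ZL.cons (nat_lit 4484) (nat_lit 6) (nat_lit 110899092520167941424) (ZL.cons (nat_lit 4560) (nat_lit 1) (nat_lit 18446744073709551617) ZL.nil))))))))))))))))))))))))))))))))))))))))))))))))))))))))))))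

noncomputable def vl : XL := ⟨(nat_lit 0), (nat_lit 76), (nat_lit 123915070), (nat_lit 152), (nat_lit 266745525), (nat_lit 152), (nat_lit 266745525), (nat_lit 1), (nat_lit 4), (nat_lit 2), (nat_lit 5), (nat_lit 2), (nat_lit 4), (nat_lit 0), (nat_lit 0), (nat_lit 0)⟩

noncomputable def cp0 : Nat := (nat_lit 14207209395602034940792127915309577045652207559664867677979821082839023638236734991412384793410604128711042979609605450326524368499336592507281257480262298317450738357024669398423587899439578124586677929328227869517043344434896123217789463430516974192786331714586388474919051735796260508015580861397184631191926076291995733245186956939551295830917716556187349747068702116832234447759882490855769298479223109200380312166398021838983901233076541646062833972784097313651979034444982507299173206186939856134710856298841123470468959275655722714209380346258363457523329917993104045106161450387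1917024072212806884300999160560095308982416413718272499686309122818588397572658046515723328877650172090371752772120232511519534467758700433161072000615020988890502002113356652586069809025414405670383655561870384605883033654771802268569021000165034670557952886834201916697420940184754159534213104880710967130950954331271325049357335462508209640086667204598986685613997003683676572055069452598118243934805518256410341553904034062566046637482470823191887324224857415684804768823779204378620207385381372740221019532743226940699448470244208800278836441775857016066524886532575882338514189854712280814818080118166872175525977601562461305463955423928284739074883777108425209972679707433109851088682087841549784383624626840838541998033824163318406158579946965186282269815702432435067394112447711161725559546839040)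

noncomputable def cp1 : Nat := (nat_lit 456812171064940342059799401832231801748308287433395281387906780495804543058576432741388285036756874633342549291780249692262365494290016385164979361973133625409939487414966953658203571636139360108370105102433548968740149385117604779925020477087794841524022948715877042607983615755312954883418979759642303538111362341767813345798185670872152556927478146407245346989718465947570986164642573672981933327051721019564273683394768146796058469274205060962650545944361246199556616858628941812139322376554115980269099159351835026619620832598517760781046376198438247099782334538704100462145009270575045349107907829610234406202404672230740723190747730355938436361985263792055961254952173888599120655581751325263901804541913822703367528757235159440018518442171268683290399559451685415640765697080121034230142559265971319753091174890514236437737192833423409889020214517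305429989426254404482392744962035555512894619583130842216711233618085089897426630465322381997878659212747449200797008456920152403236824474040759967858583870121828570642745247658405008462113787149557459920268332427365336176645969929727742867632195431398694674521978438030783357933297417042825777485983565000462026354854483739999415189533074778750033569791502679570848731722689296312896587970519506860213185585683199778513547840313445198242069469662555476708697921374357207334753845340907709194524045895914059498106846165043642395530141631761661439710701234591780511071157024335103185739115418450758815519492533272872532199314418077187707597028846829237354188361404296987256241093220810027782451022587807488285518583919059943743813547855931587595771727693690369320139155068248919825610256124884892983209454234602978220534786659509704016742794761303253244646183378895081609264414752006559035644983872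210602017350712571867927921292847049541000943949980735122881205444333289461686024510052333738704597794410038883176990091825163372081608273721896042259268831730955238798024097111506055054344351391090871600091817512356165389154828125223298277681914056819280567576098030480833706551593952029269766867192592533606133872831465797437314798487446286165634341622303727333753004122057699159449061184618663747216909729126355857921936774832207794227321979762398571102500864196592152763597524561798550317198351910293139090275194405675966245061281373210570041111708813060843247857792058193105014165700396818095682552620529306725848534414820056182148647416223007824321295583707599984637424385441368496519099272848004743648308361849968871065707049548459111921060292544946419696278147983753692903459361983529843626515464408497349324391594479008321344137970746114974203787567668083851511173298543567121566108937035995476216362427066826671819419534608056858898805492925237628991469029089254065427014846911097814027296226448494563080201541206248725151744)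

noncomputable def rc0 : Nat := (nat_lit 456812171064940342059799401832231801748308287433395281387906780495804543058576432741388285036756874633342549291780249692262365494290016385164979361973133625409939487414966953658203571636139360108370105102433548968740149385117604779925020477087794841524022948715877042607983615755312954883418979759642303538111362341767813345798185670872152556927478146407245346989718465947570986164642573672981933327051721019564273683394768146796058469274205060962650545944361246199556616858628941812139322376554115980269099159351835026619620832598517760781046376198438247099782334538704100462145009270575045349107907829610234406202404672230740723190747730355938436361985263792055961254952173888599120655581751325263901804541913822703367528757235159440018518442171268683290399559451685415640765697080121034230142559265971319753091174890514236437737192833423409889020214517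305429989426254404482392744962035555512894619583130842216711233618085089897426630465322381997878659212747449200797008456920152403236824474040759967858583870121828570642745247658405008462113787149557459920268332427365336176645969929727742867632195431398694674521978438030783357933297417042825777485983565000462026354854483739999415189533074778750033569791502679570848731722689296312896587970519506860213185585683199778513547840313445198242069469662555476708697921374357207334753845340907709194524045895914059498106846165043642395530141631761661439710701234591780511071157024335103185739115418450758815519492533272872532199314418077187707597028846829237354188361404296987256241093220810027782451022587807488285518583919059943743813547855931587595771727693690369320139155068248919825610256124884892983209454234602978220534786659509704016742794761303253244646183378895081609264414752006559035644983872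210602017350712571867927921292847049541000943949980735122881205444333289461686024510052333738704597794410038883176990091825163372081608273721896042259268831730955238798024097111506055054344351391090871600091817512356165389154828125223298277681914056819280567576098030480833706551593952029269766867192592533606133872831465797437314798487446286165634341622303727333753004122057699159449061184618663747216909729126355857921936774832207794227321979762398571102500864196592152763597524561798550317198351910293139090275194405675966245061281373210570041111708813060843247857792058193105014165700396818095682552620529306725848534414820056182148647416223007824321295583707599984637424385441368496519099272848004743648308361849968871065707049548459111921060292544946419696278147983753692903459361983529843626515464408497349324391594479008321344137970746114974203787567668083851511173298543567121566108937035995476216362427066826671819419534608056858898805492925237628991469029089254065427014846911097814027296226448494563080201541206248725151744)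

end Vale.Agent.Lib.P154.PChain.BS.S3
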