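import Vale.Agent.Lib.P154.PChain.BS.R3_0

set_option linter.all false

namespace Vale.Agent.Lib.P154.PChain.BS.S4

open Vale.Agent.Lib.P154.Chain

noncomputable def pc0 : PT := (PT.nd (nat_lit 3462186) (PT.nd (nat_lit 3312270) (PT.nd (nat_lit 3237312) (PT.nd (nat_lit 3199794) (PT.nd (nat_lit 3199716) (PT.nd (nat_lit 3162276) PT.nil (PT.lf (nat_lit 76) (nat_lit 3) (nat_lit 1) (nat_lit 1) (nat_lit 138) (nat_lit 84) (nat_lit 138))) (PT.lf (nat_lit 152) (nat_lit 6) (nat_lit 2) (nat_lit 3) (nat_lit 137) (nat_lit 85) (nat_lit 138))) (PT.nd (nat_lit 37362) (PT.lf (nat_lit 152) (nat_lit 6) (nat_lit 2) (nat_lit 1) (nat_lit 138) (nat_lit 85) (nat_lit 137)) (PT.nd (nat_lit 78) (PT.lf (nat_lit 228) (nat_lit 6) (nat_lit 3) (nat_lit 3) (nat_lit 136) (nat_lit 86) (nat_lit 138)) (PT.lf (nat_lit 304) (nat_lit 3) (nat_lit 4) (nat_lit 1) (nat_lit 137) (nat_lit 86) (nat_lit 137))))) (PT.nd (nat_lit 37440)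 (PT.nd (nat_lit 37362) (PT.lf (nat_lit 228) (nat_lit 6) (nat_lit 3) (nat_lit 1) (nat_lit 138) (nat_lit 86) (nat_lit 136)) (PT.lf (nat_lit 380) (nat_lit 6) (nat_lit 5) (nat_lit 3) (nat_lit 136) (nat_lit 87) (nat_lit 137))) (PT.nd (nat_lit 37362) (PT.lf (nat_lit 380) (nat_lit 6) (nat_lit 5) (nat_lit 1) (nat_lit 137) (nat_lit 87) (nat_lit 136)) (PT.nd (nat_lit 78) (PT.lf (nat_lit 456) (nat_lit 6) (nat_lit 6) (nat_lit 3) (nat_lit 135) (nat_lit 88) (nat_lit 137)) (PT.lf (nat_lit 532) (nat_lit 3) (nat_lit 7) (nat_lit 1) (nat_lit 136) (nat_lit 88) (nat_lit 136)))))) (PT.nd (nat_lit 74958) (PT.nd (nat_lit 37440) (PT.nd (nat_lit 37362) (PT.lf (nat_lit 456) (nat_lit 6) (nat_lit 6) (nat_lit 1) (nat_lit 137) (nat_lit 88) (nat_lit 135)) (PT.lf (nat_lit 608) (nat_lit 6) (nat_lit 8) (nat_lit 3) (nat_lit 135) (nat_lit 89) (nat_lit 136))) (PT.nd (nat_lit 37362) (PT.lf (nat_lit 608) (nat_lit 6) (nat_lit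 8) (nat_lit 1) (nat_lit 136) (nat_lit 89) (nat_lit 135)) (PT.nd (nat_lit 78) (PT.lf (nat_lit 684) (nat_lit 6) (nat_lit 9) (nat_lit 3) (nat_lit 134) (nat_lit 90) (nat_lit 136)) (PT.lf (nat_lit 760) (nat_lit 3) (nat_lit 10) (nat_lit 1) (nat_lit 135) (nat_lit 90) (nat_lit 135))))) (PT.nd (nat_lit 37440) (PT.nd (nat_lit 37362) (PT.lf (nat_lit 684) (nat_lit 6) (nat_lit 9) (nat_lit 1) (nat_lit 136) (nat_lit 90) (nat_lit 134)) (PT.lf (nat_lit 836) (nat_lit 6) (nat_lit 11) (nat_lit 3) (nat_lit 134) (nat_lit 91) (nat_lit 135))) (PT.nd (nat_lit 37362) (PT.lf (nat_lit 836) (nat_lit 6) (nat_lit 11) (nat_lit 1) (nat_lit 135) (nat_lit 91) (nat_lit 134)) (PT.nd (nat_lit 78) (PT.lf (nat_lit 912) (nat_lit 6) (nat_lit 12) (nat_lit 3) (nat_lit 133) (nat_lit 92) (nat_lit 135)) (PT.lf (nat_lit 988) (nat_lit 3) (nat_lit 13) (nat_lit 1) (nat_lit 134) (nat_lit 92) (nat_lit 134))))))) (PT.nd (nat_lit 112398)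 (PT.nd (nat_lit 74802) (PT.nd (nat_lit 37362) (PT.nd (nat_lit 37284) (PT.lf (nat_lit 912) (nat_lit 6) (nat_lit 12) (nat_lit 1) (nat_lit 135) (nat_lit 92) (nat_lit 133)) (PT.lf (nat_lit 1064) (nat_lit 6) (nat_lit 14) (nat_lit 3) (nat_lit 132) (nat_lit 93) (nat_lit 135))) (PT.nd (nat_lit 78) (PT.lf (nat_lit 1140) (nat_lit 6) (nat_lit 15) (nat_lit 3) (nat_lit 133) (nat_lit 93) (nat_lit 134)) (PT.nd (nat_lit 78) (PT.lf (nat_lit 1140) (nat_lit 6) (nat_lit 15) (nat_lit 1) (nat_lit 134) (nat_lit 93) (nat_lit 133)) (PT.lf (nat_lit 1064) (nat_lit 6) (nat_lit 14) (nat_lit 1) (nat_lit 135) (nat_lit 93) (nat_lit 132))))) (PT.nd (nat_lit 156) (PT.nd (nat_lit 78) (PT.lf (nat_lit 1216) (nat_lit 6) (nat_lit 16) (nat_lit 3) (nat_lit 132) (nat_lit 94) (nat_lit 134)) (PT.lf (nat_lit 1292) (nat_lit 3) (nat_lit 17) (nat_lit 1) (nat_lit 133) (nat_lit 94) (nat_lit 133))) (PT.nd (nat_lit 37284) (PT.lf (nat_lit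 1216) (nat_lit 6) (nat_lit 16) (nat_lit 1) (nat_lit 134) (nat_lit 94) (nat_lit 132)) (PT.nd (nat_lit 78) (PT.lf (nat_lit 1368) (nat_lit 6) (nat_lit 18) (nat_lit 3) (nat_lit 131) (nat_lit 95) (nat_lit 134)) (PT.lf (nat_lit 1444) (nat_lit 6) (nat_lit 19) (nat_lit 3) (nat_lit 132) (nat_lit 95) (nat_lit 133)))))) (PT.nd (nat_lit 74802) (PT.nd (nat_lit 37362) (PT.nd (nat_lit 78) (PT.lf (nat_lit 1444) (nat_lit 6) (nat_lit 19) (nat_lit 1) (nat_lit 133) (nat_lit 95) (nat_lit 132)) (PT.lf (nat_lit 1368) (nat_lit 6) (nat_lit 18) (nat_lit 1) (nat_lit 134) (nat_lit 95) (nat_lit 131))) (PT.nd (nat_lit 78) (PT.lf (nat_lit 1520) (nat_lit 6) (nat_lit 20) (nat_lit 3) (nat_lit 131) (nat_lit 96) (nat_lit 133)) (PT.nd (nat_lit 78) (PT.lf (nat_lit 1596) (nat_lit 3) (nat_lit 21) (nat_lit 1) (nat_lit 132) (nat_lit 96) (nat_lit 132)) (PT.lf (nat_lit 1520) (nat_lit 6) (nat_lit 20) (nat_lit 1) (nat_lit 133)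 (nat_lit 96) (nat_lit 131))))) (PT.nd (nat_lit 156) (PT.nd (nat_lit 78) (PT.lf (nat_lit 1672) (nat_lit 6) (nat_lit 22) (nat_lit 3) (nat_lit 130) (nat_lit 97) (nat_lit 133)) (PT.lf (nat_lit 1748) (nat_lit 6) (nat_lit 23) (nat_lit 3) (nat_lit 131) (nat_lit 97) (nat_lit 132))) (PT.nd (nat_lit 78) (PT.lf (nat_lit 1748) (nat_lit 6) (nat_lit 23) (nat_lit 1) (nat_lit 132) (nat_lit 97) (nat_lit 131)) (PT.nd (nat_lit 37206) (PT.lf (nat_lit 1672) (nat_lit 6) (nat_lit 22) (nat_lit 1) (nat_lit 133) (nat_lit 97) (nat_lit 130)) (PT.lf (nat_lit 1824) (nat_lit 6) (nat_lit 24) (nat_lit 3) (nat_lit 129) (nat_lit 98) (nat_lit 133))))))))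
noncomputable def pc1 : PT := (PT.nd (nat_lit 149916) (PT.nd (nat_lit 75036) (PT.nd (nat_lit 37518) (PT.nd (nat_lit 156) (PT.nd (nat_lit 78) (PT.lf (nat_lit 1900) (nat_lit 6) (nat_lit 25) (nat_lit 3) (nat_lit 130) (nat_lit 98) (nat_lit 132)) (PT.lf (nat_lit 1976) (nat_lit 3) (nat_lit 26) (nat_lit 1) (nat_lit 131) (nat_lit 98) (nat_lit 131))) (PT.nd (nat_lit 78) (PT.lf (nat_lit 1900) (nat_lit 6) (nat_lit 25) (nat_lit 1) (nat_lit 132) (nat_lit 98) (nat_lit 130)) (PT.nd (nat_lit 37206) (PT.lf (nat_lit 1824) (nat_lit 6) (nat_lit 24) (nat_lit 1) (nat_lit 133) (nat_lit 98) (nat_lit 129)) (PT.lf (nat_lit 2052) (nat_lit 6) (nat_lit 27) (nat_lit 3) (nat_lit 129) (nat_lit 99) (nat_lit 132))))) (PT.nd (nat_lit 156) (PT.nd (nat_lit 78) (PT.lf (nat_lit 2128) (nat_lit 6) (nat_lit 28) (nat_lit 3) (nat_lit 130) (nat_lit 99) (nat_lit 131)) (PT.lf (nat_lit 2128) (nat_lit 6) (nat_lit 28) (nat_lit 1) (nat_lit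 131) (nat_lit 99) (nat_lit 130))) (PT.nd (nat_lit 37206) (PT.lf (nat_lit 2052) (nat_lit 6) (nat_lit 27) (nat_lit 1) (nat_lit 132) (nat_lit 99) (nat_lit 129)) (PT.nd (nat_lit 78) (PT.lf (nat_lit 2204) (nat_lit 6) (nat_lit 29) (nat_lit 3) (nat_lit 128) (nat_lit 100) (nat_lit 132)) (PT.lf (nat_lit 2280) (nat_lit 6) (nat_lit 30) (nat_lit 3) (nat_lit 129) (nat_lit 100) (nat_lit 131)))))) (PT.nd (nat_lit 37440) (PT.nd (nat_lit 156) (PT.nd (nat_lit 78) (PT.lf (nat_lit 2356) (nat_lit 3) (nat_lit 31) (nat_lit 1) (nat_lit 130) (nat_lit 100) (nat_lit 130)) (PT.lf (nat_lit 2280) (nat_lit 6) (nat_lit 30) (nat_lit 1) (nat_lit 131) (nat_lit 100) (nat_lit 129))) (PT.nd (nat_lit 37128) (PT.lf (nat_lit 2204) (nat_lit 6) (nat_lit 29) (nat_lit 1) (nat_lit 132) (nat_lit 100) (nat_lit 128)) (PT.nd (nat_lit 78) (PT.lf (nat_lit 2432) (nat_lit 6) (nat_lit 32) (nat_lit 3) (nat_lit 127) (nat_lit 101) (nat_lit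 132)) (PT.lf (nat_lit 2508) (nat_lit 6) (nat_lit 33) (nat_lit 3) (nat_lit 128) (nat_lit 101) (nat_lit 131))))) (PT.nd (nat_lit 156) (PT.nd (nat_lit 78) (PT.lf (nat_lit 2584) (nat_lit 6) (nat_lit 34) (nat_lit 3) (nat_lit 129) (nat_lit 101) (nat_lit 130)) (PT.lf (nat_lit 2584) (nat_lit 6) (nat_lit 34) (nat_lit 1) (nat_lit 130) (nat_lit 101) (nat_lit 129))) (PT.nd (nat_lit 78) (PT.lf (nat_lit 2508) (nat_lit 6) (nat_lit 33) (nat_lit 1) (nat_lit 131) (nat_lit 101) (nat_lit 128)) (PT.nd (nat_lit 37128) (PT.lf (nat_lit 2432) (nat_lit 6) (nat_lit 32) (nat_lit 1) (nat_lit 132) (nat_lit 101) (nat_lit 127)) (PT.lf (nat_lit 2660) (nat_lit 6) (nat_lit 35) (nat_lit 3) (nat_lit 127) (nat_lit 102) (nat_lit 131))))))) (PT.nd (nat_lit 74802) (PT.nd (nat_lit 37440) (PT.nd (nat_lit 156) (PT.nd (nat_lit 78) (PT.lf (nat_lit 2736) (nat_lit 6) (nat_lit 36) (nat_lit 3) (nat_lit 128) (nat_lit 102) (nat_lit 130))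 (PT.lf (nat_lit 2812) (nat_lit 3) (nat_lit 37) (nat_lit 1) (nat_lit 129) (nat_lit 102) (nat_lit 129))) (PT.nd (nat_lit 78) (PT.lf (nat_lit 2736) (nat_lit 6) (nat_lit 36) (nat_lit 1) (nat_lit 130) (nat_lit 102) (nat_lit 128)) (PT.nd (nat_lit 37128) (PT.lf (nat_lit 2660) (nat_lit 6) (nat_lit 35) (nat_lit 1) (nat_lit 131) (nat_lit 102) (nat_lit 127)) (PT.lf (nat_lit 2888) (nat_lit 6) (nat_lit 38) (nat_lit 3) (nat_lit 126) (nat_lit 103) (nat_lit 131))))) (PT.nd (nat_lit 156) (PT.nd (nat_lit 78) (PT.lf (nat_lit 2964) (nat_lit 6) (nat_lit 39) (nat_lit 3) (nat_lit 127) (nat_lit 103) (nat_lit 130)) (PT.lf (nat_lit 3040) (nat_lit 6) (nat_lit 40) (nat_lit 3) (nat_lit 128) (nat_lit 103) (nat_lit 129))) (PT.nd (nat_lit 78) (PT.lf (nat_lit 3040) (nat_lit 6) (nat_lit 40) (nat_lit 1) (nat_lit 129) (nat_lit 103) (nat_lit 128)) (PT.nd (nat_lit 78) (PT.lf (nat_lit 2964) (nat_lit 6) (nat_lit 39) (nat_lit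 1) (nat_lit 130) (nat_lit 103) (nat_lit 127)) (PT.lf (nat_lit 2888) (nat_lit 6) (nat_lit 38) (nat_lit 1) (nat_lit 131) (nat_lit 103) (nat_lit 126)))))) (PT.nd (nat_lit 390) (PT.nd (nat_lit 156) (PT.nd (nat_lit 78) (PT.lf (nat_lit 3116) (nat_lit 6) (nat_lit 41) (nat_lit 3) (nat_lit 125) (nat_lit 104) (nat_lit 131)) (PT.lf (nat_lit 3192) (nat_lit 6) (nat_lit 42) (nat_lit 3) (nat_lit 126) (nat_lit 104) (nat_lit 130))) (PT.nd (nat_lit 78) (PT.lf (nat_lit 3268) (nat_lit 6) (nat_lit 43) (nat_lit 3) (nat_lit 127) (nat_lit 104) (nat_lit 129)) (PT.nd (nat_lit 78) (PT.lf (nat_lit 3344) (nat_lit 3) (nat_lit 44) (nat_lit 1) (nat_lit 128) (nat_lit 104) (nat_lit 128)) (PT.lf (nat_lit 3268) (nat_lit 6) (nat_lit 43) (nat_lit 1) (nat_lit 129) (nat_lit 104) (nat_lit 127))))) (PT.nd (nat_lit 37128) (PT.nd (nat_lit 78) (PT.lf (nat_lit 3192) (nat_lit 6) (nat_lit 42) (nat_lit 1) (nat_lit 130) (nat_lit 104)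 (nat_lit 126)) (PT.nd (nat_lit 36972) (PT.lf (nat_lit 3116) (nat_lit 6) (nat_lit 41) (nat_lit 1) (nat_lit 131) (nat_lit 104) (nat_lit 125)) (PT.lf (nat_lit 3420) (nat_lit 6) (nat_lit 45) (nat_lit 3) (nat_lit 124) (nat_lit 105) (nat_lit 131)))) (PT.nd (nat_lit 78) (PT.lf (nat_lit 3496) (nat_lit 6) (nat_lit 46) (nat_lit 3) (nat_lit 125) (nat_lit 105) (nat_lit 130)) (PT.nd (nat_lit 78) (PT.lf (nat_lit 3572) (nat_lit 6) (nat_lit 47) (nat_lit 3) (nat_lit 126) (nat_lit 105) (nat_lit 129)) (PT.lf (nat_lit 3648) (nat_lit 6) (nat_lit 48) (nat_lit 3) (nat_lit 127) (nat_lit 105) (nat_lit 128))))))))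
noncomputable def pc2 : PT := (PT.nd (nat_lit 112164) (PT.nd (nat_lit 37674) (PT.nd (nat_lit 37284) (PT.nd (nat_lit 156) (PT.nd (nat_lit 78) (PT.lf (nat_lit 3648) (nat_lit 6) (nat_lit 48) (nat_lit 1) (nat_lit 128) (nat_lit 105) (nat_lit 127)) (PT.lf (nat_lit 3572) (nat_lit 6) (nat_lit 47) (nat_lit 1) (nat_lit 129) (nat_lit 105) (nat_lit 126))) (PT.nd (nat_lit 78) (PT.lf (nat_lit 3496) (nat_lit 6) (nat_lit 46) (nat_lit 1) (nat_lit 130) (nat_lit 105) (nat_lit 125)) (PT.nd (nat_lit 36972) (PT.lf (nat_lit 3420) (nat_lit 6) (nat_lit 45) (nat_lit 1) (nat_lit 131) (nat_lit 105) (nat_lit 124)) (PT.lf (nat_lit 3724) (nat_lit 6) (nat_lit 49) (nat_lit 3) (nat_lit 124) (nat_lit 106) (nat_lit 130))))) (PT.nd (nat_lit 156) (PT.nd (nat_lit 78) (PT.lf (nat_lit 3800) (nat_lit 6) (nat_lit 50) (nat_lit 3) (nat_lit 125) (nat_lit 106) (nat_lit 129)) (PT.lf (nat_lit 3876) (nat_lit 6) (nat_lit 51) (nat_lit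 3) (nat_lit 126) (nat_lit 106) (nat_lit 128))) (PT.nd (nat_lit 78) (PT.lf (nat_lit 3952) (nat_lit 3) (nat_lit 52) (nat_lit 1) (nat_lit 127) (nat_lit 106) (nat_lit 127)) (PT.nd (nat_lit 78) (PT.lf (nat_lit 3876) (nat_lit 6) (nat_lit 51) (nat_lit 1) (nat_lit 128) (nat_lit 106) (nat_lit 126)) (PT.lf (nat_lit 3800) (nat_lit 6) (nat_lit 50) (nat_lit 1) (nat_lit 129) (nat_lit 106) (nat_lit 125)))))) (PT.nd (nat_lit 37284) (PT.nd (nat_lit 37050) (PT.nd (nat_lit 36972) (PT.lf (nat_lit 3724) (nat_lit 6) (nat_lit 49) (nat_lit 1) (nat_lit 130) (nat_lit 106) (nat_lit 124)) (PT.lf (nat_lit 4028) (nat_lit 6) (nat_lit 53) (nat_lit 3) (nat_lit 123) (nat_lit 107) (nat_lit 130))) (PT.nd (nat_lit 78) (PT.lf (nat_lit 4104) (nat_lit 6) (nat_lit 54) (nat_lit 3) (nat_lit 124) (nat_lit 107) (nat_lit 129)) (PT.nd (nat_lit 78) (PT.lf (nat_lit 4180) (nat_lit 6) (nat_lit 55) (nat_lit 3) (nat_lit 125) (nat_lit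 107) (nat_lit 128)) (PT.lf (nat_lit 4256) (nat_lit 6) (nat_lit 56) (nat_lit 3) (nat_lit 126) (nat_lit 107) (nat_lit 127))))) (PT.nd (nat_lit 156) (PT.nd (nat_lit 78) (PT.lf (nat_lit 4256) (nat_lit 6) (nat_lit 56) (nat_lit 1) (nat_lit 127) (nat_lit 107) (nat_lit 126)) (PT.lf (nat_lit 4180) (nat_lit 6) (nat_lit 55) (nat_lit 1) (nat_lit 128) (nat_lit 107) (nat_lit 125))) (PT.nd (nat_lit 78) (PT.lf (nat_lit 4104) (nat_lit 6) (nat_lit 54) (nat_lit 1) (nat_lit 129) (nat_lit 107) (nat_lit 124)) (PT.nd (nat_lit 36894) (PT.lf (nat_lit 4028) (nat_lit 6) (nat_lit 53) (nat_lit 1) (nat_lit 130) (nat_lit 107) (nat_lit 123)) (PT.lf (nat_lit 4332) (nat_lit 6) (nat_lit 57) (nat_lit 3) (nat_lit 122) (nat_lit 108) (nat_lit 130))))))) (PT.nd (nat_lit 37518) (PT.nd (nat_lit 390) (PT.nd (nat_lit 156) (PT.nd (nat_lit 78) (PT.lf (nat_lit 4408) (nat_lit 6) (nat_lit 58) (nat_lit 3) (nat_lit 123) (nat_lit 108)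 (nat_lit 129)) (PT.lf (nat_lit 4484) (nat_lit 6) (nat_lit 59) (nat_lit 3) (nat_lit 124) (nat_lit 108) (nat_lit 128))) (PT.nd (nat_lit 78) (PT.lf (nat_lit 4560) (nat_lit 6) (nat_lit 60) (nat_lit 3) (nat_lit 125) (nat_lit 108) (nat_lit 127)) (PT.nd (nat_lit 78) (PT.lf (nat_lit 4636) (nat_lit 3) (nat_lit 61) (nat_lit 1) (nat_lit 126) (nat_lit 108) (nat_lit 126)) (PT.lf (nat_lit 4560) (nat_lit 6) (nat_lit 60) (nat_lit 1) (nat_lit 127) (nat_lit 108) (nat_lit 125))))) (PT.nd (nat_lit 156) (PT.nd (nat_lit 78) (PT.lf (nat_lit 4484) (nat_lit 6) (nat_lit 59) (nat_lit 1) (nat_lit 128) (nat_lit 108) (nat_lit 124)) (PT.lf (nat_lit 4408) (nat_lit 6) (nat_lit 58) (nat_lit 1) (nat_lit 129) (nat_lit 108) (nat_lit 123))) (PT.nd (nat_lit 36816) (PT.lf (nat_lit 4332) (nat_lit 6) (nat_lit 57) (nat_lit 1) (nat_lit 130) (nat_lit 108) (nat_lit 122)) (PT.nd (nat_lit 78) (PT.lf (nat_lit 4712) (nat_lit 6) (nat_lit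 62) (nat_lit 3) (nat_lit 121) (nat_lit 109) (nat_lit 130)) (PT.lf (nat_lit 4788) (nat_lit 6) (nat_lit 63) (nat_lit 3) (nat_lit 122) (nat_lit 109) (nat_lit 129)))))) (PT.nd (nat_lit 390) (PT.nd (nat_lit 156) (PT.nd (nat_lit 78) (PT.lf (nat_lit 4864) (nat_lit 6) (nat_lit 64) (nat_lit 3) (nat_lit 123) (nat_lit 109) (nat_lit 128)) (PT.lf (nat_lit 4940) (nat_lit 6) (nat_lit 65) (nat_lit 3) (nat_lit 124) (nat_lit 109) (nat_lit 127))) (PT.nd (nat_lit 78) (PT.lf (nat_lit 5016) (nat_lit 6) (nat_lit 66) (nat_lit 3) (nat_lit 125) (nat_lit 109) (nat_lit 126)) (PT.nd (nat_lit 78) (PT.lf (nat_lit 5016) (nat_lit 6) (nat_lit 66) (nat_lit 1) (nat_lit 126) (nat_lit 109) (nat_lit 125)) (PT.lf (nat_lit 4940) (nat_lit 6) (nat_lit 65) (nat_lit 1) (nat_lit 127) (nat_lit 109) (nat_lit 124))))) (PT.nd (nat_lit 36972) (PT.nd (nat_lit 78) (PT.lf (nat_lit 4864) (nat_lit 6) (nat_lit 64) (nat_lit 1) (nat_lit 128)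 (nat_lit 109) (nat_lit 123)) (PT.nd (nat_lit 78) (PT.lf (nat_lit 4788) (nat_lit 6) (nat_lit 63) (nat_lit 1) (nat_lit 129) (nat_lit 109) (nat_lit 122)) (PT.lf (nat_lit 4712) (nat_lit 6) (nat_lit 62) (nat_lit 1) (nat_lit 130) (nat_lit 109) (nat_lit 121)))) (PT.nd (nat_lit 78) (PT.lf (nat_lit 5092) (nat_lit 6) (nat_lit 67) (nat_lit 3) (nat_lit 121) (nat_lit 110) (nat_lit 129)) (PT.nd (nat_lit 78) (PT.lf (nat_lit 5168) (nat_lit 6) (nat_lit 68) (nat_lit 3) (nat_lit 122) (nat_lit 110) (nat_lit 128)) (PT.lf (nat_lit 5244) (nat_lit 6) (nat_lit 69) (nat_lit 3) (nat_lit 123) (nat_lit 110) (nat_lit 127))))))))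
noncomputable def pc3 : PT := (PT.nd (nat_lit 74958) (PT.nd (nat_lit 37518) (PT.nd (nat_lit 390) (PT.nd (nat_lit 156) (PT.nd (nat_lit 78) (PT.lf (nat_lit 5320) (nat_lit 6) (nat_lit 70) (nat_lit 3) (nat_lit 124) (nat_lit 110) (nat_lit 126)) (PT.lf (nat_lit 5396) (nat_lit 3) (nat_lit 71) (nat_lit 1) (nat_lit 125) (nat_lit 110) (nat_lit 125))) (PT.nd (nat_lit 78) (PT.lf (nat_lit 5320) (nat_lit 6) (nat_lit 70) (nat_lit 1) (nat_lit 126) (nat_lit 110) (nat_lit 124)) (PT.nd (nat_lit 78) (PT.lf (nat_lit 5244) (nat_lit 6) (nat_lit 69) (nat_lit 1) (nat_lit 127) (nat_lit 110) (nat_lit 123)) (PT.lf (nat_lit 5168) (nat_lit 6) (nat_lit 68) (nat_lit 1) (nat_lit 128) (nat_lit 110) (nat_lit 122))))) (PT.nd (nat_lit 36894) (PT.nd (nat_lit 36816) (PT.lf (nat_lit 5092) (nat_lit 6) (nat_lit 67) (nat_lit 1) (nat_lit 129) (nat_lit 110) (nat_lit 121)) (PT.lf (nat_lit 5776) (nat_lit 6) (nat_lit 76) (nat_lit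 3) (nat_lit 120) (nat_lit 111) (nat_lit 129))) (PT.nd (nat_lit 78) (PT.lf (nat_lit 5852) (nat_lit 6) (nat_lit 77) (nat_lit 3) (nat_lit 121) (nat_lit 111) (nat_lit 128)) (PT.nd (nat_lit 78) (PT.lf (nat_lit 5928) (nat_lit 6) (nat_lit 78) (nat_lit 3) (nat_lit 122) (nat_lit 111) (nat_lit 127)) (PT.lf (nat_lit 6004) (nat_lit 6) (nat_lit 79) (nat_lit 3) (nat_lit 123) (nat_lit 111) (nat_lit 126)))))) (PT.nd (nat_lit 390) (PT.nd (nat_lit 156) (PT.nd (nat_lit 78) (PT.lf (nat_lit 6080) (nat_lit 6) (nat_lit 80) (nat_lit 3) (nat_lit 124) (nat_lit 111) (nat_lit 125)) (PT.lf (nat_lit 6080) (nat_lit 6) (nat_lit 80) (nat_lit 1) (nat_lit 125) (nat_lit 111) (nat_lit 124))) (PT.nd (nat_lit 78) (PT.lf (nat_lit 6004) (nat_lit 6) (nat_lit 79) (nat_lit 1) (nat_lit 126) (nat_lit 111) (nat_lit 123)) (PT.nd (nat_lit 78) (PT.lf (nat_lit 5928) (nat_lit 6) (nat_lit 78) (nat_lit 1) (nat_lit 127) (nat_lit 111) (nat_lit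 122)) (PT.lf (nat_lit 5852) (nat_lit 6) (nat_lit 77) (nat_lit 1) (nat_lit 128) (nat_lit 111) (nat_lit 121))))) (PT.nd (nat_lit 36816) (PT.nd (nat_lit 36738) (PT.lf (nat_lit 5776) (nat_lit 6) (nat_lit 76) (nat_lit 1) (nat_lit 129) (nat_lit 111) (nat_lit 120)) (PT.lf (nat_lit 5700) (nat_lit 6) (nat_lit 75) (nat_lit 3) (nat_lit 119) (nat_lit 112) (nat_lit 129))) (PT.nd (nat_lit 78) (PT.lf (nat_lit 6460) (nat_lit 6) (nat_lit 85) (nat_lit 3) (nat_lit 120) (nat_lit 112) (nat_lit 128)) (PT.nd (nat_lit 78) (PT.lf (nat_lit 6536) (nat_lit 6) (nat_lit 86) (nat_lit 3) (nat_lit 121) (nat_lit 112) (nat_lit 127)) (PT.lf (nat_lit 6612) (nat_lit 6) (nat_lit 87) (nat_lit 3) (nat_lit 122) (nat_lit 112) (nat_lit 126))))))) (PT.nd (nat_lit 37362) (PT.nd (nat_lit 390) (PT.nd (nat_lit 156) (PT.nd (nat_lit 78) (PT.lf (nat_lit 6688) (nat_lit 6) (nat_lit 88) (nat_lit 3) (nat_lit 123) (nat_lit 112) (nat_lit 125))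 (PT.lf (nat_lit 6764) (nat_lit 3) (nat_lit 89) (nat_lit 1) (nat_lit 124) (nat_lit 112) (nat_lit 124))) (PT.nd (nat_lit 78) (PT.lf (nat_lit 6688) (nat_lit 6) (nat_lit 88) (nat_lit 1) (nat_lit 125) (nat_lit 112) (nat_lit 123)) (PT.nd (nat_lit 78) (PT.lf (nat_lit 6612) (nat_lit 6) (nat_lit 87) (nat_lit 1) (nat_lit 126) (nat_lit 112) (nat_lit 122)) (PT.lf (nat_lit 6536) (nat_lit 6) (nat_lit 86) (nat_lit 1) (nat_lit 127) (nat_lit 112) (nat_lit 121))))) (PT.nd (nat_lit 36738) (PT.nd (nat_lit 78) (PT.lf (nat_lit 6460) (nat_lit 6) (nat_lit 85) (nat_lit 1) (nat_lit 128) (nat_lit 112) (nat_lit 120)) (PT.lf (nat_lit 5700) (nat_lit 6) (nat_lit 75) (nat_lit 1) (nat_lit 129) (nat_lit 112) (nat_lit 119))) (PT.nd (nat_lit 78) (PT.lf (nat_lit 5624) (nat_lit 6) (nat_lit 74) (nat_lit 3) (nat_lit 118) (nat_lit 113) (nat_lit 129)) (PT.nd (nat_lit 78) (PT.lf (nat_lit 6384) (nat_lit 6) (nat_lit 84) (nat_lit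 3) (nat_lit 119) (nat_lit 113) (nat_lit 128)) (PT.lf (nat_lit 7068) (nat_lit 6) (nat_lit 93) (nat_lit 3) (nat_lit 120) (nat_lit 113) (nat_lit 127)))))) (PT.nd (nat_lit 390) (PT.nd (nat_lit 156) (PT.nd (nat_lit 78) (PT.lf (nat_lit 7144) (nat_lit 6) (nat_lit 94) (nat_lit 3) (nat_lit 121) (nat_lit 113) (nat_lit 126)) (PT.lf (nat_lit 7220) (nat_lit 6) (nat_lit 95) (nat_lit 3) (nat_lit 122) (nat_lit 113) (nat_lit 125))) (PT.nd (nat_lit 78) (PT.lf (nat_lit 7296) (nat_lit 6) (nat_lit 96) (nat_lit 3) (nat_lit 123) (nat_lit 113) (nat_lit 124)) (PT.nd (nat_lit 78) (PT.lf (nat_lit 7296) (nat_lit 6) (nat_lit 96) (nat_lit 1) (nat_lit 124) (nat_lit 113) (nat_lit 123)) (PT.lf (nat_lit 7220) (nat_lit 6) (nat_lit 95) (nat_lit 1) (nat_lit 125) (nat_lit 113) (nat_lit 122))))) (PT.nd (nat_lit 234) (PT.nd (nat_lit 78) (PT.lf (nat_lit 7144) (nat_lit 6) (nat_lit 94) (nat_lit 1) (nat_lit 126) (nat_lit 113)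 (nat_lit 121)) (PT.nd (nat_lit 78) (PT.lf (nat_lit 7068) (nat_lit 6) (nat_lit 93) (nat_lit 1) (nat_lit 127) (nat_lit 113) (nat_lit 120)) (PT.lf (nat_lit 6384) (nat_lit 6) (nat_lit 84) (nat_lit 1) (nat_lit 128) (nat_lit 113) (nat_lit 119)))) (PT.nd (nat_lit 36582) (PT.lf (nat_lit 5624) (nat_lit 6) (nat_lit 74) (nat_lit 1) (nat_lit 129) (nat_lit 113) (nat_lit 118)) (PT.nd (nat_lit 78) (PT.lf (nat_lit 5548) (nat_lit 6) (nat_lit 73) (nat_lit 3) (nat_lit 117) (nat_lit 114) (nat_lit 129)) (PT.lf (nat_lit 6308) (nat_lit 6) (nat_lit 83) (nat_lit 3) (nat_lit 118) (nat_lit 114) (nat_lit 128))))))))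
noncomputable def pc4 : PT := (PT.nd (nat_lit 37986) (PT.nd (nat_lit 780) (PT.nd (nat_lit 390) (PT.nd (nat_lit 156) (PT.nd (nat_lit 78) (PT.lf (nat_lit 6992) (nat_lit 6) (nat_lit 92) (nat_lit 3) (nat_lit 119) (nat_lit 114) (nat_lit 127)) (PT.lf (nat_lit 7600) (nat_lit 6) (nat_lit 100) (nat_lit 3) (nat_lit 120) (nat_lit 114) (nat_lit 126))) (PT.nd (nat_lit 78) (PT.lf (nat_lit 7676) (nat_lit 6) (nat_lit 101) (nat_lit 3) (nat_lit 121) (nat_lit 114) (nat_lit 125)) (PT.nd (nat_lit 78) (PT.lf (nat_lit 7752) (nat_lit 6) (nat_lit 102) (nat_lit 3) (nat_lit 122) (nat_lit 114) (nat_lit 124)) (PT.lf (nat_lit 7828) (nat_lit 3) (nat_lit 103) (nat_lit 1) (nat_lit 123) (nat_lit 114) (nat_lit 123))))) (PT.nd (nat_lit 156) (PT.nd (nat_lit 78) (PT.lf (nat_lit 7752) (nat_lit 6) (nat_lit 102) (nat_lit 1) (nat_lit 124) (nat_lit 114) (nat_lit 122)) (PT.lf (nat_lit 7676) (nat_lit 6) (nat_lit 101) (nat_lit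 1) (nat_lit 125) (nat_lit 114) (nat_lit 121))) (PT.nd (nat_lit 78) (PT.lf (nat_lit 7600) (nat_lit 6) (nat_lit 100) (nat_lit 1) (nat_lit 126) (nat_lit 114) (nat_lit 120)) (PT.nd (nat_lit 78) (PT.lf (nat_lit 6992) (nat_lit 6) (nat_lit 92) (nat_lit 1) (nat_lit 127) (nat_lit 114) (nat_lit 119)) (PT.lf (nat_lit 6308) (nat_lit 6) (nat_lit 83) (nat_lit 1) (nat_lit 128) (nat_lit 114) (nat_lit 118)))))) (PT.nd (nat_lit 36816) (PT.nd (nat_lit 36582) (PT.nd (nat_lit 36504) (PT.lf (nat_lit 5548) (nat_lit 6) (nat_lit 73) (nat_lit 1) (nat_lit 129) (nat_lit 114) (nat_lit 117)) (PT.lf (nat_lit 5472) (nat_lit 6) (nat_lit 72) (nat_lit 3) (nat_lit 116) (nat_lit 115) (nat_lit 129))) (PT.nd (nat_lit 78) (PT.lf (nat_lit 6232) (nat_lit 6) (nat_lit 82) (nat_lit 3) (nat_lit 117) (nat_lit 115) (nat_lit 128)) (PT.nd (nat_lit 78) (PT.lf (nat_lit 6916) (nat_lit 6) (nat_lit 91) (nat_lit 3) (nat_lit 118) (nat_lit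 115) (nat_lit 127)) (PT.lf (nat_lit 7524) (nat_lit 6) (nat_lit 99) (nat_lit 3) (nat_lit 119) (nat_lit 115) (nat_lit 126))))) (PT.nd (nat_lit 156) (PT.nd (nat_lit 78) (PT.lf (nat_lit 8056) (nat_lit 6) (nat_lit 106) (nat_lit 3) (nat_lit 120) (nat_lit 115) (nat_lit 125)) (PT.lf (nat_lit 8132) (nat_lit 6) (nat_lit 107) (nat_lit 3) (nat_lit 121) (nat_lit 115) (nat_lit 124))) (PT.nd (nat_lit 78) (PT.lf (nat_lit 8208) (nat_lit 6) (nat_lit 108) (nat_lit 3) (nat_lit 122) (nat_lit 115) (nat_lit 123)) (PT.nd (nat_lit 78) (PT.lf (nat_lit 8208) (nat_lit 6) (nat_lit 108) (nat_lit 1) (nat_lit 123) (nat_lit 115) (nat_lit 122)) (PT.lf (nat_lit 8132) (nat_lit 6) (nat_lit 107) (nat_lit 1) (nat_lit 124) (nat_lit 115) (nat_lit 121))))))) (PT.nd (nat_lit 37128) (PT.nd (nat_lit 36738) (PT.nd (nat_lit 156) (PT.nd (nat_lit 78) (PT.lf (nat_lit 8056) (nat_lit 6) (nat_lit 106) (nat_lit 1) (nat_lit 125) (nat_lit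 115) (nat_lit 120)) (PT.lf (nat_lit 7524) (nat_lit 6) (nat_lit 99) (nat_lit 1) (nat_lit 126) (nat_lit 115) (nat_lit 119))) (PT.nd (nat_lit 78) (PT.lf (nat_lit 6916) (nat_lit 6) (nat_lit 91) (nat_lit 1) (nat_lit 127) (nat_lit 115) (nat_lit 118)) (PT.nd (nat_lit 78) (PT.lf (nat_lit 6232) (nat_lit 6) (nat_lit 82) (nat_lit 1) (nat_lit 128) (nat_lit 115) (nat_lit 117)) (PT.lf (nat_lit 5472) (nat_lit 6) (nat_lit 72) (nat_lit 1) (nat_lit 129) (nat_lit 115) (nat_lit 116))))) (PT.nd (nat_lit 156) (PT.nd (nat_lit 78) (PT.lf (nat_lit 5472) (nat_lit 6) (nat_lit 72) (nat_lit 5) (nat_lit 115) (nat_lit 116) (nat_lit 129)) (PT.lf (nat_lit 6156) (nat_lit 3) (nat_lit 81) (nat_lit 3) (nat_lit 116) (nat_lit 116) (nat_lit 128))) (PT.nd (nat_lit 78) (PT.lf (nat_lit 6840) (nat_lit 6) (nat_lit 90) (nat_lit 3) (nat_lit 117) (nat_lit 116) (nat_lit 127)) (PT.nd (nat_lit 78) (PT.lf (nat_lit 7448) (nat_lit 6) (nat_lit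 98) (nat_lit 3) (nat_lit 118) (nat_lit 116) (nat_lit 126)) (PT.lf (nat_lit 7980) (nat_lit 6) (nat_lit 105) (nat_lit 3) (nat_lit 119) (nat_lit 116) (nat_lit 125)))))) (PT.nd (nat_lit 390) (PT.nd (nat_lit 156) (PT.nd (nat_lit 78) (PT.lf (nat_lit 8436) (nat_lit 6) (nat_lit 111) (nat_lit 3) (nat_lit 120) (nat_lit 116) (nat_lit 124)) (PT.lf (nat_lit 8512) (nat_lit 6) (nat_lit 112) (nat_lit 3) (nat_lit 121) (nat_lit 116) (nat_lit 123))) (PT.nd (nat_lit 78) (PT.lf (nat_lit 8588) (nat_lit 3) (nat_lit 113) (nat_lit 1) (nat_lit 122) (nat_lit 116) (nat_lit 122)) (PT.nd (nat_lit 78) (PT.lf (nat_lit 8512) (nat_lit 6) (nat_lit 112) (nat_lit 1) (nat_lit 123) (nat_lit 116) (nat_lit 121)) (PT.lf (nat_lit 8436) (nat_lit 6) (nat_lit 111) (nat_lit 1) (nat_lit 124) (nat_lit 116) (nat_lit 120))))) (PT.nd (nat_lit 234) (PT.nd (nat_lit 78) (PT.lf (nat_lit 7980) (nat_lit 6) (nat_lit 105) (nat_lit 1) (nat_lit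 125) (nat_lit 116) (nat_lit 119)) (PT.nd (nat_lit 78) (PT.lf (nat_lit 7448) (nat_lit 6) (nat_lit 98) (nat_lit 1) (nat_lit 126) (nat_lit 116) (nat_lit 118)) (PT.lf (nat_lit 6840) (nat_lit 6) (nat_lit 90) (nat_lit 1) (nat_lit 127) (nat_lit 116) (nat_lit 117)))) (PT.nd (nat_lit 78) (PT.lf (nat_lit 6156) (nat_lit 3) (nat_lit 81) (nat_lit 0) (nat_lit 128) (nat_lit 116) (nat_lit 116)) (PT.nd (nat_lit 36348) (PT.lf (nat_lit 5472) (nat_lit 6) (nat_lit 72) (nat_lit 0) (nat_lit 129) (nat_lit 116) (nat_lit 115)) (PT.lf (nat_lit 5548) (nat_lit 6) (nat_lit 73) (nat_lit 5) (nat_lit 114) (nat_lit 117) (nat_lit 129))))))))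
noncomputable def pc5 : PT := (PT.nd (nat_lit 37752) (PT.nd (nat_lit 780) (PT.nd (nat_lit 390) (PT.nd (nat_lit 156) (PT.nd (nat_lit 78) (PT.lf (nat_lit 6232) (nat_lit 6) (nat_lit 82) (nat_lit 5) (nat_lit 115) (nat_lit 117) (nat_lit 128)) (PT.lf (nat_lit 6840) (nat_lit 6) (nat_lit 90) (nat_lit 5) (nat_lit 116) (nat_lit 117) (nat_lit 127))) (PT.nd (nat_lit 78) (PT.lf (nat_lit 7372) (nat_lit 3) (nat_lit 97) (nat_lit 3) (nat_lit 117) (nat_lit 117) (nat_lit 126)) (PT.nd (nat_lit 78) (PT.lf (nat_lit 7904) (nat_lit 6) (nat_lit 104) (nat_lit 3) (nat_lit 118) (nat_lit 117) (nat_lit 125)) (PT.lf (nat_lit 8360) (nat_lit 6) (nat_lit 110) (nat_lit 3) (nat_lit 119) (nat_lit 117) (nat_lit 124))))) (PT.nd (nat_lit 156) (PT.nd (nat_lit 78) (PT.lf (nat_lit 8740) (nat_lit 6) (nat_lit 115) (nat_lit 3) (nat_lit 120) (nat_lit 117) (nat_lit 123)) (PT.lf (nat_lit 8816) (nat_lit 6) (nat_lit 116) (nat_lit 3)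 (nat_lit 121) (nat_lit 117) (nat_lit 122))) (PT.nd (nat_lit 78) (PT.lf (nat_lit 8816) (nat_lit 6) (nat_lit 116) (nat_lit 1) (nat_lit 122) (nat_lit 117) (nat_lit 121)) (PT.nd (nat_lit 78) (PT.lf (nat_lit 8740) (nat_lit 6) (nat_lit 115) (nat_lit 1) (nat_lit 123) (nat_lit 117) (nat_lit 120)) (PT.lf (nat_lit 8360) (nat_lit 6) (nat_lit 110) (nat_lit 1) (nat_lit 124) (nat_lit 117) (nat_lit 119)))))) (PT.nd (nat_lit 36582) (PT.nd (nat_lit 156) (PT.nd (nat_lit 78) (PT.lf (nat_lit 7904) (nat_lit 6) (nat_lit 104) (nat_lit 1) (nat_lit 125) (nat_lit 117) (nat_lit 118)) (PT.lf (nat_lit 7372) (nat_lit 3) (nat_lit 97) (nat_lit 0) (nat_lit 126) (nat_lit 117) (nat_lit 117))) (PT.nd (nat_lit 78) (PT.lf (nat_lit 6840) (nat_lit 6) (nat_lit 90) (nat_lit 0) (nat_lit 127) (nat_lit 117) (nat_lit 116)) (PT.nd (nat_lit 78) (PT.lf (nat_lit 6232) (nat_lit 6) (nat_lit 82) (nat_lit 0) (nat_lit 128) (nat_lit 117)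 (nat_lit 115)) (PT.lf (nat_lit 5548) (nat_lit 6) (nat_lit 73) (nat_lit 0) (nat_lit 129) (nat_lit 117) (nat_lit 114))))) (PT.nd (nat_lit 156) (PT.nd (nat_lit 78) (PT.lf (nat_lit 5624) (nat_lit 6) (nat_lit 74) (nat_lit 5) (nat_lit 113) (nat_lit 118) (nat_lit 129)) (PT.lf (nat_lit 6308) (nat_lit 6) (nat_lit 83) (nat_lit 5) (nat_lit 114) (nat_lit 118) (nat_lit 128))) (PT.nd (nat_lit 78) (PT.lf (nat_lit 6916) (nat_lit 6) (nat_lit 91) (nat_lit 5) (nat_lit 115) (nat_lit 118) (nat_lit 127)) (PT.nd (nat_lit 78) (PT.lf (nat_lit 7448) (nat_lit 6) (nat_lit 98) (nat_lit 5) (nat_lit 116) (nat_lit 118) (nat_lit 126)) (PT.lf (nat_lit 7904) (nat_lit 6) (nat_lit 104) (nat_lit 5) (nat_lit 117) (nat_lit 118) (nat_lit 125))))))) (PT.nd (nat_lit 780) (PT.nd (nat_lit 390) (PT.nd (nat_lit 156) (PT.nd (nat_lit 78) (PT.lf (nat_lit 8284) (nat_lit 3) (nat_lit 109) (nat_lit 3) (nat_lit 118) (nat_lit 118) (nat_lit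 124)) (PT.lf (nat_lit 8664) (nat_lit 6) (nat_lit 114) (nat_lit 3) (nat_lit 119) (nat_lit 118) (nat_lit 123))) (PT.nd (nat_lit 78) (PT.lf (nat_lit 8968) (nat_lit 6) (nat_lit 118) (nat_lit 3) (nat_lit 120) (nat_lit 118) (nat_lit 122)) (PT.nd (nat_lit 78) (PT.lf (nat_lit 9044) (nat_lit 3) (nat_lit 119) (nat_lit 1) (nat_lit 121) (nat_lit 118) (nat_lit 121)) (PT.lf (nat_lit 8968) (nat_lit 6) (nat_lit 118) (nat_lit 1) (nat_lit 122) (nat_lit 118) (nat_lit 120))))) (PT.nd (nat_lit 156) (PT.nd (nat_lit 78) (PT.lf (nat_lit 8664) (nat_lit 6) (nat_lit 114) (nat_lit 1) (nat_lit 123) (nat_lit 118) (nat_lit 119)) (PT.lf (nat_lit 8284) (nat_lit 3) (nat_lit 109) (nat_lit 0) (nat_lit 124) (nat_lit 118) (nat_lit 118))) (PT.nd (nat_lit 78) (PT.lf (nat_lit 7904) (nat_lit 6) (nat_lit 104) (nat_lit 0) (nat_lit 125) (nat_lit 118) (nat_lit 117)) (PT.nd (nat_lit 78) (PT.lf (nat_lit 7448) (nat_lit 6) (nat_lit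 98) (nat_lit 0) (nat_lit 126) (nat_lit 118) (nat_lit 116)) (PT.lf (nat_lit 6916) (nat_lit 6) (nat_lit 91) (nat_lit 0) (nat_lit 127) (nat_lit 118) (nat_lit 115)))))) (PT.nd (nat_lit 36504) (PT.nd (nat_lit 36270) (PT.nd (nat_lit 78) (PT.lf (nat_lit 6308) (nat_lit 6) (nat_lit 83) (nat_lit 0) (nat_lit 128) (nat_lit 118) (nat_lit 114)) (PT.lf (nat_lit 5624) (nat_lit 6) (nat_lit 74) (nat_lit 0) (nat_lit 129) (nat_lit 118) (nat_lit 113))) (PT.nd (nat_lit 78) (PT.lf (nat_lit 5700) (nat_lit 6) (nat_lit 75) (nat_lit 5) (nat_lit 112) (nat_lit 119) (nat_lit 129)) (PT.nd (nat_lit 78) (PT.lf (nat_lit 6384) (nat_lit 6) (nat_lit 84) (nat_lit 5) (nat_lit 113) (nat_lit 119) (nat_lit 128)) (PT.lf (nat_lit 6992) (nat_lit 6) (nat_lit 92) (nat_lit 5) (nat_lit 114) (nat_lit 119) (nat_lit 127))))) (PT.nd (nat_lit 234) (PT.nd (nat_lit 78) (PT.lf (nat_lit 7524) (nat_lit 6) (nat_lit 99) (nat_lit 5) (nat_lit 115)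 (nat_lit 119) (nat_lit 126)) (PT.nd (nat_lit 78) (PT.lf (nat_lit 7980) (nat_lit 6) (nat_lit 105) (nat_lit 5) (nat_lit 116) (nat_lit 119) (nat_lit 125)) (PT.lf (nat_lit 8360) (nat_lit 6) (nat_lit 110) (nat_lit 5) (nat_lit 117) (nat_lit 119) (nat_lit 124)))) (PT.nd (nat_lit 78) (PT.lf (nat_lit 8664) (nat_lit 6) (nat_lit 114) (nat_lit 5) (nat_lit 118) (nat_lit 119) (nat_lit 123)) (PT.nd (nat_lit 78) (PT.lf (nat_lit 8892) (nat_lit 3) (nat_lit 117) (nat_lit 3) (nat_lit 119) (nat_lit 119) (nat_lit 122)) (PT.lf (nat_lit 9120) (nat_lit 6) (nat_lit 120) (nat_lit 3) (nat_lit 120) (nat_lit 119) (nat_lit 121))))))))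
noncomputable def pc6 : PT := (PT.nd (nat_lit 37596) (PT.nd (nat_lit 36816) (PT.nd (nat_lit 390) (PT.nd (nat_lit 156) (PT.nd (nat_lit 78) (PT.lf (nat_lit 9120) (nat_lit 6) (nat_lit 120) (nat_lit 1) (nat_lit 121) (nat_lit 119) (nat_lit 120)) (PT.lf (nat_lit 8892) (nat_lit 3) (nat_lit 117) (nat_lit 0) (nat_lit 122) (nat_lit 119) (nat_lit 119))) (PT.nd (nat_lit 78) (PT.lf (nat_lit 8664) (nat_lit 6) (nat_lit 114) (nat_lit 0) (nat_lit 123) (nat_lit 119) (nat_lit 118)) (PT.nd (nat_lit 78) (PT.lf (nat_lit 8360) (nat_lit 6) (nat_lit 110) (nat_lit 0) (nat_lit 124) (nat_lit 119) (nat_lit 117)) (PT.lf (nat_lit 7980) (nat_lit 6) (nat_lit 105) (nat_lit 0) (nat_lit 125) (nat_lit 119) (nat_lit 116))))) (PT.nd (nat_lit 156) (PT.nd (nat_lit 78) (PT.lf (nat_lit 7524) (nat_lit 6) (nat_lit 99) (nat_lit 0) (nat_lit 126) (nat_lit 119) (nat_lit 115)) (PT.lf (nat_lit 6992) (nat_lit 6) (nat_lit 92) (nat_lit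 0) (nat_lit 127) (nat_lit 119) (nat_lit 114))) (PT.nd (nat_lit 78) (PT.lf (nat_lit 6384) (nat_lit 6) (nat_lit 84) (nat_lit 0) (nat_lit 128) (nat_lit 119) (nat_lit 113)) (PT.nd (nat_lit 36114) (PT.lf (nat_lit 5700) (nat_lit 6) (nat_lit 75) (nat_lit 0) (nat_lit 129) (nat_lit 119) (nat_lit 112)) (PT.lf (nat_lit 5776) (nat_lit 6) (nat_lit 76) (nat_lit 5) (nat_lit 111) (nat_lit 120) (nat_lit 129)))))) (PT.nd (nat_lit 390) (PT.nd (nat_lit 156) (PT.nd (nat_lit 78) (PT.lf (nat_lit 6460) (nat_lit 6) (nat_lit 85) (nat_lit 5) (nat_lit 112) (nat_lit 120) (nat_lit 128)) (PT.lf (nat_lit 7068) (nat_lit 6) (nat_lit 93) (nat_lit 5) (nat_lit 113) (nat_lit 120) (nat_lit 127))) (PT.nd (nat_lit 78) (PT.lf (nat_lit 7600) (nat_lit 6) (nat_lit 100) (nat_lit 5) (nat_lit 114) (nat_lit 120) (nat_lit 126)) (PT.nd (nat_lit 78) (PT.lf (nat_lit 8056) (nat_lit 6) (nat_lit 106) (nat_lit 5) (nat_lit 115) (nat_lit 120)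 (nat_lit 125)) (PT.lf (nat_lit 8436) (nat_lit 6) (nat_lit 111) (nat_lit 5) (nat_lit 116) (nat_lit 120) (nat_lit 124))))) (PT.nd (nat_lit 156) (PT.nd (nat_lit 78) (PT.lf (nat_lit 8740) (nat_lit 6) (nat_lit 115) (nat_lit 5) (nat_lit 117) (nat_lit 120) (nat_lit 123)) (PT.lf (nat_lit 8968) (nat_lit 6) (nat_lit 118) (nat_lit 5) (nat_lit 118) (nat_lit 120) (nat_lit 122))) (PT.nd (nat_lit 78) (PT.lf (nat_lit 9120) (nat_lit 6) (nat_lit 120) (nat_lit 5) (nat_lit 119) (nat_lit 120) (nat_lit 121)) (PT.nd (nat_lit 78) (PT.lf (nat_lit 9196) (nat_lit 1) (nat_lit 121) (nat_lit 0) (nat_lit 120) (nat_lit 120) (nat_lit 120)) (PT.lf (nat_lit 9120) (nat_lit 6) (nat_lit 120) (nat_lit 0) (nat_lit 121) (nat_lit 120) (nat_lit 119))))))) (PT.nd (nat_lit 36660) (PT.nd (nat_lit 390) (PT.nd (nat_lit 156) (PT.nd (nat_lit 78) (PT.lf (nat_lit 8968) (nat_lit 6) (nat_lit 118) (nat_lit 0) (nat_lit 122) (nat_lit 120)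 (nat_lit 118)) (PT.lf (nat_lit 8740) (nat_lit 6) (nat_lit 115) (nat_lit 0) (nat_lit 123) (nat_lit 120) (nat_lit 117))) (PT.nd (nat_lit 78) (PT.lf (nat_lit 8436) (nat_lit 6) (nat_lit 111) (nat_lit 0) (nat_lit 124) (nat_lit 120) (nat_lit 116)) (PT.nd (nat_lit 78) (PT.lf (nat_lit 8056) (nat_lit 6) (nat_lit 106) (nat_lit 0) (nat_lit 125) (nat_lit 120) (nat_lit 115)) (PT.lf (nat_lit 7600) (nat_lit 6) (nat_lit 100) (nat_lit 0) (nat_lit 126) (nat_lit 120) (nat_lit 114))))) (PT.nd (nat_lit 156) (PT.nd (nat_lit 78) (PT.lf (nat_lit 7068) (nat_lit 6) (nat_lit 93) (nat_lit 0) (nat_lit 127) (nat_lit 120) (nat_lit 113)) (PT.lf (nat_lit 6460) (nat_lit 6) (nat_lit 85) (nat_lit 0) (nat_lit 128) (nat_lit 120) (nat_lit 112))) (PT.nd (nat_lit 35958) (PT.lf (nat_lit 5776) (nat_lit 6) (nat_lit 76) (nat_lit 0) (nat_lit 129) (nat_lit 120) (nat_lit 111)) (PT.nd (nat_lit 78) (PT.lf (nat_lit 4712) (nat_lit 6)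 (nat_lit 62) (nat_lit 5) (nat_lit 109) (nat_lit 121) (nat_lit 130)) (PT.lf (nat_lit 5092) (nat_lit 6) (nat_lit 67) (nat_lit 5) (nat_lit 110) (nat_lit 121) (nat_lit 129)))))) (PT.nd (nat_lit 390) (PT.nd (nat_lit 156) (PT.nd (nat_lit 78) (PT.lf (nat_lit 5852) (nat_lit 6) (nat_lit 77) (nat_lit 5) (nat_lit 111) (nat_lit 121) (nat_lit 128)) (PT.lf (nat_lit 6536) (nat_lit 6) (nat_lit 86) (nat_lit 5) (nat_lit 112) (nat_lit 121) (nat_lit 127))) (PT.nd (nat_lit 78) (PT.lf (nat_lit 7144) (nat_lit 6) (nat_lit 94) (nat_lit 5) (nat_lit 113) (nat_lit 121) (nat_lit 126)) (PT.nd (nat_lit 78) (PT.lf (nat_lit 7676) (nat_lit 6) (nat_lit 101) (nat_lit 5) (nat_lit 114) (nat_lit 121) (nat_lit 125)) (PT.lf (nat_lit 8132) (nat_lit 6) (nat_lit 107) (nat_lit 5) (nat_lit 115) (nat_lit 121) (nat_lit 124))))) (PT.nd (nat_lit 234) (PT.nd (nat_lit 78) (PT.lf (nat_lit 8512) (nat_lit 6) (nat_lit 112) (nat_lit 5) (nat_lit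 116) (nat_lit 121) (nat_lit 123)) (PT.nd (nat_lit 78) (PT.lf (nat_lit 8816) (nat_lit 6) (nat_lit 116) (nat_lit 5) (nat_lit 117) (nat_lit 121) (nat_lit 122)) (PT.lf (nat_lit 9044) (nat_lit 3) (nat_lit 119) (nat_lit 4) (nat_lit 118) (nat_lit 121) (nat_lit 121)))) (PT.nd (nat_lit 78) (PT.lf (nat_lit 9120) (nat_lit 6) (nat_lit 120) (nat_lit 4) (nat_lit 119) (nat_lit 121) (nat_lit 120)) (PT.nd (nat_lit 78) (PT.lf (nat_lit 9120) (nat_lit 6) (nat_lit 120) (nat_lit 2) (nat_lit 120) (nat_lit 121) (nat_lit 119)) (PT.lf (nat_lit 9044) (nat_lit 3) (nat_lit 119) (nat_lit 0) (nat_lit 121) (nat_lit 121) (nat_lit 118))))))))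
noncomputable def pc7 : PT := (PT.nd (nat_lit 37284) (PT.nd (nat_lit 36504) (PT.nd (nat_lit 390) (PT.nd (nat_lit 156) (PT.nd (nat_lit 78) (PT.lf (nat_lit 8816) (nat_lit 6) (nat_lit 116) (nat_lit 0) (nat_lit 122) (nat_lit 121) (nat_lit 117)) (PT.lf (nat_lit 8512) (nat_lit 6) (nat_lit 112) (nat_lit 0) (nat_lit 123) (nat_lit 121) (nat_lit 116))) (PT.nd (nat_lit 78) (PT.lf (nat_lit 8132) (nat_lit 6) (nat_lit 107) (nat_lit 0) (nat_lit 124) (nat_lit 121) (nat_lit 115)) (PT.nd (nat_lit 78) (PT.lf (nat_lit 7676) (nat_lit 6) (nat_lit 101) (nat_lit 0) (nat_lit 125) (nat_lit 121) (nat_lit 114)) (PT.lf (nat_lit 7144) (nat_lit 6) (nat_lit 94) (nat_lit 0) (nat_lit 126) (nat_lit 121) (nat_lit 113))))) (PT.nd (nat_lit 156) (PT.nd (nat_lit 78) (PT.lf (nat_lit 6536) (nat_lit 6) (nat_lit 86) (nat_lit 0) (nat_lit 127) (nat_lit 121) (nat_lit 112)) (PT.lf (nat_lit 5852) (nat_lit 6) (nat_lit 77) (nat_lit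 0) (nat_lit 128) (nat_lit 121) (nat_lit 111))) (PT.nd (nat_lit 78) (PT.lf (nat_lit 5092) (nat_lit 6) (nat_lit 67) (nat_lit 0) (nat_lit 129) (nat_lit 121) (nat_lit 110)) (PT.nd (nat_lit 35802) (PT.lf (nat_lit 4712) (nat_lit 6) (nat_lit 62) (nat_lit 0) (nat_lit 130) (nat_lit 121) (nat_lit 109)) (PT.lf (nat_lit 4332) (nat_lit 6) (nat_lit 57) (nat_lit 5) (nat_lit 108) (nat_lit 122) (nat_lit 130)))))) (PT.nd (nat_lit 390) (PT.nd (nat_lit 156) (PT.nd (nat_lit 78) (PT.lf (nat_lit 4788) (nat_lit 6) (nat_lit 63) (nat_lit 5) (nat_lit 109) (nat_lit 122) (nat_lit 129)) (PT.lf (nat_lit 5168) (nat_lit 6) (nat_lit 68) (nat_lit 5) (nat_lit 110) (nat_lit 122) (nat_lit 128))) (PT.nd (nat_lit 78) (PT.lf (nat_lit 5928) (nat_lit 6) (nat_lit 78) (nat_lit 5) (nat_lit 111) (nat_lit 122) (nat_lit 127)) (PT.nd (nat_lit 78) (PT.lf (nat_lit 6612) (nat_lit 6) (nat_lit 87) (nat_lit 5) (nat_lit 112) (nat_lit 122)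 (nat_lit 126)) (PT.lf (nat_lit 7220) (nat_lit 6) (nat_lit 95) (nat_lit 5) (nat_lit 113) (nat_lit 122) (nat_lit 125))))) (PT.nd (nat_lit 156) (PT.nd (nat_lit 78) (PT.lf (nat_lit 7752) (nat_lit 6) (nat_lit 102) (nat_lit 5) (nat_lit 114) (nat_lit 122) (nat_lit 124)) (PT.lf (nat_lit 8208) (nat_lit 6) (nat_lit 108) (nat_lit 5) (nat_lit 115) (nat_lit 122) (nat_lit 123))) (PT.nd (nat_lit 78) (PT.lf (nat_lit 8588) (nat_lit 3) (nat_lit 113) (nat_lit 4) (nat_lit 116) (nat_lit 122) (nat_lit 122)) (PT.nd (nat_lit 78) (PT.lf (nat_lit 8816) (nat_lit 6) (nat_lit 116) (nat_lit 4) (nat_lit 117) (nat_lit 122) (nat_lit 121)) (PT.lf (nat_lit 8968) (nat_lit 6) (nat_lit 118) (nat_lit 4) (nat_lit 118) (nat_lit 122) (nat_lit 120))))))) (PT.nd (nat_lit 780) (PT.nd (nat_lit 390) (PT.nd (nat_lit 156) (PT.nd (nat_lit 78) (PT.lf (nat_lit 8892) (nat_lit 3) (nat_lit 117) (nat_lit 2) (nat_lit 119) (nat_lit 122) (nat_lit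 119)) (PT.lf (nat_lit 8968) (nat_lit 6) (nat_lit 118) (nat_lit 2) (nat_lit 120) (nat_lit 122) (nat_lit 118))) (PT.nd (nat_lit 78) (PT.lf (nat_lit 8816) (nat_lit 6) (nat_lit 116) (nat_lit 2) (nat_lit 121) (nat_lit 122) (nat_lit 117)) (PT.nd (nat_lit 78) (PT.lf (nat_lit 8588) (nat_lit 3) (nat_lit 113) (nat_lit 0) (nat_lit 122) (nat_lit 122) (nat_lit 116)) (PT.lf (nat_lit 8208) (nat_lit 6) (nat_lit 108) (nat_lit 0) (nat_lit 123) (nat_lit 122) (nat_lit 115))))) (PT.nd (nat_lit 156) (PT.nd (nat_lit 78) (PT.lf (nat_lit 7752) (nat_lit 6) (nat_lit 102) (nat_lit 0) (nat_lit 124) (nat_lit 122) (nat_lit 114)) (PT.lf (nat_lit 7220) (nat_lit 6) (nat_lit 95) (nat_lit 0) (nat_lit 125) (nat_lit 122) (nat_lit 113))) (PT.nd (nat_lit 78) (PT.lf (nat_lit 6612) (nat_lit 6) (nat_lit 87) (nat_lit 0) (nat_lit 126) (nat_lit 122) (nat_lit 112)) (PT.nd (nat_lit 78) (PT.lf (nat_lit 5928) (nat_lit 6) (nat_lit 78)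 (nat_lit 0) (nat_lit 127) (nat_lit 122) (nat_lit 111)) (PT.lf (nat_lit 5168) (nat_lit 6) (nat_lit 68) (nat_lit 0) (nat_lit 128) (nat_lit 122) (nat_lit 110)))))) (PT.nd (nat_lit 36036) (PT.nd (nat_lit 35802) (PT.nd (nat_lit 78) (PT.lf (nat_lit 4788) (nat_lit 6) (nat_lit 63) (nat_lit 0) (nat_lit 129) (nat_lit 122) (nat_lit 109)) (PT.lf (nat_lit 4332) (nat_lit 6) (nat_lit 57) (nat_lit 0) (nat_lit 130) (nat_lit 122) (nat_lit 108))) (PT.nd (nat_lit 78) (PT.lf (nat_lit 4028) (nat_lit 6) (nat_lit 53) (nat_lit 5) (nat_lit 107) (nat_lit 123) (nat_lit 130)) (PT.nd (nat_lit 78) (PT.lf (nat_lit 4408) (nat_lit 6) (nat_lit 58) (nat_lit 5) (nat_lit 108) (nat_lit 123) (nat_lit 129)) (PT.lf (nat_lit 4864) (nat_lit 6) (nat_lit 64) (nat_lit 5) (nat_lit 109) (nat_lit 123) (nat_lit 128))))) (PT.nd (nat_lit 234) (PT.nd (nat_lit 78) (PT.lf (nat_lit 5244) (nat_lit 6) (nat_lit 69) (nat_lit 5) (nat_lit 110)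 (nat_lit 123) (nat_lit 127)) (PT.nd (nat_lit 78) (PT.lf (nat_lit 6004) (nat_lit 6) (nat_lit 79) (nat_lit 5) (nat_lit 111) (nat_lit 123) (nat_lit 126)) (PT.lf (nat_lit 6688) (nat_lit 6) (nat_lit 88) (nat_lit 5) (nat_lit 112) (nat_lit 123) (nat_lit 125)))) (PT.nd (nat_lit 78) (PT.lf (nat_lit 7296) (nat_lit 6) (nat_lit 96) (nat_lit 5) (nat_lit 113) (nat_lit 123) (nat_lit 124)) (PT.nd (nat_lit 78) (PT.lf (nat_lit 7828) (nat_lit 3) (nat_lit 103) (nat_lit 4) (nat_lit 114) (nat_lit 123) (nat_lit 123)) (PT.lf (nat_lit 8208) (nat_lit 6) (nat_lit 108) (nat_lit 4) (nat_lit 115) (nat_lit 123) (nat_lit 122))))))))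
noncomputable def pc8 : PT := (PT.nd (nat_lit 37050) (PT.nd (nat_lit 780) (PT.nd (nat_lit 390) (PT.nd (nat_lit 156) (PT.nd (nat_lit 78) (PT.lf (nat_lit 8512) (nat_lit 6) (nat_lit 112) (nat_lit 4) (nat_lit 116) (nat_lit 123) (nat_lit 121)) (PT.lf (nat_lit 8740) (nat_lit 6) (nat_lit 115) (nat_lit 4) (nat_lit 117) (nat_lit 123) (nat_lit 120))) (PT.nd (nat_lit 78) (PT.lf (nat_lit 8664) (nat_lit 6) (nat_lit 114) (nat_lit 4) (nat_lit 118) (nat_lit 123) (nat_lit 119)) (PT.nd (nat_lit 78) (PT.lf (nat_lit 8664) (nat_lit 6) (nat_lit 114) (nat_lit 2) (nat_lit 119) (nat_lit 123) (nat_lit 118)) (PT.lf (nat_lit 8740) (nat_lit 6) (nat_lit 115) (nat_lit 2) (nat_lit 120) (nat_lit 123) (nat_lit 117))))) (PT.nd (nat_lit 156) (PT.nd (nat_lit 78) (PT.lf (nat_lit 8512) (nat_lit 6) (nat_lit 112) (nat_lit 2) (nat_lit 121) (nat_lit 123) (nat_lit 116)) (PT.lf (nat_lit 8208) (nat_lit 6) (nat_lit 108) (nat_lit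 2) (nat_lit 122) (nat_lit 123) (nat_lit 115))) (PT.nd (nat_lit 78) (PT.lf (nat_lit 7828) (nat_lit 3) (nat_lit 103) (nat_lit 0) (nat_lit 123) (nat_lit 123) (nat_lit 114)) (PT.nd (nat_lit 78) (PT.lf (nat_lit 7296) (nat_lit 6) (nat_lit 96) (nat_lit 0) (nat_lit 124) (nat_lit 123) (nat_lit 113)) (PT.lf (nat_lit 6688) (nat_lit 6) (nat_lit 88) (nat_lit 0) (nat_lit 125) (nat_lit 123) (nat_lit 112)))))) (PT.nd (nat_lit 35880) (PT.nd (nat_lit 156) (PT.nd (nat_lit 78) (PT.lf (nat_lit 6004) (nat_lit 6) (nat_lit 79) (nat_lit 0) (nat_lit 126) (nat_lit 123) (nat_lit 111)) (PT.lf (nat_lit 5244) (nat_lit 6) (nat_lit 69) (nat_lit 0) (nat_lit 127) (nat_lit 123) (nat_lit 110))) (PT.nd (nat_lit 78) (PT.lf (nat_lit 4864) (nat_lit 6) (nat_lit 64) (nat_lit 0) (nat_lit 128) (nat_lit 123) (nat_lit 109)) (PT.nd (nat_lit 78) (PT.lf (nat_lit 4408) (nat_lit 6) (nat_lit 58) (nat_lit 0) (nat_lit 129) (nat_lit 123)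 (nat_lit 108)) (PT.lf (nat_lit 4028) (nat_lit 6) (nat_lit 53) (nat_lit 0) (nat_lit 130) (nat_lit 123) (nat_lit 107))))) (PT.nd (nat_lit 156) (PT.nd (nat_lit 78) (PT.lf (nat_lit 3420) (nat_lit 6) (nat_lit 45) (nat_lit 5) (nat_lit 105) (nat_lit 124) (nat_lit 131)) (PT.lf (nat_lit 3724) (nat_lit 6) (nat_lit 49) (nat_lit 5) (nat_lit 106) (nat_lit 124) (nat_lit 130))) (PT.nd (nat_lit 78) (PT.lf (nat_lit 4104) (nat_lit 6) (nat_lit 54) (nat_lit 5) (nat_lit 107) (nat_lit 124) (nat_lit 129)) (PT.nd (nat_lit 78) (PT.lf (nat_lit 4484) (nat_lit 6) (nat_lit 59) (nat_lit 5) (nat_lit 108) (nat_lit 124) (nat_lit 128)) (PT.lf (nat_lit 4940) (nat_lit 6) (nat_lit 65) (nat_lit 5) (nat_lit 109) (nat_lit 124) (nat_lit 127))))))) (PT.nd (nat_lit 780) (PT.nd (nat_lit 390) (PT.nd (nat_lit 156) (PT.nd (nat_lit 78) (PT.lf (nat_lit 5320) (nat_lit 6) (nat_lit 70) (nat_lit 5) (nat_lit 110) (nat_lit 124) (nat_lit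 126)) (PT.lf (nat_lit 6080) (nat_lit 6) (nat_lit 80) (nat_lit 5) (nat_lit 111) (nat_lit 124) (nat_lit 125))) (PT.nd (nat_lit 78) (PT.lf (nat_lit 6764) (nat_lit 3) (nat_lit 89) (nat_lit 4) (nat_lit 112) (nat_lit 124) (nat_lit 124)) (PT.nd (nat_lit 78) (PT.lf (nat_lit 7296) (nat_lit 6) (nat_lit 96) (nat_lit 4) (nat_lit 113) (nat_lit 124) (nat_lit 123)) (PT.lf (nat_lit 7752) (nat_lit 6) (nat_lit 102) (nat_lit 4) (nat_lit 114) (nat_lit 124) (nat_lit 122))))) (PT.nd (nat_lit 156) (PT.nd (nat_lit 78) (PT.lf (nat_lit 8132) (nat_lit 6) (nat_lit 107) (nat_lit 4) (nat_lit 115) (nat_lit 124) (nat_lit 121)) (PT.lf (nat_lit 8436) (nat_lit 6) (nat_lit 111) (nat_lit 4) (nat_lit 116) (nat_lit 124) (nat_lit 120))) (PT.nd (nat_lit 78) (PT.lf (nat_lit 8360) (nat_lit 6) (nat_lit 110) (nat_lit 4) (nat_lit 117) (nat_lit 124) (nat_lit 119)) (PT.nd (nat_lit 78) (PT.lf (nat_lit 8284) (nat_lit 3) (nat_lit 109)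 (nat_lit 2) (nat_lit 118) (nat_lit 124) (nat_lit 118)) (PT.lf (nat_lit 8360) (nat_lit 6) (nat_lit 110) (nat_lit 2) (nat_lit 119) (nat_lit 124) (nat_lit 117)))))) (PT.nd (nat_lit 390) (PT.nd (nat_lit 156) (PT.nd (nat_lit 78) (PT.lf (nat_lit 8436) (nat_lit 6) (nat_lit 111) (nat_lit 2) (nat_lit 120) (nat_lit 124) (nat_lit 116)) (PT.lf (nat_lit 8132) (nat_lit 6) (nat_lit 107) (nat_lit 2) (nat_lit 121) (nat_lit 124) (nat_lit 115))) (PT.nd (nat_lit 78) (PT.lf (nat_lit 7752) (nat_lit 6) (nat_lit 102) (nat_lit 2) (nat_lit 122) (nat_lit 124) (nat_lit 114)) (PT.nd (nat_lit 78) (PT.lf (nat_lit 7296) (nat_lit 6) (nat_lit 96) (nat_lit 2) (nat_lit 123) (nat_lit 124) (nat_lit 113)) (PT.lf (nat_lit 6764) (nat_lit 3) (nat_lit 89) (nat_lit 0) (nat_lit 124) (nat_lit 124) (nat_lit 112))))) (PT.nd (nat_lit 234) (PT.nd (nat_lit 78) (PT.lf (nat_lit 6080) (nat_lit 6) (nat_lit 80) (nat_lit 0) (nat_lit 125)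 (nat_lit 124) (nat_lit 111)) (PT.nd (nat_lit 78) (PT.lf (nat_lit 5320) (nat_lit 6) (nat_lit 70) (nat_lit 0) (nat_lit 126) (nat_lit 124) (nat_lit 110)) (PT.lf (nat_lit 4940) (nat_lit 6) (nat_lit 65) (nat_lit 0) (nat_lit 127) (nat_lit 124) (nat_lit 109)))) (PT.nd (nat_lit 78) (PT.lf (nat_lit 4484) (nat_lit 6) (nat_lit 59) (nat_lit 0) (nat_lit 128) (nat_lit 124) (nat_lit 108)) (PT.nd (nat_lit 78) (PT.lf (nat_lit 4104) (nat_lit 6) (nat_lit 54) (nat_lit 0) (nat_lit 129) (nat_lit 124) (nat_lit 107)) (PT.lf (nat_lit 3724) (nat_lit 6) (nat_lit 49) (nat_lit 0) (nat_lit 130) (nat_lit 124) (nat_lit 106))))))))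
noncomputable def pc9 : PT := (PT.nd (nat_lit 36894) (PT.nd (nat_lit 36114) (PT.nd (nat_lit 35724) (PT.nd (nat_lit 35490) (PT.nd (nat_lit 35412) (PT.lf (nat_lit 3420) (nat_lit 6) (nat_lit 45) (nat_lit 0) (nat_lit 131) (nat_lit 124) (nat_lit 105)) (PT.lf (nat_lit 3116) (nat_lit 6) (nat_lit 41) (nat_lit 5) (nat_lit 104) (nat_lit 125) (nat_lit 131))) (PT.nd (nat_lit 78) (PT.lf (nat_lit 3496) (nat_lit 6) (nat_lit 46) (nat_lit 5) (nat_lit 105) (nat_lit 125) (nat_lit 130)) (PT.nd (nat_lit 78) (PT.lf (nat_lit 3800) (nat_lit 6) (nat_lit 50) (nat_lit 5) (nat_lit 106) (nat_lit 125) (nat_lit 129)) (PT.lf (nat_lit 4180) (nat_lit 6) (nat_lit 55) (nat_lit 5) (nat_lit 107) (nat_lit 125) (nat_lit 128))))) (PT.nd (nat_lit 156) (PT.nd (nat_lit 78) (PT.lf (nat_lit 4560) (nat_lit 6) (nat_lit 60) (nat_lit 5) (nat_lit 108) (nat_lit 125) (nat_lit 127)) (PT.lf (nat_lit 5016) (nat_lit 6) (nat_lit 66) (nat_lit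 5) (nat_lit 109) (nat_lit 125) (nat_lit 126))) (PT.nd (nat_lit 78) (PT.lf (nat_lit 5396) (nat_lit 3) (nat_lit 71) (nat_lit 4) (nat_lit 110) (nat_lit 125) (nat_lit 125)) (PT.nd (nat_lit 78) (PT.lf (nat_lit 6080) (nat_lit 6) (nat_lit 80) (nat_lit 4) (nat_lit 111) (nat_lit 125) (nat_lit 124)) (PT.lf (nat_lit 6688) (nat_lit 6) (nat_lit 88) (nat_lit 4) (nat_lit 112) (nat_lit 125) (nat_lit 123)))))) (PT.nd (nat_lit 390) (PT.nd (nat_lit 156) (PT.nd (nat_lit 78) (PT.lf (nat_lit 7220) (nat_lit 6) (nat_lit 95) (nat_lit 4) (nat_lit 113) (nat_lit 125) (nat_lit 122)) (PT.lf (nat_lit 7676) (nat_lit 6) (nat_lit 101) (nat_lit 4) (nat_lit 114) (nat_lit 125) (nat_lit 121))) (PT.nd (nat_lit 78) (PT.lf (nat_lit 8056) (nat_lit 6) (nat_lit 106) (nat_lit 4) (nat_lit 115) (nat_lit 125) (nat_lit 120)) (PT.nd (nat_lit 78) (PT.lf (nat_lit 7980) (nat_lit 6) (nat_lit 105) (nat_lit 4) (nat_lit 116) (nat_lit 125)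 (nat_lit 119)) (PT.lf (nat_lit 7904) (nat_lit 6) (nat_lit 104) (nat_lit 4) (nat_lit 117) (nat_lit 125) (nat_lit 118))))) (PT.nd (nat_lit 156) (PT.nd (nat_lit 78) (PT.lf (nat_lit 7904) (nat_lit 6) (nat_lit 104) (nat_lit 2) (nat_lit 118) (nat_lit 125) (nat_lit 117)) (PT.lf (nat_lit 7980) (nat_lit 6) (nat_lit 105) (nat_lit 2) (nat_lit 119) (nat_lit 125) (nat_lit 116))) (PT.nd (nat_lit 78) (PT.lf (nat_lit 8056) (nat_lit 6) (nat_lit 106) (nat_lit 2) (nat_lit 120) (nat_lit 125) (nat_lit 115)) (PT.nd (nat_lit 78) (PT.lf (nat_lit 7676) (nat_lit 6) (nat_lit 101) (nat_lit 2) (nat_lit 121) (nat_lit 125) (nat_lit 114)) (PT.lf (nat_lit 7220) (nat_lit 6) (nat_lit 95) (nat_lit 2) (nat_lit 122) (nat_lit 125) (nat_lit 113))))))) (PT.nd (nat_lit 36036) (PT.nd (nat_lit 390) (PT.nd (nat_lit 156) (PT.nd (nat_lit 78) (PT.lf (nat_lit 6688) (nat_lit 6) (nat_lit 88) (nat_lit 2) (nat_lit 123) (nat_lit 125) (nat_lit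 112)) (PT.lf (nat_lit 6080) (nat_lit 6) (nat_lit 80) (nat_lit 2) (nat_lit 124) (nat_lit 125) (nat_lit 111))) (PT.nd (nat_lit 78) (PT.lf (nat_lit 5396) (nat_lit 3) (nat_lit 71) (nat_lit 0) (nat_lit 125) (nat_lit 125) (nat_lit 110)) (PT.nd (nat_lit 78) (PT.lf (nat_lit 5016) (nat_lit 6) (nat_lit 66) (nat_lit 0) (nat_lit 126) (nat_lit 125) (nat_lit 109)) (PT.lf (nat_lit 4560) (nat_lit 6) (nat_lit 60) (nat_lit 0) (nat_lit 127) (nat_lit 125) (nat_lit 108))))) (PT.nd (nat_lit 156) (PT.nd (nat_lit 78) (PT.lf (nat_lit 4180) (nat_lit 6) (nat_lit 55) (nat_lit 0) (nat_lit 128) (nat_lit 125) (nat_lit 107)) (PT.lf (nat_lit 3800) (nat_lit 6) (nat_lit 50) (nat_lit 0) (nat_lit 129) (nat_lit 125) (nat_lit 106))) (PT.nd (nat_lit 78) (PT.lf (nat_lit 3496) (nat_lit 6) (nat_lit 46) (nat_lit 0) (nat_lit 130) (nat_lit 125) (nat_lit 105)) (PT.nd (nat_lit 35334) (PT.lf (nat_lit 3116) (nat_lit 6) (nat_lit 41)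 (nat_lit 0) (nat_lit 131) (nat_lit 125) (nat_lit 104)) (PT.lf (nat_lit 2888) (nat_lit 6) (nat_lit 38) (nat_lit 5) (nat_lit 103) (nat_lit 126) (nat_lit 131)))))) (PT.nd (nat_lit 390) (PT.nd (nat_lit 156) (PT.nd (nat_lit 78) (PT.lf (nat_lit 3192) (nat_lit 6) (nat_lit 42) (nat_lit 5) (nat_lit 104) (nat_lit 126) (nat_lit 130)) (PT.lf (nat_lit 3572) (nat_lit 6) (nat_lit 47) (nat_lit 5) (nat_lit 105) (nat_lit 126) (nat_lit 129))) (PT.nd (nat_lit 78) (PT.lf (nat_lit 3876) (nat_lit 6) (nat_lit 51) (nat_lit 5) (nat_lit 106) (nat_lit 126) (nat_lit 128)) (PT.nd (nat_lit 78) (PT.lf (nat_lit 4256) (nat_lit 6) (nat_lit 56) (nat_lit 5) (nat_lit 107) (nat_lit 126) (nat_lit 127)) (PT.lf (nat_lit 4636) (nat_lit 3) (nat_lit 61) (nat_lit 4) (nat_lit 108) (nat_lit 126) (nat_lit 126))))) (PT.nd (nat_lit 234) (PT.nd (nat_lit 78) (PT.lf (nat_lit 5016) (nat_lit 6) (nat_lit 66) (nat_lit 4) (nat_lit 109) (nat_lit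 126) (nat_lit 125)) (PT.nd (nat_lit 78) (PT.lf (nat_lit 5320) (nat_lit 6) (nat_lit 70) (nat_lit 4) (nat_lit 110) (nat_lit 126) (nat_lit 124)) (PT.lf (nat_lit 6004) (nat_lit 6) (nat_lit 79) (nat_lit 4) (nat_lit 111) (nat_lit 126) (nat_lit 123)))) (PT.nd (nat_lit 78) (PT.lf (nat_lit 6612) (nat_lit 6) (nat_lit 87) (nat_lit 4) (nat_lit 112) (nat_lit 126) (nat_lit 122)) (PT.nd (nat_lit 78) (PT.lf (nat_lit 7144) (nat_lit 6) (nat_lit 94) (nat_lit 4) (nat_lit 113) (nat_lit 126) (nat_lit 121)) (PT.lf (nat_lit 7600) (nat_lit 6) (nat_lit 100) (nat_lit 4) (nat_lit 114) (nat_lit 126) (nat_lit 120))))))))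
noncomputable def pc10 : PT := (PT.nd (nat_lit 36660) (PT.nd (nat_lit 780) (PT.nd (nat_lit 390) (PT.nd (nat_lit 156) (PT.nd (nat_lit 78) (PT.lf (nat_lit 7524) (nat_lit 6) (nat_lit 99) (nat_lit 4) (nat_lit 115) (nat_lit 126) (nat_lit 119)) (PT.lf (nat_lit 7448) (nat_lit 6) (nat_lit 98) (nat_lit 4) (nat_lit 116) (nat_lit 126) (nat_lit 118))) (PT.nd (nat_lit 78) (PT.lf (nat_lit 7372) (nat_lit 3) (nat_lit 97) (nat_lit 2) (nat_lit 117) (nat_lit 126) (nat_lit 117)) (PT.nd (nat_lit 78) (PT.lf (nat_lit 7448) (nat_lit 6) (nat_lit 98) (nat_lit 2) (nat_lit 118) (nat_lit 126) (nat_lit 116)) (PT.lf (nat_lit 7524) (nat_lit 6) (nat_lit 99) (nat_lit 2) (nat_lit 119) (nat_lit 126) (nat_lit 115))))) (PT.nd (nat_lit 156) (PT.nd (nat_lit 78) (PT.lf (nat_lit 7600) (nat_lit 6) (nat_lit 100) (nat_lit 2) (nat_lit 120) (nat_lit 126) (nat_lit 114)) (PT.lf (nat_lit 7144) (nat_lit 6) (nat_lit 94) (nat_lit 2) (nat_lit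 121) (nat_lit 126) (nat_lit 113))) (PT.nd (nat_lit 78) (PT.lf (nat_lit 6612) (nat_lit 6) (nat_lit 87) (nat_lit 2) (nat_lit 122) (nat_lit 126) (nat_lit 112)) (PT.nd (nat_lit 78) (PT.lf (nat_lit 6004) (nat_lit 6) (nat_lit 79) (nat_lit 2) (nat_lit 123) (nat_lit 126) (nat_lit 111)) (PT.lf (nat_lit 5320) (nat_lit 6) (nat_lit 70) (nat_lit 2) (nat_lit 124) (nat_lit 126) (nat_lit 110)))))) (PT.nd (nat_lit 390) (PT.nd (nat_lit 156) (PT.nd (nat_lit 78) (PT.lf (nat_lit 5016) (nat_lit 6) (nat_lit 66) (nat_lit 2) (nat_lit 125) (nat_lit 126) (nat_lit 109)) (PT.lf (nat_lit 4636) (nat_lit 3) (nat_lit 61) (nat_lit 0) (nat_lit 126) (nat_lit 126) (nat_lit 108))) (PT.nd (nat_lit 78) (PT.lf (nat_lit 4256) (nat_lit 6) (nat_lit 56) (nat_lit 0) (nat_lit 127) (nat_lit 126) (nat_lit 107)) (PT.nd (nat_lit 78) (PT.lf (nat_lit 3876) (nat_lit 6) (nat_lit 51) (nat_lit 0) (nat_lit 128) (nat_lit 126) (nat_lit 106))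 (PT.lf (nat_lit 3572) (nat_lit 6) (nat_lit 47) (nat_lit 0) (nat_lit 129) (nat_lit 126) (nat_lit 105))))) (PT.nd (nat_lit 35256) (PT.nd (nat_lit 78) (PT.lf (nat_lit 3192) (nat_lit 6) (nat_lit 42) (nat_lit 0) (nat_lit 130) (nat_lit 126) (nat_lit 104)) (PT.lf (nat_lit 2888) (nat_lit 6) (nat_lit 38) (nat_lit 0) (nat_lit 131) (nat_lit 126) (nat_lit 103))) (PT.nd (nat_lit 78) (PT.lf (nat_lit 2432) (nat_lit 6) (nat_lit 32) (nat_lit 5) (nat_lit 101) (nat_lit 127) (nat_lit 132)) (PT.nd (nat_lit 78) (PT.lf (nat_lit 2660) (nat_lit 6) (nat_lit 35) (nat_lit 5) (nat_lit 102) (nat_lit 127) (nat_lit 131)) (PT.lf (nat_lit 2964) (nat_lit 6) (nat_lit 39) (nat_lit 5) (nat_lit 103) (nat_lit 127) (nat_lit 130))))))) (PT.nd (nat_lit 780) (PT.nd (nat_lit 390) (PT.nd (nat_lit 156) (PT.nd (nat_lit 78) (PT.lf (nat_lit 3268) (nat_lit 6) (nat_lit 43) (nat_lit 5) (nat_lit 104) (nat_lit 127) (nat_lit 129)) (PT.lf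 (nat_lit 3648) (nat_lit 6) (nat_lit 48) (nat_lit 5) (nat_lit 105) (nat_lit 127) (nat_lit 128))) (PT.nd (nat_lit 78) (PT.lf (nat_lit 3952) (nat_lit 3) (nat_lit 52) (nat_lit 4) (nat_lit 106) (nat_lit 127) (nat_lit 127)) (PT.nd (nat_lit 78) (PT.lf (nat_lit 4256) (nat_lit 6) (nat_lit 56) (nat_lit 4) (nat_lit 107) (nat_lit 127) (nat_lit 126)) (PT.lf (nat_lit 4560) (nat_lit 6) (nat_lit 60) (nat_lit 4) (nat_lit 108) (nat_lit 127) (nat_lit 125))))) (PT.nd (nat_lit 156) (PT.nd (nat_lit 78) (PT.lf (nat_lit 4940) (nat_lit 6) (nat_lit 65) (nat_lit 4) (nat_lit 109) (nat_lit 127) (nat_lit 124)) (PT.lf (nat_lit 5244) (nat_lit 6) (nat_lit 69) (nat_lit 4) (nat_lit 110) (nat_lit 127) (nat_lit 123))) (PT.nd (nat_lit 78) (PT.lf (nat_lit 5928) (nat_lit 6) (nat_lit 78) (nat_lit 4) (nat_lit 111) (nat_lit 127) (nat_lit 122)) (PT.nd (nat_lit 78) (PT.lf (nat_lit 6536) (nat_lit 6) (nat_lit 86) (nat_lit 4) (nat_lit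 112) (nat_lit 127) (nat_lit 121)) (PT.lf (nat_lit 7068) (nat_lit 6) (nat_lit 93) (nat_lit 4) (nat_lit 113) (nat_lit 127) (nat_lit 120)))))) (PT.nd (nat_lit 390) (PT.nd (nat_lit 156) (PT.nd (nat_lit 78) (PT.lf (nat_lit 6992) (nat_lit 6) (nat_lit 92) (nat_lit 4) (nat_lit 114) (nat_lit 127) (nat_lit 119)) (PT.lf (nat_lit 6916) (nat_lit 6) (nat_lit 91) (nat_lit 4) (nat_lit 115) (nat_lit 127) (nat_lit 118))) (PT.nd (nat_lit 78) (PT.lf (nat_lit 6840) (nat_lit 6) (nat_lit 90) (nat_lit 4) (nat_lit 116) (nat_lit 127) (nat_lit 117)) (PT.nd (nat_lit 78) (PT.lf (nat_lit 6840) (nat_lit 6) (nat_lit 90) (nat_lit 2) (nat_lit 117) (nat_lit 127) (nat_lit 116)) (PT.lf (nat_lit 6916) (nat_lit 6) (nat_lit 91) (nat_lit 2) (nat_lit 118) (nat_lit 127) (nat_lit 115))))) (PT.nd (nat_lit 234) (PT.nd (nat_lit 78) (PT.lf (nat_lit 6992) (nat_lit 6) (nat_lit 92) (nat_lit 2) (nat_lit 119) (nat_lit 127) (nat_lit 114))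 (PT.nd (nat_lit 78) (PT.lf (nat_lit 7068) (nat_lit 6) (nat_lit 93) (nat_lit 2) (nat_lit 120) (nat_lit 127) (nat_lit 113)) (PT.lf (nat_lit 6536) (nat_lit 6) (nat_lit 86) (nat_lit 2) (nat_lit 121) (nat_lit 127) (nat_lit 112)))) (PT.nd (nat_lit 78) (PT.lf (nat_lit 5928) (nat_lit 6) (nat_lit 78) (nat_lit 2) (nat_lit 122) (nat_lit 127) (nat_lit 111)) (PT.nd (nat_lit 78) (PT.lf (nat_lit 5244) (nat_lit 6) (nat_lit 69) (nat_lit 2) (nat_lit 123) (nat_lit 127) (nat_lit 110)) (PT.lf (nat_lit 4940) (nat_lit 6) (nat_lit 65) (nat_lit 2) (nat_lit 124) (nat_lit 127) (nat_lit 109))))))))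
noncomputable def pc11 : PT := (PT.nd (nat_lit 36504) (PT.nd (nat_lit 35724) (PT.nd (nat_lit 390) (PT.nd (nat_lit 156) (PT.nd (nat_lit 78) (PT.lf (nat_lit 4560) (nat_lit 6) (nat_lit 60) (nat_lit 2) (nat_lit 125) (nat_lit 127) (nat_lit 108)) (PT.lf (nat_lit 4256) (nat_lit 6) (nat_lit 56) (nat_lit 2) (nat_lit 126) (nat_lit 127) (nat_lit 107))) (PT.nd (nat_lit 78) (PT.lf (nat_lit 3952) (nat_lit 3) (nat_lit 52) (nat_lit 0) (nat_lit 127) (nat_lit 127) (nat_lit 106)) (PT.nd (nat_lit 78) (PT.lf (nat_lit 3648) (nat_lit 6) (nat_lit 48) (nat_lit 0) (nat_lit 128) (nat_lit 127) (nat_lit 105)) (PT.lf (nat_lit 3268) (nat_lit 6) (nat_lit 43) (nat_lit 0) (nat_lit 129) (nat_lit 127) (nat_lit 104))))) (PT.nd (nat_lit 156) (PT.nd (nat_lit 78) (PT.lf (nat_lit 2964) (nat_lit 6) (nat_lit 39) (nat_lit 0) (nat_lit 130) (nat_lit 127) (nat_lit 103)) (PT.lf (nat_lit 2660) (nat_lit 6) (nat_lit 35) (nat_lit 0)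 (nat_lit 131) (nat_lit 127) (nat_lit 102))) (PT.nd (nat_lit 35022) (PT.lf (nat_lit 2432) (nat_lit 6) (nat_lit 32) (nat_lit 0) (nat_lit 132) (nat_lit 127) (nat_lit 101)) (PT.nd (nat_lit 78) (PT.lf (nat_lit 2204) (nat_lit 6) (nat_lit 29) (nat_lit 5) (nat_lit 100) (nat_lit 128) (nat_lit 132)) (PT.lf (nat_lit 2508) (nat_lit 6) (nat_lit 33) (nat_lit 5) (nat_lit 101) (nat_lit 128) (nat_lit 131)))))) (PT.nd (nat_lit 390) (PT.nd (nat_lit 156) (PT.nd (nat_lit 78) (PT.lf (nat_lit 2736) (nat_lit 6) (nat_lit 36) (nat_lit 5) (nat_lit 102) (nat_lit 128) (nat_lit 130)) (PT.lf (nat_lit 3040) (nat_lit 6) (nat_lit 40) (nat_lit 5) (nat_lit 103) (nat_lit 128) (nat_lit 129))) (PT.nd (nat_lit 78) (PT.lf (nat_lit 3344) (nat_lit 3) (nat_lit 44) (nat_lit 4) (nat_lit 104) (nat_lit 128) (nat_lit 128)) (PT.nd (nat_lit 78) (PT.lf (nat_lit 3648) (nat_lit 6) (nat_lit 48) (nat_lit 4) (nat_lit 105) (nat_lit 128) (nat_lit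 127)) (PT.lf (nat_lit 3876) (nat_lit 6) (nat_lit 51) (nat_lit 4) (nat_lit 106) (nat_lit 128) (nat_lit 126))))) (PT.nd (nat_lit 156) (PT.nd (nat_lit 78) (PT.lf (nat_lit 4180) (nat_lit 6) (nat_lit 55) (nat_lit 4) (nat_lit 107) (nat_lit 128) (nat_lit 125)) (PT.lf (nat_lit 4484) (nat_lit 6) (nat_lit 59) (nat_lit 4) (nat_lit 108) (nat_lit 128) (nat_lit 124))) (PT.nd (nat_lit 78) (PT.lf (nat_lit 4864) (nat_lit 6) (nat_lit 64) (nat_lit 4) (nat_lit 109) (nat_lit 128) (nat_lit 123)) (PT.nd (nat_lit 78) (PT.lf (nat_lit 5168) (nat_lit 6) (nat_lit 68) (nat_lit 4) (nat_lit 110) (nat_lit 128) (nat_lit 122)) (PT.lf (nat_lit 5852) (nat_lit 6) (nat_lit 77) (nat_lit 4) (nat_lit 111) (nat_lit 128) (nat_lit 121))))))) (PT.nd (nat_lit 780) (PT.nd (nat_lit 390) (PT.nd (nat_lit 156) (PT.nd (nat_lit 78) (PT.lf (nat_lit 6460) (nat_lit 6) (nat_lit 85) (nat_lit 4) (nat_lit 112) (nat_lit 128) (nat_lit 120)) (PT.lf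 (nat_lit 6384) (nat_lit 6) (nat_lit 84) (nat_lit 4) (nat_lit 113) (nat_lit 128) (nat_lit 119))) (PT.nd (nat_lit 78) (PT.lf (nat_lit 6308) (nat_lit 6) (nat_lit 83) (nat_lit 4) (nat_lit 114) (nat_lit 128) (nat_lit 118)) (PT.nd (nat_lit 78) (PT.lf (nat_lit 6232) (nat_lit 6) (nat_lit 82) (nat_lit 4) (nat_lit 115) (nat_lit 128) (nat_lit 117)) (PT.lf (nat_lit 6156) (nat_lit 3) (nat_lit 81) (nat_lit 2) (nat_lit 116) (nat_lit 128) (nat_lit 116))))) (PT.nd (nat_lit 156) (PT.nd (nat_lit 78) (PT.lf (nat_lit 6232) (nat_lit 6) (nat_lit 82) (nat_lit 2) (nat_lit 117) (nat_lit 128) (nat_lit 115)) (PT.lf (nat_lit 6308) (nat_lit 6) (nat_lit 83) (nat_lit 2) (nat_lit 118) (nat_lit 128) (nat_lit 114))) (PT.nd (nat_lit 78) (PT.lf (nat_lit 6384) (nat_lit 6) (nat_lit 84) (nat_lit 2) (nat_lit 119) (nat_lit 128) (nat_lit 113)) (PT.nd (nat_lit 78) (PT.lf (nat_lit 6460) (nat_lit 6) (nat_lit 85) (nat_lit 2) (nat_lit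 120) (nat_lit 128) (nat_lit 112)) (PT.lf (nat_lit 5852) (nat_lit 6) (nat_lit 77) (nat_lit 2) (nat_lit 121) (nat_lit 128) (nat_lit 111)))))) (PT.nd (nat_lit 390) (PT.nd (nat_lit 156) (PT.nd (nat_lit 78) (PT.lf (nat_lit 5168) (nat_lit 6) (nat_lit 68) (nat_lit 2) (nat_lit 122) (nat_lit 128) (nat_lit 110)) (PT.lf (nat_lit 4864) (nat_lit 6) (nat_lit 64) (nat_lit 2) (nat_lit 123) (nat_lit 128) (nat_lit 109))) (PT.nd (nat_lit 78) (PT.lf (nat_lit 4484) (nat_lit 6) (nat_lit 59) (nat_lit 2) (nat_lit 124) (nat_lit 128) (nat_lit 108)) (PT.nd (nat_lit 78) (PT.lf (nat_lit 4180) (nat_lit 6) (nat_lit 55) (nat_lit 2) (nat_lit 125) (nat_lit 128) (nat_lit 107)) (PT.lf (nat_lit 3876) (nat_lit 6) (nat_lit 51) (nat_lit 2) (nat_lit 126) (nat_lit 128) (nat_lit 106))))) (PT.nd (nat_lit 234) (PT.nd (nat_lit 78) (PT.lf (nat_lit 3648) (nat_lit 6) (nat_lit 48) (nat_lit 2) (nat_lit 127) (nat_lit 128) (nat_lit 105))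 (PT.nd (nat_lit 78) (PT.lf (nat_lit 3344) (nat_lit 3) (nat_lit 44) (nat_lit 0) (nat_lit 128) (nat_lit 128) (nat_lit 104)) (PT.lf (nat_lit 3040) (nat_lit 6) (nat_lit 40) (nat_lit 0) (nat_lit 129) (nat_lit 128) (nat_lit 103)))) (PT.nd (nat_lit 78) (PT.lf (nat_lit 2736) (nat_lit 6) (nat_lit 36) (nat_lit 0) (nat_lit 130) (nat_lit 128) (nat_lit 102)) (PT.nd (nat_lit 78) (PT.lf (nat_lit 2508) (nat_lit 6) (nat_lit 33) (nat_lit 0) (nat_lit 131) (nat_lit 128) (nat_lit 101)) (PT.lf (nat_lit 2204) (nat_lit 6) (nat_lit 29) (nat_lit 0) (nat_lit 132) (nat_lit 128) (nat_lit 100))))))))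
noncomputable def pc12 : PT := (PT.nd (nat_lit 1560) (PT.nd (nat_lit 780) (PT.nd (nat_lit 390) (PT.nd (nat_lit 156) (PT.nd (nat_lit 78) (PT.lf (nat_lit 1824) (nat_lit 6) (nat_lit 24) (nat_lit 5) (nat_lit 98) (nat_lit 129) (nat_lit 133)) (PT.lf (nat_lit 2052) (nat_lit 6) (nat_lit 27) (nat_lit 5) (nat_lit 99) (nat_lit 129) (nat_lit 132))) (PT.nd (nat_lit 78) (PT.lf (nat_lit 2280) (nat_lit 6) (nat_lit 30) (nat_lit 5) (nat_lit 100) (nat_lit 129) (nat_lit 131)) (PT.nd (nat_lit 78) (PT.lf (nat_lit 2584) (nat_lit 6) (nat_lit 34) (nat_lit 5) (nat_lit 101) (nat_lit 129) (nat_lit 130)) (PT.lf (nat_lit 2812) (nat_lit 3) (nat_lit 37) (nat_lit 4) (nat_lit 102) (nat_lit 129) (nat_lit 129))))) (PT.nd (nat_lit 156) (PT.nd (nat_lit 78) (PT.lf (nat_lit 3040) (nat_lit 6) (nat_lit 40) (nat_lit 4) (nat_lit 103) (nat_lit 129) (nat_lit 128)) (PT.lf (nat_lit 3268) (nat_lit 6) (nat_lit 43) (nat_lit 4) (nat_lit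 104) (nat_lit 129) (nat_lit 127))) (PT.nd (nat_lit 78) (PT.lf (nat_lit 3572) (nat_lit 6) (nat_lit 47) (nat_lit 4) (nat_lit 105) (nat_lit 129) (nat_lit 126)) (PT.nd (nat_lit 78) (PT.lf (nat_lit 3800) (nat_lit 6) (nat_lit 50) (nat_lit 4) (nat_lit 106) (nat_lit 129) (nat_lit 125)) (PT.lf (nat_lit 4104) (nat_lit 6) (nat_lit 54) (nat_lit 4) (nat_lit 107) (nat_lit 129) (nat_lit 124)))))) (PT.nd (nat_lit 390) (PT.nd (nat_lit 156) (PT.nd (nat_lit 78) (PT.lf (nat_lit 4408) (nat_lit 6) (nat_lit 58) (nat_lit 4) (nat_lit 108) (nat_lit 129) (nat_lit 123)) (PT.lf (nat_lit 4788) (nat_lit 6) (nat_lit 63) (nat_lit 4) (nat_lit 109) (nat_lit 129) (nat_lit 122))) (PT.nd (nat_lit 78) (PT.lf (nat_lit 5092) (nat_lit 6) (nat_lit 67) (nat_lit 4) (nat_lit 110) (nat_lit 129) (nat_lit 121)) (PT.nd (nat_lit 78) (PT.lf (nat_lit 5776) (nat_lit 6) (nat_lit 76) (nat_lit 4) (nat_lit 111) (nat_lit 129) (nat_lit 120))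 (PT.lf (nat_lit 5700) (nat_lit 6) (nat_lit 75) (nat_lit 4) (nat_lit 112) (nat_lit 129) (nat_lit 119))))) (PT.nd (nat_lit 156) (PT.nd (nat_lit 78) (PT.lf (nat_lit 5624) (nat_lit 6) (nat_lit 74) (nat_lit 4) (nat_lit 113) (nat_lit 129) (nat_lit 118)) (PT.lf (nat_lit 5548) (nat_lit 6) (nat_lit 73) (nat_lit 4) (nat_lit 114) (nat_lit 129) (nat_lit 117))) (PT.nd (nat_lit 78) (PT.lf (nat_lit 5472) (nat_lit 6) (nat_lit 72) (nat_lit 4) (nat_lit 115) (nat_lit 129) (nat_lit 116)) (PT.nd (nat_lit 78) (PT.lf (nat_lit 5472) (nat_lit 6) (nat_lit 72) (nat_lit 2) (nat_lit 116) (nat_lit 129) (nat_lit 115)) (PT.lf (nat_lit 5548) (nat_lit 6) (nat_lit 73) (nat_lit 2) (nat_lit 117) (nat_lit 129) (nat_lit 114))))))) (PT.nd (nat_lit 780) (PT.nd (nat_lit 390) (PT.nd (nat_lit 156) (PT.nd (nat_lit 78) (PT.lf (nat_lit 5624) (nat_lit 6) (nat_lit 74) (nat_lit 2) (nat_lit 118) (nat_lit 129) (nat_lit 113)) (PT.lf (nat_lit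 5700) (nat_lit 6) (nat_lit 75) (nat_lit 2) (nat_lit 119) (nat_lit 129) (nat_lit 112))) (PT.nd (nat_lit 78) (PT.lf (nat_lit 5776) (nat_lit 6) (nat_lit 76) (nat_lit 2) (nat_lit 120) (nat_lit 129) (nat_lit 111)) (PT.nd (nat_lit 78) (PT.lf (nat_lit 5092) (nat_lit 6) (nat_lit 67) (nat_lit 2) (nat_lit 121) (nat_lit 129) (nat_lit 110)) (PT.lf (nat_lit 4788) (nat_lit 6) (nat_lit 63) (nat_lit 2) (nat_lit 122) (nat_lit 129) (nat_lit 109))))) (PT.nd (nat_lit 156) (PT.nd (nat_lit 78) (PT.lf (nat_lit 4408) (nat_lit 6) (nat_lit 58) (nat_lit 2) (nat_lit 123) (nat_lit 129) (nat_lit 108)) (PT.lf (nat_lit 4104) (nat_lit 6) (nat_lit 54) (nat_lit 2) (nat_lit 124) (nat_lit 129) (nat_lit 107))) (PT.nd (nat_lit 78) (PT.lf (nat_lit 3800) (nat_lit 6) (nat_lit 50) (nat_lit 2) (nat_lit 125) (nat_lit 129) (nat_lit 106)) (PT.nd (nat_lit 78) (PT.lf (nat_lit 3572) (nat_lit 6) (nat_lit 47) (nat_lit 2) (nat_lit 126)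 (nat_lit 129) (nat_lit 105)) (PT.lf (nat_lit 3268) (nat_lit 6) (nat_lit 43) (nat_lit 2) (nat_lit 127) (nat_lit 129) (nat_lit 104)))))) (PT.nd (nat_lit 390) (PT.nd (nat_lit 156) (PT.nd (nat_lit 78) (PT.lf (nat_lit 3040) (nat_lit 6) (nat_lit 40) (nat_lit 2) (nat_lit 128) (nat_lit 129) (nat_lit 103)) (PT.lf (nat_lit 2812) (nat_lit 3) (nat_lit 37) (nat_lit 0) (nat_lit 129) (nat_lit 129) (nat_lit 102))) (PT.nd (nat_lit 78) (PT.lf (nat_lit 2584) (nat_lit 6) (nat_lit 34) (nat_lit 0) (nat_lit 130) (nat_lit 129) (nat_lit 101)) (PT.nd (nat_lit 78) (PT.lf (nat_lit 2280) (nat_lit 6) (nat_lit 30) (nat_lit 0) (nat_lit 131) (nat_lit 129) (nat_lit 100)) (PT.lf (nat_lit 2052) (nat_lit 6) (nat_lit 27) (nat_lit 0) (nat_lit 132) (nat_lit 129) (nat_lit 99))))) (PT.nd (nat_lit 34866) (PT.nd (nat_lit 34710) (PT.lf (nat_lit 1824) (nat_lit 6) (nat_lit 24) (nat_lit 0) (nat_lit 133) (nat_lit 129) (nat_lit 98))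 (PT.nd (nat_lit 78) (PT.lf (nat_lit 1672) (nat_lit 6) (nat_lit 22) (nat_lit 5) (nat_lit 97) (nat_lit 130) (nat_lit 133)) (PT.lf (nat_lit 1900) (nat_lit 6) (nat_lit 25) (nat_lit 5) (nat_lit 98) (nat_lit 130) (nat_lit 132)))) (PT.nd (nat_lit 78) (PT.lf (nat_lit 2128) (nat_lit 6) (nat_lit 28) (nat_lit 5) (nat_lit 99) (nat_lit 130) (nat_lit 131)) (PT.nd (nat_lit 78) (PT.lf (nat_lit 2356) (nat_lit 3) (nat_lit 31) (nat_lit 4) (nat_lit 100) (nat_lit 130) (nat_lit 130)) (PT.lf (nat_lit 2584) (nat_lit 6) (nat_lit 34) (nat_lit 4) (nat_lit 101) (nat_lit 130) (nat_lit 129))))))))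
noncomputable def pc13 : PT := (PT.nd (nat_lit 2418) (PT.nd (nat_lit 1638) (PT.nd (nat_lit 390) (PT.nd (nat_lit 156) (PT.nd (nat_lit 78) (PT.lf (nat_lit 2736) (nat_lit 6) (nat_lit 36) (nat_lit 4) (nat_lit 102) (nat_lit 130) (nat_lit 128)) (PT.lf (nat_lit 2964) (nat_lit 6) (nat_lit 39) (nat_lit 4) (nat_lit 103) (nat_lit 130) (nat_lit 127))) (PT.nd (nat_lit 78) (PT.lf (nat_lit 3192) (nat_lit 6) (nat_lit 42) (nat_lit 4) (nat_lit 104) (nat_lit 130) (nat_lit 126)) (PT.nd (nat_lit 78) (PT.lf (nat_lit 3496) (nat_lit 6) (nat_lit 46) (nat_lit 4) (nat_lit 105) (nat_lit 130) (nat_lit 125)) (PT.lf (nat_lit 3724) (nat_lit 6) (nat_lit 49) (nat_lit 4) (nat_lit 106) (nat_lit 130) (nat_lit 124))))) (PT.nd (nat_lit 156) (PT.nd (nat_lit 78) (PT.lf (nat_lit 4028) (nat_lit 6) (nat_lit 53) (nat_lit 4) (nat_lit 107) (nat_lit 130) (nat_lit 123)) (PT.lf (nat_lit 4332) (nat_lit 6) (nat_lit 57) (nat_lit 4) (nat_lit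 108) (nat_lit 130) (nat_lit 122))) (PT.nd (nat_lit 936) (PT.lf (nat_lit 4712) (nat_lit 6) (nat_lit 62) (nat_lit 4) (nat_lit 109) (nat_lit 130) (nat_lit 121)) (PT.nd (nat_lit 78) (PT.lf (nat_lit 4712) (nat_lit 6) (nat_lit 62) (nat_lit 2) (nat_lit 121) (nat_lit 130) (nat_lit 109)) (PT.lf (nat_lit 4332) (nat_lit 6) (nat_lit 57) (nat_lit 2) (nat_lit 122) (nat_lit 130) (nat_lit 108)))))) (PT.nd (nat_lit 390) (PT.nd (nat_lit 156) (PT.nd (nat_lit 78) (PT.lf (nat_lit 4028) (nat_lit 6) (nat_lit 53) (nat_lit 2) (nat_lit 123) (nat_lit 130) (nat_lit 107)) (PT.lf (nat_lit 3724) (nat_lit 6) (nat_lit 49) (nat_lit 2) (nat_lit 124) (nat_lit 130) (nat_lit 106))) (PT.nd (nat_lit 78) (PT.lf (nat_lit 3496) (nat_lit 6) (nat_lit 46) (nat_lit 2) (nat_lit 125) (nat_lit 130) (nat_lit 105)) (PT.nd (nat_lit 78) (PT.lf (nat_lit 3192) (nat_lit 6) (nat_lit 42) (nat_lit 2) (nat_lit 126) (nat_lit 130) (nat_lit 104))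 (PT.lf (nat_lit 2964) (nat_lit 6) (nat_lit 39) (nat_lit 2) (nat_lit 127) (nat_lit 130) (nat_lit 103))))) (PT.nd (nat_lit 156) (PT.nd (nat_lit 78) (PT.lf (nat_lit 2736) (nat_lit 6) (nat_lit 36) (nat_lit 2) (nat_lit 128) (nat_lit 130) (nat_lit 102)) (PT.lf (nat_lit 2584) (nat_lit 6) (nat_lit 34) (nat_lit 2) (nat_lit 129) (nat_lit 130) (nat_lit 101))) (PT.nd (nat_lit 78) (PT.lf (nat_lit 2356) (nat_lit 3) (nat_lit 31) (nat_lit 0) (nat_lit 130) (nat_lit 130) (nat_lit 100)) (PT.nd (nat_lit 78) (PT.lf (nat_lit 2128) (nat_lit 6) (nat_lit 28) (nat_lit 0) (nat_lit 131) (nat_lit 130) (nat_lit 99)) (PT.lf (nat_lit 1900) (nat_lit 6) (nat_lit 25) (nat_lit 0) (nat_lit 132) (nat_lit 130) (nat_lit 98))))))) (PT.nd (nat_lit 35256) (PT.nd (nat_lit 34866) (PT.nd (nat_lit 34632) (PT.nd (nat_lit 34554) (PT.lf (nat_lit 1672) (nat_lit 6) (nat_lit 22) (nat_lit 0) (nat_lit 133) (nat_lit 130) (nat_lit 97)) (PT.lf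 (nat_lit 1368) (nat_lit 6) (nat_lit 18) (nat_lit 5) (nat_lit 95) (nat_lit 131) (nat_lit 134))) (PT.nd (nat_lit 78) (PT.lf (nat_lit 1520) (nat_lit 6) (nat_lit 20) (nat_lit 5) (nat_lit 96) (nat_lit 131) (nat_lit 133)) (PT.nd (nat_lit 78) (PT.lf (nat_lit 1748) (nat_lit 6) (nat_lit 23) (nat_lit 5) (nat_lit 97) (nat_lit 131) (nat_lit 132)) (PT.lf (nat_lit 1976) (nat_lit 3) (nat_lit 26) (nat_lit 4) (nat_lit 98) (nat_lit 131) (nat_lit 131))))) (PT.nd (nat_lit 156) (PT.nd (nat_lit 78) (PT.lf (nat_lit 2128) (nat_lit 6) (nat_lit 28) (nat_lit 4) (nat_lit 99) (nat_lit 131) (nat_lit 130)) (PT.lf (nat_lit 2280) (nat_lit 6) (nat_lit 30) (nat_lit 4) (nat_lit 100) (nat_lit 131) (nat_lit 129))) (PT.nd (nat_lit 78) (PT.lf (nat_lit 2508) (nat_lit 6) (nat_lit 33) (nat_lit 4) (nat_lit 101) (nat_lit 131) (nat_lit 128)) (PT.nd (nat_lit 78) (PT.lf (nat_lit 2660) (nat_lit 6) (nat_lit 35) (nat_lit 4) (nat_lit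 102) (nat_lit 131) (nat_lit 127)) (PT.lf (nat_lit 2888) (nat_lit 6) (nat_lit 38) (nat_lit 4) (nat_lit 103) (nat_lit 131) (nat_lit 126)))))) (PT.nd (nat_lit 1794) (PT.nd (nat_lit 1560) (PT.nd (nat_lit 78) (PT.lf (nat_lit 3116) (nat_lit 6) (nat_lit 41) (nat_lit 4) (nat_lit 104) (nat_lit 131) (nat_lit 125)) (PT.lf (nat_lit 3420) (nat_lit 6) (nat_lit 45) (nat_lit 4) (nat_lit 105) (nat_lit 131) (nat_lit 124))) (PT.nd (nat_lit 78) (PT.lf (nat_lit 3420) (nat_lit 6) (nat_lit 45) (nat_lit 2) (nat_lit 124) (nat_lit 131) (nat_lit 105)) (PT.nd (nat_lit 78) (PT.lf (nat_lit 3116) (nat_lit 6) (nat_lit 41) (nat_lit 2) (nat_lit 125) (nat_lit 131) (nat_lit 104)) (PT.lf (nat_lit 2888) (nat_lit 6) (nat_lit 38) (nat_lit 2) (nat_lit 126) (nat_lit 131) (nat_lit 103))))) (PT.nd (nat_lit 234) (PT.nd (nat_lit 78) (PT.lf (nat_lit 2660) (nat_lit 6) (nat_lit 35) (nat_lit 2) (nat_lit 127) (nat_lit 131) (nat_lit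 102)) (PT.nd (nat_lit 78) (PT.lf (nat_lit 2508) (nat_lit 6) (nat_lit 33) (nat_lit 2) (nat_lit 128) (nat_lit 131) (nat_lit 101)) (PT.lf (nat_lit 2280) (nat_lit 6) (nat_lit 30) (nat_lit 2) (nat_lit 129) (nat_lit 131) (nat_lit 100)))) (PT.nd (nat_lit 78) (PT.lf (nat_lit 2128) (nat_lit 6) (nat_lit 28) (nat_lit 2) (nat_lit 130) (nat_lit 131) (nat_lit 99)) (PT.nd (nat_lit 78) (PT.lf (nat_lit 1976) (nat_lit 3) (nat_lit 26) (nat_lit 0) (nat_lit 131) (nat_lit 131) (nat_lit 98)) (PT.lf (nat_lit 1748) (nat_lit 6) (nat_lit 23) (nat_lit 0) (nat_lit 132) (nat_lit 131) (nat_lit 97))))))))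
noncomputable def pc14 : PT := (PT.nd (nat_lit 71838) (PT.nd (nat_lit 35022) (PT.nd (nat_lit 34632) (PT.nd (nat_lit 34398) (PT.nd (nat_lit 78) (PT.lf (nat_lit 1520) (nat_lit 6) (nat_lit 20) (nat_lit 0) (nat_lit 133) (nat_lit 131) (nat_lit 96)) (PT.lf (nat_lit 1368) (nat_lit 6) (nat_lit 18) (nat_lit 0) (nat_lit 134) (nat_lit 131) (nat_lit 95))) (PT.nd (nat_lit 78) (PT.lf (nat_lit 1064) (nat_lit 6) (nat_lit 14) (nat_lit 5) (nat_lit 93) (nat_lit 132) (nat_lit 135)) (PT.nd (nat_lit 78) (PT.lf (nat_lit 1216) (nat_lit 6) (nat_lit 16) (nat_lit 5) (nat_lit 94) (nat_lit 132) (nat_lit 134)) (PT.lf (nat_lit 1444) (nat_lit 6) (nat_lit 19) (nat_lit 5) (nat_lit 95) (nat_lit 132) (nat_lit 133))))) (PT.nd (nat_lit 156) (PT.nd (nat_lit 78) (PT.lf (nat_lit 1596) (nat_lit 3) (nat_lit 21) (nat_lit 4) (nat_lit 96) (nat_lit 132) (nat_lit 132)) (PT.lf (nat_lit 1748) (nat_lit 6) (nat_lit 23) (nat_lit 4) (nat_lit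 97) (nat_lit 132) (nat_lit 131))) (PT.nd (nat_lit 78) (PT.lf (nat_lit 1900) (nat_lit 6) (nat_lit 25) (nat_lit 4) (nat_lit 98) (nat_lit 132) (nat_lit 130)) (PT.nd (nat_lit 78) (PT.lf (nat_lit 2052) (nat_lit 6) (nat_lit 27) (nat_lit 4) (nat_lit 99) (nat_lit 132) (nat_lit 129)) (PT.lf (nat_lit 2204) (nat_lit 6) (nat_lit 29) (nat_lit 4) (nat_lit 100) (nat_lit 132) (nat_lit 128)))))) (PT.nd (nat_lit 2340) (PT.nd (nat_lit 2106) (PT.nd (nat_lit 2028) (PT.lf (nat_lit 2432) (nat_lit 6) (nat_lit 32) (nat_lit 4) (nat_lit 101) (nat_lit 132) (nat_lit 127)) (PT.lf (nat_lit 2432) (nat_lit 6) (nat_lit 32) (nat_lit 2) (nat_lit 127) (nat_lit 132) (nat_lit 101))) (PT.nd (nat_lit 78) (PT.lf (nat_lit 2204) (nat_lit 6) (nat_lit 29) (nat_lit 2) (nat_lit 128) (nat_lit 132) (nat_lit 100)) (PT.nd (nat_lit 78) (PT.lf (nat_lit 2052) (nat_lit 6) (nat_lit 27) (nat_lit 2) (nat_lit 129) (nat_lit 132) (nat_lit 99))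 (PT.lf (nat_lit 1900) (nat_lit 6) (nat_lit 25) (nat_lit 2) (nat_lit 130) (nat_lit 132) (nat_lit 98))))) (PT.nd (nat_lit 156) (PT.nd (nat_lit 78) (PT.lf (nat_lit 1748) (nat_lit 6) (nat_lit 23) (nat_lit 2) (nat_lit 131) (nat_lit 132) (nat_lit 97)) (PT.lf (nat_lit 1596) (nat_lit 3) (nat_lit 21) (nat_lit 0) (nat_lit 132) (nat_lit 132) (nat_lit 96))) (PT.nd (nat_lit 78) (PT.lf (nat_lit 1444) (nat_lit 6) (nat_lit 19) (nat_lit 0) (nat_lit 133) (nat_lit 132) (nat_lit 95)) (PT.nd (nat_lit 78) (PT.lf (nat_lit 1216) (nat_lit 6) (nat_lit 16) (nat_lit 0) (nat_lit 134) (nat_lit 132) (nat_lit 94)) (PT.lf (nat_lit 1064) (nat_lit 6) (nat_lit 14) (nat_lit 0) (nat_lit 135) (nat_lit 132) (nat_lit 93))))))) (PT.nd (nat_lit 3120) (PT.nd (nat_lit 390) (PT.nd (nat_lit 156) (PT.nd (nat_lit 78) (PT.lf (nat_lit 912) (nat_lit 6) (nat_lit 12) (nat_lit 5) (nat_lit 92) (nat_lit 133) (nat_lit 135)) (PT.lf (nat_lit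 1140) (nat_lit 6) (nat_lit 15) (nat_lit 5) (nat_lit 93) (nat_lit 133) (nat_lit 134))) (PT.nd (nat_lit 78) (PT.lf (nat_lit 1292) (nat_lit 3) (nat_lit 17) (nat_lit 4) (nat_lit 94) (nat_lit 133) (nat_lit 133)) (PT.nd (nat_lit 78) (PT.lf (nat_lit 1444) (nat_lit 6) (nat_lit 19) (nat_lit 4) (nat_lit 95) (nat_lit 133) (nat_lit 132)) (PT.lf (nat_lit 1520) (nat_lit 6) (nat_lit 20) (nat_lit 4) (nat_lit 96) (nat_lit 133) (nat_lit 131))))) (PT.nd (nat_lit 2496) (PT.nd (nat_lit 78) (PT.lf (nat_lit 1672) (nat_lit 6) (nat_lit 22) (nat_lit 4) (nat_lit 97) (nat_lit 133) (nat_lit 130)) (PT.lf (nat_lit 1824) (nat_lit 6) (nat_lit 24) (nat_lit 4) (nat_lit 98) (nat_lit 133) (nat_lit 129))) (PT.nd (nat_lit 78) (PT.lf (nat_lit 1824) (nat_lit 6) (nat_lit 24) (nat_lit 2) (nat_lit 129) (nat_lit 133) (nat_lit 98)) (PT.nd (nat_lit 78) (PT.lf (nat_lit 1672) (nat_lit 6) (nat_lit 22) (nat_lit 2) (nat_lit 130) (nat_lit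 133) (nat_lit 97)) (PT.lf (nat_lit 1520) (nat_lit 6) (nat_lit 20) (nat_lit 2) (nat_lit 131) (nat_lit 133) (nat_lit 96)))))) (PT.nd (nat_lit 34320) (PT.nd (nat_lit 156) (PT.nd (nat_lit 78) (PT.lf (nat_lit 1444) (nat_lit 6) (nat_lit 19) (nat_lit 2) (nat_lit 132) (nat_lit 133) (nat_lit 95)) (PT.lf (nat_lit 1292) (nat_lit 3) (nat_lit 17) (nat_lit 0) (nat_lit 133) (nat_lit 133) (nat_lit 94))) (PT.nd (nat_lit 78) (PT.lf (nat_lit 1140) (nat_lit 6) (nat_lit 15) (nat_lit 0) (nat_lit 134) (nat_lit 133) (nat_lit 93)) (PT.nd (nat_lit 34008) (PT.lf (nat_lit 912) (nat_lit 6) (nat_lit 12) (nat_lit 0) (nat_lit 135) (nat_lit 133) (nat_lit 92)) (PT.lf (nat_lit 684) (nat_lit 6) (nat_lit 9) (nat_lit 5) (nat_lit 90) (nat_lit 134) (nat_lit 136))))) (PT.nd (nat_lit 234) (PT.nd (nat_lit 78) (PT.lf (nat_lit 836) (nat_lit 6) (nat_lit 11) (nat_lit 5) (nat_lit 91) (nat_lit 134) (nat_lit 135)) (PT.nd (nat_lit 78)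 (PT.lf (nat_lit 988) (nat_lit 3) (nat_lit 13) (nat_lit 4) (nat_lit 92) (nat_lit 134) (nat_lit 134)) (PT.lf (nat_lit 1140) (nat_lit 6) (nat_lit 15) (nat_lit 4) (nat_lit 93) (nat_lit 134) (nat_lit 133)))) (PT.nd (nat_lit 78) (PT.lf (nat_lit 1216) (nat_lit 6) (nat_lit 16) (nat_lit 4) (nat_lit 94) (nat_lit 134) (nat_lit 132)) (PT.nd (nat_lit 2808) (PT.lf (nat_lit 1368) (nat_lit 6) (nat_lit 18) (nat_lit 4) (nat_lit 95) (nat_lit 134) (nat_lit 131)) (PT.lf (nat_lit 1368) (nat_lit 6) (nat_lit 18) (nat_lit 2) (nat_lit 131) (nat_lit 134) (nat_lit 95))))))))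
noncomputable def pc15 : PT := (PT.nd (nat_lit 71682) (PT.nd (nat_lit 34476) (PT.nd (nat_lit 34086) (PT.nd (nat_lit 156) (PT.nd (nat_lit 78) (PT.lf (nat_lit 1216) (nat_lit 6) (nat_lit 16) (nat_lit 2) (nat_lit 132) (nat_lit 134) (nat_lit 94)) (PT.lf (nat_lit 1140) (nat_lit 6) (nat_lit 15) (nat_lit 2) (nat_lit 133) (nat_lit 134) (nat_lit 93))) (PT.nd (nat_lit 78) (PT.lf (nat_lit 988) (nat_lit 3) (nat_lit 13) (nat_lit 0) (nat_lit 134) (nat_lit 134) (nat_lit 92)) (PT.nd (nat_lit 78) (PT.lf (nat_lit 836) (nat_lit 6) (nat_lit 11) (nat_lit 0) (nat_lit 135) (nat_lit 134) (nat_lit 91)) (PT.lf (nat_lit 684) (nat_lit 6) (nat_lit 9) (nat_lit 0) (nat_lit 136) (nat_lit 134) (nat_lit 90))))) (PT.nd (nat_lit 156) (PT.nd (nat_lit 78) (PT.lf (nat_lit 456) (nat_lit 6) (nat_lit 6) (nat_lit 5) (nat_lit 88) (nat_lit 135) (nat_lit 137)) (PT.lf (nat_lit 608) (nat_lit 6) (nat_lit 8) (nat_lit 5) (nat_lit 89)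 (nat_lit 135) (nat_lit 136))) (PT.nd (nat_lit 78) (PT.lf (nat_lit 760) (nat_lit 3) (nat_lit 10) (nat_lit 4) (nat_lit 90) (nat_lit 135) (nat_lit 135)) (PT.nd (nat_lit 78) (PT.lf (nat_lit 836) (nat_lit 6) (nat_lit 11) (nat_lit 4) (nat_lit 91) (nat_lit 135) (nat_lit 134)) (PT.lf (nat_lit 912) (nat_lit 6) (nat_lit 12) (nat_lit 4) (nat_lit 92) (nat_lit 135) (nat_lit 133)))))) (PT.nd (nat_lit 3354) (PT.nd (nat_lit 3120) (PT.nd (nat_lit 3042) (PT.lf (nat_lit 1064) (nat_lit 6) (nat_lit 14) (nat_lit 4) (nat_lit 93) (nat_lit 135) (nat_lit 132)) (PT.lf (nat_lit 1064) (nat_lit 6) (nat_lit 14) (nat_lit 2) (nat_lit 132) (nat_lit 135) (nat_lit 93))) (PT.nd (nat_lit 78) (PT.lf (nat_lit 912) (nat_lit 6) (nat_lit 12) (nat_lit 2) (nat_lit 133) (nat_lit 135) (nat_lit 92)) (PT.nd (nat_lit 78) (PT.lf (nat_lit 836) (nat_lit 6) (nat_lit 11) (nat_lit 2) (nat_lit 134) (nat_lit 135) (nat_lit 91)) (PT.lf (nat_lit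 760) (nat_lit 3) (nat_lit 10) (nat_lit 0) (nat_lit 135) (nat_lit 135) (nat_lit 90))))) (PT.nd (nat_lit 33618) (PT.nd (nat_lit 78) (PT.lf (nat_lit 608) (nat_lit 6) (nat_lit 8) (nat_lit 0) (nat_lit 136) (nat_lit 135) (nat_lit 89)) (PT.lf (nat_lit 456) (nat_lit 6) (nat_lit 6) (nat_lit 0) (nat_lit 137) (nat_lit 135) (nat_lit 88))) (PT.nd (nat_lit 78) (PT.lf (nat_lit 228) (nat_lit 6) (nat_lit 3) (nat_lit 5) (nat_lit 86) (nat_lit 136) (nat_lit 138)) (PT.nd (nat_lit 78) (PT.lf (nat_lit 380) (nat_lit 6) (nat_lit 5) (nat_lit 5) (nat_lit 87) (nat_lit 136) (nat_lit 137)) (PT.lf (nat_lit 532) (nat_lit 3) (nat_lit 7) (nat_lit 4) (nat_lit 88) (nat_lit 136) (nat_lit 136))))))) (PT.nd (nat_lit 37440) (PT.nd (nat_lit 3744) (PT.nd (nat_lit 3510) (PT.nd (nat_lit 78) (PT.lf (nat_lit 608) (nat_lit 6) (nat_lit 8) (nat_lit 4) (nat_lit 89) (nat_lit 136) (nat_lit 135)) (PT.lf (nat_lit 684) (nat_lit 6) (nat_lit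 9) (nat_lit 4) (nat_lit 90) (nat_lit 136) (nat_lit 134))) (PT.nd (nat_lit 78) (PT.lf (nat_lit 684) (nat_lit 6) (nat_lit 9) (nat_lit 2) (nat_lit 134) (nat_lit 136) (nat_lit 90)) (PT.nd (nat_lit 78) (PT.lf (nat_lit 608) (nat_lit 6) (nat_lit 8) (nat_lit 2) (nat_lit 135) (nat_lit 136) (nat_lit 89)) (PT.lf (nat_lit 532) (nat_lit 3) (nat_lit 7) (nat_lit 0) (nat_lit 136) (nat_lit 136) (nat_lit 88))))) (PT.nd (nat_lit 33462) (PT.nd (nat_lit 78) (PT.lf (nat_lit 380) (nat_lit 6) (nat_lit 5) (nat_lit 0) (nat_lit 137) (nat_lit 136) (nat_lit 87)) (PT.lf (nat_lit 228) (nat_lit 6) (nat_lit 3) (nat_lit 0) (nat_lit 138) (nat_lit 136) (nat_lit 86))) (PT.nd (nat_lit 78) (PT.lf (nat_lit 152) (nat_lit 6) (nat_lit 2) (nat_lit 5) (nat_lit 85) (nat_lit 137) (nat_lit 138)) (PT.nd (nat_lit 78) (PT.lf (nat_lit 304) (nat_lit 3) (nat_lit 4) (nat_lit 4) (nat_lit 86) (nat_lit 137) (nat_lit 137)) (PT.lf (nat_lit 380)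 (nat_lit 6) (nat_lit 5) (nat_lit 4) (nat_lit 87) (nat_lit 137) (nat_lit 136)))))) (PT.nd (nat_lit 37206) (PT.nd (nat_lit 3744) (PT.nd (nat_lit 3666) (PT.lf (nat_lit 456) (nat_lit 6) (nat_lit 6) (nat_lit 4) (nat_lit 88) (nat_lit 137) (nat_lit 135)) (PT.lf (nat_lit 456) (nat_lit 6) (nat_lit 6) (nat_lit 2) (nat_lit 135) (nat_lit 137) (nat_lit 88))) (PT.nd (nat_lit 78) (PT.lf (nat_lit 380) (nat_lit 6) (nat_lit 5) (nat_lit 2) (nat_lit 136) (nat_lit 137) (nat_lit 87)) (PT.nd (nat_lit 78) (PT.lf (nat_lit 304) (nat_lit 3) (nat_lit 4) (nat_lit 0) (nat_lit 137) (nat_lit 137) (nat_lit 86)) (PT.lf (nat_lit 152) (nat_lit 6) (nat_lit 2) (nat_lit 0) (nat_lit 138) (nat_lit 137) (nat_lit 85))))) (PT.nd (nat_lit 4056) (PT.nd (nat_lit 78) (PT.lf (nat_lit 76) (nat_lit 3) (nat_lit 1) (nat_lit 4) (nat_lit 84) (nat_lit 138) (nat_lit 138)) (PT.nd (nat_lit 78) (PT.lf (nat_lit 152) (nat_lit 6) (nat_lit 2) (nat_lit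 4) (nat_lit 85) (nat_lit 138) (nat_lit 137)) (PT.lf (nat_lit 228) (nat_lit 6) (nat_lit 3) (nat_lit 4) (nat_lit 86) (nat_lit 138) (nat_lit 136)))) (PT.nd (nat_lit 78) (PT.lf (nat_lit 228) (nat_lit 6) (nat_lit 3) (nat_lit 2) (nat_lit 136) (nat_lit 138) (nat_lit 86)) (PT.nd (nat_lit 78) (PT.lf (nat_lit 152) (nat_lit 6) (nat_lit 2) (nat_lit 2) (nat_lit 137) (nat_lit 138) (nat_lit 85)) (PT.lf (nat_lit 76) (nat_lit 3) (nat_lit 1) (nat_lit 0) (nat_lit 138) (nat_lit 138) (nat_lit 84))))))))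
noncomputable def xc0 : XT := (XT.nd (nat_lit 112476) (nat_lit 0) (nat_lit 0) (XT.nd (nat_lit 74880) (nat_lit 0) (nat_lit 0) (XT.nd (nat_lit 37518) (nat_lit 0) (nat_lit 0) (XT.nd (nat_lit 37362) (nat_lit 0) (nat_lit 0) (XT.nd (nat_lit 37284) (nat_lit 0) (nat_lit 0) (XT.lf (nat_lit 0) (nat_lit 88761640203) (nat_lit 76) (nat_lit 248694677804) (nat_lit 76) (nat_lit 248636832620) (nat_lit 1) (nat_lit 4) (nat_lit 2) (nat_lit 5) (nat_lit 2) (nat_lit 4) (nat_lit 365) (nat_lit 178) (nat_lit 177)) (XT.lf (nat_lit 0) (nat_lit 36050725843) (nat_lit 76) (nat_lit 108578420603) (nat_lit 76) (nat_lit 108578420603) (nat_lit 1) (nat_lit 4) (nat_lit 2) (nat_lit 5) (nat_lit 2) (nat_lit 4) (nat_lit 362) (nat_lit 179) (nat_lit 179))) (XT.nd (nat_lit 78) (nat_lit 0) (nat_lit 0) (XT.lf (nat_lit 0) (nat_lit 77421320484) (nat_lit 76) (nat_lit 227164067166) (nat_lit 76) (nat_lit 227103329723) (nat_lit 1) (nat_lit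 4) (nat_lit 2) (nat_lit 5) (nat_lit 2) (nat_lit 4) (nat_lit 363) (nat_lit 179) (nat_lit 178)) (XT.lf (nat_lit 0) (nat_lit 82953183761) (nat_lit 76) (nat_lit 237696432083) (nat_lit 76) (nat_lit 237577849457) (nat_lit 1) (nat_lit 4) (nat_lit 2) (nat_lit 5) (nat_lit 2) (nat_lit 4) (nat_lit 364) (nat_lit 179) (nat_lit 177)))) (XT.nd (nat_lit 37206) (nat_lit 0) (nat_lit 0) (XT.nd (nat_lit 37128) (nat_lit 0) (nat_lit 0) (XT.lf (nat_lit 0) (nat_lit 88710212623) (nat_lit 76) (nat_lit 248779013018) (nat_lit 76) (nat_lit 248605339740) (nat_lit 1) (nat_lit 4) (nat_lit 2) (nat_lit 5) (nat_lit 2) (nat_lit 4) (nat_lit 365) (nat_lit 179) (nat_lit 176)) (XT.lf (nat_lit 0) (nat_lit 31038273806) (nat_lit 76) (nat_lit 99337070808) (nat_lit 76) (nat_lit 99337070808) (nat_lit 1) (nat_lit 4) (nat_lit 2) (nat_lit 5) (nat_lit 2) (nat_lit 4) (nat_lit 360) (nat_lit 180) (nat_lit 180))) (XT.nd (nat_lit 78) (nat_lit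 0) (nat_lit 0) (XT.lf (nat_lit 0) (nat_lit 66980911016) (nat_lit 76) (nat_lit 207714701791) (nat_lit 76) (nat_lit 207650927476) (nat_lit 1) (nat_lit 4) (nat_lit 2) (nat_lit 5) (nat_lit 2) (nat_lit 4) (nat_lit 361) (nat_lit 180) (nat_lit 179)) (XT.lf (nat_lit 0) (nat_lit 72073793683) (nat_lit 76) (nat_lit 217233306518) (nat_lit 76) (nat_lit 217108794760) (nat_lit 1) (nat_lit 4) (nat_lit 2) (nat_lit 5) (nat_lit 2) (nat_lit 4) (nat_lit 362) (nat_lit 180) (nat_lit 178))))) (XT.nd (nat_lit 37206) (nat_lit 0) (nat_lit 0) (XT.nd (nat_lit 156) (nat_lit 0) (nat_lit 0) (XT.nd (nat_lit 78) (nat_lit 0) (nat_lit 0) (XT.lf (nat_lit 0) (nat_lit 77367321524) (nat_lit 76) (nat_lit 227252619141) (nat_lit 76) (nat_lit 227070262199) (nat_lit 1) (nat_lit 4) (nat_lit 2) (nat_lit 5) (nat_lit 2) (nat_lit 4) (nat_lit 363) (nat_lit 180) (nat_lit 177)) (XT.lf (nat_lit 0) (nat_lit 82874098178) (nat_lit 76) (nat_lit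 237796495166) (nat_lit 76) (nat_lit 237559047573) (nat_lit 1) (nat_lit 4) (nat_lit 2) (nat_lit 5) (nat_lit 2) (nat_lit 4) (nat_lit 364) (nat_lit 180) (nat_lit 176))) (XT.nd (nat_lit 36972) (nat_lit 0) (nat_lit 0) (XT.lf (nat_lit 0) (nat_lit 88607235016) (nat_lit 76) (nat_lit 248890039061) (nat_lit 76) (nat_lit 248600124181) (nat_lit 1) (nat_lit 4) (nat_lit 2) (nat_lit 5) (nat_lit 2) (nat_lit 4) (nat_lit 365) (nat_lit 180) (nat_lit 175)) (XT.lf (nat_lit 0) (nat_lit 26408792186) (nat_lit 76) (nat_lit 90997556253) (nat_lit 76) (nat_lit 90997556253) (nat_lit 1) (nat_lit 4) (nat_lit 2) (nat_lit 5) (nat_lit 2) (nat_lit 4) (nat_lit 358) (nat_lit 181) (nat_lit 181)))) (XT.nd (nat_lit 156) (nat_lit 0) (nat_lit 0) (XT.nd (nat_lit 78) (nat_lit 0) (nat_lit 0) (XT.lf (nat_lit 0) (nat_lit 57349026415) (nat_lit 76) (nat_lit 190157063881) (nat_lit 76) (nat_lit 190090100850) (nat_lit 1) (nat_lit 4)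 (nat_lit 2) (nat_lit 5) (nat_lit 2) (nat_lit 4) (nat_lit 359) (nat_lit 181) (nat_lit 180)) (XT.lf (nat_lit 0) (nat_lit 62047506708) (nat_lit 76) (nat_lit 198754430194) (nat_lit 76) (nat_lit 198623692847) (nat_lit 1) (nat_lit 4) (nat_lit 2) (nat_lit 5) (nat_lit 2) (nat_lit 4) (nat_lit 360) (nat_lit 181) (nat_lit 179))) (XT.nd (nat_lit 78) (nat_lit 0) (nat_lit 0) (XT.lf (nat_lit 0) (nat_lit 66924212109) (nat_lit 76) (nat_lit 207807681365) (nat_lit 76) (nat_lit 207616206576) (nat_lit 1) (nat_lit 4) (nat_lit 2) (nat_lit 5) (nat_lit 2) (nat_lit 4) (nat_lit 361) (nat_lit 181) (nat_lit 178)) (XT.nd (nat_lit 78) (nat_lit 0) (nat_lit 0) (XT.lf (nat_lit 0) (nat_lit 71990753820) (nat_lit 76) (nat_lit 217338372755) (nat_lit 76) (nat_lit 217089052782) (nat_lit 1) (nat_lit 4) (nat_lit 2) (nat_lit 5) (nat_lit 2) (nat_lit 4) (nat_lit 362) (nat_lit 181) (nat_lit 177)) (XT.lf (nat_lit 0) (nat_lit 77259195037)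 (nat_lit 76) (nat_lit 227369196486) (nat_lit 76) (nat_lit 227064785862) (nat_lit 1) (nat_lit 4) (nat_lit 2) (nat_lit 5) (nat_lit 2) (nat_lit 4) (nat_lit 363) (nat_lit 181) (nat_lit 176))))))) (XT.nd (nat_lit 37440) (nat_lit 0) (nat_lit 0) (XT.nd (nat_lit 37050) (nat_lit 0) (nat_lit 0) (XT.nd (nat_lit 36894) (nat_lit 0) (nat_lit 0) (XT.nd (nat_lit 78) (nat_lit 0) (nat_lit 0) (XT.lf (nat_lit 0) (nat_lit 82742079668) (nat_lit 76) (nat_lit 237924035472) (nat_lit 76) (nat_lit 237567157560) (nat_lit 1) (nat_lit 4) (nat_lit 2) (nat_lit 5) (nat_lit 2) (nat_lit 4) (nat_lit 364) (nat_lit 181) (nat_lit 175)) (XT.lf (nat_lit 0) (nat_lit 88452462198) (nat_lit 76) (nat_lit 249028020281) (nat_lit 76) (nat_lit 248621173525) (nat_lit 1) (nat_lit 4) (nat_lit 2) (nat_lit 5) (nat_lit 2) (nat_lit 4) (nat_lit 365) (nat_lit 181) (nat_lit 174))) (XT.nd (nat_lit 78) (nat_lit 0) (nat_lit 0) (XT.lf (nat_lit 0)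 (nat_lit 22122524031) (nat_lit 76) (nat_lit 83478165952) (nat_lit 76) (nat_lit 83478165952) (nat_lit 1) (nat_lit 4) (nat_lit 2) (nat_lit 5) (nat_lit 2) (nat_lit 4) (nat_lit 356) (nat_lit 182) (nat_lit 182)) (XT.lf (nat_lit 0) (nat_lit 48442391431) (nat_lit 76) (nat_lit 174319454036) (nat_lit 76) (nat_lit 174249142853) (nat_lit 1) (nat_lit 4) (nat_lit 2) (nat_lit 5) (nat_lit 2) (nat_lit 4) (nat_lit 357) (nat_lit 182) (nat_lit 181)))) (XT.nd (nat_lit 156) (nat_lit 0) (nat_lit 0) (XT.nd (nat_lit 78) (nat_lit 0) (nat_lit 0) (XT.lf (nat_lit 0) (nat_lit 52787091423) (nat_lit 76) (nat_lit 182079415512) (nat_lit 76) (nat_lit 181942141299) (nat_lit 1) (nat_lit 4) (nat_lit 2) (nat_lit 5) (nat_lit 2) (nat_lit 4) (nat_lit 358) (nat_lit 182) (nat_lit 180)) (XT.lf (nat_lit 0) (nat_lit 57289492563) (nat_lit 76) (nat_lit 190254692433) (nat_lit 76) (nat_lit 190053643904) (nat_lit 1) (nat_lit 4) (nat_lit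 2) (nat_lit 5) (nat_lit 2) (nat_lit 4) (nat_lit 359) (nat_lit 182) (nat_lit 179))) (XT.nd (nat_lit 78) (nat_lit 0) (nat_lit 0) (XT.lf (nat_lit 0) (nat_lit 61960314852) (nat_lit 76) (nat_lit 198864749743) (nat_lit 76) (nat_lit 198602963771) (nat_lit 1) (nat_lit 4) (nat_lit 2) (nat_lit 5) (nat_lit 2) (nat_lit 4) (nat_lit 360) (nat_lit 182) (nat_lit 178)) (XT.nd (nat_lit 78) (nat_lit 0) (nat_lit 0) (XT.lf (nat_lit 0) (nat_lit 66810679297) (nat_lit 76) (nat_lit 207930087578) (nat_lit 76) (nat_lit 207610456422) (nat_lit 1) (nat_lit 4) (nat_lit 2) (nat_lit 5) (nat_lit 2) (nat_lit 4) (nat_lit 361) (nat_lit 182) (nat_lit 177)) (XT.lf (nat_lit 0) (nat_lit 71852134384) (nat_lit 76) (nat_lit 217472290076) (nat_lit 76) (nat_lit 217097568269) (nat_lit 1) (nat_lit 4) (nat_lit 2) (nat_lit 5) (nat_lit 2) (nat_lit 4) (nat_lit 362) (nat_lit 182) (nat_lit 176)))))) (XT.nd (nat_lit 36894) (nat_lit 0) (nat_lit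 0) (XT.nd (nat_lit 156) (nat_lit 0) (nat_lit 0) (XT.nd (nat_lit 78) (nat_lit 0) (nat_lit 0) (XT.lf (nat_lit 0) (nat_lit 77096683578) (nat_lit 76) (nat_lit 227514076767) (nat_lit 76) (nat_lit 227086887673) (nat_lit 1) (nat_lit 4) (nat_lit 2) (nat_lit 5) (nat_lit 2) (nat_lit 4) (nat_lit 363) (nat_lit 182) (nat_lit 175)) (XT.lf (nat_lit 0) (nat_lit 82556813900) (nat_lit 76) (nat_lit 238079356666) (nat_lit 76) (nat_lit 237602198728) (nat_lit 1) (nat_lit 4) (nat_lit 2) (nat_lit 5) (nat_lit 2) (nat_lit 4) (nat_lit 364) (nat_lit 182) (nat_lit 174))) (XT.nd (nat_lit 36660) (nat_lit 0) (nat_lit 0) (XT.lf (nat_lit 0) (nat_lit 88245525662) (nat_lit 76) (nat_lit 249193285203) (nat_lit 76) (nat_lit 248668537889) (nat_lit 1) (nat_lit 4) (nat_lit 2) (nat_lit 5) (nat_lit 2) (nat_lit 4) (nat_lit 365) (nat_lit 182) (nat_lit 173)) (XT.lf (nat_lit 0) (nat_lit 18143201013) (nat_lit 76) (nat_lit 76704892287)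 (nat_lit 76) (nat_lit 76704892287) (nat_lit 1) (nat_lit 4) (nat_lit 2) (nat_lit 5) (nat_lit 2) (nat_lit 4) (nat_lit 354) (nat_lit 183) (nat_lit 183)))) (XT.nd (nat_lit 156) (nat_lit 0) (nat_lit 0) (XT.nd (nat_lit 78) (nat_lit 0) (nat_lit 0) (XT.lf (nat_lit 0) (nat_lit 40185067642) (nat_lit 76) (nat_lit 160046344616) (nat_lit 76) (nat_lit 159972517874) (nat_lit 1) (nat_lit 4) (nat_lit 2) (nat_lit 5) (nat_lit 2) (nat_lit 4) (nat_lit 355) (nat_lit 183) (nat_lit 182)) (XT.lf (nat_lit 0) (nat_lit 44213030466) (nat_lit 76) (nat_lit 167044850061) (nat_lit 76) (nat_lit 166900712136) (nat_lit 1) (nat_lit 4) (nat_lit 2) (nat_lit 5) (nat_lit 2) (nat_lit 4) (nat_lit 356) (nat_lit 183) (nat_lit 181))) (XT.nd (nat_lit 78) (nat_lit 0) (nat_lit 0) (XT.lf (nat_lit 0) (nat_lit 48379880886) (nat_lit 76) (nat_lit 174421964016) (nat_lit 76) (nat_lit 174210863061) (nat_lit 1) (nat_lit 4) (nat_lit 2) (nat_lit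 5) (nat_lit 2) (nat_lit 4) (nat_lit 357) (nat_lit 183) (nat_lit 180)) (XT.nd (nat_lit 78) (nat_lit 0) (nat_lit 0) (XT.lf (nat_lit 0) (nat_lit 52695539975) (nat_lit 76) (nat_lit 182195251039) (nat_lit 76) (nat_lit 181920375769) (nat_lit 1) (nat_lit 4) (nat_lit 2) (nat_lit 5) (nat_lit 2) (nat_lit 4) (nat_lit 358) (nat_lit 183) (nat_lit 179)) (XT.lf (nat_lit 0) (nat_lit 57170283111) (nat_lit 76) (nat_lit 190383218956) (nat_lit 76) (nat_lit 190047606243) (nat_lit 1) (nat_lit 4) (nat_lit 2) (nat_lit 5) (nat_lit 2) (nat_lit 4) (nat_lit 359) (nat_lit 183) (nat_lit 178))))))))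
noncomputable def xc1 : XT := (XT.nd (nat_lit 37752) (nat_lit 0) (nat_lit 0) (XT.nd (nat_lit 37050) (nat_lit 0) (nat_lit 0) (XT.nd (nat_lit 312) (nat_lit 0) (nat_lit 0) (XT.nd (nat_lit 156) (nat_lit 0) (nat_lit 0) (XT.nd (nat_lit 78) (nat_lit 0) (nat_lit 0) (XT.lf (nat_lit 0) (nat_lit 61814764445) (nat_lit 76) (nat_lit 199005362929) (nat_lit 76) (nat_lit 198611905032) (nat_lit 1) (nat_lit 4) (nat_lit 2) (nat_lit 5) (nat_lit 2) (nat_lit 4) (nat_lit 360) (nat_lit 183) (nat_lit 177)) (XT.lf (nat_lit 0) (nat_lit 66640042265) (nat_lit 76) (nat_lit 208082211872) (nat_lit 76) (nat_lit 207633663324) (nat_lit 1) (nat_lit 4) (nat_lit 2) (nat_lit 5) (nat_lit 2) (nat_lit 4) (nat_lit 361) (nat_lit 183) (nat_lit 176))) (XT.nd (nat_lit 78) (nat_lit 0) (nat_lit 0) (XT.lf (nat_lit 0) (nat_lit 71657605329) (nat_lit 76) (nat_lit 217635377330) (nat_lit 76) (nat_lit 217134361495) (nat_lit 1) (nat_lit 4)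 (nat_lit 2) (nat_lit 5) (nat_lit 2) (nat_lit 4) (nat_lit 362) (nat_lit 183) (nat_lit 175)) (XT.lf (nat_lit 0) (nat_lit 76879400215) (nat_lit 76) (nat_lit 227687604935) (nat_lit 76) (nat_lit 227136620255) (nat_lit 1) (nat_lit 4) (nat_lit 2) (nat_lit 5) (nat_lit 2) (nat_lit 4) (nat_lit 363) (nat_lit 183) (nat_lit 174)))) (XT.nd (nat_lit 36582) (nat_lit 0) (nat_lit 0) (XT.nd (nat_lit 78) (nat_lit 0) (nat_lit 0) (XT.lf (nat_lit 0) (nat_lit 82317859768) (nat_lit 76) (nat_lit 238262828563) (nat_lit 76) (nat_lit 237664254507) (nat_lit 1) (nat_lit 4) (nat_lit 2) (nat_lit 5) (nat_lit 2) (nat_lit 4) (nat_lit 364) (nat_lit 183) (nat_lit 173)) (XT.lf (nat_lit 0) (nat_lit 87985932701) (nat_lit 76) (nat_lit 249386227317) (nat_lit 76) (nat_lit 248742330046) (nat_lit 1) (nat_lit 4) (nat_lit 2) (nat_lit 5) (nat_lit 2) (nat_lit 4) (nat_lit 365) (nat_lit 183) (nat_lit 172))) (XT.nd (nat_lit 78) (nat_lit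 0) (nat_lit 0) (XT.lf (nat_lit 0) (nat_lit 14437708711) (nat_lit 76) (nat_lit 70610720155) (nat_lit 76) (nat_lit 70610720155) (nat_lit 1) (nat_lit 4) (nat_lit 2) (nat_lit 5) (nat_lit 2) (nat_lit 4) (nat_lit 352) (nat_lit 184) (nat_lit 184)) (XT.lf (nat_lit 0) (nat_lit 32507751082) (nat_lit 76) (nat_lit 147196886680) (nat_lit 76) (nat_lit 147119368601) (nat_lit 1) (nat_lit 4) (nat_lit 2) (nat_lit 5) (nat_lit 2) (nat_lit 4) (nat_lit 353) (nat_lit 184) (nat_lit 183))))) (XT.nd (nat_lit 312) (nat_lit 0) (nat_lit 0) (XT.nd (nat_lit 156) (nat_lit 0) (nat_lit 0) (XT.nd (nat_lit 78) (nat_lit 0) (nat_lit 0) (XT.lf (nat_lit 0) (nat_lit 36252783550) (nat_lit 76) (nat_lit 153502728638) (nat_lit 76) (nat_lit 153351383818) (nat_lit 1) (nat_lit 4) (nat_lit 2) (nat_lit 5) (nat_lit 2) (nat_lit 4) (nat_lit 354) (nat_lit 184) (nat_lit 182)) (XT.lf (nat_lit 0) (nat_lit 40119431570) (nat_lit 76) (nat_lit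 160153980095) (nat_lit 76) (nat_lit 159932324092) (nat_lit 1) (nat_lit 4) (nat_lit 2) (nat_lit 5) (nat_lit 2) (nat_lit 4) (nat_lit 355) (nat_lit 184) (nat_lit 181))) (XT.nd (nat_lit 78) (nat_lit 0) (nat_lit 0) (XT.lf (nat_lit 0) (nat_lit 44116901445) (nat_lit 76) (nat_lit 167166477363) (nat_lit 76) (nat_lit 166877858330) (nat_lit 1) (nat_lit 4) (nat_lit 2) (nat_lit 5) (nat_lit 2) (nat_lit 4) (nat_lit 356) (nat_lit 184) (nat_lit 180)) (XT.lf (nat_lit 0) (nat_lit 48254710961) (nat_lit 76) (nat_lit 174556916865) (nat_lit 76) (nat_lit 174204523516) (nat_lit 1) (nat_lit 4) (nat_lit 2) (nat_lit 5) (nat_lit 2) (nat_lit 4) (nat_lit 357) (nat_lit 184) (nat_lit 179)))) (XT.nd (nat_lit 156) (nat_lit 0) (nat_lit 0) (XT.nd (nat_lit 78) (nat_lit 0) (nat_lit 0) (XT.lf (nat_lit 0) (nat_lit 52542712047) (nat_lit 76) (nat_lit 182342894885) (nat_lit 76) (nat_lit 181929764093) (nat_lit 1) (nat_lit 4) (nat_lit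 2) (nat_lit 5) (nat_lit 2) (nat_lit 4) (nat_lit 358) (nat_lit 184) (nat_lit 178)) (XT.lf (nat_lit 0) (nat_lit 56991114227) (nat_lit 76) (nat_lit 190542949465) (nat_lit 76) (nat_lit 190071973489) (nat_lit 1) (nat_lit 4) (nat_lit 2) (nat_lit 5) (nat_lit 2) (nat_lit 4) (nat_lit 359) (nat_lit 184) (nat_lit 177))) (XT.nd (nat_lit 78) (nat_lit 0) (nat_lit 0) (XT.lf (nat_lit 0) (nat_lit 61610508937) (nat_lit 76) (nat_lit 199176604546) (nat_lit 76) (nat_lit 198650537919) (nat_lit 1) (nat_lit 4) (nat_lit 2) (nat_lit 5) (nat_lit 2) (nat_lit 4) (nat_lit 360) (nat_lit 184) (nat_lit 176)) (XT.nd (nat_lit 78) (nat_lit 0) (nat_lit 0) (XT.lf (nat_lit 0) (nat_lit 66411894734) (nat_lit 76) (nat_lit 208264416449) (nat_lit 76) (nat_lit 207685882535) (nat_lit 1) (nat_lit 4) (nat_lit 2) (nat_lit 5) (nat_lit 2) (nat_lit 4) (nat_lit 361) (nat_lit 184) (nat_lit 175)) (XT.lf (nat_lit 0) (nat_lit 71406703490)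 (nat_lit 76) (nat_lit 217828022821) (nat_lit 76) (nat_lit 217199520063) (nat_lit 1) (nat_lit 4) (nat_lit 2) (nat_lit 5) (nat_lit 2) (nat_lit 4) (nat_lit 362) (nat_lit 184) (nat_lit 174))))))) (XT.nd (nat_lit 36972) (nat_lit 0) (nat_lit 0) (XT.nd (nat_lit 36582) (nat_lit 0) (nat_lit 0) (XT.nd (nat_lit 156) (nat_lit 0) (nat_lit 0) (XT.nd (nat_lit 78) (nat_lit 0) (nat_lit 0) (XT.lf (nat_lit 0) (nat_lit 76606827606) (nat_lit 76) (nat_lit 227890194155) (nat_lit 76) (nat_lit 227214102020) (nat_lit 1) (nat_lit 4) (nat_lit 2) (nat_lit 5) (nat_lit 2) (nat_lit 4) (nat_lit 363) (nat_lit 184) (nat_lit 173)) (XT.lf (nat_lit 0) (nat_lit 82024648331) (nat_lit 76) (nat_lit 238474887999) (nat_lit 76) (nat_lit 237753472649) (nat_lit 1) (nat_lit 4) (nat_lit 2) (nat_lit 5) (nat_lit 2) (nat_lit 4) (nat_lit 364) (nat_lit 184) (nat_lit 172))) (XT.nd (nat_lit 36348) (nat_lit 0) (nat_lit 0) (XT.lf (nat_lit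 0) (nat_lit 87673065238) (nat_lit 76) (nat_lit 249607306007) (nat_lit 76) (nat_lit 248842725691) (nat_lit 1) (nat_lit 4) (nat_lit 2) (nat_lit 5) (nat_lit 2) (nat_lit 4) (nat_lit 365) (nat_lit 184) (nat_lit 171)) (XT.lf (nat_lit 0) (nat_lit 10975782488) (nat_lit 76) (nat_lit 65134982470) (nat_lit 76) (nat_lit 65134982470) (nat_lit 1) (nat_lit 4) (nat_lit 2) (nat_lit 5) (nat_lit 2) (nat_lit 4) (nat_lit 350) (nat_lit 185) (nat_lit 185)))) (XT.nd (nat_lit 156) (nat_lit 0) (nat_lit 0) (XT.nd (nat_lit 78) (nat_lit 0) (nat_lit 0) (XT.lf (nat_lit 0) (nat_lit 25347134154) (nat_lit 76) (nat_lit 135643556260) (nat_lit 76) (nat_lit 135562162277) (nat_lit 1) (nat_lit 4) (nat_lit 2) (nat_lit 5) (nat_lit 2) (nat_lit 4) (nat_lit 351) (nat_lit 185) (nat_lit 184)) (XT.lf (nat_lit 0) (nat_lit 28840118022) (nat_lit 76) (nat_lit 141319031578) (nat_lit 76) (nat_lit 141160119517) (nat_lit 1) (nat_lit 4) (nat_lit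 2) (nat_lit 5) (nat_lit 2) (nat_lit 4) (nat_lit 352) (nat_lit 185) (nat_lit 183))) (XT.nd (nat_lit 78) (nat_lit 0) (nat_lit 0) (XT.lf (nat_lit 0) (nat_lit 32438833207) (nat_lit 76) (nat_lit 147309903933) (nat_lit 76) (nat_lit 147077165130) (nat_lit 1) (nat_lit 4) (nat_lit 2) (nat_lit 5) (nat_lit 2) (nat_lit 4) (nat_lit 353) (nat_lit 185) (nat_lit 182)) (XT.nd (nat_lit 78) (nat_lit 0) (nat_lit 0) (XT.lf (nat_lit 0) (nat_lit 36151848078) (nat_lit 76) (nat_lit 153630437306) (nat_lit 76) (nat_lit 153327387321) (nat_lit 1) (nat_lit 4) (nat_lit 2) (nat_lit 5) (nat_lit 2) (nat_lit 4) (nat_lit 354) (nat_lit 185) (nat_lit 181)) (XT.lf (nat_lit 0) (nat_lit 39988003149) (nat_lit 76) (nat_lit 160295680587) (nat_lit 76) (nat_lit 159925667571) (nat_lit 1) (nat_lit 4) (nat_lit 2) (nat_lit 5) (nat_lit 2) (nat_lit 4) (nat_lit 355) (nat_lit 185) (nat_lit 180)))))) (XT.nd (nat_lit 312) (nat_lit 0) (nat_lit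 0) (XT.nd (nat_lit 156) (nat_lit 0) (nat_lit 0) (XT.nd (nat_lit 78) (nat_lit 0) (nat_lit 0) (XT.lf (nat_lit 0) (nat_lit 43956432120) (nat_lit 76) (nat_lit 167321503402) (nat_lit 76) (nat_lit 166887716070) (nat_lit 1) (nat_lit 4) (nat_lit 2) (nat_lit 5) (nat_lit 2) (nat_lit 4) (nat_lit 356) (nat_lit 185) (nat_lit 179)) (XT.lf (nat_lit 0) (nat_lit 48066583633) (nat_lit 76) (nat_lit 174724633900) (nat_lit 76) (nat_lit 174230109125) (nat_lit 1) (nat_lit 4) (nat_lit 2) (nat_lit 5) (nat_lit 2) (nat_lit 4) (nat_lit 357) (nat_lit 185) (nat_lit 178))) (XT.nd (nat_lit 78) (nat_lit 0) (nat_lit 0) (XT.lf (nat_lit 0) (nat_lit 52328243763) (nat_lit 76) (nat_lit 182522698583) (nat_lit 76) (nat_lit 181970328624) (nat_lit 1) (nat_lit 4) (nat_lit 2) (nat_lit 5) (nat_lit 2) (nat_lit 4) (nat_lit 358) (nat_lit 185) (nat_lit 177)) (XT.lf (nat_lit 0) (nat_lit 56751559319) (nat_lit 76) (nat_lit 190734264271)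 (nat_lit 76) (nat_lit 190126803662) (nat_lit 1) (nat_lit 4) (nat_lit 2) (nat_lit 5) (nat_lit 2) (nat_lit 4) (nat_lit 359) (nat_lit 185) (nat_lit 176)))) (XT.nd (nat_lit 156) (nat_lit 0) (nat_lit 0) (XT.nd (nat_lit 78) (nat_lit 0) (nat_lit 0) (XT.lf (nat_lit 0) (nat_lit 61347062005) (nat_lit 76) (nat_lit 199378882312) (nat_lit 76) (nat_lit 198718954416) (nat_lit 1) (nat_lit 4) (nat_lit 2) (nat_lit 5) (nat_lit 2) (nat_lit 4) (nat_lit 360) (nat_lit 185) (nat_lit 175)) (XT.lf (nat_lit 0) (nat_lit 66125693495) (nat_lit 76) (nat_lit 208477135129) (nat_lit 76) (nat_lit 207767238388) (nat_lit 1) (nat_lit 4) (nat_lit 2) (nat_lit 5) (nat_lit 2) (nat_lit 4) (nat_lit 361) (nat_lit 185) (nat_lit 174))) (XT.nd (nat_lit 78) (nat_lit 0) (nat_lit 0) (XT.lf (nat_lit 0) (nat_lit 71098831481) (nat_lit 76) (nat_lit 218050685230) (nat_lit 76) (nat_lit 217293199112) (nat_lit 1) (nat_lit 4) (nat_lit 2) (nat_lit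 5) (nat_lit 2) (nat_lit 4) (nat_lit 362) (nat_lit 185) (nat_lit 173)) (XT.nd (nat_lit 78) (nat_lit 0) (nat_lit 0) (XT.lf (nat_lit 0) (nat_lit 76278316770) (nat_lit 76) (nat_lit 228122326780) (nat_lit 76) (nat_lit 227319517447) (nat_lit 1) (nat_lit 4) (nat_lit 2) (nat_lit 5) (nat_lit 2) (nat_lit 4) (nat_lit 363) (nat_lit 185) (nat_lit 172)) (XT.lf (nat_lit 0) (nat_lit 81676481468) (nat_lit 76) (nat_lit 238716039879) (nat_lit 76) (nat_lit 237870065579) (nat_lit 1) (nat_lit 4) (nat_lit 2) (nat_lit 5) (nat_lit 2) (nat_lit 4) (nat_lit 364) (nat_lit 185) (nat_lit 171))))))))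
noncomputable def xc2 : XT := (XT.nd (nat_lit 37440) (nat_lit 0) (nat_lit 0) (XT.nd (nat_lit 36738) (nat_lit 0) (nat_lit 0) (XT.nd (nat_lit 36426) (nat_lit 0) (nat_lit 0) (XT.nd (nat_lit 36270) (nat_lit 0) (nat_lit 0) (XT.nd (nat_lit 36192) (nat_lit 0) (nat_lit 0) (XT.lf (nat_lit 0) (nat_lit 87306178349) (nat_lit 76) (nat_lit 249857047653) (nat_lit 76) (nat_lit 248969963861) (nat_lit 1) (nat_lit 4) (nat_lit 2) (nat_lit 5) (nat_lit 2) (nat_lit 4) (nat_lit 365) (nat_lit 185) (nat_lit 170)) (XT.lf (nat_lit 0) (nat_lit 7729731106) (nat_lit 76) (nat_lit 60222775863) (nat_lit 76) (nat_lit 60222775863) (nat_lit 1) (nat_lit 4) (nat_lit 2) (nat_lit 5) (nat_lit 2) (nat_lit 4) (nat_lit 348) (nat_lit 186) (nat_lit 186))) (XT.nd (nat_lit 78) (nat_lit 0) (nat_lit 0) (XT.lf (nat_lit 0) (nat_lit 18645325799) (nat_lit 76) (nat_lit 125270927039) (nat_lit 76) (nat_lit 125185463357) (nat_lit 1) (nat_lit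 4) (nat_lit 2) (nat_lit 5) (nat_lit 2) (nat_lit 4) (nat_lit 349) (nat_lit 186) (nat_lit 185)) (XT.lf (nat_lit 0) (nat_lit 21914500606) (nat_lit 76) (nat_lit 130372435772) (nat_lit 76) (nat_lit 130205578107) (nat_lit 1) (nat_lit 4) (nat_lit 2) (nat_lit 5) (nat_lit 2) (nat_lit 4) (nat_lit 350) (nat_lit 186) (nat_lit 184)))) (XT.nd (nat_lit 156) (nat_lit 0) (nat_lit 0) (XT.nd (nat_lit 78) (nat_lit 0) (nat_lit 0) (XT.lf (nat_lit 0) (nat_lit 25274770385) (nat_lit 76) (nat_lit 135762224375) (nat_lit 76) (nat_lit 135517848632) (nat_lit 1) (nat_lit 4) (nat_lit 2) (nat_lit 5) (nat_lit 2) (nat_lit 4) (nat_lit 351) (nat_lit 186) (nat_lit 183)) (XT.lf (nat_lit 0) (nat_lit 28734135776) (nat_lit 76) (nat_lit 141453125680) (nat_lit 76) (nat_lit 141134923195) (nat_lit 1) (nat_lit 4) (nat_lit 2) (nat_lit 5) (nat_lit 2) (nat_lit 4) (nat_lit 352) (nat_lit 186) (nat_lit 182))) (XT.nd (nat_lit 78) (nat_lit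 0) (nat_lit 0) (XT.lf (nat_lit 0) (nat_lit 32300833365) (nat_lit 76) (nat_lit 147458689449) (nat_lit 76) (nat_lit 147070175782) (nat_lit 1) (nat_lit 4) (nat_lit 2) (nat_lit 5) (nat_lit 2) (nat_lit 4) (nat_lit 353) (nat_lit 186) (nat_lit 181)) (XT.lf (nat_lit 0) (nat_lit 35983355288) (nat_lit 76) (nat_lit 153793214646) (nat_lit 76) (nat_lit 153337737948) (nat_lit 1) (nat_lit 4) (nat_lit 2) (nat_lit 5) (nat_lit 2) (nat_lit 4) (nat_lit 354) (nat_lit 186) (nat_lit 180))))) (XT.nd (nat_lit 312) (nat_lit 0) (nat_lit 0) (XT.nd (nat_lit 156) (nat_lit 0) (nat_lit 0) (XT.nd (nat_lit 78) (nat_lit 0) (nat_lit 0) (XT.lf (nat_lit 0) (nat_lit 39790469455) (nat_lit 76) (nat_lit 160471783473) (nat_lit 76) (nat_lit 159952532460) (nat_lit 1) (nat_lit 4) (nat_lit 2) (nat_lit 5) (nat_lit 2) (nat_lit 4) (nat_lit 355) (nat_lit 186) (nat_lit 179)) (XT.lf (nat_lit 0) (nat_lit 43731240423) (nat_lit 76) (nat_lit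 167510297284) (nat_lit 76) (nat_lit 166930308828) (nat_lit 1) (nat_lit 4) (nat_lit 2) (nat_lit 5) (nat_lit 2) (nat_lit 4) (nat_lit 356) (nat_lit 186) (nat_lit 178))) (XT.nd (nat_lit 78) (nat_lit 0) (nat_lit 0) (XT.lf (nat_lit 0) (nat_lit 47815050980) (nat_lit 76) (nat_lit 174925514446) (nat_lit 76) (nat_lit 174287680806) (nat_lit 1) (nat_lit 4) (nat_lit 2) (nat_lit 5) (nat_lit 2) (nat_lit 4) (nat_lit 357) (nat_lit 186) (nat_lit 177)) (XT.lf (nat_lit 0) (nat_lit 52051624485) (nat_lit 76) (nat_lit 182735090237) (nat_lit 76) (nat_lit 182042165945) (nat_lit 1) (nat_lit 4) (nat_lit 2) (nat_lit 5) (nat_lit 2) (nat_lit 4) (nat_lit 358) (nat_lit 186) (nat_lit 176)))) (XT.nd (nat_lit 156) (nat_lit 0) (nat_lit 0) (XT.nd (nat_lit 78) (nat_lit 0) (nat_lit 0) (XT.lf (nat_lit 0) (nat_lit 56451048018) (nat_lit 76) (nat_lit 190957618885) (nat_lit 76) (nat_lit 190212227307) (nat_lit 1) (nat_lit 4) (nat_lit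 2) (nat_lit 5) (nat_lit 2) (nat_lit 4) (nat_lit 359) (nat_lit 186) (nat_lit 175)) (XT.lf (nat_lit 0) (nat_lit 61023796396) (nat_lit 76) (nat_lit 199612677841) (nat_lit 76) (nat_lit 198817317418) (nat_lit 1) (nat_lit 4) (nat_lit 2) (nat_lit 5) (nat_lit 2) (nat_lit 4) (nat_lit 360) (nat_lit 186) (nat_lit 174))) (XT.nd (nat_lit 78) (nat_lit 0) (nat_lit 0) (XT.lf (nat_lit 0) (nat_lit 65780757116) (nat_lit 76) (nat_lit 208720874386) (nat_lit 76) (nat_lit 207877924587) (nat_lit 1) (nat_lit 4) (nat_lit 2) (nat_lit 5) (nat_lit 2) (nat_lit 4) (nat_lit 361) (nat_lit 186) (nat_lit 173)) (XT.nd (nat_lit 78) (nat_lit 0) (nat_lit 0) (XT.lf (nat_lit 0) (nat_lit 70733256275) (nat_lit 76) (nat_lit 218303894703) (nat_lit 76) (nat_lit 217415621689) (nat_lit 1) (nat_lit 4) (nat_lit 2) (nat_lit 5) (nat_lit 2) (nat_lit 4) (nat_lit 362) (nat_lit 186) (nat_lit 172)) (XT.lf (nat_lit 0) (nat_lit 75893085537)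 (nat_lit 76) (nat_lit 228384555507) (nat_lit 76) (nat_lit 227453117526) (nat_lit 1) (nat_lit 4) (nat_lit 2) (nat_lit 5) (nat_lit 2) (nat_lit 4) (nat_lit 363) (nat_lit 186) (nat_lit 171))))))) (XT.nd (nat_lit 36660) (nat_lit 0) (nat_lit 0) (XT.nd (nat_lit 36270) (nat_lit 0) (nat_lit 0) (XT.nd (nat_lit 36114) (nat_lit 0) (nat_lit 0) (XT.nd (nat_lit 78) (nat_lit 0) (nat_lit 0) (XT.lf (nat_lit 0) (nat_lit 81272530210) (nat_lit 76) (nat_lit 238986858372) (nat_lit 76) (nat_lit 238014310899) (nat_lit 1) (nat_lit 4) (nat_lit 2) (nat_lit 5) (nat_lit 2) (nat_lit 4) (nat_lit 364) (nat_lit 186) (nat_lit 170)) (XT.lf (nat_lit 0) (nat_lit 86884398495) (nat_lit 76) (nat_lit 250136046876) (nat_lit 76) (nat_lit 249124347505) (nat_lit 1) (nat_lit 4) (nat_lit 2) (nat_lit 5) (nat_lit 2) (nat_lit 4) (nat_lit 365) (nat_lit 186) (nat_lit 169))) (XT.nd (nat_lit 78) (nat_lit 0) (nat_lit 0) (XT.lf (nat_lit 0)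 (nat_lit 4674185456) (nat_lit 76) (nat_lit 55824431001) (nat_lit 76) (nat_lit 55824431001) (nat_lit 1) (nat_lit 4) (nat_lit 2) (nat_lit 5) (nat_lit 2) (nat_lit 4) (nat_lit 346) (nat_lit 187) (nat_lit 187)) (XT.lf (nat_lit 0) (nat_lit 12349324458) (nat_lit 76) (nat_lit 115974557714) (nat_lit 76) (nat_lit 115884820848) (nat_lit 1) (nat_lit 4) (nat_lit 2) (nat_lit 5) (nat_lit 2) (nat_lit 4) (nat_lit 347) (nat_lit 187) (nat_lit 186)))) (XT.nd (nat_lit 156) (nat_lit 0) (nat_lit 0) (XT.nd (nat_lit 78) (nat_lit 0) (nat_lit 0) (XT.lf (nat_lit 0) (nat_lit 15420544624) (nat_lit 76) (nat_lit 120553146100) (nat_lit 76) (nat_lit 120377945552) (nat_lit 1) (nat_lit 4) (nat_lit 2) (nat_lit 5) (nat_lit 2) (nat_lit 4) (nat_lit 348) (nat_lit 187) (nat_lit 185)) (XT.lf (nat_lit 0) (nat_lit 18569343841) (nat_lit 76) (nat_lit 125395528561) (nat_lit 76) (nat_lit 125138934030) (nat_lit 1) (nat_lit 4) (nat_lit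 2) (nat_lit 5) (nat_lit 2) (nat_lit 4) (nat_lit 349) (nat_lit 187) (nat_lit 184))) (XT.nd (nat_lit 78) (nat_lit 0) (nat_lit 0) (XT.lf (nat_lit 0) (nat_lit 21803219248) (nat_lit 76) (nat_lit 130513234578) (nat_lit 76) (nat_lit 130179121969) (nat_lit 1) (nat_lit 4) (nat_lit 2) (nat_lit 5) (nat_lit 2) (nat_lit 4) (nat_lit 350) (nat_lit 187) (nat_lit 183)) (XT.nd (nat_lit 78) (nat_lit 0) (nat_lit 0) (XT.lf (nat_lit 0) (nat_lit 25129870551) (nat_lit 76) (nat_lit 135918449167) (nat_lit 76) (nat_lit 135510509817) (nat_lit 1) (nat_lit 4) (nat_lit 2) (nat_lit 5) (nat_lit 2) (nat_lit 4) (nat_lit 351) (nat_lit 187) (nat_lit 182)) (XT.lf (nat_lit 0) (nat_lit 28557218346) (nat_lit 76) (nat_lit 141624041887) (nat_lit 76) (nat_lit 141145791353) (nat_lit 1) (nat_lit 4) (nat_lit 2) (nat_lit 5) (nat_lit 2) (nat_lit 4) (nat_lit 352) (nat_lit 187) (nat_lit 181)))))) (XT.nd (nat_lit 312) (nat_lit 0) (nat_lit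 0) (XT.nd (nat_lit 156) (nat_lit 0) (nat_lit 0) (XT.nd (nat_lit 78) (nat_lit 0) (nat_lit 0) (XT.lf (nat_lit 0) (nat_lit 32093422986) (nat_lit 76) (nat_lit 147643597480) (nat_lit 76) (nat_lit 147098383916) (nat_lit 1) (nat_lit 4) (nat_lit 2) (nat_lit 5) (nat_lit 2) (nat_lit 4) (nat_lit 353) (nat_lit 187) (nat_lit 180)) (XT.lf (nat_lit 0) (nat_lit 35746904005) (nat_lit 76) (nat_lit 153991448223) (nat_lit 76) (nat_lit 153382460344) (nat_lit 1) (nat_lit 4) (nat_lit 2) (nat_lit 5) (nat_lit 2) (nat_lit 4) (nat_lit 354) (nat_lit 187) (nat_lit 179))) (XT.nd (nat_lit 78) (nat_lit 0) (nat_lit 0) (XT.lf (nat_lit 0) (nat_lit 39526360168) (nat_lit 76) (nat_lit 160682708047) (nat_lit 76) (nat_lit 160012982725) (nat_lit 1) (nat_lit 4) (nat_lit 2) (nat_lit 5) (nat_lit 2) (nat_lit 4) (nat_lit 355) (nat_lit 187) (nat_lit 178)) (XT.lf (nat_lit 0) (nat_lit 43440790181) (nat_lit 76) (nat_lit 167733308521)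 (nat_lit 76) (nat_lit 167005738015) (nat_lit 1) (nat_lit 4) (nat_lit 2) (nat_lit 5) (nat_lit 2) (nat_lit 4) (nat_lit 356) (nat_lit 187) (nat_lit 177)))) (XT.nd (nat_lit 156) (nat_lit 0) (nat_lit 0) (XT.nd (nat_lit 78) (nat_lit 0) (nat_lit 0) (XT.lf (nat_lit 0) (nat_lit 47499514114) (nat_lit 76) (nat_lit 175160036791) (nat_lit 76) (nat_lit 174377375634) (nat_lit 1) (nat_lit 4) (nat_lit 2) (nat_lit 5) (nat_lit 2) (nat_lit 4) (nat_lit 357) (nat_lit 187) (nat_lit 176)) (XT.lf (nat_lit 0) (nat_lit 51712195596) (nat_lit 76) (nat_lit 182980575542) (nat_lit 76) (nat_lit 182145447098) (nat_lit 1) (nat_lit 4) (nat_lit 2) (nat_lit 5) (nat_lit 2) (nat_lit 4) (nat_lit 358) (nat_lit 187) (nat_lit 175))) (XT.nd (nat_lit 78) (nat_lit 0) (nat_lit 0) (XT.lf (nat_lit 0) (nat_lit 56088864821) (nat_lit 76) (nat_lit 191213545105) (nat_lit 76) (nat_lit 190328447816) (nat_lit 1) (nat_lit 4) (nat_lit 2) (nat_lit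 5) (nat_lit 2) (nat_lit 4) (nat_lit 359) (nat_lit 187) (nat_lit 174)) (XT.nd (nat_lit 78) (nat_lit 0) (nat_lit 0) (XT.lf (nat_lit 0) (nat_lit 60639942430) (nat_lit 76) (nat_lit 199878547788) (nat_lit 76) (nat_lit 198945861123) (nat_lit 1) (nat_lit 4) (nat_lit 2) (nat_lit 5) (nat_lit 2) (nat_lit 4) (nat_lit 360) (nat_lit 187) (nat_lit 173)) (XT.lf (nat_lit 0) (nat_lit 65376264322) (nat_lit 76) (nat_lit 208996214550) (nat_lit 76) (nat_lit 208018204670) (nat_lit 1) (nat_lit 4) (nat_lit 2) (nat_lit 5) (nat_lit 2) (nat_lit 4) (nat_lit 361) (nat_lit 187) (nat_lit 172))))))))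
noncomputable def xc3 : XT := (XT.nd (nat_lit 37128) (nat_lit 0) (nat_lit 0) (XT.nd (nat_lit 36426) (nat_lit 0) (nat_lit 0) (XT.nd (nat_lit 36114) (nat_lit 0) (nat_lit 0) (XT.nd (nat_lit 156) (nat_lit 0) (nat_lit 0) (XT.nd (nat_lit 78) (nat_lit 0) (nat_lit 0) (XT.lf (nat_lit 0) (nat_lit 70309107454) (nat_lit 76) (nat_lit 218588254121) (nat_lit 76) (nat_lit 217567079274) (nat_lit 1) (nat_lit 4) (nat_lit 2) (nat_lit 5) (nat_lit 2) (nat_lit 4) (nat_lit 362) (nat_lit 187) (nat_lit 171)) (XT.lf (nat_lit 0) (nat_lit 75450216690) (nat_lit 76) (nat_lit 228677504692) (nat_lit 76) (nat_lit 227615220353) (nat_lit 1) (nat_lit 4) (nat_lit 2) (nat_lit 5) (nat_lit 2) (nat_lit 4) (nat_lit 363) (nat_lit 187) (nat_lit 170))) (XT.nd (nat_lit 78) (nat_lit 0) (nat_lit 0) (XT.lf (nat_lit 0) (nat_lit 80811832767) (nat_lit 76) (nat_lit 239287988286) (nat_lit 76) (nat_lit 238186552050) (nat_lit 1) (nat_lit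 4) (nat_lit 2) (nat_lit 5) (nat_lit 2) (nat_lit 4) (nat_lit 364) (nat_lit 187) (nat_lit 169)) (XT.lf (nat_lit 0) (nat_lit 86406721438) (nat_lit 76) (nat_lit 250444967961) (nat_lit 76) (nat_lit 249306244203) (nat_lit 1) (nat_lit 4) (nat_lit 2) (nat_lit 5) (nat_lit 2) (nat_lit 4) (nat_lit 365) (nat_lit 187) (nat_lit 168)))) (XT.nd (nat_lit 156) (nat_lit 0) (nat_lit 0) (XT.nd (nat_lit 78) (nat_lit 0) (nat_lit 0) (XT.lf (nat_lit 0) (nat_lit 1785870053) (nat_lit 76) (nat_lit 51895032455) (nat_lit 76) (nat_lit 51895032455) (nat_lit 1) (nat_lit 4) (nat_lit 2) (nat_lit 5) (nat_lit 2) (nat_lit 4) (nat_lit 344) (nat_lit 188) (nat_lit 188)) (XT.lf (nat_lit 0) (nat_lit 6410538861) (nat_lit 76) (nat_lit 107659983399) (nat_lit 76) (nat_lit 107565759690) (nat_lit 1) (nat_lit 4) (nat_lit 2) (nat_lit 5) (nat_lit 2) (nat_lit 4) (nat_lit 345) (nat_lit 188) (nat_lit 187))) (XT.nd (nat_lit 78) (nat_lit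 0) (nat_lit 0) (XT.lf (nat_lit 0) (nat_lit 9307507445) (nat_lit 76) (nat_lit 111761836094) (nat_lit 76) (nat_lit 111577875519) (nat_lit 1) (nat_lit 4) (nat_lit 2) (nat_lit 5) (nat_lit 2) (nat_lit 4) (nat_lit 346) (nat_lit 188) (nat_lit 186)) (XT.lf (nat_lit 0) (nat_lit 12269543402) (nat_lit 76) (nat_lit 116105389312) (nat_lit 76) (nat_lit 115835965055) (nat_lit 1) (nat_lit 4) (nat_lit 2) (nat_lit 5) (nat_lit 2) (nat_lit 4) (nat_lit 347) (nat_lit 188) (nat_lit 185))))) (XT.nd (nat_lit 312) (nat_lit 0) (nat_lit 0) (XT.nd (nat_lit 156) (nat_lit 0) (nat_lit 0) (XT.nd (nat_lit 78) (nat_lit 0) (nat_lit 0) (XT.lf (nat_lit 0) (nat_lit 15303699198) (nat_lit 76) (nat_lit 120700984847) (nat_lit 76) (nat_lit 120350166607) (nat_lit 1) (nat_lit 4) (nat_lit 2) (nat_lit 5) (nat_lit 2) (nat_lit 4) (nat_lit 348) (nat_lit 188) (nat_lit 184)) (XT.lf (nat_lit 0) (nat_lit 18417199015) (nat_lit 76) (nat_lit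 125559564592) (nat_lit 76) (nat_lit 125131228274) (nat_lit 1) (nat_lit 4) (nat_lit 2) (nat_lit 5) (nat_lit 2) (nat_lit 4) (nat_lit 349) (nat_lit 188) (nat_lit 183))) (XT.nd (nat_lit 78) (nat_lit 0) (nat_lit 0) (XT.lf (nat_lit 0) (nat_lit 21617455947) (nat_lit 76) (nat_lit 130692696596) (nat_lit 76) (nat_lit 130190533536) (nat_lit 1) (nat_lit 4) (nat_lit 2) (nat_lit 5) (nat_lit 2) (nat_lit 4) (nat_lit 350) (nat_lit 188) (nat_lit 182)) (XT.lf (nat_lit 0) (nat_lit 24912089653) (nat_lit 76) (nat_lit 136112602600) (nat_lit 76) (nat_lit 135540128357) (nat_lit 1) (nat_lit 4) (nat_lit 2) (nat_lit 5) (nat_lit 2) (nat_lit 4) (nat_lit 351) (nat_lit 188) (nat_lit 181)))) (XT.nd (nat_lit 156) (nat_lit 0) (nat_lit 0) (XT.nd (nat_lit 78) (nat_lit 0) (nat_lit 0) (XT.lf (nat_lit 0) (nat_lit 28308944499) (nat_lit 76) (nat_lit 141832187142) (nat_lit 76) (nat_lit 141192749869) (nat_lit 1) (nat_lit 4) (nat_lit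 2) (nat_lit 5) (nat_lit 2) (nat_lit 4) (nat_lit 352) (nat_lit 188) (nat_lit 180)) (XT.lf (nat_lit 0) (nat_lit 31816108235) (nat_lit 76) (nat_lit 147865068282) (nat_lit 76) (nat_lit 147161856694) (nat_lit 1) (nat_lit 4) (nat_lit 2) (nat_lit 5) (nat_lit 2) (nat_lit 4) (nat_lit 353) (nat_lit 188) (nat_lit 179))) (XT.nd (nat_lit 78) (nat_lit 0) (nat_lit 0) (XT.lf (nat_lit 0) (nat_lit 35441931251) (nat_lit 76) (nat_lit 154225610022) (nat_lit 76) (nat_lit 153461660991) (nat_lit 1) (nat_lit 4) (nat_lit 2) (nat_lit 5) (nat_lit 2) (nat_lit 4) (nat_lit 354) (nat_lit 188) (nat_lit 178)) (XT.nd (nat_lit 78) (nat_lit 0) (nat_lit 0) (XT.lf (nat_lit 0) (nat_lit 39195046459) (nat_lit 76) (nat_lit 160928956509) (nat_lit 76) (nat_lit 160107162294) (nat_lit 1) (nat_lit 4) (nat_lit 2) (nat_lit 5) (nat_lit 2) (nat_lit 4) (nat_lit 355) (nat_lit 188) (nat_lit 177)) (XT.lf (nat_lit 0) (nat_lit 43084389847)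 (nat_lit 76) (nat_lit 167991068091) (nat_lit 76) (nat_lit 167114183225) (nat_lit 1) (nat_lit 4) (nat_lit 2) (nat_lit 5) (nat_lit 2) (nat_lit 4) (nat_lit 356) (nat_lit 188) (nat_lit 176))))))) (XT.nd (nat_lit 36348) (nat_lit 0) (nat_lit 0) (XT.nd (nat_lit 312) (nat_lit 0) (nat_lit 0) (XT.nd (nat_lit 156) (nat_lit 0) (nat_lit 0) (XT.nd (nat_lit 78) (nat_lit 0) (nat_lit 0) (XT.lf (nat_lit 0) (nat_lit 47119221757) (nat_lit 76) (nat_lit 175428759321) (nat_lit 76) (nat_lit 174499407168) (nat_lit 1) (nat_lit 4) (nat_lit 2) (nat_lit 5) (nat_lit 2) (nat_lit 4) (nat_lit 357) (nat_lit 188) (nat_lit 175)) (XT.lf (nat_lit 0) (nat_lit 51309148931) (nat_lit 76) (nat_lit 183259738986) (nat_lit 76) (nat_lit 182280417988) (nat_lit 1) (nat_lit 4) (nat_lit 2) (nat_lit 5) (nat_lit 2) (nat_lit 4) (nat_lit 358) (nat_lit 188) (nat_lit 174))) (XT.nd (nat_lit 78) (nat_lit 0) (nat_lit 0) (XT.lf (nat_lit 0) (nat_lit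 55664147386) (nat_lit 76) (nat_lit 191502652277) (nat_lit 76) (nat_lit 190475741903) (nat_lit 1) (nat_lit 4) (nat_lit 2) (nat_lit 5) (nat_lit 2) (nat_lit 4) (nat_lit 359) (nat_lit 188) (nat_lit 173)) (XT.lf (nat_lit 0) (nat_lit 60194586167) (nat_lit 76) (nat_lit 200177125177) (nat_lit 76) (nat_lit 199104891588) (nat_lit 1) (nat_lit 4) (nat_lit 2) (nat_lit 5) (nat_lit 2) (nat_lit 4) (nat_lit 360) (nat_lit 188) (nat_lit 172)))) (XT.nd (nat_lit 156) (nat_lit 0) (nat_lit 0) (XT.nd (nat_lit 78) (nat_lit 0) (nat_lit 0) (XT.lf (nat_lit 0) (nat_lit 64911252033) (nat_lit 76) (nat_lit 209303811193) (nat_lit 76) (nat_lit 208188412637) (nat_lit 1) (nat_lit 4) (nat_lit 2) (nat_lit 5) (nat_lit 2) (nat_lit 4) (nat_lit 361) (nat_lit 188) (nat_lit 171)) (XT.lf (nat_lit 0) (nat_lit 69825375139) (nat_lit 76) (nat_lit 218904440531) (nat_lit 76) (nat_lit 217747932483) (nat_lit 1) (nat_lit 4) (nat_lit 2)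 (nat_lit 5) (nat_lit 2) (nat_lit 4) (nat_lit 362) (nat_lit 188) (nat_lit 170))) (XT.nd (nat_lit 78) (nat_lit 0) (nat_lit 0) (XT.lf (nat_lit 0) (nat_lit 74948655780) (nat_lit 76) (nat_lit 229001871831) (nat_lit 76) (nat_lit 227806211885) (nat_lit 1) (nat_lit 4) (nat_lit 2) (nat_lit 5) (nat_lit 2) (nat_lit 4) (nat_lit 363) (nat_lit 188) (nat_lit 169)) (XT.nd (nat_lit 78) (nat_lit 0) (nat_lit 0) (XT.lf (nat_lit 0) (nat_lit 80293292242) (nat_lit 76) (nat_lit 239620146596) (nat_lit 76) (nat_lit 238387199129) (nat_lit 1) (nat_lit 4) (nat_lit 2) (nat_lit 5) (nat_lit 2) (nat_lit 4) (nat_lit 364) (nat_lit 188) (nat_lit 168)) (XT.lf (nat_lit 0) (nat_lit 85872009851) (nat_lit 76) (nat_lit 250784546434) (nat_lit 76) (nat_lit 249516087042) (nat_lit 1) (nat_lit 4) (nat_lit 2) (nat_lit 5) (nat_lit 2) (nat_lit 4) (nat_lit 365) (nat_lit 188) (nat_lit 167)))))) (XT.nd (nat_lit 312) (nat_lit 0) (nat_lit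 0) (XT.nd (nat_lit 156) (nat_lit 0) (nat_lit 0) (XT.nd (nat_lit 78) (nat_lit 76) (nat_lit 0) (XT.lf (nat_lit 0) (nat_lit 47452313963) (nat_lit 152) (nat_lit 925987527) (nat_lit 0) (nat_lit 47452313963) (nat_lit 2) (nat_lit 5) (nat_lit 4) (nat_lit 4) (nat_lit 2) (nat_lit 4) (nat_lit 342) (nat_lit 189) (nat_lit 189)) (XT.lf (nat_lit 0) (nat_lit 784352136) (nat_lit 76) (nat_lit 100241801434) (nat_lit 76) (nat_lit 100142866540) (nat_lit 1) (nat_lit 4) (nat_lit 2) (nat_lit 5) (nat_lit 2) (nat_lit 4) (nat_lit 343) (nat_lit 189) (nat_lit 188))) (XT.nd (nat_lit 78) (nat_lit 0) (nat_lit 0) (XT.lf (nat_lit 0) (nat_lit 3528833465) (nat_lit 76) (nat_lit 103908687707) (nat_lit 76) (nat_lit 103715529103) (nat_lit 1) (nat_lit 4) (nat_lit 2) (nat_lit 5) (nat_lit 2) (nat_lit 4) (nat_lit 344) (nat_lit 189) (nat_lit 187)) (XT.lf (nat_lit 0) (nat_lit 6326768752) (nat_lit 76) (nat_lit 107797356576) (nat_lit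 76) (nat_lit 107514461107) (nat_lit 1) (nat_lit 4) (nat_lit 2) (nat_lit 5) (nat_lit 2) (nat_lit 4) (nat_lit 345) (nat_lit 189) (nat_lit 186)))) (XT.nd (nat_lit 156) (nat_lit 0) (nat_lit 0) (XT.nd (nat_lit 78) (nat_lit 0) (nat_lit 0) (XT.lf (nat_lit 0) (nat_lit 9184819748) (nat_lit 76) (nat_lit 111917066778) (nat_lit 76) (nat_lit 111548707627) (nat_lit 1) (nat_lit 4) (nat_lit 2) (nat_lit 5) (nat_lit 2) (nat_lit 4) (nat_lit 346) (nat_lit 189) (nat_lit 185)) (XT.lf (nat_lit 0) (nat_lit 12109791335) (nat_lit 76) (nat_lit 116277627145) (nat_lit 76) (nat_lit 115827874011) (nat_lit 1) (nat_lit 4) (nat_lit 2) (nat_lit 5) (nat_lit 2) (nat_lit 4) (nat_lit 347) (nat_lit 189) (nat_lit 184))) (XT.nd (nat_lit 78) (nat_lit 0) (nat_lit 0) (XT.lf (nat_lit 0) (nat_lit 15108647732) (nat_lit 76) (nat_lit 120889419965) (nat_lit 76) (nat_lit 120362148752) (nat_lit 1) (nat_lit 4) (nat_lit 2) (nat_lit 5) (nat_lit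 2) (nat_lit 4) (nat_lit 348) (nat_lit 189) (nat_lit 183)) (XT.nd (nat_lit 78) (nat_lit 0) (nat_lit 0) (XT.lf (nat_lit 0) (nat_lit 18188529072) (nat_lit 76) (nat_lit 125763425696) (nat_lit 76) (nat_lit 125162327742) (nat_lit 1) (nat_lit 4) (nat_lit 2) (nat_lit 5) (nat_lit 2) (nat_lit 4) (nat_lit 349) (nat_lit 189) (nat_lit 182)) (XT.lf (nat_lit 0) (nat_lit 21356768408) (nat_lit 76) (nat_lit 130911249114) (nat_lit 76) (nat_lit 130239839978) (nat_lit 1) (nat_lit 4) (nat_lit 2) (nat_lit 5) (nat_lit 2) (nat_lit 4) (nat_lit 350) (nat_lit 189) (nat_lit 181))))))))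
noncomputable def xc4 : XT := (XT.nd (nat_lit 36816) (nat_lit 0) (nat_lit 0) (XT.nd (nat_lit 624) (nat_lit 0) (nat_lit 0) (XT.nd (nat_lit 312) (nat_lit 0) (nat_lit 0) (XT.nd (nat_lit 156) (nat_lit 0) (nat_lit 0) (XT.nd (nat_lit 78) (nat_lit 0) (nat_lit 0) (XT.lf (nat_lit 0) (nat_lit 24620909165) (nat_lit 76) (nat_lit 136345146942) (nat_lit 76) (nat_lit 135606774774) (nat_lit 1) (nat_lit 4) (nat_lit 2) (nat_lit 5) (nat_lit 2) (nat_lit 4) (nat_lit 351) (nat_lit 189) (nat_lit 180)) (XT.lf (nat_lit 0) (nat_lit 27988723108) (nat_lit 76) (nat_lit 142078057031) (nat_lit 76) (nat_lit 141275910548) (nat_lit 1) (nat_lit 4) (nat_lit 2) (nat_lit 5) (nat_lit 2) (nat_lit 4) (nat_lit 352) (nat_lit 189) (nat_lit 179))) (XT.nd (nat_lit 78) (nat_lit 0) (nat_lit 0) (XT.lf (nat_lit 0) (nat_lit 31468228840) (nat_lit 76) (nat_lit 148123629168) (nat_lit 76) (nat_lit 147260745242) (nat_lit 1) (nat_lit 4) (nat_lit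 2) (nat_lit 5) (nat_lit 2) (nat_lit 4) (nat_lit 353) (nat_lit 189) (nat_lit 178)) (XT.lf (nat_lit 0) (nat_lit 35067710901) (nat_lit 76) (nat_lit 154496257571) (nat_lit 76) (nat_lit 153575528461) (nat_lit 1) (nat_lit 4) (nat_lit 2) (nat_lit 5) (nat_lit 2) (nat_lit 4) (nat_lit 354) (nat_lit 189) (nat_lit 177)))) (XT.nd (nat_lit 156) (nat_lit 0) (nat_lit 0) (XT.nd (nat_lit 78) (nat_lit 0) (nat_lit 0) (XT.lf (nat_lit 0) (nat_lit 38795739484) (nat_lit 76) (nat_lit 161211115166) (nat_lit 76) (nat_lit 160235295405) (nat_lit 1) (nat_lit 4) (nat_lit 2) (nat_lit 5) (nat_lit 2) (nat_lit 4) (nat_lit 355) (nat_lit 189) (nat_lit 176)) (XT.lf (nat_lit 0) (nat_lit 42661190849) (nat_lit 76) (nat_lit 168284189708) (nat_lit 76) (nat_lit 167255902660) (nat_lit 1) (nat_lit 4) (nat_lit 2) (nat_lit 5) (nat_lit 2) (nat_lit 4) (nat_lit 356) (nat_lit 189) (nat_lit 175))) (XT.nd (nat_lit 78) (nat_lit 0) (nat_lit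 0) (XT.lf (nat_lit 0) (nat_lit 46673268451) (nat_lit 76) (nat_lit 175732321852) (nat_lit 76) (nat_lit 174654065959) (nat_lit 1) (nat_lit 4) (nat_lit 2) (nat_lit 5) (nat_lit 2) (nat_lit 4) (nat_lit 357) (nat_lit 189) (nat_lit 174)) (XT.lf (nat_lit 0) (nat_lit 50841524855) (nat_lit 76) (nat_lit 183573245245) (nat_lit 76) (nat_lit 182447399976) (nat_lit 1) (nat_lit 4) (nat_lit 2) (nat_lit 5) (nat_lit 2) (nat_lit 4) (nat_lit 358) (nat_lit 189) (nat_lit 173))))) (XT.nd (nat_lit 312) (nat_lit 0) (nat_lit 0) (XT.nd (nat_lit 156) (nat_lit 0) (nat_lit 0) (XT.nd (nat_lit 78) (nat_lit 0) (nat_lit 0) (XT.lf (nat_lit 0) (nat_lit 55175884483) (nat_lit 76) (nat_lit 191825628753) (nat_lit 76) (nat_lit 190654460269) (nat_lit 1) (nat_lit 4) (nat_lit 2) (nat_lit 5) (nat_lit 2) (nat_lit 4) (nat_lit 359) (nat_lit 189) (nat_lit 172)) (XT.lf (nat_lit 0) (nat_lit 59686667237) (nat_lit 76) (nat_lit 200509120907)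 (nat_lit 76) (nat_lit 199294787456) (nat_lit 1) (nat_lit 4) (nat_lit 2) (nat_lit 5) (nat_lit 2) (nat_lit 4) (nat_lit 360) (nat_lit 189) (nat_lit 171))) (XT.nd (nat_lit 78) (nat_lit 0) (nat_lit 0) (XT.lf (nat_lit 0) (nat_lit 64384613077) (nat_lit 76) (nat_lit 209644396689) (nat_lit 76) (nat_lit 208388953747) (nat_lit 1) (nat_lit 4) (nat_lit 2) (nat_lit 5) (nat_lit 2) (nat_lit 4) (nat_lit 361) (nat_lit 189) (nat_lit 170)) (XT.lf (nat_lit 0) (nat_lit 69280907588) (nat_lit 76) (nat_lit 219253206756) (nat_lit 76) (nat_lit 217958611916) (nat_lit 1) (nat_lit 4) (nat_lit 2) (nat_lit 5) (nat_lit 2) (nat_lit 4) (nat_lit 362) (nat_lit 189) (nat_lit 169)))) (XT.nd (nat_lit 156) (nat_lit 0) (nat_lit 0) (XT.nd (nat_lit 78) (nat_lit 0) (nat_lit 0) (XT.lf (nat_lit 0) (nat_lit 74387208614) (nat_lit 76) (nat_lit 229358429227) (nat_lit 76) (nat_lit 228026546866) (nat_lit 1) (nat_lit 4) (nat_lit 2) (nat_lit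 5) (nat_lit 2) (nat_lit 4) (nat_lit 363) (nat_lit 189) (nat_lit 168)) (XT.lf (nat_lit 0) (nat_lit 79715674014) (nat_lit 76) (nat_lit 239984124155) (nat_lit 76) (nat_lit 238616729869) (nat_lit 1) (nat_lit 4) (nat_lit 2) (nat_lit 5) (nat_lit 2) (nat_lit 4) (nat_lit 364) (nat_lit 189) (nat_lit 167))) (XT.nd (nat_lit 35568) (nat_lit 0) (nat_lit 76) (XT.lf (nat_lit 0) (nat_lit 85278990612) (nat_lit 76) (nat_lit 251155590815) (nat_lit 76) (nat_lit 249754375647) (nat_lit 1) (nat_lit 4) (nat_lit 2) (nat_lit 5) (nat_lit 2) (nat_lit 4) (nat_lit 365) (nat_lit 189) (nat_lit 166)) (XT.nd (nat_lit 78) (nat_lit 0) (nat_lit 0) (XT.lf (nat_lit 0) (nat_lit 41767462892) (nat_lit 152) (nat_lit 3458576373) (nat_lit 0) (nat_lit 41767462892) (nat_lit 2) (nat_lit 5) (nat_lit 4) (nat_lit 4) (nat_lit 2) (nat_lit 4) (nat_lit 340) (nat_lit 190) (nat_lit 190)) (XT.lf (nat_lit 0) (nat_lit 89143922802) (nat_lit 152)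 (nat_lit 4423997516) (nat_lit 0) (nat_lit 89040041163) (nat_lit 2) (nat_lit 5) (nat_lit 4) (nat_lit 4) (nat_lit 2) (nat_lit 4) (nat_lit 341) (nat_lit 190) (nat_lit 189))))))) (XT.nd (nat_lit 702) (nat_lit 0) (nat_lit 0) (XT.nd (nat_lit 312) (nat_lit 0) (nat_lit 0) (XT.nd (nat_lit 156) (nat_lit 0) (nat_lit 0) (XT.nd (nat_lit 78) (nat_lit 76) (nat_lit 0) (XT.lf (nat_lit 0) (nat_lit 94984833277) (nat_lit 152) (nat_lit 1895585084) (nat_lit 0) (nat_lit 94782016743) (nat_lit 2) (nat_lit 5) (nat_lit 4) (nat_lit 4) (nat_lit 2) (nat_lit 4) (nat_lit 342) (nat_lit 190) (nat_lit 188)) (XT.lf (nat_lit 0) (nat_lit 696393522) (nat_lit 76) (nat_lit 100386043271) (nat_lit 76) (nat_lit 100089003027) (nat_lit 1) (nat_lit 4) (nat_lit 2) (nat_lit 5) (nat_lit 2) (nat_lit 4) (nat_lit 343) (nat_lit 190) (nat_lit 187))) (XT.nd (nat_lit 78) (nat_lit 0) (nat_lit 0) (XT.lf (nat_lit 0) (nat_lit 3400011383) (nat_lit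 76) (nat_lit 104071679925) (nat_lit 76) (nat_lit 103684902816) (nat_lit 1) (nat_lit 4) (nat_lit 2) (nat_lit 5) (nat_lit 2) (nat_lit 4) (nat_lit 344) (nat_lit 190) (nat_lit 186)) (XT.lf (nat_lit 0) (nat_lit 6159029082) (nat_lit 76) (nat_lit 107978206301) (nat_lit 76) (nat_lit 107505965511) (nat_lit 1) (nat_lit 4) (nat_lit 2) (nat_lit 5) (nat_lit 2) (nat_lit 4) (nat_lit 345) (nat_lit 190) (nat_lit 185)))) (XT.nd (nat_lit 156) (nat_lit 0) (nat_lit 0) (XT.nd (nat_lit 78) (nat_lit 0) (nat_lit 0) (XT.lf (nat_lit 0) (nat_lit 8980015708) (nat_lit 76) (nat_lit 112114923652) (nat_lit 76) (nat_lit 111561288879) (nat_lit 1) (nat_lit 4) (nat_lit 2) (nat_lit 5) (nat_lit 2) (nat_lit 4) (nat_lit 346) (nat_lit 190) (nat_lit 184)) (XT.lf (nat_lit 0) (nat_lit 11869687895) (nat_lit 76) (nat_lit 116491681304) (nat_lit 76) (nat_lit 115860528452) (nat_lit 1) (nat_lit 4) (nat_lit 2) (nat_lit 5) (nat_lit 2)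 (nat_lit 4) (nat_lit 347) (nat_lit 190) (nat_lit 183))) (XT.nd (nat_lit 78) (nat_lit 0) (nat_lit 0) (XT.lf (nat_lit 0) (nat_lit 14834925815) (nat_lit 76) (nat_lit 121118900110) (nat_lit 76) (nat_lit 120413920516) (nat_lit 1) (nat_lit 4) (nat_lit 2) (nat_lit 5) (nat_lit 2) (nat_lit 4) (nat_lit 348) (nat_lit 190) (nat_lit 182)) (XT.nd (nat_lit 78) (nat_lit 0) (nat_lit 0) (XT.lf (nat_lit 0) (nat_lit 17882789560) (nat_lit 76) (nat_lit 126007597256) (nat_lit 76) (nat_lit 125232306479) (nat_lit 1) (nat_lit 4) (nat_lit 2) (nat_lit 5) (nat_lit 2) (nat_lit 4) (nat_lit 349) (nat_lit 190) (nat_lit 181)) (XT.lf (nat_lit 0) (nat_lit 21020535947) (nat_lit 76) (nat_lit 131169412497) (nat_lit 76) (nat_lit 130327158690) (nat_lit 1) (nat_lit 4) (nat_lit 2) (nat_lit 5) (nat_lit 2) (nat_lit 4) (nat_lit 350) (nat_lit 190) (nat_lit 180)))))) (XT.nd (nat_lit 312) (nat_lit 0) (nat_lit 0) (XT.nd (nat_lit 156)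 (nat_lit 0) (nat_lit 0) (XT.nd (nat_lit 78) (nat_lit 0) (nat_lit 0) (XT.lf (nat_lit 0) (nat_lit 24255635800) (nat_lit 76) (nat_lit 136616635872) (nat_lit 76) (nat_lit 135710607749) (nat_lit 1) (nat_lit 4) (nat_lit 2) (nat_lit 5) (nat_lit 2) (nat_lit 4) (nat_lit 351) (nat_lit 190) (nat_lit 179)) (XT.lf (nat_lit 0) (nat_lit 27595791739) (nat_lit 76) (nat_lit 142362236957) (nat_lit 76) (nat_lit 141395471392) (nat_lit 1) (nat_lit 4) (nat_lit 2) (nat_lit 5) (nat_lit 2) (nat_lit 4) (nat_lit 352) (nat_lit 190) (nat_lit 178))) (XT.nd (nat_lit 78) (nat_lit 0) (nat_lit 0) (XT.lf (nat_lit 0) (nat_lit 31048956517) (nat_lit 76) (nat_lit 148419895757) (nat_lit 76) (nat_lit 147395285008) (nat_lit 1) (nat_lit 4) (nat_lit 2) (nat_lit 5) (nat_lit 2) (nat_lit 4) (nat_lit 353) (nat_lit 190) (nat_lit 177)) (XT.lf (nat_lit 0) (nat_lit 34623351953) (nat_lit 76) (nat_lit 154804035268) (nat_lit 76) (nat_lit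 153724333868) (nat_lit 1) (nat_lit 4) (nat_lit 2) (nat_lit 5) (nat_lit 2) (nat_lit 4) (nat_lit 354) (nat_lit 190) (nat_lit 176)))) (XT.nd (nat_lit 156) (nat_lit 0) (nat_lit 0) (XT.nd (nat_lit 78) (nat_lit 0) (nat_lit 0) (XT.lf (nat_lit 0) (nat_lit 38327488513) (nat_lit 76) (nat_lit 161529855823) (nat_lit 76) (nat_lit 160397687136) (nat_lit 1) (nat_lit 4) (nat_lit 2) (nat_lit 5) (nat_lit 2) (nat_lit 4) (nat_lit 355) (nat_lit 190) (nat_lit 175)) (XT.lf (nat_lit 0) (nat_lit 42170185570) (nat_lit 76) (nat_lit 168613371280) (nat_lit 76) (nat_lit 167431233748) (nat_lit 1) (nat_lit 4) (nat_lit 2) (nat_lit 5) (nat_lit 2) (nat_lit 4) (nat_lit 356) (nat_lit 190) (nat_lit 174))) (XT.nd (nat_lit 78) (nat_lit 0) (nat_lit 0) (XT.lf (nat_lit 0) (nat_lit 46160592402) (nat_lit 76) (nat_lit 176071447151) (nat_lit 76) (nat_lit 174841720243) (nat_lit 1) (nat_lit 4) (nat_lit 2) (nat_lit 5) (nat_lit 2) (nat_lit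 4) (nat_lit 357) (nat_lit 190) (nat_lit 173)) (XT.nd (nat_lit 78) (nat_lit 0) (nat_lit 0) (XT.lf (nat_lit 0) (nat_lit 50308209979) (nat_lit 76) (nat_lit 183921840762) (nat_lit 76) (nat_lit 182646790638) (nat_lit 1) (nat_lit 4) (nat_lit 2) (nat_lit 5) (nat_lit 2) (nat_lit 4) (nat_lit 358) (nat_lit 190) (nat_lit 172)) (XT.lf (nat_lit 0) (nat_lit 54622913580) (nat_lit 76) (nat_lit 192183243523) (nat_lit 76) (nat_lit 190865028434) (nat_lit 1) (nat_lit 4) (nat_lit 2) (nat_lit 5) (nat_lit 2) (nat_lit 4) (nat_lit 359) (nat_lit 190) (nat_lit 171))))))))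
noncomputable def xc5 : XT := (XT.nd (nat_lit 36660) (nat_lit 0) (nat_lit 0) (XT.nd (nat_lit 35958) (nat_lit 0) (nat_lit 0) (XT.nd (nat_lit 312) (nat_lit 0) (nat_lit 0) (XT.nd (nat_lit 156) (nat_lit 0) (nat_lit 0) (XT.nd (nat_lit 78) (nat_lit 0) (nat_lit 0) (XT.lf (nat_lit 0) (nat_lit 59114976308) (nat_lit 76) (nat_lit 200875325444) (nat_lit 76) (nat_lit 199516000862) (nat_lit 1) (nat_lit 4) (nat_lit 2) (nat_lit 5) (nat_lit 2) (nat_lit 4) (nat_lit 360) (nat_lit 190) (nat_lit 170)) (XT.lf (nat_lit 0) (nat_lit 63795093553) (nat_lit 76) (nat_lit 210018781956) (nat_lit 76) (nat_lit 208620305476) (nat_lit 1) (nat_lit 4) (nat_lit 2) (nat_lit 5) (nat_lit 2) (nat_lit 4) (nat_lit 361) (nat_lit 190) (nat_lit 169))) (XT.nd (nat_lit 78) (nat_lit 0) (nat_lit 0) (XT.lf (nat_lit 0) (nat_lit 68674408449) (nat_lit 76) (nat_lit 219635383194) (nat_lit 76) (nat_lit 218199619193) (nat_lit 1) (nat_lit 4)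 (nat_lit 2) (nat_lit 5) (nat_lit 2) (nat_lit 4) (nat_lit 362) (nat_lit 190) (nat_lit 168)) (XT.lf (nat_lit 0) (nat_lit 73764538413) (nat_lit 76) (nat_lit 229748025827) (nat_lit 76) (nat_lit 228276749902) (nat_lit 1) (nat_lit 4) (nat_lit 2) (nat_lit 5) (nat_lit 2) (nat_lit 4) (nat_lit 363) (nat_lit 190) (nat_lit 167)))) (XT.nd (nat_lit 35490) (nat_lit 0) (nat_lit 76) (XT.nd (nat_lit 78) (nat_lit 0) (nat_lit 0) (XT.lf (nat_lit 0) (nat_lit 79077602802) (nat_lit 76) (nat_lit 240380787577) (nat_lit 76) (nat_lit 238875690771) (nat_lit 1) (nat_lit 4) (nat_lit 2) (nat_lit 5) (nat_lit 2) (nat_lit 4) (nat_lit 364) (nat_lit 190) (nat_lit 166)) (XT.lf (nat_lit 0) (nat_lit 84626251770) (nat_lit 76) (nat_lit 251558984543) (nat_lit 76) (nat_lit 250021677374) (nat_lit 1) (nat_lit 4) (nat_lit 2) (nat_lit 5) (nat_lit 2) (nat_lit 4) (nat_lit 365) (nat_lit 190) (nat_lit 165))) (XT.nd (nat_lit 78) (nat_lit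 0) (nat_lit 0) (XT.lf (nat_lit 0) (nat_lit 36547476155) (nat_lit 152) (nat_lit 5886643032) (nat_lit 0) (nat_lit 36547476155) (nat_lit 2) (nat_lit 5) (nat_lit 4) (nat_lit 4) (nat_lit 2) (nat_lit 4) (nat_lit 338) (nat_lit 191) (nat_lit 191)) (XT.lf (nat_lit 0) (nat_lit 78253563191) (nat_lit 152) (nat_lit 9380986857) (nat_lit 0) (nat_lit 78144487470) (nat_lit 2) (nat_lit 5) (nat_lit 4) (nat_lit 4) (nat_lit 2) (nat_lit 4) (nat_lit 339) (nat_lit 191) (nat_lit 190))))) (XT.nd (nat_lit 312) (nat_lit 0) (nat_lit 0) (XT.nd (nat_lit 156) (nat_lit 76) (nat_lit 0) (XT.nd (nat_lit 78) (nat_lit 0) (nat_lit 0) (XT.lf (nat_lit 0) (nat_lit 83619141402) (nat_lit 152) (nat_lit 6962943276) (nat_lit 0) (nat_lit 83406184041) (nat_lit 2) (nat_lit 5) (nat_lit 4) (nat_lit 4) (nat_lit 2) (nat_lit 4) (nat_lit 340) (nat_lit 191) (nat_lit 189)) (XT.lf (nat_lit 0) (nat_lit 89204462130) (nat_lit 152) (nat_lit 4513398075)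 (nat_lit 0) (nat_lit 88892569875) (nat_lit 2) (nat_lit 5) (nat_lit 4) (nat_lit 4) (nat_lit 2) (nat_lit 4) (nat_lit 341) (nat_lit 191) (nat_lit 188))) (XT.nd (nat_lit 78) (nat_lit 76) (nat_lit 0) (XT.lf (nat_lit 0) (nat_lit 95022823757) (nat_lit 152) (nat_lit 2026519003) (nat_lit 0) (nat_lit 94616707793) (nat_lit 2) (nat_lit 5) (nat_lit 4) (nat_lit 4) (nat_lit 2) (nat_lit 4) (nat_lit 342) (nat_lit 191) (nat_lit 187)) (XT.lf (nat_lit 0) (nat_lit 520266868) (nat_lit 76) (nat_lit 100575935482) (nat_lit 76) (nat_lit 100080082652) (nat_lit 1) (nat_lit 4) (nat_lit 2) (nat_lit 5) (nat_lit 2) (nat_lit 4) (nat_lit 343) (nat_lit 191) (nat_lit 186)))) (XT.nd (nat_lit 156) (nat_lit 0) (nat_lit 0) (XT.nd (nat_lit 78) (nat_lit 0) (nat_lit 0) (XT.lf (nat_lit 0) (nat_lit 3184967141) (nat_lit 76) (nat_lit 104279429643) (nat_lit 76) (nat_lit 103698113131) (nat_lit 1) (nat_lit 4) (nat_lit 2) (nat_lit 5)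 (nat_lit 2) (nat_lit 4) (nat_lit 344) (nat_lit 191) (nat_lit 185)) (XT.lf (nat_lit 0) (nat_lit 5906920470) (nat_lit 76) (nat_lit 108202963168) (nat_lit 76) (nat_lit 107540252674) (nat_lit 1) (nat_lit 4) (nat_lit 2) (nat_lit 5) (nat_lit 2) (nat_lit 4) (nat_lit 345) (nat_lit 191) (nat_lit 184))) (XT.nd (nat_lit 78) (nat_lit 0) (nat_lit 0) (XT.lf (nat_lit 0) (nat_lit 8692607696) (nat_lit 76) (nat_lit 112355877804) (nat_lit 76) (nat_lit 111615649231) (nat_lit 1) (nat_lit 4) (nat_lit 2) (nat_lit 5) (nat_lit 2) (nat_lit 4) (nat_lit 346) (nat_lit 191) (nat_lit 183)) (XT.nd (nat_lit 78) (nat_lit 0) (nat_lit 0) (XT.lf (nat_lit 0) (nat_lit 11548661407) (nat_lit 76) (nat_lit 116748061442) (nat_lit 76) (nat_lit 115934006127) (nat_lit 1) (nat_lit 4) (nat_lit 2) (nat_lit 5) (nat_lit 2) (nat_lit 4) (nat_lit 347) (nat_lit 191) (nat_lit 182)) (XT.lf (nat_lit 0) (nat_lit 14481881731) (nat_lit 76) (nat_lit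 121389971662) (nat_lit 76) (nat_lit 120505605164) (nat_lit 1) (nat_lit 4) (nat_lit 2) (nat_lit 5) (nat_lit 2) (nat_lit 4) (nat_lit 348) (nat_lit 191) (nat_lit 181))))))) (XT.nd (nat_lit 702) (nat_lit 0) (nat_lit 0) (XT.nd (nat_lit 312) (nat_lit 0) (nat_lit 0) (XT.nd (nat_lit 156) (nat_lit 0) (nat_lit 0) (XT.nd (nat_lit 78) (nat_lit 0) (nat_lit 0) (XT.lf (nat_lit 0) (nat_lit 17499252527) (nat_lit 76) (nat_lit 126292660632) (nat_lit 76) (nat_lit 125341331103) (nat_lit 1) (nat_lit 4) (nat_lit 2) (nat_lit 5) (nat_lit 2) (nat_lit 4) (nat_lit 349) (nat_lit 191) (nat_lit 180)) (XT.lf (nat_lit 0) (nat_lit 20607958010) (nat_lit 76) (nat_lit 131467801420) (nat_lit 76) (nat_lit 130452697576) (nat_lit 1) (nat_lit 4) (nat_lit 2) (nat_lit 5) (nat_lit 2) (nat_lit 4) (nat_lit 350) (nat_lit 191) (nat_lit 179))) (XT.nd (nat_lit 78) (nat_lit 0) (nat_lit 0) (XT.lf (nat_lit 0) (nat_lit 23815399860) (nat_lit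 76) (nat_lit 136927715790) (nat_lit 76) (nat_lit 135851874504) (nat_lit 1) (nat_lit 4) (nat_lit 2) (nat_lit 5) (nat_lit 2) (nat_lit 4) (nat_lit 351) (nat_lit 191) (nat_lit 178)) (XT.lf (nat_lit 0) (nat_lit 27129214844) (nat_lit 76) (nat_lit 142685403540) (nat_lit 76) (nat_lit 141551717069) (nat_lit 1) (nat_lit 4) (nat_lit 2) (nat_lit 5) (nat_lit 2) (nat_lit 4) (nat_lit 352) (nat_lit 191) (nat_lit 177)))) (XT.nd (nat_lit 156) (nat_lit 0) (nat_lit 0) (XT.nd (nat_lit 78) (nat_lit 0) (nat_lit 0) (XT.lf (nat_lit 0) (nat_lit 30557292997) (nat_lit 76) (nat_lit 148754573447) (nat_lit 76) (nat_lit 147565796326) (nat_lit 1) (nat_lit 4) (nat_lit 2) (nat_lit 5) (nat_lit 2) (nat_lit 4) (nat_lit 353) (nat_lit 191) (nat_lit 176)) (XT.lf (nat_lit 0) (nat_lit 34107796409) (nat_lit 76) (nat_lit 155149675919) (nat_lit 76) (nat_lit 153908431510) (nat_lit 1) (nat_lit 4) (nat_lit 2) (nat_lit 5) (nat_lit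 2) (nat_lit 4) (nat_lit 354) (nat_lit 191) (nat_lit 175))) (XT.nd (nat_lit 78) (nat_lit 0) (nat_lit 0) (XT.lf (nat_lit 0) (nat_lit 37789178661) (nat_lit 76) (nat_lit 161885937388) (nat_lit 76) (nat_lit 160594724134) (nat_lit 1) (nat_lit 4) (nat_lit 2) (nat_lit 5) (nat_lit 2) (nat_lit 4) (nat_lit 355) (nat_lit 191) (nat_lit 174)) (XT.nd (nat_lit 78) (nat_lit 0) (nat_lit 0) (XT.lf (nat_lit 0) (nat_lit 41610204949) (nat_lit 76) (nat_lit 168979396572) (nat_lit 76) (nat_lit 167640593943) (nat_lit 1) (nat_lit 4) (nat_lit 2) (nat_lit 5) (nat_lit 2) (nat_lit 4) (nat_lit 356) (nat_lit 191) (nat_lit 173)) (XT.lf (nat_lit 0) (nat_lit 45579972953) (nat_lit 76) (nat_lit 176446942661) (nat_lit 76) (nat_lit 175062816816) (nat_lit 1) (nat_lit 4) (nat_lit 2) (nat_lit 5) (nat_lit 2) (nat_lit 4) (nat_lit 357) (nat_lit 191) (nat_lit 172)))))) (XT.nd (nat_lit 312) (nat_lit 0) (nat_lit 0) (XT.nd (nat_lit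 156) (nat_lit 0) (nat_lit 0) (XT.nd (nat_lit 78) (nat_lit 0) (nat_lit 0) (XT.lf (nat_lit 0) (nat_lit 49707934503) (nat_lit 76) (nat_lit 184306355525) (nat_lit 76) (nat_lit 182879064714) (nat_lit 1) (nat_lit 4) (nat_lit 2) (nat_lit 5) (nat_lit 2) (nat_lit 4) (nat_lit 358) (nat_lit 191) (nat_lit 171)) (XT.lf (nat_lit 0) (nat_lit 54003918079) (nat_lit 76) (nat_lit 192576348053) (nat_lit 76) (nat_lit 191107947750) (nat_lit 1) (nat_lit 4) (nat_lit 2) (nat_lit 5) (nat_lit 2) (nat_lit 4) (nat_lit 359) (nat_lit 191) (nat_lit 170))) (XT.nd (nat_lit 78) (nat_lit 0) (nat_lit 0) (XT.lf (nat_lit 0) (nat_lit 58478152212) (nat_lit 76) (nat_lit 201276610703) (nat_lit 76) (nat_lit 199769058502) (nat_lit 1) (nat_lit 4) (nat_lit 2) (nat_lit 5) (nat_lit 2) (nat_lit 4) (nat_lit 360) (nat_lit 191) (nat_lit 169)) (XT.lf (nat_lit 0) (nat_lit 63141289842) (nat_lit 76) (nat_lit 210427858386) (nat_lit 76) (nat_lit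 208883018664) (nat_lit 1) (nat_lit 4) (nat_lit 2) (nat_lit 5) (nat_lit 2) (nat_lit 4) (nat_lit 361) (nat_lit 191) (nat_lit 168)))) (XT.nd (nat_lit 156) (nat_lit 0) (nat_lit 0) (XT.nd (nat_lit 78) (nat_lit 0) (nat_lit 0) (XT.lf (nat_lit 0) (nat_lit 68004433676) (nat_lit 76) (nat_lit 220051879787) (nat_lit 76) (nat_lit 218471528140) (nat_lit 1) (nat_lit 4) (nat_lit 2) (nat_lit 5) (nat_lit 2) (nat_lit 4) (nat_lit 362) (nat_lit 191) (nat_lit 167)) (XT.lf (nat_lit 0) (nat_lit 73079162629) (nat_lit 76) (nat_lit 230171589242) (nat_lit 76) (nat_lit 228557416714) (nat_lit 1) (nat_lit 4) (nat_lit 2) (nat_lit 5) (nat_lit 2) (nat_lit 4) (nat_lit 363) (nat_lit 191) (nat_lit 166))) (XT.nd (nat_lit 78) (nat_lit 0) (nat_lit 0) (XT.lf (nat_lit 0) (nat_lit 78377559388) (nat_lit 76) (nat_lit 240811081299) (nat_lit 76) (nat_lit 239164698408) (nat_lit 1) (nat_lit 4) (nat_lit 2) (nat_lit 5) (nat_lit 2) (nat_lit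 4) (nat_lit 364) (nat_lit 191) (nat_lit 165)) (XT.nd (nat_lit 35256) (nat_lit 0) (nat_lit 76) (XT.lf (nat_lit 0) (nat_lit 83912239185) (nat_lit 76) (nat_lit 251995688080) (nat_lit 76) (nat_lit 250318628653) (nat_lit 1) (nat_lit 4) (nat_lit 2) (nat_lit 5) (nat_lit 2) (nat_lit 4) (nat_lit 365) (nat_lit 191) (nat_lit 164)) (XT.lf (nat_lit 0) (nat_lit 31745952112) (nat_lit 152) (nat_lit 8226451683) (nat_lit 0) (nat_lit 31745952112) (nat_lit 2) (nat_lit 5) (nat_lit 4) (nat_lit 4) (nat_lit 2) (nat_lit 4) (nat_lit 336) (nat_lit 192) (nat_lit 192))))))))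
noncomputable def xc6 : XT := (XT.nd (nat_lit 1326) (nat_lit 0) (nat_lit 0) (XT.nd (nat_lit 624) (nat_lit 0) (nat_lit 0) (XT.nd (nat_lit 312) (nat_lit 76) (nat_lit 0) (XT.nd (nat_lit 156) (nat_lit 0) (nat_lit 0) (XT.nd (nat_lit 78) (nat_lit 0) (nat_lit 0) (XT.lf (nat_lit 0) (nat_lit 68245555863) (nat_lit 152) (nat_lit 14145536848) (nat_lit 0) (nat_lit 68131026355) (nat_lit 2) (nat_lit 5) (nat_lit 4) (nat_lit 4) (nat_lit 2) (nat_lit 4) (nat_lit 337) (nat_lit 192) (nat_lit 191)) (XT.lf (nat_lit 0) (nat_lit 73183378710) (nat_lit 152) (nat_lit 11821366121) (nat_lit 0) (nat_lit 72959773481) (nat_lit 2) (nat_lit 5) (nat_lit 4) (nat_lit 4) (nat_lit 2) (nat_lit 4) (nat_lit 338) (nat_lit 192) (nat_lit 190))) (XT.nd (nat_lit 78) (nat_lit 0) (nat_lit 0) (XT.lf (nat_lit 0) (nat_lit 78317129486) (nat_lit 152) (nat_lit 9474857444) (nat_lit 0) (nat_lit 77989642618) (nat_lit 2) (nat_lit 5) (nat_lit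 4) (nat_lit 4) (nat_lit 2) (nat_lit 4) (nat_lit 339) (nat_lit 192) (nat_lit 189)) (XT.lf (nat_lit 0) (nat_lit 83659031407) (nat_lit 152) (nat_lit 7100423892) (nat_lit 0) (nat_lit 83232609644) (nat_lit 2) (nat_lit 5) (nat_lit 4) (nat_lit 4) (nat_lit 2) (nat_lit 4) (nat_lit 340) (nat_lit 192) (nat_lit 188)))) (XT.nd (nat_lit 156) (nat_lit 76) (nat_lit 0) (XT.nd (nat_lit 78) (nat_lit 0) (nat_lit 0) (XT.lf (nat_lit 0) (nat_lit 89221803287) (nat_lit 152) (nat_lit 4692412051) (nat_lit 0) (nat_lit 88701157815) (nat_lit 2) (nat_lit 5) (nat_lit 4) (nat_lit 4) (nat_lit 2) (nat_lit 4) (nat_lit 341) (nat_lit 192) (nat_lit 187)) (XT.lf (nat_lit 0) (nat_lit 95018689822) (nat_lit 152) (nat_lit 2245088561) (nat_lit 0) (nat_lit 94408307484) (nat_lit 2) (nat_lit 5) (nat_lit 4) (nat_lit 4) (nat_lit 2) (nat_lit 4) (nat_lit 342) (nat_lit 192) (nat_lit 186))) (XT.nd (nat_lit 78) (nat_lit 0) (nat_lit 0) (XT.lf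 (nat_lit 0) (nat_lit 255552825) (nat_lit 76) (nat_lit 100811930192) (nat_lit 76) (nat_lit 100116084173) (nat_lit 1) (nat_lit 4) (nat_lit 2) (nat_lit 5) (nat_lit 2) (nat_lit 4) (nat_lit 343) (nat_lit 192) (nat_lit 185)) (XT.lf (nat_lit 0) (nat_lit 2883188729) (nat_lit 76) (nat_lit 104532431503) (nat_lit 76) (nat_lit 103755191501) (nat_lit 1) (nat_lit 4) (nat_lit 2) (nat_lit 5) (nat_lit 2) (nat_lit 4) (nat_lit 344) (nat_lit 192) (nat_lit 184))))) (XT.nd (nat_lit 312) (nat_lit 0) (nat_lit 0) (XT.nd (nat_lit 156) (nat_lit 0) (nat_lit 0) (XT.nd (nat_lit 78) (nat_lit 0) (nat_lit 0) (XT.lf (nat_lit 0) (nat_lit 5569842658) (nat_lit 76) (nat_lit 108472162313) (nat_lit 76) (nat_lit 107617404232) (nat_lit 1) (nat_lit 4) (nat_lit 2) (nat_lit 5) (nat_lit 2) (nat_lit 4) (nat_lit 345) (nat_lit 192) (nat_lit 183)) (XT.lf (nat_lit 0) (nat_lit 8321911407) (nat_lit 76) (nat_lit 112640502934) (nat_lit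 76) (nat_lit 111711918112) (nat_lit 1) (nat_lit 4) (nat_lit 2) (nat_lit 5) (nat_lit 2) (nat_lit 4) (nat_lit 346) (nat_lit 192) (nat_lit 182))) (XT.nd (nat_lit 78) (nat_lit 0) (nat_lit 0) (XT.lf (nat_lit 0) (nat_lit 11145947522) (nat_lit 76) (nat_lit 117047377986) (nat_lit 76) (nat_lit 116048481982) (nat_lit 1) (nat_lit 4) (nat_lit 2) (nat_lit 5) (nat_lit 2) (nat_lit 4) (nat_lit 347) (nat_lit 192) (nat_lit 181)) (XT.lf (nat_lit 0) (nat_lit 14048674898) (nat_lit 76) (nat_lit 121703280030) (nat_lit 76) (nat_lit 120637420995) (nat_lit 1) (nat_lit 4) (nat_lit 2) (nat_lit 5) (nat_lit 2) (nat_lit 4) (nat_lit 348) (nat_lit 192) (nat_lit 180)))) (XT.nd (nat_lit 156) (nat_lit 0) (nat_lit 0) (XT.nd (nat_lit 78) (nat_lit 0) (nat_lit 0) (XT.lf (nat_lit 0) (nat_lit 17037004790) (nat_lit 76) (nat_lit 126619294546) (nat_lit 76) (nat_lit 125489661195) (nat_lit 1) (nat_lit 4) (nat_lit 2) (nat_lit 5)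 (nat_lit 2) (nat_lit 4) (nat_lit 349) (nat_lit 192) (nat_lit 179)) (XT.lf (nat_lit 0) (nat_lit 20118052270) (nat_lit 76) (nat_lit 131807126331) (nat_lit 76) (nat_lit 130616755537) (nat_lit 1) (nat_lit 4) (nat_lit 2) (nat_lit 5) (nat_lit 2) (nat_lit 4) (nat_lit 350) (nat_lit 192) (nat_lit 178))) (XT.nd (nat_lit 78) (nat_lit 0) (nat_lit 0) (XT.lf (nat_lit 0) (nat_lit 23299153164) (nat_lit 76) (nat_lit 137279127365) (nat_lit 76) (nat_lit 136030911387) (nat_lit 1) (nat_lit 4) (nat_lit 2) (nat_lit 5) (nat_lit 2) (nat_lit 4) (nat_lit 351) (nat_lit 192) (nat_lit 177)) (XT.nd (nat_lit 78) (nat_lit 0) (nat_lit 0) (XT.lf (nat_lit 0) (nat_lit 26587881524) (nat_lit 76) (nat_lit 143048326222) (nat_lit 76) (nat_lit 141745019593) (nat_lit 1) (nat_lit 4) (nat_lit 2) (nat_lit 5) (nat_lit 2) (nat_lit 4) (nat_lit 352) (nat_lit 192) (nat_lit 176)) (XT.lf (nat_lit 0) (nat_lit 29992067653) (nat_lit 76) (nat_lit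 149128459090) (nat_lit 76) (nat_lit 147772685174) (nat_lit 1) (nat_lit 4) (nat_lit 2) (nat_lit 5) (nat_lit 2) (nat_lit 4) (nat_lit 353) (nat_lit 192) (nat_lit 175))))))) (XT.nd (nat_lit 702) (nat_lit 0) (nat_lit 0) (XT.nd (nat_lit 312) (nat_lit 0) (nat_lit 0) (XT.nd (nat_lit 156) (nat_lit 0) (nat_lit 0) (XT.nd (nat_lit 78) (nat_lit 0) (nat_lit 0) (XT.lf (nat_lit 0) (nat_lit 33519816758) (nat_lit 76) (nat_lit 155534002476) (nat_lit 76) (nat_lit 154128259715) (nat_lit 1) (nat_lit 4) (nat_lit 2) (nat_lit 5) (nat_lit 2) (nat_lit 4) (nat_lit 354) (nat_lit 192) (nat_lit 174)) (XT.lf (nat_lit 0) (nat_lit 37179528241) (nat_lit 76) (nat_lit 162280207672) (nat_lit 76) (nat_lit 160826875536) (nat_lit 1) (nat_lit 4) (nat_lit 2) (nat_lit 5) (nat_lit 2) (nat_lit 4) (nat_lit 355) (nat_lit 192) (nat_lit 173))) (XT.nd (nat_lit 78) (nat_lit 0) (nat_lit 0) (XT.lf (nat_lit 0) (nat_lit 40979915700) (nat_lit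 76) (nat_lit 169383137074) (nat_lit 76) (nat_lit 167884481722) (nat_lit 1) (nat_lit 4) (nat_lit 2) (nat_lit 5) (nat_lit 2) (nat_lit 4) (nat_lit 356) (nat_lit 192) (nat_lit 172)) (XT.lf (nat_lit 0) (nat_lit 44930027678) (nat_lit 76) (nat_lit 176859702417) (nat_lit 76) (nat_lit 175317882098) (nat_lit 1) (nat_lit 4) (nat_lit 2) (nat_lit 5) (nat_lit 2) (nat_lit 4) (nat_lit 357) (nat_lit 192) (nat_lit 171)))) (XT.nd (nat_lit 156) (nat_lit 0) (nat_lit 0) (XT.nd (nat_lit 78) (nat_lit 0) (nat_lit 0) (XT.lf (nat_lit 0) (nat_lit 49039269202) (nat_lit 76) (nat_lit 184727705047) (nat_lit 76) (nat_lit 183144775237) (nat_lit 1) (nat_lit 4) (nat_lit 2) (nat_lit 5) (nat_lit 2) (nat_lit 4) (nat_lit 358) (nat_lit 192) (nat_lit 170)) (XT.lf (nat_lit 0) (nat_lit 53317424182) (nat_lit 76) (nat_lit 193005878305) (nat_lit 76) (nat_lit 191383796597) (nat_lit 1) (nat_lit 4) (nat_lit 2) (nat_lit 5) (nat_lit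 2) (nat_lit 4) (nat_lit 359) (nat_lit 192) (nat_lit 169))) (XT.nd (nat_lit 78) (nat_lit 0) (nat_lit 0) (XT.lf (nat_lit 0) (nat_lit 57774678701) (nat_lit 76) (nat_lit 201713932126) (nat_lit 76) (nat_lit 200054562896) (nat_lit 1) (nat_lit 4) (nat_lit 2) (nat_lit 5) (nat_lit 2) (nat_lit 4) (nat_lit 360) (nat_lit 192) (nat_lit 168)) (XT.nd (nat_lit 78) (nat_lit 0) (nat_lit 0) (XT.lf (nat_lit 0) (nat_lit 62421645268) (nat_lit 76) (nat_lit 210872599971) (nat_lit 76) (nat_lit 209177718817) (nat_lit 1) (nat_lit 4) (nat_lit 2) (nat_lit 5) (nat_lit 2) (nat_lit 4) (nat_lit 361) (nat_lit 192) (nat_lit 167)) (XT.lf (nat_lit 0) (nat_lit 67269388091) (nat_lit 76) (nat_lit 220503688194) (nat_lit 76) (nat_lit 218774986159) (nat_lit 1) (nat_lit 4) (nat_lit 2) (nat_lit 5) (nat_lit 2) (nat_lit 4) (nat_lit 362) (nat_lit 192) (nat_lit 166)))))) (XT.nd (nat_lit 35334) (nat_lit 0) (nat_lit 76) (XT.nd (nat_lit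 156) (nat_lit 0) (nat_lit 0) (XT.nd (nat_lit 78) (nat_lit 0) (nat_lit 0) (XT.lf (nat_lit 0) (nat_lit 72329449414) (nat_lit 76) (nat_lit 230630127956) (nat_lit 76) (nat_lit 228869215558) (nat_lit 1) (nat_lit 4) (nat_lit 2) (nat_lit 5) (nat_lit 2) (nat_lit 4) (nat_lit 363) (nat_lit 192) (nat_lit 165)) (XT.lf (nat_lit 0) (nat_lit 77613877003) (nat_lit 76) (nat_lit 241276029828) (nat_lit 76) (nat_lit 239484440894) (nat_lit 1) (nat_lit 4) (nat_lit 2) (nat_lit 5) (nat_lit 2) (nat_lit 4) (nat_lit 364) (nat_lit 192) (nat_lit 164))) (XT.nd (nat_lit 35100) (nat_lit 0) (nat_lit 76) (XT.lf (nat_lit 0) (nat_lit 83135252827) (nat_lit 76) (nat_lit 252466741196) (nat_lit 76) (nat_lit 250645936513) (nat_lit 1) (nat_lit 4) (nat_lit 2) (nat_lit 5) (nat_lit 2) (nat_lit 4) (nat_lit 365) (nat_lit 192) (nat_lit 163)) (XT.lf (nat_lit 0) (nat_lit 27320643956) (nat_lit 152) (nat_lit 10493081749) (nat_lit 0)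 (nat_lit 27320643956) (nat_lit 2) (nat_lit 5) (nat_lit 4) (nat_lit 4) (nat_lit 2) (nat_lit 4) (nat_lit 334) (nat_lit 193) (nat_lit 193)))) (XT.nd (nat_lit 156) (nat_lit 0) (nat_lit 0) (XT.nd (nat_lit 78) (nat_lit 0) (nat_lit 0) (XT.lf (nat_lit 0) (nat_lit 59031361558) (nat_lit 152) (nat_lit 18748959404) (nat_lit 0) (nat_lit 58911105575) (nat_lit 2) (nat_lit 5) (nat_lit 4) (nat_lit 4) (nat_lit 2) (nat_lit 4) (nat_lit 335) (nat_lit 193) (nat_lit 192)) (XT.lf (nat_lit 0) (nat_lit 63584751942) (nat_lit 152) (nat_lit 16503387425) (nat_lit 0) (nat_lit 63349966452) (nat_lit 2) (nat_lit 5) (nat_lit 4) (nat_lit 4) (nat_lit 2) (nat_lit 4) (nat_lit 336) (nat_lit 193) (nat_lit 191))) (XT.nd (nat_lit 78) (nat_lit 0) (nat_lit 0) (XT.lf (nat_lit 0) (nat_lit 68312300472) (nat_lit 152) (nat_lit 14244100964) (nat_lit 0) (nat_lit 67968439260) (nat_lit 2) (nat_lit 5) (nat_lit 4) (nat_lit 4) (nat_lit 2)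 (nat_lit 4) (nat_lit 337) (nat_lit 193) (nat_lit 190)) (XT.nd (nat_lit 78) (nat_lit 0) (nat_lit 0) (XT.lf (nat_lit 0) (nat_lit 73225263214) (nat_lit 152) (nat_lit 11965720767) (nat_lit 0) (nat_lit 72777520364) (nat_lit 2) (nat_lit 5) (nat_lit 4) (nat_lit 4) (nat_lit 2) (nat_lit 4) (nat_lit 338) (nat_lit 193) (nat_lit 189)) (XT.lf (nat_lit 0) (nat_lit 78335337701) (nat_lit 152) (nat_lit 9662822119) (nat_lit 0) (nat_lit 77788659955) (nat_lit 2) (nat_lit 5) (nat_lit 4) (nat_lit 4) (nat_lit 2) (nat_lit 4) (nat_lit 339) (nat_lit 193) (nat_lit 188))))))))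
noncomputable def xc7 : XT := (XT.nd (nat_lit 1404) (nat_lit 0) (nat_lit 0) (XT.nd (nat_lit 702) (nat_lit 0) (nat_lit 0) (XT.nd (nat_lit 312) (nat_lit 76) (nat_lit 0) (XT.nd (nat_lit 156) (nat_lit 0) (nat_lit 0) (XT.nd (nat_lit 78) (nat_lit 0) (nat_lit 0) (XT.lf (nat_lit 0) (nat_lit 83654690775) (nat_lit 152) (nat_lit 7329921927) (nat_lit 0) (nat_lit 83013789320) (nat_lit 2) (nat_lit 5) (nat_lit 4) (nat_lit 4) (nat_lit 2) (nat_lit 4) (nat_lit 340) (nat_lit 193) (nat_lit 187)) (XT.lf (nat_lit 0) (nat_lit 89195987563) (nat_lit 152) (nat_lit 4961465668) (nat_lit 0) (nat_lit 88465349242) (nat_lit 2) (nat_lit 5) (nat_lit 4) (nat_lit 4) (nat_lit 2) (nat_lit 4) (nat_lit 341) (nat_lit 193) (nat_lit 186))) (XT.nd (nat_lit 78) (nat_lit 0) (nat_lit 0) (XT.lf (nat_lit 0) (nat_lit 94972421628) (nat_lit 152) (nat_lit 2551814161) (nat_lit 0) (nat_lit 94156319626) (nat_lit 2) (nat_lit 5) (nat_lit 4)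 (nat_lit 4) (nat_lit 2) (nat_lit 4) (nat_lit 342) (nat_lit 193) (nat_lit 185)) (XT.lf (nat_lit 0) (nat_lit 100997746386) (nat_lit 152) (nat_lit 95230138) (nat_lit 0) (nat_lit 100100250401) (nat_lit 2) (nat_lit 5) (nat_lit 4) (nat_lit 4) (nat_lit 2) (nat_lit 4) (nat_lit 343) (nat_lit 193) (nat_lit 184)))) (XT.nd (nat_lit 156) (nat_lit 0) (nat_lit 0) (XT.nd (nat_lit 78) (nat_lit 0) (nat_lit 0) (XT.lf (nat_lit 0) (nat_lit 2493957626) (nat_lit 76) (nat_lit 104831287889) (nat_lit 76) (nat_lit 103856273826) (nat_lit 1) (nat_lit 4) (nat_lit 2) (nat_lit 5) (nat_lit 2) (nat_lit 4) (nat_lit 344) (nat_lit 193) (nat_lit 183)) (XT.lf (nat_lit 0) (nat_lit 5146993079) (nat_lit 76) (nat_lit 108786444685) (nat_lit 76) (nat_lit 107737603880) (nat_lit 1) (nat_lit 4) (nat_lit 2) (nat_lit 5) (nat_lit 2) (nat_lit 4) (nat_lit 345) (nat_lit 193) (nat_lit 182))) (XT.nd (nat_lit 78) (nat_lit 0) (nat_lit 0) (XT.lf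 (nat_lit 0) (nat_lit 7867044232) (nat_lit 76) (nat_lit 112969476721) (nat_lit 76) (nat_lit 111850324733) (nat_lit 1) (nat_lit 4) (nat_lit 2) (nat_lit 5) (nat_lit 2) (nat_lit 4) (nat_lit 346) (nat_lit 193) (nat_lit 181)) (XT.nd (nat_lit 78) (nat_lit 0) (nat_lit 0) (XT.lf (nat_lit 0) (nat_lit 10660587399) (nat_lit 76) (nat_lit 117390343597) (nat_lit 76) (nat_lit 116204228579) (nat_lit 1) (nat_lit 4) (nat_lit 2) (nat_lit 5) (nat_lit 2) (nat_lit 4) (nat_lit 347) (nat_lit 193) (nat_lit 180)) (XT.lf (nat_lit 0) (nat_lit 13534273871) (nat_lit 76) (nat_lit 122059571187) (nat_lit 76) (nat_lit 120809681854) (nat_lit 1) (nat_lit 4) (nat_lit 2) (nat_lit 5) (nat_lit 2) (nat_lit 4) (nat_lit 348) (nat_lit 193) (nat_lit 179)))))) (XT.nd (nat_lit 312) (nat_lit 0) (nat_lit 0) (XT.nd (nat_lit 156) (nat_lit 0) (nat_lit 0) (XT.nd (nat_lit 78) (nat_lit 0) (nat_lit 0) (XT.lf (nat_lit 0) (nat_lit 16494945759)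 (nat_lit 76) (nat_lit 126988276700) (nat_lit 76) (nat_lit 125677649923) (nat_lit 1) (nat_lit 4) (nat_lit 2) (nat_lit 5) (nat_lit 2) (nat_lit 4) (nat_lit 349) (nat_lit 193) (nat_lit 178)) (XT.lf (nat_lit 0) (nat_lit 19549652283) (nat_lit 76) (nat_lit 132188195148) (nat_lit 76) (nat_lit 130819723188) (nat_lit 1) (nat_lit 4) (nat_lit 2) (nat_lit 5) (nat_lit 2) (nat_lit 4) (nat_lit 350) (nat_lit 193) (nat_lit 177))) (XT.nd (nat_lit 78) (nat_lit 0) (nat_lit 0) (XT.lf (nat_lit 0) (nat_lit 22705666553) (nat_lit 76) (nat_lit 137671707290) (nat_lit 76) (nat_lit 136248144678) (nat_lit 1) (nat_lit 4) (nat_lit 2) (nat_lit 5) (nat_lit 2) (nat_lit 4) (nat_lit 351) (nat_lit 193) (nat_lit 176)) (XT.lf (nat_lit 0) (nat_lit 25970502889) (nat_lit 76) (nat_lit 143451869107) (nat_lit 76) (nat_lit 141975839208) (nat_lit 1) (nat_lit 4) (nat_lit 2) (nat_lit 5) (nat_lit 2) (nat_lit 4) (nat_lit 352) (nat_lit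 193) (nat_lit 175)))) (XT.nd (nat_lit 156) (nat_lit 0) (nat_lit 0) (XT.nd (nat_lit 78) (nat_lit 0) (nat_lit 0) (XT.lf (nat_lit 0) (nat_lit 29351934711) (nat_lit 76) (nat_lit 149542442889) (nat_lit 76) (nat_lit 148016444146) (nat_lit 1) (nat_lit 4) (nat_lit 2) (nat_lit 5) (nat_lit 2) (nat_lit 4) (nat_lit 353) (nat_lit 193) (nat_lit 174)) (XT.lf (nat_lit 0) (nat_lit 32858013046) (nat_lit 76) (nat_lit 155957930003) (nat_lit 76) (nat_lit 154384341883) (nat_lit 1) (nat_lit 4) (nat_lit 2) (nat_lit 5) (nat_lit 2) (nat_lit 4) (nat_lit 354) (nat_lit 193) (nat_lit 173))) (XT.nd (nat_lit 78) (nat_lit 0) (nat_lit 0) (XT.lf (nat_lit 0) (nat_lit 36497085701) (nat_lit 76) (nat_lit 162713605416) (nat_lit 76) (nat_lit 161094694082) (nat_lit 1) (nat_lit 4) (nat_lit 2) (nat_lit 5) (nat_lit 2) (nat_lit 4) (nat_lit 355) (nat_lit 193) (nat_lit 172)) (XT.nd (nat_lit 78) (nat_lit 0) (nat_lit 0) (XT.lf (nat_lit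 0) (nat_lit 40277817134) (nat_lit 76) (nat_lit 169825554072) (nat_lit 76) (nat_lit 168163477771) (nat_lit 1) (nat_lit 4) (nat_lit 2) (nat_lit 5) (nat_lit 2) (nat_lit 4) (nat_lit 356) (nat_lit 193) (nat_lit 171)) (XT.lf (nat_lit 0) (nat_lit 44209209086) (nat_lit 76) (nat_lit 177310709181) (nat_lit 76) (nat_lit 175607523388) (nat_lit 1) (nat_lit 4) (nat_lit 2) (nat_lit 5) (nat_lit 2) (nat_lit 4) (nat_lit 357) (nat_lit 193) (nat_lit 170))))))) (XT.nd (nat_lit 35568) (nat_lit 0) (nat_lit 76) (XT.nd (nat_lit 312) (nat_lit 0) (nat_lit 0) (XT.nd (nat_lit 156) (nat_lit 0) (nat_lit 0) (XT.nd (nat_lit 78) (nat_lit 0) (nat_lit 0) (XT.lf (nat_lit 0) (nat_lit 48300622015) (nat_lit 76) (nat_lit 185186892541) (nat_lit 76) (nat_lit 183444554850) (nat_lit 1) (nat_lit 4) (nat_lit 2) (nat_lit 5) (nat_lit 2) (nat_lit 4) (nat_lit 358) (nat_lit 193) (nat_lit 169)) (XT.lf (nat_lit 0) (nat_lit 52561797380)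 (nat_lit 76) (nat_lit 193472856970) (nat_lit 76) (nat_lit 191693231758) (nat_lit 1) (nat_lit 4) (nat_lit 2) (nat_lit 5) (nat_lit 2) (nat_lit 4) (nat_lit 359) (nat_lit 193) (nat_lit 168))) (XT.nd (nat_lit 78) (nat_lit 0) (nat_lit 0) (XT.lf (nat_lit 0) (nat_lit 57002880837) (nat_lit 76) (nat_lit 202188330953) (nat_lit 76) (nat_lit 200373193816) (nat_lit 1) (nat_lit 4) (nat_lit 2) (nat_lit 5) (nat_lit 2) (nat_lit 4) (nat_lit 360) (nat_lit 193) (nat_lit 167)) (XT.lf (nat_lit 0) (nat_lit 61634446393) (nat_lit 76) (nat_lit 211354065621) (nat_lit 76) (nat_lit 209505107603) (nat_lit 1) (nat_lit 4) (nat_lit 2) (nat_lit 5) (nat_lit 2) (nat_lit 4) (nat_lit 361) (nat_lit 193) (nat_lit 166)))) (XT.nd (nat_lit 156) (nat_lit 0) (nat_lit 0) (XT.nd (nat_lit 78) (nat_lit 0) (nat_lit 0) (XT.lf (nat_lit 0) (nat_lit 66467521587) (nat_lit 76) (nat_lit 220991884150) (nat_lit 76) (nat_lit 219110715769) (nat_lit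 1) (nat_lit 4) (nat_lit 2) (nat_lit 5) (nat_lit 2) (nat_lit 4) (nat_lit 362) (nat_lit 193) (nat_lit 165)) (XT.lf (nat_lit 0) (nat_lit 71513613739) (nat_lit 76) (nat_lit 231124733727) (nat_lit 76) (nat_lit 229212888810) (nat_lit 1) (nat_lit 4) (nat_lit 2) (nat_lit 5) (nat_lit 2) (nat_lit 4) (nat_lit 363) (nat_lit 193) (nat_lit 164))) (XT.nd (nat_lit 78) (nat_lit 0) (nat_lit 0) (XT.lf (nat_lit 0) (nat_lit 76784737354) (nat_lit 76) (nat_lit 241776740186) (nat_lit 76) (nat_lit 239835679520) (nat_lit 1) (nat_lit 4) (nat_lit 2) (nat_lit 5) (nat_lit 2) (nat_lit 4) (nat_lit 364) (nat_lit 193) (nat_lit 163)) (XT.nd (nat_lit 34944) (nat_lit 0) (nat_lit 76) (XT.lf (nat_lit 0) (nat_lit 82293442729) (nat_lit 76) (nat_lit 252973265445) (nat_lit 76) (nat_lit 251004380257) (nat_lit 1) (nat_lit 4) (nat_lit 2) (nat_lit 5) (nat_lit 2) (nat_lit 4) (nat_lit 365) (nat_lit 193) (nat_lit 162)) (XT.lf (nat_lit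 0) (nat_lit 23233065487) (nat_lit 152) (nat_lit 12700554415) (nat_lit 0) (nat_lit 23233065487) (nat_lit 2) (nat_lit 5) (nat_lit 4) (nat_lit 4) (nat_lit 2) (nat_lit 4) (nat_lit 332) (nat_lit 194) (nat_lit 194)))))) (XT.nd (nat_lit 312) (nat_lit 0) (nat_lit 0) (XT.nd (nat_lit 156) (nat_lit 0) (nat_lit 0) (XT.nd (nat_lit 78) (nat_lit 0) (nat_lit 0) (XT.lf (nat_lit 0) (nat_lit 50530347234) (nat_lit 152) (nat_lit 23220326388) (nat_lit 0) (nat_lit 50404078452) (nat_lit 2) (nat_lit 5) (nat_lit 4) (nat_lit 4) (nat_lit 2) (nat_lit 4) (nat_lit 333) (nat_lit 194) (nat_lit 193)) (XT.lf (nat_lit 0) (nat_lit 54738778017) (nat_lit 152) (nat_lit 21039171761) (nat_lit 0) (nat_lit 54492253253) (nat_lit 2) (nat_lit 5) (nat_lit 4) (nat_lit 4) (nat_lit 2) (nat_lit 4) (nat_lit 334) (nat_lit 194) (nat_lit 192))) (XT.nd (nat_lit 78) (nat_lit 0) (nat_lit 0) (XT.lf (nat_lit 0) (nat_lit 59101443397) (nat_lit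 152) (nat_lit 18852451725) (nat_lit 0) (nat_lit 58740389125) (nat_lit 2) (nat_lit 5) (nat_lit 4) (nat_lit 4) (nat_lit 2) (nat_lit 4) (nat_lit 335) (nat_lit 194) (nat_lit 191)) (XT.lf (nat_lit 0) (nat_lit 63628730672) (nat_lit 152) (nat_lit 16654959804) (nat_lit 0) (nat_lit 63158600679) (nat_lit 2) (nat_lit 5) (nat_lit 4) (nat_lit 4) (nat_lit 2) (nat_lit 4) (nat_lit 336) (nat_lit 194) (nat_lit 190)))) (XT.nd (nat_lit 156) (nat_lit 0) (nat_lit 0) (XT.nd (nat_lit 78) (nat_lit 0) (nat_lit 0) (XT.lf (nat_lit 0) (nat_lit 68331419098) (nat_lit 152) (nat_lit 14441463873) (nat_lit 0) (nat_lit 67757407465) (nat_lit 2) (nat_lit 5) (nat_lit 4) (nat_lit 4) (nat_lit 2) (nat_lit 4) (nat_lit 337) (nat_lit 194) (nat_lit 189)) (XT.lf (nat_lit 0) (nat_lit 73220705551) (nat_lit 152) (nat_lit 12206693704) (nat_lit 0) (nat_lit 72547759024) (nat_lit 2) (nat_lit 5) (nat_lit 4) (nat_lit 4) (nat_lit 2) (nat_lit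 4) (nat_lit 338) (nat_lit 194) (nat_lit 188))) (XT.nd (nat_lit 78) (nat_lit 0) (nat_lit 0) (XT.lf (nat_lit 0) (nat_lit 78308231190) (nat_lit 152) (nat_lit 9945328417) (nat_lit 0) (nat_lit 77541060954) (nat_lit 2) (nat_lit 5) (nat_lit 4) (nat_lit 4) (nat_lit 2) (nat_lit 4) (nat_lit 339) (nat_lit 194) (nat_lit 187)) (XT.nd (nat_lit 78) (nat_lit 0) (nat_lit 0) (XT.lf (nat_lit 0) (nat_lit 83606109172) (nat_lit 152) (nat_lit 7651983807) (nat_lit 0) (nat_lit 82749202069) (nat_lit 2) (nat_lit 5) (nat_lit 4) (nat_lit 4) (nat_lit 2) (nat_lit 4) (nat_lit 340) (nat_lit 194) (nat_lit 186)) (XT.lf (nat_lit 0) (nat_lit 89126953490) (nat_lit 152) (nat_lit 5321199530) (nat_lit 0) (nat_lit 88184582706) (nat_lit 2) (nat_lit 5) (nat_lit 4) (nat_lit 4) (nat_lit 2) (nat_lit 4) (nat_lit 341) (nat_lit 194) (nat_lit 185))))))))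
noncomputable def xc8 : XT := (XT.nd (nat_lit 1326) (nat_lit 0) (nat_lit 0) (XT.nd (nat_lit 624) (nat_lit 0) (nat_lit 0) (XT.nd (nat_lit 312) (nat_lit 0) (nat_lit 0) (XT.nd (nat_lit 156) (nat_lit 76) (nat_lit 0) (XT.nd (nat_lit 78) (nat_lit 0) (nat_lit 0) (XT.lf (nat_lit 0) (nat_lit 94883909014) (nat_lit 152) (nat_lit 2947426101) (nat_lit 0) (nat_lit 93860144247) (nat_lit 2) (nat_lit 5) (nat_lit 4) (nat_lit 4) (nat_lit 2) (nat_lit 4) (nat_lit 342) (nat_lit 194) (nat_lit 184)) (XT.lf (nat_lit 0) (nat_lit 100890682780) (nat_lit 152) (nat_lit 525011677) (nat_lit 0) (nat_lit 99789399934) (nat_lit 2) (nat_lit 5) (nat_lit 4) (nat_lit 4) (nat_lit 2) (nat_lit 4) (nat_lit 343) (nat_lit 194) (nat_lit 183))) (XT.nd (nat_lit 78) (nat_lit 0) (nat_lit 0) (XT.lf (nat_lit 0) (nat_lit 2016347092) (nat_lit 76) (nat_lit 105176710365) (nat_lit 76) (nat_lit 104001600778) (nat_lit 1) (nat_lit 4) (nat_lit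 2) (nat_lit 5) (nat_lit 2) (nat_lit 4) (nat_lit 344) (nat_lit 194) (nat_lit 182)) (XT.lf (nat_lit 0) (nat_lit 4637364949) (nat_lit 76) (nat_lit 109146558576) (nat_lit 76) (nat_lit 107901137806) (nat_lit 1) (nat_lit 4) (nat_lit 2) (nat_lit 5) (nat_lit 2) (nat_lit 4) (nat_lit 345) (nat_lit 194) (nat_lit 181)))) (XT.nd (nat_lit 156) (nat_lit 0) (nat_lit 0) (XT.nd (nat_lit 78) (nat_lit 0) (nat_lit 0) (XT.lf (nat_lit 0) (nat_lit 7326923154) (nat_lit 76) (nat_lit 113343582436) (nat_lit 76) (nat_lit 112031198635) (nat_lit 1) (nat_lit 4) (nat_lit 2) (nat_lit 5) (nat_lit 2) (nat_lit 4) (nat_lit 346) (nat_lit 194) (nat_lit 180)) (XT.lf (nat_lit 0) (nat_lit 10091425416) (nat_lit 76) (nat_lit 117777774858) (nat_lit 76) (nat_lit 116401616743) (nat_lit 1) (nat_lit 4) (nat_lit 2) (nat_lit 5) (nat_lit 2) (nat_lit 4) (nat_lit 347) (nat_lit 194) (nat_lit 179))) (XT.nd (nat_lit 78) (nat_lit 0) (nat_lit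 0) (XT.lf (nat_lit 0) (nat_lit 12937453885) (nat_lit 76) (nat_lit 122459693445) (nat_lit 76) (nat_lit 121022797886) (nat_lit 1) (nat_lit 4) (nat_lit 2) (nat_lit 5) (nat_lit 2) (nat_lit 4) (nat_lit 348) (nat_lit 194) (nat_lit 178)) (XT.lf (nat_lit 0) (nat_lit 15871784818) (nat_lit 76) (nat_lit 127400485621) (nat_lit 76) (nat_lit 125905744879) (nat_lit 1) (nat_lit 4) (nat_lit 2) (nat_lit 5) (nat_lit 2) (nat_lit 4) (nat_lit 349) (nat_lit 194) (nat_lit 177))))) (XT.nd (nat_lit 312) (nat_lit 0) (nat_lit 0) (XT.nd (nat_lit 156) (nat_lit 0) (nat_lit 0) (XT.nd (nat_lit 78) (nat_lit 0) (nat_lit 0) (XT.lf (nat_lit 0) (nat_lit 18901404717) (nat_lit 76) (nat_lit 132611915177) (nat_lit 76) (nat_lit 131062083784) (nat_lit 1) (nat_lit 4) (nat_lit 2) (nat_lit 5) (nat_lit 2) (nat_lit 4) (nat_lit 350) (nat_lit 194) (nat_lit 176)) (XT.lf (nat_lit 0) (nat_lit 22033526964) (nat_lit 76) (nat_lit 138106390279)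 (nat_lit 76) (nat_lit 136504091599) (nat_lit 1) (nat_lit 4) (nat_lit 2) (nat_lit 5) (nat_lit 2) (nat_lit 4) (nat_lit 351) (nat_lit 194) (nat_lit 175))) (XT.nd (nat_lit 78) (nat_lit 0) (nat_lit 0) (XT.lf (nat_lit 0) (nat_lit 25275608992) (nat_lit 76) (nat_lit 143896993010) (nat_lit 76) (nat_lit 142244725485) (nat_lit 1) (nat_lit 4) (nat_lit 2) (nat_lit 5) (nat_lit 2) (nat_lit 4) (nat_lit 352) (nat_lit 194) (nat_lit 174)) (XT.lf (nat_lit 0) (nat_lit 28635370045) (nat_lit 76) (nat_lit 149997510520) (nat_lit 76) (nat_lit 148297653619) (nat_lit 1) (nat_lit 4) (nat_lit 2) (nat_lit 5) (nat_lit 2) (nat_lit 4) (nat_lit 353) (nat_lit 194) (nat_lit 173)))) (XT.nd (nat_lit 156) (nat_lit 0) (nat_lit 0) (XT.nd (nat_lit 78) (nat_lit 0) (nat_lit 0) (XT.lf (nat_lit 0) (nat_lit 32120809552) (nat_lit 76) (nat_lit 156422467851) (nat_lit 76) (nat_lit 154677287734) (nat_lit 1) (nat_lit 4) (nat_lit 2) (nat_lit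 5) (nat_lit 2) (nat_lit 4) (nat_lit 354) (nat_lit 194) (nat_lit 172)) (XT.lf (nat_lit 0) (nat_lit 35740226180) (nat_lit 76) (nat_lit 163187162519) (nat_lit 76) (nat_lit 161398817436) (nat_lit 1) (nat_lit 4) (nat_lit 2) (nat_lit 5) (nat_lit 2) (nat_lit 4) (nat_lit 355) (nat_lit 194) (nat_lit 171))) (XT.nd (nat_lit 78) (nat_lit 0) (nat_lit 0) (XT.lf (nat_lit 0) (nat_lit 39502237588) (nat_lit 76) (nat_lit 170307700941) (nat_lit 76) (nat_lit 168478246365) (nat_lit 1) (nat_lit 4) (nat_lit 2) (nat_lit 5) (nat_lit 2) (nat_lit 4) (nat_lit 356) (nat_lit 194) (nat_lit 170)) (XT.nd (nat_lit 78) (nat_lit 0) (nat_lit 0) (XT.lf (nat_lit 0) (nat_lit 43415800944) (nat_lit 76) (nat_lit 177801036779) (nat_lit 76) (nat_lit 175932430307) (nat_lit 1) (nat_lit 4) (nat_lit 2) (nat_lit 5) (nat_lit 2) (nat_lit 4) (nat_lit 357) (nat_lit 194) (nat_lit 169)) (XT.lf (nat_lit 0) (nat_lit 47490234258) (nat_lit 76)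 (nat_lit 185685011310) (nat_lit 76) (nat_lit 183779117316) (nat_lit 1) (nat_lit 4) (nat_lit 2) (nat_lit 5) (nat_lit 2) (nat_lit 4) (nat_lit 358) (nat_lit 194) (nat_lit 168))))))) (XT.nd (nat_lit 35412) (nat_lit 0) (nat_lit 76) (XT.nd (nat_lit 312) (nat_lit 0) (nat_lit 0) (XT.nd (nat_lit 156) (nat_lit 0) (nat_lit 0) (XT.nd (nat_lit 78) (nat_lit 0) (nat_lit 0) (XT.lf (nat_lit 0) (nat_lit 51735238562) (nat_lit 76) (nat_lit 193978395901) (nat_lit 76) (nat_lit 192036989982) (nat_lit 1) (nat_lit 4) (nat_lit 2) (nat_lit 5) (nat_lit 2) (nat_lit 4) (nat_lit 359) (nat_lit 194) (nat_lit 167)) (XT.lf (nat_lit 0) (nat_lit 56160921007) (nat_lit 76) (nat_lit 202700936707) (nat_lit 76) (nat_lit 200725709907) (nat_lit 1) (nat_lit 4) (nat_lit 2) (nat_lit 5) (nat_lit 2) (nat_lit 4) (nat_lit 360) (nat_lit 194) (nat_lit 166))) (XT.nd (nat_lit 78) (nat_lit 0) (nat_lit 0) (XT.lf (nat_lit 0) (nat_lit 60777818934)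 (nat_lit 76) (nat_lit 211873401681) (nat_lit 76) (nat_lit 209865964518) (nat_lit 1) (nat_lit 4) (nat_lit 2) (nat_lit 5) (nat_lit 2) (nat_lit 4) (nat_lit 361) (nat_lit 194) (nat_lit 165)) (XT.lf (nat_lit 0) (nat_lit 65596924956) (nat_lit 76) (nat_lit 221517630025) (nat_lit 76) (nat_lit 219479516327) (nat_lit 1) (nat_lit 4) (nat_lit 2) (nat_lit 5) (nat_lit 2) (nat_lit 4) (nat_lit 362) (nat_lit 194) (nat_lit 164)))) (XT.nd (nat_lit 156) (nat_lit 0) (nat_lit 0) (XT.nd (nat_lit 78) (nat_lit 0) (nat_lit 0) (XT.lf (nat_lit 0) (nat_lit 70629713135) (nat_lit 76) (nat_lit 231656584189) (nat_lit 76) (nat_lit 229589254742) (nat_lit 1) (nat_lit 4) (nat_lit 2) (nat_lit 5) (nat_lit 2) (nat_lit 4) (nat_lit 363) (nat_lit 194) (nat_lit 163)) (XT.lf (nat_lit 0) (nat_lit 75888166301) (nat_lit 76) (nat_lit 242314404539) (nat_lit 76) (nat_lit 240219250570) (nat_lit 1) (nat_lit 4) (nat_lit 2) (nat_lit 5)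 (nat_lit 2) (nat_lit 4) (nat_lit 364) (nat_lit 194) (nat_lit 162))) (XT.nd (nat_lit 34788) (nat_lit 0) (nat_lit 76) (XT.lf (nat_lit 0) (nat_lit 81384804580) (nat_lit 76) (nat_lit 253516466839) (nat_lit 76) (nat_lit 251394813323) (nat_lit 1) (nat_lit 4) (nat_lit 2) (nat_lit 5) (nat_lit 2) (nat_lit 4) (nat_lit 365) (nat_lit 194) (nat_lit 161)) (XT.nd (nat_lit 78) (nat_lit 0) (nat_lit 0) (XT.lf (nat_lit 0) (nat_lit 19448133121) (nat_lit 152) (nat_lit 14861948193) (nat_lit 0) (nat_lit 19448133121) (nat_lit 2) (nat_lit 5) (nat_lit 4) (nat_lit 4) (nat_lit 2) (nat_lit 4) (nat_lit 330) (nat_lit 195) (nat_lit 195)) (XT.lf (nat_lit 0) (nat_lit 42669034752) (nat_lit 152) (nat_lit 27586711427) (nat_lit 0) (nat_lit 42536452532) (nat_lit 2) (nat_lit 5) (nat_lit 4) (nat_lit 4) (nat_lit 2) (nat_lit 4) (nat_lit 331) (nat_lit 195) (nat_lit 194)))))) (XT.nd (nat_lit 312) (nat_lit 0) (nat_lit 0) (XT.nd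 (nat_lit 156) (nat_lit 0) (nat_lit 0) (XT.nd (nat_lit 78) (nat_lit 0) (nat_lit 0) (XT.lf (nat_lit 0) (nat_lit 46568495583) (nat_lit 152) (nat_lit 25456767505) (nat_lit 0) (nat_lit 46309644580) (nat_lit 2) (nat_lit 5) (nat_lit 4) (nat_lit 4) (nat_lit 2) (nat_lit 4) (nat_lit 332) (nat_lit 195) (nat_lit 193)) (XT.lf (nat_lit 0) (nat_lit 50603933165) (nat_lit 152) (nat_lit 23328993326) (nat_lit 0) (nat_lit 50224826179) (nat_lit 2) (nat_lit 5) (nat_lit 4) (nat_lit 4) (nat_lit 2) (nat_lit 4) (nat_lit 333) (nat_lit 195) (nat_lit 192))) (XT.nd (nat_lit 78) (nat_lit 0) (nat_lit 0) (XT.lf (nat_lit 0) (nat_lit 54784955684) (nat_lit 152) (nat_lit 21198322759) (nat_lit 0) (nat_lit 54291319191) (nat_lit 2) (nat_lit 5) (nat_lit 4) (nat_lit 4) (nat_lit 2) (nat_lit 4) (nat_lit 334) (nat_lit 195) (nat_lit 191)) (XT.lf (nat_lit 0) (nat_lit 59121517954) (nat_lit 152) (nat_lit 19059682779) (nat_lit 0) (nat_lit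 58518805740) (nat_lit 2) (nat_lit 5) (nat_lit 4) (nat_lit 4) (nat_lit 2) (nat_lit 4) (nat_lit 335) (nat_lit 195) (nat_lit 190)))) (XT.nd (nat_lit 156) (nat_lit 0) (nat_lit 0) (XT.nd (nat_lit 78) (nat_lit 0) (nat_lit 0) (XT.lf (nat_lit 0) (nat_lit 63623945125) (nat_lit 152) (nat_lit 16907981388) (nat_lit 0) (nat_lit 62917351272) (nat_lit 2) (nat_lit 5) (nat_lit 4) (nat_lit 4) (nat_lit 2) (nat_lit 4) (nat_lit 336) (nat_lit 195) (nat_lit 189)) (XT.lf (nat_lit 0) (nat_lit 68302957261) (nat_lit 152) (nat_lit 14738095486) (nat_lit 0) (nat_lit 67497428513) (nat_lit 2) (nat_lit 5) (nat_lit 4) (nat_lit 4) (nat_lit 2) (nat_lit 4) (nat_lit 337) (nat_lit 195) (nat_lit 188))) (XT.nd (nat_lit 78) (nat_lit 0) (nat_lit 0) (XT.lf (nat_lit 0) (nat_lit 73169694868) (nat_lit 152) (nat_lit 12544858678) (nat_lit 0) (nat_lit 72269942410) (nat_lit 2) (nat_lit 5) (nat_lit 4) (nat_lit 4) (nat_lit 2) (nat_lit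 4) (nat_lit 338) (nat_lit 195) (nat_lit 187)) (XT.nd (nat_lit 78) (nat_lit 0) (nat_lit 0) (XT.lf (nat_lit 0) (nat_lit 78235745414) (nat_lit 152) (nat_lit 10323048972) (nat_lit 0) (nat_lit 77246256091) (nat_lit 2) (nat_lit 5) (nat_lit 4) (nat_lit 4) (nat_lit 2) (nat_lit 4) (nat_lit 339) (nat_lit 195) (nat_lit 186)) (XT.lf (nat_lit 0) (nat_lit 83513170926) (nat_lit 152) (nat_lit 8067376344) (nat_lit 0) (nat_lit 82438217922) (nat_lit 2) (nat_lit 5) (nat_lit 4) (nat_lit 4) (nat_lit 2) (nat_lit 4) (nat_lit 340) (nat_lit 195) (nat_lit 185))))))))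
noncomputable def xc9 : XT := (XT.nd (nat_lit 1326) (nat_lit 0) (nat_lit 0) (XT.nd (nat_lit 624) (nat_lit 0) (nat_lit 0) (XT.nd (nat_lit 312) (nat_lit 0) (nat_lit 0) (XT.nd (nat_lit 156) (nat_lit 76) (nat_lit 0) (XT.nd (nat_lit 78) (nat_lit 0) (nat_lit 0) (XT.lf (nat_lit 0) (nat_lit 89014536703) (nat_lit 152) (nat_lit 5772470146) (nat_lit 0) (nat_lit 87858189716) (nat_lit 2) (nat_lit 5) (nat_lit 4) (nat_lit 4) (nat_lit 2) (nat_lit 4) (nat_lit 341) (nat_lit 195) (nat_lit 184)) (XT.lf (nat_lit 0) (nat_lit 94752941235) (nat_lit 152) (nat_lit 3432866316) (nat_lit 0) (nat_lit 93519076168) (nat_lit 2) (nat_lit 5) (nat_lit 4) (nat_lit 4) (nat_lit 2) (nat_lit 4) (nat_lit 342) (nat_lit 195) (nat_lit 183))) (XT.nd (nat_lit 78) (nat_lit 76) (nat_lit 0) (XT.lf (nat_lit 0) (nat_lit 100742047388) (nat_lit 152) (nat_lit 1042994367) (nat_lit 0) (nat_lit 99434355580) (nat_lit 2) (nat_lit 5) (nat_lit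 4) (nat_lit 4) (nat_lit 2) (nat_lit 4) (nat_lit 343) (nat_lit 195) (nat_lit 182)) (XT.lf (nat_lit 0) (nat_lit 1449219960) (nat_lit 76) (nat_lit 105569521366) (nat_lit 76) (nat_lit 104191518375) (nat_lit 1) (nat_lit 4) (nat_lit 2) (nat_lit 5) (nat_lit 2) (nat_lit 4) (nat_lit 344) (nat_lit 195) (nat_lit 181)))) (XT.nd (nat_lit 156) (nat_lit 0) (nat_lit 0) (XT.nd (nat_lit 78) (nat_lit 0) (nat_lit 0) (XT.lf (nat_lit 0) (nat_lit 4039744868) (nat_lit 76) (nat_lit 109553361400) (nat_lit 76) (nat_lit 108108395379) (nat_lit 1) (nat_lit 4) (nat_lit 2) (nat_lit 5) (nat_lit 2) (nat_lit 4) (nat_lit 345) (nat_lit 195) (nat_lit 180)) (XT.lf (nat_lit 0) (nat_lit 6700262169) (nat_lit 76) (nat_lit 113763710806) (nat_lit 76) (nat_lit 112254970470) (nat_lit 1) (nat_lit 4) (nat_lit 2) (nat_lit 5) (nat_lit 2) (nat_lit 4) (nat_lit 346) (nat_lit 195) (nat_lit 179))) (XT.nd (nat_lit 78) (nat_lit 0) (nat_lit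 0) (XT.lf (nat_lit 0) (nat_lit 9437106428) (nat_lit 76) (nat_lit 118210594225) (nat_lit 76) (nat_lit 116641116446) (nat_lit 1) (nat_lit 4) (nat_lit 2) (nat_lit 5) (nat_lit 2) (nat_lit 4) (nat_lit 347) (nat_lit 195) (nat_lit 178)) (XT.lf (nat_lit 0) (nat_lit 12256793941) (nat_lit 76) (nat_lit 122904599476) (nat_lit 76) (nat_lit 121277276512) (nat_lit 1) (nat_lit 4) (nat_lit 2) (nat_lit 5) (nat_lit 2) (nat_lit 4) (nat_lit 348) (nat_lit 195) (nat_lit 177))))) (XT.nd (nat_lit 312) (nat_lit 0) (nat_lit 0) (XT.nd (nat_lit 156) (nat_lit 0) (nat_lit 0) (XT.nd (nat_lit 78) (nat_lit 0) (nat_lit 0) (XT.lf (nat_lit 0) (nat_lit 15166038249) (nat_lit 76) (nat_lit 127856902760) (nat_lit 76) (nat_lit 126174489145) (nat_lit 1) (nat_lit 4) (nat_lit 2) (nat_lit 5) (nat_lit 2) (nat_lit 4) (nat_lit 349) (nat_lit 195) (nat_lit 176)) (XT.lf (nat_lit 0) (nat_lit 18171766126) (nat_lit 76) (nat_lit 133079295276)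 (nat_lit 76) (nat_lit 131344414374) (nat_lit 1) (nat_lit 4) (nat_lit 2) (nat_lit 5) (nat_lit 2) (nat_lit 4) (nat_lit 350) (nat_lit 195) (nat_lit 175))) (XT.nd (nat_lit 78) (nat_lit 0) (nat_lit 0) (XT.lf (nat_lit 0) (nat_lit 21281134065) (nat_lit 76) (nat_lit 138584211292) (nat_lit 76) (nat_lit 136799361546) (nat_lit 1) (nat_lit 4) (nat_lit 2) (nat_lit 5) (nat_lit 2) (nat_lit 4) (nat_lit 351) (nat_lit 195) (nat_lit 174)) (XT.lf (nat_lit 0) (nat_lit 24501545323) (nat_lit 76) (nat_lit 144384757751) (nat_lit 76) (nat_lit 142552318629) (nat_lit 1) (nat_lit 4) (nat_lit 2) (nat_lit 5) (nat_lit 2) (nat_lit 4) (nat_lit 352) (nat_lit 195) (nat_lit 173)))) (XT.nd (nat_lit 156) (nat_lit 0) (nat_lit 0) (XT.nd (nat_lit 78) (nat_lit 0) (nat_lit 0) (XT.lf (nat_lit 0) (nat_lit 27840667547) (nat_lit 76) (nat_lit 150494745478) (nat_lit 76) (nat_lit 148616983141) (nat_lit 1) (nat_lit 4) (nat_lit 2) (nat_lit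 5) (nat_lit 2) (nat_lit 4) (nat_lit 353) (nat_lit 195) (nat_lit 172)) (XT.lf (nat_lit 0) (nat_lit 31306451028) (nat_lit 76) (nat_lit 156928722063) (nat_lit 76) (nat_lit 155007794758) (nat_lit 1) (nat_lit 4) (nat_lit 2) (nat_lit 5) (nat_lit 2) (nat_lit 4) (nat_lit 354) (nat_lit 195) (nat_lit 171))) (XT.nd (nat_lit 78) (nat_lit 0) (nat_lit 0) (XT.lf (nat_lit 0) (nat_lit 34907147631) (nat_lit 76) (nat_lit 163702006497) (nat_lit 76) (nat_lit 161739969700) (nat_lit 1) (nat_lit 4) (nat_lit 2) (nat_lit 5) (nat_lit 2) (nat_lit 4) (nat_lit 355) (nat_lit 195) (nat_lit 170)) (XT.nd (nat_lit 78) (nat_lit 0) (nat_lit 0) (XT.lf (nat_lit 0) (nat_lit 38651330443) (nat_lit 76) (nat_lit 170830725648) (nat_lit 76) (nat_lit 168829536955) (nat_lit 1) (nat_lit 4) (nat_lit 2) (nat_lit 5) (nat_lit 2) (nat_lit 4) (nat_lit 356) (nat_lit 195) (nat_lit 169)) (XT.lf (nat_lit 0) (nat_lit 42547914185) (nat_lit 76)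 (nat_lit 178331852658) (nat_lit 76) (nat_lit 176293376443) (nat_lit 1) (nat_lit 4) (nat_lit 2) (nat_lit 5) (nat_lit 2) (nat_lit 4) (nat_lit 357) (nat_lit 195) (nat_lit 168))))))) (XT.nd (nat_lit 35256) (nat_lit 0) (nat_lit 76) (XT.nd (nat_lit 312) (nat_lit 0) (nat_lit 0) (XT.nd (nat_lit 156) (nat_lit 0) (nat_lit 0) (XT.nd (nat_lit 78) (nat_lit 0) (nat_lit 0) (XT.lf (nat_lit 0) (nat_lit 46606176437) (nat_lit 76) (nat_lit 186223247351) (nat_lit 76) (nat_lit 184149259212) (nat_lit 1) (nat_lit 4) (nat_lit 2) (nat_lit 5) (nat_lit 2) (nat_lit 4) (nat_lit 358) (nat_lit 195) (nat_lit 167)) (XT.lf (nat_lit 0) (nat_lit 50835779729) (nat_lit 76) (nat_lit 194523698765) (nat_lit 76) (nat_lit 192415889744) (nat_lit 1) (nat_lit 4) (nat_lit 2) (nat_lit 5) (nat_lit 2) (nat_lit 4) (nat_lit 359) (nat_lit 195) (nat_lit 166))) (XT.nd (nat_lit 78) (nat_lit 0) (nat_lit 0) (XT.lf (nat_lit 0) (nat_lit 55246794545)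 (nat_lit 76) (nat_lit 203252969876) (nat_lit 76) (nat_lit 201112950493) (nat_lit 1) (nat_lit 4) (nat_lit 2) (nat_lit 5) (nat_lit 2) (nat_lit 4) (nat_lit 360) (nat_lit 195) (nat_lit 165)) (XT.lf (nat_lit 0) (nat_lit 59849723300) (nat_lit 76) (nat_lit 212431844666) (nat_lit 76) (nat_lit 210261148746) (nat_lit 1) (nat_lit 4) (nat_lit 2) (nat_lit 5) (nat_lit 2) (nat_lit 4) (nat_lit 361) (nat_lit 195) (nat_lit 164)))) (XT.nd (nat_lit 156) (nat_lit 0) (nat_lit 0) (XT.nd (nat_lit 78) (nat_lit 0) (nat_lit 0) (XT.lf (nat_lit 0) (nat_lit 64655525350) (nat_lit 76) (nat_lit 222082177597) (nat_lit 76) (nat_lit 219882265929) (nat_lit 1) (nat_lit 4) (nat_lit 2) (nat_lit 5) (nat_lit 2) (nat_lit 4) (nat_lit 362) (nat_lit 195) (nat_lit 163)) (XT.lf (nat_lit 0) (nat_lit 69675643079) (nat_lit 76) (nat_lit 232226945653) (nat_lit 76) (nat_lit 229999209462) (nat_lit 1) (nat_lit 4) (nat_lit 2) (nat_lit 5)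 (nat_lit 2) (nat_lit 4) (nat_lit 363) (nat_lit 195) (nat_lit 162))) (XT.nd (nat_lit 78) (nat_lit 0) (nat_lit 0) (XT.lf (nat_lit 0) (nat_lit 74922029150) (nat_lit 76) (nat_lit 242890303042) (nat_lit 76) (nat_lit 240636067306) (nat_lit 1) (nat_lit 4) (nat_lit 2) (nat_lit 5) (nat_lit 2) (nat_lit 4) (nat_lit 364) (nat_lit 195) (nat_lit 161)) (XT.nd (nat_lit 34632) (nat_lit 0) (nat_lit 76) (XT.lf (nat_lit 0) (nat_lit 80407174957) (nat_lit 76) (nat_lit 254097638713) (nat_lit 76) (nat_lit 251818165315) (nat_lit 1) (nat_lit 4) (nat_lit 2) (nat_lit 5) (nat_lit 2) (nat_lit 4) (nat_lit 365) (nat_lit 195) (nat_lit 160)) (XT.lf (nat_lit 0) (nat_lit 15933840785) (nat_lit 152) (nat_lit 16989504611) (nat_lit 0) (nat_lit 15933840785) (nat_lit 2) (nat_lit 5) (nat_lit 4) (nat_lit 4) (nat_lit 2) (nat_lit 4) (nat_lit 328) (nat_lit 196) (nat_lit 196)))))) (XT.nd (nat_lit 312) (nat_lit 0) (nat_lit 0) (XT.nd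 (nat_lit 156) (nat_lit 0) (nat_lit 0) (XT.nd (nat_lit 78) (nat_lit 0) (nat_lit 0) (XT.lf (nat_lit 0) (nat_lit 35380418605) (nat_lit 152) (nat_lit 31873410917) (nat_lit 0) (nat_lit 35241207273) (nat_lit 2) (nat_lit 5) (nat_lit 4) (nat_lit 4) (nat_lit 2) (nat_lit 4) (nat_lit 329) (nat_lit 196) (nat_lit 195)) (XT.lf (nat_lit 0) (nat_lit 39003749083) (nat_lit 152) (nat_lit 29782337995) (nat_lit 0) (nat_lit 38731955530) (nat_lit 2) (nat_lit 5) (nat_lit 4) (nat_lit 4) (nat_lit 2) (nat_lit 4) (nat_lit 330) (nat_lit 196) (nat_lit 194))) (XT.nd (nat_lit 78) (nat_lit 0) (nat_lit 0) (XT.lf (nat_lit 0) (nat_lit 42746299980) (nat_lit 152) (nat_lit 27700811712) (nat_lit 0) (nat_lit 42348237645) (nat_lit 2) (nat_lit 5) (nat_lit 4) (nat_lit 4) (nat_lit 2) (nat_lit 4) (nat_lit 331) (nat_lit 196) (nat_lit 193)) (XT.lf (nat_lit 0) (nat_lit 46616982133) (nat_lit 152) (nat_lit 25623876053) (nat_lit 0) (nat_lit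 46098663815) (nat_lit 2) (nat_lit 5) (nat_lit 4) (nat_lit 4) (nat_lit 2) (nat_lit 4) (nat_lit 332) (nat_lit 196) (nat_lit 192)))) (XT.nd (nat_lit 156) (nat_lit 0) (nat_lit 0) (XT.nd (nat_lit 78) (nat_lit 0) (nat_lit 0) (XT.lf (nat_lit 0) (nat_lit 50625011450) (nat_lit 152) (nat_lit 23546585932) (nat_lit 0) (nat_lit 49992163625) (nat_lit 2) (nat_lit 5) (nat_lit 4) (nat_lit 4) (nat_lit 2) (nat_lit 4) (nat_lit 333) (nat_lit 196) (nat_lit 191)) (XT.lf (nat_lit 0) (nat_lit 54779930860) (nat_lit 152) (nat_lit 21463995422) (nat_lit 0) (nat_lit 54038007313) (nat_lit 2) (nat_lit 5) (nat_lit 4) (nat_lit 4) (nat_lit 2) (nat_lit 4) (nat_lit 334) (nat_lit 196) (nat_lit 190))) (XT.nd (nat_lit 78) (nat_lit 0) (nat_lit 0) (XT.lf (nat_lit 0) (nat_lit 59091633026) (nat_lit 152) (nat_lit 19371145973) (nat_lit 0) (nat_lit 58245827841) (nat_lit 2) (nat_lit 5) (nat_lit 4) (nat_lit 4) (nat_lit 2) (nat_lit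 4) (nat_lit 335) (nat_lit 196) (nat_lit 189)) (XT.nd (nat_lit 78) (nat_lit 0) (nat_lit 0) (XT.lf (nat_lit 0) (nat_lit 63570383908) (nat_lit 152) (nat_lit 17263054610) (nat_lit 0) (nat_lit 62625643828) (nat_lit 2) (nat_lit 5) (nat_lit 4) (nat_lit 4) (nat_lit 2) (nat_lit 4) (nat_lit 336) (nat_lit 196) (nat_lit 188)) (XT.lf (nat_lit 0) (nat_lit 68226847197) (nat_lit 152) (nat_lit 15134702069) (nat_lit 0) (nat_lit 67187883407) (nat_lit 2) (nat_lit 5) (nat_lit 4) (nat_lit 4) (nat_lit 2) (nat_lit 4) (nat_lit 337) (nat_lit 196) (nat_lit 187))))))))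
noncomputable def xc10 : XT := (XT.nd (nat_lit 1326) (nat_lit 0) (nat_lit 0) (XT.nd (nat_lit 624) (nat_lit 0) (nat_lit 0) (XT.nd (nat_lit 312) (nat_lit 76) (nat_lit 0) (XT.nd (nat_lit 156) (nat_lit 0) (nat_lit 0) (XT.nd (nat_lit 78) (nat_lit 0) (nat_lit 0) (XT.lf (nat_lit 0) (nat_lit 73072109710) (nat_lit 152) (nat_lit 12981020842) (nat_lit 0) (nat_lit 71943409055) (nat_lit 2) (nat_lit 5) (nat_lit 4) (nat_lit 4) (nat_lit 2) (nat_lit 4) (nat_lit 338) (nat_lit 196) (nat_lit 186)) (XT.lf (nat_lit 0) (nat_lit 78117707788) (nat_lit 152) (nat_lit 10796883118) (nat_lit 0) (nat_lit 76903543451) (nat_lit 2) (nat_lit 5) (nat_lit 4) (nat_lit 4) (nat_lit 2) (nat_lit 4) (nat_lit 339) (nat_lit 196) (nat_lit 185))) (XT.nd (nat_lit 78) (nat_lit 0) (nat_lit 0) (XT.lf (nat_lit 0) (nat_lit 83375654758) (nat_lit 152) (nat_lit 8577088569) (nat_lit 0) (nat_lit 82080096438) (nat_lit 2) (nat_lit 5) (nat_lit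 4) (nat_lit 4) (nat_lit 2) (nat_lit 4) (nat_lit 340) (nat_lit 196) (nat_lit 184)) (XT.lf (nat_lit 0) (nat_lit 88858469542) (nat_lit 152) (nat_lit 6316351970) (nat_lit 0) (nat_lit 87485393144) (nat_lit 2) (nat_lit 5) (nat_lit 4) (nat_lit 4) (nat_lit 2) (nat_lit 4) (nat_lit 341) (nat_lit 196) (nat_lit 183)))) (XT.nd (nat_lit 156) (nat_lit 76) (nat_lit 0) (XT.nd (nat_lit 78) (nat_lit 0) (nat_lit 0) (XT.lf (nat_lit 0) (nat_lit 94579206462) (nat_lit 152) (nat_lit 4009290614) (nat_lit 0) (nat_lit 93132303322) (nat_lit 2) (nat_lit 5) (nat_lit 4) (nat_lit 4) (nat_lit 2) (nat_lit 4) (nat_lit 342) (nat_lit 196) (nat_lit 182)) (XT.lf (nat_lit 0) (nat_lit 100551486319) (nat_lit 152) (nat_lit 1650411499) (nat_lit 0) (nat_lit 99034271996) (nat_lit 2) (nat_lit 5) (nat_lit 4) (nat_lit 4) (nat_lit 2) (nat_lit 4) (nat_lit 343) (nat_lit 196) (nat_lit 181))) (XT.nd (nat_lit 78) (nat_lit 0) (nat_lit 0)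 (XT.lf (nat_lit 0) (nat_lit 791225925) (nat_lit 76) (nat_lit 106010656155) (nat_lit 76) (nat_lit 104426478802) (nat_lit 1) (nat_lit 4) (nat_lit 2) (nat_lit 5) (nat_lit 2) (nat_lit 4) (nat_lit 344) (nat_lit 196) (nat_lit 180)) (XT.lf (nat_lit 0) (nat_lit 3352709930) (nat_lit 76) (nat_lit 110007821736) (nat_lit 76) (nat_lit 108359870067) (nat_lit 1) (nat_lit 4) (nat_lit 2) (nat_lit 5) (nat_lit 2) (nat_lit 4) (nat_lit 345) (nat_lit 196) (nat_lit 179))))) (XT.nd (nat_lit 312) (nat_lit 0) (nat_lit 0) (XT.nd (nat_lit 156) (nat_lit 0) (nat_lit 0) (XT.nd (nat_lit 78) (nat_lit 0) (nat_lit 0) (XT.lf (nat_lit 0) (nat_lit 5985569227) (nat_lit 76) (nat_lit 114230862138) (nat_lit 76) (nat_lit 112522173027) (nat_lit 1) (nat_lit 4) (nat_lit 2) (nat_lit 5) (nat_lit 2) (nat_lit 4) (nat_lit 346) (nat_lit 196) (nat_lit 178)) (XT.lf (nat_lit 0) (nat_lit 8696072531) (nat_lit 76) (nat_lit 118689832221) (nat_lit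 76) (nat_lit 116923297925) (nat_lit 1) (nat_lit 4) (nat_lit 2) (nat_lit 5) (nat_lit 2) (nat_lit 4) (nat_lit 347) (nat_lit 196) (nat_lit 177))) (XT.nd (nat_lit 78) (nat_lit 0) (nat_lit 0) (XT.lf (nat_lit 0) (nat_lit 11490673419) (nat_lit 76) (nat_lit 123395348579) (nat_lit 76) (nat_lit 121573723632) (nat_lit 1) (nat_lit 4) (nat_lit 2) (nat_lit 5) (nat_lit 2) (nat_lit 4) (nat_lit 348) (nat_lit 196) (nat_lit 176)) (XT.lf (nat_lit 0) (nat_lit 14376025705) (nat_lit 76) (nat_lit 128358614823) (nat_lit 76) (nat_lit 126484522589) (nat_lit 1) (nat_lit 4) (nat_lit 2) (nat_lit 5) (nat_lit 2) (nat_lit 4) (nat_lit 349) (nat_lit 196) (nat_lit 175)))) (XT.nd (nat_lit 156) (nat_lit 0) (nat_lit 0) (XT.nd (nat_lit 78) (nat_lit 0) (nat_lit 0) (XT.lf (nat_lit 0) (nat_lit 17358999273) (nat_lit 76) (nat_lit 133591448253) (nat_lit 76) (nat_lit 131667387175) (nat_lit 1) (nat_lit 4) (nat_lit 2) (nat_lit 5)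 (nat_lit 2) (nat_lit 4) (nat_lit 350) (nat_lit 196) (nat_lit 174)) (XT.lf (nat_lit 0) (nat_lit 20446696443) (nat_lit 76) (nat_lit 139106307997) (nat_lit 76) (nat_lit 137134657543) (nat_lit 1) (nat_lit 4) (nat_lit 2) (nat_lit 5) (nat_lit 2) (nat_lit 4) (nat_lit 351) (nat_lit 196) (nat_lit 173))) (XT.nd (nat_lit 78) (nat_lit 0) (nat_lit 0) (XT.lf (nat_lit 0) (nat_lit 23646468873) (nat_lit 76) (nat_lit 144916324674) (nat_lit 76) (nat_lit 142899351004) (nat_lit 1) (nat_lit 4) (nat_lit 2) (nat_lit 5) (nat_lit 2) (nat_lit 4) (nat_lit 352) (nat_lit 196) (nat_lit 172)) (XT.nd (nat_lit 78) (nat_lit 0) (nat_lit 0) (XT.lf (nat_lit 0) (nat_lit 26965935071) (nat_lit 76) (nat_lit 151035331655) (nat_lit 76) (nat_lit 148975193019) (nat_lit 1) (nat_lit 4) (nat_lit 2) (nat_lit 5) (nat_lit 2) (nat_lit 4) (nat_lit 353) (nat_lit 196) (nat_lit 171)) (XT.lf (nat_lit 0) (nat_lit 30412998526) (nat_lit 76) (nat_lit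 157477898005) (nat_lit 76) (nat_lit 155376649877) (nat_lit 1) (nat_lit 4) (nat_lit 2) (nat_lit 5) (nat_lit 2) (nat_lit 4) (nat_lit 354) (nat_lit 196) (nat_lit 170))))))) (XT.nd (nat_lit 702) (nat_lit 0) (nat_lit 0) (XT.nd (nat_lit 312) (nat_lit 0) (nat_lit 0) (XT.nd (nat_lit 156) (nat_lit 0) (nat_lit 0) (XT.nd (nat_lit 78) (nat_lit 0) (nat_lit 0) (XT.lf (nat_lit 0) (nat_lit 33995866533) (nat_lit 76) (nat_lit 164259363169) (nat_lit 76) (nat_lit 162118963143) (nat_lit 1) (nat_lit 4) (nat_lit 2) (nat_lit 5) (nat_lit 2) (nat_lit 4) (nat_lit 355) (nat_lit 196) (nat_lit 169)) (XT.lf (nat_lit 0) (nat_lit 37723069730) (nat_lit 76) (nat_lit 171395873492) (nat_lit 76) (nat_lit 169218185945) (nat_lit 1) (nat_lit 4) (nat_lit 2) (nat_lit 5) (nat_lit 2) (nat_lit 4) (nat_lit 356) (nat_lit 196) (nat_lit 168))) (XT.nd (nat_lit 78) (nat_lit 0) (nat_lit 0) (XT.lf (nat_lit 0) (nat_lit 41603482410) (nat_lit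 76) (nat_lit 178904420664) (nat_lit 76) (nat_lit 176691221192) (nat_lit 1) (nat_lit 4) (nat_lit 2) (nat_lit 5) (nat_lit 2) (nat_lit 4) (nat_lit 357) (nat_lit 196) (nat_lit 167)) (XT.lf (nat_lit 0) (nat_lit 45646343651) (nat_lit 76) (nat_lit 186802882179) (nat_lit 76) (nat_lit 184555861826) (nat_lit 1) (nat_lit 4) (nat_lit 2) (nat_lit 5) (nat_lit 2) (nat_lit 4) (nat_lit 358) (nat_lit 196) (nat_lit 166)))) (XT.nd (nat_lit 156) (nat_lit 0) (nat_lit 0) (XT.nd (nat_lit 78) (nat_lit 0) (nat_lit 0) (XT.lf (nat_lit 0) (nat_lit 49861279314) (nat_lit 76) (nat_lit 195110063899) (nat_lit 76) (nat_lit 192830833183) (nat_lit 1) (nat_lit 4) (nat_lit 2) (nat_lit 5) (nat_lit 2) (nat_lit 4) (nat_lit 359) (nat_lit 196) (nat_lit 165)) (XT.lf (nat_lit 0) (nat_lit 54258324958) (nat_lit 76) (nat_lit 203845744826) (nat_lit 76) (nat_lit 201535837575) (nat_lit 1) (nat_lit 4) (nat_lit 2) (nat_lit 5) (nat_lit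 2) (nat_lit 4) (nat_lit 360) (nat_lit 196) (nat_lit 164))) (XT.nd (nat_lit 78) (nat_lit 0) (nat_lit 0) (XT.lf (nat_lit 0) (nat_lit 58847949741) (nat_lit 76) (nat_lit 213030724202) (nat_lit 76) (nat_lit 210691601202) (nat_lit 1) (nat_lit 4) (nat_lit 2) (nat_lit 5) (nat_lit 2) (nat_lit 4) (nat_lit 361) (nat_lit 196) (nat_lit 163)) (XT.nd (nat_lit 78) (nat_lit 0) (nat_lit 0) (XT.lf (nat_lit 0) (nat_lit 63641081341) (nat_lit 76) (nat_lit 222686871025) (nat_lit 76) (nat_lit 220319923502) (nat_lit 1) (nat_lit 4) (nat_lit 2) (nat_lit 5) (nat_lit 2) (nat_lit 4) (nat_lit 362) (nat_lit 196) (nat_lit 162)) (XT.lf (nat_lit 0) (nat_lit 68649131975) (nat_lit 76) (nat_lit 232837176120) (nat_lit 76) (nat_lit 230443729052) (nat_lit 1) (nat_lit 4) (nat_lit 2) (nat_lit 5) (nat_lit 2) (nat_lit 4) (nat_lit 363) (nat_lit 196) (nat_lit 161)))))) (XT.nd (nat_lit 34710) (nat_lit 0) (nat_lit 76) (XT.nd (nat_lit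 34554) (nat_lit 0) (nat_lit 76) (XT.nd (nat_lit 78) (nat_lit 0) (nat_lit 0) (XT.lf (nat_lit 0) (nat_lit 73884025574) (nat_lit 76) (nat_lit 243505806881) (nat_lit 76) (nat_lit 241087122151) (nat_lit 1) (nat_lit 4) (nat_lit 2) (nat_lit 5) (nat_lit 2) (nat_lit 4) (nat_lit 364) (nat_lit 196) (nat_lit 160)) (XT.lf (nat_lit 0) (nat_lit 79358226169) (nat_lit 76) (nat_lit 254718164810) (nat_lit 76) (nat_lit 252275444211) (nat_lit 1) (nat_lit 4) (nat_lit 2) (nat_lit 5) (nat_lit 2) (nat_lit 4) (nat_lit 365) (nat_lit 196) (nat_lit 159))) (XT.nd (nat_lit 78) (nat_lit 0) (nat_lit 0) (XT.lf (nat_lit 0) (nat_lit 12660964577) (nat_lit 152) (nat_lit 19094724974) (nat_lit 0) (nat_lit 12660964577) (nat_lit 2) (nat_lit 5) (nat_lit 4) (nat_lit 4) (nat_lit 2) (nat_lit 4) (nat_lit 326) (nat_lit 197) (nat_lit 197)) (XT.lf (nat_lit 0) (nat_lit 28603346216) (nat_lit 152) (nat_lit 36104146241) (nat_lit 0) (nat_lit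 28457174317) (nat_lit 2) (nat_lit 5) (nat_lit 4) (nat_lit 4) (nat_lit 2) (nat_lit 4) (nat_lit 327) (nat_lit 197) (nat_lit 196)))) (XT.nd (nat_lit 156) (nat_lit 0) (nat_lit 0) (XT.nd (nat_lit 78) (nat_lit 0) (nat_lit 0) (XT.lf (nat_lit 0) (nat_lit 31980538552) (nat_lit 152) (nat_lit 34040372912) (nat_lit 0) (nat_lit 31695155321) (nat_lit 2) (nat_lit 5) (nat_lit 4) (nat_lit 4) (nat_lit 2) (nat_lit 4) (nat_lit 328) (nat_lit 197) (nat_lit 195)) (XT.lf (nat_lit 0) (nat_lit 35461547094) (nat_lit 152) (nat_lit 31993216216) (nat_lit 0) (nat_lit 35043581643) (nat_lit 2) (nat_lit 5) (nat_lit 4) (nat_lit 4) (nat_lit 2) (nat_lit 4) (nat_lit 329) (nat_lit 197) (nat_lit 194))) (XT.nd (nat_lit 78) (nat_lit 0) (nat_lit 0) (XT.lf (nat_lit 0) (nat_lit 39054659960) (nat_lit 152) (nat_lit 29957801970) (nat_lit 0) (nat_lit 38510425727) (nat_lit 2) (nat_lit 5) (nat_lit 4) (nat_lit 4) (nat_lit 2) (nat_lit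 4) (nat_lit 330) (nat_lit 197) (nat_lit 193)) (XT.nd (nat_lit 78) (nat_lit 0) (nat_lit 0) (XT.lf (nat_lit 0) (nat_lit 42768432180) (nat_lit 152) (nat_lit 27929283949) (nat_lit 0) (nat_lit 42103941964) (nat_lit 2) (nat_lit 5) (nat_lit 4) (nat_lit 4) (nat_lit 2) (nat_lit 4) (nat_lit 331) (nat_lit 197) (nat_lit 192)) (XT.lf (nat_lit 0) (nat_lit 46611706068) (nat_lit 152) (nat_lit 25902832349) (nat_lit 0) (nat_lit 45832686344) (nat_lit 2) (nat_lit 5) (nat_lit 4) (nat_lit 4) (nat_lit 2) (nat_lit 4) (nat_lit 332) (nat_lit 197) (nat_lit 191))))))))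
noncomputable def xc11 : XT := (XT.nd (nat_lit 1326) (nat_lit 0) (nat_lit 0) (XT.nd (nat_lit 624) (nat_lit 76) (nat_lit 0) (XT.nd (nat_lit 312) (nat_lit 0) (nat_lit 0) (XT.nd (nat_lit 156) (nat_lit 0) (nat_lit 0) (XT.nd (nat_lit 78) (nat_lit 0) (nat_lit 0) (XT.lf (nat_lit 0) (nat_lit 50593632276) (nat_lit 152) (nat_lit 23873622285) (nat_lit 0) (nat_lit 49705536831) (nat_lit 2) (nat_lit 5) (nat_lit 4) (nat_lit 4) (nat_lit 2) (nat_lit 4) (nat_lit 333) (nat_lit 197) (nat_lit 190)) (XT.lf (nat_lit 0) (nat_lit 54723691581) (nat_lit 152) (nat_lit 21836822305) (nat_lit 0) (nat_lit 53731714497) (nat_lit 2) (nat_lit 5) (nat_lit 4) (nat_lit 4) (nat_lit 2) (nat_lit 4) (nat_lit 334) (nat_lit 197) (nat_lit 189))) (XT.nd (nat_lit 78) (nat_lit 0) (nat_lit 0) (XT.lf (nat_lit 0) (nat_lit 59011717458) (nat_lit 152) (nat_lit 19787582885) (nat_lit 0) (nat_lit 57920805480) (nat_lit 2) (nat_lit 5) (nat_lit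 4) (nat_lit 4) (nat_lit 2) (nat_lit 4) (nat_lit 335) (nat_lit 197) (nat_lit 188)) (XT.lf (nat_lit 0) (nat_lit 63467919493) (nat_lit 152) (nat_lit 17721024883) (nat_lit 0) (nat_lit 62282783805) (nat_lit 2) (nat_lit 5) (nat_lit 4) (nat_lit 4) (nat_lit 2) (nat_lit 4) (nat_lit 336) (nat_lit 197) (nat_lit 187)))) (XT.nd (nat_lit 156) (nat_lit 0) (nat_lit 0) (XT.nd (nat_lit 78) (nat_lit 0) (nat_lit 0) (XT.lf (nat_lit 0) (nat_lit 68102907689) (nat_lit 152) (nat_lit 15632227923) (nat_lit 0) (nat_lit 66828035135) (nat_lit 2) (nat_lit 5) (nat_lit 4) (nat_lit 4) (nat_lit 2) (nat_lit 4) (nat_lit 337) (nat_lit 197) (nat_lit 186)) (XT.lf (nat_lit 0) (nat_lit 72927717733) (nat_lit 152) (nat_lit 13516218679) (nat_lit 0) (nat_lit 71567381498) (nat_lit 2) (nat_lit 5) (nat_lit 4) (nat_lit 4) (nat_lit 2) (nat_lit 4) (nat_lit 338) (nat_lit 197) (nat_lit 185))) (XT.nd (nat_lit 78) (nat_lit 0) (nat_lit 0)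 (XT.lf (nat_lit 0) (nat_lit 77953837269) (nat_lit 152) (nat_lit 11367959034) (nat_lit 0) (nat_lit 76512107051) (nat_lit 2) (nat_lit 5) (nat_lit 4) (nat_lit 4) (nat_lit 2) (nat_lit 4) (nat_lit 339) (nat_lit 197) (nat_lit 184)) (XT.lf (nat_lit 0) (nat_lit 83193233247) (nat_lit 152) (nat_lit 9182334083) (nat_lit 0) (nat_lit 81673984950) (nat_lit 2) (nat_lit 5) (nat_lit 4) (nat_lit 4) (nat_lit 2) (nat_lit 4) (nat_lit 340) (nat_lit 197) (nat_lit 183))))) (XT.nd (nat_lit 312) (nat_lit 0) (nat_lit 0) (XT.nd (nat_lit 156) (nat_lit 76) (nat_lit 0) (XT.nd (nat_lit 78) (nat_lit 0) (nat_lit 0) (XT.lf (nat_lit 0) (nat_lit 88658380419) (nat_lit 152) (nat_lit 6954139959) (nat_lit 0) (nat_lit 87065305381) (nat_lit 2) (nat_lit 5) (nat_lit 4) (nat_lit 4) (nat_lit 2) (nat_lit 4) (nat_lit 341) (nat_lit 197) (nat_lit 182)) (XT.lf (nat_lit 0) (nat_lit 94362291042) (nat_lit 152) (nat_lit 4678071436) (nat_lit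 0) (nat_lit 92698904821) (nat_lit 2) (nat_lit 5) (nat_lit 4) (nat_lit 4) (nat_lit 2) (nat_lit 4) (nat_lit 342) (nat_lit 197) (nat_lit 181))) (XT.nd (nat_lit 78) (nat_lit 76) (nat_lit 0) (XT.lf (nat_lit 0) (nat_lit 100318545854) (nat_lit 152) (nat_lit 2348709305) (nat_lit 0) (nat_lit 98588196602) (nat_lit 2) (nat_lit 5) (nat_lit 4) (nat_lit 4) (nat_lit 2) (nat_lit 4) (nat_lit 343) (nat_lit 197) (nat_lit 180)) (XT.lf (nat_lit 0) (nat_lit 40798337) (nat_lit 76) (nat_lit 106501165054) (nat_lit 76) (nat_lit 104707041487) (nat_lit 1) (nat_lit 4) (nat_lit 2) (nat_lit 5) (nat_lit 2) (nat_lit 4) (nat_lit 344) (nat_lit 197) (nat_lit 179)))) (XT.nd (nat_lit 156) (nat_lit 0) (nat_lit 0) (XT.nd (nat_lit 78) (nat_lit 0) (nat_lit 0) (XT.lf (nat_lit 0) (nat_lit 2574624338) (nat_lit 76) (nat_lit 110511021631) (nat_lit 76) (nat_lit 108656160621) (nat_lit 1) (nat_lit 4) (nat_lit 2) (nat_lit 5) (nat_lit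 2) (nat_lit 4) (nat_lit 345) (nat_lit 197) (nat_lit 178)) (XT.lf (nat_lit 0) (nat_lit 5181142680) (nat_lit 76) (nat_lit 114746148697) (nat_lit 76) (nat_lit 112833442503) (nat_lit 1) (nat_lit 4) (nat_lit 2) (nat_lit 5) (nat_lit 2) (nat_lit 4) (nat_lit 346) (nat_lit 197) (nat_lit 177))) (XT.nd (nat_lit 78) (nat_lit 0) (nat_lit 0) (XT.lf (nat_lit 0) (nat_lit 7866559359) (nat_lit 76) (nat_lit 119216629887) (nat_lit 76) (nat_lit 117248833042) (nat_lit 1) (nat_lit 4) (nat_lit 2) (nat_lit 5) (nat_lit 2) (nat_lit 4) (nat_lit 347) (nat_lit 197) (nat_lit 176)) (XT.nd (nat_lit 78) (nat_lit 0) (nat_lit 0) (XT.lf (nat_lit 0) (nat_lit 10637268224) (nat_lit 76) (nat_lit 123933109206) (nat_lit 76) (nat_lit 121912845073) (nat_lit 1) (nat_lit 4) (nat_lit 2) (nat_lit 5) (nat_lit 2) (nat_lit 4) (nat_lit 348) (nat_lit 197) (nat_lit 175)) (XT.lf (nat_lit 0) (nat_lit 13499866202) (nat_lit 76) (nat_lit 128906816364)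 (nat_lit 76) (nat_lit 126836583387) (nat_lit 1) (nat_lit 4) (nat_lit 2) (nat_lit 5) (nat_lit 2) (nat_lit 4) (nat_lit 349) (nat_lit 197) (nat_lit 174))))))) (XT.nd (nat_lit 702) (nat_lit 0) (nat_lit 0) (XT.nd (nat_lit 312) (nat_lit 0) (nat_lit 0) (XT.nd (nat_lit 156) (nat_lit 0) (nat_lit 0) (XT.nd (nat_lit 78) (nat_lit 0) (nat_lit 0) (XT.lf (nat_lit 0) (nat_lit 16461169001) (nat_lit 76) (nat_lit 134149593522) (nat_lit 76) (nat_lit 132031771169) (nat_lit 1) (nat_lit 4) (nat_lit 2) (nat_lit 5) (nat_lit 2) (nat_lit 4) (nat_lit 350) (nat_lit 197) (nat_lit 173)) (XT.lf (nat_lit 0) (nat_lit 19528227342) (nat_lit 76) (nat_lit 139673923483) (nat_lit 76) (nat_lit 137510777915) (nat_lit 1) (nat_lit 4) (nat_lit 2) (nat_lit 5) (nat_lit 2) (nat_lit 4) (nat_lit 351) (nat_lit 197) (nat_lit 172))) (XT.nd (nat_lit 78) (nat_lit 0) (nat_lit 0) (XT.lf (nat_lit 0) (nat_lit 22708343746) (nat_lit 76) (nat_lit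 145492959414) (nat_lit 76) (nat_lit 143286648879) (nat_lit 1) (nat_lit 4) (nat_lit 2) (nat_lit 5) (nat_lit 2) (nat_lit 4) (nat_lit 352) (nat_lit 197) (nat_lit 171)) (XT.lf (nat_lit 0) (nat_lit 26009089918) (nat_lit 76) (nat_lit 151620556161) (nat_lit 76) (nat_lit 149373136134) (nat_lit 1) (nat_lit 4) (nat_lit 2) (nat_lit 5) (nat_lit 2) (nat_lit 4) (nat_lit 353) (nat_lit 197) (nat_lit 170)))) (XT.nd (nat_lit 156) (nat_lit 0) (nat_lit 0) (XT.nd (nat_lit 78) (nat_lit 0) (nat_lit 0) (XT.lf (nat_lit 0) (nat_lit 29438324778) (nat_lit 76) (nat_lit 158071303241) (nat_lit 76) (nat_lit 155784731317) (nat_lit 1) (nat_lit 4) (nat_lit 2) (nat_lit 5) (nat_lit 2) (nat_lit 4) (nat_lit 354) (nat_lit 197) (nat_lit 169)) (XT.lf (nat_lit 0) (nat_lit 33004213170) (nat_lit 76) (nat_lit 164860559576) (nat_lit 76) (nat_lit 162536700130) (nat_lit 1) (nat_lit 4) (nat_lit 2) (nat_lit 5) (nat_lit 2) (nat_lit 4)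 (nat_lit 355) (nat_lit 197) (nat_lit 168))) (XT.nd (nat_lit 78) (nat_lit 0) (nat_lit 0) (XT.lf (nat_lit 0) (nat_lit 36715245305) (nat_lit 76) (nat_lit 172004490061) (nat_lit 76) (nat_lit 169645118690) (nat_lit 1) (nat_lit 4) (nat_lit 2) (nat_lit 5) (nat_lit 2) (nat_lit 4) (nat_lit 356) (nat_lit 197) (nat_lit 167)) (XT.nd (nat_lit 78) (nat_lit 0) (nat_lit 0) (XT.lf (nat_lit 0) (nat_lit 40580256974) (nat_lit 76) (nat_lit 179520104055) (nat_lit 76) (nat_lit 177126911803) (nat_lit 1) (nat_lit 4) (nat_lit 2) (nat_lit 5) (nat_lit 2) (nat_lit 4) (nat_lit 357) (nat_lit 197) (nat_lit 166)) (XT.lf (nat_lit 0) (nat_lit 44608450586) (nat_lit 76) (nat_lit 187425295877) (nat_lit 76) (nat_lit 184999893262) (nat_lit 1) (nat_lit 4) (nat_lit 2) (nat_lit 5) (nat_lit 2) (nat_lit 4) (nat_lit 358) (nat_lit 197) (nat_lit 165)))))) (XT.nd (nat_lit 312) (nat_lit 0) (nat_lit 0) (XT.nd (nat_lit 156) (nat_lit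 0) (nat_lit 0) (XT.nd (nat_lit 78) (nat_lit 0) (nat_lit 0) (XT.lf (nat_lit 0) (nat_lit 48809417077) (nat_lit 76) (nat_lit 195738887412) (nat_lit 76) (nat_lit 193282808262) (nat_lit 1) (nat_lit 4) (nat_lit 2) (nat_lit 5) (nat_lit 2) (nat_lit 4) (nat_lit 359) (nat_lit 197) (nat_lit 164)) (XT.lf (nat_lit 0) (nat_lit 53193158749) (nat_lit 76) (nat_lit 204480672926) (nat_lit 76) (nat_lit 201995378027) (nat_lit 1) (nat_lit 4) (nat_lit 2) (nat_lit 5) (nat_lit 2) (nat_lit 4) (nat_lit 360) (nat_lit 197) (nat_lit 163))) (XT.nd (nat_lit 78) (nat_lit 0) (nat_lit 0) (XT.lf (nat_lit 0) (nat_lit 57770113082) (nat_lit 76) (nat_lit 213671466193) (nat_lit 76) (nat_lit 211158346772) (nat_lit 1) (nat_lit 4) (nat_lit 2) (nat_lit 5) (nat_lit 2) (nat_lit 4) (nat_lit 361) (nat_lit 197) (nat_lit 162)) (XT.lf (nat_lit 0) (nat_lit 62551177586) (nat_lit 76) (nat_lit 223333150056) (nat_lit 76) (nat_lit 220793531089)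 (nat_lit 1) (nat_lit 4) (nat_lit 2) (nat_lit 5) (nat_lit 2) (nat_lit 4) (nat_lit 362) (nat_lit 197) (nat_lit 161)))) (XT.nd (nat_lit 34476) (nat_lit 0) (nat_lit 76) (XT.nd (nat_lit 78) (nat_lit 0) (nat_lit 0) (XT.lf (nat_lit 0) (nat_lit 67547735748) (nat_lit 76) (nat_lit 233488728522) (nat_lit 76) (nat_lit 230923871894) (nat_lit 1) (nat_lit 4) (nat_lit 2) (nat_lit 5) (nat_lit 2) (nat_lit 4) (nat_lit 363) (nat_lit 197) (nat_lit 160)) (XT.lf (nat_lit 0) (nat_lit 72771684136) (nat_lit 76) (nat_lit 244162381542) (nat_lit 76) (nat_lit 241573489044) (nat_lit 1) (nat_lit 4) (nat_lit 2) (nat_lit 5) (nat_lit 2) (nat_lit 4) (nat_lit 364) (nat_lit 197) (nat_lit 159))) (XT.nd (nat_lit 78) (nat_lit 0) (nat_lit 0) (XT.lf (nat_lit 0) (nat_lit 9602794440) (nat_lit 152) (nat_lit 21188459076) (nat_lit 0) (nat_lit 9602794440) (nat_lit 2) (nat_lit 5) (nat_lit 4) (nat_lit 4) (nat_lit 2) (nat_lit 4) (nat_lit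 324) (nat_lit 198) (nat_lit 198)) (XT.nd (nat_lit 78) (nat_lit 0) (nat_lit 0) (XT.lf (nat_lit 0) (nat_lit 22281954960) (nat_lit 152) (nat_lit 40301249044) (nat_lit 0) (nat_lit 22128474467) (nat_lit 2) (nat_lit 5) (nat_lit 4) (nat_lit 4) (nat_lit 2) (nat_lit 4) (nat_lit 325) (nat_lit 198) (nat_lit 197)) (XT.lf (nat_lit 0) (nat_lit 25440428984) (nat_lit 152) (nat_lit 38253881823) (nat_lit 0) (nat_lit 25140776592) (nat_lit 2) (nat_lit 5) (nat_lit 4) (nat_lit 4) (nat_lit 2) (nat_lit 4) (nat_lit 326) (nat_lit 198) (nat_lit 196))))))))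
noncomputable def xc12 : XT := (XT.nd (nat_lit 1326) (nat_lit 76) (nat_lit 0) (XT.nd (nat_lit 624) (nat_lit 0) (nat_lit 0) (XT.nd (nat_lit 312) (nat_lit 0) (nat_lit 0) (XT.nd (nat_lit 156) (nat_lit 0) (nat_lit 0) (XT.nd (nat_lit 78) (nat_lit 0) (nat_lit 0) (XT.lf (nat_lit 0) (nat_lit 28688531130) (nat_lit 152) (nat_lit 36229941805) (nat_lit 0) (nat_lit 28249667405) (nat_lit 2) (nat_lit 5) (nat_lit 4) (nat_lit 4) (nat_lit 2) (nat_lit 4) (nat_lit 327) (nat_lit 198) (nat_lit 195)) (XT.lf (nat_lit 0) (nat_lit 32033994973) (nat_lit 152) (nat_lit 34224610086) (nat_lit 0) (nat_lit 31462549028) (nat_lit 2) (nat_lit 5) (nat_lit 4) (nat_lit 4) (nat_lit 2) (nat_lit 4) (nat_lit 328) (nat_lit 198) (nat_lit 194))) (XT.nd (nat_lit 78) (nat_lit 0) (nat_lit 0) (XT.lf (nat_lit 0) (nat_lit 35484785904) (nat_lit 152) (nat_lit 32233112065) (nat_lit 0) (nat_lit 34787071177) (nat_lit 2) (nat_lit 5) (nat_lit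 4) (nat_lit 4) (nat_lit 2) (nat_lit 4) (nat_lit 329) (nat_lit 198) (nat_lit 193)) (XT.lf (nat_lit 0) (nat_lit 39049120092) (nat_lit 152) (nat_lit 30250706081) (nat_lit 0) (nat_lit 38231149382) (nat_lit 2) (nat_lit 5) (nat_lit 4) (nat_lit 4) (nat_lit 2) (nat_lit 4) (nat_lit 330) (nat_lit 198) (nat_lit 192)))) (XT.nd (nat_lit 156) (nat_lit 0) (nat_lit 0) (XT.nd (nat_lit 78) (nat_lit 0) (nat_lit 0) (XT.lf (nat_lit 0) (nat_lit 42735484047) (nat_lit 152) (nat_lit 28272672120) (nat_lit 0) (nat_lit 41802983829) (nat_lit 2) (nat_lit 5) (nat_lit 4) (nat_lit 4) (nat_lit 2) (nat_lit 4) (nat_lit 331) (nat_lit 198) (nat_lit 191)) (XT.lf (nat_lit 0) (nat_lit 46552654825) (nat_lit 152) (nat_lit 26294300577) (nat_lit 0) (nat_lit 45511078887) (nat_lit 2) (nat_lit 5) (nat_lit 4) (nat_lit 4) (nat_lit 2) (nat_lit 4) (nat_lit 332) (nat_lit 198) (nat_lit 190))) (XT.nd (nat_lit 78) (nat_lit 0) (nat_lit 0)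 (XT.lf (nat_lit 0) (nat_lit 50509720929) (nat_lit 152) (nat_lit 24310881043) (nat_lit 0) (nat_lit 49364263352) (nat_lit 2) (nat_lit 5) (nat_lit 4) (nat_lit 4) (nat_lit 2) (nat_lit 4) (nat_lit 333) (nat_lit 198) (nat_lit 189)) (XT.lf (nat_lit 0) (nat_lit 54616103945) (nat_lit 152) (nat_lit 22317691091) (nat_lit 0) (nat_lit 53371711473) (nat_lit 2) (nat_lit 5) (nat_lit 4) (nat_lit 4) (nat_lit 2) (nat_lit 4) (nat_lit 334) (nat_lit 198) (nat_lit 188))))) (XT.nd (nat_lit 312) (nat_lit 0) (nat_lit 0) (XT.nd (nat_lit 156) (nat_lit 0) (nat_lit 0) (XT.nd (nat_lit 78) (nat_lit 0) (nat_lit 0) (XT.lf (nat_lit 0) (nat_lit 58881580975) (nat_lit 152) (nat_lit 20309985032) (nat_lit 0) (nat_lit 57542964794) (nat_lit 2) (nat_lit 5) (nat_lit 4) (nat_lit 4) (nat_lit 2) (nat_lit 4) (nat_lit 335) (nat_lit 198) (nat_lit 187)) (XT.lf (nat_lit 0) (nat_lit 63316307917) (nat_lit 152) (nat_lit 18282982611) (nat_lit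 0) (nat_lit 61887954870) (nat_lit 2) (nat_lit 5) (nat_lit 4) (nat_lit 4) (nat_lit 2) (nat_lit 4) (nat_lit 336) (nat_lit 198) (nat_lit 186))) (XT.nd (nat_lit 78) (nat_lit 0) (nat_lit 0) (XT.lf (nat_lit 0) (nat_lit 67930843644) (nat_lit 152) (nat_lit 16231857634) (nat_lit 0) (nat_lit 66417026915) (nat_lit 2) (nat_lit 5) (nat_lit 4) (nat_lit 4) (nat_lit 2) (nat_lit 4) (nat_lit 337) (nat_lit 198) (nat_lit 185)) (XT.lf (nat_lit 0) (nat_lit 72736175147) (nat_lit 152) (nat_lit 14151726468) (nat_lit 0) (nat_lit 71140964435) (nat_lit 2) (nat_lit 5) (nat_lit 4) (nat_lit 4) (nat_lit 2) (nat_lit 4) (nat_lit 338) (nat_lit 198) (nat_lit 184)))) (XT.nd (nat_lit 156) (nat_lit 0) (nat_lit 0) (XT.nd (nat_lit 78) (nat_lit 0) (nat_lit 0) (XT.lf (nat_lit 0) (nat_lit 77743743690) (nat_lit 152) (nat_lit 12037636422) (nat_lit 0) (nat_lit 76071014899) (nat_lit 2) (nat_lit 5) (nat_lit 4) (nat_lit 4) (nat_lit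 2) (nat_lit 4) (nat_lit 339) (nat_lit 198) (nat_lit 183)) (XT.lf (nat_lit 0) (nat_lit 82965472056) (nat_lit 152) (nat_lit 9884553946) (nat_lit 0) (nat_lit 81218916524) (nat_lit 2) (nat_lit 5) (nat_lit 4) (nat_lit 4) (nat_lit 2) (nat_lit 4) (nat_lit 340) (nat_lit 198) (nat_lit 182))) (XT.nd (nat_lit 78) (nat_lit 0) (nat_lit 0) (XT.lf (nat_lit 0) (nat_lit 88413792932) (nat_lit 152) (nat_lit 7687352655) (nat_lit 0) (nat_lit 86596926217) (nat_lit 2) (nat_lit 5) (nat_lit 4) (nat_lit 4) (nat_lit 2) (nat_lit 4) (nat_lit 341) (nat_lit 198) (nat_lit 181)) (XT.nd (nat_lit 78) (nat_lit 0) (nat_lit 0) (XT.lf (nat_lit 0) (nat_lit 94101678509) (nat_lit 152) (nat_lit 5440801116) (nat_lit 0) (nat_lit 92217848764) (nat_lit 2) (nat_lit 5) (nat_lit 4) (nat_lit 4) (nat_lit 2) (nat_lit 4) (nat_lit 342) (nat_lit 198) (nat_lit 180)) (XT.lf (nat_lit 0) (nat_lit 100042671374) (nat_lit 152) (nat_lit 3139550398)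 (nat_lit 0) (nat_lit 98095067313) (nat_lit 2) (nat_lit 5) (nat_lit 4) (nat_lit 4) (nat_lit 2) (nat_lit 4) (nat_lit 343) (nat_lit 198) (nat_lit 179))))))) (XT.nd (nat_lit 702) (nat_lit 0) (nat_lit 0) (XT.nd (nat_lit 312) (nat_lit 0) (nat_lit 0) (XT.nd (nat_lit 156) (nat_lit 0) (nat_lit 0) (XT.nd (nat_lit 78) (nat_lit 76) (nat_lit 0) (XT.lf (nat_lit 0) (nat_lit 106250916747) (nat_lit 152) (nat_lit 778121332) (nat_lit 0) (nat_lit 104242575243) (nat_lit 2) (nat_lit 5) (nat_lit 4) (nat_lit 4) (nat_lit 2) (nat_lit 4) (nat_lit 344) (nat_lit 198) (nat_lit 178)) (XT.lf (nat_lit 0) (nat_lit 1703635507) (nat_lit 76) (nat_lit 111064159181) (nat_lit 76) (nat_lit 108997972493) (nat_lit 1) (nat_lit 4) (nat_lit 2) (nat_lit 5) (nat_lit 2) (nat_lit 4) (nat_lit 345) (nat_lit 198) (nat_lit 177))) (XT.nd (nat_lit 78) (nat_lit 0) (nat_lit 0) (XT.lf (nat_lit 0) (nat_lit 4285067225) (nat_lit 76) (nat_lit 115310797355)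 (nat_lit 76) (nat_lit 113189520016) (nat_lit 1) (nat_lit 4) (nat_lit 2) (nat_lit 5) (nat_lit 2) (nat_lit 4) (nat_lit 346) (nat_lit 198) (nat_lit 176)) (XT.lf (nat_lit 0) (nat_lit 6946591881) (nat_lit 76) (nat_lit 119792241505) (nat_lit 76) (nat_lit 117618496879) (nat_lit 1) (nat_lit 4) (nat_lit 2) (nat_lit 5) (nat_lit 2) (nat_lit 4) (nat_lit 347) (nat_lit 198) (nat_lit 175)))) (XT.nd (nat_lit 156) (nat_lit 0) (nat_lit 0) (XT.nd (nat_lit 78) (nat_lit 0) (nat_lit 0) (XT.lf (nat_lit 0) (nat_lit 9694546438) (nat_lit 76) (nat_lit 124519161738) (nat_lit 76) (nat_lit 122295448267) (nat_lit 1) (nat_lit 4) (nat_lit 2) (nat_lit 5) (nat_lit 2) (nat_lit 4) (nat_lit 348) (nat_lit 198) (nat_lit 174)) (XT.lf (nat_lit 0) (nat_lit 12535473646) (nat_lit 76) (nat_lit 129502812624) (nat_lit 76) (nat_lit 127231509777) (nat_lit 1) (nat_lit 4) (nat_lit 2) (nat_lit 5) (nat_lit 2) (nat_lit 4) (nat_lit 349)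 (nat_lit 198) (nat_lit 173))) (XT.nd (nat_lit 78) (nat_lit 0) (nat_lit 0) (XT.lf (nat_lit 0) (nat_lit 15476137617) (nat_lit 76) (nat_lit 134755059999) (nat_lit 76) (nat_lit 132438433937) (nat_lit 1) (nat_lit 4) (nat_lit 2) (nat_lit 5) (nat_lit 2) (nat_lit 4) (nat_lit 350) (nat_lit 198) (nat_lit 172)) (XT.nd (nat_lit 78) (nat_lit 0) (nat_lit 0) (XT.lf (nat_lit 0) (nat_lit 18523539932) (nat_lit 76) (nat_lit 140288409214) (nat_lit 76) (nat_lit 137928618186) (nat_lit 1) (nat_lit 4) (nat_lit 2) (nat_lit 5) (nat_lit 2) (nat_lit 4) (nat_lit 351) (nat_lit 198) (nat_lit 171)) (XT.lf (nat_lit 0) (nat_lit 21684936311) (nat_lit 76) (nat_lit 146116034911) (nat_lit 76) (nat_lit 143715134390) (nat_lit 1) (nat_lit 4) (nat_lit 2) (nat_lit 5) (nat_lit 2) (nat_lit 4) (nat_lit 352) (nat_lit 198) (nat_lit 170)))))) (XT.nd (nat_lit 312) (nat_lit 0) (nat_lit 0) (XT.nd (nat_lit 156) (nat_lit 0) (nat_lit 0)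 (XT.nd (nat_lit 78) (nat_lit 0) (nat_lit 0) (XT.lf (nat_lit 0) (nat_lit 24967853887) (nat_lit 76) (nat_lit 152251812388) (nat_lit 76) (nat_lit 149811759970) (nat_lit 1) (nat_lit 4) (nat_lit 2) (nat_lit 5) (nat_lit 2) (nat_lit 4) (nat_lit 353) (nat_lit 198) (nat_lit 169)) (XT.lf (nat_lit 0) (nat_lit 28380109132) (nat_lit 76) (nat_lit 158710350639) (nat_lit 76) (nat_lit 156233010700) (nat_lit 1) (nat_lit 4) (nat_lit 2) (nat_lit 5) (nat_lit 2) (nat_lit 4) (nat_lit 354) (nat_lit 198) (nat_lit 168))) (XT.nd (nat_lit 78) (nat_lit 0) (nat_lit 0) (XT.lf (nat_lit 0) (nat_lit 31929826462) (nat_lit 76) (nat_lit 165507027136) (nat_lit 76) (nat_lit 162994175272) (nat_lit 1) (nat_lit 4) (nat_lit 2) (nat_lit 5) (nat_lit 2) (nat_lit 4) (nat_lit 355) (nat_lit 198) (nat_lit 167)) (XT.lf (nat_lit 0) (nat_lit 35625457586) (nat_lit 76) (nat_lit 172658024443) (nat_lit 76) (nat_lit 170111351698) (nat_lit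 1) (nat_lit 4) (nat_lit 2) (nat_lit 5) (nat_lit 2) (nat_lit 4) (nat_lit 356) (nat_lit 198) (nat_lit 166)))) (XT.nd (nat_lit 156) (nat_lit 0) (nat_lit 0) (XT.nd (nat_lit 78) (nat_lit 0) (nat_lit 0) (XT.lf (nat_lit 0) (nat_lit 39475801626) (nat_lit 76) (nat_lit 180180368744) (nat_lit 76) (nat_lit 177601485636) (nat_lit 1) (nat_lit 4) (nat_lit 2) (nat_lit 5) (nat_lit 2) (nat_lit 4) (nat_lit 357) (nat_lit 198) (nat_lit 165)) (XT.lf (nat_lit 0) (nat_lit 43490026066) (nat_lit 76) (nat_lit 188091970381) (nat_lit 76) (nat_lit 185482410737) (nat_lit 1) (nat_lit 4) (nat_lit 2) (nat_lit 5) (nat_lit 2) (nat_lit 4) (nat_lit 358) (nat_lit 198) (nat_lit 164))) (XT.nd (nat_lit 78) (nat_lit 0) (nat_lit 0) (XT.lf (nat_lit 0) (nat_lit 47677688584) (nat_lit 76) (nat_lit 196411666503) (nat_lit 76) (nat_lit 193772891110) (nat_lit 1) (nat_lit 4) (nat_lit 2) (nat_lit 5) (nat_lit 2) (nat_lit 4) (nat_lit 359)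 (nat_lit 198) (nat_lit 163)) (XT.nd (nat_lit 78) (nat_lit 0) (nat_lit 0) (XT.lf (nat_lit 0) (nat_lit 52048759806) (nat_lit 76) (nat_lit 205159265908) (nat_lit 76) (nat_lit 202492665993) (nat_lit 1) (nat_lit 4) (nat_lit 2) (nat_lit 5) (nat_lit 2) (nat_lit 4) (nat_lit 360) (nat_lit 198) (nat_lit 162)) (XT.lf (nat_lit 0) (nat_lit 56613647044) (nat_lit 76) (nat_lit 214355596216) (nat_lit 76) (nat_lit 211662496755) (nat_lit 1) (nat_lit 4) (nat_lit 2) (nat_lit 5) (nat_lit 2) (nat_lit 4) (nat_lit 361) (nat_lit 198) (nat_lit 161))))))))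
noncomputable def xc13 : XT := (XT.nd (nat_lit 35490) (nat_lit 0) (nat_lit 0) (XT.nd (nat_lit 34788) (nat_lit 0) (nat_lit 76) (XT.nd (nat_lit 34476) (nat_lit 0) (nat_lit 76) (XT.nd (nat_lit 156) (nat_lit 0) (nat_lit 0) (XT.nd (nat_lit 78) (nat_lit 0) (nat_lit 0) (XT.lf (nat_lit 0) (nat_lit 61383219076) (nat_lit 76) (nat_lit 224022553449) (nat_lit 76) (nat_lit 221304216327) (nat_lit 1) (nat_lit 4) (nat_lit 2) (nat_lit 5) (nat_lit 2) (nat_lit 4) (nat_lit 362) (nat_lit 198) (nat_lit 160)) (XT.lf (nat_lit 0) (nat_lit 66368832028) (nat_lit 76) (nat_lit 234183154174) (nat_lit 76) (nat_lit 231440781183) (nat_lit 1) (nat_lit 4) (nat_lit 2) (nat_lit 5) (nat_lit 2) (nat_lit 4) (nat_lit 363) (nat_lit 198) (nat_lit 159))) (XT.nd (nat_lit 34242) (nat_lit 0) (nat_lit 76) (XT.lf (nat_lit 0) (nat_lit 71582356405) (nat_lit 76) (nat_lit 244861590297) (nat_lit 76) (nat_lit 242096326002) (nat_lit 1) (nat_lit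 4) (nat_lit 2) (nat_lit 5) (nat_lit 2) (nat_lit 4) (nat_lit 364) (nat_lit 198) (nat_lit 158)) (XT.lf (nat_lit 0) (nat_lit 6734890294) (nat_lit 152) (nat_lit 23280986658) (nat_lit 0) (nat_lit 6734890294) (nat_lit 2) (nat_lit 5) (nat_lit 4) (nat_lit 4) (nat_lit 2) (nat_lit 4) (nat_lit 322) (nat_lit 199) (nat_lit 199)))) (XT.nd (nat_lit 156) (nat_lit 0) (nat_lit 0) (XT.nd (nat_lit 78) (nat_lit 0) (nat_lit 0) (XT.lf (nat_lit 0) (nat_lit 16365160584) (nat_lit 152) (nat_lit 44485831216) (nat_lit 0) (nat_lit 16204006066) (nat_lit 2) (nat_lit 5) (nat_lit 4) (nat_lit 4) (nat_lit 2) (nat_lit 4) (nat_lit 323) (nat_lit 199) (nat_lit 198)) (XT.lf (nat_lit 0) (nat_lit 19330013704) (nat_lit 152) (nat_lit 42444571620) (nat_lit 0) (nat_lit 19015378692) (nat_lit 2) (nat_lit 5) (nat_lit 4) (nat_lit 4) (nat_lit 2) (nat_lit 4) (nat_lit 324) (nat_lit 199) (nat_lit 197))) (XT.nd (nat_lit 78) (nat_lit 0) (nat_lit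 0) (XT.lf (nat_lit 0) (nat_lit 22371399120) (nat_lit 152) (nat_lit 40433334387) (nat_lit 0) (nat_lit 21910592209) (nat_lit 2) (nat_lit 5) (nat_lit 4) (nat_lit 4) (nat_lit 2) (nat_lit 4) (nat_lit 325) (nat_lit 199) (nat_lit 196)) (XT.lf (nat_lit 0) (nat_lit 25496558227) (nat_lit 152) (nat_lit 38447330855) (nat_lit 0) (nat_lit 24896539984) (nat_lit 2) (nat_lit 5) (nat_lit 4) (nat_lit 4) (nat_lit 2) (nat_lit 4) (nat_lit 326) (nat_lit 199) (nat_lit 195))))) (XT.nd (nat_lit 312) (nat_lit 0) (nat_lit 0) (XT.nd (nat_lit 156) (nat_lit 0) (nat_lit 0) (XT.nd (nat_lit 78) (nat_lit 0) (nat_lit 0) (XT.lf (nat_lit 0) (nat_lit 28712931880) (nat_lit 152) (nat_lit 36481832447) (nat_lit 0) (nat_lit 27980331416) (nat_lit 2) (nat_lit 5) (nat_lit 4) (nat_lit 4) (nat_lit 2) (nat_lit 4) (nat_lit 327) (nat_lit 199) (nat_lit 194)) (XT.lf (nat_lit 0) (nat_lit 32028178111) (nat_lit 152) (nat_lit 34532159403)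 (nat_lit 0) (nat_lit 31169308866) (nat_lit 2) (nat_lit 5) (nat_lit 4) (nat_lit 4) (nat_lit 2) (nat_lit 4) (nat_lit 328) (nat_lit 199) (nat_lit 193))) (XT.nd (nat_lit 78) (nat_lit 0) (nat_lit 0) (XT.lf (nat_lit 0) (nat_lit 35450190364) (nat_lit 152) (nat_lit 32593669644) (nat_lit 0) (nat_lit 34471065136) (nat_lit 2) (nat_lit 5) (nat_lit 4) (nat_lit 4) (nat_lit 2) (nat_lit 4) (nat_lit 329) (nat_lit 199) (nat_lit 192)) (XT.lf (nat_lit 0) (nat_lit 38987116287) (nat_lit 152) (nat_lit 30661747720) (nat_lit 0) (nat_lit 37893461552) (nat_lit 2) (nat_lit 5) (nat_lit 4) (nat_lit 4) (nat_lit 2) (nat_lit 4) (nat_lit 330) (nat_lit 199) (nat_lit 191)))) (XT.nd (nat_lit 156) (nat_lit 0) (nat_lit 0) (XT.nd (nat_lit 78) (nat_lit 0) (nat_lit 0) (XT.lf (nat_lit 0) (nat_lit 42647377133) (nat_lit 152) (nat_lit 28731793815) (nat_lit 0) (nat_lit 41444646676) (nat_lit 2) (nat_lit 5) (nat_lit 4) (nat_lit 4)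 (nat_lit 2) (nat_lit 4) (nat_lit 331) (nat_lit 199) (nat_lit 190)) (XT.lf (nat_lit 0) (nat_lit 46439687807) (nat_lit 152) (nat_lit 26799212802) (nat_lit 0) (nat_lit 45133075711) (nat_lit 2) (nat_lit 5) (nat_lit 4) (nat_lit 4) (nat_lit 2) (nat_lit 4) (nat_lit 332) (nat_lit 199) (nat_lit 189))) (XT.nd (nat_lit 78) (nat_lit 0) (nat_lit 0) (XT.lf (nat_lit 0) (nat_lit 50373077622) (nat_lit 152) (nat_lit 24859403297) (nat_lit 0) (nat_lit 48967530632) (nat_lit 2) (nat_lit 5) (nat_lit 4) (nat_lit 4) (nat_lit 2) (nat_lit 4) (nat_lit 333) (nat_lit 199) (nat_lit 188)) (XT.nd (nat_lit 78) (nat_lit 0) (nat_lit 0) (XT.lf (nat_lit 0) (nat_lit 54456911791) (nat_lit 152) (nat_lit 22907746706) (nat_lit 0) (nat_lit 52957141091) (nat_lit 2) (nat_lit 5) (nat_lit 4) (nat_lit 4) (nat_lit 2) (nat_lit 4) (nat_lit 334) (nat_lit 199) (nat_lit 187)) (XT.lf (nat_lit 0) (nat_lit 58700913728) (nat_lit 152) (nat_lit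 20939596228) (nat_lit 0) (nat_lit 57111406163) (nat_lit 2) (nat_lit 5) (nat_lit 4) (nat_lit 4) (nat_lit 2) (nat_lit 4) (nat_lit 335) (nat_lit 199) (nat_lit 186))))))) (XT.nd (nat_lit 702) (nat_lit 76) (nat_lit 0) (XT.nd (nat_lit 312) (nat_lit 0) (nat_lit 0) (XT.nd (nat_lit 156) (nat_lit 0) (nat_lit 0) (XT.nd (nat_lit 78) (nat_lit 0) (nat_lit 0) (XT.lf (nat_lit 0) (nat_lit 63115188201) (nat_lit 152) (nat_lit 18950265790) (nat_lit 0) (nat_lit 61440216954) (nat_lit 2) (nat_lit 5) (nat_lit 4) (nat_lit 4) (nat_lit 2) (nat_lit 4) (nat_lit 336) (nat_lit 199) (nat_lit 185)) (XT.lf (nat_lit 0) (nat_lit 67710245386) (nat_lit 152) (nat_lit 16935018891) (nat_lit 0) (nat_lit 65953880156) (nat_lit 2) (nat_lit 5) (nat_lit 4) (nat_lit 4) (nat_lit 2) (nat_lit 4) (nat_lit 337) (nat_lit 199) (nat_lit 184))) (XT.nd (nat_lit 78) (nat_lit 0) (nat_lit 0) (XT.lf (nat_lit 0) (nat_lit 72497025896) (nat_lit 152)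 (nat_lit 14889057324) (nat_lit 0) (nat_lit 70663142587) (nat_lit 2) (nat_lit 5) (nat_lit 4) (nat_lit 4) (nat_lit 2) (nat_lit 4) (nat_lit 338) (nat_lit 199) (nat_lit 183)) (XT.lf (nat_lit 0) (nat_lit 77486926827) (nat_lit 152) (nat_lit 12807509752) (nat_lit 0) (nat_lit 75579216777) (nat_lit 2) (nat_lit 5) (nat_lit 4) (nat_lit 4) (nat_lit 2) (nat_lit 4) (nat_lit 339) (nat_lit 199) (nat_lit 182)))) (XT.nd (nat_lit 156) (nat_lit 0) (nat_lit 0) (XT.nd (nat_lit 78) (nat_lit 0) (nat_lit 0) (XT.lf (nat_lit 0) (nat_lit 82691828897) (nat_lit 152) (nat_lit 10685420110) (nat_lit 0) (nat_lit 80713807664) (nat_lit 2) (nat_lit 5) (nat_lit 4) (nat_lit 4) (nat_lit 2) (nat_lit 4) (nat_lit 340) (nat_lit 199) (nat_lit 181)) (XT.lf (nat_lit 0) (nat_lit 88124124728) (nat_lit 152) (nat_lit 8517735803) (nat_lit 0) (nat_lit 86079140464) (nat_lit 2) (nat_lit 5) (nat_lit 4) (nat_lit 4) (nat_lit 2) (nat_lit 4)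 (nat_lit 341) (nat_lit 199) (nat_lit 180))) (XT.nd (nat_lit 78) (nat_lit 0) (nat_lit 0) (XT.lf (nat_lit 0) (nat_lit 93796748358) (nat_lit 152) (nat_lit 6299295678) (nat_lit 0) (nat_lit 91687989779) (nat_lit 2) (nat_lit 5) (nat_lit 4) (nat_lit 4) (nat_lit 2) (nat_lit 4) (nat_lit 342) (nat_lit 199) (nat_lit 179)) (XT.nd (nat_lit 78) (nat_lit 0) (nat_lit 0) (XT.lf (nat_lit 0) (nat_lit 99723206035) (nat_lit 152) (nat_lit 4024817734) (nat_lit 0) (nat_lit 97553710013) (nat_lit 2) (nat_lit 5) (nat_lit 4) (nat_lit 4) (nat_lit 2) (nat_lit 4) (nat_lit 343) (nat_lit 199) (nat_lit 178)) (XT.lf (nat_lit 0) (nat_lit 105917608371) (nat_lit 152) (nat_lit 1688886548) (nat_lit 0) (nat_lit 103690267166) (nat_lit 2) (nat_lit 5) (nat_lit 4) (nat_lit 4) (nat_lit 2) (nat_lit 4) (nat_lit 344) (nat_lit 199) (nat_lit 177)))))) (XT.nd (nat_lit 312) (nat_lit 0) (nat_lit 0) (XT.nd (nat_lit 156) (nat_lit 0) (nat_lit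 0) (XT.nd (nat_lit 78) (nat_lit 0) (nat_lit 0) (XT.lf (nat_lit 0) (nat_lit 737669655) (nat_lit 76) (nat_lit 111668551379) (nat_lit 76) (nat_lit 109386119522) (nat_lit 1) (nat_lit 4) (nat_lit 2) (nat_lit 5) (nat_lit 2) (nat_lit 4) (nat_lit 345) (nat_lit 199) (nat_lit 176)) (XT.lf (nat_lit 0) (nat_lit 3295209350) (nat_lit 76) (nat_lit 115926152513) (nat_lit 76) (nat_lit 113591253369) (nat_lit 1) (nat_lit 4) (nat_lit 2) (nat_lit 5) (nat_lit 2) (nat_lit 4) (nat_lit 346) (nat_lit 199) (nat_lit 175))) (XT.nd (nat_lit 78) (nat_lit 0) (nat_lit 0) (XT.lf (nat_lit 0) (nat_lit 5933979697) (nat_lit 76) (nat_lit 120418037578) (nat_lit 76) (nat_lit 118033169590) (nat_lit 1) (nat_lit 4) (nat_lit 2) (nat_lit 5) (nat_lit 2) (nat_lit 4) (nat_lit 347) (nat_lit 199) (nat_lit 174)) (XT.lf (nat_lit 0) (nat_lit 8660263485) (nat_lit 76) (nat_lit 125154901538) (nat_lit 76) (nat_lit 122722444174) (nat_lit 1)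 (nat_lit 4) (nat_lit 2) (nat_lit 5) (nat_lit 2) (nat_lit 4) (nat_lit 348) (nat_lit 199) (nat_lit 173)))) (XT.nd (nat_lit 156) (nat_lit 0) (nat_lit 0) (XT.nd (nat_lit 78) (nat_lit 0) (nat_lit 0) (XT.lf (nat_lit 0) (nat_lit 11480551866) (nat_lit 76) (nat_lit 130148022642) (nat_lit 76) (nat_lit 127670242062) (nat_lit 1) (nat_lit 4) (nat_lit 2) (nat_lit 5) (nat_lit 2) (nat_lit 4) (nat_lit 349) (nat_lit 199) (nat_lit 172)) (XT.lf (nat_lit 0) (nat_lit 14401559810) (nat_lit 76) (nat_lit 135409289271) (nat_lit 76) (nat_lit 132888343725) (nat_lit 1) (nat_lit 4) (nat_lit 2) (nat_lit 5) (nat_lit 2) (nat_lit 4) (nat_lit 350) (nat_lit 199) (nat_lit 171))) (XT.nd (nat_lit 78) (nat_lit 0) (nat_lit 0) (XT.lf (nat_lit 0) (nat_lit 17430242099) (nat_lit 76) (nat_lit 140951228253) (nat_lit 76) (nat_lit 138389173214) (nat_lit 1) (nat_lit 4) (nat_lit 2) (nat_lit 5) (nat_lit 2) (nat_lit 4) (nat_lit 351) (nat_lit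 199) (nat_lit 170)) (XT.nd (nat_lit 78) (nat_lit 0) (nat_lit 0) (XT.lf (nat_lit 0) (nat_lit 20573809882) (nat_lit 76) (nat_lit 146787034679) (nat_lit 76) (nat_lit 144185827742) (nat_lit 1) (nat_lit 4) (nat_lit 2) (nat_lit 5) (nat_lit 2) (nat_lit 4) (nat_lit 352) (nat_lit 199) (nat_lit 169)) (XT.lf (nat_lit 0) (nat_lit 23839747844) (nat_lit 76) (nat_lit 152930603326) (nat_lit 76) (nat_lit 150292108869) (nat_lit 1) (nat_lit 4) (nat_lit 2) (nat_lit 5) (nat_lit 2) (nat_lit 4) (nat_lit 353) (nat_lit 199) (nat_lit 168))))))))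
noncomputable def xc14 : XT := (XT.nd (nat_lit 35334) (nat_lit 0) (nat_lit 76) (XT.nd (nat_lit 624) (nat_lit 0) (nat_lit 0) (XT.nd (nat_lit 312) (nat_lit 0) (nat_lit 0) (XT.nd (nat_lit 156) (nat_lit 0) (nat_lit 0) (XT.nd (nat_lit 78) (nat_lit 0) (nat_lit 0) (XT.lf (nat_lit 0) (nat_lit 27235832027) (nat_lit 76) (nat_lit 159396561740) (nat_lit 76) (nat_lit 156722555358) (nat_lit 1) (nat_lit 4) (nat_lit 2) (nat_lit 5) (nat_lit 2) (nat_lit 4) (nat_lit 354) (nat_lit 199) (nat_lit 167)) (XT.lf (nat_lit 0) (nat_lit 30770148346) (nat_lit 76) (nat_lit 166200305060) (nat_lit 76) (nat_lit 163492477796) (nat_lit 1) (nat_lit 4) (nat_lit 2) (nat_lit 5) (nat_lit 2) (nat_lit 4) (nat_lit 355) (nat_lit 199) (nat_lit 166))) (XT.nd (nat_lit 78) (nat_lit 0) (nat_lit 0) (XT.lf (nat_lit 0) (nat_lit 34451111840) (nat_lit 76) (nat_lit 173358032673) (nat_lit 76) (nat_lit 170617995047) (nat_lit 1) (nat_lit 4)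 (nat_lit 2) (nat_lit 5) (nat_lit 2) (nat_lit 4) (nat_lit 356) (nat_lit 199) (nat_lit 165)) (XT.lf (nat_lit 0) (nat_lit 38287486708) (nat_lit 76) (nat_lit 180886786789) (nat_lit 76) (nat_lit 178116072627) (nat_lit 1) (nat_lit 4) (nat_lit 2) (nat_lit 5) (nat_lit 2) (nat_lit 4) (nat_lit 357) (nat_lit 199) (nat_lit 164)))) (XT.nd (nat_lit 156) (nat_lit 0) (nat_lit 0) (XT.nd (nat_lit 78) (nat_lit 0) (nat_lit 0) (XT.lf (nat_lit 0) (nat_lit 42288407176) (nat_lit 76) (nat_lit 188804493013) (nat_lit 76) (nat_lit 186004563102) (nat_lit 1) (nat_lit 4) (nat_lit 2) (nat_lit 5) (nat_lit 2) (nat_lit 4) (nat_lit 358) (nat_lit 199) (nat_lit 163)) (XT.lf (nat_lit 0) (nat_lit 46463399245) (nat_lit 76) (nat_lit 197130003026) (nat_lit 76) (nat_lit 194302248593) (nat_lit 1) (nat_lit 4) (nat_lit 2) (nat_lit 5) (nat_lit 2) (nat_lit 4) (nat_lit 359) (nat_lit 199) (nat_lit 162))) (XT.nd (nat_lit 78) (nat_lit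 0) (nat_lit 0) (XT.lf (nat_lit 0) (nat_lit 50822403371) (nat_lit 76) (nat_lit 205883139471) (nat_lit 76) (nat_lit 203028885493) (nat_lit 1) (nat_lit 4) (nat_lit 2) (nat_lit 5) (nat_lit 2) (nat_lit 4) (nat_lit 360) (nat_lit 199) (nat_lit 161)) (XT.lf (nat_lit 0) (nat_lit 55375798137) (nat_lit 76) (nat_lit 215084743150) (nat_lit 76) (nat_lit 212205251509) (nat_lit 1) (nat_lit 4) (nat_lit 2) (nat_lit 5) (nat_lit 2) (nat_lit 4) (nat_lit 361) (nat_lit 199) (nat_lit 160))))) (XT.nd (nat_lit 34320) (nat_lit 0) (nat_lit 76) (XT.nd (nat_lit 156) (nat_lit 0) (nat_lit 0) (XT.nd (nat_lit 78) (nat_lit 0) (nat_lit 0) (XT.lf (nat_lit 0) (nat_lit 60134424958) (nat_lit 76) (nat_lit 224756722642) (nat_lit 76) (nat_lit 221853195133) (nat_lit 1) (nat_lit 4) (nat_lit 2) (nat_lit 5) (nat_lit 2) (nat_lit 4) (nat_lit 362) (nat_lit 199) (nat_lit 159)) (XT.lf (nat_lit 0) (nat_lit 65109613899) (nat_lit 76) (nat_lit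 234922106470) (nat_lit 76) (nat_lit 231995687657) (nat_lit 1) (nat_lit 4) (nat_lit 2) (nat_lit 5) (nat_lit 2) (nat_lit 4) (nat_lit 363) (nat_lit 199) (nat_lit 158))) (XT.nd (nat_lit 34086) (nat_lit 0) (nat_lit 76) (XT.lf (nat_lit 0) (nat_lit 70313210647) (nat_lit 76) (nat_lit 245605097929) (nat_lit 76) (nat_lit 242656877875) (nat_lit 1) (nat_lit 4) (nat_lit 2) (nat_lit 5) (nat_lit 2) (nat_lit 4) (nat_lit 364) (nat_lit 199) (nat_lit 157)) (XT.lf (nat_lit 0) (nat_lit 4034860325) (nat_lit 152) (nat_lit 25382092343) (nat_lit 0) (nat_lit 4034860325) (nat_lit 2) (nat_lit 5) (nat_lit 4) (nat_lit 4) (nat_lit 2) (nat_lit 4) (nat_lit 320) (nat_lit 200) (nat_lit 200)))) (XT.nd (nat_lit 156) (nat_lit 0) (nat_lit 0) (XT.nd (nat_lit 78) (nat_lit 0) (nat_lit 0) (XT.lf (nat_lit 0) (nat_lit 10806192198) (nat_lit 152) (nat_lit 48677941117) (nat_lit 0) (nat_lit 10636979953) (nat_lit 2) (nat_lit 5) (nat_lit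 4) (nat_lit 4) (nat_lit 2) (nat_lit 4) (nat_lit 321) (nat_lit 200) (nat_lit 199)) (XT.lf (nat_lit 0) (nat_lit 13600426652) (nat_lit 152) (nat_lit 46633009458) (nat_lit 0) (nat_lit 13270059889) (nat_lit 2) (nat_lit 5) (nat_lit 4) (nat_lit 4) (nat_lit 2) (nat_lit 4) (nat_lit 322) (nat_lit 200) (nat_lit 198))) (XT.nd (nat_lit 78) (nat_lit 0) (nat_lit 0) (XT.lf (nat_lit 0) (nat_lit 16459076952) (nat_lit 152) (nat_lit 44624520825) (nat_lit 0) (nat_lit 15975229696) (nat_lit 2) (nat_lit 5) (nat_lit 4) (nat_lit 4) (nat_lit 2) (nat_lit 4) (nat_lit 323) (nat_lit 200) (nat_lit 197)) (XT.nd (nat_lit 78) (nat_lit 0) (nat_lit 0) (XT.lf (nat_lit 0) (nat_lit 19388949408) (nat_lit 152) (nat_lit 42647693104) (nat_lit 0) (nat_lit 18758930253) (nat_lit 2) (nat_lit 5) (nat_lit 4) (nat_lit 4) (nat_lit 2) (nat_lit 4) (nat_lit 324) (nat_lit 200) (nat_lit 196)) (XT.lf (nat_lit 0) (nat_lit 22397019907) (nat_lit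 152) (nat_lit 40697819560) (nat_lit 0) (nat_lit 21627789420) (nat_lit 2) (nat_lit 5) (nat_lit 4) (nat_lit 4) (nat_lit 2) (nat_lit 4) (nat_lit 325) (nat_lit 200) (nat_lit 195))))))) (XT.nd (nat_lit 702) (nat_lit 0) (nat_lit 0) (XT.nd (nat_lit 312) (nat_lit 0) (nat_lit 0) (XT.nd (nat_lit 156) (nat_lit 0) (nat_lit 0) (XT.nd (nat_lit 78) (nat_lit 0) (nat_lit 0) (XT.lf (nat_lit 0) (nat_lit 25490450522) (nat_lit 152) (nat_lit 38770257638) (nat_lit 0) (nat_lit 24588637814) (nat_lit 2) (nat_lit 5) (nat_lit 4) (nat_lit 4) (nat_lit 2) (nat_lit 4) (nat_lit 326) (nat_lit 200) (nat_lit 194)) (XT.lf (nat_lit 0) (nat_lit 28676606563) (nat_lit 152) (nat_lit 36860417905) (nat_lit 0) (nat_lit 27648525073) (nat_lit 2) (nat_lit 5) (nat_lit 4) (nat_lit 4) (nat_lit 2) (nat_lit 4) (nat_lit 327) (nat_lit 200) (nat_lit 193))) (XT.nd (nat_lit 78) (nat_lit 0) (nat_lit 0) (XT.lf (nat_lit 0) (nat_lit 31963074116)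 (nat_lit 152) (nat_lit 34963753123) (nat_lit 0) (nat_lit 30814736644) (nat_lit 2) (nat_lit 5) (nat_lit 4) (nat_lit 4) (nat_lit 2) (nat_lit 4) (nat_lit 328) (nat_lit 200) (nat_lit 192)) (XT.lf (nat_lit 0) (nat_lit 35357678105) (nat_lit 152) (nat_lit 33075747424) (nat_lit 0) (nat_lit 34094811125) (nat_lit 2) (nat_lit 5) (nat_lit 4) (nat_lit 4) (nat_lit 2) (nat_lit 4) (nat_lit 329) (nat_lit 200) (nat_lit 191)))) (XT.nd (nat_lit 156) (nat_lit 0) (nat_lit 0) (XT.nd (nat_lit 78) (nat_lit 0) (nat_lit 0) (XT.lf (nat_lit 0) (nat_lit 38868500919) (nat_lit 152) (nat_lit 31191905557) (nat_lit 0) (nat_lit 37496558218) (nat_lit 2) (nat_lit 5) (nat_lit 4) (nat_lit 4) (nat_lit 2) (nat_lit 4) (nat_lit 330) (nat_lit 200) (nat_lit 190)) (XT.lf (nat_lit 0) (nat_lit 42503901660) (nat_lit 152) (nat_lit 29307742182) (nat_lit 0) (nat_lit 41028077320) (nat_lit 2) (nat_lit 5) (nat_lit 4) (nat_lit 4) (nat_lit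 2) (nat_lit 4) (nat_lit 331) (nat_lit 200) (nat_lit 189))) (XT.nd (nat_lit 78) (nat_lit 0) (nat_lit 0) (XT.lf (nat_lit 0) (nat_lit 46272536045) (nat_lit 152) (nat_lit 27418771198) (nat_lit 0) (nat_lit 44697776810) (nat_lit 2) (nat_lit 5) (nat_lit 4) (nat_lit 4) (nat_lit 2) (nat_lit 4) (nat_lit 332) (nat_lit 200) (nat_lit 188)) (XT.nd (nat_lit 78) (nat_lit 0) (nat_lit 0) (XT.lf (nat_lit 0) (nat_lit 50183377013) (nat_lit 152) (nat_lit 25520495053) (nat_lit 0) (nat_lit 48514394069) (nat_lit 2) (nat_lit 5) (nat_lit 4) (nat_lit 4) (nat_lit 2) (nat_lit 4) (nat_lit 333) (nat_lit 200) (nat_lit 187)) (XT.lf (nat_lit 0) (nat_lit 54245736089) (nat_lit 152) (nat_lit 23608394044) (nat_lit 0) (nat_lit 52487016279) (nat_lit 2) (nat_lit 5) (nat_lit 4) (nat_lit 4) (nat_lit 2) (nat_lit 4) (nat_lit 334) (nat_lit 200) (nat_lit 186)))))) (XT.nd (nat_lit 312) (nat_lit 0) (nat_lit 0) (XT.nd (nat_lit 156)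 (nat_lit 0) (nat_lit 0) (XT.nd (nat_lit 78) (nat_lit 0) (nat_lit 0) (XT.lf (nat_lit 0) (nat_lit 58469285557) (nat_lit 152) (nat_lit 21677915548) (nat_lit 0) (nat_lit 56625102066) (nat_lit 2) (nat_lit 5) (nat_lit 4) (nat_lit 4) (nat_lit 2) (nat_lit 4) (nat_lit 335) (nat_lit 200) (nat_lit 185)) (XT.lf (nat_lit 0) (nat_lit 62864081488) (nat_lit 152) (nat_lit 19724463189) (nat_lit 0) (nat_lit 60938504014) (nat_lit 2) (nat_lit 5) (nat_lit 4) (nat_lit 4) (nat_lit 2) (nat_lit 4) (nat_lit 336) (nat_lit 200) (nat_lit 184))) (XT.nd (nat_lit 78) (nat_lit 0) (nat_lit 0) (XT.lf (nat_lit 0) (nat_lit 67440587681) (nat_lit 152) (nat_lit 17743385888) (nat_lit 0) (nat_lit 65437492128) (nat_lit 2) (nat_lit 5) (nat_lit 4) (nat_lit 4) (nat_lit 2) (nat_lit 4) (nat_lit 337) (nat_lit 200) (nat_lit 183)) (XT.lf (nat_lit 0) (nat_lit 72209700579) (nat_lit 152) (nat_lit 15729966796) (nat_lit 0) (nat_lit 70132778284)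 (nat_lit 2) (nat_lit 5) (nat_lit 4) (nat_lit 4) (nat_lit 2) (nat_lit 4) (nat_lit 338) (nat_lit 200) (nat_lit 182)))) (XT.nd (nat_lit 156) (nat_lit 0) (nat_lit 0) (XT.nd (nat_lit 78) (nat_lit 0) (nat_lit 0) (XT.lf (nat_lit 0) (nat_lit 77182775213) (nat_lit 152) (nat_lit 13679412058) (nat_lit 0) (nat_lit 75035541736) (nat_lit 2) (nat_lit 5) (nat_lit 4) (nat_lit 4) (nat_lit 2) (nat_lit 4) (nat_lit 339) (nat_lit 200) (nat_lit 181)) (XT.lf (nat_lit 0) (nat_lit 82371652238) (nat_lit 152) (nat_lit 11586839399) (nat_lit 0) (nat_lit 80157455730) (nat_lit 2) (nat_lit 5) (nat_lit 4) (nat_lit 4) (nat_lit 2) (nat_lit 4) (nat_lit 340) (nat_lit 200) (nat_lit 180))) (XT.nd (nat_lit 78) (nat_lit 0) (nat_lit 0) (XT.lf (nat_lit 0) (nat_lit 87788686121) (nat_lit 152) (nat_lit 9447266506) (nat_lit 0) (nat_lit 85510715298) (nat_lit 2) (nat_lit 5) (nat_lit 4) (nat_lit 4) (nat_lit 2) (nat_lit 4) (nat_lit 341)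 (nat_lit 200) (nat_lit 179)) (XT.nd (nat_lit 78) (nat_lit 0) (nat_lit 0) (XT.lf (nat_lit 0) (nat_lit 93446774564) (nat_lit 152) (nat_lit 7255599155) (nat_lit 0) (nat_lit 91108066298) (nat_lit 2) (nat_lit 5) (nat_lit 4) (nat_lit 4) (nat_lit 2) (nat_lit 4) (nat_lit 342) (nat_lit 200) (nat_lit 178)) (XT.lf (nat_lit 0) (nat_lit 99359389205) (nat_lit 152) (nat_lit 5006619092) (nat_lit 0) (nat_lit 96962835755) (nat_lit 2) (nat_lit 5) (nat_lit 4) (nat_lit 4) (nat_lit 2) (nat_lit 4) (nat_lit 343) (nat_lit 200) (nat_lit 177))))))))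
noncomputable def xc15 : XT := (XT.nd (nat_lit 1404) (nat_lit 0) (nat_lit 0) (XT.nd (nat_lit 702) (nat_lit 0) (nat_lit 0) (XT.nd (nat_lit 312) (nat_lit 0) (nat_lit 0) (XT.nd (nat_lit 156) (nat_lit 76) (nat_lit 0) (XT.nd (nat_lit 78) (nat_lit 0) (nat_lit 0) (XT.lf (nat_lit 0) (nat_lit 105540607697) (nat_lit 152) (nat_lit 2694971602) (nat_lit 0) (nat_lit 103088963596) (nat_lit 2) (nat_lit 5) (nat_lit 4) (nat_lit 4) (nat_lit 2) (nat_lit 4) (nat_lit 344) (nat_lit 200) (nat_lit 176)) (XT.lf (nat_lit 0) (nat_lit 112005147228) (nat_lit 152) (nat_lit 315152763) (nat_lit 0) (nat_lit 109501035840) (nat_lit 2) (nat_lit 5) (nat_lit 4) (nat_lit 4) (nat_lit 2) (nat_lit 4) (nat_lit 345) (nat_lit 200) (nat_lit 175))) (XT.nd (nat_lit 78) (nat_lit 0) (nat_lit 0) (XT.lf (nat_lit 0) (nat_lit 2209212249) (nat_lit 76) (nat_lit 116593679304) (nat_lit 76) (nat_lit 114039599071) (nat_lit 1) (nat_lit 4) (nat_lit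 2) (nat_lit 5) (nat_lit 2) (nat_lit 4) (nat_lit 346) (nat_lit 200) (nat_lit 174)) (XT.lf (nat_lit 0) (nat_lit 4826311828) (nat_lit 76) (nat_lit 121095508097) (nat_lit 76) (nat_lit 118493838488) (nat_lit 1) (nat_lit 4) (nat_lit 2) (nat_lit 5) (nat_lit 2) (nat_lit 4) (nat_lit 347) (nat_lit 200) (nat_lit 173)))) (XT.nd (nat_lit 156) (nat_lit 0) (nat_lit 0) (XT.nd (nat_lit 78) (nat_lit 0) (nat_lit 0) (XT.lf (nat_lit 0) (nat_lit 7531956788) (nat_lit 76) (nat_lit 125841842274) (nat_lit 76) (nat_lit 123194849450) (nat_lit 1) (nat_lit 4) (nat_lit 2) (nat_lit 5) (nat_lit 2) (nat_lit 4) (nat_lit 348) (nat_lit 200) (nat_lit 172)) (XT.lf (nat_lit 0) (nat_lit 10332589141) (nat_lit 76) (nat_lit 130843982632) (nat_lit 76) (nat_lit 128153824841) (nat_lit 1) (nat_lit 4) (nat_lit 2) (nat_lit 5) (nat_lit 2) (nat_lit 4) (nat_lit 349) (nat_lit 200) (nat_lit 171))) (XT.nd (nat_lit 78) (nat_lit 0) (nat_lit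 0) (XT.lf (nat_lit 0) (nat_lit 13234877060) (nat_lit 76) (nat_lit 136113839027) (nat_lit 76) (nat_lit 133382571744) (nat_lit 1) (nat_lit 4) (nat_lit 2) (nat_lit 5) (nat_lit 2) (nat_lit 4) (nat_lit 350) (nat_lit 200) (nat_lit 170)) (XT.nd (nat_lit 78) (nat_lit 0) (nat_lit 0) (XT.lf (nat_lit 0) (nat_lit 16245730754) (nat_lit 76) (nat_lit 141663958738) (nat_lit 76) (nat_lit 138893539558) (nat_lit 1) (nat_lit 4) (nat_lit 2) (nat_lit 5) (nat_lit 2) (nat_lit 4) (nat_lit 351) (nat_lit 200) (nat_lit 169)) (XT.lf (nat_lit 0) (nat_lit 19372318922) (nat_lit 76) (nat_lit 147507556335) (nat_lit 76) (nat_lit 144699849634) (nat_lit 1) (nat_lit 4) (nat_lit 2) (nat_lit 5) (nat_lit 2) (nat_lit 4) (nat_lit 352) (nat_lit 200) (nat_lit 168)))))) (XT.nd (nat_lit 312) (nat_lit 0) (nat_lit 0) (XT.nd (nat_lit 156) (nat_lit 0) (nat_lit 0) (XT.nd (nat_lit 78) (nat_lit 0) (nat_lit 0) (XT.lf (nat_lit 0) (nat_lit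 22622085822) (nat_lit 76) (nat_lit 153658545146) (nat_lit 76) (nat_lit 150815326519) (nat_lit 1) (nat_lit 4) (nat_lit 2) (nat_lit 5) (nat_lit 2) (nat_lit 4) (nat_lit 353) (nat_lit 200) (nat_lit 167)) (XT.lf (nat_lit 0) (nat_lit 26002768994) (nat_lit 76) (nat_lit 160131570381) (nat_lit 76) (nat_lit 157254530874) (nat_lit 1) (nat_lit 4) (nat_lit 2) (nat_lit 5) (nat_lit 2) (nat_lit 4) (nat_lit 354) (nat_lit 200) (nat_lit 166))) (XT.nd (nat_lit 78) (nat_lit 0) (nat_lit 0) (XT.lf (nat_lit 0) (nat_lit 29522417683) (nat_lit 76) (nat_lit 166942044007) (nat_lit 76) (nat_lit 164032794137) (nat_lit 1) (nat_lit 4) (nat_lit 2) (nat_lit 5) (nat_lit 2) (nat_lit 4) (nat_lit 355) (nat_lit 200) (nat_lit 165)) (XT.lf (nat_lit 0) (nat_lit 33189412006) (nat_lit 76) (nat_lit 174106181436) (nat_lit 76) (nat_lit 171166255030) (nat_lit 1) (nat_lit 4) (nat_lit 2) (nat_lit 5) (nat_lit 2) (nat_lit 4) (nat_lit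 356) (nat_lit 200) (nat_lit 164)))) (XT.nd (nat_lit 156) (nat_lit 0) (nat_lit 0) (XT.nd (nat_lit 78) (nat_lit 0) (nat_lit 0) (XT.lf (nat_lit 0) (nat_lit 37012482902) (nat_lit 76) (nat_lit 181641040139) (nat_lit 76) (nat_lit 178671897984) (nat_lit 1) (nat_lit 4) (nat_lit 2) (nat_lit 5) (nat_lit 2) (nat_lit 4) (nat_lit 357) (nat_lit 200) (nat_lit 163)) (XT.lf (nat_lit 0) (nat_lit 41000732919) (nat_lit 76) (nat_lit 189564560254) (nat_lit 76) (nat_lit 186567593577) (nat_lit 1) (nat_lit 4) (nat_lit 2) (nat_lit 5) (nat_lit 2) (nat_lit 4) (nat_lit 358) (nat_lit 200) (nat_lit 162))) (XT.nd (nat_lit 78) (nat_lit 0) (nat_lit 0) (XT.lf (nat_lit 0) (nat_lit 45163657893) (nat_lit 76) (nat_lit 197895607307) (nat_lit 76) (nat_lit 194872141085) (nat_lit 1) (nat_lit 4) (nat_lit 2) (nat_lit 5) (nat_lit 2) (nat_lit 4) (nat_lit 359) (nat_lit 200) (nat_lit 161)) (XT.nd (nat_lit 78) (nat_lit 0) (nat_lit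 0) (XT.lf (nat_lit 0) (nat_lit 49511169547) (nat_lit 76) (nat_lit 206654017124) (nat_lit 76) (nat_lit 203605313239) (nat_lit 1) (nat_lit 4) (nat_lit 2) (nat_lit 5) (nat_lit 2) (nat_lit 4) (nat_lit 360) (nat_lit 200) (nat_lit 160)) (XT.lf (nat_lit 0) (nat_lit 54053619102) (nat_lit 76) (nat_lit 215860643061) (nat_lit 76) (nat_lit 212787903307) (nat_lit 1) (nat_lit 4) (nat_lit 2) (nat_lit 5) (nat_lit 2) (nat_lit 4) (nat_lit 361) (nat_lit 200) (nat_lit 159))))))) (XT.nd (nat_lit 34554) (nat_lit 0) (nat_lit 76) (XT.nd (nat_lit 34164) (nat_lit 0) (nat_lit 76) (XT.nd (nat_lit 156) (nat_lit 0) (nat_lit 0) (XT.nd (nat_lit 78) (nat_lit 0) (nat_lit 0) (XT.lf (nat_lit 0) (nat_lit 58801821913) (nat_lit 76) (nat_lit 225537405656) (nat_lit 76) (nat_lit 222441774599) (nat_lit 1) (nat_lit 4) (nat_lit 2) (nat_lit 5) (nat_lit 2) (nat_lit 4) (nat_lit 362) (nat_lit 200) (nat_lit 158)) (XT.lf (nat_lit 0)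 (nat_lit 63767083224) (nat_lit 76) (nat_lit 235707344820) (nat_lit 76) (nat_lit 232589912522) (nat_lit 1) (nat_lit 4) (nat_lit 2) (nat_lit 5) (nat_lit 2) (nat_lit 4) (nat_lit 363) (nat_lit 200) (nat_lit 157))) (XT.nd (nat_lit 33930) (nat_lit 0) (nat_lit 76) (XT.lf (nat_lit 0) (nat_lit 68961225087) (nat_lit 76) (nat_lit 246394674694) (nat_lit 76) (nat_lit 243256479309) (nat_lit 1) (nat_lit 4) (nat_lit 2) (nat_lit 5) (nat_lit 2) (nat_lit 4) (nat_lit 364) (nat_lit 200) (nat_lit 156)) (XT.lf (nat_lit 0) (nat_lit 1482159365) (nat_lit 152) (nat_lit 27501134695) (nat_lit 0) (nat_lit 1482159365) (nat_lit 2) (nat_lit 5) (nat_lit 4) (nat_lit 4) (nat_lit 2) (nat_lit 4) (nat_lit 318) (nat_lit 201) (nat_lit 201)))) (XT.nd (nat_lit 156) (nat_lit 0) (nat_lit 0) (XT.nd (nat_lit 78) (nat_lit 0) (nat_lit 0) (XT.lf (nat_lit 0) (nat_lit 5562169457) (nat_lit 152) (nat_lit 52896707415) (nat_lit 0) (nat_lit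 5384496601) (nat_lit 2) (nat_lit 5) (nat_lit 4) (nat_lit 4) (nat_lit 2) (nat_lit 4) (nat_lit 319) (nat_lit 201) (nat_lit 200)) (XT.lf (nat_lit 0) (nat_lit 8206899017) (nat_lit 152) (nat_lit 50838772635) (nat_lit 0) (nat_lit 7860013916) (nat_lit 2) (nat_lit 5) (nat_lit 4) (nat_lit 4) (nat_lit 2) (nat_lit 4) (nat_lit 320) (nat_lit 201) (nat_lit 199))) (XT.nd (nat_lit 78) (nat_lit 0) (nat_lit 0) (XT.lf (nat_lit 0) (nat_lit 10904804383) (nat_lit 152) (nat_lit 48823565206) (nat_lit 0) (nat_lit 10396764765) (nat_lit 2) (nat_lit 5) (nat_lit 4) (nat_lit 4) (nat_lit 2) (nat_lit 4) (nat_lit 321) (nat_lit 201) (nat_lit 198)) (XT.nd (nat_lit 78) (nat_lit 0) (nat_lit 0) (XT.lf (nat_lit 0) (nat_lit 13662309141) (nat_lit 152) (nat_lit 46846287016) (nat_lit 0) (nat_lit 13000789029) (nat_lit 2) (nat_lit 5) (nat_lit 4) (nat_lit 4) (nat_lit 2) (nat_lit 4) (nat_lit 322) (nat_lit 201) (nat_lit 197)) (XT.lf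 (nat_lit 0) (nat_lit 16485978779) (nat_lit 152) (nat_lit 44902230258) (nat_lit 0) (nat_lit 15678286768) (nat_lit 2) (nat_lit 5) (nat_lit 4) (nat_lit 4) (nat_lit 2) (nat_lit 4) (nat_lit 323) (nat_lit 201) (nat_lit 196)))))) (XT.nd (nat_lit 312) (nat_lit 0) (nat_lit 0) (XT.nd (nat_lit 156) (nat_lit 0) (nat_lit 0) (XT.nd (nat_lit 78) (nat_lit 0) (nat_lit 0) (XT.lf (nat_lit 0) (nat_lit 19382536318) (nat_lit 152) (nat_lit 42986766226) (nat_lit 0) (nat_lit 18435632975) (nat_lit 2) (nat_lit 5) (nat_lit 4) (nat_lit 4) (nat_lit 2) (nat_lit 4) (nat_lit 324) (nat_lit 201) (nat_lit 195)) (XT.lf (nat_lit 0) (nat_lit 22358878324) (nat_lit 152) (nat_lit 41095334291) (nat_lit 0) (nat_lit 21279392761) (nat_lit 2) (nat_lit 5) (nat_lit 4) (nat_lit 4) (nat_lit 2) (nat_lit 4) (nat_lit 325) (nat_lit 201) (nat_lit 194))) (XT.nd (nat_lit 78) (nat_lit 0) (nat_lit 0) (XT.lf (nat_lit 0) (nat_lit 25422091327)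 (nat_lit 152) (nat_lit 39223431045) (nat_lit 0) (nat_lit 24216336981) (nat_lit 2) (nat_lit 5) (nat_lit 4) (nat_lit 4) (nat_lit 2) (nat_lit 4) (nat_lit 326) (nat_lit 201) (nat_lit 193)) (XT.lf (nat_lit 0) (nat_lit 28579468690) (nat_lit 152) (nat_lit 37366599574) (nat_lit 0) (nat_lit 27253458362) (nat_lit 2) (nat_lit 5) (nat_lit 4) (nat_lit 4) (nat_lit 2) (nat_lit 4) (nat_lit 327) (nat_lit 201) (nat_lit 192)))) (XT.nd (nat_lit 156) (nat_lit 0) (nat_lit 0) (XT.nd (nat_lit 78) (nat_lit 0) (nat_lit 0) (XT.lf (nat_lit 0) (nat_lit 31838527979) (nat_lit 152) (nat_lit 35520418852) (nat_lit 0) (nat_lit 30397988143) (nat_lit 2) (nat_lit 5) (nat_lit 4) (nat_lit 4) (nat_lit 2) (nat_lit 4) (nat_lit 328) (nat_lit 201) (nat_lit 191)) (XT.lf (nat_lit 0) (nat_lit 35207028858) (nat_lit 152) (nat_lit 33680493210) (nat_lit 0) (nat_lit 33657413301) (nat_lit 2) (nat_lit 5) (nat_lit 4) (nat_lit 4) (nat_lit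 2) (nat_lit 4) (nat_lit 329) (nat_lit 201) (nat_lit 190))) (XT.nd (nat_lit 78) (nat_lit 0) (nat_lit 0) (XT.lf (nat_lit 0) (nat_lit 38692991568) (nat_lit 152) (nat_lit 31842441872) (nat_lit 0) (nat_lit 37039494372) (nat_lit 2) (nat_lit 5) (nat_lit 4) (nat_lit 4) (nat_lit 2) (nat_lit 4) (nat_lit 330) (nat_lit 201) (nat_lit 189)) (XT.nd (nat_lit 78) (nat_lit 0) (nat_lit 0) (XT.lf (nat_lit 0) (nat_lit 42304716020) (nat_lit 152) (nat_lit 30001888526) (nat_lit 0) (nat_lit 40552283929) (nat_lit 2) (nat_lit 5) (nat_lit 4) (nat_lit 4) (nat_lit 2) (nat_lit 4) (nat_lit 331) (nat_lit 201) (nat_lit 188)) (XT.lf (nat_lit 0) (nat_lit 46050801558) (nat_lit 152) (nat_lit 28154450902) (nat_lit 0) (nat_lit 44204145758) (nat_lit 2) (nat_lit 5) (nat_lit 4) (nat_lit 4) (nat_lit 2) (nat_lit 4) (nat_lit 332) (nat_lit 201) (nat_lit 187))))))))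
noncomputable def xc16 : XT := (XT.nd (nat_lit 1326) (nat_lit 0) (nat_lit 0) (XT.nd (nat_lit 624) (nat_lit 76) (nat_lit 0) (XT.nd (nat_lit 312) (nat_lit 0) (nat_lit 0) (XT.nd (nat_lit 156) (nat_lit 0) (nat_lit 0) (XT.nd (nat_lit 78) (nat_lit 0) (nat_lit 0) (XT.lf (nat_lit 0) (nat_lit 49940167433) (nat_lit 152) (nat_lit 26295730340) (nat_lit 0) (nat_lit 48003774767) (nat_lit 2) (nat_lit 5) (nat_lit 4) (nat_lit 4) (nat_lit 2) (nat_lit 4) (nat_lit 333) (nat_lit 201) (nat_lit 186)) (XT.lf (nat_lit 0) (nat_lit 53982074040) (nat_lit 152) (nat_lit 24421301313) (nat_lit 0) (nat_lit 51960217692) (nat_lit 2) (nat_lit 5) (nat_lit 4) (nat_lit 4) (nat_lit 2) (nat_lit 4) (nat_lit 334) (nat_lit 201) (nat_lit 185))) (XT.nd (nat_lit 78) (nat_lit 0) (nat_lit 0) (XT.lf (nat_lit 0) (nat_lit 58186144967) (nat_lit 152) (nat_lit 22526700896) (nat_lit 0) (nat_lit 56082894636) (nat_lit 2) (nat_lit 5) (nat_lit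 4) (nat_lit 4) (nat_lit 2) (nat_lit 4) (nat_lit 335) (nat_lit 201) (nat_lit 184)) (XT.lf (nat_lit 0) (nat_lit 62562389905) (nat_lit 152) (nat_lit 20607418135) (nat_lit 0) (nat_lit 60381621496) (nat_lit 2) (nat_lit 5) (nat_lit 4) (nat_lit 4) (nat_lit 2) (nat_lit 4) (nat_lit 336) (nat_lit 201) (nat_lit 183)))) (XT.nd (nat_lit 156) (nat_lit 0) (nat_lit 0) (XT.nd (nat_lit 78) (nat_lit 0) (nat_lit 0) (XT.lf (nat_lit 0) (nat_lit 67121228486) (nat_lit 152) (nat_lit 18658883309) (nat_lit 0) (nat_lit 64866633335) (nat_lit 2) (nat_lit 5) (nat_lit 4) (nat_lit 4) (nat_lit 2) (nat_lit 4) (nat_lit 337) (nat_lit 201) (nat_lit 182)) (XT.lf (nat_lit 0) (nat_lit 71873515087) (nat_lit 152) (nat_lit 16676457050) (nat_lit 0) (nat_lit 69548608754) (nat_lit 2) (nat_lit 5) (nat_lit 4) (nat_lit 4) (nat_lit 2) (nat_lit 4) (nat_lit 338) (nat_lit 201) (nat_lit 181))) (XT.nd (nat_lit 78) (nat_lit 0) (nat_lit 0)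 (XT.lf (nat_lit 0) (nat_lit 76830564677) (nat_lit 152) (nat_lit 14655419296) (nat_lit 0) (nat_lit 74438695313) (nat_lit 2) (nat_lit 5) (nat_lit 4) (nat_lit 4) (nat_lit 2) (nat_lit 4) (nat_lit 339) (nat_lit 201) (nat_lit 180)) (XT.lf (nat_lit 0) (nat_lit 82004179754) (nat_lit 152) (nat_lit 12590958051) (nat_lit 0) (nat_lit 79548536074) (nat_lit 2) (nat_lit 5) (nat_lit 4) (nat_lit 4) (nat_lit 2) (nat_lit 4) (nat_lit 340) (nat_lit 201) (nat_lit 179))))) (XT.nd (nat_lit 312) (nat_lit 76) (nat_lit 0) (XT.nd (nat_lit 156) (nat_lit 0) (nat_lit 0) (XT.nd (nat_lit 78) (nat_lit 0) (nat_lit 0) (XT.lf (nat_lit 0) (nat_lit 87406678450) (nat_lit 152) (nat_lit 10478157931) (nat_lit 0) (nat_lit 84890297327) (nat_lit 2) (nat_lit 5) (nat_lit 4) (nat_lit 4) (nat_lit 2) (nat_lit 4) (nat_lit 341) (nat_lit 201) (nat_lit 178)) (XT.lf (nat_lit 0) (nat_lit 93050923856) (nat_lit 152) (nat_lit 8311988461) (nat_lit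 0) (nat_lit 90476697550) (nat_lit 2) (nat_lit 5) (nat_lit 4) (nat_lit 4) (nat_lit 2) (nat_lit 4) (nat_lit 342) (nat_lit 201) (nat_lit 177))) (XT.nd (nat_lit 78) (nat_lit 0) (nat_lit 0) (XT.lf (nat_lit 0) (nat_lit 98950354653) (nat_lit 152) (nat_lit 6087292094) (nat_lit 0) (nat_lit 96321037695) (nat_lit 2) (nat_lit 5) (nat_lit 4) (nat_lit 4) (nat_lit 2) (nat_lit 4) (nat_lit 343) (nat_lit 201) (nat_lit 176)) (XT.lf (nat_lit 0) (nat_lit 105119017103) (nat_lit 152) (nat_lit 3798771933) (nat_lit 0) (nat_lit 102437232859) (nat_lit 2) (nat_lit 5) (nat_lit 4) (nat_lit 4) (nat_lit 2) (nat_lit 4) (nat_lit 344) (nat_lit 201) (nat_lit 175)))) (XT.nd (nat_lit 156) (nat_lit 0) (nat_lit 0) (XT.nd (nat_lit 78) (nat_lit 76) (nat_lit 0) (XT.lf (nat_lit 0) (nat_lit 111571598500) (nat_lit 152) (nat_lit 1440979122) (nat_lit 0) (nat_lit 108839845410) (nat_lit 2) (nat_lit 5) (nat_lit 4) (nat_lit 4) (nat_lit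 2) (nat_lit 4) (nat_lit 345) (nat_lit 201) (nat_lit 174)) (XT.lf (nat_lit 0) (nat_lit 1024490217) (nat_lit 76) (nat_lit 117314967077) (nat_lit 76) (nat_lit 114535624612) (nat_lit 1) (nat_lit 4) (nat_lit 2) (nat_lit 5) (nat_lit 2) (nat_lit 4) (nat_lit 346) (nat_lit 201) (nat_lit 173))) (XT.nd (nat_lit 78) (nat_lit 0) (nat_lit 0) (XT.lf (nat_lit 0) (nat_lit 3620950967) (nat_lit 76) (nat_lit 121826266087) (nat_lit 76) (nat_lit 119001600406) (nat_lit 1) (nat_lit 4) (nat_lit 2) (nat_lit 5) (nat_lit 2) (nat_lit 4) (nat_lit 347) (nat_lit 201) (nat_lit 172)) (XT.nd (nat_lit 78) (nat_lit 0) (nat_lit 0) (XT.lf (nat_lit 0) (nat_lit 6306939901) (nat_lit 76) (nat_lit 126581619518) (nat_lit 76) (nat_lit 123713788871) (nat_lit 1) (nat_lit 4) (nat_lit 2) (nat_lit 5) (nat_lit 2) (nat_lit 4) (nat_lit 348) (nat_lit 201) (nat_lit 171)) (XT.lf (nat_lit 0) (nat_lit 9088852229) (nat_lit 76) (nat_lit 131592349641)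 (nat_lit 76) (nat_lit 128683409502) (nat_lit 1) (nat_lit 4) (nat_lit 2) (nat_lit 5) (nat_lit 2) (nat_lit 4) (nat_lit 349) (nat_lit 201) (nat_lit 170))))))) (XT.nd (nat_lit 702) (nat_lit 0) (nat_lit 0) (XT.nd (nat_lit 312) (nat_lit 0) (nat_lit 0) (XT.nd (nat_lit 156) (nat_lit 0) (nat_lit 0) (XT.nd (nat_lit 78) (nat_lit 0) (nat_lit 0) (XT.lf (nat_lit 0) (nat_lit 11973311552) (nat_lit 76) (nat_lit 136870386767) (nat_lit 76) (nat_lit 133922294730) (nat_lit 1) (nat_lit 4) (nat_lit 2) (nat_lit 5) (nat_lit 2) (nat_lit 4) (nat_lit 350) (nat_lit 201) (nat_lit 169)) (XT.lf (nat_lit 0) (nat_lit 14967185631) (nat_lit 76) (nat_lit 142428297648) (nat_lit 76) (nat_lit 139442918091) (nat_lit 1) (nat_lit 4) (nat_lit 2) (nat_lit 5) (nat_lit 2) (nat_lit 4) (nat_lit 351) (nat_lit 201) (nat_lit 168))) (XT.nd (nat_lit 78) (nat_lit 0) (nat_lit 0) (XT.lf (nat_lit 0) (nat_lit 18077602737) (nat_lit 76) (nat_lit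 148279315408) (nat_lit 76) (nat_lit 145258423925) (nat_lit 1) (nat_lit 4) (nat_lit 2) (nat_lit 5) (nat_lit 2) (nat_lit 4) (nat_lit 352) (nat_lit 201) (nat_lit 167)) (XT.lf (nat_lit 0) (nat_lit 21311968626) (nat_lit 76) (nat_lit 154437371041) (nat_lit 76) (nat_lit 151382658677) (nat_lit 1) (nat_lit 4) (nat_lit 2) (nat_lit 5) (nat_lit 2) (nat_lit 4) (nat_lit 353) (nat_lit 201) (nat_lit 166)))) (XT.nd (nat_lit 156) (nat_lit 0) (nat_lit 0) (XT.nd (nat_lit 78) (nat_lit 0) (nat_lit 0) (XT.lf (nat_lit 0) (nat_lit 24677984168) (nat_lit 76) (nat_lit 160917126583) (nat_lit 76) (nat_lit 157830203856) (nat_lit 1) (nat_lit 4) (nat_lit 2) (nat_lit 5) (nat_lit 2) (nat_lit 4) (nat_lit 354) (nat_lit 201) (nat_lit 165)) (XT.lf (nat_lit 0) (nat_lit 28183663686) (nat_lit 76) (nat_lit 167734010024) (nat_lit 76) (nat_lit 164616410761) (nat_lit 1) (nat_lit 4) (nat_lit 2) (nat_lit 5) (nat_lit 2) (nat_lit 4)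 (nat_lit 355) (nat_lit 201) (nat_lit 164))) (XT.nd (nat_lit 78) (nat_lit 0) (nat_lit 0) (XT.lf (nat_lit 0) (nat_lit 31837354037) (nat_lit 76) (nat_lit 174904252039) (nat_lit 76) (nat_lit 171757437028) (nat_lit 1) (nat_lit 4) (nat_lit 2) (nat_lit 5) (nat_lit 2) (nat_lit 4) (nat_lit 356) (nat_lit 201) (nat_lit 163)) (XT.nd (nat_lit 78) (nat_lit 0) (nat_lit 0) (XT.lf (nat_lit 0) (nat_lit 35647754482) (nat_lit 76) (nat_lit 182444924634) (nat_lit 76) (nat_lit 179270285100) (nat_lit 1) (nat_lit 4) (nat_lit 2) (nat_lit 5) (nat_lit 2) (nat_lit 4) (nat_lit 357) (nat_lit 201) (nat_lit 162)) (XT.lf (nat_lit 0) (nat_lit 39623937404) (nat_lit 76) (nat_lit 190373981789) (nat_lit 76) (nat_lit 187172842710) (nat_lit 1) (nat_lit 4) (nat_lit 2) (nat_lit 5) (nat_lit 2) (nat_lit 4) (nat_lit 358) (nat_lit 201) (nat_lit 161)))))) (XT.nd (nat_lit 312) (nat_lit 0) (nat_lit 0) (XT.nd (nat_lit 156) (nat_lit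 0) (nat_lit 0) (XT.nd (nat_lit 78) (nat_lit 0) (nat_lit 0) (XT.lf (nat_lit 0) (nat_lit 43775369906) (nat_lit 76) (nat_lit 198710302213) (nat_lit 76) (nat_lit 195483925472) (nat_lit 1) (nat_lit 4) (nat_lit 2) (nat_lit 5) (nat_lit 2) (nat_lit 4) (nat_lit 359) (nat_lit 201) (nat_lit 160)) (XT.lf (nat_lit 0) (nat_lit 48111936350) (nat_lit 76) (nat_lit 207473734288) (nat_lit 76) (nat_lit 204223321678) (nat_lit 1) (nat_lit 4) (nat_lit 2) (nat_lit 5) (nat_lit 2) (nat_lit 4) (nat_lit 360) (nat_lit 201) (nat_lit 159))) (XT.nd (nat_lit 78) (nat_lit 0) (nat_lit 0) (XT.lf (nat_lit 0) (nat_lit 52643961894) (nat_lit 76) (nat_lit 216685143328) (nat_lit 76) (nat_lit 213411839415) (nat_lit 1) (nat_lit 4) (nat_lit 2) (nat_lit 5) (nat_lit 2) (nat_lit 4) (nat_lit 361) (nat_lit 201) (nat_lit 158)) (XT.lf (nat_lit 0) (nat_lit 57382237075) (nat_lit 76) (nat_lit 226366461259) (nat_lit 76) (nat_lit 223071356105)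 (nat_lit 1) (nat_lit 4) (nat_lit 2) (nat_lit 5) (nat_lit 2) (nat_lit 4) (nat_lit 362) (nat_lit 201) (nat_lit 157)))) (XT.nd (nat_lit 33852) (nat_lit 0) (nat_lit 76) (XT.nd (nat_lit 78) (nat_lit 0) (nat_lit 0) (XT.lf (nat_lit 0) (nat_lit 62338043502) (nat_lit 76) (nat_lit 236540738839) (nat_lit 76) (nat_lit 233224870597) (nat_lit 1) (nat_lit 4) (nat_lit 2) (nat_lit 5) (nat_lit 2) (nat_lit 4) (nat_lit 363) (nat_lit 201) (nat_lit 156)) (XT.lf (nat_lit 0) (nat_lit 67523180713) (nat_lit 76) (nat_lit 247232200538) (nat_lit 76) (nat_lit 243896557927) (nat_lit 1) (nat_lit 4) (nat_lit 2) (nat_lit 5) (nat_lit 2) (nat_lit 4) (nat_lit 364) (nat_lit 201) (nat_lit 155))) (XT.nd (nat_lit 78) (nat_lit 152) (nat_lit 0) (XT.lf (nat_lit 0) (nat_lit 25906155300) (nat_lit 76) (nat_lit 926899476) (nat_lit 76) (nat_lit 926899476) (nat_lit 4) (nat_lit 4) (nat_lit 5) (nat_lit 5) (nat_lit 5) (nat_lit 4) (nat_lit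 316) (nat_lit 202) (nat_lit 202)) (XT.nd (nat_lit 78) (nat_lit 0) (nat_lit 0) (XT.lf (nat_lit 0) (nat_lit 593717975) (nat_lit 152) (nat_lit 57160471804) (nat_lit 0) (nat_lit 407161476) (nat_lit 2) (nat_lit 5) (nat_lit 4) (nat_lit 4) (nat_lit 2) (nat_lit 4) (nat_lit 317) (nat_lit 202) (nat_lit 201)) (XT.lf (nat_lit 0) (nat_lit 3108356015) (nat_lit 152) (nat_lit 55080586736) (nat_lit 0) (nat_lit 2744126659) (nat_lit 2) (nat_lit 5) (nat_lit 4) (nat_lit 4) (nat_lit 2) (nat_lit 4) (nat_lit 318) (nat_lit 202) (nat_lit 200))))))))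
noncomputable def xc17 : XT := (XT.nd (nat_lit 1326) (nat_lit 76) (nat_lit 0) (XT.nd (nat_lit 624) (nat_lit 0) (nat_lit 0) (XT.nd (nat_lit 312) (nat_lit 0) (nat_lit 0) (XT.nd (nat_lit 156) (nat_lit 0) (nat_lit 0) (XT.nd (nat_lit 78) (nat_lit 0) (nat_lit 0) (XT.lf (nat_lit 0) (nat_lit 5665712252) (nat_lit 152) (nat_lit 53049612709) (nat_lit 0) (nat_lit 5132270653) (nat_lit 2) (nat_lit 5) (nat_lit 4) (nat_lit 4) (nat_lit 2) (nat_lit 4) (nat_lit 319) (nat_lit 202) (nat_lit 199)) (XT.lf (nat_lit 0) (nat_lit 8271875631) (nat_lit 152) (nat_lit 51062714071) (nat_lit 0) (nat_lit 7577279513) (nat_lit 2) (nat_lit 5) (nat_lit 4) (nat_lit 4) (nat_lit 2) (nat_lit 4) (nat_lit 320) (nat_lit 202) (nat_lit 198))) (XT.nd (nat_lit 78) (nat_lit 0) (nat_lit 0) (XT.lf (nat_lit 0) (nat_lit 10933051301) (nat_lit 152) (nat_lit 49115160110) (nat_lit 0) (nat_lit 10084974690) (nat_lit 2) (nat_lit 5) (nat_lit 4)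 (nat_lit 4) (nat_lit 2) (nat_lit 4) (nat_lit 321) (nat_lit 202) (nat_lit 197)) (XT.lf (nat_lit 0) (nat_lit 13655575397) (nat_lit 152) (nat_lit 47202313794) (nat_lit 0) (nat_lit 12661326887) (nat_lit 2) (nat_lit 5) (nat_lit 4) (nat_lit 4) (nat_lit 2) (nat_lit 4) (nat_lit 322) (nat_lit 202) (nat_lit 196)))) (XT.nd (nat_lit 156) (nat_lit 0) (nat_lit 0) (XT.nd (nat_lit 78) (nat_lit 0) (nat_lit 0) (XT.lf (nat_lit 0) (nat_lit 16445930117) (nat_lit 152) (nat_lit 45319620725) (nat_lit 0) (nat_lit 15312470275) (nat_lit 2) (nat_lit 5) (nat_lit 4) (nat_lit 4) (nat_lit 2) (nat_lit 4) (nat_lit 323) (nat_lit 202) (nat_lit 195)) (XT.lf (nat_lit 0) (nat_lit 19310759164) (nat_lit 152) (nat_lit 43462598303) (nat_lit 0) (nat_lit 18044717101) (nat_lit 2) (nat_lit 5) (nat_lit 4) (nat_lit 4) (nat_lit 2) (nat_lit 4) (nat_lit 324) (nat_lit 202) (nat_lit 194))) (XT.nd (nat_lit 78) (nat_lit 0) (nat_lit 0) (XT.lf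 (nat_lit 0) (nat_lit 22256883558) (nat_lit 152) (nat_lit 41626825044) (nat_lit 0) (nat_lit 20864572713) (nat_lit 2) (nat_lit 5) (nat_lit 4) (nat_lit 4) (nat_lit 2) (nat_lit 4) (nat_lit 325) (nat_lit 202) (nat_lit 193)) (XT.lf (nat_lit 0) (nat_lit 25291317883) (nat_lit 152) (nat_lit 39807930060) (nat_lit 0) (nat_lit 23778751056) (nat_lit 2) (nat_lit 5) (nat_lit 4) (nat_lit 4) (nat_lit 2) (nat_lit 4) (nat_lit 326) (nat_lit 202) (nat_lit 192))))) (XT.nd (nat_lit 312) (nat_lit 0) (nat_lit 0) (XT.nd (nat_lit 156) (nat_lit 0) (nat_lit 0) (XT.nd (nat_lit 78) (nat_lit 0) (nat_lit 0) (XT.lf (nat_lit 0) (nat_lit 28421286982) (nat_lit 152) (nat_lit 38001582649) (nat_lit 0) (nat_lit 26794190647) (nat_lit 2) (nat_lit 5) (nat_lit 4) (nat_lit 4) (nat_lit 2) (nat_lit 4) (nat_lit 327) (nat_lit 202) (nat_lit 191)) (XT.lf (nat_lit 0) (nat_lit 31654243161) (nat_lit 152) (nat_lit 36203481983) (nat_lit 0)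 (nat_lit 29918071105) (nat_lit 2) (nat_lit 5) (nat_lit 4) (nat_lit 4) (nat_lit 2) (nat_lit 4) (nat_lit 328) (nat_lit 202) (nat_lit 190))) (XT.nd (nat_lit 78) (nat_lit 0) (nat_lit 0) (XT.lf (nat_lit 0) (nat_lit 34997883937) (nat_lit 152) (nat_lit 34409346871) (nat_lit 0) (nat_lit 33157830241) (nat_lit 2) (nat_lit 5) (nat_lit 4) (nat_lit 4) (nat_lit 2) (nat_lit 4) (nat_lit 329) (nat_lit 202) (nat_lit 189)) (XT.lf (nat_lit 0) (nat_lit 38460170357) (nat_lit 152) (nat_lit 32614905562) (nat_lit 0) (nat_lit 36521181767) (nat_lit 2) (nat_lit 5) (nat_lit 4) (nat_lit 4) (nat_lit 2) (nat_lit 4) (nat_lit 330) (nat_lit 202) (nat_lit 188)))) (XT.nd (nat_lit 156) (nat_lit 0) (nat_lit 0) (XT.nd (nat_lit 78) (nat_lit 0) (nat_lit 0) (XT.lf (nat_lit 0) (nat_lit 42049345962) (nat_lit 152) (nat_lit 30815885577) (nat_lit 0) (nat_lit 40016133662) (nat_lit 2) (nat_lit 5) (nat_lit 4) (nat_lit 4) (nat_lit 2)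 (nat_lit 4) (nat_lit 331) (nat_lit 202) (nat_lit 187)) (XT.lf (nat_lit 0) (nat_lit 45773956407) (nat_lit 152) (nat_lit 29008003535) (nat_lit 0) (nat_lit 43651007242) (nat_lit 2) (nat_lit 5) (nat_lit 4) (nat_lit 4) (nat_lit 2) (nat_lit 4) (nat_lit 332) (nat_lit 202) (nat_lit 186))) (XT.nd (nat_lit 78) (nat_lit 0) (nat_lit 0) (XT.lf (nat_lit 0) (nat_lit 49642869813) (nat_lit 152) (nat_lit 27186954954) (nat_lit 0) (nat_lit 47434456966) (nat_lit 2) (nat_lit 5) (nat_lit 4) (nat_lit 4) (nat_lit 2) (nat_lit 4) (nat_lit 333) (nat_lit 202) (nat_lit 185)) (XT.nd (nat_lit 78) (nat_lit 0) (nat_lit 0) (XT.lf (nat_lit 0) (nat_lit 53665297878) (nat_lit 152) (nat_lit 25348404006) (nat_lit 0) (nat_lit 51375491048) (nat_lit 2) (nat_lit 5) (nat_lit 4) (nat_lit 4) (nat_lit 2) (nat_lit 4) (nat_lit 334) (nat_lit 202) (nat_lit 184)) (XT.lf (nat_lit 0) (nat_lit 57850817812) (nat_lit 152) (nat_lit 23487973187)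 (nat_lit 0) (nat_lit 55483492904) (nat_lit 2) (nat_lit 5) (nat_lit 4) (nat_lit 4) (nat_lit 2) (nat_lit 4) (nat_lit 335) (nat_lit 202) (nat_lit 183))))))) (XT.nd (nat_lit 702) (nat_lit 76) (nat_lit 0) (XT.nd (nat_lit 312) (nat_lit 0) (nat_lit 0) (XT.nd (nat_lit 156) (nat_lit 0) (nat_lit 0) (XT.nd (nat_lit 78) (nat_lit 0) (nat_lit 0) (XT.lf (nat_lit 0) (nat_lit 62209395138) (nat_lit 152) (nat_lit 21601232901) (nat_lit 0) (nat_lit 59768243488) (nat_lit 2) (nat_lit 5) (nat_lit 4) (nat_lit 4) (nat_lit 2) (nat_lit 4) (nat_lit 336) (nat_lit 202) (nat_lit 182)) (XT.lf (nat_lit 0) (nat_lit 66751407422) (nat_lit 152) (nat_lit 19683690909) (nat_lit 0) (nat_lit 64239944590) (nat_lit 2) (nat_lit 5) (nat_lit 4) (nat_lit 4) (nat_lit 2) (nat_lit 4) (nat_lit 337) (nat_lit 202) (nat_lit 181))) (XT.nd (nat_lit 78) (nat_lit 0) (nat_lit 0) (XT.lf (nat_lit 0) (nat_lit 71487668979) (nat_lit 152) (nat_lit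 17730781634) (nat_lit 0) (nat_lit 68909243116) (nat_lit 2) (nat_lit 5) (nat_lit 4) (nat_lit 4) (nat_lit 2) (nat_lit 4) (nat_lit 338) (nat_lit 202) (nat_lit 180)) (XT.lf (nat_lit 0) (nat_lit 76429456621) (nat_lit 152) (nat_lit 15737855293) (nat_lit 0) (nat_lit 73787256443) (nat_lit 2) (nat_lit 5) (nat_lit 4) (nat_lit 4) (nat_lit 2) (nat_lit 4) (nat_lit 339) (nat_lit 202) (nat_lit 179)))) (XT.nd (nat_lit 156) (nat_lit 0) (nat_lit 0) (XT.nd (nat_lit 78) (nat_lit 0) (nat_lit 0) (XT.lf (nat_lit 0) (nat_lit 81588536511) (nat_lit 152) (nat_lit 13700166822) (nat_lit 0) (nat_lit 78885598889) (nat_lit 2) (nat_lit 5) (nat_lit 4) (nat_lit 4) (nat_lit 2) (nat_lit 4) (nat_lit 340) (nat_lit 202) (nat_lit 178)) (XT.lf (nat_lit 0) (nat_lit 86977192170) (nat_lit 152) (nat_lit 11612864584) (nat_lit 0) (nat_lit 84216409365) (nat_lit 2) (nat_lit 5) (nat_lit 4) (nat_lit 4) (nat_lit 2) (nat_lit 4) (nat_lit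 341) (nat_lit 202) (nat_lit 177))) (XT.nd (nat_lit 78) (nat_lit 0) (nat_lit 0) (XT.lf (nat_lit 0) (nat_lit 92608253733) (nat_lit 152) (nat_lit 9470978809) (nat_lit 0) (nat_lit 89792380276) (nat_lit 2) (nat_lit 5) (nat_lit 4) (nat_lit 4) (nat_lit 2) (nat_lit 4) (nat_lit 342) (nat_lit 202) (nat_lit 176)) (XT.nd (nat_lit 78) (nat_lit 0) (nat_lit 0) (XT.lf (nat_lit 0) (nat_lit 98495128487) (nat_lit 152) (nat_lit 7269409771) (nat_lit 0) (nat_lit 95626787744) (nat_lit 2) (nat_lit 5) (nat_lit 4) (nat_lit 4) (nat_lit 2) (nat_lit 4) (nat_lit 343) (nat_lit 202) (nat_lit 175)) (XT.lf (nat_lit 0) (nat_lit 104651832803) (nat_lit 152) (nat_lit 5002915639) (nat_lit 0) (nat_lit 101733523215) (nat_lit 2) (nat_lit 5) (nat_lit 4) (nat_lit 4) (nat_lit 2) (nat_lit 4) (nat_lit 344) (nat_lit 202) (nat_lit 174)))))) (XT.nd (nat_lit 312) (nat_lit 0) (nat_lit 0) (XT.nd (nat_lit 156) (nat_lit 76) (nat_lit 0)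 (XT.nd (nat_lit 78) (nat_lit 0) (nat_lit 0) (XT.lf (nat_lit 0) (nat_lit 111093025499) (nat_lit 152) (nat_lit 2666099997) (nat_lit 0) (nat_lit 108127126535) (nat_lit 2) (nat_lit 5) (nat_lit 4) (nat_lit 4) (nat_lit 2) (nat_lit 4) (nat_lit 345) (nat_lit 202) (nat_lit 173)) (XT.lf (nat_lit 0) (nat_lit 117834042749) (nat_lit 152) (nat_lit 253398999) (nat_lit 0) (nat_lit 114822820570) (nat_lit 2) (nat_lit 5) (nat_lit 4) (nat_lit 4) (nat_lit 2) (nat_lit 4) (nat_lit 346) (nat_lit 202) (nat_lit 172))) (XT.nd (nat_lit 78) (nat_lit 0) (nat_lit 0) (XT.lf (nat_lit 0) (nat_lit 2315027209) (nat_lit 76) (nat_lit 122612051447) (nat_lit 76) (nat_lit 119557664301) (nat_lit 1) (nat_lit 4) (nat_lit 2) (nat_lit 5) (nat_lit 2) (nat_lit 4) (nat_lit 347) (nat_lit 202) (nat_lit 171)) (XT.lf (nat_lit 0) (nat_lit 4982296117) (nat_lit 76) (nat_lit 127375994644) (nat_lit 76) (nat_lit 124280498006) (nat_lit 1) (nat_lit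 4) (nat_lit 2) (nat_lit 5) (nat_lit 2) (nat_lit 4) (nat_lit 348) (nat_lit 202) (nat_lit 170)))) (XT.nd (nat_lit 156) (nat_lit 0) (nat_lit 0) (XT.nd (nat_lit 78) (nat_lit 0) (nat_lit 0) (XT.lf (nat_lit 0) (nat_lit 7746379849) (nat_lit 76) (nat_lit 132394905497) (nat_lit 76) (nat_lit 129260256962) (nat_lit 1) (nat_lit 4) (nat_lit 2) (nat_lit 5) (nat_lit 2) (nat_lit 4) (nat_lit 349) (nat_lit 202) (nat_lit 169)) (XT.lf (nat_lit 0) (nat_lit 10613859558) (nat_lit 76) (nat_lit 137680733793) (nat_lit 76) (nat_lit 134508797736) (nat_lit 1) (nat_lit 4) (nat_lit 2) (nat_lit 5) (nat_lit 2) (nat_lit 4) (nat_lit 350) (nat_lit 202) (nat_lit 168))) (XT.nd (nat_lit 78) (nat_lit 0) (nat_lit 0) (XT.lf (nat_lit 0) (nat_lit 13591562575) (nat_lit 76) (nat_lit 143246064838) (nat_lit 76) (nat_lit 140038616856) (nat_lit 1) (nat_lit 4) (nat_lit 2) (nat_lit 5) (nat_lit 2) (nat_lit 4) (nat_lit 351) (nat_lit 202)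 (nat_lit 167)) (XT.nd (nat_lit 78) (nat_lit 0) (nat_lit 0) (XT.lf (nat_lit 0) (nat_lit 16686578670) (nat_lit 76) (nat_lit 149104149420) (nat_lit 76) (nat_lit 145862880557) (nat_lit 1) (nat_lit 4) (nat_lit 2) (nat_lit 5) (nat_lit 2) (nat_lit 4) (nat_lit 352) (nat_lit 202) (nat_lit 166)) (XT.lf (nat_lit 0) (nat_lit 19906276929) (nat_lit 76) (nat_lit 155268935358) (nat_lit 76) (nat_lit 151995456133) (nat_lit 1) (nat_lit 4) (nat_lit 2) (nat_lit 5) (nat_lit 2) (nat_lit 4) (nat_lit 353) (nat_lit 202) (nat_lit 165))))))))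
noncomputable def xc18 : XT := (XT.nd (nat_lit 34866) (nat_lit 0) (nat_lit 76) (XT.nd (nat_lit 624) (nat_lit 0) (nat_lit 0) (XT.nd (nat_lit 312) (nat_lit 0) (nat_lit 0) (XT.nd (nat_lit 156) (nat_lit 0) (nat_lit 0) (XT.nd (nat_lit 78) (nat_lit 0) (nat_lit 0) (XT.lf (nat_lit 0) (nat_lit 23258323300) (nat_lit 76) (nat_lit 161755100716) (nat_lit 76) (nat_lit 158450944954) (nat_lit 1) (nat_lit 4) (nat_lit 2) (nat_lit 5) (nat_lit 2) (nat_lit 4) (nat_lit 354) (nat_lit 202) (nat_lit 164)) (XT.lf (nat_lit 0) (nat_lit 26750698846) (nat_lit 76) (nat_lit 168578088744) (nat_lit 76) (nat_lit 165244717234) (nat_lit 1) (nat_lit 4) (nat_lit 2) (nat_lit 5) (nat_lit 2) (nat_lit 4) (nat_lit 355) (nat_lit 202) (nat_lit 163))) (XT.nd (nat_lit 78) (nat_lit 0) (nat_lit 0) (XT.lf (nat_lit 0) (nat_lit 30391718746) (nat_lit 76) (nat_lit 175754144651) (nat_lit 76) (nat_lit 172392948618) (nat_lit 1) (nat_lit 4)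 (nat_lit 2) (nat_lit 5) (nat_lit 2) (nat_lit 4) (nat_lit 356) (nat_lit 202) (nat_lit 162)) (XT.lf (nat_lit 0) (nat_lit 34190052096) (nat_lit 76) (nat_lit 183300354285) (nat_lit 76) (nat_lit 179912658707) (nat_lit 1) (nat_lit 4) (nat_lit 2) (nat_lit 5) (nat_lit 2) (nat_lit 4) (nat_lit 357) (nat_lit 202) (nat_lit 161)))) (XT.nd (nat_lit 156) (nat_lit 0) (nat_lit 0) (XT.nd (nat_lit 78) (nat_lit 0) (nat_lit 0) (XT.lf (nat_lit 0) (nat_lit 38154742547) (nat_lit 76) (nat_lit 191234684812) (nat_lit 76) (nat_lit 187821751571) (nat_lit 1) (nat_lit 4) (nat_lit 2) (nat_lit 5) (nat_lit 2) (nat_lit 4) (nat_lit 358) (nat_lit 202) (nat_lit 160)) (XT.lf (nat_lit 0) (nat_lit 42295229837) (nat_lit 76) (nat_lit 199576027494) (nat_lit 76) (nat_lit 196139058385) (nat_lit 1) (nat_lit 4) (nat_lit 2) (nat_lit 5) (nat_lit 2) (nat_lit 4) (nat_lit 359) (nat_lit 202) (nat_lit 159))) (XT.nd (nat_lit 78) (nat_lit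 0) (nat_lit 0) (XT.lf (nat_lit 0) (nat_lit 46621372270) (nat_lit 76) (nat_lit 208344242672) (nat_lit 76) (nat_lit 204884382260) (nat_lit 1) (nat_lit 4) (nat_lit 2) (nat_lit 5) (nat_lit 2) (nat_lit 4) (nat_lit 360) (nat_lit 202) (nat_lit 158)) (XT.lf (nat_lit 0) (nat_lit 51143470185) (nat_lit 76) (nat_lit 217560207048) (nat_lit 76) (nat_lit 214078545394) (nat_lit 1) (nat_lit 4) (nat_lit 2) (nat_lit 5) (nat_lit 2) (nat_lit 4) (nat_lit 361) (nat_lit 202) (nat_lit 157))))) (XT.nd (nat_lit 33852) (nat_lit 0) (nat_lit 76) (XT.nd (nat_lit 156) (nat_lit 0) (nat_lit 0) (XT.nd (nat_lit 78) (nat_lit 0) (nat_lit 0) (XT.lf (nat_lit 0) (nat_lit 55872290482) (nat_lit 76) (nat_lit 227245863395) (nat_lit 76) (nat_lit 223743438654) (nat_lit 1) (nat_lit 4) (nat_lit 2) (nat_lit 5) (nat_lit 2) (nat_lit 4) (nat_lit 362) (nat_lit 202) (nat_lit 156)) (XT.lf (nat_lit 0) (nat_lit 60819092256) (nat_lit 76) (nat_lit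 237424272799) (nat_lit 76) (nat_lit 233902073690) (nat_lit 1) (nat_lit 4) (nat_lit 2) (nat_lit 5) (nat_lit 2) (nat_lit 4) (nat_lit 363) (nat_lit 202) (nat_lit 155))) (XT.nd (nat_lit 33618) (nat_lit 0) (nat_lit 228) (XT.lf (nat_lit 0) (nat_lit 65995653608) (nat_lit 76) (nat_lit 248119669569) (nat_lit 76) (nat_lit 244578637727) (nat_lit 1) (nat_lit 4) (nat_lit 2) (nat_lit 5) (nat_lit 2) (nat_lit 4) (nat_lit 364) (nat_lit 202) (nat_lit 154)) (XT.lf (nat_lit 0) (nat_lit 18902321133) (nat_lit 76) (nat_lit 3202782521) (nat_lit 76) (nat_lit 3202782521) (nat_lit 4) (nat_lit 4) (nat_lit 5) (nat_lit 5) (nat_lit 5) (nat_lit 4) (nat_lit 314) (nat_lit 203) (nat_lit 203)))) (XT.nd (nat_lit 156) (nat_lit 152) (nat_lit 0) (XT.nd (nat_lit 78) (nat_lit 0) (nat_lit 0) (XT.lf (nat_lit 0) (nat_lit 44676848489) (nat_lit 76) (nat_lit 4267882696) (nat_lit 76) (nat_lit 4062204156) (nat_lit 4) (nat_lit 4) (nat_lit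 5) (nat_lit 5) (nat_lit 5) (nat_lit 4) (nat_lit 315) (nat_lit 203) (nat_lit 202)) (XT.lf (nat_lit 0) (nat_lit 51735782581) (nat_lit 76) (nat_lit 2093916788) (nat_lit 76) (nat_lit 1692353924) (nat_lit 4) (nat_lit 4) (nat_lit 5) (nat_lit 5) (nat_lit 5) (nat_lit 4) (nat_lit 316) (nat_lit 203) (nat_lit 201))) (XT.nd (nat_lit 78) (nat_lit 0) (nat_lit 0) (XT.lf (nat_lit 0) (nat_lit 702437910) (nat_lit 152) (nat_lit 57321022363) (nat_lit 0) (nat_lit 142324230) (nat_lit 2) (nat_lit 5) (nat_lit 4) (nat_lit 4) (nat_lit 2) (nat_lit 4) (nat_lit 317) (nat_lit 203) (nat_lit 200)) (XT.nd (nat_lit 78) (nat_lit 0) (nat_lit 0) (XT.lf (nat_lit 0) (nat_lit 3176581460) (nat_lit 152) (nat_lit 55315725244) (nat_lit 0) (nat_lit 2447255536) (nat_lit 2) (nat_lit 5) (nat_lit 4) (nat_lit 4) (nat_lit 2) (nat_lit 4) (nat_lit 318) (nat_lit 203) (nat_lit 199)) (XT.lf (nat_lit 0) (nat_lit 5695371516) (nat_lit 152)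 (nat_lit 53355787358) (nat_lit 0) (nat_lit 4804891074) (nat_lit 2) (nat_lit 5) (nat_lit 4) (nat_lit 4) (nat_lit 2) (nat_lit 4) (nat_lit 319) (nat_lit 203) (nat_lit 198))))))) (XT.nd (nat_lit 702) (nat_lit 0) (nat_lit 0) (XT.nd (nat_lit 312) (nat_lit 0) (nat_lit 0) (XT.nd (nat_lit 156) (nat_lit 0) (nat_lit 0) (XT.nd (nat_lit 78) (nat_lit 0) (nat_lit 0) (XT.lf (nat_lit 0) (nat_lit 8264805199) (nat_lit 152) (nat_lit 51436542188) (nat_lit 0) (nat_lit 7220844263) (nat_lit 2) (nat_lit 5) (nat_lit 4) (nat_lit 4) (nat_lit 2) (nat_lit 4) (nat_lit 320) (nat_lit 203) (nat_lit 197)) (XT.lf (nat_lit 0) (nat_lit 10891000206) (nat_lit 152) (nat_lit 49553420101) (nat_lit 0) (nat_lit 9700867372) (nat_lit 2) (nat_lit 5) (nat_lit 4) (nat_lit 4) (nat_lit 2) (nat_lit 4) (nat_lit 321) (nat_lit 203) (nat_lit 196))) (XT.nd (nat_lit 78) (nat_lit 0) (nat_lit 0) (XT.lf (nat_lit 0) (nat_lit 13580209385) (nat_lit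 152) (nat_lit 47701937475) (nat_lit 0) (nat_lit 12250865219) (nat_lit 2) (nat_lit 5) (nat_lit 4) (nat_lit 4) (nat_lit 2) (nat_lit 4) (nat_lit 322) (nat_lit 203) (nat_lit 195)) (XT.lf (nat_lit 0) (nat_lit 16338835612) (nat_lit 152) (nat_lit 45877686016) (nat_lit 0) (nat_lit 14876909225) (nat_lit 2) (nat_lit 5) (nat_lit 4) (nat_lit 4) (nat_lit 2) (nat_lit 4) (nat_lit 323) (nat_lit 203) (nat_lit 194)))) (XT.nd (nat_lit 156) (nat_lit 0) (nat_lit 0) (XT.nd (nat_lit 78) (nat_lit 0) (nat_lit 0) (XT.lf (nat_lit 0) (nat_lit 19173447047) (nat_lit 152) (nat_lit 44076322269) (nat_lit 0) (nat_lit 17585251878) (nat_lit 2) (nat_lit 5) (nat_lit 4) (nat_lit 4) (nat_lit 2) (nat_lit 4) (nat_lit 324) (nat_lit 203) (nat_lit 193)) (XT.lf (nat_lit 0) (nat_lit 22090792764) (nat_lit 152) (nat_lit 42293557272) (nat_lit 0) (nat_lit 20382341613) (nat_lit 2) (nat_lit 5) (nat_lit 4) (nat_lit 4) (nat_lit 2) (nat_lit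 4) (nat_lit 325) (nat_lit 203) (nat_lit 192))) (XT.nd (nat_lit 78) (nat_lit 0) (nat_lit 0) (XT.lf (nat_lit 0) (nat_lit 25097818825) (nat_lit 152) (nat_lit 40525146348) (nat_lit 0) (nat_lit 23274838165) (nat_lit 2) (nat_lit 5) (nat_lit 4) (nat_lit 4) (nat_lit 2) (nat_lit 4) (nat_lit 326) (nat_lit 203) (nat_lit 191)) (XT.nd (nat_lit 78) (nat_lit 0) (nat_lit 0) (XT.lf (nat_lit 0) (nat_lit 28201684814) (nat_lit 152) (nat_lit 38766878993) (nat_lit 0) (nat_lit 26269628433) (nat_lit 2) (nat_lit 5) (nat_lit 4) (nat_lit 4) (nat_lit 2) (nat_lit 4) (nat_lit 327) (nat_lit 203) (nat_lit 190)) (XT.lf (nat_lit 0) (nat_lit 31409780889) (nat_lit 152) (nat_lit 37014568858) (nat_lit 0) (nat_lit 29373842870) (nat_lit 2) (nat_lit 5) (nat_lit 4) (nat_lit 4) (nat_lit 2) (nat_lit 4) (nat_lit 328) (nat_lit 203) (nat_lit 189)))))) (XT.nd (nat_lit 312) (nat_lit 0) (nat_lit 0) (XT.nd (nat_lit 156) (nat_lit 0)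 (nat_lit 0) (XT.nd (nat_lit 78) (nat_lit 0) (nat_lit 0) (XT.lf (nat_lit 0) (nat_lit 34729745375) (nat_lit 152) (nat_lit 35264043774) (nat_lit 0) (nat_lit 32594872461) (nat_lit 2) (nat_lit 5) (nat_lit 4) (nat_lit 4) (nat_lit 2) (nat_lit 4) (nat_lit 329) (nat_lit 203) (nat_lit 188)) (XT.lf (nat_lit 0) (nat_lit 38169482948) (nat_lit 152) (nat_lit 33511135826) (nat_lit 0) (nat_lit 35940386325) (nat_lit 2) (nat_lit 5) (nat_lit 4) (nat_lit 4) (nat_lit 2) (nat_lit 4) (nat_lit 330) (nat_lit 203) (nat_lit 187))) (XT.nd (nat_lit 78) (nat_lit 0) (nat_lit 0) (XT.lf (nat_lit 0) (nat_lit 41737183461) (nat_lit 152) (nat_lit 31751671422) (nat_lit 0) (nat_lit 39418349971) (nat_lit 2) (nat_lit 5) (nat_lit 4) (nat_lit 4) (nat_lit 2) (nat_lit 4) (nat_lit 331) (nat_lit 203) (nat_lit 186)) (XT.lf (nat_lit 0) (nat_lit 45441341437) (nat_lit 152) (nat_lit 29981461362) (nat_lit 0) (nat_lit 43037044266) (nat_lit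 2) (nat_lit 5) (nat_lit 4) (nat_lit 4) (nat_lit 2) (nat_lit 4) (nat_lit 332) (nat_lit 203) (nat_lit 185)))) (XT.nd (nat_lit 156) (nat_lit 0) (nat_lit 0) (XT.nd (nat_lit 78) (nat_lit 0) (nat_lit 0) (XT.lf (nat_lit 0) (nat_lit 49290776301) (nat_lit 152) (nat_lit 28196290861) (nat_lit 0) (nat_lit 46805085147) (nat_lit 2) (nat_lit 5) (nat_lit 4) (nat_lit 4) (nat_lit 2) (nat_lit 4) (nat_lit 333) (nat_lit 203) (nat_lit 184)) (XT.lf (nat_lit 0) (nat_lit 53294653373) (nat_lit 152) (nat_lit 26391909511) (nat_lit 0) (nat_lit 50731444141) (nat_lit 2) (nat_lit 5) (nat_lit 4) (nat_lit 4) (nat_lit 2) (nat_lit 4) (nat_lit 334) (nat_lit 203) (nat_lit 183))) (XT.nd (nat_lit 78) (nat_lit 0) (nat_lit 0) (XT.lf (nat_lit 0) (nat_lit 57462505695) (nat_lit 152) (nat_lit 24564021167) (nat_lit 0) (nat_lit 54825469721) (nat_lit 2) (nat_lit 5) (nat_lit 4) (nat_lit 4) (nat_lit 2) (nat_lit 4) (nat_lit 335) (nat_lit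 203) (nat_lit 182)) (XT.nd (nat_lit 78) (nat_lit 0) (nat_lit 0) (XT.lf (nat_lit 0) (nat_lit 61804256725) (nat_lit 152) (nat_lit 22708273714) (nat_lit 0) (nat_lit 59096909568) (nat_lit 2) (nat_lit 5) (nat_lit 4) (nat_lit 4) (nat_lit 2) (nat_lit 4) (nat_lit 336) (nat_lit 203) (nat_lit 181)) (XT.lf (nat_lit 0) (nat_lit 66330243964) (nat_lit 152) (nat_lit 20820248706) (nat_lit 0) (nat_lit 63555933777) (nat_lit 2) (nat_lit 5) (nat_lit 4) (nat_lit 4) (nat_lit 2) (nat_lit 4) (nat_lit 337) (nat_lit 203) (nat_lit 180))))))))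
noncomputable def xc19 : XT := (XT.nd (nat_lit 1326) (nat_lit 0) (nat_lit 0) (XT.nd (nat_lit 624) (nat_lit 76) (nat_lit 0) (XT.nd (nat_lit 312) (nat_lit 0) (nat_lit 0) (XT.nd (nat_lit 156) (nat_lit 0) (nat_lit 0) (XT.nd (nat_lit 78) (nat_lit 0) (nat_lit 0) (XT.lf (nat_lit 0) (nat_lit 71051243573) (nat_lit 152) (nat_lit 18895450844) (nat_lit 0) (nat_lit 68213159071) (nat_lit 2) (nat_lit 5) (nat_lit 4) (nat_lit 4) (nat_lit 2) (nat_lit 4) (nat_lit 338) (nat_lit 203) (nat_lit 179)) (XT.lf (nat_lit 0) (nat_lit 75978496028) (nat_lit 152) (nat_lit 16929297278) (nat_lit 0) (nat_lit 73079674082) (nat_lit 2) (nat_lit 5) (nat_lit 4) (nat_lit 4) (nat_lit 2) (nat_lit 4) (nat_lit 339) (nat_lit 203) (nat_lit 178))) (XT.nd (nat_lit 78) (nat_lit 0) (nat_lit 0) (XT.lf (nat_lit 0) (nat_lit 81123732881) (nat_lit 152) (nat_lit 14917106688) (nat_lit 0) (nat_lit 78167065751) (nat_lit 2) (nat_lit 5) (nat_lit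 4) (nat_lit 4) (nat_lit 2) (nat_lit 4) (nat_lit 340) (nat_lit 203) (nat_lit 177)) (XT.lf (nat_lit 0) (nat_lit 86499204697) (nat_lit 152) (nat_lit 12854088145) (nat_lit 0) (nat_lit 83487446916) (nat_lit 2) (nat_lit 5) (nat_lit 4) (nat_lit 4) (nat_lit 2) (nat_lit 4) (nat_lit 341) (nat_lit 203) (nat_lit 176)))) (XT.nd (nat_lit 156) (nat_lit 0) (nat_lit 0) (XT.nd (nat_lit 78) (nat_lit 0) (nat_lit 0) (XT.lf (nat_lit 0) (nat_lit 92117710217) (nat_lit 152) (nat_lit 10735329700) (nat_lit 0) (nat_lit 89053485149) (nat_lit 2) (nat_lit 5) (nat_lit 4) (nat_lit 4) (nat_lit 2) (nat_lit 4) (nat_lit 342) (nat_lit 203) (nat_lit 175)) (XT.lf (nat_lit 0) (nat_lit 97992626837) (nat_lit 152) (nat_lit 8555786690) (nat_lit 0) (nat_lit 94878432924) (nat_lit 2) (nat_lit 5) (nat_lit 4) (nat_lit 4) (nat_lit 2) (nat_lit 4) (nat_lit 343) (nat_lit 203) (nat_lit 174))) (XT.nd (nat_lit 78) (nat_lit 0) (nat_lit 0)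 (XT.lf (nat_lit 0) (nat_lit 104137942452) (nat_lit 152) (nat_lit 6310269726) (nat_lit 0) (nat_lit 100976159164) (nat_lit 2) (nat_lit 5) (nat_lit 4) (nat_lit 4) (nat_lit 2) (nat_lit 4) (nat_lit 344) (nat_lit 203) (nat_lit 173)) (XT.lf (nat_lit 0) (nat_lit 110568288768) (nat_lit 152) (nat_lit 3993432341) (nat_lit 0) (nat_lit 107361182264) (nat_lit 2) (nat_lit 5) (nat_lit 4) (nat_lit 4) (nat_lit 2) (nat_lit 4) (nat_lit 345) (nat_lit 203) (nat_lit 172))))) (XT.nd (nat_lit 312) (nat_lit 0) (nat_lit 0) (XT.nd (nat_lit 156) (nat_lit 0) (nat_lit 0) (XT.nd (nat_lit 78) (nat_lit 76) (nat_lit 0) (XT.lf (nat_lit 0) (nat_lit 117298976131) (nat_lit 152) (nat_lit 1599758254) (nat_lit 0) (nat_lit 114048704660) (nat_lit 2) (nat_lit 5) (nat_lit 4) (nat_lit 4) (nat_lit 2) (nat_lit 4) (nat_lit 346) (nat_lit 203) (nat_lit 171)) (XT.lf (nat_lit 0) (nat_lit 905431211) (nat_lit 76) (nat_lit 123454735096) (nat_lit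 76) (nat_lit 120163354133) (nat_lit 1) (nat_lit 4) (nat_lit 2) (nat_lit 5) (nat_lit 2) (nat_lit 4) (nat_lit 347) (nat_lit 203) (nat_lit 170))) (XT.nd (nat_lit 78) (nat_lit 0) (nat_lit 0) (XT.lf (nat_lit 0) (nat_lit 3554871523) (nat_lit 76) (nat_lit 128226859023) (nat_lit 76) (nat_lit 124896326163) (nat_lit 1) (nat_lit 4) (nat_lit 2) (nat_lit 5) (nat_lit 2) (nat_lit 4) (nat_lit 348) (nat_lit 203) (nat_lit 169)) (XT.lf (nat_lit 0) (nat_lit 6301975641) (nat_lit 76) (nat_lit 133253561047) (nat_lit 76) (nat_lit 129885740665) (nat_lit 1) (nat_lit 4) (nat_lit 2) (nat_lit 5) (nat_lit 2) (nat_lit 4) (nat_lit 349) (nat_lit 203) (nat_lit 168)))) (XT.nd (nat_lit 156) (nat_lit 0) (nat_lit 0) (XT.nd (nat_lit 78) (nat_lit 0) (nat_lit 0) (XT.lf (nat_lit 0) (nat_lit 9153284287) (nat_lit 76) (nat_lit 138546809505) (nat_lit 76) (nat_lit 135143477199) (nat_lit 1) (nat_lit 4) (nat_lit 2) (nat_lit 5) (nat_lit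 2) (nat_lit 4) (nat_lit 350) (nat_lit 203) (nat_lit 167)) (XT.lf (nat_lit 0) (nat_lit 12115586293) (nat_lit 76) (nat_lit 144119207372) (nat_lit 76) (nat_lit 140682054185) (nat_lit 1) (nat_lit 4) (nat_lit 2) (nat_lit 5) (nat_lit 2) (nat_lit 4) (nat_lit 351) (nat_lit 203) (nat_lit 166))) (XT.nd (nat_lit 78) (nat_lit 0) (nat_lit 0) (XT.lf (nat_lit 0) (nat_lit 15195934759) (nat_lit 76) (nat_lit 149984022260) (nat_lit 76) (nat_lit 146514658710) (nat_lit 1) (nat_lit 4) (nat_lit 2) (nat_lit 5) (nat_lit 2) (nat_lit 4) (nat_lit 352) (nat_lit 203) (nat_lit 165)) (XT.nd (nat_lit 78) (nat_lit 0) (nat_lit 0) (XT.lf (nat_lit 0) (nat_lit 18401663846) (nat_lit 76) (nat_lit 156155218014) (nat_lit 76) (nat_lit 152655177928) (nat_lit 1) (nat_lit 4) (nat_lit 2) (nat_lit 5) (nat_lit 2) (nat_lit 4) (nat_lit 353) (nat_lit 203) (nat_lit 164)) (XT.lf (nat_lit 0) (nat_lit 21740406245) (nat_lit 76) (nat_lit 162647487958)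 (nat_lit 76) (nat_lit 159118232124) (nat_lit 1) (nat_lit 4) (nat_lit 2) (nat_lit 5) (nat_lit 2) (nat_lit 4) (nat_lit 354) (nat_lit 203) (nat_lit 163))))))) (XT.nd (nat_lit 702) (nat_lit 0) (nat_lit 0) (XT.nd (nat_lit 312) (nat_lit 0) (nat_lit 0) (XT.nd (nat_lit 156) (nat_lit 0) (nat_lit 0) (XT.nd (nat_lit 78) (nat_lit 0) (nat_lit 0) (XT.lf (nat_lit 0) (nat_lit 25220111340) (nat_lit 76) (nat_lit 169476289878) (nat_lit 76) (nat_lit 165919209521) (nat_lit 1) (nat_lit 4) (nat_lit 2) (nat_lit 5) (nat_lit 2) (nat_lit 4) (nat_lit 355) (nat_lit 203) (nat_lit 162)) (XT.lf (nat_lit 0) (nat_lit 28849064145) (nat_lit 76) (nat_lit 176657882825) (nat_lit 76) (nat_lit 173074302923) (nat_lit 1) (nat_lit 4) (nat_lit 2) (nat_lit 5) (nat_lit 2) (nat_lit 4) (nat_lit 356) (nat_lit 203) (nat_lit 161))) (XT.nd (nat_lit 78) (nat_lit 0) (nat_lit 0) (XT.lf (nat_lit 0) (nat_lit 32635905024) (nat_lit 76) (nat_lit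 184209365830) (nat_lit 76) (nat_lit 180600548266) (nat_lit 1) (nat_lit 4) (nat_lit 2) (nat_lit 5) (nat_lit 2) (nat_lit 4) (nat_lit 357) (nat_lit 203) (nat_lit 160)) (XT.lf (nat_lit 0) (nat_lit 36589650263) (nat_lit 76) (nat_lit 192148718615) (nat_lit 76) (nat_lit 188515865182) (nat_lit 1) (nat_lit 4) (nat_lit 2) (nat_lit 5) (nat_lit 2) (nat_lit 4) (nat_lit 358) (nat_lit 203) (nat_lit 159)))) (XT.nd (nat_lit 156) (nat_lit 0) (nat_lit 0) (XT.nd (nat_lit 78) (nat_lit 0) (nat_lit 0) (XT.lf (nat_lit 0) (nat_lit 40719713543) (nat_lit 76) (nat_lit 200494844400) (nat_lit 76) (nat_lit 196839099664) (nat_lit 1) (nat_lit 4) (nat_lit 2) (nat_lit 5) (nat_lit 2) (nat_lit 4) (nat_lit 359) (nat_lit 203) (nat_lit 158)) (XT.lf (nat_lit 0) (nat_lit 45035928347) (nat_lit 76) (nat_lit 209267614915) (nat_lit 76) (nat_lit 205590068937) (nat_lit 1) (nat_lit 4) (nat_lit 2) (nat_lit 5) (nat_lit 2) (nat_lit 4)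 (nat_lit 360) (nat_lit 203) (nat_lit 157))) (XT.nd (nat_lit 78) (nat_lit 0) (nat_lit 0) (XT.lf (nat_lit 0) (nat_lit 49548571377) (nat_lit 76) (nat_lit 218487917706) (nat_lit 76) (nat_lit 214789608641) (nat_lit 1) (nat_lit 4) (nat_lit 2) (nat_lit 5) (nat_lit 2) (nat_lit 4) (nat_lit 361) (nat_lit 203) (nat_lit 156)) (XT.nd (nat_lit 78) (nat_lit 0) (nat_lit 0) (XT.lf (nat_lit 0) (nat_lit 54268387022) (nat_lit 76) (nat_lit 228177705878) (nat_lit 76) (nat_lit 224459622444) (nat_lit 1) (nat_lit 4) (nat_lit 2) (nat_lit 5) (nat_lit 2) (nat_lit 4) (nat_lit 362) (nat_lit 203) (nat_lit 155)) (XT.lf (nat_lit 0) (nat_lit 59206612937) (nat_lit 76) (nat_lit 238360050352) (nat_lit 76) (nat_lit 234623134187) (nat_lit 1) (nat_lit 4) (nat_lit 2) (nat_lit 5) (nat_lit 2) (nat_lit 4) (nat_lit 363) (nat_lit 203) (nat_lit 154)))))) (XT.nd (nat_lit 33696) (nat_lit 0) (nat_lit 76) (XT.nd (nat_lit 33540) (nat_lit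 0) (nat_lit 228) (XT.nd (nat_lit 33462) (nat_lit 0) (nat_lit 228) (XT.lf (nat_lit 0) (nat_lit 64375006803) (nat_lit 76) (nat_lit 249059194808) (nat_lit 76) (nat_lit 245304342707) (nat_lit 1) (nat_lit 4) (nat_lit 2) (nat_lit 5) (nat_lit 2) (nat_lit 4) (nat_lit 364) (nat_lit 203) (nat_lit 153)) (XT.lf (nat_lit 0) (nat_lit 12319870812) (nat_lit 76) (nat_lit 5385178402) (nat_lit 76) (nat_lit 5385178402) (nat_lit 4) (nat_lit 4) (nat_lit 5) (nat_lit 5) (nat_lit 5) (nat_lit 4) (nat_lit 312) (nat_lit 204) (nat_lit 204))) (XT.nd (nat_lit 78) (nat_lit 0) (nat_lit 0) (XT.lf (nat_lit 0) (nat_lit 31102801520) (nat_lit 76) (nat_lit 8728016015) (nat_lit 76) (nat_lit 8512053548) (nat_lit 4) (nat_lit 4) (nat_lit 5) (nat_lit 5) (nat_lit 5) (nat_lit 4) (nat_lit 313) (nat_lit 204) (nat_lit 203)) (XT.lf (nat_lit 0) (nat_lit 37724287846) (nat_lit 76) (nat_lit 6657688771) (nat_lit 76) (nat_lit 6236047763)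 (nat_lit 4) (nat_lit 4) (nat_lit 5) (nat_lit 5) (nat_lit 5) (nat_lit 4) (nat_lit 314) (nat_lit 204) (nat_lit 202)))) (XT.nd (nat_lit 156) (nat_lit 152) (nat_lit 0) (XT.nd (nat_lit 78) (nat_lit 0) (nat_lit 0) (XT.lf (nat_lit 0) (nat_lit 44519966048) (nat_lit 76) (nat_lit 4554445719) (nat_lit 76) (nat_lit 3936920388) (nat_lit 4) (nat_lit 4) (nat_lit 5) (nat_lit 5) (nat_lit 5) (nat_lit 4) (nat_lit 315) (nat_lit 204) (nat_lit 201)) (XT.lf (nat_lit 0) (nat_lit 51506016311) (nat_lit 76) (nat_lit 2413279140) (nat_lit 76) (nat_lit 1609197309) (nat_lit 4) (nat_lit 4) (nat_lit 5) (nat_lit 5) (nat_lit 5) (nat_lit 4) (nat_lit 316) (nat_lit 204) (nat_lit 200))) (XT.nd (nat_lit 78) (nat_lit 0) (nat_lit 0) (XT.lf (nat_lit 0) (nat_lit 528744592) (nat_lit 76) (nat_lit 208084324) (nat_lit 152) (nat_lit 57437670199) (nat_lit 2) (nat_lit 5) (nat_lit 3) (nat_lit 5) (nat_lit 4) (nat_lit 4) (nat_lit 317)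 (nat_lit 204) (nat_lit 199)) (XT.nd (nat_lit 78) (nat_lit 0) (nat_lit 0) (XT.lf (nat_lit 0) (nat_lit 3169157506) (nat_lit 152) (nat_lit 55708244766) (nat_lit 0) (nat_lit 2072998524) (nat_lit 2) (nat_lit 5) (nat_lit 4) (nat_lit 4) (nat_lit 2) (nat_lit 4) (nat_lit 318) (nat_lit 204) (nat_lit 198)) (XT.lf (nat_lit 0) (nat_lit 5651217867) (nat_lit 152) (nat_lit 53815960349) (nat_lit 0) (nat_lit 4401578391) (nat_lit 2) (nat_lit 5) (nat_lit 4) (nat_lit 4) (nat_lit 2) (nat_lit 4) (nat_lit 319) (nat_lit 204) (nat_lit 197))))))))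
noncomputable def xc20 : XT := (XT.nd (nat_lit 1326) (nat_lit 76) (nat_lit 0) (XT.nd (nat_lit 624) (nat_lit 0) (nat_lit 0) (XT.nd (nat_lit 312) (nat_lit 0) (nat_lit 0) (XT.nd (nat_lit 156) (nat_lit 0) (nat_lit 0) (XT.nd (nat_lit 78) (nat_lit 0) (nat_lit 0) (XT.lf (nat_lit 0) (nat_lit 8185670886) (nat_lit 152) (nat_lit 51961147053) (nat_lit 0) (nat_lit 6789859512) (nat_lit 2) (nat_lit 5) (nat_lit 4) (nat_lit 4) (nat_lit 2) (nat_lit 4) (nat_lit 320) (nat_lit 204) (nat_lit 196)) (XT.lf (nat_lit 0) (nat_lit 10778550977) (nat_lit 152) (nat_lit 50139388656) (nat_lit 0) (nat_lit 9243528270) (nat_lit 2) (nat_lit 5) (nat_lit 4) (nat_lit 4) (nat_lit 2) (nat_lit 4) (nat_lit 321) (nat_lit 204) (nat_lit 195))) (XT.nd (nat_lit 78) (nat_lit 0) (nat_lit 0) (XT.lf (nat_lit 0) (nat_lit 13436031663) (nat_lit 152) (nat_lit 48346347639) (nat_lit 0) (nat_lit 11768426735) (nat_lit 2) (nat_lit 5) (nat_lit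 4) (nat_lit 4) (nat_lit 2) (nat_lit 4) (nat_lit 322) (nat_lit 204) (nat_lit 194)) (XT.lf (nat_lit 0) (nat_lit 16164440279) (nat_lit 152) (nat_lit 46577754855) (nat_lit 0) (nat_lit 14370566569) (nat_lit 2) (nat_lit 5) (nat_lit 4) (nat_lit 4) (nat_lit 2) (nat_lit 4) (nat_lit 323) (nat_lit 204) (nat_lit 193)))) (XT.nd (nat_lit 156) (nat_lit 0) (nat_lit 0) (XT.nd (nat_lit 78) (nat_lit 0) (nat_lit 0) (XT.lf (nat_lit 0) (nat_lit 18970273036) (nat_lit 152) (nat_lit 44829399371) (nat_lit 0) (nat_lit 17056143344) (nat_lit 2) (nat_lit 5) (nat_lit 4) (nat_lit 4) (nat_lit 2) (nat_lit 4) (nat_lit 324) (nat_lit 204) (nat_lit 192)) (XT.lf (nat_lit 0) (nat_lit 21860210488) (nat_lit 152) (nat_lit 43097118434) (nat_lit 0) (nat_lit 19831551289) (nat_lit 2) (nat_lit 5) (nat_lit 4) (nat_lit 4) (nat_lit 2) (nat_lit 4) (nat_lit 325) (nat_lit 204) (nat_lit 191))) (XT.nd (nat_lit 78) (nat_lit 0) (nat_lit 0)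 (XT.lf (nat_lit 0) (nat_lit 24841133439) (nat_lit 152) (nat_lit 41376787566) (nat_lit 0) (nat_lit 22703398518) (nat_lit 2) (nat_lit 5) (nat_lit 4) (nat_lit 4) (nat_lit 2) (nat_lit 4) (nat_lit 326) (nat_lit 204) (nat_lit 190)) (XT.lf (nat_lit 0) (nat_lit 27920139324) (nat_lit 152) (nat_lit 39664310741) (nat_lit 0) (nat_lit 25678522764) (nat_lit 2) (nat_lit 5) (nat_lit 4) (nat_lit 4) (nat_lit 2) (nat_lit 4) (nat_lit 327) (nat_lit 204) (nat_lit 189))))) (XT.nd (nat_lit 312) (nat_lit 0) (nat_lit 0) (XT.nd (nat_lit 156) (nat_lit 0) (nat_lit 0) (XT.nd (nat_lit 78) (nat_lit 0) (nat_lit 0) (XT.lf (nat_lit 0) (nat_lit 31104559110) (nat_lit 152) (nat_lit 37955610635) (nat_lit 0) (nat_lit 28764007656) (nat_lit 2) (nat_lit 5) (nat_lit 4) (nat_lit 4) (nat_lit 2) (nat_lit 4) (nat_lit 328) (nat_lit 204) (nat_lit 188)) (XT.lf (nat_lit 0) (nat_lit 34401974749) (nat_lit 152) (nat_lit 36246618912) (nat_lit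 0) (nat_lit 31967199585) (nat_lit 2) (nat_lit 5) (nat_lit 4) (nat_lit 4) (nat_lit 2) (nat_lit 4) (nat_lit 329) (nat_lit 204) (nat_lit 187))) (XT.nd (nat_lit 78) (nat_lit 0) (nat_lit 0) (XT.lf (nat_lit 0) (nat_lit 37820237229) (nat_lit 152) (nat_lit 34533266545) (nat_lit 0) (nat_lit 35295725200) (nat_lit 2) (nat_lit 5) (nat_lit 4) (nat_lit 4) (nat_lit 2) (nat_lit 4) (nat_lit 330) (nat_lit 204) (nat_lit 186)) (XT.lf (nat_lit 0) (nat_lit 41367485273) (nat_lit 152) (nat_lit 32811474124) (nat_lit 0) (nat_lit 38757509561) (nat_lit 2) (nat_lit 5) (nat_lit 4) (nat_lit 4) (nat_lit 2) (nat_lit 4) (nat_lit 331) (nat_lit 204) (nat_lit 185)))) (XT.nd (nat_lit 156) (nat_lit 0) (nat_lit 0) (XT.nd (nat_lit 78) (nat_lit 0) (nat_lit 0) (XT.lf (nat_lit 0) (nat_lit 45052164707) (nat_lit 152) (nat_lit 31077142143) (nat_lit 0) (nat_lit 42360795013) (nat_lit 2) (nat_lit 5) (nat_lit 4) (nat_lit 4) (nat_lit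 2) (nat_lit 4) (nat_lit 332) (nat_lit 204) (nat_lit 184)) (XT.lf (nat_lit 0) (nat_lit 48883048578) (nat_lit 152) (nat_lit 29326141239) (nat_lit 0) (nat_lit 46114160805) (nat_lit 2) (nat_lit 5) (nat_lit 4) (nat_lit 4) (nat_lit 2) (nat_lit 4) (nat_lit 333) (nat_lit 204) (nat_lit 183))) (XT.nd (nat_lit 78) (nat_lit 0) (nat_lit 0) (XT.lf (nat_lit 0) (nat_lit 52869258039) (nat_lit 152) (nat_lit 27554302364) (nat_lit 0) (nat_lit 50026543525) (nat_lit 2) (nat_lit 5) (nat_lit 4) (nat_lit 4) (nat_lit 2) (nat_lit 4) (nat_lit 334) (nat_lit 204) (nat_lit 182)) (XT.nd (nat_lit 78) (nat_lit 0) (nat_lit 0) (XT.lf (nat_lit 0) (nat_lit 57020284064) (nat_lit 152) (nat_lit 25757406854) (nat_lit 0) (nat_lit 54107258367) (nat_lit 2) (nat_lit 5) (nat_lit 4) (nat_lit 4) (nat_lit 2) (nat_lit 4) (nat_lit 335) (nat_lit 204) (nat_lit 181)) (XT.lf (nat_lit 0) (nat_lit 61346010049) (nat_lit 152) (nat_lit 23931176385)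 (nat_lit 0) (nat_lit 58366021321) (nat_lit 2) (nat_lit 5) (nat_lit 4) (nat_lit 4) (nat_lit 2) (nat_lit 4) (nat_lit 336) (nat_lit 204) (nat_lit 180))))))) (XT.nd (nat_lit 702) (nat_lit 76) (nat_lit 0) (XT.nd (nat_lit 312) (nat_lit 0) (nat_lit 0) (XT.nd (nat_lit 156) (nat_lit 0) (nat_lit 0) (XT.nd (nat_lit 78) (nat_lit 0) (nat_lit 0) (XT.lf (nat_lit 0) (nat_lit 65856735341) (nat_lit 152) (nat_lit 22071262790) (nat_lit 0) (nat_lit 62812972298) (nat_lit 2) (nat_lit 5) (nat_lit 4) (nat_lit 4) (nat_lit 2) (nat_lit 4) (nat_lit 337) (nat_lit 204) (nat_lit 179)) (XT.lf (nat_lit 0) (nat_lit 70563199762) (nat_lit 152) (nat_lit 20173237703) (nat_lit 0) (nat_lit 67458699276) (nat_lit 2) (nat_lit 5) (nat_lit 4) (nat_lit 4) (nat_lit 2) (nat_lit 4) (nat_lit 338) (nat_lit 204) (nat_lit 178))) (XT.nd (nat_lit 78) (nat_lit 0) (nat_lit 0) (XT.lf (nat_lit 0) (nat_lit 75476609181) (nat_lit 152) (nat_lit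 18232582017) (nat_lit 0) (nat_lit 72314263511) (nat_lit 2) (nat_lit 5) (nat_lit 4) (nat_lit 4) (nat_lit 2) (nat_lit 4) (nat_lit 339) (nat_lit 204) (nat_lit 177)) (XT.lf (nat_lit 0) (nat_lit 80608662190) (nat_lit 152) (nat_lit 16244675123) (nat_lit 0) (nat_lit 77391225869) (nat_lit 2) (nat_lit 5) (nat_lit 4) (nat_lit 4) (nat_lit 2) (nat_lit 4) (nat_lit 340) (nat_lit 204) (nat_lit 176)))) (XT.nd (nat_lit 156) (nat_lit 0) (nat_lit 0) (XT.nd (nat_lit 78) (nat_lit 0) (nat_lit 0) (XT.lf (nat_lit 0) (nat_lit 85971577964) (nat_lit 152) (nat_lit 14204783909) (nat_lit 0) (nat_lit 82701674355) (nat_lit 2) (nat_lit 5) (nat_lit 4) (nat_lit 4) (nat_lit 2) (nat_lit 4) (nat_lit 341) (nat_lit 204) (nat_lit 175)) (XT.lf (nat_lit 0) (nat_lit 91578125349) (nat_lit 152) (nat_lit 12108051492) (nat_lit 0) (nat_lit 88258252896) (nat_lit 2) (nat_lit 5) (nat_lit 4) (nat_lit 4) (nat_lit 2) (nat_lit 4) (nat_lit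 342) (nat_lit 204) (nat_lit 174))) (XT.nd (nat_lit 78) (nat_lit 0) (nat_lit 0) (XT.lf (nat_lit 0) (nat_lit 97441653269) (nat_lit 152) (nat_lit 9949485651) (nat_lit 0) (nat_lit 94074191440) (nat_lit 2) (nat_lit 5) (nat_lit 4) (nat_lit 4) (nat_lit 2) (nat_lit 4) (nat_lit 343) (nat_lit 204) (nat_lit 173)) (XT.nd (nat_lit 78) (nat_lit 0) (nat_lit 0) (XT.lf (nat_lit 0) (nat_lit 103576122503) (nat_lit 152) (nat_lit 7723946945) (nat_lit 0) (nat_lit 100163337459) (nat_lit 2) (nat_lit 5) (nat_lit 4) (nat_lit 4) (nat_lit 2) (nat_lit 4) (nat_lit 344) (nat_lit 204) (nat_lit 172)) (XT.lf (nat_lit 0) (nat_lit 109996138932) (nat_lit 152) (nat_lit 5426136470) (nat_lit 0) (nat_lit 106540188921) (nat_lit 2) (nat_lit 5) (nat_lit 4) (nat_lit 4) (nat_lit 2) (nat_lit 4) (nat_lit 345) (nat_lit 204) (nat_lit 171)))))) (XT.nd (nat_lit 312) (nat_lit 0) (nat_lit 0) (XT.nd (nat_lit 156) (nat_lit 76) (nat_lit 0)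 (XT.nd (nat_lit 78) (nat_lit 0) (nat_lit 0) (XT.lf (nat_lit 0) (nat_lit 116716988308) (nat_lit 152) (nat_lit 3050583251) (nat_lit 0) (nat_lit 113219928805) (nat_lit 2) (nat_lit 5) (nat_lit 4) (nat_lit 4) (nat_lit 2) (nat_lit 4) (nat_lit 346) (nat_lit 204) (nat_lit 170)) (XT.lf (nat_lit 0) (nat_lit 123754672653) (nat_lit 152) (nat_lit 591631208) (nat_lit 0) (nat_lit 120218461253) (nat_lit 2) (nat_lit 5) (nat_lit 4) (nat_lit 4) (nat_lit 2) (nat_lit 4) (nat_lit 347) (nat_lit 204) (nat_lit 169))) (XT.nd (nat_lit 78) (nat_lit 0) (nat_lit 0) (XT.lf (nat_lit 0) (nat_lit 2021267489) (nat_lit 76) (nat_lit 129136238520) (nat_lit 76) (nat_lit 125562739599) (nat_lit 1) (nat_lit 4) (nat_lit 2) (nat_lit 5) (nat_lit 2) (nat_lit 4) (nat_lit 348) (nat_lit 204) (nat_lit 168)) (XT.lf (nat_lit 0) (nat_lit 4752200545) (nat_lit 76) (nat_lit 134170360707) (nat_lit 76) (nat_lit 130561349861) (nat_lit 1) (nat_lit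 4) (nat_lit 2) (nat_lit 5) (nat_lit 2) (nat_lit 4) (nat_lit 349) (nat_lit 204) (nat_lit 167)))) (XT.nd (nat_lit 156) (nat_lit 0) (nat_lit 0) (XT.nd (nat_lit 78) (nat_lit 0) (nat_lit 0) (XT.lf (nat_lit 0) (nat_lit 7588108180) (nat_lit 76) (nat_lit 139470675988) (nat_lit 76) (nat_lit 135827844260) (nat_lit 1) (nat_lit 4) (nat_lit 2) (nat_lit 5) (nat_lit 2) (nat_lit 4) (nat_lit 350) (nat_lit 204) (nat_lit 166)) (XT.lf (nat_lit 0) (nat_lit 10535742556) (nat_lit 76) (nat_lit 145049804161) (nat_lit 76) (nat_lit 141374762070) (nat_lit 1) (nat_lit 4) (nat_lit 2) (nat_lit 5) (nat_lit 2) (nat_lit 4) (nat_lit 351) (nat_lit 204) (nat_lit 165))) (XT.nd (nat_lit 78) (nat_lit 0) (nat_lit 0) (XT.lf (nat_lit 0) (nat_lit 13602121851) (nat_lit 76) (nat_lit 150921028864) (nat_lit 76) (nat_lit 147215310238) (nat_lit 1) (nat_lit 4) (nat_lit 2) (nat_lit 5) (nat_lit 2) (nat_lit 4) (nat_lit 352) (nat_lit 204)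 (nat_lit 164)) (XT.nd (nat_lit 78) (nat_lit 0) (nat_lit 0) (XT.lf (nat_lit 0) (nat_lit 16794546966) (nat_lit 76) (nat_lit 157098329205) (nat_lit 76) (nat_lit 153363394830) (nat_lit 1) (nat_lit 4) (nat_lit 2) (nat_lit 5) (nat_lit 2) (nat_lit 4) (nat_lit 353) (nat_lit 204) (nat_lit 163)) (XT.lf (nat_lit 0) (nat_lit 20120618914) (nat_lit 76) (nat_lit 163596413041) (nat_lit 76) (nat_lit 159833654143) (nat_lit 1) (nat_lit 4) (nat_lit 2) (nat_lit 5) (nat_lit 2) (nat_lit 4) (nat_lit 354) (nat_lit 204) (nat_lit 162))))))))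
noncomputable def xc21 : XT := (XT.nd (nat_lit 34554) (nat_lit 0) (nat_lit 76) (XT.nd (nat_lit 624) (nat_lit 0) (nat_lit 0) (XT.nd (nat_lit 312) (nat_lit 0) (nat_lit 0) (XT.nd (nat_lit 156) (nat_lit 0) (nat_lit 0) (XT.nd (nat_lit 78) (nat_lit 0) (nat_lit 0) (XT.lf (nat_lit 0) (nat_lit 23588256915) (nat_lit 76) (nat_lit 170430752000) (nat_lit 76) (nat_lit 166641493557) (nat_lit 1) (nat_lit 4) (nat_lit 2) (nat_lit 5) (nat_lit 2) (nat_lit 4) (nat_lit 355) (nat_lit 204) (nat_lit 161)) (XT.lf (nat_lit 0) (nat_lit 27205717248) (nat_lit 76) (nat_lit 177617618318) (nat_lit 76) (nat_lit 173803122213) (nat_lit 1) (nat_lit 4) (nat_lit 2) (nat_lit 5) (nat_lit 2) (nat_lit 4) (nat_lit 356) (nat_lit 204) (nat_lit 160))) (XT.nd (nat_lit 78) (nat_lit 0) (nat_lit 0) (XT.lf (nat_lit 0) (nat_lit 30981612915) (nat_lit 76) (nat_lit 185174123581) (nat_lit 76) (nat_lit 181335591608) (nat_lit 1) (nat_lit 4)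 (nat_lit 2) (nat_lit 5) (nat_lit 2) (nat_lit 4) (nat_lit 357) (nat_lit 204) (nat_lit 159)) (XT.lf (nat_lit 0) (nat_lit 34924934144) (nat_lit 76) (nat_lit 193118259469) (nat_lit 76) (nat_lit 189256836193) (nat_lit 1) (nat_lit 4) (nat_lit 2) (nat_lit 5) (nat_lit 2) (nat_lit 4) (nat_lit 358) (nat_lit 204) (nat_lit 158)))) (XT.nd (nat_lit 156) (nat_lit 0) (nat_lit 0) (XT.nd (nat_lit 78) (nat_lit 0) (nat_lit 0) (XT.lf (nat_lit 0) (nat_lit 39045069795) (nat_lit 76) (nat_lit 201468940591) (nat_lit 76) (nat_lit 197585716073) (nat_lit 1) (nat_lit 4) (nat_lit 2) (nat_lit 5) (nat_lit 2) (nat_lit 4) (nat_lit 359) (nat_lit 204) (nat_lit 157)) (XT.lf (nat_lit 0) (nat_lit 43351829714) (nat_lit 76) (nat_lit 210246049521) (nat_lit 76) (nat_lit 206342061916) (nat_lit 1) (nat_lit 4) (nat_lit 2) (nat_lit 5) (nat_lit 2) (nat_lit 4) (nat_lit 360) (nat_lit 204) (nat_lit 156))) (XT.nd (nat_lit 78) (nat_lit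 0) (nat_lit 0) (XT.lf (nat_lit 0) (nat_lit 47855468092) (nat_lit 76) (nat_lit 219470484137) (nat_lit 76) (nat_lit 215546722163) (nat_lit 1) (nat_lit 4) (nat_lit 2) (nat_lit 5) (nat_lit 2) (nat_lit 4) (nat_lit 361) (nat_lit 204) (nat_lit 155)) (XT.lf (nat_lit 0) (nat_lit 52566707877) (nat_lit 76) (nat_lit 229164207379) (nat_lit 76) (nat_lit 225221612673) (nat_lit 1) (nat_lit 4) (nat_lit 2) (nat_lit 5) (nat_lit 2) (nat_lit 4) (nat_lit 362) (nat_lit 204) (nat_lit 154))))) (XT.nd (nat_lit 33540) (nat_lit 0) (nat_lit 228) (XT.nd (nat_lit 33384) (nat_lit 0) (nat_lit 228) (XT.nd (nat_lit 78) (nat_lit 0) (nat_lit 0) (XT.lf (nat_lit 0) (nat_lit 57496766307) (nat_lit 76) (nat_lit 239350299541) (nat_lit 76) (nat_lit 235389768899) (nat_lit 1) (nat_lit 4) (nat_lit 2) (nat_lit 5) (nat_lit 2) (nat_lit 4) (nat_lit 363) (nat_lit 204) (nat_lit 153)) (XT.lf (nat_lit 0) (nat_lit 62657381616) (nat_lit 76)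 (nat_lit 250053013222) (nat_lit 76) (nat_lit 246075400737) (nat_lit 1) (nat_lit 4) (nat_lit 2) (nat_lit 5) (nat_lit 2) (nat_lit 4) (nat_lit 364) (nat_lit 204) (nat_lit 152))) (XT.nd (nat_lit 78) (nat_lit 0) (nat_lit 0) (XT.lf (nat_lit 0) (nat_lit 6108139747) (nat_lit 76) (nat_lit 7488683811) (nat_lit 76) (nat_lit 7488683811) (nat_lit 4) (nat_lit 4) (nat_lit 5) (nat_lit 5) (nat_lit 5) (nat_lit 4) (nat_lit 310) (nat_lit 205) (nat_lit 205)) (XT.lf (nat_lit 0) (nat_lit 18319719923) (nat_lit 76) (nat_lit 13016334443) (nat_lit 76) (nat_lit 12789573852) (nat_lit 4) (nat_lit 4) (nat_lit 5) (nat_lit 5) (nat_lit 5) (nat_lit 4) (nat_lit 311) (nat_lit 205) (nat_lit 204)))) (XT.nd (nat_lit 156) (nat_lit 0) (nat_lit 0) (XT.nd (nat_lit 78) (nat_lit 0) (nat_lit 0) (XT.lf (nat_lit 0) (nat_lit 24555369483) (nat_lit 76) (nat_lit 11035086718) (nat_lit 76) (nat_lit 10592363659) (nat_lit 4) (nat_lit 4) (nat_lit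 5) (nat_lit 5) (nat_lit 5) (nat_lit 4) (nat_lit 312) (nat_lit 205) (nat_lit 203)) (XT.lf (nat_lit 0) (nat_lit 30938074957) (nat_lit 76) (nat_lit 9028907189) (nat_lit 76) (nat_lit 8380505591) (nat_lit 4) (nat_lit 4) (nat_lit 5) (nat_lit 5) (nat_lit 5) (nat_lit 4) (nat_lit 313) (nat_lit 205) (nat_lit 202))) (XT.nd (nat_lit 78) (nat_lit 0) (nat_lit 0) (XT.lf (nat_lit 0) (nat_lit 37483033263) (nat_lit 76) (nat_lit 6993019240) (nat_lit 76) (nat_lit 6148733318) (nat_lit 4) (nat_lit 4) (nat_lit 5) (nat_lit 5) (nat_lit 5) (nat_lit 4) (nat_lit 314) (nat_lit 205) (nat_lit 201)) (XT.nd (nat_lit 78) (nat_lit 0) (nat_lit 0) (XT.lf (nat_lit 0) (nat_lit 44205827636) (nat_lit 76) (nat_lit 4922575518) (nat_lit 76) (nat_lit 3891733096) (nat_lit 4) (nat_lit 4) (nat_lit 5) (nat_lit 5) (nat_lit 5) (nat_lit 4) (nat_lit 315) (nat_lit 205) (nat_lit 200)) (XT.lf (nat_lit 0) (nat_lit 51122464729) (nat_lit 76)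 (nat_lit 2812646395) (nat_lit 76) (nat_lit 1604131117) (nat_lit 4) (nat_lit 4) (nat_lit 5) (nat_lit 5) (nat_lit 5) (nat_lit 4) (nat_lit 316) (nat_lit 205) (nat_lit 199))))))) (XT.nd (nat_lit 702) (nat_lit 0) (nat_lit 0) (XT.nd (nat_lit 312) (nat_lit 0) (nat_lit 0) (XT.nd (nat_lit 156) (nat_lit 0) (nat_lit 0) (XT.nd (nat_lit 78) (nat_lit 0) (nat_lit 0) (XT.lf (nat_lit 0) (nat_lit 51733132) (nat_lit 76) (nat_lit 645564747) (nat_lit 152) (nat_lit 57490201712) (nat_lit 2) (nat_lit 5) (nat_lit 3) (nat_lit 5) (nat_lit 4) (nat_lit 4) (nat_lit 317) (nat_lit 205) (nat_lit 198)) (XT.lf (nat_lit 0) (nat_lit 3086066478) (nat_lit 152) (nat_lit 56259079875) (nat_lit 0) (nat_lit 1620464535) (nat_lit 2) (nat_lit 5) (nat_lit 4) (nat_lit 4) (nat_lit 2) (nat_lit 4) (nat_lit 318) (nat_lit 205) (nat_lit 197))) (XT.nd (nat_lit 78) (nat_lit 0) (nat_lit 0) (XT.lf (nat_lit 0) (nat_lit 5533146176) (nat_lit 152)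 (nat_lit 54431227331) (nat_lit 0) (nat_lit 3921372334) (nat_lit 2) (nat_lit 5) (nat_lit 4) (nat_lit 4) (nat_lit 2) (nat_lit 4) (nat_lit 319) (nat_lit 205) (nat_lit 196)) (XT.lf (nat_lit 0) (nat_lit 8034284278) (nat_lit 152) (nat_lit 52637777725) (nat_lit 0) (nat_lit 6283299104) (nat_lit 2) (nat_lit 5) (nat_lit 4) (nat_lit 4) (nat_lit 2) (nat_lit 4) (nat_lit 320) (nat_lit 205) (nat_lit 195)))) (XT.nd (nat_lit 156) (nat_lit 0) (nat_lit 0) (XT.nd (nat_lit 78) (nat_lit 0) (nat_lit 0) (XT.lf (nat_lit 0) (nat_lit 10595435877) (nat_lit 152) (nat_lit 50874460938) (nat_lit 0) (nat_lit 8711868482) (nat_lit 2) (nat_lit 5) (nat_lit 4) (nat_lit 4) (nat_lit 2) (nat_lit 4) (nat_lit 321) (nat_lit 205) (nat_lit 194)) (XT.lf (nat_lit 0) (nat_lit 13222698951) (nat_lit 152) (nat_lit 49137078596) (nat_lit 0) (nat_lit 11212862774) (nat_lit 2) (nat_lit 5) (nat_lit 4) (nat_lit 4) (nat_lit 2) (nat_lit 4) (nat_lit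 322) (nat_lit 205) (nat_lit 193))) (XT.nd (nat_lit 78) (nat_lit 0) (nat_lit 0) (XT.lf (nat_lit 0) (nat_lit 15922328889) (nat_lit 152) (nat_lit 47421494075) (nat_lit 0) (nat_lit 13792236729) (nat_lit 2) (nat_lit 5) (nat_lit 4) (nat_lit 4) (nat_lit 2) (nat_lit 4) (nat_lit 323) (nat_lit 205) (nat_lit 192)) (XT.nd (nat_lit 78) (nat_lit 0) (nat_lit 0) (XT.lf (nat_lit 0) (nat_lit 18700753381) (nat_lit 152) (nat_lit 45723622650) (nat_lit 0) (nat_lit 16456131714) (nat_lit 2) (nat_lit 5) (nat_lit 4) (nat_lit 4) (nat_lit 2) (nat_lit 4) (nat_lit 324) (nat_lit 205) (nat_lit 191)) (XT.lf (nat_lit 0) (nat_lit 21564587724) (nat_lit 152) (nat_lit 44039421769) (nat_lit 0) (nat_lit 19210890336) (nat_lit 2) (nat_lit 5) (nat_lit 4) (nat_lit 4) (nat_lit 2) (nat_lit 4) (nat_lit 325) (nat_lit 205) (nat_lit 190)))))) (XT.nd (nat_lit 312) (nat_lit 0) (nat_lit 0) (XT.nd (nat_lit 156) (nat_lit 0) (nat_lit 0)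 (XT.nd (nat_lit 78) (nat_lit 0) (nat_lit 0) (XT.lf (nat_lit 0) (nat_lit 24520650571) (nat_lit 152) (nat_lit 42364881432) (nat_lit 0) (nat_lit 22063071544) (nat_lit 2) (nat_lit 5) (nat_lit 4) (nat_lit 4) (nat_lit 2) (nat_lit 4) (nat_lit 326) (nat_lit 205) (nat_lit 189)) (XT.lf (nat_lit 0) (nat_lit 27575980167) (nat_lit 152) (nat_lit 40696014636) (nat_lit 0) (nat_lit 25019466245) (nat_lit 2) (nat_lit 5) (nat_lit 4) (nat_lit 4) (nat_lit 2) (nat_lit 4) (nat_lit 327) (nat_lit 205) (nat_lit 188))) (XT.nd (nat_lit 78) (nat_lit 0) (nat_lit 0) (XT.lf (nat_lit 0) (nat_lit 30737851105) (nat_lit 152) (nat_lit 39028847890) (nat_lit 0) (nat_lit 28087113474) (nat_lit 2) (nat_lit 5) (nat_lit 4) (nat_lit 4) (nat_lit 2) (nat_lit 4) (nat_lit 328) (nat_lit 205) (nat_lit 187)) (XT.lf (nat_lit 0) (nat_lit 34013791651) (nat_lit 152) (nat_lit 37359411748) (nat_lit 0) (nat_lit 31273317154) (nat_lit 2) (nat_lit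 5) (nat_lit 4) (nat_lit 4) (nat_lit 2) (nat_lit 4) (nat_lit 329) (nat_lit 205) (nat_lit 186)))) (XT.nd (nat_lit 156) (nat_lit 0) (nat_lit 0) (XT.nd (nat_lit 78) (nat_lit 0) (nat_lit 0) (XT.lf (nat_lit 0) (nat_lit 37411601663) (nat_lit 152) (nat_lit 35683731364) (nat_lit 0) (nat_lit 34585663484) (nat_lit 2) (nat_lit 5) (nat_lit 4) (nat_lit 4) (nat_lit 2) (nat_lit 4) (nat_lit 330) (nat_lit 205) (nat_lit 185)) (XT.lf (nat_lit 0) (nat_lit 40939371164) (nat_lit 152) (nat_lit 33997817021) (nat_lit 0) (nat_lit 38032039003) (nat_lit 2) (nat_lit 5) (nat_lit 4) (nat_lit 4) (nat_lit 2) (nat_lit 4) (nat_lit 331) (nat_lit 205) (nat_lit 184))) (XT.nd (nat_lit 78) (nat_lit 0) (nat_lit 0) (XT.lf (nat_lit 0) (nat_lit 44605499606) (nat_lit 152) (nat_lit 32297654639) (nat_lit 0) (nat_lit 41620649366) (nat_lit 2) (nat_lit 5) (nat_lit 4) (nat_lit 4) (nat_lit 2) (nat_lit 4) (nat_lit 332) (nat_lit 205) (nat_lit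 183)) (XT.nd (nat_lit 78) (nat_lit 0) (nat_lit 0) (XT.lf (nat_lit 0) (nat_lit 48418715866) (nat_lit 152) (nat_lit 30579196210) (nat_lit 0) (nat_lit 45360038884) (nat_lit 2) (nat_lit 5) (nat_lit 4) (nat_lit 4) (nat_lit 2) (nat_lit 4) (nat_lit 333) (nat_lit 205) (nat_lit 182)) (XT.lf (nat_lit 0) (nat_lit 52388099030) (nat_lit 152) (nat_lit 28838350169) (nat_lit 0) (nat_lit 49259110865) (nat_lit 2) (nat_lit 5) (nat_lit 4) (nat_lit 4) (nat_lit 2) (nat_lit 4) (nat_lit 334) (nat_lit 205) (nat_lit 181))))))))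
noncomputable def xc22 : XT := (XT.nd (nat_lit 1326) (nat_lit 0) (nat_lit 0) (XT.nd (nat_lit 624) (nat_lit 76) (nat_lit 0) (XT.nd (nat_lit 312) (nat_lit 0) (nat_lit 0) (XT.nd (nat_lit 156) (nat_lit 0) (nat_lit 0) (XT.nd (nat_lit 78) (nat_lit 0) (nat_lit 0) (XT.lf (nat_lit 0) (nat_lit 56523100010) (nat_lit 152) (nat_lit 27070971642) (nat_lit 0) (nat_lit 53327148815) (nat_lit 2) (nat_lit 5) (nat_lit 4) (nat_lit 4) (nat_lit 2) (nat_lit 4) (nat_lit 335) (nat_lit 205) (nat_lit 180)) (XT.lf (nat_lit 0) (nat_lit 60833564047) (nat_lit 152) (nat_lit 25272852587) (nat_lit 0) (nat_lit 57573838537) (nat_lit 2) (nat_lit 5) (nat_lit 4) (nat_lit 4) (nat_lit 2) (nat_lit 4) (nat_lit 336) (nat_lit 205) (nat_lit 179))) (XT.nd (nat_lit 78) (nat_lit 0) (nat_lit 0) (XT.lf (nat_lit 0) (nat_lit 65329754152) (nat_lit 152) (nat_lit 23439711766) (nat_lit 0) (nat_lit 62009291198) (nat_lit 2) (nat_lit 5) (nat_lit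 4) (nat_lit 4) (nat_lit 2) (nat_lit 4) (nat_lit 337) (nat_lit 205) (nat_lit 178)) (XT.lf (nat_lit 0) (nat_lit 70022375537) (nat_lit 152) (nat_lit 21567184560) (nat_lit 0) (nat_lit 66644067399) (nat_lit 2) (nat_lit 5) (nat_lit 4) (nat_lit 4) (nat_lit 2) (nat_lit 4) (nat_lit 338) (nat_lit 205) (nat_lit 177)))) (XT.nd (nat_lit 156) (nat_lit 0) (nat_lit 0) (XT.nd (nat_lit 78) (nat_lit 0) (nat_lit 0) (XT.lf (nat_lit 0) (nat_lit 74922601111) (nat_lit 152) (nat_lit 19650812569) (nat_lit 0) (nat_lit 71489202323) (nat_lit 2) (nat_lit 5) (nat_lit 4) (nat_lit 4) (nat_lit 2) (nat_lit 4) (nat_lit 339) (nat_lit 205) (nat_lit 176)) (XT.lf (nat_lit 0) (nat_lit 80042098078) (nat_lit 152) (nat_lit 17686033005) (nat_lit 0) (nat_lit 76556232003) (nat_lit 2) (nat_lit 5) (nat_lit 4) (nat_lit 4) (nat_lit 2) (nat_lit 4) (nat_lit 340) (nat_lit 205) (nat_lit 175))) (XT.nd (nat_lit 78) (nat_lit 0) (nat_lit 0)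 (XT.lf (nat_lit 0) (nat_lit 85393055717) (nat_lit 152) (nat_lit 15668167819) (nat_lit 0) (nat_lit 81857220797) (nat_lit 2) (nat_lit 5) (nat_lit 4) (nat_lit 4) (nat_lit 2) (nat_lit 4) (nat_lit 341) (nat_lit 205) (nat_lit 174)) (XT.lf (nat_lit 0) (nat_lit 90988214402) (nat_lit 152) (nat_lit 13592412571) (nat_lit 0) (nat_lit 87404790106) (nat_lit 2) (nat_lit 5) (nat_lit 4) (nat_lit 4) (nat_lit 2) (nat_lit 4) (nat_lit 342) (nat_lit 205) (nat_lit 173))))) (XT.nd (nat_lit 312) (nat_lit 76) (nat_lit 0) (XT.nd (nat_lit 156) (nat_lit 0) (nat_lit 0) (XT.nd (nat_lit 78) (nat_lit 0) (nat_lit 0) (XT.lf (nat_lit 0) (nat_lit 96840895941) (nat_lit 152) (nat_lit 11453824987) (nat_lit 0) (nat_lit 93212148430) (nat_lit 2) (nat_lit 5) (nat_lit 4) (nat_lit 4) (nat_lit 2) (nat_lit 4) (nat_lit 343) (nat_lit 205) (nat_lit 172)) (XT.lf (nat_lit 0) (nat_lit 102965035289) (nat_lit 152) (nat_lit 9247313192) (nat_lit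 0) (nat_lit 99293122811) (nat_lit 2) (nat_lit 5) (nat_lit 4) (nat_lit 4) (nat_lit 2) (nat_lit 4) (nat_lit 344) (nat_lit 205) (nat_lit 171))) (XT.nd (nat_lit 78) (nat_lit 0) (nat_lit 0) (XT.lf (nat_lit 0) (nat_lit 109375213730) (nat_lit 152) (nat_lit 6967623585) (nat_lit 0) (nat_lit 105662191760) (nat_lit 2) (nat_lit 5) (nat_lit 4) (nat_lit 4) (nat_lit 2) (nat_lit 4) (nat_lit 345) (nat_lit 205) (nat_lit 170)) (XT.lf (nat_lit 0) (nat_lit 116086693594) (nat_lit 152) (nat_lit 4609328335) (nat_lit 0) (nat_lit 112334519727) (nat_lit 2) (nat_lit 5) (nat_lit 4) (nat_lit 4) (nat_lit 2) (nat_lit 4) (nat_lit 346) (nat_lit 205) (nat_lit 169)))) (XT.nd (nat_lit 156) (nat_lit 0) (nat_lit 0) (XT.nd (nat_lit 78) (nat_lit 76) (nat_lit 0) (XT.lf (nat_lit 0) (nat_lit 123115454595) (nat_lit 152) (nat_lit 2166812453) (nat_lit 0) (nat_lit 119325993206) (nat_lit 2) (nat_lit 5) (nat_lit 4) (nat_lit 4) (nat_lit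 2) (nat_lit 4) (nat_lit 347) (nat_lit 205) (nat_lit 168)) (XT.lf (nat_lit 0) (nat_lit 377832577) (nat_lit 76) (nat_lit 130106298327) (nat_lit 76) (nat_lit 126281325013) (nat_lit 1) (nat_lit 4) (nat_lit 2) (nat_lit 5) (nat_lit 2) (nat_lit 4) (nat_lit 348) (nat_lit 205) (nat_lit 167))) (XT.nd (nat_lit 78) (nat_lit 0) (nat_lit 0) (XT.lf (nat_lit 0) (nat_lit 3093364621) (nat_lit 76) (nat_lit 135147487335) (nat_lit 76) (nat_lit 131288693140) (nat_lit 1) (nat_lit 4) (nat_lit 2) (nat_lit 5) (nat_lit 2) (nat_lit 4) (nat_lit 349) (nat_lit 205) (nat_lit 166)) (XT.nd (nat_lit 78) (nat_lit 0) (nat_lit 0) (XT.lf (nat_lit 0) (nat_lit 5914604627) (nat_lit 76) (nat_lit 140454532922) (nat_lit 76) (nat_lit 136563528365) (nat_lit 1) (nat_lit 4) (nat_lit 2) (nat_lit 5) (nat_lit 2) (nat_lit 4) (nat_lit 350) (nat_lit 205) (nat_lit 165)) (XT.lf (nat_lit 0) (nat_lit 8848269832) (nat_lit 76) (nat_lit 146040070911)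 (nat_lit 76) (nat_lit 142118389817) (nat_lit 1) (nat_lit 4) (nat_lit 2) (nat_lit 5) (nat_lit 2) (nat_lit 4) (nat_lit 351) (nat_lit 205) (nat_lit 164))))))) (XT.nd (nat_lit 702) (nat_lit 0) (nat_lit 0) (XT.nd (nat_lit 312) (nat_lit 0) (nat_lit 0) (XT.nd (nat_lit 156) (nat_lit 0) (nat_lit 0) (XT.nd (nat_lit 78) (nat_lit 0) (nat_lit 0) (XT.lf (nat_lit 0) (nat_lit 11901345154) (nat_lit 76) (nat_lit 151917400201) (nat_lit 76) (nat_lit 147966503358) (nat_lit 1) (nat_lit 4) (nat_lit 2) (nat_lit 5) (nat_lit 2) (nat_lit 4) (nat_lit 352) (nat_lit 205) (nat_lit 163)) (XT.lf (nat_lit 0) (nat_lit 15081099819) (nat_lit 76) (nat_lit 158100514433) (nat_lit 76) (nat_lit 154121793068) (nat_lit 1) (nat_lit 4) (nat_lit 2) (nat_lit 5) (nat_lit 2) (nat_lit 4) (nat_lit 353) (nat_lit 205) (nat_lit 162))) (XT.nd (nat_lit 78) (nat_lit 0) (nat_lit 0) (XT.lf (nat_lit 0) (nat_lit 18395104672) (nat_lit 76) (nat_lit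 164604135309) (nat_lit 76) (nat_lit 160598914399) (nat_lit 1) (nat_lit 4) (nat_lit 2) (nat_lit 5) (nat_lit 2) (nat_lit 4) (nat_lit 354) (nat_lit 205) (nat_lit 161)) (XT.lf (nat_lit 0) (nat_lit 21851250200) (nat_lit 76) (nat_lit 171443747639) (nat_lit 76) (nat_lit 167413289067) (nat_lit 1) (nat_lit 4) (nat_lit 2) (nat_lit 5) (nat_lit 2) (nat_lit 4) (nat_lit 355) (nat_lit 205) (nat_lit 160)))) (XT.nd (nat_lit 156) (nat_lit 0) (nat_lit 0) (XT.nd (nat_lit 78) (nat_lit 0) (nat_lit 0) (XT.lf (nat_lit 0) (nat_lit 25457765323) (nat_lit 76) (nat_lit 178635636215) (nat_lit 76) (nat_lit 174581141775) (nat_lit 1) (nat_lit 4) (nat_lit 2) (nat_lit 5) (nat_lit 2) (nat_lit 4) (nat_lit 356) (nat_lit 205) (nat_lit 159)) (XT.lf (nat_lit 0) (nat_lit 29223236979) (nat_lit 76) (nat_lit 186196924582) (nat_lit 76) (nat_lit 182119538838) (nat_lit 1) (nat_lit 4) (nat_lit 2) (nat_lit 5) (nat_lit 2) (nat_lit 4)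 (nat_lit 357) (nat_lit 205) (nat_lit 158))) (XT.nd (nat_lit 78) (nat_lit 0) (nat_lit 0) (XT.lf (nat_lit 0) (nat_lit 33156630579) (nat_lit 76) (nat_lit 194145615806) (nat_lit 76) (nat_lit 190046428821) (nat_lit 1) (nat_lit 4) (nat_lit 2) (nat_lit 5) (nat_lit 2) (nat_lit 4) (nat_lit 358) (nat_lit 205) (nat_lit 157)) (XT.nd (nat_lit 78) (nat_lit 0) (nat_lit 0) (XT.lf (nat_lit 0) (nat_lit 37267311345) (nat_lit 76) (nat_lit 202500635344) (nat_lit 76) (nat_lit 198380685271) (nat_lit 1) (nat_lit 4) (nat_lit 2) (nat_lit 5) (nat_lit 2) (nat_lit 4) (nat_lit 359) (nat_lit 205) (nat_lit 156)) (XT.lf (nat_lit 0) (nat_lit 41565066612) (nat_lit 76) (nat_lit 211281876098) (nat_lit 76) (nat_lit 207142151656) (nat_lit 1) (nat_lit 4) (nat_lit 2) (nat_lit 5) (nat_lit 2) (nat_lit 4) (nat_lit 360) (nat_lit 205) (nat_lit 155)))))) (XT.nd (nat_lit 33384) (nat_lit 0) (nat_lit 228) (XT.nd (nat_lit 156) (nat_lit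 0) (nat_lit 0) (XT.nd (nat_lit 78) (nat_lit 0) (nat_lit 0) (XT.lf (nat_lit 0) (nat_lit 46060129130) (nat_lit 76) (nat_lit 220510245785) (nat_lit 76) (nat_lit 216351688611) (nat_lit 1) (nat_lit 4) (nat_lit 2) (nat_lit 5) (nat_lit 2) (nat_lit 4) (nat_lit 361) (nat_lit 205) (nat_lit 154)) (XT.lf (nat_lit 0) (nat_lit 50763201430) (nat_lit 76) (nat_lit 230207716713) (nat_lit 76) (nat_lit 226031223605) (nat_lit 1) (nat_lit 4) (nat_lit 2) (nat_lit 5) (nat_lit 2) (nat_lit 4) (nat_lit 362) (nat_lit 205) (nat_lit 153))) (XT.nd (nat_lit 78) (nat_lit 0) (nat_lit 0) (XT.lf (nat_lit 0) (nat_lit 55685481303) (nat_lit 76) (nat_lit 240397378100) (nat_lit 76) (nat_lit 236203803148) (nat_lit 1) (nat_lit 4) (nat_lit 2) (nat_lit 5) (nat_lit 2) (nat_lit 4) (nat_lit 363) (nat_lit 205) (nat_lit 152)) (XT.lf (nat_lit 0) (nat_lit 60838688462) (nat_lit 76) (nat_lit 251103491043) (nat_lit 76) (nat_lit 246893647669)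 (nat_lit 1) (nat_lit 4) (nat_lit 2) (nat_lit 5) (nat_lit 2) (nat_lit 4) (nat_lit 364) (nat_lit 205) (nat_lit 151)))) (XT.nd (nat_lit 156) (nat_lit 0) (nat_lit 0) (XT.nd (nat_lit 78) (nat_lit 0) (nat_lit 0) (XT.lf (nat_lit 0) (nat_lit 220599246) (nat_lit 76) (nat_lit 9526833638) (nat_lit 76) (nat_lit 9526833638) (nat_lit 4) (nat_lit 4) (nat_lit 5) (nat_lit 5) (nat_lit 5) (nat_lit 4) (nat_lit 308) (nat_lit 206) (nat_lit 206)) (XT.lf (nat_lit 0) (nat_lit 6230516194) (nat_lit 76) (nat_lit 17160954002) (nat_lit 76) (nat_lit 16922855381) (nat_lit 4) (nat_lit 4) (nat_lit 5) (nat_lit 5) (nat_lit 5) (nat_lit 4) (nat_lit 309) (nat_lit 206) (nat_lit 205))) (XT.nd (nat_lit 78) (nat_lit 0) (nat_lit 0) (XT.lf (nat_lit 0) (nat_lit 12127688745) (nat_lit 76) (nat_lit 15255334032) (nat_lit 76) (nat_lit 14790474821) (nat_lit 4) (nat_lit 4) (nat_lit 5) (nat_lit 5) (nat_lit 5) (nat_lit 4) (nat_lit 310)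 (nat_lit 206) (nat_lit 204)) (XT.nd (nat_lit 78) (nat_lit 0) (nat_lit 0) (XT.lf (nat_lit 0) (nat_lit 18146757032) (nat_lit 76) (nat_lit 13332270176) (nat_lit 76) (nat_lit 12651448497) (nat_lit 4) (nat_lit 4) (nat_lit 5) (nat_lit 5) (nat_lit 5) (nat_lit 4) (nat_lit 311) (nat_lit 206) (nat_lit 203)) (XT.lf (nat_lit 0) (nat_lit 24302052170) (nat_lit 76) (nat_lit 11387183710) (nat_lit 76) (nat_lit 10500683492) (nat_lit 4) (nat_lit 4) (nat_lit 5) (nat_lit 5) (nat_lit 5) (nat_lit 4) (nat_lit 312) (nat_lit 206) (nat_lit 202))))))))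
noncomputable def xc23 : XT := (XT.nd (nat_lit 1404) (nat_lit 0) (nat_lit 0) (XT.nd (nat_lit 702) (nat_lit 0) (nat_lit 0) (XT.nd (nat_lit 312) (nat_lit 152) (nat_lit 0) (XT.nd (nat_lit 156) (nat_lit 0) (nat_lit 0) (XT.nd (nat_lit 78) (nat_lit 0) (nat_lit 0) (XT.lf (nat_lit 0) (nat_lit 30608229624) (nat_lit 76) (nat_lit 9415443478) (nat_lit 76) (nat_lit 8333058935) (nat_lit 4) (nat_lit 4) (nat_lit 5) (nat_lit 5) (nat_lit 5) (nat_lit 4) (nat_lit 313) (nat_lit 206) (nat_lit 201)) (XT.lf (nat_lit 0) (nat_lit 37080304102) (nat_lit 76) (nat_lit 7412354857) (nat_lit 76) (nat_lit 6143413815) (nat_lit 4) (nat_lit 4) (nat_lit 5) (nat_lit 5) (nat_lit 5) (nat_lit 4) (nat_lit 314) (nat_lit 206) (nat_lit 200))) (XT.nd (nat_lit 78) (nat_lit 0) (nat_lit 0) (XT.lf (nat_lit 0) (nat_lit 43733685304) (nat_lit 76) (nat_lit 5373148591) (nat_lit 76) (nat_lit 3926534693) (nat_lit 4) (nat_lit 4) (nat_lit 5)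 (nat_lit 5) (nat_lit 5) (nat_lit 4) (nat_lit 315) (nat_lit 206) (nat_lit 199)) (XT.lf (nat_lit 0) (nat_lit 50584214616) (nat_lit 76) (nat_lit 3292969426) (nat_lit 76) (nat_lit 1677143284) (nat_lit 4) (nat_lit 4) (nat_lit 5) (nat_lit 5) (nat_lit 5) (nat_lit 4) (nat_lit 316) (nat_lit 206) (nat_lit 198)))) (XT.nd (nat_lit 156) (nat_lit 0) (nat_lit 0) (XT.nd (nat_lit 78) (nat_lit 76) (nat_lit 0) (XT.lf (nat_lit 0) (nat_lit 590588579) (nat_lit 152) (nat_lit 566274072) (nat_lit 76) (nat_lit 57047612338) (nat_lit 3) (nat_lit 5) (nat_lit 5) (nat_lit 5) (nat_lit 4) (nat_lit 4) (nat_lit 317) (nat_lit 206) (nat_lit 197)) (XT.lf (nat_lit 0) (nat_lit 2927110539) (nat_lit 152) (nat_lit 56969542080) (nat_lit 0) (nat_lit 1088576107) (nat_lit 2) (nat_lit 5) (nat_lit 4) (nat_lit 4) (nat_lit 2) (nat_lit 4) (nat_lit 318) (nat_lit 206) (nat_lit 196))) (XT.nd (nat_lit 78) (nat_lit 0) (nat_lit 0) (XT.lf (nat_lit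 0) (nat_lit 5340875320) (nat_lit 152) (nat_lit 55203053227) (nat_lit 0) (nat_lit 3363129556) (nat_lit 2) (nat_lit 5) (nat_lit 4) (nat_lit 4) (nat_lit 2) (nat_lit 4) (nat_lit 319) (nat_lit 206) (nat_lit 195)) (XT.nd (nat_lit 78) (nat_lit 0) (nat_lit 0) (XT.lf (nat_lit 0) (nat_lit 7810284930) (nat_lit 152) (nat_lit 53468045230) (nat_lit 0) (nat_lit 5699956945) (nat_lit 2) (nat_lit 5) (nat_lit 4) (nat_lit 4) (nat_lit 2) (nat_lit 4) (nat_lit 320) (nat_lit 206) (nat_lit 194)) (XT.lf (nat_lit 0) (nat_lit 10341218917) (nat_lit 152) (nat_lit 51760387118) (nat_lit 0) (nat_lit 8104622150) (nat_lit 2) (nat_lit 5) (nat_lit 4) (nat_lit 4) (nat_lit 2) (nat_lit 4) (nat_lit 321) (nat_lit 206) (nat_lit 193)))))) (XT.nd (nat_lit 312) (nat_lit 0) (nat_lit 0) (XT.nd (nat_lit 156) (nat_lit 0) (nat_lit 0) (XT.nd (nat_lit 78) (nat_lit 0) (nat_lit 0) (XT.lf (nat_lit 0) (nat_lit 12939703313) (nat_lit 152) (nat_lit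 50076013039) (nat_lit 0) (nat_lit 10582850563) (nat_lit 2) (nat_lit 5) (nat_lit 4) (nat_lit 4) (nat_lit 2) (nat_lit 4) (nat_lit 322) (nat_lit 206) (nat_lit 192)) (XT.lf (nat_lit 0) (nat_lit 15611924986) (nat_lit 152) (nat_lit 48410912577) (nat_lit 0) (nat_lit 13140542729) (nat_lit 2) (nat_lit 5) (nat_lit 4) (nat_lit 4) (nat_lit 2) (nat_lit 4) (nat_lit 323) (nat_lit 206) (nat_lit 191))) (XT.nd (nat_lit 78) (nat_lit 0) (nat_lit 0) (XT.lf (nat_lit 0) (nat_lit 18364246369) (nat_lit 152) (nat_lit 46761121209) (nat_lit 0) (nat_lit 15783788391) (nat_lit 2) (nat_lit 5) (nat_lit 4) (nat_lit 4) (nat_lit 2) (nat_lit 4) (nat_lit 324) (nat_lit 206) (nat_lit 190)) (XT.lf (nat_lit 0) (nat_lit 21203220608) (nat_lit 152) (nat_lit 45122710859) (nat_lit 0) (nat_lit 18518880990) (nat_lit 2) (nat_lit 5) (nat_lit 4) (nat_lit 4) (nat_lit 2) (nat_lit 4) (nat_lit 325) (nat_lit 206) (nat_lit 189)))) (XT.nd (nat_lit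 156) (nat_lit 0) (nat_lit 0) (XT.nd (nat_lit 78) (nat_lit 0) (nat_lit 0) (XT.lf (nat_lit 0) (nat_lit 24135607166) (nat_lit 152) (nat_lit 43491780550) (nat_lit 0) (nat_lit 21352332653) (nat_lit 2) (nat_lit 5) (nat_lit 4) (nat_lit 4) (nat_lit 2) (nat_lit 4) (nat_lit 326) (nat_lit 206) (nat_lit 188)) (XT.lf (nat_lit 0) (nat_lit 27168387914) (nat_lit 152) (nat_lit 41864447114) (nat_lit 0) (nat_lit 24290889693) (nat_lit 2) (nat_lit 5) (nat_lit 4) (nat_lit 4) (nat_lit 2) (nat_lit 4) (nat_lit 327) (nat_lit 206) (nat_lit 187))) (XT.nd (nat_lit 78) (nat_lit 0) (nat_lit 0) (XT.lf (nat_lit 0) (nat_lit 30308783761) (nat_lit 152) (nat_lit 40236835950) (nat_lit 0) (nat_lit 27341548673) (nat_lit 2) (nat_lit 5) (nat_lit 4) (nat_lit 4) (nat_lit 2) (nat_lit 4) (nat_lit 328) (nat_lit 206) (nat_lit 186)) (XT.nd (nat_lit 78) (nat_lit 0) (nat_lit 0) (XT.lf (nat_lit 0) (nat_lit 33564271838) (nat_lit 152)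 (nat_lit 38605071791) (nat_lit 0) (nat_lit 30511573068) (nat_lit 2) (nat_lit 5) (nat_lit 4) (nat_lit 4) (nat_lit 2) (nat_lit 4) (nat_lit 329) (nat_lit 206) (nat_lit 185)) (XT.lf (nat_lit 0) (nat_lit 36942603307) (nat_lit 152) (nat_lit 36965269485) (nat_lit 0) (nat_lit 33808510555) (nat_lit 2) (nat_lit 5) (nat_lit 4) (nat_lit 4) (nat_lit 2) (nat_lit 4) (nat_lit 330) (nat_lit 206) (nat_lit 184))))))) (XT.nd (nat_lit 702) (nat_lit 0) (nat_lit 0) (XT.nd (nat_lit 312) (nat_lit 0) (nat_lit 0) (XT.nd (nat_lit 156) (nat_lit 0) (nat_lit 0) (XT.nd (nat_lit 78) (nat_lit 0) (nat_lit 0) (XT.lf (nat_lit 0) (nat_lit 40451821816) (nat_lit 152) (nat_lit 35313524741) (nat_lit 0) (nat_lit 37240210985) (nat_lit 2) (nat_lit 5) (nat_lit 4) (nat_lit 4) (nat_lit 2) (nat_lit 4) (nat_lit 331) (nat_lit 206) (nat_lit 183)) (XT.lf (nat_lit 0) (nat_lit 44100282646) (nat_lit 152) (nat_lit 33645904833) (nat_lit 0)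 (nat_lit 40814845073) (nat_lit 2) (nat_lit 5) (nat_lit 4) (nat_lit 4) (nat_lit 2) (nat_lit 4) (nat_lit 332) (nat_lit 206) (nat_lit 182))) (XT.nd (nat_lit 78) (nat_lit 0) (nat_lit 0) (XT.lf (nat_lit 0) (nat_lit 47896672609) (nat_lit 152) (nat_lit 31958439238) (nat_lit 0) (nat_lit 44540923854) (nat_lit 2) (nat_lit 5) (nat_lit 4) (nat_lit 4) (nat_lit 2) (nat_lit 4) (nat_lit 333) (nat_lit 206) (nat_lit 181)) (XT.lf (nat_lit 0) (nat_lit 51850030728) (nat_lit 152) (nat_lit 30247110180) (nat_lit 0) (nat_lit 48427318942) (nat_lit 2) (nat_lit 5) (nat_lit 4) (nat_lit 4) (nat_lit 2) (nat_lit 4) (nat_lit 334) (nat_lit 206) (nat_lit 180)))) (XT.nd (nat_lit 156) (nat_lit 0) (nat_lit 0) (XT.nd (nat_lit 78) (nat_lit 0) (nat_lit 0) (XT.lf (nat_lit 0) (nat_lit 55969769761) (nat_lit 152) (nat_lit 28507843067) (nat_lit 0) (nat_lit 52483283660) (nat_lit 2) (nat_lit 5) (nat_lit 4) (nat_lit 4) (nat_lit 2)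 (nat_lit 4) (nat_lit 335) (nat_lit 206) (nat_lit 179)) (XT.lf (nat_lit 0) (nat_lit 60265698610) (nat_lit 152) (nat_lit 26736496786) (nat_lit 0) (nat_lit 56718475066) (nat_lit 2) (nat_lit 5) (nat_lit 4) (nat_lit 4) (nat_lit 2) (nat_lit 4) (nat_lit 336) (nat_lit 206) (nat_lit 178))) (XT.nd (nat_lit 78) (nat_lit 0) (nat_lit 0) (XT.lf (nat_lit 0) (nat_lit 64748045678) (nat_lit 152) (nat_lit 24928853846) (nat_lit 0) (nat_lit 61142976950) (nat_lit 2) (nat_lit 5) (nat_lit 4) (nat_lit 4) (nat_lit 2) (nat_lit 4) (nat_lit 337) (nat_lit 206) (nat_lit 177)) (XT.nd (nat_lit 78) (nat_lit 0) (nat_lit 0) (XT.lf (nat_lit 0) (nat_lit 69427483220) (nat_lit 152) (nat_lit 23080610336) (nat_lit 0) (nat_lit 65767323840) (nat_lit 2) (nat_lit 5) (nat_lit 4) (nat_lit 4) (nat_lit 2) (nat_lit 4) (nat_lit 338) (nat_lit 206) (nat_lit 176)) (XT.lf (nat_lit 0) (nat_lit 74315152752) (nat_lit 152) (nat_lit 21187365675)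 (nat_lit 0) (nat_lit 70602526086) (nat_lit 2) (nat_lit 5) (nat_lit 4) (nat_lit 4) (nat_lit 2) (nat_lit 4) (nat_lit 339) (nat_lit 206) (nat_lit 175)))))) (XT.nd (nat_lit 312) (nat_lit 0) (nat_lit 0) (XT.nd (nat_lit 156) (nat_lit 0) (nat_lit 0) (XT.nd (nat_lit 78) (nat_lit 0) (nat_lit 0) (XT.lf (nat_lit 0) (nat_lit 79422691584) (nat_lit 152) (nat_lit 19244612138) (nat_lit 0) (nat_lit 75660096073) (nat_lit 2) (nat_lit 5) (nat_lit 4) (nat_lit 4) (nat_lit 2) (nat_lit 4) (nat_lit 340) (nat_lit 206) (nat_lit 174)) (XT.lf (nat_lit 0) (nat_lit 84762260523) (nat_lit 152) (nat_lit 17247724121) (nat_lit 0) (nat_lit 80952075636) (nat_lit 2) (nat_lit 5) (nat_lit 4) (nat_lit 4) (nat_lit 2) (nat_lit 4) (nat_lit 341) (nat_lit 206) (nat_lit 173))) (XT.nd (nat_lit 78) (nat_lit 0) (nat_lit 0) (XT.lf (nat_lit 0) (nat_lit 90346572827) (nat_lit 152) (nat_lit 15191947130) (nat_lit 0) (nat_lit 86491064725)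 (nat_lit 2) (nat_lit 5) (nat_lit 4) (nat_lit 4) (nat_lit 2) (nat_lit 4) (nat_lit 342) (nat_lit 206) (nat_lit 172)) (XT.lf (nat_lit 0) (nat_lit 96188924479) (nat_lit 152) (nat_lit 13072386457) (nat_lit 0) (nat_lit 92290251410) (nat_lit 2) (nat_lit 5) (nat_lit 4) (nat_lit 4) (nat_lit 2) (nat_lit 4) (nat_lit 343) (nat_lit 206) (nat_lit 171)))) (XT.nd (nat_lit 156) (nat_lit 0) (nat_lit 0) (XT.nd (nat_lit 78) (nat_lit 0) (nat_lit 0) (XT.lf (nat_lit 0) (nat_lit 102303225840) (nat_lit 152) (nat_lit 10883995530) (nat_lit 0) (nat_lit 98363443279) (nat_lit 2) (nat_lit 5) (nat_lit 4) (nat_lit 4) (nat_lit 2) (nat_lit 4) (nat_lit 344) (nat_lit 206) (nat_lit 170)) (XT.lf (nat_lit 0) (nat_lit 108704034769) (nat_lit 152) (nat_lit 8621563892) (nat_lit 0) (nat_lit 104725100311) (nat_lit 2) (nat_lit 5) (nat_lit 4) (nat_lit 4) (nat_lit 2) (nat_lit 4) (nat_lit 345) (nat_lit 206) (nat_lit 169))) (XT.nd (nat_lit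 78) (nat_lit 0) (nat_lit 0) (XT.lf (nat_lit 0) (nat_lit 115406591289) (nat_lit 152) (nat_lit 6279704803) (nat_lit 0) (nat_lit 111390369309) (nat_lit 2) (nat_lit 5) (nat_lit 4) (nat_lit 4) (nat_lit 2) (nat_lit 4) (nat_lit 346) (nat_lit 206) (nat_lit 168)) (XT.nd (nat_lit 78) (nat_lit 0) (nat_lit 0) (XT.lf (nat_lit 0) (nat_lit 122426853866) (nat_lit 152) (nat_lit 3852842408) (nat_lit 0) (nat_lit 118375119962) (nat_lit 2) (nat_lit 5) (nat_lit 4) (nat_lit 4) (nat_lit 2) (nat_lit 4) (nat_lit 347) (nat_lit 206) (nat_lit 167)) (XT.lf (nat_lit 0) (nat_lit 129781537413) (nat_lit 152) (nat_lit 1335198462) (nat_lit 0) (nat_lit 125695982627) (nat_lit 2) (nat_lit 5) (nat_lit 4) (nat_lit 4) (nat_lit 2) (nat_lit 4) (nat_lit 348) (nat_lit 206) (nat_lit 166))))))))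
noncomputable def xc24 : XT := (XT.nd (nat_lit 34242) (nat_lit 0) (nat_lit 76) (XT.nd (nat_lit 624) (nat_lit 0) (nat_lit 0) (XT.nd (nat_lit 312) (nat_lit 0) (nat_lit 0) (XT.nd (nat_lit 156) (nat_lit 0) (nat_lit 0) (XT.nd (nat_lit 78) (nat_lit 0) (nat_lit 0) (XT.lf (nat_lit 0) (nat_lit 1321518260) (nat_lit 76) (nat_lit 136187267423) (nat_lit 76) (nat_lit 132069502274) (nat_lit 1) (nat_lit 4) (nat_lit 2) (nat_lit 5) (nat_lit 2) (nat_lit 4) (nat_lit 349) (nat_lit 206) (nat_lit 165)) (XT.lf (nat_lit 0) (nat_lit 4128789095) (nat_lit 76) (nat_lit 141500722825) (nat_lit 76) (nat_lit 137352281141) (nat_lit 1) (nat_lit 4) (nat_lit 2) (nat_lit 5) (nat_lit 2) (nat_lit 4) (nat_lit 350) (nat_lit 206) (nat_lit 164))) (XT.nd (nat_lit 78) (nat_lit 0) (nat_lit 0) (XT.lf (nat_lit 0) (nat_lit 7049150327) (nat_lit 76) (nat_lit 147092365400) (nat_lit 76) (nat_lit 142914707967) (nat_lit 1) (nat_lit 4) (nat_lit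 2) (nat_lit 5) (nat_lit 2) (nat_lit 4) (nat_lit 351) (nat_lit 206) (nat_lit 163)) (XT.lf (nat_lit 0) (nat_lit 10089555199) (nat_lit 76) (nat_lit 152975508582) (nat_lit 76) (nat_lit 148770026627) (nat_lit 1) (nat_lit 4) (nat_lit 2) (nat_lit 5) (nat_lit 2) (nat_lit 4) (nat_lit 352) (nat_lit 206) (nat_lit 162)))) (XT.nd (nat_lit 156) (nat_lit 0) (nat_lit 0) (XT.nd (nat_lit 78) (nat_lit 0) (nat_lit 0) (XT.lf (nat_lit 0) (nat_lit 13257242769) (nat_lit 76) (nat_lit 159164159854) (nat_lit 76) (nat_lit 154932178354) (nat_lit 1) (nat_lit 4) (nat_lit 2) (nat_lit 5) (nat_lit 2) (nat_lit 4) (nat_lit 353) (nat_lit 206) (nat_lit 161)) (XT.lf (nat_lit 0) (nat_lit 16559755150) (nat_lit 76) (nat_lit 165673054101) (nat_lit 76) (nat_lit 161415834938) (nat_lit 1) (nat_lit 4) (nat_lit 2) (nat_lit 5) (nat_lit 2) (nat_lit 4) (nat_lit 354) (nat_lit 206) (nat_lit 160))) (XT.nd (nat_lit 78) (nat_lit 0) (nat_lit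 0) (XT.lf (nat_lit 0) (nat_lit 20004955468) (nat_lit 76) (nat_lit 172517688690) (nat_lit 76) (nat_lit 168236433658) (nat_lit 1) (nat_lit 4) (nat_lit 2) (nat_lit 5) (nat_lit 2) (nat_lit 4) (nat_lit 355) (nat_lit 206) (nat_lit 159)) (XT.lf (nat_lit 0) (nat_lit 23601046579) (nat_lit 76) (nat_lit 179714360369) (nat_lit 76) (nat_lit 175410214034) (nat_lit 1) (nat_lit 4) (nat_lit 2) (nat_lit 5) (nat_lit 2) (nat_lit 4) (nat_lit 356) (nat_lit 206) (nat_lit 158))))) (XT.nd (nat_lit 312) (nat_lit 0) (nat_lit 0) (XT.nd (nat_lit 156) (nat_lit 0) (nat_lit 0) (XT.nd (nat_lit 78) (nat_lit 0) (nat_lit 0) (XT.lf (nat_lit 0) (nat_lit 27356590607) (nat_lit 76) (nat_lit 187280204072) (nat_lit 76) (nat_lit 182954256496) (nat_lit 1) (nat_lit 4) (nat_lit 2) (nat_lit 5) (nat_lit 2) (nat_lit 4) (nat_lit 357) (nat_lit 206) (nat_lit 157)) (XT.lf (nat_lit 0) (nat_lit 31280529322) (nat_lit 76) (nat_lit 195233233712)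 (nat_lit 76) (nat_lit 190886523049) (nat_lit 1) (nat_lit 4) (nat_lit 2) (nat_lit 5) (nat_lit 2) (nat_lit 4) (nat_lit 358) (nat_lit 206) (nat_lit 156))) (XT.nd (nat_lit 78) (nat_lit 0) (nat_lit 0) (XT.lf (nat_lit 0) (nat_lit 35382205435) (nat_lit 76) (nat_lit 203592385074) (nat_lit 76) (nat_lit 199225900042) (nat_lit 1) (nat_lit 4) (nat_lit 2) (nat_lit 5) (nat_lit 2) (nat_lit 4) (nat_lit 359) (nat_lit 206) (nat_lit 155)) (XT.lf (nat_lit 0) (nat_lit 39671384843) (nat_lit 76) (nat_lit 212377560898) (nat_lit 76) (nat_lit 207992243134) (nat_lit 1) (nat_lit 4) (nat_lit 2) (nat_lit 5) (nat_lit 2) (nat_lit 4) (nat_lit 360) (nat_lit 206) (nat_lit 154)))) (XT.nd (nat_lit 156) (nat_lit 0) (nat_lit 0) (XT.nd (nat_lit 78) (nat_lit 0) (nat_lit 0) (XT.lf (nat_lit 0) (nat_lit 44158279876) (nat_lit 76) (nat_lit 221609678272) (nat_lit 76) (nat_lit 217206424572) (nat_lit 1) (nat_lit 4) (nat_lit 2) (nat_lit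 5) (nat_lit 2) (nat_lit 4) (nat_lit 361) (nat_lit 206) (nat_lit 153)) (XT.lf (nat_lit 0) (nat_lit 48853573619) (nat_lit 76) (nat_lit 231310718425) (nat_lit 76) (nat_lit 226890382883) (nat_lit 1) (nat_lit 4) (nat_lit 2) (nat_lit 5) (nat_lit 2) (nat_lit 4) (nat_lit 362) (nat_lit 206) (nat_lit 152))) (XT.nd (nat_lit 78) (nat_lit 0) (nat_lit 0) (XT.lf (nat_lit 0) (nat_lit 53768445342) (nat_lit 76) (nat_lit 241503779074) (nat_lit 76) (nat_lit 237067175110) (nat_lit 1) (nat_lit 4) (nat_lit 2) (nat_lit 5) (nat_lit 2) (nat_lit 4) (nat_lit 363) (nat_lit 206) (nat_lit 151)) (XT.nd (nat_lit 32994) (nat_lit 0) (nat_lit 304) (XT.lf (nat_lit 0) (nat_lit 58914597120) (nat_lit 76) (nat_lit 252213129410) (nat_lit 76) (nat_lit 247761031710) (nat_lit 1) (nat_lit 4) (nat_lit 2) (nat_lit 5) (nat_lit 2) (nat_lit 4) (nat_lit 364) (nat_lit 206) (nat_lit 150)) (XT.lf (nat_lit 0) (nat_lit 6210741357) (nat_lit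 152) (nat_lit 5213185273) (nat_lit 0) (nat_lit 6210741357) (nat_lit 5) (nat_lit 5) (nat_lit 7) (nat_lit 4) (nat_lit 5) (nat_lit 4) (nat_lit 306) (nat_lit 207) (nat_lit 207))))))) (XT.nd (nat_lit 702) (nat_lit 152) (nat_lit 0) (XT.nd (nat_lit 312) (nat_lit 0) (nat_lit 0) (XT.nd (nat_lit 156) (nat_lit 0) (nat_lit 0) (XT.nd (nat_lit 78) (nat_lit 76) (nat_lit 0) (XT.lf (nat_lit 0) (nat_lit 16015965837) (nat_lit 152) (nat_lit 5085886086) (nat_lit 0) (nat_lit 15765962286) (nat_lit 5) (nat_lit 5) (nat_lit 7) (nat_lit 4) (nat_lit 5) (nat_lit 4) (nat_lit 307) (nat_lit 207) (nat_lit 206)) (XT.lf (nat_lit 0) (nat_lit 348178206) (nat_lit 76) (nat_lit 19345532006) (nat_lit 76) (nat_lit 18857429834) (nat_lit 4) (nat_lit 4) (nat_lit 5) (nat_lit 5) (nat_lit 5) (nat_lit 4) (nat_lit 308) (nat_lit 207) (nat_lit 205))) (XT.nd (nat_lit 78) (nat_lit 0) (nat_lit 0) (XT.lf (nat_lit 0) (nat_lit 6048905158)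 (nat_lit 76) (nat_lit 17492686521) (nat_lit 76) (nat_lit 16777823759) (nat_lit 4) (nat_lit 4) (nat_lit 5) (nat_lit 5) (nat_lit 5) (nat_lit 4) (nat_lit 309) (nat_lit 207) (nat_lit 204)) (XT.lf (nat_lit 0) (nat_lit 11861705567) (nat_lit 76) (nat_lit 15625035874) (nat_lit 76) (nat_lit 14694210645) (nat_lit 4) (nat_lit 4) (nat_lit 5) (nat_lit 5) (nat_lit 5) (nat_lit 4) (nat_lit 310) (nat_lit 207) (nat_lit 203)))) (XT.nd (nat_lit 156) (nat_lit 0) (nat_lit 0) (XT.nd (nat_lit 78) (nat_lit 0) (nat_lit 0) (XT.lf (nat_lit 0) (nat_lit 17800419433) (nat_lit 76) (nat_lit 13738133279) (nat_lit 76) (nat_lit 12601629509) (nat_lit 4) (nat_lit 4) (nat_lit 5) (nat_lit 5) (nat_lit 5) (nat_lit 4) (nat_lit 311) (nat_lit 207) (nat_lit 202)) (XT.lf (nat_lit 0) (nat_lit 23879186551) (nat_lit 76) (nat_lit 11827486109) (nat_lit 76) (nat_lit 10495098015) (nat_lit 4) (nat_lit 4) (nat_lit 5) (nat_lit 5) (nat_lit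 5) (nat_lit 4) (nat_lit 312) (nat_lit 207) (nat_lit 201))) (XT.nd (nat_lit 78) (nat_lit 0) (nat_lit 0) (XT.lf (nat_lit 0) (nat_lit 30112480176) (nat_lit 76) (nat_lit 9888545205) (nat_lit 76) (nat_lit 8369600612) (nat_lit 4) (nat_lit 4) (nat_lit 5) (nat_lit 5) (nat_lit 5) (nat_lit 4) (nat_lit 313) (nat_lit 207) (nat_lit 200)) (XT.nd (nat_lit 78) (nat_lit 0) (nat_lit 0) (XT.lf (nat_lit 0) (nat_lit 36515141483) (nat_lit 76) (nat_lit 7916694041) (nat_lit 76) (nat_lit 6220076591) (nat_lit 4) (nat_lit 4) (nat_lit 5) (nat_lit 5) (nat_lit 5) (nat_lit 4) (nat_lit 314) (nat_lit 207) (nat_lit 199)) (XT.lf (nat_lit 0) (nat_lit 43102414905) (nat_lit 76) (nat_lit 5907237733) (nat_lit 76) (nat_lit 4041408039) (nat_lit 4) (nat_lit 4) (nat_lit 5) (nat_lit 5) (nat_lit 5) (nat_lit 4) (nat_lit 315) (nat_lit 207) (nat_lit 198)))))) (XT.nd (nat_lit 312) (nat_lit 0) (nat_lit 0) (XT.nd (nat_lit 156) (nat_lit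 76) (nat_lit 0) (XT.nd (nat_lit 78) (nat_lit 76) (nat_lit 0) (XT.lf (nat_lit 0) (nat_lit 49889984425) (nat_lit 76) (nat_lit 3855391861) (nat_lit 76) (nat_lit 1828407650) (nat_lit 4) (nat_lit 4) (nat_lit 5) (nat_lit 5) (nat_lit 5) (nat_lit 4) (nat_lit 316) (nat_lit 207) (nat_lit 197)) (XT.lf (nat_lit 0) (nat_lit 410616780) (nat_lit 152) (nat_lit 1338700305) (nat_lit 76) (nat_lit 56476440149) (nat_lit 3) (nat_lit 5) (nat_lit 5) (nat_lit 5) (nat_lit 4) (nat_lit 4) (nat_lit 317) (nat_lit 207) (nat_lit 196))) (XT.nd (nat_lit 78) (nat_lit 0) (nat_lit 0) (XT.lf (nat_lit 0) (nat_lit 2691911224) (nat_lit 152) (nat_lit 57841322961) (nat_lit 0) (nat_lit 476066840) (nat_lit 2) (nat_lit 5) (nat_lit 4) (nat_lit 4) (nat_lit 2) (nat_lit 4) (nat_lit 318) (nat_lit 207) (nat_lit 195)) (XT.lf (nat_lit 0) (nat_lit 5073947512) (nat_lit 152) (nat_lit 56133275717) (nat_lit 0) (nat_lit 2725520907) (nat_lit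 2) (nat_lit 5) (nat_lit 4) (nat_lit 4) (nat_lit 2) (nat_lit 4) (nat_lit 319) (nat_lit 207) (nat_lit 194)))) (XT.nd (nat_lit 156) (nat_lit 0) (nat_lit 0) (XT.nd (nat_lit 78) (nat_lit 0) (nat_lit 0) (XT.lf (nat_lit 0) (nat_lit 7513139511) (nat_lit 152) (nat_lit 54453926395) (nat_lit 0) (nat_lit 5038444123) (nat_lit 2) (nat_lit 5) (nat_lit 4) (nat_lit 4) (nat_lit 2) (nat_lit 4) (nat_lit 320) (nat_lit 207) (nat_lit 193)) (XT.lf (nat_lit 0) (nat_lit 10015294820) (nat_lit 152) (nat_lit 52799276546) (nat_lit 0) (nat_lit 7420343449) (nat_lit 2) (nat_lit 5) (nat_lit 4) (nat_lit 4) (nat_lit 2) (nat_lit 4) (nat_lit 321) (nat_lit 207) (nat_lit 192))) (XT.nd (nat_lit 78) (nat_lit 0) (nat_lit 0) (XT.lf (nat_lit 0) (nat_lit 12586370951) (nat_lit 152) (nat_lit 51165386526) (nat_lit 0) (nat_lit 9876890073) (nat_lit 2) (nat_lit 5) (nat_lit 4) (nat_lit 4) (nat_lit 2) (nat_lit 4) (nat_lit 322) (nat_lit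 207) (nat_lit 191)) (XT.nd (nat_lit 78) (nat_lit 0) (nat_lit 0) (XT.lf (nat_lit 0) (nat_lit 15232489515) (nat_lit 152) (nat_lit 49548366121) (nat_lit 0) (nat_lit 12413932916) (nat_lit 2) (nat_lit 5) (nat_lit 4) (nat_lit 4) (nat_lit 2) (nat_lit 4) (nat_lit 323) (nat_lit 207) (nat_lit 190)) (XT.lf (nat_lit 0) (nat_lit 17959950794) (nat_lit 152) (nat_lit 47944365283) (nat_lit 0) (nat_lit 15037512556) (nat_lit 2) (nat_lit 5) (nat_lit 4) (nat_lit 4) (nat_lit 2) (nat_lit 4) (nat_lit 324) (nat_lit 207) (nat_lit 189))))))))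
noncomputable def xc25 : XT := (XT.nd (nat_lit 1326) (nat_lit 76) (nat_lit 0) (XT.nd (nat_lit 624) (nat_lit 0) (nat_lit 0) (XT.nd (nat_lit 312) (nat_lit 0) (nat_lit 0) (XT.nd (nat_lit 156) (nat_lit 0) (nat_lit 0) (XT.nd (nat_lit 78) (nat_lit 0) (nat_lit 0) (XT.lf (nat_lit 0) (nat_lit 20775248744) (nat_lit 152) (nat_lit 46349564961) (nat_lit 0) (nat_lit 17753875611) (nat_lit 2) (nat_lit 5) (nat_lit 4) (nat_lit 4) (nat_lit 2) (nat_lit 4) (nat_lit 325) (nat_lit 207) (nat_lit 188)) (XT.lf (nat_lit 0) (nat_lit 23685086454) (nat_lit 152) (nat_lit 44760168013) (nat_lit 0) (nat_lit 20569489612) (nat_lit 2) (nat_lit 5) (nat_lit 4) (nat_lit 4) (nat_lit 2) (nat_lit 4) (nat_lit 326) (nat_lit 207) (nat_lit 187))) (XT.nd (nat_lit 78) (nat_lit 0) (nat_lit 0) (XT.lf (nat_lit 0) (nat_lit 26696392110) (nat_lit 152) (nat_lit 43172390159) (nat_lit 0) (nat_lit 23491058402) (nat_lit 2) (nat_lit 5) (nat_lit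 4) (nat_lit 4) (nat_lit 2) (nat_lit 4) (nat_lit 327) (nat_lit 207) (nat_lit 186)) (XT.lf (nat_lit 0) (nat_lit 29816335487) (nat_lit 152) (nat_lit 41582450977) (nat_lit 0) (nat_lit 26525538097) (nat_lit 2) (nat_lit 5) (nat_lit 4) (nat_lit 4) (nat_lit 2) (nat_lit 4) (nat_lit 328) (nat_lit 207) (nat_lit 185)))) (XT.nd (nat_lit 156) (nat_lit 0) (nat_lit 0) (XT.nd (nat_lit 78) (nat_lit 0) (nat_lit 0) (XT.lf (nat_lit 0) (nat_lit 33052345022) (nat_lit 152) (nat_lit 39986564897) (nat_lit 0) (nat_lit 29680153650) (nat_lit 2) (nat_lit 5) (nat_lit 4) (nat_lit 4) (nat_lit 2) (nat_lit 4) (nat_lit 329) (nat_lit 207) (nat_lit 184)) (XT.lf (nat_lit 0) (nat_lit 36412125499) (nat_lit 152) (nat_lit 38380932189) (nat_lit 0) (nat_lit 32962416048) (nat_lit 2) (nat_lit 5) (nat_lit 4) (nat_lit 4) (nat_lit 2) (nat_lit 4) (nat_lit 330) (nat_lit 207) (nat_lit 183))) (XT.nd (nat_lit 78) (nat_lit 0) (nat_lit 0)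 (XT.lf (nat_lit 0) (nat_lit 39903676396) (nat_lit 152) (nat_lit 36761729920) (nat_lit 0) (nat_lit 36380140203) (nat_lit 2) (nat_lit 5) (nat_lit 4) (nat_lit 4) (nat_lit 2) (nat_lit 4) (nat_lit 331) (nat_lit 207) (nat_lit 182)) (XT.lf (nat_lit 0) (nat_lit 43535310929) (nat_lit 152) (nat_lit 35125102846) (nat_lit 0) (nat_lit 39941463554) (nat_lit 2) (nat_lit 5) (nat_lit 4) (nat_lit 4) (nat_lit 2) (nat_lit 4) (nat_lit 332) (nat_lit 207) (nat_lit 181))))) (XT.nd (nat_lit 312) (nat_lit 0) (nat_lit 0) (XT.nd (nat_lit 156) (nat_lit 0) (nat_lit 0) (XT.nd (nat_lit 78) (nat_lit 0) (nat_lit 0) (XT.lf (nat_lit 0) (nat_lit 47315675847) (nat_lit 152) (nat_lit 33467154234) (nat_lit 0) (nat_lit 43654865441) (nat_lit 2) (nat_lit 5) (nat_lit 4) (nat_lit 4) (nat_lit 2) (nat_lit 4) (nat_lit 333) (nat_lit 207) (nat_lit 180)) (XT.lf (nat_lit 0) (nat_lit 51253772019) (nat_lit 152) (nat_lit 31783936590) (nat_lit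 0) (nat_lit 47529187298) (nat_lit 2) (nat_lit 5) (nat_lit 4) (nat_lit 4) (nat_lit 2) (nat_lit 4) (nat_lit 334) (nat_lit 207) (nat_lit 179))) (XT.nd (nat_lit 78) (nat_lit 0) (nat_lit 0) (XT.lf (nat_lit 0) (nat_lit 55358975864) (nat_lit 152) (nat_lit 30071442251) (nat_lit 0) (nat_lit 51573653700) (nat_lit 2) (nat_lit 5) (nat_lit 4) (nat_lit 4) (nat_lit 2) (nat_lit 4) (nat_lit 335) (nat_lit 207) (nat_lit 178)) (XT.lf (nat_lit 0) (nat_lit 59641061678) (nat_lit 152) (nat_lit 28325593851) (nat_lit 0) (nat_lit 55797894329) (nat_lit 2) (nat_lit 5) (nat_lit 4) (nat_lit 4) (nat_lit 2) (nat_lit 4) (nat_lit 336) (nat_lit 207) (nat_lit 177)))) (XT.nd (nat_lit 156) (nat_lit 0) (nat_lit 0) (XT.nd (nat_lit 78) (nat_lit 0) (nat_lit 0) (XT.lf (nat_lit 0) (nat_lit 64110224902) (nat_lit 152) (nat_lit 26542234607) (nat_lit 0) (nat_lit 60211966902) (nat_lit 2) (nat_lit 5) (nat_lit 4) (nat_lit 4) (nat_lit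 2) (nat_lit 4) (nat_lit 337) (nat_lit 207) (nat_lit 176)) (XT.lf (nat_lit 0) (nat_lit 68777106401) (nat_lit 152) (nat_lit 24717118425) (nat_lit 0) (nat_lit 64826381115) (nat_lit 2) (nat_lit 5) (nat_lit 4) (nat_lit 4) (nat_lit 2) (nat_lit 4) (nat_lit 338) (nat_lit 207) (nat_lit 175))) (XT.nd (nat_lit 78) (nat_lit 0) (nat_lit 0) (XT.lf (nat_lit 0) (nat_lit 73652817798) (nat_lit 152) (nat_lit 22845899792) (nat_lit 0) (nat_lit 69652123667) (nat_lit 2) (nat_lit 5) (nat_lit 4) (nat_lit 4) (nat_lit 2) (nat_lit 4) (nat_lit 339) (nat_lit 207) (nat_lit 174)) (XT.nd (nat_lit 78) (nat_lit 0) (nat_lit 0) (XT.lf (nat_lit 0) (nat_lit 78748967930) (nat_lit 152) (nat_lit 20924123425) (nat_lit 0) (nat_lit 74700684423) (nat_lit 2) (nat_lit 5) (nat_lit 4) (nat_lit 4) (nat_lit 2) (nat_lit 4) (nat_lit 340) (nat_lit 207) (nat_lit 173)) (XT.lf (nat_lit 0) (nat_lit 84077690488) (nat_lit 152) (nat_lit 18947213665)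 (nat_lit 0) (nat_lit 79984083766) (nat_lit 2) (nat_lit 5) (nat_lit 4) (nat_lit 4) (nat_lit 2) (nat_lit 4) (nat_lit 341) (nat_lit 207) (nat_lit 172))))))) (XT.nd (nat_lit 702) (nat_lit 0) (nat_lit 0) (XT.nd (nat_lit 312) (nat_lit 76) (nat_lit 0) (XT.nd (nat_lit 156) (nat_lit 0) (nat_lit 0) (XT.nd (nat_lit 78) (nat_lit 0) (nat_lit 0) (XT.lf (nat_lit 0) (nat_lit 89651672906) (nat_lit 152) (nat_lit 16910463585) (nat_lit 0) (nat_lit 85514901217) (nat_lit 2) (nat_lit 5) (nat_lit 4) (nat_lit 4) (nat_lit 2) (nat_lit 4) (nat_lit 342) (nat_lit 207) (nat_lit 171)) (XT.lf (nat_lit 0) (nat_lit 95484186570) (nat_lit 152) (nat_lit 14809023780) (nat_lit 0) (nat_lit 91306305389) (nat_lit 2) (nat_lit 5) (nat_lit 4) (nat_lit 4) (nat_lit 2) (nat_lit 4) (nat_lit 343) (nat_lit 207) (nat_lit 170))) (XT.nd (nat_lit 78) (nat_lit 0) (nat_lit 0) (XT.lf (nat_lit 0) (nat_lit 101589118419) (nat_lit 152) (nat_lit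 12637890821) (nat_lit 0) (nat_lit 97372085340) (nat_lit 2) (nat_lit 5) (nat_lit 4) (nat_lit 4) (nat_lit 2) (nat_lit 4) (nat_lit 344) (nat_lit 207) (nat_lit 169)) (XT.lf (nat_lit 0) (nat_lit 107981004004) (nat_lit 152) (nat_lit 10391895345) (nat_lit 0) (nat_lit 103726683404) (nat_lit 2) (nat_lit 5) (nat_lit 4) (nat_lit 4) (nat_lit 2) (nat_lit 4) (nat_lit 345) (nat_lit 207) (nat_lit 168)))) (XT.nd (nat_lit 156) (nat_lit 76) (nat_lit 0) (XT.nd (nat_lit 78) (nat_lit 0) (nat_lit 0) (XT.lf (nat_lit 0) (nat_lit 114675062100) (nat_lit 152) (nat_lit 8065689743) (nat_lit 0) (nat_lit 110385229575) (nat_lit 2) (nat_lit 5) (nat_lit 4) (nat_lit 4) (nat_lit 2) (nat_lit 4) (nat_lit 346) (nat_lit 207) (nat_lit 167)) (XT.lf (nat_lit 0) (nat_lit 121687230941) (nat_lit 152) (nat_lit 5653735430) (nat_lit 0) (nat_lit 117363577535) (nat_lit 2) (nat_lit 5) (nat_lit 4) (nat_lit 4) (nat_lit 2) (nat_lit 4) (nat_lit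 347) (nat_lit 207) (nat_lit 166))) (XT.nd (nat_lit 78) (nat_lit 76) (nat_lit 0) (XT.lf (nat_lit 0) (nat_lit 129034206167) (nat_lit 152) (nat_lit 3150289659) (nat_lit 0) (nat_lit 124678342399) (nat_lit 2) (nat_lit 5) (nat_lit 4) (nat_lit 4) (nat_lit 2) (nat_lit 4) (nat_lit 348) (nat_lit 207) (nat_lit 165)) (XT.nd (nat_lit 78) (nat_lit 76) (nat_lit 0) (XT.lf (nat_lit 0) (nat_lit 136733480577) (nat_lit 152) (nat_lit 549391843) (nat_lit 0) (nat_lit 132346940272) (nat_lit 2) (nat_lit 5) (nat_lit 4) (nat_lit 4) (nat_lit 2) (nat_lit 4) (nat_lit 349) (nat_lit 207) (nat_lit 164)) (XT.lf (nat_lit 0) (nat_lit 2226409643) (nat_lit 76) (nat_lit 142611736626) (nat_lit 76) (nat_lit 138195980573) (nat_lit 1) (nat_lit 4) (nat_lit 2) (nat_lit 5) (nat_lit 2) (nat_lit 4) (nat_lit 350) (nat_lit 207) (nat_lit 163)))))) (XT.nd (nat_lit 312) (nat_lit 0) (nat_lit 0) (XT.nd (nat_lit 156) (nat_lit 0) (nat_lit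 0) (XT.nd (nat_lit 78) (nat_lit 0) (nat_lit 0) (XT.lf (nat_lit 0) (nat_lit 5134100425) (nat_lit 76) (nat_lit 148209193092) (nat_lit 76) (nat_lit 143765612517) (nat_lit 1) (nat_lit 4) (nat_lit 2) (nat_lit 5) (nat_lit 2) (nat_lit 4) (nat_lit 351) (nat_lit 207) (nat_lit 162)) (XT.lf (nat_lit 0) (nat_lit 8162438201) (nat_lit 76) (nat_lit 154097873314) (nat_lit 76) (nat_lit 149627793193) (nat_lit 1) (nat_lit 4) (nat_lit 2) (nat_lit 5) (nat_lit 2) (nat_lit 4) (nat_lit 352) (nat_lit 207) (nat_lit 161))) (XT.nd (nat_lit 78) (nat_lit 0) (nat_lit 0) (XT.lf (nat_lit 0) (nat_lit 11318633300) (nat_lit 76) (nat_lit 160291797957) (nat_lit 76) (nat_lit 155796480174) (nat_lit 1) (nat_lit 4) (nat_lit 2) (nat_lit 5) (nat_lit 2) (nat_lit 4) (nat_lit 353) (nat_lit 207) (nat_lit 160)) (XT.lf (nat_lit 0) (nat_lit 14610200470) (nat_lit 76) (nat_lit 166805714462) (nat_lit 76) (nat_lit 162286360811) (nat_lit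 1) (nat_lit 4) (nat_lit 2) (nat_lit 5) (nat_lit 2) (nat_lit 4) (nat_lit 354) (nat_lit 207) (nat_lit 159)))) (XT.nd (nat_lit 156) (nat_lit 0) (nat_lit 0) (XT.nd (nat_lit 78) (nat_lit 0) (nat_lit 0) (XT.lf (nat_lit 0) (nat_lit 18044976777) (nat_lit 76) (nat_lit 173655132154) (nat_lit 76) (nat_lit 169112887199) (nat_lit 1) (nat_lit 4) (nat_lit 2) (nat_lit 5) (nat_lit 2) (nat_lit 4) (nat_lit 355) (nat_lit 207) (nat_lit 158)) (XT.lf (nat_lit 0) (nat_lit 21631140259) (nat_lit 76) (nat_lit 180856359170) (nat_lit 76) (nat_lit 176292312973) (nat_lit 1) (nat_lit 4) (nat_lit 2) (nat_lit 5) (nat_lit 2) (nat_lit 4) (nat_lit 356) (nat_lit 207) (nat_lit 157))) (XT.nd (nat_lit 78) (nat_lit 0) (nat_lit 0) (XT.lf (nat_lit 0) (nat_lit 25377229402) (nat_lit 76) (nat_lit 188426541288) (nat_lit 76) (nat_lit 183841732005) (nat_lit 1) (nat_lit 4) (nat_lit 2) (nat_lit 5) (nat_lit 2) (nat_lit 4) (nat_lit 357)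 (nat_lit 207) (nat_lit 156)) (XT.nd (nat_lit 78) (nat_lit 0) (nat_lit 0) (XT.lf (nat_lit 0) (nat_lit 29292163464) (nat_lit 76) (nat_lit 196383702753) (nat_lit 76) (nat_lit 191779119100) (nat_lit 1) (nat_lit 4) (nat_lit 2) (nat_lit 5) (nat_lit 2) (nat_lit 4) (nat_lit 358) (nat_lit 207) (nat_lit 155)) (XT.lf (nat_lit 0) (nat_lit 33385263718) (nat_lit 76) (nat_lit 204746789185) (nat_lit 76) (nat_lit 200123372801) (nat_lit 1) (nat_lit 4) (nat_lit 2) (nat_lit 5) (nat_lit 2) (nat_lit 4) (nat_lit 359) (nat_lit 207) (nat_lit 154))))))))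
noncomputable def xc26 : XT := (XT.nd (nat_lit 34086) (nat_lit 0) (nat_lit 76) (XT.nd (nat_lit 33384) (nat_lit 0) (nat_lit 228) (XT.nd (nat_lit 312) (nat_lit 0) (nat_lit 0) (XT.nd (nat_lit 156) (nat_lit 0) (nat_lit 0) (XT.nd (nat_lit 78) (nat_lit 0) (nat_lit 0) (XT.lf (nat_lit 0) (nat_lit 37666275641) (nat_lit 76) (nat_lit 213535712696) (nat_lit 76) (nat_lit 208894360377) (nat_lit 1) (nat_lit 4) (nat_lit 2) (nat_lit 5) (nat_lit 2) (nat_lit 4) (nat_lit 360) (nat_lit 207) (nat_lit 153)) (XT.lf (nat_lit 0) (nat_lit 42145392117) (nat_lit 76) (nat_lit 222771399295) (nat_lit 76) (nat_lit 218112965132) (nat_lit 1) (nat_lit 4) (nat_lit 2) (nat_lit 5) (nat_lit 2) (nat_lit 4) (nat_lit 361) (nat_lit 207) (nat_lit 152))) (XT.nd (nat_lit 78) (nat_lit 0) (nat_lit 0) (XT.lf (nat_lit 0) (nat_lit 46833277710) (nat_lit 76) (nat_lit 232475838711) (nat_lit 76) (nat_lit 227801136126) (nat_lit 1) (nat_lit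 4) (nat_lit 2) (nat_lit 5) (nat_lit 2) (nat_lit 4) (nat_lit 362) (nat_lit 207) (nat_lit 151)) (XT.lf (nat_lit 0) (nat_lit 51741094052) (nat_lit 76) (nat_lit 242672136752) (nat_lit 76) (nat_lit 237981940432) (nat_lit 1) (nat_lit 4) (nat_lit 2) (nat_lit 5) (nat_lit 2) (nat_lit 4) (nat_lit 363) (nat_lit 207) (nat_lit 150)))) (XT.nd (nat_lit 32916) (nat_lit 0) (nat_lit 304) (XT.nd (nat_lit 32838) (nat_lit 0) (nat_lit 304) (XT.lf (nat_lit 0) (nat_lit 56880526421) (nat_lit 76) (nat_lit 253384570318) (nat_lit 76) (nat_lit 248679618060) (nat_lit 1) (nat_lit 4) (nat_lit 2) (nat_lit 5) (nat_lit 2) (nat_lit 4) (nat_lit 364) (nat_lit 207) (nat_lit 149)) (XT.lf (nat_lit 0) (nat_lit 2874614670) (nat_lit 152) (nat_lit 10405727439) (nat_lit 0) (nat_lit 2874614670) (nat_lit 5) (nat_lit 5) (nat_lit 7) (nat_lit 4) (nat_lit 5) (nat_lit 4) (nat_lit 304) (nat_lit 208) (nat_lit 208))) (XT.nd (nat_lit 78)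 (nat_lit 0) (nat_lit 0) (XT.lf (nat_lit 0) (nat_lit 9158770244) (nat_lit 152) (nat_lit 15697134487) (nat_lit 0) (nat_lit 8896266515) (nat_lit 5) (nat_lit 5) (nat_lit 7) (nat_lit 4) (nat_lit 5) (nat_lit 4) (nat_lit 305) (nat_lit 208) (nat_lit 207)) (XT.lf (nat_lit 0) (nat_lit 12631794304) (nat_lit 152) (nat_lit 10520915755) (nat_lit 0) (nat_lit 12119287023) (nat_lit 5) (nat_lit 5) (nat_lit 7) (nat_lit 4) (nat_lit 5) (nat_lit 4) (nat_lit 306) (nat_lit 208) (nat_lit 206))))) (XT.nd (nat_lit 312) (nat_lit 0) (nat_lit 0) (XT.nd (nat_lit 156) (nat_lit 0) (nat_lit 0) (XT.nd (nat_lit 78) (nat_lit 76) (nat_lit 0) (XT.lf (nat_lit 0) (nat_lit 16176570625) (nat_lit 152) (nat_lit 5270474352) (nat_lit 0) (nat_lit 15425964725) (nat_lit 5) (nat_lit 5) (nat_lit 7) (nat_lit 4) (nat_lit 5) (nat_lit 4) (nat_lit 307) (nat_lit 208) (nat_lit 205)) (XT.lf (nat_lit 0) (nat_lit 68895869) (nat_lit 76) (nat_lit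 19733718941) (nat_lit 76) (nat_lit 18756352450) (nat_lit 4) (nat_lit 4) (nat_lit 5) (nat_lit 5) (nat_lit 5) (nat_lit 4) (nat_lit 308) (nat_lit 208) (nat_lit 204))) (XT.nd (nat_lit 78) (nat_lit 0) (nat_lit 0) (XT.lf (nat_lit 0) (nat_lit 5685250679) (nat_lit 76) (nat_lit 17918842779) (nat_lit 76) (nat_lit 16725513821) (nat_lit 4) (nat_lit 4) (nat_lit 5) (nat_lit 5) (nat_lit 5) (nat_lit 4) (nat_lit 309) (nat_lit 208) (nat_lit 203)) (XT.lf (nat_lit 0) (nat_lit 11417696667) (nat_lit 76) (nat_lit 16087353392) (nat_lit 76) (nat_lit 14688345894) (nat_lit 4) (nat_lit 4) (nat_lit 5) (nat_lit 5) (nat_lit 5) (nat_lit 4) (nat_lit 310) (nat_lit 208) (nat_lit 202)))) (XT.nd (nat_lit 156) (nat_lit 0) (nat_lit 0) (XT.nd (nat_lit 78) (nat_lit 0) (nat_lit 0) (XT.lf (nat_lit 0) (nat_lit 17279882512) (nat_lit 76) (nat_lit 14234890092) (nat_lit 76) (nat_lit 12639998269) (nat_lit 4) (nat_lit 4) (nat_lit 5)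 (nat_lit 5) (nat_lit 5) (nat_lit 4) (nat_lit 311) (nat_lit 208) (nat_lit 201)) (XT.lf (nat_lit 0) (nat_lit 23285765802) (nat_lit 76) (nat_lit 12357042251) (nat_lit 76) (nat_lit 10575593929) (nat_lit 4) (nat_lit 4) (nat_lit 5) (nat_lit 5) (nat_lit 5) (nat_lit 4) (nat_lit 312) (nat_lit 208) (nat_lit 200))) (XT.nd (nat_lit 78) (nat_lit 0) (nat_lit 0) (XT.lf (nat_lit 0) (nat_lit 29449646257) (nat_lit 76) (nat_lit 10449338803) (nat_lit 76) (nat_lit 8490217625) (nat_lit 4) (nat_lit 4) (nat_lit 5) (nat_lit 5) (nat_lit 5) (nat_lit 4) (nat_lit 313) (nat_lit 208) (nat_lit 199)) (XT.nd (nat_lit 78) (nat_lit 0) (nat_lit 0) (XT.lf (nat_lit 0) (nat_lit 35786199783) (nat_lit 76) (nat_lit 8507237598) (nat_lit 76) (nat_lit 6378904175) (nat_lit 4) (nat_lit 4) (nat_lit 5) (nat_lit 5) (nat_lit 5) (nat_lit 4) (nat_lit 314) (nat_lit 208) (nat_lit 198)) (XT.lf (nat_lit 0) (nat_lit 42310513413) (nat_lit 76)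 (nat_lit 6526114583) (nat_lit 76) (nat_lit 4236626643) (nat_lit 4) (nat_lit 4) (nat_lit 5) (nat_lit 5) (nat_lit 5) (nat_lit 4) (nat_lit 315) (nat_lit 208) (nat_lit 197))))))) (XT.nd (nat_lit 702) (nat_lit 0) (nat_lit 0) (XT.nd (nat_lit 312) (nat_lit 0) (nat_lit 0) (XT.nd (nat_lit 156) (nat_lit 76) (nat_lit 0) (XT.nd (nat_lit 78) (nat_lit 76) (nat_lit 0) (XT.lf (nat_lit 0) (nat_lit 49038121227) (nat_lit 76) (nat_lit 4501252801) (nat_lit 76) (nat_lit 2058284367) (nat_lit 4) (nat_lit 4) (nat_lit 5) (nat_lit 5) (nat_lit 5) (nat_lit 4) (nat_lit 316) (nat_lit 208) (nat_lit 196)) (XT.lf (nat_lit 0) (nat_lit 156146279) (nat_lit 152) (nat_lit 2269040459) (nat_lit 76) (nat_lit 55826250646) (nat_lit 3) (nat_lit 5) (nat_lit 5) (nat_lit 5) (nat_lit 4) (nat_lit 4) (nat_lit 317) (nat_lit 208) (nat_lit 195))) (XT.nd (nat_lit 78) (nat_lit 0) (nat_lit 0) (XT.lf (nat_lit 0) (nat_lit 2157686142) (nat_lit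 76) (nat_lit 225746934) (nat_lit 152) (nat_lit 58654275792) (nat_lit 2) (nat_lit 5) (nat_lit 3) (nat_lit 5) (nat_lit 4) (nat_lit 4) (nat_lit 318) (nat_lit 208) (nat_lit 194)) (XT.lf (nat_lit 0) (nat_lit 4731727210) (nat_lit 152) (nat_lit 57224109616) (nat_lit 0) (nat_lit 2007028271) (nat_lit 2) (nat_lit 5) (nat_lit 4) (nat_lit 4) (nat_lit 2) (nat_lit 4) (nat_lit 319) (nat_lit 208) (nat_lit 193)))) (XT.nd (nat_lit 156) (nat_lit 0) (nat_lit 0) (XT.nd (nat_lit 78) (nat_lit 0) (nat_lit 0) (XT.lf (nat_lit 0) (nat_lit 7142140531) (nat_lit 152) (nat_lit 55597768557) (nat_lit 0) (nat_lit 4297185609) (nat_lit 2) (nat_lit 5) (nat_lit 4) (nat_lit 4) (nat_lit 2) (nat_lit 4) (nat_lit 320) (nat_lit 208) (nat_lit 192)) (XT.lf (nat_lit 0) (nat_lit 9616887575) (nat_lit 152) (nat_lit 53993602767) (nat_lit 0) (nat_lit 6657403146) (nat_lit 2) (nat_lit 5) (nat_lit 4) (nat_lit 4) (nat_lit 2) (nat_lit 4)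 (nat_lit 321) (nat_lit 208) (nat_lit 191))) (XT.nd (nat_lit 78) (nat_lit 0) (nat_lit 0) (XT.lf (nat_lit 0) (nat_lit 12161860597) (nat_lit 152) (nat_lit 52407792803) (nat_lit 0) (nat_lit 9093300447) (nat_lit 2) (nat_lit 5) (nat_lit 4) (nat_lit 4) (nat_lit 2) (nat_lit 4) (nat_lit 322) (nat_lit 208) (nat_lit 190)) (XT.nd (nat_lit 78) (nat_lit 0) (nat_lit 0) (XT.lf (nat_lit 0) (nat_lit 14783119057) (nat_lit 152) (nat_lit 50836562929) (nat_lit 0) (nat_lit 11610677267) (nat_lit 2) (nat_lit 5) (nat_lit 4) (nat_lit 4) (nat_lit 2) (nat_lit 4) (nat_lit 323) (nat_lit 208) (nat_lit 189)) (XT.lf (nat_lit 0) (nat_lit 17486904047) (nat_lit 152) (nat_lit 49276172119) (nat_lit 0) (nat_lit 14215527362) (nat_lit 2) (nat_lit 5) (nat_lit 4) (nat_lit 4) (nat_lit 2) (nat_lit 4) (nat_lit 324) (nat_lit 208) (nat_lit 188)))))) (XT.nd (nat_lit 312) (nat_lit 0) (nat_lit 0) (XT.nd (nat_lit 156) (nat_lit 0) (nat_lit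 0) (XT.nd (nat_lit 78) (nat_lit 0) (nat_lit 0) (XT.lf (nat_lit 0) (nat_lit 20279653149) (nat_lit 152) (nat_lit 47722905158) (nat_lit 0) (nat_lit 16914052755) (nat_lit 2) (nat_lit 5) (nat_lit 4) (nat_lit 4) (nat_lit 2) (nat_lit 4) (nat_lit 325) (nat_lit 208) (nat_lit 187)) (XT.lf (nat_lit 0) (nat_lit 23168015766) (nat_lit 152) (nat_lit 46173063791) (nat_lit 0) (nat_lit 19712678507) (nat_lit 2) (nat_lit 5) (nat_lit 4) (nat_lit 4) (nat_lit 2) (nat_lit 4) (nat_lit 326) (nat_lit 208) (nat_lit 186))) (XT.nd (nat_lit 78) (nat_lit 0) (nat_lit 0) (XT.lf (nat_lit 0) (nat_lit 26158868953) (nat_lit 152) (nat_lit 44622957920) (nat_lit 0) (nat_lit 22618068012) (nat_lit 2) (nat_lit 5) (nat_lit 4) (nat_lit 4) (nat_lit 2) (nat_lit 4) (nat_lit 327) (nat_lit 208) (nat_lit 185)) (XT.lf (nat_lit 0) (nat_lit 29259333788) (nat_lit 152) (nat_lit 43068896816) (nat_lit 0) (nat_lit 25637138865) (nat_lit 2) (nat_lit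 5) (nat_lit 4) (nat_lit 4) (nat_lit 2) (nat_lit 4) (nat_lit 328) (nat_lit 208) (nat_lit 184)))) (XT.nd (nat_lit 156) (nat_lit 0) (nat_lit 0) (XT.nd (nat_lit 78) (nat_lit 0) (nat_lit 0) (XT.lf (nat_lit 0) (nat_lit 32476792331) (nat_lit 152) (nat_lit 41507180335) (nat_lit 0) (nat_lit 28777079329) (nat_lit 2) (nat_lit 5) (nat_lit 4) (nat_lit 4) (nat_lit 2) (nat_lit 4) (nat_lit 329) (nat_lit 208) (nat_lit 183)) (XT.lf (nat_lit 0) (nat_lit 35818905196) (nat_lit 152) (nat_lit 39934090102) (nat_lit 0) (nat_lit 32045365453) (nat_lit 2) (nat_lit 5) (nat_lit 4) (nat_lit 4) (nat_lit 2) (nat_lit 4) (nat_lit 330) (nat_lit 208) (nat_lit 182))) (XT.nd (nat_lit 78) (nat_lit 0) (nat_lit 0) (XT.lf (nat_lit 0) (nat_lit 39293629796) (nat_lit 152) (nat_lit 38345880666) (nat_lit 0) (nat_lit 35449778870) (nat_lit 2) (nat_lit 5) (nat_lit 4) (nat_lit 4) (nat_lit 2) (nat_lit 4) (nat_lit 331) (nat_lit 208) (nat_lit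 181)) (XT.nd (nat_lit 78) (nat_lit 0) (nat_lit 0) (XT.lf (nat_lit 0) (nat_lit 42909239285) (nat_lit 152) (nat_lit 36738770576) (nat_lit 0) (nat_lit 38998425327) (nat_lit 2) (nat_lit 5) (nat_lit 4) (nat_lit 4) (nat_lit 2) (nat_lit 4) (nat_lit 332) (nat_lit 208) (nat_lit 180)) (XT.lf (nat_lit 0) (nat_lit 46674342255) (nat_lit 152) (nat_lit 35108933378) (nat_lit 0) (nat_lit 42699753983) (nat_lit 2) (nat_lit 5) (nat_lit 4) (nat_lit 4) (nat_lit 2) (nat_lit 4) (nat_lit 333) (nat_lit 208) (nat_lit 179))))))))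
noncomputable def xc27 : XT := (XT.nd (nat_lit 1404) (nat_lit 0) (nat_lit 0) (XT.nd (nat_lit 702) (nat_lit 76) (nat_lit 0) (XT.nd (nat_lit 312) (nat_lit 0) (nat_lit 0) (XT.nd (nat_lit 156) (nat_lit 0) (nat_lit 0) (XT.nd (nat_lit 78) (nat_lit 0) (nat_lit 0) (XT.lf (nat_lit 0) (nat_lit 50597903239) (nat_lit 152) (nat_lit 33452488508) (nat_lit 0) (nat_lit 46562577524) (nat_lit 2) (nat_lit 5) (nat_lit 4) (nat_lit 4) (nat_lit 2) (nat_lit 4) (nat_lit 334) (nat_lit 208) (nat_lit 178)) (XT.lf (nat_lit 0) (nat_lit 54689264048) (nat_lit 152) (nat_lit 31765492050) (nat_lit 0) (nat_lit 50596093149) (nat_lit 2) (nat_lit 5) (nat_lit 4) (nat_lit 4) (nat_lit 2) (nat_lit 4) (nat_lit 335) (nat_lit 208) (nat_lit 177))) (XT.nd (nat_lit 78) (nat_lit 0) (nat_lit 0) (XT.lf (nat_lit 0) (nat_lit 58958166018) (nat_lit 152) (nat_lit 30043927345) (nat_lit 0) (nat_lit 54809904467) (nat_lit 2) (nat_lit 5) (nat_lit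 4) (nat_lit 4) (nat_lit 2) (nat_lit 4) (nat_lit 336) (nat_lit 208) (nat_lit 176)) (XT.lf (nat_lit 0) (nat_lit 63414773200) (nat_lit 152) (nat_lit 28283695430) (nat_lit 0) (nat_lit 59214044362) (nat_lit 2) (nat_lit 5) (nat_lit 4) (nat_lit 4) (nat_lit 2) (nat_lit 4) (nat_lit 337) (nat_lit 208) (nat_lit 175)))) (XT.nd (nat_lit 156) (nat_lit 0) (nat_lit 0) (XT.nd (nat_lit 78) (nat_lit 0) (nat_lit 0) (XT.lf (nat_lit 0) (nat_lit 68069696564) (nat_lit 152) (nat_lit 26480605277) (nat_lit 0) (nat_lit 63818998882) (nat_lit 2) (nat_lit 5) (nat_lit 4) (nat_lit 4) (nat_lit 2) (nat_lit 4) (nat_lit 338) (nat_lit 208) (nat_lit 174)) (XT.lf (nat_lit 0) (nat_lit 72934019262) (nat_lit 152) (nat_lit 24630363813) (nat_lit 0) (nat_lit 68635732203) (nat_lit 2) (nat_lit 5) (nat_lit 4) (nat_lit 4) (nat_lit 2) (nat_lit 4) (nat_lit 339) (nat_lit 208) (nat_lit 173))) (XT.nd (nat_lit 78) (nat_lit 0) (nat_lit 0)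 (XT.lf (nat_lit 0) (nat_lit 78019323013) (nat_lit 152) (nat_lit 22728565703) (nat_lit 0) (nat_lit 73675712739) (nat_lit 2) (nat_lit 5) (nat_lit 4) (nat_lit 4) (nat_lit 2) (nat_lit 4) (nat_lit 340) (nat_lit 208) (nat_lit 172)) (XT.nd (nat_lit 78) (nat_lit 0) (nat_lit 0) (XT.lf (nat_lit 0) (nat_lit 83337715684) (nat_lit 152) (nat_lit 20770682854) (nat_lit 0) (nat_lit 78950940443) (nat_lit 2) (nat_lit 5) (nat_lit 4) (nat_lit 4) (nat_lit 2) (nat_lit 4) (nat_lit 341) (nat_lit 208) (nat_lit 171)) (XT.lf (nat_lit 0) (nat_lit 88901860114) (nat_lit 152) (nat_lit 18752053642) (nat_lit 0) (nat_lit 84473975382) (nat_lit 2) (nat_lit 5) (nat_lit 4) (nat_lit 4) (nat_lit 2) (nat_lit 4) (nat_lit 342) (nat_lit 208) (nat_lit 170)))))) (XT.nd (nat_lit 312) (nat_lit 76) (nat_lit 0) (XT.nd (nat_lit 156) (nat_lit 0) (nat_lit 0) (XT.nd (nat_lit 78) (nat_lit 0) (nat_lit 0) (XT.lf (nat_lit 0) (nat_lit 94725004267)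 (nat_lit 152) (nat_lit 16667871806) (nat_lit 0) (nat_lit 90257967637) (nat_lit 2) (nat_lit 5) (nat_lit 4) (nat_lit 4) (nat_lit 2) (nat_lit 4) (nat_lit 343) (nat_lit 208) (nat_lit 169)) (XT.lf (nat_lit 0) (nat_lit 100821012771) (nat_lit 152) (nat_lit 14513175008) (nat_lit 0) (nat_lit 96316688620) (nat_lit 2) (nat_lit 5) (nat_lit 4) (nat_lit 4) (nat_lit 2) (nat_lit 4) (nat_lit 344) (nat_lit 208) (nat_lit 168))) (XT.nd (nat_lit 78) (nat_lit 0) (nat_lit 0) (XT.lf (nat_lit 0) (nat_lit 107204399932) (nat_lit 152) (nat_lit 12282833019) (nat_lit 0) (nat_lit 102664563856) (nat_lit 2) (nat_lit 5) (nat_lit 4) (nat_lit 4) (nat_lit 2) (nat_lit 4) (nat_lit 345) (nat_lit 208) (nat_lit 167)) (XT.lf (nat_lit 0) (nat_lit 113890364292) (nat_lit 152) (nat_lit 9971535499) (nat_lit 0) (nat_lit 109316707335) (nat_lit 2) (nat_lit 5) (nat_lit 4) (nat_lit 4) (nat_lit 2) (nat_lit 4) (nat_lit 346) (nat_lit 208)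 (nat_lit 166)))) (XT.nd (nat_lit 156) (nat_lit 76) (nat_lit 0) (XT.nd (nat_lit 78) (nat_lit 0) (nat_lit 0) (XT.lf (nat_lit 0) (nat_lit 120894824813) (nat_lit 152) (nat_lit 7573779361) (nat_lit 0) (nat_lit 116288957493) (nat_lit 2) (nat_lit 5) (nat_lit 4) (nat_lit 4) (nat_lit 2) (nat_lit 4) (nat_lit 347) (nat_lit 208) (nat_lit 165)) (XT.lf (nat_lit 0) (nat_lit 128234458781) (nat_lit 152) (nat_lit 5083855659) (nat_lit 0) (nat_lit 123597914925) (nat_lit 2) (nat_lit 5) (nat_lit 4) (nat_lit 4) (nat_lit 2) (nat_lit 4) (nat_lit 348) (nat_lit 208) (nat_lit 164))) (XT.nd (nat_lit 78) (nat_lit 76) (nat_lit 0) (XT.lf (nat_lit 0) (nat_lit 135926741517) (nat_lit 152) (nat_lit 2495836006) (nat_lit 0) (nat_lit 131260981912) (nat_lit 2) (nat_lit 5) (nat_lit 4) (nat_lit 4) (nat_lit 2) (nat_lit 4) (nat_lit 349) (nat_lit 208) (nat_lit 163)) (XT.nd (nat_lit 78) (nat_lit 0) (nat_lit 0) (XT.lf (nat_lit 0)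 (nat_lit 202936795) (nat_lit 76) (nat_lit 143790219594) (nat_lit 76) (nat_lit 139096635468) (nat_lit 1) (nat_lit 4) (nat_lit 2) (nat_lit 5) (nat_lit 2) (nat_lit 4) (nat_lit 350) (nat_lit 208) (nat_lit 162)) (XT.lf (nat_lit 0) (nat_lit 3098560482) (nat_lit 76) (nat_lit 149393213101) (nat_lit 76) (nat_lit 144673129429) (nat_lit 1) (nat_lit 4) (nat_lit 2) (nat_lit 5) (nat_lit 2) (nat_lit 4) (nat_lit 351) (nat_lit 208) (nat_lit 161))))))) (XT.nd (nat_lit 702) (nat_lit 0) (nat_lit 0) (XT.nd (nat_lit 312) (nat_lit 0) (nat_lit 0) (XT.nd (nat_lit 156) (nat_lit 0) (nat_lit 0) (XT.nd (nat_lit 78) (nat_lit 0) (nat_lit 0) (XT.lf (nat_lit 0) (nat_lit 6115405787) (nat_lit 76) (nat_lit 155287166693) (nat_lit 76) (nat_lit 150541845359) (nat_lit 1) (nat_lit 4) (nat_lit 2) (nat_lit 5) (nat_lit 2) (nat_lit 4) (nat_lit 352) (nat_lit 208) (nat_lit 160)) (XT.lf (nat_lit 0) (nat_lit 9260655674) (nat_lit 76)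 (nat_lit 161486113595) (nat_lit 76) (nat_lit 156716756392) (nat_lit 1) (nat_lit 4) (nat_lit 2) (nat_lit 5) (nat_lit 2) (nat_lit 4) (nat_lit 353) (nat_lit 208) (nat_lit 159))) (XT.nd (nat_lit 78) (nat_lit 0) (nat_lit 0) (XT.lf (nat_lit 0) (nat_lit 12541798834) (nat_lit 76) (nat_lit 168004813203) (nat_lit 76) (nat_lit 163212564697) (nat_lit 1) (nat_lit 4) (nat_lit 2) (nat_lit 5) (nat_lit 2) (nat_lit 4) (nat_lit 354) (nat_lit 208) (nat_lit 158)) (XT.lf (nat_lit 0) (nat_lit 15966647511) (nat_lit 76) (nat_lit 174858786231) (nat_lit 76) (nat_lit 170044736484) (nat_lit 1) (nat_lit 4) (nat_lit 2) (nat_lit 5) (nat_lit 2) (nat_lit 4) (nat_lit 355) (nat_lit 208) (nat_lit 157)))) (XT.nd (nat_lit 156) (nat_lit 0) (nat_lit 0) (XT.nd (nat_lit 78) (nat_lit 0) (nat_lit 0) (XT.lf (nat_lit 0) (nat_lit 19543356109) (nat_lit 76) (nat_lit 182064351663) (nat_lit 76) (nat_lit 177229538828) (nat_lit 1) (nat_lit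 4) (nat_lit 2) (nat_lit 5) (nat_lit 2) (nat_lit 4) (nat_lit 356) (nat_lit 208) (nat_lit 156)) (XT.lf (nat_lit 0) (nat_lit 23280440599) (nat_lit 76) (nat_lit 189638665605) (nat_lit 76) (nat_lit 184784078402) (nat_lit 1) (nat_lit 4) (nat_lit 2) (nat_lit 5) (nat_lit 2) (nat_lit 4) (nat_lit 357) (nat_lit 208) (nat_lit 155))) (XT.nd (nat_lit 78) (nat_lit 0) (nat_lit 0) (XT.lf (nat_lit 0) (nat_lit 27186798802) (nat_lit 76) (nat_lit 197599762140) (nat_lit 76) (nat_lit 192726342205) (nat_lit 1) (nat_lit 4) (nat_lit 2) (nat_lit 5) (nat_lit 2) (nat_lit 4) (nat_lit 358) (nat_lit 208) (nat_lit 154)) (XT.nd (nat_lit 78) (nat_lit 0) (nat_lit 0) (XT.lf (nat_lit 0) (nat_lit 31271731571) (nat_lit 76) (nat_lit 205966596259) (nat_lit 76) (nat_lit 201075240388) (nat_lit 1) (nat_lit 4) (nat_lit 2) (nat_lit 5) (nat_lit 2) (nat_lit 4) (nat_lit 359) (nat_lit 208) (nat_lit 153)) (XT.lf (nat_lit 0) (nat_lit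 35544964937) (nat_lit 76) (nat_lit 214759088996) (nat_lit 76) (nat_lit 209850651282) (nat_lit 1) (nat_lit 4) (nat_lit 2) (nat_lit 5) (nat_lit 2) (nat_lit 4) (nat_lit 360) (nat_lit 208) (nat_lit 152)))))) (XT.nd (nat_lit 32916) (nat_lit 0) (nat_lit 304) (XT.nd (nat_lit 156) (nat_lit 0) (nat_lit 0) (XT.nd (nat_lit 78) (nat_lit 0) (nat_lit 0) (XT.lf (nat_lit 0) (nat_lit 40016673263) (nat_lit 76) (nat_lit 223998174856) (nat_lit 76) (nat_lit 219073468720) (nat_lit 1) (nat_lit 4) (nat_lit 2) (nat_lit 5) (nat_lit 2) (nat_lit 4) (nat_lit 361) (nat_lit 208) (nat_lit 151)) (XT.lf (nat_lit 0) (nat_lit 44697503475) (nat_lit 76) (nat_lit 233705851665) (nat_lit 76) (nat_lit 228765651793) (nat_lit 1) (nat_lit 4) (nat_lit 2) (nat_lit 5) (nat_lit 2) (nat_lit 4) (nat_lit 362) (nat_lit 208) (nat_lit 150))) (XT.nd (nat_lit 78) (nat_lit 0) (nat_lit 0) (XT.lf (nat_lit 0) (nat_lit 49598600408) (nat_lit 76)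 (nat_lit 243905232937) (nat_lit 76) (nat_lit 238950277127) (nat_lit 1) (nat_lit 4) (nat_lit 2) (nat_lit 5) (nat_lit 2) (nat_lit 4) (nat_lit 363) (nat_lit 208) (nat_lit 149)) (XT.lf (nat_lit 0) (nat_lit 54731633338) (nat_lit 76) (nat_lit 254620602914) (nat_lit 76) (nat_lit 249651593829) (nat_lit 1) (nat_lit 4) (nat_lit 2) (nat_lit 5) (nat_lit 2) (nat_lit 4) (nat_lit 364) (nat_lit 208) (nat_lit 148)))) (XT.nd (nat_lit 156) (nat_lit 0) (nat_lit 0) (XT.nd (nat_lit 78) (nat_lit 152) (nat_lit 0) (XT.lf (nat_lit 0) (nat_lit 14250653358) (nat_lit 76) (nat_lit 284620214) (nat_lit 76) (nat_lit 284620214) (nat_lit 7) (nat_lit 4) (nat_lit 8) (nat_lit 5) (nat_lit 8) (nat_lit 4) (nat_lit 302) (nat_lit 209) (nat_lit 209)) (XT.lf (nat_lit 0) (nat_lit 2670682556) (nat_lit 152) (nat_lit 25876053884) (nat_lit 0) (nat_lit 2395053641) (nat_lit 5) (nat_lit 5) (nat_lit 7) (nat_lit 4) (nat_lit 5) (nat_lit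 4) (nat_lit 303) (nat_lit 209) (nat_lit 208))) (XT.nd (nat_lit 78) (nat_lit 0) (nat_lit 0) (XT.lf (nat_lit 0) (nat_lit 5970056509) (nat_lit 152) (nat_lit 20910727349) (nat_lit 0) (nat_lit 5431923865) (nat_lit 5) (nat_lit 5) (nat_lit 7) (nat_lit 4) (nat_lit 5) (nat_lit 4) (nat_lit 304) (nat_lit 209) (nat_lit 207)) (XT.nd (nat_lit 78) (nat_lit 0) (nat_lit 0) (XT.lf (nat_lit 0) (nat_lit 9327405271) (nat_lit 152) (nat_lit 15890952167) (nat_lit 0) (nat_lit 8539269076) (nat_lit 5) (nat_lit 5) (nat_lit 7) (nat_lit 4) (nat_lit 5) (nat_lit 4) (nat_lit 305) (nat_lit 209) (nat_lit 206)) (XT.lf (nat_lit 0) (nat_lit 12750722530) (nat_lit 152) (nat_lit 10804776491) (nat_lit 0) (nat_lit 11724487715) (nat_lit 5) (nat_lit 5) (nat_lit 7) (nat_lit 4) (nat_lit 5) (nat_lit 4) (nat_lit 306) (nat_lit 209) (nat_lit 205))))))))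
noncomputable def xc28 : XT := (XT.nd (nat_lit 1326) (nat_lit 0) (nat_lit 0) (XT.nd (nat_lit 624) (nat_lit 152) (nat_lit 0) (XT.nd (nat_lit 312) (nat_lit 0) (nat_lit 0) (XT.nd (nat_lit 156) (nat_lit 76) (nat_lit 0) (XT.nd (nat_lit 78) (nat_lit 0) (nat_lit 0) (XT.lf (nat_lit 0) (nat_lit 16248159042) (nat_lit 152) (nat_lit 5640090381) (nat_lit 0) (nat_lit 14995163635) (nat_lit 5) (nat_lit 5) (nat_lit 7) (nat_lit 4) (nat_lit 5) (nat_lit 4) (nat_lit 307) (nat_lit 209) (nat_lit 204)) (XT.lf (nat_lit 0) (nat_lit 19828042035) (nat_lit 152) (nat_lit 384596963) (nat_lit 0) (nat_lit 18359084162) (nat_lit 5) (nat_lit 5) (nat_lit 7) (nat_lit 4) (nat_lit 5) (nat_lit 4) (nat_lit 308) (nat_lit 209) (nat_lit 203))) (XT.nd (nat_lit 78) (nat_lit 0) (nat_lit 0) (XT.lf (nat_lit 0) (nat_lit 5138686913) (nat_lit 76) (nat_lit 18440437433) (nat_lit 76) (nat_lit 16765801019) (nat_lit 4) (nat_lit 4) (nat_lit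 5) (nat_lit 5) (nat_lit 5) (nat_lit 4) (nat_lit 309) (nat_lit 209) (nat_lit 202)) (XT.lf (nat_lit 0) (nat_lit 10794604880) (nat_lit 76) (nat_lit 16643387342) (nat_lit 76) (nat_lit 14772866604) (nat_lit 4) (nat_lit 4) (nat_lit 5) (nat_lit 5) (nat_lit 5) (nat_lit 4) (nat_lit 310) (nat_lit 209) (nat_lit 201)))) (XT.nd (nat_lit 156) (nat_lit 0) (nat_lit 0) (XT.nd (nat_lit 78) (nat_lit 0) (nat_lit 0) (XT.lf (nat_lit 0) (nat_lit 16583906897) (nat_lit 76) (nat_lit 14823723371) (nat_lit 76) (nat_lit 12766646134) (nat_lit 4) (nat_lit 4) (nat_lit 5) (nat_lit 5) (nat_lit 5) (nat_lit 4) (nat_lit 311) (nat_lit 209) (nat_lit 200)) (XT.lf (nat_lit 0) (nat_lit 22520377016) (nat_lit 76) (nat_lit 12977112986) (nat_lit 76) (nat_lit 10742362892) (nat_lit 4) (nat_lit 4) (nat_lit 5) (nat_lit 5) (nat_lit 5) (nat_lit 4) (nat_lit 312) (nat_lit 209) (nat_lit 199))) (XT.nd (nat_lit 78) (nat_lit 0) (nat_lit 0)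 (XT.lf (nat_lit 0) (nat_lit 28618149690) (nat_lit 76) (nat_lit 11099159496) (nat_lit 76) (nat_lit 8695197159) (nat_lit 4) (nat_lit 4) (nat_lit 5) (nat_lit 5) (nat_lit 5) (nat_lit 4) (nat_lit 313) (nat_lit 209) (nat_lit 198)) (XT.lf (nat_lit 0) (nat_lit 34891743425) (nat_lit 76) (nat_lit 9185391584) (nat_lit 76) (nat_lit 6620274728) (nat_lit 4) (nat_lit 4) (nat_lit 5) (nat_lit 5) (nat_lit 5) (nat_lit 4) (nat_lit 314) (nat_lit 209) (nat_lit 197))))) (XT.nd (nat_lit 312) (nat_lit 0) (nat_lit 0) (XT.nd (nat_lit 156) (nat_lit 152) (nat_lit 0) (XT.nd (nat_lit 78) (nat_lit 0) (nat_lit 0) (XT.lf (nat_lit 0) (nat_lit 41356095349) (nat_lit 76) (nat_lit 7231252659) (nat_lit 76) (nat_lit 4512655310) (nat_lit 4) (nat_lit 4) (nat_lit 5) (nat_lit 5) (nat_lit 5) (nat_lit 4) (nat_lit 315) (nat_lit 209) (nat_lit 196)) (XT.lf (nat_lit 0) (nat_lit 48026596776) (nat_lit 76) (nat_lit 5232090009) (nat_lit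 76) (nat_lit 2367320761) (nat_lit 4) (nat_lit 4) (nat_lit 5) (nat_lit 5) (nat_lit 5) (nat_lit 4) (nat_lit 316) (nat_lit 209) (nat_lit 195))) (XT.nd (nat_lit 78) (nat_lit 152) (nat_lit 0) (XT.lf (nat_lit 0) (nat_lit 54919129853) (nat_lit 76) (nat_lit 3183143724) (nat_lit 76) (nat_lit 179163144) (nat_lit 4) (nat_lit 4) (nat_lit 5) (nat_lit 5) (nat_lit 5) (nat_lit 4) (nat_lit 317) (nat_lit 209) (nat_lit 194)) (XT.lf (nat_lit 0) (nat_lit 976634523) (nat_lit 76) (nat_lit 1029803195) (nat_lit 152) (nat_lit 59063807372) (nat_lit 2) (nat_lit 5) (nat_lit 3) (nat_lit 5) (nat_lit 4) (nat_lit 4) (nat_lit 318) (nat_lit 209) (nat_lit 193)))) (XT.nd (nat_lit 156) (nat_lit 0) (nat_lit 0) (XT.nd (nat_lit 78) (nat_lit 0) (nat_lit 0) (XT.lf (nat_lit 0) (nat_lit 4313399603) (nat_lit 152) (nat_lit 58478152148) (nat_lit 0) (nat_lit 1205940953) (nat_lit 2) (nat_lit 5) (nat_lit 4) (nat_lit 4) (nat_lit 2) (nat_lit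 4) (nat_lit 319) (nat_lit 209) (nat_lit 192)) (XT.lf (nat_lit 0) (nat_lit 6696404659) (nat_lit 152) (nat_lit 56902295148) (nat_lit 0) (nat_lit 3474416501) (nat_lit 2) (nat_lit 5) (nat_lit 4) (nat_lit 4) (nat_lit 2) (nat_lit 4) (nat_lit 320) (nat_lit 209) (nat_lit 191))) (XT.nd (nat_lit 78) (nat_lit 0) (nat_lit 0) (XT.lf (nat_lit 0) (nat_lit 9145048594) (nat_lit 152) (nat_lit 55346209415) (nat_lit 0) (nat_lit 5813984715) (nat_lit 2) (nat_lit 5) (nat_lit 4) (nat_lit 4) (nat_lit 2) (nat_lit 4) (nat_lit 321) (nat_lit 209) (nat_lit 190)) (XT.nd (nat_lit 78) (nat_lit 0) (nat_lit 0) (XT.lf (nat_lit 0) (nat_lit 11665161512) (nat_lit 152) (nat_lit 53806189982) (nat_lit 0) (nat_lit 8230215994) (nat_lit 2) (nat_lit 5) (nat_lit 4) (nat_lit 4) (nat_lit 2) (nat_lit 4) (nat_lit 322) (nat_lit 209) (nat_lit 189)) (XT.lf (nat_lit 0) (nat_lit 14262743682) (nat_lit 152) (nat_lit 52278570135) (nat_lit 0)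 (nat_lit 10728863269) (nat_lit 2) (nat_lit 5) (nat_lit 4) (nat_lit 4) (nat_lit 2) (nat_lit 4) (nat_lit 323) (nat_lit 209) (nat_lit 188))))))) (XT.nd (nat_lit 702) (nat_lit 0) (nat_lit 0) (XT.nd (nat_lit 312) (nat_lit 0) (nat_lit 0) (XT.nd (nat_lit 156) (nat_lit 0) (nat_lit 0) (XT.nd (nat_lit 78) (nat_lit 0) (nat_lit 0) (XT.lf (nat_lit 0) (nat_lit 16943979825) (nat_lit 152) (nat_lit 50759712686) (nat_lit 0) (nat_lit 13315875703) (nat_lit 2) (nat_lit 5) (nat_lit 4) (nat_lit 4) (nat_lit 2) (nat_lit 4) (nat_lit 324) (nat_lit 209) (nat_lit 187)) (XT.lf (nat_lit 0) (nat_lit 19715253835) (nat_lit 152) (nat_lit 49246001307) (nat_lit 0) (nat_lit 15997412847) (nat_lit 2) (nat_lit 5) (nat_lit 4) (nat_lit 4) (nat_lit 2) (nat_lit 4) (nat_lit 325) (nat_lit 209) (nat_lit 186))) (XT.nd (nat_lit 78) (nat_lit 0) (nat_lit 0) (XT.lf (nat_lit 0) (nat_lit 22583163983) (nat_lit 152) (nat_lit 47733831923)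 (nat_lit 0) (nat_lit 18779859313) (nat_lit 2) (nat_lit 5) (nat_lit 4) (nat_lit 4) (nat_lit 2) (nat_lit 4) (nat_lit 326) (nat_lit 209) (nat_lit 185)) (XT.lf (nat_lit 0) (nat_lit 25554538628) (nat_lit 152) (nat_lit 46219604130) (nat_lit 0) (nat_lit 21669839976) (nat_lit 2) (nat_lit 5) (nat_lit 4) (nat_lit 4) (nat_lit 2) (nat_lit 4) (nat_lit 327) (nat_lit 209) (nat_lit 184)))) (XT.nd (nat_lit 156) (nat_lit 0) (nat_lit 0) (XT.nd (nat_lit 78) (nat_lit 0) (nat_lit 0) (XT.lf (nat_lit 0) (nat_lit 28636452471) (nat_lit 152) (nat_lit 44699712625) (nat_lit 0) (nat_lit 24674235740) (nat_lit 2) (nat_lit 5) (nat_lit 4) (nat_lit 4) (nat_lit 2) (nat_lit 4) (nat_lit 328) (nat_lit 209) (nat_lit 183)) (XT.lf (nat_lit 0) (nat_lit 31836243401) (nat_lit 152) (nat_lit 43170538618) (nat_lit 0) (nat_lit 27800199929) (nat_lit 2) (nat_lit 5) (nat_lit 4) (nat_lit 4) (nat_lit 2) (nat_lit 4) (nat_lit 329) (nat_lit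 209) (nat_lit 182))) (XT.nd (nat_lit 78) (nat_lit 0) (nat_lit 0) (XT.lf (nat_lit 0) (nat_lit 35161529970) (nat_lit 152) (nat_lit 41628441219) (nat_lit 0) (nat_lit 31055175315) (nat_lit 2) (nat_lit 5) (nat_lit 4) (nat_lit 4) (nat_lit 2) (nat_lit 4) (nat_lit 330) (nat_lit 209) (nat_lit 181)) (XT.nd (nat_lit 78) (nat_lit 0) (nat_lit 0) (XT.lf (nat_lit 0) (nat_lit 38620229525) (nat_lit 152) (nat_lit 40069748767) (nat_lit 0) (nat_lit 34446911839) (nat_lit 2) (nat_lit 5) (nat_lit 4) (nat_lit 4) (nat_lit 2) (nat_lit 4) (nat_lit 331) (nat_lit 209) (nat_lit 180)) (XT.lf (nat_lit 0) (nat_lit 42220577066) (nat_lit 152) (nat_lit 38490750090) (nat_lit 0) (nat_lit 37983485065) (nat_lit 2) (nat_lit 5) (nat_lit 4) (nat_lit 4) (nat_lit 2) (nat_lit 4) (nat_lit 332) (nat_lit 209) (nat_lit 179)))))) (XT.nd (nat_lit 312) (nat_lit 0) (nat_lit 0) (XT.nd (nat_lit 156) (nat_lit 0) (nat_lit 0) (XT.nd (nat_lit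 78) (nat_lit 0) (nat_lit 0) (XT.lf (nat_lit 0) (nat_lit 45971144849) (nat_lit 152) (nat_lit 36887685666) (nat_lit 0) (nat_lit 41673315405) (nat_lit 2) (nat_lit 5) (nat_lit 4) (nat_lit 4) (nat_lit 2) (nat_lit 4) (nat_lit 333) (nat_lit 209) (nat_lit 178)) (XT.lf (nat_lit 0) (nat_lit 49880862797) (nat_lit 152) (nat_lit 35256738677) (nat_lit 0) (nat_lit 45525188169) (nat_lit 2) (nat_lit 5) (nat_lit 4) (nat_lit 4) (nat_lit 2) (nat_lit 4) (nat_lit 334) (nat_lit 209) (nat_lit 177))) (XT.nd (nat_lit 78) (nat_lit 0) (nat_lit 0) (XT.lf (nat_lit 0) (nat_lit 53959039762) (nat_lit 152) (nat_lit 33594025915) (nat_lit 0) (nat_lit 49548274482) (nat_lit 2) (nat_lit 5) (nat_lit 4) (nat_lit 4) (nat_lit 2) (nat_lit 4) (nat_lit 335) (nat_lit 209) (nat_lit 176)) (XT.lf (nat_lit 0) (nat_lit 58215385689) (nat_lit 152) (nat_lit 31895588539) (nat_lit 0) (nat_lit 53752153123) (nat_lit 2) (nat_lit 5) (nat_lit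 4) (nat_lit 4) (nat_lit 2) (nat_lit 4) (nat_lit 336) (nat_lit 209) (nat_lit 175)))) (XT.nd (nat_lit 156) (nat_lit 0) (nat_lit 0) (XT.nd (nat_lit 78) (nat_lit 0) (nat_lit 0) (XT.lf (nat_lit 0) (nat_lit 62660034737) (nat_lit 152) (nat_lit 30157382652) (nat_lit 0) (nat_lit 58146833325) (nat_lit 2) (nat_lit 5) (nat_lit 4) (nat_lit 4) (nat_lit 2) (nat_lit 4) (nat_lit 337) (nat_lit 209) (nat_lit 174)) (XT.lf (nat_lit 0) (nat_lit 67303569401) (nat_lit 152) (nat_lit 28375269669) (nat_lit 0) (nat_lit 62742778614) (nat_lit 2) (nat_lit 5) (nat_lit 4) (nat_lit 4) (nat_lit 2) (nat_lit 4) (nat_lit 338) (nat_lit 209) (nat_lit 173))) (XT.nd (nat_lit 78) (nat_lit 0) (nat_lit 0) (XT.lf (nat_lit 0) (nat_lit 72157045717) (nat_lit 152) (nat_lit 26545006461) (nat_lit 0) (nat_lit 67550931715) (nat_lit 2) (nat_lit 5) (nat_lit 4) (nat_lit 4) (nat_lit 2) (nat_lit 4) (nat_lit 339) (nat_lit 209) (nat_lit 172))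 (XT.nd (nat_lit 78) (nat_lit 0) (nat_lit 0) (XT.lf (nat_lit 0) (nat_lit 77232019581) (nat_lit 152) (nat_lit 24662235262) (nat_lit 0) (nat_lit 72582740612) (nat_lit 2) (nat_lit 5) (nat_lit 4) (nat_lit 4) (nat_lit 2) (nat_lit 4) (nat_lit 340) (nat_lit 209) (nat_lit 171)) (XT.lf (nat_lit 0) (nat_lit 82540574265) (nat_lit 152) (nat_lit 22722473281) (nat_lit 0) (nat_lit 77850185804) (nat_lit 2) (nat_lit 5) (nat_lit 4) (nat_lit 4) (nat_lit 2) (nat_lit 4) (nat_lit 341) (nat_lit 209) (nat_lit 170))))))))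
noncomputable def xc29 : XT := (XT.nd (nat_lit 1326) (nat_lit 0) (nat_lit 0) (XT.nd (nat_lit 624) (nat_lit 76) (nat_lit 0) (XT.nd (nat_lit 312) (nat_lit 0) (nat_lit 0) (XT.nd (nat_lit 156) (nat_lit 0) (nat_lit 0) (XT.nd (nat_lit 78) (nat_lit 0) (nat_lit 0) (XT.lf (nat_lit 0) (nat_lit 88095349183) (nat_lit 152) (nat_lit 20721102038) (nat_lit 0) (nat_lit 83365808825) (nat_lit 2) (nat_lit 5) (nat_lit 4) (nat_lit 4) (nat_lit 2) (nat_lit 4) (nat_lit 342) (nat_lit 209) (nat_lit 169)) (XT.lf (nat_lit 0) (nat_lit 93909569992) (nat_lit 152) (nat_lit 18653356363) (nat_lit 0) (nat_lit 89142742112) (nat_lit 2) (nat_lit 5) (nat_lit 4) (nat_lit 4) (nat_lit 2) (nat_lit 4) (nat_lit 343) (nat_lit 209) (nat_lit 168))) (XT.nd (nat_lit 78) (nat_lit 0) (nat_lit 0) (XT.lf (nat_lit 0) (nat_lit 99997080073) (nat_lit 152) (nat_lit 16514313052) (nat_lit 0) (nat_lit 95194740268) (nat_lit 2) (nat_lit 5) (nat_lit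 4) (nat_lit 4) (nat_lit 2) (nat_lit 4) (nat_lit 344) (nat_lit 209) (nat_lit 167)) (XT.lf (nat_lit 0) (nat_lit 106372373498) (nat_lit 152) (nat_lit 14298879145) (nat_lit 0) (nat_lit 101536212812) (nat_lit 2) (nat_lit 5) (nat_lit 4) (nat_lit 4) (nat_lit 2) (nat_lit 4) (nat_lit 345) (nat_lit 209) (nat_lit 166)))) (XT.nd (nat_lit 156) (nat_lit 0) (nat_lit 0) (XT.nd (nat_lit 78) (nat_lit 0) (nat_lit 0) (XT.lf (nat_lit 0) (nat_lit 113050629537) (nat_lit 152) (nat_lit 12001779800) (nat_lit 0) (nat_lit 108182258488) (nat_lit 2) (nat_lit 5) (nat_lit 4) (nat_lit 4) (nat_lit 2) (nat_lit 4) (nat_lit 346) (nat_lit 209) (nat_lit 165)) (XT.lf (nat_lit 0) (nat_lit 120047748800) (nat_lit 152) (nat_lit 9617545732) (nat_lit 0) (nat_lit 115148701215) (nat_lit 2) (nat_lit 5) (nat_lit 4) (nat_lit 4) (nat_lit 2) (nat_lit 4) (nat_lit 347) (nat_lit 209) (nat_lit 164))) (XT.nd (nat_lit 78) (nat_lit 0) (nat_lit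 0) (XT.lf (nat_lit 0) (nat_lit 127380391094) (nat_lit 152) (nat_lit 7140500193) (nat_lit 0) (nat_lit 122452127761) (nat_lit 2) (nat_lit 5) (nat_lit 4) (nat_lit 4) (nat_lit 2) (nat_lit 4) (nat_lit 348) (nat_lit 209) (nat_lit 163)) (XT.lf (nat_lit 0) (nat_lit 135066015093) (nat_lit 152) (nat_lit 4564745456) (nat_lit 0) (nat_lit 130109927237) (nat_lit 2) (nat_lit 5) (nat_lit 4) (nat_lit 4) (nat_lit 2) (nat_lit 4) (nat_lit 349) (nat_lit 209) (nat_lit 162))))) (XT.nd (nat_lit 312) (nat_lit 0) (nat_lit 0) (XT.nd (nat_lit 156) (nat_lit 0) (nat_lit 0) (XT.nd (nat_lit 78) (nat_lit 76) (nat_lit 0) (XT.lf (nat_lit 0) (nat_lit 143122919900) (nat_lit 152) (nat_lit 1884148772) (nat_lit 0) (nat_lit 138140332499) (nat_lit 2) (nat_lit 5) (nat_lit 4) (nat_lit 4) (nat_lit 2) (nat_lit 4) (nat_lit 350) (nat_lit 209) (nat_lit 161)) (XT.lf (nat_lit 0) (nat_lit 937683975) (nat_lit 76) (nat_lit 150647244520)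 (nat_lit 76) (nat_lit 145639419457) (nat_lit 1) (nat_lit 4) (nat_lit 2) (nat_lit 5) (nat_lit 2) (nat_lit 4) (nat_lit 351) (nat_lit 209) (nat_lit 160))) (XT.nd (nat_lit 78) (nat_lit 0) (nat_lit 0) (XT.lf (nat_lit 0) (nat_lit 3943584069) (nat_lit 76) (nat_lit 156546220371) (nat_lit 76) (nat_lit 151514359440) (nat_lit 1) (nat_lit 4) (nat_lit 2) (nat_lit 5) (nat_lit 2) (nat_lit 4) (nat_lit 352) (nat_lit 209) (nat_lit 159)) (XT.lf (nat_lit 0) (nat_lit 7078409945) (nat_lit 76) (nat_lit 162749950376) (nat_lit 76) (nat_lit 157695198141) (nat_lit 1) (nat_lit 4) (nat_lit 2) (nat_lit 5) (nat_lit 2) (nat_lit 4) (nat_lit 353) (nat_lit 209) (nat_lit 158)))) (XT.nd (nat_lit 156) (nat_lit 0) (nat_lit 0) (XT.nd (nat_lit 78) (nat_lit 0) (nat_lit 0) (XT.lf (nat_lit 0) (nat_lit 10349625476) (nat_lit 76) (nat_lit 169273205321) (nat_lit 76) (nat_lit 164196651844) (nat_lit 1) (nat_lit 4) (nat_lit 2) (nat_lit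 5) (nat_lit 2) (nat_lit 4) (nat_lit 354) (nat_lit 209) (nat_lit 157)) (XT.lf (nat_lit 0) (nat_lit 13765019269) (nat_lit 76) (nat_lit 176131516764) (nat_lit 76) (nat_lit 171034200201) (nat_lit 1) (nat_lit 4) (nat_lit 2) (nat_lit 5) (nat_lit 2) (nat_lit 4) (nat_lit 355) (nat_lit 209) (nat_lit 156))) (XT.nd (nat_lit 78) (nat_lit 0) (nat_lit 0) (XT.lf (nat_lit 0) (nat_lit 17332723214) (nat_lit 76) (nat_lit 183341214020) (nat_lit 76) (nat_lit 178224123088) (nat_lit 1) (nat_lit 4) (nat_lit 2) (nat_lit 5) (nat_lit 2) (nat_lit 4) (nat_lit 356) (nat_lit 209) (nat_lit 155)) (XT.nd (nat_lit 78) (nat_lit 0) (nat_lit 0) (XT.lf (nat_lit 0) (nat_lit 21061231845) (nat_lit 76) (nat_lit 190919463033) (nat_lit 76) (nat_lit 185783539369) (nat_lit 1) (nat_lit 4) (nat_lit 2) (nat_lit 5) (nat_lit 2) (nat_lit 4) (nat_lit 357) (nat_lit 209) (nat_lit 154)) (XT.lf (nat_lit 0) (nat_lit 24959422563) (nat_lit 76)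 (nat_lit 198884307255) (nat_lit 76) (nat_lit 193730447655) (nat_lit 1) (nat_lit 4) (nat_lit 2) (nat_lit 5) (nat_lit 2) (nat_lit 4) (nat_lit 358) (nat_lit 209) (nat_lit 153))))))) (XT.nd (nat_lit 33150) (nat_lit 0) (nat_lit 228) (XT.nd (nat_lit 312) (nat_lit 0) (nat_lit 0) (XT.nd (nat_lit 156) (nat_lit 0) (nat_lit 0) (XT.nd (nat_lit 78) (nat_lit 0) (nat_lit 0) (XT.lf (nat_lit 0) (nat_lit 29036576775) (nat_lit 76) (nat_lit 207254710599) (nat_lit 76) (nat_lit 202083769156) (nat_lit 1) (nat_lit 4) (nat_lit 2) (nat_lit 5) (nat_lit 2) (nat_lit 4) (nat_lit 359) (nat_lit 209) (nat_lit 152)) (XT.lf (nat_lit 0) (nat_lit 33302401990) (nat_lit 76) (nat_lit 216050602597) (nat_lit 76) (nat_lit 210863392733) (nat_lit 1) (nat_lit 4) (nat_lit 2) (nat_lit 5) (nat_lit 2) (nat_lit 4) (nat_lit 360) (nat_lit 209) (nat_lit 151))) (XT.nd (nat_lit 78) (nat_lit 0) (nat_lit 0) (XT.lf (nat_lit 0) (nat_lit 37767054936)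 (nat_lit 76) (nat_lit 225292925851) (nat_lit 76) (nat_lit 220090222251) (nat_lit 1) (nat_lit 4) (nat_lit 2) (nat_lit 5) (nat_lit 2) (nat_lit 4) (nat_lit 361) (nat_lit 209) (nat_lit 150)) (XT.lf (nat_lit 0) (nat_lit 42441165738) (nat_lit 76) (nat_lit 235003685890) (nat_lit 76) (nat_lit 229786226351) (nat_lit 1) (nat_lit 4) (nat_lit 2) (nat_lit 5) (nat_lit 2) (nat_lit 4) (nat_lit 362) (nat_lit 209) (nat_lit 149)))) (XT.nd (nat_lit 32604) (nat_lit 0) (nat_lit 456) (XT.nd (nat_lit 78) (nat_lit 0) (nat_lit 0) (XT.lf (nat_lit 0) (nat_lit 47335863232) (nat_lit 76) (nat_lit 245206003572) (nat_lit 76) (nat_lit 239974490759) (nat_lit 1) (nat_lit 4) (nat_lit 2) (nat_lit 5) (nat_lit 2) (nat_lit 4) (nat_lit 363) (nat_lit 209) (nat_lit 148)) (XT.lf (nat_lit 0) (nat_lit 52462801459) (nat_lit 76) (nat_lit 255924170130) (nat_lit 76) (nat_lit 250679273246) (nat_lit 1) (nat_lit 4) (nat_lit 2) (nat_lit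 5) (nat_lit 2) (nat_lit 4) (nat_lit 364) (nat_lit 209) (nat_lit 147))) (XT.nd (nat_lit 78) (nat_lit 0) (nat_lit 0) (XT.lf (nat_lit 0) (nat_lit 7107511773) (nat_lit 76) (nat_lit 3250581500) (nat_lit 76) (nat_lit 3250581500) (nat_lit 7) (nat_lit 4) (nat_lit 8) (nat_lit 5) (nat_lit 8) (nat_lit 4) (nat_lit 300) (nat_lit 210) (nat_lit 210)) (XT.nd (nat_lit 78) (nat_lit 0) (nat_lit 0) (XT.lf (nat_lit 0) (nat_lit 21233570774) (nat_lit 76) (nat_lit 3733957860) (nat_lit 76) (nat_lit 3430076981) (nat_lit 7) (nat_lit 4) (nat_lit 8) (nat_lit 5) (nat_lit 8) (nat_lit 4) (nat_lit 301) (nat_lit 210) (nat_lit 209)) (XT.lf (nat_lit 0) (nat_lit 28404412768) (nat_lit 76) (nat_lit 915720207) (nat_lit 76) (nat_lit 322428967) (nat_lit 7) (nat_lit 4) (nat_lit 8) (nat_lit 5) (nat_lit 8) (nat_lit 4) (nat_lit 302) (nat_lit 210) (nat_lit 208)))))) (XT.nd (nat_lit 312) (nat_lit 76) (nat_lit 0) (XT.nd (nat_lit 156)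 (nat_lit 0) (nat_lit 0) (XT.nd (nat_lit 78) (nat_lit 0) (nat_lit 0) (XT.lf (nat_lit 0) (nat_lit 2847749334) (nat_lit 152) (nat_lit 26079562448) (nat_lit 0) (nat_lit 2020206329) (nat_lit 5) (nat_lit 5) (nat_lit 7) (nat_lit 4) (nat_lit 5) (nat_lit 4) (nat_lit 303) (nat_lit 210) (nat_lit 207)) (XT.lf (nat_lit 0) (nat_lit 6094931147) (nat_lit 152) (nat_lit 21208781122) (nat_lit 0) (nat_lit 5017384590) (nat_lit 5) (nat_lit 5) (nat_lit 7) (nat_lit 4) (nat_lit 5) (nat_lit 4) (nat_lit 304) (nat_lit 210) (nat_lit 206))) (XT.nd (nat_lit 78) (nat_lit 0) (nat_lit 0) (XT.lf (nat_lit 0) (nat_lit 9402573108) (nat_lit 152) (nat_lit 16279048996) (nat_lit 0) (nat_lit 8086927932) (nat_lit 5) (nat_lit 5) (nat_lit 7) (nat_lit 4) (nat_lit 5) (nat_lit 4) (nat_lit 305) (nat_lit 210) (nat_lit 205)) (XT.lf (nat_lit 0) (nat_lit 12778550557) (nat_lit 152) (nat_lit 11278628613) (nat_lit 0) (nat_lit 11236144790)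 (nat_lit 5) (nat_lit 5) (nat_lit 7) (nat_lit 4) (nat_lit 5) (nat_lit 4) (nat_lit 306) (nat_lit 210) (nat_lit 204)))) (XT.nd (nat_lit 156) (nat_lit 76) (nat_lit 0) (XT.nd (nat_lit 78) (nat_lit 0) (nat_lit 0) (XT.lf (nat_lit 0) (nat_lit 16230901536) (nat_lit 152) (nat_lit 6195614209) (nat_lit 0) (nat_lit 14472533301) (nat_lit 5) (nat_lit 5) (nat_lit 7) (nat_lit 4) (nat_lit 5) (nat_lit 4) (nat_lit 307) (nat_lit 210) (nat_lit 203)) (XT.lf (nat_lit 0) (nat_lit 19767845926) (nat_lit 152) (nat_lit 1017903369) (nat_lit 0) (nat_lit 17803799151) (nat_lit 5) (nat_lit 5) (nat_lit 7) (nat_lit 4) (nat_lit 5) (nat_lit 4) (nat_lit 308) (nat_lit 210) (nat_lit 202))) (XT.nd (nat_lit 78) (nat_lit 0) (nat_lit 0) (XT.lf (nat_lit 0) (nat_lit 4407912517) (nat_lit 76) (nat_lit 19058712376) (nat_lit 76) (nat_lit 16898781277) (nat_lit 4) (nat_lit 4) (nat_lit 5) (nat_lit 5) (nat_lit 5) (nat_lit 4) (nat_lit 309)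 (nat_lit 210) (nat_lit 201)) (XT.nd (nat_lit 78) (nat_lit 0) (nat_lit 0) (XT.lf (nat_lit 0) (nat_lit 9990946656) (nat_lit 76) (nat_lit 17294461614) (nat_lit 76) (nat_lit 14947974015) (nat_lit 4) (nat_lit 4) (nat_lit 5) (nat_lit 5) (nat_lit 5) (nat_lit 4) (nat_lit 310) (nat_lit 210) (nat_lit 200)) (XT.lf (nat_lit 0) (nat_lit 15710835502) (nat_lit 76) (nat_lit 15506035098) (nat_lit 76) (nat_lit 12981874644) (nat_lit 4) (nat_lit 4) (nat_lit 5) (nat_lit 5) (nat_lit 5) (nat_lit 4) (nat_lit 311) (nat_lit 210) (nat_lit 199))))))))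
noncomputable def xc30 : XT := (XT.nd (nat_lit 1326) (nat_lit 0) (nat_lit 0) (XT.nd (nat_lit 624) (nat_lit 0) (nat_lit 0) (XT.nd (nat_lit 312) (nat_lit 152) (nat_lit 0) (XT.nd (nat_lit 156) (nat_lit 0) (nat_lit 0) (XT.nd (nat_lit 78) (nat_lit 0) (nat_lit 0) (XT.lf (nat_lit 0) (nat_lit 21581197841) (nat_lit 76) (nat_lit 13689174672) (nat_lit 76) (nat_lit 10995801973) (nat_lit 4) (nat_lit 4) (nat_lit 5) (nat_lit 5) (nat_lit 5) (nat_lit 4) (nat_lit 312) (nat_lit 210) (nat_lit 198)) (XT.lf (nat_lit 0) (nat_lit 27616010723) (nat_lit 76) (nat_lit 11839554476) (nat_lit 76) (nat_lit 8985027259) (nat_lit 4) (nat_lit 4) (nat_lit 5) (nat_lit 5) (nat_lit 5) (nat_lit 4) (nat_lit 313) (nat_lit 210) (nat_lit 197))) (XT.nd (nat_lit 78) (nat_lit 0) (nat_lit 0) (XT.lf (nat_lit 0) (nat_lit 33829642752) (nat_lit 76) (nat_lit 9952770653) (nat_lit 76) (nat_lit 6944762942) (nat_lit 4) (nat_lit 4) (nat_lit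 5) (nat_lit 5) (nat_lit 5) (nat_lit 4) (nat_lit 314) (nat_lit 210) (nat_lit 196)) (XT.lf (nat_lit 0) (nat_lit 40236888289) (nat_lit 76) (nat_lit 8024330860) (nat_lit 76) (nat_lit 4870151251) (nat_lit 4) (nat_lit 4) (nat_lit 5) (nat_lit 5) (nat_lit 5) (nat_lit 4) (nat_lit 315) (nat_lit 210) (nat_lit 195)))) (XT.nd (nat_lit 156) (nat_lit 152) (nat_lit 0) (XT.nd (nat_lit 78) (nat_lit 0) (nat_lit 0) (XT.lf (nat_lit 0) (nat_lit 46853002681) (nat_lit 76) (nat_lit 6049643575) (nat_lit 76) (nat_lit 2756252633) (nat_lit 4) (nat_lit 4) (nat_lit 5) (nat_lit 5) (nat_lit 5) (nat_lit 4) (nat_lit 316) (nat_lit 210) (nat_lit 194)) (XT.lf (nat_lit 0) (nat_lit 53693738581) (nat_lit 76) (nat_lit 4024007160) (nat_lit 76) (nat_lit 598033998) (nat_lit 4) (nat_lit 4) (nat_lit 5) (nat_lit 5) (nat_lit 5) (nat_lit 4) (nat_lit 317) (nat_lit 210) (nat_lit 193))) (XT.nd (nat_lit 78) (nat_lit 76) (nat_lit 0) (XT.lf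 (nat_lit 0) (nat_lit 1558124634) (nat_lit 152) (nat_lit 358086443) (nat_lit 76) (nat_lit 59190871226) (nat_lit 3) (nat_lit 5) (nat_lit 5) (nat_lit 5) (nat_lit 4) (nat_lit 4) (nat_lit 318) (nat_lit 210) (nat_lit 192)) (XT.lf (nat_lit 0) (nat_lit 3817968673) (nat_lit 152) (nat_lit 59898389128) (nat_lit 0) (nat_lit 320351600) (nat_lit 2) (nat_lit 5) (nat_lit 4) (nat_lit 4) (nat_lit 2) (nat_lit 4) (nat_lit 319) (nat_lit 210) (nat_lit 191))))) (XT.nd (nat_lit 312) (nat_lit 0) (nat_lit 0) (XT.nd (nat_lit 156) (nat_lit 0) (nat_lit 0) (XT.nd (nat_lit 78) (nat_lit 0) (nat_lit 0) (XT.lf (nat_lit 0) (nat_lit 6174870620) (nat_lit 152) (nat_lit 58370612185) (nat_lit 0) (nat_lit 2568177825) (nat_lit 2) (nat_lit 5) (nat_lit 4) (nat_lit 4) (nat_lit 2) (nat_lit 4) (nat_lit 320) (nat_lit 210) (nat_lit 190)) (XT.lf (nat_lit 0) (nat_lit 8598654450) (nat_lit 152) (nat_lit 56860316982) (nat_lit 0) (nat_lit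 4888080017) (nat_lit 2) (nat_lit 5) (nat_lit 4) (nat_lit 4) (nat_lit 2) (nat_lit 4) (nat_lit 321) (nat_lit 210) (nat_lit 189))) (XT.nd (nat_lit 78) (nat_lit 0) (nat_lit 0) (XT.lf (nat_lit 0) (nat_lit 11095091079) (nat_lit 152) (nat_lit 55363907577) (nat_lit 0) (nat_lit 7285581751) (nat_lit 2) (nat_lit 5) (nat_lit 4) (nat_lit 4) (nat_lit 2) (nat_lit 4) (nat_lit 322) (nat_lit 210) (nat_lit 188)) (XT.lf (nat_lit 0) (nat_lit 13670124402) (nat_lit 152) (nat_lit 53877821092) (nat_lit 0) (nat_lit 9766391365) (nat_lit 2) (nat_lit 5) (nat_lit 4) (nat_lit 4) (nat_lit 2) (nat_lit 4) (nat_lit 323) (nat_lit 210) (nat_lit 187)))) (XT.nd (nat_lit 156) (nat_lit 0) (nat_lit 0) (XT.nd (nat_lit 78) (nat_lit 0) (nat_lit 0) (XT.lf (nat_lit 0) (nat_lit 16329885452) (nat_lit 152) (nat_lit 52398519224) (nat_lit 0) (nat_lit 12336415549) (nat_lit 2) (nat_lit 5) (nat_lit 4) (nat_lit 4) (nat_lit 2) (nat_lit 4)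 (nat_lit 324) (nat_lit 210) (nat_lit 186)) (XT.lf (nat_lit 0) (nat_lit 19080706993) (nat_lit 152) (nat_lit 50922479827) (nat_lit 0) (nat_lit 15001773408) (nat_lit 2) (nat_lit 5) (nat_lit 4) (nat_lit 4) (nat_lit 2) (nat_lit 4) (nat_lit 325) (nat_lit 210) (nat_lit 185))) (XT.nd (nat_lit 78) (nat_lit 0) (nat_lit 0) (XT.lf (nat_lit 0) (nat_lit 21929138599) (nat_lit 152) (nat_lit 49446188522) (nat_lit 0) (nat_lit 17768811032) (nat_lit 2) (nat_lit 5) (nat_lit 4) (nat_lit 4) (nat_lit 2) (nat_lit 4) (nat_lit 326) (nat_lit 210) (nat_lit 184)) (XT.nd (nat_lit 78) (nat_lit 0) (nat_lit 0) (XT.lf (nat_lit 0) (nat_lit 24881962252) (nat_lit 152) (nat_lit 47966130328) (nat_lit 0) (nat_lit 20644116606) (nat_lit 2) (nat_lit 5) (nat_lit 4) (nat_lit 4) (nat_lit 2) (nat_lit 4) (nat_lit 327) (nat_lit 210) (nat_lit 183)) (XT.lf (nat_lit 0) (nat_lit 27946208483) (nat_lit 152) (nat_lit 46478781297) (nat_lit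 0) (nat_lit 23634536095) (nat_lit 2) (nat_lit 5) (nat_lit 4) (nat_lit 4) (nat_lit 2) (nat_lit 4) (nat_lit 328) (nat_lit 210) (nat_lit 182))))))) (XT.nd (nat_lit 702) (nat_lit 0) (nat_lit 0) (XT.nd (nat_lit 312) (nat_lit 0) (nat_lit 0) (XT.nd (nat_lit 156) (nat_lit 0) (nat_lit 0) (XT.nd (nat_lit 78) (nat_lit 0) (nat_lit 0) (XT.lf (nat_lit 0) (nat_lit 31129173117) (nat_lit 152) (nat_lit 44980600124) (nat_lit 0) (nat_lit 26747189546) (nat_lit 2) (nat_lit 5) (nat_lit 4) (nat_lit 4) (nat_lit 2) (nat_lit 4) (nat_lit 329) (nat_lit 210) (nat_lit 181)) (XT.lf (nat_lit 0) (nat_lit 34438434640) (nat_lit 152) (nat_lit 43468019708) (nat_lit 0) (nat_lit 29989488039) (nat_lit 2) (nat_lit 5) (nat_lit 4) (nat_lit 4) (nat_lit 2) (nat_lit 4) (nat_lit 330) (nat_lit 210) (nat_lit 180))) (XT.nd (nat_lit 78) (nat_lit 0) (nat_lit 0) (XT.lf (nat_lit 0) (nat_lit 37881872248) (nat_lit 152) (nat_lit 41937438670)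 (nat_lit 0) (nat_lit 33369151332) (nat_lit 2) (nat_lit 5) (nat_lit 4) (nat_lit 4) (nat_lit 2) (nat_lit 4) (nat_lit 331) (nat_lit 210) (nat_lit 179)) (XT.lf (nat_lit 0) (nat_lit 41467684601) (nat_lit 152) (nat_lit 40385212767) (nat_lit 0) (nat_lit 36894226242) (nat_lit 2) (nat_lit 5) (nat_lit 4) (nat_lit 4) (nat_lit 2) (nat_lit 4) (nat_lit 332) (nat_lit 210) (nat_lit 178)))) (XT.nd (nat_lit 156) (nat_lit 0) (nat_lit 0) (XT.nd (nat_lit 78) (nat_lit 0) (nat_lit 0) (XT.lf (nat_lit 0) (nat_lit 45204409348) (nat_lit 152) (nat_lit 38807646224) (nat_lit 0) (nat_lit 40573105805) (nat_lit 2) (nat_lit 5) (nat_lit 4) (nat_lit 4) (nat_lit 2) (nat_lit 4) (nat_lit 333) (nat_lit 210) (nat_lit 177)) (XT.lf (nat_lit 0) (nat_lit 49100943452) (nat_lit 152) (nat_lit 37200982931) (nat_lit 0) (nat_lit 44414549257) (nat_lit 2) (nat_lit 5) (nat_lit 4) (nat_lit 4) (nat_lit 2) (nat_lit 4) (nat_lit 334) (nat_lit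 210) (nat_lit 176))) (XT.nd (nat_lit 78) (nat_lit 0) (nat_lit 0) (XT.lf (nat_lit 0) (nat_lit 53166564375) (nat_lit 152) (nat_lit 35561397498) (nat_lit 0) (nat_lit 48427702894) (nat_lit 2) (nat_lit 5) (nat_lit 4) (nat_lit 4) (nat_lit 2) (nat_lit 4) (nat_lit 335) (nat_lit 210) (nat_lit 175)) (XT.nd (nat_lit 78) (nat_lit 0) (nat_lit 0) (XT.lf (nat_lit 0) (nat_lit 57410952168) (nat_lit 152) (nat_lit 33884986150) (nat_lit 0) (nat_lit 52622121841) (nat_lit 2) (nat_lit 5) (nat_lit 4) (nat_lit 4) (nat_lit 2) (nat_lit 4) (nat_lit 336) (nat_lit 210) (nat_lit 174)) (XT.lf (nat_lit 0) (nat_lit 61844212515) (nat_lit 152) (nat_lit 32167757433) (nat_lit 0) (nat_lit 57007792812) (nat_lit 2) (nat_lit 5) (nat_lit 4) (nat_lit 4) (nat_lit 2) (nat_lit 4) (nat_lit 337) (nat_lit 210) (nat_lit 173)))))) (XT.nd (nat_lit 312) (nat_lit 0) (nat_lit 0) (XT.nd (nat_lit 156) (nat_lit 0) (nat_lit 0) (XT.nd (nat_lit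 78) (nat_lit 0) (nat_lit 0) (XT.lf (nat_lit 0) (nat_lit 66476900798) (nat_lit 152) (nat_lit 30405622706) (nat_lit 0) (nat_lit 61595157880) (nat_lit 2) (nat_lit 5) (nat_lit 4) (nat_lit 4) (nat_lit 2) (nat_lit 4) (nat_lit 338) (nat_lit 210) (nat_lit 172)) (XT.lf (nat_lit 0) (nat_lit 71320047227) (nat_lit 152) (nat_lit 28594386410) (nat_lit 0) (nat_lit 66395139343) (nat_lit 2) (nat_lit 5) (nat_lit 4) (nat_lit 4) (nat_lit 2) (nat_lit 4) (nat_lit 339) (nat_lit 210) (nat_lit 171))) (XT.nd (nat_lit 78) (nat_lit 0) (nat_lit 0) (XT.lf (nat_lit 0) (nat_lit 76385183104) (nat_lit 152) (nat_lit 26729736078) (nat_lit 0) (nat_lit 71419165728) (nat_lit 2) (nat_lit 5) (nat_lit 4) (nat_lit 4) (nat_lit 2) (nat_lit 4) (nat_lit 340) (nat_lit 210) (nat_lit 170)) (XT.lf (nat_lit 0) (nat_lit 81684368276) (nat_lit 152) (nat_lit 24807232066) (nat_lit 0) (nat_lit 76679199002) (nat_lit 2) (nat_lit 5) (nat_lit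 4) (nat_lit 4) (nat_lit 2) (nat_lit 4) (nat_lit 341) (nat_lit 210) (nat_lit 169)))) (XT.nd (nat_lit 156) (nat_lit 0) (nat_lit 0) (XT.nd (nat_lit 78) (nat_lit 0) (nat_lit 0) (XT.lf (nat_lit 0) (nat_lit 87230219850) (nat_lit 152) (nat_lit 22822296984) (nat_lit 0) (nat_lit 82187763055) (nat_lit 2) (nat_lit 5) (nat_lit 4) (nat_lit 4) (nat_lit 2) (nat_lit 4) (nat_lit 342) (nat_lit 210) (nat_lit 168)) (XT.lf (nat_lit 0) (nat_lit 93035942235) (nat_lit 152) (nat_lit 20770204796) (nat_lit 0) (nat_lit 87957973515) (nat_lit 2) (nat_lit 5) (nat_lit 4) (nat_lit 4) (nat_lit 2) (nat_lit 4) (nat_lit 343) (nat_lit 210) (nat_lit 167))) (XT.nd (nat_lit 78) (nat_lit 0) (nat_lit 0) (XT.lf (nat_lit 0) (nat_lit 99115358579) (nat_lit 152) (nat_lit 18646069568) (nat_lit 0) (nat_lit 94003568978) (nat_lit 2) (nat_lit 5) (nat_lit 4) (nat_lit 4) (nat_lit 2) (nat_lit 4) (nat_lit 344) (nat_lit 210) (nat_lit 166))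 (XT.nd (nat_lit 78) (nat_lit 0) (nat_lit 0) (XT.lf (nat_lit 0) (nat_lit 105482943684) (nat_lit 152) (nat_lit 16444833835) (nat_lit 0) (nat_lit 100338943720) (nat_lit 2) (nat_lit 5) (nat_lit 4) (nat_lit 4) (nat_lit 2) (nat_lit 4) (nat_lit 345) (nat_lit 210) (nat_lit 165)) (XT.lf (nat_lit 0) (nat_lit 112153858465) (nat_lit 152) (nat_lit 14161256560) (nat_lit 0) (nat_lit 106979181966) (nat_lit 2) (nat_lit 5) (nat_lit 4) (nat_lit 4) (nat_lit 2) (nat_lit 4) (nat_lit 346) (nat_lit 210) (nat_lit 164))))))))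
noncomputable def xc31 : XT := (XT.nd (nat_lit 33696) (nat_lit 0) (nat_lit 228) (XT.nd (nat_lit 702) (nat_lit 0) (nat_lit 0) (XT.nd (nat_lit 312) (nat_lit 76) (nat_lit 0) (XT.nd (nat_lit 156) (nat_lit 0) (nat_lit 0) (XT.nd (nat_lit 78) (nat_lit 0) (nat_lit 0) (XT.lf (nat_lit 0) (nat_lit 119143986055) (nat_lit 152) (nat_lit 11789900654) (nat_lit 0) (nat_lit 113940093806) (nat_lit 2) (nat_lit 5) (nat_lit 4) (nat_lit 4) (nat_lit 2) (nat_lit 4) (nat_lit 347) (nat_lit 210) (nat_lit 163)) (XT.lf (nat_lit 0) (nat_lit 126469969612) (nat_lit 152) (nat_lit 9325120032) (nat_lit 0) (nat_lit 121238252841) (nat_lit 2) (nat_lit 5) (nat_lit 4) (nat_lit 4) (nat_lit 2) (nat_lit 4) (nat_lit 348) (nat_lit 210) (nat_lit 162))) (XT.nd (nat_lit 78) (nat_lit 0) (nat_lit 0) (XT.lf (nat_lit 0) (nat_lit 134149251956) (nat_lit 152) (nat_lit 6761046168) (nat_lit 0) (nat_lit 128891035640) (nat_lit 2) (nat_lit 5)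 (nat_lit 4) (nat_lit 4) (nat_lit 2) (nat_lit 4) (nat_lit 349) (nat_lit 210) (nat_lit 161)) (XT.lf (nat_lit 0) (nat_lit 142200117092) (nat_lit 152) (nat_lit 4091574124) (nat_lit 0) (nat_lit 136916663114) (nat_lit 2) (nat_lit 5) (nat_lit 4) (nat_lit 4) (nat_lit 2) (nat_lit 4) (nat_lit 350) (nat_lit 210) (nat_lit 160)))) (XT.nd (nat_lit 156) (nat_lit 0) (nat_lit 0) (XT.nd (nat_lit 78) (nat_lit 76) (nat_lit 0) (XT.lf (nat_lit 0) (nat_lit 150641733747) (nat_lit 152) (nat_lit 1310348015) (nat_lit 0) (nat_lit 145334243900) (nat_lit 2) (nat_lit 5) (nat_lit 4) (nat_lit 4) (nat_lit 2) (nat_lit 4) (nat_lit 351) (nat_lit 210) (nat_lit 159)) (XT.lf (nat_lit 0) (nat_lit 1641802043) (nat_lit 76) (nat_lit 157878032094) (nat_lit 76) (nat_lit 152547650944) (nat_lit 1) (nat_lit 4) (nat_lit 2) (nat_lit 5) (nat_lit 2) (nat_lit 4) (nat_lit 352) (nat_lit 210) (nat_lit 158))) (XT.nd (nat_lit 78) (nat_lit 0)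 (nat_lit 0) (XT.lf (nat_lit 0) (nat_lit 4766700290) (nat_lit 76) (nat_lit 164086317436) (nat_lit 76) (nat_lit 158734135044) (nat_lit 1) (nat_lit 4) (nat_lit 2) (nat_lit 5) (nat_lit 2) (nat_lit 4) (nat_lit 353) (nat_lit 210) (nat_lit 157)) (XT.nd (nat_lit 78) (nat_lit 0) (nat_lit 0) (XT.lf (nat_lit 0) (nat_lit 8028460936) (nat_lit 76) (nat_lit 170613910796) (nat_lit 76) (nat_lit 165240965317) (nat_lit 1) (nat_lit 4) (nat_lit 2) (nat_lit 5) (nat_lit 2) (nat_lit 4) (nat_lit 354) (nat_lit 210) (nat_lit 156)) (XT.lf (nat_lit 0) (nat_lit 11434850077) (nat_lit 76) (nat_lit 177476354064) (nat_lit 76) (nat_lit 172083634216) (nat_lit 1) (nat_lit 4) (nat_lit 2) (nat_lit 5) (nat_lit 2) (nat_lit 4) (nat_lit 355) (nat_lit 210) (nat_lit 155)))))) (XT.nd (nat_lit 312) (nat_lit 0) (nat_lit 0) (XT.nd (nat_lit 156) (nat_lit 0) (nat_lit 0) (XT.nd (nat_lit 78) (nat_lit 0) (nat_lit 0) (XT.lf (nat_lit 0)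 (nat_lit 14993978163) (nat_lit 76) (nat_lit 184689986390) (nat_lit 76) (nat_lit 179278433810) (nat_lit 1) (nat_lit 4) (nat_lit 2) (nat_lit 5) (nat_lit 2) (nat_lit 4) (nat_lit 356) (nat_lit 210) (nat_lit 154)) (XT.lf (nat_lit 0) (nat_lit 18714319309) (nat_lit 76) (nat_lit 192271983090) (nat_lit 76) (nat_lit 186842494575) (nat_lit 1) (nat_lit 4) (nat_lit 2) (nat_lit 5) (nat_lit 2) (nat_lit 4) (nat_lit 357) (nat_lit 210) (nat_lit 153))) (XT.nd (nat_lit 78) (nat_lit 0) (nat_lit 0) (XT.lf (nat_lit 0) (nat_lit 22604731469) (nat_lit 76) (nat_lit 200240396537) (nat_lit 76) (nat_lit 194793826179) (nat_lit 1) (nat_lit 4) (nat_lit 2) (nat_lit 5) (nat_lit 2) (nat_lit 4) (nat_lit 358) (nat_lit 210) (nat_lit 152)) (XT.lf (nat_lit 0) (nat_lit 26674477532) (nat_lit 76) (nat_lit 208614199143) (nat_lit 76) (nat_lit 203151360363) (nat_lit 1) (nat_lit 4) (nat_lit 2) (nat_lit 5) (nat_lit 2) (nat_lit 4)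 (nat_lit 359) (nat_lit 210) (nat_lit 151)))) (XT.nd (nat_lit 156) (nat_lit 0) (nat_lit 0) (XT.nd (nat_lit 78) (nat_lit 0) (nat_lit 0) (XT.lf (nat_lit 0) (nat_lit 30933247366) (nat_lit 76) (nat_lit 217413328534) (nat_lit 76) (nat_lit 211934996019) (nat_lit 1) (nat_lit 4) (nat_lit 2) (nat_lit 5) (nat_lit 2) (nat_lit 4) (nat_lit 360) (nat_lit 210) (nat_lit 150)) (XT.lf (nat_lit 0) (nat_lit 35391180902) (nat_lit 76) (nat_lit 226658735018) (nat_lit 76) (nat_lit 221165646564) (nat_lit 1) (nat_lit 4) (nat_lit 2) (nat_lit 5) (nat_lit 2) (nat_lit 4) (nat_lit 361) (nat_lit 210) (nat_lit 149))) (XT.nd (nat_lit 78) (nat_lit 0) (nat_lit 0) (XT.lf (nat_lit 0) (nat_lit 40058892266) (nat_lit 76) (nat_lit 236372431467) (nat_lit 76) (nat_lit 230865289739) (nat_lit 1) (nat_lit 4) (nat_lit 2) (nat_lit 5) (nat_lit 2) (nat_lit 4) (nat_lit 362) (nat_lit 210) (nat_lit 148)) (XT.nd (nat_lit 78) (nat_lit 0)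 (nat_lit 0) (XT.lf (nat_lit 0) (nat_lit 44947495056) (nat_lit 76) (nat_lit 246577545731) (nat_lit 76) (nat_lit 241057019932) (nat_lit 1) (nat_lit 4) (nat_lit 2) (nat_lit 5) (nat_lit 2) (nat_lit 4) (nat_lit 363) (nat_lit 210) (nat_lit 147)) (XT.lf (nat_lit 0) (nat_lit 50068628804) (nat_lit 76) (nat_lit 257298375700) (nat_lit 76) (nat_lit 251765103167) (nat_lit 1) (nat_lit 4) (nat_lit 2) (nat_lit 5) (nat_lit 2) (nat_lit 4) (nat_lit 364) (nat_lit 210) (nat_lit 146))))))) (XT.nd (nat_lit 702) (nat_lit 76) (nat_lit 0) (XT.nd (nat_lit 312) (nat_lit 152) (nat_lit 0) (XT.nd (nat_lit 156) (nat_lit 0) (nat_lit 0) (XT.nd (nat_lit 78) (nat_lit 0) (nat_lit 0) (XT.lf (nat_lit 0) (nat_lit 337559242) (nat_lit 76) (nat_lit 6090416947) (nat_lit 76) (nat_lit 6090416947) (nat_lit 7) (nat_lit 4) (nat_lit 8) (nat_lit 5) (nat_lit 8) (nat_lit 4) (nat_lit 298) (nat_lit 211) (nat_lit 211)) (XT.lf (nat_lit 0)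 (nat_lit 7332060260) (nat_lit 76) (nat_lit 9542999134) (nat_lit 76) (nat_lit 9223924211) (nat_lit 7) (nat_lit 4) (nat_lit 8) (nat_lit 5) (nat_lit 8) (nat_lit 4) (nat_lit 299) (nat_lit 211) (nat_lit 210))) (XT.nd (nat_lit 78) (nat_lit 0) (nat_lit 0) (XT.lf (nat_lit 0) (nat_lit 14113284901) (nat_lit 76) (nat_lit 6864966768) (nat_lit 76) (nat_lit 6242010966) (nat_lit 7) (nat_lit 4) (nat_lit 8) (nat_lit 5) (nat_lit 8) (nat_lit 4) (nat_lit 300) (nat_lit 211) (nat_lit 209)) (XT.lf (nat_lit 0) (nat_lit 21034938180) (nat_lit 76) (nat_lit 4140360527) (nat_lit 76) (nat_lit 3227994364) (nat_lit 7) (nat_lit 4) (nat_lit 8) (nat_lit 5) (nat_lit 8) (nat_lit 4) (nat_lit 301) (nat_lit 211) (nat_lit 208)))) (XT.nd (nat_lit 156) (nat_lit 0) (nat_lit 0) (XT.nd (nat_lit 78) (nat_lit 152) (nat_lit 0) (XT.lf (nat_lit 0) (nat_lit 28113500223) (nat_lit 76) (nat_lit 1362693255) (nat_lit 76) (nat_lit 174698177)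 (nat_lit 7) (nat_lit 4) (nat_lit 8) (nat_lit 5) (nat_lit 8) (nat_lit 4) (nat_lit 302) (nat_lit 211) (nat_lit 207)) (XT.lf (nat_lit 0) (nat_lit 2926675564) (nat_lit 152) (nat_lit 26487064118) (nat_lit 0) (nat_lit 1545248128) (nat_lit 5) (nat_lit 5) (nat_lit 7) (nat_lit 4) (nat_lit 5) (nat_lit 4) (nat_lit 303) (nat_lit 211) (nat_lit 206))) (XT.nd (nat_lit 78) (nat_lit 0) (nat_lit 0) (XT.lf (nat_lit 0) (nat_lit 6124150575) (nat_lit 152) (nat_lit 21706325849) (nat_lit 0) (nat_lit 4504624520) (nat_lit 5) (nat_lit 5) (nat_lit 7) (nat_lit 4) (nat_lit 5) (nat_lit 4) (nat_lit 304) (nat_lit 211) (nat_lit 205)) (XT.nd (nat_lit 78) (nat_lit 0) (nat_lit 0) (XT.lf (nat_lit 0) (nat_lit 9384452727) (nat_lit 152) (nat_lit 16862349016) (nat_lit 0) (nat_lit 7538166080) (nat_lit 5) (nat_lit 5) (nat_lit 7) (nat_lit 4) (nat_lit 5) (nat_lit 4) (nat_lit 305) (nat_lit 211) (nat_lit 204)) (XT.lf (nat_lit 0)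 (nat_lit 12715344643) (nat_lit 152) (nat_lit 11943600339) (nat_lit 0) (nat_lit 10653095529) (nat_lit 5) (nat_lit 5) (nat_lit 7) (nat_lit 4) (nat_lit 5) (nat_lit 4) (nat_lit 306) (nat_lit 211) (nat_lit 203)))))) (XT.nd (nat_lit 312) (nat_lit 0) (nat_lit 0) (XT.nd (nat_lit 156) (nat_lit 76) (nat_lit 0) (XT.nd (nat_lit 78) (nat_lit 0) (nat_lit 0) (XT.lf (nat_lit 0) (nat_lit 16124757018) (nat_lit 152) (nat_lit 6938368513) (nat_lit 0) (nat_lit 13856829364) (nat_lit 5) (nat_lit 5) (nat_lit 7) (nat_lit 4) (nat_lit 5) (nat_lit 4) (nat_lit 307) (nat_lit 211) (nat_lit 202)) (XT.lf (nat_lit 0) (nat_lit 19620807500) (nat_lit 152) (nat_lit 1834736319) (nat_lit 0) (nat_lit 17156995522) (nat_lit 5) (nat_lit 5) (nat_lit 7) (nat_lit 4) (nat_lit 5) (nat_lit 4) (nat_lit 308) (nat_lit 211) (nat_lit 201))) (XT.nd (nat_lit 78) (nat_lit 0) (nat_lit 0) (XT.lf (nat_lit 0) (nat_lit 3491187552) (nat_lit 76) (nat_lit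 19775139690) (nat_lit 76) (nat_lit 17124771212) (nat_lit 4) (nat_lit 4) (nat_lit 5) (nat_lit 5) (nat_lit 5) (nat_lit 4) (nat_lit 309) (nat_lit 211) (nat_lit 200)) (XT.lf (nat_lit 0) (nat_lit 9004808521) (nat_lit 76) (nat_lit 18042126384) (nat_lit 76) (nat_lit 15214085050) (nat_lit 4) (nat_lit 4) (nat_lit 5) (nat_lit 5) (nat_lit 5) (nat_lit 4) (nat_lit 310) (nat_lit 211) (nat_lit 199)))) (XT.nd (nat_lit 156) (nat_lit 0) (nat_lit 0) (XT.nd (nat_lit 78) (nat_lit 0) (nat_lit 0) (XT.lf (nat_lit 0) (nat_lit 14658589587) (nat_lit 76) (nat_lit 16283449827) (nat_lit 76) (nat_lit 13286196249) (nat_lit 4) (nat_lit 4) (nat_lit 5) (nat_lit 5) (nat_lit 5) (nat_lit 4) (nat_lit 311) (nat_lit 211) (nat_lit 198)) (XT.lf (nat_lit 0) (nat_lit 20465992133) (nat_lit 76) (nat_lit 14494922694) (nat_lit 76) (nat_lit 11336514598) (nat_lit 4) (nat_lit 4) (nat_lit 5) (nat_lit 5) (nat_lit 5) (nat_lit 4) (nat_lit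 312) (nat_lit 211) (nat_lit 197))) (XT.nd (nat_lit 78) (nat_lit 0) (nat_lit 0) (XT.lf (nat_lit 0) (nat_lit 26440843309) (nat_lit 76) (nat_lit 12672286587) (nat_lit 76) (nat_lit 9360397997) (nat_lit 4) (nat_lit 4) (nat_lit 5) (nat_lit 5) (nat_lit 5) (nat_lit 4) (nat_lit 313) (nat_lit 211) (nat_lit 196)) (XT.nd (nat_lit 78) (nat_lit 0) (nat_lit 0) (XT.lf (nat_lit 0) (nat_lit 32597368951) (nat_lit 76) (nat_lit 10811201896) (nat_lit 76) (nat_lit 7353141408) (nat_lit 4) (nat_lit 4) (nat_lit 5) (nat_lit 5) (nat_lit 5) (nat_lit 4) (nat_lit 314) (nat_lit 211) (nat_lit 195)) (XT.lf (nat_lit 0) (nat_lit 38950227453) (nat_lit 76) (nat_lit 8907237468) (nat_lit 76) (nat_lit 5309965648) (nat_lit 4) (nat_lit 4) (nat_lit 5) (nat_lit 5) (nat_lit 5) (nat_lit 4) (nat_lit 315) (nat_lit 211) (nat_lit 194))))))))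
noncomputable def xc32 : XT := (XT.nd (nat_lit 1326) (nat_lit 0) (nat_lit 0) (XT.nd (nat_lit 624) (nat_lit 0) (nat_lit 0) (XT.nd (nat_lit 312) (nat_lit 0) (nat_lit 0) (XT.nd (nat_lit 156) (nat_lit 152) (nat_lit 0) (XT.nd (nat_lit 78) (nat_lit 0) (nat_lit 0) (XT.lf (nat_lit 0) (nat_lit 45514544669) (nat_lit 76) (nat_lit 6955860053) (nat_lit 76) (nat_lit 3226006012) (nat_lit 4) (nat_lit 4) (nat_lit 5) (nat_lit 5) (nat_lit 5) (nat_lit 4) (nat_lit 316) (nat_lit 211) (nat_lit 193)) (XT.lf (nat_lit 0) (nat_lit 52305949925) (nat_lit 76) (nat_lit 4952423515) (nat_lit 76) (nat_lit 1096300692) (nat_lit 4) (nat_lit 4) (nat_lit 5) (nat_lit 5) (nat_lit 5) (nat_lit 4) (nat_lit 317) (nat_lit 211) (nat_lit 192))) (XT.nd (nat_lit 78) (nat_lit 76) (nat_lit 0) (XT.lf (nat_lit 0) (nat_lit 1049519193) (nat_lit 152) (nat_lit 1824864458) (nat_lit 76) (nat_lit 58273319925) (nat_lit 3) (nat_lit 5) (nat_lit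 5) (nat_lit 5) (nat_lit 4) (nat_lit 4) (nat_lit 318) (nat_lit 211) (nat_lit 191)) (XT.lf (nat_lit 0) (nat_lit 2581367124) (nat_lit 76) (nat_lit 673401381) (nat_lit 152) (nat_lit 60825314374) (nat_lit 2) (nat_lit 5) (nat_lit 3) (nat_lit 5) (nat_lit 4) (nat_lit 4) (nat_lit 319) (nat_lit 211) (nat_lit 190)))) (XT.nd (nat_lit 156) (nat_lit 0) (nat_lit 0) (XT.nd (nat_lit 78) (nat_lit 0) (nat_lit 0) (XT.lf (nat_lit 0) (nat_lit 5576296665) (nat_lit 152) (nat_lit 60006215661) (nat_lit 0) (nat_lit 1576311871) (nat_lit 2) (nat_lit 5) (nat_lit 4) (nat_lit 4) (nat_lit 2) (nat_lit 4) (nat_lit 320) (nat_lit 211) (nat_lit 189)) (XT.lf (nat_lit 0) (nat_lit 7976404206) (nat_lit 152) (nat_lit 58539530486) (nat_lit 0) (nat_lit 3877484517) (nat_lit 2) (nat_lit 5) (nat_lit 4) (nat_lit 4) (nat_lit 2) (nat_lit 4) (nat_lit 321) (nat_lit 211) (nat_lit 188))) (XT.nd (nat_lit 78) (nat_lit 0) (nat_lit 0) (XT.lf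 (nat_lit 0) (nat_lit 10450291988) (nat_lit 152) (nat_lit 57084654442) (nat_lit 0) (nat_lit 6257148590) (nat_lit 2) (nat_lit 5) (nat_lit 4) (nat_lit 4) (nat_lit 2) (nat_lit 4) (nat_lit 322) (nat_lit 211) (nat_lit 187)) (XT.lf (nat_lit 0) (nat_lit 13003850219) (nat_lit 152) (nat_lit 55638123538) (nat_lit 0) (nat_lit 8720969954) (nat_lit 2) (nat_lit 5) (nat_lit 4) (nat_lit 4) (nat_lit 2) (nat_lit 4) (nat_lit 323) (nat_lit 211) (nat_lit 186))))) (XT.nd (nat_lit 312) (nat_lit 0) (nat_lit 0) (XT.nd (nat_lit 156) (nat_lit 0) (nat_lit 0) (XT.nd (nat_lit 78) (nat_lit 0) (nat_lit 0) (XT.lf (nat_lit 0) (nat_lit 15643158799) (nat_lit 152) (nat_lit 54196493653) (nat_lit 0) (nat_lit 11274814853) (nat_lit 2) (nat_lit 5) (nat_lit 4) (nat_lit 4) (nat_lit 2) (nat_lit 4) (nat_lit 324) (nat_lit 211) (nat_lit 185)) (XT.lf (nat_lit 0) (nat_lit 18374501798) (nat_lit 152) (nat_lit 52756332335) (nat_lit 0)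 (nat_lit 13924763869) (nat_lit 2) (nat_lit 5) (nat_lit 4) (nat_lit 4) (nat_lit 2) (nat_lit 4) (nat_lit 325) (nat_lit 211) (nat_lit 184))) (XT.nd (nat_lit 78) (nat_lit 0) (nat_lit 0) (XT.lf (nat_lit 0) (nat_lit 21204382412) (nat_lit 152) (nat_lit 51314210628) (nat_lit 0) (nat_lit 16677126405) (nat_lit 2) (nat_lit 5) (nat_lit 4) (nat_lit 4) (nat_lit 2) (nat_lit 4) (nat_lit 326) (nat_lit 211) (nat_lit 183)) (XT.lf (nat_lit 0) (nat_lit 24139538453) (nat_lit 152) (nat_lit 49866694908) (nat_lit 0) (nat_lit 19538455704) (nat_lit 2) (nat_lit 5) (nat_lit 4) (nat_lit 4) (nat_lit 2) (nat_lit 4) (nat_lit 327) (nat_lit 211) (nat_lit 182)))) (XT.nd (nat_lit 156) (nat_lit 0) (nat_lit 0) (XT.nd (nat_lit 78) (nat_lit 0) (nat_lit 0) (XT.lf (nat_lit 0) (nat_lit 27186958387) (nat_lit 152) (nat_lit 48410338711) (nat_lit 0) (nat_lit 22515564455) (nat_lit 2) (nat_lit 5) (nat_lit 4) (nat_lit 4) (nat_lit 2)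 (nat_lit 4) (nat_lit 328) (nat_lit 211) (nat_lit 181)) (XT.lf (nat_lit 0) (nat_lit 30353897976) (nat_lit 152) (nat_lit 46941674522) (nat_lit 0) (nat_lit 25615541014) (nat_lit 2) (nat_lit 5) (nat_lit 4) (nat_lit 4) (nat_lit 2) (nat_lit 4) (nat_lit 329) (nat_lit 211) (nat_lit 180))) (XT.nd (nat_lit 78) (nat_lit 0) (nat_lit 0) (XT.lf (nat_lit 0) (nat_lit 33647897552) (nat_lit 152) (nat_lit 45457205520) (nat_lit 0) (nat_lit 28845766275) (nat_lit 2) (nat_lit 5) (nat_lit 4) (nat_lit 4) (nat_lit 2) (nat_lit 4) (nat_lit 330) (nat_lit 211) (nat_lit 179)) (XT.nd (nat_lit 78) (nat_lit 0) (nat_lit 0) (XT.lf (nat_lit 0) (nat_lit 37076799972) (nat_lit 152) (nat_lit 43953397256) (nat_lit 0) (nat_lit 32213931252) (nat_lit 2) (nat_lit 5) (nat_lit 4) (nat_lit 4) (nat_lit 2) (nat_lit 4) (nat_lit 331) (nat_lit 211) (nat_lit 178)) (XT.lf (nat_lit 0) (nat_lit 40648769289) (nat_lit 152) (nat_lit 42426669234)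 (nat_lit 0) (nat_lit 35728055385) (nat_lit 2) (nat_lit 5) (nat_lit 4) (nat_lit 4) (nat_lit 2) (nat_lit 4) (nat_lit 332) (nat_lit 211) (nat_lit 177))))))) (XT.nd (nat_lit 702) (nat_lit 0) (nat_lit 0) (XT.nd (nat_lit 312) (nat_lit 0) (nat_lit 0) (XT.nd (nat_lit 156) (nat_lit 0) (nat_lit 0) (XT.nd (nat_lit 78) (nat_lit 0) (nat_lit 0) (XT.lf (nat_lit 0) (nat_lit 44372310192) (nat_lit 152) (nat_lit 40873386387) (nat_lit 0) (nat_lit 39396505636) (nat_lit 2) (nat_lit 5) (nat_lit 4) (nat_lit 4) (nat_lit 2) (nat_lit 4) (nat_lit 333) (nat_lit 211) (nat_lit 176)) (XT.lf (nat_lit 0) (nat_lit 48256288254) (nat_lit 152) (nat_lit 39289850423) (nat_lit 0) (nat_lit 43228016411) (nat_lit 2) (nat_lit 5) (nat_lit 4) (nat_lit 4) (nat_lit 2) (nat_lit 4) (nat_lit 334) (nat_lit 211) (nat_lit 175))) (XT.nd (nat_lit 78) (nat_lit 0) (nat_lit 0) (XT.lf (nat_lit 0) (nat_lit 52309951042) (nat_lit 152) (nat_lit 37672291017)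 (nat_lit 0) (nat_lit 47231710355) (nat_lit 2) (nat_lit 5) (nat_lit 4) (nat_lit 4) (nat_lit 2) (nat_lit 4) (nat_lit 335) (nat_lit 211) (nat_lit 174)) (XT.lf (nat_lit 0) (nat_lit 56542950135) (nat_lit 152) (nat_lit 36016856839) (nat_lit 0) (nat_lit 51417120071) (nat_lit 2) (nat_lit 5) (nat_lit 4) (nat_lit 4) (nat_lit 2) (nat_lit 4) (nat_lit 336) (nat_lit 211) (nat_lit 173)))) (XT.nd (nat_lit 156) (nat_lit 0) (nat_lit 0) (XT.nd (nat_lit 78) (nat_lit 0) (nat_lit 0) (XT.lf (nat_lit 0) (nat_lit 60965364101) (nat_lit 152) (nat_lit 34319606379) (nat_lit 0) (nat_lit 55794210822) (nat_lit 2) (nat_lit 5) (nat_lit 4) (nat_lit 4) (nat_lit 2) (nat_lit 4) (nat_lit 337) (nat_lit 211) (nat_lit 172)) (XT.lf (nat_lit 0) (nat_lit 65587722497) (nat_lit 152) (nat_lit 32576498562) (nat_lit 0) (nat_lit 60373404252) (nat_lit 2) (nat_lit 5) (nat_lit 4) (nat_lit 4) (nat_lit 2) (nat_lit 4) (nat_lit 338) (nat_lit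 211) (nat_lit 171))) (XT.nd (nat_lit 78) (nat_lit 0) (nat_lit 0) (XT.lf (nat_lit 0) (nat_lit 70421030939) (nat_lit 152) (nat_lit 30783383134) (nat_lit 0) (nat_lit 65165603202) (nat_lit 2) (nat_lit 5) (nat_lit 4) (nat_lit 4) (nat_lit 2) (nat_lit 4) (nat_lit 339) (nat_lit 211) (nat_lit 170)) (XT.nd (nat_lit 78) (nat_lit 0) (nat_lit 0) (XT.lf (nat_lit 0) (nat_lit 75476797304) (nat_lit 152) (nat_lit 28935990771) (nat_lit 0) (nat_lit 70182217670) (nat_lit 2) (nat_lit 5) (nat_lit 4) (nat_lit 4) (nat_lit 2) (nat_lit 4) (nat_lit 340) (nat_lit 211) (nat_lit 169)) (XT.lf (nat_lit 0) (nat_lit 80767059132) (nat_lit 152) (nat_lit 27029922921) (nat_lit 0) (nat_lit 75435191976) (nat_lit 2) (nat_lit 5) (nat_lit 4) (nat_lit 4) (nat_lit 2) (nat_lit 4) (nat_lit 341) (nat_lit 211) (nat_lit 168)))))) (XT.nd (nat_lit 312) (nat_lit 0) (nat_lit 0) (XT.nd (nat_lit 156) (nat_lit 0) (nat_lit 0) (XT.nd (nat_lit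 78) (nat_lit 0) (nat_lit 0) (XT.lf (nat_lit 0) (nat_lit 86304412282) (nat_lit 152) (nat_lit 25060641325) (nat_lit 0) (nat_lit 80937033201) (nat_lit 2) (nat_lit 5) (nat_lit 4) (nat_lit 4) (nat_lit 2) (nat_lit 4) (nat_lit 342) (nat_lit 211) (nat_lit 167)) (XT.lf (nat_lit 0) (nat_lit 92102040931) (nat_lit 152) (nat_lit 23023457220) (nat_lit 0) (nat_lit 86700840969) (nat_lit 2) (nat_lit 5) (nat_lit 4) (nat_lit 4) (nat_lit 2) (nat_lit 4) (nat_lit 343) (nat_lit 211) (nat_lit 166))) (XT.nd (nat_lit 78) (nat_lit 0) (nat_lit 0) (XT.lf (nat_lit 0) (nat_lit 98173748955) (nat_lit 152) (nat_lit 20913520166) (nat_lit 0) (nat_lit 92740338630) (nat_lit 2) (nat_lit 5) (nat_lit 4) (nat_lit 4) (nat_lit 2) (nat_lit 4) (nat_lit 344) (nat_lit 211) (nat_lit 165)) (XT.lf (nat_lit 0) (nat_lit 104533992801) (nat_lit 152) (nat_lit 18725806504) (nat_lit 0) (nat_lit 99069905941) (nat_lit 2) (nat_lit 5) (nat_lit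 4) (nat_lit 4) (nat_lit 2) (nat_lit 4) (nat_lit 345) (nat_lit 211) (nat_lit 164)))) (XT.nd (nat_lit 156) (nat_lit 0) (nat_lit 0) (XT.nd (nat_lit 78) (nat_lit 0) (nat_lit 0) (XT.lf (nat_lit 0) (nat_lit 111197915909) (nat_lit 152) (nat_lit 16455107391) (nat_lit 0) (nat_lit 105704613300) (nat_lit 2) (nat_lit 5) (nat_lit 4) (nat_lit 4) (nat_lit 2) (nat_lit 4) (nat_lit 346) (nat_lit 211) (nat_lit 163)) (XT.lf (nat_lit 0) (nat_lit 118181384761) (nat_lit 152) (nat_lit 14096016402) (nat_lit 0) (nat_lit 112660257629) (nat_lit 2) (nat_lit 5) (nat_lit 4) (nat_lit 4) (nat_lit 2) (nat_lit 4) (nat_lit 347) (nat_lit 211) (nat_lit 162))) (XT.nd (nat_lit 78) (nat_lit 0) (nat_lit 0) (XT.lf (nat_lit 0) (nat_lit 125501026664) (nat_lit 152) (nat_lit 11642916652) (nat_lit 0) (nat_lit 119953399987) (nat_lit 2) (nat_lit 5) (nat_lit 4) (nat_lit 4) (nat_lit 2) (nat_lit 4) (nat_lit 348) (nat_lit 211) (nat_lit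 161)) (XT.nd (nat_lit 78) (nat_lit 0) (nat_lit 0) (XT.lf (nat_lit 0) (nat_lit 133174269338) (nat_lit 152) (nat_lit 9089967429) (nat_lit 0) (nat_lit 127601404998) (nat_lit 2) (nat_lit 5) (nat_lit 4) (nat_lit 4) (nat_lit 2) (nat_lit 4) (nat_lit 349) (nat_lit 211) (nat_lit 160)) (XT.lf (nat_lit 0) (nat_lit 141219382406) (nat_lit 152) (nat_lit 6431090282) (nat_lit 0) (nat_lit 135622482198) (nat_lit 2) (nat_lit 5) (nat_lit 4) (nat_lit 4) (nat_lit 2) (nat_lit 4) (nat_lit 350) (nat_lit 211) (nat_lit 159))))))))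
noncomputable def xc33 : XT := (XT.nd (nat_lit 33462) (nat_lit 0) (nat_lit 228) (XT.nd (nat_lit 624) (nat_lit 0) (nat_lit 0) (XT.nd (nat_lit 312) (nat_lit 0) (nat_lit 0) (XT.nd (nat_lit 156) (nat_lit 76) (nat_lit 0) (XT.nd (nat_lit 78) (nat_lit 0) (nat_lit 0) (XT.lf (nat_lit 0) (nat_lit 149655520901) (nat_lit 152) (nat_lit 3659954550) (nat_lit 0) (nat_lit 144035729390) (nat_lit 2) (nat_lit 5) (nat_lit 4) (nat_lit 4) (nat_lit 2) (nat_lit 4) (nat_lit 351) (nat_lit 211) (nat_lit 158)) (XT.lf (nat_lit 0) (nat_lit 158502770867) (nat_lit 152) (nat_lit 769962292) (nat_lit 0) (nat_lit 152861178114) (nat_lit 2) (nat_lit 5) (nat_lit 4) (nat_lit 4) (nat_lit 2) (nat_lit 4) (nat_lit 352) (nat_lit 211) (nat_lit 157))) (XT.nd (nat_lit 78) (nat_lit 0) (nat_lit 0) (XT.lf (nat_lit 0) (nat_lit 2320022639) (nat_lit 76) (nat_lit 165498396600) (nat_lit 76) (nat_lit 159836040760) (nat_lit 1) (nat_lit 4) (nat_lit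 2) (nat_lit 5) (nat_lit 2) (nat_lit 4) (nat_lit 353) (nat_lit 211) (nat_lit 156)) (XT.lf (nat_lit 0) (nat_lit 5572778632) (nat_lit 76) (nat_lit 172030121784) (nat_lit 76) (nat_lit 166347991576) (nat_lit 1) (nat_lit 4) (nat_lit 2) (nat_lit 5) (nat_lit 2) (nat_lit 4) (nat_lit 354) (nat_lit 211) (nat_lit 155)))) (XT.nd (nat_lit 156) (nat_lit 0) (nat_lit 0) (XT.nd (nat_lit 78) (nat_lit 0) (nat_lit 0) (XT.lf (nat_lit 0) (nat_lit 8970591913) (nat_lit 76) (nat_lit 178896500123) (nat_lit 76) (nat_lit 173195537182) (nat_lit 1) (nat_lit 4) (nat_lit 2) (nat_lit 5) (nat_lit 2) (nat_lit 4) (nat_lit 355) (nat_lit 211) (nat_lit 154)) (XT.lf (nat_lit 0) (nat_lit 12521552514) (nat_lit 76) (nat_lit 186113880136) (nat_lit 76) (nat_lit 180394981260) (nat_lit 1) (nat_lit 4) (nat_lit 2) (nat_lit 5) (nat_lit 2) (nat_lit 4) (nat_lit 356) (nat_lit 211) (nat_lit 153))) (XT.nd (nat_lit 78) (nat_lit 0) (nat_lit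 0) (XT.lf (nat_lit 0) (nat_lit 16234115103) (nat_lit 76) (nat_lit 193699446061) (nat_lit 76) (nat_lit 187963465342) (nat_lit 1) (nat_lit 4) (nat_lit 2) (nat_lit 5) (nat_lit 2) (nat_lit 4) (nat_lit 357) (nat_lit 211) (nat_lit 152)) (XT.lf (nat_lit 0) (nat_lit 20117119114) (nat_lit 76) (nat_lit 201671258770) (nat_lit 76) (nat_lit 195919009629) (nat_lit 1) (nat_lit 4) (nat_lit 2) (nat_lit 5) (nat_lit 2) (nat_lit 4) (nat_lit 358) (nat_lit 211) (nat_lit 151))))) (XT.nd (nat_lit 312) (nat_lit 0) (nat_lit 0) (XT.nd (nat_lit 156) (nat_lit 0) (nat_lit 0) (XT.nd (nat_lit 78) (nat_lit 0) (nat_lit 0) (XT.lf (nat_lit 0) (nat_lit 24179809796) (nat_lit 76) (nat_lit 210048298768) (nat_lit 76) (nat_lit 204280555892) (nat_lit 1) (nat_lit 4) (nat_lit 2) (nat_lit 5) (nat_lit 2) (nat_lit 4) (nat_lit 359) (nat_lit 211) (nat_lit 150)) (XT.lf (nat_lit 0) (nat_lit 28431860220) (nat_lit 76) (nat_lit 218850511390)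 (nat_lit 76) (nat_lit 213068012576) (nat_lit 1) (nat_lit 4) (nat_lit 2) (nat_lit 5) (nat_lit 2) (nat_lit 4) (nat_lit 360) (nat_lit 211) (nat_lit 149))) (XT.nd (nat_lit 78) (nat_lit 0) (nat_lit 0) (XT.lf (nat_lit 0) (nat_lit 32883394317) (nat_lit 76) (nat_lit 228098854285) (nat_lit 76) (nat_lit 222302302196) (nat_lit 1) (nat_lit 4) (nat_lit 2) (nat_lit 5) (nat_lit 2) (nat_lit 4) (nat_lit 361) (nat_lit 211) (nat_lit 148)) (XT.lf (nat_lit 0) (nat_lit 37545010978) (nat_lit 76) (nat_lit 237815347316) (nat_lit 76) (nat_lit 232005411155) (nat_lit 1) (nat_lit 4) (nat_lit 2) (nat_lit 5) (nat_lit 2) (nat_lit 4) (nat_lit 362) (nat_lit 211) (nat_lit 147)))) (XT.nd (nat_lit 32292) (nat_lit 0) (nat_lit 456) (XT.nd (nat_lit 78) (nat_lit 0) (nat_lit 0) (XT.lf (nat_lit 0) (nat_lit 42427809290) (nat_lit 76) (nat_lit 248023124990) (nat_lit 76) (nat_lit 242200442096) (nat_lit 1) (nat_lit 4) (nat_lit 2)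 (nat_lit 5) (nat_lit 2) (nat_lit 4) (nat_lit 363) (nat_lit 211) (nat_lit 146)) (XT.lf (nat_lit 0) (nat_lit 47543414962) (nat_lit 76) (nat_lit 258746491541) (nat_lit 76) (nat_lit 252911668899) (nat_lit 1) (nat_lit 4) (nat_lit 2) (nat_lit 5) (nat_lit 2) (nat_lit 4) (nat_lit 364) (nat_lit 211) (nat_lit 145))) (XT.nd (nat_lit 78) (nat_lit 76) (nat_lit 0) (XT.lf (nat_lit 0) (nat_lit 2810258104) (nat_lit 152) (nat_lit 5912937042) (nat_lit 0) (nat_lit 2810258104) (nat_lit 8) (nat_lit 5) (nat_lit 10) (nat_lit 4) (nat_lit 8) (nat_lit 4) (nat_lit 296) (nat_lit 212) (nat_lit 212)) (XT.nd (nat_lit 78) (nat_lit 76) (nat_lit 0) (XT.lf (nat_lit 0) (nat_lit 9338090069) (nat_lit 152) (nat_lit 5685405119) (nat_lit 0) (nat_lit 9003061400) (nat_lit 8) (nat_lit 5) (nat_lit 10) (nat_lit 4) (nat_lit 8) (nat_lit 4) (nat_lit 297) (nat_lit 212) (nat_lit 211)) (XT.lf (nat_lit 0) (nat_lit 568292906) (nat_lit 76)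 (nat_lit 12562827850) (nat_lit 76) (nat_lit 11908724258) (nat_lit 7) (nat_lit 4) (nat_lit 8) (nat_lit 5) (nat_lit 8) (nat_lit 4) (nat_lit 298) (nat_lit 212) (nat_lit 210))))))) (XT.nd (nat_lit 702) (nat_lit 76) (nat_lit 0) (XT.nd (nat_lit 312) (nat_lit 152) (nat_lit 0) (XT.nd (nat_lit 156) (nat_lit 0) (nat_lit 0) (XT.nd (nat_lit 78) (nat_lit 0) (nat_lit 0) (XT.lf (nat_lit 0) (nat_lit 7123496036) (nat_lit 76) (nat_lit 9969721935) (nat_lit 76) (nat_lit 9011737464) (nat_lit 7) (nat_lit 4) (nat_lit 8) (nat_lit 5) (nat_lit 8) (nat_lit 4) (nat_lit 299) (nat_lit 212) (nat_lit 209)) (XT.lf (nat_lit 0) (nat_lit 13807826729) (nat_lit 76) (nat_lit 7334288468) (nat_lit 76) (nat_lit 6086893636) (nat_lit 7) (nat_lit 4) (nat_lit 8) (nat_lit 5) (nat_lit 8) (nat_lit 4) (nat_lit 300) (nat_lit 212) (nat_lit 208))) (XT.nd (nat_lit 78) (nat_lit 0) (nat_lit 0) (XT.lf (nat_lit 0) (nat_lit 20637200056) (nat_lit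 76) (nat_lit 4650252608) (nat_lit 76) (nat_lit 3127228861) (nat_lit 7) (nat_lit 4) (nat_lit 8) (nat_lit 5) (nat_lit 8) (nat_lit 4) (nat_lit 301) (nat_lit 212) (nat_lit 207)) (XT.lf (nat_lit 0) (nat_lit 27627876432) (nat_lit 76) (nat_lit 1911223794) (nat_lit 76) (nat_lit 125696317) (nat_lit 7) (nat_lit 4) (nat_lit 8) (nat_lit 5) (nat_lit 8) (nat_lit 4) (nat_lit 302) (nat_lit 212) (nat_lit 206)))) (XT.nd (nat_lit 156) (nat_lit 0) (nat_lit 0) (XT.nd (nat_lit 78) (nat_lit 0) (nat_lit 0) (XT.lf (nat_lit 0) (nat_lit 2907649163) (nat_lit 152) (nat_lit 27099529139) (nat_lit 0) (nat_lit 969048184) (nat_lit 5) (nat_lit 5) (nat_lit 7) (nat_lit 4) (nat_lit 5) (nat_lit 4) (nat_lit 303) (nat_lit 212) (nat_lit 205)) (XT.lf (nat_lit 0) (nat_lit 6057784365) (nat_lit 152) (nat_lit 22404546162) (nat_lit 0) (nat_lit 3892422795) (nat_lit 5) (nat_lit 5) (nat_lit 7) (nat_lit 4) (nat_lit 5) (nat_lit 4) (nat_lit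 304) (nat_lit 212) (nat_lit 204))) (XT.nd (nat_lit 78) (nat_lit 0) (nat_lit 0) (XT.lf (nat_lit 0) (nat_lit 9273000983) (nat_lit 152) (nat_lit 17642241035) (nat_lit 0) (nat_lit 6891676946) (nat_lit 5) (nat_lit 5) (nat_lit 7) (nat_lit 4) (nat_lit 5) (nat_lit 4) (nat_lit 305) (nat_lit 212) (nat_lit 203)) (XT.nd (nat_lit 78) (nat_lit 0) (nat_lit 0) (XT.lf (nat_lit 0) (nat_lit 12560954296) (nat_lit 152) (nat_lit 12801274936) (nat_lit 0) (nat_lit 9973951719) (nat_lit 5) (nat_lit 5) (nat_lit 7) (nat_lit 4) (nat_lit 5) (nat_lit 4) (nat_lit 306) (nat_lit 212) (nat_lit 202)) (XT.lf (nat_lit 0) (nat_lit 15929472763) (nat_lit 152) (nat_lit 7870121755) (nat_lit 0) (nat_lit 13146585862) (nat_lit 5) (nat_lit 5) (nat_lit 7) (nat_lit 4) (nat_lit 5) (nat_lit 4) (nat_lit 307) (nat_lit 212) (nat_lit 201)))))) (XT.nd (nat_lit 312) (nat_lit 0) (nat_lit 0) (XT.nd (nat_lit 156) (nat_lit 0) (nat_lit 0) (XT.nd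 (nat_lit 78) (nat_lit 76) (nat_lit 0) (XT.lf (nat_lit 0) (nat_lit 19386576667) (nat_lit 152) (nat_lit 2837040652) (nat_lit 0) (nat_lit 16417133266) (nat_lit 5) (nat_lit 5) (nat_lit 7) (nat_lit 4) (nat_lit 5) (nat_lit 4) (nat_lit 308) (nat_lit 212) (nat_lit 200)) (XT.lf (nat_lit 0) (nat_lit 2386329341) (nat_lit 76) (nat_lit 20591425155) (nat_lit 76) (nat_lit 17444308898) (nat_lit 4) (nat_lit 4) (nat_lit 5) (nat_lit 5) (nat_lit 5) (nat_lit 4) (nat_lit 309) (nat_lit 212) (nat_lit 199))) (XT.nd (nat_lit 78) (nat_lit 0) (nat_lit 0) (XT.lf (nat_lit 0) (nat_lit 7833842528) (nat_lit 76) (nat_lit 18888161807) (nat_lit 76) (nat_lit 15571833306) (nat_lit 4) (nat_lit 4) (nat_lit 5) (nat_lit 5) (nat_lit 5) (nat_lit 4) (nat_lit 310) (nat_lit 212) (nat_lit 198)) (XT.lf (nat_lit 0) (nat_lit 13424663803) (nat_lit 76) (nat_lit 17157818543) (nat_lit 76) (nat_lit 13680335525) (nat_lit 4) (nat_lit 4) (nat_lit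 5) (nat_lit 5) (nat_lit 5) (nat_lit 4) (nat_lit 311) (nat_lit 212) (nat_lit 197)))) (XT.nd (nat_lit 156) (nat_lit 0) (nat_lit 0) (XT.nd (nat_lit 78) (nat_lit 0) (nat_lit 0) (XT.lf (nat_lit 0) (nat_lit 19172104643) (nat_lit 76) (nat_lit 15396275500) (nat_lit 76) (nat_lit 11765311987) (nat_lit 4) (nat_lit 4) (nat_lit 5) (nat_lit 5) (nat_lit 5) (nat_lit 4) (nat_lit 312) (nat_lit 212) (nat_lit 196)) (XT.lf (nat_lit 0) (nat_lit 25089849432) (nat_lit 76) (nat_lit 13599338525) (nat_lit 76) (nat_lit 9822203114) (nat_lit 4) (nat_lit 4) (nat_lit 5) (nat_lit 5) (nat_lit 5) (nat_lit 4) (nat_lit 313) (nat_lit 212) (nat_lit 195))) (XT.nd (nat_lit 78) (nat_lit 0) (nat_lit 0) (XT.lf (nat_lit 0) (nat_lit 31191988039) (nat_lit 76) (nat_lit 11762729199) (nat_lit 76) (nat_lit 7846382456) (nat_lit 4) (nat_lit 4) (nat_lit 5) (nat_lit 5) (nat_lit 5) (nat_lit 4) (nat_lit 314) (nat_lit 212) (nat_lit 194)) (XT.nd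 (nat_lit 78) (nat_lit 0) (nat_lit 0) (XT.lf (nat_lit 0) (nat_lit 37493049364) (nat_lit 76) (nat_lit 9882074641) (nat_lit 76) (nat_lit 5833145677) (nat_lit 4) (nat_lit 4) (nat_lit 5) (nat_lit 5) (nat_lit 5) (nat_lit 4) (nat_lit 315) (nat_lit 212) (nat_lit 193)) (XT.lf (nat_lit 0) (nat_lit 44008035936) (nat_lit 76) (nat_lit 7952897103) (nat_lit 76) (nat_lit 3777699357) (nat_lit 4) (nat_lit 4) (nat_lit 5) (nat_lit 5) (nat_lit 5) (nat_lit 4) (nat_lit 316) (nat_lit 212) (nat_lit 192))))))))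
noncomputable def xc34 : XT := (XT.nd (nat_lit 1326) (nat_lit 0) (nat_lit 0) (XT.nd (nat_lit 624) (nat_lit 0) (nat_lit 0) (XT.nd (nat_lit 312) (nat_lit 0) (nat_lit 0) (XT.nd (nat_lit 156) (nat_lit 76) (nat_lit 0) (XT.nd (nat_lit 78) (nat_lit 76) (nat_lit 0) (XT.lf (nat_lit 0) (nat_lit 50752459626) (nat_lit 76) (nat_lit 5970603305) (nat_lit 76) (nat_lit 1675149577) (nat_lit 4) (nat_lit 4) (nat_lit 5) (nat_lit 5) (nat_lit 5) (nat_lit 4) (nat_lit 317) (nat_lit 212) (nat_lit 191)) (XT.lf (nat_lit 0) (nat_lit 464162429) (nat_lit 152) (nat_lit 3458450255) (nat_lit 76) (nat_lit 57270355342) (nat_lit 3) (nat_lit 5) (nat_lit 5) (nat_lit 5) (nat_lit 4) (nat_lit 4) (nat_lit 318) (nat_lit 212) (nat_lit 190))) (XT.nd (nat_lit 78) (nat_lit 0) (nat_lit 0) (XT.lf (nat_lit 0) (nat_lit 848908423) (nat_lit 76) (nat_lit 1769612250) (nat_lit 152) (nat_lit 61509392609) (nat_lit 2) (nat_lit 5) (nat_lit 3)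 (nat_lit 5) (nat_lit 4) (nat_lit 4) (nat_lit 319) (nat_lit 212) (nat_lit 189)) (XT.lf (nat_lit 0) (nat_lit 4899257620) (nat_lit 152) (nat_lit 61812999869) (nat_lit 0) (nat_lit 496457051) (nat_lit 2) (nat_lit 5) (nat_lit 4) (nat_lit 4) (nat_lit 2) (nat_lit 4) (nat_lit 320) (nat_lit 212) (nat_lit 188)))) (XT.nd (nat_lit 156) (nat_lit 0) (nat_lit 0) (XT.nd (nat_lit 78) (nat_lit 0) (nat_lit 0) (XT.lf (nat_lit 0) (nat_lit 7276816314) (nat_lit 152) (nat_lit 60387848055) (nat_lit 0) (nat_lit 2779792036) (nat_lit 2) (nat_lit 5) (nat_lit 4) (nat_lit 4) (nat_lit 2) (nat_lit 4) (nat_lit 321) (nat_lit 212) (nat_lit 187)) (XT.lf (nat_lit 0) (nat_lit 9729229002) (nat_lit 152) (nat_lit 58972527593) (nat_lit 0) (nat_lit 5142467859) (nat_lit 2) (nat_lit 5) (nat_lit 4) (nat_lit 4) (nat_lit 2) (nat_lit 4) (nat_lit 322) (nat_lit 212) (nat_lit 186))) (XT.nd (nat_lit 78) (nat_lit 0) (nat_lit 0) (XT.lf (nat_lit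 0) (nat_lit 12262334764) (nat_lit 152) (nat_lit 57563668671) (nat_lit 0) (nat_lit 7590109939) (nat_lit 2) (nat_lit 5) (nat_lit 4) (nat_lit 4) (nat_lit 2) (nat_lit 4) (nat_lit 323) (nat_lit 212) (nat_lit 185)) (XT.lf (nat_lit 0) (nat_lit 14882164803) (nat_lit 152) (nat_lit 56157916865) (nat_lit 0) (nat_lit 10128545995) (nat_lit 2) (nat_lit 5) (nat_lit 4) (nat_lit 4) (nat_lit 2) (nat_lit 4) (nat_lit 324) (nat_lit 212) (nat_lit 184))))) (XT.nd (nat_lit 312) (nat_lit 0) (nat_lit 0) (XT.nd (nat_lit 156) (nat_lit 0) (nat_lit 0) (XT.nd (nat_lit 78) (nat_lit 0) (nat_lit 0) (XT.lf (nat_lit 0) (nat_lit 17594956809) (nat_lit 152) (nat_lit 54751925145) (nat_lit 0) (nat_lit 12763819923) (nat_lit 2) (nat_lit 5) (nat_lit 4) (nat_lit 4) (nat_lit 2) (nat_lit 4) (nat_lit 325) (nat_lit 212) (nat_lit 183)) (XT.lf (nat_lit 0) (nat_lit 20407169811) (nat_lit 152) (nat_lit 53342345912) (nat_lit 0) (nat_lit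 15502206183) (nat_lit 2) (nat_lit 5) (nat_lit 4) (nat_lit 4) (nat_lit 2) (nat_lit 4) (nat_lit 326) (nat_lit 212) (nat_lit 182))) (XT.nd (nat_lit 78) (nat_lit 0) (nat_lit 0) (XT.lf (nat_lit 0) (nat_lit 23325499555) (nat_lit 152) (nat_lit 51925823026) (nat_lit 0) (nat_lit 18350224745) (nat_lit 2) (nat_lit 5) (nat_lit 4) (nat_lit 4) (nat_lit 2) (nat_lit 4) (nat_lit 327) (nat_lit 212) (nat_lit 181)) (XT.lf (nat_lit 0) (nat_lit 26356894445) (nat_lit 152) (nat_lit 50498983813) (nat_lit 0) (nat_lit 21314656603) (nat_lit 2) (nat_lit 5) (nat_lit 4) (nat_lit 4) (nat_lit 2) (nat_lit 4) (nat_lit 328) (nat_lit 212) (nat_lit 180)))) (XT.nd (nat_lit 156) (nat_lit 0) (nat_lit 0) (XT.nd (nat_lit 78) (nat_lit 0) (nat_lit 0) (XT.lf (nat_lit 0) (nat_lit 29508572086) (nat_lit 152) (nat_lit 49058431037) (nat_lit 0) (nat_lit 24402559930) (nat_lit 2) (nat_lit 5) (nat_lit 4) (nat_lit 4) (nat_lit 2) (nat_lit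 4) (nat_lit 329) (nat_lit 212) (nat_lit 179)) (XT.lf (nat_lit 0) (nat_lit 32788036475) (nat_lit 152) (nat_lit 47600734810) (nat_lit 0) (nat_lit 27621286875) (nat_lit 2) (nat_lit 5) (nat_lit 4) (nat_lit 4) (nat_lit 2) (nat_lit 4) (nat_lit 330) (nat_lit 212) (nat_lit 178))) (XT.nd (nat_lit 78) (nat_lit 0) (nat_lit 0) (XT.lf (nat_lit 0) (nat_lit 36203095859) (nat_lit 152) (nat_lit 46122424426) (nat_lit 0) (nat_lit 30978501075) (nat_lit 2) (nat_lit 5) (nat_lit 4) (nat_lit 4) (nat_lit 2) (nat_lit 4) (nat_lit 331) (nat_lit 212) (nat_lit 177)) (XT.nd (nat_lit 78) (nat_lit 0) (nat_lit 0) (XT.lf (nat_lit 0) (nat_lit 39761881332) (nat_lit 152) (nat_lit 44619980100) (nat_lit 0) (nat_lit 34482195897) (nat_lit 2) (nat_lit 5) (nat_lit 4) (nat_lit 4) (nat_lit 2) (nat_lit 4) (nat_lit 332) (nat_lit 212) (nat_lit 176)) (XT.lf (nat_lit 0) (nat_lit 43472866192) (nat_lit 152) (nat_lit 43089824582) (nat_lit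 0) (nat_lit 38140713471) (nat_lit 2) (nat_lit 5) (nat_lit 4) (nat_lit 4) (nat_lit 2) (nat_lit 4) (nat_lit 333) (nat_lit 212) (nat_lit 175))))))) (XT.nd (nat_lit 702) (nat_lit 0) (nat_lit 0) (XT.nd (nat_lit 312) (nat_lit 0) (nat_lit 0) (XT.nd (nat_lit 156) (nat_lit 0) (nat_lit 0) (XT.nd (nat_lit 78) (nat_lit 0) (nat_lit 0) (XT.lf (nat_lit 0) (nat_lit 47344886119) (nat_lit 152) (nat_lit 41528314646) (nat_lit 0) (nat_lit 41962764553) (nat_lit 2) (nat_lit 5) (nat_lit 4) (nat_lit 4) (nat_lit 2) (nat_lit 4) (nat_lit 334) (nat_lit 212) (nat_lit 174)) (XT.lf (nat_lit 0) (nat_lit 51387160207) (nat_lit 152) (nat_lit 39931732410) (nat_lit 0) (nat_lit 45957449265) (nat_lit 2) (nat_lit 5) (nat_lit 4) (nat_lit 4) (nat_lit 2) (nat_lit 4) (nat_lit 335) (nat_lit 212) (nat_lit 173))) (XT.nd (nat_lit 78) (nat_lit 0) (nat_lit 0) (XT.lf (nat_lit 0) (nat_lit 55609312919) (nat_lit 152) (nat_lit 38296276489)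 (nat_lit 0) (nat_lit 50134278761) (nat_lit 2) (nat_lit 5) (nat_lit 4) (nat_lit 4) (nat_lit 2) (nat_lit 4) (nat_lit 336) (nat_lit 212) (nat_lit 172)) (XT.lf (nat_lit 0) (nat_lit 60021396998) (nat_lit 152) (nat_lit 36618052939) (nat_lit 0) (nat_lit 54503197874) (nat_lit 2) (nat_lit 5) (nat_lit 4) (nat_lit 4) (nat_lit 2) (nat_lit 4) (nat_lit 337) (nat_lit 212) (nat_lit 171)))) (XT.nd (nat_lit 156) (nat_lit 0) (nat_lit 0) (XT.nd (nat_lit 78) (nat_lit 0) (nat_lit 0) (XT.lf (nat_lit 0) (nat_lit 64633917407) (nat_lit 152) (nat_lit 34893065991) (nat_lit 0) (nat_lit 59074608791) (nat_lit 2) (nat_lit 5) (nat_lit 4) (nat_lit 4) (nat_lit 2) (nat_lit 4) (nat_lit 338) (nat_lit 212) (nat_lit 170)) (XT.lf (nat_lit 0) (nat_lit 69457856338) (nat_lit 152) (nat_lit 33117208531) (nat_lit 0) (nat_lit 63859395824) (nat_lit 2) (nat_lit 5) (nat_lit 4) (nat_lit 4) (nat_lit 2) (nat_lit 4) (nat_lit 339) (nat_lit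 212) (nat_lit 169))) (XT.nd (nat_lit 78) (nat_lit 0) (nat_lit 0) (XT.lf (nat_lit 0) (nat_lit 74504699358) (nat_lit 152) (nat_lit 31286252330) (nat_lit 0) (nat_lit 68868951323) (nat_lit 2) (nat_lit 5) (nat_lit 4) (nat_lit 4) (nat_lit 2) (nat_lit 4) (nat_lit 340) (nat_lit 212) (nat_lit 168)) (XT.nd (nat_lit 78) (nat_lit 0) (nat_lit 0) (XT.lf (nat_lit 0) (nat_lit 79786462762) (nat_lit 152) (nat_lit 29395837966) (nat_lit 0) (nat_lit 74115202802) (nat_lit 2) (nat_lit 5) (nat_lit 4) (nat_lit 4) (nat_lit 2) (nat_lit 4) (nat_lit 341) (nat_lit 212) (nat_lit 167)) (XT.lf (nat_lit 0) (nat_lit 85315722176) (nat_lit 152) (nat_lit 27441464453) (nat_lit 0) (nat_lit 79610641335) (nat_lit 2) (nat_lit 5) (nat_lit 4) (nat_lit 4) (nat_lit 2) (nat_lit 4) (nat_lit 342) (nat_lit 212) (nat_lit 166)))))) (XT.nd (nat_lit 312) (nat_lit 0) (nat_lit 0) (XT.nd (nat_lit 156) (nat_lit 0) (nat_lit 0) (XT.nd (nat_lit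 78) (nat_lit 0) (nat_lit 0) (XT.lf (nat_lit 0) (nat_lit 91105642504) (nat_lit 152) (nat_lit 25418478522) (nat_lit 0) (nat_lit 85368351300) (nat_lit 2) (nat_lit 5) (nat_lit 4) (nat_lit 4) (nat_lit 2) (nat_lit 4) (nat_lit 343) (nat_lit 212) (nat_lit 165)) (XT.lf (nat_lit 0) (nat_lit 97170009270) (nat_lit 152) (nat_lit 23322063538) (nat_lit 0) (nat_lit 91402041531) (nat_lit 2) (nat_lit 5) (nat_lit 4) (nat_lit 4) (nat_lit 2) (nat_lit 4) (nat_lit 344) (nat_lit 212) (nat_lit 164))) (XT.nd (nat_lit 78) (nat_lit 0) (nat_lit 0) (XT.lf (nat_lit 0) (nat_lit 103523261443) (nat_lit 152) (nat_lit 21147228039) (nat_lit 0) (nat_lit 97726077955) (nat_lit 2) (nat_lit 5) (nat_lit 4) (nat_lit 4) (nat_lit 2) (nat_lit 4) (nat_lit 345) (nat_lit 212) (nat_lit 163)) (XT.lf (nat_lit 0) (nat_lit 110180525814) (nat_lit 152) (nat_lit 18888793842) (nat_lit 0) (nat_lit 104355517803) (nat_lit 2) (nat_lit 5) (nat_lit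 4) (nat_lit 4) (nat_lit 2) (nat_lit 4) (nat_lit 346) (nat_lit 212) (nat_lit 162)))) (XT.nd (nat_lit 156) (nat_lit 0) (nat_lit 0) (XT.nd (nat_lit 78) (nat_lit 0) (nat_lit 0) (XT.lf (nat_lit 0) (nat_lit 117157653012) (nat_lit 152) (nat_lit 16541383726) (nat_lit 0) (nat_lit 111306145455) (nat_lit 2) (nat_lit 5) (nat_lit 4) (nat_lit 4) (nat_lit 2) (nat_lit 4) (nat_lit 347) (nat_lit 212) (nat_lit 161)) (XT.lf (nat_lit 0) (nat_lit 124471255244) (nat_lit 152) (nat_lit 14099408617) (nat_lit 0) (nat_lit 118594510026) (nat_lit 2) (nat_lit 5) (nat_lit 4) (nat_lit 4) (nat_lit 2) (nat_lit 4) (nat_lit 348) (nat_lit 212) (nat_lit 160))) (XT.nd (nat_lit 78) (nat_lit 0) (nat_lit 0) (XT.lf (nat_lit 0) (nat_lit 132138745850) (nat_lit 152) (nat_lit 11557054290) (nat_lit 0) (nat_lit 126237964763) (nat_lit 2) (nat_lit 5) (nat_lit 4) (nat_lit 4) (nat_lit 2) (nat_lit 4) (nat_lit 349) (nat_lit 212) (nat_lit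 159)) (XT.nd (nat_lit 78) (nat_lit 0) (nat_lit 0) (XT.lf (nat_lit 0) (nat_lit 140178380759) (nat_lit 152) (nat_lit 8908267520) (nat_lit 0) (nat_lit 134254708368) (nat_lit 2) (nat_lit 5) (nat_lit 4) (nat_lit 4) (nat_lit 2) (nat_lit 4) (nat_lit 350) (nat_lit 212) (nat_lit 158)) (XT.lf (nat_lit 0) (nat_lit 148609301959) (nat_lit 152) (nat_lit 6146741671) (nat_lit 0) (nat_lit 142663828327) (nat_lit 2) (nat_lit 5) (nat_lit 4) (nat_lit 4) (nat_lit 2) (nat_lit 4) (nat_lit 351) (nat_lit 212) (nat_lit 157))))))))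
noncomputable def xc35 : XT := (XT.nd (nat_lit 33306) (nat_lit 0) (nat_lit 228) (XT.nd (nat_lit 624) (nat_lit 0) (nat_lit 0) (XT.nd (nat_lit 312) (nat_lit 0) (nat_lit 0) (XT.nd (nat_lit 156) (nat_lit 76) (nat_lit 0) (XT.nd (nat_lit 78) (nat_lit 0) (nat_lit 0) (XT.lf (nat_lit 0) (nat_lit 157451583073) (nat_lit 152) (nat_lit 3265901683) (nat_lit 0) (nat_lit 151485346354) (nat_lit 2) (nat_lit 5) (nat_lit 4) (nat_lit 4) (nat_lit 2) (nat_lit 4) (nat_lit 352) (nat_lit 212) (nat_lit 156)) (XT.lf (nat_lit 0) (nat_lit 166726277150) (nat_lit 152) (nat_lit 258888411) (nat_lit 0) (nat_lit 160740266062) (nat_lit 2) (nat_lit 5) (nat_lit 4) (nat_lit 4) (nat_lit 2) (nat_lit 4) (nat_lit 353) (nat_lit 212) (nat_lit 155))) (XT.nd (nat_lit 78) (nat_lit 0) (nat_lit 0) (XT.lf (nat_lit 0) (nat_lit 2976731701) (nat_lit 76) (nat_lit 173525210217) (nat_lit 76) (nat_lit 167520366398) (nat_lit 1) (nat_lit 4) (nat_lit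 2) (nat_lit 5) (nat_lit 2) (nat_lit 4) (nat_lit 354) (nat_lit 212) (nat_lit 154)) (XT.lf (nat_lit 0) (nat_lit 6366377498) (nat_lit 76) (nat_lit 180395336243) (nat_lit 76) (nat_lit 174372556488) (nat_lit 1) (nat_lit 4) (nat_lit 2) (nat_lit 5) (nat_lit 2) (nat_lit 4) (nat_lit 355) (nat_lit 212) (nat_lit 153)))) (XT.nd (nat_lit 156) (nat_lit 0) (nat_lit 0) (XT.nd (nat_lit 78) (nat_lit 0) (nat_lit 0) (XT.lf (nat_lit 0) (nat_lit 9909559541) (nat_lit 76) (nat_lit 187616285481) (nat_lit 76) (nat_lit 181576423883) (nat_lit 1) (nat_lit 4) (nat_lit 2) (nat_lit 5) (nat_lit 2) (nat_lit 4) (nat_lit 356) (nat_lit 212) (nat_lit 152)) (XT.lf (nat_lit 0) (nat_lit 13614713980) (nat_lit 76) (nat_lit 195205250668) (nat_lit 76) (nat_lit 189149120648) (nat_lit 1) (nat_lit 4) (nat_lit 2) (nat_lit 5) (nat_lit 2) (nat_lit 4) (nat_lit 357) (nat_lit 212) (nat_lit 151))) (XT.nd (nat_lit 78) (nat_lit 0) (nat_lit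 0) (XT.lf (nat_lit 0) (nat_lit 17490662611) (nat_lit 76) (nat_lit 203180300769) (nat_lit 76) (nat_lit 197108677014) (nat_lit 1) (nat_lit 4) (nat_lit 2) (nat_lit 5) (nat_lit 2) (nat_lit 4) (nat_lit 358) (nat_lit 212) (nat_lit 150)) (XT.lf (nat_lit 0) (nat_lit 21546633882) (nat_lit 76) (nat_lit 211560423999) (nat_lit 76) (nat_lit 205474044305) (nat_lit 1) (nat_lit 4) (nat_lit 2) (nat_lit 5) (nat_lit 2) (nat_lit 4) (nat_lit 359) (nat_lit 212) (nat_lit 149))))) (XT.nd (nat_lit 312) (nat_lit 0) (nat_lit 0) (XT.nd (nat_lit 156) (nat_lit 0) (nat_lit 0) (XT.nd (nat_lit 78) (nat_lit 0) (nat_lit 0) (XT.lf (nat_lit 0) (nat_lit 25792284868) (nat_lit 76) (nat_lit 220365573031) (nat_lit 76) (nat_lit 214265140063) (nat_lit 1) (nat_lit 4) (nat_lit 2) (nat_lit 5) (nat_lit 2) (nat_lit 4) (nat_lit 360) (nat_lit 212) (nat_lit 148)) (XT.lf (nat_lit 0) (nat_lit 30237724262) (nat_lit 76) (nat_lit 229616712507)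 (nat_lit 76) (nat_lit 223502895467) (nat_lit 1) (nat_lit 4) (nat_lit 2) (nat_lit 5) (nat_lit 2) (nat_lit 4) (nat_lit 361) (nat_lit 212) (nat_lit 147))) (XT.nd (nat_lit 78) (nat_lit 0) (nat_lit 0) (XT.lf (nat_lit 0) (nat_lit 34893536444) (nat_lit 76) (nat_lit 239335868948) (nat_lit 76) (nat_lit 233209305175) (nat_lit 1) (nat_lit 4) (nat_lit 2) (nat_lit 5) (nat_lit 2) (nat_lit 4) (nat_lit 362) (nat_lit 212) (nat_lit 146)) (XT.lf (nat_lit 0) (nat_lit 39770806680) (nat_lit 76) (nat_lit 249546183205) (nat_lit 76) (nat_lit 243407479684) (nat_lit 1) (nat_lit 4) (nat_lit 2) (nat_lit 5) (nat_lit 2) (nat_lit 4) (nat_lit 363) (nat_lit 212) (nat_lit 145)))) (XT.nd (nat_lit 32136) (nat_lit 0) (nat_lit 532) (XT.nd (nat_lit 32058) (nat_lit 0) (nat_lit 684) (XT.lf (nat_lit 0) (nat_lit 44881147519) (nat_lit 76) (nat_lit 260271965548) (nat_lit 76) (nat_lit 254121700363) (nat_lit 1) (nat_lit 4) (nat_lit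 2) (nat_lit 5) (nat_lit 2) (nat_lit 4) (nat_lit 364) (nat_lit 212) (nat_lit 144)) (XT.lf (nat_lit 0) (nat_lit 9432531501) (nat_lit 76) (nat_lit 607151546) (nat_lit 76) (nat_lit 607151546) (nat_lit 10) (nat_lit 4) (nat_lit 11) (nat_lit 5) (nat_lit 11) (nat_lit 4) (nat_lit 294) (nat_lit 213) (nat_lit 213))) (XT.nd (nat_lit 78) (nat_lit 0) (nat_lit 0) (XT.lf (nat_lit 0) (nat_lit 2312455265) (nat_lit 152) (nat_lit 17885923075) (nat_lit 0) (nat_lit 1960675163) (nat_lit 8) (nat_lit 5) (nat_lit 10) (nat_lit 4) (nat_lit 8) (nat_lit 4) (nat_lit 295) (nat_lit 213) (nat_lit 212)) (XT.nd (nat_lit 78) (nat_lit 0) (nat_lit 0) (XT.lf (nat_lit 0) (nat_lit 5911194244) (nat_lit 152) (nat_lit 11934450902) (nat_lit 0) (nat_lit 5224385472) (nat_lit 8) (nat_lit 5) (nat_lit 10) (nat_lit 4) (nat_lit 8) (nat_lit 4) (nat_lit 296) (nat_lit 213) (nat_lit 211)) (XT.lf (nat_lit 0) (nat_lit 9570575660) (nat_lit 152)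 (nat_lit 5897388429) (nat_lit 0) (nat_lit 8564691965) (nat_lit 8) (nat_lit 5) (nat_lit 10) (nat_lit 4) (nat_lit 8) (nat_lit 4) (nat_lit 297) (nat_lit 213) (nat_lit 210))))))) (XT.nd (nat_lit 702) (nat_lit 76) (nat_lit 0) (XT.nd (nat_lit 312) (nat_lit 152) (nat_lit 0) (XT.nd (nat_lit 156) (nat_lit 0) (nat_lit 0) (XT.nd (nat_lit 78) (nat_lit 0) (nat_lit 0) (XT.lf (nat_lit 0) (nat_lit 247561824) (nat_lit 76) (nat_lit 13055615635) (nat_lit 76) (nat_lit 11745851062) (nat_lit 7) (nat_lit 4) (nat_lit 8) (nat_lit 5) (nat_lit 8) (nat_lit 4) (nat_lit 298) (nat_lit 213) (nat_lit 209)) (XT.lf (nat_lit 0) (nat_lit 6705871006) (nat_lit 76) (nat_lit 10505108620) (nat_lit 76) (nat_lit 8905933685) (nat_lit 7) (nat_lit 4) (nat_lit 8) (nat_lit 5) (nat_lit 8) (nat_lit 4) (nat_lit 299) (nat_lit 213) (nat_lit 208))) (XT.nd (nat_lit 78) (nat_lit 0) (nat_lit 0) (XT.lf (nat_lit 0) (nat_lit 13297921748) (nat_lit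 76) (nat_lit 7910245534) (nat_lit 76) (nat_lit 6035441683) (nat_lit 7) (nat_lit 4) (nat_lit 8) (nat_lit 5) (nat_lit 8) (nat_lit 4) (nat_lit 300) (nat_lit 213) (nat_lit 207)) (XT.lf (nat_lit 0) (nat_lit 20039409408) (nat_lit 76) (nat_lit 5264848131) (nat_lit 76) (nat_lit 3127540553) (nat_lit 7) (nat_lit 4) (nat_lit 8) (nat_lit 5) (nat_lit 8) (nat_lit 4) (nat_lit 301) (nat_lit 213) (nat_lit 206)))) (XT.nd (nat_lit 156) (nat_lit 0) (nat_lit 0) (XT.nd (nat_lit 78) (nat_lit 152) (nat_lit 0) (XT.lf (nat_lit 0) (nat_lit 26946385147) (nat_lit 76) (nat_lit 2562617848) (nat_lit 76) (nat_lit 175306718) (nat_lit 7) (nat_lit 4) (nat_lit 8) (nat_lit 5) (nat_lit 8) (nat_lit 4) (nat_lit 302) (nat_lit 213) (nat_lit 205)) (XT.lf (nat_lit 0) (nat_lit 2790624832) (nat_lit 152) (nat_lit 27918415759) (nat_lit 0) (nat_lit 290234593) (nat_lit 5) (nat_lit 5) (nat_lit 7) (nat_lit 4) (nat_lit 5) (nat_lit 4) (nat_lit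 303) (nat_lit 213) (nat_lit 204))) (XT.nd (nat_lit 78) (nat_lit 0) (nat_lit 0) (XT.lf (nat_lit 0) (nat_lit 5895674500) (nat_lit 152) (nat_lit 23305104489) (nat_lit 0) (nat_lit 3179321794) (nat_lit 5) (nat_lit 5) (nat_lit 7) (nat_lit 4) (nat_lit 5) (nat_lit 4) (nat_lit 304) (nat_lit 213) (nat_lit 203)) (XT.nd (nat_lit 78) (nat_lit 0) (nat_lit 0) (XT.lf (nat_lit 0) (nat_lit 9067952515) (nat_lit 152) (nat_lit 18620581940) (nat_lit 0) (nat_lit 6145921269) (nat_lit 5) (nat_lit 5) (nat_lit 7) (nat_lit 4) (nat_lit 5) (nat_lit 4) (nat_lit 305) (nat_lit 213) (nat_lit 202)) (XT.lf (nat_lit 0) (nat_lit 12315011920) (nat_lit 152) (nat_lit 13853694486) (nat_lit 0) (nat_lit 9197096350) (nat_lit 5) (nat_lit 5) (nat_lit 7) (nat_lit 4) (nat_lit 5) (nat_lit 4) (nat_lit 306) (nat_lit 213) (nat_lit 201)))))) (XT.nd (nat_lit 312) (nat_lit 0) (nat_lit 0) (XT.nd (nat_lit 156) (nat_lit 76) (nat_lit 0) (XT.nd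 (nat_lit 78) (nat_lit 0) (nat_lit 0) (XT.lf (nat_lit 0) (nat_lit 15644583808) (nat_lit 152) (nat_lit 8993092397) (nat_lit 0) (nat_lit 12340111739) (nat_lit 5) (nat_lit 5) (nat_lit 7) (nat_lit 4) (nat_lit 5) (nat_lit 4) (nat_lit 307) (nat_lit 213) (nat_lit 200)) (XT.lf (nat_lit 0) (nat_lit 19064595732) (nat_lit 152) (nat_lit 4027202809) (nat_lit 0) (nat_lit 15582450807) (nat_lit 5) (nat_lit 5) (nat_lit 7) (nat_lit 4) (nat_lit 5) (nat_lit 4) (nat_lit 308) (nat_lit 213) (nat_lit 199))) (XT.nd (nat_lit 78) (nat_lit 0) (nat_lit 0) (XT.lf (nat_lit 0) (nat_lit 1090707267) (nat_lit 76) (nat_lit 21509512307) (nat_lit 76) (nat_lit 17858155137) (nat_lit 4) (nat_lit 4) (nat_lit 5) (nat_lit 5) (nat_lit 5) (nat_lit 4) (nat_lit 309) (nat_lit 213) (nat_lit 198)) (XT.lf (nat_lit 0) (nat_lit 6475260663) (nat_lit 76) (nat_lit 19834582253) (nat_lit 76) (nat_lit 16022070565) (nat_lit 4) (nat_lit 4) (nat_lit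 5) (nat_lit 5) (nat_lit 5) (nat_lit 4) (nat_lit 310) (nat_lit 213) (nat_lit 197)))) (XT.nd (nat_lit 156) (nat_lit 0) (nat_lit 0) (XT.nd (nat_lit 78) (nat_lit 0) (nat_lit 0) (XT.lf (nat_lit 0) (nat_lit 12006120231) (nat_lit 76) (nat_lit 18131223079) (nat_lit 76) (nat_lit 14165230897) (nat_lit 4) (nat_lit 4) (nat_lit 5) (nat_lit 5) (nat_lit 5) (nat_lit 4) (nat_lit 311) (nat_lit 213) (nat_lit 196)) (XT.lf (nat_lit 0) (nat_lit 17696454685) (nat_lit 76) (nat_lit 16395379167) (nat_lit 76) (nat_lit 12283215087) (nat_lit 4) (nat_lit 4) (nat_lit 5) (nat_lit 5) (nat_lit 5) (nat_lit 4) (nat_lit 312) (nat_lit 213) (nat_lit 195))) (XT.nd (nat_lit 78) (nat_lit 0) (nat_lit 0) (XT.lf (nat_lit 0) (nat_lit 23559812439) (nat_lit 76) (nat_lit 14622917557) (nat_lit 76) (nat_lit 10371542145) (nat_lit 4) (nat_lit 4) (nat_lit 5) (nat_lit 5) (nat_lit 5) (nat_lit 4) (nat_lit 313) (nat_lit 213) (nat_lit 194))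 (XT.nd (nat_lit 78) (nat_lit 0) (nat_lit 0) (XT.lf (nat_lit 0) (nat_lit 29610153869) (nat_lit 76) (nat_lit 12809618102) (nat_lit 76) (nat_lit 8425660468) (nat_lit 4) (nat_lit 4) (nat_lit 5) (nat_lit 5) (nat_lit 5) (nat_lit 4) (nat_lit 314) (nat_lit 213) (nat_lit 193)) (XT.lf (nat_lit 0) (nat_lit 35861884551) (nat_lit 76) (nat_lit 10951163421) (nat_lit 76) (nat_lit 6440937006) (nat_lit 4) (nat_lit 4) (nat_lit 5) (nat_lit 5) (nat_lit 5) (nat_lit 4) (nat_lit 315) (nat_lit 213) (nat_lit 192))))))))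
noncomputable def xc36 : XT := (XT.nd (nat_lit 1326) (nat_lit 0) (nat_lit 0) (XT.nd (nat_lit 624) (nat_lit 0) (nat_lit 0) (XT.nd (nat_lit 312) (nat_lit 76) (nat_lit 0) (XT.nd (nat_lit 156) (nat_lit 76) (nat_lit 0) (XT.nd (nat_lit 78) (nat_lit 0) (nat_lit 0) (XT.lf (nat_lit 0) (nat_lit 42329889557) (nat_lit 76) (nat_lit 9043128623) (nat_lit 76) (nat_lit 4412646225) (nat_lit 4) (nat_lit 4) (nat_lit 5) (nat_lit 5) (nat_lit 5) (nat_lit 4) (nat_lit 316) (nat_lit 213) (nat_lit 191)) (XT.lf (nat_lit 0) (nat_lit 49029568898) (nat_lit 76) (nat_lit 7080970768) (nat_lit 76) (nat_lit 2335958862) (nat_lit 4) (nat_lit 4) (nat_lit 5) (nat_lit 5) (nat_lit 5) (nat_lit 4) (nat_lit 317) (nat_lit 213) (nat_lit 190))) (XT.nd (nat_lit 78) (nat_lit 76) (nat_lit 0) (XT.lf (nat_lit 0) (nat_lit 55976874194) (nat_lit 76) (nat_lit 5060018051) (nat_lit 76) (nat_lit 205930424) (nat_lit 4) (nat_lit 4) (nat_lit 5)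 (nat_lit 5) (nat_lit 5) (nat_lit 4) (nat_lit 318) (nat_lit 213) (nat_lit 189)) (XT.lf (nat_lit 0) (nat_lit 1919057865) (nat_lit 152) (nat_lit 1023900641) (nat_lit 76) (nat_lit 61236788607) (nat_lit 3) (nat_lit 5) (nat_lit 5) (nat_lit 5) (nat_lit 4) (nat_lit 4) (nat_lit 319) (nat_lit 213) (nat_lit 188)))) (XT.nd (nat_lit 156) (nat_lit 0) (nat_lit 0) (XT.nd (nat_lit 78) (nat_lit 0) (nat_lit 0) (XT.lf (nat_lit 0) (nat_lit 3456769970) (nat_lit 76) (nat_lit 696241800) (nat_lit 152) (nat_lit 63109895162) (nat_lit 2) (nat_lit 5) (nat_lit 3) (nat_lit 5) (nat_lit 4) (nat_lit 4) (nat_lit 320) (nat_lit 213) (nat_lit 187)) (XT.lf (nat_lit 0) (nat_lit 6498225086) (nat_lit 152) (nat_lit 62409670444) (nat_lit 0) (nat_lit 1592389020) (nat_lit 2) (nat_lit 5) (nat_lit 4) (nat_lit 4) (nat_lit 2) (nat_lit 4) (nat_lit 321) (nat_lit 213) (nat_lit 186))) (XT.nd (nat_lit 78) (nat_lit 0) (nat_lit 0) (XT.lf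 (nat_lit 0) (nat_lit 8930185306) (nat_lit 152) (nat_lit 61032021964) (nat_lit 0) (nat_lit 3938885558) (nat_lit 2) (nat_lit 5) (nat_lit 4) (nat_lit 4) (nat_lit 2) (nat_lit 4) (nat_lit 322) (nat_lit 213) (nat_lit 185)) (XT.lf (nat_lit 0) (nat_lit 11443812526) (nat_lit 152) (nat_lit 59659041122) (nat_lit 0) (nat_lit 6371118795) (nat_lit 2) (nat_lit 5) (nat_lit 4) (nat_lit 4) (nat_lit 2) (nat_lit 4) (nat_lit 323) (nat_lit 213) (nat_lit 184))))) (XT.nd (nat_lit 312) (nat_lit 0) (nat_lit 0) (XT.nd (nat_lit 156) (nat_lit 0) (nat_lit 0) (XT.nd (nat_lit 78) (nat_lit 0) (nat_lit 0) (XT.lf (nat_lit 0) (nat_lit 14045091572) (nat_lit 152) (nat_lit 58287458914) (nat_lit 0) (nat_lit 8894879763) (nat_lit 2) (nat_lit 5) (nat_lit 4) (nat_lit 4) (nat_lit 2) (nat_lit 4) (nat_lit 324) (nat_lit 213) (nat_lit 183)) (XT.lf (nat_lit 0) (nat_lit 16740215967) (nat_lit 152) (nat_lit 56914009669) (nat_lit 0) (nat_lit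 11516177415) (nat_lit 2) (nat_lit 5) (nat_lit 4) (nat_lit 4) (nat_lit 2) (nat_lit 4) (nat_lit 325) (nat_lit 213) (nat_lit 182))) (XT.nd (nat_lit 78) (nat_lit 0) (nat_lit 0) (XT.lf (nat_lit 0) (nat_lit 19535602672) (nat_lit 152) (nat_lit 55535423269) (nat_lit 0) (nat_lit 14241252938) (nat_lit 2) (nat_lit 5) (nat_lit 4) (nat_lit 4) (nat_lit 2) (nat_lit 4) (nat_lit 326) (nat_lit 213) (nat_lit 181)) (XT.lf (nat_lit 0) (nat_lit 22437907371) (nat_lit 152) (nat_lit 54148417367) (nat_lit 0) (nat_lit 17076594607) (nat_lit 2) (nat_lit 5) (nat_lit 4) (nat_lit 4) (nat_lit 2) (nat_lit 4) (nat_lit 327) (nat_lit 213) (nat_lit 180)))) (XT.nd (nat_lit 156) (nat_lit 0) (nat_lit 0) (XT.nd (nat_lit 78) (nat_lit 0) (nat_lit 0) (XT.lf (nat_lit 0) (nat_lit 25454040313) (nat_lit 152) (nat_lit 52749689568) (nat_lit 0) (nat_lit 20028953233) (nat_lit 2) (nat_lit 5) (nat_lit 4) (nat_lit 4) (nat_lit 2) (nat_lit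 4) (nat_lit 328) (nat_lit 213) (nat_lit 179)) (XT.lf (nat_lit 0) (nat_lit 28591182767) (nat_lit 152) (nat_lit 51335909566) (nat_lit 0) (nat_lit 23105358244) (nat_lit 2) (nat_lit 5) (nat_lit 4) (nat_lit 4) (nat_lit 2) (nat_lit 4) (nat_lit 329) (nat_lit 213) (nat_lit 178))) (XT.nd (nat_lit 78) (nat_lit 0) (nat_lit 0) (XT.lf (nat_lit 0) (nat_lit 31856804119) (nat_lit 152) (nat_lit 49903711219) (nat_lit 0) (nat_lit 26313134413) (nat_lit 2) (nat_lit 5) (nat_lit 4) (nat_lit 4) (nat_lit 2) (nat_lit 4) (nat_lit 330) (nat_lit 213) (nat_lit 177)) (XT.nd (nat_lit 78) (nat_lit 0) (nat_lit 0) (XT.lf (nat_lit 0) (nat_lit 35258679659) (nat_lit 152) (nat_lit 48449684531) (nat_lit 0) (nat_lit 29659919301) (nat_lit 2) (nat_lit 5) (nat_lit 4) (nat_lit 4) (nat_lit 2) (nat_lit 4) (nat_lit 331) (nat_lit 213) (nat_lit 176)) (XT.lf (nat_lit 0) (nat_lit 38804909090) (nat_lit 152) (nat_lit 46970367534) (nat_lit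 0) (nat_lit 33153681445) (nat_lit 2) (nat_lit 5) (nat_lit 4) (nat_lit 4) (nat_lit 2) (nat_lit 4) (nat_lit 332) (nat_lit 213) (nat_lit 175))))))) (XT.nd (nat_lit 702) (nat_lit 0) (nat_lit 0) (XT.nd (nat_lit 312) (nat_lit 0) (nat_lit 0) (XT.nd (nat_lit 156) (nat_lit 0) (nat_lit 0) (XT.nd (nat_lit 78) (nat_lit 0) (nat_lit 0) (XT.lf (nat_lit 0) (nat_lit 42503935816) (nat_lit 152) (nat_lit 45462238045) (nat_lit 0) (nat_lit 36802739326) (nat_lit 2) (nat_lit 5) (nat_lit 4) (nat_lit 4) (nat_lit 2) (nat_lit 4) (nat_lit 333) (nat_lit 213) (nat_lit 174)) (XT.lf (nat_lit 0) (nat_lit 46364567043) (nat_lit 152) (nat_lit 43921705278) (nat_lit 0) (nat_lit 40615781177) (nat_lit 2) (nat_lit 5) (nat_lit 4) (nat_lit 4) (nat_lit 2) (nat_lit 4) (nat_lit 334) (nat_lit 213) (nat_lit 173))) (XT.nd (nat_lit 78) (nat_lit 0) (nat_lit 0) (XT.lf (nat_lit 0) (nat_lit 50395994750) (nat_lit 152) (nat_lit 42345101299)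 (nat_lit 0) (nat_lit 44601885669) (nat_lit 2) (nat_lit 5) (nat_lit 4) (nat_lit 4) (nat_lit 2) (nat_lit 4) (nat_lit 335) (nat_lit 213) (nat_lit 172)) (XT.lf (nat_lit 0) (nat_lit 54607817574) (nat_lit 152) (nat_lit 40728672289) (nat_lit 0) (nat_lit 48770543527) (nat_lit 2) (nat_lit 5) (nat_lit 4) (nat_lit 4) (nat_lit 2) (nat_lit 4) (nat_lit 336) (nat_lit 213) (nat_lit 171)))) (XT.nd (nat_lit 156) (nat_lit 0) (nat_lit 0) (XT.nd (nat_lit 78) (nat_lit 0) (nat_lit 0) (XT.lf (nat_lit 0) (nat_lit 59010063666) (nat_lit 152) (nat_lit 39068569606) (nat_lit 0) (nat_lit 53131680127) (nat_lit 2) (nat_lit 5) (nat_lit 4) (nat_lit 4) (nat_lit 2) (nat_lit 4) (nat_lit 337) (nat_lit 213) (nat_lit 170)) (XT.lf (nat_lit 0) (nat_lit 63613214564) (nat_lit 152) (nat_lit 37360840627) (nat_lit 0) (nat_lit 57695679127) (nat_lit 2) (nat_lit 5) (nat_lit 4) (nat_lit 4) (nat_lit 2) (nat_lit 4) (nat_lit 338) (nat_lit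 213) (nat_lit 169))) (XT.nd (nat_lit 78) (nat_lit 0) (nat_lit 0) (XT.lf (nat_lit 0) (nat_lit 68428230150) (nat_lit 152) (nat_lit 35601419329) (nat_lit 0) (nat_lit 62473407191) (nat_lit 2) (nat_lit 5) (nat_lit 4) (nat_lit 4) (nat_lit 2) (nat_lit 4) (nat_lit 339) (nat_lit 213) (nat_lit 168)) (XT.nd (nat_lit 78) (nat_lit 0) (nat_lit 0) (XT.lf (nat_lit 0) (nat_lit 73466574747) (nat_lit 152) (nat_lit 33786116614) (nat_lit 0) (nat_lit 67476239864) (nat_lit 2) (nat_lit 5) (nat_lit 4) (nat_lit 4) (nat_lit 2) (nat_lit 4) (nat_lit 340) (nat_lit 213) (nat_lit 167)) (XT.lf (nat_lit 0) (nat_lit 78740244414) (nat_lit 152) (nat_lit 31910610333) (nat_lit 0) (nat_lit 72716088650) (nat_lit 2) (nat_lit 5) (nat_lit 4) (nat_lit 4) (nat_lit 2) (nat_lit 4) (nat_lit 341) (nat_lit 213) (nat_lit 166)))))) (XT.nd (nat_lit 312) (nat_lit 0) (nat_lit 0) (XT.nd (nat_lit 156) (nat_lit 0) (nat_lit 0) (XT.nd (nat_lit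 78) (nat_lit 0) (nat_lit 0) (XT.lf (nat_lit 0) (nat_lit 84261795508) (nat_lit 152) (nat_lit 29970434995) (nat_lit 0) (nat_lit 78205429381) (nat_lit 2) (nat_lit 5) (nat_lit 4) (nat_lit 4) (nat_lit 2) (nat_lit 4) (nat_lit 342) (nat_lit 213) (nat_lit 165)) (XT.lf (nat_lit 0) (nat_lit 90044374578) (nat_lit 152) (nat_lit 27960971134) (nat_lit 0) (nat_lit 83957331915) (nat_lit 2) (nat_lit 5) (nat_lit 4) (nat_lit 4) (nat_lit 2) (nat_lit 4) (nat_lit 343) (nat_lit 213) (nat_lit 164))) (XT.nd (nat_lit 78) (nat_lit 0) (nat_lit 0) (XT.lf (nat_lit 0) (nat_lit 96101749671) (nat_lit 152) (nat_lit 25877434312) (nat_lit 0) (nat_lit 89985491259) (nat_lit 2) (nat_lit 5) (nat_lit 4) (nat_lit 4) (nat_lit 2) (nat_lit 4) (nat_lit 344) (nat_lit 213) (nat_lit 163)) (XT.lf (nat_lit 0) (nat_lit 102448343106) (nat_lit 152) (nat_lit 23714863729) (nat_lit 0) (nat_lit 96304260172) (nat_lit 2) (nat_lit 5) (nat_lit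 4) (nat_lit 4) (nat_lit 2) (nat_lit 4) (nat_lit 345) (nat_lit 213) (nat_lit 162)))) (XT.nd (nat_lit 156) (nat_lit 0) (nat_lit 0) (XT.nd (nat_lit 78) (nat_lit 0) (nat_lit 0) (XT.lf (nat_lit 0) (nat_lit 109099265823) (nat_lit 152) (nat_lit 21468110406) (nat_lit 0) (nat_lit 102928683343) (nat_lit 2) (nat_lit 5) (nat_lit 4) (nat_lit 4) (nat_lit 2) (nat_lit 4) (nat_lit 346) (nat_lit 213) (nat_lit 161)) (XT.lf (nat_lit 0) (nat_lit 116070353349) (nat_lit 152) (nat_lit 19131824930) (nat_lit 0) (nat_lit 109874533208) (nat_lit 2) (nat_lit 5) (nat_lit 4) (nat_lit 4) (nat_lit 2) (nat_lit 4) (nat_lit 347) (nat_lit 213) (nat_lit 160))) (XT.nd (nat_lit 78) (nat_lit 0) (nat_lit 0) (XT.lf (nat_lit 0) (nat_lit 123378203514) (nat_lit 152) (nat_lit 16700444718) (nat_lit 0) (nat_lit 117158347504) (nat_lit 2) (nat_lit 5) (nat_lit 4) (nat_lit 4) (nat_lit 2) (nat_lit 4) (nat_lit 348) (nat_lit 213) (nat_lit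 159)) (XT.nd (nat_lit 78) (nat_lit 0) (nat_lit 0) (XT.lf (nat_lit 0) (nat_lit 131040215961) (nat_lit 152) (nat_lit 14168180768) (nat_lit 0) (nat_lit 124797468647) (nat_lit 2) (nat_lit 5) (nat_lit 4) (nat_lit 4) (nat_lit 2) (nat_lit 4) (nat_lit 349) (nat_lit 213) (nat_lit 158)) (XT.lf (nat_lit 0) (nat_lit 139074633575) (nat_lit 152) (nat_lit 11529003880) (nat_lit 0) (nat_lit 132810085020) (nat_lit 2) (nat_lit 5) (nat_lit 4) (nat_lit 4) (nat_lit 2) (nat_lit 4) (nat_lit 350) (nat_lit 213) (nat_lit 157))))))))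
noncomputable def xc37 : XT := (XT.nd (nat_lit 33150) (nat_lit 0) (nat_lit 228) (XT.nd (nat_lit 624) (nat_lit 0) (nat_lit 0) (XT.nd (nat_lit 312) (nat_lit 0) (nat_lit 0) (XT.nd (nat_lit 156) (nat_lit 76) (nat_lit 0) (XT.nd (nat_lit 78) (nat_lit 0) (nat_lit 0) (XT.lf (nat_lit 0) (nat_lit 147500585923) (nat_lit 152) (nat_lit 8776630301) (nat_lit 0) (nat_lit 141215274281) (nat_lit 2) (nat_lit 5) (nat_lit 4) (nat_lit 4) (nat_lit 2) (nat_lit 4) (nat_lit 351) (nat_lit 213) (nat_lit 156)) (XT.lf (nat_lit 0) (nat_lit 156338134797) (nat_lit 152) (nat_lit 5904506760) (nat_lit 0) (nat_lit 150033048786) (nat_lit 2) (nat_lit 5) (nat_lit 4) (nat_lit 4) (nat_lit 2) (nat_lit 4) (nat_lit 352) (nat_lit 213) (nat_lit 155))) (XT.nd (nat_lit 78) (nat_lit 76) (nat_lit 0) (XT.lf (nat_lit 0) (nat_lit 165608321978) (nat_lit 152) (nat_lit 2905794867) (nat_lit 0) (nat_lit 159284403236) (nat_lit 2) (nat_lit 5)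 (nat_lit 4) (nat_lit 4) (nat_lit 2) (nat_lit 4) (nat_lit 353) (nat_lit 213) (nat_lit 154)) (XT.lf (nat_lit 0) (nat_lit 234139080) (nat_lit 76) (nat_lit 175102735830) (nat_lit 76) (nat_lit 168760881152) (nat_lit 1) (nat_lit 4) (nat_lit 2) (nat_lit 5) (nat_lit 2) (nat_lit 4) (nat_lit 354) (nat_lit 213) (nat_lit 153)))) (XT.nd (nat_lit 156) (nat_lit 0) (nat_lit 0) (XT.nd (nat_lit 78) (nat_lit 0) (nat_lit 0) (XT.lf (nat_lit 0) (nat_lit 3616006319) (nat_lit 76) (nat_lit 181976431080) (nat_lit 76) (nat_lit 175617494559) (nat_lit 1) (nat_lit 4) (nat_lit 2) (nat_lit 5) (nat_lit 2) (nat_lit 4) (nat_lit 355) (nat_lit 213) (nat_lit 152)) (XT.lf (nat_lit 0) (nat_lit 7151780213) (nat_lit 76) (nat_lit 189200779580) (nat_lit 76) (nat_lit 182825574637) (nat_lit 1) (nat_lit 4) (nat_lit 2) (nat_lit 5) (nat_lit 2) (nat_lit 4) (nat_lit 356) (nat_lit 213) (nat_lit 151))) (XT.nd (nat_lit 78) (nat_lit 0)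 (nat_lit 0) (XT.lf (nat_lit 0) (nat_lit 10849879271) (nat_lit 76) (nat_lit 196792982160) (nat_lit 76) (nat_lit 190402283481) (nat_lit 1) (nat_lit 4) (nat_lit 2) (nat_lit 5) (nat_lit 2) (nat_lit 4) (nat_lit 357) (nat_lit 213) (nat_lit 150)) (XT.lf (nat_lit 0) (nat_lit 14719108491) (nat_lit 76) (nat_lit 204771115492) (nat_lit 76) (nat_lit 198365660875) (nat_lit 1) (nat_lit 4) (nat_lit 2) (nat_lit 5) (nat_lit 2) (nat_lit 4) (nat_lit 358) (nat_lit 213) (nat_lit 149))))) (XT.nd (nat_lit 312) (nat_lit 0) (nat_lit 0) (XT.nd (nat_lit 156) (nat_lit 0) (nat_lit 0) (XT.nd (nat_lit 78) (nat_lit 0) (nat_lit 0) (XT.lf (nat_lit 0) (nat_lit 18768680324) (nat_lit 76) (nat_lit 213154175132) (nat_lit 76) (nat_lit 206734667240) (nat_lit 1) (nat_lit 4) (nat_lit 2) (nat_lit 5) (nat_lit 2) (nat_lit 4) (nat_lit 359) (nat_lit 213) (nat_lit 148)) (XT.lf (nat_lit 0) (nat_lit 23008236607) (nat_lit 76) (nat_lit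 221962120745) (nat_lit 76) (nat_lit 215529228783) (nat_lit 1) (nat_lit 4) (nat_lit 2) (nat_lit 5) (nat_lit 2) (nat_lit 4) (nat_lit 360) (nat_lit 213) (nat_lit 147))) (XT.nd (nat_lit 78) (nat_lit 0) (nat_lit 0) (XT.lf (nat_lit 0) (nat_lit 27447871522) (nat_lit 76) (nat_lit 231215923632) (nat_lit 76) (nat_lit 224770284935) (nat_lit 1) (nat_lit 4) (nat_lit 2) (nat_lit 5) (nat_lit 2) (nat_lit 4) (nat_lit 361) (nat_lit 213) (nat_lit 146)) (XT.lf (nat_lit 0) (nat_lit 32098155629) (nat_lit 76) (nat_lit 240937616655) (nat_lit 76) (nat_lit 234479838212) (nat_lit 1) (nat_lit 4) (nat_lit 2) (nat_lit 5) (nat_lit 2) (nat_lit 4) (nat_lit 362) (nat_lit 213) (nat_lit 145)))) (XT.nd (nat_lit 31980) (nat_lit 0) (nat_lit 684) (XT.nd (nat_lit 78) (nat_lit 0) (nat_lit 0) (XT.lf (nat_lit 0) (nat_lit 36970161031) (nat_lit 76) (nat_lit 251150346704) (nat_lit 76) (nat_lit 244681006596) (nat_lit 1) (nat_lit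 4) (nat_lit 2) (nat_lit 5) (nat_lit 2) (nat_lit 4) (nat_lit 363) (nat_lit 213) (nat_lit 144)) (XT.lf (nat_lit 0) (nat_lit 42075487743) (nat_lit 76) (nat_lit 261878429801) (nat_lit 76) (nat_lit 255398078585) (nat_lit 1) (nat_lit 4) (nat_lit 2) (nat_lit 5) (nat_lit 2) (nat_lit 4) (nat_lit 364) (nat_lit 213) (nat_lit 143))) (XT.nd (nat_lit 78) (nat_lit 0) (nat_lit 0) (XT.lf (nat_lit 0) (nat_lit 2200536986) (nat_lit 76) (nat_lit 3821481437) (nat_lit 76) (nat_lit 3821481437) (nat_lit 10) (nat_lit 4) (nat_lit 11) (nat_lit 5) (nat_lit 11) (nat_lit 4) (nat_lit 292) (nat_lit 214) (nat_lit 214)) (XT.nd (nat_lit 78) (nat_lit 0) (nat_lit 0) (XT.lf (nat_lit 0) (nat_lit 11510885758) (nat_lit 76) (nat_lit 4673050930) (nat_lit 76) (nat_lit 4285213367) (nat_lit 10) (nat_lit 4) (nat_lit 11) (nat_lit 5) (nat_lit 11) (nat_lit 4) (nat_lit 293) (nat_lit 214) (nat_lit 213)) (XT.lf (nat_lit 0) (nat_lit 18759229546)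 (nat_lit 76) (nat_lit 1647376150) (nat_lit 76) (nat_lit 890169479) (nat_lit 10) (nat_lit 4) (nat_lit 11) (nat_lit 5) (nat_lit 11) (nat_lit 4) (nat_lit 294) (nat_lit 214) (nat_lit 212))))))) (XT.nd (nat_lit 702) (nat_lit 76) (nat_lit 0) (XT.nd (nat_lit 312) (nat_lit 228) (nat_lit 0) (XT.nd (nat_lit 156) (nat_lit 0) (nat_lit 0) (XT.nd (nat_lit 78) (nat_lit 0) (nat_lit 0) (XT.lf (nat_lit 0) (nat_lit 2556565136) (nat_lit 152) (nat_lit 18108505551) (nat_lit 0) (nat_lit 1500387256) (nat_lit 8) (nat_lit 5) (nat_lit 10) (nat_lit 4) (nat_lit 8) (nat_lit 4) (nat_lit 295) (nat_lit 214) (nat_lit 211)) (XT.lf (nat_lit 0) (nat_lit 6097111670) (nat_lit 152) (nat_lit 12260439870) (nat_lit 0) (nat_lit 4721858867) (nat_lit 8) (nat_lit 5) (nat_lit 10) (nat_lit 4) (nat_lit 8) (nat_lit 4) (nat_lit 296) (nat_lit 214) (nat_lit 210))) (XT.nd (nat_lit 78) (nat_lit 0) (nat_lit 0) (XT.lf (nat_lit 0) (nat_lit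 9701071710) (nat_lit 152) (nat_lit 6321859771) (nat_lit 0) (nat_lit 8021938028) (nat_lit 8) (nat_lit 5) (nat_lit 10) (nat_lit 4) (nat_lit 8) (nat_lit 4) (nat_lit 297) (nat_lit 214) (nat_lit 209)) (XT.lf (nat_lit 0) (nat_lit 13377026113) (nat_lit 152) (nat_lit 278625778) (nat_lit 0) (nat_lit 11408482070) (nat_lit 8) (nat_lit 5) (nat_lit 10) (nat_lit 4) (nat_lit 8) (nat_lit 4) (nat_lit 298) (nat_lit 214) (nat_lit 208)))) (XT.nd (nat_lit 156) (nat_lit 152) (nat_lit 0) (XT.nd (nat_lit 78) (nat_lit 0) (nat_lit 0) (XT.lf (nat_lit 0) (nat_lit 6078190825) (nat_lit 76) (nat_lit 11150433919) (nat_lit 76) (nat_lit 8906260961) (nat_lit 7) (nat_lit 4) (nat_lit 8) (nat_lit 5) (nat_lit 8) (nat_lit 4) (nat_lit 299) (nat_lit 214) (nat_lit 207)) (XT.lf (nat_lit 0) (nat_lit 12582355899) (nat_lit 76) (nat_lit 8594209291) (nat_lit 76) (nat_lit 6087532604) (nat_lit 7) (nat_lit 4) (nat_lit 8) (nat_lit 5)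 (nat_lit 8) (nat_lit 4) (nat_lit 300) (nat_lit 214) (nat_lit 206))) (XT.nd (nat_lit 78) (nat_lit 152) (nat_lit 0) (XT.lf (nat_lit 0) (nat_lit 19240142923) (nat_lit 76) (nat_lit 5985610420) (nat_lit 76) (nat_lit 3228930182) (nat_lit 7) (nat_lit 4) (nat_lit 8) (nat_lit 5) (nat_lit 8) (nat_lit 4) (nat_lit 301) (nat_lit 214) (nat_lit 205)) (XT.nd (nat_lit 78) (nat_lit 152) (nat_lit 0) (XT.lf (nat_lit 0) (nat_lit 26067403772) (nat_lit 76) (nat_lit 3318426357) (nat_lit 76) (nat_lit 323647498) (nat_lit 7) (nat_lit 4) (nat_lit 8) (nat_lit 5) (nat_lit 8) (nat_lit 4) (nat_lit 302) (nat_lit 214) (nat_lit 204)) (XT.lf (nat_lit 0) (nat_lit 2074169117) (nat_lit 76) (nat_lit 509103353) (nat_lit 152) (nat_lit 28444518886) (nat_lit 5) (nat_lit 5) (nat_lit 6) (nat_lit 5) (nat_lit 7) (nat_lit 4) (nat_lit 303) (nat_lit 214) (nat_lit 203)))))) (XT.nd (nat_lit 312) (nat_lit 76) (nat_lit 0) (XT.nd (nat_lit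 156) (nat_lit 0) (nat_lit 0) (XT.nd (nat_lit 78) (nat_lit 0) (nat_lit 0) (XT.lf (nat_lit 0) (nat_lit 5637435006) (nat_lit 152) (nat_lit 24410145017) (nat_lit 0) (nat_lit 2363623657) (nat_lit 5) (nat_lit 5) (nat_lit 7) (nat_lit 4) (nat_lit 5) (nat_lit 4) (nat_lit 304) (nat_lit 214) (nat_lit 202)) (XT.lf (nat_lit 0) (nat_lit 8768819113) (nat_lit 152) (nat_lit 19799701113) (nat_lit 0) (nat_lit 5299123440) (nat_lit 5) (nat_lit 5) (nat_lit 7) (nat_lit 4) (nat_lit 5) (nat_lit 4) (nat_lit 305) (nat_lit 214) (nat_lit 201))) (XT.nd (nat_lit 78) (nat_lit 0) (nat_lit 0) (XT.lf (nat_lit 0) (nat_lit 11976931939) (nat_lit 152) (nat_lit 15103364751) (nat_lit 0) (nat_lit 8320679767) (nat_lit 5) (nat_lit 5) (nat_lit 7) (nat_lit 4) (nat_lit 5) (nat_lit 4) (nat_lit 306) (nat_lit 214) (nat_lit 200)) (XT.lf (nat_lit 0) (nat_lit 15269411848) (nat_lit 152) (nat_lit 10309954176) (nat_lit 0) (nat_lit 11435486819)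 (nat_lit 5) (nat_lit 5) (nat_lit 7) (nat_lit 4) (nat_lit 5) (nat_lit 4) (nat_lit 307) (nat_lit 214) (nat_lit 199)))) (XT.nd (nat_lit 156) (nat_lit 76) (nat_lit 0) (XT.nd (nat_lit 78) (nat_lit 0) (nat_lit 0) (XT.lf (nat_lit 0) (nat_lit 18654098077) (nat_lit 152) (nat_lit 5408056508) (nat_lit 0) (nat_lit 14650960804) (nat_lit 5) (nat_lit 5) (nat_lit 7) (nat_lit 4) (nat_lit 5) (nat_lit 4) (nat_lit 308) (nat_lit 214) (nat_lit 198)) (XT.lf (nat_lit 0) (nat_lit 22139049403) (nat_lit 152) (nat_lit 386000560) (nat_lit 0) (nat_lit 17974757612) (nat_lit 5) (nat_lit 5) (nat_lit 7) (nat_lit 4) (nat_lit 5) (nat_lit 4) (nat_lit 309) (nat_lit 214) (nat_lit 197))) (XT.nd (nat_lit 78) (nat_lit 0) (nat_lit 0) (XT.lf (nat_lit 0) (nat_lit 4925828207) (nat_lit 76) (nat_lit 20883641104) (nat_lit 76) (nat_lit 16565868820) (nat_lit 4) (nat_lit 4) (nat_lit 5) (nat_lit 5) (nat_lit 5) (nat_lit 4) (nat_lit 310)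 (nat_lit 214) (nat_lit 196)) (XT.nd (nat_lit 78) (nat_lit 0) (nat_lit 0) (XT.lf (nat_lit 0) (nat_lit 10399581389) (nat_lit 76) (nat_lit 19205981062) (nat_lit 76) (nat_lit 14742036879) (nat_lit 4) (nat_lit 4) (nat_lit 5) (nat_lit 5) (nat_lit 5) (nat_lit 4) (nat_lit 311) (nat_lit 214) (nat_lit 195)) (XT.lf (nat_lit 0) (nat_lit 16035528807) (nat_lit 76) (nat_lit 17494612515) (nat_lit 76) (nat_lit 12891457000) (nat_lit 4) (nat_lit 4) (nat_lit 5) (nat_lit 5) (nat_lit 5) (nat_lit 4) (nat_lit 312) (nat_lit 214) (nat_lit 194))))))))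
noncomputable def xc38 : XT := (XT.nd (nat_lit 1326) (nat_lit 0) (nat_lit 0) (XT.nd (nat_lit 624) (nat_lit 0) (nat_lit 0) (XT.nd (nat_lit 312) (nat_lit 152) (nat_lit 0) (XT.nd (nat_lit 156) (nat_lit 0) (nat_lit 0) (XT.nd (nat_lit 78) (nat_lit 0) (nat_lit 0) (XT.lf (nat_lit 0) (nat_lit 21847089385) (nat_lit 76) (nat_lit 15745460776) (nat_lit 76) (nat_lit 11009723040) (nat_lit 4) (nat_lit 4) (nat_lit 5) (nat_lit 5) (nat_lit 5) (nat_lit 4) (nat_lit 313) (nat_lit 214) (nat_lit 193)) (XT.lf (nat_lit 0) (nat_lit 27848100171) (nat_lit 76) (nat_lit 13954361197) (nat_lit 76) (nat_lit 9092354679) (nat_lit 4) (nat_lit 4) (nat_lit 5) (nat_lit 5) (nat_lit 5) (nat_lit 4) (nat_lit 314) (nat_lit 214) (nat_lit 192))) (XT.nd (nat_lit 78) (nat_lit 0) (nat_lit 0) (XT.lf (nat_lit 0) (nat_lit 34052849287) (nat_lit 76) (nat_lit 12117049256) (nat_lit 76) (nat_lit 7134786756) (nat_lit 4) (nat_lit 4) (nat_lit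 5) (nat_lit 5) (nat_lit 5) (nat_lit 4) (nat_lit 315) (nat_lit 214) (nat_lit 191)) (XT.lf (nat_lit 0) (nat_lit 40476109944) (nat_lit 76) (nat_lit 10229150401) (nat_lit 76) (nat_lit 5132358393) (nat_lit 4) (nat_lit 4) (nat_lit 5) (nat_lit 5) (nat_lit 5) (nat_lit 4) (nat_lit 316) (nat_lit 214) (nat_lit 190)))) (XT.nd (nat_lit 156) (nat_lit 152) (nat_lit 0) (XT.nd (nat_lit 78) (nat_lit 0) (nat_lit 0) (XT.lf (nat_lit 0) (nat_lit 47133175621) (nat_lit 76) (nat_lit 8286169634) (nat_lit 76) (nat_lit 3080301905) (nat_lit 4) (nat_lit 4) (nat_lit 5) (nat_lit 5) (nat_lit 5) (nat_lit 4) (nat_lit 317) (nat_lit 214) (nat_lit 189)) (XT.lf (nat_lit 0) (nat_lit 54039896473) (nat_lit 76) (nat_lit 6283480811) (nat_lit 76) (nat_lit 973731442) (nat_lit 4) (nat_lit 4) (nat_lit 5) (nat_lit 5) (nat_lit 5) (nat_lit 4) (nat_lit 318) (nat_lit 214) (nat_lit 188))) (XT.nd (nat_lit 78) (nat_lit 76) (nat_lit 0) (XT.lf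 (nat_lit 0) (nat_lit 1154205395) (nat_lit 152) (nat_lit 3042563202) (nat_lit 76) (nat_lit 60038964653) (nat_lit 3) (nat_lit 5) (nat_lit 5) (nat_lit 5) (nat_lit 4) (nat_lit 4) (nat_lit 319) (nat_lit 214) (nat_lit 187)) (XT.lf (nat_lit 0) (nat_lit 1332610261) (nat_lit 76) (nat_lit 2001788876) (nat_lit 152) (nat_lit 63987200425) (nat_lit 2) (nat_lit 5) (nat_lit 3) (nat_lit 5) (nat_lit 4) (nat_lit 4) (nat_lit 320) (nat_lit 214) (nat_lit 186))))) (XT.nd (nat_lit 312) (nat_lit 0) (nat_lit 0) (XT.nd (nat_lit 156) (nat_lit 0) (nat_lit 0) (XT.nd (nat_lit 78) (nat_lit 0) (nat_lit 0) (XT.lf (nat_lit 0) (nat_lit 5638776736) (nat_lit 152) (nat_lit 64609811517) (nat_lit 0) (nat_lit 312448319) (nat_lit 2) (nat_lit 5) (nat_lit 4) (nat_lit 4) (nat_lit 2) (nat_lit 4) (nat_lit 321) (nat_lit 214) (nat_lit 185)) (XT.lf (nat_lit 0) (nat_lit 8051258414) (nat_lit 152) (nat_lit 63268041116) (nat_lit 0) (nat_lit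 2643536014) (nat_lit 2) (nat_lit 5) (nat_lit 4) (nat_lit 4) (nat_lit 2) (nat_lit 4) (nat_lit 322) (nat_lit 214) (nat_lit 184))) (XT.nd (nat_lit 78) (nat_lit 0) (nat_lit 0) (XT.lf (nat_lit 0) (nat_lit 10546334641) (nat_lit 152) (nat_lit 61929229872) (nat_lit 0) (nat_lit 5061094162) (nat_lit 2) (nat_lit 5) (nat_lit 4) (nat_lit 4) (nat_lit 2) (nat_lit 4) (nat_lit 323) (nat_lit 214) (nat_lit 183)) (XT.lf (nat_lit 0) (nat_lit 13129946076) (nat_lit 152) (nat_lit 60590190138) (nat_lit 0) (nat_lit 7570878855) (nat_lit 2) (nat_lit 5) (nat_lit 4) (nat_lit 4) (nat_lit 2) (nat_lit 4) (nat_lit 324) (nat_lit 214) (nat_lit 182)))) (XT.nd (nat_lit 156) (nat_lit 0) (nat_lit 0) (XT.nd (nat_lit 78) (nat_lit 0) (nat_lit 0) (XT.lf (nat_lit 0) (nat_lit 15808244173) (nat_lit 152) (nat_lit 59247733727) (nat_lit 0) (nat_lit 10178865770) (nat_lit 2) (nat_lit 5) (nat_lit 4) (nat_lit 4) (nat_lit 2) (nat_lit 4)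 (nat_lit 325) (nat_lit 214) (nat_lit 181)) (XT.lf (nat_lit 0) (nat_lit 18587605834) (nat_lit 152) (nat_lit 57898664311) (nat_lit 0) (nat_lit 12891264400) (nat_lit 2) (nat_lit 5) (nat_lit 4) (nat_lit 4) (nat_lit 2) (nat_lit 4) (nat_lit 326) (nat_lit 214) (nat_lit 180))) (XT.nd (nat_lit 78) (nat_lit 0) (nat_lit 0) (XT.lf (nat_lit 0) (nat_lit 21474648586) (nat_lit 152) (nat_lit 56539769823) (nat_lit 0) (nat_lit 15714532837) (nat_lit 2) (nat_lit 5) (nat_lit 4) (nat_lit 4) (nat_lit 2) (nat_lit 4) (nat_lit 327) (nat_lit 214) (nat_lit 179)) (XT.nd (nat_lit 78) (nat_lit 0) (nat_lit 0) (XT.lf (nat_lit 0) (nat_lit 24476246340) (nat_lit 152) (nat_lit 55167814798) (nat_lit 0) (nat_lit 18655393148) (nat_lit 2) (nat_lit 5) (nat_lit 4) (nat_lit 4) (nat_lit 2) (nat_lit 4) (nat_lit 328) (nat_lit 214) (nat_lit 178)) (XT.lf (nat_lit 0) (nat_lit 27599545757) (nat_lit 152) (nat_lit 53779532676) (nat_lit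 0) (nat_lit 21720847381) (nat_lit 2) (nat_lit 5) (nat_lit 4) (nat_lit 4) (nat_lit 2) (nat_lit 4) (nat_lit 329) (nat_lit 214) (nat_lit 177))))))) (XT.nd (nat_lit 702) (nat_lit 0) (nat_lit 0) (XT.nd (nat_lit 312) (nat_lit 0) (nat_lit 0) (XT.nd (nat_lit 156) (nat_lit 0) (nat_lit 0) (XT.nd (nat_lit 78) (nat_lit 0) (nat_lit 0) (XT.lf (nat_lit 0) (nat_lit 30851983266) (nat_lit 152) (nat_lit 52371618025) (nat_lit 0) (nat_lit 24918194239) (nat_lit 2) (nat_lit 5) (nat_lit 4) (nat_lit 4) (nat_lit 2) (nat_lit 4) (nat_lit 330) (nat_lit 214) (nat_lit 176)) (XT.lf (nat_lit 0) (nat_lit 34241302764) (nat_lit 152) (nat_lit 50940718667) (nat_lit 0) (nat_lit 28255046450) (nat_lit 2) (nat_lit 5) (nat_lit 4) (nat_lit 4) (nat_lit 2) (nat_lit 4) (nat_lit 331) (nat_lit 214) (nat_lit 175))) (XT.nd (nat_lit 78) (nat_lit 0) (nat_lit 0) (XT.lf (nat_lit 0) (nat_lit 37775574060) (nat_lit 152) (nat_lit 49483427698)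 (nat_lit 0) (nat_lit 31739348901) (nat_lit 2) (nat_lit 5) (nat_lit 4) (nat_lit 4) (nat_lit 2) (nat_lit 4) (nat_lit 332) (nat_lit 214) (nat_lit 174)) (XT.lf (nat_lit 0) (nat_lit 41463212085) (nat_lit 152) (nat_lit 47996275378) (nat_lit 0) (nat_lit 35379397551) (nat_lit 2) (nat_lit 5) (nat_lit 4) (nat_lit 4) (nat_lit 2) (nat_lit 4) (nat_lit 333) (nat_lit 214) (nat_lit 173)))) (XT.nd (nat_lit 156) (nat_lit 0) (nat_lit 0) (XT.nd (nat_lit 78) (nat_lit 0) (nat_lit 0) (XT.lf (nat_lit 0) (nat_lit 45312996931) (nat_lit 152) (nat_lit 46475720868) (nat_lit 0) (nat_lit 39183859181) (nat_lit 2) (nat_lit 5) (nat_lit 4) (nat_lit 4) (nat_lit 2) (nat_lit 4) (nat_lit 334) (nat_lit 214) (nat_lit 172)) (XT.lf (nat_lit 0) (nat_lit 49334094751) (nat_lit 152) (nat_lit 44918143800) (nat_lit 0) (nat_lit 43161792035) (nat_lit 2) (nat_lit 5) (nat_lit 4) (nat_lit 4) (nat_lit 2) (nat_lit 4) (nat_lit 335) (nat_lit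 214) (nat_lit 171))) (XT.nd (nat_lit 78) (nat_lit 0) (nat_lit 0) (XT.lf (nat_lit 0) (nat_lit 53536079589) (nat_lit 152) (nat_lit 43319835657) (nat_lit 0) (nat_lit 47322667380) (nat_lit 2) (nat_lit 5) (nat_lit 4) (nat_lit 4) (nat_lit 2) (nat_lit 4) (nat_lit 336) (nat_lit 214) (nat_lit 170)) (XT.nd (nat_lit 78) (nat_lit 0) (nat_lit 0) (XT.lf (nat_lit 0) (nat_lit 57928956169) (nat_lit 152) (nat_lit 41676990944) (nat_lit 0) (nat_lit 51676392063) (nat_lit 2) (nat_lit 5) (nat_lit 4) (nat_lit 4) (nat_lit 2) (nat_lit 4) (nat_lit 337) (nat_lit 214) (nat_lit 169)) (XT.lf (nat_lit 0) (nat_lit 62523183722) (nat_lit 152) (nat_lit 39985698126) (nat_lit 0) (nat_lit 56233332094) (nat_lit 2) (nat_lit 5) (nat_lit 4) (nat_lit 4) (nat_lit 2) (nat_lit 4) (nat_lit 338) (nat_lit 214) (nat_lit 168)))))) (XT.nd (nat_lit 312) (nat_lit 0) (nat_lit 0) (XT.nd (nat_lit 156) (nat_lit 0) (nat_lit 0) (XT.nd (nat_lit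 78) (nat_lit 0) (nat_lit 0) (XT.lf (nat_lit 0) (nat_lit 67329700884) (nat_lit 152) (nat_lit 38241930315) (nat_lit 0) (nat_lit 61004337332) (nat_lit 2) (nat_lit 5) (nat_lit 4) (nat_lit 4) (nat_lit 2) (nat_lit 4) (nat_lit 339) (nat_lit 214) (nat_lit 167)) (XT.lf (nat_lit 0) (nat_lit 72359951745) (nat_lit 152) (nat_lit 36441535682) (nat_lit 0) (nat_lit 66000767312) (nat_lit 2) (nat_lit 5) (nat_lit 4) (nat_lit 4) (nat_lit 2) (nat_lit 4) (nat_lit 340) (nat_lit 214) (nat_lit 166))) (XT.nd (nat_lit 78) (nat_lit 0) (nat_lit 0) (XT.lf (nat_lit 0) (nat_lit 77625913092) (nat_lit 152) (nat_lit 34580227575) (nat_lit 0) (nat_lit 71234518296) (nat_lit 2) (nat_lit 5) (nat_lit 4) (nat_lit 4) (nat_lit 2) (nat_lit 4) (nat_lit 341) (nat_lit 214) (nat_lit 165)) (XT.lf (nat_lit 0) (nat_lit 83140122928) (nat_lit 152) (nat_lit 32653574307) (nat_lit 0) (nat_lit 76718051596) (nat_lit 2) (nat_lit 5) (nat_lit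 4) (nat_lit 4) (nat_lit 2) (nat_lit 4) (nat_lit 342) (nat_lit 214) (nat_lit 164)))) (XT.nd (nat_lit 156) (nat_lit 0) (nat_lit 0) (XT.nd (nat_lit 78) (nat_lit 0) (nat_lit 0) (XT.lf (nat_lit 0) (nat_lit 88915710324) (nat_lit 152) (nat_lit 30656988609) (nat_lit 0) (nat_lit 82464423244) (nat_lit 2) (nat_lit 5) (nat_lit 4) (nat_lit 4) (nat_lit 2) (nat_lit 4) (nat_lit 343) (nat_lit 214) (nat_lit 163)) (XT.lf (nat_lit 0) (nat_lit 94966426680) (nat_lit 152) (nat_lit 28585716704) (nat_lit 0) (nat_lit 88487315076) (nat_lit 2) (nat_lit 5) (nat_lit 4) (nat_lit 4) (nat_lit 2) (nat_lit 4) (nat_lit 344) (nat_lit 214) (nat_lit 162))) (XT.nd (nat_lit 78) (nat_lit 0) (nat_lit 0) (XT.lf (nat_lit 0) (nat_lit 101306678461) (nat_lit 152) (nat_lit 26434826993) (nat_lit 0) (nat_lit 94801067313) (nat_lit 2) (nat_lit 5) (nat_lit 4) (nat_lit 4) (nat_lit 2) (nat_lit 4) (nat_lit 345) (nat_lit 214) (nat_lit 161))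 (XT.nd (nat_lit 78) (nat_lit 0) (nat_lit 0) (XT.lf (nat_lit 0) (nat_lit 107951561507) (nat_lit 152) (nat_lit 24199198311) (nat_lit 0) (nat_lit 101420712696) (nat_lit 2) (nat_lit 5) (nat_lit 4) (nat_lit 4) (nat_lit 2) (nat_lit 4) (nat_lit 346) (nat_lit 214) (nat_lit 160)) (XT.lf (nat_lit 0) (nat_lit 114916896966) (nat_lit 152) (nat_lit 21873507731) (nat_lit 0) (nat_lit 108362012287) (nat_lit 2) (nat_lit 5) (nat_lit 4) (nat_lit 4) (nat_lit 2) (nat_lit 4) (nat_lit 347) (nat_lit 214) (nat_lit 159))))))))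
noncomputable def xc39 : XT := (XT.nd (nat_lit 33072) (nat_lit 0) (nat_lit 304) (XT.nd (nat_lit 702) (nat_lit 0) (nat_lit 0) (XT.nd (nat_lit 312) (nat_lit 76) (nat_lit 0) (XT.nd (nat_lit 156) (nat_lit 0) (nat_lit 0) (XT.nd (nat_lit 78) (nat_lit 0) (nat_lit 0) (XT.lf (nat_lit 0) (nat_lit 122219268971) (nat_lit 152) (nat_lit 19452217896) (nat_lit 0) (nat_lit 115641492989) (nat_lit 2) (nat_lit 5) (nat_lit 4) (nat_lit 4) (nat_lit 2) (nat_lit 4) (nat_lit 348) (nat_lit 214) (nat_lit 158)) (XT.lf (nat_lit 0) (nat_lit 129876064123) (nat_lit 152) (nat_lit 16929563829) (nat_lit 0) (nat_lit 123276486899) (nat_lit 2) (nat_lit 5) (nat_lit 4) (nat_lit 4) (nat_lit 2) (nat_lit 4) (nat_lit 349) (nat_lit 214) (nat_lit 157))) (XT.nd (nat_lit 78) (nat_lit 0) (nat_lit 0) (XT.lf (nat_lit 0) (nat_lit 137905512885) (nat_lit 152) (nat_lit 14299539211) (nat_lit 0) (nat_lit 131285172574) (nat_lit 2) (nat_lit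 5) (nat_lit 4) (nat_lit 4) (nat_lit 2) (nat_lit 4) (nat_lit 350) (nat_lit 214) (nat_lit 156)) (XT.lf (nat_lit 0) (nat_lit 146326732993) (nat_lit 152) (nat_lit 11555882079) (nat_lit 0) (nat_lit 139686618314) (nat_lit 2) (nat_lit 5) (nat_lit 4) (nat_lit 4) (nat_lit 2) (nat_lit 4) (nat_lit 351) (nat_lit 214) (nat_lit 155)))) (XT.nd (nat_lit 156) (nat_lit 76) (nat_lit 0) (XT.nd (nat_lit 78) (nat_lit 0) (nat_lit 0) (XT.lf (nat_lit 0) (nat_lit 155159774971) (nat_lit 152) (nat_lit 8692059916) (nat_lit 0) (nat_lit 148500827560) (nat_lit 2) (nat_lit 5) (nat_lit 4) (nat_lit 4) (nat_lit 2) (nat_lit 4) (nat_lit 352) (nat_lit 214) (nat_lit 154)) (XT.lf (nat_lit 0) (nat_lit 164425669872) (nat_lit 152) (nat_lit 5701254098) (nat_lit 0) (nat_lit 157748786525) (nat_lit 2) (nat_lit 5) (nat_lit 4) (nat_lit 4) (nat_lit 2) (nat_lit 4) (nat_lit 353) (nat_lit 214) (nat_lit 153))) (XT.nd (nat_lit 78) (nat_lit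 76) (nat_lit 0) (XT.lf (nat_lit 0) (nat_lit 174146479349) (nat_lit 152) (nat_lit 2576343658) (nat_lit 0) (nat_lit 167452514159) (nat_lit 2) (nat_lit 5) (nat_lit 4) (nat_lit 4) (nat_lit 2) (nat_lit 4) (nat_lit 354) (nat_lit 214) (nat_lit 152)) (XT.nd (nat_lit 78) (nat_lit 0) (nat_lit 0) (XT.lf (nat_lit 0) (nat_lit 712929874) (nat_lit 76) (nat_lit 183643549146) (nat_lit 76) (nat_lit 176933315534) (nat_lit 1) (nat_lit 4) (nat_lit 2) (nat_lit 5) (nat_lit 2) (nat_lit 4) (nat_lit 355) (nat_lit 214) (nat_lit 151)) (XT.lf (nat_lit 0) (nat_lit 4241648387) (nat_lit 76) (nat_lit 190871135039) (nat_lit 76) (nat_lit 184145407691) (nat_lit 1) (nat_lit 4) (nat_lit 2) (nat_lit 5) (nat_lit 2) (nat_lit 4) (nat_lit 356) (nat_lit 214) (nat_lit 150)))))) (XT.nd (nat_lit 312) (nat_lit 0) (nat_lit 0) (XT.nd (nat_lit 156) (nat_lit 0) (nat_lit 0) (XT.nd (nat_lit 78) (nat_lit 0) (nat_lit 0) (XT.lf (nat_lit 0)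 (nat_lit 7933028035) (nat_lit 76) (nat_lit 198466420849) (nat_lit 76) (nat_lit 191725937564) (nat_lit 1) (nat_lit 4) (nat_lit 2) (nat_lit 5) (nat_lit 2) (nat_lit 4) (nat_lit 357) (nat_lit 214) (nat_lit 149)) (XT.lf (nat_lit 0) (nat_lit 11795857817) (nat_lit 76) (nat_lit 206447490592) (nat_lit 76) (nat_lit 199692954031) (nat_lit 1) (nat_lit 4) (nat_lit 2) (nat_lit 5) (nat_lit 2) (nat_lit 4) (nat_lit 358) (nat_lit 214) (nat_lit 148))) (XT.nd (nat_lit 78) (nat_lit 0) (nat_lit 0) (XT.lf (nat_lit 0) (nat_lit 15839334947) (nat_lit 76) (nat_lit 214833346813) (nat_lit 76) (nat_lit 208065426182) (nat_lit 1) (nat_lit 4) (nat_lit 2) (nat_lit 5) (nat_lit 2) (nat_lit 4) (nat_lit 359) (nat_lit 214) (nat_lit 147)) (XT.lf (nat_lit 0) (nat_lit 20073086751) (nat_lit 76) (nat_lit 223643955838) (nat_lit 76) (nat_lit 216863288472) (nat_lit 1) (nat_lit 4) (nat_lit 2) (nat_lit 5) (nat_lit 2) (nat_lit 4) (nat_lit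 360) (nat_lit 214) (nat_lit 146)))) (XT.nd (nat_lit 156) (nat_lit 0) (nat_lit 0) (XT.nd (nat_lit 78) (nat_lit 0) (nat_lit 0) (XT.lf (nat_lit 0) (nat_lit 24507193591) (nat_lit 76) (nat_lit 232900295306) (nat_lit 76) (nat_lit 226107488193) (nat_lit 1) (nat_lit 4) (nat_lit 2) (nat_lit 5) (nat_lit 2) (nat_lit 4) (nat_lit 361) (nat_lit 214) (nat_lit 145)) (XT.lf (nat_lit 0) (nat_lit 29152212863) (nat_lit 76) (nat_lit 242624404122) (nat_lit 76) (nat_lit 235820035345) (nat_lit 1) (nat_lit 4) (nat_lit 2) (nat_lit 5) (nat_lit 2) (nat_lit 4) (nat_lit 362) (nat_lit 214) (nat_lit 144))) (XT.nd (nat_lit 78) (nat_lit 0) (nat_lit 0) (XT.lf (nat_lit 0) (nat_lit 34019204139) (nat_lit 76) (nat_lit 252839434924) (nat_lit 76) (nat_lit 246024055039) (nat_lit 1) (nat_lit 4) (nat_lit 2) (nat_lit 5) (nat_lit 2) (nat_lit 4) (nat_lit 363) (nat_lit 214) (nat_lit 143)) (XT.nd (nat_lit 31746) (nat_lit 0) (nat_lit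 760) (XT.lf (nat_lit 0) (nat_lit 39119755491) (nat_lit 76) (nat_lit 263569709216) (nat_lit 76) (nat_lit 256743842561) (nat_lit 1) (nat_lit 4) (nat_lit 2) (nat_lit 5) (nat_lit 2) (nat_lit 4) (nat_lit 364) (nat_lit 214) (nat_lit 142)) (XT.lf (nat_lit 0) (nat_lit 2296683370) (nat_lit 152) (nat_lit 4527159254) (nat_lit 0) (nat_lit 2296683370) (nat_lit 11) (nat_lit 5) (nat_lit 13) (nat_lit 4) (nat_lit 11) (nat_lit 4) (nat_lit 290) (nat_lit 215) (nat_lit 215))))))) (XT.nd (nat_lit 702) (nat_lit 152) (nat_lit 0) (XT.nd (nat_lit 312) (nat_lit 228) (nat_lit 0) (XT.nd (nat_lit 156) (nat_lit 0) (nat_lit 0) (XT.nd (nat_lit 78) (nat_lit 76) (nat_lit 0) (XT.lf (nat_lit 0) (nat_lit 8424671121) (nat_lit 152) (nat_lit 2504329492) (nat_lit 0) (nat_lit 8017441680) (nat_lit 11) (nat_lit 5) (nat_lit 13) (nat_lit 4) (nat_lit 11) (nat_lit 4) (nat_lit 291) (nat_lit 215) (nat_lit 214)) (XT.lf (nat_lit 0) (nat_lit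 4289948842) (nat_lit 76) (nat_lit 8097689585) (nat_lit 76) (nat_lit 7302622580) (nat_lit 10) (nat_lit 4) (nat_lit 11) (nat_lit 5) (nat_lit 11) (nat_lit 4) (nat_lit 292) (nat_lit 215) (nat_lit 213))) (XT.nd (nat_lit 78) (nat_lit 0) (nat_lit 0) (XT.lf (nat_lit 0) (nat_lit 11293927170) (nat_lit 76) (nat_lit 5173013134) (nat_lit 76) (nat_lit 4008577021) (nat_lit 10) (nat_lit 4) (nat_lit 11) (nat_lit 5) (nat_lit 11) (nat_lit 4) (nat_lit 293) (nat_lit 215) (nat_lit 212)) (XT.lf (nat_lit 0) (nat_lit 18441477189) (nat_lit 76) (nat_lit 2190419776) (nat_lit 76) (nat_lit 674203562) (nat_lit 10) (nat_lit 4) (nat_lit 11) (nat_lit 5) (nat_lit 11) (nat_lit 4) (nat_lit 294) (nat_lit 215) (nat_lit 211)))) (XT.nd (nat_lit 156) (nat_lit 76) (nat_lit 0) (XT.nd (nat_lit 78) (nat_lit 0) (nat_lit 0) (XT.lf (nat_lit 0) (nat_lit 2693585988) (nat_lit 152) (nat_lit 18554200460) (nat_lit 0) (nat_lit 930495622)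 (nat_lit 8) (nat_lit 5) (nat_lit 10) (nat_lit 4) (nat_lit 8) (nat_lit 4) (nat_lit 295) (nat_lit 215) (nat_lit 210)) (XT.lf (nat_lit 0) (nat_lit 6178711146) (nat_lit 152) (nat_lit 12804617153) (nat_lit 0) (nat_lit 4111739901) (nat_lit 8) (nat_lit 5) (nat_lit 10) (nat_lit 4) (nat_lit 8) (nat_lit 4) (nat_lit 296) (nat_lit 215) (nat_lit 209))) (XT.nd (nat_lit 78) (nat_lit 76) (nat_lit 0) (XT.lf (nat_lit 0) (nat_lit 9729888923) (nat_lit 152) (nat_lit 6959829791) (nat_lit 0) (nat_lit 7373507318) (nat_lit 8) (nat_lit 5) (nat_lit 10) (nat_lit 4) (nat_lit 8) (nat_lit 4) (nat_lit 297) (nat_lit 215) (nat_lit 208)) (XT.nd (nat_lit 78) (nat_lit 76) (nat_lit 0) (XT.lf (nat_lit 0) (nat_lit 13355574505) (nat_lit 152) (nat_lit 1005922215) (nat_lit 0) (nat_lit 10723563984) (nat_lit 8) (nat_lit 5) (nat_lit 10) (nat_lit 4) (nat_lit 8) (nat_lit 4) (nat_lit 298) (nat_lit 215) (nat_lit 207)) (XT.lf (nat_lit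 0) (nat_lit 5238961017) (nat_lit 76) (nat_lit 11907234322) (nat_lit 76) (nat_lit 9012720072) (nat_lit 7) (nat_lit 4) (nat_lit 8) (nat_lit 5) (nat_lit 8) (nat_lit 4) (nat_lit 299) (nat_lit 215) (nat_lit 206)))))) (XT.nd (nat_lit 312) (nat_lit 0) (nat_lit 0) (XT.nd (nat_lit 156) (nat_lit 152) (nat_lit 0) (XT.nd (nat_lit 78) (nat_lit 0) (nat_lit 0) (XT.lf (nat_lit 0) (nat_lit 11659425455) (nat_lit 76) (nat_lit 9387808225) (nat_lit 76) (nat_lit 6243290424) (nat_lit 7) (nat_lit 4) (nat_lit 8) (nat_lit 5) (nat_lit 8) (nat_lit 4) (nat_lit 300) (nat_lit 215) (nat_lit 205)) (XT.lf (nat_lit 0) (nat_lit 18237497588) (nat_lit 76) (nat_lit 6814255574) (nat_lit 76) (nat_lit 3431639153) (nat_lit 7) (nat_lit 4) (nat_lit 8) (nat_lit 5) (nat_lit 8) (nat_lit 4) (nat_lit 301) (nat_lit 215) (nat_lit 204))) (XT.nd (nat_lit 78) (nat_lit 152) (nat_lit 0) (XT.lf (nat_lit 0) (nat_lit 24988839492) (nat_lit 76)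 (nat_lit 4180448863) (nat_lit 76) (nat_lit 571071851) (nat_lit 7) (nat_lit 4) (nat_lit 8) (nat_lit 5) (nat_lit 8) (nat_lit 4) (nat_lit 302) (nat_lit 215) (nat_lit 203)) (XT.lf (nat_lit 0) (nat_lit 855883348) (nat_lit 76) (nat_lit 1427639982) (nat_lit 152) (nat_lit 28778398320) (nat_lit 5) (nat_lit 5) (nat_lit 6) (nat_lit 5) (nat_lit 7) (nat_lit 4) (nat_lit 303) (nat_lit 215) (nat_lit 202)))) (XT.nd (nat_lit 156) (nat_lit 0) (nat_lit 0) (XT.nd (nat_lit 78) (nat_lit 0) (nat_lit 0) (XT.lf (nat_lit 0) (nat_lit 5282451026) (nat_lit 152) (nat_lit 25722298794) (nat_lit 0) (nat_lit 1443386245) (nat_lit 5) (nat_lit 5) (nat_lit 7) (nat_lit 4) (nat_lit 5) (nat_lit 4) (nat_lit 304) (nat_lit 215) (nat_lit 201)) (XT.lf (nat_lit 0) (nat_lit 8374888554) (nat_lit 152) (nat_lit 21182405981) (nat_lit 0) (nat_lit 4349267275) (nat_lit 5) (nat_lit 5) (nat_lit 7) (nat_lit 4) (nat_lit 5) (nat_lit 4) (nat_lit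 305) (nat_lit 215) (nat_lit 200))) (XT.nd (nat_lit 78) (nat_lit 0) (nat_lit 0) (XT.lf (nat_lit 0) (nat_lit 11545909400) (nat_lit 152) (nat_lit 16553261134) (nat_lit 0) (nat_lit 7342615264) (nat_lit 5) (nat_lit 5) (nat_lit 7) (nat_lit 4) (nat_lit 5) (nat_lit 4) (nat_lit 306) (nat_lit 215) (nat_lit 199)) (XT.nd (nat_lit 78) (nat_lit 0) (nat_lit 0) (XT.lf (nat_lit 0) (nat_lit 14803063614) (nat_lit 152) (nat_lit 11823842479) (nat_lit 0) (nat_lit 10430557233) (nat_lit 5) (nat_lit 5) (nat_lit 7) (nat_lit 4) (nat_lit 5) (nat_lit 4) (nat_lit 307) (nat_lit 215) (nat_lit 198)) (XT.lf (nat_lit 0) (nat_lit 18154106324) (nat_lit 152) (nat_lit 6982889495) (nat_lit 0) (nat_lit 13620445425) (nat_lit 5) (nat_lit 5) (nat_lit 7) (nat_lit 4) (nat_lit 5) (nat_lit 4) (nat_lit 308) (nat_lit 215) (nat_lit 197))))))))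
noncomputable def xc40 : XT := (XT.nd (nat_lit 1326) (nat_lit 0) (nat_lit 0) (XT.nd (nat_lit 624) (nat_lit 152) (nat_lit 0) (XT.nd (nat_lit 312) (nat_lit 0) (nat_lit 0) (XT.nd (nat_lit 156) (nat_lit 0) (nat_lit 0) (XT.nd (nat_lit 78) (nat_lit 76) (nat_lit 0) (XT.lf (nat_lit 0) (nat_lit 21607016203) (nat_lit 152) (nat_lit 2018876105) (nat_lit 0) (nat_lit 16919874811) (nat_lit 5) (nat_lit 5) (nat_lit 7) (nat_lit 4) (nat_lit 5) (nat_lit 4) (nat_lit 309) (nat_lit 215) (nat_lit 196)) (XT.lf (nat_lit 0) (nat_lit 3181856036) (nat_lit 76) (nat_lit 22037836119) (nat_lit 76) (nat_lit 17204522828) (nat_lit 4) (nat_lit 4) (nat_lit 5) (nat_lit 5) (nat_lit 5) (nat_lit 4) (nat_lit 310) (nat_lit 215) (nat_lit 195))) (XT.nd (nat_lit 78) (nat_lit 0) (nat_lit 0) (XT.lf (nat_lit 0) (nat_lit 8601222182) (nat_lit 76) (nat_lit 20384651442) (nat_lit 76) (nat_lit 15412126819) (nat_lit 4) (nat_lit 4) (nat_lit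 5) (nat_lit 5) (nat_lit 5) (nat_lit 4) (nat_lit 311) (nat_lit 215) (nat_lit 194)) (XT.lf (nat_lit 0) (nat_lit 14185372424) (nat_lit 76) (nat_lit 18696592765) (nat_lit 76) (nat_lit 13591485922) (nat_lit 4) (nat_lit 4) (nat_lit 5) (nat_lit 5) (nat_lit 5) (nat_lit 4) (nat_lit 312) (nat_lit 215) (nat_lit 193)))) (XT.nd (nat_lit 156) (nat_lit 0) (nat_lit 0) (XT.nd (nat_lit 78) (nat_lit 0) (nat_lit 0) (XT.lf (nat_lit 0) (nat_lit 19947602358) (nat_lit 76) (nat_lit 16969640903) (nat_lit 76) (nat_lit 11738265277) (nat_lit 4) (nat_lit 4) (nat_lit 5) (nat_lit 5) (nat_lit 5) (nat_lit 4) (nat_lit 313) (nat_lit 215) (nat_lit 192)) (XT.lf (nat_lit 0) (nat_lit 25901631578) (nat_lit 76) (nat_lit 15199684064) (nat_lit 76) (nat_lit 9848052456) (nat_lit 4) (nat_lit 4) (nat_lit 5) (nat_lit 5) (nat_lit 5) (nat_lit 4) (nat_lit 314) (nat_lit 215) (nat_lit 191))) (XT.nd (nat_lit 78) (nat_lit 0) (nat_lit 0)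 (XT.lf (nat_lit 0) (nat_lit 32061636345) (nat_lit 76) (nat_lit 13382508066) (nat_lit 76) (nat_lit 7916346950) (nat_lit 4) (nat_lit 4) (nat_lit 5) (nat_lit 5) (nat_lit 5) (nat_lit 4) (nat_lit 315) (nat_lit 215) (nat_lit 190)) (XT.lf (nat_lit 0) (nat_lit 38442283338) (nat_lit 76) (nat_lit 11513786299) (nat_lit 76) (nat_lit 5938549462) (nat_lit 4) (nat_lit 4) (nat_lit 5) (nat_lit 5) (nat_lit 5) (nat_lit 4) (nat_lit 316) (nat_lit 215) (nat_lit 189))))) (XT.nd (nat_lit 312) (nat_lit 76) (nat_lit 0) (XT.nd (nat_lit 156) (nat_lit 76) (nat_lit 0) (XT.nd (nat_lit 78) (nat_lit 0) (nat_lit 0) (XT.lf (nat_lit 0) (nat_lit 45058764571) (nat_lit 76) (nat_lit 9589069426) (nat_lit 76) (nat_lit 3909950949) (nat_lit 4) (nat_lit 4) (nat_lit 5) (nat_lit 5) (nat_lit 5) (nat_lit 4) (nat_lit 317) (nat_lit 215) (nat_lit 188)) (XT.lf (nat_lit 0) (nat_lit 51926833573) (nat_lit 76) (nat_lit 7603774787) (nat_lit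 76) (nat_lit 1825721416) (nat_lit 4) (nat_lit 4) (nat_lit 5) (nat_lit 5) (nat_lit 5) (nat_lit 4) (nat_lit 318) (nat_lit 215) (nat_lit 187))) (XT.nd (nat_lit 78) (nat_lit 0) (nat_lit 0) (XT.lf (nat_lit 0) (nat_lit 308888345) (nat_lit 152) (nat_lit 5239055972) (nat_lit 76) (nat_lit 58748723370) (nat_lit 3) (nat_lit 5) (nat_lit 5) (nat_lit 5) (nat_lit 4) (nat_lit 4) (nat_lit 319) (nat_lit 215) (nat_lit 186)) (XT.lf (nat_lit 0) (nat_lit 2448660997) (nat_lit 152) (nat_lit 942258901) (nat_lit 76) (nat_lit 63993652760) (nat_lit 3) (nat_lit 5) (nat_lit 5) (nat_lit 5) (nat_lit 4) (nat_lit 4) (nat_lit 320) (nat_lit 215) (nat_lit 185)))) (XT.nd (nat_lit 156) (nat_lit 0) (nat_lit 0) (XT.nd (nat_lit 78) (nat_lit 0) (nat_lit 0) (XT.lf (nat_lit 0) (nat_lit 3615343679) (nat_lit 76) (nat_lit 1098227689) (nat_lit 152) (nat_lit 65912428427) (nat_lit 2) (nat_lit 5) (nat_lit 3) (nat_lit 5) (nat_lit 4) (nat_lit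 4) (nat_lit 321) (nat_lit 215) (nat_lit 184)) (XT.lf (nat_lit 0) (nat_lit 7090355642) (nat_lit 152) (nat_lit 65685908902) (nat_lit 0) (nat_lit 1253335061) (nat_lit 2) (nat_lit 5) (nat_lit 4) (nat_lit 4) (nat_lit 2) (nat_lit 4) (nat_lit 322) (nat_lit 215) (nat_lit 183))) (XT.nd (nat_lit 78) (nat_lit 0) (nat_lit 0) (XT.lf (nat_lit 0) (nat_lit 9567764258) (nat_lit 152) (nat_lit 64379640133) (nat_lit 0) (nat_lit 3656916935) (nat_lit 2) (nat_lit 5) (nat_lit 4) (nat_lit 4) (nat_lit 2) (nat_lit 4) (nat_lit 323) (nat_lit 215) (nat_lit 182)) (XT.nd (nat_lit 78) (nat_lit 0) (nat_lit 0) (XT.lf (nat_lit 0) (nat_lit 12134549395) (nat_lit 152) (nat_lit 63071593233) (nat_lit 0) (nat_lit 6153390890) (nat_lit 2) (nat_lit 5) (nat_lit 4) (nat_lit 4) (nat_lit 2) (nat_lit 4) (nat_lit 324) (nat_lit 215) (nat_lit 181)) (XT.lf (nat_lit 0) (nat_lit 14796822448) (nat_lit 152) (nat_lit 61758653805) (nat_lit 0)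 (nat_lit 8748700912) (nat_lit 2) (nat_lit 5) (nat_lit 4) (nat_lit 4) (nat_lit 2) (nat_lit 4) (nat_lit 325) (nat_lit 215) (nat_lit 180))))))) (XT.nd (nat_lit 702) (nat_lit 0) (nat_lit 0) (XT.nd (nat_lit 312) (nat_lit 0) (nat_lit 0) (XT.nd (nat_lit 156) (nat_lit 0) (nat_lit 0) (XT.nd (nat_lit 78) (nat_lit 0) (nat_lit 0) (XT.lf (nat_lit 0) (nat_lit 17560922162) (nat_lit 152) (nat_lit 60437695803) (nat_lit 0) (nat_lit 11449026310) (nat_lit 2) (nat_lit 5) (nat_lit 4) (nat_lit 4) (nat_lit 2) (nat_lit 4) (nat_lit 326) (nat_lit 215) (nat_lit 179)) (XT.lf (nat_lit 0) (nat_lit 20433429725) (nat_lit 152) (nat_lit 59105574089) (nat_lit 0) (nat_lit 14260796431) (nat_lit 2) (nat_lit 5) (nat_lit 4) (nat_lit 4) (nat_lit 2) (nat_lit 4) (nat_lit 327) (nat_lit 215) (nat_lit 178))) (XT.nd (nat_lit 78) (nat_lit 0) (nat_lit 0) (XT.lf (nat_lit 0) (nat_lit 23421184443) (nat_lit 152) (nat_lit 57759116944) (nat_lit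 0) (nat_lit 17190705965) (nat_lit 2) (nat_lit 5) (nat_lit 4) (nat_lit 4) (nat_lit 2) (nat_lit 4) (nat_lit 328) (nat_lit 215) (nat_lit 177)) (XT.lf (nat_lit 0) (nat_lit 26531300017) (nat_lit 152) (nat_lit 56395118519) (nat_lit 0) (nat_lit 20245730887) (nat_lit 2) (nat_lit 5) (nat_lit 4) (nat_lit 4) (nat_lit 2) (nat_lit 4) (nat_lit 329) (nat_lit 215) (nat_lit 176)))) (XT.nd (nat_lit 156) (nat_lit 0) (nat_lit 0) (XT.nd (nat_lit 78) (nat_lit 0) (nat_lit 0) (XT.lf (nat_lit 0) (nat_lit 29771181484) (nat_lit 152) (nat_lit 55010331197) (nat_lit 0) (nat_lit 23433145067) (nat_lit 2) (nat_lit 5) (nat_lit 4) (nat_lit 4) (nat_lit 2) (nat_lit 4) (nat_lit 330) (nat_lit 215) (nat_lit 175)) (XT.lf (nat_lit 0) (nat_lit 33148542847) (nat_lit 152) (nat_lit 53601457867) (nat_lit 0) (nat_lit 26760537585) (nat_lit 2) (nat_lit 5) (nat_lit 4) (nat_lit 4) (nat_lit 2) (nat_lit 4) (nat_lit 331) (nat_lit 215) (nat_lit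 174))) (XT.nd (nat_lit 78) (nat_lit 0) (nat_lit 0) (XT.lf (nat_lit 0) (nat_lit 36671425442) (nat_lit 152) (nat_lit 52165144067) (nat_lit 0) (nat_lit 30235830805) (nat_lit 2) (nat_lit 5) (nat_lit 4) (nat_lit 4) (nat_lit 2) (nat_lit 4) (nat_lit 332) (nat_lit 215) (nat_lit 173)) (XT.nd (nat_lit 78) (nat_lit 0) (nat_lit 0) (XT.lf (nat_lit 0) (nat_lit 40348217087) (nat_lit 152) (nat_lit 50697970003) (nat_lit 0) (nat_lit 33867299235) (nat_lit 2) (nat_lit 5) (nat_lit 4) (nat_lit 4) (nat_lit 2) (nat_lit 4) (nat_lit 333) (nat_lit 215) (nat_lit 172)) (XT.lf (nat_lit 0) (nat_lit 44187672046) (nat_lit 152) (nat_lit 49196442404) (nat_lit 0) (nat_lit 37663589227) (nat_lit 2) (nat_lit 5) (nat_lit 4) (nat_lit 4) (nat_lit 2) (nat_lit 4) (nat_lit 334) (nat_lit 215) (nat_lit 171)))))) (XT.nd (nat_lit 312) (nat_lit 0) (nat_lit 0) (XT.nd (nat_lit 156) (nat_lit 0) (nat_lit 0) (XT.nd (nat_lit 78) (nat_lit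 0) (nat_lit 0) (XT.lf (nat_lit 0) (nat_lit 48198931879) (nat_lit 152) (nat_lit 47656986204) (nat_lit 0) (nat_lit 41633739568) (nat_lit 2) (nat_lit 5) (nat_lit 4) (nat_lit 4) (nat_lit 2) (nat_lit 4) (nat_lit 335) (nat_lit 215) (nat_lit 170)) (XT.lf (nat_lit 0) (nat_lit 52391547205) (nat_lit 152) (nat_lit 46075936031) (nat_lit 0) (nat_lit 45787202996) (nat_lit 2) (nat_lit 5) (nat_lit 4) (nat_lit 4) (nat_lit 2) (nat_lit 4) (nat_lit 336) (nat_lit 215) (nat_lit 169))) (XT.nd (nat_lit 78) (nat_lit 0) (nat_lit 0) (XT.lf (nat_lit 0) (nat_lit 56775500440) (nat_lit 152) (nat_lit 44449527479) (nat_lit 0) (nat_lit 50133868710) (nat_lit 2) (nat_lit 5) (nat_lit 4) (nat_lit 4) (nat_lit 2) (nat_lit 4) (nat_lit 337) (nat_lit 215) (nat_lit 168)) (XT.lf (nat_lit 0) (nat_lit 61361229570) (nat_lit 152) (nat_lit 42773888147) (nat_lit 0) (nat_lit 54684085915) (nat_lit 2) (nat_lit 5) (nat_lit 4) (nat_lit 4)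 (nat_lit 2) (nat_lit 4) (nat_lit 338) (nat_lit 215) (nat_lit 167)))) (XT.nd (nat_lit 156) (nat_lit 0) (nat_lit 0) (XT.nd (nat_lit 78) (nat_lit 0) (nat_lit 0) (XT.lf (nat_lit 0) (nat_lit 66159652996) (nat_lit 152) (nat_lit 41045028419) (nat_lit 0) (nat_lit 59448688460) (nat_lit 2) (nat_lit 5) (nat_lit 4) (nat_lit 4) (nat_lit 2) (nat_lit 4) (nat_lit 339) (nat_lit 215) (nat_lit 166)) (XT.lf (nat_lit 0) (nat_lit 71182195536) (nat_lit 152) (nat_lit 39258831961) (nat_lit 0) (nat_lit 64439020638) (nat_lit 2) (nat_lit 5) (nat_lit 4) (nat_lit 4) (nat_lit 2) (nat_lit 4) (nat_lit 340) (nat_lit 215) (nat_lit 165))) (XT.nd (nat_lit 78) (nat_lit 0) (nat_lit 0) (XT.lf (nat_lit 0) (nat_lit 76440815626) (nat_lit 152) (nat_lit 37411045924) (nat_lit 0) (nat_lit 69666964191) (nat_lit 2) (nat_lit 5) (nat_lit 4) (nat_lit 4) (nat_lit 2) (nat_lit 4) (nat_lit 341) (nat_lit 215) (nat_lit 164)) (XT.nd (nat_lit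 78) (nat_lit 0) (nat_lit 0) (XT.lf (nat_lit 0) (nat_lit 81948033788) (nat_lit 152) (nat_lit 35497270818) (nat_lit 0) (nat_lit 75144966604) (nat_lit 2) (nat_lit 5) (nat_lit 4) (nat_lit 4) (nat_lit 2) (nat_lit 4) (nat_lit 342) (nat_lit 215) (nat_lit 163)) (XT.lf (nat_lit 0) (nat_lit 87716962447) (nat_lit 152) (nat_lit 33512950036) (nat_lit 0) (nat_lit 80886070741) (nat_lit 2) (nat_lit 5) (nat_lit 4) (nat_lit 4) (nat_lit 2) (nat_lit 4) (nat_lit 343) (nat_lit 215) (nat_lit 162))))))))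
noncomputable def xc41 : XT := (XT.nd (nat_lit 1326) (nat_lit 0) (nat_lit 0) (XT.nd (nat_lit 624) (nat_lit 76) (nat_lit 0) (XT.nd (nat_lit 312) (nat_lit 0) (nat_lit 0) (XT.nd (nat_lit 156) (nat_lit 0) (nat_lit 0) (XT.nd (nat_lit 78) (nat_lit 0) (nat_lit 0) (XT.lf (nat_lit 0) (nat_lit 93761337148) (nat_lit 152) (nat_lit 31453359004) (nat_lit 0) (nat_lit 86903945897) (nat_lit 2) (nat_lit 5) (nat_lit 4) (nat_lit 4) (nat_lit 2) (nat_lit 4) (nat_lit 344) (nat_lit 215) (nat_lit 161)) (XT.lf (nat_lit 0) (nat_lit 100095549258) (nat_lit 152) (nat_lit 29313593935) (nat_lit 0) (nat_lit 93212920345) (nat_lit 2) (nat_lit 5) (nat_lit 4) (nat_lit 4) (nat_lit 2) (nat_lit 4) (nat_lit 345) (nat_lit 215) (nat_lit 160))) (XT.nd (nat_lit 78) (nat_lit 0) (nat_lit 0) (XT.lf (nat_lit 0) (nat_lit 106734680236) (nat_lit 152) (nat_lit 27088560148) (nat_lit 0) (nat_lit 99828015455) (nat_lit 2) (nat_lit 5) (nat_lit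 4) (nat_lit 4) (nat_lit 2) (nat_lit 4) (nat_lit 346) (nat_lit 215) (nat_lit 159)) (XT.lf (nat_lit 0) (nat_lit 113694537536) (nat_lit 152) (nat_lit 24772959946) (nat_lit 0) (nat_lit 106764981451) (nat_lit 2) (nat_lit 5) (nat_lit 4) (nat_lit 4) (nat_lit 2) (nat_lit 4) (nat_lit 347) (nat_lit 215) (nat_lit 158)))) (XT.nd (nat_lit 156) (nat_lit 0) (nat_lit 0) (XT.nd (nat_lit 78) (nat_lit 0) (nat_lit 0) (XT.lf (nat_lit 0) (nat_lit 120991692247) (nat_lit 152) (nat_lit 22361279994) (nat_lit 0) (nat_lit 114040334920) (nat_lit 2) (nat_lit 5) (nat_lit 4) (nat_lit 4) (nat_lit 2) (nat_lit 4) (nat_lit 348) (nat_lit 215) (nat_lit 157)) (XT.lf (nat_lit 0) (nat_lit 128643518547) (nat_lit 152) (nat_lit 19847778196) (nat_lit 0) (nat_lit 121671398133) (nat_lit 2) (nat_lit 5) (nat_lit 4) (nat_lit 4) (nat_lit 2) (nat_lit 4) (nat_lit 349) (nat_lit 215) (nat_lit 156))) (XT.nd (nat_lit 78) (nat_lit 0) (nat_lit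 0) (XT.lf (nat_lit 0) (nat_lit 136668235069) (nat_lit 152) (nat_lit 17226470026) (nat_lit 0) (nat_lit 129676340286) (nat_lit 2) (nat_lit 5) (nat_lit 4) (nat_lit 4) (nat_lit 2) (nat_lit 4) (nat_lit 350) (nat_lit 215) (nat_lit 155)) (XT.lf (nat_lit 0) (nat_lit 145084948281) (nat_lit 152) (nat_lit 14491114272) (nat_lit 0) (nat_lit 138074220767) (nat_lit 2) (nat_lit 5) (nat_lit 4) (nat_lit 4) (nat_lit 2) (nat_lit 4) (nat_lit 351) (nat_lit 215) (nat_lit 154))))) (XT.nd (nat_lit 312) (nat_lit 76) (nat_lit 0) (XT.nd (nat_lit 156) (nat_lit 0) (nat_lit 0) (XT.nd (nat_lit 78) (nat_lit 0) (nat_lit 0) (XT.lf (nat_lit 0) (nat_lit 153913697978) (nat_lit 152) (nat_lit 11635198183) (nat_lit 0) (nat_lit 146885034529) (nat_lit 2) (nat_lit 5) (nat_lit 4) (nat_lit 4) (nat_lit 2) (nat_lit 4) (nat_lit 352) (nat_lit 215) (nat_lit 153)) (XT.lf (nat_lit 0) (nat_lit 163175504992) (nat_lit 152) (nat_lit 8651921960)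 (nat_lit 0) (nat_lit 156129759699) (nat_lit 2) (nat_lit 5) (nat_lit 4) (nat_lit 4) (nat_lit 2) (nat_lit 4) (nat_lit 353) (nat_lit 215) (nat_lit 152))) (XT.nd (nat_lit 78) (nat_lit 0) (nat_lit 0) (XT.lf (nat_lit 0) (nat_lit 172892421243) (nat_lit 152) (nat_lit 5534182562) (nat_lit 0) (nat_lit 165830407528) (nat_lit 2) (nat_lit 5) (nat_lit 4) (nat_lit 4) (nat_lit 2) (nat_lit 4) (nat_lit 354) (nat_lit 215) (nat_lit 151)) (XT.lf (nat_lit 0) (nat_lit 183087582248) (nat_lit 152) (nat_lit 2274556802) (nat_lit 0) (nat_lit 176010074797) (nat_lit 2) (nat_lit 5) (nat_lit 4) (nat_lit 4) (nat_lit 2) (nat_lit 4) (nat_lit 355) (nat_lit 215) (nat_lit 150)))) (XT.nd (nat_lit 156) (nat_lit 0) (nat_lit 0) (XT.nd (nat_lit 78) (nat_lit 0) (nat_lit 0) (XT.lf (nat_lit 0) (nat_lit 1172235180) (nat_lit 76) (nat_lit 192631328894) (nat_lit 76) (nat_lit 185539065506) (nat_lit 1) (nat_lit 4) (nat_lit 2) (nat_lit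 5) (nat_lit 2) (nat_lit 4) (nat_lit 356) (nat_lit 215) (nat_lit 149)) (XT.lf (nat_lit 0) (nat_lit 4857215389) (nat_lit 76) (nat_lit 200229551115) (nat_lit 76) (nat_lit 193123234452) (nat_lit 1) (nat_lit 4) (nat_lit 2) (nat_lit 5) (nat_lit 2) (nat_lit 4) (nat_lit 357) (nat_lit 215) (nat_lit 148))) (XT.nd (nat_lit 78) (nat_lit 0) (nat_lit 0) (XT.lf (nat_lit 0) (nat_lit 8713950468) (nat_lit 76) (nat_lit 208213417439) (nat_lit 76) (nat_lit 201093716705) (nat_lit 1) (nat_lit 4) (nat_lit 2) (nat_lit 5) (nat_lit 2) (nat_lit 4) (nat_lit 358) (nat_lit 215) (nat_lit 147)) (XT.nd (nat_lit 78) (nat_lit 0) (nat_lit 0) (XT.lf (nat_lit 0) (nat_lit 12751623119) (nat_lit 76) (nat_lit 216601937071) (nat_lit 76) (nat_lit 209469489603) (nat_lit 1) (nat_lit 4) (nat_lit 2) (nat_lit 5) (nat_lit 2) (nat_lit 4) (nat_lit 359) (nat_lit 215) (nat_lit 146)) (XT.lf (nat_lit 0) (nat_lit 16979846848) (nat_lit 76)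 (nat_lit 225415082677) (nat_lit 76) (nat_lit 218270495462) (nat_lit 1) (nat_lit 4) (nat_lit 2) (nat_lit 5) (nat_lit 2) (nat_lit 4) (nat_lit 360) (nat_lit 215) (nat_lit 145))))))) (XT.nd (nat_lit 32292) (nat_lit 0) (nat_lit 456) (XT.nd (nat_lit 31902) (nat_lit 0) (nat_lit 684) (XT.nd (nat_lit 156) (nat_lit 0) (nat_lit 0) (XT.nd (nat_lit 78) (nat_lit 0) (nat_lit 0) (XT.lf (nat_lit 0) (nat_lit 21408688854) (nat_lit 76) (nat_lit 234673837938) (nat_lit 76) (nat_lit 227517689058) (nat_lit 1) (nat_lit 4) (nat_lit 2) (nat_lit 5) (nat_lit 2) (nat_lit 4) (nat_lit 361) (nat_lit 215) (nat_lit 144)) (XT.lf (nat_lit 0) (nat_lit 26048693999) (nat_lit 76) (nat_lit 244400247507) (nat_lit 76) (nat_lit 237233087520) (nat_lit 1) (nat_lit 4) (nat_lit 2) (nat_lit 5) (nat_lit 2) (nat_lit 4) (nat_lit 362) (nat_lit 215) (nat_lit 143))) (XT.nd (nat_lit 31668) (nat_lit 0) (nat_lit 912) (XT.lf (nat_lit 0) (nat_lit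 30910909915) (nat_lit 76) (nat_lit 254617469505) (nat_lit 76) (nat_lit 247439822747) (nat_lit 1) (nat_lit 4) (nat_lit 2) (nat_lit 5) (nat_lit 2) (nat_lit 4) (nat_lit 363) (nat_lit 215) (nat_lit 142)) (XT.lf (nat_lit 0) (nat_lit 6092183924) (nat_lit 152) (nat_lit 1188376479) (nat_lit 152) (nat_lit 1188376479) (nat_lit 13) (nat_lit 4) (nat_lit 15) (nat_lit 5) (nat_lit 15) (nat_lit 4) (nat_lit 288) (nat_lit 216) (nat_lit 216)))) (XT.nd (nat_lit 156) (nat_lit 76) (nat_lit 0) (XT.nd (nat_lit 78) (nat_lit 0) (nat_lit 0) (XT.lf (nat_lit 0) (nat_lit 1245215918) (nat_lit 152) (nat_lit 15512918571) (nat_lit 0) (nat_lit 817625005) (nat_lit 11) (nat_lit 5) (nat_lit 13) (nat_lit 4) (nat_lit 11) (nat_lit 4) (nat_lit 289) (nat_lit 216) (nat_lit 215)) (XT.lf (nat_lit 0) (nat_lit 4955970121) (nat_lit 152) (nat_lit 9167265362) (nat_lit 0) (nat_lit 4121149767) (nat_lit 11) (nat_lit 5) (nat_lit 13) (nat_lit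 4) (nat_lit 11) (nat_lit 4) (nat_lit 290) (nat_lit 216) (nat_lit 214))) (XT.nd (nat_lit 78) (nat_lit 76) (nat_lit 0) (XT.lf (nat_lit 0) (nat_lit 8725381616) (nat_lit 152) (nat_lit 2724844778) (nat_lit 0) (nat_lit 7502723698) (nat_lit 11) (nat_lit 5) (nat_lit 13) (nat_lit 4) (nat_lit 11) (nat_lit 4) (nat_lit 291) (nat_lit 216) (nat_lit 213)) (XT.nd (nat_lit 78) (nat_lit 0) (nat_lit 0) (XT.lf (nat_lit 0) (nat_lit 3956308867) (nat_lit 76) (nat_lit 8667885392) (nat_lit 76) (nat_lit 7075858367) (nat_lit 10) (nat_lit 4) (nat_lit 11) (nat_lit 5) (nat_lit 11) (nat_lit 4) (nat_lit 292) (nat_lit 216) (nat_lit 212)) (XT.lf (nat_lit 0) (nat_lit 10859493426) (nat_lit 76) (nat_lit 5786290364) (nat_lit 76) (nat_lit 3842483236) (nat_lit 10) (nat_lit 4) (nat_lit 11) (nat_lit 5) (nat_lit 11) (nat_lit 4) (nat_lit 293) (nat_lit 216) (nat_lit 211)))))) (XT.nd (nat_lit 312) (nat_lit 76) (nat_lit 0) (XT.nd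 (nat_lit 156) (nat_lit 0) (nat_lit 0) (XT.nd (nat_lit 78) (nat_lit 152) (nat_lit 0) (XT.lf (nat_lit 0) (nat_lit 17911049379) (nat_lit 76) (nat_lit 2844726933) (nat_lit 76) (nat_lit 565891136) (nat_lit 10) (nat_lit 4) (nat_lit 11) (nat_lit 5) (nat_lit 11) (nat_lit 4) (nat_lit 294) (nat_lit 216) (nat_lit 210)) (XT.lf (nat_lit 0) (nat_lit 2723844062) (nat_lit 152) (nat_lit 19224068981) (nat_lit 0) (nat_lit 249643376) (nat_lit 8) (nat_lit 5) (nat_lit 10) (nat_lit 4) (nat_lit 8) (nat_lit 4) (nat_lit 295) (nat_lit 216) (nat_lit 209))) (XT.nd (nat_lit 78) (nat_lit 0) (nat_lit 0) (XT.lf (nat_lit 0) (nat_lit 6156186958) (nat_lit 152) (nat_lit 13568278411) (nat_lit 0) (nat_lit 3392575910) (nat_lit 8) (nat_lit 5) (nat_lit 10) (nat_lit 4) (nat_lit 8) (nat_lit 4) (nat_lit 296) (nat_lit 216) (nat_lit 208)) (XT.lf (nat_lit 0) (nat_lit 9657095913) (nat_lit 152) (nat_lit 7812817465) (nat_lit 0) (nat_lit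 6617855951) (nat_lit 8) (nat_lit 5) (nat_lit 10) (nat_lit 4) (nat_lit 8) (nat_lit 4) (nat_lit 297) (nat_lit 216) (nat_lit 207)))) (XT.nd (nat_lit 156) (nat_lit 0) (nat_lit 0) (XT.nd (nat_lit 78) (nat_lit 76) (nat_lit 0) (XT.lf (nat_lit 0) (nat_lit 13234906426) (nat_lit 152) (nat_lit 1943982666) (nat_lit 0) (nat_lit 9933162735) (nat_lit 8) (nat_lit 5) (nat_lit 10) (nat_lit 4) (nat_lit 8) (nat_lit 4) (nat_lit 298) (nat_lit 216) (nat_lit 206)) (XT.lf (nat_lit 0) (nat_lit 4186183414) (nat_lit 76) (nat_lit 12777311734) (nat_lit 76) (nat_lit 9225564491) (nat_lit 7) (nat_lit 4) (nat_lit 8) (nat_lit 5) (nat_lit 8) (nat_lit 4) (nat_lit 299) (nat_lit 216) (nat_lit 205))) (XT.nd (nat_lit 78) (nat_lit 0) (nat_lit 0) (XT.lf (nat_lit 0) (nat_lit 10526932961) (nat_lit 76) (nat_lit 10292931857) (nat_lit 76) (nat_lit 6503085994) (nat_lit 7) (nat_lit 4) (nat_lit 8) (nat_lit 5) (nat_lit 8) (nat_lit 4)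 (nat_lit 300) (nat_lit 216) (nat_lit 204)) (XT.nd (nat_lit 78) (nat_lit 0) (nat_lit 0) (XT.lf (nat_lit 0) (nat_lit 17029086150) (nat_lit 76) (nat_lit 7752756559) (nat_lit 76) (nat_lit 3736150105) (nat_lit 7) (nat_lit 4) (nat_lit 8) (nat_lit 5) (nat_lit 8) (nat_lit 4) (nat_lit 301) (nat_lit 216) (nat_lit 203)) (XT.lf (nat_lit 0) (nat_lit 23708124298) (nat_lit 76) (nat_lit 5150737803) (nat_lit 76) (nat_lit 918168882) (nat_lit 7) (nat_lit 4) (nat_lit 8) (nat_lit 5) (nat_lit 8) (nat_lit 4) (nat_lit 302) (nat_lit 216) (nat_lit 202))))))))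
noncomputable def xc42 : XT := (XT.nd (nat_lit 1326) (nat_lit 152) (nat_lit 0) (XT.nd (nat_lit 624) (nat_lit 0) (nat_lit 0) (XT.nd (nat_lit 312) (nat_lit 76) (nat_lit 0) (XT.nd (nat_lit 156) (nat_lit 0) (nat_lit 0) (XT.nd (nat_lit 78) (nat_lit 76) (nat_lit 0) (XT.lf (nat_lit 0) (nat_lit 1894912779) (nat_lit 152) (nat_lit 553676262) (nat_lit 76) (nat_lit 28652945832) (nat_lit 6) (nat_lit 5) (nat_lit 8) (nat_lit 5) (nat_lit 7) (nat_lit 4) (nat_lit 303) (nat_lit 216) (nat_lit 201)) (XT.lf (nat_lit 0) (nat_lit 4829877360) (nat_lit 152) (nat_lit 27244689997) (nat_lit 0) (nat_lit 416418517) (nat_lit 5) (nat_lit 5) (nat_lit 7) (nat_lit 4) (nat_lit 5) (nat_lit 4) (nat_lit 304) (nat_lit 216) (nat_lit 200))) (XT.nd (nat_lit 78) (nat_lit 0) (nat_lit 0) (XT.lf (nat_lit 0) (nat_lit 7885222909) (nat_lit 152) (nat_lit 22771988700) (nat_lit 0) (nat_lit 3294091210) (nat_lit 5) (nat_lit 5) (nat_lit 7)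 (nat_lit 4) (nat_lit 5) (nat_lit 4) (nat_lit 305) (nat_lit 216) (nat_lit 199)) (XT.lf (nat_lit 0) (nat_lit 11020918060) (nat_lit 152) (nat_lit 18206835772) (nat_lit 0) (nat_lit 6260574116) (nat_lit 5) (nat_lit 5) (nat_lit 7) (nat_lit 4) (nat_lit 5) (nat_lit 4) (nat_lit 306) (nat_lit 216) (nat_lit 198)))) (XT.nd (nat_lit 156) (nat_lit 76) (nat_lit 0) (XT.nd (nat_lit 78) (nat_lit 0) (nat_lit 0) (XT.lf (nat_lit 0) (nat_lit 14244428754) (nat_lit 152) (nat_lit 13538361801) (nat_lit 0) (nat_lit 9322930292) (nat_lit 5) (nat_lit 5) (nat_lit 7) (nat_lit 4) (nat_lit 5) (nat_lit 4) (nat_lit 307) (nat_lit 216) (nat_lit 197)) (XT.lf (nat_lit 0) (nat_lit 17563430017) (nat_lit 152) (nat_lit 8755451375) (nat_lit 0) (nat_lit 12488451062) (nat_lit 5) (nat_lit 5) (nat_lit 7) (nat_lit 4) (nat_lit 5) (nat_lit 4) (nat_lit 308) (nat_lit 216) (nat_lit 196))) (XT.nd (nat_lit 78) (nat_lit 76) (nat_lit 0) (XT.lf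 (nat_lit 0) (nat_lit 20985824232) (nat_lit 152) (nat_lit 3846716610) (nat_lit 0) (nat_lit 15764673379) (nat_lit 5) (nat_lit 5) (nat_lit 7) (nat_lit 4) (nat_lit 5) (nat_lit 4) (nat_lit 309) (nat_lit 216) (nat_lit 195)) (XT.lf (nat_lit 0) (nat_lit 1239191833) (nat_lit 76) (nat_lit 23299915382) (nat_lit 76) (nat_lit 17939553196) (nat_lit 4) (nat_lit 4) (nat_lit 5) (nat_lit 5) (nat_lit 5) (nat_lit 4) (nat_lit 310) (nat_lit 216) (nat_lit 194))))) (XT.nd (nat_lit 312) (nat_lit 0) (nat_lit 0) (XT.nd (nat_lit 156) (nat_lit 0) (nat_lit 0) (XT.nd (nat_lit 78) (nat_lit 0) (nat_lit 0) (XT.lf (nat_lit 0) (nat_lit 6606760803) (nat_lit 76) (nat_lit 21670040575) (nat_lit 76) (nat_lit 16177096168) (nat_lit 4) (nat_lit 4) (nat_lit 5) (nat_lit 5) (nat_lit 5) (nat_lit 4) (nat_lit 311) (nat_lit 216) (nat_lit 193)) (XT.lf (nat_lit 0) (nat_lit 12141580401) (nat_lit 76) (nat_lit 20004181776) (nat_lit 76) (nat_lit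 14384968587) (nat_lit 4) (nat_lit 4) (nat_lit 5) (nat_lit 5) (nat_lit 5) (nat_lit 4) (nat_lit 312) (nat_lit 216) (nat_lit 192))) (XT.nd (nat_lit 78) (nat_lit 0) (nat_lit 0) (XT.lf (nat_lit 0) (nat_lit 17856828769) (nat_lit 76) (nat_lit 18298372653) (nat_lit 76) (nat_lit 12558903482) (nat_lit 4) (nat_lit 4) (nat_lit 5) (nat_lit 5) (nat_lit 5) (nat_lit 4) (nat_lit 313) (nat_lit 216) (nat_lit 191)) (XT.lf (nat_lit 0) (nat_lit 23766113641) (nat_lit 76) (nat_lit 16548551757) (nat_lit 76) (nat_lit 10694553078) (nat_lit 4) (nat_lit 4) (nat_lit 5) (nat_lit 5) (nat_lit 5) (nat_lit 4) (nat_lit 314) (nat_lit 216) (nat_lit 190)))) (XT.nd (nat_lit 156) (nat_lit 0) (nat_lit 0) (XT.nd (nat_lit 78) (nat_lit 0) (nat_lit 0) (XT.lf (nat_lit 0) (nat_lit 29883504743) (nat_lit 76) (nat_lit 14750552847) (nat_lit 76) (nat_lit 8787478447) (nat_lit 4) (nat_lit 4) (nat_lit 5) (nat_lit 5) (nat_lit 5) (nat_lit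 4) (nat_lit 315) (nat_lit 216) (nat_lit 189)) (XT.lf (nat_lit 0) (nat_lit 36223567293) (nat_lit 76) (nat_lit 12900094974) (nat_lit 76) (nat_lit 6833138935) (nat_lit 4) (nat_lit 4) (nat_lit 5) (nat_lit 5) (nat_lit 5) (nat_lit 4) (nat_lit 316) (nat_lit 216) (nat_lit 188))) (XT.nd (nat_lit 78) (nat_lit 0) (nat_lit 0) (XT.lf (nat_lit 0) (nat_lit 42801396676) (nat_lit 76) (nat_lit 10992772285) (nat_lit 76) (nat_lit 4826881351) (nat_lit 4) (nat_lit 4) (nat_lit 5) (nat_lit 5) (nat_lit 5) (nat_lit 4) (nat_lit 317) (nat_lit 216) (nat_lit 187)) (XT.nd (nat_lit 78) (nat_lit 0) (nat_lit 0) (XT.lf (nat_lit 0) (nat_lit 49632654392) (nat_lit 76) (nat_lit 9024043536) (nat_lit 76) (nat_lit 2763928893) (nat_lit 4) (nat_lit 4) (nat_lit 5) (nat_lit 5) (nat_lit 5) (nat_lit 4) (nat_lit 318) (nat_lit 216) (nat_lit 186)) (XT.lf (nat_lit 0) (nat_lit 56733605339) (nat_lit 76) (nat_lit 6989221278) (nat_lit 76)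 (nat_lit 639369769) (nat_lit 4) (nat_lit 4) (nat_lit 5) (nat_lit 5) (nat_lit 5) (nat_lit 4) (nat_lit 319) (nat_lit 216) (nat_lit 185))))))) (XT.nd (nat_lit 702) (nat_lit 0) (nat_lit 0) (XT.nd (nat_lit 312) (nat_lit 0) (nat_lit 0) (XT.nd (nat_lit 156) (nat_lit 0) (nat_lit 0) (XT.nd (nat_lit 78) (nat_lit 76) (nat_lit 0) (XT.lf (nat_lit 0) (nat_lit 1502185459) (nat_lit 152) (nat_lit 3355834998) (nat_lit 76) (nat_lit 62593530848) (nat_lit 3) (nat_lit 5) (nat_lit 5) (nat_lit 5) (nat_lit 4) (nat_lit 4) (nat_lit 320) (nat_lit 216) (nat_lit 184)) (XT.lf (nat_lit 0) (nat_lit 1088489246) (nat_lit 76) (nat_lit 2621363641) (nat_lit 152) (nat_lit 66986003671) (nat_lit 2) (nat_lit 5) (nat_lit 3) (nat_lit 5) (nat_lit 4) (nat_lit 4) (nat_lit 321) (nat_lit 216) (nat_lit 183))) (XT.nd (nat_lit 78) (nat_lit 0) (nat_lit 0) (XT.lf (nat_lit 0) (nat_lit 5806181525) (nat_lit 76) (nat_lit 242798365) (nat_lit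 152) (nat_lit 68052374548) (nat_lit 2) (nat_lit 5) (nat_lit 3) (nat_lit 5) (nat_lit 4) (nat_lit 4) (nat_lit 322) (nat_lit 216) (nat_lit 182)) (XT.lf (nat_lit 0) (nat_lit 8505771447) (nat_lit 152) (nat_lit 67016106215) (nat_lit 0) (nat_lit 2155243834) (nat_lit 2) (nat_lit 5) (nat_lit 4) (nat_lit 4) (nat_lit 2) (nat_lit 4) (nat_lit 323) (nat_lit 216) (nat_lit 181)))) (XT.nd (nat_lit 156) (nat_lit 0) (nat_lit 0) (XT.nd (nat_lit 78) (nat_lit 0) (nat_lit 0) (XT.lf (nat_lit 0) (nat_lit 11056531540) (nat_lit 152) (nat_lit 65737576299) (nat_lit 0) (nat_lit 4639040896) (nat_lit 2) (nat_lit 5) (nat_lit 4) (nat_lit 4) (nat_lit 2) (nat_lit 4) (nat_lit 324) (nat_lit 216) (nat_lit 180)) (XT.lf (nat_lit 0) (nat_lit 13703542645) (nat_lit 152) (nat_lit 64452748284) (nat_lit 0) (nat_lit 7222277686) (nat_lit 2) (nat_lit 5) (nat_lit 4) (nat_lit 4) (nat_lit 2) (nat_lit 4) (nat_lit 325) (nat_lit 216) (nat_lit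 179))) (XT.nd (nat_lit 78) (nat_lit 0) (nat_lit 0) (XT.lf (nat_lit 0) (nat_lit 16453107171) (nat_lit 152) (nat_lit 63158563057) (nat_lit 0) (nat_lit 9911104768) (nat_lit 2) (nat_lit 5) (nat_lit 4) (nat_lit 4) (nat_lit 2) (nat_lit 4) (nat_lit 326) (nat_lit 216) (nat_lit 178)) (XT.nd (nat_lit 78) (nat_lit 0) (nat_lit 0) (XT.lf (nat_lit 0) (nat_lit 19311771698) (nat_lit 152) (nat_lit 61851939223) (nat_lit 0) (nat_lit 12711924112) (nat_lit 2) (nat_lit 5) (nat_lit 4) (nat_lit 4) (nat_lit 2) (nat_lit 4) (nat_lit 327) (nat_lit 216) (nat_lit 177)) (XT.lf (nat_lit 0) (nat_lit 22286342572) (nat_lit 152) (nat_lit 60529765775) (nat_lit 0) (nat_lit 15631404335) (nat_lit 2) (nat_lit 5) (nat_lit 4) (nat_lit 4) (nat_lit 2) (nat_lit 4) (nat_lit 328) (nat_lit 216) (nat_lit 176)))))) (XT.nd (nat_lit 312) (nat_lit 0) (nat_lit 0) (XT.nd (nat_lit 156) (nat_lit 0) (nat_lit 0) (XT.nd (nat_lit 78) (nat_lit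 0) (nat_lit 0) (XT.lf (nat_lit 0) (nat_lit 25383902104) (nat_lit 152) (nat_lit 59188894678) (nat_lit 0) (nat_lit 18676496580) (nat_lit 2) (nat_lit 5) (nat_lit 4) (nat_lit 4) (nat_lit 2) (nat_lit 4) (nat_lit 329) (nat_lit 216) (nat_lit 175)) (XT.lf (nat_lit 0) (nat_lit 28611825436) (nat_lit 152) (nat_lit 57826133385) (nat_lit 0) (nat_lit 21854451067) (nat_lit 2) (nat_lit 5) (nat_lit 4) (nat_lit 4) (nat_lit 2) (nat_lit 4) (nat_lit 330) (nat_lit 216) (nat_lit 174))) (XT.nd (nat_lit 78) (nat_lit 0) (nat_lit 0) (XT.lf (nat_lit 0) (nat_lit 31977798098) (nat_lit 152) (nat_lit 56438237224) (nat_lit 0) (nat_lit 25172834353) (nat_lit 2) (nat_lit 5) (nat_lit 4) (nat_lit 4) (nat_lit 2) (nat_lit 4) (nat_lit 331) (nat_lit 216) (nat_lit 173)) (XT.lf (nat_lit 0) (nat_lit 35489834313) (nat_lit 152) (nat_lit 55021901681) (nat_lit 0) (nat_lit 28639547353) (nat_lit 2) (nat_lit 5) (nat_lit 4) (nat_lit 4)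 (nat_lit 2) (nat_lit 4) (nat_lit 332) (nat_lit 216) (nat_lit 172)))) (XT.nd (nat_lit 156) (nat_lit 0) (nat_lit 0) (XT.nd (nat_lit 78) (nat_lit 0) (nat_lit 0) (XT.lf (nat_lit 0) (nat_lit 39156296071) (nat_lit 152) (nat_lit 53573754528) (nat_lit 0) (nat_lit 32262844144) (nat_lit 2) (nat_lit 5) (nat_lit 4) (nat_lit 4) (nat_lit 2) (nat_lit 4) (nat_lit 333) (nat_lit 216) (nat_lit 171)) (XT.lf (nat_lit 0) (nat_lit 42985913043) (nat_lit 152) (nat_lit 52090347797) (nat_lit 0) (nat_lit 36051351624) (nat_lit 2) (nat_lit 5) (nat_lit 4) (nat_lit 4) (nat_lit 2) (nat_lit 4) (nat_lit 334) (nat_lit 216) (nat_lit 170))) (XT.nd (nat_lit 78) (nat_lit 0) (nat_lit 0) (XT.lf (nat_lit 0) (nat_lit 46987803364) (nat_lit 152) (nat_lit 50568149566) (nat_lit 0) (nat_lit 40014090048) (nat_lit 2) (nat_lit 5) (nat_lit 4) (nat_lit 4) (nat_lit 2) (nat_lit 4) (nat_lit 335) (nat_lit 216) (nat_lit 169)) (XT.nd (nat_lit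 78) (nat_lit 0) (nat_lit 0) (XT.lf (nat_lit 0) (nat_lit 51171495345) (nat_lit 152) (nat_lit 49003535553) (nat_lit 0) (nat_lit 44160494508) (nat_lit 2) (nat_lit 5) (nat_lit 4) (nat_lit 4) (nat_lit 2) (nat_lit 4) (nat_lit 336) (nat_lit 216) (nat_lit 168)) (XT.lf (nat_lit 0) (nat_lit 55546950158) (nat_lit 152) (nat_lit 47392780488) (nat_lit 0) (nat_lit 48500437395) (nat_lit 2) (nat_lit 5) (nat_lit 4) (nat_lit 4) (nat_lit 2) (nat_lit 4) (nat_lit 337) (nat_lit 216) (nat_lit 167))))))))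
noncomputable def xc43 : XT := (XT.nd (nat_lit 1326) (nat_lit 76) (nat_lit 0) (XT.nd (nat_lit 624) (nat_lit 0) (nat_lit 0) (XT.nd (nat_lit 312) (nat_lit 0) (nat_lit 0) (XT.nd (nat_lit 156) (nat_lit 0) (nat_lit 0) (XT.nd (nat_lit 78) (nat_lit 0) (nat_lit 0) (XT.lf (nat_lit 0) (nat_lit 60124585551) (nat_lit 152) (nat_lit 45732049240) (nat_lit 0) (nat_lit 53044251907) (nat_lit 2) (nat_lit 5) (nat_lit 4) (nat_lit 4) (nat_lit 2) (nat_lit 4) (nat_lit 338) (nat_lit 216) (nat_lit 166)) (XT.lf (nat_lit 0) (nat_lit 64915300656) (nat_lit 152) (nat_lit 44017387685) (nat_lit 0) (nat_lit 57802756650) (nat_lit 2) (nat_lit 5) (nat_lit 4) (nat_lit 4) (nat_lit 2) (nat_lit 4) (nat_lit 339) (nat_lit 216) (nat_lit 165))) (XT.nd (nat_lit 78) (nat_lit 0) (nat_lit 0) (XT.lf (nat_lit 0) (nat_lit 69930501939) (nat_lit 152) (nat_lit 42244713297) (nat_lit 0) (nat_lit 62787281396) (nat_lit 2) (nat_lit 5) (nat_lit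 4) (nat_lit 4) (nat_lit 2) (nat_lit 4) (nat_lit 340) (nat_lit 216) (nat_lit 164)) (XT.lf (nat_lit 0) (nat_lit 75182130354) (nat_lit 152) (nat_lit 40409805423) (nat_lit 0) (nat_lit 68009694063) (nat_lit 2) (nat_lit 5) (nat_lit 4) (nat_lit 4) (nat_lit 2) (nat_lit 4) (nat_lit 341) (nat_lit 216) (nat_lit 163)))) (XT.nd (nat_lit 156) (nat_lit 0) (nat_lit 0) (XT.nd (nat_lit 78) (nat_lit 0) (nat_lit 0) (XT.lf (nat_lit 0) (nat_lit 80682689779) (nat_lit 152) (nat_lit 38508295234) (nat_lit 0) (nat_lit 73482428966) (nat_lit 2) (nat_lit 5) (nat_lit 4) (nat_lit 4) (nat_lit 2) (nat_lit 4) (nat_lit 342) (nat_lit 216) (nat_lit 162)) (XT.lf (nat_lit 0) (nat_lit 86445276784) (nat_lit 152) (nat_lit 36535655325) (nat_lit 0) (nat_lit 79218516425) (nat_lit 2) (nat_lit 5) (nat_lit 4) (nat_lit 4) (nat_lit 2) (nat_lit 4) (nat_lit 343) (nat_lit 216) (nat_lit 161))) (XT.nd (nat_lit 78) (nat_lit 0) (nat_lit 0)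 (XT.lf (nat_lit 0) (nat_lit 92483611814) (nat_lit 152) (nat_lit 34487188934) (nat_lit 0) (nat_lit 85231613793) (nat_lit 2) (nat_lit 5) (nat_lit 4) (nat_lit 4) (nat_lit 2) (nat_lit 4) (nat_lit 344) (nat_lit 216) (nat_lit 160)) (XT.lf (nat_lit 0) (nat_lit 98812071857) (nat_lit 152) (nat_lit 32358018760) (nat_lit 0) (nat_lit 91536037968) (nat_lit 2) (nat_lit 5) (nat_lit 4) (nat_lit 4) (nat_lit 2) (nat_lit 4) (nat_lit 345) (nat_lit 216) (nat_lit 159))))) (XT.nd (nat_lit 312) (nat_lit 0) (nat_lit 0) (XT.nd (nat_lit 156) (nat_lit 0) (nat_lit 0) (XT.nd (nat_lit 78) (nat_lit 0) (nat_lit 0) (XT.lf (nat_lit 0) (nat_lit 105445724676) (nat_lit 152) (nat_lit 30143075351) (nat_lit 0) (nat_lit 98146799483) (nat_lit 2) (nat_lit 5) (nat_lit 4) (nat_lit 4) (nat_lit 2) (nat_lit 4) (nat_lit 346) (nat_lit 216) (nat_lit 158)) (XT.lf (nat_lit 0) (nat_lit 112400364681) (nat_lit 152) (nat_lit 27837085031) (nat_lit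 0) (nat_lit 105079638247) (nat_lit 2) (nat_lit 5) (nat_lit 4) (nat_lit 4) (nat_lit 2) (nat_lit 4) (nat_lit 347) (nat_lit 216) (nat_lit 157))) (XT.nd (nat_lit 78) (nat_lit 0) (nat_lit 0) (XT.lf (nat_lit 0) (nat_lit 119692550540) (nat_lit 152) (nat_lit 25434557349) (nat_lit 0) (nat_lit 112351061018) (nat_lit 2) (nat_lit 5) (nat_lit 4) (nat_lit 4) (nat_lit 2) (nat_lit 4) (nat_lit 348) (nat_lit 216) (nat_lit 156)) (XT.lf (nat_lit 0) (nat_lit 127339644599) (nat_lit 152) (nat_lit 22929771998) (nat_lit 0) (nat_lit 119978380709) (nat_lit 2) (nat_lit 5) (nat_lit 4) (nat_lit 4) (nat_lit 2) (nat_lit 4) (nat_lit 349) (nat_lit 216) (nat_lit 155)))) (XT.nd (nat_lit 156) (nat_lit 0) (nat_lit 0) (XT.nd (nat_lit 78) (nat_lit 0) (nat_lit 0) (XT.lf (nat_lit 0) (nat_lit 135359854226) (nat_lit 152) (nat_lit 20316765206) (nat_lit 0) (nat_lit 127979757604) (nat_lit 2) (nat_lit 5) (nat_lit 4) (nat_lit 4) (nat_lit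 2) (nat_lit 4) (nat_lit 350) (nat_lit 216) (nat_lit 154)) (XT.lf (nat_lit 0) (nat_lit 143772275157) (nat_lit 152) (nat_lit 17589315527) (nat_lit 0) (nat_lit 136374242600) (nat_lit 2) (nat_lit 5) (nat_lit 4) (nat_lit 4) (nat_lit 2) (nat_lit 4) (nat_lit 351) (nat_lit 216) (nat_lit 153))) (XT.nd (nat_lit 78) (nat_lit 0) (nat_lit 0) (XT.lf (nat_lit 0) (nat_lit 152596936967) (nat_lit 152) (nat_lit 14740929033) (nat_lit 0) (nat_lit 145181822567) (nat_lit 2) (nat_lit 5) (nat_lit 4) (nat_lit 4) (nat_lit 2) (nat_lit 4) (nat_lit 352) (nat_lit 216) (nat_lit 152)) (XT.nd (nat_lit 78) (nat_lit 0) (nat_lit 0) (XT.lf (nat_lit 0) (nat_lit 161854850755) (nat_lit 152) (nat_lit 11764823852) (nat_lit 0) (nat_lit 154423467932) (nat_lit 2) (nat_lit 5) (nat_lit 4) (nat_lit 4) (nat_lit 2) (nat_lit 4) (nat_lit 353) (nat_lit 216) (nat_lit 151)) (XT.lf (nat_lit 0) (nat_lit 171568059172) (nat_lit 152) (nat_lit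 8653914019) (nat_lit 0) (nat_lit 164121182615) (nat_lit 2) (nat_lit 5) (nat_lit 4) (nat_lit 4) (nat_lit 2) (nat_lit 4) (nat_lit 354) (nat_lit 216) (nat_lit 150))))))) (XT.nd (nat_lit 32136) (nat_lit 0) (nat_lit 684) (XT.nd (nat_lit 312) (nat_lit 0) (nat_lit 0) (XT.nd (nat_lit 156) (nat_lit 76) (nat_lit 0) (XT.nd (nat_lit 78) (nat_lit 0) (nat_lit 0) (XT.lf (nat_lit 0) (nat_lit 181759688906) (nat_lit 152) (nat_lit 5400792606) (nat_lit 0) (nat_lit 174298056410) (nat_lit 2) (nat_lit 5) (nat_lit 4) (nat_lit 4) (nat_lit 2) (nat_lit 4) (nat_lit 355) (nat_lit 216) (nat_lit 149)) (XT.lf (nat_lit 0) (nat_lit 192454005742) (nat_lit 152) (nat_lit 1997714086) (nat_lit 0) (nat_lit 184978319971) (nat_lit 2) (nat_lit 5) (nat_lit 4) (nat_lit 4) (nat_lit 2) (nat_lit 4) (nat_lit 356) (nat_lit 216) (nat_lit 148))) (XT.nd (nat_lit 78) (nat_lit 0) (nat_lit 0) (XT.lf (nat_lit 0) (nat_lit 1615117970) (nat_lit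 76) (nat_lit 202086570886) (nat_lit 76) (nat_lit 194597501044) (nat_lit 1) (nat_lit 4) (nat_lit 2) (nat_lit 5) (nat_lit 2) (nat_lit 4) (nat_lit 357) (nat_lit 216) (nat_lit 147)) (XT.lf (nat_lit 0) (nat_lit 5466048570) (nat_lit 76) (nat_lit 210073100620) (nat_lit 76) (nat_lit 202571284044) (nat_lit 1) (nat_lit 4) (nat_lit 2) (nat_lit 5) (nat_lit 2) (nat_lit 4) (nat_lit 358) (nat_lit 216) (nat_lit 146)))) (XT.nd (nat_lit 156) (nat_lit 0) (nat_lit 0) (XT.nd (nat_lit 78) (nat_lit 0) (nat_lit 0) (XT.lf (nat_lit 0) (nat_lit 9498193145) (nat_lit 76) (nat_lit 218464156834) (nat_lit 76) (nat_lit 210950200511) (nat_lit 1) (nat_lit 4) (nat_lit 2) (nat_lit 5) (nat_lit 2) (nat_lit 4) (nat_lit 359) (nat_lit 216) (nat_lit 145)) (XT.lf (nat_lit 0) (nat_lit 13721152040) (nat_lit 76) (nat_lit 227279718232) (nat_lit 76) (nat_lit 219754200245) (nat_lit 1) (nat_lit 4) (nat_lit 2) (nat_lit 5) (nat_lit 2)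 (nat_lit 4) (nat_lit 360) (nat_lit 216) (nat_lit 144))) (XT.nd (nat_lit 78) (nat_lit 0) (nat_lit 0) (XT.lf (nat_lit 0) (nat_lit 18144979919) (nat_lit 76) (nat_lit 236540774247) (nat_lit 76) (nat_lit 229004245152) (nat_lit 1) (nat_lit 4) (nat_lit 2) (nat_lit 5) (nat_lit 2) (nat_lit 4) (nat_lit 361) (nat_lit 216) (nat_lit 143)) (XT.nd (nat_lit 78) (nat_lit 0) (nat_lit 0) (XT.lf (nat_lit 0) (nat_lit 22780209704) (nat_lit 76) (nat_lit 246269375012) (nat_lit 76) (nat_lit 238722359146) (nat_lit 1) (nat_lit 4) (nat_lit 2) (nat_lit 5) (nat_lit 2) (nat_lit 4) (nat_lit 362) (nat_lit 216) (nat_lit 142)) (XT.lf (nat_lit 0) (nat_lit 27637877659) (nat_lit 76) (nat_lit 256488683861) (nat_lit 76) (nat_lit 248931680596) (nat_lit 1) (nat_lit 4) (nat_lit 2) (nat_lit 5) (nat_lit 2) (nat_lit 4) (nat_lit 363) (nat_lit 216) (nat_lit 141)))))) (XT.nd (nat_lit 312) (nat_lit 76) (nat_lit 0) (XT.nd (nat_lit 156)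 (nat_lit 152) (nat_lit 0) (XT.nd (nat_lit 78) (nat_lit 152) (nat_lit 0) (XT.lf (nat_lit 0) (nat_lit 3419907504) (nat_lit 152) (nat_lit 1040202151) (nat_lit 0) (nat_lit 3419907504) (nat_lit 15) (nat_lit 5) (nat_lit 17) (nat_lit 4) (nat_lit 15) (nat_lit 4) (nat_lit 286) (nat_lit 217) (nat_lit 217)) (XT.lf (nat_lit 0) (nat_lit 4899088562) (nat_lit 152) (nat_lit 5953040036) (nat_lit 152) (nat_lit 5481621054) (nat_lit 13) (nat_lit 4) (nat_lit 15) (nat_lit 5) (nat_lit 15) (nat_lit 4) (nat_lit 287) (nat_lit 217) (nat_lit 216))) (XT.nd (nat_lit 78) (nat_lit 152) (nat_lit 0) (XT.lf (nat_lit 0) (nat_lit 12074448647) (nat_lit 152) (nat_lit 2893566635) (nat_lit 152) (nat_lit 1973177194) (nat_lit 13) (nat_lit 4) (nat_lit 15) (nat_lit 5) (nat_lit 15) (nat_lit 4) (nat_lit 288) (nat_lit 217) (nat_lit 215)) (XT.lf (nat_lit 0) (nat_lit 1560961937) (nat_lit 152) (nat_lit 15744459621) (nat_lit 0) (nat_lit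 277171124) (nat_lit 11) (nat_lit 5) (nat_lit 13) (nat_lit 4) (nat_lit 11) (nat_lit 4) (nat_lit 289) (nat_lit 217) (nat_lit 214)))) (XT.nd (nat_lit 156) (nat_lit 76) (nat_lit 0) (XT.nd (nat_lit 78) (nat_lit 0) (nat_lit 0) (XT.lf (nat_lit 0) (nat_lit 5209823253) (nat_lit 152) (nat_lit 9506374844) (nat_lit 0) (nat_lit 3538194877) (nat_lit 11) (nat_lit 5) (nat_lit 13) (nat_lit 4) (nat_lit 11) (nat_lit 4) (nat_lit 290) (nat_lit 217) (nat_lit 213)) (XT.lf (nat_lit 0) (nat_lit 8920289141) (nat_lit 152) (nat_lit 3166400387) (nat_lit 0) (nat_lit 6879291656) (nat_lit 11) (nat_lit 5) (nat_lit 13) (nat_lit 4) (nat_lit 11) (nat_lit 4) (nat_lit 291) (nat_lit 217) (nat_lit 212))) (XT.nd (nat_lit 78) (nat_lit 0) (nat_lit 0) (XT.lf (nat_lit 0) (nat_lit 3399359667) (nat_lit 76) (nat_lit 9354907907) (nat_lit 76) (nat_lit 6962130320) (nat_lit 10) (nat_lit 4) (nat_lit 11) (nat_lit 5) (nat_lit 11) (nat_lit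 4) (nat_lit 292) (nat_lit 217) (nat_lit 211)) (XT.nd (nat_lit 78) (nat_lit 0) (nat_lit 0) (XT.lf (nat_lit 0) (nat_lit 10206550160) (nat_lit 76) (nat_lit 6514342805) (nat_lit 76) (nat_lit 3786536548) (nat_lit 10) (nat_lit 4) (nat_lit 11) (nat_lit 5) (nat_lit 11) (nat_lit 4) (nat_lit 293) (nat_lit 217) (nat_lit 210)) (XT.lf (nat_lit 0) (nat_lit 17166683193) (nat_lit 76) (nat_lit 3611855494) (nat_lit 76) (nat_lit 564974315) (nat_lit 10) (nat_lit 4) (nat_lit 11) (nat_lit 5) (nat_lit 11) (nat_lit 4) (nat_lit 294) (nat_lit 217) (nat_lit 209))))))))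
noncomputable def xc44 : XT := (XT.nd (nat_lit 1326) (nat_lit 152) (nat_lit 0) (XT.nd (nat_lit 624) (nat_lit 228) (nat_lit 0) (XT.nd (nat_lit 312) (nat_lit 76) (nat_lit 0) (XT.nd (nat_lit 156) (nat_lit 0) (nat_lit 0) (XT.nd (nat_lit 78) (nat_lit 0) (nat_lit 0) (XT.lf (nat_lit 0) (nat_lit 2094411487) (nat_lit 76) (nat_lit 561770730) (nat_lit 152) (nat_lit 19566706124) (nat_lit 8) (nat_lit 5) (nat_lit 9) (nat_lit 5) (nat_lit 10) (nat_lit 4) (nat_lit 295) (nat_lit 217) (nat_lit 208)) (XT.lf (nat_lit 0) (nat_lit 6029485475) (nat_lit 152) (nat_lit 14553241885) (nat_lit 0) (nat_lit 2562654599) (nat_lit 8) (nat_lit 5) (nat_lit 10) (nat_lit 4) (nat_lit 8) (nat_lit 4) (nat_lit 296) (nat_lit 217) (nat_lit 207))) (XT.nd (nat_lit 78) (nat_lit 0) (nat_lit 0) (XT.lf (nat_lit 0) (nat_lit 9482519362) (nat_lit 152) (nat_lit 8882853717) (nat_lit 0) (nat_lit 5753184758) (nat_lit 8) (nat_lit 5) (nat_lit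 10) (nat_lit 4) (nat_lit 8) (nat_lit 4) (nat_lit 297) (nat_lit 217) (nat_lit 206)) (XT.lf (nat_lit 0) (nat_lit 13014734572) (nat_lit 152) (nat_lit 3095040611) (nat_lit 0) (nat_lit 9035396416) (nat_lit 8) (nat_lit 5) (nat_lit 10) (nat_lit 4) (nat_lit 8) (nat_lit 4) (nat_lit 298) (nat_lit 217) (nat_lit 205)))) (XT.nd (nat_lit 156) (nat_lit 0) (nat_lit 0) (XT.nd (nat_lit 78) (nat_lit 0) (nat_lit 0) (XT.lf (nat_lit 0) (nat_lit 2917351404) (nat_lit 76) (nat_lit 13762737768) (nat_lit 76) (nat_lit 9545300992) (nat_lit 7) (nat_lit 4) (nat_lit 8) (nat_lit 5) (nat_lit 8) (nat_lit 4) (nat_lit 299) (nat_lit 217) (nat_lit 204)) (XT.lf (nat_lit 0) (nat_lit 9182182007) (nat_lit 76) (nat_lit 11311735243) (nat_lit 76) (nat_lit 6867537876) (nat_lit 7) (nat_lit 4) (nat_lit 8) (nat_lit 5) (nat_lit 8) (nat_lit 4) (nat_lit 300) (nat_lit 217) (nat_lit 203))) (XT.nd (nat_lit 78) (nat_lit 0) (nat_lit 0) (XT.lf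 (nat_lit 0) (nat_lit 15612031440) (nat_lit 76) (nat_lit 8803347900) (nat_lit 76) (nat_lit 4143188066) (nat_lit 7) (nat_lit 4) (nat_lit 8) (nat_lit 5) (nat_lit 8) (nat_lit 4) (nat_lit 301) (nat_lit 217) (nat_lit 202)) (XT.lf (nat_lit 0) (nat_lit 22222208868) (nat_lit 76) (nat_lit 6231603387) (nat_lit 76) (nat_lit 1365765012) (nat_lit 7) (nat_lit 4) (nat_lit 8) (nat_lit 5) (nat_lit 8) (nat_lit 4) (nat_lit 302) (nat_lit 217) (nat_lit 201))))) (XT.nd (nat_lit 312) (nat_lit 76) (nat_lit 0) (XT.nd (nat_lit 156) (nat_lit 0) (nat_lit 0) (XT.nd (nat_lit 78) (nat_lit 76) (nat_lit 0) (XT.lf (nat_lit 0) (nat_lit 1424251992) (nat_lit 152) (nat_lit 2142006113) (nat_lit 76) (nat_lit 27580080419) (nat_lit 6) (nat_lit 5) (nat_lit 8) (nat_lit 5) (nat_lit 7) (nat_lit 4) (nat_lit 303) (nat_lit 217) (nat_lit 200)) (XT.lf (nat_lit 0) (nat_lit 3546722879) (nat_lit 76) (nat_lit 743522035) (nat_lit 152) (nat_lit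 28249029793) (nat_lit 5) (nat_lit 5) (nat_lit 6) (nat_lit 5) (nat_lit 7) (nat_lit 4) (nat_lit 304) (nat_lit 217) (nat_lit 199))) (XT.nd (nat_lit 78) (nat_lit 0) (nat_lit 0) (XT.lf (nat_lit 0) (nat_lit 7298656306) (nat_lit 152) (nat_lit 24572233988) (nat_lit 0) (nat_lit 2131082921) (nat_lit 5) (nat_lit 5) (nat_lit 7) (nat_lit 4) (nat_lit 5) (nat_lit 4) (nat_lit 305) (nat_lit 217) (nat_lit 198)) (XT.lf (nat_lit 0) (nat_lit 10400707938) (nat_lit 152) (nat_lit 20068025745) (nat_lit 0) (nat_lit 5071980035) (nat_lit 5) (nat_lit 5) (nat_lit 7) (nat_lit 4) (nat_lit 5) (nat_lit 4) (nat_lit 306) (nat_lit 217) (nat_lit 197)))) (XT.nd (nat_lit 156) (nat_lit 76) (nat_lit 0) (XT.nd (nat_lit 78) (nat_lit 0) (nat_lit 0) (XT.lf (nat_lit 0) (nat_lit 13592177185) (nat_lit 152) (nat_lit 15457594332) (nat_lit 0) (nat_lit 8109968789) (nat_lit 5) (nat_lit 5) (nat_lit 7) (nat_lit 4) (nat_lit 5) (nat_lit 4)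 (nat_lit 307) (nat_lit 217) (nat_lit 196)) (XT.lf (nat_lit 0) (nat_lit 16880662784) (nat_lit 152) (nat_lit 10729962531) (nat_lit 0) (nat_lit 11252282489) (nat_lit 5) (nat_lit 5) (nat_lit 7) (nat_lit 4) (nat_lit 5) (nat_lit 4) (nat_lit 308) (nat_lit 217) (nat_lit 195))) (XT.nd (nat_lit 78) (nat_lit 76) (nat_lit 0) (XT.lf (nat_lit 0) (nat_lit 20273994463) (nat_lit 152) (nat_lit 5873874077) (nat_lit 0) (nat_lit 14506402836) (nat_lit 5) (nat_lit 5) (nat_lit 7) (nat_lit 4) (nat_lit 5) (nat_lit 4) (nat_lit 309) (nat_lit 217) (nat_lit 194)) (XT.nd (nat_lit 78) (nat_lit 76) (nat_lit 0) (XT.lf (nat_lit 0) (nat_lit 23780251583) (nat_lit 152) (nat_lit 877766853) (nat_lit 0) (nat_lit 17880077734) (nat_lit 5) (nat_lit 5) (nat_lit 7) (nat_lit 4) (nat_lit 5) (nat_lit 4) (nat_lit 310) (nat_lit 217) (nat_lit 193)) (XT.lf (nat_lit 0) (nat_lit 4411448535) (nat_lit 76) (nat_lit 23065208913) (nat_lit 76)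 (nat_lit 17038766283) (nat_lit 4) (nat_lit 4) (nat_lit 5) (nat_lit 5) (nat_lit 5) (nat_lit 4) (nat_lit 311) (nat_lit 217) (nat_lit 192))))))) (XT.nd (nat_lit 702) (nat_lit 76) (nat_lit 0) (XT.nd (nat_lit 312) (nat_lit 76) (nat_lit 0) (XT.nd (nat_lit 156) (nat_lit 0) (nat_lit 0) (XT.nd (nat_lit 78) (nat_lit 0) (nat_lit 0) (XT.lf (nat_lit 0) (nat_lit 9899286567) (nat_lit 76) (nat_lit 21420492853) (nat_lit 76) (nat_lit 15273794241) (nat_lit 4) (nat_lit 4) (nat_lit 5) (nat_lit 5) (nat_lit 5) (nat_lit 4) (nat_lit 312) (nat_lit 217) (nat_lit 191)) (XT.lf (nat_lit 0) (nat_lit 15569790587) (nat_lit 76) (nat_lit 19734819674) (nat_lit 76) (nat_lit 13473591553) (nat_lit 4) (nat_lit 4) (nat_lit 5) (nat_lit 5) (nat_lit 5) (nat_lit 4) (nat_lit 313) (nat_lit 217) (nat_lit 190))) (XT.nd (nat_lit 78) (nat_lit 0) (nat_lit 0) (XT.lf (nat_lit 0) (nat_lit 21436461794) (nat_lit 76) (nat_lit 18004175866)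 (nat_lit 76) (nat_lit 11633872024) (nat_lit 4) (nat_lit 4) (nat_lit 5) (nat_lit 5) (nat_lit 5) (nat_lit 4) (nat_lit 314) (nat_lit 217) (nat_lit 189)) (XT.lf (nat_lit 0) (nat_lit 27513268453) (nat_lit 76) (nat_lit 16224440850) (nat_lit 76) (nat_lit 9750255369) (nat_lit 4) (nat_lit 4) (nat_lit 5) (nat_lit 5) (nat_lit 5) (nat_lit 4) (nat_lit 315) (nat_lit 217) (nat_lit 188)))) (XT.nd (nat_lit 156) (nat_lit 76) (nat_lit 0) (XT.nd (nat_lit 78) (nat_lit 0) (nat_lit 0) (XT.lf (nat_lit 0) (nat_lit 33814679152) (nat_lit 76) (nat_lit 14391377161) (nat_lit 76) (nat_lit 7818256786) (nat_lit 4) (nat_lit 4) (nat_lit 5) (nat_lit 5) (nat_lit 5) (nat_lit 4) (nat_lit 316) (nat_lit 217) (nat_lit 187)) (XT.lf (nat_lit 0) (nat_lit 40355697249) (nat_lit 76) (nat_lit 12500620362) (nat_lit 76) (nat_lit 5833276278) (nat_lit 4) (nat_lit 4) (nat_lit 5) (nat_lit 5) (nat_lit 5) (nat_lit 4) (nat_lit 317) (nat_lit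 217) (nat_lit 186))) (XT.nd (nat_lit 78) (nat_lit 76) (nat_lit 0) (XT.lf (nat_lit 0) (nat_lit 47151896597) (nat_lit 76) (nat_lit 10547668651) (nat_lit 76) (nat_lit 3790587701) (nat_lit 4) (nat_lit 4) (nat_lit 5) (nat_lit 5) (nat_lit 5) (nat_lit 4) (nat_lit 318) (nat_lit 217) (nat_lit 185)) (XT.nd (nat_lit 78) (nat_lit 76) (nat_lit 0) (XT.lf (nat_lit 0) (nat_lit 54219458623) (nat_lit 76) (nat_lit 8527872143) (nat_lit 76) (nat_lit 1685327511) (nat_lit 4) (nat_lit 4) (nat_lit 5) (nat_lit 5) (nat_lit 5) (nat_lit 4) (nat_lit 319) (nat_lit 217) (nat_lit 184)) (XT.lf (nat_lit 0) (nat_lit 471913232) (nat_lit 152) (nat_lit 5956516488) (nat_lit 76) (nat_lit 61095305544) (nat_lit 3) (nat_lit 5) (nat_lit 5) (nat_lit 5) (nat_lit 4) (nat_lit 4) (nat_lit 320) (nat_lit 217) (nat_lit 183)))))) (XT.nd (nat_lit 312) (nat_lit 0) (nat_lit 0) (XT.nd (nat_lit 156) (nat_lit 0) (nat_lit 0) (XT.nd (nat_lit 78)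 (nat_lit 76) (nat_lit 0) (XT.lf (nat_lit 0) (nat_lit 2645641850) (nat_lit 152) (nat_lit 1577890900) (nat_lit 76) (nat_lit 66546219915) (nat_lit 3) (nat_lit 5) (nat_lit 5) (nat_lit 5) (nat_lit 4) (nat_lit 4) (nat_lit 321) (nat_lit 217) (nat_lit 182)) (XT.lf (nat_lit 0) (nat_lit 3057266720) (nat_lit 76) (nat_lit 1885440672) (nat_lit 152) (nat_lit 69234660711) (nat_lit 2) (nat_lit 5) (nat_lit 3) (nat_lit 5) (nat_lit 4) (nat_lit 4) (nat_lit 322) (nat_lit 217) (nat_lit 181))) (XT.nd (nat_lit 78) (nat_lit 0) (nat_lit 0) (XT.lf (nat_lit 0) (nat_lit 7357827654) (nat_lit 152) (nat_lit 69844905418) (nat_lit 0) (nat_lit 552499446) (nat_lit 2) (nat_lit 5) (nat_lit 4) (nat_lit 4) (nat_lit 2) (nat_lit 4) (nat_lit 323) (nat_lit 217) (nat_lit 180)) (XT.lf (nat_lit 0) (nat_lit 9893325799) (nat_lit 152) (nat_lit 68594486915) (nat_lit 0) (nat_lit 3024223277) (nat_lit 2) (nat_lit 5) (nat_lit 4) (nat_lit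 4) (nat_lit 2) (nat_lit 4) (nat_lit 324) (nat_lit 217) (nat_lit 179)))) (XT.nd (nat_lit 156) (nat_lit 0) (nat_lit 0) (XT.nd (nat_lit 78) (nat_lit 0) (nat_lit 0) (XT.lf (nat_lit 0) (nat_lit 12525801717) (nat_lit 152) (nat_lit 67336431675) (nat_lit 0) (nat_lit 5595961751) (nat_lit 2) (nat_lit 5) (nat_lit 4) (nat_lit 4) (nat_lit 2) (nat_lit 4) (nat_lit 325) (nat_lit 217) (nat_lit 178)) (XT.lf (nat_lit 0) (nat_lit 15261523206) (nat_lit 152) (nat_lit 66067744329) (nat_lit 0) (nat_lit 8273838057) (nat_lit 2) (nat_lit 5) (nat_lit 4) (nat_lit 4) (nat_lit 2) (nat_lit 4) (nat_lit 326) (nat_lit 217) (nat_lit 177))) (XT.nd (nat_lit 78) (nat_lit 0) (nat_lit 0) (XT.lf (nat_lit 0) (nat_lit 18107003890) (nat_lit 152) (nat_lit 64785404191) (nat_lit 0) (nat_lit 11064228089) (nat_lit 2) (nat_lit 5) (nat_lit 4) (nat_lit 4) (nat_lit 2) (nat_lit 4) (nat_lit 327) (nat_lit 217) (nat_lit 176)) (XT.nd (nat_lit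 78) (nat_lit 0) (nat_lit 0) (XT.lf (nat_lit 0) (nat_lit 21069018722) (nat_lit 152) (nat_lit 63486358072) (nat_lit 0) (nat_lit 13973775634) (nat_lit 2) (nat_lit 5) (nat_lit 4) (nat_lit 4) (nat_lit 2) (nat_lit 4) (nat_lit 328) (nat_lit 217) (nat_lit 175)) (XT.lf (nat_lit 0) (nat_lit 24154620119) (nat_lit 152) (nat_lit 62167513003) (nat_lit 0) (nat_lit 17009408186) (nat_lit 2) (nat_lit 5) (nat_lit 4) (nat_lit 4) (nat_lit 2) (nat_lit 4) (nat_lit 329) (nat_lit 217) (nat_lit 174))))))))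
noncomputable def xc45 : XT := (XT.nd (nat_lit 1326) (nat_lit 76) (nat_lit 0) (XT.nd (nat_lit 624) (nat_lit 0) (nat_lit 0) (XT.nd (nat_lit 312) (nat_lit 0) (nat_lit 0) (XT.nd (nat_lit 156) (nat_lit 0) (nat_lit 0) (XT.nd (nat_lit 78) (nat_lit 0) (nat_lit 0) (XT.lf (nat_lit 0) (nat_lit 27371154750) (nat_lit 152) (nat_lit 60825728879) (nat_lit 0) (nat_lit 20178353442) (nat_lit 2) (nat_lit 5) (nat_lit 4) (nat_lit 4) (nat_lit 2) (nat_lit 4) (nat_lit 330) (nat_lit 217) (nat_lit 173)) (XT.lf (nat_lit 0) (nat_lit 30726281032) (nat_lit 152) (nat_lit 59457810975) (nat_lit 0) (nat_lit 23488156509) (nat_lit 2) (nat_lit 5) (nat_lit 4) (nat_lit 4) (nat_lit 2) (nat_lit 4) (nat_lit 331) (nat_lit 217) (nat_lit 172))) (XT.nd (nat_lit 78) (nat_lit 0) (nat_lit 0) (XT.lf (nat_lit 0) (nat_lit 34227987360) (nat_lit 152) (nat_lit 58060502343) (nat_lit 0) (nat_lit 26946697870) (nat_lit 2) (nat_lit 5) (nat_lit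 4) (nat_lit 4) (nat_lit 2) (nat_lit 4) (nat_lit 332) (nat_lit 217) (nat_lit 171)) (XT.lf (nat_lit 0) (nat_lit 37884611131) (nat_lit 152) (nat_lit 56630476058) (nat_lit 0) (nat_lit 30562212148) (nat_lit 2) (nat_lit 5) (nat_lit 4) (nat_lit 4) (nat_lit 2) (nat_lit 4) (nat_lit 333) (nat_lit 217) (nat_lit 170)))) (XT.nd (nat_lit 156) (nat_lit 0) (nat_lit 0) (XT.nd (nat_lit 78) (nat_lit 0) (nat_lit 0) (XT.lf (nat_lit 0) (nat_lit 41704858591) (nat_lit 152) (nat_lit 55164327295) (nat_lit 0) (nat_lit 34343307711) (nat_lit 2) (nat_lit 5) (nat_lit 4) (nat_lit 4) (nat_lit 2) (nat_lit 4) (nat_lit 334) (nat_lit 217) (nat_lit 169)) (XT.lf (nat_lit 0) (nat_lit 45697825567) (nat_lit 152) (nat_lit 53658565226) (nat_lit 0) (nat_lit 38298987166) (nat_lit 2) (nat_lit 5) (nat_lit 4) (nat_lit 4) (nat_lit 2) (nat_lit 4) (nat_lit 335) (nat_lit 217) (nat_lit 168))) (XT.nd (nat_lit 78) (nat_lit 0) (nat_lit 0)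 (XT.lf (nat_lit 0) (nat_lit 49873019125) (nat_lit 152) (nat_lit 52109604700) (nat_lit 0) (nat_lit 42438668799) (nat_lit 2) (nat_lit 5) (nat_lit 4) (nat_lit 4) (nat_lit 2) (nat_lit 4) (nat_lit 336) (nat_lit 217) (nat_lit 167)) (XT.lf (nat_lit 0) (nat_lit 54240380201) (nat_lit 152) (nat_lit 50513757718) (nat_lit 0) (nat_lit 46772208994) (nat_lit 2) (nat_lit 5) (nat_lit 4) (nat_lit 4) (nat_lit 2) (nat_lit 4) (nat_lit 337) (nat_lit 217) (nat_lit 166))))) (XT.nd (nat_lit 312) (nat_lit 0) (nat_lit 0) (XT.nd (nat_lit 156) (nat_lit 0) (nat_lit 0) (XT.nd (nat_lit 78) (nat_lit 0) (nat_lit 0) (XT.lf (nat_lit 0) (nat_lit 58810307273) (nat_lit 152) (nat_lit 48867224643) (nat_lit 0) (nat_lit 51309925704) (nat_lit 2) (nat_lit 5) (nat_lit 4) (nat_lit 4) (nat_lit 2) (nat_lit 4) (nat_lit 338) (nat_lit 217) (nat_lit 165)) (XT.lf (nat_lit 0) (nat_lit 63593681121) (nat_lit 152) (nat_lit 47166085159) (nat_lit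 0) (nat_lit 56062623015) (nat_lit 2) (nat_lit 5) (nat_lit 4) (nat_lit 4) (nat_lit 2) (nat_lit 4) (nat_lit 339) (nat_lit 217) (nat_lit 164))) (XT.nd (nat_lit 78) (nat_lit 0) (nat_lit 0) (XT.lf (nat_lit 0) (nat_lit 68601890730) (nat_lit 152) (nat_lit 45406288934) (nat_lit 0) (nat_lit 61041616876) (nat_lit 2) (nat_lit 5) (nat_lit 4) (nat_lit 4) (nat_lit 2) (nat_lit 4) (nat_lit 340) (nat_lit 217) (nat_lit 163)) (XT.lf (nat_lit 0) (nat_lit 73846860408) (nat_lit 152) (nat_lit 43583645976) (nat_lit 0) (nat_lit 66258762031) (nat_lit 2) (nat_lit 5) (nat_lit 4) (nat_lit 4) (nat_lit 2) (nat_lit 4) (nat_lit 341) (nat_lit 217) (nat_lit 162)))) (XT.nd (nat_lit 156) (nat_lit 0) (nat_lit 0) (XT.nd (nat_lit 78) (nat_lit 0) (nat_lit 0) (XT.lf (nat_lit 0) (nat_lit 79341078179) (nat_lit 152) (nat_lit 41693816660) (nat_lit 0) (nat_lit 71726480257) (nat_lit 2) (nat_lit 5) (nat_lit 4) (nat_lit 4) (nat_lit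 2) (nat_lit 4) (nat_lit 342) (nat_lit 217) (nat_lit 161)) (XT.lf (nat_lit 0) (nat_lit 85097625513) (nat_lit 152) (nat_lit 39732301391) (nat_lit 0) (nat_lit 77457789929) (nat_lit 2) (nat_lit 5) (nat_lit 4) (nat_lit 4) (nat_lit 2) (nat_lit 4) (nat_lit 343) (nat_lit 217) (nat_lit 160))) (XT.nd (nat_lit 78) (nat_lit 0) (nat_lit 0) (XT.lf (nat_lit 0) (nat_lit 91130208476) (nat_lit 152) (nat_lit 37694429896) (nat_lit 0) (nat_lit 83466337023) (nat_lit 2) (nat_lit 5) (nat_lit 4) (nat_lit 4) (nat_lit 2) (nat_lit 4) (nat_lit 344) (nat_lit 217) (nat_lit 159)) (XT.nd (nat_lit 78) (nat_lit 0) (nat_lit 0) (XT.lf (nat_lit 0) (nat_lit 97453190359) (nat_lit 152) (nat_lit 35575350100) (nat_lit 0) (nat_lit 89766427603) (nat_lit 2) (nat_lit 5) (nat_lit 4) (nat_lit 4) (nat_lit 2) (nat_lit 4) (nat_lit 345) (nat_lit 217) (nat_lit 158)) (XT.lf (nat_lit 0) (nat_lit 104081625883) (nat_lit 152) (nat_lit 33370016574)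 (nat_lit 0) (nat_lit 96373061885) (nat_lit 2) (nat_lit 5) (nat_lit 4) (nat_lit 4) (nat_lit 2) (nat_lit 4) (nat_lit 346) (nat_lit 217) (nat_lit 157))))))) (XT.nd (nat_lit 702) (nat_lit 76) (nat_lit 0) (XT.nd (nat_lit 312) (nat_lit 0) (nat_lit 0) (XT.nd (nat_lit 156) (nat_lit 0) (nat_lit 0) (XT.nd (nat_lit 78) (nat_lit 0) (nat_lit 0) (XT.lf (nat_lit 0) (nat_lit 111031297036) (nat_lit 152) (nat_lit 31073178524) (nat_lit 0) (nat_lit 103301969951) (nat_lit 2) (nat_lit 5) (nat_lit 4) (nat_lit 4) (nat_lit 2) (nat_lit 4) (nat_lit 347) (nat_lit 217) (nat_lit 156)) (XT.lf (nat_lit 0) (nat_lit 118318750655) (nat_lit 152) (nat_lit 28679367288) (nat_lit 0) (nat_lit 110569649201) (nat_lit 2) (nat_lit 5) (nat_lit 4) (nat_lit 4) (nat_lit 2) (nat_lit 4) (nat_lit 348) (nat_lit 217) (nat_lit 155))) (XT.nd (nat_lit 78) (nat_lit 0) (nat_lit 0) (XT.lf (nat_lit 0) (nat_lit 125961337819) (nat_lit 152) (nat_lit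 26182883316) (nat_lit 0) (nat_lit 118193403633) (nat_lit 2) (nat_lit 5) (nat_lit 4) (nat_lit 4) (nat_lit 2) (nat_lit 4) (nat_lit 349) (nat_lit 217) (nat_lit 154)) (XT.lf (nat_lit 0) (nat_lit 133977255164) (nat_lit 152) (nat_lit 23577782598) (nat_lit 0) (nat_lit 126191385043) (nat_lit 2) (nat_lit 5) (nat_lit 4) (nat_lit 4) (nat_lit 2) (nat_lit 4) (nat_lit 350) (nat_lit 217) (nat_lit 153)))) (XT.nd (nat_lit 156) (nat_lit 0) (nat_lit 0) (XT.nd (nat_lit 78) (nat_lit 0) (nat_lit 0) (XT.lf (nat_lit 0) (nat_lit 142385588209) (nat_lit 152) (nat_lit 20857862514) (nat_lit 0) (nat_lit 134582636245) (nat_lit 2) (nat_lit 5) (nat_lit 4) (nat_lit 4) (nat_lit 2) (nat_lit 4) (nat_lit 351) (nat_lit 217) (nat_lit 152)) (XT.lf (nat_lit 0) (nat_lit 151206356793) (nat_lit 152) (nat_lit 18016647063) (nat_lit 0) (nat_lit 143387136407) (nat_lit 2) (nat_lit 5) (nat_lit 4) (nat_lit 4) (nat_lit 2) (nat_lit 4)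 (nat_lit 352) (nat_lit 217) (nat_lit 151))) (XT.nd (nat_lit 78) (nat_lit 0) (nat_lit 0) (XT.lf (nat_lit 0) (nat_lit 160460562747) (nat_lit 152) (nat_lit 15047371446) (nat_lit 0) (nat_lit 152625848626) (nat_lit 2) (nat_lit 5) (nat_lit 4) (nat_lit 4) (nat_lit 2) (nat_lit 4) (nat_lit 353) (nat_lit 217) (nat_lit 150)) (XT.nd (nat_lit 78) (nat_lit 0) (nat_lit 0) (XT.lf (nat_lit 0) (nat_lit 170170239894) (nat_lit 152) (nat_lit 11942965961) (nat_lit 0) (nat_lit 162320769834) (nat_lit 2) (nat_lit 5) (nat_lit 4) (nat_lit 4) (nat_lit 2) (nat_lit 4) (nat_lit 354) (nat_lit 217) (nat_lit 149)) (XT.lf (nat_lit 0) (nat_lit 180358506513) (nat_lit 152) (nat_lit 8696039164) (nat_lit 0) (nat_lit 172494983179) (nat_lit 2) (nat_lit 5) (nat_lit 4) (nat_lit 4) (nat_lit 2) (nat_lit 4) (nat_lit 355) (nat_lit 217) (nat_lit 148)))))) (XT.nd (nat_lit 312) (nat_lit 0) (nat_lit 0) (XT.nd (nat_lit 156) (nat_lit 76)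 (nat_lit 0) (XT.nd (nat_lit 78) (nat_lit 0) (nat_lit 0) (XT.lf (nat_lit 0) (nat_lit 191049620382) (nat_lit 152) (nat_lit 5298860278) (nat_lit 0) (nat_lit 183172712977) (nat_lit 2) (nat_lit 5) (nat_lit 4) (nat_lit 4) (nat_lit 2) (nat_lit 4) (nat_lit 356) (nat_lit 217) (nat_lit 147)) (XT.lf (nat_lit 0) (nat_lit 202269036534) (nat_lit 152) (nat_lit 1743340782) (nat_lit 0) (nat_lit 194379382395) (nat_lit 2) (nat_lit 5) (nat_lit 4) (nat_lit 4) (nat_lit 2) (nat_lit 4) (nat_lit 357) (nat_lit 217) (nat_lit 146))) (XT.nd (nat_lit 78) (nat_lit 0) (nat_lit 0) (XT.lf (nat_lit 0) (nat_lit 2044419022) (nat_lit 76) (nat_lit 212030967953) (nat_lit 76) (nat_lit 204129174067) (nat_lit 1) (nat_lit 4) (nat_lit 2) (nat_lit 5) (nat_lit 2) (nat_lit 4) (nat_lit 358) (nat_lit 217) (nat_lit 145)) (XT.lf (nat_lit 0) (nat_lit 6071298763) (nat_lit 76) (nat_lit 220424439959) (nat_lit 76) (nat_lit 212511084409) (nat_lit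 1) (nat_lit 4) (nat_lit 2) (nat_lit 5) (nat_lit 2) (nat_lit 4) (nat_lit 359) (nat_lit 217) (nat_lit 144)))) (XT.nd (nat_lit 156) (nat_lit 0) (nat_lit 0) (XT.nd (nat_lit 78) (nat_lit 0) (nat_lit 0) (XT.lf (nat_lit 0) (nat_lit 10289243531) (nat_lit 76) (nat_lit 229242302112) (nat_lit 76) (nat_lit 221317935453) (nat_lit 1) (nat_lit 4) (nat_lit 2) (nat_lit 5) (nat_lit 2) (nat_lit 4) (nat_lit 360) (nat_lit 217) (nat_lit 143)) (XT.lf (nat_lit 0) (nat_lit 14708296050) (nat_lit 76) (nat_lit 238505549321) (nat_lit 76) (nat_lit 230570695893) (nat_lit 1) (nat_lit 4) (nat_lit 2) (nat_lit 5) (nat_lit 2) (nat_lit 4) (nat_lit 361) (nat_lit 217) (nat_lit 142))) (XT.nd (nat_lit 78) (nat_lit 0) (nat_lit 0) (XT.lf (nat_lit 0) (nat_lit 19338977874) (nat_lit 76) (nat_lit 248236236938) (nat_lit 76) (nat_lit 240291396110) (nat_lit 1) (nat_lit 4) (nat_lit 2) (nat_lit 5) (nat_lit 2) (nat_lit 4) (nat_lit 362)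 (nat_lit 217) (nat_lit 141)) (XT.nd (nat_lit 31356) (nat_lit 0) (nat_lit 1216) (XT.lf (nat_lit 0) (nat_lit 24192314437) (nat_lit 76) (nat_lit 258457533265) (nat_lit 76) (nat_lit 250503180628) (nat_lit 1) (nat_lit 4) (nat_lit 2) (nat_lit 5) (nat_lit 2) (nat_lit 4) (nat_lit 363) (nat_lit 217) (nat_lit 140)) (XT.lf (nat_lit 0) (nat_lit 7054779916) (nat_lit 152) (nat_lit 147994385) (nat_lit 152) (nat_lit 147994385) (nat_lit 17) (nat_lit 4) (nat_lit 19) (nat_lit 5) (nat_lit 19) (nat_lit 4) (nat_lit 284) (nat_lit 218) (nat_lit 218))))))))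
noncomputable def xc46 : XT := (XT.nd (nat_lit 1326) (nat_lit 228) (nat_lit 0) (XT.nd (nat_lit 624) (nat_lit 228) (nat_lit 0) (XT.nd (nat_lit 312) (nat_lit 228) (nat_lit 0) (XT.nd (nat_lit 156) (nat_lit 152) (nat_lit 0) (XT.nd (nat_lit 78) (nat_lit 0) (nat_lit 0) (XT.lf (nat_lit 0) (nat_lit 3457642955) (nat_lit 152) (nat_lit 8796327926) (nat_lit 0) (nat_lit 2962653024) (nat_lit 15) (nat_lit 5) (nat_lit 17) (nat_lit 4) (nat_lit 15) (nat_lit 4) (nat_lit 285) (nat_lit 218) (nat_lit 217)) (XT.lf (nat_lit 0) (nat_lit 7268856161) (nat_lit 152) (nat_lit 2192125458) (nat_lit 0) (nat_lit 6302447248) (nat_lit 15) (nat_lit 5) (nat_lit 17) (nat_lit 4) (nat_lit 15) (nat_lit 4) (nat_lit 286) (nat_lit 218) (nat_lit 216))) (XT.nd (nat_lit 78) (nat_lit 0) (nat_lit 0) (XT.lf (nat_lit 0) (nat_lit 4673754199) (nat_lit 152) (nat_lit 6541089091) (nat_lit 152) (nat_lit 5125709719) (nat_lit 13) (nat_lit 4)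 (nat_lit 15) (nat_lit 5) (nat_lit 15) (nat_lit 4) (nat_lit 287) (nat_lit 218) (nat_lit 215)) (XT.lf (nat_lit 0) (nat_lit 11744429330) (nat_lit 152) (nat_lit 3524848731) (nat_lit 152) (nat_lit 1681878446) (nat_lit 13) (nat_lit 4) (nat_lit 15) (nat_lit 5) (nat_lit 15) (nat_lit 4) (nat_lit 288) (nat_lit 218) (nat_lit 214)))) (XT.nd (nat_lit 156) (nat_lit 76) (nat_lit 0) (XT.nd (nat_lit 78) (nat_lit 0) (nat_lit 0) (XT.lf (nat_lit 0) (nat_lit 1381790317) (nat_lit 76) (nat_lit 389912143) (nat_lit 152) (nat_lit 15824268489) (nat_lit 11) (nat_lit 5) (nat_lit 12) (nat_lit 5) (nat_lit 13) (nat_lit 4) (nat_lit 289) (nat_lit 218) (nat_lit 213)) (XT.lf (nat_lit 0) (nat_lit 5355530548) (nat_lit 152) (nat_lit 10072454360) (nat_lit 0) (nat_lit 2843114081) (nat_lit 11) (nat_lit 5) (nat_lit 13) (nat_lit 4) (nat_lit 11) (nat_lit 4) (nat_lit 290) (nat_lit 218) (nat_lit 212))) (XT.nd (nat_lit 78) (nat_lit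 76) (nat_lit 0) (XT.lf (nat_lit 0) (nat_lit 9009857762) (nat_lit 152) (nat_lit 3830047641) (nat_lit 0) (nat_lit 6145661193) (nat_lit 11) (nat_lit 5) (nat_lit 13) (nat_lit 4) (nat_lit 11) (nat_lit 4) (nat_lit 291) (nat_lit 218) (nat_lit 211)) (XT.lf (nat_lit 0) (nat_lit 2617775171) (nat_lit 76) (nat_lit 10160392896) (nat_lit 76) (nat_lit 6961167658) (nat_lit 10) (nat_lit 4) (nat_lit 11) (nat_lit 5) (nat_lit 11) (nat_lit 4) (nat_lit 292) (nat_lit 218) (nat_lit 210))))) (XT.nd (nat_lit 312) (nat_lit 76) (nat_lit 0) (XT.nd (nat_lit 156) (nat_lit 152) (nat_lit 0) (XT.nd (nat_lit 78) (nat_lit 0) (nat_lit 0) (XT.lf (nat_lit 0) (nat_lit 9333542745) (nat_lit 76) (nat_lit 7358903914) (nat_lit 76) (nat_lit 3840603753) (nat_lit 10) (nat_lit 4) (nat_lit 11) (nat_lit 5) (nat_lit 11) (nat_lit 4) (nat_lit 293) (nat_lit 218) (nat_lit 209)) (XT.lf (nat_lit 0) (nat_lit 16206606330) (nat_lit 76) (nat_lit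 4493631957) (nat_lit 76) (nat_lit 671450916) (nat_lit 10) (nat_lit 4) (nat_lit 11) (nat_lit 5) (nat_lit 11) (nat_lit 4) (nat_lit 294) (nat_lit 218) (nat_lit 208))) (XT.nd (nat_lit 78) (nat_lit 0) (nat_lit 0) (XT.lf (nat_lit 0) (nat_lit 987825549) (nat_lit 76) (nat_lit 1499694914) (nat_lit 152) (nat_lit 19766963629) (nat_lit 8) (nat_lit 5) (nat_lit 9) (nat_lit 5) (nat_lit 10) (nat_lit 4) (nat_lit 295) (nat_lit 218) (nat_lit 207)) (XT.lf (nat_lit 0) (nat_lit 5798305028) (nat_lit 152) (nat_lit 15761852727) (nat_lit 0) (nat_lit 1619999965) (nat_lit 8) (nat_lit 5) (nat_lit 10) (nat_lit 4) (nat_lit 8) (nat_lit 4) (nat_lit 296) (nat_lit 218) (nat_lit 206)))) (XT.nd (nat_lit 156) (nat_lit 76) (nat_lit 0) (XT.nd (nat_lit 78) (nat_lit 0) (nat_lit 0) (XT.lf (nat_lit 0) (nat_lit 9205743612) (nat_lit 152) (nat_lit 10172486251) (nat_lit 0) (nat_lit 4777434997) (nat_lit 8) (nat_lit 5) (nat_lit 10)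 (nat_lit 4) (nat_lit 8) (nat_lit 4) (nat_lit 297) (nat_lit 218) (nat_lit 205)) (XT.lf (nat_lit 0) (nat_lit 12694534724) (nat_lit 152) (nat_lit 4461836662) (nat_lit 0) (nat_lit 8028127489) (nat_lit 8) (nat_lit 5) (nat_lit 10) (nat_lit 4) (nat_lit 8) (nat_lit 4) (nat_lit 298) (nat_lit 218) (nat_lit 204))) (XT.nd (nat_lit 78) (nat_lit 0) (nat_lit 0) (XT.lf (nat_lit 0) (nat_lit 1429443959) (nat_lit 76) (nat_lit 14865858676) (nat_lit 76) (nat_lit 9972690850) (nat_lit 7) (nat_lit 4) (nat_lit 8) (nat_lit 5) (nat_lit 8) (nat_lit 4) (nat_lit 299) (nat_lit 218) (nat_lit 203)) (XT.nd (nat_lit 78) (nat_lit 0) (nat_lit 0) (XT.lf (nat_lit 0) (nat_lit 7621970806) (nat_lit 76) (nat_lit 12446644106) (nat_lit 76) (nat_lit 7337513813) (nat_lit 7) (nat_lit 4) (nat_lit 8) (nat_lit 5) (nat_lit 8) (nat_lit 4) (nat_lit 300) (nat_lit 218) (nat_lit 202)) (XT.lf (nat_lit 0) (nat_lit 13982959518) (nat_lit 76)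 (nat_lit 9968531005) (nat_lit 76) (nat_lit 4653722172) (nat_lit 7) (nat_lit 4) (nat_lit 8) (nat_lit 5) (nat_lit 8) (nat_lit 4) (nat_lit 301) (nat_lit 218) (nat_lit 201))))))) (XT.nd (nat_lit 702) (nat_lit 76) (nat_lit 0) (XT.nd (nat_lit 312) (nat_lit 0) (nat_lit 0) (XT.nd (nat_lit 156) (nat_lit 76) (nat_lit 0) (XT.nd (nat_lit 78) (nat_lit 76) (nat_lit 0) (XT.lf (nat_lit 0) (nat_lit 20527555307) (nat_lit 76) (nat_lit 7425619104) (nat_lit 76) (nat_lit 1914925947) (nat_lit 7) (nat_lit 4) (nat_lit 8) (nat_lit 5) (nat_lit 8) (nat_lit 4) (nat_lit 302) (nat_lit 218) (nat_lit 200)) (XT.lf (nat_lit 0) (nat_lit 857057610) (nat_lit 152) (nat_lit 3940281555) (nat_lit 76) (nat_lit 26399768249) (nat_lit 6) (nat_lit 5) (nat_lit 8) (nat_lit 5) (nat_lit 7) (nat_lit 4) (nat_lit 303) (nat_lit 218) (nat_lit 199))) (XT.nd (nat_lit 78) (nat_lit 0) (nat_lit 0) (XT.lf (nat_lit 0) (nat_lit 1626342579) (nat_lit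 76) (nat_lit 2032811124) (nat_lit 152) (nat_lit 28934119593) (nat_lit 5) (nat_lit 5) (nat_lit 6) (nat_lit 5) (nat_lit 7) (nat_lit 4) (nat_lit 304) (nat_lit 218) (nat_lit 198)) (XT.lf (nat_lit 0) (nat_lit 6613792159) (nat_lit 152) (nat_lit 26587428145) (nat_lit 0) (nat_lit 857473342) (nat_lit 5) (nat_lit 5) (nat_lit 7) (nat_lit 4) (nat_lit 5) (nat_lit 4) (nat_lit 305) (nat_lit 218) (nat_lit 197)))) (XT.nd (nat_lit 156) (nat_lit 0) (nat_lit 0) (XT.nd (nat_lit 78) (nat_lit 0) (nat_lit 0) (XT.lf (nat_lit 0) (nat_lit 9683802344) (nat_lit 152) (nat_lit 22141262459) (nat_lit 0) (nat_lit 3774003034) (nat_lit 5) (nat_lit 5) (nat_lit 7) (nat_lit 4) (nat_lit 5) (nat_lit 4) (nat_lit 306) (nat_lit 218) (nat_lit 196)) (XT.lf (nat_lit 0) (nat_lit 12844755927) (nat_lit 152) (nat_lit 17586109672) (nat_lit 0) (nat_lit 6788784719) (nat_lit 5) (nat_lit 5) (nat_lit 7) (nat_lit 4) (nat_lit 5) (nat_lit 4)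 (nat_lit 307) (nat_lit 218) (nat_lit 195))) (XT.nd (nat_lit 78) (nat_lit 0) (nat_lit 0) (XT.lf (nat_lit 0) (nat_lit 16104178990) (nat_lit 152) (nat_lit 12911124182) (nat_lit 0) (nat_lit 9908996449) (nat_lit 5) (nat_lit 5) (nat_lit 7) (nat_lit 4) (nat_lit 5) (nat_lit 4) (nat_lit 308) (nat_lit 218) (nat_lit 194)) (XT.nd (nat_lit 78) (nat_lit 0) (nat_lit 0) (XT.lf (nat_lit 0) (nat_lit 19469832062) (nat_lit 152) (nat_lit 8105175071) (nat_lit 0) (nat_lit 13142067301) (nat_lit 5) (nat_lit 5) (nat_lit 7) (nat_lit 4) (nat_lit 5) (nat_lit 4) (nat_lit 309) (nat_lit 218) (nat_lit 193)) (XT.lf (nat_lit 0) (nat_lit 22949728604) (nat_lit 152) (nat_lit 3156819602) (nat_lit 0) (nat_lit 16495695061) (nat_lit 5) (nat_lit 5) (nat_lit 7) (nat_lit 4) (nat_lit 5) (nat_lit 4) (nat_lit 310) (nat_lit 218) (nat_lit 192)))))) (XT.nd (nat_lit 312) (nat_lit 0) (nat_lit 0) (XT.nd (nat_lit 156) (nat_lit 0) (nat_lit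 0) (XT.nd (nat_lit 78) (nat_lit 0) (nat_lit 0) (XT.lf (nat_lit 0) (nat_lit 2010058444) (nat_lit 76) (nat_lit 24573478284) (nat_lit 76) (nat_lit 17999188758) (nat_lit 4) (nat_lit 4) (nat_lit 5) (nat_lit 5) (nat_lit 5) (nat_lit 4) (nat_lit 311) (nat_lit 218) (nat_lit 191)) (XT.lf (nat_lit 0) (nat_lit 7453152128) (nat_lit 76) (nat_lit 22948898168) (nat_lit 76) (nat_lit 16260079134) (nat_lit 4) (nat_lit 4) (nat_lit 5) (nat_lit 5) (nat_lit 5) (nat_lit 4) (nat_lit 312) (nat_lit 218) (nat_lit 190))) (XT.nd (nat_lit 78) (nat_lit 0) (nat_lit 0) (XT.lf (nat_lit 0) (nat_lit 13081042482) (nat_lit 76) (nat_lit 21282402076) (nat_lit 76) (nat_lit 14484507321) (nat_lit 4) (nat_lit 4) (nat_lit 5) (nat_lit 5) (nat_lit 5) (nat_lit 4) (nat_lit 313) (nat_lit 218) (nat_lit 189)) (XT.lf (nat_lit 0) (nat_lit 18907129246) (nat_lit 76) (nat_lit 19570022162) (nat_lit 76) (nat_lit 12668245768) (nat_lit 4) (nat_lit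 4) (nat_lit 5) (nat_lit 5) (nat_lit 5) (nat_lit 4) (nat_lit 314) (nat_lit 218) (nat_lit 188)))) (XT.nd (nat_lit 156) (nat_lit 0) (nat_lit 0) (XT.nd (nat_lit 78) (nat_lit 0) (nat_lit 0) (XT.lf (nat_lit 0) (nat_lit 24945284055) (nat_lit 76) (nat_lit 17807681330) (nat_lit 76) (nat_lit 10806970042) (nat_lit 4) (nat_lit 4) (nat_lit 5) (nat_lit 5) (nat_lit 5) (nat_lit 4) (nat_lit 315) (nat_lit 218) (nat_lit 187)) (XT.lf (nat_lit 0) (nat_lit 31209883467) (nat_lit 76) (nat_lit 15991183532) (nat_lit 76) (nat_lit 8896248534) (nat_lit 4) (nat_lit 4) (nat_lit 5) (nat_lit 5) (nat_lit 5) (nat_lit 4) (nat_lit 316) (nat_lit 218) (nat_lit 186))) (XT.nd (nat_lit 78) (nat_lit 0) (nat_lit 0) (XT.lf (nat_lit 0) (nat_lit 37715843197) (nat_lit 76) (nat_lit 14116203771) (nat_lit 76) (nat_lit 6931531907) (nat_lit 4) (nat_lit 4) (nat_lit 5) (nat_lit 5) (nat_lit 5) (nat_lit 4) (nat_lit 317) (nat_lit 218) (nat_lit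 185)) (XT.nd (nat_lit 78) (nat_lit 0) (nat_lit 0) (XT.lf (nat_lit 0) (nat_lit 44478653623) (nat_lit 76) (nat_lit 12178277810) (nat_lit 76) (nat_lit 4908142265) (nat_lit 4) (nat_lit 4) (nat_lit 5) (nat_lit 5) (nat_lit 5) (nat_lit 4) (nat_lit 318) (nat_lit 218) (nat_lit 184)) (XT.lf (nat_lit 0) (nat_lit 51514416676) (nat_lit 76) (nat_lit 10172791541) (nat_lit 76) (nat_lit 2821262013) (nat_lit 4) (nat_lit 4) (nat_lit 5) (nat_lit 5) (nat_lit 5) (nat_lit 4) (nat_lit 319) (nat_lit 218) (nat_lit 183))))))))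
noncomputable def xc47 : XT := (XT.nd (nat_lit 1404) (nat_lit 0) (nat_lit 0) (XT.nd (nat_lit 702) (nat_lit 0) (nat_lit 0) (XT.nd (nat_lit 312) (nat_lit 0) (nat_lit 0) (XT.nd (nat_lit 156) (nat_lit 76) (nat_lit 0) (XT.nd (nat_lit 78) (nat_lit 76) (nat_lit 0) (XT.lf (nat_lit 0) (nat_lit 58839884173) (nat_lit 76) (nat_lit 8094969996) (nat_lit 76) (nat_lit 665922389) (nat_lit 4) (nat_lit 4) (nat_lit 5) (nat_lit 5) (nat_lit 5) (nat_lit 4) (nat_lit 320) (nat_lit 218) (nat_lit 182)) (XT.lf (nat_lit 0) (nat_lit 1512982339) (nat_lit 152) (nat_lit 4401260552) (nat_lit 76) (nat_lit 64933892274) (nat_lit 3) (nat_lit 5) (nat_lit 5) (nat_lit 5) (nat_lit 4) (nat_lit 4) (nat_lit 321) (nat_lit 218) (nat_lit 181))) (XT.nd (nat_lit 78) (nat_lit 0) (nat_lit 0) (XT.lf (nat_lit 0) (nat_lit 111627089) (nat_lit 76) (nat_lit 3637061993) (nat_lit 152) (nat_lit 70510143255) (nat_lit 2) (nat_lit 5) (nat_lit 3)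 (nat_lit 5) (nat_lit 4) (nat_lit 4) (nat_lit 322) (nat_lit 218) (nat_lit 180)) (XT.lf (nat_lit 0) (nat_lit 4946504670) (nat_lit 76) (nat_lit 1193326174) (nat_lit 152) (nat_lit 71698077970) (nat_lit 2) (nat_lit 5) (nat_lit 3) (nat_lit 5) (nat_lit 4) (nat_lit 4) (nat_lit 323) (nat_lit 218) (nat_lit 179)))) (XT.nd (nat_lit 156) (nat_lit 0) (nat_lit 0) (XT.nd (nat_lit 78) (nat_lit 0) (nat_lit 0) (XT.lf (nat_lit 0) (nat_lit 8642162636) (nat_lit 152) (nat_lit 71649127251) (nat_lit 0) (nat_lit 1305093230) (nat_lit 2) (nat_lit 5) (nat_lit 4) (nat_lit 4) (nat_lit 2) (nat_lit 4) (nat_lit 324) (nat_lit 218) (nat_lit 178)) (XT.lf (nat_lit 0) (nat_lit 11260795518) (nat_lit 152) (nat_lit 70416569891) (nat_lit 0) (nat_lit 3865880927) (nat_lit 2) (nat_lit 5) (nat_lit 4) (nat_lit 4) (nat_lit 2) (nat_lit 4) (nat_lit 325) (nat_lit 218) (nat_lit 177))) (XT.nd (nat_lit 78) (nat_lit 0) (nat_lit 0) (XT.lf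 (nat_lit 0) (nat_lit 13983333163) (nat_lit 152) (nat_lit 69172166241) (nat_lit 0) (nat_lit 6533327921) (nat_lit 2) (nat_lit 5) (nat_lit 4) (nat_lit 4) (nat_lit 2) (nat_lit 4) (nat_lit 326) (nat_lit 218) (nat_lit 176)) (XT.nd (nat_lit 78) (nat_lit 0) (nat_lit 0) (XT.lf (nat_lit 0) (nat_lit 16816257805) (nat_lit 152) (nat_lit 67912953432) (nat_lit 0) (nat_lit 9313785276) (nat_lit 2) (nat_lit 5) (nat_lit 4) (nat_lit 4) (nat_lit 2) (nat_lit 4) (nat_lit 327) (nat_lit 218) (nat_lit 175)) (XT.lf (nat_lit 0) (nat_lit 19766314502) (nat_lit 152) (nat_lit 66635933341) (nat_lit 0) (nat_lit 12213873128) (nat_lit 2) (nat_lit 5) (nat_lit 4) (nat_lit 4) (nat_lit 2) (nat_lit 4) (nat_lit 328) (nat_lit 218) (nat_lit 174)))))) (XT.nd (nat_lit 312) (nat_lit 0) (nat_lit 0) (XT.nd (nat_lit 156) (nat_lit 0) (nat_lit 0) (XT.nd (nat_lit 78) (nat_lit 0) (nat_lit 0) (XT.lf (nat_lit 0) (nat_lit 22840527199) (nat_lit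 152) (nat_lit 65338065442) (nat_lit 0) (nat_lit 15240496449) (nat_lit 2) (nat_lit 5) (nat_lit 4) (nat_lit 4) (nat_lit 2) (nat_lit 4) (nat_lit 329) (nat_lit 218) (nat_lit 173)) (XT.lf (nat_lit 0) (nat_lit 26046215449) (nat_lit 152) (nat_lit 64016259574) (nat_lit 0) (nat_lit 18400861484) (nat_lit 2) (nat_lit 5) (nat_lit 4) (nat_lit 4) (nat_lit 2) (nat_lit 4) (nat_lit 330) (nat_lit 218) (nat_lit 172))) (XT.nd (nat_lit 78) (nat_lit 0) (nat_lit 0) (XT.lf (nat_lit 0) (nat_lit 29391011844) (nat_lit 152) (nat_lit 62667368581) (nat_lit 0) (nat_lit 21702492913) (nat_lit 2) (nat_lit 5) (nat_lit 4) (nat_lit 4) (nat_lit 2) (nat_lit 4) (nat_lit 331) (nat_lit 218) (nat_lit 171)) (XT.lf (nat_lit 0) (nat_lit 32882880185) (nat_lit 152) (nat_lit 61288180816) (nat_lit 0) (nat_lit 25153251761) (nat_lit 2) (nat_lit 5) (nat_lit 4) (nat_lit 4) (nat_lit 2) (nat_lit 4) (nat_lit 332) (nat_lit 218) (nat_lit 170))))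 (XT.nd (nat_lit 156) (nat_lit 0) (nat_lit 0) (XT.nd (nat_lit 78) (nat_lit 0) (nat_lit 0) (XT.lf (nat_lit 0) (nat_lit 36530134444) (nat_lit 152) (nat_lit 59875412501) (nat_lit 0) (nat_lit 28761354123) (nat_lit 2) (nat_lit 5) (nat_lit 4) (nat_lit 4) (nat_lit 2) (nat_lit 4) (nat_lit 333) (nat_lit 218) (nat_lit 169)) (XT.lf (nat_lit 0) (nat_lit 40341458559) (nat_lit 152) (nat_lit 58425699900) (nat_lit 0) (nat_lit 32535390717) (nat_lit 2) (nat_lit 5) (nat_lit 4) (nat_lit 4) (nat_lit 2) (nat_lit 4) (nat_lit 334) (nat_lit 218) (nat_lit 168))) (XT.nd (nat_lit 78) (nat_lit 0) (nat_lit 0) (XT.lf (nat_lit 0) (nat_lit 44325927113) (nat_lit 152) (nat_lit 56935591317) (nat_lit 0) (nat_lit 36484347345) (nat_lit 2) (nat_lit 5) (nat_lit 4) (nat_lit 4) (nat_lit 2) (nat_lit 4) (nat_lit 335) (nat_lit 218) (nat_lit 167)) (XT.nd (nat_lit 78) (nat_lit 0) (nat_lit 0) (XT.lf (nat_lit 0) (nat_lit 48493026934)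 (nat_lit 152) (nat_lit 55401538874) (nat_lit 0) (nat_lit 40617626286) (nat_lit 2) (nat_lit 5) (nat_lit 4) (nat_lit 4) (nat_lit 2) (nat_lit 4) (nat_lit 336) (nat_lit 218) (nat_lit 166)) (XT.lf (nat_lit 0) (nat_lit 52852679689) (nat_lit 152) (nat_lit 53819890065) (nat_lit 0) (nat_lit 44945068678) (nat_lit 2) (nat_lit 5) (nat_lit 4) (nat_lit 4) (nat_lit 2) (nat_lit 4) (nat_lit 337) (nat_lit 218) (nat_lit 165))))))) (XT.nd (nat_lit 702) (nat_lit 0) (nat_lit 0) (XT.nd (nat_lit 312) (nat_lit 0) (nat_lit 0) (XT.nd (nat_lit 156) (nat_lit 0) (nat_lit 0) (XT.nd (nat_lit 78) (nat_lit 0) (nat_lit 0) (XT.lf (nat_lit 0) (nat_lit 57415265504) (nat_lit 152) (nat_lit 52186879061) (nat_lit 0) (nat_lit 49476977957) (nat_lit 2) (nat_lit 5) (nat_lit 4) (nat_lit 4) (nat_lit 2) (nat_lit 4) (nat_lit 338) (nat_lit 218) (nat_lit 164)) (XT.lf (nat_lit 0) (nat_lit 62191647678) (nat_lit 152) (nat_lit 50498617740)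 (nat_lit 0) (nat_lit 54224144382) (nat_lit 2) (nat_lit 5) (nat_lit 4) (nat_lit 4) (nat_lit 2) (nat_lit 4) (nat_lit 339) (nat_lit 218) (nat_lit 163))) (XT.nd (nat_lit 78) (nat_lit 0) (nat_lit 0) (XT.lf (nat_lit 0) (nat_lit 67193198550) (nat_lit 152) (nat_lit 48751086431) (nat_lit 0) (nat_lit 59197870732) (nat_lit 2) (nat_lit 5) (nat_lit 4) (nat_lit 4) (nat_lit 2) (nat_lit 4) (nat_lit 340) (nat_lit 218) (nat_lit 162)) (XT.lf (nat_lit 0) (nat_lit 72431826573) (nat_lit 152) (nat_lit 46940124346) (nat_lit 0) (nat_lit 64409999210) (nat_lit 2) (nat_lit 5) (nat_lit 4) (nat_lit 4) (nat_lit 2) (nat_lit 4) (nat_lit 341) (nat_lit 218) (nat_lit 161)))) (XT.nd (nat_lit 156) (nat_lit 0) (nat_lit 0) (XT.nd (nat_lit 78) (nat_lit 0) (nat_lit 0) (XT.lf (nat_lit 0) (nat_lit 77920004673) (nat_lit 152) (nat_lit 45061419670) (nat_lit 0) (nat_lit 69872939648) (nat_lit 2) (nat_lit 5) (nat_lit 4) (nat_lit 4)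 (nat_lit 2) (nat_lit 4) (nat_lit 342) (nat_lit 218) (nat_lit 160)) (XT.lf (nat_lit 0) (nat_lit 83670799940) (nat_lit 152) (nat_lit 43110499298) (nat_lit 0) (nat_lit 75599699046) (nat_lit 2) (nat_lit 5) (nat_lit 4) (nat_lit 4) (nat_lit 2) (nat_lit 4) (nat_lit 343) (nat_lit 218) (nat_lit 159))) (XT.nd (nat_lit 78) (nat_lit 0) (nat_lit 0) (XT.lf (nat_lit 0) (nat_lit 89697904743) (nat_lit 152) (nat_lit 41082718180) (nat_lit 0) (nat_lit 81603912546) (nat_lit 2) (nat_lit 5) (nat_lit 4) (nat_lit 4) (nat_lit 2) (nat_lit 4) (nat_lit 344) (nat_lit 218) (nat_lit 158)) (XT.nd (nat_lit 78) (nat_lit 0) (nat_lit 0) (XT.lf (nat_lit 0) (nat_lit 96015669332) (nat_lit 152) (nat_lit 38973248267) (nat_lit 0) (nat_lit 87899875893) (nat_lit 2) (nat_lit 5) (nat_lit 4) (nat_lit 4) (nat_lit 2) (nat_lit 4) (nat_lit 345) (nat_lit 218) (nat_lit 157)) (XT.lf (nat_lit 0) (nat_lit 102639136004) (nat_lit 152) (nat_lit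 36777067010) (nat_lit 0) (nat_lit 94502579478) (nat_lit 2) (nat_lit 5) (nat_lit 4) (nat_lit 4) (nat_lit 2) (nat_lit 4) (nat_lit 346) (nat_lit 218) (nat_lit 156)))))) (XT.nd (nat_lit 312) (nat_lit 0) (nat_lit 0) (XT.nd (nat_lit 156) (nat_lit 0) (nat_lit 0) (XT.nd (nat_lit 78) (nat_lit 0) (nat_lit 0) (XT.lf (nat_lit 0) (nat_lit 109584074917) (nat_lit 152) (nat_lit 34488945407) (nat_lit 0) (nat_lit 101427744022) (nat_lit 2) (nat_lit 5) (nat_lit 4) (nat_lit 4) (nat_lit 2) (nat_lit 4) (nat_lit 347) (nat_lit 218) (nat_lit 155)) (XT.lf (nat_lit 0) (nat_lit 116867021640) (nat_lit 152) (nat_lit 32103435550) (nat_lit 0) (nat_lit 108691858013) (nat_lit 2) (nat_lit 5) (nat_lit 4) (nat_lit 4) (nat_lit 2) (nat_lit 4) (nat_lit 348) (nat_lit 218) (nat_lit 154))) (XT.nd (nat_lit 78) (nat_lit 0) (nat_lit 0) (XT.lf (nat_lit 0) (nat_lit 124505316523) (nat_lit 152) (nat_lit 29614857652) (nat_lit 0) (nat_lit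 116312216961) (nat_lit 2) (nat_lit 5) (nat_lit 4) (nat_lit 4) (nat_lit 2) (nat_lit 4) (nat_lit 349) (nat_lit 218) (nat_lit 153)) (XT.lf (nat_lit 0) (nat_lit 132517145981) (nat_lit 152) (nat_lit 27017286530) (nat_lit 0) (nat_lit 124306964576) (nat_lit 2) (nat_lit 5) (nat_lit 4) (nat_lit 4) (nat_lit 2) (nat_lit 4) (nat_lit 350) (nat_lit 218) (nat_lit 152)))) (XT.nd (nat_lit 156) (nat_lit 0) (nat_lit 0) (XT.nd (nat_lit 78) (nat_lit 0) (nat_lit 0) (XT.lf (nat_lit 0) (nat_lit 140921585800) (nat_lit 152) (nat_lit 24304537488) (nat_lit 0) (nat_lit 132695135973) (nat_lit 2) (nat_lit 5) (nat_lit 4) (nat_lit 4) (nat_lit 2) (nat_lit 4) (nat_lit 351) (nat_lit 218) (nat_lit 151)) (XT.lf (nat_lit 0) (nat_lit 149738646550) (nat_lit 152) (nat_lit 21470151601) (nat_lit 0) (nat_lit 141496702988) (nat_lit 2) (nat_lit 5) (nat_lit 4) (nat_lit 4) (nat_lit 2) (nat_lit 4) (nat_lit 352) (nat_lit 218) (nat_lit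 150))) (XT.nd (nat_lit 78) (nat_lit 0) (nat_lit 0) (XT.lf (nat_lit 0) (nat_lit 158989321234) (nat_lit 152) (nat_lit 18507380332) (nat_lit 0) (nat_lit 150732621733) (nat_lit 2) (nat_lit 5) (nat_lit 4) (nat_lit 4) (nat_lit 2) (nat_lit 4) (nat_lit 353) (nat_lit 218) (nat_lit 149)) (XT.nd (nat_lit 78) (nat_lit 0) (nat_lit 0) (XT.lf (nat_lit 0) (nat_lit 168695635266) (nat_lit 152) (nat_lit 15409169462) (nat_lit 0) (nat_lit 160424882491) (nat_lit 2) (nat_lit 5) (nat_lit 4) (nat_lit 4) (nat_lit 2) (nat_lit 4) (nat_lit 354) (nat_lit 218) (nat_lit 148)) (XT.lf (nat_lit 0) (nat_lit 178880698919) (nat_lit 152) (nat_lit 12168142300) (nat_lit 0) (nat_lit 170596562073) (nat_lit 2) (nat_lit 5) (nat_lit 4) (nat_lit 4) (nat_lit 2) (nat_lit 4) (nat_lit 355) (nat_lit 218) (nat_lit 147))))))))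
noncomputable def xc48 : XT := (XT.nd (nat_lit 32448) (nat_lit 0) (nat_lit 304) (XT.nd (nat_lit 31746) (nat_lit 0) (nat_lit 760) (XT.nd (nat_lit 312) (nat_lit 0) (nat_lit 0) (XT.nd (nat_lit 156) (nat_lit 76) (nat_lit 0) (XT.nd (nat_lit 78) (nat_lit 0) (nat_lit 0) (XT.lf (nat_lit 0) (nat_lit 189568762344) (nat_lit 152) (nat_lit 8776582114) (nat_lit 0) (nat_lit 181271878763) (nat_lit 2) (nat_lit 5) (nat_lit 4) (nat_lit 4) (nat_lit 2) (nat_lit 4) (nat_lit 356) (nat_lit 218) (nat_lit 146)) (XT.lf (nat_lit 0) (nat_lit 200785273311) (nat_lit 152) (nat_lit 5226413761) (nat_lit 0) (nat_lit 192476249983) (nat_lit 2) (nat_lit 5) (nat_lit 4) (nat_lit 4) (nat_lit 2) (nat_lit 4) (nat_lit 357) (nat_lit 218) (nat_lit 145))) (XT.nd (nat_lit 78) (nat_lit 76) (nat_lit 0) (XT.lf (nat_lit 0) (nat_lit 212556937799) (nat_lit 152) (nat_lit 1509184458) (nat_lit 0) (nat_lit 204236352807) (nat_lit 2) (nat_lit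 5) (nat_lit 4) (nat_lit 4) (nat_lit 2) (nat_lit 4) (nat_lit 358) (nat_lit 218) (nat_lit 144)) (XT.lf (nat_lit 0) (nat_lit 2462780701) (nat_lit 76) (nat_lit 222487453787) (nat_lit 76) (nat_lit 214155857687) (nat_lit 1) (nat_lit 4) (nat_lit 2) (nat_lit 5) (nat_lit 2) (nat_lit 4) (nat_lit 359) (nat_lit 218) (nat_lit 143)))) (XT.nd (nat_lit 156) (nat_lit 0) (nat_lit 0) (XT.nd (nat_lit 78) (nat_lit 0) (nat_lit 0) (XT.lf (nat_lit 0) (nat_lit 6675950109) (nat_lit 76) (nat_lit 231307507134) (nat_lit 76) (nat_lit 222965424265) (nat_lit 1) (nat_lit 4) (nat_lit 2) (nat_lit 5) (nat_lit 2) (nat_lit 4) (nat_lit 360) (nat_lit 218) (nat_lit 142)) (XT.lf (nat_lit 0) (nat_lit 11090454667) (nat_lit 76) (nat_lit 240572841196) (nat_lit 76) (nat_lit 232220770926) (nat_lit 1) (nat_lit 4) (nat_lit 2) (nat_lit 5) (nat_lit 2) (nat_lit 4) (nat_lit 361) (nat_lit 218) (nat_lit 141))) (XT.nd (nat_lit 78) (nat_lit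 0) (nat_lit 0) (XT.lf (nat_lit 0) (nat_lit 15716805100) (nat_lit 76) (nat_lit 250305516291) (nat_lit 76) (nat_lit 241943934211) (nat_lit 1) (nat_lit 4) (nat_lit 2) (nat_lit 5) (nat_lit 2) (nat_lit 4) (nat_lit 362) (nat_lit 218) (nat_lit 140)) (XT.lf (nat_lit 0) (nat_lit 20566016528) (nat_lit 76) (nat_lit 260528705454) (nat_lit 76) (nat_lit 252158064509) (nat_lit 1) (nat_lit 4) (nat_lit 2) (nat_lit 5) (nat_lit 2) (nat_lit 4) (nat_lit 363) (nat_lit 218) (nat_lit 139))))) (XT.nd (nat_lit 312) (nat_lit 304) (nat_lit 0) (XT.nd (nat_lit 156) (nat_lit 152) (nat_lit 0) (XT.nd (nat_lit 78) (nat_lit 152) (nat_lit 0) (XT.lf (nat_lit 0) (nat_lit 3378322384) (nat_lit 152) (nat_lit 113899670) (nat_lit 0) (nat_lit 3378322384) (nat_lit 19) (nat_lit 5) (nat_lit 21) (nat_lit 4) (nat_lit 19) (nat_lit 4) (nat_lit 282) (nat_lit 219) (nat_lit 219)) (XT.lf (nat_lit 0) (nat_lit 6817761558) (nat_lit 152) (nat_lit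 3967962700) (nat_lit 152) (nat_lit 3422236301) (nat_lit 17) (nat_lit 4) (nat_lit 19) (nat_lit 5) (nat_lit 19) (nat_lit 4) (nat_lit 283) (nat_lit 219) (nat_lit 218))) (XT.nd (nat_lit 78) (nat_lit 76) (nat_lit 0) (XT.lf (nat_lit 0) (nat_lit 175003546) (nat_lit 228) (nat_lit 706708556) (nat_lit 76) (nat_lit 13823069328) (nat_lit 16) (nat_lit 5) (nat_lit 19) (nat_lit 5) (nat_lit 17) (nat_lit 4) (nat_lit 284) (nat_lit 219) (nat_lit 217)) (XT.lf (nat_lit 0) (nat_lit 3842187387) (nat_lit 152) (nat_lit 9025356295) (nat_lit 0) (nat_lit 2356039046) (nat_lit 15) (nat_lit 5) (nat_lit 17) (nat_lit 4) (nat_lit 15) (nat_lit 4) (nat_lit 285) (nat_lit 219) (nat_lit 216)))) (XT.nd (nat_lit 156) (nat_lit 152) (nat_lit 0) (XT.nd (nat_lit 78) (nat_lit 152) (nat_lit 0) (XT.lf (nat_lit 0) (nat_lit 7590592232) (nat_lit 152) (nat_lit 2527554928) (nat_lit 0) (nat_lit 5655473432) (nat_lit 15) (nat_lit 5) (nat_lit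 17) (nat_lit 4) (nat_lit 15) (nat_lit 4) (nat_lit 286) (nat_lit 219) (nat_lit 215)) (XT.lf (nat_lit 0) (nat_lit 4222548962) (nat_lit 152) (nat_lit 7247168334) (nat_lit 152) (nat_lit 4884458621) (nat_lit 13) (nat_lit 4) (nat_lit 15) (nat_lit 5) (nat_lit 15) (nat_lit 4) (nat_lit 287) (nat_lit 219) (nat_lit 214))) (XT.nd (nat_lit 78) (nat_lit 152) (nat_lit 0) (XT.lf (nat_lit 0) (nat_lit 11193524137) (nat_lit 152) (nat_lit 4272102300) (nat_lit 152) (nat_lit 1502163146) (nat_lit 13) (nat_lit 4) (nat_lit 15) (nat_lit 5) (nat_lit 15) (nat_lit 4) (nat_lit 288) (nat_lit 219) (nat_lit 213)) (XT.nd (nat_lit 78) (nat_lit 0) (nat_lit 0) (XT.lf (nat_lit 0) (nat_lit 692479777) (nat_lit 76) (nat_lit 1185694122) (nat_lit 152) (nat_lit 15737740513) (nat_lit 11) (nat_lit 5) (nat_lit 12) (nat_lit 5) (nat_lit 13) (nat_lit 4) (nat_lit 289) (nat_lit 219) (nat_lit 212)) (XT.lf (nat_lit 0) (nat_lit 5393438927)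 (nat_lit 152) (nat_lit 10866851715) (nat_lit 0) (nat_lit 2034252427) (nat_lit 11) (nat_lit 5) (nat_lit 13) (nat_lit 4) (nat_lit 11) (nat_lit 4) (nat_lit 290) (nat_lit 219) (nat_lit 211))))))) (XT.nd (nat_lit 702) (nat_lit 228) (nat_lit 0) (XT.nd (nat_lit 312) (nat_lit 152) (nat_lit 0) (XT.nd (nat_lit 156) (nat_lit 0) (nat_lit 0) (XT.nd (nat_lit 78) (nat_lit 76) (nat_lit 0) (XT.lf (nat_lit 0) (nat_lit 8994300739) (nat_lit 152) (nat_lit 4717366653) (nat_lit 0) (nat_lit 5300085569) (nat_lit 11) (nat_lit 5) (nat_lit 13) (nat_lit 4) (nat_lit 11) (nat_lit 4) (nat_lit 291) (nat_lit 219) (nat_lit 210)) (XT.lf (nat_lit 0) (nat_lit 1609694465) (nat_lit 76) (nat_lit 11086258182) (nat_lit 76) (nat_lit 7072968089) (nat_lit 10) (nat_lit 4) (nat_lit 11) (nat_lit 5) (nat_lit 11) (nat_lit 4) (nat_lit 292) (nat_lit 219) (nat_lit 209))) (XT.nd (nat_lit 78) (nat_lit 0) (nat_lit 0) (XT.lf (nat_lit 0) (nat_lit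 8238392592) (nat_lit 76) (nat_lit 8321984553) (nat_lit 76) (nat_lit 4004813581) (nat_lit 10) (nat_lit 4) (nat_lit 11) (nat_lit 5) (nat_lit 11) (nat_lit 4) (nat_lit 293) (nat_lit 219) (nat_lit 208)) (XT.lf (nat_lit 0) (nat_lit 15028532894) (nat_lit 76) (nat_lit 5492155788) (nat_lit 76) (nat_lit 885574455) (nat_lit 10) (nat_lit 4) (nat_lit 11) (nat_lit 5) (nat_lit 11) (nat_lit 4) (nat_lit 294) (nat_lit 219) (nat_lit 207)))) (XT.nd (nat_lit 156) (nat_lit 0) (nat_lit 0) (XT.nd (nat_lit 78) (nat_lit 76) (nat_lit 0) (XT.lf (nat_lit 0) (nat_lit 2218812099) (nat_lit 152) (nat_lit 333645444) (nat_lit 76) (nat_lit 19739893616) (nat_lit 9) (nat_lit 5) (nat_lit 11) (nat_lit 5) (nat_lit 10) (nat_lit 4) (nat_lit 295) (nat_lit 219) (nat_lit 206)) (XT.lf (nat_lit 0) (nat_lit 5462095188) (nat_lit 152) (nat_lit 17196988580) (nat_lit 0) (nat_lit 562367591) (nat_lit 8) (nat_lit 5) (nat_lit 10) (nat_lit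 4) (nat_lit 8) (nat_lit 4) (nat_lit 296) (nat_lit 219) (nat_lit 205))) (XT.nd (nat_lit 78) (nat_lit 0) (nat_lit 0) (XT.lf (nat_lit 0) (nat_lit 8826109673) (nat_lit 152) (nat_lit 11684785622) (nat_lit 0) (nat_lit 3688283456) (nat_lit 8) (nat_lit 5) (nat_lit 10) (nat_lit 4) (nat_lit 8) (nat_lit 4) (nat_lit 297) (nat_lit 219) (nat_lit 204)) (XT.nd (nat_lit 78) (nat_lit 0) (nat_lit 0) (XT.lf (nat_lit 0) (nat_lit 12273544501) (nat_lit 152) (nat_lit 6047625096) (nat_lit 0) (nat_lit 6908957693) (nat_lit 8) (nat_lit 5) (nat_lit 10) (nat_lit 4) (nat_lit 8) (nat_lit 4) (nat_lit 298) (nat_lit 219) (nat_lit 203)) (XT.lf (nat_lit 0) (nat_lit 15812607849) (nat_lit 152) (nat_lit 272085193) (nat_lit 0) (nat_lit 10232058574) (nat_lit 8) (nat_lit 5) (nat_lit 10) (nat_lit 4) (nat_lit 8) (nat_lit 4) (nat_lit 299) (nat_lit 219) (nat_lit 202)))))) (XT.nd (nat_lit 312) (nat_lit 76) (nat_lit 0) (XT.nd (nat_lit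 156) (nat_lit 76) (nat_lit 0) (XT.nd (nat_lit 78) (nat_lit 0) (nat_lit 0) (XT.lf (nat_lit 0) (nat_lit 5842584567) (nat_lit 76) (nat_lit 13700360610) (nat_lit 76) (nat_lit 7914132794) (nat_lit 7) (nat_lit 4) (nat_lit 8) (nat_lit 5) (nat_lit 8) (nat_lit 4) (nat_lit 300) (nat_lit 219) (nat_lit 201)) (XT.lf (nat_lit 0) (nat_lit 12137991641) (nat_lit 76) (nat_lit 11251080121) (nat_lit 76) (nat_lit 5268967981) (nat_lit 7) (nat_lit 4) (nat_lit 8) (nat_lit 5) (nat_lit 8) (nat_lit 4) (nat_lit 301) (nat_lit 219) (nat_lit 200))) (XT.nd (nat_lit 78) (nat_lit 76) (nat_lit 0) (XT.lf (nat_lit 0) (nat_lit 18620128728) (nat_lit 76) (nat_lit 8735627850) (nat_lit 76) (nat_lit 2566959212) (nat_lit 7) (nat_lit 4) (nat_lit 8) (nat_lit 5) (nat_lit 8) (nat_lit 4) (nat_lit 302) (nat_lit 219) (nat_lit 199)) (XT.lf (nat_lit 0) (nat_lit 191979170) (nat_lit 152) (nat_lit 5952784196) (nat_lit 76) (nat_lit 25109199056)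 (nat_lit 6) (nat_lit 5) (nat_lit 8) (nat_lit 5) (nat_lit 7) (nat_lit 4) (nat_lit 303) (nat_lit 219) (nat_lit 198)))) (XT.nd (nat_lit 156) (nat_lit 0) (nat_lit 0) (XT.nd (nat_lit 78) (nat_lit 76) (nat_lit 0) (XT.lf (nat_lit 0) (nat_lit 2936384153) (nat_lit 152) (nat_lit 495966223) (nat_lit 76) (nat_lit 29220695678) (nat_lit 6) (nat_lit 5) (nat_lit 8) (nat_lit 5) (nat_lit 7) (nat_lit 4) (nat_lit 304) (nat_lit 219) (nat_lit 197)) (XT.lf (nat_lit 0) (nat_lit 5290257998) (nat_lit 76) (nat_lit 547286516) (nat_lit 152) (nat_lit 28283627412) (nat_lit 5) (nat_lit 5) (nat_lit 6) (nat_lit 5) (nat_lit 7) (nat_lit 4) (nat_lit 305) (nat_lit 219) (nat_lit 196))) (XT.nd (nat_lit 78) (nat_lit 0) (nat_lit 0) (XT.lf (nat_lit 0) (nat_lit 8868494360) (nat_lit 152) (nat_lit 24431482192) (nat_lit 0) (nat_lit 2363552692) (nat_lit 5) (nat_lit 5) (nat_lit 7) (nat_lit 4) (nat_lit 5) (nat_lit 4) (nat_lit 306)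 (nat_lit 219) (nat_lit 195)) (XT.nd (nat_lit 78) (nat_lit 0) (nat_lit 0) (XT.lf (nat_lit 0) (nat_lit 12000385406) (nat_lit 152) (nat_lit 19928975716) (nat_lit 0) (nat_lit 5356232407) (nat_lit 5) (nat_lit 5) (nat_lit 7) (nat_lit 4) (nat_lit 5) (nat_lit 4) (nat_lit 307) (nat_lit 219) (nat_lit 194)) (XT.lf (nat_lit 0) (nat_lit 15232129862) (nat_lit 152) (nat_lit 15304129568) (nat_lit 0) (nat_lit 8455394642) (nat_lit 5) (nat_lit 5) (nat_lit 7) (nat_lit 4) (nat_lit 5) (nat_lit 4) (nat_lit 308) (nat_lit 219) (nat_lit 193))))))))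
noncomputable def xc49 : XT := (XT.nd (nat_lit 1326) (nat_lit 0) (nat_lit 0) (XT.nd (nat_lit 624) (nat_lit 152) (nat_lit 0) (XT.nd (nat_lit 312) (nat_lit 0) (nat_lit 0) (XT.nd (nat_lit 156) (nat_lit 76) (nat_lit 0) (XT.nd (nat_lit 78) (nat_lit 0) (nat_lit 0) (XT.lf (nat_lit 0) (nat_lit 18571422357) (nat_lit 152) (nat_lit 10545932213) (nat_lit 0) (nat_lit 11668418355) (nat_lit 5) (nat_lit 5) (nat_lit 7) (nat_lit 4) (nat_lit 5) (nat_lit 4) (nat_lit 309) (nat_lit 219) (nat_lit 192)) (XT.lf (nat_lit 0) (nat_lit 22026213587) (nat_lit 152) (nat_lit 5643054607) (nat_lit 0) (nat_lit 15002953602) (nat_lit 5) (nat_lit 5) (nat_lit 7) (nat_lit 4) (nat_lit 5) (nat_lit 4) (nat_lit 310) (nat_lit 219) (nat_lit 191))) (XT.nd (nat_lit 78) (nat_lit 76) (nat_lit 0) (XT.lf (nat_lit 0) (nat_lit 25604729245) (nat_lit 152) (nat_lit 583823232) (nat_lit 0) (nat_lit 18466939753) (nat_lit 5) (nat_lit 5) (nat_lit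 7) (nat_lit 4) (nat_lit 5) (nat_lit 4) (nat_lit 311) (nat_lit 219) (nat_lit 190)) (XT.lf (nat_lit 0) (nat_lit 4797352952) (nat_lit 76) (nat_lit 24593036779) (nat_lit 76) (nat_lit 17346171565) (nat_lit 4) (nat_lit 4) (nat_lit 5) (nat_lit 5) (nat_lit 5) (nat_lit 4) (nat_lit 312) (nat_lit 219) (nat_lit 189)))) (XT.nd (nat_lit 156) (nat_lit 0) (nat_lit 0) (XT.nd (nat_lit 78) (nat_lit 0) (nat_lit 0) (XT.lf (nat_lit 0) (nat_lit 10384658864) (nat_lit 76) (nat_lit 22944804581) (nat_lit 76) (nat_lit 15594057728) (nat_lit 4) (nat_lit 4) (nat_lit 5) (nat_lit 5) (nat_lit 5) (nat_lit 4) (nat_lit 313) (nat_lit 219) (nat_lit 188)) (XT.lf (nat_lit 0) (nat_lit 16172093777) (nat_lit 76) (nat_lit 21249818851) (nat_lit 76) (nat_lit 13800137103) (nat_lit 4) (nat_lit 4) (nat_lit 5) (nat_lit 5) (nat_lit 5) (nat_lit 4) (nat_lit 314) (nat_lit 219) (nat_lit 187))) (XT.nd (nat_lit 78) (nat_lit 0) (nat_lit 0)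 (XT.lf (nat_lit 0) (nat_lit 22173437300) (nat_lit 76) (nat_lit 19504043909) (nat_lit 76) (nat_lit 11960138453) (nat_lit 4) (nat_lit 4) (nat_lit 5) (nat_lit 5) (nat_lit 5) (nat_lit 4) (nat_lit 315) (nat_lit 219) (nat_lit 186)) (XT.lf (nat_lit 0) (nat_lit 28402978345) (nat_lit 76) (nat_lit 17703323149) (nat_lit 76) (nat_lit 10069680826) (nat_lit 4) (nat_lit 4) (nat_lit 5) (nat_lit 5) (nat_lit 5) (nat_lit 4) (nat_lit 316) (nat_lit 219) (nat_lit 185))))) (XT.nd (nat_lit 312) (nat_lit 152) (nat_lit 0) (XT.nd (nat_lit 156) (nat_lit 0) (nat_lit 0) (XT.nd (nat_lit 78) (nat_lit 0) (nat_lit 0) (XT.lf (nat_lit 0) (nat_lit 34875549153) (nat_lit 76) (nat_lit 15843369138) (nat_lit 76) (nat_lit 8124263134) (nat_lit 4) (nat_lit 4) (nat_lit 5) (nat_lit 5) (nat_lit 5) (nat_lit 4) (nat_lit 317) (nat_lit 219) (nat_lit 184)) (XT.lf (nat_lit 0) (nat_lit 41606560606) (nat_lit 76) (nat_lit 13919753417) (nat_lit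 76) (nat_lit 6119253429) (nat_lit 4) (nat_lit 4) (nat_lit 5) (nat_lit 5) (nat_lit 5) (nat_lit 4) (nat_lit 318) (nat_lit 219) (nat_lit 183))) (XT.nd (nat_lit 78) (nat_lit 0) (nat_lit 0) (XT.lf (nat_lit 0) (nat_lit 48612038923) (nat_lit 76) (nat_lit 11927895946) (nat_lit 76) (nat_lit 4049877880) (nat_lit 4) (nat_lit 4) (nat_lit 5) (nat_lit 5) (nat_lit 5) (nat_lit 4) (nat_lit 319) (nat_lit 219) (nat_lit 182)) (XT.lf (nat_lit 0) (nat_lit 55908663813) (nat_lit 76) (nat_lit 9863054209) (nat_lit 76) (nat_lit 1911209401) (nat_lit 4) (nat_lit 4) (nat_lit 5) (nat_lit 5) (nat_lit 5) (nat_lit 4) (nat_lit 320) (nat_lit 219) (nat_lit 181)))) (XT.nd (nat_lit 156) (nat_lit 76) (nat_lit 0) (XT.nd (nat_lit 78) (nat_lit 0) (nat_lit 0) (XT.lf (nat_lit 0) (nat_lit 292183179) (nat_lit 152) (nat_lit 7423180472) (nat_lit 76) (nat_lit 63216676751) (nat_lit 3) (nat_lit 5) (nat_lit 5) (nat_lit 5) (nat_lit 4)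 (nat_lit 4) (nat_lit 321) (nat_lit 219) (nat_lit 180)) (XT.lf (nat_lit 0) (nat_lit 2511509864) (nat_lit 152) (nat_lit 2940523798) (nat_lit 76) (nat_lit 68891536052) (nat_lit 3) (nat_lit 5) (nat_lit 5) (nat_lit 5) (nat_lit 4) (nat_lit 4) (nat_lit 322) (nat_lit 219) (nat_lit 179))) (XT.nd (nat_lit 78) (nat_lit 0) (nat_lit 0) (XT.lf (nat_lit 0) (nat_lit 1770898552) (nat_lit 76) (nat_lit 3069975539) (nat_lit 152) (nat_lit 73084873488) (nat_lit 2) (nat_lit 5) (nat_lit 3) (nat_lit 5) (nat_lit 4) (nat_lit 4) (nat_lit 323) (nat_lit 219) (nat_lit 178)) (XT.nd (nat_lit 78) (nat_lit 0) (nat_lit 0) (XT.lf (nat_lit 0) (nat_lit 6768772864) (nat_lit 76) (nat_lit 539716717) (nat_lit 152) (nat_lit 74377480031) (nat_lit 2) (nat_lit 5) (nat_lit 3) (nat_lit 5) (nat_lit 4) (nat_lit 4) (nat_lit 324) (nat_lit 219) (nat_lit 177)) (XT.lf (nat_lit 0) (nat_lit 9905512129) (nat_lit 152) (nat_lit 73700496595) (nat_lit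 0) (nat_lit 2027915973) (nat_lit 2) (nat_lit 5) (nat_lit 4) (nat_lit 4) (nat_lit 2) (nat_lit 4) (nat_lit 325) (nat_lit 219) (nat_lit 176))))))) (XT.nd (nat_lit 702) (nat_lit 0) (nat_lit 0) (XT.nd (nat_lit 312) (nat_lit 0) (nat_lit 0) (XT.nd (nat_lit 156) (nat_lit 0) (nat_lit 0) (XT.nd (nat_lit 78) (nat_lit 0) (nat_lit 0) (XT.lf (nat_lit 0) (nat_lit 12615493732) (nat_lit 152) (nat_lit 72479220273) (nat_lit 0) (nat_lit 4685430290) (nat_lit 2) (nat_lit 5) (nat_lit 4) (nat_lit 4) (nat_lit 2) (nat_lit 4) (nat_lit 326) (nat_lit 219) (nat_lit 175)) (XT.lf (nat_lit 0) (nat_lit 15436460239) (nat_lit 152) (nat_lit 71242033492) (nat_lit 0) (nat_lit 7456427952) (nat_lit 2) (nat_lit 5) (nat_lit 4) (nat_lit 4) (nat_lit 2) (nat_lit 4) (nat_lit 327) (nat_lit 219) (nat_lit 174))) (XT.nd (nat_lit 78) (nat_lit 0) (nat_lit 0) (XT.lf (nat_lit 0) (nat_lit 18375128236) (nat_lit 152) (nat_lit 69985990570)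 (nat_lit 0) (nat_lit 10347506573) (nat_lit 2) (nat_lit 5) (nat_lit 4) (nat_lit 4) (nat_lit 2) (nat_lit 4) (nat_lit 328) (nat_lit 219) (nat_lit 173)) (XT.lf (nat_lit 0) (nat_lit 21438494551) (nat_lit 152) (nat_lit 68708100928) (nat_lit 0) (nat_lit 13365549674) (nat_lit 2) (nat_lit 5) (nat_lit 4) (nat_lit 4) (nat_lit 2) (nat_lit 4) (nat_lit 329) (nat_lit 219) (nat_lit 172)))) (XT.nd (nat_lit 156) (nat_lit 0) (nat_lit 0) (XT.nd (nat_lit 78) (nat_lit 0) (nat_lit 0) (XT.lf (nat_lit 0) (nat_lit 24633852915) (nat_lit 152) (nat_lit 67405321972) (nat_lit 0) (nat_lit 16517743070) (nat_lit 2) (nat_lit 5) (nat_lit 4) (nat_lit 4) (nat_lit 2) (nat_lit 4) (nat_lit 330) (nat_lit 219) (nat_lit 171)) (XT.lf (nat_lit 0) (nat_lit 27968811323) (nat_lit 152) (nat_lit 66074551846) (nat_lit 0) (nat_lit 19811591986) (nat_lit 2) (nat_lit 5) (nat_lit 4) (nat_lit 4) (nat_lit 2) (nat_lit 4) (nat_lit 331) (nat_lit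 219) (nat_lit 170))) (XT.nd (nat_lit 78) (nat_lit 0) (nat_lit 0) (XT.lf (nat_lit 0) (nat_lit 31451310152) (nat_lit 152) (nat_lit 64712622051) (nat_lit 0) (nat_lit 23254938918) (nat_lit 2) (nat_lit 5) (nat_lit 4) (nat_lit 4) (nat_lit 2) (nat_lit 4) (nat_lit 332) (nat_lit 219) (nat_lit 169)) (XT.nd (nat_lit 78) (nat_lit 0) (nat_lit 0) (XT.lf (nat_lit 0) (nat_lit 35089641066) (nat_lit 152) (nat_lit 63316289896) (nat_lit 0) (nat_lit 26855982311) (nat_lit 2) (nat_lit 5) (nat_lit 4) (nat_lit 4) (nat_lit 2) (nat_lit 4) (nat_lit 333) (nat_lit 219) (nat_lit 168)) (XT.lf (nat_lit 0) (nat_lit 38892466758) (nat_lit 152) (nat_lit 61882230782) (nat_lit 0) (nat_lit 30623296078) (nat_lit 2) (nat_lit 5) (nat_lit 4) (nat_lit 4) (nat_lit 2) (nat_lit 4) (nat_lit 334) (nat_lit 219) (nat_lit 167)))))) (XT.nd (nat_lit 312) (nat_lit 0) (nat_lit 0) (XT.nd (nat_lit 156) (nat_lit 0) (nat_lit 0) (XT.nd (nat_lit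 78) (nat_lit 0) (nat_lit 0) (XT.lf (nat_lit 0) (nat_lit 42868841575) (nat_lit 152) (nat_lit 60407030282) (nat_lit 0) (nat_lit 34565850014) (nat_lit 2) (nat_lit 5) (nat_lit 4) (nat_lit 4) (nat_lit 2) (nat_lit 4) (nat_lit 335) (nat_lit 219) (nat_lit 166)) (XT.lf (nat_lit 0) (nat_lit 47028233076) (nat_lit 152) (nat_lit 58887176013) (nat_lit 0) (nat_lit 38693031152) (nat_lit 2) (nat_lit 5) (nat_lit 4) (nat_lit 4) (nat_lit 2) (nat_lit 4) (nat_lit 336) (nat_lit 219) (nat_lit 165))) (XT.nd (nat_lit 78) (nat_lit 0) (nat_lit 0) (XT.lf (nat_lit 0) (nat_lit 51380544574) (nat_lit 152) (nat_lit 57319049275) (nat_lit 0) (nat_lit 43014666113) (nat_lit 2) (nat_lit 5) (nat_lit 4) (nat_lit 4) (nat_lit 2) (nat_lit 4) (nat_lit 337) (nat_lit 219) (nat_lit 164)) (XT.lf (nat_lit 0) (nat_lit 55936138714) (nat_lit 152) (nat_lit 55698916433) (nat_lit 0) (nat_lit 47541044506) (nat_lit 2) (nat_lit 5) (nat_lit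 4) (nat_lit 4) (nat_lit 2) (nat_lit 4) (nat_lit 338) (nat_lit 219) (nat_lit 163)))) (XT.nd (nat_lit 156) (nat_lit 0) (nat_lit 0) (XT.nd (nat_lit 78) (nat_lit 0) (nat_lit 0) (XT.lf (nat_lit 0) (nat_lit 60705862151) (nat_lit 152) (nat_lit 54022920028) (nat_lit 0) (nat_lit 52282943420) (nat_lit 2) (nat_lit 5) (nat_lit 4) (nat_lit 4) (nat_lit 2) (nat_lit 4) (nat_lit 339) (nat_lit 219) (nat_lit 162)) (XT.lf (nat_lit 0) (nat_lit 65701071369) (nat_lit 152) (nat_lit 52287069592) (nat_lit 0) (nat_lit 57251653092) (nat_lit 2) (nat_lit 5) (nat_lit 4) (nat_lit 4) (nat_lit 2) (nat_lit 4) (nat_lit 340) (nat_lit 219) (nat_lit 161))) (XT.nd (nat_lit 78) (nat_lit 0) (nat_lit 0) (XT.lf (nat_lit 0) (nat_lit 70933659722) (nat_lit 152) (nat_lit 50487232148) (nat_lit 0) (nat_lit 62459003783) (nat_lit 2) (nat_lit 5) (nat_lit 4) (nat_lit 4) (nat_lit 2) (nat_lit 4) (nat_lit 341) (nat_lit 219) (nat_lit 160))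 (XT.nd (nat_lit 78) (nat_lit 0) (nat_lit 0) (XT.lf (nat_lit 0) (nat_lit 76416085754) (nat_lit 152) (nat_lit 48619122368) (nat_lit 0) (nat_lit 67917393947) (nat_lit 2) (nat_lit 5) (nat_lit 4) (nat_lit 4) (nat_lit 2) (nat_lit 4) (nat_lit 342) (nat_lit 219) (nat_lit 159)) (XT.lf (nat_lit 0) (nat_lit 82161402862) (nat_lit 152) (nat_lit 46678292373) (nat_lit 0) (nat_lit 73639819751) (nat_lit 2) (nat_lit 5) (nat_lit 4) (nat_lit 4) (nat_lit 2) (nat_lit 4) (nat_lit 343) (nat_lit 219) (nat_lit 158))))))))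
noncomputable def xc50 : XT := (XT.nd (nat_lit 1326) (nat_lit 0) (nat_lit 0) (XT.nd (nat_lit 624) (nat_lit 76) (nat_lit 0) (XT.nd (nat_lit 312) (nat_lit 0) (nat_lit 0) (XT.nd (nat_lit 156) (nat_lit 0) (nat_lit 0) (XT.nd (nat_lit 78) (nat_lit 0) (nat_lit 0) (XT.lf (nat_lit 0) (nat_lit 88183290370) (nat_lit 152) (nat_lit 44660121138) (nat_lit 0) (nat_lit 79639906018) (nat_lit 2) (nat_lit 5) (nat_lit 4) (nat_lit 4) (nat_lit 2) (nat_lit 4) (nat_lit 344) (nat_lit 219) (nat_lit 157)) (XT.lf (nat_lit 0) (nat_lit 94496086107) (nat_lit 152) (nat_lit 42559803494) (nat_lit 0) (nat_lit 85931938667) (nat_lit 2) (nat_lit 5) (nat_lit 4) (nat_lit 4) (nat_lit 2) (nat_lit 4) (nat_lit 345) (nat_lit 219) (nat_lit 156))) (XT.nd (nat_lit 78) (nat_lit 0) (nat_lit 0) (XT.lf (nat_lit 0) (nat_lit 101114820538) (nat_lit 152) (nat_lit 40372338685) (nat_lit 0) (nat_lit 92530898730) (nat_lit 2) (nat_lit 5) (nat_lit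 4) (nat_lit 4) (nat_lit 2) (nat_lit 4) (nat_lit 346) (nat_lit 219) (nat_lit 155)) (XT.lf (nat_lit 0) (nat_lit 108055252556) (nat_lit 152) (nat_lit 38092518461) (nat_lit 0) (nat_lit 99452498016) (nat_lit 2) (nat_lit 5) (nat_lit 4) (nat_lit 4) (nat_lit 2) (nat_lit 4) (nat_lit 347) (nat_lit 219) (nat_lit 154)))) (XT.nd (nat_lit 156) (nat_lit 0) (nat_lit 0) (XT.nd (nat_lit 78) (nat_lit 0) (nat_lit 0) (XT.lf (nat_lit 0) (nat_lit 115333906998) (nat_lit 152) (nat_lit 35714914678) (nat_lit 0) (nat_lit 106713216522) (nat_lit 2) (nat_lit 5) (nat_lit 4) (nat_lit 4) (nat_lit 2) (nat_lit 4) (nat_lit 348) (nat_lit 219) (nat_lit 153)) (XT.lf (nat_lit 0) (nat_lit 122968113994) (nat_lit 152) (nat_lit 33233866375) (nat_lit 0) (nat_lit 114330341675) (nat_lit 2) (nat_lit 5) (nat_lit 4) (nat_lit 4) (nat_lit 2) (nat_lit 4) (nat_lit 349) (nat_lit 219) (nat_lit 152))) (XT.nd (nat_lit 78) (nat_lit 0) (nat_lit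 0) (XT.lf (nat_lit 0) (nat_lit 130976050226) (nat_lit 152) (nat_lit 30643466295) (nat_lit 0) (nat_lit 122322009486) (nat_lit 2) (nat_lit 5) (nat_lit 4) (nat_lit 4) (nat_lit 2) (nat_lit 4) (nat_lit 350) (nat_lit 219) (nat_lit 151)) (XT.lf (nat_lit 0) (nat_lit 139376782211) (nat_lit 152) (nat_lit 27937546818) (nat_lit 0) (nat_lit 130707247736) (nat_lit 2) (nat_lit 5) (nat_lit 4) (nat_lit 4) (nat_lit 2) (nat_lit 4) (nat_lit 351) (nat_lit 219) (nat_lit 150))))) (XT.nd (nat_lit 312) (nat_lit 76) (nat_lit 0) (XT.nd (nat_lit 156) (nat_lit 0) (nat_lit 0) (XT.nd (nat_lit 78) (nat_lit 0) (nat_lit 0) (XT.lf (nat_lit 0) (nat_lit 148190311691) (nat_lit 152) (nat_lit 25109665278) (nat_lit 0) (nat_lit 139506021277) (nat_lit 2) (nat_lit 5) (nat_lit 4) (nat_lit 4) (nat_lit 2) (nat_lit 4) (nat_lit 352) (nat_lit 219) (nat_lit 149)) (XT.lf (nat_lit 0) (nat_lit 157437623260) (nat_lit 152) (nat_lit 22153088625)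 (nat_lit 0) (nat_lit 148739279571) (nat_lit 2) (nat_lit 5) (nat_lit 4) (nat_lit 4) (nat_lit 2) (nat_lit 4) (nat_lit 353) (nat_lit 219) (nat_lit 148))) (XT.nd (nat_lit 78) (nat_lit 0) (nat_lit 0) (XT.lf (nat_lit 0) (nat_lit 167140734326) (nat_lit 152) (nat_lit 19060777390) (nat_lit 0) (nat_lit 158429006566) (nat_lit 2) (nat_lit 5) (nat_lit 4) (nat_lit 4) (nat_lit 2) (nat_lit 4) (nat_lit 354) (nat_lit 219) (nat_lit 147)) (XT.lf (nat_lit 0) (nat_lit 177322747535) (nat_lit 152) (nat_lit 15825368927) (nat_lit 0) (nat_lit 168598273041) (nat_lit 2) (nat_lit 5) (nat_lit 4) (nat_lit 4) (nat_lit 2) (nat_lit 4) (nat_lit 355) (nat_lit 219) (nat_lit 146)))) (XT.nd (nat_lit 156) (nat_lit 76) (nat_lit 0) (XT.nd (nat_lit 78) (nat_lit 0) (nat_lit 0) (XT.lf (nat_lit 0) (nat_lit 188007905775) (nat_lit 152) (nat_lit 12439159884) (nat_lit 0) (nat_lit 179271291534) (nat_lit 2) (nat_lit 5) (nat_lit 4) (nat_lit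 4) (nat_lit 2) (nat_lit 4) (nat_lit 356) (nat_lit 219) (nat_lit 145)) (XT.lf (nat_lit 0) (nat_lit 199221649899) (nat_lit 152) (nat_lit 8894087857) (nat_lit 0) (nat_lit 190473473994) (nat_lit 2) (nat_lit 5) (nat_lit 4) (nat_lit 4) (nat_lit 2) (nat_lit 4) (nat_lit 357) (nat_lit 219) (nat_lit 144))) (XT.nd (nat_lit 78) (nat_lit 76) (nat_lit 0) (XT.lf (nat_lit 0) (nat_lit 210990679298) (nat_lit 152) (nat_lit 5181712198) (nat_lit 0) (nat_lit 202231492285) (nat_lit 2) (nat_lit 5) (nat_lit 4) (nat_lit 4) (nat_lit 2) (nat_lit 4) (nat_lit 358) (nat_lit 219) (nat_lit 143)) (XT.nd (nat_lit 78) (nat_lit 76) (nat_lit 0) (XT.lf (nat_lit 0) (nat_lit 223343015471) (nat_lit 152) (nat_lit 1293193919) (nat_lit 0) (nat_lit 214573341688) (nat_lit 2) (nat_lit 5) (nat_lit 4) (nat_lit 4) (nat_lit 2) (nat_lit 4) (nat_lit 359) (nat_lit 219) (nat_lit 142)) (XT.lf (nat_lit 0) (nat_lit 2872668696) (nat_lit 76)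 (nat_lit 233480250455) (nat_lit 76) (nat_lit 224700589272) (nat_lit 1) (nat_lit 4) (nat_lit 2) (nat_lit 5) (nat_lit 2) (nat_lit 4) (nat_lit 360) (nat_lit 219) (nat_lit 141))))))) (XT.nd (nat_lit 31668) (nat_lit 0) (nat_lit 684) (XT.nd (nat_lit 31278) (nat_lit 0) (nat_lit 1064) (XT.nd (nat_lit 156) (nat_lit 0) (nat_lit 0) (XT.nd (nat_lit 78) (nat_lit 0) (nat_lit 0) (XT.lf (nat_lit 0) (nat_lit 7282841862) (nat_lit 76) (nat_lit 242747571994) (nat_lit 76) (nat_lit 233958399002) (nat_lit 1) (nat_lit 4) (nat_lit 2) (nat_lit 5) (nat_lit 2) (nat_lit 4) (nat_lit 361) (nat_lit 219) (nat_lit 140)) (XT.lf (nat_lit 0) (nat_lit 11905067160) (nat_lit 76) (nat_lit 252482139925) (nat_lit 76) (nat_lit 243683908067) (nat_lit 1) (nat_lit 4) (nat_lit 2) (nat_lit 5) (nat_lit 2) (nat_lit 4) (nat_lit 362) (nat_lit 219) (nat_lit 139))) (XT.nd (nat_lit 31044) (nat_lit 0) (nat_lit 1520) (XT.lf (nat_lit 0) (nat_lit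 16750349888) (nat_lit 76) (nat_lit 262707131790) (nat_lit 76) (nat_lit 253900272440) (nat_lit 1) (nat_lit 4) (nat_lit 2) (nat_lit 5) (nat_lit 2) (nat_lit 4) (nat_lit 363) (nat_lit 219) (nat_lit 138)) (XT.lf (nat_lit 0) (nat_lit 6157238084) (nat_lit 152) (nat_lit 141095621) (nat_lit 152) (nat_lit 141095621) (nat_lit 21) (nat_lit 4) (nat_lit 23) (nat_lit 5) (nat_lit 23) (nat_lit 4) (nat_lit 280) (nat_lit 220) (nat_lit 220)))) (XT.nd (nat_lit 156) (nat_lit 304) (nat_lit 0) (XT.nd (nat_lit 78) (nat_lit 0) (nat_lit 0) (XT.lf (nat_lit 0) (nat_lit 3462884834) (nat_lit 152) (nat_lit 6945389413) (nat_lit 0) (nat_lit 2889872115) (nat_lit 19) (nat_lit 5) (nat_lit 21) (nat_lit 4) (nat_lit 19) (nat_lit 4) (nat_lit 281) (nat_lit 220) (nat_lit 219)) (XT.lf (nat_lit 0) (nat_lit 7262595946) (nat_lit 152) (nat_lit 338101596) (nat_lit 0) (nat_lit 6143856828) (nat_lit 19) (nat_lit 5) (nat_lit 21) (nat_lit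 4) (nat_lit 19) (nat_lit 4) (nat_lit 282) (nat_lit 220) (nat_lit 218))) (XT.nd (nat_lit 78) (nat_lit 152) (nat_lit 0) (XT.lf (nat_lit 0) (nat_lit 6595289022) (nat_lit 152) (nat_lit 4629044857) (nat_lit 152) (nat_lit 2990566311) (nat_lit 17) (nat_lit 4) (nat_lit 19) (nat_lit 5) (nat_lit 19) (nat_lit 4) (nat_lit 283) (nat_lit 220) (nat_lit 217)) (XT.nd (nat_lit 78) (nat_lit 76) (nat_lit 0) (XT.lf (nat_lit 0) (nat_lit 529294622) (nat_lit 228) (nat_lit 1048414501) (nat_lit 76) (nat_lit 13136950209) (nat_lit 16) (nat_lit 5) (nat_lit 19) (nat_lit 5) (nat_lit 17) (nat_lit 4) (nat_lit 284) (nat_lit 220) (nat_lit 216)) (XT.lf (nat_lit 0) (nat_lit 4117201901) (nat_lit 152) (nat_lit 9483958339) (nat_lit 0) (nat_lit 1636356702) (nat_lit 15) (nat_lit 5) (nat_lit 17) (nat_lit 4) (nat_lit 15) (nat_lit 4) (nat_lit 285) (nat_lit 220) (nat_lit 215)))))) (XT.nd (nat_lit 312) (nat_lit 152) (nat_lit 0)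 (XT.nd (nat_lit 156) (nat_lit 76) (nat_lit 0) (XT.nd (nat_lit 78) (nat_lit 152) (nat_lit 0) (XT.lf (nat_lit 0) (nat_lit 7805789260) (nat_lit 152) (nat_lit 3087491353) (nat_lit 0) (nat_lit 4897353148) (nat_lit 15) (nat_lit 5) (nat_lit 17) (nat_lit 4) (nat_lit 15) (nat_lit 4) (nat_lit 286) (nat_lit 220) (nat_lit 214)) (XT.lf (nat_lit 0) (nat_lit 3544398554) (nat_lit 152) (nat_lit 8072958908) (nat_lit 152) (nat_lit 4757293354) (nat_lit 13) (nat_lit 4) (nat_lit 15) (nat_lit 5) (nat_lit 15) (nat_lit 4) (nat_lit 287) (nat_lit 220) (nat_lit 213))) (XT.nd (nat_lit 78) (nat_lit 76) (nat_lit 0) (XT.lf (nat_lit 0) (nat_lit 10420421389) (nat_lit 152) (nat_lit 5137106518) (nat_lit 152) (nat_lit 1433603401) (nat_lit 13) (nat_lit 4) (nat_lit 15) (nat_lit 5) (nat_lit 15) (nat_lit 4) (nat_lit 288) (nat_lit 220) (nat_lit 212)) (XT.lf (nat_lit 0) (nat_lit 1879699393) (nat_lit 228) (nat_lit 219488466)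 (nat_lit 76) (nat_lit 15543329216) (nat_lit 12) (nat_lit 5) (nat_lit 15) (nat_lit 5) (nat_lit 13) (nat_lit 4) (nat_lit 289) (nat_lit 220) (nat_lit 211)))) (XT.nd (nat_lit 156) (nat_lit 76) (nat_lit 0) (XT.nd (nat_lit 78) (nat_lit 0) (nat_lit 0) (XT.lf (nat_lit 0) (nat_lit 5323638649) (nat_lit 152) (nat_lit 11891458334) (nat_lit 0) (nat_lit 1109684052) (nat_lit 11) (nat_lit 5) (nat_lit 13) (nat_lit 4) (nat_lit 11) (nat_lit 4) (nat_lit 290) (nat_lit 220) (nat_lit 210)) (XT.lf (nat_lit 0) (nat_lit 8873581029) (nat_lit 152) (nat_lit 5830470087) (nat_lit 0) (nat_lit 4340551509) (nat_lit 11) (nat_lit 5) (nat_lit 13) (nat_lit 4) (nat_lit 11) (nat_lit 4) (nat_lit 291) (nat_lit 220) (nat_lit 209))) (XT.nd (nat_lit 78) (nat_lit 0) (nat_lit 0) (XT.lf (nat_lit 0) (nat_lit 372717357) (nat_lit 76) (nat_lit 12134708204) (nat_lit 76) (nat_lit 7297797805) (nat_lit 10) (nat_lit 4) (nat_lit 11) (nat_lit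 5) (nat_lit 11) (nat_lit 4) (nat_lit 292) (nat_lit 220) (nat_lit 208)) (XT.nd (nat_lit 78) (nat_lit 0) (nat_lit 0) (XT.lf (nat_lit 0) (nat_lit 6918492200) (nat_lit 76) (nat_lit 9405877768) (nat_lit 76) (nat_lit 4279557008) (nat_lit 10) (nat_lit 4) (nat_lit 11) (nat_lit 5) (nat_lit 11) (nat_lit 4) (nat_lit 293) (nat_lit 220) (nat_lit 207)) (XT.lf (nat_lit 0) (nat_lit 13629657947) (nat_lit 76) (nat_lit 6609804426) (nat_lit 76) (nat_lit 1207854750) (nat_lit 10) (nat_lit 4) (nat_lit 11) (nat_lit 5) (nat_lit 11) (nat_lit 4) (nat_lit 294) (nat_lit 220) (nat_lit 206))))))))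
noncomputable def xc51 : XT := (XT.nd (nat_lit 1326) (nat_lit 228) (nat_lit 0) (XT.nd (nat_lit 624) (nat_lit 152) (nat_lit 0) (XT.nd (nat_lit 312) (nat_lit 76) (nat_lit 0) (XT.nd (nat_lit 156) (nat_lit 0) (nat_lit 0) (XT.nd (nat_lit 78) (nat_lit 76) (nat_lit 0) (XT.lf (nat_lit 0) (nat_lit 1863022604) (nat_lit 152) (nat_lit 1845257065) (nat_lit 76) (nat_lit 18627619769) (nat_lit 9) (nat_lit 5) (nat_lit 11) (nat_lit 5) (nat_lit 10) (nat_lit 4) (nat_lit 295) (nat_lit 220) (nat_lit 205)) (XT.lf (nat_lit 0) (nat_lit 4396917361) (nat_lit 76) (nat_lit 633021329) (nat_lit 152) (nat_lit 18238928344) (nat_lit 8) (nat_lit 5) (nat_lit 9) (nat_lit 5) (nat_lit 10) (nat_lit 4) (nat_lit 296) (nat_lit 220) (nat_lit 204))) (XT.nd (nat_lit 78) (nat_lit 0) (nat_lit 0) (XT.lf (nat_lit 0) (nat_lit 8342713655) (nat_lit 152) (nat_lit 13423352542) (nat_lit 0) (nat_lit 2483136917) (nat_lit 8) (nat_lit 5) (nat_lit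 10) (nat_lit 4) (nat_lit 8) (nat_lit 4) (nat_lit 297) (nat_lit 220) (nat_lit 203)) (XT.lf (nat_lit 0) (nat_lit 11750761546) (nat_lit 152) (nat_lit 7856181601) (nat_lit 0) (nat_lit 5675222340) (nat_lit 8) (nat_lit 5) (nat_lit 10) (nat_lit 4) (nat_lit 8) (nat_lit 4) (nat_lit 298) (nat_lit 220) (nat_lit 202)))) (XT.nd (nat_lit 156) (nat_lit 0) (nat_lit 0) (XT.nd (nat_lit 78) (nat_lit 76) (nat_lit 0) (XT.lf (nat_lit 0) (nat_lit 15252313525) (nat_lit 152) (nat_lit 2147298444) (nat_lit 0) (nat_lit 8971095779) (nat_lit 8) (nat_lit 5) (nat_lit 10) (nat_lit 4) (nat_lit 8) (nat_lit 4) (nat_lit 299) (nat_lit 220) (nat_lit 201)) (XT.lf (nat_lit 0) (nat_lit 3839786659) (nat_lit 76) (nat_lit 15075869793) (nat_lit 76) (nat_lit 8598767723) (nat_lit 7) (nat_lit 4) (nat_lit 8) (nat_lit 5) (nat_lit 8) (nat_lit 4) (nat_lit 300) (nat_lit 220) (nat_lit 200))) (XT.nd (nat_lit 78) (nat_lit 0) (nat_lit 0) (XT.lf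 (nat_lit 0) (nat_lit 10072735030) (nat_lit 76) (nat_lit 12654048935) (nat_lit 76) (nat_lit 5990390365) (nat_lit 7) (nat_lit 4) (nat_lit 8) (nat_lit 5) (nat_lit 8) (nat_lit 4) (nat_lit 301) (nat_lit 220) (nat_lit 199)) (XT.lf (nat_lit 0) (nat_lit 16495387637) (nat_lit 76) (nat_lit 10164748694) (nat_lit 76) (nat_lit 3323417267) (nat_lit 7) (nat_lit 4) (nat_lit 8) (nat_lit 5) (nat_lit 8) (nat_lit 4) (nat_lit 302) (nat_lit 220) (nat_lit 198))))) (XT.nd (nat_lit 312) (nat_lit 0) (nat_lit 0) (XT.nd (nat_lit 156) (nat_lit 76) (nat_lit 0) (XT.nd (nat_lit 78) (nat_lit 76) (nat_lit 0) (XT.lf (nat_lit 0) (nat_lit 23123036510) (nat_lit 76) (nat_lit 7602042163) (nat_lit 76) (nat_lit 591498493) (nat_lit 7) (nat_lit 4) (nat_lit 8) (nat_lit 5) (nat_lit 8) (nat_lit 4) (nat_lit 303) (nat_lit 220) (nat_lit 197)) (XT.lf (nat_lit 0) (nat_lit 2141076855) (nat_lit 152) (nat_lit 2782490635) (nat_lit 76) (nat_lit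 27794124738) (nat_lit 6) (nat_lit 5) (nat_lit 8) (nat_lit 5) (nat_lit 7) (nat_lit 4) (nat_lit 304) (nat_lit 220) (nat_lit 196))) (XT.nd (nat_lit 78) (nat_lit 0) (nat_lit 0) (XT.lf (nat_lit 0) (nat_lit 2874015008) (nat_lit 76) (nat_lit 2101201425) (nat_lit 152) (nat_lit 29213982815) (nat_lit 5) (nat_lit 5) (nat_lit 6) (nat_lit 5) (nat_lit 7) (nat_lit 4) (nat_lit 305) (nat_lit 220) (nat_lit 195)) (XT.lf (nat_lit 0) (nat_lit 7952842776) (nat_lit 152) (nat_lit 26944137848) (nat_lit 0) (nat_lit 837270794) (nat_lit 5) (nat_lit 5) (nat_lit 7) (nat_lit 4) (nat_lit 5) (nat_lit 4) (nat_lit 306) (nat_lit 220) (nat_lit 194)))) (XT.nd (nat_lit 156) (nat_lit 0) (nat_lit 0) (XT.nd (nat_lit 78) (nat_lit 0) (nat_lit 0) (XT.lf (nat_lit 0) (nat_lit 11057055216) (nat_lit 152) (nat_lit 22491770715) (nat_lit 0) (nat_lit 3808901013) (nat_lit 5) (nat_lit 5) (nat_lit 7) (nat_lit 4) (nat_lit 5) (nat_lit 4) (nat_lit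 307) (nat_lit 220) (nat_lit 193)) (XT.lf (nat_lit 0) (nat_lit 14262439094) (nat_lit 152) (nat_lit 17914676323) (nat_lit 0) (nat_lit 6888016110) (nat_lit 5) (nat_lit 5) (nat_lit 7) (nat_lit 4) (nat_lit 5) (nat_lit 4) (nat_lit 308) (nat_lit 220) (nat_lit 192))) (XT.nd (nat_lit 78) (nat_lit 0) (nat_lit 0) (XT.lf (nat_lit 0) (nat_lit 17576626277) (nat_lit 152) (nat_lit 13201956829) (nat_lit 0) (nat_lit 10081947310) (nat_lit 5) (nat_lit 5) (nat_lit 7) (nat_lit 4) (nat_lit 5) (nat_lit 4) (nat_lit 309) (nat_lit 220) (nat_lit 191)) (XT.nd (nat_lit 78) (nat_lit 0) (nat_lit 0) (XT.lf (nat_lit 0) (nat_lit 21007507686) (nat_lit 152) (nat_lit 8342391473) (nat_lit 0) (nat_lit 13398299211) (nat_lit 5) (nat_lit 5) (nat_lit 7) (nat_lit 4) (nat_lit 5) (nat_lit 4) (nat_lit 310) (nat_lit 220) (nat_lit 190)) (XT.lf (nat_lit 0) (nat_lit 24563252086) (nat_lit 152) (nat_lit 3324409861) (nat_lit 0) (nat_lit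 16844967890) (nat_lit 5) (nat_lit 5) (nat_lit 7) (nat_lit 4) (nat_lit 5) (nat_lit 4) (nat_lit 311) (nat_lit 220) (nat_lit 189))))))) (XT.nd (nat_lit 702) (nat_lit 152) (nat_lit 0) (XT.nd (nat_lit 312) (nat_lit 0) (nat_lit 0) (XT.nd (nat_lit 156) (nat_lit 0) (nat_lit 0) (XT.nd (nat_lit 78) (nat_lit 0) (nat_lit 0) (XT.lf (nat_lit 0) (nat_lit 1925565710) (nat_lit 76) (nat_lit 26356823302) (nat_lit 76) (nat_lit 18534657467) (nat_lit 4) (nat_lit 4) (nat_lit 5) (nat_lit 5) (nat_lit 5) (nat_lit 4) (nat_lit 312) (nat_lit 220) (nat_lit 188)) (XT.lf (nat_lit 0) (nat_lit 7474219771) (nat_lit 76) (nat_lit 24725985289) (nat_lit 76) (nat_lit 16804884559) (nat_lit 4) (nat_lit 4) (nat_lit 5) (nat_lit 5) (nat_lit 5) (nat_lit 4) (nat_lit 313) (nat_lit 220) (nat_lit 187))) (XT.nd (nat_lit 78) (nat_lit 0) (nat_lit 0) (XT.lf (nat_lit 0) (nat_lit 13224843399) (nat_lit 76) (nat_lit 23047565449) (nat_lit 76)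 (nat_lit 15032241010) (nat_lit 4) (nat_lit 4) (nat_lit 5) (nat_lit 5) (nat_lit 5) (nat_lit 4) (nat_lit 314) (nat_lit 220) (nat_lit 186)) (XT.lf (nat_lit 0) (nat_lit 19191128554) (nat_lit 76) (nat_lit 21317567545) (nat_lit 76) (nat_lit 13212506241) (nat_lit 4) (nat_lit 4) (nat_lit 5) (nat_lit 5) (nat_lit 5) (nat_lit 4) (nat_lit 315) (nat_lit 220) (nat_lit 185)))) (XT.nd (nat_lit 156) (nat_lit 0) (nat_lit 0) (XT.nd (nat_lit 78) (nat_lit 0) (nat_lit 0) (XT.lf (nat_lit 0) (nat_lit 25387280677) (nat_lit 76) (nat_lit 19531872535) (nat_lit 76) (nat_lit 11341347549) (nat_lit 4) (nat_lit 4) (nat_lit 5) (nat_lit 5) (nat_lit 5) (nat_lit 4) (nat_lit 316) (nat_lit 220) (nat_lit 184)) (XT.lf (nat_lit 0) (nat_lit 31828052512) (nat_lit 76) (nat_lit 17686228763) (nat_lit 76) (nat_lit 9414309794) (nat_lit 4) (nat_lit 4) (nat_lit 5) (nat_lit 5) (nat_lit 5) (nat_lit 4) (nat_lit 317) (nat_lit 220) (nat_lit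 183))) (XT.nd (nat_lit 78) (nat_lit 0) (nat_lit 0) (XT.lf (nat_lit 0) (nat_lit 38528779229) (nat_lit 76) (nat_lit 15776241840) (nat_lit 76) (nat_lit 7426804792) (nat_lit 4) (nat_lit 4) (nat_lit 5) (nat_lit 5) (nat_lit 5) (nat_lit 4) (nat_lit 318) (nat_lit 220) (nat_lit 182)) (XT.nd (nat_lit 78) (nat_lit 0) (nat_lit 0) (XT.lf (nat_lit 0) (nat_lit 45505414940) (nat_lit 76) (nat_lit 13797364178) (nat_lit 76) (nat_lit 5374100388) (nat_lit 4) (nat_lit 4) (nat_lit 5) (nat_lit 5) (nat_lit 5) (nat_lit 4) (nat_lit 319) (nat_lit 220) (nat_lit 181)) (XT.lf (nat_lit 0) (nat_lit 52774570681) (nat_lit 76) (nat_lit 11744884163) (nat_lit 76) (nat_lit 3251309191) (nat_lit 4) (nat_lit 4) (nat_lit 5) (nat_lit 5) (nat_lit 5) (nat_lit 4) (nat_lit 320) (nat_lit 220) (nat_lit 180)))))) (XT.nd (nat_lit 312) (nat_lit 0) (nat_lit 0) (XT.nd (nat_lit 156) (nat_lit 76) (nat_lit 0) (XT.nd (nat_lit 78) (nat_lit 76)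 (nat_lit 0) (XT.lf (nat_lit 0) (nat_lit 60353553968) (nat_lit 76) (nat_lit 9613914938) (nat_lit 76) (nat_lit 1053376935) (nat_lit 4) (nat_lit 4) (nat_lit 5) (nat_lit 5) (nat_lit 5) (nat_lit 4) (nat_lit 321) (nat_lit 220) (nat_lit 179)) (XT.lf (nat_lit 0) (nat_lit 1185724155) (nat_lit 152) (nat_lit 6193577799) (nat_lit 76) (nat_lit 67054605030) (nat_lit 3) (nat_lit 5) (nat_lit 5) (nat_lit 5) (nat_lit 4) (nat_lit 4) (nat_lit 322) (nat_lit 220) (nat_lit 178))) (XT.nd (nat_lit 78) (nat_lit 76) (nat_lit 0) (XT.lf (nat_lit 0) (nat_lit 3474163279) (nat_lit 152) (nat_lit 1563015038) (nat_lit 76) (nat_lit 72980964703) (nat_lit 3) (nat_lit 5) (nat_lit 5) (nat_lit 5) (nat_lit 4) (nat_lit 4) (nat_lit 323) (nat_lit 220) (nat_lit 177)) (XT.lf (nat_lit 0) (nat_lit 3359389156) (nat_lit 76) (nat_lit 2544164063) (nat_lit 152) (nat_lit 75876734460) (nat_lit 2) (nat_lit 5) (nat_lit 3) (nat_lit 5) (nat_lit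 4) (nat_lit 4) (nat_lit 324) (nat_lit 220) (nat_lit 176)))) (XT.nd (nat_lit 156) (nat_lit 0) (nat_lit 0) (XT.nd (nat_lit 78) (nat_lit 0) (nat_lit 0) (XT.lf (nat_lit 0) (nat_lit 8456724684) (nat_lit 152) (nat_lit 77196030658) (nat_lit 0) (nat_lit 77690783) (nat_lit 2) (nat_lit 5) (nat_lit 4) (nat_lit 4) (nat_lit 2) (nat_lit 4) (nat_lit 325) (nat_lit 220) (nat_lit 175)) (XT.lf (nat_lit 0) (nat_lit 11154748153) (nat_lit 152) (nat_lit 75996780364) (nat_lit 0) (nat_lit 2725745407) (nat_lit 2) (nat_lit 5) (nat_lit 4) (nat_lit 4) (nat_lit 2) (nat_lit 4) (nat_lit 326) (nat_lit 220) (nat_lit 174))) (XT.nd (nat_lit 78) (nat_lit 0) (nat_lit 0) (XT.lf (nat_lit 0) (nat_lit 13964325959) (nat_lit 152) (nat_lit 74780570753) (nat_lit 0) (nat_lit 5487733838) (nat_lit 2) (nat_lit 5) (nat_lit 4) (nat_lit 4) (nat_lit 2) (nat_lit 4) (nat_lit 327) (nat_lit 220) (nat_lit 173)) (XT.nd (nat_lit 78) (nat_lit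 0) (nat_lit 0) (XT.lf (nat_lit 0) (nat_lit 16892147575) (nat_lit 152) (nat_lit 73544506088) (nat_lit 0) (nat_lit 8370232238) (nat_lit 2) (nat_lit 5) (nat_lit 4) (nat_lit 4) (nat_lit 2) (nat_lit 4) (nat_lit 328) (nat_lit 220) (nat_lit 172)) (XT.lf (nat_lit 0) (nat_lit 19945184004) (nat_lit 152) (nat_lit 72285643357) (nat_lit 0) (nat_lit 11380103700) (nat_lit 2) (nat_lit 5) (nat_lit 4) (nat_lit 4) (nat_lit 2) (nat_lit 4) (nat_lit 329) (nat_lit 220) (nat_lit 171))))))))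
noncomputable def xc52 : XT := (XT.nd (nat_lit 1326) (nat_lit 76) (nat_lit 0) (XT.nd (nat_lit 624) (nat_lit 0) (nat_lit 0) (XT.nd (nat_lit 312) (nat_lit 0) (nat_lit 0) (XT.nd (nat_lit 156) (nat_lit 0) (nat_lit 0) (XT.nd (nat_lit 78) (nat_lit 0) (nat_lit 0) (XT.lf (nat_lit 0) (nat_lit 23130704381) (nat_lit 152) (nat_lit 71000985268) (nat_lit 0) (nat_lit 14524514585) (nat_lit 2) (nat_lit 5) (nat_lit 4) (nat_lit 4) (nat_lit 2) (nat_lit 4) (nat_lit 330) (nat_lit 220) (nat_lit 170)) (XT.lf (nat_lit 0) (nat_lit 26456293277) (nat_lit 152) (nat_lit 69687473111) (nat_lit 0) (nat_lit 17810951583) (nat_lit 2) (nat_lit 5) (nat_lit 4) (nat_lit 4) (nat_lit 2) (nat_lit 4) (nat_lit 331) (nat_lit 220) (nat_lit 169))) (XT.nd (nat_lit 78) (nat_lit 0) (nat_lit 0) (XT.lf (nat_lit 0) (nat_lit 29929868761) (nat_lit 152) (nat_lit 68341979477) (nat_lit 0) (nat_lit 21247239547) (nat_lit 2) (nat_lit 5) (nat_lit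 4) (nat_lit 4) (nat_lit 2) (nat_lit 4) (nat_lit 332) (nat_lit 220) (nat_lit 168)) (XT.lf (nat_lit 0) (nat_lit 33559701252) (nat_lit 152) (nat_lit 66961300810) (nat_lit 0) (nat_lit 24841560113) (nat_lit 2) (nat_lit 5) (nat_lit 4) (nat_lit 4) (nat_lit 2) (nat_lit 4) (nat_lit 333) (nat_lit 220) (nat_lit 167)))) (XT.nd (nat_lit 156) (nat_lit 0) (nat_lit 0) (XT.nd (nat_lit 78) (nat_lit 0) (nat_lit 0) (XT.lf (nat_lit 0) (nat_lit 37354433208) (nat_lit 152) (nat_lit 65542149778) (nat_lit 0) (nat_lit 28602471187) (nat_lit 2) (nat_lit 5) (nat_lit 4) (nat_lit 4) (nat_lit 2) (nat_lit 4) (nat_lit 334) (nat_lit 220) (nat_lit 166)) (XT.lf (nat_lit 0) (nat_lit 41323099704) (nat_lit 152) (nat_lit 64081147451) (nat_lit 0) (nat_lit 32538927321) (nat_lit 2) (nat_lit 5) (nat_lit 4) (nat_lit 4) (nat_lit 2) (nat_lit 4) (nat_lit 335) (nat_lit 220) (nat_lit 165))) (XT.nd (nat_lit 78) (nat_lit 0) (nat_lit 0)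 (XT.lf (nat_lit 0) (nat_lit 45475149947) (nat_lit 152) (nat_lit 62574815253) (nat_lit 0) (nat_lit 36660301028) (nat_lit 2) (nat_lit 5) (nat_lit 4) (nat_lit 4) (nat_lit 2) (nat_lit 4) (nat_lit 336) (nat_lit 220) (nat_lit 164)) (XT.lf (nat_lit 0) (nat_lit 49820469771) (nat_lit 152) (nat_lit 61019566678) (nat_lit 0) (nat_lit 40976405103) (nat_lit 2) (nat_lit 5) (nat_lit 4) (nat_lit 4) (nat_lit 2) (nat_lit 4) (nat_lit 337) (nat_lit 220) (nat_lit 163))))) (XT.nd (nat_lit 312) (nat_lit 0) (nat_lit 0) (XT.nd (nat_lit 156) (nat_lit 0) (nat_lit 0) (XT.nd (nat_lit 78) (nat_lit 0) (nat_lit 0) (XT.lf (nat_lit 0) (nat_lit 54369405175) (nat_lit 152) (nat_lit 59411698752) (nat_lit 0) (nat_lit 45497515984) (nat_lit 2) (nat_lit 5) (nat_lit 4) (nat_lit 4) (nat_lit 2) (nat_lit 4) (nat_lit 338) (nat_lit 220) (nat_lit 162)) (XT.lf (nat_lit 0) (nat_lit 59132786957) (nat_lit 152) (nat_lit 57747383220) (nat_lit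 0) (nat_lit 50234398222) (nat_lit 2) (nat_lit 5) (nat_lit 4) (nat_lit 4) (nat_lit 2) (nat_lit 4) (nat_lit 339) (nat_lit 220) (nat_lit 161))) (XT.nd (nat_lit 78) (nat_lit 0) (nat_lit 0) (XT.lf (nat_lit 0) (nat_lit 64121956504) (nat_lit 152) (nat_lit 56022657425) (nat_lit 0) (nat_lit 55198330106) (nat_lit 2) (nat_lit 5) (nat_lit 4) (nat_lit 4) (nat_lit 2) (nat_lit 4) (nat_lit 340) (nat_lit 220) (nat_lit 160)) (XT.lf (nat_lit 0) (nat_lit 69348792789) (nat_lit 152) (nat_lit 54233414877) (nat_lit 0) (nat_lit 60401130523) (nat_lit 2) (nat_lit 5) (nat_lit 4) (nat_lit 4) (nat_lit 2) (nat_lit 4) (nat_lit 341) (nat_lit 220) (nat_lit 159)))) (XT.nd (nat_lit 156) (nat_lit 0) (nat_lit 0) (XT.nd (nat_lit 78) (nat_lit 0) (nat_lit 0) (XT.lf (nat_lit 0) (nat_lit 74825740662) (nat_lit 152) (nat_lit 52375395475) (nat_lit 0) (nat_lit 65855187093) (nat_lit 2) (nat_lit 5) (nat_lit 4) (nat_lit 4) (nat_lit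 2) (nat_lit 4) (nat_lit 342) (nat_lit 220) (nat_lit 158)) (XT.lf (nat_lit 0) (nat_lit 80565840475) (nat_lit 152) (nat_lit 50444175362) (nat_lit 0) (nat_lit 71573485664) (nat_lit 2) (nat_lit 5) (nat_lit 4) (nat_lit 4) (nat_lit 2) (nat_lit 4) (nat_lit 343) (nat_lit 220) (nat_lit 157))) (XT.nd (nat_lit 78) (nat_lit 0) (nat_lit 0) (XT.lf (nat_lit 0) (nat_lit 86582759131) (nat_lit 152) (nat_lit 48435156397) (nat_lit 0) (nat_lit 77569641233) (nat_lit 2) (nat_lit 5) (nat_lit 4) (nat_lit 4) (nat_lit 2) (nat_lit 4) (nat_lit 344) (nat_lit 220) (nat_lit 156)) (XT.nd (nat_lit 78) (nat_lit 0) (nat_lit 0) (XT.lf (nat_lit 0) (nat_lit 92890822628) (nat_lit 152) (nat_lit 46343555200) (nat_lit 0) (nat_lit 83857930361) (nat_lit 2) (nat_lit 5) (nat_lit 4) (nat_lit 4) (nat_lit 2) (nat_lit 4) (nat_lit 345) (nat_lit 220) (nat_lit 155)) (XT.lf (nat_lit 0) (nat_lit 99505050164) (nat_lit 152) (nat_lit 44164391769)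 (nat_lit 0) (nat_lit 90453325165) (nat_lit 2) (nat_lit 5) (nat_lit 4) (nat_lit 4) (nat_lit 2) (nat_lit 4) (nat_lit 346) (nat_lit 220) (nat_lit 154))))))) (XT.nd (nat_lit 702) (nat_lit 76) (nat_lit 0) (XT.nd (nat_lit 312) (nat_lit 0) (nat_lit 0) (XT.nd (nat_lit 156) (nat_lit 0) (nat_lit 0) (XT.nd (nat_lit 78) (nat_lit 0) (nat_lit 0) (XT.lf (nat_lit 0) (nat_lit 106441189900) (nat_lit 152) (nat_lit 41892477619) (nat_lit 0) (nat_lit 97371528966) (nat_lit 2) (nat_lit 5) (nat_lit 4) (nat_lit 4) (nat_lit 2) (nat_lit 4) (nat_lit 347) (nat_lit 220) (nat_lit 153)) (XT.lf (nat_lit 0) (nat_lit 113715756455) (nat_lit 152) (nat_lit 39522403431) (nat_lit 0) (nat_lit 104629013678) (nat_lit 2) (nat_lit 5) (nat_lit 4) (nat_lit 4) (nat_lit 2) (nat_lit 4) (nat_lit 348) (nat_lit 220) (nat_lit 152))) (XT.nd (nat_lit 78) (nat_lit 0) (nat_lit 0) (XT.lf (nat_lit 0) (nat_lit 121346070225) (nat_lit 152) (nat_lit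 37048526171) (nat_lit 0) (nat_lit 112243059026) (nat_lit 2) (nat_lit 5) (nat_lit 4) (nat_lit 4) (nat_lit 2) (nat_lit 4) (nat_lit 349) (nat_lit 220) (nat_lit 151)) (XT.lf (nat_lit 0) (nat_lit 129350298624) (nat_lit 152) (nat_lit 34464955655) (nat_lit 0) (nat_lit 120231793690) (nat_lit 2) (nat_lit 5) (nat_lit 4) (nat_lit 4) (nat_lit 2) (nat_lit 4) (nat_lit 350) (nat_lit 220) (nat_lit 150)))) (XT.nd (nat_lit 156) (nat_lit 0) (nat_lit 0) (XT.nd (nat_lit 78) (nat_lit 0) (nat_lit 0) (XT.lf (nat_lit 0) (nat_lit 137747499339) (nat_lit 152) (nat_lit 31765540525) (nat_lit 0) (nat_lit 128614238466) (nat_lit 2) (nat_lit 5) (nat_lit 4) (nat_lit 4) (nat_lit 2) (nat_lit 4) (nat_lit 351) (nat_lit 220) (nat_lit 149)) (XT.lf (nat_lit 0) (nat_lit 146557665704) (nat_lit 152) (nat_lit 28943853602) (nat_lit 0) (nat_lit 137410351556) (nat_lit 2) (nat_lit 5) (nat_lit 4) (nat_lit 4) (nat_lit 2) (nat_lit 4)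 (nat_lit 352) (nat_lit 220) (nat_lit 148))) (XT.nd (nat_lit 78) (nat_lit 0) (nat_lit 0) (XT.lf (nat_lit 0) (nat_lit 155801774306) (nat_lit 152) (nat_lit 25993176584) (nat_lit 0) (nat_lit 146641076087) (nat_lit 2) (nat_lit 5) (nat_lit 4) (nat_lit 4) (nat_lit 2) (nat_lit 4) (nat_lit 353) (nat_lit 220) (nat_lit 147)) (XT.nd (nat_lit 78) (nat_lit 0) (nat_lit 0) (XT.lf (nat_lit 0) (nat_lit 165501834928) (nat_lit 152) (nat_lit 22906484048) (nat_lit 0) (nat_lit 156328389975) (nat_lit 2) (nat_lit 5) (nat_lit 4) (nat_lit 4) (nat_lit 2) (nat_lit 4) (nat_lit 354) (nat_lit 220) (nat_lit 146)) (XT.lf (nat_lit 0) (nat_lit 175680942952) (nat_lit 152) (nat_lit 19676426728) (nat_lit 0) (nat_lit 166495358252) (nat_lit 2) (nat_lit 5) (nat_lit 4) (nat_lit 4) (nat_lit 2) (nat_lit 4) (nat_lit 355) (nat_lit 220) (nat_lit 145)))))) (XT.nd (nat_lit 312) (nat_lit 76) (nat_lit 0) (XT.nd (nat_lit 156) (nat_lit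 0) (nat_lit 0) (XT.nd (nat_lit 78) (nat_lit 0) (nat_lit 0) (XT.lf (nat_lit 0) (nat_lit 186363334349) (nat_lit 152) (nat_lit 16295314011) (nat_lit 0) (nat_lit 177166187985) (nat_lit 2) (nat_lit 5) (nat_lit 4) (nat_lit 4) (nat_lit 2) (nat_lit 4) (nat_lit 356) (nat_lit 220) (nat_lit 144)) (XT.lf (nat_lit 0) (nat_lit 197574443385) (nat_lit 152) (nat_lit 12755095627) (nat_lit 0) (nat_lit 188366285913) (nat_lit 2) (nat_lit 5) (nat_lit 4) (nat_lit 4) (nat_lit 2) (nat_lit 4) (nat_lit 357) (nat_lit 220) (nat_lit 143))) (XT.nd (nat_lit 78) (nat_lit 0) (nat_lit 0) (XT.lf (nat_lit 0) (nat_lit 209340963177) (nat_lit 152) (nat_lit 9047342487) (nat_lit 0) (nat_lit 200122318934) (nat_lit 2) (nat_lit 5) (nat_lit 4) (nat_lit 4) (nat_lit 2) (nat_lit 4) (nat_lit 358) (nat_lit 220) (nat_lit 142)) (XT.lf (nat_lit 0) (nat_lit 221690909247) (nat_lit 152) (nat_lit 5163226605) (nat_lit 0) (nat_lit 212462277605)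 (nat_lit 2) (nat_lit 5) (nat_lit 4) (nat_lit 4) (nat_lit 2) (nat_lit 4) (nat_lit 359) (nat_lit 220) (nat_lit 141)))) (XT.nd (nat_lit 156) (nat_lit 0) (nat_lit 0) (XT.nd (nat_lit 78) (nat_lit 76) (nat_lit 0) (XT.lf (nat_lit 0) (nat_lit 234653686229) (nat_lit 152) (nat_lit 1093500088) (nat_lit 0) (nat_lit 225415542778) (nat_lit 2) (nat_lit 5) (nat_lit 4) (nat_lit 4) (nat_lit 2) (nat_lit 4) (nat_lit 360) (nat_lit 220) (nat_lit 140)) (XT.lf (nat_lit 0) (nat_lit 3276391891) (nat_lit 76) (nat_lit 245034919647) (nat_lit 76) (nat_lit 235787717329) (nat_lit 1) (nat_lit 4) (nat_lit 2) (nat_lit 5) (nat_lit 2) (nat_lit 4) (nat_lit 361) (nat_lit 220) (nat_lit 139))) (XT.nd (nat_lit 78) (nat_lit 0) (nat_lit 0) (XT.lf (nat_lit 0) (nat_lit 7894688489) (nat_lit 76) (nat_lit 254771290279) (nat_lit 76) (nat_lit 245515460470) (nat_lit 1) (nat_lit 4) (nat_lit 2) (nat_lit 5) (nat_lit 2) (nat_lit 4) (nat_lit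 362) (nat_lit 220) (nat_lit 138)) (XT.nd (nat_lit 30888) (nat_lit 0) (nat_lit 1672) (XT.lf (nat_lit 0) (nat_lit 12736229597) (nat_lit 76) (nat_lit 264997999003) (nat_lit 76) (nat_lit 255733952535) (nat_lit 1) (nat_lit 4) (nat_lit 2) (nat_lit 5) (nat_lit 2) (nat_lit 4) (nat_lit 363) (nat_lit 220) (nat_lit 137)) (XT.lf (nat_lit 0) (nat_lit 2619994130) (nat_lit 228) (nat_lit 808005729) (nat_lit 0) (nat_lit 2619994130) (nat_lit 23) (nat_lit 5) (nat_lit 26) (nat_lit 4) (nat_lit 23) (nat_lit 4) (nat_lit 278) (nat_lit 221) (nat_lit 221))))))))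
noncomputable def xc53 : XT := (XT.nd (nat_lit 1326) (nat_lit 380) (nat_lit 0) (XT.nd (nat_lit 624) (nat_lit 456) (nat_lit 0) (XT.nd (nat_lit 312) (nat_lit 304) (nat_lit 0) (XT.nd (nat_lit 156) (nat_lit 76) (nat_lit 0) (XT.nd (nat_lit 78) (nat_lit 76) (nat_lit 0) (XT.lf (nat_lit 0) (nat_lit 5206737733) (nat_lit 152) (nat_lit 3950889561) (nat_lit 152) (nat_lit 3319143038) (nat_lit 21) (nat_lit 4) (nat_lit 23) (nat_lit 5) (nat_lit 23) (nat_lit 4) (nat_lit 279) (nat_lit 221) (nat_lit 220)) (XT.lf (nat_lit 0) (nat_lit 270388786) (nat_lit 228) (nat_lit 679112865) (nat_lit 76) (nat_lit 11932601090) (nat_lit 20) (nat_lit 5) (nat_lit 23) (nat_lit 5) (nat_lit 21) (nat_lit 4) (nat_lit 280) (nat_lit 221) (nat_lit 219))) (XT.nd (nat_lit 78) (nat_lit 0) (nat_lit 0) (XT.lf (nat_lit 0) (nat_lit 3927072028) (nat_lit 152) (nat_lit 7171509039) (nat_lit 0) (nat_lit 2206669555) (nat_lit 19) (nat_lit 5)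 (nat_lit 21) (nat_lit 4) (nat_lit 19) (nat_lit 4) (nat_lit 281) (nat_lit 221) (nat_lit 218)) (XT.lf (nat_lit 0) (nat_lit 7662915004) (nat_lit 152) (nat_lit 669270991) (nat_lit 0) (nat_lit 5422773104) (nat_lit 19) (nat_lit 5) (nat_lit 21) (nat_lit 4) (nat_lit 19) (nat_lit 4) (nat_lit 282) (nat_lit 221) (nat_lit 217)))) (XT.nd (nat_lit 156) (nat_lit 76) (nat_lit 0) (XT.nd (nat_lit 78) (nat_lit 76) (nat_lit 0) (XT.lf (nat_lit 0) (nat_lit 6149814255) (nat_lit 152) (nat_lit 5407056778) (nat_lit 152) (nat_lit 2671924947) (nat_lit 17) (nat_lit 4) (nat_lit 19) (nat_lit 5) (nat_lit 19) (nat_lit 4) (nat_lit 283) (nat_lit 221) (nat_lit 216)) (XT.lf (nat_lit 0) (nat_lit 777201494) (nat_lit 228) (nat_lit 1613287750) (nat_lit 76) (nat_lit 12340936416) (nat_lit 16) (nat_lit 5) (nat_lit 19) (nat_lit 5) (nat_lit 17) (nat_lit 4) (nat_lit 284) (nat_lit 221) (nat_lit 215))) (XT.nd (nat_lit 78) (nat_lit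 0) (nat_lit 0) (XT.lf (nat_lit 0) (nat_lit 4283341294) (nat_lit 152) (nat_lit 10173225967) (nat_lit 0) (nat_lit 801892463) (nat_lit 15) (nat_lit 5) (nat_lit 17) (nat_lit 4) (nat_lit 15) (nat_lit 4) (nat_lit 285) (nat_lit 221) (nat_lit 214)) (XT.lf (nat_lit 0) (nat_lit 7914959619) (nat_lit 152) (nat_lit 3873267916) (nat_lit 0) (nat_lit 4026281347) (nat_lit 15) (nat_lit 5) (nat_lit 17) (nat_lit 4) (nat_lit 15) (nat_lit 4) (nat_lit 286) (nat_lit 221) (nat_lit 213))))) (XT.nd (nat_lit 312) (nat_lit 152) (nat_lit 0) (XT.nd (nat_lit 156) (nat_lit 152) (nat_lit 0) (XT.nd (nat_lit 78) (nat_lit 0) (nat_lit 0) (XT.lf (nat_lit 0) (nat_lit 2637688330) (nat_lit 152) (nat_lit 9020426979) (nat_lit 152) (nat_lit 4743911144) (nat_lit 13) (nat_lit 4) (nat_lit 15) (nat_lit 5) (nat_lit 15) (nat_lit 4) (nat_lit 287) (nat_lit 221) (nat_lit 212)) (XT.lf (nat_lit 0) (nat_lit 9423280366) (nat_lit 152) (nat_lit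 6121920917) (nat_lit 152) (nat_lit 1476035973) (nat_lit 13) (nat_lit 4) (nat_lit 15) (nat_lit 5) (nat_lit 15) (nat_lit 4) (nat_lit 288) (nat_lit 221) (nat_lit 211))) (XT.nd (nat_lit 78) (nat_lit 76) (nat_lit 0) (XT.lf (nat_lit 0) (nat_lit 1787169346) (nat_lit 228) (nat_lit 1333967884) (nat_lit 76) (nat_lit 14554160711) (nat_lit 12) (nat_lit 5) (nat_lit 15) (nat_lit 5) (nat_lit 13) (nat_lit 4) (nat_lit 289) (nat_lit 221) (nat_lit 210)) (XT.lf (nat_lit 0) (nat_lit 5145963523) (nat_lit 152) (nat_lit 13148713756) (nat_lit 0) (nat_lit 67207603) (nat_lit 11) (nat_lit 5) (nat_lit 13) (nat_lit 4) (nat_lit 11) (nat_lit 4) (nat_lit 290) (nat_lit 221) (nat_lit 209)))) (XT.nd (nat_lit 156) (nat_lit 152) (nat_lit 0) (XT.nd (nat_lit 78) (nat_lit 0) (nat_lit 0) (XT.lf (nat_lit 0) (nat_lit 8647411206) (nat_lit 152) (nat_lit 7172008190) (nat_lit 0) (nat_lit 3264774407) (nat_lit 11) (nat_lit 5) (nat_lit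 13) (nat_lit 4) (nat_lit 11) (nat_lit 4) (nat_lit 291) (nat_lit 221) (nat_lit 208)) (XT.lf (nat_lit 0) (nat_lit 12229251151) (nat_lit 152) (nat_lit 1061019248) (nat_lit 0) (nat_lit 6557203992) (nat_lit 11) (nat_lit 5) (nat_lit 13) (nat_lit 4) (nat_lit 11) (nat_lit 4) (nat_lit 292) (nat_lit 221) (nat_lit 207))) (XT.nd (nat_lit 78) (nat_lit 76) (nat_lit 0) (XT.lf (nat_lit 0) (nat_lit 5370698950) (nat_lit 76) (nat_lit 10613164260) (nat_lit 76) (nat_lit 4665488186) (nat_lit 10) (nat_lit 4) (nat_lit 11) (nat_lit 5) (nat_lit 11) (nat_lit 4) (nat_lit 293) (nat_lit 221) (nat_lit 206)) (XT.nd (nat_lit 78) (nat_lit 76) (nat_lit 0) (XT.lf (nat_lit 0) (nat_lit 12006650834) (nat_lit 76) (nat_lit 7849238938) (nat_lit 76) (nat_lit 1639059135) (nat_lit 10) (nat_lit 4) (nat_lit 11) (nat_lit 5) (nat_lit 11) (nat_lit 4) (nat_lit 294) (nat_lit 221) (nat_lit 205)) (XT.lf (nat_lit 0) (nat_lit 1403882136)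 (nat_lit 152) (nat_lit 3582224974) (nat_lit 76) (nat_lit 17399896640) (nat_lit 9) (nat_lit 5) (nat_lit 11) (nat_lit 5) (nat_lit 10) (nat_lit 4) (nat_lit 295) (nat_lit 221) (nat_lit 204))))))) (XT.nd (nat_lit 702) (nat_lit 152) (nat_lit 0) (XT.nd (nat_lit 312) (nat_lit 152) (nat_lit 0) (XT.nd (nat_lit 156) (nat_lit 0) (nat_lit 0) (XT.nd (nat_lit 78) (nat_lit 0) (nat_lit 0) (XT.lf (nat_lit 0) (nat_lit 2530634536) (nat_lit 76) (nat_lit 1971275956) (nat_lit 152) (nat_lit 18820551952) (nat_lit 8) (nat_lit 5) (nat_lit 9) (nat_lit 5) (nat_lit 10) (nat_lit 4) (nat_lit 296) (nat_lit 221) (nat_lit 203)) (XT.lf (nat_lit 0) (nat_lit 7754404615) (nat_lit 152) (nat_lit 15392326456) (nat_lit 0) (nat_lit 1159125981) (nat_lit 8) (nat_lit 5) (nat_lit 10) (nat_lit 4) (nat_lit 8) (nat_lit 4) (nat_lit 297) (nat_lit 221) (nat_lit 202))) (XT.nd (nat_lit 78) (nat_lit 0) (nat_lit 0) (XT.lf (nat_lit 0) (nat_lit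 11124941137) (nat_lit 152) (nat_lit 9891812262) (nat_lit 0) (nat_lit 4323983963) (nat_lit 8) (nat_lit 5) (nat_lit 10) (nat_lit 4) (nat_lit 8) (nat_lit 4) (nat_lit 298) (nat_lit 221) (nat_lit 201)) (XT.lf (nat_lit 0) (nat_lit 14590768003) (nat_lit 152) (nat_lit 4246411722) (nat_lit 0) (nat_lit 7593926505) (nat_lit 8) (nat_lit 5) (nat_lit 10) (nat_lit 4) (nat_lit 8) (nat_lit 4) (nat_lit 299) (nat_lit 221) (nat_lit 200)))) (XT.nd (nat_lit 156) (nat_lit 76) (nat_lit 0) (XT.nd (nat_lit 78) (nat_lit 0) (nat_lit 0) (XT.lf (nat_lit 0) (nat_lit 1608808513) (nat_lit 76) (nat_lit 16576446678) (nat_lit 76) (nat_lit 9393048681) (nat_lit 7) (nat_lit 4) (nat_lit 8) (nat_lit 5) (nat_lit 8) (nat_lit 4) (nat_lit 300) (nat_lit 221) (nat_lit 199)) (XT.lf (nat_lit 0) (nat_lit 7782272405) (nat_lit 76) (nat_lit 14180777849) (nat_lit 76) (nat_lit 6819706996) (nat_lit 7) (nat_lit 4) (nat_lit 8) (nat_lit 5)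 (nat_lit 8) (nat_lit 4) (nat_lit 301) (nat_lit 221) (nat_lit 198))) (XT.nd (nat_lit 78) (nat_lit 76) (nat_lit 0) (XT.lf (nat_lit 0) (nat_lit 14148273127) (nat_lit 76) (nat_lit 11716384302) (nat_lit 76) (nat_lit 4186101204) (nat_lit 7) (nat_lit 4) (nat_lit 8) (nat_lit 5) (nat_lit 8) (nat_lit 4) (nat_lit 302) (nat_lit 221) (nat_lit 197)) (XT.nd (nat_lit 78) (nat_lit 76) (nat_lit 0) (XT.lf (nat_lit 0) (nat_lit 20721967824) (nat_lit 76) (nat_lit 9177398433) (nat_lit 76) (nat_lit 1485960817) (nat_lit 7) (nat_lit 4) (nat_lit 8) (nat_lit 5) (nat_lit 8) (nat_lit 4) (nat_lit 303) (nat_lit 221) (nat_lit 196)) (XT.lf (nat_lit 0) (nat_lit 1245946454) (nat_lit 152) (nat_lit 5290727878) (nat_lit 76) (nat_lit 26251960990) (nat_lit 6) (nat_lit 5) (nat_lit 8) (nat_lit 5) (nat_lit 7) (nat_lit 4) (nat_lit 304) (nat_lit 221) (nat_lit 195)))))) (XT.nd (nat_lit 312) (nat_lit 76) (nat_lit 0) (XT.nd (nat_lit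 156) (nat_lit 0) (nat_lit 0) (XT.nd (nat_lit 78) (nat_lit 0) (nat_lit 0) (XT.lf (nat_lit 0) (nat_lit 231305299) (nat_lit 76) (nat_lit 3779619240) (nat_lit 152) (nat_lit 30252704555) (nat_lit 5) (nat_lit 5) (nat_lit 6) (nat_lit 5) (nat_lit 7) (nat_lit 4) (nat_lit 305) (nat_lit 221) (nat_lit 194)) (XT.lf (nat_lit 0) (nat_lit 6112498862) (nat_lit 76) (nat_lit 835208553) (nat_lit 152) (nat_lit 28863043333) (nat_lit 5) (nat_lit 5) (nat_lit 6) (nat_lit 5) (nat_lit 7) (nat_lit 4) (nat_lit 306) (nat_lit 221) (nat_lit 193))) (XT.nd (nat_lit 78) (nat_lit 0) (nat_lit 0) (XT.lf (nat_lit 0) (nat_lit 10012519332) (nat_lit 152) (nat_lit 25280596562) (nat_lit 0) (nat_lit 2143106417) (nat_lit 5) (nat_lit 5) (nat_lit 7) (nat_lit 4) (nat_lit 5) (nat_lit 4) (nat_lit 307) (nat_lit 221) (nat_lit 192)) (XT.lf (nat_lit 0) (nat_lit 13192797898) (nat_lit 152) (nat_lit 20748980033) (nat_lit 0) (nat_lit 5203129000)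 (nat_lit 5) (nat_lit 5) (nat_lit 7) (nat_lit 4) (nat_lit 5) (nat_lit 4) (nat_lit 308) (nat_lit 221) (nat_lit 191)))) (XT.nd (nat_lit 156) (nat_lit 76) (nat_lit 0) (XT.nd (nat_lit 78) (nat_lit 0) (nat_lit 0) (XT.lf (nat_lit 0) (nat_lit 16483075260) (nat_lit 152) (nat_lit 16079572789) (nat_lit 0) (nat_lit 8378876855) (nat_lit 5) (nat_lit 5) (nat_lit 7) (nat_lit 4) (nat_lit 5) (nat_lit 4) (nat_lit 309) (nat_lit 221) (nat_lit 190)) (XT.lf (nat_lit 0) (nat_lit 19891185411) (nat_lit 152) (nat_lit 11261257195) (nat_lit 0) (nat_lit 11677911284) (nat_lit 5) (nat_lit 5) (nat_lit 7) (nat_lit 4) (nat_lit 5) (nat_lit 4) (nat_lit 310) (nat_lit 221) (nat_lit 189))) (XT.nd (nat_lit 78) (nat_lit 76) (nat_lit 0) (XT.lf (nat_lit 0) (nat_lit 23425242899) (nat_lit 152) (nat_lit 6282561069) (nat_lit 0) (nat_lit 15108087133) (nat_lit 5) (nat_lit 5) (nat_lit 7) (nat_lit 4) (nat_lit 5) (nat_lit 4) (nat_lit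 311) (nat_lit 221) (nat_lit 188)) (XT.nd (nat_lit 78) (nat_lit 76) (nat_lit 0) (XT.lf (nat_lit 0) (nat_lit 27093662146) (nat_lit 152) (nat_lit 1131630375) (nat_lit 0) (nat_lit 18677571485) (nat_lit 5) (nat_lit 5) (nat_lit 7) (nat_lit 4) (nat_lit 5) (nat_lit 4) (nat_lit 312) (nat_lit 221) (nat_lit 187)) (XT.lf (nat_lit 0) (nat_lit 4342795588) (nat_lit 76) (nat_lit 26630185107) (nat_lit 76) (nat_lit 18119870737) (nat_lit 4) (nat_lit 4) (nat_lit 5) (nat_lit 5) (nat_lit 5) (nat_lit 4) (nat_lit 313) (nat_lit 221) (nat_lit 186))))))))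
noncomputable def xc54 : XT := (XT.nd (nat_lit 1326) (nat_lit 0) (nat_lit 0) (XT.nd (nat_lit 624) (nat_lit 152) (nat_lit 0) (XT.nd (nat_lit 312) (nat_lit 0) (nat_lit 0) (XT.nd (nat_lit 156) (nat_lit 0) (nat_lit 0) (XT.nd (nat_lit 78) (nat_lit 0) (nat_lit 0) (XT.lf (nat_lit 0) (nat_lit 10058360847) (nat_lit 76) (nat_lit 24967542305) (nat_lit 76) (nat_lit 16367491069) (nat_lit 4) (nat_lit 4) (nat_lit 5) (nat_lit 5) (nat_lit 5) (nat_lit 4) (nat_lit 314) (nat_lit 221) (nat_lit 185)) (XT.lf (nat_lit 0) (nat_lit 15991257081) (nat_lit 76) (nat_lit 23252570152) (nat_lit 76) (nat_lit 14567055234) (nat_lit 4) (nat_lit 4) (nat_lit 5) (nat_lit 5) (nat_lit 5) (nat_lit 4) (nat_lit 315) (nat_lit 221) (nat_lit 184))) (XT.nd (nat_lit 78) (nat_lit 0) (nat_lit 0) (XT.lf (nat_lit 0) (nat_lit 22155610231) (nat_lit 76) (nat_lit 21481185380) (nat_lit 76) (nat_lit 12714276480) (nat_lit 4) (nat_lit 4) (nat_lit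 5) (nat_lit 5) (nat_lit 5) (nat_lit 4) (nat_lit 316) (nat_lit 221) (nat_lit 183)) (XT.lf (nat_lit 0) (nat_lit 28566097329) (nat_lit 76) (nat_lit 19649170407) (nat_lit 76) (nat_lit 10804743428) (nat_lit 4) (nat_lit 4) (nat_lit 5) (nat_lit 5) (nat_lit 5) (nat_lit 4) (nat_lit 317) (nat_lit 221) (nat_lit 182)))) (XT.nd (nat_lit 156) (nat_lit 0) (nat_lit 0) (XT.nd (nat_lit 78) (nat_lit 0) (nat_lit 0) (XT.lf (nat_lit 0) (nat_lit 35237981440) (nat_lit 76) (nat_lit 17752163292) (nat_lit 76) (nat_lit 8833909572) (nat_lit 4) (nat_lit 4) (nat_lit 5) (nat_lit 5) (nat_lit 5) (nat_lit 4) (nat_lit 318) (nat_lit 221) (nat_lit 181)) (XT.lf (nat_lit 0) (nat_lit 42187148003) (nat_lit 76) (nat_lit 15785647352) (nat_lit 76) (nat_lit 6797082449) (nat_lit 4) (nat_lit 4) (nat_lit 5) (nat_lit 5) (nat_lit 5) (nat_lit 4) (nat_lit 319) (nat_lit 221) (nat_lit 180))) (XT.nd (nat_lit 78) (nat_lit 0) (nat_lit 0) (XT.lf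 (nat_lit 0) (nat_lit 49430142651) (nat_lit 76) (nat_lit 13744940405) (nat_lit 76) (nat_lit 4689412471) (nat_lit 4) (nat_lit 4) (nat_lit 5) (nat_lit 5) (nat_lit 5) (nat_lit 4) (nat_lit 320) (nat_lit 221) (nat_lit 179)) (XT.lf (nat_lit 0) (nat_lit 56984210610) (nat_lit 76) (nat_lit 11625183627) (nat_lit 76) (nat_lit 2505881378) (nat_lit 4) (nat_lit 4) (nat_lit 5) (nat_lit 5) (nat_lit 5) (nat_lit 4) (nat_lit 321) (nat_lit 221) (nat_lit 178))))) (XT.nd (nat_lit 312) (nat_lit 0) (nat_lit 0) (XT.nd (nat_lit 156) (nat_lit 76) (nat_lit 0) (XT.nd (nat_lit 78) (nat_lit 76) (nat_lit 0) (XT.lf (nat_lit 0) (nat_lit 64867337757) (nat_lit 76) (nat_lit 9421329976) (nat_lit 76) (nat_lit 241290284) (nat_lit 4) (nat_lit 4) (nat_lit 5) (nat_lit 5) (nat_lit 5) (nat_lit 4) (nat_lit 322) (nat_lit 221) (nat_lit 177)) (XT.lf (nat_lit 0) (nat_lit 2042227431) (nat_lit 152) (nat_lit 5051318641) (nat_lit 76) (nat_lit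 71021479900) (nat_lit 3) (nat_lit 5) (nat_lit 5) (nat_lit 5) (nat_lit 4) (nat_lit 4) (nat_lit 323) (nat_lit 221) (nat_lit 176))) (XT.nd (nat_lit 78) (nat_lit 76) (nat_lit 0) (XT.lf (nat_lit 0) (nat_lit 4407125793) (nat_lit 152) (nat_lit 258367649) (nat_lit 76) (nat_lit 77214912575) (nat_lit 3) (nat_lit 5) (nat_lit 5) (nat_lit 5) (nat_lit 4) (nat_lit 4) (nat_lit 324) (nat_lit 221) (nat_lit 175)) (XT.lf (nat_lit 0) (nat_lit 4887853559) (nat_lit 76) (nat_lit 2055217842) (nat_lit 152) (nat_lit 78888364649) (nat_lit 2) (nat_lit 5) (nat_lit 3) (nat_lit 5) (nat_lit 4) (nat_lit 4) (nat_lit 325) (nat_lit 221) (nat_lit 174)))) (XT.nd (nat_lit 156) (nat_lit 0) (nat_lit 0) (XT.nd (nat_lit 78) (nat_lit 0) (nat_lit 0) (XT.lf (nat_lit 0) (nat_lit 9597618459) (nat_lit 152) (nat_lit 79733221657) (nat_lit 0) (nat_lit 649607355) (nat_lit 2) (nat_lit 5) (nat_lit 4) (nat_lit 4) (nat_lit 2) (nat_lit 4) (nat_lit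 326) (nat_lit 221) (nat_lit 173)) (XT.lf (nat_lit 0) (nat_lit 12396349885) (nat_lit 152) (nat_lit 78536990303) (nat_lit 0) (nat_lit 3403015566) (nat_lit 2) (nat_lit 5) (nat_lit 4) (nat_lit 4) (nat_lit 2) (nat_lit 4) (nat_lit 327) (nat_lit 221) (nat_lit 172))) (XT.nd (nat_lit 78) (nat_lit 0) (nat_lit 0) (XT.lf (nat_lit 0) (nat_lit 15313841614) (nat_lit 152) (nat_lit 77319952549) (nat_lit 0) (nat_lit 6277342328) (nat_lit 2) (nat_lit 5) (nat_lit 4) (nat_lit 4) (nat_lit 2) (nat_lit 4) (nat_lit 328) (nat_lit 221) (nat_lit 171)) (XT.nd (nat_lit 78) (nat_lit 0) (nat_lit 0) (XT.lf (nat_lit 0) (nat_lit 18357040056) (nat_lit 152) (nat_lit 76079210685) (nat_lit 0) (nat_lit 9279431278) (nat_lit 2) (nat_lit 5) (nat_lit 4) (nat_lit 4) (nat_lit 2) (nat_lit 4) (nat_lit 329) (nat_lit 221) (nat_lit 170)) (XT.lf (nat_lit 0) (nat_lit 21533190920) (nat_lit 152) (nat_lit 74811810565) (nat_lit 0) (nat_lit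 12416430245) (nat_lit 2) (nat_lit 5) (nat_lit 4) (nat_lit 4) (nat_lit 2) (nat_lit 4) (nat_lit 330) (nat_lit 221) (nat_lit 169))))))) (XT.nd (nat_lit 702) (nat_lit 0) (nat_lit 0) (XT.nd (nat_lit 312) (nat_lit 0) (nat_lit 0) (XT.nd (nat_lit 156) (nat_lit 0) (nat_lit 0) (XT.nd (nat_lit 78) (nat_lit 0) (nat_lit 0) (XT.lf (nat_lit 0) (nat_lit 24849856472) (nat_lit 152) (nat_lit 73514734570) (nat_lit 0) (nat_lit 15695808275) (nat_lit 2) (nat_lit 5) (nat_lit 4) (nat_lit 4) (nat_lit 2) (nat_lit 4) (nat_lit 331) (nat_lit 221) (nat_lit 168)) (XT.lf (nat_lit 0) (nat_lit 28314933533) (nat_lit 152) (nat_lit 72184894423) (nat_lit 0) (nat_lit 19125373411) (nat_lit 2) (nat_lit 5) (nat_lit 4) (nat_lit 4) (nat_lit 2) (nat_lit 4) (nat_lit 332) (nat_lit 221) (nat_lit 167))) (XT.nd (nat_lit 78) (nat_lit 0) (nat_lit 0) (XT.lf (nat_lit 0) (nat_lit 31936672287) (nat_lit 152) (nat_lit 70819123838) (nat_lit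 0) (nat_lit 22713291285) (nat_lit 2) (nat_lit 5) (nat_lit 4) (nat_lit 4) (nat_lit 2) (nat_lit 4) (nat_lit 333) (nat_lit 221) (nat_lit 166)) (XT.lf (nat_lit 0) (nat_lit 35723695922) (nat_lit 152) (nat_lit 69414170980) (nat_lit 0) (nat_lit 26468104557) (nat_lit 2) (nat_lit 5) (nat_lit 4) (nat_lit 4) (nat_lit 2) (nat_lit 4) (nat_lit 334) (nat_lit 221) (nat_lit 165)))) (XT.nd (nat_lit 156) (nat_lit 0) (nat_lit 0) (XT.nd (nat_lit 78) (nat_lit 0) (nat_lit 0) (XT.lf (nat_lit 0) (nat_lit 39685021161) (nat_lit 152) (nat_lit 67966690724) (nat_lit 0) (nat_lit 30398753260) (nat_lit 2) (nat_lit 5) (nat_lit 4) (nat_lit 4) (nat_lit 2) (nat_lit 4) (nat_lit 335) (nat_lit 221) (nat_lit 164)) (XT.lf (nat_lit 0) (nat_lit 43830079730) (nat_lit 152) (nat_lit 66473236688) (nat_lit 0) (nat_lit 34514596080) (nat_lit 2) (nat_lit 5) (nat_lit 4) (nat_lit 4) (nat_lit 2) (nat_lit 4) (nat_lit 336) (nat_lit 221) (nat_lit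 163))) (XT.nd (nat_lit 78) (nat_lit 0) (nat_lit 0) (XT.lf (nat_lit 0) (nat_lit 48168740817) (nat_lit 152) (nat_lit 64930253029) (nat_lit 0) (nat_lit 38825432644) (nat_lit 2) (nat_lit 5) (nat_lit 4) (nat_lit 4) (nat_lit 2) (nat_lit 4) (nat_lit 337) (nat_lit 221) (nat_lit 162)) (XT.nd (nat_lit 78) (nat_lit 0) (nat_lit 0) (XT.lf (nat_lit 0) (nat_lit 52711334566) (nat_lit 152) (nat_lit 63334065977) (nat_lit 0) (nat_lit 43341526849) (nat_lit 2) (nat_lit 5) (nat_lit 4) (nat_lit 4) (nat_lit 2) (nat_lit 4) (nat_lit 338) (nat_lit 221) (nat_lit 161)) (XT.lf (nat_lit 0) (nat_lit 57468676678) (nat_lit 152) (nat_lit 61680875085) (nat_lit 0) (nat_lit 48073631298) (nat_lit 2) (nat_lit 5) (nat_lit 4) (nat_lit 4) (nat_lit 2) (nat_lit 4) (nat_lit 339) (nat_lit 221) (nat_lit 160)))))) (XT.nd (nat_lit 312) (nat_lit 0) (nat_lit 0) (XT.nd (nat_lit 156) (nat_lit 0) (nat_lit 0) (XT.nd (nat_lit 78) (nat_lit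 0) (nat_lit 0) (XT.lf (nat_lit 0) (nat_lit 62452094157) (nat_lit 152) (nat_lit 59966744186) (nat_lit 0) (nat_lit 53033012909) (nat_lit 2) (nat_lit 5) (nat_lit 4) (nat_lit 4) (nat_lit 2) (nat_lit 4) (nat_lit 340) (nat_lit 221) (nat_lit 159)) (XT.lf (nat_lit 0) (nat_lit 67673452283) (nat_lit 152) (nat_lit 58187592015) (nat_lit 0) (nat_lit 58231479732) (nat_lit 2) (nat_lit 5) (nat_lit 4) (nat_lit 4) (nat_lit 2) (nat_lit 4) (nat_lit 341) (nat_lit 221) (nat_lit 158))) (XT.nd (nat_lit 78) (nat_lit 0) (nat_lit 0) (XT.lf (nat_lit 0) (nat_lit 73145182862) (nat_lit 152) (nat_lit 56339182496) (nat_lit 0) (nat_lit 63681409068) (nat_lit 2) (nat_lit 5) (nat_lit 4) (nat_lit 4) (nat_lit 2) (nat_lit 4) (nat_lit 342) (nat_lit 221) (nat_lit 157)) (XT.lf (nat_lit 0) (nat_lit 78880313822) (nat_lit 152) (nat_lit 54417114654) (nat_lit 0) (nat_lit 69395776942) (nat_lit 2) (nat_lit 5) (nat_lit 4) (nat_lit 4)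 (nat_lit 2) (nat_lit 4) (nat_lit 343) (nat_lit 221) (nat_lit 156)))) (XT.nd (nat_lit 156) (nat_lit 0) (nat_lit 0) (XT.nd (nat_lit 78) (nat_lit 0) (nat_lit 0) (XT.lf (nat_lit 0) (nat_lit 84892500238) (nat_lit 152) (nat_lit 52416812135) (nat_lit 0) (nat_lit 75388188989) (nat_lit 2) (nat_lit 5) (nat_lit 4) (nat_lit 4) (nat_lit 2) (nat_lit 4) (nat_lit 344) (nat_lit 221) (nat_lit 155)) (XT.lf (nat_lit 0) (nat_lit 91196056840) (nat_lit 152) (nat_lit 50333512317) (nat_lit 0) (nat_lit 81672912859) (nat_lit 2) (nat_lit 5) (nat_lit 4) (nat_lit 4) (nat_lit 2) (nat_lit 4) (nat_lit 345) (nat_lit 221) (nat_lit 154))) (XT.nd (nat_lit 78) (nat_lit 0) (nat_lit 0) (XT.lf (nat_lit 0) (nat_lit 97805992095) (nat_lit 152) (nat_lit 48162254960) (nat_lit 0) (nat_lit 88264912178) (nat_lit 2) (nat_lit 5) (nat_lit 4) (nat_lit 4) (nat_lit 2) (nat_lit 4) (nat_lit 346) (nat_lit 221) (nat_lit 153)) (XT.nd (nat_lit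 78) (nat_lit 0) (nat_lit 0) (XT.lf (nat_lit 0) (nat_lit 104738043944) (nat_lit 152) (nat_lit 45897870405) (nat_lit 0) (nat_lit 95179882184) (nat_lit 2) (nat_lit 5) (nat_lit 4) (nat_lit 4) (nat_lit 2) (nat_lit 4) (nat_lit 347) (nat_lit 221) (nat_lit 152)) (XT.lf (nat_lit 0) (nat_lit 112008717273) (nat_lit 152) (nat_lit 43534967260) (nat_lit 0) (nat_lit 102434287092) (nat_lit 2) (nat_lit 5) (nat_lit 4) (nat_lit 4) (nat_lit 2) (nat_lit 4) (nat_lit 348) (nat_lit 221) (nat_lit 151))))))))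
noncomputable def xc55 : XT := (XT.nd (nat_lit 32058) (nat_lit 0) (nat_lit 532) (XT.nd (nat_lit 702) (nat_lit 76) (nat_lit 0) (XT.nd (nat_lit 312) (nat_lit 0) (nat_lit 0) (XT.nd (nat_lit 156) (nat_lit 0) (nat_lit 0) (XT.nd (nat_lit 78) (nat_lit 0) (nat_lit 0) (XT.lf (nat_lit 0) (nat_lit 119635323209) (nat_lit 152) (nat_lit 41067919564) (nat_lit 0) (nat_lit 110045399293) (nat_lit 2) (nat_lit 5) (nat_lit 4) (nat_lit 4) (nat_lit 2) (nat_lit 4) (nat_lit 349) (nat_lit 221) (nat_lit 150)) (XT.lf (nat_lit 0) (nat_lit 127636020338) (nat_lit 152) (nat_lit 38490853396) (nat_lit 0) (nat_lit 118031340483) (nat_lit 2) (nat_lit 5) (nat_lit 4) (nat_lit 4) (nat_lit 2) (nat_lit 4) (nat_lit 350) (nat_lit 221) (nat_lit 149))) (XT.nd (nat_lit 78) (nat_lit 0) (nat_lit 0) (XT.lf (nat_lit 0) (nat_lit 136029857938) (nat_lit 152) (nat_lit 35797632882) (nat_lit 0) (nat_lit 126411124808) (nat_lit 2) (nat_lit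 5) (nat_lit 4) (nat_lit 4) (nat_lit 2) (nat_lit 4) (nat_lit 351) (nat_lit 221) (nat_lit 148)) (XT.lf (nat_lit 0) (nat_lit 144836821336) (nat_lit 152) (nat_lit 32981845593) (nat_lit 0) (nat_lit 135204704136) (nat_lit 2) (nat_lit 5) (nat_lit 4) (nat_lit 4) (nat_lit 2) (nat_lit 4) (nat_lit 352) (nat_lit 221) (nat_lit 147)))) (XT.nd (nat_lit 156) (nat_lit 0) (nat_lit 0) (XT.nd (nat_lit 78) (nat_lit 0) (nat_lit 0) (XT.lf (nat_lit 0) (nat_lit 154077879494) (nat_lit 152) (nat_lit 30036787274) (nat_lit 0) (nat_lit 144433015559) (nat_lit 2) (nat_lit 5) (nat_lit 4) (nat_lit 4) (nat_lit 2) (nat_lit 4) (nat_lit 353) (nat_lit 221) (nat_lit 146)) (XT.lf (nat_lit 0) (nat_lit 163775034931) (nat_lit 152) (nat_lit 26955445881) (nat_lit 0) (nat_lit 154118031249) (nat_lit 2) (nat_lit 5) (nat_lit 4) (nat_lit 4) (nat_lit 2) (nat_lit 4) (nat_lit 354) (nat_lit 221) (nat_lit 145))) (XT.nd (nat_lit 78) (nat_lit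 0) (nat_lit 0) (XT.lf (nat_lit 0) (nat_lit 173951376112) (nat_lit 152) (nat_lit 23730484887) (nat_lit 0) (nat_lit 164282810766) (nat_lit 2) (nat_lit 5) (nat_lit 4) (nat_lit 4) (nat_lit 2) (nat_lit 4) (nat_lit 355) (nat_lit 221) (nat_lit 144)) (XT.nd (nat_lit 78) (nat_lit 0) (nat_lit 0) (XT.lf (nat_lit 0) (nat_lit 184631132421) (nat_lit 152) (nat_lit 20354225814) (nat_lit 0) (nat_lit 174951555967) (nat_lit 2) (nat_lit 5) (nat_lit 4) (nat_lit 4) (nat_lit 2) (nat_lit 4) (nat_lit 356) (nat_lit 221) (nat_lit 143)) (XT.lf (nat_lit 0) (nat_lit 195839731849) (nat_lit 152) (nat_lit 16818629948) (nat_lit 0) (nat_lit 186149668625) (nat_lit 2) (nat_lit 5) (nat_lit 4) (nat_lit 4) (nat_lit 2) (nat_lit 4) (nat_lit 357) (nat_lit 221) (nat_lit 142)))))) (XT.nd (nat_lit 312) (nat_lit 76) (nat_lit 0) (XT.nd (nat_lit 156) (nat_lit 0) (nat_lit 0) (XT.nd (nat_lit 78) (nat_lit 0) (nat_lit 0) (XT.lf (nat_lit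 0) (nat_lit 207603861538) (nat_lit 152) (nat_lit 13115279206) (nat_lit 0) (nat_lit 197903810914) (nat_lit 2) (nat_lit 5) (nat_lit 4) (nat_lit 4) (nat_lit 2) (nat_lit 4) (nat_lit 358) (nat_lit 221) (nat_lit 141)) (XT.lf (nat_lit 0) (nat_lit 219951531320) (nat_lit 152) (nat_lit 9235356085) (nat_lit 0) (nat_lit 210241968886) (nat_lit 2) (nat_lit 5) (nat_lit 4) (nat_lit 4) (nat_lit 2) (nat_lit 4) (nat_lit 359) (nat_lit 221) (nat_lit 140))) (XT.nd (nat_lit 78) (nat_lit 0) (nat_lit 0) (XT.lf (nat_lit 0) (nat_lit 232912140408) (nat_lit 152) (nat_lit 5169622673) (nat_lit 0) (nat_lit 223193519109) (nat_lit 2) (nat_lit 5) (nat_lit 4) (nat_lit 4) (nat_lit 2) (nat_lit 4) (nat_lit 360) (nat_lit 221) (nat_lit 139)) (XT.lf (nat_lit 0) (nat_lit 246516547397) (nat_lit 152) (nat_lit 908398652) (nat_lit 0) (nat_lit 236789298606) (nat_lit 2) (nat_lit 5) (nat_lit 4) (nat_lit 4) (nat_lit 2) (nat_lit 4) (nat_lit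 361) (nat_lit 221) (nat_lit 138)))) (XT.nd (nat_lit 30810) (nat_lit 0) (nat_lit 1672) (XT.nd (nat_lit 78) (nat_lit 0) (nat_lit 0) (XT.lf (nat_lit 0) (nat_lit 3676120564) (nat_lit 76) (nat_lit 257178417711) (nat_lit 76) (nat_lit 247442952261) (nat_lit 1) (nat_lit 4) (nat_lit 2) (nat_lit 5) (nat_lit 2) (nat_lit 4) (nat_lit 362) (nat_lit 221) (nat_lit 137)) (XT.lf (nat_lit 0) (nat_lit 8514098226) (nat_lit 76) (nat_lit 267406761537) (nat_lit 76) (nat_lit 257663470699) (nat_lit 1) (nat_lit 4) (nat_lit 2) (nat_lit 5) (nat_lit 2) (nat_lit 4) (nat_lit 363) (nat_lit 221) (nat_lit 136))) (XT.nd (nat_lit 78) (nat_lit 228) (nat_lit 0) (XT.lf (nat_lit 0) (nat_lit 4162517608) (nat_lit 152) (nat_lit 766881439) (nat_lit 152) (nat_lit 766881439) (nat_lit 26) (nat_lit 4) (nat_lit 28) (nat_lit 5) (nat_lit 28) (nat_lit 4) (nat_lit 276) (nat_lit 222) (nat_lit 222)) (XT.nd (nat_lit 78) (nat_lit 0) (nat_lit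 0) (XT.lf (nat_lit 0) (nat_lit 2116213386) (nat_lit 228) (nat_lit 8167300467) (nat_lit 0) (nat_lit 1452879537) (nat_lit 23) (nat_lit 5) (nat_lit 26) (nat_lit 4) (nat_lit 23) (nat_lit 4) (nat_lit 277) (nat_lit 222) (nat_lit 221)) (XT.lf (nat_lit 0) (nat_lit 5834972405) (nat_lit 228) (nat_lit 1724671161) (nat_lit 0) (nat_lit 4539892033) (nat_lit 23) (nat_lit 5) (nat_lit 26) (nat_lit 4) (nat_lit 23) (nat_lit 4) (nat_lit 278) (nat_lit 222) (nat_lit 220))))))) (XT.nd (nat_lit 702) (nat_lit 380) (nat_lit 0) (XT.nd (nat_lit 312) (nat_lit 456) (nat_lit 0) (XT.nd (nat_lit 156) (nat_lit 76) (nat_lit 0) (XT.nd (nat_lit 78) (nat_lit 76) (nat_lit 0) (XT.lf (nat_lit 0) (nat_lit 4987578121) (nat_lit 152) (nat_lit 4696516664) (nat_lit 152) (nat_lit 2799772938) (nat_lit 21) (nat_lit 4) (nat_lit 23) (nat_lit 5) (nat_lit 23) (nat_lit 4) (nat_lit 279) (nat_lit 222) (nat_lit 219)) (XT.lf (nat_lit 0) (nat_lit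 708394331) (nat_lit 228) (nat_lit 1017548065) (nat_lit 76) (nat_lit 11166201783) (nat_lit 20) (nat_lit 5) (nat_lit 23) (nat_lit 5) (nat_lit 21) (nat_lit 4) (nat_lit 280) (nat_lit 222) (nat_lit 218))) (XT.nd (nat_lit 78) (nat_lit 0) (nat_lit 0) (XT.lf (nat_lit 0) (nat_lit 4283538904) (nat_lit 152) (nat_lit 7624286672) (nat_lit 0) (nat_lit 1411650481) (nat_lit 19) (nat_lit 5) (nat_lit 21) (nat_lit 4) (nat_lit 19) (nat_lit 4) (nat_lit 281) (nat_lit 222) (nat_lit 217)) (XT.lf (nat_lit 0) (nat_lit 7958555085) (nat_lit 152) (nat_lit 1222096022) (nat_lit 0) (nat_lit 4591676730) (nat_lit 19) (nat_lit 5) (nat_lit 21) (nat_lit 4) (nat_lit 19) (nat_lit 4) (nat_lit 282) (nat_lit 222) (nat_lit 216)))) (XT.nd (nat_lit 156) (nat_lit 228) (nat_lit 0) (XT.nd (nat_lit 78) (nat_lit 76) (nat_lit 0) (XT.lf (nat_lit 0) (nat_lit 5480276601) (nat_lit 152) (nat_lit 6303850872) (nat_lit 152) (nat_lit 2465553536)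 (nat_lit 17) (nat_lit 4) (nat_lit 19) (nat_lit 5) (nat_lit 19) (nat_lit 4) (nat_lit 283) (nat_lit 222) (nat_lit 215)) (XT.lf (nat_lit 0) (nat_lit 919314417) (nat_lit 228) (nat_lit 2402673239) (nat_lit 76) (nat_lit 11433132677) (nat_lit 16) (nat_lit 5) (nat_lit 19) (nat_lit 5) (nat_lit 17) (nat_lit 4) (nat_lit 284) (nat_lit 222) (nat_lit 214))) (XT.nd (nat_lit 78) (nat_lit 152) (nat_lit 0) (XT.lf (nat_lit 0) (nat_lit 4189131492) (nat_lit 76) (nat_lit 154278361) (nat_lit 152) (nat_lit 10942930649) (nat_lit 15) (nat_lit 5) (nat_lit 16) (nat_lit 5) (nat_lit 17) (nat_lit 4) (nat_lit 285) (nat_lit 222) (nat_lit 213)) (XT.nd (nat_lit 78) (nat_lit 152) (nat_lit 0) (XT.lf (nat_lit 0) (nat_lit 7918363238) (nat_lit 152) (nat_lit 4886755513) (nat_lit 0) (nat_lit 3040184047) (nat_lit 15) (nat_lit 5) (nat_lit 17) (nat_lit 4) (nat_lit 15) (nat_lit 4) (nat_lit 286) (nat_lit 222) (nat_lit 212)) (XT.lf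 (nat_lit 0) (nat_lit 1500259456) (nat_lit 152) (nat_lit 10091828426) (nat_lit 152) (nat_lit 4844280127) (nat_lit 13) (nat_lit 4) (nat_lit 15) (nat_lit 5) (nat_lit 15) (nat_lit 4) (nat_lit 287) (nat_lit 222) (nat_lit 211)))))) (XT.nd (nat_lit 312) (nat_lit 228) (nat_lit 0) (XT.nd (nat_lit 156) (nat_lit 76) (nat_lit 0) (XT.nd (nat_lit 78) (nat_lit 76) (nat_lit 0) (XT.lf (nat_lit 0) (nat_lit 8199726922) (nat_lit 152) (nat_lit 7228890294) (nat_lit 152) (nat_lit 1629561893) (nat_lit 13) (nat_lit 4) (nat_lit 15) (nat_lit 5) (nat_lit 15) (nat_lit 4) (nat_lit 288) (nat_lit 222) (nat_lit 210)) (XT.lf (nat_lit 0) (nat_lit 1589551899) (nat_lit 228) (nat_lit 2675775676) (nat_lit 76) (nat_lit 13449548061) (nat_lit 12) (nat_lit 5) (nat_lit 15) (nat_lit 5) (nat_lit 13) (nat_lit 4) (nat_lit 289) (nat_lit 222) (nat_lit 209))) (XT.nd (nat_lit 78) (nat_lit 0) (nat_lit 0) (XT.lf (nat_lit 0) (nat_lit 3745775991)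 (nat_lit 76) (nat_lit 1131886440) (nat_lit 152) (nat_lit 13527396925) (nat_lit 11) (nat_lit 5) (nat_lit 12) (nat_lit 5) (nat_lit 13) (nat_lit 4) (nat_lit 290) (nat_lit 222) (nat_lit 208)) (XT.lf (nat_lit 0) (nat_lit 8315252769) (nat_lit 152) (nat_lit 8745175100) (nat_lit 0) (nat_lit 2070192891) (nat_lit 11) (nat_lit 5) (nat_lit 13) (nat_lit 4) (nat_lit 11) (nat_lit 4) (nat_lit 291) (nat_lit 222) (nat_lit 207)))) (XT.nd (nat_lit 156) (nat_lit 152) (nat_lit 0) (XT.nd (nat_lit 78) (nat_lit 76) (nat_lit 0) (XT.lf (nat_lit 0) (nat_lit 11853106595) (nat_lit 152) (nat_lit 2710633035) (nat_lit 0) (nat_lit 5332417802) (nat_lit 11) (nat_lit 5) (nat_lit 13) (nat_lit 4) (nat_lit 11) (nat_lit 4) (nat_lit 292) (nat_lit 222) (nat_lit 206)) (XT.lf (nat_lit 0) (nat_lit 3591327620) (nat_lit 76) (nat_lit 11946718519) (nat_lit 76) (nat_lit 5163525997) (nat_lit 10) (nat_lit 4) (nat_lit 11) (nat_lit 5) (nat_lit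 11) (nat_lit 4) (nat_lit 293) (nat_lit 222) (nat_lit 205))) (XT.nd (nat_lit 78) (nat_lit 152) (nat_lit 0) (XT.lf (nat_lit 0) (nat_lit 10155647254) (nat_lit 76) (nat_lit 9213410360) (nat_lit 76) (nat_lit 2180214287) (nat_lit 10) (nat_lit 4) (nat_lit 11) (nat_lit 5) (nat_lit 11) (nat_lit 4) (nat_lit 294) (nat_lit 222) (nat_lit 204)) (XT.nd (nat_lit 78) (nat_lit 76) (nat_lit 0) (XT.lf (nat_lit 0) (nat_lit 840297504) (nat_lit 152) (nat_lit 5548684809) (nat_lit 76) (nat_lit 16053801080) (nat_lit 9) (nat_lit 5) (nat_lit 11) (nat_lit 5) (nat_lit 10) (nat_lit 4) (nat_lit 295) (nat_lit 222) (nat_lit 203)) (XT.lf (nat_lit 0) (nat_lit 430694742) (nat_lit 76) (nat_lit 3436988197) (nat_lit 152) (nat_lit 19515135781) (nat_lit 8) (nat_lit 5) (nat_lit 9) (nat_lit 5) (nat_lit 10) (nat_lit 4) (nat_lit 296) (nat_lit 222) (nat_lit 202))))))))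
noncomputable def xc56 : XT := (XT.nd (nat_lit 1326) (nat_lit 152) (nat_lit 0) (XT.nd (nat_lit 624) (nat_lit 152) (nat_lit 0) (XT.nd (nat_lit 312) (nat_lit 152) (nat_lit 0) (XT.nd (nat_lit 156) (nat_lit 0) (nat_lit 0) (XT.nd (nat_lit 78) (nat_lit 0) (nat_lit 0) (XT.lf (nat_lit 0) (nat_lit 6768021242) (nat_lit 76) (nat_lit 296388023) (nat_lit 152) (nat_lit 17304634822) (nat_lit 8) (nat_lit 5) (nat_lit 9) (nat_lit 5) (nat_lit 10) (nat_lit 4) (nat_lit 297) (nat_lit 222) (nat_lit 201)) (XT.lf (nat_lit 0) (nat_lit 10394593226) (nat_lit 152) (nat_lit 12159363820) (nat_lit 0) (nat_lit 2852025329) (nat_lit 8) (nat_lit 5) (nat_lit 10) (nat_lit 4) (nat_lit 8) (nat_lit 4) (nat_lit 298) (nat_lit 222) (nat_lit 200))) (XT.nd (nat_lit 78) (nat_lit 0) (nat_lit 0) (XT.lf (nat_lit 0) (nat_lit 13826396175) (nat_lit 152) (nat_lit 6574422914) (nat_lit 0) (nat_lit 6097271779) (nat_lit 8) (nat_lit 5) (nat_lit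 10) (nat_lit 4) (nat_lit 8) (nat_lit 4) (nat_lit 299) (nat_lit 222) (nat_lit 199)) (XT.lf (nat_lit 0) (nat_lit 17363361623) (nat_lit 152) (nat_lit 828275202) (nat_lit 0) (nat_lit 9456564371) (nat_lit 8) (nat_lit 5) (nat_lit 10) (nat_lit 4) (nat_lit 8) (nat_lit 4) (nat_lit 300) (nat_lit 222) (nat_lit 198)))) (XT.nd (nat_lit 156) (nat_lit 76) (nat_lit 0) (XT.nd (nat_lit 78) (nat_lit 0) (nat_lit 0) (XT.lf (nat_lit 0) (nat_lit 5261150285) (nat_lit 76) (nat_lit 15834901933) (nat_lit 76) (nat_lit 7758892436) (nat_lit 7) (nat_lit 4) (nat_lit 8) (nat_lit 5) (nat_lit 8) (nat_lit 4) (nat_lit 301) (nat_lit 222) (nat_lit 197)) (XT.lf (nat_lit 0) (nat_lit 11573196831) (nat_lit 76) (nat_lit 13394229047) (nat_lit 76) (nat_lit 5157065032) (nat_lit 7) (nat_lit 4) (nat_lit 8) (nat_lit 5) (nat_lit 8) (nat_lit 4) (nat_lit 302) (nat_lit 222) (nat_lit 196))) (XT.nd (nat_lit 78) (nat_lit 76) (nat_lit 0) (XT.lf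 (nat_lit 0) (nat_lit 18095506598) (nat_lit 76) (nat_lit 10877834284) (nat_lit 76) (nat_lit 2487189776) (nat_lit 7) (nat_lit 4) (nat_lit 8) (nat_lit 5) (nat_lit 8) (nat_lit 4) (nat_lit 303) (nat_lit 222) (nat_lit 195)) (XT.lf (nat_lit 0) (nat_lit 248861687) (nat_lit 152) (nat_lit 8026649948) (nat_lit 76) (nat_lit 24590532616) (nat_lit 6) (nat_lit 5) (nat_lit 8) (nat_lit 5) (nat_lit 7) (nat_lit 4) (nat_lit 304) (nat_lit 222) (nat_lit 194))))) (XT.nd (nat_lit 312) (nat_lit 76) (nat_lit 0) (XT.nd (nat_lit 156) (nat_lit 0) (nat_lit 0) (XT.nd (nat_lit 78) (nat_lit 76) (nat_lit 0) (XT.lf (nat_lit 0) (nat_lit 2983655699) (nat_lit 152) (nat_lit 2559533556) (nat_lit 76) (nat_lit 28799385283) (nat_lit 6) (nat_lit 5) (nat_lit 8) (nat_lit 5) (nat_lit 7) (nat_lit 4) (nat_lit 305) (nat_lit 222) (nat_lit 193)) (XT.lf (nat_lit 0) (nat_lit 3190283043) (nat_lit 76) (nat_lit 2662835494) (nat_lit 152) (nat_lit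 30039969666) (nat_lit 5) (nat_lit 5) (nat_lit 6) (nat_lit 5) (nat_lit 7) (nat_lit 4) (nat_lit 306) (nat_lit 222) (nat_lit 192))) (XT.nd (nat_lit 78) (nat_lit 0) (nat_lit 0) (XT.lf (nat_lit 0) (nat_lit 8864290764) (nat_lit 152) (nat_lit 28302093320) (nat_lit 0) (nat_lit 354882438) (nat_lit 5) (nat_lit 5) (nat_lit 7) (nat_lit 4) (nat_lit 5) (nat_lit 4) (nat_lit 307) (nat_lit 222) (nat_lit 191)) (XT.lf (nat_lit 0) (nat_lit 12020659510) (nat_lit 152) (nat_lit 23813789040) (nat_lit 0) (nat_lit 3396721676) (nat_lit 5) (nat_lit 5) (nat_lit 7) (nat_lit 4) (nat_lit 5) (nat_lit 4) (nat_lit 308) (nat_lit 222) (nat_lit 190)))) (XT.nd (nat_lit 156) (nat_lit 76) (nat_lit 0) (XT.nd (nat_lit 78) (nat_lit 0) (nat_lit 0) (XT.lf (nat_lit 0) (nat_lit 15288165613) (nat_lit 152) (nat_lit 19185631558) (nat_lit 0) (nat_lit 6555152059) (nat_lit 5) (nat_lit 5) (nat_lit 7) (nat_lit 4) (nat_lit 5) (nat_lit 4)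 (nat_lit 309) (nat_lit 222) (nat_lit 189)) (XT.lf (nat_lit 0) (nat_lit 18674588852) (nat_lit 152) (nat_lit 14406601451) (nat_lit 0) (nat_lit 9837693658) (nat_lit 5) (nat_lit 5) (nat_lit 7) (nat_lit 4) (nat_lit 5) (nat_lit 4) (nat_lit 310) (nat_lit 222) (nat_lit 188))) (XT.nd (nat_lit 78) (nat_lit 76) (nat_lit 0) (XT.lf (nat_lit 0) (nat_lit 22187992137) (nat_lit 152) (nat_lit 9465320076) (nat_lit 0) (nat_lit 13252162049) (nat_lit 5) (nat_lit 5) (nat_lit 7) (nat_lit 4) (nat_lit 5) (nat_lit 4) (nat_lit 311) (nat_lit 222) (nat_lit 187)) (XT.nd (nat_lit 78) (nat_lit 76) (nat_lit 0) (XT.lf (nat_lit 0) (nat_lit 25836740716) (nat_lit 152) (nat_lit 4350022477) (nat_lit 0) (nat_lit 16806686918) (nat_lit 5) (nat_lit 5) (nat_lit 7) (nat_lit 4) (nat_lit 5) (nat_lit 4) (nat_lit 312) (nat_lit 222) (nat_lit 186)) (XT.lf (nat_lit 0) (nat_lit 982930541) (nat_lit 76) (nat_lit 28661937843) (nat_lit 76)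 (nat_lit 19542147180) (nat_lit 4) (nat_lit 4) (nat_lit 5) (nat_lit 5) (nat_lit 5) (nat_lit 4) (nat_lit 313) (nat_lit 222) (nat_lit 185))))))) (XT.nd (nat_lit 702) (nat_lit 152) (nat_lit 0) (XT.nd (nat_lit 312) (nat_lit 0) (nat_lit 0) (XT.nd (nat_lit 156) (nat_lit 0) (nat_lit 0) (XT.nd (nat_lit 78) (nat_lit 0) (nat_lit 0) (XT.lf (nat_lit 0) (nat_lit 6665106879) (nat_lit 76) (nat_lit 27014320792) (nat_lit 76) (nat_lit 17809066447) (nat_lit 4) (nat_lit 4) (nat_lit 5) (nat_lit 5) (nat_lit 5) (nat_lit 4) (nat_lit 314) (nat_lit 222) (nat_lit 184)) (XT.lf (nat_lit 0) (nat_lit 12566204139) (nat_lit 76) (nat_lit 25313658878) (nat_lit 76) (nat_lit 16027010550) (nat_lit 4) (nat_lit 4) (nat_lit 5) (nat_lit 5) (nat_lit 5) (nat_lit 4) (nat_lit 315) (nat_lit 222) (nat_lit 183))) (XT.nd (nat_lit 78) (nat_lit 0) (nat_lit 0) (XT.lf (nat_lit 0) (nat_lit 18700272553) (nat_lit 76) (nat_lit 23555902904)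 (nat_lit 76) (nat_lit 14191736498) (nat_lit 4) (nat_lit 4) (nat_lit 5) (nat_lit 5) (nat_lit 5) (nat_lit 4) (nat_lit 316) (nat_lit 222) (nat_lit 182)) (XT.lf (nat_lit 0) (nat_lit 25081917046) (nat_lit 76) (nat_lit 21736867740) (nat_lit 76) (nat_lit 12298874591) (nat_lit 4) (nat_lit 4) (nat_lit 5) (nat_lit 5) (nat_lit 5) (nat_lit 4) (nat_lit 317) (nat_lit 222) (nat_lit 181)))) (XT.nd (nat_lit 156) (nat_lit 0) (nat_lit 0) (XT.nd (nat_lit 78) (nat_lit 0) (nat_lit 0) (XT.lf (nat_lit 0) (nat_lit 31726332008) (nat_lit 76) (nat_lit 19852222347) (nat_lit 76) (nat_lit 10343918016) (nat_lit 4) (nat_lit 4) (nat_lit 5) (nat_lit 5) (nat_lit 5) (nat_lit 4) (nat_lit 318) (nat_lit 222) (nat_lit 180)) (XT.lf (nat_lit 0) (nat_lit 38649337477) (nat_lit 76) (nat_lit 17897479475) (nat_lit 76) (nat_lit 8322212114) (nat_lit 4) (nat_lit 4) (nat_lit 5) (nat_lit 5) (nat_lit 5) (nat_lit 4) (nat_lit 319) (nat_lit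 222) (nat_lit 179))) (XT.nd (nat_lit 78) (nat_lit 0) (nat_lit 0) (XT.lf (nat_lit 0) (nat_lit 45867416798) (nat_lit 76) (nat_lit 15867984975) (nat_lit 76) (nat_lit 6228943298) (nat_lit 4) (nat_lit 4) (nat_lit 5) (nat_lit 5) (nat_lit 5) (nat_lit 4) (nat_lit 320) (nat_lit 222) (nat_lit 178)) (XT.nd (nat_lit 78) (nat_lit 0) (nat_lit 0) (XT.lf (nat_lit 0) (nat_lit 53397755874) (nat_lit 76) (nat_lit 13758906717) (nat_lit 76) (nat_lit 4059127597) (nat_lit 4) (nat_lit 4) (nat_lit 5) (nat_lit 5) (nat_lit 5) (nat_lit 4) (nat_lit 321) (nat_lit 222) (nat_lit 177)) (XT.lf (nat_lit 0) (nat_lit 61258284084) (nat_lit 76) (nat_lit 11565223086) (nat_lit 76) (nat_lit 1807598782) (nat_lit 4) (nat_lit 4) (nat_lit 5) (nat_lit 5) (nat_lit 5) (nat_lit 4) (nat_lit 322) (nat_lit 222) (nat_lit 176)))))) (XT.nd (nat_lit 312) (nat_lit 0) (nat_lit 0) (XT.nd (nat_lit 156) (nat_lit 76) (nat_lit 0) (XT.nd (nat_lit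 78) (nat_lit 0) (nat_lit 0) (XT.lf (nat_lit 0) (nat_lit 514008487) (nat_lit 152) (nat_lit 8758997554) (nat_lit 76) (nat_lit 68945003501) (nat_lit 3) (nat_lit 5) (nat_lit 5) (nat_lit 5) (nat_lit 4) (nat_lit 4) (nat_lit 323) (nat_lit 222) (nat_lit 175)) (XT.lf (nat_lit 0) (nat_lit 2867438184) (nat_lit 152) (nat_lit 3986933963) (nat_lit 76) (nat_lit 75129601168) (nat_lit 3) (nat_lit 5) (nat_lit 5) (nat_lit 5) (nat_lit 4) (nat_lit 4) (nat_lit 324) (nat_lit 222) (nat_lit 174))) (XT.nd (nat_lit 78) (nat_lit 0) (nat_lit 0) (XT.lf (nat_lit 0) (nat_lit 1015453497) (nat_lit 76) (nat_lit 4316548738) (nat_lit 152) (nat_lit 80606579993) (nat_lit 2) (nat_lit 5) (nat_lit 3) (nat_lit 5) (nat_lit 4) (nat_lit 4) (nat_lit 325) (nat_lit 222) (nat_lit 173)) (XT.lf (nat_lit 0) (nat_lit 6366255257) (nat_lit 76) (nat_lit 1599108508) (nat_lit 152) (nat_lit 82123298498) (nat_lit 2) (nat_lit 5) (nat_lit 3) (nat_lit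 5) (nat_lit 4) (nat_lit 4) (nat_lit 326) (nat_lit 222) (nat_lit 172)))) (XT.nd (nat_lit 156) (nat_lit 0) (nat_lit 0) (XT.nd (nat_lit 78) (nat_lit 0) (nat_lit 0) (XT.lf (nat_lit 0) (nat_lit 10728798739) (nat_lit 152) (nat_lit 82520235998) (nat_lit 0) (nat_lit 1197309522) (nat_lit 2) (nat_lit 5) (nat_lit 4) (nat_lit 4) (nat_lit 2) (nat_lit 4) (nat_lit 327) (nat_lit 222) (nat_lit 171)) (XT.lf (nat_lit 0) (nat_lit 13636452481) (nat_lit 152) (nat_lit 81321319111) (nat_lit 0) (nat_lit 4063853772) (nat_lit 2) (nat_lit 5) (nat_lit 4) (nat_lit 4) (nat_lit 2) (nat_lit 4) (nat_lit 328) (nat_lit 222) (nat_lit 170))) (XT.nd (nat_lit 78) (nat_lit 0) (nat_lit 0) (XT.lf (nat_lit 0) (nat_lit 16670281411) (nat_lit 152) (nat_lit 80097835217) (nat_lit 0) (nat_lit 7058530804) (nat_lit 2) (nat_lit 5) (nat_lit 4) (nat_lit 4) (nat_lit 2) (nat_lit 4) (nat_lit 329) (nat_lit 222) (nat_lit 169)) (XT.nd (nat_lit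 78) (nat_lit 0) (nat_lit 0) (XT.lf (nat_lit 0) (nat_lit 19837508931) (nat_lit 152) (nat_lit 78846871258) (nat_lit 0) (nat_lit 10188470803) (nat_lit 2) (nat_lit 5) (nat_lit 4) (nat_lit 4) (nat_lit 2) (nat_lit 4) (nat_lit 330) (nat_lit 222) (nat_lit 168)) (XT.lf (nat_lit 0) (nat_lit 23145676059) (nat_lit 152) (nat_lit 77565448750) (nat_lit 0) (nat_lit 13461126006) (nat_lit 2) (nat_lit 5) (nat_lit 4) (nat_lit 4) (nat_lit 2) (nat_lit 4) (nat_lit 331) (nat_lit 222) (nat_lit 167))))))))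
noncomputable def xc57 : XT := (XT.nd (nat_lit 1326) (nat_lit 76) (nat_lit 0) (XT.nd (nat_lit 624) (nat_lit 0) (nat_lit 0) (XT.nd (nat_lit 312) (nat_lit 0) (nat_lit 0) (XT.nd (nat_lit 156) (nat_lit 0) (nat_lit 0) (XT.nd (nat_lit 78) (nat_lit 0) (nat_lit 0) (XT.lf (nat_lit 0) (nat_lit 26602659383) (nat_lit 152) (nat_lit 76250516685) (nat_lit 0) (nat_lit 16884288450) (nat_lit 2) (nat_lit 5) (nat_lit 4) (nat_lit 4) (nat_lit 2) (nat_lit 4) (nat_lit 332) (nat_lit 222) (nat_lit 166)) (XT.lf (nat_lit 0) (nat_lit 30216689817) (nat_lit 152) (nat_lit 74898944274) (nat_lit 0) (nat_lit 20466108521) (nat_lit 2) (nat_lit 5) (nat_lit 4) (nat_lit 4) (nat_lit 2) (nat_lit 4) (nat_lit 333) (nat_lit 222) (nat_lit 165))) (XT.nd (nat_lit 78) (nat_lit 0) (nat_lit 0) (XT.lf (nat_lit 0) (nat_lit 33996372195) (nat_lit 152) (nat_lit 73507513487) (nat_lit 0) (nat_lit 24215114362) (nat_lit 2) (nat_lit 5) (nat_lit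 4) (nat_lit 4) (nat_lit 2) (nat_lit 4) (nat_lit 334) (nat_lit 222) (nat_lit 164)) (XT.lf (nat_lit 0) (nat_lit 37950705760) (nat_lit 152) (nat_lit 72072911394) (nat_lit 0) (nat_lit 28140232179) (nat_lit 2) (nat_lit 5) (nat_lit 4) (nat_lit 4) (nat_lit 2) (nat_lit 4) (nat_lit 335) (nat_lit 222) (nat_lit 163)))) (XT.nd (nat_lit 156) (nat_lit 0) (nat_lit 0) (XT.nd (nat_lit 78) (nat_lit 0) (nat_lit 0) (XT.lf (nat_lit 0) (nat_lit 42089105592) (nat_lit 152) (nat_lit 70591722274) (nat_lit 0) (nat_lit 32250807488) (nat_lit 2) (nat_lit 5) (nat_lit 4) (nat_lit 4) (nat_lit 2) (nat_lit 4) (nat_lit 336) (nat_lit 222) (nat_lit 162)) (XT.lf (nat_lit 0) (nat_lit 46421425024) (nat_lit 152) (nat_lit 69060419488) (nat_lit 0) (nat_lit 36556627375) (nat_lit 2) (nat_lit 5) (nat_lit 4) (nat_lit 4) (nat_lit 2) (nat_lit 4) (nat_lit 337) (nat_lit 222) (nat_lit 161))) (XT.nd (nat_lit 78) (nat_lit 0) (nat_lit 0)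 (XT.lf (nat_lit 0) (nat_lit 50957979103) (nat_lit 152) (nat_lit 67475357076) (nat_lit 0) (nat_lit 41067943792) (nat_lit 2) (nat_lit 5) (nat_lit 4) (nat_lit 4) (nat_lit 2) (nat_lit 4) (nat_lit 338) (nat_lit 222) (nat_lit 160)) (XT.lf (nat_lit 0) (nat_lit 55709569147) (nat_lit 152) (nat_lit 65832761081) (nat_lit 0) (nat_lit 45795497967) (nat_lit 2) (nat_lit 5) (nat_lit 4) (nat_lit 4) (nat_lit 2) (nat_lit 4) (nat_lit 339) (nat_lit 222) (nat_lit 159))))) (XT.nd (nat_lit 312) (nat_lit 0) (nat_lit 0) (XT.nd (nat_lit 156) (nat_lit 0) (nat_lit 0) (XT.nd (nat_lit 78) (nat_lit 0) (nat_lit 0) (XT.lf (nat_lit 0) (nat_lit 60687508467) (nat_lit 152) (nat_lit 64128720559) (nat_lit 0) (nat_lit 50750545984) (nat_lit 2) (nat_lit 5) (nat_lit 4) (nat_lit 4) (nat_lit 2) (nat_lit 4) (nat_lit 340) (nat_lit 222) (nat_lit 158)) (XT.lf (nat_lit 0) (nat_lit 65903649298) (nat_lit 152) (nat_lit 62359178271) (nat_lit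 0) (nat_lit 55944885574) (nat_lit 2) (nat_lit 5) (nat_lit 4) (nat_lit 4) (nat_lit 2) (nat_lit 4) (nat_lit 341) (nat_lit 222) (nat_lit 157))) (XT.nd (nat_lit 78) (nat_lit 0) (nat_lit 0) (XT.lf (nat_lit 0) (nat_lit 71370411024) (nat_lit 152) (nat_lit 60519921022) (nat_lit 0) (nat_lit 61390884213) (nat_lit 2) (nat_lit 5) (nat_lit 4) (nat_lit 4) (nat_lit 2) (nat_lit 4) (nat_lit 342) (nat_lit 222) (nat_lit 156)) (XT.lf (nat_lit 0) (nat_lit 77100809744) (nat_lit 152) (nat_lit 58606569626) (nat_lit 0) (nat_lit 67101508564) (nat_lit 2) (nat_lit 5) (nat_lit 4) (nat_lit 4) (nat_lit 2) (nat_lit 4) (nat_lit 343) (nat_lit 222) (nat_lit 155)))) (XT.nd (nat_lit 156) (nat_lit 0) (nat_lit 0) (XT.nd (nat_lit 78) (nat_lit 0) (nat_lit 0) (XT.lf (nat_lit 0) (nat_lit 83108489265) (nat_lit 152) (nat_lit 56614568486) (nat_lit 0) (nat_lit 73090355353) (nat_lit 2) (nat_lit 5) (nat_lit 4) (nat_lit 4) (nat_lit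 2) (nat_lit 4) (nat_lit 344) (nat_lit 222) (nat_lit 154)) (XT.lf (nat_lit 0) (nat_lit 89407753585) (nat_lit 152) (nat_lit 54539174742) (nat_lit 0) (nat_lit 79371683738) (nat_lit 2) (nat_lit 5) (nat_lit 4) (nat_lit 4) (nat_lit 2) (nat_lit 4) (nat_lit 345) (nat_lit 222) (nat_lit 153))) (XT.nd (nat_lit 78) (nat_lit 0) (nat_lit 0) (XT.lf (nat_lit 0) (nat_lit 96013600953) (nat_lit 152) (nat_lit 52375446981) (nat_lit 0) (nat_lit 85960449263) (nat_lit 2) (nat_lit 5) (nat_lit 4) (nat_lit 4) (nat_lit 2) (nat_lit 4) (nat_lit 346) (nat_lit 222) (nat_lit 152)) (XT.nd (nat_lit 78) (nat_lit 0) (nat_lit 0) (XT.lf (nat_lit 0) (nat_lit 102941759577) (nat_lit 152) (nat_lit 50118233468) (nat_lit 0) (nat_lit 92872339464) (nat_lit 2) (nat_lit 5) (nat_lit 4) (nat_lit 4) (nat_lit 2) (nat_lit 4) (nat_lit 347) (nat_lit 222) (nat_lit 151)) (XT.lf (nat_lit 0) (nat_lit 110208725072) (nat_lit 152) (nat_lit 47762159887)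 (nat_lit 0) (nat_lit 100123811224) (nat_lit 2) (nat_lit 5) (nat_lit 4) (nat_lit 4) (nat_lit 2) (nat_lit 4) (nat_lit 348) (nat_lit 222) (nat_lit 150))))))) (XT.nd (nat_lit 702) (nat_lit 76) (nat_lit 0) (XT.nd (nat_lit 312) (nat_lit 0) (nat_lit 0) (XT.nd (nat_lit 156) (nat_lit 0) (nat_lit 0) (XT.nd (nat_lit 78) (nat_lit 0) (nat_lit 0) (XT.lf (nat_lit 0) (nat_lit 117831799738) (nat_lit 152) (nat_lit 45301616539) (nat_lit 0) (nat_lit 107732129952) (nat_lit 2) (nat_lit 5) (nat_lit 4) (nat_lit 4) (nat_lit 2) (nat_lit 4) (nat_lit 349) (nat_lit 222) (nat_lit 149)) (XT.lf (nat_lit 0) (nat_lit 125829133752) (nat_lit 152) (nat_lit 42730744986) (nat_lit 0) (nat_lit 115715410691) (nat_lit 2) (nat_lit 5) (nat_lit 4) (nat_lit 4) (nat_lit 2) (nat_lit 4) (nat_lit 350) (nat_lit 222) (nat_lit 148))) (XT.nd (nat_lit 78) (nat_lit 0) (nat_lit 0) (XT.lf (nat_lit 0) (nat_lit 134219768385) (nat_lit 152) (nat_lit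 40043424107) (nat_lit 0) (nat_lit 124092661253) (nat_lit 2) (nat_lit 5) (nat_lit 4) (nat_lit 4) (nat_lit 2) (nat_lit 4) (nat_lit 351) (nat_lit 222) (nat_lit 147)) (XT.lf (nat_lit 0) (nat_lit 143023681340) (nat_lit 152) (nat_lit 37233255518) (nat_lit 0) (nat_lit 132883827474) (nat_lit 2) (nat_lit 5) (nat_lit 4) (nat_lit 4) (nat_lit 2) (nat_lit 4) (nat_lit 352) (nat_lit 222) (nat_lit 146)))) (XT.nd (nat_lit 156) (nat_lit 0) (nat_lit 0) (XT.nd (nat_lit 78) (nat_lit 0) (nat_lit 0) (XT.lf (nat_lit 0) (nat_lit 152261834313) (nat_lit 152) (nat_lit 34293548341) (nat_lit 0) (nat_lit 142109840700) (nat_lit 2) (nat_lit 5) (nat_lit 4) (nat_lit 4) (nat_lit 2) (nat_lit 4) (nat_lit 353) (nat_lit 222) (nat_lit 145)) (XT.lf (nat_lit 0) (nat_lit 161956222907) (nat_lit 152) (nat_lit 31217303275) (nat_lit 0) (nat_lit 151792667630) (nat_lit 2) (nat_lit 5) (nat_lit 4) (nat_lit 4) (nat_lit 2) (nat_lit 4)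 (nat_lit 354) (nat_lit 222) (nat_lit 144))) (XT.nd (nat_lit 78) (nat_lit 0) (nat_lit 0) (XT.lf (nat_lit 0) (nat_lit 172129929000) (nat_lit 152) (nat_lit 27997195925) (nat_lit 0) (nat_lit 161955362614) (nat_lit 2) (nat_lit 5) (nat_lit 4) (nat_lit 4) (nat_lit 2) (nat_lit 4) (nat_lit 355) (nat_lit 222) (nat_lit 143)) (XT.nd (nat_lit 78) (nat_lit 0) (nat_lit 0) (XT.lf (nat_lit 0) (nat_lit 182807175701) (nat_lit 152) (nat_lit 24625559369) (nat_lit 0) (nat_lit 172622122545) (nat_lit 2) (nat_lit 5) (nat_lit 4) (nat_lit 4) (nat_lit 2) (nat_lit 4) (nat_lit 356) (nat_lit 222) (nat_lit 142)) (XT.lf (nat_lit 0) (nat_lit 194013385026) (nat_lit 152) (nat_lit 21094365902) (nat_lit 0) (nat_lit 183818344471) (nat_lit 2) (nat_lit 5) (nat_lit 4) (nat_lit 4) (nat_lit 2) (nat_lit 4) (nat_lit 357) (nat_lit 222) (nat_lit 141)))))) (XT.nd (nat_lit 312) (nat_lit 76) (nat_lit 0) (XT.nd (nat_lit 156) (nat_lit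 0) (nat_lit 0) (XT.nd (nat_lit 78) (nat_lit 0) (nat_lit 0) (XT.lf (nat_lit 0) (nat_lit 205775238426) (nat_lit 152) (nat_lit 17395207920) (nat_lit 0) (nat_lit 195570686061) (nat_lit 2) (nat_lit 5) (nat_lit 4) (nat_lit 4) (nat_lit 2) (nat_lit 4) (nat_lit 358) (nat_lit 222) (nat_lit 140)) (XT.lf (nat_lit 0) (nat_lit 218120740314) (nat_lit 152) (nat_lit 13519277903) (nat_lit 0) (nat_lit 207907129083) (nat_lit 2) (nat_lit 5) (nat_lit 4) (nat_lit 4) (nat_lit 2) (nat_lit 4) (nat_lit 359) (nat_lit 222) (nat_lit 139))) (XT.nd (nat_lit 78) (nat_lit 0) (nat_lit 0) (XT.lf (nat_lit 0) (nat_lit 231079284742) (nat_lit 152) (nat_lit 9457347448) (nat_lit 0) (nat_lit 220857046020) (nat_lit 2) (nat_lit 5) (nat_lit 4) (nat_lit 4) (nat_lit 2) (nat_lit 4) (nat_lit 360) (nat_lit 222) (nat_lit 138)) (XT.lf (nat_lit 0) (nat_lit 244681725387) (nat_lit 152) (nat_lit 5199745291) (nat_lit 0) (nat_lit 234451270007)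 (nat_lit 2) (nat_lit 5) (nat_lit 4) (nat_lit 4) (nat_lit 2) (nat_lit 4) (nat_lit 361) (nat_lit 222) (nat_lit 137)))) (XT.nd (nat_lit 30654) (nat_lit 0) (nat_lit 1900) (XT.nd (nat_lit 78) (nat_lit 76) (nat_lit 0) (XT.lf (nat_lit 0) (nat_lit 258960449013) (nat_lit 152) (nat_lit 736334284) (nat_lit 0) (nat_lit 248722168243) (nat_lit 2) (nat_lit 5) (nat_lit 4) (nat_lit 4) (nat_lit 2) (nat_lit 4) (nat_lit 362) (nat_lit 222) (nat_lit 136)) (XT.lf (nat_lit 0) (nat_lit 4073903081) (nat_lit 76) (nat_lit 269939154543) (nat_lit 76) (nat_lit 259693421022) (nat_lit 1) (nat_lit 4) (nat_lit 2) (nat_lit 5) (nat_lit 2) (nat_lit 4) (nat_lit 363) (nat_lit 222) (nat_lit 135))) (XT.nd (nat_lit 78) (nat_lit 152) (nat_lit 0) (XT.lf (nat_lit 0) (nat_lit 1463666901) (nat_lit 228) (nat_lit 2450626948) (nat_lit 0) (nat_lit 1463666901) (nat_lit 28) (nat_lit 5) (nat_lit 31) (nat_lit 4) (nat_lit 28) (nat_lit 4)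 (nat_lit 274) (nat_lit 223) (nat_lit 223)) (XT.nd (nat_lit 78) (nat_lit 0) (nat_lit 0) (XT.lf (nat_lit 0) (nat_lit 1521388444) (nat_lit 152) (nat_lit 5138310030) (nat_lit 152) (nat_lit 4406984461) (nat_lit 26) (nat_lit 4) (nat_lit 28) (nat_lit 5) (nat_lit 28) (nat_lit 4) (nat_lit 275) (nat_lit 223) (nat_lit 222)) (XT.lf (nat_lit 0) (nat_lit 8219998880) (nat_lit 152) (nat_lit 2301969715) (nat_lit 152) (nat_lit 874143605) (nat_lit 26) (nat_lit 4) (nat_lit 28) (nat_lit 5) (nat_lit 28) (nat_lit 4) (nat_lit 276) (nat_lit 223) (nat_lit 221))))))))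
noncomputable def xc58 : XT := (XT.nd (nat_lit 1326) (nat_lit 380) (nat_lit 0) (XT.nd (nat_lit 624) (nat_lit 456) (nat_lit 0) (XT.nd (nat_lit 312) (nat_lit 304) (nat_lit 0) (XT.nd (nat_lit 156) (nat_lit 228) (nat_lit 0) (XT.nd (nat_lit 78) (nat_lit 0) (nat_lit 0) (XT.lf (nat_lit 0) (nat_lit 2672597032) (nat_lit 228) (nat_lit 8390052860) (nat_lit 0) (nat_lit 681016119) (nat_lit 23) (nat_lit 5) (nat_lit 26) (nat_lit 4) (nat_lit 23) (nat_lit 4) (nat_lit 277) (nat_lit 223) (nat_lit 220)) (XT.lf (nat_lit 0) (nat_lit 6326261094) (nat_lit 228) (nat_lit 2050908987) (nat_lit 0) (nat_lit 3733016826) (nat_lit 23) (nat_lit 5) (nat_lit 26) (nat_lit 4) (nat_lit 23) (nat_lit 4) (nat_lit 278) (nat_lit 223) (nat_lit 219))) (XT.nd (nat_lit 78) (nat_lit 76) (nat_lit 0) (XT.lf (nat_lit 0) (nat_lit 4548737087) (nat_lit 152) (nat_lit 5557799651) (nat_lit 152) (nat_lit 2391542665) (nat_lit 21) (nat_lit 4)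 (nat_lit 23) (nat_lit 5) (nat_lit 23) (nat_lit 4) (nat_lit 279) (nat_lit 223) (nat_lit 218)) (XT.lf (nat_lit 0) (nat_lit 1041900145) (nat_lit 228) (nat_lit 1576088086) (nat_lit 76) (nat_lit 10291238937) (nat_lit 20) (nat_lit 5) (nat_lit 23) (nat_lit 5) (nat_lit 21) (nat_lit 4) (nat_lit 280) (nat_lit 223) (nat_lit 217)))) (XT.nd (nat_lit 156) (nat_lit 228) (nat_lit 0) (XT.nd (nat_lit 78) (nat_lit 0) (nat_lit 0) (XT.lf (nat_lit 0) (nat_lit 4533134194) (nat_lit 152) (nat_lit 8304800353) (nat_lit 0) (nat_lit 502921991) (nat_lit 19) (nat_lit 5) (nat_lit 21) (nat_lit 4) (nat_lit 19) (nat_lit 4) (nat_lit 281) (nat_lit 223) (nat_lit 216)) (XT.lf (nat_lit 0) (nat_lit 8150220093) (nat_lit 152) (nat_lit 1997892940) (nat_lit 0) (nat_lit 3648588908) (nat_lit 19) (nat_lit 5) (nat_lit 21) (nat_lit 4) (nat_lit 19) (nat_lit 4) (nat_lit 282) (nat_lit 223) (nat_lit 215))) (XT.nd (nat_lit 78) (nat_lit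 76) (nat_lit 0) (XT.lf (nat_lit 0) (nat_lit 4585081923) (nat_lit 152) (nat_lit 7321562363) (nat_lit 152) (nat_lit 2370960719) (nat_lit 17) (nat_lit 4) (nat_lit 19) (nat_lit 5) (nat_lit 19) (nat_lit 4) (nat_lit 283) (nat_lit 223) (nat_lit 214)) (XT.lf (nat_lit 0) (nat_lit 955971755) (nat_lit 228) (nat_lit 3418450458) (nat_lit 76) (nat_lit 10411377556) (nat_lit 16) (nat_lit 5) (nat_lit 19) (nat_lit 5) (nat_lit 17) (nat_lit 4) (nat_lit 284) (nat_lit 223) (nat_lit 213))))) (XT.nd (nat_lit 312) (nat_lit 228) (nat_lit 0) (XT.nd (nat_lit 156) (nat_lit 152) (nat_lit 0) (XT.nd (nat_lit 78) (nat_lit 0) (nat_lit 0) (XT.lf (nat_lit 0) (nat_lit 3050057078) (nat_lit 76) (nat_lit 1259932715) (nat_lit 152) (nat_lit 11010613907) (nat_lit 15) (nat_lit 5) (nat_lit 16) (nat_lit 5) (nat_lit 17) (nat_lit 4) (nat_lit 285) (nat_lit 223) (nat_lit 212)) (XT.lf (nat_lit 0) (nat_lit 7816008221) (nat_lit 152) (nat_lit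 6130367210) (nat_lit 0) (nat_lit 1936713400) (nat_lit 15) (nat_lit 5) (nat_lit 17) (nat_lit 4) (nat_lit 15) (nat_lit 4) (nat_lit 286) (nat_lit 223) (nat_lit 211))) (XT.nd (nat_lit 78) (nat_lit 0) (nat_lit 0) (XT.lf (nat_lit 0) (nat_lit 129403769) (nat_lit 152) (nat_lit 11289714202) (nat_lit 152) (nat_lit 5058639279) (nat_lit 13) (nat_lit 4) (nat_lit 15) (nat_lit 5) (nat_lit 15) (nat_lit 4) (nat_lit 287) (nat_lit 223) (nat_lit 210)) (XT.lf (nat_lit 0) (nat_lit 6746847835) (nat_lit 152) (nat_lit 8460650290) (nat_lit 152) (nat_lit 1894546697) (nat_lit 13) (nat_lit 4) (nat_lit 15) (nat_lit 5) (nat_lit 15) (nat_lit 4) (nat_lit 288) (nat_lit 223) (nat_lit 209)))) (XT.nd (nat_lit 156) (nat_lit 76) (nat_lit 0) (XT.nd (nat_lit 78) (nat_lit 76) (nat_lit 0) (XT.lf (nat_lit 0) (nat_lit 1286376533) (nat_lit 228) (nat_lit 4248106621) (nat_lit 76) (nat_lit 12226861236) (nat_lit 12) (nat_lit 5) (nat_lit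 15) (nat_lit 5) (nat_lit 13) (nat_lit 4) (nat_lit 289) (nat_lit 223) (nat_lit 208)) (XT.lf (nat_lit 0) (nat_lit 2043019243) (nat_lit 76) (nat_lit 2460433750) (nat_lit 152) (nat_lit 13951686437) (nat_lit 11) (nat_lit 5) (nat_lit 12) (nat_lit 5) (nat_lit 13) (nat_lit 4) (nat_lit 290) (nat_lit 223) (nat_lit 207))) (XT.nd (nat_lit 78) (nat_lit 76) (nat_lit 0) (XT.lf (nat_lit 0) (nat_lit 7876314866) (nat_lit 152) (nat_lit 10553716452) (nat_lit 0) (nat_lit 753962718) (nat_lit 11) (nat_lit 5) (nat_lit 13) (nat_lit 4) (nat_lit 11) (nat_lit 4) (nat_lit 291) (nat_lit 223) (nat_lit 206)) (XT.nd (nat_lit 78) (nat_lit 76) (nat_lit 0) (XT.lf (nat_lit 0) (nat_lit 11372277150) (nat_lit 152) (nat_lit 4591980936) (nat_lit 0) (nat_lit 3987421273) (nat_lit 11) (nat_lit 5) (nat_lit 13) (nat_lit 4) (nat_lit 11) (nat_lit 4) (nat_lit 292) (nat_lit 223) (nat_lit 205)) (XT.lf (nat_lit 0) (nat_lit 1576141611)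 (nat_lit 76) (nat_lit 13409715675) (nat_lit 76) (nat_lit 5774856246) (nat_lit 10) (nat_lit 4) (nat_lit 11) (nat_lit 5) (nat_lit 11) (nat_lit 4) (nat_lit 293) (nat_lit 223) (nat_lit 204))))))) (XT.nd (nat_lit 702) (nat_lit 152) (nat_lit 0) (XT.nd (nat_lit 312) (nat_lit 76) (nat_lit 0) (XT.nd (nat_lit 156) (nat_lit 76) (nat_lit 0) (XT.nd (nat_lit 78) (nat_lit 76) (nat_lit 0) (XT.lf (nat_lit 0) (nat_lit 8072240054) (nat_lit 76) (nat_lit 10705566719) (nat_lit 76) (nat_lit 2832608670) (nat_lit 10) (nat_lit 4) (nat_lit 11) (nat_lit 5) (nat_lit 11) (nat_lit 4) (nat_lit 294) (nat_lit 223) (nat_lit 203)) (XT.lf (nat_lit 0) (nat_lit 170926839) (nat_lit 152) (nat_lit 7749318618) (nat_lit 76) (nat_lit 14586128099) (nat_lit 9) (nat_lit 5) (nat_lit 11) (nat_lit 5) (nat_lit 10) (nat_lit 4) (nat_lit 295) (nat_lit 223) (nat_lit 202))) (XT.nd (nat_lit 78) (nat_lit 76) (nat_lit 0) (XT.lf (nat_lit 0) (nat_lit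 3155533660) (nat_lit 152) (nat_lit 1846837103) (nat_lit 76) (nat_lit 18446219419) (nat_lit 9) (nat_lit 5) (nat_lit 11) (nat_lit 5) (nat_lit 10) (nat_lit 4) (nat_lit 296) (nat_lit 223) (nat_lit 201)) (XT.lf (nat_lit 0) (nat_lit 4367329459) (nat_lit 76) (nat_lit 1919835958) (nat_lit 152) (nat_lit 18150945211) (nat_lit 8) (nat_lit 5) (nat_lit 9) (nat_lit 5) (nat_lit 10) (nat_lit 4) (nat_lit 297) (nat_lit 223) (nat_lit 200)))) (XT.nd (nat_lit 156) (nat_lit 76) (nat_lit 0) (XT.nd (nat_lit 78) (nat_lit 0) (nat_lit 0) (XT.lf (nat_lit 0) (nat_lit 9557978889) (nat_lit 152) (nat_lit 14664235207) (nat_lit 0) (nat_lit 1255841774) (nat_lit 8) (nat_lit 5) (nat_lit 10) (nat_lit 4) (nat_lit 8) (nat_lit 4) (nat_lit 298) (nat_lit 223) (nat_lit 199)) (XT.lf (nat_lit 0) (nat_lit 12957378107) (nat_lit 152) (nat_lit 9136874905) (nat_lit 0) (nat_lit 4477568136) (nat_lit 8) (nat_lit 5) (nat_lit 10) (nat_lit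 4) (nat_lit 8) (nat_lit 4) (nat_lit 299) (nat_lit 223) (nat_lit 198))) (XT.nd (nat_lit 78) (nat_lit 76) (nat_lit 0) (XT.lf (nat_lit 0) (nat_lit 16463482860) (nat_lit 152) (nat_lit 3445565864) (nat_lit 0) (nat_lit 7814460644) (nat_lit 8) (nat_lit 5) (nat_lit 10) (nat_lit 4) (nat_lit 8) (nat_lit 4) (nat_lit 300) (nat_lit 223) (nat_lit 197)) (XT.nd (nat_lit 78) (nat_lit 0) (nat_lit 0) (XT.lf (nat_lit 0) (nat_lit 2503365997) (nat_lit 76) (nat_lit 17620359576) (nat_lit 76) (nat_lit 8810182842) (nat_lit 7) (nat_lit 4) (nat_lit 8) (nat_lit 5) (nat_lit 8) (nat_lit 4) (nat_lit 301) (nat_lit 223) (nat_lit 196)) (XT.lf (nat_lit 0) (nat_lit 8764027614) (nat_lit 76) (nat_lit 15202277796) (nat_lit 76) (nat_lit 6238620569) (nat_lit 7) (nat_lit 4) (nat_lit 8) (nat_lit 5) (nat_lit 8) (nat_lit 4) (nat_lit 302) (nat_lit 223) (nat_lit 195)))))) (XT.nd (nat_lit 312) (nat_lit 0) (nat_lit 0) (XT.nd (nat_lit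 156) (nat_lit 152) (nat_lit 0) (XT.nd (nat_lit 78) (nat_lit 0) (nat_lit 0) (XT.lf (nat_lit 0) (nat_lit 15237399353) (nat_lit 76) (nat_lit 12707398373) (nat_lit 76) (nat_lit 3597569246) (nat_lit 7) (nat_lit 4) (nat_lit 8) (nat_lit 5) (nat_lit 8) (nat_lit 4) (nat_lit 303) (nat_lit 223) (nat_lit 194)) (XT.lf (nat_lit 0) (nat_lit 21938894005) (nat_lit 76) (nat_lit 10129781116) (nat_lit 76) (nat_lit 880740657) (nat_lit 7) (nat_lit 4) (nat_lit 8) (nat_lit 5) (nat_lit 8) (nat_lit 4) (nat_lit 304) (nat_lit 223) (nat_lit 193))) (XT.nd (nat_lit 78) (nat_lit 76) (nat_lit 0) (XT.lf (nat_lit 0) (nat_lit 1856935173) (nat_lit 152) (nat_lit 5574905573) (nat_lit 76) (nat_lit 26996084240) (nat_lit 6) (nat_lit 5) (nat_lit 8) (nat_lit 5) (nat_lit 7) (nat_lit 4) (nat_lit 305) (nat_lit 223) (nat_lit 192)) (XT.lf (nat_lit 0) (nat_lit 30688044) (nat_lit 76) (nat_lit 4622277568) (nat_lit 152) (nat_lit 31329169432)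 (nat_lit 5) (nat_lit 5) (nat_lit 6) (nat_lit 5) (nat_lit 7) (nat_lit 4) (nat_lit 306) (nat_lit 223) (nat_lit 191)))) (XT.nd (nat_lit 156) (nat_lit 0) (nat_lit 0) (XT.nd (nat_lit 78) (nat_lit 0) (nat_lit 0) (XT.lf (nat_lit 0) (nat_lit 6023187199) (nat_lit 76) (nat_lit 1611610187) (nat_lit 152) (nat_lit 29977006592) (nat_lit 5) (nat_lit 5) (nat_lit 6) (nat_lit 5) (nat_lit 7) (nat_lit 4) (nat_lit 307) (nat_lit 223) (nat_lit 190)) (XT.lf (nat_lit 0) (nat_lit 10743233123) (nat_lit 152) (nat_lit 27116400510) (nat_lit 0) (nat_lit 1464493169) (nat_lit 5) (nat_lit 5) (nat_lit 7) (nat_lit 4) (nat_lit 5) (nat_lit 4) (nat_lit 308) (nat_lit 223) (nat_lit 189))) (XT.nd (nat_lit 78) (nat_lit 0) (nat_lit 0) (XT.lf (nat_lit 0) (nat_lit 13989052314) (nat_lit 152) (nat_lit 22527528515) (nat_lit 0) (nat_lit 4606430721) (nat_lit 5) (nat_lit 5) (nat_lit 7) (nat_lit 4) (nat_lit 5) (nat_lit 4) (nat_lit 309)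 (nat_lit 223) (nat_lit 188)) (XT.nd (nat_lit 78) (nat_lit 0) (nat_lit 0) (XT.lf (nat_lit 0) (nat_lit 17354821350) (nat_lit 152) (nat_lit 17785913158) (nat_lit 0) (nat_lit 7873264862) (nat_lit 5) (nat_lit 5) (nat_lit 7) (nat_lit 4) (nat_lit 5) (nat_lit 4) (nat_lit 310) (nat_lit 223) (nat_lit 187)) (XT.lf (nat_lit 0) (nat_lit 20848553967) (nat_lit 152) (nat_lit 12880264878) (nat_lit 0) (nat_lit 11272773770) (nat_lit 5) (nat_lit 5) (nat_lit 7) (nat_lit 4) (nat_lit 5) (nat_lit 4) (nat_lit 311) (nat_lit 223) (nat_lit 186))))))))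
noncomputable def xc59 : XT := (XT.nd (nat_lit 1404) (nat_lit 0) (nat_lit 0) (XT.nd (nat_lit 702) (nat_lit 152) (nat_lit 0) (XT.nd (nat_lit 312) (nat_lit 0) (nat_lit 0) (XT.nd (nat_lit 156) (nat_lit 76) (nat_lit 0) (XT.nd (nat_lit 78) (nat_lit 0) (nat_lit 0) (XT.lf (nat_lit 0) (nat_lit 24478568575) (nat_lit 152) (nat_lit 7798903560) (nat_lit 0) (nat_lit 14813051512) (nat_lit 5) (nat_lit 5) (nat_lit 7) (nat_lit 4) (nat_lit 5) (nat_lit 4) (nat_lit 312) (nat_lit 223) (nat_lit 185)) (XT.lf (nat_lit 0) (nat_lit 28253508067) (nat_lit 152) (nat_lit 2529730724) (nat_lit 0) (nat_lit 18502527322) (nat_lit 5) (nat_lit 5) (nat_lit 7) (nat_lit 4) (nat_lit 5) (nat_lit 4) (nat_lit 313) (nat_lit 223) (nat_lit 184))) (XT.nd (nat_lit 78) (nat_lit 0) (nat_lit 0) (XT.lf (nat_lit 0) (nat_lit 3037002317) (nat_lit 76) (nat_lit 29192774193) (nat_lit 76) (nat_lit 19360399466) (nat_lit 4) (nat_lit 4) (nat_lit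 5) (nat_lit 5) (nat_lit 5) (nat_lit 4) (nat_lit 314) (nat_lit 223) (nat_lit 183)) (XT.lf (nat_lit 0) (nat_lit 8907814841) (nat_lit 76) (nat_lit 27505741077) (nat_lit 76) (nat_lit 17595848271) (nat_lit 4) (nat_lit 4) (nat_lit 5) (nat_lit 5) (nat_lit 5) (nat_lit 4) (nat_lit 315) (nat_lit 223) (nat_lit 182)))) (XT.nd (nat_lit 156) (nat_lit 0) (nat_lit 0) (XT.nd (nat_lit 78) (nat_lit 0) (nat_lit 0) (XT.lf (nat_lit 0) (nat_lit 15013040649) (nat_lit 76) (nat_lit 25760964912) (nat_lit 76) (nat_lit 15777245365) (nat_lit 4) (nat_lit 4) (nat_lit 5) (nat_lit 5) (nat_lit 5) (nat_lit 4) (nat_lit 316) (nat_lit 223) (nat_lit 181)) (XT.lf (nat_lit 0) (nat_lit 21367215993) (nat_lit 76) (nat_lit 23954291469) (nat_lit 76) (nat_lit 13900260740) (nat_lit 4) (nat_lit 4) (nat_lit 5) (nat_lit 5) (nat_lit 5) (nat_lit 4) (nat_lit 317) (nat_lit 223) (nat_lit 180))) (XT.nd (nat_lit 78) (nat_lit 0) (nat_lit 0)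 (XT.lf (nat_lit 0) (nat_lit 27985469862) (nat_lit 76) (nat_lit 22081419145) (nat_lit 76) (nat_lit 11960425385) (nat_lit 4) (nat_lit 4) (nat_lit 5) (nat_lit 5) (nat_lit 5) (nat_lit 4) (nat_lit 318) (nat_lit 223) (nat_lit 179)) (XT.nd (nat_lit 78) (nat_lit 0) (nat_lit 0) (XT.lf (nat_lit 0) (nat_lit 34883560003) (nat_lit 76) (nat_lit 20137888720) (nat_lit 76) (nat_lit 9953120644) (nat_lit 4) (nat_lit 4) (nat_lit 5) (nat_lit 5) (nat_lit 5) (nat_lit 4) (nat_lit 319) (nat_lit 223) (nat_lit 178)) (XT.lf (nat_lit 0) (nat_lit 42077910441) (nat_lit 76) (nat_lit 18119072740) (nat_lit 76) (nat_lit 7873567221) (nat_lit 4) (nat_lit 4) (nat_lit 5) (nat_lit 5) (nat_lit 5) (nat_lit 4) (nat_lit 320) (nat_lit 223) (nat_lit 177)))))) (XT.nd (nat_lit 312) (nat_lit 76) (nat_lit 0) (XT.nd (nat_lit 156) (nat_lit 76) (nat_lit 0) (XT.nd (nat_lit 78) (nat_lit 0) (nat_lit 0) (XT.lf (nat_lit 0) (nat_lit 49585650580)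 (nat_lit 76) (nat_lit 16020164501) (nat_lit 76) (nat_lit 5716813799) (nat_lit 4) (nat_lit 4) (nat_lit 5) (nat_lit 5) (nat_lit 5) (nat_lit 4) (nat_lit 321) (nat_lit 223) (nat_lit 176)) (XT.lf (nat_lit 0) (nat_lit 57424655994) (nat_lit 76) (nat_lit 13836166603) (nat_lit 76) (nat_lit 3477725249) (nat_lit 4) (nat_lit 4) (nat_lit 5) (nat_lit 5) (nat_lit 5) (nat_lit 4) (nat_lit 322) (nat_lit 223) (nat_lit 175))) (XT.nd (nat_lit 78) (nat_lit 76) (nat_lit 0) (XT.lf (nat_lit 0) (nat_lit 65613590980) (nat_lit 76) (nat_lit 11561879049) (nat_lit 76) (nat_lit 1150970408) (nat_lit 4) (nat_lit 4) (nat_lit 5) (nat_lit 5) (nat_lit 5) (nat_lit 4) (nat_lit 323) (nat_lit 223) (nat_lit 174)) (XT.lf (nat_lit 0) (nat_lit 1228374989) (nat_lit 152) (nat_lit 7942708756) (nat_lit 76) (nat_lit 72922774888) (nat_lit 3) (nat_lit 5) (nat_lit 5) (nat_lit 5) (nat_lit 4) (nat_lit 4) (nat_lit 324) (nat_lit 223) (nat_lit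 173)))) (XT.nd (nat_lit 156) (nat_lit 0) (nat_lit 0) (XT.nd (nat_lit 78) (nat_lit 76) (nat_lit 0) (XT.lf (nat_lit 0) (nat_lit 3666682548) (nat_lit 152) (nat_lit 2991767636) (nat_lit 76) (nat_lit 79391339523) (nat_lit 3) (nat_lit 5) (nat_lit 5) (nat_lit 5) (nat_lit 4) (nat_lit 4) (nat_lit 325) (nat_lit 223) (nat_lit 172)) (XT.lf (nat_lit 0) (nat_lit 2241472857) (nat_lit 76) (nat_lit 4000118817) (nat_lit 152) (nat_lit 83961209580) (nat_lit 2) (nat_lit 5) (nat_lit 3) (nat_lit 5) (nat_lit 4) (nat_lit 4) (nat_lit 326) (nat_lit 223) (nat_lit 171))) (XT.nd (nat_lit 78) (nat_lit 0) (nat_lit 0) (XT.lf (nat_lit 0) (nat_lit 7803850577) (nat_lit 76) (nat_lit 1172152164) (nat_lit 152) (nat_lit 85585940173) (nat_lit 2) (nat_lit 5) (nat_lit 3) (nat_lit 5) (nat_lit 4) (nat_lit 4) (nat_lit 327) (nat_lit 223) (nat_lit 170)) (XT.nd (nat_lit 78) (nat_lit 0) (nat_lit 0) (XT.lf (nat_lit 0) (nat_lit 11855986392)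 (nat_lit 152) (nat_lit 85558132839) (nat_lit 0) (nat_lit 1724496358) (nat_lit 2) (nat_lit 5) (nat_lit 4) (nat_lit 4) (nat_lit 2) (nat_lit 4) (nat_lit 328) (nat_lit 223) (nat_lit 169)) (XT.lf (nat_lit 0) (nat_lit 14880891977) (nat_lit 152) (nat_lit 84351085106) (nat_lit 0) (nat_lit 4712114422) (nat_lit 2) (nat_lit 5) (nat_lit 4) (nat_lit 4) (nat_lit 2) (nat_lit 4) (nat_lit 329) (nat_lit 223) (nat_lit 168))))))) (XT.nd (nat_lit 702) (nat_lit 0) (nat_lit 0) (XT.nd (nat_lit 312) (nat_lit 0) (nat_lit 0) (XT.nd (nat_lit 156) (nat_lit 0) (nat_lit 0) (XT.nd (nat_lit 78) (nat_lit 0) (nat_lit 0) (XT.lf (nat_lit 0) (nat_lit 18039621074) (nat_lit 152) (nat_lit 83115774634) (nat_lit 0) (nat_lit 7835331593) (nat_lit 2) (nat_lit 5) (nat_lit 4) (nat_lit 4) (nat_lit 2) (nat_lit 4) (nat_lit 330) (nat_lit 223) (nat_lit 167)) (XT.lf (nat_lit 0) (nat_lit 21339694465) (nat_lit 152) (nat_lit 81849260208)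 (nat_lit 0) (nat_lit 11101584104) (nat_lit 2) (nat_lit 5) (nat_lit 4) (nat_lit 4) (nat_lit 2) (nat_lit 4) (nat_lit 331) (nat_lit 223) (nat_lit 166))) (XT.nd (nat_lit 78) (nat_lit 0) (nat_lit 0) (XT.lf (nat_lit 0) (nat_lit 24788969469) (nat_lit 152) (nat_lit 80548526318) (nat_lit 0) (nat_lit 14518648745) (nat_lit 2) (nat_lit 5) (nat_lit 4) (nat_lit 4) (nat_lit 2) (nat_lit 4) (nat_lit 332) (nat_lit 223) (nat_lit 165)) (XT.lf (nat_lit 0) (nat_lit 28395658646) (nat_lit 152) (nat_lit 79210475977) (nat_lit 0) (nat_lit 18094661386) (nat_lit 2) (nat_lit 5) (nat_lit 4) (nat_lit 4) (nat_lit 2) (nat_lit 4) (nat_lit 333) (nat_lit 223) (nat_lit 164)))) (XT.nd (nat_lit 156) (nat_lit 0) (nat_lit 0) (XT.nd (nat_lit 78) (nat_lit 0) (nat_lit 0) (XT.lf (nat_lit 0) (nat_lit 32168349349) (nat_lit 152) (nat_lit 77831923353) (nat_lit 0) (nat_lit 21838136341) (nat_lit 2) (nat_lit 5) (nat_lit 4) (nat_lit 4)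 (nat_lit 2) (nat_lit 4) (nat_lit 334) (nat_lit 223) (nat_lit 163)) (XT.lf (nat_lit 0) (nat_lit 36116024177) (nat_lit 152) (nat_lit 76409586175) (nat_lit 0) (nat_lit 25757986646) (nat_lit 2) (nat_lit 5) (nat_lit 4) (nat_lit 4) (nat_lit 2) (nat_lit 4) (nat_lit 335) (nat_lit 223) (nat_lit 162))) (XT.nd (nat_lit 78) (nat_lit 0) (nat_lit 0) (XT.lf (nat_lit 0) (nat_lit 40248082355) (nat_lit 152) (nat_lit 74940077929) (nat_lit 0) (nat_lit 29863545278) (nat_lit 2) (nat_lit 5) (nat_lit 4) (nat_lit 4) (nat_lit 2) (nat_lit 4) (nat_lit 336) (nat_lit 223) (nat_lit 161)) (XT.nd (nat_lit 78) (nat_lit 0) (nat_lit 0) (XT.lf (nat_lit 0) (nat_lit 44574362116) (nat_lit 152) (nat_lit 73419899783) (nat_lit 0) (nat_lit 34164587378) (nat_lit 2) (nat_lit 5) (nat_lit 4) (nat_lit 4) (nat_lit 2) (nat_lit 4) (nat_lit 337) (nat_lit 223) (nat_lit 160)) (XT.lf (nat_lit 0) (nat_lit 49105164127) (nat_lit 152) (nat_lit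 71845432268) (nat_lit 0) (nat_lit 38671353520) (nat_lit 2) (nat_lit 5) (nat_lit 4) (nat_lit 4) (nat_lit 2) (nat_lit 4) (nat_lit 338) (nat_lit 223) (nat_lit 159)))))) (XT.nd (nat_lit 312) (nat_lit 0) (nat_lit 0) (XT.nd (nat_lit 156) (nat_lit 0) (nat_lit 0) (XT.nd (nat_lit 78) (nat_lit 0) (nat_lit 0) (XT.lf (nat_lit 0) (nat_lit 53851276012) (nat_lit 152) (nat_lit 70212926650) (nat_lit 0) (nat_lit 43394574102) (nat_lit 2) (nat_lit 5) (nat_lit 4) (nat_lit 4) (nat_lit 2) (nat_lit 4) (nat_lit 339) (nat_lit 223) (nat_lit 158)) (XT.lf (nat_lit 0) (nat_lit 58823998037) (nat_lit 152) (nat_lit 68518496011) (nat_lit 0) (nat_lit 48345494885) (nat_lit 2) (nat_lit 5) (nat_lit 4) (nat_lit 4) (nat_lit 2) (nat_lit 4) (nat_lit 340) (nat_lit 223) (nat_lit 157))) (XT.nd (nat_lit 78) (nat_lit 0) (nat_lit 0) (XT.lf (nat_lit 0) (nat_lit 64035170016) (nat_lit 152) (nat_lit 66758105992) (nat_lit 0) (nat_lit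 53535903777) (nat_lit 2) (nat_lit 5) (nat_lit 4) (nat_lit 4) (nat_lit 2) (nat_lit 4) (nat_lit 341) (nat_lit 223) (nat_lit 156)) (XT.lf (nat_lit 0) (nat_lit 69497199502) (nat_lit 152) (nat_lit 64927565190) (nat_lit 0) (nat_lit 58978158895) (nat_lit 2) (nat_lit 5) (nat_lit 4) (nat_lit 4) (nat_lit 2) (nat_lit 4) (nat_lit 342) (nat_lit 223) (nat_lit 155)))) (XT.nd (nat_lit 156) (nat_lit 0) (nat_lit 0) (XT.nd (nat_lit 78) (nat_lit 0) (nat_lit 0) (XT.lf (nat_lit 0) (nat_lit 75223091327) (nat_lit 152) (nat_lit 63022515173) (nat_lit 0) (nat_lit 64685217987) (nat_lit 2) (nat_lit 5) (nat_lit 4) (nat_lit 4) (nat_lit 2) (nat_lit 4) (nat_lit 343) (nat_lit 223) (nat_lit 154)) (XT.lf (nat_lit 0) (nat_lit 81226478567) (nat_lit 152) (nat_lit 61038420107) (nat_lit 0) (nat_lit 70670669292) (nat_lit 2) (nat_lit 5) (nat_lit 4) (nat_lit 4) (nat_lit 2) (nat_lit 4) (nat_lit 344) (nat_lit 223) (nat_lit 153)))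 (XT.nd (nat_lit 78) (nat_lit 0) (nat_lit 0) (XT.lf (nat_lit 0) (nat_lit 87521655000) (nat_lit 152) (nat_lit 58970555958) (nat_lit 0) (nat_lit 76948763882) (nat_lit 2) (nat_lit 5) (nat_lit 4) (nat_lit 4) (nat_lit 2) (nat_lit 4) (nat_lit 345) (nat_lit 223) (nat_lit 152)) (XT.nd (nat_lit 78) (nat_lit 0) (nat_lit 0) (XT.lf (nat_lit 0) (nat_lit 94123609142) (nat_lit 152) (nat_lit 56813999239) (nat_lit 0) (nat_lit 83534449602) (nat_lit 2) (nat_lit 5) (nat_lit 4) (nat_lit 4) (nat_lit 2) (nat_lit 4) (nat_lit 346) (nat_lit 223) (nat_lit 151)) (XT.lf (nat_lit 0) (nat_lit 101048059932) (nat_lit 152) (nat_lit 54563615291) (nat_lit 0) (nat_lit 90443406657) (nat_lit 2) (nat_lit 5) (nat_lit 4) (nat_lit 4) (nat_lit 2) (nat_lit 4) (nat_lit 347) (nat_lit 223) (nat_lit 150))))))))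
noncomputable def xc60 : XT := (XT.nd (nat_lit 31668) (nat_lit 0) (nat_lit 684) (XT.nd (nat_lit 624) (nat_lit 0) (nat_lit 0) (XT.nd (nat_lit 312) (nat_lit 0) (nat_lit 0) (XT.nd (nat_lit 156) (nat_lit 0) (nat_lit 0) (XT.nd (nat_lit 78) (nat_lit 0) (nat_lit 0) (XT.lf (nat_lit 0) (nat_lit 108311494157) (nat_lit 152) (nat_lit 52214046057) (nat_lit 0) (nat_lit 97692084943) (nat_lit 2) (nat_lit 5) (nat_lit 4) (nat_lit 4) (nat_lit 2) (nat_lit 4) (nat_lit 348) (nat_lit 223) (nat_lit 149)) (XT.lf (nat_lit 0) (nat_lit 115931205708) (nat_lit 152) (nat_lit 49759697325) (nat_lit 0) (nat_lit 105297743219) (nat_lit 2) (nat_lit 5) (nat_lit 4) (nat_lit 4) (nat_lit 2) (nat_lit 4) (nat_lit 349) (nat_lit 223) (nat_lit 148))) (XT.nd (nat_lit 78) (nat_lit 0) (nat_lit 0) (XT.lf (nat_lit 0) (nat_lit 123925336755) (nat_lit 152) (nat_lit 47194725407) (nat_lit 0) (nat_lit 113278490196) (nat_lit 2) (nat_lit 5)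 (nat_lit 4) (nat_lit 4) (nat_lit 2) (nat_lit 4) (nat_lit 350) (nat_lit 223) (nat_lit 147)) (XT.lf (nat_lit 0) (nat_lit 132312920945) (nat_lit 152) (nat_lit 44513023228) (nat_lit 0) (nat_lit 121653327651) (nat_lit 2) (nat_lit 5) (nat_lit 4) (nat_lit 4) (nat_lit 2) (nat_lit 4) (nat_lit 351) (nat_lit 223) (nat_lit 146)))) (XT.nd (nat_lit 156) (nat_lit 0) (nat_lit 0) (XT.nd (nat_lit 78) (nat_lit 0) (nat_lit 0) (XT.lf (nat_lit 0) (nat_lit 141113928714) (nat_lit 152) (nat_lit 41708205781) (nat_lit 0) (nat_lit 130442195673) (nat_lit 2) (nat_lit 5) (nat_lit 4) (nat_lit 4) (nat_lit 2) (nat_lit 4) (nat_lit 352) (nat_lit 223) (nat_lit 145)) (XT.lf (nat_lit 0) (nat_lit 150349314845) (nat_lit 152) (nat_lit 38773594931) (nat_lit 0) (nat_lit 139666020140) (nat_lit 2) (nat_lit 5) (nat_lit 4) (nat_lit 4) (nat_lit 2) (nat_lit 4) (nat_lit 353) (nat_lit 223) (nat_lit 144))) (XT.nd (nat_lit 78) (nat_lit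 0) (nat_lit 0) (XT.lf (nat_lit 0) (nat_lit 160041068350) (nat_lit 152) (nat_lit 35702203508) (nat_lit 0) (nat_lit 149346762537) (nat_lit 2) (nat_lit 5) (nat_lit 4) (nat_lit 4) (nat_lit 2) (nat_lit 4) (nat_lit 354) (nat_lit 223) (nat_lit 143)) (XT.lf (nat_lit 0) (nat_lit 170212264835) (nat_lit 152) (nat_lit 32486718676) (nat_lit 0) (nat_lit 159507472252) (nat_lit 2) (nat_lit 5) (nat_lit 4) (nat_lit 4) (nat_lit 2) (nat_lit 4) (nat_lit 355) (nat_lit 223) (nat_lit 142))))) (XT.nd (nat_lit 312) (nat_lit 0) (nat_lit 0) (XT.nd (nat_lit 156) (nat_lit 0) (nat_lit 0) (XT.nd (nat_lit 78) (nat_lit 0) (nat_lit 0) (XT.lf (nat_lit 0) (nat_lit 180887121433) (nat_lit 152) (nat_lit 29119484518) (nat_lit 0) (nat_lit 170172341450) (nat_lit 2) (nat_lit 5) (nat_lit 4) (nat_lit 4) (nat_lit 2) (nat_lit 4) (nat_lit 356) (nat_lit 223) (nat_lit 141)) (XT.lf (nat_lit 0) (nat_lit 192091054470) (nat_lit 152) (nat_lit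 25592483811) (nat_lit 0) (nat_lit 181366762678) (nat_lit 2) (nat_lit 5) (nat_lit 4) (nat_lit 4) (nat_lit 2) (nat_lit 4) (nat_lit 357) (nat_lit 223) (nat_lit 140))) (XT.nd (nat_lit 78) (nat_lit 0) (nat_lit 0) (XT.lf (nat_lit 0) (nat_lit 203850739976) (nat_lit 152) (nat_lit 21897318934) (nat_lit 0) (nat_lit 193117389318) (nat_lit 2) (nat_lit 5) (nat_lit 4) (nat_lit 4) (nat_lit 2) (nat_lit 4) (nat_lit 358) (nat_lit 223) (nat_lit 139)) (XT.lf (nat_lit 0) (nat_lit 216194177204) (nat_lit 152) (nat_lit 18025191875) (nat_lit 0) (nat_lit 205452199054) (nat_lit 2) (nat_lit 5) (nat_lit 4) (nat_lit 4) (nat_lit 2) (nat_lit 4) (nat_lit 359) (nat_lit 223) (nat_lit 138)))) (XT.nd (nat_lit 156) (nat_lit 0) (nat_lit 0) (XT.nd (nat_lit 78) (nat_lit 0) (nat_lit 0) (XT.lf (nat_lit 0) (nat_lit 229150755288) (nat_lit 152) (nat_lit 13966883283) (nat_lit 0) (nat_lit 218400560480) (nat_lit 2) (nat_lit 5) (nat_lit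 4) (nat_lit 4) (nat_lit 2) (nat_lit 4) (nat_lit 360) (nat_lit 223) (nat_lit 137)) (XT.lf (nat_lit 0) (nat_lit 242751323225) (nat_lit 152) (nat_lit 9712730520) (nat_lit 0) (nat_lit 231993303028) (nat_lit 2) (nat_lit 5) (nat_lit 4) (nat_lit 4) (nat_lit 2) (nat_lit 4) (nat_lit 361) (nat_lit 223) (nat_lit 136))) (XT.nd (nat_lit 78) (nat_lit 0) (nat_lit 0) (XT.lf (nat_lit 0) (nat_lit 257028263320) (nat_lit 152) (nat_lit 5252604651) (nat_lit 0) (nat_lit 246262790371) (nat_lit 2) (nat_lit 5) (nat_lit 4) (nat_lit 4) (nat_lit 2) (nat_lit 4) (nat_lit 362) (nat_lit 223) (nat_lit 135)) (XT.nd (nat_lit 30420) (nat_lit 0) (nat_lit 2204) (XT.lf (nat_lit 0) (nat_lit 272015568286) (nat_lit 152) (nat_lit 575886327) (nat_lit 0) (nat_lit 261242997478) (nat_lit 2) (nat_lit 5) (nat_lit 4) (nat_lit 4) (nat_lit 2) (nat_lit 4) (nat_lit 363) (nat_lit 223) (nat_lit 134)) (XT.lf (nat_lit 0) (nat_lit 1611513270)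 (nat_lit 228) (nat_lit 1739811121) (nat_lit 228) (nat_lit 1739811121) (nat_lit 31) (nat_lit 4) (nat_lit 34) (nat_lit 5) (nat_lit 34) (nat_lit 4) (nat_lit 272) (nat_lit 224) (nat_lit 224))))))) (XT.nd (nat_lit 702) (nat_lit 608) (nat_lit 0) (XT.nd (nat_lit 312) (nat_lit 532) (nat_lit 0) (XT.nd (nat_lit 156) (nat_lit 152) (nat_lit 0) (XT.nd (nat_lit 78) (nat_lit 152) (nat_lit 0) (XT.lf (nat_lit 0) (nat_lit 50156948) (nat_lit 304) (nat_lit 703464695) (nat_lit 76) (nat_lit 9711152495) (nat_lit 30) (nat_lit 5) (nat_lit 34) (nat_lit 5) (nat_lit 31) (nat_lit 4) (nat_lit 273) (nat_lit 224) (nat_lit 223)) (XT.lf (nat_lit 0) (nat_lit 3625384735) (nat_lit 228) (nat_lit 5008012140) (nat_lit 0) (nat_lit 2126167320) (nat_lit 28) (nat_lit 5) (nat_lit 31) (nat_lit 4) (nat_lit 28) (nat_lit 4) (nat_lit 274) (nat_lit 224) (nat_lit 222))) (XT.nd (nat_lit 78) (nat_lit 0) (nat_lit 0) (XT.lf (nat_lit 0) (nat_lit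 1306063954) (nat_lit 152) (nat_lit 5981808476) (nat_lit 152) (nat_lit 3786090520) (nat_lit 26) (nat_lit 4) (nat_lit 28) (nat_lit 5) (nat_lit 28) (nat_lit 4) (nat_lit 275) (nat_lit 224) (nat_lit 221)) (XT.lf (nat_lit 0) (nat_lit 7904639784) (nat_lit 152) (nat_lit 3180593179) (nat_lit 152) (nat_lit 321541374) (nat_lit 26) (nat_lit 4) (nat_lit 28) (nat_lit 5) (nat_lit 28) (nat_lit 4) (nat_lit 276) (nat_lit 224) (nat_lit 220)))) (XT.nd (nat_lit 156) (nat_lit 304) (nat_lit 0) (XT.nd (nat_lit 78) (nat_lit 0) (nat_lit 0) (XT.lf (nat_lit 0) (nat_lit 2918732894) (nat_lit 152) (nat_lit 207867701) (nat_lit 228) (nat_lit 8631465705) (nat_lit 23) (nat_lit 5) (nat_lit 25) (nat_lit 5) (nat_lit 26) (nat_lit 4) (nat_lit 277) (nat_lit 224) (nat_lit 219)) (XT.lf (nat_lit 0) (nat_lit 6715024064) (nat_lit 228) (nat_lit 2595501690) (nat_lit 0) (nat_lit 2817441509) (nat_lit 23) (nat_lit 5) (nat_lit 26) (nat_lit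 4) (nat_lit 23) (nat_lit 4) (nat_lit 278) (nat_lit 224) (nat_lit 218))) (XT.nd (nat_lit 78) (nat_lit 152) (nat_lit 0) (XT.lf (nat_lit 0) (nat_lit 3889169773) (nat_lit 152) (nat_lit 6536789196) (nat_lit 152) (nat_lit 2093480242) (nat_lit 21) (nat_lit 4) (nat_lit 23) (nat_lit 5) (nat_lit 23) (nat_lit 4) (nat_lit 279) (nat_lit 224) (nat_lit 217)) (XT.nd (nat_lit 78) (nat_lit 76) (nat_lit 0) (XT.lf (nat_lit 0) (nat_lit 1271700289) (nat_lit 228) (nat_lit 2356062787) (nat_lit 76) (nat_lit 9305629306) (nat_lit 20) (nat_lit 5) (nat_lit 23) (nat_lit 5) (nat_lit 21) (nat_lit 4) (nat_lit 280) (nat_lit 224) (nat_lit 216)) (XT.lf (nat_lit 0) (nat_lit 4145937719) (nat_lit 76) (nat_lit 538928637) (nat_lit 152) (nat_lit 8684155902) (nat_lit 19) (nat_lit 5) (nat_lit 20) (nat_lit 5) (nat_lit 21) (nat_lit 4) (nat_lit 281) (nat_lit 224) (nat_lit 215)))))) (XT.nd (nat_lit 312) (nat_lit 304) (nat_lit 0)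 (XT.nd (nat_lit 156) (nat_lit 152) (nat_lit 0) (XT.nd (nat_lit 78) (nat_lit 152) (nat_lit 0) (XT.lf (nat_lit 0) (nat_lit 8238366373) (nat_lit 152) (nat_lit 2998508879) (nat_lit 0) (nat_lit 2591264187) (nat_lit 19) (nat_lit 5) (nat_lit 21) (nat_lit 4) (nat_lit 19) (nat_lit 4) (nat_lit 282) (nat_lit 224) (nat_lit 214)) (XT.lf (nat_lit 0) (nat_lit 3462098806) (nat_lit 152) (nat_lit 8462614374) (nat_lit 152) (nat_lit 2387921275) (nat_lit 17) (nat_lit 4) (nat_lit 19) (nat_lit 5) (nat_lit 19) (nat_lit 4) (nat_lit 283) (nat_lit 224) (nat_lit 213))) (XT.nd (nat_lit 78) (nat_lit 76) (nat_lit 0) (XT.lf (nat_lit 0) (nat_lit 887260788) (nat_lit 228) (nat_lit 4663037923) (nat_lit 76) (nat_lit 9273238302) (nat_lit 16) (nat_lit 5) (nat_lit 19) (nat_lit 5) (nat_lit 17) (nat_lit 4) (nat_lit 284) (nat_lit 224) (nat_lit 212)) (XT.lf (nat_lit 0) (nat_lit 1678878871) (nat_lit 76) (nat_lit 2491188921) (nat_lit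 152) (nat_lit 11191909791) (nat_lit 15) (nat_lit 5) (nat_lit 16) (nat_lit 5) (nat_lit 17) (nat_lit 4) (nat_lit 285) (nat_lit 224) (nat_lit 211)))) (XT.nd (nat_lit 156) (nat_lit 304) (nat_lit 0) (XT.nd (nat_lit 78) (nat_lit 0) (nat_lit 0) (XT.lf (nat_lit 0) (nat_lit 7607650866) (nat_lit 152) (nat_lit 7607063988) (nat_lit 0) (nat_lit 713242093) (nat_lit 15) (nat_lit 5) (nat_lit 17) (nat_lit 4) (nat_lit 15) (nat_lit 4) (nat_lit 286) (nat_lit 224) (nat_lit 210)) (XT.lf (nat_lit 0) (nat_lit 11161871696) (nat_lit 152) (nat_lit 1430832875) (nat_lit 0) (nat_lit 3932434254) (nat_lit 15) (nat_lit 5) (nat_lit 17) (nat_lit 4) (nat_lit 15) (nat_lit 4) (nat_lit 287) (nat_lit 224) (nat_lit 209))) (XT.nd (nat_lit 78) (nat_lit 152) (nat_lit 0) (XT.lf (nat_lit 0) (nat_lit 5061183868) (nat_lit 152) (nat_lit 9820133668) (nat_lit 152) (nat_lit 2271621303) (nat_lit 13) (nat_lit 4) (nat_lit 15) (nat_lit 5)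 (nat_lit 15) (nat_lit 4) (nat_lit 288) (nat_lit 224) (nat_lit 208)) (XT.nd (nat_lit 78) (nat_lit 76) (nat_lit 0) (XT.lf (nat_lit 0) (nat_lit 876921403) (nat_lit 228) (nat_lit 6054704366) (nat_lit 76) (nat_lit 10883189078) (nat_lit 12) (nat_lit 5) (nat_lit 15) (nat_lit 5) (nat_lit 13) (nat_lit 4) (nat_lit 289) (nat_lit 224) (nat_lit 207)) (XT.lf (nat_lit 0) (nat_lit 101984895) (nat_lit 76) (nat_lit 3919375348) (nat_lit 152) (nat_lit 14490938302) (nat_lit 11) (nat_lit 5) (nat_lit 12) (nat_lit 5) (nat_lit 13) (nat_lit 4) (nat_lit 290) (nat_lit 224) (nat_lit 206))))))))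
noncomputable def xc61 : XT := (XT.nd (nat_lit 1326) (nat_lit 152) (nat_lit 0) (XT.nd (nat_lit 624) (nat_lit 228) (nat_lit 0) (XT.nd (nat_lit 312) (nat_lit 152) (nat_lit 0) (XT.nd (nat_lit 156) (nat_lit 76) (nat_lit 0) (XT.nd (nat_lit 78) (nat_lit 0) (nat_lit 0) (XT.lf (nat_lit 0) (nat_lit 6630866889) (nat_lit 76) (nat_lit 709766968) (nat_lit 152) (nat_lit 11903252781) (nat_lit 11) (nat_lit 5) (nat_lit 12) (nat_lit 5) (nat_lit 13) (nat_lit 4) (nat_lit 291) (nat_lit 224) (nat_lit 205)) (XT.lf (nat_lit 0) (nat_lit 10785617983) (nat_lit 152) (nat_lit 6709542352) (nat_lit 0) (nat_lit 2519012032) (nat_lit 11) (nat_lit 5) (nat_lit 13) (nat_lit 4) (nat_lit 11) (nat_lit 4) (nat_lit 292) (nat_lit 224) (nat_lit 204))) (XT.nd (nat_lit 78) (nat_lit 76) (nat_lit 0) (XT.lf (nat_lit 0) (nat_lit 14336593268) (nat_lit 152) (nat_lit 657903865) (nat_lit 0) (nat_lit 5831888696) (nat_lit 11) (nat_lit 5)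 (nat_lit 13) (nat_lit 4) (nat_lit 11) (nat_lit 4) (nat_lit 293) (nat_lit 224) (nat_lit 203)) (XT.lf (nat_lit 0) (nat_lit 5751468742) (nat_lit 76) (nat_lit 12329260767) (nat_lit 76) (nat_lit 3597795605) (nat_lit 10) (nat_lit 4) (nat_lit 11) (nat_lit 5) (nat_lit 11) (nat_lit 4) (nat_lit 294) (nat_lit 224) (nat_lit 202)))) (XT.nd (nat_lit 156) (nat_lit 76) (nat_lit 0) (XT.nd (nat_lit 78) (nat_lit 76) (nat_lit 0) (XT.lf (nat_lit 0) (nat_lit 12377299725) (nat_lit 76) (nat_lit 9573282491) (nat_lit 76) (nat_lit 625854861) (nat_lit 10) (nat_lit 4) (nat_lit 11) (nat_lit 5) (nat_lit 11) (nat_lit 4) (nat_lit 295) (nat_lit 224) (nat_lit 201)) (XT.lf (nat_lit 0) (nat_lit 2344445829) (nat_lit 152) (nat_lit 4346992218) (nat_lit 76) (nat_lit 16829461442) (nat_lit 9) (nat_lit 5) (nat_lit 11) (nat_lit 5) (nat_lit 10) (nat_lit 4) (nat_lit 296) (nat_lit 224) (nat_lit 200))) (XT.nd (nat_lit 78) (nat_lit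 0) (nat_lit 0) (XT.lf (nat_lit 0) (nat_lit 1725369674) (nat_lit 76) (nat_lit 3676757236) (nat_lit 152) (nat_lit 19112028988) (nat_lit 8) (nat_lit 5) (nat_lit 9) (nat_lit 5) (nat_lit 10) (nat_lit 4) (nat_lit 297) (nat_lit 224) (nat_lit 199)) (XT.lf (nat_lit 0) (nat_lit 8136807024) (nat_lit 76) (nat_lit 483853471) (nat_lit 152) (nat_lit 16936091238) (nat_lit 8) (nat_lit 5) (nat_lit 9) (nat_lit 5) (nat_lit 10) (nat_lit 4) (nat_lit 298) (nat_lit 224) (nat_lit 198))))) (XT.nd (nat_lit 312) (nat_lit 152) (nat_lit 0) (XT.nd (nat_lit 156) (nat_lit 76) (nat_lit 0) (XT.nd (nat_lit 78) (nat_lit 0) (nat_lit 0) (XT.lf (nat_lit 0) (nat_lit 11981644710) (nat_lit 152) (nat_lit 11939868771) (nat_lit 0) (nat_lit 2730959139) (nat_lit 8) (nat_lit 5) (nat_lit 10) (nat_lit 4) (nat_lit 8) (nat_lit 4) (nat_lit 299) (nat_lit 224) (nat_lit 197)) (XT.lf (nat_lit 0) (nat_lit 15458358323) (nat_lit 152) (nat_lit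 6300787035) (nat_lit 0) (nat_lit 6046518234) (nat_lit 8) (nat_lit 5) (nat_lit 10) (nat_lit 4) (nat_lit 8) (nat_lit 4) (nat_lit 300) (nat_lit 224) (nat_lit 196))) (XT.nd (nat_lit 78) (nat_lit 76) (nat_lit 0) (XT.lf (nat_lit 0) (nat_lit 19051524918) (nat_lit 152) (nat_lit 481718810) (nat_lit 0) (nat_lit 9486204335) (nat_lit 8) (nat_lit 5) (nat_lit 10) (nat_lit 4) (nat_lit 8) (nat_lit 4) (nat_lit 301) (nat_lit 224) (nat_lit 195)) (XT.lf (nat_lit 0) (nat_lit 5714076978) (nat_lit 76) (nat_lit 17144835428) (nat_lit 76) (nat_lit 7433342947) (nat_lit 7) (nat_lit 4) (nat_lit 8) (nat_lit 5) (nat_lit 8) (nat_lit 4) (nat_lit 302) (nat_lit 224) (nat_lit 194)))) (XT.nd (nat_lit 156) (nat_lit 152) (nat_lit 0) (XT.nd (nat_lit 78) (nat_lit 0) (nat_lit 0) (XT.lf (nat_lit 0) (nat_lit 12140841072) (nat_lit 76) (nat_lit 14670446804) (nat_lit 76) (nat_lit 4819742990) (nat_lit 7) (nat_lit 4) (nat_lit 8) (nat_lit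 5) (nat_lit 8) (nat_lit 4) (nat_lit 303) (nat_lit 224) (nat_lit 193)) (XT.lf (nat_lit 0) (nat_lit 18797947489) (nat_lit 76) (nat_lit 12112344594) (nat_lit 76) (nat_lit 2129058559) (nat_lit 7) (nat_lit 4) (nat_lit 8) (nat_lit 5) (nat_lit 8) (nat_lit 4) (nat_lit 304) (nat_lit 224) (nat_lit 192))) (XT.nd (nat_lit 78) (nat_lit 76) (nat_lit 0) (XT.lf (nat_lit 0) (nat_lit 624468972) (nat_lit 152) (nat_lit 8829393422) (nat_lit 76) (nat_lit 25066201828) (nat_lit 6) (nat_lit 5) (nat_lit 8) (nat_lit 5) (nat_lit 7) (nat_lit 4) (nat_lit 305) (nat_lit 224) (nat_lit 191)) (XT.nd (nat_lit 78) (nat_lit 76) (nat_lit 0) (XT.lf (nat_lit 0) (nat_lit 3397065744) (nat_lit 152) (nat_lit 3265826023) (nat_lit 76) (nat_lit 29412577789) (nat_lit 6) (nat_lit 5) (nat_lit 8) (nat_lit 5) (nat_lit 7) (nat_lit 4) (nat_lit 306) (nat_lit 224) (nat_lit 190)) (XT.lf (nat_lit 0) (nat_lit 2578308164) (nat_lit 76) (nat_lit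 3725422796) (nat_lit 152) (nat_lit 31405188326) (nat_lit 5) (nat_lit 5) (nat_lit 6) (nat_lit 5) (nat_lit 7) (nat_lit 4) (nat_lit 307) (nat_lit 224) (nat_lit 189))))))) (XT.nd (nat_lit 702) (nat_lit 76) (nat_lit 0) (XT.nd (nat_lit 312) (nat_lit 76) (nat_lit 0) (XT.nd (nat_lit 156) (nat_lit 0) (nat_lit 0) (XT.nd (nat_lit 78) (nat_lit 0) (nat_lit 0) (XT.lf (nat_lit 0) (nat_lit 8749190100) (nat_lit 76) (nat_lit 617934839) (nat_lit 152) (nat_lit 30056390656) (nat_lit 5) (nat_lit 5) (nat_lit 6) (nat_lit 5) (nat_lit 7) (nat_lit 4) (nat_lit 308) (nat_lit 224) (nat_lit 188)) (XT.lf (nat_lit 0) (nat_lit 12582642234) (nat_lit 152) (nat_lit 26113220557) (nat_lit 0) (nat_lit 2528073028) (nat_lit 5) (nat_lit 5) (nat_lit 7) (nat_lit 4) (nat_lit 5) (nat_lit 4) (nat_lit 309) (nat_lit 224) (nat_lit 187))) (XT.nd (nat_lit 78) (nat_lit 0) (nat_lit 0) (XT.lf (nat_lit 0) (nat_lit 15928740602) (nat_lit 152)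 (nat_lit 21407238295) (nat_lit 0) (nat_lit 5779947686) (nat_lit 5) (nat_lit 5) (nat_lit 7) (nat_lit 4) (nat_lit 5) (nat_lit 4) (nat_lit 310) (nat_lit 224) (nat_lit 186)) (XT.lf (nat_lit 0) (nat_lit 19403739248) (nat_lit 152) (nat_lit 16535526295) (nat_lit 0) (nat_lit 9165209466) (nat_lit 5) (nat_lit 5) (nat_lit 7) (nat_lit 4) (nat_lit 5) (nat_lit 4) (nat_lit 311) (nat_lit 224) (nat_lit 185)))) (XT.nd (nat_lit 156) (nat_lit 76) (nat_lit 0) (XT.nd (nat_lit 78) (nat_lit 0) (nat_lit 0) (XT.lf (nat_lit 0) (nat_lit 23015911980) (nat_lit 152) (nat_lit 11486485245) (nat_lit 0) (nat_lit 12691918516) (nat_lit 5) (nat_lit 5) (nat_lit 7) (nat_lit 4) (nat_lit 5) (nat_lit 4) (nat_lit 312) (nat_lit 224) (nat_lit 184)) (XT.lf (nat_lit 0) (nat_lit 26773859208) (nat_lit 152) (nat_lit 6248093617) (nat_lit 0) (nat_lit 16368471762) (nat_lit 5) (nat_lit 5) (nat_lit 7) (nat_lit 4) (nat_lit 5) (nat_lit 4)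 (nat_lit 313) (nat_lit 224) (nat_lit 183))) (XT.nd (nat_lit 78) (nat_lit 76) (nat_lit 0) (XT.lf (nat_lit 0) (nat_lit 30686528427) (nat_lit 152) (nat_lit 807879051) (nat_lit 0) (nat_lit 20203622902) (nat_lit 5) (nat_lit 5) (nat_lit 7) (nat_lit 4) (nat_lit 5) (nat_lit 4) (nat_lit 314) (nat_lit 224) (nat_lit 182)) (XT.nd (nat_lit 78) (nat_lit 0) (nat_lit 0) (XT.lf (nat_lit 0) (nat_lit 5007378736) (nat_lit 76) (nat_lit 29834035993) (nat_lit 76) (nat_lit 19277303727) (nat_lit 4) (nat_lit 4) (nat_lit 5) (nat_lit 5) (nat_lit 5) (nat_lit 4) (nat_lit 315) (nat_lit 224) (nat_lit 181)) (XT.lf (nat_lit 0) (nat_lit 11085135396) (nat_lit 76) (nat_lit 28101621550) (nat_lit 76) (nat_lit 17474578102) (nat_lit 4) (nat_lit 4) (nat_lit 5) (nat_lit 5) (nat_lit 5) (nat_lit 4) (nat_lit 316) (nat_lit 224) (nat_lit 180)))))) (XT.nd (nat_lit 312) (nat_lit 76) (nat_lit 0) (XT.nd (nat_lit 156) (nat_lit 0) (nat_lit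 0) (XT.nd (nat_lit 78) (nat_lit 0) (nat_lit 0) (XT.lf (nat_lit 0) (nat_lit 17413149646) (nat_lit 76) (nat_lit 26306721176) (nat_lit 76) (nat_lit 15612714697) (nat_lit 4) (nat_lit 4) (nat_lit 5) (nat_lit 5) (nat_lit 5) (nat_lit 4) (nat_lit 317) (nat_lit 224) (nat_lit 179)) (XT.lf (nat_lit 0) (nat_lit 24006488188) (nat_lit 76) (nat_lit 24445061299) (nat_lit 76) (nat_lit 13687280504) (nat_lit 4) (nat_lit 4) (nat_lit 5) (nat_lit 5) (nat_lit 5) (nat_lit 4) (nat_lit 318) (nat_lit 224) (nat_lit 178))) (XT.nd (nat_lit 78) (nat_lit 0) (nat_lit 0) (XT.lf (nat_lit 0) (nat_lit 30880849445) (nat_lit 76) (nat_lit 22512209394) (nat_lit 76) (nat_lit 11693691156) (nat_lit 4) (nat_lit 4) (nat_lit 5) (nat_lit 5) (nat_lit 5) (nat_lit 4) (nat_lit 319) (nat_lit 224) (nat_lit 177)) (XT.lf (nat_lit 0) (nat_lit 38052600946) (nat_lit 76) (nat_lit 20503563434) (nat_lit 76) (nat_lit 9627200012) (nat_lit 4) (nat_lit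 4) (nat_lit 5) (nat_lit 5) (nat_lit 5) (nat_lit 4) (nat_lit 320) (nat_lit 224) (nat_lit 176)))) (XT.nd (nat_lit 156) (nat_lit 76) (nat_lit 0) (XT.nd (nat_lit 78) (nat_lit 0) (nat_lit 0) (XT.lf (nat_lit 0) (nat_lit 45538818289) (nat_lit 76) (nat_lit 18414340927) (nat_lit 76) (nat_lit 7482886854) (nat_lit 4) (nat_lit 4) (nat_lit 5) (nat_lit 5) (nat_lit 5) (nat_lit 4) (nat_lit 321) (nat_lit 224) (nat_lit 175)) (XT.lf (nat_lit 0) (nat_lit 53357325801) (nat_lit 76) (nat_lit 16239567536) (nat_lit 76) (nat_lit 5255646176) (nat_lit 4) (nat_lit 4) (nat_lit 5) (nat_lit 5) (nat_lit 5) (nat_lit 4) (nat_lit 322) (nat_lit 224) (nat_lit 174))) (XT.nd (nat_lit 78) (nat_lit 76) (nat_lit 0) (XT.lf (nat_lit 0) (nat_lit 61526738977) (nat_lit 76) (nat_lit 13974065228) (nat_lit 76) (nat_lit 2940175023) (nat_lit 4) (nat_lit 4) (nat_lit 5) (nat_lit 5) (nat_lit 5) (nat_lit 4) (nat_lit 323) (nat_lit 224) (nat_lit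 173)) (XT.nd (nat_lit 78) (nat_lit 76) (nat_lit 0) (XT.lf (nat_lit 0) (nat_lit 70066508798) (nat_lit 76) (nat_lit 11612439949) (nat_lit 76) (nat_lit 530960369) (nat_lit 4) (nat_lit 4) (nat_lit 5) (nat_lit 5) (nat_lit 5) (nat_lit 4) (nat_lit 324) (nat_lit 224) (nat_lit 172)) (XT.lf (nat_lit 0) (nat_lit 1914434172) (nat_lit 152) (nat_lit 7202212741) (nat_lit 76) (nat_lit 77050112011) (nat_lit 3) (nat_lit 5) (nat_lit 5) (nat_lit 5) (nat_lit 4) (nat_lit 4) (nat_lit 325) (nat_lit 224) (nat_lit 171))))))))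
noncomputable def xc62 : XT := (XT.nd (nat_lit 1326) (nat_lit 0) (nat_lit 0) (XT.nd (nat_lit 624) (nat_lit 0) (nat_lit 0) (XT.nd (nat_lit 312) (nat_lit 0) (nat_lit 0) (XT.nd (nat_lit 156) (nat_lit 0) (nat_lit 0) (XT.nd (nat_lit 78) (nat_lit 76) (nat_lit 0) (XT.lf (nat_lit 0) (nat_lit 4444912326) (nat_lit 152) (nat_lit 2057897492) (nat_lit 76) (nat_lit 83819190669) (nat_lit 3) (nat_lit 5) (nat_lit 5) (nat_lit 5) (nat_lit 4) (nat_lit 4) (nat_lit 326) (nat_lit 224) (nat_lit 170)) (XT.lf (nat_lit 0) (nat_lit 3419529889) (nat_lit 76) (nat_lit 3717351644) (nat_lit 152) (nat_lit 87546390773) (nat_lit 2) (nat_lit 5) (nat_lit 3) (nat_lit 5) (nat_lit 4) (nat_lit 4) (nat_lit 327) (nat_lit 224) (nat_lit 169))) (XT.nd (nat_lit 78) (nat_lit 0) (nat_lit 0) (XT.lf (nat_lit 0) (nat_lit 9209265381) (nat_lit 76) (nat_lit 770975854) (nat_lit 152) (nat_lit 89281542623) (nat_lit 2) (nat_lit 5) (nat_lit 3)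 (nat_lit 5) (nat_lit 4) (nat_lit 4) (nat_lit 328) (nat_lit 224) (nat_lit 168)) (XT.lf (nat_lit 0) (nat_lit 12984611304) (nat_lit 152) (nat_lit 88849087137) (nat_lit 0) (nat_lit 2234595424) (nat_lit 2) (nat_lit 5) (nat_lit 4) (nat_lit 4) (nat_lit 2) (nat_lit 4) (nat_lit 329) (nat_lit 224) (nat_lit 167)))) (XT.nd (nat_lit 156) (nat_lit 0) (nat_lit 0) (XT.nd (nat_lit 78) (nat_lit 0) (nat_lit 0) (XT.lf (nat_lit 0) (nat_lit 16135246664) (nat_lit 152) (nat_lit 87628684748) (nat_lit 0) (nat_lit 5351409904) (nat_lit 2) (nat_lit 5) (nat_lit 4) (nat_lit 4) (nat_lit 2) (nat_lit 4) (nat_lit 330) (nat_lit 224) (nat_lit 166)) (XT.lf (nat_lit 0) (nat_lit 19427611735) (nat_lit 152) (nat_lit 86376368496) (nat_lit 0) (nat_lit 8611564612) (nat_lit 2) (nat_lit 5) (nat_lit 4) (nat_lit 4) (nat_lit 2) (nat_lit 4) (nat_lit 331) (nat_lit 224) (nat_lit 165))) (XT.nd (nat_lit 78) (nat_lit 0) (nat_lit 0) (XT.lf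 (nat_lit 0) (nat_lit 22869545482) (nat_lit 152) (nat_lit 85089156676) (nat_lit 0) (nat_lit 12022821822) (nat_lit 2) (nat_lit 5) (nat_lit 4) (nat_lit 4) (nat_lit 2) (nat_lit 4) (nat_lit 332) (nat_lit 224) (nat_lit 164)) (XT.lf (nat_lit 0) (nat_lit 26469242984) (nat_lit 152) (nat_lit 83763984498) (nat_lit 0) (nat_lit 15593303576) (nat_lit 2) (nat_lit 5) (nat_lit 4) (nat_lit 4) (nat_lit 2) (nat_lit 4) (nat_lit 333) (nat_lit 224) (nat_lit 163))))) (XT.nd (nat_lit 312) (nat_lit 0) (nat_lit 0) (XT.nd (nat_lit 156) (nat_lit 0) (nat_lit 0) (XT.nd (nat_lit 78) (nat_lit 0) (nat_lit 0) (XT.lf (nat_lit 0) (nat_lit 30235274950) (nat_lit 152) (nat_lit 82397696790) (nat_lit 0) (nat_lit 19331511020) (nat_lit 2) (nat_lit 5) (nat_lit 4) (nat_lit 4) (nat_lit 2) (nat_lit 4) (nat_lit 334) (nat_lit 224) (nat_lit 162)) (XT.lf (nat_lit 0) (nat_lit 34176608124) (nat_lit 152) (nat_lit 80987040485) (nat_lit 0)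 (nat_lit 23246344648) (nat_lit 2) (nat_lit 5) (nat_lit 4) (nat_lit 4) (nat_lit 2) (nat_lit 4) (nat_lit 335) (nat_lit 224) (nat_lit 161))) (XT.nd (nat_lit 78) (nat_lit 0) (nat_lit 0) (XT.lf (nat_lit 0) (nat_lit 38302626631) (nat_lit 152) (nat_lit 79528656880) (nat_lit 0) (nat_lit 27347125493) (nat_lit 2) (nat_lit 5) (nat_lit 4) (nat_lit 4) (nat_lit 2) (nat_lit 4) (nat_lit 336) (nat_lit 224) (nat_lit 160)) (XT.lf (nat_lit 0) (nat_lit 42623154325) (nat_lit 152) (nat_lit 78019073630) (nat_lit 0) (nat_lit 31643617318) (nat_lit 2) (nat_lit 5) (nat_lit 4) (nat_lit 4) (nat_lit 2) (nat_lit 4) (nat_lit 337) (nat_lit 224) (nat_lit 159)))) (XT.nd (nat_lit 156) (nat_lit 0) (nat_lit 0) (XT.nd (nat_lit 78) (nat_lit 0) (nat_lit 0) (XT.lf (nat_lit 0) (nat_lit 47148478176) (nat_lit 152) (nat_lit 76454696492) (nat_lit 0) (nat_lit 36146049867) (nat_lit 2) (nat_lit 5) (nat_lit 4) (nat_lit 4) (nat_lit 2)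 (nat_lit 4) (nat_lit 338) (nat_lit 224) (nat_lit 158)) (XT.lf (nat_lit 0) (nat_lit 51889372767) (nat_lit 152) (nat_lit 74831800757) (nat_lit 0) (nat_lit 40865143215) (nat_lit 2) (nat_lit 5) (nat_lit 4) (nat_lit 4) (nat_lit 2) (nat_lit 4) (nat_lit 339) (nat_lit 224) (nat_lit 157))) (XT.nd (nat_lit 78) (nat_lit 0) (nat_lit 0) (XT.lf (nat_lit 0) (nat_lit 56857125939) (nat_lit 152) (nat_lit 73146522387) (nat_lit 0) (nat_lit 45812133301) (nat_lit 2) (nat_lit 5) (nat_lit 4) (nat_lit 4) (nat_lit 2) (nat_lit 4) (nat_lit 340) (nat_lit 224) (nat_lit 156)) (XT.nd (nat_lit 78) (nat_lit 0) (nat_lit 0) (XT.lf (nat_lit 0) (nat_lit 62063565679) (nat_lit 152) (nat_lit 71394848816) (nat_lit 0) (nat_lit 50998798672) (nat_lit 2) (nat_lit 5) (nat_lit 4) (nat_lit 4) (nat_lit 2) (nat_lit 4) (nat_lit 341) (nat_lit 224) (nat_lit 155)) (XT.lf (nat_lit 0) (nat_lit 67521088269) (nat_lit 152) (nat_lit 69572609392)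 (nat_lit 0) (nat_lit 56437488530) (nat_lit 2) (nat_lit 5) (nat_lit 4) (nat_lit 4) (nat_lit 2) (nat_lit 4) (nat_lit 342) (nat_lit 224) (nat_lit 154))))))) (XT.nd (nat_lit 702) (nat_lit 0) (nat_lit 0) (XT.nd (nat_lit 312) (nat_lit 0) (nat_lit 0) (XT.nd (nat_lit 156) (nat_lit 0) (nat_lit 0) (XT.nd (nat_lit 78) (nat_lit 0) (nat_lit 0) (XT.lf (nat_lit 0) (nat_lit 73242687813) (nat_lit 152) (nat_lit 67675465449) (nat_lit 0) (nat_lit 62141152139) (nat_lit 2) (nat_lit 5) (nat_lit 4) (nat_lit 4) (nat_lit 2) (nat_lit 4) (nat_lit 343) (nat_lit 224) (nat_lit 153)) (XT.lf (nat_lit 0) (nat_lit 79241987165) (nat_lit 152) (nat_lit 65698899979) (nat_lit 0) (nat_lit 68123369648) (nat_lit 2) (nat_lit 5) (nat_lit 4) (nat_lit 4) (nat_lit 2) (nat_lit 4) (nat_lit 344) (nat_lit 224) (nat_lit 152))) (XT.nd (nat_lit 78) (nat_lit 0) (nat_lit 0) (XT.lf (nat_lit 0) (nat_lit 85533270373) (nat_lit 152) (nat_lit 63638206872)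 (nat_lit 0) (nat_lit 74398384434) (nat_lit 2) (nat_lit 5) (nat_lit 4) (nat_lit 4) (nat_lit 2) (nat_lit 4) (nat_lit 345) (nat_lit 224) (nat_lit 151)) (XT.lf (nat_lit 0) (nat_lit 92131516681) (nat_lit 152) (nat_lit 61488479718) (nat_lit 0) (nat_lit 80981137007) (nat_lit 2) (nat_lit 5) (nat_lit 4) (nat_lit 4) (nat_lit 2) (nat_lit 4) (nat_lit 346) (nat_lit 224) (nat_lit 150)))) (XT.nd (nat_lit 156) (nat_lit 0) (nat_lit 0) (XT.nd (nat_lit 78) (nat_lit 0) (nat_lit 0) (XT.lf (nat_lit 0) (nat_lit 99052436201) (nat_lit 152) (nat_lit 59244600117) (nat_lit 0) (nat_lit 87887300588) (nat_lit 2) (nat_lit 5) (nat_lit 4) (nat_lit 4) (nat_lit 2) (nat_lit 4) (nat_lit 347) (nat_lit 224) (nat_lit 149)) (XT.lf (nat_lit 0) (nat_lit 106312507311) (nat_lit 152) (nat_lit 56901225499) (nat_lit 0) (nat_lit 95133318423) (nat_lit 2) (nat_lit 5) (nat_lit 4) (nat_lit 4) (nat_lit 2) (nat_lit 4) (nat_lit 348) (nat_lit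 224) (nat_lit 148))) (XT.nd (nat_lit 78) (nat_lit 0) (nat_lit 0) (XT.lf (nat_lit 0) (nat_lit 113929015895) (nat_lit 152) (nat_lit 54452776402) (nat_lit 0) (nat_lit 102736442937) (nat_lit 2) (nat_lit 5) (nat_lit 4) (nat_lit 4) (nat_lit 2) (nat_lit 4) (nat_lit 349) (nat_lit 224) (nat_lit 147)) (XT.nd (nat_lit 78) (nat_lit 0) (nat_lit 0) (XT.lf (nat_lit 0) (nat_lit 121920096499) (nat_lit 152) (nat_lit 51893423183) (nat_lit 0) (nat_lit 110714776806) (nat_lit 2) (nat_lit 5) (nat_lit 4) (nat_lit 4) (nat_lit 2) (nat_lit 4) (nat_lit 350) (nat_lit 224) (nat_lit 146)) (XT.lf (nat_lit 0) (nat_lit 130304775503) (nat_lit 152) (nat_lit 49217072146) (nat_lit 0) (nat_lit 119087316063) (nat_lit 2) (nat_lit 5) (nat_lit 4) (nat_lit 4) (nat_lit 2) (nat_lit 4) (nat_lit 351) (nat_lit 224) (nat_lit 145)))))) (XT.nd (nat_lit 312) (nat_lit 0) (nat_lit 0) (XT.nd (nat_lit 156) (nat_lit 0) (nat_lit 0) (XT.nd (nat_lit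 78) (nat_lit 0) (nat_lit 0) (XT.lf (nat_lit 0) (nat_lit 139103016430) (nat_lit 152) (nat_lit 46417351026) (nat_lit 0) (nat_lit 127873995326) (nat_lit 2) (nat_lit 5) (nat_lit 4) (nat_lit 4) (nat_lit 2) (nat_lit 4) (nat_lit 352) (nat_lit 224) (nat_lit 144)) (XT.lf (nat_lit 0) (nat_lit 148335767472) (nat_lit 152) (nat_lit 43487593819) (nat_lit 0) (nat_lit 137095735260) (nat_lit 2) (nat_lit 5) (nat_lit 4) (nat_lit 4) (nat_lit 2) (nat_lit 4) (nat_lit 353) (nat_lit 224) (nat_lit 143))) (XT.nd (nat_lit 78) (nat_lit 0) (nat_lit 0) (XT.lf (nat_lit 0) (nat_lit 158025011369) (nat_lit 152) (nat_lit 40420824914) (nat_lit 0) (nat_lit 146774492388) (nat_lit 2) (nat_lit 5) (nat_lit 4) (nat_lit 4) (nat_lit 2) (nat_lit 4) (nat_lit 354) (nat_lit 224) (nat_lit 142)) (XT.lf (nat_lit 0) (nat_lit 168193817751) (nat_lit 152) (nat_lit 37209742481) (nat_lit 0) (nat_lit 156933311369) (nat_lit 2) (nat_lit 5) (nat_lit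 4) (nat_lit 4) (nat_lit 2) (nat_lit 4) (nat_lit 355) (nat_lit 224) (nat_lit 141)))) (XT.nd (nat_lit 156) (nat_lit 0) (nat_lit 0) (XT.nd (nat_lit 78) (nat_lit 0) (nat_lit 0) (XT.lf (nat_lit 0) (nat_lit 178866398061) (nat_lit 152) (nat_lit 33846701083) (nat_lit 0) (nat_lit 167596379870) (nat_lit 2) (nat_lit 5) (nat_lit 4) (nat_lit 4) (nat_lit 2) (nat_lit 4) (nat_lit 356) (nat_lit 224) (nat_lit 140)) (XT.lf (nat_lit 0) (nat_lit 190068163204) (nat_lit 152) (nat_lit 30323693481) (nat_lit 0) (nat_lit 178789086147) (nat_lit 2) (nat_lit 5) (nat_lit 4) (nat_lit 4) (nat_lit 2) (nat_lit 4) (nat_lit 357) (nat_lit 224) (nat_lit 139))) (XT.nd (nat_lit 78) (nat_lit 0) (nat_lit 0) (XT.lf (nat_lit 0) (nat_lit 201825784050) (nat_lit 152) (nat_lit 26632331561) (nat_lit 0) (nat_lit 190538079501) (nat_lit 2) (nat_lit 5) (nat_lit 4) (nat_lit 4) (nat_lit 2) (nat_lit 4) (nat_lit 358) (nat_lit 224) (nat_lit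 138)) (XT.nd (nat_lit 78) (nat_lit 0) (nat_lit 0) (XT.lf (nat_lit 0) (nat_lit 214167254934) (nat_lit 152) (nat_lit 22763826365) (nat_lit 0) (nat_lit 202871333726) (nat_lit 2) (nat_lit 5) (nat_lit 4) (nat_lit 4) (nat_lit 2) (nat_lit 4) (nat_lit 359) (nat_lit 224) (nat_lit 137)) (XT.lf (nat_lit 0) (nat_lit 227121960310) (nat_lit 152) (nat_lit 18708967168) (nat_lit 0) (nat_lit 215818213714) (nat_lit 2) (nat_lit 5) (nat_lit 4) (nat_lit 4) (nat_lit 2) (nat_lit 4) (nat_lit 360) (nat_lit 224) (nat_lit 136))))))))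
noncomputable def xc63 : XT := (XT.nd (nat_lit 31590) (nat_lit 0) (nat_lit 380) (XT.nd (nat_lit 30888) (nat_lit 0) (nat_lit 1064) (XT.nd (nat_lit 30498) (nat_lit 0) (nat_lit 1824) (XT.nd (nat_lit 156) (nat_lit 0) (nat_lit 0) (XT.nd (nat_lit 78) (nat_lit 0) (nat_lit 0) (XT.lf (nat_lit 0) (nat_lit 240720744716) (nat_lit 152) (nat_lit 14458099543) (nat_lit 0) (nat_lit 229409545368) (nat_lit 2) (nat_lit 5) (nat_lit 4) (nat_lit 4) (nat_lit 2) (nat_lit 4) (nat_lit 361) (nat_lit 224) (nat_lit 135)) (XT.lf (nat_lit 0) (nat_lit 254995986209) (nat_lit 152) (nat_lit 10001102375) (nat_lit 0) (nat_lit 243677689002) (nat_lit 2) (nat_lit 5) (nat_lit 4) (nat_lit 4) (nat_lit 2) (nat_lit 4) (nat_lit 362) (nat_lit 224) (nat_lit 134))) (XT.nd (nat_lit 30264) (nat_lit 0) (nat_lit 2432) (XT.lf (nat_lit 0) (nat_lit 269981673459) (nat_lit 152) (nat_lit 5327363768) (nat_lit 0) (nat_lit 258656616387) (nat_lit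 2) (nat_lit 5) (nat_lit 4) (nat_lit 4) (nat_lit 2) (nat_lit 4) (nat_lit 363) (nat_lit 224) (nat_lit 133)) (XT.lf (nat_lit 0) (nat_lit 134519883) (nat_lit 228) (nat_lit 4564524453) (nat_lit 0) (nat_lit 134519883) (nat_lit 34) (nat_lit 5) (nat_lit 37) (nat_lit 4) (nat_lit 34) (nat_lit 4) (nat_lit 270) (nat_lit 225) (nat_lit 225)))) (XT.nd (nat_lit 156) (nat_lit 380) (nat_lit 0) (XT.nd (nat_lit 78) (nat_lit 228) (nat_lit 0) (XT.lf (nat_lit 0) (nat_lit 3830725852) (nat_lit 228) (nat_lit 3102963279) (nat_lit 0) (nat_lit 2984125091) (nat_lit 34) (nat_lit 5) (nat_lit 37) (nat_lit 4) (nat_lit 34) (nat_lit 4) (nat_lit 271) (nat_lit 225) (nat_lit 224)) (XT.lf (nat_lit 0) (nat_lit 3120155880) (nat_lit 228) (nat_lit 4359328350) (nat_lit 228) (nat_lit 2706441150) (nat_lit 31) (nat_lit 4) (nat_lit 34) (nat_lit 5) (nat_lit 34) (nat_lit 4) (nat_lit 272) (nat_lit 225) (nat_lit 223))) (XT.nd (nat_lit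 78) (nat_lit 304) (nat_lit 0) (XT.lf (nat_lit 0) (nat_lit 730905910) (nat_lit 304) (nat_lit 922421929) (nat_lit 76) (nat_lit 8818031999) (nat_lit 30) (nat_lit 5) (nat_lit 34) (nat_lit 5) (nat_lit 31) (nat_lit 4) (nat_lit 273) (nat_lit 225) (nat_lit 222)) (XT.nd (nat_lit 78) (nat_lit 152) (nat_lit 0) (XT.lf (nat_lit 0) (nat_lit 4221982143) (nat_lit 228) (nat_lit 5328541057) (nat_lit 0) (nat_lit 1219977748) (nat_lit 28) (nat_lit 5) (nat_lit 31) (nat_lit 4) (nat_lit 28) (nat_lit 4) (nat_lit 274) (nat_lit 225) (nat_lit 221)) (XT.lf (nat_lit 0) (nat_lit 874902297) (nat_lit 152) (nat_lit 6939488131) (nat_lit 152) (nat_lit 3274149887) (nat_lit 26) (nat_lit 4) (nat_lit 28) (nat_lit 5) (nat_lit 28) (nat_lit 4) (nat_lit 275) (nat_lit 225) (nat_lit 220)))))) (XT.nd (nat_lit 312) (nat_lit 380) (nat_lit 0) (XT.nd (nat_lit 156) (nat_lit 152) (nat_lit 0) (XT.nd (nat_lit 78) (nat_lit 152) (nat_lit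 0) (XT.lf (nat_lit 0) (nat_lit 121347246) (nat_lit 228) (nat_lit 4048322911) (nat_lit 76) (nat_lit 7254804753) (nat_lit 25) (nat_lit 5) (nat_lit 28) (nat_lit 5) (nat_lit 26) (nat_lit 4) (nat_lit 276) (nat_lit 225) (nat_lit 219)) (XT.lf (nat_lit 0) (nat_lit 2253394468) (nat_lit 152) (nat_lit 1235455575) (nat_lit 228) (nat_lit 8290301250) (nat_lit 23) (nat_lit 5) (nat_lit 25) (nat_lit 5) (nat_lit 26) (nat_lit 4) (nat_lit 277) (nat_lit 225) (nat_lit 218))) (XT.nd (nat_lit 78) (nat_lit 152) (nat_lit 0) (XT.lf (nat_lit 0) (nat_lit 7002186940) (nat_lit 228) (nat_lit 3359745921) (nat_lit 0) (nat_lit 1790986139) (nat_lit 23) (nat_lit 5) (nat_lit 26) (nat_lit 4) (nat_lit 23) (nat_lit 4) (nat_lit 278) (nat_lit 225) (nat_lit 217)) (XT.lf (nat_lit 0) (nat_lit 3007305780) (nat_lit 152) (nat_lit 7635816225) (nat_lit 152) (nat_lit 1904875997) (nat_lit 21) (nat_lit 4) (nat_lit 23) (nat_lit 5) (nat_lit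 23) (nat_lit 4) (nat_lit 279) (nat_lit 225) (nat_lit 216)))) (XT.nd (nat_lit 156) (nat_lit 228) (nat_lit 0) (XT.nd (nat_lit 78) (nat_lit 76) (nat_lit 0) (XT.lf (nat_lit 0) (nat_lit 1398341906) (nat_lit 228) (nat_lit 3359329250) (nat_lit 76) (nat_lit 8207026200) (nat_lit 20) (nat_lit 5) (nat_lit 23) (nat_lit 5) (nat_lit 21) (nat_lit 4) (nat_lit 280) (nat_lit 225) (nat_lit 215)) (XT.lf (nat_lit 0) (nat_lit 3021049684) (nat_lit 76) (nat_lit 1719632669) (nat_lit 152) (nat_lit 8663278645) (nat_lit 19) (nat_lit 5) (nat_lit 20) (nat_lit 5) (nat_lit 21) (nat_lit 4) (nat_lit 281) (nat_lit 225) (nat_lit 214))) (XT.nd (nat_lit 78) (nat_lit 228) (nat_lit 0) (XT.lf (nat_lit 0) (nat_lit 8223203798) (nat_lit 152) (nat_lit 4226326260) (nat_lit 0) (nat_lit 1417185131) (nat_lit 19) (nat_lit 5) (nat_lit 21) (nat_lit 4) (nat_lit 19) (nat_lit 4) (nat_lit 282) (nat_lit 225) (nat_lit 213)) (XT.nd (nat_lit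 78) (nat_lit 76) (nat_lit 0) (XT.lf (nat_lit 0) (nat_lit 2108653481) (nat_lit 152) (nat_lit 9729723695) (nat_lit 152) (nat_lit 2516475586) (nat_lit 17) (nat_lit 4) (nat_lit 19) (nat_lit 5) (nat_lit 19) (nat_lit 4) (nat_lit 283) (nat_lit 225) (nat_lit 212)) (XT.lf (nat_lit 0) (nat_lit 713017918) (nat_lit 228) (nat_lit 6139398938) (nat_lit 76) (nat_lit 8016005060) (nat_lit 16) (nat_lit 5) (nat_lit 19) (nat_lit 5) (nat_lit 17) (nat_lit 4) (nat_lit 284) (nat_lit 225) (nat_lit 211))))))) (XT.nd (nat_lit 702) (nat_lit 304) (nat_lit 0) (XT.nd (nat_lit 312) (nat_lit 152) (nat_lit 0) (XT.nd (nat_lit 156) (nat_lit 152) (nat_lit 0) (XT.nd (nat_lit 78) (nat_lit 0) (nat_lit 0) (XT.lf (nat_lit 0) (nat_lit 72332159) (nat_lit 76) (nat_lit 3850978542) (nat_lit 152) (nat_lit 11487249960) (nat_lit 15) (nat_lit 5) (nat_lit 16) (nat_lit 5) (nat_lit 17) (nat_lit 4) (nat_lit 285) (nat_lit 225) (nat_lit 210))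 (XT.lf (nat_lit 0) (nat_lit 6648929602) (nat_lit 76) (nat_lit 654077463) (nat_lit 152) (nat_lit 8676496309) (nat_lit 15) (nat_lit 5) (nat_lit 16) (nat_lit 5) (nat_lit 17) (nat_lit 4) (nat_lit 286) (nat_lit 225) (nat_lit 209))) (XT.nd (nat_lit 78) (nat_lit 152) (nat_lit 0) (XT.lf (nat_lit 0) (nat_lit 10802379184) (nat_lit 152) (nat_lit 3219747953) (nat_lit 0) (nat_lit 2557366278) (nat_lit 15) (nat_lit 5) (nat_lit 17) (nat_lit 4) (nat_lit 15) (nat_lit 4) (nat_lit 287) (nat_lit 225) (nat_lit 208)) (XT.lf (nat_lit 0) (nat_lit 3138721537) (nat_lit 152) (nat_lit 11310577292) (nat_lit 152) (nat_lit 2761683507) (nat_lit 13) (nat_lit 4) (nat_lit 15) (nat_lit 5) (nat_lit 15) (nat_lit 4) (nat_lit 288) (nat_lit 225) (nat_lit 207)))) (XT.nd (nat_lit 156) (nat_lit 76) (nat_lit 0) (XT.nd (nat_lit 78) (nat_lit 0) (nat_lit 0) (XT.lf (nat_lit 0) (nat_lit 360211616) (nat_lit 228) (nat_lit 8099870332)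 (nat_lit 76) (nat_lit 9415332367) (nat_lit 12) (nat_lit 5) (nat_lit 15) (nat_lit 5) (nat_lit 13) (nat_lit 4) (nat_lit 289) (nat_lit 225) (nat_lit 206)) (XT.lf (nat_lit 0) (nat_lit 3462741391) (nat_lit 228) (nat_lit 2015313208) (nat_lit 76) (nat_lit 13096992941) (nat_lit 12) (nat_lit 5) (nat_lit 15) (nat_lit 5) (nat_lit 13) (nat_lit 4) (nat_lit 290) (nat_lit 225) (nat_lit 205))) (XT.nd (nat_lit 78) (nat_lit 0) (nat_lit 0) (XT.lf (nat_lit 0) (nat_lit 4379176219) (nat_lit 76) (nat_lit 2330878906) (nat_lit 152) (nat_lit 12600230000) (nat_lit 11) (nat_lit 5) (nat_lit 12) (nat_lit 5) (nat_lit 13) (nat_lit 4) (nat_lit 291) (nat_lit 225) (nat_lit 204)) (XT.nd (nat_lit 78) (nat_lit 0) (nat_lit 0) (XT.lf (nat_lit 0) (nat_lit 10091732287) (nat_lit 152) (nat_lit 9068359095) (nat_lit 0) (nat_lit 923693867) (nat_lit 11) (nat_lit 5) (nat_lit 13) (nat_lit 4) (nat_lit 11) (nat_lit 4) (nat_lit 292) (nat_lit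 225) (nat_lit 203)) (XT.lf (nat_lit 0) (nat_lit 13606520083) (nat_lit 152) (nat_lit 3079613643) (nat_lit 0) (nat_lit 4211721072) (nat_lit 11) (nat_lit 5) (nat_lit 13) (nat_lit 4) (nat_lit 11) (nat_lit 4) (nat_lit 293) (nat_lit 225) (nat_lit 202)))))) (XT.nd (nat_lit 312) (nat_lit 152) (nat_lit 0) (XT.nd (nat_lit 156) (nat_lit 76) (nat_lit 0) (XT.nd (nat_lit 78) (nat_lit 0) (nat_lit 0) (XT.lf (nat_lit 0) (nat_lit 3187807671) (nat_lit 76) (nat_lit 14088358443) (nat_lit 76) (nat_lit 4477596965) (nat_lit 10) (nat_lit 4) (nat_lit 11) (nat_lit 5) (nat_lit 11) (nat_lit 4) (nat_lit 294) (nat_lit 225) (nat_lit 201)) (XT.lf (nat_lit 0) (nat_lit 9754706624) (nat_lit 76) (nat_lit 11357568982) (nat_lit 76) (nat_lit 1541128964) (nat_lit 10) (nat_lit 4) (nat_lit 11) (nat_lit 5) (nat_lit 11) (nat_lit 4) (nat_lit 295) (nat_lit 225) (nat_lit 200))) (XT.nd (nat_lit 78) (nat_lit 0) (nat_lit 0) (XT.lf (nat_lit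 0) (nat_lit 1425763935) (nat_lit 152) (nat_lit 7089508275) (nat_lit 76) (nat_lit 15084982817) (nat_lit 9) (nat_lit 5) (nat_lit 11) (nat_lit 5) (nat_lit 10) (nat_lit 4) (nat_lit 296) (nat_lit 225) (nat_lit 199)) (XT.lf (nat_lit 0) (nat_lit 4425362133) (nat_lit 152) (nat_lit 1126888469) (nat_lit 76) (nat_lit 19044201578) (nat_lit 9) (nat_lit 5) (nat_lit 11) (nat_lit 5) (nat_lit 10) (nat_lit 4) (nat_lit 297) (nat_lit 225) (nat_lit 198)))) (XT.nd (nat_lit 156) (nat_lit 76) (nat_lit 0) (XT.nd (nat_lit 78) (nat_lit 0) (nat_lit 0) (XT.lf (nat_lit 0) (nat_lit 5193648723) (nat_lit 76) (nat_lit 2401571970) (nat_lit 152) (nat_lit 18046295930) (nat_lit 8) (nat_lit 5) (nat_lit 9) (nat_lit 5) (nat_lit 10) (nat_lit 4) (nat_lit 298) (nat_lit 225) (nat_lit 197)) (XT.lf (nat_lit 0) (nat_lit 10896872807) (nat_lit 152) (nat_lit 14990078306) (nat_lit 0) (nat_lit 853286196) (nat_lit 8) (nat_lit 5) (nat_lit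 10) (nat_lit 4) (nat_lit 8) (nat_lit 4) (nat_lit 299) (nat_lit 225) (nat_lit 196))) (XT.nd (nat_lit 78) (nat_lit 76) (nat_lit 0) (XT.lf (nat_lit 0) (nat_lit 14345594860) (nat_lit 152) (nat_lit 9400736862) (nat_lit 0) (nat_lit 4148527755) (nat_lit 8) (nat_lit 5) (nat_lit 10) (nat_lit 4) (nat_lit 8) (nat_lit 4) (nat_lit 300) (nat_lit 225) (nat_lit 195)) (XT.nd (nat_lit 78) (nat_lit 76) (nat_lit 0) (XT.lf (nat_lit 0) (nat_lit 17912102825) (nat_lit 152) (nat_lit 3629040342) (nat_lit 0) (nat_lit 7568863821) (nat_lit 8) (nat_lit 5) (nat_lit 10) (nat_lit 4) (nat_lit 8) (nat_lit 4) (nat_lit 301) (nat_lit 225) (nat_lit 194)) (XT.lf (nat_lit 0) (nat_lit 2416083137) (nat_lit 76) (nat_lit 19226527080) (nat_lit 76) (nat_lit 8744076744) (nat_lit 7) (nat_lit 4) (nat_lit 8) (nat_lit 5) (nat_lit 8) (nat_lit 4) (nat_lit 302) (nat_lit 225) (nat_lit 193))))))))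
noncomputable def xc64 : XT := (XT.nd (nat_lit 1326) (nat_lit 152) (nat_lit 0) (XT.nd (nat_lit 624) (nat_lit 76) (nat_lit 0) (XT.nd (nat_lit 312) (nat_lit 76) (nat_lit 0) (XT.nd (nat_lit 156) (nat_lit 76) (nat_lit 0) (XT.nd (nat_lit 78) (nat_lit 0) (nat_lit 0) (XT.lf (nat_lit 0) (nat_lit 8798458996) (nat_lit 76) (nat_lit 16771653502) (nat_lit 76) (nat_lit 6156620945) (nat_lit 7) (nat_lit 4) (nat_lit 8) (nat_lit 5) (nat_lit 8) (nat_lit 4) (nat_lit 303) (nat_lit 225) (nat_lit 192)) (XT.lf (nat_lit 0) (nat_lit 15413290905) (nat_lit 76) (nat_lit 14232137051) (nat_lit 76) (nat_lit 3490835712) (nat_lit 7) (nat_lit 4) (nat_lit 8) (nat_lit 5) (nat_lit 8) (nat_lit 4) (nat_lit 304) (nat_lit 225) (nat_lit 191))) (XT.nd (nat_lit 78) (nat_lit 76) (nat_lit 0) (XT.lf (nat_lit 0) (nat_lit 22276328464) (nat_lit 76) (nat_lit 11601931258) (nat_lit 76) (nat_lit 740373937) (nat_lit 7) (nat_lit 4) (nat_lit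 8) (nat_lit 5) (nat_lit 8) (nat_lit 4) (nat_lit 305) (nat_lit 225) (nat_lit 190)) (XT.lf (nat_lit 0) (nat_lit 2034057956) (nat_lit 152) (nat_lit 6806268018) (nat_lit 76) (nat_lit 27335406526) (nat_lit 6) (nat_lit 5) (nat_lit 8) (nat_lit 5) (nat_lit 7) (nat_lit 4) (nat_lit 306) (nat_lit 225) (nat_lit 189)))) (XT.nd (nat_lit 156) (nat_lit 0) (nat_lit 0) (XT.nd (nat_lit 78) (nat_lit 76) (nat_lit 0) (XT.lf (nat_lit 0) (nat_lit 4879648111) (nat_lit 152) (nat_lit 1081883920) (nat_lit 76) (nat_lit 31850725351) (nat_lit 6) (nat_lit 5) (nat_lit 8) (nat_lit 5) (nat_lit 7) (nat_lit 4) (nat_lit 307) (nat_lit 225) (nat_lit 188)) (XT.lf (nat_lit 0) (nat_lit 5016598373) (nat_lit 76) (nat_lit 2888593120) (nat_lit 152) (nat_lit 31623575109) (nat_lit 5) (nat_lit 5) (nat_lit 6) (nat_lit 5) (nat_lit 7) (nat_lit 4) (nat_lit 308) (nat_lit 225) (nat_lit 187))) (XT.nd (nat_lit 78) (nat_lit 0) (nat_lit 0) (XT.lf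 (nat_lit 0) (nat_lit 11065586780) (nat_lit 152) (nat_lit 29951245045) (nat_lit 0) (nat_lit 315130509) (nat_lit 5) (nat_lit 5) (nat_lit 7) (nat_lit 4) (nat_lit 5) (nat_lit 4) (nat_lit 309) (nat_lit 225) (nat_lit 186)) (XT.lf (nat_lit 0) (nat_lit 14392951177) (nat_lit 152) (nat_lit 25279199064) (nat_lit 0) (nat_lit 3552758040) (nat_lit 5) (nat_lit 5) (nat_lit 7) (nat_lit 4) (nat_lit 5) (nat_lit 4) (nat_lit 310) (nat_lit 225) (nat_lit 185))))) (XT.nd (nat_lit 312) (nat_lit 76) (nat_lit 0) (XT.nd (nat_lit 156) (nat_lit 0) (nat_lit 0) (XT.nd (nat_lit 78) (nat_lit 0) (nat_lit 0) (XT.lf (nat_lit 0) (nat_lit 17850107947) (nat_lit 152) (nat_lit 20439807333) (nat_lit 0) (nat_lit 6924451128) (nat_lit 5) (nat_lit 5) (nat_lit 7) (nat_lit 4) (nat_lit 5) (nat_lit 4) (nat_lit 311) (nat_lit 225) (nat_lit 184)) (XT.lf (nat_lit 0) (nat_lit 21445288415) (nat_lit 152) (nat_lit 15421547490) (nat_lit 0) (nat_lit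 10438237614) (nat_lit 5) (nat_lit 5) (nat_lit 7) (nat_lit 4) (nat_lit 5) (nat_lit 4) (nat_lit 312) (nat_lit 225) (nat_lit 183))) (XT.nd (nat_lit 78) (nat_lit 0) (nat_lit 0) (XT.lf (nat_lit 0) (nat_lit 25187052536) (nat_lit 152) (nat_lit 10212471298) (nat_lit 0) (nat_lit 14102483656) (nat_lit 5) (nat_lit 5) (nat_lit 7) (nat_lit 4) (nat_lit 5) (nat_lit 4) (nat_lit 313) (nat_lit 225) (nat_lit 182)) (XT.lf (nat_lit 0) (nat_lit 29084309270) (nat_lit 152) (nat_lit 4800176193) (nat_lit 0) (nat_lit 17925913649) (nat_lit 5) (nat_lit 5) (nat_lit 7) (nat_lit 4) (nat_lit 5) (nat_lit 4) (nat_lit 314) (nat_lit 225) (nat_lit 181)))) (XT.nd (nat_lit 156) (nat_lit 0) (nat_lit 0) (XT.nd (nat_lit 78) (nat_lit 0) (nat_lit 0) (XT.lf (nat_lit 0) (nat_lit 855609072) (nat_lit 76) (nat_lit 32304087185) (nat_lit 76) (nat_lit 21075380382) (nat_lit 4) (nat_lit 4) (nat_lit 5) (nat_lit 5) (nat_lit 5) (nat_lit 4)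 (nat_lit 315) (nat_lit 225) (nat_lit 180)) (XT.lf (nat_lit 0) (nat_lit 6907204638) (nat_lit 76) (nat_lit 30583445811) (nat_lit 76) (nat_lit 19287775977) (nat_lit 4) (nat_lit 4) (nat_lit 5) (nat_lit 5) (nat_lit 5) (nat_lit 4) (nat_lit 316) (nat_lit 225) (nat_lit 179))) (XT.nd (nat_lit 78) (nat_lit 0) (nat_lit 0) (XT.lf (nat_lit 0) (nat_lit 13210303560) (nat_lit 76) (nat_lit 28799757884) (nat_lit 76) (nat_lit 17440313734) (nat_lit 4) (nat_lit 4) (nat_lit 5) (nat_lit 5) (nat_lit 5) (nat_lit 4) (nat_lit 317) (nat_lit 225) (nat_lit 178)) (XT.nd (nat_lit 78) (nat_lit 0) (nat_lit 0) (XT.lf (nat_lit 0) (nat_lit 19779913219) (nat_lit 76) (nat_lit 26948776526) (nat_lit 76) (nat_lit 15528594933) (nat_lit 4) (nat_lit 4) (nat_lit 5) (nat_lit 5) (nat_lit 5) (nat_lit 4) (nat_lit 318) (nat_lit 225) (nat_lit 177)) (XT.lf (nat_lit 0) (nat_lit 26631675540) (nat_lit 76) (nat_lit 25026094641) (nat_lit 76)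 (nat_lit 13548067864) (nat_lit 4) (nat_lit 4) (nat_lit 5) (nat_lit 5) (nat_lit 5) (nat_lit 4) (nat_lit 319) (nat_lit 225) (nat_lit 176))))))) (XT.nd (nat_lit 702) (nat_lit 0) (nat_lit 0) (XT.nd (nat_lit 312) (nat_lit 152) (nat_lit 0) (XT.nd (nat_lit 156) (nat_lit 0) (nat_lit 0) (XT.nd (nat_lit 78) (nat_lit 0) (nat_lit 0) (XT.lf (nat_lit 0) (nat_lit 33781904244) (nat_lit 76) (nat_lit 23027134413) (nat_lit 76) (nat_lit 11494016985) (nat_lit 4) (nat_lit 4) (nat_lit 5) (nat_lit 5) (nat_lit 5) (nat_lit 4) (nat_lit 320) (nat_lit 225) (nat_lit 175)) (XT.lf (nat_lit 0) (nat_lit 41247623686) (nat_lit 76) (nat_lit 20947136415) (nat_lit 76) (nat_lit 9361551700) (nat_lit 4) (nat_lit 4) (nat_lit 5) (nat_lit 5) (nat_lit 5) (nat_lit 4) (nat_lit 321) (nat_lit 225) (nat_lit 174))) (XT.nd (nat_lit 78) (nat_lit 0) (nat_lit 0) (XT.lf (nat_lit 0) (nat_lit 49046609387) (nat_lit 76) (nat_lit 18781148268)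 (nat_lit 76) (nat_lit 7145594709) (nat_lit 4) (nat_lit 4) (nat_lit 5) (nat_lit 5) (nat_lit 5) (nat_lit 4) (nat_lit 322) (nat_lit 225) (nat_lit 173)) (XT.lf (nat_lit 0) (nat_lit 57197430361) (nat_lit 76) (nat_lit 16524012860) (nat_lit 76) (nat_lit 4840869925) (nat_lit 4) (nat_lit 4) (nat_lit 5) (nat_lit 5) (nat_lit 5) (nat_lit 4) (nat_lit 323) (nat_lit 225) (nat_lit 172)))) (XT.nd (nat_lit 156) (nat_lit 76) (nat_lit 0) (XT.nd (nat_lit 78) (nat_lit 76) (nat_lit 0) (XT.lf (nat_lit 0) (nat_lit 65719493325) (nat_lit 76) (nat_lit 14170356058) (nat_lit 76) (nat_lit 2441889907) (nat_lit 4) (nat_lit 4) (nat_lit 5) (nat_lit 5) (nat_lit 5) (nat_lit 4) (nat_lit 324) (nat_lit 225) (nat_lit 171)) (XT.lf (nat_lit 0) (nat_lit 55231013) (nat_lit 152) (nat_lit 11658407540) (nat_lit 76) (nat_lit 74576922527) (nat_lit 3) (nat_lit 5) (nat_lit 5) (nat_lit 5) (nat_lit 4) (nat_lit 4) (nat_lit 325) (nat_lit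 225) (nat_lit 170))) (XT.nd (nat_lit 78) (nat_lit 76) (nat_lit 0) (XT.lf (nat_lit 0) (nat_lit 2576723167) (nat_lit 152) (nat_lit 6530458116) (nat_lit 76) (nat_lit 81339078725) (nat_lit 3) (nat_lit 5) (nat_lit 5) (nat_lit 5) (nat_lit 4) (nat_lit 4) (nat_lit 326) (nat_lit 225) (nat_lit 169)) (XT.nd (nat_lit 78) (nat_lit 76) (nat_lit 0) (XT.lf (nat_lit 0) (nat_lit 5206745834) (nat_lit 152) (nat_lit 1178063545) (nat_lit 76) (nat_lit 88425827454) (nat_lit 3) (nat_lit 5) (nat_lit 5) (nat_lit 5) (nat_lit 4) (nat_lit 4) (nat_lit 327) (nat_lit 225) (nat_lit 168)) (XT.lf (nat_lit 0) (nat_lit 4557384740) (nat_lit 76) (nat_lit 3465329780) (nat_lit 152) (nat_lit 91367810732) (nat_lit 2) (nat_lit 5) (nat_lit 3) (nat_lit 5) (nat_lit 4) (nat_lit 4) (nat_lit 328) (nat_lit 225) (nat_lit 167)))))) (XT.nd (nat_lit 312) (nat_lit 0) (nat_lit 0) (XT.nd (nat_lit 156) (nat_lit 0) (nat_lit 0) (XT.nd (nat_lit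 78) (nat_lit 0) (nat_lit 0) (XT.lf (nat_lit 0) (nat_lit 10590565181) (nat_lit 76) (nat_lit 392487079) (nat_lit 152) (nat_lit 93216191583) (nat_lit 2) (nat_lit 5) (nat_lit 3) (nat_lit 5) (nat_lit 4) (nat_lit 4) (nat_lit 329) (nat_lit 225) (nat_lit 166)) (XT.lf (nat_lit 0) (nat_lit 14119851477) (nat_lit 152) (nat_lit 92396346624) (nat_lit 0) (nat_lit 2730791634) (nat_lit 2) (nat_lit 5) (nat_lit 4) (nat_lit 4) (nat_lit 2) (nat_lit 4) (nat_lit 330) (nat_lit 225) (nat_lit 165))) (XT.nd (nat_lit 78) (nat_lit 0) (nat_lit 0) (XT.lf (nat_lit 0) (nat_lit 17404875290) (nat_lit 152) (nat_lit 91157552443) (nat_lit 0) (nat_lit 5985138912) (nat_lit 2) (nat_lit 5) (nat_lit 4) (nat_lit 4) (nat_lit 2) (nat_lit 4) (nat_lit 331) (nat_lit 225) (nat_lit 164)) (XT.lf (nat_lit 0) (nat_lit 20839817363) (nat_lit 152) (nat_lit 89883218785) (nat_lit 0) (nat_lit 9390865236) (nat_lit 2) (nat_lit 5) (nat_lit 4) (nat_lit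 4) (nat_lit 2) (nat_lit 4) (nat_lit 332) (nat_lit 225) (nat_lit 163)))) (XT.nd (nat_lit 156) (nat_lit 0) (nat_lit 0) (XT.nd (nat_lit 78) (nat_lit 0) (nat_lit 0) (XT.lf (nat_lit 0) (nat_lit 24432856128) (nat_lit 152) (nat_lit 88570311524) (nat_lit 0) (nat_lit 12956079479) (nat_lit 2) (nat_lit 5) (nat_lit 4) (nat_lit 4) (nat_lit 2) (nat_lit 4) (nat_lit 333) (nat_lit 225) (nat_lit 162)) (XT.lf (nat_lit 0) (nat_lit 28192546440) (nat_lit 152) (nat_lit 87215704688) (nat_lit 0) (nat_lit 16689270246) (nat_lit 2) (nat_lit 5) (nat_lit 4) (nat_lit 4) (nat_lit 2) (nat_lit 4) (nat_lit 334) (nat_lit 225) (nat_lit 161))) (XT.nd (nat_lit 78) (nat_lit 0) (nat_lit 0) (XT.lf (nat_lit 0) (nat_lit 32127839943) (nat_lit 152) (nat_lit 85816173025) (nat_lit 0) (nat_lit 20599326086) (nat_lit 2) (nat_lit 5) (nat_lit 4) (nat_lit 4) (nat_lit 2) (nat_lit 4) (nat_lit 335) (nat_lit 225) (nat_lit 160)) (XT.nd (nat_lit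 78) (nat_lit 0) (nat_lit 0) (XT.lf (nat_lit 0) (nat_lit 36248106382) (nat_lit 152) (nat_lit 84368384315) (nat_lit 0) (nat_lit 24695556657) (nat_lit 2) (nat_lit 5) (nat_lit 4) (nat_lit 4) (nat_lit 2) (nat_lit 4) (nat_lit 336) (nat_lit 225) (nat_lit 159)) (XT.lf (nat_lit 0) (nat_lit 40563155917) (nat_lit 152) (nat_lit 82868891443) (nat_lit 0) (nat_lit 28987714888) (nat_lit 2) (nat_lit 5) (nat_lit 4) (nat_lit 4) (nat_lit 2) (nat_lit 4) (nat_lit 337) (nat_lit 225) (nat_lit 158))))))))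
noncomputable def xc65 : XT := (XT.nd (nat_lit 1326) (nat_lit 0) (nat_lit 0) (XT.nd (nat_lit 624) (nat_lit 0) (nat_lit 0) (XT.nd (nat_lit 312) (nat_lit 0) (nat_lit 0) (XT.nd (nat_lit 156) (nat_lit 0) (nat_lit 0) (XT.nd (nat_lit 78) (nat_lit 0) (nat_lit 0) (XT.lf (nat_lit 0) (nat_lit 45083262474) (nat_lit 152) (nat_lit 81314124188) (nat_lit 0) (nat_lit 33486020204) (nat_lit 2) (nat_lit 5) (nat_lit 4) (nat_lit 4) (nat_lit 2) (nat_lit 4) (nat_lit 338) (nat_lit 225) (nat_lit 157)) (XT.lf (nat_lit 0) (nat_lit 49819188212) (nat_lit 152) (nat_lit 79700380722) (nat_lit 0) (nat_lit 38201182855) (nat_lit 2) (nat_lit 5) (nat_lit 4) (nat_lit 4) (nat_lit 2) (nat_lit 4) (nat_lit 339) (nat_lit 225) (nat_lit 156))) (XT.nd (nat_lit 78) (nat_lit 0) (nat_lit 0) (XT.lf (nat_lit 0) (nat_lit 54782209144) (nat_lit 152) (nat_lit 78023818800) (nat_lit 0) (nat_lit 43144429419) (nat_lit 2) (nat_lit 5) (nat_lit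 4) (nat_lit 4) (nat_lit 2) (nat_lit 4) (nat_lit 340) (nat_lit 225) (nat_lit 155)) (XT.lf (nat_lit 0) (nat_lit 59984141988) (nat_lit 152) (nat_lit 76280446607) (nat_lit 0) (nat_lit 48327529530) (nat_lit 2) (nat_lit 5) (nat_lit 4) (nat_lit 4) (nat_lit 2) (nat_lit 4) (nat_lit 341) (nat_lit 225) (nat_lit 154)))) (XT.nd (nat_lit 156) (nat_lit 0) (nat_lit 0) (XT.nd (nat_lit 78) (nat_lit 0) (nat_lit 0) (XT.lf (nat_lit 0) (nat_lit 65437372298) (nat_lit 152) (nat_lit 74466113257) (nat_lit 0) (nat_lit 53762823905) (nat_lit 2) (nat_lit 5) (nat_lit 4) (nat_lit 4) (nat_lit 2) (nat_lit 4) (nat_lit 342) (nat_lit 225) (nat_lit 153)) (XT.lf (nat_lit 0) (nat_lit 71154883954) (nat_lit 152) (nat_lit 72576498909) (nat_lit 0) (nat_lit 59463253718) (nat_lit 2) (nat_lit 5) (nat_lit 4) (nat_lit 4) (nat_lit 2) (nat_lit 4) (nat_lit 343) (nat_lit 225) (nat_lit 152))) (XT.nd (nat_lit 78) (nat_lit 0) (nat_lit 0)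 (XT.lf (nat_lit 0) (nat_lit 77150290081) (nat_lit 152) (nat_lit 70607104482) (nat_lit 0) (nat_lit 65442391423) (nat_lit 2) (nat_lit 5) (nat_lit 4) (nat_lit 4) (nat_lit 2) (nat_lit 4) (nat_lit 344) (nat_lit 225) (nat_lit 151)) (XT.lf (nat_lit 0) (nat_lit 83437865455) (nat_lit 152) (nat_lit 68553240939) (nat_lit 0) (nat_lit 71714473061) (nat_lit 2) (nat_lit 5) (nat_lit 4) (nat_lit 4) (nat_lit 2) (nat_lit 4) (nat_lit 345) (nat_lit 225) (nat_lit 150))))) (XT.nd (nat_lit 312) (nat_lit 0) (nat_lit 0) (XT.nd (nat_lit 156) (nat_lit 0) (nat_lit 0) (XT.nd (nat_lit 78) (nat_lit 0) (nat_lit 0) (XT.lf (nat_lit 0) (nat_lit 90032580493) (nat_lit 152) (nat_lit 66410018132) (nat_lit 0) (nat_lit 78294432161) (nat_lit 2) (nat_lit 5) (nat_lit 4) (nat_lit 4) (nat_lit 2) (nat_lit 4) (nat_lit 346) (nat_lit 225) (nat_lit 149)) (XT.lf (nat_lit 0) (nat_lit 96950136897) (nat_lit 152) (nat_lit 64172333147) (nat_lit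 0) (nat_lit 85197935291) (nat_lit 2) (nat_lit 5) (nat_lit 4) (nat_lit 4) (nat_lit 2) (nat_lit 4) (nat_lit 347) (nat_lit 225) (nat_lit 148))) (XT.nd (nat_lit 78) (nat_lit 0) (nat_lit 0) (XT.lf (nat_lit 0) (nat_lit 104207005041) (nat_lit 152) (nat_lit 61834858164) (nat_lit 0) (nat_lit 92441419364) (nat_lit 2) (nat_lit 5) (nat_lit 4) (nat_lit 4) (nat_lit 2) (nat_lit 4) (nat_lit 348) (nat_lit 225) (nat_lit 147)) (XT.lf (nat_lit 0) (nat_lit 111820463181) (nat_lit 152) (nat_lit 59392027766) (nat_lit 0) (nat_lit 100042130770) (nat_lit 2) (nat_lit 5) (nat_lit 4) (nat_lit 4) (nat_lit 2) (nat_lit 4) (nat_lit 349) (nat_lit 225) (nat_lit 146)))) (XT.nd (nat_lit 156) (nat_lit 0) (nat_lit 0) (XT.nd (nat_lit 78) (nat_lit 0) (nat_lit 0) (XT.lf (nat_lit 0) (nat_lit 119808638600) (nat_lit 152) (nat_lit 56838025690) (nat_lit 0) (nat_lit 108018166441) (nat_lit 2) (nat_lit 5) (nat_lit 4) (nat_lit 4) (nat_lit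 2) (nat_lit 4) (nat_lit 350) (nat_lit 225) (nat_lit 145)) (XT.lf (nat_lit 0) (nat_lit 128190550761) (nat_lit 152) (nat_lit 54166770979) (nat_lit 0) (nat_lit 116388516939) (nat_lit 2) (nat_lit 5) (nat_lit 4) (nat_lit 4) (nat_lit 2) (nat_lit 4) (nat_lit 351) (nat_lit 225) (nat_lit 144))) (XT.nd (nat_lit 78) (nat_lit 0) (nat_lit 0) (XT.lf (nat_lit 0) (nat_lit 136986156600) (nat_lit 152) (nat_lit 51371903503) (nat_lit 0) (nat_lit 125173111669) (nat_lit 2) (nat_lit 5) (nat_lit 4) (nat_lit 4) (nat_lit 2) (nat_lit 4) (nat_lit 352) (nat_lit 225) (nat_lit 143)) (XT.nd (nat_lit 78) (nat_lit 0) (nat_lit 0) (XT.lf (nat_lit 0) (nat_lit 146216398034) (nat_lit 152) (nat_lit 48446768814) (nat_lit 0) (nat_lit 134392866333) (nat_lit 2) (nat_lit 5) (nat_lit 4) (nat_lit 4) (nat_lit 2) (nat_lit 4) (nat_lit 353) (nat_lit 225) (nat_lit 142)) (XT.lf (nat_lit 0) (nat_lit 155903251829) (nat_lit 152) (nat_lit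 45384402308) (nat_lit 0) (nat_lit 144069732728) (nat_lit 2) (nat_lit 5) (nat_lit 4) (nat_lit 4) (nat_lit 2) (nat_lit 4) (nat_lit 354) (nat_lit 225) (nat_lit 141))))))) (XT.nd (nat_lit 30810) (nat_lit 0) (nat_lit 1596) (XT.nd (nat_lit 312) (nat_lit 0) (nat_lit 0) (XT.nd (nat_lit 156) (nat_lit 0) (nat_lit 0) (XT.nd (nat_lit 78) (nat_lit 0) (nat_lit 0) (XT.lf (nat_lit 0) (nat_lit 166069781922) (nat_lit 152) (nat_lit 42177512634) (nat_lit 0) (nat_lit 154226751012) (nat_lit 2) (nat_lit 5) (nat_lit 4) (nat_lit 4) (nat_lit 2) (nat_lit 4) (nat_lit 355) (nat_lit 225) (nat_lit 140)) (XT.lf (nat_lit 0) (nat_lit 176740194338) (nat_lit 152) (nat_lit 38818464342) (nat_lit 0) (nat_lit 164888104562) (nat_lit 2) (nat_lit 5) (nat_lit 4) (nat_lit 4) (nat_lit 2) (nat_lit 4) (nat_lit 356) (nat_lit 225) (nat_lit 139))) (XT.nd (nat_lit 78) (nat_lit 0) (nat_lit 0) (XT.lf (nat_lit 0) (nat_lit 187939894821)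 (nat_lit 152) (nat_lit 35299259696) (nat_lit 0) (nat_lit 176079177553) (nat_lit 2) (nat_lit 5) (nat_lit 4) (nat_lit 4) (nat_lit 2) (nat_lit 4) (nat_lit 357) (nat_lit 225) (nat_lit 138)) (XT.lf (nat_lit 0) (nat_lit 199695549323) (nat_lit 152) (nat_lit 31611519640) (nat_lit 0) (nat_lit 187826615396) (nat_lit 2) (nat_lit 5) (nat_lit 4) (nat_lit 4) (nat_lit 2) (nat_lit 4) (nat_lit 358) (nat_lit 225) (nat_lit 137)))) (XT.nd (nat_lit 156) (nat_lit 0) (nat_lit 0) (XT.nd (nat_lit 78) (nat_lit 0) (nat_lit 0) (XT.lf (nat_lit 0) (nat_lit 212035147499) (nat_lit 152) (nat_lit 27746463839) (nat_lit 0) (nat_lit 200158388183) (nat_lit 2) (nat_lit 5) (nat_lit 4) (nat_lit 4) (nat_lit 2) (nat_lit 4) (nat_lit 359) (nat_lit 225) (nat_lit 136)) (XT.lf (nat_lit 0) (nat_lit 224988069343) (nat_lit 152) (nat_lit 23694889779) (nat_lit 0) (nat_lit 213103857276) (nat_lit 2) (nat_lit 5) (nat_lit 4) (nat_lit 4) (nat_lit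 2) (nat_lit 4) (nat_lit 360) (nat_lit 225) (nat_lit 135))) (XT.nd (nat_lit 78) (nat_lit 0) (nat_lit 0) (XT.lf (nat_lit 0) (nat_lit 238585155148) (nat_lit 152) (nat_lit 19447150855) (nat_lit 0) (nat_lit 226693845222) (nat_lit 2) (nat_lit 5) (nat_lit 4) (nat_lit 4) (nat_lit 2) (nat_lit 4) (nat_lit 361) (nat_lit 225) (nat_lit 134)) (XT.nd (nat_lit 30186) (nat_lit 0) (nat_lit 2888) (XT.lf (nat_lit 0) (nat_lit 252858778925) (nat_lit 152) (nat_lit 14993133404) (nat_lit 0) (nat_lit 240960709134) (nat_lit 2) (nat_lit 5) (nat_lit 4) (nat_lit 4) (nat_lit 2) (nat_lit 4) (nat_lit 362) (nat_lit 225) (nat_lit 133)) (XT.lf (nat_lit 0) (nat_lit 1760121342) (nat_lit 304) (nat_lit 1079269679) (nat_lit 0) (nat_lit 1760121342) (nat_lit 40) (nat_lit 5) (nat_lit 44) (nat_lit 4) (nat_lit 40) (nat_lit 4) (nat_lit 268) (nat_lit 226) (nat_lit 226)))))) (XT.nd (nat_lit 312) (nat_lit 608) (nat_lit 0) (XT.nd (nat_lit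 156) (nat_lit 228) (nat_lit 0) (XT.nd (nat_lit 78) (nat_lit 228) (nat_lit 0) (XT.lf (nat_lit 0) (nat_lit 3881138613) (nat_lit 228) (nat_lit 3239535378) (nat_lit 228) (nat_lit 2306158039) (nat_lit 37) (nat_lit 4) (nat_lit 40) (nat_lit 5) (nat_lit 40) (nat_lit 4) (nat_lit 269) (nat_lit 226) (nat_lit 225)) (XT.lf (nat_lit 0) (nat_lit 426281918) (nat_lit 152) (nat_lit 670591279) (nat_lit 228) (nat_lit 8573484501) (nat_lit 34) (nat_lit 5) (nat_lit 36) (nat_lit 5) (nat_lit 37) (nat_lit 4) (nat_lit 270) (nat_lit 226) (nat_lit 224))) (XT.nd (nat_lit 78) (nat_lit 228) (nat_lit 0) (XT.lf (nat_lit 0) (nat_lit 4579930261) (nat_lit 228) (nat_lit 3307098502) (nat_lit 0) (nat_lit 2038112262) (nat_lit 34) (nat_lit 5) (nat_lit 37) (nat_lit 4) (nat_lit 34) (nat_lit 4) (nat_lit 271) (nat_lit 226) (nat_lit 223)) (XT.lf (nat_lit 0) (nat_lit 2811298965) (nat_lit 228) (nat_lit 5347654013) (nat_lit 228) (nat_lit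 2037944167) (nat_lit 31) (nat_lit 4) (nat_lit 34) (nat_lit 5) (nat_lit 34) (nat_lit 4) (nat_lit 272) (nat_lit 226) (nat_lit 222)))) (XT.nd (nat_lit 156) (nat_lit 380) (nat_lit 0) (XT.nd (nat_lit 78) (nat_lit 152) (nat_lit 0) (XT.lf (nat_lit 0) (nat_lit 1313544429) (nat_lit 304) (nat_lit 1348269334) (nat_lit 76) (nat_lit 7823362579) (nat_lit 30) (nat_lit 5) (nat_lit 34) (nat_lit 5) (nat_lit 31) (nat_lit 4) (nat_lit 273) (nat_lit 226) (nat_lit 221)) (XT.lf (nat_lit 0) (nat_lit 4718546497) (nat_lit 228) (nat_lit 5863603812) (nat_lit 0) (nat_lit 206607492) (nat_lit 28) (nat_lit 5) (nat_lit 31) (nat_lit 4) (nat_lit 28) (nat_lit 4) (nat_lit 274) (nat_lit 226) (nat_lit 220))) (XT.nd (nat_lit 78) (nat_lit 228) (nat_lit 0) (XT.lf (nat_lit 0) (nat_lit 226876898) (nat_lit 152) (nat_lit 8013629184) (nat_lit 152) (nat_lit 2869943656) (nat_lit 26) (nat_lit 4) (nat_lit 28) (nat_lit 5) (nat_lit 28)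 (nat_lit 4) (nat_lit 275) (nat_lit 226) (nat_lit 219)) (XT.nd (nat_lit 78) (nat_lit 152) (nat_lit 0) (XT.lf (nat_lit 0) (nat_lit 452656309) (nat_lit 228) (nat_lit 4817403448) (nat_lit 76) (nat_lit 6179125075) (nat_lit 25) (nat_lit 5) (nat_lit 28) (nat_lit 5) (nat_lit 26) (nat_lit 4) (nat_lit 276) (nat_lit 226) (nat_lit 218)) (XT.lf (nat_lit 0) (nat_lit 1367547070) (nat_lit 152) (nat_lit 2381676672) (nat_lit 228) (nat_lit 8058296657) (nat_lit 23) (nat_lit 5) (nat_lit 25) (nat_lit 5) (nat_lit 26) (nat_lit 4) (nat_lit 277) (nat_lit 226) (nat_lit 217))))))))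
noncomputable def xc66 : XT := (XT.nd (nat_lit 1326) (nat_lit 380) (nat_lit 0) (XT.nd (nat_lit 624) (nat_lit 456) (nat_lit 0) (XT.nd (nat_lit 312) (nat_lit 228) (nat_lit 0) (XT.nd (nat_lit 156) (nat_lit 152) (nat_lit 0) (XT.nd (nat_lit 78) (nat_lit 152) (nat_lit 0) (XT.lf (nat_lit 0) (nat_lit 7188433443) (nat_lit 228) (nat_lit 4345461308) (nat_lit 0) (nat_lit 651206776) (nat_lit 23) (nat_lit 5) (nat_lit 26) (nat_lit 4) (nat_lit 23) (nat_lit 4) (nat_lit 278) (nat_lit 226) (nat_lit 216)) (XT.lf (nat_lit 0) (nat_lit 1901045432) (nat_lit 152) (nat_lit 8857497471) (nat_lit 152) (nat_lit 1825280872) (nat_lit 21) (nat_lit 4) (nat_lit 23) (nat_lit 5) (nat_lit 23) (nat_lit 4) (nat_lit 279) (nat_lit 226) (nat_lit 215))) (XT.nd (nat_lit 78) (nat_lit 76) (nat_lit 0) (XT.lf (nat_lit 0) (nat_lit 1422126524) (nat_lit 228) (nat_lit 4588276204) (nat_lit 76) (nat_lit 6992813897) (nat_lit 20) (nat_lit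 5) (nat_lit 23) (nat_lit 5) (nat_lit 21) (nat_lit 4) (nat_lit 280) (nat_lit 226) (nat_lit 214)) (XT.lf (nat_lit 0) (nat_lit 1667231000) (nat_lit 76) (nat_lit 3025372433) (nat_lit 152) (nat_lit 8753558092) (nat_lit 19) (nat_lit 5) (nat_lit 20) (nat_lit 5) (nat_lit 21) (nat_lit 4) (nat_lit 281) (nat_lit 226) (nat_lit 213)))) (XT.nd (nat_lit 156) (nat_lit 76) (nat_lit 0) (XT.nd (nat_lit 78) (nat_lit 152) (nat_lit 0) (XT.lf (nat_lit 0) (nat_lit 8104696266) (nat_lit 152) (nat_lit 5684268456) (nat_lit 0) (nat_lit 123556310) (nat_lit 19) (nat_lit 5) (nat_lit 21) (nat_lit 4) (nat_lit 19) (nat_lit 4) (nat_lit 282) (nat_lit 226) (nat_lit 212)) (XT.lf (nat_lit 0) (nat_lit 521523457) (nat_lit 152) (nat_lit 11125907253) (nat_lit 152) (nat_lit 2756929734) (nat_lit 17) (nat_lit 4) (nat_lit 19) (nat_lit 5) (nat_lit 19) (nat_lit 4) (nat_lit 283) (nat_lit 226) (nat_lit 211))) (XT.nd (nat_lit 78) (nat_lit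 0) (nat_lit 0) (XT.lf (nat_lit 0) (nat_lit 432828281) (nat_lit 228) (nat_lit 7851048649) (nat_lit 76) (nat_lit 6636684417) (nat_lit 16) (nat_lit 5) (nat_lit 19) (nat_lit 5) (nat_lit 17) (nat_lit 4) (nat_lit 284) (nat_lit 226) (nat_lit 210)) (XT.lf (nat_lit 0) (nat_lit 3596818877) (nat_lit 228) (nat_lit 1716648029) (nat_lit 76) (nat_lit 10151617308) (nat_lit 16) (nat_lit 5) (nat_lit 19) (nat_lit 5) (nat_lit 17) (nat_lit 4) (nat_lit 285) (nat_lit 226) (nat_lit 209))))) (XT.nd (nat_lit 312) (nat_lit 228) (nat_lit 0) (XT.nd (nat_lit 156) (nat_lit 152) (nat_lit 0) (XT.nd (nat_lit 78) (nat_lit 0) (nat_lit 0) (XT.lf (nat_lit 0) (nat_lit 4729383803) (nat_lit 76) (nat_lit 2175269465) (nat_lit 152) (nat_lit 9133032484) (nat_lit 15) (nat_lit 5) (nat_lit 16) (nat_lit 5) (nat_lit 17) (nat_lit 4) (nat_lit 286) (nat_lit 226) (nat_lit 208)) (XT.lf (nat_lit 0) (nat_lit 10337764146) (nat_lit 152) (nat_lit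 5245742513) (nat_lit 0) (nat_lit 1057544793) (nat_lit 15) (nat_lit 5) (nat_lit 17) (nat_lit 4) (nat_lit 15) (nat_lit 4) (nat_lit 287) (nat_lit 226) (nat_lit 207))) (XT.nd (nat_lit 78) (nat_lit 0) (nat_lit 0) (XT.lf (nat_lit 0) (nat_lit 974883549) (nat_lit 152) (nat_lit 12935529838) (nat_lit 152) (nat_lit 3365900124) (nat_lit 13) (nat_lit 4) (nat_lit 15) (nat_lit 5) (nat_lit 15) (nat_lit 4) (nat_lit 288) (nat_lit 226) (nat_lit 206)) (XT.lf (nat_lit 0) (nat_lit 7550325499) (nat_lit 152) (nat_lit 10119003257) (nat_lit 152) (nat_lit 273744627) (nat_lit 13) (nat_lit 4) (nat_lit 15) (nat_lit 5) (nat_lit 15) (nat_lit 4) (nat_lit 289) (nat_lit 226) (nat_lit 205)))) (XT.nd (nat_lit 156) (nat_lit 76) (nat_lit 0) (XT.nd (nat_lit 78) (nat_lit 76) (nat_lit 0) (XT.lf (nat_lit 0) (nat_lit 2799149737) (nat_lit 228) (nat_lit 4369505396) (nat_lit 76) (nat_lit 11476236518) (nat_lit 12) (nat_lit 5) (nat_lit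 15) (nat_lit 5) (nat_lit 13) (nat_lit 4) (nat_lit 290) (nat_lit 226) (nat_lit 204)) (XT.lf (nat_lit 0) (nat_lit 1882613130) (nat_lit 76) (nat_lit 4088303474) (nat_lit 152) (nat_lit 13413039022) (nat_lit 11) (nat_lit 5) (nat_lit 12) (nat_lit 5) (nat_lit 13) (nat_lit 4) (nat_lit 291) (nat_lit 226) (nat_lit 203))) (XT.nd (nat_lit 78) (nat_lit 76) (nat_lit 0) (XT.lf (nat_lit 0) (nat_lit 8473048481) (nat_lit 76) (nat_lit 828860304) (nat_lit 152) (nat_lit 10858127925) (nat_lit 11) (nat_lit 5) (nat_lit 12) (nat_lit 5) (nat_lit 13) (nat_lit 4) (nat_lit 292) (nat_lit 226) (nat_lit 202)) (XT.nd (nat_lit 78) (nat_lit 76) (nat_lit 0) (XT.lf (nat_lit 0) (nat_lit 12769291473) (nat_lit 152) (nat_lit 5745200073) (nat_lit 0) (nat_lit 2462029454) (nat_lit 11) (nat_lit 5) (nat_lit 13) (nat_lit 4) (nat_lit 11) (nat_lit 4) (nat_lit 293) (nat_lit 226) (nat_lit 201)) (XT.lf (nat_lit 0) (nat_lit 375152887)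 (nat_lit 76) (nat_lit 15987048075) (nat_lit 76) (nat_lit 5474107515) (nat_lit 10) (nat_lit 4) (nat_lit 11) (nat_lit 5) (nat_lit 11) (nat_lit 4) (nat_lit 294) (nat_lit 226) (nat_lit 200))))))) (XT.nd (nat_lit 702) (nat_lit 152) (nat_lit 0) (XT.nd (nat_lit 312) (nat_lit 76) (nat_lit 0) (XT.nd (nat_lit 156) (nat_lit 76) (nat_lit 0) (XT.nd (nat_lit 78) (nat_lit 76) (nat_lit 0) (XT.lf (nat_lit 0) (nat_lit 6885926098) (nat_lit 76) (nat_lit 13280247962) (nat_lit 76) (nat_lit 2571423078) (nat_lit 10) (nat_lit 4) (nat_lit 11) (nat_lit 5) (nat_lit 11) (nat_lit 4) (nat_lit 295) (nat_lit 226) (nat_lit 199)) (XT.lf (nat_lit 0) (nat_lit 397300638) (nat_lit 152) (nat_lit 10080915074) (nat_lit 76) (nat_lit 13208630023) (nat_lit 9) (nat_lit 5) (nat_lit 11) (nat_lit 5) (nat_lit 10) (nat_lit 4) (nat_lit 296) (nat_lit 226) (nat_lit 198))) (XT.nd (nat_lit 78) (nat_lit 76) (nat_lit 0) (XT.lf (nat_lit 0)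 (nat_lit 3367236905) (nat_lit 152) (nat_lit 4170218584) (nat_lit 76) (nat_lit 17147105352) (nat_lit 9) (nat_lit 5) (nat_lit 11) (nat_lit 5) (nat_lit 10) (nat_lit 4) (nat_lit 297) (nat_lit 226) (nat_lit 197)) (XT.lf (nat_lit 0) (nat_lit 1998606526) (nat_lit 76) (nat_lit 4460355917) (nat_lit 152) (nat_lit 19274602688) (nat_lit 8) (nat_lit 5) (nat_lit 9) (nat_lit 5) (nat_lit 10) (nat_lit 4) (nat_lit 298) (nat_lit 226) (nat_lit 196)))) (XT.nd (nat_lit 156) (nat_lit 76) (nat_lit 0) (XT.nd (nat_lit 78) (nat_lit 0) (nat_lit 0) (XT.lf (nat_lit 0) (nat_lit 8520914437) (nat_lit 76) (nat_lit 1198273581) (nat_lit 152) (nat_lit 17115200742) (nat_lit 8) (nat_lit 5) (nat_lit 9) (nat_lit 5) (nat_lit 10) (nat_lit 4) (nat_lit 299) (nat_lit 226) (nat_lit 195)) (XT.lf (nat_lit 0) (nat_lit 13122543033) (nat_lit 152) (nat_lit 12752796176) (nat_lit 0) (nat_lit 2115970181) (nat_lit 8) (nat_lit 5) (nat_lit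 10) (nat_lit 4) (nat_lit 8) (nat_lit 4) (nat_lit 300) (nat_lit 226) (nat_lit 194))) (XT.nd (nat_lit 78) (nat_lit 76) (nat_lit 0) (XT.lf (nat_lit 0) (nat_lit 16663661827) (nat_lit 152) (nat_lit 7026215566) (nat_lit 0) (nat_lit 5517877643) (nat_lit 8) (nat_lit 5) (nat_lit 10) (nat_lit 4) (nat_lit 8) (nat_lit 4) (nat_lit 301) (nat_lit 226) (nat_lit 193)) (XT.nd (nat_lit 78) (nat_lit 76) (nat_lit 0) (XT.lf (nat_lit 0) (nat_lit 20332267228) (nat_lit 152) (nat_lit 1101389370) (nat_lit 0) (nat_lit 9053900822) (nat_lit 8) (nat_lit 5) (nat_lit 10) (nat_lit 4) (nat_lit 8) (nat_lit 4) (nat_lit 302) (nat_lit 226) (nat_lit 192)) (XT.lf (nat_lit 0) (nat_lit 5202295073) (nat_lit 76) (nat_lit 19016021341) (nat_lit 76) (nat_lit 7611386153) (nat_lit 7) (nat_lit 4) (nat_lit 8) (nat_lit 5) (nat_lit 8) (nat_lit 4) (nat_lit 303) (nat_lit 226) (nat_lit 191)))))) (XT.nd (nat_lit 312) (nat_lit 76) (nat_lit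 0) (XT.nd (nat_lit 156) (nat_lit 76) (nat_lit 0) (XT.nd (nat_lit 78) (nat_lit 0) (nat_lit 0) (XT.lf (nat_lit 0) (nat_lit 11776865545) (nat_lit 76) (nat_lit 16494205612) (nat_lit 76) (nat_lit 4969314442) (nat_lit 7) (nat_lit 4) (nat_lit 8) (nat_lit 5) (nat_lit 8) (nat_lit 4) (nat_lit 304) (nat_lit 226) (nat_lit 190)) (XT.lf (nat_lit 0) (nat_lit 18601558878) (nat_lit 76) (nat_lit 13880857651) (nat_lit 76) (nat_lit 2241436973) (nat_lit 7) (nat_lit 4) (nat_lit 8) (nat_lit 5) (nat_lit 8) (nat_lit 4) (nat_lit 305) (nat_lit 226) (nat_lit 189))) (XT.nd (nat_lit 78) (nat_lit 0) (nat_lit 0) (XT.lf (nat_lit 0) (nat_lit 560217865) (nat_lit 152) (nat_lit 10600049774) (nat_lit 76) (nat_lit 25122918916) (nat_lit 6) (nat_lit 5) (nat_lit 8) (nat_lit 5) (nat_lit 7) (nat_lit 4) (nat_lit 306) (nat_lit 226) (nat_lit 188)) (XT.lf (nat_lit 0) (nat_lit 3385979026) (nat_lit 152) (nat_lit 4911121034) (nat_lit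 76) (nat_lit 29623623207) (nat_lit 6) (nat_lit 5) (nat_lit 8) (nat_lit 5) (nat_lit 7) (nat_lit 4) (nat_lit 307) (nat_lit 226) (nat_lit 187)))) (XT.nd (nat_lit 156) (nat_lit 0) (nat_lit 0) (XT.nd (nat_lit 78) (nat_lit 0) (nat_lit 0) (XT.lf (nat_lit 0) (nat_lit 1025865888) (nat_lit 76) (nat_lit 5304465243) (nat_lit 152) (nat_lit 33310980328) (nat_lit 5) (nat_lit 5) (nat_lit 6) (nat_lit 5) (nat_lit 7) (nat_lit 4) (nat_lit 308) (nat_lit 226) (nat_lit 186)) (XT.lf (nat_lit 0) (nat_lit 7362099313) (nat_lit 76) (nat_lit 2105040176) (nat_lit 152) (nat_lit 31978565534) (nat_lit 5) (nat_lit 5) (nat_lit 6) (nat_lit 5) (nat_lit 7) (nat_lit 4) (nat_lit 309) (nat_lit 226) (nat_lit 185))) (XT.nd (nat_lit 78) (nat_lit 0) (nat_lit 0) (XT.lf (nat_lit 0) (nat_lit 12743796434) (nat_lit 152) (nat_lit 29411014421) (nat_lit 0) (nat_lit 1186393093) (nat_lit 5) (nat_lit 5) (nat_lit 7) (nat_lit 4) (nat_lit 5)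 (nat_lit 4) (nat_lit 310) (nat_lit 226) (nat_lit 184)) (XT.nd (nat_lit 78) (nat_lit 0) (nat_lit 0) (XT.lf (nat_lit 0) (nat_lit 16183960940) (nat_lit 152) (nat_lit 24602403897) (nat_lit 0) (nat_lit 4545163617) (nat_lit 5) (nat_lit 5) (nat_lit 7) (nat_lit 4) (nat_lit 5) (nat_lit 4) (nat_lit 311) (nat_lit 226) (nat_lit 183)) (XT.lf (nat_lit 0) (nat_lit 19762958301) (nat_lit 152) (nat_lit 19613459490) (nat_lit 0) (nat_lit 8046642899) (nat_lit 5) (nat_lit 5) (nat_lit 7) (nat_lit 4) (nat_lit 5) (nat_lit 4) (nat_lit 312) (nat_lit 226) (nat_lit 182))))))))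
noncomputable def xc67 : XT := (XT.nd (nat_lit 1326) (nat_lit 0) (nat_lit 0) (XT.nd (nat_lit 624) (nat_lit 152) (nat_lit 0) (XT.nd (nat_lit 312) (nat_lit 0) (nat_lit 0) (XT.nd (nat_lit 156) (nat_lit 76) (nat_lit 0) (XT.nd (nat_lit 78) (nat_lit 0) (nat_lit 0) (XT.lf (nat_lit 0) (nat_lit 23489309938) (nat_lit 152) (nat_lit 14432302760) (nat_lit 0) (nat_lit 11699167794) (nat_lit 5) (nat_lit 5) (nat_lit 7) (nat_lit 4) (nat_lit 5) (nat_lit 4) (nat_lit 313) (nat_lit 226) (nat_lit 181)) (XT.lf (nat_lit 0) (nat_lit 27371888116) (nat_lit 152) (nat_lit 9046597620) (nat_lit 0) (nat_lit 15511434790) (nat_lit 5) (nat_lit 5) (nat_lit 7) (nat_lit 4) (nat_lit 5) (nat_lit 4) (nat_lit 314) (nat_lit 226) (nat_lit 180))) (XT.nd (nat_lit 78) (nat_lit 76) (nat_lit 0) (XT.lf (nat_lit 0) (nat_lit 31419937071) (nat_lit 152) (nat_lit 3443520963) (nat_lit 0) (nat_lit 19492520714) (nat_lit 5) (nat_lit 5) (nat_lit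 7) (nat_lit 4) (nat_lit 5) (nat_lit 4) (nat_lit 315) (nat_lit 226) (nat_lit 179)) (XT.lf (nat_lit 0) (nat_lit 2469300920) (nat_lit 76) (nat_lit 33212346800) (nat_lit 76) (nat_lit 21221156128) (nat_lit 4) (nat_lit 4) (nat_lit 5) (nat_lit 5) (nat_lit 5) (nat_lit 4) (nat_lit 316) (nat_lit 226) (nat_lit 178)))) (XT.nd (nat_lit 156) (nat_lit 0) (nat_lit 0) (XT.nd (nat_lit 78) (nat_lit 0) (nat_lit 0) (XT.lf (nat_lit 0) (nat_lit 8748670960) (nat_lit 76) (nat_lit 31439337393) (nat_lit 76) (nat_lit 19387409278) (nat_lit 4) (nat_lit 4) (nat_lit 5) (nat_lit 5) (nat_lit 5) (nat_lit 4) (nat_lit 317) (nat_lit 226) (nat_lit 177)) (XT.lf (nat_lit 0) (nat_lit 15295681681) (nat_lit 76) (nat_lit 29598526055) (nat_lit 76) (nat_lit 17488752756) (nat_lit 4) (nat_lit 4) (nat_lit 5) (nat_lit 5) (nat_lit 5) (nat_lit 4) (nat_lit 318) (nat_lit 226) (nat_lit 176))) (XT.nd (nat_lit 78) (nat_lit 0) (nat_lit 0) (XT.lf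 (nat_lit 0) (nat_lit 22125921206) (nat_lit 76) (nat_lit 27685529903) (nat_lit 76) (nat_lit 15520665952) (nat_lit 4) (nat_lit 4) (nat_lit 5) (nat_lit 5) (nat_lit 5) (nat_lit 4) (nat_lit 319) (nat_lit 226) (nat_lit 175)) (XT.lf (nat_lit 0) (nat_lit 29255652009) (nat_lit 76) (nat_lit 25695794182) (nat_lit 76) (nat_lit 13478462945) (nat_lit 4) (nat_lit 4) (nat_lit 5) (nat_lit 5) (nat_lit 5) (nat_lit 4) (nat_lit 320) (nat_lit 226) (nat_lit 174))))) (XT.nd (nat_lit 312) (nat_lit 152) (nat_lit 0) (XT.nd (nat_lit 156) (nat_lit 0) (nat_lit 0) (XT.nd (nat_lit 78) (nat_lit 0) (nat_lit 0) (XT.lf (nat_lit 0) (nat_lit 36701849640) (nat_lit 76) (nat_lit 23624581429) (nat_lit 76) (nat_lit 11357281347) (nat_lit 4) (nat_lit 4) (nat_lit 5) (nat_lit 5) (nat_lit 5) (nat_lit 4) (nat_lit 321) (nat_lit 226) (nat_lit 173)) (XT.lf (nat_lit 0) (nat_lit 44482243140) (nat_lit 76) (nat_lit 21466960183) (nat_lit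 76) (nat_lit 9152070725) (nat_lit 4) (nat_lit 4) (nat_lit 5) (nat_lit 5) (nat_lit 5) (nat_lit 4) (nat_lit 322) (nat_lit 226) (nat_lit 172))) (XT.nd (nat_lit 78) (nat_lit 0) (nat_lit 0) (XT.lf (nat_lit 0) (nat_lit 52615357256) (nat_lit 76) (nat_lit 19217793251) (nat_lit 76) (nat_lit 6857580577) (nat_lit 4) (nat_lit 4) (nat_lit 5) (nat_lit 5) (nat_lit 5) (nat_lit 4) (nat_lit 323) (nat_lit 226) (nat_lit 171)) (XT.lf (nat_lit 0) (nat_lit 61120556545) (nat_lit 76) (nat_lit 16871725474) (nat_lit 76) (nat_lit 4468347833) (nat_lit 4) (nat_lit 4) (nat_lit 5) (nat_lit 5) (nat_lit 5) (nat_lit 4) (nat_lit 324) (nat_lit 226) (nat_lit 170)))) (XT.nd (nat_lit 156) (nat_lit 76) (nat_lit 0) (XT.nd (nat_lit 78) (nat_lit 76) (nat_lit 0) (XT.lf (nat_lit 0) (nat_lit 70018091483) (nat_lit 76) (nat_lit 14423170975) (nat_lit 76) (nat_lit 1978683843) (nat_lit 4) (nat_lit 4) (nat_lit 5) (nat_lit 5) (nat_lit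 5) (nat_lit 4) (nat_lit 325) (nat_lit 226) (nat_lit 169)) (XT.lf (nat_lit 0) (nat_lit 597580455) (nat_lit 152) (nat_lit 11258599095) (nat_lit 76) (nat_lit 78721445905) (nat_lit 3) (nat_lit 5) (nat_lit 5) (nat_lit 5) (nat_lit 4) (nat_lit 4) (nat_lit 326) (nat_lit 226) (nat_lit 168))) (XT.nd (nat_lit 78) (nat_lit 76) (nat_lit 0) (XT.lf (nat_lit 0) (nat_lit 3219452556) (nat_lit 152) (nat_lit 5921048810) (nat_lit 76) (nat_lit 85801915758) (nat_lit 3) (nat_lit 5) (nat_lit 5) (nat_lit 5) (nat_lit 4) (nat_lit 4) (nat_lit 327) (nat_lit 226) (nat_lit 167)) (XT.nd (nat_lit 78) (nat_lit 76) (nat_lit 0) (XT.lf (nat_lit 0) (nat_lit 5956505250) (nat_lit 152) (nat_lit 345602712) (nat_lit 76) (nat_lit 93224150348) (nat_lit 3) (nat_lit 5) (nat_lit 5) (nat_lit 5) (nat_lit 4) (nat_lit 4) (nat_lit 328) (nat_lit 226) (nat_lit 166)) (XT.lf (nat_lit 0) (nat_lit 5662241149) (nat_lit 76) (nat_lit 3241417634)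 (nat_lit 152) (nat_lit 95431983963) (nat_lit 2) (nat_lit 5) (nat_lit 3) (nat_lit 5) (nat_lit 4) (nat_lit 4) (nat_lit 329) (nat_lit 226) (nat_lit 165))))))) (XT.nd (nat_lit 702) (nat_lit 0) (nat_lit 0) (XT.nd (nat_lit 312) (nat_lit 0) (nat_lit 0) (XT.nd (nat_lit 156) (nat_lit 0) (nat_lit 0) (XT.nd (nat_lit 78) (nat_lit 0) (nat_lit 0) (XT.lf (nat_lit 0) (nat_lit 11955319318) (nat_lit 76) (nat_lit 33846066) (nat_lit 152) (nat_lit 97396794205) (nat_lit 2) (nat_lit 5) (nat_lit 3) (nat_lit 5) (nat_lit 4) (nat_lit 4) (nat_lit 330) (nat_lit 226) (nat_lit 164)) (XT.lf (nat_lit 0) (nat_lit 15266669091) (nat_lit 152) (nat_lit 96204195820) (nat_lit 0) (nat_lit 3216053610) (nat_lit 2) (nat_lit 5) (nat_lit 4) (nat_lit 4) (nat_lit 2) (nat_lit 4) (nat_lit 331) (nat_lit 226) (nat_lit 163))) (XT.nd (nat_lit 78) (nat_lit 0) (nat_lit 0) (XT.lf (nat_lit 0) (nat_lit 18694952427) (nat_lit 152) (nat_lit 94942127079)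 (nat_lit 0) (nat_lit 6616512423) (nat_lit 2) (nat_lit 5) (nat_lit 4) (nat_lit 4) (nat_lit 2) (nat_lit 4) (nat_lit 332) (nat_lit 226) (nat_lit 162)) (XT.lf (nat_lit 0) (nat_lit 22281649538) (nat_lit 152) (nat_lit 93640900690) (nat_lit 0) (nat_lit 10176709989) (nat_lit 2) (nat_lit 5) (nat_lit 4) (nat_lit 4) (nat_lit 2) (nat_lit 4) (nat_lit 333) (nat_lit 226) (nat_lit 161)))) (XT.nd (nat_lit 156) (nat_lit 0) (nat_lit 0) (XT.nd (nat_lit 78) (nat_lit 0) (nat_lit 0) (XT.lf (nat_lit 0) (nat_lit 26035300179) (nat_lit 152) (nat_lit 92297418495) (nat_lit 0) (nat_lit 13905122968) (nat_lit 2) (nat_lit 5) (nat_lit 4) (nat_lit 4) (nat_lit 2) (nat_lit 4) (nat_lit 334) (nat_lit 226) (nat_lit 160)) (XT.lf (nat_lit 0) (nat_lit 29964841614) (nat_lit 152) (nat_lit 90908481728) (nat_lit 0) (nat_lit 17810628534) (nat_lit 2) (nat_lit 5) (nat_lit 4) (nat_lit 4) (nat_lit 2) (nat_lit 4) (nat_lit 335) (nat_lit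 226) (nat_lit 159))) (XT.nd (nat_lit 78) (nat_lit 0) (nat_lit 0) (XT.lf (nat_lit 0) (nat_lit 34079629894) (nat_lit 152) (nat_lit 89470783395) (nat_lit 0) (nat_lit 21902525511) (nat_lit 2) (nat_lit 5) (nat_lit 4) (nat_lit 4) (nat_lit 2) (nat_lit 4) (nat_lit 336) (nat_lit 226) (nat_lit 158)) (XT.nd (nat_lit 78) (nat_lit 0) (nat_lit 0) (XT.lf (nat_lit 0) (nat_lit 38389462134) (nat_lit 152) (nat_lit 87980900406) (nat_lit 0) (nat_lit 26190556509) (nat_lit 2) (nat_lit 5) (nat_lit 4) (nat_lit 4) (nat_lit 2) (nat_lit 4) (nat_lit 337) (nat_lit 226) (nat_lit 157)) (XT.lf (nat_lit 0) (nat_lit 42904599839) (nat_lit 152) (nat_lit 86435285420) (nat_lit 0) (nat_lit 30684931127) (nat_lit 2) (nat_lit 5) (nat_lit 4) (nat_lit 4) (nat_lit 2) (nat_lit 4) (nat_lit 338) (nat_lit 226) (nat_lit 156)))))) (XT.nd (nat_lit 312) (nat_lit 0) (nat_lit 0) (XT.nd (nat_lit 156) (nat_lit 0) (nat_lit 0) (XT.nd (nat_lit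 78) (nat_lit 0) (nat_lit 0) (XT.lf (nat_lit 0) (nat_lit 47635793337) (nat_lit 152) (nat_lit 84830258402) (nat_lit 0) (nat_lit 35396350256) (nat_lit 2) (nat_lit 5) (nat_lit 4) (nat_lit 4) (nat_lit 2) (nat_lit 4) (nat_lit 339) (nat_lit 226) (nat_lit 155)) (XT.lf (nat_lit 0) (nat_lit 52594307374) (nat_lit 152) (nat_lit 83161997858) (nat_lit 0) (nat_lit 40336031561) (nat_lit 2) (nat_lit 5) (nat_lit 4) (nat_lit 4) (nat_lit 2) (nat_lit 4) (nat_lit 340) (nat_lit 226) (nat_lit 154))) (XT.nd (nat_lit 78) (nat_lit 0) (nat_lit 0) (XT.lf (nat_lit 0) (nat_lit 57791947937) (nat_lit 152) (nat_lit 81426531740) (nat_lit 0) (nat_lit 45515736189) (nat_lit 2) (nat_lit 5) (nat_lit 4) (nat_lit 4) (nat_lit 2) (nat_lit 4) (nat_lit 341) (nat_lit 226) (nat_lit 153)) (XT.lf (nat_lit 0) (nat_lit 63241090359) (nat_lit 152) (nat_lit 79619727985) (nat_lit 0) (nat_lit 50947796768) (nat_lit 2) (nat_lit 5) (nat_lit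 4) (nat_lit 4) (nat_lit 2) (nat_lit 4) (nat_lit 342) (nat_lit 226) (nat_lit 152)))) (XT.nd (nat_lit 156) (nat_lit 0) (nat_lit 0) (XT.nd (nat_lit 78) (nat_lit 0) (nat_lit 0) (XT.lf (nat_lit 0) (nat_lit 68954708790) (nat_lit 152) (nat_lit 77737284680) (nat_lit 0) (nat_lit 56645146777) (nat_lit 2) (nat_lit 5) (nat_lit 4) (nat_lit 4) (nat_lit 2) (nat_lit 4) (nat_lit 343) (nat_lit 226) (nat_lit 151)) (XT.lf (nat_lit 0) (nat_lit 74946407083) (nat_lit 152) (nat_lit 75774719816) (nat_lit 0) (nat_lit 62621351335) (nat_lit 2) (nat_lit 5) (nat_lit 4) (nat_lit 4) (nat_lit 2) (nat_lit 4) (nat_lit 344) (nat_lit 226) (nat_lit 150))) (XT.nd (nat_lit 78) (nat_lit 0) (nat_lit 0) (XT.lf (nat_lit 0) (nat_lit 81230451186) (nat_lit 152) (nat_lit 73727360621) (nat_lit 0) (nat_lit 68890639500) (nat_lit 2) (nat_lit 5) (nat_lit 4) (nat_lit 4) (nat_lit 2) (nat_lit 4) (nat_lit 345) (nat_lit 226) (nat_lit 149))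 (XT.nd (nat_lit 78) (nat_lit 0) (nat_lit 0) (XT.lf (nat_lit 0) (nat_lit 87821803110) (nat_lit 152) (nat_lit 71590332430) (nat_lit 0) (nat_lit 75467938148) (nat_lit 2) (nat_lit 5) (nat_lit 4) (nat_lit 4) (nat_lit 2) (nat_lit 4) (nat_lit 346) (nat_lit 226) (nat_lit 148)) (XT.lf (nat_lit 0) (nat_lit 94736156548) (nat_lit 152) (nat_lit 69358547080) (nat_lit 0) (nat_lit 82368907515) (nat_lit 2) (nat_lit 5) (nat_lit 4) (nat_lit 4) (nat_lit 2) (nat_lit 4) (nat_lit 347) (nat_lit 226) (nat_lit 147))))))))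
noncomputable def xc68 : XT := (XT.nd (nat_lit 31278) (nat_lit 0) (nat_lit 1064) (XT.nd (nat_lit 624) (nat_lit 0) (nat_lit 0) (XT.nd (nat_lit 312) (nat_lit 0) (nat_lit 0) (XT.nd (nat_lit 156) (nat_lit 0) (nat_lit 0) (XT.nd (nat_lit 78) (nat_lit 0) (nat_lit 0) (XT.lf (nat_lit 0) (nat_lit 101989974247) (nat_lit 152) (nat_lit 67026690797) (nat_lit 0) (nat_lit 89609978481) (nat_lit 2) (nat_lit 5) (nat_lit 4) (nat_lit 4) (nat_lit 2) (nat_lit 4) (nat_lit 348) (nat_lit 226) (nat_lit 146)) (XT.lf (nat_lit 0) (nat_lit 109600527203) (nat_lit 152) (nat_lit 64589211541) (nat_lit 0) (nat_lit 97208391689) (nat_lit 2) (nat_lit 5) (nat_lit 4) (nat_lit 4) (nat_lit 2) (nat_lit 4) (nat_lit 349) (nat_lit 226) (nat_lit 145))) (XT.nd (nat_lit 78) (nat_lit 0) (nat_lit 0) (XT.lf (nat_lit 0) (nat_lit 117585935778) (nat_lit 152) (nat_lit 62040305791) (nat_lit 0) (nat_lit 105182238601) (nat_lit 2) (nat_lit 5)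 (nat_lit 4) (nat_lit 4) (nat_lit 2) (nat_lit 4) (nat_lit 350) (nat_lit 226) (nat_lit 144)) (XT.lf (nat_lit 0) (nat_lit 125965212852) (nat_lit 152) (nat_lit 59373904724) (nat_lit 0) (nat_lit 113550504566) (nat_lit 2) (nat_lit 5) (nat_lit 4) (nat_lit 4) (nat_lit 2) (nat_lit 4) (nat_lit 351) (nat_lit 226) (nat_lit 143)))) (XT.nd (nat_lit 156) (nat_lit 0) (nat_lit 0) (XT.nd (nat_lit 78) (nat_lit 0) (nat_lit 0) (XT.lf (nat_lit 0) (nat_lit 134758309082) (nat_lit 152) (nat_lit 56583659766) (nat_lit 0) (nat_lit 122333114026) (nat_lit 2) (nat_lit 5) (nat_lit 4) (nat_lit 4) (nat_lit 2) (nat_lit 4) (nat_lit 352) (nat_lit 226) (nat_lit 142)) (XT.lf (nat_lit 0) (nat_lit 143986160413) (nat_lit 152) (nat_lit 53662927475) (nat_lit 0) (nat_lit 131550977957) (nat_lit 2) (nat_lit 5) (nat_lit 4) (nat_lit 4) (nat_lit 2) (nat_lit 4) (nat_lit 353) (nat_lit 226) (nat_lit 141))) (XT.nd (nat_lit 78) (nat_lit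 0) (nat_lit 0) (XT.lf (nat_lit 0) (nat_lit 153670737920) (nat_lit 152) (nat_lit 50604753729) (nat_lit 0) (nat_lit 141226043655) (nat_lit 2) (nat_lit 5) (nat_lit 4) (nat_lit 4) (nat_lit 2) (nat_lit 4) (nat_lit 354) (nat_lit 226) (nat_lit 140)) (XT.lf (nat_lit 0) (nat_lit 163835100119) (nat_lit 152) (nat_lit 47401857160) (nat_lit 0) (nat_lit 151381346988) (nat_lit 2) (nat_lit 5) (nat_lit 4) (nat_lit 4) (nat_lit 2) (nat_lit 4) (nat_lit 355) (nat_lit 226) (nat_lit 139))))) (XT.nd (nat_lit 312) (nat_lit 0) (nat_lit 0) (XT.nd (nat_lit 156) (nat_lit 0) (nat_lit 0) (XT.nd (nat_lit 78) (nat_lit 0) (nat_lit 0) (XT.lf (nat_lit 0) (nat_lit 174503447875) (nat_lit 152) (nat_lit 44046611825) (nat_lit 0) (nat_lit 162041067252) (nat_lit 2) (nat_lit 5) (nat_lit 4) (nat_lit 4) (nat_lit 2) (nat_lit 4) (nat_lit 356) (nat_lit 226) (nat_lit 138)) (XT.lf (nat_lit 0) (nat_lit 185701182014) (nat_lit 152) (nat_lit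 40531029043) (nat_lit 0) (nat_lit 173230584732) (nat_lit 2) (nat_lit 5) (nat_lit 4) (nat_lit 4) (nat_lit 2) (nat_lit 4) (nat_lit 357) (nat_lit 226) (nat_lit 137))) (XT.nd (nat_lit 78) (nat_lit 0) (nat_lit 0) (XT.lf (nat_lit 0) (nat_lit 197454963808) (nat_lit 152) (nat_lit 36846738381) (nat_lit 0) (nat_lit 184976541137) (nat_lit 2) (nat_lit 5) (nat_lit 4) (nat_lit 4) (nat_lit 2) (nat_lit 4) (nat_lit 358) (nat_lit 226) (nat_lit 136)) (XT.lf (nat_lit 0) (nat_lit 209792778452) (nat_lit 152) (nat_lit 32984967717) (nat_lit 0) (nat_lit 197306903030) (nat_lit 2) (nat_lit 5) (nat_lit 4) (nat_lit 4) (nat_lit 2) (nat_lit 4) (nat_lit 359) (nat_lit 226) (nat_lit 135)))) (XT.nd (nat_lit 156) (nat_lit 0) (nat_lit 0) (XT.nd (nat_lit 78) (nat_lit 0) (nat_lit 0) (XT.lf (nat_lit 0) (nat_lit 222744001695) (nat_lit 152) (nat_lit 28936522359) (nat_lit 0) (nat_lit 210251028415) (nat_lit 2) (nat_lit 5) (nat_lit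 4) (nat_lit 4) (nat_lit 2) (nat_lit 4) (nat_lit 360) (nat_lit 226) (nat_lit 134)) (XT.lf (nat_lit 0) (nat_lit 236339469784) (nat_lit 152) (nat_lit 24691763152) (nat_lit 0) (nat_lit 223839736638) (nat_lit 2) (nat_lit 5) (nat_lit 4) (nat_lit 4) (nat_lit 2) (nat_lit 4) (nat_lit 361) (nat_lit 226) (nat_lit 133))) (XT.nd (nat_lit 30030) (nat_lit 0) (nat_lit 2888) (XT.lf (nat_lit 0) (nat_lit 250611552880) (nat_lit 152) (nat_lit 20240583526) (nat_lit 0) (nat_lit 238105381766) (nat_lit 2) (nat_lit 5) (nat_lit 4) (nat_lit 4) (nat_lit 2) (nat_lit 4) (nat_lit 362) (nat_lit 226) (nat_lit 132)) (XT.nd (nat_lit 78) (nat_lit 304) (nat_lit 0) (XT.lf (nat_lit 0) (nat_lit 2010153232) (nat_lit 304) (nat_lit 1189915472) (nat_lit 304) (nat_lit 1189915472) (nat_lit 44) (nat_lit 4) (nat_lit 48) (nat_lit 5) (nat_lit 48) (nat_lit 4) (nat_lit 266) (nat_lit 227) (nat_lit 227)) (XT.lf (nat_lit 0) (nat_lit 992228114)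 (nat_lit 304) (nat_lit 7981984677) (nat_lit 0) (nat_lit 12181908) (nat_lit 40) (nat_lit 5) (nat_lit 44) (nat_lit 4) (nat_lit 40) (nat_lit 4) (nat_lit 267) (nat_lit 227) (nat_lit 226))))))) (XT.nd (nat_lit 702) (nat_lit 684) (nat_lit 0) (XT.nd (nat_lit 312) (nat_lit 684) (nat_lit 0) (XT.nd (nat_lit 156) (nat_lit 228) (nat_lit 0) (XT.nd (nat_lit 78) (nat_lit 228) (nat_lit 0) (XT.lf (nat_lit 0) (nat_lit 4430226472) (nat_lit 304) (nat_lit 2255690717) (nat_lit 0) (nat_lit 2516802927) (nat_lit 40) (nat_lit 5) (nat_lit 44) (nat_lit 4) (nat_lit 40) (nat_lit 4) (nat_lit 268) (nat_lit 227) (nat_lit 225)) (XT.lf (nat_lit 0) (nat_lit 3685190590) (nat_lit 228) (nat_lit 4275681779) (nat_lit 228) (nat_lit 1473327435) (nat_lit 37) (nat_lit 4) (nat_lit 40) (nat_lit 5) (nat_lit 40) (nat_lit 4) (nat_lit 269) (nat_lit 227) (nat_lit 224))) (XT.nd (nat_lit 78) (nat_lit 0) (nat_lit 0) (XT.lf (nat_lit 0) (nat_lit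 106335157) (nat_lit 152) (nat_lit 1725513751) (nat_lit 228) (nat_lit 7848952469) (nat_lit 34) (nat_lit 5) (nat_lit 36) (nat_lit 5) (nat_lit 37) (nat_lit 4) (nat_lit 270) (nat_lit 227) (nat_lit 223)) (XT.lf (nat_lit 0) (nat_lit 5233522136) (nat_lit 228) (nat_lit 3715854985) (nat_lit 0) (nat_lit 990434951) (nat_lit 34) (nat_lit 5) (nat_lit 37) (nat_lit 4) (nat_lit 34) (nat_lit 4) (nat_lit 271) (nat_lit 227) (nat_lit 222)))) (XT.nd (nat_lit 156) (nat_lit 380) (nat_lit 0) (XT.nd (nat_lit 78) (nat_lit 76) (nat_lit 0) (XT.lf (nat_lit 0) (nat_lit 2295720424) (nat_lit 228) (nat_lit 6446952386) (nat_lit 228) (nat_lit 1472539633) (nat_lit 31) (nat_lit 4) (nat_lit 34) (nat_lit 5) (nat_lit 34) (nat_lit 4) (nat_lit 272) (nat_lit 227) (nat_lit 221)) (XT.lf (nat_lit 0) (nat_lit 1799459738) (nat_lit 304) (nat_lit 1982020831) (nat_lit 76) (nat_lit 6724775973) (nat_lit 30) (nat_lit 5) (nat_lit 34) (nat_lit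 5) (nat_lit 31) (nat_lit 4) (nat_lit 273) (nat_lit 227) (nat_lit 220))) (XT.nd (nat_lit 78) (nat_lit 228) (nat_lit 0) (XT.lf (nat_lit 0) (nat_lit 4184384923) (nat_lit 152) (nat_lit 946655109) (nat_lit 228) (nat_lit 5682599193) (nat_lit 28) (nat_lit 5) (nat_lit 30) (nat_lit 5) (nat_lit 31) (nat_lit 4) (nat_lit 274) (nat_lit 227) (nat_lit 219)) (XT.nd (nat_lit 78) (nat_lit 228) (nat_lit 0) (XT.lf (nat_lit 0) (nat_lit 8577219201) (nat_lit 228) (nat_lit 619085401) (nat_lit 0) (nat_lit 1942939519) (nat_lit 28) (nat_lit 5) (nat_lit 31) (nat_lit 4) (nat_lit 28) (nat_lit 4) (nat_lit 275) (nat_lit 227) (nat_lit 218)) (XT.lf (nat_lit 0) (nat_lit 683465977) (nat_lit 228) (nat_lit 5806187146) (nat_lit 76) (nat_lit 4991560820) (nat_lit 25) (nat_lit 5) (nat_lit 28) (nat_lit 5) (nat_lit 26) (nat_lit 4) (nat_lit 276) (nat_lit 227) (nat_lit 217)))))) (XT.nd (nat_lit 312) (nat_lit 304) (nat_lit 0) (XT.nd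 (nat_lit 156) (nat_lit 228) (nat_lit 0) (XT.nd (nat_lit 78) (nat_lit 0) (nat_lit 0) (XT.lf (nat_lit 0) (nat_lit 259081540) (nat_lit 152) (nat_lit 3649260089) (nat_lit 228) (nat_lit 7934899534) (nat_lit 23) (nat_lit 5) (nat_lit 25) (nat_lit 5) (nat_lit 26) (nat_lit 4) (nat_lit 277) (nat_lit 227) (nat_lit 216)) (XT.lf (nat_lit 0) (nat_lit 6659357309) (nat_lit 152) (nat_lit 624601488) (nat_lit 228) (nat_lit 4940145083) (nat_lit 23) (nat_lit 5) (nat_lit 25) (nat_lit 5) (nat_lit 26) (nat_lit 4) (nat_lit 278) (nat_lit 227) (nat_lit 215))) (XT.nd (nat_lit 78) (nat_lit 76) (nat_lit 0) (XT.lf (nat_lit 0) (nat_lit 567754775) (nat_lit 152) (nat_lit 10204741697) (nat_lit 152) (nat_lit 1854505355) (nat_lit 21) (nat_lit 4) (nat_lit 23) (nat_lit 5) (nat_lit 23) (nat_lit 4) (nat_lit 279) (nat_lit 227) (nat_lit 214)) (XT.lf (nat_lit 0) (nat_lit 1343110773) (nat_lit 228) (nat_lit 6045829714) (nat_lit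 76) (nat_lit 5660101417) (nat_lit 20) (nat_lit 5) (nat_lit 23) (nat_lit 5) (nat_lit 21) (nat_lit 4) (nat_lit 280) (nat_lit 227) (nat_lit 213)))) (XT.nd (nat_lit 156) (nat_lit 228) (nat_lit 0) (XT.nd (nat_lit 78) (nat_lit 0) (nat_lit 0) (XT.lf (nat_lit 0) (nat_lit 81258290) (nat_lit 76) (nat_lit 4459256833) (nat_lit 152) (nat_lit 8955209194) (nat_lit 19) (nat_lit 5) (nat_lit 20) (nat_lit 5) (nat_lit 21) (nat_lit 4) (nat_lit 281) (nat_lit 227) (nat_lit 212)) (XT.lf (nat_lit 0) (nat_lit 6567966735) (nat_lit 76) (nat_lit 1335444918) (nat_lit 152) (nat_lit 6061211878) (nat_lit 19) (nat_lit 5) (nat_lit 20) (nat_lit 5) (nat_lit 21) (nat_lit 4) (nat_lit 282) (nat_lit 227) (nat_lit 211))) (XT.nd (nat_lit 78) (nat_lit 228) (nat_lit 0) (XT.lf (nat_lit 0) (nat_lit 11371763726) (nat_lit 152) (nat_lit 1261363761) (nat_lit 0) (nat_lit 1827130661) (nat_lit 19) (nat_lit 5) (nat_lit 21) (nat_lit 4) (nat_lit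 19) (nat_lit 4) (nat_lit 283) (nat_lit 227) (nat_lit 210)) (XT.nd (nat_lit 78) (nat_lit 0) (nat_lit 0) (XT.lf (nat_lit 0) (nat_lit 46024758) (nat_lit 228) (nat_lit 9802062412) (nat_lit 76) (nat_lit 5131992277) (nat_lit 16) (nat_lit 5) (nat_lit 19) (nat_lit 5) (nat_lit 17) (nat_lit 4) (nat_lit 284) (nat_lit 227) (nat_lit 209)) (XT.lf (nat_lit 0) (nat_lit 3166993565) (nat_lit 228) (nat_lit 3739105028) (nat_lit 76) (nat_lit 8620720538) (nat_lit 16) (nat_lit 5) (nat_lit 19) (nat_lit 5) (nat_lit 17) (nat_lit 4) (nat_lit 285) (nat_lit 227) (nat_lit 208))))))))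
noncomputable def xc69 : XT := (XT.nd (nat_lit 1326) (nat_lit 304) (nat_lit 0) (XT.nd (nat_lit 624) (nat_lit 228) (nat_lit 0) (XT.nd (nat_lit 312) (nat_lit 152) (nat_lit 0) (XT.nd (nat_lit 156) (nat_lit 152) (nat_lit 0) (XT.nd (nat_lit 78) (nat_lit 0) (nat_lit 0) (XT.lf (nat_lit 0) (nat_lit 2569764316) (nat_lit 76) (nat_lit 3830372793) (nat_lit 152) (nat_lit 9703080699) (nat_lit 15) (nat_lit 5) (nat_lit 16) (nat_lit 5) (nat_lit 17) (nat_lit 4) (nat_lit 286) (nat_lit 227) (nat_lit 207)) (XT.lf (nat_lit 0) (nat_lit 9186655747) (nat_lit 76) (nat_lit 589467855) (nat_lit 152) (nat_lit 6933375743) (nat_lit 15) (nat_lit 5) (nat_lit 16) (nat_lit 5) (nat_lit 17) (nat_lit 4) (nat_lit 287) (nat_lit 227) (nat_lit 206))) (XT.nd (nat_lit 78) (nat_lit 152) (nat_lit 0) (XT.lf (nat_lit 0) (nat_lit 13285790050) (nat_lit 152) (nat_lit 1389537697) (nat_lit 0) (nat_lit 2672639573) (nat_lit 15) (nat_lit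 5) (nat_lit 17) (nat_lit 4) (nat_lit 15) (nat_lit 4) (nat_lit 288) (nat_lit 227) (nat_lit 205)) (XT.lf (nat_lit 0) (nat_lit 5075692379) (nat_lit 152) (nat_lit 11908874997) (nat_lit 152) (nat_lit 1033220792) (nat_lit 13) (nat_lit 4) (nat_lit 15) (nat_lit 5) (nat_lit 15) (nat_lit 4) (nat_lit 289) (nat_lit 227) (nat_lit 204)))) (XT.nd (nat_lit 156) (nat_lit 76) (nat_lit 0) (XT.nd (nat_lit 78) (nat_lit 0) (nat_lit 0) (XT.lf (nat_lit 0) (nat_lit 2027413032) (nat_lit 228) (nat_lit 6969461040) (nat_lit 76) (nat_lit 9725202714) (nat_lit 12) (nat_lit 5) (nat_lit 15) (nat_lit 5) (nat_lit 13) (nat_lit 4) (nat_lit 290) (nat_lit 227) (nat_lit 203)) (XT.lf (nat_lit 0) (nat_lit 5134959869) (nat_lit 228) (nat_lit 837088644) (nat_lit 76) (nat_lit 13492349961) (nat_lit 12) (nat_lit 5) (nat_lit 15) (nat_lit 5) (nat_lit 13) (nat_lit 4) (nat_lit 291) (nat_lit 227) (nat_lit 202))) (XT.nd (nat_lit 78) (nat_lit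 0) (nat_lit 0) (XT.lf (nat_lit 0) (nat_lit 5667137549) (nat_lit 76) (nat_lit 2751230507) (nat_lit 152) (nat_lit 11824535187) (nat_lit 11) (nat_lit 5) (nat_lit 12) (nat_lit 5) (nat_lit 13) (nat_lit 4) (nat_lit 292) (nat_lit 227) (nat_lit 201)) (XT.lf (nat_lit 0) (nat_lit 11822914038) (nat_lit 152) (nat_lit 8661009789) (nat_lit 0) (nat_lit 578647910) (nat_lit 11) (nat_lit 5) (nat_lit 13) (nat_lit 4) (nat_lit 11) (nat_lit 4) (nat_lit 293) (nat_lit 227) (nat_lit 200))))) (XT.nd (nat_lit 312) (nat_lit 76) (nat_lit 0) (XT.nd (nat_lit 156) (nat_lit 76) (nat_lit 0) (XT.nd (nat_lit 78) (nat_lit 76) (nat_lit 0) (XT.lf (nat_lit 0) (nat_lit 15378706225) (nat_lit 152) (nat_lit 2606993431) (nat_lit 0) (nat_lit 3938555773) (nat_lit 11) (nat_lit 5) (nat_lit 13) (nat_lit 4) (nat_lit 11) (nat_lit 4) (nat_lit 294) (nat_lit 227) (nat_lit 199)) (XT.lf (nat_lit 0) (nat_lit 3764127715) (nat_lit 76) (nat_lit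 15345897238) (nat_lit 76) (nat_lit 3719190286) (nat_lit 10) (nat_lit 4) (nat_lit 11) (nat_lit 5) (nat_lit 11) (nat_lit 4) (nat_lit 295) (nat_lit 227) (nat_lit 198))) (XT.nd (nat_lit 78) (nat_lit 76) (nat_lit 0) (XT.lf (nat_lit 0) (nat_lit 10439953054) (nat_lit 76) (nat_lit 12572352512) (nat_lit 76) (nat_lit 767972705) (nat_lit 10) (nat_lit 4) (nat_lit 11) (nat_lit 5) (nat_lit 11) (nat_lit 4) (nat_lit 296) (nat_lit 227) (nat_lit 197)) (XT.lf (nat_lit 0) (nat_lit 2198294025) (nat_lit 152) (nat_lit 7467089299) (nat_lit 76) (nat_lit 15114655232) (nat_lit 9) (nat_lit 5) (nat_lit 11) (nat_lit 5) (nat_lit 10) (nat_lit 4) (nat_lit 297) (nat_lit 227) (nat_lit 196)))) (XT.nd (nat_lit 156) (nat_lit 0) (nat_lit 0) (XT.nd (nat_lit 78) (nat_lit 76) (nat_lit 0) (XT.lf (nat_lit 0) (nat_lit 5231911469) (nat_lit 152) (nat_lit 1409328057) (nat_lit 76) (nat_lit 19190740342) (nat_lit 9) (nat_lit 5) (nat_lit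 11) (nat_lit 5) (nat_lit 10) (nat_lit 4) (nat_lit 298) (nat_lit 227) (nat_lit 195)) (XT.lf (nat_lit 0) (nat_lit 5020044737) (nat_lit 76) (nat_lit 3423014677) (nat_lit 152) (nat_lit 18492228075) (nat_lit 8) (nat_lit 5) (nat_lit 9) (nat_lit 5) (nat_lit 10) (nat_lit 4) (nat_lit 299) (nat_lit 227) (nat_lit 194))) (XT.nd (nat_lit 78) (nat_lit 0) (nat_lit 0) (XT.lf (nat_lit 0) (nat_lit 11729348620) (nat_lit 76) (nat_lit 57845322) (nat_lit 152) (nat_lit 16308003878) (nat_lit 8) (nat_lit 5) (nat_lit 9) (nat_lit 5) (nat_lit 10) (nat_lit 4) (nat_lit 300) (nat_lit 227) (nat_lit 193)) (XT.nd (nat_lit 78) (nat_lit 0) (nat_lit 0) (XT.lf (nat_lit 0) (nat_lit 15303229446) (nat_lit 152) (nat_lit 10681332996) (nat_lit 0) (nat_lit 3328362499) (nat_lit 8) (nat_lit 5) (nat_lit 10) (nat_lit 4) (nat_lit 8) (nat_lit 4) (nat_lit 301) (nat_lit 227) (nat_lit 192)) (XT.lf (nat_lit 0) (nat_lit 18948806120) (nat_lit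 152) (nat_lit 4797428260) (nat_lit 0) (nat_lit 6847670391) (nat_lit 8) (nat_lit 5) (nat_lit 10) (nat_lit 4) (nat_lit 8) (nat_lit 4) (nat_lit 302) (nat_lit 227) (nat_lit 191))))))) (XT.nd (nat_lit 702) (nat_lit 76) (nat_lit 0) (XT.nd (nat_lit 312) (nat_lit 152) (nat_lit 0) (XT.nd (nat_lit 156) (nat_lit 0) (nat_lit 0) (XT.nd (nat_lit 78) (nat_lit 0) (nat_lit 0) (XT.lf (nat_lit 0) (nat_lit 1343787008) (nat_lit 76) (nat_lit 21408894053) (nat_lit 76) (nat_lit 9187502341) (nat_lit 7) (nat_lit 4) (nat_lit 8) (nat_lit 5) (nat_lit 8) (nat_lit 4) (nat_lit 303) (nat_lit 227) (nat_lit 190)) (XT.lf (nat_lit 0) (nat_lit 7880013255) (nat_lit 76) (nat_lit 18903936156) (nat_lit 76) (nat_lit 6568014937) (nat_lit 7) (nat_lit 4) (nat_lit 8) (nat_lit 5) (nat_lit 8) (nat_lit 4) (nat_lit 304) (nat_lit 227) (nat_lit 189))) (XT.nd (nat_lit 78) (nat_lit 0) (nat_lit 0) (XT.lf (nat_lit 0) (nat_lit 14668188278)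 (nat_lit 76) (nat_lit 16306643272) (nat_lit 76) (nat_lit 3861646331) (nat_lit 7) (nat_lit 4) (nat_lit 8) (nat_lit 5) (nat_lit 8) (nat_lit 4) (nat_lit 305) (nat_lit 227) (nat_lit 188)) (XT.lf (nat_lit 0) (nat_lit 21724474399) (nat_lit 76) (nat_lit 13610831370) (nat_lit 76) (nat_lit 1061952791) (nat_lit 7) (nat_lit 4) (nat_lit 8) (nat_lit 5) (nat_lit 8) (nat_lit 4) (nat_lit 306) (nat_lit 227) (nat_lit 187)))) (XT.nd (nat_lit 156) (nat_lit 76) (nat_lit 0) (XT.nd (nat_lit 78) (nat_lit 0) (nat_lit 0) (XT.lf (nat_lit 0) (nat_lit 1778912732) (nat_lit 152) (nat_lit 9001042372) (nat_lit 76) (nat_lit 27256632819) (nat_lit 6) (nat_lit 5) (nat_lit 8) (nat_lit 5) (nat_lit 7) (nat_lit 4) (nat_lit 307) (nat_lit 227) (nat_lit 186)) (XT.lf (nat_lit 0) (nat_lit 4689262714) (nat_lit 152) (nat_lit 3129048619) (nat_lit 76) (nat_lit 31940583374) (nat_lit 6) (nat_lit 5) (nat_lit 8) (nat_lit 5) (nat_lit 7)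 (nat_lit 4) (nat_lit 308) (nat_lit 227) (nat_lit 185))) (XT.nd (nat_lit 78) (nat_lit 0) (nat_lit 0) (XT.lf (nat_lit 0) (nat_lit 3072083965) (nat_lit 76) (nat_lit 4685895553) (nat_lit 152) (nat_lit 33808730935) (nat_lit 5) (nat_lit 5) (nat_lit 6) (nat_lit 5) (nat_lit 7) (nat_lit 4) (nat_lit 309) (nat_lit 227) (nat_lit 184)) (XT.nd (nat_lit 78) (nat_lit 0) (nat_lit 0) (XT.lf (nat_lit 0) (nat_lit 9630132643) (nat_lit 76) (nat_lit 1368584612) (nat_lit 152) (nat_lit 32465304850) (nat_lit 5) (nat_lit 5) (nat_lit 6) (nat_lit 5) (nat_lit 7) (nat_lit 4) (nat_lit 310) (nat_lit 227) (nat_lit 183)) (XT.lf (nat_lit 0) (nat_lit 14401331212) (nat_lit 152) (nat_lit 29033226933) (nat_lit 0) (nat_lit 2021681961) (nat_lit 5) (nat_lit 5) (nat_lit 7) (nat_lit 4) (nat_lit 5) (nat_lit 4) (nat_lit 311) (nat_lit 227) (nat_lit 182)))))) (XT.nd (nat_lit 312) (nat_lit 76) (nat_lit 0) (XT.nd (nat_lit 156) (nat_lit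 0) (nat_lit 0) (XT.nd (nat_lit 78) (nat_lit 0) (nat_lit 0) (XT.lf (nat_lit 0) (nat_lit 17964916089) (nat_lit 152) (nat_lit 24072201988) (nat_lit 0) (nat_lit 5511440096) (nat_lit 5) (nat_lit 5) (nat_lit 7) (nat_lit 4) (nat_lit 5) (nat_lit 4) (nat_lit 312) (nat_lit 227) (nat_lit 181)) (XT.lf (nat_lit 0) (nat_lit 21676589170) (nat_lit 152) (nat_lit 18917635222) (nat_lit 0) (nat_lit 9152801995) (nat_lit 5) (nat_lit 5) (nat_lit 7) (nat_lit 4) (nat_lit 5) (nat_lit 4) (nat_lit 313) (nat_lit 227) (nat_lit 180))) (XT.nd (nat_lit 78) (nat_lit 0) (nat_lit 0) (XT.lf (nat_lit 0) (nat_lit 25545187772) (nat_lit 152) (nat_lit 13557253857) (nat_lit 0) (nat_lit 12954437566) (nat_lit 5) (nat_lit 5) (nat_lit 7) (nat_lit 4) (nat_lit 5) (nat_lit 4) (nat_lit 314) (nat_lit 227) (nat_lit 179)) (XT.lf (nat_lit 0) (nat_lit 29579922843) (nat_lit 152) (nat_lit 7978295081) (nat_lit 0) (nat_lit 16925398322) (nat_lit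 5) (nat_lit 5) (nat_lit 7) (nat_lit 4) (nat_lit 5) (nat_lit 4) (nat_lit 315) (nat_lit 227) (nat_lit 178)))) (XT.nd (nat_lit 156) (nat_lit 0) (nat_lit 0) (XT.nd (nat_lit 78) (nat_lit 76) (nat_lit 0) (XT.lf (nat_lit 0) (nat_lit 33790400897) (nat_lit 152) (nat_lit 2167475659) (nat_lit 0) (nat_lit 21075138933) (nat_lit 5) (nat_lit 5) (nat_lit 7) (nat_lit 4) (nat_lit 5) (nat_lit 4) (nat_lit 316) (nat_lit 227) (nat_lit 177)) (XT.lf (nat_lit 0) (nat_lit 4017628909) (nat_lit 76) (nat_lit 34231744418) (nat_lit 76) (nat_lit 21458637270) (nat_lit 4) (nat_lit 4) (nat_lit 5) (nat_lit 5) (nat_lit 5) (nat_lit 4) (nat_lit 317) (nat_lit 227) (nat_lit 176))) (XT.nd (nat_lit 78) (nat_lit 0) (nat_lit 0) (XT.lf (nat_lit 0) (nat_lit 10543116834) (nat_lit 76) (nat_lit 32400618813) (nat_lit 76) (nat_lit 19572421013) (nat_lit 4) (nat_lit 4) (nat_lit 5) (nat_lit 5) (nat_lit 5) (nat_lit 4) (nat_lit 318) (nat_lit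 227) (nat_lit 175)) (XT.nd (nat_lit 78) (nat_lit 0) (nat_lit 0) (XT.lf (nat_lit 0) (nat_lit 17352858458) (nat_lit 76) (nat_lit 30496847167) (nat_lit 76) (nat_lit 17616182081) (nat_lit 4) (nat_lit 4) (nat_lit 5) (nat_lit 5) (nat_lit 5) (nat_lit 4) (nat_lit 319) (nat_lit 227) (nat_lit 174)) (XT.lf (nat_lit 0) (nat_lit 24463067449) (nat_lit 76) (nat_lit 28515896692) (nat_lit 76) (nat_lit 15585262761) (nat_lit 4) (nat_lit 4) (nat_lit 5) (nat_lit 5) (nat_lit 5) (nat_lit 4) (nat_lit 320) (nat_lit 227) (nat_lit 173))))))))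
noncomputable def xc70 : XT := (XT.nd (nat_lit 1326) (nat_lit 0) (nat_lit 0) (XT.nd (nat_lit 624) (nat_lit 76) (nat_lit 0) (XT.nd (nat_lit 312) (nat_lit 76) (nat_lit 0) (XT.nd (nat_lit 156) (nat_lit 0) (nat_lit 0) (XT.nd (nat_lit 78) (nat_lit 0) (nat_lit 0) (XT.lf (nat_lit 0) (nat_lit 31890672879) (nat_lit 76) (nat_lit 26453050839) (nat_lit 76) (nat_lit 13474827532) (nat_lit 4) (nat_lit 4) (nat_lit 5) (nat_lit 5) (nat_lit 5) (nat_lit 4) (nat_lit 321) (nat_lit 227) (nat_lit 172)) (XT.lf (nat_lit 0) (nat_lit 39653359521) (nat_lit 76) (nat_lit 24303398069) (nat_lit 76) (nat_lit 11279851547) (nat_lit 4) (nat_lit 4) (nat_lit 5) (nat_lit 5) (nat_lit 5) (nat_lit 4) (nat_lit 322) (nat_lit 227) (nat_lit 171))) (XT.nd (nat_lit 78) (nat_lit 0) (nat_lit 0) (XT.lf (nat_lit 0) (nat_lit 47769609963) (nat_lit 76) (nat_lit 22061820162) (nat_lit 76) (nat_lit 8995108673) (nat_lit 4) (nat_lit 4) (nat_lit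 5) (nat_lit 5) (nat_lit 5) (nat_lit 4) (nat_lit 323) (nat_lit 227) (nat_lit 170)) (XT.lf (nat_lit 0) (nat_lit 56258748610) (nat_lit 76) (nat_lit 19722980028) (nat_lit 76) (nat_lit 6615159047) (nat_lit 4) (nat_lit 4) (nat_lit 5) (nat_lit 5) (nat_lit 5) (nat_lit 4) (nat_lit 324) (nat_lit 227) (nat_lit 169)))) (XT.nd (nat_lit 156) (nat_lit 76) (nat_lit 0) (XT.nd (nat_lit 78) (nat_lit 0) (nat_lit 0) (XT.lf (nat_lit 0) (nat_lit 65140987698) (nat_lit 76) (nat_lit 17281308999) (nat_lit 76) (nat_lit 4134336121) (nat_lit 4) (nat_lit 4) (nat_lit 5) (nat_lit 5) (nat_lit 5) (nat_lit 4) (nat_lit 325) (nat_lit 227) (nat_lit 168)) (XT.lf (nat_lit 0) (nat_lit 74437475414) (nat_lit 76) (nat_lit 14730993574) (nat_lit 76) (nat_lit 1546733174) (nat_lit 4) (nat_lit 4) (nat_lit 5) (nat_lit 5) (nat_lit 5) (nat_lit 4) (nat_lit 326) (nat_lit 227) (nat_lit 167))) (XT.nd (nat_lit 78) (nat_lit 0) (nat_lit 0) (XT.lf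 (nat_lit 0) (nat_lit 1116881602) (nat_lit 152) (nat_lit 10930165039) (nat_lit 76) (nat_lit 83034549721) (nat_lit 3) (nat_lit 5) (nat_lit 5) (nat_lit 5) (nat_lit 4) (nat_lit 4) (nat_lit 327) (nat_lit 227) (nat_lit 166)) (XT.lf (nat_lit 0) (nat_lit 3846541492) (nat_lit 152) (nat_lit 5368183145) (nat_lit 76) (nat_lit 90451089185) (nat_lit 3) (nat_lit 5) (nat_lit 5) (nat_lit 5) (nat_lit 4) (nat_lit 4) (nat_lit 328) (nat_lit 227) (nat_lit 165))))) (XT.nd (nat_lit 312) (nat_lit 0) (nat_lit 0) (XT.nd (nat_lit 156) (nat_lit 0) (nat_lit 0) (XT.nd (nat_lit 78) (nat_lit 0) (nat_lit 0) (XT.lf (nat_lit 0) (nat_lit 460344484) (nat_lit 76) (nat_lit 6245093590) (nat_lit 152) (nat_lit 97774179352) (nat_lit 2) (nat_lit 5) (nat_lit 3) (nat_lit 5) (nat_lit 4) (nat_lit 4) (nat_lit 329) (nat_lit 227) (nat_lit 164)) (XT.lf (nat_lit 0) (nat_lit 6740806424) (nat_lit 76) (nat_lit 3043235785) (nat_lit 152) (nat_lit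 99746243201) (nat_lit 2) (nat_lit 5) (nat_lit 3) (nat_lit 5) (nat_lit 4) (nat_lit 4) (nat_lit 330) (nat_lit 227) (nat_lit 163))) (XT.nd (nat_lit 78) (nat_lit 0) (nat_lit 0) (XT.lf (nat_lit 0) (nat_lit 13007902172) (nat_lit 152) (nat_lit 101528314445) (nat_lit 0) (nat_lit 297715645) (nat_lit 2) (nat_lit 5) (nat_lit 4) (nat_lit 4) (nat_lit 2) (nat_lit 4) (nat_lit 331) (nat_lit 227) (nat_lit 162)) (XT.lf (nat_lit 0) (nat_lit 16429843853) (nat_lit 152) (nat_lit 100277926576) (nat_lit 0) (nat_lit 3693157781) (nat_lit 2) (nat_lit 5) (nat_lit 4) (nat_lit 4) (nat_lit 2) (nat_lit 4) (nat_lit 332) (nat_lit 227) (nat_lit 161)))) (XT.nd (nat_lit 156) (nat_lit 0) (nat_lit 0) (XT.nd (nat_lit 78) (nat_lit 0) (nat_lit 0) (XT.lf (nat_lit 0) (nat_lit 20010501293) (nat_lit 152) (nat_lit 98987824828) (nat_lit 0) (nat_lit 7248577559) (nat_lit 2) (nat_lit 5) (nat_lit 4) (nat_lit 4) (nat_lit 2) (nat_lit 4)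 (nat_lit 333) (nat_lit 227) (nat_lit 160)) (XT.lf (nat_lit 0) (nat_lit 23758399867) (nat_lit 152) (nat_lit 97654937530) (nat_lit 0) (nat_lit 10972440264) (nat_lit 2) (nat_lit 5) (nat_lit 4) (nat_lit 4) (nat_lit 2) (nat_lit 4) (nat_lit 334) (nat_lit 227) (nat_lit 159))) (XT.nd (nat_lit 78) (nat_lit 0) (nat_lit 0) (XT.lf (nat_lit 0) (nat_lit 27682463143) (nat_lit 152) (nat_lit 96276091140) (nat_lit 0) (nat_lit 14873612236) (nat_lit 2) (nat_lit 5) (nat_lit 4) (nat_lit 4) (nat_lit 2) (nat_lit 4) (nat_lit 335) (nat_lit 227) (nat_lit 158)) (XT.nd (nat_lit 78) (nat_lit 0) (nat_lit 0) (XT.lf (nat_lit 0) (nat_lit 31792034128) (nat_lit 152) (nat_lit 94848002690) (nat_lit 0) (nat_lit 18961381980) (nat_lit 2) (nat_lit 5) (nat_lit 4) (nat_lit 4) (nat_lit 2) (nat_lit 4) (nat_lit 336) (nat_lit 227) (nat_lit 157)) (XT.lf (nat_lit 0) (nat_lit 36096897516) (nat_lit 152) (nat_lit 93367271970) (nat_lit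 0) (nat_lit 23245482281) (nat_lit 2) (nat_lit 5) (nat_lit 4) (nat_lit 4) (nat_lit 2) (nat_lit 4) (nat_lit 337) (nat_lit 227) (nat_lit 156))))))) (XT.nd (nat_lit 702) (nat_lit 0) (nat_lit 0) (XT.nd (nat_lit 312) (nat_lit 0) (nat_lit 0) (XT.nd (nat_lit 156) (nat_lit 0) (nat_lit 0) (XT.nd (nat_lit 78) (nat_lit 0) (nat_lit 0) (XT.lf (nat_lit 0) (nat_lit 40607302980) (nat_lit 152) (nat_lit 91830373432) (nat_lit 0) (nat_lit 27736113377) (nat_lit 2) (nat_lit 5) (nat_lit 4) (nat_lit 4) (nat_lit 2) (nat_lit 4) (nat_lit 338) (nat_lit 227) (nat_lit 155)) (XT.lf (nat_lit 0) (nat_lit 45333989583) (nat_lit 152) (nat_lit 90233647792) (nat_lit 0) (nat_lit 32443967247) (nat_lit 2) (nat_lit 5) (nat_lit 4) (nat_lit 4) (nat_lit 2) (nat_lit 4) (nat_lit 339) (nat_lit 227) (nat_lit 154))) (XT.nd (nat_lit 78) (nat_lit 0) (nat_lit 0) (XT.lf (nat_lit 0) (nat_lit 50288211339) (nat_lit 152) (nat_lit 88573293322)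 (nat_lit 0) (nat_lit 37380253068) (nat_lit 2) (nat_lit 5) (nat_lit 4) (nat_lit 4) (nat_lit 2) (nat_lit 4) (nat_lit 340) (nat_lit 227) (nat_lit 153)) (XT.lf (nat_lit 0) (nat_lit 55481764015) (nat_lit 152) (nat_lit 86845356799) (nat_lit 0) (nat_lit 42556723901) (nat_lit 2) (nat_lit 5) (nat_lit 4) (nat_lit 4) (nat_lit 2) (nat_lit 4) (nat_lit 341) (nat_lit 227) (nat_lit 152)))) (XT.nd (nat_lit 156) (nat_lit 0) (nat_lit 0) (XT.nd (nat_lit 78) (nat_lit 0) (nat_lit 0) (XT.lf (nat_lit 0) (nat_lit 60927013211) (nat_lit 152) (nat_lit 85045724086) (nat_lit 0) (nat_lit 47985704675) (nat_lit 2) (nat_lit 5) (nat_lit 4) (nat_lit 4) (nat_lit 2) (nat_lit 4) (nat_lit 342) (nat_lit 227) (nat_lit 151)) (XT.lf (nat_lit 0) (nat_lit 66636923808) (nat_lit 152) (nat_lit 83170110346) (nat_lit 0) (nat_lit 53680121537) (nat_lit 2) (nat_lit 5) (nat_lit 4) (nat_lit 4) (nat_lit 2) (nat_lit 4) (nat_lit 343) (nat_lit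 227) (nat_lit 150))) (XT.nd (nat_lit 78) (nat_lit 0) (nat_lit 0) (XT.lf (nat_lit 0) (nat_lit 72625090831) (nat_lit 152) (nat_lit 81214049829) (nat_lit 0) (nat_lit 59653532621) (nat_lit 2) (nat_lit 5) (nat_lit 4) (nat_lit 4) (nat_lit 2) (nat_lit 4) (nat_lit 344) (nat_lit 227) (nat_lit 149)) (XT.nd (nat_lit 78) (nat_lit 0) (nat_lit 0) (XT.lf (nat_lit 0) (nat_lit 78905771819) (nat_lit 152) (nat_lit 79172885251) (nat_lit 0) (nat_lit 65920160335) (nat_lit 2) (nat_lit 5) (nat_lit 4) (nat_lit 4) (nat_lit 2) (nat_lit 4) (nat_lit 345) (nat_lit 227) (nat_lit 148)) (XT.lf (nat_lit 0) (nat_lit 85493920776) (nat_lit 152) (nat_lit 77041756694) (nat_lit 0) (nat_lit 72494925221) (nat_lit 2) (nat_lit 5) (nat_lit 4) (nat_lit 4) (nat_lit 2) (nat_lit 4) (nat_lit 346) (nat_lit 227) (nat_lit 147)))))) (XT.nd (nat_lit 312) (nat_lit 0) (nat_lit 0) (XT.nd (nat_lit 156) (nat_lit 0) (nat_lit 0) (XT.nd (nat_lit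 78) (nat_lit 0) (nat_lit 0) (XT.lf (nat_lit 0) (nat_lit 92405223770) (nat_lit 152) (nat_lit 74815590044) (nat_lit 0) (nat_lit 79393481481) (nat_lit 2) (nat_lit 5) (nat_lit 4) (nat_lit 4) (nat_lit 2) (nat_lit 4) (nat_lit 347) (nat_lit 227) (nat_lit 146)) (XT.lf (nat_lit 0) (nat_lit 99656136285) (nat_lit 152) (nat_lit 72489084903) (nat_lit 0) (nat_lit 86632254248) (nat_lit 2) (nat_lit 5) (nat_lit 4) (nat_lit 4) (nat_lit 2) (nat_lit 4) (nat_lit 348) (nat_lit 227) (nat_lit 145))) (XT.nd (nat_lit 78) (nat_lit 0) (nat_lit 0) (XT.lf (nat_lit 0) (nat_lit 107263922398) (nat_lit 152) (nat_lit 70056701973) (nat_lit 0) (nat_lit 94228478697) (nat_lit 2) (nat_lit 5) (nat_lit 4) (nat_lit 4) (nat_lit 2) (nat_lit 4) (nat_lit 349) (nat_lit 227) (nat_lit 144)) (XT.lf (nat_lit 0) (nat_lit 115246695885) (nat_lit 152) (nat_lit 67512649867) (nat_lit 0) (nat_lit 102200241076) (nat_lit 2) (nat_lit 5) (nat_lit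 4) (nat_lit 4) (nat_lit 2) (nat_lit 4) (nat_lit 350) (nat_lit 227) (nat_lit 143)))) (XT.nd (nat_lit 156) (nat_lit 0) (nat_lit 0) (XT.nd (nat_lit 78) (nat_lit 0) (nat_lit 0) (XT.lf (nat_lit 0) (nat_lit 123623463350) (nat_lit 152) (nat_lit 64850871318) (nat_lit 0) (nat_lit 110566521771) (nat_lit 2) (nat_lit 5) (nat_lit 4) (nat_lit 4) (nat_lit 2) (nat_lit 4) (nat_lit 351) (nat_lit 227) (nat_lit 142)) (XT.lf (nat_lit 0) (nat_lit 132414169478) (nat_lit 152) (nat_lit 62065028758) (nat_lit 0) (nat_lit 119347240499) (nat_lit 2) (nat_lit 5) (nat_lit 4) (nat_lit 4) (nat_lit 2) (nat_lit 4) (nat_lit 352) (nat_lit 227) (nat_lit 141))) (XT.nd (nat_lit 78) (nat_lit 0) (nat_lit 0) (XT.lf (nat_lit 0) (nat_lit 141639744520) (nat_lit 152) (nat_lit 59148489228) (nat_lit 0) (nat_lit 128563303733) (nat_lit 2) (nat_lit 5) (nat_lit 4) (nat_lit 4) (nat_lit 2) (nat_lit 4) (nat_lit 353) (nat_lit 227) (nat_lit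 140)) (XT.nd (nat_lit 78) (nat_lit 0) (nat_lit 0) (XT.lf (nat_lit 0) (nat_lit 151322154133) (nat_lit 152) (nat_lit 56094308586) (nat_lit 0) (nat_lit 138236654479) (nat_lit 2) (nat_lit 5) (nat_lit 4) (nat_lit 4) (nat_lit 2) (nat_lit 4) (nat_lit 354) (nat_lit 227) (nat_lit 139)) (XT.lf (nat_lit 0) (nat_lit 161484451672) (nat_lit 152) (nat_lit 52895214974) (nat_lit 0) (nat_lit 148390324527) (nat_lit 2) (nat_lit 5) (nat_lit 4) (nat_lit 4) (nat_lit 2) (nat_lit 4) (nat_lit 355) (nat_lit 227) (nat_lit 138))))))))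
noncomputable def xc71 : XT := (XT.nd (nat_lit 31200) (nat_lit 0) (nat_lit 684) (XT.nd (nat_lit 30498) (nat_lit 0) (nat_lit 1976) (XT.nd (nat_lit 312) (nat_lit 0) (nat_lit 0) (XT.nd (nat_lit 156) (nat_lit 0) (nat_lit 0) (XT.nd (nat_lit 78) (nat_lit 0) (nat_lit 0) (XT.lf (nat_lit 0) (nat_lit 172150833084) (nat_lit 152) (nat_lit 49543591503) (nat_lit 0) (nat_lit 159048489280) (nat_lit 2) (nat_lit 5) (nat_lit 4) (nat_lit 4) (nat_lit 2) (nat_lit 4) (nat_lit 356) (nat_lit 227) (nat_lit 137)) (XT.lf (nat_lit 0) (nat_lit 183346694515) (nat_lit 152) (nat_lit 46031458116) (nat_lit 0) (nat_lit 170236525321) (nat_lit 2) (nat_lit 5) (nat_lit 4) (nat_lit 4) (nat_lit 2) (nat_lit 4) (nat_lit 357) (nat_lit 227) (nat_lit 136))) (XT.nd (nat_lit 78) (nat_lit 0) (nat_lit 0) (XT.lf (nat_lit 0) (nat_lit 195098692777) (nat_lit 152) (nat_lit 42350452591) (nat_lit 0) (nat_lit 181981070833) (nat_lit 2) (nat_lit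 5) (nat_lit 4) (nat_lit 4) (nat_lit 2) (nat_lit 4) (nat_lit 358) (nat_lit 227) (nat_lit 135)) (XT.lf (nat_lit 0) (nat_lit 207434808820) (nat_lit 152) (nat_lit 38491810629) (nat_lit 0) (nat_lit 194310089017) (nat_lit 2) (nat_lit 5) (nat_lit 4) (nat_lit 4) (nat_lit 2) (nat_lit 4) (nat_lit 359) (nat_lit 227) (nat_lit 134)))) (XT.nd (nat_lit 156) (nat_lit 0) (nat_lit 0) (XT.nd (nat_lit 78) (nat_lit 0) (nat_lit 0) (XT.lf (nat_lit 0) (nat_lit 220384414348) (nat_lit 152) (nat_lit 34446344987) (nat_lit 0) (nat_lit 207252934679) (nat_lit 2) (nat_lit 5) (nat_lit 4) (nat_lit 4) (nat_lit 2) (nat_lit 4) (nat_lit 360) (nat_lit 227) (nat_lit 133)) (XT.lf (nat_lit 0) (nat_lit 233978341755) (nat_lit 152) (nat_lit 30204423605) (nat_lit 0) (nat_lit 220840424119) (nat_lit 2) (nat_lit 5) (nat_lit 4) (nat_lit 4) (nat_lit 2) (nat_lit 4) (nat_lit 361) (nat_lit 227) (nat_lit 132))) (XT.nd (nat_lit 29874) (nat_lit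 0) (nat_lit 3496) (XT.lf (nat_lit 0) (nat_lit 248248957535) (nat_lit 152) (nat_lit 25755946670) (nat_lit 0) (nat_lit 235104908502) (nat_lit 2) (nat_lit 5) (nat_lit 4) (nat_lit 4) (nat_lit 2) (nat_lit 4) (nat_lit 362) (nat_lit 227) (nat_lit 131)) (XT.nd (nat_lit 78) (nat_lit 0) (nat_lit 0) (XT.lf (nat_lit 0) (nat_lit 286147154) (nat_lit 304) (nat_lit 3630339786) (nat_lit 0) (nat_lit 286147154) (nat_lit 48) (nat_lit 5) (nat_lit 52) (nat_lit 4) (nat_lit 48) (nat_lit 4) (nat_lit 264) (nat_lit 228) (nat_lit 228)) (XT.lf (nat_lit 0) (nat_lit 3946851092) (nat_lit 304) (nat_lit 1774507300) (nat_lit 0) (nat_lit 2866350150) (nat_lit 48) (nat_lit 5) (nat_lit 52) (nat_lit 4) (nat_lit 48) (nat_lit 4) (nat_lit 265) (nat_lit 228) (nat_lit 227)))))) (XT.nd (nat_lit 312) (nat_lit 684) (nat_lit 0) (XT.nd (nat_lit 156) (nat_lit 228) (nat_lit 0) (XT.nd (nat_lit 78) (nat_lit 304) (nat_lit 0) (XT.lf (nat_lit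 0) (nat_lit 3927486074) (nat_lit 304) (nat_lit 3482878697) (nat_lit 304) (nat_lit 1373329238) (nat_lit 44) (nat_lit 4) (nat_lit 48) (nat_lit 5) (nat_lit 48) (nat_lit 4) (nat_lit 266) (nat_lit 228) (nat_lit 226)) (XT.lf (nat_lit 0) (nat_lit 794791985) (nat_lit 228) (nat_lit 1100031258) (nat_lit 304) (nat_lit 7098288275) (nat_lit 40) (nat_lit 5) (nat_lit 43) (nat_lit 5) (nat_lit 44) (nat_lit 4) (nat_lit 267) (nat_lit 228) (nat_lit 225))) (XT.nd (nat_lit 78) (nat_lit 228) (nat_lit 0) (XT.lf (nat_lit 0) (nat_lit 5248920918) (nat_lit 304) (nat_lit 2547376107) (nat_lit 0) (nat_lit 1417518058) (nat_lit 40) (nat_lit 5) (nat_lit 44) (nat_lit 4) (nat_lit 40) (nat_lit 4) (nat_lit 268) (nat_lit 228) (nat_lit 224)) (XT.lf (nat_lit 0) (nat_lit 3292828000) (nat_lit 228) (nat_lit 5417064257) (nat_lit 228) (nat_lit 739060636) (nat_lit 37) (nat_lit 4) (nat_lit 40) (nat_lit 5) (nat_lit 40) (nat_lit 4)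 (nat_lit 269) (nat_lit 228) (nat_lit 223)))) (XT.nd (nat_lit 156) (nat_lit 456) (nat_lit 0) (XT.nd (nat_lit 78) (nat_lit 152) (nat_lit 0) (XT.lf (nat_lit 0) (nat_lit 2477903110) (nat_lit 304) (nat_lit 404588683) (nat_lit 76) (nat_lit 6815883227) (nat_lit 36) (nat_lit 5) (nat_lit 40) (nat_lit 5) (nat_lit 37) (nat_lit 4) (nat_lit 270) (nat_lit 228) (nat_lit 222)) (XT.lf (nat_lit 0) (nat_lit 5628922933) (nat_lit 152) (nat_lit 166737964) (nat_lit 228) (nat_lit 4166071240) (nat_lit 34) (nat_lit 5) (nat_lit 36) (nat_lit 5) (nat_lit 37) (nat_lit 4) (nat_lit 271) (nat_lit 228) (nat_lit 221))) (XT.nd (nat_lit 78) (nat_lit 228) (nat_lit 0) (XT.lf (nat_lit 0) (nat_lit 1572192689) (nat_lit 228) (nat_lit 7659840847) (nat_lit 228) (nat_lit 1008881347) (nat_lit 31) (nat_lit 4) (nat_lit 34) (nat_lit 5) (nat_lit 34) (nat_lit 4) (nat_lit 272) (nat_lit 228) (nat_lit 220)) (XT.nd (nat_lit 78) (nat_lit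 152) (nat_lit 0) (XT.lf (nat_lit 0) (nat_lit 2189808778) (nat_lit 304) (nat_lit 2825185352) (nat_lit 76) (nat_lit 5519656500) (nat_lit 30) (nat_lit 5) (nat_lit 34) (nat_lit 5) (nat_lit 31) (nat_lit 4) (nat_lit 273) (nat_lit 228) (nat_lit 219)) (XT.lf (nat_lit 0) (nat_lit 3228044544) (nat_lit 152) (nat_lit 2222728341) (nat_lit 228) (nat_lit 5394915175) (nat_lit 28) (nat_lit 5) (nat_lit 30) (nat_lit 5) (nat_lit 31) (nat_lit 4) (nat_lit 274) (nat_lit 228) (nat_lit 218))))))) (XT.nd (nat_lit 702) (nat_lit 608) (nat_lit 0) (XT.nd (nat_lit 312) (nat_lit 304) (nat_lit 0) (XT.nd (nat_lit 156) (nat_lit 152) (nat_lit 0) (XT.nd (nat_lit 78) (nat_lit 228) (nat_lit 0) (XT.lf (nat_lit 0) (nat_lit 8822306792) (nat_lit 228) (nat_lit 1671199414) (nat_lit 0) (nat_lit 681637052) (nat_lit 28) (nat_lit 5) (nat_lit 31) (nat_lit 4) (nat_lit 28) (nat_lit 4) (nat_lit 275) (nat_lit 228) (nat_lit 217)) (XT.lf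 (nat_lit 0) (nat_lit 814325797) (nat_lit 228) (nat_lit 7017028254) (nat_lit 76) (nat_lit 3689284455) (nat_lit 25) (nat_lit 5) (nat_lit 28) (nat_lit 5) (nat_lit 26) (nat_lit 4) (nat_lit 276) (nat_lit 228) (nat_lit 216))) (XT.nd (nat_lit 78) (nat_lit 152) (nat_lit 0) (XT.lf (nat_lit 0) (nat_lit 3983360719) (nat_lit 228) (nat_lit 1040246091) (nat_lit 76) (nat_lit 6861952915) (nat_lit 25) (nat_lit 5) (nat_lit 28) (nat_lit 5) (nat_lit 26) (nat_lit 4) (nat_lit 277) (nat_lit 228) (nat_lit 215)) (XT.lf (nat_lit 0) (nat_lit 5246733604) (nat_lit 152) (nat_lit 2044904982) (nat_lit 228) (nat_lit 4978247933) (nat_lit 23) (nat_lit 5) (nat_lit 25) (nat_lit 5) (nat_lit 26) (nat_lit 4) (nat_lit 278) (nat_lit 228) (nat_lit 214)))) (XT.nd (nat_lit 156) (nat_lit 76) (nat_lit 0) (XT.nd (nat_lit 78) (nat_lit 228) (nat_lit 0) (XT.lf (nat_lit 0) (nat_lit 10700562240) (nat_lit 228) (nat_lit 963870770) (nat_lit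 0) (nat_lit 1012424640) (nat_lit 23) (nat_lit 5) (nat_lit 26) (nat_lit 4) (nat_lit 23) (nat_lit 4) (nat_lit 279) (nat_lit 228) (nat_lit 213)) (XT.lf (nat_lit 0) (nat_lit 1161106520) (nat_lit 228) (nat_lit 7735460145) (nat_lit 76) (nat_lit 4205715633) (nat_lit 20) (nat_lit 5) (nat_lit 23) (nat_lit 5) (nat_lit 21) (nat_lit 4) (nat_lit 280) (nat_lit 228) (nat_lit 212))) (XT.nd (nat_lit 78) (nat_lit 76) (nat_lit 0) (XT.lf (nat_lit 0) (nat_lit 4311231648) (nat_lit 228) (nat_lit 1684933073) (nat_lit 76) (nat_lit 7555243843) (nat_lit 20) (nat_lit 5) (nat_lit 23) (nat_lit 5) (nat_lit 21) (nat_lit 4) (nat_lit 281) (nat_lit 228) (nat_lit 211)) (XT.nd (nat_lit 78) (nat_lit 0) (nat_lit 0) (XT.lf (nat_lit 0) (nat_lit 4673296619) (nat_lit 76) (nat_lit 2928699544) (nat_lit 152) (nat_lit 6421994303) (nat_lit 19) (nat_lit 5) (nat_lit 20) (nat_lit 5) (nat_lit 21) (nat_lit 4) (nat_lit 282) (nat_lit 228)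 (nat_lit 210)) (XT.lf (nat_lit 0) (nat_lit 11002244599) (nat_lit 152) (nat_lit 3261627461) (nat_lit 0) (nat_lit 259230670) (nat_lit 19) (nat_lit 5) (nat_lit 21) (nat_lit 4) (nat_lit 19) (nat_lit 4) (nat_lit 283) (nat_lit 228) (nat_lit 209)))))) (XT.nd (nat_lit 312) (nat_lit 304) (nat_lit 0) (XT.nd (nat_lit 156) (nat_lit 76) (nat_lit 0) (XT.nd (nat_lit 78) (nat_lit 76) (nat_lit 0) (XT.lf (nat_lit 0) (nat_lit 3042440022) (nat_lit 152) (nat_lit 11541179479) (nat_lit 152) (nat_lit 463136881) (nat_lit 17) (nat_lit 4) (nat_lit 19) (nat_lit 5) (nat_lit 19) (nat_lit 4) (nat_lit 284) (nat_lit 228) (nat_lit 208)) (XT.lf (nat_lit 0) (nat_lit 2631682063) (nat_lit 228) (nat_lit 6002169291) (nat_lit 76) (nat_lit 6962117510) (nat_lit 16) (nat_lit 5) (nat_lit 19) (nat_lit 5) (nat_lit 17) (nat_lit 4) (nat_lit 285) (nat_lit 228) (nat_lit 207))) (XT.nd (nat_lit 78) (nat_lit 0) (nat_lit 0) (XT.lf (nat_lit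 0) (nat_lit 164929189) (nat_lit 76) (nat_lit 5623328171) (nat_lit 152) (nat_lit 10387998210) (nat_lit 15) (nat_lit 5) (nat_lit 16) (nat_lit 5) (nat_lit 17) (nat_lit 4) (nat_lit 286) (nat_lit 228) (nat_lit 206)) (XT.lf (nat_lit 0) (nat_lit 6718064678) (nat_lit 76) (nat_lit 2408019926) (nat_lit 152) (nat_lit 7658417242) (nat_lit 15) (nat_lit 5) (nat_lit 16) (nat_lit 5) (nat_lit 17) (nat_lit 4) (nat_lit 287) (nat_lit 228) (nat_lit 205)))) (XT.nd (nat_lit 156) (nat_lit 152) (nat_lit 0) (XT.nd (nat_lit 78) (nat_lit 152) (nat_lit 0) (XT.lf (nat_lit 0) (nat_lit 12570635609) (nat_lit 152) (nat_lit 3966949093) (nat_lit 0) (nat_lit 888694965) (nat_lit 15) (nat_lit 5) (nat_lit 17) (nat_lit 4) (nat_lit 15) (nat_lit 4) (nat_lit 288) (nat_lit 228) (nat_lit 204)) (XT.lf (nat_lit 0) (nat_lit 2351852998) (nat_lit 152) (nat_lit 13840059126) (nat_lit 152) (nat_lit 1908114930) (nat_lit 13) (nat_lit 4)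 (nat_lit 15) (nat_lit 5) (nat_lit 15) (nat_lit 4) (nat_lit 289) (nat_lit 228) (nat_lit 203))) (XT.nd (nat_lit 78) (nat_lit 76) (nat_lit 0) (XT.lf (nat_lit 0) (nat_lit 1145693806) (nat_lit 228) (nat_lit 9821370512) (nat_lit 76) (nat_lit 7839722401) (nat_lit 12) (nat_lit 5) (nat_lit 15) (nat_lit 5) (nat_lit 13) (nat_lit 4) (nat_lit 290) (nat_lit 228) (nat_lit 202)) (XT.nd (nat_lit 78) (nat_lit 76) (nat_lit 0) (XT.lf (nat_lit 0) (nat_lit 4220071916) (nat_lit 228) (nat_lit 3745655977) (nat_lit 76) (nat_lit 11585083437) (nat_lit 12) (nat_lit 5) (nat_lit 15) (nat_lit 5) (nat_lit 13) (nat_lit 4) (nat_lit 291) (nat_lit 228) (nat_lit 201)) (XT.lf (nat_lit 0) (nat_lit 2606655821) (nat_lit 76) (nat_lit 4817452322) (nat_lit 152) (nat_lit 12909218923) (nat_lit 11) (nat_lit 5) (nat_lit 12) (nat_lit 5) (nat_lit 13) (nat_lit 4) (nat_lit 292) (nat_lit 228) (nat_lit 200))))))))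
noncomputable def xc72 : XT := (XT.nd (nat_lit 1326) (nat_lit 152) (nat_lit 0) (XT.nd (nat_lit 624) (nat_lit 152) (nat_lit 0) (XT.nd (nat_lit 312) (nat_lit 152) (nat_lit 0) (XT.nd (nat_lit 156) (nat_lit 76) (nat_lit 0) (XT.nd (nat_lit 78) (nat_lit 0) (nat_lit 0) (XT.lf (nat_lit 0) (nat_lit 9297790356) (nat_lit 76) (nat_lit 1490616848) (nat_lit 152) (nat_lit 10366641052) (nat_lit 11) (nat_lit 5) (nat_lit 12) (nat_lit 5) (nat_lit 13) (nat_lit 4) (nat_lit 293) (nat_lit 228) (nat_lit 199)) (XT.lf (nat_lit 0) (nat_lit 14291155148) (nat_lit 152) (nat_lit 5831711091) (nat_lit 0) (nat_lit 1896556350) (nat_lit 11) (nat_lit 5) (nat_lit 13) (nat_lit 4) (nat_lit 11) (nat_lit 4) (nat_lit 294) (nat_lit 228) (nat_lit 198))) (XT.nd (nat_lit 78) (nat_lit 0) (nat_lit 0) (XT.lf (nat_lit 0) (nat_lit 381878623) (nat_lit 76) (nat_lit 17559435021) (nat_lit 76) (nat_lit 4987163367) (nat_lit 10) (nat_lit 4)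 (nat_lit 11) (nat_lit 5) (nat_lit 11) (nat_lit 4) (nat_lit 295) (nat_lit 228) (nat_lit 197)) (XT.lf (nat_lit 0) (nat_lit 7009220436) (nat_lit 76) (nat_lit 14806613197) (nat_lit 76) (nat_lit 2065129298) (nat_lit 10) (nat_lit 4) (nat_lit 11) (nat_lit 5) (nat_lit 11) (nat_lit 4) (nat_lit 296) (nat_lit 228) (nat_lit 196)))) (XT.nd (nat_lit 156) (nat_lit 76) (nat_lit 0) (XT.nd (nat_lit 78) (nat_lit 0) (nat_lit 0) (XT.lf (nat_lit 0) (nat_lit 915750297) (nat_lit 152) (nat_lit 11025350306) (nat_lit 76) (nat_lit 12942012053) (nat_lit 9) (nat_lit 5) (nat_lit 11) (nat_lit 5) (nat_lit 10) (nat_lit 4) (nat_lit 297) (nat_lit 228) (nat_lit 195)) (XT.lf (nat_lit 0) (nat_lit 3923744650) (nat_lit 152) (nat_lit 5012442377) (nat_lit 76) (nat_lit 17000178206) (nat_lit 9) (nat_lit 5) (nat_lit 11) (nat_lit 5) (nat_lit 10) (nat_lit 4) (nat_lit 298) (nat_lit 228) (nat_lit 194))) (XT.nd (nat_lit 78) (nat_lit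 0) (nat_lit 0) (XT.lf (nat_lit 0) (nat_lit 1253665313) (nat_lit 76) (nat_lit 5798020600) (nat_lit 152) (nat_lit 19992175953) (nat_lit 8) (nat_lit 5) (nat_lit 9) (nat_lit 5) (nat_lit 10) (nat_lit 4) (nat_lit 299) (nat_lit 228) (nat_lit 193)) (XT.lf (nat_lit 0) (nat_lit 7920940746) (nat_lit 76) (nat_lit 2450982613) (nat_lit 152) (nat_lit 17833071001) (nat_lit 8) (nat_lit 5) (nat_lit 9) (nat_lit 5) (nat_lit 10) (nat_lit 4) (nat_lit 300) (nat_lit 228) (nat_lit 192))))) (XT.nd (nat_lit 312) (nat_lit 76) (nat_lit 0) (XT.nd (nat_lit 156) (nat_lit 76) (nat_lit 0) (XT.nd (nat_lit 78) (nat_lit 0) (nat_lit 0) (XT.lf (nat_lit 0) (nat_lit 13827566557) (nat_lit 152) (nat_lit 14603095291) (nat_lit 0) (nat_lit 995105260) (nat_lit 8) (nat_lit 5) (nat_lit 10) (nat_lit 4) (nat_lit 8) (nat_lit 4) (nat_lit 301) (nat_lit 228) (nat_lit 191)) (XT.lf (nat_lit 0) (nat_lit 17451211110) (nat_lit 152) (nat_lit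 8758163375) (nat_lit 0) (nat_lit 4498493830) (nat_lit 8) (nat_lit 5) (nat_lit 10) (nat_lit 4) (nat_lit 8) (nat_lit 4) (nat_lit 302) (nat_lit 228) (nat_lit 190))) (XT.nd (nat_lit 78) (nat_lit 76) (nat_lit 0) (XT.lf (nat_lit 0) (nat_lit 21213218037) (nat_lit 152) (nat_lit 2697074653) (nat_lit 0) (nat_lit 8145971250) (nat_lit 8) (nat_lit 5) (nat_lit 10) (nat_lit 4) (nat_lit 8) (nat_lit 4) (nat_lit 303) (nat_lit 228) (nat_lit 189)) (XT.lf (nat_lit 0) (nat_lit 3713455814) (nat_lit 76) (nat_lit 21467066134) (nat_lit 76) (nat_lit 8290743626) (nat_lit 7) (nat_lit 4) (nat_lit 8) (nat_lit 5) (nat_lit 8) (nat_lit 4) (nat_lit 304) (nat_lit 228) (nat_lit 188)))) (XT.nd (nat_lit 156) (nat_lit 76) (nat_lit 0) (XT.nd (nat_lit 78) (nat_lit 0) (nat_lit 0) (XT.lf (nat_lit 0) (nat_lit 10466851494) (nat_lit 76) (nat_lit 18885063800) (nat_lit 76) (nat_lit 5604859652) (nat_lit 7) (nat_lit 4) (nat_lit 8) (nat_lit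 5) (nat_lit 8) (nat_lit 4) (nat_lit 305) (nat_lit 228) (nat_lit 187)) (XT.lf (nat_lit 0) (nat_lit 17490014431) (nat_lit 76) (nat_lit 16203814328) (nat_lit 76) (nat_lit 2824675285) (nat_lit 7) (nat_lit 4) (nat_lit 8) (nat_lit 5) (nat_lit 8) (nat_lit 4) (nat_lit 306) (nat_lit 228) (nat_lit 186))) (XT.nd (nat_lit 78) (nat_lit 0) (nat_lit 0) (XT.lf (nat_lit 0) (nat_lit 54622883) (nat_lit 152) (nat_lit 13361385841) (nat_lit 76) (nat_lit 24744118494) (nat_lit 6) (nat_lit 5) (nat_lit 8) (nat_lit 5) (nat_lit 7) (nat_lit 4) (nat_lit 307) (nat_lit 228) (nat_lit 185)) (XT.nd (nat_lit 78) (nat_lit 0) (nat_lit 0) (XT.lf (nat_lit 0) (nat_lit 2947843832) (nat_lit 152) (nat_lit 7520019760) (nat_lit 76) (nat_lit 29415444466) (nat_lit 6) (nat_lit 5) (nat_lit 8) (nat_lit 5) (nat_lit 7) (nat_lit 4) (nat_lit 308) (nat_lit 228) (nat_lit 184)) (XT.lf (nat_lit 0) (nat_lit 5952283433) (nat_lit 152) (nat_lit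 1446382259) (nat_lit 76) (nat_lit 34295688739) (nat_lit 6) (nat_lit 5) (nat_lit 8) (nat_lit 5) (nat_lit 7) (nat_lit 4) (nat_lit 309) (nat_lit 228) (nat_lit 183))))))) (XT.nd (nat_lit 702) (nat_lit 0) (nat_lit 0) (XT.nd (nat_lit 312) (nat_lit 76) (nat_lit 0) (XT.nd (nat_lit 156) (nat_lit 0) (nat_lit 0) (XT.nd (nat_lit 78) (nat_lit 0) (nat_lit 0) (XT.lf (nat_lit 0) (nat_lit 5035143748) (nat_lit 76) (nat_lit 4118564071) (nat_lit 152) (nat_lit 34439939900) (nat_lit 5) (nat_lit 5) (nat_lit 6) (nat_lit 5) (nat_lit 7) (nat_lit 4) (nat_lit 310) (nat_lit 228) (nat_lit 182)) (XT.lf (nat_lit 0) (nat_lit 11834930308) (nat_lit 76) (nat_lit 673560261) (nat_lit 152) (nat_lit 33079781919) (nat_lit 5) (nat_lit 5) (nat_lit 6) (nat_lit 5) (nat_lit 7) (nat_lit 4) (nat_lit 311) (nat_lit 228) (nat_lit 181))) (XT.nd (nat_lit 78) (nat_lit 0) (nat_lit 0) (XT.lf (nat_lit 0) (nat_lit 16046880727) (nat_lit 152)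 (nat_lit 28808391037) (nat_lit 0) (nat_lit 2826593011) (nat_lit 5) (nat_lit 5) (nat_lit 7) (nat_lit 4) (nat_lit 5) (nat_lit 4) (nat_lit 312) (nat_lit 228) (nat_lit 180)) (XT.lf (nat_lit 0) (nat_lit 19744574231) (nat_lit 152) (nat_lit 23679148047) (nat_lit 0) (nat_lit 6457323483) (nat_lit 5) (nat_lit 5) (nat_lit 7) (nat_lit 4) (nat_lit 5) (nat_lit 4) (nat_lit 313) (nat_lit 228) (nat_lit 179)))) (XT.nd (nat_lit 156) (nat_lit 76) (nat_lit 0) (XT.nd (nat_lit 78) (nat_lit 0) (nat_lit 0) (XT.lf (nat_lit 0) (nat_lit 23599858950) (nat_lit 152) (nat_lit 18342884563) (nat_lit 0) (nat_lit 10248833887) (nat_lit 5) (nat_lit 5) (nat_lit 7) (nat_lit 4) (nat_lit 5) (nat_lit 4) (nat_lit 314) (nat_lit 228) (nat_lit 178)) (XT.lf (nat_lit 0) (nat_lit 27621914133) (nat_lit 152) (nat_lit 12786895198) (nat_lit 0) (nat_lit 14210151627) (nat_lit 5) (nat_lit 5) (nat_lit 7) (nat_lit 4) (nat_lit 5) (nat_lit 4)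 (nat_lit 315) (nat_lit 228) (nat_lit 177))) (XT.nd (nat_lit 78) (nat_lit 76) (nat_lit 0) (XT.lf (nat_lit 0) (nat_lit 31820316102) (nat_lit 152) (nat_lit 6997951405) (nat_lit 0) (nat_lit 18350708413) (nat_lit 5) (nat_lit 5) (nat_lit 7) (nat_lit 4) (nat_lit 5) (nat_lit 4) (nat_lit 316) (nat_lit 228) (nat_lit 176)) (XT.nd (nat_lit 78) (nat_lit 76) (nat_lit 0) (XT.lf (nat_lit 0) (nat_lit 36205061053) (nat_lit 152) (nat_lit 962269984) (nat_lit 0) (nat_lit 22680362712) (nat_lit 5) (nat_lit 5) (nat_lit 7) (nat_lit 4) (nat_lit 5) (nat_lit 4) (nat_lit 317) (nat_lit 228) (nat_lit 175)) (XT.lf (nat_lit 0) (nat_lit 5510903047) (nat_lit 76) (nat_lit 35361726448) (nat_lit 76) (nat_lit 21784560821) (nat_lit 4) (nat_lit 4) (nat_lit 5) (nat_lit 5) (nat_lit 5) (nat_lit 4) (nat_lit 318) (nat_lit 228) (nat_lit 174)))))) (XT.nd (nat_lit 312) (nat_lit 0) (nat_lit 0) (XT.nd (nat_lit 156) (nat_lit 0) (nat_lit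 0) (XT.nd (nat_lit 78) (nat_lit 0) (nat_lit 0) (XT.lf (nat_lit 0) (nat_lit 12301122859) (nat_lit 76) (nat_lit 33466740048) (nat_lit 76) (nat_lit 19839605576) (nat_lit 4) (nat_lit 4) (nat_lit 5) (nat_lit 5) (nat_lit 5) (nat_lit 4) (nat_lit 319) (nat_lit 228) (nat_lit 173)) (XT.lf (nat_lit 0) (nat_lit 19392739650) (nat_lit 76) (nat_lit 31494156473) (nat_lit 76) (nat_lit 17819432625) (nat_lit 4) (nat_lit 4) (nat_lit 5) (nat_lit 5) (nat_lit 5) (nat_lit 4) (nat_lit 320) (nat_lit 228) (nat_lit 172))) (XT.nd (nat_lit 78) (nat_lit 0) (nat_lit 0) (XT.lf (nat_lit 0) (nat_lit 26802638221) (nat_lit 76) (nat_lit 29439279096) (nat_lit 76) (nat_lit 15719232033) (nat_lit 4) (nat_lit 4) (nat_lit 5) (nat_lit 5) (nat_lit 5) (nat_lit 4) (nat_lit 321) (nat_lit 228) (nat_lit 171)) (XT.lf (nat_lit 0) (nat_lit 34548461189) (nat_lit 76) (nat_lit 27297215351) (nat_lit 76) (nat_lit 13534003321) (nat_lit 4) (nat_lit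 4) (nat_lit 5) (nat_lit 5) (nat_lit 5) (nat_lit 4) (nat_lit 322) (nat_lit 228) (nat_lit 170)))) (XT.nd (nat_lit 156) (nat_lit 0) (nat_lit 0) (XT.nd (nat_lit 78) (nat_lit 0) (nat_lit 0) (XT.lf (nat_lit 0) (nat_lit 42648650989) (nat_lit 76) (nat_lit 25062865087) (nat_lit 76) (nat_lit 11258543565) (nat_lit 4) (nat_lit 4) (nat_lit 5) (nat_lit 5) (nat_lit 5) (nat_lit 4) (nat_lit 323) (nat_lit 228) (nat_lit 169)) (XT.lf (nat_lit 0) (nat_lit 51122493786) (nat_lit 76) (nat_lit 22730908422) (nat_lit 76) (nat_lit 8887435003) (nat_lit 4) (nat_lit 4) (nat_lit 5) (nat_lit 5) (nat_lit 5) (nat_lit 4) (nat_lit 324) (nat_lit 228) (nat_lit 168))) (XT.nd (nat_lit 78) (nat_lit 0) (nat_lit 0) (XT.lf (nat_lit 0) (nat_lit 59990165398) (nat_lit 76) (nat_lit 20295793079) (nat_lit 76) (nat_lit 6415032138) (nat_lit 4) (nat_lit 4) (nat_lit 5) (nat_lit 5) (nat_lit 5) (nat_lit 4) (nat_lit 325) (nat_lit 228) (nat_lit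 167)) (XT.nd (nat_lit 78) (nat_lit 0) (nat_lit 0) (XT.lf (nat_lit 0) (nat_lit 69272779328) (nat_lit 76) (nat_lit 17751721163) (nat_lit 76) (nat_lit 3835448297) (nat_lit 4) (nat_lit 4) (nat_lit 5) (nat_lit 5) (nat_lit 5) (nat_lit 4) (nat_lit 326) (nat_lit 228) (nat_lit 166)) (XT.lf (nat_lit 0) (nat_lit 78992437038) (nat_lit 76) (nat_lit 15092635361) (nat_lit 76) (nat_lit 1142541614) (nat_lit 4) (nat_lit 4) (nat_lit 5) (nat_lit 5) (nat_lit 5) (nat_lit 4) (nat_lit 327) (nat_lit 228) (nat_lit 165))))))))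
noncomputable def xc73 : XT := (XT.nd (nat_lit 1326) (nat_lit 0) (nat_lit 0) (XT.nd (nat_lit 624) (nat_lit 0) (nat_lit 0) (XT.nd (nat_lit 312) (nat_lit 0) (nat_lit 0) (XT.nd (nat_lit 156) (nat_lit 76) (nat_lit 0) (XT.nd (nat_lit 78) (nat_lit 0) (nat_lit 0) (XT.lf (nat_lit 0) (nat_lit 1616645976) (nat_lit 152) (nat_lit 10668179857) (nat_lit 76) (nat_lit 87528255911) (nat_lit 3) (nat_lit 5) (nat_lit 5) (nat_lit 5) (nat_lit 4) (nat_lit 4) (nat_lit 328) (nat_lit 228) (nat_lit 164)) (XT.lf (nat_lit 0) (nat_lit 4461649799) (nat_lit 152) (nat_lit 4866598556) (nat_lit 76) (nat_lit 95299337648) (nat_lit 3) (nat_lit 5) (nat_lit 5) (nat_lit 5) (nat_lit 4) (nat_lit 4) (nat_lit 329) (nat_lit 228) (nat_lit 163))) (XT.nd (nat_lit 78) (nat_lit 0) (nat_lit 0) (XT.lf (nat_lit 0) (nat_lit 1240936200) (nat_lit 76) (nat_lit 6214250431) (nat_lit 152) (nat_lit 102227326453) (nat_lit 2) (nat_lit 5) (nat_lit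 3) (nat_lit 5) (nat_lit 4) (nat_lit 4) (nat_lit 330) (nat_lit 228) (nat_lit 162)) (XT.lf (nat_lit 0) (nat_lit 7799346261) (nat_lit 76) (nat_lit 2868637727) (nat_lit 152) (nat_lit 104318734536) (nat_lit 2) (nat_lit 5) (nat_lit 3) (nat_lit 5) (nat_lit 4) (nat_lit 4) (nat_lit 331) (nat_lit 228) (nat_lit 161)))) (XT.nd (nat_lit 156) (nat_lit 0) (nat_lit 0) (XT.nd (nat_lit 78) (nat_lit 0) (nat_lit 0) (XT.lf (nat_lit 0) (nat_lit 14039098525) (nat_lit 152) (nat_lit 105903321562) (nat_lit 0) (nat_lit 613840942) (nat_lit 2) (nat_lit 5) (nat_lit 4) (nat_lit 4) (nat_lit 2) (nat_lit 4) (nat_lit 332) (nat_lit 228) (nat_lit 160)) (XT.lf (nat_lit 0) (nat_lit 17614003898) (nat_lit 152) (nat_lit 104623814710) (nat_lit 0) (nat_lit 4164710446) (nat_lit 2) (nat_lit 5) (nat_lit 4) (nat_lit 4) (nat_lit 2) (nat_lit 4) (nat_lit 333) (nat_lit 228) (nat_lit 159))) (XT.nd (nat_lit 78) (nat_lit 0) (nat_lit 0)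 (XT.lf (nat_lit 0) (nat_lit 21356424312) (nat_lit 152) (nat_lit 103301017789) (nat_lit 0) (nat_lit 7884239557) (nat_lit 2) (nat_lit 5) (nat_lit 4) (nat_lit 4) (nat_lit 2) (nat_lit 4) (nat_lit 334) (nat_lit 228) (nat_lit 158)) (XT.lf (nat_lit 0) (nat_lit 25275270293) (nat_lit 152) (nat_lit 101931781282) (nat_lit 0) (nat_lit 11781284297) (nat_lit 2) (nat_lit 5) (nat_lit 4) (nat_lit 4) (nat_lit 2) (nat_lit 4) (nat_lit 335) (nat_lit 228) (nat_lit 157))))) (XT.nd (nat_lit 312) (nat_lit 0) (nat_lit 0) (XT.nd (nat_lit 156) (nat_lit 0) (nat_lit 0) (XT.nd (nat_lit 78) (nat_lit 0) (nat_lit 0) (XT.lf (nat_lit 0) (nat_lit 29379872426) (nat_lit 152) (nat_lit 100512845102) (nat_lit 0) (nat_lit 15865123343) (nat_lit 2) (nat_lit 5) (nat_lit 4) (nat_lit 4) (nat_lit 2) (nat_lit 4) (nat_lit 336) (nat_lit 228) (nat_lit 156)) (XT.lf (nat_lit 0) (nat_lit 33680003574) (nat_lit 152) (nat_lit 99040830830) (nat_lit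 0) (nat_lit 20145480122) (nat_lit 2) (nat_lit 5) (nat_lit 4) (nat_lit 4) (nat_lit 2) (nat_lit 4) (nat_lit 337) (nat_lit 228) (nat_lit 155))) (XT.nd (nat_lit 78) (nat_lit 0) (nat_lit 0) (XT.lf (nat_lit 0) (nat_lit 38185902143) (nat_lit 152) (nat_lit 97512233669) (nat_lit 0) (nat_lit 24632545959) (nat_lit 2) (nat_lit 5) (nat_lit 4) (nat_lit 4) (nat_lit 2) (nat_lit 4) (nat_lit 338) (nat_lit 228) (nat_lit 154)) (XT.lf (nat_lit 0) (nat_lit 42908296465) (nat_lit 152) (nat_lit 95923414103) (nat_lit 0) (nat_lit 29337004345) (nat_lit 2) (nat_lit 5) (nat_lit 4) (nat_lit 4) (nat_lit 2) (nat_lit 4) (nat_lit 339) (nat_lit 228) (nat_lit 153)))) (XT.nd (nat_lit 156) (nat_lit 0) (nat_lit 0) (XT.nd (nat_lit 78) (nat_lit 0) (nat_lit 0) (XT.lf (nat_lit 0) (nat_lit 47858430334) (nat_lit 152) (nat_lit 94270589229) (nat_lit 0) (nat_lit 34270056371) (nat_lit 2) (nat_lit 5) (nat_lit 4) (nat_lit 4) (nat_lit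 2) (nat_lit 4) (nat_lit 340) (nat_lit 228) (nat_lit 152)) (XT.lf (nat_lit 0) (nat_lit 53048089784) (nat_lit 152) (nat_lit 92549823748) (nat_lit 0) (nat_lit 39443447399) (nat_lit 2) (nat_lit 5) (nat_lit 4) (nat_lit 4) (nat_lit 2) (nat_lit 4) (nat_lit 341) (nat_lit 228) (nat_lit 151))) (XT.nd (nat_lit 78) (nat_lit 0) (nat_lit 0) (XT.lf (nat_lit 0) (nat_lit 58489631146) (nat_lit 152) (nat_lit 90757020600) (nat_lit 0) (nat_lit 44869495027) (nat_lit 2) (nat_lit 5) (nat_lit 4) (nat_lit 4) (nat_lit 2) (nat_lit 4) (nat_lit 342) (nat_lit 228) (nat_lit 150)) (XT.nd (nat_lit 78) (nat_lit 0) (nat_lit 0) (XT.lf (nat_lit 0) (nat_lit 64196010473) (nat_lit 152) (nat_lit 88887911207) (nat_lit 0) (nat_lit 50561118415) (nat_lit 2) (nat_lit 5) (nat_lit 4) (nat_lit 4) (nat_lit 2) (nat_lit 4) (nat_lit 343) (nat_lit 228) (nat_lit 149)) (XT.lf (nat_lit 0) (nat_lit 70180814381) (nat_lit 152) (nat_lit 86938045307)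 (nat_lit 0) (nat_lit 56531869048) (nat_lit 2) (nat_lit 5) (nat_lit 4) (nat_lit 4) (nat_lit 2) (nat_lit 4) (nat_lit 344) (nat_lit 228) (nat_lit 148))))))) (XT.nd (nat_lit 702) (nat_lit 0) (nat_lit 0) (XT.nd (nat_lit 312) (nat_lit 0) (nat_lit 0) (XT.nd (nat_lit 156) (nat_lit 0) (nat_lit 0) (XT.nd (nat_lit 78) (nat_lit 0) (nat_lit 0) (XT.lf (nat_lit 0) (nat_lit 76458292403) (nat_lit 152) (nat_lit 84902780362) (nat_lit 0) (nat_lit 62795962999) (nat_lit 2) (nat_lit 5) (nat_lit 4) (nat_lit 4) (nat_lit 2) (nat_lit 4) (nat_lit 345) (nat_lit 228) (nat_lit 147)) (XT.lf (nat_lit 0) (nat_lit 83043390916) (nat_lit 152) (nat_lit 82777270505) (nat_lit 0) (nat_lit 69368314777) (nat_lit 2) (nat_lit 5) (nat_lit 4) (nat_lit 4) (nat_lit 2) (nat_lit 4) (nat_lit 346) (nat_lit 228) (nat_lit 146))) (XT.nd (nat_lit 78) (nat_lit 0) (nat_lit 0) (XT.lf (nat_lit 0) (nat_lit 89951788725) (nat_lit 152) (nat_lit 80556454997)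 (nat_lit 0) (nat_lit 76264572839) (nat_lit 2) (nat_lit 5) (nat_lit 4) (nat_lit 4) (nat_lit 2) (nat_lit 4) (nat_lit 347) (nat_lit 228) (nat_lit 145)) (XT.lf (nat_lit 0) (nat_lit 97199934397) (nat_lit 152) (nat_lit 78235046182) (nat_lit 0) (nat_lit 83501156848) (nat_lit 2) (nat_lit 5) (nat_lit 4) (nat_lit 4) (nat_lit 2) (nat_lit 4) (nat_lit 348) (nat_lit 228) (nat_lit 144)))) (XT.nd (nat_lit 156) (nat_lit 0) (nat_lit 0) (XT.nd (nat_lit 78) (nat_lit 0) (nat_lit 0) (XT.lf (nat_lit 0) (nat_lit 104805085421) (nat_lit 152) (nat_lit 75807516897) (nat_lit 0) (nat_lit 91095296763) (nat_lit 2) (nat_lit 5) (nat_lit 4) (nat_lit 4) (nat_lit 2) (nat_lit 4) (nat_lit 349) (nat_lit 228) (nat_lit 143)) (XT.lf (nat_lit 0) (nat_lit 112785349300) (nat_lit 152) (nat_lit 73268087309) (nat_lit 0) (nat_lit 99065073873) (nat_lit 2) (nat_lit 5) (nat_lit 4) (nat_lit 4) (nat_lit 2) (nat_lit 4) (nat_lit 350) (nat_lit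 228) (nat_lit 142))) (XT.nd (nat_lit 78) (nat_lit 0) (nat_lit 0) (XT.lf (nat_lit 0) (nat_lit 121159726662) (nat_lit 152) (nat_lit 70610711158) (nat_lit 0) (nat_lit 107429463835) (nat_lit 2) (nat_lit 5) (nat_lit 4) (nat_lit 4) (nat_lit 2) (nat_lit 4) (nat_lit 351) (nat_lit 228) (nat_lit 141)) (XT.nd (nat_lit 78) (nat_lit 0) (nat_lit 0) (XT.lf (nat_lit 0) (nat_lit 129948156502) (nat_lit 152) (nat_lit 67829061358) (nat_lit 0) (nat_lit 116208381865) (nat_lit 2) (nat_lit 5) (nat_lit 4) (nat_lit 4) (nat_lit 2) (nat_lit 4) (nat_lit 352) (nat_lit 228) (nat_lit 140)) (XT.lf (nat_lit 0) (nat_lit 139171563651) (nat_lit 152) (nat_lit 64916514933) (nat_lit 0) (nat_lit 125422730148) (nat_lit 2) (nat_lit 5) (nat_lit 4) (nat_lit 4) (nat_lit 2) (nat_lit 4) (nat_lit 353) (nat_lit 228) (nat_lit 139)))))) (XT.nd (nat_lit 312) (nat_lit 0) (nat_lit 0) (XT.nd (nat_lit 156) (nat_lit 0) (nat_lit 0) (XT.nd (nat_lit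 78) (nat_lit 0) (nat_lit 0) (XT.lf (nat_lit 0) (nat_lit 148851908603) (nat_lit 152) (nat_lit 61866137248) (nat_lit 0) (nat_lit 135094447609) (nat_lit 2) (nat_lit 5) (nat_lit 4) (nat_lit 4) (nat_lit 2) (nat_lit 4) (nat_lit 354) (nat_lit 228) (nat_lit 138)) (XT.lf (nat_lit 0) (nat_lit 159012239798) (nat_lit 152) (nat_lit 58670665500) (nat_lit 0) (nat_lit 145246562145) (nat_lit 2) (nat_lit 5) (nat_lit 4) (nat_lit 4) (nat_lit 2) (nat_lit 4) (nat_lit 355) (nat_lit 228) (nat_lit 137))) (XT.nd (nat_lit 78) (nat_lit 0) (nat_lit 0) (XT.lf (nat_lit 0) (nat_lit 169676748502) (nat_lit 152) (nat_lit 55322491423) (nat_lit 0) (nat_lit 155903245460) (nat_lit 2) (nat_lit 5) (nat_lit 4) (nat_lit 4) (nat_lit 2) (nat_lit 4) (nat_lit 356) (nat_lit 228) (nat_lit 136)) (XT.lf (nat_lit 0) (nat_lit 180870826401) (nat_lit 152) (nat_lit 51813643173) (nat_lit 0) (nat_lit 167089870608) (nat_lit 2) (nat_lit 5) (nat_lit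 4) (nat_lit 4) (nat_lit 2) (nat_lit 4) (nat_lit 357) (nat_lit 228) (nat_lit 135)))) (XT.nd (nat_lit 156) (nat_lit 0) (nat_lit 0) (XT.nd (nat_lit 78) (nat_lit 0) (nat_lit 0) (XT.lf (nat_lit 0) (nat_lit 192621126062) (nat_lit 152) (nat_lit 48135766350) (nat_lit 0) (nat_lit 178833072410) (nat_lit 2) (nat_lit 5) (nat_lit 4) (nat_lit 4) (nat_lit 2) (nat_lit 4) (nat_lit 358) (nat_lit 228) (nat_lit 134)) (XT.lf (nat_lit 0) (nat_lit 204955624390) (nat_lit 152) (nat_lit 44280104105) (nat_lit 0) (nat_lit 191160810872) (nat_lit 2) (nat_lit 5) (nat_lit 4) (nat_lit 4) (nat_lit 2) (nat_lit 4) (nat_lit 359) (nat_lit 228) (nat_lit 133))) (XT.nd (nat_lit 78) (nat_lit 0) (nat_lit 0) (XT.lf (nat_lit 0) (nat_lit 217903689236) (nat_lit 152) (nat_lit 40237476288) (nat_lit 0) (nat_lit 204102437751) (nat_lit 2) (nat_lit 5) (nat_lit 4) (nat_lit 4) (nat_lit 2) (nat_lit 4) (nat_lit 360) (nat_lit 228) (nat_lit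 132)) (XT.nd (nat_lit 78) (nat_lit 0) (nat_lit 0) (XT.lf (nat_lit 0) (nat_lit 231496149327) (nat_lit 152) (nat_lit 35998257597) (nat_lit 0) (nat_lit 217688766445) (nat_lit 2) (nat_lit 5) (nat_lit 4) (nat_lit 4) (nat_lit 2) (nat_lit 4) (nat_lit 361) (nat_lit 228) (nat_lit 131)) (XT.lf (nat_lit 0) (nat_lit 245765367663) (nat_lit 152) (nat_lit 31552354652) (nat_lit 0) (nat_lit 231952145355) (nat_lit 2) (nat_lit 5) (nat_lit 4) (nat_lit 4) (nat_lit 2) (nat_lit 4) (nat_lit 362) (nat_lit 228) (nat_lit 130))))))))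
noncomputable def xc74 : XT := (XT.nd (nat_lit 1326) (nat_lit 988) (nat_lit 0) (XT.nd (nat_lit 624) (nat_lit 1064) (nat_lit 0) (XT.nd (nat_lit 312) (nat_lit 836) (nat_lit 0) (XT.nd (nat_lit 156) (nat_lit 304) (nat_lit 0) (XT.nd (nat_lit 78) (nat_lit 304) (nat_lit 0) (XT.lf (nat_lit 0) (nat_lit 1628871243) (nat_lit 380) (nat_lit 776139009) (nat_lit 0) (nat_lit 1628871243) (nat_lit 56) (nat_lit 5) (nat_lit 61) (nat_lit 4) (nat_lit 56) (nat_lit 4) (nat_lit 262) (nat_lit 229) (nat_lit 229)) (XT.lf (nat_lit 0) (nat_lit 3872700027) (nat_lit 304) (nat_lit 2775290252) (nat_lit 304) (nat_lit 1584037963) (nat_lit 52) (nat_lit 4) (nat_lit 56) (nat_lit 5) (nat_lit 56) (nat_lit 4) (nat_lit 263) (nat_lit 229) (nat_lit 228))) (XT.nd (nat_lit 78) (nat_lit 0) (nat_lit 0) (XT.lf (nat_lit 0) (nat_lit 1044251860) (nat_lit 228) (nat_lit 599665280) (nat_lit 304) (nat_lit 6764718785) (nat_lit 48) (nat_lit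 5) (nat_lit 51) (nat_lit 5) (nat_lit 52) (nat_lit 4) (nat_lit 264) (nat_lit 229) (nat_lit 227)) (XT.lf (nat_lit 0) (nat_lit 4940287074) (nat_lit 304) (nat_lit 1958698894) (nat_lit 0) (nat_lit 1696211626) (nat_lit 48) (nat_lit 5) (nat_lit 52) (nat_lit 4) (nat_lit 48) (nat_lit 4) (nat_lit 265) (nat_lit 229) (nat_lit 226)))) (XT.nd (nat_lit 156) (nat_lit 228) (nat_lit 0) (XT.nd (nat_lit 78) (nat_lit 304) (nat_lit 0) (XT.lf (nat_lit 0) (nat_lit 3648803901) (nat_lit 304) (nat_lit 4685098799) (nat_lit 304) (nat_lit 460977145) (nat_lit 44) (nat_lit 4) (nat_lit 48) (nat_lit 5) (nat_lit 48) (nat_lit 4) (nat_lit 266) (nat_lit 229) (nat_lit 225)) (XT.lf (nat_lit 0) (nat_lit 391241273) (nat_lit 228) (nat_lit 2315461295) (nat_lit 304) (nat_lit 6300629271) (nat_lit 40) (nat_lit 5) (nat_lit 43) (nat_lit 5) (nat_lit 44) (nat_lit 4) (nat_lit 267) (nat_lit 229) (nat_lit 224))) (XT.nd (nat_lit 78) (nat_lit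 228) (nat_lit 0) (XT.lf (nat_lit 0) (nat_lit 5978275295) (nat_lit 304) (nat_lit 3034290017) (nat_lit 0) (nat_lit 219770732) (nat_lit 40) (nat_lit 5) (nat_lit 44) (nat_lit 4) (nat_lit 40) (nat_lit 4) (nat_lit 268) (nat_lit 229) (nat_lit 223)) (XT.lf (nat_lit 0) (nat_lit 2703116647) (nat_lit 228) (nat_lit 6666400390) (nat_lit 228) (nat_lit 101609387) (nat_lit 37) (nat_lit 4) (nat_lit 40) (nat_lit 5) (nat_lit 40) (nat_lit 4) (nat_lit 269) (nat_lit 229) (nat_lit 222))))) (XT.nd (nat_lit 312) (nat_lit 532) (nat_lit 0) (XT.nd (nat_lit 156) (nat_lit 304) (nat_lit 0) (XT.nd (nat_lit 78) (nat_lit 152) (nat_lit 0) (XT.lf (nat_lit 0) (nat_lit 3034903096) (nat_lit 304) (nat_lit 1111131501) (nat_lit 76) (nat_lit 5577169424) (nat_lit 36) (nat_lit 5) (nat_lit 40) (nat_lit 5) (nat_lit 37) (nat_lit 4) (nat_lit 270) (nat_lit 229) (nat_lit 221)) (XT.lf (nat_lit 0) (nat_lit 4815679303) (nat_lit 152) (nat_lit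 1467095194) (nat_lit 228) (nat_lit 3707424434) (nat_lit 34) (nat_lit 5) (nat_lit 36) (nat_lit 5) (nat_lit 37) (nat_lit 4) (nat_lit 271) (nat_lit 229) (nat_lit 220))) (XT.nd (nat_lit 78) (nat_lit 76) (nat_lit 0) (XT.lf (nat_lit 0) (nat_lit 638993074) (nat_lit 228) (nat_lit 8989207226) (nat_lit 228) (nat_lit 645865361) (nat_lit 31) (nat_lit 4) (nat_lit 34) (nat_lit 5) (nat_lit 34) (nat_lit 4) (nat_lit 272) (nat_lit 229) (nat_lit 219)) (XT.lf (nat_lit 0) (nat_lit 2485520953) (nat_lit 304) (nat_lit 3879770433) (nat_lit 76) (nat_lit 4205134826) (nat_lit 30) (nat_lit 5) (nat_lit 34) (nat_lit 5) (nat_lit 31) (nat_lit 4) (nat_lit 273) (nat_lit 229) (nat_lit 218)))) (XT.nd (nat_lit 156) (nat_lit 380) (nat_lit 0) (XT.nd (nat_lit 78) (nat_lit 0) (nat_lit 0) (XT.lf (nat_lit 0) (nat_lit 2057354852) (nat_lit 152) (nat_lit 3617819096) (nat_lit 228) (nat_lit 5209973287) (nat_lit 28) (nat_lit 5) (nat_lit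 30) (nat_lit 5) (nat_lit 31) (nat_lit 4) (nat_lit 274) (nat_lit 229) (nat_lit 217)) (XT.lf (nat_lit 0) (nat_lit 8267431085) (nat_lit 152) (nat_lit 716566742) (nat_lit 228) (nat_lit 2233852521) (nat_lit 28) (nat_lit 5) (nat_lit 30) (nat_lit 5) (nat_lit 31) (nat_lit 4) (nat_lit 275) (nat_lit 229) (nat_lit 216))) (XT.nd (nat_lit 78) (nat_lit 152) (nat_lit 0) (XT.lf (nat_lit 0) (nat_lit 845547339) (nat_lit 228) (nat_lit 8452809725) (nat_lit 76) (nat_lit 2269195321) (nat_lit 25) (nat_lit 5) (nat_lit 28) (nat_lit 5) (nat_lit 26) (nat_lit 4) (nat_lit 276) (nat_lit 229) (nat_lit 215)) (XT.nd (nat_lit 78) (nat_lit 152) (nat_lit 0) (XT.lf (nat_lit 0) (nat_lit 3965252985) (nat_lit 228) (nat_lit 2552403083) (nat_lit 76) (nat_lit 5417381110) (nat_lit 25) (nat_lit 5) (nat_lit 28) (nat_lit 5) (nat_lit 26) (nat_lit 4) (nat_lit 277) (nat_lit 229) (nat_lit 214)) (XT.lf (nat_lit 0) (nat_lit 3609434215)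 (nat_lit 152) (nat_lit 3591553541) (nat_lit 228) (nat_lit 5122095855) (nat_lit 23) (nat_lit 5) (nat_lit 25) (nat_lit 5) (nat_lit 26) (nat_lit 4) (nat_lit 278) (nat_lit 229) (nat_lit 213))))))) (XT.nd (nat_lit 702) (nat_lit 380) (nat_lit 0) (XT.nd (nat_lit 312) (nat_lit 304) (nat_lit 0) (XT.nd (nat_lit 156) (nat_lit 76) (nat_lit 0) (XT.nd (nat_lit 78) (nat_lit 228) (nat_lit 0) (XT.lf (nat_lit 0) (nat_lit 10021268004) (nat_lit 152) (nat_lit 526453531) (nat_lit 228) (nat_lit 2185530780) (nat_lit 23) (nat_lit 5) (nat_lit 25) (nat_lit 5) (nat_lit 26) (nat_lit 4) (nat_lit 279) (nat_lit 229) (nat_lit 212)) (XT.lf (nat_lit 0) (nat_lit 875680422) (nat_lit 228) (nat_lit 9661190427) (nat_lit 76) (nat_lit 2626193724) (nat_lit 20) (nat_lit 5) (nat_lit 23) (nat_lit 5) (nat_lit 21) (nat_lit 4) (nat_lit 280) (nat_lit 229) (nat_lit 211))) (XT.nd (nat_lit 78) (nat_lit 76) (nat_lit 0) (XT.lf (nat_lit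 0) (nat_lit 3981985976) (nat_lit 228) (nat_lit 3681101603) (nat_lit 76) (nat_lit 5951370325) (nat_lit 20) (nat_lit 5) (nat_lit 23) (nat_lit 5) (nat_lit 21) (nat_lit 4) (nat_lit 281) (nat_lit 229) (nat_lit 210)) (XT.lf (nat_lit 0) (nat_lit 2541823595) (nat_lit 76) (nat_lit 4655915701) (nat_lit 152) (nat_lit 6893123534) (nat_lit 19) (nat_lit 5) (nat_lit 20) (nat_lit 5) (nat_lit 21) (nat_lit 4) (nat_lit 282) (nat_lit 229) (nat_lit 209)))) (XT.nd (nat_lit 156) (nat_lit 152) (nat_lit 0) (XT.nd (nat_lit 78) (nat_lit 152) (nat_lit 0) (XT.lf (nat_lit 0) (nat_lit 9068390397) (nat_lit 76) (nat_lit 1484640072) (nat_lit 152) (nat_lit 4039261501) (nat_lit 19) (nat_lit 5) (nat_lit 20) (nat_lit 5) (nat_lit 21) (nat_lit 4) (nat_lit 283) (nat_lit 229) (nat_lit 208)) (XT.lf (nat_lit 0) (nat_lit 662686894) (nat_lit 152) (nat_lit 13372174975) (nat_lit 152) (nat_lit 1086126655) (nat_lit 17) (nat_lit 4)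 (nat_lit 19) (nat_lit 5) (nat_lit 19) (nat_lit 4) (nat_lit 284) (nat_lit 229) (nat_lit 207))) (XT.nd (nat_lit 78) (nat_lit 76) (nat_lit 0) (XT.lf (nat_lit 0) (nat_lit 1989609820) (nat_lit 228) (nat_lit 8511229066) (nat_lit 76) (nat_lit 5171859169) (nat_lit 16) (nat_lit 5) (nat_lit 19) (nat_lit 5) (nat_lit 17) (nat_lit 4) (nat_lit 285) (nat_lit 229) (nat_lit 206)) (XT.nd (nat_lit 78) (nat_lit 76) (nat_lit 0) (XT.lf (nat_lit 0) (nat_lit 5106446271) (nat_lit 228) (nat_lit 2411124702) (nat_lit 76) (nat_lit 8737457507) (nat_lit 16) (nat_lit 5) (nat_lit 19) (nat_lit 5) (nat_lit 17) (nat_lit 4) (nat_lit 286) (nat_lit 229) (nat_lit 205)) (XT.lf (nat_lit 0) (nat_lit 4001568169) (nat_lit 76) (nat_lit 4367474096) (nat_lit 152) (nat_lit 8498048129) (nat_lit 15) (nat_lit 5) (nat_lit 16) (nat_lit 5) (nat_lit 17) (nat_lit 4) (nat_lit 287) (nat_lit 229) (nat_lit 204)))))) (XT.nd (nat_lit 312) (nat_lit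 152) (nat_lit 0) (XT.nd (nat_lit 156) (nat_lit 228) (nat_lit 0) (XT.nd (nat_lit 78) (nat_lit 0) (nat_lit 0) (XT.lf (nat_lit 0) (nat_lit 10700056026) (nat_lit 76) (nat_lit 1064591890) (nat_lit 152) (nat_lit 5746719065) (nat_lit 15) (nat_lit 5) (nat_lit 16) (nat_lit 5) (nat_lit 17) (nat_lit 4) (nat_lit 288) (nat_lit 229) (nat_lit 203)) (XT.lf (nat_lit 0) (nat_lit 15299275539) (nat_lit 152) (nat_lit 607588359) (nat_lit 0) (nat_lit 2282631962) (nat_lit 15) (nat_lit 5) (nat_lit 17) (nat_lit 4) (nat_lit 15) (nat_lit 4) (nat_lit 289) (nat_lit 229) (nat_lit 202))) (XT.nd (nat_lit 78) (nat_lit 0) (nat_lit 0) (XT.lf (nat_lit 0) (nat_lit 151892729) (nat_lit 228) (nat_lit 12932024072) (nat_lit 76) (nat_lit 5815306341) (nat_lit 12) (nat_lit 5) (nat_lit 15) (nat_lit 5) (nat_lit 13) (nat_lit 4) (nat_lit 290) (nat_lit 229) (nat_lit 201)) (XT.lf (nat_lit 0) (nat_lit 3194681575) (nat_lit 228) (nat_lit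 6910269404) (nat_lit 76) (nat_lit 9539918604) (nat_lit 12) (nat_lit 5) (nat_lit 15) (nat_lit 5) (nat_lit 13) (nat_lit 4) (nat_lit 291) (nat_lit 229) (nat_lit 200)))) (XT.nd (nat_lit 156) (nat_lit 76) (nat_lit 0) (XT.nd (nat_lit 78) (nat_lit 76) (nat_lit 0) (XT.lf (nat_lit 0) (nat_lit 6327935587) (nat_lit 228) (nat_lit 692777220) (nat_lit 76) (nat_lit 13410251974) (nat_lit 12) (nat_lit 5) (nat_lit 15) (nat_lit 5) (nat_lit 13) (nat_lit 4) (nat_lit 292) (nat_lit 229) (nat_lit 199)) (XT.lf (nat_lit 0) (nat_lit 5924889498) (nat_lit 76) (nat_lit 3726729524) (nat_lit 152) (nat_lit 11603136160) (nat_lit 11) (nat_lit 5) (nat_lit 12) (nat_lit 5) (nat_lit 13) (nat_lit 4) (nat_lit 293) (nat_lit 229) (nat_lit 198))) (XT.nd (nat_lit 78) (nat_lit 76) (nat_lit 0) (XT.lf (nat_lit 0) (nat_lit 12798775956) (nat_lit 76) (nat_lit 296961582) (nat_lit 152) (nat_lit 9026360048) (nat_lit 11) (nat_lit 5) (nat_lit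 12) (nat_lit 5) (nat_lit 13) (nat_lit 4) (nat_lit 294) (nat_lit 229) (nat_lit 197)) (XT.nd (nat_lit 78) (nat_lit 76) (nat_lit 0) (XT.lf (nat_lit 0) (nat_lit 16708293775) (nat_lit 152) (nat_lit 3164249765) (nat_lit 0) (nat_lit 3160523437) (nat_lit 11) (nat_lit 5) (nat_lit 13) (nat_lit 4) (nat_lit 11) (nat_lit 4) (nat_lit 295) (nat_lit 229) (nat_lit 196)) (XT.lf (nat_lit 0) (nat_lit 3312292873) (nat_lit 76) (nat_lit 17193045912) (nat_lit 76) (nat_lit 3484121056) (nat_lit 10) (nat_lit 4) (nat_lit 11) (nat_lit 5) (nat_lit 11) (nat_lit 4) (nat_lit 296) (nat_lit 229) (nat_lit 195))))))))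
noncomputable def xc75 : XT := (XT.nd (nat_lit 1326) (nat_lit 228) (nat_lit 0) (XT.nd (nat_lit 624) (nat_lit 228) (nat_lit 0) (XT.nd (nat_lit 312) (nat_lit 0) (nat_lit 0) (XT.nd (nat_lit 156) (nat_lit 76) (nat_lit 0) (XT.nd (nat_lit 78) (nat_lit 76) (nat_lit 0) (XT.lf (nat_lit 0) (nat_lit 10132367475) (nat_lit 76) (nat_lit 14361838276) (nat_lit 76) (nat_lit 499432926) (nat_lit 10) (nat_lit 4) (nat_lit 11) (nat_lit 5) (nat_lit 11) (nat_lit 4) (nat_lit 297) (nat_lit 229) (nat_lit 194)) (XT.lf (nat_lit 0) (nat_lit 2500143454) (nat_lit 152) (nat_lit 8883283167) (nat_lit 76) (nat_lit 14665103334) (nat_lit 9) (nat_lit 5) (nat_lit 11) (nat_lit 5) (nat_lit 10) (nat_lit 4) (nat_lit 298) (nat_lit 229) (nat_lit 193))) (XT.nd (nat_lit 78) (nat_lit 76) (nat_lit 0) (XT.lf (nat_lit 0) (nat_lit 5585270588) (nat_lit 152) (nat_lit 2697983873) (nat_lit 76) (nat_lit 18874940143) (nat_lit 9) (nat_lit 5)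 (nat_lit 11) (nat_lit 5) (nat_lit 10) (nat_lit 4) (nat_lit 299) (nat_lit 229) (nat_lit 192)) (XT.lf (nat_lit 0) (nat_lit 3840056933) (nat_lit 76) (nat_lit 4999176107) (nat_lit 152) (nat_lit 19483433819) (nat_lit 8) (nat_lit 5) (nat_lit 9) (nat_lit 5) (nat_lit 10) (nat_lit 4) (nat_lit 300) (nat_lit 229) (nat_lit 191)))) (XT.nd (nat_lit 156) (nat_lit 0) (nat_lit 0) (XT.nd (nat_lit 78) (nat_lit 0) (nat_lit 0) (XT.lf (nat_lit 0) (nat_lit 10720519550) (nat_lit 76) (nat_lit 1536631246) (nat_lit 152) (nat_lit 17288199855) (nat_lit 8) (nat_lit 5) (nat_lit 9) (nat_lit 5) (nat_lit 10) (nat_lit 4) (nat_lit 301) (nat_lit 229) (nat_lit 190)) (XT.lf (nat_lit 0) (nat_lit 15835916496) (nat_lit 152) (nat_lit 12993025035) (nat_lit 0) (nat_lit 2000777862) (nat_lit 8) (nat_lit 5) (nat_lit 10) (nat_lit 4) (nat_lit 8) (nat_lit 4) (nat_lit 302) (nat_lit 229) (nat_lit 189))) (XT.nd (nat_lit 78) (nat_lit 0)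 (nat_lit 0) (XT.lf (nat_lit 0) (nat_lit 19578030343) (nat_lit 152) (nat_lit 6967285810) (nat_lit 0) (nat_lit 5633815988) (nat_lit 8) (nat_lit 5) (nat_lit 10) (nat_lit 4) (nat_lit 8) (nat_lit 4) (nat_lit 303) (nat_lit 229) (nat_lit 188)) (XT.lf (nat_lit 0) (nat_lit 23468411013) (nat_lit 152) (nat_lit 709275306) (nat_lit 0) (nat_lit 9420315018) (nat_lit 8) (nat_lit 5) (nat_lit 10) (nat_lit 4) (nat_lit 8) (nat_lit 4) (nat_lit 304) (nat_lit 229) (nat_lit 187))))) (XT.nd (nat_lit 312) (nat_lit 76) (nat_lit 0) (XT.nd (nat_lit 156) (nat_lit 76) (nat_lit 0) (XT.nd (nat_lit 78) (nat_lit 0) (nat_lit 0) (XT.lf (nat_lit 0) (nat_lit 5987545345) (nat_lit 76) (nat_lit 21622258334) (nat_lit 76) (nat_lit 7475227444) (nat_lit 7) (nat_lit 4) (nat_lit 8) (nat_lit 5) (nat_lit 8) (nat_lit 4) (nat_lit 305) (nat_lit 229) (nat_lit 186)) (XT.lf (nat_lit 0) (nat_lit 12979162392) (nat_lit 76) (nat_lit 18954877840)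 (nat_lit 76) (nat_lit 4713623242) (nat_lit 7) (nat_lit 4) (nat_lit 8) (nat_lit 5) (nat_lit 8) (nat_lit 4) (nat_lit 306) (nat_lit 229) (nat_lit 185))) (XT.nd (nat_lit 78) (nat_lit 76) (nat_lit 0) (XT.lf (nat_lit 0) (nat_lit 20258770699) (nat_lit 76) (nat_lit 16181205853) (nat_lit 76) (nat_lit 1850214389) (nat_lit 7) (nat_lit 4) (nat_lit 8) (nat_lit 5) (nat_lit 8) (nat_lit 4) (nat_lit 307) (nat_lit 229) (nat_lit 184)) (XT.lf (nat_lit 0) (nat_lit 1085911611) (nat_lit 152) (nat_lit 12190336342) (nat_lit 76) (nat_lit 26739400615) (nat_lit 6) (nat_lit 5) (nat_lit 8) (nat_lit 5) (nat_lit 7) (nat_lit 4) (nat_lit 308) (nat_lit 229) (nat_lit 183)))) (XT.nd (nat_lit 156) (nat_lit 0) (nat_lit 0) (XT.nd (nat_lit 78) (nat_lit 76) (nat_lit 0) (XT.lf (nat_lit 0) (nat_lit 4074814675) (nat_lit 152) (nat_lit 6144479042) (nat_lit 76) (nat_lit 31608194019) (nat_lit 6) (nat_lit 5) (nat_lit 8) (nat_lit 5)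 (nat_lit 7) (nat_lit 4) (nat_lit 309) (nat_lit 229) (nat_lit 182)) (XT.lf (nat_lit 0) (nat_lit 154374534) (nat_lit 76) (nat_lit 7030865339) (nat_lit 152) (nat_lit 36546106318) (nat_lit 5) (nat_lit 5) (nat_lit 6) (nat_lit 5) (nat_lit 7) (nat_lit 4) (nat_lit 310) (nat_lit 229) (nat_lit 181))) (XT.nd (nat_lit 78) (nat_lit 0) (nat_lit 0) (XT.lf (nat_lit 0) (nat_lit 6928130490) (nat_lit 76) (nat_lit 3597393626) (nat_lit 152) (nat_lit 35201186254) (nat_lit 5) (nat_lit 5) (nat_lit 6) (nat_lit 5) (nat_lit 7) (nat_lit 4) (nat_lit 311) (nat_lit 229) (nat_lit 180)) (XT.nd (nat_lit 78) (nat_lit 0) (nat_lit 0) (XT.lf (nat_lit 0) (nat_lit 13989752590) (nat_lit 76) (nat_lit 14763371) (nat_lit 152) (nat_lit 33818770404) (nat_lit 5) (nat_lit 5) (nat_lit 6) (nat_lit 5) (nat_lit 7) (nat_lit 4) (nat_lit 312) (nat_lit 229) (nat_lit 179)) (XT.lf (nat_lit 0) (nat_lit 17688665085) (nat_lit 152) (nat_lit 28728178169)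 (nat_lit 0) (nat_lit 3606314454) (nat_lit 5) (nat_lit 5) (nat_lit 7) (nat_lit 4) (nat_lit 5) (nat_lit 4) (nat_lit 313) (nat_lit 229) (nat_lit 178))))))) (XT.nd (nat_lit 702) (nat_lit 152) (nat_lit 0) (XT.nd (nat_lit 312) (nat_lit 76) (nat_lit 0) (XT.nd (nat_lit 156) (nat_lit 0) (nat_lit 0) (XT.nd (nat_lit 78) (nat_lit 0) (nat_lit 0) (XT.lf (nat_lit 0) (nat_lit 21531269915) (nat_lit 152) (nat_lit 23414884097) (nat_lit 0) (nat_lit 7388181841) (nat_lit 5) (nat_lit 5) (nat_lit 7) (nat_lit 4) (nat_lit 5) (nat_lit 4) (nat_lit 314) (nat_lit 229) (nat_lit 177)) (XT.lf (nat_lit 0) (nat_lit 25541249014) (nat_lit 152) (nat_lit 17880770361) (nat_lit 0) (nat_lit 11340315756) (nat_lit 5) (nat_lit 5) (nat_lit 7) (nat_lit 4) (nat_lit 5) (nat_lit 4) (nat_lit 315) (nat_lit 229) (nat_lit 176))) (XT.nd (nat_lit 78) (nat_lit 0) (nat_lit 0) (XT.lf (nat_lit 0) (nat_lit 29728149951) (nat_lit 152) (nat_lit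 12112660501) (nat_lit 0) (nat_lit 15472126041) (nat_lit 5) (nat_lit 5) (nat_lit 7) (nat_lit 4) (nat_lit 5) (nat_lit 4) (nat_lit 316) (nat_lit 229) (nat_lit 175)) (XT.lf (nat_lit 0) (nat_lit 34101941537) (nat_lit 152) (nat_lit 6096820921) (nat_lit 0) (nat_lit 19793450341) (nat_lit 5) (nat_lit 5) (nat_lit 7) (nat_lit 4) (nat_lit 5) (nat_lit 4) (nat_lit 317) (nat_lit 229) (nat_lit 174)))) (XT.nd (nat_lit 156) (nat_lit 0) (nat_lit 0) (XT.nd (nat_lit 78) (nat_lit 0) (nat_lit 0) (XT.lf (nat_lit 0) (nat_lit 187058857) (nat_lit 76) (nat_lit 38488899218) (nat_lit 76) (nat_lit 24130439177) (nat_lit 4) (nat_lit 4) (nat_lit 5) (nat_lit 5) (nat_lit 5) (nat_lit 4) (nat_lit 318) (nat_lit 229) (nat_lit 173)) (XT.lf (nat_lit 0) (nat_lit 6958686469) (nat_lit 76) (nat_lit 36602279718) (nat_lit 76) (nat_lit 22196230301) (nat_lit 4) (nat_lit 4) (nat_lit 5) (nat_lit 5) (nat_lit 5) (nat_lit 4) (nat_lit 319)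 (nat_lit 229) (nat_lit 172))) (XT.nd (nat_lit 78) (nat_lit 0) (nat_lit 0) (XT.lf (nat_lit 0) (nat_lit 14032596401) (nat_lit 76) (nat_lit 34637664619) (nat_lit 76) (nat_lit 20186291988) (nat_lit 4) (nat_lit 4) (nat_lit 5) (nat_lit 5) (nat_lit 5) (nat_lit 4) (nat_lit 320) (nat_lit 229) (nat_lit 171)) (XT.nd (nat_lit 78) (nat_lit 0) (nat_lit 0) (XT.lf (nat_lit 0) (nat_lit 21425631299) (nat_lit 76) (nat_lit 32590376267) (nat_lit 76) (nat_lit 18095838669) (nat_lit 4) (nat_lit 4) (nat_lit 5) (nat_lit 5) (nat_lit 5) (nat_lit 4) (nat_lit 321) (nat_lit 229) (nat_lit 170)) (XT.lf (nat_lit 0) (nat_lit 29155393624) (nat_lit 76) (nat_lit 30455540165) (nat_lit 76) (nat_lit 15919893075) (nat_lit 4) (nat_lit 4) (nat_lit 5) (nat_lit 5) (nat_lit 5) (nat_lit 4) (nat_lit 322) (nat_lit 229) (nat_lit 169)))))) (XT.nd (nat_lit 312) (nat_lit 152) (nat_lit 0) (XT.nd (nat_lit 156) (nat_lit 0) (nat_lit 0) (XT.nd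 (nat_lit 78) (nat_lit 0) (nat_lit 0) (XT.lf (nat_lit 0) (nat_lit 37240287574) (nat_lit 76) (nat_lit 28228073371) (nat_lit 76) (nat_lit 13653274383) (nat_lit 4) (nat_lit 4) (nat_lit 5) (nat_lit 5) (nat_lit 5) (nat_lit 4) (nat_lit 323) (nat_lit 229) (nat_lit 168)) (XT.lf (nat_lit 0) (nat_lit 45699562896) (nat_lit 76) (nat_lit 25902672391) (nat_lit 76) (nat_lit 11290585882) (nat_lit 4) (nat_lit 4) (nat_lit 5) (nat_lit 5) (nat_lit 5) (nat_lit 4) (nat_lit 324) (nat_lit 229) (nat_lit 167))) (XT.nd (nat_lit 78) (nat_lit 0) (nat_lit 0) (XT.lf (nat_lit 0) (nat_lit 54553360721) (nat_lit 76) (nat_lit 23473800557) (nat_lit 76) (nat_lit 8826202123) (nat_lit 4) (nat_lit 4) (nat_lit 5) (nat_lit 5) (nat_lit 5) (nat_lit 4) (nat_lit 325) (nat_lit 229) (nat_lit 166)) (XT.lf (nat_lit 0) (nat_lit 63822761521) (nat_lit 76) (nat_lit 20935674841) (nat_lit 76) (nat_lit 6254255526) (nat_lit 4) (nat_lit 4) (nat_lit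 5) (nat_lit 5) (nat_lit 5) (nat_lit 4) (nat_lit 326) (nat_lit 229) (nat_lit 165)))) (XT.nd (nat_lit 156) (nat_lit 152) (nat_lit 0) (XT.nd (nat_lit 78) (nat_lit 0) (nat_lit 0) (XT.lf (nat_lit 0) (nat_lit 73529835297) (nat_lit 76) (nat_lit 18282252086) (nat_lit 76) (nat_lit 3568622408) (nat_lit 4) (nat_lit 4) (nat_lit 5) (nat_lit 5) (nat_lit 5) (nat_lit 4) (nat_lit 327) (nat_lit 229) (nat_lit 164)) (XT.lf (nat_lit 0) (nat_lit 83697694130) (nat_lit 76) (nat_lit 15507214620) (nat_lit 76) (nat_lit 762908406) (nat_lit 4) (nat_lit 4) (nat_lit 5) (nat_lit 5) (nat_lit 5) (nat_lit 4) (nat_lit 328) (nat_lit 229) (nat_lit 163))) (XT.nd (nat_lit 78) (nat_lit 76) (nat_lit 0) (XT.lf (nat_lit 0) (nat_lit 2100127068) (nat_lit 152) (nat_lit 10468261473) (nat_lit 76) (nat_lit 92214853472) (nat_lit 3) (nat_lit 5) (nat_lit 5) (nat_lit 5) (nat_lit 4) (nat_lit 4) (nat_lit 329) (nat_lit 229) (nat_lit 162))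 (XT.nd (nat_lit 78) (nat_lit 76) (nat_lit 0) (XT.lf (nat_lit 0) (nat_lit 5068207330) (nat_lit 152) (nat_lit 4411521458) (nat_lit 76) (nat_lit 100359718592) (nat_lit 3) (nat_lit 5) (nat_lit 5) (nat_lit 5) (nat_lit 4) (nat_lit 4) (nat_lit 330) (nat_lit 229) (nat_lit 161)) (XT.lf (nat_lit 0) (nat_lit 1990125407) (nat_lit 76) (nat_lit 6213763098) (nat_lit 152) (nat_lit 106943625323) (nat_lit 2) (nat_lit 5) (nat_lit 3) (nat_lit 5) (nat_lit 4) (nat_lit 4) (nat_lit 331) (nat_lit 229) (nat_lit 160))))))))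
noncomputable def xc76 : XT := (XT.nd (nat_lit 1326) (nat_lit 0) (nat_lit 0) (XT.nd (nat_lit 624) (nat_lit 0) (nat_lit 0) (XT.nd (nat_lit 312) (nat_lit 0) (nat_lit 0) (XT.nd (nat_lit 156) (nat_lit 0) (nat_lit 0) (XT.nd (nat_lit 78) (nat_lit 0) (nat_lit 0) (XT.lf (nat_lit 0) (nat_lit 8843734905) (nat_lit 76) (nat_lit 2715688801) (nat_lit 152) (nat_lit 109158416546) (nat_lit 2) (nat_lit 5) (nat_lit 3) (nat_lit 5) (nat_lit 4) (nat_lit 4) (nat_lit 332) (nat_lit 229) (nat_lit 159)) (XT.lf (nat_lit 0) (nat_lit 15086451406) (nat_lit 152) (nat_lit 110562289360) (nat_lit 0) (nat_lit 917766110) (nat_lit 2) (nat_lit 5) (nat_lit 4) (nat_lit 4) (nat_lit 2) (nat_lit 4) (nat_lit 333) (nat_lit 229) (nat_lit 158))) (XT.nd (nat_lit 78) (nat_lit 0) (nat_lit 0) (XT.lf (nat_lit 0) (nat_lit 18823654526) (nat_lit 152) (nat_lit 109249102321) (nat_lit 0) (nat_lit 4633167988) (nat_lit 2) (nat_lit 5) (nat_lit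 4) (nat_lit 4) (nat_lit 2) (nat_lit 4) (nat_lit 334) (nat_lit 229) (nat_lit 157)) (XT.lf (nat_lit 0) (nat_lit 22737531654) (nat_lit 152) (nat_lit 107889018084) (nat_lit 0) (nat_lit 8526282030) (nat_lit 2) (nat_lit 5) (nat_lit 4) (nat_lit 4) (nat_lit 2) (nat_lit 4) (nat_lit 335) (nat_lit 229) (nat_lit 156)))) (XT.nd (nat_lit 156) (nat_lit 0) (nat_lit 0) (XT.nd (nat_lit 78) (nat_lit 0) (nat_lit 0) (XT.lf (nat_lit 0) (nat_lit 26837401547) (nat_lit 152) (nat_lit 106478798351) (nat_lit 0) (nat_lit 12606377554) (nat_lit 2) (nat_lit 5) (nat_lit 4) (nat_lit 4) (nat_lit 2) (nat_lit 4) (nat_lit 336) (nat_lit 229) (nat_lit 155)) (XT.lf (nat_lit 0) (nat_lit 31133025800) (nat_lit 152) (nat_lit 105015085457) (nat_lit 0) (nat_lit 16883169074) (nat_lit 2) (nat_lit 5) (nat_lit 4) (nat_lit 4) (nat_lit 2) (nat_lit 4) (nat_lit 337) (nat_lit 229) (nat_lit 154))) (XT.nd (nat_lit 78) (nat_lit 0) (nat_lit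 0) (XT.lf (nat_lit 0) (nat_lit 35634632088) (nat_lit 152) (nat_lit 103494394371) (nat_lit 0) (nat_lit 21366839427) (nat_lit 2) (nat_lit 5) (nat_lit 4) (nat_lit 4) (nat_lit 2) (nat_lit 4) (nat_lit 338) (nat_lit 229) (nat_lit 153)) (XT.lf (nat_lit 0) (nat_lit 40352938522) (nat_lit 152) (nat_lit 101913104400) (nat_lit 0) (nat_lit 26068064018) (nat_lit 2) (nat_lit 5) (nat_lit 4) (nat_lit 4) (nat_lit 2) (nat_lit 4) (nat_lit 339) (nat_lit 229) (nat_lit 152))))) (XT.nd (nat_lit 312) (nat_lit 0) (nat_lit 0) (XT.nd (nat_lit 156) (nat_lit 0) (nat_lit 0) (XT.nd (nat_lit 78) (nat_lit 0) (nat_lit 0) (XT.lf (nat_lit 0) (nat_lit 45299179166) (nat_lit 152) (nat_lit 100267450568) (nat_lit 0) (nat_lit 30998036240) (nat_lit 2) (nat_lit 5) (nat_lit 4) (nat_lit 4) (nat_lit 2) (nat_lit 4) (nat_lit 340) (nat_lit 229) (nat_lit 151)) (XT.lf (nat_lit 0) (nat_lit 50485130782) (nat_lit 152) (nat_lit 98553514652)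 (nat_lit 0) (nat_lit 36168494120) (nat_lit 2) (nat_lit 5) (nat_lit 4) (nat_lit 4) (nat_lit 2) (nat_lit 4) (nat_lit 341) (nat_lit 229) (nat_lit 150))) (XT.nd (nat_lit 78) (nat_lit 0) (nat_lit 0) (XT.lf (nat_lit 0) (nat_lit 55923140874) (nat_lit 152) (nat_lit 96767215851) (nat_lit 0) (nat_lit 41591748274) (nat_lit 2) (nat_lit 5) (nat_lit 4) (nat_lit 4) (nat_lit 2) (nat_lit 4) (nat_lit 342) (nat_lit 229) (nat_lit 149)) (XT.lf (nat_lit 0) (nat_lit 61626157086) (nat_lit 152) (nat_lit 94904301074) (nat_lit 0) (nat_lit 47280711212) (nat_lit 2) (nat_lit 5) (nat_lit 4) (nat_lit 4) (nat_lit 2) (nat_lit 4) (nat_lit 343) (nat_lit 229) (nat_lit 148)))) (XT.nd (nat_lit 156) (nat_lit 0) (nat_lit 0) (XT.nd (nat_lit 78) (nat_lit 0) (nat_lit 0) (XT.lf (nat_lit 0) (nat_lit 67607758027) (nat_lit 152) (nat_lit 92960334808) (nat_lit 0) (nat_lit 53248928082) (nat_lit 2) (nat_lit 5) (nat_lit 4) (nat_lit 4)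 (nat_lit 2) (nat_lit 4) (nat_lit 344) (nat_lit 229) (nat_lit 147)) (XT.lf (nat_lit 0) (nat_lit 73882185605) (nat_lit 152) (nat_lit 90930688564) (nat_lit 0) (nat_lit 59510608926) (nat_lit 2) (nat_lit 5) (nat_lit 4) (nat_lit 4) (nat_lit 2) (nat_lit 4) (nat_lit 345) (nat_lit 229) (nat_lit 146))) (XT.nd (nat_lit 78) (nat_lit 0) (nat_lit 0) (XT.lf (nat_lit 0) (nat_lit 80464378933) (nat_lit 152) (nat_lit 88810529849) (nat_lit 0) (nat_lit 66080662506) (nat_lit 2) (nat_lit 5) (nat_lit 4) (nat_lit 4) (nat_lit 2) (nat_lit 4) (nat_lit 346) (nat_lit 229) (nat_lit 145)) (XT.nd (nat_lit 78) (nat_lit 0) (nat_lit 0) (XT.lf (nat_lit 0) (nat_lit 87370009899) (nat_lit 152) (nat_lit 86594810667) (nat_lit 0) (nat_lit 72974731809) (nat_lit 2) (nat_lit 5) (nat_lit 4) (nat_lit 4) (nat_lit 2) (nat_lit 4) (nat_lit 347) (nat_lit 229) (nat_lit 144)) (XT.lf (nat_lit 0) (nat_lit 94615520483) (nat_lit 152) (nat_lit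 84278255496) (nat_lit 0) (nat_lit 80209231284) (nat_lit 2) (nat_lit 5) (nat_lit 4) (nat_lit 4) (nat_lit 2) (nat_lit 4) (nat_lit 348) (nat_lit 229) (nat_lit 143))))))) (XT.nd (nat_lit 702) (nat_lit 0) (nat_lit 0) (XT.nd (nat_lit 312) (nat_lit 0) (nat_lit 0) (XT.nd (nat_lit 156) (nat_lit 0) (nat_lit 0) (XT.nd (nat_lit 78) (nat_lit 0) (nat_lit 0) (XT.lf (nat_lit 0) (nat_lit 102218161899) (nat_lit 152) (nat_lit 81855348729) (nat_lit 0) (nat_lit 87801385930) (nat_lit 2) (nat_lit 5) (nat_lit 4) (nat_lit 4) (nat_lit 2) (nat_lit 4) (nat_lit 349) (nat_lit 229) (nat_lit 142)) (XT.lf (nat_lit 0) (nat_lit 110196035675) (nat_lit 152) (nat_lit 79320321539) (nat_lit 0) (nat_lit 95769272307) (nat_lit 2) (nat_lit 5) (nat_lit 4) (nat_lit 4) (nat_lit 2) (nat_lit 4) (nat_lit 350) (nat_lit 229) (nat_lit 141))) (XT.nd (nat_lit 78) (nat_lit 0) (nat_lit 0) (XT.lf (nat_lit 0) (nat_lit 118568136749) (nat_lit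 152) (nat_lit 76667138148) (nat_lit 0) (nat_lit 104131861571) (nat_lit 2) (nat_lit 5) (nat_lit 4) (nat_lit 4) (nat_lit 2) (nat_lit 4) (nat_lit 351) (nat_lit 229) (nat_lit 140)) (XT.lf (nat_lit 0) (nat_lit 127354398695) (nat_lit 152) (nat_lit 73889481453) (nat_lit 0) (nat_lit 112909064651) (nat_lit 2) (nat_lit 5) (nat_lit 4) (nat_lit 4) (nat_lit 2) (nat_lit 4) (nat_lit 352) (nat_lit 229) (nat_lit 139)))) (XT.nd (nat_lit 156) (nat_lit 0) (nat_lit 0) (XT.nd (nat_lit 78) (nat_lit 0) (nat_lit 0) (XT.lf (nat_lit 0) (nat_lit 136575741183) (nat_lit 152) (nat_lit 70980737985) (nat_lit 0) (nat_lit 122121779648) (nat_lit 2) (nat_lit 5) (nat_lit 4) (nat_lit 4) (nat_lit 2) (nat_lit 4) (nat_lit 353) (nat_lit 229) (nat_lit 138)) (XT.lf (nat_lit 0) (nat_lit 146254119792) (nat_lit 152) (nat_lit 67933982164) (nat_lit 0) (nat_lit 131791941598) (nat_lit 2) (nat_lit 5) (nat_lit 4) (nat_lit 4) (nat_lit 2)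 (nat_lit 4) (nat_lit 354) (nat_lit 229) (nat_lit 137))) (XT.nd (nat_lit 78) (nat_lit 0) (nat_lit 0) (XT.lf (nat_lit 0) (nat_lit 156412578279) (nat_lit 152) (nat_lit 64741959810) (nat_lit 0) (nat_lit 141942574696) (nat_lit 2) (nat_lit 5) (nat_lit 4) (nat_lit 4) (nat_lit 2) (nat_lit 4) (nat_lit 355) (nat_lit 229) (nat_lit 136)) (XT.nd (nat_lit 78) (nat_lit 0) (nat_lit 0) (XT.lf (nat_lit 0) (nat_lit 167075303451) (nat_lit 152) (nat_lit 61397070870) (nat_lit 0) (nat_lit 152597847117) (nat_lit 2) (nat_lit 5) (nat_lit 4) (nat_lit 4) (nat_lit 2) (nat_lit 4) (nat_lit 356) (nat_lit 229) (nat_lit 135)) (XT.lf (nat_lit 0) (nat_lit 178267682749) (nat_lit 152) (nat_lit 57891351323) (nat_lit 0) (nat_lit 163783128556) (nat_lit 2) (nat_lit 5) (nat_lit 4) (nat_lit 4) (nat_lit 2) (nat_lit 4) (nat_lit 357) (nat_lit 229) (nat_lit 134)))))) (XT.nd (nat_lit 312) (nat_lit 0) (nat_lit 0) (XT.nd (nat_lit 156)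 (nat_lit 0) (nat_lit 0) (XT.nd (nat_lit 78) (nat_lit 0) (nat_lit 0) (XT.lf (nat_lit 0) (nat_lit 190016364695) (nat_lit 152) (nat_lit 54216454216) (nat_lit 0) (nat_lit 175525050636) (nat_lit 2) (nat_lit 5) (nat_lit 4) (nat_lit 4) (nat_lit 2) (nat_lit 4) (nat_lit 358) (nat_lit 229) (nat_lit 133)) (XT.lf (nat_lit 0) (nat_lit 202349322340) (nat_lit 152) (nat_lit 50363629796) (nat_lit 0) (nat_lit 187851570314) (nat_lit 2) (nat_lit 5) (nat_lit 4) (nat_lit 4) (nat_lit 2) (nat_lit 4) (nat_lit 359) (nat_lit 229) (nat_lit 132))) (XT.nd (nat_lit 78) (nat_lit 0) (nat_lit 0) (XT.lf (nat_lit 0) (nat_lit 215295919871) (nat_lit 152) (nat_lit 46323704670) (nat_lit 0) (nat_lit 200792036447) (nat_lit 2) (nat_lit 5) (nat_lit 4) (nat_lit 4) (nat_lit 2) (nat_lit 4) (nat_lit 360) (nat_lit 229) (nat_lit 131)) (XT.lf (nat_lit 0) (nat_lit 228886982518) (nat_lit 152) (nat_lit 42087059969) (nat_lit 0) (nat_lit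 214377259669) (nat_lit 2) (nat_lit 5) (nat_lit 4) (nat_lit 4) (nat_lit 2) (nat_lit 4) (nat_lit 361) (nat_lit 229) (nat_lit 130)))) (XT.nd (nat_lit 29640) (nat_lit 0) (nat_lit 3800) (XT.nd (nat_lit 29562) (nat_lit 0) (nat_lit 4484) (XT.lf (nat_lit 0) (nat_lit 243154869956) (nat_lit 152) (nat_lit 37643608445) (nat_lit 0) (nat_lit 228639585749) (nat_lit 2) (nat_lit 5) (nat_lit 4) (nat_lit 4) (nat_lit 2) (nat_lit 4) (nat_lit 362) (nat_lit 229) (nat_lit 129)) (XT.lf (nat_lit 0) (nat_lit 1891263515) (nat_lit 380) (nat_lit 996530662) (nat_lit 380) (nat_lit 996530662) (nat_lit 61) (nat_lit 4) (nat_lit 66) (nat_lit 5) (nat_lit 66) (nat_lit 4) (nat_lit 260) (nat_lit 230) (nat_lit 230))) (XT.nd (nat_lit 78) (nat_lit 304) (nat_lit 0) (XT.lf (nat_lit 0) (nat_lit 1144735650) (nat_lit 304) (nat_lit 54333275) (nat_lit 380) (nat_lit 6716764117) (nat_lit 56) (nat_lit 5) (nat_lit 60) (nat_lit 5) (nat_lit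 61) (nat_lit 4) (nat_lit 261) (nat_lit 230) (nat_lit 229)) (XT.nd (nat_lit 78) (nat_lit 304) (nat_lit 0) (XT.lf (nat_lit 0) (nat_lit 4437303973) (nat_lit 380) (nat_lit 1639030298) (nat_lit 0) (nat_lit 1995236781) (nat_lit 56) (nat_lit 5) (nat_lit 61) (nat_lit 4) (nat_lit 56) (nat_lit 4) (nat_lit 262) (nat_lit 230) (nat_lit 228)) (XT.lf (nat_lit 0) (nat_lit 3697726275) (nat_lit 304) (nat_lit 4059233262) (nat_lit 304) (nat_lit 482640081) (nat_lit 52) (nat_lit 4) (nat_lit 56) (nat_lit 5) (nat_lit 56) (nat_lit 4) (nat_lit 263) (nat_lit 230) (nat_lit 227))))))))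
noncomputable def xc77 : XT := (XT.nd (nat_lit 1326) (nat_lit 836) (nat_lit 0) (XT.nd (nat_lit 624) (nat_lit 1064) (nat_lit 0) (XT.nd (nat_lit 312) (nat_lit 684) (nat_lit 0) (XT.nd (nat_lit 156) (nat_lit 380) (nat_lit 0) (XT.nd (nat_lit 78) (nat_lit 0) (nat_lit 0) (XT.lf (nat_lit 0) (nat_lit 751415920) (nat_lit 228) (nat_lit 1886881661) (nat_lit 304) (nat_lit 5780850191) (nat_lit 48) (nat_lit 5) (nat_lit 51) (nat_lit 5) (nat_lit 52) (nat_lit 4) (nat_lit 264) (nat_lit 230) (nat_lit 226)) (XT.lf (nat_lit 0) (nat_lit 5849023418) (nat_lit 304) (nat_lit 2327520635) (nat_lit 0) (nat_lit 433649476) (nat_lit 48) (nat_lit 5) (nat_lit 52) (nat_lit 4) (nat_lit 48) (nat_lit 4) (nat_lit 265) (nat_lit 230) (nat_lit 225))) (XT.nd (nat_lit 78) (nat_lit 0) (nat_lit 0) (XT.lf (nat_lit 0) (nat_lit 347894632) (nat_lit 380) (nat_lit 5635567283) (nat_lit 76) (nat_lit 2829810021) (nat_lit 43) (nat_lit 5)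 (nat_lit 48) (nat_lit 5) (nat_lit 44) (nat_lit 4) (nat_lit 266) (nat_lit 230) (nat_lit 224)) (XT.lf (nat_lit 0) (nat_lit 3432834451) (nat_lit 380) (nat_lit 200371455) (nat_lit 76) (nat_lit 5395731848) (nat_lit 43) (nat_lit 5) (nat_lit 48) (nat_lit 5) (nat_lit 44) (nat_lit 4) (nat_lit 267) (nat_lit 230) (nat_lit 223)))) (XT.nd (nat_lit 156) (nat_lit 152) (nat_lit 0) (XT.nd (nat_lit 78) (nat_lit 304) (nat_lit 0) (XT.lf (nat_lit 0) (nat_lit 5522457020) (nat_lit 228) (nat_lit 1114977058) (nat_lit 304) (nat_lit 2620022625) (nat_lit 40) (nat_lit 5) (nat_lit 43) (nat_lit 5) (nat_lit 44) (nat_lit 4) (nat_lit 268) (nat_lit 230) (nat_lit 222)) (XT.lf (nat_lit 0) (nat_lit 426443890) (nat_lit 304) (nat_lit 7592998863) (nat_lit 76) (nat_lit 1480986532) (nat_lit 36) (nat_lit 5) (nat_lit 40) (nat_lit 5) (nat_lit 37) (nat_lit 4) (nat_lit 269) (nat_lit 230) (nat_lit 221))) (XT.nd (nat_lit 78) (nat_lit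 152) (nat_lit 0) (XT.lf (nat_lit 0) (nat_lit 3502514866) (nat_lit 304) (nat_lit 2018378930) (nat_lit 76) (nat_lit 4234536708) (nat_lit 36) (nat_lit 5) (nat_lit 40) (nat_lit 5) (nat_lit 37) (nat_lit 4) (nat_lit 270) (nat_lit 230) (nat_lit 220)) (XT.lf (nat_lit 0) (nat_lit 3799063400) (nat_lit 152) (nat_lit 2880984574) (nat_lit 228) (nat_lit 3346030996) (nat_lit 34) (nat_lit 5) (nat_lit 36) (nat_lit 5) (nat_lit 37) (nat_lit 4) (nat_lit 271) (nat_lit 230) (nat_lit 219))))) (XT.nd (nat_lit 312) (nat_lit 608) (nat_lit 0) (XT.nd (nat_lit 156) (nat_lit 152) (nat_lit 0) (XT.nd (nat_lit 78) (nat_lit 304) (nat_lit 0) (XT.lf (nat_lit 0) (nat_lit 9822489415) (nat_lit 152) (nat_lit 119392639) (nat_lit 228) (nat_lit 372373367) (nat_lit 34) (nat_lit 5) (nat_lit 36) (nat_lit 5) (nat_lit 37) (nat_lit 4) (nat_lit 272) (nat_lit 230) (nat_lit 218)) (XT.lf (nat_lit 0) (nat_lit 2687300338) (nat_lit 304)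 (nat_lit 5148286991) (nat_lit 76) (nat_lit 2778081139) (nat_lit 30) (nat_lit 5) (nat_lit 34) (nat_lit 5) (nat_lit 31) (nat_lit 4) (nat_lit 273) (nat_lit 230) (nat_lit 217))) (XT.nd (nat_lit 78) (nat_lit 0) (nat_lit 0) (XT.lf (nat_lit 0) (nat_lit 669528488) (nat_lit 152) (nat_lit 5135249019) (nat_lit 228) (nat_lit 5127333189) (nat_lit 28) (nat_lit 5) (nat_lit 30) (nat_lit 5) (nat_lit 31) (nat_lit 4) (nat_lit 274) (nat_lit 230) (nat_lit 216)) (XT.lf (nat_lit 0) (nat_lit 6805921940) (nat_lit 152) (nat_lit 2258426226) (nat_lit 228) (nat_lit 2203035367) (nat_lit 28) (nat_lit 5) (nat_lit 30) (nat_lit 5) (nat_lit 31) (nat_lit 4) (nat_lit 275) (nat_lit 230) (nat_lit 215)))) (XT.nd (nat_lit 156) (nat_lit 380) (nat_lit 0) (XT.nd (nat_lit 78) (nat_lit 0) (nat_lit 0) (XT.lf (nat_lit 0) (nat_lit 777204942) (nat_lit 228) (nat_lit 10116950088) (nat_lit 76) (nat_lit 727912255) (nat_lit 25) (nat_lit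 5) (nat_lit 28) (nat_lit 5) (nat_lit 26) (nat_lit 4) (nat_lit 276) (nat_lit 230) (nat_lit 214)) (XT.lf (nat_lit 0) (nat_lit 3849930324) (nat_lit 228) (nat_lit 4289282037) (nat_lit 76) (nat_lit 3852781213) (nat_lit 25) (nat_lit 5) (nat_lit 28) (nat_lit 5) (nat_lit 26) (nat_lit 4) (nat_lit 277) (nat_lit 230) (nat_lit 213))) (XT.nd (nat_lit 78) (nat_lit 228) (nat_lit 0) (XT.lf (nat_lit 0) (nat_lit 1743560811) (nat_lit 152) (nat_lit 5268229662) (nat_lit 228) (nat_lit 5372031344) (nat_lit 23) (nat_lit 5) (nat_lit 25) (nat_lit 5) (nat_lit 26) (nat_lit 4) (nat_lit 278) (nat_lit 230) (nat_lit 212)) (XT.nd (nat_lit 78) (nat_lit 228) (nat_lit 0) (XT.lf (nat_lit 0) (nat_lit 8087237088) (nat_lit 152) (nat_lit 2227610551) (nat_lit 228) (nat_lit 2481410601) (nat_lit 23) (nat_lit 5) (nat_lit 25) (nat_lit 5) (nat_lit 26) (nat_lit 4) (nat_lit 279) (nat_lit 230) (nat_lit 211)) (XT.lf (nat_lit 0) (nat_lit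 486152892) (nat_lit 228) (nat_lit 11827605632) (nat_lit 76) (nat_lit 917774921) (nat_lit 20) (nat_lit 5) (nat_lit 23) (nat_lit 5) (nat_lit 21) (nat_lit 4) (nat_lit 280) (nat_lit 230) (nat_lit 210))))))) (XT.nd (nat_lit 702) (nat_lit 456) (nat_lit 0) (XT.nd (nat_lit 312) (nat_lit 304) (nat_lit 0) (XT.nd (nat_lit 156) (nat_lit 0) (nat_lit 0) (XT.nd (nat_lit 78) (nat_lit 76) (nat_lit 0) (XT.lf (nat_lit 0) (nat_lit 3550725519) (nat_lit 228) (nat_lit 5914600854) (nat_lit 76) (nat_lit 4219759515) (nat_lit 20) (nat_lit 5) (nat_lit 23) (nat_lit 5) (nat_lit 21) (nat_lit 4) (nat_lit 281) (nat_lit 230) (nat_lit 209)) (XT.lf (nat_lit 0) (nat_lit 168472727) (nat_lit 76) (nat_lit 6521205809) (nat_lit 152) (nat_lit 7475721307) (nat_lit 19) (nat_lit 5) (nat_lit 20) (nat_lit 5) (nat_lit 21) (nat_lit 4) (nat_lit 282) (nat_lit 230) (nat_lit 208))) (XT.nd (nat_lit 78) (nat_lit 0) (nat_lit 0) (XT.lf (nat_lit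 0) (nat_lit 6632180439) (nat_lit 76) (nat_lit 3373954868) (nat_lit 152) (nat_lit 4662701123) (nat_lit 19) (nat_lit 5) (nat_lit 20) (nat_lit 5) (nat_lit 21) (nat_lit 4) (nat_lit 283) (nat_lit 230) (nat_lit 207)) (XT.lf (nat_lit 0) (nat_lit 13296348645) (nat_lit 76) (nat_lit 116246725) (nat_lit 152) (nat_lit 1788768778) (nat_lit 19) (nat_lit 5) (nat_lit 20) (nat_lit 5) (nat_lit 21) (nat_lit 4) (nat_lit 284) (nat_lit 230) (nat_lit 206)))) (XT.nd (nat_lit 156) (nat_lit 76) (nat_lit 0) (XT.nd (nat_lit 78) (nat_lit 0) (nat_lit 0) (XT.lf (nat_lit 0) (nat_lit 1239248094) (nat_lit 228) (nat_lit 11272258304) (nat_lit 76) (nat_lit 3245682994) (nat_lit 16) (nat_lit 5) (nat_lit 19) (nat_lit 5) (nat_lit 17) (nat_lit 4) (nat_lit 285) (nat_lit 230) (nat_lit 205)) (XT.lf (nat_lit 0) (nat_lit 4320690412) (nat_lit 228) (nat_lit 5230930468) (nat_lit 76) (nat_lit 6789722719) (nat_lit 16) (nat_lit 5) (nat_lit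 19) (nat_lit 5) (nat_lit 17) (nat_lit 4) (nat_lit 286) (nat_lit 230) (nat_lit 204))) (XT.nd (nat_lit 78) (nat_lit 0) (nat_lit 0) (XT.lf (nat_lit 0) (nat_lit 1030698371) (nat_lit 76) (nat_lit 6472495733) (nat_lit 152) (nat_lit 9454267522) (nat_lit 15) (nat_lit 5) (nat_lit 16) (nat_lit 5) (nat_lit 17) (nat_lit 4) (nat_lit 287) (nat_lit 230) (nat_lit 203)) (XT.nd (nat_lit 78) (nat_lit 0) (nat_lit 0) (XT.lf (nat_lit 0) (nat_lit 7674111448) (nat_lit 76) (nat_lit 3191724913) (nat_lit 152) (nat_lit 6737599068) (nat_lit 15) (nat_lit 5) (nat_lit 16) (nat_lit 5) (nat_lit 17) (nat_lit 4) (nat_lit 288) (nat_lit 230) (nat_lit 202)) (XT.lf (nat_lit 0) (nat_lit 14335530986) (nat_lit 152) (nat_lit 3746130664) (nat_lit 0) (nat_lit 203196019) (nat_lit 15) (nat_lit 5) (nat_lit 17) (nat_lit 4) (nat_lit 15) (nat_lit 4) (nat_lit 289) (nat_lit 230) (nat_lit 201)))))) (XT.nd (nat_lit 312) (nat_lit 152) (nat_lit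 0) (XT.nd (nat_lit 156) (nat_lit 76) (nat_lit 0) (XT.nd (nat_lit 78) (nat_lit 76) (nat_lit 0) (XT.lf (nat_lit 0) (nat_lit 2674581744) (nat_lit 152) (nat_lit 15336275287) (nat_lit 152) (nat_lit 987977853) (nat_lit 13) (nat_lit 4) (nat_lit 15) (nat_lit 5) (nat_lit 15) (nat_lit 4) (nat_lit 290) (nat_lit 230) (nat_lit 200)) (XT.lf (nat_lit 0) (nat_lit 2056347441) (nat_lit 228) (nat_lit 10338463719) (nat_lit 76) (nat_lit 7351986023) (nat_lit 12) (nat_lit 5) (nat_lit 15) (nat_lit 5) (nat_lit 13) (nat_lit 4) (nat_lit 291) (nat_lit 230) (nat_lit 199))) (XT.nd (nat_lit 78) (nat_lit 76) (nat_lit 0) (XT.lf (nat_lit 0) (nat_lit 5160949059) (nat_lit 228) (nat_lit 4169914726) (nat_lit 76) (nat_lit 11203499644) (nat_lit 12) (nat_lit 5) (nat_lit 15) (nat_lit 5) (nat_lit 13) (nat_lit 4) (nat_lit 292) (nat_lit 230) (nat_lit 198)) (XT.lf (nat_lit 0) (nat_lit 2284628339) (nat_lit 76) (nat_lit 6115881483)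 (nat_lit 152) (nat_lit 12961886741) (nat_lit 11) (nat_lit 5) (nat_lit 12) (nat_lit 5) (nat_lit 13) (nat_lit 4) (nat_lit 293) (nat_lit 230) (nat_lit 197)))) (XT.nd (nat_lit 156) (nat_lit 152) (nat_lit 0) (XT.nd (nat_lit 78) (nat_lit 0) (nat_lit 0) (XT.lf (nat_lit 0) (nat_lit 9112654050) (nat_lit 76) (nat_lit 2705269707) (nat_lit 152) (nat_lit 10413185295) (nat_lit 11) (nat_lit 5) (nat_lit 12) (nat_lit 5) (nat_lit 13) (nat_lit 4) (nat_lit 294) (nat_lit 230) (nat_lit 196)) (XT.lf (nat_lit 0) (nat_lit 15367161782) (nat_lit 152) (nat_lit 6966479603) (nat_lit 0) (nat_lit 811636165) (nat_lit 11) (nat_lit 5) (nat_lit 13) (nat_lit 4) (nat_lit 11) (nat_lit 4) (nat_lit 295) (nat_lit 230) (nat_lit 195))) (XT.nd (nat_lit 78) (nat_lit 152) (nat_lit 0) (XT.lf (nat_lit 0) (nat_lit 19087999501) (nat_lit 152) (nat_lit 638519503) (nat_lit 0) (nat_lit 4378993391) (nat_lit 11) (nat_lit 5) (nat_lit 13) (nat_lit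 4) (nat_lit 11) (nat_lit 4) (nat_lit 296) (nat_lit 230) (nat_lit 194)) (XT.nd (nat_lit 78) (nat_lit 76) (nat_lit 0) (XT.lf (nat_lit 0) (nat_lit 6118560867) (nat_lit 76) (nat_lit 16924026226) (nat_lit 76) (nat_lit 2068848217) (nat_lit 10) (nat_lit 4) (nat_lit 11) (nat_lit 5) (nat_lit 11) (nat_lit 4) (nat_lit 297) (nat_lit 230) (nat_lit 193)) (XT.lf (nat_lit 0) (nat_lit 957718354) (nat_lit 152) (nat_lit 13031066714) (nat_lit 76) (nat_lit 12179956024) (nat_lit 9) (nat_lit 5) (nat_lit 11) (nat_lit 5) (nat_lit 10) (nat_lit 4) (nat_lit 298) (nat_lit 230) (nat_lit 192))))))))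
noncomputable def xc78 : XT := (XT.nd (nat_lit 1326) (nat_lit 228) (nat_lit 0) (XT.nd (nat_lit 624) (nat_lit 152) (nat_lit 0) (XT.nd (nat_lit 312) (nat_lit 76) (nat_lit 0) (XT.nd (nat_lit 156) (nat_lit 76) (nat_lit 0) (XT.nd (nat_lit 78) (nat_lit 0) (nat_lit 0) (XT.lf (nat_lit 0) (nat_lit 4020711299) (nat_lit 152) (nat_lit 6884513398) (nat_lit 76) (nat_lit 16374313764) (nat_lit 9) (nat_lit 5) (nat_lit 11) (nat_lit 5) (nat_lit 10) (nat_lit 4) (nat_lit 299) (nat_lit 230) (nat_lit 191)) (XT.lf (nat_lit 0) (nat_lit 7193639520) (nat_lit 152) (nat_lit 506279327) (nat_lit 76) (nat_lit 20748168354) (nat_lit 9) (nat_lit 5) (nat_lit 11) (nat_lit 5) (nat_lit 10) (nat_lit 4) (nat_lit 300) (nat_lit 230) (nat_lit 190))) (XT.nd (nat_lit 78) (nat_lit 0) (nat_lit 0) (XT.lf (nat_lit 0) (nat_lit 6321137653) (nat_lit 76) (nat_lit 4261610629) (nat_lit 152) (nat_lit 19089486752) (nat_lit 8) (nat_lit 5) (nat_lit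 9) (nat_lit 5) (nat_lit 10) (nat_lit 4) (nat_lit 301) (nat_lit 230) (nat_lit 189)) (XT.lf (nat_lit 0) (nat_lit 13436619692) (nat_lit 76) (nat_lit 672963490) (nat_lit 152) (nat_lit 16849639602) (nat_lit 8) (nat_lit 5) (nat_lit 9) (nat_lit 5) (nat_lit 10) (nat_lit 4) (nat_lit 302) (nat_lit 230) (nat_lit 188)))) (XT.nd (nat_lit 156) (nat_lit 76) (nat_lit 0) (XT.nd (nat_lit 78) (nat_lit 0) (nat_lit 0) (XT.lf (nat_lit 0) (nat_lit 17822244394) (nat_lit 152) (nat_lit 11520023208) (nat_lit 0) (nat_lit 2967861961) (nat_lit 8) (nat_lit 5) (nat_lit 10) (nat_lit 4) (nat_lit 8) (nat_lit 4) (nat_lit 303) (nat_lit 230) (nat_lit 187)) (XT.lf (nat_lit 0) (nat_lit 21694581454) (nat_lit 152) (nat_lit 5294075739) (nat_lit 0) (nat_lit 6741264126) (nat_lit 8) (nat_lit 5) (nat_lit 10) (nat_lit 4) (nat_lit 8) (nat_lit 4) (nat_lit 304) (nat_lit 230) (nat_lit 186))) (XT.nd (nat_lit 78) (nat_lit 0) (nat_lit 0)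 (XT.lf (nat_lit 0) (nat_lit 1219604814) (nat_lit 76) (nat_lit 24524744001) (nat_lit 76) (nat_lit 9477202964) (nat_lit 7) (nat_lit 4) (nat_lit 8) (nat_lit 5) (nat_lit 8) (nat_lit 4) (nat_lit 305) (nat_lit 230) (nat_lit 185)) (XT.lf (nat_lit 0) (nat_lit 8181178158) (nat_lit 76) (nat_lit 21870572060) (nat_lit 76) (nat_lit 6733294156) (nat_lit 7) (nat_lit 4) (nat_lit 8) (nat_lit 5) (nat_lit 8) (nat_lit 4) (nat_lit 306) (nat_lit 230) (nat_lit 184))))) (XT.nd (nat_lit 312) (nat_lit 76) (nat_lit 0) (XT.nd (nat_lit 156) (nat_lit 76) (nat_lit 0) (XT.nd (nat_lit 78) (nat_lit 0) (nat_lit 0) (XT.lf (nat_lit 0) (nat_lit 15432173413) (nat_lit 76) (nat_lit 19109479646) (nat_lit 76) (nat_lit 3886738061) (nat_lit 7) (nat_lit 4) (nat_lit 8) (nat_lit 5) (nat_lit 8) (nat_lit 4) (nat_lit 307) (nat_lit 230) (nat_lit 183)) (XT.lf (nat_lit 0) (nat_lit 22989854854) (nat_lit 76) (nat_lit 16234892730) (nat_lit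 76) (nat_lit 930757163) (nat_lit 7) (nat_lit 4) (nat_lit 8) (nat_lit 5) (nat_lit 8) (nat_lit 4) (nat_lit 308) (nat_lit 230) (nat_lit 182))) (XT.nd (nat_lit 78) (nat_lit 0) (nat_lit 0) (XT.lf (nat_lit 0) (nat_lit 2073139241) (nat_lit 152) (nat_lit 11131718201) (nat_lit 76) (nat_lit 28763968103) (nat_lit 6) (nat_lit 5) (nat_lit 8) (nat_lit 5) (nat_lit 7) (nat_lit 4) (nat_lit 309) (nat_lit 230) (nat_lit 181)) (XT.lf (nat_lit 0) (nat_lit 5167062123) (nat_lit 152) (nat_lit 4863003035) (nat_lit 76) (nat_lit 33843458441) (nat_lit 6) (nat_lit 5) (nat_lit 8) (nat_lit 5) (nat_lit 7) (nat_lit 4) (nat_lit 310) (nat_lit 230) (nat_lit 180)))) (XT.nd (nat_lit 156) (nat_lit 0) (nat_lit 0) (XT.nd (nat_lit 78) (nat_lit 0) (nat_lit 0) (XT.lf (nat_lit 0) (nat_lit 1725169027) (nat_lit 76) (nat_lit 6689933703) (nat_lit 152) (nat_lit 37458411023) (nat_lit 5) (nat_lit 5) (nat_lit 6) (nat_lit 5) (nat_lit 7)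 (nat_lit 4) (nat_lit 311) (nat_lit 230) (nat_lit 179)) (XT.lf (nat_lit 0) (nat_lit 8763180602) (nat_lit 76) (nat_lit 3117763399) (nat_lit 152) (nat_lit 36089816413) (nat_lit 5) (nat_lit 5) (nat_lit 6) (nat_lit 5) (nat_lit 7) (nat_lit 4) (nat_lit 312) (nat_lit 230) (nat_lit 178))) (XT.nd (nat_lit 78) (nat_lit 0) (nat_lit 0) (XT.lf (nat_lit 0) (nat_lit 15503966710) (nat_lit 152) (nat_lit 34076747090) (nat_lit 0) (nat_lit 592986789) (nat_lit 5) (nat_lit 5) (nat_lit 7) (nat_lit 4) (nat_lit 5) (nat_lit 4) (nat_lit 313) (nat_lit 230) (nat_lit 177)) (XT.nd (nat_lit 78) (nat_lit 0) (nat_lit 0) (XT.lf (nat_lit 0) (nat_lit 19334495456) (nat_lit 152) (nat_lit 28785328647) (nat_lit 0) (nat_lit 4365670351) (nat_lit 5) (nat_lit 5) (nat_lit 7) (nat_lit 4) (nat_lit 5) (nat_lit 4) (nat_lit 314) (nat_lit 230) (nat_lit 176)) (XT.lf (nat_lit 0) (nat_lit 23332973522) (nat_lit 152) (nat_lit 23272048844)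 (nat_lit 0) (nat_lit 8309057766) (nat_lit 5) (nat_lit 5) (nat_lit 7) (nat_lit 4) (nat_lit 5) (nat_lit 4) (nat_lit 315) (nat_lit 230) (nat_lit 175))))))) (XT.nd (nat_lit 702) (nat_lit 152) (nat_lit 0) (XT.nd (nat_lit 312) (nat_lit 0) (nat_lit 0) (XT.nd (nat_lit 156) (nat_lit 76) (nat_lit 0) (XT.nd (nat_lit 78) (nat_lit 0) (nat_lit 0) (XT.lf (nat_lit 0) (nat_lit 27508921094) (nat_lit 152) (nat_lit 17523780825) (nat_lit 0) (nat_lit 12432538051) (nat_lit 5) (nat_lit 5) (nat_lit 7) (nat_lit 4) (nat_lit 5) (nat_lit 4) (nat_lit 316) (nat_lit 230) (nat_lit 174)) (XT.lf (nat_lit 0) (nat_lit 31872280905) (nat_lit 152) (nat_lit 11526838236) (nat_lit 0) (nat_lit 16745929017) (nat_lit 5) (nat_lit 5) (nat_lit 7) (nat_lit 4) (nat_lit 5) (nat_lit 4) (nat_lit 317) (nat_lit 230) (nat_lit 173))) (XT.nd (nat_lit 78) (nat_lit 76) (nat_lit 0) (XT.lf (nat_lit 0) (nat_lit 36433441906) (nat_lit 152) (nat_lit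 5266942643) (nat_lit 0) (nat_lit 21259500643) (nat_lit 5) (nat_lit 5) (nat_lit 7) (nat_lit 4) (nat_lit 5) (nat_lit 4) (nat_lit 318) (nat_lit 230) (nat_lit 172)) (XT.lf (nat_lit 0) (nat_lit 1312829200) (nat_lit 76) (nat_lit 39910931748) (nat_lit 76) (nat_lit 24691667269) (nat_lit 4) (nat_lit 4) (nat_lit 5) (nat_lit 5) (nat_lit 5) (nat_lit 4) (nat_lit 319) (nat_lit 230) (nat_lit 171)))) (XT.nd (nat_lit 156) (nat_lit 0) (nat_lit 0) (XT.nd (nat_lit 78) (nat_lit 0) (nat_lit 0) (XT.lf (nat_lit 0) (nat_lit 8369875458) (nat_lit 76) (nat_lit 37953905674) (nat_lit 76) (nat_lit 22691476229) (nat_lit 4) (nat_lit 4) (nat_lit 5) (nat_lit 5) (nat_lit 5) (nat_lit 4) (nat_lit 320) (nat_lit 230) (nat_lit 170)) (XT.lf (nat_lit 0) (nat_lit 15746849713) (nat_lit 76) (nat_lit 35913844965) (nat_lit 76) (nat_lit 20610306028) (nat_lit 4) (nat_lit 4) (nat_lit 5) (nat_lit 5) (nat_lit 5) (nat_lit 4) (nat_lit 321)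 (nat_lit 230) (nat_lit 169))) (XT.nd (nat_lit 78) (nat_lit 0) (nat_lit 0) (XT.lf (nat_lit 0) (nat_lit 23461316189) (nat_lit 76) (nat_lit 33785892333) (nat_lit 76) (nat_lit 18443201498) (nat_lit 4) (nat_lit 4) (nat_lit 5) (nat_lit 5) (nat_lit 5) (nat_lit 4) (nat_lit 322) (nat_lit 230) (nat_lit 168)) (XT.nd (nat_lit 78) (nat_lit 0) (nat_lit 0) (XT.lf (nat_lit 0) (nat_lit 31531642663) (nat_lit 76) (nat_lit 31564981223) (nat_lit 76) (nat_lit 16185002867) (nat_lit 4) (nat_lit 4) (nat_lit 5) (nat_lit 5) (nat_lit 5) (nat_lit 4) (nat_lit 323) (nat_lit 230) (nat_lit 167)) (XT.lf (nat_lit 0) (nat_lit 39977044198) (nat_lit 76) (nat_lit 29245823753) (nat_lit 76) (nat_lit 13830333472) (nat_lit 4) (nat_lit 4) (nat_lit 5) (nat_lit 5) (nat_lit 5) (nat_lit 4) (nat_lit 324) (nat_lit 230) (nat_lit 166)))))) (XT.nd (nat_lit 312) (nat_lit 152) (nat_lit 0) (XT.nd (nat_lit 156) (nat_lit 0) (nat_lit 0) (XT.nd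 (nat_lit 78) (nat_lit 0) (nat_lit 0) (XT.lf (nat_lit 0) (nat_lit 48817628893) (nat_lit 76) (nat_lit 26822898119) (nat_lit 76) (nat_lit 11373586957) (nat_lit 4) (nat_lit 4) (nat_lit 5) (nat_lit 5) (nat_lit 5) (nat_lit 4) (nat_lit 325) (nat_lit 230) (nat_lit 165)) (XT.lf (nat_lit 0) (nat_lit 58074445759) (nat_lit 76) (nat_lit 24290435450) (nat_lit 76) (nat_lit 8808913926) (nat_lit 4) (nat_lit 4) (nat_lit 5) (nat_lit 5) (nat_lit 5) (nat_lit 4) (nat_lit 326) (nat_lit 230) (nat_lit 164))) (XT.nd (nat_lit 78) (nat_lit 0) (nat_lit 0) (XT.lf (nat_lit 0) (nat_lit 67769534837) (nat_lit 76) (nat_lit 21642406074) (nat_lit 76) (nat_lit 6130208013) (nat_lit 4) (nat_lit 4) (nat_lit 5) (nat_lit 5) (nat_lit 5) (nat_lit 4) (nat_lit 327) (nat_lit 230) (nat_lit 163)) (XT.lf (nat_lit 0) (nat_lit 77925979672) (nat_lit 76) (nat_lit 18872505158) (nat_lit 76) (nat_lit 3331091349) (nat_lit 4) (nat_lit 4) (nat_lit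 5) (nat_lit 5) (nat_lit 5) (nat_lit 4) (nat_lit 328) (nat_lit 230) (nat_lit 162)))) (XT.nd (nat_lit 156) (nat_lit 76) (nat_lit 0) (XT.nd (nat_lit 78) (nat_lit 76) (nat_lit 0) (XT.lf (nat_lit 0) (nat_lit 88567962274) (nat_lit 76) (nat_lit 15974137700) (nat_lit 76) (nat_lit 404899369) (nat_lit 4) (nat_lit 4) (nat_lit 5) (nat_lit 5) (nat_lit 5) (nat_lit 4) (nat_lit 329) (nat_lit 230) (nat_lit 161)) (XT.lf (nat_lit 0) (nat_lit 2570347745) (nat_lit 152) (nat_lit 10326524998) (nat_lit 76) (nat_lit 97106942871) (nat_lit 3) (nat_lit 5) (nat_lit 5) (nat_lit 5) (nat_lit 4) (nat_lit 4) (nat_lit 330) (nat_lit 230) (nat_lit 160))) (XT.nd (nat_lit 78) (nat_lit 76) (nat_lit 0) (XT.lf (nat_lit 0) (nat_lit 5669440862) (nat_lit 152) (nat_lit 3998621770) (nat_lit 76) (nat_lit 105645653784) (nat_lit 3) (nat_lit 5) (nat_lit 5) (nat_lit 5) (nat_lit 4) (nat_lit 4) (nat_lit 331) (nat_lit 230) (nat_lit 159))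 (XT.nd (nat_lit 78) (nat_lit 0) (nat_lit 0) (XT.lf (nat_lit 0) (nat_lit 2712890087) (nat_lit 76) (nat_lit 6242183812) (nat_lit 152) (nat_lit 111932468764) (nat_lit 2) (nat_lit 5) (nat_lit 3) (nat_lit 5) (nat_lit 4) (nat_lit 4) (nat_lit 332) (nat_lit 230) (nat_lit 158)) (XT.lf (nat_lit 0) (nat_lit 9879501088) (nat_lit 76) (nat_lit 2582647106) (nat_lit 152) (nat_lit 114275063254) (nat_lit 2) (nat_lit 5) (nat_lit 3) (nat_lit 5) (nat_lit 4) (nat_lit 4) (nat_lit 333) (nat_lit 230) (nat_lit 157))))))))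
noncomputable def xc79 : XT := (XT.nd (nat_lit 1404) (nat_lit 0) (nat_lit 0) (XT.nd (nat_lit 702) (nat_lit 0) (nat_lit 0) (XT.nd (nat_lit 312) (nat_lit 0) (nat_lit 0) (XT.nd (nat_lit 156) (nat_lit 0) (nat_lit 0) (XT.nd (nat_lit 78) (nat_lit 0) (nat_lit 0) (XT.lf (nat_lit 0) (nat_lit 16154060103) (nat_lit 152) (nat_lit 115513353233) (nat_lit 0) (nat_lit 1211484910) (nat_lit 2) (nat_lit 5) (nat_lit 4) (nat_lit 4) (nat_lit 2) (nat_lit 4) (nat_lit 334) (nat_lit 230) (nat_lit 156)) (XT.lf (nat_lit 0) (nat_lit 20063204991) (nat_lit 152) (nat_lit 114161985443) (nat_lit 0) (nat_lit 5100855430) (nat_lit 2) (nat_lit 5) (nat_lit 4) (nat_lit 4) (nat_lit 2) (nat_lit 4) (nat_lit 335) (nat_lit 230) (nat_lit 155))) (XT.nd (nat_lit 78) (nat_lit 0) (nat_lit 0) (XT.lf (nat_lit 0) (nat_lit 24158567989) (nat_lit 152) (nat_lit 112760067088) (nat_lit 0) (nat_lit 9177385695) (nat_lit 2) (nat_lit 5) (nat_lit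 4) (nat_lit 4) (nat_lit 2) (nat_lit 4) (nat_lit 336) (nat_lit 230) (nat_lit 154)) (XT.lf (nat_lit 0) (nat_lit 28449899960) (nat_lit 152) (nat_lit 111304260269) (nat_lit 0) (nat_lit 13450781731) (nat_lit 2) (nat_lit 5) (nat_lit 4) (nat_lit 4) (nat_lit 2) (nat_lit 4) (nat_lit 337) (nat_lit 230) (nat_lit 153)))) (XT.nd (nat_lit 156) (nat_lit 0) (nat_lit 0) (XT.nd (nat_lit 78) (nat_lit 0) (nat_lit 0) (XT.lf (nat_lit 0) (nat_lit 32947418361) (nat_lit 152) (nat_lit 109791098777) (nat_lit 0) (nat_lit 17931218289) (nat_lit 2) (nat_lit 5) (nat_lit 4) (nat_lit 4) (nat_lit 2) (nat_lit 4) (nat_lit 338) (nat_lit 230) (nat_lit 152)) (XT.lf (nat_lit 0) (nat_lit 37661831570) (nat_lit 152) (nat_lit 108216979849) (nat_lit 0) (nat_lit 22629363076) (nat_lit 2) (nat_lit 5) (nat_lit 4) (nat_lit 4) (nat_lit 2) (nat_lit 4) (nat_lit 339) (nat_lit 230) (nat_lit 151))) (XT.nd (nat_lit 78) (nat_lit 0) (nat_lit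 0) (XT.lf (nat_lit 0) (nat_lit 42604364379) (nat_lit 152) (nat_lit 106578155582) (nat_lit 0) (nat_lit 27556402150) (nat_lit 2) (nat_lit 5) (nat_lit 4) (nat_lit 4) (nat_lit 2) (nat_lit 4) (nat_lit 340) (nat_lit 230) (nat_lit 150)) (XT.nd (nat_lit 78) (nat_lit 0) (nat_lit 0) (XT.lf (nat_lit 0) (nat_lit 47786784725) (nat_lit 152) (nat_lit 104870724012) (nat_lit 0) (nat_lit 32724066557) (nat_lit 2) (nat_lit 5) (nat_lit 4) (nat_lit 4) (nat_lit 2) (nat_lit 4) (nat_lit 341) (nat_lit 230) (nat_lit 149)) (XT.lf (nat_lit 0) (nat_lit 53221431703) (nat_lit 152) (nat_lit 103090619828) (nat_lit 0) (nat_lit 38144660260) (nat_lit 2) (nat_lit 5) (nat_lit 4) (nat_lit 4) (nat_lit 2) (nat_lit 4) (nat_lit 342) (nat_lit 230) (nat_lit 148)))))) (XT.nd (nat_lit 312) (nat_lit 0) (nat_lit 0) (XT.nd (nat_lit 156) (nat_lit 0) (nat_lit 0) (XT.nd (nat_lit 78) (nat_lit 0) (nat_lit 0) (XT.lf (nat_lit 0) (nat_lit 58921244948)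 (nat_lit 152) (nat_lit 101233604685) (nat_lit 0) (nat_lit 43831089435) (nat_lit 2) (nat_lit 5) (nat_lit 4) (nat_lit 4) (nat_lit 2) (nat_lit 4) (nat_lit 343) (nat_lit 230) (nat_lit 147)) (XT.lf (nat_lit 0) (nat_lit 64899795445) (nat_lit 152) (nat_lit 99295257119) (nat_lit 0) (nat_lit 49796893197) (nat_lit 2) (nat_lit 5) (nat_lit 4) (nat_lit 4) (nat_lit 2) (nat_lit 4) (nat_lit 344) (nat_lit 230) (nat_lit 146))) (XT.nd (nat_lit 78) (nat_lit 0) (nat_lit 0) (XT.lf (nat_lit 0) (nat_lit 71171317838) (nat_lit 152) (nat_lit 97270962017) (nat_lit 0) (nat_lit 56056275843) (nat_lit 2) (nat_lit 5) (nat_lit 4) (nat_lit 4) (nat_lit 2) (nat_lit 4) (nat_lit 345) (nat_lit 230) (nat_lit 145)) (XT.lf (nat_lit 0) (nat_lit 77750744323) (nat_lit 152) (nat_lit 95155899629) (nat_lit 0) (nat_lit 62624140665) (nat_lit 2) (nat_lit 5) (nat_lit 4) (nat_lit 4) (nat_lit 2) (nat_lit 4) (nat_lit 346) (nat_lit 230) (nat_lit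 144)))) (XT.nd (nat_lit 156) (nat_lit 0) (nat_lit 0) (XT.nd (nat_lit 78) (nat_lit 0) (nat_lit 0) (XT.lf (nat_lit 0) (nat_lit 84653740201) (nat_lit 152) (nat_lit 92945034091) (nat_lit 0) (nat_lit 69516125434) (nat_lit 2) (nat_lit 5) (nat_lit 4) (nat_lit 4) (nat_lit 2) (nat_lit 4) (nat_lit 347) (nat_lit 230) (nat_lit 143)) (XT.lf (nat_lit 0) (nat_lit 91896741177) (nat_lit 152) (nat_lit 90633101438) (nat_lit 0) (nat_lit 76748639640) (nat_lit 2) (nat_lit 5) (nat_lit 4) (nat_lit 4) (nat_lit 2) (nat_lit 4) (nat_lit 348) (nat_lit 230) (nat_lit 142))) (XT.nd (nat_lit 78) (nat_lit 0) (nat_lit 0) (XT.lf (nat_lit 0) (nat_lit 99496992490) (nat_lit 152) (nat_lit 88214597069) (nat_lit 0) (nat_lit 84338903553) (nat_lit 2) (nat_lit 5) (nat_lit 4) (nat_lit 4) (nat_lit 2) (nat_lit 4) (nat_lit 349) (nat_lit 230) (nat_lit 141)) (XT.nd (nat_lit 78) (nat_lit 0) (nat_lit 0) (XT.lf (nat_lit 0) (nat_lit 107472589978)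 (nat_lit 152) (nat_lit 85683762639) (nat_lit 0) (nat_lit 92304989232) (nat_lit 2) (nat_lit 5) (nat_lit 4) (nat_lit 4) (nat_lit 2) (nat_lit 4) (nat_lit 350) (nat_lit 230) (nat_lit 140)) (XT.lf (nat_lit 0) (nat_lit 115842523158) (nat_lit 152) (nat_lit 83034572353) (nat_lit 0) (nat_lit 100665863546) (nat_lit 2) (nat_lit 5) (nat_lit 4) (nat_lit 4) (nat_lit 2) (nat_lit 4) (nat_lit 351) (nat_lit 230) (nat_lit 139))))))) (XT.nd (nat_lit 702) (nat_lit 0) (nat_lit 0) (XT.nd (nat_lit 312) (nat_lit 0) (nat_lit 0) (XT.nd (nat_lit 156) (nat_lit 0) (nat_lit 0) (XT.nd (nat_lit 78) (nat_lit 0) (nat_lit 0) (XT.lf (nat_lit 0) (nat_lit 124626720443) (nat_lit 152) (nat_lit 80260718615) (nat_lit 0) (nat_lit 109441433339) (nat_lit 2) (nat_lit 5) (nat_lit 4) (nat_lit 4) (nat_lit 2) (nat_lit 4) (nat_lit 352) (nat_lit 230) (nat_lit 138)) (XT.lf (nat_lit 0) (nat_lit 133846096588) (nat_lit 152) (nat_lit 77355597011)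 (nat_lit 0) (nat_lit 118652592826) (nat_lit 2) (nat_lit 5) (nat_lit 4) (nat_lit 4) (nat_lit 2) (nat_lit 4) (nat_lit 353) (nat_lit 230) (nat_lit 137))) (XT.nd (nat_lit 78) (nat_lit 0) (nat_lit 0) (XT.lf (nat_lit 0) (nat_lit 143522602489) (nat_lit 152) (nat_lit 74312290584) (nat_lit 0) (nat_lit 128321273337) (nat_lit 2) (nat_lit 5) (nat_lit 4) (nat_lit 4) (nat_lit 2) (nat_lit 4) (nat_lit 354) (nat_lit 230) (nat_lit 136)) (XT.lf (nat_lit 0) (nat_lit 153679277445) (nat_lit 152) (nat_lit 71123553367) (nat_lit 0) (nat_lit 138470495541) (nat_lit 2) (nat_lit 5) (nat_lit 4) (nat_lit 4) (nat_lit 2) (nat_lit 4) (nat_lit 355) (nat_lit 230) (nat_lit 135)))) (XT.nd (nat_lit 156) (nat_lit 0) (nat_lit 0) (XT.nd (nat_lit 78) (nat_lit 0) (nat_lit 0) (XT.lf (nat_lit 0) (nat_lit 164340304015) (nat_lit 152) (nat_lit 67781793129) (nat_lit 0) (nat_lit 149124424253) (nat_lit 2) (nat_lit 5) (nat_lit 4) (nat_lit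 4) (nat_lit 2) (nat_lit 4) (nat_lit 356) (nat_lit 230) (nat_lit 134)) (XT.lf (nat_lit 0) (nat_lit 175531065597) (nat_lit 152) (nat_lit 64279053298) (nat_lit 0) (nat_lit 160308425970) (nat_lit 2) (nat_lit 5) (nat_lit 4) (nat_lit 4) (nat_lit 2) (nat_lit 4) (nat_lit 357) (nat_lit 230) (nat_lit 133))) (XT.nd (nat_lit 78) (nat_lit 0) (nat_lit 0) (XT.lf (nat_lit 0) (nat_lit 187278206861) (nat_lit 152) (nat_lit 60606994017) (nat_lit 0) (nat_lit 172049129267) (nat_lit 2) (nat_lit 5) (nat_lit 4) (nat_lit 4) (nat_lit 2) (nat_lit 4) (nat_lit 358) (nat_lit 230) (nat_lit 132)) (XT.nd (nat_lit 78) (nat_lit 0) (nat_lit 0) (XT.lf (nat_lit 0) (nat_lit 199609697191) (nat_lit 152) (nat_lit 56756872287) (nat_lit 0) (nat_lit 184374488200) (nat_lit 2) (nat_lit 5) (nat_lit 4) (nat_lit 4) (nat_lit 2) (nat_lit 4) (nat_lit 359) (nat_lit 230) (nat_lit 131)) (XT.lf (nat_lit 0) (nat_lit 212554897278) (nat_lit 152)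 (nat_lit 52719521152) (nat_lit 0) (nat_lit 197313848860) (nat_lit 2) (nat_lit 5) (nat_lit 4) (nat_lit 4) (nat_lit 2) (nat_lit 4) (nat_lit 360) (nat_lit 230) (nat_lit 130)))))) (XT.nd (nat_lit 29640) (nat_lit 0) (nat_lit 3496) (XT.nd (nat_lit 29484) (nat_lit 0) (nat_lit 4864) (XT.nd (nat_lit 78) (nat_lit 0) (nat_lit 0) (XT.lf (nat_lit 0) (nat_lit 226144629026) (nat_lit 152) (nat_lit 48485327871) (nat_lit 0) (nat_lit 210898019251) (nat_lit 2) (nat_lit 5) (nat_lit 4) (nat_lit 4) (nat_lit 2) (nat_lit 4) (nat_lit 361) (nat_lit 230) (nat_lit 129)) (XT.lf (nat_lit 0) (nat_lit 240411248941) (nat_lit 152) (nat_lit 44044211033) (nat_lit 0) (nat_lit 225159342635) (nat_lit 2) (nat_lit 5) (nat_lit 4) (nat_lit 4) (nat_lit 2) (nat_lit 4) (nat_lit 362) (nat_lit 230) (nat_lit 128))) (XT.nd (nat_lit 78) (nat_lit 0) (nat_lit 0) (XT.lf (nat_lit 0) (nat_lit 328466044) (nat_lit 380) (nat_lit 3095632683)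 (nat_lit 0) (nat_lit 328466044) (nat_lit 66) (nat_lit 5) (nat_lit 71) (nat_lit 4) (nat_lit 66) (nat_lit 4) (nat_lit 258) (nat_lit 231) (nat_lit 231)) (XT.lf (nat_lit 0) (nat_lit 3833853633) (nat_lit 380) (nat_lit 1344487462) (nat_lit 0) (nat_lit 2454830202) (nat_lit 66) (nat_lit 5) (nat_lit 71) (nat_lit 4) (nat_lit 66) (nat_lit 4) (nat_lit 259) (nat_lit 231) (nat_lit 230)))) (XT.nd (nat_lit 156) (nat_lit 608) (nat_lit 0) (XT.nd (nat_lit 78) (nat_lit 380) (nat_lit 0) (XT.lf (nat_lit 0) (nat_lit 3700701638) (nat_lit 380) (nat_lit 3382094229) (nat_lit 380) (nat_lit 689715150) (nat_lit 61) (nat_lit 4) (nat_lit 66) (nat_lit 5) (nat_lit 66) (nat_lit 4) (nat_lit 260) (nat_lit 231) (nat_lit 229)) (XT.lf (nat_lit 0) (nat_lit 952051807) (nat_lit 304) (nat_lit 1435872967) (nat_lit 380) (nat_lit 5534636305) (nat_lit 56) (nat_lit 5) (nat_lit 60) (nat_lit 5) (nat_lit 61) (nat_lit 4) (nat_lit 261)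 (nat_lit 231) (nat_lit 228))) (XT.nd (nat_lit 78) (nat_lit 608) (nat_lit 0) (XT.lf (nat_lit 0) (nat_lit 5536729718) (nat_lit 380) (nat_lit 1899493691) (nat_lit 0) (nat_lit 646780889) (nat_lit 56) (nat_lit 5) (nat_lit 61) (nat_lit 4) (nat_lit 56) (nat_lit 4) (nat_lit 262) (nat_lit 231) (nat_lit 227)) (XT.nd (nat_lit 78) (nat_lit 228) (nat_lit 0) (XT.lf (nat_lit 0) (nat_lit 514513627) (nat_lit 380) (nat_lit 4915696835) (nat_lit 76) (nat_lit 2824135003) (nat_lit 51) (nat_lit 5) (nat_lit 56) (nat_lit 5) (nat_lit 52) (nat_lit 4) (nat_lit 263) (nat_lit 231) (nat_lit 226)) (XT.lf (nat_lit 0) (nat_lit 275075651) (nat_lit 228) (nat_lit 3273497001) (nat_lit 304) (nat_lit 4888717639) (nat_lit 48) (nat_lit 5) (nat_lit 51) (nat_lit 5) (nat_lit 52) (nat_lit 4) (nat_lit 264) (nat_lit 231) (nat_lit 225))))))))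
noncomputable def xc80 : XT := (XT.nd (nat_lit 1326) (nat_lit 836) (nat_lit 0) (XT.nd (nat_lit 624) (nat_lit 1064) (nat_lit 0) (XT.nd (nat_lit 312) (nat_lit 456) (nat_lit 0) (XT.nd (nat_lit 156) (nat_lit 228) (nat_lit 0) (XT.nd (nat_lit 78) (nat_lit 380) (nat_lit 0) (XT.lf (nat_lit 0) (nat_lit 5735227196) (nat_lit 228) (nat_lit 954905334) (nat_lit 304) (nat_lit 1941854083) (nat_lit 48) (nat_lit 5) (nat_lit 51) (nat_lit 5) (nat_lit 52) (nat_lit 4) (nat_lit 265) (nat_lit 231) (nat_lit 224)) (XT.lf (nat_lit 0) (nat_lit 1054869523) (nat_lit 380) (nat_lit 6326014459) (nat_lit 76) (nat_lit 1458021736) (nat_lit 43) (nat_lit 5) (nat_lit 48) (nat_lit 5) (nat_lit 44) (nat_lit 4) (nat_lit 266) (nat_lit 231) (nat_lit 223))) (XT.nd (nat_lit 78) (nat_lit 228) (nat_lit 0) (XT.lf (nat_lit 0) (nat_lit 4080878506) (nat_lit 380) (nat_lit 969296805) (nat_lit 76) (nat_lit 4007508855) (nat_lit 43) (nat_lit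 5) (nat_lit 48) (nat_lit 5) (nat_lit 44) (nat_lit 4) (nat_lit 267) (nat_lit 231) (nat_lit 222)) (XT.lf (nat_lit 0) (nat_lit 4650895129) (nat_lit 228) (nat_lit 2564850876) (nat_lit 304) (nat_lit 2074101897) (nat_lit 40) (nat_lit 5) (nat_lit 43) (nat_lit 5) (nat_lit 44) (nat_lit 4) (nat_lit 268) (nat_lit 231) (nat_lit 221)))) (XT.nd (nat_lit 156) (nat_lit 152) (nat_lit 0) (XT.nd (nat_lit 78) (nat_lit 0) (nat_lit 0) (XT.lf (nat_lit 0) (nat_lit 860246875) (nat_lit 304) (nat_lit 8626280600) (nat_lit 76) (nat_lit 50742559) (nat_lit 36) (nat_lit 5) (nat_lit 40) (nat_lit 5) (nat_lit 37) (nat_lit 4) (nat_lit 269) (nat_lit 231) (nat_lit 220)) (XT.lf (nat_lit 0) (nat_lit 3881851782) (nat_lit 304) (nat_lit 3128491083) (nat_lit 76) (nat_lit 2784788334) (nat_lit 36) (nat_lit 5) (nat_lit 40) (nat_lit 5) (nat_lit 37) (nat_lit 4) (nat_lit 270) (nat_lit 231) (nat_lit 219))) (XT.nd (nat_lit 78) (nat_lit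 0) (nat_lit 0) (XT.lf (nat_lit 0) (nat_lit 2576654710) (nat_lit 152) (nat_lit 4411772506) (nat_lit 228) (nat_lit 3081030467) (nat_lit 34) (nat_lit 5) (nat_lit 36) (nat_lit 5) (nat_lit 37) (nat_lit 4) (nat_lit 271) (nat_lit 231) (nat_lit 218)) (XT.lf (nat_lit 0) (nat_lit 8528089091) (nat_lit 152) (nat_lit 1671645883) (nat_lit 228) (nat_lit 160549414) (nat_lit 34) (nat_lit 5) (nat_lit 36) (nat_lit 5) (nat_lit 37) (nat_lit 4) (nat_lit 272) (nat_lit 231) (nat_lit 217))))) (XT.nd (nat_lit 312) (nat_lit 532) (nat_lit 0) (XT.nd (nat_lit 156) (nat_lit 228) (nat_lit 0) (XT.nd (nat_lit 78) (nat_lit 0) (nat_lit 0) (XT.lf (nat_lit 0) (nat_lit 2795627361) (nat_lit 304) (nat_lit 6633755301) (nat_lit 76) (nat_lit 1235097692) (nat_lit 30) (nat_lit 5) (nat_lit 34) (nat_lit 5) (nat_lit 31) (nat_lit 4) (nat_lit 273) (nat_lit 231) (nat_lit 216)) (XT.lf (nat_lit 0) (nat_lit 5854548490) (nat_lit 304) (nat_lit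 908693386) (nat_lit 76) (nat_lit 4222715572) (nat_lit 30) (nat_lit 5) (nat_lit 34) (nat_lit 5) (nat_lit 31) (nat_lit 4) (nat_lit 274) (nat_lit 231) (nat_lit 215))) (XT.nd (nat_lit 78) (nat_lit 76) (nat_lit 0) (XT.lf (nat_lit 0) (nat_lit 5127480480) (nat_lit 152) (nat_lit 3925074495) (nat_lit 228) (nat_lit 2271855484) (nat_lit 28) (nat_lit 5) (nat_lit 30) (nat_lit 5) (nat_lit 31) (nat_lit 4) (nat_lit 275) (nat_lit 231) (nat_lit 214)) (XT.lf (nat_lit 0) (nat_lit 629654928) (nat_lit 228) (nat_lit 333946264) (nat_lit 76) (nat_lit 10719685853) (nat_lit 27) (nat_lit 5) (nat_lit 30) (nat_lit 5) (nat_lit 28) (nat_lit 5) (nat_lit 276) (nat_lit 231) (nat_lit 213)))) (XT.nd (nat_lit 156) (nat_lit 380) (nat_lit 0) (XT.nd (nat_lit 78) (nat_lit 0) (nat_lit 0) (XT.lf (nat_lit 0) (nat_lit 3637118158) (nat_lit 228) (nat_lit 6255018378) (nat_lit 76) (nat_lit 2164427987) (nat_lit 25) (nat_lit 5) (nat_lit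 28) (nat_lit 5) (nat_lit 26) (nat_lit 4) (nat_lit 277) (nat_lit 231) (nat_lit 212)) (XT.lf (nat_lit 0) (nat_lit 6729143953) (nat_lit 228) (nat_lit 343956411) (nat_lit 76) (nat_lit 5378868007) (nat_lit 25) (nat_lit 5) (nat_lit 28) (nat_lit 5) (nat_lit 26) (nat_lit 4) (nat_lit 278) (nat_lit 231) (nat_lit 211))) (XT.nd (nat_lit 78) (nat_lit 228) (nat_lit 0) (XT.lf (nat_lit 0) (nat_lit 5923435196) (nat_lit 152) (nat_lit 4061621463) (nat_lit 228) (nat_lit 2881785248) (nat_lit 23) (nat_lit 5) (nat_lit 25) (nat_lit 5) (nat_lit 26) (nat_lit 4) (nat_lit 279) (nat_lit 231) (nat_lit 210)) (XT.nd (nat_lit 78) (nat_lit 152) (nat_lit 0) (XT.lf (nat_lit 0) (nat_lit 21288925) (nat_lit 228) (nat_lit 917322870) (nat_lit 76) (nat_lit 12367755521) (nat_lit 22) (nat_lit 5) (nat_lit 25) (nat_lit 5) (nat_lit 23) (nat_lit 5) (nat_lit 280) (nat_lit 231) (nat_lit 209)) (XT.lf (nat_lit 0) (nat_lit 3016423467)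 (nat_lit 228) (nat_lit 8390748681) (nat_lit 76) (nat_lit 2356288529) (nat_lit 20) (nat_lit 5) (nat_lit 23) (nat_lit 5) (nat_lit 21) (nat_lit 4) (nat_lit 281) (nat_lit 231) (nat_lit 208))))))) (XT.nd (nat_lit 702) (nat_lit 456) (nat_lit 0) (XT.nd (nat_lit 312) (nat_lit 76) (nat_lit 0) (XT.nd (nat_lit 156) (nat_lit 228) (nat_lit 0) (XT.nd (nat_lit 78) (nat_lit 76) (nat_lit 0) (XT.lf (nat_lit 0) (nat_lit 6114893157) (nat_lit 228) (nat_lit 2373914485) (nat_lit 76) (nat_lit 5757056882) (nat_lit 20) (nat_lit 5) (nat_lit 23) (nat_lit 5) (nat_lit 21) (nat_lit 4) (nat_lit 282) (nat_lit 231) (nat_lit 207)) (XT.lf (nat_lit 0) (nat_lit 3951435091) (nat_lit 76) (nat_lit 5404640748) (nat_lit 152) (nat_lit 5397051574) (nat_lit 19) (nat_lit 5) (nat_lit 20) (nat_lit 5) (nat_lit 21) (nat_lit 4) (nat_lit 283) (nat_lit 231) (nat_lit 206))) (XT.nd (nat_lit 78) (nat_lit 228) (nat_lit 0) (XT.lf (nat_lit 0)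 (nat_lit 10558588249) (nat_lit 76) (nat_lit 2168723706) (nat_lit 152) (nat_lit 2560163990) (nat_lit 19) (nat_lit 5) (nat_lit 20) (nat_lit 5) (nat_lit 21) (nat_lit 4) (nat_lit 284) (nat_lit 231) (nat_lit 205)) (XT.lf (nat_lit 0) (nat_lit 378810309) (nat_lit 228) (nat_lit 14291830886) (nat_lit 76) (nat_lit 1179002853) (nat_lit 16) (nat_lit 5) (nat_lit 19) (nat_lit 5) (nat_lit 17) (nat_lit 4) (nat_lit 285) (nat_lit 231) (nat_lit 204)))) (XT.nd (nat_lit 156) (nat_lit 76) (nat_lit 0) (XT.nd (nat_lit 78) (nat_lit 0) (nat_lit 0) (XT.lf (nat_lit 0) (nat_lit 3426543928) (nat_lit 228) (nat_lit 8306480695) (nat_lit 76) (nat_lit 4702510565) (nat_lit 16) (nat_lit 5) (nat_lit 19) (nat_lit 5) (nat_lit 17) (nat_lit 4) (nat_lit 286) (nat_lit 231) (nat_lit 203)) (XT.lf (nat_lit 0) (nat_lit 6560852008) (nat_lit 228) (nat_lit 2131152683) (nat_lit 76) (nat_lit 8362107351) (nat_lit 16) (nat_lit 5) (nat_lit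 19) (nat_lit 5) (nat_lit 17) (nat_lit 4) (nat_lit 287) (nat_lit 231) (nat_lit 202))) (XT.nd (nat_lit 78) (nat_lit 0) (nat_lit 0) (XT.lf (nat_lit 0) (nat_lit 4389342690) (nat_lit 76) (nat_lit 5468384436) (nat_lit 152) (nat_lit 7845693787) (nat_lit 15) (nat_lit 5) (nat_lit 16) (nat_lit 5) (nat_lit 17) (nat_lit 4) (nat_lit 288) (nat_lit 231) (nat_lit 201)) (XT.nd (nat_lit 78) (nat_lit 0) (nat_lit 0) (XT.lf (nat_lit 0) (nat_lit 11207445022) (nat_lit 76) (nat_lit 2086800604) (nat_lit 152) (nat_lit 5092300821) (nat_lit 15) (nat_lit 5) (nat_lit 16) (nat_lit 5) (nat_lit 17) (nat_lit 4) (nat_lit 289) (nat_lit 231) (nat_lit 200)) (XT.lf (nat_lit 0) (nat_lit 16866459915) (nat_lit 152) (nat_lit 860155099) (nat_lit 0) (nat_lit 1379106602) (nat_lit 15) (nat_lit 5) (nat_lit 17) (nat_lit 4) (nat_lit 15) (nat_lit 4) (nat_lit 290) (nat_lit 231) (nat_lit 199)))))) (XT.nd (nat_lit 312) (nat_lit 152) (nat_lit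 0) (XT.nd (nat_lit 156) (nat_lit 76) (nat_lit 0) (XT.nd (nat_lit 78) (nat_lit 0) (nat_lit 0) (XT.lf (nat_lit 0) (nat_lit 802359193) (nat_lit 228) (nat_lit 14038401291) (nat_lit 76) (nat_lit 5016076328) (nat_lit 12) (nat_lit 5) (nat_lit 15) (nat_lit 5) (nat_lit 13) (nat_lit 4) (nat_lit 291) (nat_lit 231) (nat_lit 198)) (XT.lf (nat_lit 0) (nat_lit 3879672817) (nat_lit 228) (nat_lit 7916464859) (nat_lit 76) (nat_lit 8849666380) (nat_lit 12) (nat_lit 5) (nat_lit 15) (nat_lit 5) (nat_lit 13) (nat_lit 4) (nat_lit 292) (nat_lit 231) (nat_lit 197))) (XT.nd (nat_lit 78) (nat_lit 76) (nat_lit 0) (XT.lf (nat_lit 0) (nat_lit 7057575564) (nat_lit 228) (nat_lit 1579437085) (nat_lit 76) (nat_lit 12839942299) (nat_lit 12) (nat_lit 5) (nat_lit 15) (nat_lit 5) (nat_lit 13) (nat_lit 4) (nat_lit 293) (nat_lit 231) (nat_lit 196)) (XT.lf (nat_lit 0) (nat_lit 5152688401) (nat_lit 76) (nat_lit 5271393373)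 (nat_lit 152) (nat_lit 11924164247) (nat_lit 11) (nat_lit 5) (nat_lit 12) (nat_lit 5) (nat_lit 13) (nat_lit 4) (nat_lit 294) (nat_lit 231) (nat_lit 195)))) (XT.nd (nat_lit 156) (nat_lit 152) (nat_lit 0) (XT.nd (nat_lit 78) (nat_lit 0) (nat_lit 0) (XT.lf (nat_lit 0) (nat_lit 12190980701) (nat_lit 76) (nat_lit 1745026350) (nat_lit 152) (nat_lit 9328304721) (nat_lit 11) (nat_lit 5) (nat_lit 12) (nat_lit 5) (nat_lit 13) (nat_lit 4) (nat_lit 295) (nat_lit 231) (nat_lit 194)) (XT.lf (nat_lit 0) (nat_lit 17606273240) (nat_lit 152) (nat_lit 4758667631) (nat_lit 0) (nat_lit 1862164432) (nat_lit 11) (nat_lit 5) (nat_lit 13) (nat_lit 4) (nat_lit 11) (nat_lit 4) (nat_lit 296) (nat_lit 231) (nat_lit 193))) (XT.nd (nat_lit 78) (nat_lit 76) (nat_lit 0) (XT.lf (nat_lit 0) (nat_lit 1822294518) (nat_lit 76) (nat_lit 19649273577) (nat_lit 76) (nat_lit 3765953437) (nat_lit 10) (nat_lit 4) (nat_lit 11)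 (nat_lit 5) (nat_lit 11) (nat_lit 4) (nat_lit 297) (nat_lit 231) (nat_lit 192)) (XT.nd (nat_lit 78) (nat_lit 76) (nat_lit 0) (XT.lf (nat_lit 0) (nat_lit 8819639341) (nat_lit 76) (nat_lit 16746488778) (nat_lit 76) (nat_lit 730586417) (nat_lit 10) (nat_lit 4) (nat_lit 11) (nat_lit 5) (nat_lit 11) (nat_lit 4) (nat_lit 298) (nat_lit 231) (nat_lit 191)) (XT.lf (nat_lit 0) (nat_lit 2334709674) (nat_lit 152) (nat_lit 11356016310) (nat_lit 76) (nat_lit 13718435028) (nat_lit 9) (nat_lit 5) (nat_lit 11) (nat_lit 5) (nat_lit 10) (nat_lit 4) (nat_lit 299) (nat_lit 231) (nat_lit 190))))))))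
noncomputable def xc81 : XT := (XT.nd (nat_lit 1326) (nat_lit 228) (nat_lit 0) (XT.nd (nat_lit 624) (nat_lit 152) (nat_lit 0) (XT.nd (nat_lit 312) (nat_lit 76) (nat_lit 0) (XT.nd (nat_lit 156) (nat_lit 0) (nat_lit 0) (XT.nd (nat_lit 78) (nat_lit 76) (nat_lit 0) (XT.lf (nat_lit 0) (nat_lit 5487561532) (nat_lit 152) (nat_lit 5012925983) (nat_lit 76) (nat_lit 18078249646) (nat_lit 9) (nat_lit 5) (nat_lit 11) (nat_lit 5) (nat_lit 10) (nat_lit 4) (nat_lit 300) (nat_lit 231) (nat_lit 189)) (XT.lf (nat_lit 0) (nat_lit 1630903996) (nat_lit 76) (nat_lit 7153418262) (nat_lit 152) (nat_lit 21023202608) (nat_lit 8) (nat_lit 5) (nat_lit 9) (nat_lit 5) (nat_lit 10) (nat_lit 4) (nat_lit 301) (nat_lit 231) (nat_lit 188))) (XT.nd (nat_lit 78) (nat_lit 0) (nat_lit 0) (XT.lf (nat_lit 0) (nat_lit 8713455645) (nat_lit 76) (nat_lit 3578977525) (nat_lit 152) (nat_lit 18803037045) (nat_lit 8) (nat_lit 5) (nat_lit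 9) (nat_lit 5) (nat_lit 10) (nat_lit 4) (nat_lit 302) (nat_lit 231) (nat_lit 187)) (XT.lf (nat_lit 0) (nat_lit 15941679748) (nat_lit 152) (nat_lit 16366126697) (nat_lit 0) (nat_lit 141761659) (nat_lit 8) (nat_lit 5) (nat_lit 10) (nat_lit 4) (nat_lit 8) (nat_lit 4) (nat_lit 303) (nat_lit 231) (nat_lit 186)))) (XT.nd (nat_lit 156) (nat_lit 76) (nat_lit 0) (XT.nd (nat_lit 78) (nat_lit 0) (nat_lit 0) (XT.lf (nat_lit 0) (nat_lit 19796832418) (nat_lit 152) (nat_lit 10170715452) (nat_lit 0) (nat_lit 3902690619) (nat_lit 8) (nat_lit 5) (nat_lit 10) (nat_lit 4) (nat_lit 8) (nat_lit 4) (nat_lit 304) (nat_lit 231) (nat_lit 185)) (XT.lf (nat_lit 0) (nat_lit 23811192245) (nat_lit 152) (nat_lit 3725151987) (nat_lit 0) (nat_lit 7827313580) (nat_lit 8) (nat_lit 5) (nat_lit 10) (nat_lit 4) (nat_lit 8) (nat_lit 4) (nat_lit 305) (nat_lit 231) (nat_lit 184))) (XT.nd (nat_lit 78) (nat_lit 0) (nat_lit 0)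 (XT.lf (nat_lit 0) (nat_lit 3084637956) (nat_lit 76) (nat_lit 24957839115) (nat_lit 76) (nat_lit 8888496769) (nat_lit 7) (nat_lit 4) (nat_lit 8) (nat_lit 5) (nat_lit 8) (nat_lit 4) (nat_lit 306) (nat_lit 231) (nat_lit 183)) (XT.lf (nat_lit 0) (nat_lit 10308382686) (nat_lit 76) (nat_lit 22208727247) (nat_lit 76) (nat_lit 6057990918) (nat_lit 7) (nat_lit 4) (nat_lit 8) (nat_lit 5) (nat_lit 8) (nat_lit 4) (nat_lit 307) (nat_lit 231) (nat_lit 182))))) (XT.nd (nat_lit 312) (nat_lit 76) (nat_lit 0) (XT.nd (nat_lit 156) (nat_lit 76) (nat_lit 0) (XT.nd (nat_lit 78) (nat_lit 0) (nat_lit 0) (XT.lf (nat_lit 0) (nat_lit 17840111246) (nat_lit 76) (nat_lit 19345550375) (nat_lit 76) (nat_lit 3117295968) (nat_lit 7) (nat_lit 4) (nat_lit 8) (nat_lit 5) (nat_lit 8) (nat_lit 4) (nat_lit 308) (nat_lit 231) (nat_lit 181)) (XT.lf (nat_lit 0) (nat_lit 25697756323) (nat_lit 76) (nat_lit 16361491412) (nat_lit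 76) (nat_lit 59410263) (nat_lit 7) (nat_lit 4) (nat_lit 8) (nat_lit 5) (nat_lit 8) (nat_lit 4) (nat_lit 309) (nat_lit 231) (nat_lit 180))) (XT.nd (nat_lit 78) (nat_lit 0) (nat_lit 0) (XT.lf (nat_lit 0) (nat_lit 3022993073) (nat_lit 152) (nat_lit 10175256531) (nat_lit 76) (nat_lit 30825837671) (nat_lit 6) (nat_lit 5) (nat_lit 8) (nat_lit 5) (nat_lit 7) (nat_lit 4) (nat_lit 310) (nat_lit 231) (nat_lit 179)) (XT.lf (nat_lit 0) (nat_lit 6231317010) (nat_lit 152) (nat_lit 3665155491) (nat_lit 76) (nat_lit 36129603899) (nat_lit 6) (nat_lit 5) (nat_lit 8) (nat_lit 5) (nat_lit 7) (nat_lit 4) (nat_lit 311) (nat_lit 231) (nat_lit 178)))) (XT.nd (nat_lit 156) (nat_lit 0) (nat_lit 0) (XT.nd (nat_lit 78) (nat_lit 0) (nat_lit 0) (XT.lf (nat_lit 0) (nat_lit 3229183276) (nat_lit 76) (nat_lit 6396335237) (nat_lit 152) (nat_lit 38501399048) (nat_lit 5) (nat_lit 5) (nat_lit 6) (nat_lit 5) (nat_lit 7)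 (nat_lit 4) (nat_lit 312) (nat_lit 231) (nat_lit 177)) (XT.lf (nat_lit 0) (nat_lit 10551583249) (nat_lit 76) (nat_lit 2675465711) (nat_lit 152) (nat_lit 37103895304) (nat_lit 5) (nat_lit 5) (nat_lit 6) (nat_lit 5) (nat_lit 7) (nat_lit 4) (nat_lit 313) (nat_lit 231) (nat_lit 176))) (XT.nd (nat_lit 78) (nat_lit 0) (nat_lit 0) (XT.lf (nat_lit 0) (nat_lit 17004305156) (nat_lit 152) (nat_lit 34467004987) (nat_lit 0) (nat_lit 1174102961) (nat_lit 5) (nat_lit 5) (nat_lit 7) (nat_lit 4) (nat_lit 5) (nat_lit 4) (nat_lit 314) (nat_lit 231) (nat_lit 175)) (XT.nd (nat_lit 78) (nat_lit 0) (nat_lit 0) (XT.lf (nat_lit 0) (nat_lit 20991829858) (nat_lit 152) (nat_lit 28973567025) (nat_lit 0) (nat_lit 5109160376) (nat_lit 5) (nat_lit 5) (nat_lit 7) (nat_lit 4) (nat_lit 5) (nat_lit 4) (nat_lit 315) (nat_lit 231) (nat_lit 174)) (XT.lf (nat_lit 0) (nat_lit 25157345655) (nat_lit 152) (nat_lit 23244195996)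 (nat_lit 0) (nat_lit 9224707328) (nat_lit 5) (nat_lit 5) (nat_lit 7) (nat_lit 4) (nat_lit 5) (nat_lit 4) (nat_lit 316) (nat_lit 231) (nat_lit 173))))))) (XT.nd (nat_lit 702) (nat_lit 152) (nat_lit 0) (XT.nd (nat_lit 312) (nat_lit 0) (nat_lit 0) (XT.nd (nat_lit 156) (nat_lit 76) (nat_lit 0) (XT.nd (nat_lit 78) (nat_lit 0) (nat_lit 0) (XT.lf (nat_lit 0) (nat_lit 29510770441) (nat_lit 152) (nat_lit 17265250542) (nat_lit 0) (nat_lit 13530542739) (nat_lit 5) (nat_lit 5) (nat_lit 7) (nat_lit 4) (nat_lit 5) (nat_lit 4) (nat_lit 317) (nat_lit 231) (nat_lit 172)) (XT.lf (nat_lit 0) (nat_lit 34062469514) (nat_lit 152) (nat_lit 11022495077) (nat_lit 0) (nat_lit 18036918597) (nat_lit 5) (nat_lit 5) (nat_lit 7) (nat_lit 4) (nat_lit 5) (nat_lit 4) (nat_lit 318) (nat_lit 231) (nat_lit 171))) (XT.nd (nat_lit 78) (nat_lit 76) (nat_lit 0) (XT.lf (nat_lit 0) (nat_lit 38823280253) (nat_lit 152) (nat_lit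 4501065898) (nat_lit 0) (nat_lit 22754564368) (nat_lit 5) (nat_lit 5) (nat_lit 7) (nat_lit 4) (nat_lit 5) (nat_lit 4) (nat_lit 319) (nat_lit 231) (nat_lit 170)) (XT.lf (nat_lit 0) (nat_lit 2391094151) (nat_lit 76) (nat_lit 41450775450) (nat_lit 76) (nat_lit 25340950073) (nat_lit 4) (nat_lit 4) (nat_lit 5) (nat_lit 5) (nat_lit 5) (nat_lit 4) (nat_lit 320) (nat_lit 231) (nat_lit 169)))) (XT.nd (nat_lit 156) (nat_lit 0) (nat_lit 0) (XT.nd (nat_lit 78) (nat_lit 0) (nat_lit 0) (XT.lf (nat_lit 0) (nat_lit 9752772556) (nat_lit 76) (nat_lit 39417598210) (nat_lit 76) (nat_lit 23268620936) (nat_lit 4) (nat_lit 4) (nat_lit 5) (nat_lit 5) (nat_lit 5) (nat_lit 4) (nat_lit 321) (nat_lit 231) (nat_lit 168)) (XT.lf (nat_lit 0) (nat_lit 17452671556) (nat_lit 76) (nat_lit 37296201263) (nat_lit 76) (nat_lit 21109936468) (nat_lit 4) (nat_lit 4) (nat_lit 5) (nat_lit 5) (nat_lit 5) (nat_lit 4) (nat_lit 322)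 (nat_lit 231) (nat_lit 167))) (XT.nd (nat_lit 78) (nat_lit 0) (nat_lit 0) (XT.lf (nat_lit 0) (nat_lit 25509124243) (nat_lit 76) (nat_lit 35081533663) (nat_lit 76) (nat_lit 18859756943) (nat_lit 4) (nat_lit 4) (nat_lit 5) (nat_lit 5) (nat_lit 5) (nat_lit 4) (nat_lit 323) (nat_lit 231) (nat_lit 166)) (XT.nd (nat_lit 78) (nat_lit 0) (nat_lit 0) (XT.lf (nat_lit 0) (nat_lit 33941312648) (nat_lit 76) (nat_lit 32768322393) (nat_lit 76) (nat_lit 16512724792) (nat_lit 4) (nat_lit 4) (nat_lit 5) (nat_lit 5) (nat_lit 5) (nat_lit 4) (nat_lit 324) (nat_lit 231) (nat_lit 165)) (XT.lf (nat_lit 0) (nat_lit 42769313410) (nat_lit 76) (nat_lit 30351059806) (nat_lit 76) (nat_lit 14063251842) (nat_lit 4) (nat_lit 4) (nat_lit 5) (nat_lit 5) (nat_lit 5) (nat_lit 4) (nat_lit 325) (nat_lit 231) (nat_lit 164)))))) (XT.nd (nat_lit 312) (nat_lit 152) (nat_lit 0) (XT.nd (nat_lit 156) (nat_lit 0) (nat_lit 0) (XT.nd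 (nat_lit 78) (nat_lit 0) (nat_lit 0) (XT.lf (nat_lit 0) (nat_lit 52014145578) (nat_lit 76) (nat_lit 27823990516) (nat_lit 76) (nat_lit 11505506016) (nat_lit 4) (nat_lit 4) (nat_lit 5) (nat_lit 5) (nat_lit 5) (nat_lit 4) (nat_lit 326) (nat_lit 231) (nat_lit 163)) (XT.lf (nat_lit 0) (nat_lit 61697820657) (nat_lit 76) (nat_lit 25181097690) (nat_lit 76) (nat_lit 8833397442) (nat_lit 4) (nat_lit 4) (nat_lit 5) (nat_lit 5) (nat_lit 5) (nat_lit 4) (nat_lit 327) (nat_lit 231) (nat_lit 162))) (XT.nd (nat_lit 78) (nat_lit 0) (nat_lit 0) (XT.lf (nat_lit 0) (nat_lit 71843395017) (nat_lit 76) (nat_lit 22416088728) (nat_lit 76) (nat_lit 6040563957) (nat_lit 4) (nat_lit 4) (nat_lit 5) (nat_lit 5) (nat_lit 5) (nat_lit 4) (nat_lit 328) (nat_lit 231) (nat_lit 161)) (XT.lf (nat_lit 0) (nat_lit 82475024787) (nat_lit 76) (nat_lit 19522380273) (nat_lit 76) (nat_lit 3120355957) (nat_lit 4) (nat_lit 4) (nat_lit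 5) (nat_lit 5) (nat_lit 5) (nat_lit 4) (nat_lit 329) (nat_lit 231) (nat_lit 160)))) (XT.nd (nat_lit 156) (nat_lit 76) (nat_lit 0) (XT.nd (nat_lit 78) (nat_lit 76) (nat_lit 0) (XT.lf (nat_lit 0) (nat_lit 93618023371) (nat_lit 76) (nat_lit 16493082545) (nat_lit 76) (nat_lit 65820566) (nat_lit 4) (nat_lit 4) (nat_lit 5) (nat_lit 5) (nat_lit 5) (nat_lit 4) (nat_lit 330) (nat_lit 231) (nat_lit 159)) (XT.lf (nat_lit 0) (nat_lit 3030125291) (nat_lit 152) (nat_lit 10239540999) (nat_lit 76) (nat_lit 102217479788) (nat_lit 3) (nat_lit 5) (nat_lit 5) (nat_lit 5) (nat_lit 4) (nat_lit 4) (nat_lit 331) (nat_lit 231) (nat_lit 158))) (XT.nd (nat_lit 78) (nat_lit 76) (nat_lit 0) (XT.lf (nat_lit 0) (nat_lit 6268398770) (nat_lit 152) (nat_lit 3623971670) (nat_lit 76) (nat_lit 111170974354) (nat_lit 3) (nat_lit 5) (nat_lit 5) (nat_lit 5) (nat_lit 4) (nat_lit 4) (nat_lit 332) (nat_lit 231) (nat_lit 157))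 (XT.nd (nat_lit 78) (nat_lit 0) (nat_lit 0) (XT.lf (nat_lit 0) (nat_lit 3413848342) (nat_lit 76) (nat_lit 6298268113) (nat_lit 152) (nat_lit 117204069231) (nat_lit 2) (nat_lit 5) (nat_lit 3) (nat_lit 5) (nat_lit 4) (nat_lit 4) (nat_lit 333) (nat_lit 231) (nat_lit 156)) (XT.lf (nat_lit 0) (nat_lit 10911870190) (nat_lit 76) (nat_lit 2467946233) (nat_lit 152) (nat_lit 119679270731) (nat_lit 2) (nat_lit 5) (nat_lit 3) (nat_lit 5) (nat_lit 4) (nat_lit 4) (nat_lit 334) (nat_lit 231) (nat_lit 155))))))))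
noncomputable def xc82 : XT := (XT.nd (nat_lit 1326) (nat_lit 0) (nat_lit 0) (XT.nd (nat_lit 624) (nat_lit 0) (nat_lit 0) (XT.nd (nat_lit 312) (nat_lit 0) (nat_lit 0) (XT.nd (nat_lit 156) (nat_lit 0) (nat_lit 0) (XT.nd (nat_lit 78) (nat_lit 0) (nat_lit 0) (XT.lf (nat_lit 0) (nat_lit 17245922860) (nat_lit 152) (nat_lit 120765618995) (nat_lit 0) (nat_lit 1496848719) (nat_lit 2) (nat_lit 5) (nat_lit 4) (nat_lit 4) (nat_lit 2) (nat_lit 4) (nat_lit 335) (nat_lit 231) (nat_lit 154)) (XT.lf (nat_lit 0) (nat_lit 21336993576) (nat_lit 152) (nat_lit 119371606715) (nat_lit 0) (nat_lit 5569983500) (nat_lit 2) (nat_lit 5) (nat_lit 4) (nat_lit 4) (nat_lit 2) (nat_lit 4) (nat_lit 336) (nat_lit 231) (nat_lit 153))) (XT.nd (nat_lit 78) (nat_lit 0) (nat_lit 0) (XT.lf (nat_lit 0) (nat_lit 25624237660) (nat_lit 152) (nat_lit 117923329490) (nat_lit 0) (nat_lit 9840145741) (nat_lit 2) (nat_lit 5) (nat_lit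 4) (nat_lit 4) (nat_lit 2) (nat_lit 4) (nat_lit 337) (nat_lit 231) (nat_lit 152)) (XT.lf (nat_lit 0) (nat_lit 30117862836) (nat_lit 152) (nat_lit 116417339042) (nat_lit 0) (nat_lit 14317502495) (nat_lit 2) (nat_lit 5) (nat_lit 4) (nat_lit 4) (nat_lit 2) (nat_lit 4) (nat_lit 338) (nat_lit 231) (nat_lit 151)))) (XT.nd (nat_lit 156) (nat_lit 0) (nat_lit 0) (XT.nd (nat_lit 78) (nat_lit 0) (nat_lit 0) (XT.lf (nat_lit 0) (nat_lit 34828568210) (nat_lit 152) (nat_lit 114850049678) (nat_lit 0) (nat_lit 19012714134) (nat_lit 2) (nat_lit 5) (nat_lit 4) (nat_lit 4) (nat_lit 2) (nat_lit 4) (nat_lit 339) (nat_lit 231) (nat_lit 150)) (XT.lf (nat_lit 0) (nat_lit 39767569749) (nat_lit 152) (nat_lit 113217729758) (nat_lit 0) (nat_lit 23936959735) (nat_lit 2) (nat_lit 5) (nat_lit 4) (nat_lit 4) (nat_lit 2) (nat_lit 4) (nat_lit 340) (nat_lit 231) (nat_lit 149))) (XT.nd (nat_lit 78) (nat_lit 0) (nat_lit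 0) (XT.lf (nat_lit 0) (nat_lit 44946626980) (nat_lit 152) (nat_lit 111516492805) (nat_lit 0) (nat_lit 29101963691) (nat_lit 2) (nat_lit 5) (nat_lit 4) (nat_lit 4) (nat_lit 2) (nat_lit 4) (nat_lit 341) (nat_lit 231) (nat_lit 148)) (XT.lf (nat_lit 0) (nat_lit 50378070992) (nat_lit 152) (nat_lit 109742288255) (nat_lit 0) (nat_lit 34520023631) (nat_lit 2) (nat_lit 5) (nat_lit 4) (nat_lit 4) (nat_lit 2) (nat_lit 4) (nat_lit 342) (nat_lit 231) (nat_lit 147))))) (XT.nd (nat_lit 312) (nat_lit 0) (nat_lit 0) (XT.nd (nat_lit 156) (nat_lit 0) (nat_lit 0) (XT.nd (nat_lit 78) (nat_lit 0) (nat_lit 0) (XT.lf (nat_lit 0) (nat_lit 56074833793) (nat_lit 152) (nat_lit 107890891811) (nat_lit 0) (nat_lit 40204039698) (nat_lit 2) (nat_lit 5) (nat_lit 4) (nat_lit 4) (nat_lit 2) (nat_lit 4) (nat_lit 343) (nat_lit 231) (nat_lit 146)) (XT.lf (nat_lit 0) (nat_lit 62050479105) (nat_lit 152) (nat_lit 105957895388)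 (nat_lit 0) (nat_lit 46167545264) (nat_lit 2) (nat_lit 5) (nat_lit 4) (nat_lit 4) (nat_lit 2) (nat_lit 4) (nat_lit 344) (nat_lit 231) (nat_lit 145))) (XT.nd (nat_lit 78) (nat_lit 0) (nat_lit 0) (XT.lf (nat_lit 0) (nat_lit 68319234655) (nat_lit 152) (nat_lit 103938696612) (nat_lit 0) (nat_lit 52424739150) (nat_lit 2) (nat_lit 5) (nat_lit 4) (nat_lit 4) (nat_lit 2) (nat_lit 4) (nat_lit 345) (nat_lit 231) (nat_lit 144)) (XT.lf (nat_lit 0) (nat_lit 74896026052) (nat_lit 152) (nat_lit 101828487867) (nat_lit 0) (nat_lit 58990519438) (nat_lit 2) (nat_lit 5) (nat_lit 4) (nat_lit 4) (nat_lit 2) (nat_lit 4) (nat_lit 346) (nat_lit 231) (nat_lit 143)))) (XT.nd (nat_lit 156) (nat_lit 0) (nat_lit 0) (XT.nd (nat_lit 78) (nat_lit 0) (nat_lit 0) (XT.lf (nat_lit 0) (nat_lit 81796512322) (nat_lit 152) (nat_lit 99622244848) (nat_lit 0) (nat_lit 65880518938) (nat_lit 2) (nat_lit 5) (nat_lit 4) (nat_lit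 4) (nat_lit 2) (nat_lit 4) (nat_lit 347) (nat_lit 231) (nat_lit 142)) (XT.lf (nat_lit 0) (nat_lit 89037123195) (nat_lit 152) (nat_lit 97314714593) (nat_lit 0) (nat_lit 73111142411) (nat_lit 2) (nat_lit 5) (nat_lit 4) (nat_lit 4) (nat_lit 2) (nat_lit 4) (nat_lit 348) (nat_lit 231) (nat_lit 141))) (XT.nd (nat_lit 78) (nat_lit 0) (nat_lit 0) (XT.lf (nat_lit 0) (nat_lit 96635098220) (nat_lit 152) (nat_lit 94900402984) (nat_lit 0) (nat_lit 80699605627) (nat_lit 2) (nat_lit 5) (nat_lit 4) (nat_lit 4) (nat_lit 2) (nat_lit 4) (nat_lit 349) (nat_lit 231) (nat_lit 140)) (XT.nd (nat_lit 78) (nat_lit 0) (nat_lit 0) (XT.lf (nat_lit 0) (nat_lit 104608527814) (nat_lit 152) (nat_lit 92373561659) (nat_lit 0) (nat_lit 88663976355) (nat_lit 2) (nat_lit 5) (nat_lit 4) (nat_lit 4) (nat_lit 2) (nat_lit 4) (nat_lit 350) (nat_lit 231) (nat_lit 139)) (XT.lf (nat_lit 0) (nat_lit 112976396334) (nat_lit 152) (nat_lit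 89728174330) (nat_lit 0) (nat_lit 97023217383) (nat_lit 2) (nat_lit 5) (nat_lit 4) (nat_lit 4) (nat_lit 2) (nat_lit 4) (nat_lit 351) (nat_lit 231) (nat_lit 138))))))) (XT.nd (nat_lit 702) (nat_lit 0) (nat_lit 0) (XT.nd (nat_lit 312) (nat_lit 0) (nat_lit 0) (XT.nd (nat_lit 156) (nat_lit 0) (nat_lit 0) (XT.nd (nat_lit 78) (nat_lit 0) (nat_lit 0) (XT.lf (nat_lit 0) (nat_lit 121758627275) (nat_lit 152) (nat_lit 86957942456) (nat_lit 0) (nat_lit 105797231666) (nat_lit 2) (nat_lit 5) (nat_lit 4) (nat_lit 4) (nat_lit 2) (nat_lit 4) (nat_lit 352) (nat_lit 231) (nat_lit 137)) (XT.lf (nat_lit 0) (nat_lit 130976130712) (nat_lit 152) (nat_lit 84056270245) (nat_lit 0) (nat_lit 115006909713) (nat_lit 2) (nat_lit 5) (nat_lit 4) (nat_lit 4) (nat_lit 2) (nat_lit 4) (nat_lit 353) (nat_lit 231) (nat_lit 136))) (XT.nd (nat_lit 78) (nat_lit 0) (nat_lit 0) (XT.lf (nat_lit 0) (nat_lit 140650853081) (nat_lit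 152) (nat_lit 81016248956) (nat_lit 0) (nat_lit 124674179331) (nat_lit 2) (nat_lit 5) (nat_lit 4) (nat_lit 4) (nat_lit 2) (nat_lit 4) (nat_lit 354) (nat_lit 231) (nat_lit 135)) (XT.lf (nat_lit 0) (nat_lit 150805829435) (nat_lit 152) (nat_lit 77830640442) (nat_lit 0) (nat_lit 134822057827) (nat_lit 2) (nat_lit 5) (nat_lit 4) (nat_lit 4) (nat_lit 2) (nat_lit 4) (nat_lit 355) (nat_lit 231) (nat_lit 134)))) (XT.nd (nat_lit 156) (nat_lit 0) (nat_lit 0) (XT.nd (nat_lit 78) (nat_lit 0) (nat_lit 0) (XT.lf (nat_lit 0) (nat_lit 161465238290) (nat_lit 152) (nat_lit 74491859920) (nat_lit 0) (nat_lit 145474706816) (nat_lit 2) (nat_lit 5) (nat_lit 4) (nat_lit 4) (nat_lit 2) (nat_lit 4) (nat_lit 356) (nat_lit 231) (nat_lit 133)) (XT.lf (nat_lit 0) (nat_lit 172654459191) (nat_lit 152) (nat_lit 70991957914) (nat_lit 0) (nat_lit 156657489750) (nat_lit 2) (nat_lit 5) (nat_lit 4) (nat_lit 4) (nat_lit 2)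 (nat_lit 4) (nat_lit 357) (nat_lit 231) (nat_lit 132))) (XT.nd (nat_lit 78) (nat_lit 0) (nat_lit 0) (XT.lf (nat_lit 0) (nat_lit 184400133139) (nat_lit 152) (nat_lit 67322601323) (nat_lit 0) (nat_lit 168397032301) (nat_lit 2) (nat_lit 5) (nat_lit 4) (nat_lit 4) (nat_lit 2) (nat_lit 4) (nat_lit 358) (nat_lit 231) (nat_lit 131)) (XT.nd (nat_lit 78) (nat_lit 0) (nat_lit 0) (XT.lf (nat_lit 0) (nat_lit 196730226025) (nat_lit 152) (nat_lit 63475053584) (nat_lit 0) (nat_lit 180721285761) (nat_lit 2) (nat_lit 5) (nat_lit 4) (nat_lit 4) (nat_lit 2) (nat_lit 4) (nat_lit 359) (nat_lit 231) (nat_lit 130)) (XT.lf (nat_lit 0) (nat_lit 209674095213) (nat_lit 152) (nat_lit 59440153869) (nat_lit 0) (nat_lit 193659593591) (nat_lit 2) (nat_lit 5) (nat_lit 4) (nat_lit 4) (nat_lit 2) (nat_lit 4) (nat_lit 360) (nat_lit 231) (nat_lit 129)))))) (XT.nd (nat_lit 29484) (nat_lit 0) (nat_lit 4104) (XT.nd (nat_lit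 29328) (nat_lit 0) (nat_lit 5244) (XT.nd (nat_lit 78) (nat_lit 0) (nat_lit 0) (XT.lf (nat_lit 0) (nat_lit 223262559439) (nat_lit 152) (nat_lit 55208295275) (nat_lit 0) (nat_lit 207242761286) (nat_lit 2) (nat_lit 5) (nat_lit 4) (nat_lit 4) (nat_lit 2) (nat_lit 4) (nat_lit 361) (nat_lit 231) (nat_lit 128)) (XT.lf (nat_lit 0) (nat_lit 237527972190) (nat_lit 152) (nat_lit 50769401946) (nat_lit 0) (nat_lit 221503129721) (nat_lit 2) (nat_lit 5) (nat_lit 4) (nat_lit 4) (nat_lit 2) (nat_lit 4) (nat_lit 362) (nat_lit 231) (nat_lit 127))) (XT.nd (nat_lit 78) (nat_lit 684) (nat_lit 0) (XT.lf (nat_lit 0) (nat_lit 1597870495) (nat_lit 684) (nat_lit 440472739) (nat_lit 0) (nat_lit 1597870495) (nat_lit 80) (nat_lit 5) (nat_lit 89) (nat_lit 4) (nat_lit 80) (nat_lit 4) (nat_lit 256) (nat_lit 232) (nat_lit 232)) (XT.lf (nat_lit 0) (nat_lit 3864407582) (nat_lit 684) (nat_lit 2520650489) (nat_lit 684)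 (nat_lit 1000277157) (nat_lit 71) (nat_lit 4) (nat_lit 80) (nat_lit 5) (nat_lit 80) (nat_lit 4) (nat_lit 257) (nat_lit 232) (nat_lit 231)))) (XT.nd (nat_lit 156) (nat_lit 760) (nat_lit 0) (XT.nd (nat_lit 78) (nat_lit 0) (nat_lit 0) (XT.lf (nat_lit 0) (nat_lit 1221201421) (nat_lit 304) (nat_lit 822481191) (nat_lit 380) (nat_lit 5464792205) (nat_lit 66) (nat_lit 5) (nat_lit 70) (nat_lit 5) (nat_lit 71) (nat_lit 4) (nat_lit 258) (nat_lit 232) (nat_lit 230)) (XT.lf (nat_lit 0) (nat_lit 5137224524) (nat_lit 380) (nat_lit 1506860725) (nat_lit 0) (nat_lit 996870843) (nat_lit 66) (nat_lit 5) (nat_lit 71) (nat_lit 4) (nat_lit 66) (nat_lit 4) (nat_lit 259) (nat_lit 232) (nat_lit 229))) (XT.nd (nat_lit 78) (nat_lit 304) (nat_lit 0) (XT.lf (nat_lit 0) (nat_lit 514050661) (nat_lit 456) (nat_lit 4337364727) (nat_lit 76) (nat_lit 2932274278) (nat_lit 60) (nat_lit 5) (nat_lit 66) (nat_lit 5) (nat_lit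 61) (nat_lit 4) (nat_lit 260) (nat_lit 232) (nat_lit 228)) (XT.nd (nat_lit 78) (nat_lit 0) (nat_lit 0) (XT.lf (nat_lit 0) (nat_lit 587408506) (nat_lit 304) (nat_lit 2910069239) (nat_lit 380) (nat_lit 4439564150) (nat_lit 56) (nat_lit 5) (nat_lit 60) (nat_lit 5) (nat_lit 61) (nat_lit 4) (nat_lit 261) (nat_lit 232) (nat_lit 227)) (XT.lf (nat_lit 0) (nat_lit 5754408419) (nat_lit 304) (nat_lit 816984400) (nat_lit 380) (nat_lit 1530059364) (nat_lit 56) (nat_lit 5) (nat_lit 60) (nat_lit 5) (nat_lit 61) (nat_lit 4) (nat_lit 262) (nat_lit 232) (nat_lit 226))))))))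
noncomputable def xc83 : XT := (XT.nd (nat_lit 1326) (nat_lit 912) (nat_lit 0) (XT.nd (nat_lit 624) (nat_lit 988) (nat_lit 0) (XT.nd (nat_lit 312) (nat_lit 532) (nat_lit 0) (XT.nd (nat_lit 156) (nat_lit 608) (nat_lit 0) (XT.nd (nat_lit 78) (nat_lit 0) (nat_lit 0) (XT.lf (nat_lit 0) (nat_lit 1414117174) (nat_lit 380) (nat_lit 5479581510) (nat_lit 76) (nat_lit 1382707571) (nat_lit 51) (nat_lit 5) (nat_lit 56) (nat_lit 5) (nat_lit 52) (nat_lit 4) (nat_lit 263) (nat_lit 232) (nat_lit 225)) (XT.lf (nat_lit 0) (nat_lit 4382934703) (nat_lit 380) (nat_lit 373551781) (nat_lit 76) (nat_lit 3706318940) (nat_lit 51) (nat_lit 5) (nat_lit 56) (nat_lit 5) (nat_lit 52) (nat_lit 4) (nat_lit 264) (nat_lit 232) (nat_lit 224))) (XT.nd (nat_lit 78) (nat_lit 380) (nat_lit 0) (XT.lf (nat_lit 0) (nat_lit 4999534653) (nat_lit 228) (nat_lit 2459723842) (nat_lit 304) (nat_lit 1201688170) (nat_lit 48) (nat_lit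 5) (nat_lit 51) (nat_lit 5) (nat_lit 52) (nat_lit 4) (nat_lit 265) (nat_lit 232) (nat_lit 223)) (XT.lf (nat_lit 0) (nat_lit 1660066068) (nat_lit 304) (nat_lit 16577702) (nat_lit 380) (nat_lit 7195545371) (nat_lit 43) (nat_lit 5) (nat_lit 47) (nat_lit 5) (nat_lit 48) (nat_lit 5) (nat_lit 266) (nat_lit 232) (nat_lit 222)))) (XT.nd (nat_lit 156) (nat_lit 304) (nat_lit 0) (XT.nd (nat_lit 78) (nat_lit 228) (nat_lit 0) (XT.lf (nat_lit 0) (nat_lit 4646269325) (nat_lit 380) (nat_lit 1929887713) (nat_lit 76) (nat_lit 2517787903) (nat_lit 43) (nat_lit 5) (nat_lit 48) (nat_lit 5) (nat_lit 44) (nat_lit 4) (nat_lit 267) (nat_lit 232) (nat_lit 221)) (XT.lf (nat_lit 0) (nat_lit 3585007132) (nat_lit 228) (nat_lit 4126036190) (nat_lit 304) (nat_lit 1618720679) (nat_lit 40) (nat_lit 5) (nat_lit 43) (nat_lit 5) (nat_lit 44) (nat_lit 4) (nat_lit 268) (nat_lit 232) (nat_lit 220))) (XT.nd (nat_lit 78) (nat_lit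 228) (nat_lit 0) (XT.lf (nat_lit 0) (nat_lit 1233006668) (nat_lit 304) (nat_lit 302172641) (nat_lit 76) (nat_lit 8045190295) (nat_lit 39) (nat_lit 5) (nat_lit 43) (nat_lit 5) (nat_lit 40) (nat_lit 5) (nat_lit 269) (nat_lit 232) (nat_lit 219)) (XT.lf (nat_lit 0) (nat_lit 4173817026) (nat_lit 304) (nat_lit 4444111084) (nat_lit 76) (nat_lit 1224472520) (nat_lit 36) (nat_lit 5) (nat_lit 40) (nat_lit 5) (nat_lit 37) (nat_lit 4) (nat_lit 270) (nat_lit 232) (nat_lit 218))))) (XT.nd (nat_lit 312) (nat_lit 532) (nat_lit 0) (XT.nd (nat_lit 156) (nat_lit 304) (nat_lit 0) (XT.nd (nat_lit 78) (nat_lit 0) (nat_lit 0) (XT.lf (nat_lit 0) (nat_lit 1145542736) (nat_lit 152) (nat_lit 6063103725) (nat_lit 228) (nat_lit 2911791892) (nat_lit 34) (nat_lit 5) (nat_lit 36) (nat_lit 5) (nat_lit 37) (nat_lit 4) (nat_lit 271) (nat_lit 232) (nat_lit 217)) (XT.lf (nat_lit 0) (nat_lit 7028413656) (nat_lit 152) (nat_lit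 3343420256) (nat_lit 228) (nat_lit 41955198) (nat_lit 34) (nat_lit 5) (nat_lit 36) (nat_lit 5) (nat_lit 37) (nat_lit 4) (nat_lit 272) (nat_lit 232) (nat_lit 216))) (XT.nd (nat_lit 78) (nat_lit 0) (nat_lit 0) (XT.lf (nat_lit 0) (nat_lit 2376030921) (nat_lit 228) (nat_lit 441624010) (nat_lit 304) (nat_lit 7904983173) (nat_lit 30) (nat_lit 5) (nat_lit 33) (nat_lit 5) (nat_lit 34) (nat_lit 5) (nat_lit 273) (nat_lit 232) (nat_lit 215)) (XT.lf (nat_lit 0) (nat_lit 5823868858) (nat_lit 304) (nat_lit 2682578348) (nat_lit 76) (nat_lit 2540405316) (nat_lit 30) (nat_lit 5) (nat_lit 34) (nat_lit 5) (nat_lit 31) (nat_lit 4) (nat_lit 274) (nat_lit 232) (nat_lit 214)))) (XT.nd (nat_lit 156) (nat_lit 304) (nat_lit 0) (XT.nd (nat_lit 78) (nat_lit 76) (nat_lit 0) (XT.lf (nat_lit 0) (nat_lit 3228110416) (nat_lit 152) (nat_lit 5720479757) (nat_lit 228) (nat_lit 2440476727) (nat_lit 28) (nat_lit 5) (nat_lit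 30) (nat_lit 5) (nat_lit 31) (nat_lit 4) (nat_lit 275) (nat_lit 232) (nat_lit 213)) (XT.lf (nat_lit 0) (nat_lit 423096821) (nat_lit 228) (nat_lit 2360510968) (nat_lit 76) (nat_lit 8966722100) (nat_lit 27) (nat_lit 5) (nat_lit 30) (nat_lit 5) (nat_lit 28) (nat_lit 5) (nat_lit 276) (nat_lit 232) (nat_lit 212))) (XT.nd (nat_lit 78) (nat_lit 152) (nat_lit 0) (XT.lf (nat_lit 0) (nat_lit 3326309791) (nat_lit 228) (nat_lit 8454292432) (nat_lit 76) (nat_lit 348301543) (nat_lit 25) (nat_lit 5) (nat_lit 28) (nat_lit 5) (nat_lit 26) (nat_lit 4) (nat_lit 277) (nat_lit 232) (nat_lit 211)) (XT.nd (nat_lit 78) (nat_lit 152) (nat_lit 0) (XT.lf (nat_lit 0) (nat_lit 6377752269) (nat_lit 228) (nat_lit 2606064794) (nat_lit 76) (nat_lit 3542599608) (nat_lit 25) (nat_lit 5) (nat_lit 28) (nat_lit 5) (nat_lit 26) (nat_lit 4) (nat_lit 278) (nat_lit 232) (nat_lit 210)) (XT.lf (nat_lit 0) (nat_lit 3524710421)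 (nat_lit 152) (nat_lit 6032852959) (nat_lit 228) (nat_lit 3387607995) (nat_lit 23) (nat_lit 5) (nat_lit 25) (nat_lit 5) (nat_lit 26) (nat_lit 4) (nat_lit 279) (nat_lit 232) (nat_lit 209))))))) (XT.nd (nat_lit 702) (nat_lit 304) (nat_lit 0) (XT.nd (nat_lit 312) (nat_lit 304) (nat_lit 0) (XT.nd (nat_lit 156) (nat_lit 76) (nat_lit 0) (XT.nd (nat_lit 78) (nat_lit 228) (nat_lit 0) (XT.lf (nat_lit 0) (nat_lit 9931803188) (nat_lit 152) (nat_lit 2931351351) (nat_lit 228) (nat_lit 523518353) (nat_lit 23) (nat_lit 5) (nat_lit 25) (nat_lit 5) (nat_lit 26) (nat_lit 4) (nat_lit 280) (nat_lit 232) (nat_lit 208)) (XT.lf (nat_lit 0) (nat_lit 2377807671) (nat_lit 228) (nat_lit 11115440673) (nat_lit 76) (nat_lit 356520533) (nat_lit 20) (nat_lit 5) (nat_lit 23) (nat_lit 5) (nat_lit 21) (nat_lit 4) (nat_lit 281) (nat_lit 232) (nat_lit 207))) (XT.nd (nat_lit 78) (nat_lit 76) (nat_lit 0) (XT.lf (nat_lit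 0) (nat_lit 5440226889) (nat_lit 228) (nat_lit 5156556199) (nat_lit 76) (nat_lit 3737254758) (nat_lit 20) (nat_lit 5) (nat_lit 23) (nat_lit 5) (nat_lit 21) (nat_lit 4) (nat_lit 282) (nat_lit 232) (nat_lit 206)) (XT.lf (nat_lit 0) (nat_lit 1019771628) (nat_lit 76) (nat_lit 7581532679) (nat_lit 152) (nat_lit 6244061308) (nat_lit 19) (nat_lit 5) (nat_lit 20) (nat_lit 5) (nat_lit 21) (nat_lit 4) (nat_lit 283) (nat_lit 232) (nat_lit 205)))) (XT.nd (nat_lit 156) (nat_lit 304) (nat_lit 0) (XT.nd (nat_lit 78) (nat_lit 0) (nat_lit 0) (XT.lf (nat_lit 0) (nat_lit 7572624740) (nat_lit 76) (nat_lit 4366369066) (nat_lit 152) (nat_lit 3442454449) (nat_lit 19) (nat_lit 5) (nat_lit 20) (nat_lit 5) (nat_lit 21) (nat_lit 4) (nat_lit 284) (nat_lit 232) (nat_lit 204)) (XT.lf (nat_lit 0) (nat_lit 14347106132) (nat_lit 76) (nat_lit 1030965873) (nat_lit 152) (nat_lit 569648662) (nat_lit 19) (nat_lit 5) (nat_lit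 20) (nat_lit 5) (nat_lit 21) (nat_lit 4) (nat_lit 285) (nat_lit 232) (nat_lit 203))) (XT.nd (nat_lit 78) (nat_lit 76) (nat_lit 0) (XT.lf (nat_lit 0) (nat_lit 2421877899) (nat_lit 228) (nat_lit 11645098121) (nat_lit 76) (nat_lit 2470851492) (nat_lit 16) (nat_lit 5) (nat_lit 19) (nat_lit 5) (nat_lit 17) (nat_lit 4) (nat_lit 286) (nat_lit 232) (nat_lit 202)) (XT.nd (nat_lit 78) (nat_lit 76) (nat_lit 0) (XT.lf (nat_lit 0) (nat_lit 5525611196) (nat_lit 228) (nat_lit 5520543483) (nat_lit 76) (nat_lit 6111825137) (nat_lit 16) (nat_lit 5) (nat_lit 19) (nat_lit 5) (nat_lit 17) (nat_lit 4) (nat_lit 287) (nat_lit 232) (nat_lit 201)) (XT.lf (nat_lit 0) (nat_lit 837928874) (nat_lit 76) (nat_lit 7899991077) (nat_lit 152) (nat_lit 9073641542) (nat_lit 15) (nat_lit 5) (nat_lit 16) (nat_lit 5) (nat_lit 17) (nat_lit 4) (nat_lit 288) (nat_lit 232) (nat_lit 200)))))) (XT.nd (nat_lit 312) (nat_lit 76) (nat_lit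 0) (XT.nd (nat_lit 156) (nat_lit 228) (nat_lit 0) (XT.nd (nat_lit 78) (nat_lit 0) (nat_lit 0) (XT.lf (nat_lit 0) (nat_lit 7608455540) (nat_lit 76) (nat_lit 4537507891) (nat_lit 152) (nat_lit 6350189714) (nat_lit 15) (nat_lit 5) (nat_lit 16) (nat_lit 5) (nat_lit 17) (nat_lit 4) (nat_lit 289) (nat_lit 232) (nat_lit 199)) (XT.lf (nat_lit 0) (nat_lit 14624622716) (nat_lit 76) (nat_lit 1044192284) (nat_lit 152) (nat_lit 3549021802) (nat_lit 15) (nat_lit 5) (nat_lit 16) (nat_lit 5) (nat_lit 17) (nat_lit 4) (nat_lit 290) (nat_lit 232) (nat_lit 198))) (XT.nd (nat_lit 78) (nat_lit 76) (nat_lit 0) (XT.lf (nat_lit 0) (nat_lit 1946701199) (nat_lit 152) (nat_lit 17438964860) (nat_lit 152) (nat_lit 589124518) (nat_lit 13) (nat_lit 4) (nat_lit 15) (nat_lit 5) (nat_lit 15) (nat_lit 4) (nat_lit 291) (nat_lit 232) (nat_lit 197)) (XT.lf (nat_lit 0) (nat_lit 2481056204) (nat_lit 228) (nat_lit 11941347978)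 (nat_lit 76) (nat_lit 6343147818) (nat_lit 12) (nat_lit 5) (nat_lit 15) (nat_lit 5) (nat_lit 13) (nat_lit 4) (nat_lit 292) (nat_lit 232) (nat_lit 196)))) (XT.nd (nat_lit 156) (nat_lit 0) (nat_lit 0) (XT.nd (nat_lit 78) (nat_lit 76) (nat_lit 0) (XT.lf (nat_lit 0) (nat_lit 5634207936) (nat_lit 228) (nat_lit 5646599172) (nat_lit 76) (nat_lit 10317166531) (nat_lit 12) (nat_lit 5) (nat_lit 15) (nat_lit 5) (nat_lit 13) (nat_lit 4) (nat_lit 293) (nat_lit 232) (nat_lit 195)) (XT.lf (nat_lit 0) (nat_lit 909450519) (nat_lit 76) (nat_lit 8001442397) (nat_lit 152) (nat_lit 13562894473) (nat_lit 11) (nat_lit 5) (nat_lit 12) (nat_lit 5) (nat_lit 13) (nat_lit 4) (nat_lit 294) (nat_lit 232) (nat_lit 194))) (XT.nd (nat_lit 78) (nat_lit 0) (nat_lit 0) (XT.lf (nat_lit 0) (nat_lit 7908126581) (nat_lit 76) (nat_lit 4491623192) (nat_lit 152) (nat_lit 10991286898) (nat_lit 11) (nat_lit 5) (nat_lit 12) (nat_lit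 5) (nat_lit 13) (nat_lit 4) (nat_lit 295) (nat_lit 232) (nat_lit 193)) (XT.nd (nat_lit 78) (nat_lit 0) (nat_lit 0) (XT.lf (nat_lit 0) (nat_lit 15179390460) (nat_lit 76) (nat_lit 838620668) (nat_lit 152) (nat_lit 8338447994) (nat_lit 11) (nat_lit 5) (nat_lit 12) (nat_lit 5) (nat_lit 13) (nat_lit 4) (nat_lit 296) (nat_lit 232) (nat_lit 192)) (XT.lf (nat_lit 0) (nat_lit 19820603564) (nat_lit 152) (nat_lit 2678110353) (nat_lit 0) (nat_lit 2871323864) (nat_lit 11) (nat_lit 5) (nat_lit 13) (nat_lit 4) (nat_lit 11) (nat_lit 4) (nat_lit 297) (nat_lit 232) (nat_lit 191))))))))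
noncomputable def xc84 : XT := (XT.nd (nat_lit 1326) (nat_lit 152) (nat_lit 0) (XT.nd (nat_lit 624) (nat_lit 228) (nat_lit 0) (XT.nd (nat_lit 312) (nat_lit 76) (nat_lit 0) (XT.nd (nat_lit 156) (nat_lit 0) (nat_lit 0) (XT.nd (nat_lit 78) (nat_lit 76) (nat_lit 0) (XT.lf (nat_lit 0) (nat_lit 4194504892) (nat_lit 76) (nat_lit 19656747962) (nat_lit 76) (nat_lit 2581199480) (nat_lit 10) (nat_lit 4) (nat_lit 11) (nat_lit 5) (nat_lit 11) (nat_lit 4) (nat_lit 298) (nat_lit 232) (nat_lit 190)) (XT.lf (nat_lit 0) (nat_lit 523251424) (nat_lit 152) (nat_lit 16123139044) (nat_lit 76) (nat_lit 10900980414) (nat_lit 9) (nat_lit 5) (nat_lit 11) (nat_lit 5) (nat_lit 10) (nat_lit 4) (nat_lit 299) (nat_lit 232) (nat_lit 189))) (XT.nd (nat_lit 78) (nat_lit 0) (nat_lit 0) (XT.lf (nat_lit 0) (nat_lit 3656982937) (nat_lit 152) (nat_lit 9813518949) (nat_lit 76) (nat_lit 15247423631) (nat_lit 9) (nat_lit 5)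 (nat_lit 11) (nat_lit 5) (nat_lit 10) (nat_lit 4) (nat_lit 300) (nat_lit 232) (nat_lit 188)) (XT.lf (nat_lit 0) (nat_lit 6910070828) (nat_lit 152) (nat_lit 3253764495) (nat_lit 76) (nat_lit 19785082939) (nat_lit 9) (nat_lit 5) (nat_lit 11) (nat_lit 5) (nat_lit 10) (nat_lit 4) (nat_lit 301) (nat_lit 232) (nat_lit 187)))) (XT.nd (nat_lit 156) (nat_lit 0) (nat_lit 0) (XT.nd (nat_lit 78) (nat_lit 0) (nat_lit 0) (XT.lf (nat_lit 0) (nat_lit 3689840728) (nat_lit 76) (nat_lit 6658028569) (nat_lit 152) (nat_lit 20892530316) (nat_lit 8) (nat_lit 5) (nat_lit 9) (nat_lit 5) (nat_lit 10) (nat_lit 4) (nat_lit 302) (nat_lit 232) (nat_lit 186)) (XT.lf (nat_lit 0) (nat_lit 11032358458) (nat_lit 76) (nat_lit 2945487729) (nat_lit 152) (nat_lit 18617634209) (nat_lit 8) (nat_lit 5) (nat_lit 9) (nat_lit 5) (nat_lit 10) (nat_lit 4) (nat_lit 303) (nat_lit 232) (nat_lit 185))) (XT.nd (nat_lit 78) (nat_lit 0)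 (nat_lit 0) (XT.lf (nat_lit 0) (nat_lit 17770645453) (nat_lit 152) (nat_lit 15350805493) (nat_lit 0) (nat_lit 897835990) (nat_lit 8) (nat_lit 5) (nat_lit 10) (nat_lit 4) (nat_lit 8) (nat_lit 4) (nat_lit 304) (nat_lit 232) (nat_lit 184)) (XT.lf (nat_lit 0) (nat_lit 21769418532) (nat_lit 152) (nat_lit 8932939283) (nat_lit 0) (nat_lit 4811145387) (nat_lit 8) (nat_lit 5) (nat_lit 10) (nat_lit 4) (nat_lit 8) (nat_lit 4) (nat_lit 305) (nat_lit 232) (nat_lit 183))))) (XT.nd (nat_lit 312) (nat_lit 152) (nat_lit 0) (XT.nd (nat_lit 156) (nat_lit 0) (nat_lit 0) (XT.nd (nat_lit 78) (nat_lit 76) (nat_lit 0) (XT.lf (nat_lit 0) (nat_lit 25937698993) (nat_lit 152) (nat_lit 2248255356) (nat_lit 0) (nat_lit 8898031865) (nat_lit 8) (nat_lit 5) (nat_lit 10) (nat_lit 4) (nat_lit 8) (nat_lit 4) (nat_lit 306) (nat_lit 232) (nat_lit 182)) (XT.lf (nat_lit 0) (nat_lit 4875199016) (nat_lit 76) (nat_lit 25486327818)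 (nat_lit 76) (nat_lit 8369142611) (nat_lit 7) (nat_lit 4) (nat_lit 8) (nat_lit 5) (nat_lit 8) (nat_lit 4) (nat_lit 307) (nat_lit 232) (nat_lit 181))) (XT.nd (nat_lit 78) (nat_lit 0) (nat_lit 0) (XT.lf (nat_lit 0) (nat_lit 12382210546) (nat_lit 76) (nat_lit 22634017654) (nat_lit 76) (nat_lit 5443005706) (nat_lit 7) (nat_lit 4) (nat_lit 8) (nat_lit 5) (nat_lit 8) (nat_lit 4) (nat_lit 308) (nat_lit 232) (nat_lit 180)) (XT.lf (nat_lit 0) (nat_lit 20216315595) (nat_lit 76) (nat_lit 19660307937) (nat_lit 76) (nat_lit 2398984806) (nat_lit 7) (nat_lit 4) (nat_lit 8) (nat_lit 5) (nat_lit 8) (nat_lit 4) (nat_lit 309) (nat_lit 232) (nat_lit 179)))) (XT.nd (nat_lit 156) (nat_lit 76) (nat_lit 0) (XT.nd (nat_lit 78) (nat_lit 0) (nat_lit 0) (XT.lf (nat_lit 0) (nat_lit 745517578) (nat_lit 152) (nat_lit 15799975124) (nat_lit 76) (nat_lit 27638023513) (nat_lit 6) (nat_lit 5) (nat_lit 8) (nat_lit 5) (nat_lit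 7) (nat_lit 4) (nat_lit 310) (nat_lit 232) (nat_lit 178)) (XT.lf (nat_lit 0) (nat_lit 3941668232) (nat_lit 152) (nat_lit 9311640599) (nat_lit 76) (nat_lit 32932817685) (nat_lit 6) (nat_lit 5) (nat_lit 8) (nat_lit 5) (nat_lit 7) (nat_lit 4) (nat_lit 311) (nat_lit 232) (nat_lit 177))) (XT.nd (nat_lit 78) (nat_lit 76) (nat_lit 0) (XT.lf (nat_lit 0) (nat_lit 7273859533) (nat_lit 152) (nat_lit 2541385877) (nat_lit 76) (nat_lit 38474834694) (nat_lit 6) (nat_lit 5) (nat_lit 8) (nat_lit 5) (nat_lit 7) (nat_lit 4) (nat_lit 312) (nat_lit 232) (nat_lit 176)) (XT.nd (nat_lit 78) (nat_lit 0) (nat_lit 0) (XT.lf (nat_lit 0) (nat_lit 4676588742) (nat_lit 76) (nat_lit 6146451182) (nat_lit 152) (nat_lit 39673695733) (nat_lit 5) (nat_lit 5) (nat_lit 6) (nat_lit 5) (nat_lit 7) (nat_lit 4) (nat_lit 313) (nat_lit 232) (nat_lit 175)) (XT.lf (nat_lit 0) (nat_lit 12303873175) (nat_lit 76) (nat_lit 2266666790)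 (nat_lit 152) (nat_lit 38242163148) (nat_lit 5) (nat_lit 5) (nat_lit 6) (nat_lit 5) (nat_lit 7) (nat_lit 4) (nat_lit 314) (nat_lit 232) (nat_lit 174))))))) (XT.nd (nat_lit 702) (nat_lit 76) (nat_lit 0) (XT.nd (nat_lit 312) (nat_lit 76) (nat_lit 0) (XT.nd (nat_lit 156) (nat_lit 0) (nat_lit 0) (XT.nd (nat_lit 78) (nat_lit 0) (nat_lit 0) (XT.lf (nat_lit 0) (nat_lit 18512243871) (nat_lit 152) (nat_lit 34998899946) (nat_lit 0) (nat_lit 1733004783) (nat_lit 5) (nat_lit 5) (nat_lit 7) (nat_lit 4) (nat_lit 5) (nat_lit 4) (nat_lit 315) (nat_lit 232) (nat_lit 173)) (XT.lf (nat_lit 0) (nat_lit 22667824643) (nat_lit 152) (nat_lit 29287526052) (nat_lit 0) (nat_lit 5840996180) (nat_lit 5) (nat_lit 5) (nat_lit 7) (nat_lit 4) (nat_lit 5) (nat_lit 4) (nat_lit 316) (nat_lit 232) (nat_lit 172))) (XT.nd (nat_lit 78) (nat_lit 0) (nat_lit 0) (XT.lf (nat_lit 0) (nat_lit 27011787501) (nat_lit 152) (nat_lit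 23325720726) (nat_lit 0) (nat_lit 10139635823) (nat_lit 5) (nat_lit 5) (nat_lit 7) (nat_lit 4) (nat_lit 5) (nat_lit 4) (nat_lit 317) (nat_lit 232) (nat_lit 171)) (XT.lf (nat_lit 0) (nat_lit 31554475214) (nat_lit 152) (nat_lit 17099289192) (nat_lit 0) (nat_lit 14639158569) (nat_lit 5) (nat_lit 5) (nat_lit 7) (nat_lit 4) (nat_lit 5) (nat_lit 4) (nat_lit 318) (nat_lit 232) (nat_lit 170)))) (XT.nd (nat_lit 156) (nat_lit 76) (nat_lit 0) (XT.nd (nat_lit 78) (nat_lit 0) (nat_lit 0) (XT.lf (nat_lit 0) (nat_lit 36306703705) (nat_lit 152) (nat_lit 10593406615) (nat_lit 0) (nat_lit 19350277568) (nat_lit 5) (nat_lit 5) (nat_lit 7) (nat_lit 4) (nat_lit 5) (nat_lit 4) (nat_lit 319) (nat_lit 232) (nat_lit 169)) (XT.lf (nat_lit 0) (nat_lit 41279787804) (nat_lit 152) (nat_lit 3792582797) (nat_lit 0) (nat_lit 24284209769) (nat_lit 5) (nat_lit 5) (nat_lit 7) (nat_lit 4) (nat_lit 5) (nat_lit 4) (nat_lit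 320) (nat_lit 232) (nat_lit 168))) (XT.nd (nat_lit 78) (nat_lit 0) (nat_lit 0) (XT.lf (nat_lit 0) (nat_lit 3429128216) (nat_lit 76) (nat_lit 43109978272) (nat_lit 76) (nat_lit 26077112716) (nat_lit 4) (nat_lit 4) (nat_lit 5) (nat_lit 5) (nat_lit 5) (nat_lit 4) (nat_lit 321) (nat_lit 232) (nat_lit 167)) (XT.nd (nat_lit 78) (nat_lit 0) (nat_lit 0) (XT.lf (nat_lit 0) (nat_lit 11115153429) (nat_lit 76) (nat_lit 40994824834) (nat_lit 76) (nat_lit 23926447353) (nat_lit 4) (nat_lit 4) (nat_lit 5) (nat_lit 5) (nat_lit 5) (nat_lit 4) (nat_lit 322) (nat_lit 232) (nat_lit 166)) (XT.lf (nat_lit 0) (nat_lit 19158392987) (nat_lit 76) (nat_lit 38786103434) (nat_lit 76) (nat_lit 21683905072) (nat_lit 4) (nat_lit 4) (nat_lit 5) (nat_lit 5) (nat_lit 5) (nat_lit 4) (nat_lit 323) (nat_lit 232) (nat_lit 165)))))) (XT.nd (nat_lit 312) (nat_lit 76) (nat_lit 0) (XT.nd (nat_lit 156) (nat_lit 0) (nat_lit 0)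 (XT.nd (nat_lit 78) (nat_lit 0) (nat_lit 0) (XT.lf (nat_lit 0) (nat_lit 27577997458) (nat_lit 76) (nat_lit 36478555211) (nat_lit 76) (nat_lit 19344146487) (nat_lit 4) (nat_lit 4) (nat_lit 5) (nat_lit 5) (nat_lit 5) (nat_lit 4) (nat_lit 324) (nat_lit 232) (nat_lit 164)) (XT.lf (nat_lit 0) (nat_lit 36394013521) (nat_lit 76) (nat_lit 34066686003) (nat_lit 76) (nat_lit 16901600742) (nat_lit 4) (nat_lit 4) (nat_lit 5) (nat_lit 5) (nat_lit 5) (nat_lit 4) (nat_lit 325) (nat_lit 232) (nat_lit 163))) (XT.nd (nat_lit 78) (nat_lit 0) (nat_lit 0) (XT.lf (nat_lit 0) (nat_lit 45627431691) (nat_lit 76) (nat_lit 31544753264) (nat_lit 76) (nat_lit 14350452254) (nat_lit 4) (nat_lit 4) (nat_lit 5) (nat_lit 5) (nat_lit 5) (nat_lit 4) (nat_lit 326) (nat_lit 232) (nat_lit 162)) (XT.lf (nat_lit 0) (nat_lit 55300236295) (nat_lit 76) (nat_lit 28906752391) (nat_lit 76) (nat_lit 11684626859) (nat_lit 4) (nat_lit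 4) (nat_lit 5) (nat_lit 5) (nat_lit 5) (nat_lit 4) (nat_lit 327) (nat_lit 232) (nat_lit 161)))) (XT.nd (nat_lit 156) (nat_lit 76) (nat_lit 0) (XT.nd (nat_lit 78) (nat_lit 0) (nat_lit 0) (XT.lf (nat_lit 0) (nat_lit 65435457822) (nat_lit 76) (nat_lit 26146402432) (nat_lit 76) (nat_lit 8897777355) (nat_lit 4) (nat_lit 4) (nat_lit 5) (nat_lit 5) (nat_lit 5) (nat_lit 4) (nat_lit 328) (nat_lit 232) (nat_lit 160)) (XT.lf (nat_lit 0) (nat_lit 76057227750) (nat_lit 76) (nat_lit 23257131123) (nat_lit 76) (nat_lit 5983268384) (nat_lit 4) (nat_lit 4) (nat_lit 5) (nat_lit 5) (nat_lit 5) (nat_lit 4) (nat_lit 329) (nat_lit 232) (nat_lit 159))) (XT.nd (nat_lit 78) (nat_lit 76) (nat_lit 0) (XT.lf (nat_lit 0) (nat_lit 87190836009) (nat_lit 76) (nat_lit 20232059248) (nat_lit 76) (nat_lit 2934160640) (nat_lit 4) (nat_lit 4) (nat_lit 5) (nat_lit 5) (nat_lit 5) (nat_lit 4) (nat_lit 330) (nat_lit 232) (nat_lit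 158)) (XT.nd (nat_lit 78) (nat_lit 0) (nat_lit 0) (XT.lf (nat_lit 0) (nat_lit 248586272) (nat_lit 152) (nat_lit 16811188052) (nat_lit 76) (nat_lit 98609994988) (nat_lit 3) (nat_lit 5) (nat_lit 5) (nat_lit 5) (nat_lit 4) (nat_lit 4) (nat_lit 331) (nat_lit 232) (nat_lit 157)) (XT.lf (nat_lit 0) (nat_lit 3482094284) (nat_lit 152) (nat_lit 10204297869) (nat_lit 76) (nat_lit 107559818425) (nat_lit 3) (nat_lit 5) (nat_lit 5) (nat_lit 5) (nat_lit 4) (nat_lit 4) (nat_lit 332) (nat_lit 232) (nat_lit 156))))))))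
noncomputable def xc85 : XT := (XT.nd (nat_lit 1326) (nat_lit 0) (nat_lit 0) (XT.nd (nat_lit 624) (nat_lit 0) (nat_lit 0) (XT.nd (nat_lit 312) (nat_lit 0) (nat_lit 0) (XT.nd (nat_lit 156) (nat_lit 0) (nat_lit 0) (XT.nd (nat_lit 78) (nat_lit 76) (nat_lit 0) (XT.lf (nat_lit 0) (nat_lit 6867973688) (nat_lit 152) (nat_lit 3284008177) (nat_lit 76) (nat_lit 116949965593) (nat_lit 3) (nat_lit 5) (nat_lit 5) (nat_lit 5) (nat_lit 4) (nat_lit 4) (nat_lit 333) (nat_lit 232) (nat_lit 155)) (XT.lf (nat_lit 0) (nat_lit 4097296995) (nat_lit 76) (nat_lit 6380959396) (nat_lit 152) (nat_lit 122769467277) (nat_lit 2) (nat_lit 5) (nat_lit 3) (nat_lit 5) (nat_lit 4) (nat_lit 4) (nat_lit 334) (nat_lit 232) (nat_lit 154))) (XT.nd (nat_lit 78) (nat_lit 0) (nat_lit 0) (XT.lf (nat_lit 0) (nat_lit 11945802972) (nat_lit 76) (nat_lit 2370179619) (nat_lit 152) (nat_lit 125382467205) (nat_lit 2) (nat_lit 5) (nat_lit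 3) (nat_lit 5) (nat_lit 4) (nat_lit 4) (nat_lit 335) (nat_lit 232) (nat_lit 153)) (XT.lf (nat_lit 0) (nat_lit 18365960274) (nat_lit 152) (nat_lit 126329158992) (nat_lit 0) (nat_lit 1775581916) (nat_lit 2) (nat_lit 5) (nat_lit 4) (nat_lit 4) (nat_lit 2) (nat_lit 4) (nat_lit 336) (nat_lit 232) (nat_lit 152)))) (XT.nd (nat_lit 156) (nat_lit 0) (nat_lit 0) (XT.nd (nat_lit 78) (nat_lit 0) (nat_lit 0) (XT.lf (nat_lit 0) (nat_lit 22649311133) (nat_lit 152) (nat_lit 124888052810) (nat_lit 0) (nat_lit 6042664353) (nat_lit 2) (nat_lit 5) (nat_lit 4) (nat_lit 4) (nat_lit 2) (nat_lit 4) (nat_lit 337) (nat_lit 232) (nat_lit 151)) (XT.lf (nat_lit 0) (nat_lit 27139228474) (nat_lit 152) (nat_lit 123388891926) (nat_lit 0) (nat_lit 10517087959) (nat_lit 2) (nat_lit 5) (nat_lit 4) (nat_lit 4) (nat_lit 2) (nat_lit 4) (nat_lit 338) (nat_lit 232) (nat_lit 150))) (XT.nd (nat_lit 78) (nat_lit 0) (nat_lit 0)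 (XT.lf (nat_lit 0) (nat_lit 31846402579) (nat_lit 152) (nat_lit 121828106910) (nat_lit 0) (nat_lit 15209506125) (nat_lit 2) (nat_lit 5) (nat_lit 4) (nat_lit 4) (nat_lit 2) (nat_lit 4) (nat_lit 339) (nat_lit 232) (nat_lit 149)) (XT.lf (nat_lit 0) (nat_lit 36782041003) (nat_lit 152) (nat_lit 120201981605) (nat_lit 0) (nat_lit 20131091275) (nat_lit 2) (nat_lit 5) (nat_lit 4) (nat_lit 4) (nat_lit 2) (nat_lit 4) (nat_lit 340) (nat_lit 232) (nat_lit 148))))) (XT.nd (nat_lit 312) (nat_lit 0) (nat_lit 0) (XT.nd (nat_lit 156) (nat_lit 0) (nat_lit 0) (XT.nd (nat_lit 78) (nat_lit 0) (nat_lit 0) (XT.lf (nat_lit 0) (nat_lit 41957895267) (nat_lit 152) (nat_lit 118506644287) (nat_lit 0) (nat_lit 25293561468) (nat_lit 2) (nat_lit 5) (nat_lit 4) (nat_lit 4) (nat_lit 2) (nat_lit 4) (nat_lit 341) (nat_lit 232) (nat_lit 147)) (XT.lf (nat_lit 0) (nat_lit 47386288835) (nat_lit 152) (nat_lit 116738058437)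 (nat_lit 0) (nat_lit 30709208301) (nat_lit 2) (nat_lit 5) (nat_lit 4) (nat_lit 4) (nat_lit 2) (nat_lit 4) (nat_lit 342) (nat_lit 232) (nat_lit 146))) (XT.nd (nat_lit 78) (nat_lit 0) (nat_lit 0) (XT.lf (nat_lit 0) (nat_lit 53080146451) (nat_lit 152) (nat_lit 114892013136) (nat_lit 0) (nat_lit 36390926170) (nat_lit 2) (nat_lit 5) (nat_lit 4) (nat_lit 4) (nat_lit 2) (nat_lit 4) (nat_lit 343) (nat_lit 232) (nat_lit 145)) (XT.lf (nat_lit 0) (nat_lit 59053024921) (nat_lit 152) (nat_lit 112964113039) (nat_lit 0) (nat_lit 42352242976) (nat_lit 2) (nat_lit 5) (nat_lit 4) (nat_lit 4) (nat_lit 2) (nat_lit 4) (nat_lit 344) (nat_lit 232) (nat_lit 144)))) (XT.nd (nat_lit 156) (nat_lit 0) (nat_lit 0) (XT.nd (nat_lit 78) (nat_lit 0) (nat_lit 0) (XT.lf (nat_lit 0) (nat_lit 65319145382) (nat_lit 152) (nat_lit 110949767907) (nat_lit 0) (nat_lit 48607352329) (nat_lit 2) (nat_lit 5) (nat_lit 4) (nat_lit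 4) (nat_lit 2) (nat_lit 4) (nat_lit 345) (nat_lit 232) (nat_lit 143)) (XT.lf (nat_lit 0) (nat_lit 71893427171) (nat_lit 152) (nat_lit 108844181680) (nat_lit 0) (nat_lit 55171147348) (nat_lit 2) (nat_lit 5) (nat_lit 4) (nat_lit 4) (nat_lit 2) (nat_lit 4) (nat_lit 346) (nat_lit 232) (nat_lit 142))) (XT.nd (nat_lit 78) (nat_lit 0) (nat_lit 0) (XT.lf (nat_lit 0) (nat_lit 78791523338) (nat_lit 152) (nat_lit 106642341058) (nat_lit 0) (nat_lit 62059256115) (nat_lit 2) (nat_lit 5) (nat_lit 4) (nat_lit 4) (nat_lit 2) (nat_lit 4) (nat_lit 347) (nat_lit 232) (nat_lit 141)) (XT.nd (nat_lit 78) (nat_lit 0) (nat_lit 0) (XT.lf (nat_lit 0) (nat_lit 86029857922) (nat_lit 152) (nat_lit 104339003564) (nat_lit 0) (nat_lit 69288078890) (nat_lit 2) (nat_lit 5) (nat_lit 4) (nat_lit 4) (nat_lit 2) (nat_lit 4) (nat_lit 348) (nat_lit 232) (nat_lit 140)) (XT.lf (nat_lit 0) (nat_lit 93625665054) (nat_lit 152)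 (nat_lit 101928685059) (nat_lit 0) (nat_lit 76874827156) (nat_lit 2) (nat_lit 5) (nat_lit 4) (nat_lit 4) (nat_lit 2) (nat_lit 4) (nat_lit 349) (nat_lit 232) (nat_lit 139))))))) (XT.nd (nat_lit 702) (nat_lit 0) (nat_lit 0) (XT.nd (nat_lit 312) (nat_lit 0) (nat_lit 0) (XT.nd (nat_lit 156) (nat_lit 0) (nat_lit 0) (XT.nd (nat_lit 78) (nat_lit 0) (nat_lit 0) (XT.lf (nat_lit 0) (nat_lit 101597029987) (nat_lit 152) (nat_lit 99405646692) (nat_lit 0) (nat_lit 84837564598) (nat_lit 2) (nat_lit 5) (nat_lit 4) (nat_lit 4) (nat_lit 2) (nat_lit 4) (nat_lit 350) (nat_lit 232) (nat_lit 138)) (XT.lf (nat_lit 0) (nat_lit 109962932163) (nat_lit 152) (nat_lit 96763881227) (nat_lit 0) (nat_lit 93195250115) (nat_lit 2) (nat_lit 5) (nat_lit 4) (nat_lit 4) (nat_lit 2) (nat_lit 4) (nat_lit 351) (nat_lit 232) (nat_lit 137))) (XT.nd (nat_lit 78) (nat_lit 0) (nat_lit 0) (XT.lf (nat_lit 0) (nat_lit 118743290397)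 (nat_lit 152) (nat_lit 93997098746) (nat_lit 0) (nat_lit 101967782959) (nat_lit 2) (nat_lit 5) (nat_lit 4) (nat_lit 4) (nat_lit 2) (nat_lit 4) (nat_lit 352) (nat_lit 232) (nat_lit 136)) (XT.lf (nat_lit 0) (nat_lit 127959010302) (nat_lit 152) (nat_lit 91098711673) (nat_lit 0) (nat_lit 111176050113) (nat_lit 2) (nat_lit 5) (nat_lit 4) (nat_lit 4) (nat_lit 2) (nat_lit 4) (nat_lit 353) (nat_lit 232) (nat_lit 135)))) (XT.nd (nat_lit 156) (nat_lit 0) (nat_lit 0) (XT.nd (nat_lit 78) (nat_lit 0) (nat_lit 0) (XT.lf (nat_lit 0) (nat_lit 137632034069) (nat_lit 152) (nat_lit 88061819086) (nat_lit 0) (nat_lit 120841976022) (nat_lit 2) (nat_lit 5) (nat_lit 4) (nat_lit 4) (nat_lit 2) (nat_lit 4) (nat_lit 354) (nat_lit 232) (nat_lit 134)) (XT.lf (nat_lit 0) (nat_lit 147785392708) (nat_lit 152) (nat_lit 84879190288) (nat_lit 0) (nat_lit 130988574795) (nat_lit 2) (nat_lit 5) (nat_lit 4) (nat_lit 4) (nat_lit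 2) (nat_lit 4) (nat_lit 355) (nat_lit 232) (nat_lit 133))) (XT.nd (nat_lit 78) (nat_lit 0) (nat_lit 0) (XT.lf (nat_lit 0) (nat_lit 158443260881) (nat_lit 152) (nat_lit 81543247592) (nat_lit 0) (nat_lit 141640005001) (nat_lit 2) (nat_lit 5) (nat_lit 4) (nat_lit 4) (nat_lit 2) (nat_lit 4) (nat_lit 356) (nat_lit 232) (nat_lit 132)) (XT.nd (nat_lit 78) (nat_lit 0) (nat_lit 0) (XT.lf (nat_lit 0) (nat_lit 169631014466) (nat_lit 152) (nat_lit 78046048276) (nat_lit 0) (nat_lit 152821627189) (nat_lit 2) (nat_lit 5) (nat_lit 4) (nat_lit 4) (nat_lit 2) (nat_lit 4) (nat_lit 357) (nat_lit 232) (nat_lit 131)) (XT.lf (nat_lit 0) (nat_lit 181375290971) (nat_lit 152) (nat_lit 74379265676) (nat_lit 0) (nat_lit 164560064268) (nat_lit 2) (nat_lit 5) (nat_lit 4) (nat_lit 4) (nat_lit 2) (nat_lit 4) (nat_lit 358) (nat_lit 232) (nat_lit 130)))))) (XT.nd (nat_lit 29406) (nat_lit 0) (nat_lit 4864) (XT.nd (nat_lit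 156) (nat_lit 0) (nat_lit 0) (XT.nd (nat_lit 78) (nat_lit 0) (nat_lit 0) (XT.lf (nat_lit 0) (nat_lit 193704052958) (nat_lit 152) (nat_lit 70534169357) (nat_lit 0) (nat_lit 176883264897) (nat_lit 2) (nat_lit 5) (nat_lit 4) (nat_lit 4) (nat_lit 2) (nat_lit 4) (nat_lit 359) (nat_lit 232) (nat_lit 129)) (XT.lf (nat_lit 0) (nat_lit 206646654623) (nat_lit 152) (nat_lit 66501604328) (nat_lit 0) (nat_lit 189820570031) (nat_lit 2) (nat_lit 5) (nat_lit 4) (nat_lit 4) (nat_lit 2) (nat_lit 4) (nat_lit 360) (nat_lit 232) (nat_lit 128))) (XT.nd (nat_lit 29172) (nat_lit 0) (nat_lit 6612) (XT.lf (nat_lit 0) (nat_lit 220233911685) (nat_lit 152) (nat_lit 62271969244) (nat_lit 0) (nat_lit 203402782777) (nat_lit 2) (nat_lit 5) (nat_lit 4) (nat_lit 4) (nat_lit 2) (nat_lit 4) (nat_lit 361) (nat_lit 232) (nat_lit 127)) (XT.lf (nat_lit 0) (nat_lit 2177875524) (nat_lit 532) (nat_lit 679000603) (nat_lit 532)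 (nat_lit 679000603) (nat_lit 89) (nat_lit 4) (nat_lit 96) (nat_lit 5) (nat_lit 96) (nat_lit 4) (nat_lit 254) (nat_lit 233) (nat_lit 233)))) (XT.nd (nat_lit 156) (nat_lit 1064) (nat_lit 0) (XT.nd (nat_lit 78) (nat_lit 0) (nat_lit 0) (XT.lf (nat_lit 0) (nat_lit 1668378893) (nat_lit 684) (nat_lit 5429457384) (nat_lit 0) (nat_lit 71986894) (nat_lit 80) (nat_lit 5) (nat_lit 89) (nat_lit 4) (nat_lit 80) (nat_lit 4) (nat_lit 255) (nat_lit 233) (nat_lit 232)) (XT.lf (nat_lit 0) (nat_lit 4718494476) (nat_lit 684) (nat_lit 956198950) (nat_lit 0) (nat_lit 1601729145) (nat_lit 80) (nat_lit 5) (nat_lit 89) (nat_lit 4) (nat_lit 80) (nat_lit 4) (nat_lit 256) (nat_lit 233) (nat_lit 231))) (XT.nd (nat_lit 78) (nat_lit 304) (nat_lit 0) (XT.lf (nat_lit 0) (nat_lit 427907653) (nat_lit 760) (nat_lit 3687529243) (nat_lit 76) (nat_lit 3277471711) (nat_lit 70) (nat_lit 5) (nat_lit 80) (nat_lit 5) (nat_lit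 71) (nat_lit 4) (nat_lit 257) (nat_lit 233) (nat_lit 230)) (XT.nd (nat_lit 78) (nat_lit 0) (nat_lit 0) (XT.lf (nat_lit 0) (nat_lit 957466226) (nat_lit 304) (nat_lit 2408987232) (nat_lit 380) (nat_lit 4152754365) (nat_lit 66) (nat_lit 5) (nat_lit 70) (nat_lit 5) (nat_lit 71) (nat_lit 4) (nat_lit 258) (nat_lit 233) (nat_lit 229)) (XT.lf (nat_lit 0) (nat_lit 5815346002) (nat_lit 304) (nat_lit 561466199) (nat_lit 380) (nat_lit 1279293714) (nat_lit 66) (nat_lit 5) (nat_lit 70) (nat_lit 5) (nat_lit 71) (nat_lit 4) (nat_lit 259) (nat_lit 233) (nat_lit 228))))))))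
noncomputable def xc86 : XT := (XT.nd (nat_lit 1326) (nat_lit 1140) (nat_lit 0) (XT.nd (nat_lit 624) (nat_lit 1216) (nat_lit 0) (XT.nd (nat_lit 312) (nat_lit 608) (nat_lit 0) (XT.nd (nat_lit 156) (nat_lit 380) (nat_lit 0) (XT.nd (nat_lit 78) (nat_lit 304) (nat_lit 0) (XT.lf (nat_lit 0) (nat_lit 1618614494) (nat_lit 456) (nat_lit 4784634492) (nat_lit 76) (nat_lit 1398902581) (nat_lit 60) (nat_lit 5) (nat_lit 66) (nat_lit 5) (nat_lit 61) (nat_lit 4) (nat_lit 260) (nat_lit 233) (nat_lit 227)) (XT.lf (nat_lit 0) (nat_lit 49937548) (nat_lit 304) (nat_lit 4480432082) (nat_lit 380) (nat_lit 3428940338) (nat_lit 56) (nat_lit 5) (nat_lit 60) (nat_lit 5) (nat_lit 61) (nat_lit 4) (nat_lit 261) (nat_lit 233) (nat_lit 226))) (XT.nd (nat_lit 78) (nat_lit 380) (nat_lit 0) (XT.lf (nat_lit 0) (nat_lit 5145116095) (nat_lit 304) (nat_lit 2397780115) (nat_lit 380) (nat_lit 584105447) (nat_lit 56) (nat_lit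 5) (nat_lit 60) (nat_lit 5) (nat_lit 61) (nat_lit 4) (nat_lit 262) (nat_lit 233) (nat_lit 225)) (XT.lf (nat_lit 0) (nat_lit 2076253671) (nat_lit 304) (nat_lit 160004415) (nat_lit 380) (nat_lit 6069828290) (nat_lit 51) (nat_lit 5) (nat_lit 55) (nat_lit 5) (nat_lit 56) (nat_lit 5) (nat_lit 263) (nat_lit 233) (nat_lit 224)))) (XT.nd (nat_lit 156) (nat_lit 380) (nat_lit 0) (XT.nd (nat_lit 78) (nat_lit 228) (nat_lit 0) (XT.lf (nat_lit 0) (nat_lit 5144532932) (nat_lit 380) (nat_lit 1193627352) (nat_lit 76) (nat_lit 2157535508) (nat_lit 51) (nat_lit 5) (nat_lit 56) (nat_lit 5) (nat_lit 52) (nat_lit 4) (nat_lit 264) (nat_lit 233) (nat_lit 223)) (XT.lf (nat_lit 0) (nat_lit 4081187678) (nat_lit 228) (nat_lit 4070050537) (nat_lit 304) (nat_lit 546254137) (nat_lit 48) (nat_lit 5) (nat_lit 51) (nat_lit 5) (nat_lit 52) (nat_lit 4) (nat_lit 265) (nat_lit 233) (nat_lit 222))) (XT.nd (nat_lit 78) (nat_lit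 0) (nat_lit 0) (XT.lf (nat_lit 0) (nat_lit 590987042) (nat_lit 304) (nat_lit 1648674082) (nat_lit 380) (nat_lit 6672292162) (nat_lit 43) (nat_lit 5) (nat_lit 47) (nat_lit 5) (nat_lit 48) (nat_lit 5) (nat_lit 266) (nat_lit 233) (nat_lit 221)) (XT.lf (nat_lit 0) (nat_lit 5130353076) (nat_lit 380) (nat_lit 3084431301) (nat_lit 76) (nat_lit 923022035) (nat_lit 43) (nat_lit 5) (nat_lit 48) (nat_lit 5) (nat_lit 44) (nat_lit 4) (nat_lit 267) (nat_lit 233) (nat_lit 220))))) (XT.nd (nat_lit 312) (nat_lit 684) (nat_lit 0) (XT.nd (nat_lit 156) (nat_lit 228) (nat_lit 0) (XT.nd (nat_lit 78) (nat_lit 76) (nat_lit 0) (XT.lf (nat_lit 0) (nat_lit 2322255199) (nat_lit 228) (nat_lit 5802250106) (nat_lit 304) (nat_lit 1252794729) (nat_lit 40) (nat_lit 5) (nat_lit 43) (nat_lit 5) (nat_lit 44) (nat_lit 4) (nat_lit 268) (nat_lit 233) (nat_lit 219)) (XT.lf (nat_lit 0) (nat_lit 1536752664) (nat_lit 304) (nat_lit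 1686671545) (nat_lit 76) (nat_lit 6406849309) (nat_lit 39) (nat_lit 5) (nat_lit 43) (nat_lit 5) (nat_lit 40) (nat_lit 5) (nat_lit 269) (nat_lit 233) (nat_lit 218))) (XT.nd (nat_lit 78) (nat_lit 0) (nat_lit 0) (XT.lf (nat_lit 0) (nat_lit 3921356887) (nat_lit 228) (nat_lit 465008960) (nat_lit 304) (nat_lit 5510622495) (nat_lit 36) (nat_lit 5) (nat_lit 39) (nat_lit 5) (nat_lit 40) (nat_lit 5) (nat_lit 270) (nat_lit 233) (nat_lit 217)) (XT.lf (nat_lit 0) (nat_lit 7349000219) (nat_lit 304) (nat_lit 481751064) (nat_lit 76) (nat_lit 2348002571) (nat_lit 36) (nat_lit 5) (nat_lit 40) (nat_lit 5) (nat_lit 37) (nat_lit 4) (nat_lit 271) (nat_lit 233) (nat_lit 216)))) (XT.nd (nat_lit 156) (nat_lit 228) (nat_lit 0) (XT.nd (nat_lit 78) (nat_lit 304) (nat_lit 0) (XT.lf (nat_lit 0) (nat_lit 5319892454) (nat_lit 152) (nat_lit 5138696173) (nat_lit 228) (nat_lit 16308351) (nat_lit 34) (nat_lit 5) (nat_lit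 36) (nat_lit 5) (nat_lit 37) (nat_lit 4) (nat_lit 272) (nat_lit 233) (nat_lit 215)) (XT.lf (nat_lit 0) (nat_lit 481606747) (nat_lit 228) (nat_lit 2286831212) (nat_lit 304) (nat_lit 8019092105) (nat_lit 30) (nat_lit 5) (nat_lit 33) (nat_lit 5) (nat_lit 34) (nat_lit 5) (nat_lit 273) (nat_lit 233) (nat_lit 214))) (XT.nd (nat_lit 78) (nat_lit 228) (nat_lit 0) (XT.lf (nat_lit 0) (nat_lit 5702212349) (nat_lit 304) (nat_lit 4677779026) (nat_lit 76) (nat_lit 735472193) (nat_lit 30) (nat_lit 5) (nat_lit 34) (nat_lit 5) (nat_lit 31) (nat_lit 4) (nat_lit 274) (nat_lit 233) (nat_lit 213)) (XT.nd (nat_lit 78) (nat_lit 76) (nat_lit 0) (XT.lf (nat_lit 0) (nat_lit 1103289437) (nat_lit 152) (nat_lit 7648916788) (nat_lit 228) (nat_lit 2709300577) (nat_lit 28) (nat_lit 5) (nat_lit 30) (nat_lit 5) (nat_lit 31) (nat_lit 4) (nat_lit 275) (nat_lit 233) (nat_lit 212)) (XT.lf (nat_lit 0) (nat_lit 121606731)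 (nat_lit 228) (nat_lit 4615642230) (nat_lit 76) (nat_lit 7087878085) (nat_lit 27) (nat_lit 5) (nat_lit 30) (nat_lit 5) (nat_lit 28) (nat_lit 5) (nat_lit 276) (nat_lit 233) (nat_lit 211))))))) (XT.nd (nat_lit 702) (nat_lit 532) (nat_lit 0) (XT.nd (nat_lit 312) (nat_lit 304) (nat_lit 0) (XT.nd (nat_lit 156) (nat_lit 152) (nat_lit 0) (XT.nd (nat_lit 78) (nat_lit 0) (nat_lit 0) (XT.lf (nat_lit 0) (nat_lit 1289747518) (nat_lit 152) (nat_lit 1652822883) (nat_lit 228) (nat_lit 9265322878) (nat_lit 25) (nat_lit 5) (nat_lit 27) (nat_lit 5) (nat_lit 28) (nat_lit 5) (nat_lit 277) (nat_lit 233) (nat_lit 210)) (XT.lf (nat_lit 0) (nat_lit 5929556903) (nat_lit 228) (nat_lit 5103955146) (nat_lit 76) (nat_lit 1575193022) (nat_lit 25) (nat_lit 5) (nat_lit 28) (nat_lit 5) (nat_lit 26) (nat_lit 4) (nat_lit 278) (nat_lit 233) (nat_lit 209))) (XT.nd (nat_lit 78) (nat_lit 0) (nat_lit 0) (XT.lf (nat_lit 0)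 (nat_lit 885351511) (nat_lit 152) (nat_lit 8145998448) (nat_lit 228) (nat_lit 4000083183) (nat_lit 23) (nat_lit 5) (nat_lit 25) (nat_lit 5) (nat_lit 26) (nat_lit 4) (nat_lit 279) (nat_lit 233) (nat_lit 208)) (XT.lf (nat_lit 0) (nat_lit 7236370924) (nat_lit 152) (nat_lit 5064637335) (nat_lit 228) (nat_lit 1173792055) (nat_lit 23) (nat_lit 5) (nat_lit 25) (nat_lit 5) (nat_lit 26) (nat_lit 4) (nat_lit 280) (nat_lit 233) (nat_lit 207)))) (XT.nd (nat_lit 156) (nat_lit 76) (nat_lit 0) (XT.nd (nat_lit 78) (nat_lit 152) (nat_lit 0) (XT.lf (nat_lit 0) (nat_lit 1664965258) (nat_lit 228) (nat_lit 175367837) (nat_lit 76) (nat_lit 12102302508) (nat_lit 22) (nat_lit 5) (nat_lit 25) (nat_lit 5) (nat_lit 23) (nat_lit 5) (nat_lit 281) (nat_lit 233) (nat_lit 206)) (XT.lf (nat_lit 0) (nat_lit 4661443054) (nat_lit 228) (nat_lit 8191469930) (nat_lit 76) (nat_lit 1577348275) (nat_lit 20) (nat_lit 5) (nat_lit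 23) (nat_lit 5) (nat_lit 21) (nat_lit 4) (nat_lit 282) (nat_lit 233) (nat_lit 205))) (XT.nd (nat_lit 78) (nat_lit 76) (nat_lit 0) (XT.lf (nat_lit 0) (nat_lit 7773900138) (nat_lit 228) (nat_lit 2100343269) (nat_lit 76) (nat_lit 5069833415) (nat_lit 20) (nat_lit 5) (nat_lit 23) (nat_lit 5) (nat_lit 21) (nat_lit 4) (nat_lit 283) (nat_lit 233) (nat_lit 204)) (XT.nd (nat_lit 78) (nat_lit 0) (nat_lit 0) (XT.lf (nat_lit 0) (nat_lit 4331348679) (nat_lit 76) (nat_lit 6714415294) (nat_lit 152) (nat_lit 4437740846) (nat_lit 19) (nat_lit 5) (nat_lit 20) (nat_lit 5) (nat_lit 21) (nat_lit 4) (nat_lit 284) (nat_lit 233) (nat_lit 203)) (XT.lf (nat_lit 0) (nat_lit 11056578329) (nat_lit 76) (nat_lit 3397836073) (nat_lit 152) (nat_lit 1596935717) (nat_lit 19) (nat_lit 5) (nat_lit 20) (nat_lit 5) (nat_lit 21) (nat_lit 4) (nat_lit 285) (nat_lit 233) (nat_lit 202)))))) (XT.nd (nat_lit 312) (nat_lit 228)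 (nat_lit 0) (XT.nd (nat_lit 156) (nat_lit 76) (nat_lit 0) (XT.nd (nat_lit 78) (nat_lit 0) (nat_lit 0) (XT.lf (nat_lit 0) (nat_lit 1304300264) (nat_lit 228) (nat_lit 15254731836) (nat_lit 76) (nat_lit 89432026) (nat_lit 16) (nat_lit 5) (nat_lit 19) (nat_lit 5) (nat_lit 17) (nat_lit 4) (nat_lit 286) (nat_lit 233) (nat_lit 201)) (XT.lf (nat_lit 0) (nat_lit 4378914720) (nat_lit 228) (nat_lit 9178532792) (nat_lit 76) (nat_lit 3712669347) (nat_lit 16) (nat_lit 5) (nat_lit 19) (nat_lit 5) (nat_lit 17) (nat_lit 4) (nat_lit 287) (nat_lit 233) (nat_lit 200))) (XT.nd (nat_lit 78) (nat_lit 76) (nat_lit 0) (XT.lf (nat_lit 0) (nat_lit 7550408828) (nat_lit 228) (nat_lit 2892932338) (nat_lit 76) (nat_lit 7482440470) (nat_lit 16) (nat_lit 5) (nat_lit 19) (nat_lit 5) (nat_lit 17) (nat_lit 4) (nat_lit 288) (nat_lit 233) (nat_lit 199)) (XT.lf (nat_lit 0) (nat_lit 3736630761) (nat_lit 76) (nat_lit 7148042282)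 (nat_lit 152) (nat_lit 7729429559) (nat_lit 15) (nat_lit 5) (nat_lit 16) (nat_lit 5) (nat_lit 17) (nat_lit 4) (nat_lit 289) (nat_lit 233) (nat_lit 198)))) (XT.nd (nat_lit 156) (nat_lit 228) (nat_lit 0) (XT.nd (nat_lit 78) (nat_lit 0) (nat_lit 0) (XT.lf (nat_lit 0) (nat_lit 10709645405) (nat_lit 76) (nat_lit 3672051524) (nat_lit 152) (nat_lit 4955419143) (nat_lit 15) (nat_lit 5) (nat_lit 16) (nat_lit 5) (nat_lit 17) (nat_lit 4) (nat_lit 290) (nat_lit 233) (nat_lit 197)) (XT.lf (nat_lit 0) (nat_lit 17947060602) (nat_lit 76) (nat_lit 56085935) (nat_lit 152) (nat_lit 2095729981) (nat_lit 15) (nat_lit 5) (nat_lit 16) (nat_lit 5) (nat_lit 17) (nat_lit 4) (nat_lit 291) (nat_lit 233) (nat_lit 196))) (XT.nd (nat_lit 78) (nat_lit 0) (nat_lit 0) (XT.lf (nat_lit 0) (nat_lit 961769181) (nat_lit 228) (nat_lit 16254147137) (nat_lit 76) (nat_lit 3677976055) (nat_lit 12) (nat_lit 5) (nat_lit 15) (nat_lit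 5) (nat_lit 13) (nat_lit 4) (nat_lit 292) (nat_lit 233) (nat_lit 195)) (XT.nd (nat_lit 78) (nat_lit 0) (nat_lit 0) (XT.lf (nat_lit 0) (nat_lit 4091348518) (nat_lit 228) (nat_lit 9999664014) (nat_lit 76) (nat_lit 7636511715) (nat_lit 12) (nat_lit 5) (nat_lit 15) (nat_lit 5) (nat_lit 13) (nat_lit 4) (nat_lit 293) (nat_lit 233) (nat_lit 194)) (XT.lf (nat_lit 0) (nat_lit 7331384527) (nat_lit 228) (nat_lit 3511070690) (nat_lit 76) (nat_lit 11762745340) (nat_lit 12) (nat_lit 5) (nat_lit 15) (nat_lit 5) (nat_lit 13) (nat_lit 4) (nat_lit 294) (nat_lit 233) (nat_lit 193))))))))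
noncomputable def xc87 : XT := (XT.nd (nat_lit 1404) (nat_lit 152) (nat_lit 0) (XT.nd (nat_lit 702) (nat_lit 152) (nat_lit 0) (XT.nd (nat_lit 312) (nat_lit 228) (nat_lit 0) (XT.nd (nat_lit 156) (nat_lit 0) (nat_lit 0) (XT.nd (nat_lit 78) (nat_lit 0) (nat_lit 0) (XT.lf (nat_lit 0) (nat_lit 3333783768) (nat_lit 76) (nat_lit 7407857518) (nat_lit 152) (nat_lit 12784767233) (nat_lit 11) (nat_lit 5) (nat_lit 12) (nat_lit 5) (nat_lit 13) (nat_lit 4) (nat_lit 295) (nat_lit 233) (nat_lit 192)) (XT.lf (nat_lit 0) (nat_lit 10569114552) (nat_lit 76) (nat_lit 3769864351) (nat_lit 152) (nat_lit 10153925564) (nat_lit 11) (nat_lit 5) (nat_lit 12) (nat_lit 5) (nat_lit 13) (nat_lit 4) (nat_lit 296) (nat_lit 233) (nat_lit 191))) (XT.nd (nat_lit 78) (nat_lit 0) (nat_lit 0) (XT.lf (nat_lit 0) (nat_lit 18075655863) (nat_lit 152) (nat_lit 7414087874) (nat_lit 0) (nat_lit 20061175) (nat_lit 11) (nat_lit 5)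 (nat_lit 13) (nat_lit 4) (nat_lit 11) (nat_lit 4) (nat_lit 297) (nat_lit 233) (nat_lit 190)) (XT.lf (nat_lit 0) (nat_lit 22021626179) (nat_lit 152) (nat_lit 709076498) (nat_lit 0) (nat_lit 3845775508) (nat_lit 11) (nat_lit 5) (nat_lit 13) (nat_lit 4) (nat_lit 11) (nat_lit 4) (nat_lit 298) (nat_lit 233) (nat_lit 189)))) (XT.nd (nat_lit 156) (nat_lit 76) (nat_lit 0) (XT.nd (nat_lit 78) (nat_lit 76) (nat_lit 0) (XT.lf (nat_lit 0) (nat_lit 6473251133) (nat_lit 76) (nat_lit 19755241329) (nat_lit 76) (nat_lit 1464861150) (nat_lit 10) (nat_lit 4) (nat_lit 11) (nat_lit 5) (nat_lit 11) (nat_lit 4) (nat_lit 299) (nat_lit 233) (nat_lit 188)) (XT.lf (nat_lit 0) (nat_lit 1697545214) (nat_lit 152) (nat_lit 14919488209) (nat_lit 76) (nat_lit 12248950245) (nat_lit 9) (nat_lit 5) (nat_lit 11) (nat_lit 5) (nat_lit 10) (nat_lit 4) (nat_lit 300) (nat_lit 233) (nat_lit 187))) (XT.nd (nat_lit 78) (nat_lit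 76) (nat_lit 0) (XT.lf (nat_lit 0) (nat_lit 4933290388) (nat_lit 152) (nat_lit 8390092242) (nat_lit 76) (nat_lit 16774481299) (nat_lit 9) (nat_lit 5) (nat_lit 11) (nat_lit 5) (nat_lit 10) (nat_lit 4) (nat_lit 301) (nat_lit 233) (nat_lit 186)) (XT.nd (nat_lit 78) (nat_lit 76) (nat_lit 0) (XT.lf (nat_lit 0) (nat_lit 8296963230) (nat_lit 152) (nat_lit 1593497811) (nat_lit 76) (nat_lit 21502609930) (nat_lit 9) (nat_lit 5) (nat_lit 11) (nat_lit 5) (nat_lit 10) (nat_lit 4) (nat_lit 302) (nat_lit 233) (nat_lit 185)) (XT.lf (nat_lit 0) (nat_lit 5667885175) (nat_lit 76) (nat_lit 6217178882) (nat_lit 152) (nat_lit 20865199986) (nat_lit 8) (nat_lit 5) (nat_lit 9) (nat_lit 5) (nat_lit 10) (nat_lit 4) (nat_lit 303) (nat_lit 233) (nat_lit 184)))))) (XT.nd (nat_lit 312) (nat_lit 152) (nat_lit 0) (XT.nd (nat_lit 156) (nat_lit 0) (nat_lit 0) (XT.nd (nat_lit 78) (nat_lit 0) (nat_lit 0) (XT.lf (nat_lit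 0) (nat_lit 13292121534) (nat_lit 76) (nat_lit 2355856291) (nat_lit 152) (nat_lit 18527604638) (nat_lit 8) (nat_lit 5) (nat_lit 9) (nat_lit 5) (nat_lit 10) (nat_lit 4) (nat_lit 304) (nat_lit 233) (nat_lit 183)) (XT.lf (nat_lit 0) (nat_lit 19595124862) (nat_lit 152) (nat_lit 14455191538) (nat_lit 0) (nat_lit 1622080396) (nat_lit 8) (nat_lit 5) (nat_lit 10) (nat_lit 4) (nat_lit 8) (nat_lit 4) (nat_lit 305) (nat_lit 233) (nat_lit 182))) (XT.nd (nat_lit 78) (nat_lit 0) (nat_lit 0) (XT.lf (nat_lit 0) (nat_lit 23749267683) (nat_lit 152) (nat_lit 7795629838) (nat_lit 0) (nat_lit 5698705138) (nat_lit 8) (nat_lit 5) (nat_lit 10) (nat_lit 4) (nat_lit 8) (nat_lit 4) (nat_lit 306) (nat_lit 233) (nat_lit 181)) (XT.lf (nat_lit 0) (nat_lit 28083515586) (nat_lit 152) (nat_lit 852138210) (nat_lit 0) (nat_lit 9959126299) (nat_lit 8) (nat_lit 5) (nat_lit 10) (nat_lit 4) (nat_lit 8) (nat_lit 4) (nat_lit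 307) (nat_lit 233) (nat_lit 180)))) (XT.nd (nat_lit 156) (nat_lit 76) (nat_lit 0) (XT.nd (nat_lit 78) (nat_lit 0) (nat_lit 0) (XT.lf (nat_lit 0) (nat_lit 6603157753) (nat_lit 76) (nat_lit 26108124251) (nat_lit 76) (nat_lit 7913423782) (nat_lit 7) (nat_lit 4) (nat_lit 8) (nat_lit 5) (nat_lit 8) (nat_lit 4) (nat_lit 308) (nat_lit 233) (nat_lit 179)) (XT.lf (nat_lit 0) (nat_lit 14414843727) (nat_lit 76) (nat_lit 23144270959) (nat_lit 76) (nat_lit 4882607458) (nat_lit 7) (nat_lit 4) (nat_lit 8) (nat_lit 5) (nat_lit 8) (nat_lit 4) (nat_lit 309) (nat_lit 233) (nat_lit 178))) (XT.nd (nat_lit 78) (nat_lit 76) (nat_lit 0) (XT.lf (nat_lit 0) (nat_lit 22573343425) (nat_lit 76) (nat_lit 20051468497) (nat_lit 76) (nat_lit 1726030681) (nat_lit 7) (nat_lit 4) (nat_lit 8) (nat_lit 5) (nat_lit 8) (nat_lit 4) (nat_lit 310) (nat_lit 233) (nat_lit 177)) (XT.nd (nat_lit 78) (nat_lit 0) (nat_lit 0) (XT.lf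 (nat_lit 0) (nat_lit 1513770130) (nat_lit 152) (nat_lit 15282946492) (nat_lit 76) (nat_lit 29558675288) (nat_lit 6) (nat_lit 5) (nat_lit 8) (nat_lit 5) (nat_lit 7) (nat_lit 4) (nat_lit 311) (nat_lit 233) (nat_lit 176)) (XT.lf (nat_lit 0) (nat_lit 4834919903) (nat_lit 152) (nat_lit 8532434640) (nat_lit 76) (nat_lit 35092554378) (nat_lit 6) (nat_lit 5) (nat_lit 8) (nat_lit 5) (nat_lit 7) (nat_lit 4) (nat_lit 312) (nat_lit 233) (nat_lit 175))))))) (XT.nd (nat_lit 702) (nat_lit 76) (nat_lit 0) (XT.nd (nat_lit 312) (nat_lit 0) (nat_lit 0) (XT.nd (nat_lit 156) (nat_lit 0) (nat_lit 0) (XT.nd (nat_lit 78) (nat_lit 76) (nat_lit 0) (XT.lf (nat_lit 0) (nat_lit 8300569899) (nat_lit 152) (nat_lit 1482942800) (nat_lit 76) (nat_lit 40887239104) (nat_lit 6) (nat_lit 5) (nat_lit 8) (nat_lit 5) (nat_lit 7) (nat_lit 4) (nat_lit 313) (nat_lit 233) (nat_lit 174)) (XT.lf (nat_lit 0) (nat_lit 6076809382)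 (nat_lit 76) (nat_lit 5937038306) (nat_lit 152) (nat_lit 40974592976) (nat_lit 5) (nat_lit 5) (nat_lit 6) (nat_lit 5) (nat_lit 7) (nat_lit 4) (nat_lit 314) (nat_lit 233) (nat_lit 173))) (XT.nd (nat_lit 78) (nat_lit 0) (nat_lit 0) (XT.lf (nat_lit 0) (nat_lit 14029915599) (nat_lit 76) (nat_lit 1887871144) (nat_lit 152) (nat_lit 39503997455) (nat_lit 5) (nat_lit 5) (nat_lit 6) (nat_lit 5) (nat_lit 7) (nat_lit 4) (nat_lit 315) (nat_lit 233) (nat_lit 172)) (XT.lf (nat_lit 0) (nat_lit 20034430628) (nat_lit 152) (nat_lit 35668159873) (nat_lit 0) (nat_lit 2273348151) (nat_lit 5) (nat_lit 5) (nat_lit 7) (nat_lit 4) (nat_lit 5) (nat_lit 4) (nat_lit 316) (nat_lit 233) (nat_lit 171)))) (XT.nd (nat_lit 156) (nat_lit 0) (nat_lit 0) (XT.nd (nat_lit 78) (nat_lit 0) (nat_lit 0) (XT.lf (nat_lit 0) (nat_lit 24369382127) (nat_lit 152) (nat_lit 29722678478) (nat_lit 0) (nat_lit 6565134682) (nat_lit 5) (nat_lit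 5) (nat_lit 7) (nat_lit 4) (nat_lit 5) (nat_lit 4) (nat_lit 317) (nat_lit 233) (nat_lit 170)) (XT.lf (nat_lit 0) (nat_lit 28903487592) (nat_lit 152) (nat_lit 23511793546) (nat_lit 0) (nat_lit 11058130655) (nat_lit 5) (nat_lit 5) (nat_lit 7) (nat_lit 4) (nat_lit 5) (nat_lit 4) (nat_lit 318) (nat_lit 233) (nat_lit 169))) (XT.nd (nat_lit 78) (nat_lit 0) (nat_lit 0) (XT.lf (nat_lit 0) (nat_lit 33647542514) (nat_lit 152) (nat_lit 17020717256) (nat_lit 0) (nat_lit 15763033680) (nat_lit 5) (nat_lit 5) (nat_lit 7) (nat_lit 4) (nat_lit 5) (nat_lit 4) (nat_lit 319) (nat_lit 233) (nat_lit 168)) (XT.nd (nat_lit 78) (nat_lit 0) (nat_lit 0) (XT.lf (nat_lit 0) (nat_lit 38612842261) (nat_lit 152) (nat_lit 10233994664) (nat_lit 0) (nat_lit 20691045906) (nat_lit 5) (nat_lit 5) (nat_lit 7) (nat_lit 4) (nat_lit 5) (nat_lit 4) (nat_lit 320) (nat_lit 233) (nat_lit 167)) (XT.lf (nat_lit 0) (nat_lit 43811208976)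 (nat_lit 152) (nat_lit 3135466907) (nat_lit 0) (nat_lit 25853900695) (nat_lit 5) (nat_lit 5) (nat_lit 7) (nat_lit 4) (nat_lit 5) (nat_lit 4) (nat_lit 321) (nat_lit 233) (nat_lit 166)))))) (XT.nd (nat_lit 312) (nat_lit 0) (nat_lit 0) (XT.nd (nat_lit 156) (nat_lit 0) (nat_lit 0) (XT.nd (nat_lit 78) (nat_lit 0) (nat_lit 0) (XT.lf (nat_lit 0) (nat_lit 4433672480) (nat_lit 76) (nat_lit 44890569294) (nat_lit 76) (nat_lit 26899440133) (nat_lit 4) (nat_lit 4) (nat_lit 5) (nat_lit 5) (nat_lit 5) (nat_lit 4) (nat_lit 322) (nat_lit 233) (nat_lit 165)) (XT.lf (nat_lit 0) (nat_lit 12464328103) (nat_lit 76) (nat_lit 42687510941) (nat_lit 76) (nat_lit 24664171417) (nat_lit 4) (nat_lit 4) (nat_lit 5) (nat_lit 5) (nat_lit 5) (nat_lit 4) (nat_lit 323) (nat_lit 233) (nat_lit 164))) (XT.nd (nat_lit 78) (nat_lit 0) (nat_lit 0) (XT.lf (nat_lit 0) (nat_lit 20871947876) (nat_lit 76) (nat_lit 40385356097) (nat_lit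 76) (nat_lit 22331340037) (nat_lit 4) (nat_lit 4) (nat_lit 5) (nat_lit 5) (nat_lit 5) (nat_lit 4) (nat_lit 324) (nat_lit 233) (nat_lit 163)) (XT.lf (nat_lit 0) (nat_lit 29676549941) (nat_lit 76) (nat_lit 37978623439) (nat_lit 76) (nat_lit 19895391631) (nat_lit 4) (nat_lit 4) (nat_lit 5) (nat_lit 5) (nat_lit 5) (nat_lit 4) (nat_lit 325) (nat_lit 233) (nat_lit 162)))) (XT.nd (nat_lit 156) (nat_lit 0) (nat_lit 0) (XT.nd (nat_lit 78) (nat_lit 0) (nat_lit 0) (XT.lf (nat_lit 0) (nat_lit 38899097635) (nat_lit 76) (nat_lit 35461582653) (nat_lit 76) (nat_lit 17350526322) (nat_lit 4) (nat_lit 4) (nat_lit 5) (nat_lit 5) (nat_lit 5) (nat_lit 4) (nat_lit 326) (nat_lit 233) (nat_lit 161)) (XT.lf (nat_lit 0) (nat_lit 48561549407) (nat_lit 76) (nat_lit 32828240784) (nat_lit 76) (nat_lit 14690684908) (nat_lit 4) (nat_lit 4) (nat_lit 5) (nat_lit 5) (nat_lit 5) (nat_lit 4) (nat_lit 327) (nat_lit 233)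 (nat_lit 160))) (XT.nd (nat_lit 78) (nat_lit 0) (nat_lit 0) (XT.lf (nat_lit 0) (nat_lit 58686911092) (nat_lit 76) (nat_lit 30072327970) (nat_lit 76) (nat_lit 11909534432) (nat_lit 4) (nat_lit 4) (nat_lit 5) (nat_lit 5) (nat_lit 5) (nat_lit 4) (nat_lit 328) (nat_lit 233) (nat_lit 159)) (XT.nd (nat_lit 78) (nat_lit 0) (nat_lit 0) (XT.lf (nat_lit 0) (nat_lit 69299290696) (nat_lit 76) (nat_lit 27187282514) (nat_lit 76) (nat_lit 9000453107) (nat_lit 4) (nat_lit 4) (nat_lit 5) (nat_lit 5) (nat_lit 5) (nat_lit 4) (nat_lit 329) (nat_lit 233) (nat_lit 158)) (XT.lf (nat_lit 0) (nat_lit 80423955788) (nat_lit 76) (nat_lit 24166235261) (nat_lit 76) (nat_lit 5956514550) (nat_lit 4) (nat_lit 4) (nat_lit 5) (nat_lit 5) (nat_lit 5) (nat_lit 4) (nat_lit 330) (nat_lit 233) (nat_lit 157))))))))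
noncomputable def xc88 : XT := (XT.nd (nat_lit 1326) (nat_lit 0) (nat_lit 0) (XT.nd (nat_lit 624) (nat_lit 0) (nat_lit 0) (XT.nd (nat_lit 312) (nat_lit 76) (nat_lit 0) (XT.nd (nat_lit 156) (nat_lit 0) (nat_lit 0) (XT.nd (nat_lit 78) (nat_lit 76) (nat_lit 0) (XT.lf (nat_lit 0) (nat_lit 92087393667) (nat_lit 76) (nat_lit 21001993240) (nat_lit 76) (nat_lit 2770471288) (nat_lit 4) (nat_lit 4) (nat_lit 5) (nat_lit 5) (nat_lit 5) (nat_lit 4) (nat_lit 331) (nat_lit 233) (nat_lit 156)) (XT.lf (nat_lit 0) (nat_lit 547170565) (nat_lit 152) (nat_lit 17130585379) (nat_lit 76) (nat_lit 103760937259) (nat_lit 3) (nat_lit 5) (nat_lit 5) (nat_lit 5) (nat_lit 4) (nat_lit 4) (nat_lit 332) (nat_lit 233) (nat_lit 155))) (XT.nd (nat_lit 78) (nat_lit 0) (nat_lit 0) (XT.lf (nat_lit 0) (nat_lit 3928727550) (nat_lit 152) (nat_lit 10218167928) (nat_lit 76) (nat_lit 113147754605) (nat_lit 3) (nat_lit 5) (nat_lit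 5) (nat_lit 5) (nat_lit 4) (nat_lit 4) (nat_lit 333) (nat_lit 233) (nat_lit 154)) (XT.lf (nat_lit 0) (nat_lit 7470923375) (nat_lit 152) (nat_lit 2975499220) (nat_lit 76) (nat_lit 122997411738) (nat_lit 3) (nat_lit 5) (nat_lit 5) (nat_lit 5) (nat_lit 4) (nat_lit 4) (nat_lit 334) (nat_lit 233) (nat_lit 153)))) (XT.nd (nat_lit 156) (nat_lit 0) (nat_lit 0) (XT.nd (nat_lit 78) (nat_lit 0) (nat_lit 0) (XT.lf (nat_lit 0) (nat_lit 4767246866) (nat_lit 76) (nat_lit 6489375055) (nat_lit 152) (nat_lit 128640543439) (nat_lit 2) (nat_lit 5) (nat_lit 3) (nat_lit 5) (nat_lit 4) (nat_lit 4) (nat_lit 335) (nat_lit 233) (nat_lit 152)) (XT.lf (nat_lit 0) (nat_lit 12986031236) (nat_lit 76) (nat_lit 2288086399) (nat_lit 152) (nat_lit 131396926562) (nat_lit 2) (nat_lit 5) (nat_lit 3) (nat_lit 5) (nat_lit 4) (nat_lit 4) (nat_lit 336) (nat_lit 233) (nat_lit 151))) (XT.nd (nat_lit 78) (nat_lit 0) (nat_lit 0)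 (XT.lf (nat_lit 0) (nat_lit 19518037219) (nat_lit 152) (nat_lit 132215012903) (nat_lit 0) (nat_lit 2049295943) (nat_lit 2) (nat_lit 5) (nat_lit 4) (nat_lit 4) (nat_lit 2) (nat_lit 4) (nat_lit 337) (nat_lit 233) (nat_lit 150)) (XT.lf (nat_lit 0) (nat_lit 24004423291) (nat_lit 152) (nat_lit 130722356367) (nat_lit 0) (nat_lit 6520926076) (nat_lit 2) (nat_lit 5) (nat_lit 4) (nat_lit 4) (nat_lit 2) (nat_lit 4) (nat_lit 338) (nat_lit 233) (nat_lit 149))))) (XT.nd (nat_lit 312) (nat_lit 0) (nat_lit 0) (XT.nd (nat_lit 156) (nat_lit 0) (nat_lit 0) (XT.nd (nat_lit 78) (nat_lit 0) (nat_lit 0) (XT.lf (nat_lit 0) (nat_lit 28708234280) (nat_lit 152) (nat_lit 129167765966) (nat_lit 0) (nat_lit 11210683791) (nat_lit 2) (nat_lit 5) (nat_lit 4) (nat_lit 4) (nat_lit 2) (nat_lit 4) (nat_lit 339) (nat_lit 233) (nat_lit 148)) (XT.lf (nat_lit 0) (nat_lit 33640669738) (nat_lit 152) (nat_lit 127547540297) (nat_lit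 0) (nat_lit 16129735178) (nat_lit 2) (nat_lit 5) (nat_lit 4) (nat_lit 4) (nat_lit 2) (nat_lit 4) (nat_lit 340) (nat_lit 233) (nat_lit 147))) (XT.nd (nat_lit 78) (nat_lit 0) (nat_lit 0) (XT.lf (nat_lit 0) (nat_lit 38813473558) (nat_lit 152) (nat_lit 125857821678) (nat_lit 0) (nat_lit 21289792264) (nat_lit 2) (nat_lit 5) (nat_lit 4) (nat_lit 4) (nat_lit 2) (nat_lit 4) (nat_lit 341) (nat_lit 233) (nat_lit 146)) (XT.lf (nat_lit 0) (nat_lit 44238961941) (nat_lit 152) (nat_lit 124094586970) (nat_lit 0) (nat_lit 26703140899) (nat_lit 2) (nat_lit 5) (nat_lit 4) (nat_lit 4) (nat_lit 2) (nat_lit 4) (nat_lit 342) (nat_lit 233) (nat_lit 145)))) (XT.nd (nat_lit 156) (nat_lit 0) (nat_lit 0) (XT.nd (nat_lit 78) (nat_lit 0) (nat_lit 0) (XT.lf (nat_lit 0) (nat_lit 49930052714) (nat_lit 152) (nat_lit 122253637995) (nat_lit 0) (nat_lit 32382670009) (nat_lit 2) (nat_lit 5) (nat_lit 4) (nat_lit 4) (nat_lit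 2) (nat_lit 4) (nat_lit 343) (nat_lit 233) (nat_lit 144)) (XT.lf (nat_lit 0) (nat_lit 55900296095) (nat_lit 152) (nat_lit 120330591542) (nat_lit 0) (nat_lit 38341902281) (nat_lit 2) (nat_lit 5) (nat_lit 4) (nat_lit 4) (nat_lit 2) (nat_lit 4) (nat_lit 344) (nat_lit 233) (nat_lit 143))) (XT.nd (nat_lit 78) (nat_lit 0) (nat_lit 0) (XT.lf (nat_lit 0) (nat_lit 62163906949) (nat_lit 152) (nat_lit 118320868928) (nat_lit 0) (nat_lit 44595026365) (nat_lit 2) (nat_lit 5) (nat_lit 4) (nat_lit 4) (nat_lit 2) (nat_lit 4) (nat_lit 345) (nat_lit 233) (nat_lit 142)) (XT.nd (nat_lit 78) (nat_lit 0) (nat_lit 0) (XT.lf (nat_lit 0) (nat_lit 68735798635) (nat_lit 152) (nat_lit 116219685100) (nat_lit 0) (nat_lit 51156930651) (nat_lit 2) (nat_lit 5) (nat_lit 4) (nat_lit 4) (nat_lit 2) (nat_lit 4) (nat_lit 346) (nat_lit 233) (nat_lit 141)) (XT.lf (nat_lit 0) (nat_lit 75631618514) (nat_lit 152) (nat_lit 114022037238)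 (nat_lit 0) (nat_lit 58043238721) (nat_lit 2) (nat_lit 5) (nat_lit 4) (nat_lit 4) (nat_lit 2) (nat_lit 4) (nat_lit 347) (nat_lit 233) (nat_lit 140))))))) (XT.nd (nat_lit 702) (nat_lit 0) (nat_lit 0) (XT.nd (nat_lit 312) (nat_lit 0) (nat_lit 0) (XT.nd (nat_lit 156) (nat_lit 0) (nat_lit 0) (XT.nd (nat_lit 78) (nat_lit 0) (nat_lit 0) (XT.lf (nat_lit 0) (nat_lit 82867785204) (nat_lit 152) (nat_lit 111722692848) (nat_lit 0) (nat_lit 65270346545) (nat_lit 2) (nat_lit 5) (nat_lit 4) (nat_lit 4) (nat_lit 2) (nat_lit 4) (nat_lit 348) (nat_lit 233) (nat_lit 139)) (XT.lf (nat_lit 0) (nat_lit 90461527675) (nat_lit 152) (nat_lit 109316177301) (nat_lit 0) (nat_lit 72855461524) (nat_lit 2) (nat_lit 5) (nat_lit 4) (nat_lit 4) (nat_lit 2) (nat_lit 4) (nat_lit 349) (nat_lit 233) (nat_lit 138))) (XT.nd (nat_lit 78) (nat_lit 0) (nat_lit 0) (XT.lf (nat_lit 0) (nat_lit 98430926265) (nat_lit 152) (nat_lit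 106796760797) (nat_lit 0) (nat_lit 80816643456) (nat_lit 2) (nat_lit 5) (nat_lit 4) (nat_lit 4) (nat_lit 2) (nat_lit 4) (nat_lit 350) (nat_lit 233) (nat_lit 137)) (XT.lf (nat_lit 0) (nat_lit 106794955733) (nat_lit 152) (nat_lit 104158444726) (nat_lit 0) (nat_lit 89172847534) (nat_lit 2) (nat_lit 5) (nat_lit 4) (nat_lit 4) (nat_lit 2) (nat_lit 4) (nat_lit 351) (nat_lit 233) (nat_lit 136)))) (XT.nd (nat_lit 156) (nat_lit 0) (nat_lit 0) (XT.nd (nat_lit 78) (nat_lit 0) (nat_lit 0) (XT.lf (nat_lit 0) (nat_lit 115573530435) (nat_lit 152) (nat_lit 101394947383) (nat_lit 0) (nat_lit 97943969485) (nat_lit 2) (nat_lit 5) (nat_lit 4) (nat_lit 4) (nat_lit 2) (nat_lit 4) (nat_lit 352) (nat_lit 233) (nat_lit 135)) (XT.lf (nat_lit 0) (nat_lit 124787551738) (nat_lit 152) (nat_lit 98499689012) (nat_lit 0) (nat_lit 107150892930) (nat_lit 2) (nat_lit 5) (nat_lit 4) (nat_lit 4) (nat_lit 2) (nat_lit 4)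 (nat_lit 353) (nat_lit 233) (nat_lit 134))) (XT.nd (nat_lit 78) (nat_lit 0) (nat_lit 0) (XT.lf (nat_lit 0) (nat_lit 134458957790) (nat_lit 152) (nat_lit 95465776142) (nat_lit 0) (nat_lit 116815539116) (nat_lit 2) (nat_lit 5) (nat_lit 4) (nat_lit 4) (nat_lit 2) (nat_lit 4) (nat_lit 354) (nat_lit 233) (nat_lit 133)) (XT.nd (nat_lit 78) (nat_lit 0) (nat_lit 0) (XT.lf (nat_lit 0) (nat_lit 144610775747) (nat_lit 152) (nat_lit 92285985169) (nat_lit 0) (nat_lit 126960919106) (nat_lit 2) (nat_lit 5) (nat_lit 4) (nat_lit 4) (nat_lit 2) (nat_lit 4) (nat_lit 355) (nat_lit 233) (nat_lit 132)) (XT.lf (nat_lit 0) (nat_lit 155267176605) (nat_lit 152) (nat_lit 88952745163) (nat_lit 0) (nat_lit 137611188567) (nat_lit 2) (nat_lit 5) (nat_lit 4) (nat_lit 4) (nat_lit 2) (nat_lit 4) (nat_lit 356) (nat_lit 233) (nat_lit 131)))))) (XT.nd (nat_lit 312) (nat_lit 0) (nat_lit 0) (XT.nd (nat_lit 156) (nat_lit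 0) (nat_lit 0) (XT.nd (nat_lit 78) (nat_lit 0) (nat_lit 0) (XT.lf (nat_lit 0) (nat_lit 166453532746) (nat_lit 152) (nat_lit 85458119838) (nat_lit 0) (nat_lit 148791705282) (nat_lit 2) (nat_lit 5) (nat_lit 4) (nat_lit 4) (nat_lit 2) (nat_lit 4) (nat_lit 357) (nat_lit 233) (nat_lit 130)) (XT.lf (nat_lit 0) (nat_lit 178196478352) (nat_lit 152) (nat_lit 81793788658) (nat_lit 0) (nat_lit 160529089530) (nat_lit 2) (nat_lit 5) (nat_lit 4) (nat_lit 4) (nat_lit 2) (nat_lit 4) (nat_lit 358) (nat_lit 233) (nat_lit 129))) (XT.nd (nat_lit 78) (nat_lit 0) (nat_lit 0) (XT.lf (nat_lit 0) (nat_lit 190523972817) (nat_lit 152) (nat_lit 77951027025) (nat_lit 0) (nat_lit 172851287463) (nat_lit 2) (nat_lit 5) (nat_lit 4) (nat_lit 4) (nat_lit 2) (nat_lit 4) (nat_lit 359) (nat_lit 233) (nat_lit 128)) (XT.lf (nat_lit 0) (nat_lit 203465367318) (nat_lit 152) (nat_lit 73920685506) (nat_lit 0) (nat_lit 185787637649)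 (nat_lit 2) (nat_lit 5) (nat_lit 4) (nat_lit 4) (nat_lit 2) (nat_lit 4) (nat_lit 360) (nat_lit 233) (nat_lit 127)))) (XT.nd (nat_lit 29094) (nat_lit 0) (nat_lit 5928) (XT.nd (nat_lit 29016) (nat_lit 0) (nat_lit 7144) (XT.lf (nat_lit 0) (nat_lit 217051474699) (nat_lit 152) (nat_lit 69693168050) (nat_lit 0) (nat_lit 199368940920) (nat_lit 2) (nat_lit 5) (nat_lit 4) (nat_lit 4) (nat_lit 2) (nat_lit 4) (nat_lit 361) (nat_lit 233) (nat_lit 126)) (XT.lf (nat_lit 0) (nat_lit 660252100) (nat_lit 532) (nat_lit 2129740472) (nat_lit 0) (nat_lit 660252100) (nat_lit 96) (nat_lit 5) (nat_lit 103) (nat_lit 4) (nat_lit 96) (nat_lit 4) (nat_lit 252) (nat_lit 234) (nat_lit 234))) (XT.nd (nat_lit 78) (nat_lit 1216) (nat_lit 0) (XT.lf (nat_lit 0) (nat_lit 4326597878) (nat_lit 532) (nat_lit 90457463) (nat_lit 0) (nat_lit 2566575699) (nat_lit 96) (nat_lit 5) (nat_lit 103) (nat_lit 4) (nat_lit 96) (nat_lit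 4) (nat_lit 253) (nat_lit 234) (nat_lit 233)) (XT.nd (nat_lit 78) (nat_lit 608) (nat_lit 0) (XT.lf (nat_lit 0) (nat_lit 312960552) (nat_lit 608) (nat_lit 2794664645) (nat_lit 76) (nat_lit 3967952936) (nat_lit 88) (nat_lit 5) (nat_lit 96) (nat_lit 5) (nat_lit 89) (nat_lit 4) (nat_lit 254) (nat_lit 234) (nat_lit 232)) (XT.lf (nat_lit 0) (nat_lit 1567200463) (nat_lit 608) (nat_lit 1652226970) (nat_lit 684) (nat_lit 3957295921) (nat_lit 80) (nat_lit 5) (nat_lit 88) (nat_lit 5) (nat_lit 89) (nat_lit 4) (nat_lit 255) (nat_lit 234) (nat_lit 231))))))))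
noncomputable def xc89 : XT := (XT.nd (nat_lit 1326) (nat_lit 1444) (nat_lit 0) (XT.nd (nat_lit 624) (nat_lit 1292) (nat_lit 0) (XT.nd (nat_lit 312) (nat_lit 1140) (nat_lit 0) (XT.nd (nat_lit 156) (nat_lit 304) (nat_lit 0) (XT.nd (nat_lit 78) (nat_lit 760) (nat_lit 0) (XT.lf (nat_lit 0) (nat_lit 6105138508) (nat_lit 608) (nat_lit 69562768) (nat_lit 684) (nat_lit 1113661837) (nat_lit 80) (nat_lit 5) (nat_lit 88) (nat_lit 5) (nat_lit 89) (nat_lit 4) (nat_lit 256) (nat_lit 234) (nat_lit 230)) (XT.lf (nat_lit 0) (nat_lit 1751859366) (nat_lit 760) (nat_lit 4028663261) (nat_lit 76) (nat_lit 1627174062) (nat_lit 70) (nat_lit 5) (nat_lit 80) (nat_lit 5) (nat_lit 71) (nat_lit 4) (nat_lit 257) (nat_lit 234) (nat_lit 229))) (XT.nd (nat_lit 78) (nat_lit 0) (nat_lit 0) (XT.lf (nat_lit 0) (nat_lit 533156115) (nat_lit 304) (nat_lit 4084642287) (nat_lit 380) (nat_lit 2920085499) (nat_lit 66) (nat_lit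 5) (nat_lit 70) (nat_lit 5) (nat_lit 71) (nat_lit 4) (nat_lit 258) (nat_lit 234) (nat_lit 228)) (XT.lf (nat_lit 0) (nat_lit 5322562880) (nat_lit 304) (nat_lit 2241685116) (nat_lit 380) (nat_lit 113974844) (nat_lit 66) (nat_lit 5) (nat_lit 70) (nat_lit 5) (nat_lit 71) (nat_lit 4) (nat_lit 259) (nat_lit 234) (nat_lit 227)))) (XT.nd (nat_lit 156) (nat_lit 684) (nat_lit 0) (XT.nd (nat_lit 78) (nat_lit 0) (nat_lit 0) (XT.lf (nat_lit 0) (nat_lit 2420768339) (nat_lit 380) (nat_lit 231527912) (nat_lit 456) (nat_lit 5176002102) (nat_lit 60) (nat_lit 5) (nat_lit 65) (nat_lit 5) (nat_lit 66) (nat_lit 5) (nat_lit 260) (nat_lit 234) (nat_lit 226)) (XT.lf (nat_lit 0) (nat_lit 5499389762) (nat_lit 456) (nat_lit 640464122) (nat_lit 76) (nat_lit 1849047928) (nat_lit 60) (nat_lit 5) (nat_lit 66) (nat_lit 5) (nat_lit 61) (nat_lit 4) (nat_lit 261) (nat_lit 234) (nat_lit 225))) (XT.nd (nat_lit 78) (nat_lit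 304) (nat_lit 0) (XT.lf (nat_lit 0) (nat_lit 273831778) (nat_lit 380) (nat_lit 3799515304) (nat_lit 76) (nat_lit 4086667234) (nat_lit 55) (nat_lit 5) (nat_lit 60) (nat_lit 5) (nat_lit 56) (nat_lit 5) (nat_lit 262) (nat_lit 234) (nat_lit 224)) (XT.lf (nat_lit 0) (nat_lit 1152741637) (nat_lit 304) (nat_lit 1851559946) (nat_lit 380) (nat_lit 5338084524) (nat_lit 51) (nat_lit 5) (nat_lit 55) (nat_lit 5) (nat_lit 56) (nat_lit 5) (nat_lit 263) (nat_lit 234) (nat_lit 223))))) (XT.nd (nat_lit 312) (nat_lit 684) (nat_lit 0) (XT.nd (nat_lit 156) (nat_lit 304) (nat_lit 0) (XT.nd (nat_lit 78) (nat_lit 304) (nat_lit 0) (XT.lf (nat_lit 0) (nat_lit 5830885968) (nat_lit 380) (nat_lit 2195907761) (nat_lit 76) (nat_lit 509460712) (nat_lit 51) (nat_lit 5) (nat_lit 56) (nat_lit 5) (nat_lit 52) (nat_lit 4) (nat_lit 264) (nat_lit 234) (nat_lit 222)) (XT.lf (nat_lit 0) (nat_lit 25176136) (nat_lit 304) (nat_lit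 5764117025) (nat_lit 76) (nat_lit 2952397225) (nat_lit 47) (nat_lit 5) (nat_lit 51) (nat_lit 5) (nat_lit 48) (nat_lit 5) (nat_lit 265) (nat_lit 234) (nat_lit 221))) (XT.nd (nat_lit 78) (nat_lit 304) (nat_lit 0) (XT.lf (nat_lit 0) (nat_lit 2732240532) (nat_lit 304) (nat_lit 650684375) (nat_lit 76) (nat_lit 5576018998) (nat_lit 47) (nat_lit 5) (nat_lit 51) (nat_lit 5) (nat_lit 48) (nat_lit 5) (nat_lit 266) (nat_lit 234) (nat_lit 220)) (XT.lf (nat_lit 0) (nat_lit 4740476933) (nat_lit 304) (nat_lit 806395500) (nat_lit 380) (nat_lit 3641871077) (nat_lit 43) (nat_lit 5) (nat_lit 47) (nat_lit 5) (nat_lit 48) (nat_lit 5) (nat_lit 267) (nat_lit 234) (nat_lit 219)))) (XT.nd (nat_lit 156) (nat_lit 380) (nat_lit 0) (XT.nd (nat_lit 78) (nat_lit 76) (nat_lit 0) (XT.lf (nat_lit 0) (nat_lit 859632778) (nat_lit 228) (nat_lit 7597483611) (nat_lit 304) (nat_lit 975452796) (nat_lit 40) (nat_lit 5) (nat_lit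 43) (nat_lit 5) (nat_lit 44) (nat_lit 4) (nat_lit 268) (nat_lit 234) (nat_lit 218)) (XT.lf (nat_lit 0) (nat_lit 1757153126) (nat_lit 304) (nat_lit 3274129209) (nat_lit 76) (nat_lit 4656571008) (nat_lit 39) (nat_lit 5) (nat_lit 43) (nat_lit 5) (nat_lit 40) (nat_lit 5) (nat_lit 269) (nat_lit 234) (nat_lit 217))) (XT.nd (nat_lit 78) (nat_lit 152) (nat_lit 0) (XT.lf (nat_lit 0) (nat_lit 2217226890) (nat_lit 228) (nat_lit 2317157176) (nat_lit 304) (nat_lit 5423921249) (nat_lit 36) (nat_lit 5) (nat_lit 39) (nat_lit 5) (nat_lit 40) (nat_lit 5) (nat_lit 270) (nat_lit 234) (nat_lit 216)) (XT.nd (nat_lit 78) (nat_lit 152) (nat_lit 0) (XT.lf (nat_lit 0) (nat_lit 7423291843) (nat_lit 304) (nat_lit 2281489384) (nat_lit 76) (nat_lit 539088346) (nat_lit 36) (nat_lit 5) (nat_lit 40) (nat_lit 5) (nat_lit 37) (nat_lit 4) (nat_lit 271) (nat_lit 234) (nat_lit 215)) (XT.lf (nat_lit 0) (nat_lit 3398457578)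 (nat_lit 152) (nat_lit 7061748100) (nat_lit 228) (nat_lit 83547811) (nat_lit 34) (nat_lit 5) (nat_lit 36) (nat_lit 5) (nat_lit 37) (nat_lit 4) (nat_lit 272) (nat_lit 234) (nat_lit 214))))))) (XT.nd (nat_lit 702) (nat_lit 532) (nat_lit 0) (XT.nd (nat_lit 312) (nat_lit 456) (nat_lit 0) (XT.nd (nat_lit 156) (nat_lit 152) (nat_lit 0) (XT.nd (nat_lit 78) (nat_lit 228) (nat_lit 0) (XT.lf (nat_lit 0) (nat_lit 2653483076) (nat_lit 228) (nat_lit 1583774295) (nat_lit 76) (nat_lit 6621772177) (nat_lit 33) (nat_lit 5) (nat_lit 36) (nat_lit 5) (nat_lit 34) (nat_lit 5) (nat_lit 273) (nat_lit 234) (nat_lit 213)) (XT.lf (nat_lit 0) (nat_lit 4272646753) (nat_lit 228) (nat_lit 1235939024) (nat_lit 304) (nat_lit 5682403344) (nat_lit 30) (nat_lit 5) (nat_lit 33) (nat_lit 5) (nat_lit 34) (nat_lit 5) (nat_lit 274) (nat_lit 234) (nat_lit 212))) (XT.nd (nat_lit 78) (nat_lit 152) (nat_lit 0) (XT.lf (nat_lit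 0) (nat_lit 8482483428) (nat_lit 304) (nat_lit 1211968404) (nat_lit 76) (nat_lit 1846473414) (nat_lit 30) (nat_lit 5) (nat_lit 34) (nat_lit 5) (nat_lit 31) (nat_lit 4) (nat_lit 275) (nat_lit 234) (nat_lit 211)) (XT.lf (nat_lit 0) (nat_lit 4798480908) (nat_lit 152) (nat_lit 6824509947) (nat_lit 228) (nat_lit 284643545) (nat_lit 28) (nat_lit 5) (nat_lit 30) (nat_lit 5) (nat_lit 31) (nat_lit 4) (nat_lit 276) (nat_lit 234) (nat_lit 210)))) (XT.nd (nat_lit 156) (nat_lit 228) (nat_lit 0) (XT.nd (nat_lit 78) (nat_lit 152) (nat_lit 0) (XT.lf (nat_lit 0) (nat_lit 2487860560) (nat_lit 228) (nat_lit 1296896664) (nat_lit 76) (nat_lit 8508820197) (nat_lit 27) (nat_lit 5) (nat_lit 30) (nat_lit 5) (nat_lit 28) (nat_lit 5) (nat_lit 277) (nat_lit 234) (nat_lit 209)) (XT.lf (nat_lit 0) (nat_lit 4846512125) (nat_lit 152) (nat_lit 545495309) (nat_lit 228) (nat_lit 7306596224) (nat_lit 25) (nat_lit 5) (nat_lit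 27) (nat_lit 5) (nat_lit 28) (nat_lit 5) (nat_lit 278) (nat_lit 234) (nat_lit 208))) (XT.nd (nat_lit 78) (nat_lit 228) (nat_lit 0) (XT.lf (nat_lit 0) (nat_lit 8436403566) (nat_lit 228) (nat_lit 1936883599) (nat_lit 76) (nat_lit 2750983423) (nat_lit 25) (nat_lit 5) (nat_lit 28) (nat_lit 5) (nat_lit 26) (nat_lit 4) (nat_lit 279) (nat_lit 234) (nat_lit 207)) (XT.nd (nat_lit 78) (nat_lit 76) (nat_lit 0) (XT.lf (nat_lit 0) (nat_lit 4296690499) (nat_lit 152) (nat_lit 7343909540) (nat_lit 228) (nat_lit 1930376541) (nat_lit 23) (nat_lit 5) (nat_lit 25) (nat_lit 5) (nat_lit 26) (nat_lit 4) (nat_lit 280) (nat_lit 234) (nat_lit 206)) (XT.lf (nat_lit 0) (nat_lit 899409147) (nat_lit 228) (nat_lit 3251429239) (nat_lit 76) (nat_lit 9890283072) (nat_lit 22) (nat_lit 5) (nat_lit 25) (nat_lit 5) (nat_lit 23) (nat_lit 5) (nat_lit 281) (nat_lit 234) (nat_lit 205)))))) (XT.nd (nat_lit 312) (nat_lit 304)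 (nat_lit 0) (XT.nd (nat_lit 156) (nat_lit 76) (nat_lit 0) (XT.nd (nat_lit 78) (nat_lit 0) (nat_lit 0) (XT.lf (nat_lit 0) (nat_lit 3036556472) (nat_lit 152) (nat_lit 751869724) (nat_lit 228) (nat_lit 10745750733) (nat_lit 20) (nat_lit 5) (nat_lit 22) (nat_lit 5) (nat_lit 23) (nat_lit 5) (nat_lit 282) (nat_lit 234) (nat_lit 204)) (XT.lf (nat_lit 0) (nat_lit 6858002734) (nat_lit 228) (nat_lit 5444814150) (nat_lit 76) (nat_lit 2747373708) (nat_lit 20) (nat_lit 5) (nat_lit 23) (nat_lit 5) (nat_lit 21) (nat_lit 4) (nat_lit 283) (nat_lit 234) (nat_lit 203))) (XT.nd (nat_lit 78) (nat_lit 0) (nat_lit 0) (XT.lf (nat_lit 0) (nat_lit 827042744) (nat_lit 76) (nat_lit 9218452977) (nat_lit 152) (nat_lit 5548392910) (nat_lit 19) (nat_lit 5) (nat_lit 20) (nat_lit 5) (nat_lit 21) (nat_lit 4) (nat_lit 284) (nat_lit 234) (nat_lit 202)) (XT.lf (nat_lit 0) (nat_lit 7505365973) (nat_lit 76) (nat_lit 5919801348)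 (nat_lit 152) (nat_lit 2738064598) (nat_lit 19) (nat_lit 5) (nat_lit 20) (nat_lit 5) (nat_lit 21) (nat_lit 4) (nat_lit 285) (nat_lit 234) (nat_lit 201)))) (XT.nd (nat_lit 156) (nat_lit 76) (nat_lit 0) (XT.nd (nat_lit 78) (nat_lit 152) (nat_lit 0) (XT.lf (nat_lit 0) (nat_lit 148371927) (nat_lit 152) (nat_lit 2340333951) (nat_lit 76) (nat_lit 14275141482) (nat_lit 18) (nat_lit 5) (nat_lit 20) (nat_lit 5) (nat_lit 19) (nat_lit 5) (nat_lit 286) (nat_lit 234) (nat_lit 200)) (XT.lf (nat_lit 0) (nat_lit 3118032349) (nat_lit 228) (nat_lit 13113830109) (nat_lit 76) (nat_lit 1158927704) (nat_lit 16) (nat_lit 5) (nat_lit 19) (nat_lit 5) (nat_lit 17) (nat_lit 4) (nat_lit 287) (nat_lit 234) (nat_lit 199))) (XT.nd (nat_lit 78) (nat_lit 76) (nat_lit 0) (XT.lf (nat_lit 0) (nat_lit 6263114810) (nat_lit 228) (nat_lit 6872089605) (nat_lit 76) (nat_lit 4912611458) (nat_lit 16) (nat_lit 5) (nat_lit 19)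 (nat_lit 5) (nat_lit 17) (nat_lit 4) (nat_lit 288) (nat_lit 234) (nat_lit 198)) (XT.nd (nat_lit 78) (nat_lit 76) (nat_lit 0) (XT.lf (nat_lit 0) (nat_lit 9513885797) (nat_lit 228) (nat_lit 403893405) (nat_lit 76) (nat_lit 8822570726) (nat_lit 16) (nat_lit 5) (nat_lit 19) (nat_lit 5) (nat_lit 17) (nat_lit 4) (nat_lit 289) (nat_lit 234) (nat_lit 197)) (XT.lf (nat_lit 0) (nat_lit 6514669050) (nat_lit 76) (nat_lit 6465128432) (nat_lit 152) (nat_lit 6485158126) (nat_lit 15) (nat_lit 5) (nat_lit 16) (nat_lit 5) (nat_lit 17) (nat_lit 4) (nat_lit 290) (nat_lit 234) (nat_lit 196))))))))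
noncomputable def xc90 : XT := (XT.nd (nat_lit 1326) (nat_lit 304) (nat_lit 0) (XT.nd (nat_lit 624) (nat_lit 228) (nat_lit 0) (XT.nd (nat_lit 312) (nat_lit 76) (nat_lit 0) (XT.nd (nat_lit 156) (nat_lit 76) (nat_lit 0) (XT.nd (nat_lit 78) (nat_lit 152) (nat_lit 0) (XT.lf (nat_lit 0) (nat_lit 13712943629) (nat_lit 76) (nat_lit 2864876992) (nat_lit 152) (nat_lit 3650101613) (nat_lit 15) (nat_lit 5) (nat_lit 16) (nat_lit 5) (nat_lit 17) (nat_lit 4) (nat_lit 291) (nat_lit 234) (nat_lit 195)) (XT.lf (nat_lit 0) (nat_lit 154453134) (nat_lit 152) (nat_lit 20171778595) (nat_lit 152) (nat_lit 704349175) (nat_lit 13) (nat_lit 4) (nat_lit 15) (nat_lit 5) (nat_lit 15) (nat_lit 4) (nat_lit 292) (nat_lit 234) (nat_lit 194))) (XT.nd (nat_lit 78) (nat_lit 0) (nat_lit 0) (XT.lf (nat_lit 0) (nat_lit 2425323833) (nat_lit 228) (nat_lit 14648996053) (nat_lit 76) (nat_lit 4791595340) (nat_lit 12) (nat_lit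 5) (nat_lit 15) (nat_lit 5) (nat_lit 13) (nat_lit 4) (nat_lit 293) (nat_lit 234) (nat_lit 193)) (XT.lf (nat_lit 0) (nat_lit 5643978985) (nat_lit 228) (nat_lit 8196924891) (nat_lit 76) (nat_lit 8903785379) (nat_lit 12) (nat_lit 5) (nat_lit 15) (nat_lit 5) (nat_lit 13) (nat_lit 4) (nat_lit 294) (nat_lit 234) (nat_lit 192)))) (XT.nd (nat_lit 156) (nat_lit 0) (nat_lit 0) (XT.nd (nat_lit 78) (nat_lit 76) (nat_lit 0) (XT.lf (nat_lit 0) (nat_lit 8981823316) (nat_lit 228) (nat_lit 1493555344) (nat_lit 76) (nat_lit 13194166491) (nat_lit 12) (nat_lit 5) (nat_lit 15) (nat_lit 5) (nat_lit 13) (nat_lit 4) (nat_lit 295) (nat_lit 234) (nat_lit 191)) (XT.lf (nat_lit 0) (nat_lit 5658169759) (nat_lit 76) (nat_lit 6876974203) (nat_lit 152) (nat_lit 12103123996) (nat_lit 11) (nat_lit 5) (nat_lit 12) (nat_lit 5) (nat_lit 13) (nat_lit 4) (nat_lit 296) (nat_lit 234) (nat_lit 190))) (XT.nd (nat_lit 78) (nat_lit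 0) (nat_lit 0) (XT.lf (nat_lit 0) (nat_lit 13152519614) (nat_lit 76) (nat_lit 3099999293) (nat_lit 152) (nat_lit 9403639367) (nat_lit 11) (nat_lit 5) (nat_lit 12) (nat_lit 5) (nat_lit 13) (nat_lit 4) (nat_lit 297) (nat_lit 234) (nat_lit 189)) (XT.lf (nat_lit 0) (nat_lit 20131812405) (nat_lit 152) (nat_lit 5781992864) (nat_lit 0) (nat_lit 812383711) (nat_lit 11) (nat_lit 5) (nat_lit 13) (nat_lit 4) (nat_lit 11) (nat_lit 4) (nat_lit 298) (nat_lit 234) (nat_lit 188))))) (XT.nd (nat_lit 312) (nat_lit 76) (nat_lit 0) (XT.nd (nat_lit 156) (nat_lit 76) (nat_lit 0) (XT.nd (nat_lit 78) (nat_lit 0) (nat_lit 0) (XT.lf (nat_lit 0) (nat_lit 1201348329) (nat_lit 76) (nat_lit 23037614381) (nat_lit 76) (nat_lit 3609109966) (nat_lit 10) (nat_lit 4) (nat_lit 11) (nat_lit 5) (nat_lit 11) (nat_lit 4) (nat_lit 299) (nat_lit 234) (nat_lit 187)) (XT.lf (nat_lit 0) (nat_lit 8673576725) (nat_lit 76) (nat_lit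 19940877290) (nat_lit 76) (nat_lit 408491235) (nat_lit 10) (nat_lit 4) (nat_lit 11) (nat_lit 5) (nat_lit 11) (nat_lit 4) (nat_lit 300) (nat_lit 234) (nat_lit 186))) (XT.nd (nat_lit 78) (nat_lit 0) (nat_lit 0) (XT.lf (nat_lit 0) (nat_lit 2823811335) (nat_lit 152) (nat_lit 13842507711) (nat_lit 76) (nat_lit 13589670602) (nat_lit 9) (nat_lit 5) (nat_lit 11) (nat_lit 5) (nat_lit 10) (nat_lit 4) (nat_lit 301) (nat_lit 234) (nat_lit 185)) (XT.lf (nat_lit 0) (nat_lit 6171753822) (nat_lit 152) (nat_lit 7073449322) (nat_lit 76) (nat_lit 18306798548) (nat_lit 9) (nat_lit 5) (nat_lit 11) (nat_lit 5) (nat_lit 10) (nat_lit 4) (nat_lit 302) (nat_lit 234) (nat_lit 184)))) (XT.nd (nat_lit 156) (nat_lit 0) (nat_lit 0) (XT.nd (nat_lit 78) (nat_lit 76) (nat_lit 0) (XT.lf (nat_lit 0) (nat_lit 9656381786) (nat_lit 152) (nat_lit 19698861) (nat_lit 76) (nat_lit 23238305365) (nat_lit 9) (nat_lit 5) (nat_lit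 11) (nat_lit 5) (nat_lit 10) (nat_lit 4) (nat_lit 303) (nat_lit 234) (nat_lit 183)) (XT.lf (nat_lit 0) (nat_lit 7578084341) (nat_lit 76) (nat_lit 5826222754) (nat_lit 152) (nat_lit 20936163526) (nat_lit 8) (nat_lit 5) (nat_lit 9) (nat_lit 5) (nat_lit 10) (nat_lit 4) (nat_lit 304) (nat_lit 234) (nat_lit 182))) (XT.nd (nat_lit 78) (nat_lit 0) (nat_lit 0) (XT.lf (nat_lit 0) (nat_lit 15506065618) (nat_lit 76) (nat_lit 1805253799) (nat_lit 152) (nat_lit 18527988242) (nat_lit 8) (nat_lit 5) (nat_lit 9) (nat_lit 5) (nat_lit 10) (nat_lit 4) (nat_lit 305) (nat_lit 234) (nat_lit 181)) (XT.nd (nat_lit 78) (nat_lit 0) (nat_lit 0) (XT.lf (nat_lit 0) (nat_lit 21423812748) (nat_lit 152) (nat_lit 13669421201) (nat_lit 0) (nat_lit 2319377255) (nat_lit 8) (nat_lit 5) (nat_lit 10) (nat_lit 4) (nat_lit 8) (nat_lit 4) (nat_lit 306) (nat_lit 234) (nat_lit 180)) (XT.lf (nat_lit 0) (nat_lit 25745237394) (nat_lit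 152) (nat_lit 6748716173) (nat_lit 0) (nat_lit 6570490719) (nat_lit 8) (nat_lit 5) (nat_lit 10) (nat_lit 4) (nat_lit 8) (nat_lit 4) (nat_lit 307) (nat_lit 234) (nat_lit 179))))))) (XT.nd (nat_lit 702) (nat_lit 76) (nat_lit 0) (XT.nd (nat_lit 312) (nat_lit 152) (nat_lit 0) (XT.nd (nat_lit 156) (nat_lit 0) (nat_lit 0) (XT.nd (nat_lit 78) (nat_lit 0) (nat_lit 0) (XT.lf (nat_lit 0) (nat_lit 489193218) (nat_lit 76) (nat_lit 29776141849) (nat_lit 76) (nat_lit 10534432143) (nat_lit 7) (nat_lit 4) (nat_lit 8) (nat_lit 5) (nat_lit 8) (nat_lit 4) (nat_lit 308) (nat_lit 234) (nat_lit 178)) (XT.lf (nat_lit 0) (nat_lit 8279527692) (nat_lit 76) (nat_lit 26821675628) (nat_lit 76) (nat_lit 7516191606) (nat_lit 7) (nat_lit 4) (nat_lit 8) (nat_lit 5) (nat_lit 8) (nat_lit 4) (nat_lit 309) (nat_lit 234) (nat_lit 177))) (XT.nd (nat_lit 78) (nat_lit 0) (nat_lit 0) (XT.lf (nat_lit 0) (nat_lit 16417692629)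 (nat_lit 76) (nat_lit 23737813234) (nat_lit 76) (nat_lit 4371591769) (nat_lit 7) (nat_lit 4) (nat_lit 8) (nat_lit 5) (nat_lit 8) (nat_lit 4) (nat_lit 310) (nat_lit 234) (nat_lit 176)) (XT.lf (nat_lit 0) (nat_lit 24923064611) (nat_lit 76) (nat_lit 20517212138) (nat_lit 76) (nat_lit 1093145490) (nat_lit 7) (nat_lit 4) (nat_lit 8) (nat_lit 5) (nat_lit 8) (nat_lit 4) (nat_lit 311) (nat_lit 234) (nat_lit 175)))) (XT.nd (nat_lit 156) (nat_lit 76) (nat_lit 0) (XT.nd (nat_lit 78) (nat_lit 0) (nat_lit 0) (XT.lf (nat_lit 0) (nat_lit 2252476026) (nat_lit 152) (nat_lit 14861581446) (nat_lit 76) (nat_lit 31525271728) (nat_lit 6) (nat_lit 5) (nat_lit 8) (nat_lit 5) (nat_lit 7) (nat_lit 4) (nat_lit 312) (nat_lit 234) (nat_lit 174)) (XT.lf (nat_lit 0) (nat_lit 5708111031) (nat_lit 152) (nat_lit 7829996971) (nat_lit 76) (nat_lit 37312575121) (nat_lit 6) (nat_lit 5) (nat_lit 8) (nat_lit 5) (nat_lit 7)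 (nat_lit 4) (nat_lit 313) (nat_lit 234) (nat_lit 173))) (XT.nd (nat_lit 78) (nat_lit 76) (nat_lit 0) (XT.lf (nat_lit 0) (nat_lit 9316974711) (nat_lit 152) (nat_lit 481795273) (nat_lit 76) (nat_lit 43374832511) (nat_lit 6) (nat_lit 5) (nat_lit 8) (nat_lit 5) (nat_lit 7) (nat_lit 4) (nat_lit 314) (nat_lit 234) (nat_lit 172)) (XT.nd (nat_lit 78) (nat_lit 0) (nat_lit 0) (XT.lf (nat_lit 0) (nat_lit 7438601056) (nat_lit 76) (nat_lit 5765195950) (nat_lit 152) (nat_lit 42404014195) (nat_lit 5) (nat_lit 5) (nat_lit 6) (nat_lit 5) (nat_lit 7) (nat_lit 4) (nat_lit 315) (nat_lit 234) (nat_lit 171)) (XT.lf (nat_lit 0) (nat_lit 15738983955) (nat_lit 76) (nat_lit 1535889204) (nat_lit 152) (nat_lit 40889379775) (nat_lit 5) (nat_lit 5) (nat_lit 6) (nat_lit 5) (nat_lit 7) (nat_lit 4) (nat_lit 316) (nat_lit 234) (nat_lit 170)))))) (XT.nd (nat_lit 312) (nat_lit 76) (nat_lit 0) (XT.nd (nat_lit 156) (nat_lit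 0) (nat_lit 0) (XT.nd (nat_lit 78) (nat_lit 0) (nat_lit 0) (XT.lf (nat_lit 0) (nat_lit 21577262875) (nat_lit 152) (nat_lit 36471354651) (nat_lit 0) (nat_lit 2798528600) (nat_lit 5) (nat_lit 5) (nat_lit 7) (nat_lit 4) (nat_lit 5) (nat_lit 4) (nat_lit 317) (nat_lit 234) (nat_lit 169)) (XT.lf (nat_lit 0) (nat_lit 26103194772) (nat_lit 152) (nat_lit 30275276006) (nat_lit 0) (nat_lit 7285308599) (nat_lit 5) (nat_lit 5) (nat_lit 7) (nat_lit 4) (nat_lit 5) (nat_lit 4) (nat_lit 318) (nat_lit 234) (nat_lit 168))) (XT.nd (nat_lit 78) (nat_lit 0) (nat_lit 0) (XT.lf (nat_lit 0) (nat_lit 30839465342) (nat_lit 152) (nat_lit 23798300941) (nat_lit 0) (nat_lit 11984291648) (nat_lit 5) (nat_lit 5) (nat_lit 7) (nat_lit 4) (nat_lit 5) (nat_lit 4) (nat_lit 319) (nat_lit 234) (nat_lit 167)) (XT.lf (nat_lit 0) (nat_lit 35797351421) (nat_lit 152) (nat_lit 17025008088) (nat_lit 0) (nat_lit 16906665801) (nat_lit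 5) (nat_lit 5) (nat_lit 7) (nat_lit 4) (nat_lit 5) (nat_lit 4) (nat_lit 320) (nat_lit 234) (nat_lit 166)))) (XT.nd (nat_lit 156) (nat_lit 76) (nat_lit 0) (XT.nd (nat_lit 78) (nat_lit 0) (nat_lit 0) (XT.lf (nat_lit 0) (nat_lit 40988657499) (nat_lit 152) (nat_lit 9939270558) (nat_lit 0) (nat_lit 22064150999) (nat_lit 5) (nat_lit 5) (nat_lit 7) (nat_lit 4) (nat_lit 5) (nat_lit 4) (nat_lit 321) (nat_lit 234) (nat_lit 165)) (XT.lf (nat_lit 0) (nat_lit 46425743829) (nat_lit 152) (nat_lit 2524217548) (nat_lit 0) (nat_lit 27469026966) (nat_lit 5) (nat_lit 5) (nat_lit 7) (nat_lit 4) (nat_lit 5) (nat_lit 4) (nat_lit 322) (nat_lit 234) (nat_lit 164))) (XT.nd (nat_lit 78) (nat_lit 0) (nat_lit 0) (XT.lf (nat_lit 0) (nat_lit 5410991344) (nat_lit 76) (nat_lit 46795045249) (nat_lit 76) (nat_lit 27807651850) (nat_lit 4) (nat_lit 4) (nat_lit 5) (nat_lit 5) (nat_lit 5) (nat_lit 4) (nat_lit 323) (nat_lit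 234) (nat_lit 163)) (XT.nd (nat_lit 78) (nat_lit 0) (nat_lit 0) (XT.lf (nat_lit 0) (nat_lit 13807197118) (nat_lit 76) (nat_lit 44498026956) (nat_lit 76) (nat_lit 25481417808) (nat_lit 4) (nat_lit 4) (nat_lit 5) (nat_lit 5) (nat_lit 5) (nat_lit 4) (nat_lit 324) (nat_lit 234) (nat_lit 162)) (XT.lf (nat_lit 0) (nat_lit 22600928708) (nat_lit 76) (nat_lit 42096186251) (nat_lit 76) (nat_lit 23051752581) (nat_lit 4) (nat_lit 4) (nat_lit 5) (nat_lit 5) (nat_lit 5) (nat_lit 4) (nat_lit 325) (nat_lit 234) (nat_lit 161))))))))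
noncomputable def xc91 : XT := (XT.nd (nat_lit 1404) (nat_lit 0) (nat_lit 0) (XT.nd (nat_lit 702) (nat_lit 76) (nat_lit 0) (XT.nd (nat_lit 312) (nat_lit 76) (nat_lit 0) (XT.nd (nat_lit 156) (nat_lit 0) (nat_lit 0) (XT.nd (nat_lit 78) (nat_lit 0) (nat_lit 0) (XT.lf (nat_lit 0) (nat_lit 31813123569) (nat_lit 76) (nat_lit 39583804468) (nat_lit 76) (nat_lit 20512871253) (nat_lit 4) (nat_lit 4) (nat_lit 5) (nat_lit 5) (nat_lit 5) (nat_lit 4) (nat_lit 326) (nat_lit 234) (nat_lit 160)) (XT.lf (nat_lit 0) (nat_lit 41465715500) (nat_lit 76) (nat_lit 36954899745) (nat_lit 76) (nat_lit 17858728867) (nat_lit 4) (nat_lit 4) (nat_lit 5) (nat_lit 5) (nat_lit 5) (nat_lit 4) (nat_lit 327) (nat_lit 234) (nat_lit 159))) (XT.nd (nat_lit 78) (nat_lit 0) (nat_lit 0) (XT.lf (nat_lit 0) (nat_lit 51581686860) (nat_lit 76) (nat_lit 34203212784) (nat_lit 76) (nat_lit 15083006038) (nat_lit 4) (nat_lit 4) (nat_lit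 5) (nat_lit 5) (nat_lit 5) (nat_lit 4) (nat_lit 328) (nat_lit 234) (nat_lit 158)) (XT.lf (nat_lit 0) (nat_lit 62185123297) (nat_lit 76) (nat_lit 31322191950) (nat_lit 76) (nat_lit 12179093901) (nat_lit 4) (nat_lit 4) (nat_lit 5) (nat_lit 5) (nat_lit 5) (nat_lit 4) (nat_lit 329) (nat_lit 234) (nat_lit 157)))) (XT.nd (nat_lit 156) (nat_lit 76) (nat_lit 0) (XT.nd (nat_lit 78) (nat_lit 0) (nat_lit 0) (XT.lf (nat_lit 0) (nat_lit 73301271088) (nat_lit 76) (nat_lit 28304977670) (nat_lit 76) (nat_lit 9140078379) (nat_lit 4) (nat_lit 4) (nat_lit 5) (nat_lit 5) (nat_lit 5) (nat_lit 4) (nat_lit 330) (nat_lit 234) (nat_lit 156)) (XT.lf (nat_lit 0) (nat_lit 84956597252) (nat_lit 76) (nat_lit 25144386101) (nat_lit 76) (nat_lit 5958723722) (nat_lit 4) (nat_lit 4) (nat_lit 5) (nat_lit 5) (nat_lit 5) (nat_lit 4) (nat_lit 331) (nat_lit 234) (nat_lit 155))) (XT.nd (nat_lit 78) (nat_lit 76) (nat_lit 0)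 (XT.lf (nat_lit 0) (nat_lit 97178852564) (nat_lit 76) (nat_lit 21832892023) (nat_lit 76) (nat_lit 2627455276) (nat_lit 4) (nat_lit 4) (nat_lit 5) (nat_lit 5) (nat_lit 5) (nat_lit 4) (nat_lit 332) (nat_lit 234) (nat_lit 154)) (XT.nd (nat_lit 78) (nat_lit 0) (nat_lit 0) (XT.lf (nat_lit 0) (nat_lit 834080095) (nat_lit 152) (nat_lit 17514405282) (nat_lit 76) (nat_lit 109148931988) (nat_lit 3) (nat_lit 5) (nat_lit 5) (nat_lit 5) (nat_lit 4) (nat_lit 4) (nat_lit 333) (nat_lit 234) (nat_lit 153)) (XT.lf (nat_lit 0) (nat_lit 4372355358) (nat_lit 152) (nat_lit 10278876929) (nat_lit 76) (nat_lit 118995568874) (nat_lit 3) (nat_lit 5) (nat_lit 5) (nat_lit 5) (nat_lit 4) (nat_lit 4) (nat_lit 334) (nat_lit 234) (nat_lit 152)))))) (XT.nd (nat_lit 312) (nat_lit 0) (nat_lit 0) (XT.nd (nat_lit 156) (nat_lit 0) (nat_lit 0) (XT.nd (nat_lit 78) (nat_lit 76) (nat_lit 0) (XT.lf (nat_lit 0) (nat_lit 8079889953)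 (nat_lit 152) (nat_lit 2695512851) (nat_lit 76) (nat_lit 129328640933) (nat_lit 3) (nat_lit 5) (nat_lit 5) (nat_lit 5) (nat_lit 4) (nat_lit 4) (nat_lit 335) (nat_lit 234) (nat_lit 151)) (XT.lf (nat_lit 0) (nat_lit 5427455034) (nat_lit 76) (nat_lit 6622794094) (nat_lit 152) (nat_lit 134830033465) (nat_lit 2) (nat_lit 5) (nat_lit 3) (nat_lit 5) (nat_lit 4) (nat_lit 4) (nat_lit 336) (nat_lit 234) (nat_lit 150))) (XT.nd (nat_lit 78) (nat_lit 0) (nat_lit 0) (XT.lf (nat_lit 0) (nat_lit 14037090726) (nat_lit 76) (nat_lit 2220538610) (nat_lit 152) (nat_lit 137735785133) (nat_lit 2) (nat_lit 5) (nat_lit 3) (nat_lit 5) (nat_lit 4) (nat_lit 4) (nat_lit 337) (nat_lit 234) (nat_lit 149)) (XT.lf (nat_lit 0) (nat_lit 20705983462) (nat_lit 152) (nat_lit 138435192992) (nat_lit 0) (nat_lit 2319502174) (nat_lit 2) (nat_lit 5) (nat_lit 4) (nat_lit 4) (nat_lit 2) (nat_lit 4) (nat_lit 338) (nat_lit 234)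 (nat_lit 148)))) (XT.nd (nat_lit 156) (nat_lit 0) (nat_lit 0) (XT.nd (nat_lit 78) (nat_lit 0) (nat_lit 0) (XT.lf (nat_lit 0) (nat_lit 25406591486) (nat_lit 152) (nat_lit 136886502226) (nat_lit 0) (nat_lit 7006726126) (nat_lit 2) (nat_lit 5) (nat_lit 4) (nat_lit 4) (nat_lit 2) (nat_lit 4) (nat_lit 339) (nat_lit 234) (nat_lit 147)) (XT.lf (nat_lit 0) (nat_lit 30335976499) (nat_lit 152) (nat_lit 135271895256) (nat_lit 0) (nat_lit 11923364406) (nat_lit 2) (nat_lit 5) (nat_lit 4) (nat_lit 4) (nat_lit 2) (nat_lit 4) (nat_lit 340) (nat_lit 234) (nat_lit 146))) (XT.nd (nat_lit 78) (nat_lit 0) (nat_lit 0) (XT.lf (nat_lit 0) (nat_lit 35505875135) (nat_lit 152) (nat_lit 133587527780) (nat_lit 0) (nat_lit 17081123294) (nat_lit 2) (nat_lit 5) (nat_lit 4) (nat_lit 4) (nat_lit 2) (nat_lit 4) (nat_lit 341) (nat_lit 234) (nat_lit 145)) (XT.nd (nat_lit 78) (nat_lit 0) (nat_lit 0) (XT.lf (nat_lit 0) (nat_lit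 40928596674) (nat_lit 152) (nat_lit 131829389398) (nat_lit 0) (nat_lit 22492283170) (nat_lit 2) (nat_lit 5) (nat_lit 4) (nat_lit 4) (nat_lit 2) (nat_lit 4) (nat_lit 342) (nat_lit 234) (nat_lit 144)) (XT.lf (nat_lit 0) (nat_lit 46617052359) (nat_lit 152) (nat_lit 129993294068) (nat_lit 0) (nat_lit 28169727746) (nat_lit 2) (nat_lit 5) (nat_lit 4) (nat_lit 4) (nat_lit 2) (nat_lit 4) (nat_lit 343) (nat_lit 234) (nat_lit 143))))))) (XT.nd (nat_lit 702) (nat_lit 0) (nat_lit 0) (XT.nd (nat_lit 312) (nat_lit 0) (nat_lit 0) (XT.nd (nat_lit 156) (nat_lit 0) (nat_lit 0) (XT.nd (nat_lit 78) (nat_lit 0) (nat_lit 0) (XT.lf (nat_lit 0) (nat_lit 52584786133) (nat_lit 152) (nat_lit 128074870132) (nat_lit 0) (nat_lit 34126974750) (nat_lit 2) (nat_lit 5) (nat_lit 4) (nat_lit 4) (nat_lit 2) (nat_lit 4) (nat_lit 344) (nat_lit 234) (nat_lit 142)) (XT.lf (nat_lit 0) (nat_lit 58846006884) (nat_lit 152) (nat_lit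 126069549917) (nat_lit 0) (nat_lit 40378208101) (nat_lit 2) (nat_lit 5) (nat_lit 4) (nat_lit 4) (nat_lit 2) (nat_lit 4) (nat_lit 345) (nat_lit 234) (nat_lit 141))) (XT.nd (nat_lit 78) (nat_lit 0) (nat_lit 0) (XT.lf (nat_lit 0) (nat_lit 65415622281) (nat_lit 152) (nat_lit 123972558848) (nat_lit 0) (nat_lit 46938311689) (nat_lit 2) (nat_lit 5) (nat_lit 4) (nat_lit 4) (nat_lit 2) (nat_lit 4) (nat_lit 346) (nat_lit 234) (nat_lit 140)) (XT.lf (nat_lit 0) (nat_lit 72309274266) (nat_lit 152) (nat_lit 121778904091) (nat_lit 0) (nat_lit 53822904808) (nat_lit 2) (nat_lit 5) (nat_lit 4) (nat_lit 4) (nat_lit 2) (nat_lit 4) (nat_lit 347) (nat_lit 234) (nat_lit 139)))) (XT.nd (nat_lit 156) (nat_lit 0) (nat_lit 0) (XT.nd (nat_lit 78) (nat_lit 0) (nat_lit 0) (XT.lf (nat_lit 0) (nat_lit 79543376296) (nat_lit 152) (nat_lit 119483362659) (nat_lit 0) (nat_lit 61048379346) (nat_lit 2) (nat_lit 5) (nat_lit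 4) (nat_lit 4) (nat_lit 2) (nat_lit 4) (nat_lit 348) (nat_lit 234) (nat_lit 138)) (XT.lf (nat_lit 0) (nat_lit 87135152423) (nat_lit 152) (nat_lit 117080468975) (nat_lit 0) (nat_lit 68631938815) (nat_lit 2) (nat_lit 5) (nat_lit 4) (nat_lit 4) (nat_lit 2) (nat_lit 4) (nat_lit 349) (nat_lit 234) (nat_lit 137))) (XT.nd (nat_lit 78) (nat_lit 0) (nat_lit 0) (XT.lf (nat_lit 0) (nat_lit 95102678305) (nat_lit 152) (nat_lit 114564501866) (nat_lit 0) (nat_lit 76591639307) (nat_lit 2) (nat_lit 5) (nat_lit 4) (nat_lit 4) (nat_lit 2) (nat_lit 4) (nat_lit 350) (nat_lit 234) (nat_lit 136)) (XT.nd (nat_lit 78) (nat_lit 0) (nat_lit 0) (XT.lf (nat_lit 0) (nat_lit 103464924241) (nat_lit 152) (nat_lit 111929470932) (nat_lit 0) (nat_lit 84946432492) (nat_lit 2) (nat_lit 5) (nat_lit 4) (nat_lit 4) (nat_lit 2) (nat_lit 4) (nat_lit 351) (nat_lit 234) (nat_lit 135)) (XT.lf (nat_lit 0) (nat_lit 112241800342)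 (nat_lit 152) (nat_lit 109169102291) (nat_lit 0) (nat_lit 93716210734) (nat_lit 2) (nat_lit 5) (nat_lit 4) (nat_lit 4) (nat_lit 2) (nat_lit 4) (nat_lit 352) (nat_lit 234) (nat_lit 134)))))) (XT.nd (nat_lit 312) (nat_lit 0) (nat_lit 0) (XT.nd (nat_lit 156) (nat_lit 0) (nat_lit 0) (XT.nd (nat_lit 78) (nat_lit 0) (nat_lit 0) (XT.lf (nat_lit 0) (nat_lit 121454203930) (nat_lit 152) (nat_lit 106276823637) (nat_lit 0) (nat_lit 102921854457) (nat_lit 2) (nat_lit 5) (nat_lit 4) (nat_lit 4) (nat_lit 2) (nat_lit 4) (nat_lit 353) (nat_lit 234) (nat_lit 133)) (XT.lf (nat_lit 0) (nat_lit 131124069300) (nat_lit 152) (nat_lit 103245748591) (nat_lit 0) (nat_lit 112585281860) (nat_lit 2) (nat_lit 5) (nat_lit 4) (nat_lit 4) (nat_lit 2) (nat_lit 4) (nat_lit 354) (nat_lit 234) (nat_lit 132))) (XT.nd (nat_lit 78) (nat_lit 0) (nat_lit 0) (XT.lf (nat_lit 0) (nat_lit 141274419941) (nat_lit 152) (nat_lit 100068660309)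 (nat_lit 0) (nat_lit 122729501104) (nat_lit 2) (nat_lit 5) (nat_lit 4) (nat_lit 4) (nat_lit 2) (nat_lit 4) (nat_lit 355) (nat_lit 234) (nat_lit 131)) (XT.lf (nat_lit 0) (nat_lit 151929423355) (nat_lit 152) (nat_lit 96737994294) (nat_lit 0) (nat_lit 133378665092) (nat_lit 2) (nat_lit 5) (nat_lit 4) (nat_lit 4) (nat_lit 2) (nat_lit 4) (nat_lit 356) (nat_lit 234) (nat_lit 130)))) (XT.nd (nat_lit 156) (nat_lit 0) (nat_lit 0) (XT.nd (nat_lit 78) (nat_lit 0) (nat_lit 0) (XT.lf (nat_lit 0) (nat_lit 163114448598) (nat_lit 152) (nat_lit 93245820389) (nat_lit 0) (nat_lit 144558128976) (nat_lit 2) (nat_lit 5) (nat_lit 4) (nat_lit 4) (nat_lit 2) (nat_lit 4) (nat_lit 357) (nat_lit 234) (nat_lit 129)) (XT.lf (nat_lit 0) (nat_lit 174856126681) (nat_lit 152) (nat_lit 89583823895) (nat_lit 0) (nat_lit 156294510528) (nat_lit 2) (nat_lit 5) (nat_lit 4) (nat_lit 4) (nat_lit 2) (nat_lit 4) (nat_lit 358)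 (nat_lit 234) (nat_lit 128))) (XT.nd (nat_lit 78) (nat_lit 0) (nat_lit 0) (XT.lf (nat_lit 0) (nat_lit 187182413981) (nat_lit 152) (nat_lit 85743285772) (nat_lit 0) (nat_lit 168615753513) (nat_lit 2) (nat_lit 5) (nat_lit 4) (nat_lit 4) (nat_lit 2) (nat_lit 4) (nat_lit 359) (nat_lit 234) (nat_lit 127)) (XT.nd (nat_lit 78) (nat_lit 0) (nat_lit 0) (XT.lf (nat_lit 0) (nat_lit 200122658802) (nat_lit 152) (nat_lit 81715061882) (nat_lit 0) (nat_lit 181551194224) (nat_lit 2) (nat_lit 5) (nat_lit 4) (nat_lit 4) (nat_lit 2) (nat_lit 4) (nat_lit 360) (nat_lit 234) (nat_lit 126)) (XT.lf (nat_lit 0) (nat_lit 213707671250) (nat_lit 152) (nat_lit 77489561216) (nat_lit 0) (nat_lit 195131631329) (nat_lit 2) (nat_lit 5) (nat_lit 4) (nat_lit 4) (nat_lit 2) (nat_lit 4) (nat_lit 361) (nat_lit 234) (nat_lit 125))))))))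
noncomputable def xc92 : XT := (XT.nd (nat_lit 1326) (nat_lit 2052) (nat_lit 0) (XT.nd (nat_lit 624) (nat_lit 1748) (nat_lit 0) (XT.nd (nat_lit 312) (nat_lit 1976) (nat_lit 0) (XT.nd (nat_lit 156) (nat_lit 456) (nat_lit 0) (XT.nd (nat_lit 78) (nat_lit 76) (nat_lit 0) (XT.lf (nat_lit 0) (nat_lit 631119175) (nat_lit 380) (nat_lit 1373796762) (nat_lit 380) (nat_lit 1373796762) (nat_lit 103) (nat_lit 4) (nat_lit 108) (nat_lit 5) (nat_lit 108) (nat_lit 4) (nat_lit 250) (nat_lit 235) (nat_lit 235)) (XT.lf (nat_lit 0) (nat_lit 206580712) (nat_lit 456) (nat_lit 1516933992) (nat_lit 76) (nat_lit 5103449936) (nat_lit 102) (nat_lit 5) (nat_lit 108) (nat_lit 5) (nat_lit 103) (nat_lit 4) (nat_lit 251) (nat_lit 235) (nat_lit 234))) (XT.nd (nat_lit 78) (nat_lit 0) (nat_lit 0) (XT.lf (nat_lit 0) (nat_lit 2565803607) (nat_lit 456) (nat_lit 533831195) (nat_lit 532) (nat_lit 3804661729) (nat_lit 96) (nat_lit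 5) (nat_lit 102) (nat_lit 5) (nat_lit 103) (nat_lit 4) (nat_lit 252) (nat_lit 235) (nat_lit 233)) (XT.lf (nat_lit 0) (nat_lit 6023844083) (nat_lit 532) (nat_lit 228446632) (nat_lit 0) (nat_lit 739587017) (nat_lit 96) (nat_lit 5) (nat_lit 103) (nat_lit 4) (nat_lit 96) (nat_lit 4) (nat_lit 253) (nat_lit 235) (nat_lit 232)))) (XT.nd (nat_lit 156) (nat_lit 760) (nat_lit 0) (XT.nd (nat_lit 78) (nat_lit 608) (nat_lit 0) (XT.lf (nat_lit 0) (nat_lit 1873074425) (nat_lit 608) (nat_lit 3040846491) (nat_lit 76) (nat_lit 2172639949) (nat_lit 88) (nat_lit 5) (nat_lit 96) (nat_lit 5) (nat_lit 89) (nat_lit 4) (nat_lit 254) (nat_lit 235) (nat_lit 231)) (XT.lf (nat_lit 0) (nat_lit 1245052018) (nat_lit 608) (nat_lit 3460350135) (nat_lit 684) (nat_lit 2486309163) (nat_lit 80) (nat_lit 5) (nat_lit 88) (nat_lit 5) (nat_lit 89) (nat_lit 4) (nat_lit 255) (nat_lit 235) (nat_lit 230))) (XT.nd (nat_lit 78) (nat_lit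 684) (nat_lit 0) (XT.lf (nat_lit 0) (nat_lit 277690665) (nat_lit 684) (nat_lit 1593062189) (nat_lit 76) (nat_lit 5435999701) (nat_lit 79) (nat_lit 5) (nat_lit 88) (nat_lit 5) (nat_lit 80) (nat_lit 5) (nat_lit 256) (nat_lit 235) (nat_lit 229)) (XT.lf (nat_lit 0) (nat_lit 2899199740) (nat_lit 684) (nat_lit 109251342) (nat_lit 760) (nat_lit 4421979172) (nat_lit 70) (nat_lit 5) (nat_lit 79) (nat_lit 5) (nat_lit 80) (nat_lit 5) (nat_lit 257) (nat_lit 235) (nat_lit 228))))) (XT.nd (nat_lit 312) (nat_lit 988) (nat_lit 0) (XT.nd (nat_lit 156) (nat_lit 380) (nat_lit 0) (XT.nd (nat_lit 78) (nat_lit 380) (nat_lit 0) (XT.lf (nat_lit 0) (nat_lit 5801520245) (nat_lit 760) (nat_lit 51051190) (nat_lit 76) (nat_lit 1711934914) (nat_lit 70) (nat_lit 5) (nat_lit 80) (nat_lit 5) (nat_lit 71) (nat_lit 4) (nat_lit 258) (nat_lit 235) (nat_lit 227)) (XT.lf (nat_lit 0) (nat_lit 946811263) (nat_lit 380) (nat_lit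 3051979405) (nat_lit 76) (nat_lit 3708609230) (nat_lit 65) (nat_lit 5) (nat_lit 70) (nat_lit 5) (nat_lit 66) (nat_lit 5) (nat_lit 259) (nat_lit 235) (nat_lit 226))) (XT.nd (nat_lit 78) (nat_lit 0) (nat_lit 0) (XT.lf (nat_lit 0) (nat_lit 1633187702) (nat_lit 380) (nat_lit 2004817189) (nat_lit 456) (nat_lit 4223165000) (nat_lit 60) (nat_lit 5) (nat_lit 65) (nat_lit 5) (nat_lit 66) (nat_lit 5) (nat_lit 260) (nat_lit 235) (nat_lit 225)) (XT.lf (nat_lit 0) (nat_lit 6400015090) (nat_lit 456) (nat_lit 1499442314) (nat_lit 76) (nat_lit 126771994) (nat_lit 60) (nat_lit 5) (nat_lit 66) (nat_lit 5) (nat_lit 61) (nat_lit 4) (nat_lit 261) (nat_lit 235) (nat_lit 224)))) (XT.nd (nat_lit 156) (nat_lit 304) (nat_lit 0) (XT.nd (nat_lit 78) (nat_lit 304) (nat_lit 0) (XT.lf (nat_lit 0) (nat_lit 1038636896) (nat_lit 380) (nat_lit 4805371496) (nat_lit 76) (nat_lit 2356385784) (nat_lit 55) (nat_lit 5) (nat_lit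 60) (nat_lit 5) (nat_lit 56) (nat_lit 5) (nat_lit 262) (nat_lit 235) (nat_lit 223)) (XT.lf (nat_lit 0) (nat_lit 47506627) (nat_lit 304) (nat_lit 3650267977) (nat_lit 380) (nat_lit 4688732361) (nat_lit 51) (nat_lit 5) (nat_lit 55) (nat_lit 5) (nat_lit 56) (nat_lit 5) (nat_lit 263) (nat_lit 235) (nat_lit 222))) (XT.nd (nat_lit 78) (nat_lit 304) (nat_lit 0) (XT.lf (nat_lit 0) (nat_lit 5180767566) (nat_lit 304) (nat_lit 1282889924) (nat_lit 380) (nat_lit 2119918973) (nat_lit 51) (nat_lit 5) (nat_lit 55) (nat_lit 5) (nat_lit 56) (nat_lit 5) (nat_lit 264) (nat_lit 235) (nat_lit 221)) (XT.nd (nat_lit 78) (nat_lit 0) (nat_lit 0) (XT.lf (nat_lit 0) (nat_lit 499932465) (nat_lit 304) (nat_lit 7114426209) (nat_lit 76) (nat_lit 1178945111) (nat_lit 47) (nat_lit 5) (nat_lit 51) (nat_lit 5) (nat_lit 48) (nat_lit 5) (nat_lit 265) (nat_lit 235) (nat_lit 220)) (XT.lf (nat_lit 0) (nat_lit 3157339376)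 (nat_lit 304) (nat_lit 2064246165) (nat_lit 76) (nat_lit 3791598113) (nat_lit 47) (nat_lit 5) (nat_lit 51) (nat_lit 5) (nat_lit 48) (nat_lit 5) (nat_lit 266) (nat_lit 235) (nat_lit 219))))))) (XT.nd (nat_lit 702) (nat_lit 760) (nat_lit 0) (XT.nd (nat_lit 312) (nat_lit 456) (nat_lit 0) (XT.nd (nat_lit 156) (nat_lit 532) (nat_lit 0) (XT.nd (nat_lit 78) (nat_lit 0) (nat_lit 0) (XT.lf (nat_lit 0) (nat_lit 3217944006) (nat_lit 304) (nat_lit 2682963422) (nat_lit 380) (nat_lit 3345765664) (nat_lit 43) (nat_lit 5) (nat_lit 47) (nat_lit 5) (nat_lit 48) (nat_lit 5) (nat_lit 267) (nat_lit 235) (nat_lit 218)) (XT.lf (nat_lit 0) (nat_lit 8714408297) (nat_lit 304) (nat_lit 7973971) (nat_lit 380) (nat_lit 772685090) (nat_lit 43) (nat_lit 5) (nat_lit 47) (nat_lit 5) (nat_lit 48) (nat_lit 5) (nat_lit 268) (nat_lit 235) (nat_lit 217))) (XT.nd (nat_lit 78) (nat_lit 228) (nat_lit 0) (XT.lf (nat_lit 0)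 (nat_lit 1894732816) (nat_lit 304) (nat_lit 5068325294) (nat_lit 76) (nat_lit 2790188064) (nat_lit 39) (nat_lit 5) (nat_lit 43) (nat_lit 5) (nat_lit 40) (nat_lit 5) (nat_lit 269) (nat_lit 235) (nat_lit 216)) (XT.lf (nat_lit 0) (nat_lit 302579138) (nat_lit 228) (nat_lit 4295895412) (nat_lit 304) (nat_lit 5429010471) (nat_lit 36) (nat_lit 5) (nat_lit 39) (nat_lit 5) (nat_lit 40) (nat_lit 5) (nat_lit 270) (nat_lit 235) (nat_lit 215)))) (XT.nd (nat_lit 156) (nat_lit 304) (nat_lit 0) (XT.nd (nat_lit 78) (nat_lit 152) (nat_lit 0) (XT.lf (nat_lit 0) (nat_lit 5998645549) (nat_lit 228) (nat_lit 1437612701) (nat_lit 304) (nat_lit 2879454295) (nat_lit 36) (nat_lit 5) (nat_lit 39) (nat_lit 5) (nat_lit 40) (nat_lit 5) (nat_lit 271) (nat_lit 235) (nat_lit 214)) (XT.lf (nat_lit 0) (nat_lit 1259534183) (nat_lit 152) (nat_lit 9117154732) (nat_lit 228) (nat_lit 243833670) (nat_lit 34) (nat_lit 5) (nat_lit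 36) (nat_lit 5) (nat_lit 37) (nat_lit 4) (nat_lit 272) (nat_lit 235) (nat_lit 213))) (XT.nd (nat_lit 78) (nat_lit 228) (nat_lit 0) (XT.lf (nat_lit 0) (nat_lit 2457995674) (nat_lit 228) (nat_lit 3854797636) (nat_lit 76) (nat_lit 4625239528) (nat_lit 33) (nat_lit 5) (nat_lit 36) (nat_lit 5) (nat_lit 34) (nat_lit 5) (nat_lit 273) (nat_lit 235) (nat_lit 212)) (XT.nd (nat_lit 78) (nat_lit 0) (nat_lit 0) (XT.lf (nat_lit 0) (nat_lit 1869632559) (nat_lit 228) (nat_lit 3367536895) (nat_lit 304) (nat_lit 6036707483) (nat_lit 30) (nat_lit 5) (nat_lit 33) (nat_lit 5) (nat_lit 34) (nat_lit 5) (nat_lit 274) (nat_lit 235) (nat_lit 211)) (XT.lf (nat_lit 0) (nat_lit 7903022555) (nat_lit 228) (nat_lit 240834615) (nat_lit 304) (nat_lit 3483400276) (nat_lit 30) (nat_lit 5) (nat_lit 33) (nat_lit 5) (nat_lit 34) (nat_lit 5) (nat_lit 275) (nat_lit 235) (nat_lit 210)))))) (XT.nd (nat_lit 312) (nat_lit 380)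 (nat_lit 0) (XT.nd (nat_lit 156) (nat_lit 152) (nat_lit 0) (XT.nd (nat_lit 78) (nat_lit 76) (nat_lit 0) (XT.lf (nat_lit 0) (nat_lit 2152048748) (nat_lit 152) (nat_lit 9051342454) (nat_lit 228) (nat_lit 794703959) (nat_lit 28) (nat_lit 5) (nat_lit 30) (nat_lit 5) (nat_lit 31) (nat_lit 4) (nat_lit 276) (nat_lit 235) (nat_lit 209)) (XT.lf (nat_lit 0) (nat_lit 1958474444) (nat_lit 228) (nat_lit 4079442330) (nat_lit 76) (nat_lit 6348374587) (nat_lit 27) (nat_lit 5) (nat_lit 30) (nat_lit 5) (nat_lit 28) (nat_lit 5) (nat_lit 277) (nat_lit 235) (nat_lit 208))) (XT.nd (nat_lit 78) (nat_lit 0) (nat_lit 0) (XT.lf (nat_lit 0) (nat_lit 1919211492) (nat_lit 152) (nat_lit 2863753296) (nat_lit 228) (nat_lit 8012404649) (nat_lit 25) (nat_lit 5) (nat_lit 27) (nat_lit 5) (nat_lit 28) (nat_lit 5) (nat_lit 278) (nat_lit 235) (nat_lit 207)) (XT.lf (nat_lit 0) (nat_lit 7757778421) (nat_lit 228) (nat_lit 4976449466)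 (nat_lit 76) (nat_lit 490353334) (nat_lit 25) (nat_lit 5) (nat_lit 28) (nat_lit 5) (nat_lit 26) (nat_lit 4) (nat_lit 279) (nat_lit 235) (nat_lit 206)))) (XT.nd (nat_lit 156) (nat_lit 152) (nat_lit 0) (XT.nd (nat_lit 78) (nat_lit 76) (nat_lit 0) (XT.lf (nat_lit 0) (nat_lit 1105762672) (nat_lit 152) (nat_lit 9774594802) (nat_lit 228) (nat_lit 2795073205) (nat_lit 23) (nat_lit 5) (nat_lit 25) (nat_lit 5) (nat_lit 26) (nat_lit 4) (nat_lit 280) (nat_lit 235) (nat_lit 205)) (XT.lf (nat_lit 0) (nat_lit 30781460) (nat_lit 228) (nat_lit 6582850937) (nat_lit 76) (nat_lit 7534255291) (nat_lit 22) (nat_lit 5) (nat_lit 25) (nat_lit 5) (nat_lit 23) (nat_lit 5) (nat_lit 281) (nat_lit 235) (nat_lit 204))) (XT.nd (nat_lit 78) (nat_lit 152) (nat_lit 0) (XT.lf (nat_lit 0) (nat_lit 2842287718) (nat_lit 228) (nat_lit 439235052) (nat_lit 76) (nat_lit 11363350002) (nat_lit 22) (nat_lit 5) (nat_lit 25) (nat_lit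 5) (nat_lit 23) (nat_lit 5) (nat_lit 282) (nat_lit 235) (nat_lit 203)) (XT.nd (nat_lit 78) (nat_lit 0) (nat_lit 0) (XT.lf (nat_lit 0) (nat_lit 5835509895) (nat_lit 228) (nat_lit 9054243103) (nat_lit 76) (nat_lit 275002655) (nat_lit 20) (nat_lit 5) (nat_lit 23) (nat_lit 5) (nat_lit 21) (nat_lit 4) (nat_lit 283) (nat_lit 235) (nat_lit 202)) (XT.lf (nat_lit 0) (nat_lit 8981843939) (nat_lit 228) (nat_lit 2854261863) (nat_lit 76) (nat_lit 3874454883) (nat_lit 20) (nat_lit 5) (nat_lit 23) (nat_lit 5) (nat_lit 21) (nat_lit 4) (nat_lit 284) (nat_lit 235) (nat_lit 201))))))))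
noncomputable def xc93 : XT := (XT.nd (nat_lit 1326) (nat_lit 304) (nat_lit 0) (XT.nd (nat_lit 624) (nat_lit 456) (nat_lit 0) (XT.nd (nat_lit 312) (nat_lit 76) (nat_lit 0) (XT.nd (nat_lit 156) (nat_lit 228) (nat_lit 0) (XT.nd (nat_lit 78) (nat_lit 0) (nat_lit 0) (XT.lf (nat_lit 0) (nat_lit 3685013795) (nat_lit 76) (nat_lit 8602866377) (nat_lit 152) (nat_lit 3995752280) (nat_lit 19) (nat_lit 5) (nat_lit 20) (nat_lit 5) (nat_lit 21) (nat_lit 4) (nat_lit 285) (nat_lit 235) (nat_lit 200)) (XT.lf (nat_lit 0) (nat_lit 10563128475) (nat_lit 76) (nat_lit 5190544512) (nat_lit 152) (nat_lit 1132053279) (nat_lit 19) (nat_lit 5) (nat_lit 20) (nat_lit 5) (nat_lit 21) (nat_lit 4) (nat_lit 286) (nat_lit 235) (nat_lit 199))) (XT.nd (nat_lit 78) (nat_lit 0) (nat_lit 0) (XT.lf (nat_lit 0) (nat_lit 158139046) (nat_lit 152) (nat_lit 1606911326) (nat_lit 228) (nat_lit 15753982251) (nat_lit 16) (nat_lit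 5) (nat_lit 18) (nat_lit 5) (nat_lit 19) (nat_lit 5) (nat_lit 287) (nat_lit 235) (nat_lit 198)) (XT.lf (nat_lit 0) (nat_lit 4859890494) (nat_lit 228) (nat_lit 11135836064) (nat_lit 76) (nat_lit 2182882321) (nat_lit 16) (nat_lit 5) (nat_lit 19) (nat_lit 5) (nat_lit 17) (nat_lit 4) (nat_lit 288) (nat_lit 235) (nat_lit 197)))) (XT.nd (nat_lit 156) (nat_lit 0) (nat_lit 0) (XT.nd (nat_lit 78) (nat_lit 76) (nat_lit 0) (XT.lf (nat_lit 0) (nat_lit 8086705339) (nat_lit 228) (nat_lit 4707422132) (nat_lit 76) (nat_lit 6078249871) (nat_lit 16) (nat_lit 5) (nat_lit 19) (nat_lit 5) (nat_lit 17) (nat_lit 4) (nat_lit 289) (nat_lit 235) (nat_lit 196)) (XT.lf (nat_lit 0) (nat_lit 2029705610) (nat_lit 76) (nat_lit 9430073192) (nat_lit 152) (nat_lit 8141880988) (nat_lit 15) (nat_lit 5) (nat_lit 16) (nat_lit 5) (nat_lit 17) (nat_lit 4) (nat_lit 290) (nat_lit 235) (nat_lit 195))) (XT.nd (nat_lit 78) (nat_lit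 0) (nat_lit 0) (XT.lf (nat_lit 0) (nat_lit 9190703410) (nat_lit 76) (nat_lit 5844787608) (nat_lit 152) (nat_lit 5330284140) (nat_lit 15) (nat_lit 5) (nat_lit 16) (nat_lit 5) (nat_lit 17) (nat_lit 4) (nat_lit 291) (nat_lit 235) (nat_lit 194)) (XT.lf (nat_lit 0) (nat_lit 16636972627) (nat_lit 76) (nat_lit 2109456799) (nat_lit 152) (nat_lit 2423909653) (nat_lit 15) (nat_lit 5) (nat_lit 16) (nat_lit 5) (nat_lit 17) (nat_lit 4) (nat_lit 292) (nat_lit 235) (nat_lit 193))))) (XT.nd (nat_lit 312) (nat_lit 152) (nat_lit 0) (XT.nd (nat_lit 156) (nat_lit 76) (nat_lit 0) (XT.nd (nat_lit 78) (nat_lit 0) (nat_lit 0) (XT.lf (nat_lit 0) (nat_lit 632167157) (nat_lit 228) (nat_lit 19605665127) (nat_lit 76) (nat_lit 1775643796) (nat_lit 12) (nat_lit 5) (nat_lit 15) (nat_lit 5) (nat_lit 13) (nat_lit 4) (nat_lit 293) (nat_lit 235) (nat_lit 192)) (XT.lf (nat_lit 0) (nat_lit 3830459588) (nat_lit 228) (nat_lit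 13188376976) (nat_lit 76) (nat_lit 5874458991) (nat_lit 12) (nat_lit 5) (nat_lit 15) (nat_lit 5) (nat_lit 13) (nat_lit 4) (nat_lit 294) (nat_lit 235) (nat_lit 191))) (XT.nd (nat_lit 78) (nat_lit 76) (nat_lit 0) (XT.lf (nat_lit 0) (nat_lit 7148910852) (nat_lit 228) (nat_lit 6518134107) (nat_lit 76) (nat_lit 10152102156) (nat_lit 12) (nat_lit 5) (nat_lit 15) (nat_lit 5) (nat_lit 13) (nat_lit 4) (nat_lit 295) (nat_lit 235) (nat_lit 190)) (XT.lf (nat_lit 0) (nat_lit 434863354) (nat_lit 76) (nat_lit 10167348104) (nat_lit 152) (nat_lit 14190684238) (nat_lit 11) (nat_lit 5) (nat_lit 12) (nat_lit 5) (nat_lit 13) (nat_lit 4) (nat_lit 296) (nat_lit 235) (nat_lit 189)))) (XT.nd (nat_lit 156) (nat_lit 152) (nat_lit 0) (XT.nd (nat_lit 78) (nat_lit 0) (nat_lit 0) (XT.lf (nat_lit 0) (nat_lit 7898172851) (nat_lit 76) (nat_lit 6403338841) (nat_lit 152) (nat_lit 11510201648) (nat_lit 11) (nat_lit 5)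 (nat_lit 12) (nat_lit 5) (nat_lit 13) (nat_lit 4) (nat_lit 297) (nat_lit 235) (nat_lit 188)) (XT.lf (nat_lit 0) (nat_lit 15674045219) (nat_lit 76) (nat_lit 2476442997) (nat_lit 152) (nat_lit 8732794147) (nat_lit 11) (nat_lit 5) (nat_lit 12) (nat_lit 5) (nat_lit 13) (nat_lit 4) (nat_lit 298) (nat_lit 235) (nat_lit 187))) (XT.nd (nat_lit 78) (nat_lit 152) (nat_lit 0) (XT.lf (nat_lit 0) (nat_lit 22183639986) (nat_lit 152) (nat_lit 4254494409) (nat_lit 0) (nat_lit 1570752989) (nat_lit 11) (nat_lit 5) (nat_lit 13) (nat_lit 4) (nat_lit 11) (nat_lit 4) (nat_lit 299) (nat_lit 235) (nat_lit 186)) (XT.nd (nat_lit 78) (nat_lit 76) (nat_lit 0) (XT.lf (nat_lit 0) (nat_lit 3048713874) (nat_lit 76) (nat_lit 23425565476) (nat_lit 76) (nat_lit 2713743585) (nat_lit 10) (nat_lit 4) (nat_lit 11) (nat_lit 5) (nat_lit 11) (nat_lit 4) (nat_lit 300) (nat_lit 235) (nat_lit 185)) (XT.lf (nat_lit 0) (nat_lit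 576611102) (nat_lit 152) (nat_lit 19623992841) (nat_lit 76) (nat_lit 10223067966) (nat_lit 9) (nat_lit 5) (nat_lit 11) (nat_lit 5) (nat_lit 10) (nat_lit 4) (nat_lit 301) (nat_lit 235) (nat_lit 184))))))) (XT.nd (nat_lit 702) (nat_lit 152) (nat_lit 0) (XT.nd (nat_lit 312) (nat_lit 76) (nat_lit 0) (XT.nd (nat_lit 156) (nat_lit 76) (nat_lit 0) (XT.nd (nat_lit 78) (nat_lit 0) (nat_lit 0) (XT.lf (nat_lit 0) (nat_lit 3909572297) (nat_lit 152) (nat_lit 12881159256) (nat_lit 76) (nat_lit 14929719070) (nat_lit 9) (nat_lit 5) (nat_lit 11) (nat_lit 5) (nat_lit 10) (nat_lit 4) (nat_lit 302) (nat_lit 235) (nat_lit 183)) (XT.lf (nat_lit 0) (nat_lit 7379932366) (nat_lit 152) (nat_lit 5852384797) (nat_lit 76) (nat_lit 19851247940) (nat_lit 9) (nat_lit 5) (nat_lit 11) (nat_lit 5) (nat_lit 10) (nat_lit 4) (nat_lit 303) (nat_lit 235) (nat_lit 182))) (XT.nd (nat_lit 78) (nat_lit 0) (nat_lit 0) (XT.lf (nat_lit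 0) (nat_lit 1527970302) (nat_lit 76) (nat_lit 9491839665) (nat_lit 152) (nat_lit 23495258100) (nat_lit 8) (nat_lit 5) (nat_lit 9) (nat_lit 5) (nat_lit 10) (nat_lit 4) (nat_lit 304) (nat_lit 235) (nat_lit 181)) (XT.lf (nat_lit 0) (nat_lit 9432548565) (nat_lit 76) (nat_lit 5480966934) (nat_lit 152) (nat_lit 21101070152) (nat_lit 8) (nat_lit 5) (nat_lit 9) (nat_lit 5) (nat_lit 10) (nat_lit 4) (nat_lit 305) (nat_lit 235) (nat_lit 180)))) (XT.nd (nat_lit 156) (nat_lit 76) (nat_lit 0) (XT.nd (nat_lit 78) (nat_lit 0) (nat_lit 0) (XT.lf (nat_lit 0) (nat_lit 17686664143) (nat_lit 76) (nat_lit 1289262244) (nat_lit 152) (nat_lit 18614481416) (nat_lit 8) (nat_lit 5) (nat_lit 9) (nat_lit 5) (nat_lit 10) (nat_lit 4) (nat_lit 306) (nat_lit 235) (nat_lit 179)) (XT.lf (nat_lit 0) (nat_lit 23265009411) (nat_lit 152) (nat_lit 12984611160) (nat_lit 0) (nat_lit 2994251188) (nat_lit 8) (nat_lit 5) (nat_lit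 10) (nat_lit 4) (nat_lit 8) (nat_lit 4) (nat_lit 307) (nat_lit 235) (nat_lit 178))) (XT.nd (nat_lit 78) (nat_lit 76) (nat_lit 0) (XT.lf (nat_lit 0) (nat_lit 27765838336) (nat_lit 152) (nat_lit 5783027124) (nat_lit 0) (nat_lit 7431305798) (nat_lit 8) (nat_lit 5) (nat_lit 10) (nat_lit 4) (nat_lit 8) (nat_lit 4) (nat_lit 308) (nat_lit 235) (nat_lit 177)) (XT.nd (nat_lit 78) (nat_lit 0) (nat_lit 0) (XT.lf (nat_lit 0) (nat_lit 1795759594) (nat_lit 76) (nat_lit 30701277669) (nat_lit 76) (nat_lit 10306007688) (nat_lit 7) (nat_lit 4) (nat_lit 8) (nat_lit 5) (nat_lit 8) (nat_lit 4) (nat_lit 309) (nat_lit 235) (nat_lit 176)) (XT.lf (nat_lit 0) (nat_lit 9914558091) (nat_lit 76) (nat_lit 27625929625) (nat_lit 76) (nat_lit 7172814460) (nat_lit 7) (nat_lit 4) (nat_lit 8) (nat_lit 5) (nat_lit 8) (nat_lit 4) (nat_lit 310) (nat_lit 235) (nat_lit 175)))))) (XT.nd (nat_lit 312) (nat_lit 76) (nat_lit 0)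 (XT.nd (nat_lit 156) (nat_lit 76) (nat_lit 0) (XT.nd (nat_lit 78) (nat_lit 0) (nat_lit 0) (XT.lf (nat_lit 0) (nat_lit 18401485846) (nat_lit 76) (nat_lit 24413437435) (nat_lit 76) (nat_lit 3905231619) (nat_lit 7) (nat_lit 4) (nat_lit 8) (nat_lit 5) (nat_lit 8) (nat_lit 4) (nat_lit 311) (nat_lit 235) (nat_lit 174)) (XT.lf (nat_lit 0) (nat_lit 27276749828) (nat_lit 76) (nat_lit 21056152307) (nat_lit 76) (nat_lit 495479203) (nat_lit 7) (nat_lit 4) (nat_lit 8) (nat_lit 5) (nat_lit 8) (nat_lit 4) (nat_lit 312) (nat_lit 235) (nat_lit 173))) (XT.nd (nat_lit 78) (nat_lit 0) (nat_lit 0) (XT.lf (nat_lit 0) (nat_lit 2966476144) (nat_lit 152) (nat_lit 14529365851) (nat_lit 76) (nat_lit 33544766766) (nat_lit 6) (nat_lit 5) (nat_lit 8) (nat_lit 5) (nat_lit 7) (nat_lit 4) (nat_lit 313) (nat_lit 235) (nat_lit 172)) (XT.lf (nat_lit 0) (nat_lit 6566255932) (nat_lit 152) (nat_lit 7197406661) (nat_lit 76)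 (nat_lit 39600329069) (nat_lit 6) (nat_lit 5) (nat_lit 8) (nat_lit 5) (nat_lit 7) (nat_lit 4) (nat_lit 314) (nat_lit 235) (nat_lit 171)))) (XT.nd (nat_lit 156) (nat_lit 0) (nat_lit 0) (XT.nd (nat_lit 78) (nat_lit 0) (nat_lit 0) (XT.lf (nat_lit 0) (nat_lit 484960695) (nat_lit 76) (nat_lit 9850900394) (nat_lit 152) (nat_lit 45468209029) (nat_lit 5) (nat_lit 5) (nat_lit 6) (nat_lit 5) (nat_lit 7) (nat_lit 4) (nat_lit 315) (nat_lit 235) (nat_lit 170)) (XT.lf (nat_lit 0) (nat_lit 8770124039) (nat_lit 76) (nat_lit 5628336226) (nat_lit 152) (nat_lit 43962483903) (nat_lit 5) (nat_lit 5) (nat_lit 6) (nat_lit 5) (nat_lit 7) (nat_lit 4) (nat_lit 316) (nat_lit 235) (nat_lit 169))) (XT.nd (nat_lit 78) (nat_lit 0) (nat_lit 0) (XT.lf (nat_lit 0) (nat_lit 17439831181) (nat_lit 76) (nat_lit 1207807930) (nat_lit 152) (nat_lit 42398866857) (nat_lit 5) (nat_lit 5) (nat_lit 6) (nat_lit 5) (nat_lit 7) (nat_lit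 4) (nat_lit 317) (nat_lit 235) (nat_lit 168)) (XT.nd (nat_lit 78) (nat_lit 0) (nat_lit 0) (XT.lf (nat_lit 0) (nat_lit 23146929389) (nat_lit 152) (nat_lit 37405840102) (nat_lit 0) (nat_lit 3311709489) (nat_lit 5) (nat_lit 5) (nat_lit 7) (nat_lit 4) (nat_lit 5) (nat_lit 4) (nat_lit 318) (nat_lit 235) (nat_lit 167)) (XT.lf (nat_lit 0) (nat_lit 27875786291) (nat_lit 152) (nat_lit 30942294776) (nat_lit 0) (nat_lit 8005054466) (nat_lit 5) (nat_lit 5) (nat_lit 7) (nat_lit 4) (nat_lit 5) (nat_lit 4) (nat_lit 319) (nat_lit 235) (nat_lit 166))))))))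
noncomputable def xc94 : XT := (XT.nd (nat_lit 1326) (nat_lit 76) (nat_lit 0) (XT.nd (nat_lit 624) (nat_lit 76) (nat_lit 0) (XT.nd (nat_lit 312) (nat_lit 76) (nat_lit 0) (XT.nd (nat_lit 156) (nat_lit 0) (nat_lit 0) (XT.nd (nat_lit 78) (nat_lit 0) (nat_lit 0) (XT.lf (nat_lit 0) (nat_lit 32826611734) (nat_lit 152) (nat_lit 24181792150) (nat_lit 0) (nat_lit 12922059028) (nat_lit 5) (nat_lit 5) (nat_lit 7) (nat_lit 4) (nat_lit 5) (nat_lit 4) (nat_lit 320) (nat_lit 235) (nat_lit 165)) (XT.lf (nat_lit 0) (nat_lit 38011193396) (nat_lit 152) (nat_lit 17108235789) (nat_lit 0) (nat_lit 18074430327) (nat_lit 5) (nat_lit 5) (nat_lit 7) (nat_lit 4) (nat_lit 5) (nat_lit 4) (nat_lit 321) (nat_lit 235) (nat_lit 164))) (XT.nd (nat_lit 78) (nat_lit 0) (nat_lit 0) (XT.lf (nat_lit 0) (nat_lit 43441875521) (nat_lit 152) (nat_lit 9704783893) (nat_lit 0) (nat_lit 23474435916) (nat_lit 5) (nat_lit 5) (nat_lit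 7) (nat_lit 4) (nat_lit 5) (nat_lit 4) (nat_lit 322) (nat_lit 235) (nat_lit 163)) (XT.lf (nat_lit 0) (nat_lit 49131588304) (nat_lit 152) (nat_lit 1953809194) (nat_lit 0) (nat_lit 29134932950) (nat_lit 5) (nat_lit 5) (nat_lit 7) (nat_lit 4) (nat_lit 5) (nat_lit 4) (nat_lit 323) (nat_lit 235) (nat_lit 162)))) (XT.nd (nat_lit 156) (nat_lit 0) (nat_lit 0) (XT.nd (nat_lit 78) (nat_lit 0) (nat_lit 0) (XT.lf (nat_lit 0) (nat_lit 6366924349) (nat_lit 76) (nat_lit 48826359862) (nat_lit 76) (nat_lit 28801879986) (nat_lit 4) (nat_lit 4) (nat_lit 5) (nat_lit 5) (nat_lit 5) (nat_lit 4) (nat_lit 324) (nat_lit 235) (nat_lit 161)) (XT.lf (nat_lit 0) (nat_lit 15150303106) (nat_lit 76) (nat_lit 46429178160) (nat_lit 76) (nat_lit 26378198739) (nat_lit 4) (nat_lit 4) (nat_lit 5) (nat_lit 5) (nat_lit 5) (nat_lit 4) (nat_lit 325) (nat_lit 235) (nat_lit 160))) (XT.nd (nat_lit 78) (nat_lit 0) (nat_lit 0) (XT.lf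 (nat_lit 0) (nat_lit 24352638126) (nat_lit 76) (nat_lit 43921233523) (nat_lit 76) (nat_lit 23845016440) (nat_lit 4) (nat_lit 4) (nat_lit 5) (nat_lit 5) (nat_lit 5) (nat_lit 4) (nat_lit 326) (nat_lit 235) (nat_lit 159)) (XT.lf (nat_lit 0) (nat_lit 33995839731) (nat_lit 76) (nat_lit 41296554653) (nat_lit 76) (nat_lit 21196301701) (nat_lit 4) (nat_lit 4) (nat_lit 5) (nat_lit 5) (nat_lit 5) (nat_lit 4) (nat_lit 327) (nat_lit 235) (nat_lit 158))))) (XT.nd (nat_lit 312) (nat_lit 76) (nat_lit 0) (XT.nd (nat_lit 156) (nat_lit 0) (nat_lit 0) (XT.nd (nat_lit 78) (nat_lit 0) (nat_lit 0) (XT.lf (nat_lit 0) (nat_lit 44102867925) (nat_lit 76) (nat_lit 38548892314) (nat_lit 76) (nat_lit 18425748058) (nat_lit 4) (nat_lit 4) (nat_lit 5) (nat_lit 5) (nat_lit 5) (nat_lit 4) (nat_lit 328) (nat_lit 235) (nat_lit 157)) (XT.lf (nat_lit 0) (nat_lit 54697787061) (nat_lit 76) (nat_lit 35671704454) (nat_lit 76)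 (nat_lit 15526758957) (nat_lit 4) (nat_lit 4) (nat_lit 5) (nat_lit 5) (nat_lit 5) (nat_lit 4) (nat_lit 329) (nat_lit 235) (nat_lit 156))) (XT.nd (nat_lit 78) (nat_lit 0) (nat_lit 0) (XT.lf (nat_lit 0) (nat_lit 65805823136) (nat_lit 76) (nat_lit 32658140624) (nat_lit 76) (nat_lit 12492432040) (nat_lit 4) (nat_lit 4) (nat_lit 5) (nat_lit 5) (nat_lit 5) (nat_lit 4) (nat_lit 330) (nat_lit 235) (nat_lit 155)) (XT.lf (nat_lit 0) (nat_lit 77453423856) (nat_lit 76) (nat_lit 29501025674) (nat_lit 76) (nat_lit 9315542722) (nat_lit 4) (nat_lit 4) (nat_lit 5) (nat_lit 5) (nat_lit 5) (nat_lit 4) (nat_lit 331) (nat_lit 235) (nat_lit 154)))) (XT.nd (nat_lit 156) (nat_lit 76) (nat_lit 0) (XT.nd (nat_lit 78) (nat_lit 0) (nat_lit 0) (XT.lf (nat_lit 0) (nat_lit 89668321603) (nat_lit 76) (nat_lit 26192842663) (nat_lit 76) (nat_lit 5988526979) (nat_lit 4) (nat_lit 4) (nat_lit 5) (nat_lit 5) (nat_lit 5)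 (nat_lit 4) (nat_lit 332) (nat_lit 235) (nat_lit 153)) (XT.lf (nat_lit 0) (nat_lit 102479599468) (nat_lit 76) (nat_lit 22725714965) (nat_lit 76) (nat_lit 2503463345) (nat_lit 4) (nat_lit 4) (nat_lit 5) (nat_lit 5) (nat_lit 5) (nat_lit 4) (nat_lit 333) (nat_lit 235) (nat_lit 152))) (XT.nd (nat_lit 78) (nat_lit 0) (nat_lit 0) (XT.lf (nat_lit 0) (nat_lit 1111204510) (nat_lit 152) (nat_lit 17961364216) (nat_lit 76) (nat_lit 114787737195) (nat_lit 3) (nat_lit 5) (nat_lit 5) (nat_lit 5) (nat_lit 4) (nat_lit 4) (nat_lit 334) (nat_lit 235) (nat_lit 151)) (XT.nd (nat_lit 78) (nat_lit 0) (nat_lit 0) (XT.lf (nat_lit 0) (nat_lit 4815183040) (nat_lit 152) (nat_lit 10384476651) (nat_lit 76) (nat_lit 125118069801) (nat_lit 3) (nat_lit 5) (nat_lit 5) (nat_lit 5) (nat_lit 4) (nat_lit 4) (nat_lit 335) (nat_lit 235) (nat_lit 150)) (XT.lf (nat_lit 0) (nat_lit 8697417703) (nat_lit 152) (nat_lit 2441389329)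 (nat_lit 76) (nat_lit 135959570583) (nat_lit 3) (nat_lit 5) (nat_lit 5) (nat_lit 5) (nat_lit 4) (nat_lit 4) (nat_lit 336) (nat_lit 235) (nat_lit 149))))))) (XT.nd (nat_lit 702) (nat_lit 0) (nat_lit 0) (XT.nd (nat_lit 312) (nat_lit 0) (nat_lit 0) (XT.nd (nat_lit 156) (nat_lit 0) (nat_lit 0) (XT.nd (nat_lit 78) (nat_lit 0) (nat_lit 0) (XT.lf (nat_lit 0) (nat_lit 6081454384) (nat_lit 76) (nat_lit 6780646075) (nat_lit 152) (nat_lit 141351546799) (nat_lit 2) (nat_lit 5) (nat_lit 3) (nat_lit 5) (nat_lit 4) (nat_lit 4) (nat_lit 337) (nat_lit 235) (nat_lit 148)) (XT.lf (nat_lit 0) (nat_lit 15103351547) (nat_lit 76) (nat_lit 2166529614) (nat_lit 152) (nat_lit 144413061685) (nat_lit 2) (nat_lit 5) (nat_lit 3) (nat_lit 5) (nat_lit 4) (nat_lit 4) (nat_lit 338) (nat_lit 235) (nat_lit 147))) (XT.nd (nat_lit 78) (nat_lit 0) (nat_lit 0) (XT.lf (nat_lit 0) (nat_lit 21933613141) (nat_lit 152) (nat_lit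 145002693634) (nat_lit 0) (nat_lit 2587623708) (nat_lit 2) (nat_lit 5) (nat_lit 4) (nat_lit 4) (nat_lit 2) (nat_lit 4) (nat_lit 339) (nat_lit 235) (nat_lit 146)) (XT.lf (nat_lit 0) (nat_lit 26860092970) (nat_lit 152) (nat_lit 143393437806) (nat_lit 0) (nat_lit 7501963790) (nat_lit 2) (nat_lit 5) (nat_lit 4) (nat_lit 4) (nat_lit 2) (nat_lit 4) (nat_lit 340) (nat_lit 235) (nat_lit 145)))) (XT.nd (nat_lit 156) (nat_lit 0) (nat_lit 0) (XT.nd (nat_lit 78) (nat_lit 0) (nat_lit 0) (XT.lf (nat_lit 0) (nat_lit 32027224762) (nat_lit 152) (nat_lit 141714166656) (nat_lit 0) (nat_lit 12657533919) (nat_lit 2) (nat_lit 5) (nat_lit 4) (nat_lit 4) (nat_lit 2) (nat_lit 4) (nat_lit 341) (nat_lit 235) (nat_lit 144)) (XT.lf (nat_lit 0) (nat_lit 37447311213) (nat_lit 152) (nat_lit 139960881918) (nat_lit 0) (nat_lit 18066609261) (nat_lit 2) (nat_lit 5) (nat_lit 4) (nat_lit 4) (nat_lit 2) (nat_lit 4) (nat_lit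 342) (nat_lit 235) (nat_lit 143))) (XT.nd (nat_lit 78) (nat_lit 0) (nat_lit 0) (XT.lf (nat_lit 0) (nat_lit 43133257290) (nat_lit 152) (nat_lit 138129409106) (nat_lit 0) (nat_lit 23742068569) (nat_lit 2) (nat_lit 5) (nat_lit 4) (nat_lit 4) (nat_lit 2) (nat_lit 4) (nat_lit 343) (nat_lit 235) (nat_lit 142)) (XT.nd (nat_lit 78) (nat_lit 0) (nat_lit 0) (XT.lf (nat_lit 0) (nat_lit 49098600961) (nat_lit 152) (nat_lit 136215387568) (nat_lit 0) (nat_lit 29697424839) (nat_lit 2) (nat_lit 5) (nat_lit 4) (nat_lit 4) (nat_lit 2) (nat_lit 4) (nat_lit 344) (nat_lit 235) (nat_lit 141)) (XT.lf (nat_lit 0) (nat_lit 55357545423) (nat_lit 152) (nat_lit 134214260113) (nat_lit 0) (nat_lit 35946857492) (nat_lit 2) (nat_lit 5) (nat_lit 4) (nat_lit 4) (nat_lit 2) (nat_lit 4) (nat_lit 345) (nat_lit 235) (nat_lit 140)))))) (XT.nd (nat_lit 312) (nat_lit 0) (nat_lit 0) (XT.nd (nat_lit 156) (nat_lit 0) (nat_lit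 0) (XT.nd (nat_lit 78) (nat_lit 0) (nat_lit 0) (XT.lf (nat_lit 0) (nat_lit 61924992927) (nat_lit 152) (nat_lit 132121262149) (nat_lit 0) (nat_lit 42505246130) (nat_lit 2) (nat_lit 5) (nat_lit 4) (nat_lit 4) (nat_lit 2) (nat_lit 4) (nat_lit 346) (nat_lit 235) (nat_lit 139)) (XT.lf (nat_lit 0) (nat_lit 68816580251) (nat_lit 152) (nat_lit 129931410350) (nat_lit 0) (nat_lit 49388205963) (nat_lit 2) (nat_lit 5) (nat_lit 4) (nat_lit 4) (nat_lit 2) (nat_lit 4) (nat_lit 347) (nat_lit 235) (nat_lit 138))) (XT.nd (nat_lit 78) (nat_lit 0) (nat_lit 0) (XT.lf (nat_lit 0) (nat_lit 76048715938) (nat_lit 152) (nat_lit 127639490781) (nat_lit 0) (nat_lit 56612124990) (nat_lit 2) (nat_lit 5) (nat_lit 4) (nat_lit 4) (nat_lit 2) (nat_lit 4) (nat_lit 348) (nat_lit 235) (nat_lit 137)) (XT.lf (nat_lit 0) (nat_lit 83638619357) (nat_lit 152) (nat_lit 125240046492) (nat_lit 0) (nat_lit 64194203020) (nat_lit 2)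 (nat_lit 5) (nat_lit 4) (nat_lit 4) (nat_lit 2) (nat_lit 4) (nat_lit 349) (nat_lit 235) (nat_lit 136)))) (XT.nd (nat_lit 156) (nat_lit 0) (nat_lit 0) (XT.nd (nat_lit 78) (nat_lit 0) (nat_lit 0) (XT.lf (nat_lit 0) (nat_lit 91604361707) (nat_lit 152) (nat_lit 122727364519) (nat_lit 0) (nat_lit 72152492619) (nat_lit 2) (nat_lit 5) (nat_lit 4) (nat_lit 4) (nat_lit 2) (nat_lit 4) (nat_lit 350) (nat_lit 235) (nat_lit 135)) (XT.lf (nat_lit 0) (nat_lit 99964909042) (nat_lit 152) (nat_lit 120095462288) (nat_lit 0) (nat_lit 80505942095) (nat_lit 2) (nat_lit 5) (nat_lit 4) (nat_lit 4) (nat_lit 2) (nat_lit 4) (nat_lit 351) (nat_lit 235) (nat_lit 134))) (XT.nd (nat_lit 78) (nat_lit 0) (nat_lit 0) (XT.lf (nat_lit 0) (nat_lit 108740167427) (nat_lit 152) (nat_lit 117338073363) (nat_lit 0) (nat_lit 89274440615) (nat_lit 2) (nat_lit 5) (nat_lit 4) (nat_lit 4) (nat_lit 2) (nat_lit 4) (nat_lit 352) (nat_lit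 235) (nat_lit 133)) (XT.nd (nat_lit 78) (nat_lit 0) (nat_lit 0) (XT.lf (nat_lit 0) (nat_lit 117951030333) (nat_lit 152) (nat_lit 114448632534) (nat_lit 0) (nat_lit 98478865554) (nat_lit 2) (nat_lit 5) (nat_lit 4) (nat_lit 4) (nat_lit 2) (nat_lit 4) (nat_lit 353) (nat_lit 235) (nat_lit 132)) (XT.lf (nat_lit 0) (nat_lit 127619428388) (nat_lit 152) (nat_lit 111420260179) (nat_lit 0) (nat_lit 108141132211) (nat_lit 2) (nat_lit 5) (nat_lit 4) (nat_lit 4) (nat_lit 2) (nat_lit 4) (nat_lit 354) (nat_lit 235) (nat_lit 131))))))))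
noncomputable def xc95 : XT := (XT.nd (nat_lit 30030) (nat_lit 0) (nat_lit 2128) (XT.nd (nat_lit 29328) (nat_lit 0) (nat_lit 5168) (XT.nd (nat_lit 312) (nat_lit 0) (nat_lit 0) (XT.nd (nat_lit 156) (nat_lit 0) (nat_lit 0) (XT.nd (nat_lit 78) (nat_lit 0) (nat_lit 0) (XT.lf (nat_lit 0) (nat_lit 137768381585) (nat_lit 152) (nat_lit 108245745887) (nat_lit 0) (nat_lit 118284245983) (nat_lit 2) (nat_lit 5) (nat_lit 4) (nat_lit 4) (nat_lit 2) (nat_lit 4) (nat_lit 355) (nat_lit 235) (nat_lit 130)) (XT.lf (nat_lit 0) (nat_lit 148422054101) (nat_lit 152) (nat_lit 104917531292) (nat_lit 0) (nat_lit 128932357140) (nat_lit 2) (nat_lit 5) (nat_lit 4) (nat_lit 4) (nat_lit 2) (nat_lit 4) (nat_lit 356) (nat_lit 235) (nat_lit 129))) (XT.nd (nat_lit 78) (nat_lit 0) (nat_lit 0) (XT.lf (nat_lit 0) (nat_lit 159605811820) (nat_lit 152) (nat_lit 101427692073) (nat_lit 0) (nat_lit 140110818329) (nat_lit 2) (nat_lit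 5) (nat_lit 4) (nat_lit 4) (nat_lit 2) (nat_lit 4) (nat_lit 357) (nat_lit 235) (nat_lit 128)) (XT.lf (nat_lit 0) (nat_lit 171346282739) (nat_lit 152) (nat_lit 97767919089) (nat_lit 0) (nat_lit 151846244932) (nat_lit 2) (nat_lit 5) (nat_lit 4) (nat_lit 4) (nat_lit 2) (nat_lit 4) (nat_lit 358) (nat_lit 235) (nat_lit 127)))) (XT.nd (nat_lit 156) (nat_lit 0) (nat_lit 0) (XT.nd (nat_lit 78) (nat_lit 0) (nat_lit 0) (XT.lf (nat_lit 0) (nat_lit 183671420359) (nat_lit 152) (nat_lit 93929498595) (nat_lit 0) (nat_lit 164166578442) (nat_lit 2) (nat_lit 5) (nat_lit 4) (nat_lit 4) (nat_lit 2) (nat_lit 4) (nat_lit 359) (nat_lit 235) (nat_lit 126)) (XT.lf (nat_lit 0) (nat_lit 196610570247) (nat_lit 152) (nat_lit 89903291495) (nat_lit 0) (nat_lit 177101152986) (nat_lit 2) (nat_lit 5) (nat_lit 4) (nat_lit 4) (nat_lit 2) (nat_lit 4) (nat_lit 360) (nat_lit 235) (nat_lit 125))) (XT.nd (nat_lit 28704) (nat_lit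 0) (nat_lit 8056) (XT.lf (nat_lit 0) (nat_lit 210194539901) (nat_lit 152) (nat_lit 85679711580) (nat_lit 0) (nat_lit 190680765171) (nat_lit 2) (nat_lit 5) (nat_lit 4) (nat_lit 4) (nat_lit 2) (nat_lit 4) (nat_lit 361) (nat_lit 235) (nat_lit 124)) (XT.nd (nat_lit 78) (nat_lit 0) (nat_lit 0) (XT.lf (nat_lit 0) (nat_lit 68451174) (nat_lit 380) (nat_lit 3184842146) (nat_lit 0) (nat_lit 68451174) (nat_lit 108) (nat_lit 5) (nat_lit 113) (nat_lit 4) (nat_lit 108) (nat_lit 4) (nat_lit 248) (nat_lit 236) (nat_lit 236)) (XT.lf (nat_lit 0) (nat_lit 3050097404) (nat_lit 380) (nat_lit 2634609602) (nat_lit 0) (nat_lit 1012651730) (nat_lit 108) (nat_lit 5) (nat_lit 113) (nat_lit 4) (nat_lit 108) (nat_lit 4) (nat_lit 249) (nat_lit 236) (nat_lit 235)))))) (XT.nd (nat_lit 312) (nat_lit 1900) (nat_lit 0) (XT.nd (nat_lit 156) (nat_lit 532) (nat_lit 0) (XT.nd (nat_lit 78) (nat_lit 76) (nat_lit 0) (XT.lf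 (nat_lit 0) (nat_lit 1197912885) (nat_lit 380) (nat_lit 4770853945) (nat_lit 380) (nat_lit 792983818) (nat_lit 103) (nat_lit 4) (nat_lit 108) (nat_lit 5) (nat_lit 108) (nat_lit 4) (nat_lit 250) (nat_lit 236) (nat_lit 234)) (XT.lf (nat_lit 0) (nat_lit 2022264318) (nat_lit 456) (nat_lit 1680251561) (nat_lit 76) (nat_lit 3131429033) (nat_lit 102) (nat_lit 5) (nat_lit 108) (nat_lit 5) (nat_lit 103) (nat_lit 4) (nat_lit 251) (nat_lit 236) (nat_lit 233))) (XT.nd (nat_lit 78) (nat_lit 76) (nat_lit 0) (XT.lf (nat_lit 0) (nat_lit 2333970780) (nat_lit 456) (nat_lit 2504998182) (nat_lit 532) (nat_lit 2076470601) (nat_lit 96) (nat_lit 5) (nat_lit 102) (nat_lit 5) (nat_lit 103) (nat_lit 4) (nat_lit 252) (nat_lit 236) (nat_lit 232)) (XT.lf (nat_lit 0) (nat_lit 652029050) (nat_lit 532) (nat_lit 533959116) (nat_lit 76) (nat_lit 5820942306) (nat_lit 95) (nat_lit 5) (nat_lit 102) (nat_lit 5) (nat_lit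 96) (nat_lit 5) (nat_lit 253) (nat_lit 236) (nat_lit 231)))) (XT.nd (nat_lit 156) (nat_lit 760) (nat_lit 0) (XT.nd (nat_lit 78) (nat_lit 608) (nat_lit 0) (XT.lf (nat_lit 0) (nat_lit 3369519489) (nat_lit 608) (nat_lit 3433931894) (nat_lit 76) (nat_lit 302336534) (nat_lit 88) (nat_lit 5) (nat_lit 96) (nat_lit 5) (nat_lit 89) (nat_lit 4) (nat_lit 254) (nat_lit 236) (nat_lit 230)) (XT.lf (nat_lit 0) (nat_lit 774372566) (nat_lit 608) (nat_lit 5354307442) (nat_lit 684) (nat_lit 1086200789) (nat_lit 80) (nat_lit 5) (nat_lit 88) (nat_lit 5) (nat_lit 89) (nat_lit 4) (nat_lit 255) (nat_lit 236) (nat_lit 229))) (XT.nd (nat_lit 78) (nat_lit 684) (nat_lit 0) (XT.lf (nat_lit 0) (nat_lit 1568036708) (nat_lit 684) (nat_lit 2172696770) (nat_lit 76) (nat_lit 3591600742) (nat_lit 79) (nat_lit 5) (nat_lit 88) (nat_lit 5) (nat_lit 80) (nat_lit 5) (nat_lit 256) (nat_lit 236) (nat_lit 228)) (XT.nd (nat_lit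 78) (nat_lit 0) (nat_lit 0) (XT.lf (nat_lit 0) (nat_lit 2237504855) (nat_lit 684) (nat_lit 1989104101) (nat_lit 760) (nat_lit 3233257759) (nat_lit 70) (nat_lit 5) (nat_lit 79) (nat_lit 5) (nat_lit 80) (nat_lit 5) (nat_lit 257) (nat_lit 236) (nat_lit 227)) (XT.lf (nat_lit 0) (nat_lit 6820852752) (nat_lit 684) (nat_lit 111366634) (nat_lit 760) (nat_lit 666330065) (nat_lit 70) (nat_lit 5) (nat_lit 79) (nat_lit 5) (nat_lit 80) (nat_lit 5) (nat_lit 258) (nat_lit 236) (nat_lit 226))))))) (XT.nd (nat_lit 702) (nat_lit 988) (nat_lit 0) (XT.nd (nat_lit 312) (nat_lit 912) (nat_lit 0) (XT.nd (nat_lit 156) (nat_lit 380) (nat_lit 0) (XT.nd (nat_lit 78) (nat_lit 380) (nat_lit 0) (XT.lf (nat_lit 0) (nat_lit 1935583273) (nat_lit 380) (nat_lit 3916745427) (nat_lit 76) (nat_lit 1892109392) (nat_lit 65) (nat_lit 5) (nat_lit 70) (nat_lit 5) (nat_lit 66) (nat_lit 5) (nat_lit 259) (nat_lit 236) (nat_lit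 225)) (XT.lf (nat_lit 0) (nat_lit 676591064) (nat_lit 380) (nat_lit 3878933330) (nat_lit 456) (nat_lit 3346448199) (nat_lit 60) (nat_lit 5) (nat_lit 65) (nat_lit 5) (nat_lit 66) (nat_lit 5) (nat_lit 260) (nat_lit 236) (nat_lit 224))) (XT.nd (nat_lit 78) (nat_lit 380) (nat_lit 0) (XT.lf (nat_lit 0) (nat_lit 5512111157) (nat_lit 380) (nat_lit 1748802851) (nat_lit 456) (nat_lit 809141389) (nat_lit 60) (nat_lit 5) (nat_lit 65) (nat_lit 5) (nat_lit 66) (nat_lit 5) (nat_lit 261) (nat_lit 236) (nat_lit 223)) (XT.lf (nat_lit 0) (nat_lit 1730825893) (nat_lit 380) (nat_lit 5992729509) (nat_lit 76) (nat_lit 525137950) (nat_lit 55) (nat_lit 5) (nat_lit 60) (nat_lit 5) (nat_lit 56) (nat_lit 5) (nat_lit 262) (nat_lit 236) (nat_lit 222)))) (XT.nd (nat_lit 156) (nat_lit 608) (nat_lit 0) (XT.nd (nat_lit 78) (nat_lit 304) (nat_lit 0) (XT.lf (nat_lit 0) (nat_lit 4337720671) (nat_lit 380) (nat_lit 1202328462)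 (nat_lit 76) (nat_lit 2897535245) (nat_lit 55) (nat_lit 5) (nat_lit 60) (nat_lit 5) (nat_lit 56) (nat_lit 5) (nat_lit 263) (nat_lit 236) (nat_lit 221)) (XT.lf (nat_lit 0) (nat_lit 3831204669) (nat_lit 304) (nat_lit 3203021358) (nat_lit 380) (nat_lit 1604054905) (nat_lit 51) (nat_lit 5) (nat_lit 55) (nat_lit 5) (nat_lit 56) (nat_lit 5) (nat_lit 264) (nat_lit 236) (nat_lit 220))) (XT.nd (nat_lit 78) (nat_lit 304) (nat_lit 0) (XT.lf (nat_lit 0) (nat_lit 179012390) (nat_lit 228) (nat_lit 728998080) (nat_lit 304) (nat_lit 7944302315) (nat_lit 47) (nat_lit 5) (nat_lit 50) (nat_lit 5) (nat_lit 51) (nat_lit 5) (nat_lit 265) (nat_lit 236) (nat_lit 219)) (XT.nd (nat_lit 78) (nat_lit 304) (nat_lit 0) (XT.lf (nat_lit 0) (nat_lit 3506742835) (nat_lit 304) (nat_lit 3671979223) (nat_lit 76) (nat_lit 1896540964) (nat_lit 47) (nat_lit 5) (nat_lit 51) (nat_lit 5) (nat_lit 48) (nat_lit 5) (nat_lit 266)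 (nat_lit 236) (nat_lit 218)) (XT.lf (nat_lit 0) (nat_lit 1497783078) (nat_lit 304) (nat_lit 4680630473) (nat_lit 380) (nat_lit 3134063910) (nat_lit 43) (nat_lit 5) (nat_lit 47) (nat_lit 5) (nat_lit 48) (nat_lit 5) (nat_lit 267) (nat_lit 236) (nat_lit 217)))))) (XT.nd (nat_lit 312) (nat_lit 456) (nat_lit 0) (XT.nd (nat_lit 156) (nat_lit 228) (nat_lit 0) (XT.nd (nat_lit 78) (nat_lit 304) (nat_lit 0) (XT.lf (nat_lit 0) (nat_lit 6937800747) (nat_lit 304) (nat_lit 2018310352) (nat_lit 380) (nat_lit 607073432) (nat_lit 43) (nat_lit 5) (nat_lit 47) (nat_lit 5) (nat_lit 48) (nat_lit 5) (nat_lit 268) (nat_lit 236) (nat_lit 216)) (XT.lf (nat_lit 0) (nat_lit 1949819305) (nat_lit 304) (nat_lit 7073531695) (nat_lit 76) (nat_lit 803256707) (nat_lit 39) (nat_lit 5) (nat_lit 43) (nat_lit 5) (nat_lit 40) (nat_lit 5) (nat_lit 269) (nat_lit 236) (nat_lit 215))) (XT.nd (nat_lit 78) (nat_lit 228) (nat_lit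 0) (XT.lf (nat_lit 0) (nat_lit 4607316752) (nat_lit 304) (nat_lit 1768665000) (nat_lit 76) (nat_lit 3727284079) (nat_lit 39) (nat_lit 5) (nat_lit 43) (nat_lit 5) (nat_lit 40) (nat_lit 5) (nat_lit 270) (nat_lit 236) (nat_lit 214)) (XT.lf (nat_lit 0) (nat_lit 3813476967) (nat_lit 228) (nat_lit 3562687960) (nat_lit 304) (nat_lit 3018877169) (nat_lit 36) (nat_lit 5) (nat_lit 39) (nat_lit 5) (nat_lit 40) (nat_lit 5) (nat_lit 271) (nat_lit 236) (nat_lit 213)))) (XT.nd (nat_lit 156) (nat_lit 228) (nat_lit 0) (XT.nd (nat_lit 78) (nat_lit 228) (nat_lit 0) (XT.lf (nat_lit 0) (nat_lit 9627881514) (nat_lit 228) (nat_lit 606634077) (nat_lit 304) (nat_lit 469537652) (nat_lit 36) (nat_lit 5) (nat_lit 39) (nat_lit 5) (nat_lit 40) (nat_lit 5) (nat_lit 272) (nat_lit 236) (nat_lit 212)) (XT.lf (nat_lit 0) (nat_lit 2173991077) (nat_lit 228) (nat_lit 6352284897) (nat_lit 76) (nat_lit 2498828025) (nat_lit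 33) (nat_lit 5) (nat_lit 36) (nat_lit 5) (nat_lit 34) (nat_lit 5) (nat_lit 273) (nat_lit 236) (nat_lit 211))) (XT.nd (nat_lit 78) (nat_lit 228) (nat_lit 0) (XT.lf (nat_lit 0) (nat_lit 4887392621) (nat_lit 228) (nat_lit 740151183) (nat_lit 76) (nat_lit 5736776792) (nat_lit 33) (nat_lit 5) (nat_lit 36) (nat_lit 5) (nat_lit 34) (nat_lit 5) (nat_lit 274) (nat_lit 236) (nat_lit 210)) (XT.nd (nat_lit 78) (nat_lit 0) (nat_lit 0) (XT.lf (nat_lit 0) (nat_lit 5217155581) (nat_lit 228) (nat_lit 2529341017) (nat_lit 304) (nat_lit 3973663585) (nat_lit 30) (nat_lit 5) (nat_lit 33) (nat_lit 5) (nat_lit 34) (nat_lit 5) (nat_lit 275) (nat_lit 236) (nat_lit 209)) (XT.lf (nat_lit 0) (nat_lit 10702515340) (nat_lit 304) (nat_lit 710558933) (nat_lit 76) (nat_lit 683175476) (nat_lit 30) (nat_lit 5) (nat_lit 34) (nat_lit 5) (nat_lit 31) (nat_lit 4) (nat_lit 276) (nat_lit 236) (nat_lit 208))))))))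
noncomputable def xc96 : XT := (XT.nd (nat_lit 1326) (nat_lit 608) (nat_lit 0) (XT.nd (nat_lit 624) (nat_lit 380) (nat_lit 0) (XT.nd (nat_lit 312) (nat_lit 380) (nat_lit 0) (XT.nd (nat_lit 156) (nat_lit 152) (nat_lit 0) (XT.nd (nat_lit 78) (nat_lit 0) (nat_lit 0) (XT.lf (nat_lit 0) (nat_lit 1333015038) (nat_lit 228) (nat_lit 7105794562) (nat_lit 76) (nat_lit 4048453074) (nat_lit 27) (nat_lit 5) (nat_lit 30) (nat_lit 5) (nat_lit 28) (nat_lit 5) (nat_lit 277) (nat_lit 236) (nat_lit 207)) (XT.lf (nat_lit 0) (nat_lit 4095204767) (nat_lit 228) (nat_lit 1217198983) (nat_lit 76) (nat_lit 7587117759) (nat_lit 27) (nat_lit 5) (nat_lit 30) (nat_lit 5) (nat_lit 28) (nat_lit 5) (nat_lit 278) (nat_lit 236) (nat_lit 206))) (XT.nd (nat_lit 78) (nat_lit 0) (nat_lit 0) (XT.lf (nat_lit 0) (nat_lit 5031932443) (nat_lit 152) (nat_lit 1979001241) (nat_lit 228) (nat_lit 6320816440) (nat_lit 25) (nat_lit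 5) (nat_lit 27) (nat_lit 5) (nat_lit 28) (nat_lit 5) (nat_lit 279) (nat_lit 236) (nat_lit 205)) (XT.lf (nat_lit 0) (nat_lit 10055067033) (nat_lit 228) (nat_lit 2268987042) (nat_lit 76) (nat_lit 1462527409) (nat_lit 25) (nat_lit 5) (nat_lit 28) (nat_lit 5) (nat_lit 26) (nat_lit 4) (nat_lit 280) (nat_lit 236) (nat_lit 204)))) (XT.nd (nat_lit 156) (nat_lit 152) (nat_lit 0) (XT.nd (nat_lit 78) (nat_lit 76) (nat_lit 0) (XT.lf (nat_lit 0) (nat_lit 4069653688) (nat_lit 152) (nat_lit 9218608999) (nat_lit 228) (nat_lit 974165338) (nat_lit 23) (nat_lit 5) (nat_lit 25) (nat_lit 5) (nat_lit 26) (nat_lit 4) (nat_lit 281) (nat_lit 236) (nat_lit 203)) (XT.lf (nat_lit 0) (nat_lit 1839852070) (nat_lit 228) (nat_lit 4078883342) (nat_lit 76) (nat_lit 8842923081) (nat_lit 22) (nat_lit 5) (nat_lit 25) (nat_lit 5) (nat_lit 23) (nat_lit 5) (nat_lit 282) (nat_lit 236) (nat_lit 202))) (XT.nd (nat_lit 78) (nat_lit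 0) (nat_lit 0) (XT.lf (nat_lit 0) (nat_lit 2310968762) (nat_lit 152) (nat_lit 2430972647) (nat_lit 228) (nat_lit 10544205653) (nat_lit 20) (nat_lit 5) (nat_lit 22) (nat_lit 5) (nat_lit 23) (nat_lit 5) (nat_lit 283) (nat_lit 236) (nat_lit 201)) (XT.lf (nat_lit 0) (nat_lit 7823419740) (nat_lit 228) (nat_lit 6780485739) (nat_lit 76) (nat_lit 1231336111) (nat_lit 20) (nat_lit 5) (nat_lit 23) (nat_lit 5) (nat_lit 21) (nat_lit 4) (nat_lit 284) (nat_lit 236) (nat_lit 200))))) (XT.nd (nat_lit 312) (nat_lit 76) (nat_lit 0) (XT.nd (nat_lit 156) (nat_lit 228) (nat_lit 0) (XT.nd (nat_lit 78) (nat_lit 76) (nat_lit 0) (XT.lf (nat_lit 0) (nat_lit 11046302184) (nat_lit 228) (nat_lit 400337320) (nat_lit 76) (nat_lit 4965876030) (nat_lit 20) (nat_lit 5) (nat_lit 23) (nat_lit 5) (nat_lit 21) (nat_lit 4) (nat_lit 285) (nat_lit 236) (nat_lit 199)) (XT.lf (nat_lit 0) (nat_lit 6424020869) (nat_lit 76) (nat_lit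 8056584074) (nat_lit 152) (nat_lit 2535621276) (nat_lit 19) (nat_lit 5) (nat_lit 20) (nat_lit 5) (nat_lit 21) (nat_lit 4) (nat_lit 286) (nat_lit 236) (nat_lit 198))) (XT.nd (nat_lit 78) (nat_lit 152) (nat_lit 0) (XT.lf (nat_lit 0) (nat_lit 379665475) (nat_lit 152) (nat_lit 4134047280) (nat_lit 76) (nat_lit 13138290924) (nat_lit 18) (nat_lit 5) (nat_lit 20) (nat_lit 5) (nat_lit 19) (nat_lit 5) (nat_lit 287) (nat_lit 236) (nat_lit 197)) (XT.lf (nat_lit 0) (nat_lit 2612069405) (nat_lit 152) (nat_lit 736829438) (nat_lit 228) (nat_lit 14968998030) (nat_lit 16) (nat_lit 5) (nat_lit 18) (nat_lit 5) (nat_lit 19) (nat_lit 5) (nat_lit 288) (nat_lit 236) (nat_lit 196)))) (XT.nd (nat_lit 156) (nat_lit 76) (nat_lit 0) (XT.nd (nat_lit 78) (nat_lit 0) (nat_lit 0) (XT.lf (nat_lit 0) (nat_lit 6541394341) (nat_lit 228) (nat_lit 9303797437) (nat_lit 76) (nat_lit 3168224380) (nat_lit 16) (nat_lit 5) (nat_lit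 19) (nat_lit 5) (nat_lit 17) (nat_lit 4) (nat_lit 289) (nat_lit 236) (nat_lit 195)) (XT.lf (nat_lit 0) (nat_lit 9861049484) (nat_lit 228) (nat_lit 2667716638) (nat_lit 76) (nat_lit 7216636596) (nat_lit 16) (nat_lit 5) (nat_lit 19) (nat_lit 5) (nat_lit 17) (nat_lit 4) (nat_lit 290) (nat_lit 236) (nat_lit 194))) (XT.nd (nat_lit 78) (nat_lit 0) (nat_lit 0) (XT.lf (nat_lit 0) (nat_lit 4369572707) (nat_lit 76) (nat_lit 9002912808) (nat_lit 152) (nat_lit 7140277997) (nat_lit 15) (nat_lit 5) (nat_lit 16) (nat_lit 5) (nat_lit 17) (nat_lit 4) (nat_lit 291) (nat_lit 236) (nat_lit 193)) (XT.nd (nat_lit 78) (nat_lit 0) (nat_lit 0) (XT.lf (nat_lit 0) (nat_lit 11782030787) (nat_lit 76) (nat_lit 5281156471) (nat_lit 152) (nat_lit 4255182118) (nat_lit 15) (nat_lit 5) (nat_lit 16) (nat_lit 5) (nat_lit 17) (nat_lit 4) (nat_lit 292) (nat_lit 236) (nat_lit 192)) (XT.lf (nat_lit 0) (nat_lit 19499099551)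 (nat_lit 76) (nat_lit 1399814860) (nat_lit 152) (nat_lit 1267375394) (nat_lit 15) (nat_lit 5) (nat_lit 16) (nat_lit 5) (nat_lit 17) (nat_lit 4) (nat_lit 293) (nat_lit 236) (nat_lit 191))))))) (XT.nd (nat_lit 702) (nat_lit 152) (nat_lit 0) (XT.nd (nat_lit 312) (nat_lit 152) (nat_lit 0) (XT.nd (nat_lit 156) (nat_lit 76) (nat_lit 0) (XT.nd (nat_lit 78) (nat_lit 0) (nat_lit 0) (XT.lf (nat_lit 0) (nat_lit 1886508432) (nat_lit 228) (nat_lit 18497311354) (nat_lit 76) (nat_lit 2667553494) (nat_lit 12) (nat_lit 5) (nat_lit 15) (nat_lit 5) (nat_lit 13) (nat_lit 4) (nat_lit 294) (nat_lit 236) (nat_lit 190)) (XT.lf (nat_lit 0) (nat_lit 5186490108) (nat_lit 228) (nat_lit 11858617702) (nat_lit 76) (nat_lit 6933065282) (nat_lit 12) (nat_lit 5) (nat_lit 15) (nat_lit 5) (nat_lit 13) (nat_lit 4) (nat_lit 295) (nat_lit 236) (nat_lit 189))) (XT.nd (nat_lit 78) (nat_lit 76) (nat_lit 0) (XT.lf (nat_lit 0)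 (nat_lit 8615411194) (nat_lit 228) (nat_lit 4949585457) (nat_lit 76) (nat_lit 11388167589) (nat_lit 12) (nat_lit 5) (nat_lit 15) (nat_lit 5) (nat_lit 13) (nat_lit 4) (nat_lit 296) (nat_lit 236) (nat_lit 188)) (XT.lf (nat_lit 0) (nat_lit 2320506145) (nat_lit 76) (nat_lit 9897159249) (nat_lit 152) (nat_lit 13759191261) (nat_lit 11) (nat_lit 5) (nat_lit 12) (nat_lit 5) (nat_lit 13) (nat_lit 4) (nat_lit 297) (nat_lit 236) (nat_lit 187)))) (XT.nd (nat_lit 156) (nat_lit 152) (nat_lit 0) (XT.nd (nat_lit 78) (nat_lit 0) (nat_lit 0) (XT.lf (nat_lit 0) (nat_lit 10068223992) (nat_lit 76) (nat_lit 5982023630) (nat_lit 152) (nat_lit 10999019170) (nat_lit 11) (nat_lit 5) (nat_lit 12) (nat_lit 5) (nat_lit 13) (nat_lit 4) (nat_lit 298) (nat_lit 236) (nat_lit 186)) (XT.lf (nat_lit 0) (nat_lit 18148359383) (nat_lit 76) (nat_lit 1894091669) (nat_lit 152) (nat_lit 8134488559) (nat_lit 11) (nat_lit 5) (nat_lit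 12) (nat_lit 5) (nat_lit 13) (nat_lit 4) (nat_lit 299) (nat_lit 236) (nat_lit 185))) (XT.nd (nat_lit 78) (nat_lit 152) (nat_lit 0) (XT.lf (nat_lit 0) (nat_lit 24240882721) (nat_lit 152) (nat_lit 2819511104) (nat_lit 0) (nat_lit 2300311131) (nat_lit 11) (nat_lit 5) (nat_lit 13) (nat_lit 4) (nat_lit 11) (nat_lit 4) (nat_lit 300) (nat_lit 236) (nat_lit 184)) (XT.nd (nat_lit 78) (nat_lit 76) (nat_lit 0) (XT.lf (nat_lit 0) (nat_lit 4822281658) (nat_lit 76) (nat_lit 23903937062) (nat_lit 76) (nat_lit 1873628606) (nat_lit 10) (nat_lit 4) (nat_lit 11) (nat_lit 5) (nat_lit 11) (nat_lit 4) (nat_lit 301) (nat_lit 236) (nat_lit 183)) (XT.lf (nat_lit 0) (nat_lit 1505032509) (nat_lit 152) (nat_lit 19030455492) (nat_lit 76) (nat_lit 11363330829) (nat_lit 9) (nat_lit 5) (nat_lit 11) (nat_lit 5) (nat_lit 10) (nat_lit 4) (nat_lit 302) (nat_lit 236) (nat_lit 182)))))) (XT.nd (nat_lit 312) (nat_lit 76)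 (nat_lit 0) (XT.nd (nat_lit 156) (nat_lit 76) (nat_lit 0) (XT.nd (nat_lit 78) (nat_lit 0) (nat_lit 0) (XT.lf (nat_lit 0) (nat_lit 4961804105) (nat_lit 152) (nat_lit 12025467703) (nat_lit 76) (nat_lit 16275356894) (nat_lit 9) (nat_lit 5) (nat_lit 11) (nat_lit 5) (nat_lit 10) (nat_lit 4) (nat_lit 303) (nat_lit 236) (nat_lit 181)) (XT.lf (nat_lit 0) (nat_lit 8564884406) (nat_lit 152) (nat_lit 4716671166) (nat_lit 76) (nat_lit 21414431167) (nat_lit 9) (nat_lit 5) (nat_lit 11) (nat_lit 5) (nat_lit 10) (nat_lit 4) (nat_lit 304) (nat_lit 236) (nat_lit 180))) (XT.nd (nat_lit 78) (nat_lit 0) (nat_lit 0) (XT.lf (nat_lit 0) (nat_lit 3009664062) (nat_lit 76) (nat_lit 9360177402) (nat_lit 152) (nat_lit 23830114767) (nat_lit 8) (nat_lit 5) (nat_lit 9) (nat_lit 5) (nat_lit 10) (nat_lit 4) (nat_lit 305) (nat_lit 236) (nat_lit 179)) (XT.lf (nat_lit 0) (nat_lit 11242552417) (nat_lit 76) (nat_lit 5177630285)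 (nat_lit 152) (nat_lit 21356212957) (nat_lit 8) (nat_lit 5) (nat_lit 9) (nat_lit 5) (nat_lit 10) (nat_lit 4) (nat_lit 306) (nat_lit 236) (nat_lit 178)))) (XT.nd (nat_lit 156) (nat_lit 76) (nat_lit 0) (XT.nd (nat_lit 78) (nat_lit 0) (nat_lit 0) (XT.lf (nat_lit 0) (nat_lit 19845641563) (nat_lit 76) (nat_lit 803834884) (nat_lit 152) (nat_lit 18783385769) (nat_lit 8) (nat_lit 5) (nat_lit 9) (nat_lit 5) (nat_lit 10) (nat_lit 4) (nat_lit 307) (nat_lit 236) (nat_lit 177)) (XT.lf (nat_lit 0) (nat_lit 25126678045) (nat_lit 152) (nat_lit 12392770424) (nat_lit 0) (nat_lit 3650907122) (nat_lit 8) (nat_lit 5) (nat_lit 10) (nat_lit 4) (nat_lit 8) (nat_lit 4) (nat_lit 308) (nat_lit 236) (nat_lit 176))) (XT.nd (nat_lit 78) (nat_lit 76) (nat_lit 0) (XT.lf (nat_lit 0) (nat_lit 29819290408) (nat_lit 152) (nat_lit 4890205819) (nat_lit 0) (nat_lit 8285674301) (nat_lit 8) (nat_lit 5) (nat_lit 10) (nat_lit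 4) (nat_lit 8) (nat_lit 4) (nat_lit 309) (nat_lit 236) (nat_lit 175)) (XT.nd (nat_lit 78) (nat_lit 0) (nat_lit 0) (XT.lf (nat_lit 0) (nat_lit 3048456159) (nat_lit 76) (nat_lit 31725075092) (nat_lit 76) (nat_lit 10136368333) (nat_lit 7) (nat_lit 4) (nat_lit 8) (nat_lit 5) (nat_lit 8) (nat_lit 4) (nat_lit 310) (nat_lit 236) (nat_lit 174)) (XT.lf (nat_lit 0) (nat_lit 11517817982) (nat_lit 76) (nat_lit 28520305668) (nat_lit 76) (nat_lit 6879131623) (nat_lit 7) (nat_lit 4) (nat_lit 8) (nat_lit 5) (nat_lit 8) (nat_lit 4) (nat_lit 311) (nat_lit 236) (nat_lit 173))))))))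
noncomputable def xc97 : XT := (XT.nd (nat_lit 1326) (nat_lit 152) (nat_lit 0) (XT.nd (nat_lit 624) (nat_lit 76) (nat_lit 0) (XT.nd (nat_lit 312) (nat_lit 76) (nat_lit 0) (XT.nd (nat_lit 156) (nat_lit 0) (nat_lit 0) (XT.nd (nat_lit 78) (nat_lit 76) (nat_lit 0) (XT.lf (nat_lit 0) (nat_lit 20376352506) (nat_lit 76) (nat_lit 25170375555) (nat_lit 76) (nat_lit 3479232665) (nat_lit 7) (nat_lit 4) (nat_lit 8) (nat_lit 5) (nat_lit 8) (nat_lit 4) (nat_lit 312) (nat_lit 236) (nat_lit 172)) (XT.lf (nat_lit 0) (nat_lit 69137535) (nat_lit 152) (nat_lit 21597000317) (nat_lit 76) (nat_lit 29574843066) (nat_lit 6) (nat_lit 5) (nat_lit 8) (nat_lit 5) (nat_lit 7) (nat_lit 4) (nat_lit 313) (nat_lit 236) (nat_lit 171))) (XT.nd (nat_lit 78) (nat_lit 0) (nat_lit 0) (XT.lf (nat_lit 0) (nat_lit 3660265999) (nat_lit 152) (nat_lit 14280510182) (nat_lit 76) (nat_lit 35624029096) (nat_lit 6) (nat_lit 5) (nat_lit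 8) (nat_lit 5) (nat_lit 7) (nat_lit 4) (nat_lit 314) (nat_lit 236) (nat_lit 170)) (XT.lf (nat_lit 0) (nat_lit 7414060203) (nat_lit 152) (nat_lit 6628397031) (nat_lit 76) (nat_lit 41963225515) (nat_lit 6) (nat_lit 5) (nat_lit 8) (nat_lit 5) (nat_lit 7) (nat_lit 4) (nat_lit 315) (nat_lit 236) (nat_lit 169)))) (XT.nd (nat_lit 156) (nat_lit 0) (nat_lit 0) (XT.nd (nat_lit 78) (nat_lit 0) (nat_lit 0) (XT.lf (nat_lit 0) (nat_lit 1423106758) (nat_lit 76) (nat_lit 9938569679) (nat_lit 152) (nat_lit 47206637574) (nat_lit 5) (nat_lit 5) (nat_lit 6) (nat_lit 5) (nat_lit 7) (nat_lit 4) (nat_lit 316) (nat_lit 236) (nat_lit 168)) (XT.lf (nat_lit 0) (nat_lit 10079009315) (nat_lit 76) (nat_lit 5524157100) (nat_lit 152) (nat_lit 45651101521) (nat_lit 5) (nat_lit 5) (nat_lit 6) (nat_lit 5) (nat_lit 7) (nat_lit 4) (nat_lit 317) (nat_lit 236) (nat_lit 167))) (XT.nd (nat_lit 78) (nat_lit 0) (nat_lit 0) (XT.lf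 (nat_lit 0) (nat_lit 19140755192) (nat_lit 76) (nat_lit 900964100) (nat_lit 152) (nat_lit 44033565841) (nat_lit 5) (nat_lit 5) (nat_lit 6) (nat_lit 5) (nat_lit 7) (nat_lit 4) (nat_lit 318) (nat_lit 236) (nat_lit 166)) (XT.lf (nat_lit 0) (nat_lit 24749448984) (nat_lit 152) (nat_lit 38469708268) (nat_lit 0) (nat_lit 3815847761) (nat_lit 5) (nat_lit 5) (nat_lit 7) (nat_lit 4) (nat_lit 5) (nat_lit 4) (nat_lit 319) (nat_lit 236) (nat_lit 165))))) (XT.nd (nat_lit 312) (nat_lit 76) (nat_lit 0) (XT.nd (nat_lit 156) (nat_lit 0) (nat_lit 0) (XT.nd (nat_lit 78) (nat_lit 0) (nat_lit 0) (XT.lf (nat_lit 0) (nat_lit 29693550011) (nat_lit 152) (nat_lit 31721386811) (nat_lit 0) (nat_lit 8727738425) (nat_lit 5) (nat_lit 5) (nat_lit 7) (nat_lit 4) (nat_lit 5) (nat_lit 4) (nat_lit 320) (nat_lit 236) (nat_lit 164)) (XT.lf (nat_lit 0) (nat_lit 34871727468) (nat_lit 152) (nat_lit 24659431564) (nat_lit 0)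 (nat_lit 13875239347) (nat_lit 5) (nat_lit 5) (nat_lit 7) (nat_lit 4) (nat_lit 5) (nat_lit 4) (nat_lit 321) (nat_lit 236) (nat_lit 163))) (XT.nd (nat_lit 78) (nat_lit 0) (nat_lit 0) (XT.lf (nat_lit 0) (nat_lit 40296310349) (nat_lit 152) (nat_lit 17267028347) (nat_lit 0) (nat_lit 19270606480) (nat_lit 5) (nat_lit 5) (nat_lit 7) (nat_lit 4) (nat_lit 5) (nat_lit 4) (nat_lit 322) (nat_lit 236) (nat_lit 162)) (XT.lf (nat_lit 0) (nat_lit 45980214329) (nat_lit 152) (nat_lit 9526576200) (nat_lit 0) (nat_lit 24926685936) (nat_lit 5) (nat_lit 5) (nat_lit 7) (nat_lit 4) (nat_lit 5) (nat_lit 4) (nat_lit 323) (nat_lit 236) (nat_lit 161)))) (XT.nd (nat_lit 156) (nat_lit 0) (nat_lit 0) (XT.nd (nat_lit 78) (nat_lit 76) (nat_lit 0) (XT.lf (nat_lit 0) (nat_lit 51936972511) (nat_lit 152) (nat_lit 1419645475) (nat_lit 0) (nat_lit 30856944573) (nat_lit 5) (nat_lit 5) (nat_lit 7) (nat_lit 4) (nat_lit 5)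 (nat_lit 4) (nat_lit 324) (nat_lit 236) (nat_lit 160)) (XT.lf (nat_lit 0) (nat_lit 7306933549) (nat_lit 76) (nat_lit 50987915814) (nat_lit 76) (nat_lit 29882650214) (nat_lit 4) (nat_lit 4) (nat_lit 5) (nat_lit 5) (nat_lit 5) (nat_lit 4) (nat_lit 325) (nat_lit 236) (nat_lit 159))) (XT.nd (nat_lit 78) (nat_lit 0) (nat_lit 0) (XT.lf (nat_lit 0) (nat_lit 16499878244) (nat_lit 76) (nat_lit 48484197029) (nat_lit 76) (nat_lit 27354895561) (nat_lit 4) (nat_lit 4) (nat_lit 5) (nat_lit 5) (nat_lit 5) (nat_lit 4) (nat_lit 326) (nat_lit 236) (nat_lit 158)) (XT.nd (nat_lit 78) (nat_lit 0) (nat_lit 0) (XT.lf (nat_lit 0) (nat_lit 26134136683) (nat_lit 76) (nat_lit 45863542781) (nat_lit 76) (nat_lit 24711350009) (nat_lit 4) (nat_lit 4) (nat_lit 5) (nat_lit 5) (nat_lit 5) (nat_lit 4) (nat_lit 327) (nat_lit 236) (nat_lit 157)) (XT.lf (nat_lit 0) (nat_lit 36232647575) (nat_lit 76) (nat_lit 43119713416)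 (nat_lit 76) (nat_lit 21945719402) (nat_lit 4) (nat_lit 4) (nat_lit 5) (nat_lit 5) (nat_lit 5) (nat_lit 4) (nat_lit 328) (nat_lit 236) (nat_lit 156))))))) (XT.nd (nat_lit 702) (nat_lit 76) (nat_lit 0) (XT.nd (nat_lit 312) (nat_lit 76) (nat_lit 0) (XT.nd (nat_lit 156) (nat_lit 0) (nat_lit 0) (XT.nd (nat_lit 78) (nat_lit 0) (nat_lit 0) (XT.lf (nat_lit 0) (nat_lit 46819454995) (nat_lit 76) (nat_lit 40246176006) (nat_lit 76) (nat_lit 19051418906) (nat_lit 4) (nat_lit 4) (nat_lit 5) (nat_lit 5) (nat_lit 5) (nat_lit 4) (nat_lit 329) (nat_lit 236) (nat_lit 155)) (XT.lf (nat_lit 0) (nat_lit 57919765627) (nat_lit 76) (nat_lit 37236088797) (nat_lit 76) (nat_lit 16021557328) (nat_lit 4) (nat_lit 4) (nat_lit 5) (nat_lit 5) (nat_lit 5) (nat_lit 4) (nat_lit 330) (nat_lit 236) (nat_lit 154))) (XT.nd (nat_lit 78) (nat_lit 0) (nat_lit 0) (XT.lf (nat_lit 0) (nat_lit 69560008782) (nat_lit 76) (nat_lit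 34082284913) (nat_lit 76) (nat_lit 12848920712) (nat_lit 4) (nat_lit 4) (nat_lit 5) (nat_lit 5) (nat_lit 5) (nat_lit 4) (nat_lit 331) (nat_lit 236) (nat_lit 153)) (XT.lf (nat_lit 0) (nat_lit 81767899324) (nat_lit 76) (nat_lit 30777255299) (nat_lit 76) (nat_lit 9525955162) (nat_lit 4) (nat_lit 4) (nat_lit 5) (nat_lit 5) (nat_lit 5) (nat_lit 4) (nat_lit 332) (nat_lit 236) (nat_lit 152)))) (XT.nd (nat_lit 156) (nat_lit 76) (nat_lit 0) (XT.nd (nat_lit 78) (nat_lit 0) (nat_lit 0) (XT.lf (nat_lit 0) (nat_lit 94572503660) (nat_lit 76) (nat_lit 27313130835) (nat_lit 76) (nat_lit 6044748856) (nat_lit 4) (nat_lit 4) (nat_lit 5) (nat_lit 5) (nat_lit 5) (nat_lit 4) (nat_lit 333) (nat_lit 236) (nat_lit 151)) (XT.lf (nat_lit 0) (nat_lit 108004308942) (nat_lit 76) (nat_lit 23681663607) (nat_lit 76) (nat_lit 2397013205) (nat_lit 4) (nat_lit 4) (nat_lit 5) (nat_lit 5) (nat_lit 5) (nat_lit 4) (nat_lit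 334) (nat_lit 236) (nat_lit 150))) (XT.nd (nat_lit 78) (nat_lit 0) (nat_lit 0) (XT.lf (nat_lit 0) (nat_lit 1380297987) (nat_lit 152) (nat_lit 18470533262) (nat_lit 76) (nat_lit 120691621658) (nat_lit 3) (nat_lit 5) (nat_lit 5) (nat_lit 5) (nat_lit 4) (nat_lit 4) (nat_lit 335) (nat_lit 236) (nat_lit 149)) (XT.nd (nat_lit 78) (nat_lit 0) (nat_lit 0) (XT.lf (nat_lit 0) (nat_lit 5259307194) (nat_lit 152) (nat_lit 10533320327) (nat_lit 76) (nat_lit 131530637676) (nat_lit 3) (nat_lit 5) (nat_lit 5) (nat_lit 5) (nat_lit 4) (nat_lit 4) (nat_lit 336) (nat_lit 236) (nat_lit 148)) (XT.lf (nat_lit 0) (nat_lit 9325969542) (nat_lit 152) (nat_lit 2210715788) (nat_lit 76) (nat_lit 142906753288) (nat_lit 3) (nat_lit 5) (nat_lit 5) (nat_lit 5) (nat_lit 4) (nat_lit 4) (nat_lit 337) (nat_lit 236) (nat_lit 147)))))) (XT.nd (nat_lit 312) (nat_lit 0) (nat_lit 0) (XT.nd (nat_lit 156) (nat_lit 0) (nat_lit 0)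 (XT.nd (nat_lit 78) (nat_lit 0) (nat_lit 0) (XT.lf (nat_lit 0) (nat_lit 6732580707) (nat_lit 76) (nat_lit 6962501306) (nat_lit 152) (nat_lit 148219588229) (nat_lit 2) (nat_lit 5) (nat_lit 3) (nat_lit 5) (nat_lit 4) (nat_lit 4) (nat_lit 338) (nat_lit 236) (nat_lit 146)) (XT.lf (nat_lit 0) (nat_lit 16189046366) (nat_lit 76) (nat_lit 2125163644) (nat_lit 152) (nat_lit 151443680570) (nat_lit 2) (nat_lit 5) (nat_lit 3) (nat_lit 5) (nat_lit 4) (nat_lit 4) (nat_lit 339) (nat_lit 236) (nat_lit 145))) (XT.nd (nat_lit 78) (nat_lit 0) (nat_lit 0) (XT.lf (nat_lit 0) (nat_lit 23204743236) (nat_lit 152) (nat_lit 151931504952) (nat_lit 0) (nat_lit 2855006186) (nat_lit 2) (nat_lit 5) (nat_lit 4) (nat_lit 4) (nat_lit 2) (nat_lit 4) (nat_lit 340) (nat_lit 236) (nat_lit 144)) (XT.lf (nat_lit 0) (nat_lit 28369239940) (nat_lit 152) (nat_lit 150257087446) (nat_lit 0) (nat_lit 8008491782) (nat_lit 2) (nat_lit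 5) (nat_lit 4) (nat_lit 4) (nat_lit 2) (nat_lit 4) (nat_lit 341) (nat_lit 236) (nat_lit 143)))) (XT.nd (nat_lit 156) (nat_lit 0) (nat_lit 0) (XT.nd (nat_lit 78) (nat_lit 0) (nat_lit 0) (XT.lf (nat_lit 0) (nat_lit 33786816783) (nat_lit 152) (nat_lit 148508425226) (nat_lit 0) (nat_lit 13415581855) (nat_lit 2) (nat_lit 5) (nat_lit 4) (nat_lit 4) (nat_lit 2) (nat_lit 4) (nat_lit 342) (nat_lit 236) (nat_lit 142)) (XT.lf (nat_lit 0) (nat_lit 39470372757) (nat_lit 152) (nat_lit 146681354812) (nat_lit 0) (nat_lit 19089150430) (nat_lit 2) (nat_lit 5) (nat_lit 4) (nat_lit 4) (nat_lit 2) (nat_lit 4) (nat_lit 343) (nat_lit 236) (nat_lit 141))) (XT.nd (nat_lit 78) (nat_lit 0) (nat_lit 0) (XT.lf (nat_lit 0) (nat_lit 45433440139) (nat_lit 152) (nat_lit 144771526035) (nat_lit 0) (nat_lit 25042706002) (nat_lit 2) (nat_lit 5) (nat_lit 4) (nat_lit 4) (nat_lit 2) (nat_lit 4) (nat_lit 344) (nat_lit 236)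 (nat_lit 140)) (XT.nd (nat_lit 78) (nat_lit 0) (nat_lit 0) (XT.lf (nat_lit 0) (nat_lit 51690216708) (nat_lit 152) (nat_lit 142774391684) (nat_lit 0) (nat_lit 31290423705) (nat_lit 2) (nat_lit 5) (nat_lit 4) (nat_lit 4) (nat_lit 2) (nat_lit 4) (nat_lit 345) (nat_lit 236) (nat_lit 139)) (XT.lf (nat_lit 0) (nat_lit 58255599551) (nat_lit 152) (nat_lit 140685196677) (nat_lit 0) (nat_lit 37847179056) (nat_lit 2) (nat_lit 5) (nat_lit 4) (nat_lit 4) (nat_lit 2) (nat_lit 4) (nat_lit 346) (nat_lit 236) (nat_lit 138))))))))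
noncomputable def xc98 : XT := (XT.nd (nat_lit 29796) (nat_lit 0) (nat_lit 3648) (XT.nd (nat_lit 624) (nat_lit 0) (nat_lit 0) (XT.nd (nat_lit 312) (nat_lit 0) (nat_lit 0) (XT.nd (nat_lit 156) (nat_lit 0) (nat_lit 0) (XT.nd (nat_lit 78) (nat_lit 0) (nat_lit 0) (XT.lf (nat_lit 0) (nat_lit 65145220532) (nat_lit 152) (nat_lit 138498966742) (nat_lit 0) (nat_lit 44728583379) (nat_lit 2) (nat_lit 5) (nat_lit 4) (nat_lit 4) (nat_lit 2) (nat_lit 4) (nat_lit 347) (nat_lit 236) (nat_lit 137)) (XT.lf (nat_lit 0) (nat_lit 72375483510) (nat_lit 152) (nat_lit 136210496567) (nat_lit 0) (nat_lit 51951020968) (nat_lit 2) (nat_lit 5) (nat_lit 4) (nat_lit 4) (nat_lit 2) (nat_lit 4) (nat_lit 348) (nat_lit 236) (nat_lit 136))) (XT.nd (nat_lit 78) (nat_lit 0) (nat_lit 0) (XT.lf (nat_lit 0) (nat_lit 79963603398) (nat_lit 152) (nat_lit 133814337415) (nat_lit 0) (nat_lit 59531688104) (nat_lit 2) (nat_lit 5)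 (nat_lit 4) (nat_lit 4) (nat_lit 2) (nat_lit 4) (nat_lit 349) (nat_lit 236) (nat_lit 135)) (XT.lf (nat_lit 0) (nat_lit 87927647147) (nat_lit 152) (nat_lit 131304784145) (nat_lit 0) (nat_lit 67488633994) (nat_lit 2) (nat_lit 5) (nat_lit 4) (nat_lit 4) (nat_lit 2) (nat_lit 4) (nat_lit 350) (nat_lit 236) (nat_lit 134)))) (XT.nd (nat_lit 156) (nat_lit 0) (nat_lit 0) (XT.nd (nat_lit 78) (nat_lit 0) (nat_lit 0) (XT.lf (nat_lit 0) (nat_lit 96286576766) (nat_lit 152) (nat_lit 128675861630) (nat_lit 0) (nat_lit 75840803748) (nat_lit 2) (nat_lit 5) (nat_lit 4) (nat_lit 4) (nat_lit 2) (nat_lit 4) (nat_lit 351) (nat_lit 236) (nat_lit 133)) (XT.lf (nat_lit 0) (nat_lit 105060294469) (nat_lit 152) (nat_lit 125921310530) (nat_lit 0) (nat_lit 84608083484) (nat_lit 2) (nat_lit 5) (nat_lit 4) (nat_lit 4) (nat_lit 2) (nat_lit 4) (nat_lit 352) (nat_lit 236) (nat_lit 132))) (XT.nd (nat_lit 78) (nat_lit 0)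 (nat_lit 0) (XT.lf (nat_lit 0) (nat_lit 114269690060) (nat_lit 152) (nat_lit 123034572391) (nat_lit 0) (nat_lit 93811347677) (nat_lit 2) (nat_lit 5) (nat_lit 4) (nat_lit 4) (nat_lit 2) (nat_lit 4) (nat_lit 353) (nat_lit 236) (nat_lit 131)) (XT.lf (nat_lit 0) (nat_lit 123936690670) (nat_lit 152) (nat_lit 120008774027) (nat_lit 0) (nat_lit 103472508862) (nat_lit 2) (nat_lit 5) (nat_lit 4) (nat_lit 4) (nat_lit 2) (nat_lit 4) (nat_lit 354) (nat_lit 236) (nat_lit 130))))) (XT.nd (nat_lit 312) (nat_lit 0) (nat_lit 0) (XT.nd (nat_lit 156) (nat_lit 0) (nat_lit 0) (XT.nd (nat_lit 78) (nat_lit 0) (nat_lit 0) (XT.lf (nat_lit 0) (nat_lit 134084312969) (nat_lit 152) (nat_lit 116836711156) (nat_lit 0) (nat_lit 113614569803) (nat_lit 2) (nat_lit 5) (nat_lit 4) (nat_lit 4) (nat_lit 2) (nat_lit 4) (nat_lit 355) (nat_lit 236) (nat_lit 129)) (XT.lf (nat_lit 0) (nat_lit 144736717962) (nat_lit 152) (nat_lit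 113510831247) (nat_lit 0) (nat_lit 124261678265) (nat_lit 2) (nat_lit 5) (nat_lit 4) (nat_lit 4) (nat_lit 2) (nat_lit 4) (nat_lit 356) (nat_lit 236) (nat_lit 128))) (XT.nd (nat_lit 78) (nat_lit 0) (nat_lit 0) (XT.lf (nat_lit 0) (nat_lit 155919268518) (nat_lit 152) (nat_lit 110023215538) (nat_lit 0) (nat_lit 135439184504) (nat_lit 2) (nat_lit 5) (nat_lit 4) (nat_lit 4) (nat_lit 2) (nat_lit 4) (nat_lit 357) (nat_lit 236) (nat_lit 127)) (XT.lf (nat_lit 0) (nat_lit 167658589756) (nat_lit 152) (nat_lit 106365560183) (nat_lit 0) (nat_lit 147173701633) (nat_lit 2) (nat_lit 5) (nat_lit 4) (nat_lit 4) (nat_lit 2) (nat_lit 4) (nat_lit 358) (nat_lit 236) (nat_lit 126)))) (XT.nd (nat_lit 156) (nat_lit 0) (nat_lit 0) (XT.nd (nat_lit 78) (nat_lit 0) (nat_lit 0) (XT.lf (nat_lit 0) (nat_lit 179982632443) (nat_lit 152) (nat_lit 102529156478) (nat_lit 0) (nat_lit 159493168976) (nat_lit 2) (nat_lit 5)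 (nat_lit 4) (nat_lit 4) (nat_lit 2) (nat_lit 4) (nat_lit 359) (nat_lit 236) (nat_lit 125)) (XT.lf (nat_lit 0) (nat_lit 192920739536) (nat_lit 152) (nat_lit 98504870129) (nat_lit 0) (nat_lit 172426918600) (nat_lit 2) (nat_lit 5) (nat_lit 4) (nat_lit 4) (nat_lit 2) (nat_lit 4) (nat_lit 360) (nat_lit 236) (nat_lit 124))) (XT.nd (nat_lit 28548) (nat_lit 0) (nat_lit 8436) (XT.lf (nat_lit 0) (nat_lit 206503716053) (nat_lit 152) (nat_lit 94283119502) (nat_lit 0) (nat_lit 186005745146) (nat_lit 2) (nat_lit 5) (nat_lit 4) (nat_lit 4) (nat_lit 2) (nat_lit 4) (nat_lit 361) (nat_lit 236) (nat_lit 123)) (XT.nd (nat_lit 78) (nat_lit 228) (nat_lit 0) (XT.lf (nat_lit 0) (nat_lit 1542383045) (nat_lit 228) (nat_lit 191978704) (nat_lit 0) (nat_lit 1542383045) (nat_lit 116) (nat_lit 5) (nat_lit 119) (nat_lit 4) (nat_lit 116) (nat_lit 4) (nat_lit 246) (nat_lit 237) (nat_lit 237)) (XT.lf (nat_lit 0) (nat_lit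 3197617148) (nat_lit 228) (nat_lit 2822088654) (nat_lit 228) (nat_lit 575804798) (nat_lit 113) (nat_lit 4) (nat_lit 116) (nat_lit 5) (nat_lit 116) (nat_lit 4) (nat_lit 247) (nat_lit 237) (nat_lit 236))))))) (XT.nd (nat_lit 702) (nat_lit 2204) (nat_lit 0) (XT.nd (nat_lit 312) (nat_lit 1748) (nat_lit 0) (XT.nd (nat_lit 156) (nat_lit 456) (nat_lit 0) (XT.nd (nat_lit 78) (nat_lit 0) (nat_lit 0) (XT.lf (nat_lit 0) (nat_lit 179348641) (nat_lit 304) (nat_lit 2047456459) (nat_lit 380) (nat_lit 4419574350) (nat_lit 108) (nat_lit 5) (nat_lit 112) (nat_lit 5) (nat_lit 113) (nat_lit 4) (nat_lit 248) (nat_lit 237) (nat_lit 235)) (XT.lf (nat_lit 0) (nat_lit 3925463194) (nat_lit 304) (nat_lit 1122590797) (nat_lit 380) (nat_lit 1657192224) (nat_lit 108) (nat_lit 5) (nat_lit 112) (nat_lit 5) (nat_lit 113) (nat_lit 4) (nat_lit 249) (nat_lit 237) (nat_lit 234))) (XT.nd (nat_lit 78) (nat_lit 0) (nat_lit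 0) (XT.lf (nat_lit 0) (nat_lit 985507249) (nat_lit 380) (nat_lit 78211878) (nat_lit 456) (nat_lit 5710099658) (nat_lit 102) (nat_lit 5) (nat_lit 107) (nat_lit 5) (nat_lit 108) (nat_lit 5) (nat_lit 250) (nat_lit 237) (nat_lit 233)) (XT.lf (nat_lit 0) (nat_lit 3779635837) (nat_lit 456) (nat_lit 1976980085) (nat_lit 76) (nat_lit 1092820928) (nat_lit 102) (nat_lit 5) (nat_lit 108) (nat_lit 5) (nat_lit 103) (nat_lit 4) (nat_lit 251) (nat_lit 237) (nat_lit 232)))) (XT.nd (nat_lit 156) (nat_lit 1216) (nat_lit 0) (XT.nd (nat_lit 78) (nat_lit 76) (nat_lit 0) (XT.lf (nat_lit 0) (nat_lit 1967321316) (nat_lit 456) (nat_lit 4554028179) (nat_lit 532) (nat_lit 413660400) (nat_lit 96) (nat_lit 5) (nat_lit 102) (nat_lit 5) (nat_lit 103) (nat_lit 4) (nat_lit 252) (nat_lit 237) (nat_lit 231)) (XT.lf (nat_lit 0) (nat_lit 2193357737) (nat_lit 532) (nat_lit 1005942720) (nat_lit 76) (nat_lit 3829613623) (nat_lit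 95) (nat_lit 5) (nat_lit 102) (nat_lit 5) (nat_lit 96) (nat_lit 5) (nat_lit 253) (nat_lit 237) (nat_lit 230))) (XT.nd (nat_lit 78) (nat_lit 684) (nat_lit 0) (XT.lf (nat_lit 0) (nat_lit 3130548605) (nat_lit 532) (nat_lit 1701881240) (nat_lit 608) (nat_lit 2299546665) (nat_lit 88) (nat_lit 5) (nat_lit 95) (nat_lit 5) (nat_lit 96) (nat_lit 5) (nat_lit 254) (nat_lit 237) (nat_lit 229)) (XT.nd (nat_lit 78) (nat_lit 0) (nat_lit 0) (XT.lf (nat_lit 0) (nat_lit 148504341) (nat_lit 608) (nat_lit 91400317) (nat_lit 684) (nat_lit 7006118632) (nat_lit 79) (nat_lit 5) (nat_lit 87) (nat_lit 5) (nat_lit 88) (nat_lit 5) (nat_lit 255) (nat_lit 237) (nat_lit 228)) (XT.lf (nat_lit 0) (nat_lit 2796092676) (nat_lit 684) (nat_lit 2906121047) (nat_lit 76) (nat_lit 1663824661) (nat_lit 79) (nat_lit 5) (nat_lit 88) (nat_lit 5) (nat_lit 80) (nat_lit 5) (nat_lit 256) (nat_lit 237) (nat_lit 227)))))) (XT.nd (nat_lit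 312) (nat_lit 1140) (nat_lit 0) (XT.nd (nat_lit 156) (nat_lit 304) (nat_lit 0) (XT.nd (nat_lit 78) (nat_lit 76) (nat_lit 0) (XT.lf (nat_lit 0) (nat_lit 1419930290) (nat_lit 684) (nat_lit 3963058331) (nat_lit 760) (nat_lit 2114399777) (nat_lit 70) (nat_lit 5) (nat_lit 79) (nat_lit 5) (nat_lit 80) (nat_lit 5) (nat_lit 257) (nat_lit 237) (nat_lit 226)) (XT.lf (nat_lit 0) (nat_lit 379897340) (nat_lit 760) (nat_lit 1699040339) (nat_lit 76) (nat_lit 5559899513) (nat_lit 69) (nat_lit 5) (nat_lit 79) (nat_lit 5) (nat_lit 70) (nat_lit 5) (nat_lit 258) (nat_lit 237) (nat_lit 225))) (XT.nd (nat_lit 78) (nat_lit 0) (nat_lit 0) (XT.lf (nat_lit 0) (nat_lit 2838954161) (nat_lit 304) (nat_lit 19696669) (nat_lit 380) (nat_lit 4930848377) (nat_lit 65) (nat_lit 5) (nat_lit 69) (nat_lit 5) (nat_lit 70) (nat_lit 5) (nat_lit 259) (nat_lit 237) (nat_lit 224)) (XT.lf (nat_lit 0) (nat_lit 5414085375) (nat_lit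 380) (nat_lit 436854793) (nat_lit 76) (nat_lit 2099511137) (nat_lit 65) (nat_lit 5) (nat_lit 70) (nat_lit 5) (nat_lit 66) (nat_lit 5) (nat_lit 260) (nat_lit 237) (nat_lit 223)))) (XT.nd (nat_lit 156) (nat_lit 380) (nat_lit 0) (XT.nd (nat_lit 78) (nat_lit 380) (nat_lit 0) (XT.lf (nat_lit 0) (nat_lit 4326862589) (nat_lit 380) (nat_lit 3733589333) (nat_lit 456) (nat_lit 61216456) (nat_lit 60) (nat_lit 5) (nat_lit 65) (nat_lit 5) (nat_lit 66) (nat_lit 5) (nat_lit 261) (nat_lit 237) (nat_lit 222)) (XT.lf (nat_lit 0) (nat_lit 916707102) (nat_lit 304) (nat_lit 1458104840) (nat_lit 380) (nat_lit 5929076650) (nat_lit 55) (nat_lit 5) (nat_lit 59) (nat_lit 5) (nat_lit 60) (nat_lit 5) (nat_lit 262) (nat_lit 237) (nat_lit 221))) (XT.nd (nat_lit 78) (nat_lit 380) (nat_lit 0) (XT.lf (nat_lit 0) (nat_lit 4909892836) (nat_lit 380) (nat_lit 2632069215) (nat_lit 76) (nat_lit 954566440) (nat_lit 55) (nat_lit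 5) (nat_lit 60) (nat_lit 5) (nat_lit 56) (nat_lit 5) (nat_lit 263) (nat_lit 237) (nat_lit 220)) (XT.nd (nat_lit 78) (nat_lit 76) (nat_lit 0) (XT.lf (nat_lit 0) (nat_lit 2297072709) (nat_lit 304) (nat_lit 5238660259) (nat_lit 380) (nat_lit 1165175986) (nat_lit 51) (nat_lit 5) (nat_lit 55) (nat_lit 5) (nat_lit 56) (nat_lit 5) (nat_lit 264) (nat_lit 237) (nat_lit 219)) (XT.lf (nat_lit 0) (nat_lit 1283827521) (nat_lit 380) (nat_lit 1486391763) (nat_lit 76) (nat_lit 6146966308) (nat_lit 50) (nat_lit 5) (nat_lit 55) (nat_lit 5) (nat_lit 51) (nat_lit 5) (nat_lit 265) (nat_lit 237) (nat_lit 218))))))))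
noncomputable def xc99 : XT := (XT.nd (nat_lit 1326) (nat_lit 836) (nat_lit 0) (XT.nd (nat_lit 624) (nat_lit 836) (nat_lit 0) (XT.nd (nat_lit 312) (nat_lit 456) (nat_lit 0) (XT.nd (nat_lit 156) (nat_lit 608) (nat_lit 0) (XT.nd (nat_lit 78) (nat_lit 0) (nat_lit 0) (XT.lf (nat_lit 0) (nat_lit 3665693367) (nat_lit 228) (nat_lit 117422751) (nat_lit 304) (nat_lit 5362122034) (nat_lit 47) (nat_lit 5) (nat_lit 50) (nat_lit 5) (nat_lit 51) (nat_lit 5) (nat_lit 266) (nat_lit 237) (nat_lit 217)) (XT.lf (nat_lit 0) (nat_lit 6386672944) (nat_lit 304) (nat_lit 410527575) (nat_lit 76) (nat_lit 2588781706) (nat_lit 47) (nat_lit 5) (nat_lit 51) (nat_lit 5) (nat_lit 48) (nat_lit 5) (nat_lit 267) (nat_lit 237) (nat_lit 216))) (XT.nd (nat_lit 78) (nat_lit 304) (nat_lit 0) (XT.lf (nat_lit 0) (nat_lit 4962157509) (nat_lit 304) (nat_lit 4153898910) (nat_lit 380) (nat_lit 523166616) (nat_lit 43) (nat_lit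 5) (nat_lit 47) (nat_lit 5) (nat_lit 48) (nat_lit 5) (nat_lit 268) (nat_lit 237) (nat_lit 215)) (XT.lf (nat_lit 0) (nat_lit 591422133) (nat_lit 228) (nat_lit 1352233777) (nat_lit 304) (nat_lit 7963401095) (nat_lit 39) (nat_lit 5) (nat_lit 42) (nat_lit 5) (nat_lit 43) (nat_lit 5) (nat_lit 269) (nat_lit 237) (nat_lit 214)))) (XT.nd (nat_lit 156) (nat_lit 228) (nat_lit 0) (XT.nd (nat_lit 78) (nat_lit 228) (nat_lit 0) (XT.lf (nat_lit 0) (nat_lit 4540498170) (nat_lit 304) (nat_lit 4043325843) (nat_lit 76) (nat_lit 1603025839) (nat_lit 39) (nat_lit 5) (nat_lit 43) (nat_lit 5) (nat_lit 40) (nat_lit 5) (nat_lit 270) (nat_lit 237) (nat_lit 213)) (XT.lf (nat_lit 0) (nat_lit 1410801381) (nat_lit 228) (nat_lit 5823372438) (nat_lit 304) (nat_lit 3248308033) (nat_lit 36) (nat_lit 5) (nat_lit 39) (nat_lit 5) (nat_lit 40) (nat_lit 5) (nat_lit 271) (nat_lit 237) (nat_lit 212))) (XT.nd (nat_lit 78) (nat_lit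 228) (nat_lit 0) (XT.lf (nat_lit 0) (nat_lit 7174916231) (nat_lit 228) (nat_lit 2880956397) (nat_lit 304) (nat_lit 737545449) (nat_lit 36) (nat_lit 5) (nat_lit 39) (nat_lit 5) (nat_lit 40) (nat_lit 5) (nat_lit 272) (nat_lit 237) (nat_lit 211)) (XT.lf (nat_lit 0) (nat_lit 1800793083) (nat_lit 228) (nat_lit 9082182477) (nat_lit 76) (nat_lit 237474783) (nat_lit 33) (nat_lit 5) (nat_lit 36) (nat_lit 5) (nat_lit 34) (nat_lit 5) (nat_lit 273) (nat_lit 237) (nat_lit 210))))) (XT.nd (nat_lit 312) (nat_lit 380) (nat_lit 0) (XT.nd (nat_lit 156) (nat_lit 228) (nat_lit 0) (XT.nd (nat_lit 78) (nat_lit 228) (nat_lit 0) (XT.lf (nat_lit 0) (nat_lit 4479354596) (nat_lit 228) (nat_lit 3520007394) (nat_lit 76) (nat_lit 3462126843) (nat_lit 33) (nat_lit 5) (nat_lit 36) (nat_lit 5) (nat_lit 34) (nat_lit 5) (nat_lit 274) (nat_lit 237) (nat_lit 209)) (XT.lf (nat_lit 0) (nat_lit 2296231921) (nat_lit 228) (nat_lit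 4963441865) (nat_lit 304) (nat_lit 4561669961) (nat_lit 30) (nat_lit 5) (nat_lit 33) (nat_lit 5) (nat_lit 34) (nat_lit 5) (nat_lit 275) (nat_lit 237) (nat_lit 208))) (XT.nd (nat_lit 78) (nat_lit 228) (nat_lit 0) (XT.lf (nat_lit 0) (nat_lit 8429524829) (nat_lit 228) (nat_lit 1742816935) (nat_lit 304) (nat_lit 2027331552) (nat_lit 30) (nat_lit 5) (nat_lit 33) (nat_lit 5) (nat_lit 34) (nat_lit 5) (nat_lit 276) (nat_lit 237) (nat_lit 207)) (XT.lf (nat_lit 0) (nat_lit 609993153) (nat_lit 228) (nat_lit 10383158961) (nat_lit 76) (nat_lit 1603579655) (nat_lit 27) (nat_lit 5) (nat_lit 30) (nat_lit 5) (nat_lit 28) (nat_lit 5) (nat_lit 277) (nat_lit 237) (nat_lit 206)))) (XT.nd (nat_lit 156) (nat_lit 228) (nat_lit 0) (XT.nd (nat_lit 78) (nat_lit 152) (nat_lit 0) (XT.lf (nat_lit 0) (nat_lit 3341386362) (nat_lit 228) (nat_lit 4540879086) (nat_lit 76) (nat_lit 5128327578) (nat_lit 27) (nat_lit 5)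 (nat_lit 30) (nat_lit 5) (nat_lit 28) (nat_lit 5) (nat_lit 278) (nat_lit 237) (nat_lit 205)) (XT.lf (nat_lit 0) (nat_lit 1552787787) (nat_lit 152) (nat_lit 4620678275) (nat_lit 228) (nat_lit 7273597657) (nat_lit 25) (nat_lit 5) (nat_lit 27) (nat_lit 5) (nat_lit 28) (nat_lit 5) (nat_lit 279) (nat_lit 237) (nat_lit 204))) (XT.nd (nat_lit 78) (nat_lit 228) (nat_lit 0) (XT.lf (nat_lit 0) (nat_lit 8019819656) (nat_lit 152) (nat_lit 1145579676) (nat_lit 228) (nat_lit 4739162530) (nat_lit 25) (nat_lit 5) (nat_lit 27) (nat_lit 5) (nat_lit 28) (nat_lit 5) (nat_lit 280) (nat_lit 237) (nat_lit 203)) (XT.nd (nat_lit 78) (nat_lit 76) (nat_lit 0) (XT.lf (nat_lit 0) (nat_lit 308887481) (nat_lit 152) (nat_lit 11985637309) (nat_lit 228) (nat_lit 2091141196) (nat_lit 23) (nat_lit 5) (nat_lit 25) (nat_lit 5) (nat_lit 26) (nat_lit 4) (nat_lit 281) (nat_lit 237) (nat_lit 202)) (XT.lf (nat_lit 0) (nat_lit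 731323344) (nat_lit 228) (nat_lit 7988242996) (nat_lit 76) (nat_lit 6167616269) (nat_lit 22) (nat_lit 5) (nat_lit 25) (nat_lit 5) (nat_lit 23) (nat_lit 5) (nat_lit 282) (nat_lit 237) (nat_lit 201))))))) (XT.nd (nat_lit 702) (nat_lit 380) (nat_lit 0) (XT.nd (nat_lit 312) (nat_lit 228) (nat_lit 0) (XT.nd (nat_lit 156) (nat_lit 76) (nat_lit 0) (XT.nd (nat_lit 78) (nat_lit 152) (nat_lit 0) (XT.lf (nat_lit 0) (nat_lit 3571329060) (nat_lit 228) (nat_lit 1713113095) (nat_lit 76) (nat_lit 10130379915) (nat_lit 22) (nat_lit 5) (nat_lit 25) (nat_lit 5) (nat_lit 23) (nat_lit 5) (nat_lit 283) (nat_lit 237) (nat_lit 200)) (XT.lf (nat_lit 0) (nat_lit 4954784608) (nat_lit 152) (nat_lit 1625140913) (nat_lit 228) (nat_lit 9387679659) (nat_lit 20) (nat_lit 5) (nat_lit 22) (nat_lit 5) (nat_lit 23) (nat_lit 5) (nat_lit 284) (nat_lit 237) (nat_lit 199))) (XT.nd (nat_lit 78) (nat_lit 76) (nat_lit 0) (XT.lf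 (nat_lit 0) (nat_lit 9753034583) (nat_lit 228) (nat_lit 4646521801) (nat_lit 76) (nat_lit 2147853776) (nat_lit 20) (nat_lit 5) (nat_lit 23) (nat_lit 5) (nat_lit 21) (nat_lit 4) (nat_lit 285) (nat_lit 237) (nat_lit 198)) (XT.lf (nat_lit 0) (nat_lit 1998848324) (nat_lit 76) (nat_lit 11096161217) (nat_lit 152) (nat_lit 4060768045) (nat_lit 19) (nat_lit 5) (nat_lit 20) (nat_lit 5) (nat_lit 21) (nat_lit 4) (nat_lit 286) (nat_lit 237) (nat_lit 197)))) (XT.nd (nat_lit 156) (nat_lit 152) (nat_lit 0) (XT.nd (nat_lit 78) (nat_lit 76) (nat_lit 0) (XT.lf (nat_lit 0) (nat_lit 9062461264) (nat_lit 76) (nat_lit 7573766455) (nat_lit 152) (nat_lit 1156807221) (nat_lit 19) (nat_lit 5) (nat_lit 20) (nat_lit 5) (nat_lit 21) (nat_lit 4) (nat_lit 287) (nat_lit 237) (nat_lit 196)) (XT.lf (nat_lit 0) (nat_lit 1786655103) (nat_lit 152) (nat_lit 2085763566) (nat_lit 76) (nat_lit 14590587176) (nat_lit 18) (nat_lit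 5) (nat_lit 20) (nat_lit 5) (nat_lit 19) (nat_lit 5) (nat_lit 288) (nat_lit 237) (nat_lit 195))) (XT.nd (nat_lit 78) (nat_lit 0) (nat_lit 0) (XT.lf (nat_lit 0) (nat_lit 4874273493) (nat_lit 228) (nat_lit 14203963069) (nat_lit 76) (nat_lit 85565622) (nat_lit 16) (nat_lit 5) (nat_lit 19) (nat_lit 5) (nat_lit 17) (nat_lit 4) (nat_lit 289) (nat_lit 237) (nat_lit 194)) (XT.nd (nat_lit 78) (nat_lit 0) (nat_lit 0) (XT.lf (nat_lit 0) (nat_lit 8173234419) (nat_lit 228) (nat_lit 7602247689) (nat_lit 76) (nat_lit 4121372963) (nat_lit 16) (nat_lit 5) (nat_lit 19) (nat_lit 5) (nat_lit 17) (nat_lit 4) (nat_lit 290) (nat_lit 237) (nat_lit 193)) (XT.lf (nat_lit 0) (nat_lit 11596740397) (nat_lit 228) (nat_lit 737540927) (nat_lit 76) (nat_lit 8334361153) (nat_lit 16) (nat_lit 5) (nat_lit 19) (nat_lit 5) (nat_lit 17) (nat_lit 4) (nat_lit 291) (nat_lit 237) (nat_lit 192)))))) (XT.nd (nat_lit 312) (nat_lit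 76) (nat_lit 0) (XT.nd (nat_lit 156) (nat_lit 228) (nat_lit 0) (XT.nd (nat_lit 78) (nat_lit 0) (nat_lit 0) (XT.lf (nat_lit 0) (nat_lit 6618329635) (nat_lit 76) (nat_lit 8637943670) (nat_lit 152) (nat_lit 6219562155) (nat_lit 15) (nat_lit 5) (nat_lit 16) (nat_lit 5) (nat_lit 17) (nat_lit 4) (nat_lit 292) (nat_lit 237) (nat_lit 191)) (XT.lf (nat_lit 0) (nat_lit 14304730700) (nat_lit 76) (nat_lit 4768914505) (nat_lit 152) (nat_lit 3251055756) (nat_lit 15) (nat_lit 5) (nat_lit 16) (nat_lit 5) (nat_lit 17) (nat_lit 4) (nat_lit 293) (nat_lit 237) (nat_lit 190))) (XT.nd (nat_lit 78) (nat_lit 228) (nat_lit 0) (XT.lf (nat_lit 0) (nat_lit 22315576789) (nat_lit 76) (nat_lit 730472470) (nat_lit 152) (nat_lit 171805622) (nat_lit 15) (nat_lit 5) (nat_lit 16) (nat_lit 5) (nat_lit 17) (nat_lit 4) (nat_lit 294) (nat_lit 237) (nat_lit 189)) (XT.lf (nat_lit 0) (nat_lit 3089888654) (nat_lit 228) (nat_lit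 17527721567) (nat_lit 76) (nat_lit 3529391494) (nat_lit 12) (nat_lit 5) (nat_lit 15) (nat_lit 5) (nat_lit 13) (nat_lit 4) (nat_lit 295) (nat_lit 237) (nat_lit 188)))) (XT.nd (nat_lit 156) (nat_lit 76) (nat_lit 0) (XT.nd (nat_lit 78) (nat_lit 0) (nat_lit 0) (XT.lf (nat_lit 0) (nat_lit 6502057280) (nat_lit 228) (nat_lit 10647305392) (nat_lit 76) (nat_lit 7973490284) (nat_lit 12) (nat_lit 5) (nat_lit 15) (nat_lit 5) (nat_lit 13) (nat_lit 4) (nat_lit 296) (nat_lit 237) (nat_lit 187)) (XT.lf (nat_lit 0) (nat_lit 10052127151) (nat_lit 228) (nat_lit 3478737877) (nat_lit 76) (nat_lit 12618310958) (nat_lit 12) (nat_lit 5) (nat_lit 15) (nat_lit 5) (nat_lit 13) (nat_lit 4) (nat_lit 297) (nat_lit 237) (nat_lit 186))) (XT.nd (nat_lit 78) (nat_lit 0) (nat_lit 0) (XT.lf (nat_lit 0) (nat_lit 4127143356) (nat_lit 76) (nat_lit 9685843733) (nat_lit 152) (nat_lit 13412205529) (nat_lit 11) (nat_lit 5) (nat_lit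 12) (nat_lit 5) (nat_lit 13) (nat_lit 4) (nat_lit 298) (nat_lit 237) (nat_lit 185)) (XT.nd (nat_lit 78) (nat_lit 0) (nat_lit 0) (XT.lf (nat_lit 0) (nat_lit 12181741766) (nat_lit 76) (nat_lit 5608578642) (nat_lit 152) (nat_lit 10563307942) (nat_lit 11) (nat_lit 5) (nat_lit 12) (nat_lit 5) (nat_lit 13) (nat_lit 4) (nat_lit 299) (nat_lit 237) (nat_lit 184)) (XT.lf (nat_lit 0) (nat_lit 20589212185) (nat_lit 76) (nat_lit 1348276091) (nat_lit 152) (nat_lit 7602487095) (nat_lit 11) (nat_lit 5) (nat_lit 12) (nat_lit 5) (nat_lit 13) (nat_lit 4) (nat_lit 300) (nat_lit 237) (nat_lit 183))))))))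
noncomputable def xc100 : XT := (XT.nd (nat_lit 1326) (nat_lit 76) (nat_lit 0) (XT.nd (nat_lit 624) (nat_lit 228) (nat_lit 0) (XT.nd (nat_lit 312) (nat_lit 76) (nat_lit 0) (XT.nd (nat_lit 156) (nat_lit 76) (nat_lit 0) (XT.nd (nat_lit 78) (nat_lit 76) (nat_lit 0) (XT.lf (nat_lit 0) (nat_lit 26312845891) (nat_lit 152) (nat_lit 1465966908) (nat_lit 0) (nat_lit 3005821465) (nat_lit 11) (nat_lit 5) (nat_lit 13) (nat_lit 4) (nat_lit 11) (nat_lit 4) (nat_lit 301) (nat_lit 237) (nat_lit 182)) (XT.lf (nat_lit 0) (nat_lit 6533810334) (nat_lit 76) (nat_lit 24470647122) (nat_lit 76) (nat_lit 1082228713) (nat_lit 10) (nat_lit 4) (nat_lit 11) (nat_lit 5) (nat_lit 11) (nat_lit 4) (nat_lit 302) (nat_lit 237) (nat_lit 181))) (XT.nd (nat_lit 78) (nat_lit 0) (nat_lit 0) (XT.lf (nat_lit 0) (nat_lit 2396239557) (nat_lit 152) (nat_lit 18553645395) (nat_lit 76) (nat_lit 12502118200) (nat_lit 9) (nat_lit 5)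 (nat_lit 11) (nat_lit 5) (nat_lit 10) (nat_lit 4) (nat_lit 303) (nat_lit 237) (nat_lit 180)) (XT.lf (nat_lit 0) (nat_lit 5986994712) (nat_lit 152) (nat_lit 11266424068) (nat_lit 76) (nat_lit 17632573148) (nat_lit 9) (nat_lit 5) (nat_lit 11) (nat_lit 5) (nat_lit 10) (nat_lit 4) (nat_lit 304) (nat_lit 237) (nat_lit 179)))) (XT.nd (nat_lit 156) (nat_lit 0) (nat_lit 0) (XT.nd (nat_lit 78) (nat_lit 76) (nat_lit 0) (XT.lf (nat_lit 0) (nat_lit 9733224247) (nat_lit 152) (nat_lit 3656964705) (nat_lit 76) (nat_lit 23002722639) (nat_lit 9) (nat_lit 5) (nat_lit 11) (nat_lit 5) (nat_lit 10) (nat_lit 4) (nat_lit 305) (nat_lit 237) (nat_lit 178)) (XT.lf (nat_lit 0) (nat_lit 4434791478) (nat_lit 76) (nat_lit 9278295800) (nat_lit 152) (nat_lit 24259800788) (nat_lit 8) (nat_lit 5) (nat_lit 9) (nat_lit 5) (nat_lit 10) (nat_lit 4) (nat_lit 306) (nat_lit 237) (nat_lit 177))) (XT.nd (nat_lit 78) (nat_lit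 0) (nat_lit 0) (XT.lf (nat_lit 0) (nat_lit 13018626907) (nat_lit 76) (nat_lit 4912806587) (nat_lit 152) (nat_lit 21698481017) (nat_lit 8) (nat_lit 5) (nat_lit 9) (nat_lit 5) (nat_lit 10) (nat_lit 4) (nat_lit 307) (nat_lit 237) (nat_lit 176)) (XT.lf (nat_lit 0) (nat_lit 21994063517) (nat_lit 76) (nat_lit 345259759) (nat_lit 152) (nat_lit 19031562117) (nat_lit 8) (nat_lit 5) (nat_lit 9) (nat_lit 5) (nat_lit 10) (nat_lit 4) (nat_lit 308) (nat_lit 237) (nat_lit 175))))) (XT.nd (nat_lit 312) (nat_lit 152) (nat_lit 0) (XT.nd (nat_lit 156) (nat_lit 76) (nat_lit 0) (XT.nd (nat_lit 78) (nat_lit 0) (nat_lit 0) (XT.lf (nat_lit 0) (nat_lit 27016497810) (nat_lit 152) (nat_lit 11886720697) (nat_lit 0) (nat_lit 4293265063) (nat_lit 8) (nat_lit 5) (nat_lit 10) (nat_lit 4) (nat_lit 8) (nat_lit 4) (nat_lit 309) (nat_lit 237) (nat_lit 174)) (XT.lf (nat_lit 0) (nat_lit 31913574798) (nat_lit 152) (nat_lit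 4062632065) (nat_lit 0) (nat_lit 9137874764) (nat_lit 8) (nat_lit 5) (nat_lit 10) (nat_lit 4) (nat_lit 8) (nat_lit 4) (nat_lit 310) (nat_lit 237) (nat_lit 173))) (XT.nd (nat_lit 78) (nat_lit 0) (nat_lit 0) (XT.lf (nat_lit 0) (nat_lit 4255671335) (nat_lit 76) (nat_lit 32847595095) (nat_lit 76) (nat_lit 10021926216) (nat_lit 7) (nat_lit 4) (nat_lit 8) (nat_lit 5) (nat_lit 8) (nat_lit 4) (nat_lit 311) (nat_lit 237) (nat_lit 172)) (XT.lf (nat_lit 0) (nat_lit 13098273041) (nat_lit 76) (nat_lit 29504669760) (nat_lit 76) (nat_lit 6631411505) (nat_lit 7) (nat_lit 4) (nat_lit 8) (nat_lit 5) (nat_lit 8) (nat_lit 4) (nat_lit 312) (nat_lit 237) (nat_lit 171)))) (XT.nd (nat_lit 156) (nat_lit 76) (nat_lit 0) (XT.nd (nat_lit 78) (nat_lit 76) (nat_lit 0) (XT.lf (nat_lit 0) (nat_lit 22351897902) (nat_lit 76) (nat_lit 26008274151) (nat_lit 76) (nat_lit 3089692681) (nat_lit 7) (nat_lit 4) (nat_lit 8)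 (nat_lit 5) (nat_lit 8) (nat_lit 4) (nat_lit 313) (nat_lit 237) (nat_lit 170)) (XT.lf (nat_lit 0) (nat_lit 592085886) (nat_lit 152) (nat_lit 21747970370) (nat_lit 76) (nat_lit 31436465212) (nat_lit 6) (nat_lit 5) (nat_lit 8) (nat_lit 5) (nat_lit 7) (nat_lit 4) (nat_lit 314) (nat_lit 237) (nat_lit 169))) (XT.nd (nat_lit 78) (nat_lit 76) (nat_lit 0) (XT.lf (nat_lit 0) (nat_lit 4338033083) (nat_lit 152) (nat_lit 14109888107) (nat_lit 76) (nat_lit 37769878163) (nat_lit 6) (nat_lit 5) (nat_lit 8) (nat_lit 5) (nat_lit 7) (nat_lit 4) (nat_lit 315) (nat_lit 237) (nat_lit 168)) (XT.nd (nat_lit 78) (nat_lit 76) (nat_lit 0) (XT.lf (nat_lit 0) (nat_lit 8255957293) (nat_lit 152) (nat_lit 6117295374) (nat_lit 76) (nat_lit 44408670231) (nat_lit 6) (nat_lit 5) (nat_lit 8) (nat_lit 5) (nat_lit 7) (nat_lit 4) (nat_lit 316) (nat_lit 237) (nat_lit 167)) (XT.lf (nat_lit 0) (nat_lit 2323194548) (nat_lit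 76) (nat_lit 10068263937) (nat_lit 152) (nat_lit 49081725093) (nat_lit 5) (nat_lit 5) (nat_lit 6) (nat_lit 5) (nat_lit 7) (nat_lit 4) (nat_lit 317) (nat_lit 237) (nat_lit 166))))))) (XT.nd (nat_lit 702) (nat_lit 0) (nat_lit 0) (XT.nd (nat_lit 312) (nat_lit 76) (nat_lit 0) (XT.nd (nat_lit 156) (nat_lit 0) (nat_lit 0) (XT.nd (nat_lit 78) (nat_lit 0) (nat_lit 0) (XT.lf (nat_lit 0) (nat_lit 11372419259) (nat_lit 76) (nat_lit 5450618073) (nat_lit 152) (nat_lit 47471519111) (nat_lit 5) (nat_lit 5) (nat_lit 6) (nat_lit 5) (nat_lit 7) (nat_lit 4) (nat_lit 318) (nat_lit 237) (nat_lit 165)) (XT.lf (nat_lit 0) (nat_lit 20849659121) (nat_lit 76) (nat_lit 612920036) (nat_lit 152) (nat_lit 45795113194) (nat_lit 5) (nat_lit 5) (nat_lit 6) (nat_lit 5) (nat_lit 7) (nat_lit 4) (nat_lit 319) (nat_lit 237) (nat_lit 164))) (XT.nd (nat_lit 78) (nat_lit 0) (nat_lit 0) (XT.lf (nat_lit 0) (nat_lit 26390706580)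 (nat_lit 152) (nat_lit 39661743488) (nat_lit 0) (nat_lit 4313717517) (nat_lit 5) (nat_lit 5) (nat_lit 7) (nat_lit 4) (nat_lit 5) (nat_lit 4) (nat_lit 320) (nat_lit 237) (nat_lit 163)) (XT.lf (nat_lit 0) (nat_lit 31562784794) (nat_lit 152) (nat_lit 32610836920) (nat_lit 0) (nat_lit 9456579982) (nat_lit 5) (nat_lit 5) (nat_lit 7) (nat_lit 4) (nat_lit 5) (nat_lit 4) (nat_lit 321) (nat_lit 237) (nat_lit 162)))) (XT.nd (nat_lit 156) (nat_lit 76) (nat_lit 0) (XT.nd (nat_lit 78) (nat_lit 0) (nat_lit 0) (XT.lf (nat_lit 0) (nat_lit 36981558873) (nat_lit 152) (nat_lit 25228956254) (nat_lit 0) (nat_lit 14847529538) (nat_lit 5) (nat_lit 5) (nat_lit 7) (nat_lit 4) (nat_lit 5) (nat_lit 4) (nat_lit 322) (nat_lit 237) (nat_lit 161)) (XT.lf (nat_lit 0) (nat_lit 42659930659) (nat_lit 152) (nat_lit 17498525585) (nat_lit 0) (nat_lit 20499401779) (nat_lit 5) (nat_lit 5) (nat_lit 7) (nat_lit 4) (nat_lit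 5) (nat_lit 4) (nat_lit 323) (nat_lit 237) (nat_lit 160))) (XT.nd (nat_lit 78) (nat_lit 76) (nat_lit 0) (XT.lf (nat_lit 0) (nat_lit 48611420085) (nat_lit 152) (nat_lit 9401139125) (nat_lit 0) (nat_lit 26425653543) (nat_lit 5) (nat_lit 5) (nat_lit 7) (nat_lit 4) (nat_lit 5) (nat_lit 4) (nat_lit 324) (nat_lit 237) (nat_lit 159)) (XT.nd (nat_lit 78) (nat_lit 76) (nat_lit 0) (XT.lf (nat_lit 0) (nat_lit 54850197365) (nat_lit 152) (nat_lit 917517382) (nat_lit 0) (nat_lit 32640394954) (nat_lit 5) (nat_lit 5) (nat_lit 7) (nat_lit 4) (nat_lit 5) (nat_lit 4) (nat_lit 325) (nat_lit 237) (nat_lit 158)) (XT.lf (nat_lit 0) (nat_lit 8236146877) (nat_lit 76) (nat_lit 53283559186) (nat_lit 76) (nat_lit 31050865472) (nat_lit 4) (nat_lit 4) (nat_lit 5) (nat_lit 5) (nat_lit 5) (nat_lit 4) (nat_lit 326) (nat_lit 237) (nat_lit 157)))))) (XT.nd (nat_lit 312) (nat_lit 0) (nat_lit 0) (XT.nd (nat_lit 156) (nat_lit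 0) (nat_lit 0) (XT.nd (nat_lit 78) (nat_lit 0) (nat_lit 0) (XT.lf (nat_lit 0) (nat_lit 17861888014) (nat_lit 76) (nat_lit 50666737911) (nat_lit 76) (nat_lit 28412242956) (nat_lit 4) (nat_lit 4) (nat_lit 5) (nat_lit 5) (nat_lit 5) (nat_lit 4) (nat_lit 327) (nat_lit 237) (nat_lit 156)) (XT.lf (nat_lit 0) (nat_lit 27952287191) (nat_lit 76) (nat_lit 47926558997) (nat_lit 76) (nat_lit 25651300954) (nat_lit 4) (nat_lit 4) (nat_lit 5) (nat_lit 5) (nat_lit 5) (nat_lit 4) (nat_lit 328) (nat_lit 237) (nat_lit 155))) (XT.nd (nat_lit 78) (nat_lit 0) (nat_lit 0) (XT.lf (nat_lit 0) (nat_lit 38531369168) (nat_lit 76) (nat_lit 45056498207) (nat_lit 76) (nat_lit 22761465796) (nat_lit 4) (nat_lit 4) (nat_lit 5) (nat_lit 5) (nat_lit 5) (nat_lit 4) (nat_lit 329) (nat_lit 237) (nat_lit 154)) (XT.lf (nat_lit 0) (nat_lit 49624322234) (nat_lit 76) (nat_lit 42049722064) (nat_lit 76) (nat_lit 19735856921) (nat_lit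 4) (nat_lit 4) (nat_lit 5) (nat_lit 5) (nat_lit 5) (nat_lit 4) (nat_lit 330) (nat_lit 237) (nat_lit 153)))) (XT.nd (nat_lit 156) (nat_lit 0) (nat_lit 0) (XT.nd (nat_lit 78) (nat_lit 0) (nat_lit 0) (XT.lf (nat_lit 0) (nat_lit 61257558184) (nat_lit 76) (nat_lit 38899071577) (nat_lit 76) (nat_lit 16567270499) (nat_lit 4) (nat_lit 4) (nat_lit 5) (nat_lit 5) (nat_lit 5) (nat_lit 4) (nat_lit 331) (nat_lit 237) (nat_lit 152)) (XT.lf (nat_lit 0) (nat_lit 73458775197) (nat_lit 76) (nat_lit 35597045198) (nat_lit 76) (nat_lit 13248162276) (nat_lit 4) (nat_lit 4) (nat_lit 5) (nat_lit 5) (nat_lit 5) (nat_lit 4) (nat_lit 332) (nat_lit 237) (nat_lit 151))) (XT.nd (nat_lit 78) (nat_lit 0) (nat_lit 0) (XT.lf (nat_lit 0) (nat_lit 86257023792) (nat_lit 76) (nat_lit 32135780958) (nat_lit 76) (nat_lit 9770629614) (nat_lit 4) (nat_lit 4) (nat_lit 5) (nat_lit 5) (nat_lit 5) (nat_lit 4) (nat_lit 333) (nat_lit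 237) (nat_lit 150)) (XT.nd (nat_lit 78) (nat_lit 0) (nat_lit 0) (XT.lf (nat_lit 0) (nat_lit 99682775987) (nat_lit 76) (nat_lit 28507037752) (nat_lit 76) (nat_lit 6126392673) (nat_lit 4) (nat_lit 4) (nat_lit 5) (nat_lit 5) (nat_lit 5) (nat_lit 4) (nat_lit 334) (nat_lit 237) (nat_lit 149)) (XT.lf (nat_lit 0) (nat_lit 113767997860) (nat_lit 76) (nat_lit 24702175716) (nat_lit 76) (nat_lit 2306774699) (nat_lit 4) (nat_lit 4) (nat_lit 5) (nat_lit 5) (nat_lit 5) (nat_lit 4) (nat_lit 335) (nat_lit 237) (nat_lit 148))))))))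
noncomputable def xc101 : XT := (XT.nd (nat_lit 1326) (nat_lit 0) (nat_lit 0) (XT.nd (nat_lit 624) (nat_lit 0) (nat_lit 0) (XT.nd (nat_lit 312) (nat_lit 0) (nat_lit 0) (XT.nd (nat_lit 156) (nat_lit 76) (nat_lit 0) (XT.nd (nat_lit 78) (nat_lit 0) (nat_lit 0) (XT.lf (nat_lit 0) (nat_lit 1642993840) (nat_lit 152) (nat_lit 19041316918) (nat_lit 76) (nat_lit 126875406917) (nat_lit 3) (nat_lit 5) (nat_lit 5) (nat_lit 5) (nat_lit 4) (nat_lit 4) (nat_lit 336) (nat_lit 237) (nat_lit 147)) (XT.lf (nat_lit 0) (nat_lit 5706730605) (nat_lit 152) (nat_lit 10724040622) (nat_lit 76) (nat_lit 138249268774) (nat_lit 3) (nat_lit 5) (nat_lit 5) (nat_lit 5) (nat_lit 4) (nat_lit 4) (nat_lit 337) (nat_lit 237) (nat_lit 146))) (XT.nd (nat_lit 78) (nat_lit 76) (nat_lit 0) (XT.lf (nat_lit 0) (nat_lit 9967942353) (nat_lit 152) (nat_lit 2001303272) (nat_lit 76) (nat_lit 150187423538) (nat_lit 3) (nat_lit 5) (nat_lit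 5) (nat_lit 5) (nat_lit 4) (nat_lit 4) (nat_lit 338) (nat_lit 237) (nat_lit 145)) (XT.lf (nat_lit 0) (nat_lit 7383997592) (nat_lit 76) (nat_lit 7168062132) (nat_lit 152) (nat_lit 155449582688) (nat_lit 2) (nat_lit 5) (nat_lit 3) (nat_lit 5) (nat_lit 4) (nat_lit 4) (nat_lit 339) (nat_lit 237) (nat_lit 144)))) (XT.nd (nat_lit 156) (nat_lit 0) (nat_lit 0) (XT.nd (nat_lit 78) (nat_lit 0) (nat_lit 0) (XT.lf (nat_lit 0) (nat_lit 17298296636) (nat_lit 76) (nat_lit 2095646361) (nat_lit 152) (nat_lit 158843497977) (nat_lit 2) (nat_lit 5) (nat_lit 3) (nat_lit 5) (nat_lit 4) (nat_lit 4) (nat_lit 340) (nat_lit 237) (nat_lit 143)) (XT.lf (nat_lit 0) (nat_lit 24523211180) (nat_lit 152) (nat_lit 159236630437) (nat_lit 0) (nat_lit 3122927736) (nat_lit 2) (nat_lit 5) (nat_lit 4) (nat_lit 4) (nat_lit 2) (nat_lit 4) (nat_lit 341) (nat_lit 237) (nat_lit 142))) (XT.nd (nat_lit 78) (nat_lit 0) (nat_lit 0)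 (XT.lf (nat_lit 0) (nat_lit 29938397920) (nat_lit 152) (nat_lit 157492370616) (nat_lit 0) (nat_lit 8528127076) (nat_lit 2) (nat_lit 5) (nat_lit 4) (nat_lit 4) (nat_lit 2) (nat_lit 4) (nat_lit 342) (nat_lit 237) (nat_lit 141)) (XT.lf (nat_lit 0) (nat_lit 35619677606) (nat_lit 152) (nat_lit 155669492961) (nat_lit 0) (nat_lit 14199894953) (nat_lit 2) (nat_lit 5) (nat_lit 4) (nat_lit 4) (nat_lit 2) (nat_lit 4) (nat_lit 343) (nat_lit 237) (nat_lit 140))))) (XT.nd (nat_lit 312) (nat_lit 0) (nat_lit 0) (XT.nd (nat_lit 156) (nat_lit 0) (nat_lit 0) (XT.nd (nat_lit 78) (nat_lit 0) (nat_lit 0) (XT.lf (nat_lit 0) (nat_lit 41580577095) (nat_lit 152) (nat_lit 153763657289) (nat_lit 0) (nat_lit 20151735575) (nat_lit 2) (nat_lit 5) (nat_lit 4) (nat_lit 4) (nat_lit 2) (nat_lit 4) (nat_lit 344) (nat_lit 237) (nat_lit 139)) (XT.lf (nat_lit 0) (nat_lit 47835289003) (nat_lit 152) (nat_lit 151770325895)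 (nat_lit 0) (nat_lit 26397819992) (nat_lit 2) (nat_lit 5) (nat_lit 4) (nat_lit 4) (nat_lit 2) (nat_lit 4) (nat_lit 345) (nat_lit 237) (nat_lit 138))) (XT.nd (nat_lit 78) (nat_lit 0) (nat_lit 0) (XT.lf (nat_lit 0) (nat_lit 54398705502) (nat_lit 152) (nat_lit 149684752753) (nat_lit 0) (nat_lit 32953019832) (nat_lit 2) (nat_lit 5) (nat_lit 4) (nat_lit 4) (nat_lit 2) (nat_lit 4) (nat_lit 346) (nat_lit 237) (nat_lit 137)) (XT.lf (nat_lit 0) (nat_lit 61286453775) (nat_lit 152) (nat_lit 147501972211) (nat_lit 0) (nat_lit 39832942716) (nat_lit 2) (nat_lit 5) (nat_lit 4) (nat_lit 4) (nat_lit 2) (nat_lit 4) (nat_lit 347) (nat_lit 237) (nat_lit 136)))) (XT.nd (nat_lit 156) (nat_lit 0) (nat_lit 0) (XT.nd (nat_lit 78) (nat_lit 0) (nat_lit 0) (XT.lf (nat_lit 0) (nat_lit 68514933222) (nat_lit 152) (nat_lit 145216787174) (nat_lit 0) (nat_lit 47053969411) (nat_lit 2) (nat_lit 5) (nat_lit 4) (nat_lit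 4) (nat_lit 2) (nat_lit 4) (nat_lit 348) (nat_lit 237) (nat_lit 135)) (XT.lf (nat_lit 0) (nat_lit 76101354508) (nat_lit 152) (nat_lit 142823756724) (nat_lit 0) (nat_lit 54633292839) (nat_lit 2) (nat_lit 5) (nat_lit 4) (nat_lit 4) (nat_lit 2) (nat_lit 4) (nat_lit 349) (nat_lit 237) (nat_lit 134))) (XT.nd (nat_lit 78) (nat_lit 0) (nat_lit 0) (XT.lf (nat_lit 0) (nat_lit 84063780541) (nat_lit 152) (nat_lit 140317183170) (nat_lit 0) (nat_lit 62588959007) (nat_lit 2) (nat_lit 5) (nat_lit 4) (nat_lit 4) (nat_lit 2) (nat_lit 4) (nat_lit 350) (nat_lit 237) (nat_lit 133)) (XT.nd (nat_lit 78) (nat_lit 0) (nat_lit 0) (XT.lf (nat_lit 0) (nat_lit 92421169479) (nat_lit 152) (nat_lit 137691098480) (nat_lit 0) (nat_lit 70939909977) (nat_lit 2) (nat_lit 5) (nat_lit 4) (nat_lit 4) (nat_lit 2) (nat_lit 4) (nat_lit 351) (nat_lit 237) (nat_lit 132)) (XT.lf (nat_lit 0) (nat_lit 101193419866) (nat_lit 152)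 (nat_lit 134939250071) (nat_lit 0) (nat_lit 79706028967) (nat_lit 2) (nat_lit 5) (nat_lit 4) (nat_lit 4) (nat_lit 2) (nat_lit 4) (nat_lit 352) (nat_lit 237) (nat_lit 131))))))) (XT.nd (nat_lit 29016) (nat_lit 0) (nat_lit 7068) (XT.nd (nat_lit 312) (nat_lit 0) (nat_lit 0) (XT.nd (nat_lit 156) (nat_lit 0) (nat_lit 0) (XT.nd (nat_lit 78) (nat_lit 0) (nat_lit 0) (XT.lf (nat_lit 0) (nat_lit 110401418013) (nat_lit 152) (nat_lit 132055085923) (nat_lit 0) (nat_lit 88908187688) (nat_lit 2) (nat_lit 5) (nat_lit 4) (nat_lit 4) (nat_lit 2) (nat_lit 4) (nat_lit 353) (nat_lit 237) (nat_lit 130)) (XT.lf (nat_lit 0) (nat_lit 120067087725) (nat_lit 152) (nat_lit 129031738979) (nat_lit 0) (nat_lit 98568296043) (nat_lit 2) (nat_lit 5) (nat_lit 4) (nat_lit 4) (nat_lit 2) (nat_lit 4) (nat_lit 354) (nat_lit 237) (nat_lit 129))) (XT.nd (nat_lit 78) (nat_lit 0) (nat_lit 0) (XT.lf (nat_lit 0) (nat_lit 130213442501)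 (nat_lit 152) (nat_lit 125862010793) (nat_lit 0) (nat_lit 108709354288) (nat_lit 2) (nat_lit 5) (nat_lit 4) (nat_lit 4) (nat_lit 2) (nat_lit 4) (nat_lit 355) (nat_lit 237) (nat_lit 128)) (XT.lf (nat_lit 0) (nat_lit 140864640330) (nat_lit 152) (nat_lit 122538354395) (nat_lit 0) (nat_lit 119355507800) (nat_lit 2) (nat_lit 5) (nat_lit 4) (nat_lit 4) (nat_lit 2) (nat_lit 4) (nat_lit 356) (nat_lit 237) (nat_lit 127)))) (XT.nd (nat_lit 156) (nat_lit 0) (nat_lit 0) (XT.nd (nat_lit 78) (nat_lit 0) (nat_lit 0) (XT.lf (nat_lit 0) (nat_lit 152046041205) (nat_lit 152) (nat_lit 119052856315) (nat_lit 0) (nat_lit 130532104565) (nat_lit 2) (nat_lit 5) (nat_lit 4) (nat_lit 4) (nat_lit 2) (nat_lit 4) (nat_lit 357) (nat_lit 237) (nat_lit 126)) (XT.lf (nat_lit 0) (nat_lit 163784267510) (nat_lit 152) (nat_lit 115397217749) (nat_lit 0) (nat_lit 142265755527) (nat_lit 2) (nat_lit 5) (nat_lit 4) (nat_lit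 4) (nat_lit 2) (nat_lit 4) (nat_lit 358) (nat_lit 237) (nat_lit 125))) (XT.nd (nat_lit 78) (nat_lit 0) (nat_lit 0) (XT.lf (nat_lit 0) (nat_lit 176107267402) (nat_lit 152) (nat_lit 111562734796) (nat_lit 0) (nat_lit 154584397950) (nat_lit 2) (nat_lit 5) (nat_lit 4) (nat_lit 4) (nat_lit 2) (nat_lit 4) (nat_lit 359) (nat_lit 237) (nat_lit 124)) (XT.nd (nat_lit 78) (nat_lit 0) (nat_lit 0) (XT.lf (nat_lit 0) (nat_lit 189044381359) (nat_lit 152) (nat_lit 107540277734) (nat_lit 0) (nat_lit 167517361936) (nat_lit 2) (nat_lit 5) (nat_lit 4) (nat_lit 4) (nat_lit 2) (nat_lit 4) (nat_lit 360) (nat_lit 237) (nat_lit 123)) (XT.lf (nat_lit 0) (nat_lit 202626412031) (nat_lit 152) (nat_lit 103320269285) (nat_lit 0) (nat_lit 181095440254) (nat_lit 2) (nat_lit 5) (nat_lit 4) (nat_lit 4) (nat_lit 2) (nat_lit 4) (nat_lit 361) (nat_lit 237) (nat_lit 122)))))) (XT.nd (nat_lit 312) (nat_lit 1292) (nat_lit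 0) (XT.nd (nat_lit 156) (nat_lit 304) (nat_lit 0) (XT.nd (nat_lit 78) (nat_lit 228) (nat_lit 0) (XT.lf (nat_lit 0) (nat_lit 2934896008) (nat_lit 76) (nat_lit 155475573) (nat_lit 76) (nat_lit 155475573) (nat_lit 119) (nat_lit 4) (nat_lit 120) (nat_lit 5) (nat_lit 120) (nat_lit 4) (nat_lit 244) (nat_lit 238) (nat_lit 238)) (XT.lf (nat_lit 0) (nat_lit 2535465384) (nat_lit 228) (nat_lit 3807676163) (nat_lit 0) (nat_lit 176867334) (nat_lit 116) (nat_lit 5) (nat_lit 119) (nat_lit 4) (nat_lit 116) (nat_lit 4) (nat_lit 245) (nat_lit 238) (nat_lit 237))) (XT.nd (nat_lit 78) (nat_lit 304) (nat_lit 0) (XT.lf (nat_lit 0) (nat_lit 5361277434) (nat_lit 228) (nat_lit 440383678) (nat_lit 0) (nat_lit 756395529) (nat_lit 116) (nat_lit 5) (nat_lit 119) (nat_lit 4) (nat_lit 116) (nat_lit 4) (nat_lit 246) (nat_lit 238) (nat_lit 236)) (XT.lf (nat_lit 0) (nat_lit 1560160447) (nat_lit 304) (nat_lit 3545870947)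 (nat_lit 76) (nat_lit 1497226483) (nat_lit 112) (nat_lit 5) (nat_lit 116) (nat_lit 5) (nat_lit 113) (nat_lit 4) (nat_lit 247) (nat_lit 238) (nat_lit 235)))) (XT.nd (nat_lit 156) (nat_lit 912) (nat_lit 0) (XT.nd (nat_lit 78) (nat_lit 380) (nat_lit 0) (XT.lf (nat_lit 0) (nat_lit 4264619939) (nat_lit 304) (nat_lit 39174662) (nat_lit 76) (nat_lit 2354268394) (nat_lit 112) (nat_lit 5) (nat_lit 116) (nat_lit 5) (nat_lit 113) (nat_lit 4) (nat_lit 248) (nat_lit 238) (nat_lit 234)) (XT.lf (nat_lit 0) (nat_lit 280789601) (nat_lit 380) (nat_lit 3074847425) (nat_lit 76) (nat_lit 3365184334) (nat_lit 107) (nat_lit 5) (nat_lit 112) (nat_lit 5) (nat_lit 108) (nat_lit 5) (nat_lit 249) (nat_lit 238) (nat_lit 233))) (XT.nd (nat_lit 78) (nat_lit 532) (nat_lit 0) (XT.lf (nat_lit 0) (nat_lit 597108872) (nat_lit 380) (nat_lit 2273393397) (nat_lit 456) (nat_lit 3921851185) (nat_lit 102) (nat_lit 5) (nat_lit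 107) (nat_lit 5) (nat_lit 108) (nat_lit 5) (nat_lit 250) (nat_lit 238) (nat_lit 232)) (XT.nd (nat_lit 78) (nat_lit 532) (nat_lit 0) (XT.lf (nat_lit 0) (nat_lit 4448424025) (nat_lit 380) (nat_lit 1050862365) (nat_lit 456) (nat_lit 1373370604) (nat_lit 102) (nat_lit 5) (nat_lit 107) (nat_lit 5) (nat_lit 108) (nat_lit 5) (nat_lit 251) (nat_lit 238) (nat_lit 231)) (XT.lf (nat_lit 0) (nat_lit 1149713234) (nat_lit 532) (nat_lit 5516615646) (nat_lit 76) (nat_lit 295798056) (nat_lit 95) (nat_lit 5) (nat_lit 102) (nat_lit 5) (nat_lit 96) (nat_lit 5) (nat_lit 252) (nat_lit 238) (nat_lit 230))))))))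
noncomputable def xc102 : XT := (XT.nd (nat_lit 1326) (nat_lit 1748) (nat_lit 0) (XT.nd (nat_lit 624) (nat_lit 1748) (nat_lit 0) (XT.nd (nat_lit 312) (nat_lit 1064) (nat_lit 0) (XT.nd (nat_lit 156) (nat_lit 684) (nat_lit 0) (XT.nd (nat_lit 78) (nat_lit 532) (nat_lit 0) (XT.lf (nat_lit 0) (nat_lit 3678480987) (nat_lit 532) (nat_lit 1618283119) (nat_lit 76) (nat_lit 1762478697) (nat_lit 95) (nat_lit 5) (nat_lit 102) (nat_lit 5) (nat_lit 96) (nat_lit 5) (nat_lit 253) (nat_lit 238) (nat_lit 229)) (XT.lf (nat_lit 0) (nat_lit 2441925162) (nat_lit 532) (nat_lit 3802961667) (nat_lit 608) (nat_lit 921322258) (nat_lit 88) (nat_lit 5) (nat_lit 95) (nat_lit 5) (nat_lit 96) (nat_lit 5) (nat_lit 254) (nat_lit 238) (nat_lit 228))) (XT.nd (nat_lit 78) (nat_lit 608) (nat_lit 0) (XT.lf (nat_lit 0) (nat_lit 1510669156) (nat_lit 608) (nat_lit 656253902) (nat_lit 76) (nat_lit 5115669707) (nat_lit 87) (nat_lit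 5) (nat_lit 95) (nat_lit 5) (nat_lit 88) (nat_lit 5) (nat_lit 255) (nat_lit 238) (nat_lit 227)) (XT.lf (nat_lit 0) (nat_lit 3606904118) (nat_lit 608) (nat_lit 363554500) (nat_lit 684) (nat_lit 3437202873) (nat_lit 79) (nat_lit 5) (nat_lit 87) (nat_lit 5) (nat_lit 88) (nat_lit 5) (nat_lit 256) (nat_lit 238) (nat_lit 226)))) (XT.nd (nat_lit 156) (nat_lit 304) (nat_lit 0) (XT.nd (nat_lit 78) (nat_lit 76) (nat_lit 0) (XT.lf (nat_lit 0) (nat_lit 444529440) (nat_lit 684) (nat_lit 6035813922) (nat_lit 760) (nat_lit 1062741278) (nat_lit 70) (nat_lit 5) (nat_lit 79) (nat_lit 5) (nat_lit 80) (nat_lit 5) (nat_lit 257) (nat_lit 238) (nat_lit 225)) (XT.lf (nat_lit 0) (nat_lit 1342518240) (nat_lit 760) (nat_lit 2792920733) (nat_lit 76) (nat_lit 3551244273) (nat_lit 69) (nat_lit 5) (nat_lit 79) (nat_lit 5) (nat_lit 70) (nat_lit 5) (nat_lit 258) (nat_lit 238) (nat_lit 224))) (XT.nd (nat_lit 78) (nat_lit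 0) (nat_lit 0) (XT.lf (nat_lit 0) (nat_lit 1653450273) (nat_lit 304) (nat_lit 2096571507) (nat_lit 380) (nat_lit 4091078249) (nat_lit 65) (nat_lit 5) (nat_lit 69) (nat_lit 5) (nat_lit 70) (nat_lit 5) (nat_lit 259) (nat_lit 238) (nat_lit 223)) (XT.lf (nat_lit 0) (nat_lit 6221948989) (nat_lit 380) (nat_lit 1697056160) (nat_lit 76) (nat_lit 87405458) (nat_lit 65) (nat_lit 5) (nat_lit 70) (nat_lit 5) (nat_lit 66) (nat_lit 5) (nat_lit 260) (nat_lit 238) (nat_lit 222))))) (XT.nd (nat_lit 312) (nat_lit 684) (nat_lit 0) (XT.nd (nat_lit 156) (nat_lit 608) (nat_lit 0) (XT.nd (nat_lit 78) (nat_lit 0) (nat_lit 0) (XT.lf (nat_lit 0) (nat_lit 597440246) (nat_lit 456) (nat_lit 5220563290) (nat_lit 76) (nat_lit 2362808117) (nat_lit 59) (nat_lit 5) (nat_lit 65) (nat_lit 5) (nat_lit 60) (nat_lit 5) (nat_lit 261) (nat_lit 238) (nat_lit 221)) (XT.lf (nat_lit 0) (nat_lit 2969118641) (nat_lit 456) (nat_lit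 593120062) (nat_lit 76) (nat_lit 4804023091) (nat_lit 59) (nat_lit 5) (nat_lit 65) (nat_lit 5) (nat_lit 60) (nat_lit 5) (nat_lit 262) (nat_lit 238) (nat_lit 220))) (XT.nd (nat_lit 78) (nat_lit 304) (nat_lit 0) (XT.lf (nat_lit 0) (nat_lit 4298280691) (nat_lit 304) (nat_lit 1134341258) (nat_lit 380) (nat_lit 3130009272) (nat_lit 55) (nat_lit 5) (nat_lit 59) (nat_lit 5) (nat_lit 60) (nat_lit 5) (nat_lit 263) (nat_lit 238) (nat_lit 219)) (XT.lf (nat_lit 0) (nat_lit 574718990) (nat_lit 304) (nat_lit 7394653387) (nat_lit 380) (nat_lit 802237265) (nat_lit 51) (nat_lit 5) (nat_lit 55) (nat_lit 5) (nat_lit 56) (nat_lit 5) (nat_lit 264) (nat_lit 238) (nat_lit 218)))) (XT.nd (nat_lit 156) (nat_lit 380) (nat_lit 0) (XT.nd (nat_lit 78) (nat_lit 228) (nat_lit 0) (XT.lf (nat_lit 0) (nat_lit 1591130776) (nat_lit 380) (nat_lit 3338505544) (nat_lit 76) (nat_lit 4060297729) (nat_lit 50) (nat_lit 5) (nat_lit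 55) (nat_lit 5) (nat_lit 51) (nat_lit 5) (nat_lit 265) (nat_lit 238) (nat_lit 217)) (XT.lf (nat_lit 0) (nat_lit 1699808633) (nat_lit 228) (nat_lit 2317994762) (nat_lit 304) (nat_lit 5203937952) (nat_lit 47) (nat_lit 5) (nat_lit 50) (nat_lit 5) (nat_lit 51) (nat_lit 5) (nat_lit 266) (nat_lit 238) (nat_lit 216))) (XT.nd (nat_lit 78) (nat_lit 380) (nat_lit 0) (XT.lf (nat_lit 0) (nat_lit 6546149788) (nat_lit 304) (nat_lit 2470596482) (nat_lit 76) (nat_lit 449617707) (nat_lit 47) (nat_lit 5) (nat_lit 51) (nat_lit 5) (nat_lit 48) (nat_lit 5) (nat_lit 267) (nat_lit 238) (nat_lit 215)) (XT.nd (nat_lit 78) (nat_lit 76) (nat_lit 0) (XT.lf (nat_lit 0) (nat_lit 2782774670) (nat_lit 304) (nat_lit 6419824380) (nat_lit 380) (nat_lit 520764862) (nat_lit 43) (nat_lit 5) (nat_lit 47) (nat_lit 5) (nat_lit 48) (nat_lit 5) (nat_lit 268) (nat_lit 238) (nat_lit 214)) (XT.lf (nat_lit 0) (nat_lit 1898206986)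 (nat_lit 380) (nat_lit 1741205270) (nat_lit 76) (nat_lit 6354274407) (nat_lit 42) (nat_lit 5) (nat_lit 47) (nat_lit 5) (nat_lit 43) (nat_lit 5) (nat_lit 269) (nat_lit 238) (nat_lit 213))))))) (XT.nd (nat_lit 702) (nat_lit 608) (nat_lit 0) (XT.nd (nat_lit 312) (nat_lit 608) (nat_lit 0) (XT.nd (nat_lit 156) (nat_lit 304) (nat_lit 0) (XT.nd (nat_lit 78) (nat_lit 0) (nat_lit 0) (XT.lf (nat_lit 0) (nat_lit 3731144189) (nat_lit 228) (nat_lit 672490883) (nat_lit 304) (nat_lit 5874512256) (nat_lit 39) (nat_lit 5) (nat_lit 42) (nat_lit 5) (nat_lit 43) (nat_lit 5) (nat_lit 270) (nat_lit 238) (nat_lit 212)) (XT.lf (nat_lit 0) (nat_lit 7028918000) (nat_lit 304) (nat_lit 1176211014) (nat_lit 76) (nat_lit 2372162435) (nat_lit 39) (nat_lit 5) (nat_lit 43) (nat_lit 5) (nat_lit 40) (nat_lit 5) (nat_lit 271) (nat_lit 238) (nat_lit 211))) (XT.nd (nat_lit 78) (nat_lit 76) (nat_lit 0) (XT.lf (nat_lit 0)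 (nat_lit 4501118037) (nat_lit 228) (nat_lit 5295621097) (nat_lit 304) (nat_lit 1094270503) (nat_lit 36) (nat_lit 5) (nat_lit 39) (nat_lit 5) (nat_lit 40) (nat_lit 5) (nat_lit 272) (nat_lit 238) (nat_lit 210)) (XT.lf (nat_lit 0) (nat_lit 1385898852) (nat_lit 304) (nat_lit 835710722) (nat_lit 76) (nat_lit 9000270024) (nat_lit 35) (nat_lit 5) (nat_lit 39) (nat_lit 5) (nat_lit 36) (nat_lit 5) (nat_lit 273) (nat_lit 238) (nat_lit 209)))) (XT.nd (nat_lit 156) (nat_lit 456) (nat_lit 0) (XT.nd (nat_lit 78) (nat_lit 0) (nat_lit 0) (XT.lf (nat_lit 0) (nat_lit 3982893656) (nat_lit 228) (nat_lit 6536394698) (nat_lit 76) (nat_lit 1047784158) (nat_lit 33) (nat_lit 5) (nat_lit 36) (nat_lit 5) (nat_lit 34) (nat_lit 5) (nat_lit 274) (nat_lit 238) (nat_lit 208)) (XT.lf (nat_lit 0) (nat_lit 6695761296) (nat_lit 228) (nat_lit 838963095) (nat_lit 76) (nat_lit 4395648076) (nat_lit 33) (nat_lit 5) (nat_lit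 36) (nat_lit 5) (nat_lit 34) (nat_lit 5) (nat_lit 275) (nat_lit 238) (nat_lit 207))) (XT.nd (nat_lit 78) (nat_lit 228) (nat_lit 0) (XT.lf (nat_lit 0) (nat_lit 5222006821) (nat_lit 228) (nat_lit 4342098593) (nat_lit 304) (nat_lit 2746881828) (nat_lit 30) (nat_lit 5) (nat_lit 33) (nat_lit 5) (nat_lit 34) (nat_lit 5) (nat_lit 276) (nat_lit 238) (nat_lit 206)) (XT.nd (nat_lit 78) (nat_lit 228) (nat_lit 0) (XT.lf (nat_lit 0) (nat_lit 11528108978) (nat_lit 228) (nat_lit 1001847911) (nat_lit 304) (nat_lit 183106101) (nat_lit 30) (nat_lit 5) (nat_lit 33) (nat_lit 5) (nat_lit 34) (nat_lit 5) (nat_lit 277) (nat_lit 238) (nat_lit 205)) (XT.lf (nat_lit 0) (nat_lit 2489750498) (nat_lit 228) (nat_lit 8121169096) (nat_lit 76) (nat_lit 2519427067) (nat_lit 27) (nat_lit 5) (nat_lit 30) (nat_lit 5) (nat_lit 28) (nat_lit 5) (nat_lit 278) (nat_lit 238) (nat_lit 204)))))) (XT.nd (nat_lit 312) (nat_lit 304)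 (nat_lit 0) (XT.nd (nat_lit 156) (nat_lit 152) (nat_lit 0) (XT.nd (nat_lit 78) (nat_lit 152) (nat_lit 0) (XT.lf (nat_lit 0) (nat_lit 5269653479) (nat_lit 228) (nat_lit 2119210838) (nat_lit 76) (nat_lit 6180618651) (nat_lit 27) (nat_lit 5) (nat_lit 30) (nat_lit 5) (nat_lit 28) (nat_lit 5) (nat_lit 279) (nat_lit 238) (nat_lit 203)) (XT.lf (nat_lit 0) (nat_lit 4236418215) (nat_lit 152) (nat_lit 3963739210) (nat_lit 228) (nat_lit 5829949224) (nat_lit 25) (nat_lit 5) (nat_lit 27) (nat_lit 5) (nat_lit 28) (nat_lit 5) (nat_lit 280) (nat_lit 238) (nat_lit 202))) (XT.nd (nat_lit 78) (nat_lit 152) (nat_lit 0) (XT.lf (nat_lit 0) (nat_lit 10902706866) (nat_lit 152) (nat_lit 357170108) (nat_lit 228) (nat_lit 3254855594) (nat_lit 25) (nat_lit 5) (nat_lit 27) (nat_lit 5) (nat_lit 28) (nat_lit 5) (nat_lit 281) (nat_lit 238) (nat_lit 201)) (XT.lf (nat_lit 0) (nat_lit 2836892384) (nat_lit 152) (nat_lit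 11682454609) (nat_lit 228) (nat_lit 502005110) (nat_lit 23) (nat_lit 5) (nat_lit 25) (nat_lit 5) (nat_lit 26) (nat_lit 4) (nat_lit 282) (nat_lit 238) (nat_lit 200)))) (XT.nd (nat_lit 156) (nat_lit 76) (nat_lit 0) (XT.nd (nat_lit 78) (nat_lit 152) (nat_lit 0) (XT.lf (nat_lit 0) (nat_lit 2329303213) (nat_lit 228) (nat_lit 5940308084) (nat_lit 76) (nat_lit 7281054873) (nat_lit 22) (nat_lit 5) (nat_lit 25) (nat_lit 5) (nat_lit 23) (nat_lit 5) (nat_lit 283) (nat_lit 238) (nat_lit 199)) (XT.lf (nat_lit 0) (nat_lit 549629553) (nat_lit 152) (nat_lit 4695907886) (nat_lit 228) (nat_lit 10862572321) (nat_lit 20) (nat_lit 5) (nat_lit 22) (nat_lit 5) (nat_lit 23) (nat_lit 5) (nat_lit 284) (nat_lit 238) (nat_lit 198))) (XT.nd (nat_lit 78) (nat_lit 76) (nat_lit 0) (XT.lf (nat_lit 0) (nat_lit 7495736906) (nat_lit 152) (nat_lit 865236629) (nat_lit 228) (nat_lit 8329865204) (nat_lit 20) (nat_lit 5) (nat_lit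 22) (nat_lit 5) (nat_lit 23) (nat_lit 5) (nat_lit 285) (nat_lit 238) (nat_lit 197)) (XT.nd (nat_lit 78) (nat_lit 76) (nat_lit 0) (XT.lf (nat_lit 0) (nat_lit 11636100240) (nat_lit 228) (nat_lit 2635774670) (nat_lit 76) (nat_lit 3030712098) (nat_lit 20) (nat_lit 5) (nat_lit 23) (nat_lit 5) (nat_lit 21) (nat_lit 4) (nat_lit 286) (nat_lit 238) (nat_lit 196)) (XT.lf (nat_lit 0) (nat_lit 4305685360) (nat_lit 76) (nat_lit 10807496114) (nat_lit 152) (nat_lit 2829906334) (nat_lit 19) (nat_lit 5) (nat_lit 20) (nat_lit 5) (nat_lit 21) (nat_lit 4) (nat_lit 287) (nat_lit 238) (nat_lit 195))))))))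
noncomputable def xc103 : XT := (XT.nd (nat_lit 1404) (nat_lit 304) (nat_lit 0) (XT.nd (nat_lit 702) (nat_lit 228) (nat_lit 0) (XT.nd (nat_lit 312) (nat_lit 304) (nat_lit 0) (XT.nd (nat_lit 156) (nat_lit 152) (nat_lit 0) (XT.nd (nat_lit 78) (nat_lit 0) (nat_lit 0) (XT.lf (nat_lit 0) (nat_lit 146139538) (nat_lit 152) (nat_lit 7000532519) (nat_lit 76) (nat_lit 11468774244) (nat_lit 18) (nat_lit 5) (nat_lit 20) (nat_lit 5) (nat_lit 19) (nat_lit 5) (nat_lit 288) (nat_lit 238) (nat_lit 194)) (XT.lf (nat_lit 0) (nat_lit 3134950537) (nat_lit 152) (nat_lit 144712898) (nat_lit 76) (nat_lit 16041551190) (nat_lit 18) (nat_lit 5) (nat_lit 20) (nat_lit 5) (nat_lit 19) (nat_lit 5) (nat_lit 289) (nat_lit 238) (nat_lit 193))) (XT.nd (nat_lit 78) (nat_lit 0) (nat_lit 0) (XT.lf (nat_lit 0) (nat_lit 6360625606) (nat_lit 228) (nat_lit 12850599680) (nat_lit 76) (nat_lit 846736630) (nat_lit 16) (nat_lit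 5) (nat_lit 19) (nat_lit 5) (nat_lit 17) (nat_lit 4) (nat_lit 290) (nat_lit 238) (nat_lit 192)) (XT.lf (nat_lit 0) (nat_lit 9765361319) (nat_lit 228) (nat_lit 6017063366) (nat_lit 76) (nat_lit 5048291827) (nat_lit 16) (nat_lit 5) (nat_lit 19) (nat_lit 5) (nat_lit 17) (nat_lit 4) (nat_lit 291) (nat_lit 238) (nat_lit 191)))) (XT.nd (nat_lit 156) (nat_lit 228) (nat_lit 0) (XT.nd (nat_lit 78) (nat_lit 0) (nat_lit 0) (XT.lf (nat_lit 0) (nat_lit 1133574643) (nat_lit 76) (nat_lit 12187810745) (nat_lit 152) (nat_lit 8321726859) (nat_lit 15) (nat_lit 5) (nat_lit 16) (nat_lit 5) (nat_lit 17) (nat_lit 4) (nat_lit 292) (nat_lit 238) (nat_lit 190)) (XT.lf (nat_lit 0) (nat_lit 8790768377) (nat_lit 76) (nat_lit 8330507721) (nat_lit 152) (nat_lit 5371601721) (nat_lit 15) (nat_lit 5) (nat_lit 16) (nat_lit 5) (nat_lit 17) (nat_lit 4) (nat_lit 293) (nat_lit 238) (nat_lit 189))) (XT.nd (nat_lit 78) (nat_lit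 228) (nat_lit 0) (XT.lf (nat_lit 0) (nat_lit 16773797959) (nat_lit 76) (nat_lit 4303233438) (nat_lit 152) (nat_lit 2309857552) (nat_lit 15) (nat_lit 5) (nat_lit 16) (nat_lit 5) (nat_lit 17) (nat_lit 4) (nat_lit 294) (nat_lit 238) (nat_lit 188)) (XT.nd (nat_lit 78) (nat_lit 0) (nat_lit 0) (XT.lf (nat_lit 0) (nat_lit 785956320) (nat_lit 152) (nat_lit 69239282) (nat_lit 228) (nat_lit 23470785305) (nat_lit 12) (nat_lit 5) (nat_lit 14) (nat_lit 5) (nat_lit 15) (nat_lit 5) (nat_lit 295) (nat_lit 238) (nat_lit 187)) (XT.lf (nat_lit 0) (nat_lit 4250328484) (nat_lit 228) (nat_lit 16685780793) (nat_lit 76) (nat_lit 4366596057) (nat_lit 12) (nat_lit 5) (nat_lit 15) (nat_lit 5) (nat_lit 13) (nat_lit 4) (nat_lit 296) (nat_lit 238) (nat_lit 186)))))) (XT.nd (nat_lit 312) (nat_lit 152) (nat_lit 0) (XT.nd (nat_lit 156) (nat_lit 76) (nat_lit 0) (XT.nd (nat_lit 78) (nat_lit 0) (nat_lit 0) (XT.lf (nat_lit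 0) (nat_lit 7785203379) (nat_lit 228) (nat_lit 9543168897) (nat_lit 76) (nat_lit 9001436217) (nat_lit 12) (nat_lit 5) (nat_lit 15) (nat_lit 5) (nat_lit 13) (nat_lit 4) (nat_lit 297) (nat_lit 238) (nat_lit 185)) (XT.lf (nat_lit 0) (nat_lit 11467155638) (nat_lit 228) (nat_lit 2094101662) (nat_lit 76) (nat_lit 13848532618) (nat_lit 12) (nat_lit 5) (nat_lit 15) (nat_lit 5) (nat_lit 13) (nat_lit 4) (nat_lit 298) (nat_lit 238) (nat_lit 184))) (XT.nd (nat_lit 78) (nat_lit 0) (nat_lit 0) (XT.lf (nat_lit 0) (nat_lit 5866935356) (nat_lit 76) (nat_lit 9529615758) (nat_lit 152) (nat_lit 13144089913) (nat_lit 11) (nat_lit 5) (nat_lit 12) (nat_lit 5) (nat_lit 13) (nat_lit 4) (nat_lit 299) (nat_lit 238) (nat_lit 183)) (XT.lf (nat_lit 0) (nat_lit 14251242981) (nat_lit 76) (nat_lit 5278988373) (nat_lit 152) (nat_lit 10197448680) (nat_lit 11) (nat_lit 5) (nat_lit 12) (nat_lit 5) (nat_lit 13) (nat_lit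 4) (nat_lit 300) (nat_lit 238) (nat_lit 182)))) (XT.nd (nat_lit 156) (nat_lit 152) (nat_lit 0) (XT.nd (nat_lit 78) (nat_lit 0) (nat_lit 0) (XT.lf (nat_lit 0) (nat_lit 23009543391) (nat_lit 76) (nat_lit 834719227) (nat_lit 152) (nat_lit 7131159394) (nat_lit 11) (nat_lit 5) (nat_lit 12) (nat_lit 5) (nat_lit 13) (nat_lit 4) (nat_lit 301) (nat_lit 238) (nat_lit 181)) (XT.lf (nat_lit 0) (nat_lit 28408460099) (nat_lit 152) (nat_lit 183691783) (nat_lit 0) (nat_lit 3691708708) (nat_lit 11) (nat_lit 5) (nat_lit 13) (nat_lit 4) (nat_lit 11) (nat_lit 4) (nat_lit 302) (nat_lit 238) (nat_lit 180))) (XT.nd (nat_lit 78) (nat_lit 76) (nat_lit 0) (XT.lf (nat_lit 0) (nat_lit 8194210233) (nat_lit 76) (nat_lit 25124123431) (nat_lit 76) (nat_lit 333545299) (nat_lit 10) (nat_lit 4) (nat_lit 11) (nat_lit 5) (nat_lit 11) (nat_lit 4) (nat_lit 303) (nat_lit 238) (nat_lit 179)) (XT.nd (nat_lit 78) (nat_lit 0)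 (nat_lit 0) (XT.lf (nat_lit 0) (nat_lit 3256147155) (nat_lit 152) (nat_lit 18185787646) (nat_lit 76) (nat_lit 13644794023) (nat_lit 9) (nat_lit 5) (nat_lit 11) (nat_lit 5) (nat_lit 10) (nat_lit 4) (nat_lit 304) (nat_lit 238) (nat_lit 178)) (XT.lf (nat_lit 0) (nat_lit 6991197420) (nat_lit 152) (nat_lit 10595897634) (nat_lit 76) (nat_lit 19007125533) (nat_lit 9) (nat_lit 5) (nat_lit 11) (nat_lit 5) (nat_lit 10) (nat_lit 4) (nat_lit 305) (nat_lit 238) (nat_lit 177))))))) (XT.nd (nat_lit 702) (nat_lit 152) (nat_lit 0) (XT.nd (nat_lit 312) (nat_lit 76) (nat_lit 0) (XT.nd (nat_lit 156) (nat_lit 0) (nat_lit 0) (XT.nd (nat_lit 78) (nat_lit 76) (nat_lit 0) (XT.lf (nat_lit 0) (nat_lit 10891174004) (nat_lit 152) (nat_lit 2664719952) (nat_lit 76) (nat_lit 24622309940) (nat_lit 9) (nat_lit 5) (nat_lit 11) (nat_lit 5) (nat_lit 10) (nat_lit 4) (nat_lit 306) (nat_lit 238) (nat_lit 176)) (XT.lf (nat_lit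 0) (nat_lit 5812670927) (nat_lit 76) (nat_lit 9243443721) (nat_lit 152) (nat_lit 24781797886) (nat_lit 8) (nat_lit 5) (nat_lit 9) (nat_lit 5) (nat_lit 10) (nat_lit 4) (nat_lit 307) (nat_lit 238) (nat_lit 175))) (XT.nd (nat_lit 78) (nat_lit 0) (nat_lit 0) (XT.lf (nat_lit 0) (nat_lit 14770643848) (nat_lit 76) (nat_lit 4683430852) (nat_lit 152) (nat_lit 22125316552) (nat_lit 8) (nat_lit 5) (nat_lit 9) (nat_lit 5) (nat_lit 10) (nat_lit 4) (nat_lit 308) (nat_lit 238) (nat_lit 174)) (XT.lf (nat_lit 0) (nat_lit 24053949314) (nat_lit 152) (nat_lit 19267918929) (nat_lit 0) (nat_lit 86996991) (nat_lit 8) (nat_lit 5) (nat_lit 10) (nat_lit 4) (nat_lit 8) (nat_lit 4) (nat_lit 309) (nat_lit 238) (nat_lit 173)))) (XT.nd (nat_lit 156) (nat_lit 76) (nat_lit 0) (XT.nd (nat_lit 78) (nat_lit 0) (nat_lit 0) (XT.lf (nat_lit 0) (nat_lit 28941913052) (nat_lit 152) (nat_lit 11460024308) (nat_lit 0) (nat_lit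 4924991885) (nat_lit 8) (nat_lit 5) (nat_lit 10) (nat_lit 4) (nat_lit 8) (nat_lit 4) (nat_lit 310) (nat_lit 238) (nat_lit 172)) (XT.lf (nat_lit 0) (nat_lit 34056482444) (nat_lit 152) (nat_lit 3293351835) (nat_lit 0) (nat_lit 9991971900) (nat_lit 8) (nat_lit 5) (nat_lit 10) (nat_lit 4) (nat_lit 8) (nat_lit 4) (nat_lit 311) (nat_lit 238) (nat_lit 171))) (XT.nd (nat_lit 78) (nat_lit 0) (nat_lit 0) (XT.lf (nat_lit 0) (nat_lit 5425182673) (nat_lit 76) (nat_lit 34069354667) (nat_lit 76) (nat_lit 9959520908) (nat_lit 7) (nat_lit 4) (nat_lit 8) (nat_lit 5) (nat_lit 8) (nat_lit 4) (nat_lit 312) (nat_lit 238) (nat_lit 170)) (XT.nd (nat_lit 78) (nat_lit 0) (nat_lit 0) (XT.lf (nat_lit 0) (nat_lit 14664355999) (nat_lit 76) (nat_lit 30579312598) (nat_lit 76) (nat_lit 6426313872) (nat_lit 7) (nat_lit 4) (nat_lit 8) (nat_lit 5) (nat_lit 8) (nat_lit 4) (nat_lit 313) (nat_lit 238) (nat_lit 169)) (XT.lf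 (nat_lit 0) (nat_lit 24337273089) (nat_lit 76) (nat_lit 26927172954) (nat_lit 76) (nat_lit 2733064736) (nat_lit 7) (nat_lit 4) (nat_lit 8) (nat_lit 5) (nat_lit 8) (nat_lit 4) (nat_lit 314) (nat_lit 238) (nat_lit 168)))))) (XT.nd (nat_lit 312) (nat_lit 0) (nat_lit 0) (XT.nd (nat_lit 156) (nat_lit 76) (nat_lit 0) (XT.nd (nat_lit 78) (nat_lit 0) (nat_lit 0) (XT.lf (nat_lit 0) (nat_lit 1092884260) (nat_lit 152) (nat_lit 21992847380) (nat_lit 76) (nat_lit 33355571913) (nat_lit 6) (nat_lit 5) (nat_lit 8) (nat_lit 5) (nat_lit 7) (nat_lit 4) (nat_lit 315) (nat_lit 238) (nat_lit 167)) (XT.lf (nat_lit 0) (nat_lit 5003691004) (nat_lit 152) (nat_lit 14012981076) (nat_lit 76) (nat_lit 39989118205) (nat_lit 6) (nat_lit 5) (nat_lit 8) (nat_lit 5) (nat_lit 7) (nat_lit 4) (nat_lit 316) (nat_lit 238) (nat_lit 166))) (XT.nd (nat_lit 78) (nat_lit 76) (nat_lit 0) (XT.lf (nat_lit 0) (nat_lit 9096142079)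 (nat_lit 152) (nat_lit 5658968298) (nat_lit 76) (nat_lit 46944100061) (nat_lit 6) (nat_lit 5) (nat_lit 8) (nat_lit 5) (nat_lit 7) (nat_lit 4) (nat_lit 317) (nat_lit 238) (nat_lit 165)) (XT.lf (nat_lit 0) (nat_lit 3191220444) (nat_lit 76) (nat_lit 10238584865) (nat_lit 152) (nat_lit 51095680409) (nat_lit 5) (nat_lit 5) (nat_lit 6) (nat_lit 5) (nat_lit 7) (nat_lit 4) (nat_lit 318) (nat_lit 238) (nat_lit 164)))) (XT.nd (nat_lit 156) (nat_lit 0) (nat_lit 0) (XT.nd (nat_lit 78) (nat_lit 0) (nat_lit 0) (XT.lf (nat_lit 0) (nat_lit 12657103241) (nat_lit 76) (nat_lit 5405918244) (nat_lit 152) (nat_lit 49425922744) (nat_lit 5) (nat_lit 5) (nat_lit 6) (nat_lit 5) (nat_lit 7) (nat_lit 4) (nat_lit 319) (nat_lit 238) (nat_lit 163)) (XT.lf (nat_lit 0) (nat_lit 22574106857) (nat_lit 76) (nat_lit 341441532) (nat_lit 152) (nat_lit 47685657118) (nat_lit 5) (nat_lit 5) (nat_lit 6) (nat_lit 5) (nat_lit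 7) (nat_lit 4) (nat_lit 320) (nat_lit 238) (nat_lit 162))) (XT.nd (nat_lit 78) (nat_lit 0) (nat_lit 0) (XT.lf (nat_lit 0) (nat_lit 28076486941) (nat_lit 152) (nat_lit 40981383775) (nat_lit 0) (nat_lit 4807931617) (nat_lit 5) (nat_lit 5) (nat_lit 7) (nat_lit 4) (nat_lit 5) (nat_lit 4) (nat_lit 321) (nat_lit 238) (nat_lit 161)) (XT.nd (nat_lit 78) (nat_lit 0) (nat_lit 0) (XT.lf (nat_lit 0) (nat_lit 33489728826) (nat_lit 152) (nat_lit 33609524587) (nat_lit 0) (nat_lit 10194673957) (nat_lit 5) (nat_lit 5) (nat_lit 7) (nat_lit 4) (nat_lit 5) (nat_lit 4) (nat_lit 322) (nat_lit 238) (nat_lit 160)) (XT.lf (nat_lit 0) (nat_lit 39162831856) (nat_lit 152) (nat_lit 25888638183) (nat_lit 0) (nat_lit 15842539326) (nat_lit 5) (nat_lit 5) (nat_lit 7) (nat_lit 4) (nat_lit 5) (nat_lit 4) (nat_lit 323) (nat_lit 238) (nat_lit 159))))))))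
noncomputable def xc104 : XT := (XT.nd (nat_lit 1326) (nat_lit 0) (nat_lit 0) (XT.nd (nat_lit 624) (nat_lit 152) (nat_lit 0) (XT.nd (nat_lit 312) (nat_lit 0) (nat_lit 0) (XT.nd (nat_lit 156) (nat_lit 76) (nat_lit 0) (XT.nd (nat_lit 78) (nat_lit 0) (nat_lit 0) (XT.lf (nat_lit 0) (nat_lit 45109303420) (nat_lit 152) (nat_lit 17800341498) (nat_lit 0) (nat_lit 21764975021) (nat_lit 5) (nat_lit 5) (nat_lit 7) (nat_lit 4) (nat_lit 5) (nat_lit 4) (nat_lit 324) (nat_lit 238) (nat_lit 158)) (XT.lf (nat_lit 0) (nat_lit 51343301783) (nat_lit 152) (nat_lit 9325376685) (nat_lit 0) (nat_lit 27976082080) (nat_lit 5) (nat_lit 5) (nat_lit 7) (nat_lit 4) (nat_lit 5) (nat_lit 4) (nat_lit 325) (nat_lit 238) (nat_lit 157))) (XT.nd (nat_lit 78) (nat_lit 76) (nat_lit 0) (XT.lf (nat_lit 0) (nat_lit 57879669799) (nat_lit 152) (nat_lit 443565255) (nat_lit 0) (nat_lit 34490648854) (nat_lit 5) (nat_lit 5) (nat_lit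 7) (nat_lit 4) (nat_lit 5) (nat_lit 4) (nat_lit 326) (nat_lit 238) (nat_lit 156)) (XT.lf (nat_lit 0) (nat_lit 9159397895) (nat_lit 76) (nat_lit 55717576222) (nat_lit 76) (nat_lit 32307792190) (nat_lit 4) (nat_lit 4) (nat_lit 5) (nat_lit 5) (nat_lit 5) (nat_lit 4) (nat_lit 327) (nat_lit 238) (nat_lit 155)))) (XT.nd (nat_lit 156) (nat_lit 0) (nat_lit 0) (XT.nd (nat_lit 78) (nat_lit 0) (nat_lit 0) (XT.lf (nat_lit 0) (nat_lit 19242071628) (nat_lit 76) (nat_lit 52980873927) (nat_lit 76) (nat_lit 29551315527) (nat_lit 4) (nat_lit 4) (nat_lit 5) (nat_lit 5) (nat_lit 5) (nat_lit 4) (nat_lit 328) (nat_lit 238) (nat_lit 154)) (XT.lf (nat_lit 0) (nat_lit 29813796040) (nat_lit 76) (nat_lit 50114124204) (nat_lit 76) (nat_lit 26665733072) (nat_lit 4) (nat_lit 4) (nat_lit 5) (nat_lit 5) (nat_lit 5) (nat_lit 4) (nat_lit 329) (nat_lit 238) (nat_lit 153))) (XT.nd (nat_lit 78) (nat_lit 0) (nat_lit 0)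 (XT.lf (nat_lit 0) (nat_lit 40899741901) (nat_lit 76) (nat_lit 47110501458) (nat_lit 76) (nat_lit 23644174390) (nat_lit 4) (nat_lit 4) (nat_lit 5) (nat_lit 5) (nat_lit 5) (nat_lit 4) (nat_lit 330) (nat_lit 238) (nat_lit 152)) (XT.lf (nat_lit 0) (nat_lit 52526304322) (nat_lit 76) (nat_lit 43962854206) (nat_lit 76) (nat_lit 20479445295) (nat_lit 4) (nat_lit 4) (nat_lit 5) (nat_lit 5) (nat_lit 5) (nat_lit 4) (nat_lit 331) (nat_lit 238) (nat_lit 151))))) (XT.nd (nat_lit 312) (nat_lit 152) (nat_lit 0) (XT.nd (nat_lit 156) (nat_lit 0) (nat_lit 0) (XT.nd (nat_lit 78) (nat_lit 0) (nat_lit 0) (XT.lf (nat_lit 0) (nat_lit 64721165594) (nat_lit 76) (nat_lit 40663688050) (nat_lit 76) (nat_lit 17164010717) (nat_lit 4) (nat_lit 4) (nat_lit 5) (nat_lit 5) (nat_lit 5) (nat_lit 4) (nat_lit 332) (nat_lit 238) (nat_lit 150)) (XT.lf (nat_lit 0) (nat_lit 77513361101) (nat_lit 76) (nat_lit 37205147833) (nat_lit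 76) (nat_lit 13689976765) (nat_lit 4) (nat_lit 4) (nat_lit 5) (nat_lit 5) (nat_lit 5) (nat_lit 4) (nat_lit 333) (nat_lit 238) (nat_lit 149))) (XT.nd (nat_lit 78) (nat_lit 0) (nat_lit 0) (XT.lf (nat_lit 0) (nat_lit 90933348452) (nat_lit 76) (nat_lit 33578998934) (nat_lit 76) (nat_lit 10049071928) (nat_lit 4) (nat_lit 4) (nat_lit 5) (nat_lit 5) (nat_lit 5) (nat_lit 4) (nat_lit 334) (nat_lit 238) (nat_lit 148)) (XT.lf (nat_lit 0) (nat_lit 105013079996) (nat_lit 76) (nat_lit 29776607667) (nat_lit 76) (nat_lit 6232627386) (nat_lit 4) (nat_lit 4) (nat_lit 5) (nat_lit 5) (nat_lit 5) (nat_lit 4) (nat_lit 335) (nat_lit 238) (nat_lit 147)))) (XT.nd (nat_lit 156) (nat_lit 76) (nat_lit 0) (XT.nd (nat_lit 78) (nat_lit 76) (nat_lit 0) (XT.lf (nat_lit 0) (nat_lit 119786078905) (nat_lit 76) (nat_lit 25788920718) (nat_lit 76) (nat_lit 2231556366) (nat_lit 4) (nat_lit 4) (nat_lit 5) (nat_lit 5) (nat_lit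 5) (nat_lit 4) (nat_lit 336) (nat_lit 238) (nat_lit 146)) (XT.lf (nat_lit 0) (nat_lit 1900817867) (nat_lit 152) (nat_lit 19673434458) (nat_lit 76) (nat_lit 133354509848) (nat_lit 3) (nat_lit 5) (nat_lit 5) (nat_lit 5) (nat_lit 4) (nat_lit 4) (nat_lit 337) (nat_lit 238) (nat_lit 145))) (XT.nd (nat_lit 78) (nat_lit 76) (nat_lit 0) (XT.lf (nat_lit 0) (nat_lit 6159376025) (nat_lit 152) (nat_lit 10955529981) (nat_lit 76) (nat_lit 145290620390) (nat_lit 3) (nat_lit 5) (nat_lit 5) (nat_lit 5) (nat_lit 4) (nat_lit 4) (nat_lit 338) (nat_lit 238) (nat_lit 144)) (XT.nd (nat_lit 78) (nat_lit 76) (nat_lit 0) (XT.lf (nat_lit 0) (nat_lit 10625681271) (nat_lit 152) (nat_lit 1811165890) (nat_lit 76) (nat_lit 157819545359) (nat_lit 3) (nat_lit 5) (nat_lit 5) (nat_lit 5) (nat_lit 4) (nat_lit 4) (nat_lit 339) (nat_lit 238) (nat_lit 143)) (XT.lf (nat_lit 0) (nat_lit 8038719330) (nat_lit 76) (nat_lit 7397155272)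 (nat_lit 152) (nat_lit 163057903136) (nat_lit 2) (nat_lit 5) (nat_lit 3) (nat_lit 5) (nat_lit 4) (nat_lit 4) (nat_lit 340) (nat_lit 238) (nat_lit 142))))))) (XT.nd (nat_lit 702) (nat_lit 0) (nat_lit 0) (XT.nd (nat_lit 312) (nat_lit 0) (nat_lit 0) (XT.nd (nat_lit 156) (nat_lit 0) (nat_lit 0) (XT.nd (nat_lit 78) (nat_lit 0) (nat_lit 0) (XT.lf (nat_lit 0) (nat_lit 18435137047) (nat_lit 76) (nat_lit 2077276329) (nat_lit 152) (nat_lit 166629331270) (nat_lit 2) (nat_lit 5) (nat_lit 3) (nat_lit 5) (nat_lit 4) (nat_lit 4) (nat_lit 341) (nat_lit 238) (nat_lit 141)) (XT.lf (nat_lit 0) (nat_lit 25892891723) (nat_lit 152) (nat_lit 166934108433) (nat_lit 0) (nat_lit 3392608128) (nat_lit 2) (nat_lit 5) (nat_lit 4) (nat_lit 4) (nat_lit 2) (nat_lit 4) (nat_lit 342) (nat_lit 238) (nat_lit 140))) (XT.nd (nat_lit 78) (nat_lit 0) (nat_lit 0) (XT.lf (nat_lit 0) (nat_lit 31572003516) (nat_lit 152) (nat_lit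 165115223883) (nat_lit 0) (nat_lit 9062661054) (nat_lit 2) (nat_lit 5) (nat_lit 4) (nat_lit 4) (nat_lit 2) (nat_lit 4) (nat_lit 343) (nat_lit 238) (nat_lit 139)) (XT.lf (nat_lit 0) (nat_lit 37530838343) (nat_lit 152) (nat_lit 163213191168) (nat_lit 0) (nat_lit 15012868390) (nat_lit 2) (nat_lit 5) (nat_lit 4) (nat_lit 4) (nat_lit 2) (nat_lit 4) (nat_lit 344) (nat_lit 238) (nat_lit 138)))) (XT.nd (nat_lit 156) (nat_lit 0) (nat_lit 0) (XT.nd (nat_lit 78) (nat_lit 0) (nat_lit 0) (XT.lf (nat_lit 0) (nat_lit 43783583908) (nat_lit 152) (nat_lit 161223481638) (nat_lit 0) (nat_lit 21257397296) (nat_lit 2) (nat_lit 5) (nat_lit 4) (nat_lit 4) (nat_lit 2) (nat_lit 4) (nat_lit 345) (nat_lit 238) (nat_lit 137)) (XT.lf (nat_lit 0) (nat_lit 50345127699) (nat_lit 152) (nat_lit 159141357890) (nat_lit 0) (nat_lit 27811115698) (nat_lit 2) (nat_lit 5) (nat_lit 4) (nat_lit 4) (nat_lit 2) (nat_lit 4) (nat_lit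 346) (nat_lit 238) (nat_lit 136))) (XT.nd (nat_lit 78) (nat_lit 0) (nat_lit 0) (XT.lf (nat_lit 0) (nat_lit 57231092440) (nat_lit 152) (nat_lit 156961862486) (nat_lit 0) (nat_lit 34689627688) (nat_lit 2) (nat_lit 5) (nat_lit 4) (nat_lit 4) (nat_lit 2) (nat_lit 4) (nat_lit 347) (nat_lit 238) (nat_lit 135)) (XT.nd (nat_lit 78) (nat_lit 0) (nat_lit 0) (XT.lf (nat_lit 0) (nat_lit 64457873286) (nat_lit 152) (nat_lit 154679806150) (nat_lit 0) (nat_lit 41909310674) (nat_lit 2) (nat_lit 5) (nat_lit 4) (nat_lit 4) (nat_lit 2) (nat_lit 4) (nat_lit 348) (nat_lit 238) (nat_lit 134)) (XT.lf (nat_lit 0) (nat_lit 72042676856) (nat_lit 152) (nat_lit 152289755417) (nat_lit 0) (nat_lit 49487354380) (nat_lit 2) (nat_lit 5) (nat_lit 4) (nat_lit 4) (nat_lit 2) (nat_lit 4) (nat_lit 349) (nat_lit 238) (nat_lit 133)))))) (XT.nd (nat_lit 312) (nat_lit 0) (nat_lit 0) (XT.nd (nat_lit 156) (nat_lit 0) (nat_lit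 0) (XT.nd (nat_lit 78) (nat_lit 0) (nat_lit 0) (XT.lf (nat_lit 0) (nat_lit 80003562208) (nat_lit 152) (nat_lit 149786019688) (nat_lit 0) (nat_lit 57441801764) (nat_lit 2) (nat_lit 5) (nat_lit 4) (nat_lit 4) (nat_lit 2) (nat_lit 4) (nat_lit 350) (nat_lit 238) (nat_lit 132)) (XT.lf (nat_lit 0) (nat_lit 88359483830) (nat_lit 152) (nat_lit 147162637689) (nat_lit 0) (nat_lit 65791591989) (nat_lit 2) (nat_lit 5) (nat_lit 4) (nat_lit 4) (nat_lit 2) (nat_lit 4) (nat_lit 351) (nat_lit 238) (nat_lit 131))) (XT.nd (nat_lit 78) (nat_lit 0) (nat_lit 0) (XT.lf (nat_lit 0) (nat_lit 97130336773) (nat_lit 152) (nat_lit 144413363271) (nat_lit 0) (nat_lit 74556605507) (nat_lit 2) (nat_lit 5) (nat_lit 4) (nat_lit 4) (nat_lit 2) (nat_lit 4) (nat_lit 352) (nat_lit 238) (nat_lit 130)) (XT.lf (nat_lit 0) (nat_lit 106337004021) (nat_lit 152) (nat_lit 141531650543) (nat_lit 0) (nat_lit 83757711397) (nat_lit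 2) (nat_lit 5) (nat_lit 4) (nat_lit 4) (nat_lit 2) (nat_lit 4) (nat_lit 353) (nat_lit 238) (nat_lit 129)))) (XT.nd (nat_lit 156) (nat_lit 0) (nat_lit 0) (XT.nd (nat_lit 78) (nat_lit 0) (nat_lit 0) (XT.lf (nat_lit 0) (nat_lit 116001406211) (nat_lit 152) (nat_lit 138510638284) (nat_lit 0) (nat_lit 93416817055) (nat_lit 2) (nat_lit 5) (nat_lit 4) (nat_lit 4) (nat_lit 2) (nat_lit 4) (nat_lit 354) (nat_lit 238) (nat_lit 128)) (XT.lf (nat_lit 0) (nat_lit 126146553823) (nat_lit 152) (nat_lit 135343133609) (nat_lit 0) (nat_lit 103556920352) (nat_lit 2) (nat_lit 5) (nat_lit 4) (nat_lit 4) (nat_lit 2) (nat_lit 4) (nat_lit 355) (nat_lit 238) (nat_lit 127))) (XT.nd (nat_lit 78) (nat_lit 0) (nat_lit 0) (XT.lf (nat_lit 0) (nat_lit 136796601971) (nat_lit 152) (nat_lit 132021594839) (nat_lit 0) (nat_lit 114202164390) (nat_lit 2) (nat_lit 5) (nat_lit 4) (nat_lit 4) (nat_lit 2) (nat_lit 4) (nat_lit 356)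 (nat_lit 238) (nat_lit 126)) (XT.nd (nat_lit 78) (nat_lit 0) (nat_lit 0) (XT.lf (nat_lit 0) (nat_lit 147976907913) (nat_lit 152) (nat_lit 128538113548) (nat_lit 0) (nat_lit 125377894988) (nat_lit 2) (nat_lit 5) (nat_lit 4) (nat_lit 4) (nat_lit 2) (nat_lit 4) (nat_lit 357) (nat_lit 238) (nat_lit 125)) (XT.lf (nat_lit 0) (nat_lit 159714091424) (nat_lit 152) (nat_lit 124884395734) (nat_lit 0) (nat_lit 137110721030) (nat_lit 2) (nat_lit 5) (nat_lit 4) (nat_lit 4) (nat_lit 2) (nat_lit 4) (nat_lit 358) (nat_lit 238) (nat_lit 124))))))))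
noncomputable def xc105 : XT := (XT.nd (nat_lit 29484) (nat_lit 0) (nat_lit 2508) (XT.nd (nat_lit 28782) (nat_lit 0) (nat_lit 6460) (XT.nd (nat_lit 28470) (nat_lit 0) (nat_lit 8588) (XT.nd (nat_lit 156) (nat_lit 0) (nat_lit 0) (XT.nd (nat_lit 78) (nat_lit 0) (nat_lit 0) (XT.lf (nat_lit 0) (nat_lit 172036098179) (nat_lit 152) (nat_lit 121051742068) (nat_lit 0) (nat_lit 149428577814) (nat_lit 2) (nat_lit 5) (nat_lit 4) (nat_lit 4) (nat_lit 2) (nat_lit 4) (nat_lit 359) (nat_lit 238) (nat_lit 123)) (XT.lf (nat_lit 0) (nat_lit 184972266290) (nat_lit 152) (nat_lit 117031027185) (nat_lit 0) (nat_lit 162360793572) (nat_lit 2) (nat_lit 5) (nat_lit 4) (nat_lit 4) (nat_lit 2) (nat_lit 4) (nat_lit 360) (nat_lit 238) (nat_lit 122))) (XT.nd (nat_lit 28236) (nat_lit 0) (nat_lit 8968) (XT.lf (nat_lit 0) (nat_lit 198553396158) (nat_lit 152) (nat_lit 112812677954) (nat_lit 0) (nat_lit 175938159293) (nat_lit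 2) (nat_lit 5) (nat_lit 4) (nat_lit 4) (nat_lit 2) (nat_lit 4) (nat_lit 361) (nat_lit 238) (nat_lit 121)) (XT.lf (nat_lit 0) (nat_lit 1481618497) (nat_lit 76) (nat_lit 263434111) (nat_lit 0) (nat_lit 1481618497) (nat_lit 120) (nat_lit 5) (nat_lit 121) (nat_lit 0) (nat_lit 120) (nat_lit 4) (nat_lit 242) (nat_lit 239) (nat_lit 239)))) (XT.nd (nat_lit 156) (nat_lit 228) (nat_lit 0) (XT.nd (nat_lit 78) (nat_lit 76) (nat_lit 0) (XT.lf (nat_lit 0) (nat_lit 2609559105) (nat_lit 76) (nat_lit 3230325578) (nat_lit 76) (nat_lit 629971228) (nat_lit 119) (nat_lit 4) (nat_lit 120) (nat_lit 5) (nat_lit 120) (nat_lit 4) (nat_lit 243) (nat_lit 239) (nat_lit 238)) (XT.lf (nat_lit 0) (nat_lit 2130266804) (nat_lit 152) (nat_lit 709835351) (nat_lit 76) (nat_lit 3654583867) (nat_lit 118) (nat_lit 5) (nat_lit 120) (nat_lit 5) (nat_lit 119) (nat_lit 4) (nat_lit 244) (nat_lit 239) (nat_lit 237))) (XT.nd (nat_lit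 78) (nat_lit 76) (nat_lit 0) (XT.lf (nat_lit 0) (nat_lit 2568124889) (nat_lit 152) (nat_lit 2311682544) (nat_lit 228) (nat_lit 1647759314) (nat_lit 116) (nat_lit 5) (nat_lit 118) (nat_lit 5) (nat_lit 119) (nat_lit 4) (nat_lit 245) (nat_lit 239) (nat_lit 236)) (XT.lf (nat_lit 0) (nat_lit 1013659302) (nat_lit 228) (nat_lit 652426469) (nat_lit 76) (nat_lit 4903551421) (nat_lit 115) (nat_lit 5) (nat_lit 118) (nat_lit 5) (nat_lit 116) (nat_lit 5) (nat_lit 246) (nat_lit 239) (nat_lit 235))))) (XT.nd (nat_lit 312) (nat_lit 1140) (nat_lit 0) (XT.nd (nat_lit 156) (nat_lit 760) (nat_lit 0) (XT.nd (nat_lit 78) (nat_lit 0) (nat_lit 0) (XT.lf (nat_lit 0) (nat_lit 2780435972) (nat_lit 228) (nat_lit 858858461) (nat_lit 304) (nat_lit 2979659459) (nat_lit 112) (nat_lit 5) (nat_lit 115) (nat_lit 5) (nat_lit 116) (nat_lit 5) (nat_lit 247) (nat_lit 239) (nat_lit 234)) (XT.lf (nat_lit 0) (nat_lit 6257086718)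 (nat_lit 304) (nat_lit 371570169) (nat_lit 76) (nat_lit 49816163) (nat_lit 112) (nat_lit 5) (nat_lit 116) (nat_lit 5) (nat_lit 113) (nat_lit 4) (nat_lit 248) (nat_lit 239) (nat_lit 233))) (XT.nd (nat_lit 78) (nat_lit 380) (nat_lit 0) (XT.lf (nat_lit 0) (nat_lit 2112184891) (nat_lit 380) (nat_lit 3524642374) (nat_lit 76) (nat_lit 1107087135) (nat_lit 107) (nat_lit 5) (nat_lit 112) (nat_lit 5) (nat_lit 108) (nat_lit 5) (nat_lit 249) (nat_lit 239) (nat_lit 232)) (XT.lf (nat_lit 0) (nat_lit 78299857) (nat_lit 380) (nat_lit 4546836502) (nat_lit 456) (nat_lit 2194477041) (nat_lit 102) (nat_lit 5) (nat_lit 107) (nat_lit 5) (nat_lit 108) (nat_lit 5) (nat_lit 250) (nat_lit 239) (nat_lit 231)))) (XT.nd (nat_lit 156) (nat_lit 608) (nat_lit 0) (XT.nd (nat_lit 78) (nat_lit 456) (nat_lit 0) (XT.lf (nat_lit 0) (nat_lit 275088249) (nat_lit 456) (nat_lit 3029925487) (nat_lit 76) (nat_lit 3598304374)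 (nat_lit 101) (nat_lit 5) (nat_lit 107) (nat_lit 5) (nat_lit 102) (nat_lit 5) (nat_lit 251) (nat_lit 239) (nat_lit 230)) (XT.lf (nat_lit 0) (nat_lit 749426143) (nat_lit 456) (nat_lit 1924705886) (nat_lit 532) (nat_lit 4321872164) (nat_lit 95) (nat_lit 5) (nat_lit 101) (nat_lit 5) (nat_lit 102) (nat_lit 5) (nat_lit 252) (nat_lit 239) (nat_lit 229))) (XT.nd (nat_lit 78) (nat_lit 608) (nat_lit 0) (XT.lf (nat_lit 0) (nat_lit 4719023918) (nat_lit 456) (nat_lit 398126762) (nat_lit 532) (nat_lit 1980527377) (nat_lit 95) (nat_lit 5) (nat_lit 101) (nat_lit 5) (nat_lit 102) (nat_lit 5) (nat_lit 253) (nat_lit 239) (nat_lit 228)) (XT.nd (nat_lit 78) (nat_lit 0) (nat_lit 0) (XT.lf (nat_lit 0) (nat_lit 383873474) (nat_lit 608) (nat_lit 5605536151) (nat_lit 76) (nat_lit 1219091773) (nat_lit 87) (nat_lit 5) (nat_lit 95) (nat_lit 5) (nat_lit 88) (nat_lit 5) (nat_lit 254) (nat_lit 239) (nat_lit 227))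 (XT.lf (nat_lit 0) (nat_lit 2728253439) (nat_lit 608) (nat_lit 1604872656) (nat_lit 76) (nat_lit 2994179632) (nat_lit 87) (nat_lit 5) (nat_lit 95) (nat_lit 5) (nat_lit 88) (nat_lit 5) (nat_lit 255) (nat_lit 239) (nat_lit 226))))))) (XT.nd (nat_lit 702) (nat_lit 1520) (nat_lit 0) (XT.nd (nat_lit 312) (nat_lit 760) (nat_lit 0) (XT.nd (nat_lit 156) (nat_lit 1064) (nat_lit 0) (XT.nd (nat_lit 78) (nat_lit 0) (nat_lit 0) (XT.lf (nat_lit 0) (nat_lit 2574792186) (nat_lit 608) (nat_lit 2541780951) (nat_lit 684) (nat_lit 2339597380) (nat_lit 79) (nat_lit 5) (nat_lit 87) (nat_lit 5) (nat_lit 88) (nat_lit 5) (nat_lit 256) (nat_lit 239) (nat_lit 225)) (XT.lf (nat_lit 0) (nat_lit 6917384978) (nat_lit 608) (nat_lit 624438952) (nat_lit 684) (nat_lit 54213411) (nat_lit 79) (nat_lit 5) (nat_lit 87) (nat_lit 5) (nat_lit 88) (nat_lit 5) (nat_lit 257) (nat_lit 239) (nat_lit 224))) (XT.nd (nat_lit 78) (nat_lit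 304) (nat_lit 0) (XT.lf (nat_lit 0) (nat_lit 2245151314) (nat_lit 760) (nat_lit 4051539078) (nat_lit 76) (nat_lit 1446031307) (nat_lit 69) (nat_lit 5) (nat_lit 79) (nat_lit 5) (nat_lit 70) (nat_lit 5) (nat_lit 258) (nat_lit 239) (nat_lit 223)) (XT.lf (nat_lit 0) (nat_lit 300402160) (nat_lit 304) (nat_lit 4280898379) (nat_lit 380) (nat_lit 3319588770) (nat_lit 65) (nat_lit 5) (nat_lit 69) (nat_lit 5) (nat_lit 70) (nat_lit 5) (nat_lit 259) (nat_lit 239) (nat_lit 222)))) (XT.nd (nat_lit 156) (nat_lit 304) (nat_lit 0) (XT.nd (nat_lit 78) (nat_lit 456) (nat_lit 0) (XT.lf (nat_lit 0) (nat_lit 4907487389) (nat_lit 304) (nat_lit 2095707720) (nat_lit 380) (nat_lit 1065680805) (nat_lit 65) (nat_lit 5) (nat_lit 69) (nat_lit 5) (nat_lit 70) (nat_lit 5) (nat_lit 260) (nat_lit 239) (nat_lit 221)) (XT.lf (nat_lit 0) (nat_lit 1188411936) (nat_lit 456) (nat_lit 6828847996) (nat_lit 76) (nat_lit 230854281)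 (nat_lit 59) (nat_lit 5) (nat_lit 65) (nat_lit 5) (nat_lit 60) (nat_lit 5) (nat_lit 261) (nat_lit 239) (nat_lit 220))) (XT.nd (nat_lit 78) (nat_lit 304) (nat_lit 0) (XT.lf (nat_lit 0) (nat_lit 3514301446) (nat_lit 456) (nat_lit 2252617675) (nat_lit 76) (nat_lit 2669085324) (nat_lit 59) (nat_lit 5) (nat_lit 65) (nat_lit 5) (nat_lit 60) (nat_lit 5) (nat_lit 262) (nat_lit 239) (nat_lit 219)) (XT.nd (nat_lit 78) (nat_lit 0) (nat_lit 0) (XT.lf (nat_lit 0) (nat_lit 2533525701) (nat_lit 304) (nat_lit 3373117820) (nat_lit 380) (nat_lit 2729431886) (nat_lit 55) (nat_lit 5) (nat_lit 59) (nat_lit 5) (nat_lit 60) (nat_lit 5) (nat_lit 263) (nat_lit 239) (nat_lit 218)) (XT.lf (nat_lit 0) (nat_lit 7538807637) (nat_lit 304) (nat_lit 831268003) (nat_lit 380) (nat_lit 478780746) (nat_lit 55) (nat_lit 5) (nat_lit 59) (nat_lit 5) (nat_lit 60) (nat_lit 5) (nat_lit 264) (nat_lit 239) (nat_lit 217)))))) (XT.nd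 (nat_lit 312) (nat_lit 608) (nat_lit 0) (XT.nd (nat_lit 156) (nat_lit 532) (nat_lit 0) (XT.nd (nat_lit 78) (nat_lit 0) (nat_lit 0) (XT.lf (nat_lit 0) (nat_lit 1827857025) (nat_lit 380) (nat_lit 5387468261) (nat_lit 76) (nat_lit 1855545823) (nat_lit 50) (nat_lit 5) (nat_lit 55) (nat_lit 5) (nat_lit 51) (nat_lit 5) (nat_lit 265) (nat_lit 239) (nat_lit 216)) (XT.lf (nat_lit 0) (nat_lit 4188064193) (nat_lit 380) (nat_lit 451987494) (nat_lit 76) (nat_lit 4666068030) (nat_lit 50) (nat_lit 5) (nat_lit 55) (nat_lit 5) (nat_lit 51) (nat_lit 5) (nat_lit 266) (nat_lit 239) (nat_lit 215))) (XT.nd (nat_lit 78) (nat_lit 304) (nat_lit 0) (XT.lf (nat_lit 0) (nat_lit 4788993306) (nat_lit 228) (nat_lit 1874105939) (nat_lit 304) (nat_lit 2890421085) (nat_lit 47) (nat_lit 5) (nat_lit 50) (nat_lit 5) (nat_lit 51) (nat_lit 5) (nat_lit 267) (nat_lit 239) (nat_lit 214)) (XT.lf (nat_lit 0) (nat_lit 394463225)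 (nat_lit 304) (nat_lit 8821481822) (nat_lit 380) (nat_lit 599862454) (nat_lit 43) (nat_lit 5) (nat_lit 47) (nat_lit 5) (nat_lit 48) (nat_lit 5) (nat_lit 268) (nat_lit 239) (nat_lit 213)))) (XT.nd (nat_lit 156) (nat_lit 304) (nat_lit 0) (XT.nd (nat_lit 78) (nat_lit 228) (nat_lit 0) (XT.lf (nat_lit 0) (nat_lit 1784936202) (nat_lit 380) (nat_lit 4268474880) (nat_lit 76) (nat_lit 4034713264) (nat_lit 42) (nat_lit 5) (nat_lit 47) (nat_lit 5) (nat_lit 43) (nat_lit 5) (nat_lit 269) (nat_lit 239) (nat_lit 212)) (XT.lf (nat_lit 0) (nat_lit 1073332275) (nat_lit 228) (nat_lit 3140579161) (nat_lit 304) (nat_lit 6162588704) (nat_lit 39) (nat_lit 5) (nat_lit 42) (nat_lit 5) (nat_lit 43) (nat_lit 5) (nat_lit 270) (nat_lit 239) (nat_lit 211))) (XT.nd (nat_lit 78) (nat_lit 304) (nat_lit 0) (XT.lf (nat_lit 0) (nat_lit 6738699993) (nat_lit 228) (nat_lit 28242790) (nat_lit 304) (nat_lit 3912402137) (nat_lit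 39) (nat_lit 5) (nat_lit 42) (nat_lit 5) (nat_lit 43) (nat_lit 5) (nat_lit 271) (nat_lit 239) (nat_lit 210)) (XT.nd (nat_lit 78) (nat_lit 76) (nat_lit 0) (XT.lf (nat_lit 0) (nat_lit 1600120746) (nat_lit 228) (nat_lit 7856377378) (nat_lit 304) (nat_lit 1540562160) (nat_lit 36) (nat_lit 5) (nat_lit 39) (nat_lit 5) (nat_lit 40) (nat_lit 5) (nat_lit 272) (nat_lit 239) (nat_lit 209)) (XT.lf (nat_lit 0) (nat_lit 921633694) (nat_lit 304) (nat_lit 3880375598) (nat_lit 76) (nat_lit 6527958315) (nat_lit 35) (nat_lit 5) (nat_lit 39) (nat_lit 5) (nat_lit 36) (nat_lit 5) (nat_lit 273) (nat_lit 239) (nat_lit 208))))))))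
noncomputable def xc106 : XT := (XT.nd (nat_lit 1326) (nat_lit 608) (nat_lit 0) (XT.nd (nat_lit 624) (nat_lit 684) (nat_lit 0) (XT.nd (nat_lit 312) (nat_lit 380) (nat_lit 0) (XT.nd (nat_lit 156) (nat_lit 228) (nat_lit 0) (XT.nd (nat_lit 78) (nat_lit 0) (nat_lit 0) (XT.lf (nat_lit 0) (nat_lit 1859221607) (nat_lit 152) (nat_lit 1561993236) (nat_lit 228) (nat_lit 8258888824) (nat_lit 33) (nat_lit 5) (nat_lit 35) (nat_lit 5) (nat_lit 36) (nat_lit 5) (nat_lit 274) (nat_lit 239) (nat_lit 207)) (XT.lf (nat_lit 0) (nat_lit 6079599263) (nat_lit 228) (nat_lit 4142219510) (nat_lit 76) (nat_lit 1824378024) (nat_lit 33) (nat_lit 5) (nat_lit 36) (nat_lit 5) (nat_lit 34) (nat_lit 5) (nat_lit 275) (nat_lit 239) (nat_lit 206))) (XT.nd (nat_lit 78) (nat_lit 0) (nat_lit 0) (XT.lf (nat_lit 0) (nat_lit 1767069753) (nat_lit 228) (nat_lit 7098269398) (nat_lit 304) (nat_lit 3565668359) (nat_lit 30) (nat_lit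 5) (nat_lit 33) (nat_lit 5) (nat_lit 34) (nat_lit 5) (nat_lit 276) (nat_lit 239) (nat_lit 205)) (XT.lf (nat_lit 0) (nat_lit 8032733741) (nat_lit 228) (nat_lit 3770527456) (nat_lit 304) (nat_lit 1031281130) (nat_lit 30) (nat_lit 5) (nat_lit 33) (nat_lit 5) (nat_lit 34) (nat_lit 5) (nat_lit 277) (nat_lit 239) (nat_lit 204)))) (XT.nd (nat_lit 156) (nat_lit 152) (nat_lit 0) (XT.nd (nat_lit 78) (nat_lit 0) (nat_lit 0) (XT.lf (nat_lit 0) (nat_lit 1288311365) (nat_lit 152) (nat_lit 253922549) (nat_lit 228) (nat_lit 11716635404) (nat_lit 27) (nat_lit 5) (nat_lit 29) (nat_lit 5) (nat_lit 30) (nat_lit 5) (nat_lit 278) (nat_lit 239) (nat_lit 203)) (XT.lf (nat_lit 0) (nat_lit 4291569260) (nat_lit 228) (nat_lit 6004644500) (nat_lit 76) (nat_lit 3403374320) (nat_lit 27) (nat_lit 5) (nat_lit 30) (nat_lit 5) (nat_lit 28) (nat_lit 5) (nat_lit 279) (nat_lit 239) (nat_lit 202))) (XT.nd (nat_lit 78) (nat_lit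 0) (nat_lit 0) (XT.lf (nat_lit 0) (nat_lit 183150632) (nat_lit 152) (nat_lit 6950303335) (nat_lit 228) (nat_lit 7031240255) (nat_lit 25) (nat_lit 5) (nat_lit 27) (nat_lit 5) (nat_lit 28) (nat_lit 5) (nat_lit 280) (nat_lit 239) (nat_lit 201)) (XT.lf (nat_lit 0) (nat_lit 6811949819) (nat_lit 152) (nat_lit 3356508503) (nat_lit 228) (nat_lit 4482146626) (nat_lit 25) (nat_lit 5) (nat_lit 27) (nat_lit 5) (nat_lit 28) (nat_lit 5) (nat_lit 281) (nat_lit 239) (nat_lit 200))))) (XT.nd (nat_lit 312) (nat_lit 304) (nat_lit 0) (XT.nd (nat_lit 156) (nat_lit 152) (nat_lit 0) (XT.nd (nat_lit 78) (nat_lit 228) (nat_lit 0) (XT.lf (nat_lit 0) (nat_lit 13313080197) (nat_lit 228) (nat_lit 1470445168) (nat_lit 76) (nat_lit 379488236) (nat_lit 25) (nat_lit 5) (nat_lit 28) (nat_lit 5) (nat_lit 26) (nat_lit 4) (nat_lit 282) (nat_lit 239) (nat_lit 199)) (XT.lf (nat_lit 0) (nat_lit 976825965) (nat_lit 228) (nat_lit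 10454646389) (nat_lit 76) (nat_lit 4264334483) (nat_lit 22) (nat_lit 5) (nat_lit 25) (nat_lit 5) (nat_lit 23) (nat_lit 5) (nat_lit 283) (nat_lit 239) (nat_lit 198))) (XT.nd (nat_lit 78) (nat_lit 152) (nat_lit 0) (XT.lf (nat_lit 0) (nat_lit 3862016630) (nat_lit 228) (nat_lit 4017507560) (nat_lit 76) (nat_lit 8375318765) (nat_lit 22) (nat_lit 5) (nat_lit 25) (nat_lit 5) (nat_lit 23) (nat_lit 5) (nat_lit 284) (nat_lit 239) (nat_lit 197)) (XT.lf (nat_lit 0) (nat_lit 2761123477) (nat_lit 152) (nat_lit 4129597252) (nat_lit 228) (nat_lit 9951226235) (nat_lit 20) (nat_lit 5) (nat_lit 22) (nat_lit 5) (nat_lit 23) (nat_lit 5) (nat_lit 285) (nat_lit 239) (nat_lit 196)))) (XT.nd (nat_lit 156) (nat_lit 304) (nat_lit 0) (XT.nd (nat_lit 78) (nat_lit 0) (nat_lit 0) (XT.lf (nat_lit 0) (nat_lit 9950535605) (nat_lit 152) (nat_lit 145540338) (nat_lit 228) (nat_lit 7361144462) (nat_lit 20) (nat_lit 5) (nat_lit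 22) (nat_lit 5) (nat_lit 23) (nat_lit 5) (nat_lit 286) (nat_lit 239) (nat_lit 195)) (XT.lf (nat_lit 0) (nat_lit 13483586819) (nat_lit 228) (nat_lit 733029871) (nat_lit 76) (nat_lit 3885617891) (nat_lit 20) (nat_lit 5) (nat_lit 23) (nat_lit 5) (nat_lit 21) (nat_lit 4) (nat_lit 287) (nat_lit 239) (nat_lit 194))) (XT.nd (nat_lit 78) (nat_lit 228) (nat_lit 0) (XT.lf (nat_lit 0) (nat_lit 6522688105) (nat_lit 76) (nat_lit 10582815895) (nat_lit 152) (nat_lit 1670811980) (nat_lit 19) (nat_lit 5) (nat_lit 20) (nat_lit 5) (nat_lit 21) (nat_lit 4) (nat_lit 288) (nat_lit 239) (nat_lit 193)) (XT.nd (nat_lit 78) (nat_lit 152) (nat_lit 0) (XT.lf (nat_lit 0) (nat_lit 1352458591) (nat_lit 152) (nat_lit 5402617387) (nat_lit 76) (nat_lit 12729293580) (nat_lit 18) (nat_lit 5) (nat_lit 20) (nat_lit 5) (nat_lit 19) (nat_lit 5) (nat_lit 289) (nat_lit 239) (nat_lit 192)) (XT.lf (nat_lit 0) (nat_lit 1759550693)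 (nat_lit 152) (nat_lit 2701535150) (nat_lit 228) (nat_lit 15765912071) (nat_lit 16) (nat_lit 5) (nat_lit 18) (nat_lit 5) (nat_lit 19) (nat_lit 5) (nat_lit 290) (nat_lit 239) (nat_lit 191))))))) (XT.nd (nat_lit 702) (nat_lit 304) (nat_lit 0) (XT.nd (nat_lit 312) (nat_lit 228) (nat_lit 0) (XT.nd (nat_lit 156) (nat_lit 76) (nat_lit 0) (XT.nd (nat_lit 78) (nat_lit 0) (nat_lit 0) (XT.lf (nat_lit 0) (nat_lit 7805766581) (nat_lit 228) (nat_lit 11621418514) (nat_lit 76) (nat_lit 1575597477) (nat_lit 16) (nat_lit 5) (nat_lit 19) (nat_lit 5) (nat_lit 17) (nat_lit 4) (nat_lit 291) (nat_lit 239) (nat_lit 190)) (XT.lf (nat_lit 0) (nat_lit 11327067190) (nat_lit 228) (nat_lit 4535334486) (nat_lit 76) (nat_lit 5954538814) (nat_lit 16) (nat_lit 5) (nat_lit 19) (nat_lit 5) (nat_lit 17) (nat_lit 4) (nat_lit 292) (nat_lit 239) (nat_lit 189))) (XT.nd (nat_lit 78) (nat_lit 0) (nat_lit 0) (XT.lf (nat_lit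 0) (nat_lit 2944084100) (nat_lit 76) (nat_lit 12093074489) (nat_lit 152) (nat_lit 7634062211) (nat_lit 15) (nat_lit 5) (nat_lit 16) (nat_lit 5) (nat_lit 17) (nat_lit 4) (nat_lit 293) (nat_lit 239) (nat_lit 188)) (XT.lf (nat_lit 0) (nat_lit 10900621771) (nat_lit 76) (nat_lit 8076436161) (nat_lit 152) (nat_lit 4588990387) (nat_lit 15) (nat_lit 5) (nat_lit 16) (nat_lit 5) (nat_lit 17) (nat_lit 4) (nat_lit 294) (nat_lit 239) (nat_lit 187)))) (XT.nd (nat_lit 156) (nat_lit 0) (nat_lit 0) (XT.nd (nat_lit 78) (nat_lit 228) (nat_lit 0) (XT.lf (nat_lit 0) (nat_lit 19203264024) (nat_lit 76) (nat_lit 3879731352) (nat_lit 152) (nat_lit 1424215743) (nat_lit 15) (nat_lit 5) (nat_lit 16) (nat_lit 5) (nat_lit 17) (nat_lit 4) (nat_lit 295) (nat_lit 239) (nat_lit 186)) (XT.lf (nat_lit 0) (nat_lit 1854863548) (nat_lit 228) (nat_lit 23079388983) (nat_lit 76) (nat_lit 558897065) (nat_lit 12) (nat_lit 5)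 (nat_lit 15) (nat_lit 5) (nat_lit 13) (nat_lit 4) (nat_lit 296) (nat_lit 239) (nat_lit 185))) (XT.nd (nat_lit 78) (nat_lit 0) (nat_lit 0) (XT.lf (nat_lit 0) (nat_lit 5375267037) (nat_lit 228) (nat_lit 15961496724) (nat_lit 76) (nat_lit 5184231973) (nat_lit 12) (nat_lit 5) (nat_lit 15) (nat_lit 5) (nat_lit 13) (nat_lit 4) (nat_lit 297) (nat_lit 239) (nat_lit 184)) (XT.nd (nat_lit 78) (nat_lit 0) (nat_lit 0) (XT.lf (nat_lit 0) (nat_lit 9043437004) (nat_lit 228) (nat_lit 8535972000) (nat_lit 76) (nat_lit 10022275753) (nat_lit 12) (nat_lit 5) (nat_lit 15) (nat_lit 5) (nat_lit 13) (nat_lit 4) (nat_lit 298) (nat_lit 239) (nat_lit 183)) (XT.lf (nat_lit 0) (nat_lit 12868107187) (nat_lit 228) (nat_lit 785134991) (nat_lit 76) (nat_lit 15084547559) (nat_lit 12) (nat_lit 5) (nat_lit 15) (nat_lit 5) (nat_lit 13) (nat_lit 4) (nat_lit 299) (nat_lit 239) (nat_lit 182)))))) (XT.nd (nat_lit 312) (nat_lit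 152) (nat_lit 0) (XT.nd (nat_lit 156) (nat_lit 76) (nat_lit 0) (XT.nd (nat_lit 78) (nat_lit 0) (nat_lit 0) (XT.lf (nat_lit 0) (nat_lit 7551152721) (nat_lit 76) (nat_lit 9425125878) (nat_lit 152) (nat_lit 12949842353) (nat_lit 11) (nat_lit 5) (nat_lit 12) (nat_lit 5) (nat_lit 13) (nat_lit 4) (nat_lit 300) (nat_lit 239) (nat_lit 181)) (XT.lf (nat_lit 0) (nat_lit 16288443794) (nat_lit 76) (nat_lit 4989632393) (nat_lit 152) (nat_lit 9896414394) (nat_lit 11) (nat_lit 5) (nat_lit 12) (nat_lit 5) (nat_lit 13) (nat_lit 4) (nat_lit 301) (nat_lit 239) (nat_lit 180))) (XT.nd (nat_lit 78) (nat_lit 76) (nat_lit 0) (XT.lf (nat_lit 0) (nat_lit 25421581193) (nat_lit 76) (nat_lit 349497666) (nat_lit 152) (nat_lit 6715425249) (nat_lit 11) (nat_lit 5) (nat_lit 12) (nat_lit 5) (nat_lit 13) (nat_lit 4) (nat_lit 302) (nat_lit 239) (nat_lit 179)) (XT.lf (nat_lit 0) (nat_lit 1070945675) (nat_lit 76) (nat_lit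 29482115410) (nat_lit 76) (nat_lit 3307870447) (nat_lit 10) (nat_lit 4) (nat_lit 11) (nat_lit 5) (nat_lit 11) (nat_lit 4) (nat_lit 303) (nat_lit 239) (nat_lit 178)))) (XT.nd (nat_lit 156) (nat_lit 76) (nat_lit 0) (XT.nd (nat_lit 78) (nat_lit 0) (nat_lit 0) (XT.lf (nat_lit 0) (nat_lit 365839717) (nat_lit 152) (nat_lit 25491236573) (nat_lit 76) (nat_lit 9441599081) (nat_lit 9) (nat_lit 5) (nat_lit 11) (nat_lit 5) (nat_lit 10) (nat_lit 4) (nat_lit 304) (nat_lit 239) (nat_lit 177)) (XT.lf (nat_lit 0) (nat_lit 4090243058) (nat_lit 152) (nat_lit 17919984040) (nat_lit 76) (nat_lit 14796484893) (nat_lit 9) (nat_lit 5) (nat_lit 11) (nat_lit 5) (nat_lit 10) (nat_lit 4) (nat_lit 305) (nat_lit 239) (nat_lit 176))) (XT.nd (nat_lit 78) (nat_lit 76) (nat_lit 0) (XT.lf (nat_lit 0) (nat_lit 7980079714) (nat_lit 152) (nat_lit 10006556336) (nat_lit 76) (nat_lit 20404578161) (nat_lit 9) (nat_lit 5) (nat_lit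 11) (nat_lit 5) (nat_lit 10) (nat_lit 4) (nat_lit 306) (nat_lit 239) (nat_lit 175)) (XT.nd (nat_lit 78) (nat_lit 76) (nat_lit 0) (XT.lf (nat_lit 0) (nat_lit 12044611203) (nat_lit 152) (nat_lit 1732111969) (nat_lit 76) (nat_lit 26279231486) (nat_lit 9) (nat_lit 5) (nat_lit 11) (nat_lit 5) (nat_lit 10) (nat_lit 4) (nat_lit 307) (nat_lit 239) (nat_lit 174)) (XT.lf (nat_lit 0) (nat_lit 7151957422) (nat_lit 76) (nat_lit 9253219655) (nat_lit 152) (nat_lit 25394136814) (nat_lit 8) (nat_lit 5) (nat_lit 9) (nat_lit 5) (nat_lit 10) (nat_lit 4) (nat_lit 308) (nat_lit 239) (nat_lit 173))))))))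
noncomputable def xc107 : XT := (XT.nd (nat_lit 1326) (nat_lit 228) (nat_lit 0) (XT.nd (nat_lit 624) (nat_lit 76) (nat_lit 0) (XT.nd (nat_lit 312) (nat_lit 152) (nat_lit 0) (XT.nd (nat_lit 156) (nat_lit 0) (nat_lit 0) (XT.nd (nat_lit 78) (nat_lit 0) (nat_lit 0) (XT.lf (nat_lit 0) (nat_lit 16507893134) (nat_lit 76) (nat_lit 4486748821) (nat_lit 152) (nat_lit 22634676697) (nat_lit 8) (nat_lit 5) (nat_lit 9) (nat_lit 5) (nat_lit 10) (nat_lit 4) (nat_lit 309) (nat_lit 239) (nat_lit 172)) (XT.lf (nat_lit 0) (nat_lit 25803875686) (nat_lit 152) (nat_lit 19258903042) (nat_lit 0) (nat_lit 488550239) (nat_lit 8) (nat_lit 5) (nat_lit 10) (nat_lit 4) (nat_lit 8) (nat_lit 4) (nat_lit 310) (nat_lit 239) (nat_lit 171))) (XT.nd (nat_lit 78) (nat_lit 0) (nat_lit 0) (XT.lf (nat_lit 0) (nat_lit 30910179092) (nat_lit 152) (nat_lit 11106919015) (nat_lit 0) (nat_lit 5549530430) (nat_lit 8) (nat_lit 5) (nat_lit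 10) (nat_lit 4) (nat_lit 8) (nat_lit 4) (nat_lit 311) (nat_lit 239) (nat_lit 170)) (XT.lf (nat_lit 0) (nat_lit 36255659316) (nat_lit 152) (nat_lit 2576013229) (nat_lit 0) (nat_lit 10851845687) (nat_lit 8) (nat_lit 5) (nat_lit 10) (nat_lit 4) (nat_lit 8) (nat_lit 4) (nat_lit 312) (nat_lit 239) (nat_lit 169)))) (XT.nd (nat_lit 156) (nat_lit 76) (nat_lit 0) (XT.nd (nat_lit 78) (nat_lit 0) (nat_lit 0) (XT.lf (nat_lit 0) (nat_lit 6564222098) (nat_lit 76) (nat_lit 35391307496) (nat_lit 76) (nat_lit 9946384375) (nat_lit 7) (nat_lit 4) (nat_lit 8) (nat_lit 5) (nat_lit 8) (nat_lit 4) (nat_lit 313) (nat_lit 239) (nat_lit 168)) (XT.lf (nat_lit 0) (nat_lit 16224031219) (nat_lit 76) (nat_lit 31744930699) (nat_lit 76) (nat_lit 6260855681) (nat_lit 7) (nat_lit 4) (nat_lit 8) (nat_lit 5) (nat_lit 8) (nat_lit 4) (nat_lit 314) (nat_lit 239) (nat_lit 167))) (XT.nd (nat_lit 78) (nat_lit 76) (nat_lit 0)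 (XT.lf (nat_lit 0) (nat_lit 26341239048) (nat_lit 76) (nat_lit 27927486336) (nat_lit 76) (nat_lit 2406123797) (nat_lit 7) (nat_lit 4) (nat_lit 8) (nat_lit 5) (nat_lit 8) (nat_lit 4) (nat_lit 315) (nat_lit 239) (nat_lit 166)) (XT.lf (nat_lit 0) (nat_lit 1574915395) (nat_lit 152) (nat_lit 22328297904) (nat_lit 76) (nat_lit 35338346826) (nat_lit 6) (nat_lit 5) (nat_lit 8) (nat_lit 5) (nat_lit 7) (nat_lit 4) (nat_lit 316) (nat_lit 239) (nat_lit 165))))) (XT.nd (nat_lit 312) (nat_lit 0) (nat_lit 0) (XT.nd (nat_lit 156) (nat_lit 76) (nat_lit 0) (XT.nd (nat_lit 78) (nat_lit 0) (nat_lit 0) (XT.lf (nat_lit 0) (nat_lit 5660910717) (nat_lit 152) (nat_lit 13985828374) (nat_lit 76) (nat_lit 42288570608) (nat_lit 6) (nat_lit 5) (nat_lit 8) (nat_lit 5) (nat_lit 7) (nat_lit 4) (nat_lit 317) (nat_lit 239) (nat_lit 164)) (XT.lf (nat_lit 0) (nat_lit 9938601719) (nat_lit 152) (nat_lit 5248772183) (nat_lit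 76) (nat_lit 49577016009) (nat_lit 6) (nat_lit 5) (nat_lit 8) (nat_lit 5) (nat_lit 7) (nat_lit 4) (nat_lit 318) (nat_lit 239) (nat_lit 163))) (XT.nd (nat_lit 78) (nat_lit 0) (nat_lit 0) (XT.lf (nat_lit 0) (nat_lit 4032746246) (nat_lit 76) (nat_lit 10448389602) (nat_lit 152) (nat_lit 53251252694) (nat_lit 5) (nat_lit 5) (nat_lit 6) (nat_lit 5) (nat_lit 7) (nat_lit 4) (nat_lit 319) (nat_lit 239) (nat_lit 162)) (XT.lf (nat_lit 0) (nat_lit 13939448669) (nat_lit 76) (nat_lit 5388476531) (nat_lit 152) (nat_lit 51517017229) (nat_lit 5) (nat_lit 5) (nat_lit 6) (nat_lit 5) (nat_lit 7) (nat_lit 4) (nat_lit 320) (nat_lit 239) (nat_lit 161)))) (XT.nd (nat_lit 156) (nat_lit 0) (nat_lit 0) (XT.nd (nat_lit 78) (nat_lit 0) (nat_lit 0) (XT.lf (nat_lit 0) (nat_lit 24321374358) (nat_lit 76) (nat_lit 84477774) (nat_lit 152) (nat_lit 49707843162) (nat_lit 5) (nat_lit 5) (nat_lit 6) (nat_lit 5) (nat_lit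 7) (nat_lit 4) (nat_lit 321) (nat_lit 239) (nat_lit 160)) (XT.lf (nat_lit 0) (nat_lit 29812506328) (nat_lit 152) (nat_lit 42428687079) (nat_lit 0) (nat_lit 5300961508) (nat_lit 5) (nat_lit 5) (nat_lit 7) (nat_lit 4) (nat_lit 5) (nat_lit 4) (nat_lit 322) (nat_lit 239) (nat_lit 159))) (XT.nd (nat_lit 78) (nat_lit 0) (nat_lit 0) (XT.lf (nat_lit 0) (nat_lit 35480591496) (nat_lit 152) (nat_lit 34716890450) (nat_lit 0) (nat_lit 10945010808) (nat_lit 5) (nat_lit 5) (nat_lit 7) (nat_lit 4) (nat_lit 5) (nat_lit 4) (nat_lit 323) (nat_lit 239) (nat_lit 158)) (XT.nd (nat_lit 78) (nat_lit 0) (nat_lit 0) (XT.lf (nat_lit 0) (nat_lit 41422284143) (nat_lit 152) (nat_lit 26637250695) (nat_lit 0) (nat_lit 16863812151) (nat_lit 5) (nat_lit 5) (nat_lit 7) (nat_lit 4) (nat_lit 5) (nat_lit 4) (nat_lit 324) (nat_lit 239) (nat_lit 157)) (XT.lf (nat_lit 0) (nat_lit 47651731157) (nat_lit 152) (nat_lit 18170530577)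 (nat_lit 0) (nat_lit 23071457924) (nat_lit 5) (nat_lit 5) (nat_lit 7) (nat_lit 4) (nat_lit 5) (nat_lit 4) (nat_lit 325) (nat_lit 239) (nat_lit 156))))))) (XT.nd (nat_lit 702) (nat_lit 152) (nat_lit 0) (XT.nd (nat_lit 312) (nat_lit 0) (nat_lit 0) (XT.nd (nat_lit 156) (nat_lit 0) (nat_lit 0) (XT.nd (nat_lit 78) (nat_lit 76) (nat_lit 0) (XT.lf (nat_lit 0) (nat_lit 54183764554) (nat_lit 152) (nat_lit 9296571237) (nat_lit 0) (nat_lit 29582728234) (nat_lit 5) (nat_lit 5) (nat_lit 7) (nat_lit 4) (nat_lit 5) (nat_lit 4) (nat_lit 326) (nat_lit 239) (nat_lit 155)) (XT.lf (nat_lit 0) (nat_lit 5946111) (nat_lit 76) (nat_lit 61028083519) (nat_lit 76) (nat_lit 36407272830) (nat_lit 4) (nat_lit 4) (nat_lit 5) (nat_lit 5) (nat_lit 5) (nat_lit 4) (nat_lit 327) (nat_lit 239) (nat_lit 154))) (XT.nd (nat_lit 78) (nat_lit 0) (nat_lit 0) (XT.lf (nat_lit 0) (nat_lit 10081262279) (nat_lit 76) (nat_lit 58294692291)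 (nat_lit 76) (nat_lit 33655048870) (nat_lit 4) (nat_lit 4) (nat_lit 5) (nat_lit 5) (nat_lit 5) (nat_lit 4) (nat_lit 328) (nat_lit 239) (nat_lit 153)) (XT.lf (nat_lit 0) (nat_lit 20645979485) (nat_lit 76) (nat_lit 55431095964) (nat_lit 76) (nat_lit 30773516608) (nat_lit 4) (nat_lit 4) (nat_lit 5) (nat_lit 5) (nat_lit 5) (nat_lit 4) (nat_lit 329) (nat_lit 239) (nat_lit 152)))) (XT.nd (nat_lit 156) (nat_lit 0) (nat_lit 0) (XT.nd (nat_lit 78) (nat_lit 0) (nat_lit 0) (XT.lf (nat_lit 0) (nat_lit 31725251818) (nat_lit 76) (nat_lit 52430476453) (nat_lit 76) (nat_lit 27755815254) (nat_lit 4) (nat_lit 4) (nat_lit 5) (nat_lit 5) (nat_lit 5) (nat_lit 4) (nat_lit 330) (nat_lit 239) (nat_lit 151)) (XT.lf (nat_lit 0) (nat_lit 43345458498) (nat_lit 76) (nat_lit 49285689425) (nat_lit 76) (nat_lit 24594759803) (nat_lit 4) (nat_lit 4) (nat_lit 5) (nat_lit 5) (nat_lit 5) (nat_lit 4) (nat_lit 331) (nat_lit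 239) (nat_lit 150))) (XT.nd (nat_lit 78) (nat_lit 0) (nat_lit 0) (XT.lf (nat_lit 0) (nat_lit 55534266683) (nat_lit 76) (nat_lit 45989247292) (nat_lit 76) (nat_lit 21282823935) (nat_lit 4) (nat_lit 4) (nat_lit 5) (nat_lit 5) (nat_lit 5) (nat_lit 4) (nat_lit 332) (nat_lit 239) (nat_lit 149)) (XT.nd (nat_lit 78) (nat_lit 0) (nat_lit 0) (XT.lf (nat_lit 0) (nat_lit 68320697345) (nat_lit 76) (nat_lit 42533301381) (nat_lit 76) (nat_lit 17812122086) (nat_lit 4) (nat_lit 4) (nat_lit 5) (nat_lit 5) (nat_lit 5) (nat_lit 4) (nat_lit 333) (nat_lit 239) (nat_lit 148)) (XT.lf (nat_lit 0) (nat_lit 81735194367) (nat_lit 76) (nat_lit 38909623252) (nat_lit 76) (nat_lit 14174390682) (nat_lit 4) (nat_lit 4) (nat_lit 5) (nat_lit 5) (nat_lit 5) (nat_lit 4) (nat_lit 334) (nat_lit 239) (nat_lit 147)))))) (XT.nd (nat_lit 312) (nat_lit 76) (nat_lit 0) (XT.nd (nat_lit 156) (nat_lit 76) (nat_lit 0) (XT.nd (nat_lit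 78) (nat_lit 0) (nat_lit 0) (XT.lf (nat_lit 0) (nat_lit 95809697027) (nat_lit 76) (nat_lit 35109585098) (nat_lit 76) (nat_lit 10360968457) (nat_lit 4) (nat_lit 4) (nat_lit 5) (nat_lit 5) (nat_lit 5) (nat_lit 4) (nat_lit 335) (nat_lit 239) (nat_lit 146)) (XT.lf (nat_lit 0) (nat_lit 110577716046) (nat_lit 76) (nat_lit 31124139209) (nat_lit 76) (nat_lit 6362775834) (nat_lit 4) (nat_lit 4) (nat_lit 5) (nat_lit 5) (nat_lit 5) (nat_lit 4) (nat_lit 336) (nat_lit 239) (nat_lit 145))) (XT.nd (nat_lit 78) (nat_lit 76) (nat_lit 0) (XT.lf (nat_lit 0) (nat_lit 126074413374) (nat_lit 76) (nat_lit 26943796429) (nat_lit 76) (nat_lit 2170293307) (nat_lit 4) (nat_lit 4) (nat_lit 5) (nat_lit 5) (nat_lit 5) (nat_lit 4) (nat_lit 337) (nat_lit 239) (nat_lit 144)) (XT.lf (nat_lit 0) (nat_lit 2155200560) (nat_lit 152) (nat_lit 20366903636) (nat_lit 76) (nat_lit 140144985985) (nat_lit 3) (nat_lit 5) (nat_lit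 5) (nat_lit 5) (nat_lit 4) (nat_lit 4) (nat_lit 338) (nat_lit 239) (nat_lit 143)))) (XT.nd (nat_lit 156) (nat_lit 76) (nat_lit 0) (XT.nd (nat_lit 78) (nat_lit 0) (nat_lit 0) (XT.lf (nat_lit 0) (nat_lit 6619098921) (nat_lit 152) (nat_lit 11226923104) (nat_lit 76) (nat_lit 152672056785) (nat_lit 3) (nat_lit 5) (nat_lit 5) (nat_lit 5) (nat_lit 4) (nat_lit 4) (nat_lit 339) (nat_lit 239) (nat_lit 142)) (XT.lf (nat_lit 0) (nat_lit 11301493044) (nat_lit 152) (nat_lit 1638501922) (nat_lit 76) (nat_lit 165821861080) (nat_lit 3) (nat_lit 5) (nat_lit 5) (nat_lit 5) (nat_lit 4) (nat_lit 4) (nat_lit 340) (nat_lit 239) (nat_lit 141))) (XT.nd (nat_lit 78) (nat_lit 0) (nat_lit 0) (XT.lf (nat_lit 0) (nat_lit 8699632039) (nat_lit 76) (nat_lit 7649725084) (nat_lit 152) (nat_lit 171061901525) (nat_lit 2) (nat_lit 5) (nat_lit 3) (nat_lit 5) (nat_lit 4) (nat_lit 4) (nat_lit 341) (nat_lit 239) (nat_lit 140))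 (XT.nd (nat_lit 78) (nat_lit 0) (nat_lit 0) (XT.lf (nat_lit 0) (nat_lit 19603538416) (nat_lit 76) (nat_lit 2069437334) (nat_lit 152) (nat_lit 174818991388) (nat_lit 2) (nat_lit 5) (nat_lit 3) (nat_lit 5) (nat_lit 4) (nat_lit 4) (nat_lit 342) (nat_lit 239) (nat_lit 139)) (XT.lf (nat_lit 0) (nat_lit 27317713166) (nat_lit 152) (nat_lit 175041037414) (nat_lit 0) (nat_lit 3665217224) (nat_lit 2) (nat_lit 5) (nat_lit 4) (nat_lit 4) (nat_lit 2) (nat_lit 4) (nat_lit 343) (nat_lit 239) (nat_lit 138))))))))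
noncomputable def xc108 : XT := (XT.nd (nat_lit 29406) (nat_lit 0) (nat_lit 5776) (XT.nd (nat_lit 624) (nat_lit 0) (nat_lit 0) (XT.nd (nat_lit 312) (nat_lit 0) (nat_lit 0) (XT.nd (nat_lit 156) (nat_lit 0) (nat_lit 0) (XT.nd (nat_lit 78) (nat_lit 0) (nat_lit 0) (XT.lf (nat_lit 0) (nat_lit 33274581650) (nat_lit 152) (nat_lit 173142626562) (nat_lit 0) (nat_lit 9613869049) (nat_lit 2) (nat_lit 5) (nat_lit 4) (nat_lit 4) (nat_lit 2) (nat_lit 4) (nat_lit 344) (nat_lit 239) (nat_lit 137)) (XT.lf (nat_lit 0) (nat_lit 39525454506) (nat_lit 152) (nat_lit 171156366427) (nat_lit 0) (nat_lit 15856916516) (nat_lit 2) (nat_lit 5) (nat_lit 4) (nat_lit 4) (nat_lit 2) (nat_lit 4) (nat_lit 345) (nat_lit 239) (nat_lit 136))) (XT.nd (nat_lit 78) (nat_lit 0) (nat_lit 0) (XT.lf (nat_lit 0) (nat_lit 46085214766) (nat_lit 152) (nat_lit 169077527815) (nat_lit 0) (nat_lit 22409224025) (nat_lit 2) (nat_lit 5)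 (nat_lit 4) (nat_lit 4) (nat_lit 2) (nat_lit 4) (nat_lit 346) (nat_lit 239) (nat_lit 135)) (XT.lf (nat_lit 0) (nat_lit 52969480906) (nat_lit 152) (nat_lit 166901161113) (nat_lit 0) (nat_lit 29286392306) (nat_lit 2) (nat_lit 5) (nat_lit 4) (nat_lit 4) (nat_lit 2) (nat_lit 4) (nat_lit 347) (nat_lit 239) (nat_lit 134)))) (XT.nd (nat_lit 156) (nat_lit 0) (nat_lit 0) (XT.nd (nat_lit 78) (nat_lit 0) (nat_lit 0) (XT.lf (nat_lit 0) (nat_lit 60194644036) (nat_lit 152) (nat_lit 164622084494) (nat_lit 0) (nat_lit 36504795570) (nat_lit 2) (nat_lit 5) (nat_lit 4) (nat_lit 4) (nat_lit 2) (nat_lit 4) (nat_lit 348) (nat_lit 239) (nat_lit 133)) (XT.lf (nat_lit 0) (nat_lit 67777906924) (nat_lit 152) (nat_lit 162234871586) (nat_lit 0) (nat_lit 44081620492) (nat_lit 2) (nat_lit 5) (nat_lit 4) (nat_lit 4) (nat_lit 2) (nat_lit 4) (nat_lit 349) (nat_lit 239) (nat_lit 132))) (XT.nd (nat_lit 78) (nat_lit 0)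 (nat_lit 0) (XT.lf (nat_lit 0) (nat_lit 75737324960) (nat_lit 152) (nat_lit 159733838548) (nat_lit 0) (nat_lit 52034907130) (nat_lit 2) (nat_lit 5) (nat_lit 4) (nat_lit 4) (nat_lit 2) (nat_lit 4) (nat_lit 350) (nat_lit 239) (nat_lit 131)) (XT.lf (nat_lit 0) (nat_lit 84091849139) (nat_lit 152) (nat_lit 157113030539) (nat_lit 0) (nat_lit 60383591883) (nat_lit 2) (nat_lit 5) (nat_lit 4) (nat_lit 4) (nat_lit 2) (nat_lit 4) (nat_lit 351) (nat_lit 239) (nat_lit 130))))) (XT.nd (nat_lit 312) (nat_lit 0) (nat_lit 0) (XT.nd (nat_lit 156) (nat_lit 0) (nat_lit 0) (XT.nd (nat_lit 78) (nat_lit 0) (nat_lit 0) (XT.lf (nat_lit 0) (nat_lit 92861371183) (nat_lit 152) (nat_lit 154366207541) (nat_lit 0) (nat_lit 69147552570) (nat_lit 2) (nat_lit 5) (nat_lit 4) (nat_lit 4) (nat_lit 2) (nat_lit 4) (nat_lit 352) (nat_lit 239) (nat_lit 129)) (XT.lf (nat_lit 0) (nat_lit 102066770909) (nat_lit 152) (nat_lit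 151486829499) (nat_lit 0) (nat_lit 78347655764) (nat_lit 2) (nat_lit 5) (nat_lit 4) (nat_lit 4) (nat_lit 2) (nat_lit 4) (nat_lit 353) (nat_lit 239) (nat_lit 128))) (XT.nd (nat_lit 78) (nat_lit 0) (nat_lit 0) (XT.lf (nat_lit 0) (nat_lit 111729965934) (nat_lit 152) (nat_lit 148468040751) (nat_lit 0) (nat_lit 88005806474) (nat_lit 2) (nat_lit 5) (nat_lit 4) (nat_lit 4) (nat_lit 2) (nat_lit 4) (nat_lit 354) (nat_lit 239) (nat_lit 127)) (XT.lf (nat_lit 0) (nat_lit 121873963866) (nat_lit 152) (nat_lit 145302653704) (nat_lit 0) (nat_lit 98145000295) (nat_lit 2) (nat_lit 5) (nat_lit 4) (nat_lit 4) (nat_lit 2) (nat_lit 4) (nat_lit 355) (nat_lit 239) (nat_lit 126)))) (XT.nd (nat_lit 156) (nat_lit 0) (nat_lit 0) (XT.nd (nat_lit 78) (nat_lit 0) (nat_lit 0) (XT.lf (nat_lit 0) (nat_lit 132522917081) (nat_lit 152) (nat_lit 141983131723) (nat_lit 0) (nat_lit 108789378167) (nat_lit 2) (nat_lit 5) (nat_lit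 4) (nat_lit 4) (nat_lit 2) (nat_lit 4) (nat_lit 356) (nat_lit 239) (nat_lit 125)) (XT.lf (nat_lit 0) (nat_lit 143702180228) (nat_lit 152) (nat_lit 138501571185) (nat_lit 0) (nat_lit 119964283845) (nat_lit 2) (nat_lit 5) (nat_lit 4) (nat_lit 4) (nat_lit 2) (nat_lit 4) (nat_lit 357) (nat_lit 239) (nat_lit 124))) (XT.nd (nat_lit 78) (nat_lit 0) (nat_lit 0) (XT.lf (nat_lit 0) (nat_lit 155438370602) (nat_lit 152) (nat_lit 134849682658) (nat_lit 0) (nat_lit 131696324248) (nat_lit 2) (nat_lit 5) (nat_lit 4) (nat_lit 4) (nat_lit 2) (nat_lit 4) (nat_lit 358) (nat_lit 239) (nat_lit 123)) (XT.nd (nat_lit 78) (nat_lit 0) (nat_lit 0) (XT.lf (nat_lit 0) (nat_lit 167759431513) (nat_lit 152) (nat_lit 131018771171) (nat_lit 0) (nat_lit 144013432805) (nat_lit 2) (nat_lit 5) (nat_lit 4) (nat_lit 4) (nat_lit 2) (nat_lit 4) (nat_lit 359) (nat_lit 239) (nat_lit 122)) (XT.lf (nat_lit 0) (nat_lit 180694698819)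 (nat_lit 152) (nat_lit 126999715505) (nat_lit 0) (nat_lit 156944935966) (nat_lit 2) (nat_lit 5) (nat_lit 4) (nat_lit 4) (nat_lit 2) (nat_lit 4) (nat_lit 360) (nat_lit 239) (nat_lit 121))))))) (XT.nd (nat_lit 702) (nat_lit 2508) (nat_lit 0) (XT.nd (nat_lit 312) (nat_lit 532) (nat_lit 0) (XT.nd (nat_lit 156) (nat_lit 152) (nat_lit 0) (XT.nd (nat_lit 78) (nat_lit 76) (nat_lit 0) (XT.lf (nat_lit 0) (nat_lit 1073741823) (nat_lit 0) (nat_lit 0) (nat_lit 0) (nat_lit 0) (nat_lit 121) (nat_lit 0) (nat_lit 1) (nat_lit 0) (nat_lit 1) (nat_lit 0) (nat_lit 240) (nat_lit 240) (nat_lit 240)) (XT.lf (nat_lit 0) (nat_lit 2822130472) (nat_lit 76) (nat_lit 3531362512) (nat_lit 0) (nat_lit 91758405) (nat_lit 120) (nat_lit 5) (nat_lit 121) (nat_lit 0) (nat_lit 120) (nat_lit 4) (nat_lit 241) (nat_lit 240) (nat_lit 239))) (XT.nd (nat_lit 78) (nat_lit 152) (nat_lit 0) (XT.lf (nat_lit 0) (nat_lit 5606220104)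 (nat_lit 76) (nat_lit 576533522) (nat_lit 0) (nat_lit 275493688) (nat_lit 120) (nat_lit 5) (nat_lit 121) (nat_lit 0) (nat_lit 120) (nat_lit 4) (nat_lit 242) (nat_lit 240) (nat_lit 238)) (XT.lf (nat_lit 0) (nat_lit 1857159437) (nat_lit 152) (nat_lit 4000077520) (nat_lit 76) (nat_lit 620776069) (nat_lit 118) (nat_lit 5) (nat_lit 120) (nat_lit 5) (nat_lit 119) (nat_lit 4) (nat_lit 243) (nat_lit 240) (nat_lit 237)))) (XT.nd (nat_lit 156) (nat_lit 304) (nat_lit 0) (XT.nd (nat_lit 78) (nat_lit 228) (nat_lit 0) (XT.lf (nat_lit 0) (nat_lit 4515461887) (nat_lit 152) (nat_lit 909155546) (nat_lit 76) (nat_lit 1082285269) (nat_lit 118) (nat_lit 5) (nat_lit 120) (nat_lit 5) (nat_lit 119) (nat_lit 4) (nat_lit 244) (nat_lit 240) (nat_lit 236)) (XT.lf (nat_lit 0) (nat_lit 618382071) (nat_lit 228) (nat_lit 4240978787) (nat_lit 76) (nat_lit 1684457407) (nat_lit 115) (nat_lit 5) (nat_lit 118) (nat_lit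 5) (nat_lit 116) (nat_lit 5) (nat_lit 245) (nat_lit 240) (nat_lit 235))) (XT.nd (nat_lit 78) (nat_lit 304) (nat_lit 0) (XT.lf (nat_lit 0) (nat_lit 3150530736) (nat_lit 228) (nat_lit 1009193238) (nat_lit 76) (nat_lit 2429104710) (nat_lit 115) (nat_lit 5) (nat_lit 118) (nat_lit 5) (nat_lit 116) (nat_lit 5) (nat_lit 246) (nat_lit 240) (nat_lit 234)) (XT.nd (nat_lit 78) (nat_lit 76) (nat_lit 0) (XT.lf (nat_lit 0) (nat_lit 2363167630) (nat_lit 228) (nat_lit 3333596496) (nat_lit 304) (nat_lit 945732024) (nat_lit 112) (nat_lit 5) (nat_lit 115) (nat_lit 5) (nat_lit 116) (nat_lit 5) (nat_lit 247) (nat_lit 240) (nat_lit 233)) (XT.lf (nat_lit 0) (nat_lit 1488471848) (nat_lit 304) (nat_lit 885840421) (nat_lit 76) (nat_lit 4330412405) (nat_lit 111) (nat_lit 5) (nat_lit 115) (nat_lit 5) (nat_lit 112) (nat_lit 5) (nat_lit 248) (nat_lit 240) (nat_lit 232)))))) (XT.nd (nat_lit 312) (nat_lit 1748) (nat_lit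 0) (XT.nd (nat_lit 156) (nat_lit 456) (nat_lit 0) (XT.nd (nat_lit 78) (nat_lit 0) (nat_lit 0) (XT.lf (nat_lit 0) (nat_lit 2650798432) (nat_lit 304) (nat_lit 1263320147) (nat_lit 380) (nat_lit 2860769214) (nat_lit 107) (nat_lit 5) (nat_lit 111) (nat_lit 5) (nat_lit 112) (nat_lit 5) (nat_lit 249) (nat_lit 240) (nat_lit 231)) (XT.lf (nat_lit 0) (nat_lit 6300707816) (nat_lit 304) (nat_lit 40659023) (nat_lit 380) (nat_lit 513818299) (nat_lit 107) (nat_lit 5) (nat_lit 111) (nat_lit 5) (nat_lit 112) (nat_lit 5) (nat_lit 250) (nat_lit 240) (nat_lit 230))) (XT.nd (nat_lit 78) (nat_lit 0) (nat_lit 0) (XT.lf (nat_lit 0) (nat_lit 1827864188) (nat_lit 456) (nat_lit 3794034014) (nat_lit 76) (nat_lit 1319668287) (nat_lit 101) (nat_lit 5) (nat_lit 107) (nat_lit 5) (nat_lit 102) (nat_lit 5) (nat_lit 251) (nat_lit 240) (nat_lit 229)) (XT.lf (nat_lit 0) (nat_lit 4153905770) (nat_lit 456) (nat_lit 87735882)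 (nat_lit 76) (nat_lit 2796531571) (nat_lit 101) (nat_lit 5) (nat_lit 107) (nat_lit 5) (nat_lit 102) (nat_lit 5) (nat_lit 252) (nat_lit 240) (nat_lit 228)))) (XT.nd (nat_lit 156) (nat_lit 684) (nat_lit 0) (XT.nd (nat_lit 78) (nat_lit 608) (nat_lit 0) (XT.lf (nat_lit 0) (nat_lit 3830685170) (nat_lit 456) (nat_lit 2705688001) (nat_lit 532) (nat_lit 606759136) (nat_lit 95) (nat_lit 5) (nat_lit 101) (nat_lit 5) (nat_lit 102) (nat_lit 5) (nat_lit 253) (nat_lit 240) (nat_lit 227)) (XT.lf (nat_lit 0) (nat_lit 587083203) (nat_lit 532) (nat_lit 1033262507) (nat_lit 608) (nat_lit 5637437566) (nat_lit 87) (nat_lit 5) (nat_lit 94) (nat_lit 5) (nat_lit 95) (nat_lit 5) (nat_lit 254) (nat_lit 240) (nat_lit 226))) (XT.nd (nat_lit 78) (nat_lit 684) (nat_lit 0) (XT.lf (nat_lit 0) (nat_lit 3893237950) (nat_lit 608) (nat_lit 2704363605) (nat_lit 76) (nat_lit 782783014) (nat_lit 87) (nat_lit 5) (nat_lit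 95) (nat_lit 5) (nat_lit 88) (nat_lit 5) (nat_lit 255) (nat_lit 240) (nat_lit 225)) (XT.nd (nat_lit 78) (nat_lit 76) (nat_lit 0) (XT.lf (nat_lit 0) (nat_lit 1389301810) (nat_lit 608) (nat_lit 4821027388) (nat_lit 684) (nat_lit 1302693558) (nat_lit 79) (nat_lit 5) (nat_lit 87) (nat_lit 5) (nat_lit 88) (nat_lit 5) (nat_lit 256) (nat_lit 240) (nat_lit 224)) (XT.lf (nat_lit 0) (nat_lit 899260200) (nat_lit 684) (nat_lit 1985529655) (nat_lit 76) (nat_lit 4770123764) (nat_lit 78) (nat_lit 5) (nat_lit 87) (nat_lit 5) (nat_lit 79) (nat_lit 5) (nat_lit 257) (nat_lit 240) (nat_lit 223))))))))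
noncomputable def xc109 : XT := (XT.nd (nat_lit 1326) (nat_lit 1444) (nat_lit 0) (XT.nd (nat_lit 624) (nat_lit 1140) (nat_lit 0) (XT.nd (nat_lit 312) (nat_lit 1064) (nat_lit 0) (XT.nd (nat_lit 156) (nat_lit 380) (nat_lit 0) (XT.nd (nat_lit 78) (nat_lit 0) (nat_lit 0) (XT.lf (nat_lit 0) (nat_lit 2316310189) (nat_lit 684) (nat_lit 785905687) (nat_lit 760) (nat_lit 4704256587) (nat_lit 69) (nat_lit 5) (nat_lit 78) (nat_lit 5) (nat_lit 79) (nat_lit 5) (nat_lit 258) (nat_lit 240) (nat_lit 222)) (XT.lf (nat_lit 0) (nat_lit 5373567230) (nat_lit 760) (nat_lit 1184254902) (nat_lit 76) (nat_lit 1410232229) (nat_lit 69) (nat_lit 5) (nat_lit 79) (nat_lit 5) (nat_lit 70) (nat_lit 5) (nat_lit 259) (nat_lit 240) (nat_lit 221))) (XT.nd (nat_lit 78) (nat_lit 76) (nat_lit 0) (XT.lf (nat_lit 0) (nat_lit 3335769509) (nat_lit 304) (nat_lit 4394283904) (nat_lit 380) (nat_lit 409424060) (nat_lit 65) (nat_lit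 5) (nat_lit 69) (nat_lit 5) (nat_lit 70) (nat_lit 5) (nat_lit 260) (nat_lit 240) (nat_lit 220)) (XT.lf (nat_lit 0) (nat_lit 1752742660) (nat_lit 380) (nat_lit 322200812) (nat_lit 76) (nat_lit 6246956734) (nat_lit 64) (nat_lit 5) (nat_lit 69) (nat_lit 5) (nat_lit 65) (nat_lit 5) (nat_lit 261) (nat_lit 240) (nat_lit 219)))) (XT.nd (nat_lit 156) (nat_lit 380) (nat_lit 0) (XT.nd (nat_lit 78) (nat_lit 304) (nat_lit 0) (XT.lf (nat_lit 0) (nat_lit 3997346045) (nat_lit 456) (nat_lit 4095077273) (nat_lit 76) (nat_lit 421574901) (nat_lit 59) (nat_lit 5) (nat_lit 65) (nat_lit 5) (nat_lit 60) (nat_lit 5) (nat_lit 262) (nat_lit 240) (nat_lit 218)) (XT.lf (nat_lit 0) (nat_lit 582158552) (nat_lit 304) (nat_lit 5735531390) (nat_lit 380) (nat_lit 2400115790) (nat_lit 55) (nat_lit 5) (nat_lit 59) (nat_lit 5) (nat_lit 60) (nat_lit 5) (nat_lit 263) (nat_lit 240) (nat_lit 217))) (XT.nd (nat_lit 78) (nat_lit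 380) (nat_lit 0) (XT.lf (nat_lit 0) (nat_lit 5541738092) (nat_lit 304) (nat_lit 3199116266) (nat_lit 380) (nat_lit 191875872) (nat_lit 55) (nat_lit 5) (nat_lit 59) (nat_lit 5) (nat_lit 60) (nat_lit 5) (nat_lit 264) (nat_lit 240) (nat_lit 216)) (XT.lf (nat_lit 0) (nat_lit 1514028411) (nat_lit 304) (nat_lit 488163085) (nat_lit 380) (nat_lit 7157616907) (nat_lit 50) (nat_lit 5) (nat_lit 54) (nat_lit 5) (nat_lit 55) (nat_lit 5) (nat_lit 265) (nat_lit 240) (nat_lit 215))))) (XT.nd (nat_lit 312) (nat_lit 532) (nat_lit 0) (XT.nd (nat_lit 156) (nat_lit 380) (nat_lit 0) (XT.nd (nat_lit 78) (nat_lit 228) (nat_lit 0) (XT.lf (nat_lit 0) (nat_lit 4316751665) (nat_lit 380) (nat_lit 2748800411) (nat_lit 76) (nat_lit 2331899699) (nat_lit 50) (nat_lit 5) (nat_lit 55) (nat_lit 5) (nat_lit 51) (nat_lit 5) (nat_lit 266) (nat_lit 240) (nat_lit 214)) (XT.lf (nat_lit 0) (nat_lit 2370858517) (nat_lit 228)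 (nat_lit 4346959667) (nat_lit 304) (nat_lit 2930839692) (nat_lit 47) (nat_lit 5) (nat_lit 50) (nat_lit 5) (nat_lit 51) (nat_lit 5) (nat_lit 267) (nat_lit 240) (nat_lit 213))) (XT.nd (nat_lit 78) (nat_lit 380) (nat_lit 0) (XT.lf (nat_lit 0) (nat_lit 7753335707) (nat_lit 228) (nat_lit 1460066509) (nat_lit 304) (nat_lit 700507885) (nat_lit 47) (nat_lit 5) (nat_lit 50) (nat_lit 5) (nat_lit 51) (nat_lit 5) (nat_lit 268) (nat_lit 240) (nat_lit 212)) (XT.lf (nat_lit 0) (nat_lit 1594340110) (nat_lit 380) (nat_lit 7015333207) (nat_lit 76) (nat_lit 1581383280) (nat_lit 42) (nat_lit 5) (nat_lit 47) (nat_lit 5) (nat_lit 43) (nat_lit 5) (nat_lit 269) (nat_lit 240) (nat_lit 211)))) (XT.nd (nat_lit 156) (nat_lit 304) (nat_lit 0) (XT.nd (nat_lit 78) (nat_lit 228) (nat_lit 0) (XT.lf (nat_lit 0) (nat_lit 3973265276) (nat_lit 380) (nat_lit 1751189602) (nat_lit 76) (nat_lit 4757568096) (nat_lit 42) (nat_lit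 5) (nat_lit 47) (nat_lit 5) (nat_lit 43) (nat_lit 5) (nat_lit 270) (nat_lit 240) (nat_lit 210)) (XT.lf (nat_lit 0) (nat_lit 3813664216) (nat_lit 228) (nat_lit 2652015131) (nat_lit 304) (nat_lit 4322303156) (nat_lit 39) (nat_lit 5) (nat_lit 42) (nat_lit 5) (nat_lit 43) (nat_lit 5) (nat_lit 271) (nat_lit 240) (nat_lit 209))) (XT.nd (nat_lit 78) (nat_lit 304) (nat_lit 0) (XT.lf (nat_lit 0) (nat_lit 9058304884) (nat_lit 304) (nat_lit 1485853744) (nat_lit 76) (nat_lit 566465623) (nat_lit 39) (nat_lit 5) (nat_lit 43) (nat_lit 5) (nat_lit 40) (nat_lit 5) (nat_lit 272) (nat_lit 240) (nat_lit 208)) (XT.nd (nat_lit 78) (nat_lit 0) (nat_lit 0) (XT.lf (nat_lit 0) (nat_lit 371176111) (nat_lit 304) (nat_lit 7164320235) (nat_lit 76) (nat_lit 3911261180) (nat_lit 35) (nat_lit 5) (nat_lit 39) (nat_lit 5) (nat_lit 36) (nat_lit 5) (nat_lit 273) (nat_lit 240) (nat_lit 207)) (XT.lf (nat_lit 0) (nat_lit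 2812470987) (nat_lit 304) (nat_lit 1524669460) (nat_lit 76) (nat_lit 7462736465) (nat_lit 35) (nat_lit 5) (nat_lit 39) (nat_lit 5) (nat_lit 36) (nat_lit 5) (nat_lit 274) (nat_lit 240) (nat_lit 206))))))) (XT.nd (nat_lit 702) (nat_lit 532) (nat_lit 0) (XT.nd (nat_lit 312) (nat_lit 456) (nat_lit 0) (XT.nd (nat_lit 156) (nat_lit 304) (nat_lit 0) (XT.nd (nat_lit 78) (nat_lit 0) (nat_lit 0) (XT.lf (nat_lit 0) (nat_lit 4460783010) (nat_lit 152) (nat_lit 927568960) (nat_lit 228) (nat_lit 6781808971) (nat_lit 33) (nat_lit 5) (nat_lit 35) (nat_lit 5) (nat_lit 36) (nat_lit 5) (nat_lit 275) (nat_lit 240) (nat_lit 205)) (XT.lf (nat_lit 0) (nat_lit 8104722921) (nat_lit 228) (nat_lit 1881307879) (nat_lit 76) (nat_lit 2572471898) (nat_lit 33) (nat_lit 5) (nat_lit 36) (nat_lit 5) (nat_lit 34) (nat_lit 5) (nat_lit 276) (nat_lit 240) (nat_lit 204))) (XT.nd (nat_lit 78) (nat_lit 76) (nat_lit 0) (XT.lf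 (nat_lit 0) (nat_lit 4283639030) (nat_lit 228) (nat_lit 6702062804) (nat_lit 304) (nat_lit 1979242454) (nat_lit 30) (nat_lit 5) (nat_lit 33) (nat_lit 5) (nat_lit 34) (nat_lit 5) (nat_lit 277) (nat_lit 240) (nat_lit 203)) (XT.lf (nat_lit 0) (nat_lit 578696054) (nat_lit 304) (nat_lit 2655204834) (nat_lit 76) (nat_lit 10158460343) (nat_lit 29) (nat_lit 5) (nat_lit 33) (nat_lit 5) (nat_lit 30) (nat_lit 5) (nat_lit 278) (nat_lit 240) (nat_lit 202)))) (XT.nd (nat_lit 156) (nat_lit 304) (nat_lit 0) (XT.nd (nat_lit 78) (nat_lit 0) (nat_lit 0) (XT.lf (nat_lit 0) (nat_lit 3212641265) (nat_lit 228) (nat_lit 10162463138) (nat_lit 76) (nat_lit 463796594) (nat_lit 27) (nat_lit 5) (nat_lit 30) (nat_lit 5) (nat_lit 28) (nat_lit 5) (nat_lit 279) (nat_lit 240) (nat_lit 201)) (XT.lf (nat_lit 0) (nat_lit 6027536599) (nat_lit 228) (nat_lit 4016819536) (nat_lit 76) (nat_lit 4261049520) (nat_lit 27) (nat_lit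 5) (nat_lit 30) (nat_lit 5) (nat_lit 28) (nat_lit 5) (nat_lit 280) (nat_lit 240) (nat_lit 200))) (XT.nd (nat_lit 78) (nat_lit 152) (nat_lit 0) (XT.lf (nat_lit 0) (nat_lit 2443461204) (nat_lit 152) (nat_lit 6530754056) (nat_lit 228) (nat_lit 5821564116) (nat_lit 25) (nat_lit 5) (nat_lit 27) (nat_lit 5) (nat_lit 28) (nat_lit 5) (nat_lit 281) (nat_lit 240) (nat_lit 199)) (XT.nd (nat_lit 78) (nat_lit 152) (nat_lit 0) (XT.lf (nat_lit 0) (nat_lit 9296502587) (nat_lit 152) (nat_lit 2793796360) (nat_lit 228) (nat_lit 3219360479) (nat_lit 25) (nat_lit 5) (nat_lit 27) (nat_lit 5) (nat_lit 28) (nat_lit 5) (nat_lit 282) (nat_lit 240) (nat_lit 198)) (XT.lf (nat_lit 0) (nat_lit 575426291) (nat_lit 152) (nat_lit 14769266645) (nat_lit 228) (nat_lit 505502091) (nat_lit 23) (nat_lit 5) (nat_lit 25) (nat_lit 5) (nat_lit 26) (nat_lit 4) (nat_lit 283) (nat_lit 240) (nat_lit 197)))))) (XT.nd (nat_lit 312)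 (nat_lit 304) (nat_lit 0) (XT.nd (nat_lit 156) (nat_lit 152) (nat_lit 0) (XT.nd (nat_lit 78) (nat_lit 0) (nat_lit 0) (XT.lf (nat_lit 0) (nat_lit 2374475126) (nat_lit 228) (nat_lit 8863268300) (nat_lit 76) (nat_lit 5172990396) (nat_lit 22) (nat_lit 5) (nat_lit 25) (nat_lit 5) (nat_lit 23) (nat_lit 5) (nat_lit 284) (nat_lit 240) (nat_lit 196)) (XT.lf (nat_lit 0) (nat_lit 5339696378) (nat_lit 228) (nat_lit 2204944454) (nat_lit 76) (nat_lit 9456407741) (nat_lit 22) (nat_lit 5) (nat_lit 25) (nat_lit 5) (nat_lit 23) (nat_lit 5) (nat_lit 285) (nat_lit 240) (nat_lit 195))) (XT.nd (nat_lit 78) (nat_lit 0) (nat_lit 0) (XT.lf (nat_lit 0) (nat_lit 4880143320) (nat_lit 152) (nat_lit 3609450332) (nat_lit 228) (nat_lit 9129536116) (nat_lit 20) (nat_lit 5) (nat_lit 22) (nat_lit 5) (nat_lit 23) (nat_lit 5) (nat_lit 286) (nat_lit 240) (nat_lit 194)) (XT.lf (nat_lit 0) (nat_lit 11803904850) (nat_lit 228)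 (nat_lit 5941982150) (nat_lit 76) (nat_lit 521950123) (nat_lit 20) (nat_lit 5) (nat_lit 23) (nat_lit 5) (nat_lit 21) (nat_lit 4) (nat_lit 287) (nat_lit 240) (nat_lit 193)))) (XT.nd (nat_lit 156) (nat_lit 228) (nat_lit 0) (XT.nd (nat_lit 78) (nat_lit 0) (nat_lit 0) (XT.lf (nat_lit 0) (nat_lit 1111268041) (nat_lit 76) (nat_lit 14211858618) (nat_lit 152) (nat_lit 3623958247) (nat_lit 19) (nat_lit 5) (nat_lit 20) (nat_lit 5) (nat_lit 21) (nat_lit 4) (nat_lit 288) (nat_lit 240) (nat_lit 192)) (XT.lf (nat_lit 0) (nat_lit 8664440175) (nat_lit 76) (nat_lit 10418029230) (nat_lit 152) (nat_lit 574679408) (nat_lit 19) (nat_lit 5) (nat_lit 20) (nat_lit 5) (nat_lit 21) (nat_lit 4) (nat_lit 289) (nat_lit 240) (nat_lit 191))) (XT.nd (nat_lit 78) (nat_lit 152) (nat_lit 0) (XT.lf (nat_lit 0) (nat_lit 2507620818) (nat_lit 152) (nat_lit 3905907659) (nat_lit 76) (nat_lit 13988960638) (nat_lit 18) (nat_lit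 5) (nat_lit 20) (nat_lit 5) (nat_lit 19) (nat_lit 5) (nat_lit 290) (nat_lit 240) (nat_lit 190)) (XT.nd (nat_lit 78) (nat_lit 0) (nat_lit 0) (XT.lf (nat_lit 0) (nat_lit 3585871396) (nat_lit 152) (nat_lit 2161160860) (nat_lit 228) (nat_lit 15436530991) (nat_lit 16) (nat_lit 5) (nat_lit 18) (nat_lit 5) (nat_lit 19) (nat_lit 5) (nat_lit 291) (nat_lit 240) (nat_lit 189)) (XT.lf (nat_lit 0) (nat_lit 9218376628) (nat_lit 228) (nat_lit 10504792251) (nat_lit 76) (nat_lit 2277074871) (nat_lit 16) (nat_lit 5) (nat_lit 19) (nat_lit 5) (nat_lit 17) (nat_lit 4) (nat_lit 292) (nat_lit 240) (nat_lit 188))))))))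
noncomputable def xc110 : XT := (XT.nd (nat_lit 1326) (nat_lit 228) (nat_lit 0) (XT.nd (nat_lit 624) (nat_lit 228) (nat_lit 0) (XT.nd (nat_lit 312) (nat_lit 304) (nat_lit 0) (XT.nd (nat_lit 156) (nat_lit 0) (nat_lit 0) (XT.nd (nat_lit 78) (nat_lit 76) (nat_lit 0) (XT.lf (nat_lit 0) (nat_lit 12867060281) (nat_lit 228) (nat_lit 3145246746) (nat_lit 76) (nat_lit 6845311012) (nat_lit 16) (nat_lit 5) (nat_lit 19) (nat_lit 5) (nat_lit 17) (nat_lit 4) (nat_lit 293) (nat_lit 240) (nat_lit 187)) (XT.lf (nat_lit 0) (nat_lit 4682064472) (nat_lit 76) (nat_lit 12059064456) (nat_lit 152) (nat_lit 7014630635) (nat_lit 15) (nat_lit 5) (nat_lit 16) (nat_lit 5) (nat_lit 17) (nat_lit 4) (nat_lit 294) (nat_lit 240) (nat_lit 186))) (XT.nd (nat_lit 78) (nat_lit 0) (nat_lit 0) (XT.lf (nat_lit 0) (nat_lit 12960677781) (nat_lit 76) (nat_lit 7872006771) (nat_lit 152) (nat_lit 3864978300) (nat_lit 15) (nat_lit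 5) (nat_lit 16) (nat_lit 5) (nat_lit 17) (nat_lit 4) (nat_lit 295) (nat_lit 240) (nat_lit 185)) (XT.lf (nat_lit 0) (nat_lit 21606308103) (nat_lit 76) (nat_lit 3494431064) (nat_lit 152) (nat_lit 587367857) (nat_lit 15) (nat_lit 5) (nat_lit 16) (nat_lit 5) (nat_lit 17) (nat_lit 4) (nat_lit 296) (nat_lit 240) (nat_lit 184)))) (XT.nd (nat_lit 156) (nat_lit 76) (nat_lit 0) (XT.nd (nat_lit 78) (nat_lit 0) (nat_lit 0) (XT.lf (nat_lit 0) (nat_lit 2816580181) (nat_lit 228) (nat_lit 22749003090) (nat_lit 76) (nat_lit 1157609644) (nat_lit 12) (nat_lit 5) (nat_lit 15) (nat_lit 5) (nat_lit 13) (nat_lit 4) (nat_lit 297) (nat_lit 240) (nat_lit 183)) (XT.lf (nat_lit 0) (nat_lit 6471624157) (nat_lit 228) (nat_lit 15345899806) (nat_lit 76) (nat_lit 5987031882) (nat_lit 12) (nat_lit 5) (nat_lit 15) (nat_lit 5) (nat_lit 13) (nat_lit 4) (nat_lit 298) (nat_lit 240) (nat_lit 182))) (XT.nd (nat_lit 78) (nat_lit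 76) (nat_lit 0) (XT.lf (nat_lit 0) (nat_lit 10283793395) (nat_lit 228) (nat_lit 7616416549) (nat_lit 76) (nat_lit 11041092694) (nat_lit 12) (nat_lit 5) (nat_lit 15) (nat_lit 5) (nat_lit 13) (nat_lit 4) (nat_lit 299) (nat_lit 240) (nat_lit 181)) (XT.lf (nat_lit 0) (nat_lit 472988808) (nat_lit 76) (nat_lit 13796560363) (nat_lit 152) (nat_lit 15866221432) (nat_lit 11) (nat_lit 5) (nat_lit 12) (nat_lit 5) (nat_lit 13) (nat_lit 4) (nat_lit 300) (nat_lit 240) (nat_lit 180))))) (XT.nd (nat_lit 312) (nat_lit 152) (nat_lit 0) (XT.nd (nat_lit 156) (nat_lit 76) (nat_lit 0) (XT.nd (nat_lit 78) (nat_lit 0) (nat_lit 0) (XT.lf (nat_lit 0) (nat_lit 9190270989) (nat_lit 76) (nat_lit 9369424650) (nat_lit 152) (nat_lit 12825042357) (nat_lit 11) (nat_lit 5) (nat_lit 12) (nat_lit 5) (nat_lit 13) (nat_lit 4) (nat_lit 301) (nat_lit 240) (nat_lit 179)) (XT.lf (nat_lit 0) (nat_lit 18304352300) (nat_lit 76)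 (nat_lit 4737249706) (nat_lit 152) (nat_lit 9655718815) (nat_lit 11) (nat_lit 5) (nat_lit 12) (nat_lit 5) (nat_lit 13) (nat_lit 4) (nat_lit 302) (nat_lit 240) (nat_lit 178))) (XT.nd (nat_lit 78) (nat_lit 76) (nat_lit 0) (XT.lf (nat_lit 0) (nat_lit 27727672397) (nat_lit 152) (nat_lit 6241444260) (nat_lit 0) (nat_lit 107440972) (nat_lit 11) (nat_lit 5) (nat_lit 13) (nat_lit 4) (nat_lit 11) (nat_lit 4) (nat_lit 303) (nat_lit 240) (nat_lit 177)) (XT.lf (nat_lit 0) (nat_lit 2276601268) (nat_lit 76) (nat_lit 30463785333) (nat_lit 76) (nat_lit 2779779593) (nat_lit 10) (nat_lit 4) (nat_lit 11) (nat_lit 5) (nat_lit 11) (nat_lit 4) (nat_lit 304) (nat_lit 240) (nat_lit 176)))) (XT.nd (nat_lit 156) (nat_lit 76) (nat_lit 0) (XT.nd (nat_lit 78) (nat_lit 0) (nat_lit 0) (XT.lf (nat_lit 0) (nat_lit 1023454126) (nat_lit 152) (nat_lit 25646662223) (nat_lit 76) (nat_lit 10360775386) (nat_lit 9) (nat_lit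 5) (nat_lit 11) (nat_lit 5) (nat_lit 10) (nat_lit 4) (nat_lit 305) (nat_lit 240) (nat_lit 175)) (XT.lf (nat_lit 0) (nat_lit 4903633709) (nat_lit 152) (nat_lit 17750139261) (nat_lit 76) (nat_lit 15962115187) (nat_lit 9) (nat_lit 5) (nat_lit 11) (nat_lit 5) (nat_lit 10) (nat_lit 4) (nat_lit 306) (nat_lit 240) (nat_lit 174))) (XT.nd (nat_lit 78) (nat_lit 76) (nat_lit 0) (XT.lf (nat_lit 0) (nat_lit 8958967985) (nat_lit 152) (nat_lit 9491794648) (nat_lit 76) (nat_lit 21830336639) (nat_lit 9) (nat_lit 5) (nat_lit 11) (nat_lit 5) (nat_lit 10) (nat_lit 4) (nat_lit 307) (nat_lit 240) (nat_lit 173)) (XT.nd (nat_lit 78) (nat_lit 76) (nat_lit 0) (XT.lf (nat_lit 0) (nat_lit 13199112510) (nat_lit 152) (nat_lit 851965658) (nat_lit 76) (nat_lit 27979411698) (nat_lit 9) (nat_lit 5) (nat_lit 11) (nat_lit 5) (nat_lit 10) (nat_lit 4) (nat_lit 308) (nat_lit 240) (nat_lit 172)) (XT.lf (nat_lit 0) (nat_lit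 8460714430) (nat_lit 76) (nat_lit 9305543901) (nat_lit 152) (nat_lit 26095362052) (nat_lit 8) (nat_lit 5) (nat_lit 9) (nat_lit 5) (nat_lit 10) (nat_lit 4) (nat_lit 309) (nat_lit 240) (nat_lit 171))))))) (XT.nd (nat_lit 702) (nat_lit 76) (nat_lit 0) (XT.nd (nat_lit 312) (nat_lit 152) (nat_lit 0) (XT.nd (nat_lit 156) (nat_lit 0) (nat_lit 0) (XT.nd (nat_lit 78) (nat_lit 0) (nat_lit 0) (XT.lf (nat_lit 0) (nat_lit 18239153635) (nat_lit 76) (nat_lit 4320289369) (nat_lit 152) (nat_lit 23224999482) (nat_lit 8) (nat_lit 5) (nat_lit 9) (nat_lit 5) (nat_lit 10) (nat_lit 4) (nat_lit 310) (nat_lit 240) (nat_lit 170)) (XT.lf (nat_lit 0) (nat_lit 27590422220) (nat_lit 152) (nat_lit 19339841997) (nat_lit 0) (nat_lit 873252943) (nat_lit 8) (nat_lit 5) (nat_lit 10) (nat_lit 4) (nat_lit 8) (nat_lit 4) (nat_lit 311) (nat_lit 240) (nat_lit 169))) (XT.nd (nat_lit 78) (nat_lit 0) (nat_lit 0) (XT.lf (nat_lit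 0) (nat_lit 32928404951) (nat_lit 152) (nat_lit 10822259064) (nat_lit 0) (nat_lit 6170126182) (nat_lit 8) (nat_lit 5) (nat_lit 10) (nat_lit 4) (nat_lit 8) (nat_lit 4) (nat_lit 312) (nat_lit 240) (nat_lit 168)) (XT.lf (nat_lit 0) (nat_lit 38518648857) (nat_lit 152) (nat_lit 1904808269) (nat_lit 0) (nat_lit 11721218191) (nat_lit 8) (nat_lit 5) (nat_lit 10) (nat_lit 4) (nat_lit 8) (nat_lit 4) (nat_lit 313) (nat_lit 240) (nat_lit 167)))) (XT.nd (nat_lit 156) (nat_lit 76) (nat_lit 0) (XT.nd (nat_lit 78) (nat_lit 0) (nat_lit 0) (XT.lf (nat_lit 0) (nat_lit 7679535508) (nat_lit 76) (nat_lit 36814827606) (nat_lit 76) (nat_lit 9980109418) (nat_lit 7) (nat_lit 4) (nat_lit 8) (nat_lit 5) (nat_lit 8) (nat_lit 4) (nat_lit 314) (nat_lit 240) (nat_lit 166)) (XT.lf (nat_lit 0) (nat_lit 17784854023) (nat_lit 76) (nat_lit 33002610315) (nat_lit 76) (nat_lit 6132380202) (nat_lit 7) (nat_lit 4) (nat_lit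 8) (nat_lit 5) (nat_lit 8) (nat_lit 4) (nat_lit 315) (nat_lit 240) (nat_lit 165))) (XT.nd (nat_lit 78) (nat_lit 76) (nat_lit 0) (XT.lf (nat_lit 0) (nat_lit 28372225994) (nat_lit 76) (nat_lit 29009987397) (nat_lit 76) (nat_lit 2105936403) (nat_lit 7) (nat_lit 4) (nat_lit 8) (nat_lit 5) (nat_lit 8) (nat_lit 4) (nat_lit 316) (nat_lit 240) (nat_lit 164)) (XT.nd (nat_lit 78) (nat_lit 0) (nat_lit 0) (XT.lf (nat_lit 0) (nat_lit 2041313700) (nat_lit 152) (nat_lit 22751568269) (nat_lit 76) (nat_lit 37390975113) (nat_lit 6) (nat_lit 5) (nat_lit 8) (nat_lit 5) (nat_lit 7) (nat_lit 4) (nat_lit 317) (nat_lit 240) (nat_lit 163)) (XT.lf (nat_lit 0) (nat_lit 6313149145) (nat_lit 152) (nat_lit 14024982145) (nat_lit 76) (nat_lit 44675104801) (nat_lit 6) (nat_lit 5) (nat_lit 8) (nat_lit 5) (nat_lit 7) (nat_lit 4) (nat_lit 318) (nat_lit 240) (nat_lit 162)))))) (XT.nd (nat_lit 312) (nat_lit 0) (nat_lit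 0) (XT.nd (nat_lit 156) (nat_lit 0) (nat_lit 0) (XT.nd (nat_lit 78) (nat_lit 76) (nat_lit 0) (XT.lf (nat_lit 0) (nat_lit 10787144083) (nat_lit 152) (nat_lit 4882508270) (nat_lit 76) (nat_lit 52315015060) (nat_lit 6) (nat_lit 5) (nat_lit 8) (nat_lit 5) (nat_lit 7) (nat_lit 4) (nat_lit 319) (nat_lit 240) (nat_lit 161)) (XT.lf (nat_lit 0) (nat_lit 4852945717) (nat_lit 76) (nat_lit 10696773248) (nat_lit 152) (nat_lit 55551718516) (nat_lit 5) (nat_lit 5) (nat_lit 6) (nat_lit 5) (nat_lit 7) (nat_lit 4) (nat_lit 320) (nat_lit 240) (nat_lit 160))) (XT.nd (nat_lit 78) (nat_lit 0) (nat_lit 0) (XT.lf (nat_lit 0) (nat_lit 15225527920) (nat_lit 76) (nat_lit 5396913849) (nat_lit 152) (nat_lit 53748013983) (nat_lit 5) (nat_lit 5) (nat_lit 6) (nat_lit 5) (nat_lit 7) (nat_lit 4) (nat_lit 321) (nat_lit 240) (nat_lit 159)) (XT.lf (nat_lit 0) (nat_lit 25941136087) (nat_lit 152) (nat_lit 51707441736) (nat_lit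 0) (nat_lit 154740496) (nat_lit 5) (nat_lit 5) (nat_lit 7) (nat_lit 4) (nat_lit 5) (nat_lit 4) (nat_lit 322) (nat_lit 240) (nat_lit 158)))) (XT.nd (nat_lit 156) (nat_lit 0) (nat_lit 0) (XT.nd (nat_lit 78) (nat_lit 0) (nat_lit 0) (XT.lf (nat_lit 0) (nat_lit 31604442338) (nat_lit 152) (nat_lit 44004302037) (nat_lit 0) (nat_lit 5795155443) (nat_lit 5) (nat_lit 5) (nat_lit 7) (nat_lit 4) (nat_lit 5) (nat_lit 4) (nat_lit 323) (nat_lit 240) (nat_lit 157)) (XT.lf (nat_lit 0) (nat_lit 37541583636) (nat_lit 152) (nat_lit 35932906976) (nat_lit 0) (nat_lit 11710495500) (nat_lit 5) (nat_lit 5) (nat_lit 7) (nat_lit 4) (nat_lit 5) (nat_lit 4) (nat_lit 324) (nat_lit 240) (nat_lit 156))) (XT.nd (nat_lit 78) (nat_lit 0) (nat_lit 0) (XT.lf (nat_lit 0) (nat_lit 43766696032) (nat_lit 152) (nat_lit 27474038948) (nat_lit 0) (nat_lit 17914844808) (nat_lit 5) (nat_lit 5) (nat_lit 7) (nat_lit 4) (nat_lit 5)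 (nat_lit 4) (nat_lit 325) (nat_lit 240) (nat_lit 155)) (XT.nd (nat_lit 78) (nat_lit 0) (nat_lit 0) (XT.lf (nat_lit 0) (nat_lit 50294601221) (nat_lit 152) (nat_lit 18607557789) (nat_lit 0) (nat_lit 24422975629) (nat_lit 5) (nat_lit 5) (nat_lit 7) (nat_lit 4) (nat_lit 5) (nat_lit 4) (nat_lit 326) (nat_lit 240) (nat_lit 154)) (XT.lf (nat_lit 0) (nat_lit 57140841835) (nat_lit 152) (nat_lit 9312352830) (nat_lit 0) (nat_lit 31250383511) (nat_lit 5) (nat_lit 5) (nat_lit 7) (nat_lit 4) (nat_lit 5) (nat_lit 4) (nat_lit 327) (nat_lit 240) (nat_lit 153))))))))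
noncomputable def xc111 : XT := (XT.nd (nat_lit 1404) (nat_lit 0) (nat_lit 0) (XT.nd (nat_lit 702) (nat_lit 152) (nat_lit 0) (XT.nd (nat_lit 312) (nat_lit 0) (nat_lit 0) (XT.nd (nat_lit 156) (nat_lit 0) (nat_lit 0) (XT.nd (nat_lit 78) (nat_lit 0) (nat_lit 0) (XT.lf (nat_lit 0) (nat_lit 448047691) (nat_lit 76) (nat_lit 63880666036) (nat_lit 76) (nat_lit 37972271776) (nat_lit 4) (nat_lit 4) (nat_lit 5) (nat_lit 5) (nat_lit 5) (nat_lit 4) (nat_lit 328) (nat_lit 240) (nat_lit 152)) (XT.lf (nat_lit 0) (nat_lit 11006091369) (nat_lit 76) (nat_lit 61020072944) (nat_lit 76) (nat_lit 35094596842) (nat_lit 4) (nat_lit 4) (nat_lit 5) (nat_lit 5) (nat_lit 5) (nat_lit 4) (nat_lit 329) (nat_lit 240) (nat_lit 151))) (XT.nd (nat_lit 78) (nat_lit 0) (nat_lit 0) (XT.lf (nat_lit 0) (nat_lit 22079007961) (nat_lit 76) (nat_lit 58022313657) (nat_lit 76) (nat_lit 32080569132) (nat_lit 4) (nat_lit 4) (nat_lit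 5) (nat_lit 5) (nat_lit 5) (nat_lit 4) (nat_lit 330) (nat_lit 240) (nat_lit 150)) (XT.lf (nat_lit 0) (nat_lit 33693161553) (nat_lit 76) (nat_lit 54880250651) (nat_lit 76) (nat_lit 28923012391) (nat_lit 4) (nat_lit 4) (nat_lit 5) (nat_lit 5) (nat_lit 5) (nat_lit 4) (nat_lit 331) (nat_lit 240) (nat_lit 149)))) (XT.nd (nat_lit 156) (nat_lit 0) (nat_lit 0) (XT.nd (nat_lit 78) (nat_lit 0) (nat_lit 0) (XT.lf (nat_lit 0) (nat_lit 45876204893) (nat_lit 76) (nat_lit 51586402825) (nat_lit 76) (nat_lit 25614408627) (nat_lit 4) (nat_lit 4) (nat_lit 5) (nat_lit 5) (nat_lit 5) (nat_lit 4) (nat_lit 332) (nat_lit 240) (nat_lit 148)) (XT.lf (nat_lit 0) (nat_lit 58657145227) (nat_lit 76) (nat_lit 48132927684) (nat_lit 76) (nat_lit 22146880211) (nat_lit 4) (nat_lit 4) (nat_lit 5) (nat_lit 5) (nat_lit 5) (nat_lit 4) (nat_lit 333) (nat_lit 240) (nat_lit 147))) (XT.nd (nat_lit 78) (nat_lit 0) (nat_lit 0)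 (XT.lf (nat_lit 0) (nat_lit 72066413364) (nat_lit 76) (nat_lit 44511602667) (nat_lit 76) (nat_lit 18512171123) (nat_lit 4) (nat_lit 4) (nat_lit 5) (nat_lit 5) (nat_lit 5) (nat_lit 4) (nat_lit 334) (nat_lit 240) (nat_lit 146)) (XT.nd (nat_lit 78) (nat_lit 0) (nat_lit 0) (XT.lf (nat_lit 0) (nat_lit 86135936135) (nat_lit 76) (nat_lit 40713805573) (nat_lit 76) (nat_lit 14701627295) (nat_lit 4) (nat_lit 4) (nat_lit 5) (nat_lit 5) (nat_lit 5) (nat_lit 4) (nat_lit 335) (nat_lit 240) (nat_lit 145)) (XT.lf (nat_lit 0) (nat_lit 100899212402) (nat_lit 76) (nat_lit 36730494027) (nat_lit 76) (nat_lit 10706176002) (nat_lit 4) (nat_lit 4) (nat_lit 5) (nat_lit 5) (nat_lit 5) (nat_lit 4) (nat_lit 336) (nat_lit 240) (nat_lit 144)))))) (XT.nd (nat_lit 312) (nat_lit 76) (nat_lit 0) (XT.nd (nat_lit 156) (nat_lit 76) (nat_lit 0) (XT.nd (nat_lit 78) (nat_lit 0) (nat_lit 0) (XT.lf (nat_lit 0) (nat_lit 116391392823)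 (nat_lit 76) (nat_lit 32552183955) (nat_lit 76) (nat_lit 6516304266) (nat_lit 4) (nat_lit 4) (nat_lit 5) (nat_lit 5) (nat_lit 5) (nat_lit 4) (nat_lit 337) (nat_lit 240) (nat_lit 143)) (XT.lf (nat_lit 0) (nat_lit 132649363543) (nat_lit 76) (nat_lit 28168926999) (nat_lit 76) (nat_lit 2122036202) (nat_lit 4) (nat_lit 4) (nat_lit 5) (nat_lit 5) (nat_lit 5) (nat_lit 4) (nat_lit 338) (nat_lit 240) (nat_lit 142))) (XT.nd (nat_lit 78) (nat_lit 0) (nat_lit 0) (XT.lf (nat_lit 0) (nat_lit 2407488298) (nat_lit 152) (nat_lit 21122026555) (nat_lit 76) (nat_lit 147263573738) (nat_lit 3) (nat_lit 5) (nat_lit 5) (nat_lit 5) (nat_lit 4) (nat_lit 4) (nat_lit 339) (nat_lit 240) (nat_lit 141)) (XT.lf (nat_lit 0) (nat_lit 7087699305) (nat_lit 152) (nat_lit 11537581390) (nat_lit 76) (nat_lit 160411696246) (nat_lit 3) (nat_lit 5) (nat_lit 5) (nat_lit 5) (nat_lit 4) (nat_lit 4) (nat_lit 340) (nat_lit 240) (nat_lit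 140)))) (XT.nd (nat_lit 156) (nat_lit 0) (nat_lit 0) (XT.nd (nat_lit 78) (nat_lit 76) (nat_lit 0) (XT.lf (nat_lit 0) (nat_lit 11997658590) (nat_lit 152) (nat_lit 1481676666) (nat_lit 76) (nat_lit 174213941393) (nat_lit 3) (nat_lit 5) (nat_lit 5) (nat_lit 5) (nat_lit 4) (nat_lit 4) (nat_lit 341) (nat_lit 240) (nat_lit 139)) (XT.lf (nat_lit 0) (nat_lit 9369513181) (nat_lit 76) (nat_lit 7925827708) (nat_lit 152) (nat_lit 179479942844) (nat_lit 2) (nat_lit 5) (nat_lit 3) (nat_lit 5) (nat_lit 4) (nat_lit 4) (nat_lit 342) (nat_lit 240) (nat_lit 138))) (XT.nd (nat_lit 78) (nat_lit 0) (nat_lit 0) (XT.lf (nat_lit 0) (nat_lit 20807429184) (nat_lit 76) (nat_lit 2071591458) (nat_lit 152) (nat_lit 183431318331) (nat_lit 2) (nat_lit 5) (nat_lit 3) (nat_lit 5) (nat_lit 4) (nat_lit 4) (nat_lit 343) (nat_lit 240) (nat_lit 137)) (XT.nd (nat_lit 78) (nat_lit 0) (nat_lit 0) (XT.lf (nat_lit 0) (nat_lit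 28801673070) (nat_lit 152) (nat_lit 183575604984) (nat_lit 0) (nat_lit 3941882792) (nat_lit 2) (nat_lit 5) (nat_lit 4) (nat_lit 4) (nat_lit 2) (nat_lit 4) (nat_lit 344) (nat_lit 240) (nat_lit 136)) (XT.lf (nat_lit 0) (nat_lit 35050762395) (nat_lit 152) (nat_lit 181592629985) (nat_lit 0) (nat_lit 10183519365) (nat_lit 2) (nat_lit 5) (nat_lit 4) (nat_lit 4) (nat_lit 2) (nat_lit 4) (nat_lit 345) (nat_lit 240) (nat_lit 135))))))) (XT.nd (nat_lit 702) (nat_lit 0) (nat_lit 0) (XT.nd (nat_lit 312) (nat_lit 0) (nat_lit 0) (XT.nd (nat_lit 156) (nat_lit 0) (nat_lit 0) (XT.nd (nat_lit 78) (nat_lit 0) (nat_lit 0) (XT.lf (nat_lit 0) (nat_lit 41608824054) (nat_lit 152) (nat_lit 179516920076) (nat_lit 0) (nat_lit 16734483165) (nat_lit 2) (nat_lit 5) (nat_lit 4) (nat_lit 4) (nat_lit 2) (nat_lit 4) (nat_lit 346) (nat_lit 240) (nat_lit 134)) (XT.lf (nat_lit 0) (nat_lit 48491472478) (nat_lit 152) (nat_lit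 177343533091) (nat_lit 0) (nat_lit 23610371724) (nat_lit 2) (nat_lit 5) (nat_lit 4) (nat_lit 4) (nat_lit 2) (nat_lit 4) (nat_lit 347) (nat_lit 240) (nat_lit 133))) (XT.nd (nat_lit 78) (nat_lit 0) (nat_lit 0) (XT.lf (nat_lit 0) (nat_lit 55715094926) (nat_lit 152) (nat_lit 175067294297) (nat_lit 0) (nat_lit 30827556205) (nat_lit 2) (nat_lit 5) (nat_lit 4) (nat_lit 4) (nat_lit 2) (nat_lit 4) (nat_lit 348) (nat_lit 240) (nat_lit 132)) (XT.lf (nat_lit 0) (nat_lit 63296890499) (nat_lit 152) (nat_lit 172682784079) (nat_lit 0) (nat_lit 38403220380) (nat_lit 2) (nat_lit 5) (nat_lit 4) (nat_lit 4) (nat_lit 2) (nat_lit 4) (nat_lit 349) (nat_lit 240) (nat_lit 131)))) (XT.nd (nat_lit 156) (nat_lit 0) (nat_lit 0) (XT.nd (nat_lit 78) (nat_lit 0) (nat_lit 0) (XT.lf (nat_lit 0) (nat_lit 71254911091) (nat_lit 152) (nat_lit 170184325032) (nat_lit 0) (nat_lit 46355401547) (nat_lit 2) (nat_lit 5) (nat_lit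 4) (nat_lit 4) (nat_lit 2) (nat_lit 4) (nat_lit 350) (nat_lit 240) (nat_lit 130)) (XT.lf (nat_lit 0) (nat_lit 79608104371) (nat_lit 152) (nat_lit 167565968443) (nat_lit 0) (nat_lit 54703033468) (nat_lit 2) (nat_lit 5) (nat_lit 4) (nat_lit 4) (nat_lit 2) (nat_lit 4) (nat_lit 351) (nat_lit 240) (nat_lit 129))) (XT.nd (nat_lit 78) (nat_lit 0) (nat_lit 0) (XT.lf (nat_lit 0) (nat_lit 88376358893) (nat_lit 152) (nat_lit 164821480131) (nat_lit 0) (nat_lit 63465991459) (nat_lit 2) (nat_lit 5) (nat_lit 4) (nat_lit 4) (nat_lit 2) (nat_lit 4) (nat_lit 352) (nat_lit 240) (nat_lit 128)) (XT.nd (nat_lit 78) (nat_lit 0) (nat_lit 0) (XT.lf (nat_lit 0) (nat_lit 97580551454) (nat_lit 152) (nat_lit 161944325599) (nat_lit 0) (nat_lit 72665139705) (nat_lit 2) (nat_lit 5) (nat_lit 4) (nat_lit 4) (nat_lit 2) (nat_lit 4) (nat_lit 353) (nat_lit 240) (nat_lit 127)) (XT.lf (nat_lit 0) (nat_lit 107242596799) (nat_lit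 152) (nat_lit 158927654480) (nat_lit 0) (nat_lit 82322380940) (nat_lit 2) (nat_lit 5) (nat_lit 4) (nat_lit 4) (nat_lit 2) (nat_lit 4) (nat_lit 354) (nat_lit 240) (nat_lit 126)))))) (XT.nd (nat_lit 312) (nat_lit 0) (nat_lit 0) (XT.nd (nat_lit 156) (nat_lit 0) (nat_lit 0) (XT.nd (nat_lit 78) (nat_lit 0) (nat_lit 0) (XT.lf (nat_lit 0) (nat_lit 117385499797) (nat_lit 152) (nat_lit 155764284222) (nat_lit 0) (nat_lit 92460708595) (nat_lit 2) (nat_lit 5) (nat_lit 4) (nat_lit 4) (nat_lit 2) (nat_lit 4) (nat_lit 355) (nat_lit 240) (nat_lit 125)) (XT.lf (nat_lit 0) (nat_lit 128033410218) (nat_lit 152) (nat_lit 152446682993) (nat_lit 0) (nat_lit 103104261546) (nat_lit 2) (nat_lit 5) (nat_lit 4) (nat_lit 4) (nat_lit 2) (nat_lit 4) (nat_lit 356) (nat_lit 240) (nat_lit 124))) (XT.nd (nat_lit 78) (nat_lit 0) (nat_lit 0) (XT.lf (nat_lit 0) (nat_lit 139211680228) (nat_lit 152) (nat_lit 148966951742)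 (nat_lit 0) (nat_lit 114278381585) (nat_lit 2) (nat_lit 5) (nat_lit 4) (nat_lit 4) (nat_lit 2) (nat_lit 4) (nat_lit 357) (nat_lit 240) (nat_lit 123)) (XT.lf (nat_lit 0) (nat_lit 150946924757) (nat_lit 152) (nat_lit 145316805393) (nat_lit 0) (nat_lit 126009673761) (nat_lit 2) (nat_lit 5) (nat_lit 4) (nat_lit 4) (nat_lit 2) (nat_lit 4) (nat_lit 358) (nat_lit 240) (nat_lit 122)))) (XT.nd (nat_lit 28314) (nat_lit 0) (nat_lit 8740) (XT.nd (nat_lit 78) (nat_lit 0) (nat_lit 0) (XT.lf (nat_lit 0) (nat_lit 163267084863) (nat_lit 152) (nat_lit 141487553124) (nat_lit 0) (nat_lit 138326069721) (nat_lit 2) (nat_lit 5) (nat_lit 4) (nat_lit 4) (nat_lit 2) (nat_lit 4) (nat_lit 359) (nat_lit 240) (nat_lit 121)) (XT.lf (nat_lit 0) (nat_lit 176201494261) (nat_lit 152) (nat_lit 137470077665) (nat_lit 0) (nat_lit 151256894218) (nat_lit 2) (nat_lit 5) (nat_lit 4) (nat_lit 4) (nat_lit 2) (nat_lit 4) (nat_lit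 360) (nat_lit 240) (nat_lit 120))) (XT.nd (nat_lit 78) (nat_lit 228) (nat_lit 0) (XT.lf (nat_lit 0) (nat_lit 1388306119) (nat_lit 0) (nat_lit 1388306119) (nat_lit 76) (nat_lit 449957417) (nat_lit 120) (nat_lit 5) (nat_lit 120) (nat_lit 3) (nat_lit 121) (nat_lit 0) (nat_lit 241) (nat_lit 241) (nat_lit 238)) (XT.nd (nat_lit 78) (nat_lit 0) (nat_lit 0) (XT.lf (nat_lit 0) (nat_lit 1722526069) (nat_lit 228) (nat_lit 793162755) (nat_lit 228) (nat_lit 3953909719) (nat_lit 117) (nat_lit 3) (nat_lit 120) (nat_lit 3) (nat_lit 120) (nat_lit 5) (nat_lit 242) (nat_lit 241) (nat_lit 237)) (XT.lf (nat_lit 76) (nat_lit 2201716342) (nat_lit 0) (nat_lit 2111085321) (nat_lit 228) (nat_lit 2180942226) (nat_lit 118) (nat_lit 5) (nat_lit 117) (nat_lit 3) (nat_lit 120) (nat_lit 5) (nat_lit 243) (nat_lit 241) (nat_lit 236))))))))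
noncomputable def xc112 : XT := (XT.nd (nat_lit 1326) (nat_lit 2584) (nat_lit 0) (XT.nd (nat_lit 624) (nat_lit 2812) (nat_lit 0) (XT.nd (nat_lit 312) (nat_lit 760) (nat_lit 0) (XT.nd (nat_lit 156) (nat_lit 228) (nat_lit 0) (XT.nd (nat_lit 78) (nat_lit 0) (nat_lit 0) (XT.lf (nat_lit 0) (nat_lit 346397306) (nat_lit 228) (nat_lit 1246023426) (nat_lit 304) (nat_lit 4934668408) (nat_lit 114) (nat_lit 5) (nat_lit 117) (nat_lit 3) (nat_lit 118) (nat_lit 5) (nat_lit 244) (nat_lit 241) (nat_lit 235)) (XT.lf (nat_lit 76) (nat_lit 1888163172) (nat_lit 0) (nat_lit 911635729) (nat_lit 304) (nat_lit 3767685053) (nat_lit 115) (nat_lit 5) (nat_lit 114) (nat_lit 5) (nat_lit 118) (nat_lit 5) (nat_lit 245) (nat_lit 241) (nat_lit 234))) (XT.nd (nat_lit 78) (nat_lit 228) (nat_lit 0) (XT.lf (nat_lit 76) (nat_lit 5134952847) (nat_lit 0) (nat_lit 111617174) (nat_lit 304) (nat_lit 1370573907) (nat_lit 115)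 (nat_lit 5) (nat_lit 114) (nat_lit 5) (nat_lit 118) (nat_lit 5) (nat_lit 246) (nat_lit 241) (nat_lit 233)) (XT.lf (nat_lit 0) (nat_lit 1004943336) (nat_lit 304) (nat_lit 4861412246) (nat_lit 76) (nat_lit 807982125) (nat_lit 111) (nat_lit 5) (nat_lit 115) (nat_lit 5) (nat_lit 112) (nat_lit 5) (nat_lit 247) (nat_lit 241) (nat_lit 232)))) (XT.nd (nat_lit 156) (nat_lit 456) (nat_lit 0) (XT.nd (nat_lit 78) (nat_lit 304) (nat_lit 0) (XT.lf (nat_lit 0) (nat_lit 3340648156) (nat_lit 304) (nat_lit 1529451601) (nat_lit 76) (nat_lit 1869468528) (nat_lit 111) (nat_lit 5) (nat_lit 115) (nat_lit 5) (nat_lit 112) (nat_lit 5) (nat_lit 248) (nat_lit 241) (nat_lit 231)) (XT.lf (nat_lit 0) (nat_lit 1939898856) (nat_lit 304) (nat_lit 3750316208) (nat_lit 380) (nat_lit 1123633516) (nat_lit 107) (nat_lit 5) (nat_lit 111) (nat_lit 5) (nat_lit 112) (nat_lit 5) (nat_lit 249) (nat_lit 241) (nat_lit 230))) (XT.nd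 (nat_lit 78) (nat_lit 380) (nat_lit 0) (XT.lf (nat_lit 0) (nat_lit 1120278657) (nat_lit 380) (nat_lit 1369650352) (nat_lit 76) (nat_lit 4406740261) (nat_lit 106) (nat_lit 5) (nat_lit 111) (nat_lit 5) (nat_lit 107) (nat_lit 5) (nat_lit 250) (nat_lit 241) (nat_lit 229)) (XT.lf (nat_lit 0) (nat_lit 2274000096) (nat_lit 380) (nat_lit 1075400656) (nat_lit 456) (nat_lit 3638325054) (nat_lit 101) (nat_lit 5) (nat_lit 106) (nat_lit 5) (nat_lit 107) (nat_lit 5) (nat_lit 251) (nat_lit 241) (nat_lit 228))))) (XT.nd (nat_lit 312) (nat_lit 1748) (nat_lit 0) (XT.nd (nat_lit 156) (nat_lit 532) (nat_lit 0) (XT.nd (nat_lit 78) (nat_lit 532) (nat_lit 0) (XT.lf (nat_lit 0) (nat_lit 5600269882) (nat_lit 456) (nat_lit 1037368211) (nat_lit 76) (nat_lit 450710728) (nat_lit 101) (nat_lit 5) (nat_lit 107) (nat_lit 5) (nat_lit 102) (nat_lit 5) (nat_lit 252) (nat_lit 241) (nat_lit 227)) (XT.lf (nat_lit 0) (nat_lit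 691114001) (nat_lit 532) (nat_lit 4404605356) (nat_lit 76) (nat_lit 2100858427) (nat_lit 94) (nat_lit 5) (nat_lit 101) (nat_lit 5) (nat_lit 95) (nat_lit 5) (nat_lit 253) (nat_lit 241) (nat_lit 226))) (XT.nd (nat_lit 78) (nat_lit 532) (nat_lit 0) (XT.lf (nat_lit 0) (nat_lit 2834888979) (nat_lit 532) (nat_lit 579158758) (nat_lit 76) (nat_lit 3900125421) (nat_lit 94) (nat_lit 5) (nat_lit 101) (nat_lit 5) (nat_lit 95) (nat_lit 5) (nat_lit 254) (nat_lit 241) (nat_lit 225)) (XT.lf (nat_lit 0) (nat_lit 3458805038) (nat_lit 532) (nat_lit 1574168604) (nat_lit 608) (nat_lit 2407753161) (nat_lit 87) (nat_lit 5) (nat_lit 94) (nat_lit 5) (nat_lit 95) (nat_lit 5) (nat_lit 255) (nat_lit 241) (nat_lit 224)))) (XT.nd (nat_lit 156) (nat_lit 1064) (nat_lit 0) (XT.nd (nat_lit 78) (nat_lit 76) (nat_lit 0) (XT.lf (nat_lit 0) (nat_lit 47610392) (nat_lit 608) (nat_lit 7206720588) (nat_lit 684) (nat_lit 324022588)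 (nat_lit 79) (nat_lit 5) (nat_lit 87) (nat_lit 5) (nat_lit 88) (nat_lit 5) (nat_lit 256) (nat_lit 241) (nat_lit 223)) (XT.lf (nat_lit 0) (nat_lit 1797104748) (nat_lit 684) (nat_lit 3454681326) (nat_lit 76) (nat_lit 2470352623) (nat_lit 78) (nat_lit 5) (nat_lit 87) (nat_lit 5) (nat_lit 79) (nat_lit 5) (nat_lit 257) (nat_lit 241) (nat_lit 222))) (XT.nd (nat_lit 78) (nat_lit 380) (nat_lit 0) (XT.lf (nat_lit 0) (nat_lit 752487725) (nat_lit 684) (nat_lit 3176011488) (nat_lit 760) (nat_lit 3948950783) (nat_lit 69) (nat_lit 5) (nat_lit 78) (nat_lit 5) (nat_lit 79) (nat_lit 5) (nat_lit 258) (nat_lit 241) (nat_lit 221)) (XT.nd (nat_lit 78) (nat_lit 380) (nat_lit 0) (XT.lf (nat_lit 0) (nat_lit 5199960909) (nat_lit 684) (nat_lit 931558056) (nat_lit 760) (nat_lit 1911095598) (nat_lit 69) (nat_lit 5) (nat_lit 78) (nat_lit 5) (nat_lit 79) (nat_lit 5) (nat_lit 259) (nat_lit 241) (nat_lit 220)) (XT.lf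 (nat_lit 0) (nat_lit 178489218) (nat_lit 380) (nat_lit 6629393857) (nat_lit 76) (nat_lit 1410426857) (nat_lit 64) (nat_lit 5) (nat_lit 69) (nat_lit 5) (nat_lit 65) (nat_lit 5) (nat_lit 260) (nat_lit 241) (nat_lit 219))))))) (XT.nd (nat_lit 702) (nat_lit 912) (nat_lit 0) (XT.nd (nat_lit 312) (nat_lit 912) (nat_lit 0) (XT.nd (nat_lit 156) (nat_lit 380) (nat_lit 0) (XT.nd (nat_lit 78) (nat_lit 380) (nat_lit 0) (XT.lf (nat_lit 0) (nat_lit 2284715157) (nat_lit 380) (nat_lit 2199289148) (nat_lit 76) (nat_lit 3918694052) (nat_lit 64) (nat_lit 5) (nat_lit 69) (nat_lit 5) (nat_lit 65) (nat_lit 5) (nat_lit 261) (nat_lit 241) (nat_lit 218)) (XT.lf (nat_lit 0) (nat_lit 2442622950) (nat_lit 380) (nat_lit 2008132163) (nat_lit 456) (nat_lit 4148106070) (nat_lit 59) (nat_lit 5) (nat_lit 64) (nat_lit 5) (nat_lit 65) (nat_lit 5) (nat_lit 262) (nat_lit 241) (nat_lit 217))) (XT.nd (nat_lit 78) (nat_lit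 380) (nat_lit 0) (XT.lf (nat_lit 0) (nat_lit 6691103154) (nat_lit 456) (nat_lit 1510522181) (nat_lit 76) (nat_lit 605173289) (nat_lit 59) (nat_lit 5) (nat_lit 65) (nat_lit 5) (nat_lit 60) (nat_lit 5) (nat_lit 263) (nat_lit 241) (nat_lit 216)) (XT.lf (nat_lit 0) (nat_lit 25720931) (nat_lit 380) (nat_lit 5669811008) (nat_lit 76) (nat_lit 3329430053) (nat_lit 54) (nat_lit 5) (nat_lit 59) (nat_lit 5) (nat_lit 55) (nat_lit 5) (nat_lit 264) (nat_lit 241) (nat_lit 215)))) (XT.nd (nat_lit 156) (nat_lit 608) (nat_lit 0) (XT.nd (nat_lit 78) (nat_lit 304) (nat_lit 0) (XT.lf (nat_lit 0) (nat_lit 2152771842) (nat_lit 380) (nat_lit 859041601) (nat_lit 76) (nat_lit 6243233113) (nat_lit 54) (nat_lit 5) (nat_lit 59) (nat_lit 5) (nat_lit 55) (nat_lit 5) (nat_lit 265) (nat_lit 241) (nat_lit 214)) (XT.lf (nat_lit 0) (nat_lit 4244562621) (nat_lit 304) (nat_lit 135181373) (nat_lit 380) (nat_lit 5117432396)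 (nat_lit 50) (nat_lit 5) (nat_lit 54) (nat_lit 5) (nat_lit 55) (nat_lit 5) (nat_lit 266) (nat_lit 241) (nat_lit 213))) (XT.nd (nat_lit 78) (nat_lit 608) (nat_lit 0) (XT.lf (nat_lit 0) (nat_lit 6707194046) (nat_lit 380) (nat_lit 248561281) (nat_lit 76) (nat_lit 2796409954) (nat_lit 50) (nat_lit 5) (nat_lit 55) (nat_lit 5) (nat_lit 51) (nat_lit 5) (nat_lit 267) (nat_lit 241) (nat_lit 212)) (XT.nd (nat_lit 78) (nat_lit 380) (nat_lit 0) (XT.lf (nat_lit 0) (nat_lit 5084537382) (nat_lit 228) (nat_lit 4080741245) (nat_lit 304) (nat_lit 854110959) (nat_lit 47) (nat_lit 5) (nat_lit 50) (nat_lit 5) (nat_lit 51) (nat_lit 5) (nat_lit 268) (nat_lit 241) (nat_lit 211)) (XT.lf (nat_lit 0) (nat_lit 297276896) (nat_lit 304) (nat_lit 1045003445) (nat_lit 380) (nat_lit 8959632377) (nat_lit 42) (nat_lit 5) (nat_lit 46) (nat_lit 5) (nat_lit 47) (nat_lit 5) (nat_lit 269) (nat_lit 241) (nat_lit 210))))))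 (XT.nd (nat_lit 312) (nat_lit 456) (nat_lit 0) (XT.nd (nat_lit 156) (nat_lit 228) (nat_lit 0) (XT.nd (nat_lit 78) (nat_lit 228) (nat_lit 0) (XT.lf (nat_lit 0) (nat_lit 3673183080) (nat_lit 380) (nat_lit 4765424608) (nat_lit 76) (nat_lit 2156756414) (nat_lit 42) (nat_lit 5) (nat_lit 47) (nat_lit 5) (nat_lit 43) (nat_lit 5) (nat_lit 270) (nat_lit 241) (nat_lit 209)) (XT.lf (nat_lit 0) (nat_lit 659182452) (nat_lit 228) (nat_lit 5426967263) (nat_lit 304) (nat_lit 4819226182) (nat_lit 39) (nat_lit 5) (nat_lit 42) (nat_lit 5) (nat_lit 43) (nat_lit 5) (nat_lit 271) (nat_lit 241) (nat_lit 208))) (XT.nd (nat_lit 78) (nat_lit 228) (nat_lit 0) (XT.lf (nat_lit 0) (nat_lit 6441232078) (nat_lit 228) (nat_lit 2199044017) (nat_lit 304) (nat_lit 2589742593) (nat_lit 39) (nat_lit 5) (nat_lit 42) (nat_lit 5) (nat_lit 43) (nat_lit 5) (nat_lit 272) (nat_lit 241) (nat_lit 207)) (XT.lf (nat_lit 0) (nat_lit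 872645753) (nat_lit 228) (nat_lit 10424060914) (nat_lit 304) (nat_lit 275605610) (nat_lit 36) (nat_lit 5) (nat_lit 39) (nat_lit 5) (nat_lit 40) (nat_lit 5) (nat_lit 273) (nat_lit 241) (nat_lit 206)))) (XT.nd (nat_lit 156) (nat_lit 228) (nat_lit 0) (XT.nd (nat_lit 78) (nat_lit 152) (nat_lit 0) (XT.lf (nat_lit 0) (nat_lit 2146645019) (nat_lit 304) (nat_lit 5094226801) (nat_lit 76) (nat_lit 4686233986) (nat_lit 35) (nat_lit 5) (nat_lit 39) (nat_lit 5) (nat_lit 36) (nat_lit 5) (nat_lit 274) (nat_lit 241) (nat_lit 205)) (XT.lf (nat_lit 0) (nat_lit 735307149) (nat_lit 152) (nat_lit 3902515309) (nat_lit 228) (nat_lit 7663865151) (nat_lit 33) (nat_lit 5) (nat_lit 35) (nat_lit 5) (nat_lit 36) (nat_lit 5) (nat_lit 275) (nat_lit 241) (nat_lit 204))) (XT.nd (nat_lit 78) (nat_lit 228) (nat_lit 0) (XT.lf (nat_lit 0) (nat_lit 6959196602) (nat_lit 152) (nat_lit 327667193) (nat_lit 228) (nat_lit 5406591670)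 (nat_lit 33) (nat_lit 5) (nat_lit 35) (nat_lit 5) (nat_lit 36) (nat_lit 5) (nat_lit 276) (nat_lit 241) (nat_lit 203)) (XT.nd (nat_lit 78) (nat_lit 0) (nat_lit 0) (XT.lf (nat_lit 0) (nat_lit 271898430) (nat_lit 228) (nat_lit 9803433802) (nat_lit 304) (nat_lit 3029247123) (nat_lit 30) (nat_lit 5) (nat_lit 33) (nat_lit 5) (nat_lit 34) (nat_lit 5) (nat_lit 277) (nat_lit 241) (nat_lit 202)) (XT.lf (nat_lit 0) (nat_lit 6700284283) (nat_lit 228) (nat_lit 6355877904) (nat_lit 304) (nat_lit 477561199) (nat_lit 30) (nat_lit 5) (nat_lit 33) (nat_lit 5) (nat_lit 34) (nat_lit 5) (nat_lit 278) (nat_lit 241) (nat_lit 201))))))))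
noncomputable def xc113 : XT := (XT.nd (nat_lit 1326) (nat_lit 532) (nat_lit 0) (XT.nd (nat_lit 624) (nat_lit 532) (nat_lit 0) (XT.nd (nat_lit 312) (nat_lit 228) (nat_lit 0) (XT.nd (nat_lit 156) (nat_lit 152) (nat_lit 0) (XT.nd (nat_lit 78) (nat_lit 152) (nat_lit 0) (XT.lf (nat_lit 0) (nat_lit 2083262088) (nat_lit 304) (nat_lit 638497563) (nat_lit 76) (nat_lit 11263345696) (nat_lit 29) (nat_lit 5) (nat_lit 33) (nat_lit 5) (nat_lit 30) (nat_lit 5) (nat_lit 279) (nat_lit 241) (nat_lit 200)) (XT.lf (nat_lit 0) (nat_lit 4822215116) (nat_lit 228) (nat_lit 8491484211) (nat_lit 76) (nat_lit 1141754505) (nat_lit 27) (nat_lit 5) (nat_lit 30) (nat_lit 5) (nat_lit 28) (nat_lit 5) (nat_lit 280) (nat_lit 241) (nat_lit 199))) (XT.nd (nat_lit 78) (nat_lit 152) (nat_lit 0) (XT.lf (nat_lit 0) (nat_lit 7708857989) (nat_lit 228) (nat_lit 2142325194) (nat_lit 76) (nat_lit 5097690644) (nat_lit 27) (nat_lit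 5) (nat_lit 30) (nat_lit 5) (nat_lit 28) (nat_lit 5) (nat_lit 281) (nat_lit 241) (nat_lit 198)) (XT.lf (nat_lit 0) (nat_lit 4607496433) (nat_lit 152) (nat_lit 6161541695) (nat_lit 228) (nat_lit 4696553294) (nat_lit 25) (nat_lit 5) (nat_lit 27) (nat_lit 5) (nat_lit 28) (nat_lit 5) (nat_lit 282) (nat_lit 241) (nat_lit 197)))) (XT.nd (nat_lit 156) (nat_lit 0) (nat_lit 0) (XT.nd (nat_lit 78) (nat_lit 228) (nat_lit 0) (XT.lf (nat_lit 0) (nat_lit 11705958353) (nat_lit 152) (nat_lit 2270867070) (nat_lit 228) (nat_lit 2031672286) (nat_lit 25) (nat_lit 5) (nat_lit 27) (nat_lit 5) (nat_lit 28) (nat_lit 5) (nat_lit 283) (nat_lit 241) (nat_lit 196)) (XT.lf (nat_lit 0) (nat_lit 770789905) (nat_lit 228) (nat_lit 14016781770) (nat_lit 76) (nat_lit 1789010919) (nat_lit 22) (nat_lit 5) (nat_lit 25) (nat_lit 5) (nat_lit 23) (nat_lit 5) (nat_lit 284) (nat_lit 241) (nat_lit 195))) (XT.nd (nat_lit 78) (nat_lit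 0) (nat_lit 0) (XT.lf (nat_lit 0) (nat_lit 3716607375) (nat_lit 228) (nat_lit 7388871254) (nat_lit 76) (nat_lit 6062423761) (nat_lit 22) (nat_lit 5) (nat_lit 25) (nat_lit 5) (nat_lit 23) (nat_lit 5) (nat_lit 285) (nat_lit 241) (nat_lit 194)) (XT.lf (nat_lit 0) (nat_lit 6771832142) (nat_lit 228) (nat_lit 488943618) (nat_lit 76) (nat_lit 10529974646) (nat_lit 22) (nat_lit 5) (nat_lit 25) (nat_lit 5) (nat_lit 23) (nat_lit 5) (nat_lit 286) (nat_lit 241) (nat_lit 193))))) (XT.nd (nat_lit 312) (nat_lit 228) (nat_lit 0) (XT.nd (nat_lit 156) (nat_lit 152) (nat_lit 0) (XT.nd (nat_lit 78) (nat_lit 0) (nat_lit 0) (XT.lf (nat_lit 0) (nat_lit 6920942931) (nat_lit 152) (nat_lit 3130850936) (nat_lit 228) (nat_lit 8389412985) (nat_lit 20) (nat_lit 5) (nat_lit 22) (nat_lit 5) (nat_lit 23) (nat_lit 5) (nat_lit 287) (nat_lit 241) (nat_lit 192)) (XT.lf (nat_lit 0) (nat_lit 13487443418) (nat_lit 228) (nat_lit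 4481574696) (nat_lit 76) (nat_lit 1155645244) (nat_lit 20) (nat_lit 5) (nat_lit 23) (nat_lit 5) (nat_lit 21) (nat_lit 4) (nat_lit 288) (nat_lit 241) (nat_lit 191))) (XT.nd (nat_lit 78) (nat_lit 76) (nat_lit 0) (XT.lf (nat_lit 0) (nat_lit 2895991125) (nat_lit 76) (nat_lit 14261568254) (nat_lit 152) (nat_lit 2681657901) (nat_lit 19) (nat_lit 5) (nat_lit 20) (nat_lit 5) (nat_lit 21) (nat_lit 4) (nat_lit 289) (nat_lit 241) (nat_lit 190)) (XT.lf (nat_lit 0) (nat_lit 451651330) (nat_lit 152) (nat_lit 9850217765) (nat_lit 76) (nat_lit 10285180664) (nat_lit 18) (nat_lit 5) (nat_lit 20) (nat_lit 5) (nat_lit 19) (nat_lit 5) (nat_lit 290) (nat_lit 241) (nat_lit 189)))) (XT.nd (nat_lit 156) (nat_lit 76) (nat_lit 0) (XT.nd (nat_lit 78) (nat_lit 152) (nat_lit 0) (XT.lf (nat_lit 0) (nat_lit 3619432061) (nat_lit 152) (nat_lit 2498626537) (nat_lit 76) (nat_lit 15253671600) (nat_lit 18) (nat_lit 5) (nat_lit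 20) (nat_lit 5) (nat_lit 19) (nat_lit 5) (nat_lit 291) (nat_lit 241) (nat_lit 188)) (XT.lf (nat_lit 0) (nat_lit 5341893463) (nat_lit 152) (nat_lit 1656564892) (nat_lit 228) (nat_lit 15194591841) (nat_lit 16) (nat_lit 5) (nat_lit 18) (nat_lit 5) (nat_lit 19) (nat_lit 5) (nat_lit 292) (nat_lit 241) (nat_lit 187))) (XT.nd (nat_lit 78) (nat_lit 76) (nat_lit 0) (XT.lf (nat_lit 0) (nat_lit 10606571395) (nat_lit 228) (nat_lit 9490170469) (nat_lit 76) (nat_lit 2955733621) (nat_lit 16) (nat_lit 5) (nat_lit 19) (nat_lit 5) (nat_lit 17) (nat_lit 4) (nat_lit 293) (nat_lit 241) (nat_lit 186)) (XT.nd (nat_lit 78) (nat_lit 76) (nat_lit 0) (XT.lf (nat_lit 0) (nat_lit 14393533233) (nat_lit 228) (nat_lit 1835974421) (nat_lit 76) (nat_lit 7725486092) (nat_lit 16) (nat_lit 5) (nat_lit 19) (nat_lit 5) (nat_lit 17) (nat_lit 4) (nat_lit 294) (nat_lit 241) (nat_lit 185)) (XT.lf (nat_lit 0) (nat_lit 6359048572)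 (nat_lit 76) (nat_lit 12082730823) (nat_lit 152) (nat_lit 6457303494) (nat_lit 15) (nat_lit 5) (nat_lit 16) (nat_lit 5) (nat_lit 17) (nat_lit 4) (nat_lit 295) (nat_lit 241) (nat_lit 184))))))) (XT.nd (nat_lit 702) (nat_lit 228) (nat_lit 0) (XT.nd (nat_lit 312) (nat_lit 76) (nat_lit 0) (XT.nd (nat_lit 156) (nat_lit 152) (nat_lit 0) (XT.nd (nat_lit 78) (nat_lit 76) (nat_lit 0) (XT.lf (nat_lit 0) (nat_lit 14982883934) (nat_lit 76) (nat_lit 7713905343) (nat_lit 152) (nat_lit 3193409432) (nat_lit 15) (nat_lit 5) (nat_lit 16) (nat_lit 5) (nat_lit 17) (nat_lit 4) (nat_lit 296) (nat_lit 241) (nat_lit 183)) (XT.lf (nat_lit 0) (nat_lit 200277649) (nat_lit 152) (nat_lit 2940052915) (nat_lit 76) (nat_lit 23791689549) (nat_lit 14) (nat_lit 5) (nat_lit 16) (nat_lit 5) (nat_lit 15) (nat_lit 5) (nat_lit 297) (nat_lit 241) (nat_lit 182))) (XT.nd (nat_lit 78) (nat_lit 0) (nat_lit 0) (XT.lf (nat_lit 0)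 (nat_lit 3745593731) (nat_lit 228) (nat_lit 22540099193) (nat_lit 76) (nat_lit 1733193279) (nat_lit 12) (nat_lit 5) (nat_lit 15) (nat_lit 5) (nat_lit 13) (nat_lit 4) (nat_lit 298) (nat_lit 241) (nat_lit 181)) (XT.lf (nat_lit 0) (nat_lit 7545857308) (nat_lit 228) (nat_lit 14830952842) (nat_lit 76) (nat_lit 6779434098) (nat_lit 12) (nat_lit 5) (nat_lit 15) (nat_lit 5) (nat_lit 13) (nat_lit 4) (nat_lit 299) (nat_lit 241) (nat_lit 180)))) (XT.nd (nat_lit 156) (nat_lit 0) (nat_lit 0) (XT.nd (nat_lit 78) (nat_lit 76) (nat_lit 0) (XT.lf (nat_lit 0) (nat_lit 11512889678) (nat_lit 228) (nat_lit 6776054563) (nat_lit 76) (nat_lit 12062719349) (nat_lit 12) (nat_lit 5) (nat_lit 15) (nat_lit 5) (nat_lit 13) (nat_lit 4) (nat_lit 300) (nat_lit 241) (nat_lit 179)) (XT.lf (nat_lit 0) (nat_lit 1698124565) (nat_lit 76) (nat_lit 13984524074) (nat_lit 152) (nat_lit 15924016204) (nat_lit 11) (nat_lit 5) (nat_lit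 12) (nat_lit 5) (nat_lit 13) (nat_lit 4) (nat_lit 301) (nat_lit 241) (nat_lit 178))) (XT.nd (nat_lit 78) (nat_lit 0) (nat_lit 0) (XT.lf (nat_lit 0) (nat_lit 10794057221) (nat_lit 76) (nat_lit 9359929876) (nat_lit 152) (nat_lit 12765802761) (nat_lit 11) (nat_lit 5) (nat_lit 12) (nat_lit 5) (nat_lit 13) (nat_lit 4) (nat_lit 302) (nat_lit 241) (nat_lit 177)) (XT.nd (nat_lit 78) (nat_lit 0) (nat_lit 0) (XT.lf (nat_lit 0) (nat_lit 20309353422) (nat_lit 76) (nat_lit 4518906471) (nat_lit 152) (nat_lit 9471369790) (nat_lit 11) (nat_lit 5) (nat_lit 12) (nat_lit 5) (nat_lit 13) (nat_lit 4) (nat_lit 303) (nat_lit 241) (nat_lit 176)) (XT.lf (nat_lit 0) (nat_lit 29725184420) (nat_lit 152) (nat_lit 5491389189) (nat_lit 0) (nat_lit 532466635) (nat_lit 11) (nat_lit 5) (nat_lit 13) (nat_lit 4) (nat_lit 11) (nat_lit 4) (nat_lit 304) (nat_lit 241) (nat_lit 175)))))) (XT.nd (nat_lit 312) (nat_lit 76) (nat_lit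 0) (XT.nd (nat_lit 156) (nat_lit 0) (nat_lit 0) (XT.nd (nat_lit 78) (nat_lit 76) (nat_lit 0) (XT.lf (nat_lit 0) (nat_lit 3435427531) (nat_lit 76) (nat_lit 31540320770) (nat_lit 76) (nat_lit 2289757801) (nat_lit 10) (nat_lit 4) (nat_lit 11) (nat_lit 5) (nat_lit 11) (nat_lit 4) (nat_lit 305) (nat_lit 241) (nat_lit 174)) (XT.lf (nat_lit 0) (nat_lit 1654511117) (nat_lit 152) (nat_lit 25913905829) (nat_lit 76) (nat_lit 11284343725) (nat_lit 9) (nat_lit 5) (nat_lit 11) (nat_lit 5) (nat_lit 10) (nat_lit 4) (nat_lit 306) (nat_lit 241) (nat_lit 173))) (XT.nd (nat_lit 78) (nat_lit 0) (nat_lit 0) (XT.lf (nat_lit 0) (nat_lit 5701086142) (nat_lit 152) (nat_lit 17670894315) (nat_lit 76) (nat_lit 17146439585) (nat_lit 9) (nat_lit 5) (nat_lit 11) (nat_lit 5) (nat_lit 10) (nat_lit 4) (nat_lit 307) (nat_lit 241) (nat_lit 172)) (XT.lf (nat_lit 0) (nat_lit 9932888524) (nat_lit 152) (nat_lit 9045668276)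 (nat_lit 76) (nat_lit 23289680746) (nat_lit 9) (nat_lit 5) (nat_lit 11) (nat_lit 5) (nat_lit 10) (nat_lit 4) (nat_lit 308) (nat_lit 241) (nat_lit 171)))) (XT.nd (nat_lit 156) (nat_lit 0) (nat_lit 0) (XT.nd (nat_lit 78) (nat_lit 76) (nat_lit 0) (XT.lf (nat_lit 0) (nat_lit 14359993983) (nat_lit 152) (nat_lit 17691461) (nat_lit 76) (nat_lit 29728693973) (nat_lit 9) (nat_lit 5) (nat_lit 11) (nat_lit 5) (nat_lit 10) (nat_lit 4) (nat_lit 309) (nat_lit 241) (nat_lit 170)) (XT.lf (nat_lit 0) (nat_lit 9746479527) (nat_lit 76) (nat_lit 9398633580) (nat_lit 152) (nat_lit 26884500584) (nat_lit 8) (nat_lit 5) (nat_lit 9) (nat_lit 5) (nat_lit 10) (nat_lit 4) (nat_lit 310) (nat_lit 241) (nat_lit 169))) (XT.nd (nat_lit 78) (nat_lit 0) (nat_lit 0) (XT.lf (nat_lit 0) (nat_lit 19972758342) (nat_lit 76) (nat_lit 4181839536) (nat_lit 152) (nat_lit 23895173674) (nat_lit 8) (nat_lit 5) (nat_lit 9) (nat_lit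 5) (nat_lit 10) (nat_lit 4) (nat_lit 311) (nat_lit 241) (nat_lit 168)) (XT.nd (nat_lit 78) (nat_lit 0) (nat_lit 0) (XT.lf (nat_lit 0) (nat_lit 29420149906) (nat_lit 152) (nat_lit 19506828475) (nat_lit 0) (nat_lit 1243695809) (nat_lit 8) (nat_lit 5) (nat_lit 10) (nat_lit 4) (nat_lit 8) (nat_lit 4) (nat_lit 312) (nat_lit 241) (nat_lit 167)) (XT.lf (nat_lit 0) (nat_lit 35003593366) (nat_lit 152) (nat_lit 10601461901) (nat_lit 0) (nat_lit 6789851747) (nat_lit 8) (nat_lit 5) (nat_lit 10) (nat_lit 4) (nat_lit 8) (nat_lit 4) (nat_lit 313) (nat_lit 241) (nat_lit 166))))))))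
noncomputable def xc114 : XT := (XT.nd (nat_lit 1326) (nat_lit 152) (nat_lit 0) (XT.nd (nat_lit 624) (nat_lit 76) (nat_lit 0) (XT.nd (nat_lit 312) (nat_lit 152) (nat_lit 0) (XT.nd (nat_lit 156) (nat_lit 0) (nat_lit 0) (XT.nd (nat_lit 78) (nat_lit 76) (nat_lit 0) (XT.lf (nat_lit 0) (nat_lit 40852931935) (nat_lit 152) (nat_lit 1274420001) (nat_lit 0) (nat_lit 12603678392) (nat_lit 8) (nat_lit 5) (nat_lit 10) (nat_lit 4) (nat_lit 8) (nat_lit 4) (nat_lit 314) (nat_lit 241) (nat_lit 165)) (XT.lf (nat_lit 0) (nat_lit 8777437277) (nat_lit 76) (nat_lit 38341695730) (nat_lit 76) (nat_lit 10058621305) (nat_lit 7) (nat_lit 4) (nat_lit 8) (nat_lit 5) (nat_lit 8) (nat_lit 4) (nat_lit 315) (nat_lit 241) (nat_lit 164))) (XT.nd (nat_lit 78) (nat_lit 0) (nat_lit 0) (XT.lf (nat_lit 0) (nat_lit 19354025289) (nat_lit 76) (nat_lit 34353813920) (nat_lit 76) (nat_lit 6038529133) (nat_lit 7) (nat_lit 4) (nat_lit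 8) (nat_lit 5) (nat_lit 8) (nat_lit 4) (nat_lit 316) (nat_lit 241) (nat_lit 163)) (XT.lf (nat_lit 0) (nat_lit 30438388308) (nat_lit 76) (nat_lit 30175794471) (nat_lit 76) (nat_lit 1829833147) (nat_lit 7) (nat_lit 4) (nat_lit 8) (nat_lit 5) (nat_lit 8) (nat_lit 4) (nat_lit 317) (nat_lit 241) (nat_lit 162)))) (XT.nd (nat_lit 156) (nat_lit 76) (nat_lit 0) (XT.nd (nat_lit 78) (nat_lit 0) (nat_lit 0) (XT.lf (nat_lit 0) (nat_lit 2494991663) (nat_lit 152) (nat_lit 23260444161) (nat_lit 76) (nat_lit 39519672118) (nat_lit 6) (nat_lit 5) (nat_lit 8) (nat_lit 5) (nat_lit 7) (nat_lit 4) (nat_lit 318) (nat_lit 241) (nat_lit 161)) (XT.lf (nat_lit 0) (nat_lit 6963675438) (nat_lit 152) (nat_lit 14127466946) (nat_lit 76) (nat_lit 47155667899) (nat_lit 6) (nat_lit 5) (nat_lit 8) (nat_lit 5) (nat_lit 7) (nat_lit 4) (nat_lit 319) (nat_lit 241) (nat_lit 160))) (XT.nd (nat_lit 78) (nat_lit 76) (nat_lit 0)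 (XT.lf (nat_lit 0) (nat_lit 11645423987) (nat_lit 152) (nat_lit 4556381964) (nat_lit 76) (nat_lit 55165820915) (nat_lit 6) (nat_lit 5) (nat_lit 8) (nat_lit 5) (nat_lit 7) (nat_lit 4) (nat_lit 320) (nat_lit 241) (nat_lit 159)) (XT.lf (nat_lit 0) (nat_lit 5656647115) (nat_lit 76) (nat_lit 10983053331) (nat_lit 152) (nat_lit 58000871959) (nat_lit 5) (nat_lit 5) (nat_lit 6) (nat_lit 5) (nat_lit 7) (nat_lit 4) (nat_lit 321) (nat_lit 241) (nat_lit 158))))) (XT.nd (nat_lit 312) (nat_lit 76) (nat_lit 0) (XT.nd (nat_lit 156) (nat_lit 0) (nat_lit 0) (XT.nd (nat_lit 78) (nat_lit 0) (nat_lit 0) (XT.lf (nat_lit 0) (nat_lit 16521141565) (nat_lit 76) (nat_lit 5430037085) (nat_lit 152) (nat_lit 56122621842) (nat_lit 5) (nat_lit 5) (nat_lit 6) (nat_lit 5) (nat_lit 7) (nat_lit 4) (nat_lit 322) (nat_lit 241) (nat_lit 157)) (XT.lf (nat_lit 0) (nat_lit 27525155457) (nat_lit 152) (nat_lit 53772985826) (nat_lit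 0) (nat_lit 380711672) (nat_lit 5) (nat_lit 5) (nat_lit 7) (nat_lit 4) (nat_lit 5) (nat_lit 4) (nat_lit 323) (nat_lit 241) (nat_lit 156))) (XT.nd (nat_lit 78) (nat_lit 0) (nat_lit 0) (XT.lf (nat_lit 0) (nat_lit 33457962137) (nat_lit 152) (nat_lit 45709442856) (nat_lit 0) (nat_lit 6292755265) (nat_lit 5) (nat_lit 5) (nat_lit 7) (nat_lit 4) (nat_lit 5) (nat_lit 4) (nat_lit 324) (nat_lit 241) (nat_lit 155)) (XT.lf (nat_lit 0) (nat_lit 39678946324) (nat_lit 152) (nat_lit 37258053008) (nat_lit 0) (nat_lit 12493965084) (nat_lit 5) (nat_lit 5) (nat_lit 7) (nat_lit 4) (nat_lit 5) (nat_lit 4) (nat_lit 325) (nat_lit 241) (nat_lit 154)))) (XT.nd (nat_lit 156) (nat_lit 76) (nat_lit 0) (XT.nd (nat_lit 78) (nat_lit 0) (nat_lit 0) (XT.lf (nat_lit 0) (nat_lit 46202919887) (nat_lit 152) (nat_lit 28398693927) (nat_lit 0) (nat_lit 18999105915) (nat_lit 5) (nat_lit 5) (nat_lit 7) (nat_lit 4) (nat_lit 5)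 (nat_lit 4) (nat_lit 326) (nat_lit 241) (nat_lit 153)) (XT.lf (nat_lit 0) (nat_lit 53045416095) (nat_lit 152) (nat_lit 19110271899) (nat_lit 0) (nat_lit 25823666187) (nat_lit 5) (nat_lit 5) (nat_lit 7) (nat_lit 4) (nat_lit 5) (nat_lit 4) (nat_lit 327) (nat_lit 241) (nat_lit 152))) (XT.nd (nat_lit 78) (nat_lit 76) (nat_lit 0) (XT.lf (nat_lit 0) (nat_lit 60222726606) (nat_lit 152) (nat_lit 9370671635) (nat_lit 0) (nat_lit 32983894855) (nat_lit 5) (nat_lit 5) (nat_lit 7) (nat_lit 4) (nat_lit 5) (nat_lit 4) (nat_lit 328) (nat_lit 241) (nat_lit 151)) (XT.nd (nat_lit 78) (nat_lit 0) (nat_lit 0) (XT.lf (nat_lit 0) (nat_lit 871179577) (nat_lit 76) (nat_lit 66894362231) (nat_lit 76) (nat_lit 39639262059) (nat_lit 4) (nat_lit 4) (nat_lit 5) (nat_lit 5) (nat_lit 5) (nat_lit 4) (nat_lit 329) (nat_lit 241) (nat_lit 150)) (XT.lf (nat_lit 0) (nat_lit 11938043082) (nat_lit 76) (nat_lit 63899326966)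 (nat_lit 76) (nat_lit 36628733059) (nat_lit 4) (nat_lit 4) (nat_lit 5) (nat_lit 5) (nat_lit 5) (nat_lit 4) (nat_lit 330) (nat_lit 241) (nat_lit 149))))))) (XT.nd (nat_lit 702) (nat_lit 152) (nat_lit 0) (XT.nd (nat_lit 312) (nat_lit 0) (nat_lit 0) (XT.nd (nat_lit 156) (nat_lit 0) (nat_lit 0) (XT.nd (nat_lit 78) (nat_lit 0) (nat_lit 0) (XT.lf (nat_lit 0) (nat_lit 23546431829) (nat_lit 76) (nat_lit 60759858268) (nat_lit 76) (nat_lit 33474508422) (nat_lit 4) (nat_lit 4) (nat_lit 5) (nat_lit 5) (nat_lit 5) (nat_lit 4) (nat_lit 331) (nat_lit 241) (nat_lit 148)) (XT.lf (nat_lit 0) (nat_lit 35723984841) (nat_lit 76) (nat_lit 57468481211) (nat_lit 76) (nat_lit 30169078090) (nat_lit 4) (nat_lit 4) (nat_lit 5) (nat_lit 5) (nat_lit 5) (nat_lit 4) (nat_lit 332) (nat_lit 241) (nat_lit 147))) (XT.nd (nat_lit 78) (nat_lit 0) (nat_lit 0) (XT.lf (nat_lit 0) (nat_lit 48499696290) (nat_lit 76) (nat_lit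 54017359183) (nat_lit 76) (nat_lit 26704571991) (nat_lit 4) (nat_lit 4) (nat_lit 5) (nat_lit 5) (nat_lit 5) (nat_lit 4) (nat_lit 333) (nat_lit 241) (nat_lit 146)) (XT.lf (nat_lit 0) (nat_lit 61903984538) (nat_lit 76) (nat_lit 50398275226) (nat_lit 76) (nat_lit 23072741300) (nat_lit 4) (nat_lit 4) (nat_lit 5) (nat_lit 5) (nat_lit 5) (nat_lit 4) (nat_lit 334) (nat_lit 241) (nat_lit 145)))) (XT.nd (nat_lit 156) (nat_lit 0) (nat_lit 0) (XT.nd (nat_lit 78) (nat_lit 0) (nat_lit 0) (XT.lf (nat_lit 0) (nat_lit 75968764556) (nat_lit 76) (nat_lit 46602612475) (nat_lit 76) (nat_lit 19264938802) (nat_lit 4) (nat_lit 4) (nat_lit 5) (nat_lit 5) (nat_lit 5) (nat_lit 4) (nat_lit 335) (nat_lit 241) (nat_lit 144)) (XT.lf (nat_lit 0) (nat_lit 90727523917) (nat_lit 76) (nat_lit 42621333637) (nat_lit 76) (nat_lit 15272098300) (nat_lit 4) (nat_lit 4) (nat_lit 5) (nat_lit 5) (nat_lit 5) (nat_lit 4) (nat_lit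 336) (nat_lit 241) (nat_lit 143))) (XT.nd (nat_lit 78) (nat_lit 0) (nat_lit 0) (XT.lf (nat_lit 0) (nat_lit 106215402522) (nat_lit 76) (nat_lit 38444959477) (nat_lit 76) (nat_lit 11084713032) (nat_lit 4) (nat_lit 4) (nat_lit 5) (nat_lit 5) (nat_lit 5) (nat_lit 4) (nat_lit 337) (nat_lit 241) (nat_lit 142)) (XT.nd (nat_lit 78) (nat_lit 0) (nat_lit 0) (XT.lf (nat_lit 0) (nat_lit 122469276274) (nat_lit 76) (nat_lit 34063546246) (nat_lit 76) (nat_lit 6692813031) (nat_lit 4) (nat_lit 4) (nat_lit 5) (nat_lit 5) (nat_lit 5) (nat_lit 4) (nat_lit 338) (nat_lit 241) (nat_lit 141)) (XT.lf (nat_lit 0) (nat_lit 139527844872) (nat_lit 76) (nat_lit 29466662009) (nat_lit 76) (nat_lit 2085941394) (nat_lit 4) (nat_lit 4) (nat_lit 5) (nat_lit 5) (nat_lit 5) (nat_lit 4) (nat_lit 339) (nat_lit 241) (nat_lit 140)))))) (XT.nd (nat_lit 312) (nat_lit 0) (nat_lit 0) (XT.nd (nat_lit 156) (nat_lit 76) (nat_lit 0)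 (XT.nd (nat_lit 78) (nat_lit 0) (nat_lit 0) (XT.lf (nat_lit 0) (nat_lit 2658953606) (nat_lit 152) (nat_lit 21939377531) (nat_lit 76) (nat_lit 154727739683) (nat_lit 3) (nat_lit 5) (nat_lit 5) (nat_lit 5) (nat_lit 4) (nat_lit 4) (nat_lit 340) (nat_lit 241) (nat_lit 139)) (XT.lf (nat_lit 0) (nat_lit 7566932740) (nat_lit 152) (nat_lit 11887079172) (nat_lit 76) (nat_lit 168528459401) (nat_lit 3) (nat_lit 5) (nat_lit 5) (nat_lit 5) (nat_lit 4) (nat_lit 4) (nat_lit 341) (nat_lit 241) (nat_lit 138))) (XT.nd (nat_lit 78) (nat_lit 76) (nat_lit 0) (XT.lf (nat_lit 0) (nat_lit 12716444824) (nat_lit 152) (nat_lit 1339206892) (nat_lit 76) (nat_lit 183016236884) (nat_lit 3) (nat_lit 5) (nat_lit 5) (nat_lit 5) (nat_lit 4) (nat_lit 4) (nat_lit 342) (nat_lit 241) (nat_lit 137)) (XT.lf (nat_lit 0) (nat_lit 10051049647) (nat_lit 76) (nat_lit 8225626005) (nat_lit 152) (nat_lit 188331442247) (nat_lit 2)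 (nat_lit 5) (nat_lit 3) (nat_lit 5) (nat_lit 4) (nat_lit 4) (nat_lit 343) (nat_lit 241) (nat_lit 136)))) (XT.nd (nat_lit 156) (nat_lit 0) (nat_lit 0) (XT.nd (nat_lit 78) (nat_lit 0) (nat_lit 0) (XT.lf (nat_lit 0) (nat_lit 22050715698) (nat_lit 76) (nat_lit 2083272852) (nat_lit 152) (nat_lit 192486219734) (nat_lit 2) (nat_lit 5) (nat_lit 3) (nat_lit 5) (nat_lit 4) (nat_lit 4) (nat_lit 344) (nat_lit 241) (nat_lit 135)) (XT.lf (nat_lit 0) (nat_lit 30348853546) (nat_lit 152) (nat_lit 192557120562) (nat_lit 0) (nat_lit 4223697754) (nat_lit 2) (nat_lit 5) (nat_lit 4) (nat_lit 4) (nat_lit 2) (nat_lit 4) (nat_lit 345) (nat_lit 241) (nat_lit 134))) (XT.nd (nat_lit 78) (nat_lit 0) (nat_lit 0) (XT.lf (nat_lit 0) (nat_lit 36905297489) (nat_lit 152) (nat_lit 190484390369) (nat_lit 0) (nat_lit 10773381831) (nat_lit 2) (nat_lit 5) (nat_lit 4) (nat_lit 4) (nat_lit 2) (nat_lit 4) (nat_lit 346) (nat_lit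 241) (nat_lit 133)) (XT.nd (nat_lit 78) (nat_lit 0) (nat_lit 0) (XT.lf (nat_lit 0) (nat_lit 43786405231) (nat_lit 152) (nat_lit 188313841208) (nat_lit 0) (nat_lit 17648051607) (nat_lit 2) (nat_lit 5) (nat_lit 4) (nat_lit 4) (nat_lit 2) (nat_lit 4) (nat_lit 347) (nat_lit 241) (nat_lit 132)) (XT.lf (nat_lit 0) (nat_lit 51008560363) (nat_lit 152) (nat_lit 186040305105) (nat_lit 0) (nat_lit 24864075342) (nat_lit 2) (nat_lit 5) (nat_lit 4) (nat_lit 4) (nat_lit 2) (nat_lit 4) (nat_lit 348) (nat_lit 241) (nat_lit 131))))))))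
noncomputable def xc115 : XT := (XT.nd (nat_lit 29562) (nat_lit 0) (nat_lit 3952) (XT.nd (nat_lit 624) (nat_lit 0) (nat_lit 0) (XT.nd (nat_lit 312) (nat_lit 0) (nat_lit 0) (XT.nd (nat_lit 156) (nat_lit 0) (nat_lit 0) (XT.nd (nat_lit 78) (nat_lit 0) (nat_lit 0) (XT.lf (nat_lit 0) (nat_lit 58588958493) (nat_lit 152) (nat_lit 183658368878) (nat_lit 0) (nat_lit 32438634045) (nat_lit 2) (nat_lit 5) (nat_lit 4) (nat_lit 4) (nat_lit 2) (nat_lit 4) (nat_lit 349) (nat_lit 241) (nat_lit 130)) (XT.lf (nat_lit 0) (nat_lit 66545648186) (nat_lit 152) (nat_lit 181162361251) (nat_lit 0) (nat_lit 40389762381) (nat_lit 2) (nat_lit 5) (nat_lit 4) (nat_lit 4) (nat_lit 2) (nat_lit 4) (nat_lit 350) (nat_lit 241) (nat_lit 129))) (XT.nd (nat_lit 78) (nat_lit 0) (nat_lit 0) (XT.lf (nat_lit 0) (nat_lit 74897573943) (nat_lit 152) (nat_lit 178546339348) (nat_lit 0) (nat_lit 48736391606) (nat_lit 2) (nat_lit 5)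 (nat_lit 4) (nat_lit 4) (nat_lit 2) (nat_lit 4) (nat_lit 351) (nat_lit 241) (nat_lit 128)) (XT.lf (nat_lit 0) (nat_lit 83664621301) (nat_lit 152) (nat_lit 175804074546) (nat_lit 0) (nat_lit 57498394649) (nat_lit 2) (nat_lit 5) (nat_lit 4) (nat_lit 4) (nat_lit 2) (nat_lit 4) (nat_lit 352) (nat_lit 241) (nat_lit 127)))) (XT.nd (nat_lit 156) (nat_lit 0) (nat_lit 0) (XT.nd (nat_lit 78) (nat_lit 0) (nat_lit 0) (XT.lf (nat_lit 0) (nat_lit 92867664182) (nat_lit 152) (nat_lit 172929037643) (nat_lit 0) (nat_lit 66696633420) (nat_lit 2) (nat_lit 5) (nat_lit 4) (nat_lit 4) (nat_lit 2) (nat_lit 4) (nat_lit 353) (nat_lit 241) (nat_lit 126)) (XT.lf (nat_lit 0) (nat_lit 102528614593) (nat_lit 152) (nat_lit 169914383313) (nat_lit 0) (nat_lit 76353008488) (nat_lit 2) (nat_lit 5) (nat_lit 4) (nat_lit 4) (nat_lit 2) (nat_lit 4) (nat_lit 354) (nat_lit 241) (nat_lit 125))) (XT.nd (nat_lit 78) (nat_lit 0)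 (nat_lit 0) (XT.lf (nat_lit 0) (nat_lit 112670474798) (nat_lit 152) (nat_lit 166752933808) (nat_lit 0) (nat_lit 86490511223) (nat_lit 2) (nat_lit 5) (nat_lit 4) (nat_lit 4) (nat_lit 2) (nat_lit 4) (nat_lit 355) (nat_lit 241) (nat_lit 124)) (XT.lf (nat_lit 0) (nat_lit 123317392081) (nat_lit 152) (nat_lit 163437161866) (nat_lit 0) (nat_lit 97133278535) (nat_lit 2) (nat_lit 5) (nat_lit 4) (nat_lit 4) (nat_lit 2) (nat_lit 4) (nat_lit 356) (nat_lit 241) (nat_lit 123))))) (XT.nd (nat_lit 28548) (nat_lit 0) (nat_lit 8208) (XT.nd (nat_lit 156) (nat_lit 0) (nat_lit 0) (XT.nd (nat_lit 78) (nat_lit 0) (nat_lit 0) (XT.lf (nat_lit 0) (nat_lit 134494716247) (nat_lit 152) (nat_lit 159959172793) (nat_lit 0) (nat_lit 108306650347) (nat_lit 2) (nat_lit 5) (nat_lit 4) (nat_lit 4) (nat_lit 2) (nat_lit 4) (nat_lit 357) (nat_lit 241) (nat_lit 122)) (XT.lf (nat_lit 0) (nat_lit 146229059971) (nat_lit 152)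 (nat_lit 156310685662) (nat_lit 0) (nat_lit 120037229926) (nat_lit 2) (nat_lit 5) (nat_lit 4) (nat_lit 4) (nat_lit 2) (nat_lit 4) (nat_lit 358) (nat_lit 241) (nat_lit 121))) (XT.nd (nat_lit 78) (nat_lit 0) (nat_lit 0) (XT.lf (nat_lit 0) (nat_lit 158548362168) (nat_lit 152) (nat_lit 152483013599) (nat_lit 0) (nat_lit 132352947222) (nat_lit 2) (nat_lit 5) (nat_lit 4) (nat_lit 4) (nat_lit 2) (nat_lit 4) (nat_lit 359) (nat_lit 241) (nat_lit 120)) (XT.lf (nat_lit 0) (nat_lit 171481954509) (nat_lit 152) (nat_lit 148467043100) (nat_lit 0) (nat_lit 145283125372) (nat_lit 2) (nat_lit 5) (nat_lit 4) (nat_lit 4) (nat_lit 2) (nat_lit 4) (nat_lit 360) (nat_lit 241) (nat_lit 119)))) (XT.nd (nat_lit 156) (nat_lit 304) (nat_lit 0) (XT.nd (nat_lit 78) (nat_lit 228) (nat_lit 0) (XT.lf (nat_lit 0) (nat_lit 2117248069) (nat_lit 228) (nat_lit 563851310) (nat_lit 228) (nat_lit 563851310) (nat_lit 117) (nat_lit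 3) (nat_lit 120) (nat_lit 3) (nat_lit 120) (nat_lit 5) (nat_lit 242) (nat_lit 242) (nat_lit 236)) (XT.lf (nat_lit 0) (nat_lit 215141947) (nat_lit 228) (nat_lit 4708445966) (nat_lit 304) (nat_lit 1594917843) (nat_lit 114) (nat_lit 5) (nat_lit 117) (nat_lit 3) (nat_lit 118) (nat_lit 5) (nat_lit 243) (nat_lit 242) (nat_lit 235))) (XT.nd (nat_lit 78) (nat_lit 304) (nat_lit 0) (XT.lf (nat_lit 0) (nat_lit 2596340892) (nat_lit 228) (nat_lit 1739808362) (nat_lit 304) (nat_lit 2218215774) (nat_lit 114) (nat_lit 5) (nat_lit 117) (nat_lit 3) (nat_lit 118) (nat_lit 5) (nat_lit 244) (nat_lit 242) (nat_lit 234)) (XT.nd (nat_lit 78) (nat_lit 304) (nat_lit 0) (XT.lf (nat_lit 76) (nat_lit 1335434220) (nat_lit 0) (nat_lit 3632976890) (nat_lit 304) (nat_lit 1630795982) (nat_lit 115) (nat_lit 5) (nat_lit 114) (nat_lit 5) (nat_lit 118) (nat_lit 5) (nat_lit 245) (nat_lit 242) (nat_lit 233)) (XT.lf (nat_lit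 0) (nat_lit 670418445) (nat_lit 304) (nat_lit 2121900458) (nat_lit 380) (nat_lit 3859863727) (nat_lit 110) (nat_lit 5) (nat_lit 114) (nat_lit 5) (nat_lit 115) (nat_lit 5) (nat_lit 246) (nat_lit 242) (nat_lit 232))))))) (XT.nd (nat_lit 702) (nat_lit 2508) (nat_lit 0) (XT.nd (nat_lit 312) (nat_lit 1444) (nat_lit 0) (XT.nd (nat_lit 156) (nat_lit 304) (nat_lit 0) (XT.nd (nat_lit 78) (nat_lit 0) (nat_lit 0) (XT.lf (nat_lit 76) (nat_lit 1101047257) (nat_lit 0) (nat_lit 1808690202) (nat_lit 380) (nat_lit 3803514433) (nat_lit 111) (nat_lit 5) (nat_lit 110) (nat_lit 5) (nat_lit 115) (nat_lit 5) (nat_lit 247) (nat_lit 242) (nat_lit 231)) (XT.lf (nat_lit 76) (nat_lit 4475648899) (nat_lit 0) (nat_lit 687304722) (nat_lit 380) (nat_lit 1619966468) (nat_lit 111) (nat_lit 5) (nat_lit 110) (nat_lit 5) (nat_lit 115) (nat_lit 5) (nat_lit 248) (nat_lit 242) (nat_lit 230))) (XT.nd (nat_lit 78) (nat_lit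 0) (nat_lit 0) (XT.lf (nat_lit 0) (nat_lit 546978970) (nat_lit 380) (nat_lit 5766974841) (nat_lit 76) (nat_lit 547387415) (nat_lit 106) (nat_lit 5) (nat_lit 111) (nat_lit 5) (nat_lit 107) (nat_lit 5) (nat_lit 249) (nat_lit 242) (nat_lit 229)) (XT.lf (nat_lit 0) (nat_lit 2694085051) (nat_lit 380) (nat_lit 2324231158) (nat_lit 76) (nat_lit 1928281235) (nat_lit 106) (nat_lit 5) (nat_lit 111) (nat_lit 5) (nat_lit 107) (nat_lit 5) (nat_lit 250) (nat_lit 242) (nat_lit 228)))) (XT.nd (nat_lit 156) (nat_lit 1064) (nat_lit 0) (XT.nd (nat_lit 78) (nat_lit 0) (nat_lit 0) (XT.lf (nat_lit 0) (nat_lit 1244553796) (nat_lit 380) (nat_lit 3604635280) (nat_lit 456) (nat_lit 2192423465) (nat_lit 101) (nat_lit 5) (nat_lit 106) (nat_lit 5) (nat_lit 107) (nat_lit 5) (nat_lit 251) (nat_lit 242) (nat_lit 227)) (XT.lf (nat_lit 0) (nat_lit 4987926609) (nat_lit 380) (nat_lit 2049031969) (nat_lit 456) (nat_lit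 108677349) (nat_lit 101) (nat_lit 5) (nat_lit 106) (nat_lit 5) (nat_lit 107) (nat_lit 5) (nat_lit 252) (nat_lit 242) (nat_lit 226))) (XT.nd (nat_lit 78) (nat_lit 532) (nat_lit 0) (XT.lf (nat_lit 0) (nat_lit 1597626230) (nat_lit 456) (nat_lit 328771790) (nat_lit 532) (nat_lit 5331611034) (nat_lit 94) (nat_lit 5) (nat_lit 100) (nat_lit 5) (nat_lit 101) (nat_lit 5) (nat_lit 253) (nat_lit 242) (nat_lit 225)) (XT.nd (nat_lit 78) (nat_lit 532) (nat_lit 0) (XT.lf (nat_lit 0) (nat_lit 4012903022) (nat_lit 532) (nat_lit 1873441466) (nat_lit 76) (nat_lit 1492335415) (nat_lit 94) (nat_lit 5) (nat_lit 101) (nat_lit 5) (nat_lit 95) (nat_lit 5) (nat_lit 254) (nat_lit 242) (nat_lit 224)) (XT.lf (nat_lit 0) (nat_lit 2078793052) (nat_lit 532) (nat_lit 4060994561) (nat_lit 608) (nat_lit 1369207821) (nat_lit 87) (nat_lit 5) (nat_lit 94) (nat_lit 5) (nat_lit 95) (nat_lit 5) (nat_lit 255) (nat_lit 242)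 (nat_lit 223)))))) (XT.nd (nat_lit 312) (nat_lit 1140) (nat_lit 0) (XT.nd (nat_lit 156) (nat_lit 684) (nat_lit 0) (XT.nd (nat_lit 78) (nat_lit 608) (nat_lit 0) (XT.lf (nat_lit 0) (nat_lit 635917925) (nat_lit 608) (nat_lit 1449947328) (nat_lit 76) (nat_lit 5563169057) (nat_lit 86) (nat_lit 5) (nat_lit 94) (nat_lit 5) (nat_lit 87) (nat_lit 5) (nat_lit 256) (nat_lit 242) (nat_lit 222)) (XT.lf (nat_lit 0) (nat_lit 2643193126) (nat_lit 684) (nat_lit 5088758932) (nat_lit 76) (nat_lit 65962898) (nat_lit 78) (nat_lit 5) (nat_lit 87) (nat_lit 5) (nat_lit 79) (nat_lit 5) (nat_lit 257) (nat_lit 242) (nat_lit 221))) (XT.nd (nat_lit 78) (nat_lit 684) (nat_lit 0) (XT.lf (nat_lit 0) (nat_lit 4717938616) (nat_lit 684) (nat_lit 948168195) (nat_lit 76) (nat_lit 2290117982) (nat_lit 78) (nat_lit 5) (nat_lit 87) (nat_lit 5) (nat_lit 79) (nat_lit 5) (nat_lit 258) (nat_lit 242) (nat_lit 220)) (XT.lf (nat_lit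 0) (nat_lit 3426145645) (nat_lit 684) (nat_lit 3436104524) (nat_lit 760) (nat_lit 1262232780) (nat_lit 69) (nat_lit 5) (nat_lit 78) (nat_lit 5) (nat_lit 79) (nat_lit 5) (nat_lit 259) (nat_lit 242) (nat_lit 219)))) (XT.nd (nat_lit 156) (nat_lit 760) (nat_lit 0) (XT.nd (nat_lit 78) (nat_lit 304) (nat_lit 0) (XT.lf (nat_lit 0) (nat_lit 716483757) (nat_lit 760) (nat_lit 345987213) (nat_lit 76) (nat_lit 7241849324) (nat_lit 68) (nat_lit 5) (nat_lit 78) (nat_lit 5) (nat_lit 69) (nat_lit 5) (nat_lit 260) (nat_lit 242) (nat_lit 218)) (XT.lf (nat_lit 0) (nat_lit 2759652811) (nat_lit 380) (nat_lit 4258108935) (nat_lit 76) (nat_lit 1474236460) (nat_lit 64) (nat_lit 5) (nat_lit 69) (nat_lit 5) (nat_lit 65) (nat_lit 5) (nat_lit 261) (nat_lit 242) (nat_lit 217))) (XT.nd (nat_lit 78) (nat_lit 380) (nat_lit 0) (XT.lf (nat_lit 0) (nat_lit 273553839) (nat_lit 380) (nat_lit 4579419572) (nat_lit 456) (nat_lit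 3838953724) (nat_lit 59) (nat_lit 5) (nat_lit 64) (nat_lit 5) (nat_lit 65) (nat_lit 5) (nat_lit 262) (nat_lit 242) (nat_lit 216)) (XT.nd (nat_lit 78) (nat_lit 380) (nat_lit 0) (XT.lf (nat_lit 0) (nat_lit 5097289144) (nat_lit 380) (nat_lit 1948640413) (nat_lit 456) (nat_lit 1856428551) (nat_lit 59) (nat_lit 5) (nat_lit 64) (nat_lit 5) (nat_lit 65) (nat_lit 5) (nat_lit 263) (nat_lit 242) (nat_lit 215)) (XT.lf (nat_lit 0) (nat_lit 171413425) (nat_lit 380) (nat_lit 8153450300) (nat_lit 76) (nat_lit 800831586) (nat_lit 54) (nat_lit 5) (nat_lit 59) (nat_lit 5) (nat_lit 55) (nat_lit 5) (nat_lit 264) (nat_lit 242) (nat_lit 214))))))))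
noncomputable def xc116 : XT := (XT.nd (nat_lit 1326) (nat_lit 1140) (nat_lit 0) (XT.nd (nat_lit 624) (nat_lit 912) (nat_lit 0) (XT.nd (nat_lit 312) (nat_lit 608) (nat_lit 0) (XT.nd (nat_lit 156) (nat_lit 228) (nat_lit 0) (XT.nd (nat_lit 78) (nat_lit 304) (nat_lit 0) (XT.lf (nat_lit 0) (nat_lit 2263000521) (nat_lit 380) (nat_lit 3383439998) (nat_lit 76) (nat_lit 3711219609) (nat_lit 54) (nat_lit 5) (nat_lit 59) (nat_lit 5) (nat_lit 55) (nat_lit 5) (nat_lit 265) (nat_lit 242) (nat_lit 213)) (XT.lf (nat_lit 0) (nat_lit 1596594513) (nat_lit 304) (nat_lit 2818260895) (nat_lit 380) (nat_lit 5188792382) (nat_lit 50) (nat_lit 5) (nat_lit 54) (nat_lit 5) (nat_lit 55) (nat_lit 5) (nat_lit 266) (nat_lit 242) (nat_lit 212))) (XT.nd (nat_lit 78) (nat_lit 228) (nat_lit 0) (XT.lf (nat_lit 0) (nat_lit 6667567294) (nat_lit 380) (nat_lit 3000952989) (nat_lit 76) (nat_lit 193950414) (nat_lit 50) (nat_lit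 5) (nat_lit 55) (nat_lit 5) (nat_lit 51) (nat_lit 5) (nat_lit 267) (nat_lit 242) (nat_lit 211)) (XT.lf (nat_lit 0) (nat_lit 2201939205) (nat_lit 228) (nat_lit 6847423640) (nat_lit 304) (nat_lit 1084239094) (nat_lit 47) (nat_lit 5) (nat_lit 50) (nat_lit 5) (nat_lit 51) (nat_lit 5) (nat_lit 268) (nat_lit 242) (nat_lit 210)))) (XT.nd (nat_lit 156) (nat_lit 228) (nat_lit 0) (XT.nd (nat_lit 78) (nat_lit 304) (nat_lit 0) (XT.lf (nat_lit 0) (nat_lit 1083916400) (nat_lit 304) (nat_lit 2743896273) (nat_lit 76) (nat_lit 6590355999) (nat_lit 46) (nat_lit 5) (nat_lit 50) (nat_lit 5) (nat_lit 47) (nat_lit 5) (nat_lit 269) (nat_lit 242) (nat_lit 209)) (XT.lf (nat_lit 0) (nat_lit 2696745582) (nat_lit 304) (nat_lit 608954550) (nat_lit 380) (nat_lit 7411455766) (nat_lit 42) (nat_lit 5) (nat_lit 46) (nat_lit 5) (nat_lit 47) (nat_lit 5) (nat_lit 270) (nat_lit 242) (nat_lit 208))) (XT.nd (nat_lit 78) (nat_lit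 228) (nat_lit 0) (XT.lf (nat_lit 0) (nat_lit 5670108416) (nat_lit 380) (nat_lit 2644806715) (nat_lit 76) (nat_lit 2714756565) (nat_lit 42) (nat_lit 5) (nat_lit 47) (nat_lit 5) (nat_lit 43) (nat_lit 5) (nat_lit 271) (nat_lit 242) (nat_lit 207)) (XT.lf (nat_lit 0) (nat_lit 3012984099) (nat_lit 228) (nat_lit 5140628129) (nat_lit 304) (nat_lit 3204305852) (nat_lit 39) (nat_lit 5) (nat_lit 42) (nat_lit 5) (nat_lit 43) (nat_lit 5) (nat_lit 272) (nat_lit 242) (nat_lit 206))))) (XT.nd (nat_lit 312) (nat_lit 456) (nat_lit 0) (XT.nd (nat_lit 156) (nat_lit 152) (nat_lit 0) (XT.nd (nat_lit 78) (nat_lit 304) (nat_lit 0) (XT.lf (nat_lit 0) (nat_lit 8973619896) (nat_lit 228) (nat_lit 1777865269) (nat_lit 304) (nat_lit 951723400) (nat_lit 39) (nat_lit 5) (nat_lit 42) (nat_lit 5) (nat_lit 43) (nat_lit 5) (nat_lit 273) (nat_lit 242) (nat_lit 205)) (XT.lf (nat_lit 0) (nat_lit 1393123981) (nat_lit 304)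 (nat_lit 8917456063) (nat_lit 76) (nat_lit 1752964613) (nat_lit 35) (nat_lit 5) (nat_lit 39) (nat_lit 5) (nat_lit 36) (nat_lit 5) (nat_lit 274) (nat_lit 242) (nat_lit 204))) (XT.nd (nat_lit 78) (nat_lit 152) (nat_lit 0) (XT.lf (nat_lit 0) (nat_lit 3847546525) (nat_lit 304) (nat_lit 3146389891) (nat_lit 76) (nat_lit 5446087406) (nat_lit 35) (nat_lit 5) (nat_lit 39) (nat_lit 5) (nat_lit 36) (nat_lit 5) (nat_lit 275) (nat_lit 242) (nat_lit 203)) (XT.lf (nat_lit 0) (nat_lit 2939095784) (nat_lit 152) (nat_lit 3482136108) (nat_lit 228) (nat_lit 6414384361) (nat_lit 33) (nat_lit 5) (nat_lit 35) (nat_lit 5) (nat_lit 36) (nat_lit 5) (nat_lit 276) (nat_lit 242) (nat_lit 202)))) (XT.nd (nat_lit 156) (nat_lit 228) (nat_lit 0) (XT.nd (nat_lit 78) (nat_lit 228) (nat_lit 0) (XT.lf (nat_lit 0) (nat_lit 9132624029) (nat_lit 228) (nat_lit 3883629492) (nat_lit 76) (nat_lit 234394512) (nat_lit 33) (nat_lit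 5) (nat_lit 36) (nat_lit 5) (nat_lit 34) (nat_lit 5) (nat_lit 277) (nat_lit 242) (nat_lit 201)) (XT.lf (nat_lit 0) (nat_lit 2383077448) (nat_lit 228) (nat_lit 9644759739) (nat_lit 304) (nat_lit 1656287215) (nat_lit 30) (nat_lit 5) (nat_lit 33) (nat_lit 5) (nat_lit 34) (nat_lit 5) (nat_lit 278) (nat_lit 242) (nat_lit 200))) (XT.nd (nat_lit 78) (nat_lit 152) (nat_lit 0) (XT.lf (nat_lit 0) (nat_lit 919973005) (nat_lit 304) (nat_lit 5120170270) (nat_lit 76) (nat_lit 8097444443) (nat_lit 29) (nat_lit 5) (nat_lit 33) (nat_lit 5) (nat_lit 30) (nat_lit 5) (nat_lit 279) (nat_lit 242) (nat_lit 199)) (XT.nd (nat_lit 78) (nat_lit 0) (nat_lit 0) (XT.lf (nat_lit 0) (nat_lit 1321504347) (nat_lit 152) (nat_lit 2224994258) (nat_lit 228) (nat_lit 11067103456) (nat_lit 27) (nat_lit 5) (nat_lit 29) (nat_lit 5) (nat_lit 30) (nat_lit 5) (nat_lit 280) (nat_lit 242) (nat_lit 198)) (XT.lf (nat_lit 0) (nat_lit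 6377558785) (nat_lit 228) (nat_lit 6939548594) (nat_lit 76) (nat_lit 1792736181) (nat_lit 27) (nat_lit 5) (nat_lit 30) (nat_lit 5) (nat_lit 28) (nat_lit 5) (nat_lit 281) (nat_lit 242) (nat_lit 197))))))) (XT.nd (nat_lit 702) (nat_lit 532) (nat_lit 0) (XT.nd (nat_lit 312) (nat_lit 228) (nat_lit 0) (XT.nd (nat_lit 156) (nat_lit 228) (nat_lit 0) (XT.nd (nat_lit 78) (nat_lit 152) (nat_lit 0) (XT.lf (nat_lit 0) (nat_lit 9345951282) (nat_lit 228) (nat_lit 367051142) (nat_lit 76) (nat_lit 5918188463) (nat_lit 27) (nat_lit 5) (nat_lit 30) (nat_lit 5) (nat_lit 28) (nat_lit 5) (nat_lit 282) (nat_lit 242) (nat_lit 196)) (XT.lf (nat_lit 0) (nat_lit 6689900432) (nat_lit 152) (nat_lit 5838552962) (nat_lit 228) (nat_lit 3646946468) (nat_lit 25) (nat_lit 5) (nat_lit 27) (nat_lit 5) (nat_lit 28) (nat_lit 5) (nat_lit 283) (nat_lit 242) (nat_lit 195))) (XT.nd (nat_lit 78) (nat_lit 228) (nat_lit 0) (XT.lf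 (nat_lit 0) (nat_lit 14055093582) (nat_lit 152) (nat_lit 1783395359) (nat_lit 228) (nat_lit 909984956) (nat_lit 25) (nat_lit 5) (nat_lit 27) (nat_lit 5) (nat_lit 28) (nat_lit 5) (nat_lit 284) (nat_lit 242) (nat_lit 194)) (XT.lf (nat_lit 0) (nat_lit 1974480346) (nat_lit 228) (nat_lit 12891372800) (nat_lit 76) (nat_lit 2479207983) (nat_lit 22) (nat_lit 5) (nat_lit 25) (nat_lit 5) (nat_lit 23) (nat_lit 5) (nat_lit 285) (nat_lit 242) (nat_lit 193)))) (XT.nd (nat_lit 156) (nat_lit 76) (nat_lit 0) (XT.nd (nat_lit 78) (nat_lit 152) (nat_lit 0) (XT.lf (nat_lit 0) (nat_lit 5012105310) (nat_lit 228) (nat_lit 6019030952) (nat_lit 76) (nat_lit 6937684491) (nat_lit 22) (nat_lit 5) (nat_lit 25) (nat_lit 5) (nat_lit 23) (nat_lit 5) (nat_lit 286) (nat_lit 242) (nat_lit 192)) (XT.lf (nat_lit 0) (nat_lit 1180865081) (nat_lit 152) (nat_lit 7004821536) (nat_lit 228) (nat_lit 10438939713) (nat_lit 20) (nat_lit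 5) (nat_lit 22) (nat_lit 5) (nat_lit 23) (nat_lit 5) (nat_lit 287) (nat_lit 242) (nat_lit 191))) (XT.nd (nat_lit 78) (nat_lit 76) (nat_lit 0) (XT.lf (nat_lit 0) (nat_lit 8896733791) (nat_lit 152) (nat_lit 2689595830) (nat_lit 228) (nat_lit 7723532217) (nat_lit 20) (nat_lit 5) (nat_lit 22) (nat_lit 5) (nat_lit 23) (nat_lit 5) (nat_lit 288) (nat_lit 242) (nat_lit 190)) (XT.nd (nat_lit 78) (nat_lit 76) (nat_lit 0) (XT.lf (nat_lit 0) (nat_lit 15153510216) (nat_lit 228) (nat_lit 3111543171) (nat_lit 76) (nat_lit 1764536453) (nat_lit 20) (nat_lit 5) (nat_lit 23) (nat_lit 5) (nat_lit 21) (nat_lit 4) (nat_lit 289) (nat_lit 242) (nat_lit 189)) (XT.lf (nat_lit 0) (nat_lit 4609189485) (nat_lit 76) (nat_lit 14375206036) (nat_lit 152) (nat_lit 1796694756) (nat_lit 19) (nat_lit 5) (nat_lit 20) (nat_lit 5) (nat_lit 21) (nat_lit 4) (nat_lit 290) (nat_lit 242) (nat_lit 188)))))) (XT.nd (nat_lit 312)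 (nat_lit 304) (nat_lit 0) (XT.nd (nat_lit 156) (nat_lit 152) (nat_lit 0) (XT.nd (nat_lit 78) (nat_lit 0) (nat_lit 0) (XT.lf (nat_lit 0) (nat_lit 1413691231) (nat_lit 152) (nat_lit 8816465315) (nat_lit 76) (nat_lit 11337785344) (nat_lit 18) (nat_lit 5) (nat_lit 20) (nat_lit 5) (nat_lit 19) (nat_lit 5) (nat_lit 291) (nat_lit 242) (nat_lit 187)) (XT.lf (nat_lit 0) (nat_lit 4695124936) (nat_lit 152) (nat_lit 1169973732) (nat_lit 76) (nat_lit 16529065320) (nat_lit 18) (nat_lit 5) (nat_lit 20) (nat_lit 5) (nat_lit 19) (nat_lit 5) (nat_lit 292) (nat_lit 242) (nat_lit 186))) (XT.nd (nat_lit 78) (nat_lit 0) (nat_lit 0) (XT.lf (nat_lit 0) (nat_lit 7039127363) (nat_lit 152) (nat_lit 1183697888) (nat_lit 228) (nat_lit 15034806059) (nat_lit 16) (nat_lit 5) (nat_lit 18) (nat_lit 5) (nat_lit 19) (nat_lit 5) (nat_lit 293) (nat_lit 242) (nat_lit 185)) (XT.lf (nat_lit 0) (nat_lit 11977966572) (nat_lit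 228) (nat_lit 8567979314) (nat_lit 76) (nat_lit 3615815092) (nat_lit 16) (nat_lit 5) (nat_lit 19) (nat_lit 5) (nat_lit 17) (nat_lit 4) (nat_lit 294) (nat_lit 242) (nat_lit 184)))) (XT.nd (nat_lit 156) (nat_lit 228) (nat_lit 0) (XT.nd (nat_lit 78) (nat_lit 76) (nat_lit 0) (XT.lf (nat_lit 0) (nat_lit 15914225712) (nat_lit 228) (nat_lit 597582973) (nat_lit 76) (nat_lit 8599660198) (nat_lit 16) (nat_lit 5) (nat_lit 19) (nat_lit 5) (nat_lit 17) (nat_lit 4) (nat_lit 295) (nat_lit 242) (nat_lit 183)) (XT.lf (nat_lit 0) (nat_lit 7985736491) (nat_lit 76) (nat_lit 12161437110) (nat_lit 152) (nat_lit 5956532685) (nat_lit 15) (nat_lit 5) (nat_lit 16) (nat_lit 5) (nat_lit 17) (nat_lit 4) (nat_lit 296) (nat_lit 242) (nat_lit 182))) (XT.nd (nat_lit 78) (nat_lit 228) (nat_lit 0) (XT.lf (nat_lit 0) (nat_lit 16978442882) (nat_lit 76) (nat_lit 7599190844) (nat_lit 152) (nat_lit 2568664680) (nat_lit 15)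 (nat_lit 5) (nat_lit 16) (nat_lit 5) (nat_lit 17) (nat_lit 4) (nat_lit 297) (nat_lit 242) (nat_lit 181)) (XT.nd (nat_lit 78) (nat_lit 152) (nat_lit 0) (XT.lf (nat_lit 0) (nat_lit 933442996) (nat_lit 152) (nat_lit 1875076447) (nat_lit 76) (nat_lit 25432937311) (nat_lit 14) (nat_lit 5) (nat_lit 16) (nat_lit 5) (nat_lit 15) (nat_lit 5) (nat_lit 298) (nat_lit 242) (nat_lit 180)) (XT.lf (nat_lit 0) (nat_lit 4647780030) (nat_lit 228) (nat_lit 22445921339) (nat_lit 76) (nat_lit 2289424964) (nat_lit 12) (nat_lit 5) (nat_lit 15) (nat_lit 5) (nat_lit 13) (nat_lit 4) (nat_lit 299) (nat_lit 242) (nat_lit 179))))))))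
noncomputable def xc117 : XT := (XT.nd (nat_lit 1326) (nat_lit 228) (nat_lit 0) (XT.nd (nat_lit 624) (nat_lit 152) (nat_lit 0) (XT.nd (nat_lit 312) (nat_lit 152) (nat_lit 0) (XT.nd (nat_lit 156) (nat_lit 76) (nat_lit 0) (XT.nd (nat_lit 78) (nat_lit 0) (nat_lit 0) (XT.lf (nat_lit 0) (nat_lit 8604013614) (nat_lit 228) (nat_lit 14409469234) (nat_lit 76) (nat_lit 7565617251) (nat_lit 12) (nat_lit 5) (nat_lit 15) (nat_lit 5) (nat_lit 13) (nat_lit 4) (nat_lit 300) (nat_lit 242) (nat_lit 178)) (XT.lf (nat_lit 0) (nat_lit 12736975534) (nat_lit 228) (nat_lit 6007208481) (nat_lit 76) (nat_lit 13091770982) (nat_lit 12) (nat_lit 5) (nat_lit 15) (nat_lit 5) (nat_lit 13) (nat_lit 4) (nat_lit 301) (nat_lit 242) (nat_lit 177))) (XT.nd (nat_lit 78) (nat_lit 0) (nat_lit 0) (XT.lf (nat_lit 0) (nat_lit 2872814300) (nat_lit 76) (nat_lit 14228544557) (nat_lit 152) (nat_lit 16053082049) (nat_lit 11) (nat_lit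 5) (nat_lit 12) (nat_lit 5) (nat_lit 13) (nat_lit 4) (nat_lit 302) (nat_lit 242) (nat_lit 176)) (XT.lf (nat_lit 0) (nat_lit 12371649136) (nat_lit 76) (nat_lit 9394397112) (nat_lit 152) (nat_lit 12768726265) (nat_lit 11) (nat_lit 5) (nat_lit 12) (nat_lit 5) (nat_lit 13) (nat_lit 4) (nat_lit 303) (nat_lit 242) (nat_lit 175)))) (XT.nd (nat_lit 156) (nat_lit 152) (nat_lit 0) (XT.nd (nat_lit 78) (nat_lit 0) (nat_lit 0) (XT.lf (nat_lit 0) (nat_lit 22313286859) (nat_lit 76) (nat_lit 4331966787) (nat_lit 152) (nat_lit 9339827200) (nat_lit 11) (nat_lit 5) (nat_lit 12) (nat_lit 5) (nat_lit 13) (nat_lit 4) (nat_lit 304) (nat_lit 242) (nat_lit 174)) (XT.lf (nat_lit 0) (nat_lit 31765755118) (nat_lit 152) (nat_lit 4802577891) (nat_lit 0) (nat_lit 939728165) (nat_lit 11) (nat_lit 5) (nat_lit 13) (nat_lit 4) (nat_lit 11) (nat_lit 4) (nat_lit 305) (nat_lit 242) (nat_lit 173))) (XT.nd (nat_lit 78) (nat_lit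 76) (nat_lit 0) (XT.lf (nat_lit 0) (nat_lit 4555041266) (nat_lit 76) (nat_lit 32712208619) (nat_lit 76) (nat_lit 1833714379) (nat_lit 10) (nat_lit 4) (nat_lit 11) (nat_lit 5) (nat_lit 11) (nat_lit 4) (nat_lit 306) (nat_lit 242) (nat_lit 172)) (XT.lf (nat_lit 0) (nat_lit 2263208813) (nat_lit 152) (nat_lit 26288885016) (nat_lit 76) (nat_lit 12216388186) (nat_lit 9) (nat_lit 5) (nat_lit 11) (nat_lit 5) (nat_lit 10) (nat_lit 4) (nat_lit 307) (nat_lit 242) (nat_lit 171))))) (XT.nd (nat_lit 312) (nat_lit 76) (nat_lit 0) (XT.nd (nat_lit 156) (nat_lit 76) (nat_lit 0) (XT.nd (nat_lit 78) (nat_lit 0) (nat_lit 0) (XT.lf (nat_lit 0) (nat_lit 6487066297) (nat_lit 152) (nat_lit 17677566550) (nat_lit 76) (nat_lit 18354073254) (nat_lit 9) (nat_lit 5) (nat_lit 11) (nat_lit 5) (nat_lit 10) (nat_lit 4) (nat_lit 308) (nat_lit 242) (nat_lit 170)) (XT.lf (nat_lit 0) (nat_lit 10906605186) (nat_lit 152) (nat_lit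 8662835042) (nat_lit 76) (nat_lit 24787794964) (nat_lit 9) (nat_lit 5) (nat_lit 11) (nat_lit 5) (nat_lit 10) (nat_lit 4) (nat_lit 309) (nat_lit 242) (nat_lit 169))) (XT.nd (nat_lit 78) (nat_lit 0) (nat_lit 0) (XT.lf (nat_lit 0) (nat_lit 802456782) (nat_lit 76) (nat_lit 14742420009) (nat_lit 152) (nat_lit 30742943518) (nat_lit 8) (nat_lit 5) (nat_lit 9) (nat_lit 5) (nat_lit 10) (nat_lit 4) (nat_lit 310) (nat_lit 242) (nat_lit 168)) (XT.lf (nat_lit 0) (nat_lit 11016324479) (nat_lit 76) (nat_lit 9530980210) (nat_lit 152) (nat_lit 27761034392) (nat_lit 8) (nat_lit 5) (nat_lit 9) (nat_lit 5) (nat_lit 10) (nat_lit 4) (nat_lit 311) (nat_lit 242) (nat_lit 167)))) (XT.nd (nat_lit 156) (nat_lit 76) (nat_lit 0) (XT.nd (nat_lit 78) (nat_lit 0) (nat_lit 0) (XT.lf (nat_lit 0) (nat_lit 21716654331) (nat_lit 76) (nat_lit 4069421943) (nat_lit 152) (nat_lit 24644512147) (nat_lit 8) (nat_lit 5) (nat_lit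 9) (nat_lit 5) (nat_lit 10) (nat_lit 4) (nat_lit 312) (nat_lit 242) (nat_lit 166)) (XT.lf (nat_lit 0) (nat_lit 31299508037) (nat_lit 152) (nat_lit 19756541217) (nat_lit 0) (nat_lit 1602279891) (nat_lit 8) (nat_lit 5) (nat_lit 10) (nat_lit 4) (nat_lit 8) (nat_lit 4) (nat_lit 313) (nat_lit 242) (nat_lit 165))) (XT.nd (nat_lit 78) (nat_lit 76) (nat_lit 0) (XT.lf (nat_lit 0) (nat_lit 37142678401) (nat_lit 152) (nat_lit 10440460061) (nat_lit 0) (nat_lit 7411629374) (nat_lit 8) (nat_lit 5) (nat_lit 10) (nat_lit 4) (nat_lit 8) (nat_lit 4) (nat_lit 314) (nat_lit 242) (nat_lit 164)) (XT.nd (nat_lit 78) (nat_lit 76) (nat_lit 0) (XT.lf (nat_lit 0) (nat_lit 43265964596) (nat_lit 152) (nat_lit 679974396) (nat_lit 0) (nat_lit 13502705207) (nat_lit 8) (nat_lit 5) (nat_lit 10) (nat_lit 4) (nat_lit 8) (nat_lit 4) (nat_lit 315) (nat_lit 242) (nat_lit 163)) (XT.lf (nat_lit 0) (nat_lit 9863860155) (nat_lit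 76) (nat_lit 39974088220) (nat_lit 76) (nat_lit 10180152295) (nat_lit 7) (nat_lit 4) (nat_lit 8) (nat_lit 5) (nat_lit 8) (nat_lit 4) (nat_lit 316) (nat_lit 242) (nat_lit 162))))))) (XT.nd (nat_lit 702) (nat_lit 76) (nat_lit 0) (XT.nd (nat_lit 312) (nat_lit 76) (nat_lit 0) (XT.nd (nat_lit 156) (nat_lit 76) (nat_lit 0) (XT.nd (nat_lit 78) (nat_lit 0) (nat_lit 0) (XT.lf (nat_lit 0) (nat_lit 20938441805) (nat_lit 76) (nat_lit 35800369096) (nat_lit 76) (nat_lit 5977217422) (nat_lit 7) (nat_lit 4) (nat_lit 8) (nat_lit 5) (nat_lit 8) (nat_lit 4) (nat_lit 317) (nat_lit 242) (nat_lit 161)) (XT.lf (nat_lit 0) (nat_lit 32547655582) (nat_lit 76) (nat_lit 31426359889) (nat_lit 76) (nat_lit 1575383693) (nat_lit 7) (nat_lit 4) (nat_lit 8) (nat_lit 5) (nat_lit 8) (nat_lit 4) (nat_lit 318) (nat_lit 242) (nat_lit 160))) (XT.nd (nat_lit 78) (nat_lit 0) (nat_lit 0) (XT.lf (nat_lit 0) (nat_lit 2938663947)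 (nat_lit 152) (nat_lit 23853214649) (nat_lit 76) (nat_lit 41730710826) (nat_lit 6) (nat_lit 5) (nat_lit 8) (nat_lit 5) (nat_lit 7) (nat_lit 4) (nat_lit 319) (nat_lit 242) (nat_lit 159)) (XT.lf (nat_lit 0) (nat_lit 7615595115) (nat_lit 152) (nat_lit 14290743416) (nat_lit 76) (nat_lit 49737313296) (nat_lit 6) (nat_lit 5) (nat_lit 8) (nat_lit 5) (nat_lit 7) (nat_lit 4) (nat_lit 320) (nat_lit 242) (nat_lit 158)))) (XT.nd (nat_lit 156) (nat_lit 0) (nat_lit 0) (XT.nd (nat_lit 78) (nat_lit 76) (nat_lit 0) (XT.lf (nat_lit 0) (nat_lit 12516967478) (nat_lit 152) (nat_lit 4266965942) (nat_lit 76) (nat_lit 58137313867) (nat_lit 6) (nat_lit 5) (nat_lit 8) (nat_lit 5) (nat_lit 7) (nat_lit 4) (nat_lit 321) (nat_lit 242) (nat_lit 157)) (XT.lf (nat_lit 0) (nat_lit 6448372089) (nat_lit 76) (nat_lit 11306756039) (nat_lit 152) (nat_lit 60603017614) (nat_lit 5) (nat_lit 5) (nat_lit 6) (nat_lit 5) (nat_lit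 7) (nat_lit 4) (nat_lit 322) (nat_lit 242) (nat_lit 156))) (XT.nd (nat_lit 78) (nat_lit 0) (nat_lit 0) (XT.lf (nat_lit 0) (nat_lit 17831858280) (nat_lit 76) (nat_lit 5486824693) (nat_lit 152) (nat_lit 58645040606) (nat_lit 5) (nat_lit 5) (nat_lit 6) (nat_lit 5) (nat_lit 7) (nat_lit 4) (nat_lit 323) (nat_lit 242) (nat_lit 155)) (XT.nd (nat_lit 78) (nat_lit 0) (nat_lit 0) (XT.lf (nat_lit 0) (nat_lit 29161696736) (nat_lit 152) (nat_lit 55990135801) (nat_lit 0) (nat_lit 597692065) (nat_lit 5) (nat_lit 5) (nat_lit 7) (nat_lit 4) (nat_lit 5) (nat_lit 4) (nat_lit 324) (nat_lit 242) (nat_lit 154)) (XT.lf (nat_lit 0) (nat_lit 35378749297) (nat_lit 152) (nat_lit 47545868031) (nat_lit 0) (nat_lit 6795911894) (nat_lit 5) (nat_lit 5) (nat_lit 7) (nat_lit 4) (nat_lit 5) (nat_lit 4) (nat_lit 325) (nat_lit 242) (nat_lit 153)))))) (XT.nd (nat_lit 312) (nat_lit 76) (nat_lit 0) (XT.nd (nat_lit 156) (nat_lit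 0) (nat_lit 0) (XT.nd (nat_lit 78) (nat_lit 0) (nat_lit 0) (XT.lf (nat_lit 0) (nat_lit 41898978453) (nat_lit 152) (nat_lit 38693291880) (nat_lit 0) (nat_lit 13298205115) (nat_lit 5) (nat_lit 5) (nat_lit 7) (nat_lit 4) (nat_lit 5) (nat_lit 4) (nat_lit 326) (nat_lit 242) (nat_lit 152)) (XT.lf (nat_lit 0) (nat_lit 48737908560) (nat_lit 152) (nat_lit 29411329786) (nat_lit 0) (nat_lit 20120053379) (nat_lit 5) (nat_lit 5) (nat_lit 7) (nat_lit 4) (nat_lit 5) (nat_lit 4) (nat_lit 327) (nat_lit 242) (nat_lit 151))) (XT.nd (nat_lit 78) (nat_lit 0) (nat_lit 0) (XT.lf (nat_lit 0) (nat_lit 55911822784) (nat_lit 152) (nat_lit 19677881839) (nat_lit 0) (nat_lit 27277699181) (nat_lit 5) (nat_lit 5) (nat_lit 7) (nat_lit 4) (nat_lit 5) (nat_lit 4) (nat_lit 328) (nat_lit 242) (nat_lit 150)) (XT.lf (nat_lit 0) (nat_lit 63437801874) (nat_lit 152) (nat_lit 9469773164) (nat_lit 0) (nat_lit 34788184535) (nat_lit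 5) (nat_lit 5) (nat_lit 7) (nat_lit 4) (nat_lit 5) (nat_lit 4) (nat_lit 329) (nat_lit 242) (nat_lit 149)))) (XT.nd (nat_lit 156) (nat_lit 0) (nat_lit 0) (XT.nd (nat_lit 78) (nat_lit 0) (nat_lit 0) (XT.lf (nat_lit 0) (nat_lit 1278212027) (nat_lit 76) (nat_lit 70075509272) (nat_lit 76) (nat_lit 41411135995) (nat_lit 4) (nat_lit 4) (nat_lit 5) (nat_lit 5) (nat_lit 5) (nat_lit 4) (nat_lit 330) (nat_lit 242) (nat_lit 148)) (XT.lf (nat_lit 0) (nat_lit 12881110446) (nat_lit 76) (nat_lit 66938511342) (nat_lit 76) (nat_lit 38260084791) (nat_lit 4) (nat_lit 4) (nat_lit 5) (nat_lit 5) (nat_lit 5) (nat_lit 4) (nat_lit 331) (nat_lit 242) (nat_lit 147))) (XT.nd (nat_lit 78) (nat_lit 0) (nat_lit 0) (XT.lf (nat_lit 0) (nat_lit 25053434573) (nat_lit 76) (nat_lit 63649487398) (nat_lit 76) (nat_lit 34957676776) (nat_lit 4) (nat_lit 4) (nat_lit 5) (nat_lit 5) (nat_lit 5) (nat_lit 4) (nat_lit 332) (nat_lit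 242) (nat_lit 146)) (XT.nd (nat_lit 78) (nat_lit 0) (nat_lit 0) (XT.lf (nat_lit 0) (nat_lit 37824166133) (nat_lit 76) (nat_lit 60200606430) (nat_lit 76) (nat_lit 31496049073) (nat_lit 4) (nat_lit 4) (nat_lit 5) (nat_lit 5) (nat_lit 5) (nat_lit 4) (nat_lit 333) (nat_lit 242) (nat_lit 145)) (XT.lf (nat_lit 0) (nat_lit 51223711628) (nat_lit 76) (nat_lit 56583656817) (nat_lit 76) (nat_lit 27866959713) (nat_lit 4) (nat_lit 4) (nat_lit 5) (nat_lit 5) (nat_lit 5) (nat_lit 4) (nat_lit 334) (nat_lit 242) (nat_lit 144))))))))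
noncomputable def xc118 : XT := (XT.nd (nat_lit 1326) (nat_lit 0) (nat_lit 0) (XT.nd (nat_lit 624) (nat_lit 76) (nat_lit 0) (XT.nd (nat_lit 312) (nat_lit 76) (nat_lit 0) (XT.nd (nat_lit 156) (nat_lit 0) (nat_lit 0) (XT.nd (nat_lit 78) (nat_lit 0) (nat_lit 0) (XT.lf (nat_lit 0) (nat_lit 65283974740) (nat_lit 76) (nat_lit 52790026773) (nat_lit 76) (nat_lit 24061768006) (nat_lit 4) (nat_lit 4) (nat_lit 5) (nat_lit 5) (nat_lit 5) (nat_lit 4) (nat_lit 335) (nat_lit 242) (nat_lit 143)) (XT.lf (nat_lit 0) (nat_lit 80038432284) (nat_lit 76) (nat_lit 48810683847) (nat_lit 76) (nat_lit 20071413971) (nat_lit 4) (nat_lit 4) (nat_lit 5) (nat_lit 5) (nat_lit 5) (nat_lit 4) (nat_lit 336) (nat_lit 242) (nat_lit 142))) (XT.nd (nat_lit 78) (nat_lit 0) (nat_lit 0) (XT.lf (nat_lit 0) (nat_lit 95522213922) (nat_lit 76) (nat_lit 44636153413) (nat_lit 76) (nat_lit 15886396767) (nat_lit 4) (nat_lit 4) (nat_lit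 5) (nat_lit 5) (nat_lit 5) (nat_lit 4) (nat_lit 337) (nat_lit 242) (nat_lit 141)) (XT.lf (nat_lit 0) (nat_lit 111772185800) (nat_lit 76) (nat_lit 40256496111) (nat_lit 76) (nat_lit 11496752066) (nat_lit 4) (nat_lit 4) (nat_lit 5) (nat_lit 5) (nat_lit 5) (nat_lit 4) (nat_lit 338) (nat_lit 242) (nat_lit 140)))) (XT.nd (nat_lit 156) (nat_lit 76) (nat_lit 0) (XT.nd (nat_lit 78) (nat_lit 0) (nat_lit 0) (XT.lf (nat_lit 0) (nat_lit 128827038328) (nat_lit 76) (nat_lit 35661284188) (nat_lit 76) (nat_lit 6892028333) (nat_lit 4) (nat_lit 4) (nat_lit 5) (nat_lit 5) (nat_lit 5) (nat_lit 4) (nat_lit 339) (nat_lit 242) (nat_lit 139)) (XT.lf (nat_lit 0) (nat_lit 146727378297) (nat_lit 76) (nat_lit 30839576661) (nat_lit 76) (nat_lit 2061261940) (nat_lit 4) (nat_lit 4) (nat_lit 5) (nat_lit 5) (nat_lit 5) (nat_lit 4) (nat_lit 340) (nat_lit 242) (nat_lit 138))) (XT.nd (nat_lit 78) (nat_lit 0) (nat_lit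 0) (XT.lf (nat_lit 0) (nat_lit 2910804591) (nat_lit 152) (nat_lit 22819792800) (nat_lit 76) (nat_lit 162555725089) (nat_lit 3) (nat_lit 5) (nat_lit 5) (nat_lit 5) (nat_lit 4) (nat_lit 4) (nat_lit 341) (nat_lit 242) (nat_lit 137)) (XT.lf (nat_lit 0) (nat_lit 8058520620) (nat_lit 152) (nat_lit 12275191600) (nat_lit 76) (nat_lit 177042118962) (nat_lit 3) (nat_lit 5) (nat_lit 5) (nat_lit 5) (nat_lit 4) (nat_lit 4) (nat_lit 342) (nat_lit 242) (nat_lit 136))))) (XT.nd (nat_lit 312) (nat_lit 0) (nat_lit 0) (XT.nd (nat_lit 156) (nat_lit 0) (nat_lit 0) (XT.nd (nat_lit 78) (nat_lit 76) (nat_lit 0) (XT.lf (nat_lit 0) (nat_lit 13460115867) (nat_lit 152) (nat_lit 1209746732) (nat_lit 76) (nat_lit 192250131196) (nat_lit 3) (nat_lit 5) (nat_lit 5) (nat_lit 5) (nat_lit 4) (nat_lit 4) (nat_lit 343) (nat_lit 242) (nat_lit 135)) (XT.lf (nat_lit 0) (nat_lit 10746854562) (nat_lit 76) (nat_lit 8549385230)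 (nat_lit 152) (nat_lit 197636905298) (nat_lit 2) (nat_lit 5) (nat_lit 3) (nat_lit 5) (nat_lit 4) (nat_lit 4) (nat_lit 344) (nat_lit 242) (nat_lit 134))) (XT.nd (nat_lit 78) (nat_lit 0) (nat_lit 0) (XT.lf (nat_lit 0) (nat_lit 23337301419) (nat_lit 76) (nat_lit 2104082136) (nat_lit 152) (nat_lit 202004712567) (nat_lit 2) (nat_lit 5) (nat_lit 3) (nat_lit 5) (nat_lit 4) (nat_lit 4) (nat_lit 345) (nat_lit 242) (nat_lit 133)) (XT.lf (nat_lit 0) (nat_lit 31963436198) (nat_lit 152) (nat_lit 202006051718) (nat_lit 0) (nat_lit 4511726925) (nat_lit 2) (nat_lit 5) (nat_lit 4) (nat_lit 4) (nat_lit 2) (nat_lit 4) (nat_lit 346) (nat_lit 242) (nat_lit 132)))) (XT.nd (nat_lit 156) (nat_lit 0) (nat_lit 0) (XT.nd (nat_lit 78) (nat_lit 0) (nat_lit 0) (XT.lf (nat_lit 0) (nat_lit 38843076625) (nat_lit 152) (nat_lit 199838205248) (nat_lit 0) (nat_lit 11385235955) (nat_lit 2) (nat_lit 5) (nat_lit 4) (nat_lit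 4) (nat_lit 2) (nat_lit 4) (nat_lit 347) (nat_lit 242) (nat_lit 131)) (XT.lf (nat_lit 0) (nat_lit 46063834313) (nat_lit 152) (nat_lit 197567243135) (nat_lit 0) (nat_lit 18600154217) (nat_lit 2) (nat_lit 5) (nat_lit 4) (nat_lit 4) (nat_lit 2) (nat_lit 4) (nat_lit 348) (nat_lit 242) (nat_lit 130))) (XT.nd (nat_lit 78) (nat_lit 0) (nat_lit 0) (XT.lf (nat_lit 0) (nat_lit 53642901544) (nat_lit 152) (nat_lit 195187758329) (nat_lit 0) (nat_lit 26173660090) (nat_lit 2) (nat_lit 5) (nat_lit 4) (nat_lit 4) (nat_lit 2) (nat_lit 4) (nat_lit 349) (nat_lit 242) (nat_lit 129)) (XT.nd (nat_lit 78) (nat_lit 0) (nat_lit 0) (XT.lf (nat_lit 0) (nat_lit 61598323715) (nat_lit 152) (nat_lit 192694085387) (nat_lit 0) (nat_lit 34123785730) (nat_lit 2) (nat_lit 5) (nat_lit 4) (nat_lit 4) (nat_lit 2) (nat_lit 4) (nat_lit 350) (nat_lit 242) (nat_lit 128)) (XT.lf (nat_lit 0) (nat_lit 69949042307) (nat_lit 152)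 (nat_lit 190080286995) (nat_lit 0) (nat_lit 42469460007) (nat_lit 2) (nat_lit 5) (nat_lit 4) (nat_lit 4) (nat_lit 2) (nat_lit 4) (nat_lit 351) (nat_lit 242) (nat_lit 127))))))) (XT.nd (nat_lit 29016) (nat_lit 0) (nat_lit 7524) (XT.nd (nat_lit 312) (nat_lit 0) (nat_lit 0) (XT.nd (nat_lit 156) (nat_lit 0) (nat_lit 0) (XT.nd (nat_lit 78) (nat_lit 0) (nat_lit 0) (XT.lf (nat_lit 0) (nat_lit 78714939985) (nat_lit 152) (nat_lit 187340139821) (nat_lit 0) (nat_lit 51230553574) (nat_lit 2) (nat_lit 5) (nat_lit 4) (nat_lit 4) (nat_lit 2) (nat_lit 4) (nat_lit 352) (nat_lit 242) (nat_lit 126)) (XT.lf (nat_lit 0) (nat_lit 87916887933) (nat_lit 152) (nat_lit 184467119708) (nat_lit 0) (nat_lit 60427926179) (nat_lit 2) (nat_lit 5) (nat_lit 4) (nat_lit 4) (nat_lit 2) (nat_lit 4) (nat_lit 353) (nat_lit 242) (nat_lit 125))) (XT.nd (nat_lit 78) (nat_lit 0) (nat_lit 0) (XT.lf (nat_lit 0) (nat_lit 97576795550)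 (nat_lit 152) (nat_lit 181454386129) (nat_lit 0) (nat_lit 70083476327) (nat_lit 2) (nat_lit 5) (nat_lit 4) (nat_lit 4) (nat_lit 2) (nat_lit 4) (nat_lit 354) (nat_lit 242) (nat_lit 124)) (XT.lf (nat_lit 0) (nat_lit 107717662617) (nat_lit 152) (nat_lit 178294765911) (nat_lit 0) (nat_lit 80220193423) (nat_lit 2) (nat_lit 5) (nat_lit 4) (nat_lit 4) (nat_lit 2) (nat_lit 4) (nat_lit 355) (nat_lit 242) (nat_lit 123)))) (XT.nd (nat_lit 156) (nat_lit 0) (nat_lit 0) (XT.nd (nat_lit 78) (nat_lit 0) (nat_lit 0) (XT.lf (nat_lit 0) (nat_lit 118363634055) (nat_lit 152) (nat_lit 174980736148) (nat_lit 0) (nat_lit 90862212508) (nat_lit 2) (nat_lit 5) (nat_lit 4) (nat_lit 4) (nat_lit 2) (nat_lit 4) (nat_lit 356) (nat_lit 242) (nat_lit 122)) (XT.lf (nat_lit 0) (nat_lit 129540057416) (nat_lit 152) (nat_lit 171504406292) (nat_lit 0) (nat_lit 102034871723) (nat_lit 2) (nat_lit 5) (nat_lit 4) (nat_lit 4)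 (nat_lit 2) (nat_lit 4) (nat_lit 357) (nat_lit 242) (nat_lit 121))) (XT.nd (nat_lit 78) (nat_lit 0) (nat_lit 0) (XT.lf (nat_lit 0) (nat_lit 141273543232) (nat_lit 152) (nat_lit 167857499369) (nat_lit 0) (nat_lit 113764772637) (nat_lit 2) (nat_lit 5) (nat_lit 4) (nat_lit 4) (nat_lit 2) (nat_lit 4) (nat_lit 358) (nat_lit 242) (nat_lit 120)) (XT.nd (nat_lit 78) (nat_lit 0) (nat_lit 0) (XT.lf (nat_lit 0) (nat_lit 153592028372) (nat_lit 152) (nat_lit 164031332265) (nat_lit 0) (nat_lit 126079843586) (nat_lit 2) (nat_lit 5) (nat_lit 4) (nat_lit 4) (nat_lit 2) (nat_lit 4) (nat_lit 359) (nat_lit 242) (nat_lit 119)) (XT.lf (nat_lit 0) (nat_lit 166524842564) (nat_lit 152) (nat_lit 160016795061) (nat_lit 0) (nat_lit 139009406168) (nat_lit 2) (nat_lit 5) (nat_lit 4) (nat_lit 4) (nat_lit 2) (nat_lit 4) (nat_lit 360) (nat_lit 242) (nat_lit 118)))))) (XT.nd (nat_lit 312) (nat_lit 684) (nat_lit 0) (XT.nd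 (nat_lit 156) (nat_lit 304) (nat_lit 0) (XT.nd (nat_lit 78) (nat_lit 0) (nat_lit 0) (XT.lf (nat_lit 0) (nat_lit 630231312) (nat_lit 0) (nat_lit 630231312) (nat_lit 228) (nat_lit 2014726388) (nat_lit 114) (nat_lit 5) (nat_lit 114) (nat_lit 3) (nat_lit 117) (nat_lit 3) (nat_lit 243) (nat_lit 243) (nat_lit 234)) (XT.lf (nat_lit 0) (nat_lit 4238878486) (nat_lit 0) (nat_lit 579918782) (nat_lit 228) (nat_lit 1771987056) (nat_lit 114) (nat_lit 5) (nat_lit 114) (nat_lit 3) (nat_lit 117) (nat_lit 3) (nat_lit 244) (nat_lit 243) (nat_lit 233))) (XT.nd (nat_lit 78) (nat_lit 0) (nat_lit 0) (XT.lf (nat_lit 0) (nat_lit 447011527) (nat_lit 304) (nat_lit 5975767804) (nat_lit 380) (nat_lit 217281819) (nat_lit 110) (nat_lit 5) (nat_lit 114) (nat_lit 5) (nat_lit 115) (nat_lit 5) (nat_lit 245) (nat_lit 243) (nat_lit 232)) (XT.lf (nat_lit 0) (nat_lit 2628059016) (nat_lit 304) (nat_lit 2900588074) (nat_lit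 380) (nat_lit 1166843942) (nat_lit 110) (nat_lit 5) (nat_lit 114) (nat_lit 5) (nat_lit 115) (nat_lit 5) (nat_lit 246) (nat_lit 243) (nat_lit 231)))) (XT.nd (nat_lit 156) (nat_lit 304) (nat_lit 0) (XT.nd (nat_lit 78) (nat_lit 380) (nat_lit 0) (XT.lf (nat_lit 76) (nat_lit 256046345) (nat_lit 0) (nat_lit 4533404299) (nat_lit 380) (nat_lit 1971319207) (nat_lit 111) (nat_lit 5) (nat_lit 110) (nat_lit 5) (nat_lit 115) (nat_lit 5) (nat_lit 247) (nat_lit 243) (nat_lit 230)) (XT.lf (nat_lit 0) (nat_lit 141871659) (nat_lit 380) (nat_lit 3244123977) (nat_lit 456) (nat_lit 3447739027) (nat_lit 105) (nat_lit 5) (nat_lit 110) (nat_lit 5) (nat_lit 111) (nat_lit 5) (nat_lit 248) (nat_lit 243) (nat_lit 229))) (XT.nd (nat_lit 78) (nat_lit 304) (nat_lit 0) (XT.lf (nat_lit 76) (nat_lit 69319982) (nat_lit 0) (nat_lit 2102133085) (nat_lit 456) (nat_lit 4743984413) (nat_lit 106) (nat_lit 5) (nat_lit 105)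 (nat_lit 5) (nat_lit 111) (nat_lit 5) (nat_lit 249) (nat_lit 243) (nat_lit 228)) (XT.nd (nat_lit 78) (nat_lit 304) (nat_lit 0) (XT.lf (nat_lit 76) (nat_lit 3582269024) (nat_lit 0) (nat_lit 655762701) (nat_lit 456) (nat_lit 2766946003) (nat_lit 106) (nat_lit 5) (nat_lit 105) (nat_lit 5) (nat_lit 111) (nat_lit 5) (nat_lit 250) (nat_lit 243) (nat_lit 227)) (XT.lf (nat_lit 0) (nat_lit 79091733) (nat_lit 380) (nat_lit 6230423378) (nat_lit 456) (nat_lit 794904135) (nat_lit 101) (nat_lit 5) (nat_lit 106) (nat_lit 5) (nat_lit 107) (nat_lit 5) (nat_lit 251) (nat_lit 243) (nat_lit 226))))))))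
noncomputable def xc119 : XT := (XT.nd (nat_lit 1404) (nat_lit 1824) (nat_lit 0) (XT.nd (nat_lit 702) (nat_lit 1672) (nat_lit 0) (XT.nd (nat_lit 312) (nat_lit 1444) (nat_lit 0) (XT.nd (nat_lit 156) (nat_lit 532) (nat_lit 0) (XT.nd (nat_lit 78) (nat_lit 456) (nat_lit 0) (XT.lf (nat_lit 0) (nat_lit 1193321576) (nat_lit 456) (nat_lit 3447394351) (nat_lit 76) (nat_lit 2569656629) (nat_lit 100) (nat_lit 5) (nat_lit 106) (nat_lit 5) (nat_lit 101) (nat_lit 5) (nat_lit 252) (nat_lit 243) (nat_lit 225)) (XT.lf (nat_lit 0) (nat_lit 222917726) (nat_lit 456) (nat_lit 2928852661) (nat_lit 532) (nat_lit 4174759845) (nat_lit 94) (nat_lit 5) (nat_lit 100) (nat_lit 5) (nat_lit 101) (nat_lit 5) (nat_lit 253) (nat_lit 243) (nat_lit 224))) (XT.nd (nat_lit 78) (nat_lit 532) (nat_lit 0) (XT.lf (nat_lit 0) (nat_lit 4117110212) (nat_lit 456) (nat_lit 1047267185) (nat_lit 532) (nat_lit 2286720465) (nat_lit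 94) (nat_lit 5) (nat_lit 100) (nat_lit 5) (nat_lit 101) (nat_lit 5) (nat_lit 254) (nat_lit 243) (nat_lit 223)) (XT.lf (nat_lit 0) (nat_lit 545956072) (nat_lit 532) (nat_lit 6657733529) (nat_lit 608) (nat_lit 382294681) (nat_lit 87) (nat_lit 5) (nat_lit 94) (nat_lit 5) (nat_lit 95) (nat_lit 5) (nat_lit 255) (nat_lit 243) (nat_lit 222)))) (XT.nd (nat_lit 156) (nat_lit 760) (nat_lit 0) (XT.nd (nat_lit 78) (nat_lit 608) (nat_lit 0) (XT.lf (nat_lit 0) (nat_lit 1544672292) (nat_lit 608) (nat_lit 3115838698) (nat_lit 76) (nat_lit 3067244707) (nat_lit 86) (nat_lit 5) (nat_lit 94) (nat_lit 5) (nat_lit 87) (nat_lit 5) (nat_lit 256) (nat_lit 243) (nat_lit 221)) (XT.lf (nat_lit 0) (nat_lit 949298573) (nat_lit 608) (nat_lit 2529737548) (nat_lit 684) (nat_lit 4401411879) (nat_lit 78) (nat_lit 5) (nat_lit 86) (nat_lit 5) (nat_lit 87) (nat_lit 5) (nat_lit 257) (nat_lit 243) (nat_lit 220))) (XT.nd (nat_lit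 78) (nat_lit 760) (nat_lit 0) (XT.lf (nat_lit 0) (nat_lit 5247769810) (nat_lit 608) (nat_lit 227301916) (nat_lit 684) (nat_lit 2567779785) (nat_lit 78) (nat_lit 5) (nat_lit 86) (nat_lit 5) (nat_lit 87) (nat_lit 5) (nat_lit 258) (nat_lit 243) (nat_lit 219)) (XT.nd (nat_lit 78) (nat_lit 76) (nat_lit 0) (XT.lf (nat_lit 0) (nat_lit 1482013263) (nat_lit 684) (nat_lit 6062741734) (nat_lit 760) (nat_lit 670236732) (nat_lit 69) (nat_lit 5) (nat_lit 78) (nat_lit 5) (nat_lit 79) (nat_lit 5) (nat_lit 259) (nat_lit 243) (nat_lit 218)) (XT.lf (nat_lit 0) (nat_lit 1249368966) (nat_lit 760) (nat_lit 2429257364) (nat_lit 76) (nat_lit 4717885413) (nat_lit 68) (nat_lit 5) (nat_lit 78) (nat_lit 5) (nat_lit 69) (nat_lit 5) (nat_lit 260) (nat_lit 243) (nat_lit 217)))))) (XT.nd (nat_lit 312) (nat_lit 912) (nat_lit 0) (XT.nd (nat_lit 156) (nat_lit 456) (nat_lit 0) (XT.nd (nat_lit 78) (nat_lit 0) (nat_lit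 0) (XT.lf (nat_lit 0) (nat_lit 2067952698) (nat_lit 304) (nat_lit 1128350438) (nat_lit 380) (nat_lit 5392828398) (nat_lit 64) (nat_lit 5) (nat_lit 68) (nat_lit 5) (nat_lit 69) (nat_lit 5) (nat_lit 261) (nat_lit 243) (nat_lit 216)) (XT.lf (nat_lit 0) (nat_lit 5230732170) (nat_lit 380) (nat_lit 2019536273) (nat_lit 76) (nat_lit 1541860537) (nat_lit 64) (nat_lit 5) (nat_lit 69) (nat_lit 5) (nat_lit 65) (nat_lit 5) (nat_lit 262) (nat_lit 243) (nat_lit 215))) (XT.nd (nat_lit 78) (nat_lit 76) (nat_lit 0) (XT.lf (nat_lit 0) (nat_lit 2699169670) (nat_lit 380) (nat_lit 4656106400) (nat_lit 456) (nat_lit 1650822532) (nat_lit 59) (nat_lit 5) (nat_lit 64) (nat_lit 5) (nat_lit 65) (nat_lit 5) (nat_lit 263) (nat_lit 243) (nat_lit 214)) (XT.lf (nat_lit 0) (nat_lit 307330088) (nat_lit 456) (nat_lit 1588505037) (nat_lit 76) (nat_lit 7336702671) (nat_lit 58) (nat_lit 5) (nat_lit 64) (nat_lit 5) (nat_lit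 59) (nat_lit 5) (nat_lit 264) (nat_lit 243) (nat_lit 213)))) (XT.nd (nat_lit 156) (nat_lit 608) (nat_lit 0) (XT.nd (nat_lit 78) (nat_lit 0) (nat_lit 0) (XT.lf (nat_lit 0) (nat_lit 2309501756) (nat_lit 380) (nat_lit 6113635614) (nat_lit 76) (nat_lit 1045937978) (nat_lit 54) (nat_lit 5) (nat_lit 59) (nat_lit 5) (nat_lit 55) (nat_lit 5) (nat_lit 265) (nat_lit 243) (nat_lit 212)) (XT.lf (nat_lit 0) (nat_lit 4404262604) (nat_lit 380) (nat_lit 1221671807) (nat_lit 76) (nat_lit 4092080412) (nat_lit 54) (nat_lit 5) (nat_lit 59) (nat_lit 5) (nat_lit 55) (nat_lit 5) (nat_lit 266) (nat_lit 243) (nat_lit 211))) (XT.nd (nat_lit 78) (nat_lit 304) (nat_lit 0) (XT.lf (nat_lit 0) (nat_lit 3969768620) (nat_lit 304) (nat_lit 2633170384) (nat_lit 380) (nat_lit 3376692983) (nat_lit 50) (nat_lit 5) (nat_lit 54) (nat_lit 5) (nat_lit 55) (nat_lit 5) (nat_lit 267) (nat_lit 243) (nat_lit 210)) (XT.nd (nat_lit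 78) (nat_lit 304) (nat_lit 0) (XT.lf (nat_lit 0) (nat_lit 8879451045) (nat_lit 380) (nat_lit 872474215) (nat_lit 76) (nat_lit 504190226) (nat_lit 50) (nat_lit 5) (nat_lit 55) (nat_lit 5) (nat_lit 51) (nat_lit 5) (nat_lit 268) (nat_lit 243) (nat_lit 209)) (XT.lf (nat_lit 0) (nat_lit 757061902) (nat_lit 304) (nat_lit 6002188866) (nat_lit 76) (nat_lit 3783929050) (nat_lit 46) (nat_lit 5) (nat_lit 50) (nat_lit 5) (nat_lit 47) (nat_lit 5) (nat_lit 269) (nat_lit 243) (nat_lit 208))))))) (XT.nd (nat_lit 702) (nat_lit 836) (nat_lit 0) (XT.nd (nat_lit 312) (nat_lit 456) (nat_lit 0) (XT.nd (nat_lit 156) (nat_lit 228) (nat_lit 0) (XT.nd (nat_lit 78) (nat_lit 304) (nat_lit 0) (XT.lf (nat_lit 0) (nat_lit 2908660228) (nat_lit 304) (nat_lit 682726712) (nat_lit 76) (nat_lit 7254365462) (nat_lit 46) (nat_lit 5) (nat_lit 50) (nat_lit 5) (nat_lit 47) (nat_lit 5) (nat_lit 270) (nat_lit 243) (nat_lit 207))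 (XT.lf (nat_lit 0) (nat_lit 4994489745) (nat_lit 304) (nat_lit 196500629) (nat_lit 380) (nat_lit 5971454197) (nat_lit 42) (nat_lit 5) (nat_lit 46) (nat_lit 5) (nat_lit 47) (nat_lit 5) (nat_lit 271) (nat_lit 243) (nat_lit 206))) (XT.nd (nat_lit 78) (nat_lit 228) (nat_lit 0) (XT.lf (nat_lit 0) (nat_lit 7598299715) (nat_lit 380) (nat_lit 637465080) (nat_lit 76) (nat_lit 3258804898) (nat_lit 42) (nat_lit 5) (nat_lit 47) (nat_lit 5) (nat_lit 43) (nat_lit 5) (nat_lit 272) (nat_lit 243) (nat_lit 205)) (XT.lf (nat_lit 0) (nat_lit 5268705889) (nat_lit 228) (nat_lit 4891820537) (nat_lit 304) (nat_lit 1681181789) (nat_lit 39) (nat_lit 5) (nat_lit 42) (nat_lit 5) (nat_lit 43) (nat_lit 5) (nat_lit 273) (nat_lit 243) (nat_lit 204)))) (XT.nd (nat_lit 156) (nat_lit 152) (nat_lit 0) (XT.nd (nat_lit 78) (nat_lit 228) (nat_lit 0) (XT.lf (nat_lit 0) (nat_lit 584543132) (nat_lit 304) (nat_lit 790564451)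 (nat_lit 76) (nat_lit 10832689271) (nat_lit 38) (nat_lit 5) (nat_lit 42) (nat_lit 5) (nat_lit 39) (nat_lit 5) (nat_lit 274) (nat_lit 243) (nat_lit 203)) (XT.lf (nat_lit 0) (nat_lit 2980465185) (nat_lit 304) (nat_lit 7265663867) (nat_lit 76) (nat_lit 2341128768) (nat_lit 35) (nat_lit 5) (nat_lit 39) (nat_lit 5) (nat_lit 36) (nat_lit 5) (nat_lit 275) (nat_lit 243) (nat_lit 202))) (XT.nd (nat_lit 78) (nat_lit 152) (nat_lit 0) (XT.lf (nat_lit 0) (nat_lit 5485338141) (nat_lit 304) (nat_lit 1305933196) (nat_lit 76) (nat_lit 6195073609) (nat_lit 35) (nat_lit 5) (nat_lit 39) (nat_lit 5) (nat_lit 36) (nat_lit 5) (nat_lit 276) (nat_lit 243) (nat_lit 201)) (XT.nd (nat_lit 78) (nat_lit 0) (nat_lit 0) (XT.lf (nat_lit 0) (nat_lit 5051604567) (nat_lit 152) (nat_lit 3097961764) (nat_lit 228) (nat_lit 5254220090) (nat_lit 33) (nat_lit 5) (nat_lit 35) (nat_lit 5) (nat_lit 36) (nat_lit 5) (nat_lit 277)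 (nat_lit 243) (nat_lit 200)) (XT.lf (nat_lit 0) (nat_lit 10937816352) (nat_lit 228) (nat_lit 2144050675) (nat_lit 76) (nat_lit 760792968) (nat_lit 33) (nat_lit 5) (nat_lit 36) (nat_lit 5) (nat_lit 34) (nat_lit 5) (nat_lit 278) (nat_lit 243) (nat_lit 199)))))) (XT.nd (nat_lit 312) (nat_lit 380) (nat_lit 0) (XT.nd (nat_lit 156) (nat_lit 152) (nat_lit 0) (XT.nd (nat_lit 78) (nat_lit 76) (nat_lit 0) (XT.lf (nat_lit 0) (nat_lit 4404801930) (nat_lit 228) (nat_lit 9538475502) (nat_lit 304) (nat_lit 356405645) (nat_lit 30) (nat_lit 5) (nat_lit 33) (nat_lit 5) (nat_lit 34) (nat_lit 5) (nat_lit 279) (nat_lit 243) (nat_lit 198)) (XT.lf (nat_lit 0) (nat_lit 2240677395) (nat_lit 304) (nat_lit 3519387929) (nat_lit 76) (nat_lit 9017995176) (nat_lit 29) (nat_lit 5) (nat_lit 33) (nat_lit 5) (nat_lit 30) (nat_lit 5) (nat_lit 280) (nat_lit 243) (nat_lit 197))) (XT.nd (nat_lit 78) (nat_lit 0) (nat_lit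 0) (XT.lf (nat_lit 0) (nat_lit 3214422179) (nat_lit 152) (nat_lit 1751928955) (nat_lit 228) (nat_lit 10313260538) (nat_lit 27) (nat_lit 5) (nat_lit 29) (nat_lit 5) (nat_lit 30) (nat_lit 5) (nat_lit 281) (nat_lit 243) (nat_lit 196)) (XT.lf (nat_lit 0) (nat_lit 7888484719) (nat_lit 228) (nat_lit 5493773346) (nat_lit 76) (nat_lit 2421052310) (nat_lit 27) (nat_lit 5) (nat_lit 30) (nat_lit 5) (nat_lit 28) (nat_lit 5) (nat_lit 282) (nat_lit 243) (nat_lit 195)))) (XT.nd (nat_lit 156) (nat_lit 228) (nat_lit 0) (XT.nd (nat_lit 78) (nat_lit 0) (nat_lit 0) (XT.lf (nat_lit 0) (nat_lit 1365690425) (nat_lit 152) (nat_lit 9604164480) (nat_lit 228) (nat_lit 5382757640) (nat_lit 25) (nat_lit 5) (nat_lit 27) (nat_lit 5) (nat_lit 28) (nat_lit 5) (nat_lit 283) (nat_lit 243) (nat_lit 194)) (XT.lf (nat_lit 0) (nat_lit 8704240513) (nat_lit 152) (nat_lit 5558085311) (nat_lit 228) (nat_lit 2664273844) (nat_lit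 25) (nat_lit 5) (nat_lit 27) (nat_lit 5) (nat_lit 28) (nat_lit 5) (nat_lit 284) (nat_lit 243) (nat_lit 193))) (XT.nd (nat_lit 78) (nat_lit 152) (nat_lit 0) (XT.lf (nat_lit 0) (nat_lit 149127764) (nat_lit 228) (nat_lit 1175773431) (nat_lit 76) (nat_lit 16206047383) (nat_lit 24) (nat_lit 5) (nat_lit 27) (nat_lit 5) (nat_lit 25) (nat_lit 5) (nat_lit 285) (nat_lit 243) (nat_lit 192)) (XT.nd (nat_lit 78) (nat_lit 0) (nat_lit 0) (XT.lf (nat_lit 0) (nat_lit 3130030617) (nat_lit 228) (nat_lit 11879480617) (nat_lit 76) (nat_lit 3148063184) (nat_lit 22) (nat_lit 5) (nat_lit 25) (nat_lit 5) (nat_lit 23) (nat_lit 5) (nat_lit 286) (nat_lit 243) (nat_lit 191)) (XT.lf (nat_lit 0) (nat_lit 6269211770) (nat_lit 228) (nat_lit 4742400762) (nat_lit 76) (nat_lit 7803516145) (nat_lit 22) (nat_lit 5) (nat_lit 25) (nat_lit 5) (nat_lit 23) (nat_lit 5) (nat_lit 287) (nat_lit 243) (nat_lit 190))))))))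
noncomputable def xc120 : XT := (XT.nd (nat_lit 1326) (nat_lit 380) (nat_lit 0) (XT.nd (nat_lit 624) (nat_lit 380) (nat_lit 0) (XT.nd (nat_lit 312) (nat_lit 228) (nat_lit 0) (XT.nd (nat_lit 156) (nat_lit 76) (nat_lit 0) (XT.nd (nat_lit 78) (nat_lit 0) (nat_lit 0) (XT.lf (nat_lit 0) (nat_lit 2792045205) (nat_lit 152) (nat_lit 6785731515) (nat_lit 228) (nat_lit 9927218682) (nat_lit 20) (nat_lit 5) (nat_lit 22) (nat_lit 5) (nat_lit 23) (nat_lit 5) (nat_lit 288) (nat_lit 243) (nat_lit 189)) (XT.lf (nat_lit 0) (nat_lit 10819796071) (nat_lit 152) (nat_lit 2281855529) (nat_lit 228) (nat_lit 7125263099) (nat_lit 20) (nat_lit 5) (nat_lit 22) (nat_lit 5) (nat_lit 23) (nat_lit 5) (nat_lit 289) (nat_lit 243) (nat_lit 188))) (XT.nd (nat_lit 78) (nat_lit 76) (nat_lit 0) (XT.lf (nat_lit 0) (nat_lit 16810681986) (nat_lit 228) (nat_lit 1821215332) (nat_lit 76) (nat_lit 2352635337) (nat_lit 20) (nat_lit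 5) (nat_lit 23) (nat_lit 5) (nat_lit 21) (nat_lit 4) (nat_lit 290) (nat_lit 243) (nat_lit 187)) (XT.lf (nat_lit 0) (nat_lit 6262232909) (nat_lit 76) (nat_lit 14550256016) (nat_lit 152) (nat_lit 962224697) (nat_lit 19) (nat_lit 5) (nat_lit 20) (nat_lit 5) (nat_lit 21) (nat_lit 4) (nat_lit 291) (nat_lit 243) (nat_lit 186)))) (XT.nd (nat_lit 156) (nat_lit 0) (nat_lit 0) (XT.nd (nat_lit 78) (nat_lit 152) (nat_lit 0) (XT.lf (nat_lit 0) (nat_lit 2336491290) (nat_lit 152) (nat_lit 7872922741) (nat_lit 76) (nat_lit 12392969983) (nat_lit 18) (nat_lit 5) (nat_lit 20) (nat_lit 5) (nat_lit 19) (nat_lit 5) (nat_lit 292) (nat_lit 243) (nat_lit 185)) (XT.lf (nat_lit 0) (nat_lit 92946093) (nat_lit 152) (nat_lit 5649924807) (nat_lit 228) (nat_lit 17729066852) (nat_lit 16) (nat_lit 5) (nat_lit 18) (nat_lit 5) (nat_lit 19) (nat_lit 5) (nat_lit 293) (nat_lit 243) (nat_lit 184))) (XT.nd (nat_lit 78) (nat_lit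 0) (nat_lit 0) (XT.lf (nat_lit 0) (nat_lit 8688262168) (nat_lit 152) (nat_lit 738850812) (nat_lit 228) (nat_lit 14952518812) (nat_lit 16) (nat_lit 5) (nat_lit 18) (nat_lit 5) (nat_lit 19) (nat_lit 5) (nat_lit 294) (nat_lit 243) (nat_lit 183)) (XT.lf (nat_lit 0) (nat_lit 13339737108) (nat_lit 228) (nat_lit 7729530499) (nat_lit 76) (nat_lit 4261272324) (nat_lit 16) (nat_lit 5) (nat_lit 19) (nat_lit 5) (nat_lit 17) (nat_lit 4) (nat_lit 295) (nat_lit 243) (nat_lit 182))))) (XT.nd (nat_lit 312) (nat_lit 228) (nat_lit 0) (XT.nd (nat_lit 156) (nat_lit 76) (nat_lit 0) (XT.nd (nat_lit 78) (nat_lit 0) (nat_lit 0) (XT.lf (nat_lit 0) (nat_lit 598205898) (nat_lit 76) (nat_lit 16847615728) (nat_lit 152) (nat_lit 8883316481) (nat_lit 15) (nat_lit 5) (nat_lit 16) (nat_lit 5) (nat_lit 17) (nat_lit 4) (nat_lit 296) (nat_lit 243) (nat_lit 181)) (XT.lf (nat_lit 0) (nat_lit 9572084984) (nat_lit 76) (nat_lit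 12292928237) (nat_lit 152) (nat_lit 5507297202) (nat_lit 15) (nat_lit 5) (nat_lit 16) (nat_lit 5) (nat_lit 17) (nat_lit 4) (nat_lit 297) (nat_lit 243) (nat_lit 180))) (XT.nd (nat_lit 78) (nat_lit 76) (nat_lit 0) (XT.lf (nat_lit 0) (nat_lit 18957899949) (nat_lit 76) (nat_lit 7525263978) (nat_lit 152) (nat_lit 1985610184) (nat_lit 15) (nat_lit 5) (nat_lit 16) (nat_lit 5) (nat_lit 17) (nat_lit 4) (nat_lit 298) (nat_lit 243) (nat_lit 179)) (XT.lf (nat_lit 0) (nat_lit 1636034841) (nat_lit 152) (nat_lit 869529487) (nat_lit 76) (nat_lit 27114256090) (nat_lit 14) (nat_lit 5) (nat_lit 16) (nat_lit 5) (nat_lit 15) (nat_lit 5) (nat_lit 299) (nat_lit 243) (nat_lit 178)))) (XT.nd (nat_lit 156) (nat_lit 76) (nat_lit 0) (XT.nd (nat_lit 78) (nat_lit 0) (nat_lit 0) (XT.lf (nat_lit 0) (nat_lit 5528610404) (nat_lit 228) (nat_lit 22460568596) (nat_lit 76) (nat_lit 2829811877) (nat_lit 12) (nat_lit 5) (nat_lit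 15) (nat_lit 5) (nat_lit 13) (nat_lit 4) (nat_lit 300) (nat_lit 243) (nat_lit 177)) (XT.lf (nat_lit 0) (nat_lit 9651777507) (nat_lit 228) (nat_lit 14075039067) (nat_lit 76) (nat_lit 8349532080) (nat_lit 12) (nat_lit 5) (nat_lit 15) (nat_lit 5) (nat_lit 13) (nat_lit 4) (nat_lit 301) (nat_lit 243) (nat_lit 176))) (XT.nd (nat_lit 78) (nat_lit 76) (nat_lit 0) (XT.lf (nat_lit 0) (nat_lit 13961979750) (nat_lit 228) (nat_lit 5302898782) (nat_lit 76) (nat_lit 14132677595) (nat_lit 12) (nat_lit 5) (nat_lit 15) (nat_lit 5) (nat_lit 13) (nat_lit 4) (nat_lit 302) (nat_lit 243) (nat_lit 175)) (XT.nd (nat_lit 78) (nat_lit 0) (nat_lit 0) (XT.lf (nat_lit 0) (nat_lit 4004920780) (nat_lit 76) (nat_lit 14527086778) (nat_lit 152) (nat_lit 16250625071) (nat_lit 11) (nat_lit 5) (nat_lit 12) (nat_lit 5) (nat_lit 13) (nat_lit 4) (nat_lit 303) (nat_lit 243) (nat_lit 174)) (XT.lf (nat_lit 0) (nat_lit 13931627560)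 (nat_lit 76) (nat_lit 9470893151) (nat_lit 152) (nat_lit 12830866312) (nat_lit 11) (nat_lit 5) (nat_lit 12) (nat_lit 5) (nat_lit 13) (nat_lit 4) (nat_lit 304) (nat_lit 243) (nat_lit 173))))))) (XT.nd (nat_lit 702) (nat_lit 152) (nat_lit 0) (XT.nd (nat_lit 312) (nat_lit 76) (nat_lit 0) (XT.nd (nat_lit 156) (nat_lit 152) (nat_lit 0) (XT.nd (nat_lit 78) (nat_lit 0) (nat_lit 0) (XT.lf (nat_lit 0) (nat_lit 24325518790) (nat_lit 76) (nat_lit 4174066253) (nat_lit 152) (nat_lit 9257964973) (nat_lit 11) (nat_lit 5) (nat_lit 12) (nat_lit 5) (nat_lit 13) (nat_lit 4) (nat_lit 305) (nat_lit 243) (nat_lit 172)) (XT.lf (nat_lit 0) (nat_lit 33856819723) (nat_lit 152) (nat_lit 4168892040) (nat_lit 0) (nat_lit 1331964640) (nat_lit 11) (nat_lit 5) (nat_lit 13) (nat_lit 4) (nat_lit 11) (nat_lit 4) (nat_lit 306) (nat_lit 243) (nat_lit 171))) (XT.nd (nat_lit 78) (nat_lit 76) (nat_lit 0) (XT.lf (nat_lit 0)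 (nat_lit 5642514288) (nat_lit 76) (nat_lit 33980355839) (nat_lit 76) (nat_lit 1407911380) (nat_lit 10) (nat_lit 4) (nat_lit 11) (nat_lit 5) (nat_lit 11) (nat_lit 4) (nat_lit 307) (nat_lit 243) (nat_lit 170)) (XT.lf (nat_lit 0) (nat_lit 2853441490) (nat_lit 152) (nat_lit 26768212619) (nat_lit 76) (nat_lit 13160837777) (nat_lit 9) (nat_lit 5) (nat_lit 11) (nat_lit 5) (nat_lit 10) (nat_lit 4) (nat_lit 308) (nat_lit 243) (nat_lit 169)))) (XT.nd (nat_lit 156) (nat_lit 76) (nat_lit 0) (XT.nd (nat_lit 78) (nat_lit 0) (nat_lit 0) (XT.lf (nat_lit 0) (nat_lit 7265774122) (nat_lit 152) (nat_lit 17766095690) (nat_lit 76) (nat_lit 19589519946) (nat_lit 9) (nat_lit 5) (nat_lit 11) (nat_lit 5) (nat_lit 10) (nat_lit 4) (nat_lit 309) (nat_lit 243) (nat_lit 168)) (XT.lf (nat_lit 0) (nat_lit 11884654027) (nat_lit 152) (nat_lit 8338501377) (nat_lit 76) (nat_lit 26329797121) (nat_lit 9) (nat_lit 5) (nat_lit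 11) (nat_lit 5) (nat_lit 10) (nat_lit 4) (nat_lit 310) (nat_lit 243) (nat_lit 167))) (XT.nd (nat_lit 78) (nat_lit 0) (nat_lit 0) (XT.lf (nat_lit 0) (nat_lit 1587837694) (nat_lit 76) (nat_lit 15158031439) (nat_lit 152) (nat_lit 31834670483) (nat_lit 8) (nat_lit 5) (nat_lit 9) (nat_lit 5) (nat_lit 10) (nat_lit 4) (nat_lit 311) (nat_lit 243) (nat_lit 166)) (XT.nd (nat_lit 78) (nat_lit 0) (nat_lit 0) (XT.lf (nat_lit 0) (nat_lit 12276910296) (nat_lit 76) (nat_lit 9701329629) (nat_lit 152) (nat_lit 28724876387) (nat_lit 8) (nat_lit 5) (nat_lit 9) (nat_lit 5) (nat_lit 10) (nat_lit 4) (nat_lit 312) (nat_lit 243) (nat_lit 165)) (XT.lf (nat_lit 0) (nat_lit 23478458088) (nat_lit 76) (nat_lit 3981274382) (nat_lit 152) (nat_lit 25472728493) (nat_lit 8) (nat_lit 5) (nat_lit 9) (nat_lit 5) (nat_lit 10) (nat_lit 4) (nat_lit 313) (nat_lit 243) (nat_lit 164)))))) (XT.nd (nat_lit 312) (nat_lit 76) (nat_lit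 0) (XT.nd (nat_lit 156) (nat_lit 76) (nat_lit 0) (XT.nd (nat_lit 78) (nat_lit 0) (nat_lit 0) (XT.lf (nat_lit 0) (nat_lit 33234869502) (nat_lit 152) (nat_lit 20086201673) (nat_lit 0) (nat_lit 1951236781) (nat_lit 8) (nat_lit 5) (nat_lit 10) (nat_lit 4) (nat_lit 8) (nat_lit 4) (nat_lit 314) (nat_lit 243) (nat_lit 163)) (XT.lf (nat_lit 0) (nat_lit 39352560953) (nat_lit 152) (nat_lit 10335657727) (nat_lit 0) (nat_lit 8038251695) (nat_lit 8) (nat_lit 5) (nat_lit 10) (nat_lit 4) (nat_lit 8) (nat_lit 4) (nat_lit 315) (nat_lit 243) (nat_lit 162))) (XT.nd (nat_lit 78) (nat_lit 76) (nat_lit 0) (XT.lf (nat_lit 0) (nat_lit 45765213904) (nat_lit 152) (nat_lit 116996604) (nat_lit 0) (nat_lit 14421688898) (nat_lit 8) (nat_lit 5) (nat_lit 10) (nat_lit 4) (nat_lit 8) (nat_lit 4) (nat_lit 316) (nat_lit 243) (nat_lit 161)) (XT.lf (nat_lit 0) (nat_lit 10944401021) (nat_lit 76) (nat_lit 41714568327) (nat_lit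 76) (nat_lit 10343218798) (nat_lit 7) (nat_lit 4) (nat_lit 8) (nat_lit 5) (nat_lit 8) (nat_lit 4) (nat_lit 317) (nat_lit 243) (nat_lit 160)))) (XT.nd (nat_lit 156) (nat_lit 76) (nat_lit 0) (XT.nd (nat_lit 78) (nat_lit 0) (nat_lit 0) (XT.lf (nat_lit 0) (nat_lit 22544742809) (nat_lit 76) (nat_lit 37344459642) (nat_lit 76) (nat_lit 5946610568) (nat_lit 7) (nat_lit 4) (nat_lit 8) (nat_lit 5) (nat_lit 8) (nat_lit 4) (nat_lit 318) (nat_lit 243) (nat_lit 159)) (XT.lf (nat_lit 0) (nat_lit 34707780183) (nat_lit 76) (nat_lit 32763460827) (nat_lit 76) (nat_lit 1340374091) (nat_lit 7) (nat_lit 4) (nat_lit 8) (nat_lit 5) (nat_lit 8) (nat_lit 4) (nat_lit 319) (nat_lit 243) (nat_lit 158))) (XT.nd (nat_lit 78) (nat_lit 0) (nat_lit 0) (XT.lf (nat_lit 0) (nat_lit 3374869435) (nat_lit 152) (nat_lit 24528640261) (nat_lit 76) (nat_lit 44030448274) (nat_lit 6) (nat_lit 5) (nat_lit 8) (nat_lit 5) (nat_lit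 7) (nat_lit 4) (nat_lit 320) (nat_lit 243) (nat_lit 157)) (XT.nd (nat_lit 78) (nat_lit 0) (nat_lit 0) (XT.lf (nat_lit 0) (nat_lit 8271872291) (nat_lit 152) (nat_lit 14512675711) (nat_lit 76) (nat_lit 52427228395) (nat_lit 6) (nat_lit 5) (nat_lit 8) (nat_lit 5) (nat_lit 7) (nat_lit 4) (nat_lit 321) (nat_lit 243) (nat_lit 156)) (XT.lf (nat_lit 0) (nat_lit 13405194347) (nat_lit 152) (nat_lit 4011166737) (nat_lit 76) (nat_lit 61237559975) (nat_lit 6) (nat_lit 5) (nat_lit 8) (nat_lit 5) (nat_lit 7) (nat_lit 4) (nat_lit 322) (nat_lit 243) (nat_lit 155))))))))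
noncomputable def xc121 : XT := (XT.nd (nat_lit 1326) (nat_lit 152) (nat_lit 0) (XT.nd (nat_lit 624) (nat_lit 76) (nat_lit 0) (XT.nd (nat_lit 312) (nat_lit 0) (nat_lit 0) (XT.nd (nat_lit 156) (nat_lit 0) (nat_lit 0) (XT.nd (nat_lit 78) (nat_lit 0) (nat_lit 0) (XT.lf (nat_lit 0) (nat_lit 7232371300) (nat_lit 76) (nat_lit 11667604083) (nat_lit 152) (nat_lit 63362966278) (nat_lit 5) (nat_lit 5) (nat_lit 6) (nat_lit 5) (nat_lit 7) (nat_lit 4) (nat_lit 323) (nat_lit 243) (nat_lit 154)) (XT.lf (nat_lit 0) (nat_lit 19163051772) (nat_lit 76) (nat_lit 5566413777) (nat_lit 152) (nat_lit 61319957192) (nat_lit 5) (nat_lit 5) (nat_lit 6) (nat_lit 5) (nat_lit 7) (nat_lit 4) (nat_lit 324) (nat_lit 243) (nat_lit 153))) (XT.nd (nat_lit 78) (nat_lit 0) (nat_lit 0) (XT.lf (nat_lit 0) (nat_lit 30855866386) (nat_lit 152) (nat_lit 58361978812) (nat_lit 0) (nat_lit 807118445) (nat_lit 5) (nat_lit 5) (nat_lit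 7) (nat_lit 4) (nat_lit 5) (nat_lit 4) (nat_lit 325) (nat_lit 243) (nat_lit 152)) (XT.lf (nat_lit 0) (nat_lit 37372529441) (nat_lit 152) (nat_lit 49515862595) (nat_lit 0) (nat_lit 7306699657) (nat_lit 5) (nat_lit 5) (nat_lit 7) (nat_lit 4) (nat_lit 5) (nat_lit 4) (nat_lit 326) (nat_lit 243) (nat_lit 151)))) (XT.nd (nat_lit 156) (nat_lit 0) (nat_lit 0) (XT.nd (nat_lit 78) (nat_lit 0) (nat_lit 0) (XT.lf (nat_lit 0) (nat_lit 44208063261) (nat_lit 152) (nat_lit 40240052819) (nat_lit 0) (nat_lit 14125965055) (nat_lit 5) (nat_lit 5) (nat_lit 7) (nat_lit 4) (nat_lit 5) (nat_lit 4) (nat_lit 327) (nat_lit 243) (nat_lit 150)) (XT.lf (nat_lit 0) (nat_lit 51378742926) (nat_lit 152) (nat_lit 30512464223) (nat_lit 0) (nat_lit 21281150985) (nat_lit 5) (nat_lit 5) (nat_lit 7) (nat_lit 4) (nat_lit 5) (nat_lit 4) (nat_lit 328) (nat_lit 243) (nat_lit 149))) (XT.nd (nat_lit 78) (nat_lit 0) (nat_lit 0)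 (XT.lf (nat_lit 0) (nat_lit 58901641483) (nat_lit 152) (nat_lit 20309935882) (nat_lit 0) (nat_lit 28789293604) (nat_lit 5) (nat_lit 5) (nat_lit 7) (nat_lit 4) (nat_lit 5) (nat_lit 4) (nat_lit 329) (nat_lit 243) (nat_lit 148)) (XT.lf (nat_lit 0) (nat_lit 66794670596) (nat_lit 152) (nat_lit 9608176061) (nat_lit 0) (nat_lit 36668269442) (nat_lit 5) (nat_lit 5) (nat_lit 7) (nat_lit 4) (nat_lit 5) (nat_lit 4) (nat_lit 330) (nat_lit 243) (nat_lit 147))))) (XT.nd (nat_lit 312) (nat_lit 0) (nat_lit 0) (XT.nd (nat_lit 156) (nat_lit 0) (nat_lit 0) (XT.nd (nat_lit 78) (nat_lit 0) (nat_lit 0) (XT.lf (nat_lit 0) (nat_lit 1671803780) (nat_lit 76) (nat_lit 73430920952) (nat_lit 76) (nat_lit 43291135727) (nat_lit 4) (nat_lit 4) (nat_lit 5) (nat_lit 5) (nat_lit 5) (nat_lit 4) (nat_lit 331) (nat_lit 243) (nat_lit 146)) (XT.lf (nat_lit 0) (nat_lit 13839148018) (nat_lit 76) (nat_lit 70144138068) (nat_lit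 76) (nat_lit 39991606109) (nat_lit 4) (nat_lit 4) (nat_lit 5) (nat_lit 5) (nat_lit 5) (nat_lit 4) (nat_lit 332) (nat_lit 243) (nat_lit 145))) (XT.nd (nat_lit 78) (nat_lit 0) (nat_lit 0) (XT.lf (nat_lit 0) (nat_lit 26605136825) (nat_lit 76) (nat_lit 66697391443) (nat_lit 76) (nat_lit 36532719737) (nat_lit 4) (nat_lit 4) (nat_lit 5) (nat_lit 5) (nat_lit 5) (nat_lit 4) (nat_lit 333) (nat_lit 243) (nat_lit 144)) (XT.lf (nat_lit 0) (nat_lit 40000165414) (nat_lit 76) (nat_lit 63082474537) (nat_lit 76) (nat_lit 32906241167) (nat_lit 4) (nat_lit 4) (nat_lit 5) (nat_lit 5) (nat_lit 5) (nat_lit 4) (nat_lit 334) (nat_lit 243) (nat_lit 143)))) (XT.nd (nat_lit 156) (nat_lit 0) (nat_lit 0) (XT.nd (nat_lit 78) (nat_lit 0) (nat_lit 0) (XT.lf (nat_lit 0) (nat_lit 54056126710) (nat_lit 76) (nat_lit 59290780406) (nat_lit 76) (nat_lit 29103535927) (nat_lit 4) (nat_lit 4) (nat_lit 5) (nat_lit 5) (nat_lit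 5) (nat_lit 4) (nat_lit 335) (nat_lit 243) (nat_lit 142)) (XT.lf (nat_lit 0) (nat_lit 68806487287) (nat_lit 76) (nat_lit 55313281205) (nat_lit 76) (nat_lit 25115549957) (nat_lit 4) (nat_lit 4) (nat_lit 5) (nat_lit 5) (nat_lit 5) (nat_lit 4) (nat_lit 336) (nat_lit 243) (nat_lit 141))) (XT.nd (nat_lit 78) (nat_lit 0) (nat_lit 0) (XT.lf (nat_lit 0) (nat_lit 84286367050) (nat_lit 76) (nat_lit 51140506700) (nat_lit 76) (nat_lit 20932788052) (nat_lit 4) (nat_lit 4) (nat_lit 5) (nat_lit 5) (nat_lit 5) (nat_lit 4) (nat_lit 337) (nat_lit 243) (nat_lit 140)) (XT.nd (nat_lit 78) (nat_lit 0) (nat_lit 0) (XT.lf (nat_lit 0) (nat_lit 100532622858) (nat_lit 76) (nat_lit 46762521712) (nat_lit 76) (nat_lit 16545291255) (nat_lit 4) (nat_lit 4) (nat_lit 5) (nat_lit 5) (nat_lit 5) (nat_lit 4) (nat_lit 338) (nat_lit 243) (nat_lit 139)) (XT.lf (nat_lit 0) (nat_lit 117583936271) (nat_lit 76) (nat_lit 42168902468)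 (nat_lit 76) (nat_lit 11942613145) (nat_lit 4) (nat_lit 4) (nat_lit 5) (nat_lit 5) (nat_lit 5) (nat_lit 4) (nat_lit 339) (nat_lit 243) (nat_lit 138))))))) (XT.nd (nat_lit 702) (nat_lit 0) (nat_lit 0) (XT.nd (nat_lit 312) (nat_lit 76) (nat_lit 0) (XT.nd (nat_lit 156) (nat_lit 76) (nat_lit 0) (XT.nd (nat_lit 78) (nat_lit 0) (nat_lit 0) (XT.lf (nat_lit 0) (nat_lit 135480905655) (nat_lit 76) (nat_lit 37348711780) (nat_lit 76) (nat_lit 7113794964) (nat_lit 4) (nat_lit 4) (nat_lit 5) (nat_lit 5) (nat_lit 5) (nat_lit 4) (nat_lit 340) (nat_lit 243) (nat_lit 137)) (XT.lf (nat_lit 0) (nat_lit 154266142841) (nat_lit 76) (nat_lit 32290473001) (nat_lit 76) (nat_lit 2047339528) (nat_lit 4) (nat_lit 4) (nat_lit 5) (nat_lit 5) (nat_lit 5) (nat_lit 4) (nat_lit 341) (nat_lit 243) (nat_lit 136))) (XT.nd (nat_lit 78) (nat_lit 0) (nat_lit 0) (XT.lf (nat_lit 0) (nat_lit 3164193623) (nat_lit 152) (nat_lit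 23764361935) (nat_lit 76) (nat_lit 170766593811) (nat_lit 3) (nat_lit 5) (nat_lit 5) (nat_lit 5) (nat_lit 4) (nat_lit 4) (nat_lit 342) (nat_lit 243) (nat_lit 135)) (XT.lf (nat_lit 0) (nat_lit 8564159796) (nat_lit 152) (nat_lit 12701884032) (nat_lit 76) (nat_lit 185973351070) (nat_lit 3) (nat_lit 5) (nat_lit 5) (nat_lit 5) (nat_lit 4) (nat_lit 4) (nat_lit 343) (nat_lit 243) (nat_lit 134)))) (XT.nd (nat_lit 156) (nat_lit 0) (nat_lit 0) (XT.nd (nat_lit 78) (nat_lit 76) (nat_lit 0) (XT.lf (nat_lit 0) (nat_lit 14230943703) (nat_lit 152) (nat_lit 1092074880) (nat_lit 76) (nat_lit 201937996003) (nat_lit 3) (nat_lit 5) (nat_lit 5) (nat_lit 5) (nat_lit 4) (nat_lit 4) (nat_lit 344) (nat_lit 243) (nat_lit 133)) (XT.lf (nat_lit 0) (nat_lit 11459482943) (nat_lit 76) (nat_lit 8897469389) (nat_lit 152) (nat_lit 207417971370) (nat_lit 2) (nat_lit 5) (nat_lit 3) (nat_lit 5) (nat_lit 4) (nat_lit 4) (nat_lit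 345) (nat_lit 243) (nat_lit 132))) (XT.nd (nat_lit 78) (nat_lit 0) (nat_lit 0) (XT.lf (nat_lit 0) (nat_lit 24671105207) (nat_lit 76) (nat_lit 2133681384) (nat_lit 152) (nat_lit 212008968012) (nat_lit 2) (nat_lit 5) (nat_lit 3) (nat_lit 5) (nat_lit 4) (nat_lit 4) (nat_lit 346) (nat_lit 243) (nat_lit 131)) (XT.nd (nat_lit 78) (nat_lit 0) (nat_lit 0) (XT.lf (nat_lit 0) (nat_lit 33649716828) (nat_lit 152) (nat_lit 211944064170) (nat_lit 0) (nat_lit 4807013302) (nat_lit 2) (nat_lit 5) (nat_lit 4) (nat_lit 4) (nat_lit 2) (nat_lit 4) (nat_lit 347) (nat_lit 243) (nat_lit 130)) (XT.lf (nat_lit 0) (nat_lit 40869143618) (nat_lit 152) (nat_lit 209675553478) (nat_lit 0) (nat_lit 12020878734) (nat_lit 2) (nat_lit 5) (nat_lit 4) (nat_lit 4) (nat_lit 2) (nat_lit 4) (nat_lit 348) (nat_lit 243) (nat_lit 129)))))) (XT.nd (nat_lit 312) (nat_lit 0) (nat_lit 0) (XT.nd (nat_lit 156) (nat_lit 0) (nat_lit 0)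 (XT.nd (nat_lit 78) (nat_lit 0) (nat_lit 0) (XT.lf (nat_lit 0) (nat_lit 48446943326) (nat_lit 152) (nat_lit 207298403357) (nat_lit 0) (nat_lit 19593381911) (nat_lit 2) (nat_lit 5) (nat_lit 4) (nat_lit 4) (nat_lit 2) (nat_lit 4) (nat_lit 349) (nat_lit 243) (nat_lit 128)) (XT.lf (nat_lit 0) (nat_lit 56401158333) (nat_lit 152) (nat_lit 204806953926) (nat_lit 0) (nat_lit 27542552602) (nat_lit 2) (nat_lit 5) (nat_lit 4) (nat_lit 4) (nat_lit 2) (nat_lit 4) (nat_lit 350) (nat_lit 243) (nat_lit 127))) (XT.nd (nat_lit 78) (nat_lit 0) (nat_lit 0) (XT.lf (nat_lit 0) (nat_lit 64750727245) (nat_lit 152) (nat_lit 202195273162) (nat_lit 0) (nat_lit 35887317404) (nat_lit 2) (nat_lit 5) (nat_lit 4) (nat_lit 4) (nat_lit 2) (nat_lit 4) (nat_lit 351) (nat_lit 243) (nat_lit 126)) (XT.lf (nat_lit 0) (nat_lit 73515529989) (nat_lit 152) (nat_lit 199457142778) (nat_lit 0) (nat_lit 44647544805) (nat_lit 2) (nat_lit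 5) (nat_lit 4) (nat_lit 4) (nat_lit 2) (nat_lit 4) (nat_lit 352) (nat_lit 243) (nat_lit 125)))) (XT.nd (nat_lit 156) (nat_lit 0) (nat_lit 0) (XT.nd (nat_lit 78) (nat_lit 0) (nat_lit 0) (XT.lf (nat_lit 0) (nat_lit 82716435143) (nat_lit 152) (nat_lit 196586043416) (nat_lit 0) (nat_lit 53844092489) (nat_lit 2) (nat_lit 5) (nat_lit 4) (nat_lit 4) (nat_lit 2) (nat_lit 4) (nat_lit 353) (nat_lit 243) (nat_lit 124)) (XT.lf (nat_lit 0) (nat_lit 92375349623) (nat_lit 152) (nat_lit 193575139125) (nat_lit 0) (nat_lit 63498856998) (nat_lit 2) (nat_lit 5) (nat_lit 4) (nat_lit 4) (nat_lit 2) (nat_lit 4) (nat_lit 354) (nat_lit 243) (nat_lit 123))) (XT.nd (nat_lit 78) (nat_lit 0) (nat_lit 0) (XT.lf (nat_lit 0) (nat_lit 102515270845) (nat_lit 152) (nat_lit 190417261085) (nat_lit 0) (nat_lit 73634825867) (nat_lit 2) (nat_lit 5) (nat_lit 4) (nat_lit 4) (nat_lit 2) (nat_lit 4) (nat_lit 355) (nat_lit 243)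 (nat_lit 122)) (XT.nd (nat_lit 78) (nat_lit 0) (nat_lit 0) (XT.lf (nat_lit 0) (nat_lit 113160341479) (nat_lit 152) (nat_lit 187104890540) (nat_lit 0) (nat_lit 84276132355) (nat_lit 2) (nat_lit 5) (nat_lit 4) (nat_lit 4) (nat_lit 2) (nat_lit 4) (nat_lit 356) (nat_lit 243) (nat_lit 121)) (XT.lf (nat_lit 0) (nat_lit 124335906931) (nat_lit 152) (nat_lit 183630140891) (nat_lit 0) (nat_lit 95448112906) (nat_lit 2) (nat_lit 5) (nat_lit 4) (nat_lit 4) (nat_lit 2) (nat_lit 4) (nat_lit 357) (nat_lit 243) (nat_lit 120))))))))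
noncomputable def xc122 : XT := (XT.nd (nat_lit 29718) (nat_lit 0) (nat_lit 2508) (XT.nd (nat_lit 29016) (nat_lit 0) (nat_lit 6384) (XT.nd (nat_lit 28704) (nat_lit 0) (nat_lit 7828) (XT.nd (nat_lit 156) (nat_lit 0) (nat_lit 0) (XT.nd (nat_lit 78) (nat_lit 0) (nat_lit 0) (XT.lf (nat_lit 0) (nat_lit 136068575690) (nat_lit 152) (nat_lit 179984738927) (nat_lit 0) (nat_lit 107177367473) (nat_lit 2) (nat_lit 5) (nat_lit 4) (nat_lit 4) (nat_lit 2) (nat_lit 4) (nat_lit 358) (nat_lit 243) (nat_lit 119)) (XT.lf (nat_lit 0) (nat_lit 148386282681) (nat_lit 152) (nat_lit 176160005118) (nat_lit 0) (nat_lit 119491822854) (nat_lit 2) (nat_lit 5) (nat_lit 4) (nat_lit 4) (nat_lit 2) (nat_lit 4) (nat_lit 359) (nat_lit 243) (nat_lit 118))) (XT.nd (nat_lit 28470) (nat_lit 0) (nat_lit 8132) (XT.lf (nat_lit 0) (nat_lit 161318355779) (nat_lit 152) (nat_lit 172146832956) (nat_lit 0) (nat_lit 132420799180) (nat_lit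 2) (nat_lit 5) (nat_lit 4) (nat_lit 4) (nat_lit 2) (nat_lit 4) (nat_lit 360) (nat_lit 243) (nat_lit 117)) (XT.lf (nat_lit 0) (nat_lit 199330425) (nat_lit 380) (nat_lit 1559015012) (nat_lit 380) (nat_lit 1559015012) (nat_lit 109) (nat_lit 3) (nat_lit 114) (nat_lit 3) (nat_lit 114) (nat_lit 5) (nat_lit 244) (nat_lit 244) (nat_lit 232)))) (XT.nd (nat_lit 156) (nat_lit 304) (nat_lit 0) (XT.nd (nat_lit 78) (nat_lit 0) (nat_lit 0) (XT.lf (nat_lit 0) (nat_lit 2479126100) (nat_lit 380) (nat_lit 183000215) (nat_lit 380) (nat_lit 4024907904) (nat_lit 109) (nat_lit 3) (nat_lit 114) (nat_lit 3) (nat_lit 114) (nat_lit 5) (nat_lit 245) (nat_lit 244) (nat_lit 231)) (XT.lf (nat_lit 76) (nat_lit 2922413208) (nat_lit 0) (nat_lit 1654290684) (nat_lit 380) (nat_lit 2170246879) (nat_lit 110) (nat_lit 5) (nat_lit 109) (nat_lit 3) (nat_lit 114) (nat_lit 5) (nat_lit 246) (nat_lit 244) (nat_lit 230))) (XT.nd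 (nat_lit 78) (nat_lit 304) (nat_lit 0) (XT.lf (nat_lit 76) (nat_lit 6120674781) (nat_lit 0) (nat_lit 534284749) (nat_lit 380) (nat_lit 161725130) (nat_lit 110) (nat_lit 5) (nat_lit 109) (nat_lit 3) (nat_lit 114) (nat_lit 5) (nat_lit 247) (nat_lit 244) (nat_lit 229)) (XT.lf (nat_lit 0) (nat_lit 1813258168) (nat_lit 380) (nat_lit 4334463740) (nat_lit 456) (nat_lit 744799928) (nat_lit 105) (nat_lit 5) (nat_lit 110) (nat_lit 5) (nat_lit 111) (nat_lit 5) (nat_lit 248) (nat_lit 244) (nat_lit 228))))) (XT.nd (nat_lit 312) (nat_lit 988) (nat_lit 0) (XT.nd (nat_lit 156) (nat_lit 456) (nat_lit 0) (XT.nd (nat_lit 78) (nat_lit 0) (nat_lit 0) (XT.lf (nat_lit 0) (nat_lit 3784102465) (nat_lit 380) (nat_lit 1060445193) (nat_lit 456) (nat_lit 2132871510) (nat_lit 105) (nat_lit 5) (nat_lit 110) (nat_lit 5) (nat_lit 111) (nat_lit 5) (nat_lit 249) (nat_lit 244) (nat_lit 227)) (XT.lf (nat_lit 76) (nat_lit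 2380834110) (nat_lit 0) (nat_lit 3397262161) (nat_lit 456) (nat_lit 1292737776) (nat_lit 106) (nat_lit 5) (nat_lit 105) (nat_lit 5) (nat_lit 111) (nat_lit 5) (nat_lit 250) (nat_lit 244) (nat_lit 226))) (XT.nd (nat_lit 78) (nat_lit 0) (nat_lit 0) (XT.lf (nat_lit 0) (nat_lit 588068087) (nat_lit 456) (nat_lit 1223878217) (nat_lit 532) (nat_lit 5361496245) (nat_lit 99) (nat_lit 5) (nat_lit 105) (nat_lit 5) (nat_lit 106) (nat_lit 5) (nat_lit 251) (nat_lit 244) (nat_lit 225)) (XT.lf (nat_lit 76) (nat_lit 2399162530) (nat_lit 0) (nat_lit 52470289) (nat_lit 532) (nat_lit 4832315437) (nat_lit 100) (nat_lit 5) (nat_lit 99) (nat_lit 5) (nat_lit 106) (nat_lit 5) (nat_lit 252) (nat_lit 244) (nat_lit 224)))) (XT.nd (nat_lit 156) (nat_lit 608) (nat_lit 0) (XT.nd (nat_lit 78) (nat_lit 456) (nat_lit 0) (XT.lf (nat_lit 0) (nat_lit 4356558096) (nat_lit 456) (nat_lit 1258243920) (nat_lit 76) (nat_lit 1788181975)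 (nat_lit 100) (nat_lit 5) (nat_lit 106) (nat_lit 5) (nat_lit 101) (nat_lit 5) (nat_lit 253) (nat_lit 244) (nat_lit 223)) (XT.lf (nat_lit 0) (nat_lit 2557494726) (nat_lit 456) (nat_lit 3743920823) (nat_lit 532) (nat_lit 1229715818) (nat_lit 94) (nat_lit 5) (nat_lit 100) (nat_lit 5) (nat_lit 101) (nat_lit 5) (nat_lit 254) (nat_lit 244) (nat_lit 222))) (XT.nd (nat_lit 78) (nat_lit 532) (nat_lit 0) (XT.lf (nat_lit 0) (nat_lit 583260217) (nat_lit 532) (nat_lit 1143278751) (nat_lit 76) (nat_lit 5942619248) (nat_lit 93) (nat_lit 5) (nat_lit 100) (nat_lit 5) (nat_lit 94) (nat_lit 5) (nat_lit 255) (nat_lit 244) (nat_lit 221)) (XT.nd (nat_lit 78) (nat_lit 0) (nat_lit 0) (XT.lf (nat_lit 0) (nat_lit 2407939281) (nat_lit 608) (nat_lit 4944402710) (nat_lit 76) (nat_lit 462957897) (nat_lit 86) (nat_lit 5) (nat_lit 94) (nat_lit 5) (nat_lit 87) (nat_lit 5) (nat_lit 256) (nat_lit 244) (nat_lit 220))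 (XT.lf (nat_lit 0) (nat_lit 4285240277) (nat_lit 608) (nat_lit 946526075) (nat_lit 76) (nat_lit 2739237163) (nat_lit 86) (nat_lit 5) (nat_lit 94) (nat_lit 5) (nat_lit 87) (nat_lit 5) (nat_lit 257) (nat_lit 244) (nat_lit 219))))))) (XT.nd (nat_lit 702) (nat_lit 1444) (nat_lit 0) (XT.nd (nat_lit 312) (nat_lit 1064) (nat_lit 0) (XT.nd (nat_lit 156) (nat_lit 760) (nat_lit 0) (XT.nd (nat_lit 78) (nat_lit 0) (nat_lit 0) (XT.lf (nat_lit 0) (nat_lit 3284366373) (nat_lit 608) (nat_lit 2940846371) (nat_lit 684) (nat_lit 1911148086) (nat_lit 78) (nat_lit 5) (nat_lit 86) (nat_lit 5) (nat_lit 87) (nat_lit 5) (nat_lit 258) (nat_lit 244) (nat_lit 218)) (XT.lf (nat_lit 0) (nat_lit 7688827701) (nat_lit 608) (nat_lit 509735531) (nat_lit 684) (nat_lit 114897929) (nat_lit 78) (nat_lit 5) (nat_lit 86) (nat_lit 5) (nat_lit 87) (nat_lit 5) (nat_lit 259) (nat_lit 244) (nat_lit 217))) (XT.nd (nat_lit 78) (nat_lit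 0) (nat_lit 0) (XT.lf (nat_lit 0) (nat_lit 1730484434) (nat_lit 760) (nat_lit 4693588031) (nat_lit 76) (nat_lit 2073427777) (nat_lit 68) (nat_lit 5) (nat_lit 78) (nat_lit 5) (nat_lit 69) (nat_lit 5) (nat_lit 260) (nat_lit 244) (nat_lit 216)) (XT.lf (nat_lit 0) (nat_lit 3608702800) (nat_lit 760) (nat_lit 298289878) (nat_lit 76) (nat_lit 4786687083) (nat_lit 68) (nat_lit 5) (nat_lit 78) (nat_lit 5) (nat_lit 69) (nat_lit 5) (nat_lit 261) (nat_lit 244) (nat_lit 215)))) (XT.nd (nat_lit 156) (nat_lit 380) (nat_lit 0) (XT.nd (nat_lit 78) (nat_lit 380) (nat_lit 0) (XT.lf (nat_lit 0) (nat_lit 4387451165) (nat_lit 304) (nat_lit 1190757516) (nat_lit 380) (nat_lit 3321832719) (nat_lit 64) (nat_lit 5) (nat_lit 68) (nat_lit 5) (nat_lit 69) (nat_lit 5) (nat_lit 262) (nat_lit 244) (nat_lit 214)) (XT.lf (nat_lit 0) (nat_lit 106457115) (nat_lit 380) (nat_lit 7503661256) (nat_lit 456) (nat_lit 1508636778)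 (nat_lit 59) (nat_lit 5) (nat_lit 64) (nat_lit 5) (nat_lit 65) (nat_lit 5) (nat_lit 263) (nat_lit 244) (nat_lit 213))) (XT.nd (nat_lit 78) (nat_lit 304) (nat_lit 0) (XT.lf (nat_lit 0) (nat_lit 411821369) (nat_lit 456) (nat_lit 4331989742) (nat_lit 76) (nat_lit 4603031382) (nat_lit 58) (nat_lit 5) (nat_lit 64) (nat_lit 5) (nat_lit 59) (nat_lit 5) (nat_lit 264) (nat_lit 244) (nat_lit 212)) (XT.nd (nat_lit 78) (nat_lit 0) (nat_lit 0) (XT.lf (nat_lit 0) (nat_lit 503639779) (nat_lit 304) (nat_lit 1817116773) (nat_lit 380) (nat_lit 7267382428) (nat_lit 54) (nat_lit 5) (nat_lit 58) (nat_lit 5) (nat_lit 59) (nat_lit 5) (nat_lit 265) (nat_lit 244) (nat_lit 211)) (XT.lf (nat_lit 0) (nat_lit 4356512137) (nat_lit 380) (nat_lit 4199374356) (nat_lit 76) (nat_lit 1284234708) (nat_lit 54) (nat_lit 5) (nat_lit 59) (nat_lit 5) (nat_lit 55) (nat_lit 5) (nat_lit 266) (nat_lit 244) (nat_lit 210)))))) (XT.nd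 (nat_lit 312) (nat_lit 836) (nat_lit 0) (XT.nd (nat_lit 156) (nat_lit 304) (nat_lit 0) (XT.nd (nat_lit 78) (nat_lit 0) (nat_lit 0) (XT.lf (nat_lit 0) (nat_lit 858968421) (nat_lit 304) (nat_lit 5618475639) (nat_lit 380) (nat_lit 3628269610) (nat_lit 50) (nat_lit 5) (nat_lit 54) (nat_lit 5) (nat_lit 55) (nat_lit 5) (nat_lit 267) (nat_lit 244) (nat_lit 209)) (XT.lf (nat_lit 0) (nat_lit 6248388010) (nat_lit 304) (nat_lit 2469134069) (nat_lit 380) (nat_lit 1666580677) (nat_lit 50) (nat_lit 5) (nat_lit 54) (nat_lit 5) (nat_lit 55) (nat_lit 5) (nat_lit 268) (nat_lit 244) (nat_lit 208))) (XT.nd (nat_lit 78) (nat_lit 0) (nat_lit 0) (XT.lf (nat_lit 0) (nat_lit 356297298) (nat_lit 304) (nat_lit 9494873441) (nat_lit 76) (nat_lit 826305132) (nat_lit 46) (nat_lit 5) (nat_lit 50) (nat_lit 5) (nat_lit 47) (nat_lit 5) (nat_lit 269) (nat_lit 244) (nat_lit 207)) (XT.lf (nat_lit 0) (nat_lit 2481151196)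 (nat_lit 304) (nat_lit 4208617953) (nat_lit 76) (nat_lit 4291688992) (nat_lit 46) (nat_lit 5) (nat_lit 50) (nat_lit 5) (nat_lit 47) (nat_lit 5) (nat_lit 270) (nat_lit 244) (nat_lit 206)))) (XT.nd (nat_lit 156) (nat_lit 532) (nat_lit 0) (XT.nd (nat_lit 78) (nat_lit 0) (nat_lit 0) (XT.lf (nat_lit 0) (nat_lit 1319345541) (nat_lit 304) (nat_lit 3361285617) (nat_lit 380) (nat_lit 6621730675) (nat_lit 42) (nat_lit 5) (nat_lit 46) (nat_lit 5) (nat_lit 47) (nat_lit 5) (nat_lit 271) (nat_lit 244) (nat_lit 205)) (XT.lf (nat_lit 0) (nat_lit 7013686075) (nat_lit 380) (nat_lit 4435434131) (nat_lit 76) (nat_lit 189145195) (nat_lit 42) (nat_lit 5) (nat_lit 47) (nat_lit 5) (nat_lit 43) (nat_lit 5) (nat_lit 272) (nat_lit 244) (nat_lit 204))) (XT.nd (nat_lit 78) (nat_lit 304) (nat_lit 0) (XT.lf (nat_lit 0) (nat_lit 1313361350) (nat_lit 228) (nat_lit 8177137176) (nat_lit 304) (nat_lit 2499238707) (nat_lit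 39) (nat_lit 5) (nat_lit 42) (nat_lit 5) (nat_lit 43) (nat_lit 5) (nat_lit 273) (nat_lit 244) (nat_lit 203)) (XT.nd (nat_lit 78) (nat_lit 304) (nat_lit 0) (XT.lf (nat_lit 0) (nat_lit 7441504072) (nat_lit 228) (nat_lit 4677600681) (nat_lit 304) (nat_lit 238402461) (nat_lit 39) (nat_lit 5) (nat_lit 42) (nat_lit 5) (nat_lit 43) (nat_lit 5) (nat_lit 274) (nat_lit 244) (nat_lit 202)) (XT.lf (nat_lit 0) (nat_lit 1072629672) (nat_lit 228) (nat_lit 965477897) (nat_lit 304) (nat_lit 10705452910) (nat_lit 35) (nat_lit 5) (nat_lit 38) (nat_lit 5) (nat_lit 39) (nat_lit 5) (nat_lit 275) (nat_lit 244) (nat_lit 201))))))))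
noncomputable def xc123 : XT := (XT.nd (nat_lit 1404) (nat_lit 684) (nat_lit 0) (XT.nd (nat_lit 702) (nat_lit 532) (nat_lit 0) (XT.nd (nat_lit 312) (nat_lit 608) (nat_lit 0) (XT.nd (nat_lit 156) (nat_lit 0) (nat_lit 0) (XT.nd (nat_lit 78) (nat_lit 152) (nat_lit 0) (XT.lf (nat_lit 0) (nat_lit 4506073482) (nat_lit 304) (nat_lit 5726303069) (nat_lit 76) (nat_lit 2912167905) (nat_lit 35) (nat_lit 5) (nat_lit 39) (nat_lit 5) (nat_lit 36) (nat_lit 5) (nat_lit 276) (nat_lit 244) (nat_lit 200)) (XT.lf (nat_lit 0) (nat_lit 455387276) (nat_lit 152) (nat_lit 6622361013) (nat_lit 228) (nat_lit 6488914358) (nat_lit 33) (nat_lit 5) (nat_lit 35) (nat_lit 5) (nat_lit 36) (nat_lit 5) (nat_lit 277) (nat_lit 244) (nat_lit 199))) (XT.nd (nat_lit 78) (nat_lit 0) (nat_lit 0) (XT.lf (nat_lit 0) (nat_lit 7087000210) (nat_lit 152) (nat_lit 2746482392) (nat_lit 228) (nat_lit 4173726115) (nat_lit 33) (nat_lit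 5) (nat_lit 35) (nat_lit 5) (nat_lit 36) (nat_lit 5) (nat_lit 278) (nat_lit 244) (nat_lit 198)) (XT.lf (nat_lit 0) (nat_lit 12707891860) (nat_lit 228) (nat_lit 497275621) (nat_lit 76) (nat_lit 1265661396) (nat_lit 33) (nat_lit 5) (nat_lit 36) (nat_lit 5) (nat_lit 34) (nat_lit 5) (nat_lit 279) (nat_lit 244) (nat_lit 197)))) (XT.nd (nat_lit 156) (nat_lit 304) (nat_lit 0) (XT.nd (nat_lit 78) (nat_lit 0) (nat_lit 0) (XT.lf (nat_lit 0) (nat_lit 851757105) (nat_lit 304) (nat_lit 8615410246) (nat_lit 76) (nat_lit 5484547629) (nat_lit 29) (nat_lit 5) (nat_lit 33) (nat_lit 5) (nat_lit 30) (nat_lit 5) (nat_lit 280) (nat_lit 244) (nat_lit 196)) (XT.lf (nat_lit 0) (nat_lit 3508906947) (nat_lit 304) (nat_lit 2011193285) (nat_lit 76) (nat_lit 9936630545) (nat_lit 29) (nat_lit 5) (nat_lit 33) (nat_lit 5) (nat_lit 30) (nat_lit 5) (nat_lit 281) (nat_lit 244) (nat_lit 195))) (XT.nd (nat_lit 78) (nat_lit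 152) (nat_lit 0) (XT.lf (nat_lit 0) (nat_lit 5032143393) (nat_lit 152) (nat_lit 1309534458) (nat_lit 228) (nat_lit 9643256362) (nat_lit 27) (nat_lit 5) (nat_lit 29) (nat_lit 5) (nat_lit 30) (nat_lit 5) (nat_lit 282) (nat_lit 244) (nat_lit 194)) (XT.nd (nat_lit 78) (nat_lit 152) (nat_lit 0) (XT.lf (nat_lit 0) (nat_lit 9364131625) (nat_lit 228) (nat_lit 4142382487) (nat_lit 76) (nat_lit 3030702948) (nat_lit 27) (nat_lit 5) (nat_lit 30) (nat_lit 5) (nat_lit 28) (nat_lit 5) (nat_lit 283) (nat_lit 244) (nat_lit 193)) (XT.lf (nat_lit 0) (nat_lit 3033827383) (nat_lit 152) (nat_lit 9539234323) (nat_lit 228) (nat_lit 4542352715) (nat_lit 25) (nat_lit 5) (nat_lit 27) (nat_lit 5) (nat_lit 28) (nat_lit 5) (nat_lit 284) (nat_lit 244) (nat_lit 192)))))) (XT.nd (nat_lit 312) (nat_lit 304) (nat_lit 0) (XT.nd (nat_lit 156) (nat_lit 0) (nat_lit 0) (XT.nd (nat_lit 78) (nat_lit 228) (nat_lit 0) (XT.lf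 (nat_lit 0) (nat_lit 10663121527) (nat_lit 152) (nat_lit 5316810166) (nat_lit 228) (nat_lit 1740780101) (nat_lit 25) (nat_lit 5) (nat_lit 27) (nat_lit 5) (nat_lit 28) (nat_lit 5) (nat_lit 285) (nat_lit 244) (nat_lit 191)) (XT.lf (nat_lit 0) (nat_lit 258854948) (nat_lit 152) (nat_lit 875947986) (nat_lit 228) (nat_lit 17221974081) (nat_lit 22) (nat_lit 5) (nat_lit 24) (nat_lit 5) (nat_lit 25) (nat_lit 5) (nat_lit 286) (nat_lit 244) (nat_lit 190))) (XT.nd (nat_lit 78) (nat_lit 0) (nat_lit 0) (XT.lf (nat_lit 0) (nat_lit 4245104714) (nat_lit 228) (nat_lit 10970995850) (nat_lit 76) (nat_lit 3799701991) (nat_lit 22) (nat_lit 5) (nat_lit 25) (nat_lit 5) (nat_lit 23) (nat_lit 5) (nat_lit 287) (nat_lit 244) (nat_lit 189)) (XT.lf (nat_lit 0) (nat_lit 7495598612) (nat_lit 228) (nat_lit 3548607661) (nat_lit 76) (nat_lit 8664392569) (nat_lit 22) (nat_lit 5) (nat_lit 25) (nat_lit 5) (nat_lit 23) (nat_lit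 5) (nat_lit 288) (nat_lit 244) (nat_lit 188)))) (XT.nd (nat_lit 156) (nat_lit 152) (nat_lit 0) (XT.nd (nat_lit 78) (nat_lit 0) (nat_lit 0) (XT.lf (nat_lit 0) (nat_lit 4339481361) (nat_lit 152) (nat_lit 6608618002) (nat_lit 228) (nat_lit 9486012255) (nat_lit 20) (nat_lit 5) (nat_lit 22) (nat_lit 5) (nat_lit 23) (nat_lit 5) (nat_lit 289) (nat_lit 244) (nat_lit 187)) (XT.lf (nat_lit 0) (nat_lit 12701580061) (nat_lit 152) (nat_lit 1904138697) (nat_lit 228) (nat_lit 6588604957) (nat_lit 20) (nat_lit 5) (nat_lit 22) (nat_lit 5) (nat_lit 23) (nat_lit 5) (nat_lit 290) (nat_lit 244) (nat_lit 186))) (XT.nd (nat_lit 78) (nat_lit 152) (nat_lit 0) (XT.lf (nat_lit 0) (nat_lit 18467085709) (nat_lit 228) (nat_lit 600797643) (nat_lit 76) (nat_lit 2923665798) (nat_lit 20) (nat_lit 5) (nat_lit 23) (nat_lit 5) (nat_lit 21) (nat_lit 4) (nat_lit 291) (nat_lit 244) (nat_lit 185)) (XT.nd (nat_lit 78) (nat_lit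 76) (nat_lit 0) (XT.lf (nat_lit 0) (nat_lit 7865670132) (nat_lit 76) (nat_lit 14784607526) (nat_lit 152) (nat_lit 171964233) (nat_lit 19) (nat_lit 5) (nat_lit 20) (nat_lit 5) (nat_lit 21) (nat_lit 4) (nat_lit 292) (nat_lit 244) (nat_lit 184)) (XT.lf (nat_lit 0) (nat_lit 3226209729) (nat_lit 152) (nat_lit 7010908252) (nat_lit 76) (nat_lit 13455516778) (nat_lit 18) (nat_lit 5) (nat_lit 20) (nat_lit 5) (nat_lit 19) (nat_lit 5) (nat_lit 293) (nat_lit 244) (nat_lit 183))))))) (XT.nd (nat_lit 702) (nat_lit 228) (nat_lit 0) (XT.nd (nat_lit 312) (nat_lit 228) (nat_lit 0) (XT.nd (nat_lit 156) (nat_lit 76) (nat_lit 0) (XT.nd (nat_lit 78) (nat_lit 0) (nat_lit 0) (XT.lf (nat_lit 0) (nat_lit 1333001432) (nat_lit 152) (nat_lit 5452390599) (nat_lit 228) (nat_lit 17821208242) (nat_lit 16) (nat_lit 5) (nat_lit 18) (nat_lit 5) (nat_lit 19) (nat_lit 5) (nat_lit 294) (nat_lit 244) (nat_lit 182)) (XT.lf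 (nat_lit 0) (nat_lit 10299254357) (nat_lit 152) (nat_lit 318621496) (nat_lit 228) (nat_lit 14943657179) (nat_lit 16) (nat_lit 5) (nat_lit 18) (nat_lit 5) (nat_lit 19) (nat_lit 5) (nat_lit 295) (nat_lit 244) (nat_lit 181))) (XT.nd (nat_lit 78) (nat_lit 76) (nat_lit 0) (XT.lf (nat_lit 0) (nat_lit 14698671543) (nat_lit 228) (nat_lit 6966938743) (nat_lit 76) (nat_lit 4895802132) (nat_lit 16) (nat_lit 5) (nat_lit 19) (nat_lit 5) (nat_lit 17) (nat_lit 4) (nat_lit 296) (nat_lit 244) (nat_lit 180)) (XT.lf (nat_lit 0) (nat_lit 1758651115) (nat_lit 76) (nat_lit 17236110106) (nat_lit 152) (nat_lit 8615994574) (nat_lit 15) (nat_lit 5) (nat_lit 16) (nat_lit 5) (nat_lit 17) (nat_lit 4) (nat_lit 297) (nat_lit 244) (nat_lit 179)))) (XT.nd (nat_lit 156) (nat_lit 228) (nat_lit 0) (XT.nd (nat_lit 78) (nat_lit 0) (nat_lit 0) (XT.lf (nat_lit 0) (nat_lit 11127389159) (nat_lit 76) (nat_lit 12475301878) (nat_lit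 152) (nat_lit 5105054699) (nat_lit 15) (nat_lit 5) (nat_lit 16) (nat_lit 5) (nat_lit 17) (nat_lit 4) (nat_lit 298) (nat_lit 244) (nat_lit 178)) (XT.lf (nat_lit 0) (nat_lit 20931223447) (nat_lit 76) (nat_lit 7489838824) (nat_lit 152) (nat_lit 1439550348) (nat_lit 15) (nat_lit 5) (nat_lit 16) (nat_lit 5) (nat_lit 17) (nat_lit 4) (nat_lit 299) (nat_lit 244) (nat_lit 177))) (XT.nd (nat_lit 78) (nat_lit 0) (nat_lit 0) (XT.lf (nat_lit 0) (nat_lit 86872723) (nat_lit 152) (nat_lit 2227258685) (nat_lit 228) (nat_lit 28756036999) (nat_lit 12) (nat_lit 5) (nat_lit 14) (nat_lit 5) (nat_lit 15) (nat_lit 5) (nat_lit 300) (nat_lit 244) (nat_lit 176)) (XT.nd (nat_lit 78) (nat_lit 0) (nat_lit 0) (XT.lf (nat_lit 0) (nat_lit 6393196364) (nat_lit 228) (nat_lit 22578926904) (nat_lit 76) (nat_lit 3357620535) (nat_lit 12) (nat_lit 5) (nat_lit 15) (nat_lit 5) (nat_lit 13) (nat_lit 4) (nat_lit 301) (nat_lit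 244) (nat_lit 175)) (XT.lf (nat_lit 0) (nat_lit 10694514420) (nat_lit 228) (nat_lit 13821962332) (nat_lit 76) (nat_lit 9134930649) (nat_lit 12) (nat_lit 5) (nat_lit 15) (nat_lit 5) (nat_lit 13) (nat_lit 4) (nat_lit 302) (nat_lit 244) (nat_lit 174)))))) (XT.nd (nat_lit 312) (nat_lit 152) (nat_lit 0) (XT.nd (nat_lit 156) (nat_lit 0) (nat_lit 0) (XT.nd (nat_lit 78) (nat_lit 76) (nat_lit 0) (XT.lf (nat_lit 0) (nat_lit 15193553060) (nat_lit 228) (nat_lit 4656778304) (nat_lit 76) (nat_lit 15189713346) (nat_lit 12) (nat_lit 5) (nat_lit 15) (nat_lit 5) (nat_lit 13) (nat_lit 4) (nat_lit 303) (nat_lit 244) (nat_lit 173)) (XT.lf (nat_lit 0) (nat_lit 5101734407) (nat_lit 76) (nat_lit 14878942244) (nat_lit 152) (nat_lit 16514302738) (nat_lit 11) (nat_lit 5) (nat_lit 12) (nat_lit 5) (nat_lit 13) (nat_lit 4) (nat_lit 304) (nat_lit 244) (nat_lit 172))) (XT.nd (nat_lit 78) (nat_lit 0) (nat_lit 0) (XT.lf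 (nat_lit 0) (nat_lit 15482082831) (nat_lit 76) (nat_lit 9587772215) (nat_lit 152) (nat_lit 12949691926) (nat_lit 11) (nat_lit 5) (nat_lit 12) (nat_lit 5) (nat_lit 13) (nat_lit 4) (nat_lit 305) (nat_lit 244) (nat_lit 171)) (XT.lf (nat_lit 0) (nat_lit 26355007961) (nat_lit 76) (nat_lit 4043088049) (nat_lit 152) (nat_lit 9223036839) (nat_lit 11) (nat_lit 5) (nat_lit 12) (nat_lit 5) (nat_lit 13) (nat_lit 4) (nat_lit 306) (nat_lit 244) (nat_lit 170)))) (XT.nd (nat_lit 156) (nat_lit 76) (nat_lit 0) (XT.nd (nat_lit 78) (nat_lit 76) (nat_lit 0) (XT.lf (nat_lit 0) (nat_lit 36005694133) (nat_lit 152) (nat_lit 3584760909) (nat_lit 0) (nat_lit 1711714860) (nat_lit 11) (nat_lit 5) (nat_lit 13) (nat_lit 4) (nat_lit 11) (nat_lit 4) (nat_lit 307) (nat_lit 244) (nat_lit 169)) (XT.lf (nat_lit 0) (nat_lit 6704432256) (nat_lit 76) (nat_lit 35346073666) (nat_lit 76) (nat_lit 1008929426) (nat_lit 10) (nat_lit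 4) (nat_lit 11) (nat_lit 5) (nat_lit 11) (nat_lit 4) (nat_lit 308) (nat_lit 244) (nat_lit 168))) (XT.nd (nat_lit 78) (nat_lit 0) (nat_lit 0) (XT.lf (nat_lit 0) (nat_lit 3428832145) (nat_lit 152) (nat_lit 27349147832) (nat_lit 76) (nat_lit 14121492074) (nat_lit 9) (nat_lit 5) (nat_lit 11) (nat_lit 5) (nat_lit 10) (nat_lit 4) (nat_lit 309) (nat_lit 244) (nat_lit 167)) (XT.nd (nat_lit 78) (nat_lit 0) (nat_lit 0) (XT.lf (nat_lit 0) (nat_lit 8041175763) (nat_lit 152) (nat_lit 17932995314) (nat_lit 76) (nat_lit 20857198238) (nat_lit 9) (nat_lit 5) (nat_lit 11) (nat_lit 5) (nat_lit 10) (nat_lit 4) (nat_lit 310) (nat_lit 244) (nat_lit 166)) (XT.lf (nat_lit 0) (nat_lit 12871375237) (nat_lit 152) (nat_lit 8068373913) (nat_lit 76) (nat_lit 27920765353) (nat_lit 9) (nat_lit 5) (nat_lit 11) (nat_lit 5) (nat_lit 10) (nat_lit 4) (nat_lit 311) (nat_lit 244) (nat_lit 165))))))))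
noncomputable def xc124 : XT := (XT.nd (nat_lit 1326) (nat_lit 228) (nat_lit 0) (XT.nd (nat_lit 624) (nat_lit 152) (nat_lit 0) (XT.nd (nat_lit 312) (nat_lit 76) (nat_lit 0) (XT.nd (nat_lit 156) (nat_lit 0) (nat_lit 0) (XT.nd (nat_lit 78) (nat_lit 0) (nat_lit 0) (XT.lf (nat_lit 0) (nat_lit 2343200619) (nat_lit 76) (nat_lit 15624314353) (nat_lit 152) (nat_lit 33022394746) (nat_lit 8) (nat_lit 5) (nat_lit 9) (nat_lit 5) (nat_lit 10) (nat_lit 4) (nat_lit 312) (nat_lit 244) (nat_lit 164)) (XT.lf (nat_lit 0) (nat_lit 13534537754) (nat_lit 76) (nat_lit 9908664055) (nat_lit 152) (nat_lit 29776349481) (nat_lit 8) (nat_lit 5) (nat_lit 9) (nat_lit 5) (nat_lit 10) (nat_lit 4) (nat_lit 313) (nat_lit 244) (nat_lit 163))) (XT.nd (nat_lit 78) (nat_lit 0) (nat_lit 0) (XT.lf (nat_lit 0) (nat_lit 25265506653) (nat_lit 76) (nat_lit 3915831382) (nat_lit 152) (nat_lit 26379916608) (nat_lit 8) (nat_lit 5)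 (nat_lit 9) (nat_lit 5) (nat_lit 10) (nat_lit 4) (nat_lit 314) (nat_lit 244) (nat_lit 162)) (XT.lf (nat_lit 0) (nat_lit 35232564056) (nat_lit 152) (nat_lit 20493535245) (nat_lit 0) (nat_lit 2292647051) (nat_lit 8) (nat_lit 5) (nat_lit 10) (nat_lit 4) (nat_lit 8) (nat_lit 4) (nat_lit 315) (nat_lit 244) (nat_lit 161)))) (XT.nd (nat_lit 156) (nat_lit 0) (nat_lit 0) (XT.nd (nat_lit 78) (nat_lit 76) (nat_lit 0) (XT.lf (nat_lit 0) (nat_lit 41640142409) (nat_lit 152) (nat_lit 10283891554) (nat_lit 0) (nat_lit 8672400881) (nat_lit 8) (nat_lit 5) (nat_lit 10) (nat_lit 4) (nat_lit 8) (nat_lit 4) (nat_lit 316) (nat_lit 244) (nat_lit 160)) (XT.lf (nat_lit 0) (nat_lit 432470620) (nat_lit 76) (nat_lit 47932473588) (nat_lit 76) (nat_lit 14938232516) (nat_lit 7) (nat_lit 4) (nat_lit 8) (nat_lit 5) (nat_lit 8) (nat_lit 4) (nat_lit 317) (nat_lit 244) (nat_lit 159))) (XT.nd (nat_lit 78) (nat_lit 0) (nat_lit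 0) (XT.lf (nat_lit 0) (nat_lit 12024362894) (nat_lit 76) (nat_lit 43566079686) (nat_lit 76) (nat_lit 10546600951) (nat_lit 7) (nat_lit 4) (nat_lit 8) (nat_lit 5) (nat_lit 8) (nat_lit 4) (nat_lit 318) (nat_lit 244) (nat_lit 158)) (XT.lf (nat_lit 0) (nat_lit 24179353113) (nat_lit 76) (nat_lit 38988618761) (nat_lit 76) (nat_lit 5945104157) (nat_lit 7) (nat_lit 4) (nat_lit 8) (nat_lit 5) (nat_lit 8) (nat_lit 4) (nat_lit 319) (nat_lit 244) (nat_lit 157))))) (XT.nd (nat_lit 312) (nat_lit 76) (nat_lit 0) (XT.nd (nat_lit 156) (nat_lit 0) (nat_lit 0) (XT.nd (nat_lit 78) (nat_lit 76) (nat_lit 0) (XT.lf (nat_lit 0) (nat_lit 36926381729) (nat_lit 76) (nat_lit 34189192094) (nat_lit 76) (nat_lit 1122786187) (nat_lit 7) (nat_lit 4) (nat_lit 8) (nat_lit 5) (nat_lit 8) (nat_lit 4) (nat_lit 320) (nat_lit 244) (nat_lit 156)) (XT.lf (nat_lit 0) (nat_lit 3805991402) (nat_lit 152) (nat_lit 25285924773) (nat_lit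 76) (nat_lit 46425351102) (nat_lit 6) (nat_lit 5) (nat_lit 8) (nat_lit 5) (nat_lit 7) (nat_lit 4) (nat_lit 321) (nat_lit 244) (nat_lit 155))) (XT.nd (nat_lit 78) (nat_lit 0) (nat_lit 0) (XT.lf (nat_lit 0) (nat_lit 8935350186) (nat_lit 152) (nat_lit 14791502352) (nat_lit 76) (nat_lit 55232761638) (nat_lit 6) (nat_lit 5) (nat_lit 8) (nat_lit 5) (nat_lit 7) (nat_lit 4) (nat_lit 322) (nat_lit 244) (nat_lit 154)) (XT.lf (nat_lit 0) (nat_lit 14313439094) (nat_lit 152) (nat_lit 3786194460) (nat_lit 76) (nat_lit 64474839710) (nat_lit 6) (nat_lit 5) (nat_lit 8) (nat_lit 5) (nat_lit 7) (nat_lit 4) (nat_lit 323) (nat_lit 244) (nat_lit 153)))) (XT.nd (nat_lit 156) (nat_lit 0) (nat_lit 0) (XT.nd (nat_lit 78) (nat_lit 0) (nat_lit 0) (XT.lf (nat_lit 0) (nat_lit 8012657081) (nat_lit 76) (nat_lit 12065506048) (nat_lit 152) (nat_lit 66286033216) (nat_lit 5) (nat_lit 5) (nat_lit 6) (nat_lit 5) (nat_lit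 7) (nat_lit 4) (nat_lit 324) (nat_lit 244) (nat_lit 152)) (XT.lf (nat_lit 0) (nat_lit 20519935043) (nat_lit 76) (nat_lit 5668088524) (nat_lit 152) (nat_lit 64152544218) (nat_lit 5) (nat_lit 5) (nat_lit 6) (nat_lit 5) (nat_lit 7) (nat_lit 4) (nat_lit 325) (nat_lit 244) (nat_lit 151))) (XT.nd (nat_lit 78) (nat_lit 0) (nat_lit 0) (XT.lf (nat_lit 0) (nat_lit 32612795590) (nat_lit 152) (nat_lit 60892174098) (nat_lit 0) (nat_lit 1010324052) (nat_lit 5) (nat_lit 5) (nat_lit 7) (nat_lit 4) (nat_lit 5) (nat_lit 4) (nat_lit 326) (nat_lit 244) (nat_lit 150)) (XT.nd (nat_lit 78) (nat_lit 0) (nat_lit 0) (XT.lf (nat_lit 0) (nat_lit 39445094851) (nat_lit 152) (nat_lit 51622223672) (nat_lit 0) (nat_lit 7827129578) (nat_lit 5) (nat_lit 5) (nat_lit 7) (nat_lit 4) (nat_lit 5) (nat_lit 4) (nat_lit 327) (nat_lit 244) (nat_lit 149)) (XT.lf (nat_lit 0) (nat_lit 46612693984) (nat_lit 152) (nat_lit 41900215410)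 (nat_lit 0) (nat_lit 14979972772) (nat_lit 5) (nat_lit 5) (nat_lit 7) (nat_lit 4) (nat_lit 5) (nat_lit 4) (nat_lit 328) (nat_lit 244) (nat_lit 148))))))) (XT.nd (nat_lit 702) (nat_lit 152) (nat_lit 0) (XT.nd (nat_lit 312) (nat_lit 0) (nat_lit 0) (XT.nd (nat_lit 156) (nat_lit 76) (nat_lit 0) (XT.nd (nat_lit 78) (nat_lit 0) (nat_lit 0) (XT.lf (nat_lit 0) (nat_lit 54132658701) (nat_lit 152) (nat_lit 31703001673) (nat_lit 0) (nat_lit 22485884215) (nat_lit 5) (nat_lit 5) (nat_lit 7) (nat_lit 4) (nat_lit 5) (nat_lit 4) (nat_lit 329) (nat_lit 244) (nat_lit 147)) (XT.lf (nat_lit 0) (nat_lit 62022893680) (nat_lit 152) (nat_lit 21006303379) (nat_lit 0) (nat_lit 30362735123) (nat_lit 5) (nat_lit 5) (nat_lit 7) (nat_lit 4) (nat_lit 5) (nat_lit 4) (nat_lit 330) (nat_lit 244) (nat_lit 146))) (XT.nd (nat_lit 78) (nat_lit 76) (nat_lit 0) (XT.lf (nat_lit 0) (nat_lit 70302185195) (nat_lit 152) (nat_lit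 9784652201) (nat_lit 0) (nat_lit 38629279903) (nat_lit 5) (nat_lit 5) (nat_lit 7) (nat_lit 4) (nat_lit 5) (nat_lit 4) (nat_lit 331) (nat_lit 244) (nat_lit 145)) (XT.lf (nat_lit 0) (nat_lit 2054424493) (nat_lit 76) (nat_lit 76967896674) (nat_lit 76) (nat_lit 45282851636) (nat_lit 4) (nat_lit 4) (nat_lit 5) (nat_lit 5) (nat_lit 5) (nat_lit 4) (nat_lit 332) (nat_lit 244) (nat_lit 144)))) (XT.nd (nat_lit 156) (nat_lit 0) (nat_lit 0) (XT.nd (nat_lit 78) (nat_lit 0) (nat_lit 0) (XT.lf (nat_lit 0) (nat_lit 14815896394) (nat_lit 76) (nat_lit 73523182757) (nat_lit 76) (nat_lit 41826576055) (nat_lit 4) (nat_lit 4) (nat_lit 5) (nat_lit 5) (nat_lit 5) (nat_lit 4) (nat_lit 333) (nat_lit 244) (nat_lit 143)) (XT.lf (nat_lit 0) (nat_lit 28206623167) (nat_lit 76) (nat_lit 69910201763) (nat_lit 76) (nat_lit 38202583953) (nat_lit 4) (nat_lit 4) (nat_lit 5) (nat_lit 5) (nat_lit 5) (nat_lit 4) (nat_lit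 334) (nat_lit 244) (nat_lit 142))) (XT.nd (nat_lit 78) (nat_lit 0) (nat_lit 0) (XT.lf (nat_lit 0) (nat_lit 42258487495) (nat_lit 76) (nat_lit 66120351358) (nat_lit 76) (nat_lit 34402246777) (nat_lit 4) (nat_lit 4) (nat_lit 5) (nat_lit 5) (nat_lit 5) (nat_lit 4) (nat_lit 335) (nat_lit 244) (nat_lit 141)) (XT.nd (nat_lit 78) (nat_lit 0) (nat_lit 0) (XT.lf (nat_lit 0) (nat_lit 57004946197) (nat_lit 76) (nat_lit 62144608087) (nat_lit 76) (nat_lit 30416516106) (nat_lit 4) (nat_lit 4) (nat_lit 5) (nat_lit 5) (nat_lit 5) (nat_lit 4) (nat_lit 336) (nat_lit 244) (nat_lit 140)) (XT.lf (nat_lit 0) (nat_lit 72481109891) (nat_lit 76) (nat_lit 57973505895) (nat_lit 76) (nat_lit 26235902105) (nat_lit 4) (nat_lit 4) (nat_lit 5) (nat_lit 5) (nat_lit 5) (nat_lit 4) (nat_lit 337) (nat_lit 244) (nat_lit 139)))))) (XT.nd (nat_lit 312) (nat_lit 152) (nat_lit 0) (XT.nd (nat_lit 156) (nat_lit 0) (nat_lit 0)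 (XT.nd (nat_lit 78) (nat_lit 0) (nat_lit 0) (XT.lf (nat_lit 0) (nat_lit 88723826584) (nat_lit 76) (nat_lit 53597113587) (nat_lit 76) (nat_lit 21850450931) (nat_lit 4) (nat_lit 4) (nat_lit 5) (nat_lit 5) (nat_lit 5) (nat_lit 4) (nat_lit 338) (nat_lit 244) (nat_lit 138)) (XT.lf (nat_lit 0) (nat_lit 105771769411) (nat_lit 76) (nat_lit 49005011180) (nat_lit 76) (nat_lit 17249721033) (nat_lit 4) (nat_lit 4) (nat_lit 5) (nat_lit 5) (nat_lit 5) (nat_lit 4) (nat_lit 339) (nat_lit 244) (nat_lit 137))) (XT.nd (nat_lit 78) (nat_lit 0) (nat_lit 0) (XT.lf (nat_lit 0) (nat_lit 123665528714) (nat_lit 76) (nat_lit 44186265099) (nat_lit 76) (nat_lit 12422758293) (nat_lit 4) (nat_lit 4) (nat_lit 5) (nat_lit 5) (nat_lit 5) (nat_lit 4) (nat_lit 340) (nat_lit 244) (nat_lit 136)) (XT.lf (nat_lit 0) (nat_lit 142447708679) (nat_lit 76) (nat_lit 39129402137) (nat_lit 76) (nat_lit 7358069942) (nat_lit 4) (nat_lit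 4) (nat_lit 5) (nat_lit 5) (nat_lit 5) (nat_lit 4) (nat_lit 341) (nat_lit 244) (nat_lit 135)))) (XT.nd (nat_lit 156) (nat_lit 76) (nat_lit 0) (XT.nd (nat_lit 78) (nat_lit 76) (nat_lit 0) (XT.lf (nat_lit 0) (nat_lit 162163028784) (nat_lit 76) (nat_lit 33822382145) (nat_lit 76) (nat_lit 2043597199) (nat_lit 4) (nat_lit 4) (nat_lit 5) (nat_lit 5) (nat_lit 5) (nat_lit 4) (nat_lit 342) (nat_lit 244) (nat_lit 134)) (XT.lf (nat_lit 0) (nat_lit 3420225347) (nat_lit 152) (nat_lit 24774420843) (nat_lit 76) (nat_lit 179380281749) (nat_lit 3) (nat_lit 5) (nat_lit 5) (nat_lit 5) (nat_lit 4) (nat_lit 4) (nat_lit 343) (nat_lit 244) (nat_lit 133))) (XT.nd (nat_lit 78) (nat_lit 76) (nat_lit 0) (XT.lf (nat_lit 0) (nat_lit 9085531636) (nat_lit 152) (nat_lit 13167302816) (nat_lit 76) (nat_lit 195343788383) (nat_lit 3) (nat_lit 5) (nat_lit 5) (nat_lit 5) (nat_lit 4) (nat_lit 4) (nat_lit 344) (nat_lit 244)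 (nat_lit 132)) (XT.nd (nat_lit 78) (nat_lit 76) (nat_lit 0) (XT.lf (nat_lit 0) (nat_lit 15031218365) (nat_lit 152) (nat_lit 985082988) (nat_lit 76) (nat_lit 212103247955) (nat_lit 3) (nat_lit 5) (nat_lit 5) (nat_lit 5) (nat_lit 4) (nat_lit 4) (nat_lit 345) (nat_lit 244) (nat_lit 131)) (XT.lf (nat_lit 0) (nat_lit 12191446345) (nat_lit 76) (nat_lit 9270338230) (nat_lit 152) (nat_lit 217697460239) (nat_lit 2) (nat_lit 5) (nat_lit 3) (nat_lit 5) (nat_lit 4) (nat_lit 4) (nat_lit 346) (nat_lit 244) (nat_lit 130))))))))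
noncomputable def xc125 : XT := (XT.nd (nat_lit 29796) (nat_lit 0) (nat_lit 4256) (XT.nd (nat_lit 624) (nat_lit 0) (nat_lit 0) (XT.nd (nat_lit 312) (nat_lit 0) (nat_lit 0) (XT.nd (nat_lit 156) (nat_lit 0) (nat_lit 0) (XT.nd (nat_lit 78) (nat_lit 0) (nat_lit 0) (XT.lf (nat_lit 0) (nat_lit 26056078805) (nat_lit 76) (nat_lit 2171789617) (nat_lit 152) (nat_lit 222522359556) (nat_lit 2) (nat_lit 5) (nat_lit 3) (nat_lit 5) (nat_lit 4) (nat_lit 4) (nat_lit 347) (nat_lit 244) (nat_lit 129)) (XT.lf (nat_lit 0) (nat_lit 35412119967) (nat_lit 152) (nat_lit 222394065444) (nat_lit 0) (nat_lit 5110583949) (nat_lit 2) (nat_lit 5) (nat_lit 4) (nat_lit 4) (nat_lit 2) (nat_lit 4) (nat_lit 348) (nat_lit 244) (nat_lit 128))) (XT.nd (nat_lit 78) (nat_lit 0) (nat_lit 0) (XT.lf (nat_lit 0) (nat_lit 42988712511) (nat_lit 152) (nat_lit 220019138833) (nat_lit 0) (nat_lit 12682132177) (nat_lit 2) (nat_lit 5)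 (nat_lit 4) (nat_lit 4) (nat_lit 2) (nat_lit 4) (nat_lit 349) (nat_lit 244) (nat_lit 127)) (XT.lf (nat_lit 0) (nat_lit 50941777837) (nat_lit 152) (nat_lit 217529807031) (nat_lit 0) (nat_lit 20630393394) (nat_lit 2) (nat_lit 5) (nat_lit 4) (nat_lit 4) (nat_lit 2) (nat_lit 4) (nat_lit 350) (nat_lit 244) (nat_lit 126)))) (XT.nd (nat_lit 156) (nat_lit 0) (nat_lit 0) (XT.nd (nat_lit 78) (nat_lit 0) (nat_lit 0) (XT.lf (nat_lit 0) (nat_lit 59290251816) (nat_lit 152) (nat_lit 214920143056) (nat_lit 0) (nat_lit 28974292029) (nat_lit 2) (nat_lit 5) (nat_lit 4) (nat_lit 4) (nat_lit 2) (nat_lit 4) (nat_lit 351) (nat_lit 244) (nat_lit 125)) (XT.lf (nat_lit 0) (nat_lit 68054011766) (nat_lit 152) (nat_lit 212183933424) (nat_lit 0) (nat_lit 37733694510) (nat_lit 2) (nat_lit 5) (nat_lit 4) (nat_lit 4) (nat_lit 2) (nat_lit 4) (nat_lit 352) (nat_lit 244) (nat_lit 124))) (XT.nd (nat_lit 78) (nat_lit 0)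 (nat_lit 0) (XT.lf (nat_lit 0) (nat_lit 77253923782) (nat_lit 152) (nat_lit 209314663349) (nat_lit 0) (nat_lit 46929456555) (nat_lit 2) (nat_lit 5) (nat_lit 4) (nat_lit 4) (nat_lit 2) (nat_lit 4) (nat_lit 353) (nat_lit 244) (nat_lit 123)) (XT.lf (nat_lit 0) (nat_lit 86911892418) (nat_lit 152) (nat_lit 206305501237) (nat_lit 0) (nat_lit 56583472837) (nat_lit 2) (nat_lit 5) (nat_lit 4) (nat_lit 4) (nat_lit 2) (nat_lit 4) (nat_lit 354) (nat_lit 244) (nat_lit 122))))) (XT.nd (nat_lit 312) (nat_lit 0) (nat_lit 0) (XT.nd (nat_lit 156) (nat_lit 0) (nat_lit 0) (XT.nd (nat_lit 78) (nat_lit 0) (nat_lit 0) (XT.lf (nat_lit 0) (nat_lit 97050912835) (nat_lit 152) (nat_lit 203149282415) (nat_lit 0) (nat_lit 66718729109) (nat_lit 2) (nat_lit 5) (nat_lit 4) (nat_lit 4) (nat_lit 2) (nat_lit 4) (nat_lit 355) (nat_lit 244) (nat_lit 121)) (XT.lf (nat_lit 0) (nat_lit 107695125560) (nat_lit 152) (nat_lit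 199838492076) (nat_lit 0) (nat_lit 77359356933) (nat_lit 2) (nat_lit 5) (nat_lit 4) (nat_lit 4) (nat_lit 2) (nat_lit 4) (nat_lit 356) (nat_lit 244) (nat_lit 120))) (XT.nd (nat_lit 78) (nat_lit 0) (nat_lit 0) (XT.lf (nat_lit 0) (nat_lit 118869873956) (nat_lit 152) (nat_lit 196365247387) (nat_lit 0) (nat_lit 88530691137) (nat_lit 2) (nat_lit 5) (nat_lit 4) (nat_lit 4) (nat_lit 2) (nat_lit 4) (nat_lit 357) (nat_lit 244) (nat_lit 119)) (XT.lf (nat_lit 0) (nat_lit 130601764566) (nat_lit 152) (nat_lit 192721278717) (nat_lit 0) (nat_lit 100259330136) (nat_lit 2) (nat_lit 5) (nat_lit 4) (nat_lit 4) (nat_lit 2) (nat_lit 4) (nat_lit 358) (nat_lit 244) (nat_lit 118)))) (XT.nd (nat_lit 28626) (nat_lit 0) (nat_lit 7752) (XT.nd (nat_lit 78) (nat_lit 0) (nat_lit 0) (XT.lf (nat_lit 0) (nat_lit 142918730463) (nat_lit 152) (nat_lit 188897909951) (nat_lit 0) (nat_lit 112573199261) (nat_lit 2) (nat_lit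 5) (nat_lit 4) (nat_lit 4) (nat_lit 2) (nat_lit 4) (nat_lit 359) (nat_lit 244) (nat_lit 117)) (XT.lf (nat_lit 0) (nat_lit 155850097757) (nat_lit 152) (nat_lit 184886037829) (nat_lit 0) (nat_lit 125501617249) (nat_lit 2) (nat_lit 5) (nat_lit 4) (nat_lit 4) (nat_lit 2) (nat_lit 4) (nat_lit 360) (nat_lit 244) (nat_lit 116))) (XT.nd (nat_lit 78) (nat_lit 380) (nat_lit 0) (XT.lf (nat_lit 0) (nat_lit 2247469387) (nat_lit 380) (nat_lit 561988645) (nat_lit 380) (nat_lit 561988645) (nat_lit 109) (nat_lit 3) (nat_lit 114) (nat_lit 3) (nat_lit 114) (nat_lit 5) (nat_lit 245) (nat_lit 245) (nat_lit 230)) (XT.nd (nat_lit 78) (nat_lit 380) (nat_lit 0) (XT.lf (nat_lit 76) (nat_lit 1916773974) (nat_lit 0) (nat_lit 4598467864) (nat_lit 380) (nat_lit 291730076) (nat_lit 110) (nat_lit 5) (nat_lit 109) (nat_lit 3) (nat_lit 114) (nat_lit 5) (nat_lit 246) (nat_lit 245) (nat_lit 229)) (XT.lf (nat_lit 0) (nat_lit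 1601458475) (nat_lit 380) (nat_lit 1822692960) (nat_lit 456) (nat_lit 3454503970) (nat_lit 104) (nat_lit 5) (nat_lit 109) (nat_lit 3) (nat_lit 110) (nat_lit 5) (nat_lit 247) (nat_lit 245) (nat_lit 228))))))) (XT.nd (nat_lit 702) (nat_lit 2128) (nat_lit 0) (XT.nd (nat_lit 312) (nat_lit 988) (nat_lit 0) (XT.nd (nat_lit 156) (nat_lit 380) (nat_lit 0) (XT.nd (nat_lit 78) (nat_lit 0) (nat_lit 0) (XT.lf (nat_lit 76) (nat_lit 1370460007) (nat_lit 0) (nat_lit 2112544326) (nat_lit 456) (nat_lit 3476032719) (nat_lit 105) (nat_lit 5) (nat_lit 104) (nat_lit 5) (nat_lit 110) (nat_lit 5) (nat_lit 248) (nat_lit 245) (nat_lit 227)) (XT.lf (nat_lit 76) (nat_lit 4720819874) (nat_lit 0) (nat_lit 655368796) (nat_lit 456) (nat_lit 1671874099) (nat_lit 105) (nat_lit 5) (nat_lit 104) (nat_lit 5) (nat_lit 110) (nat_lit 5) (nat_lit 249) (nat_lit 245) (nat_lit 226))) (XT.nd (nat_lit 78) (nat_lit 0) (nat_lit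 0) (XT.lf (nat_lit 0) (nat_lit 136454139) (nat_lit 456) (nat_lit 6100221781) (nat_lit 532) (nat_lit 909092303) (nat_lit 99) (nat_lit 5) (nat_lit 105) (nat_lit 5) (nat_lit 106) (nat_lit 5) (nat_lit 250) (nat_lit 245) (nat_lit 225)) (XT.lf (nat_lit 0) (nat_lit 1924521097) (nat_lit 456) (nat_lit 2689396891) (nat_lit 532) (nat_lit 2636229713) (nat_lit 99) (nat_lit 5) (nat_lit 105) (nat_lit 5) (nat_lit 106) (nat_lit 5) (nat_lit 251) (nat_lit 245) (nat_lit 224)))) (XT.nd (nat_lit 156) (nat_lit 988) (nat_lit 0) (XT.nd (nat_lit 78) (nat_lit 0) (nat_lit 0) (XT.lf (nat_lit 76) (nat_lit 850639968) (nat_lit 0) (nat_lit 2864351728) (nat_lit 532) (nat_lit 3649518300) (nat_lit 100) (nat_lit 5) (nat_lit 99) (nat_lit 5) (nat_lit 106) (nat_lit 5) (nat_lit 252) (nat_lit 245) (nat_lit 223)) (XT.lf (nat_lit 76) (nat_lit 4593599119) (nat_lit 0) (nat_lit 950374555) (nat_lit 532) (nat_lit 1943561490) (nat_lit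 100) (nat_lit 5) (nat_lit 99) (nat_lit 5) (nat_lit 106) (nat_lit 5) (nat_lit 253) (nat_lit 245) (nat_lit 222))) (XT.nd (nat_lit 78) (nat_lit 608) (nat_lit 0) (XT.lf (nat_lit 0) (nat_lit 847952032) (nat_lit 456) (nat_lit 6554702753) (nat_lit 532) (nat_lit 217519685) (nat_lit 94) (nat_lit 5) (nat_lit 100) (nat_lit 5) (nat_lit 101) (nat_lit 5) (nat_lit 254) (nat_lit 245) (nat_lit 221)) (XT.nd (nat_lit 78) (nat_lit 532) (nat_lit 0) (XT.lf (nat_lit 0) (nat_lit 1519141956) (nat_lit 532) (nat_lit 2992710568) (nat_lit 76) (nat_lit 3247920613) (nat_lit 93) (nat_lit 5) (nat_lit 100) (nat_lit 5) (nat_lit 94) (nat_lit 5) (nat_lit 255) (nat_lit 245) (nat_lit 220)) (XT.lf (nat_lit 0) (nat_lit 933677615) (nat_lit 532) (nat_lit 2330482032) (nat_lit 608) (nat_lit 4645896411) (nat_lit 86) (nat_lit 5) (nat_lit 93) (nat_lit 5) (nat_lit 94) (nat_lit 5) (nat_lit 256) (nat_lit 245) (nat_lit 219)))))) (XT.nd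 (nat_lit 312) (nat_lit 760) (nat_lit 0) (XT.nd (nat_lit 156) (nat_lit 760) (nat_lit 0) (XT.nd (nat_lit 78) (nat_lit 608) (nat_lit 0) (XT.lf (nat_lit 0) (nat_lit 5064845170) (nat_lit 608) (nat_lit 2977237553) (nat_lit 76) (nat_lit 27658384) (nat_lit 86) (nat_lit 5) (nat_lit 94) (nat_lit 5) (nat_lit 87) (nat_lit 5) (nat_lit 257) (nat_lit 245) (nat_lit 218)) (XT.lf (nat_lit 0) (nat_lit 1151955773) (nat_lit 608) (nat_lit 5781254561) (nat_lit 684) (nat_lit 1305611926) (nat_lit 78) (nat_lit 5) (nat_lit 86) (nat_lit 5) (nat_lit 87) (nat_lit 5) (nat_lit 258) (nat_lit 245) (nat_lit 217))) (XT.nd (nat_lit 78) (nat_lit 684) (nat_lit 0) (XT.lf (nat_lit 0) (nat_lit 437192148) (nat_lit 684) (nat_lit 2901452975) (nat_lit 76) (nat_lit 5078911721) (nat_lit 77) (nat_lit 5) (nat_lit 86) (nat_lit 5) (nat_lit 78) (nat_lit 5) (nat_lit 259) (nat_lit 245) (nat_lit 216)) (XT.lf (nat_lit 0) (nat_lit 1451337845)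 (nat_lit 684) (nat_lit 720892990) (nat_lit 760) (nat_lit 6434732646) (nat_lit 68) (nat_lit 5) (nat_lit 77) (nat_lit 5) (nat_lit 78) (nat_lit 5) (nat_lit 260) (nat_lit 245) (nat_lit 215)))) (XT.nd (nat_lit 156) (nat_lit 456) (nat_lit 0) (XT.nd (nat_lit 78) (nat_lit 304) (nat_lit 0) (XT.lf (nat_lit 0) (nat_lit 4004499500) (nat_lit 760) (nat_lit 2783095667) (nat_lit 76) (nat_lit 2017963355) (nat_lit 68) (nat_lit 5) (nat_lit 78) (nat_lit 5) (nat_lit 69) (nat_lit 5) (nat_lit 261) (nat_lit 245) (nat_lit 214)) (XT.lf (nat_lit 0) (nat_lit 1787011897) (nat_lit 304) (nat_lit 4113350920) (nat_lit 380) (nat_lit 3115351889) (nat_lit 64) (nat_lit 5) (nat_lit 68) (nat_lit 5) (nat_lit 69) (nat_lit 5) (nat_lit 262) (nat_lit 245) (nat_lit 213))) (XT.nd (nat_lit 78) (nat_lit 456) (nat_lit 0) (XT.lf (nat_lit 0) (nat_lit 6616892506) (nat_lit 304) (nat_lit 1255728096) (nat_lit 380) (nat_lit 1364897509) (nat_lit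 64) (nat_lit 5) (nat_lit 68) (nat_lit 5) (nat_lit 69) (nat_lit 5) (nat_lit 263) (nat_lit 245) (nat_lit 212)) (XT.nd (nat_lit 78) (nat_lit 0) (nat_lit 0) (XT.lf (nat_lit 0) (nat_lit 456828201) (nat_lit 456) (nat_lit 7282730736) (nat_lit 76) (nat_lit 1730738012) (nat_lit 58) (nat_lit 5) (nat_lit 64) (nat_lit 5) (nat_lit 59) (nat_lit 5) (nat_lit 264) (nat_lit 245) (nat_lit 211)) (XT.lf (nat_lit 0) (nat_lit 2327837896) (nat_lit 456) (nat_lit 2495779277) (nat_lit 76) (nat_lit 4889965022) (nat_lit 58) (nat_lit 5) (nat_lit 64) (nat_lit 5) (nat_lit 59) (nat_lit 5) (nat_lit 265) (nat_lit 245) (nat_lit 210))))))))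
noncomputable def xc126 : XT := (XT.nd (nat_lit 1326) (nat_lit 1064) (nat_lit 0) (XT.nd (nat_lit 624) (nat_lit 988) (nat_lit 0) (XT.nd (nat_lit 312) (nat_lit 608) (nat_lit 0) (XT.nd (nat_lit 156) (nat_lit 304) (nat_lit 0) (XT.nd (nat_lit 78) (nat_lit 0) (nat_lit 0) (XT.lf (nat_lit 0) (nat_lit 2548521882) (nat_lit 304) (nat_lit 1724972778) (nat_lit 380) (nat_lit 5696662777) (nat_lit 54) (nat_lit 5) (nat_lit 58) (nat_lit 5) (nat_lit 59) (nat_lit 5) (nat_lit 266) (nat_lit 245) (nat_lit 209)) (XT.lf (nat_lit 0) (nat_lit 6326297193) (nat_lit 380) (nat_lit 2395789297) (nat_lit 76) (nat_lit 1517153772) (nat_lit 54) (nat_lit 5) (nat_lit 59) (nat_lit 5) (nat_lit 55) (nat_lit 5) (nat_lit 267) (nat_lit 245) (nat_lit 208))) (XT.nd (nat_lit 78) (nat_lit 0) (nat_lit 0) (XT.lf (nat_lit 0) (nat_lit 2882993945) (nat_lit 304) (nat_lit 5617785292) (nat_lit 380) (nat_lit 2020209800) (nat_lit 50) (nat_lit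 5) (nat_lit 54) (nat_lit 5) (nat_lit 55) (nat_lit 5) (nat_lit 268) (nat_lit 245) (nat_lit 207)) (XT.lf (nat_lit 0) (nat_lit 8447547508) (nat_lit 304) (nat_lit 2324386840) (nat_lit 380) (nat_lit 45649434) (nat_lit 50) (nat_lit 5) (nat_lit 54) (nat_lit 5) (nat_lit 55) (nat_lit 5) (nat_lit 269) (nat_lit 245) (nat_lit 206)))) (XT.nd (nat_lit 156) (nat_lit 304) (nat_lit 0) (XT.nd (nat_lit 78) (nat_lit 0) (nat_lit 0) (XT.lf (nat_lit 0) (nat_lit 1980051399) (nat_lit 304) (nat_lit 7975635820) (nat_lit 76) (nat_lit 1171014188) (nat_lit 46) (nat_lit 5) (nat_lit 50) (nat_lit 5) (nat_lit 47) (nat_lit 5) (nat_lit 270) (nat_lit 245) (nat_lit 205)) (XT.lf (nat_lit 0) (nat_lit 4134674695) (nat_lit 304) (nat_lit 2520019048) (nat_lit 76) (nat_lit 4795219916) (nat_lit 46) (nat_lit 5) (nat_lit 50) (nat_lit 5) (nat_lit 47) (nat_lit 5) (nat_lit 271) (nat_lit 245) (nat_lit 204))) (XT.nd (nat_lit 78) (nat_lit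 0) (nat_lit 0) (XT.lf (nat_lit 0) (nat_lit 3253713107) (nat_lit 304) (nat_lit 3146754801) (nat_lit 380) (nat_lit 5388775003) (nat_lit 42) (nat_lit 5) (nat_lit 46) (nat_lit 5) (nat_lit 47) (nat_lit 5) (nat_lit 272) (nat_lit 245) (nat_lit 203)) (XT.lf (nat_lit 0) (nat_lit 8785111879) (nat_lit 380) (nat_lit 2808954485) (nat_lit 76) (nat_lit 551316420) (nat_lit 42) (nat_lit 5) (nat_lit 47) (nat_lit 5) (nat_lit 43) (nat_lit 5) (nat_lit 273) (nat_lit 245) (nat_lit 202))))) (XT.nd (nat_lit 312) (nat_lit 456) (nat_lit 0) (XT.nd (nat_lit 156) (nat_lit 228) (nat_lit 0) (XT.nd (nat_lit 78) (nat_lit 76) (nat_lit 0) (XT.lf (nat_lit 0) (nat_lit 3197470264) (nat_lit 228) (nat_lit 8149031289) (nat_lit 304) (nat_lit 1170068817) (nat_lit 39) (nat_lit 5) (nat_lit 42) (nat_lit 5) (nat_lit 43) (nat_lit 5) (nat_lit 274) (nat_lit 245) (nat_lit 201)) (XT.lf (nat_lit 0) (nat_lit 1098251707) (nat_lit 304) (nat_lit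 3378474587) (nat_lit 76) (nat_lit 8428576569) (nat_lit 38) (nat_lit 5) (nat_lit 42) (nat_lit 5) (nat_lit 39) (nat_lit 5) (nat_lit 275) (nat_lit 245) (nat_lit 200))) (XT.nd (nat_lit 78) (nat_lit 0) (nat_lit 0) (XT.lf (nat_lit 0) (nat_lit 2876981301) (nat_lit 228) (nat_lit 567091396) (nat_lit 304) (nat_lit 9868370435) (nat_lit 35) (nat_lit 5) (nat_lit 38) (nat_lit 5) (nat_lit 39) (nat_lit 5) (nat_lit 276) (nat_lit 245) (nat_lit 199)) (XT.lf (nat_lit 0) (nat_lit 5979980366) (nat_lit 304) (nat_lit 4286864036) (nat_lit 76) (nat_lit 3469551989) (nat_lit 35) (nat_lit 5) (nat_lit 39) (nat_lit 5) (nat_lit 36) (nat_lit 5) (nat_lit 277) (nat_lit 245) (nat_lit 198)))) (XT.nd (nat_lit 156) (nat_lit 304) (nat_lit 0) (XT.nd (nat_lit 78) (nat_lit 0) (nat_lit 0) (XT.lf (nat_lit 0) (nat_lit 2176076082) (nat_lit 152) (nat_lit 6471214816) (nat_lit 228) (nat_lit 5534117239) (nat_lit 33) (nat_lit 5) (nat_lit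 35) (nat_lit 5) (nat_lit 36) (nat_lit 5) (nat_lit 278) (nat_lit 245) (nat_lit 197)) (XT.lf (nat_lit 0) (nat_lit 9058416355) (nat_lit 152) (nat_lit 2424507229) (nat_lit 228) (nat_lit 3164085909) (nat_lit 33) (nat_lit 5) (nat_lit 35) (nat_lit 5) (nat_lit 36) (nat_lit 5) (nat_lit 279) (nat_lit 245) (nat_lit 196))) (XT.nd (nat_lit 78) (nat_lit 76) (nat_lit 0) (XT.lf (nat_lit 0) (nat_lit 1104108337) (nat_lit 228) (nat_lit 13365880913) (nat_lit 304) (nat_lit 665501818) (nat_lit 30) (nat_lit 5) (nat_lit 33) (nat_lit 5) (nat_lit 34) (nat_lit 5) (nat_lit 280) (nat_lit 245) (nat_lit 195)) (XT.nd (nat_lit 78) (nat_lit 0) (nat_lit 0) (XT.lf (nat_lit 0) (nat_lit 1995483705) (nat_lit 304) (nat_lit 7442215006) (nat_lit 76) (nat_lit 6204237497) (nat_lit 29) (nat_lit 5) (nat_lit 33) (nat_lit 5) (nat_lit 30) (nat_lit 5) (nat_lit 281) (nat_lit 245) (nat_lit 194)) (XT.lf (nat_lit 0) (nat_lit 4733055861)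 (nat_lit 304) (nat_lit 584166518) (nat_lit 76) (nat_lit 10857712060) (nat_lit 29) (nat_lit 5) (nat_lit 33) (nat_lit 5) (nat_lit 30) (nat_lit 5) (nat_lit 282) (nat_lit 245) (nat_lit 193))))))) (XT.nd (nat_lit 702) (nat_lit 380) (nat_lit 0) (XT.nd (nat_lit 312) (nat_lit 380) (nat_lit 0) (XT.nd (nat_lit 156) (nat_lit 152) (nat_lit 0) (XT.nd (nat_lit 78) (nat_lit 0) (nat_lit 0) (XT.lf (nat_lit 0) (nat_lit 6786698502) (nat_lit 152) (nat_lit 894293771) (nat_lit 228) (nat_lit 9049984076) (nat_lit 27) (nat_lit 5) (nat_lit 29) (nat_lit 5) (nat_lit 30) (nat_lit 5) (nat_lit 283) (nat_lit 245) (nat_lit 192)) (XT.lf (nat_lit 0) (nat_lit 10813039041) (nat_lit 228) (nat_lit 2874599546) (nat_lit 76) (nat_lit 3625410906) (nat_lit 27) (nat_lit 5) (nat_lit 30) (nat_lit 5) (nat_lit 28) (nat_lit 5) (nat_lit 284) (nat_lit 245) (nat_lit 191))) (XT.nd (nat_lit 78) (nat_lit 0) (nat_lit 0) (XT.lf (nat_lit 0)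 (nat_lit 4636632074) (nat_lit 152) (nat_lit 9521739459) (nat_lit 228) (nat_lit 3763082318) (nat_lit 25) (nat_lit 5) (nat_lit 27) (nat_lit 5) (nat_lit 28) (nat_lit 5) (nat_lit 285) (nat_lit 245) (nat_lit 190)) (XT.lf (nat_lit 0) (nat_lit 12578290290) (nat_lit 152) (nat_lit 5111739645) (nat_lit 228) (nat_lit 869354313) (nat_lit 25) (nat_lit 5) (nat_lit 27) (nat_lit 5) (nat_lit 28) (nat_lit 5) (nat_lit 286) (nat_lit 245) (nat_lit 189)))) (XT.nd (nat_lit 156) (nat_lit 152) (nat_lit 0) (XT.nd (nat_lit 78) (nat_lit 0) (nat_lit 0) (XT.lf (nat_lit 0) (nat_lit 1663396109) (nat_lit 152) (nat_lit 433481280) (nat_lit 228) (nat_lit 17130831805) (nat_lit 22) (nat_lit 5) (nat_lit 24) (nat_lit 5) (nat_lit 25) (nat_lit 5) (nat_lit 287) (nat_lit 245) (nat_lit 188)) (XT.lf (nat_lit 0) (nat_lit 5326813524) (nat_lit 228) (nat_lit 10156771224) (nat_lit 76) (nat_lit 4437973392) (nat_lit 22) (nat_lit 5) (nat_lit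 25) (nat_lit 5) (nat_lit 23) (nat_lit 5) (nat_lit 288) (nat_lit 245) (nat_lit 187))) (XT.nd (nat_lit 78) (nat_lit 152) (nat_lit 0) (XT.lf (nat_lit 0) (nat_lit 8698429566) (nat_lit 228) (nat_lit 2428157645) (nat_lit 76) (nat_lit 9524551533) (nat_lit 22) (nat_lit 5) (nat_lit 25) (nat_lit 5) (nat_lit 23) (nat_lit 5) (nat_lit 289) (nat_lit 245) (nat_lit 186)) (XT.nd (nat_lit 78) (nat_lit 0) (nat_lit 0) (XT.lf (nat_lit 0) (nat_lit 5833402273) (nat_lit 152) (nat_lit 6470658799) (nat_lit 228) (nat_lit 9109911633) (nat_lit 20) (nat_lit 5) (nat_lit 22) (nat_lit 5) (nat_lit 23) (nat_lit 5) (nat_lit 290) (nat_lit 245) (nat_lit 185)) (XT.lf (nat_lit 0) (nat_lit 14552798916) (nat_lit 152) (nat_lit 1553259820) (nat_lit 228) (nat_lit 6108129267) (nat_lit 20) (nat_lit 5) (nat_lit 22) (nat_lit 5) (nat_lit 23) (nat_lit 5) (nat_lit 291) (nat_lit 245) (nat_lit 184)))))) (XT.nd (nat_lit 312) (nat_lit 76)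 (nat_lit 0) (XT.nd (nat_lit 156) (nat_lit 152) (nat_lit 0) (XT.nd (nat_lit 78) (nat_lit 76) (nat_lit 0) (XT.lf (nat_lit 0) (nat_lit 577185639) (nat_lit 76) (nat_lit 19562283639) (nat_lit 152) (nat_lit 2912920916) (nat_lit 19) (nat_lit 5) (nat_lit 20) (nat_lit 5) (nat_lit 21) (nat_lit 4) (nat_lit 292) (nat_lit 245) (nat_lit 183)) (XT.lf (nat_lit 0) (nat_lit 561306085) (nat_lit 152) (nat_lit 14505713999) (nat_lit 76) (nat_lit 8858504899) (nat_lit 18) (nat_lit 5) (nat_lit 20) (nat_lit 5) (nat_lit 19) (nat_lit 5) (nat_lit 293) (nat_lit 245) (nat_lit 182))) (XT.nd (nat_lit 78) (nat_lit 152) (nat_lit 0) (XT.lf (nat_lit 0) (nat_lit 4088557743) (nat_lit 152) (nat_lit 6222532462) (nat_lit 76) (nat_lit 14530014428) (nat_lit 18) (nat_lit 5) (nat_lit 20) (nat_lit 5) (nat_lit 19) (nat_lit 5) (nat_lit 294) (nat_lit 245) (nat_lit 181)) (XT.lf (nat_lit 0) (nat_lit 2520203010) (nat_lit 152) (nat_lit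 5289608361) (nat_lit 228) (nat_lit 17991804299) (nat_lit 16) (nat_lit 5) (nat_lit 18) (nat_lit 5) (nat_lit 19) (nat_lit 5) (nat_lit 295) (nat_lit 245) (nat_lit 180)))) (XT.nd (nat_lit 156) (nat_lit 76) (nat_lit 0) (XT.nd (nat_lit 78) (nat_lit 0) (nat_lit 0) (XT.lf (nat_lit 0) (nat_lit 11802544038) (nat_lit 228) (nat_lit 14925818562) (nat_lit 76) (nat_lit 77551573) (nat_lit 16) (nat_lit 5) (nat_lit 19) (nat_lit 5) (nat_lit 17) (nat_lit 4) (nat_lit 296) (nat_lit 245) (nat_lit 179)) (XT.lf (nat_lit 0) (nat_lit 16061221973) (nat_lit 228) (nat_lit 6273046875) (nat_lit 76) (nat_lit 5522874499) (nat_lit 16) (nat_lit 5) (nat_lit 19) (nat_lit 5) (nat_lit 17) (nat_lit 4) (nat_lit 297) (nat_lit 245) (nat_lit 178))) (XT.nd (nat_lit 78) (nat_lit 0) (nat_lit 0) (XT.lf (nat_lit 0) (nat_lit 2872012172) (nat_lit 76) (nat_lit 17686227258) (nat_lit 152) (nat_lit 8401453958) (nat_lit 15) (nat_lit 5) (nat_lit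 16) (nat_lit 5) (nat_lit 17) (nat_lit 4) (nat_lit 298) (nat_lit 245) (nat_lit 177)) (XT.nd (nat_lit 78) (nat_lit 0) (nat_lit 0) (XT.lf (nat_lit 0) (nat_lit 12660357189) (nat_lit 76) (nat_lit 12706982827) (nat_lit 152) (nat_lit 4745697582) (nat_lit 15) (nat_lit 5) (nat_lit 16) (nat_lit 5) (nat_lit 17) (nat_lit 4) (nat_lit 299) (nat_lit 245) (nat_lit 176)) (XT.lf (nat_lit 0) (nat_lit 22907878498) (nat_lit 76) (nat_lit 7490917293) (nat_lit 152) (nat_lit 926185149) (nat_lit 15) (nat_lit 5) (nat_lit 16) (nat_lit 5) (nat_lit 17) (nat_lit 4) (nat_lit 300) (nat_lit 245) (nat_lit 175))))))))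
noncomputable def xc127 : XT := (XT.nd (nat_lit 1404) (nat_lit 228) (nat_lit 0) (XT.nd (nat_lit 702) (nat_lit 228) (nat_lit 0) (XT.nd (nat_lit 312) (nat_lit 152) (nat_lit 0) (XT.nd (nat_lit 156) (nat_lit 0) (nat_lit 0) (XT.nd (nat_lit 78) (nat_lit 0) (nat_lit 0) (XT.lf (nat_lit 0) (nat_lit 1025517299) (nat_lit 152) (nat_lit 1958534492) (nat_lit 228) (nat_lit 29611163063) (nat_lit 12) (nat_lit 5) (nat_lit 14) (nat_lit 5) (nat_lit 15) (nat_lit 5) (nat_lit 301) (nat_lit 245) (nat_lit 174)) (XT.lf (nat_lit 0) (nat_lit 7246330504) (nat_lit 228) (nat_lit 22796607831) (nat_lit 76) (nat_lit 3875903433) (nat_lit 12) (nat_lit 5) (nat_lit 15) (nat_lit 5) (nat_lit 13) (nat_lit 4) (nat_lit 302) (nat_lit 245) (nat_lit 173))) (XT.nd (nat_lit 78) (nat_lit 0) (nat_lit 0) (XT.lf (nat_lit 0) (nat_lit 11737310923) (nat_lit 228) (nat_lit 13645188623) (nat_lit 76) (nat_lit 9925393250) (nat_lit 12) (nat_lit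 5) (nat_lit 15) (nat_lit 5) (nat_lit 13) (nat_lit 4) (nat_lit 303) (nat_lit 245) (nat_lit 172)) (XT.lf (nat_lit 0) (nat_lit 16437107648) (nat_lit 228) (nat_lit 4063072623) (nat_lit 76) (nat_lit 16267023840) (nat_lit 12) (nat_lit 5) (nat_lit 15) (nat_lit 5) (nat_lit 13) (nat_lit 4) (nat_lit 304) (nat_lit 245) (nat_lit 171)))) (XT.nd (nat_lit 156) (nat_lit 76) (nat_lit 0) (XT.nd (nat_lit 78) (nat_lit 0) (nat_lit 0) (XT.lf (nat_lit 0) (nat_lit 6170034360) (nat_lit 76) (nat_lit 15283207839) (nat_lit 152) (nat_lit 16842191492) (nat_lit 11) (nat_lit 5) (nat_lit 12) (nat_lit 5) (nat_lit 13) (nat_lit 4) (nat_lit 305) (nat_lit 245) (nat_lit 170)) (XT.lf (nat_lit 0) (nat_lit 17030675765) (nat_lit 76) (nat_lit 9743654619) (nat_lit 152) (nat_lit 13123056157) (nat_lit 11) (nat_lit 5) (nat_lit 12) (nat_lit 5) (nat_lit 13) (nat_lit 4) (nat_lit 306) (nat_lit 245) (nat_lit 169))) (XT.nd (nat_lit 78)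 (nat_lit 76) (nat_lit 0) (XT.lf (nat_lit 0) (nat_lit 28410366733) (nat_lit 76) (nat_lit 3937141302) (nat_lit 152) (nat_lit 9232645476) (nat_lit 11) (nat_lit 5) (nat_lit 12) (nat_lit 5) (nat_lit 13) (nat_lit 4) (nat_lit 307) (nat_lit 245) (nat_lit 168)) (XT.nd (nat_lit 78) (nat_lit 76) (nat_lit 0) (XT.lf (nat_lit 0) (nat_lit 38219614598) (nat_lit 152) (nat_lit 3045109401) (nat_lit 0) (nat_lit 2081338687) (nat_lit 11) (nat_lit 5) (nat_lit 13) (nat_lit 4) (nat_lit 11) (nat_lit 4) (nat_lit 308) (nat_lit 245) (nat_lit 167)) (XT.lf (nat_lit 0) (nat_lit 7746948430) (nat_lit 76) (nat_lit 36811064456) (nat_lit 76) (nat_lit 633636648) (nat_lit 10) (nat_lit 4) (nat_lit 11) (nat_lit 5) (nat_lit 11) (nat_lit 4) (nat_lit 309) (nat_lit 245) (nat_lit 166)))))) (XT.nd (nat_lit 312) (nat_lit 76) (nat_lit 0) (XT.nd (nat_lit 156) (nat_lit 76) (nat_lit 0) (XT.nd (nat_lit 78) (nat_lit 0) (nat_lit 0) (XT.lf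 (nat_lit 0) (nat_lit 3992762262) (nat_lit 152) (nat_lit 28029552691) (nat_lit 76) (nat_lit 15102045054) (nat_lit 9) (nat_lit 5) (nat_lit 11) (nat_lit 5) (nat_lit 10) (nat_lit 4) (nat_lit 310) (nat_lit 245) (nat_lit 165)) (XT.lf (nat_lit 0) (nat_lit 8817033131) (nat_lit 152) (nat_lit 18175309334) (nat_lit 76) (nat_lit 22161466126) (nat_lit 9) (nat_lit 5) (nat_lit 11) (nat_lit 5) (nat_lit 10) (nat_lit 4) (nat_lit 311) (nat_lit 245) (nat_lit 164))) (XT.nd (nat_lit 78) (nat_lit 76) (nat_lit 0) (XT.lf (nat_lit 0) (nat_lit 13870942647) (nat_lit 152) (nat_lit 7848615708) (nat_lit 76) (nat_lit 29565763598) (nat_lit 9) (nat_lit 5) (nat_lit 11) (nat_lit 5) (nat_lit 10) (nat_lit 4) (nat_lit 312) (nat_lit 245) (nat_lit 163)) (XT.lf (nat_lit 0) (nat_lit 3073486310) (nat_lit 76) (nat_lit 16141023352) (nat_lit 152) (nat_lit 34307066174) (nat_lit 8) (nat_lit 5) (nat_lit 9) (nat_lit 5) (nat_lit 10)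 (nat_lit 4) (nat_lit 313) (nat_lit 245) (nat_lit 162)))) (XT.nd (nat_lit 156) (nat_lit 76) (nat_lit 0) (XT.nd (nat_lit 78) (nat_lit 0) (nat_lit 0) (XT.lf (nat_lit 0) (nat_lit 14795193842) (nat_lit 76) (nat_lit 10152186097) (nat_lit 152) (nat_lit 30916168565) (nat_lit 8) (nat_lit 5) (nat_lit 9) (nat_lit 5) (nat_lit 10) (nat_lit 4) (nat_lit 314) (nat_lit 245) (nat_lit 161)) (XT.lf (nat_lit 0) (nat_lit 27084905033) (nat_lit 76) (nat_lit 3871707559) (nat_lit 152) (nat_lit 27366533020) (nat_lit 8) (nat_lit 5) (nat_lit 9) (nat_lit 5) (nat_lit 10) (nat_lit 4) (nat_lit 315) (nat_lit 245) (nat_lit 160))) (XT.nd (nat_lit 78) (nat_lit 76) (nat_lit 0) (XT.lf (nat_lit 0) (nat_lit 37298909790) (nat_lit 152) (nat_lit 20976736713) (nat_lit 0) (nat_lit 2628457118) (nat_lit 8) (nat_lit 5) (nat_lit 10) (nat_lit 4) (nat_lit 8) (nat_lit 4) (nat_lit 316) (nat_lit 245) (nat_lit 159)) (XT.nd (nat_lit 78) (nat_lit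 76) (nat_lit 0) (XT.lf (nat_lit 0) (nat_lit 44012356702) (nat_lit 152) (nat_lit 10282395375) (nat_lit 0) (nat_lit 9316666368) (nat_lit 8) (nat_lit 5) (nat_lit 10) (nat_lit 4) (nat_lit 8) (nat_lit 4) (nat_lit 317) (nat_lit 245) (nat_lit 158)) (XT.lf (nat_lit 0) (nat_lit 961467315) (nat_lit 76) (nat_lit 50106033405) (nat_lit 76) (nat_lit 15386307202) (nat_lit 7) (nat_lit 4) (nat_lit 8) (nat_lit 5) (nat_lit 8) (nat_lit 4) (nat_lit 318) (nat_lit 245) (nat_lit 157))))))) (XT.nd (nat_lit 702) (nat_lit 76) (nat_lit 0) (XT.nd (nat_lit 312) (nat_lit 76) (nat_lit 0) (XT.nd (nat_lit 156) (nat_lit 76) (nat_lit 0) (XT.nd (nat_lit 78) (nat_lit 0) (nat_lit 0) (XT.lf (nat_lit 0) (nat_lit 13108793576) (nat_lit 76) (nat_lit 45531941896) (nat_lit 76) (nat_lit 10789324390) (nat_lit 7) (nat_lit 4) (nat_lit 8) (nat_lit 5) (nat_lit 8) (nat_lit 4) (nat_lit 319) (nat_lit 245) (nat_lit 156)) (XT.lf (nat_lit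 0) (nat_lit 25848523185) (nat_lit 76) (nat_lit 40735724199) (nat_lit 76) (nat_lit 5971305452) (nat_lit 7) (nat_lit 4) (nat_lit 8) (nat_lit 5) (nat_lit 8) (nat_lit 4) (nat_lit 320) (nat_lit 245) (nat_lit 155))) (XT.nd (nat_lit 78) (nat_lit 76) (nat_lit 0) (XT.lf (nat_lit 0) (nat_lit 39210988831) (nat_lit 76) (nat_lit 35705960747) (nat_lit 76) (nat_lit 920778913) (nat_lit 7) (nat_lit 4) (nat_lit 8) (nat_lit 5) (nat_lit 8) (nat_lit 4) (nat_lit 321) (nat_lit 245) (nat_lit 154)) (XT.lf (nat_lit 0) (nat_lit 4234276002) (nat_lit 152) (nat_lit 26124690398) (nat_lit 76) (nat_lit 48922020394) (nat_lit 6) (nat_lit 5) (nat_lit 8) (nat_lit 5) (nat_lit 7) (nat_lit 4) (nat_lit 322) (nat_lit 245) (nat_lit 153)))) (XT.nd (nat_lit 156) (nat_lit 76) (nat_lit 0) (XT.nd (nat_lit 78) (nat_lit 0) (nat_lit 0) (XT.lf (nat_lit 0) (nat_lit 9608770105) (nat_lit 152) (nat_lit 15125810218) (nat_lit 76) (nat_lit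 58161448993) (nat_lit 6) (nat_lit 5) (nat_lit 8) (nat_lit 5) (nat_lit 7) (nat_lit 4) (nat_lit 323) (nat_lit 245) (nat_lit 152)) (XT.lf (nat_lit 0) (nat_lit 15244970486) (nat_lit 152) (nat_lit 3589535373) (nat_lit 76) (nat_lit 67857676241) (nat_lit 6) (nat_lit 5) (nat_lit 8) (nat_lit 5) (nat_lit 7) (nat_lit 4) (nat_lit 324) (nat_lit 245) (nat_lit 151))) (XT.nd (nat_lit 78) (nat_lit 0) (nat_lit 0) (XT.lf (nat_lit 0) (nat_lit 8793033443) (nat_lit 76) (nat_lit 12500547121) (nat_lit 152) (nat_lit 69378038845) (nat_lit 5) (nat_lit 5) (nat_lit 6) (nat_lit 5) (nat_lit 7) (nat_lit 4) (nat_lit 325) (nat_lit 245) (nat_lit 150)) (XT.nd (nat_lit 78) (nat_lit 0) (nat_lit 0) (XT.lf (nat_lit 0) (nat_lit 21907592278) (nat_lit 76) (nat_lit 5791269874) (nat_lit 152) (nat_lit 67148460922) (nat_lit 5) (nat_lit 5) (nat_lit 6) (nat_lit 5) (nat_lit 7) (nat_lit 4) (nat_lit 326) (nat_lit 245) (nat_lit 149))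 (XT.lf (nat_lit 0) (nat_lit 34437662929) (nat_lit 152) (nat_lit 63584942753) (nat_lit 0) (nat_lit 1208549718) (nat_lit 5) (nat_lit 5) (nat_lit 7) (nat_lit 4) (nat_lit 5) (nat_lit 4) (nat_lit 327) (nat_lit 245) (nat_lit 148)))))) (XT.nd (nat_lit 312) (nat_lit 76) (nat_lit 0) (XT.nd (nat_lit 156) (nat_lit 0) (nat_lit 0) (XT.nd (nat_lit 78) (nat_lit 0) (nat_lit 0) (XT.lf (nat_lit 0) (nat_lit 41602328222) (nat_lit 152) (nat_lit 53868249095) (nat_lit 0) (nat_lit 8359161737) (nat_lit 5) (nat_lit 5) (nat_lit 7) (nat_lit 4) (nat_lit 5) (nat_lit 4) (nat_lit 328) (nat_lit 245) (nat_lit 147)) (XT.lf (nat_lit 0) (nat_lit 49119498805) (nat_lit 152) (nat_lit 43676096884) (nat_lit 0) (nat_lit 15862948249) (nat_lit 5) (nat_lit 5) (nat_lit 7) (nat_lit 4) (nat_lit 5) (nat_lit 4) (nat_lit 329) (nat_lit 245) (nat_lit 146))) (XT.nd (nat_lit 78) (nat_lit 0) (nat_lit 0) (XT.lf (nat_lit 0) (nat_lit 57007072705)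 (nat_lit 152) (nat_lit 32984219093) (nat_lit 0) (nat_lit 23737775414) (nat_lit 5) (nat_lit 5) (nat_lit 7) (nat_lit 4) (nat_lit 5) (nat_lit 4) (nat_lit 330) (nat_lit 245) (nat_lit 145)) (XT.lf (nat_lit 0) (nat_lit 65283829858) (nat_lit 152) (nat_lit 21767158869) (nat_lit 0) (nat_lit 32002392821) (nat_lit 5) (nat_lit 5) (nat_lit 7) (nat_lit 4) (nat_lit 5) (nat_lit 4) (nat_lit 331) (nat_lit 245) (nat_lit 144)))) (XT.nd (nat_lit 156) (nat_lit 0) (nat_lit 0) (XT.nd (nat_lit 78) (nat_lit 76) (nat_lit 0) (XT.lf (nat_lit 0) (nat_lit 73969476830) (nat_lit 152) (nat_lit 9998208925) (nat_lit 0) (nat_lit 40676478129) (nat_lit 5) (nat_lit 5) (nat_lit 7) (nat_lit 4) (nat_lit 5) (nat_lit 4) (nat_lit 332) (nat_lit 245) (nat_lit 143)) (XT.lf (nat_lit 0) (nat_lit 2428375218) (nat_lit 76) (nat_lit 80694232256) (nat_lit 76) (nat_lit 47390222447) (nat_lit 4) (nat_lit 4) (nat_lit 5) (nat_lit 5) (nat_lit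 5) (nat_lit 4) (nat_lit 333) (nat_lit 245) (nat_lit 142))) (XT.nd (nat_lit 78) (nat_lit 0) (nat_lit 0) (XT.lf (nat_lit 0) (nat_lit 15815005023) (nat_lit 76) (nat_lit 77083094988) (nat_lit 76) (nat_lit 43768598409) (nat_lit 4) (nat_lit 4) (nat_lit 5) (nat_lit 5) (nat_lit 5) (nat_lit 4) (nat_lit 334) (nat_lit 245) (nat_lit 141)) (XT.nd (nat_lit 78) (nat_lit 0) (nat_lit 0) (XT.lf (nat_lit 0) (nat_lit 29862967477) (nat_lit 76) (nat_lit 73295000512) (nat_lit 76) (nat_lit 39970516533) (nat_lit 4) (nat_lit 4) (nat_lit 5) (nat_lit 5) (nat_lit 5) (nat_lit 4) (nat_lit 335) (nat_lit 245) (nat_lit 140)) (XT.lf (nat_lit 0) (nat_lit 44605710109) (nat_lit 76) (nat_lit 69320929555) (nat_lit 76) (nat_lit 35986933766) (nat_lit 4) (nat_lit 4) (nat_lit 5) (nat_lit 5) (nat_lit 5) (nat_lit 4) (nat_lit 336) (nat_lit 245) (nat_lit 139))))))))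
noncomputable def xc128 : XT := (XT.nd (nat_lit 1326) (nat_lit 0) (nat_lit 0) (XT.nd (nat_lit 624) (nat_lit 76) (nat_lit 0) (XT.nd (nat_lit 312) (nat_lit 76) (nat_lit 0) (XT.nd (nat_lit 156) (nat_lit 0) (nat_lit 0) (XT.nd (nat_lit 78) (nat_lit 0) (nat_lit 0) (XT.lf (nat_lit 0) (nat_lit 60078334688) (nat_lit 76) (nat_lit 65151420042) (nat_lit 76) (nat_lit 31808365388) (nat_lit 4) (nat_lit 4) (nat_lit 5) (nat_lit 5) (nat_lit 5) (nat_lit 4) (nat_lit 337) (nat_lit 245) (nat_lit 138)) (XT.lf (nat_lit 0) (nat_lit 76317680796) (nat_lit 76) (nat_lit 60776544572) (nat_lit 76) (nat_lit 27424862426) (nat_lit 4) (nat_lit 4) (nat_lit 5) (nat_lit 5) (nat_lit 5) (nat_lit 4) (nat_lit 338) (nat_lit 245) (nat_lit 137))) (XT.nd (nat_lit 78) (nat_lit 0) (nat_lit 0) (XT.lf (nat_lit 0) (nat_lit 93362413542) (nat_lit 76) (nat_lit 56185886773) (nat_lit 76) (nat_lit 22825987968) (nat_lit 4) (nat_lit 4) (nat_lit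 5) (nat_lit 5) (nat_lit 5) (nat_lit 4) (nat_lit 339) (nat_lit 245) (nat_lit 136)) (XT.lf (nat_lit 0) (nat_lit 111253115624) (nat_lit 76) (nat_lit 51368516508) (nat_lit 76) (nat_lit 18000792314) (nat_lit 4) (nat_lit 4) (nat_lit 5) (nat_lit 5) (nat_lit 5) (nat_lit 4) (nat_lit 340) (nat_lit 245) (nat_lit 135)))) (XT.nd (nat_lit 156) (nat_lit 76) (nat_lit 0) (XT.nd (nat_lit 78) (nat_lit 0) (nat_lit 0) (XT.lf (nat_lit 0) (nat_lit 130032383951) (nat_lit 76) (nat_lit 46312963848) (nat_lit 76) (nat_lit 12937786902) (nat_lit 4) (nat_lit 4) (nat_lit 5) (nat_lit 5) (nat_lit 5) (nat_lit 4) (nat_lit 341) (nat_lit 245) (nat_lit 134)) (XT.lf (nat_lit 0) (nat_lit 149744931067) (nat_lit 76) (nat_lit 41007191762) (nat_lit 76) (nat_lit 7624916958) (nat_lit 4) (nat_lit 4) (nat_lit 5) (nat_lit 5) (nat_lit 5) (nat_lit 4) (nat_lit 342) (nat_lit 245) (nat_lit 133))) (XT.nd (nat_lit 78) (nat_lit 76) (nat_lit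 0) (XT.lf (nat_lit 0) (nat_lit 170437691608) (nat_lit 76) (nat_lit 35438567460) (nat_lit 76) (nat_lit 2049532791) (nat_lit 4) (nat_lit 4) (nat_lit 5) (nat_lit 5) (nat_lit 5) (nat_lit 4) (nat_lit 343) (nat_lit 245) (nat_lit 132)) (XT.lf (nat_lit 0) (nat_lit 3679964091) (nat_lit 152) (nat_lit 25851546249) (nat_lit 76) (nat_lit 188417647988) (nat_lit 3) (nat_lit 5) (nat_lit 5) (nat_lit 5) (nat_lit 4) (nat_lit 4) (nat_lit 344) (nat_lit 245) (nat_lit 131))))) (XT.nd (nat_lit 312) (nat_lit 0) (nat_lit 0) (XT.nd (nat_lit 156) (nat_lit 76) (nat_lit 0) (XT.nd (nat_lit 78) (nat_lit 0) (nat_lit 0) (XT.lf (nat_lit 0) (nat_lit 9624310576) (nat_lit 152) (nat_lit 13671767351) (nat_lit 76) (nat_lit 205176075090) (nat_lit 3) (nat_lit 5) (nat_lit 5) (nat_lit 5) (nat_lit 4) (nat_lit 4) (nat_lit 345) (nat_lit 245) (nat_lit 130)) (XT.lf (nat_lit 0) (nat_lit 15863257720) (nat_lit 152) (nat_lit 887765132)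 (nat_lit 76) (nat_lit 222770407770) (nat_lit 3) (nat_lit 5) (nat_lit 5) (nat_lit 5) (nat_lit 4) (nat_lit 4) (nat_lit 346) (nat_lit 245) (nat_lit 129))) (XT.nd (nat_lit 78) (nat_lit 0) (nat_lit 0) (XT.lf (nat_lit 0) (nat_lit 12945226603) (nat_lit 76) (nat_lit 9668544821) (nat_lit 152) (nat_lit 228499421959) (nat_lit 2) (nat_lit 5) (nat_lit 3) (nat_lit 5) (nat_lit 4) (nat_lit 4) (nat_lit 347) (nat_lit 245) (nat_lit 128)) (XT.lf (nat_lit 0) (nat_lit 27496223641) (nat_lit 76) (nat_lit 2218178792) (nat_lit 152) (nat_lit 233569514399) (nat_lit 2) (nat_lit 5) (nat_lit 3) (nat_lit 5) (nat_lit 4) (nat_lit 4) (nat_lit 348) (nat_lit 245) (nat_lit 127)))) (XT.nd (nat_lit 156) (nat_lit 0) (nat_lit 0) (XT.nd (nat_lit 78) (nat_lit 0) (nat_lit 0) (XT.lf (nat_lit 0) (nat_lit 37255213310) (nat_lit 152) (nat_lit 233380252222) (nat_lit 0) (nat_lit 5423455534) (nat_lit 2) (nat_lit 5) (nat_lit 4) (nat_lit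 4) (nat_lit 2) (nat_lit 4) (nat_lit 349) (nat_lit 245) (nat_lit 126)) (XT.lf (nat_lit 0) (nat_lit 45207183703) (nat_lit 152) (nat_lit 230892937209) (nat_lit 0) (nat_lit 13370850584) (nat_lit 2) (nat_lit 5) (nat_lit 4) (nat_lit 4) (nat_lit 2) (nat_lit 4) (nat_lit 350) (nat_lit 245) (nat_lit 125))) (XT.nd (nat_lit 78) (nat_lit 0) (nat_lit 0) (XT.lf (nat_lit 0) (nat_lit 53554614888) (nat_lit 152) (nat_lit 228285193986) (nat_lit 0) (nat_lit 21713924299) (nat_lit 2) (nat_lit 5) (nat_lit 4) (nat_lit 4) (nat_lit 2) (nat_lit 4) (nat_lit 351) (nat_lit 245) (nat_lit 124)) (XT.nd (nat_lit 78) (nat_lit 0) (nat_lit 0) (XT.lf (nat_lit 0) (nat_lit 62317381700) (nat_lit 152) (nat_lit 225550813641) (nat_lit 0) (nat_lit 30472541141) (nat_lit 2) (nat_lit 5) (nat_lit 4) (nat_lit 4) (nat_lit 2) (nat_lit 4) (nat_lit 352) (nat_lit 245) (nat_lit 123)) (XT.lf (nat_lit 0) (nat_lit 71516347872) (nat_lit 152)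 (nat_lit 222683285745) (nat_lit 0) (nat_lit 39667554959) (nat_lit 2) (nat_lit 5) (nat_lit 4) (nat_lit 4) (nat_lit 2) (nat_lit 4) (nat_lit 353) (nat_lit 245) (nat_lit 122))))))) (XT.nd (nat_lit 29250) (nat_lit 0) (nat_lit 6840) (XT.nd (nat_lit 312) (nat_lit 0) (nat_lit 0) (XT.nd (nat_lit 156) (nat_lit 0) (nat_lit 0) (XT.nd (nat_lit 78) (nat_lit 0) (nat_lit 0) (XT.lf (nat_lit 0) (nat_lit 81173415703) (nat_lit 152) (nat_lit 219675782850) (nat_lit 0) (nat_lit 49320858644) (nat_lit 2) (nat_lit 5) (nat_lit 4) (nat_lit 4) (nat_lit 2) (nat_lit 4) (nat_lit 354) (nat_lit 245) (nat_lit 121)) (XT.lf (nat_lit 0) (nat_lit 91311578211) (nat_lit 152) (nat_lit 216521144235) (nat_lit 0) (nat_lit 59455436252) (nat_lit 2) (nat_lit 5) (nat_lit 4) (nat_lit 4) (nat_lit 2) (nat_lit 4) (nat_lit 355) (nat_lit 245) (nat_lit 120))) (XT.nd (nat_lit 78) (nat_lit 0) (nat_lit 0) (XT.lf (nat_lit 0) (nat_lit 101954973880)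 (nat_lit 152) (nat_lit 213211858855) (nat_lit 0) (nat_lit 70095417729) (nat_lit 2) (nat_lit 5) (nat_lit 4) (nat_lit 4) (nat_lit 2) (nat_lit 4) (nat_lit 356) (nat_lit 245) (nat_lit 119)) (XT.lf (nat_lit 0) (nat_lit 113128944126) (nat_lit 152) (nat_lit 209740047461) (nat_lit 0) (nat_lit 81266136365) (nat_lit 2) (nat_lit 5) (nat_lit 4) (nat_lit 4) (nat_lit 2) (nat_lit 4) (nat_lit 357) (nat_lit 245) (nat_lit 118)))) (XT.nd (nat_lit 156) (nat_lit 0) (nat_lit 0) (XT.nd (nat_lit 78) (nat_lit 0) (nat_lit 0) (XT.lf (nat_lit 0) (nat_lit 124860093642) (nat_lit 152) (nat_lit 206097443833) (nat_lit 0) (nat_lit 92994189108) (nat_lit 2) (nat_lit 5) (nat_lit 4) (nat_lit 4) (nat_lit 2) (nat_lit 4) (nat_lit 358) (nat_lit 245) (nat_lit 117)) (XT.lf (nat_lit 0) (nat_lit 137176353735) (nat_lit 152) (nat_lit 202275375107) (nat_lit 0) (nat_lit 105307499895) (nat_lit 2) (nat_lit 5) (nat_lit 4) (nat_lit 4)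 (nat_lit 2) (nat_lit 4) (nat_lit 359) (nat_lit 245) (nat_lit 116))) (XT.nd (nat_lit 28626) (nat_lit 0) (nat_lit 7752) (XT.lf (nat_lit 0) (nat_lit 150107048835) (nat_lit 152) (nat_lit 198264741119) (nat_lit 0) (nat_lit 118235386131) (nat_lit 2) (nat_lit 5) (nat_lit 4) (nat_lit 4) (nat_lit 2) (nat_lit 4) (nat_lit 360) (nat_lit 245) (nat_lit 115)) (XT.nd (nat_lit 78) (nat_lit 0) (nat_lit 0) (XT.lf (nat_lit 0) (nat_lit 378739020) (nat_lit 0) (nat_lit 378739020) (nat_lit 380) (nat_lit 2679939384) (nat_lit 104) (nat_lit 5) (nat_lit 104) (nat_lit 3) (nat_lit 109) (nat_lit 3) (nat_lit 246) (nat_lit 246) (nat_lit 228)) (XT.lf (nat_lit 0) (nat_lit 3329471437) (nat_lit 380) (nat_lit 3075169506) (nat_lit 456) (nat_lit 545374122) (nat_lit 104) (nat_lit 5) (nat_lit 109) (nat_lit 3) (nat_lit 110) (nat_lit 5) (nat_lit 247) (nat_lit 246) (nat_lit 227)))))) (XT.nd (nat_lit 312) (nat_lit 456) (nat_lit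 0) (XT.nd (nat_lit 156) (nat_lit 456) (nat_lit 0) (XT.nd (nat_lit 78) (nat_lit 0) (nat_lit 0) (XT.lf (nat_lit 76) (nat_lit 44507255) (nat_lit 0) (nat_lit 5091037098) (nat_lit 456) (nat_lit 1898871396) (nat_lit 105) (nat_lit 5) (nat_lit 104) (nat_lit 5) (nat_lit 110) (nat_lit 5) (nat_lit 248) (nat_lit 246) (nat_lit 226)) (XT.lf (nat_lit 76) (nat_lit 3364330290) (nat_lit 0) (nat_lit 3611758679) (nat_lit 456) (nat_lit 150218186) (nat_lit 105) (nat_lit 5) (nat_lit 104) (nat_lit 5) (nat_lit 110) (nat_lit 5) (nat_lit 249) (nat_lit 246) (nat_lit 225))) (XT.nd (nat_lit 78) (nat_lit 0) (nat_lit 0) (XT.lf (nat_lit 0) (nat_lit 1527010125) (nat_lit 456) (nat_lit 462492300) (nat_lit 532) (nat_lit 5237654167) (nat_lit 98) (nat_lit 5) (nat_lit 104) (nat_lit 5) (nat_lit 105) (nat_lit 5) (nat_lit 250) (nat_lit 246) (nat_lit 224)) (XT.lf (nat_lit 76) (nat_lit 3036183076) (nat_lit 0) (nat_lit 194367725)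 (nat_lit 532) (nat_lit 4105413464) (nat_lit 99) (nat_lit 5) (nat_lit 98) (nat_lit 5) (nat_lit 105) (nat_lit 5) (nat_lit 251) (nat_lit 246) (nat_lit 223)))) (XT.nd (nat_lit 156) (nat_lit 532) (nat_lit 0) (XT.nd (nat_lit 78) (nat_lit 0) (nat_lit 0) (XT.lf (nat_lit 0) (nat_lit 4958117943) (nat_lit 456) (nat_lit 815784540) (nat_lit 532) (nat_lit 1679761519) (nat_lit 99) (nat_lit 5) (nat_lit 105) (nat_lit 5) (nat_lit 106) (nat_lit 5) (nat_lit 252) (nat_lit 246) (nat_lit 222)) (XT.lf (nat_lit 76) (nat_lit 2868865740) (nat_lit 0) (nat_lit 3860217649) (nat_lit 532) (nat_lit 850689722) (nat_lit 100) (nat_lit 5) (nat_lit 99) (nat_lit 5) (nat_lit 106) (nat_lit 5) (nat_lit 253) (nat_lit 246) (nat_lit 221))) (XT.nd (nat_lit 78) (nat_lit 0) (nat_lit 76) (XT.lf (nat_lit 0) (nat_lit 773037922) (nat_lit 532) (nat_lit 1023809622) (nat_lit 608) (nat_lit 5918762498) (nat_lit 92) (nat_lit 5) (nat_lit 99)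 (nat_lit 5) (nat_lit 100) (nat_lit 5) (nat_lit 254) (nat_lit 246) (nat_lit 220)) (XT.nd (nat_lit 78) (nat_lit 0) (nat_lit 0) (XT.lf (nat_lit 0) (nat_lit 2416073513) (nat_lit 532) (nat_lit 5003030874) (nat_lit 76) (nat_lit 440425900) (nat_lit 93) (nat_lit 5) (nat_lit 100) (nat_lit 5) (nat_lit 94) (nat_lit 5) (nat_lit 255) (nat_lit 246) (nat_lit 219)) (XT.lf (nat_lit 0) (nat_lit 4106679145) (nat_lit 532) (nat_lit 1138311058) (nat_lit 76) (nat_lit 2767694255) (nat_lit 93) (nat_lit 5) (nat_lit 100) (nat_lit 5) (nat_lit 94) (nat_lit 5) (nat_lit 256) (nat_lit 246) (nat_lit 218))))))))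
noncomputable def xc129 : XT := (XT.nd (nat_lit 1326) (nat_lit 1672) (nat_lit 0) (XT.nd (nat_lit 624) (nat_lit 1596) (nat_lit 0) (XT.nd (nat_lit 312) (nat_lit 1064) (nat_lit 0) (XT.nd (nat_lit 156) (nat_lit 684) (nat_lit 0) (XT.nd (nat_lit 78) (nat_lit 0) (nat_lit 0) (XT.lf (nat_lit 0) (nat_lit 2952073388) (nat_lit 532) (nat_lit 2898059230) (nat_lit 608) (nat_lit 2325241965) (nat_lit 86) (nat_lit 5) (nat_lit 93) (nat_lit 5) (nat_lit 94) (nat_lit 5) (nat_lit 257) (nat_lit 246) (nat_lit 217)) (XT.lf (nat_lit 0) (nat_lit 7225441411) (nat_lit 532) (nat_lit 399572836) (nat_lit 608) (nat_lit 724252309) (nat_lit 86) (nat_lit 5) (nat_lit 93) (nat_lit 5) (nat_lit 94) (nat_lit 5) (nat_lit 258) (nat_lit 246) (nat_lit 216))) (XT.nd (nat_lit 78) (nat_lit 0) (nat_lit 0) (XT.lf (nat_lit 0) (nat_lit 939337485) (nat_lit 684) (nat_lit 5360938806) (nat_lit 76) (nat_lit 2230425311) (nat_lit 77) (nat_lit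 5) (nat_lit 86) (nat_lit 5) (nat_lit 78) (nat_lit 5) (nat_lit 259) (nat_lit 246) (nat_lit 215)) (XT.lf (nat_lit 0) (nat_lit 2617483077) (nat_lit 684) (nat_lit 1085699403) (nat_lit 76) (nat_lit 5019888450) (nat_lit 77) (nat_lit 5) (nat_lit 86) (nat_lit 5) (nat_lit 78) (nat_lit 5) (nat_lit 260) (nat_lit 246) (nat_lit 214)))) (XT.nd (nat_lit 156) (nat_lit 380) (nat_lit 0) (XT.nd (nat_lit 78) (nat_lit 0) (nat_lit 0) (XT.lf (nat_lit 0) (nat_lit 3453104729) (nat_lit 684) (nat_lit 913506744) (nat_lit 760) (nat_lit 4559323927) (nat_lit 68) (nat_lit 5) (nat_lit 77) (nat_lit 5) (nat_lit 78) (nat_lit 5) (nat_lit 261) (nat_lit 246) (nat_lit 213)) (XT.lf (nat_lit 0) (nat_lit 6188843154) (nat_lit 760) (nat_lit 976516422) (nat_lit 76) (nat_lit 1974520651) (nat_lit 68) (nat_lit 5) (nat_lit 78) (nat_lit 5) (nat_lit 69) (nat_lit 5) (nat_lit 262) (nat_lit 246) (nat_lit 212))) (XT.nd (nat_lit 78) (nat_lit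 76) (nat_lit 0) (XT.lf (nat_lit 0) (nat_lit 3790713713) (nat_lit 304) (nat_lit 4324192469) (nat_lit 380) (nat_lit 1249189153) (nat_lit 64) (nat_lit 5) (nat_lit 68) (nat_lit 5) (nat_lit 69) (nat_lit 5) (nat_lit 263) (nat_lit 246) (nat_lit 211)) (XT.lf (nat_lit 0) (nat_lit 476742295) (nat_lit 380) (nat_lit 838625967) (nat_lit 76) (nat_lit 8286112614) (nat_lit 63) (nat_lit 5) (nat_lit 68) (nat_lit 5) (nat_lit 64) (nat_lit 5) (nat_lit 264) (nat_lit 246) (nat_lit 210))))) (XT.nd (nat_lit 312) (nat_lit 912) (nat_lit 0) (XT.nd (nat_lit 156) (nat_lit 304) (nat_lit 0) (XT.nd (nat_lit 78) (nat_lit 0) (nat_lit 0) (XT.lf (nat_lit 0) (nat_lit 2284836714) (nat_lit 456) (nat_lit 5691810175) (nat_lit 76) (nat_lit 1871353076) (nat_lit 58) (nat_lit 5) (nat_lit 64) (nat_lit 5) (nat_lit 59) (nat_lit 5) (nat_lit 265) (nat_lit 246) (nat_lit 209)) (XT.lf (nat_lit 0) (nat_lit 4163436555) (nat_lit 456) (nat_lit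 758609100) (nat_lit 76) (nat_lit 5185966285) (nat_lit 58) (nat_lit 5) (nat_lit 64) (nat_lit 5) (nat_lit 59) (nat_lit 5) (nat_lit 266) (nat_lit 246) (nat_lit 208))) (XT.nd (nat_lit 78) (nat_lit 0) (nat_lit 0) (XT.lf (nat_lit 0) (nat_lit 4507875518) (nat_lit 304) (nat_lit 1645235174) (nat_lit 380) (nat_lit 4227220385) (nat_lit 54) (nat_lit 5) (nat_lit 58) (nat_lit 5) (nat_lit 59) (nat_lit 5) (nat_lit 267) (nat_lit 246) (nat_lit 207)) (XT.lf (nat_lit 0) (nat_lit 8231690919) (nat_lit 380) (nat_lit 689226130) (nat_lit 76) (nat_lit 1746033982) (nat_lit 54) (nat_lit 5) (nat_lit 59) (nat_lit 5) (nat_lit 55) (nat_lit 5) (nat_lit 268) (nat_lit 246) (nat_lit 206)))) (XT.nd (nat_lit 156) (nat_lit 532) (nat_lit 0) (XT.nd (nat_lit 78) (nat_lit 76) (nat_lit 0) (XT.lf (nat_lit 0) (nat_lit 4824038974) (nat_lit 304) (nat_lit 5643242241) (nat_lit 380) (nat_lit 498115265) (nat_lit 50) (nat_lit 5) (nat_lit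 54) (nat_lit 5) (nat_lit 55) (nat_lit 5) (nat_lit 269) (nat_lit 246) (nat_lit 205)) (XT.lf (nat_lit 0) (nat_lit 1449940812) (nat_lit 380) (nat_lit 722841048) (nat_lit 76) (nat_lit 9106757510) (nat_lit 49) (nat_lit 5) (nat_lit 54) (nat_lit 5) (nat_lit 50) (nat_lit 5) (nat_lit 270) (nat_lit 246) (nat_lit 204))) (XT.nd (nat_lit 78) (nat_lit 304) (nat_lit 0) (XT.lf (nat_lit 0) (nat_lit 3535688198) (nat_lit 304) (nat_lit 6565817800) (nat_lit 76) (nat_lit 1504752017) (nat_lit 46) (nat_lit 5) (nat_lit 50) (nat_lit 5) (nat_lit 47) (nat_lit 5) (nat_lit 271) (nat_lit 246) (nat_lit 203)) (XT.nd (nat_lit 78) (nat_lit 304) (nat_lit 0) (XT.lf (nat_lit 0) (nat_lit 5728679124) (nat_lit 304) (nat_lit 923543990) (nat_lit 76) (nat_lit 5297063883) (nat_lit 46) (nat_lit 5) (nat_lit 50) (nat_lit 5) (nat_lit 47) (nat_lit 5) (nat_lit 272) (nat_lit 246) (nat_lit 202)) (XT.lf (nat_lit 0) (nat_lit 5111092902)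 (nat_lit 304) (nat_lit 2957067511) (nat_lit 380) (nat_lit 4239581368) (nat_lit 42) (nat_lit 5) (nat_lit 46) (nat_lit 5) (nat_lit 47) (nat_lit 5) (nat_lit 273) (nat_lit 246) (nat_lit 201))))))) (XT.nd (nat_lit 702) (nat_lit 684) (nat_lit 0) (XT.nd (nat_lit 312) (nat_lit 456) (nat_lit 0) (XT.nd (nat_lit 156) (nat_lit 228) (nat_lit 0) (XT.nd (nat_lit 78) (nat_lit 304) (nat_lit 0) (XT.lf (nat_lit 0) (nat_lit 10513021894) (nat_lit 380) (nat_lit 1272983749) (nat_lit 76) (nat_lit 898804206) (nat_lit 42) (nat_lit 5) (nat_lit 47) (nat_lit 5) (nat_lit 43) (nat_lit 5) (nat_lit 274) (nat_lit 246) (nat_lit 200)) (XT.lf (nat_lit 0) (nat_lit 87475828) (nat_lit 304) (nat_lit 8071187488) (nat_lit 76) (nat_lit 4917765956) (nat_lit 38) (nat_lit 5) (nat_lit 42) (nat_lit 5) (nat_lit 39) (nat_lit 5) (nat_lit 275) (nat_lit 246) (nat_lit 199))) (XT.nd (nat_lit 78) (nat_lit 228) (nat_lit 0) (XT.lf (nat_lit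 0) (nat_lit 2369093913) (nat_lit 304) (nat_lit 1933411490) (nat_lit 76) (nat_lit 9184320995) (nat_lit 38) (nat_lit 5) (nat_lit 42) (nat_lit 5) (nat_lit 39) (nat_lit 5) (nat_lit 276) (nat_lit 246) (nat_lit 198)) (XT.lf (nat_lit 0) (nat_lit 4608785147) (nat_lit 228) (nat_lit 190311819) (nat_lit 304) (nat_lit 9117022408) (nat_lit 35) (nat_lit 5) (nat_lit 38) (nat_lit 5) (nat_lit 39) (nat_lit 5) (nat_lit 277) (nat_lit 246) (nat_lit 197)))) (XT.nd (nat_lit 156) (nat_lit 304) (nat_lit 0) (XT.nd (nat_lit 78) (nat_lit 152) (nat_lit 0) (XT.lf (nat_lit 0) (nat_lit 7411499301) (nat_lit 304) (nat_lit 2935897318) (nat_lit 76) (nat_lit 4016522278) (nat_lit 35) (nat_lit 5) (nat_lit 39) (nat_lit 5) (nat_lit 36) (nat_lit 5) (nat_lit 278) (nat_lit 246) (nat_lit 196)) (XT.lf (nat_lit 0) (nat_lit 3824942872) (nat_lit 152) (nat_lit 6357347668) (nat_lit 228) (nat_lit 4650512137) (nat_lit 33) (nat_lit 5)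 (nat_lit 35) (nat_lit 5) (nat_lit 36) (nat_lit 5) (nat_lit 279) (nat_lit 246) (nat_lit 195))) (XT.nd (nat_lit 78) (nat_lit 304) (nat_lit 0) (XT.lf (nat_lit 0) (nat_lit 10978063826) (nat_lit 152) (nat_lit 2129134601) (nat_lit 228) (nat_lit 2217232144) (nat_lit 33) (nat_lit 5) (nat_lit 35) (nat_lit 5) (nat_lit 36) (nat_lit 5) (nat_lit 280) (nat_lit 246) (nat_lit 194)) (XT.nd (nat_lit 78) (nat_lit 0) (nat_lit 0) (XT.lf (nat_lit 0) (nat_lit 372291881) (nat_lit 304) (nat_lit 13194455572) (nat_lit 76) (nat_lit 2271430784) (nat_lit 29) (nat_lit 5) (nat_lit 33) (nat_lit 5) (nat_lit 30) (nat_lit 5) (nat_lit 281) (nat_lit 246) (nat_lit 193)) (XT.lf (nat_lit 0) (nat_lit 3094023191) (nat_lit 304) (nat_lit 6359481536) (nat_lit 76) (nat_lit 6918496979) (nat_lit 29) (nat_lit 5) (nat_lit 33) (nat_lit 5) (nat_lit 30) (nat_lit 5) (nat_lit 282) (nat_lit 246) (nat_lit 192)))))) (XT.nd (nat_lit 312) (nat_lit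 380) (nat_lit 0) (XT.nd (nat_lit 156) (nat_lit 152) (nat_lit 0) (XT.nd (nat_lit 78) (nat_lit 0) (nat_lit 0) (XT.lf (nat_lit 0) (nat_lit 797723204) (nat_lit 152) (nat_lit 5135645193) (nat_lit 228) (nat_lit 11000136398) (nat_lit 27) (nat_lit 5) (nat_lit 29) (nat_lit 5) (nat_lit 30) (nat_lit 5) (nat_lit 283) (nat_lit 246) (nat_lit 191)) (XT.lf (nat_lit 0) (nat_lit 8489251514) (nat_lit 152) (nat_lit 502983599) (nat_lit 228) (nat_lit 8527031938) (nat_lit 27) (nat_lit 5) (nat_lit 29) (nat_lit 5) (nat_lit 30) (nat_lit 5) (nat_lit 284) (nat_lit 246) (nat_lit 190))) (XT.nd (nat_lit 78) (nat_lit 152) (nat_lit 0) (XT.lf (nat_lit 0) (nat_lit 12243215560) (nat_lit 228) (nat_lit 1680549873) (nat_lit 76) (nat_lit 4208652254) (nat_lit 27) (nat_lit 5) (nat_lit 30) (nat_lit 5) (nat_lit 28) (nat_lit 5) (nat_lit 285) (nat_lit 246) (nat_lit 189)) (XT.lf (nat_lit 0) (nat_lit 6184666238) (nat_lit 152) (nat_lit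 9549339737) (nat_lit 228) (nat_lit 3038412821) (nat_lit 25) (nat_lit 5) (nat_lit 27) (nat_lit 5) (nat_lit 28) (nat_lit 5) (nat_lit 286) (nat_lit 246) (nat_lit 188)))) (XT.nd (nat_lit 156) (nat_lit 152) (nat_lit 0) (XT.nd (nat_lit 78) (nat_lit 228) (nat_lit 0) (XT.lf (nat_lit 0) (nat_lit 14460731052) (nat_lit 152) (nat_lit 4940196442) (nat_lit 228) (nat_lit 43466206) (nat_lit 25) (nat_lit 5) (nat_lit 27) (nat_lit 5) (nat_lit 28) (nat_lit 5) (nat_lit 287) (nat_lit 246) (nat_lit 187)) (XT.lf (nat_lit 0) (nat_lit 3008786697) (nat_lit 152) (nat_lit 14099467) (nat_lit 228) (nat_lit 17123662755) (nat_lit 22) (nat_lit 5) (nat_lit 24) (nat_lit 5) (nat_lit 25) (nat_lit 5) (nat_lit 288) (nat_lit 246) (nat_lit 186))) (XT.nd (nat_lit 78) (nat_lit 152) (nat_lit 0) (XT.lf (nat_lit 0) (nat_lit 6381774222) (nat_lit 228) (nat_lit 9428533215) (nat_lit 76) (nat_lit 5066480953) (nat_lit 22) (nat_lit 5)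 (nat_lit 25) (nat_lit 5) (nat_lit 23) (nat_lit 5) (nat_lit 289) (nat_lit 246) (nat_lit 185)) (XT.nd (nat_lit 78) (nat_lit 152) (nat_lit 0) (XT.lf (nat_lit 0) (nat_lit 9884417732) (nat_lit 228) (nat_lit 1372349745) (nat_lit 76) (nat_lit 10388025672) (nat_lit 22) (nat_lit 5) (nat_lit 25) (nat_lit 5) (nat_lit 23) (nat_lit 5) (nat_lit 290) (nat_lit 246) (nat_lit 184)) (XT.lf (nat_lit 0) (nat_lit 7283300817) (nat_lit 152) (nat_lit 6369348108) (nat_lit 228) (nat_lit 8794068226) (nat_lit 20) (nat_lit 5) (nat_lit 22) (nat_lit 5) (nat_lit 23) (nat_lit 5) (nat_lit 291) (nat_lit 246) (nat_lit 183))))))))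
noncomputable def xc130 : XT := (XT.nd (nat_lit 1326) (nat_lit 456) (nat_lit 0) (XT.nd (nat_lit 624) (nat_lit 304) (nat_lit 0) (XT.nd (nat_lit 312) (nat_lit 228) (nat_lit 0) (XT.nd (nat_lit 156) (nat_lit 76) (nat_lit 0) (XT.nd (nat_lit 78) (nat_lit 76) (nat_lit 0) (XT.lf (nat_lit 0) (nat_lit 16383513557) (nat_lit 152) (nat_lit 1226309829) (nat_lit 228) (nat_lit 5678927170) (nat_lit 20) (nat_lit 5) (nat_lit 22) (nat_lit 5) (nat_lit 23) (nat_lit 5) (nat_lit 292) (nat_lit 246) (nat_lit 182)) (XT.lf (nat_lit 0) (nat_lit 1720676669) (nat_lit 76) (nat_lit 20114386557) (nat_lit 152) (nat_lit 2334349967) (nat_lit 19) (nat_lit 5) (nat_lit 20) (nat_lit 5) (nat_lit 21) (nat_lit 4) (nat_lit 293) (nat_lit 246) (nat_lit 181))) (XT.nd (nat_lit 78) (nat_lit 0) (nat_lit 0) (XT.lf (nat_lit 0) (nat_lit 1257026177) (nat_lit 152) (nat_lit 14146312840) (nat_lit 76) (nat_lit 9684022344) (nat_lit 18) (nat_lit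 5) (nat_lit 20) (nat_lit 5) (nat_lit 19) (nat_lit 5) (nat_lit 294) (nat_lit 246) (nat_lit 180)) (XT.lf (nat_lit 0) (nat_lit 4928847334) (nat_lit 152) (nat_lit 5500623981) (nat_lit 76) (nat_lit 15620888673) (nat_lit 18) (nat_lit 5) (nat_lit 20) (nat_lit 5) (nat_lit 19) (nat_lit 5) (nat_lit 295) (nat_lit 246) (nat_lit 179)))) (XT.nd (nat_lit 156) (nat_lit 76) (nat_lit 0) (XT.nd (nat_lit 78) (nat_lit 0) (nat_lit 0) (XT.lf (nat_lit 0) (nat_lit 3662586408) (nat_lit 152) (nat_lit 5159166541) (nat_lit 228) (nat_lit 18237912105) (nat_lit 16) (nat_lit 5) (nat_lit 18) (nat_lit 5) (nat_lit 19) (nat_lit 5) (nat_lit 296) (nat_lit 246) (nat_lit 178)) (XT.lf (nat_lit 0) (nat_lit 12990401576) (nat_lit 228) (nat_lit 14679501105) (nat_lit 76) (nat_lit 445507495) (nat_lit 16) (nat_lit 5) (nat_lit 19) (nat_lit 5) (nat_lit 17) (nat_lit 4) (nat_lit 297) (nat_lit 246) (nat_lit 177))) (XT.nd (nat_lit 78) (nat_lit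 76) (nat_lit 0) (XT.lf (nat_lit 0) (nat_lit 17433550057) (nat_lit 228) (nat_lit 5641357900) (nat_lit 76) (nat_lit 6145759503) (nat_lit 16) (nat_lit 5) (nat_lit 19) (nat_lit 5) (nat_lit 17) (nat_lit 4) (nat_lit 298) (nat_lit 246) (nat_lit 176)) (XT.lf (nat_lit 0) (nat_lit 3945706659) (nat_lit 76) (nat_lit 18197125150) (nat_lit 152) (nat_lit 8236183939) (nat_lit 15) (nat_lit 5) (nat_lit 16) (nat_lit 5) (nat_lit 17) (nat_lit 4) (nat_lit 299) (nat_lit 246) (nat_lit 175))))) (XT.nd (nat_lit 312) (nat_lit 76) (nat_lit 0) (XT.nd (nat_lit 156) (nat_lit 228) (nat_lit 0) (XT.nd (nat_lit 78) (nat_lit 0) (nat_lit 0) (XT.lf (nat_lit 0) (nat_lit 14179178742) (nat_lit 76) (nat_lit 12986700090) (nat_lit 152) (nat_lit 4425513207) (nat_lit 15) (nat_lit 5) (nat_lit 16) (nat_lit 5) (nat_lit 17) (nat_lit 4) (nat_lit 300) (nat_lit 246) (nat_lit 174)) (XT.lf (nat_lit 0) (nat_lit 24896894989) (nat_lit 76)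 (nat_lit 7526766131) (nat_lit 152) (nat_lit 441571307) (nat_lit 15) (nat_lit 5) (nat_lit 16) (nat_lit 5) (nat_lit 17) (nat_lit 4) (nat_lit 301) (nat_lit 246) (nat_lit 173))) (XT.nd (nat_lit 78) (nat_lit 0) (nat_lit 0) (XT.lf (nat_lit 0) (nat_lit 1924231658) (nat_lit 152) (nat_lit 1711710988) (nat_lit 228) (nat_lit 30563217102) (nat_lit 12) (nat_lit 5) (nat_lit 14) (nat_lit 5) (nat_lit 15) (nat_lit 5) (nat_lit 302) (nat_lit 246) (nat_lit 172)) (XT.lf (nat_lit 0) (nat_lit 8092523965) (nat_lit 228) (nat_lit 23109893627) (nat_lit 76) (nat_lit 4387523432) (nat_lit 12) (nat_lit 5) (nat_lit 15) (nat_lit 5) (nat_lit 13) (nat_lit 4) (nat_lit 303) (nat_lit 246) (nat_lit 171)))) (XT.nd (nat_lit 156) (nat_lit 76) (nat_lit 0) (XT.nd (nat_lit 78) (nat_lit 0) (nat_lit 0) (XT.lf (nat_lit 0) (nat_lit 12785011646) (nat_lit 228) (nat_lit 13540262724) (nat_lit 76) (nat_lit 10724353224) (nat_lit 12) (nat_lit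 5) (nat_lit 15) (nat_lit 5) (nat_lit 13) (nat_lit 4) (nat_lit 304) (nat_lit 246) (nat_lit 170)) (XT.lf (nat_lit 0) (nat_lit 17697853675) (nat_lit 228) (nat_lit 3516525940) (nat_lit 76) (nat_lit 17368651519) (nat_lit 12) (nat_lit 5) (nat_lit 15) (nat_lit 5) (nat_lit 13) (nat_lit 4) (nat_lit 305) (nat_lit 246) (nat_lit 169))) (XT.nd (nat_lit 78) (nat_lit 0) (nat_lit 0) (XT.lf (nat_lit 0) (nat_lit 7216144451) (nat_lit 76) (nat_lit 15739267081) (nat_lit 152) (nat_lit 17232757862) (nat_lit 11) (nat_lit 5) (nat_lit 12) (nat_lit 5) (nat_lit 13) (nat_lit 4) (nat_lit 306) (nat_lit 246) (nat_lit 168)) (XT.nd (nat_lit 78) (nat_lit 0) (nat_lit 0) (XT.lf (nat_lit 0) (nat_lit 18584693719) (nat_lit 76) (nat_lit 9937407684) (nat_lit 152) (nat_lit 13349167818) (nat_lit 11) (nat_lit 5) (nat_lit 12) (nat_lit 5) (nat_lit 13) (nat_lit 4) (nat_lit 307) (nat_lit 246) (nat_lit 167)) (XT.lf (nat_lit 0) (nat_lit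 30499917608) (nat_lit 76) (nat_lit 3854541542) (nat_lit 152) (nat_lit 9284714753) (nat_lit 11) (nat_lit 5) (nat_lit 12) (nat_lit 5) (nat_lit 13) (nat_lit 4) (nat_lit 308) (nat_lit 246) (nat_lit 166))))))) (XT.nd (nat_lit 702) (nat_lit 228) (nat_lit 0) (XT.nd (nat_lit 312) (nat_lit 76) (nat_lit 0) (XT.nd (nat_lit 156) (nat_lit 76) (nat_lit 0) (XT.nd (nat_lit 78) (nat_lit 76) (nat_lit 0) (XT.lf (nat_lit 0) (nat_lit 40505775155) (nat_lit 152) (nat_lit 2545310854) (nat_lit 0) (nat_lit 2443036537) (nat_lit 11) (nat_lit 5) (nat_lit 13) (nat_lit 4) (nat_lit 11) (nat_lit 4) (nat_lit 309) (nat_lit 246) (nat_lit 165)) (XT.lf (nat_lit 0) (nat_lit 8775832868) (nat_lit 76) (nat_lit 38377410974) (nat_lit 76) (nat_lit 279160431) (nat_lit 10) (nat_lit 4) (nat_lit 11) (nat_lit 5) (nat_lit 11) (nat_lit 4) (nat_lit 310) (nat_lit 246) (nat_lit 164))) (XT.nd (nat_lit 78) (nat_lit 0) (nat_lit 0) (XT.lf (nat_lit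 0) (nat_lit 4548399023) (nat_lit 152) (nat_lit 28807853425) (nat_lit 76) (nat_lit 16106107284) (nat_lit 9) (nat_lit 5) (nat_lit 11) (nat_lit 5) (nat_lit 10) (nat_lit 4) (nat_lit 311) (nat_lit 246) (nat_lit 163)) (XT.lf (nat_lit 0) (nat_lit 9596931119) (nat_lit 152) (nat_lit 18490572991) (nat_lit 76) (nat_lit 23506644174) (nat_lit 9) (nat_lit 5) (nat_lit 11) (nat_lit 5) (nat_lit 10) (nat_lit 4) (nat_lit 312) (nat_lit 246) (nat_lit 162)))) (XT.nd (nat_lit 156) (nat_lit 0) (nat_lit 0) (XT.nd (nat_lit 78) (nat_lit 76) (nat_lit 0) (XT.lf (nat_lit 0) (nat_lit 14887391047) (nat_lit 152) (nat_lit 7675806674) (nat_lit 76) (nat_lit 31269865817) (nat_lit 9) (nat_lit 5) (nat_lit 11) (nat_lit 5) (nat_lit 10) (nat_lit 4) (nat_lit 313) (nat_lit 246) (nat_lit 161)) (XT.lf (nat_lit 0) (nat_lit 3783283673) (nat_lit 76) (nat_lit 16708159128) (nat_lit 152) (nat_lit 35690040063) (nat_lit 8) (nat_lit 5)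 (nat_lit 9) (nat_lit 5) (nat_lit 10) (nat_lit 4) (nat_lit 314) (nat_lit 246) (nat_lit 160))) (XT.nd (nat_lit 78) (nat_lit 0) (nat_lit 0) (XT.lf (nat_lit 0) (nat_lit 16064594532) (nat_lit 76) (nat_lit 10431304553) (nat_lit 152) (nat_lit 32145425165) (nat_lit 8) (nat_lit 5) (nat_lit 9) (nat_lit 5) (nat_lit 10) (nat_lit 4) (nat_lit 315) (nat_lit 246) (nat_lit 159)) (XT.nd (nat_lit 78) (nat_lit 0) (nat_lit 0) (XT.lf (nat_lit 0) (nat_lit 28943570283) (nat_lit 76) (nat_lit 3847682605) (nat_lit 152) (nat_lit 28433381739) (nat_lit 8) (nat_lit 5) (nat_lit 9) (nat_lit 5) (nat_lit 10) (nat_lit 4) (nat_lit 316) (nat_lit 246) (nat_lit 158)) (XT.lf (nat_lit 0) (nat_lit 39440243063) (nat_lit 152) (nat_lit 21534439494) (nat_lit 0) (nat_lit 2960494682) (nat_lit 8) (nat_lit 5) (nat_lit 10) (nat_lit 4) (nat_lit 8) (nat_lit 4) (nat_lit 317) (nat_lit 246) (nat_lit 157)))))) (XT.nd (nat_lit 312) (nat_lit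 152) (nat_lit 0) (XT.nd (nat_lit 156) (nat_lit 0) (nat_lit 0) (XT.nd (nat_lit 78) (nat_lit 76) (nat_lit 0) (XT.lf (nat_lit 0) (nat_lit 46476200997) (nat_lit 152) (nat_lit 10328768426) (nat_lit 0) (nat_lit 9973561313) (nat_lit 8) (nat_lit 5) (nat_lit 10) (nat_lit 4) (nat_lit 8) (nat_lit 4) (nat_lit 318) (nat_lit 246) (nat_lit 156)) (XT.lf (nat_lit 0) (nat_lit 1469743097) (nat_lit 76) (nat_lit 52409009575) (nat_lit 76) (nat_lit 15884568649) (nat_lit 7) (nat_lit 4) (nat_lit 8) (nat_lit 5) (nat_lit 8) (nat_lit 4) (nat_lit 319) (nat_lit 246) (nat_lit 155))) (XT.nd (nat_lit 78) (nat_lit 0) (nat_lit 0) (XT.lf (nat_lit 0) (nat_lit 14202521270) (nat_lit 76) (nat_lit 47615848039) (nat_lit 76) (nat_lit 11070644026) (nat_lit 7) (nat_lit 4) (nat_lit 8) (nat_lit 5) (nat_lit 8) (nat_lit 4) (nat_lit 320) (nat_lit 246) (nat_lit 154)) (XT.lf (nat_lit 0) (nat_lit 27558366501) (nat_lit 76) (nat_lit 42588995217)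 (nat_lit 76) (nat_lit 6024016835) (nat_lit 7) (nat_lit 4) (nat_lit 8) (nat_lit 5) (nat_lit 8) (nat_lit 4) (nat_lit 321) (nat_lit 246) (nat_lit 153)))) (XT.nd (nat_lit 156) (nat_lit 76) (nat_lit 0) (XT.nd (nat_lit 78) (nat_lit 76) (nat_lit 0) (XT.lf (nat_lit 0) (nat_lit 41569078423) (nat_lit 76) (nat_lit 37316482411) (nat_lit 76) (nat_lit 732671297) (nat_lit 7) (nat_lit 4) (nat_lit 8) (nat_lit 5) (nat_lit 8) (nat_lit 4) (nat_lit 322) (nat_lit 246) (nat_lit 152)) (XT.lf (nat_lit 0) (nat_lit 4661849239) (nat_lit 152) (nat_lit 27044956107) (nat_lit 76) (nat_lit 51527215959) (nat_lit 6) (nat_lit 5) (nat_lit 8) (nat_lit 5) (nat_lit 7) (nat_lit 4) (nat_lit 323) (nat_lit 246) (nat_lit 151))) (XT.nd (nat_lit 78) (nat_lit 76) (nat_lit 0) (XT.lf (nat_lit 0) (nat_lit 10294789027) (nat_lit 152) (nat_lit 15514511386) (nat_lit 76) (nat_lit 61221040057) (nat_lit 6) (nat_lit 5) (nat_lit 8) (nat_lit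 5) (nat_lit 7) (nat_lit 4) (nat_lit 324) (nat_lit 246) (nat_lit 150)) (XT.nd (nat_lit 78) (nat_lit 76) (nat_lit 0) (XT.lf (nat_lit 0) (nat_lit 16203009883) (nat_lit 152) (nat_lit 3418927053) (nat_lit 76) (nat_lit 71394863495) (nat_lit 6) (nat_lit 5) (nat_lit 8) (nat_lit 5) (nat_lit 7) (nat_lit 4) (nat_lit 325) (nat_lit 246) (nat_lit 149)) (XT.lf (nat_lit 0) (nat_lit 9577123670) (nat_lit 76) (nat_lit 12972981070) (nat_lit 152) (nat_lit 72645311733) (nat_lit 5) (nat_lit 5) (nat_lit 6) (nat_lit 5) (nat_lit 7) (nat_lit 4) (nat_lit 326) (nat_lit 246) (nat_lit 148))))))))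
noncomputable def xc131 : XT := (XT.nd (nat_lit 1326) (nat_lit 152) (nat_lit 0) (XT.nd (nat_lit 624) (nat_lit 0) (nat_lit 0) (XT.nd (nat_lit 312) (nat_lit 76) (nat_lit 0) (XT.nd (nat_lit 156) (nat_lit 0) (nat_lit 0) (XT.nd (nat_lit 78) (nat_lit 0) (nat_lit 0) (XT.lf (nat_lit 0) (nat_lit 23331008611) (nat_lit 76) (nat_lit 5935506314) (nat_lit 152) (nat_lit 70313856298) (nat_lit 5) (nat_lit 5) (nat_lit 6) (nat_lit 5) (nat_lit 7) (nat_lit 4) (nat_lit 327) (nat_lit 246) (nat_lit 147)) (XT.lf (nat_lit 0) (nat_lit 36335716198) (nat_lit 152) (nat_lit 66445060594) (nat_lit 0) (nat_lit 1402954043) (nat_lit 5) (nat_lit 5) (nat_lit 7) (nat_lit 4) (nat_lit 5) (nat_lit 4) (nat_lit 328) (nat_lit 246) (nat_lit 146))) (XT.nd (nat_lit 78) (nat_lit 0) (nat_lit 0) (XT.lf (nat_lit 0) (nat_lit 43850225701) (nat_lit 152) (nat_lit 56257728886) (nat_lit 0) (nat_lit 8904716812) (nat_lit 5) (nat_lit 5) (nat_lit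 7) (nat_lit 4) (nat_lit 5) (nat_lit 4) (nat_lit 329) (nat_lit 246) (nat_lit 145)) (XT.lf (nat_lit 0) (nat_lit 51735265239) (nat_lit 152) (nat_lit 45570442049) (nat_lit 0) (nat_lit 16777616603) (nat_lit 5) (nat_lit 5) (nat_lit 7) (nat_lit 4) (nat_lit 5) (nat_lit 4) (nat_lit 330) (nat_lit 246) (nat_lit 144)))) (XT.nd (nat_lit 156) (nat_lit 76) (nat_lit 0) (XT.nd (nat_lit 78) (nat_lit 0) (nat_lit 0) (XT.lf (nat_lit 0) (nat_lit 60009608715) (nat_lit 152) (nat_lit 34357754162) (nat_lit 0) (nat_lit 25040398415) (nat_lit 5) (nat_lit 5) (nat_lit 7) (nat_lit 4) (nat_lit 5) (nat_lit 4) (nat_lit 331) (nat_lit 246) (nat_lit 143)) (XT.lf (nat_lit 0) (nat_lit 68692956947) (nat_lit 152) (nat_lit 22592968350) (nat_lit 0) (nat_lit 33712735538) (nat_lit 5) (nat_lit 5) (nat_lit 7) (nat_lit 4) (nat_lit 5) (nat_lit 4) (nat_lit 332) (nat_lit 246) (nat_lit 142))) (XT.nd (nat_lit 78) (nat_lit 76) (nat_lit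 0) (XT.lf (nat_lit 0) (nat_lit 77805984572) (nat_lit 152) (nat_lit 10248073217) (nat_lit 0) (nat_lit 42815276394) (nat_lit 5) (nat_lit 5) (nat_lit 7) (nat_lit 4) (nat_lit 5) (nat_lit 4) (nat_lit 333) (nat_lit 246) (nat_lit 141)) (XT.lf (nat_lit 0) (nat_lit 2795807131) (nat_lit 76) (nat_lit 84618232530) (nat_lit 76) (nat_lit 49617536952) (nat_lit 4) (nat_lit 4) (nat_lit 5) (nat_lit 5) (nat_lit 5) (nat_lit 4) (nat_lit 334) (nat_lit 246) (nat_lit 140))))) (XT.nd (nat_lit 312) (nat_lit 0) (nat_lit 0) (XT.nd (nat_lit 156) (nat_lit 0) (nat_lit 0) (XT.nd (nat_lit 78) (nat_lit 0) (nat_lit 0) (XT.lf (nat_lit 0) (nat_lit 16840053514) (nat_lit 76) (nat_lit 80831810367) (nat_lit 76) (nat_lit 45821602979) (nat_lit 4) (nat_lit 4) (nat_lit 5) (nat_lit 5) (nat_lit 5) (nat_lit 4) (nat_lit 335) (nat_lit 246) (nat_lit 139)) (XT.lf (nat_lit 0) (nat_lit 31579257032) (nat_lit 76) (nat_lit 76859332089) (nat_lit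 76) (nat_lit 41840065835) (nat_lit 4) (nat_lit 4) (nat_lit 5) (nat_lit 5) (nat_lit 5) (nat_lit 4) (nat_lit 336) (nat_lit 246) (nat_lit 138))) (XT.nd (nat_lit 78) (nat_lit 0) (nat_lit 0) (XT.lf (nat_lit 0) (nat_lit 47048511025) (nat_lit 76) (nat_lit 72691339415) (nat_lit 76) (nat_lit 37663445669) (nat_lit 4) (nat_lit 4) (nat_lit 5) (nat_lit 5) (nat_lit 5) (nat_lit 4) (nat_lit 337) (nat_lit 246) (nat_lit 137)) (XT.lf (nat_lit 0) (nat_lit 63284647051) (nat_lit 76) (nat_lit 68317908552) (nat_lit 76) (nat_lit 33281798148) (nat_lit 4) (nat_lit 4) (nat_lit 5) (nat_lit 5) (nat_lit 5) (nat_lit 4) (nat_lit 338) (nat_lit 246) (nat_lit 136)))) (XT.nd (nat_lit 156) (nat_lit 0) (nat_lit 0) (XT.nd (nat_lit 78) (nat_lit 0) (nat_lit 0) (XT.lf (nat_lit 0) (nat_lit 80326322577) (nat_lit 76) (nat_lit 63728626569) (nat_lit 76) (nat_lit 28684690776) (nat_lit 4) (nat_lit 4) (nat_lit 5) (nat_lit 5) (nat_lit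 5) (nat_lit 4) (nat_lit 339) (nat_lit 246) (nat_lit 135)) (XT.lf (nat_lit 0) (nat_lit 98214113021) (nat_lit 76) (nat_lit 58912566606) (nat_lit 76) (nat_lit 23861178061) (nat_lit 4) (nat_lit 4) (nat_lit 5) (nat_lit 5) (nat_lit 5) (nat_lit 4) (nat_lit 340) (nat_lit 246) (nat_lit 134))) (XT.nd (nat_lit 78) (nat_lit 0) (nat_lit 0) (XT.lf (nat_lit 0) (nat_lit 116990608359) (nat_lit 76) (nat_lit 53858261851) (nat_lit 76) (nat_lit 18799775448) (nat_lit 4) (nat_lit 4) (nat_lit 5) (nat_lit 5) (nat_lit 5) (nat_lit 4) (nat_lit 341) (nat_lit 246) (nat_lit 133)) (XT.nd (nat_lit 78) (nat_lit 0) (nat_lit 0) (XT.lf (nat_lit 0) (nat_lit 136700514533) (nat_lit 76) (nat_lit 48553678248) (nat_lit 76) (nat_lit 13488431979) (nat_lit 4) (nat_lit 4) (nat_lit 5) (nat_lit 5) (nat_lit 5) (nat_lit 4) (nat_lit 342) (nat_lit 246) (nat_lit 132)) (XT.lf (nat_lit 0) (nat_lit 157390759892) (nat_lit 76) (nat_lit 42986185834)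 (nat_lit 76) (nat_lit 7914501598) (nat_lit 4) (nat_lit 4) (nat_lit 5) (nat_lit 5) (nat_lit 5) (nat_lit 4) (nat_lit 343) (nat_lit 246) (nat_lit 131))))))) (XT.nd (nat_lit 702) (nat_lit 0) (nat_lit 0) (XT.nd (nat_lit 312) (nat_lit 76) (nat_lit 0) (XT.nd (nat_lit 156) (nat_lit 0) (nat_lit 0) (XT.nd (nat_lit 78) (nat_lit 76) (nat_lit 0) (XT.lf (nat_lit 0) (nat_lit 179110606923) (nat_lit 76) (nat_lit 37142528675) (nat_lit 76) (nat_lit 2064713042) (nat_lit 4) (nat_lit 4) (nat_lit 5) (nat_lit 5) (nat_lit 5) (nat_lit 4) (nat_lit 344) (nat_lit 246) (nat_lit 130)) (XT.lf (nat_lit 0) (nat_lit 3944440732) (nat_lit 152) (nat_lit 26997551556) (nat_lit 76) (nat_lit 197900527805) (nat_lit 3) (nat_lit 5) (nat_lit 5) (nat_lit 5) (nat_lit 4) (nat_lit 4) (nat_lit 345) (nat_lit 246) (nat_lit 129))) (XT.nd (nat_lit 78) (nat_lit 0) (nat_lit 0) (XT.lf (nat_lit 0) (nat_lit 10182172235) (nat_lit 152) (nat_lit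 14215763333) (nat_lit 76) (nat_lit 215493924003) (nat_lit 3) (nat_lit 5) (nat_lit 5) (nat_lit 5) (nat_lit 4) (nat_lit 4) (nat_lit 346) (nat_lit 246) (nat_lit 128)) (XT.lf (nat_lit 0) (nat_lit 16729416921) (nat_lit 152) (nat_lit 799208259) (nat_lit 76) (nat_lit 233965161643) (nat_lit 3) (nat_lit 5) (nat_lit 5) (nat_lit 5) (nat_lit 4) (nat_lit 4) (nat_lit 347) (nat_lit 246) (nat_lit 127)))) (XT.nd (nat_lit 156) (nat_lit 0) (nat_lit 0) (XT.nd (nat_lit 78) (nat_lit 0) (nat_lit 0) (XT.lf (nat_lit 0) (nat_lit 13723288786) (nat_lit 76) (nat_lit 10092733676) (nat_lit 152) (nat_lit 239849190072) (nat_lit 2) (nat_lit 5) (nat_lit 3) (nat_lit 5) (nat_lit 4) (nat_lit 4) (nat_lit 348) (nat_lit 246) (nat_lit 126)) (XT.lf (nat_lit 0) (nat_lit 28995607065) (nat_lit 76) (nat_lit 2272670222) (nat_lit 152) (nat_lit 245176368227) (nat_lit 2) (nat_lit 5) (nat_lit 3) (nat_lit 5) (nat_lit 4) (nat_lit 4) (nat_lit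 349) (nat_lit 246) (nat_lit 125))) (XT.nd (nat_lit 78) (nat_lit 0) (nat_lit 0) (XT.lf (nat_lit 0) (nat_lit 39183722134) (nat_lit 152) (nat_lit 244928161437) (nat_lit 0) (nat_lit 5746639547) (nat_lit 2) (nat_lit 5) (nat_lit 4) (nat_lit 4) (nat_lit 2) (nat_lit 4) (nat_lit 350) (nat_lit 246) (nat_lit 124)) (XT.nd (nat_lit 78) (nat_lit 0) (nat_lit 0) (XT.lf (nat_lit 0) (nat_lit 47530160182) (nat_lit 152) (nat_lit 242322247501) (nat_lit 0) (nat_lit 14088927624) (nat_lit 2) (nat_lit 5) (nat_lit 4) (nat_lit 4) (nat_lit 2) (nat_lit 4) (nat_lit 351) (nat_lit 246) (nat_lit 123)) (XT.lf (nat_lit 0) (nat_lit 56291981150) (nat_lit 152) (nat_lit 239589609335) (nat_lit 0) (nat_lit 22846796238) (nat_lit 2) (nat_lit 5) (nat_lit 4) (nat_lit 4) (nat_lit 2) (nat_lit 4) (nat_lit 352) (nat_lit 246) (nat_lit 122)))))) (XT.nd (nat_lit 312) (nat_lit 0) (nat_lit 0) (XT.nd (nat_lit 156) (nat_lit 0) (nat_lit 0)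 (XT.nd (nat_lit 78) (nat_lit 0) (nat_lit 0) (XT.lf (nat_lit 0) (nat_lit 65490046517) (nat_lit 152) (nat_lit 236723740656) (nat_lit 0) (nat_lit 32041097459) (nat_lit 2) (nat_lit 5) (nat_lit 4) (nat_lit 4) (nat_lit 2) (nat_lit 4) (nat_lit 353) (nat_lit 246) (nat_lit 121)) (XT.lf (nat_lit 0) (nat_lit 75146256438) (nat_lit 152) (nat_lit 233717817968) (nat_lit 0) (nat_lit 41693722480) (nat_lit 2) (nat_lit 5) (nat_lit 4) (nat_lit 4) (nat_lit 2) (nat_lit 4) (nat_lit 354) (nat_lit 246) (nat_lit 120))) (XT.nd (nat_lit 78) (nat_lit 0) (nat_lit 0) (XT.lf (nat_lit 0) (nat_lit 85283601890) (nat_lit 152) (nat_lit 230564684313) (nat_lit 0) (nat_lit 51827653741) (nat_lit 2) (nat_lit 5) (nat_lit 4) (nat_lit 4) (nat_lit 2) (nat_lit 4) (nat_lit 355) (nat_lit 246) (nat_lit 119)) (XT.lf (nat_lit 0) (nat_lit 95926219410) (nat_lit 152) (nat_lit 227256832228) (nat_lit 0) (nat_lit 62467019649) (nat_lit 2) (nat_lit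 5) (nat_lit 4) (nat_lit 4) (nat_lit 2) (nat_lit 4) (nat_lit 356) (nat_lit 246) (nat_lit 118)))) (XT.nd (nat_lit 156) (nat_lit 0) (nat_lit 0) (XT.nd (nat_lit 78) (nat_lit 0) (nat_lit 0) (XT.lf (nat_lit 0) (nat_lit 107099448562) (nat_lit 152) (nat_lit 223786385876) (nat_lit 0) (nat_lit 73637152030) (nat_lit 2) (nat_lit 5) (nat_lit 4) (nat_lit 4) (nat_lit 2) (nat_lit 4) (nat_lit 357) (nat_lit 246) (nat_lit 117)) (XT.lf (nat_lit 0) (nat_lit 118829892274) (nat_lit 152) (nat_lit 220145082289) (nat_lit 0) (nat_lit 85364646434) (nat_lit 2) (nat_lit 5) (nat_lit 4) (nat_lit 4) (nat_lit 2) (nat_lit 4) (nat_lit 358) (nat_lit 246) (nat_lit 116))) (XT.nd (nat_lit 28782) (nat_lit 0) (nat_lit 7752) (XT.lf (nat_lit 0) (nat_lit 131145480173) (nat_lit 152) (nat_lit 216324251696) (nat_lit 0) (nat_lit 97677425470) (nat_lit 2) (nat_lit 5) (nat_lit 4) (nat_lit 4) (nat_lit 2) (nat_lit 4) (nat_lit 359) (nat_lit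 246) (nat_lit 115)) (XT.nd (nat_lit 78) (nat_lit 0) (nat_lit 0) (XT.lf (nat_lit 0) (nat_lit 1267798011) (nat_lit 0) (nat_lit 1267798011) (nat_lit 380) (nat_lit 978944180) (nat_lit 104) (nat_lit 5) (nat_lit 104) (nat_lit 3) (nat_lit 109) (nat_lit 3) (nat_lit 247) (nat_lit 247) (nat_lit 226)) (XT.lf (nat_lit 0) (nat_lit 5735661135) (nat_lit 0) (nat_lit 1065798327) (nat_lit 380) (nat_lit 316045607) (nat_lit 104) (nat_lit 5) (nat_lit 104) (nat_lit 3) (nat_lit 109) (nat_lit 3) (nat_lit 248) (nat_lit 247) (nat_lit 225))))))))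
noncomputable def xc132 : XT := (XT.nd (nat_lit 1326) (nat_lit 2204) (nat_lit 0) (XT.nd (nat_lit 624) (nat_lit 2584) (nat_lit 0) (XT.nd (nat_lit 312) (nat_lit 456) (nat_lit 0) (XT.nd (nat_lit 156) (nat_lit 0) (nat_lit 0) (XT.nd (nat_lit 78) (nat_lit 0) (nat_lit 0) (XT.lf (nat_lit 0) (nat_lit 1296291561) (nat_lit 456) (nat_lit 5354569911) (nat_lit 532) (nat_lit 562151811) (nat_lit 98) (nat_lit 5) (nat_lit 104) (nat_lit 5) (nat_lit 105) (nat_lit 5) (nat_lit 249) (nat_lit 247) (nat_lit 224)) (XT.lf (nat_lit 0) (nat_lit 2919978264) (nat_lit 456) (nat_lit 2086941718) (nat_lit 532) (nat_lit 2309464038) (nat_lit 98) (nat_lit 5) (nat_lit 104) (nat_lit 5) (nat_lit 105) (nat_lit 5) (nat_lit 250) (nat_lit 247) (nat_lit 223))) (XT.nd (nat_lit 78) (nat_lit 0) (nat_lit 0) (XT.lf (nat_lit 76) (nat_lit 1328986965) (nat_lit 0) (nat_lit 3221464824) (nat_lit 532) (nat_lit 2878585531) (nat_lit 99) (nat_lit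 5) (nat_lit 98) (nat_lit 5) (nat_lit 105) (nat_lit 5) (nat_lit 251) (nat_lit 247) (nat_lit 222)) (XT.lf (nat_lit 76) (nat_lit 4931478487) (nat_lit 0) (nat_lit 1274812892) (nat_lit 532) (nat_lit 1344215169) (nat_lit 99) (nat_lit 5) (nat_lit 98) (nat_lit 5) (nat_lit 105) (nat_lit 5) (nat_lit 252) (nat_lit 247) (nat_lit 221)))) (XT.nd (nat_lit 156) (nat_lit 0) (nat_lit 0) (XT.nd (nat_lit 78) (nat_lit 0) (nat_lit 0) (XT.lf (nat_lit 0) (nat_lit 197962233) (nat_lit 532) (nat_lit 6687835313) (nat_lit 608) (nat_lit 795402333) (nat_lit 92) (nat_lit 5) (nat_lit 99) (nat_lit 5) (nat_lit 100) (nat_lit 5) (nat_lit 253) (nat_lit 247) (nat_lit 220)) (XT.lf (nat_lit 0) (nat_lit 1752946523) (nat_lit 532) (nat_lit 3043972185) (nat_lit 608) (nat_lit 3021687999) (nat_lit 92) (nat_lit 5) (nat_lit 99) (nat_lit 5) (nat_lit 100) (nat_lit 5) (nat_lit 254) (nat_lit 247) (nat_lit 219))) (XT.nd (nat_lit 78) (nat_lit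 0) (nat_lit 0) (XT.lf (nat_lit 76) (nat_lit 747530120) (nat_lit 0) (nat_lit 2568765956) (nat_lit 608) (nat_lit 4650365826) (nat_lit 93) (nat_lit 5) (nat_lit 92) (nat_lit 5) (nat_lit 100) (nat_lit 5) (nat_lit 255) (nat_lit 247) (nat_lit 218)) (XT.lf (nat_lit 76) (nat_lit 4776750991) (nat_lit 0) (nat_lit 154519723) (nat_lit 608) (nat_lit 3192470382) (nat_lit 93) (nat_lit 5) (nat_lit 92) (nat_lit 5) (nat_lit 100) (nat_lit 5) (nat_lit 256) (nat_lit 247) (nat_lit 217))))) (XT.nd (nat_lit 312) (nat_lit 1444) (nat_lit 0) (XT.nd (nat_lit 156) (nat_lit 684) (nat_lit 0) (XT.nd (nat_lit 78) (nat_lit 0) (nat_lit 0) (XT.lf (nat_lit 0) (nat_lit 643074648) (nat_lit 532) (nat_lit 5957055832) (nat_lit 608) (nat_lit 1690167067) (nat_lit 86) (nat_lit 5) (nat_lit 93) (nat_lit 5) (nat_lit 94) (nat_lit 5) (nat_lit 257) (nat_lit 247) (nat_lit 216)) (XT.lf (nat_lit 0) (nat_lit 4888077867) (nat_lit 532) (nat_lit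 3452080645) (nat_lit 608) (nat_lit 125903822) (nat_lit 86) (nat_lit 5) (nat_lit 93) (nat_lit 5) (nat_lit 94) (nat_lit 5) (nat_lit 258) (nat_lit 247) (nat_lit 215))) (XT.nd (nat_lit 78) (nat_lit 0) (nat_lit 0) (XT.lf (nat_lit 0) (nat_lit 633394674) (nat_lit 608) (nat_lit 775118210) (nat_lit 684) (nat_lit 7244136549) (nat_lit 77) (nat_lit 5) (nat_lit 85) (nat_lit 5) (nat_lit 86) (nat_lit 5) (nat_lit 259) (nat_lit 247) (nat_lit 214)) (XT.lf (nat_lit 0) (nat_lit 3041953237) (nat_lit 684) (nat_lit 3761532202) (nat_lit 76) (nat_lit 2043880999) (nat_lit 77) (nat_lit 5) (nat_lit 86) (nat_lit 5) (nat_lit 78) (nat_lit 5) (nat_lit 260) (nat_lit 247) (nat_lit 213)))) (XT.nd (nat_lit 156) (nat_lit 760) (nat_lit 0) (XT.nd (nat_lit 78) (nat_lit 0) (nat_lit 0) (XT.lf (nat_lit 0) (nat_lit 659655919) (nat_lit 684) (nat_lit 4056761224) (nat_lit 760) (nat_lit 4337654052) (nat_lit 68) (nat_lit 5) (nat_lit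 77) (nat_lit 5) (nat_lit 78) (nat_lit 5) (nat_lit 261) (nat_lit 247) (nat_lit 212)) (XT.lf (nat_lit 0) (nat_lit 5375601227) (nat_lit 684) (nat_lit 1101194874) (nat_lit 760) (nat_lit 2794414522) (nat_lit 68) (nat_lit 5) (nat_lit 77) (nat_lit 5) (nat_lit 78) (nat_lit 5) (nat_lit 262) (nat_lit 247) (nat_lit 211))) (XT.nd (nat_lit 78) (nat_lit 456) (nat_lit 0) (XT.lf (nat_lit 0) (nat_lit 763946949) (nat_lit 304) (nat_lit 7545919845) (nat_lit 380) (nat_lit 1190305662) (nat_lit 64) (nat_lit 5) (nat_lit 68) (nat_lit 5) (nat_lit 69) (nat_lit 5) (nat_lit 263) (nat_lit 247) (nat_lit 210)) (XT.nd (nat_lit 78) (nat_lit 380) (nat_lit 0) (XT.lf (nat_lit 0) (nat_lit 505584881) (nat_lit 380) (nat_lit 4030947861) (nat_lit 76) (nat_lit 5202475181) (nat_lit 63) (nat_lit 5) (nat_lit 68) (nat_lit 5) (nat_lit 64) (nat_lit 5) (nat_lit 264) (nat_lit 247) (nat_lit 209)) (XT.lf (nat_lit 0) (nat_lit 861909539)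 (nat_lit 380) (nat_lit 1342843404) (nat_lit 456) (nat_lit 7786304274) (nat_lit 58) (nat_lit 5) (nat_lit 63) (nat_lit 5) (nat_lit 64) (nat_lit 5) (nat_lit 265) (nat_lit 247) (nat_lit 208))))))) (XT.nd (nat_lit 702) (nat_lit 988) (nat_lit 0) (XT.nd (nat_lit 312) (nat_lit 608) (nat_lit 0) (XT.nd (nat_lit 156) (nat_lit 304) (nat_lit 0) (XT.nd (nat_lit 78) (nat_lit 304) (nat_lit 0) (XT.lf (nat_lit 0) (nat_lit 4036418325) (nat_lit 456) (nat_lit 4203106264) (nat_lit 76) (nat_lit 2013971218) (nat_lit 58) (nat_lit 5) (nat_lit 64) (nat_lit 5) (nat_lit 59) (nat_lit 5) (nat_lit 266) (nat_lit 247) (nat_lit 207)) (XT.lf (nat_lit 0) (nat_lit 921816146) (nat_lit 304) (nat_lit 5023555584) (nat_lit 380) (nat_lit 4584555337) (nat_lit 54) (nat_lit 5) (nat_lit 58) (nat_lit 5) (nat_lit 59) (nat_lit 5) (nat_lit 267) (nat_lit 247) (nat_lit 206))) (XT.nd (nat_lit 78) (nat_lit 304) (nat_lit 0) (XT.lf (nat_lit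 0) (nat_lit 6394881577) (nat_lit 304) (nat_lit 1576942517) (nat_lit 380) (nat_lit 2847401784) (nat_lit 54) (nat_lit 5) (nat_lit 58) (nat_lit 5) (nat_lit 59) (nat_lit 5) (nat_lit 268) (nat_lit 247) (nat_lit 205)) (XT.lf (nat_lit 0) (nat_lit 963713075) (nat_lit 304) (nat_lit 9135950026) (nat_lit 380) (nat_lit 1023464804) (nat_lit 50) (nat_lit 5) (nat_lit 54) (nat_lit 5) (nat_lit 55) (nat_lit 5) (nat_lit 269) (nat_lit 247) (nat_lit 204)))) (XT.nd (nat_lit 156) (nat_lit 304) (nat_lit 0) (XT.nd (nat_lit 78) (nat_lit 228) (nat_lit 0) (XT.lf (nat_lit 0) (nat_lit 918803290) (nat_lit 380) (nat_lit 4759356044) (nat_lit 76) (nat_lit 5760714290) (nat_lit 49) (nat_lit 5) (nat_lit 54) (nat_lit 5) (nat_lit 50) (nat_lit 5) (nat_lit 270) (nat_lit 247) (nat_lit 203)) (XT.lf (nat_lit 0) (nat_lit 869713656) (nat_lit 228) (nat_lit 2023526082) (nat_lit 304) (nat_lit 8877977694) (nat_lit 46) (nat_lit 5) (nat_lit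 49) (nat_lit 5) (nat_lit 50) (nat_lit 5) (nat_lit 271) (nat_lit 247) (nat_lit 202))) (XT.nd (nat_lit 78) (nat_lit 304) (nat_lit 0) (XT.lf (nat_lit 0) (nat_lit 5033682792) (nat_lit 304) (nat_lit 5253655346) (nat_lit 76) (nat_lit 1829592447) (nat_lit 46) (nat_lit 5) (nat_lit 50) (nat_lit 5) (nat_lit 47) (nat_lit 5) (nat_lit 272) (nat_lit 247) (nat_lit 201)) (XT.nd (nat_lit 78) (nat_lit 0) (nat_lit 0) (XT.lf (nat_lit 0) (nat_lit 612209867) (nat_lit 304) (nat_lit 6670756938) (nat_lit 380) (nat_lit 5196982502) (nat_lit 42) (nat_lit 5) (nat_lit 46) (nat_lit 5) (nat_lit 47) (nat_lit 5) (nat_lit 273) (nat_lit 247) (nat_lit 200)) (XT.lf (nat_lit 0) (nat_lit 6903785089) (nat_lit 304) (nat_lit 2790158954) (nat_lit 380) (nat_lit 3164819044) (nat_lit 42) (nat_lit 5) (nat_lit 46) (nat_lit 5) (nat_lit 47) (nat_lit 5) (nat_lit 274) (nat_lit 247) (nat_lit 199)))))) (XT.nd (nat_lit 312) (nat_lit 456)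 (nat_lit 0) (XT.nd (nat_lit 156) (nat_lit 228) (nat_lit 0) (XT.nd (nat_lit 78) (nat_lit 76) (nat_lit 0) (XT.lf (nat_lit 0) (nat_lit 190009515) (nat_lit 228) (nat_lit 12020477603) (nat_lit 304) (nat_lit 1046880134) (nat_lit 39) (nat_lit 5) (nat_lit 42) (nat_lit 5) (nat_lit 43) (nat_lit 5) (nat_lit 275) (nat_lit 247) (nat_lit 198)) (XT.lf (nat_lit 0) (nat_lit 1249877829) (nat_lit 304) (nat_lit 6937616552) (nat_lit 76) (nat_lit 5482050061) (nat_lit 38) (nat_lit 5) (nat_lit 42) (nat_lit 5) (nat_lit 39) (nat_lit 5) (nat_lit 276) (nat_lit 247) (nat_lit 197))) (XT.nd (nat_lit 78) (nat_lit 228) (nat_lit 0) (XT.lf (nat_lit 0) (nat_lit 3590432618) (nat_lit 304) (nat_lit 566148436) (nat_lit 76) (nat_lit 9946771146) (nat_lit 38) (nat_lit 5) (nat_lit 42) (nat_lit 5) (nat_lit 39) (nat_lit 5) (nat_lit 277) (nat_lit 247) (nat_lit 196)) (XT.lf (nat_lit 0) (nat_lit 6114522347) (nat_lit 304) (nat_lit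 8278809721) (nat_lit 76) (nat_lit 162275637) (nat_lit 35) (nat_lit 5) (nat_lit 39) (nat_lit 5) (nat_lit 36) (nat_lit 5) (nat_lit 278) (nat_lit 247) (nat_lit 195)))) (XT.nd (nat_lit 156) (nat_lit 304) (nat_lit 0) (XT.nd (nat_lit 78) (nat_lit 152) (nat_lit 0) (XT.lf (nat_lit 0) (nat_lit 8809303217) (nat_lit 304) (nat_lit 1662909944) (nat_lit 76) (nat_lit 4556117271) (nat_lit 35) (nat_lit 5) (nat_lit 39) (nat_lit 5) (nat_lit 36) (nat_lit 5) (nat_lit 279) (nat_lit 247) (nat_lit 194)) (XT.lf (nat_lit 0) (nat_lit 5413072542) (nat_lit 152) (nat_lit 6278455062) (nat_lit 228) (nat_lit 3830601496) (nat_lit 33) (nat_lit 5) (nat_lit 35) (nat_lit 5) (nat_lit 36) (nat_lit 5) (nat_lit 280) (nat_lit 247) (nat_lit 193))) (XT.nd (nat_lit 78) (nat_lit 304) (nat_lit 0) (XT.lf (nat_lit 0) (nat_lit 12857331328) (nat_lit 152) (nat_lit 1857724674) (nat_lit 228) (nat_lit 1325773515) (nat_lit 33) (nat_lit 5)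 (nat_lit 35) (nat_lit 5) (nat_lit 36) (nat_lit 5) (nat_lit 281) (nat_lit 247) (nat_lit 192)) (XT.nd (nat_lit 78) (nat_lit 0) (nat_lit 0) (XT.lf (nat_lit 0) (nat_lit 1342111524) (nat_lit 304) (nat_lit 12468612427) (nat_lit 76) (nat_lit 2769809568) (nat_lit 29) (nat_lit 5) (nat_lit 33) (nat_lit 5) (nat_lit 30) (nat_lit 5) (nat_lit 282) (nat_lit 247) (nat_lit 191)) (XT.lf (nat_lit 0) (nat_lit 4154633921) (nat_lit 304) (nat_lit 5357869019) (nat_lit 76) (nat_lit 7630904918) (nat_lit 29) (nat_lit 5) (nat_lit 33) (nat_lit 5) (nat_lit 30) (nat_lit 5) (nat_lit 283) (nat_lit 247) (nat_lit 190))))))))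
noncomputable def xc133 : XT := (XT.nd (nat_lit 1326) (nat_lit 532) (nat_lit 0) (XT.nd (nat_lit 624) (nat_lit 532) (nat_lit 0) (XT.nd (nat_lit 312) (nat_lit 228) (nat_lit 0) (XT.nd (nat_lit 156) (nat_lit 152) (nat_lit 0) (XT.nd (nat_lit 78) (nat_lit 0) (nat_lit 0) (XT.lf (nat_lit 0) (nat_lit 2135912303) (nat_lit 152) (nat_lit 4977165680) (nat_lit 228) (nat_lit 10621141940) (nat_lit 27) (nat_lit 5) (nat_lit 29) (nat_lit 5) (nat_lit 30) (nat_lit 5) (nat_lit 284) (nat_lit 247) (nat_lit 189)) (XT.lf (nat_lit 0) (nat_lit 10150193080) (nat_lit 152) (nat_lit 132645376) (nat_lit 228) (nat_lit 8068620413) (nat_lit 27) (nat_lit 5) (nat_lit 29) (nat_lit 5) (nat_lit 30) (nat_lit 5) (nat_lit 285) (nat_lit 247) (nat_lit 188))) (XT.nd (nat_lit 78) (nat_lit 152) (nat_lit 0) (XT.lf (nat_lit 0) (nat_lit 13662201342) (nat_lit 228) (nat_lit 551171788) (nat_lit 76) (nat_lit 4783684234) (nat_lit 27) (nat_lit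 5) (nat_lit 30) (nat_lit 5) (nat_lit 28) (nat_lit 5) (nat_lit 286) (nat_lit 247) (nat_lit 187)) (XT.lf (nat_lit 0) (nat_lit 7687734070) (nat_lit 152) (nat_lit 9620016071) (nat_lit 228) (nat_lit 2362375536) (nat_lit 25) (nat_lit 5) (nat_lit 27) (nat_lit 5) (nat_lit 28) (nat_lit 5) (nat_lit 287) (nat_lit 247) (nat_lit 186)))) (XT.nd (nat_lit 156) (nat_lit 0) (nat_lit 0) (XT.nd (nat_lit 78) (nat_lit 152) (nat_lit 0) (XT.lf (nat_lit 0) (nat_lit 719114662) (nat_lit 228) (nat_lit 4068493378) (nat_lit 76) (nat_lit 15589459646) (nat_lit 24) (nat_lit 5) (nat_lit 27) (nat_lit 5) (nat_lit 25) (nat_lit 5) (nat_lit 288) (nat_lit 247) (nat_lit 185)) (XT.lf (nat_lit 0) (nat_lit 3924866021) (nat_lit 228) (nat_lit 16817203413) (nat_lit 76) (nat_lit 372915956) (nat_lit 22) (nat_lit 5) (nat_lit 25) (nat_lit 5) (nat_lit 23) (nat_lit 5) (nat_lit 289) (nat_lit 247) (nat_lit 184))) (XT.nd (nat_lit 78) (nat_lit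 0) (nat_lit 0) (XT.lf (nat_lit 0) (nat_lit 7416164541) (nat_lit 228) (nat_lit 8778801988) (nat_lit 76) (nat_lit 5688611250) (nat_lit 22) (nat_lit 5) (nat_lit 25) (nat_lit 5) (nat_lit 23) (nat_lit 5) (nat_lit 290) (nat_lit 247) (nat_lit 183)) (XT.lf (nat_lit 0) (nat_lit 11059878245) (nat_lit 228) (nat_lit 373197816) (nat_lit 76) (nat_lit 11258671003) (nat_lit 22) (nat_lit 5) (nat_lit 25) (nat_lit 5) (nat_lit 23) (nat_lit 5) (nat_lit 291) (nat_lit 247) (nat_lit 182))))) (XT.nd (nat_lit 312) (nat_lit 228) (nat_lit 0) (XT.nd (nat_lit 156) (nat_lit 152) (nat_lit 0) (XT.nd (nat_lit 78) (nat_lit 0) (nat_lit 0) (XT.lf (nat_lit 0) (nat_lit 8698013187) (nat_lit 152) (nat_lit 6302469816) (nat_lit 228) (nat_lit 8534144437) (nat_lit 20) (nat_lit 5) (nat_lit 22) (nat_lit 5) (nat_lit 23) (nat_lit 5) (nat_lit 292) (nat_lit 247) (nat_lit 181)) (XT.lf (nat_lit 0) (nat_lit 18203210500) (nat_lit 152) (nat_lit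 920629418) (nat_lit 228) (nat_lit 5296561909) (nat_lit 20) (nat_lit 5) (nat_lit 22) (nat_lit 5) (nat_lit 23) (nat_lit 5) (nat_lit 293) (nat_lit 247) (nat_lit 180))) (XT.nd (nat_lit 78) (nat_lit 76) (nat_lit 0) (XT.lf (nat_lit 0) (nat_lit 2817714356) (nat_lit 76) (nat_lit 20733701109) (nat_lit 152) (nat_lit 1794181302) (nat_lit 19) (nat_lit 5) (nat_lit 20) (nat_lit 5) (nat_lit 21) (nat_lit 4) (nat_lit 294) (nat_lit 247) (nat_lit 179)) (XT.lf (nat_lit 0) (nat_lit 1925460061) (nat_lit 152) (nat_lit 13869785526) (nat_lit 76) (nat_lit 10515245865) (nat_lit 18) (nat_lit 5) (nat_lit 20) (nat_lit 5) (nat_lit 19) (nat_lit 5) (nat_lit 295) (nat_lit 247) (nat_lit 178)))) (XT.nd (nat_lit 156) (nat_lit 76) (nat_lit 0) (XT.nd (nat_lit 78) (nat_lit 152) (nat_lit 0) (XT.lf (nat_lit 0) (nat_lit 5752035010) (nat_lit 152) (nat_lit 4838661889) (nat_lit 76) (nat_lit 16732430634) (nat_lit 18) (nat_lit 5)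 (nat_lit 20) (nat_lit 5) (nat_lit 19) (nat_lit 5) (nat_lit 296) (nat_lit 247) (nat_lit 177)) (XT.lf (nat_lit 0) (nat_lit 4767596225) (nat_lit 152) (nat_lit 5058918756) (nat_lit 228) (nat_lit 18557079901) (nat_lit 16) (nat_lit 5) (nat_lit 18) (nat_lit 5) (nat_lit 19) (nat_lit 5) (nat_lit 297) (nat_lit 247) (nat_lit 176))) (XT.nd (nat_lit 78) (nat_lit 76) (nat_lit 0) (XT.lf (nat_lit 0) (nat_lit 14182080689) (nat_lit 228) (nat_lit 14513151095) (nat_lit 76) (nat_lit 798012659) (nat_lit 16) (nat_lit 5) (nat_lit 19) (nat_lit 5) (nat_lit 17) (nat_lit 4) (nat_lit 298) (nat_lit 247) (nat_lit 175)) (XT.nd (nat_lit 78) (nat_lit 76) (nat_lit 0) (XT.lf (nat_lit 0) (nat_lit 18821569498) (nat_lit 228) (nat_lit 5065973352) (nat_lit 76) (nat_lit 6767552040) (nat_lit 16) (nat_lit 5) (nat_lit 19) (nat_lit 5) (nat_lit 17) (nat_lit 4) (nat_lit 299) (nat_lit 247) (nat_lit 174)) (XT.lf (nat_lit 0) (nat_lit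 4986614558) (nat_lit 76) (nat_lit 18768284380) (nat_lit 152) (nat_lit 8117070037) (nat_lit 15) (nat_lit 5) (nat_lit 16) (nat_lit 5) (nat_lit 17) (nat_lit 4) (nat_lit 300) (nat_lit 247) (nat_lit 173))))))) (XT.nd (nat_lit 702) (nat_lit 228) (nat_lit 0) (XT.nd (nat_lit 312) (nat_lit 76) (nat_lit 0) (XT.nd (nat_lit 156) (nat_lit 152) (nat_lit 0) (XT.nd (nat_lit 78) (nat_lit 76) (nat_lit 0) (XT.lf (nat_lit 0) (nat_lit 15691587742) (nat_lit 76) (nat_lit 13313466498) (nat_lit 152) (nat_lit 4141147821) (nat_lit 15) (nat_lit 5) (nat_lit 16) (nat_lit 5) (nat_lit 17) (nat_lit 4) (nat_lit 301) (nat_lit 247) (nat_lit 172)) (XT.lf (nat_lit 0) (nat_lit 17339700) (nat_lit 152) (nat_lit 7578262894) (nat_lit 76) (nat_lit 26889296917) (nat_lit 14) (nat_lit 5) (nat_lit 16) (nat_lit 5) (nat_lit 15) (nat_lit 5) (nat_lit 302) (nat_lit 247) (nat_lit 171))) (XT.nd (nat_lit 78) (nat_lit 0) (nat_lit 0) (XT.lf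 (nat_lit 0) (nat_lit 2789094936) (nat_lit 152) (nat_lit 1484597917) (nat_lit 228) (nat_lit 31612009145) (nat_lit 12) (nat_lit 5) (nat_lit 14) (nat_lit 5) (nat_lit 15) (nat_lit 5) (nat_lit 303) (nat_lit 247) (nat_lit 170)) (XT.lf (nat_lit 0) (nat_lit 8936040808) (nat_lit 228) (nat_lit 23515687994) (nat_lit 76) (nat_lit 4895176090) (nat_lit 12) (nat_lit 5) (nat_lit 15) (nat_lit 5) (nat_lit 13) (nat_lit 4) (nat_lit 304) (nat_lit 247) (nat_lit 169)))) (XT.nd (nat_lit 156) (nat_lit 76) (nat_lit 0) (XT.nd (nat_lit 78) (nat_lit 0) (nat_lit 0) (XT.lf (nat_lit 0) (nat_lit 13842253319) (nat_lit 228) (nat_lit 13503275561) (nat_lit 76) (nat_lit 11535119920) (nat_lit 12) (nat_lit 5) (nat_lit 15) (nat_lit 5) (nat_lit 13) (nat_lit 4) (nat_lit 305) (nat_lit 247) (nat_lit 168)) (XT.lf (nat_lit 0) (nat_lit 18980833112) (nat_lit 228) (nat_lit 3012351953) (nat_lit 76) (nat_lit 18498559367) (nat_lit 12)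 (nat_lit 5) (nat_lit 15) (nat_lit 5) (nat_lit 13) (nat_lit 4) (nat_lit 306) (nat_lit 247) (nat_lit 167))) (XT.nd (nat_lit 78) (nat_lit 0) (nat_lit 0) (XT.lf (nat_lit 0) (nat_lit 8245984212) (nat_lit 76) (nat_lit 16246773610) (nat_lit 152) (nat_lit 17684832758) (nat_lit 11) (nat_lit 5) (nat_lit 12) (nat_lit 5) (nat_lit 13) (nat_lit 4) (nat_lit 307) (nat_lit 247) (nat_lit 166)) (XT.nd (nat_lit 78) (nat_lit 0) (nat_lit 0) (XT.lf (nat_lit 0) (nat_lit 20151102251) (nat_lit 76) (nat_lit 10168128711) (nat_lit 152) (nat_lit 13626566212) (nat_lit 11) (nat_lit 5) (nat_lit 12) (nat_lit 5) (nat_lit 13) (nat_lit 4) (nat_lit 308) (nat_lit 247) (nat_lit 165)) (XT.lf (nat_lit 0) (nat_lit 32631745722) (nat_lit 76) (nat_lit 3793793041) (nat_lit 152) (nat_lit 9377464779) (nat_lit 11) (nat_lit 5) (nat_lit 12) (nat_lit 5) (nat_lit 13) (nat_lit 4) (nat_lit 309) (nat_lit 247) (nat_lit 164)))))) (XT.nd (nat_lit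 312) (nat_lit 76) (nat_lit 0) (XT.nd (nat_lit 156) (nat_lit 0) (nat_lit 0) (XT.nd (nat_lit 78) (nat_lit 152) (nat_lit 0) (XT.lf (nat_lit 0) (nat_lit 42871363074) (nat_lit 152) (nat_lit 2081144182) (nat_lit 0) (nat_lit 2798867199) (nat_lit 11) (nat_lit 5) (nat_lit 13) (nat_lit 4) (nat_lit 11) (nat_lit 4) (nat_lit 310) (nat_lit 247) (nat_lit 163)) (XT.lf (nat_lit 0) (nat_lit 55309498) (nat_lit 152) (nat_lit 39991321765) (nat_lit 76) (nat_lit 9740271306) (nat_lit 9) (nat_lit 5) (nat_lit 11) (nat_lit 5) (nat_lit 10) (nat_lit 4) (nat_lit 311) (nat_lit 247) (nat_lit 162))) (XT.nd (nat_lit 78) (nat_lit 0) (nat_lit 0) (XT.lf (nat_lit 0) (nat_lit 5098720242) (nat_lit 152) (nat_lit 29683006277) (nat_lit 76) (nat_lit 17137226688) (nat_lit 9) (nat_lit 5) (nat_lit 11) (nat_lit 5) (nat_lit 10) (nat_lit 4) (nat_lit 312) (nat_lit 247) (nat_lit 161)) (XT.lf (nat_lit 0) (nat_lit 10384302692) (nat_lit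 152) (nat_lit 18876778003) (nat_lit 76) (nat_lit 24897037372) (nat_lit 9) (nat_lit 5) (nat_lit 11) (nat_lit 5) (nat_lit 10) (nat_lit 4) (nat_lit 313) (nat_lit 247) (nat_lit 160)))) (XT.nd (nat_lit 156) (nat_lit 0) (nat_lit 0) (XT.nd (nat_lit 78) (nat_lit 76) (nat_lit 0) (XT.lf (nat_lit 0) (nat_lit 15924641568) (nat_lit 152) (nat_lit 7546907829) (nat_lit 76) (nat_lit 33038179098) (nat_lit 9) (nat_lit 5) (nat_lit 11) (nat_lit 5) (nat_lit 10) (nat_lit 4) (nat_lit 314) (nat_lit 247) (nat_lit 159)) (XT.lf (nat_lit 0) (nat_lit 4476867855) (nat_lit 76) (nat_lit 17325956752) (nat_lit 152) (nat_lit 37173064135) (nat_lit 8) (nat_lit 5) (nat_lit 9) (nat_lit 5) (nat_lit 10) (nat_lit 4) (nat_lit 315) (nat_lit 247) (nat_lit 158))) (XT.nd (nat_lit 78) (nat_lit 0) (nat_lit 0) (XT.lf (nat_lit 0) (nat_lit 17348224257) (nat_lit 76) (nat_lit 10745621845) (nat_lit 152) (nat_lit 33465574584) (nat_lit 8)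 (nat_lit 5) (nat_lit 9) (nat_lit 5) (nat_lit 10) (nat_lit 4) (nat_lit 316) (nat_lit 247) (nat_lit 157)) (XT.nd (nat_lit 78) (nat_lit 0) (nat_lit 0) (XT.lf (nat_lit 0) (nat_lit 30848272605) (nat_lit 76) (nat_lit 3842687748) (nat_lit 152) (nat_lit 29581601456) (nat_lit 8) (nat_lit 5) (nat_lit 9) (nat_lit 5) (nat_lit 10) (nat_lit 4) (nat_lit 317) (nat_lit 247) (nat_lit 156)) (XT.lf (nat_lit 0) (nat_lit 41662947083) (nat_lit 152) (nat_lit 22165688404) (nat_lit 0) (nat_lit 3290482869) (nat_lit 8) (nat_lit 5) (nat_lit 10) (nat_lit 4) (nat_lit 8) (nat_lit 4) (nat_lit 318) (nat_lit 247) (nat_lit 155))))))))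
noncomputable def xc134 : XT := (XT.nd (nat_lit 1326) (nat_lit 152) (nat_lit 0) (XT.nd (nat_lit 624) (nat_lit 152) (nat_lit 0) (XT.nd (nat_lit 312) (nat_lit 76) (nat_lit 0) (XT.nd (nat_lit 156) (nat_lit 0) (nat_lit 0) (XT.nd (nat_lit 78) (nat_lit 76) (nat_lit 0) (XT.lf (nat_lit 0) (nat_lit 49038765207) (nat_lit 152) (nat_lit 10420946785) (nat_lit 0) (nat_lit 10645537905) (nat_lit 8) (nat_lit 5) (nat_lit 10) (nat_lit 4) (nat_lit 8) (nat_lit 4) (nat_lit 319) (nat_lit 247) (nat_lit 154)) (XT.lf (nat_lit 0) (nat_lit 1960647409) (nat_lit 76) (nat_lit 54845944862) (nat_lit 76) (nat_lit 16432943192) (nat_lit 7) (nat_lit 4) (nat_lit 8) (nat_lit 5) (nat_lit 8) (nat_lit 4) (nat_lit 320) (nat_lit 247) (nat_lit 153))) (XT.nd (nat_lit 78) (nat_lit 0) (nat_lit 0) (XT.lf (nat_lit 0) (nat_lit 15310187484) (nat_lit 76) (nat_lit 49821864067) (nat_lit 76) (nat_lit 11390029666) (nat_lit 7) (nat_lit 4)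 (nat_lit 8) (nat_lit 5) (nat_lit 8) (nat_lit 4) (nat_lit 321) (nat_lit 247) (nat_lit 152)) (XT.lf (nat_lit 0) (nat_lit 29314894493) (nat_lit 76) (nat_lit 44551991288) (nat_lit 76) (nat_lit 6102220951) (nat_lit 7) (nat_lit 4) (nat_lit 8) (nat_lit 5) (nat_lit 8) (nat_lit 4) (nat_lit 322) (nat_lit 247) (nat_lit 151)))) (XT.nd (nat_lit 156) (nat_lit 0) (nat_lit 0) (XT.nd (nat_lit 78) (nat_lit 76) (nat_lit 0) (XT.lf (nat_lit 0) (nat_lit 44008112979) (nat_lit 76) (nat_lit 39023779208) (nat_lit 76) (nat_lit 556927028) (nat_lit 7) (nat_lit 4) (nat_lit 8) (nat_lit 5) (nat_lit 8) (nat_lit 4) (nat_lit 323) (nat_lit 247) (nat_lit 150)) (XT.lf (nat_lit 0) (nat_lit 5090732574) (nat_lit 152) (nat_lit 28047118824) (nat_lit 76) (nat_lit 54247880199) (nat_lit 6) (nat_lit 5) (nat_lit 8) (nat_lit 5) (nat_lit 7) (nat_lit 4) (nat_lit 324) (nat_lit 247) (nat_lit 149))) (XT.nd (nat_lit 78) (nat_lit 0) (nat_lit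 0) (XT.lf (nat_lit 0) (nat_lit 10995995976) (nat_lit 152) (nat_lit 15956822585) (nat_lit 76) (nat_lit 64419523910) (nat_lit 6) (nat_lit 5) (nat_lit 8) (nat_lit 5) (nat_lit 7) (nat_lit 4) (nat_lit 325) (nat_lit 247) (nat_lit 148)) (XT.lf (nat_lit 0) (nat_lit 17190748471) (nat_lit 152) (nat_lit 3272335910) (nat_lit 76) (nat_lit 75095494146) (nat_lit 6) (nat_lit 5) (nat_lit 8) (nat_lit 5) (nat_lit 7) (nat_lit 4) (nat_lit 326) (nat_lit 247) (nat_lit 147))))) (XT.nd (nat_lit 312) (nat_lit 76) (nat_lit 0) (XT.nd (nat_lit 156) (nat_lit 0) (nat_lit 0) (XT.nd (nat_lit 78) (nat_lit 0) (nat_lit 0) (XT.lf (nat_lit 0) (nat_lit 10368395777) (nat_lit 76) (nat_lit 13483223406) (nat_lit 152) (nat_lit 76094693824) (nat_lit 5) (nat_lit 5) (nat_lit 6) (nat_lit 5) (nat_lit 7) (nat_lit 4) (nat_lit 327) (nat_lit 247) (nat_lit 146)) (XT.lf (nat_lit 0) (nat_lit 24795098016) (nat_lit 76) (nat_lit 6100465709)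 (nat_lit 152) (nat_lit 73655374355) (nat_lit 5) (nat_lit 5) (nat_lit 6) (nat_lit 5) (nat_lit 7) (nat_lit 4) (nat_lit 328) (nat_lit 247) (nat_lit 145))) (XT.nd (nat_lit 78) (nat_lit 0) (nat_lit 0) (XT.lf (nat_lit 0) (nat_lit 38312293502) (nat_lit 152) (nat_lit 69477853944) (nat_lit 0) (nat_lit 1594622687) (nat_lit 5) (nat_lit 5) (nat_lit 7) (nat_lit 4) (nat_lit 5) (nat_lit 4) (nat_lit 329) (nat_lit 247) (nat_lit 144)) (XT.lf (nat_lit 0) (nat_lit 46194919362) (nat_lit 152) (nat_lit 58794939445) (nat_lit 0) (nat_lit 9465686883) (nat_lit 5) (nat_lit 5) (nat_lit 7) (nat_lit 4) (nat_lit 5) (nat_lit 4) (nat_lit 330) (nat_lit 247) (nat_lit 143)))) (XT.nd (nat_lit 156) (nat_lit 76) (nat_lit 0) (XT.nd (nat_lit 78) (nat_lit 0) (nat_lit 0) (XT.lf (nat_lit 0) (nat_lit 54466964097) (nat_lit 152) (nat_lit 47586415689) (nat_lit 0) (nat_lit 17726720510) (nat_lit 5) (nat_lit 5) (nat_lit 7) (nat_lit 4)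 (nat_lit 5) (nat_lit 4) (nat_lit 331) (nat_lit 247) (nat_lit 142)) (XT.lf (nat_lit 0) (nat_lit 63148123052) (nat_lit 152) (nat_lit 35825595716) (nat_lit 0) (nat_lit 26397392695) (nat_lit 5) (nat_lit 5) (nat_lit 7) (nat_lit 4) (nat_lit 5) (nat_lit 4) (nat_lit 332) (nat_lit 247) (nat_lit 141))) (XT.nd (nat_lit 78) (nat_lit 76) (nat_lit 0) (XT.lf (nat_lit 0) (nat_lit 72259065652) (nat_lit 152) (nat_lit 23484477573) (nat_lit 0) (nat_lit 35498347895) (nat_lit 5) (nat_lit 5) (nat_lit 7) (nat_lit 4) (nat_lit 5) (nat_lit 4) (nat_lit 333) (nat_lit 247) (nat_lit 140)) (XT.nd (nat_lit 78) (nat_lit 76) (nat_lit 0) (XT.lf (nat_lit 0) (nat_lit 81821484617) (nat_lit 152) (nat_lit 10533677645) (nat_lit 0) (nat_lit 45051255051) (nat_lit 5) (nat_lit 5) (nat_lit 7) (nat_lit 4) (nat_lit 5) (nat_lit 4) (nat_lit 334) (nat_lit 247) (nat_lit 139)) (XT.lf (nat_lit 0) (nat_lit 3158738668) (nat_lit 76) (nat_lit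 88748725708) (nat_lit 76) (nat_lit 51969437275) (nat_lit 4) (nat_lit 4) (nat_lit 5) (nat_lit 5) (nat_lit 5) (nat_lit 4) (nat_lit 335) (nat_lit 247) (nat_lit 138))))))) (XT.nd (nat_lit 702) (nat_lit 152) (nat_lit 0) (XT.nd (nat_lit 312) (nat_lit 0) (nat_lit 0) (XT.nd (nat_lit 156) (nat_lit 0) (nat_lit 0) (XT.nd (nat_lit 78) (nat_lit 0) (nat_lit 0) (XT.lf (nat_lit 0) (nat_lit 17894571600) (nat_lit 76) (nat_lit 84777764268) (nat_lit 76) (nat_lit 47989848344) (nat_lit 4) (nat_lit 4) (nat_lit 5) (nat_lit 5) (nat_lit 5) (nat_lit 4) (nat_lit 336) (nat_lit 247) (nat_lit 137)) (XT.lf (nat_lit 0) (nat_lit 33360615512) (nat_lit 76) (nat_lit 80611216201) (nat_lit 76) (nat_lit 43815083618) (nat_lit 4) (nat_lit 4) (nat_lit 5) (nat_lit 5) (nat_lit 5) (nat_lit 4) (nat_lit 337) (nat_lit 247) (nat_lit 136))) (XT.nd (nat_lit 78) (nat_lit 0) (nat_lit 0) (XT.lf (nat_lit 0) (nat_lit 49593694318) (nat_lit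 76) (nat_lit 76239161154) (nat_lit 76) (nat_lit 39435203182) (nat_lit 4) (nat_lit 4) (nat_lit 5) (nat_lit 5) (nat_lit 5) (nat_lit 4) (nat_lit 338) (nat_lit 247) (nat_lit 135)) (XT.lf (nat_lit 0) (nat_lit 66632458206) (nat_lit 76) (nat_lit 71651189473) (nat_lit 76) (nat_lit 34839778750) (nat_lit 4) (nat_lit 4) (nat_lit 5) (nat_lit 5) (nat_lit 5) (nat_lit 4) (nat_lit 339) (nat_lit 247) (nat_lit 134)))) (XT.nd (nat_lit 156) (nat_lit 0) (nat_lit 0) (XT.nd (nat_lit 78) (nat_lit 0) (nat_lit 0) (XT.lf (nat_lit 0) (nat_lit 84517475660) (nat_lit 76) (nat_lit 66836377416) (nat_lit 76) (nat_lit 30017868834) (nat_lit 4) (nat_lit 4) (nat_lit 5) (nat_lit 5) (nat_lit 5) (nat_lit 4) (nat_lit 340) (nat_lit 247) (nat_lit 133)) (XT.lf (nat_lit 0) (nat_lit 103291330057) (nat_lit 76) (nat_lit 61783261143) (nat_lit 76) (nat_lit 24957992696) (nat_lit 4) (nat_lit 4) (nat_lit 5) (nat_lit 5) (nat_lit 5) (nat_lit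 4) (nat_lit 341) (nat_lit 247) (nat_lit 132))) (XT.nd (nat_lit 78) (nat_lit 0) (nat_lit 0) (XT.lf (nat_lit 0) (nat_lit 122998721048) (nat_lit 76) (nat_lit 56479809427) (nat_lit 76) (nat_lit 19648103013) (nat_lit 4) (nat_lit 4) (nat_lit 5) (nat_lit 5) (nat_lit 5) (nat_lit 4) (nat_lit 342) (nat_lit 247) (nat_lit 131)) (XT.nd (nat_lit 78) (nat_lit 0) (nat_lit 0) (XT.lf (nat_lit 0) (nat_lit 143686570995) (nat_lit 76) (nat_lit 50913395002) (nat_lit 76) (nat_lit 14075557190) (nat_lit 4) (nat_lit 4) (nat_lit 5) (nat_lit 5) (nat_lit 5) (nat_lit 4) (nat_lit 343) (nat_lit 247) (nat_lit 130)) (XT.lf (nat_lit 0) (nat_lit 165404136681) (nat_lit 76) (nat_lit 45070764498) (nat_lit 76) (nat_lit 8227087261) (nat_lit 4) (nat_lit 4) (nat_lit 5) (nat_lit 5) (nat_lit 5) (nat_lit 4) (nat_lit 344) (nat_lit 247) (nat_lit 129)))))) (XT.nd (nat_lit 312) (nat_lit 76) (nat_lit 0) (XT.nd (nat_lit 156) (nat_lit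 0) (nat_lit 0) (XT.nd (nat_lit 78) (nat_lit 76) (nat_lit 0) (XT.lf (nat_lit 0) (nat_lit 188203126598) (nat_lit 76) (nat_lit 38938006892) (nat_lit 76) (nat_lit 2088768297) (nat_lit 4) (nat_lit 4) (nat_lit 5) (nat_lit 5) (nat_lit 5) (nat_lit 4) (nat_lit 345) (nat_lit 247) (nat_lit 128)) (XT.lf (nat_lit 0) (nat_lit 4214659083) (nat_lit 152) (nat_lit 28214484005) (nat_lit 76) (nat_lit 207851787679) (nat_lit 3) (nat_lit 5) (nat_lit 5) (nat_lit 5) (nat_lit 4) (nat_lit 4) (nat_lit 346) (nat_lit 247) (nat_lit 127))) (XT.nd (nat_lit 78) (nat_lit 0) (nat_lit 0) (XT.lf (nat_lit 0) (nat_lit 10760801147) (nat_lit 152) (nat_lit 14799937090) (nat_lit 76) (nat_lit 226322175903) (nat_lit 3) (nat_lit 5) (nat_lit 5) (nat_lit 5) (nat_lit 4) (nat_lit 4) (nat_lit 347) (nat_lit 247) (nat_lit 126)) (XT.lf (nat_lit 0) (nat_lit 17632097576) (nat_lit 152) (nat_lit 718583521) (nat_lit 76) (nat_lit 245714425153)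 (nat_lit 3) (nat_lit 5) (nat_lit 5) (nat_lit 5) (nat_lit 4) (nat_lit 4) (nat_lit 348) (nat_lit 247) (nat_lit 125)))) (XT.nd (nat_lit 156) (nat_lit 0) (nat_lit 0) (XT.nd (nat_lit 78) (nat_lit 0) (nat_lit 0) (XT.lf (nat_lit 0) (nat_lit 14528093455) (nat_lit 76) (nat_lit 10543639398) (nat_lit 152) (nat_lit 251773438250) (nat_lit 2) (nat_lit 5) (nat_lit 3) (nat_lit 5) (nat_lit 4) (nat_lit 4) (nat_lit 349) (nat_lit 247) (nat_lit 124)) (XT.lf (nat_lit 0) (nat_lit 30558378113) (nat_lit 76) (nat_lit 2335131388) (nat_lit 152) (nat_lit 257370223472) (nat_lit 2) (nat_lit 5) (nat_lit 3) (nat_lit 5) (nat_lit 4) (nat_lit 4) (nat_lit 350) (nat_lit 247) (nat_lit 123))) (XT.nd (nat_lit 78) (nat_lit 0) (nat_lit 0) (XT.lf (nat_lit 0) (nat_lit 41202543759) (nat_lit 152) (nat_lit 257064725158) (nat_lit 0) (nat_lit 6081147248) (nat_lit 2) (nat_lit 5) (nat_lit 4) (nat_lit 4) (nat_lit 2) (nat_lit 4) (nat_lit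 351) (nat_lit 247) (nat_lit 122)) (XT.nd (nat_lit 78) (nat_lit 0) (nat_lit 0) (XT.lf (nat_lit 0) (nat_lit 49963463922) (nat_lit 152) (nat_lit 254333746209) (nat_lit 0) (nat_lit 14838303266) (nat_lit 2) (nat_lit 5) (nat_lit 4) (nat_lit 4) (nat_lit 2) (nat_lit 4) (nat_lit 352) (nat_lit 247) (nat_lit 121)) (XT.lf (nat_lit 0) (nat_lit 59160671380) (nat_lit 152) (nat_lit 251469457738) (nat_lit 0) (nat_lit 24031925823) (nat_lit 2) (nat_lit 5) (nat_lit 4) (nat_lit 4) (nat_lit 2) (nat_lit 4) (nat_lit 353) (nat_lit 247) (nat_lit 120))))))))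
noncomputable def xc135 : XT := (XT.nd (nat_lit 30186) (nat_lit 0) (nat_lit 2736) (XT.nd (nat_lit 29484) (nat_lit 0) (nat_lit 6308) (XT.nd (nat_lit 312) (nat_lit 0) (nat_lit 0) (XT.nd (nat_lit 156) (nat_lit 0) (nat_lit 0) (XT.nd (nat_lit 78) (nat_lit 0) (nat_lit 0) (XT.lf (nat_lit 0) (nat_lit 68816064245) (nat_lit 152) (nat_lit 248465040009) (nat_lit 0) (nat_lit 33683904497) (nat_lit 2) (nat_lit 5) (nat_lit 4) (nat_lit 4) (nat_lit 2) (nat_lit 4) (nat_lit 354) (nat_lit 247) (nat_lit 119)) (XT.lf (nat_lit 0) (nat_lit 78952631548) (nat_lit 152) (nat_lit 245313339648) (nat_lit 0) (nat_lit 43817220189) (nat_lit 2) (nat_lit 5) (nat_lit 4) (nat_lit 4) (nat_lit 2) (nat_lit 4) (nat_lit 355) (nat_lit 247) (nat_lit 118))) (XT.nd (nat_lit 78) (nat_lit 0) (nat_lit 0) (XT.lf (nat_lit 0) (nat_lit 89594507974) (nat_lit 152) (nat_lit 242006852606) (nat_lit 0) (nat_lit 54455999842) (nat_lit 2) (nat_lit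 5) (nat_lit 4) (nat_lit 4) (nat_lit 2) (nat_lit 4) (nat_lit 356) (nat_lit 247) (nat_lit 117)) (XT.lf (nat_lit 0) (nat_lit 100767031322) (nat_lit 152) (nat_lit 238537706294) (nat_lit 0) (nat_lit 65625573884) (nat_lit 2) (nat_lit 5) (nat_lit 4) (nat_lit 4) (nat_lit 2) (nat_lit 4) (nat_lit 357) (nat_lit 247) (nat_lit 116)))) (XT.nd (nat_lit 28938) (nat_lit 0) (nat_lit 7220) (XT.nd (nat_lit 78) (nat_lit 0) (nat_lit 0) (XT.lf (nat_lit 0) (nat_lit 112496802840) (nat_lit 152) (nat_lit 234897640840) (nat_lit 0) (nat_lit 77352536537) (nat_lit 2) (nat_lit 5) (nat_lit 4) (nat_lit 4) (nat_lit 2) (nat_lit 4) (nat_lit 358) (nat_lit 247) (nat_lit 115)) (XT.lf (nat_lit 0) (nat_lit 124811750554) (nat_lit 152) (nat_lit 231077989423) (nat_lit 0) (nat_lit 89664809143) (nat_lit 2) (nat_lit 5) (nat_lit 4) (nat_lit 4) (nat_lit 2) (nat_lit 4) (nat_lit 359) (nat_lit 247) (nat_lit 114))) (XT.nd (nat_lit 78)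 (nat_lit 0) (nat_lit 0) (XT.lf (nat_lit 0) (nat_lit 616128609) (nat_lit 532) (nat_lit 1493851206) (nat_lit 532) (nat_lit 1493851206) (nat_lit 97) (nat_lit 3) (nat_lit 104) (nat_lit 3) (nat_lit 104) (nat_lit 5) (nat_lit 248) (nat_lit 248) (nat_lit 224)) (XT.nd (nat_lit 78) (nat_lit 0) (nat_lit 0) (XT.lf (nat_lit 76) (nat_lit 177408515) (nat_lit 0) (nat_lit 2572936655) (nat_lit 532) (nat_lit 4556986941) (nat_lit 98) (nat_lit 5) (nat_lit 97) (nat_lit 3) (nat_lit 104) (nat_lit 5) (nat_lit 249) (nat_lit 248) (nat_lit 223)) (XT.lf (nat_lit 76) (nat_lit 3552758787) (nat_lit 0) (nat_lit 746341786) (nat_lit 532) (nat_lit 3115541109) (nat_lit 98) (nat_lit 5) (nat_lit 97) (nat_lit 3) (nat_lit 104) (nat_lit 5) (nat_lit 250) (nat_lit 248) (nat_lit 222)))))) (XT.nd (nat_lit 312) (nat_lit 456) (nat_lit 0) (XT.nd (nat_lit 156) (nat_lit 532) (nat_lit 0) (XT.nd (nat_lit 78) (nat_lit 0) (nat_lit 0) (XT.lf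 (nat_lit 0) (nat_lit 5852969508) (nat_lit 456) (nat_lit 503604996) (nat_lit 532) (nat_lit 1174733820) (nat_lit 98) (nat_lit 5) (nat_lit 104) (nat_lit 5) (nat_lit 105) (nat_lit 5) (nat_lit 251) (nat_lit 248) (nat_lit 221)) (XT.lf (nat_lit 76) (nat_lit 3055899414) (nat_lit 0) (nat_lit 4402277857) (nat_lit 532) (nat_lit 197306266) (nat_lit 99) (nat_lit 5) (nat_lit 98) (nat_lit 5) (nat_lit 105) (nat_lit 5) (nat_lit 252) (nat_lit 248) (nat_lit 220))) (XT.nd (nat_lit 78) (nat_lit 0) (nat_lit 76) (XT.lf (nat_lit 0) (nat_lit 1238304921) (nat_lit 532) (nat_lit 1050458076) (nat_lit 608) (nat_lit 5500169626) (nat_lit 91) (nat_lit 5) (nat_lit 98) (nat_lit 5) (nat_lit 99) (nat_lit 5) (nat_lit 253) (nat_lit 248) (nat_lit 219)) (XT.lf (nat_lit 0) (nat_lit 2700795562) (nat_lit 532) (nat_lit 5223622487) (nat_lit 608) (nat_lit 6696733) (nat_lit 92) (nat_lit 5) (nat_lit 99) (nat_lit 5) (nat_lit 100) (nat_lit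 5) (nat_lit 254) (nat_lit 248) (nat_lit 218)))) (XT.nd (nat_lit 156) (nat_lit 532) (nat_lit 0) (XT.nd (nat_lit 78) (nat_lit 0) (nat_lit 0) (XT.lf (nat_lit 0) (nat_lit 4214817865) (nat_lit 532) (nat_lit 1483214040) (nat_lit 608) (nat_lit 2383747906) (nat_lit 92) (nat_lit 5) (nat_lit 99) (nat_lit 5) (nat_lit 100) (nat_lit 5) (nat_lit 255) (nat_lit 248) (nat_lit 217)) (XT.lf (nat_lit 76) (nat_lit 2470235045) (nat_lit 0) (nat_lit 3299354264) (nat_lit 608) (nat_lit 2472416500) (nat_lit 93) (nat_lit 5) (nat_lit 92) (nat_lit 5) (nat_lit 100) (nat_lit 5) (nat_lit 256) (nat_lit 248) (nat_lit 216))) (XT.nd (nat_lit 78) (nat_lit 532) (nat_lit 0) (XT.lf (nat_lit 76) (nat_lit 6620663226) (nat_lit 0) (nat_lit 735721910) (nat_lit 608) (nat_lit 1056410457) (nat_lit 93) (nat_lit 5) (nat_lit 92) (nat_lit 5) (nat_lit 100) (nat_lit 5) (nat_lit 257) (nat_lit 248) (nat_lit 215)) (XT.nd (nat_lit 78) (nat_lit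 0) (nat_lit 0) (XT.lf (nat_lit 0) (nat_lit 416874392) (nat_lit 608) (nat_lit 6220610885) (nat_lit 76) (nat_lit 1954532885) (nat_lit 85) (nat_lit 5) (nat_lit 93) (nat_lit 5) (nat_lit 86) (nat_lit 5) (nat_lit 258) (nat_lit 248) (nat_lit 214)) (XT.lf (nat_lit 0) (nat_lit 1905126577) (nat_lit 608) (nat_lit 2058376357) (nat_lit 76) (nat_lit 4817223196) (nat_lit 85) (nat_lit 5) (nat_lit 93) (nat_lit 5) (nat_lit 86) (nat_lit 5) (nat_lit 259) (nat_lit 248) (nat_lit 213))))))) (XT.nd (nat_lit 702) (nat_lit 1216) (nat_lit 0) (XT.nd (nat_lit 312) (nat_lit 1064) (nat_lit 0) (XT.nd (nat_lit 156) (nat_lit 684) (nat_lit 0) (XT.nd (nat_lit 78) (nat_lit 0) (nat_lit 0) (XT.lf (nat_lit 0) (nat_lit 2334145755) (nat_lit 608) (nat_lit 1107132189) (nat_lit 684) (nat_lit 5539136704) (nat_lit 77) (nat_lit 5) (nat_lit 85) (nat_lit 5) (nat_lit 86) (nat_lit 5) (nat_lit 260) (nat_lit 248) (nat_lit 212)) (XT.lf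 (nat_lit 0) (nat_lit 5058585028) (nat_lit 684) (nat_lit 2255773399) (nat_lit 76) (nat_lit 1875720783) (nat_lit 77) (nat_lit 5) (nat_lit 86) (nat_lit 5) (nat_lit 78) (nat_lit 5) (nat_lit 261) (nat_lit 248) (nat_lit 211))) (XT.nd (nat_lit 78) (nat_lit 0) (nat_lit 0) (XT.lf (nat_lit 0) (nat_lit 2359154203) (nat_lit 684) (nat_lit 4394849564) (nat_lit 760) (nat_lit 2656559991) (nat_lit 68) (nat_lit 5) (nat_lit 77) (nat_lit 5) (nat_lit 78) (nat_lit 5) (nat_lit 262) (nat_lit 248) (nat_lit 210)) (XT.lf (nat_lit 0) (nat_lit 7231538896) (nat_lit 684) (nat_lit 1285064407) (nat_lit 760) (nat_lit 1126538330) (nat_lit 68) (nat_lit 5) (nat_lit 77) (nat_lit 5) (nat_lit 78) (nat_lit 5) (nat_lit 263) (nat_lit 248) (nat_lit 209)))) (XT.nd (nat_lit 156) (nat_lit 684) (nat_lit 0) (XT.nd (nat_lit 78) (nat_lit 0) (nat_lit 0) (XT.lf (nat_lit 0) (nat_lit 480897841) (nat_lit 380) (nat_lit 7438643258) (nat_lit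 76) (nat_lit 1966790780) (nat_lit 63) (nat_lit 5) (nat_lit 68) (nat_lit 5) (nat_lit 64) (nat_lit 5) (nat_lit 264) (nat_lit 248) (nat_lit 208)) (XT.lf (nat_lit 0) (nat_lit 2141070516) (nat_lit 380) (nat_lit 2599275904) (nat_lit 76) (nat_lit 5400064412) (nat_lit 63) (nat_lit 5) (nat_lit 68) (nat_lit 5) (nat_lit 64) (nat_lit 5) (nat_lit 265) (nat_lit 248) (nat_lit 207))) (XT.nd (nat_lit 78) (nat_lit 304) (nat_lit 0) (XT.lf (nat_lit 0) (nat_lit 2511882118) (nat_lit 380) (nat_lit 1361726223) (nat_lit 456) (nat_lit 6534273546) (nat_lit 58) (nat_lit 5) (nat_lit 63) (nat_lit 5) (nat_lit 64) (nat_lit 5) (nat_lit 266) (nat_lit 248) (nat_lit 206)) (XT.nd (nat_lit 78) (nat_lit 304) (nat_lit 0) (XT.lf (nat_lit 0) (nat_lit 5723354684) (nat_lit 456) (nat_lit 2804831264) (nat_lit 76) (nat_lit 2159160017) (nat_lit 58) (nat_lit 5) (nat_lit 64) (nat_lit 5) (nat_lit 59) (nat_lit 5) (nat_lit 267) (nat_lit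 248) (nat_lit 205)) (XT.lf (nat_lit 0) (nat_lit 2550394841) (nat_lit 304) (nat_lit 5131348206) (nat_lit 380) (nat_lit 3298373942) (nat_lit 54) (nat_lit 5) (nat_lit 58) (nat_lit 5) (nat_lit 59) (nat_lit 5) (nat_lit 268) (nat_lit 248) (nat_lit 204)))))) (XT.nd (nat_lit 312) (nat_lit 608) (nat_lit 0) (XT.nd (nat_lit 156) (nat_lit 228) (nat_lit 0) (XT.nd (nat_lit 78) (nat_lit 380) (nat_lit 0) (XT.lf (nat_lit 0) (nat_lit 8221756978) (nat_lit 304) (nat_lit 1519232350) (nat_lit 380) (nat_lit 1546525053) (nat_lit 54) (nat_lit 5) (nat_lit 58) (nat_lit 5) (nat_lit 59) (nat_lit 5) (nat_lit 269) (nat_lit 248) (nat_lit 203)) (XT.lf (nat_lit 0) (nat_lit 316980301) (nat_lit 380) (nat_lit 9049746972) (nat_lit 76) (nat_lit 2241775960) (nat_lit 49) (nat_lit 5) (nat_lit 54) (nat_lit 5) (nat_lit 50) (nat_lit 5) (nat_lit 270) (nat_lit 248) (nat_lit 202))) (XT.nd (nat_lit 78) (nat_lit 228) (nat_lit 0) (XT.lf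 (nat_lit 0) (nat_lit 2257336995) (nat_lit 380) (nat_lit 3472694809) (nat_lit 76) (nat_lit 6212576002) (nat_lit 49) (nat_lit 5) (nat_lit 54) (nat_lit 5) (nat_lit 50) (nat_lit 5) (nat_lit 271) (nat_lit 248) (nat_lit 201)) (XT.lf (nat_lit 0) (nat_lit 2413237585) (nat_lit 228) (nat_lit 1879125409) (nat_lit 304) (nat_lit 8001282893) (nat_lit 46) (nat_lit 5) (nat_lit 49) (nat_lit 5) (nat_lit 50) (nat_lit 5) (nat_lit 272) (nat_lit 248) (nat_lit 200)))) (XT.nd (nat_lit 156) (nat_lit 304) (nat_lit 0) (XT.nd (nat_lit 78) (nat_lit 304) (nat_lit 0) (XT.lf (nat_lit 0) (nat_lit 6483743516) (nat_lit 304) (nat_lit 4028398572) (nat_lit 76) (nat_lit 2147469194) (nat_lit 46) (nat_lit 5) (nat_lit 50) (nat_lit 5) (nat_lit 47) (nat_lit 5) (nat_lit 273) (nat_lit 248) (nat_lit 199)) (XT.lf (nat_lit 0) (nat_lit 2106760876) (nat_lit 304) (nat_lit 6704521516) (nat_lit 380) (nat_lit 4231363634) (nat_lit 42) (nat_lit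 5) (nat_lit 46) (nat_lit 5) (nat_lit 47) (nat_lit 5) (nat_lit 274) (nat_lit 248) (nat_lit 198))) (XT.nd (nat_lit 78) (nat_lit 304) (nat_lit 0) (XT.lf (nat_lit 0) (nat_lit 8643203407) (nat_lit 304) (nat_lit 2644168550) (nat_lit 380) (nat_lit 2155947621) (nat_lit 42) (nat_lit 5) (nat_lit 46) (nat_lit 5) (nat_lit 47) (nat_lit 5) (nat_lit 275) (nat_lit 248) (nat_lit 197)) (XT.nd (nat_lit 78) (nat_lit 0) (nat_lit 0) (XT.lf (nat_lit 0) (nat_lit 38841904) (nat_lit 304) (nat_lit 12239630026) (nat_lit 76) (nat_lit 1584806264) (nat_lit 38) (nat_lit 5) (nat_lit 42) (nat_lit 5) (nat_lit 39) (nat_lit 5) (nat_lit 276) (nat_lit 248) (nat_lit 196)) (XT.lf (nat_lit 0) (nat_lit 2362737443) (nat_lit 304) (nat_lit 5890274876) (nat_lit 76) (nat_lit 6044946947) (nat_lit 38) (nat_lit 5) (nat_lit 42) (nat_lit 5) (nat_lit 39) (nat_lit 5) (nat_lit 277) (nat_lit 248) (nat_lit 195))))))))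
noncomputable def xc136 : XT := (XT.nd (nat_lit 1326) (nat_lit 836) (nat_lit 0) (XT.nd (nat_lit 624) (nat_lit 532) (nat_lit 0) (XT.nd (nat_lit 312) (nat_lit 456) (nat_lit 0) (XT.nd (nat_lit 156) (nat_lit 152) (nat_lit 0) (XT.nd (nat_lit 78) (nat_lit 0) (nat_lit 0) (XT.lf (nat_lit 0) (nat_lit 757623790) (nat_lit 228) (nat_lit 4024507396) (nat_lit 304) (nat_lit 9973356813) (nat_lit 35) (nat_lit 5) (nat_lit 38) (nat_lit 5) (nat_lit 39) (nat_lit 5) (nat_lit 278) (nat_lit 248) (nat_lit 194)) (XT.lf (nat_lit 0) (nat_lit 7398561750) (nat_lit 304) (nat_lit 7340576645) (nat_lit 76) (nat_lit 493026446) (nat_lit 35) (nat_lit 5) (nat_lit 39) (nat_lit 5) (nat_lit 36) (nat_lit 5) (nat_lit 279) (nat_lit 248) (nat_lit 193))) (XT.nd (nat_lit 78) (nat_lit 152) (nat_lit 0) (XT.lf (nat_lit 0) (nat_lit 10181495316) (nat_lit 304) (nat_lit 458271096) (nat_lit 76) (nat_lit 5091196494) (nat_lit 35) (nat_lit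 5) (nat_lit 39) (nat_lit 5) (nat_lit 36) (nat_lit 5) (nat_lit 280) (nat_lit 248) (nat_lit 192)) (XT.lf (nat_lit 0) (nat_lit 6950739799) (nat_lit 152) (nat_lit 6232504808) (nat_lit 228) (nat_lit 3067540869) (nat_lit 33) (nat_lit 5) (nat_lit 35) (nat_lit 5) (nat_lit 36) (nat_lit 5) (nat_lit 281) (nat_lit 248) (nat_lit 191)))) (XT.nd (nat_lit 156) (nat_lit 152) (nat_lit 0) (XT.nd (nat_lit 78) (nat_lit 304) (nat_lit 0) (XT.lf (nat_lit 0) (nat_lit 14706877542) (nat_lit 152) (nat_lit 1607874711) (nat_lit 228) (nat_lit 482928189) (nat_lit 33) (nat_lit 5) (nat_lit 35) (nat_lit 5) (nat_lit 36) (nat_lit 5) (nat_lit 282) (nat_lit 248) (nat_lit 190)) (XT.lf (nat_lit 0) (nat_lit 2271988120) (nat_lit 304) (nat_lit 11835293911) (nat_lit 76) (nat_lit 3257331561) (nat_lit 29) (nat_lit 5) (nat_lit 33) (nat_lit 5) (nat_lit 30) (nat_lit 5) (nat_lit 283) (nat_lit 248) (nat_lit 189))) (XT.nd (nat_lit 78)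 (nat_lit 152) (nat_lit 0) (XT.lf (nat_lit 0) (nat_lit 5184052303) (nat_lit 304) (nat_lit 4428858529) (nat_lit 76) (nat_lit 8344861130) (nat_lit 29) (nat_lit 5) (nat_lit 33) (nat_lit 5) (nat_lit 30) (nat_lit 5) (nat_lit 284) (nat_lit 248) (nat_lit 188)) (XT.lf (nat_lit 0) (nat_lit 3420306957) (nat_lit 152) (nat_lit 4849369295) (nat_lit 228) (nat_lit 10309567492) (nat_lit 27) (nat_lit 5) (nat_lit 29) (nat_lit 5) (nat_lit 30) (nat_lit 5) (nat_lit 285) (nat_lit 248) (nat_lit 187))))) (XT.nd (nat_lit 312) (nat_lit 304) (nat_lit 0) (XT.nd (nat_lit 156) (nat_lit 76) (nat_lit 0) (XT.nd (nat_lit 78) (nat_lit 152) (nat_lit 0) (XT.lf (nat_lit 0) (nat_lit 11563210630) (nat_lit 228) (nat_lit 7453530204) (nat_lit 76) (nat_lit 212417602) (nat_lit 27) (nat_lit 5) (nat_lit 30) (nat_lit 5) (nat_lit 28) (nat_lit 5) (nat_lit 286) (nat_lit 248) (nat_lit 186)) (XT.lf (nat_lit 0) (nat_lit 539119440) (nat_lit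 152) (nat_lit 14546423197) (nat_lit 228) (nat_lit 4822868545) (nat_lit 25) (nat_lit 5) (nat_lit 27) (nat_lit 5) (nat_lit 28) (nat_lit 5) (nat_lit 287) (nat_lit 248) (nat_lit 185))) (XT.nd (nat_lit 78) (nat_lit 76) (nat_lit 0) (XT.lf (nat_lit 0) (nat_lit 9154963877) (nat_lit 152) (nat_lit 9732045761) (nat_lit 228) (nat_lit 1729512067) (nat_lit 25) (nat_lit 5) (nat_lit 27) (nat_lit 5) (nat_lit 28) (nat_lit 5) (nat_lit 288) (nat_lit 248) (nat_lit 184)) (XT.lf (nat_lit 0) (nat_lit 1447400036) (nat_lit 228) (nat_lit 3216462407) (nat_lit 76) (nat_lit 16696157195) (nat_lit 24) (nat_lit 5) (nat_lit 27) (nat_lit 5) (nat_lit 25) (nat_lit 5) (nat_lit 289) (nat_lit 248) (nat_lit 183)))) (XT.nd (nat_lit 156) (nat_lit 152) (nat_lit 0) (XT.nd (nat_lit 78) (nat_lit 0) (nat_lit 0) (XT.lf (nat_lit 0) (nat_lit 4802348949) (nat_lit 228) (nat_lit 16590294167) (nat_lit 76) (nat_lit 742805801) (nat_lit 22)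 (nat_lit 5) (nat_lit 25) (nat_lit 5) (nat_lit 23) (nat_lit 5) (nat_lit 290) (nat_lit 248) (nat_lit 182)) (XT.lf (nat_lit 0) (nat_lit 8435772412) (nat_lit 228) (nat_lit 8200818834) (nat_lit 76) (nat_lit 6307559953) (nat_lit 22) (nat_lit 5) (nat_lit 25) (nat_lit 5) (nat_lit 23) (nat_lit 5) (nat_lit 291) (nat_lit 248) (nat_lit 181))) (XT.nd (nat_lit 78) (nat_lit 0) (nat_lit 0) (XT.lf (nat_lit 0) (nat_lit 595706972) (nat_lit 152) (nat_lit 11644370263) (nat_lit 228) (nat_lit 11553786941) (nat_lit 20) (nat_lit 5) (nat_lit 22) (nat_lit 5) (nat_lit 23) (nat_lit 5) (nat_lit 292) (nat_lit 248) (nat_lit 180)) (XT.nd (nat_lit 78) (nat_lit 0) (nat_lit 0) (XT.lf (nat_lit 0) (nat_lit 10085791242) (nat_lit 152) (nat_lit 6268073400) (nat_lit 228) (nat_lit 8326269164) (nat_lit 20) (nat_lit 5) (nat_lit 22) (nat_lit 5) (nat_lit 23) (nat_lit 5) (nat_lit 293) (nat_lit 248) (nat_lit 179)) (XT.lf (nat_lit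 0) (nat_lit 20020873307) (nat_lit 152) (nat_lit 633784788) (nat_lit 228) (nat_lit 4957025724) (nat_lit 20) (nat_lit 5) (nat_lit 22) (nat_lit 5) (nat_lit 23) (nat_lit 5) (nat_lit 294) (nat_lit 248) (nat_lit 178))))))) (XT.nd (nat_lit 702) (nat_lit 380) (nat_lit 0) (XT.nd (nat_lit 312) (nat_lit 152) (nat_lit 0) (XT.nd (nat_lit 156) (nat_lit 152) (nat_lit 0) (XT.nd (nat_lit 78) (nat_lit 76) (nat_lit 0) (XT.lf (nat_lit 0) (nat_lit 3875610371) (nat_lit 76) (nat_lit 21419905643) (nat_lit 152) (nat_lit 1288075254) (nat_lit 19) (nat_lit 5) (nat_lit 20) (nat_lit 5) (nat_lit 21) (nat_lit 4) (nat_lit 295) (nat_lit 248) (nat_lit 177)) (XT.lf (nat_lit 0) (nat_lit 2571014311) (nat_lit 152) (nat_lit 13670900238) (nat_lit 76) (nat_lit 11355767709) (nat_lit 18) (nat_lit 5) (nat_lit 20) (nat_lit 5) (nat_lit 19) (nat_lit 5) (nat_lit 296) (nat_lit 248) (nat_lit 176))) (XT.nd (nat_lit 78) (nat_lit 152)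 (nat_lit 0) (XT.lf (nat_lit 0) (nat_lit 6562761758) (nat_lit 152) (nat_lit 4230714446) (nat_lit 76) (nat_lit 17868823166) (nat_lit 18) (nat_lit 5) (nat_lit 20) (nat_lit 5) (nat_lit 19) (nat_lit 5) (nat_lit 297) (nat_lit 248) (nat_lit 175)) (XT.lf (nat_lit 0) (nat_lit 5842148822) (nat_lit 152) (nat_lit 4986961191) (nat_lit 228) (nat_lit 18947312301) (nat_lit 16) (nat_lit 5) (nat_lit 18) (nat_lit 5) (nat_lit 19) (nat_lit 5) (nat_lit 298) (nat_lit 248) (nat_lit 174)))) (XT.nd (nat_lit 156) (nat_lit 152) (nat_lit 0) (XT.nd (nat_lit 78) (nat_lit 0) (nat_lit 0) (XT.lf (nat_lit 0) (nat_lit 15382938950) (nat_lit 228) (nat_lit 14422187274) (nat_lit 76) (nat_lit 1137441446) (nat_lit 16) (nat_lit 5) (nat_lit 19) (nat_lit 5) (nat_lit 17) (nat_lit 4) (nat_lit 299) (nat_lit 248) (nat_lit 173)) (XT.lf (nat_lit 0) (nat_lit 20230985331) (nat_lit 228) (nat_lit 4541537376) (nat_lit 76) (nat_lit 7391194550)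 (nat_lit 16) (nat_lit 5) (nat_lit 19) (nat_lit 5) (nat_lit 17) (nat_lit 4) (nat_lit 300) (nat_lit 248) (nat_lit 172))) (XT.nd (nat_lit 78) (nat_lit 76) (nat_lit 0) (XT.lf (nat_lit 0) (nat_lit 6001135821) (nat_lit 76) (nat_lit 19399490412) (nat_lit 152) (nat_lit 8041360637) (nat_lit 15) (nat_lit 5) (nat_lit 16) (nat_lit 5) (nat_lit 17) (nat_lit 4) (nat_lit 301) (nat_lit 248) (nat_lit 171)) (XT.nd (nat_lit 78) (nat_lit 76) (nat_lit 0) (XT.lf (nat_lit 0) (nat_lit 17204920020) (nat_lit 76) (nat_lit 13686560596) (nat_lit 152) (nat_lit 3889573877) (nat_lit 15) (nat_lit 5) (nat_lit 16) (nat_lit 5) (nat_lit 17) (nat_lit 4) (nat_lit 302) (nat_lit 248) (nat_lit 170)) (XT.lf (nat_lit 0) (nat_lit 441018368) (nat_lit 152) (nat_lit 7248556953) (nat_lit 76) (nat_lit 28497839931) (nat_lit 14) (nat_lit 5) (nat_lit 16) (nat_lit 5) (nat_lit 15) (nat_lit 5) (nat_lit 303) (nat_lit 248) (nat_lit 169))))))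 (XT.nd (nat_lit 312) (nat_lit 228) (nat_lit 0) (XT.nd (nat_lit 156) (nat_lit 0) (nat_lit 0) (XT.nd (nat_lit 78) (nat_lit 0) (nat_lit 0) (XT.lf (nat_lit 0) (nat_lit 3625739429) (nat_lit 152) (nat_lit 1275200947) (nat_lit 228) (nat_lit 32757807960) (nat_lit 12) (nat_lit 5) (nat_lit 14) (nat_lit 5) (nat_lit 15) (nat_lit 5) (nat_lit 304) (nat_lit 248) (nat_lit 168)) (XT.lf (nat_lit 0) (nat_lit 9780929601) (nat_lit 228) (nat_lit 24011472109) (nat_lit 76) (nat_lit 5401410167) (nat_lit 12) (nat_lit 5) (nat_lit 15) (nat_lit 5) (nat_lit 13) (nat_lit 4) (nat_lit 305) (nat_lit 248) (nat_lit 167))) (XT.nd (nat_lit 78) (nat_lit 0) (nat_lit 0) (XT.lf (nat_lit 0) (nat_lit 14913496225) (nat_lit 228) (nat_lit 13530820020) (nat_lit 76) (nat_lit 12360899985) (nat_lit 12) (nat_lit 5) (nat_lit 15) (nat_lit 5) (nat_lit 13) (nat_lit 4) (nat_lit 306) (nat_lit 248) (nat_lit 166)) (XT.lf (nat_lit 0) (nat_lit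 20290951187) (nat_lit 228) (nat_lit 2546189247) (nat_lit 76) (nat_lit 19660653115) (nat_lit 12) (nat_lit 5) (nat_lit 15) (nat_lit 5) (nat_lit 13) (nat_lit 4) (nat_lit 307) (nat_lit 248) (nat_lit 165)))) (XT.nd (nat_lit 156) (nat_lit 152) (nat_lit 0) (XT.nd (nat_lit 78) (nat_lit 0) (nat_lit 0) (XT.lf (nat_lit 0) (nat_lit 9265115657) (nat_lit 76) (nat_lit 16805636713) (nat_lit 152) (nat_lit 18197588685) (nat_lit 11) (nat_lit 5) (nat_lit 12) (nat_lit 5) (nat_lit 13) (nat_lit 4) (nat_lit 308) (nat_lit 248) (nat_lit 164)) (XT.lf (nat_lit 0) (nat_lit 21736592824) (nat_lit 76) (nat_lit 10435129834) (nat_lit 152) (nat_lit 13954098607) (nat_lit 11) (nat_lit 5) (nat_lit 12) (nat_lit 5) (nat_lit 13) (nat_lit 4) (nat_lit 309) (nat_lit 248) (nat_lit 163))) (XT.nd (nat_lit 78) (nat_lit 152) (nat_lit 0) (XT.lf (nat_lit 0) (nat_lit 34813747733) (nat_lit 76) (nat_lit 3753572872) (nat_lit 152) (nat_lit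 9509389527) (nat_lit 11) (nat_lit 5) (nat_lit 12) (nat_lit 5) (nat_lit 13) (nat_lit 4) (nat_lit 310) (nat_lit 248) (nat_lit 162)) (XT.nd (nat_lit 78) (nat_lit 152) (nat_lit 0) (XT.lf (nat_lit 0) (nat_lit 45323592600) (nat_lit 152) (nat_lit 1648754937) (nat_lit 0) (nat_lit 3150764151) (nat_lit 11) (nat_lit 5) (nat_lit 13) (nat_lit 4) (nat_lit 11) (nat_lit 4) (nat_lit 311) (nat_lit 248) (nat_lit 161)) (XT.lf (nat_lit 0) (nat_lit 365599990) (nat_lit 152) (nat_lit 41452564216) (nat_lit 76) (nat_lit 10442345860) (nat_lit 9) (nat_lit 5) (nat_lit 11) (nat_lit 5) (nat_lit 10) (nat_lit 4) (nat_lit 312) (nat_lit 248) (nat_lit 160))))))))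
noncomputable def xc137 : XT := (XT.nd (nat_lit 1326) (nat_lit 152) (nat_lit 0) (XT.nd (nat_lit 624) (nat_lit 228) (nat_lit 0) (XT.nd (nat_lit 312) (nat_lit 0) (nat_lit 0) (XT.nd (nat_lit 156) (nat_lit 76) (nat_lit 0) (XT.nd (nat_lit 78) (nat_lit 0) (nat_lit 0) (XT.lf (nat_lit 0) (nat_lit 5646537222) (nat_lit 152) (nat_lit 30654467412) (nat_lit 76) (nat_lit 18198908012) (nat_lit 9) (nat_lit 5) (nat_lit 11) (nat_lit 5) (nat_lit 10) (nat_lit 4) (nat_lit 313) (nat_lit 248) (nat_lit 159)) (XT.lf (nat_lit 0) (nat_lit 11182452082) (nat_lit 152) (nat_lit 19332341496) (nat_lit 76) (nat_lit 26336955897) (nat_lit 9) (nat_lit 5) (nat_lit 11) (nat_lit 5) (nat_lit 10) (nat_lit 4) (nat_lit 314) (nat_lit 248) (nat_lit 158))) (XT.nd (nat_lit 78) (nat_lit 76) (nat_lit 0) (XT.lf (nat_lit 0) (nat_lit 16986525318) (nat_lit 152) (nat_lit 7459229023) (nat_lit 76) (nat_lit 34875865822) (nat_lit 9) (nat_lit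 5) (nat_lit 11) (nat_lit 5) (nat_lit 10) (nat_lit 4) (nat_lit 315) (nat_lit 248) (nat_lit 157)) (XT.lf (nat_lit 0) (nat_lit 5158235056) (nat_lit 76) (nat_lit 17994875603) (nat_lit 152) (nat_lit 38758267971) (nat_lit 8) (nat_lit 5) (nat_lit 9) (nat_lit 5) (nat_lit 10) (nat_lit 4) (nat_lit 316) (nat_lit 248) (nat_lit 156)))) (XT.nd (nat_lit 156) (nat_lit 0) (nat_lit 0) (XT.nd (nat_lit 78) (nat_lit 0) (nat_lit 0) (XT.lf (nat_lit 0) (nat_lit 18651372429) (nat_lit 76) (nat_lit 11094922950) (nat_lit 152) (nat_lit 34878425342) (nat_lit 8) (nat_lit 5) (nat_lit 9) (nat_lit 5) (nat_lit 10) (nat_lit 4) (nat_lit 317) (nat_lit 248) (nat_lit 155)) (XT.lf (nat_lit 0) (nat_lit 32805673816) (nat_lit 76) (nat_lit 3855793577) (nat_lit 152) (nat_lit 30812654888) (nat_lit 8) (nat_lit 5) (nat_lit 9) (nat_lit 5) (nat_lit 10) (nat_lit 4) (nat_lit 318) (nat_lit 248) (nat_lit 154))) (XT.nd (nat_lit 78) (nat_lit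 0) (nat_lit 0) (XT.lf (nat_lit 0) (nat_lit 43973479351) (nat_lit 152) (nat_lit 22869915623) (nat_lit 0) (nat_lit 3620053229) (nat_lit 8) (nat_lit 5) (nat_lit 10) (nat_lit 4) (nat_lit 8) (nat_lit 4) (nat_lit 319) (nat_lit 248) (nat_lit 153)) (XT.lf (nat_lit 0) (nat_lit 51707260527) (nat_lit 152) (nat_lit 10557177742) (nat_lit 0) (nat_lit 11335001673) (nat_lit 8) (nat_lit 5) (nat_lit 10) (nat_lit 4) (nat_lit 8) (nat_lit 4) (nat_lit 320) (nat_lit 248) (nat_lit 152))))) (XT.nd (nat_lit 312) (nat_lit 152) (nat_lit 0) (XT.nd (nat_lit 156) (nat_lit 0) (nat_lit 0) (XT.nd (nat_lit 78) (nat_lit 0) (nat_lit 0) (XT.lf (nat_lit 0) (nat_lit 2437289446) (nat_lit 76) (nat_lit 57421788416) (nat_lit 76) (nat_lit 17031593626) (nat_lit 7) (nat_lit 4) (nat_lit 8) (nat_lit 5) (nat_lit 8) (nat_lit 4) (nat_lit 321) (nat_lit 248) (nat_lit 151)) (XT.lf (nat_lit 0) (nat_lit 16436277493) (nat_lit 76) (nat_lit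 52154429948) (nat_lit 76) (nat_lit 11747153316) (nat_lit 7) (nat_lit 4) (nat_lit 8) (nat_lit 5) (nat_lit 8) (nat_lit 4) (nat_lit 322) (nat_lit 248) (nat_lit 150))) (XT.nd (nat_lit 78) (nat_lit 0) (nat_lit 0) (XT.lf (nat_lit 0) (nat_lit 31124049346) (nat_lit 76) (nat_lit 46628612450) (nat_lit 76) (nat_lit 6205067396) (nat_lit 7) (nat_lit 4) (nat_lit 8) (nat_lit 5) (nat_lit 8) (nat_lit 4) (nat_lit 323) (nat_lit 248) (nat_lit 149)) (XT.lf (nat_lit 0) (nat_lit 46535575893) (nat_lit 76) (nat_lit 40831179214) (nat_lit 76) (nat_lit 392140424) (nat_lit 7) (nat_lit 4) (nat_lit 8) (nat_lit 5) (nat_lit 8) (nat_lit 4) (nat_lit 324) (nat_lit 248) (nat_lit 148)))) (XT.nd (nat_lit 156) (nat_lit 76) (nat_lit 0) (XT.nd (nat_lit 78) (nat_lit 0) (nat_lit 0) (XT.lf (nat_lit 0) (nat_lit 5522857296) (nat_lit 152) (nat_lit 29131937269) (nat_lit 76) (nat_lit 57091161685) (nat_lit 6) (nat_lit 5) (nat_lit 8)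 (nat_lit 5) (nat_lit 7) (nat_lit 4) (nat_lit 325) (nat_lit 248) (nat_lit 147)) (XT.lf (nat_lit 0) (nat_lit 11714927292) (nat_lit 152) (nat_lit 16452247052) (nat_lit 76) (nat_lit 67765154844) (nat_lit 6) (nat_lit 5) (nat_lit 8) (nat_lit 5) (nat_lit 7) (nat_lit 4) (nat_lit 326) (nat_lit 248) (nat_lit 146))) (XT.nd (nat_lit 78) (nat_lit 76) (nat_lit 0) (XT.lf (nat_lit 0) (nat_lit 18211363530) (nat_lit 152) (nat_lit 3147936836) (nat_lit 76) (nat_lit 78968987653) (nat_lit 6) (nat_lit 5) (nat_lit 8) (nat_lit 5) (nat_lit 7) (nat_lit 4) (nat_lit 327) (nat_lit 248) (nat_lit 145)) (XT.nd (nat_lit 78) (nat_lit 0) (nat_lit 0) (XT.lf (nat_lit 0) (nat_lit 11170186017) (nat_lit 76) (nat_lit 14031845604) (nat_lit 152) (nat_lit 79733547793) (nat_lit 5) (nat_lit 5) (nat_lit 6) (nat_lit 5) (nat_lit 7) (nat_lit 4) (nat_lit 328) (nat_lit 248) (nat_lit 144)) (XT.lf (nat_lit 0) (nat_lit 26304729538) (nat_lit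 76) (nat_lit 6285928068) (nat_lit 152) (nat_lit 77180161433) (nat_lit 5) (nat_lit 5) (nat_lit 6) (nat_lit 5) (nat_lit 7) (nat_lit 4) (nat_lit 329) (nat_lit 248) (nat_lit 143))))))) (XT.nd (nat_lit 702) (nat_lit 76) (nat_lit 0) (XT.nd (nat_lit 312) (nat_lit 76) (nat_lit 0) (XT.nd (nat_lit 156) (nat_lit 0) (nat_lit 0) (XT.nd (nat_lit 78) (nat_lit 0) (nat_lit 0) (XT.lf (nat_lit 0) (nat_lit 40372843772) (nat_lit 152) (nat_lit 72689198179) (nat_lit 0) (nat_lit 1784576897) (nat_lit 5) (nat_lit 5) (nat_lit 7) (nat_lit 4) (nat_lit 5) (nat_lit 4) (nat_lit 330) (nat_lit 248) (nat_lit 142)) (XT.lf (nat_lit 0) (nat_lit 48642699231) (nat_lit 152) (nat_lit 61484640263) (nat_lit 0) (nat_lit 10043945586) (nat_lit 5) (nat_lit 5) (nat_lit 7) (nat_lit 4) (nat_lit 5) (nat_lit 4) (nat_lit 331) (nat_lit 248) (nat_lit 141))) (XT.nd (nat_lit 78) (nat_lit 0) (nat_lit 0) (XT.lf (nat_lit 0) (nat_lit 57321773160)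 (nat_lit 152) (nat_lit 49727597279) (nat_lit 0) (nat_lit 18713032115) (nat_lit 5) (nat_lit 5) (nat_lit 7) (nat_lit 4) (nat_lit 5) (nat_lit 4) (nat_lit 332) (nat_lit 248) (nat_lit 140)) (XT.lf (nat_lit 0) (nat_lit 66430730021) (nat_lit 152) (nat_lit 37390076269) (nat_lit 0) (nat_lit 27812477167) (nat_lit 5) (nat_lit 5) (nat_lit 7) (nat_lit 4) (nat_lit 5) (nat_lit 4) (nat_lit 333) (nat_lit 248) (nat_lit 139)))) (XT.nd (nat_lit 156) (nat_lit 76) (nat_lit 0) (XT.nd (nat_lit 78) (nat_lit 0) (nat_lit 0) (XT.lf (nat_lit 0) (nat_lit 75991257807) (nat_lit 152) (nat_lit 24442702182) (nat_lit 0) (nat_lit 37363946087) (nat_lit 5) (nat_lit 5) (nat_lit 7) (nat_lit 4) (nat_lit 5) (nat_lit 4) (nat_lit 334) (nat_lit 248) (nat_lit 138)) (XT.lf (nat_lit 0) (nat_lit 86026119680) (nat_lit 152) (nat_lit 10854647937) (nat_lit 0) (nat_lit 47390180468) (nat_lit 5) (nat_lit 5) (nat_lit 7) (nat_lit 4) (nat_lit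 5) (nat_lit 4) (nat_lit 335) (nat_lit 248) (nat_lit 137))) (XT.nd (nat_lit 78) (nat_lit 0) (nat_lit 0) (XT.lf (nat_lit 0) (nat_lit 3519071231) (nat_lit 76) (nat_lit 93095079500) (nat_lit 76) (nat_lit 54450923630) (nat_lit 4) (nat_lit 4) (nat_lit 5) (nat_lit 5) (nat_lit 5) (nat_lit 4) (nat_lit 336) (nat_lit 248) (nat_lit 136)) (XT.nd (nat_lit 78) (nat_lit 0) (nat_lit 0) (XT.lf (nat_lit 0) (nat_lit 18982057922) (nat_lit 76) (nat_lit 88929907250) (nat_lit 76) (nat_lit 50277925990) (nat_lit 4) (nat_lit 4) (nat_lit 5) (nat_lit 5) (nat_lit 5) (nat_lit 4) (nat_lit 337) (nat_lit 248) (nat_lit 135)) (XT.lf (nat_lit 0) (nat_lit 35212225090) (nat_lit 76) (nat_lit 84559162504) (nat_lit 76) (nat_lit 45899728493) (nat_lit 4) (nat_lit 4) (nat_lit 5) (nat_lit 5) (nat_lit 5) (nat_lit 4) (nat_lit 338) (nat_lit 248) (nat_lit 134)))))) (XT.nd (nat_lit 312) (nat_lit 76) (nat_lit 0) (XT.nd (nat_lit 156)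 (nat_lit 0) (nat_lit 0) (XT.nd (nat_lit 78) (nat_lit 0) (nat_lit 0) (XT.lf (nat_lit 0) (nat_lit 52248215988) (nat_lit 76) (nat_lit 79972438730) (nat_lit 76) (nat_lit 41305906860) (nat_lit 4) (nat_lit 4) (nat_lit 5) (nat_lit 5) (nat_lit 5) (nat_lit 4) (nat_lit 339) (nat_lit 248) (nat_lit 133)) (XT.lf (nat_lit 0) (nat_lit 70130592501) (nat_lit 76) (nat_lit 75158815154) (nat_lit 76) (nat_lit 36485523419) (nat_lit 4) (nat_lit 4) (nat_lit 5) (nat_lit 5) (nat_lit 5) (nat_lit 4) (nat_lit 340) (nat_lit 248) (nat_lit 132))) (XT.nd (nat_lit 78) (nat_lit 0) (nat_lit 0) (XT.lf (nat_lit 0) (nat_lit 88901931715) (nat_lit 76) (nat_lit 70106830770) (nat_lit 76) (nat_lit 31427101068) (nat_lit 4) (nat_lit 4) (nat_lit 5) (nat_lit 5) (nat_lit 5) (nat_lit 4) (nat_lit 341) (nat_lit 248) (nat_lit 131)) (XT.lf (nat_lit 0) (nat_lit 108606927294) (nat_lit 76) (nat_lit 64804457042) (nat_lit 76) (nat_lit 26118595943)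 (nat_lit 4) (nat_lit 4) (nat_lit 5) (nat_lit 5) (nat_lit 5) (nat_lit 4) (nat_lit 342) (nat_lit 248) (nat_lit 130)))) (XT.nd (nat_lit 156) (nat_lit 76) (nat_lit 0) (XT.nd (nat_lit 78) (nat_lit 0) (nat_lit 0) (XT.lf (nat_lit 0) (nat_lit 129292495896) (nat_lit 76) (nat_lit 59239069272) (nat_lit 76) (nat_lit 20547368746) (nat_lit 4) (nat_lit 4) (nat_lit 5) (nat_lit 5) (nat_lit 5) (nat_lit 4) (nat_lit 343) (nat_lit 248) (nat_lit 129)) (XT.lf (nat_lit 0) (nat_lit 151007888873) (nat_lit 76) (nat_lit 53397416535) (nat_lit 76) (nat_lit 14700154652) (nat_lit 4) (nat_lit 4) (nat_lit 5) (nat_lit 5) (nat_lit 5) (nat_lit 4) (nat_lit 344) (nat_lit 248) (nat_lit 128))) (XT.nd (nat_lit 78) (nat_lit 76) (nat_lit 0) (XT.lf (nat_lit 0) (nat_lit 173804809542) (nat_lit 76) (nat_lit 47265590136) (nat_lit 76) (nat_lit 8563031721) (nat_lit 4) (nat_lit 4) (nat_lit 5) (nat_lit 5) (nat_lit 5) (nat_lit 4) (nat_lit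 345) (nat_lit 248) (nat_lit 127)) (XT.nd (nat_lit 78) (nat_lit 76) (nat_lit 0) (XT.lf (nat_lit 0) (nat_lit 197737536287) (nat_lit 76) (nat_lit 40828990487) (nat_lit 76) (nat_lit 2121387757) (nat_lit 4) (nat_lit 4) (nat_lit 5) (nat_lit 5) (nat_lit 5) (nat_lit 4) (nat_lit 346) (nat_lit 248) (nat_lit 126)) (XT.lf (nat_lit 0) (nat_lit 4491601846) (nat_lit 152) (nat_lit 29504623054) (nat_lit 76) (nat_lit 218295382492) (nat_lit 3) (nat_lit 5) (nat_lit 5) (nat_lit 5) (nat_lit 4) (nat_lit 4) (nat_lit 347) (nat_lit 248) (nat_lit 125))))))))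
noncomputable def xc138 : XT := (XT.nd (nat_lit 30186) (nat_lit 0) (nat_lit 3572) (XT.nd (nat_lit 624) (nat_lit 0) (nat_lit 0) (XT.nd (nat_lit 312) (nat_lit 0) (nat_lit 0) (XT.nd (nat_lit 156) (nat_lit 76) (nat_lit 0) (XT.nd (nat_lit 78) (nat_lit 0) (nat_lit 0) (XT.lf (nat_lit 0) (nat_lit 11361898165) (nat_lit 152) (nat_lit 15425090943) (nat_lit 76) (nat_lit 237686861296) (nat_lit 3) (nat_lit 5) (nat_lit 5) (nat_lit 5) (nat_lit 4) (nat_lit 4) (nat_lit 348) (nat_lit 248) (nat_lit 124)) (XT.lf (nat_lit 0) (nat_lit 18573756703) (nat_lit 152) (nat_lit 645138410) (nat_lit 76) (nat_lit 258046409838) (nat_lit 3) (nat_lit 5) (nat_lit 5) (nat_lit 5) (nat_lit 4) (nat_lit 4) (nat_lit 349) (nat_lit 248) (nat_lit 123))) (XT.nd (nat_lit 78) (nat_lit 0) (nat_lit 0) (XT.lf (nat_lit 0) (nat_lit 15362108314) (nat_lit 76) (nat_lit 11022085801) (nat_lit 152) (nat_lit 264300240480) (nat_lit 2) (nat_lit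 5) (nat_lit 3) (nat_lit 5) (nat_lit 4) (nat_lit 4) (nat_lit 350) (nat_lit 248) (nat_lit 122)) (XT.lf (nat_lit 0) (nat_lit 32188782910) (nat_lit 76) (nat_lit 2405473132) (nat_lit 152) (nat_lit 270179811139) (nat_lit 2) (nat_lit 5) (nat_lit 3) (nat_lit 5) (nat_lit 4) (nat_lit 4) (nat_lit 351) (nat_lit 248) (nat_lit 121)))) (XT.nd (nat_lit 156) (nat_lit 0) (nat_lit 0) (XT.nd (nat_lit 78) (nat_lit 0) (nat_lit 0) (XT.lf (nat_lit 0) (nat_lit 43316762119) (nat_lit 152) (nat_lit 269818329352) (nat_lit 0) (nat_lit 6427994383) (nat_lit 2) (nat_lit 5) (nat_lit 4) (nat_lit 4) (nat_lit 2) (nat_lit 4) (nat_lit 352) (nat_lit 248) (nat_lit 120)) (XT.lf (nat_lit 0) (nat_lit 52513152521) (nat_lit 152) (nat_lit 266955545840) (nat_lit 0) (nat_lit 15620970593) (nat_lit 2) (nat_lit 5) (nat_lit 4) (nat_lit 4) (nat_lit 2) (nat_lit 4) (nat_lit 353) (nat_lit 248) (nat_lit 119))) (XT.nd (nat_lit 78) (nat_lit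 0) (nat_lit 0) (XT.lf (nat_lit 0) (nat_lit 62167767237) (nat_lit 152) (nat_lit 263952561406) (nat_lit 0) (nat_lit 25272333699) (nat_lit 2) (nat_lit 5) (nat_lit 4) (nat_lit 4) (nat_lit 2) (nat_lit 4) (nat_lit 354) (nat_lit 248) (nat_lit 118)) (XT.lf (nat_lit 0) (nat_lit 72303593446) (nat_lit 152) (nat_lit 260802226087) (nat_lit 0) (nat_lit 35405063136) (nat_lit 2) (nat_lit 5) (nat_lit 4) (nat_lit 4) (nat_lit 2) (nat_lit 4) (nat_lit 355) (nat_lit 248) (nat_lit 117))))) (XT.nd (nat_lit 29172) (nat_lit 0) (nat_lit 6764) (XT.nd (nat_lit 156) (nat_lit 0) (nat_lit 0) (XT.nd (nat_lit 78) (nat_lit 0) (nat_lit 0) (XT.lf (nat_lit 0) (nat_lit 82944764067) (nat_lit 152) (nat_lit 257497039085) (nat_lit 0) (nat_lit 46043284450) (nat_lit 2) (nat_lit 5) (nat_lit 4) (nat_lit 4) (nat_lit 2) (nat_lit 4) (nat_lit 356) (nat_lit 248) (nat_lit 116)) (XT.lf (nat_lit 0) (nat_lit 94116615222) (nat_lit 152) (nat_lit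 254029130907) (nat_lit 0) (nat_lit 57212326741) (nat_lit 2) (nat_lit 5) (nat_lit 4) (nat_lit 4) (nat_lit 2) (nat_lit 4) (nat_lit 357) (nat_lit 248) (nat_lit 115))) (XT.nd (nat_lit 78) (nat_lit 0) (nat_lit 0) (XT.lf (nat_lit 0) (nat_lit 105845746554) (nat_lit 152) (nat_lit 250390244628) (nat_lit 0) (nat_lit 68938782965) (nat_lit 2) (nat_lit 5) (nat_lit 4) (nat_lit 4) (nat_lit 2) (nat_lit 4) (nat_lit 358) (nat_lit 248) (nat_lit 114)) (XT.lf (nat_lit 0) (nat_lit 118160084568) (nat_lit 152) (nat_lit 246571716235) (nat_lit 0) (nat_lit 81250573257) (nat_lit 2) (nat_lit 5) (nat_lit 4) (nat_lit 4) (nat_lit 2) (nat_lit 4) (nat_lit 359) (nat_lit 248) (nat_lit 113)))) (XT.nd (nat_lit 156) (nat_lit 456) (nat_lit 0) (XT.nd (nat_lit 78) (nat_lit 0) (nat_lit 0) (XT.lf (nat_lit 0) (nat_lit 2108269330) (nat_lit 532) (nat_lit 798312628) (nat_lit 532) (nat_lit 798312628) (nat_lit 97) (nat_lit 3) (nat_lit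 104) (nat_lit 3) (nat_lit 104) (nat_lit 5) (nat_lit 249) (nat_lit 249) (nat_lit 222)) (XT.lf (nat_lit 76) (nat_lit 1701895053) (nat_lit 0) (nat_lit 3993124278) (nat_lit 532) (nat_lit 1825776261) (nat_lit 98) (nat_lit 5) (nat_lit 97) (nat_lit 3) (nat_lit 104) (nat_lit 5) (nat_lit 250) (nat_lit 249) (nat_lit 221))) (XT.nd (nat_lit 78) (nat_lit 456) (nat_lit 0) (XT.lf (nat_lit 76) (nat_lit 5173840642) (nat_lit 0) (nat_lit 2013697723) (nat_lit 532) (nat_lit 453165758) (nat_lit 98) (nat_lit 5) (nat_lit 97) (nat_lit 3) (nat_lit 104) (nat_lit 5) (nat_lit 251) (nat_lit 249) (nat_lit 220)) (XT.nd (nat_lit 78) (nat_lit 0) (nat_lit 0) (XT.lf (nat_lit 0) (nat_lit 890035225) (nat_lit 532) (nat_lit 6749430814) (nat_lit 608) (nat_lit 130015752) (nat_lit 91) (nat_lit 5) (nat_lit 98) (nat_lit 5) (nat_lit 99) (nat_lit 5) (nat_lit 252) (nat_lit 249) (nat_lit 219)) (XT.lf (nat_lit 0) (nat_lit 2279989114)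 (nat_lit 532) (nat_lit 3228723967) (nat_lit 608) (nat_lit 2396181533) (nat_lit 91) (nat_lit 5) (nat_lit 98) (nat_lit 5) (nat_lit 99) (nat_lit 5) (nat_lit 253) (nat_lit 249) (nat_lit 218))))))) (XT.nd (nat_lit 702) (nat_lit 2128) (nat_lit 0) (XT.nd (nat_lit 312) (nat_lit 1064) (nat_lit 0) (XT.nd (nat_lit 156) (nat_lit 0) (nat_lit 76) (XT.nd (nat_lit 78) (nat_lit 0) (nat_lit 0) (XT.lf (nat_lit 76) (nat_lit 432386500) (nat_lit 0) (nat_lit 3236993869) (nat_lit 608) (nat_lit 4381494846) (nat_lit 92) (nat_lit 5) (nat_lit 91) (nat_lit 5) (nat_lit 99) (nat_lit 5) (nat_lit 254) (nat_lit 249) (nat_lit 217)) (XT.lf (nat_lit 76) (nat_lit 4339973624) (nat_lit 0) (nat_lit 769034225) (nat_lit 608) (nat_lit 3096388780) (nat_lit 92) (nat_lit 5) (nat_lit 91) (nat_lit 5) (nat_lit 99) (nat_lit 5) (nat_lit 255) (nat_lit 249) (nat_lit 216))) (XT.nd (nat_lit 78) (nat_lit 0) (nat_lit 0) (XT.lf (nat_lit 0)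 (nat_lit 6579049930) (nat_lit 532) (nat_lit 3672471) (nat_lit 608) (nat_lit 1787266828) (nat_lit 92) (nat_lit 5) (nat_lit 99) (nat_lit 5) (nat_lit 100) (nat_lit 5) (nat_lit 256) (nat_lit 249) (nat_lit 215)) (XT.lf (nat_lit 76) (nat_lit 4122389354) (nat_lit 0) (nat_lit 4010489787) (nat_lit 608) (nat_lit 409672139) (nat_lit 93) (nat_lit 5) (nat_lit 92) (nat_lit 5) (nat_lit 100) (nat_lit 5) (nat_lit 257) (nat_lit 249) (nat_lit 214)))) (XT.nd (nat_lit 156) (nat_lit 532) (nat_lit 0) (XT.nd (nat_lit 78) (nat_lit 0) (nat_lit 76) (XT.lf (nat_lit 0) (nat_lit 941878810) (nat_lit 608) (nat_lit 334837840) (nat_lit 684) (nat_lit 7449716458) (nat_lit 84) (nat_lit 5) (nat_lit 92) (nat_lit 5) (nat_lit 93) (nat_lit 5) (nat_lit 258) (nat_lit 249) (nat_lit 213)) (XT.lf (nat_lit 0) (nat_lit 2373998490) (nat_lit 608) (nat_lit 4915981109) (nat_lit 76) (nat_lit 1628075166) (nat_lit 85) (nat_lit 5) (nat_lit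 93) (nat_lit 5) (nat_lit 86) (nat_lit 5) (nat_lit 259) (nat_lit 249) (nat_lit 212))) (XT.nd (nat_lit 78) (nat_lit 608) (nat_lit 0) (XT.lf (nat_lit 0) (nat_lit 3844459457) (nat_lit 608) (nat_lit 622571060) (nat_lit 76) (nat_lit 4654099249) (nat_lit 85) (nat_lit 5) (nat_lit 93) (nat_lit 5) (nat_lit 86) (nat_lit 5) (nat_lit 260) (nat_lit 249) (nat_lit 211)) (XT.nd (nat_lit 78) (nat_lit 0) (nat_lit 0) (XT.lf (nat_lit 0) (nat_lit 3964759026) (nat_lit 608) (nat_lit 1428482512) (nat_lit 684) (nat_lit 3941076149) (nat_lit 77) (nat_lit 5) (nat_lit 85) (nat_lit 5) (nat_lit 86) (nat_lit 5) (nat_lit 261) (nat_lit 249) (nat_lit 210)) (XT.lf (nat_lit 0) (nat_lit 7002701697) (nat_lit 684) (nat_lit 832203417) (nat_lit 76) (nat_lit 1724287534) (nat_lit 77) (nat_lit 5) (nat_lit 86) (nat_lit 5) (nat_lit 78) (nat_lit 5) (nat_lit 262) (nat_lit 249) (nat_lit 209)))))) (XT.nd (nat_lit 312) (nat_lit 1064)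 (nat_lit 0) (XT.nd (nat_lit 156) (nat_lit 304) (nat_lit 0) (XT.nd (nat_lit 78) (nat_lit 76) (nat_lit 0) (XT.lf (nat_lit 0) (nat_lit 3988690587) (nat_lit 684) (nat_lit 4737268032) (nat_lit 760) (nat_lit 1067867117) (nat_lit 68) (nat_lit 5) (nat_lit 77) (nat_lit 5) (nat_lit 78) (nat_lit 5) (nat_lit 263) (nat_lit 249) (nat_lit 208)) (XT.lf (nat_lit 0) (nat_lit 442061879) (nat_lit 760) (nat_lit 1016603492) (nat_lit 76) (nat_lit 8583166166) (nat_lit 67) (nat_lit 5) (nat_lit 77) (nat_lit 5) (nat_lit 68) (nat_lit 5) (nat_lit 264) (nat_lit 249) (nat_lit 207))) (XT.nd (nat_lit 78) (nat_lit 0) (nat_lit 0) (XT.lf (nat_lit 0) (nat_lit 2038472629) (nat_lit 380) (nat_lit 6255128421) (nat_lit 76) (nat_lit 2005573625) (nat_lit 63) (nat_lit 5) (nat_lit 68) (nat_lit 5) (nat_lit 64) (nat_lit 5) (nat_lit 265) (nat_lit 249) (nat_lit 206)) (XT.lf (nat_lit 0) (nat_lit 3708628705) (nat_lit 380) (nat_lit 1247861604)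 (nat_lit 76) (nat_lit 5613346972) (nat_lit 63) (nat_lit 5) (nat_lit 68) (nat_lit 5) (nat_lit 64) (nat_lit 5) (nat_lit 266) (nat_lit 249) (nat_lit 205)))) (XT.nd (nat_lit 156) (nat_lit 684) (nat_lit 0) (XT.nd (nat_lit 78) (nat_lit 0) (nat_lit 0) (XT.lf (nat_lit 0) (nat_lit 4094961124) (nat_lit 380) (nat_lit 1386039881) (nat_lit 456) (nat_lit 5372238071) (nat_lit 58) (nat_lit 5) (nat_lit 63) (nat_lit 5) (nat_lit 64) (nat_lit 5) (nat_lit 267) (nat_lit 249) (nat_lit 204)) (XT.lf (nat_lit 0) (nat_lit 7356565904) (nat_lit 456) (nat_lit 1486179120) (nat_lit 76) (nat_lit 2307471976) (nat_lit 58) (nat_lit 5) (nat_lit 64) (nat_lit 5) (nat_lit 59) (nat_lit 5) (nat_lit 268) (nat_lit 249) (nat_lit 203))) (XT.nd (nat_lit 78) (nat_lit 380) (nat_lit 0) (XT.lf (nat_lit 0) (nat_lit 4113277748) (nat_lit 304) (nat_lit 5257861052) (nat_lit 380) (nat_lit 2088771858) (nat_lit 54) (nat_lit 5) (nat_lit 58)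 (nat_lit 5) (nat_lit 59) (nat_lit 5) (nat_lit 269) (nat_lit 249) (nat_lit 202)) (XT.nd (nat_lit 78) (nat_lit 380) (nat_lit 0) (XT.lf (nat_lit 0) (nat_lit 9999857364) (nat_lit 304) (nat_lit 1471332477) (nat_lit 380) (nat_lit 314783895) (nat_lit 54) (nat_lit 5) (nat_lit 58) (nat_lit 5) (nat_lit 59) (nat_lit 5) (nat_lit 270) (nat_lit 249) (nat_lit 201)) (XT.lf (nat_lit 0) (nat_lit 1563870784) (nat_lit 380) (nat_lit 8050206666) (nat_lit 76) (nat_lit 2509889518) (nat_lit 49) (nat_lit 5) (nat_lit 54) (nat_lit 5) (nat_lit 50) (nat_lit 5) (nat_lit 271) (nat_lit 249) (nat_lit 200))))))))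
noncomputable def xc139 : XT := (XT.nd (nat_lit 1326) (nat_lit 988) (nat_lit 0) (XT.nd (nat_lit 624) (nat_lit 760) (nat_lit 0) (XT.nd (nat_lit 312) (nat_lit 532) (nat_lit 0) (XT.nd (nat_lit 156) (nat_lit 304) (nat_lit 0) (XT.nd (nat_lit 78) (nat_lit 228) (nat_lit 0) (XT.lf (nat_lit 0) (nat_lit 3542624291) (nat_lit 380) (nat_lit 2263446069) (nat_lit 76) (nat_lit 6671799812) (nat_lit 49) (nat_lit 5) (nat_lit 54) (nat_lit 5) (nat_lit 50) (nat_lit 5) (nat_lit 272) (nat_lit 249) (nat_lit 199)) (XT.lf (nat_lit 0) (nat_lit 3894478372) (nat_lit 228) (nat_lit 1750336122) (nat_lit 304) (nat_lit 7203529636) (nat_lit 46) (nat_lit 5) (nat_lit 49) (nat_lit 5) (nat_lit 50) (nat_lit 5) (nat_lit 273) (nat_lit 249) (nat_lit 198))) (XT.nd (nat_lit 78) (nat_lit 304) (nat_lit 0) (XT.lf (nat_lit 0) (nat_lit 7894893580) (nat_lit 304) (nat_lit 2880213475) (nat_lit 76) (nat_lit 2460191519) (nat_lit 46) (nat_lit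 5) (nat_lit 50) (nat_lit 5) (nat_lit 47) (nat_lit 5) (nat_lit 274) (nat_lit 249) (nat_lit 197)) (XT.lf (nat_lit 0) (nat_lit 3539936123) (nat_lit 304) (nat_lit 6767844400) (nat_lit 380) (nat_lit 3331396221) (nat_lit 42) (nat_lit 5) (nat_lit 46) (nat_lit 5) (nat_lit 47) (nat_lit 5) (nat_lit 275) (nat_lit 249) (nat_lit 196)))) (XT.nd (nat_lit 156) (nat_lit 228) (nat_lit 0) (XT.nd (nat_lit 78) (nat_lit 304) (nat_lit 0) (XT.lf (nat_lit 0) (nat_lit 10339970437) (nat_lit 304) (nat_lit 2517421556) (nat_lit 380) (nat_lit 1205139674) (nat_lit 42) (nat_lit 5) (nat_lit 46) (nat_lit 5) (nat_lit 47) (nat_lit 5) (nat_lit 276) (nat_lit 249) (nat_lit 195)) (XT.lf (nat_lit 0) (nat_lit 1041132307) (nat_lit 304) (nat_lit 11523780572) (nat_lit 76) (nat_lit 1939088847) (nat_lit 38) (nat_lit 5) (nat_lit 42) (nat_lit 5) (nat_lit 39) (nat_lit 5) (nat_lit 277) (nat_lit 249) (nat_lit 194))) (XT.nd (nat_lit 78)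 (nat_lit 228) (nat_lit 0) (XT.lf (nat_lit 0) (nat_lit 3433586989) (nat_lit 304) (nat_lit 4920187709) (nat_lit 76) (nat_lit 6609139312) (nat_lit 38) (nat_lit 5) (nat_lit 42) (nat_lit 5) (nat_lit 39) (nat_lit 5) (nat_lit 278) (nat_lit 249) (nat_lit 193)) (XT.lf (nat_lit 0) (nat_lit 2039709101) (nat_lit 228) (nat_lit 3908299561) (nat_lit 304) (nat_lit 9496717491) (nat_lit 35) (nat_lit 5) (nat_lit 38) (nat_lit 5) (nat_lit 39) (nat_lit 5) (nat_lit 279) (nat_lit 249) (nat_lit 192))))) (XT.nd (nat_lit 312) (nat_lit 532) (nat_lit 0) (XT.nd (nat_lit 156) (nat_lit 76) (nat_lit 0) (XT.nd (nat_lit 78) (nat_lit 152) (nat_lit 0) (XT.lf (nat_lit 0) (nat_lit 8655848827) (nat_lit 304) (nat_lit 6481144196) (nat_lit 76) (nat_lit 810319063) (nat_lit 35) (nat_lit 5) (nat_lit 39) (nat_lit 5) (nat_lit 36) (nat_lit 5) (nat_lit 280) (nat_lit 249) (nat_lit 191)) (XT.lf (nat_lit 0) (nat_lit 709584858) (nat_lit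 152) (nat_lit 10837167632) (nat_lit 228) (nat_lit 4925956064) (nat_lit 33) (nat_lit 5) (nat_lit 35) (nat_lit 5) (nat_lit 36) (nat_lit 5) (nat_lit 281) (nat_lit 249) (nat_lit 190))) (XT.nd (nat_lit 78) (nat_lit 76) (nat_lit 0) (XT.lf (nat_lit 0) (nat_lit 8447495500) (nat_lit 152) (nat_lit 6217714623) (nat_lit 228) (nat_lit 2355076007) (nat_lit 33) (nat_lit 5) (nat_lit 35) (nat_lit 5) (nat_lit 36) (nat_lit 5) (nat_lit 282) (nat_lit 249) (nat_lit 189)) (XT.lf (nat_lit 0) (nat_lit 307373580) (nat_lit 228) (nat_lit 1064817511) (nat_lit 76) (nat_lit 16224136329) (nat_lit 32) (nat_lit 5) (nat_lit 35) (nat_lit 5) (nat_lit 33) (nat_lit 5) (nat_lit 283) (nat_lit 249) (nat_lit 188)))) (XT.nd (nat_lit 156) (nat_lit 304) (nat_lit 0) (XT.nd (nat_lit 78) (nat_lit 0) (nat_lit 0) (XT.lf (nat_lit 0) (nat_lit 3168146273) (nat_lit 304) (nat_lit 11287150092) (nat_lit 76) (nat_lit 3736780011) (nat_lit 29)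 (nat_lit 5) (nat_lit 33) (nat_lit 5) (nat_lit 30) (nat_lit 5) (nat_lit 284) (nat_lit 249) (nat_lit 187)) (XT.lf (nat_lit 0) (nat_lit 6188548963) (nat_lit 304) (nat_lit 3564674299) (nat_lit 76) (nat_lit 9063610731) (nat_lit 29) (nat_lit 5) (nat_lit 33) (nat_lit 5) (nat_lit 30) (nat_lit 5) (nat_lit 285) (nat_lit 249) (nat_lit 186))) (XT.nd (nat_lit 78) (nat_lit 152) (nat_lit 0) (XT.lf (nat_lit 0) (nat_lit 4659439346) (nat_lit 152) (nat_lit 4750200871) (nat_lit 228) (nat_lit 10060754216) (nat_lit 27) (nat_lit 5) (nat_lit 29) (nat_lit 5) (nat_lit 30) (nat_lit 5) (nat_lit 286) (nat_lit 249) (nat_lit 185)) (XT.nd (nat_lit 78) (nat_lit 152) (nat_lit 0) (XT.lf (nat_lit 0) (nat_lit 12838336936) (nat_lit 228) (nat_lit 6778021353) (nat_lit 76) (nat_lit 537993124) (nat_lit 27) (nat_lit 5) (nat_lit 30) (nat_lit 5) (nat_lit 28) (nat_lit 5) (nat_lit 287) (nat_lit 249) (nat_lit 184)) (XT.lf (nat_lit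 0) (nat_lit 1597354558) (nat_lit 152) (nat_lit 14922343296) (nat_lit 228) (nat_lit 4348790786) (nat_lit 25) (nat_lit 5) (nat_lit 27) (nat_lit 5) (nat_lit 28) (nat_lit 5) (nat_lit 288) (nat_lit 249) (nat_lit 183))))))) (XT.nd (nat_lit 702) (nat_lit 456) (nat_lit 0) (XT.nd (nat_lit 312) (nat_lit 304) (nat_lit 0) (XT.nd (nat_lit 156) (nat_lit 152) (nat_lit 0) (XT.nd (nat_lit 78) (nat_lit 76) (nat_lit 0) (XT.lf (nat_lit 0) (nat_lit 10594882686) (nat_lit 152) (nat_lit 9883980372) (nat_lit 228) (nat_lit 1134824636) (nat_lit 25) (nat_lit 5) (nat_lit 27) (nat_lit 5) (nat_lit 28) (nat_lit 5) (nat_lit 289) (nat_lit 249) (nat_lit 182)) (XT.lf (nat_lit 0) (nat_lit 2147733432) (nat_lit 228) (nat_lit 2419956149) (nat_lit 76) (nat_lit 17827767383) (nat_lit 24) (nat_lit 5) (nat_lit 27) (nat_lit 5) (nat_lit 25) (nat_lit 5) (nat_lit 290) (nat_lit 249) (nat_lit 181))) (XT.nd (nat_lit 78) (nat_lit 0) (nat_lit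 0) (XT.lf (nat_lit 0) (nat_lit 5660370819) (nat_lit 228) (nat_lit 16451310539) (nat_lit 76) (nat_lit 1098534796) (nat_lit 22) (nat_lit 5) (nat_lit 25) (nat_lit 5) (nat_lit 23) (nat_lit 5) (nat_lit 291) (nat_lit 249) (nat_lit 180)) (XT.lf (nat_lit 0) (nat_lit 9446041436) (nat_lit 228) (nat_lit 7688480407) (nat_lit 76) (nat_lit 6926355765) (nat_lit 22) (nat_lit 5) (nat_lit 25) (nat_lit 5) (nat_lit 23) (nat_lit 5) (nat_lit 292) (nat_lit 249) (nat_lit 179)))) (XT.nd (nat_lit 156) (nat_lit 152) (nat_lit 0) (XT.nd (nat_lit 78) (nat_lit 0) (nat_lit 0) (XT.lf (nat_lit 0) (nat_lit 1532994602) (nat_lit 152) (nat_lit 11893712674) (nat_lit 228) (nat_lit 11527112008) (nat_lit 20) (nat_lit 5) (nat_lit 22) (nat_lit 5) (nat_lit 23) (nat_lit 5) (nat_lit 293) (nat_lit 249) (nat_lit 178)) (XT.lf (nat_lit 0) (nat_lit 11454368692) (nat_lit 152) (nat_lit 6264452212) (nat_lit 228) (nat_lit 8166997593) (nat_lit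 20) (nat_lit 5) (nat_lit 22) (nat_lit 5) (nat_lit 23) (nat_lit 5) (nat_lit 294) (nat_lit 249) (nat_lit 177))) (XT.nd (nat_lit 78) (nat_lit 152) (nat_lit 0) (XT.lf (nat_lit 0) (nat_lit 21845048294) (nat_lit 152) (nat_lit 363545590) (nat_lit 228) (nat_lit 4656700791) (nat_lit 20) (nat_lit 5) (nat_lit 22) (nat_lit 5) (nat_lit 23) (nat_lit 5) (nat_lit 295) (nat_lit 249) (nat_lit 176)) (XT.nd (nat_lit 78) (nat_lit 76) (nat_lit 0) (XT.lf (nat_lit 0) (nat_lit 4901146262) (nat_lit 76) (nat_lit 22173004760) (nat_lit 152) (nat_lit 812057144) (nat_lit 19) (nat_lit 5) (nat_lit 20) (nat_lit 5) (nat_lit 21) (nat_lit 4) (nat_lit 296) (nat_lit 249) (nat_lit 175)) (XT.lf (nat_lit 0) (nat_lit 3197779309) (nat_lit 152) (nat_lit 13545035215) (nat_lit 76) (nat_lit 12209052285) (nat_lit 18) (nat_lit 5) (nat_lit 20) (nat_lit 5) (nat_lit 19) (nat_lit 5) (nat_lit 297) (nat_lit 249) (nat_lit 174)))))) (XT.nd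 (nat_lit 312) (nat_lit 304) (nat_lit 0) (XT.nd (nat_lit 156) (nat_lit 0) (nat_lit 0) (XT.nd (nat_lit 78) (nat_lit 152) (nat_lit 0) (XT.lf (nat_lit 0) (nat_lit 7365389639) (nat_lit 152) (nat_lit 3671383469) (nat_lit 76) (nat_lit 19034165459) (nat_lit 18) (nat_lit 5) (nat_lit 20) (nat_lit 5) (nat_lit 19) (nat_lit 5) (nat_lit 298) (nat_lit 249) (nat_lit 173)) (XT.lf (nat_lit 0) (nat_lit 6892689630) (nat_lit 152) (nat_lit 4941612196) (nat_lit 228) (nat_lit 19407039281) (nat_lit 16) (nat_lit 5) (nat_lit 18) (nat_lit 5) (nat_lit 19) (nat_lit 5) (nat_lit 299) (nat_lit 249) (nat_lit 172))) (XT.nd (nat_lit 78) (nat_lit 0) (nat_lit 0) (XT.lf (nat_lit 0) (nat_lit 16598121477) (nat_lit 228) (nat_lit 14402596978) (nat_lit 76) (nat_lit 1465994384) (nat_lit 16) (nat_lit 5) (nat_lit 19) (nat_lit 5) (nat_lit 17) (nat_lit 4) (nat_lit 300) (nat_lit 249) (nat_lit 171)) (XT.lf (nat_lit 0) (nat_lit 21667330388)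 (nat_lit 228) (nat_lit 4063185998) (nat_lit 76) (nat_lit 8019497959) (nat_lit 16) (nat_lit 5) (nat_lit 19) (nat_lit 5) (nat_lit 17) (nat_lit 4) (nat_lit 301) (nat_lit 249) (nat_lit 170)))) (XT.nd (nat_lit 156) (nat_lit 228) (nat_lit 0) (XT.nd (nat_lit 78) (nat_lit 0) (nat_lit 0) (XT.lf (nat_lit 0) (nat_lit 6995242985) (nat_lit 76) (nat_lit 20090818051) (nat_lit 152) (nat_lit 8006636922) (nat_lit 15) (nat_lit 5) (nat_lit 16) (nat_lit 5) (nat_lit 17) (nat_lit 4) (nat_lit 302) (nat_lit 249) (nat_lit 169)) (XT.lf (nat_lit 0) (nat_lit 18726166376) (nat_lit 76) (nat_lit 14105510643) (nat_lit 152) (nat_lit 3668060430) (nat_lit 15) (nat_lit 5) (nat_lit 16) (nat_lit 5) (nat_lit 17) (nat_lit 4) (nat_lit 303) (nat_lit 249) (nat_lit 168))) (XT.nd (nat_lit 78) (nat_lit 152) (nat_lit 0) (XT.lf (nat_lit 0) (nat_lit 846571948) (nat_lit 152) (nat_lit 6968246400) (nat_lit 76) (nat_lit 30162258611) (nat_lit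 14) (nat_lit 5) (nat_lit 16) (nat_lit 5) (nat_lit 15) (nat_lit 5) (nat_lit 304) (nat_lit 249) (nat_lit 167)) (XT.nd (nat_lit 78) (nat_lit 0) (nat_lit 0) (XT.lf (nat_lit 0) (nat_lit 4439398052) (nat_lit 152) (nat_lit 1081703066) (nat_lit 228) (nat_lit 34001320450) (nat_lit 12) (nat_lit 5) (nat_lit 14) (nat_lit 5) (nat_lit 15) (nat_lit 5) (nat_lit 305) (nat_lit 249) (nat_lit 166)) (XT.lf (nat_lit 0) (nat_lit 10631052500) (nat_lit 228) (nat_lit 24595265411) (nat_lit 76) (nat_lit 5908646454) (nat_lit 12) (nat_lit 5) (nat_lit 15) (nat_lit 5) (nat_lit 13) (nat_lit 4) (nat_lit 306) (nat_lit 249) (nat_lit 165))))))))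
noncomputable def xc140 : XT := (XT.nd (nat_lit 1326) (nat_lit 228) (nat_lit 0) (XT.nd (nat_lit 624) (nat_lit 152) (nat_lit 0) (XT.nd (nat_lit 312) (nat_lit 152) (nat_lit 0) (XT.nd (nat_lit 156) (nat_lit 76) (nat_lit 0) (XT.nd (nat_lit 78) (nat_lit 0) (nat_lit 0) (XT.lf (nat_lit 0) (nat_lit 16003053341) (nat_lit 228) (nat_lit 13619951208) (nat_lit 76) (nat_lit 13204817155) (nat_lit 12) (nat_lit 5) (nat_lit 15) (nat_lit 5) (nat_lit 13) (nat_lit 4) (nat_lit 307) (nat_lit 249) (nat_lit 164)) (XT.lf (nat_lit 0) (nat_lit 21633005703) (nat_lit 228) (nat_lit 2114060792) (nat_lit 76) (nat_lit 20858802124) (nat_lit 12) (nat_lit 5) (nat_lit 15) (nat_lit 5) (nat_lit 13) (nat_lit 4) (nat_lit 308) (nat_lit 249) (nat_lit 163))) (XT.nd (nat_lit 78) (nat_lit 0) (nat_lit 0) (XT.lf (nat_lit 0) (nat_lit 10278786165) (nat_lit 76) (nat_lit 17416008727) (nat_lit 152) (nat_lit 18770519628) (nat_lit 11) (nat_lit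 5) (nat_lit 12) (nat_lit 5) (nat_lit 13) (nat_lit 4) (nat_lit 309) (nat_lit 249) (nat_lit 162)) (XT.lf (nat_lit 0) (nat_lit 23347626966) (nat_lit 76) (nat_lit 10737924591) (nat_lit 152) (nat_lit 14330900212) (nat_lit 11) (nat_lit 5) (nat_lit 12) (nat_lit 5) (nat_lit 13) (nat_lit 4) (nat_lit 310) (nat_lit 249) (nat_lit 161)))) (XT.nd (nat_lit 156) (nat_lit 152) (nat_lit 0) (XT.nd (nat_lit 78) (nat_lit 0) (nat_lit 0) (XT.lf (nat_lit 0) (nat_lit 37053677501) (nat_lit 76) (nat_lit 3732716530) (nat_lit 152) (nat_lit 9679236789) (nat_lit 11) (nat_lit 5) (nat_lit 12) (nat_lit 5) (nat_lit 13) (nat_lit 4) (nat_lit 311) (nat_lit 249) (nat_lit 160)) (XT.lf (nat_lit 0) (nat_lit 47869737193) (nat_lit 152) (nat_lit 1244619937) (nat_lit 0) (nat_lit 3500550514) (nat_lit 11) (nat_lit 5) (nat_lit 13) (nat_lit 4) (nat_lit 11) (nat_lit 4) (nat_lit 312) (nat_lit 249) (nat_lit 159))) (XT.nd (nat_lit 78)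 (nat_lit 0) (nat_lit 0) (XT.lf (nat_lit 0) (nat_lit 662814245) (nat_lit 152) (nat_lit 43036917019) (nat_lit 76) (nat_lit 11159529810) (nat_lit 9) (nat_lit 5) (nat_lit 11) (nat_lit 5) (nat_lit 10) (nat_lit 4) (nat_lit 313) (nat_lit 249) (nat_lit 158)) (XT.lf (nat_lit 0) (nat_lit 6194515756) (nat_lit 152) (nat_lit 31722166585) (nat_lit 76) (nat_lit 19294631181) (nat_lit 9) (nat_lit 5) (nat_lit 11) (nat_lit 5) (nat_lit 10) (nat_lit 4) (nat_lit 314) (nat_lit 249) (nat_lit 157))))) (XT.nd (nat_lit 312) (nat_lit 76) (nat_lit 0) (XT.nd (nat_lit 156) (nat_lit 76) (nat_lit 0) (XT.nd (nat_lit 78) (nat_lit 0) (nat_lit 0) (XT.lf (nat_lit 0) (nat_lit 11994576279) (nat_lit 152) (nat_lit 19856078382) (nat_lit 76) (nat_lit 27830734901) (nat_lit 9) (nat_lit 5) (nat_lit 11) (nat_lit 5) (nat_lit 10) (nat_lit 4) (nat_lit 315) (nat_lit 249) (nat_lit 156)) (XT.lf (nat_lit 0) (nat_lit 18076805482) (nat_lit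 152) (nat_lit 7410399818) (nat_lit 76) (nat_lit 36788165025) (nat_lit 9) (nat_lit 5) (nat_lit 11) (nat_lit 5) (nat_lit 10) (nat_lit 4) (nat_lit 316) (nat_lit 249) (nat_lit 155))) (XT.nd (nat_lit 78) (nat_lit 0) (nat_lit 0) (XT.lf (nat_lit 0) (nat_lit 5831134389) (nat_lit 76) (nat_lit 18715590824) (nat_lit 152) (nat_lit 40448154730) (nat_lit 8) (nat_lit 5) (nat_lit 9) (nat_lit 5) (nat_lit 10) (nat_lit 4) (nat_lit 317) (nat_lit 249) (nat_lit 154)) (XT.lf (nat_lit 0) (nat_lit 19979167318) (nat_lit 76) (nat_lit 11479165708) (nat_lit 152) (nat_lit 36386130761) (nat_lit 8) (nat_lit 5) (nat_lit 9) (nat_lit 5) (nat_lit 10) (nat_lit 4) (nat_lit 318) (nat_lit 249) (nat_lit 153)))) (XT.nd (nat_lit 156) (nat_lit 76) (nat_lit 0) (XT.nd (nat_lit 78) (nat_lit 0) (nat_lit 0) (XT.lf (nat_lit 0) (nat_lit 34822363476) (nat_lit 76) (nat_lit 3886199075) (nat_lit 152) (nat_lit 32128320159) (nat_lit 8) (nat_lit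 5) (nat_lit 9) (nat_lit 5) (nat_lit 10) (nat_lit 4) (nat_lit 319) (nat_lit 249) (nat_lit 152)) (XT.lf (nat_lit 0) (nat_lit 46378398138) (nat_lit 152) (nat_lit 23646919611) (nat_lit 0) (nat_lit 3950757674) (nat_lit 8) (nat_lit 5) (nat_lit 10) (nat_lit 4) (nat_lit 8) (nat_lit 4) (nat_lit 320) (nat_lit 249) (nat_lit 151))) (XT.nd (nat_lit 78) (nat_lit 76) (nat_lit 0) (XT.lf (nat_lit 0) (nat_lit 54489047191) (nat_lit 152) (nat_lit 10735996826) (nat_lit 0) (nat_lit 12044324884) (nat_lit 8) (nat_lit 5) (nat_lit 10) (nat_lit 4) (nat_lit 8) (nat_lit 4) (nat_lit 321) (nat_lit 249) (nat_lit 150)) (XT.nd (nat_lit 78) (nat_lit 0) (nat_lit 0) (XT.lf (nat_lit 0) (nat_lit 2902564047) (nat_lit 76) (nat_lit 60141899433) (nat_lit 76) (nat_lit 17680908705) (nat_lit 7) (nat_lit 4) (nat_lit 8) (nat_lit 5) (nat_lit 8) (nat_lit 4) (nat_lit 322) (nat_lit 249) (nat_lit 149)) (XT.lf (nat_lit 0) (nat_lit 17585148633)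 (nat_lit 76) (nat_lit 54618362490) (nat_lit 76) (nat_lit 12141878026) (nat_lit 7) (nat_lit 4) (nat_lit 8) (nat_lit 5) (nat_lit 8) (nat_lit 4) (nat_lit 323) (nat_lit 249) (nat_lit 148))))))) (XT.nd (nat_lit 702) (nat_lit 76) (nat_lit 0) (XT.nd (nat_lit 312) (nat_lit 76) (nat_lit 0) (XT.nd (nat_lit 156) (nat_lit 76) (nat_lit 0) (XT.nd (nat_lit 78) (nat_lit 0) (nat_lit 0) (XT.lf (nat_lit 0) (nat_lit 32991734923) (nat_lit 76) (nat_lit 48823101210) (nat_lit 76) (nat_lit 6331860808) (nat_lit 7) (nat_lit 4) (nat_lit 8) (nat_lit 5) (nat_lit 8) (nat_lit 4) (nat_lit 324) (nat_lit 249) (nat_lit 147)) (XT.lf (nat_lit 0) (nat_lit 49159005268) (nat_lit 76) (nat_lit 42742317353) (nat_lit 76) (nat_lit 237023676) (nat_lit 7) (nat_lit 4) (nat_lit 8) (nat_lit 5) (nat_lit 8) (nat_lit 4) (nat_lit 325) (nat_lit 249) (nat_lit 146))) (XT.nd (nat_lit 78) (nat_lit 0) (nat_lit 0) (XT.lf (nat_lit 0) (nat_lit 5960077797)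 (nat_lit 152) (nat_lit 30300518264) (nat_lit 76) (nat_lit 60064438569) (nat_lit 6) (nat_lit 5) (nat_lit 8) (nat_lit 5) (nat_lit 7) (nat_lit 4) (nat_lit 326) (nat_lit 249) (nat_lit 145)) (XT.lf (nat_lit 0) (nat_lit 12454080929) (nat_lit 152) (nat_lit 17000558577) (nat_lit 76) (nat_lit 71266478110) (nat_lit 6) (nat_lit 5) (nat_lit 8) (nat_lit 5) (nat_lit 7) (nat_lit 4) (nat_lit 327) (nat_lit 249) (nat_lit 144)))) (XT.nd (nat_lit 156) (nat_lit 0) (nat_lit 0) (XT.nd (nat_lit 78) (nat_lit 76) (nat_lit 0) (XT.lf (nat_lit 0) (nat_lit 19268033870) (nat_lit 152) (nat_lit 3044094794) (nat_lit 76) (nat_lit 83025118486) (nat_lit 6) (nat_lit 5) (nat_lit 8) (nat_lit 5) (nat_lit 7) (nat_lit 4) (nat_lit 328) (nat_lit 249) (nat_lit 143)) (XT.lf (nat_lit 0) (nat_lit 11985720671) (nat_lit 76) (nat_lit 14619570335) (nat_lit 152) (nat_lit 83569766478) (nat_lit 5) (nat_lit 5) (nat_lit 6) (nat_lit 5) (nat_lit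 7) (nat_lit 4) (nat_lit 329) (nat_lit 249) (nat_lit 142))) (XT.nd (nat_lit 78) (nat_lit 0) (nat_lit 0) (XT.lf (nat_lit 0) (nat_lit 27864752065) (nat_lit 76) (nat_lit 6491779186) (nat_lit 152) (nat_lit 80895875500) (nat_lit 5) (nat_lit 5) (nat_lit 6) (nat_lit 5) (nat_lit 7) (nat_lit 4) (nat_lit 330) (nat_lit 249) (nat_lit 141)) (XT.nd (nat_lit 78) (nat_lit 0) (nat_lit 0) (XT.lf (nat_lit 0) (nat_lit 42522946819) (nat_lit 152) (nat_lit 76085518894) (nat_lit 0) (nat_lit 1973781322) (nat_lit 5) (nat_lit 5) (nat_lit 7) (nat_lit 4) (nat_lit 5) (nat_lit 4) (nat_lit 331) (nat_lit 249) (nat_lit 140)) (XT.lf (nat_lit 0) (nat_lit 51200035009) (nat_lit 152) (nat_lit 64332073043) (nat_lit 0) (nat_lit 10641357703) (nat_lit 5) (nat_lit 5) (nat_lit 7) (nat_lit 4) (nat_lit 5) (nat_lit 4) (nat_lit 332) (nat_lit 249) (nat_lit 139)))))) (XT.nd (nat_lit 312) (nat_lit 76) (nat_lit 0) (XT.nd (nat_lit 156)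 (nat_lit 0) (nat_lit 0) (XT.nd (nat_lit 78) (nat_lit 0) (nat_lit 0) (XT.lf (nat_lit 0) (nat_lit 60307100691) (nat_lit 152) (nat_lit 51997977874) (nat_lit 0) (nat_lit 19739364518) (nat_lit 5) (nat_lit 5) (nat_lit 7) (nat_lit 4) (nat_lit 5) (nat_lit 4) (nat_lit 333) (nat_lit 249) (nat_lit 138)) (XT.lf (nat_lit 0) (nat_lit 69865827354) (nat_lit 152) (nat_lit 39053866492) (nat_lit 0) (nat_lit 29289463690) (nat_lit 5) (nat_lit 5) (nat_lit 7) (nat_lit 4) (nat_lit 5) (nat_lit 4) (nat_lit 334) (nat_lit 249) (nat_lit 137))) (XT.nd (nat_lit 78) (nat_lit 0) (nat_lit 0) (XT.lf (nat_lit 0) (nat_lit 79898973871) (nat_lit 152) (nat_lit 25468919586) (nat_lit 0) (nat_lit 39314393548) (nat_lit 5) (nat_lit 5) (nat_lit 7) (nat_lit 4) (nat_lit 5) (nat_lit 4) (nat_lit 335) (nat_lit 249) (nat_lit 136)) (XT.lf (nat_lit 0) (nat_lit 90430428686) (nat_lit 152) (nat_lit 11210792044) (nat_lit 0) (nat_lit 49838022974)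 (nat_lit 5) (nat_lit 5) (nat_lit 7) (nat_lit 4) (nat_lit 5) (nat_lit 4) (nat_lit 336) (nat_lit 249) (nat_lit 135)))) (XT.nd (nat_lit 156) (nat_lit 0) (nat_lit 0) (XT.nd (nat_lit 78) (nat_lit 0) (nat_lit 0) (XT.lf (nat_lit 0) (nat_lit 3878603594) (nat_lit 76) (nat_lit 97667218969) (nat_lit 76) (nat_lit 57067360506) (nat_lit 4) (nat_lit 4) (nat_lit 5) (nat_lit 5) (nat_lit 5) (nat_lit 4) (nat_lit 337) (nat_lit 249) (nat_lit 134)) (XT.lf (nat_lit 0) (nat_lit 20105997772) (nat_lit 76) (nat_lit 93297722130) (nat_lit 76) (nat_lit 52690765808) (nat_lit 4) (nat_lit 4) (nat_lit 5) (nat_lit 5) (nat_lit 5) (nat_lit 4) (nat_lit 338) (nat_lit 249) (nat_lit 133))) (XT.nd (nat_lit 78) (nat_lit 0) (nat_lit 0) (XT.lf (nat_lit 0) (nat_lit 37139347729) (nat_lit 76) (nat_lit 88712186837) (nat_lit 76) (nat_lit 48098470650) (nat_lit 4) (nat_lit 4) (nat_lit 5) (nat_lit 5) (nat_lit 5) (nat_lit 4) (nat_lit 339)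 (nat_lit 249) (nat_lit 132)) (XT.nd (nat_lit 78) (nat_lit 0) (nat_lit 0) (XT.lf (nat_lit 0) (nat_lit 55019209059) (nat_lit 76) (nat_lit 83899695150) (nat_lit 76) (nat_lit 43279540995) (nat_lit 4) (nat_lit 4) (nat_lit 5) (nat_lit 5) (nat_lit 5) (nat_lit 4) (nat_lit 340) (nat_lit 249) (nat_lit 131)) (XT.lf (nat_lit 0) (nat_lit 73788152861) (nat_lit 76) (nat_lit 78848788753) (nat_lit 76) (nat_lit 38222503202) (nat_lit 4) (nat_lit 4) (nat_lit 5) (nat_lit 5) (nat_lit 5) (nat_lit 4) (nat_lit 341) (nat_lit 249) (nat_lit 130))))))))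
noncomputable def xc141 : XT := (XT.nd (nat_lit 1326) (nat_lit 0) (nat_lit 0) (XT.nd (nat_lit 624) (nat_lit 76) (nat_lit 0) (XT.nd (nat_lit 312) (nat_lit 76) (nat_lit 0) (XT.nd (nat_lit 156) (nat_lit 0) (nat_lit 0) (XT.nd (nat_lit 78) (nat_lit 0) (nat_lit 0) (XT.lf (nat_lit 0) (nat_lit 93490867095) (nat_lit 76) (nat_lit 73547441681) (nat_lit 76) (nat_lit 32915316704) (nat_lit 4) (nat_lit 4) (nat_lit 5) (nat_lit 5) (nat_lit 5) (nat_lit 4) (nat_lit 342) (nat_lit 249) (nat_lit 129)) (XT.lf (nat_lit 0) (nat_lit 114174262987) (nat_lit 76) (nat_lit 67983031678) (nat_lit 76) (nat_lit 27345345342) (nat_lit 4) (nat_lit 4) (nat_lit 5) (nat_lit 5) (nat_lit 5) (nat_lit 4) (nat_lit 343) (nat_lit 249) (nat_lit 128))) (XT.nd (nat_lit 78) (nat_lit 0) (nat_lit 0) (XT.lf (nat_lit 0) (nat_lit 135887586717) (nat_lit 76) (nat_lit 62142310148) (nat_lit 76) (nat_lit 21499327281) (nat_lit 4) (nat_lit 4) (nat_lit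 5) (nat_lit 5) (nat_lit 5) (nat_lit 4) (nat_lit 344) (nat_lit 249) (nat_lit 127)) (XT.lf (nat_lit 0) (nat_lit 158682536675) (nat_lit 76) (nat_lit 56011370612) (nat_lit 76) (nat_lit 15363343430) (nat_lit 4) (nat_lit 4) (nat_lit 5) (nat_lit 5) (nat_lit 5) (nat_lit 4) (nat_lit 345) (nat_lit 249) (nat_lit 126)))) (XT.nd (nat_lit 156) (nat_lit 76) (nat_lit 0) (XT.nd (nat_lit 78) (nat_lit 0) (nat_lit 0) (XT.lf (nat_lit 0) (nat_lit 182613386552) (nat_lit 76) (nat_lit 49575615595) (nat_lit 76) (nat_lit 8922784303) (nat_lit 4) (nat_lit 4) (nat_lit 5) (nat_lit 5) (nat_lit 5) (nat_lit 4) (nat_lit 346) (nat_lit 249) (nat_lit 125)) (XT.lf (nat_lit 0) (nat_lit 207737114561) (nat_lit 76) (nat_lit 42819721871) (nat_lit 76) (nat_lit 2162315236) (nat_lit 4) (nat_lit 4) (nat_lit 5) (nat_lit 5) (nat_lit 5) (nat_lit 4) (nat_lit 347) (nat_lit 249) (nat_lit 124))) (XT.nd (nat_lit 78) (nat_lit 0) (nat_lit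 0) (XT.lf (nat_lit 0) (nat_lit 4776236187) (nat_lit 152) (nat_lit 30870479919) (nat_lit 76) (nat_lit 229256415043) (nat_lit 3) (nat_lit 5) (nat_lit 5) (nat_lit 5) (nat_lit 4) (nat_lit 4) (nat_lit 348) (nat_lit 249) (nat_lit 123)) (XT.lf (nat_lit 0) (nat_lit 11987187596) (nat_lit 152) (nat_lit 16092179503) (nat_lit 76) (nat_lit 249615264768) (nat_lit 3) (nat_lit 5) (nat_lit 5) (nat_lit 5) (nat_lit 4) (nat_lit 4) (nat_lit 349) (nat_lit 249) (nat_lit 122))))) (XT.nd (nat_lit 312) (nat_lit 0) (nat_lit 0) (XT.nd (nat_lit 156) (nat_lit 0) (nat_lit 0) (XT.nd (nat_lit 78) (nat_lit 76) (nat_lit 0) (XT.lf (nat_lit 0) (nat_lit 19556915512) (nat_lit 152) (nat_lit 578189628) (nat_lit 76) (nat_lit 270990692622) (nat_lit 3) (nat_lit 5) (nat_lit 5) (nat_lit 5) (nat_lit 4) (nat_lit 4) (nat_lit 350) (nat_lit 249) (nat_lit 121)) (XT.lf (nat_lit 0) (nat_lit 16227819340) (nat_lit 76) (nat_lit 11528985496)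 (nat_lit 152) (nat_lit 277459134879) (nat_lit 2) (nat_lit 5) (nat_lit 3) (nat_lit 5) (nat_lit 4) (nat_lit 4) (nat_lit 351) (nat_lit 249) (nat_lit 120))) (XT.nd (nat_lit 78) (nat_lit 0) (nat_lit 0) (XT.lf (nat_lit 0) (nat_lit 33891179779) (nat_lit 76) (nat_lit 2483647174) (nat_lit 152) (nat_lit 283635356338) (nat_lit 2) (nat_lit 5) (nat_lit 3) (nat_lit 5) (nat_lit 4) (nat_lit 4) (nat_lit 352) (nat_lit 249) (nat_lit 119)) (XT.lf (nat_lit 0) (nat_lit 45531662513) (nat_lit 152) (nat_lit 283218876601) (nat_lit 0) (nat_lit 6788205687) (nat_lit 2) (nat_lit 5) (nat_lit 4) (nat_lit 4) (nat_lit 2) (nat_lit 4) (nat_lit 353) (nat_lit 249) (nat_lit 118)))) (XT.nd (nat_lit 156) (nat_lit 0) (nat_lit 0) (XT.nd (nat_lit 78) (nat_lit 0) (nat_lit 0) (XT.lf (nat_lit 0) (nat_lit 55185536135) (nat_lit 152) (nat_lit 280217257209) (nat_lit 0) (nat_lit 16438982537) (nat_lit 2) (nat_lit 5) (nat_lit 4) (nat_lit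 4) (nat_lit 2) (nat_lit 4) (nat_lit 354) (nat_lit 249) (nat_lit 117)) (XT.lf (nat_lit 0) (nat_lit 65320656541) (nat_lit 152) (nat_lit 277068221931) (nat_lit 0) (nat_lit 26571153635) (nat_lit 2) (nat_lit 5) (nat_lit 4) (nat_lit 4) (nat_lit 2) (nat_lit 4) (nat_lit 355) (nat_lit 249) (nat_lit 116))) (XT.nd (nat_lit 78) (nat_lit 0) (nat_lit 0) (XT.lf (nat_lit 0) (nat_lit 75961154968) (nat_lit 152) (nat_lit 273764273063) (nat_lit 0) (nat_lit 37208843199) (nat_lit 2) (nat_lit 5) (nat_lit 4) (nat_lit 4) (nat_lit 2) (nat_lit 4) (nat_lit 356) (nat_lit 249) (nat_lit 115)) (XT.nd (nat_lit 78) (nat_lit 0) (nat_lit 0) (XT.lf (nat_lit 0) (nat_lit 87132365937) (nat_lit 152) (nat_lit 270297544059) (nat_lit 0) (nat_lit 48377379060) (nat_lit 2) (nat_lit 5) (nat_lit 4) (nat_lit 4) (nat_lit 2) (nat_lit 4) (nat_lit 357) (nat_lit 249) (nat_lit 114)) (XT.lf (nat_lit 0) (nat_lit 98860887569) (nat_lit 152)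 (nat_lit 266659780805) (nat_lit 0) (nat_lit 60103352970) (nat_lit 2) (nat_lit 5) (nat_lit 4) (nat_lit 4) (nat_lit 2) (nat_lit 4) (nat_lit 358) (nat_lit 249) (nat_lit 113))))))) (XT.nd (nat_lit 29640) (nat_lit 0) (nat_lit 4636) (XT.nd (nat_lit 29250) (nat_lit 0) (nat_lit 6232) (XT.nd (nat_lit 29094) (nat_lit 0) (nat_lit 6688) (XT.nd (nat_lit 29016) (nat_lit 0) (nat_lit 7220) (XT.lf (nat_lit 0) (nat_lit 111174644917) (nat_lit 152) (nat_lit 262842321957) (nat_lit 0) (nat_lit 72414683915) (nat_lit 2) (nat_lit 5) (nat_lit 4) (nat_lit 4) (nat_lit 2) (nat_lit 4) (nat_lit 359) (nat_lit 249) (nat_lit 112)) (XT.lf (nat_lit 0) (nat_lit 3539156076) (nat_lit 532) (nat_lit 139605911) (nat_lit 532) (nat_lit 139605911) (nat_lit 97) (nat_lit 3) (nat_lit 104) (nat_lit 3) (nat_lit 104) (nat_lit 5) (nat_lit 250) (nat_lit 250) (nat_lit 220))) (XT.nd (nat_lit 78) (nat_lit 0) (nat_lit 0) (XT.lf (nat_lit 0)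 (nat_lit 742344342) (nat_lit 532) (nat_lit 4609329759) (nat_lit 608) (nat_lit 2406781993) (nat_lit 90) (nat_lit 5) (nat_lit 97) (nat_lit 3) (nat_lit 98) (nat_lit 5) (nat_lit 251) (nat_lit 250) (nat_lit 219)) (XT.lf (nat_lit 0) (nat_lit 2013739925) (nat_lit 532) (nat_lit 1182220519) (nat_lit 608) (nat_lit 4693935271) (nat_lit 90) (nat_lit 5) (nat_lit 97) (nat_lit 3) (nat_lit 98) (nat_lit 5) (nat_lit 252) (nat_lit 250) (nat_lit 218)))) (XT.nd (nat_lit 156) (nat_lit 456) (nat_lit 0) (XT.nd (nat_lit 78) (nat_lit 0) (nat_lit 76) (XT.lf (nat_lit 76) (nat_lit 2451333058) (nat_lit 0) (nat_lit 859025156) (nat_lit 608) (nat_lit 4719760577) (nat_lit 91) (nat_lit 5) (nat_lit 90) (nat_lit 5) (nat_lit 98) (nat_lit 5) (nat_lit 253) (nat_lit 250) (nat_lit 217)) (XT.lf (nat_lit 0) (nat_lit 4643902319) (nat_lit 532) (nat_lit 1941085488) (nat_lit 608) (nat_lit 1594040584) (nat_lit 91) (nat_lit 5) (nat_lit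 98) (nat_lit 5) (nat_lit 99) (nat_lit 5) (nat_lit 254) (nat_lit 250) (nat_lit 216))) (XT.nd (nat_lit 78) (nat_lit 532) (nat_lit 0) (XT.lf (nat_lit 76) (nat_lit 1879708330) (nat_lit 0) (nat_lit 4138175268) (nat_lit 608) (nat_lit 2319078651) (nat_lit 92) (nat_lit 5) (nat_lit 91) (nat_lit 5) (nat_lit 99) (nat_lit 5) (nat_lit 255) (nat_lit 250) (nat_lit 215)) (XT.nd (nat_lit 78) (nat_lit 532) (nat_lit 0) (XT.lf (nat_lit 76) (nat_lit 5914784215) (nat_lit 0) (nat_lit 1511611371) (nat_lit 608) (nat_lit 1078359707) (nat_lit 92) (nat_lit 5) (nat_lit 91) (nat_lit 5) (nat_lit 99) (nat_lit 5) (nat_lit 256) (nat_lit 250) (nat_lit 214)) (XT.lf (nat_lit 0) (nat_lit 195245296) (nat_lit 608) (nat_lit 7233531776) (nat_lit 684) (nat_lit 1253314588) (nat_lit 84) (nat_lit 5) (nat_lit 92) (nat_lit 5) (nat_lit 93) (nat_lit 5) (nat_lit 257) (nat_lit 250) (nat_lit 213)))))) (XT.nd (nat_lit 312) (nat_lit 1064)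 (nat_lit 0) (XT.nd (nat_lit 156) (nat_lit 532) (nat_lit 0) (XT.nd (nat_lit 78) (nat_lit 0) (nat_lit 0) (XT.lf (nat_lit 0) (nat_lit 1503238087) (nat_lit 608) (nat_lit 3177708429) (nat_lit 684) (nat_lit 4186336532) (nat_lit 84) (nat_lit 5) (nat_lit 92) (nat_lit 5) (nat_lit 93) (nat_lit 5) (nat_lit 258) (nat_lit 250) (nat_lit 212)) (XT.lf (nat_lit 76) (nat_lit 1070045213) (nat_lit 0) (nat_lit 1763849336) (nat_lit 684) (nat_lit 6230185281) (nat_lit 85) (nat_lit 5) (nat_lit 84) (nat_lit 5) (nat_lit 93) (nat_lit 5) (nat_lit 259) (nat_lit 250) (nat_lit 211))) (XT.nd (nat_lit 78) (nat_lit 608) (nat_lit 0) (XT.lf (nat_lit 0) (nat_lit 4248961796) (nat_lit 608) (nat_lit 3696328626) (nat_lit 76) (nat_lit 1324731204) (nat_lit 85) (nat_lit 5) (nat_lit 93) (nat_lit 5) (nat_lit 86) (nat_lit 5) (nat_lit 260) (nat_lit 250) (nat_lit 210)) (XT.lf (nat_lit 0) (nat_lit 766501347) (nat_lit 608) (nat_lit 4954780108)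 (nat_lit 684) (nat_lit 3765843697) (nat_lit 77) (nat_lit 5) (nat_lit 85) (nat_lit 5) (nat_lit 86) (nat_lit 5) (nat_lit 261) (nat_lit 250) (nat_lit 209)))) (XT.nd (nat_lit 156) (nat_lit 380) (nat_lit 0) (XT.nd (nat_lit 78) (nat_lit 684) (nat_lit 0) (XT.lf (nat_lit 0) (nat_lit 5536154333) (nat_lit 608) (nat_lit 1741170776) (nat_lit 684) (nat_lit 2437433911) (nat_lit 77) (nat_lit 5) (nat_lit 85) (nat_lit 5) (nat_lit 86) (nat_lit 5) (nat_lit 262) (nat_lit 250) (nat_lit 208)) (XT.lf (nat_lit 0) (nat_lit 536892925) (nat_lit 684) (nat_lit 8358283103) (nat_lit 760) (nat_lit 1059570266) (nat_lit 68) (nat_lit 5) (nat_lit 77) (nat_lit 5) (nat_lit 78) (nat_lit 5) (nat_lit 263) (nat_lit 250) (nat_lit 207))) (XT.nd (nat_lit 78) (nat_lit 304) (nat_lit 0) (XT.lf (nat_lit 0) (nat_lit 426120247) (nat_lit 760) (nat_lit 4652065372) (nat_lit 76) (nat_lit 5125834732) (nat_lit 67) (nat_lit 5) (nat_lit 77)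 (nat_lit 5) (nat_lit 68) (nat_lit 5) (nat_lit 264) (nat_lit 250) (nat_lit 206)) (XT.nd (nat_lit 78) (nat_lit 0) (nat_lit 0) (XT.lf (nat_lit 0) (nat_lit 300095565) (nat_lit 304) (nat_lit 1608272248) (nat_lit 380) (nat_lit 8558776299) (nat_lit 63) (nat_lit 5) (nat_lit 67) (nat_lit 5) (nat_lit 68) (nat_lit 5) (nat_lit 265) (nat_lit 250) (nat_lit 205)) (XT.lf (nat_lit 0) (nat_lit 3531353082) (nat_lit 380) (nat_lit 5157048561) (nat_lit 76) (nat_lit 2051832629) (nat_lit 63) (nat_lit 5) (nat_lit 68) (nat_lit 5) (nat_lit 64) (nat_lit 5) (nat_lit 266) (nat_lit 250) (nat_lit 204))))))))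
noncomputable def xc142 : XT := (XT.nd (nat_lit 1326) (nat_lit 1292) (nat_lit 0) (XT.nd (nat_lit 624) (nat_lit 988) (nat_lit 0) (XT.nd (nat_lit 312) (nat_lit 608) (nat_lit 0) (XT.nd (nat_lit 156) (nat_lit 304) (nat_lit 0) (XT.nd (nat_lit 78) (nat_lit 0) (nat_lit 0) (XT.lf (nat_lit 0) (nat_lit 34503234) (nat_lit 380) (nat_lit 5184816381) (nat_lit 456) (nat_lit 5808602467) (nat_lit 58) (nat_lit 5) (nat_lit 63) (nat_lit 5) (nat_lit 64) (nat_lit 5) (nat_lit 267) (nat_lit 250) (nat_lit 203)) (XT.lf (nat_lit 0) (nat_lit 5621690948) (nat_lit 380) (nat_lit 1415638787) (nat_lit 456) (nat_lit 4290510607) (nat_lit 58) (nat_lit 5) (nat_lit 63) (nat_lit 5) (nat_lit 64) (nat_lit 5) (nat_lit 268) (nat_lit 250) (nat_lit 202))) (XT.nd (nat_lit 78) (nat_lit 304) (nat_lit 0) (XT.lf (nat_lit 0) (nat_lit 8946202349) (nat_lit 456) (nat_lit 237228477) (nat_lit 76) (nat_lit 2459447804) (nat_lit 58) (nat_lit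 5) (nat_lit 64) (nat_lit 5) (nat_lit 59) (nat_lit 5) (nat_lit 269) (nat_lit 250) (nat_lit 201)) (XT.lf (nat_lit 0) (nat_lit 5620858337) (nat_lit 304) (nat_lit 5402790780) (nat_lit 380) (nat_lit 946479583) (nat_lit 54) (nat_lit 5) (nat_lit 58) (nat_lit 5) (nat_lit 59) (nat_lit 5) (nat_lit 270) (nat_lit 250) (nat_lit 200)))) (XT.nd (nat_lit 156) (nat_lit 228) (nat_lit 0) (XT.nd (nat_lit 78) (nat_lit 304) (nat_lit 0) (XT.lf (nat_lit 0) (nat_lit 829415421) (nat_lit 380) (nat_lit 589091105) (nat_lit 76) (nat_lit 10896308927) (nat_lit 53) (nat_lit 5) (nat_lit 58) (nat_lit 5) (nat_lit 54) (nat_lit 5) (nat_lit 271) (nat_lit 250) (nat_lit 199)) (XT.lf (nat_lit 0) (nat_lit 2758655224) (nat_lit 380) (nat_lit 7135685114) (nat_lit 76) (nat_lit 2776903050) (nat_lit 49) (nat_lit 5) (nat_lit 54) (nat_lit 5) (nat_lit 50) (nat_lit 5) (nat_lit 272) (nat_lit 250) (nat_lit 198))) (XT.nd (nat_lit 78) (nat_lit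 228) (nat_lit 0) (XT.lf (nat_lit 0) (nat_lit 4783175411) (nat_lit 380) (nat_lit 1122302291) (nat_lit 76) (nat_lit 7140169856) (nat_lit 49) (nat_lit 5) (nat_lit 54) (nat_lit 5) (nat_lit 50) (nat_lit 5) (nat_lit 273) (nat_lit 250) (nat_lit 197)) (XT.lf (nat_lit 0) (nat_lit 5323287468) (nat_lit 228) (nat_lit 1635816141) (nat_lit 304) (nat_lit 6477250425) (nat_lit 46) (nat_lit 5) (nat_lit 49) (nat_lit 5) (nat_lit 50) (nat_lit 5) (nat_lit 274) (nat_lit 250) (nat_lit 196))))) (XT.nd (nat_lit 312) (nat_lit 380) (nat_lit 0) (XT.nd (nat_lit 156) (nat_lit 304) (nat_lit 0) (XT.nd (nat_lit 78) (nat_lit 304) (nat_lit 0) (XT.lf (nat_lit 0) (nat_lit 9275545641) (nat_lit 304) (nat_lit 1800092607) (nat_lit 76) (nat_lit 2769458569) (nat_lit 46) (nat_lit 5) (nat_lit 50) (nat_lit 5) (nat_lit 47) (nat_lit 5) (nat_lit 275) (nat_lit 250) (nat_lit 195)) (XT.lf (nat_lit 0) (nat_lit 4921320414) (nat_lit 304)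 (nat_lit 6859612409) (nat_lit 380) (nat_lit 2489770482) (nat_lit 42) (nat_lit 5) (nat_lit 46) (nat_lit 5) (nat_lit 47) (nat_lit 5) (nat_lit 276) (nat_lit 250) (nat_lit 194))) (XT.nd (nat_lit 78) (nat_lit 304) (nat_lit 0) (XT.lf (nat_lit 0) (nat_lit 12004004659) (nat_lit 304) (nat_lit 2408412434) (nat_lit 380) (nat_lit 305210419) (nat_lit 42) (nat_lit 5) (nat_lit 46) (nat_lit 5) (nat_lit 47) (nat_lit 5) (nat_lit 277) (nat_lit 250) (nat_lit 193)) (XT.lf (nat_lit 0) (nat_lit 2000534326) (nat_lit 304) (nat_lit 10895587781) (nat_lit 76) (nat_lit 2285514735) (nat_lit 38) (nat_lit 5) (nat_lit 42) (nat_lit 5) (nat_lit 39) (nat_lit 5) (nat_lit 278) (nat_lit 250) (nat_lit 192)))) (XT.nd (nat_lit 156) (nat_lit 152) (nat_lit 0) (XT.nd (nat_lit 78) (nat_lit 228) (nat_lit 0) (XT.lf (nat_lit 0) (nat_lit 4469404819) (nat_lit 304) (nat_lit 4019166791) (nat_lit 76) (nat_lit 7177188131) (nat_lit 38) (nat_lit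 5) (nat_lit 42) (nat_lit 5) (nat_lit 39) (nat_lit 5) (nat_lit 279) (nat_lit 250) (nat_lit 191)) (XT.lf (nat_lit 0) (nat_lit 3270224372) (nat_lit 228) (nat_lit 3815793266) (nat_lit 304) (nat_lit 9086921019) (nat_lit 35) (nat_lit 5) (nat_lit 38) (nat_lit 5) (nat_lit 39) (nat_lit 5) (nat_lit 280) (nat_lit 250) (nat_lit 190))) (XT.nd (nat_lit 78) (nat_lit 152) (nat_lit 0) (XT.lf (nat_lit 0) (nat_lit 9893502030) (nat_lit 304) (nat_lit 5692764870) (nat_lit 76) (nat_lit 1116269297) (nat_lit 35) (nat_lit 5) (nat_lit 39) (nat_lit 5) (nat_lit 36) (nat_lit 5) (nat_lit 281) (nat_lit 250) (nat_lit 189)) (XT.nd (nat_lit 78) (nat_lit 0) (nat_lit 0) (XT.lf (nat_lit 0) (nat_lit 1839558112) (nat_lit 152) (nat_lit 11068154179) (nat_lit 228) (nat_lit 4347642528) (nat_lit 33) (nat_lit 5) (nat_lit 35) (nat_lit 5) (nat_lit 36) (nat_lit 5) (nat_lit 282) (nat_lit 250) (nat_lit 188)) (XT.lf (nat_lit 0) (nat_lit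 9912245524) (nat_lit 152) (nat_lit 6232531941) (nat_lit 228) (nat_lit 1687485675) (nat_lit 33) (nat_lit 5) (nat_lit 35) (nat_lit 5) (nat_lit 36) (nat_lit 5) (nat_lit 283) (nat_lit 250) (nat_lit 187))))))) (XT.nd (nat_lit 702) (nat_lit 456) (nat_lit 0) (XT.nd (nat_lit 312) (nat_lit 380) (nat_lit 0) (XT.nd (nat_lit 156) (nat_lit 152) (nat_lit 0) (XT.nd (nat_lit 78) (nat_lit 228) (nat_lit 0) (XT.lf (nat_lit 0) (nat_lit 1046750084) (nat_lit 228) (nat_lit 99819222) (nat_lit 76) (nat_lit 17291812231) (nat_lit 32) (nat_lit 5) (nat_lit 35) (nat_lit 5) (nat_lit 33) (nat_lit 5) (nat_lit 284) (nat_lit 250) (nat_lit 186)) (XT.lf (nat_lit 0) (nat_lit 4036357440) (nat_lit 304) (nat_lit 10817576971) (nat_lit 76) (nat_lit 4210768102) (nat_lit 29) (nat_lit 5) (nat_lit 33) (nat_lit 5) (nat_lit 30) (nat_lit 5) (nat_lit 285) (nat_lit 250) (nat_lit 185))) (XT.nd (nat_lit 78) (nat_lit 152) (nat_lit 0) (XT.lf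 (nat_lit 0) (nat_lit 7173980081) (nat_lit 304) (nat_lit 2758212180) (nat_lit 76) (nat_lit 9790266592) (nat_lit 29) (nat_lit 5) (nat_lit 33) (nat_lit 5) (nat_lit 30) (nat_lit 5) (nat_lit 286) (nat_lit 250) (nat_lit 184)) (XT.lf (nat_lit 0) (nat_lit 5861224956) (nat_lit 152) (nat_lit 4677836187) (nat_lit 228) (nat_lit 9870556870) (nat_lit 27) (nat_lit 5) (nat_lit 29) (nat_lit 5) (nat_lit 30) (nat_lit 5) (nat_lit 287) (nat_lit 250) (nat_lit 183)))) (XT.nd (nat_lit 156) (nat_lit 228) (nat_lit 0) (XT.nd (nat_lit 78) (nat_lit 152) (nat_lit 0) (XT.lf (nat_lit 0) (nat_lit 14112422285) (nat_lit 228) (nat_lit 6166187399) (nat_lit 76) (nat_lit 850565925) (nat_lit 27) (nat_lit 5) (nat_lit 30) (nat_lit 5) (nat_lit 28) (nat_lit 5) (nat_lit 288) (nat_lit 250) (nat_lit 182)) (XT.lf (nat_lit 0) (nat_lit 2612622871) (nat_lit 152) (nat_lit 15349729340) (nat_lit 228) (nat_lit 3917503626) (nat_lit 25) (nat_lit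 5) (nat_lit 27) (nat_lit 5) (nat_lit 28) (nat_lit 5) (nat_lit 289) (nat_lit 250) (nat_lit 181))) (XT.nd (nat_lit 78) (nat_lit 228) (nat_lit 0) (XT.lf (nat_lit 0) (nat_lit 12015484521) (nat_lit 152) (nat_lit 10074625942) (nat_lit 228) (nat_lit 573730916) (nat_lit 25) (nat_lit 5) (nat_lit 27) (nat_lit 5) (nat_lit 28) (nat_lit 5) (nat_lit 290) (nat_lit 250) (nat_lit 180)) (XT.nd (nat_lit 78) (nat_lit 152) (nat_lit 0) (XT.lf (nat_lit 0) (nat_lit 2824701413) (nat_lit 228) (nat_lit 1672627990) (nat_lit 76) (nat_lit 18988364213) (nat_lit 24) (nat_lit 5) (nat_lit 27) (nat_lit 5) (nat_lit 25) (nat_lit 5) (nat_lit 291) (nat_lit 250) (nat_lit 179)) (XT.lf (nat_lit 0) (nat_lit 6503846886) (nat_lit 228) (nat_lit 16395419525) (nat_lit 76) (nat_lit 1442430883) (nat_lit 22) (nat_lit 5) (nat_lit 25) (nat_lit 5) (nat_lit 23) (nat_lit 5) (nat_lit 292) (nat_lit 250) (nat_lit 178)))))) (XT.nd (nat_lit 312)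 (nat_lit 304) (nat_lit 0) (XT.nd (nat_lit 156) (nat_lit 0) (nat_lit 0) (XT.nd (nat_lit 78) (nat_lit 152) (nat_lit 0) (XT.lf (nat_lit 0) (nat_lit 10452112580) (nat_lit 228) (nat_lit 7236279150) (nat_lit 76) (nat_lit 7547882456) (nat_lit 22) (nat_lit 5) (nat_lit 25) (nat_lit 5) (nat_lit 23) (nat_lit 5) (nat_lit 293) (nat_lit 250) (nat_lit 177)) (XT.lf (nat_lit 0) (nat_lit 2432775654) (nat_lit 152) (nat_lit 12186469871) (nat_lit 228) (nat_lit 11555291390) (nat_lit 20) (nat_lit 5) (nat_lit 22) (nat_lit 5) (nat_lit 23) (nat_lit 5) (nat_lit 294) (nat_lit 250) (nat_lit 176))) (XT.nd (nat_lit 78) (nat_lit 0) (nat_lit 0) (XT.lf (nat_lit 0) (nat_lit 12811021718) (nat_lit 152) (nat_lit 6290123930) (nat_lit 228) (nat_lit 8053274883) (nat_lit 20) (nat_lit 5) (nat_lit 22) (nat_lit 5) (nat_lit 23) (nat_lit 5) (nat_lit 295) (nat_lit 250) (nat_lit 175)) (XT.lf (nat_lit 0) (nat_lit 23683905082) (nat_lit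 152) (nat_lit 107864877) (nat_lit 228) (nat_lit 4392323842) (nat_lit 20) (nat_lit 5) (nat_lit 22) (nat_lit 5) (nat_lit 23) (nat_lit 5) (nat_lit 296) (nat_lit 250) (nat_lit 174)))) (XT.nd (nat_lit 156) (nat_lit 152) (nat_lit 0) (XT.nd (nat_lit 78) (nat_lit 76) (nat_lit 0) (XT.lf (nat_lit 0) (nat_lit 5900630216) (nat_lit 76) (nat_lit 22993313806) (nat_lit 152) (nat_lit 362481433) (nat_lit 19) (nat_lit 5) (nat_lit 20) (nat_lit 5) (nat_lit 21) (nat_lit 4) (nat_lit 297) (nat_lit 250) (nat_lit 173)) (XT.lf (nat_lit 0) (nat_lit 3809563316) (nat_lit 152) (nat_lit 13488128214) (nat_lit 76) (nat_lit 13078458360) (nat_lit 18) (nat_lit 5) (nat_lit 20) (nat_lit 5) (nat_lit 19) (nat_lit 5) (nat_lit 298) (nat_lit 250) (nat_lit 172))) (XT.nd (nat_lit 78) (nat_lit 152) (nat_lit 0) (XT.lf (nat_lit 0) (nat_lit 8164035350) (nat_lit 152) (nat_lit 3155753821) (nat_lit 76) (nat_lit 20232496075) (nat_lit 18)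 (nat_lit 5) (nat_lit 20) (nat_lit 5) (nat_lit 19) (nat_lit 5) (nat_lit 299) (nat_lit 250) (nat_lit 171)) (XT.nd (nat_lit 78) (nat_lit 0) (nat_lit 0) (XT.lf (nat_lit 0) (nat_lit 7925245532) (nat_lit 152) (nat_lit 4921393890) (nat_lit 228) (nat_lit 19935088629) (nat_lit 16) (nat_lit 5) (nat_lit 18) (nat_lit 5) (nat_lit 19) (nat_lit 5) (nat_lit 300) (nat_lit 250) (nat_lit 170)) (XT.lf (nat_lit 0) (nat_lit 17832594970) (nat_lit 228) (nat_lit 14450890401) (nat_lit 76) (nat_lit 1785716656) (nat_lit 16) (nat_lit 5) (nat_lit 19) (nat_lit 5) (nat_lit 17) (nat_lit 4) (nat_lit 301) (nat_lit 250) (nat_lit 169))))))))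
noncomputable def xc143 : XT := (XT.nd (nat_lit 1404) (nat_lit 228) (nat_lit 0) (XT.nd (nat_lit 702) (nat_lit 228) (nat_lit 0) (XT.nd (nat_lit 312) (nat_lit 228) (nat_lit 0) (XT.nd (nat_lit 156) (nat_lit 76) (nat_lit 0) (XT.nd (nat_lit 78) (nat_lit 76) (nat_lit 0) (XT.lf (nat_lit 0) (nat_lit 23135999211) (nat_lit 228) (nat_lit 3626501082) (nat_lit 76) (nat_lit 8655161003) (nat_lit 16) (nat_lit 5) (nat_lit 19) (nat_lit 5) (nat_lit 17) (nat_lit 4) (nat_lit 302) (nat_lit 250) (nat_lit 168)) (XT.lf (nat_lit 0) (nat_lit 7974529281) (nat_lit 76) (nat_lit 20842618017) (nat_lit 152) (nat_lit 8010785777) (nat_lit 15) (nat_lit 5) (nat_lit 16) (nat_lit 5) (nat_lit 17) (nat_lit 4) (nat_lit 303) (nat_lit 250) (nat_lit 167))) (XT.nd (nat_lit 78) (nat_lit 76) (nat_lit 0) (XT.lf (nat_lit 0) (nat_lit 20262021502) (nat_lit 76) (nat_lit 14570080522) (nat_lit 152) (nat_lit 3474146317) (nat_lit 15) (nat_lit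 5) (nat_lit 16) (nat_lit 5) (nat_lit 17) (nat_lit 4) (nat_lit 304) (nat_lit 250) (nat_lit 166)) (XT.lf (nat_lit 0) (nat_lit 1236748764) (nat_lit 152) (nat_lit 6733676044) (nat_lit 76) (nat_lit 31887629304) (nat_lit 14) (nat_lit 5) (nat_lit 16) (nat_lit 5) (nat_lit 15) (nat_lit 5) (nat_lit 305) (nat_lit 250) (nat_lit 165)))) (XT.nd (nat_lit 156) (nat_lit 76) (nat_lit 0) (XT.nd (nat_lit 78) (nat_lit 0) (nat_lit 0) (XT.lf (nat_lit 0) (nat_lit 5234947684) (nat_lit 152) (nat_lit 902447694) (nat_lit 228) (nat_lit 35343674085) (nat_lit 12) (nat_lit 5) (nat_lit 14) (nat_lit 5) (nat_lit 15) (nat_lit 5) (nat_lit 306) (nat_lit 250) (nat_lit 164)) (XT.lf (nat_lit 0) (nat_lit 11490112082) (nat_lit 228) (nat_lit 25265590764) (nat_lit 76) (nat_lit 6419195130) (nat_lit 12) (nat_lit 5) (nat_lit 15) (nat_lit 5) (nat_lit 13) (nat_lit 4) (nat_lit 307) (nat_lit 250) (nat_lit 163))) (XT.nd (nat_lit 78) (nat_lit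 76) (nat_lit 0) (XT.lf (nat_lit 0) (nat_lit 17115117395) (nat_lit 228) (nat_lit 13768150752) (nat_lit 76) (nat_lit 14069930730) (nat_lit 12) (nat_lit 5) (nat_lit 15) (nat_lit 5) (nat_lit 13) (nat_lit 4) (nat_lit 308) (nat_lit 250) (nat_lit 162)) (XT.nd (nat_lit 78) (nat_lit 76) (nat_lit 0) (XT.lf (nat_lit 0) (nat_lit 23011714452) (nat_lit 228) (nat_lit 1712337149) (nat_lit 76) (nat_lit 22096859103) (nat_lit 12) (nat_lit 5) (nat_lit 15) (nat_lit 5) (nat_lit 13) (nat_lit 4) (nat_lit 309) (nat_lit 250) (nat_lit 161)) (XT.lf (nat_lit 0) (nat_lit 11291967854) (nat_lit 76) (nat_lit 18078274178) (nat_lit 152) (nat_lit 19403423395) (nat_lit 11) (nat_lit 5) (nat_lit 12) (nat_lit 5) (nat_lit 13) (nat_lit 4) (nat_lit 310) (nat_lit 250) (nat_lit 160)))))) (XT.nd (nat_lit 312) (nat_lit 76) (nat_lit 0) (XT.nd (nat_lit 156) (nat_lit 152) (nat_lit 0) (XT.nd (nat_lit 78) (nat_lit 0) (nat_lit 0) (XT.lf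 (nat_lit 0) (nat_lit 24990477248) (nat_lit 76) (nat_lit 11076216073) (nat_lit 152) (nat_lit 14756376447) (nat_lit 11) (nat_lit 5) (nat_lit 12) (nat_lit 5) (nat_lit 13) (nat_lit 4) (nat_lit 311) (nat_lit 250) (nat_lit 159)) (XT.lf (nat_lit 0) (nat_lit 39359188932) (nat_lit 76) (nat_lit 3730204977) (nat_lit 152) (nat_lit 9885990270) (nat_lit 11) (nat_lit 5) (nat_lit 12) (nat_lit 5) (nat_lit 13) (nat_lit 4) (nat_lit 312) (nat_lit 250) (nat_lit 158))) (XT.nd (nat_lit 78) (nat_lit 152) (nat_lit 0) (XT.lf (nat_lit 0) (nat_lit 50517160527) (nat_lit 152) (nat_lit 865515109) (nat_lit 0) (nat_lit 3849952785) (nat_lit 11) (nat_lit 5) (nat_lit 13) (nat_lit 4) (nat_lit 11) (nat_lit 4) (nat_lit 313) (nat_lit 250) (nat_lit 157)) (XT.lf (nat_lit 0) (nat_lit 948956550) (nat_lit 152) (nat_lit 44745882681) (nat_lit 76) (nat_lit 11894437509) (nat_lit 9) (nat_lit 5) (nat_lit 11) (nat_lit 5) (nat_lit 10)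 (nat_lit 4) (nat_lit 314) (nat_lit 250) (nat_lit 156)))) (XT.nd (nat_lit 156) (nat_lit 76) (nat_lit 0) (XT.nd (nat_lit 78) (nat_lit 0) (nat_lit 0) (XT.lf (nat_lit 0) (nat_lit 6745195441) (nat_lit 152) (nat_lit 32886484258) (nat_lit 76) (nat_lit 20427868653) (nat_lit 9) (nat_lit 5) (nat_lit 11) (nat_lit 5) (nat_lit 10) (nat_lit 4) (nat_lit 315) (nat_lit 250) (nat_lit 155)) (XT.lf (nat_lit 0) (nat_lit 12823784995) (nat_lit 152) (nat_lit 20447176914) (nat_lit 76) (nat_lit 29382753467) (nat_lit 9) (nat_lit 5) (nat_lit 11) (nat_lit 5) (nat_lit 10) (nat_lit 4) (nat_lit 316) (nat_lit 250) (nat_lit 154))) (XT.nd (nat_lit 78) (nat_lit 76) (nat_lit 0) (XT.lf (nat_lit 0) (nat_lit 19199198044) (nat_lit 152) (nat_lit 7398343250) (nat_lit 76) (nat_lit 38780413107) (nat_lit 9) (nat_lit 5) (nat_lit 11) (nat_lit 5) (nat_lit 10) (nat_lit 4) (nat_lit 317) (nat_lit 250) (nat_lit 153)) (XT.nd (nat_lit 78)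 (nat_lit 0) (nat_lit 0) (XT.lf (nat_lit 0) (nat_lit 6499097078) (nat_lit 76) (nat_lit 19488986184) (nat_lit 152) (nat_lit 42245594992) (nat_lit 8) (nat_lit 5) (nat_lit 9) (nat_lit 5) (nat_lit 10) (nat_lit 4) (nat_lit 318) (nat_lit 250) (nat_lit 152)) (XT.lf (nat_lit 0) (nat_lit 21336607559) (nat_lit 76) (nat_lit 11898472392) (nat_lit 152) (nat_lit 37991182562) (nat_lit 8) (nat_lit 5) (nat_lit 9) (nat_lit 5) (nat_lit 10) (nat_lit 4) (nat_lit 319) (nat_lit 250) (nat_lit 151))))))) (XT.nd (nat_lit 702) (nat_lit 76) (nat_lit 0) (XT.nd (nat_lit 312) (nat_lit 76) (nat_lit 0) (XT.nd (nat_lit 156) (nat_lit 76) (nat_lit 0) (XT.nd (nat_lit 78) (nat_lit 0) (nat_lit 0) (XT.lf (nat_lit 0) (nat_lit 36904892960) (nat_lit 76) (nat_lit 3933221790) (nat_lit 152) (nat_lit 33530684036) (nat_lit 8) (nat_lit 5) (nat_lit 9) (nat_lit 5) (nat_lit 10) (nat_lit 4) (nat_lit 320) (nat_lit 250) (nat_lit 150)) (XT.lf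 (nat_lit 0) (nat_lit 48884388176) (nat_lit 152) (nat_lit 24496846732) (nat_lit 0) (nat_lit 4284079489) (nat_lit 8) (nat_lit 5) (nat_lit 10) (nat_lit 4) (nat_lit 8) (nat_lit 4) (nat_lit 321) (nat_lit 250) (nat_lit 149))) (XT.nd (nat_lit 78) (nat_lit 76) (nat_lit 0) (XT.lf (nat_lit 0) (nat_lit 57391661581) (nat_lit 152) (nat_lit 10956207277) (nat_lit 0) (nat_lit 12775859158) (nat_lit 8) (nat_lit 5) (nat_lit 10) (nat_lit 4) (nat_lit 8) (nat_lit 4) (nat_lit 322) (nat_lit 250) (nat_lit 148)) (XT.lf (nat_lit 0) (nat_lit 3359175359) (nat_lit 76) (nat_lit 63012052543) (nat_lit 76) (nat_lit 18381494182) (nat_lit 7) (nat_lit 4) (nat_lit 8) (nat_lit 5) (nat_lit 8) (nat_lit 4) (nat_lit 323) (nat_lit 250) (nat_lit 147)))) (XT.nd (nat_lit 156) (nat_lit 76) (nat_lit 0) (XT.nd (nat_lit 78) (nat_lit 0) (nat_lit 0) (XT.lf (nat_lit 0) (nat_lit 18761056645) (nat_lit 76) (nat_lit 57218859794) (nat_lit 76)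 (nat_lit 12574248158) (nat_lit 7) (nat_lit 4) (nat_lit 8) (nat_lit 5) (nat_lit 8) (nat_lit 4) (nat_lit 324) (nat_lit 250) (nat_lit 146)) (XT.lf (nat_lit 0) (nat_lit 34923846032) (nat_lit 76) (nat_lit 51140045965) (nat_lit 76) (nat_lit 6482050258) (nat_lit 7) (nat_lit 4) (nat_lit 8) (nat_lit 5) (nat_lit 8) (nat_lit 4) (nat_lit 325) (nat_lit 250) (nat_lit 145))) (XT.nd (nat_lit 78) (nat_lit 76) (nat_lit 0) (XT.lf (nat_lit 0) (nat_lit 51886026353) (nat_lit 76) (nat_lit 44761137692) (nat_lit 76) (nat_lit 90395251) (nat_lit 7) (nat_lit 4) (nat_lit 8) (nat_lit 5) (nat_lit 8) (nat_lit 4) (nat_lit 326) (nat_lit 250) (nat_lit 144)) (XT.nd (nat_lit 78) (nat_lit 0) (nat_lit 0) (XT.lf (nat_lit 0) (nat_lit 6404183850) (nat_lit 152) (nat_lit 31554305293) (nat_lit 76) (nat_lit 63175341948) (nat_lit 6) (nat_lit 5) (nat_lit 8) (nat_lit 5) (nat_lit 7) (nat_lit 4) (nat_lit 327) (nat_lit 250) (nat_lit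 143)) (XT.lf (nat_lit 0) (nat_lit 13215929893) (nat_lit 152) (nat_lit 17601787569) (nat_lit 76) (nat_lit 74932355778) (nat_lit 6) (nat_lit 5) (nat_lit 8) (nat_lit 5) (nat_lit 7) (nat_lit 4) (nat_lit 328) (nat_lit 250) (nat_lit 142)))))) (XT.nd (nat_lit 312) (nat_lit 0) (nat_lit 0) (XT.nd (nat_lit 156) (nat_lit 0) (nat_lit 0) (XT.nd (nat_lit 78) (nat_lit 76) (nat_lit 0) (XT.lf (nat_lit 0) (nat_lit 20363954533) (nat_lit 152) (nat_lit 2959348166) (nat_lit 76) (nat_lit 87274044660) (nat_lit 6) (nat_lit 5) (nat_lit 8) (nat_lit 5) (nat_lit 7) (nat_lit 4) (nat_lit 329) (nat_lit 250) (nat_lit 141)) (XT.lf (nat_lit 0) (nat_lit 12818136277) (nat_lit 76) (nat_lit 15247267628) (nat_lit 152) (nat_lit 87611784322) (nat_lit 5) (nat_lit 5) (nat_lit 6) (nat_lit 5) (nat_lit 7) (nat_lit 4) (nat_lit 330) (nat_lit 250) (nat_lit 140))) (XT.nd (nat_lit 78) (nat_lit 0) (nat_lit 0) (XT.lf (nat_lit 0) (nat_lit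 29480017832) (nat_lit 76) (nat_lit 6718005075) (nat_lit 152) (nat_lit 84810697389) (nat_lit 5) (nat_lit 5) (nat_lit 6) (nat_lit 5) (nat_lit 7) (nat_lit 4) (nat_lit 331) (nat_lit 250) (nat_lit 139)) (XT.lf (nat_lit 0) (nat_lit 44768333033) (nat_lit 152) (nat_lit 79673795569) (nat_lit 0) (nat_lit 2163151186) (nat_lit 5) (nat_lit 5) (nat_lit 7) (nat_lit 4) (nat_lit 5) (nat_lit 4) (nat_lit 332) (nat_lit 250) (nat_lit 138)))) (XT.nd (nat_lit 156) (nat_lit 0) (nat_lit 0) (XT.nd (nat_lit 78) (nat_lit 0) (nat_lit 0) (XT.lf (nat_lit 0) (nat_lit 53873597591) (nat_lit 152) (nat_lit 67342963105) (nat_lit 0) (nat_lit 11259788252) (nat_lit 5) (nat_lit 5) (nat_lit 7) (nat_lit 4) (nat_lit 5) (nat_lit 4) (nat_lit 333) (nat_lit 250) (nat_lit 137)) (XT.lf (nat_lit 0) (nat_lit 63430608898) (nat_lit 152) (nat_lit 54401959063) (nat_lit 0) (nat_lit 20808582901) (nat_lit 5) (nat_lit 5) (nat_lit 7) (nat_lit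 4) (nat_lit 5) (nat_lit 4) (nat_lit 334) (nat_lit 250) (nat_lit 136))) (XT.nd (nat_lit 78) (nat_lit 0) (nat_lit 0) (XT.lf (nat_lit 0) (nat_lit 73462121743) (nat_lit 152) (nat_lit 40819971527) (nat_lit 0) (nat_lit 30832270357) (nat_lit 5) (nat_lit 5) (nat_lit 7) (nat_lit 4) (nat_lit 5) (nat_lit 4) (nat_lit 335) (nat_lit 250) (nat_lit 135)) (XT.nd (nat_lit 78) (nat_lit 0) (nat_lit 0) (XT.lf (nat_lit 0) (nat_lit 83992020680) (nat_lit 152) (nat_lit 26564662432) (nat_lit 0) (nat_lit 41354716542) (nat_lit 5) (nat_lit 5) (nat_lit 7) (nat_lit 4) (nat_lit 5) (nat_lit 4) (nat_lit 336) (nat_lit 250) (nat_lit 134)) (XT.lf (nat_lit 0) (nat_lit 95045376897) (nat_lit 152) (nat_lit 11602090567) (nat_lit 0) (nat_lit 52400974901) (nat_lit 5) (nat_lit 5) (nat_lit 7) (nat_lit 4) (nat_lit 5) (nat_lit 4) (nat_lit 337) (nat_lit 250) (nat_lit 133))))))))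
noncomputable def xc144 : XT := (XT.nd (nat_lit 1326) (nat_lit 0) (nat_lit 0) (XT.nd (nat_lit 624) (nat_lit 152) (nat_lit 0) (XT.nd (nat_lit 312) (nat_lit 0) (nat_lit 0) (XT.nd (nat_lit 156) (nat_lit 0) (nat_lit 0) (XT.nd (nat_lit 78) (nat_lit 0) (nat_lit 0) (XT.lf (nat_lit 0) (nat_lit 4239045158) (nat_lit 76) (nat_lit 102475646125) (nat_lit 76) (nat_lit 59824484263) (nat_lit 4) (nat_lit 4) (nat_lit 5) (nat_lit 5) (nat_lit 5) (nat_lit 4) (nat_lit 338) (nat_lit 250) (nat_lit 132)) (XT.lf (nat_lit 0) (nat_lit 21269879932) (nat_lit 76) (nat_lit 97891242720) (nat_lit 76) (nat_lit 55233642891) (nat_lit 4) (nat_lit 4) (nat_lit 5) (nat_lit 5) (nat_lit 5) (nat_lit 4) (nat_lit 339) (nat_lit 250) (nat_lit 131))) (XT.nd (nat_lit 78) (nat_lit 0) (nat_lit 0) (XT.lf (nat_lit 0) (nat_lit 39147345850) (nat_lit 76) (nat_lit 93079829021) (nat_lit 76) (nat_lit 50416097794) (nat_lit 4) (nat_lit 4) (nat_lit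 5) (nat_lit 5) (nat_lit 5) (nat_lit 4) (nat_lit 340) (nat_lit 250) (nat_lit 130)) (XT.lf (nat_lit 0) (nat_lit 57914008307) (nat_lit 76) (nat_lit 88029949280) (nat_lit 76) (nat_lit 45360378628) (nat_lit 4) (nat_lit 4) (nat_lit 5) (nat_lit 5) (nat_lit 5) (nat_lit 4) (nat_lit 341) (nat_lit 250) (nat_lit 129)))) (XT.nd (nat_lit 156) (nat_lit 0) (nat_lit 0) (XT.nd (nat_lit 78) (nat_lit 0) (nat_lit 0) (XT.lf (nat_lit 0) (nat_lit 77614549832) (nat_lit 76) (nat_lit 82729579975) (nat_lit 76) (nat_lit 40054447965) (nat_lit 4) (nat_lit 4) (nat_lit 5) (nat_lit 5) (nat_lit 5) (nat_lit 4) (nat_lit 342) (nat_lit 250) (nat_lit 128)) (XT.lf (nat_lit 0) (nat_lit 98295876477) (nat_lit 76) (nat_lit 77166101178) (nat_lit 76) (nat_lit 34485672637) (nat_lit 4) (nat_lit 4) (nat_lit 5) (nat_lit 5) (nat_lit 5) (nat_lit 4) (nat_lit 343) (nat_lit 250) (nat_lit 127))) (XT.nd (nat_lit 78) (nat_lit 0) (nat_lit 0)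 (XT.lf (nat_lit 0) (nat_lit 120007229496) (nat_lit 76) (nat_lit 71326266512) (nat_lit 76) (nat_lit 28640793655) (nat_lit 4) (nat_lit 4) (nat_lit 5) (nat_lit 5) (nat_lit 5) (nat_lit 4) (nat_lit 344) (nat_lit 250) (nat_lit 126)) (XT.lf (nat_lit 0) (nat_lit 142800302586) (nat_lit 76) (nat_lit 65196171608) (nat_lit 76) (nat_lit 22505894641) (nat_lit 4) (nat_lit 4) (nat_lit 5) (nat_lit 5) (nat_lit 5) (nat_lit 4) (nat_lit 345) (nat_lit 250) (nat_lit 125))))) (XT.nd (nat_lit 312) (nat_lit 76) (nat_lit 0) (XT.nd (nat_lit 156) (nat_lit 76) (nat_lit 0) (XT.nd (nat_lit 78) (nat_lit 0) (nat_lit 0) (XT.lf (nat_lit 0) (nat_lit 166729364969) (nat_lit 76) (nat_lit 58761221003) (nat_lit 76) (nat_lit 16066368693) (nat_lit 4) (nat_lit 4) (nat_lit 5) (nat_lit 5) (nat_lit 5) (nat_lit 4) (nat_lit 346) (nat_lit 250) (nat_lit 124)) (XT.lf (nat_lit 0) (nat_lit 191851390603) (nat_lit 76) (nat_lit 52006093384)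 (nat_lit 76) (nat_lit 9306883605) (nat_lit 4) (nat_lit 4) (nat_lit 5) (nat_lit 5) (nat_lit 5) (nat_lit 4) (nat_lit 347) (nat_lit 250) (nat_lit 123))) (XT.nd (nat_lit 78) (nat_lit 76) (nat_lit 0) (XT.lf (nat_lit 0) (nat_lit 218226193835) (nat_lit 76) (nat_lit 44914705116) (nat_lit 76) (nat_lit 2211345366) (nat_lit 4) (nat_lit 4) (nat_lit 5) (nat_lit 5) (nat_lit 5) (nat_lit 4) (nat_lit 348) (nat_lit 250) (nat_lit 122)) (XT.lf (nat_lit 0) (nat_lit 5069518971) (nat_lit 152) (nat_lit 32314798213) (nat_lit 76) (nat_lit 240761198087) (nat_lit 3) (nat_lit 5) (nat_lit 5) (nat_lit 5) (nat_lit 4) (nat_lit 4) (nat_lit 349) (nat_lit 250) (nat_lit 121)))) (XT.nd (nat_lit 156) (nat_lit 76) (nat_lit 0) (XT.nd (nat_lit 78) (nat_lit 0) (nat_lit 0) (XT.lf (nat_lit 0) (nat_lit 12638424094) (nat_lit 152) (nat_lit 16802306856) (nat_lit 76) (nat_lit 262135992094) (nat_lit 3) (nat_lit 5) (nat_lit 5) (nat_lit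 5) (nat_lit 4) (nat_lit 4) (nat_lit 350) (nat_lit 250) (nat_lit 120)) (XT.lf (nat_lit 0) (nat_lit 20584168067) (nat_lit 152) (nat_lit 517116612) (nat_lit 76) (nat_lit 284578288289) (nat_lit 3) (nat_lit 5) (nat_lit 5) (nat_lit 5) (nat_lit 4) (nat_lit 4) (nat_lit 351) (nat_lit 250) (nat_lit 119))) (XT.nd (nat_lit 78) (nat_lit 0) (nat_lit 0) (XT.lf (nat_lit 0) (nat_lit 17127741473) (nat_lit 76) (nat_lit 12065339899) (nat_lit 152) (nat_lit 291281191282) (nat_lit 2) (nat_lit 5) (nat_lit 3) (nat_lit 5) (nat_lit 4) (nat_lit 4) (nat_lit 352) (nat_lit 250) (nat_lit 118)) (XT.nd (nat_lit 78) (nat_lit 0) (nat_lit 0) (XT.lf (nat_lit 0) (nat_lit 35670054165) (nat_lit 76) (nat_lit 2569643941) (nat_lit 152) (nat_lit 297768647639) (nat_lit 2) (nat_lit 5) (nat_lit 3) (nat_lit 5) (nat_lit 4) (nat_lit 4) (nat_lit 353) (nat_lit 250) (nat_lit 117)) (XT.lf (nat_lit 0) (nat_lit 47852746581) (nat_lit 152)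 (nat_lit 297297852886) (nat_lit 0) (nat_lit 7162819223) (nat_lit 2) (nat_lit 5) (nat_lit 4) (nat_lit 4) (nat_lit 2) (nat_lit 4) (nat_lit 354) (nat_lit 250) (nat_lit 116))))))) (XT.nd (nat_lit 29718) (nat_lit 0) (nat_lit 5700) (XT.nd (nat_lit 312) (nat_lit 0) (nat_lit 0) (XT.nd (nat_lit 156) (nat_lit 0) (nat_lit 0) (XT.nd (nat_lit 78) (nat_lit 0) (nat_lit 0) (XT.lf (nat_lit 0) (nat_lit 57987194791) (nat_lit 152) (nat_lit 294150055741) (nat_lit 0) (nat_lit 17294458571) (nat_lit 2) (nat_lit 5) (nat_lit 4) (nat_lit 4) (nat_lit 2) (nat_lit 4) (nat_lit 355) (nat_lit 250) (nat_lit 115)) (XT.lf (nat_lit 0) (nat_lit 68627053033) (nat_lit 152) (nat_lit 290847286048) (nat_lit 0) (nat_lit 27931641704) (nat_lit 2) (nat_lit 5) (nat_lit 4) (nat_lit 4) (nat_lit 2) (nat_lit 4) (nat_lit 356) (nat_lit 250) (nat_lit 114))) (XT.nd (nat_lit 78) (nat_lit 0) (nat_lit 0) (XT.lf (nat_lit 0) (nat_lit 79797654302)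 (nat_lit 152) (nat_lit 287381680068) (nat_lit 0) (nat_lit 39099695251) (nat_lit 2) (nat_lit 5) (nat_lit 4) (nat_lit 4) (nat_lit 2) (nat_lit 4) (nat_lit 357) (nat_lit 250) (nat_lit 113)) (XT.lf (nat_lit 0) (nat_lit 91525595268) (nat_lit 152) (nat_lit 283744986360) (nat_lit 0) (nat_lit 50825209815) (nat_lit 2) (nat_lit 5) (nat_lit 4) (nat_lit 4) (nat_lit 2) (nat_lit 4) (nat_lit 358) (nat_lit 250) (nat_lit 112)))) (XT.nd (nat_lit 29172) (nat_lit 0) (nat_lit 6688) (XT.nd (nat_lit 29094) (nat_lit 0) (nat_lit 6688) (XT.lf (nat_lit 0) (nat_lit 103838799600) (nat_lit 152) (nat_lit 279928546128) (nat_lit 0) (nat_lit 63136103287) (nat_lit 2) (nat_lit 5) (nat_lit 4) (nat_lit 4) (nat_lit 2) (nat_lit 4) (nat_lit 359) (nat_lit 250) (nat_lit 111)) (XT.lf (nat_lit 0) (nat_lit 479228649) (nat_lit 0) (nat_lit 479228649) (nat_lit 532) (nat_lit 2984196374) (nat_lit 90) (nat_lit 5) (nat_lit 90) (nat_lit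 3) (nat_lit 97) (nat_lit 3) (nat_lit 251) (nat_lit 251) (nat_lit 218))) (XT.nd (nat_lit 78) (nat_lit 0) (nat_lit 0) (XT.lf (nat_lit 0) (nat_lit 3135970731) (nat_lit 532) (nat_lit 3505932257) (nat_lit 608) (nat_lit 1377604424) (nat_lit 90) (nat_lit 5) (nat_lit 97) (nat_lit 3) (nat_lit 98) (nat_lit 5) (nat_lit 252) (nat_lit 251) (nat_lit 217)) (XT.nd (nat_lit 78) (nat_lit 0) (nat_lit 0) (XT.lf (nat_lit 76) (nat_lit 29974482) (nat_lit 0) (nat_lit 4329214873) (nat_lit 608) (nat_lit 3804347757) (nat_lit 91) (nat_lit 5) (nat_lit 90) (nat_lit 5) (nat_lit 98) (nat_lit 5) (nat_lit 253) (nat_lit 251) (nat_lit 216)) (XT.lf (nat_lit 76) (nat_lit 3823756906) (nat_lit 0) (nat_lit 1809056277) (nat_lit 608) (nat_lit 2682759679) (nat_lit 91) (nat_lit 5) (nat_lit 90) (nat_lit 5) (nat_lit 98) (nat_lit 5) (nat_lit 254) (nat_lit 251) (nat_lit 215)))))) (XT.nd (nat_lit 312) (nat_lit 456) (nat_lit 0) (XT.nd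 (nat_lit 156) (nat_lit 608) (nat_lit 0) (XT.nd (nat_lit 78) (nat_lit 0) (nat_lit 0) (XT.lf (nat_lit 0) (nat_lit 6916835530) (nat_lit 532) (nat_lit 723786313) (nat_lit 608) (nat_lit 837506763) (nat_lit 91) (nat_lit 5) (nat_lit 98) (nat_lit 5) (nat_lit 99) (nat_lit 5) (nat_lit 255) (nat_lit 251) (nat_lit 214)) (XT.lf (nat_lit 76) (nat_lit 3266847947) (nat_lit 0) (nat_lit 5015679683) (nat_lit 608) (nat_lit 365653049) (nat_lit 92) (nat_lit 5) (nat_lit 91) (nat_lit 5) (nat_lit 99) (nat_lit 5) (nat_lit 256) (nat_lit 251) (nat_lit 213))) (XT.nd (nat_lit 78) (nat_lit 0) (nat_lit 76) (XT.lf (nat_lit 0) (nat_lit 811720803) (nat_lit 608) (nat_lit 1400386777) (nat_lit 684) (nat_lit 6616631167) (nat_lit 83) (nat_lit 5) (nat_lit 91) (nat_lit 5) (nat_lit 92) (nat_lit 5) (nat_lit 257) (nat_lit 251) (nat_lit 212)) (XT.lf (nat_lit 0) (nat_lit 2033222955) (nat_lit 608) (nat_lit 6207831548) (nat_lit 684)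 (nat_lit 777302127) (nat_lit 84) (nat_lit 5) (nat_lit 92) (nat_lit 5) (nat_lit 93) (nat_lit 5) (nat_lit 258) (nat_lit 251) (nat_lit 211)))) (XT.nd (nat_lit 156) (nat_lit 532) (nat_lit 0) (XT.nd (nat_lit 78) (nat_lit 0) (nat_lit 0) (XT.lf (nat_lit 0) (nat_lit 3319557509) (nat_lit 608) (nat_lit 2015282596) (nat_lit 684) (nat_lit 3882626510) (nat_lit 84) (nat_lit 5) (nat_lit 92) (nat_lit 5) (nat_lit 93) (nat_lit 5) (nat_lit 259) (nat_lit 251) (nat_lit 210)) (XT.lf (nat_lit 76) (nat_lit 2423547256) (nat_lit 0) (nat_lit 2230583916) (nat_lit 684) (nat_lit 4773394404) (nat_lit 85) (nat_lit 5) (nat_lit 84) (nat_lit 5) (nat_lit 93) (nat_lit 5) (nat_lit 260) (nat_lit 251) (nat_lit 209))) (XT.nd (nat_lit 78) (nat_lit 608) (nat_lit 0) (XT.lf (nat_lit 0) (nat_lit 6054392545) (nat_lit 608) (nat_lit 2551937314) (nat_lit 76) (nat_lit 1041990239) (nat_lit 85) (nat_lit 5) (nat_lit 93) (nat_lit 5) (nat_lit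 86) (nat_lit 5) (nat_lit 261) (nat_lit 251) (nat_lit 208)) (XT.nd (nat_lit 78) (nat_lit 0) (nat_lit 0) (XT.lf (nat_lit 0) (nat_lit 2112595324) (nat_lit 608) (nat_lit 5432294484) (nat_lit 684) (nat_lit 2334425362) (nat_lit 77) (nat_lit 5) (nat_lit 85) (nat_lit 5) (nat_lit 86) (nat_lit 5) (nat_lit 262) (nat_lit 251) (nat_lit 207)) (XT.lf (nat_lit 0) (nat_lit 7058456249) (nat_lit 608) (nat_lit 2047063001) (nat_lit 684) (nat_lit 1016724159) (nat_lit 77) (nat_lit 5) (nat_lit 85) (nat_lit 5) (nat_lit 86) (nat_lit 5) (nat_lit 263) (nat_lit 251) (nat_lit 206))))))))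
noncomputable def xc145 : XT := (XT.nd (nat_lit 1326) (nat_lit 1520) (nat_lit 0) (XT.nd (nat_lit 624) (nat_lit 1140) (nat_lit 0) (XT.nd (nat_lit 312) (nat_lit 760) (nat_lit 0) (XT.nd (nat_lit 156) (nat_lit 304) (nat_lit 0) (XT.nd (nat_lit 78) (nat_lit 0) (nat_lit 0) (XT.lf (nat_lit 0) (nat_lit 362577237) (nat_lit 760) (nat_lit 8513451732) (nat_lit 76) (nat_lit 1500778404) (nat_lit 67) (nat_lit 5) (nat_lit 77) (nat_lit 5) (nat_lit 68) (nat_lit 5) (nat_lit 264) (nat_lit 251) (nat_lit 205)) (XT.lf (nat_lit 0) (nat_lit 1818395314) (nat_lit 760) (nat_lit 3591407402) (nat_lit 76) (nat_lit 5231518905) (nat_lit 67) (nat_lit 5) (nat_lit 77) (nat_lit 5) (nat_lit 68) (nat_lit 5) (nat_lit 265) (nat_lit 251) (nat_lit 204))) (XT.nd (nat_lit 78) (nat_lit 0) (nat_lit 0) (XT.lf (nat_lit 0) (nat_lit 1587502530) (nat_lit 304) (nat_lit 1741834252) (nat_lit 380) (nat_lit 7590742917) (nat_lit 63) (nat_lit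 5) (nat_lit 67) (nat_lit 5) (nat_lit 68) (nat_lit 5) (nat_lit 266) (nat_lit 251) (nat_lit 203)) (XT.lf (nat_lit 0) (nat_lit 4969559577) (nat_lit 380) (nat_lit 4135230893) (nat_lit 76) (nat_lit 2105426822) (nat_lit 63) (nat_lit 5) (nat_lit 68) (nat_lit 5) (nat_lit 64) (nat_lit 5) (nat_lit 267) (nat_lit 251) (nat_lit 202)))) (XT.nd (nat_lit 156) (nat_lit 380) (nat_lit 0) (XT.nd (nat_lit 78) (nat_lit 0) (nat_lit 0) (XT.lf (nat_lit 0) (nat_lit 1295258652) (nat_lit 380) (nat_lit 5406244736) (nat_lit 456) (nat_lit 4812995097) (nat_lit 58) (nat_lit 5) (nat_lit 63) (nat_lit 5) (nat_lit 64) (nat_lit 5) (nat_lit 268) (nat_lit 251) (nat_lit 201)) (XT.lf (nat_lit 0) (nat_lit 7101851930) (nat_lit 380) (nat_lit 1450408856) (nat_lit 456) (nat_lit 3280238525) (nat_lit 58) (nat_lit 5) (nat_lit 63) (nat_lit 5) (nat_lit 64) (nat_lit 5) (nat_lit 269) (nat_lit 251) (nat_lit 200))) (XT.nd (nat_lit 78) (nat_lit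 76) (nat_lit 0) (XT.lf (nat_lit 0) (nat_lit 982594730) (nat_lit 304) (nat_lit 9534474803) (nat_lit 380) (nat_lit 1648365822) (nat_lit 54) (nat_lit 5) (nat_lit 58) (nat_lit 5) (nat_lit 59) (nat_lit 5) (nat_lit 270) (nat_lit 251) (nat_lit 199)) (XT.lf (nat_lit 0) (nat_lit 132632651) (nat_lit 380) (nat_lit 5431055257) (nat_lit 76) (nat_lit 6947899231) (nat_lit 53) (nat_lit 5) (nat_lit 58) (nat_lit 5) (nat_lit 54) (nat_lit 5) (nat_lit 271) (nat_lit 251) (nat_lit 198))))) (XT.nd (nat_lit 312) (nat_lit 608) (nat_lit 0) (XT.nd (nat_lit 156) (nat_lit 228) (nat_lit 0) (XT.nd (nat_lit 78) (nat_lit 0) (nat_lit 0) (XT.lf (nat_lit 0) (nat_lit 561484951) (nat_lit 304) (nat_lit 1360670732) (nat_lit 380) (nat_lit 10952891941) (nat_lit 49) (nat_lit 5) (nat_lit 53) (nat_lit 5) (nat_lit 54) (nat_lit 5) (nat_lit 272) (nat_lit 251) (nat_lit 197)) (XT.lf (nat_lit 0) (nat_lit 3909368848) (nat_lit 380) (nat_lit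 6297882625) (nat_lit 76) (nat_lit 3044110159) (nat_lit 49) (nat_lit 5) (nat_lit 54) (nat_lit 5) (nat_lit 50) (nat_lit 5) (nat_lit 273) (nat_lit 251) (nat_lit 196))) (XT.nd (nat_lit 78) (nat_lit 228) (nat_lit 0) (XT.lf (nat_lit 0) (nat_lit 5986887383) (nat_lit 380) (nat_lit 40715744) (nat_lit 76) (nat_lit 7619427831) (nat_lit 49) (nat_lit 5) (nat_lit 54) (nat_lit 5) (nat_lit 50) (nat_lit 5) (nat_lit 274) (nat_lit 251) (nat_lit 195)) (XT.lf (nat_lit 0) (nat_lit 6708803476) (nat_lit 228) (nat_lit 1534353626) (nat_lit 304) (nat_lit 5815665605) (nat_lit 46) (nat_lit 5) (nat_lit 49) (nat_lit 5) (nat_lit 50) (nat_lit 5) (nat_lit 275) (nat_lit 251) (nat_lit 194)))) (XT.nd (nat_lit 156) (nat_lit 304) (nat_lit 0) (XT.nd (nat_lit 78) (nat_lit 304) (nat_lit 0) (XT.lf (nat_lit 0) (nat_lit 10633569981) (nat_lit 304) (nat_lit 779773842) (nat_lit 76) (nat_lit 3076872518) (nat_lit 46) (nat_lit 5) (nat_lit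 50) (nat_lit 5) (nat_lit 47) (nat_lit 5) (nat_lit 276) (nat_lit 251) (nat_lit 193)) (XT.lf (nat_lit 0) (nat_lit 6259801388) (nat_lit 304) (nat_lit 6978897601) (nat_lit 380) (nat_lit 1699795921) (nat_lit 42) (nat_lit 5) (nat_lit 46) (nat_lit 5) (nat_lit 47) (nat_lit 5) (nat_lit 277) (nat_lit 251) (nat_lit 192))) (XT.nd (nat_lit 78) (nat_lit 228) (nat_lit 0) (XT.lf (nat_lit 0) (nat_lit 532828564) (nat_lit 380) (nat_lit 1773937516) (nat_lit 76) (nat_lit 13102747812) (nat_lit 41) (nat_lit 5) (nat_lit 46) (nat_lit 5) (nat_lit 42) (nat_lit 5) (nat_lit 278) (nat_lit 251) (nat_lit 191)) (XT.nd (nat_lit 78) (nat_lit 0) (nat_lit 0) (XT.lf (nat_lit 0) (nat_lit 2923550071) (nat_lit 304) (nat_lit 10347957356) (nat_lit 76) (nat_lit 2626068427) (nat_lit 38) (nat_lit 5) (nat_lit 42) (nat_lit 5) (nat_lit 39) (nat_lit 5) (nat_lit 279) (nat_lit 251) (nat_lit 190)) (XT.lf (nat_lit 0) (nat_lit 5476674134)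 (nat_lit 304) (nat_lit 3179734832) (nat_lit 76) (nat_lit 7751550353) (nat_lit 38) (nat_lit 5) (nat_lit 42) (nat_lit 5) (nat_lit 39) (nat_lit 5) (nat_lit 280) (nat_lit 251) (nat_lit 189))))))) (XT.nd (nat_lit 702) (nat_lit 684) (nat_lit 0) (XT.nd (nat_lit 312) (nat_lit 456) (nat_lit 0) (XT.nd (nat_lit 156) (nat_lit 152) (nat_lit 0) (XT.nd (nat_lit 78) (nat_lit 0) (nat_lit 0) (XT.lf (nat_lit 0) (nat_lit 4457345400) (nat_lit 228) (nat_lit 3745429846) (nat_lit 304) (nat_lit 8738879454) (nat_lit 35) (nat_lit 5) (nat_lit 38) (nat_lit 5) (nat_lit 39) (nat_lit 5) (nat_lit 281) (nat_lit 251) (nat_lit 188)) (XT.lf (nat_lit 0) (nat_lit 11118209568) (nat_lit 304) (nat_lit 4968390383) (nat_lit 76) (nat_lit 1412839480) (nat_lit 35) (nat_lit 5) (nat_lit 39) (nat_lit 5) (nat_lit 36) (nat_lit 5) (nat_lit 282) (nat_lit 251) (nat_lit 187))) (XT.nd (nat_lit 78) (nat_lit 0) (nat_lit 0) (XT.lf (nat_lit 0)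 (nat_lit 2924274350) (nat_lit 152) (nat_lit 11339591971) (nat_lit 228) (nat_lit 3817077861) (nat_lit 33) (nat_lit 5) (nat_lit 35) (nat_lit 5) (nat_lit 36) (nat_lit 5) (nat_lit 283) (nat_lit 251) (nat_lit 186)) (XT.lf (nat_lit 0) (nat_lit 11353322879) (nat_lit 152) (nat_lit 6275615760) (nat_lit 228) (nat_lit 1059529680) (nat_lit 33) (nat_lit 5) (nat_lit 35) (nat_lit 5) (nat_lit 36) (nat_lit 5) (nat_lit 284) (nat_lit 251) (nat_lit 185)))) (XT.nd (nat_lit 156) (nat_lit 152) (nat_lit 0) (XT.nd (nat_lit 78) (nat_lit 0) (nat_lit 0) (XT.lf (nat_lit 0) (nat_lit 845834748) (nat_lit 228) (nat_lit 923155130) (nat_lit 304) (nat_lit 17556398965) (nat_lit 29) (nat_lit 5) (nat_lit 32) (nat_lit 5) (nat_lit 33) (nat_lit 5) (nat_lit 285) (nat_lit 251) (nat_lit 184)) (XT.lf (nat_lit 0) (nat_lit 4881988330) (nat_lit 304) (nat_lit 10420650263) (nat_lit 76) (nat_lit 4681759197) (nat_lit 29) (nat_lit 5) (nat_lit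 33) (nat_lit 5) (nat_lit 30) (nat_lit 5) (nat_lit 286) (nat_lit 251) (nat_lit 183))) (XT.nd (nat_lit 78) (nat_lit 152) (nat_lit 0) (XT.lf (nat_lit 0) (nat_lit 8145834340) (nat_lit 304) (nat_lit 2002974641) (nat_lit 76) (nat_lit 10527830102) (nat_lit 29) (nat_lit 5) (nat_lit 33) (nat_lit 5) (nat_lit 30) (nat_lit 5) (nat_lit 287) (nat_lit 251) (nat_lit 182)) (XT.nd (nat_lit 78) (nat_lit 0) (nat_lit 0) (XT.lf (nat_lit 0) (nat_lit 7033028737) (nat_lit 152) (nat_lit 4630662483) (nat_lit 228) (nat_lit 9735300081) (nat_lit 27) (nat_lit 5) (nat_lit 29) (nat_lit 5) (nat_lit 30) (nat_lit 5) (nat_lit 288) (nat_lit 251) (nat_lit 181)) (XT.lf (nat_lit 0) (nat_lit 15391438866) (nat_lit 228) (nat_lit 5612152078) (nat_lit 76) (nat_lit 1152208184) (nat_lit 27) (nat_lit 5) (nat_lit 30) (nat_lit 5) (nat_lit 28) (nat_lit 5) (nat_lit 289) (nat_lit 251) (nat_lit 180)))))) (XT.nd (nat_lit 312) (nat_lit 304)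 (nat_lit 0) (XT.nd (nat_lit 156) (nat_lit 228) (nat_lit 0) (XT.nd (nat_lit 78) (nat_lit 0) (nat_lit 0) (XT.lf (nat_lit 0) (nat_lit 3591689920) (nat_lit 152) (nat_lit 15828117285) (nat_lit 228) (nat_lit 3524964567) (nat_lit 25) (nat_lit 5) (nat_lit 27) (nat_lit 5) (nat_lit 28) (nat_lit 5) (nat_lit 290) (nat_lit 251) (nat_lit 179)) (XT.lf (nat_lit 0) (nat_lit 13424292942) (nat_lit 152) (nat_lit 10303025313) (nat_lit 228) (nat_lit 42022948) (nat_lit 25) (nat_lit 5) (nat_lit 27) (nat_lit 5) (nat_lit 28) (nat_lit 5) (nat_lit 291) (nat_lit 251) (nat_lit 178))) (XT.nd (nat_lit 78) (nat_lit 152) (nat_lit 0) (XT.lf (nat_lit 0) (nat_lit 3482563522) (nat_lit 228) (nat_lit 968662141) (nat_lit 76) (nat_lit 20181962433) (nat_lit 24) (nat_lit 5) (nat_lit 27) (nat_lit 5) (nat_lit 25) (nat_lit 5) (nat_lit 292) (nat_lit 251) (nat_lit 177)) (XT.lf (nat_lit 0) (nat_lit 7337390729) (nat_lit 228) (nat_lit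 16418404523) (nat_lit 76) (nat_lit 1776656144) (nat_lit 22) (nat_lit 5) (nat_lit 25) (nat_lit 5) (nat_lit 23) (nat_lit 5) (nat_lit 293) (nat_lit 251) (nat_lit 176)))) (XT.nd (nat_lit 156) (nat_lit 152) (nat_lit 0) (XT.nd (nat_lit 78) (nat_lit 152) (nat_lit 0) (XT.lf (nat_lit 0) (nat_lit 11458862493) (nat_lit 228) (nat_lit 6839249319) (nat_lit 76) (nat_lit 8174899165) (nat_lit 22) (nat_lit 5) (nat_lit 25) (nat_lit 5) (nat_lit 23) (nat_lit 5) (nat_lit 294) (nat_lit 251) (nat_lit 175)) (XT.lf (nat_lit 0) (nat_lit 3301018810) (nat_lit 152) (nat_lit 12521935372) (nat_lit 228) (nat_lit 11635843970) (nat_lit 20) (nat_lit 5) (nat_lit 22) (nat_lit 5) (nat_lit 23) (nat_lit 5) (nat_lit 295) (nat_lit 251) (nat_lit 174))) (XT.nd (nat_lit 78) (nat_lit 152) (nat_lit 0) (XT.lf (nat_lit 0) (nat_lit 14162624588) (nat_lit 152) (nat_lit 6343812991) (nat_lit 228) (nat_lit 7982403400) (nat_lit 20) (nat_lit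 5) (nat_lit 22) (nat_lit 5) (nat_lit 23) (nat_lit 5) (nat_lit 296) (nat_lit 251) (nat_lit 173)) (XT.nd (nat_lit 78) (nat_lit 152) (nat_lit 0) (XT.lf (nat_lit 0) (nat_lit 25412263262) (nat_lit 228) (nat_lit 4027924853) (nat_lit 76) (nat_lit 130813853) (nat_lit 20) (nat_lit 5) (nat_lit 23) (nat_lit 5) (nat_lit 21) (nat_lit 4) (nat_lit 297) (nat_lit 251) (nat_lit 172)) (XT.lf (nat_lit 0) (nat_lit 61952477) (nat_lit 152) (nat_lit 23818443862) (nat_lit 76) (nat_lit 6816947257) (nat_lit 18) (nat_lit 5) (nat_lit 20) (nat_lit 5) (nat_lit 19) (nat_lit 5) (nat_lit 298) (nat_lit 251) (nat_lit 171))))))))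
noncomputable def xc146 : XT := (XT.nd (nat_lit 1326) (nat_lit 304) (nat_lit 0) (XT.nd (nat_lit 624) (nat_lit 380) (nat_lit 0) (XT.nd (nat_lit 312) (nat_lit 152) (nat_lit 0) (XT.nd (nat_lit 156) (nat_lit 152) (nat_lit 0) (XT.nd (nat_lit 78) (nat_lit 0) (nat_lit 0) (XT.lf (nat_lit 0) (nat_lit 4409923605) (nat_lit 152) (nat_lit 13496630986) (nat_lit 76) (nat_lit 13967259700) (nat_lit 18) (nat_lit 5) (nat_lit 20) (nat_lit 5) (nat_lit 19) (nat_lit 5) (nat_lit 299) (nat_lit 251) (nat_lit 170)) (XT.lf (nat_lit 0) (nat_lit 8962601045) (nat_lit 152) (nat_lit 2679347570) (nat_lit 76) (nat_lit 21467814615) (nat_lit 18) (nat_lit 5) (nat_lit 20) (nat_lit 5) (nat_lit 19) (nat_lit 5) (nat_lit 300) (nat_lit 251) (nat_lit 169))) (XT.nd (nat_lit 78) (nat_lit 0) (nat_lit 0) (XT.lf (nat_lit 0) (nat_lit 8945472816) (nat_lit 152) (nat_lit 4925015588) (nat_lit 228) (nat_lit 20530661548) (nat_lit 16) (nat_lit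 5) (nat_lit 18) (nat_lit 5) (nat_lit 19) (nat_lit 5) (nat_lit 301) (nat_lit 251) (nat_lit 168)) (XT.lf (nat_lit 0) (nat_lit 19091179293) (nat_lit 228) (nat_lit 14564059478) (nat_lit 76) (nat_lit 2098515009) (nat_lit 16) (nat_lit 5) (nat_lit 19) (nat_lit 5) (nat_lit 17) (nat_lit 4) (nat_lit 302) (nat_lit 251) (nat_lit 167)))) (XT.nd (nat_lit 156) (nat_lit 76) (nat_lit 0) (XT.nd (nat_lit 78) (nat_lit 76) (nat_lit 0) (XT.lf (nat_lit 0) (nat_lit 24642279719) (nat_lit 228) (nat_lit 3227468572) (nat_lit 76) (nat_lit 9300788120) (nat_lit 16) (nat_lit 5) (nat_lit 19) (nat_lit 5) (nat_lit 17) (nat_lit 4) (nat_lit 303) (nat_lit 251) (nat_lit 166)) (XT.lf (nat_lit 0) (nat_lit 8944252705) (nat_lit 76) (nat_lit 21655505439) (nat_lit 152) (nat_lit 8051975414) (nat_lit 15) (nat_lit 5) (nat_lit 16) (nat_lit 5) (nat_lit 17) (nat_lit 4) (nat_lit 304) (nat_lit 251) (nat_lit 165))) (XT.nd (nat_lit 78)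 (nat_lit 76) (nat_lit 0) (XT.lf (nat_lit 0) (nat_lit 21818929204) (nat_lit 76) (nat_lit 15080257425) (nat_lit 152) (nat_lit 3305615870) (nat_lit 15) (nat_lit 5) (nat_lit 16) (nat_lit 5) (nat_lit 17) (nat_lit 4) (nat_lit 305) (nat_lit 251) (nat_lit 164)) (XT.lf (nat_lit 0) (nat_lit 1614094791) (nat_lit 152) (nat_lit 6541577374) (nat_lit 76) (nat_lit 33679069965) (nat_lit 14) (nat_lit 5) (nat_lit 16) (nat_lit 5) (nat_lit 15) (nat_lit 5) (nat_lit 306) (nat_lit 251) (nat_lit 163))))) (XT.nd (nat_lit 312) (nat_lit 228) (nat_lit 0) (XT.nd (nat_lit 156) (nat_lit 0) (nat_lit 0) (XT.nd (nat_lit 78) (nat_lit 0) (nat_lit 0) (XT.lf (nat_lit 0) (nat_lit 6016948791) (nat_lit 152) (nat_lit 735923344) (nat_lit 228) (nat_lit 36786402108) (nat_lit 12) (nat_lit 5) (nat_lit 14) (nat_lit 5) (nat_lit 15) (nat_lit 5) (nat_lit 307) (nat_lit 251) (nat_lit 162)) (XT.lf (nat_lit 0) (nat_lit 12361676150) (nat_lit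 228) (nat_lit 26021443620) (nat_lit 76) (nat_lit 6935271760) (nat_lit 12) (nat_lit 5) (nat_lit 15) (nat_lit 5) (nat_lit 13) (nat_lit 4) (nat_lit 308) (nat_lit 251) (nat_lit 161))) (XT.nd (nat_lit 78) (nat_lit 0) (nat_lit 0) (XT.lf (nat_lit 0) (nat_lit 18253786088) (nat_lit 228) (nat_lit 13973294783) (nat_lit 76) (nat_lit 14959252860) (nat_lit 12) (nat_lit 5) (nat_lit 15) (nat_lit 5) (nat_lit 13) (nat_lit 4) (nat_lit 309) (nat_lit 251) (nat_lit 160)) (XT.lf (nat_lit 0) (nat_lit 24431740958) (nat_lit 228) (nat_lit 1337703048) (nat_lit 76) (nat_lit 23378678815) (nat_lit 12) (nat_lit 5) (nat_lit 15) (nat_lit 5) (nat_lit 13) (nat_lit 4) (nat_lit 310) (nat_lit 251) (nat_lit 159)))) (XT.nd (nat_lit 156) (nat_lit 152) (nat_lit 0) (XT.nd (nat_lit 78) (nat_lit 0) (nat_lit 0) (XT.lf (nat_lit 0) (nat_lit 12309393803) (nat_lit 76) (nat_lit 18793040508) (nat_lit 152) (nat_lit 20096386207) (nat_lit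 11) (nat_lit 5) (nat_lit 12) (nat_lit 5) (nat_lit 13) (nat_lit 4) (nat_lit 311) (nat_lit 251) (nat_lit 158)) (XT.lf (nat_lit 0) (nat_lit 26671265450) (nat_lit 76) (nat_lit 11449886515) (nat_lit 152) (nat_lit 15230187310) (nat_lit 11) (nat_lit 5) (nat_lit 12) (nat_lit 5) (nat_lit 13) (nat_lit 4) (nat_lit 312) (nat_lit 251) (nat_lit 157))) (XT.nd (nat_lit 78) (nat_lit 152) (nat_lit 0) (XT.lf (nat_lit 0) (nat_lit 41737876321) (nat_lit 76) (nat_lit 3745152978) (nat_lit 152) (nat_lit 10128853632) (nat_lit 11) (nat_lit 5) (nat_lit 12) (nat_lit 5) (nat_lit 13) (nat_lit 4) (nat_lit 313) (nat_lit 251) (nat_lit 156)) (XT.nd (nat_lit 78) (nat_lit 152) (nat_lit 0) (XT.lf (nat_lit 0) (nat_lit 53273346421) (nat_lit 152) (nat_lit 508486262) (nat_lit 0) (nat_lit 4200613457) (nat_lit 11) (nat_lit 5) (nat_lit 13) (nat_lit 4) (nat_lit 11) (nat_lit 4) (nat_lit 314) (nat_lit 251) (nat_lit 155)) (XT.lf (nat_lit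 0) (nat_lit 1225884280) (nat_lit 152) (nat_lit 46581471429) (nat_lit 76) (nat_lit 12649641206) (nat_lit 9) (nat_lit 5) (nat_lit 11) (nat_lit 5) (nat_lit 10) (nat_lit 4) (nat_lit 315) (nat_lit 251) (nat_lit 154))))))) (XT.nd (nat_lit 702) (nat_lit 152) (nat_lit 0) (XT.nd (nat_lit 312) (nat_lit 76) (nat_lit 0) (XT.nd (nat_lit 156) (nat_lit 76) (nat_lit 0) (XT.nd (nat_lit 78) (nat_lit 0) (nat_lit 0) (XT.lf (nat_lit 0) (nat_lit 7301007501) (nat_lit 152) (nat_lit 34148231913) (nat_lit 76) (nat_lit 21602101915) (nat_lit 9) (nat_lit 5) (nat_lit 11) (nat_lit 5) (nat_lit 10) (nat_lit 4) (nat_lit 316) (nat_lit 251) (nat_lit 153)) (XT.lf (nat_lit 0) (nat_lit 13673119281) (nat_lit 152) (nat_lit 21105177133) (nat_lit 76) (nat_lit 30997452883) (nat_lit 9) (nat_lit 5) (nat_lit 11) (nat_lit 5) (nat_lit 10) (nat_lit 4) (nat_lit 317) (nat_lit 251) (nat_lit 152))) (XT.nd (nat_lit 78) (nat_lit 76) (nat_lit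 0) (XT.lf (nat_lit 0) (nat_lit 20357391314) (nat_lit 152) (nat_lit 7421252197) (nat_lit 76) (nat_lit 40858063993) (nat_lit 9) (nat_lit 5) (nat_lit 11) (nat_lit 5) (nat_lit 10) (nat_lit 4) (nat_lit 318) (nat_lit 251) (nat_lit 151)) (XT.lf (nat_lit 0) (nat_lit 7165463242) (nat_lit 76) (nat_lit 20316148255) (nat_lit 152) (nat_lit 44153822611) (nat_lit 8) (nat_lit 5) (nat_lit 9) (nat_lit 5) (nat_lit 10) (nat_lit 4) (nat_lit 319) (nat_lit 251) (nat_lit 150)))) (XT.nd (nat_lit 156) (nat_lit 76) (nat_lit 0) (XT.nd (nat_lit 78) (nat_lit 0) (nat_lit 0) (XT.lf (nat_lit 0) (nat_lit 22728591566) (nat_lit 76) (nat_lit 12353122451) (nat_lit 152) (nat_lit 39696406327) (nat_lit 8) (nat_lit 5) (nat_lit 9) (nat_lit 5) (nat_lit 10) (nat_lit 4) (nat_lit 320) (nat_lit 251) (nat_lit 149)) (XT.lf (nat_lit 0) (nat_lit 39059807730) (nat_lit 76) (nat_lit 3996289012) (nat_lit 152) (nat_lit 35022136940) (nat_lit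 8) (nat_lit 5) (nat_lit 9) (nat_lit 5) (nat_lit 10) (nat_lit 4) (nat_lit 321) (nat_lit 251) (nat_lit 148))) (XT.nd (nat_lit 78) (nat_lit 76) (nat_lit 0) (XT.lf (nat_lit 0) (nat_lit 51498285708) (nat_lit 152) (nat_lit 25420175364) (nat_lit 0) (nat_lit 4621443491) (nat_lit 8) (nat_lit 5) (nat_lit 10) (nat_lit 4) (nat_lit 8) (nat_lit 4) (nat_lit 322) (nat_lit 251) (nat_lit 147)) (XT.nd (nat_lit 78) (nat_lit 76) (nat_lit 0) (XT.lf (nat_lit 0) (nat_lit 60422842872) (nat_lit 152) (nat_lit 11216861732) (nat_lit 0) (nat_lit 13531947380) (nat_lit 8) (nat_lit 5) (nat_lit 10) (nat_lit 4) (nat_lit 8) (nat_lit 4) (nat_lit 323) (nat_lit 251) (nat_lit 146)) (XT.lf (nat_lit 0) (nat_lit 3809658490) (nat_lit 76) (nat_lit 66038444865) (nat_lit 76) (nat_lit 19134165302) (nat_lit 7) (nat_lit 4) (nat_lit 8) (nat_lit 5) (nat_lit 8) (nat_lit 4) (nat_lit 324) (nat_lit 251) (nat_lit 145)))))) (XT.nd (nat_lit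 312) (nat_lit 76) (nat_lit 0) (XT.nd (nat_lit 156) (nat_lit 76) (nat_lit 0) (XT.nd (nat_lit 78) (nat_lit 0) (nat_lit 0) (XT.lf (nat_lit 0) (nat_lit 19968180299) (nat_lit 76) (nat_lit 59961507254) (nat_lit 76) (nat_lit 13044480957) (nat_lit 7) (nat_lit 4) (nat_lit 8) (nat_lit 5) (nat_lit 8) (nat_lit 4) (nat_lit 325) (nat_lit 251) (nat_lit 144)) (XT.lf (nat_lit 0) (nat_lit 36926296259) (nat_lit 76) (nat_lit 53584385855) (nat_lit 76) (nat_lit 6655219810) (nat_lit 7) (nat_lit 4) (nat_lit 8) (nat_lit 5) (nat_lit 8) (nat_lit 4) (nat_lit 326) (nat_lit 251) (nat_lit 143))) (XT.nd (nat_lit 78) (nat_lit 0) (nat_lit 0) (XT.lf (nat_lit 0) (nat_lit 47267777) (nat_lit 152) (nat_lit 46843828764) (nat_lit 76) (nat_lit 54676314558) (nat_lit 6) (nat_lit 5) (nat_lit 8) (nat_lit 5) (nat_lit 7) (nat_lit 4) (nat_lit 327) (nat_lit 251) (nat_lit 142)) (XT.lf (nat_lit 0) (nat_lit 6856912012) (nat_lit 152) (nat_lit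 32895069190) (nat_lit 76) (nat_lit 66431779295) (nat_lit 6) (nat_lit 5) (nat_lit 8) (nat_lit 5) (nat_lit 7) (nat_lit 4) (nat_lit 328) (nat_lit 251) (nat_lit 141)))) (XT.nd (nat_lit 156) (nat_lit 76) (nat_lit 0) (XT.nd (nat_lit 78) (nat_lit 0) (nat_lit 0) (XT.lf (nat_lit 0) (nat_lit 14002934930) (nat_lit 152) (nat_lit 18256208977) (nat_lit 76) (nat_lit 78771992852) (nat_lit 6) (nat_lit 5) (nat_lit 8) (nat_lit 5) (nat_lit 7) (nat_lit 4) (nat_lit 329) (nat_lit 251) (nat_lit 140)) (XT.lf (nat_lit 0) (nat_lit 21502350871) (nat_lit 152) (nat_lit 2892393698) (nat_lit 76) (nat_lit 91726336689) (nat_lit 6) (nat_lit 5) (nat_lit 8) (nat_lit 5) (nat_lit 7) (nat_lit 4) (nat_lit 330) (nat_lit 251) (nat_lit 139))) (XT.nd (nat_lit 78) (nat_lit 0) (nat_lit 0) (XT.lf (nat_lit 0) (nat_lit 13670498485) (nat_lit 76) (nat_lit 15915951895) (nat_lit 152) (nat_lit 91868590789) (nat_lit 5) (nat_lit 5) (nat_lit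 6) (nat_lit 5) (nat_lit 7) (nat_lit 4) (nat_lit 331) (nat_lit 251) (nat_lit 138)) (XT.nd (nat_lit 78) (nat_lit 0) (nat_lit 0) (XT.lf (nat_lit 0) (nat_lit 31155404814) (nat_lit 76) (nat_lit 6964687125) (nat_lit 152) (nat_lit 88933343927) (nat_lit 5) (nat_lit 5) (nat_lit 6) (nat_lit 5) (nat_lit 7) (nat_lit 4) (nat_lit 332) (nat_lit 251) (nat_lit 137)) (XT.lf (nat_lit 0) (nat_lit 47114902857) (nat_lit 152) (nat_lit 83461567642) (nat_lit 0) (nat_lit 2353558902) (nat_lit 5) (nat_lit 5) (nat_lit 7) (nat_lit 4) (nat_lit 5) (nat_lit 4) (nat_lit 333) (nat_lit 251) (nat_lit 136))))))))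
noncomputable def xc147 : XT := (XT.nd (nat_lit 1326) (nat_lit 76) (nat_lit 0) (XT.nd (nat_lit 624) (nat_lit 76) (nat_lit 0) (XT.nd (nat_lit 312) (nat_lit 76) (nat_lit 0) (XT.nd (nat_lit 156) (nat_lit 0) (nat_lit 0) (XT.nd (nat_lit 78) (nat_lit 0) (nat_lit 0) (XT.lf (nat_lit 0) (nat_lit 56670280492) (nat_lit 152) (nat_lit 70523522970) (nat_lit 0) (nat_lit 11901111148) (nat_lit 5) (nat_lit 5) (nat_lit 7) (nat_lit 4) (nat_lit 5) (nat_lit 4) (nat_lit 334) (nat_lit 251) (nat_lit 135)) (XT.lf (nat_lit 0) (nat_lit 66700237459) (nat_lit 152) (nat_lit 56944353882) (nat_lit 0) (nat_lit 21923615363) (nat_lit 5) (nat_lit 5) (nat_lit 7) (nat_lit 4) (nat_lit 5) (nat_lit 4) (nat_lit 335) (nat_lit 251) (nat_lit 134))) (XT.nd (nat_lit 78) (nat_lit 0) (nat_lit 0) (XT.lf (nat_lit 0) (nat_lit 77228654608) (nat_lit 152) (nat_lit 42691729024) (nat_lit 0) (nat_lit 32444934653) (nat_lit 5) (nat_lit 5) (nat_lit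 7) (nat_lit 4) (nat_lit 5) (nat_lit 4) (nat_lit 336) (nat_lit 251) (nat_lit 133)) (XT.lf (nat_lit 0) (nat_lit 88280599597) (nat_lit 152) (nat_lit 27731713573) (nat_lit 0) (nat_lit 43490119777) (nat_lit 5) (nat_lit 5) (nat_lit 7) (nat_lit 4) (nat_lit 5) (nat_lit 4) (nat_lit 337) (nat_lit 251) (nat_lit 132)))) (XT.nd (nat_lit 156) (nat_lit 0) (nat_lit 0) (XT.nd (nat_lit 78) (nat_lit 76) (nat_lit 0) (XT.lf (nat_lit 0) (nat_lit 99882386583) (nat_lit 152) (nat_lit 12028688447) (nat_lit 0) (nat_lit 55085468796) (nat_lit 5) (nat_lit 5) (nat_lit 7) (nat_lit 4) (nat_lit 5) (nat_lit 4) (nat_lit 338) (nat_lit 251) (nat_lit 131)) (XT.lf (nat_lit 0) (nat_lit 4602028151) (nat_lit 76) (nat_lit 107531461273) (nat_lit 76) (nat_lit 62728412088) (nat_lit 4) (nat_lit 4) (nat_lit 5) (nat_lit 5) (nat_lit 5) (nat_lit 4) (nat_lit 339) (nat_lit 251) (nat_lit 130))) (XT.nd (nat_lit 78) (nat_lit 0) (nat_lit 0)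 (XT.lf (nat_lit 0) (nat_lit 22477212724) (nat_lit 76) (nat_lit 102721074229) (nat_lit 76) (nat_lit 57912185618) (nat_lit 4) (nat_lit 4) (nat_lit 5) (nat_lit 5) (nat_lit 5) (nat_lit 4) (nat_lit 340) (nat_lit 251) (nat_lit 129)) (XT.lf (nat_lit 0) (nat_lit 41241702471) (nat_lit 76) (nat_lit 97672172255) (nat_lit 76) (nat_lit 52857722287) (nat_lit 4) (nat_lit 4) (nat_lit 5) (nat_lit 5) (nat_lit 5) (nat_lit 4) (nat_lit 341) (nat_lit 251) (nat_lit 128))))) (XT.nd (nat_lit 312) (nat_lit 76) (nat_lit 0) (XT.nd (nat_lit 156) (nat_lit 0) (nat_lit 0) (XT.nd (nat_lit 78) (nat_lit 0) (nat_lit 0) (XT.lf (nat_lit 0) (nat_lit 60940174749) (nat_lit 76) (nat_lit 92372734157) (nat_lit 76) (nat_lit 47552987657) (nat_lit 4) (nat_lit 4) (nat_lit 5) (nat_lit 5) (nat_lit 5) (nat_lit 4) (nat_lit 342) (nat_lit 251) (nat_lit 127)) (XT.lf (nat_lit 0) (nat_lit 81619530683) (nat_lit 76) (nat_lit 86810142224) (nat_lit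 76) (nat_lit 41985351408) (nat_lit 4) (nat_lit 4) (nat_lit 5) (nat_lit 5) (nat_lit 5) (nat_lit 4) (nat_lit 343) (nat_lit 251) (nat_lit 126))) (XT.nd (nat_lit 78) (nat_lit 0) (nat_lit 0) (XT.lf (nat_lit 0) (nat_lit 103329006833) (nat_lit 76) (nat_lit 80971152190) (nat_lit 76) (nat_lit 36141557264) (nat_lit 4) (nat_lit 4) (nat_lit 5) (nat_lit 5) (nat_lit 5) (nat_lit 4) (nat_lit 344) (nat_lit 251) (nat_lit 125)) (XT.lf (nat_lit 0) (nat_lit 126120292430) (nat_lit 76) (nat_lit 74841861697) (nat_lit 76) (nat_lit 30007691429) (nat_lit 4) (nat_lit 4) (nat_lit 5) (nat_lit 5) (nat_lit 5) (nat_lit 4) (nat_lit 345) (nat_lit 251) (nat_lit 124)))) (XT.nd (nat_lit 156) (nat_lit 76) (nat_lit 0) (XT.nd (nat_lit 78) (nat_lit 0) (nat_lit 0) (XT.lf (nat_lit 0) (nat_lit 150047652438) (nat_lit 76) (nat_lit 68407677198) (nat_lit 76) (nat_lit 23569149460) (nat_lit 4) (nat_lit 4) (nat_lit 5) (nat_lit 5) (nat_lit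 5) (nat_lit 4) (nat_lit 346) (nat_lit 251) (nat_lit 123)) (XT.lf (nat_lit 0) (nat_lit 175168056763) (nat_lit 76) (nat_lit 61653279205) (nat_lit 76) (nat_lit 16810601496) (nat_lit 4) (nat_lit 4) (nat_lit 5) (nat_lit 5) (nat_lit 5) (nat_lit 4) (nat_lit 347) (nat_lit 251) (nat_lit 122))) (XT.nd (nat_lit 78) (nat_lit 76) (nat_lit 0) (XT.lf (nat_lit 0) (nat_lit 201541315891) (nat_lit 76) (nat_lit 54562585817) (nat_lit 76) (nat_lit 9715955755) (nat_lit 4) (nat_lit 4) (nat_lit 5) (nat_lit 5) (nat_lit 5) (nat_lit 4) (nat_lit 348) (nat_lit 251) (nat_lit 121)) (XT.nd (nat_lit 78) (nat_lit 76) (nat_lit 0) (XT.lf (nat_lit 0) (nat_lit 229230223296) (nat_lit 76) (nat_lit 47118714433) (nat_lit 76) (nat_lit 2268320224) (nat_lit 4) (nat_lit 4) (nat_lit 5) (nat_lit 5) (nat_lit 5) (nat_lit 4) (nat_lit 349) (nat_lit 251) (nat_lit 120)) (XT.lf (nat_lit 0) (nat_lit 5372401698) (nat_lit 152) (nat_lit 33840555627)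 (nat_lit 76) (nat_lit 252837319028) (nat_lit 3) (nat_lit 5) (nat_lit 5) (nat_lit 5) (nat_lit 4) (nat_lit 4) (nat_lit 350) (nat_lit 251) (nat_lit 119))))))) (XT.nd (nat_lit 29874) (nat_lit 0) (nat_lit 6156) (XT.nd (nat_lit 312) (nat_lit 0) (nat_lit 0) (XT.nd (nat_lit 156) (nat_lit 76) (nat_lit 0) (XT.nd (nat_lit 78) (nat_lit 0) (nat_lit 0) (XT.lf (nat_lit 0) (nat_lit 13317399373) (nat_lit 152) (nat_lit 17556724583) (nat_lit 76) (nat_lit 275279040304) (nat_lit 3) (nat_lit 5) (nat_lit 5) (nat_lit 5) (nat_lit 4) (nat_lit 4) (nat_lit 351) (nat_lit 251) (nat_lit 118)) (XT.lf (nat_lit 0) (nat_lit 21658189875) (nat_lit 152) (nat_lit 461355666) (nat_lit 76) (nat_lit 298841725185) (nat_lit 3) (nat_lit 5) (nat_lit 5) (nat_lit 5) (nat_lit 4) (nat_lit 4) (nat_lit 352) (nat_lit 251) (nat_lit 117))) (XT.nd (nat_lit 78) (nat_lit 0) (nat_lit 0) (XT.lf (nat_lit 0) (nat_lit 18064428924) (nat_lit 76) (nat_lit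 12632239664) (nat_lit 152) (nat_lit 305799082736) (nat_lit 2) (nat_lit 5) (nat_lit 3) (nat_lit 5) (nat_lit 4) (nat_lit 4) (nat_lit 353) (nat_lit 251) (nat_lit 116)) (XT.lf (nat_lit 0) (nat_lit 37530033423) (nat_lit 76) (nat_lit 2663490680) (nat_lit 152) (nat_lit 312613110393) (nat_lit 2) (nat_lit 5) (nat_lit 3) (nat_lit 5) (nat_lit 4) (nat_lit 4) (nat_lit 354) (nat_lit 251) (nat_lit 115)))) (XT.nd (nat_lit 156) (nat_lit 0) (nat_lit 0) (XT.nd (nat_lit 78) (nat_lit 0) (nat_lit 0) (XT.lf (nat_lit 0) (nat_lit 50285747576) (nat_lit 152) (nat_lit 312088398550) (nat_lit 0) (nat_lit 7552890572) (nat_lit 2) (nat_lit 5) (nat_lit 4) (nat_lit 4) (nat_lit 2) (nat_lit 4) (nat_lit 355) (nat_lit 251) (nat_lit 114)) (XT.lf (nat_lit 0) (nat_lit 60924996118) (nat_lit 152) (nat_lit 308786751880) (nat_lit 0) (nat_lit 18189591391) (nat_lit 2) (nat_lit 5) (nat_lit 4) (nat_lit 4) (nat_lit 2) (nat_lit 4) (nat_lit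 356) (nat_lit 251) (nat_lit 113))) (XT.nd (nat_lit 78) (nat_lit 0) (nat_lit 0) (XT.lf (nat_lit 0) (nat_lit 72095016720) (nat_lit 152) (nat_lit 305322215447) (nat_lit 0) (nat_lit 29357185592) (nat_lit 2) (nat_lit 5) (nat_lit 4) (nat_lit 4) (nat_lit 2) (nat_lit 4) (nat_lit 357) (nat_lit 251) (nat_lit 112)) (XT.nd (nat_lit 29250) (nat_lit 0) (nat_lit 6688) (XT.lf (nat_lit 0) (nat_lit 83822404670) (nat_lit 152) (nat_lit 301686540355) (nat_lit 0) (nat_lit 41082262683) (nat_lit 2) (nat_lit 5) (nat_lit 4) (nat_lit 4) (nat_lit 2) (nat_lit 4) (nat_lit 358) (nat_lit 251) (nat_lit 111)) (XT.lf (nat_lit 0) (nat_lit 1068678120) (nat_lit 0) (nat_lit 1068678120) (nat_lit 532) (nat_lit 1941573678) (nat_lit 90) (nat_lit 5) (nat_lit 90) (nat_lit 3) (nat_lit 97) (nat_lit 3) (nat_lit 252) (nat_lit 252) (nat_lit 216)))))) (XT.nd (nat_lit 312) (nat_lit 0) (nat_lit 0) (XT.nd (nat_lit 156) (nat_lit 532) (nat_lit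 0) (XT.nd (nat_lit 78) (nat_lit 0) (nat_lit 0) (XT.lf (nat_lit 0) (nat_lit 5430192552) (nat_lit 532) (nat_lit 2471374910) (nat_lit 608) (nat_lit 403839140) (nat_lit 90) (nat_lit 5) (nat_lit 97) (nat_lit 3) (nat_lit 98) (nat_lit 5) (nat_lit 253) (nat_lit 252) (nat_lit 215)) (XT.lf (nat_lit 76) (nat_lit 1221813392) (nat_lit 0) (nat_lit 5409561201) (nat_lit 608) (nat_lit 1829813786) (nat_lit 91) (nat_lit 5) (nat_lit 90) (nat_lit 5) (nat_lit 98) (nat_lit 5) (nat_lit 254) (nat_lit 252) (nat_lit 214))) (XT.nd (nat_lit 78) (nat_lit 532) (nat_lit 0) (XT.lf (nat_lit 76) (nat_lit 5148602071) (nat_lit 0) (nat_lit 2722257266) (nat_lit 608) (nat_lit 755229703) (nat_lit 91) (nat_lit 5) (nat_lit 90) (nat_lit 5) (nat_lit 98) (nat_lit 5) (nat_lit 255) (nat_lit 252) (nat_lit 213)) (XT.lf (nat_lit 0) (nat_lit 308411876) (nat_lit 608) (nat_lit 8360551035) (nat_lit 684) (nat_lit 132836591) (nat_lit 83)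 (nat_lit 5) (nat_lit 91) (nat_lit 5) (nat_lit 92) (nat_lit 5) (nat_lit 256) (nat_lit 252) (nat_lit 212)))) (XT.nd (nat_lit 156) (nat_lit 0) (nat_lit 76) (XT.nd (nat_lit 78) (nat_lit 0) (nat_lit 0) (XT.lf (nat_lit 0) (nat_lit 1445265532) (nat_lit 608) (nat_lit 4404971888) (nat_lit 684) (nat_lit 3133377521) (nat_lit 83) (nat_lit 5) (nat_lit 91) (nat_lit 5) (nat_lit 92) (nat_lit 5) (nat_lit 257) (nat_lit 252) (nat_lit 211)) (XT.lf (nat_lit 0) (nat_lit 2582700076) (nat_lit 608) (nat_lit 289993573) (nat_lit 684) (nat_lit 6304839665) (nat_lit 83) (nat_lit 5) (nat_lit 91) (nat_lit 5) (nat_lit 92) (nat_lit 5) (nat_lit 258) (nat_lit 252) (nat_lit 210))) (XT.nd (nat_lit 78) (nat_lit 0) (nat_lit 0) (XT.lf (nat_lit 0) (nat_lit 3793129358) (nat_lit 608) (nat_lit 5259831455) (nat_lit 684) (nat_lit 327570235) (nat_lit 84) (nat_lit 5) (nat_lit 92) (nat_lit 5) (nat_lit 93) (nat_lit 5) (nat_lit 259)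 (nat_lit 252) (nat_lit 209)) (XT.nd (nat_lit 78) (nat_lit 0) (nat_lit 0) (XT.lf (nat_lit 0) (nat_lit 5064816580) (nat_lit 608) (nat_lit 917578469) (nat_lit 684) (nat_lit 3611427361) (nat_lit 84) (nat_lit 5) (nat_lit 92) (nat_lit 5) (nat_lit 93) (nat_lit 5) (nat_lit 260) (nat_lit 252) (nat_lit 208)) (XT.lf (nat_lit 76) (nat_lit 3723862743) (nat_lit 0) (nat_lit 2685461967) (nat_lit 684) (nat_lit 3408163770) (nat_lit 85) (nat_lit 5) (nat_lit 84) (nat_lit 5) (nat_lit 93) (nat_lit 5) (nat_lit 261) (nat_lit 252) (nat_lit 207))))))))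
noncomputable def xc148 : XT := (XT.nd (nat_lit 1326) (nat_lit 1672) (nat_lit 0) (XT.nd (nat_lit 624) (nat_lit 1216) (nat_lit 0) (XT.nd (nat_lit 312) (nat_lit 684) (nat_lit 0) (XT.nd (nat_lit 156) (nat_lit 760) (nat_lit 0) (XT.nd (nat_lit 78) (nat_lit 608) (nat_lit 0) (XT.lf (nat_lit 0) (nat_lit 7801994402) (nat_lit 608) (nat_lit 1473903572) (nat_lit 76) (nat_lit 777556848) (nat_lit 85) (nat_lit 5) (nat_lit 93) (nat_lit 5) (nat_lit 86) (nat_lit 5) (nat_lit 262) (nat_lit 252) (nat_lit 206)) (XT.lf (nat_lit 0) (nat_lit 3404410042) (nat_lit 608) (nat_lit 5912322242) (nat_lit 684) (nat_lit 982021443) (nat_lit 77) (nat_lit 5) (nat_lit 85) (nat_lit 5) (nat_lit 86) (nat_lit 5) (nat_lit 263) (nat_lit 252) (nat_lit 205))) (XT.nd (nat_lit 78) (nat_lit 684) (nat_lit 0) (XT.lf (nat_lit 0) (nat_lit 320992999) (nat_lit 684) (nat_lit 2021475583) (nat_lit 76) (nat_lit 8214649844) (nat_lit 76) (nat_lit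 5) (nat_lit 85) (nat_lit 5) (nat_lit 77) (nat_lit 5) (nat_lit 264) (nat_lit 252) (nat_lit 204)) (XT.lf (nat_lit 0) (nat_lit 1686390913) (nat_lit 760) (nat_lit 7707446948) (nat_lit 76) (nat_lit 1432381550) (nat_lit 67) (nat_lit 5) (nat_lit 77) (nat_lit 5) (nat_lit 68) (nat_lit 5) (nat_lit 265) (nat_lit 252) (nat_lit 203)))) (XT.nd (nat_lit 156) (nat_lit 380) (nat_lit 0) (XT.nd (nat_lit 78) (nat_lit 304) (nat_lit 0) (XT.lf (nat_lit 0) (nat_lit 3152824427) (nat_lit 760) (nat_lit 2597951706) (nat_lit 76) (nat_lit 5356489351) (nat_lit 67) (nat_lit 5) (nat_lit 77) (nat_lit 5) (nat_lit 68) (nat_lit 5) (nat_lit 266) (nat_lit 252) (nat_lit 202)) (XT.lf (nat_lit 0) (nat_lit 2820983948) (nat_lit 304) (nat_lit 1877133122) (nat_lit 380) (nat_lit 6704092129) (nat_lit 63) (nat_lit 5) (nat_lit 67) (nat_lit 5) (nat_lit 68) (nat_lit 5) (nat_lit 267) (nat_lit 252) (nat_lit 201))) (XT.nd (nat_lit 78) (nat_lit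 380) (nat_lit 0) (XT.lf (nat_lit 0) (nat_lit 6362381176) (nat_lit 380) (nat_lit 3181293938) (nat_lit 76) (nat_lit 2166256041) (nat_lit 63) (nat_lit 5) (nat_lit 68) (nat_lit 5) (nat_lit 64) (nat_lit 5) (nat_lit 268) (nat_lit 252) (nat_lit 200)) (XT.lf (nat_lit 0) (nat_lit 2501999141) (nat_lit 380) (nat_lit 5642259953) (nat_lit 456) (nat_lit 3887170935) (nat_lit 58) (nat_lit 5) (nat_lit 63) (nat_lit 5) (nat_lit 64) (nat_lit 5) (nat_lit 269) (nat_lit 252) (nat_lit 199))))) (XT.nd (nat_lit 312) (nat_lit 532) (nat_lit 0) (XT.nd (nat_lit 156) (nat_lit 380) (nat_lit 0) (XT.nd (nat_lit 78) (nat_lit 304) (nat_lit 0) (XT.lf (nat_lit 0) (nat_lit 8544542199) (nat_lit 380) (nat_lit 1490265470) (nat_lit 456) (nat_lit 2333322911) (nat_lit 58) (nat_lit 5) (nat_lit 63) (nat_lit 5) (nat_lit 64) (nat_lit 5) (nat_lit 270) (nat_lit 252) (nat_lit 198)) (XT.lf (nat_lit 0) (nat_lit 2156369063) (nat_lit 304)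 (nat_lit 9909297389) (nat_lit 380) (nat_lit 653811115) (nat_lit 54) (nat_lit 5) (nat_lit 58) (nat_lit 5) (nat_lit 59) (nat_lit 5) (nat_lit 271) (nat_lit 252) (nat_lit 197))) (XT.nd (nat_lit 78) (nat_lit 304) (nat_lit 0) (XT.lf (nat_lit 0) (nat_lit 1132124414) (nat_lit 380) (nat_lit 4595884604) (nat_lit 76) (nat_lit 7356709588) (nat_lit 53) (nat_lit 5) (nat_lit 58) (nat_lit 5) (nat_lit 54) (nat_lit 5) (nat_lit 272) (nat_lit 252) (nat_lit 196)) (XT.lf (nat_lit 0) (nat_lit 1678432237) (nat_lit 304) (nat_lit 1302412666) (nat_lit 380) (nat_lit 10487154713) (nat_lit 49) (nat_lit 5) (nat_lit 53) (nat_lit 5) (nat_lit 54) (nat_lit 5) (nat_lit 273) (nat_lit 252) (nat_lit 195)))) (XT.nd (nat_lit 156) (nat_lit 304) (nat_lit 0) (XT.nd (nat_lit 78) (nat_lit 228) (nat_lit 0) (XT.lf (nat_lit 0) (nat_lit 5023459387) (nat_lit 380) (nat_lit 5529251364) (nat_lit 76) (nat_lit 3312743745) (nat_lit 49) (nat_lit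 5) (nat_lit 54) (nat_lit 5) (nat_lit 50) (nat_lit 5) (nat_lit 274) (nat_lit 252) (nat_lit 194)) (XT.lf (nat_lit 0) (nat_lit 1021884085) (nat_lit 228) (nat_lit 6155180329) (nat_lit 304) (nat_lit 7105353495) (nat_lit 46) (nat_lit 5) (nat_lit 49) (nat_lit 5) (nat_lit 50) (nat_lit 5) (nat_lit 275) (nat_lit 252) (nat_lit 193))) (XT.nd (nat_lit 78) (nat_lit 304) (nat_lit 0) (XT.lf (nat_lit 0) (nat_lit 8059528579) (nat_lit 228) (nat_lit 1444855143) (nat_lit 304) (nat_lit 5212619098) (nat_lit 46) (nat_lit 5) (nat_lit 49) (nat_lit 5) (nat_lit 50) (nat_lit 5) (nat_lit 276) (nat_lit 252) (nat_lit 192)) (XT.nd (nat_lit 78) (nat_lit 0) (nat_lit 0) (XT.lf (nat_lit 0) (nat_lit 194560671) (nat_lit 304) (nat_lit 11784833889) (nat_lit 380) (nat_lit 3192427595) (nat_lit 42) (nat_lit 5) (nat_lit 46) (nat_lit 5) (nat_lit 47) (nat_lit 5) (nat_lit 277) (nat_lit 252) (nat_lit 191)) (XT.lf (nat_lit 0) (nat_lit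 7563644022) (nat_lit 304) (nat_lit 7124944133) (nat_lit 380) (nat_lit 955340743) (nat_lit 42) (nat_lit 5) (nat_lit 46) (nat_lit 5) (nat_lit 47) (nat_lit 5) (nat_lit 278) (nat_lit 252) (nat_lit 190))))))) (XT.nd (nat_lit 702) (nat_lit 684) (nat_lit 0) (XT.nd (nat_lit 312) (nat_lit 456) (nat_lit 0) (XT.nd (nat_lit 156) (nat_lit 228) (nat_lit 0) (XT.nd (nat_lit 78) (nat_lit 228) (nat_lit 0) (XT.lf (nat_lit 0) (nat_lit 1324134330) (nat_lit 380) (nat_lit 891783571) (nat_lit 76) (nat_lit 13923940012) (nat_lit 41) (nat_lit 5) (nat_lit 46) (nat_lit 5) (nat_lit 42) (nat_lit 5) (nat_lit 279) (nat_lit 252) (nat_lit 189)) (XT.lf (nat_lit 0) (nat_lit 3816202884) (nat_lit 304) (nat_lit 9874507321) (nat_lit 76) (nat_lit 2962612625) (nat_lit 38) (nat_lit 5) (nat_lit 42) (nat_lit 5) (nat_lit 39) (nat_lit 5) (nat_lit 280) (nat_lit 252) (nat_lit 188))) (XT.nd (nat_lit 78) (nat_lit 228) (nat_lit 0) (XT.lf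 (nat_lit 0) (nat_lit 6461436707) (nat_lit 304) (nat_lit 2395056903) (nat_lit 76) (nat_lit 8334595276) (nat_lit 38) (nat_lit 5) (nat_lit 42) (nat_lit 5) (nat_lit 39) (nat_lit 5) (nat_lit 281) (nat_lit 252) (nat_lit 187)) (XT.lf (nat_lit 0) (nat_lit 5608656942) (nat_lit 228) (nat_lit 3695827794) (nat_lit 304) (nat_lit 8448034205) (nat_lit 35) (nat_lit 5) (nat_lit 38) (nat_lit 5) (nat_lit 39) (nat_lit 5) (nat_lit 282) (nat_lit 252) (nat_lit 186)))) (XT.nd (nat_lit 156) (nat_lit 304) (nat_lit 0) (XT.nd (nat_lit 78) (nat_lit 152) (nat_lit 0) (XT.lf (nat_lit 0) (nat_lit 12336280987) (nat_lit 304) (nat_lit 4301605611) (nat_lit 76) (nat_lit 1701854893) (nat_lit 35) (nat_lit 5) (nat_lit 39) (nat_lit 5) (nat_lit 36) (nat_lit 5) (nat_lit 283) (nat_lit 252) (nat_lit 185)) (XT.lf (nat_lit 0) (nat_lit 3970930999) (nat_lit 152) (nat_lit 11650816543) (nat_lit 228) (nat_lit 3329521965) (nat_lit 33)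 (nat_lit 5) (nat_lit 35) (nat_lit 5) (nat_lit 36) (nat_lit 5) (nat_lit 284) (nat_lit 252) (nat_lit 184))) (XT.nd (nat_lit 78) (nat_lit 304) (nat_lit 0) (XT.lf (nat_lit 0) (nat_lit 12778553719) (nat_lit 152) (nat_lit 6345820331) (nat_lit 228) (nat_lit 466401603) (nat_lit 33) (nat_lit 5) (nat_lit 35) (nat_lit 5) (nat_lit 36) (nat_lit 5) (nat_lit 285) (nat_lit 252) (nat_lit 183)) (XT.nd (nat_lit 78) (nat_lit 0) (nat_lit 0) (XT.lf (nat_lit 0) (nat_lit 1753532772) (nat_lit 228) (nat_lit 713061046) (nat_lit 304) (nat_lit 17793321795) (nat_lit 29) (nat_lit 5) (nat_lit 32) (nat_lit 5) (nat_lit 33) (nat_lit 5) (nat_lit 286) (nat_lit 252) (nat_lit 182)) (XT.lf (nat_lit 0) (nat_lit 5710045133) (nat_lit 304) (nat_lit 10091065492) (nat_lit 76) (nat_lit 5152085425) (nat_lit 29) (nat_lit 5) (nat_lit 33) (nat_lit 5) (nat_lit 30) (nat_lit 5) (nat_lit 287) (nat_lit 252) (nat_lit 181)))))) (XT.nd (nat_lit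 312) (nat_lit 380) (nat_lit 0) (XT.nd (nat_lit 156) (nat_lit 152) (nat_lit 0) (XT.nd (nat_lit 78) (nat_lit 152) (nat_lit 0) (XT.lf (nat_lit 0) (nat_lit 9109275949) (nat_lit 304) (nat_lit 1293011673) (nat_lit 76) (nat_lit 11279210434) (nat_lit 29) (nat_lit 5) (nat_lit 33) (nat_lit 5) (nat_lit 30) (nat_lit 5) (nat_lit 288) (nat_lit 252) (nat_lit 180)) (XT.lf (nat_lit 0) (nat_lit 8181725556) (nat_lit 152) (nat_lit 4607260901) (nat_lit 228) (nat_lit 9651738888) (nat_lit 27) (nat_lit 5) (nat_lit 29) (nat_lit 5) (nat_lit 30) (nat_lit 5) (nat_lit 289) (nat_lit 252) (nat_lit 179))) (XT.nd (nat_lit 78) (nat_lit 152) (nat_lit 0) (XT.lf (nat_lit 0) (nat_lit 16681097401) (nat_lit 228) (nat_lit 5110587627) (nat_lit 76) (nat_lit 1444842597) (nat_lit 27) (nat_lit 5) (nat_lit 30) (nat_lit 5) (nat_lit 28) (nat_lit 5) (nat_lit 290) (nat_lit 252) (nat_lit 178)) (XT.lf (nat_lit 0) (nat_lit 4540830793)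 (nat_lit 152) (nat_lit 16357302267) (nat_lit 228) (nat_lit 3167503734) (nat_lit 25) (nat_lit 5) (nat_lit 27) (nat_lit 5) (nat_lit 28) (nat_lit 5) (nat_lit 291) (nat_lit 252) (nat_lit 177)))) (XT.nd (nat_lit 156) (nat_lit 304) (nat_lit 0) (XT.nd (nat_lit 78) (nat_lit 0) (nat_lit 0) (XT.lf (nat_lit 0) (nat_lit 449313901) (nat_lit 228) (nat_lit 10111519156) (nat_lit 76) (nat_lit 14371495175) (nat_lit 24) (nat_lit 5) (nat_lit 27) (nat_lit 5) (nat_lit 25) (nat_lit 5) (nat_lit 292) (nat_lit 252) (nat_lit 176)) (XT.lf (nat_lit 0) (nat_lit 4125287651) (nat_lit 228) (nat_lit 302721326) (nat_lit 76) (nat_lit 21412539022) (nat_lit 24) (nat_lit 5) (nat_lit 27) (nat_lit 5) (nat_lit 25) (nat_lit 5) (nat_lit 293) (nat_lit 252) (nat_lit 175))) (XT.nd (nat_lit 78) (nat_lit 152) (nat_lit 0) (XT.lf (nat_lit 0) (nat_lit 8165350059) (nat_lit 228) (nat_lit 16516616378) (nat_lit 76) (nat_lit 2103224748) (nat_lit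 22) (nat_lit 5) (nat_lit 25) (nat_lit 5) (nat_lit 23) (nat_lit 5) (nat_lit 294) (nat_lit 252) (nat_lit 174)) (XT.nd (nat_lit 78) (nat_lit 152) (nat_lit 0) (XT.lf (nat_lit 0) (nat_lit 12470938755) (nat_lit 228) (nat_lit 6492918098) (nat_lit 76) (nat_lit 8810059168) (nat_lit 22) (nat_lit 5) (nat_lit 25) (nat_lit 5) (nat_lit 23) (nat_lit 5) (nat_lit 295) (nat_lit 252) (nat_lit 173)) (XT.lf (nat_lit 0) (nat_lit 4143261925) (nat_lit 152) (nat_lit 12899634869) (nat_lit 228) (nat_lit 11766650237) (nat_lit 20) (nat_lit 5) (nat_lit 22) (nat_lit 5) (nat_lit 23) (nat_lit 5) (nat_lit 296) (nat_lit 252) (nat_lit 172))))))))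
noncomputable def xc149 : XT := (XT.nd (nat_lit 1326) (nat_lit 380) (nat_lit 0) (XT.nd (nat_lit 624) (nat_lit 380) (nat_lit 0) (XT.nd (nat_lit 312) (nat_lit 152) (nat_lit 0) (XT.nd (nat_lit 156) (nat_lit 152) (nat_lit 0) (XT.nd (nat_lit 78) (nat_lit 0) (nat_lit 0) (XT.lf (nat_lit 0) (nat_lit 15515700746) (nat_lit 152) (nat_lit 6424434810) (nat_lit 228) (nat_lit 7952013159) (nat_lit 20) (nat_lit 5) (nat_lit 22) (nat_lit 5) (nat_lit 23) (nat_lit 5) (nat_lit 297) (nat_lit 252) (nat_lit 171)) (XT.lf (nat_lit 0) (nat_lit 27075323663) (nat_lit 228) (nat_lit 3598477534) (nat_lit 76) (nat_lit 355447070) (nat_lit 20) (nat_lit 5) (nat_lit 23) (nat_lit 5) (nat_lit 21) (nat_lit 4) (nat_lit 298) (nat_lit 252) (nat_lit 170))) (XT.nd (nat_lit 78) (nat_lit 0) (nat_lit 0) (XT.lf (nat_lit 0) (nat_lit 455414028) (nat_lit 152) (nat_lit 24375172113) (nat_lit 76) (nat_lit 7381488356) (nat_lit 18) (nat_lit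 5) (nat_lit 20) (nat_lit 5) (nat_lit 19) (nat_lit 5) (nat_lit 299) (nat_lit 252) (nat_lit 169)) (XT.lf (nat_lit 0) (nat_lit 5002194954) (nat_lit 152) (nat_lit 13567468305) (nat_lit 76) (nat_lit 14878664338) (nat_lit 18) (nat_lit 5) (nat_lit 20) (nat_lit 5) (nat_lit 19) (nat_lit 5) (nat_lit 300) (nat_lit 252) (nat_lit 168)))) (XT.nd (nat_lit 156) (nat_lit 0) (nat_lit 0) (XT.nd (nat_lit 78) (nat_lit 152) (nat_lit 0) (XT.lf (nat_lit 0) (nat_lit 9764802687) (nat_lit 152) (nat_lit 2238082349) (nat_lit 76) (nat_lit 22744102158) (nat_lit 18) (nat_lit 5) (nat_lit 20) (nat_lit 5) (nat_lit 19) (nat_lit 5) (nat_lit 301) (nat_lit 252) (nat_lit 167)) (XT.lf (nat_lit 0) (nat_lit 9958701112) (nat_lit 152) (nat_lit 4951358888) (nat_lit 228) (nat_lit 21193311169) (nat_lit 16) (nat_lit 5) (nat_lit 18) (nat_lit 5) (nat_lit 19) (nat_lit 5) (nat_lit 302) (nat_lit 252) (nat_lit 166))) (XT.nd (nat_lit 78)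 (nat_lit 0) (nat_lit 0) (XT.lf (nat_lit 0) (nat_lit 20378576875) (nat_lit 228) (nat_lit 14739540962) (nat_lit 76) (nat_lit 2406173204) (nat_lit 16) (nat_lit 5) (nat_lit 19) (nat_lit 5) (nat_lit 17) (nat_lit 4) (nat_lit 303) (nat_lit 252) (nat_lit 165)) (XT.lf (nat_lit 0) (nat_lit 26191382864) (nat_lit 228) (nat_lit 2862440581) (nat_lit 76) (nat_lit 9958906044) (nat_lit 16) (nat_lit 5) (nat_lit 19) (nat_lit 5) (nat_lit 17) (nat_lit 4) (nat_lit 304) (nat_lit 252) (nat_lit 164))))) (XT.nd (nat_lit 312) (nat_lit 76) (nat_lit 0) (XT.nd (nat_lit 156) (nat_lit 228) (nat_lit 0) (XT.nd (nat_lit 78) (nat_lit 0) (nat_lit 0) (XT.lf (nat_lit 0) (nat_lit 9909376414) (nat_lit 76) (nat_lit 22530350117) (nat_lit 152) (nat_lit 8128633458) (nat_lit 15) (nat_lit 5) (nat_lit 16) (nat_lit 5) (nat_lit 17) (nat_lit 4) (nat_lit 305) (nat_lit 252) (nat_lit 163)) (XT.lf (nat_lit 0) (nat_lit 23403124306) (nat_lit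 76) (nat_lit 15636241160) (nat_lit 152) (nat_lit 3160476923) (nat_lit 15) (nat_lit 5) (nat_lit 16) (nat_lit 5) (nat_lit 17) (nat_lit 4) (nat_lit 306) (nat_lit 252) (nat_lit 162))) (XT.nd (nat_lit 78) (nat_lit 152) (nat_lit 0) (XT.lf (nat_lit 0) (nat_lit 1980975120) (nat_lit 152) (nat_lit 6389034952) (nat_lit 76) (nat_lit 35541761962) (nat_lit 14) (nat_lit 5) (nat_lit 16) (nat_lit 5) (nat_lit 15) (nat_lit 5) (nat_lit 307) (nat_lit 252) (nat_lit 161)) (XT.lf (nat_lit 0) (nat_lit 6789681694) (nat_lit 152) (nat_lit 580749684) (nat_lit 228) (nat_lit 38331431347) (nat_lit 12) (nat_lit 5) (nat_lit 14) (nat_lit 5) (nat_lit 15) (nat_lit 5) (nat_lit 308) (nat_lit 252) (nat_lit 160)))) (XT.nd (nat_lit 156) (nat_lit 76) (nat_lit 0) (XT.nd (nat_lit 78) (nat_lit 0) (nat_lit 0) (XT.lf (nat_lit 0) (nat_lit 13249200741) (nat_lit 228) (nat_lit 26862264842) (nat_lit 76) (nat_lit 7459012104) (nat_lit 12)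 (nat_lit 5) (nat_lit 15) (nat_lit 5) (nat_lit 13) (nat_lit 4) (nat_lit 309) (nat_lit 252) (nat_lit 159)) (XT.lf (nat_lit 0) (nat_lit 19423085662) (nat_lit 228) (nat_lit 14233625276) (nat_lit 76) (nat_lit 15875764795) (nat_lit 12) (nat_lit 5) (nat_lit 15) (nat_lit 5) (nat_lit 13) (nat_lit 4) (nat_lit 310) (nat_lit 252) (nat_lit 158))) (XT.nd (nat_lit 78) (nat_lit 76) (nat_lit 0) (XT.lf (nat_lit 0) (nat_lit 25897718739) (nat_lit 228) (nat_lit 987127013) (nat_lit 76) (nat_lit 24708135890) (nat_lit 12) (nat_lit 5) (nat_lit 15) (nat_lit 5) (nat_lit 13) (nat_lit 4) (nat_lit 311) (nat_lit 252) (nat_lit 157)) (XT.nd (nat_lit 78) (nat_lit 0) (nat_lit 0) (XT.lf (nat_lit 0) (nat_lit 13335591435) (nat_lit 76) (nat_lit 19561130285) (nat_lit 152) (nat_lit 20849769365) (nat_lit 11) (nat_lit 5) (nat_lit 12) (nat_lit 5) (nat_lit 13) (nat_lit 4) (nat_lit 312) (nat_lit 252) (nat_lit 156)) (XT.lf (nat_lit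 0) (nat_lit 28395998191) (nat_lit 76) (nat_lit 11858988224) (nat_lit 152) (nat_lit 15752233673) (nat_lit 11) (nat_lit 5) (nat_lit 12) (nat_lit 5) (nat_lit 13) (nat_lit 4) (nat_lit 313) (nat_lit 252) (nat_lit 155))))))) (XT.nd (nat_lit 702) (nat_lit 152) (nat_lit 0) (XT.nd (nat_lit 312) (nat_lit 76) (nat_lit 0) (XT.nd (nat_lit 156) (nat_lit 152) (nat_lit 0) (XT.nd (nat_lit 78) (nat_lit 0) (nat_lit 0) (XT.lf (nat_lit 0) (nat_lit 44197312489) (nat_lit 76) (nat_lit 3776798610) (nat_lit 152) (nat_lit 10407236312) (nat_lit 11) (nat_lit 5) (nat_lit 12) (nat_lit 5) (nat_lit 13) (nat_lit 4) (nat_lit 314) (nat_lit 252) (nat_lit 154)) (XT.lf (nat_lit 0) (nat_lit 56145927908) (nat_lit 152) (nat_lit 170822500) (nat_lit 0) (nat_lit 4554102664) (nat_lit 11) (nat_lit 5) (nat_lit 13) (nat_lit 4) (nat_lit 11) (nat_lit 4) (nat_lit 315) (nat_lit 252) (nat_lit 153))) (XT.nd (nat_lit 78) (nat_lit 0) (nat_lit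 0) (XT.lf (nat_lit 0) (nat_lit 1495323531) (nat_lit 152) (nat_lit 48546186373) (nat_lit 76) (nat_lit 13427685009) (nat_lit 9) (nat_lit 5) (nat_lit 11) (nat_lit 5) (nat_lit 10) (nat_lit 4) (nat_lit 316) (nat_lit 252) (nat_lit 152)) (XT.lf (nat_lit 0) (nat_lit 7864291244) (nat_lit 152) (nat_lit 35508635292) (nat_lit 76) (nat_lit 22820837243) (nat_lit 9) (nat_lit 5) (nat_lit 11) (nat_lit 5) (nat_lit 10) (nat_lit 4) (nat_lit 317) (nat_lit 252) (nat_lit 151)))) (XT.nd (nat_lit 156) (nat_lit 76) (nat_lit 0) (XT.nd (nat_lit 78) (nat_lit 0) (nat_lit 0) (XT.lf (nat_lit 0) (nat_lit 14545568929) (nat_lit 152) (nat_lit 21829951974) (nat_lit 76) (nat_lit 32679354319) (nat_lit 9) (nat_lit 5) (nat_lit 11) (nat_lit 5) (nat_lit 10) (nat_lit 4) (nat_lit 318) (nat_lit 252) (nat_lit 150)) (XT.lf (nat_lit 0) (nat_lit 21555064388) (nat_lit 152) (nat_lit 7477568125) (nat_lit 76) (nat_lit 43026708899) (nat_lit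 9) (nat_lit 5) (nat_lit 11) (nat_lit 5) (nat_lit 10) (nat_lit 4) (nat_lit 319) (nat_lit 252) (nat_lit 149))) (XT.nd (nat_lit 78) (nat_lit 0) (nat_lit 0) (XT.lf (nat_lit 0) (nat_lit 7833406526) (nat_lit 76) (nat_lit 21198361801) (nat_lit 152) (nat_lit 46176432444) (nat_lit 8) (nat_lit 5) (nat_lit 9) (nat_lit 5) (nat_lit 10) (nat_lit 4) (nat_lit 320) (nat_lit 252) (nat_lit 148)) (XT.nd (nat_lit 78) (nat_lit 0) (nat_lit 0) (XT.lf (nat_lit 0) (nat_lit 24159945070) (nat_lit 76) (nat_lit 12843546319) (nat_lit 152) (nat_lit 41504958741) (nat_lit 8) (nat_lit 5) (nat_lit 9) (nat_lit 5) (nat_lit 10) (nat_lit 4) (nat_lit 321) (nat_lit 252) (nat_lit 147)) (XT.lf (nat_lit 0) (nat_lit 41293678046) (nat_lit 76) (nat_lit 4074929887) (nat_lit 152) (nat_lit 36605369594) (nat_lit 8) (nat_lit 5) (nat_lit 9) (nat_lit 5) (nat_lit 10) (nat_lit 4) (nat_lit 322) (nat_lit 252) (nat_lit 146)))))) (XT.nd (nat_lit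 312) (nat_lit 76) (nat_lit 0) (XT.nd (nat_lit 156) (nat_lit 76) (nat_lit 0) (XT.nd (nat_lit 78) (nat_lit 0) (nat_lit 0) (XT.lf (nat_lit 0) (nat_lit 54227103053) (nat_lit 152) (nat_lit 26417702313) (nat_lit 0) (nat_lit 4964225441) (nat_lit 8) (nat_lit 5) (nat_lit 10) (nat_lit 4) (nat_lit 8) (nat_lit 4) (nat_lit 323) (nat_lit 252) (nat_lit 145)) (XT.lf (nat_lit 0) (nat_lit 63590559359) (nat_lit 152) (nat_lit 11517245944) (nat_lit 0) (nat_lit 14314935012) (nat_lit 8) (nat_lit 5) (nat_lit 10) (nat_lit 4) (nat_lit 8) (nat_lit 4) (nat_lit 324) (nat_lit 252) (nat_lit 144))) (XT.nd (nat_lit 78) (nat_lit 0) (nat_lit 0) (XT.lf (nat_lit 0) (nat_lit 4256399340) (nat_lit 76) (nat_lit 69227704699) (nat_lit 76) (nat_lit 19939940605) (nat_lit 7) (nat_lit 4) (nat_lit 8) (nat_lit 5) (nat_lit 8) (nat_lit 4) (nat_lit 325) (nat_lit 252) (nat_lit 143)) (XT.lf (nat_lit 0) (nat_lit 21210644481) (nat_lit 76)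 (nat_lit 62852285084) (nat_lit 76) (nat_lit 13552959327) (nat_lit 7) (nat_lit 4) (nat_lit 8) (nat_lit 5) (nat_lit 8) (nat_lit 4) (nat_lit 326) (nat_lit 252) (nat_lit 142)))) (XT.nd (nat_lit 156) (nat_lit 0) (nat_lit 0) (XT.nd (nat_lit 78) (nat_lit 76) (nat_lit 0) (XT.lf (nat_lit 0) (nat_lit 39005044564) (nat_lit 76) (nat_lit 56161417021) (nat_lit 76) (nat_lit 6851080156) (nat_lit 7) (nat_lit 4) (nat_lit 8) (nat_lit 5) (nat_lit 8) (nat_lit 4) (nat_lit 327) (nat_lit 252) (nat_lit 141)) (XT.lf (nat_lit 0) (nat_lit 175839708) (nat_lit 152) (nat_lit 48960352233) (nat_lit 76) (nat_lit 57503149571) (nat_lit 6) (nat_lit 5) (nat_lit 8) (nat_lit 5) (nat_lit 7) (nat_lit 4) (nat_lit 328) (nat_lit 252) (nat_lit 140))) (XT.nd (nat_lit 78) (nat_lit 0) (nat_lit 0) (XT.lf (nat_lit 0) (nat_lit 7319956225) (nat_lit 152) (nat_lit 34324900773) (nat_lit 76) (nat_lit 69841958056) (nat_lit 6) (nat_lit 5) (nat_lit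 8) (nat_lit 5) (nat_lit 7) (nat_lit 4) (nat_lit 329) (nat_lit 252) (nat_lit 139)) (XT.nd (nat_lit 78) (nat_lit 0) (nat_lit 0) (XT.lf (nat_lit 0) (nat_lit 14817556545) (nat_lit 152) (nat_lit 18964331925) (nat_lit 76) (nat_lit 82794963729) (nat_lit 6) (nat_lit 5) (nat_lit 8) (nat_lit 5) (nat_lit 7) (nat_lit 4) (nat_lit 330) (nat_lit 252) (nat_lit 138)) (XT.lf (nat_lit 0) (nat_lit 22686492099) (nat_lit 152) (nat_lit 2842072906) (nat_lit 76) (nat_lit 96393007080) (nat_lit 6) (nat_lit 5) (nat_lit 8) (nat_lit 5) (nat_lit 7) (nat_lit 4) (nat_lit 331) (nat_lit 252) (nat_lit 137))))))))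
noncomputable def xc150 : XT := (XT.nd (nat_lit 1326) (nat_lit 152) (nat_lit 0) (XT.nd (nat_lit 624) (nat_lit 76) (nat_lit 0) (XT.nd (nat_lit 312) (nat_lit 0) (nat_lit 0) (XT.nd (nat_lit 156) (nat_lit 0) (nat_lit 0) (XT.nd (nat_lit 78) (nat_lit 0) (nat_lit 0) (XT.lf (nat_lit 0) (nat_lit 14545819685) (nat_lit 76) (nat_lit 16626779772) (nat_lit 152) (nat_lit 96349745727) (nat_lit 5) (nat_lit 5) (nat_lit 6) (nat_lit 5) (nat_lit 7) (nat_lit 4) (nat_lit 332) (nat_lit 252) (nat_lit 136)) (XT.lf (nat_lit 0) (nat_lit 32895838174) (nat_lit 76) (nat_lit 7231997940) (nat_lit 152) (nat_lit 93273082931) (nat_lit 5) (nat_lit 5) (nat_lit 6) (nat_lit 5) (nat_lit 7) (nat_lit 4) (nat_lit 333) (nat_lit 252) (nat_lit 135))) (XT.nd (nat_lit 78) (nat_lit 0) (nat_lit 0) (XT.lf (nat_lit 0) (nat_lit 49568746116) (nat_lit 152) (nat_lit 87456942891) (nat_lit 0) (nat_lit 2545840163) (nat_lit 5) (nat_lit 5) (nat_lit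 7) (nat_lit 4) (nat_lit 5) (nat_lit 4) (nat_lit 334) (nat_lit 252) (nat_lit 134)) (XT.lf (nat_lit 0) (nat_lit 59597221294) (nat_lit 152) (nat_lit 73880458039) (nat_lit 0) (nat_lit 12567217483) (nat_lit 5) (nat_lit 5) (nat_lit 7) (nat_lit 4) (nat_lit 5) (nat_lit 4) (nat_lit 335) (nat_lit 252) (nat_lit 133)))) (XT.nd (nat_lit 156) (nat_lit 0) (nat_lit 0) (XT.nd (nat_lit 78) (nat_lit 0) (nat_lit 0) (XT.lf (nat_lit 0) (nat_lit 70124227215) (nat_lit 152) (nat_lit 59630389596) (nat_lit 0) (nat_lit 23087463539) (nat_lit 5) (nat_lit 5) (nat_lit 7) (nat_lit 4) (nat_lit 5) (nat_lit 4) (nat_lit 336) (nat_lit 252) (nat_lit 132)) (XT.lf (nat_lit 0) (nat_lit 81174828179) (nat_lit 152) (nat_lit 44672808827) (nat_lit 0) (nat_lit 34131626535) (nat_lit 5) (nat_lit 5) (nat_lit 7) (nat_lit 4) (nat_lit 5) (nat_lit 4) (nat_lit 337) (nat_lit 252) (nat_lit 131))) (XT.nd (nat_lit 78) (nat_lit 0) (nat_lit 0)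 (XT.lf (nat_lit 0) (nat_lit 92775335140) (nat_lit 152) (nat_lit 28972102444) (nat_lit 0) (nat_lit 45726002099) (nat_lit 5) (nat_lit 5) (nat_lit 7) (nat_lit 4) (nat_lit 5) (nat_lit 4) (nat_lit 338) (nat_lit 252) (nat_lit 130)) (XT.lf (nat_lit 0) (nat_lit 104953368353) (nat_lit 152) (nat_lit 12490887814) (nat_lit 0) (nat_lit 57898195886) (nat_lit 5) (nat_lit 5) (nat_lit 7) (nat_lit 4) (nat_lit 5) (nat_lit 4) (nat_lit 339) (nat_lit 252) (nat_lit 129))))) (XT.nd (nat_lit 312) (nat_lit 0) (nat_lit 0) (XT.nd (nat_lit 156) (nat_lit 0) (nat_lit 0) (XT.nd (nat_lit 78) (nat_lit 0) (nat_lit 0) (XT.lf (nat_lit 0) (nat_lit 4969118887) (nat_lit 76) (nat_lit 112846386120) (nat_lit 76) (nat_lit 65785652295) (nat_lit 4) (nat_lit 4) (nat_lit 5) (nat_lit 5) (nat_lit 5) (nat_lit 4) (nat_lit 340) (nat_lit 252) (nat_lit 128)) (XT.lf (nat_lit 0) (nat_lit 23731539387) (nat_lit 76) (nat_lit 107798415353) (nat_lit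 76) (nat_lit 60732384997) (nat_lit 4) (nat_lit 4) (nat_lit 5) (nat_lit 5) (nat_lit 5) (nat_lit 4) (nat_lit 341) (nat_lit 252) (nat_lit 127))) (XT.nd (nat_lit 78) (nat_lit 0) (nat_lit 0) (XT.lf (nat_lit 0) (nat_lit 43428040954) (nat_lit 76) (nat_lit 102499864118) (nat_lit 76) (nat_lit 55428789446) (nat_lit 4) (nat_lit 4) (nat_lit 5) (nat_lit 5) (nat_lit 5) (nat_lit 4) (nat_lit 342) (nat_lit 252) (nat_lit 126)) (XT.lf (nat_lit 0) (nat_lit 64105520019) (nat_lit 76) (nat_lit 96938116817) (nat_lit 76) (nat_lit 49862238035) (nat_lit 4) (nat_lit 4) (nat_lit 5) (nat_lit 5) (nat_lit 5) (nat_lit 4) (nat_lit 343) (nat_lit 252) (nat_lit 125)))) (XT.nd (nat_lit 156) (nat_lit 0) (nat_lit 0) (XT.nd (nat_lit 78) (nat_lit 0) (nat_lit 0) (XT.lf (nat_lit 0) (nat_lit 85813208676) (nat_lit 76) (nat_lit 91099931195) (nat_lit 76) (nat_lit 44019477070) (nat_lit 4) (nat_lit 4) (nat_lit 5) (nat_lit 5) (nat_lit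 5) (nat_lit 4) (nat_lit 344) (nat_lit 252) (nat_lit 124)) (XT.lf (nat_lit 0) (nat_lit 108602791898) (nat_lit 76) (nat_lit 84971406808) (nat_lit 76) (nat_lit 37886595214) (nat_lit 4) (nat_lit 4) (nat_lit 5) (nat_lit 5) (nat_lit 5) (nat_lit 4) (nat_lit 345) (nat_lit 252) (nat_lit 123))) (XT.nd (nat_lit 78) (nat_lit 0) (nat_lit 0) (XT.lf (nat_lit 0) (nat_lit 132528530597) (nat_lit 76) (nat_lit 78537951934) (nat_lit 76) (nat_lit 31448990369) (nat_lit 4) (nat_lit 4) (nat_lit 5) (nat_lit 5) (nat_lit 5) (nat_lit 4) (nat_lit 346) (nat_lit 252) (nat_lit 122)) (XT.nd (nat_lit 78) (nat_lit 0) (nat_lit 0) (XT.lf (nat_lit 0) (nat_lit 157647390818) (nat_lit 76) (nat_lit 71784248821) (nat_lit 76) (nat_lit 24691334903) (nat_lit 4) (nat_lit 4) (nat_lit 5) (nat_lit 5) (nat_lit 5) (nat_lit 4) (nat_lit 347) (nat_lit 252) (nat_lit 121)) (XT.lf (nat_lit 0) (nat_lit 184019179371) (nat_lit 76) (nat_lit 64694217225)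 (nat_lit 76) (nat_lit 17597539161) (nat_lit 4) (nat_lit 4) (nat_lit 5) (nat_lit 5) (nat_lit 5) (nat_lit 4) (nat_lit 348) (nat_lit 252) (nat_lit 120))))))) (XT.nd (nat_lit 702) (nat_lit 0) (nat_lit 0) (XT.nd (nat_lit 312) (nat_lit 76) (nat_lit 0) (XT.nd (nat_lit 156) (nat_lit 76) (nat_lit 0) (XT.nd (nat_lit 78) (nat_lit 0) (nat_lit 0) (XT.lf (nat_lit 0) (nat_lit 211706686228) (nat_lit 76) (nat_lit 57250976118) (nat_lit 76) (nat_lit 10150713153) (nat_lit 4) (nat_lit 4) (nat_lit 5) (nat_lit 5) (nat_lit 5) (nat_lit 4) (nat_lit 349) (nat_lit 252) (nat_lit 119)) (XT.lf (nat_lit 0) (nat_lit 240775834025) (nat_lit 76) (nat_lit 49436803497) (nat_lit 76) (nat_lit 2333126340) (nat_lit 4) (nat_lit 4) (nat_lit 5) (nat_lit 5) (nat_lit 5) (nat_lit 4) (nat_lit 350) (nat_lit 252) (nat_lit 118))) (XT.nd (nat_lit 78) (nat_lit 0) (nat_lit 0) (XT.lf (nat_lit 0) (nat_lit 5685835188) (nat_lit 152) (nat_lit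 35450966631) (nat_lit 76) (nat_lit 265513707460) (nat_lit 3) (nat_lit 5) (nat_lit 5) (nat_lit 5) (nat_lit 4) (nat_lit 4) (nat_lit 351) (nat_lit 252) (nat_lit 117)) (XT.lf (nat_lit 0) (nat_lit 14025948775) (nat_lit 152) (nat_lit 18356830549) (nat_lit 76) (nat_lit 289075870873) (nat_lit 3) (nat_lit 5) (nat_lit 5) (nat_lit 5) (nat_lit 4) (nat_lit 4) (nat_lit 352) (nat_lit 252) (nat_lit 116)))) (XT.nd (nat_lit 156) (nat_lit 0) (nat_lit 0) (XT.nd (nat_lit 78) (nat_lit 76) (nat_lit 0) (XT.lf (nat_lit 0) (nat_lit 22781746448) (nat_lit 152) (nat_lit 410394627) (nat_lit 76) (nat_lit 313815124352) (nat_lit 3) (nat_lit 5) (nat_lit 5) (nat_lit 5) (nat_lit 4) (nat_lit 4) (nat_lit 353) (nat_lit 252) (nat_lit 115)) (XT.lf (nat_lit 0) (nat_lit 19040485180) (nat_lit 76) (nat_lit 13230865498) (nat_lit 152) (nat_lit 321047161037) (nat_lit 2) (nat_lit 5) (nat_lit 3) (nat_lit 5) (nat_lit 4) (nat_lit 4)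 (nat_lit 354) (nat_lit 252) (nat_lit 114))) (XT.nd (nat_lit 78) (nat_lit 0) (nat_lit 0) (XT.lf (nat_lit 0) (nat_lit 39475901579) (nat_lit 76) (nat_lit 2765249834) (nat_lit 152) (nat_lit 328203884164) (nat_lit 2) (nat_lit 5) (nat_lit 3) (nat_lit 5) (nat_lit 4) (nat_lit 4) (nat_lit 355) (nat_lit 252) (nat_lit 113)) (XT.nd (nat_lit 78) (nat_lit 0) (nat_lit 0) (XT.lf (nat_lit 0) (nat_lit 52836645989) (nat_lit 152) (nat_lit 327625383575) (nat_lit 0) (nat_lit 7959496903) (nat_lit 2) (nat_lit 5) (nat_lit 4) (nat_lit 4) (nat_lit 2) (nat_lit 4) (nat_lit 356) (nat_lit 252) (nat_lit 112)) (XT.lf (nat_lit 0) (nat_lit 64006113576) (nat_lit 152) (nat_lit 324161865758) (nat_lit 0) (nat_lit 19126653630) (nat_lit 2) (nat_lit 5) (nat_lit 4) (nat_lit 4) (nat_lit 2) (nat_lit 4) (nat_lit 357) (nat_lit 252) (nat_lit 111)))))) (XT.nd (nat_lit 29562) (nat_lit 0) (nat_lit 6080) (XT.nd (nat_lit 29406) (nat_lit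 0) (nat_lit 6080) (XT.nd (nat_lit 29328) (nat_lit 0) (nat_lit 6688) (XT.lf (nat_lit 0) (nat_lit 75732974844) (nat_lit 152) (nat_lit 320527160775) (nat_lit 0) (nat_lit 30851314080) (nat_lit 2) (nat_lit 5) (nat_lit 4) (nat_lit 4) (nat_lit 2) (nat_lit 4) (nat_lit 358) (nat_lit 252) (nat_lit 110)) (XT.lf (nat_lit 0) (nat_lit 1635026347) (nat_lit 0) (nat_lit 1635026347) (nat_lit 532) (nat_lit 957625138) (nat_lit 90) (nat_lit 5) (nat_lit 90) (nat_lit 3) (nat_lit 97) (nat_lit 3) (nat_lit 253) (nat_lit 253) (nat_lit 214))) (XT.nd (nat_lit 78) (nat_lit 608) (nat_lit 0) (XT.lf (nat_lit 0) (nat_lit 7109894108) (nat_lit 0) (nat_lit 538928178) (nat_lit 532) (nat_lit 967056451) (nat_lit 90) (nat_lit 5) (nat_lit 90) (nat_lit 3) (nat_lit 97) (nat_lit 3) (nat_lit 254) (nat_lit 253) (nat_lit 213)) (XT.lf (nat_lit 0) (nat_lit 40838513) (nat_lit 608) (nat_lit 6422078818) (nat_lit 684) (nat_lit 2321047566)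 (nat_lit 82) (nat_lit 5) (nat_lit 90) (nat_lit 5) (nat_lit 91) (nat_lit 5) (nat_lit 255) (nat_lit 253) (nat_lit 212)))) (XT.nd (nat_lit 156) (nat_lit 0) (nat_lit 76) (XT.nd (nat_lit 78) (nat_lit 0) (nat_lit 0) (XT.lf (nat_lit 0) (nat_lit 1042531623) (nat_lit 608) (nat_lit 2544439577) (nat_lit 684) (nat_lit 5374105382) (nat_lit 82) (nat_lit 5) (nat_lit 90) (nat_lit 5) (nat_lit 91) (nat_lit 5) (nat_lit 256) (nat_lit 253) (nat_lit 211)) (XT.lf (nat_lit 76) (nat_lit 1542560066) (nat_lit 0) (nat_lit 519780873) (nat_lit 684) (nat_lit 7086500407) (nat_lit 83) (nat_lit 5) (nat_lit 82) (nat_lit 5) (nat_lit 91) (nat_lit 5) (nat_lit 257) (nat_lit 253) (nat_lit 210))) (XT.nd (nat_lit 78) (nat_lit 0) (nat_lit 0) (XT.lf (nat_lit 0) (nat_lit 3165522363) (nat_lit 608) (nat_lit 3501018061) (nat_lit 684) (nat_lit 2678024434) (nat_lit 83) (nat_lit 5) (nat_lit 91) (nat_lit 5) (nat_lit 92) (nat_lit 5) (nat_lit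 258) (nat_lit 253) (nat_lit 209)) (XT.nd (nat_lit 78) (nat_lit 0) (nat_lit 0) (XT.lf (nat_lit 76) (nat_lit 791508949) (nat_lit 0) (nat_lit 3502201474) (nat_lit 684) (nat_lit 5258052312) (nat_lit 84) (nat_lit 5) (nat_lit 83) (nat_lit 5) (nat_lit 92) (nat_lit 5) (nat_lit 259) (nat_lit 253) (nat_lit 208)) (XT.lf (nat_lit 76) (nat_lit 5385959630) (nat_lit 0) (nat_lit 102503898) (nat_lit 684) (nat_lit 4280521161) (nat_lit 84) (nat_lit 5) (nat_lit 83) (nat_lit 5) (nat_lit 92) (nat_lit 5) (nat_lit 260) (nat_lit 253) (nat_lit 207))))))))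
noncomputable def xc151 : XT := (XT.nd (nat_lit 1404) (nat_lit 1520) (nat_lit 0) (XT.nd (nat_lit 702) (nat_lit 1596) (nat_lit 0) (XT.nd (nat_lit 312) (nat_lit 988) (nat_lit 0) (XT.nd (nat_lit 156) (nat_lit 608) (nat_lit 0) (XT.nd (nat_lit 78) (nat_lit 0) (nat_lit 0) (XT.lf (nat_lit 76) (nat_lit 127675045) (nat_lit 0) (nat_lit 6624830329) (nat_lit 684) (nat_lit 3244248591) (nat_lit 85) (nat_lit 5) (nat_lit 84) (nat_lit 5) (nat_lit 93) (nat_lit 5) (nat_lit 261) (nat_lit 253) (nat_lit 206)) (XT.lf (nat_lit 76) (nat_lit 4979568919) (nat_lit 0) (nat_lit 3131162598) (nat_lit 684) (nat_lit 2123787056) (nat_lit 85) (nat_lit 5) (nat_lit 84) (nat_lit 5) (nat_lit 93) (nat_lit 5) (nat_lit 262) (nat_lit 253) (nat_lit 205))) (XT.nd (nat_lit 78) (nat_lit 684) (nat_lit 0) (XT.lf (nat_lit 0) (nat_lit 9502644898) (nat_lit 608) (nat_lit 454056251) (nat_lit 76) (nat_lit 529330017) (nat_lit 85) (nat_lit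 5) (nat_lit 93) (nat_lit 5) (nat_lit 86) (nat_lit 5) (nat_lit 263) (nat_lit 253) (nat_lit 204)) (XT.lf (nat_lit 0) (nat_lit 291770100) (nat_lit 684) (nat_lit 6100263752) (nat_lit 76) (nat_lit 4353823894) (nat_lit 76) (nat_lit 5) (nat_lit 85) (nat_lit 5) (nat_lit 77) (nat_lit 5) (nat_lit 264) (nat_lit 253) (nat_lit 203)))) (XT.nd (nat_lit 156) (nat_lit 304) (nat_lit 0) (XT.nd (nat_lit 78) (nat_lit 684) (nat_lit 0) (XT.lf (nat_lit 0) (nat_lit 1565509559) (nat_lit 684) (nat_lit 1053312786) (nat_lit 76) (nat_lit 8400781905) (nat_lit 76) (nat_lit 5) (nat_lit 85) (nat_lit 5) (nat_lit 77) (nat_lit 5) (nat_lit 265) (nat_lit 253) (nat_lit 202)) (XT.lf (nat_lit 0) (nat_lit 2955005075) (nat_lit 760) (nat_lit 6975651613) (nat_lit 76) (nat_lit 1373900151) (nat_lit 67) (nat_lit 5) (nat_lit 77) (nat_lit 5) (nat_lit 68) (nat_lit 5) (nat_lit 266) (nat_lit 253) (nat_lit 201))) (XT.nd (nat_lit 78) (nat_lit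 304) (nat_lit 0) (XT.lf (nat_lit 0) (nat_lit 4438365283) (nat_lit 760) (nat_lit 1663880069) (nat_lit 76) (nat_lit 5500408603) (nat_lit 67) (nat_lit 5) (nat_lit 77) (nat_lit 5) (nat_lit 68) (nat_lit 5) (nat_lit 267) (nat_lit 253) (nat_lit 200)) (XT.nd (nat_lit 78) (nat_lit 0) (nat_lit 0) (XT.lf (nat_lit 0) (nat_lit 4008841574) (nat_lit 304) (nat_lit 2014715092) (nat_lit 380) (nat_lit 5890826954) (nat_lit 63) (nat_lit 5) (nat_lit 67) (nat_lit 5) (nat_lit 68) (nat_lit 5) (nat_lit 268) (nat_lit 253) (nat_lit 199)) (XT.lf (nat_lit 0) (nat_lit 7718453632) (nat_lit 380) (nat_lit 2287570880) (nat_lit 76) (nat_lit 2234258528) (nat_lit 63) (nat_lit 5) (nat_lit 68) (nat_lit 5) (nat_lit 64) (nat_lit 5) (nat_lit 269) (nat_lit 253) (nat_lit 198)))))) (XT.nd (nat_lit 312) (nat_lit 836) (nat_lit 0) (XT.nd (nat_lit 156) (nat_lit 380) (nat_lit 0) (XT.nd (nat_lit 78) (nat_lit 0) (nat_lit 0) (XT.lf (nat_lit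 0) (nat_lit 3662906405) (nat_lit 380) (nat_lit 5893264542) (nat_lit 456) (nat_lit 3023503254) (nat_lit 58) (nat_lit 5) (nat_lit 63) (nat_lit 5) (nat_lit 64) (nat_lit 5) (nat_lit 270) (nat_lit 253) (nat_lit 197)) (XT.lf (nat_lit 0) (nat_lit 9958252459) (nat_lit 380) (nat_lit 1535151689) (nat_lit 456) (nat_lit 1442345030) (nat_lit 58) (nat_lit 5) (nat_lit 63) (nat_lit 5) (nat_lit 64) (nat_lit 5) (nat_lit 271) (nat_lit 253) (nat_lit 196))) (XT.nd (nat_lit 78) (nat_lit 0) (nat_lit 0) (XT.lf (nat_lit 0) (nat_lit 281051746) (nat_lit 380) (nat_lit 10026523413) (nat_lit 76) (nat_lit 2998461825) (nat_lit 53) (nat_lit 5) (nat_lit 58) (nat_lit 5) (nat_lit 54) (nat_lit 5) (nat_lit 272) (nat_lit 253) (nat_lit 195)) (XT.lf (nat_lit 0) (nat_lit 2089284041) (nat_lit 380) (nat_lit 3821848071) (nat_lit 76) (nat_lit 7780250642) (nat_lit 53) (nat_lit 5) (nat_lit 58) (nat_lit 5) (nat_lit 54) (nat_lit 5)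 (nat_lit 273) (nat_lit 253) (nat_lit 194)))) (XT.nd (nat_lit 156) (nat_lit 532) (nat_lit 0) (XT.nd (nat_lit 78) (nat_lit 0) (nat_lit 0) (XT.lf (nat_lit 0) (nat_lit 2749993792) (nat_lit 304) (nat_lit 1252983094) (nat_lit 380) (nat_lit 10092345260) (nat_lit 49) (nat_lit 5) (nat_lit 53) (nat_lit 5) (nat_lit 54) (nat_lit 5) (nat_lit 274) (nat_lit 253) (nat_lit 193)) (XT.lf (nat_lit 0) (nat_lit 6107849679) (nat_lit 380) (nat_lit 4822924461) (nat_lit 76) (nat_lit 3583984631) (nat_lit 49) (nat_lit 5) (nat_lit 54) (nat_lit 5) (nat_lit 50) (nat_lit 5) (nat_lit 275) (nat_lit 253) (nat_lit 192))) (XT.nd (nat_lit 78) (nat_lit 304) (nat_lit 0) (XT.lf (nat_lit 0) (nat_lit 2039916317) (nat_lit 228) (nat_lit 6304638237) (nat_lit 304) (nat_lit 6609354705) (nat_lit 46) (nat_lit 5) (nat_lit 49) (nat_lit 5) (nat_lit 50) (nat_lit 5) (nat_lit 276) (nat_lit 253) (nat_lit 191)) (XT.nd (nat_lit 78) (nat_lit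 304) (nat_lit 0) (XT.lf (nat_lit 0) (nat_lit 9383398368) (nat_lit 228) (nat_lit 1366334939) (nat_lit 304) (nat_lit 4662520087) (nat_lit 46) (nat_lit 5) (nat_lit 49) (nat_lit 5) (nat_lit 50) (nat_lit 5) (nat_lit 277) (nat_lit 253) (nat_lit 190)) (XT.lf (nat_lit 0) (nat_lit 1147957814) (nat_lit 304) (nat_lit 12180839062) (nat_lit 380) (nat_lit 2562101379) (nat_lit 42) (nat_lit 5) (nat_lit 46) (nat_lit 5) (nat_lit 47) (nat_lit 5) (nat_lit 278) (nat_lit 253) (nat_lit 189))))))) (XT.nd (nat_lit 702) (nat_lit 532) (nat_lit 0) (XT.nd (nat_lit 312) (nat_lit 684) (nat_lit 0) (XT.nd (nat_lit 156) (nat_lit 228) (nat_lit 0) (XT.nd (nat_lit 78) (nat_lit 76) (nat_lit 0) (XT.lf (nat_lit 0) (nat_lit 8840558708) (nat_lit 304) (nat_lit 7297156557) (nat_lit 380) (nat_lit 250776737) (nat_lit 42) (nat_lit 5) (nat_lit 46) (nat_lit 5) (nat_lit 47) (nat_lit 5) (nat_lit 279) (nat_lit 253) (nat_lit 188)) (XT.lf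 (nat_lit 0) (nat_lit 2083914143) (nat_lit 380) (nat_lit 55782436) (nat_lit 76) (nat_lit 14770753621) (nat_lit 41) (nat_lit 5) (nat_lit 46) (nat_lit 5) (nat_lit 42) (nat_lit 5) (nat_lit 280) (nat_lit 253) (nat_lit 187))) (XT.nd (nat_lit 78) (nat_lit 0) (nat_lit 0) (XT.lf (nat_lit 0) (nat_lit 4684088139) (nat_lit 304) (nat_lit 9469504430) (nat_lit 76) (nat_lit 3296902690) (nat_lit 38) (nat_lit 5) (nat_lit 42) (nat_lit 5) (nat_lit 39) (nat_lit 5) (nat_lit 281) (nat_lit 253) (nat_lit 186)) (XT.lf (nat_lit 0) (nat_lit 7429341981) (nat_lit 304) (nat_lit 1658878075) (nat_lit 76) (nat_lit 8928619739) (nat_lit 38) (nat_lit 5) (nat_lit 42) (nat_lit 5) (nat_lit 39) (nat_lit 5) (nat_lit 282) (nat_lit 253) (nat_lit 185)))) (XT.nd (nat_lit 156) (nat_lit 456) (nat_lit 0) (XT.nd (nat_lit 78) (nat_lit 0) (nat_lit 0) (XT.lf (nat_lit 0) (nat_lit 6731216113) (nat_lit 228) (nat_lit 3665767896) (nat_lit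 304) (nat_lit 8210309638) (nat_lit 35) (nat_lit 5) (nat_lit 38) (nat_lit 5) (nat_lit 39) (nat_lit 5) (nat_lit 283) (nat_lit 253) (nat_lit 184)) (XT.lf (nat_lit 0) (nat_lit 13553694528) (nat_lit 304) (nat_lit 3686568620) (nat_lit 76) (nat_lit 1985018785) (nat_lit 35) (nat_lit 5) (nat_lit 39) (nat_lit 5) (nat_lit 36) (nat_lit 5) (nat_lit 284) (nat_lit 253) (nat_lit 183))) (XT.nd (nat_lit 78) (nat_lit 304) (nat_lit 0) (XT.lf (nat_lit 0) (nat_lit 4986205831) (nat_lit 152) (nat_lit 12001380021) (nat_lit 228) (nat_lit 2880660386) (nat_lit 33) (nat_lit 5) (nat_lit 35) (nat_lit 5) (nat_lit 36) (nat_lit 5) (nat_lit 285) (nat_lit 253) (nat_lit 182)) (XT.nd (nat_lit 78) (nat_lit 228) (nat_lit 0) (XT.lf (nat_lit 0) (nat_lit 93231543) (nat_lit 228) (nat_lit 6347370074) (nat_lit 76) (nat_lit 14100507400) (nat_lit 32) (nat_lit 5) (nat_lit 35) (nat_lit 5) (nat_lit 33) (nat_lit 5) (nat_lit 286) (nat_lit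 253) (nat_lit 181)) (XT.lf (nat_lit 0) (nat_lit 2626158423) (nat_lit 228) (nat_lit 516286126) (nat_lit 304) (nat_lit 18101675306) (nat_lit 29) (nat_lit 5) (nat_lit 32) (nat_lit 5) (nat_lit 33) (nat_lit 5) (nat_lit 287) (nat_lit 253) (nat_lit 180)))))) (XT.nd (nat_lit 312) (nat_lit 380) (nat_lit 0) (XT.nd (nat_lit 156) (nat_lit 152) (nat_lit 0) (XT.nd (nat_lit 78) (nat_lit 0) (nat_lit 0) (XT.lf (nat_lit 0) (nat_lit 6525213953) (nat_lit 304) (nat_lit 9824083815) (nat_lit 76) (nat_lit 5623964768) (nat_lit 29) (nat_lit 5) (nat_lit 33) (nat_lit 5) (nat_lit 30) (nat_lit 5) (nat_lit 288) (nat_lit 253) (nat_lit 179)) (XT.lf (nat_lit 0) (nat_lit 10069184093) (nat_lit 304) (nat_lit 622867065) (nat_lit 76) (nat_lit 12047242453) (nat_lit 29) (nat_lit 5) (nat_lit 33) (nat_lit 5) (nat_lit 30) (nat_lit 5) (nat_lit 289) (nat_lit 253) (nat_lit 178))) (XT.nd (nat_lit 78) (nat_lit 0) (nat_lit 0) (XT.lf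 (nat_lit 0) (nat_lit 9313755491) (nat_lit 152) (nat_lit 4606390652) (nat_lit 228) (nat_lit 9617023160) (nat_lit 27) (nat_lit 5) (nat_lit 29) (nat_lit 5) (nat_lit 30) (nat_lit 5) (nat_lit 290) (nat_lit 253) (nat_lit 177)) (XT.lf (nat_lit 0) (nat_lit 17986886140) (nat_lit 228) (nat_lit 4656663898) (nat_lit 76) (nat_lit 1730258426) (nat_lit 27) (nat_lit 5) (nat_lit 30) (nat_lit 5) (nat_lit 28) (nat_lit 5) (nat_lit 291) (nat_lit 253) (nat_lit 176)))) (XT.nd (nat_lit 156) (nat_lit 152) (nat_lit 0) (XT.nd (nat_lit 78) (nat_lit 76) (nat_lit 0) (XT.lf (nat_lit 0) (nat_lit 5465882652) (nat_lit 152) (nat_lit 16937325311) (nat_lit 228) (nat_lit 2841789070) (nat_lit 25) (nat_lit 5) (nat_lit 27) (nat_lit 5) (nat_lit 28) (nat_lit 5) (nat_lit 292) (nat_lit 253) (nat_lit 175)) (XT.lf (nat_lit 0) (nat_lit 918061456) (nat_lit 228) (nat_lit 9936738998) (nat_lit 76) (nat_lit 15301001807) (nat_lit 24) (nat_lit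 5) (nat_lit 27) (nat_lit 5) (nat_lit 25) (nat_lit 5) (nat_lit 293) (nat_lit 253) (nat_lit 174))) (XT.nd (nat_lit 78) (nat_lit 0) (nat_lit 0) (XT.lf (nat_lit 0) (nat_lit 341015436) (nat_lit 152) (nat_lit 4420891146) (nat_lit 228) (nat_lit 22348362241) (nat_lit 22) (nat_lit 5) (nat_lit 24) (nat_lit 5) (nat_lit 25) (nat_lit 5) (nat_lit 294) (nat_lit 253) (nat_lit 173)) (XT.nd (nat_lit 78) (nat_lit 0) (nat_lit 0) (XT.lf (nat_lit 0) (nat_lit 8991839597) (nat_lit 228) (nat_lit 16686929401) (nat_lit 76) (nat_lit 2424019361) (nat_lit 22) (nat_lit 5) (nat_lit 25) (nat_lit 5) (nat_lit 23) (nat_lit 5) (nat_lit 295) (nat_lit 253) (nat_lit 172)) (XT.lf (nat_lit 0) (nat_lit 13492792393) (nat_lit 228) (nat_lit 6193261340) (nat_lit 76) (nat_lit 9455927247) (nat_lit 22) (nat_lit 5) (nat_lit 25) (nat_lit 5) (nat_lit 23) (nat_lit 5) (nat_lit 296) (nat_lit 253) (nat_lit 171))))))))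
noncomputable def xc152 : XT := (XT.nd (nat_lit 1326) (nat_lit 380) (nat_lit 0) (XT.nd (nat_lit 624) (nat_lit 380) (nat_lit 0) (XT.nd (nat_lit 312) (nat_lit 152) (nat_lit 0) (XT.nd (nat_lit 156) (nat_lit 152) (nat_lit 0) (XT.nd (nat_lit 78) (nat_lit 0) (nat_lit 0) (XT.lf (nat_lit 0) (nat_lit 4964658287) (nat_lit 152) (nat_lit 13319312964) (nat_lit 228) (nat_lit 11945925215) (nat_lit 20) (nat_lit 5) (nat_lit 22) (nat_lit 5) (nat_lit 23) (nat_lit 5) (nat_lit 297) (nat_lit 253) (nat_lit 170)) (XT.lf (nat_lit 0) (nat_lit 16876469846) (nat_lit 152) (nat_lit 6531081648) (nat_lit 228) (nat_lit 7960035213) (nat_lit 20) (nat_lit 5) (nat_lit 22) (nat_lit 5) (nat_lit 23) (nat_lit 5) (nat_lit 298) (nat_lit 253) (nat_lit 169))) (XT.nd (nat_lit 78) (nat_lit 152) (nat_lit 0) (XT.lf (nat_lit 0) (nat_lit 28785051061) (nat_lit 228) (nat_lit 3206207705) (nat_lit 76) (nat_lit 571035772) (nat_lit 20) (nat_lit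 5) (nat_lit 23) (nat_lit 5) (nat_lit 21) (nat_lit 4) (nat_lit 299) (nat_lit 253) (nat_lit 168)) (XT.lf (nat_lit 0) (nat_lit 832256319) (nat_lit 152) (nat_lit 25018698118) (nat_lit 76) (nat_lit 7953459586) (nat_lit 18) (nat_lit 5) (nat_lit 20) (nat_lit 5) (nat_lit 19) (nat_lit 5) (nat_lit 300) (nat_lit 253) (nat_lit 167)))) (XT.nd (nat_lit 156) (nat_lit 152) (nat_lit 0) (XT.nd (nat_lit 78) (nat_lit 0) (nat_lit 0) (XT.lf (nat_lit 0) (nat_lit 5589515740) (nat_lit 152) (nat_lit 13698001148) (nat_lit 76) (nat_lit 15815832615) (nat_lit 18) (nat_lit 5) (nat_lit 20) (nat_lit 5) (nat_lit 19) (nat_lit 5) (nat_lit 301) (nat_lit 253) (nat_lit 166)) (XT.lf (nat_lit 0) (nat_lit 10574196190) (nat_lit 152) (nat_lit 1828233541) (nat_lit 76) (nat_lit 24065340656) (nat_lit 18) (nat_lit 5) (nat_lit 20) (nat_lit 5) (nat_lit 19) (nat_lit 5) (nat_lit 302) (nat_lit 253) (nat_lit 165))) (XT.nd (nat_lit 78)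 (nat_lit 0) (nat_lit 0) (XT.lf (nat_lit 0) (nat_lit 10969973723) (nat_lit 152) (nat_lit 4999464266) (nat_lit 228) (nat_lit 21922923704) (nat_lit 16) (nat_lit 5) (nat_lit 18) (nat_lit 5) (nat_lit 19) (nat_lit 5) (nat_lit 303) (nat_lit 253) (nat_lit 164)) (XT.lf (nat_lit 0) (nat_lit 21699400156) (nat_lit 228) (nat_lit 14975183325) (nat_lit 76) (nat_lit 2710366168) (nat_lit 16) (nat_lit 5) (nat_lit 19) (nat_lit 5) (nat_lit 17) (nat_lit 4) (nat_lit 304) (nat_lit 253) (nat_lit 163))))) (XT.nd (nat_lit 312) (nat_lit 228) (nat_lit 0) (XT.nd (nat_lit 156) (nat_lit 76) (nat_lit 0) (XT.nd (nat_lit 78) (nat_lit 76) (nat_lit 0) (XT.lf (nat_lit 0) (nat_lit 27788470519) (nat_lit 228) (nat_lit 2528101005) (nat_lit 76) (nat_lit 10631979255) (nat_lit 16) (nat_lit 5) (nat_lit 19) (nat_lit 5) (nat_lit 17) (nat_lit 4) (nat_lit 305) (nat_lit 253) (nat_lit 162)) (XT.lf (nat_lit 0) (nat_lit 10874605846) (nat_lit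 76) (nat_lit 23468268445) (nat_lit 152) (nat_lit 8239427283) (nat_lit 15) (nat_lit 5) (nat_lit 16) (nat_lit 5) (nat_lit 17) (nat_lit 4) (nat_lit 306) (nat_lit 253) (nat_lit 161))) (XT.nd (nat_lit 78) (nat_lit 76) (nat_lit 0) (XT.lf (nat_lit 0) (nat_lit 25020671580) (nat_lit 76) (nat_lit 16238434953) (nat_lit 152) (nat_lit 3036940914) (nat_lit 15) (nat_lit 5) (nat_lit 16) (nat_lit 5) (nat_lit 17) (nat_lit 4) (nat_lit 307) (nat_lit 253) (nat_lit 160)) (XT.lf (nat_lit 0) (nat_lit 2339593573) (nat_lit 152) (nat_lit 6273456051) (nat_lit 76) (nat_lit 37480971147) (nat_lit 14) (nat_lit 5) (nat_lit 16) (nat_lit 5) (nat_lit 15) (nat_lit 5) (nat_lit 308) (nat_lit 253) (nat_lit 159)))) (XT.nd (nat_lit 156) (nat_lit 76) (nat_lit 0) (XT.nd (nat_lit 78) (nat_lit 0) (nat_lit 0) (XT.lf (nat_lit 0) (nat_lit 7557179804) (nat_lit 152) (nat_lit 435664876) (nat_lit 228) (nat_lit 39981072423) (nat_lit 12)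 (nat_lit 5) (nat_lit 14) (nat_lit 5) (nat_lit 15) (nat_lit 5) (nat_lit 309) (nat_lit 253) (nat_lit 158)) (XT.lf (nat_lit 0) (nat_lit 14156051511) (nat_lit 228) (nat_lit 27787916897) (nat_lit 76) (nat_lit 7992485844) (nat_lit 12) (nat_lit 5) (nat_lit 15) (nat_lit 5) (nat_lit 13) (nat_lit 4) (nat_lit 310) (nat_lit 253) (nat_lit 157))) (XT.nd (nat_lit 78) (nat_lit 76) (nat_lit 0) (XT.lf (nat_lit 0) (nat_lit 20626993025) (nat_lit 228) (nat_lit 14547724456) (nat_lit 76) (nat_lit 16822432210) (nat_lit 12) (nat_lit 5) (nat_lit 15) (nat_lit 5) (nat_lit 13) (nat_lit 4) (nat_lit 311) (nat_lit 253) (nat_lit 156)) (XT.nd (nat_lit 78) (nat_lit 76) (nat_lit 0) (XT.lf (nat_lit 0) (nat_lit 27414274276) (nat_lit 228) (nat_lit 657833760) (nat_lit 76) (nat_lit 26089141900) (nat_lit 12) (nat_lit 5) (nat_lit 15) (nat_lit 5) (nat_lit 13) (nat_lit 4) (nat_lit 312) (nat_lit 253) (nat_lit 155)) (XT.lf (nat_lit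 0) (nat_lit 14374913358) (nat_lit 76) (nat_lit 20383574782) (nat_lit 152) (nat_lit 21664197831) (nat_lit 11) (nat_lit 5) (nat_lit 12) (nat_lit 5) (nat_lit 13) (nat_lit 4) (nat_lit 313) (nat_lit 253) (nat_lit 154))))))) (XT.nd (nat_lit 702) (nat_lit 152) (nat_lit 0) (XT.nd (nat_lit 312) (nat_lit 76) (nat_lit 0) (XT.nd (nat_lit 156) (nat_lit 152) (nat_lit 0) (XT.nd (nat_lit 78) (nat_lit 0) (nat_lit 0) (XT.lf (nat_lit 0) (nat_lit 30170600340) (nat_lit 76) (nat_lit 12303735714) (nat_lit 152) (nat_lit 16322645355) (nat_lit 11) (nat_lit 5) (nat_lit 12) (nat_lit 5) (nat_lit 13) (nat_lit 4) (nat_lit 314) (nat_lit 253) (nat_lit 153)) (XT.lf (nat_lit 0) (nat_lit 46745085008) (nat_lit 76) (nat_lit 3824493854) (nat_lit 152) (nat_lit 10720740983) (nat_lit 11) (nat_lit 5) (nat_lit 12) (nat_lit 5) (nat_lit 13) (nat_lit 4) (nat_lit 315) (nat_lit 253) (nat_lit 152))) (XT.nd (nat_lit 78) (nat_lit 76)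 (nat_lit 0) (XT.lf (nat_lit 0) (nat_lit 154926580) (nat_lit 76) (nat_lit 58990207868) (nat_lit 76) (nat_lit 4759421174) (nat_lit 10) (nat_lit 4) (nat_lit 11) (nat_lit 5) (nat_lit 11) (nat_lit 4) (nat_lit 316) (nat_lit 253) (nat_lit 151)) (XT.lf (nat_lit 0) (nat_lit 1758883391) (nat_lit 152) (nat_lit 50643011676) (nat_lit 76) (nat_lit 14231098052) (nat_lit 9) (nat_lit 5) (nat_lit 11) (nat_lit 5) (nat_lit 10) (nat_lit 4) (nat_lit 317) (nat_lit 253) (nat_lit 150)))) (XT.nd (nat_lit 156) (nat_lit 76) (nat_lit 0) (XT.nd (nat_lit 78) (nat_lit 0) (nat_lit 0) (XT.lf (nat_lit 0) (nat_lit 8437309315) (nat_lit 152) (nat_lit 36969320375) (nat_lit 76) (nat_lit 24087620811) (nat_lit 9) (nat_lit 5) (nat_lit 11) (nat_lit 5) (nat_lit 10) (nat_lit 4) (nat_lit 318) (nat_lit 253) (nat_lit 149)) (XT.lf (nat_lit 0) (nat_lit 15444088812) (nat_lit 152) (nat_lit 22621690828) (nat_lit 76) (nat_lit 34433076041)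 (nat_lit 9) (nat_lit 5) (nat_lit 11) (nat_lit 5) (nat_lit 10) (nat_lit 4) (nat_lit 319) (nat_lit 253) (nat_lit 148))) (XT.nd (nat_lit 78) (nat_lit 76) (nat_lit 0) (XT.lf (nat_lit 0) (nat_lit 22795904690) (nat_lit 152) (nat_lit 7565962013) (nat_lit 76) (nat_lit 45292095779) (nat_lit 9) (nat_lit 5) (nat_lit 11) (nat_lit 5) (nat_lit 10) (nat_lit 4) (nat_lit 320) (nat_lit 253) (nat_lit 147)) (XT.nd (nat_lit 78) (nat_lit 0) (nat_lit 0) (XT.lf (nat_lit 0) (nat_lit 8505956782) (nat_lit 76) (nat_lit 22137106315) (nat_lit 152) (nat_lit 48317379873) (nat_lit 8) (nat_lit 5) (nat_lit 9) (nat_lit 5) (nat_lit 10) (nat_lit 4) (nat_lit 321) (nat_lit 253) (nat_lit 146)) (XT.lf (nat_lit 0) (nat_lit 25635447018) (nat_lit 76) (nat_lit 13370320230) (nat_lit 152) (nat_lit 43420326495) (nat_lit 8) (nat_lit 5) (nat_lit 9) (nat_lit 5) (nat_lit 10) (nat_lit 4) (nat_lit 322) (nat_lit 253) (nat_lit 145)))))) (XT.nd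 (nat_lit 312) (nat_lit 76) (nat_lit 0) (XT.nd (nat_lit 156) (nat_lit 76) (nat_lit 0) (XT.nd (nat_lit 78) (nat_lit 0) (nat_lit 0) (XT.lf (nat_lit 0) (nat_lit 43613128324) (nat_lit 76) (nat_lit 4168768376) (nat_lit 152) (nat_lit 38283371233) (nat_lit 8) (nat_lit 5) (nat_lit 9) (nat_lit 5) (nat_lit 10) (nat_lit 4) (nat_lit 323) (nat_lit 253) (nat_lit 144)) (XT.lf (nat_lit 0) (nat_lit 57078052818) (nat_lit 152) (nat_lit 27490531358) (nat_lit 0) (nat_lit 5313760773) (nat_lit 8) (nat_lit 5) (nat_lit 10) (nat_lit 4) (nat_lit 8) (nat_lit 4) (nat_lit 324) (nat_lit 253) (nat_lit 143))) (XT.nd (nat_lit 78) (nat_lit 76) (nat_lit 0) (XT.lf (nat_lit 0) (nat_lit 66903034576) (nat_lit 152) (nat_lit 11856864363) (nat_lit 0) (nat_lit 15127180867) (nat_lit 8) (nat_lit 5) (nat_lit 10) (nat_lit 4) (nat_lit 8) (nat_lit 4) (nat_lit 325) (nat_lit 253) (nat_lit 142)) (XT.lf (nat_lit 0) (nat_lit 4701652799)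 (nat_lit 76) (nat_lit 72586901808) (nat_lit 76) (nat_lit 20800036991) (nat_lit 7) (nat_lit 4) (nat_lit 8) (nat_lit 5) (nat_lit 8) (nat_lit 4) (nat_lit 326) (nat_lit 253) (nat_lit 141)))) (XT.nd (nat_lit 156) (nat_lit 76) (nat_lit 0) (XT.nd (nat_lit 78) (nat_lit 0) (nat_lit 0) (XT.lf (nat_lit 0) (nat_lit 22492541935) (nat_lit 76) (nat_lit 65897577314) (nat_lit 76) (nat_lit 14100225727) (nat_lit 7) (nat_lit 4) (nat_lit 8) (nat_lit 5) (nat_lit 8) (nat_lit 4) (nat_lit 327) (nat_lit 253) (nat_lit 140)) (XT.lf (nat_lit 0) (nat_lit 41166120822) (nat_lit 76) (nat_lit 58876800230) (nat_lit 76) (nat_lit 7069461243) (nat_lit 7) (nat_lit 4) (nat_lit 8) (nat_lit 5) (nat_lit 8) (nat_lit 4) (nat_lit 328) (nat_lit 253) (nat_lit 139))) (XT.nd (nat_lit 78) (nat_lit 0) (nat_lit 0) (XT.lf (nat_lit 0) (nat_lit 299106562) (nat_lit 152) (nat_lit 51203682343) (nat_lit 76) (nat_lit 60462678284) (nat_lit 6)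 (nat_lit 5) (nat_lit 8) (nat_lit 5) (nat_lit 7) (nat_lit 4) (nat_lit 329) (nat_lit 253) (nat_lit 138)) (XT.nd (nat_lit 78) (nat_lit 0) (nat_lit 0) (XT.lf (nat_lit 0) (nat_lit 7794977720) (nat_lit 152) (nat_lit 35846205335) (nat_lit 76) (nat_lit 73414409515) (nat_lit 6) (nat_lit 5) (nat_lit 8) (nat_lit 5) (nat_lit 7) (nat_lit 4) (nat_lit 330) (nat_lit 253) (nat_lit 137)) (XT.lf (nat_lit 0) (nat_lit 15662266453) (nat_lit 152) (nat_lit 19726890925) (nat_lit 76) (nat_lit 87011239112) (nat_lit 6) (nat_lit 5) (nat_lit 8) (nat_lit 5) (nat_lit 7) (nat_lit 4) (nat_lit 331) (nat_lit 253) (nat_lit 136))))))))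
noncomputable def xc153 : XT := (XT.nd (nat_lit 1326) (nat_lit 152) (nat_lit 0) (XT.nd (nat_lit 624) (nat_lit 76) (nat_lit 0) (XT.nd (nat_lit 312) (nat_lit 0) (nat_lit 0) (XT.nd (nat_lit 156) (nat_lit 0) (nat_lit 0) (XT.nd (nat_lit 78) (nat_lit 76) (nat_lit 0) (XT.lf (nat_lit 0) (nat_lit 23919704400) (nat_lit 152) (nat_lit 2807359792) (nat_lit 76) (nat_lit 101285540478) (nat_lit 6) (nat_lit 5) (nat_lit 8) (nat_lit 5) (nat_lit 7) (nat_lit 4) (nat_lit 332) (nat_lit 253) (nat_lit 135)) (XT.lf (nat_lit 0) (nat_lit 15447075545) (nat_lit 76) (nat_lit 17381048721) (nat_lit 152) (nat_lit 101065396640) (nat_lit 5) (nat_lit 5) (nat_lit 6) (nat_lit 5) (nat_lit 7) (nat_lit 4) (nat_lit 333) (nat_lit 253) (nat_lit 134))) (XT.nd (nat_lit 78) (nat_lit 0) (nat_lit 0) (XT.lf (nat_lit 0) (nat_lit 34706310917) (nat_lit 76) (nat_lit 7520197799) (nat_lit 152) (nat_lit 97839750055) (nat_lit 5) (nat_lit 5)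 (nat_lit 6) (nat_lit 5) (nat_lit 7) (nat_lit 4) (nat_lit 334) (nat_lit 253) (nat_lit 133)) (XT.lf (nat_lit 0) (nat_lit 52136161305) (nat_lit 152) (nat_lit 91668608055) (nat_lit 0) (nat_lit 2740799579) (nat_lit 5) (nat_lit 5) (nat_lit 7) (nat_lit 4) (nat_lit 5) (nat_lit 4) (nat_lit 335) (nat_lit 253) (nat_lit 132)))) (XT.nd (nat_lit 156) (nat_lit 0) (nat_lit 0) (XT.nd (nat_lit 78) (nat_lit 0) (nat_lit 0) (XT.lf (nat_lit 0) (nat_lit 62661823200) (nat_lit 152) (nat_lit 77420974293) (nat_lit 0) (nat_lit 13260023507) (nat_lit 5) (nat_lit 5) (nat_lit 7) (nat_lit 4) (nat_lit 5) (nat_lit 4) (nat_lit 336) (nat_lit 253) (nat_lit 131)) (XT.lf (nat_lit 0) (nat_lit 73711144139) (nat_lit 152) (nat_lit 62465712268) (nat_lit 0) (nat_lit 24303213049) (nat_lit 5) (nat_lit 5) (nat_lit 7) (nat_lit 4) (nat_lit 5) (nat_lit 4) (nat_lit 337) (nat_lit 253) (nat_lit 130))) (XT.nd (nat_lit 78) (nat_lit 0) (nat_lit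 0) (XT.lf (nat_lit 0) (nat_lit 85310432029) (nat_lit 152) (nat_lit 46767214213) (nat_lit 0) (nat_lit 35896661513) (nat_lit 5) (nat_lit 5) (nat_lit 7) (nat_lit 4) (nat_lit 5) (nat_lit 4) (nat_lit 338) (nat_lit 253) (nat_lit 129)) (XT.lf (nat_lit 0) (nat_lit 97487304222) (nat_lit 152) (nat_lit 30288102752) (nat_lit 0) (nat_lit 48067972348) (nat_lit 5) (nat_lit 5) (nat_lit 7) (nat_lit 4) (nat_lit 5) (nat_lit 4) (nat_lit 339) (nat_lit 253) (nat_lit 128))))) (XT.nd (nat_lit 312) (nat_lit 0) (nat_lit 0) (XT.nd (nat_lit 156) (nat_lit 0) (nat_lit 0) (XT.nd (nat_lit 78) (nat_lit 76) (nat_lit 0) (XT.lf (nat_lit 0) (nat_lit 110270753270) (nat_lit 152) (nat_lit 12989141905) (nat_lit 0) (nat_lit 60846124865) (nat_lit 5) (nat_lit 5) (nat_lit 7) (nat_lit 4) (nat_lit 5) (nat_lit 4) (nat_lit 340) (nat_lit 253) (nat_lit 127)) (XT.lf (nat_lit 0) (nat_lit 5341828190) (nat_lit 76) (nat_lit 118432788676)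 (nat_lit 76) (nat_lit 69003115955) (nat_lit 4) (nat_lit 4) (nat_lit 5) (nat_lit 5) (nat_lit 5) (nat_lit 4) (nat_lit 341) (nat_lit 253) (nat_lit 126))) (XT.nd (nat_lit 78) (nat_lit 0) (nat_lit 0) (XT.lf (nat_lit 0) (nat_lit 25036452889) (nat_lit 76) (nat_lit 113135082074) (nat_lit 76) (nat_lit 63700605242) (nat_lit 4) (nat_lit 4) (nat_lit 5) (nat_lit 5) (nat_lit 5) (nat_lit 4) (nat_lit 342) (nat_lit 253) (nat_lit 125)) (XT.lf (nat_lit 0) (nat_lit 45712144461) (nat_lit 76) (nat_lit 107574139184) (nat_lit 76) (nat_lit 58135087010) (nat_lit 4) (nat_lit 4) (nat_lit 5) (nat_lit 5) (nat_lit 5) (nat_lit 4) (nat_lit 343) (nat_lit 253) (nat_lit 124)))) (XT.nd (nat_lit 156) (nat_lit 0) (nat_lit 0) (XT.nd (nat_lit 78) (nat_lit 0) (nat_lit 0) (XT.lf (nat_lit 0) (nat_lit 67418130743) (nat_lit 76) (nat_lit 101736719667) (nat_lit 76) (nat_lit 52293310024) (nat_lit 4) (nat_lit 4) (nat_lit 5) (nat_lit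 5) (nat_lit 5) (nat_lit 4) (nat_lit 344) (nat_lit 253) (nat_lit 123)) (XT.lf (nat_lit 0) (nat_lit 90206092656) (nat_lit 76) (nat_lit 95608924906) (nat_lit 76) (nat_lit 46161365292) (nat_lit 4) (nat_lit 4) (nat_lit 5) (nat_lit 5) (nat_lit 5) (nat_lit 4) (nat_lit 345) (nat_lit 253) (nat_lit 122))) (XT.nd (nat_lit 78) (nat_lit 0) (nat_lit 0) (XT.lf (nat_lit 0) (nat_lit 114130287251) (nat_lit 76) (nat_lit 89176164912) (nat_lit 76) (nat_lit 39724652945) (nat_lit 4) (nat_lit 4) (nat_lit 5) (nat_lit 5) (nat_lit 5) (nat_lit 4) (nat_lit 346) (nat_lit 253) (nat_lit 121)) (XT.nd (nat_lit 78) (nat_lit 0) (nat_lit 0) (XT.lf (nat_lit 0) (nat_lit 139247676897) (nat_lit 76) (nat_lit 82423123591) (nat_lit 76) (nat_lit 32967847477) (nat_lit 4) (nat_lit 4) (nat_lit 5) (nat_lit 5) (nat_lit 5) (nat_lit 4) (nat_lit 347) (nat_lit 253) (nat_lit 120)) (XT.lf (nat_lit 0) (nat_lit 165618064902) (nat_lit 76) (nat_lit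 75333722273) (nat_lit 76) (nat_lit 25874861258) (nat_lit 4) (nat_lit 4) (nat_lit 5) (nat_lit 5) (nat_lit 5) (nat_lit 4) (nat_lit 348) (nat_lit 253) (nat_lit 119))))))) (XT.nd (nat_lit 702) (nat_lit 0) (nat_lit 0) (XT.nd (nat_lit 312) (nat_lit 76) (nat_lit 0) (XT.nd (nat_lit 156) (nat_lit 76) (nat_lit 0) (XT.nd (nat_lit 78) (nat_lit 0) (nat_lit 0) (XT.lf (nat_lit 0) (nat_lit 193304237904) (nat_lit 76) (nat_lit 67891081429) (nat_lit 76) (nat_lit 18428806223) (nat_lit 4) (nat_lit 4) (nat_lit 5) (nat_lit 5) (nat_lit 5) (nat_lit 4) (nat_lit 349) (nat_lit 253) (nat_lit 118)) (XT.lf (nat_lit 0) (nat_lit 222372115363) (nat_lit 76) (nat_lit 60077480489) (nat_lit 76) (nat_lit 10611953672) (nat_lit 4) (nat_lit 4) (nat_lit 5) (nat_lit 5) (nat_lit 5) (nat_lit 4) (nat_lit 350) (nat_lit 253) (nat_lit 117))) (XT.nd (nat_lit 78) (nat_lit 76) (nat_lit 0) (XT.lf (nat_lit 0) (nat_lit 252890906511) (nat_lit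 76) (nat_lit 51874315638) (nat_lit 76) (nat_lit 2405692049) (nat_lit 4) (nat_lit 4) (nat_lit 5) (nat_lit 5) (nat_lit 5) (nat_lit 4) (nat_lit 351) (nat_lit 253) (nat_lit 116)) (XT.lf (nat_lit 0) (nat_lit 6010774027) (nat_lit 152) (nat_lit 37149486140) (nat_lit 76) (nat_lit 278820705742) (nat_lit 3) (nat_lit 5) (nat_lit 5) (nat_lit 5) (nat_lit 4) (nat_lit 4) (nat_lit 352) (nat_lit 253) (nat_lit 115)))) (XT.nd (nat_lit 156) (nat_lit 76) (nat_lit 0) (XT.nd (nat_lit 78) (nat_lit 0) (nat_lit 0) (XT.lf (nat_lit 0) (nat_lit 14765957718) (nat_lit 152) (nat_lit 19204168436) (nat_lit 76) (nat_lit 303559486234) (nat_lit 3) (nat_lit 5) (nat_lit 5) (nat_lit 5) (nat_lit 4) (nat_lit 4) (nat_lit 353) (nat_lit 253) (nat_lit 114)) (XT.lf (nat_lit 0) (nat_lit 23957701870) (nat_lit 152) (nat_lit 363768033) (nat_lit 76) (nat_lit 329534282301) (nat_lit 3) (nat_lit 5) (nat_lit 5) (nat_lit 5) (nat_lit 4) (nat_lit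 4) (nat_lit 354) (nat_lit 253) (nat_lit 113))) (XT.nd (nat_lit 78) (nat_lit 0) (nat_lit 0) (XT.lf (nat_lit 0) (nat_lit 20058572758) (nat_lit 76) (nat_lit 13862489362) (nat_lit 152) (nat_lit 337061536470) (nat_lit 2) (nat_lit 5) (nat_lit 3) (nat_lit 5) (nat_lit 4) (nat_lit 4) (nat_lit 355) (nat_lit 253) (nat_lit 112)) (XT.nd (nat_lit 78) (nat_lit 0) (nat_lit 0) (XT.lf (nat_lit 0) (nat_lit 41512614105) (nat_lit 76) (nat_lit 2875017649) (nat_lit 152) (nat_lit 344577904450) (nat_lit 2) (nat_lit 5) (nat_lit 3) (nat_lit 5) (nat_lit 4) (nat_lit 4) (nat_lit 356) (nat_lit 253) (nat_lit 111)) (XT.lf (nat_lit 0) (nat_lit 55511685576) (nat_lit 152) (nat_lit 343945487310) (nat_lit 0) (nat_lit 8383740956) (nat_lit 2) (nat_lit 5) (nat_lit 4) (nat_lit 4) (nat_lit 2) (nat_lit 4) (nat_lit 357) (nat_lit 253) (nat_lit 110)))))) (XT.nd (nat_lit 29640) (nat_lit 0) (nat_lit 6080) (XT.nd (nat_lit 29484) (nat_lit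 0) (nat_lit 6004) (XT.nd (nat_lit 29406) (nat_lit 0) (nat_lit 6688) (XT.lf (nat_lit 0) (nat_lit 67238045243) (nat_lit 152) (nat_lit 340311706242) (nat_lit 0) (nat_lit 20108004605) (nat_lit 2) (nat_lit 5) (nat_lit 4) (nat_lit 4) (nat_lit 2) (nat_lit 4) (nat_lit 358) (nat_lit 253) (nat_lit 109)) (XT.lf (nat_lit 0) (nat_lit 2182006074) (nat_lit 0) (nat_lit 2182006074) (nat_lit 532) (nat_lit 24982836) (nat_lit 90) (nat_lit 5) (nat_lit 90) (nat_lit 3) (nat_lit 97) (nat_lit 3) (nat_lit 254) (nat_lit 254) (nat_lit 212))) (XT.nd (nat_lit 78) (nat_lit 0) (nat_lit 76) (XT.lf (nat_lit 0) (nat_lit 824977176) (nat_lit 684) (nat_lit 613075372) (nat_lit 684) (nat_lit 7512589600) (nat_lit 81) (nat_lit 3) (nat_lit 90) (nat_lit 3) (nat_lit 90) (nat_lit 5) (nat_lit 255) (nat_lit 254) (nat_lit 211)) (XT.lf (nat_lit 0) (nat_lit 1766825335) (nat_lit 608) (nat_lit 5700762830) (nat_lit 684) (nat_lit 1663255024)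 (nat_lit 82) (nat_lit 5) (nat_lit 90) (nat_lit 5) (nat_lit 91) (nat_lit 5) (nat_lit 256) (nat_lit 254) (nat_lit 210)))) (XT.nd (nat_lit 156) (nat_lit 0) (nat_lit 76) (XT.nd (nat_lit 78) (nat_lit 0) (nat_lit 0) (XT.lf (nat_lit 0) (nat_lit 2736510486) (nat_lit 608) (nat_lit 1678880672) (nat_lit 684) (nat_lit 4905815489) (nat_lit 82) (nat_lit 5) (nat_lit 90) (nat_lit 5) (nat_lit 91) (nat_lit 5) (nat_lit 257) (nat_lit 254) (nat_lit 209)) (XT.lf (nat_lit 76) (nat_lit 2596456359) (nat_lit 0) (nat_lit 1147920557) (nat_lit 684) (nat_lit 5777407073) (nat_lit 83) (nat_lit 5) (nat_lit 82) (nat_lit 5) (nat_lit 91) (nat_lit 5) (nat_lit 258) (nat_lit 254) (nat_lit 208))) (XT.nd (nat_lit 78) (nat_lit 0) (nat_lit 0) (XT.lf (nat_lit 0) (nat_lit 4818577216) (nat_lit 608) (nat_lit 2656384229) (nat_lit 684) (nat_lit 2256803695) (nat_lit 83) (nat_lit 5) (nat_lit 91) (nat_lit 5) (nat_lit 92) (nat_lit 5)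 (nat_lit 259) (nat_lit 254) (nat_lit 207)) (XT.nd (nat_lit 78) (nat_lit 0) (nat_lit 0) (XT.lf (nat_lit 76) (nat_lit 1834322604) (nat_lit 0) (nat_lit 4113335495) (nat_lit 684) (nat_lit 4004692497) (nat_lit 84) (nat_lit 5) (nat_lit 83) (nat_lit 5) (nat_lit 92) (nat_lit 5) (nat_lit 260) (nat_lit 254) (nat_lit 206)) (XT.lf (nat_lit 76) (nat_lit 6610722571) (nat_lit 0) (nat_lit 522889995) (nat_lit 684) (nat_lit 3050487762) (nat_lit 84) (nat_lit 5) (nat_lit 83) (nat_lit 5) (nat_lit 92) (nat_lit 5) (nat_lit 261) (nat_lit 254) (nat_lit 205))))))))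
noncomputable def xc154 : XT := (XT.nd (nat_lit 1326) (nat_lit 1824) (nat_lit 0) (XT.nd (nat_lit 624) (nat_lit 1292) (nat_lit 0) (XT.nd (nat_lit 312) (nat_lit 988) (nat_lit 0) (XT.nd (nat_lit 156) (nat_lit 608) (nat_lit 0) (XT.nd (nat_lit 78) (nat_lit 0) (nat_lit 0) (XT.lf (nat_lit 76) (nat_lit 1152642643) (nat_lit 0) (nat_lit 7252669496) (nat_lit 684) (nat_lit 2020951590) (nat_lit 85) (nat_lit 5) (nat_lit 84) (nat_lit 5) (nat_lit 93) (nat_lit 5) (nat_lit 262) (nat_lit 254) (nat_lit 204)) (XT.lf (nat_lit 76) (nat_lit 6198627218) (nat_lit 0) (nat_lit 3570194681) (nat_lit 684) (nat_lit 910443618) (nat_lit 85) (nat_lit 5) (nat_lit 84) (nat_lit 5) (nat_lit 93) (nat_lit 5) (nat_lit 263) (nat_lit 254) (nat_lit 203))) (XT.nd (nat_lit 78) (nat_lit 0) (nat_lit 0) (XT.lf (nat_lit 0) (nat_lit 221143832) (nat_lit 684) (nat_lit 10417756357) (nat_lit 76) (nat_lit 307259278) (nat_lit 76) (nat_lit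 5) (nat_lit 85) (nat_lit 5) (nat_lit 77) (nat_lit 5) (nat_lit 264) (nat_lit 254) (nat_lit 202)) (XT.lf (nat_lit 0) (nat_lit 1476327090) (nat_lit 684) (nat_lit 5386956390) (nat_lit 76) (nat_lit 4357609916) (nat_lit 76) (nat_lit 5) (nat_lit 85) (nat_lit 5) (nat_lit 77) (nat_lit 5) (nat_lit 265) (nat_lit 254) (nat_lit 201)))) (XT.nd (nat_lit 156) (nat_lit 304) (nat_lit 0) (XT.nd (nat_lit 78) (nat_lit 684) (nat_lit 0) (XT.lf (nat_lit 0) (nat_lit 2758040738) (nat_lit 684) (nat_lit 136149331) (nat_lit 76) (nat_lit 8617101788) (nat_lit 76) (nat_lit 5) (nat_lit 85) (nat_lit 5) (nat_lit 77) (nat_lit 5) (nat_lit 266) (nat_lit 254) (nat_lit 200)) (XT.lf (nat_lit 0) (nat_lit 4176945456) (nat_lit 760) (nat_lit 6311130173) (nat_lit 76) (nat_lit 1324590192) (nat_lit 67) (nat_lit 5) (nat_lit 77) (nat_lit 5) (nat_lit 68) (nat_lit 5) (nat_lit 267) (nat_lit 254) (nat_lit 199))) (XT.nd (nat_lit 78) (nat_lit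 304) (nat_lit 0) (XT.lf (nat_lit 0) (nat_lit 5683321764) (nat_lit 760) (nat_lit 782022624) (nat_lit 76) (nat_lit 5663043350) (nat_lit 67) (nat_lit 5) (nat_lit 77) (nat_lit 5) (nat_lit 68) (nat_lit 5) (nat_lit 268) (nat_lit 254) (nat_lit 198)) (XT.lf (nat_lit 0) (nat_lit 5158769755) (nat_lit 304) (nat_lit 2155110995) (nat_lit 380) (nat_lit 5143672355) (nat_lit 63) (nat_lit 5) (nat_lit 67) (nat_lit 5) (nat_lit 68) (nat_lit 5) (nat_lit 269) (nat_lit 254) (nat_lit 197))))) (XT.nd (nat_lit 312) (nat_lit 532) (nat_lit 0) (XT.nd (nat_lit 156) (nat_lit 380) (nat_lit 0) (XT.nd (nat_lit 78) (nat_lit 380) (nat_lit 0) (XT.lf (nat_lit 0) (nat_lit 9045830641) (nat_lit 380) (nat_lit 1447039896) (nat_lit 76) (nat_lit 2309408811) (nat_lit 63) (nat_lit 5) (nat_lit 68) (nat_lit 5) (nat_lit 64) (nat_lit 5) (nat_lit 270) (nat_lit 254) (nat_lit 196)) (XT.lf (nat_lit 0) (nat_lit 4785559487) (nat_lit 380)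 (nat_lit 6159711526) (nat_lit 456) (nat_lit 2215017439) (nat_lit 58) (nat_lit 5) (nat_lit 63) (nat_lit 5) (nat_lit 64) (nat_lit 5) (nat_lit 271) (nat_lit 254) (nat_lit 195))) (XT.nd (nat_lit 78) (nat_lit 380) (nat_lit 0) (XT.lf (nat_lit 0) (nat_lit 11350934379) (nat_lit 380) (nat_lit 1585036661) (nat_lit 456) (nat_lit 600499446) (nat_lit 58) (nat_lit 5) (nat_lit 63) (nat_lit 5) (nat_lit 64) (nat_lit 5) (nat_lit 272) (nat_lit 254) (nat_lit 194)) (XT.lf (nat_lit 0) (nat_lit 1152774244) (nat_lit 380) (nat_lit 9571820286) (nat_lit 76) (nat_lit 3201437845) (nat_lit 53) (nat_lit 5) (nat_lit 58) (nat_lit 5) (nat_lit 54) (nat_lit 5) (nat_lit 273) (nat_lit 254) (nat_lit 193)))) (XT.nd (nat_lit 156) (nat_lit 228) (nat_lit 0) (XT.nd (nat_lit 78) (nat_lit 304) (nat_lit 0) (XT.lf (nat_lit 0) (nat_lit 3010576730) (nat_lit 380) (nat_lit 3102436382) (nat_lit 76) (nat_lit 8219789772) (nat_lit 53) (nat_lit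 5) (nat_lit 58) (nat_lit 5) (nat_lit 54) (nat_lit 5) (nat_lit 274) (nat_lit 254) (nat_lit 192)) (XT.lf (nat_lit 0) (nat_lit 3783312025) (nat_lit 304) (nat_lit 1211731835) (nat_lit 380) (nat_lit 9763250787) (nat_lit 49) (nat_lit 5) (nat_lit 53) (nat_lit 5) (nat_lit 54) (nat_lit 5) (nat_lit 275) (nat_lit 254) (nat_lit 191))) (XT.nd (nat_lit 78) (nat_lit 228) (nat_lit 0) (XT.lf (nat_lit 0) (nat_lit 7168994835) (nat_lit 380) (nat_lit 4172651663) (nat_lit 76) (nat_lit 3858969530) (nat_lit 49) (nat_lit 5) (nat_lit 54) (nat_lit 5) (nat_lit 50) (nat_lit 5) (nat_lit 276) (nat_lit 254) (nat_lit 190)) (XT.nd (nat_lit 78) (nat_lit 0) (nat_lit 0) (XT.lf (nat_lit 0) (nat_lit 3018953429) (nat_lit 228) (nat_lit 6476286376) (nat_lit 304) (nat_lit 6167698664) (nat_lit 46) (nat_lit 5) (nat_lit 49) (nat_lit 5) (nat_lit 50) (nat_lit 5) (nat_lit 277) (nat_lit 254) (nat_lit 189)) (XT.lf (nat_lit 0) (nat_lit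 10687845711) (nat_lit 228) (nat_lit 1297905236) (nat_lit 304) (nat_lit 4160290113) (nat_lit 46) (nat_lit 5) (nat_lit 49) (nat_lit 5) (nat_lit 50) (nat_lit 5) (nat_lit 278) (nat_lit 254) (nat_lit 188))))))) (XT.nd (nat_lit 702) (nat_lit 760) (nat_lit 0) (XT.nd (nat_lit 312) (nat_lit 456) (nat_lit 0) (XT.nd (nat_lit 156) (nat_lit 228) (nat_lit 0) (XT.nd (nat_lit 78) (nat_lit 76) (nat_lit 0) (XT.lf (nat_lit 0) (nat_lit 2061291405) (nat_lit 304) (nat_lit 12614609793) (nat_lit 380) (nat_lit 1973700693) (nat_lit 42) (nat_lit 5) (nat_lit 46) (nat_lit 5) (nat_lit 47) (nat_lit 5) (nat_lit 279) (nat_lit 254) (nat_lit 187)) (XT.lf (nat_lit 0) (nat_lit 405657974) (nat_lit 380) (nat_lit 7082561423) (nat_lit 76) (nat_lit 9685235513) (nat_lit 41) (nat_lit 5) (nat_lit 46) (nat_lit 5) (nat_lit 42) (nat_lit 5) (nat_lit 280) (nat_lit 254) (nat_lit 186))) (XT.nd (nat_lit 78) (nat_lit 0) (nat_lit 0) (XT.lf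 (nat_lit 0) (nat_lit 764622510) (nat_lit 228) (nat_lit 2064516483) (nat_lit 304) (nat_lit 14893220395) (nat_lit 38) (nat_lit 5) (nat_lit 41) (nat_lit 5) (nat_lit 42) (nat_lit 5) (nat_lit 281) (nat_lit 254) (nat_lit 185)) (XT.lf (nat_lit 0) (nat_lit 5532419630) (nat_lit 304) (nat_lit 9127806629) (nat_lit 76) (nat_lit 3630599919) (nat_lit 38) (nat_lit 5) (nat_lit 42) (nat_lit 5) (nat_lit 39) (nat_lit 5) (nat_lit 282) (nat_lit 254) (nat_lit 184)))) (XT.nd (nat_lit 156) (nat_lit 228) (nat_lit 0) (XT.nd (nat_lit 78) (nat_lit 228) (nat_lit 0) (XT.lf (nat_lit 0) (nat_lit 8385692017) (nat_lit 304) (nat_lit 965466720) (nat_lit 76) (nat_lit 9535862244) (nat_lit 38) (nat_lit 5) (nat_lit 42) (nat_lit 5) (nat_lit 39) (nat_lit 5) (nat_lit 283) (nat_lit 254) (nat_lit 183)) (XT.lf (nat_lit 0) (nat_lit 7831610319) (nat_lit 228) (nat_lit 3654179839) (nat_lit 304) (nat_lit 8022071127) (nat_lit 35) (nat_lit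 5) (nat_lit 38) (nat_lit 5) (nat_lit 39) (nat_lit 5) (nat_lit 284) (nat_lit 254) (nat_lit 182))) (XT.nd (nat_lit 78) (nat_lit 228) (nat_lit 0) (XT.lf (nat_lit 0) (nat_lit 14776140699) (nat_lit 304) (nat_lit 3117956216) (nat_lit 76) (nat_lit 2263926094) (nat_lit 35) (nat_lit 5) (nat_lit 39) (nat_lit 5) (nat_lit 36) (nat_lit 5) (nat_lit 285) (nat_lit 254) (nat_lit 181)) (XT.nd (nat_lit 78) (nat_lit 76) (nat_lit 0) (XT.lf (nat_lit 0) (nat_lit 5976312751) (nat_lit 152) (nat_lit 12391038728) (nat_lit 228) (nat_lit 2466563993) (nat_lit 33) (nat_lit 5) (nat_lit 35) (nat_lit 5) (nat_lit 36) (nat_lit 5) (nat_lit 286) (nat_lit 254) (nat_lit 180)) (XT.lf (nat_lit 0) (nat_lit 612431964) (nat_lit 228) (nat_lit 5941095014) (nat_lit 76) (nat_lit 14987800560) (nat_lit 32) (nat_lit 5) (nat_lit 35) (nat_lit 5) (nat_lit 33) (nat_lit 5) (nat_lit 287) (nat_lit 254) (nat_lit 179)))))) (XT.nd (nat_lit 312)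 (nat_lit 380) (nat_lit 0) (XT.nd (nat_lit 156) (nat_lit 152) (nat_lit 0) (XT.nd (nat_lit 78) (nat_lit 0) (nat_lit 0) (XT.lf (nat_lit 0) (nat_lit 3469438238) (nat_lit 228) (nat_lit 331281409) (nat_lit 304) (nat_lit 18479491426) (nat_lit 29) (nat_lit 5) (nat_lit 32) (nat_lit 5) (nat_lit 33) (nat_lit 5) (nat_lit 288) (nat_lit 254) (nat_lit 178)) (XT.lf (nat_lit 0) (nat_lit 7331897838) (nat_lit 304) (nat_lit 9615483061) (nat_lit 76) (nat_lit 6099516814) (nat_lit 29) (nat_lit 5) (nat_lit 33) (nat_lit 5) (nat_lit 30) (nat_lit 5) (nat_lit 289) (nat_lit 254) (nat_lit 177))) (XT.nd (nat_lit 78) (nat_lit 0) (nat_lit 0) (XT.lf (nat_lit 0) (nat_lit 12882811) (nat_lit 152) (nat_lit 11017507515) (nat_lit 228) (nat_lit 12822021765) (nat_lit 27) (nat_lit 5) (nat_lit 29) (nat_lit 5) (nat_lit 30) (nat_lit 5) (nat_lit 290) (nat_lit 254) (nat_lit 176)) (XT.lf (nat_lit 0) (nat_lit 10435174473) (nat_lit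 152) (nat_lit 4626974772) (nat_lit 228) (nat_lit 9628665544) (nat_lit 27) (nat_lit 5) (nat_lit 29) (nat_lit 5) (nat_lit 30) (nat_lit 5) (nat_lit 291) (nat_lit 254) (nat_lit 175)))) (XT.nd (nat_lit 156) (nat_lit 228) (nat_lit 0) (XT.nd (nat_lit 78) (nat_lit 152) (nat_lit 0) (XT.lf (nat_lit 0) (nat_lit 19314106973) (nat_lit 228) (nat_lit 4246002207) (nat_lit 76) (nat_lit 2010126176) (nat_lit 27) (nat_lit 5) (nat_lit 30) (nat_lit 5) (nat_lit 28) (nat_lit 5) (nat_lit 292) (nat_lit 254) (nat_lit 174)) (XT.lf (nat_lit 0) (nat_lit 6372292720) (nat_lit 152) (nat_lit 17568461808) (nat_lit 228) (nat_lit 2544794758) (nat_lit 25) (nat_lit 5) (nat_lit 27) (nat_lit 5) (nat_lit 28) (nat_lit 5) (nat_lit 293) (nat_lit 254) (nat_lit 173))) (XT.nd (nat_lit 78) (nat_lit 152) (nat_lit 0) (XT.lf (nat_lit 0) (nat_lit 1368755331) (nat_lit 228) (nat_lit 9816472895) (nat_lit 76) (nat_lit 16257373325) (nat_lit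 24) (nat_lit 5) (nat_lit 27) (nat_lit 5) (nat_lit 25) (nat_lit 5) (nat_lit 294) (nat_lit 254) (nat_lit 172)) (XT.nd (nat_lit 78) (nat_lit 0) (nat_lit 0) (XT.lf (nat_lit 0) (nat_lit 965215986) (nat_lit 152) (nat_lit 4429780285) (nat_lit 228) (nat_lit 23050320768) (nat_lit 22) (nat_lit 5) (nat_lit 24) (nat_lit 5) (nat_lit 25) (nat_lit 5) (nat_lit 295) (nat_lit 254) (nat_lit 171)) (XT.lf (nat_lit 0) (nat_lit 9820771292) (nat_lit 228) (nat_lit 16926701906) (nat_lit 76) (nat_lit 2740806158) (nat_lit 22) (nat_lit 5) (nat_lit 25) (nat_lit 5) (nat_lit 23) (nat_lit 5) (nat_lit 296) (nat_lit 254) (nat_lit 170))))))))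
noncomputable def xc155 : XT := (XT.nd (nat_lit 1404) (nat_lit 380) (nat_lit 0) (XT.nd (nat_lit 702) (nat_lit 380) (nat_lit 0) (XT.nd (nat_lit 312) (nat_lit 304) (nat_lit 0) (XT.nd (nat_lit 156) (nat_lit 0) (nat_lit 0) (XT.nd (nat_lit 78) (nat_lit 152) (nat_lit 0) (XT.lf (nat_lit 0) (nat_lit 14528707931) (nat_lit 228) (nat_lit 5936663488) (nat_lit 76) (nat_lit 10114995827) (nat_lit 22) (nat_lit 5) (nat_lit 25) (nat_lit 5) (nat_lit 23) (nat_lit 5) (nat_lit 297) (nat_lit 254) (nat_lit 169)) (XT.lf (nat_lit 0) (nat_lit 5770018880) (nat_lit 152) (nat_lit 13780921562) (nat_lit 228) (nat_lit 12172194233) (nat_lit 20) (nat_lit 5) (nat_lit 22) (nat_lit 5) (nat_lit 23) (nat_lit 5) (nat_lit 298) (nat_lit 254) (nat_lit 168))) (XT.nd (nat_lit 78) (nat_lit 0) (nat_lit 0) (XT.lf (nat_lit 0) (nat_lit 18250891127) (nat_lit 152) (nat_lit 6663009968) (nat_lit 228) (nat_lit 8004677695) (nat_lit 20) (nat_lit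 5) (nat_lit 22) (nat_lit 5) (nat_lit 23) (nat_lit 5) (nat_lit 299) (nat_lit 254) (nat_lit 167)) (XT.lf (nat_lit 0) (nat_lit 30547170928) (nat_lit 228) (nat_lit 2847521531) (nat_lit 76) (nat_lit 779012821) (nat_lit 20) (nat_lit 5) (nat_lit 23) (nat_lit 5) (nat_lit 21) (nat_lit 4) (nat_lit 300) (nat_lit 254) (nat_lit 166)))) (XT.nd (nat_lit 156) (nat_lit 152) (nat_lit 0) (XT.nd (nat_lit 78) (nat_lit 0) (nat_lit 0) (XT.lf (nat_lit 0) (nat_lit 1195022504) (nat_lit 152) (nat_lit 25747880099) (nat_lit 76) (nat_lit 8535165955) (nat_lit 18) (nat_lit 5) (nat_lit 20) (nat_lit 5) (nat_lit 19) (nat_lit 5) (nat_lit 301) (nat_lit 254) (nat_lit 165)) (XT.lf (nat_lit 0) (nat_lit 6174851878) (nat_lit 152) (nat_lit 13885993658) (nat_lit 76) (nat_lit 16781894141) (nat_lit 18) (nat_lit 5) (nat_lit 20) (nat_lit 5) (nat_lit 19) (nat_lit 5) (nat_lit 302) (nat_lit 254) (nat_lit 164))) (XT.nd (nat_lit 78) (nat_lit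 152) (nat_lit 0) (XT.lf (nat_lit 0) (nat_lit 11394201572) (nat_lit 152) (nat_lit 1446399934) (nat_lit 76) (nat_lit 25435531398) (nat_lit 18) (nat_lit 5) (nat_lit 20) (nat_lit 5) (nat_lit 19) (nat_lit 5) (nat_lit 303) (nat_lit 254) (nat_lit 163)) (XT.nd (nat_lit 78) (nat_lit 0) (nat_lit 0) (XT.lf (nat_lit 0) (nat_lit 11984084705) (nat_lit 152) (nat_lit 5068519052) (nat_lit 228) (nat_lit 22719702069) (nat_lit 16) (nat_lit 5) (nat_lit 18) (nat_lit 5) (nat_lit 19) (nat_lit 5) (nat_lit 304) (nat_lit 254) (nat_lit 162)) (XT.lf (nat_lit 0) (nat_lit 23058197317) (nat_lit 228) (nat_lit 15269217153) (nat_lit 76) (nat_lit 3012672960) (nat_lit 16) (nat_lit 5) (nat_lit 19) (nat_lit 5) (nat_lit 17) (nat_lit 4) (nat_lit 305) (nat_lit 254) (nat_lit 161)))))) (XT.nd (nat_lit 312) (nat_lit 228) (nat_lit 0) (XT.nd (nat_lit 156) (nat_lit 76) (nat_lit 0) (XT.nd (nat_lit 78) (nat_lit 76) (nat_lit 0) (XT.lf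 (nat_lit 0) (nat_lit 29438681811) (nat_lit 228) (nat_lit 2221434305) (nat_lit 76) (nat_lit 11322424393) (nat_lit 16) (nat_lit 5) (nat_lit 19) (nat_lit 5) (nat_lit 17) (nat_lit 4) (nat_lit 306) (nat_lit 254) (nat_lit 160)) (XT.lf (nat_lit 0) (nat_lit 11844422860) (nat_lit 76) (nat_lit 24470616853) (nat_lit 152) (nat_lit 8383246404) (nat_lit 15) (nat_lit 5) (nat_lit 16) (nat_lit 5) (nat_lit 17) (nat_lit 4) (nat_lit 307) (nat_lit 254) (nat_lit 159))) (XT.nd (nat_lit 78) (nat_lit 76) (nat_lit 0) (XT.lf (nat_lit 0) (nat_lit 26677502038) (nat_lit 76) (nat_lit 16887437640) (nat_lit 152) (nat_lit 2933404872) (nat_lit 15) (nat_lit 5) (nat_lit 16) (nat_lit 5) (nat_lit 17) (nat_lit 4) (nat_lit 308) (nat_lit 254) (nat_lit 158)) (XT.lf (nat_lit 0) (nat_lit 2692010618) (nat_lit 152) (nat_lit 6192543231) (nat_lit 76) (nat_lit 39502068310) (nat_lit 14) (nat_lit 5) (nat_lit 16) (nat_lit 5) (nat_lit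 15) (nat_lit 5) (nat_lit 309) (nat_lit 254) (nat_lit 157)))) (XT.nd (nat_lit 156) (nat_lit 76) (nat_lit 0) (XT.nd (nat_lit 78) (nat_lit 0) (nat_lit 0) (XT.lf (nat_lit 0) (nat_lit 8323260133) (nat_lit 152) (nat_lit 299514068) (nat_lit 228) (nat_lit 41738012220) (nat_lit 12) (nat_lit 5) (nat_lit 14) (nat_lit 5) (nat_lit 15) (nat_lit 5) (nat_lit 310) (nat_lit 254) (nat_lit 156)) (XT.lf (nat_lit 0) (nat_lit 15085523686) (nat_lit 228) (nat_lit 28798663139) (nat_lit 76) (nat_lit 8537709352) (nat_lit 12) (nat_lit 5) (nat_lit 15) (nat_lit 5) (nat_lit 13) (nat_lit 4) (nat_lit 311) (nat_lit 254) (nat_lit 155))) (XT.nd (nat_lit 78) (nat_lit 76) (nat_lit 0) (XT.lf (nat_lit 0) (nat_lit 21869456580) (nat_lit 228) (nat_lit 14914492010) (nat_lit 76) (nat_lit 17802219740) (nat_lit 12) (nat_lit 5) (nat_lit 15) (nat_lit 5) (nat_lit 13) (nat_lit 4) (nat_lit 312) (nat_lit 254) (nat_lit 154)) (XT.nd (nat_lit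 78) (nat_lit 76) (nat_lit 0) (XT.lf (nat_lit 0) (nat_lit 28986048851) (nat_lit 228) (nat_lit 347279097) (nat_lit 76) (nat_lit 27525661775) (nat_lit 12) (nat_lit 5) (nat_lit 15) (nat_lit 5) (nat_lit 13) (nat_lit 4) (nat_lit 313) (nat_lit 254) (nat_lit 153)) (XT.lf (nat_lit 0) (nat_lit 15431565921) (nat_lit 76) (nat_lit 21261608835) (nat_lit 152) (nat_lit 22540550578) (nat_lit 11) (nat_lit 5) (nat_lit 12) (nat_lit 5) (nat_lit 13) (nat_lit 4) (nat_lit 314) (nat_lit 254) (nat_lit 152))))))) (XT.nd (nat_lit 702) (nat_lit 152) (nat_lit 0) (XT.nd (nat_lit 312) (nat_lit 76) (nat_lit 0) (XT.nd (nat_lit 156) (nat_lit 152) (nat_lit 0) (XT.nd (nat_lit 78) (nat_lit 0) (nat_lit 0) (XT.lf (nat_lit 0) (nat_lit 32000946448) (nat_lit 76) (nat_lit 12784498989) (nat_lit 152) (nat_lit 16941770818) (nat_lit 11) (nat_lit 5) (nat_lit 12) (nat_lit 5) (nat_lit 13) (nat_lit 4) (nat_lit 315) (nat_lit 254) (nat_lit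 151)) (XT.lf (nat_lit 0) (nat_lit 49388830773) (nat_lit 76) (nat_lit 3887696155) (nat_lit 152) (nat_lit 11069152504) (nat_lit 11) (nat_lit 5) (nat_lit 12) (nat_lit 5) (nat_lit 13) (nat_lit 4) (nat_lit 316) (nat_lit 254) (nat_lit 150))) (XT.nd (nat_lit 78) (nat_lit 76) (nat_lit 0) (XT.lf (nat_lit 0) (nat_lit 471263183) (nat_lit 76) (nat_lit 61807820147) (nat_lit 76) (nat_lit 4811643608) (nat_lit 10) (nat_lit 4) (nat_lit 11) (nat_lit 5) (nat_lit 11) (nat_lit 4) (nat_lit 317) (nat_lit 254) (nat_lit 149)) (XT.lf (nat_lit 0) (nat_lit 2018068997) (nat_lit 152) (nat_lit 52875403516) (nat_lit 76) (nat_lit 15062406960) (nat_lit 9) (nat_lit 5) (nat_lit 11) (nat_lit 5) (nat_lit 10) (nat_lit 4) (nat_lit 318) (nat_lit 254) (nat_lit 148)))) (XT.nd (nat_lit 156) (nat_lit 76) (nat_lit 0) (XT.nd (nat_lit 78) (nat_lit 0) (nat_lit 0) (XT.lf (nat_lit 0) (nat_lit 9022261863) (nat_lit 152) (nat_lit 38532301875)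 (nat_lit 76) (nat_lit 25406053286) (nat_lit 9) (nat_lit 5) (nat_lit 11) (nat_lit 5) (nat_lit 10) (nat_lit 4) (nat_lit 319) (nat_lit 254) (nat_lit 147)) (XT.lf (nat_lit 0) (nat_lit 16371614283) (nat_lit 152) (nat_lit 23480885352) (nat_lit 76) (nat_lit 36263350257) (nat_lit 9) (nat_lit 5) (nat_lit 11) (nat_lit 5) (nat_lit 10) (nat_lit 4) (nat_lit 320) (nat_lit 254) (nat_lit 146))) (XT.nd (nat_lit 78) (nat_lit 76) (nat_lit 0) (XT.lf (nat_lit 0) (nat_lit 24083624716) (nat_lit 152) (nat_lit 7685317239) (nat_lit 76) (nat_lit 47660148581) (nat_lit 9) (nat_lit 5) (nat_lit 11) (nat_lit 5) (nat_lit 10) (nat_lit 4) (nat_lit 321) (nat_lit 254) (nat_lit 145)) (XT.nd (nat_lit 78) (nat_lit 0) (nat_lit 0) (XT.lf (nat_lit 0) (nat_lit 9186020997) (nat_lit 76) (nat_lit 23134053625) (nat_lit 152) (nat_lit 50580982026) (nat_lit 8) (nat_lit 5) (nat_lit 9) (nat_lit 5) (nat_lit 10) (nat_lit 4) (nat_lit 322)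 (nat_lit 254) (nat_lit 144)) (XT.lf (nat_lit 0) (nat_lit 27159854013) (nat_lit 76) (nat_lit 13934161951) (nat_lit 152) (nat_lit 45446326780) (nat_lit 8) (nat_lit 5) (nat_lit 9) (nat_lit 5) (nat_lit 10) (nat_lit 4) (nat_lit 323) (nat_lit 254) (nat_lit 143)))))) (XT.nd (nat_lit 312) (nat_lit 76) (nat_lit 0) (XT.nd (nat_lit 156) (nat_lit 76) (nat_lit 0) (XT.nd (nat_lit 78) (nat_lit 0) (nat_lit 0) (XT.lf (nat_lit 0) (nat_lit 46024865353) (nat_lit 76) (nat_lit 4277516995) (nat_lit 152) (nat_lit 40059429280) (nat_lit 8) (nat_lit 5) (nat_lit 9) (nat_lit 5) (nat_lit 10) (nat_lit 4) (nat_lit 324) (nat_lit 254) (nat_lit 142)) (XT.lf (nat_lit 0) (nat_lit 60058571887) (nat_lit 152) (nat_lit 28640063757) (nat_lit 0) (nat_lit 5671352721) (nat_lit 8) (nat_lit 5) (nat_lit 10) (nat_lit 4) (nat_lit 8) (nat_lit 4) (nat_lit 325) (nat_lit 254) (nat_lit 141))) (XT.nd (nat_lit 78) (nat_lit 76) (nat_lit 0)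 (XT.lf (nat_lit 0) (nat_lit 70368773379) (nat_lit 152) (nat_lit 12235427421) (nat_lit 0) (nat_lit 15971067443) (nat_lit 8) (nat_lit 5) (nat_lit 10) (nat_lit 4) (nat_lit 8) (nat_lit 4) (nat_lit 326) (nat_lit 254) (nat_lit 140)) (XT.lf (nat_lit 0) (nat_lit 5147559468) (nat_lit 76) (nat_lit 76123559256) (nat_lit 76) (nat_lit 21715865920) (nat_lit 7) (nat_lit 4) (nat_lit 8) (nat_lit 5) (nat_lit 8) (nat_lit 4) (nat_lit 327) (nat_lit 254) (nat_lit 139)))) (XT.nd (nat_lit 156) (nat_lit 76) (nat_lit 0) (XT.nd (nat_lit 78) (nat_lit 0) (nat_lit 0) (XT.lf (nat_lit 0) (nat_lit 23817953822) (nat_lit 76) (nat_lit 69104182235) (nat_lit 76) (nat_lit 14686977089) (nat_lit 7) (nat_lit 4) (nat_lit 8) (nat_lit 5) (nat_lit 8) (nat_lit 4) (nat_lit 328) (nat_lit 254) (nat_lit 138)) (XT.lf (nat_lit 0) (nat_lit 43415650472) (nat_lit 76) (nat_lit 61736569817) (nat_lit 76) (nat_lit 7310305805) (nat_lit 7) (nat_lit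 4) (nat_lit 8) (nat_lit 5) (nat_lit 8) (nat_lit 4) (nat_lit 329) (nat_lit 254) (nat_lit 137))) (XT.nd (nat_lit 78) (nat_lit 0) (nat_lit 0) (XT.lf (nat_lit 0) (nat_lit 417893970) (nat_lit 152) (nat_lit 53578208863) (nat_lit 76) (nat_lit 63562339395) (nat_lit 6) (nat_lit 5) (nat_lit 8) (nat_lit 5) (nat_lit 7) (nat_lit 4) (nat_lit 330) (nat_lit 254) (nat_lit 136)) (XT.nd (nat_lit 78) (nat_lit 0) (nat_lit 0) (XT.lf (nat_lit 0) (nat_lit 8283614302) (nat_lit 152) (nat_lit 37461698842) (nat_lit 76) (nat_lit 77158013035) (nat_lit 6) (nat_lit 5) (nat_lit 8) (nat_lit 5) (nat_lit 7) (nat_lit 4) (nat_lit 331) (nat_lit 254) (nat_lit 135)) (XT.lf (nat_lit 0) (nat_lit 16539558533) (nat_lit 152) (nat_lit 20544838557) (nat_lit 76) (nat_lit 91431213491) (nat_lit 6) (nat_lit 5) (nat_lit 8) (nat_lit 5) (nat_lit 7) (nat_lit 4) (nat_lit 332) (nat_lit 254) (nat_lit 134))))))))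
noncomputable def xc156 : XT := (XT.nd (nat_lit 1326) (nat_lit 152) (nat_lit 0) (XT.nd (nat_lit 624) (nat_lit 76) (nat_lit 0) (XT.nd (nat_lit 312) (nat_lit 0) (nat_lit 0) (XT.nd (nat_lit 156) (nat_lit 0) (nat_lit 0) (XT.nd (nat_lit 78) (nat_lit 76) (nat_lit 0) (XT.lf (nat_lit 0) (nat_lit 25205383674) (nat_lit 152) (nat_lit 2787349769) (nat_lit 76) (nat_lit 106415924572) (nat_lit 6) (nat_lit 5) (nat_lit 8) (nat_lit 5) (nat_lit 7) (nat_lit 4) (nat_lit 333) (nat_lit 254) (nat_lit 133)) (XT.lf (nat_lit 0) (nat_lit 16377220593) (nat_lit 76) (nat_lit 18180196359) (nat_lit 152) (nat_lit 106026297879) (nat_lit 5) (nat_lit 5) (nat_lit 6) (nat_lit 5) (nat_lit 7) (nat_lit 4) (nat_lit 334) (nat_lit 254) (nat_lit 132))) (XT.nd (nat_lit 78) (nat_lit 0) (nat_lit 0) (XT.lf (nat_lit 0) (nat_lit 36591903864) (nat_lit 76) (nat_lit 7829631692) (nat_lit 152) (nat_lit 102643767469) (nat_lit 5) (nat_lit 5)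 (nat_lit 6) (nat_lit 5) (nat_lit 7) (nat_lit 4) (nat_lit 335) (nat_lit 254) (nat_lit 131)) (XT.lf (nat_lit 0) (nat_lit 54823674933) (nat_lit 152) (nat_lit 96105841650) (nat_lit 0) (nat_lit 2939215891) (nat_lit 5) (nat_lit 5) (nat_lit 7) (nat_lit 4) (nat_lit 5) (nat_lit 4) (nat_lit 336) (nat_lit 254) (nat_lit 130)))) (XT.nd (nat_lit 156) (nat_lit 0) (nat_lit 0) (XT.nd (nat_lit 78) (nat_lit 0) (nat_lit 0) (XT.lf (nat_lit 0) (nat_lit 65871776801) (nat_lit 152) (nat_lit 81152787952) (nat_lit 0) (nat_lit 13981478333) (nat_lit 5) (nat_lit 5) (nat_lit 7) (nat_lit 4) (nat_lit 5) (nat_lit 4) (nat_lit 337) (nat_lit 254) (nat_lit 129)) (XT.lf (nat_lit 0) (nat_lit 77469903670) (nat_lit 152) (nat_lit 65456393067) (nat_lit 0) (nat_lit 25574043845) (nat_lit 5) (nat_lit 5) (nat_lit 7) (nat_lit 4) (nat_lit 5) (nat_lit 4) (nat_lit 338) (nat_lit 254) (nat_lit 128))) (XT.nd (nat_lit 78) (nat_lit 0) (nat_lit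 0) (XT.lf (nat_lit 0) (nat_lit 89645670130) (nat_lit 152) (nat_lit 48979284624) (nat_lit 0) (nat_lit 37744513773) (nat_lit 5) (nat_lit 5) (nat_lit 7) (nat_lit 4) (nat_lit 5) (nat_lit 4) (nat_lit 339) (nat_lit 254) (nat_lit 127)) (XT.lf (nat_lit 0) (nat_lit 102428066099) (nat_lit 152) (nat_lit 31682231414) (nat_lit 0) (nat_lit 50521865426) (nat_lit 5) (nat_lit 5) (nat_lit 7) (nat_lit 4) (nat_lit 5) (nat_lit 4) (nat_lit 340) (nat_lit 254) (nat_lit 126))))) (XT.nd (nat_lit 312) (nat_lit 0) (nat_lit 0) (XT.nd (nat_lit 156) (nat_lit 0) (nat_lit 0) (XT.nd (nat_lit 78) (nat_lit 76) (nat_lit 0) (XT.lf (nat_lit 0) (nat_lit 115847525854) (nat_lit 152) (nat_lit 13524049976) (nat_lit 0) (nat_lit 63936521071) (nat_lit 5) (nat_lit 5) (nat_lit 7) (nat_lit 4) (nat_lit 5) (nat_lit 4) (nat_lit 341) (nat_lit 254) (nat_lit 125)) (XT.lf (nat_lit 0) (nat_lit 5721621059) (nat_lit 76) (nat_lit 124303709970)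 (nat_lit 76) (nat_lit 72388129844) (nat_lit 4) (nat_lit 4) (nat_lit 5) (nat_lit 5) (nat_lit 5) (nat_lit 4) (nat_lit 342) (nat_lit 254) (nat_lit 124))) (XT.nd (nat_lit 78) (nat_lit 0) (nat_lit 0) (XT.lf (nat_lit 0) (nat_lit 26395610256) (nat_lit 76) (nat_lit 118743533187) (nat_lit 76) (nat_lit 66823595591) (nat_lit 4) (nat_lit 4) (nat_lit 5) (nat_lit 5) (nat_lit 5) (nat_lit 4) (nat_lit 343) (nat_lit 254) (nat_lit 123)) (XT.lf (nat_lit 0) (nat_lit 48099975230) (nat_lit 76) (nat_lit 112906843295) (nat_lit 76) (nat_lit 60982755729) (nat_lit 4) (nat_lit 4) (nat_lit 5) (nat_lit 5) (nat_lit 5) (nat_lit 4) (nat_lit 344) (nat_lit 254) (nat_lit 122)))) (XT.nd (nat_lit 156) (nat_lit 0) (nat_lit 0) (XT.nd (nat_lit 78) (nat_lit 0) (nat_lit 0) (XT.lf (nat_lit 0) (nat_lit 70886393039) (nat_lit 76) (nat_lit 106779743414) (nat_lit 76) (nat_lit 54851703495) (nat_lit 4) (nat_lit 4) (nat_lit 5) (nat_lit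 5) (nat_lit 5) (nat_lit 4) (nat_lit 345) (nat_lit 254) (nat_lit 121)) (XT.lf (nat_lit 0) (nat_lit 94809117058) (nat_lit 76) (nat_lit 100347645212) (nat_lit 76) (nat_lit 48415841147) (nat_lit 4) (nat_lit 4) (nat_lit 5) (nat_lit 5) (nat_lit 5) (nat_lit 4) (nat_lit 346) (nat_lit 254) (nat_lit 120))) (XT.nd (nat_lit 78) (nat_lit 0) (nat_lit 0) (XT.lf (nat_lit 0) (nat_lit 119925106156) (nat_lit 76) (nat_lit 93595234168) (nat_lit 76) (nat_lit 41659845202) (nat_lit 4) (nat_lit 4) (nat_lit 5) (nat_lit 5) (nat_lit 5) (nat_lit 4) (nat_lit 347) (nat_lit 254) (nat_lit 119)) (XT.nd (nat_lit 78) (nat_lit 0) (nat_lit 0) (XT.lf (nat_lit 0) (nat_lit 146294160306) (nat_lit 76) (nat_lit 86506433114) (nat_lit 76) (nat_lit 34567629956) (nat_lit 4) (nat_lit 4) (nat_lit 5) (nat_lit 5) (nat_lit 5) (nat_lit 4) (nat_lit 348) (nat_lit 254) (nat_lit 118)) (XT.lf (nat_lit 0) (nat_lit 173979062970) (nat_lit 76)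 (nat_lit 79064363951) (nat_lit 76) (nat_lit 27122309182) (nat_lit 4) (nat_lit 4) (nat_lit 5) (nat_lit 5) (nat_lit 5) (nat_lit 4) (nat_lit 349) (nat_lit 254) (nat_lit 117))))))) (XT.nd (nat_lit 30108) (nat_lit 0) (nat_lit 6004) (XT.nd (nat_lit 312) (nat_lit 76) (nat_lit 0) (XT.nd (nat_lit 156) (nat_lit 76) (nat_lit 0) (XT.nd (nat_lit 78) (nat_lit 0) (nat_lit 0) (XT.lf (nat_lit 0) (nat_lit 203045730583) (nat_lit 76) (nat_lit 71251307467) (nat_lit 76) (nat_lit 19306155927) (nat_lit 4) (nat_lit 4) (nat_lit 5) (nat_lit 5) (nat_lit 5) (nat_lit 4) (nat_lit 350) (nat_lit 254) (nat_lit 116)) (XT.lf (nat_lit 0) (nat_lit 233563369497) (nat_lit 76) (nat_lit 63048661148) (nat_lit 76) (nat_lit 11100560300) (nat_lit 4) (nat_lit 4) (nat_lit 5) (nat_lit 5) (nat_lit 5) (nat_lit 4) (nat_lit 351) (nat_lit 254) (nat_lit 115))) (XT.nd (nat_lit 78) (nat_lit 76) (nat_lit 0) (XT.lf (nat_lit 0) (nat_lit 265604640756)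 (nat_lit 76) (nat_lit 54436894882) (nat_lit 76) (nat_lit 2485985170) (nat_lit 4) (nat_lit 4) (nat_lit 5) (nat_lit 5) (nat_lit 5) (nat_lit 4) (nat_lit 352) (nat_lit 254) (nat_lit 114)) (XT.lf (nat_lit 0) (nat_lit 6348180827) (nat_lit 152) (nat_lit 38939814122) (nat_lit 76) (nat_lit 292790142760) (nat_lit 3) (nat_lit 5) (nat_lit 5) (nat_lit 5) (nat_lit 4) (nat_lit 4) (nat_lit 353) (nat_lit 254) (nat_lit 113)))) (XT.nd (nat_lit 156) (nat_lit 76) (nat_lit 0) (XT.nd (nat_lit 78) (nat_lit 0) (nat_lit 0) (XT.lf (nat_lit 0) (nat_lit 15539368080) (nat_lit 152) (nat_lit 20100427977) (nat_lit 76) (nat_lit 318764509814) (nat_lit 3) (nat_lit 5) (nat_lit 5) (nat_lit 5) (nat_lit 4) (nat_lit 4) (nat_lit 354) (nat_lit 254) (nat_lit 112)) (XT.lf (nat_lit 0) (nat_lit 25189027416) (nat_lit 152) (nat_lit 321052740) (nat_lit 76) (nat_lit 346036757623) (nat_lit 3) (nat_lit 5) (nat_lit 5) (nat_lit 5) (nat_lit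 4) (nat_lit 4) (nat_lit 355) (nat_lit 254) (nat_lit 111))) (XT.nd (nat_lit 78) (nat_lit 0) (nat_lit 0) (XT.lf (nat_lit 0) (nat_lit 21121422774) (nat_lit 76) (nat_lit 14528476043) (nat_lit 152) (nat_lit 353880161940) (nat_lit 2) (nat_lit 5) (nat_lit 3) (nat_lit 5) (nat_lit 4) (nat_lit 4) (nat_lit 356) (nat_lit 254) (nat_lit 110)) (XT.nd (nat_lit 78) (nat_lit 0) (nat_lit 0) (XT.lf (nat_lit 0) (nat_lit 43645312789) (nat_lit 76) (nat_lit 2992923020) (nat_lit 152) (nat_lit 361773988859) (nat_lit 2) (nat_lit 5) (nat_lit 3) (nat_lit 5) (nat_lit 4) (nat_lit 4) (nat_lit 357) (nat_lit 254) (nat_lit 109)) (XT.lf (nat_lit 0) (nat_lit 58317389844) (nat_lit 152) (nat_lit 361087282814) (nat_lit 0) (nat_lit 8826754950) (nat_lit 2) (nat_lit 5) (nat_lit 4) (nat_lit 4) (nat_lit 2) (nat_lit 4) (nat_lit 358) (nat_lit 254) (nat_lit 108)))))) (XT.nd (nat_lit 312) (nat_lit 0) (nat_lit 76) (XT.nd (nat_lit 156)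 (nat_lit 0) (nat_lit 76) (XT.nd (nat_lit 78) (nat_lit 0) (nat_lit 0) (XT.lf (nat_lit 0) (nat_lit 835506186) (nat_lit 684) (nat_lit 1863426370) (nat_lit 684) (nat_lit 1863426370) (nat_lit 81) (nat_lit 3) (nat_lit 90) (nat_lit 3) (nat_lit 90) (nat_lit 5) (nat_lit 255) (nat_lit 255) (nat_lit 210)) (XT.lf (nat_lit 76) (nat_lit 227362015) (nat_lit 0) (nat_lit 2282220592) (nat_lit 684) (nat_lit 6800592669) (nat_lit 82) (nat_lit 5) (nat_lit 81) (nat_lit 3) (nat_lit 90) (nat_lit 5) (nat_lit 256) (nat_lit 255) (nat_lit 209))) (XT.nd (nat_lit 78) (nat_lit 0) (nat_lit 0) (XT.lf (nat_lit 0) (nat_lit 3418835442) (nat_lit 608) (nat_lit 5040295367) (nat_lit 684) (nat_lit 1044517620) (nat_lit 82) (nat_lit 5) (nat_lit 90) (nat_lit 5) (nat_lit 91) (nat_lit 5) (nat_lit 257) (nat_lit 255) (nat_lit 208)) (XT.lf (nat_lit 0) (nat_lit 4362544429) (nat_lit 608) (nat_lit 862343177) (nat_lit 684) (nat_lit 4482629925)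 (nat_lit 82) (nat_lit 5) (nat_lit 90) (nat_lit 5) (nat_lit 91) (nat_lit 5) (nat_lit 258) (nat_lit 255) (nat_lit 207)))) (XT.nd (nat_lit 156) (nat_lit 0) (nat_lit 76) (XT.nd (nat_lit 78) (nat_lit 0) (nat_lit 76) (XT.lf (nat_lit 76) (nat_lit 3612236810) (nat_lit 0) (nat_lit 1751484966) (nat_lit 684) (nat_lit 4557507945) (nat_lit 83) (nat_lit 5) (nat_lit 82) (nat_lit 5) (nat_lit 91) (nat_lit 5) (nat_lit 259) (nat_lit 255) (nat_lit 206)) (XT.lf (nat_lit 0) (nat_lit 6415314453) (nat_lit 608) (nat_lit 1864319326) (nat_lit 684) (nat_lit 1866131896) (nat_lit 83) (nat_lit 5) (nat_lit 91) (nat_lit 5) (nat_lit 92) (nat_lit 5) (nat_lit 260) (nat_lit 255) (nat_lit 205))) (XT.nd (nat_lit 78) (nat_lit 0) (nat_lit 0) (XT.lf (nat_lit 76) (nat_lit 2836005363) (nat_lit 0) (nat_lit 4714488843) (nat_lit 684) (nat_lit 2829632401) (nat_lit 84) (nat_lit 5) (nat_lit 83) (nat_lit 5) (nat_lit 92) (nat_lit 5)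 (nat_lit 261) (nat_lit 255) (nat_lit 204)) (XT.nd (nat_lit 78) (nat_lit 0) (nat_lit 76) (XT.lf (nat_lit 76) (nat_lit 7807893584) (nat_lit 0) (nat_lit 925688374) (nat_lit 684) (nat_lit 1893207654) (nat_lit 84) (nat_lit 5) (nat_lit 83) (nat_lit 5) (nat_lit 92) (nat_lit 5) (nat_lit 262) (nat_lit 255) (nat_lit 203)) (XT.lf (nat_lit 76) (nat_lit 2134160349) (nat_lit 0) (nat_lit 7884325783) (nat_lit 684) (nat_lit 865301274) (nat_lit 85) (nat_lit 5) (nat_lit 84) (nat_lit 5) (nat_lit 93) (nat_lit 5) (nat_lit 263) (nat_lit 255) (nat_lit 202))))))))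
noncomputable def xc157 : XT := (XT.nd (nat_lit 1326) (nat_lit 1520) (nat_lit 0) (XT.nd (nat_lit 624) (nat_lit 1596) (nat_lit 0) (XT.nd (nat_lit 312) (nat_lit 304) (nat_lit 0) (XT.nd (nat_lit 156) (nat_lit 608) (nat_lit 0) (XT.nd (nat_lit 78) (nat_lit 0) (nat_lit 76) (XT.lf (nat_lit 0) (nat_lit 233179376) (nat_lit 684) (nat_lit 3767788235) (nat_lit 760) (nat_lit 7151321220) (nat_lit 75) (nat_lit 5) (nat_lit 84) (nat_lit 5) (nat_lit 85) (nat_lit 5) (nat_lit 264) (nat_lit 255) (nat_lit 201)) (XT.lf (nat_lit 0) (nat_lit 1346456725) (nat_lit 684) (nat_lit 9968815080) (nat_lit 76) (nat_lit 118903030) (nat_lit 76) (nat_lit 5) (nat_lit 85) (nat_lit 5) (nat_lit 77) (nat_lit 5) (nat_lit 265) (nat_lit 255) (nat_lit 200))) (XT.nd (nat_lit 78) (nat_lit 684) (nat_lit 0) (XT.lf (nat_lit 0) (nat_lit 2611339350) (nat_lit 684) (nat_lit 4732657453) (nat_lit 76) (nat_lit 4381472115) (nat_lit 76) (nat_lit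 5) (nat_lit 85) (nat_lit 5) (nat_lit 77) (nat_lit 5) (nat_lit 266) (nat_lit 255) (nat_lit 199)) (XT.lf (nat_lit 0) (nat_lit 761065633) (nat_lit 684) (nat_lit 3157422276) (nat_lit 760) (nat_lit 8113994281) (nat_lit 67) (nat_lit 5) (nat_lit 76) (nat_lit 5) (nat_lit 77) (nat_lit 5) (nat_lit 267) (nat_lit 255) (nat_lit 198)))) (XT.nd (nat_lit 156) (nat_lit 0) (nat_lit 0) (XT.nd (nat_lit 78) (nat_lit 304) (nat_lit 0) (XT.lf (nat_lit 0) (nat_lit 5360114841) (nat_lit 760) (nat_lit 5707590064) (nat_lit 76) (nat_lit 1283785718) (nat_lit 67) (nat_lit 5) (nat_lit 77) (nat_lit 5) (nat_lit 68) (nat_lit 5) (nat_lit 268) (nat_lit 255) (nat_lit 197)) (XT.lf (nat_lit 0) (nat_lit 55998662) (nat_lit 304) (nat_lit 6840289306) (nat_lit 380) (nat_lit 5789134024) (nat_lit 63) (nat_lit 5) (nat_lit 67) (nat_lit 5) (nat_lit 68) (nat_lit 5) (nat_lit 269) (nat_lit 255) (nat_lit 196))) (XT.nd (nat_lit 78) (nat_lit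 0) (nat_lit 0) (XT.lf (nat_lit 0) (nat_lit 6277920127) (nat_lit 304) (nat_lit 2298839468) (nat_lit 380) (nat_lit 4456007041) (nat_lit 63) (nat_lit 5) (nat_lit 67) (nat_lit 5) (nat_lit 68) (nat_lit 5) (nat_lit 270) (nat_lit 255) (nat_lit 195)) (XT.lf (nat_lit 0) (nat_lit 10352049001) (nat_lit 380) (nat_lit 653260799) (nat_lit 76) (nat_lit 2391715856) (nat_lit 63) (nat_lit 5) (nat_lit 68) (nat_lit 5) (nat_lit 64) (nat_lit 5) (nat_lit 271) (nat_lit 255) (nat_lit 194))))) (XT.nd (nat_lit 312) (nat_lit 836) (nat_lit 0) (XT.nd (nat_lit 156) (nat_lit 304) (nat_lit 0) (XT.nd (nat_lit 78) (nat_lit 76) (nat_lit 0) (XT.lf (nat_lit 0) (nat_lit 5876998697) (nat_lit 380) (nat_lit 6442104138) (nat_lit 456) (nat_lit 1455327514) (nat_lit 58) (nat_lit 5) (nat_lit 63) (nat_lit 5) (nat_lit 64) (nat_lit 5) (nat_lit 272) (nat_lit 255) (nat_lit 193)) (XT.lf (nat_lit 0) (nat_lit 192114638) (nat_lit 456) (nat_lit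 1444546049) (nat_lit 76) (nat_lit 12534695034) (nat_lit 57) (nat_lit 5) (nat_lit 63) (nat_lit 5) (nat_lit 58) (nat_lit 5) (nat_lit 273) (nat_lit 255) (nat_lit 192))) (XT.nd (nat_lit 78) (nat_lit 0) (nat_lit 0) (XT.lf (nat_lit 0) (nat_lit 1988344848) (nat_lit 380) (nat_lit 9183264545) (nat_lit 76) (nat_lit 3409630306) (nat_lit 53) (nat_lit 5) (nat_lit 58) (nat_lit 5) (nat_lit 54) (nat_lit 5) (nat_lit 274) (nat_lit 255) (nat_lit 191)) (XT.lf (nat_lit 0) (nat_lit 3901993082) (nat_lit 380) (nat_lit 2431704148) (nat_lit 76) (nat_lit 8676608374) (nat_lit 53) (nat_lit 5) (nat_lit 58) (nat_lit 5) (nat_lit 54) (nat_lit 5) (nat_lit 275) (nat_lit 255) (nat_lit 190)))) (XT.nd (nat_lit 156) (nat_lit 532) (nat_lit 0) (XT.nd (nat_lit 78) (nat_lit 0) (nat_lit 0) (XT.lf (nat_lit 0) (nat_lit 4785011453) (nat_lit 304) (nat_lit 1178077689) (nat_lit 380) (nat_lit 9495212206) (nat_lit 49) (nat_lit 5) (nat_lit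 53) (nat_lit 5) (nat_lit 54) (nat_lit 5) (nat_lit 276) (nat_lit 255) (nat_lit 189)) (XT.lf (nat_lit 0) (nat_lit 8212934530) (nat_lit 380) (nat_lit 3572740916) (nat_lit 76) (nat_lit 4138798431) (nat_lit 49) (nat_lit 5) (nat_lit 54) (nat_lit 5) (nat_lit 50) (nat_lit 5) (nat_lit 277) (nat_lit 255) (nat_lit 188))) (XT.nd (nat_lit 78) (nat_lit 304) (nat_lit 0) (XT.lf (nat_lit 0) (nat_lit 3965403409) (nat_lit 228) (nat_lit 6669865981) (nat_lit 304) (nat_lit 5775744570) (nat_lit 46) (nat_lit 5) (nat_lit 49) (nat_lit 5) (nat_lit 50) (nat_lit 5) (nat_lit 278) (nat_lit 255) (nat_lit 187)) (XT.nd (nat_lit 78) (nat_lit 304) (nat_lit 0) (XT.lf (nat_lit 0) (nat_lit 11979859243) (nat_lit 228) (nat_lit 1238767437) (nat_lit 304) (nat_lit 3701315069) (nat_lit 46) (nat_lit 5) (nat_lit 49) (nat_lit 5) (nat_lit 50) (nat_lit 5) (nat_lit 279) (nat_lit 255) (nat_lit 186)) (XT.lf (nat_lit 0) (nat_lit 2940714887)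 (nat_lit 304) (nat_lit 13086364118) (nat_lit 380) (nat_lit 1422493887) (nat_lit 42) (nat_lit 5) (nat_lit 46) (nat_lit 5) (nat_lit 47) (nat_lit 5) (nat_lit 280) (nat_lit 255) (nat_lit 185))))))) (XT.nd (nat_lit 702) (nat_lit 532) (nat_lit 0) (XT.nd (nat_lit 312) (nat_lit 684) (nat_lit 0) (XT.nd (nat_lit 156) (nat_lit 0) (nat_lit 0) (XT.nd (nat_lit 78) (nat_lit 228) (nat_lit 0) (XT.lf (nat_lit 0) (nat_lit 1025075390) (nat_lit 380) (nat_lit 6676002472) (nat_lit 76) (nat_lit 10299605577) (nat_lit 41) (nat_lit 5) (nat_lit 46) (nat_lit 5) (nat_lit 42) (nat_lit 5) (nat_lit 281) (nat_lit 255) (nat_lit 184)) (XT.lf (nat_lit 0) (nat_lit 1551271513) (nat_lit 228) (nat_lit 2001613634) (nat_lit 304) (nat_lit 15025061095) (nat_lit 38) (nat_lit 5) (nat_lit 41) (nat_lit 5) (nat_lit 42) (nat_lit 5) (nat_lit 282) (nat_lit 255) (nat_lit 183))) (XT.nd (nat_lit 78) (nat_lit 0) (nat_lit 0) (XT.lf (nat_lit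 0) (nat_lit 6366071980) (nat_lit 304) (nat_lit 8844810999) (nat_lit 76) (nat_lit 3965283742) (nat_lit 38) (nat_lit 5) (nat_lit 42) (nat_lit 5) (nat_lit 39) (nat_lit 5) (nat_lit 283) (nat_lit 255) (nat_lit 182)) (XT.lf (nat_lit 0) (nat_lit 9335482684) (nat_lit 304) (nat_lit 309562950) (nat_lit 76) (nat_lit 10158516144) (nat_lit 38) (nat_lit 5) (nat_lit 42) (nat_lit 5) (nat_lit 39) (nat_lit 5) (nat_lit 284) (nat_lit 255) (nat_lit 181)))) (XT.nd (nat_lit 156) (nat_lit 456) (nat_lit 0) (XT.nd (nat_lit 78) (nat_lit 0) (nat_lit 0) (XT.lf (nat_lit 0) (nat_lit 8916010246) (nat_lit 228) (nat_lit 3660130145) (nat_lit 304) (nat_lit 7880087161) (nat_lit 35) (nat_lit 5) (nat_lit 38) (nat_lit 5) (nat_lit 39) (nat_lit 5) (nat_lit 285) (nat_lit 255) (nat_lit 180)) (XT.lf (nat_lit 0) (nat_lit 16009062423) (nat_lit 304) (nat_lit 2590914494) (nat_lit 76) (nat_lit 2540076022) (nat_lit 35) (nat_lit 5) (nat_lit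 39) (nat_lit 5) (nat_lit 36) (nat_lit 5) (nat_lit 286) (nat_lit 255) (nat_lit 179))) (XT.nd (nat_lit 78) (nat_lit 304) (nat_lit 0) (XT.lf (nat_lit 0) (nat_lit 6947052768) (nat_lit 152) (nat_lit 12819742326) (nat_lit 228) (nat_lit 2083652363) (nat_lit 33) (nat_lit 5) (nat_lit 35) (nat_lit 5) (nat_lit 36) (nat_lit 5) (nat_lit 287) (nat_lit 255) (nat_lit 178)) (XT.nd (nat_lit 78) (nat_lit 228) (nat_lit 0) (XT.lf (nat_lit 0) (nat_lit 1109755462) (nat_lit 228) (nat_lit 5581783721) (nat_lit 76) (nat_lit 15902512847) (nat_lit 32) (nat_lit 5) (nat_lit 35) (nat_lit 5) (nat_lit 33) (nat_lit 5) (nat_lit 288) (nat_lit 255) (nat_lit 177)) (XT.lf (nat_lit 0) (nat_lit 4288689645) (nat_lit 228) (nat_lit 156626411) (nat_lit 304) (nat_lit 18925218701) (nat_lit 29) (nat_lit 5) (nat_lit 32) (nat_lit 5) (nat_lit 33) (nat_lit 5) (nat_lit 289) (nat_lit 255) (nat_lit 176)))))) (XT.nd (nat_lit 312) (nat_lit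 380) (nat_lit 0) (XT.nd (nat_lit 156) (nat_lit 0) (nat_lit 0) (XT.nd (nat_lit 78) (nat_lit 152) (nat_lit 0) (XT.lf (nat_lit 0) (nat_lit 8134250723) (nat_lit 304) (nat_lit 9461513500) (nat_lit 76) (nat_lit 6580777287) (nat_lit 29) (nat_lit 5) (nat_lit 33) (nat_lit 5) (nat_lit 30) (nat_lit 5) (nat_lit 290) (nat_lit 255) (nat_lit 175)) (XT.lf (nat_lit 0) (nat_lit 638032864) (nat_lit 152) (nat_lit 11368634878) (nat_lit 228) (nat_lit 13016257354) (nat_lit 27) (nat_lit 5) (nat_lit 29) (nat_lit 5) (nat_lit 30) (nat_lit 5) (nat_lit 291) (nat_lit 255) (nat_lit 174))) (XT.nd (nat_lit 78) (nat_lit 0) (nat_lit 0) (XT.lf (nat_lit 0) (nat_lit 11551700732) (nat_lit 152) (nat_lit 4668087307) (nat_lit 228) (nat_lit 9684512632) (nat_lit 27) (nat_lit 5) (nat_lit 29) (nat_lit 5) (nat_lit 30) (nat_lit 5) (nat_lit 292) (nat_lit 255) (nat_lit 173)) (XT.lf (nat_lit 0) (nat_lit 20667908944) (nat_lit 228) (nat_lit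 3874633487) (nat_lit 76) (nat_lit 2286011014) (nat_lit 27) (nat_lit 5) (nat_lit 30) (nat_lit 5) (nat_lit 28) (nat_lit 5) (nat_lit 293) (nat_lit 255) (nat_lit 172)))) (XT.nd (nat_lit 156) (nat_lit 152) (nat_lit 0) (XT.nd (nat_lit 78) (nat_lit 76) (nat_lit 0) (XT.lf (nat_lit 0) (nat_lit 7265162173) (nat_lit 152) (nat_lit 18251211639) (nat_lit 228) (nat_lit 2273772577) (nat_lit 25) (nat_lit 5) (nat_lit 27) (nat_lit 5) (nat_lit 28) (nat_lit 5) (nat_lit 294) (nat_lit 255) (nat_lit 171)) (XT.lf (nat_lit 0) (nat_lit 1804350288) (nat_lit 228) (nat_lit 9747565880) (nat_lit 76) (nat_lit 17243776165) (nat_lit 24) (nat_lit 5) (nat_lit 27) (nat_lit 5) (nat_lit 25) (nat_lit 5) (nat_lit 295) (nat_lit 255) (nat_lit 170))) (XT.nd (nat_lit 78) (nat_lit 0) (nat_lit 0) (XT.lf (nat_lit 0) (nat_lit 1564179532) (nat_lit 152) (nat_lit 4458838081) (nat_lit 228) (nat_lit 23826002715) (nat_lit 22) (nat_lit 5)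 (nat_lit 24) (nat_lit 5) (nat_lit 25) (nat_lit 5) (nat_lit 296) (nat_lit 255) (nat_lit 169)) (XT.nd (nat_lit 78) (nat_lit 0) (nat_lit 0) (XT.lf (nat_lit 0) (nat_lit 10655882160) (nat_lit 228) (nat_lit 17233740888) (nat_lit 76) (nat_lit 3055248578) (nat_lit 22) (nat_lit 5) (nat_lit 25) (nat_lit 5) (nat_lit 23) (nat_lit 5) (nat_lit 297) (nat_lit 255) (nat_lit 168)) (XT.lf (nat_lit 0) (nat_lit 15582831236) (nat_lit 228) (nat_lit 5719881317) (nat_lit 76) (nat_lit 10789700011) (nat_lit 22) (nat_lit 5) (nat_lit 25) (nat_lit 5) (nat_lit 23) (nat_lit 5) (nat_lit 298) (nat_lit 255) (nat_lit 167))))))))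
noncomputable def xc158 : XT := (XT.nd (nat_lit 1326) (nat_lit 380) (nat_lit 0) (XT.nd (nat_lit 624) (nat_lit 380) (nat_lit 0) (XT.nd (nat_lit 312) (nat_lit 152) (nat_lit 0) (XT.nd (nat_lit 156) (nat_lit 152) (nat_lit 0) (XT.nd (nat_lit 78) (nat_lit 0) (nat_lit 0) (XT.lf (nat_lit 0) (nat_lit 6563851052) (nat_lit 152) (nat_lit 14284609771) (nat_lit 228) (nat_lit 12444271299) (nat_lit 20) (nat_lit 5) (nat_lit 22) (nat_lit 5) (nat_lit 23) (nat_lit 5) (nat_lit 299) (nat_lit 255) (nat_lit 166)) (XT.lf (nat_lit 0) (nat_lit 19644703519) (nat_lit 152) (nat_lit 6819629162) (nat_lit 228) (nat_lit 8084404298) (nat_lit 20) (nat_lit 5) (nat_lit 22) (nat_lit 5) (nat_lit 23) (nat_lit 5) (nat_lit 300) (nat_lit 255) (nat_lit 165))) (XT.nd (nat_lit 78) (nat_lit 152) (nat_lit 0) (XT.lf (nat_lit 0) (nat_lit 32367379646) (nat_lit 228) (nat_lit 2519152430) (nat_lit 76) (nat_lit 980707461) (nat_lit 20) (nat_lit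 5) (nat_lit 23) (nat_lit 5) (nat_lit 21) (nat_lit 4) (nat_lit 301) (nat_lit 255) (nat_lit 164)) (XT.lf (nat_lit 0) (nat_lit 1546069202) (nat_lit 152) (nat_lit 26562028820) (nat_lit 76) (nat_lit 9128847963) (nat_lit 18) (nat_lit 5) (nat_lit 20) (nat_lit 5) (nat_lit 19) (nat_lit 5) (nat_lit 302) (nat_lit 255) (nat_lit 163)))) (XT.nd (nat_lit 156) (nat_lit 152) (nat_lit 0) (XT.nd (nat_lit 78) (nat_lit 0) (nat_lit 0) (XT.lf (nat_lit 0) (nat_lit 6761018827) (nat_lit 152) (nat_lit 14129583546) (nat_lit 76) (nat_lit 17779963810) (nat_lit 18) (nat_lit 5) (nat_lit 20) (nat_lit 5) (nat_lit 19) (nat_lit 5) (nat_lit 303) (nat_lit 255) (nat_lit 162)) (XT.lf (nat_lit 0) (nat_lit 12228125322) (nat_lit 152) (nat_lit 1089472507) (nat_lit 76) (nat_lit 26858712694) (nat_lit 18) (nat_lit 5) (nat_lit 20) (nat_lit 5) (nat_lit 19) (nat_lit 5) (nat_lit 304) (nat_lit 255) (nat_lit 161))) (XT.nd (nat_lit 78)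 (nat_lit 0) (nat_lit 0) (XT.lf (nat_lit 0) (nat_lit 13005613017) (nat_lit 152) (nat_lit 5157846657) (nat_lit 228) (nat_lit 23584151734) (nat_lit 16) (nat_lit 5) (nat_lit 18) (nat_lit 5) (nat_lit 19) (nat_lit 5) (nat_lit 305) (nat_lit 255) (nat_lit 160)) (XT.lf (nat_lit 0) (nat_lit 24459476484) (nat_lit 228) (nat_lit 15620228724) (nat_lit 76) (nat_lit 3314588680) (nat_lit 16) (nat_lit 5) (nat_lit 19) (nat_lit 5) (nat_lit 17) (nat_lit 4) (nat_lit 306) (nat_lit 255) (nat_lit 159))))) (XT.nd (nat_lit 312) (nat_lit 228) (nat_lit 0) (XT.nd (nat_lit 156) (nat_lit 76) (nat_lit 0) (XT.nd (nat_lit 78) (nat_lit 76) (nat_lit 0) (XT.lf (nat_lit 0) (nat_lit 31147158092) (nat_lit 228) (nat_lit 1939697176) (nat_lit 76) (nat_lit 12032623776) (nat_lit 16) (nat_lit 5) (nat_lit 19) (nat_lit 5) (nat_lit 17) (nat_lit 4) (nat_lit 307) (nat_lit 255) (nat_lit 158)) (XT.lf (nat_lit 0) (nat_lit 12823117221) (nat_lit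 76) (nat_lit 25538986686) (nat_lit 152) (nat_lit 8559186735) (nat_lit 15) (nat_lit 5) (nat_lit 16) (nat_lit 5) (nat_lit 17) (nat_lit 4) (nat_lit 308) (nat_lit 255) (nat_lit 157))) (XT.nd (nat_lit 78) (nat_lit 76) (nat_lit 0) (XT.lf (nat_lit 0) (nat_lit 28379446870) (nat_lit 76) (nat_lit 17584037131) (nat_lit 152) (nat_lit 2848435126) (nat_lit 15) (nat_lit 5) (nat_lit 16) (nat_lit 5) (nat_lit 17) (nat_lit 4) (nat_lit 309) (nat_lit 255) (nat_lit 156)) (XT.lf (nat_lit 0) (nat_lit 3040159780) (nat_lit 152) (nat_lit 6144269601) (nat_lit 76) (nat_lit 41610549145) (nat_lit 14) (nat_lit 5) (nat_lit 16) (nat_lit 5) (nat_lit 15) (nat_lit 5) (nat_lit 310) (nat_lit 255) (nat_lit 155)))) (XT.nd (nat_lit 156) (nat_lit 76) (nat_lit 0) (XT.nd (nat_lit 78) (nat_lit 0) (nat_lit 0) (XT.lf (nat_lit 0) (nat_lit 9091551337) (nat_lit 152) (nat_lit 171238931) (nat_lit 228) (nat_lit 43605308455) (nat_lit 12)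 (nat_lit 5) (nat_lit 14) (nat_lit 5) (nat_lit 15) (nat_lit 5) (nat_lit 311) (nat_lit 255) (nat_lit 154)) (XT.lf (nat_lit 0) (nat_lit 16040860732) (nat_lit 228) (nat_lit 29895149944) (nat_lit 76) (nat_lit 9096657599) (nat_lit 12) (nat_lit 5) (nat_lit 15) (nat_lit 5) (nat_lit 13) (nat_lit 4) (nat_lit 312) (nat_lit 255) (nat_lit 153))) (XT.nd (nat_lit 78) (nat_lit 76) (nat_lit 0) (XT.lf (nat_lit 0) (nat_lit 23154415944) (nat_lit 228) (nat_lit 15333124846) (nat_lit 76) (nat_lit 18818104804) (nat_lit 12) (nat_lit 5) (nat_lit 15) (nat_lit 5) (nat_lit 13) (nat_lit 4) (nat_lit 313) (nat_lit 255) (nat_lit 152)) (XT.nd (nat_lit 78) (nat_lit 76) (nat_lit 0) (XT.lf (nat_lit 0) (nat_lit 30617719422) (nat_lit 228) (nat_lit 53127086) (nat_lit 76) (nat_lit 29021729699) (nat_lit 12) (nat_lit 5) (nat_lit 15) (nat_lit 5) (nat_lit 13) (nat_lit 4) (nat_lit 314) (nat_lit 255) (nat_lit 151)) (XT.lf (nat_lit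 0) (nat_lit 16509635731) (nat_lit 76) (nat_lit 22196666885) (nat_lit 152) (nat_lit 23479952579) (nat_lit 11) (nat_lit 5) (nat_lit 12) (nat_lit 5) (nat_lit 13) (nat_lit 4) (nat_lit 315) (nat_lit 255) (nat_lit 150))))))) (XT.nd (nat_lit 702) (nat_lit 152) (nat_lit 0) (XT.nd (nat_lit 312) (nat_lit 76) (nat_lit 0) (XT.nd (nat_lit 156) (nat_lit 152) (nat_lit 0) (XT.nd (nat_lit 78) (nat_lit 0) (nat_lit 0) (XT.lf (nat_lit 0) (nat_lit 33892890450) (nat_lit 76) (nat_lit 13301797851) (nat_lit 152) (nat_lit 17610168380) (nat_lit 11) (nat_lit 5) (nat_lit 12) (nat_lit 5) (nat_lit 13) (nat_lit 4) (nat_lit 316) (nat_lit 255) (nat_lit 149)) (XT.lf (nat_lit 0) (nat_lit 52136269150) (nat_lit 76) (nat_lit 3965960880) (nat_lit 152) (nat_lit 11452428244) (nat_lit 11) (nat_lit 5) (nat_lit 12) (nat_lit 5) (nat_lit 13) (nat_lit 4) (nat_lit 317) (nat_lit 255) (nat_lit 148))) (XT.nd (nat_lit 78) (nat_lit 76)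 (nat_lit 0) (XT.lf (nat_lit 0) (nat_lit 774726818) (nat_lit 76) (nat_lit 64778575677) (nat_lit 76) (nat_lit 4883746311) (nat_lit 10) (nat_lit 4) (nat_lit 11) (nat_lit 5) (nat_lit 11) (nat_lit 4) (nat_lit 318) (nat_lit 255) (nat_lit 147)) (XT.lf (nat_lit 0) (nat_lit 2274293478) (nat_lit 152) (nat_lit 55247283674) (nat_lit 76) (nat_lit 15924147722) (nat_lit 9) (nat_lit 5) (nat_lit 11) (nat_lit 5) (nat_lit 10) (nat_lit 4) (nat_lit 319) (nat_lit 255) (nat_lit 146)))) (XT.nd (nat_lit 156) (nat_lit 76) (nat_lit 0) (XT.nd (nat_lit 78) (nat_lit 0) (nat_lit 0) (XT.lf (nat_lit 0) (nat_lit 9621299747) (nat_lit 152) (nat_lit 40199974095) (nat_lit 76) (nat_lit 26779803963) (nat_lit 9) (nat_lit 5) (nat_lit 11) (nat_lit 5) (nat_lit 10) (nat_lit 4) (nat_lit 320) (nat_lit 255) (nat_lit 145)) (XT.lf (nat_lit 0) (nat_lit 17331075751) (nat_lit 152) (nat_lit 24408317359) (nat_lit 76) (nat_lit 38175039687)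 (nat_lit 9) (nat_lit 5) (nat_lit 11) (nat_lit 5) (nat_lit 10) (nat_lit 4) (nat_lit 321) (nat_lit 255) (nat_lit 144))) (XT.nd (nat_lit 78) (nat_lit 76) (nat_lit 0) (XT.lf (nat_lit 0) (nat_lit 25421978098) (nat_lit 152) (nat_lit 7834714282) (nat_lit 76) (nat_lit 50136986407) (nat_lit 9) (nat_lit 5) (nat_lit 11) (nat_lit 5) (nat_lit 10) (nat_lit 4) (nat_lit 322) (nat_lit 255) (nat_lit 143)) (XT.nd (nat_lit 78) (nat_lit 0) (nat_lit 0) (XT.lf (nat_lit 0) (nat_lit 9876402659) (nat_lit 76) (nat_lit 24191066506) (nat_lit 152) (nat_lit 52971920613) (nat_lit 8) (nat_lit 5) (nat_lit 9) (nat_lit 5) (nat_lit 10) (nat_lit 4) (nat_lit 323) (nat_lit 255) (nat_lit 142)) (XT.lf (nat_lit 0) (nat_lit 28737923488) (nat_lit 76) (nat_lit 14535927381) (nat_lit 152) (nat_lit 47587109296) (nat_lit 8) (nat_lit 5) (nat_lit 9) (nat_lit 5) (nat_lit 10) (nat_lit 4) (nat_lit 324) (nat_lit 255) (nat_lit 141)))))) (XT.nd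 (nat_lit 312) (nat_lit 76) (nat_lit 0) (XT.nd (nat_lit 156) (nat_lit 76) (nat_lit 0) (XT.nd (nat_lit 78) (nat_lit 0) (nat_lit 0) (XT.lf (nat_lit 0) (nat_lit 48535705549) (nat_lit 76) (nat_lit 4400971256) (nat_lit 152) (nat_lit 41937130437) (nat_lit 8) (nat_lit 5) (nat_lit 9) (nat_lit 5) (nat_lit 10) (nat_lit 4) (nat_lit 325) (nat_lit 255) (nat_lit 140)) (XT.lf (nat_lit 0) (nat_lit 63176345315) (nat_lit 152) (nat_lit 29867990601) (nat_lit 0) (nat_lit 6038279911) (nat_lit 8) (nat_lit 5) (nat_lit 10) (nat_lit 4) (nat_lit 8) (nat_lit 4) (nat_lit 326) (nat_lit 255) (nat_lit 139))) (XT.nd (nat_lit 78) (nat_lit 76) (nat_lit 0) (XT.lf (nat_lit 0) (nat_lit 73996588080) (nat_lit 152) (nat_lit 12652840369) (nat_lit 0) (nat_lit 16849010867) (nat_lit 8) (nat_lit 5) (nat_lit 10) (nat_lit 4) (nat_lit 8) (nat_lit 4) (nat_lit 327) (nat_lit 255) (nat_lit 138)) (XT.lf (nat_lit 0) (nat_lit 5596161051)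 (nat_lit 76) (nat_lit 79845666795) (nat_lit 76) (nat_lit 22689030716) (nat_lit 7) (nat_lit 4) (nat_lit 8) (nat_lit 5) (nat_lit 8) (nat_lit 4) (nat_lit 328) (nat_lit 255) (nat_lit 137)))) (XT.nd (nat_lit 156) (nat_lit 76) (nat_lit 0) (XT.nd (nat_lit 78) (nat_lit 0) (nat_lit 0) (XT.lf (nat_lit 0) (nat_lit 25190969236) (nat_lit 76) (nat_lit 72479324276) (nat_lit 76) (nat_lit 15314060705) (nat_lit 7) (nat_lit 4) (nat_lit 8) (nat_lit 5) (nat_lit 8) (nat_lit 4) (nat_lit 329) (nat_lit 255) (nat_lit 136)) (XT.lf (nat_lit 0) (nat_lit 45759878447) (nat_lit 76) (nat_lit 64747143955) (nat_lit 76) (nat_lit 7573663727) (nat_lit 7) (nat_lit 4) (nat_lit 8) (nat_lit 5) (nat_lit 8) (nat_lit 4) (nat_lit 330) (nat_lit 255) (nat_lit 135))) (XT.nd (nat_lit 78) (nat_lit 0) (nat_lit 0) (XT.lf (nat_lit 0) (nat_lit 532967426) (nat_lit 152) (nat_lit 56088722393) (nat_lit 76) (nat_lit 66809868788) (nat_lit 6)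 (nat_lit 5) (nat_lit 8) (nat_lit 5) (nat_lit 7) (nat_lit 4) (nat_lit 331) (nat_lit 255) (nat_lit 134)) (XT.nd (nat_lit 78) (nat_lit 0) (nat_lit 0) (XT.lf (nat_lit 0) (nat_lit 8787489071) (nat_lit 152) (nat_lit 39174405772) (nat_lit 76) (nat_lit 81082020757) (nat_lit 6) (nat_lit 5) (nat_lit 8) (nat_lit 5) (nat_lit 7) (nat_lit 4) (nat_lit 332) (nat_lit 255) (nat_lit 133)) (XT.lf (nat_lit 0) (nat_lit 17451959369) (nat_lit 152) (nat_lit 21419339520) (nat_lit 76) (nat_lit 96065733279) (nat_lit 6) (nat_lit 5) (nat_lit 8) (nat_lit 5) (nat_lit 7) (nat_lit 4) (nat_lit 333) (nat_lit 255) (nat_lit 132))))))))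
noncomputable def xc159 : XT := (XT.nd (nat_lit 1404) (nat_lit 152) (nat_lit 0) (XT.nd (nat_lit 702) (nat_lit 76) (nat_lit 0) (XT.nd (nat_lit 312) (nat_lit 0) (nat_lit 0) (XT.nd (nat_lit 156) (nat_lit 0) (nat_lit 0) (XT.nd (nat_lit 78) (nat_lit 76) (nat_lit 0) (XT.lf (nat_lit 0) (nat_lit 26547008010) (nat_lit 152) (nat_lit 2781249672) (nat_lit 76) (nat_lit 111796681862) (nat_lit 6) (nat_lit 5) (nat_lit 8) (nat_lit 5) (nat_lit 7) (nat_lit 4) (nat_lit 334) (nat_lit 255) (nat_lit 131)) (XT.lf (nat_lit 0) (nat_lit 17339202957) (nat_lit 76) (nat_lit 19025800465) (nat_lit 152) (nat_lit 111243831736) (nat_lit 5) (nat_lit 5) (nat_lit 6) (nat_lit 5) (nat_lit 7) (nat_lit 4) (nat_lit 335) (nat_lit 255) (nat_lit 130))) (XT.nd (nat_lit 78) (nat_lit 0) (nat_lit 0) (XT.lf (nat_lit 0) (nat_lit 38557805090) (nat_lit 76) (nat_lit 8160726884) (nat_lit 152) (nat_lit 107696164379) (nat_lit 5) (nat_lit 5)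 (nat_lit 6) (nat_lit 5) (nat_lit 7) (nat_lit 4) (nat_lit 336) (nat_lit 255) (nat_lit 129)) (XT.lf (nat_lit 0) (nat_lit 57638061004) (nat_lit 152) (nat_lit 100778528918) (nat_lit 0) (nat_lit 3141846830) (nat_lit 5) (nat_lit 5) (nat_lit 7) (nat_lit 4) (nat_lit 5) (nat_lit 4) (nat_lit 337) (nat_lit 255) (nat_lit 128)))) (XT.nd (nat_lit 156) (nat_lit 0) (nat_lit 0) (XT.nd (nat_lit 78) (nat_lit 0) (nat_lit 0) (XT.lf (nat_lit 0) (nat_lit 69235082141) (nat_lit 152) (nat_lit 85084137051) (nat_lit 0) (nat_lit 14733571434) (nat_lit 5) (nat_lit 5) (nat_lit 7) (nat_lit 4) (nat_lit 5) (nat_lit 4) (nat_lit 338) (nat_lit 255) (nat_lit 127)) (XT.lf (nat_lit 0) (nat_lit 81409795520) (nat_lit 152) (nat_lit 68608936244) (nat_lit 0) (nat_lit 26903240498) (nat_lit 5) (nat_lit 5) (nat_lit 7) (nat_lit 4) (nat_lit 5) (nat_lit 4) (nat_lit 339) (nat_lit 255) (nat_lit 126))) (XT.nd (nat_lit 78) (nat_lit 0) (nat_lit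 0) (XT.lf (nat_lit 0) (nat_lit 94191188557) (nat_lit 152) (nat_lit 51313699831) (nat_lit 0) (nat_lit 39679829425) (nat_lit 5) (nat_lit 5) (nat_lit 7) (nat_lit 4) (nat_lit 5) (nat_lit 4) (nat_lit 340) (nat_lit 255) (nat_lit 125)) (XT.nd (nat_lit 78) (nat_lit 0) (nat_lit 0) (XT.lf (nat_lit 0) (nat_lit 107609693138) (nat_lit 152) (nat_lit 33157248676) (nat_lit 0) (nat_lit 53093758663) (nat_lit 5) (nat_lit 5) (nat_lit 7) (nat_lit 4) (nat_lit 5) (nat_lit 4) (nat_lit 341) (nat_lit 255) (nat_lit 124)) (XT.lf (nat_lit 0) (nat_lit 121697258084) (nat_lit 152) (nat_lit 14096353133) (nat_lit 0) (nat_lit 67176966139) (nat_lit 5) (nat_lit 5) (nat_lit 7) (nat_lit 4) (nat_lit 5) (nat_lit 4) (nat_lit 342) (nat_lit 255) (nat_lit 123)))))) (XT.nd (nat_lit 312) (nat_lit 0) (nat_lit 0) (XT.nd (nat_lit 156) (nat_lit 0) (nat_lit 0) (XT.nd (nat_lit 78) (nat_lit 0) (nat_lit 0) (XT.lf (nat_lit 0) (nat_lit 6109925658)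 (nat_lit 76) (nat_lit 130472892620) (nat_lit 76) (nat_lit 75948450705) (nat_lit 4) (nat_lit 4) (nat_lit 5) (nat_lit 5) (nat_lit 5) (nat_lit 4) (nat_lit 343) (nat_lit 255) (nat_lit 122)) (XT.lf (nat_lit 0) (nat_lit 27812746527) (nat_lit 76) (nat_lit 124636897609) (nat_lit 76) (nat_lit 70108503341) (nat_lit 4) (nat_lit 4) (nat_lit 5) (nat_lit 5) (nat_lit 5) (nat_lit 4) (nat_lit 344) (nat_lit 255) (nat_lit 121))) (XT.nd (nat_lit 78) (nat_lit 0) (nat_lit 0) (XT.lf (nat_lit 0) (nat_lit 50597693761) (nat_lit 76) (nat_lit 118510459520) (nat_lit 76) (nat_lit 63978301105) (nat_lit 4) (nat_lit 4) (nat_lit 5) (nat_lit 5) (nat_lit 5) (nat_lit 4) (nat_lit 345) (nat_lit 255) (nat_lit 120)) (XT.lf (nat_lit 0) (nat_lit 74519017233) (nat_lit 76) (nat_lit 112078991595) (nat_lit 76) (nat_lit 57543248280) (nat_lit 4) (nat_lit 4) (nat_lit 5) (nat_lit 5) (nat_lit 5) (nat_lit 4) (nat_lit 346) (nat_lit 255)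 (nat_lit 119)))) (XT.nd (nat_lit 156) (nat_lit 0) (nat_lit 0) (XT.nd (nat_lit 78) (nat_lit 0) (nat_lit 0) (XT.lf (nat_lit 0) (nat_lit 99633672476) (nat_lit 76) (nat_lit 105327180815) (nat_lit 76) (nat_lit 50788023308) (nat_lit 4) (nat_lit 4) (nat_lit 5) (nat_lit 5) (nat_lit 5) (nat_lit 4) (nat_lit 347) (nat_lit 255) (nat_lit 118)) (XT.lf (nat_lit 0) (nat_lit 126001456287) (nat_lit 76) (nat_lit 98238951441) (nat_lit 76) (nat_lit 43696542323) (nat_lit 4) (nat_lit 4) (nat_lit 5) (nat_lit 5) (nat_lit 5) (nat_lit 4) (nat_lit 348) (nat_lit 255) (nat_lit 117))) (XT.nd (nat_lit 78) (nat_lit 0) (nat_lit 0) (XT.lf (nat_lit 0) (nat_lit 153685149105) (nat_lit 76) (nat_lit 90797426736) (nat_lit 76) (nat_lit 36251920846) (nat_lit 4) (nat_lit 4) (nat_lit 5) (nat_lit 5) (nat_lit 5) (nat_lit 4) (nat_lit 349) (nat_lit 255) (nat_lit 116)) (XT.nd (nat_lit 78) (nat_lit 0) (nat_lit 0) (XT.lf (nat_lit 0)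 (nat_lit 182750664484) (nat_lit 76) (nat_lit 82984888783) (nat_lit 76) (nat_lit 28436433586) (nat_lit 4) (nat_lit 4) (nat_lit 5) (nat_lit 5) (nat_lit 5) (nat_lit 4) (nat_lit 350) (nat_lit 255) (nat_lit 115)) (XT.lf (nat_lit 0) (nat_lit 213267206032) (nat_lit 76) (nat_lit 74782736302) (nat_lit 76) (nat_lit 20231472242) (nat_lit 4) (nat_lit 4) (nat_lit 5) (nat_lit 5) (nat_lit 5) (nat_lit 4) (nat_lit 351) (nat_lit 255) (nat_lit 114))))))) (XT.nd (nat_lit 30264) (nat_lit 0) (nat_lit 5548) (XT.nd (nat_lit 312) (nat_lit 76) (nat_lit 0) (XT.nd (nat_lit 156) (nat_lit 76) (nat_lit 0) (XT.nd (nat_lit 78) (nat_lit 0) (nat_lit 0) (XT.lf (nat_lit 0) (nat_lit 245307432181) (nat_lit 76) (nat_lit 66171440359) (nat_lit 76) (nat_lit 11617501190) (nat_lit 4) (nat_lit 4) (nat_lit 5) (nat_lit 5) (nat_lit 5) (nat_lit 4) (nat_lit 352) (nat_lit 255) (nat_lit 113)) (XT.lf (nat_lit 0) (nat_lit 278947629183)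 (nat_lit 76) (nat_lit 57130497868) (nat_lit 76) (nat_lit 2574010977) (nat_lit 4) (nat_lit 4) (nat_lit 5) (nat_lit 5) (nat_lit 5) (nat_lit 4) (nat_lit 353) (nat_lit 255) (nat_lit 112))) (XT.nd (nat_lit 78) (nat_lit 0) (nat_lit 0) (XT.lf (nat_lit 0) (nat_lit 6699030321) (nat_lit 152) (nat_lit 40825901133) (nat_lit 76) (nat_lit 307455411105) (nat_lit 3) (nat_lit 5) (nat_lit 5) (nat_lit 5) (nat_lit 4) (nat_lit 4) (nat_lit 354) (nat_lit 255) (nat_lit 111)) (XT.lf (nat_lit 0) (nat_lit 16348184534) (nat_lit 152) (nat_lit 21047445856) (nat_lit 76) (nat_lit 334727269787) (nat_lit 3) (nat_lit 5) (nat_lit 5) (nat_lit 5) (nat_lit 4) (nat_lit 4) (nat_lit 355) (nat_lit 255) (nat_lit 110)))) (XT.nd (nat_lit 29718) (nat_lit 0) (nat_lit 6004) (XT.nd (nat_lit 78) (nat_lit 76) (nat_lit 0) (XT.lf (nat_lit 0) (nat_lit 26478810263) (nat_lit 152) (nat_lit 281863929) (nat_lit 76) (nat_lit 363361961679) (nat_lit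 3) (nat_lit 5) (nat_lit 5) (nat_lit 5) (nat_lit 4) (nat_lit 4) (nat_lit 356) (nat_lit 255) (nat_lit 109)) (XT.lf (nat_lit 0) (nat_lit 22231844369) (nat_lit 76) (nat_lit 15230285073) (nat_lit 152) (nat_lit 371542921643) (nat_lit 2) (nat_lit 5) (nat_lit 3) (nat_lit 5) (nat_lit 4) (nat_lit 4) (nat_lit 357) (nat_lit 255) (nat_lit 108))) (XT.nd (nat_lit 78) (nat_lit 0) (nat_lit 0) (XT.lf (nat_lit 0) (nat_lit 1658141883) (nat_lit 684) (nat_lit 1545257616) (nat_lit 684) (nat_lit 1545257616) (nat_lit 81) (nat_lit 3) (nat_lit 90) (nat_lit 3) (nat_lit 90) (nat_lit 5) (nat_lit 256) (nat_lit 256) (nat_lit 208)) (XT.nd (nat_lit 78) (nat_lit 0) (nat_lit 76) (XT.lf (nat_lit 76) (nat_lit 1048141227) (nat_lit 0) (nat_lit 3086910806) (nat_lit 684) (nat_lit 5560343466) (nat_lit 82) (nat_lit 5) (nat_lit 81) (nat_lit 3) (nat_lit 90) (nat_lit 5) (nat_lit 257) (nat_lit 256) (nat_lit 207)) (XT.lf (nat_lit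 0) (nat_lit 5008070947) (nat_lit 608) (nat_lit 4434708680) (nat_lit 684) (nat_lit 460099370) (nat_lit 82) (nat_lit 5) (nat_lit 90) (nat_lit 5) (nat_lit 91) (nat_lit 5) (nat_lit 258) (nat_lit 256) (nat_lit 206)))))) (XT.nd (nat_lit 312) (nat_lit 532) (nat_lit 0) (XT.nd (nat_lit 156) (nat_lit 0) (nat_lit 76) (XT.nd (nat_lit 78) (nat_lit 0) (nat_lit 0) (XT.lf (nat_lit 0) (nat_lit 5931427586) (nat_lit 608) (nat_lit 88697045) (nat_lit 684) (nat_lit 4100433678) (nat_lit 82) (nat_lit 5) (nat_lit 90) (nat_lit 5) (nat_lit 91) (nat_lit 5) (nat_lit 259) (nat_lit 256) (nat_lit 205)) (XT.lf (nat_lit 76) (nat_lit 4596438340) (nat_lit 0) (nat_lit 2334450037) (nat_lit 684) (nat_lit 3416884946) (nat_lit 83) (nat_lit 5) (nat_lit 82) (nat_lit 5) (nat_lit 91) (nat_lit 5) (nat_lit 260) (nat_lit 256) (nat_lit 204))) (XT.nd (nat_lit 78) (nat_lit 0) (nat_lit 0) (XT.lf (nat_lit 0) (nat_lit 7965838340) (nat_lit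 608) (nat_lit 1118638137) (nat_lit 684) (nat_lit 1502738280) (nat_lit 83) (nat_lit 5) (nat_lit 91) (nat_lit 5) (nat_lit 92) (nat_lit 5) (nat_lit 261) (nat_lit 256) (nat_lit 203)) (XT.lf (nat_lit 76) (nat_lit 3803172188) (nat_lit 0) (nat_lit 5308931266) (nat_lit 684) (nat_lit 1723681167) (nat_lit 84) (nat_lit 5) (nat_lit 83) (nat_lit 5) (nat_lit 92) (nat_lit 5) (nat_lit 262) (nat_lit 256) (nat_lit 202)))) (XT.nd (nat_lit 156) (nat_lit 0) (nat_lit 0) (XT.nd (nat_lit 78) (nat_lit 608) (nat_lit 0) (XT.lf (nat_lit 76) (nat_lit 8984351650) (nat_lit 0) (nat_lit 1313608965) (nat_lit 684) (nat_lit 799836747) (nat_lit 84) (nat_lit 5) (nat_lit 83) (nat_lit 5) (nat_lit 92) (nat_lit 5) (nat_lit 263) (nat_lit 256) (nat_lit 201)) (XT.lf (nat_lit 0) (nat_lit 223892792) (nat_lit 684) (nat_lit 8294869168) (nat_lit 760) (nat_lit 2851175292) (nat_lit 75) (nat_lit 5) (nat_lit 84) (nat_lit 5) (nat_lit 85)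 (nat_lit 5) (nat_lit 264) (nat_lit 256) (nat_lit 200))) (XT.nd (nat_lit 78) (nat_lit 0) (nat_lit 0) (XT.lf (nat_lit 0) (nat_lit 1295675806) (nat_lit 684) (nat_lit 3119935765) (nat_lit 760) (nat_lit 7238340475) (nat_lit 75) (nat_lit 5) (nat_lit 84) (nat_lit 5) (nat_lit 85) (nat_lit 5) (nat_lit 265) (nat_lit 256) (nat_lit 199)) (XT.nd (nat_lit 78) (nat_lit 0) (nat_lit 76) (XT.lf (nat_lit 76) (nat_lit 2363496216) (nat_lit 0) (nat_lit 61912743) (nat_lit 760) (nat_lit 9526646144) (nat_lit 76) (nat_lit 5) (nat_lit 75) (nat_lit 5) (nat_lit 85) (nat_lit 5) (nat_lit 266) (nat_lit 256) (nat_lit 198)) (XT.lf (nat_lit 0) (nat_lit 3704442287) (nat_lit 684) (nat_lit 4131515490) (nat_lit 76) (nat_lit 4424565406) (nat_lit 76) (nat_lit 5) (nat_lit 85) (nat_lit 5) (nat_lit 77) (nat_lit 5) (nat_lit 267) (nat_lit 256) (nat_lit 197))))))))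
noncomputable def xc160 : XT := (XT.nd (nat_lit 1326) (nat_lit 1368) (nat_lit 0) (XT.nd (nat_lit 624) (nat_lit 1140) (nat_lit 0) (XT.nd (nat_lit 312) (nat_lit 760) (nat_lit 0) (XT.nd (nat_lit 156) (nat_lit 304) (nat_lit 0) (XT.nd (nat_lit 78) (nat_lit 0) (nat_lit 0) (XT.lf (nat_lit 0) (nat_lit 1623381253) (nat_lit 684) (nat_lit 3420601019) (nat_lit 760) (nat_lit 7540700402) (nat_lit 67) (nat_lit 5) (nat_lit 76) (nat_lit 5) (nat_lit 77) (nat_lit 5) (nat_lit 268) (nat_lit 256) (nat_lit 196)) (XT.lf (nat_lit 0) (nat_lit 6511859459) (nat_lit 760) (nat_lit 5159321842) (nat_lit 76) (nat_lit 1250892026) (nat_lit 67) (nat_lit 5) (nat_lit 77) (nat_lit 5) (nat_lit 68) (nat_lit 5) (nat_lit 269) (nat_lit 256) (nat_lit 195))) (XT.nd (nat_lit 78) (nat_lit 0) (nat_lit 0) (XT.lf (nat_lit 0) (nat_lit 879000390) (nat_lit 304) (nat_lit 7216563699) (nat_lit 380) (nat_lit 5178734600) (nat_lit 63) (nat_lit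 5) (nat_lit 67) (nat_lit 5) (nat_lit 68) (nat_lit 5) (nat_lit 270) (nat_lit 256) (nat_lit 194)) (XT.lf (nat_lit 0) (nat_lit 7372960699) (nat_lit 304) (nat_lit 2446409944) (nat_lit 380) (nat_lit 3821801560) (nat_lit 63) (nat_lit 5) (nat_lit 67) (nat_lit 5) (nat_lit 68) (nat_lit 5) (nat_lit 271) (nat_lit 256) (nat_lit 193)))) (XT.nd (nat_lit 156) (nat_lit 380) (nat_lit 0) (XT.nd (nat_lit 78) (nat_lit 0) (nat_lit 0) (XT.lf (nat_lit 0) (nat_lit 102978549) (nat_lit 380) (nat_lit 11542817492) (nat_lit 456) (nat_lit 2379850706) (nat_lit 58) (nat_lit 5) (nat_lit 63) (nat_lit 5) (nat_lit 64) (nat_lit 5) (nat_lit 272) (nat_lit 256) (nat_lit 192)) (XT.lf (nat_lit 0) (nat_lit 6943783992) (nat_lit 380) (nat_lit 6740995772) (nat_lit 456) (nat_lit 738578429) (nat_lit 58) (nat_lit 5) (nat_lit 63) (nat_lit 5) (nat_lit 64) (nat_lit 5) (nat_lit 273) (nat_lit 256) (nat_lit 191))) (XT.nd (nat_lit 78) (nat_lit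 304) (nat_lit 0) (XT.lf (nat_lit 0) (nat_lit 929573738) (nat_lit 456) (nat_lit 754485270) (nat_lit 76) (nat_lit 13157378783) (nat_lit 57) (nat_lit 5) (nat_lit 63) (nat_lit 5) (nat_lit 58) (nat_lit 5) (nat_lit 274) (nat_lit 256) (nat_lit 190)) (XT.lf (nat_lit 0) (nat_lit 2793369249) (nat_lit 380) (nat_lit 8855900103) (nat_lit 76) (nat_lit 3623758597) (nat_lit 53) (nat_lit 5) (nat_lit 58) (nat_lit 5) (nat_lit 54) (nat_lit 5) (nat_lit 275) (nat_lit 256) (nat_lit 189))))) (XT.nd (nat_lit 312) (nat_lit 608) (nat_lit 0) (XT.nd (nat_lit 156) (nat_lit 228) (nat_lit 0) (XT.nd (nat_lit 78) (nat_lit 304) (nat_lit 0) (XT.lf (nat_lit 0) (nat_lit 4769099554) (nat_lit 380) (nat_lit 1804215385) (nat_lit 76) (nat_lit 9152007150) (nat_lit 53) (nat_lit 5) (nat_lit 58) (nat_lit 5) (nat_lit 54) (nat_lit 5) (nat_lit 276) (nat_lit 256) (nat_lit 188)) (XT.lf (nat_lit 0) (nat_lit 5761254158) (nat_lit 304) (nat_lit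 1151502447) (nat_lit 380) (nat_lit 9284076108) (nat_lit 49) (nat_lit 5) (nat_lit 53) (nat_lit 5) (nat_lit 54) (nat_lit 5) (nat_lit 277) (nat_lit 256) (nat_lit 187))) (XT.nd (nat_lit 78) (nat_lit 228) (nat_lit 0) (XT.lf (nat_lit 0) (nat_lit 9245340851) (nat_lit 380) (nat_lit 3018005326) (nat_lit 76) (nat_lit 4424541459) (nat_lit 49) (nat_lit 5) (nat_lit 54) (nat_lit 5) (nat_lit 50) (nat_lit 5) (nat_lit 278) (nat_lit 256) (nat_lit 186)) (XT.lf (nat_lit 0) (nat_lit 4885217623) (nat_lit 228) (nat_lit 6885232555) (nat_lit 304) (nat_lit 5429303656) (nat_lit 46) (nat_lit 5) (nat_lit 49) (nat_lit 5) (nat_lit 50) (nat_lit 5) (nat_lit 279) (nat_lit 256) (nat_lit 185)))) (XT.nd (nat_lit 156) (nat_lit 304) (nat_lit 0) (XT.nd (nat_lit 78) (nat_lit 304) (nat_lit 0) (XT.lf (nat_lit 0) (nat_lit 13266037009) (nat_lit 228) (nat_lit 1188204166) (nat_lit 304) (nat_lit 3281401640) (nat_lit 46) (nat_lit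 5) (nat_lit 49) (nat_lit 5) (nat_lit 50) (nat_lit 5) (nat_lit 280) (nat_lit 256) (nat_lit 184)) (XT.lf (nat_lit 0) (nat_lit 3791931050) (nat_lit 304) (nat_lit 13596486256) (nat_lit 380) (nat_lit 904147523) (nat_lit 42) (nat_lit 5) (nat_lit 46) (nat_lit 5) (nat_lit 47) (nat_lit 5) (nat_lit 281) (nat_lit 256) (nat_lit 183))) (XT.nd (nat_lit 78) (nat_lit 228) (nat_lit 0) (XT.lf (nat_lit 0) (nat_lit 1619761829) (nat_lit 380) (nat_lit 6319837043) (nat_lit 76) (nat_lit 10932597910) (nat_lit 41) (nat_lit 5) (nat_lit 46) (nat_lit 5) (nat_lit 42) (nat_lit 5) (nat_lit 282) (nat_lit 256) (nat_lit 182)) (XT.nd (nat_lit 78) (nat_lit 0) (nat_lit 0) (XT.lf (nat_lit 0) (nat_lit 2307672165) (nat_lit 228) (nat_lit 1951010712) (nat_lit 304) (nat_lit 15220468054) (nat_lit 38) (nat_lit 5) (nat_lit 41) (nat_lit 5) (nat_lit 42) (nat_lit 5) (nat_lit 283) (nat_lit 256) (nat_lit 181)) (XT.lf (nat_lit 0) (nat_lit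 7189619451) (nat_lit 304) (nat_lit 8616406686) (nat_lit 76) (nat_lit 4302462965) (nat_lit 38) (nat_lit 5) (nat_lit 42) (nat_lit 5) (nat_lit 39) (nat_lit 5) (nat_lit 284) (nat_lit 256) (nat_lit 180))))))) (XT.nd (nat_lit 702) (nat_lit 532) (nat_lit 0) (XT.nd (nat_lit 312) (nat_lit 456) (nat_lit 0) (XT.nd (nat_lit 156) (nat_lit 152) (nat_lit 0) (XT.nd (nat_lit 78) (nat_lit 0) (nat_lit 0) (XT.lf (nat_lit 0) (nat_lit 324039586) (nat_lit 228) (nat_lit 9964461038) (nat_lit 304) (nat_lit 10479761566) (nat_lit 35) (nat_lit 5) (nat_lit 38) (nat_lit 5) (nat_lit 39) (nat_lit 5) (nat_lit 285) (nat_lit 256) (nat_lit 179)) (XT.lf (nat_lit 0) (nat_lit 9990218387) (nat_lit 228) (nat_lit 3682811314) (nat_lit 304) (nat_lit 7781495127) (nat_lit 35) (nat_lit 5) (nat_lit 38) (nat_lit 5) (nat_lit 39) (nat_lit 5) (nat_lit 286) (nat_lit 256) (nat_lit 178))) (XT.nd (nat_lit 78) (nat_lit 152) (nat_lit 0) (XT.lf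 (nat_lit 0) (nat_lit 17257692132) (nat_lit 304) (nat_lit 2101013930) (nat_lit 76) (nat_lit 2814883563) (nat_lit 35) (nat_lit 5) (nat_lit 39) (nat_lit 5) (nat_lit 36) (nat_lit 5) (nat_lit 287) (nat_lit 256) (nat_lit 177)) (XT.lf (nat_lit 0) (nat_lit 7903860626) (nat_lit 152) (nat_lit 13287624373) (nat_lit 228) (nat_lit 1728660532) (nat_lit 33) (nat_lit 5) (nat_lit 35) (nat_lit 5) (nat_lit 36) (nat_lit 5) (nat_lit 288) (nat_lit 256) (nat_lit 176)))) (XT.nd (nat_lit 156) (nat_lit 152) (nat_lit 0) (XT.nd (nat_lit 78) (nat_lit 228) (nat_lit 0) (XT.lf (nat_lit 0) (nat_lit 1588555615) (nat_lit 228) (nat_lit 5265529556) (nat_lit 76) (nat_lit 16847590652) (nat_lit 32) (nat_lit 5) (nat_lit 35) (nat_lit 5) (nat_lit 33) (nat_lit 5) (nat_lit 289) (nat_lit 256) (nat_lit 175)) (XT.lf (nat_lit 0) (nat_lit 5080021825) (nat_lit 304) (nat_lit 19428851899) (nat_lit 76) (nat_lit 8696068) (nat_lit 29) (nat_lit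 5) (nat_lit 33) (nat_lit 5) (nat_lit 30) (nat_lit 5) (nat_lit 290) (nat_lit 256) (nat_lit 174))) (XT.nd (nat_lit 78) (nat_lit 152) (nat_lit 0) (XT.lf (nat_lit 0) (nat_lit 8936208603) (nat_lit 304) (nat_lit 9358857914) (nat_lit 76) (nat_lit 7069711510) (nat_lit 29) (nat_lit 5) (nat_lit 33) (nat_lit 5) (nat_lit 30) (nat_lit 5) (nat_lit 291) (nat_lit 256) (nat_lit 173)) (XT.nd (nat_lit 78) (nat_lit 0) (nat_lit 0) (XT.lf (nat_lit 0) (nat_lit 1236379780) (nat_lit 152) (nat_lit 11755889286) (nat_lit 228) (nat_lit 13261750042) (nat_lit 27) (nat_lit 5) (nat_lit 29) (nat_lit 5) (nat_lit 30) (nat_lit 5) (nat_lit 292) (nat_lit 256) (nat_lit 172)) (XT.lf (nat_lit 0) (nat_lit 12668757457) (nat_lit 152) (nat_lit 4728941829) (nat_lit 228) (nat_lit 9782719044) (nat_lit 27) (nat_lit 5) (nat_lit 29) (nat_lit 5) (nat_lit 30) (nat_lit 5) (nat_lit 293) (nat_lit 256) (nat_lit 171)))))) (XT.nd (nat_lit 312)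 (nat_lit 152) (nat_lit 0) (XT.nd (nat_lit 156) (nat_lit 228) (nat_lit 0) (XT.nd (nat_lit 78) (nat_lit 152) (nat_lit 0) (XT.lf (nat_lit 0) (nat_lit 22053319468) (nat_lit 228) (nat_lit 3538960327) (nat_lit 76) (nat_lit 2559385061) (nat_lit 27) (nat_lit 5) (nat_lit 30) (nat_lit 5) (nat_lit 28) (nat_lit 5) (nat_lit 294) (nat_lit 256) (nat_lit 170)) (XT.lf (nat_lit 0) (nat_lit 8149286329) (nat_lit 152) (nat_lit 18986290806) (nat_lit 228) (nat_lit 2026225905) (nat_lit 25) (nat_lit 5) (nat_lit 27) (nat_lit 5) (nat_lit 28) (nat_lit 5) (nat_lit 295) (nat_lit 256) (nat_lit 169))) (XT.nd (nat_lit 78) (nat_lit 152) (nat_lit 0) (XT.lf (nat_lit 0) (nat_lit 2227590198) (nat_lit 228) (nat_lit 9727251965) (nat_lit 76) (nat_lit 18263365585) (nat_lit 24) (nat_lit 5) (nat_lit 27) (nat_lit 5) (nat_lit 25) (nat_lit 5) (nat_lit 296) (nat_lit 256) (nat_lit 168)) (XT.lf (nat_lit 0) (nat_lit 2141892133) (nat_lit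 152) (nat_lit 4507239197) (nat_lit 228) (nat_lit 24675503221) (nat_lit 22) (nat_lit 5) (nat_lit 24) (nat_lit 5) (nat_lit 25) (nat_lit 5) (nat_lit 297) (nat_lit 256) (nat_lit 167)))) (XT.nd (nat_lit 156) (nat_lit 152) (nat_lit 0) (XT.nd (nat_lit 78) (nat_lit 0) (nat_lit 0) (XT.lf (nat_lit 0) (nat_lit 11500759990) (nat_lit 228) (nat_lit 17606270460) (nat_lit 76) (nat_lit 3368919952) (nat_lit 22) (nat_lit 5) (nat_lit 25) (nat_lit 5) (nat_lit 23) (nat_lit 5) (nat_lit 298) (nat_lit 256) (nat_lit 166)) (XT.lf (nat_lit 0) (nat_lit 16659195390) (nat_lit 228) (nat_lit 5540011123) (nat_lit 76) (nat_lit 11482431626) (nat_lit 22) (nat_lit 5) (nat_lit 25) (nat_lit 5) (nat_lit 23) (nat_lit 5) (nat_lit 299) (nat_lit 256) (nat_lit 165))) (XT.nd (nat_lit 78) (nat_lit 0) (nat_lit 0) (XT.lf (nat_lit 0) (nat_lit 7350393924) (nat_lit 152) (nat_lit 14830715209) (nat_lit 228) (nat_lit 12761239834) (nat_lit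 20) (nat_lit 5) (nat_lit 22) (nat_lit 5) (nat_lit 23) (nat_lit 5) (nat_lit 300) (nat_lit 256) (nat_lit 164)) (XT.nd (nat_lit 78) (nat_lit 0) (nat_lit 0) (XT.lf (nat_lit 0) (nat_lit 21063462809) (nat_lit 152) (nat_lit 7000491524) (nat_lit 228) (nat_lit 8197914961) (nat_lit 20) (nat_lit 5) (nat_lit 22) (nat_lit 5) (nat_lit 23) (nat_lit 5) (nat_lit 301) (nat_lit 256) (nat_lit 163)) (XT.lf (nat_lit 0) (nat_lit 34251372367) (nat_lit 228) (nat_lit 2218130298) (nat_lit 76) (nat_lit 1177356439) (nat_lit 20) (nat_lit 5) (nat_lit 23) (nat_lit 5) (nat_lit 21) (nat_lit 4) (nat_lit 302) (nat_lit 256) (nat_lit 162))))))))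
noncomputable def xc161 : XT := (XT.nd (nat_lit 1326) (nat_lit 380) (nat_lit 0) (XT.nd (nat_lit 624) (nat_lit 380) (nat_lit 0) (XT.nd (nat_lit 312) (nat_lit 76) (nat_lit 0) (XT.nd (nat_lit 156) (nat_lit 152) (nat_lit 0) (XT.nd (nat_lit 78) (nat_lit 0) (nat_lit 0) (XT.lf (nat_lit 0) (nat_lit 1887586333) (nat_lit 152) (nat_lit 27460882838) (nat_lit 76) (nat_lit 9736695087) (nat_lit 18) (nat_lit 5) (nat_lit 20) (nat_lit 5) (nat_lit 19) (nat_lit 5) (nat_lit 303) (nat_lit 256) (nat_lit 161)) (XT.lf (nat_lit 0) (nat_lit 7350701836) (nat_lit 152) (nat_lit 14427255654) (nat_lit 76) (nat_lit 18813156977) (nat_lit 18) (nat_lit 5) (nat_lit 20) (nat_lit 5) (nat_lit 19) (nat_lit 5) (nat_lit 304) (nat_lit 256) (nat_lit 160))) (XT.nd (nat_lit 78) (nat_lit 152) (nat_lit 0) (XT.lf (nat_lit 0) (nat_lit 13079181177) (nat_lit 152) (nat_lit 754606067) (nat_lit 76) (nat_lit 28338976877) (nat_lit 18) (nat_lit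 5) (nat_lit 20) (nat_lit 5) (nat_lit 19) (nat_lit 5) (nat_lit 305) (nat_lit 256) (nat_lit 159)) (XT.lf (nat_lit 0) (nat_lit 14038954056) (nat_lit 152) (nat_lit 5266896952) (nat_lit 228) (nat_lit 24517068673) (nat_lit 16) (nat_lit 5) (nat_lit 18) (nat_lit 5) (nat_lit 19) (nat_lit 5) (nat_lit 306) (nat_lit 256) (nat_lit 158)))) (XT.nd (nat_lit 156) (nat_lit 76) (nat_lit 0) (XT.nd (nat_lit 78) (nat_lit 0) (nat_lit 0) (XT.lf (nat_lit 0) (nat_lit 25907728585) (nat_lit 228) (nat_lit 16027136500) (nat_lit 76) (nat_lit 3617535412) (nat_lit 16) (nat_lit 5) (nat_lit 19) (nat_lit 5) (nat_lit 17) (nat_lit 4) (nat_lit 307) (nat_lit 256) (nat_lit 157)) (XT.lf (nat_lit 0) (nat_lit 32919066737) (nat_lit 228) (nat_lit 1680392834) (nat_lit 76) (nat_lit 12764938106) (nat_lit 16) (nat_lit 5) (nat_lit 19) (nat_lit 5) (nat_lit 17) (nat_lit 4) (nat_lit 308) (nat_lit 256) (nat_lit 156))) (XT.nd (nat_lit 78)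 (nat_lit 0) (nat_lit 0) (XT.lf (nat_lit 0) (nat_lit 13814815683) (nat_lit 76) (nat_lit 26675200410) (nat_lit 152) (nat_lit 8766536558) (nat_lit 15) (nat_lit 5) (nat_lit 16) (nat_lit 5) (nat_lit 17) (nat_lit 4) (nat_lit 309) (nat_lit 256) (nat_lit 155)) (XT.lf (nat_lit 0) (nat_lit 30132269310) (nat_lit 76) (nat_lit 18329205073) (nat_lit 152) (nat_lit 2780752583) (nat_lit 15) (nat_lit 5) (nat_lit 16) (nat_lit 5) (nat_lit 17) (nat_lit 4) (nat_lit 310) (nat_lit 256) (nat_lit 154))))) (XT.nd (nat_lit 312) (nat_lit 152) (nat_lit 0) (XT.nd (nat_lit 156) (nat_lit 0) (nat_lit 0) (XT.nd (nat_lit 78) (nat_lit 152) (nat_lit 0) (XT.lf (nat_lit 0) (nat_lit 3385862674) (nat_lit 152) (nat_lit 6126856513) (nat_lit 76) (nat_lit 43812053854) (nat_lit 14) (nat_lit 5) (nat_lit 16) (nat_lit 5) (nat_lit 15) (nat_lit 5) (nat_lit 311) (nat_lit 256) (nat_lit 153)) (XT.lf (nat_lit 0) (nat_lit 9865519560) (nat_lit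 152) (nat_lit 49868142) (nat_lit 228) (nat_lit 45586386236) (nat_lit 12) (nat_lit 5) (nat_lit 14) (nat_lit 5) (nat_lit 15) (nat_lit 5) (nat_lit 312) (nat_lit 256) (nat_lit 152))) (XT.nd (nat_lit 78) (nat_lit 0) (nat_lit 0) (XT.lf (nat_lit 0) (nat_lit 17025271897) (nat_lit 228) (nat_lit 31078391476) (nat_lit 76) (nat_lit 9671275314) (nat_lit 12) (nat_lit 5) (nat_lit 15) (nat_lit 5) (nat_lit 13) (nat_lit 4) (nat_lit 313) (nat_lit 256) (nat_lit 151)) (XT.lf (nat_lit 0) (nat_lit 24485820673) (nat_lit 228) (nat_lit 15803099217) (nat_lit 76) (nat_lit 19873090839) (nat_lit 12) (nat_lit 5) (nat_lit 15) (nat_lit 5) (nat_lit 13) (nat_lit 4) (nat_lit 314) (nat_lit 256) (nat_lit 150)))) (XT.nd (nat_lit 156) (nat_lit 76) (nat_lit 0) (XT.nd (nat_lit 78) (nat_lit 0) (nat_lit 0) (XT.lf (nat_lit 0) (nat_lit 234268787) (nat_lit 76) (nat_lit 32083407466) (nat_lit 152) (nat_lit 30350853365) (nat_lit 11)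 (nat_lit 5) (nat_lit 12) (nat_lit 5) (nat_lit 13) (nat_lit 4) (nat_lit 315) (nat_lit 256) (nat_lit 149)) (XT.lf (nat_lit 0) (nat_lit 17613114356) (nat_lit 76) (nat_lit 23190380146) (nat_lit 152) (nat_lit 24483768323) (nat_lit 11) (nat_lit 5) (nat_lit 12) (nat_lit 5) (nat_lit 13) (nat_lit 4) (nat_lit 316) (nat_lit 256) (nat_lit 148))) (XT.nd (nat_lit 78) (nat_lit 76) (nat_lit 0) (XT.lf (nat_lit 0) (nat_lit 35852293867) (nat_lit 76) (nat_lit 13856297189) (nat_lit 152) (nat_lit 18328598814) (nat_lit 11) (nat_lit 5) (nat_lit 12) (nat_lit 5) (nat_lit 13) (nat_lit 4) (nat_lit 317) (nat_lit 256) (nat_lit 147)) (XT.nd (nat_lit 78) (nat_lit 76) (nat_lit 0) (XT.lf (nat_lit 0) (nat_lit 54995233935) (nat_lit 76) (nat_lit 4058934585) (nat_lit 152) (nat_lit 11870689670) (nat_lit 11) (nat_lit 5) (nat_lit 12) (nat_lit 5) (nat_lit 13) (nat_lit 4) (nat_lit 318) (nat_lit 256) (nat_lit 146)) (XT.lf (nat_lit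 0) (nat_lit 1067341141) (nat_lit 76) (nat_lit 67908991556) (nat_lit 76) (nat_lit 4975117774) (nat_lit 10) (nat_lit 4) (nat_lit 11) (nat_lit 5) (nat_lit 11) (nat_lit 4) (nat_lit 319) (nat_lit 256) (nat_lit 145))))))) (XT.nd (nat_lit 702) (nat_lit 228) (nat_lit 0) (XT.nd (nat_lit 312) (nat_lit 76) (nat_lit 0) (XT.nd (nat_lit 156) (nat_lit 0) (nat_lit 0) (XT.nd (nat_lit 78) (nat_lit 0) (nat_lit 0) (XT.lf (nat_lit 0) (nat_lit 2528888905) (nat_lit 152) (nat_lit 57763035597) (nat_lit 76) (nat_lit 16818877025) (nat_lit 9) (nat_lit 5) (nat_lit 11) (nat_lit 5) (nat_lit 10) (nat_lit 4) (nat_lit 320) (nat_lit 256) (nat_lit 144)) (XT.lf (nat_lit 0) (nat_lit 10236536881) (nat_lit 152) (nat_lit 41975103980) (nat_lit 76) (nat_lit 28212624559) (nat_lit 9) (nat_lit 5) (nat_lit 11) (nat_lit 5) (nat_lit 10) (nat_lit 4) (nat_lit 321) (nat_lit 256) (nat_lit 143))) (XT.nd (nat_lit 78) (nat_lit 0) (nat_lit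 0) (XT.lf (nat_lit 0) (nat_lit 18325412535) (nat_lit 152) (nat_lit 25405048637) (nat_lit 76) (nat_lit 40173153955) (nat_lit 9) (nat_lit 5) (nat_lit 11) (nat_lit 5) (nat_lit 10) (nat_lit 4) (nat_lit 322) (nat_lit 256) (nat_lit 142)) (XT.lf (nat_lit 0) (nat_lit 26814775095) (nat_lit 152) (nat_lit 8013417053) (nat_lit 76) (nat_lit 52728942664) (nat_lit 9) (nat_lit 5) (nat_lit 11) (nat_lit 5) (nat_lit 10) (nat_lit 4) (nat_lit 323) (nat_lit 256) (nat_lit 141)))) (XT.nd (nat_lit 156) (nat_lit 0) (nat_lit 0) (XT.nd (nat_lit 78) (nat_lit 0) (nat_lit 0) (XT.lf (nat_lit 0) (nat_lit 10579819720) (nat_lit 76) (nat_lit 25310198243) (nat_lit 152) (nat_lit 55495246336) (nat_lit 8) (nat_lit 5) (nat_lit 9) (nat_lit 5) (nat_lit 10) (nat_lit 4) (nat_lit 324) (nat_lit 256) (nat_lit 140)) (XT.lf (nat_lit 0) (nat_lit 30374435784) (nat_lit 76) (nat_lit 15176607952) (nat_lit 152) (nat_lit 49847159706) (nat_lit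 8) (nat_lit 5) (nat_lit 9) (nat_lit 5) (nat_lit 10) (nat_lit 4) (nat_lit 325) (nat_lit 256) (nat_lit 139))) (XT.nd (nat_lit 78) (nat_lit 0) (nat_lit 0) (XT.lf (nat_lit 0) (nat_lit 51152601418) (nat_lit 76) (nat_lit 4539004774) (nat_lit 152) (nat_lit 43920363097) (nat_lit 8) (nat_lit 5) (nat_lit 9) (nat_lit 5) (nat_lit 10) (nat_lit 4) (nat_lit 326) (nat_lit 256) (nat_lit 138)) (XT.nd (nat_lit 78) (nat_lit 0) (nat_lit 0) (XT.lf (nat_lit 0) (nat_lit 66439330229) (nat_lit 152) (nat_lit 31176286871) (nat_lit 0) (nat_lit 6415803480) (nat_lit 8) (nat_lit 5) (nat_lit 10) (nat_lit 4) (nat_lit 8) (nat_lit 4) (nat_lit 327) (nat_lit 256) (nat_lit 137)) (XT.lf (nat_lit 0) (nat_lit 77795624768) (nat_lit 152) (nat_lit 13109193569) (nat_lit 0) (nat_lit 17763470528) (nat_lit 8) (nat_lit 5) (nat_lit 10) (nat_lit 4) (nat_lit 8) (nat_lit 4) (nat_lit 328) (nat_lit 256) (nat_lit 136)))))) (XT.nd (nat_lit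 312) (nat_lit 76) (nat_lit 0) (XT.nd (nat_lit 156) (nat_lit 76) (nat_lit 0) (XT.nd (nat_lit 78) (nat_lit 0) (nat_lit 0) (XT.lf (nat_lit 0) (nat_lit 6049414554) (nat_lit 76) (nat_lit 83761695782) (nat_lit 76) (nat_lit 23721324883) (nat_lit 7) (nat_lit 4) (nat_lit 8) (nat_lit 5) (nat_lit 8) (nat_lit 4) (nat_lit 329) (nat_lit 256) (nat_lit 135)) (XT.lf (nat_lit 0) (nat_lit 26615703842) (nat_lit 76) (nat_lit 76030667296) (nat_lit 76) (nat_lit 15982471008) (nat_lit 7) (nat_lit 4) (nat_lit 8) (nat_lit 5) (nat_lit 8) (nat_lit 4) (nat_lit 330) (nat_lit 256) (nat_lit 134))) (XT.nd (nat_lit 78) (nat_lit 76) (nat_lit 0) (XT.lf (nat_lit 0) (nat_lit 48205192506) (nat_lit 76) (nat_lit 67915336207) (nat_lit 76) (nat_lit 7859687168) (nat_lit 7) (nat_lit 4) (nat_lit 8) (nat_lit 5) (nat_lit 8) (nat_lit 4) (nat_lit 331) (nat_lit 256) (nat_lit 133)) (XT.lf (nat_lit 0) (nat_lit 645038707) (nat_lit 152)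 (nat_lit 58740417548) (nat_lit 76) (nat_lit 70213321341) (nat_lit 6) (nat_lit 5) (nat_lit 8) (nat_lit 5) (nat_lit 7) (nat_lit 4) (nat_lit 332) (nat_lit 256) (nat_lit 132)))) (XT.nd (nat_lit 156) (nat_lit 76) (nat_lit 0) (XT.nd (nat_lit 78) (nat_lit 0) (nat_lit 0) (XT.lf (nat_lit 0) (nat_lit 9308218677) (nat_lit 152) (nat_lit 40987658475) (nat_lit 76) (nat_lit 85196082856) (nat_lit 6) (nat_lit 5) (nat_lit 8) (nat_lit 5) (nat_lit 7) (nat_lit 4) (nat_lit 333) (nat_lit 256) (nat_lit 131)) (XT.lf (nat_lit 0) (nat_lit 18402038434) (nat_lit 152) (nat_lit 22351765939) (nat_lit 76) (nat_lit 100926125716) (nat_lit 6) (nat_lit 5) (nat_lit 8) (nat_lit 5) (nat_lit 7) (nat_lit 4) (nat_lit 334) (nat_lit 256) (nat_lit 130))) (XT.nd (nat_lit 78) (nat_lit 76) (nat_lit 0) (XT.lf (nat_lit 0) (nat_lit 27948149931) (nat_lit 152) (nat_lit 2788368768) (nat_lit 76) (nat_lit 117440902404) (nat_lit 6) (nat_lit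 5) (nat_lit 8) (nat_lit 5) (nat_lit 7) (nat_lit 4) (nat_lit 335) (nat_lit 256) (nat_lit 129)) (XT.nd (nat_lit 78) (nat_lit 0) (nat_lit 0) (XT.lf (nat_lit 0) (nat_lit 18335978374) (nat_lit 76) (nat_lit 19919579639) (nat_lit 152) (nat_lit 116730031453) (nat_lit 5) (nat_lit 5) (nat_lit 6) (nat_lit 5) (nat_lit 7) (nat_lit 4) (nat_lit 336) (nat_lit 256) (nat_lit 128)) (XT.lf (nat_lit 0) (nat_lit 40609328934) (nat_lit 76) (nat_lit 8513990990) (nat_lit 152) (nat_lit 113008599389) (nat_lit 5) (nat_lit 5) (nat_lit 6) (nat_lit 5) (nat_lit 7) (nat_lit 4) (nat_lit 337) (nat_lit 256) (nat_lit 127))))))))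
noncomputable def xc162 : XT := (XT.nd (nat_lit 1326) (nat_lit 76) (nat_lit 0) (XT.nd (nat_lit 624) (nat_lit 0) (nat_lit 0) (XT.nd (nat_lit 312) (nat_lit 76) (nat_lit 0) (XT.nd (nat_lit 156) (nat_lit 0) (nat_lit 0) (XT.nd (nat_lit 78) (nat_lit 0) (nat_lit 0) (XT.lf (nat_lit 0) (nat_lit 60586360721) (nat_lit 152) (nat_lit 105697178888) (nat_lit 0) (nat_lit 3349433632) (nat_lit 5) (nat_lit 5) (nat_lit 7) (nat_lit 4) (nat_lit 5) (nat_lit 4) (nat_lit 338) (nat_lit 256) (nat_lit 126)) (XT.lf (nat_lit 0) (nat_lit 72760071168) (nat_lit 152) (nat_lit 89223794879) (nat_lit 0) (nat_lit 15518339969) (nat_lit 5) (nat_lit 5) (nat_lit 7) (nat_lit 4) (nat_lit 5) (nat_lit 4) (nat_lit 339) (nat_lit 256) (nat_lit 125))) (XT.nd (nat_lit 78) (nat_lit 0) (nat_lit 0) (XT.lf (nat_lit 0) (nat_lit 85540509030) (nat_lit 152) (nat_lit 71930288748) (nat_lit 0) (nat_lit 28294202488) (nat_lit 5) (nat_lit 5) (nat_lit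 7) (nat_lit 4) (nat_lit 5) (nat_lit 4) (nat_lit 340) (nat_lit 256) (nat_lit 124)) (XT.lf (nat_lit 0) (nat_lit 98958103921) (nat_lit 152) (nat_lit 53775485481) (nat_lit 0) (nat_lit 41707439910) (nat_lit 5) (nat_lit 5) (nat_lit 7) (nat_lit 4) (nat_lit 5) (nat_lit 4) (nat_lit 341) (nat_lit 256) (nat_lit 123)))) (XT.nd (nat_lit 156) (nat_lit 76) (nat_lit 0) (XT.nd (nat_lit 78) (nat_lit 0) (nat_lit 0) (XT.lf (nat_lit 0) (nat_lit 113044802496) (nat_lit 152) (nat_lit 34716159356) (nat_lit 0) (nat_lit 55789988514) (nat_lit 5) (nat_lit 5) (nat_lit 7) (nat_lit 4) (nat_lit 5) (nat_lit 4) (nat_lit 342) (nat_lit 256) (nat_lit 122)) (XT.lf (nat_lit 0) (nat_lit 127834144513) (nat_lit 152) (nat_lit 14706931024) (nat_lit 0) (nat_lit 70575378178) (nat_lit 5) (nat_lit 5) (nat_lit 7) (nat_lit 4) (nat_lit 5) (nat_lit 4) (nat_lit 343) (nat_lit 256) (nat_lit 121))) (XT.nd (nat_lit 78) (nat_lit 0) (nat_lit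 0) (XT.lf (nat_lit 0) (nat_lit 6508141711) (nat_lit 76) (nat_lit 136954811312) (nat_lit 76) (nat_lit 79692280830) (nat_lit 4) (nat_lit 4) (nat_lit 5) (nat_lit 5) (nat_lit 5) (nat_lit 4) (nat_lit 344) (nat_lit 256) (nat_lit 120)) (XT.lf (nat_lit 0) (nat_lit 29291688396) (nat_lit 76) (nat_lit 130829003500) (nat_lit 76) (nat_lit 73562888118) (nat_lit 4) (nat_lit 4) (nat_lit 5) (nat_lit 5) (nat_lit 5) (nat_lit 4) (nat_lit 345) (nat_lit 256) (nat_lit 119))))) (XT.nd (nat_lit 312) (nat_lit 0) (nat_lit 0) (XT.nd (nat_lit 156) (nat_lit 0) (nat_lit 0) (XT.nd (nat_lit 78) (nat_lit 0) (nat_lit 0) (XT.lf (nat_lit 0) (nat_lit 53211678013) (nat_lit 76) (nat_lit 124398135839) (nat_lit 76) (nat_lit 67128606265) (nat_lit 4) (nat_lit 4) (nat_lit 5) (nat_lit 5) (nat_lit 5) (nat_lit 4) (nat_lit 346) (nat_lit 256) (nat_lit 118)) (XT.lf (nat_lit 0) (nat_lit 78325062918) (nat_lit 76) (nat_lit 117646896740)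 (nat_lit 76) (nat_lit 60374115555) (nat_lit 4) (nat_lit 4) (nat_lit 5) (nat_lit 5) (nat_lit 5) (nat_lit 4) (nat_lit 347) (nat_lit 256) (nat_lit 117))) (XT.nd (nat_lit 78) (nat_lit 0) (nat_lit 0) (XT.lf (nat_lit 0) (nat_lit 104691636883) (nat_lit 76) (nat_lit 110559211823) (nat_lit 76) (nat_lit 53283333866) (nat_lit 4) (nat_lit 4) (nat_lit 5) (nat_lit 5) (nat_lit 5) (nat_lit 4) (nat_lit 348) (nat_lit 256) (nat_lit 116)) (XT.lf (nat_lit 0) (nat_lit 132374177467) (nat_lit 76) (nat_lit 103118205648) (nat_lit 76) (nat_lit 45839378384) (nat_lit 4) (nat_lit 4) (nat_lit 5) (nat_lit 5) (nat_lit 5) (nat_lit 4) (nat_lit 349) (nat_lit 256) (nat_lit 115)))) (XT.nd (nat_lit 156) (nat_lit 0) (nat_lit 0) (XT.nd (nat_lit 78) (nat_lit 0) (nat_lit 0) (XT.lf (nat_lit 0) (nat_lit 161438595480) (nat_lit 76) (nat_lit 95306161534) (nat_lit 76) (nat_lit 38024525407) (nat_lit 4) (nat_lit 4) (nat_lit 5) (nat_lit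 5) (nat_lit 5) (nat_lit 4) (nat_lit 350) (nat_lit 256) (nat_lit 114)) (XT.lf (nat_lit 0) (nat_lit 191954091918) (nat_lit 76) (nat_lit 87104479376) (nat_lit 76) (nat_lit 29820168140) (nat_lit 4) (nat_lit 4) (nat_lit 5) (nat_lit 5) (nat_lit 5) (nat_lit 4) (nat_lit 351) (nat_lit 256) (nat_lit 113))) (XT.nd (nat_lit 78) (nat_lit 0) (nat_lit 0) (XT.lf (nat_lit 0) (nat_lit 223993322723) (nat_lit 76) (nat_lit 78493631359) (nat_lit 76) (nat_lit 21206772401) (nat_lit 4) (nat_lit 4) (nat_lit 5) (nat_lit 5) (nat_lit 5) (nat_lit 4) (nat_lit 352) (nat_lit 256) (nat_lit 112)) (XT.nd (nat_lit 78) (nat_lit 0) (nat_lit 0) (XT.lf (nat_lit 0) (nat_lit 257632571780) (nat_lit 76) (nat_lit 69453115464) (nat_lit 76) (nat_lit 12163830104) (nat_lit 4) (nat_lit 4) (nat_lit 5) (nat_lit 5) (nat_lit 5) (nat_lit 4) (nat_lit 353) (nat_lit 256) (nat_lit 111)) (XT.lf (nat_lit 0) (nat_lit 292951932538) (nat_lit 76)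 (nat_lit 59961406654) (nat_lit 76) (nat_lit 2669810435) (nat_lit 4) (nat_lit 4) (nat_lit 5) (nat_lit 5) (nat_lit 5) (nat_lit 4) (nat_lit 354) (nat_lit 256) (nat_lit 110))))))) (XT.nd (nat_lit 30342) (nat_lit 0) (nat_lit 4560) (XT.nd (nat_lit 29952) (nat_lit 0) (nat_lit 5928) (XT.nd (nat_lit 156) (nat_lit 0) (nat_lit 0) (XT.nd (nat_lit 78) (nat_lit 0) (nat_lit 0) (XT.lf (nat_lit 0) (nat_lit 7064313314) (nat_lit 152) (nat_lit 42811954742) (nat_lit 76) (nat_lit 322851547835) (nat_lit 3) (nat_lit 5) (nat_lit 5) (nat_lit 5) (nat_lit 4) (nat_lit 4) (nat_lit 355) (nat_lit 256) (nat_lit 109)) (XT.lf (nat_lit 0) (nat_lit 17194480881) (nat_lit 152) (nat_lit 22047207247) (nat_lit 76) (nat_lit 351485886776) (nat_lit 3) (nat_lit 5) (nat_lit 5) (nat_lit 5) (nat_lit 4) (nat_lit 4) (nat_lit 356) (nat_lit 256) (nat_lit 108))) (XT.nd (nat_lit 29718) (nat_lit 0) (nat_lit 5928) (XT.lf (nat_lit 0) (nat_lit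 27830262320) (nat_lit 152) (nat_lit 245851505) (nat_lit 76) (nat_lit 381551253571) (nat_lit 3) (nat_lit 5) (nat_lit 5) (nat_lit 5) (nat_lit 4) (nat_lit 4) (nat_lit 357) (nat_lit 256) (nat_lit 107)) (XT.lf (nat_lit 0) (nat_lit 2449312368) (nat_lit 684) (nat_lit 1249422925) (nat_lit 684) (nat_lit 1249422925) (nat_lit 81) (nat_lit 3) (nat_lit 90) (nat_lit 3) (nat_lit 90) (nat_lit 5) (nat_lit 257) (nat_lit 257) (nat_lit 206)))) (XT.nd (nat_lit 156) (nat_lit 0) (nat_lit 76) (XT.nd (nat_lit 78) (nat_lit 0) (nat_lit 0) (XT.lf (nat_lit 76) (nat_lit 1834708027) (nat_lit 0) (nat_lit 3867632024) (nat_lit 684) (nat_lit 4405001151) (nat_lit 82) (nat_lit 5) (nat_lit 81) (nat_lit 3) (nat_lit 90) (nat_lit 5) (nat_lit 258) (nat_lit 257) (nat_lit 205)) (XT.lf (nat_lit 76) (nat_lit 6448960190) (nat_lit 0) (nat_lit 97470313) (nat_lit 684) (nat_lit 3782625785) (nat_lit 82) (nat_lit 5) (nat_lit 81) (nat_lit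 3) (nat_lit 90) (nat_lit 5) (nat_lit 259) (nat_lit 257) (nat_lit 204))) (XT.nd (nat_lit 78) (nat_lit 0) (nat_lit 0) (XT.lf (nat_lit 76) (nat_lit 669112254) (nat_lit 0) (nat_lit 6794508880) (nat_lit 684) (nat_lit 3096832687) (nat_lit 83) (nat_lit 5) (nat_lit 82) (nat_lit 5) (nat_lit 91) (nat_lit 5) (nat_lit 260) (nat_lit 257) (nat_lit 203)) (XT.nd (nat_lit 78) (nat_lit 0) (nat_lit 76) (XT.lf (nat_lit 76) (nat_lit 5555139794) (nat_lit 0) (nat_lit 2900506618) (nat_lit 684) (nat_lit 2346460806) (nat_lit 83) (nat_lit 5) (nat_lit 82) (nat_lit 5) (nat_lit 91) (nat_lit 5) (nat_lit 261) (nat_lit 257) (nat_lit 202)) (XT.lf (nat_lit 0) (nat_lit 9479557164) (nat_lit 608) (nat_lit 413665594) (nat_lit 684) (nat_lit 1163634639) (nat_lit 83) (nat_lit 5) (nat_lit 91) (nat_lit 5) (nat_lit 92) (nat_lit 5) (nat_lit 262) (nat_lit 257) (nat_lit 201)))))) (XT.nd (nat_lit 312) (nat_lit 836) (nat_lit 0) (XT.nd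 (nat_lit 156) (nat_lit 0) (nat_lit 76) (XT.nd (nat_lit 78) (nat_lit 684) (nat_lit 0) (XT.lf (nat_lit 76) (nat_lit 4741962594) (nat_lit 0) (nat_lit 5899745612) (nat_lit 684) (nat_lit 678406855) (nat_lit 84) (nat_lit 5) (nat_lit 83) (nat_lit 5) (nat_lit 92) (nat_lit 5) (nat_lit 263) (nat_lit 257) (nat_lit 200)) (XT.lf (nat_lit 0) (nat_lit 230141304) (nat_lit 684) (nat_lit 1455124633) (nat_lit 760) (nat_lit 9912513037) (nat_lit 74) (nat_lit 5) (nat_lit 83) (nat_lit 5) (nat_lit 84) (nat_lit 5) (nat_lit 264) (nat_lit 257) (nat_lit 199))) (XT.nd (nat_lit 78) (nat_lit 0) (nat_lit 0) (XT.lf (nat_lit 0) (nat_lit 1235885013) (nat_lit 684) (nat_lit 7913191787) (nat_lit 760) (nat_lit 2736070432) (nat_lit 75) (nat_lit 5) (nat_lit 84) (nat_lit 5) (nat_lit 85) (nat_lit 5) (nat_lit 265) (nat_lit 257) (nat_lit 198)) (XT.lf (nat_lit 0) (nat_lit 2313600150) (nat_lit 684) (nat_lit 2517436516) (nat_lit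 760) (nat_lit 7354863571) (nat_lit 75) (nat_lit 5) (nat_lit 84) (nat_lit 5) (nat_lit 85) (nat_lit 5) (nat_lit 266) (nat_lit 257) (nat_lit 197)))) (XT.nd (nat_lit 156) (nat_lit 912) (nat_lit 0) (XT.nd (nat_lit 78) (nat_lit 0) (nat_lit 76) (XT.lf (nat_lit 76) (nat_lit 3227933257) (nat_lit 0) (nat_lit 238150303) (nat_lit 760) (nat_lit 9034658963) (nat_lit 76) (nat_lit 5) (nat_lit 75) (nat_lit 5) (nat_lit 85) (nat_lit 5) (nat_lit 267) (nat_lit 257) (nat_lit 196)) (XT.lf (nat_lit 0) (nat_lit 4762712899) (nat_lit 684) (nat_lit 3578204792) (nat_lit 76) (nat_lit 4486174343) (nat_lit 76) (nat_lit 5) (nat_lit 85) (nat_lit 5) (nat_lit 77) (nat_lit 5) (nat_lit 268) (nat_lit 257) (nat_lit 195))) (XT.nd (nat_lit 78) (nat_lit 304) (nat_lit 0) (XT.lf (nat_lit 0) (nat_lit 2452180555) (nat_lit 684) (nat_lit 3687148193) (nat_lit 760) (nat_lit 7029759373) (nat_lit 67) (nat_lit 5) (nat_lit 76) (nat_lit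 5) (nat_lit 77) (nat_lit 5) (nat_lit 269) (nat_lit 257) (nat_lit 194)) (XT.nd (nat_lit 78) (nat_lit 304) (nat_lit 0) (XT.lf (nat_lit 0) (nat_lit 7639029645) (nat_lit 760) (nat_lit 4661144873) (nat_lit 76) (nat_lit 1225379504) (nat_lit 67) (nat_lit 5) (nat_lit 77) (nat_lit 5) (nat_lit 68) (nat_lit 5) (nat_lit 270) (nat_lit 257) (nat_lit 193)) (XT.lf (nat_lit 0) (nat_lit 1666897615) (nat_lit 304) (nat_lit 7608466647) (nat_lit 380) (nat_lit 4621475299) (nat_lit 63) (nat_lit 5) (nat_lit 67) (nat_lit 5) (nat_lit 68) (nat_lit 5) (nat_lit 271) (nat_lit 257) (nat_lit 192))))))))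
noncomputable def xc163 : XT := (XT.nd (nat_lit 1326) (nat_lit 1292) (nat_lit 0) (XT.nd (nat_lit 624) (nat_lit 1064) (nat_lit 0) (XT.nd (nat_lit 312) (nat_lit 608) (nat_lit 0) (XT.nd (nat_lit 156) (nat_lit 76) (nat_lit 0) (XT.nd (nat_lit 78) (nat_lit 380) (nat_lit 0) (XT.lf (nat_lit 0) (nat_lit 8450129883) (nat_lit 304) (nat_lit 2598325454) (nat_lit 380) (nat_lit 3235562084) (nat_lit 63) (nat_lit 5) (nat_lit 67) (nat_lit 5) (nat_lit 68) (nat_lit 5) (nat_lit 272) (nat_lit 257) (nat_lit 191)) (XT.lf (nat_lit 0) (nat_lit 844256391) (nat_lit 380) (nat_lit 12097850202) (nat_lit 456) (nat_lit 1746923754) (nat_lit 58) (nat_lit 5) (nat_lit 63) (nat_lit 5) (nat_lit 64) (nat_lit 5) (nat_lit 273) (nat_lit 257) (nat_lit 190))) (XT.nd (nat_lit 78) (nat_lit 76) (nat_lit 0) (XT.lf (nat_lit 0) (nat_lit 7992048349) (nat_lit 380) (nat_lit 7056990166) (nat_lit 456) (nat_lit 59393553) (nat_lit 58) (nat_lit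 5) (nat_lit 63) (nat_lit 5) (nat_lit 64) (nat_lit 5) (nat_lit 274) (nat_lit 257) (nat_lit 189)) (XT.lf (nat_lit 0) (nat_lit 1636236885) (nat_lit 456) (nat_lit 100791773) (nat_lit 76) (nat_lit 13811573345) (nat_lit 57) (nat_lit 5) (nat_lit 63) (nat_lit 5) (nat_lit 58) (nat_lit 5) (nat_lit 275) (nat_lit 257) (nat_lit 188)))) (XT.nd (nat_lit 156) (nat_lit 304) (nat_lit 0) (XT.nd (nat_lit 78) (nat_lit 0) (nat_lit 0) (XT.lf (nat_lit 0) (nat_lit 3573044204) (nat_lit 380) (nat_lit 8585291327) (nat_lit 76) (nat_lit 3844535438) (nat_lit 53) (nat_lit 5) (nat_lit 58) (nat_lit 5) (nat_lit 54) (nat_lit 5) (nat_lit 276) (nat_lit 257) (nat_lit 187)) (XT.lf (nat_lit 0) (nat_lit 5617084525) (nat_lit 380) (nat_lit 1214993981) (nat_lit 76) (nat_lit 9647311233) (nat_lit 53) (nat_lit 5) (nat_lit 58) (nat_lit 5) (nat_lit 54) (nat_lit 5) (nat_lit 277) (nat_lit 257) (nat_lit 186))) (XT.nd (nat_lit 78) (nat_lit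 0) (nat_lit 0) (XT.lf (nat_lit 0) (nat_lit 6717790455) (nat_lit 304) (nat_lit 1131545481) (nat_lit 380) (nat_lit 9126151379) (nat_lit 49) (nat_lit 5) (nat_lit 53) (nat_lit 5) (nat_lit 54) (nat_lit 5) (nat_lit 278) (nat_lit 257) (nat_lit 185)) (XT.lf (nat_lit 0) (nat_lit 10271562174) (nat_lit 380) (nat_lit 2503714994) (nat_lit 76) (nat_lit 4717245272) (nat_lit 49) (nat_lit 5) (nat_lit 54) (nat_lit 5) (nat_lit 50) (nat_lit 5) (nat_lit 279) (nat_lit 257) (nat_lit 184))))) (XT.nd (nat_lit 312) (nat_lit 456) (nat_lit 0) (XT.nd (nat_lit 156) (nat_lit 380) (nat_lit 0) (XT.nd (nat_lit 78) (nat_lit 0) (nat_lit 0) (XT.lf (nat_lit 0) (nat_lit 5783940223) (nat_lit 228) (nat_lit 7122349761) (nat_lit 304) (nat_lit 5124598188) (nat_lit 46) (nat_lit 5) (nat_lit 49) (nat_lit 5) (nat_lit 50) (nat_lit 5) (nat_lit 280) (nat_lit 257) (nat_lit 183)) (XT.lf (nat_lit 0) (nat_lit 14552635734) (nat_lit 228)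 (nat_lit 1145572068) (nat_lit 304) (nat_lit 2896737769) (nat_lit 46) (nat_lit 5) (nat_lit 49) (nat_lit 5) (nat_lit 50) (nat_lit 5) (nat_lit 281) (nat_lit 257) (nat_lit 182))) (XT.nd (nat_lit 78) (nat_lit 76) (nat_lit 0) (XT.lf (nat_lit 0) (nat_lit 4620240000) (nat_lit 304) (nat_lit 14145520484) (nat_lit 380) (nat_lit 414687273) (nat_lit 42) (nat_lit 5) (nat_lit 46) (nat_lit 5) (nat_lit 47) (nat_lit 5) (nat_lit 282) (nat_lit 257) (nat_lit 181)) (XT.lf (nat_lit 0) (nat_lit 2193659371) (nat_lit 380) (nat_lit 6010009799) (nat_lit 76) (nat_lit 11586268216) (nat_lit 41) (nat_lit 5) (nat_lit 46) (nat_lit 5) (nat_lit 42) (nat_lit 5) (nat_lit 283) (nat_lit 257) (nat_lit 180)))) (XT.nd (nat_lit 156) (nat_lit 228) (nat_lit 0) (XT.nd (nat_lit 78) (nat_lit 0) (nat_lit 0) (XT.lf (nat_lit 0) (nat_lit 3038781012) (nat_lit 228) (nat_lit 1911886777) (nat_lit 304) (nat_lit 15477322663) (nat_lit 38) (nat_lit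 5) (nat_lit 41) (nat_lit 5) (nat_lit 42) (nat_lit 5) (nat_lit 284) (nat_lit 257) (nat_lit 179)) (XT.lf (nat_lit 0) (nat_lit 8007371510) (nat_lit 304) (nat_lit 8438932361) (nat_lit 76) (nat_lit 4643586146) (nat_lit 38) (nat_lit 5) (nat_lit 42) (nat_lit 5) (nat_lit 39) (nat_lit 5) (nat_lit 285) (nat_lit 257) (nat_lit 178))) (XT.nd (nat_lit 78) (nat_lit 0) (nat_lit 0) (XT.lf (nat_lit 0) (nat_lit 938725021) (nat_lit 228) (nat_lit 10309993291) (nat_lit 304) (nat_lit 10534610223) (nat_lit 35) (nat_lit 5) (nat_lit 38) (nat_lit 5) (nat_lit 39) (nat_lit 5) (nat_lit 286) (nat_lit 257) (nat_lit 177)) (XT.nd (nat_lit 78) (nat_lit 0) (nat_lit 0) (XT.lf (nat_lit 0) (nat_lit 11059713550) (nat_lit 228) (nat_lit 3721532071) (nat_lit 304) (nat_lit 7723770435) (nat_lit 35) (nat_lit 5) (nat_lit 38) (nat_lit 5) (nat_lit 39) (nat_lit 5) (nat_lit 287) (nat_lit 257) (nat_lit 176)) (XT.lf (nat_lit 0) (nat_lit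 18527086116) (nat_lit 304) (nat_lit 1644208582) (nat_lit 76) (nat_lit 3089690090) (nat_lit 35) (nat_lit 5) (nat_lit 39) (nat_lit 5) (nat_lit 36) (nat_lit 5) (nat_lit 288) (nat_lit 257) (nat_lit 175))))))) (XT.nd (nat_lit 702) (nat_lit 456) (nat_lit 0) (XT.nd (nat_lit 312) (nat_lit 380) (nat_lit 0) (XT.nd (nat_lit 156) (nat_lit 228) (nat_lit 0) (XT.nd (nat_lit 78) (nat_lit 76) (nat_lit 0) (XT.lf (nat_lit 0) (nat_lit 8851847507) (nat_lit 152) (nat_lit 13794994191) (nat_lit 228) (nat_lit 1398608797) (nat_lit 33) (nat_lit 5) (nat_lit 35) (nat_lit 5) (nat_lit 36) (nat_lit 5) (nat_lit 289) (nat_lit 257) (nat_lit 174)) (XT.lf (nat_lit 0) (nat_lit 2051940203) (nat_lit 228) (nat_lit 4988812065) (nat_lit 76) (nat_lit 17825981216) (nat_lit 32) (nat_lit 5) (nat_lit 35) (nat_lit 5) (nat_lit 33) (nat_lit 5) (nat_lit 290) (nat_lit 257) (nat_lit 173))) (XT.nd (nat_lit 78) (nat_lit 0) (nat_lit 0) (XT.lf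 (nat_lit 0) (nat_lit 5710447054) (nat_lit 304) (nat_lit 19851979008) (nat_lit 76) (nat_lit 161412165) (nat_lit 29) (nat_lit 5) (nat_lit 33) (nat_lit 5) (nat_lit 30) (nat_lit 5) (nat_lit 291) (nat_lit 257) (nat_lit 172)) (XT.lf (nat_lit 0) (nat_lit 9741518213) (nat_lit 304) (nat_lit 9304595586) (nat_lit 76) (nat_lit 7568226889) (nat_lit 29) (nat_lit 5) (nat_lit 33) (nat_lit 5) (nat_lit 30) (nat_lit 5) (nat_lit 292) (nat_lit 257) (nat_lit 171)))) (XT.nd (nat_lit 156) (nat_lit 228) (nat_lit 0) (XT.nd (nat_lit 78) (nat_lit 0) (nat_lit 0) (XT.lf (nat_lit 0) (nat_lit 1811981328) (nat_lit 152) (nat_lit 12179350565) (nat_lit 228) (nat_lit 13557200192) (nat_lit 27) (nat_lit 5) (nat_lit 29) (nat_lit 5) (nat_lit 30) (nat_lit 5) (nat_lit 293) (nat_lit 257) (nat_lit 170)) (XT.lf (nat_lit 0) (nat_lit 13791512053) (nat_lit 152) (nat_lit 4808881126) (nat_lit 228) (nat_lit 9921724185) (nat_lit 27) (nat_lit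 5) (nat_lit 29) (nat_lit 5) (nat_lit 30) (nat_lit 5) (nat_lit 294) (nat_lit 257) (nat_lit 169))) (XT.nd (nat_lit 78) (nat_lit 228) (nat_lit 0) (XT.lf (nat_lit 0) (nat_lit 23475273493) (nat_lit 228) (nat_lit 3235722552) (nat_lit 76) (nat_lit 2831638665) (nat_lit 27) (nat_lit 5) (nat_lit 30) (nat_lit 5) (nat_lit 28) (nat_lit 5) (nat_lit 295) (nat_lit 257) (nat_lit 168)) (XT.nd (nat_lit 78) (nat_lit 76) (nat_lit 0) (XT.lf (nat_lit 0) (nat_lit 9029191504) (nat_lit 152) (nat_lit 19774624472) (nat_lit 228) (nat_lit 1799886135) (nat_lit 25) (nat_lit 5) (nat_lit 27) (nat_lit 5) (nat_lit 28) (nat_lit 5) (nat_lit 296) (nat_lit 257) (nat_lit 167)) (XT.lf (nat_lit 0) (nat_lit 2641030837) (nat_lit 228) (nat_lit 9753122763) (nat_lit 76) (nat_lit 19319300859) (nat_lit 24) (nat_lit 5) (nat_lit 27) (nat_lit 5) (nat_lit 25) (nat_lit 5) (nat_lit 297) (nat_lit 257) (nat_lit 166)))))) (XT.nd (nat_lit 312)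 (nat_lit 152) (nat_lit 0) (XT.nd (nat_lit 156) (nat_lit 152) (nat_lit 0) (XT.nd (nat_lit 78) (nat_lit 0) (nat_lit 0) (XT.lf (nat_lit 0) (nat_lit 2702051252) (nat_lit 152) (nat_lit 4574287518) (nat_lit 228) (nat_lit 25599256043) (nat_lit 22) (nat_lit 5) (nat_lit 24) (nat_lit 5) (nat_lit 25) (nat_lit 5) (nat_lit 298) (nat_lit 257) (nat_lit 165)) (XT.lf (nat_lit 0) (nat_lit 12358867125) (nat_lit 228) (nat_lit 18042903736) (nat_lit 76) (nat_lit 3683315107) (nat_lit 22) (nat_lit 5) (nat_lit 25) (nat_lit 5) (nat_lit 23) (nat_lit 5) (nat_lit 299) (nat_lit 257) (nat_lit 164))) (XT.nd (nat_lit 78) (nat_lit 152) (nat_lit 0) (XT.lf (nat_lit 0) (nat_lit 17761744812) (nat_lit 228) (nat_lit 5394459063) (nat_lit 76) (nat_lit 12195552404) (nat_lit 22) (nat_lit 5) (nat_lit 25) (nat_lit 5) (nat_lit 23) (nat_lit 5) (nat_lit 300) (nat_lit 257) (nat_lit 163)) (XT.lf (nat_lit 0) (nat_lit 8133650872) (nat_lit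 152) (nat_lit 15419756592) (nat_lit 228) (nat_lit 13122435585) (nat_lit 20) (nat_lit 5) (nat_lit 22) (nat_lit 5) (nat_lit 23) (nat_lit 5) (nat_lit 301) (nat_lit 257) (nat_lit 162)))) (XT.nd (nat_lit 156) (nat_lit 152) (nat_lit 0) (XT.nd (nat_lit 78) (nat_lit 0) (nat_lit 0) (XT.lf (nat_lit 0) (nat_lit 22512576189) (nat_lit 152) (nat_lit 7205283360) (nat_lit 228) (nat_lit 8344128575) (nat_lit 20) (nat_lit 5) (nat_lit 22) (nat_lit 5) (nat_lit 23) (nat_lit 5) (nat_lit 302) (nat_lit 257) (nat_lit 161)) (XT.lf (nat_lit 0) (nat_lit 36204869547) (nat_lit 228) (nat_lit 1941753590) (nat_lit 76) (nat_lit 1370114153) (nat_lit 20) (nat_lit 5) (nat_lit 23) (nat_lit 5) (nat_lit 21) (nat_lit 4) (nat_lit 303) (nat_lit 257) (nat_lit 160))) (XT.nd (nat_lit 78) (nat_lit 0) (nat_lit 0) (XT.lf (nat_lit 0) (nat_lit 2221615239) (nat_lit 152) (nat_lit 28444586914) (nat_lit 76) (nat_lit 10360858390) (nat_lit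 18) (nat_lit 5) (nat_lit 20) (nat_lit 5) (nat_lit 19) (nat_lit 5) (nat_lit 304) (nat_lit 257) (nat_lit 159)) (XT.nd (nat_lit 78) (nat_lit 0) (nat_lit 0) (XT.lf (nat_lit 0) (nat_lit 7946474632) (nat_lit 152) (nat_lit 14777818374) (nat_lit 76) (nat_lit 19884603920) (nat_lit 18) (nat_lit 5) (nat_lit 20) (nat_lit 5) (nat_lit 19) (nat_lit 5) (nat_lit 305) (nat_lit 257) (nat_lit 158)) (XT.lf (nat_lit 0) (nat_lit 13950509477) (nat_lit 152) (nat_lit 439193453) (nat_lit 76) (nat_lit 29880486764) (nat_lit 18) (nat_lit 5) (nat_lit 20) (nat_lit 5) (nat_lit 19) (nat_lit 5) (nat_lit 306) (nat_lit 257) (nat_lit 157))))))))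
noncomputable def xc164 : XT := (XT.nd (nat_lit 1326) (nat_lit 304) (nat_lit 0) (XT.nd (nat_lit 624) (nat_lit 228) (nat_lit 0) (XT.nd (nat_lit 312) (nat_lit 228) (nat_lit 0) (XT.nd (nat_lit 156) (nat_lit 76) (nat_lit 0) (XT.nd (nat_lit 78) (nat_lit 0) (nat_lit 0) (XT.lf (nat_lit 0) (nat_lit 15088348823) (nat_lit 152) (nat_lit 5395237684) (nat_lit 228) (nat_lit 25519529230) (nat_lit 16) (nat_lit 5) (nat_lit 18) (nat_lit 5) (nat_lit 19) (nat_lit 5) (nat_lit 307) (nat_lit 257) (nat_lit 156)) (XT.lf (nat_lit 0) (nat_lit 27407449053) (nat_lit 228) (nat_lit 16489170276) (nat_lit 76) (nat_lit 3922872318) (nat_lit 16) (nat_lit 5) (nat_lit 19) (nat_lit 5) (nat_lit 17) (nat_lit 4) (nat_lit 308) (nat_lit 257) (nat_lit 155))) (XT.nd (nat_lit 78) (nat_lit 76) (nat_lit 0) (XT.lf (nat_lit 0) (nat_lit 34759623920) (nat_lit 228) (nat_lit 1441247668) (nat_lit 76) (nat_lit 13521718473) (nat_lit 16) (nat_lit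 5) (nat_lit 19) (nat_lit 5) (nat_lit 17) (nat_lit 4) (nat_lit 309) (nat_lit 257) (nat_lit 154)) (XT.lf (nat_lit 0) (nat_lit 14823508939) (nat_lit 76) (nat_lit 27881309083) (nat_lit 152) (nat_lit 9004764054) (nat_lit 15) (nat_lit 5) (nat_lit 16) (nat_lit 5) (nat_lit 17) (nat_lit 4) (nat_lit 310) (nat_lit 257) (nat_lit 153)))) (XT.nd (nat_lit 156) (nat_lit 152) (nat_lit 0) (XT.nd (nat_lit 78) (nat_lit 76) (nat_lit 0) (XT.lf (nat_lit 0) (nat_lit 31941694654) (nat_lit 76) (nat_lit 19124092615) (nat_lit 152) (nat_lit 2729219420) (nat_lit 15) (nat_lit 5) (nat_lit 16) (nat_lit 5) (nat_lit 17) (nat_lit 4) (nat_lit 311) (nat_lit 257) (nat_lit 152)) (XT.lf (nat_lit 0) (nat_lit 3730842795) (nat_lit 152) (nat_lit 6138753472) (nat_lit 76) (nat_lit 46112386480) (nat_lit 14) (nat_lit 5) (nat_lit 16) (nat_lit 5) (nat_lit 15) (nat_lit 5) (nat_lit 312) (nat_lit 257) (nat_lit 151))) (XT.nd (nat_lit 78)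 (nat_lit 0) (nat_lit 0) (XT.lf (nat_lit 0) (nat_lit 10584023509) (nat_lit 228) (nat_lit 47620567715) (nat_lit 76) (nat_lit 63395141) (nat_lit 12) (nat_lit 5) (nat_lit 15) (nat_lit 5) (nat_lit 13) (nat_lit 4) (nat_lit 313) (nat_lit 257) (nat_lit 150)) (XT.lf (nat_lit 0) (nat_lit 18041948760) (nat_lit 228) (nat_lit 32349756886) (nat_lit 76) (nat_lit 10263487456) (nat_lit 12) (nat_lit 5) (nat_lit 15) (nat_lit 5) (nat_lit 13) (nat_lit 4) (nat_lit 314) (nat_lit 257) (nat_lit 149))))) (XT.nd (nat_lit 312) (nat_lit 152) (nat_lit 0) (XT.nd (nat_lit 156) (nat_lit 0) (nat_lit 0) (XT.nd (nat_lit 78) (nat_lit 76) (nat_lit 0) (XT.lf (nat_lit 0) (nat_lit 25867648152) (nat_lit 228) (nat_lit 16324154974) (nat_lit 76) (nat_lit 20970220025) (nat_lit 12) (nat_lit 5) (nat_lit 15) (nat_lit 5) (nat_lit 13) (nat_lit 4) (nat_lit 315) (nat_lit 257) (nat_lit 148)) (XT.lf (nat_lit 0) (nat_lit 510741120) (nat_lit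 76) (nat_lit 33576987284) (nat_lit 152) (nat_lit 31706318048) (nat_lit 11) (nat_lit 5) (nat_lit 12) (nat_lit 5) (nat_lit 13) (nat_lit 4) (nat_lit 316) (nat_lit 257) (nat_lit 147))) (XT.nd (nat_lit 78) (nat_lit 0) (nat_lit 0) (XT.lf (nat_lit 0) (nat_lit 18745921402) (nat_lit 76) (nat_lit 24244574816) (nat_lit 152) (nat_lit 25553596753) (nat_lit 11) (nat_lit 5) (nat_lit 12) (nat_lit 5) (nat_lit 13) (nat_lit 4) (nat_lit 317) (nat_lit 257) (nat_lit 146)) (XT.lf (nat_lit 0) (nat_lit 37885052681) (nat_lit 76) (nat_lit 14448803154) (nat_lit 152) (nat_lit 19098019244) (nat_lit 11) (nat_lit 5) (nat_lit 12) (nat_lit 5) (nat_lit 13) (nat_lit 4) (nat_lit 318) (nat_lit 257) (nat_lit 145)))) (XT.nd (nat_lit 156) (nat_lit 76) (nat_lit 0) (XT.nd (nat_lit 78) (nat_lit 76) (nat_lit 0) (XT.lf (nat_lit 0) (nat_lit 57973704318) (nat_lit 76) (nat_lit 4166349035) (nat_lit 152) (nat_lit 12324215096) (nat_lit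 11) (nat_lit 5) (nat_lit 12) (nat_lit 5) (nat_lit 13) (nat_lit 4) (nat_lit 319) (nat_lit 257) (nat_lit 144)) (XT.lf (nat_lit 0) (nat_lit 1350983012) (nat_lit 76) (nat_lit 71206016731) (nat_lit 76) (nat_lit 5085265179) (nat_lit 10) (nat_lit 4) (nat_lit 11) (nat_lit 5) (nat_lit 11) (nat_lit 4) (nat_lit 320) (nat_lit 257) (nat_lit 143))) (XT.nd (nat_lit 78) (nat_lit 0) (nat_lit 0) (XT.lf (nat_lit 0) (nat_lit 2783116347) (nat_lit 152) (nat_lit 60427502786) (nat_lit 76) (nat_lit 17749183160) (nat_lit 9) (nat_lit 5) (nat_lit 11) (nat_lit 5) (nat_lit 10) (nat_lit 4) (nat_lit 321) (nat_lit 257) (nat_lit 142)) (XT.nd (nat_lit 78) (nat_lit 0) (nat_lit 0) (XT.lf (nat_lit 0) (nat_lit 10870061817) (nat_lit 152) (nat_lit 43860826236) (nat_lit 76) (nat_lit 29708362723) (nat_lit 9) (nat_lit 5) (nat_lit 11) (nat_lit 5) (nat_lit 10) (nat_lit 4) (nat_lit 322) (nat_lit 257) (nat_lit 141)) (XT.lf (nat_lit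 0) (nat_lit 19357586106) (nat_lit 152) (nat_lit 26472412551) (nat_lit 76) (nat_lit 42262865878) (nat_lit 9) (nat_lit 5) (nat_lit 11) (nat_lit 5) (nat_lit 10) (nat_lit 4) (nat_lit 323) (nat_lit 257) (nat_lit 140))))))) (XT.nd (nat_lit 702) (nat_lit 152) (nat_lit 0) (XT.nd (nat_lit 312) (nat_lit 76) (nat_lit 0) (XT.nd (nat_lit 156) (nat_lit 0) (nat_lit 0) (XT.nd (nat_lit 78) (nat_lit 76) (nat_lit 0) (XT.lf (nat_lit 0) (nat_lit 28265897606) (nat_lit 152) (nat_lit 8220860746) (nat_lit 76) (nat_lit 55442584297) (nat_lit 9) (nat_lit 5) (nat_lit 11) (nat_lit 5) (nat_lit 10) (nat_lit 4) (nat_lit 324) (nat_lit 257) (nat_lit 139)) (XT.lf (nat_lit 0) (nat_lit 11298921299) (nat_lit 76) (nat_lit 26493693110) (nat_lit 152) (nat_lit 58156384791) (nat_lit 8) (nat_lit 5) (nat_lit 9) (nat_lit 5) (nat_lit 10) (nat_lit 4) (nat_lit 325) (nat_lit 257) (nat_lit 138))) (XT.nd (nat_lit 78) (nat_lit 0) (nat_lit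 0) (XT.lf (nat_lit 0) (nat_lit 32074215280) (nat_lit 76) (nat_lit 15857328783) (nat_lit 152) (nat_lit 52231304490) (nat_lit 8) (nat_lit 5) (nat_lit 9) (nat_lit 5) (nat_lit 10) (nat_lit 4) (nat_lit 326) (nat_lit 257) (nat_lit 137)) (XT.lf (nat_lit 0) (nat_lit 53882667401) (nat_lit 76) (nat_lit 4691564948) (nat_lit 152) (nat_lit 46013321060) (nat_lit 8) (nat_lit 5) (nat_lit 9) (nat_lit 5) (nat_lit 10) (nat_lit 4) (nat_lit 327) (nat_lit 257) (nat_lit 136)))) (XT.nd (nat_lit 156) (nat_lit 76) (nat_lit 0) (XT.nd (nat_lit 78) (nat_lit 0) (nat_lit 0) (XT.lf (nat_lit 0) (nat_lit 69855779869) (nat_lit 152) (nat_lit 32567207102) (nat_lit 0) (nat_lit 6805173766) (nat_lit 8) (nat_lit 5) (nat_lit 10) (nat_lit 4) (nat_lit 8) (nat_lit 4) (nat_lit 328) (nat_lit 257) (nat_lit 135)) (XT.lf (nat_lit 0) (nat_lit 81775389938) (nat_lit 152) (nat_lit 13604754092) (nat_lit 0) (nat_lit 18716958447) (nat_lit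 8) (nat_lit 5) (nat_lit 10) (nat_lit 4) (nat_lit 8) (nat_lit 4) (nat_lit 329) (nat_lit 257) (nat_lit 134))) (XT.nd (nat_lit 78) (nat_lit 0) (nat_lit 0) (XT.lf (nat_lit 0) (nat_lit 6509205418) (nat_lit 76) (nat_lit 87880615625) (nat_lit 76) (nat_lit 24814731382) (nat_lit 7) (nat_lit 4) (nat_lit 8) (nat_lit 5) (nat_lit 8) (nat_lit 4) (nat_lit 330) (nat_lit 257) (nat_lit 133)) (XT.nd (nat_lit 78) (nat_lit 0) (nat_lit 0) (XT.lf (nat_lit 0) (nat_lit 28096317735) (nat_lit 76) (nat_lit 79766329284) (nat_lit 76) (nat_lit 16693347182) (nat_lit 7) (nat_lit 4) (nat_lit 8) (nat_lit 5) (nat_lit 8) (nat_lit 4) (nat_lit 331) (nat_lit 257) (nat_lit 132)) (XT.lf (nat_lit 0) (nat_lit 50758146132) (nat_lit 76) (nat_lit 71248368373) (nat_lit 76) (nat_lit 8168626406) (nat_lit 7) (nat_lit 4) (nat_lit 8) (nat_lit 5) (nat_lit 8) (nat_lit 4) (nat_lit 332) (nat_lit 257) (nat_lit 131)))))) (XT.nd (nat_lit 312)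 (nat_lit 76) (nat_lit 0) (XT.nd (nat_lit 156) (nat_lit 0) (nat_lit 0) (XT.nd (nat_lit 78) (nat_lit 0) (nat_lit 0) (XT.lf (nat_lit 0) (nat_lit 754771739) (nat_lit 152) (nat_lit 61538897868) (nat_lit 76) (nat_lit 73781093180) (nat_lit 6) (nat_lit 5) (nat_lit 8) (nat_lit 5) (nat_lit 7) (nat_lit 4) (nat_lit 333) (nat_lit 257) (nat_lit 130)) (XT.lf (nat_lit 0) (nat_lit 9847421131) (nat_lit 152) (nat_lit 42905098011) (nat_lit 76) (nat_lit 89510273448) (nat_lit 6) (nat_lit 5) (nat_lit 8) (nat_lit 5) (nat_lit 7) (nat_lit 4) (nat_lit 334) (nat_lit 257) (nat_lit 129))) (XT.nd (nat_lit 78) (nat_lit 0) (nat_lit 0) (XT.lf (nat_lit 0) (nat_lit 19392417995) (nat_lit 152) (nat_lit 23343693866) (nat_lit 76) (nat_lit 106024228620) (nat_lit 6) (nat_lit 5) (nat_lit 8) (nat_lit 5) (nat_lit 7) (nat_lit 4) (nat_lit 335) (nat_lit 257) (nat_lit 128)) (XT.lf (nat_lit 0) (nat_lit 29412488512) (nat_lit 152) (nat_lit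 2808110663) (nat_lit 76) (nat_lit 123362277638) (nat_lit 6) (nat_lit 5) (nat_lit 8) (nat_lit 5) (nat_lit 7) (nat_lit 4) (nat_lit 336) (nat_lit 257) (nat_lit 127)))) (XT.nd (nat_lit 156) (nat_lit 0) (nat_lit 0) (XT.nd (nat_lit 78) (nat_lit 0) (nat_lit 0) (XT.lf (nat_lit 0) (nat_lit 19370523568) (nat_lit 76) (nat_lit 20863394585) (nat_lit 152) (nat_lit 122497606160) (nat_lit 5) (nat_lit 5) (nat_lit 6) (nat_lit 5) (nat_lit 7) (nat_lit 4) (nat_lit 337) (nat_lit 257) (nat_lit 126)) (XT.lf (nat_lit 0) (nat_lit 42751934690) (nat_lit 76) (nat_lit 8890010505) (nat_lit 152) (nat_lit 118593384724) (nat_lit 5) (nat_lit 5) (nat_lit 6) (nat_lit 5) (nat_lit 7) (nat_lit 4) (nat_lit 338) (nat_lit 257) (nat_lit 125))) (XT.nd (nat_lit 78) (nat_lit 0) (nat_lit 0) (XT.lf (nat_lit 0) (nat_lit 63675902491) (nat_lit 152) (nat_lit 110872943524) (nat_lit 0) (nat_lit 3562705279) (nat_lit 5) (nat_lit 5) (nat_lit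 7) (nat_lit 4) (nat_lit 5) (nat_lit 4) (nat_lit 339) (nat_lit 257) (nat_lit 124)) (XT.nd (nat_lit 78) (nat_lit 0) (nat_lit 0) (XT.lf (nat_lit 0) (nat_lit 76455430663) (nat_lit 152) (nat_lit 93581085281) (nat_lit 0) (nat_lit 16337875982) (nat_lit 5) (nat_lit 5) (nat_lit 7) (nat_lit 4) (nat_lit 5) (nat_lit 4) (nat_lit 340) (nat_lit 257) (nat_lit 123)) (XT.lf (nat_lit 0) (nat_lit 89872159183) (nat_lit 152) (nat_lit 75427851431) (nat_lit 0) (nat_lit 29750454531) (nat_lit 5) (nat_lit 5) (nat_lit 7) (nat_lit 4) (nat_lit 5) (nat_lit 4) (nat_lit 341) (nat_lit 257) (nat_lit 122))))))))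
noncomputable def xc165 : XT := (XT.nd (nat_lit 31044) (nat_lit 0) (nat_lit 3800) (XT.nd (nat_lit 624) (nat_lit 76) (nat_lit 0) (XT.nd (nat_lit 312) (nat_lit 0) (nat_lit 0) (XT.nd (nat_lit 156) (nat_lit 76) (nat_lit 0) (XT.nd (nat_lit 78) (nat_lit 0) (nat_lit 0) (XT.lf (nat_lit 0) (nat_lit 103958032643) (nat_lit 152) (nat_lit 56370019989) (nat_lit 0) (nat_lit 43832375637) (nat_lit 5) (nat_lit 5) (nat_lit 7) (nat_lit 4) (nat_lit 5) (nat_lit 4) (nat_lit 342) (nat_lit 257) (nat_lit 121)) (XT.lf (nat_lit 0) (nat_lit 118746588836) (nat_lit 152) (nat_lit 36362215165) (nat_lit 0) (nat_lit 58617167684) (nat_lit 5) (nat_lit 5) (nat_lit 7) (nat_lit 4) (nat_lit 5) (nat_lit 4) (nat_lit 343) (nat_lit 257) (nat_lit 120))) (XT.nd (nat_lit 78) (nat_lit 76) (nat_lit 0) (XT.lf (nat_lit 0) (nat_lit 134273038610) (nat_lit 152) (nat_lit 15356799330) (nat_lit 0) (nat_lit 74140032558) (nat_lit 5) (nat_lit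 5) (nat_lit 7) (nat_lit 4) (nat_lit 5) (nat_lit 4) (nat_lit 344) (nat_lit 257) (nat_lit 119)) (XT.lf (nat_lit 0) (nat_lit 6917648360) (nat_lit 76) (nat_lit 143764705220) (nat_lit 76) (nat_lit 83628284976) (nat_lit 4) (nat_lit 4) (nat_lit 5) (nat_lit 5) (nat_lit 5) (nat_lit 4) (nat_lit 345) (nat_lit 257) (nat_lit 118)))) (XT.nd (nat_lit 156) (nat_lit 0) (nat_lit 0) (XT.nd (nat_lit 78) (nat_lit 0) (nat_lit 0) (XT.lf (nat_lit 0) (nat_lit 30836367639) (nat_lit 76) (nat_lit 137334409240) (nat_lit 76) (nat_lit 77194737385) (nat_lit 4) (nat_lit 4) (nat_lit 5) (nat_lit 5) (nat_lit 5) (nat_lit 4) (nat_lit 346) (nat_lit 257) (nat_lit 117)) (XT.lf (nat_lit 0) (nat_lit 55948542698) (nat_lit 76) (nat_lit 130583714597) (nat_lit 76) (nat_lit 70440945971) (nat_lit 4) (nat_lit 4) (nat_lit 5) (nat_lit 5) (nat_lit 5) (nat_lit 4) (nat_lit 347) (nat_lit 257) (nat_lit 116))) (XT.nd (nat_lit 78) (nat_lit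 0) (nat_lit 0) (XT.lf (nat_lit 0) (nat_lit 82313964429) (nat_lit 76) (nat_lit 123496548211) (nat_lit 76) (nat_lit 63350830277) (nat_lit 4) (nat_lit 4) (nat_lit 5) (nat_lit 5) (nat_lit 5) (nat_lit 4) (nat_lit 348) (nat_lit 257) (nat_lit 115)) (XT.lf (nat_lit 0) (nat_lit 109995407647) (nat_lit 76) (nat_lit 116056035875) (nat_lit 76) (nat_lit 55907509078) (nat_lit 4) (nat_lit 4) (nat_lit 5) (nat_lit 5) (nat_lit 5) (nat_lit 4) (nat_lit 349) (nat_lit 257) (nat_lit 114))))) (XT.nd (nat_lit 312) (nat_lit 76) (nat_lit 0) (XT.nd (nat_lit 156) (nat_lit 0) (nat_lit 0) (XT.nd (nat_lit 78) (nat_lit 0) (nat_lit 0) (XT.lf (nat_lit 0) (nat_lit 139058780550) (nat_lit 76) (nat_lit 108244462084) (nat_lit 76) (nat_lit 48093260178) (nat_lit 4) (nat_lit 4) (nat_lit 5) (nat_lit 5) (nat_lit 5) (nat_lit 4) (nat_lit 350) (nat_lit 257) (nat_lit 113)) (XT.lf (nat_lit 0) (nat_lit 169573281644) (nat_lit 76) (nat_lit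 100043227852) (nat_lit 76) (nat_lit 39889478225) (nat_lit 4) (nat_lit 4) (nat_lit 5) (nat_lit 5) (nat_lit 5) (nat_lit 4) (nat_lit 351) (nat_lit 257) (nat_lit 112))) (XT.nd (nat_lit 78) (nat_lit 0) (nat_lit 0) (XT.lf (nat_lit 0) (nat_lit 201611564504) (nat_lit 76) (nat_lit 91432806432) (nat_lit 76) (nat_lit 31276630402) (nat_lit 4) (nat_lit 4) (nat_lit 5) (nat_lit 5) (nat_lit 5) (nat_lit 4) (nat_lit 352) (nat_lit 257) (nat_lit 111)) (XT.lf (nat_lit 0) (nat_lit 235249910755) (nat_lit 76) (nat_lit 82392696820) (nat_lit 76) (nat_lit 22234209931) (nat_lit 4) (nat_lit 4) (nat_lit 5) (nat_lit 5) (nat_lit 5) (nat_lit 4) (nat_lit 353) (nat_lit 257) (nat_lit 110)))) (XT.nd (nat_lit 156) (nat_lit 76) (nat_lit 0) (XT.nd (nat_lit 78) (nat_lit 0) (nat_lit 0) (XT.lf (nat_lit 0) (nat_lit 270568411698) (nat_lit 76) (nat_lit 72901374945) (nat_lit 76) (nat_lit 12740687238) (nat_lit 4) (nat_lit 4) (nat_lit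 5) (nat_lit 5) (nat_lit 5) (nat_lit 4) (nat_lit 354) (nat_lit 257) (nat_lit 109)) (XT.lf (nat_lit 0) (nat_lit 307651159002) (nat_lit 76) (nat_lit 62936242422) (nat_lit 76) (nat_lit 2773458698) (nat_lit 4) (nat_lit 4) (nat_lit 5) (nat_lit 5) (nat_lit 5) (nat_lit 4) (nat_lit 355) (nat_lit 257) (nat_lit 108))) (XT.nd (nat_lit 78) (nat_lit 0) (nat_lit 0) (XT.lf (nat_lit 0) (nat_lit 7445040523) (nat_lit 152) (nat_lit 44902446858) (nat_lit 76) (nat_lit 339015319035) (nat_lit 3) (nat_lit 5) (nat_lit 5) (nat_lit 5) (nat_lit 4) (nat_lit 4) (nat_lit 356) (nat_lit 257) (nat_lit 107)) (XT.nd (nat_lit 29796) (nat_lit 0) (nat_lit 5928) (XT.lf (nat_lit 0) (nat_lit 18080406395) (nat_lit 152) (nat_lit 23101847970) (nat_lit 76) (nat_lit 369080365695) (nat_lit 3) (nat_lit 5) (nat_lit 5) (nat_lit 5) (nat_lit 4) (nat_lit 4) (nat_lit 357) (nat_lit 257) (nat_lit 106)) (XT.lf (nat_lit 0) (nat_lit 3214193760)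 (nat_lit 684) (nat_lit 973483575) (nat_lit 684) (nat_lit 973483575) (nat_lit 81) (nat_lit 3) (nat_lit 90) (nat_lit 3) (nat_lit 90) (nat_lit 5) (nat_lit 258) (nat_lit 258) (nat_lit 204))))))) (XT.nd (nat_lit 702) (nat_lit 1596) (nat_lit 0) (XT.nd (nat_lit 312) (nat_lit 532) (nat_lit 0) (XT.nd (nat_lit 156) (nat_lit 0) (nat_lit 76) (XT.nd (nat_lit 78) (nat_lit 0) (nat_lit 0) (XT.lf (nat_lit 76) (nat_lit 2592347953) (nat_lit 0) (nat_lit 4629154829) (nat_lit 684) (nat_lit 3325151899) (nat_lit 82) (nat_lit 5) (nat_lit 81) (nat_lit 3) (nat_lit 90) (nat_lit 5) (nat_lit 259) (nat_lit 258) (nat_lit 203)) (XT.lf (nat_lit 76) (nat_lit 7405602984) (nat_lit 0) (nat_lit 643430690) (nat_lit 684) (nat_lit 2733567255) (nat_lit 82) (nat_lit 5) (nat_lit 81) (nat_lit 3) (nat_lit 90) (nat_lit 5) (nat_lit 260) (nat_lit 258) (nat_lit 202))) (XT.nd (nat_lit 78) (nat_lit 0) (nat_lit 0) (XT.lf (nat_lit 76) (nat_lit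 1396738855) (nat_lit 0) (nat_lit 7562171542) (nat_lit 684) (nat_lit 2069513953) (nat_lit 83) (nat_lit 5) (nat_lit 82) (nat_lit 5) (nat_lit 91) (nat_lit 5) (nat_lit 261) (nat_lit 258) (nat_lit 201)) (XT.lf (nat_lit 76) (nat_lit 6494012009) (nat_lit 0) (nat_lit 3453091204) (nat_lit 684) (nat_lit 1337916829) (nat_lit 83) (nat_lit 5) (nat_lit 82) (nat_lit 5) (nat_lit 91) (nat_lit 5) (nat_lit 262) (nat_lit 258) (nat_lit 200)))) (XT.nd (nat_lit 156) (nat_lit 0) (nat_lit 0) (XT.nd (nat_lit 78) (nat_lit 684) (nat_lit 0) (XT.lf (nat_lit 76) (nat_lit 264272254) (nat_lit 0) (nat_lit 10705113883) (nat_lit 684) (nat_lit 585941753) (nat_lit 84) (nat_lit 5) (nat_lit 83) (nat_lit 5) (nat_lit 92) (nat_lit 5) (nat_lit 263) (nat_lit 258) (nat_lit 199)) (XT.lf (nat_lit 0) (nat_lit 303890892) (nat_lit 684) (nat_lit 6180813631) (nat_lit 760) (nat_lit 5349054400) (nat_lit 74) (nat_lit 5) (nat_lit 83) (nat_lit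 5) (nat_lit 84) (nat_lit 5) (nat_lit 264) (nat_lit 258) (nat_lit 198))) (XT.nd (nat_lit 78) (nat_lit 0) (nat_lit 76) (XT.lf (nat_lit 0) (nat_lit 1187761866) (nat_lit 684) (nat_lit 846809402) (nat_lit 760) (nat_lit 10092698597) (nat_lit 74) (nat_lit 5) (nat_lit 83) (nat_lit 5) (nat_lit 84) (nat_lit 5) (nat_lit 265) (nat_lit 258) (nat_lit 197)) (XT.nd (nat_lit 78) (nat_lit 0) (nat_lit 0) (XT.lf (nat_lit 0) (nat_lit 2205432172) (nat_lit 684) (nat_lit 7586474198) (nat_lit 760) (nat_lit 2639165451) (nat_lit 75) (nat_lit 5) (nat_lit 84) (nat_lit 5) (nat_lit 85) (nat_lit 5) (nat_lit 266) (nat_lit 258) (nat_lit 196)) (XT.lf (nat_lit 0) (nat_lit 3293806737) (nat_lit 684) (nat_lit 1955330076) (nat_lit 760) (nat_lit 7500027223) (nat_lit 75) (nat_lit 5) (nat_lit 84) (nat_lit 5) (nat_lit 85) (nat_lit 5) (nat_lit 267) (nat_lit 258) (nat_lit 195)))))) (XT.nd (nat_lit 312) (nat_lit 1064) (nat_lit 0)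 (XT.nd (nat_lit 156) (nat_lit 608) (nat_lit 0) (XT.nd (nat_lit 78) (nat_lit 0) (nat_lit 76) (XT.lf (nat_lit 76) (nat_lit 4066211762) (nat_lit 0) (nat_lit 407102646) (nat_lit 760) (nat_lit 8608097590) (nat_lit 76) (nat_lit 5) (nat_lit 75) (nat_lit 5) (nat_lit 85) (nat_lit 5) (nat_lit 268) (nat_lit 258) (nat_lit 194)) (XT.lf (nat_lit 0) (nat_lit 5792729267) (nat_lit 684) (nat_lit 3067875600) (nat_lit 76) (nat_lit 4565703619) (nat_lit 76) (nat_lit 5) (nat_lit 85) (nat_lit 5) (nat_lit 77) (nat_lit 5) (nat_lit 269) (nat_lit 258) (nat_lit 193))) (XT.nd (nat_lit 78) (nat_lit 0) (nat_lit 0) (XT.lf (nat_lit 0) (nat_lit 3252912249) (nat_lit 684) (nat_lit 3958142450) (nat_lit 760) (nat_lit 6575826890) (nat_lit 67) (nat_lit 5) (nat_lit 76) (nat_lit 5) (nat_lit 77) (nat_lit 5) (nat_lit 270) (nat_lit 258) (nat_lit 192)) (XT.lf (nat_lit 0) (nat_lit 8748035288) (nat_lit 760) (nat_lit 4208358069) (nat_lit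 76) (nat_lit 1206778072) (nat_lit 67) (nat_lit 5) (nat_lit 77) (nat_lit 5) (nat_lit 68) (nat_lit 5) (nat_lit 271) (nat_lit 258) (nat_lit 191)))) (XT.nd (nat_lit 156) (nat_lit 760) (nat_lit 0) (XT.nd (nat_lit 78) (nat_lit 0) (nat_lit 0) (XT.lf (nat_lit 0) (nat_lit 2425024542) (nat_lit 304) (nat_lit 8017075707) (nat_lit 380) (nat_lit 4112235202) (nat_lit 63) (nat_lit 5) (nat_lit 67) (nat_lit 5) (nat_lit 68) (nat_lit 5) (nat_lit 272) (nat_lit 258) (nat_lit 190)) (XT.lf (nat_lit 0) (nat_lit 9515285944) (nat_lit 304) (nat_lit 2755085276) (nat_lit 380) (nat_lit 2692279368) (nat_lit 63) (nat_lit 5) (nat_lit 67) (nat_lit 5) (nat_lit 68) (nat_lit 5) (nat_lit 273) (nat_lit 258) (nat_lit 189))) (XT.nd (nat_lit 78) (nat_lit 380) (nat_lit 0) (XT.lf (nat_lit 0) (nat_lit 1554159836) (nat_lit 380) (nat_lit 12682689954) (nat_lit 456) (nat_lit 1152256802) (nat_lit 58) (nat_lit 5) (nat_lit 63) (nat_lit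 5) (nat_lit 64) (nat_lit 5) (nat_lit 274) (nat_lit 258) (nat_lit 188)) (XT.nd (nat_lit 78) (nat_lit 304) (nat_lit 0) (XT.lf (nat_lit 0) (nat_lit 568379887) (nat_lit 456) (nat_lit 6812736135) (nat_lit 76) (nat_lit 8449540925) (nat_lit 57) (nat_lit 5) (nat_lit 63) (nat_lit 5) (nat_lit 58) (nat_lit 5) (nat_lit 275) (nat_lit 258) (nat_lit 187)) (XT.lf (nat_lit 0) (nat_lit 538541624) (nat_lit 304) (nat_lit 1786722016) (nat_lit 380) (nat_lit 13968685762) (nat_lit 53) (nat_lit 5) (nat_lit 57) (nat_lit 5) (nat_lit 58) (nat_lit 5) (nat_lit 276) (nat_lit 258) (nat_lit 186))))))))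
noncomputable def xc166 : XT := (XT.nd (nat_lit 1326) (nat_lit 1064) (nat_lit 0) (XT.nd (nat_lit 624) (nat_lit 912) (nat_lit 0) (XT.nd (nat_lit 312) (nat_lit 608) (nat_lit 0) (XT.nd (nat_lit 156) (nat_lit 304) (nat_lit 0) (XT.nd (nat_lit 78) (nat_lit 0) (nat_lit 0) (XT.lf (nat_lit 0) (nat_lit 4332201169) (nat_lit 380) (nat_lit 8367477633) (nat_lit 76) (nat_lit 4072670520) (nat_lit 53) (nat_lit 5) (nat_lit 58) (nat_lit 5) (nat_lit 54) (nat_lit 5) (nat_lit 277) (nat_lit 258) (nat_lit 185)) (XT.lf (nat_lit 0) (nat_lit 6450800423) (nat_lit 380) (nat_lit 659478671) (nat_lit 76) (nat_lit 10163875185) (nat_lit 53) (nat_lit 5) (nat_lit 58) (nat_lit 5) (nat_lit 54) (nat_lit 5) (nat_lit 278) (nat_lit 258) (nat_lit 184))) (XT.nd (nat_lit 78) (nat_lit 0) (nat_lit 0) (XT.lf (nat_lit 0) (nat_lit 7660005229) (nat_lit 304) (nat_lit 1117798865) (nat_lit 380) (nat_lit 9018170029) (nat_lit 49) (nat_lit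 5) (nat_lit 53) (nat_lit 5) (nat_lit 54) (nat_lit 5) (nat_lit 279) (nat_lit 258) (nat_lit 183)) (XT.lf (nat_lit 0) (nat_lit 11296663439) (nat_lit 380) (nat_lit 2025553262) (nat_lit 76) (nat_lit 5017939046) (nat_lit 49) (nat_lit 5) (nat_lit 54) (nat_lit 5) (nat_lit 50) (nat_lit 5) (nat_lit 280) (nat_lit 258) (nat_lit 182)))) (XT.nd (nat_lit 156) (nat_lit 380) (nat_lit 0) (XT.nd (nat_lit 78) (nat_lit 0) (nat_lit 0) (XT.lf (nat_lit 0) (nat_lit 6666753305) (nat_lit 228) (nat_lit 7381284100) (nat_lit 304) (nat_lit 4858224333) (nat_lit 46) (nat_lit 5) (nat_lit 49) (nat_lit 5) (nat_lit 50) (nat_lit 5) (nat_lit 281) (nat_lit 258) (nat_lit 181)) (XT.lf (nat_lit 0) (nat_lit 15845616160) (nat_lit 228) (nat_lit 1110295291) (nat_lit 304) (nat_lit 2543856786) (nat_lit 46) (nat_lit 5) (nat_lit 49) (nat_lit 5) (nat_lit 50) (nat_lit 5) (nat_lit 282) (nat_lit 258) (nat_lit 180))) (XT.nd (nat_lit 78)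 (nat_lit 0) (nat_lit 0) (XT.lf (nat_lit 0) (nat_lit 47952146) (nat_lit 380) (nat_lit 14685401807) (nat_lit 76) (nat_lit 5381818735) (nat_lit 41) (nat_lit 5) (nat_lit 46) (nat_lit 5) (nat_lit 42) (nat_lit 5) (nat_lit 283) (nat_lit 258) (nat_lit 179)) (XT.lf (nat_lit 0) (nat_lit 2750425742) (nat_lit 380) (nat_lit 5742873921) (nat_lit 76) (nat_lit 12262670436) (nat_lit 41) (nat_lit 5) (nat_lit 46) (nat_lit 5) (nat_lit 42) (nat_lit 5) (nat_lit 284) (nat_lit 258) (nat_lit 178))))) (XT.nd (nat_lit 312) (nat_lit 456) (nat_lit 0) (XT.nd (nat_lit 156) (nat_lit 228) (nat_lit 0) (XT.nd (nat_lit 78) (nat_lit 0) (nat_lit 0) (XT.lf (nat_lit 0) (nat_lit 3749201005) (nat_lit 228) (nat_lit 1883513342) (nat_lit 304) (nat_lit 15793892838) (nat_lit 38) (nat_lit 5) (nat_lit 41) (nat_lit 5) (nat_lit 42) (nat_lit 5) (nat_lit 285) (nat_lit 258) (nat_lit 177)) (XT.lf (nat_lit 0) (nat_lit 8823405469) (nat_lit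 304) (nat_lit 8309137790) (nat_lit 76) (nat_lit 4990051197) (nat_lit 38) (nat_lit 5) (nat_lit 42) (nat_lit 5) (nat_lit 39) (nat_lit 5) (nat_lit 286) (nat_lit 258) (nat_lit 176))) (XT.nd (nat_lit 78) (nat_lit 0) (nat_lit 0) (XT.lf (nat_lit 0) (nat_lit 1528503409) (nat_lit 228) (nat_lit 10686997900) (nat_lit 304) (nat_lit 10635817450) (nat_lit 35) (nat_lit 5) (nat_lit 38) (nat_lit 5) (nat_lit 39) (nat_lit 5) (nat_lit 287) (nat_lit 258) (nat_lit 175)) (XT.lf (nat_lit 0) (nat_lit 12129691739) (nat_lit 228) (nat_lit 3775708621) (nat_lit 304) (nat_lit 7704698686) (nat_lit 35) (nat_lit 5) (nat_lit 38) (nat_lit 5) (nat_lit 39) (nat_lit 5) (nat_lit 288) (nat_lit 258) (nat_lit 174)))) (XT.nd (nat_lit 156) (nat_lit 304) (nat_lit 0) (XT.nd (nat_lit 78) (nat_lit 152) (nat_lit 0) (XT.lf (nat_lit 0) (nat_lit 19822156410) (nat_lit 304) (nat_lit 1216799017) (nat_lit 76) (nat_lit 3365773097) (nat_lit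 35) (nat_lit 5) (nat_lit 39) (nat_lit 5) (nat_lit 36) (nat_lit 5) (nat_lit 289) (nat_lit 258) (nat_lit 173)) (XT.lf (nat_lit 0) (nat_lit 9795840200) (nat_lit 152) (nat_lit 14342329932) (nat_lit 228) (nat_lit 1090775282) (nat_lit 33) (nat_lit 5) (nat_lit 35) (nat_lit 5) (nat_lit 36) (nat_lit 5) (nat_lit 290) (nat_lit 258) (nat_lit 172))) (XT.nd (nat_lit 78) (nat_lit 228) (nat_lit 0) (XT.lf (nat_lit 0) (nat_lit 2502797356) (nat_lit 228) (nat_lit 4748462220) (nat_lit 76) (nat_lit 18840646292) (nat_lit 32) (nat_lit 5) (nat_lit 35) (nat_lit 5) (nat_lit 33) (nat_lit 5) (nat_lit 291) (nat_lit 258) (nat_lit 171)) (XT.nd (nat_lit 78) (nat_lit 0) (nat_lit 0) (XT.lf (nat_lit 0) (nat_lit 6337397196) (nat_lit 304) (nat_lit 20347239649) (nat_lit 76) (nat_lit 307606395) (nat_lit 29) (nat_lit 5) (nat_lit 33) (nat_lit 5) (nat_lit 30) (nat_lit 5) (nat_lit 292) (nat_lit 258) (nat_lit 170)) (XT.lf (nat_lit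 0) (nat_lit 10553763447) (nat_lit 304) (nat_lit 9296169832) (nat_lit 76) (nat_lit 8078184540) (nat_lit 29) (nat_lit 5) (nat_lit 33) (nat_lit 5) (nat_lit 30) (nat_lit 5) (nat_lit 293) (nat_lit 258) (nat_lit 169))))))) (XT.nd (nat_lit 702) (nat_lit 380) (nat_lit 0) (XT.nd (nat_lit 312) (nat_lit 380) (nat_lit 0) (XT.nd (nat_lit 156) (nat_lit 152) (nat_lit 0) (XT.nd (nat_lit 78) (nat_lit 0) (nat_lit 0) (XT.lf (nat_lit 0) (nat_lit 2368596322) (nat_lit 152) (nat_lit 12639263051) (nat_lit 228) (nat_lit 13901602286) (nat_lit 27) (nat_lit 5) (nat_lit 29) (nat_lit 5) (nat_lit 30) (nat_lit 5) (nat_lit 294) (nat_lit 258) (nat_lit 168)) (XT.lf (nat_lit 0) (nat_lit 14924912348) (nat_lit 152) (nat_lit 4907367999) (nat_lit 228) (nat_lit 10100231428) (nat_lit 27) (nat_lit 5) (nat_lit 29) (nat_lit 5) (nat_lit 30) (nat_lit 5) (nat_lit 295) (nat_lit 258) (nat_lit 167))) (XT.nd (nat_lit 78) (nat_lit 152)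 (nat_lit 0) (XT.lf (nat_lit 0) (nat_lit 24938640842) (nat_lit 228) (nat_lit 2961966012) (nat_lit 76) (nat_lit 3104090757) (nat_lit 27) (nat_lit 5) (nat_lit 30) (nat_lit 5) (nat_lit 28) (nat_lit 5) (nat_lit 296) (nat_lit 258) (nat_lit 166)) (XT.lf (nat_lit 0) (nat_lit 9909168866) (nat_lit 152) (nat_lit 20617341297) (nat_lit 228) (nat_lit 1592691266) (nat_lit 25) (nat_lit 5) (nat_lit 27) (nat_lit 5) (nat_lit 28) (nat_lit 5) (nat_lit 297) (nat_lit 258) (nat_lit 165)))) (XT.nd (nat_lit 156) (nat_lit 152) (nat_lit 0) (XT.nd (nat_lit 78) (nat_lit 152) (nat_lit 0) (XT.lf (nat_lit 0) (nat_lit 3047060727) (nat_lit 228) (nat_lit 9823099265) (nat_lit 76) (nat_lit 20414759774) (nat_lit 24) (nat_lit 5) (nat_lit 27) (nat_lit 5) (nat_lit 25) (nat_lit 5) (nat_lit 298) (nat_lit 258) (nat_lit 164)) (XT.lf (nat_lit 0) (nat_lit 3248096684) (nat_lit 152) (nat_lit 4659406755) (nat_lit 228) (nat_lit 26598019445)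 (nat_lit 22) (nat_lit 5) (nat_lit 24) (nat_lit 5) (nat_lit 25) (nat_lit 5) (nat_lit 299) (nat_lit 258) (nat_lit 163))) (XT.nd (nat_lit 78) (nat_lit 152) (nat_lit 0) (XT.lf (nat_lit 0) (nat_lit 13233562532) (nat_lit 228) (nat_lit 18542617859) (nat_lit 76) (nat_lit 3999861049) (nat_lit 22) (nat_lit 5) (nat_lit 25) (nat_lit 5) (nat_lit 23) (nat_lit 5) (nat_lit 300) (nat_lit 258) (nat_lit 162)) (XT.nd (nat_lit 78) (nat_lit 152) (nat_lit 0) (XT.lf (nat_lit 0) (nat_lit 18894357815) (nat_lit 228) (nat_lit 5280914337) (nat_lit 76) (nat_lit 12931406393) (nat_lit 22) (nat_lit 5) (nat_lit 25) (nat_lit 5) (nat_lit 23) (nat_lit 5) (nat_lit 301) (nat_lit 258) (nat_lit 161)) (XT.lf (nat_lit 0) (nat_lit 8917419358) (nat_lit 152) (nat_lit 16052427525) (nat_lit 228) (nat_lit 13527431523) (nat_lit 20) (nat_lit 5) (nat_lit 22) (nat_lit 5) (nat_lit 23) (nat_lit 5) (nat_lit 302) (nat_lit 258) (nat_lit 160))))))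 (XT.nd (nat_lit 312) (nat_lit 228) (nat_lit 0) (XT.nd (nat_lit 156) (nat_lit 152) (nat_lit 0) (XT.nd (nat_lit 78) (nat_lit 0) (nat_lit 0) (XT.lf (nat_lit 0) (nat_lit 23997334468) (nat_lit 152) (nat_lit 7433817151) (nat_lit 228) (nat_lit 8522167535) (nat_lit 20) (nat_lit 5) (nat_lit 22) (nat_lit 5) (nat_lit 23) (nat_lit 5) (nat_lit 303) (nat_lit 258) (nat_lit 159)) (XT.lf (nat_lit 0) (nat_lit 38233642331) (nat_lit 228) (nat_lit 1687563970) (nat_lit 76) (nat_lit 1560061938) (nat_lit 20) (nat_lit 5) (nat_lit 23) (nat_lit 5) (nat_lit 21) (nat_lit 4) (nat_lit 304) (nat_lit 258) (nat_lit 158))) (XT.nd (nat_lit 78) (nat_lit 0) (nat_lit 0) (XT.lf (nat_lit 0) (nat_lit 2550065242) (nat_lit 152) (nat_lit 29513673342) (nat_lit 76) (nat_lit 11003462352) (nat_lit 18) (nat_lit 5) (nat_lit 20) (nat_lit 5) (nat_lit 19) (nat_lit 5) (nat_lit 305) (nat_lit 258) (nat_lit 157)) (XT.lf (nat_lit 0) (nat_lit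 8550816688) (nat_lit 152) (nat_lit 15180382705) (nat_lit 76) (nat_lit 20997463680) (nat_lit 18) (nat_lit 5) (nat_lit 20) (nat_lit 5) (nat_lit 19) (nat_lit 5) (nat_lit 306) (nat_lit 258) (nat_lit 156)))) (XT.nd (nat_lit 156) (nat_lit 76) (nat_lit 0) (XT.nd (nat_lit 78) (nat_lit 152) (nat_lit 0) (XT.lf (nat_lit 0) (nat_lit 14845195261) (nat_lit 152) (nat_lit 140842089) (nat_lit 76) (nat_lit 31487491639) (nat_lit 18) (nat_lit 5) (nat_lit 20) (nat_lit 5) (nat_lit 19) (nat_lit 5) (nat_lit 307) (nat_lit 258) (nat_lit 155)) (XT.lf (nat_lit 0) (nat_lit 16157910993) (nat_lit 152) (nat_lit 5542546855) (nat_lit 228) (nat_lit 26592881766) (nat_lit 16) (nat_lit 5) (nat_lit 18) (nat_lit 5) (nat_lit 19) (nat_lit 5) (nat_lit 308) (nat_lit 258) (nat_lit 154))) (XT.nd (nat_lit 78) (nat_lit 76) (nat_lit 0) (XT.lf (nat_lit 0) (nat_lit 28963158501) (nat_lit 228) (nat_lit 17005852783) (nat_lit 76) (nat_lit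 4231904945) (nat_lit 16) (nat_lit 5) (nat_lit 19) (nat_lit 5) (nat_lit 17) (nat_lit 4) (nat_lit 309) (nat_lit 258) (nat_lit 153)) (XT.nd (nat_lit 78) (nat_lit 76) (nat_lit 0) (XT.lf (nat_lit 0) (nat_lit 36674116540) (nat_lit 228) (nat_lit 1220190044) (nat_lit 76) (nat_lit 14305317740) (nat_lit 16) (nat_lit 5) (nat_lit 19) (nat_lit 5) (nat_lit 17) (nat_lit 4) (nat_lit 310) (nat_lit 258) (nat_lit 152)) (XT.lf (nat_lit 0) (nat_lit 15853076652) (nat_lit 76) (nat_lit 29159591002) (nat_lit 152) (nat_lit 9273506264) (nat_lit 15) (nat_lit 5) (nat_lit 16) (nat_lit 5) (nat_lit 17) (nat_lit 4) (nat_lit 311) (nat_lit 258) (nat_lit 151))))))))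
noncomputable def xc167 : XT := (XT.nd (nat_lit 1404) (nat_lit 304) (nat_lit 0) (XT.nd (nat_lit 702) (nat_lit 228) (nat_lit 0) (XT.nd (nat_lit 312) (nat_lit 76) (nat_lit 0) (XT.nd (nat_lit 156) (nat_lit 152) (nat_lit 0) (XT.nd (nat_lit 78) (nat_lit 76) (nat_lit 0) (XT.lf (nat_lit 0) (nat_lit 33813438687) (nat_lit 76) (nat_lit 19970027213) (nat_lit 152) (nat_lit 2692827064) (nat_lit 15) (nat_lit 5) (nat_lit 16) (nat_lit 5) (nat_lit 17) (nat_lit 4) (nat_lit 312) (nat_lit 258) (nat_lit 150)) (XT.lf (nat_lit 0) (nat_lit 4076738212) (nat_lit 152) (nat_lit 6178620065) (nat_lit 76) (nat_lit 48517534088) (nat_lit 14) (nat_lit 5) (nat_lit 16) (nat_lit 5) (nat_lit 15) (nat_lit 5) (nat_lit 313) (nat_lit 258) (nat_lit 149))) (XT.nd (nat_lit 78) (nat_lit 0) (nat_lit 0) (XT.lf (nat_lit 0) (nat_lit 11270761130) (nat_lit 228) (nat_lit 49732496897) (nat_lit 76) (nat_lit 170039542) (nat_lit 12) (nat_lit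 5) (nat_lit 15) (nat_lit 5) (nat_lit 13) (nat_lit 4) (nat_lit 314) (nat_lit 258) (nat_lit 148)) (XT.lf (nat_lit 0) (nat_lit 19094080908) (nat_lit 228) (nat_lit 33710959775) (nat_lit 76) (nat_lit 10875209109) (nat_lit 12) (nat_lit 5) (nat_lit 15) (nat_lit 5) (nat_lit 13) (nat_lit 4) (nat_lit 315) (nat_lit 258) (nat_lit 147)))) (XT.nd (nat_lit 156) (nat_lit 0) (nat_lit 0) (XT.nd (nat_lit 78) (nat_lit 76) (nat_lit 0) (XT.lf (nat_lit 0) (nat_lit 27303920760) (nat_lit 228) (nat_lit 16896281813) (nat_lit 76) (nat_lit 22112585578) (nat_lit 12) (nat_lit 5) (nat_lit 15) (nat_lit 5) (nat_lit 13) (nat_lit 4) (nat_lit 316) (nat_lit 258) (nat_lit 146)) (XT.lf (nat_lit 0) (nat_lit 776422297) (nat_lit 76) (nat_lit 35155527755) (nat_lit 152) (nat_lit 33144624439) (nat_lit 11) (nat_lit 5) (nat_lit 12) (nat_lit 5) (nat_lit 13) (nat_lit 4) (nat_lit 317) (nat_lit 258) (nat_lit 145))) (XT.nd (nat_lit 78)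 (nat_lit 0) (nat_lit 0) (XT.lf (nat_lit 0) (nat_lit 19911926159) (nat_lit 76) (nat_lit 25361271277) (nat_lit 152) (nat_lit 26691267533) (nat_lit 11) (nat_lit 5) (nat_lit 12) (nat_lit 5) (nat_lit 13) (nat_lit 4) (nat_lit 318) (nat_lit 258) (nat_lit 144)) (XT.nd (nat_lit 78) (nat_lit 0) (nat_lit 0) (XT.lf (nat_lit 0) (nat_lit 39997123112) (nat_lit 76) (nat_lit 15080260189) (nat_lit 152) (nat_lit 19919578246) (nat_lit 11) (nat_lit 5) (nat_lit 12) (nat_lit 5) (nat_lit 13) (nat_lit 4) (nat_lit 319) (nat_lit 258) (nat_lit 143)) (XT.lf (nat_lit 0) (nat_lit 61079835055) (nat_lit 76) (nat_lit 4288015893) (nat_lit 152) (nat_lit 12813433508) (nat_lit 11) (nat_lit 5) (nat_lit 12) (nat_lit 5) (nat_lit 13) (nat_lit 4) (nat_lit 320) (nat_lit 258) (nat_lit 142)))))) (XT.nd (nat_lit 312) (nat_lit 76) (nat_lit 0) (XT.nd (nat_lit 156) (nat_lit 0) (nat_lit 0) (XT.nd (nat_lit 78) (nat_lit 76) (nat_lit 0)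 (XT.lf (nat_lit 0) (nat_lit 1627398207) (nat_lit 76) (nat_lit 74677043732) (nat_lit 76) (nat_lit 5213806458) (nat_lit 10) (nat_lit 4) (nat_lit 11) (nat_lit 5) (nat_lit 11) (nat_lit 4) (nat_lit 321) (nat_lit 258) (nat_lit 141)) (XT.lf (nat_lit 0) (nat_lit 3038175109) (nat_lit 152) (nat_lit 63245989408) (nat_lit 76) (nat_lit 18717696543) (nat_lit 9) (nat_lit 5) (nat_lit 11) (nat_lit 5) (nat_lit 10) (nat_lit 4) (nat_lit 322) (nat_lit 258) (nat_lit 140))) (XT.nd (nat_lit 78) (nat_lit 0) (nat_lit 0) (XT.lf (nat_lit 0) (nat_lit 11523948665) (nat_lit 152) (nat_lit 45860640389) (nat_lit 76) (nat_lit 31270975359) (nat_lit 9) (nat_lit 5) (nat_lit 11) (nat_lit 5) (nat_lit 10) (nat_lit 4) (nat_lit 323) (nat_lit 258) (nat_lit 139)) (XT.lf (nat_lit 0) (nat_lit 20430592799) (nat_lit 152) (nat_lit 27612007313) (nat_lit 76) (nat_lit 44449527743) (nat_lit 9) (nat_lit 5) (nat_lit 11) (nat_lit 5) (nat_lit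 10) (nat_lit 4) (nat_lit 324) (nat_lit 258) (nat_lit 138)))) (XT.nd (nat_lit 156) (nat_lit 0) (nat_lit 0) (XT.nd (nat_lit 78) (nat_lit 76) (nat_lit 0) (XT.lf (nat_lit 0) (nat_lit 29779313808) (nat_lit 152) (nat_lit 8456641054) (nat_lit 76) (nat_lit 58284731199) (nat_lit 9) (nat_lit 5) (nat_lit 11) (nat_lit 5) (nat_lit 10) (nat_lit 4) (nat_lit 325) (nat_lit 258) (nat_lit 137)) (XT.lf (nat_lit 0) (nat_lit 12036303275) (nat_lit 76) (nat_lit 27743987701) (nat_lit 152) (nat_lit 60961143839) (nat_lit 8) (nat_lit 5) (nat_lit 9) (nat_lit 5) (nat_lit 10) (nat_lit 4) (nat_lit 326) (nat_lit 258) (nat_lit 136))) (XT.nd (nat_lit 78) (nat_lit 0) (nat_lit 0) (XT.lf (nat_lit 0) (nat_lit 33842150722) (nat_lit 76) (nat_lit 16579347542) (nat_lit 152) (nat_lit 54744717151) (nat_lit 8) (nat_lit 5) (nat_lit 9) (nat_lit 5) (nat_lit 10) (nat_lit 4) (nat_lit 327) (nat_lit 258) (nat_lit 135)) (XT.nd (nat_lit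 78) (nat_lit 0) (nat_lit 0) (XT.lf (nat_lit 0) (nat_lit 56733205225) (nat_lit 76) (nat_lit 4858669215) (nat_lit 152) (nat_lit 48220508481) (nat_lit 8) (nat_lit 5) (nat_lit 9) (nat_lit 5) (nat_lit 10) (nat_lit 4) (nat_lit 328) (nat_lit 258) (nat_lit 134)) (XT.lf (nat_lit 0) (nat_lit 73434267845) (nat_lit 152) (nat_lit 34043282547) (nat_lit 0) (nat_lit 7207636638) (nat_lit 8) (nat_lit 5) (nat_lit 10) (nat_lit 4) (nat_lit 8) (nat_lit 4) (nat_lit 329) (nat_lit 258) (nat_lit 133))))))) (XT.nd (nat_lit 702) (nat_lit 76) (nat_lit 0) (XT.nd (nat_lit 312) (nat_lit 152) (nat_lit 0) (XT.nd (nat_lit 156) (nat_lit 0) (nat_lit 0) (XT.nd (nat_lit 78) (nat_lit 76) (nat_lit 0) (XT.lf (nat_lit 0) (nat_lit 85945777514) (nat_lit 152) (nat_lit 14139958549) (nat_lit 0) (nat_lit 19712048448) (nat_lit 8) (nat_lit 5) (nat_lit 10) (nat_lit 4) (nat_lit 8) (nat_lit 4) (nat_lit 330) (nat_lit 258) (nat_lit 132))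 (XT.lf (nat_lit 0) (nat_lit 6977359691) (nat_lit 76) (nat_lit 92211911761) (nat_lit 76) (nat_lit 25971422830) (nat_lit 7) (nat_lit 4) (nat_lit 8) (nat_lit 5) (nat_lit 8) (nat_lit 4) (nat_lit 331) (nat_lit 258) (nat_lit 131))) (XT.nd (nat_lit 78) (nat_lit 0) (nat_lit 0) (XT.lf (nat_lit 0) (nat_lit 29637032671) (nat_lit 76) (nat_lit 83694898467) (nat_lit 76) (nat_lit 17447971569) (nat_lit 7) (nat_lit 4) (nat_lit 8) (nat_lit 5) (nat_lit 8) (nat_lit 4) (nat_lit 332) (nat_lit 258) (nat_lit 130)) (XT.lf (nat_lit 0) (nat_lit 53425481105) (nat_lit 76) (nat_lit 74753884619) (nat_lit 76) (nat_lit 8500826324) (nat_lit 7) (nat_lit 4) (nat_lit 8) (nat_lit 5) (nat_lit 8) (nat_lit 4) (nat_lit 333) (nat_lit 258) (nat_lit 129)))) (XT.nd (nat_lit 156) (nat_lit 76) (nat_lit 0) (XT.nd (nat_lit 78) (nat_lit 0) (nat_lit 0) (XT.lf (nat_lit 0) (nat_lit 862787965) (nat_lit 152) (nat_lit 64490182392) (nat_lit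 76) (nat_lit 77521944458) (nat_lit 6) (nat_lit 5) (nat_lit 8) (nat_lit 5) (nat_lit 7) (nat_lit 4) (nat_lit 334) (nat_lit 258) (nat_lit 128)) (XT.lf (nat_lit 0) (nat_lit 10406723273) (nat_lit 152) (nat_lit 44930676369) (nat_lit 76) (nat_lit 94035117234) (nat_lit 6) (nat_lit 5) (nat_lit 8) (nat_lit 5) (nat_lit 7) (nat_lit 4) (nat_lit 335) (nat_lit 258) (nat_lit 127))) (XT.nd (nat_lit 78) (nat_lit 76) (nat_lit 0) (XT.lf (nat_lit 0) (nat_lit 20425782785) (nat_lit 152) (nat_lit 24396900900) (nat_lit 76) (nat_lit 111372421112) (nat_lit 6) (nat_lit 5) (nat_lit 8) (nat_lit 5) (nat_lit 7) (nat_lit 4) (nat_lit 336) (nat_lit 258) (nat_lit 126)) (XT.nd (nat_lit 78) (nat_lit 76) (nat_lit 0) (XT.lf (nat_lit 0) (nat_lit 30943821405) (nat_lit 152) (nat_lit 2839966045) (nat_lit 76) (nat_lit 129575135387) (nat_lit 6) (nat_lit 5) (nat_lit 8) (nat_lit 5) (nat_lit 7) (nat_lit 4) (nat_lit 337) (nat_lit 258)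 (nat_lit 125)) (XT.lf (nat_lit 0) (nat_lit 20445849090) (nat_lit 76) (nat_lit 21859249995) (nat_lit 152) (nat_lit 128559967768) (nat_lit 5) (nat_lit 5) (nat_lit 6) (nat_lit 5) (nat_lit 7) (nat_lit 4) (nat_lit 338) (nat_lit 258) (nat_lit 124)))))) (XT.nd (nat_lit 312) (nat_lit 76) (nat_lit 0) (XT.nd (nat_lit 156) (nat_lit 0) (nat_lit 0) (XT.nd (nat_lit 78) (nat_lit 0) (nat_lit 0) (XT.lf (nat_lit 0) (nat_lit 44991245085) (nat_lit 76) (nat_lit 9289449775) (nat_lit 152) (nat_lit 124463512341) (nat_lit 5) (nat_lit 5) (nat_lit 6) (nat_lit 5) (nat_lit 7) (nat_lit 4) (nat_lit 339) (nat_lit 258) (nat_lit 123)) (XT.lf (nat_lit 0) (nat_lit 66914322317) (nat_lit 152) (nat_lit 116317638946) (nat_lit 0) (nat_lit 3782382461) (nat_lit 5) (nat_lit 5) (nat_lit 7) (nat_lit 4) (nat_lit 5) (nat_lit 4) (nat_lit 340) (nat_lit 258) (nat_lit 122))) (XT.nd (nat_lit 78) (nat_lit 0) (nat_lit 0) (XT.lf (nat_lit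 0) (nat_lit 80330225722) (nat_lit 152) (nat_lit 98165899779) (nat_lit 0) (nat_lit 17194333513) (nat_lit 5) (nat_lit 5) (nat_lit 7) (nat_lit 4) (nat_lit 5) (nat_lit 4) (nat_lit 341) (nat_lit 258) (nat_lit 121)) (XT.lf (nat_lit 0) (nat_lit 94415313357) (nat_lit 152) (nat_lit 79109491845) (nat_lit 0) (nat_lit 31275657002) (nat_lit 5) (nat_lit 5) (nat_lit 7) (nat_lit 4) (nat_lit 5) (nat_lit 4) (nat_lit 342) (nat_lit 258) (nat_lit 120)))) (XT.nd (nat_lit 156) (nat_lit 76) (nat_lit 0) (XT.nd (nat_lit 78) (nat_lit 0) (nat_lit 0) (XT.lf (nat_lit 0) (nat_lit 109203121146) (nat_lit 152) (nat_lit 59103042743) (nat_lit 0) (nat_lit 46059879890) (nat_lit 5) (nat_lit 5) (nat_lit 7) (nat_lit 4) (nat_lit 5) (nat_lit 4) (nat_lit 343) (nat_lit 258) (nat_lit 119)) (XT.lf (nat_lit 0) (nat_lit 124728858155) (nat_lit 152) (nat_lit 38098918071) (nat_lit 0) (nat_lit 61582202707) (nat_lit 5) (nat_lit 5) (nat_lit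 7) (nat_lit 4) (nat_lit 5) (nat_lit 4) (nat_lit 344) (nat_lit 258) (nat_lit 118))) (XT.nd (nat_lit 78) (nat_lit 76) (nat_lit 0) (XT.lf (nat_lit 0) (nat_lit 141029490424) (nat_lit 152) (nat_lit 16047108008) (nat_lit 0) (nat_lit 77879583366) (nat_lit 5) (nat_lit 5) (nat_lit 7) (nat_lit 4) (nat_lit 5) (nat_lit 4) (nat_lit 345) (nat_lit 258) (nat_lit 117)) (XT.nd (nat_lit 78) (nat_lit 0) (nat_lit 0) (XT.lf (nat_lit 0) (nat_lit 7339811562) (nat_lit 76) (nat_lit 150918612448) (nat_lit 76) (nat_lit 87765608617) (nat_lit 4) (nat_lit 4) (nat_lit 5) (nat_lit 5) (nat_lit 5) (nat_lit 4) (nat_lit 346) (nat_lit 258) (nat_lit 116)) (XT.lf (nat_lit 0) (nat_lit 32450834387) (nat_lit 76) (nat_lit 144168436336) (nat_lit 76) (nat_lit 81012483199) (nat_lit 4) (nat_lit 4) (nat_lit 5) (nat_lit 5) (nat_lit 5) (nat_lit 4) (nat_lit 347) (nat_lit 258) (nat_lit 115))))))))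
noncomputable def xc168 : XT := (XT.nd (nat_lit 31122) (nat_lit 0) (nat_lit 3268) (XT.nd (nat_lit 624) (nat_lit 76) (nat_lit 0) (XT.nd (nat_lit 312) (nat_lit 0) (nat_lit 0) (XT.nd (nat_lit 156) (nat_lit 0) (nat_lit 0) (XT.nd (nat_lit 78) (nat_lit 0) (nat_lit 0) (XT.lf (nat_lit 0) (nat_lit 58815158752) (nat_lit 76) (nat_lit 137081763789) (nat_lit 76) (nat_lit 73923001788) (nat_lit 4) (nat_lit 4) (nat_lit 5) (nat_lit 5) (nat_lit 5) (nat_lit 4) (nat_lit 348) (nat_lit 258) (nat_lit 114)) (XT.lf (nat_lit 0) (nat_lit 86495556860) (nat_lit 76) (nat_lit 129641721776) (nat_lit 76) (nat_lit 66480284666) (nat_lit 4) (nat_lit 4) (nat_lit 5) (nat_lit 5) (nat_lit 5) (nat_lit 4) (nat_lit 349) (nat_lit 258) (nat_lit 113))) (XT.nd (nat_lit 78) (nat_lit 0) (nat_lit 0) (XT.lf (nat_lit 0) (nat_lit 115557934419) (nat_lit 76) (nat_lit 121830595911) (nat_lit 76) (nat_lit 58666611079) (nat_lit 4) (nat_lit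 4) (nat_lit 5) (nat_lit 5) (nat_lit 5) (nat_lit 4) (nat_lit 350) (nat_lit 258) (nat_lit 112)) (XT.lf (nat_lit 0) (nat_lit 146071487568) (nat_lit 76) (nat_lit 113629788276) (nat_lit 76) (nat_lit 50463377042) (nat_lit 4) (nat_lit 4) (nat_lit 5) (nat_lit 5) (nat_lit 5) (nat_lit 4) (nat_lit 351) (nat_lit 258) (nat_lit 111)))) (XT.nd (nat_lit 156) (nat_lit 0) (nat_lit 0) (XT.nd (nat_lit 78) (nat_lit 0) (nat_lit 0) (XT.lf (nat_lit 0) (nat_lit 178108867622) (nat_lit 76) (nat_lit 105019773138) (nat_lit 76) (nat_lit 41851051045) (nat_lit 4) (nat_lit 4) (nat_lit 5) (nat_lit 5) (nat_lit 5) (nat_lit 4) (nat_lit 352) (nat_lit 258) (nat_lit 110)) (XT.lf (nat_lit 0) (nat_lit 211746354058) (nat_lit 76) (nat_lit 95980050461) (nat_lit 76) (nat_lit 32809127550) (nat_lit 4) (nat_lit 4) (nat_lit 5) (nat_lit 5) (nat_lit 5) (nat_lit 4) (nat_lit 353) (nat_lit 258) (nat_lit 109))) (XT.nd (nat_lit 78) (nat_lit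 0) (nat_lit 0) (XT.lf (nat_lit 0) (nat_lit 247064036130) (nat_lit 76) (nat_lit 86489097096) (nat_lit 76) (nat_lit 23316078168) (nat_lit 4) (nat_lit 4) (nat_lit 5) (nat_lit 5) (nat_lit 5) (nat_lit 4) (nat_lit 354) (nat_lit 258) (nat_lit 108)) (XT.lf (nat_lit 0) (nat_lit 284146003556) (nat_lit 76) (nat_lit 76524315536) (nat_lit 76) (nat_lit 13349300401) (nat_lit 4) (nat_lit 4) (nat_lit 5) (nat_lit 5) (nat_lit 5) (nat_lit 4) (nat_lit 355) (nat_lit 258) (nat_lit 107))))) (XT.nd (nat_lit 30108) (nat_lit 0) (nat_lit 5396) (XT.nd (nat_lit 29952) (nat_lit 0) (nat_lit 5928) (XT.nd (nat_lit 78) (nat_lit 76) (nat_lit 0) (XT.lf (nat_lit 0) (nat_lit 323080546736) (nat_lit 76) (nat_lit 66061980108) (nat_lit 76) (nat_lit 2885063824) (nat_lit 4) (nat_lit 4) (nat_lit 5) (nat_lit 5) (nat_lit 5) (nat_lit 4) (nat_lit 356) (nat_lit 258) (nat_lit 106)) (XT.lf (nat_lit 0) (nat_lit 7842246330) (nat_lit 152)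 (nat_lit 47102121926) (nat_lit 76) (nat_lit 355985308397) (nat_lit 3) (nat_lit 5) (nat_lit 5) (nat_lit 5) (nat_lit 4) (nat_lit 4) (nat_lit 357) (nat_lit 258) (nat_lit 105))) (XT.nd (nat_lit 78) (nat_lit 0) (nat_lit 0) (XT.lf (nat_lit 0) (nat_lit 3957593492) (nat_lit 684) (nat_lit 715209459) (nat_lit 684) (nat_lit 715209459) (nat_lit 81) (nat_lit 3) (nat_lit 90) (nat_lit 3) (nat_lit 90) (nat_lit 5) (nat_lit 259) (nat_lit 259) (nat_lit 202)) (XT.lf (nat_lit 76) (nat_lit 3325960384) (nat_lit 0) (nat_lit 5375933390) (nat_lit 684) (nat_lit 2312181096) (nat_lit 82) (nat_lit 5) (nat_lit 81) (nat_lit 3) (nat_lit 90) (nat_lit 5) (nat_lit 260) (nat_lit 259) (nat_lit 201)))) (XT.nd (nat_lit 156) (nat_lit 532) (nat_lit 0) (XT.nd (nat_lit 78) (nat_lit 0) (nat_lit 76) (XT.lf (nat_lit 76) (nat_lit 8351116499) (nat_lit 0) (nat_lit 1166383957) (nat_lit 684) (nat_lit 1747170953) (nat_lit 82) (nat_lit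 5) (nat_lit 81) (nat_lit 3) (nat_lit 90) (nat_lit 5) (nat_lit 261) (nat_lit 259) (nat_lit 200)) (XT.lf (nat_lit 76) (nat_lit 2096209346) (nat_lit 0) (nat_lit 8328431791) (nat_lit 684) (nat_lit 1100735348) (nat_lit 83) (nat_lit 5) (nat_lit 82) (nat_lit 5) (nat_lit 91) (nat_lit 5) (nat_lit 262) (nat_lit 259) (nat_lit 199))) (XT.nd (nat_lit 78) (nat_lit 608) (nat_lit 0) (XT.lf (nat_lit 76) (nat_lit 7418363609) (nat_lit 0) (nat_lit 3995414023) (nat_lit 684) (nat_lit 383618096) (nat_lit 83) (nat_lit 5) (nat_lit 82) (nat_lit 5) (nat_lit 91) (nat_lit 5) (nat_lit 263) (nat_lit 259) (nat_lit 198)) (XT.nd (nat_lit 78) (nat_lit 0) (nat_lit 0) (XT.lf (nat_lit 0) (nat_lit 350566141) (nat_lit 684) (nat_lit 11164931353) (nat_lit 760) (nat_lit 567679012) (nat_lit 74) (nat_lit 5) (nat_lit 83) (nat_lit 5) (nat_lit 84) (nat_lit 5) (nat_lit 264) (nat_lit 259) (nat_lit 197)) (XT.lf (nat_lit 0) (nat_lit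 1220145910) (nat_lit 684) (nat_lit 5841214824) (nat_lit 760) (nat_lit 5316087984) (nat_lit 74) (nat_lit 5) (nat_lit 83) (nat_lit 5) (nat_lit 84) (nat_lit 5) (nat_lit 265) (nat_lit 259) (nat_lit 196))))))) (XT.nd (nat_lit 702) (nat_lit 1292) (nat_lit 0) (XT.nd (nat_lit 312) (nat_lit 836) (nat_lit 0) (XT.nd (nat_lit 156) (nat_lit 0) (nat_lit 76) (XT.nd (nat_lit 78) (nat_lit 0) (nat_lit 76) (XT.lf (nat_lit 0) (nat_lit 2105302791) (nat_lit 684) (nat_lit 271397978) (nat_lit 760) (nat_lit 10311220063) (nat_lit 74) (nat_lit 5) (nat_lit 83) (nat_lit 5) (nat_lit 84) (nat_lit 5) (nat_lit 266) (nat_lit 259) (nat_lit 195)) (XT.lf (nat_lit 0) (nat_lit 3139062428) (nat_lit 684) (nat_lit 7310580512) (nat_lit 760) (nat_lit 2559143223) (nat_lit 75) (nat_lit 5) (nat_lit 84) (nat_lit 5) (nat_lit 85) (nat_lit 5) (nat_lit 267) (nat_lit 259) (nat_lit 194))) (XT.nd (nat_lit 78) (nat_lit 0) (nat_lit 0) (XT.lf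 (nat_lit 0) (nat_lit 4242648166) (nat_lit 684) (nat_lit 1429080013) (nat_lit 760) (nat_lit 7673142393) (nat_lit 75) (nat_lit 5) (nat_lit 84) (nat_lit 5) (nat_lit 85) (nat_lit 5) (nat_lit 268) (nat_lit 259) (nat_lit 193)) (XT.lf (nat_lit 76) (nat_lit 4883474134) (nat_lit 0) (nat_lit 569902067) (nat_lit 760) (nat_lit 8241863631) (nat_lit 76) (nat_lit 5) (nat_lit 75) (nat_lit 5) (nat_lit 85) (nat_lit 5) (nat_lit 269) (nat_lit 259) (nat_lit 192)))) (XT.nd (nat_lit 156) (nat_lit 304) (nat_lit 0) (XT.nd (nat_lit 78) (nat_lit 684) (nat_lit 0) (XT.lf (nat_lit 0) (nat_lit 6800624890) (nat_lit 684) (nat_lit 2596108899) (nat_lit 76) (nat_lit 4662669580) (nat_lit 76) (nat_lit 5) (nat_lit 85) (nat_lit 5) (nat_lit 77) (nat_lit 5) (nat_lit 270) (nat_lit 259) (nat_lit 191)) (XT.lf (nat_lit 0) (nat_lit 4030635109) (nat_lit 684) (nat_lit 4234631747) (nat_lit 760) (nat_lit 6174078141) (nat_lit 67) (nat_lit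 5) (nat_lit 76) (nat_lit 5) (nat_lit 77) (nat_lit 5) (nat_lit 271) (nat_lit 259) (nat_lit 190))) (XT.nd (nat_lit 78) (nat_lit 304) (nat_lit 0) (XT.lf (nat_lit 0) (nat_lit 9844896609) (nat_lit 760) (nat_lit 3796695205) (nat_lit 76) (nat_lit 1194672163) (nat_lit 67) (nat_lit 5) (nat_lit 77) (nat_lit 5) (nat_lit 68) (nat_lit 5) (nat_lit 272) (nat_lit 259) (nat_lit 189)) (XT.nd (nat_lit 78) (nat_lit 0) (nat_lit 0) (XT.lf (nat_lit 0) (nat_lit 3158322976) (nat_lit 304) (nat_lit 8443494777) (nat_lit 380) (nat_lit 3646360467) (nat_lit 63) (nat_lit 5) (nat_lit 67) (nat_lit 5) (nat_lit 68) (nat_lit 5) (nat_lit 273) (nat_lit 259) (nat_lit 188)) (XT.lf (nat_lit 0) (nat_lit 10573952344) (nat_lit 304) (nat_lit 2917187431) (nat_lit 380) (nat_lit 2187382388) (nat_lit 63) (nat_lit 5) (nat_lit 67) (nat_lit 5) (nat_lit 68) (nat_lit 5) (nat_lit 274) (nat_lit 259) (nat_lit 187)))))) (XT.nd (nat_lit 312)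 (nat_lit 532) (nat_lit 0) (XT.nd (nat_lit 156) (nat_lit 304) (nat_lit 0) (XT.nd (nat_lit 78) (nat_lit 76) (nat_lit 0) (XT.lf (nat_lit 0) (nat_lit 2237482908) (nat_lit 380) (nat_lit 13298636010) (nat_lit 456) (nat_lit 591263619) (nat_lit 58) (nat_lit 5) (nat_lit 63) (nat_lit 5) (nat_lit 64) (nat_lit 5) (nat_lit 275) (nat_lit 259) (nat_lit 186)) (XT.lf (nat_lit 0) (nat_lit 1167091040) (nat_lit 456) (nat_lit 6556100283) (nat_lit 76) (nat_lit 8868843905) (nat_lit 57) (nat_lit 5) (nat_lit 63) (nat_lit 5) (nat_lit 58) (nat_lit 5) (nat_lit 276) (nat_lit 259) (nat_lit 185))) (XT.nd (nat_lit 78) (nat_lit 0) (nat_lit 0) (XT.lf (nat_lit 0) (nat_lit 1153107934) (nat_lit 304) (nat_lit 1840728973) (nat_lit 380) (nat_lit 14085632597) (nat_lit 53) (nat_lit 5) (nat_lit 57) (nat_lit 5) (nat_lit 58) (nat_lit 5) (nat_lit 277) (nat_lit 259) (nat_lit 184)) (XT.lf (nat_lit 0) (nat_lit 5075346153) (nat_lit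 380) (nat_lit 8198932458) (nat_lit 76) (nat_lit 4308873941) (nat_lit 53) (nat_lit 5) (nat_lit 58) (nat_lit 5) (nat_lit 54) (nat_lit 5) (nat_lit 278) (nat_lit 259) (nat_lit 183)))) (XT.nd (nat_lit 156) (nat_lit 228) (nat_lit 0) (XT.nd (nat_lit 78) (nat_lit 304) (nat_lit 0) (XT.lf (nat_lit 0) (nat_lit 7274802277) (nat_lit 380) (nat_lit 133482074) (nat_lit 76) (nat_lit 10703087892) (nat_lit 53) (nat_lit 5) (nat_lit 58) (nat_lit 5) (nat_lit 54) (nat_lit 5) (nat_lit 279) (nat_lit 259) (nat_lit 182)) (XT.lf (nat_lit 0) (nat_lit 8592960367) (nat_lit 304) (nat_lit 1109902968) (nat_lit 380) (nat_lit 8957251846) (nat_lit 49) (nat_lit 5) (nat_lit 53) (nat_lit 5) (nat_lit 54) (nat_lit 5) (nat_lit 280) (nat_lit 259) (nat_lit 181))) (XT.nd (nat_lit 78) (nat_lit 228) (nat_lit 0) (XT.lf (nat_lit 0) (nat_lit 12325463194) (nat_lit 380) (nat_lit 1579576973) (nat_lit 76) (nat_lit 5327640089) (nat_lit 49)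 (nat_lit 5) (nat_lit 54) (nat_lit 5) (nat_lit 50) (nat_lit 5) (nat_lit 281) (nat_lit 259) (nat_lit 180)) (XT.nd (nat_lit 78) (nat_lit 0) (nat_lit 0) (XT.lf (nat_lit 0) (nat_lit 7538518245) (nat_lit 228) (nat_lit 7662200324) (nat_lit 304) (nat_lit 4627118529) (nat_lit 46) (nat_lit 5) (nat_lit 49) (nat_lit 5) (nat_lit 50) (nat_lit 5) (nat_lit 282) (nat_lit 259) (nat_lit 179)) (XT.lf (nat_lit 0) (nat_lit 17150684849) (nat_lit 228) (nat_lit 1081859598) (nat_lit 304) (nat_lit 2219604844) (nat_lit 46) (nat_lit 5) (nat_lit 49) (nat_lit 5) (nat_lit 50) (nat_lit 5) (nat_lit 283) (nat_lit 259) (nat_lit 178))))))))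
noncomputable def xc169 : XT := (XT.nd (nat_lit 1326) (nat_lit 836) (nat_lit 0) (XT.nd (nat_lit 624) (nat_lit 836) (nat_lit 0) (XT.nd (nat_lit 312) (nat_lit 380) (nat_lit 0) (XT.nd (nat_lit 156) (nat_lit 228) (nat_lit 0) (XT.nd (nat_lit 78) (nat_lit 0) (nat_lit 0) (XT.lf (nat_lit 0) (nat_lit 476143469) (nat_lit 380) (nat_lit 14879065833) (nat_lit 76) (nat_lit 5743375203) (nat_lit 41) (nat_lit 5) (nat_lit 46) (nat_lit 5) (nat_lit 42) (nat_lit 5) (nat_lit 284) (nat_lit 259) (nat_lit 177)) (XT.lf (nat_lit 0) (nat_lit 3293464854) (nat_lit 380) (nat_lit 5515154698) (nat_lit 76) (nat_lit 12963866369) (nat_lit 41) (nat_lit 5) (nat_lit 46) (nat_lit 5) (nat_lit 42) (nat_lit 5) (nat_lit 285) (nat_lit 259) (nat_lit 176))) (XT.nd (nat_lit 78) (nat_lit 0) (nat_lit 0) (XT.lf (nat_lit 0) (nat_lit 4443219734) (nat_lit 228) (nat_lit 1865246583) (nat_lit 304) (nat_lit 16168806565) (nat_lit 38) (nat_lit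 5) (nat_lit 41) (nat_lit 5) (nat_lit 42) (nat_lit 5) (nat_lit 286) (nat_lit 259) (nat_lit 175)) (XT.lf (nat_lit 0) (nat_lit 9641596499) (nat_lit 304) (nat_lit 8224149158) (nat_lit 76) (nat_lit 5343214295) (nat_lit 38) (nat_lit 5) (nat_lit 42) (nat_lit 5) (nat_lit 39) (nat_lit 5) (nat_lit 287) (nat_lit 259) (nat_lit 174)))) (XT.nd (nat_lit 156) (nat_lit 152) (nat_lit 0) (XT.nd (nat_lit 78) (nat_lit 0) (nat_lit 0) (XT.lf (nat_lit 0) (nat_lit 2097302400) (nat_lit 228) (nat_lit 11095728697) (nat_lit 304) (nat_lit 10781646160) (nat_lit 35) (nat_lit 5) (nat_lit 38) (nat_lit 5) (nat_lit 39) (nat_lit 5) (nat_lit 288) (nat_lit 259) (nat_lit 173)) (XT.lf (nat_lit 0) (nat_lit 13205103774) (nat_lit 228) (nat_lit 3844856816) (nat_lit 304) (nat_lit 7722350608) (nat_lit 35) (nat_lit 5) (nat_lit 38) (nat_lit 5) (nat_lit 39) (nat_lit 5) (nat_lit 289) (nat_lit 259) (nat_lit 172))) (XT.nd (nat_lit 78)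 (nat_lit 152) (nat_lit 0) (XT.lf (nat_lit 0) (nat_lit 21147700501) (nat_lit 304) (nat_lit 815398610) (nat_lit 76) (nat_lit 3644355178) (nat_lit 35) (nat_lit 5) (nat_lit 39) (nat_lit 5) (nat_lit 36) (nat_lit 5) (nat_lit 290) (nat_lit 259) (nat_lit 171)) (XT.lf (nat_lit 0) (nat_lit 10740417078) (nat_lit 152) (nat_lit 14930272760) (nat_lit 228) (nat_lit 802671002) (nat_lit 33) (nat_lit 5) (nat_lit 35) (nat_lit 5) (nat_lit 36) (nat_lit 5) (nat_lit 291) (nat_lit 259) (nat_lit 170))))) (XT.nd (nat_lit 312) (nat_lit 380) (nat_lit 0) (XT.nd (nat_lit 156) (nat_lit 152) (nat_lit 0) (XT.nd (nat_lit 78) (nat_lit 228) (nat_lit 0) (XT.lf (nat_lit 0) (nat_lit 2943819439) (nat_lit 228) (nat_lit 4541630956) (nat_lit 76) (nat_lit 19894575218) (nat_lit 32) (nat_lit 5) (nat_lit 35) (nat_lit 5) (nat_lit 33) (nat_lit 5) (nat_lit 292) (nat_lit 259) (nat_lit 169)) (XT.lf (nat_lit 0) (nat_lit 6963952126) (nat_lit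 304) (nat_lit 20913501125) (nat_lit 76) (nat_lit 448268912) (nat_lit 29) (nat_lit 5) (nat_lit 33) (nat_lit 5) (nat_lit 30) (nat_lit 5) (nat_lit 293) (nat_lit 259) (nat_lit 168))) (XT.nd (nat_lit 78) (nat_lit 152) (nat_lit 0) (XT.lf (nat_lit 0) (nat_lit 11376389781) (nat_lit 304) (nat_lit 9331358794) (nat_lit 76) (nat_lit 8601410145) (nat_lit 29) (nat_lit 5) (nat_lit 33) (nat_lit 5) (nat_lit 30) (nat_lit 5) (nat_lit 294) (nat_lit 259) (nat_lit 167)) (XT.lf (nat_lit 0) (nat_lit 2909716321) (nat_lit 152) (nat_lit 13136028886) (nat_lit 228) (nat_lit 14294226241) (nat_lit 27) (nat_lit 5) (nat_lit 29) (nat_lit 5) (nat_lit 30) (nat_lit 5) (nat_lit 295) (nat_lit 259) (nat_lit 166)))) (XT.nd (nat_lit 156) (nat_lit 380) (nat_lit 0) (XT.nd (nat_lit 78) (nat_lit 0) (nat_lit 0) (XT.lf (nat_lit 0) (nat_lit 16073720045) (nat_lit 152) (nat_lit 5023977049) (nat_lit 228) (nat_lit 10317189514) (nat_lit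 27) (nat_lit 5) (nat_lit 29) (nat_lit 5) (nat_lit 30) (nat_lit 5) (nat_lit 296) (nat_lit 259) (nat_lit 165)) (XT.lf (nat_lit 0) (nat_lit 26448251954) (nat_lit 228) (nat_lit 2715014274) (nat_lit 76) (nat_lit 3377998387) (nat_lit 27) (nat_lit 5) (nat_lit 30) (nat_lit 5) (nat_lit 28) (nat_lit 5) (nat_lit 297) (nat_lit 259) (nat_lit 164))) (XT.nd (nat_lit 78) (nat_lit 228) (nat_lit 0) (XT.lf (nat_lit 0) (nat_lit 10793305573) (nat_lit 152) (nat_lit 21515768998) (nat_lit 228) (nat_lit 1402766486) (nat_lit 25) (nat_lit 5) (nat_lit 27) (nat_lit 5) (nat_lit 28) (nat_lit 5) (nat_lit 298) (nat_lit 259) (nat_lit 163)) (XT.nd (nat_lit 78) (nat_lit 152) (nat_lit 0) (XT.lf (nat_lit 0) (nat_lit 3447920202) (nat_lit 228) (nat_lit 9935406485) (nat_lit 76) (nat_lit 21552952523) (nat_lit 24) (nat_lit 5) (nat_lit 27) (nat_lit 5) (nat_lit 25) (nat_lit 5) (nat_lit 299) (nat_lit 259) (nat_lit 162)) (XT.lf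 (nat_lit 0) (nat_lit 3783238813) (nat_lit 152) (nat_lit 4762132070) (nat_lit 228) (nat_lit 27672864271) (nat_lit 22) (nat_lit 5) (nat_lit 24) (nat_lit 5) (nat_lit 25) (nat_lit 5) (nat_lit 300) (nat_lit 259) (nat_lit 161))))))) (XT.nd (nat_lit 702) (nat_lit 380) (nat_lit 0) (XT.nd (nat_lit 312) (nat_lit 304) (nat_lit 0) (XT.nd (nat_lit 156) (nat_lit 152) (nat_lit 0) (XT.nd (nat_lit 78) (nat_lit 0) (nat_lit 0) (XT.lf (nat_lit 0) (nat_lit 14128122337) (nat_lit 228) (nat_lit 19104731915) (nat_lit 76) (nat_lit 4319926834) (nat_lit 22) (nat_lit 5) (nat_lit 25) (nat_lit 5) (nat_lit 23) (nat_lit 5) (nat_lit 301) (nat_lit 259) (nat_lit 160)) (XT.lf (nat_lit 0) (nat_lit 20060867781) (nat_lit 228) (nat_lit 5197324970) (nat_lit 76) (nat_lit 13692331696) (nat_lit 22) (nat_lit 5) (nat_lit 25) (nat_lit 5) (nat_lit 23) (nat_lit 5) (nat_lit 302) (nat_lit 259) (nat_lit 159))) (XT.nd (nat_lit 78) (nat_lit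 0) (nat_lit 0) (XT.lf (nat_lit 0) (nat_lit 9705318391) (nat_lit 152) (nat_lit 16729591400) (nat_lit 228) (nat_lit 13976024558) (nat_lit 20) (nat_lit 5) (nat_lit 22) (nat_lit 5) (nat_lit 23) (nat_lit 5) (nat_lit 303) (nat_lit 259) (nat_lit 158)) (XT.lf (nat_lit 0) (nat_lit 25522942206) (nat_lit 152) (nat_lit 7686024673) (nat_lit 228) (nat_lit 8731343968) (nat_lit 20) (nat_lit 5) (nat_lit 22) (nat_lit 5) (nat_lit 23) (nat_lit 5) (nat_lit 304) (nat_lit 259) (nat_lit 157)))) (XT.nd (nat_lit 156) (nat_lit 152) (nat_lit 0) (XT.nd (nat_lit 78) (nat_lit 152) (nat_lit 0) (XT.lf (nat_lit 0) (nat_lit 40343536971) (nat_lit 228) (nat_lit 1453323302) (nat_lit 76) (nat_lit 1748216580) (nat_lit 20) (nat_lit 5) (nat_lit 23) (nat_lit 5) (nat_lit 21) (nat_lit 4) (nat_lit 305) (nat_lit 259) (nat_lit 156)) (XT.lf (nat_lit 0) (nat_lit 2874728814) (nat_lit 152) (nat_lit 30669045973) (nat_lit 76) (nat_lit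 11666616007) (nat_lit 18) (nat_lit 5) (nat_lit 20) (nat_lit 5) (nat_lit 19) (nat_lit 5) (nat_lit 306) (nat_lit 259) (nat_lit 155))) (XT.nd (nat_lit 78) (nat_lit 152) (nat_lit 0) (XT.lf (nat_lit 0) (nat_lit 9166129246) (nat_lit 152) (nat_lit 15634343710) (nat_lit 76) (nat_lit 22154937376) (nat_lit 18) (nat_lit 5) (nat_lit 20) (nat_lit 5) (nat_lit 19) (nat_lit 5) (nat_lit 307) (nat_lit 259) (nat_lit 154)) (XT.nd (nat_lit 78) (nat_lit 0) (nat_lit 0) (XT.lf (nat_lit 0) (nat_lit 147363923) (nat_lit 152) (nat_lit 15621222077) (nat_lit 228) (nat_lit 33019279739) (nat_lit 16) (nat_lit 5) (nat_lit 18) (nat_lit 5) (nat_lit 19) (nat_lit 5) (nat_lit 308) (nat_lit 259) (nat_lit 153)) (XT.lf (nat_lit 0) (nat_lit 17251652102) (nat_lit 152) (nat_lit 5708605977) (nat_lit 228) (nat_lit 27738739981) (nat_lit 16) (nat_lit 5) (nat_lit 18) (nat_lit 5) (nat_lit 19) (nat_lit 5) (nat_lit 309) (nat_lit 259)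 (nat_lit 152)))))) (XT.nd (nat_lit 312) (nat_lit 304) (nat_lit 0) (XT.nd (nat_lit 156) (nat_lit 76) (nat_lit 0) (XT.nd (nat_lit 78) (nat_lit 0) (nat_lit 0) (XT.lf (nat_lit 0) (nat_lit 30579422545) (nat_lit 228) (nat_lit 17576983510) (nat_lit 76) (nat_lit 4545893853) (nat_lit 16) (nat_lit 5) (nat_lit 19) (nat_lit 5) (nat_lit 17) (nat_lit 4) (nat_lit 310) (nat_lit 259) (nat_lit 151)) (XT.lf (nat_lit 0) (nat_lit 38667923433) (nat_lit 228) (nat_lit 1015331059) (nat_lit 76) (nat_lit 15118101400) (nat_lit 16) (nat_lit 5) (nat_lit 19) (nat_lit 5) (nat_lit 17) (nat_lit 4) (nat_lit 311) (nat_lit 259) (nat_lit 150))) (XT.nd (nat_lit 78) (nat_lit 0) (nat_lit 0) (XT.lf (nat_lit 0) (nat_lit 16907310770) (nat_lit 76) (nat_lit 30512551473) (nat_lit 152) (nat_lit 9572559361) (nat_lit 15) (nat_lit 5) (nat_lit 16) (nat_lit 5) (nat_lit 17) (nat_lit 4) (nat_lit 312) (nat_lit 259) (nat_lit 149)) (XT.lf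 (nat_lit 0) (nat_lit 35753234703) (nat_lit 76) (nat_lit 20868510403) (nat_lit 152) (nat_lit 2670685355) (nat_lit 15) (nat_lit 5) (nat_lit 16) (nat_lit 5) (nat_lit 17) (nat_lit 4) (nat_lit 313) (nat_lit 259) (nat_lit 148)))) (XT.nd (nat_lit 156) (nat_lit 76) (nat_lit 0) (XT.nd (nat_lit 78) (nat_lit 152) (nat_lit 0) (XT.lf (nat_lit 0) (nat_lit 4425113242) (nat_lit 152) (nat_lit 6245309725) (nat_lit 76) (nat_lit 51033685881) (nat_lit 14) (nat_lit 5) (nat_lit 16) (nat_lit 5) (nat_lit 15) (nat_lit 5) (nat_lit 314) (nat_lit 259) (nat_lit 147)) (XT.lf (nat_lit 0) (nat_lit 11977189387) (nat_lit 228) (nat_lit 51975040832) (nat_lit 76) (nat_lit 272396072) (nat_lit 12) (nat_lit 5) (nat_lit 15) (nat_lit 5) (nat_lit 13) (nat_lit 4) (nat_lit 315) (nat_lit 259) (nat_lit 146))) (XT.nd (nat_lit 78) (nat_lit 76) (nat_lit 0) (XT.lf (nat_lit 0) (nat_lit 20184870858) (nat_lit 228) (nat_lit 35164049754)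 (nat_lit 76) (nat_lit 11508354852) (nat_lit 12) (nat_lit 5) (nat_lit 15) (nat_lit 5) (nat_lit 13) (nat_lit 4) (nat_lit 316) (nat_lit 259) (nat_lit 145)) (XT.nd (nat_lit 78) (nat_lit 76) (nat_lit 0) (XT.lf (nat_lit 0) (nat_lit 28798722422) (nat_lit 228) (nat_lit 17519707323) (nat_lit 76) (nat_lit 23303343703) (nat_lit 12) (nat_lit 5) (nat_lit 15) (nat_lit 5) (nat_lit 13) (nat_lit 4) (nat_lit 317) (nat_lit 259) (nat_lit 144)) (XT.lf (nat_lit 0) (nat_lit 1033061209) (nat_lit 76) (nat_lit 36822321019) (nat_lit 152) (nat_lit 34668513702) (nat_lit 11) (nat_lit 5) (nat_lit 12) (nat_lit 5) (nat_lit 13) (nat_lit 4) (nat_lit 318) (nat_lit 259) (nat_lit 143))))))))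
noncomputable def xc170 : XT := (XT.nd (nat_lit 1326) (nat_lit 152) (nat_lit 0) (XT.nd (nat_lit 624) (nat_lit 228) (nat_lit 0) (XT.nd (nat_lit 312) (nat_lit 76) (nat_lit 0) (XT.nd (nat_lit 156) (nat_lit 76) (nat_lit 0) (XT.nd (nat_lit 78) (nat_lit 0) (nat_lit 0) (XT.lf (nat_lit 0) (nat_lit 21114967988) (nat_lit 76) (nat_lit 26542684247) (nat_lit 152) (nat_lit 27898838567) (nat_lit 11) (nat_lit 5) (nat_lit 12) (nat_lit 5) (nat_lit 13) (nat_lit 4) (nat_lit 319) (nat_lit 259) (nat_lit 142)) (XT.lf (nat_lit 0) (nat_lit 42194546431) (nat_lit 76) (nat_lit 15751748823) (nat_lit 152) (nat_lit 20794612070) (nat_lit 11) (nat_lit 5) (nat_lit 12) (nat_lit 5) (nat_lit 13) (nat_lit 4) (nat_lit 320) (nat_lit 259) (nat_lit 141))) (XT.nd (nat_lit 78) (nat_lit 76) (nat_lit 0) (XT.lf (nat_lit 0) (nat_lit 64321986011) (nat_lit 76) (nat_lit 4423822045) (nat_lit 152) (nat_lit 13338919385) (nat_lit 11) (nat_lit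 5) (nat_lit 12) (nat_lit 5) (nat_lit 13) (nat_lit 4) (nat_lit 321) (nat_lit 259) (nat_lit 140)) (XT.lf (nat_lit 0) (nat_lit 1898215776) (nat_lit 76) (nat_lit 78329921918) (nat_lit 76) (nat_lit 5360463238) (nat_lit 10) (nat_lit 4) (nat_lit 11) (nat_lit 5) (nat_lit 11) (nat_lit 4) (nat_lit 322) (nat_lit 259) (nat_lit 139)))) (XT.nd (nat_lit 156) (nat_lit 0) (nat_lit 0) (XT.nd (nat_lit 78) (nat_lit 0) (nat_lit 0) (XT.lf (nat_lit 0) (nat_lit 3295211252) (nat_lit 152) (nat_lit 66224263013) (nat_lit 76) (nat_lit 19727099942) (nat_lit 9) (nat_lit 5) (nat_lit 11) (nat_lit 5) (nat_lit 10) (nat_lit 4) (nat_lit 323) (nat_lit 259) (nat_lit 138)) (XT.lf (nat_lit 0) (nat_lit 12200267419) (nat_lit 152) (nat_lit 47978409679) (nat_lit 76) (nat_lit 32904541815) (nat_lit 9) (nat_lit 5) (nat_lit 11) (nat_lit 5) (nat_lit 10) (nat_lit 4) (nat_lit 324) (nat_lit 259) (nat_lit 137))) (XT.nd (nat_lit 78) (nat_lit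 0) (nat_lit 0) (XT.lf (nat_lit 0) (nat_lit 21547476079) (nat_lit 152) (nat_lit 28825690793) (nat_lit 76) (nat_lit 46738687642) (nat_lit 9) (nat_lit 5) (nat_lit 11) (nat_lit 5) (nat_lit 10) (nat_lit 4) (nat_lit 325) (nat_lit 259) (nat_lit 136)) (XT.lf (nat_lit 0) (nat_lit 31359092488) (nat_lit 152) (nat_lit 8720504644) (nat_lit 76) (nat_lit 61262475865) (nat_lit 9) (nat_lit 5) (nat_lit 11) (nat_lit 5) (nat_lit 10) (nat_lit 4) (nat_lit 326) (nat_lit 259) (nat_lit 135))))) (XT.nd (nat_lit 312) (nat_lit 152) (nat_lit 0) (XT.nd (nat_lit 156) (nat_lit 0) (nat_lit 0) (XT.nd (nat_lit 78) (nat_lit 0) (nat_lit 0) (XT.lf (nat_lit 0) (nat_lit 12794522893) (nat_lit 76) (nat_lit 29063713105) (nat_lit 152) (nat_lit 63915722399) (nat_lit 8) (nat_lit 5) (nat_lit 9) (nat_lit 5) (nat_lit 10) (nat_lit 4) (nat_lit 327) (nat_lit 259) (nat_lit 134)) (XT.lf (nat_lit 0) (nat_lit 35683214881) (nat_lit 76) (nat_lit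 17344053984) (nat_lit 152) (nat_lit 57392925740) (nat_lit 8) (nat_lit 5) (nat_lit 9) (nat_lit 5) (nat_lit 10) (nat_lit 4) (nat_lit 328) (nat_lit 259) (nat_lit 133))) (XT.nd (nat_lit 78) (nat_lit 0) (nat_lit 0) (XT.lf (nat_lit 0) (nat_lit 59711728938) (nat_lit 76) (nat_lit 5040401785) (nat_lit 152) (nat_lit 50546746030) (nat_lit 8) (nat_lit 5) (nat_lit 9) (nat_lit 5) (nat_lit 10) (nat_lit 4) (nat_lit 329) (nat_lit 259) (nat_lit 132)) (XT.lf (nat_lit 0) (nat_lit 77183712740) (nat_lit 152) (nat_lit 35607319772) (nat_lit 0) (nat_lit 7624439497) (nat_lit 8) (nat_lit 5) (nat_lit 10) (nat_lit 4) (nat_lit 8) (nat_lit 4) (nat_lit 330) (nat_lit 259) (nat_lit 131)))) (XT.nd (nat_lit 156) (nat_lit 76) (nat_lit 0) (XT.nd (nat_lit 78) (nat_lit 76) (nat_lit 0) (XT.lf (nat_lit 0) (nat_lit 90317096393) (nat_lit 152) (nat_lit 14715407046) (nat_lit 0) (nat_lit 20751385183) (nat_lit 8) (nat_lit 5) (nat_lit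 10) (nat_lit 4) (nat_lit 8) (nat_lit 4) (nat_lit 331) (nat_lit 259) (nat_lit 130)) (XT.lf (nat_lit 0) (nat_lit 7455655341) (nat_lit 76) (nat_lit 96765605177) (nat_lit 76) (nat_lit 27193762570) (nat_lit 7) (nat_lit 4) (nat_lit 8) (nat_lit 5) (nat_lit 8) (nat_lit 4) (nat_lit 332) (nat_lit 259) (nat_lit 129))) (XT.nd (nat_lit 78) (nat_lit 76) (nat_lit 0) (XT.lf (nat_lit 0) (nat_lit 31242148748) (nat_lit 76) (nat_lit 87825450846) (nat_lit 76) (nat_lit 18247768813) (nat_lit 7) (nat_lit 4) (nat_lit 8) (nat_lit 5) (nat_lit 8) (nat_lit 4) (nat_lit 333) (nat_lit 259) (nat_lit 128)) (XT.nd (nat_lit 78) (nat_lit 76) (nat_lit 0) (XT.lf (nat_lit 0) (nat_lit 56214149868) (nat_lit 76) (nat_lit 78439966903) (nat_lit 76) (nat_lit 8856723512) (nat_lit 7) (nat_lit 4) (nat_lit 8) (nat_lit 5) (nat_lit 8) (nat_lit 4) (nat_lit 334) (nat_lit 259) (nat_lit 127)) (XT.lf (nat_lit 0) (nat_lit 969671253) (nat_lit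 152) (nat_lit 67600713852) (nat_lit 76) (nat_lit 81445022741) (nat_lit 6) (nat_lit 5) (nat_lit 8) (nat_lit 5) (nat_lit 7) (nat_lit 4) (nat_lit 335) (nat_lit 259) (nat_lit 126))))))) (XT.nd (nat_lit 702) (nat_lit 76) (nat_lit 0) (XT.nd (nat_lit 312) (nat_lit 0) (nat_lit 0) (XT.nd (nat_lit 156) (nat_lit 76) (nat_lit 0) (XT.nd (nat_lit 78) (nat_lit 0) (nat_lit 0) (XT.lf (nat_lit 0) (nat_lit 10987767903) (nat_lit 152) (nat_lit 47068660035) (nat_lit 76) (nat_lit 98781616962) (nat_lit 6) (nat_lit 5) (nat_lit 8) (nat_lit 5) (nat_lit 7) (nat_lit 4) (nat_lit 336) (nat_lit 259) (nat_lit 125)) (XT.lf (nat_lit 0) (nat_lit 21504889511) (nat_lit 152) (nat_lit 25513364848) (nat_lit 76) (nat_lit 116983655374) (nat_lit 6) (nat_lit 5) (nat_lit 8) (nat_lit 5) (nat_lit 7) (nat_lit 4) (nat_lit 337) (nat_lit 259) (nat_lit 124))) (XT.nd (nat_lit 78) (nat_lit 76) (nat_lit 0) (XT.lf (nat_lit 0) (nat_lit 32546076844)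 (nat_lit 152) (nat_lit 2883506159) (nat_lit 76) (nat_lit 136094476162) (nat_lit 6) (nat_lit 5) (nat_lit 8) (nat_lit 5) (nat_lit 7) (nat_lit 4) (nat_lit 338) (nat_lit 259) (nat_lit 123)) (XT.lf (nat_lit 0) (nat_lit 21565011697) (nat_lit 76) (nat_lit 22909297013) (nat_lit 152) (nat_lit 134931259853) (nat_lit 5) (nat_lit 5) (nat_lit 6) (nat_lit 5) (nat_lit 7) (nat_lit 4) (nat_lit 339) (nat_lit 259) (nat_lit 122)))) (XT.nd (nat_lit 156) (nat_lit 0) (nat_lit 0) (XT.nd (nat_lit 78) (nat_lit 0) (nat_lit 0) (XT.lf (nat_lit 0) (nat_lit 47333064627) (nat_lit 76) (nat_lit 9713050376) (nat_lit 152) (nat_lit 130632681955) (nat_lit 5) (nat_lit 5) (nat_lit 6) (nat_lit 5) (nat_lit 7) (nat_lit 4) (nat_lit 340) (nat_lit 259) (nat_lit 121)) (XT.lf (nat_lit 0) (nat_lit 70309584647) (nat_lit 152) (nat_lit 122043768735) (nat_lit 0) (nat_lit 4009181329) (nat_lit 5) (nat_lit 5) (nat_lit 7) (nat_lit 4) (nat_lit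 5) (nat_lit 4) (nat_lit 341) (nat_lit 259) (nat_lit 120))) (XT.nd (nat_lit 78) (nat_lit 0) (nat_lit 0) (XT.lf (nat_lit 0) (nat_lit 84393923879) (nat_lit 152) (nat_lit 102988716523) (nat_lit 0) (nat_lit 18089935659) (nat_lit 5) (nat_lit 5) (nat_lit 7) (nat_lit 4) (nat_lit 5) (nat_lit 4) (nat_lit 342) (nat_lit 259) (nat_lit 119)) (XT.nd (nat_lit 78) (nat_lit 0) (nat_lit 0) (XT.lf (nat_lit 0) (nat_lit 99181018902) (nat_lit 152) (nat_lit 82983558584) (nat_lit 0) (nat_lit 32873616491) (nat_lit 5) (nat_lit 5) (nat_lit 7) (nat_lit 4) (nat_lit 5) (nat_lit 4) (nat_lit 343) (nat_lit 259) (nat_lit 118)) (XT.lf (nat_lit 0) (nat_lit 114706077086) (nat_lit 152) (nat_lit 61980663591) (nat_lit 0) (nat_lit 48395423064) (nat_lit 5) (nat_lit 5) (nat_lit 7) (nat_lit 4) (nat_lit 5) (nat_lit 4) (nat_lit 344) (nat_lit 259) (nat_lit 117)))))) (XT.nd (nat_lit 312) (nat_lit 0) (nat_lit 0) (XT.nd (nat_lit 156)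 (nat_lit 76) (nat_lit 0) (XT.nd (nat_lit 78) (nat_lit 0) (nat_lit 0) (XT.lf (nat_lit 0) (nat_lit 131006062856) (nat_lit 152) (nat_lit 39930024652) (nat_lit 0) (nat_lit 64692312062) (nat_lit 5) (nat_lit 5) (nat_lit 7) (nat_lit 4) (nat_lit 5) (nat_lit 4) (nat_lit 345) (nat_lit 259) (nat_lit 116)) (XT.lf (nat_lit 0) (nat_lit 148119785701) (nat_lit 152) (nat_lit 16779140244) (nat_lit 0) (nat_lit 81803085600) (nat_lit 5) (nat_lit 5) (nat_lit 7) (nat_lit 4) (nat_lit 5) (nat_lit 4) (nat_lit 346) (nat_lit 259) (nat_lit 115))) (XT.nd (nat_lit 78) (nat_lit 0) (nat_lit 0) (XT.lf (nat_lit 0) (nat_lit 7775991060) (nat_lit 76) (nat_lit 158433406531) (nat_lit 76) (nat_lit 92113897567) (nat_lit 4) (nat_lit 4) (nat_lit 5) (nat_lit 5) (nat_lit 5) (nat_lit 4) (nat_lit 347) (nat_lit 259) (nat_lit 114)) (XT.lf (nat_lit 0) (nat_lit 34139270315) (nat_lit 76) (nat_lit 151347204307) (nat_lit 76) (nat_lit 85025020234)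 (nat_lit 4) (nat_lit 4) (nat_lit 5) (nat_lit 5) (nat_lit 5) (nat_lit 4) (nat_lit 348) (nat_lit 259) (nat_lit 113)))) (XT.nd (nat_lit 156) (nat_lit 0) (nat_lit 0) (XT.nd (nat_lit 78) (nat_lit 0) (nat_lit 0) (XT.lf (nat_lit 0) (nat_lit 61818673080) (nat_lit 76) (nat_lit 143907610220) (nat_lit 76) (nat_lit 77582878425) (nat_lit 4) (nat_lit 4) (nat_lit 5) (nat_lit 5) (nat_lit 5) (nat_lit 4) (nat_lit 349) (nat_lit 259) (nat_lit 112)) (XT.lf (nat_lit 0) (nat_lit 90880102693) (nat_lit 76) (nat_lit 136096910952) (nat_lit 76) (nat_lit 69769752755) (nat_lit 4) (nat_lit 4) (nat_lit 5) (nat_lit 5) (nat_lit 5) (nat_lit 4) (nat_lit 350) (nat_lit 259) (nat_lit 111))) (XT.nd (nat_lit 78) (nat_lit 0) (nat_lit 0) (XT.lf (nat_lit 0) (nat_lit 121392753036) (nat_lit 76) (nat_lit 127896509599) (nat_lit 76) (nat_lit 61567040543) (nat_lit 4) (nat_lit 4) (nat_lit 5) (nat_lit 5) (nat_lit 5) (nat_lit 4) (nat_lit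 351) (nat_lit 259) (nat_lit 110)) (XT.nd (nat_lit 78) (nat_lit 0) (nat_lit 0) (XT.lf (nat_lit 0) (nat_lit 153429273275) (nat_lit 76) (nat_lit 119286881397) (nat_lit 76) (nat_lit 52955211522) (nat_lit 4) (nat_lit 4) (nat_lit 5) (nat_lit 5) (nat_lit 5) (nat_lit 4) (nat_lit 352) (nat_lit 259) (nat_lit 109)) (XT.lf (nat_lit 0) (nat_lit 187065940840) (nat_lit 76) (nat_lit 110247527230) (nat_lit 76) (nat_lit 43913761339) (nat_lit 4) (nat_lit 4) (nat_lit 5) (nat_lit 5) (nat_lit 5) (nat_lit 4) (nat_lit 353) (nat_lit 259) (nat_lit 108))))))))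
noncomputable def xc171 : XT := (XT.nd (nat_lit 31278) (nat_lit 0) (nat_lit 2356) (XT.nd (nat_lit 30576) (nat_lit 0) (nat_lit 4788) (XT.nd (nat_lit 30264) (nat_lit 0) (nat_lit 5244) (XT.nd (nat_lit 156) (nat_lit 0) (nat_lit 0) (XT.nd (nat_lit 78) (nat_lit 0) (nat_lit 0) (XT.lf (nat_lit 0) (nat_lit 222382843034) (nat_lit 76) (nat_lit 100756924828) (nat_lit 76) (nat_lit 34421162729) (nat_lit 4) (nat_lit 4) (nat_lit 5) (nat_lit 5) (nat_lit 5) (nat_lit 4) (nat_lit 354) (nat_lit 259) (nat_lit 107)) (XT.lf (nat_lit 0) (nat_lit 259464067720) (nat_lit 76) (nat_lit 90792477516) (nat_lit 76) (nat_lit 24454814268) (nat_lit 4) (nat_lit 4) (nat_lit 5) (nat_lit 5) (nat_lit 5) (nat_lit 4) (nat_lit 355) (nat_lit 259) (nat_lit 106))) (XT.nd (nat_lit 30030) (nat_lit 0) (nat_lit 5852) (XT.lf (nat_lit 0) (nat_lit 298397903529) (nat_lit 76) (nat_lit 80330460422) (nat_lit 76) (nat_lit 13990986555) (nat_lit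 4) (nat_lit 4) (nat_lit 5) (nat_lit 5) (nat_lit 5) (nat_lit 4) (nat_lit 356) (nat_lit 259) (nat_lit 105)) (XT.lf (nat_lit 0) (nat_lit 4683990213) (nat_lit 684) (nat_lit 472558779) (nat_lit 684) (nat_lit 472558779) (nat_lit 81) (nat_lit 3) (nat_lit 90) (nat_lit 3) (nat_lit 90) (nat_lit 5) (nat_lit 260) (nat_lit 260) (nat_lit 200)))) (XT.nd (nat_lit 156) (nat_lit 608) (nat_lit 0) (XT.nd (nat_lit 78) (nat_lit 0) (nat_lit 0) (XT.lf (nat_lit 76) (nat_lit 4040099703) (nat_lit 0) (nat_lit 6112141235) (nat_lit 684) (nat_lit 1358195231) (nat_lit 82) (nat_lit 5) (nat_lit 81) (nat_lit 3) (nat_lit 90) (nat_lit 5) (nat_lit 261) (nat_lit 260) (nat_lit 199)) (XT.lf (nat_lit 76) (nat_lit 9290425943) (nat_lit 0) (nat_lit 1669856655) (nat_lit 684) (nat_lit 815867673) (nat_lit 82) (nat_lit 5) (nat_lit 81) (nat_lit 3) (nat_lit 90) (nat_lit 5) (nat_lit 262) (nat_lit 260) (nat_lit 198))) (XT.nd (nat_lit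 78) (nat_lit 684) (nat_lit 0) (XT.lf (nat_lit 76) (nat_lit 2772116003) (nat_lit 0) (nat_lit 9096918389) (nat_lit 684) (nat_lit 183205855) (nat_lit 83) (nat_lit 5) (nat_lit 82) (nat_lit 5) (nat_lit 91) (nat_lit 5) (nat_lit 263) (nat_lit 260) (nat_lit 197)) (XT.lf (nat_lit 0) (nat_lit 506700764) (nat_lit 684) (nat_lit 4015202745) (nat_lit 760) (nat_lit 7817900935) (nat_lit 73) (nat_lit 5) (nat_lit 82) (nat_lit 5) (nat_lit 83) (nat_lit 5) (nat_lit 264) (nat_lit 260) (nat_lit 196))))) (XT.nd (nat_lit 312) (nat_lit 532) (nat_lit 0) (XT.nd (nat_lit 156) (nat_lit 0) (nat_lit 0) (XT.nd (nat_lit 78) (nat_lit 0) (nat_lit 0) (XT.lf (nat_lit 0) (nat_lit 1226247279) (nat_lit 684) (nat_lit 11105426027) (nat_lit 760) (nat_lit 309949500) (nat_lit 74) (nat_lit 5) (nat_lit 83) (nat_lit 5) (nat_lit 84) (nat_lit 5) (nat_lit 265) (nat_lit 260) (nat_lit 195)) (XT.lf (nat_lit 0) (nat_lit 2098441617) (nat_lit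 684) (nat_lit 5544940428) (nat_lit 760) (nat_lit 5309403371) (nat_lit 74) (nat_lit 5) (nat_lit 83) (nat_lit 5) (nat_lit 84) (nat_lit 5) (nat_lit 266) (nat_lit 260) (nat_lit 194))) (XT.nd (nat_lit 78) (nat_lit 0) (nat_lit 76) (XT.lf (nat_lit 76) (nat_lit 284455657) (nat_lit 0) (nat_lit 2708923339) (nat_lit 760) (nat_lit 10287253214) (nat_lit 75) (nat_lit 5) (nat_lit 74) (nat_lit 5) (nat_lit 84) (nat_lit 5) (nat_lit 267) (nat_lit 260) (nat_lit 193)) (XT.lf (nat_lit 0) (nat_lit 4042826114) (nat_lit 684) (nat_lit 7081808045) (nat_lit 760) (nat_lit 2494827820) (nat_lit 75) (nat_lit 5) (nat_lit 84) (nat_lit 5) (nat_lit 85) (nat_lit 5) (nat_lit 268) (nat_lit 260) (nat_lit 192)))) (XT.nd (nat_lit 156) (nat_lit 608) (nat_lit 0) (XT.nd (nat_lit 78) (nat_lit 0) (nat_lit 0) (XT.lf (nat_lit 0) (nat_lit 5166028731) (nat_lit 684) (nat_lit 934532592) (nat_lit 760) (nat_lit 7873682785) (nat_lit 75)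 (nat_lit 5) (nat_lit 84) (nat_lit 5) (nat_lit 85) (nat_lit 5) (nat_lit 269) (nat_lit 260) (nat_lit 191)) (XT.lf (nat_lit 76) (nat_lit 5684520207) (nat_lit 0) (nat_lit 727598339) (nat_lit 760) (nat_lit 7931381901) (nat_lit 76) (nat_lit 5) (nat_lit 75) (nat_lit 5) (nat_lit 85) (nat_lit 5) (nat_lit 270) (nat_lit 260) (nat_lit 190))) (XT.nd (nat_lit 78) (nat_lit 684) (nat_lit 0) (XT.lf (nat_lit 0) (nat_lit 7792138366) (nat_lit 684) (nat_lit 2158875358) (nat_lit 76) (nat_lit 4776692655) (nat_lit 76) (nat_lit 5) (nat_lit 85) (nat_lit 5) (nat_lit 77) (nat_lit 5) (nat_lit 271) (nat_lit 260) (nat_lit 189)) (XT.nd (nat_lit 78) (nat_lit 0) (nat_lit 0) (XT.lf (nat_lit 0) (nat_lit 4790060060) (nat_lit 684) (nat_lit 4517639682) (nat_lit 760) (nat_lit 5820160649) (nat_lit 67) (nat_lit 5) (nat_lit 76) (nat_lit 5) (nat_lit 77) (nat_lit 5) (nat_lit 272) (nat_lit 260) (nat_lit 188)) (XT.lf (nat_lit 0)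 (nat_lit 10935290696) (nat_lit 760) (nat_lit 3422284370) (nat_lit 76) (nat_lit 1188696190) (nat_lit 67) (nat_lit 5) (nat_lit 77) (nat_lit 5) (nat_lit 68) (nat_lit 5) (nat_lit 273) (nat_lit 260) (nat_lit 187))))))) (XT.nd (nat_lit 702) (nat_lit 1064) (nat_lit 0) (XT.nd (nat_lit 312) (nat_lit 608) (nat_lit 0) (XT.nd (nat_lit 156) (nat_lit 456) (nat_lit 0) (XT.nd (nat_lit 78) (nat_lit 0) (nat_lit 0) (XT.lf (nat_lit 0) (nat_lit 3871383984) (nat_lit 304) (nat_lit 8888857983) (nat_lit 380) (nat_lit 3219620445) (nat_lit 63) (nat_lit 5) (nat_lit 67) (nat_lit 5) (nat_lit 68) (nat_lit 5) (nat_lit 274) (nat_lit 260) (nat_lit 186)) (XT.lf (nat_lit 0) (nat_lit 11631359351) (nat_lit 304) (nat_lit 3085131057) (nat_lit 380) (nat_lit 1716696226) (nat_lit 63) (nat_lit 5) (nat_lit 67) (nat_lit 5) (nat_lit 68) (nat_lit 5) (nat_lit 275) (nat_lit 260) (nat_lit 185))) (XT.nd (nat_lit 78) (nat_lit 76) (nat_lit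 0) (XT.lf (nat_lit 0) (nat_lit 2898667784) (nat_lit 380) (nat_lit 13947070358) (nat_lit 456) (nat_lit 59732902) (nat_lit 58) (nat_lit 5) (nat_lit 63) (nat_lit 5) (nat_lit 64) (nat_lit 5) (nat_lit 276) (nat_lit 260) (nat_lit 184)) (XT.lf (nat_lit 0) (nat_lit 1742717392) (nat_lit 456) (nat_lit 6342161390) (nat_lit 76) (nat_lit 9309407129) (nat_lit 57) (nat_lit 5) (nat_lit 63) (nat_lit 5) (nat_lit 58) (nat_lit 5) (nat_lit 277) (nat_lit 260) (nat_lit 183)))) (XT.nd (nat_lit 156) (nat_lit 304) (nat_lit 0) (XT.nd (nat_lit 78) (nat_lit 0) (nat_lit 0) (XT.lf (nat_lit 0) (nat_lit 1743769433) (nat_lit 304) (nat_lit 1900720847) (nat_lit 380) (nat_lit 14262487966) (nat_lit 53) (nat_lit 5) (nat_lit 57) (nat_lit 5) (nat_lit 58) (nat_lit 5) (nat_lit 278) (nat_lit 260) (nat_lit 182)) (XT.lf (nat_lit 0) (nat_lit 5806696160) (nat_lit 380) (nat_lit 8076526195) (nat_lit 76) (nat_lit 4553859494) (nat_lit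 53) (nat_lit 5) (nat_lit 58) (nat_lit 5) (nat_lit 54) (nat_lit 5) (nat_lit 279) (nat_lit 260) (nat_lit 181))) (XT.nd (nat_lit 78) (nat_lit 0) (nat_lit 0) (XT.lf (nat_lit 0) (nat_lit 378976174) (nat_lit 304) (nat_lit 7720323763) (nat_lit 380) (nat_lit 10893318093) (nat_lit 49) (nat_lit 5) (nat_lit 53) (nat_lit 5) (nat_lit 54) (nat_lit 5) (nat_lit 280) (nat_lit 260) (nat_lit 180)) (XT.nd (nat_lit 78) (nat_lit 0) (nat_lit 0) (XT.lf (nat_lit 0) (nat_lit 9521433670) (nat_lit 304) (nat_lit 1107542478) (nat_lit 380) (nat_lit 8940872548) (nat_lit 49) (nat_lit 5) (nat_lit 53) (nat_lit 5) (nat_lit 54) (nat_lit 5) (nat_lit 281) (nat_lit 260) (nat_lit 179)) (XT.lf (nat_lit 0) (nat_lit 13362567721) (nat_lit 380) (nat_lit 1162180356) (nat_lit 76) (nat_lit 5647359138) (nat_lit 49) (nat_lit 5) (nat_lit 54) (nat_lit 5) (nat_lit 50) (nat_lit 5) (nat_lit 282) (nat_lit 260) (nat_lit 178)))))) (XT.nd (nat_lit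 312) (nat_lit 456) (nat_lit 0) (XT.nd (nat_lit 156) (nat_lit 380) (nat_lit 0) (XT.nd (nat_lit 78) (nat_lit 0) (nat_lit 0) (XT.lf (nat_lit 0) (nat_lit 8403813568) (nat_lit 228) (nat_lit 7965357523) (nat_lit 304) (nat_lit 4428527045) (nat_lit 46) (nat_lit 5) (nat_lit 49) (nat_lit 5) (nat_lit 50) (nat_lit 5) (nat_lit 283) (nat_lit 260) (nat_lit 177)) (XT.lf (nat_lit 0) (nat_lit 18473332815) (nat_lit 228) (nat_lit 1059807037) (nat_lit 304) (nat_lit 1921111362) (nat_lit 46) (nat_lit 5) (nat_lit 49) (nat_lit 5) (nat_lit 50) (nat_lit 5) (nat_lit 284) (nat_lit 260) (nat_lit 176))) (XT.nd (nat_lit 78) (nat_lit 0) (nat_lit 0) (XT.lf (nat_lit 0) (nat_lit 886158095) (nat_lit 380) (nat_lit 15132673488) (nat_lit 76) (nat_lit 6114412926) (nat_lit 41) (nat_lit 5) (nat_lit 46) (nat_lit 5) (nat_lit 42) (nat_lit 5) (nat_lit 285) (nat_lit 260) (nat_lit 175)) (XT.lf (nat_lit 0) (nat_lit 3825954717) (nat_lit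 380) (nat_lit 5323916589) (nat_lit 76) (nat_lit 13691934890) (nat_lit 41) (nat_lit 5) (nat_lit 46) (nat_lit 5) (nat_lit 42) (nat_lit 5) (nat_lit 286) (nat_lit 260) (nat_lit 174)))) (XT.nd (nat_lit 156) (nat_lit 228) (nat_lit 0) (XT.nd (nat_lit 78) (nat_lit 0) (nat_lit 0) (XT.lf (nat_lit 0) (nat_lit 5124844374) (nat_lit 228) (nat_lit 1856520318) (nat_lit 304) (nat_lit 16601028377) (nat_lit 38) (nat_lit 5) (nat_lit 41) (nat_lit 5) (nat_lit 42) (nat_lit 5) (nat_lit 287) (nat_lit 260) (nat_lit 173)) (XT.lf (nat_lit 0) (nat_lit 10465645264) (nat_lit 304) (nat_lit 8181437774) (nat_lit 76) (nat_lit 5704398174) (nat_lit 38) (nat_lit 5) (nat_lit 42) (nat_lit 5) (nat_lit 39) (nat_lit 5) (nat_lit 288) (nat_lit 260) (nat_lit 172))) (XT.nd (nat_lit 78) (nat_lit 0) (nat_lit 0) (XT.lf (nat_lit 0) (nat_lit 2648765089) (nat_lit 228) (nat_lit 11536574906) (nat_lit 304) (nat_lit 10970649409) (nat_lit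 35) (nat_lit 5) (nat_lit 38) (nat_lit 5) (nat_lit 39) (nat_lit 5) (nat_lit 289) (nat_lit 260) (nat_lit 171)) (XT.nd (nat_lit 78) (nat_lit 0) (nat_lit 0) (XT.lf (nat_lit 0) (nat_lit 14290689981) (nat_lit 228) (nat_lit 3928585157) (nat_lit 304) (nat_lit 7775059511) (nat_lit 35) (nat_lit 5) (nat_lit 38) (nat_lit 5) (nat_lit 39) (nat_lit 5) (nat_lit 290) (nat_lit 260) (nat_lit 170)) (XT.lf (nat_lit 0) (nat_lit 22508429083) (nat_lit 304) (nat_lit 436902910) (nat_lit 76) (nat_lit 3926612326) (nat_lit 35) (nat_lit 5) (nat_lit 39) (nat_lit 5) (nat_lit 36) (nat_lit 5) (nat_lit 291) (nat_lit 260) (nat_lit 169))))))))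
noncomputable def xc172 : XT := (XT.nd (nat_lit 1326) (nat_lit 684) (nat_lit 0) (XT.nd (nat_lit 624) (nat_lit 532) (nat_lit 0) (XT.nd (nat_lit 312) (nat_lit 304) (nat_lit 0) (XT.nd (nat_lit 156) (nat_lit 228) (nat_lit 0) (XT.nd (nat_lit 78) (nat_lit 76) (nat_lit 0) (XT.lf (nat_lit 0) (nat_lit 11689941214) (nat_lit 152) (nat_lit 15559622073) (nat_lit 228) (nat_lit 532017211) (nat_lit 33) (nat_lit 5) (nat_lit 35) (nat_lit 5) (nat_lit 36) (nat_lit 5) (nat_lit 292) (nat_lit 260) (nat_lit 168)) (XT.lf (nat_lit 0) (nat_lit 3377524892) (nat_lit 228) (nat_lit 4365760690) (nat_lit 76) (nat_lit 20990797505) (nat_lit 32) (nat_lit 5) (nat_lit 35) (nat_lit 5) (nat_lit 33) (nat_lit 5) (nat_lit 293) (nat_lit 260) (nat_lit 167))) (XT.nd (nat_lit 78) (nat_lit 0) (nat_lit 0) (XT.lf (nat_lit 0) (nat_lit 7593043220) (nat_lit 304) (nat_lit 21550014723) (nat_lit 76) (nat_lit 584317004) (nat_lit 29) (nat_lit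 5) (nat_lit 33) (nat_lit 5) (nat_lit 30) (nat_lit 5) (nat_lit 294) (nat_lit 260) (nat_lit 166)) (XT.lf (nat_lit 0) (nat_lit 12212726877) (nat_lit 304) (nat_lit 9408249154) (nat_lit 76) (nat_lit 9139704125) (nat_lit 29) (nat_lit 5) (nat_lit 33) (nat_lit 5) (nat_lit 30) (nat_lit 5) (nat_lit 295) (nat_lit 260) (nat_lit 165)))) (XT.nd (nat_lit 156) (nat_lit 152) (nat_lit 0) (XT.nd (nat_lit 78) (nat_lit 0) (nat_lit 0) (XT.lf (nat_lit 0) (nat_lit 3438594594) (nat_lit 152) (nat_lit 13670202378) (nat_lit 228) (nat_lit 14734600901) (nat_lit 27) (nat_lit 5) (nat_lit 29) (nat_lit 5) (nat_lit 30) (nat_lit 5) (nat_lit 296) (nat_lit 260) (nat_lit 164)) (XT.lf (nat_lit 0) (nat_lit 17242541720) (nat_lit 152) (nat_lit 5158387375) (nat_lit 228) (nat_lit 10571775988) (nat_lit 27) (nat_lit 5) (nat_lit 29) (nat_lit 5) (nat_lit 30) (nat_lit 5) (nat_lit 297) (nat_lit 260) (nat_lit 163))) (XT.nd (nat_lit 78)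 (nat_lit 152) (nat_lit 0) (XT.lf (nat_lit 0) (nat_lit 28008922212) (nat_lit 228) (nat_lit 2492442957) (nat_lit 76) (nat_lit 3654565511) (nat_lit 27) (nat_lit 5) (nat_lit 30) (nat_lit 5) (nat_lit 28) (nat_lit 5) (nat_lit 298) (nat_lit 260) (nat_lit 162)) (XT.lf (nat_lit 0) (nat_lit 11685513494) (nat_lit 152) (nat_lit 22471431040) (nat_lit 228) (nat_lit 1228406540) (nat_lit 25) (nat_lit 5) (nat_lit 27) (nat_lit 5) (nat_lit 28) (nat_lit 5) (nat_lit 299) (nat_lit 260) (nat_lit 161))))) (XT.nd (nat_lit 312) (nat_lit 304) (nat_lit 0) (XT.nd (nat_lit 156) (nat_lit 0) (nat_lit 0) (XT.nd (nat_lit 78) (nat_lit 152) (nat_lit 0) (XT.lf (nat_lit 0) (nat_lit 3845718878) (nat_lit 228) (nat_lit 10088550738) (nat_lit 76) (nat_lit 22737135078) (nat_lit 24) (nat_lit 5) (nat_lit 27) (nat_lit 5) (nat_lit 25) (nat_lit 5) (nat_lit 300) (nat_lit 260) (nat_lit 160)) (XT.lf (nat_lit 0) (nat_lit 4310484469) (nat_lit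 152) (nat_lit 4882102598) (nat_lit 228) (nat_lit 28825164041) (nat_lit 22) (nat_lit 5) (nat_lit 24) (nat_lit 5) (nat_lit 25) (nat_lit 5) (nat_lit 301) (nat_lit 260) (nat_lit 159))) (XT.nd (nat_lit 78) (nat_lit 0) (nat_lit 0) (XT.lf (nat_lit 0) (nat_lit 15045759001) (nat_lit 228) (nat_lit 19728887479) (nat_lit 76) (nat_lit 4644832684) (nat_lit 22) (nat_lit 5) (nat_lit 25) (nat_lit 5) (nat_lit 23) (nat_lit 5) (nat_lit 302) (nat_lit 260) (nat_lit 158)) (XT.lf (nat_lit 0) (nat_lit 21265083120) (nat_lit 228) (nat_lit 5141875951) (nat_lit 76) (nat_lit 14480671622) (nat_lit 22) (nat_lit 5) (nat_lit 25) (nat_lit 5) (nat_lit 23) (nat_lit 5) (nat_lit 303) (nat_lit 260) (nat_lit 157)))) (XT.nd (nat_lit 156) (nat_lit 152) (nat_lit 0) (XT.nd (nat_lit 78) (nat_lit 0) (nat_lit 0) (XT.lf (nat_lit 0) (nat_lit 10500813849) (nat_lit 152) (nat_lit 17452277318) (nat_lit 228) (nat_lit 14468223934) (nat_lit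 20) (nat_lit 5) (nat_lit 22) (nat_lit 5) (nat_lit 23) (nat_lit 5) (nat_lit 304) (nat_lit 260) (nat_lit 156)) (XT.lf (nat_lit 0) (nat_lit 27094546019) (nat_lit 152) (nat_lit 7961951000) (nat_lit 228) (nat_lit 8971147499) (nat_lit 20) (nat_lit 5) (nat_lit 22) (nat_lit 5) (nat_lit 23) (nat_lit 5) (nat_lit 305) (nat_lit 260) (nat_lit 155))) (XT.nd (nat_lit 78) (nat_lit 152) (nat_lit 0) (XT.lf (nat_lit 0) (nat_lit 42540498422) (nat_lit 228) (nat_lit 1236992763) (nat_lit 76) (nat_lit 1935538108) (nat_lit 20) (nat_lit 5) (nat_lit 23) (nat_lit 5) (nat_lit 21) (nat_lit 4) (nat_lit 306) (nat_lit 260) (nat_lit 154)) (XT.nd (nat_lit 78) (nat_lit 0) (nat_lit 0) (XT.lf (nat_lit 0) (nat_lit 3197295467) (nat_lit 152) (nat_lit 31911966720) (nat_lit 76) (nat_lit 12352423485) (nat_lit 18) (nat_lit 5) (nat_lit 20) (nat_lit 5) (nat_lit 19) (nat_lit 5) (nat_lit 307) (nat_lit 260) (nat_lit 153)) (XT.lf (nat_lit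 0) (nat_lit 9794750197) (nat_lit 152) (nat_lit 16139364180) (nat_lit 76) (nat_lit 23360281080) (nat_lit 18) (nat_lit 5) (nat_lit 20) (nat_lit 5) (nat_lit 19) (nat_lit 5) (nat_lit 308) (nat_lit 260) (nat_lit 152))))))) (XT.nd (nat_lit 702) (nat_lit 228) (nat_lit 0) (XT.nd (nat_lit 312) (nat_lit 304) (nat_lit 0) (XT.nd (nat_lit 156) (nat_lit 0) (nat_lit 0) (XT.nd (nat_lit 78) (nat_lit 0) (nat_lit 0) (XT.lf (nat_lit 0) (nat_lit 426965985) (nat_lit 152) (nat_lit 16296503923) (nat_lit 228) (nat_lit 34495209561) (nat_lit 16) (nat_lit 5) (nat_lit 18) (nat_lit 5) (nat_lit 19) (nat_lit 5) (nat_lit 309) (nat_lit 260) (nat_lit 151)) (XT.lf (nat_lit 0) (nat_lit 18373505055) (nat_lit 152) (nat_lit 5893294126) (nat_lit 228) (nat_lit 28958977776) (nat_lit 16) (nat_lit 5) (nat_lit 18) (nat_lit 5) (nat_lit 19) (nat_lit 5) (nat_lit 310) (nat_lit 260) (nat_lit 150))) (XT.nd (nat_lit 78) (nat_lit 0) (nat_lit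 0) (XT.lf (nat_lit 0) (nat_lit 32260870878) (nat_lit 228) (nat_lit 18202624602) (nat_lit 76) (nat_lit 4866062614) (nat_lit 16) (nat_lit 5) (nat_lit 19) (nat_lit 5) (nat_lit 17) (nat_lit 4) (nat_lit 311) (nat_lit 260) (nat_lit 149)) (XT.lf (nat_lit 0) (nat_lit 40746535991) (nat_lit 228) (nat_lit 824947056) (nat_lit 76) (nat_lit 15962457964) (nat_lit 16) (nat_lit 5) (nat_lit 19) (nat_lit 5) (nat_lit 17) (nat_lit 4) (nat_lit 312) (nat_lit 260) (nat_lit 148)))) (XT.nd (nat_lit 156) (nat_lit 228) (nat_lit 0) (XT.nd (nat_lit 78) (nat_lit 0) (nat_lit 0) (XT.lf (nat_lit 0) (nat_lit 17989937339) (nat_lit 76) (nat_lit 31942923646) (nat_lit 152) (nat_lit 9901870126) (nat_lit 15) (nat_lit 5) (nat_lit 16) (nat_lit 5) (nat_lit 17) (nat_lit 4) (nat_lit 313) (nat_lit 260) (nat_lit 147)) (XT.lf (nat_lit 0) (nat_lit 37766859324) (nat_lit 76) (nat_lit 21821216494) (nat_lit 152) (nat_lit 2662012763) (nat_lit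 15) (nat_lit 5) (nat_lit 16) (nat_lit 5) (nat_lit 17) (nat_lit 4) (nat_lit 314) (nat_lit 260) (nat_lit 146))) (XT.nd (nat_lit 78) (nat_lit 152) (nat_lit 0) (XT.lf (nat_lit 0) (nat_lit 4777469239) (nat_lit 152) (nat_lit 6337855172) (nat_lit 76) (nat_lit 53667252340) (nat_lit 14) (nat_lit 5) (nat_lit 16) (nat_lit 5) (nat_lit 15) (nat_lit 5) (nat_lit 315) (nat_lit 260) (nat_lit 145)) (XT.nd (nat_lit 78) (nat_lit 0) (nat_lit 0) (XT.lf (nat_lit 0) (nat_lit 12705654480) (nat_lit 228) (nat_lit 54352404293) (nat_lit 76) (nat_lit 371144721) (nat_lit 12) (nat_lit 5) (nat_lit 15) (nat_lit 5) (nat_lit 13) (nat_lit 4) (nat_lit 316) (nat_lit 260) (nat_lit 144)) (XT.lf (nat_lit 0) (nat_lit 21317548329) (nat_lit 228) (nat_lit 36711405974) (nat_lit 76) (nat_lit 12164847686) (nat_lit 12) (nat_lit 5) (nat_lit 15) (nat_lit 5) (nat_lit 13) (nat_lit 4) (nat_lit 317) (nat_lit 260) (nat_lit 143)))))) (XT.nd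 (nat_lit 312) (nat_lit 152) (nat_lit 0) (XT.nd (nat_lit 156) (nat_lit 0) (nat_lit 0) (XT.nd (nat_lit 78) (nat_lit 76) (nat_lit 0) (XT.lf (nat_lit 0) (nat_lit 30356214665) (nat_lit 228) (nat_lit 18194886720) (nat_lit 76) (nat_lit 24545725260) (nat_lit 12) (nat_lit 5) (nat_lit 15) (nat_lit 5) (nat_lit 13) (nat_lit 4) (nat_lit 318) (nat_lit 260) (nat_lit 142)) (XT.lf (nat_lit 0) (nat_lit 1282281432) (nat_lit 76) (nat_lit 38580912695) (nat_lit 152) (nat_lit 36280994298) (nat_lit 11) (nat_lit 5) (nat_lit 12) (nat_lit 5) (nat_lit 13) (nat_lit 4) (nat_lit 319) (nat_lit 260) (nat_lit 141))) (XT.nd (nat_lit 78) (nat_lit 0) (nat_lit 0) (XT.lf (nat_lit 0) (nat_lit 22358875590) (nat_lit 76) (nat_lit 27791223816) (nat_lit 152) (nat_lit 29178594697) (nat_lit 11) (nat_lit 5) (nat_lit 12) (nat_lit 5) (nat_lit 13) (nat_lit 4) (nat_lit 320) (nat_lit 260) (nat_lit 140)) (XT.lf (nat_lit 0) (nat_lit 44483472993)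 (nat_lit 76) (nat_lit 16464484224) (nat_lit 152) (nat_lit 21724641913) (nat_lit 11) (nat_lit 5) (nat_lit 12) (nat_lit 5) (nat_lit 13) (nat_lit 4) (nat_lit 321) (nat_lit 260) (nat_lit 139)))) (XT.nd (nat_lit 156) (nat_lit 76) (nat_lit 0) (XT.nd (nat_lit 78) (nat_lit 76) (nat_lit 0) (XT.lf (nat_lit 0) (nat_lit 67708751255) (nat_lit 76) (nat_lit 4573725490) (nat_lit 152) (nat_lit 13901388440) (nat_lit 11) (nat_lit 5) (nat_lit 12) (nat_lit 5) (nat_lit 13) (nat_lit 4) (nat_lit 322) (nat_lit 260) (nat_lit 138)) (XT.lf (nat_lit 0) (nat_lit 2164961176) (nat_lit 76) (nat_lit 82172972209) (nat_lit 76) (nat_lit 5525054616) (nat_lit 10) (nat_lit 4) (nat_lit 11) (nat_lit 5) (nat_lit 11) (nat_lit 4) (nat_lit 323) (nat_lit 260) (nat_lit 137))) (XT.nd (nat_lit 78) (nat_lit 0) (nat_lit 0) (XT.lf (nat_lit 0) (nat_lit 3555325454) (nat_lit 152) (nat_lit 69368559278) (nat_lit 76) (nat_lit 20780138450) (nat_lit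 9) (nat_lit 5) (nat_lit 11) (nat_lit 5) (nat_lit 10) (nat_lit 4) (nat_lit 324) (nat_lit 260) (nat_lit 136)) (XT.nd (nat_lit 78) (nat_lit 0) (nat_lit 0) (XT.lf (nat_lit 0) (nat_lit 12901093780) (nat_lit 152) (nat_lit 50218361700) (nat_lit 76) (nat_lit 34613277012) (nat_lit 9) (nat_lit 5) (nat_lit 11) (nat_lit 5) (nat_lit 10) (nat_lit 4) (nat_lit 325) (nat_lit 260) (nat_lit 135)) (XT.lf (nat_lit 0) (nat_lit 22711338444) (nat_lit 152) (nat_lit 30115576797) (nat_lit 76) (nat_lit 49136105935) (nat_lit 9) (nat_lit 5) (nat_lit 11) (nat_lit 5) (nat_lit 10) (nat_lit 4) (nat_lit 326) (nat_lit 260) (nat_lit 134))))))))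
noncomputable def xc173 : XT := (XT.nd (nat_lit 1326) (nat_lit 76) (nat_lit 0) (XT.nd (nat_lit 624) (nat_lit 152) (nat_lit 0) (XT.nd (nat_lit 312) (nat_lit 76) (nat_lit 0) (XT.nd (nat_lit 156) (nat_lit 0) (nat_lit 0) (XT.nd (nat_lit 78) (nat_lit 76) (nat_lit 0) (XT.lf (nat_lit 0) (nat_lit 33009417172) (nat_lit 152) (nat_lit 9012340795) (nat_lit 76) (nat_lit 64383203383) (nat_lit 9) (nat_lit 5) (nat_lit 11) (nat_lit 5) (nat_lit 10) (nat_lit 4) (nat_lit 327) (nat_lit 260) (nat_lit 133)) (XT.lf (nat_lit 0) (nat_lit 13576112489) (nat_lit 76) (nat_lit 30455697871) (nat_lit 152) (nat_lit 67026720644) (nat_lit 8) (nat_lit 5) (nat_lit 9) (nat_lit 5) (nat_lit 10) (nat_lit 4) (nat_lit 328) (nat_lit 260) (nat_lit 132))) (XT.nd (nat_lit 78) (nat_lit 0) (nat_lit 0) (XT.lf (nat_lit 0) (nat_lit 37602483674) (nat_lit 76) (nat_lit 18152970122) (nat_lit 152) (nat_lit 60181821670) (nat_lit 8) (nat_lit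 5) (nat_lit 9) (nat_lit 5) (nat_lit 10) (nat_lit 4) (nat_lit 329) (nat_lit 260) (nat_lit 131)) (XT.lf (nat_lit 0) (nat_lit 62825989717) (nat_lit 76) (nat_lit 5236910864) (nat_lit 152) (nat_lit 52997178230) (nat_lit 8) (nat_lit 5) (nat_lit 9) (nat_lit 5) (nat_lit 10) (nat_lit 4) (nat_lit 330) (nat_lit 260) (nat_lit 130)))) (XT.nd (nat_lit 156) (nat_lit 76) (nat_lit 0) (XT.nd (nat_lit 78) (nat_lit 0) (nat_lit 0) (XT.lf (nat_lit 0) (nat_lit 81113403142) (nat_lit 152) (nat_lit 37262400589) (nat_lit 0) (nat_lit 8056837008) (nat_lit 8) (nat_lit 5) (nat_lit 10) (nat_lit 4) (nat_lit 8) (nat_lit 4) (nat_lit 331) (nat_lit 260) (nat_lit 129)) (XT.lf (nat_lit 0) (nat_lit 94900098608) (nat_lit 152) (nat_lit 15331858187) (nat_lit 0) (nat_lit 21837693047) (nat_lit 8) (nat_lit 5) (nat_lit 10) (nat_lit 4) (nat_lit 8) (nat_lit 4) (nat_lit 332) (nat_lit 260) (nat_lit 128))) (XT.nd (nat_lit 78) (nat_lit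 0) (nat_lit 0) (XT.lf (nat_lit 0) (nat_lit 7945832816) (nat_lit 76) (nat_lit 101552273488) (nat_lit 76) (nat_lit 28484306570) (nat_lit 7) (nat_lit 4) (nat_lit 8) (nat_lit 5) (nat_lit 8) (nat_lit 4) (nat_lit 333) (nat_lit 260) (nat_lit 127)) (XT.lf (nat_lit 0) (nat_lit 32916060670) (nat_lit 76) (nat_lit 92167569152) (nat_lit 76) (nat_lit 19094305703) (nat_lit 7) (nat_lit 4) (nat_lit 8) (nat_lit 5) (nat_lit 8) (nat_lit 4) (nat_lit 334) (nat_lit 260) (nat_lit 126))))) (XT.nd (nat_lit 312) (nat_lit 76) (nat_lit 0) (XT.nd (nat_lit 156) (nat_lit 0) (nat_lit 0) (XT.nd (nat_lit 78) (nat_lit 76) (nat_lit 0) (XT.lf (nat_lit 0) (nat_lit 59131337823) (nat_lit 76) (nat_lit 82315151690) (nat_lit 76) (nat_lit 9236843925) (nat_lit 7) (nat_lit 4) (nat_lit 8) (nat_lit 5) (nat_lit 8) (nat_lit 4) (nat_lit 335) (nat_lit 260) (nat_lit 125)) (XT.lf (nat_lit 0) (nat_lit 1075972403) (nat_lit 152) (nat_lit 70877368447)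 (nat_lit 76) (nat_lit 85559887085) (nat_lit 6) (nat_lit 5) (nat_lit 8) (nat_lit 5) (nat_lit 7) (nat_lit 4) (nat_lit 336) (nat_lit 260) (nat_lit 124))) (XT.nd (nat_lit 78) (nat_lit 0) (nat_lit 0) (XT.lf (nat_lit 0) (nat_lit 11592220667) (nat_lit 152) (nat_lit 49323634849) (nat_lit 76) (nat_lit 103761281817) (nat_lit 6) (nat_lit 5) (nat_lit 8) (nat_lit 5) (nat_lit 7) (nat_lit 4) (nat_lit 337) (nat_lit 260) (nat_lit 123)) (XT.lf (nat_lit 0) (nat_lit 22632576243) (nat_lit 152) (nat_lit 26695263388) (nat_lit 76) (nat_lit 122871489577) (nat_lit 6) (nat_lit 5) (nat_lit 8) (nat_lit 5) (nat_lit 7) (nat_lit 4) (nat_lit 338) (nat_lit 260) (nat_lit 122)))) (XT.nd (nat_lit 156) (nat_lit 0) (nat_lit 0) (XT.nd (nat_lit 78) (nat_lit 76) (nat_lit 0) (XT.lf (nat_lit 0) (nat_lit 34223325692) (nat_lit 152) (nat_lit 2938376989) (nat_lit 76) (nat_lit 142936010860) (nat_lit 6) (nat_lit 5) (nat_lit 8) (nat_lit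 5) (nat_lit 7) (nat_lit 4) (nat_lit 339) (nat_lit 260) (nat_lit 121)) (XT.lf (nat_lit 0) (nat_lit 22731126366) (nat_lit 76) (nat_lit 24015836257) (nat_lit 152) (nat_lit 141626388557) (nat_lit 5) (nat_lit 5) (nat_lit 6) (nat_lit 5) (nat_lit 7) (nat_lit 4) (nat_lit 340) (nat_lit 260) (nat_lit 120))) (XT.nd (nat_lit 78) (nat_lit 0) (nat_lit 0) (XT.lf (nat_lit 0) (nat_lit 49783397939) (nat_lit 76) (nat_lit 10161630888) (nat_lit 152) (nat_lit 137115331016) (nat_lit 5) (nat_lit 5) (nat_lit 6) (nat_lit 5) (nat_lit 7) (nat_lit 4) (nat_lit 341) (nat_lit 260) (nat_lit 119)) (XT.nd (nat_lit 78) (nat_lit 0) (nat_lit 0) (XT.lf (nat_lit 0) (nat_lit 73870003757) (nat_lit 152) (nat_lit 128064549319) (nat_lit 0) (nat_lit 4243817034) (nat_lit 5) (nat_lit 5) (nat_lit 7) (nat_lit 4) (nat_lit 5) (nat_lit 4) (nat_lit 342) (nat_lit 260) (nat_lit 118)) (XT.lf (nat_lit 0) (nat_lit 88656419956) (nat_lit 152)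 (nat_lit 108060621060) (nat_lit 0) (nat_lit 19026981622) (nat_lit 5) (nat_lit 5) (nat_lit 7) (nat_lit 4) (nat_lit 5) (nat_lit 4) (nat_lit 343) (nat_lit 260) (nat_lit 117))))))) (XT.nd (nat_lit 702) (nat_lit 0) (nat_lit 0) (XT.nd (nat_lit 312) (nat_lit 76) (nat_lit 0) (XT.nd (nat_lit 156) (nat_lit 0) (nat_lit 0) (XT.nd (nat_lit 78) (nat_lit 0) (nat_lit 0) (XT.lf (nat_lit 0) (nat_lit 104180831641) (nat_lit 152) (nat_lit 87058897191) (nat_lit 0) (nat_lit 34548296535) (nat_lit 5) (nat_lit 5) (nat_lit 7) (nat_lit 4) (nat_lit 5) (nat_lit 4) (nat_lit 344) (nat_lit 260) (nat_lit 116)) (XT.lf (nat_lit 0) (nat_lit 120480201696) (nat_lit 152) (nat_lit 65009373607) (nat_lit 0) (nat_lit 50844717283) (nat_lit 5) (nat_lit 5) (nat_lit 7) (nat_lit 4) (nat_lit 5) (nat_lit 4) (nat_lit 345) (nat_lit 260) (nat_lit 115))) (XT.nd (nat_lit 78) (nat_lit 0) (nat_lit 0) (XT.lf (nat_lit 0) (nat_lit 137593338147)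 (nat_lit 152) (nat_lit 41859551442) (nat_lit 0) (nat_lit 67955044870) (nat_lit 5) (nat_lit 5) (nat_lit 7) (nat_lit 4) (nat_lit 5) (nat_lit 4) (nat_lit 346) (nat_lit 260) (nat_lit 114)) (XT.lf (nat_lit 0) (nat_lit 155560986555) (nat_lit 152) (nat_lit 17554312073) (nat_lit 0) (nat_lit 85920018171) (nat_lit 5) (nat_lit 5) (nat_lit 7) (nat_lit 4) (nat_lit 5) (nat_lit 4) (nat_lit 347) (nat_lit 260) (nat_lit 113)))) (XT.nd (nat_lit 156) (nat_lit 0) (nat_lit 0) (XT.nd (nat_lit 78) (nat_lit 0) (nat_lit 0) (XT.lf (nat_lit 0) (nat_lit 8227547003) (nat_lit 76) (nat_lit 166326835100) (nat_lit 76) (nat_lit 96683318993) (nat_lit 4) (nat_lit 4) (nat_lit 5) (nat_lit 5) (nat_lit 5) (nat_lit 4) (nat_lit 348) (nat_lit 260) (nat_lit 112)) (XT.lf (nat_lit 0) (nat_lit 35906001821) (nat_lit 76) (nat_lit 158887667610) (nat_lit 76) (nat_lit 89241725100) (nat_lit 4) (nat_lit 4) (nat_lit 5) (nat_lit 5) (nat_lit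 5) (nat_lit 4) (nat_lit 349) (nat_lit 260) (nat_lit 111))) (XT.nd (nat_lit 78) (nat_lit 0) (nat_lit 0) (XT.lf (nat_lit 0) (nat_lit 64966528629) (nat_lit 76) (nat_lit 151077374624) (nat_lit 76) (nat_lit 81429121256) (nat_lit 4) (nat_lit 4) (nat_lit 5) (nat_lit 5) (nat_lit 5) (nat_lit 4) (nat_lit 350) (nat_lit 260) (nat_lit 110)) (XT.nd (nat_lit 78) (nat_lit 0) (nat_lit 0) (XT.lf (nat_lit 0) (nat_lit 95478319157) (nat_lit 76) (nat_lit 142877360207) (nat_lit 76) (nat_lit 73226906020) (nat_lit 4) (nat_lit 4) (nat_lit 5) (nat_lit 5) (nat_lit 5) (nat_lit 4) (nat_lit 351) (nat_lit 260) (nat_lit 109)) (XT.lf (nat_lit 0) (nat_lit 127514020525) (nat_lit 76) (nat_lit 134268100515) (nat_lit 76) (nat_lit 64615550311) (nat_lit 4) (nat_lit 4) (nat_lit 5) (nat_lit 5) (nat_lit 5) (nat_lit 4) (nat_lit 352) (nat_lit 260) (nat_lit 108)))))) (XT.nd (nat_lit 30342) (nat_lit 0) (nat_lit 5168) (XT.nd (nat_lit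 156) (nat_lit 0) (nat_lit 0) (XT.nd (nat_lit 78) (nat_lit 0) (nat_lit 0) (XT.lf (nat_lit 0) (nat_lit 161149908212) (nat_lit 76) (nat_lit 125229097310) (nat_lit 76) (nat_lit 55574550899) (nat_lit 4) (nat_lit 4) (nat_lit 5) (nat_lit 5) (nat_lit 5) (nat_lit 4) (nat_lit 353) (nat_lit 260) (nat_lit 107)) (XT.lf (nat_lit 0) (nat_lit 196466067666) (nat_lit 76) (nat_lit 115738829157) (nat_lit 76) (nat_lit 46082381597) (nat_lit 4) (nat_lit 4) (nat_lit 5) (nat_lit 5) (nat_lit 5) (nat_lit 4) (nat_lit 354) (nat_lit 260) (nat_lit 106))) (XT.nd (nat_lit 78) (nat_lit 0) (nat_lit 0) (XT.lf (nat_lit 0) (nat_lit 233546584980) (nat_lit 76) (nat_lit 105774700179) (nat_lit 76) (nat_lit 36116442000) (nat_lit 4) (nat_lit 4) (nat_lit 5) (nat_lit 5) (nat_lit 5) (nat_lit 4) (nat_lit 355) (nat_lit 260) (nat_lit 105)) (XT.lf (nat_lit 0) (nat_lit 272479747101) (nat_lit 76) (nat_lit 95312986259) (nat_lit 76) (nat_lit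 25653003681) (nat_lit 4) (nat_lit 4) (nat_lit 5) (nat_lit 5) (nat_lit 5) (nat_lit 4) (nat_lit 356) (nat_lit 260) (nat_lit 104)))) (XT.nd (nat_lit 156) (nat_lit 684) (nat_lit 0) (XT.nd (nat_lit 78) (nat_lit 0) (nat_lit 0) (XT.lf (nat_lit 0) (nat_lit 5397570265) (nat_lit 684) (nat_lit 243659596) (nat_lit 684) (nat_lit 243659596) (nat_lit 81) (nat_lit 3) (nat_lit 90) (nat_lit 3) (nat_lit 90) (nat_lit 5) (nat_lit 261) (nat_lit 261) (nat_lit 198)) (XT.lf (nat_lit 76) (nat_lit 4739012897) (nat_lit 0) (nat_lit 6841704010) (nat_lit 684) (nat_lit 455950871) (nat_lit 82) (nat_lit 5) (nat_lit 81) (nat_lit 3) (nat_lit 90) (nat_lit 5) (nat_lit 262) (nat_lit 261) (nat_lit 197))) (XT.nd (nat_lit 78) (nat_lit 0) (nat_lit 76) (XT.lf (nat_lit 0) (nat_lit 65141381) (nat_lit 684) (nat_lit 2090872252) (nat_lit 760) (nat_lit 10161948571) (nat_lit 72) (nat_lit 5) (nat_lit 81) (nat_lit 3) (nat_lit 82) (nat_lit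 5) (nat_lit 263) (nat_lit 261) (nat_lit 196)) (XT.nd (nat_lit 78) (nat_lit 0) (nat_lit 0) (XT.lf (nat_lit 0) (nat_lit 667702848) (nat_lit 684) (nat_lit 9192086930) (nat_lit 760) (nat_lit 2749712162) (nat_lit 73) (nat_lit 5) (nat_lit 82) (nat_lit 5) (nat_lit 83) (nat_lit 5) (nat_lit 264) (nat_lit 261) (nat_lit 195)) (XT.lf (nat_lit 0) (nat_lit 1345285401) (nat_lit 684) (nat_lit 3693067500) (nat_lit 760) (nat_lit 7875107968) (nat_lit 73) (nat_lit 5) (nat_lit 82) (nat_lit 5) (nat_lit 83) (nat_lit 5) (nat_lit 265) (nat_lit 261) (nat_lit 194))))))))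
noncomputable def xc174 : XT := (XT.nd (nat_lit 1326) (nat_lit 1824) (nat_lit 0) (XT.nd (nat_lit 624) (nat_lit 1368) (nat_lit 0) (XT.nd (nat_lit 312) (nat_lit 532) (nat_lit 0) (XT.nd (nat_lit 156) (nat_lit 0) (nat_lit 0) (XT.nd (nat_lit 78) (nat_lit 0) (nat_lit 0) (XT.lf (nat_lit 0) (nat_lit 2065929559) (nat_lit 684) (nat_lit 11100378150) (nat_lit 760) (nat_lit 65933630) (nat_lit 74) (nat_lit 5) (nat_lit 83) (nat_lit 5) (nat_lit 84) (nat_lit 5) (nat_lit 266) (nat_lit 261) (nat_lit 193)) (XT.lf (nat_lit 0) (nat_lit 2944668379) (nat_lit 684) (nat_lit 5288550138) (nat_lit 760) (nat_lit 5327717973) (nat_lit 74) (nat_lit 5) (nat_lit 83) (nat_lit 5) (nat_lit 84) (nat_lit 5) (nat_lit 267) (nat_lit 261) (nat_lit 192))) (XT.nd (nat_lit 78) (nat_lit 0) (nat_lit 76) (XT.lf (nat_lit 76) (nat_lit 823708699) (nat_lit 0) (nat_lit 3033540899) (nat_lit 760) (nat_lit 10049396556) (nat_lit 75) (nat_lit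 5) (nat_lit 74) (nat_lit 5) (nat_lit 84) (nat_lit 5) (nat_lit 268) (nat_lit 261) (nat_lit 191)) (XT.lf (nat_lit 0) (nat_lit 4922346616) (nat_lit 684) (nat_lit 6896849475) (nat_lit 760) (nat_lit 2445172328) (nat_lit 75) (nat_lit 5) (nat_lit 84) (nat_lit 5) (nat_lit 85) (nat_lit 5) (nat_lit 269) (nat_lit 261) (nat_lit 190)))) (XT.nd (nat_lit 156) (nat_lit 608) (nat_lit 0) (XT.nd (nat_lit 78) (nat_lit 0) (nat_lit 0) (XT.lf (nat_lit 0) (nat_lit 6069453212) (nat_lit 684) (nat_lit 467879248) (nat_lit 760) (nat_lit 8101274655) (nat_lit 75) (nat_lit 5) (nat_lit 84) (nat_lit 5) (nat_lit 85) (nat_lit 5) (nat_lit 270) (nat_lit 261) (nat_lit 189)) (XT.lf (nat_lit 76) (nat_lit 6473845869) (nat_lit 0) (nat_lit 881167524) (nat_lit 760) (nat_lit 7672554251) (nat_lit 76) (nat_lit 5) (nat_lit 75) (nat_lit 5) (nat_lit 85) (nat_lit 5) (nat_lit 271) (nat_lit 261) (nat_lit 188))) (XT.nd (nat_lit 78) (nat_lit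 684) (nat_lit 0) (XT.lf (nat_lit 0) (nat_lit 8772658872) (nat_lit 684) (nat_lit 1752498051) (nat_lit 76) (nat_lit 4907490640) (nat_lit 76) (nat_lit 5) (nat_lit 85) (nat_lit 5) (nat_lit 77) (nat_lit 5) (nat_lit 272) (nat_lit 261) (nat_lit 187)) (XT.lf (nat_lit 0) (nat_lit 5535588638) (nat_lit 684) (nat_lit 4808171416) (nat_lit 760) (nat_lit 5510151539) (nat_lit 67) (nat_lit 5) (nat_lit 76) (nat_lit 5) (nat_lit 77) (nat_lit 5) (nat_lit 273) (nat_lit 261) (nat_lit 186))))) (XT.nd (nat_lit 312) (nat_lit 608) (nat_lit 0) (XT.nd (nat_lit 156) (nat_lit 456) (nat_lit 0) (XT.nd (nat_lit 78) (nat_lit 304) (nat_lit 0) (XT.lf (nat_lit 0) (nat_lit 12024594240) (nat_lit 760) (nat_lit 3081611201) (nat_lit 76) (nat_lit 1188530472) (nat_lit 67) (nat_lit 5) (nat_lit 77) (nat_lit 5) (nat_lit 68) (nat_lit 5) (nat_lit 274) (nat_lit 261) (nat_lit 185)) (XT.lf (nat_lit 0) (nat_lit 4568485936) (nat_lit 304)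 (nat_lit 9354333506) (nat_lit 380) (nat_lit 2828167866) (nat_lit 63) (nat_lit 5) (nat_lit 67) (nat_lit 5) (nat_lit 68) (nat_lit 5) (nat_lit 275) (nat_lit 261) (nat_lit 184))) (XT.nd (nat_lit 78) (nat_lit 456) (nat_lit 0) (XT.lf (nat_lit 0) (nat_lit 12692482321) (nat_lit 304) (nat_lit 3259418680) (nat_lit 380) (nat_lit 1276403798) (nat_lit 63) (nat_lit 5) (nat_lit 67) (nat_lit 5) (nat_lit 68) (nat_lit 5) (nat_lit 276) (nat_lit 261) (nat_lit 183)) (XT.lf (nat_lit 0) (nat_lit 431927678) (nat_lit 456) (nat_lit 14190217617) (nat_lit 76) (nat_lit 3102599615) (nat_lit 57) (nat_lit 5) (nat_lit 63) (nat_lit 5) (nat_lit 58) (nat_lit 5) (nat_lit 277) (nat_lit 261) (nat_lit 182)))) (XT.nd (nat_lit 156) (nat_lit 304) (nat_lit 0) (XT.nd (nat_lit 78) (nat_lit 304) (nat_lit 0) (XT.lf (nat_lit 0) (nat_lit 2299034032) (nat_lit 456) (nat_lit 6167891765) (nat_lit 76) (nat_lit 9772266174) (nat_lit 57) (nat_lit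 5) (nat_lit 63) (nat_lit 5) (nat_lit 58) (nat_lit 5) (nat_lit 278) (nat_lit 261) (nat_lit 181)) (XT.lf (nat_lit 0) (nat_lit 2314410152) (nat_lit 304) (nat_lit 1966691516) (nat_lit 380) (nat_lit 14497221198) (nat_lit 53) (nat_lit 5) (nat_lit 57) (nat_lit 5) (nat_lit 58) (nat_lit 5) (nat_lit 279) (nat_lit 261) (nat_lit 180))) (XT.nd (nat_lit 78) (nat_lit 304) (nat_lit 0) (XT.lf (nat_lit 0) (nat_lit 6530212554) (nat_lit 380) (nat_lit 7997492745) (nat_lit 76) (nat_lit 4808347802) (nat_lit 53) (nat_lit 5) (nat_lit 58) (nat_lit 5) (nat_lit 54) (nat_lit 5) (nat_lit 280) (nat_lit 261) (nat_lit 179)) (XT.nd (nat_lit 78) (nat_lit 0) (nat_lit 0) (XT.lf (nat_lit 0) (nat_lit 872996682) (nat_lit 304) (nat_lit 8051239343) (nat_lit 380) (nat_lit 10995848864) (nat_lit 49) (nat_lit 5) (nat_lit 53) (nat_lit 5) (nat_lit 54) (nat_lit 5) (nat_lit 281) (nat_lit 261) (nat_lit 178)) (XT.lf (nat_lit 0) (nat_lit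 10449954592) (nat_lit 304) (nat_lit 1110442833) (nat_lit 380) (nat_lit 8966835096) (nat_lit 49) (nat_lit 5) (nat_lit 53) (nat_lit 5) (nat_lit 54) (nat_lit 5) (nat_lit 282) (nat_lit 261) (nat_lit 177))))))) (XT.nd (nat_lit 702) (nat_lit 760) (nat_lit 0) (XT.nd (nat_lit 312) (nat_lit 456) (nat_lit 0) (XT.nd (nat_lit 156) (nat_lit 380) (nat_lit 0) (XT.nd (nat_lit 78) (nat_lit 228) (nat_lit 0) (XT.lf (nat_lit 0) (nat_lit 14412402562) (nat_lit 380) (nat_lit 770062193) (nat_lit 76) (nat_lit 5978105366) (nat_lit 49) (nat_lit 5) (nat_lit 54) (nat_lit 5) (nat_lit 50) (nat_lit 5) (nat_lit 283) (nat_lit 261) (nat_lit 176)) (XT.lf (nat_lit 0) (nat_lit 9266969698) (nat_lit 228) (nat_lit 8291105837) (nat_lit 304) (nat_lit 4259978422) (nat_lit 46) (nat_lit 5) (nat_lit 49) (nat_lit 5) (nat_lit 50) (nat_lit 5) (nat_lit 284) (nat_lit 261) (nat_lit 175))) (XT.nd (nat_lit 78) (nat_lit 380) (nat_lit 0)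 (XT.lf (nat_lit 0) (nat_lit 19818871315) (nat_lit 228) (nat_lit 1043731140) (nat_lit 304) (nat_lit 1645762191) (nat_lit 46) (nat_lit 5) (nat_lit 49) (nat_lit 5) (nat_lit 50) (nat_lit 5) (nat_lit 285) (nat_lit 261) (nat_lit 174)) (XT.lf (nat_lit 0) (nat_lit 1280767543) (nat_lit 380) (nat_lit 15444549215) (nat_lit 76) (nat_lit 6496205195) (nat_lit 41) (nat_lit 5) (nat_lit 46) (nat_lit 5) (nat_lit 42) (nat_lit 5) (nat_lit 286) (nat_lit 261) (nat_lit 173)))) (XT.nd (nat_lit 156) (nat_lit 228) (nat_lit 0) (XT.nd (nat_lit 78) (nat_lit 228) (nat_lit 0) (XT.lf (nat_lit 0) (nat_lit 4350872971) (nat_lit 380) (nat_lit 5166533421) (nat_lit 76) (nat_lit 14448980799) (nat_lit 41) (nat_lit 5) (nat_lit 46) (nat_lit 5) (nat_lit 42) (nat_lit 5) (nat_lit 287) (nat_lit 261) (nat_lit 172)) (XT.lf (nat_lit 0) (nat_lit 5797833671) (nat_lit 228) (nat_lit 1856839672) (nat_lit 304) (nat_lit 17089838511) (nat_lit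 38) (nat_lit 5) (nat_lit 41) (nat_lit 5) (nat_lit 42) (nat_lit 5) (nat_lit 288) (nat_lit 261) (nat_lit 171))) (XT.nd (nat_lit 78) (nat_lit 228) (nat_lit 0) (XT.lf (nat_lit 0) (nat_lit 11299103436) (nat_lit 304) (nat_lit 8178791893) (nat_lit 76) (nat_lit 6074899865) (nat_lit 38) (nat_lit 5) (nat_lit 42) (nat_lit 5) (nat_lit 39) (nat_lit 5) (nat_lit 289) (nat_lit 261) (nat_lit 170)) (XT.nd (nat_lit 78) (nat_lit 0) (nat_lit 0) (XT.lf (nat_lit 0) (nat_lit 3186280504) (nat_lit 228) (nat_lit 12010056509) (nat_lit 304) (nat_lit 11201649853) (nat_lit 35) (nat_lit 5) (nat_lit 38) (nat_lit 5) (nat_lit 39) (nat_lit 5) (nat_lit 290) (nat_lit 261) (nat_lit 169)) (XT.lf (nat_lit 0) (nat_lit 15391012252) (nat_lit 228) (nat_lit 4026588565) (nat_lit 304) (nat_lit 7861401033) (nat_lit 35) (nat_lit 5) (nat_lit 38) (nat_lit 5) (nat_lit 39) (nat_lit 5) (nat_lit 291) (nat_lit 261) (nat_lit 168)))))) (XT.nd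 (nat_lit 312) (nat_lit 304) (nat_lit 0) (XT.nd (nat_lit 156) (nat_lit 304) (nat_lit 0) (XT.nd (nat_lit 78) (nat_lit 152) (nat_lit 0) (XT.lf (nat_lit 0) (nat_lit 23908992084) (nat_lit 304) (nat_lit 78461769) (nat_lit 76) (nat_lit 4213681617) (nat_lit 35) (nat_lit 5) (nat_lit 39) (nat_lit 5) (nat_lit 36) (nat_lit 5) (nat_lit 292) (nat_lit 261) (nat_lit 167)) (XT.lf (nat_lit 0) (nat_lit 12648590911) (nat_lit 152) (nat_lit 16231331681) (nat_lit 228) (nat_lit 276724792) (nat_lit 33) (nat_lit 5) (nat_lit 35) (nat_lit 5) (nat_lit 36) (nat_lit 5) (nat_lit 293) (nat_lit 261) (nat_lit 166))) (XT.nd (nat_lit 78) (nat_lit 228) (nat_lit 0) (XT.lf (nat_lit 0) (nat_lit 3806278217) (nat_lit 228) (nat_lit 4218559551) (nat_lit 76) (nat_lit 22132395000) (nat_lit 32) (nat_lit 5) (nat_lit 35) (nat_lit 5) (nat_lit 33) (nat_lit 5) (nat_lit 294) (nat_lit 261) (nat_lit 165)) (XT.lf (nat_lit 0) (nat_lit 8227474054)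 (nat_lit 304) (nat_lit 22256393956) (nat_lit 76) (nat_lit 716602828) (nat_lit 29) (nat_lit 5) (nat_lit 33) (nat_lit 5) (nat_lit 30) (nat_lit 5) (nat_lit 295) (nat_lit 261) (nat_lit 164)))) (XT.nd (nat_lit 156) (nat_lit 152) (nat_lit 0) (XT.nd (nat_lit 78) (nat_lit 152) (nat_lit 0) (XT.lf (nat_lit 0) (nat_lit 13066009576) (nat_lit 304) (nat_lit 9525212561) (nat_lit 76) (nat_lit 9694851211) (nat_lit 29) (nat_lit 5) (nat_lit 33) (nat_lit 5) (nat_lit 30) (nat_lit 5) (nat_lit 296) (nat_lit 261) (nat_lit 163)) (XT.lf (nat_lit 0) (nat_lit 3958272583) (nat_lit 152) (nat_lit 14242485329) (nat_lit 228) (nat_lit 15222499515) (nat_lit 27) (nat_lit 5) (nat_lit 29) (nat_lit 5) (nat_lit 30) (nat_lit 5) (nat_lit 297) (nat_lit 261) (nat_lit 162))) (XT.nd (nat_lit 78) (nat_lit 152) (nat_lit 0) (XT.lf (nat_lit 0) (nat_lit 18435857625) (nat_lit 152) (nat_lit 5310376108) (nat_lit 228) (nat_lit 10863382472)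 (nat_lit 27) (nat_lit 5) (nat_lit 29) (nat_lit 5) (nat_lit 30) (nat_lit 5) (nat_lit 298) (nat_lit 261) (nat_lit 161)) (XT.nd (nat_lit 78) (nat_lit 152) (nat_lit 0) (XT.lf (nat_lit 0) (nat_lit 29625475044) (nat_lit 228) (nat_lit 2292056460) (nat_lit 76) (nat_lit 3934951114) (nat_lit 27) (nat_lit 5) (nat_lit 30) (nat_lit 5) (nat_lit 28) (nat_lit 5) (nat_lit 299) (nat_lit 261) (nat_lit 160)) (XT.lf (nat_lit 0) (nat_lit 12589555739) (nat_lit 152) (nat_lit 23486044400) (nat_lit 228) (nat_lit 1068059729) (nat_lit 25) (nat_lit 5) (nat_lit 27) (nat_lit 5) (nat_lit 28) (nat_lit 5) (nat_lit 300) (nat_lit 261) (nat_lit 159))))))))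
noncomputable def xc175 : XT := (XT.nd (nat_lit 1404) (nat_lit 380) (nat_lit 0) (XT.nd (nat_lit 702) (nat_lit 456) (nat_lit 0) (XT.nd (nat_lit 312) (nat_lit 304) (nat_lit 0) (XT.nd (nat_lit 156) (nat_lit 0) (nat_lit 0) (XT.nd (nat_lit 78) (nat_lit 152) (nat_lit 0) (XT.lf (nat_lit 0) (nat_lit 4242451684) (nat_lit 228) (nat_lit 10281299300) (nat_lit 76) (nat_lit 23970622154) (nat_lit 24) (nat_lit 5) (nat_lit 27) (nat_lit 5) (nat_lit 25) (nat_lit 5) (nat_lit 301) (nat_lit 261) (nat_lit 158)) (XT.lf (nat_lit 0) (nat_lit 4832660588) (nat_lit 152) (nat_lit 5019054825) (nat_lit 228) (nat_lit 30056586921) (nat_lit 22) (nat_lit 5) (nat_lit 24) (nat_lit 5) (nat_lit 25) (nat_lit 5) (nat_lit 302) (nat_lit 261) (nat_lit 157))) (XT.nd (nat_lit 78) (nat_lit 0) (nat_lit 0) (XT.lf (nat_lit 0) (nat_lit 15989639284) (nat_lit 228) (nat_lit 20415031598) (nat_lit 76) (nat_lit 4975858452) (nat_lit 22) (nat_lit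 5) (nat_lit 25) (nat_lit 5) (nat_lit 23) (nat_lit 5) (nat_lit 303) (nat_lit 261) (nat_lit 156)) (XT.lf (nat_lit 0) (nat_lit 22510806164) (nat_lit 228) (nat_lit 5112969505) (nat_lit 76) (nat_lit 15298785330) (nat_lit 22) (nat_lit 5) (nat_lit 25) (nat_lit 5) (nat_lit 23) (nat_lit 5) (nat_lit 304) (nat_lit 261) (nat_lit 155)))) (XT.nd (nat_lit 156) (nat_lit 152) (nat_lit 0) (XT.nd (nat_lit 78) (nat_lit 0) (nat_lit 0) (XT.lf (nat_lit 0) (nat_lit 11307241878) (nat_lit 152) (nat_lit 18221676986) (nat_lit 228) (nat_lit 15004241162) (nat_lit 20) (nat_lit 5) (nat_lit 22) (nat_lit 5) (nat_lit 23) (nat_lit 5) (nat_lit 305) (nat_lit 261) (nat_lit 154)) (XT.lf (nat_lit 0) (nat_lit 28717261259) (nat_lit 152) (nat_lit 8261749315) (nat_lit 228) (nat_lit 9241234426) (nat_lit 20) (nat_lit 5) (nat_lit 22) (nat_lit 5) (nat_lit 23) (nat_lit 5) (nat_lit 306) (nat_lit 261) (nat_lit 153))) (XT.nd (nat_lit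 78) (nat_lit 152) (nat_lit 0) (XT.lf (nat_lit 0) (nat_lit 44830593276) (nat_lit 228) (nat_lit 1036713872) (nat_lit 76) (nat_lit 2122936962) (nat_lit 20) (nat_lit 5) (nat_lit 23) (nat_lit 5) (nat_lit 21) (nat_lit 4) (nat_lit 307) (nat_lit 261) (nat_lit 152)) (XT.nd (nat_lit 78) (nat_lit 0) (nat_lit 0) (XT.lf (nat_lit 0) (nat_lit 3519364515) (nat_lit 152) (nat_lit 33244044374) (nat_lit 76) (nat_lit 13062994027) (nat_lit 18) (nat_lit 5) (nat_lit 20) (nat_lit 5) (nat_lit 19) (nat_lit 5) (nat_lit 308) (nat_lit 261) (nat_lit 151)) (XT.lf (nat_lit 0) (nat_lit 10438967968) (nat_lit 152) (nat_lit 16695360311) (nat_lit 76) (nat_lit 24616818342) (nat_lit 18) (nat_lit 5) (nat_lit 20) (nat_lit 5) (nat_lit 19) (nat_lit 5) (nat_lit 309) (nat_lit 261) (nat_lit 150)))))) (XT.nd (nat_lit 312) (nat_lit 304) (nat_lit 0) (XT.nd (nat_lit 156) (nat_lit 0) (nat_lit 0) (XT.nd (nat_lit 78) (nat_lit 0) (nat_lit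 0) (XT.lf (nat_lit 0) (nat_lit 695238426) (nat_lit 152) (nat_lit 17015384214) (nat_lit 228) (nat_lit 36061208892) (nat_lit 16) (nat_lit 5) (nat_lit 18) (nat_lit 5) (nat_lit 19) (nat_lit 5) (nat_lit 310) (nat_lit 261) (nat_lit 149)) (XT.lf (nat_lit 0) (nat_lit 19527346157) (nat_lit 152) (nat_lit 6096582732) (nat_lit 228) (nat_lit 30255725572) (nat_lit 16) (nat_lit 5) (nat_lit 18) (nat_lit 5) (nat_lit 19) (nat_lit 5) (nat_lit 311) (nat_lit 261) (nat_lit 148))) (XT.nd (nat_lit 78) (nat_lit 0) (nat_lit 0) (XT.lf (nat_lit 0) (nat_lit 34012215742) (nat_lit 228) (nat_lit 18883088637) (nat_lit 76) (nat_lit 5193605263) (nat_lit 16) (nat_lit 5) (nat_lit 19) (nat_lit 5) (nat_lit 17) (nat_lit 4) (nat_lit 312) (nat_lit 261) (nat_lit 147)) (XT.lf (nat_lit 0) (nat_lit 42915578333) (nat_lit 228) (nat_lit 647463747) (nat_lit 76) (nat_lit 16840808974) (nat_lit 16) (nat_lit 5) (nat_lit 19) (nat_lit 5)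 (nat_lit 17) (nat_lit 4) (nat_lit 313) (nat_lit 261) (nat_lit 146)))) (XT.nd (nat_lit 156) (nat_lit 228) (nat_lit 0) (XT.nd (nat_lit 78) (nat_lit 0) (nat_lit 0) (XT.lf (nat_lit 0) (nat_lit 19104636955) (nat_lit 76) (nat_lit 33453670372) (nat_lit 152) (nat_lit 10261528528) (nat_lit 15) (nat_lit 5) (nat_lit 16) (nat_lit 5) (nat_lit 17) (nat_lit 4) (nat_lit 314) (nat_lit 261) (nat_lit 145)) (XT.lf (nat_lit 0) (nat_lit 39860157289) (nat_lit 76) (nat_lit 22829992122) (nat_lit 152) (nat_lit 2666127587) (nat_lit 15) (nat_lit 5) (nat_lit 16) (nat_lit 5) (nat_lit 17) (nat_lit 4) (nat_lit 315) (nat_lit 261) (nat_lit 144))) (XT.nd (nat_lit 78) (nat_lit 152) (nat_lit 0) (XT.lf (nat_lit 0) (nat_lit 5135254570) (nat_lit 152) (nat_lit 6455455378) (nat_lit 76) (nat_lit 56424884496) (nat_lit 14) (nat_lit 5) (nat_lit 16) (nat_lit 5) (nat_lit 15) (nat_lit 5) (nat_lit 316) (nat_lit 261) (nat_lit 143))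 (XT.nd (nat_lit 78) (nat_lit 0) (nat_lit 0) (XT.lf (nat_lit 0) (nat_lit 13458493325) (nat_lit 228) (nat_lit 56869218539) (nat_lit 76) (nat_lit 466916329) (nat_lit 12) (nat_lit 5) (nat_lit 15) (nat_lit 5) (nat_lit 13) (nat_lit 4) (nat_lit 317) (nat_lit 261) (nat_lit 142)) (XT.lf (nat_lit 0) (nat_lit 22495383956) (nat_lit 228) (nat_lit 38355732493) (nat_lit 76) (nat_lit 12846627568) (nat_lit 12) (nat_lit 5) (nat_lit 15) (nat_lit 5) (nat_lit 13) (nat_lit 4) (nat_lit 318) (nat_lit 261) (nat_lit 141))))))) (XT.nd (nat_lit 702) (nat_lit 152) (nat_lit 0) (XT.nd (nat_lit 312) (nat_lit 152) (nat_lit 0) (XT.nd (nat_lit 156) (nat_lit 0) (nat_lit 0) (XT.nd (nat_lit 78) (nat_lit 76) (nat_lit 0) (XT.lf (nat_lit 0) (nat_lit 31980652265) (nat_lit 228) (nat_lit 18922494123) (nat_lit 76) (nat_lit 25843047235) (nat_lit 12) (nat_lit 5) (nat_lit 15) (nat_lit 5) (nat_lit 13) (nat_lit 4) (nat_lit 319) (nat_lit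 261) (nat_lit 140)) (XT.lf (nat_lit 0) (nat_lit 1525594745) (nat_lit 76) (nat_lit 40435106289) (nat_lit 152) (nat_lit 37985343253) (nat_lit 11) (nat_lit 5) (nat_lit 12) (nat_lit 5) (nat_lit 13) (nat_lit 4) (nat_lit 320) (nat_lit 261) (nat_lit 139))) (XT.nd (nat_lit 78) (nat_lit 0) (nat_lit 0) (XT.lf (nat_lit 0) (nat_lit 23647485313) (nat_lit 76) (nat_lit 29109497349) (nat_lit 152) (nat_lit 30533047518) (nat_lit 11) (nat_lit 5) (nat_lit 12) (nat_lit 5) (nat_lit 13) (nat_lit 4) (nat_lit 321) (nat_lit 261) (nat_lit 138)) (XT.lf (nat_lit 0) (nat_lit 46870185637) (nat_lit 76) (nat_lit 17219815427) (nat_lit 152) (nat_lit 22711372186) (nat_lit 11) (nat_lit 5) (nat_lit 12) (nat_lit 5) (nat_lit 13) (nat_lit 4) (nat_lit 322) (nat_lit 261) (nat_lit 137)))) (XT.nd (nat_lit 156) (nat_lit 76) (nat_lit 0) (XT.nd (nat_lit 78) (nat_lit 76) (nat_lit 0) (XT.lf (nat_lit 0) (nat_lit 71248987860) (nat_lit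 76) (nat_lit 4737751757) (nat_lit 152) (nat_lit 14501694221) (nat_lit 11) (nat_lit 5) (nat_lit 12) (nat_lit 5) (nat_lit 13) (nat_lit 4) (nat_lit 323) (nat_lit 261) (nat_lit 136)) (XT.lf (nat_lit 0) (nat_lit 2429068293) (nat_lit 76) (nat_lit 86215003309) (nat_lit 76) (nat_lit 5707491669) (nat_lit 10) (nat_lit 4) (nat_lit 11) (nat_lit 5) (nat_lit 11) (nat_lit 4) (nat_lit 324) (nat_lit 261) (nat_lit 135))) (XT.nd (nat_lit 78) (nat_lit 0) (nat_lit 0) (XT.lf (nat_lit 0) (nat_lit 3819580288) (nat_lit 152) (nat_lit 72685588707) (nat_lit 76) (nat_lit 21879629284) (nat_lit 9) (nat_lit 5) (nat_lit 11) (nat_lit 5) (nat_lit 10) (nat_lit 4) (nat_lit 325) (nat_lit 261) (nat_lit 134)) (XT.nd (nat_lit 78) (nat_lit 0) (nat_lit 0) (XT.lf (nat_lit 0) (nat_lit 13628518528) (nat_lit 152) (nat_lit 52585090704) (nat_lit 76) (nat_lit 36401544587) (nat_lit 9) (nat_lit 5) (nat_lit 11) (nat_lit 5) (nat_lit 10)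 (nat_lit 4) (nat_lit 326) (nat_lit 261) (nat_lit 133)) (XT.lf (nat_lit 0) (nat_lit 23925353042) (nat_lit 152) (nat_lit 31484032703) (nat_lit 76) (nat_lit 51647771921) (nat_lit 9) (nat_lit 5) (nat_lit 11) (nat_lit 5) (nat_lit 10) (nat_lit 4) (nat_lit 327) (nat_lit 261) (nat_lit 132)))))) (XT.nd (nat_lit 312) (nat_lit 76) (nat_lit 0) (XT.nd (nat_lit 156) (nat_lit 0) (nat_lit 0) (XT.nd (nat_lit 78) (nat_lit 76) (nat_lit 0) (XT.lf (nat_lit 0) (nat_lit 34734600102) (nat_lit 152) (nat_lit 9332174088) (nat_lit 76) (nat_lit 67654611829) (nat_lit 9) (nat_lit 5) (nat_lit 11) (nat_lit 5) (nat_lit 10) (nat_lit 4) (nat_lit 328) (nat_lit 261) (nat_lit 131)) (XT.lf (nat_lit 0) (nat_lit 14383592446) (nat_lit 76) (nat_lit 31922971753) (nat_lit 152) (nat_lit 70301151574) (nat_lit 8) (nat_lit 5) (nat_lit 9) (nat_lit 5) (nat_lit 10) (nat_lit 4) (nat_lit 329) (nat_lit 261) (nat_lit 130))) (XT.nd (nat_lit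 78) (nat_lit 0) (nat_lit 0) (XT.lf (nat_lit 0) (nat_lit 39605154841) (nat_lit 76) (nat_lit 19007750998) (nat_lit 152) (nat_lit 63117669799) (nat_lit 8) (nat_lit 5) (nat_lit 9) (nat_lit 5) (nat_lit 10) (nat_lit 4) (nat_lit 330) (nat_lit 261) (nat_lit 129)) (XT.lf (nat_lit 0) (nat_lit 66084000615) (nat_lit 76) (nat_lit 5448406283) (nat_lit 152) (nat_lit 55577281947) (nat_lit 8) (nat_lit 5) (nat_lit 9) (nat_lit 5) (nat_lit 10) (nat_lit 4) (nat_lit 331) (nat_lit 261) (nat_lit 128)))) (XT.nd (nat_lit 156) (nat_lit 76) (nat_lit 0) (XT.nd (nat_lit 78) (nat_lit 0) (nat_lit 0) (XT.lf (nat_lit 0) (nat_lit 85233023200) (nat_lit 152) (nat_lit 39011883274) (nat_lit 0) (nat_lit 8506096577) (nat_lit 8) (nat_lit 5) (nat_lit 10) (nat_lit 4) (nat_lit 8) (nat_lit 4) (nat_lit 332) (nat_lit 261) (nat_lit 127)) (XT.lf (nat_lit 0) (nat_lit 99706008205) (nat_lit 152) (nat_lit 15990225054) (nat_lit 0) (nat_lit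 22973785051) (nat_lit 8) (nat_lit 5) (nat_lit 10) (nat_lit 4) (nat_lit 8) (nat_lit 4) (nat_lit 333) (nat_lit 261) (nat_lit 126))) (XT.nd (nat_lit 78) (nat_lit 0) (nat_lit 0) (XT.lf (nat_lit 0) (nat_lit 8449604918) (nat_lit 76) (nat_lit 106583073605) (nat_lit 76) (nat_lit 29845806136) (nat_lit 7) (nat_lit 4) (nat_lit 8) (nat_lit 5) (nat_lit 8) (nat_lit 4) (nat_lit 334) (nat_lit 261) (nat_lit 125)) (XT.nd (nat_lit 78) (nat_lit 0) (nat_lit 0) (XT.lf (nat_lit 0) (nat_lit 34663273666) (nat_lit 76) (nat_lit 96731363269) (nat_lit 76) (nat_lit 19989291690) (nat_lit 7) (nat_lit 4) (nat_lit 8) (nat_lit 5) (nat_lit 8) (nat_lit 4) (nat_lit 335) (nat_lit 261) (nat_lit 124)) (XT.lf (nat_lit 0) (nat_lit 62184485631) (nat_lit 76) (nat_lit 86388447998) (nat_lit 76) (nat_lit 9641801075) (nat_lit 7) (nat_lit 4) (nat_lit 8) (nat_lit 5) (nat_lit 8) (nat_lit 4) (nat_lit 336) (nat_lit 261) (nat_lit 123))))))))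
noncomputable def xc176 : XT := (XT.nd (nat_lit 1326) (nat_lit 0) (nat_lit 0) (XT.nd (nat_lit 624) (nat_lit 76) (nat_lit 0) (XT.nd (nat_lit 312) (nat_lit 76) (nat_lit 0) (XT.nd (nat_lit 156) (nat_lit 0) (nat_lit 0) (XT.nd (nat_lit 78) (nat_lit 0) (nat_lit 0) (XT.lf (nat_lit 0) (nat_lit 1182213280) (nat_lit 152) (nat_lit 74327467167) (nat_lit 76) (nat_lit 89876532874) (nat_lit 6) (nat_lit 5) (nat_lit 8) (nat_lit 5) (nat_lit 7) (nat_lit 4) (nat_lit 337) (nat_lit 261) (nat_lit 122)) (XT.lf (nat_lit 0) (nat_lit 12221776706) (nat_lit 152) (nat_lit 51700512113) (nat_lit 76) (nat_lit 108986156798) (nat_lit 6) (nat_lit 5) (nat_lit 8) (nat_lit 5) (nat_lit 7) (nat_lit 4) (nat_lit 338) (nat_lit 261) (nat_lit 121))) (XT.nd (nat_lit 78) (nat_lit 0) (nat_lit 0) (XT.lf (nat_lit 0) (nat_lit 23811771728) (nat_lit 152) (nat_lit 27944974673) (nat_lit 76) (nat_lit 129050122046) (nat_lit 6) (nat_lit 5)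 (nat_lit 8) (nat_lit 5) (nat_lit 7) (nat_lit 4) (nat_lit 339) (nat_lit 261) (nat_lit 120)) (XT.lf (nat_lit 0) (nat_lit 35979793569) (nat_lit 152) (nat_lit 3004294043) (nat_lit 76) (nat_lit 150116199966) (nat_lit 6) (nat_lit 5) (nat_lit 8) (nat_lit 5) (nat_lit 7) (nat_lit 4) (nat_lit 340) (nat_lit 261) (nat_lit 119)))) (XT.nd (nat_lit 156) (nat_lit 0) (nat_lit 0) (XT.nd (nat_lit 78) (nat_lit 0) (nat_lit 0) (XT.lf (nat_lit 0) (nat_lit 23947377998) (nat_lit 76) (nat_lit 25181321397) (nat_lit 152) (nat_lit 148661055569) (nat_lit 5) (nat_lit 5) (nat_lit 6) (nat_lit 5) (nat_lit 7) (nat_lit 4) (nat_lit 341) (nat_lit 261) (nat_lit 118)) (XT.lf (nat_lit 0) (nat_lit 52348468135) (nat_lit 76) (nat_lit 10636087030) (nat_lit 152) (nat_lit 143926666694) (nat_lit 5) (nat_lit 5) (nat_lit 6) (nat_lit 5) (nat_lit 7) (nat_lit 4) (nat_lit 342) (nat_lit 261) (nat_lit 117))) (XT.nd (nat_lit 78) (nat_lit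 0) (nat_lit 0) (XT.lf (nat_lit 0) (nat_lit 77604265738) (nat_lit 152) (nat_lit 134393937463) (nat_lit 0) (nat_lit 4487007105) (nat_lit 5) (nat_lit 5) (nat_lit 7) (nat_lit 4) (nat_lit 5) (nat_lit 4) (nat_lit 343) (nat_lit 261) (nat_lit 116)) (XT.lf (nat_lit 0) (nat_lit 93128061709) (nat_lit 152) (nat_lit 113393328949) (nat_lit 0) (nat_lit 20007853769) (nat_lit 5) (nat_lit 5) (nat_lit 7) (nat_lit 4) (nat_lit 5) (nat_lit 4) (nat_lit 344) (nat_lit 261) (nat_lit 115))))) (XT.nd (nat_lit 312) (nat_lit 76) (nat_lit 0) (XT.nd (nat_lit 156) (nat_lit 0) (nat_lit 0) (XT.nd (nat_lit 78) (nat_lit 0) (nat_lit 0) (XT.lf (nat_lit 0) (nat_lit 109426845371) (nat_lit 152) (nat_lit 91344867608) (nat_lit 0) (nat_lit 36303828567) (nat_lit 5) (nat_lit 5) (nat_lit 7) (nat_lit 4) (nat_lit 5) (nat_lit 4) (nat_lit 345) (nat_lit 261) (nat_lit 114)) (XT.lf (nat_lit 0) (nat_lit 126539423351) (nat_lit 152) (nat_lit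 68196057104) (nat_lit 0) (nat_lit 53413731439) (nat_lit 5) (nat_lit 5) (nat_lit 7) (nat_lit 4) (nat_lit 5) (nat_lit 4) (nat_lit 346) (nat_lit 261) (nat_lit 113))) (XT.nd (nat_lit 78) (nat_lit 0) (nat_lit 0) (XT.lf (nat_lit 0) (nat_lit 144506539883) (nat_lit 152) (nat_lit 43891781221) (nat_lit 0) (nat_lit 71378300248) (nat_lit 5) (nat_lit 5) (nat_lit 7) (nat_lit 4) (nat_lit 5) (nat_lit 4) (nat_lit 347) (nat_lit 261) (nat_lit 112)) (XT.lf (nat_lit 0) (nat_lit 163370973815) (nat_lit 152) (nat_lit 18374172636) (nat_lit 0) (nat_lit 90240307778) (nat_lit 5) (nat_lit 5) (nat_lit 7) (nat_lit 4) (nat_lit 5) (nat_lit 4) (nat_lit 348) (nat_lit 261) (nat_lit 111)))) (XT.nd (nat_lit 156) (nat_lit 0) (nat_lit 0) (XT.nd (nat_lit 78) (nat_lit 0) (nat_lit 0) (XT.lf (nat_lit 0) (nat_lit 8695846249) (nat_lit 76) (nat_lit 174617560748) (nat_lit 76) (nat_lit 101484583852) (nat_lit 4) (nat_lit 4) (nat_lit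 5) (nat_lit 5) (nat_lit 5) (nat_lit 4) (nat_lit 349) (nat_lit 261) (nat_lit 110)) (XT.lf (nat_lit 0) (nat_lit 37755513242) (nat_lit 76) (nat_lit 166807654697) (nat_lit 76) (nat_lit 93672476984) (nat_lit 4) (nat_lit 4) (nat_lit 5) (nat_lit 5) (nat_lit 5) (nat_lit 4) (nat_lit 350) (nat_lit 261) (nat_lit 109))) (XT.nd (nat_lit 78) (nat_lit 0) (nat_lit 0) (XT.lf (nat_lit 0) (nat_lit 68266484898) (nat_lit 76) (nat_lit 158608008791) (nat_lit 76) (nat_lit 85470735059) (nat_lit 4) (nat_lit 4) (nat_lit 5) (nat_lit 5) (nat_lit 5) (nat_lit 4) (nat_lit 351) (nat_lit 261) (nat_lit 108)) (XT.nd (nat_lit 78) (nat_lit 0) (nat_lit 0) (XT.lf (nat_lit 0) (nat_lit 100301406388) (nat_lit 76) (nat_lit 149999100060) (nat_lit 76) (nat_lit 76859830122) (nat_lit 4) (nat_lit 4) (nat_lit 5) (nat_lit 5) (nat_lit 5) (nat_lit 4) (nat_lit 352) (nat_lit 261) (nat_lit 107)) (XT.lf (nat_lit 0) (nat_lit 133936551335)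 (nat_lit 76) (nat_lit 140960431106) (nat_lit 76) (nat_lit 67819260018) (nat_lit 4) (nat_lit 4) (nat_lit 5) (nat_lit 5) (nat_lit 5) (nat_lit 4) (nat_lit 353) (nat_lit 261) (nat_lit 106))))))) (XT.nd (nat_lit 30810) (nat_lit 0) (nat_lit 4484) (XT.nd (nat_lit 30420) (nat_lit 0) (nat_lit 5168) (XT.nd (nat_lit 156) (nat_lit 0) (nat_lit 0) (XT.nd (nat_lit 78) (nat_lit 0) (nat_lit 0) (XT.lf (nat_lit 0) (nat_lit 169252003417) (nat_lit 76) (nat_lit 131470481285) (nat_lit 76) (nat_lit 58327499579) (nat_lit 4) (nat_lit 4) (nat_lit 5) (nat_lit 5) (nat_lit 5) (nat_lit 4) (nat_lit 354) (nat_lit 261) (nat_lit 105)) (XT.lf (nat_lit 0) (nat_lit 206331847044) (nat_lit 76) (nat_lit 121506655481) (nat_lit 76) (nat_lit 48361949376) (nat_lit 4) (nat_lit 4) (nat_lit 5) (nat_lit 5) (nat_lit 5) (nat_lit 4) (nat_lit 355) (nat_lit 261) (nat_lit 104))) (XT.nd (nat_lit 30186) (nat_lit 0) (nat_lit 5852) (XT.lf (nat_lit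 0) (nat_lit 245264367558) (nat_lit 76) (nat_lit 111045230298) (nat_lit 76) (nat_lit 37898881909) (nat_lit 4) (nat_lit 4) (nat_lit 5) (nat_lit 5) (nat_lit 5) (nat_lit 4) (nat_lit 356) (nat_lit 261) (nat_lit 103)) (XT.lf (nat_lit 0) (nat_lit 6102261061) (nat_lit 684) (nat_lit 26793031) (nat_lit 684) (nat_lit 26793031) (nat_lit 81) (nat_lit 3) (nat_lit 90) (nat_lit 3) (nat_lit 90) (nat_lit 5) (nat_lit 262) (nat_lit 262) (nat_lit 196)))) (XT.nd (nat_lit 156) (nat_lit 0) (nat_lit 76) (XT.nd (nat_lit 78) (nat_lit 0) (nat_lit 0) (XT.lf (nat_lit 0) (nat_lit 388368747) (nat_lit 684) (nat_lit 7173383581) (nat_lit 760) (nat_lit 5031727975) (nat_lit 72) (nat_lit 5) (nat_lit 81) (nat_lit 3) (nat_lit 82) (nat_lit 5) (nat_lit 263) (nat_lit 262) (nat_lit 195)) (XT.lf (nat_lit 0) (nat_lit 879631043) (nat_lit 684) (nat_lit 1736673540) (nat_lit 760) (nat_lit 10274322783) (nat_lit 72) (nat_lit 5) (nat_lit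 81) (nat_lit 3) (nat_lit 82) (nat_lit 5) (nat_lit 264) (nat_lit 262) (nat_lit 194))) (XT.nd (nat_lit 78) (nat_lit 0) (nat_lit 0) (XT.lf (nat_lit 0) (nat_lit 1475611418) (nat_lit 684) (nat_lit 9153695674) (nat_lit 760) (nat_lit 2569399663) (nat_lit 73) (nat_lit 5) (nat_lit 82) (nat_lit 5) (nat_lit 83) (nat_lit 5) (nat_lit 265) (nat_lit 262) (nat_lit 193)) (XT.nd (nat_lit 78) (nat_lit 0) (nat_lit 0) (XT.lf (nat_lit 0) (nat_lit 2150191030) (nat_lit 684) (nat_lit 3403439349) (nat_lit 760) (nat_lit 7966198502) (nat_lit 73) (nat_lit 5) (nat_lit 82) (nat_lit 5) (nat_lit 83) (nat_lit 5) (nat_lit 266) (nat_lit 262) (nat_lit 192)) (XT.lf (nat_lit 76) (nat_lit 2706260622) (nat_lit 0) (nat_lit 171649807) (nat_lit 760) (nat_lit 10978201173) (nat_lit 74) (nat_lit 5) (nat_lit 73) (nat_lit 5) (nat_lit 83) (nat_lit 5) (nat_lit 267) (nat_lit 262) (nat_lit 191)))))) (XT.nd (nat_lit 312) (nat_lit 836)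 (nat_lit 0) (XT.nd (nat_lit 156) (nat_lit 0) (nat_lit 76) (XT.nd (nat_lit 78) (nat_lit 0) (nat_lit 0) (XT.lf (nat_lit 0) (nat_lit 3764286996) (nat_lit 684) (nat_lit 5068952872) (nat_lit 760) (nat_lit 5369926487) (nat_lit 74) (nat_lit 5) (nat_lit 83) (nat_lit 5) (nat_lit 84) (nat_lit 5) (nat_lit 268) (nat_lit 262) (nat_lit 190)) (XT.lf (nat_lit 76) (nat_lit 1341112056) (nat_lit 0) (nat_lit 3356801974) (nat_lit 760) (nat_lit 9869581287) (nat_lit 75) (nat_lit 5) (nat_lit 74) (nat_lit 5) (nat_lit 84) (nat_lit 5) (nat_lit 269) (nat_lit 262) (nat_lit 189))) (XT.nd (nat_lit 78) (nat_lit 0) (nat_lit 0) (XT.lf (nat_lit 0) (nat_lit 5782866847) (nat_lit 684) (nat_lit 6752758640) (nat_lit 760) (nat_lit 2409247831) (nat_lit 75) (nat_lit 5) (nat_lit 84) (nat_lit 5) (nat_lit 85) (nat_lit 5) (nat_lit 270) (nat_lit 262) (nat_lit 188)) (XT.lf (nat_lit 0) (nat_lit 6958071491) (nat_lit 684) (nat_lit 25622440)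 (nat_lit 760) (nat_lit 8355687803) (nat_lit 75) (nat_lit 5) (nat_lit 84) (nat_lit 5) (nat_lit 85) (nat_lit 5) (nat_lit 271) (nat_lit 262) (nat_lit 187)))) (XT.nd (nat_lit 156) (nat_lit 912) (nat_lit 0) (XT.nd (nat_lit 78) (nat_lit 0) (nat_lit 76) (XT.lf (nat_lit 76) (nat_lit 7255678437) (nat_lit 0) (nat_lit 1031520022) (nat_lit 760) (nat_lit 7461717796) (nat_lit 76) (nat_lit 5) (nat_lit 75) (nat_lit 5) (nat_lit 85) (nat_lit 5) (nat_lit 272) (nat_lit 262) (nat_lit 186)) (XT.lf (nat_lit 0) (nat_lit 9747267860) (nat_lit 684) (nat_lit 1373618577) (nat_lit 76) (nat_lit 5054872748) (nat_lit 76) (nat_lit 5) (nat_lit 85) (nat_lit 5) (nat_lit 77) (nat_lit 5) (nat_lit 273) (nat_lit 262) (nat_lit 185))) (XT.nd (nat_lit 78) (nat_lit 304) (nat_lit 0) (XT.lf (nat_lit 0) (nat_lit 6271348182) (nat_lit 684) (nat_lit 5107219215) (nat_lit 760) (nat_lit 5240518851) (nat_lit 67) (nat_lit 5) (nat_lit 76)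 (nat_lit 5) (nat_lit 77) (nat_lit 5) (nat_lit 274) (nat_lit 262) (nat_lit 184)) (XT.nd (nat_lit 78) (nat_lit 304) (nat_lit 0) (XT.lf (nat_lit 0) (nat_lit 13117922827) (nat_lit 760) (nat_lit 2771485514) (nat_lit 76) (nat_lit 1193897561) (nat_lit 67) (nat_lit 5) (nat_lit 77) (nat_lit 5) (nat_lit 68) (nat_lit 5) (nat_lit 275) (nat_lit 262) (nat_lit 183)) (XT.lf (nat_lit 0) (nat_lit 5253629282) (nat_lit 304) (nat_lit 9841127391) (nat_lit 380) (nat_lit 2468502698) (nat_lit 63) (nat_lit 5) (nat_lit 67) (nat_lit 5) (nat_lit 68) (nat_lit 5) (nat_lit 276) (nat_lit 262) (nat_lit 182))))))))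
noncomputable def xc177 : XT := (XT.nd (nat_lit 1326) (nat_lit 1292) (nat_lit 0) (XT.nd (nat_lit 624) (nat_lit 1216) (nat_lit 0) (XT.nd (nat_lit 312) (nat_lit 304) (nat_lit 0) (XT.nd (nat_lit 156) (nat_lit 304) (nat_lit 0) (XT.nd (nat_lit 78) (nat_lit 456) (nat_lit 0) (XT.lf (nat_lit 0) (nat_lit 13762076960) (nat_lit 304) (nat_lit 3440558384) (nat_lit 380) (nat_lit 863011072) (nat_lit 63) (nat_lit 5) (nat_lit 67) (nat_lit 5) (nat_lit 68) (nat_lit 5) (nat_lit 277) (nat_lit 262) (nat_lit 181)) (XT.lf (nat_lit 0) (nat_lit 900362891) (nat_lit 456) (nat_lit 14431749741) (nat_lit 76) (nat_lit 3255242632) (nat_lit 57) (nat_lit 5) (nat_lit 63) (nat_lit 5) (nat_lit 58) (nat_lit 5) (nat_lit 278) (nat_lit 262) (nat_lit 180))) (XT.nd (nat_lit 78) (nat_lit 304) (nat_lit 0) (XT.lf (nat_lit 0) (nat_lit 2839546523) (nat_lit 456) (nat_lit 6030592300) (nat_lit 76) (nat_lit 10258510946) (nat_lit 57) (nat_lit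 5) (nat_lit 63) (nat_lit 5) (nat_lit 58) (nat_lit 5) (nat_lit 279) (nat_lit 262) (nat_lit 179)) (XT.lf (nat_lit 0) (nat_lit 2868636099) (nat_lit 304) (nat_lit 2038662941) (nat_lit 380) (nat_lit 14788167367) (nat_lit 53) (nat_lit 5) (nat_lit 57) (nat_lit 5) (nat_lit 58) (nat_lit 5) (nat_lit 280) (nat_lit 262) (nat_lit 178)))) (XT.nd (nat_lit 156) (nat_lit 0) (nat_lit 0) (XT.nd (nat_lit 78) (nat_lit 304) (nat_lit 0) (XT.lf (nat_lit 0) (nat_lit 7249631650) (nat_lit 380) (nat_lit 7959399345) (nat_lit 76) (nat_lit 5073069350) (nat_lit 53) (nat_lit 5) (nat_lit 58) (nat_lit 5) (nat_lit 54) (nat_lit 5) (nat_lit 281) (nat_lit 262) (nat_lit 177)) (XT.lf (nat_lit 0) (nat_lit 1347550553) (nat_lit 304) (nat_lit 8403823435) (nat_lit 380) (nat_lit 11144611707) (nat_lit 49) (nat_lit 5) (nat_lit 53) (nat_lit 5) (nat_lit 54) (nat_lit 5) (nat_lit 282) (nat_lit 262) (nat_lit 176))) (XT.nd (nat_lit 78)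 (nat_lit 0) (nat_lit 0) (XT.lf (nat_lit 0) (nat_lit 11382837118) (nat_lit 304) (nat_lit 1118366998) (nat_lit 380) (nat_lit 9033243898) (nat_lit 49) (nat_lit 5) (nat_lit 53) (nat_lit 5) (nat_lit 54) (nat_lit 5) (nat_lit 283) (nat_lit 262) (nat_lit 175)) (XT.lf (nat_lit 0) (nat_lit 15479241697) (nat_lit 380) (nat_lit 400195978) (nat_lit 76) (nat_lit 6320891152) (nat_lit 49) (nat_lit 5) (nat_lit 54) (nat_lit 5) (nat_lit 50) (nat_lit 5) (nat_lit 284) (nat_lit 262) (nat_lit 174))))) (XT.nd (nat_lit 312) (nat_lit 608) (nat_lit 0) (XT.nd (nat_lit 156) (nat_lit 380) (nat_lit 0) (XT.nd (nat_lit 78) (nat_lit 0) (nat_lit 0) (XT.lf (nat_lit 0) (nat_lit 10132100906) (nat_lit 228) (nat_lit 8639883748) (nat_lit 304) (nat_lit 4119258544) (nat_lit 46) (nat_lit 5) (nat_lit 49) (nat_lit 5) (nat_lit 50) (nat_lit 5) (nat_lit 285) (nat_lit 262) (nat_lit 173)) (XT.lf (nat_lit 0) (nat_lit 21192465093) (nat_lit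 228) (nat_lit 1033272572) (nat_lit 304) (nat_lit 1391175254) (nat_lit 46) (nat_lit 5) (nat_lit 49) (nat_lit 5) (nat_lit 50) (nat_lit 5) (nat_lit 286) (nat_lit 262) (nat_lit 172))) (XT.nd (nat_lit 78) (nat_lit 0) (nat_lit 0) (XT.lf (nat_lit 0) (nat_lit 1662539747) (nat_lit 380) (nat_lit 15813368107) (nat_lit 76) (nat_lit 6890014658) (nat_lit 41) (nat_lit 5) (nat_lit 46) (nat_lit 5) (nat_lit 42) (nat_lit 5) (nat_lit 287) (nat_lit 262) (nat_lit 171)) (XT.lf (nat_lit 0) (nat_lit 4871020265) (nat_lit 380) (nat_lit 5040661454) (nat_lit 76) (nat_lit 15237143366) (nat_lit 41) (nat_lit 5) (nat_lit 46) (nat_lit 5) (nat_lit 42) (nat_lit 5) (nat_lit 288) (nat_lit 262) (nat_lit 170)))) (XT.nd (nat_lit 156) (nat_lit 380) (nat_lit 0) (XT.nd (nat_lit 78) (nat_lit 0) (nat_lit 0) (XT.lf (nat_lit 0) (nat_lit 6465727240) (nat_lit 228) (nat_lit 1865775387) (nat_lit 304) (nat_lit 17634814532) (nat_lit 38)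 (nat_lit 5) (nat_lit 41) (nat_lit 5) (nat_lit 42) (nat_lit 5) (nat_lit 289) (nat_lit 262) (nat_lit 169)) (XT.lf (nat_lit 0) (nat_lit 12145397301) (nat_lit 304) (nat_lit 8214291334) (nat_lit 76) (nat_lit 6455997948) (nat_lit 38) (nat_lit 5) (nat_lit 42) (nat_lit 5) (nat_lit 39) (nat_lit 5) (nat_lit 290) (nat_lit 262) (nat_lit 168))) (XT.nd (nat_lit 78) (nat_lit 152) (nat_lit 0) (XT.lf (nat_lit 0) (nat_lit 3713011455) (nat_lit 228) (nat_lit 12516820429) (nat_lit 304) (nat_lit 11473721437) (nat_lit 35) (nat_lit 5) (nat_lit 38) (nat_lit 5) (nat_lit 39) (nat_lit 5) (nat_lit 291) (nat_lit 262) (nat_lit 167)) (XT.nd (nat_lit 78) (nat_lit 152) (nat_lit 0) (XT.lf (nat_lit 0) (nat_lit 16510483746) (nat_lit 228) (nat_lit 4138642845) (nat_lit 304) (nat_lit 7980174981) (nat_lit 35) (nat_lit 5) (nat_lit 38) (nat_lit 5) (nat_lit 39) (nat_lit 5) (nat_lit 292) (nat_lit 262) (nat_lit 166)) (XT.lf (nat_lit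 0) (nat_lit 271226971) (nat_lit 152) (nat_lit 25087010825) (nat_lit 228) (nat_lit 4239675993) (nat_lit 33) (nat_lit 5) (nat_lit 35) (nat_lit 5) (nat_lit 36) (nat_lit 5) (nat_lit 293) (nat_lit 262) (nat_lit 165))))))) (XT.nd (nat_lit 702) (nat_lit 608) (nat_lit 0) (XT.nd (nat_lit 312) (nat_lit 380) (nat_lit 0) (XT.nd (nat_lit 156) (nat_lit 228) (nat_lit 0) (XT.nd (nat_lit 78) (nat_lit 76) (nat_lit 0) (XT.lf (nat_lit 0) (nat_lit 13620387928) (nat_lit 152) (nat_lit 16946506885) (nat_lit 228) (nat_lit 34875517) (nat_lit 33) (nat_lit 5) (nat_lit 35) (nat_lit 5) (nat_lit 36) (nat_lit 5) (nat_lit 294) (nat_lit 262) (nat_lit 164)) (XT.lf (nat_lit 0) (nat_lit 4232308301) (nat_lit 228) (nat_lit 4097978075) (nat_lit 76) (nat_lit 23322513725) (nat_lit 32) (nat_lit 5) (nat_lit 35) (nat_lit 5) (nat_lit 33) (nat_lit 5) (nat_lit 295) (nat_lit 262) (nat_lit 163))) (XT.nd (nat_lit 78) (nat_lit 0) (nat_lit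 0) (XT.lf (nat_lit 0) (nat_lit 8869939524) (nat_lit 304) (nat_lit 23032595510) (nat_lit 76) (nat_lit 845920473) (nat_lit 29) (nat_lit 5) (nat_lit 33) (nat_lit 5) (nat_lit 30) (nat_lit 5) (nat_lit 296) (nat_lit 262) (nat_lit 162)) (XT.lf (nat_lit 0) (nat_lit 13939397452) (nat_lit 304) (nat_lit 9680884481) (nat_lit 76) (nat_lit 10268629490) (nat_lit 29) (nat_lit 5) (nat_lit 33) (nat_lit 5) (nat_lit 30) (nat_lit 5) (nat_lit 297) (nat_lit 262) (nat_lit 161)))) (XT.nd (nat_lit 156) (nat_lit 228) (nat_lit 0) (XT.nd (nat_lit 78) (nat_lit 0) (nat_lit 0) (XT.lf (nat_lit 0) (nat_lit 4471604136) (nat_lit 152) (nat_lit 14853723276) (nat_lit 228) (nat_lit 15757927049) (nat_lit 27) (nat_lit 5) (nat_lit 29) (nat_lit 5) (nat_lit 30) (nat_lit 5) (nat_lit 298) (nat_lit 262) (nat_lit 160)) (XT.lf (nat_lit 0) (nat_lit 19658048528) (nat_lit 152) (nat_lit 5479812703) (nat_lit 228) (nat_lit 11191601650) (nat_lit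 27) (nat_lit 5) (nat_lit 29) (nat_lit 5) (nat_lit 30) (nat_lit 5) (nat_lit 299) (nat_lit 262) (nat_lit 159))) (XT.nd (nat_lit 78) (nat_lit 228) (nat_lit 0) (XT.lf (nat_lit 0) (nat_lit 31302763962) (nat_lit 228) (nat_lit 2111866862) (nat_lit 76) (nat_lit 4220276745) (nat_lit 27) (nat_lit 5) (nat_lit 30) (nat_lit 5) (nat_lit 28) (nat_lit 5) (nat_lit 300) (nat_lit 262) (nat_lit 158)) (XT.nd (nat_lit 78) (nat_lit 76) (nat_lit 0) (XT.lf (nat_lit 0) (nat_lit 13509071231) (nat_lit 152) (nat_lit 24561518327) (nat_lit 228) (nat_lit 920313383) (nat_lit 25) (nat_lit 5) (nat_lit 27) (nat_lit 5) (nat_lit 28) (nat_lit 5) (nat_lit 301) (nat_lit 262) (nat_lit 157)) (XT.lf (nat_lit 0) (nat_lit 4640013599) (nat_lit 228) (nat_lit 10512662246) (nat_lit 76) (nat_lit 25256799812) (nat_lit 24) (nat_lit 5) (nat_lit 27) (nat_lit 5) (nat_lit 25) (nat_lit 5) (nat_lit 302) (nat_lit 262) (nat_lit 156)))))) (XT.nd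 (nat_lit 312) (nat_lit 304) (nat_lit 0) (XT.nd (nat_lit 156) (nat_lit 152) (nat_lit 0) (XT.nd (nat_lit 78) (nat_lit 0) (nat_lit 0) (XT.lf (nat_lit 0) (nat_lit 5352435926) (nat_lit 152) (nat_lit 5172816725) (nat_lit 228) (nat_lit 31369089444) (nat_lit 22) (nat_lit 5) (nat_lit 24) (nat_lit 5) (nat_lit 25) (nat_lit 5) (nat_lit 303) (nat_lit 262) (nat_lit 155)) (XT.lf (nat_lit 0) (nat_lit 16962901142) (nat_lit 228) (nat_lit 21163401994) (nat_lit 76) (nat_lit 5314251496) (nat_lit 22) (nat_lit 5) (nat_lit 25) (nat_lit 5) (nat_lit 23) (nat_lit 5) (nat_lit 304) (nat_lit 262) (nat_lit 154))) (XT.nd (nat_lit 78) (nat_lit 152) (nat_lit 0) (XT.lf (nat_lit 0) (nat_lit 23801851134) (nat_lit 228) (nat_lit 5109207329) (nat_lit 76) (nat_lit 16149058046) (nat_lit 22) (nat_lit 5) (nat_lit 25) (nat_lit 5) (nat_lit 23) (nat_lit 5) (nat_lit 305) (nat_lit 262) (nat_lit 153)) (XT.lf (nat_lit 0) (nat_lit 12127830580)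 (nat_lit 152) (nat_lit 19039142516) (nat_lit 228) (nat_lit 15584481365) (nat_lit 20) (nat_lit 5) (nat_lit 22) (nat_lit 5) (nat_lit 23) (nat_lit 5) (nat_lit 306) (nat_lit 262) (nat_lit 152)))) (XT.nd (nat_lit 156) (nat_lit 304) (nat_lit 0) (XT.nd (nat_lit 78) (nat_lit 0) (nat_lit 0) (XT.lf (nat_lit 0) (nat_lit 30396197283) (nat_lit 152) (nat_lit 8585676476) (nat_lit 228) (nat_lit 9541418191) (nat_lit 20) (nat_lit 5) (nat_lit 22) (nat_lit 5) (nat_lit 23) (nat_lit 5) (nat_lit 307) (nat_lit 262) (nat_lit 151)) (XT.lf (nat_lit 0) (nat_lit 47220032177) (nat_lit 228) (nat_lit 850791262) (nat_lit 76) (nat_lit 2311280588) (nat_lit 20) (nat_lit 5) (nat_lit 23) (nat_lit 5) (nat_lit 21) (nat_lit 4) (nat_lit 308) (nat_lit 262) (nat_lit 150))) (XT.nd (nat_lit 78) (nat_lit 152) (nat_lit 0) (XT.lf (nat_lit 0) (nat_lit 3842456800) (nat_lit 152) (nat_lit 34667225566) (nat_lit 76) (nat_lit 13800451544)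 (nat_lit 18) (nat_lit 5) (nat_lit 20) (nat_lit 5) (nat_lit 19) (nat_lit 5) (nat_lit 309) (nat_lit 262) (nat_lit 149)) (XT.nd (nat_lit 78) (nat_lit 152) (nat_lit 0) (XT.lf (nat_lit 0) (nat_lit 11101034518) (nat_lit 152) (nat_lit 17302489253) (nat_lit 76) (nat_lit 25927952417) (nat_lit 18) (nat_lit 5) (nat_lit 20) (nat_lit 5) (nat_lit 19) (nat_lit 5) (nat_lit 310) (nat_lit 262) (nat_lit 148)) (XT.lf (nat_lit 0) (nat_lit 953967822) (nat_lit 152) (nat_lit 17779128568) (nat_lit 228) (nat_lit 37720268297) (nat_lit 16) (nat_lit 5) (nat_lit 18) (nat_lit 5) (nat_lit 19) (nat_lit 5) (nat_lit 311) (nat_lit 262) (nat_lit 147))))))))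
noncomputable def xc178 : XT := (XT.nd (nat_lit 1326) (nat_lit 304) (nat_lit 0) (XT.nd (nat_lit 624) (nat_lit 228) (nat_lit 0) (XT.nd (nat_lit 312) (nat_lit 228) (nat_lit 0) (XT.nd (nat_lit 156) (nat_lit 76) (nat_lit 0) (XT.nd (nat_lit 78) (nat_lit 0) (nat_lit 0) (XT.lf (nat_lit 0) (nat_lit 20717015822) (nat_lit 152) (nat_lit 6318531052) (nat_lit 228) (nat_lit 31631368003) (nat_lit 16) (nat_lit 5) (nat_lit 18) (nat_lit 5) (nat_lit 19) (nat_lit 5) (nat_lit 312) (nat_lit 262) (nat_lit 146)) (XT.lf (nat_lit 0) (nat_lit 35838269903) (nat_lit 228) (nat_lit 19618928152) (nat_lit 76) (nat_lit 5529693252) (nat_lit 16) (nat_lit 5) (nat_lit 19) (nat_lit 5) (nat_lit 17) (nat_lit 4) (nat_lit 313) (nat_lit 262) (nat_lit 145))) (XT.nd (nat_lit 78) (nat_lit 76) (nat_lit 0) (XT.lf (nat_lit 0) (nat_lit 45180827130) (nat_lit 228) (nat_lit 481441775) (nat_lit 76) (nat_lit 17755618686) (nat_lit 16) (nat_lit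 5) (nat_lit 19) (nat_lit 5) (nat_lit 17) (nat_lit 4) (nat_lit 314) (nat_lit 262) (nat_lit 144)) (XT.lf (nat_lit 0) (nat_lit 20255064039) (nat_lit 76) (nat_lit 35047987037) (nat_lit 152) (nat_lit 10651761323) (nat_lit 15) (nat_lit 5) (nat_lit 16) (nat_lit 5) (nat_lit 17) (nat_lit 4) (nat_lit 315) (nat_lit 262) (nat_lit 143)))) (XT.nd (nat_lit 156) (nat_lit 152) (nat_lit 0) (XT.nd (nat_lit 78) (nat_lit 76) (nat_lit 0) (XT.lf (nat_lit 0) (nat_lit 42039065379) (nat_lit 76) (nat_lit 23896856629) (nat_lit 152) (nat_lit 2682440031) (nat_lit 15) (nat_lit 5) (nat_lit 16) (nat_lit 5) (nat_lit 17) (nat_lit 4) (nat_lit 316) (nat_lit 262) (nat_lit 142)) (XT.lf (nat_lit 0) (nat_lit 5499873869) (nat_lit 152) (nat_lit 6597463927) (nat_lit 76) (nat_lit 59313493381) (nat_lit 14) (nat_lit 5) (nat_lit 16) (nat_lit 5) (nat_lit 15) (nat_lit 5) (nat_lit 317) (nat_lit 262) (nat_lit 141))) (XT.nd (nat_lit 78)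 (nat_lit 0) (nat_lit 0) (XT.lf (nat_lit 0) (nat_lit 14238044859) (nat_lit 228) (nat_lit 59530542533) (nat_lit 76) (nat_lit 560297858) (nat_lit 12) (nat_lit 5) (nat_lit 15) (nat_lit 5) (nat_lit 13) (nat_lit 4) (nat_lit 318) (nat_lit 262) (nat_lit 140)) (XT.lf (nat_lit 0) (nat_lit 23721702552) (nat_lit 228) (nat_lit 40100055372) (nat_lit 76) (nat_lit 13555659624) (nat_lit 12) (nat_lit 5) (nat_lit 15) (nat_lit 5) (nat_lit 13) (nat_lit 4) (nat_lit 319) (nat_lit 262) (nat_lit 139))))) (XT.nd (nat_lit 312) (nat_lit 152) (nat_lit 0) (XT.nd (nat_lit 156) (nat_lit 0) (nat_lit 0) (XT.nd (nat_lit 78) (nat_lit 76) (nat_lit 0) (XT.lf (nat_lit 0) (nat_lit 33676398591) (nat_lit 228) (nat_lit 19703415262) (nat_lit 76) (nat_lit 27198724053) (nat_lit 12) (nat_lit 5) (nat_lit 15) (nat_lit 5) (nat_lit 13) (nat_lit 4) (nat_lit 320) (nat_lit 262) (nat_lit 138)) (XT.lf (nat_lit 0) (nat_lit 1764413476) (nat_lit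 76) (nat_lit 42388968596) (nat_lit 152) (nat_lit 39785108592) (nat_lit 11) (nat_lit 5) (nat_lit 12) (nat_lit 5) (nat_lit 13) (nat_lit 4) (nat_lit 321) (nat_lit 262) (nat_lit 137))) (XT.nd (nat_lit 78) (nat_lit 0) (nat_lit 0) (XT.lf (nat_lit 0) (nat_lit 24984658621) (nat_lit 76) (nat_lit 30500312210) (nat_lit 152) (nat_lit 31964936252) (nat_lit 11) (nat_lit 5) (nat_lit 12) (nat_lit 5) (nat_lit 13) (nat_lit 4) (nat_lit 322) (nat_lit 262) (nat_lit 136)) (XT.lf (nat_lit 0) (nat_lit 49361122578) (nat_lit 76) (nat_lit 18019225240) (nat_lit 152) (nat_lit 23756689708) (nat_lit 11) (nat_lit 5) (nat_lit 12) (nat_lit 5) (nat_lit 13) (nat_lit 4) (nat_lit 323) (nat_lit 262) (nat_lit 135)))) (XT.nd (nat_lit 156) (nat_lit 76) (nat_lit 0) (XT.nd (nat_lit 78) (nat_lit 76) (nat_lit 0) (XT.lf (nat_lit 0) (nat_lit 74951844547) (nat_lit 76) (nat_lit 4915990812) (nat_lit 152) (nat_lit 15140825516) (nat_lit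 11) (nat_lit 5) (nat_lit 12) (nat_lit 5) (nat_lit 13) (nat_lit 4) (nat_lit 324) (nat_lit 262) (nat_lit 134)) (XT.lf (nat_lit 0) (nat_lit 2691890468) (nat_lit 76) (nat_lit 90465329429) (nat_lit 76) (nat_lit 5907772668) (nat_lit 10) (nat_lit 4) (nat_lit 11) (nat_lit 5) (nat_lit 11) (nat_lit 4) (nat_lit 325) (nat_lit 262) (nat_lit 133))) (XT.nd (nat_lit 78) (nat_lit 0) (nat_lit 0) (XT.lf (nat_lit 0) (nat_lit 4089006978) (nat_lit 152) (nat_lit 76182545207) (nat_lit 76) (nat_lit 23028471438) (nat_lit 9) (nat_lit 5) (nat_lit 11) (nat_lit 5) (nat_lit 10) (nat_lit 4) (nat_lit 326) (nat_lit 262) (nat_lit 132)) (XT.nd (nat_lit 78) (nat_lit 0) (nat_lit 0) (XT.lf (nat_lit 0) (nat_lit 14384656526) (nat_lit 152) (nat_lit 55083561492) (nat_lit 76) (nat_lit 38273870092) (nat_lit 9) (nat_lit 5) (nat_lit 11) (nat_lit 5) (nat_lit 10) (nat_lit 4) (nat_lit 327) (nat_lit 262) (nat_lit 131)) (XT.lf (nat_lit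 0) (nat_lit 25192775048) (nat_lit 152) (nat_lit 32933678388) (nat_lit 76) (nat_lit 54279920780) (nat_lit 9) (nat_lit 5) (nat_lit 11) (nat_lit 5) (nat_lit 10) (nat_lit 4) (nat_lit 328) (nat_lit 262) (nat_lit 130))))))) (XT.nd (nat_lit 702) (nat_lit 152) (nat_lit 0) (XT.nd (nat_lit 312) (nat_lit 76) (nat_lit 0) (XT.nd (nat_lit 156) (nat_lit 0) (nat_lit 0) (XT.nd (nat_lit 78) (nat_lit 76) (nat_lit 0) (XT.lf (nat_lit 0) (nat_lit 36539096158) (nat_lit 152) (nat_lit 9680158078) (nat_lit 76) (nat_lit 71084733147) (nat_lit 9) (nat_lit 5) (nat_lit 11) (nat_lit 5) (nat_lit 10) (nat_lit 4) (nat_lit 329) (nat_lit 262) (nat_lit 129)) (XT.lf (nat_lit 0) (nat_lit 15219483480) (nat_lit 76) (nat_lit 33468770217) (nat_lit 152) (nat_lit 73746453958) (nat_lit 8) (nat_lit 5) (nat_lit 9) (nat_lit 5) (nat_lit 10) (nat_lit 4) (nat_lit 330) (nat_lit 262) (nat_lit 128))) (XT.nd (nat_lit 78) (nat_lit 0) (nat_lit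 0) (XT.lf (nat_lit 0) (nat_lit 41696566308) (nat_lit 76) (nat_lit 19910186050) (nat_lit 152) (nat_lit 66207119770) (nat_lit 8) (nat_lit 5) (nat_lit 9) (nat_lit 5) (nat_lit 10) (nat_lit 4) (nat_lit 331) (nat_lit 262) (nat_lit 127)) (XT.lf (nat_lit 0) (nat_lit 69494061337) (nat_lit 76) (nat_lit 5675157551) (nat_lit 152) (nat_lit 58292876026) (nat_lit 8) (nat_lit 5) (nat_lit 9) (nat_lit 5) (nat_lit 10) (nat_lit 4) (nat_lit 332) (nat_lit 262) (nat_lit 126)))) (XT.nd (nat_lit 156) (nat_lit 76) (nat_lit 0) (XT.nd (nat_lit 78) (nat_lit 0) (nat_lit 0) (XT.lf (nat_lit 0) (nat_lit 89552678804) (nat_lit 152) (nat_lit 40859405017) (nat_lit 0) (nat_lit 8973503646) (nat_lit 8) (nat_lit 5) (nat_lit 10) (nat_lit 4) (nat_lit 8) (nat_lit 4) (nat_lit 333) (nat_lit 262) (nat_lit 125)) (XT.lf (nat_lit 0) (nat_lit 104746550943) (nat_lit 152) (nat_lit 16691572096) (nat_lit 0) (nat_lit 24162571675) (nat_lit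 8) (nat_lit 5) (nat_lit 10) (nat_lit 4) (nat_lit 8) (nat_lit 4) (nat_lit 334) (nat_lit 262) (nat_lit 124))) (XT.nd (nat_lit 78) (nat_lit 0) (nat_lit 0) (XT.lf (nat_lit 0) (nat_lit 8968666081) (nat_lit 76) (nat_lit 111869766008) (nat_lit 76) (nat_lit 31281211397) (nat_lit 7) (nat_lit 4) (nat_lit 8) (nat_lit 5) (nat_lit 8) (nat_lit 4) (nat_lit 335) (nat_lit 262) (nat_lit 123)) (XT.nd (nat_lit 78) (nat_lit 0) (nat_lit 0) (XT.lf (nat_lit 0) (nat_lit 36488419175) (nat_lit 76) (nat_lit 101527492121) (nat_lit 76) (nat_lit 20934580040) (nat_lit 7) (nat_lit 4) (nat_lit 8) (nat_lit 5) (nat_lit 8) (nat_lit 4) (nat_lit 336) (nat_lit 262) (nat_lit 122)) (XT.lf (nat_lit 0) (nat_lit 65381311651) (nat_lit 76) (nat_lit 90669356768) (nat_lit 76) (nat_lit 10072294716) (nat_lit 7) (nat_lit 4) (nat_lit 8) (nat_lit 5) (nat_lit 8) (nat_lit 4) (nat_lit 337) (nat_lit 262) (nat_lit 121)))))) (XT.nd (nat_lit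 312) (nat_lit 76) (nat_lit 0) (XT.nd (nat_lit 156) (nat_lit 0) (nat_lit 0) (XT.nd (nat_lit 78) (nat_lit 0) (nat_lit 0) (XT.lf (nat_lit 0) (nat_lit 1288890616) (nat_lit 152) (nat_lit 77958788641) (nat_lit 76) (nat_lit 94405417508) (nat_lit 6) (nat_lit 5) (nat_lit 8) (nat_lit 5) (nat_lit 7) (nat_lit 4) (nat_lit 338) (nat_lit 262) (nat_lit 120)) (XT.lf (nat_lit 0) (nat_lit 12878167134) (nat_lit 152) (nat_lit 54204535924) (nat_lit 76) (nat_lit 114468853200) (nat_lit 6) (nat_lit 5) (nat_lit 8) (nat_lit 5) (nat_lit 7) (nat_lit 4) (nat_lit 339) (nat_lit 262) (nat_lit 119))) (XT.nd (nat_lit 78) (nat_lit 0) (nat_lit 0) (XT.lf (nat_lit 0) (nat_lit 25045504688) (nat_lit 152) (nat_lit 29265078840) (nat_lit 76) (nat_lit 135534426779) (nat_lit 6) (nat_lit 5) (nat_lit 8) (nat_lit 5) (nat_lit 7) (nat_lit 4) (nat_lit 340) (nat_lit 262) (nat_lit 118)) (XT.lf (nat_lit 0) (nat_lit 37819873128) (nat_lit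 152) (nat_lit 3081037730) (nat_lit 76) (nat_lit 157652294374) (nat_lit 6) (nat_lit 5) (nat_lit 8) (nat_lit 5) (nat_lit 7) (nat_lit 4) (nat_lit 341) (nat_lit 262) (nat_lit 117)))) (XT.nd (nat_lit 156) (nat_lit 0) (nat_lit 0) (XT.nd (nat_lit 78) (nat_lit 0) (nat_lit 0) (XT.lf (nat_lit 0) (nat_lit 25217032897) (nat_lit 76) (nat_lit 26408363274) (nat_lit 152) (nat_lit 156051793231) (nat_lit 5) (nat_lit 5) (nat_lit 6) (nat_lit 5) (nat_lit 7) (nat_lit 4) (nat_lit 342) (nat_lit 262) (nat_lit 116)) (XT.lf (nat_lit 0) (nat_lit 55034735350) (nat_lit 76) (nat_lit 11137392150) (nat_lit 152) (nat_lit 151082699918) (nat_lit 5) (nat_lit 5) (nat_lit 6) (nat_lit 5) (nat_lit 7) (nat_lit 4) (nat_lit 343) (nat_lit 262) (nat_lit 115))) (XT.nd (nat_lit 78) (nat_lit 0) (nat_lit 0) (XT.lf (nat_lit 0) (nat_lit 81521451173) (nat_lit 152) (nat_lit 141046659894) (nat_lit 0) (nat_lit 4739474665) (nat_lit 5) (nat_lit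 5) (nat_lit 7) (nat_lit 4) (nat_lit 5) (nat_lit 4) (nat_lit 344) (nat_lit 262) (nat_lit 114)) (XT.nd (nat_lit 78) (nat_lit 0) (nat_lit 0) (XT.lf (nat_lit 0) (nat_lit 97819676365) (nat_lit 152) (nat_lit 118999210213) (nat_lit 0) (nat_lit 21035024748) (nat_lit 5) (nat_lit 5) (nat_lit 7) (nat_lit 4) (nat_lit 5) (nat_lit 4) (nat_lit 345) (nat_lit 262) (nat_lit 113)) (XT.lf (nat_lit 0) (nat_lit 114931722468) (nat_lit 152) (nat_lit 95851363195) (nat_lit 0) (nat_lit 38144523129) (nat_lit 5) (nat_lit 5) (nat_lit 7) (nat_lit 4) (nat_lit 5) (nat_lit 4) (nat_lit 346) (nat_lit 262) (nat_lit 112))))))))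
noncomputable def xc179 : XT := (XT.nd (nat_lit 31512) (nat_lit 0) (nat_lit 3192) (XT.nd (nat_lit 624) (nat_lit 0) (nat_lit 0) (XT.nd (nat_lit 312) (nat_lit 0) (nat_lit 0) (XT.nd (nat_lit 156) (nat_lit 76) (nat_lit 0) (XT.nd (nat_lit 78) (nat_lit 0) (nat_lit 0) (XT.lf (nat_lit 0) (nat_lit 132898332450) (nat_lit 152) (nat_lit 71548004918) (nat_lit 0) (nat_lit 56108706710) (nat_lit 5) (nat_lit 5) (nat_lit 7) (nat_lit 4) (nat_lit 5) (nat_lit 4) (nat_lit 347) (nat_lit 262) (nat_lit 111)) (XT.lf (nat_lit 0) (nat_lit 151762283955) (nat_lit 152) (nat_lit 46031270243) (nat_lit 0) (nat_lit 74970347355) (nat_lit 5) (nat_lit 5) (nat_lit 7) (nat_lit 4) (nat_lit 5) (nat_lit 4) (nat_lit 348) (nat_lit 262) (nat_lit 110))) (XT.nd (nat_lit 78) (nat_lit 76) (nat_lit 0) (XT.lf (nat_lit 0) (nat_lit 171568491151) (nat_lit 152) (nat_lit 19240405040) (nat_lit 0) (nat_lit 94774353733) (nat_lit 5) (nat_lit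 5) (nat_lit 7) (nat_lit 4) (nat_lit 5) (nat_lit 4) (nat_lit 349) (nat_lit 262) (nat_lit 109)) (XT.lf (nat_lit 0) (nat_lit 9182268398) (nat_lit 76) (nat_lit 183325204221) (nat_lit 76) (nat_lit 106528970785) (nat_lit 4) (nat_lit 4) (nat_lit 5) (nat_lit 5) (nat_lit 5) (nat_lit 4) (nat_lit 350) (nat_lit 262) (nat_lit 108)))) (XT.nd (nat_lit 156) (nat_lit 0) (nat_lit 0) (XT.nd (nat_lit 78) (nat_lit 0) (nat_lit 0) (XT.lf (nat_lit 0) (nat_lit 39692460177) (nat_lit 76) (nat_lit 175125909276) (nat_lit 76) (nat_lit 98327679634) (nat_lit 4) (nat_lit 4) (nat_lit 5) (nat_lit 5) (nat_lit 5) (nat_lit 4) (nat_lit 351) (nat_lit 262) (nat_lit 107)) (XT.lf (nat_lit 0) (nat_lit 71726638927) (nat_lit 76) (nat_lit 166517334795) (nat_lit 76) (nat_lit 89717204004) (nat_lit 4) (nat_lit 4) (nat_lit 5) (nat_lit 5) (nat_lit 5) (nat_lit 4) (nat_lit 352) (nat_lit 262) (nat_lit 106))) (XT.nd (nat_lit 78) (nat_lit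 0) (nat_lit 0) (XT.lf (nat_lit 0) (nat_lit 105361076502) (nat_lit 76) (nat_lit 157478984173) (nat_lit 76) (nat_lit 80677042763) (nat_lit 4) (nat_lit 4) (nat_lit 5) (nat_lit 5) (nat_lit 5) (nat_lit 4) (nat_lit 353) (nat_lit 262) (nat_lit 105)) (XT.lf (nat_lit 0) (nat_lit 140675854897) (nat_lit 76) (nat_lit 147989337527) (nat_lit 76) (nat_lit 71185671718) (nat_lit 4) (nat_lit 4) (nat_lit 5) (nat_lit 5) (nat_lit 5) (nat_lit 4) (nat_lit 354) (nat_lit 262) (nat_lit 104))))) (XT.nd (nat_lit 30498) (nat_lit 0) (nat_lit 5168) (XT.nd (nat_lit 30342) (nat_lit 0) (nat_lit 5168) (XT.nd (nat_lit 78) (nat_lit 0) (nat_lit 0) (XT.lf (nat_lit 0) (nat_lit 177755056917) (nat_lit 76) (nat_lit 138025800460) (nat_lit 76) (nat_lit 61220492367) (nat_lit 4) (nat_lit 4) (nat_lit 5) (nat_lit 5) (nat_lit 5) (nat_lit 4) (nat_lit 355) (nat_lit 262) (nat_lit 103)) (XT.lf (nat_lit 0) (nat_lit 216686966376) (nat_lit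 76) (nat_lit 127564650266) (nat_lit 76) (nat_lit 50757778092) (nat_lit 4) (nat_lit 4) (nat_lit 5) (nat_lit 5) (nat_lit 5) (nat_lit 4) (nat_lit 356) (nat_lit 262) (nat_lit 102))) (XT.nd (nat_lit 78) (nat_lit 0) (nat_lit 0) (XT.lf (nat_lit 0) (nat_lit 176724876) (nat_lit 0) (nat_lit 176724876) (nat_lit 684) (nat_lit 6088502278) (nat_lit 72) (nat_lit 5) (nat_lit 72) (nat_lit 3) (nat_lit 81) (nat_lit 3) (nat_lit 263) (nat_lit 263) (nat_lit 194)) (XT.lf (nat_lit 0) (nat_lit 1180389654) (nat_lit 684) (nat_lit 7095155308) (nat_lit 760) (nat_lit 4906435120) (nat_lit 72) (nat_lit 5) (nat_lit 81) (nat_lit 3) (nat_lit 82) (nat_lit 5) (nat_lit 264) (nat_lit 263) (nat_lit 193)))) (XT.nd (nat_lit 156) (nat_lit 0) (nat_lit 76) (XT.nd (nat_lit 78) (nat_lit 0) (nat_lit 76) (XT.lf (nat_lit 0) (nat_lit 1659424472) (nat_lit 684) (nat_lit 1407414406) (nat_lit 760) (nat_lit 10429106300) (nat_lit 72) (nat_lit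 5) (nat_lit 81) (nat_lit 3) (nat_lit 82) (nat_lit 5) (nat_lit 265) (nat_lit 263) (nat_lit 192)) (XT.lf (nat_lit 0) (nat_lit 2251907569) (nat_lit 684) (nat_lit 9159683766) (nat_lit 760) (nat_lit 2409617394) (nat_lit 73) (nat_lit 5) (nat_lit 82) (nat_lit 5) (nat_lit 83) (nat_lit 5) (nat_lit 266) (nat_lit 263) (nat_lit 191))) (XT.nd (nat_lit 78) (nat_lit 0) (nat_lit 0) (XT.lf (nat_lit 0) (nat_lit 2926763039) (nat_lit 684) (nat_lit 3143423991) (nat_lit 760) (nat_lit 8089982473) (nat_lit 73) (nat_lit 5) (nat_lit 82) (nat_lit 5) (nat_lit 83) (nat_lit 5) (nat_lit 267) (nat_lit 263) (nat_lit 190)) (XT.nd (nat_lit 78) (nat_lit 0) (nat_lit 76) (XT.lf (nat_lit 76) (nat_lit 3264822473) (nat_lit 0) (nat_lit 400793918) (nat_lit 760) (nat_lit 10849017222) (nat_lit 74) (nat_lit 5) (nat_lit 73) (nat_lit 5) (nat_lit 83) (nat_lit 5) (nat_lit 268) (nat_lit 263) (nat_lit 189)) (XT.lf (nat_lit 0) (nat_lit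 4562374542) (nat_lit 684) (nat_lit 4883375778) (nat_lit 760) (nat_lit 5435087315) (nat_lit 74) (nat_lit 5) (nat_lit 83) (nat_lit 5) (nat_lit 84) (nat_lit 5) (nat_lit 269) (nat_lit 263) (nat_lit 188))))))) (XT.nd (nat_lit 702) (nat_lit 1292) (nat_lit 0) (XT.nd (nat_lit 312) (nat_lit 836) (nat_lit 0) (XT.nd (nat_lit 156) (nat_lit 0) (nat_lit 76) (XT.nd (nat_lit 78) (nat_lit 0) (nat_lit 76) (XT.lf (nat_lit 76) (nat_lit 1840111352) (nat_lit 0) (nat_lit 3680273846) (nat_lit 760) (nat_lit 9744207656) (nat_lit 75) (nat_lit 5) (nat_lit 74) (nat_lit 5) (nat_lit 84) (nat_lit 5) (nat_lit 270) (nat_lit 263) (nat_lit 187)) (XT.lf (nat_lit 0) (nat_lit 6629291730) (nat_lit 684) (nat_lit 6646919648) (nat_lit 760) (nat_lit 2386233475) (nat_lit 75) (nat_lit 5) (nat_lit 84) (nat_lit 5) (nat_lit 85) (nat_lit 5) (nat_lit 271) (nat_lit 263) (nat_lit 186))) (XT.nd (nat_lit 78) (nat_lit 0) (nat_lit 0) (XT.lf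 (nat_lit 76) (nat_lit 408530954) (nat_lit 0) (nat_lit 7434566750) (nat_lit 760) (nat_lit 8234675030) (nat_lit 76) (nat_lit 5) (nat_lit 75) (nat_lit 5) (nat_lit 85) (nat_lit 5) (nat_lit 272) (nat_lit 263) (nat_lit 185)) (XT.lf (nat_lit 76) (nat_lit 8034009092) (nat_lit 0) (nat_lit 1179507924) (nat_lit 760) (nat_lit 7295607162) (nat_lit 76) (nat_lit 5) (nat_lit 75) (nat_lit 5) (nat_lit 85) (nat_lit 5) (nat_lit 273) (nat_lit 263) (nat_lit 184)))) (XT.nd (nat_lit 156) (nat_lit 304) (nat_lit 0) (XT.nd (nat_lit 78) (nat_lit 684) (nat_lit 0) (XT.lf (nat_lit 0) (nat_lit 10720777324) (nat_lit 684) (nat_lit 1019166284) (nat_lit 76) (nat_lit 5218734368) (nat_lit 76) (nat_lit 5) (nat_lit 85) (nat_lit 5) (nat_lit 77) (nat_lit 5) (nat_lit 274) (nat_lit 263) (nat_lit 183)) (XT.lf (nat_lit 0) (nat_lit 7001224083) (nat_lit 684) (nat_lit 5415767684) (nat_lit 760) (nat_lit 5008086504) (nat_lit 67) (nat_lit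 5) (nat_lit 76) (nat_lit 5) (nat_lit 77) (nat_lit 5) (nat_lit 275) (nat_lit 263) (nat_lit 182))) (XT.nd (nat_lit 78) (nat_lit 304) (nat_lit 0) (XT.lf (nat_lit 0) (nat_lit 14220167154) (nat_lit 760) (nat_lit 2489011040) (nat_lit 76) (nat_lit 1204558938) (nat_lit 67) (nat_lit 5) (nat_lit 77) (nat_lit 5) (nat_lit 68) (nat_lit 5) (nat_lit 276) (nat_lit 263) (nat_lit 181)) (XT.nd (nat_lit 78) (nat_lit 0) (nat_lit 0) (XT.lf (nat_lit 0) (nat_lit 5930568388) (nat_lit 304) (nat_lit 10350487352) (nat_lit 380) (nat_lit 2137439341) (nat_lit 63) (nat_lit 5) (nat_lit 67) (nat_lit 5) (nat_lit 68) (nat_lit 5) (nat_lit 277) (nat_lit 263) (nat_lit 180)) (XT.lf (nat_lit 0) (nat_lit 14844711895) (nat_lit 304) (nat_lit 3629065914) (nat_lit 380) (nat_lit 473315444) (nat_lit 63) (nat_lit 5) (nat_lit 67) (nat_lit 5) (nat_lit 68) (nat_lit 5) (nat_lit 278) (nat_lit 263) (nat_lit 179)))))) (XT.nd (nat_lit 312)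 (nat_lit 532) (nat_lit 0) (XT.nd (nat_lit 156) (nat_lit 304) (nat_lit 0) (XT.nd (nat_lit 78) (nat_lit 0) (nat_lit 0) (XT.lf (nat_lit 0) (nat_lit 1350677026) (nat_lit 456) (nat_lit 14728866701) (nat_lit 76) (nat_lit 3415749015) (nat_lit 57) (nat_lit 5) (nat_lit 63) (nat_lit 5) (nat_lit 58) (nat_lit 5) (nat_lit 279) (nat_lit 263) (nat_lit 178)) (XT.lf (nat_lit 0) (nat_lit 3367520030) (nat_lit 456) (nat_lit 5927864270) (nat_lit 76) (nat_lit 10769288161) (nat_lit 57) (nat_lit 5) (nat_lit 63) (nat_lit 5) (nat_lit 58) (nat_lit 5) (nat_lit 280) (nat_lit 263) (nat_lit 177))) (XT.nd (nat_lit 78) (nat_lit 0) (nat_lit 0) (XT.lf (nat_lit 0) (nat_lit 3409805265) (nat_lit 304) (nat_lit 2116683933) (nat_lit 380) (nat_lit 15134002139) (nat_lit 53) (nat_lit 5) (nat_lit 57) (nat_lit 5) (nat_lit 58) (nat_lit 5) (nat_lit 281) (nat_lit 263) (nat_lit 176)) (XT.lf (nat_lit 0) (nat_lit 7968492795) (nat_lit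 380) (nat_lit 7960119393) (nat_lit 76) (nat_lit 5348767405) (nat_lit 53) (nat_lit 5) (nat_lit 58) (nat_lit 5) (nat_lit 54) (nat_lit 5) (nat_lit 282) (nat_lit 263) (nat_lit 175)))) (XT.nd (nat_lit 156) (nat_lit 228) (nat_lit 0) (XT.nd (nat_lit 78) (nat_lit 0) (nat_lit 0) (XT.lf (nat_lit 0) (nat_lit 1805770743) (nat_lit 304) (nat_lit 8778683200) (nat_lit 380) (nat_lit 11338096624) (nat_lit 49) (nat_lit 5) (nat_lit 53) (nat_lit 5) (nat_lit 54) (nat_lit 5) (nat_lit 283) (nat_lit 263) (nat_lit 174)) (XT.lf (nat_lit 0) (nat_lit 12324210081) (nat_lit 304) (nat_lit 1131112580) (nat_lit 380) (nat_lit 9138481647) (nat_lit 49) (nat_lit 5) (nat_lit 53) (nat_lit 5) (nat_lit 54) (nat_lit 5) (nat_lit 284) (nat_lit 263) (nat_lit 173))) (XT.nd (nat_lit 78) (nat_lit 228) (nat_lit 0) (XT.lf (nat_lit 0) (nat_lit 16567234628) (nat_lit 380) (nat_lit 49802761) (nat_lit 76) (nat_lit 6676736633) (nat_lit 49)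 (nat_lit 5) (nat_lit 54) (nat_lit 5) (nat_lit 50) (nat_lit 5) (nat_lit 285) (nat_lit 263) (nat_lit 172)) (XT.nd (nat_lit 78) (nat_lit 0) (nat_lit 0) (XT.lf (nat_lit 0) (nat_lit 11003134724) (nat_lit 228) (nat_lit 9012215913) (nat_lit 304) (nat_lit 4004388094) (nat_lit 46) (nat_lit 5) (nat_lit 49) (nat_lit 5) (nat_lit 50) (nat_lit 5) (nat_lit 286) (nat_lit 263) (nat_lit 171)) (XT.lf (nat_lit 0) (nat_lit 22599163370) (nat_lit 228) (nat_lit 1028115226) (nat_lit 304) (nat_lit 1155178420) (nat_lit 46) (nat_lit 5) (nat_lit 49) (nat_lit 5) (nat_lit 50) (nat_lit 5) (nat_lit 287) (nat_lit 263) (nat_lit 170))))))))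
noncomputable def xc180 : XT := (XT.nd (nat_lit 1326) (nat_lit 836) (nat_lit 0) (XT.nd (nat_lit 624) (nat_lit 760) (nat_lit 0) (XT.nd (nat_lit 312) (nat_lit 456) (nat_lit 0) (XT.nd (nat_lit 156) (nat_lit 228) (nat_lit 0) (XT.nd (nat_lit 78) (nat_lit 0) (nat_lit 0) (XT.lf (nat_lit 0) (nat_lit 2033860682) (nat_lit 380) (nat_lit 16238133048) (nat_lit 76) (nat_lit 7297099703) (nat_lit 41) (nat_lit 5) (nat_lit 46) (nat_lit 5) (nat_lit 42) (nat_lit 5) (nat_lit 288) (nat_lit 263) (nat_lit 169)) (XT.lf (nat_lit 0) (nat_lit 5389041704) (nat_lit 380) (nat_lit 4944215038) (nat_lit 76) (nat_lit 16058604640) (nat_lit 41) (nat_lit 5) (nat_lit 46) (nat_lit 5) (nat_lit 42) (nat_lit 5) (nat_lit 289) (nat_lit 263) (nat_lit 168))) (XT.nd (nat_lit 78) (nat_lit 0) (nat_lit 0) (XT.lf (nat_lit 0) (nat_lit 7131872454) (nat_lit 228) (nat_lit 1882958697) (nat_lit 304) (nat_lit 18235815209) (nat_lit 38) (nat_lit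 5) (nat_lit 41) (nat_lit 5) (nat_lit 42) (nat_lit 5) (nat_lit 290) (nat_lit 263) (nat_lit 167)) (XT.lf (nat_lit 0) (nat_lit 13007849655) (nat_lit 304) (nat_lit 8286284673) (nat_lit 76) (nat_lit 6848959378) (nat_lit 38) (nat_lit 5) (nat_lit 42) (nat_lit 5) (nat_lit 39) (nat_lit 5) (nat_lit 291) (nat_lit 263) (nat_lit 166)))) (XT.nd (nat_lit 156) (nat_lit 228) (nat_lit 0) (XT.nd (nat_lit 78) (nat_lit 0) (nat_lit 0) (XT.lf (nat_lit 0) (nat_lit 4231920010) (nat_lit 228) (nat_lit 13057637501) (nat_lit 304) (nat_lit 11786173125) (nat_lit 35) (nat_lit 5) (nat_lit 38) (nat_lit 5) (nat_lit 39) (nat_lit 5) (nat_lit 292) (nat_lit 263) (nat_lit 165)) (XT.lf (nat_lit 0) (nat_lit 17653396488) (nat_lit 228) (nat_lit 4264599797) (nat_lit 304) (nat_lit 8130389079) (nat_lit 35) (nat_lit 5) (nat_lit 38) (nat_lit 5) (nat_lit 39) (nat_lit 5) (nat_lit 293) (nat_lit 263) (nat_lit 164))) (XT.nd (nat_lit 78)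 (nat_lit 76) (nat_lit 0) (XT.lf (nat_lit 0) (nat_lit 607995434) (nat_lit 152) (nat_lit 26249560052) (nat_lit 228) (nat_lit 4208149778) (nat_lit 33) (nat_lit 5) (nat_lit 35) (nat_lit 5) (nat_lit 36) (nat_lit 5) (nat_lit 294) (nat_lit 263) (nat_lit 163)) (XT.lf (nat_lit 0) (nat_lit 189044346) (nat_lit 228) (nat_lit 17514156503) (nat_lit 76) (nat_lit 14416977721) (nat_lit 32) (nat_lit 5) (nat_lit 35) (nat_lit 5) (nat_lit 33) (nat_lit 5) (nat_lit 295) (nat_lit 263) (nat_lit 162))))) (XT.nd (nat_lit 312) (nat_lit 380) (nat_lit 0) (XT.nd (nat_lit 156) (nat_lit 152) (nat_lit 0) (XT.nd (nat_lit 78) (nat_lit 228) (nat_lit 0) (XT.lf (nat_lit 0) (nat_lit 4657725233) (nat_lit 228) (nat_lit 4002188131) (nat_lit 76) (nat_lit 24564375443) (nat_lit 32) (nat_lit 5) (nat_lit 35) (nat_lit 5) (nat_lit 33) (nat_lit 5) (nat_lit 296) (nat_lit 263) (nat_lit 161)) (XT.lf (nat_lit 0) (nat_lit 9523043545) (nat_lit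 304) (nat_lit 23878902706) (nat_lit 76) (nat_lit 973012419) (nat_lit 29) (nat_lit 5) (nat_lit 33) (nat_lit 5) (nat_lit 30) (nat_lit 5) (nat_lit 297) (nat_lit 263) (nat_lit 160))) (XT.nd (nat_lit 78) (nat_lit 152) (nat_lit 0) (XT.lf (nat_lit 0) (nat_lit 14835993082) (nat_lit 304) (nat_lit 9874145296) (nat_lit 76) (nat_lit 10862818985) (nat_lit 29) (nat_lit 5) (nat_lit 33) (nat_lit 5) (nat_lit 30) (nat_lit 5) (nat_lit 298) (nat_lit 263) (nat_lit 159)) (XT.lf (nat_lit 0) (nat_lit 4981277696) (nat_lit 152) (nat_lit 15504902573) (nat_lit 228) (nat_lit 16341109167) (nat_lit 27) (nat_lit 5) (nat_lit 29) (nat_lit 5) (nat_lit 30) (nat_lit 5) (nat_lit 299) (nat_lit 263) (nat_lit 158)))) (XT.nd (nat_lit 156) (nat_lit 380) (nat_lit 0) (XT.nd (nat_lit 78) (nat_lit 0) (nat_lit 0) (XT.lf (nat_lit 0) (nat_lit 20913420816) (nat_lit 152) (nat_lit 5666653942) (nat_lit 228) (nat_lit 11556215796) (nat_lit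 27) (nat_lit 5) (nat_lit 29) (nat_lit 5) (nat_lit 30) (nat_lit 5) (nat_lit 300) (nat_lit 263) (nat_lit 157)) (XT.lf (nat_lit 0) (nat_lit 33045693695) (nat_lit 228) (nat_lit 1950074789) (nat_lit 76) (nat_lit 4511633507) (nat_lit 27) (nat_lit 5) (nat_lit 30) (nat_lit 5) (nat_lit 28) (nat_lit 5) (nat_lit 301) (nat_lit 263) (nat_lit 156))) (XT.nd (nat_lit 78) (nat_lit 228) (nat_lit 0) (XT.lf (nat_lit 0) (nat_lit 14447597540) (nat_lit 152) (nat_lit 25699954069) (nat_lit 228) (nat_lit 783880678) (nat_lit 25) (nat_lit 5) (nat_lit 27) (nat_lit 5) (nat_lit 28) (nat_lit 5) (nat_lit 302) (nat_lit 263) (nat_lit 155)) (XT.nd (nat_lit 78) (nat_lit 152) (nat_lit 0) (XT.lf (nat_lit 0) (nat_lit 5040213218) (nat_lit 228) (nat_lit 10781876293) (nat_lit 76) (nat_lit 26599137807) (nat_lit 24) (nat_lit 5) (nat_lit 27) (nat_lit 5) (nat_lit 25) (nat_lit 5) (nat_lit 303) (nat_lit 263) (nat_lit 154)) (XT.lf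 (nat_lit 0) (nat_lit 5872340996) (nat_lit 152) (nat_lit 5343302603) (nat_lit 228) (nat_lit 32764911877) (nat_lit 22) (nat_lit 5) (nat_lit 24) (nat_lit 5) (nat_lit 25) (nat_lit 5) (nat_lit 304) (nat_lit 263) (nat_lit 153))))))) (XT.nd (nat_lit 702) (nat_lit 380) (nat_lit 0) (XT.nd (nat_lit 312) (nat_lit 304) (nat_lit 0) (XT.nd (nat_lit 156) (nat_lit 152) (nat_lit 0) (XT.nd (nat_lit 78) (nat_lit 0) (nat_lit 0) (XT.lf (nat_lit 0) (nat_lit 17968669686) (nat_lit 228) (nat_lit 21974514330) (nat_lit 76) (nat_lit 5661234023) (nat_lit 22) (nat_lit 5) (nat_lit 25) (nat_lit 5) (nat_lit 23) (nat_lit 5) (nat_lit 305) (nat_lit 263) (nat_lit 152)) (XT.lf (nat_lit 0) (nat_lit 25142061297) (nat_lit 228) (nat_lit 5129374588) (nat_lit 76) (nat_lit 17033910902) (nat_lit 22) (nat_lit 5) (nat_lit 25) (nat_lit 5) (nat_lit 23) (nat_lit 5) (nat_lit 306) (nat_lit 263) (nat_lit 151))) (XT.nd (nat_lit 78) (nat_lit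 0) (nat_lit 0) (XT.lf (nat_lit 0) (nat_lit 12965720167) (nat_lit 152) (nat_lit 19906185067) (nat_lit 228) (nat_lit 16209535951) (nat_lit 20) (nat_lit 5) (nat_lit 22) (nat_lit 5) (nat_lit 23) (nat_lit 5) (nat_lit 307) (nat_lit 263) (nat_lit 150)) (XT.lf (nat_lit 0) (nat_lit 32136481488) (nat_lit 152) (nat_lit 8934089276) (nat_lit 228) (nat_lit 9871661022) (nat_lit 20) (nat_lit 5) (nat_lit 22) (nat_lit 5) (nat_lit 23) (nat_lit 5) (nat_lit 308) (nat_lit 263) (nat_lit 149)))) (XT.nd (nat_lit 156) (nat_lit 152) (nat_lit 0) (XT.nd (nat_lit 78) (nat_lit 152) (nat_lit 0) (XT.lf (nat_lit 0) (nat_lit 49715191824) (nat_lit 228) (nat_lit 677677035) (nat_lit 76) (nat_lit 2501399519) (nat_lit 20) (nat_lit 5) (nat_lit 23) (nat_lit 5) (nat_lit 21) (nat_lit 4) (nat_lit 309) (nat_lit 263) (nat_lit 148)) (XT.lf (nat_lit 0) (nat_lit 4168025498) (nat_lit 152) (nat_lit 36183787727) (nat_lit 76) (nat_lit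 14566943796) (nat_lit 18) (nat_lit 5) (nat_lit 20) (nat_lit 5) (nat_lit 19) (nat_lit 5) (nat_lit 310) (nat_lit 263) (nat_lit 147))) (XT.nd (nat_lit 78) (nat_lit 152) (nat_lit 0) (XT.lf (nat_lit 0) (nat_lit 11783177537) (nat_lit 152) (nat_lit 17961138366) (nat_lit 76) (nat_lit 27297178300) (nat_lit 18) (nat_lit 5) (nat_lit 20) (nat_lit 5) (nat_lit 19) (nat_lit 5) (nat_lit 311) (nat_lit 263) (nat_lit 146)) (XT.nd (nat_lit 78) (nat_lit 0) (nat_lit 0) (XT.lf (nat_lit 0) (nat_lit 1204811315) (nat_lit 152) (nat_lit 18589150886) (nat_lit 228) (nat_lit 39475668523) (nat_lit 16) (nat_lit 5) (nat_lit 18) (nat_lit 5) (nat_lit 19) (nat_lit 5) (nat_lit 312) (nat_lit 263) (nat_lit 145)) (XT.lf (nat_lit 0) (nat_lit 21946338139) (nat_lit 152) (nat_lit 6559282261) (nat_lit 228) (nat_lit 33088542890) (nat_lit 16) (nat_lit 5) (nat_lit 18) (nat_lit 5) (nat_lit 19) (nat_lit 5) (nat_lit 313) (nat_lit 263)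 (nat_lit 144)))))) (XT.nd (nat_lit 312) (nat_lit 304) (nat_lit 0) (XT.nd (nat_lit 156) (nat_lit 76) (nat_lit 0) (XT.nd (nat_lit 78) (nat_lit 0) (nat_lit 0) (XT.lf (nat_lit 0) (nat_lit 37743964237) (nat_lit 228) (nat_lit 20410926789) (nat_lit 76) (nat_lit 5875481975) (nat_lit 16) (nat_lit 5) (nat_lit 19) (nat_lit 5) (nat_lit 17) (nat_lit 4) (nat_lit 314) (nat_lit 263) (nat_lit 143)) (XT.lf (nat_lit 0) (nat_lit 47548231190) (nat_lit 228) (nat_lit 325563607) (nat_lit 76) (nat_lit 18709403487) (nat_lit 16) (nat_lit 5) (nat_lit 19) (nat_lit 5) (nat_lit 17) (nat_lit 4) (nat_lit 315) (nat_lit 263) (nat_lit 142))) (XT.nd (nat_lit 78) (nat_lit 0) (nat_lit 0) (XT.lf (nat_lit 0) (nat_lit 21444865075) (nat_lit 76) (nat_lit 36729305342) (nat_lit 152) (nat_lit 11072926593) (nat_lit 15) (nat_lit 5) (nat_lit 16) (nat_lit 5) (nat_lit 17) (nat_lit 4) (nat_lit 316) (nat_lit 263) (nat_lit 141)) (XT.lf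 (nat_lit 0) (nat_lit 44309635633) (nat_lit 76) (nat_lit 25024003225) (nat_lit 152) (nat_lit 2710445085) (nat_lit 15) (nat_lit 5) (nat_lit 16) (nat_lit 5) (nat_lit 17) (nat_lit 4) (nat_lit 317) (nat_lit 263) (nat_lit 140)))) (XT.nd (nat_lit 156) (nat_lit 76) (nat_lit 0) (XT.nd (nat_lit 78) (nat_lit 152) (nat_lit 0) (XT.lf (nat_lit 0) (nat_lit 5872696651) (nat_lit 152) (nat_lit 6763378647) (nat_lit 76) (nat_lit 62340269783) (nat_lit 14) (nat_lit 5) (nat_lit 16) (nat_lit 5) (nat_lit 15) (nat_lit 5) (nat_lit 318) (nat_lit 263) (nat_lit 139)) (XT.lf (nat_lit 0) (nat_lit 15046660814) (nat_lit 228) (nat_lit 62341866092) (nat_lit 76) (nat_lit 651837206) (nat_lit 12) (nat_lit 5) (nat_lit 15) (nat_lit 5) (nat_lit 13) (nat_lit 4) (nat_lit 319) (nat_lit 263) (nat_lit 138))) (XT.nd (nat_lit 78) (nat_lit 76) (nat_lit 0) (XT.lf (nat_lit 0) (nat_lit 24999895976) (nat_lit 228) (nat_lit 41947721409)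 (nat_lit 76) (nat_lit 14293942087) (nat_lit 12) (nat_lit 5) (nat_lit 15) (nat_lit 5) (nat_lit 13) (nat_lit 4) (nat_lit 320) (nat_lit 263) (nat_lit 137)) (XT.nd (nat_lit 78) (nat_lit 76) (nat_lit 0) (XT.lf (nat_lit 0) (nat_lit 35447940708) (nat_lit 228) (nat_lit 20538741519) (nat_lit 76) (nat_lit 28616278809) (nat_lit 12) (nat_lit 5) (nat_lit 15) (nat_lit 5) (nat_lit 13) (nat_lit 4) (nat_lit 321) (nat_lit 263) (nat_lit 136)) (XT.lf (nat_lit 0) (nat_lit 2000061809) (nat_lit 76) (nat_lit 44446836067) (nat_lit 152) (nat_lit 41684112935) (nat_lit 11) (nat_lit 5) (nat_lit 12) (nat_lit 5) (nat_lit 13) (nat_lit 4) (nat_lit 322) (nat_lit 263) (nat_lit 135))))))))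
noncomputable def xc181 : XT := (XT.nd (nat_lit 1326) (nat_lit 152) (nat_lit 0) (XT.nd (nat_lit 624) (nat_lit 228) (nat_lit 0) (XT.nd (nat_lit 312) (nat_lit 76) (nat_lit 0) (XT.nd (nat_lit 156) (nat_lit 76) (nat_lit 0) (XT.nd (nat_lit 78) (nat_lit 0) (nat_lit 0) (XT.lf (nat_lit 0) (nat_lit 26374298846) (nat_lit 76) (nat_lit 31966679288) (nat_lit 152) (nat_lit 33477229649) (nat_lit 11) (nat_lit 5) (nat_lit 12) (nat_lit 5) (nat_lit 13) (nat_lit 4) (nat_lit 323) (nat_lit 263) (nat_lit 134)) (XT.lf (nat_lit 0) (nat_lit 51962899939) (nat_lit 76) (nat_lit 18864330756) (nat_lit 152) (nat_lit 24862663797) (nat_lit 11) (nat_lit 5) (nat_lit 12) (nat_lit 5) (nat_lit 13) (nat_lit 4) (nat_lit 324) (nat_lit 263) (nat_lit 133))) (XT.nd (nat_lit 78) (nat_lit 76) (nat_lit 0) (XT.lf (nat_lit 0) (nat_lit 78826790329) (nat_lit 76) (nat_lit 5108594405) (nat_lit 152) (nat_lit 15819904509) (nat_lit 11) (nat_lit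 5) (nat_lit 12) (nat_lit 5) (nat_lit 13) (nat_lit 4) (nat_lit 325) (nat_lit 263) (nat_lit 132)) (XT.lf (nat_lit 0) (nat_lit 2954710624) (nat_lit 76) (nat_lit 94933789510) (nat_lit 76) (nat_lit 6125978911) (nat_lit 10) (nat_lit 4) (nat_lit 11) (nat_lit 5) (nat_lit 11) (nat_lit 4) (nat_lit 326) (nat_lit 263) (nat_lit 131)))) (XT.nd (nat_lit 156) (nat_lit 0) (nat_lit 0) (XT.nd (nat_lit 78) (nat_lit 0) (nat_lit 0) (XT.lf (nat_lit 0) (nat_lit 4364611680) (nat_lit 152) (nat_lit 79867116518) (nat_lit 76) (nat_lit 24229655273) (nat_lit 9) (nat_lit 5) (nat_lit 11) (nat_lit 5) (nat_lit 10) (nat_lit 4) (nat_lit 327) (nat_lit 263) (nat_lit 130)) (XT.lf (nat_lit 0) (nat_lit 15171655403) (nat_lit 152) (nat_lit 57719114853) (nat_lit 76) (nat_lit 40234954324) (nat_lit 9) (nat_lit 5) (nat_lit 11) (nat_lit 5) (nat_lit 10) (nat_lit 4) (nat_lit 328) (nat_lit 263) (nat_lit 129))) (XT.nd (nat_lit 78) (nat_lit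 0) (nat_lit 0) (XT.lf (nat_lit 0) (nat_lit 26516952896) (nat_lit 152) (nat_lit 34467386389) (nat_lit 76) (nat_lit 57039050845) (nat_lit 9) (nat_lit 5) (nat_lit 11) (nat_lit 5) (nat_lit 10) (nat_lit 4) (nat_lit 329) (nat_lit 263) (nat_lit 128)) (XT.lf (nat_lit 0) (nat_lit 38427516772) (nat_lit 152) (nat_lit 10056569869) (nat_lit 76) (nat_lit 74681954590) (nat_lit 9) (nat_lit 5) (nat_lit 11) (nat_lit 5) (nat_lit 10) (nat_lit 4) (nat_lit 330) (nat_lit 263) (nat_lit 127))))) (XT.nd (nat_lit 312) (nat_lit 152) (nat_lit 0) (XT.nd (nat_lit 156) (nat_lit 0) (nat_lit 0) (XT.nd (nat_lit 78) (nat_lit 0) (nat_lit 0) (XT.lf (nat_lit 0) (nat_lit 16086318345) (nat_lit 76) (nat_lit 35096539682) (nat_lit 152) (nat_lit 77370506638) (nat_lit 8) (nat_lit 5) (nat_lit 9) (nat_lit 5) (nat_lit 10) (nat_lit 4) (nat_lit 331) (nat_lit 263) (nat_lit 126)) (XT.lf (nat_lit 0) (nat_lit 43882214330) (nat_lit 76) (nat_lit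 20862201022) (nat_lit 152) (nat_lit 69457218599) (nat_lit 8) (nat_lit 5) (nat_lit 9) (nat_lit 5) (nat_lit 10) (nat_lit 4) (nat_lit 332) (nat_lit 263) (nat_lit 125))) (XT.nd (nat_lit 78) (nat_lit 0) (nat_lit 0) (XT.lf (nat_lit 0) (nat_lit 73064783171) (nat_lit 76) (nat_lit 5917492257) (nat_lit 152) (nat_lit 61150132056) (nat_lit 8) (nat_lit 5) (nat_lit 9) (nat_lit 5) (nat_lit 10) (nat_lit 4) (nat_lit 333) (nat_lit 263) (nat_lit 124)) (XT.lf (nat_lit 0) (nat_lit 94082924486) (nat_lit 152) (nat_lit 42808885543) (nat_lit 0) (nat_lit 9460366801) (nat_lit 8) (nat_lit 5) (nat_lit 10) (nat_lit 4) (nat_lit 8) (nat_lit 4) (nat_lit 334) (nat_lit 263) (nat_lit 123)))) (XT.nd (nat_lit 156) (nat_lit 76) (nat_lit 0) (XT.nd (nat_lit 78) (nat_lit 76) (nat_lit 0) (XT.lf (nat_lit 0) (nat_lit 110033984911) (nat_lit 152) (nat_lit 17437112868) (nat_lit 0) (nat_lit 25407069756) (nat_lit 8) (nat_lit 5) (nat_lit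 10) (nat_lit 4) (nat_lit 8) (nat_lit 4) (nat_lit 335) (nat_lit 263) (nat_lit 122)) (XT.lf (nat_lit 0) (nat_lit 9504701124) (nat_lit 76) (nat_lit 117424740679) (nat_lit 76) (nat_lit 32793675553) (nat_lit 7) (nat_lit 4) (nat_lit 8) (nat_lit 5) (nat_lit 8) (nat_lit 4) (nat_lit 336) (nat_lit 263) (nat_lit 121))) (XT.nd (nat_lit 78) (nat_lit 76) (nat_lit 0) (XT.lf (nat_lit 0) (nat_lit 38396270361) (nat_lit 76) (nat_lit 106567187080) (nat_lit 76) (nat_lit 21932169601) (nat_lit 7) (nat_lit 4) (nat_lit 8) (nat_lit 5) (nat_lit 8) (nat_lit 4) (nat_lit 337) (nat_lit 263) (nat_lit 120)) (XT.nd (nat_lit 78) (nat_lit 76) (nat_lit 0) (XT.lf (nat_lit 0) (nat_lit 68729834593) (nat_lit 76) (nat_lit 95167891608) (nat_lit 76) (nat_lit 10529109984) (nat_lit 7) (nat_lit 4) (nat_lit 8) (nat_lit 5) (nat_lit 8) (nat_lit 4) (nat_lit 338) (nat_lit 263) (nat_lit 119)) (XT.lf (nat_lit 0) (nat_lit 1396479521) (nat_lit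 152) (nat_lit 81779583507) (nat_lit 76) (nat_lit 99157487014) (nat_lit 6) (nat_lit 5) (nat_lit 8) (nat_lit 5) (nat_lit 7) (nat_lit 4) (nat_lit 339) (nat_lit 263) (nat_lit 118))))))) (XT.nd (nat_lit 702) (nat_lit 76) (nat_lit 0) (XT.nd (nat_lit 312) (nat_lit 0) (nat_lit 0) (XT.nd (nat_lit 156) (nat_lit 76) (nat_lit 0) (XT.nd (nat_lit 78) (nat_lit 0) (nat_lit 0) (XT.lf (nat_lit 0) (nat_lit 13563165371) (nat_lit 152) (nat_lit 56841291705) (nat_lit 76) (nat_lit 120222580270) (nat_lit 6) (nat_lit 5) (nat_lit 8) (nat_lit 5) (nat_lit 7) (nat_lit 4) (nat_lit 340) (nat_lit 263) (nat_lit 117)) (XT.lf (nat_lit 0) (nat_lit 26336913141) (nat_lit 152) (nat_lit 30658360386) (nat_lit 76) (nat_lit 142339990414) (nat_lit 6) (nat_lit 5) (nat_lit 8) (nat_lit 5) (nat_lit 7) (nat_lit 4) (nat_lit 341) (nat_lit 263) (nat_lit 116))) (XT.nd (nat_lit 78) (nat_lit 76) (nat_lit 0) (XT.lf (nat_lit 0) (nat_lit 39748136517)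 (nat_lit 152) (nat_lit 3168449239) (nat_lit 76) (nat_lit 165562377946) (nat_lit 6) (nat_lit 5) (nat_lit 8) (nat_lit 5) (nat_lit 7) (nat_lit 4) (nat_lit 342) (nat_lit 263) (nat_lit 115)) (XT.lf (nat_lit 0) (nat_lit 26543450074) (nat_lit 76) (nat_lit 27699734550) (nat_lit 152) (nat_lit 163816001834) (nat_lit 5) (nat_lit 5) (nat_lit 6) (nat_lit 5) (nat_lit 7) (nat_lit 4) (nat_lit 343) (nat_lit 263) (nat_lit 114)))) (XT.nd (nat_lit 156) (nat_lit 0) (nat_lit 0) (XT.nd (nat_lit 78) (nat_lit 0) (nat_lit 0) (XT.lf (nat_lit 0) (nat_lit 57848915482) (nat_lit 76) (nat_lit 11666598055) (nat_lit 152) (nat_lit 158600281525) (nat_lit 5) (nat_lit 5) (nat_lit 6) (nat_lit 5) (nat_lit 7) (nat_lit 4) (nat_lit 344) (nat_lit 263) (nat_lit 113)) (XT.lf (nat_lit 0) (nat_lit 85631058560) (nat_lit 152) (nat_lit 148038245095) (nat_lit 0) (nat_lit 5001951533) (nat_lit 5) (nat_lit 5) (nat_lit 7) (nat_lit 4) (nat_lit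 5) (nat_lit 4) (nat_lit 345) (nat_lit 263) (nat_lit 112))) (XT.nd (nat_lit 78) (nat_lit 0) (nat_lit 0) (XT.lf (nat_lit 0) (nat_lit 102742598114) (nat_lit 152) (nat_lit 124891315683) (nat_lit 0) (nat_lit 22111064685) (nat_lit 5) (nat_lit 5) (nat_lit 7) (nat_lit 4) (nat_lit 5) (nat_lit 4) (nat_lit 346) (nat_lit 263) (nat_lit 111)) (XT.nd (nat_lit 78) (nat_lit 0) (nat_lit 0) (XT.lf (nat_lit 0) (nat_lit 120708725669) (nat_lit 152) (nat_lit 100588831316) (nat_lit 0) (nat_lit 40074881380) (nat_lit 5) (nat_lit 5) (nat_lit 7) (nat_lit 4) (nat_lit 5) (nat_lit 4) (nat_lit 347) (nat_lit 263) (nat_lit 110)) (XT.lf (nat_lit 0) (nat_lit 139572217718) (nat_lit 152) (nat_lit 75072928936) (nat_lit 0) (nat_lit 58936172611) (nat_lit 5) (nat_lit 5) (nat_lit 7) (nat_lit 4) (nat_lit 5) (nat_lit 4) (nat_lit 348) (nat_lit 263) (nat_lit 109)))))) (XT.nd (nat_lit 312) (nat_lit 0) (nat_lit 0) (XT.nd (nat_lit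 156) (nat_lit 76) (nat_lit 0) (XT.nd (nat_lit 78) (nat_lit 0) (nat_lit 0) (XT.lf (nat_lit 0) (nat_lit 159377987339) (nat_lit 152) (nat_lit 48282856395) (nat_lit 0) (nat_lit 78739846214) (nat_lit 5) (nat_lit 5) (nat_lit 7) (nat_lit 4) (nat_lit 5) (nat_lit 4) (nat_lit 349) (nat_lit 263) (nat_lit 108)) (XT.lf (nat_lit 0) (nat_lit 180173191124) (nat_lit 152) (nat_lit 20154827806) (nat_lit 0) (nat_lit 99533053793) (nat_lit 5) (nat_lit 5) (nat_lit 7) (nat_lit 4) (nat_lit 5) (nat_lit 4) (nat_lit 350) (nat_lit 263) (nat_lit 107))) (XT.nd (nat_lit 78) (nat_lit 0) (nat_lit 0) (XT.lf (nat_lit 0) (nat_lit 9688211602) (nat_lit 76) (nat_lit 192470389997) (nat_lit 76) (nat_lit 111828351516) (nat_lit 4) (nat_lit 4) (nat_lit 5) (nat_lit 5) (nat_lit 5) (nat_lit 4) (nat_lit 351) (nat_lit 263) (nat_lit 106)) (XT.lf (nat_lit 0) (nat_lit 41721682980) (nat_lit 76) (nat_lit 183862133849) (nat_lit 76) (nat_lit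 103218284750) (nat_lit 4) (nat_lit 4) (nat_lit 5) (nat_lit 5) (nat_lit 5) (nat_lit 4) (nat_lit 352) (nat_lit 263) (nat_lit 105)))) (XT.nd (nat_lit 156) (nat_lit 0) (nat_lit 0) (XT.nd (nat_lit 78) (nat_lit 0) (nat_lit 0) (XT.lf (nat_lit 0) (nat_lit 75355446868) (nat_lit 76) (nat_lit 174824086401) (nat_lit 76) (nat_lit 94178512903) (nat_lit 4) (nat_lit 4) (nat_lit 5) (nat_lit 5) (nat_lit 5) (nat_lit 4) (nat_lit 353) (nat_lit 263) (nat_lit 104)) (XT.lf (nat_lit 0) (nat_lit 110669583656) (nat_lit 76) (nat_lit 165334728493) (nat_lit 76) (nat_lit 84687512710) (nat_lit 4) (nat_lit 4) (nat_lit 5) (nat_lit 5) (nat_lit 5) (nat_lit 4) (nat_lit 354) (nat_lit 263) (nat_lit 103))) (XT.nd (nat_lit 30420) (nat_lit 0) (nat_lit 5168) (XT.lf (nat_lit 0) (nat_lit 147748174621) (nat_lit 76) (nat_lit 155371466414) (nat_lit 76) (nat_lit 74722686551) (nat_lit 4) (nat_lit 4) (nat_lit 5) (nat_lit 5) (nat_lit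 5) (nat_lit 4) (nat_lit 355) (nat_lit 263) (nat_lit 102)) (XT.nd (nat_lit 78) (nat_lit 0) (nat_lit 0) (XT.lf (nat_lit 0) (nat_lit 370961398) (nat_lit 0) (nat_lit 370961398) (nat_lit 684) (nat_lit 6002375326) (nat_lit 72) (nat_lit 5) (nat_lit 72) (nat_lit 3) (nat_lit 81) (nat_lit 3) (nat_lit 264) (nat_lit 264) (nat_lit 192)) (XT.lf (nat_lit 0) (nat_lit 1940182352) (nat_lit 684) (nat_lit 7053634206) (nat_lit 760) (nat_lit 4809916284) (nat_lit 72) (nat_lit 5) (nat_lit 81) (nat_lit 3) (nat_lit 82) (nat_lit 5) (nat_lit 265) (nat_lit 264) (nat_lit 191))))))))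
noncomputable def xc182 : XT := (XT.nd (nat_lit 1326) (nat_lit 1976) (nat_lit 0) (XT.nd (nat_lit 624) (nat_lit 1444) (nat_lit 0) (XT.nd (nat_lit 312) (nat_lit 0) (nat_lit 152) (XT.nd (nat_lit 156) (nat_lit 0) (nat_lit 76) (XT.nd (nat_lit 78) (nat_lit 0) (nat_lit 76) (XT.lf (nat_lit 0) (nat_lit 2409798758) (nat_lit 684) (nat_lit 1100376681) (nat_lit 760) (nat_lit 10624999145) (nat_lit 72) (nat_lit 5) (nat_lit 81) (nat_lit 3) (nat_lit 82) (nat_lit 5) (nat_lit 266) (nat_lit 264) (nat_lit 190)) (XT.lf (nat_lit 0) (nat_lit 3001705288) (nat_lit 684) (nat_lit 9207965740) (nat_lit 760) (nat_lit 2268644973) (nat_lit 73) (nat_lit 5) (nat_lit 82) (nat_lit 5) (nat_lit 83) (nat_lit 5) (nat_lit 267) (nat_lit 264) (nat_lit 189))) (XT.nd (nat_lit 78) (nat_lit 0) (nat_lit 0) (XT.lf (nat_lit 0) (nat_lit 3679960563) (nat_lit 684) (nat_lit 2910402605) (nat_lit 760) (nat_lit 8245478463) (nat_lit 73) (nat_lit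 5) (nat_lit 82) (nat_lit 5) (nat_lit 83) (nat_lit 5) (nat_lit 268) (nat_lit 264) (nat_lit 188)) (XT.lf (nat_lit 76) (nat_lit 3811962753) (nat_lit 0) (nat_lit 620889506) (nat_lit 760) (nat_lit 10776416827) (nat_lit 74) (nat_lit 5) (nat_lit 73) (nat_lit 5) (nat_lit 83) (nat_lit 5) (nat_lit 269) (nat_lit 264) (nat_lit 187)))) (XT.nd (nat_lit 156) (nat_lit 0) (nat_lit 76) (XT.nd (nat_lit 78) (nat_lit 0) (nat_lit 0) (XT.lf (nat_lit 0) (nat_lit 5343666235) (nat_lit 684) (nat_lit 4729336188) (nat_lit 760) (nat_lit 5522410392) (nat_lit 74) (nat_lit 5) (nat_lit 83) (nat_lit 5) (nat_lit 84) (nat_lit 5) (nat_lit 270) (nat_lit 264) (nat_lit 186)) (XT.lf (nat_lit 76) (nat_lit 2323902582) (nat_lit 0) (nat_lit 4005450144) (nat_lit 760) (nat_lit 9670100401) (nat_lit 75) (nat_lit 5) (nat_lit 74) (nat_lit 5) (nat_lit 84) (nat_lit 5) (nat_lit 271) (nat_lit 264) (nat_lit 185))) (XT.nd (nat_lit 78) (nat_lit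 0) (nat_lit 0) (XT.lf (nat_lit 0) (nat_lit 7466227103) (nat_lit 684) (nat_lit 6577018987) (nat_lit 760) (nat_lit 2375407509) (nat_lit 75) (nat_lit 5) (nat_lit 84) (nat_lit 5) (nat_lit 85) (nat_lit 5) (nat_lit 272) (nat_lit 264) (nat_lit 184)) (XT.lf (nat_lit 76) (nat_lit 824716296) (nat_lit 0) (nat_lit 7898115945) (nat_lit 760) (nat_lit 8132888283) (nat_lit 76) (nat_lit 5) (nat_lit 75) (nat_lit 5) (nat_lit 85) (nat_lit 5) (nat_lit 273) (nat_lit 264) (nat_lit 183))))) (XT.nd (nat_lit 312) (nat_lit 1064) (nat_lit 0) (XT.nd (nat_lit 156) (nat_lit 608) (nat_lit 0) (XT.nd (nat_lit 78) (nat_lit 0) (nat_lit 76) (XT.lf (nat_lit 76) (nat_lit 8812622684) (nat_lit 0) (nat_lit 1325931757) (nat_lit 760) (nat_lit 7171320379) (nat_lit 76) (nat_lit 5) (nat_lit 75) (nat_lit 5) (nat_lit 85) (nat_lit 5) (nat_lit 274) (nat_lit 264) (nat_lit 182)) (XT.lf (nat_lit 0) (nat_lit 11697765008) (nat_lit 684) (nat_lit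 686330293) (nat_lit 76) (nat_lit 5399052476) (nat_lit 76) (nat_lit 5) (nat_lit 85) (nat_lit 5) (nat_lit 77) (nat_lit 5) (nat_lit 275) (nat_lit 264) (nat_lit 181))) (XT.nd (nat_lit 78) (nat_lit 0) (nat_lit 0) (XT.lf (nat_lit 0) (nat_lit 7728889362) (nat_lit 684) (nat_lit 5734798707) (nat_lit 760) (nat_lit 4810002584) (nat_lit 67) (nat_lit 5) (nat_lit 76) (nat_lit 5) (nat_lit 77) (nat_lit 5) (nat_lit 276) (nat_lit 264) (nat_lit 180)) (XT.lf (nat_lit 0) (nat_lit 15336026473) (nat_lit 760) (nat_lit 2231557963) (nat_lit 76) (nat_lit 1220312054) (nat_lit 67) (nat_lit 5) (nat_lit 77) (nat_lit 5) (nat_lit 68) (nat_lit 5) (nat_lit 277) (nat_lit 264) (nat_lit 179)))) (XT.nd (nat_lit 156) (nat_lit 760) (nat_lit 0) (XT.nd (nat_lit 78) (nat_lit 0) (nat_lit 0) (XT.lf (nat_lit 0) (nat_lit 6602840700) (nat_lit 304) (nat_lit 10883706587) (nat_lit 380) (nat_lit 1832076849) (nat_lit 63) (nat_lit 5) (nat_lit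 67) (nat_lit 5) (nat_lit 68) (nat_lit 5) (nat_lit 278) (nat_lit 264) (nat_lit 178)) (XT.lf (nat_lit 0) (nat_lit 15944798816) (nat_lit 304) (nat_lit 3825466703) (nat_lit 380) (nat_lit 104376969) (nat_lit 63) (nat_lit 5) (nat_lit 67) (nat_lit 5) (nat_lit 68) (nat_lit 5) (nat_lit 279) (nat_lit 264) (nat_lit 177))) (XT.nd (nat_lit 78) (nat_lit 304) (nat_lit 0) (XT.lf (nat_lit 0) (nat_lit 1785826288) (nat_lit 456) (nat_lit 15080302755) (nat_lit 76) (nat_lit 3584490434) (nat_lit 57) (nat_lit 5) (nat_lit 63) (nat_lit 5) (nat_lit 58) (nat_lit 5) (nat_lit 280) (nat_lit 264) (nat_lit 176)) (XT.nd (nat_lit 78) (nat_lit 304) (nat_lit 0) (XT.lf (nat_lit 0) (nat_lit 3886005947) (nat_lit 456) (nat_lit 5857583883) (nat_lit 76) (nat_lit 11305803967) (nat_lit 57) (nat_lit 5) (nat_lit 63) (nat_lit 5) (nat_lit 58) (nat_lit 5) (nat_lit 281) (nat_lit 264) (nat_lit 175)) (XT.lf (nat_lit 0) (nat_lit 3941055039)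 (nat_lit 304) (nat_lit 2200829100) (nat_lit 380) (nat_lit 15533719392) (nat_lit 53) (nat_lit 5) (nat_lit 57) (nat_lit 5) (nat_lit 58) (nat_lit 5) (nat_lit 282) (nat_lit 264) (nat_lit 174))))))) (XT.nd (nat_lit 702) (nat_lit 836) (nat_lit 0) (XT.nd (nat_lit 312) (nat_lit 608) (nat_lit 0) (XT.nd (nat_lit 156) (nat_lit 228) (nat_lit 0) (XT.nd (nat_lit 78) (nat_lit 304) (nat_lit 0) (XT.lf (nat_lit 0) (nat_lit 8690164204) (nat_lit 380) (nat_lit 7997807975) (nat_lit 76) (nat_lit 5636200865) (nat_lit 53) (nat_lit 5) (nat_lit 58) (nat_lit 5) (nat_lit 54) (nat_lit 5) (nat_lit 283) (nat_lit 264) (nat_lit 173)) (XT.lf (nat_lit 0) (nat_lit 2250565098) (nat_lit 304) (nat_lit 9176500439) (nat_lit 380) (nat_lit 11575073411) (nat_lit 49) (nat_lit 5) (nat_lit 53) (nat_lit 5) (nat_lit 54) (nat_lit 5) (nat_lit 284) (nat_lit 264) (nat_lit 172))) (XT.nd (nat_lit 78) (nat_lit 228) (nat_lit 0) (XT.lf (nat_lit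 0) (nat_lit 13278045173) (nat_lit 304) (nat_lit 1148509236) (nat_lit 380) (nat_lit 9281188544) (nat_lit 49) (nat_lit 5) (nat_lit 53) (nat_lit 5) (nat_lit 54) (nat_lit 5) (nat_lit 285) (nat_lit 264) (nat_lit 171)) (XT.lf (nat_lit 0) (nat_lit 293053083) (nat_lit 228) (nat_lit 17391953890) (nat_lit 304) (nat_lit 6758196373) (nat_lit 46) (nat_lit 5) (nat_lit 49) (nat_lit 5) (nat_lit 50) (nat_lit 5) (nat_lit 286) (nat_lit 264) (nat_lit 170)))) (XT.nd (nat_lit 156) (nat_lit 608) (nat_lit 0) (XT.nd (nat_lit 78) (nat_lit 0) (nat_lit 0) (XT.lf (nat_lit 0) (nat_lit 11883839101) (nat_lit 228) (nat_lit 9408711494) (nat_lit 304) (nat_lit 3913602168) (nat_lit 46) (nat_lit 5) (nat_lit 49) (nat_lit 5) (nat_lit 50) (nat_lit 5) (nat_lit 287) (nat_lit 264) (nat_lit 169)) (XT.lf (nat_lit 0) (nat_lit 24043928815) (nat_lit 228) (nat_lit 1027982689) (nat_lit 304) (nat_lit 935789406) (nat_lit 46) (nat_lit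 5) (nat_lit 49) (nat_lit 5) (nat_lit 50) (nat_lit 5) (nat_lit 288) (nat_lit 264) (nat_lit 168))) (XT.nd (nat_lit 78) (nat_lit 228) (nat_lit 0) (XT.lf (nat_lit 0) (nat_lit 2396954121) (nat_lit 380) (nat_lit 16718154472) (nat_lit 76) (nat_lit 7718720503) (nat_lit 41) (nat_lit 5) (nat_lit 46) (nat_lit 5) (nat_lit 42) (nat_lit 5) (nat_lit 289) (nat_lit 264) (nat_lit 167)) (XT.nd (nat_lit 78) (nat_lit 228) (nat_lit 0) (XT.lf (nat_lit 0) (nat_lit 5907446556) (nat_lit 380) (nat_lit 4875344620) (nat_lit 76) (nat_lit 16915597554) (nat_lit 41) (nat_lit 5) (nat_lit 46) (nat_lit 5) (nat_lit 42) (nat_lit 5) (nat_lit 290) (nat_lit 264) (nat_lit 166)) (XT.lf (nat_lit 0) (nat_lit 7799449163) (nat_lit 228) (nat_lit 1908076737) (nat_lit 304) (nat_lit 18892966469) (nat_lit 38) (nat_lit 5) (nat_lit 41) (nat_lit 5) (nat_lit 42) (nat_lit 5) (nat_lit 291) (nat_lit 264) (nat_lit 165)))))) (XT.nd (nat_lit 312)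 (nat_lit 456) (nat_lit 0) (XT.nd (nat_lit 156) (nat_lit 152) (nat_lit 0) (XT.nd (nat_lit 78) (nat_lit 228) (nat_lit 0) (XT.lf (nat_lit 0) (nat_lit 13889700177) (nat_lit 304) (nat_lit 8393368768) (nat_lit 76) (nat_lit 7255045925) (nat_lit 38) (nat_lit 5) (nat_lit 42) (nat_lit 5) (nat_lit 39) (nat_lit 5) (nat_lit 292) (nat_lit 264) (nat_lit 164)) (XT.lf (nat_lit 0) (nat_lit 4745790825) (nat_lit 228) (nat_lit 13633400146) (nat_lit 304) (nat_lit 12138534494) (nat_lit 35) (nat_lit 5) (nat_lit 38) (nat_lit 5) (nat_lit 39) (nat_lit 5) (nat_lit 293) (nat_lit 264) (nat_lit 163))) (XT.nd (nat_lit 78) (nat_lit 152) (nat_lit 0) (XT.lf (nat_lit 0) (nat_lit 18823947088) (nat_lit 228) (nat_lit 4404382902) (nat_lit 304) (nat_lit 8311244450) (nat_lit 35) (nat_lit 5) (nat_lit 38) (nat_lit 5) (nat_lit 39) (nat_lit 5) (nat_lit 294) (nat_lit 264) (nat_lit 162)) (XT.lf (nat_lit 0) (nat_lit 931553587) (nat_lit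 152) (nat_lit 27478771556) (nat_lit 228) (nat_lit 4197686506) (nat_lit 33) (nat_lit 5) (nat_lit 35) (nat_lit 5) (nat_lit 36) (nat_lit 5) (nat_lit 295) (nat_lit 264) (nat_lit 161)))) (XT.nd (nat_lit 156) (nat_lit 380) (nat_lit 0) (XT.nd (nat_lit 78) (nat_lit 0) (nat_lit 0) (XT.lf (nat_lit 0) (nat_lit 402117055) (nat_lit 228) (nat_lit 18103493997) (nat_lit 76) (nat_lit 15209956161) (nat_lit 32) (nat_lit 5) (nat_lit 35) (nat_lit 5) (nat_lit 33) (nat_lit 5) (nat_lit 296) (nat_lit 264) (nat_lit 160)) (XT.lf (nat_lit 0) (nat_lit 5084535774) (nat_lit 228) (nat_lit 3929563889) (nat_lit 76) (nat_lit 25861289029) (nat_lit 32) (nat_lit 5) (nat_lit 35) (nat_lit 5) (nat_lit 33) (nat_lit 5) (nat_lit 297) (nat_lit 264) (nat_lit 159))) (XT.nd (nat_lit 78) (nat_lit 152) (nat_lit 0) (XT.lf (nat_lit 0) (nat_lit 10189315492) (nat_lit 304) (nat_lit 24795911261) (nat_lit 76) (nat_lit 1098575442) (nat_lit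 29) (nat_lit 5) (nat_lit 33) (nat_lit 5) (nat_lit 30) (nat_lit 5) (nat_lit 298) (nat_lit 264) (nat_lit 158)) (XT.nd (nat_lit 78) (nat_lit 152) (nat_lit 0) (XT.lf (nat_lit 0) (nat_lit 15758859183) (nat_lit 304) (nat_lit 10104103437) (nat_lit 76) (nat_lit 11479209841) (nat_lit 29) (nat_lit 5) (nat_lit 33) (nat_lit 5) (nat_lit 30) (nat_lit 5) (nat_lit 299) (nat_lit 264) (nat_lit 157)) (XT.lf (nat_lit 0) (nat_lit 5489836687) (nat_lit 152) (nat_lit 16197148277) (nat_lit 228) (nat_lit 16972482781) (nat_lit 27) (nat_lit 5) (nat_lit 29) (nat_lit 5) (nat_lit 30) (nat_lit 5) (nat_lit 300) (nat_lit 264) (nat_lit 156))))))))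
noncomputable def xc183 : XT := (XT.nd (nat_lit 1404) (nat_lit 532) (nat_lit 0) (XT.nd (nat_lit 702) (nat_lit 380) (nat_lit 0) (XT.nd (nat_lit 312) (nat_lit 304) (nat_lit 0) (XT.nd (nat_lit 156) (nat_lit 228) (nat_lit 0) (XT.nd (nat_lit 78) (nat_lit 0) (nat_lit 0) (XT.lf (nat_lit 0) (nat_lit 22206230052) (nat_lit 152) (nat_lit 5870939568) (nat_lit 228) (nat_lit 11957186734) (nat_lit 27) (nat_lit 5) (nat_lit 29) (nat_lit 5) (nat_lit 30) (nat_lit 5) (nat_lit 301) (nat_lit 264) (nat_lit 155)) (XT.lf (nat_lit 0) (nat_lit 34859240542) (nat_lit 228) (nat_lit 1805052074) (nat_lit 76) (nat_lit 4810088584) (nat_lit 27) (nat_lit 5) (nat_lit 30) (nat_lit 5) (nat_lit 28) (nat_lit 5) (nat_lit 302) (nat_lit 264) (nat_lit 154))) (XT.nd (nat_lit 78) (nat_lit 76) (nat_lit 0) (XT.lf (nat_lit 0) (nat_lit 15408592155) (nat_lit 152) (nat_lit 26903645492) (nat_lit 228) (nat_lit 657588659) (nat_lit 25) (nat_lit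 5) (nat_lit 27) (nat_lit 5) (nat_lit 28) (nat_lit 5) (nat_lit 303) (nat_lit 264) (nat_lit 153)) (XT.lf (nat_lit 0) (nat_lit 5444785276) (nat_lit 228) (nat_lit 11088390457) (nat_lit 76) (nat_lit 28001201731) (nat_lit 24) (nat_lit 5) (nat_lit 27) (nat_lit 5) (nat_lit 25) (nat_lit 5) (nat_lit 304) (nat_lit 264) (nat_lit 152)))) (XT.nd (nat_lit 156) (nat_lit 152) (nat_lit 0) (XT.nd (nat_lit 78) (nat_lit 0) (nat_lit 0) (XT.lf (nat_lit 0) (nat_lit 6394786412) (nat_lit 152) (nat_lit 5530508587) (nat_lit 228) (nat_lit 34246575123) (nat_lit 22) (nat_lit 5) (nat_lit 24) (nat_lit 5) (nat_lit 25) (nat_lit 5) (nat_lit 305) (nat_lit 264) (nat_lit 151)) (XT.lf (nat_lit 0) (nat_lit 19010072319) (nat_lit 228) (nat_lit 22849151372) (nat_lit 76) (nat_lit 6018009966) (nat_lit 22) (nat_lit 5) (nat_lit 25) (nat_lit 5) (nat_lit 23) (nat_lit 5) (nat_lit 306) (nat_lit 264) (nat_lit 150))) (XT.nd (nat_lit 78)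 (nat_lit 152) (nat_lit 0) (XT.lf (nat_lit 0) (nat_lit 26535325456) (nat_lit 228) (nat_lit 5172425532) (nat_lit 76) (nat_lit 17955810487) (nat_lit 22) (nat_lit 5) (nat_lit 25) (nat_lit 5) (nat_lit 23) (nat_lit 5) (nat_lit 307) (nat_lit 264) (nat_lit 149)) (XT.nd (nat_lit 78) (nat_lit 0) (nat_lit 0) (XT.lf (nat_lit 0) (nat_lit 13823981738) (nat_lit 152) (nat_lit 20824474297) (nat_lit 228) (nat_lit 16880176483) (nat_lit 20) (nat_lit 5) (nat_lit 22) (nat_lit 5) (nat_lit 23) (nat_lit 5) (nat_lit 308) (nat_lit 264) (nat_lit 148)) (XT.lf (nat_lit 0) (nat_lit 33943282289) (nat_lit 152) (nat_lit 9307441337) (nat_lit 228) (nat_lit 10232066678) (nat_lit 20) (nat_lit 5) (nat_lit 22) (nat_lit 5) (nat_lit 23) (nat_lit 5) (nat_lit 309) (nat_lit 264) (nat_lit 147)))))) (XT.nd (nat_lit 312) (nat_lit 76) (nat_lit 0) (XT.nd (nat_lit 156) (nat_lit 152) (nat_lit 0) (XT.nd (nat_lit 78) (nat_lit 152) (nat_lit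 0) (XT.lf (nat_lit 0) (nat_lit 52322636710) (nat_lit 228) (nat_lit 515956542) (nat_lit 76) (nat_lit 2694092988) (nat_lit 20) (nat_lit 5) (nat_lit 23) (nat_lit 5) (nat_lit 21) (nat_lit 4) (nat_lit 310) (nat_lit 264) (nat_lit 146)) (XT.lf (nat_lit 0) (nat_lit 4497466100) (nat_lit 152) (nat_lit 37796333923) (nat_lit 76) (nat_lit 15364651235) (nat_lit 18) (nat_lit 5) (nat_lit 20) (nat_lit 5) (nat_lit 19) (nat_lit 5) (nat_lit 311) (nat_lit 264) (nat_lit 145))) (XT.nd (nat_lit 78) (nat_lit 152) (nat_lit 0) (XT.lf (nat_lit 0) (nat_lit 12487611964) (nat_lit 152) (nat_lit 18671916056) (nat_lit 76) (nat_lit 28728094595) (nat_lit 18) (nat_lit 5) (nat_lit 20) (nat_lit 5) (nat_lit 19) (nat_lit 5) (nat_lit 312) (nat_lit 264) (nat_lit 144)) (XT.lf (nat_lit 0) (nat_lit 1449310477) (nat_lit 152) (nat_lit 19447012865) (nat_lit 228) (nat_lit 41330981936) (nat_lit 16) (nat_lit 5) (nat_lit 18) (nat_lit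 5) (nat_lit 19) (nat_lit 5) (nat_lit 313) (nat_lit 264) (nat_lit 143)))) (XT.nd (nat_lit 156) (nat_lit 76) (nat_lit 0) (XT.nd (nat_lit 78) (nat_lit 0) (nat_lit 0) (XT.lf (nat_lit 0) (nat_lit 23219139423) (nat_lit 152) (nat_lit 6819060122) (nat_lit 228) (nat_lit 34630141451) (nat_lit 16) (nat_lit 5) (nat_lit 18) (nat_lit 5) (nat_lit 19) (nat_lit 5) (nat_lit 314) (nat_lit 264) (nat_lit 142)) (XT.lf (nat_lit 0) (nat_lit 39734365023) (nat_lit 228) (nat_lit 21260091931) (nat_lit 76) (nat_lit 6232116899) (nat_lit 16) (nat_lit 5) (nat_lit 19) (nat_lit 5) (nat_lit 17) (nat_lit 4) (nat_lit 315) (nat_lit 264) (nat_lit 141))) (XT.nd (nat_lit 78) (nat_lit 76) (nat_lit 0) (XT.lf (nat_lit 0) (nat_lit 50023930915) (nat_lit 228) (nat_lit 178621599) (nat_lit 76) (nat_lit 19704741114) (nat_lit 16) (nat_lit 5) (nat_lit 19) (nat_lit 5) (nat_lit 17) (nat_lit 4) (nat_lit 316) (nat_lit 264) (nat_lit 140))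 (XT.nd (nat_lit 78) (nat_lit 0) (nat_lit 0) (XT.lf (nat_lit 0) (nat_lit 22677695933) (nat_lit 76) (nat_lit 38501298004) (nat_lit 152) (nat_lit 11525509163) (nat_lit 15) (nat_lit 5) (nat_lit 16) (nat_lit 5) (nat_lit 17) (nat_lit 4) (nat_lit 317) (nat_lit 264) (nat_lit 139)) (XT.lf (nat_lit 0) (nat_lit 46678057990) (nat_lit 76) (nat_lit 26213800906) (nat_lit 152) (nat_lit 2749716139) (nat_lit 15) (nat_lit 5) (nat_lit 16) (nat_lit 5) (nat_lit 17) (nat_lit 4) (nat_lit 318) (nat_lit 264) (nat_lit 138))))))) (XT.nd (nat_lit 702) (nat_lit 152) (nat_lit 0) (XT.nd (nat_lit 312) (nat_lit 152) (nat_lit 0) (XT.nd (nat_lit 156) (nat_lit 0) (nat_lit 0) (XT.nd (nat_lit 78) (nat_lit 152) (nat_lit 0) (XT.lf (nat_lit 0) (nat_lit 6255065351) (nat_lit 152) (nat_lit 6952832408) (nat_lit 76) (nat_lit 65512704345) (nat_lit 14) (nat_lit 5) (nat_lit 16) (nat_lit 5) (nat_lit 15) (nat_lit 5) (nat_lit 319) (nat_lit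 264) (nat_lit 137)) (XT.lf (nat_lit 0) (nat_lit 15886716043) (nat_lit 228) (nat_lit 65309114891) (nat_lit 76) (nat_lit 742047620) (nat_lit 12) (nat_lit 5) (nat_lit 15) (nat_lit 5) (nat_lit 13) (nat_lit 4) (nat_lit 320) (nat_lit 264) (nat_lit 136))) (XT.nd (nat_lit 78) (nat_lit 0) (nat_lit 0) (XT.lf (nat_lit 0) (nat_lit 26333435716) (nat_lit 228) (nat_lit 43902398427) (nat_lit 76) (nat_lit 15063514004) (nat_lit 12) (nat_lit 5) (nat_lit 15) (nat_lit 5) (nat_lit 13) (nat_lit 4) (nat_lit 321) (nat_lit 264) (nat_lit 135)) (XT.lf (nat_lit 0) (nat_lit 37299904353) (nat_lit 228) (nat_lit 21429765211) (nat_lit 76) (nat_lit 30099354476) (nat_lit 12) (nat_lit 5) (nat_lit 15) (nat_lit 5) (nat_lit 13) (nat_lit 4) (nat_lit 322) (nat_lit 264) (nat_lit 134)))) (XT.nd (nat_lit 156) (nat_lit 76) (nat_lit 0) (XT.nd (nat_lit 78) (nat_lit 0) (nat_lit 0) (XT.lf (nat_lit 0) (nat_lit 2233786131) (nat_lit 76)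 (nat_lit 46613322125) (nat_lit 152) (nat_lit 43686458185) (nat_lit 11) (nat_lit 5) (nat_lit 12) (nat_lit 5) (nat_lit 13) (nat_lit 4) (nat_lit 323) (nat_lit 264) (nat_lit 133)) (XT.lf (nat_lit 0) (nat_lit 27820367343) (nat_lit 76) (nat_lit 33511817304) (nat_lit 152) (nat_lit 35073128849) (nat_lit 11) (nat_lit 5) (nat_lit 12) (nat_lit 5) (nat_lit 13) (nat_lit 4) (nat_lit 324) (nat_lit 264) (nat_lit 132))) (XT.nd (nat_lit 78) (nat_lit 76) (nat_lit 0) (XT.lf (nat_lit 0) (nat_lit 54682334036) (nat_lit 76) (nat_lit 19756884487) (nat_lit 152) (nat_lit 26031547194) (nat_lit 11) (nat_lit 5) (nat_lit 12) (nat_lit 5) (nat_lit 13) (nat_lit 4) (nat_lit 325) (nat_lit 264) (nat_lit 131)) (XT.nd (nat_lit 78) (nat_lit 76) (nat_lit 0) (XT.lf (nat_lit 0) (nat_lit 82883643274) (nat_lit 76) (nat_lit 5315773832) (nat_lit 152) (nat_lit 16540185646) (nat_lit 11) (nat_lit 5) (nat_lit 12) (nat_lit 5) (nat_lit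 13) (nat_lit 4) (nat_lit 326) (nat_lit 264) (nat_lit 130)) (XT.lf (nat_lit 0) (nat_lit 3218750584) (nat_lit 76) (nat_lit 99630767974) (nat_lit 76) (nat_lit 6362271154) (nat_lit 10) (nat_lit 4) (nat_lit 11) (nat_lit 5) (nat_lit 11) (nat_lit 4) (nat_lit 327) (nat_lit 264) (nat_lit 129)))))) (XT.nd (nat_lit 312) (nat_lit 76) (nat_lit 0) (XT.nd (nat_lit 156) (nat_lit 0) (nat_lit 0) (XT.nd (nat_lit 78) (nat_lit 0) (nat_lit 0) (XT.lf (nat_lit 0) (nat_lit 4647381361) (nat_lit 152) (nat_lit 83747496426) (nat_lit 76) (nat_lit 25486272062) (nat_lit 9) (nat_lit 5) (nat_lit 11) (nat_lit 5) (nat_lit 10) (nat_lit 4) (nat_lit 328) (nat_lit 264) (nat_lit 128)) (XT.lf (nat_lit 0) (nat_lit 15991703980) (nat_lit 152) (nat_lit 60497474483) (nat_lit 76) (nat_lit 42289686826) (nat_lit 9) (nat_lit 5) (nat_lit 11) (nat_lit 5) (nat_lit 10) (nat_lit 4) (nat_lit 329) (nat_lit 264) (nat_lit 127))) (XT.nd (nat_lit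 78) (nat_lit 0) (nat_lit 0) (XT.lf (nat_lit 0) (nat_lit 27901339404) (nat_lit 152) (nat_lit 36088283221) (nat_lit 76) (nat_lit 59931941279) (nat_lit 9) (nat_lit 5) (nat_lit 11) (nat_lit 5) (nat_lit 10) (nat_lit 4) (nat_lit 330) (nat_lit 264) (nat_lit 126)) (XT.lf (nat_lit 0) (nat_lit 40404643909) (nat_lit 152) (nat_lit 10461805517) (nat_lit 76) (nat_lit 78455040788) (nat_lit 9) (nat_lit 5) (nat_lit 11) (nat_lit 5) (nat_lit 10) (nat_lit 4) (nat_lit 331) (nat_lit 264) (nat_lit 125)))) (XT.nd (nat_lit 156) (nat_lit 0) (nat_lit 0) (XT.nd (nat_lit 78) (nat_lit 0) (nat_lit 0) (XT.lf (nat_lit 0) (nat_lit 16986653030) (nat_lit 76) (nat_lit 36809943495) (nat_lit 152) (nat_lit 81181644199) (nat_lit 8) (nat_lit 5) (nat_lit 9) (nat_lit 5) (nat_lit 10) (nat_lit 4) (nat_lit 332) (nat_lit 264) (nat_lit 124)) (XT.lf (nat_lit 0) (nat_lit 46167771492) (nat_lit 76) (nat_lit 21865860434) (nat_lit 152)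 (nat_lit 72875424509) (nat_lit 8) (nat_lit 5) (nat_lit 9) (nat_lit 5) (nat_lit 10) (nat_lit 4) (nat_lit 333) (nat_lit 264) (nat_lit 123))) (XT.nd (nat_lit 78) (nat_lit 0) (nat_lit 0) (XT.lf (nat_lit 0) (nat_lit 76805114183) (nat_lit 76) (nat_lit 6175794833) (nat_lit 152) (nat_lit 64155586259) (nat_lit 8) (nat_lit 5) (nat_lit 9) (nat_lit 5) (nat_lit 10) (nat_lit 4) (nat_lit 334) (nat_lit 264) (nat_lit 122)) (XT.nd (nat_lit 78) (nat_lit 0) (nat_lit 0) (XT.lf (nat_lit 0) (nat_lit 98834791110) (nat_lit 152) (nat_lit 44864531884) (nat_lit 0) (nat_lit 9968022757) (nat_lit 8) (nat_lit 5) (nat_lit 10) (nat_lit 4) (nat_lit 8) (nat_lit 4) (nat_lit 335) (nat_lit 264) (nat_lit 121)) (XT.lf (nat_lit 0) (nat_lit 115581132156) (nat_lit 152) (nat_lit 18228208572) (nat_lit 0) (nat_lit 26710411450) (nat_lit 8) (nat_lit 5) (nat_lit 10) (nat_lit 4) (nat_lit 8) (nat_lit 4) (nat_lit 336) (nat_lit 264) (nat_lit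 120))))))))
noncomputable def xc184 : XT := (XT.nd (nat_lit 1404) (nat_lit 0) (nat_lit 0) (XT.nd (nat_lit 624) (nat_lit 76) (nat_lit 0) (XT.nd (nat_lit 312) (nat_lit 76) (nat_lit 0) (XT.nd (nat_lit 156) (nat_lit 76) (nat_lit 0) (XT.nd (nat_lit 78) (nat_lit 0) (nat_lit 0) (XT.lf (nat_lit 0) (nat_lit 10059393539) (nat_lit 76) (nat_lit 123261044715) (nat_lit 76) (nat_lit 34386559863) (nat_lit 7) (nat_lit 4) (nat_lit 8) (nat_lit 5) (nat_lit 8) (nat_lit 4) (nat_lit 337) (nat_lit 264) (nat_lit 119)) (XT.lf (nat_lit 0) (nat_lit 40391757555) (nat_lit 76) (nat_lit 111862276912) (nat_lit 76) (nat_lit 22984207159) (nat_lit 7) (nat_lit 4) (nat_lit 8) (nat_lit 5) (nat_lit 8) (nat_lit 4) (nat_lit 338) (nat_lit 264) (nat_lit 118))) (XT.nd (nat_lit 78) (nat_lit 76) (nat_lit 0) (XT.lf (nat_lit 0) (nat_lit 72238396490) (nat_lit 76) (nat_lit 99894600930) (nat_lit 76) (nat_lit 11013116986) (nat_lit 7)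 (nat_lit 4) (nat_lit 8) (nat_lit 5) (nat_lit 8) (nat_lit 4) (nat_lit 339) (nat_lit 264) (nat_lit 117)) (XT.lf (nat_lit 0) (nat_lit 1505436716) (nat_lit 152) (nat_lit 85798590286) (nat_lit 76) (nat_lit 104144203660) (nat_lit 6) (nat_lit 5) (nat_lit 8) (nat_lit 5) (nat_lit 7) (nat_lit 4) (nat_lit 340) (nat_lit 264) (nat_lit 116)))) (XT.nd (nat_lit 156) (nat_lit 76) (nat_lit 0) (XT.nd (nat_lit 78) (nat_lit 0) (nat_lit 0) (XT.lf (nat_lit 0) (nat_lit 14278593372) (nat_lit 152) (nat_lit 59616715913) (nat_lit 76) (nat_lit 126261178137) (nat_lit 6) (nat_lit 5) (nat_lit 8) (nat_lit 5) (nat_lit 7) (nat_lit 4) (nat_lit 341) (nat_lit 264) (nat_lit 115)) (XT.lf (nat_lit 0) (nat_lit 27689253782) (nat_lit 152) (nat_lit 32127811380) (nat_lit 76) (nat_lit 149483150747) (nat_lit 6) (nat_lit 5) (nat_lit 8) (nat_lit 5) (nat_lit 7) (nat_lit 4) (nat_lit 342) (nat_lit 264) (nat_lit 114))) (XT.nd (nat_lit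 78) (nat_lit 76) (nat_lit 0) (XT.lf (nat_lit 0) (nat_lit 41769348088) (nat_lit 152) (nat_lit 3266426915) (nat_lit 76) (nat_lit 173865411903) (nat_lit 6) (nat_lit 5) (nat_lit 8) (nat_lit 5) (nat_lit 7) (nat_lit 4) (nat_lit 343) (nat_lit 264) (nat_lit 113)) (XT.lf (nat_lit 0) (nat_lit 27930092448) (nat_lit 76) (nat_lit 29058374895) (nat_lit 152) (nat_lit 171971989175) (nat_lit 5) (nat_lit 5) (nat_lit 6) (nat_lit 5) (nat_lit 7) (nat_lit 4) (nat_lit 344) (nat_lit 264) (nat_lit 112))))) (XT.nd (nat_lit 312) (nat_lit 76) (nat_lit 0) (XT.nd (nat_lit 156) (nat_lit 0) (nat_lit 0) (XT.nd (nat_lit 78) (nat_lit 0) (nat_lit 0) (XT.lf (nat_lit 0) (nat_lit 60797999228) (nat_lit 76) (nat_lit 12224836165) (nat_lit 152) (nat_lit 166497140600) (nat_lit 5) (nat_lit 5) (nat_lit 6) (nat_lit 5) (nat_lit 7) (nat_lit 4) (nat_lit 345) (nat_lit 264) (nat_lit 111)) (XT.lf (nat_lit 0) (nat_lit 89943028566) (nat_lit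 152) (nat_lit 155385057311) (nat_lit 0) (nat_lit 5275181204) (nat_lit 5) (nat_lit 5) (nat_lit 7) (nat_lit 4) (nat_lit 5) (nat_lit 4) (nat_lit 346) (nat_lit 264) (nat_lit 110))) (XT.nd (nat_lit 78) (nat_lit 0) (nat_lit 0) (XT.lf (nat_lit 0) (nat_lit 107908696666) (nat_lit 152) (nat_lit 131083405239) (nat_lit 0) (nat_lit 23238648485) (nat_lit 5) (nat_lit 5) (nat_lit 7) (nat_lit 4) (nat_lit 5) (nat_lit 4) (nat_lit 347) (nat_lit 264) (nat_lit 109)) (XT.lf (nat_lit 0) (nat_lit 126771751139) (nat_lit 152) (nat_lit 105568295522) (nat_lit 0) (nat_lit 42099606941) (nat_lit 5) (nat_lit 5) (nat_lit 7) (nat_lit 4) (nat_lit 5) (nat_lit 4) (nat_lit 348) (nat_lit 264) (nat_lit 108)))) (XT.nd (nat_lit 156) (nat_lit 76) (nat_lit 0) (XT.nd (nat_lit 78) (nat_lit 0) (nat_lit 0) (XT.lf (nat_lit 0) (nat_lit 146577104020) (nat_lit 152) (nat_lit 78778977897) (nat_lit 0) (nat_lit 61902963615) (nat_lit 5) (nat_lit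 5) (nat_lit 7) (nat_lit 4) (nat_lit 5) (nat_lit 4) (nat_lit 349) (nat_lit 264) (nat_lit 107)) (XT.lf (nat_lit 0) (nat_lit 167371910911) (nat_lit 152) (nat_lit 50651668276) (nat_lit 0) (nat_lit 82695869357) (nat_lit 5) (nat_lit 5) (nat_lit 7) (nat_lit 4) (nat_lit 5) (nat_lit 4) (nat_lit 350) (nat_lit 264) (nat_lit 106))) (XT.nd (nat_lit 78) (nat_lit 76) (nat_lit 0) (XT.lf (nat_lit 0) (nat_lit 189205683257) (nat_lit 152) (nat_lit 21119396874) (nat_lit 0) (nat_lit 104527831084) (nat_lit 5) (nat_lit 5) (nat_lit 7) (nat_lit 4) (nat_lit 5) (nat_lit 4) (nat_lit 351) (nat_lit 264) (nat_lit 105)) (XT.nd (nat_lit 156) (nat_lit 0) (nat_lit 0) (XT.lf (nat_lit 0) (nat_lit 10215098177) (nat_lit 76) (nat_lit 202074794363) (nat_lit 76) (nat_lit 117395217792) (nat_lit 4) (nat_lit 4) (nat_lit 5) (nat_lit 5) (nat_lit 5) (nat_lit 4) (nat_lit 352) (nat_lit 264) (nat_lit 104)) (XT.lf (nat_lit 0) (nat_lit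 79161746191) (nat_lit 76) (nat_lit 183547952732) (nat_lit 76) (nat_lit 98865169795) (nat_lit 4) (nat_lit 4) (nat_lit 5) (nat_lit 5) (nat_lit 5) (nat_lit 4) (nat_lit 354) (nat_lit 264) (nat_lit 102))))))) (XT.nd (nat_lit 31122) (nat_lit 0) (nat_lit 4028) (XT.nd (nat_lit 30732) (nat_lit 0) (nat_lit 5244) (XT.nd (nat_lit 30576) (nat_lit 0) (nat_lit 5168) (XT.nd (nat_lit 30498) (nat_lit 0) (nat_lit 5168) (XT.lf (nat_lit 0) (nat_lit 116239755200) (nat_lit 76) (nat_lit 173584952546) (nat_lit 76) (nat_lit 88900680010) (nat_lit 4) (nat_lit 4) (nat_lit 5) (nat_lit 5) (nat_lit 5) (nat_lit 4) (nat_lit 355) (nat_lit 264) (nat_lit 101)) (XT.lf (nat_lit 0) (nat_lit 557672985) (nat_lit 0) (nat_lit 557672985) (nat_lit 684) (nat_lit 5948251856) (nat_lit 72) (nat_lit 5) (nat_lit 72) (nat_lit 3) (nat_lit 81) (nat_lit 3) (nat_lit 265) (nat_lit 265) (nat_lit 190))) (XT.nd (nat_lit 78) (nat_lit 0) (nat_lit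 0) (XT.lf (nat_lit 0) (nat_lit 2672813434) (nat_lit 684) (nat_lit 7046879301) (nat_lit 760) (nat_lit 4740352603) (nat_lit 72) (nat_lit 5) (nat_lit 81) (nat_lit 3) (nat_lit 82) (nat_lit 5) (nat_lit 266) (nat_lit 265) (nat_lit 189)) (XT.lf (nat_lit 0) (nat_lit 3135642948) (nat_lit 684) (nat_lit 813074930) (nat_lit 760) (nat_lit 10860954345) (nat_lit 72) (nat_lit 5) (nat_lit 81) (nat_lit 3) (nat_lit 82) (nat_lit 5) (nat_lit 267) (nat_lit 265) (nat_lit 188)))) (XT.nd (nat_lit 156) (nat_lit 0) (nat_lit 0) (XT.nd (nat_lit 78) (nat_lit 0) (nat_lit 0) (XT.lf (nat_lit 0) (nat_lit 3729751859) (nat_lit 684) (nat_lit 9296752041) (nat_lit 760) (nat_lit 2144931381) (nat_lit 73) (nat_lit 5) (nat_lit 82) (nat_lit 5) (nat_lit 83) (nat_lit 5) (nat_lit 268) (nat_lit 265) (nat_lit 187)) (XT.lf (nat_lit 0) (nat_lit 4414397930) (nat_lit 684) (nat_lit 2702006558) (nat_lit 760) (nat_lit 8431899205) (nat_lit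 73) (nat_lit 5) (nat_lit 82) (nat_lit 5) (nat_lit 83) (nat_lit 5) (nat_lit 269) (nat_lit 265) (nat_lit 186))) (XT.nd (nat_lit 78) (nat_lit 0) (nat_lit 76) (XT.lf (nat_lit 76) (nat_lit 4350768742) (nat_lit 0) (nat_lit 833390572) (nat_lit 760) (nat_lit 10757368048) (nat_lit 74) (nat_lit 5) (nat_lit 73) (nat_lit 5) (nat_lit 83) (nat_lit 5) (nat_lit 270) (nat_lit 265) (nat_lit 185)) (XT.nd (nat_lit 78) (nat_lit 0) (nat_lit 0) (XT.lf (nat_lit 0) (nat_lit 6112593735) (nat_lit 684) (nat_lit 4604616259) (nat_lit 760) (nat_lit 5631246295) (nat_lit 74) (nat_lit 5) (nat_lit 83) (nat_lit 5) (nat_lit 84) (nat_lit 5) (nat_lit 271) (nat_lit 265) (nat_lit 184)) (XT.lf (nat_lit 76) (nat_lit 2795458857) (nat_lit 0) (nat_lit 4333761297) (nat_lit 760) (nat_lit 9644473777) (nat_lit 75) (nat_lit 5) (nat_lit 74) (nat_lit 5) (nat_lit 84) (nat_lit 5) (nat_lit 272) (nat_lit 265) (nat_lit 183)))))) (XT.nd (nat_lit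 312) (nat_lit 1368) (nat_lit 0) (XT.nd (nat_lit 156) (nat_lit 0) (nat_lit 0) (XT.nd (nat_lit 78) (nat_lit 0) (nat_lit 0) (XT.lf (nat_lit 0) (nat_lit 8298015361) (nat_lit 684) (nat_lit 6541020373) (nat_lit 760) (nat_lit 2376139210) (nat_lit 75) (nat_lit 5) (nat_lit 84) (nat_lit 5) (nat_lit 85) (nat_lit 5) (nat_lit 273) (nat_lit 265) (nat_lit 182)) (XT.lf (nat_lit 76) (nat_lit 1224917003) (nat_lit 0) (nat_lit 8376305968) (nat_lit 760) (nat_lit 8073754467) (nat_lit 76) (nat_lit 5) (nat_lit 75) (nat_lit 5) (nat_lit 85) (nat_lit 5) (nat_lit 274) (nat_lit 265) (nat_lit 181))) (XT.nd (nat_lit 78) (nat_lit 0) (nat_lit 76) (XT.lf (nat_lit 76) (nat_lit 9595125144) (nat_lit 0) (nat_lit 1471546654) (nat_lit 760) (nat_lit 7086288083) (nat_lit 76) (nat_lit 5) (nat_lit 75) (nat_lit 5) (nat_lit 85) (nat_lit 5) (nat_lit 275) (nat_lit 265) (nat_lit 180)) (XT.lf (nat_lit 0) (nat_lit 12682606835) (nat_lit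 684) (nat_lit 372534059) (nat_lit 76) (nat_lit 5595881644) (nat_lit 76) (nat_lit 5) (nat_lit 85) (nat_lit 5) (nat_lit 77) (nat_lit 5) (nat_lit 276) (nat_lit 265) (nat_lit 179)))) (XT.nd (nat_lit 156) (nat_lit 760) (nat_lit 0) (XT.nd (nat_lit 78) (nat_lit 0) (nat_lit 0) (XT.lf (nat_lit 0) (nat_lit 8457831857) (nat_lit 684) (nat_lit 6065296137) (nat_lit 760) (nat_lit 4643710654) (nat_lit 67) (nat_lit 5) (nat_lit 76) (nat_lit 5) (nat_lit 77) (nat_lit 5) (nat_lit 277) (nat_lit 265) (nat_lit 178)) (XT.lf (nat_lit 0) (nat_lit 16470039554) (nat_lit 760) (nat_lit 1996738013) (nat_lit 76) (nat_lit 1240987674) (nat_lit 67) (nat_lit 5) (nat_lit 77) (nat_lit 5) (nat_lit 68) (nat_lit 5) (nat_lit 278) (nat_lit 265) (nat_lit 177))) (XT.nd (nat_lit 78) (nat_lit 456) (nat_lit 0) (XT.lf (nat_lit 0) (nat_lit 7273793521) (nat_lit 304) (nat_lit 11442127623) (nat_lit 380) (nat_lit 1549771885) (nat_lit 63)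 (nat_lit 5) (nat_lit 67) (nat_lit 5) (nat_lit 68) (nat_lit 5) (nat_lit 279) (nat_lit 265) (nat_lit 176)) (XT.nd (nat_lit 78) (nat_lit 380) (nat_lit 0) (XT.lf (nat_lit 0) (nat_lit 238618017) (nat_lit 380) (nat_lit 3787638725) (nat_lit 76) (nat_lit 16823961329) (nat_lit 62) (nat_lit 5) (nat_lit 67) (nat_lit 5) (nat_lit 63) (nat_lit 5) (nat_lit 280) (nat_lit 265) (nat_lit 175)) (XT.lf (nat_lit 0) (nat_lit 2208555616) (nat_lit 456) (nat_lit 15485104940) (nat_lit 76) (nat_lit 3761859145) (nat_lit 57) (nat_lit 5) (nat_lit 63) (nat_lit 5) (nat_lit 58) (nat_lit 5) (nat_lit 281) (nat_lit 265) (nat_lit 174))))))))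
noncomputable def xc185 : XT := (XT.nd (nat_lit 1326) (nat_lit 1216) (nat_lit 0) (XT.nd (nat_lit 624) (nat_lit 1064) (nat_lit 0) (XT.nd (nat_lit 312) (nat_lit 228) (nat_lit 0) (XT.nd (nat_lit 156) (nat_lit 304) (nat_lit 0) (XT.nd (nat_lit 78) (nat_lit 304) (nat_lit 0) (XT.lf (nat_lit 0) (nat_lit 4397866257) (nat_lit 456) (nat_lit 5817879312) (nat_lit 76) (nat_lit 11869326727) (nat_lit 57) (nat_lit 5) (nat_lit 63) (nat_lit 5) (nat_lit 58) (nat_lit 5) (nat_lit 282) (nat_lit 265) (nat_lit 173)) (XT.lf (nat_lit 0) (nat_lit 4465327301) (nat_lit 304) (nat_lit 2291197966) (nat_lit 380) (nat_lit 15986611390) (nat_lit 53) (nat_lit 5) (nat_lit 57) (nat_lit 5) (nat_lit 58) (nat_lit 5) (nat_lit 283) (nat_lit 265) (nat_lit 172))) (XT.nd (nat_lit 78) (nat_lit 304) (nat_lit 0) (XT.lf (nat_lit 0) (nat_lit 9417866763) (nat_lit 380) (nat_lit 8070879881) (nat_lit 76) (nat_lit 5936147045) (nat_lit 53)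 (nat_lit 5) (nat_lit 58) (nat_lit 5) (nat_lit 54) (nat_lit 5) (nat_lit 284) (nat_lit 265) (nat_lit 171)) (XT.lf (nat_lit 0) (nat_lit 2684640579) (nat_lit 304) (nat_lit 9598031201) (nat_lit 380) (nat_lit 11854572620) (nat_lit 49) (nat_lit 5) (nat_lit 53) (nat_lit 5) (nat_lit 54) (nat_lit 5) (nat_lit 285) (nat_lit 265) (nat_lit 170)))) (XT.nd (nat_lit 156) (nat_lit 0) (nat_lit 0) (XT.nd (nat_lit 78) (nat_lit 228) (nat_lit 0) (XT.lf (nat_lit 0) (nat_lit 14248182885) (nat_lit 304) (nat_lit 1170416355) (nat_lit 380) (nat_lit 9460243722) (nat_lit 49) (nat_lit 5) (nat_lit 53) (nat_lit 5) (nat_lit 54) (nat_lit 5) (nat_lit 286) (nat_lit 265) (nat_lit 169)) (XT.lf (nat_lit 0) (nat_lit 622513013) (nat_lit 228) (nat_lit 18210013286) (nat_lit 304) (nat_lit 6818958257) (nat_lit 46) (nat_lit 5) (nat_lit 49) (nat_lit 5) (nat_lit 50) (nat_lit 5) (nat_lit 287) (nat_lit 265) (nat_lit 168))) (XT.nd (nat_lit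 78) (nat_lit 0) (nat_lit 0) (XT.lf (nat_lit 0) (nat_lit 12777847510) (nat_lit 228) (nat_lit 9830062975) (nat_lit 304) (nat_lit 3845331862) (nat_lit 46) (nat_lit 5) (nat_lit 49) (nat_lit 5) (nat_lit 50) (nat_lit 5) (nat_lit 288) (nat_lit 265) (nat_lit 167)) (XT.lf (nat_lit 0) (nat_lit 25531664735) (nat_lit 228) (nat_lit 1032635067) (nat_lit 304) (nat_lit 731197530) (nat_lit 46) (nat_lit 5) (nat_lit 49) (nat_lit 5) (nat_lit 50) (nat_lit 5) (nat_lit 289) (nat_lit 265) (nat_lit 166))))) (XT.nd (nat_lit 312) (nat_lit 456) (nat_lit 0) (XT.nd (nat_lit 156) (nat_lit 228) (nat_lit 0) (XT.nd (nat_lit 78) (nat_lit 0) (nat_lit 0) (XT.lf (nat_lit 0) (nat_lit 2753899701) (nat_lit 380) (nat_lit 17253032511) (nat_lit 76) (nat_lit 8156144796) (nat_lit 41) (nat_lit 5) (nat_lit 46) (nat_lit 5) (nat_lit 42) (nat_lit 5) (nat_lit 290) (nat_lit 265) (nat_lit 165)) (XT.lf (nat_lit 0) (nat_lit 6428626382) (nat_lit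 380) (nat_lit 4832416913) (nat_lit 76) (nat_lit 17810413877) (nat_lit 41) (nat_lit 5) (nat_lit 46) (nat_lit 5) (nat_lit 42) (nat_lit 5) (nat_lit 291) (nat_lit 265) (nat_lit 164))) (XT.nd (nat_lit 78) (nat_lit 0) (nat_lit 0) (XT.lf (nat_lit 0) (nat_lit 8471492448) (nat_lit 228) (nat_lit 1940868424) (nat_lit 304) (nat_lit 19606649259) (nat_lit 38) (nat_lit 5) (nat_lit 41) (nat_lit 5) (nat_lit 42) (nat_lit 5) (nat_lit 292) (nat_lit 265) (nat_lit 163)) (XT.lf (nat_lit 0) (nat_lit 14794124450) (nat_lit 304) (nat_lit 8534370414) (nat_lit 76) (nat_lit 7675520288) (nat_lit 38) (nat_lit 5) (nat_lit 42) (nat_lit 5) (nat_lit 39) (nat_lit 5) (nat_lit 293) (nat_lit 265) (nat_lit 162)))) (XT.nd (nat_lit 156) (nat_lit 228) (nat_lit 0) (XT.nd (nat_lit 78) (nat_lit 0) (nat_lit 0) (XT.lf (nat_lit 0) (nat_lit 5257252533) (nat_lit 228) (nat_lit 14245120739) (nat_lit 304) (nat_lit 12530543045) (nat_lit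 35) (nat_lit 5) (nat_lit 38) (nat_lit 5) (nat_lit 39) (nat_lit 5) (nat_lit 294) (nat_lit 265) (nat_lit 161)) (XT.lf (nat_lit 0) (nat_lit 20026260792) (nat_lit 228) (nat_lit 4557983557) (nat_lit 304) (nat_lit 8522122697) (nat_lit 35) (nat_lit 5) (nat_lit 38) (nat_lit 5) (nat_lit 39) (nat_lit 5) (nat_lit 295) (nat_lit 265) (nat_lit 160))) (XT.nd (nat_lit 78) (nat_lit 76) (nat_lit 0) (XT.lf (nat_lit 0) (nat_lit 1244034560) (nat_lit 152) (nat_lit 28777184966) (nat_lit 228) (nat_lit 4207234540) (nat_lit 33) (nat_lit 5) (nat_lit 35) (nat_lit 5) (nat_lit 36) (nat_lit 5) (nat_lit 296) (nat_lit 265) (nat_lit 159)) (XT.nd (nat_lit 78) (nat_lit 0) (nat_lit 0) (XT.lf (nat_lit 0) (nat_lit 606912697) (nat_lit 228) (nat_lit 18748922365) (nat_lit 76) (nat_lit 16035877600) (nat_lit 32) (nat_lit 5) (nat_lit 35) (nat_lit 5) (nat_lit 33) (nat_lit 5) (nat_lit 297) (nat_lit 265) (nat_lit 158)) (XT.lf (nat_lit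 0) (nat_lit 5514657600) (nat_lit 228) (nat_lit 3878664624) (nat_lit 76) (nat_lit 27216661701) (nat_lit 32) (nat_lit 5) (nat_lit 35) (nat_lit 5) (nat_lit 33) (nat_lit 5) (nat_lit 298) (nat_lit 265) (nat_lit 157))))))) (XT.nd (nat_lit 702) (nat_lit 456) (nat_lit 0) (XT.nd (nat_lit 312) (nat_lit 380) (nat_lit 0) (XT.nd (nat_lit 156) (nat_lit 152) (nat_lit 0) (XT.nd (nat_lit 78) (nat_lit 0) (nat_lit 0) (XT.lf (nat_lit 0) (nat_lit 10871225501) (nat_lit 304) (nat_lit 25784517182) (nat_lit 76) (nat_lit 1223266029) (nat_lit 29) (nat_lit 5) (nat_lit 33) (nat_lit 5) (nat_lit 30) (nat_lit 5) (nat_lit 299) (nat_lit 265) (nat_lit 156)) (XT.lf (nat_lit 0) (nat_lit 16711034747) (nat_lit 304) (nat_lit 10370080378) (nat_lit 76) (nat_lit 12119610157) (nat_lit 29) (nat_lit 5) (nat_lit 33) (nat_lit 5) (nat_lit 30) (nat_lit 5) (nat_lit 300) (nat_lit 265) (nat_lit 155))) (XT.nd (nat_lit 78) (nat_lit 0) (nat_lit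 0) (XT.lf (nat_lit 0) (nat_lit 5999698232) (nat_lit 152) (nat_lit 16931722765) (nat_lit 228) (nat_lit 17652688013) (nat_lit 27) (nat_lit 5) (nat_lit 29) (nat_lit 5) (nat_lit 30) (nat_lit 5) (nat_lit 301) (nat_lit 265) (nat_lit 154)) (XT.lf (nat_lit 0) (nat_lit 23540703184) (nat_lit 152) (nat_lit 6092788522) (nat_lit 228) (nat_lit 12394647111) (nat_lit 27) (nat_lit 5) (nat_lit 29) (nat_lit 5) (nat_lit 30) (nat_lit 5) (nat_lit 302) (nat_lit 265) (nat_lit 153)))) (XT.nd (nat_lit 156) (nat_lit 228) (nat_lit 0) (XT.nd (nat_lit 78) (nat_lit 152) (nat_lit 0) (XT.lf (nat_lit 0) (nat_lit 36748472104) (nat_lit 228) (nat_lit 1675326034) (nat_lit 76) (nat_lit 5116691336) (nat_lit 27) (nat_lit 5) (nat_lit 30) (nat_lit 5) (nat_lit 28) (nat_lit 5) (nat_lit 303) (nat_lit 265) (nat_lit 152)) (XT.lf (nat_lit 0) (nat_lit 16395452364) (nat_lit 152) (nat_lit 28175080573) (nat_lit 228) (nat_lit 540367363)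 (nat_lit 25) (nat_lit 5) (nat_lit 27) (nat_lit 5) (nat_lit 28) (nat_lit 5) (nat_lit 304) (nat_lit 265) (nat_lit 151))) (XT.nd (nat_lit 78) (nat_lit 152) (nat_lit 0) (XT.lf (nat_lit 0) (nat_lit 5855402223) (nat_lit 228) (nat_lit 11431853381) (nat_lit 76) (nat_lit 29466665023) (nat_lit 24) (nat_lit 5) (nat_lit 27) (nat_lit 5) (nat_lit 25) (nat_lit 5) (nat_lit 305) (nat_lit 265) (nat_lit 150)) (XT.nd (nat_lit 78) (nat_lit 0) (nat_lit 0) (XT.lf (nat_lit 0) (nat_lit 6922079805) (nat_lit 152) (nat_lit 5734508714) (nat_lit 228) (nat_lit 35816879073) (nat_lit 22) (nat_lit 5) (nat_lit 24) (nat_lit 5) (nat_lit 25) (nat_lit 5) (nat_lit 306) (nat_lit 265) (nat_lit 149)) (XT.lf (nat_lit 0) (nat_lit 20090253168) (nat_lit 228) (nat_lit 23788353908) (nat_lit 76) (nat_lit 6385771454) (nat_lit 22) (nat_lit 5) (nat_lit 25) (nat_lit 5) (nat_lit 23) (nat_lit 5) (nat_lit 307) (nat_lit 265) (nat_lit 148))))))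 (XT.nd (nat_lit 312) (nat_lit 304) (nat_lit 0) (XT.nd (nat_lit 156) (nat_lit 0) (nat_lit 0) (XT.nd (nat_lit 78) (nat_lit 152) (nat_lit 0) (XT.lf (nat_lit 0) (nat_lit 27985593855) (nat_lit 228) (nat_lit 5237470586) (nat_lit 76) (nat_lit 18917278145) (nat_lit 22) (nat_lit 5) (nat_lit 25) (nat_lit 5) (nat_lit 23) (nat_lit 5) (nat_lit 308) (nat_lit 265) (nat_lit 147)) (XT.lf (nat_lit 0) (nat_lit 14705634850) (nat_lit 152) (nat_lit 21795838580) (nat_lit 228) (nat_lit 17597349692) (nat_lit 20) (nat_lit 5) (nat_lit 22) (nat_lit 5) (nat_lit 23) (nat_lit 5) (nat_lit 309) (nat_lit 265) (nat_lit 146))) (XT.nd (nat_lit 78) (nat_lit 0) (nat_lit 0) (XT.lf (nat_lit 0) (nat_lit 35821831189) (nat_lit 152) (nat_lit 9706280612) (nat_lit 228) (nat_lit 10622874188) (nat_lit 20) (nat_lit 5) (nat_lit 22) (nat_lit 5) (nat_lit 23) (nat_lit 5) (nat_lit 310) (nat_lit 265) (nat_lit 145)) (XT.lf (nat_lit 0) (nat_lit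 55049140696) (nat_lit 228) (nat_lit 364335463) (nat_lit 76) (nat_lit 2890134140) (nat_lit 20) (nat_lit 5) (nat_lit 23) (nat_lit 5) (nat_lit 21) (nat_lit 4) (nat_lit 311) (nat_lit 265) (nat_lit 144)))) (XT.nd (nat_lit 156) (nat_lit 152) (nat_lit 0) (XT.nd (nat_lit 78) (nat_lit 0) (nat_lit 0) (XT.lf (nat_lit 0) (nat_lit 4832125643) (nat_lit 152) (nat_lit 39507789449) (nat_lit 76) (nat_lit 16195795588) (nat_lit 18) (nat_lit 5) (nat_lit 20) (nat_lit 5) (nat_lit 19) (nat_lit 5) (nat_lit 312) (nat_lit 265) (nat_lit 143)) (XT.lf (nat_lit 0) (nat_lit 13216550884) (nat_lit 152) (nat_lit 19435644077) (nat_lit 76) (nat_lit 30224415316) (nat_lit 18) (nat_lit 5) (nat_lit 20) (nat_lit 5) (nat_lit 19) (nat_lit 5) (nat_lit 313) (nat_lit 265) (nat_lit 142))) (XT.nd (nat_lit 78) (nat_lit 0) (nat_lit 0) (XT.lf (nat_lit 0) (nat_lit 1688903980) (nat_lit 152) (nat_lit 20354424220) (nat_lit 228) (nat_lit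 43290075240) (nat_lit 16) (nat_lit 5) (nat_lit 18) (nat_lit 5) (nat_lit 19) (nat_lit 5) (nat_lit 314) (nat_lit 265) (nat_lit 141)) (XT.nd (nat_lit 78) (nat_lit 0) (nat_lit 0) (XT.lf (nat_lit 0) (nat_lit 24539265898) (nat_lit 152) (nat_lit 7098166187) (nat_lit 228) (nat_lit 36259309673) (nat_lit 16) (nat_lit 5) (nat_lit 18) (nat_lit 5) (nat_lit 19) (nat_lit 5) (nat_lit 315) (nat_lit 265) (nat_lit 140)) (XT.lf (nat_lit 0) (nat_lit 41814691051) (nat_lit 228) (nat_lit 22167648730) (nat_lit 76) (nat_lit 6600739366) (nat_lit 16) (nat_lit 5) (nat_lit 19) (nat_lit 5) (nat_lit 17) (nat_lit 4) (nat_lit 316) (nat_lit 265) (nat_lit 139))))))))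
noncomputable def xc186 : XT := (XT.nd (nat_lit 1326) (nat_lit 228) (nat_lit 0) (XT.nd (nat_lit 624) (nat_lit 228) (nat_lit 0) (XT.nd (nat_lit 312) (nat_lit 228) (nat_lit 0) (XT.nd (nat_lit 156) (nat_lit 76) (nat_lit 0) (XT.nd (nat_lit 78) (nat_lit 76) (nat_lit 0) (XT.lf (nat_lit 0) (nat_lit 52614277725) (nat_lit 228) (nat_lit 39507157) (nat_lit 76) (nat_lit 20744279715) (nat_lit 16) (nat_lit 5) (nat_lit 19) (nat_lit 5) (nat_lit 17) (nat_lit 4) (nat_lit 317) (nat_lit 265) (nat_lit 138)) (XT.lf (nat_lit 0) (nat_lit 23957238421) (nat_lit 76) (nat_lit 40367884352) (nat_lit 152) (nat_lit 12010116811) (nat_lit 15) (nat_lit 5) (nat_lit 16) (nat_lit 5) (nat_lit 17) (nat_lit 4) (nat_lit 318) (nat_lit 265) (nat_lit 137))) (XT.nd (nat_lit 78) (nat_lit 76) (nat_lit 0) (XT.lf (nat_lit 0) (nat_lit 49150682500) (nat_lit 76) (nat_lit 27468797091) (nat_lit 152) (nat_lit 2799899270) (nat_lit 15) (nat_lit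 5) (nat_lit 16) (nat_lit 5) (nat_lit 17) (nat_lit 4) (nat_lit 319) (nat_lit 265) (nat_lit 136)) (XT.lf (nat_lit 0) (nat_lit 6648302851) (nat_lit 152) (nat_lit 7165584984) (nat_lit 76) (nat_lit 68838608109) (nat_lit 14) (nat_lit 5) (nat_lit 16) (nat_lit 5) (nat_lit 15) (nat_lit 5) (nat_lit 320) (nat_lit 265) (nat_lit 135)))) (XT.nd (nat_lit 156) (nat_lit 76) (nat_lit 0) (XT.nd (nat_lit 78) (nat_lit 0) (nat_lit 0) (XT.lf (nat_lit 0) (nat_lit 16760618455) (nat_lit 228) (nat_lit 68438657251) (nat_lit 76) (nat_lit 831411727) (nat_lit 12) (nat_lit 5) (nat_lit 15) (nat_lit 5) (nat_lit 13) (nat_lit 4) (nat_lit 321) (nat_lit 265) (nat_lit 134)) (XT.lf (nat_lit 0) (nat_lit 27725885226) (nat_lit 228) (nat_lit 45968077030) (nat_lit 76) (nat_lit 15866462777) (nat_lit 12) (nat_lit 5) (nat_lit 15) (nat_lit 5) (nat_lit 13) (nat_lit 4) (nat_lit 322) (nat_lit 265) (nat_lit 133))) (XT.nd (nat_lit 78)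 (nat_lit 76) (nat_lit 0) (XT.lf (nat_lit 0) (nat_lit 39237068832) (nat_lit 228) (nat_lit 22377976026) (nat_lit 76) (nat_lit 31651725126) (nat_lit 12) (nat_lit 5) (nat_lit 15) (nat_lit 5) (nat_lit 13) (nat_lit 4) (nat_lit 323) (nat_lit 265) (nat_lit 132)) (XT.lf (nat_lit 0) (nat_lit 2466764538) (nat_lit 76) (nat_lit 48893325424) (nat_lit 152) (nat_lit 45796531302) (nat_lit 11) (nat_lit 5) (nat_lit 12) (nat_lit 5) (nat_lit 13) (nat_lit 4) (nat_lit 324) (nat_lit 265) (nat_lit 131))))) (XT.nd (nat_lit 312) (nat_lit 152) (nat_lit 0) (XT.nd (nat_lit 156) (nat_lit 76) (nat_lit 0) (XT.nd (nat_lit 78) (nat_lit 0) (nat_lit 0) (XT.lf (nat_lit 0) (nat_lit 29326899138) (nat_lit 76) (nat_lit 35139157877) (nat_lit 152) (nat_lit 36756071203) (nat_lit 11) (nat_lit 5) (nat_lit 12) (nat_lit 5) (nat_lit 13) (nat_lit 4) (nat_lit 325) (nat_lit 265) (nat_lit 130)) (XT.lf (nat_lit 0) (nat_lit 57526463527)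 (nat_lit 76) (nat_lit 20698776051) (nat_lit 152) (nat_lit 27265777803) (nat_lit 11) (nat_lit 5) (nat_lit 12) (nat_lit 5) (nat_lit 13) (nat_lit 4) (nat_lit 326) (nat_lit 265) (nat_lit 129))) (XT.nd (nat_lit 78) (nat_lit 76) (nat_lit 0) (XT.lf (nat_lit 0) (nat_lit 87132599522) (nat_lit 76) (nat_lit 5537798086) (nat_lit 152) (nat_lit 17303055166) (nat_lit 11) (nat_lit 5) (nat_lit 12) (nat_lit 5) (nat_lit 13) (nat_lit 4) (nat_lit 327) (nat_lit 265) (nat_lit 128)) (XT.lf (nat_lit 0) (nat_lit 3485179659) (nat_lit 76) (nat_lit 104567217019) (nat_lit 76) (nat_lit 6616886568) (nat_lit 10) (nat_lit 4) (nat_lit 11) (nat_lit 5) (nat_lit 11) (nat_lit 4) (nat_lit 328) (nat_lit 265) (nat_lit 127)))) (XT.nd (nat_lit 156) (nat_lit 76) (nat_lit 0) (XT.nd (nat_lit 78) (nat_lit 0) (nat_lit 0) (XT.lf (nat_lit 0) (nat_lit 4938289292) (nat_lit 152) (nat_lit 87832398759) (nat_lit 76) (nat_lit 26801523556)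 (nat_lit 9) (nat_lit 5) (nat_lit 11) (nat_lit 5) (nat_lit 10) (nat_lit 4) (nat_lit 329) (nat_lit 265) (nat_lit 126)) (XT.lf (nat_lit 0) (nat_lit 16847040477) (nat_lit 152) (nat_lit 63424755361) (nat_lit 76) (nat_lit 44443159635) (nat_lit 9) (nat_lit 5) (nat_lit 11) (nat_lit 5) (nat_lit 10) (nat_lit 4) (nat_lit 330) (nat_lit 265) (nat_lit 125))) (XT.nd (nat_lit 78) (nat_lit 76) (nat_lit 0) (XT.lf (nat_lit 0) (nat_lit 29349502849) (nat_lit 152) (nat_lit 37799751814) (nat_lit 76) (nat_lit 62965670217) (nat_lit 9) (nat_lit 5) (nat_lit 11) (nat_lit 5) (nat_lit 10) (nat_lit 4) (nat_lit 331) (nat_lit 265) (nat_lit 124)) (XT.nd (nat_lit 78) (nat_lit 76) (nat_lit 0) (XT.lf (nat_lit 0) (nat_lit 42475444175) (nat_lit 152) (nat_lit 10896376205) (nat_lit 76) (nat_lit 82413156517) (nat_lit 9) (nat_lit 5) (nat_lit 11) (nat_lit 5) (nat_lit 10) (nat_lit 4) (nat_lit 332) (nat_lit 265) (nat_lit 123))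 (XT.lf (nat_lit 0) (nat_lit 17923077535) (nat_lit 76) (nat_lit 38612868632) (nat_lit 152) (nat_lit 85188674009) (nat_lit 8) (nat_lit 5) (nat_lit 9) (nat_lit 5) (nat_lit 10) (nat_lit 4) (nat_lit 333) (nat_lit 265) (nat_lit 122))))))) (XT.nd (nat_lit 702) (nat_lit 76) (nat_lit 0) (XT.nd (nat_lit 312) (nat_lit 152) (nat_lit 0) (XT.nd (nat_lit 156) (nat_lit 0) (nat_lit 0) (XT.nd (nat_lit 78) (nat_lit 0) (nat_lit 0) (XT.lf (nat_lit 0) (nat_lit 48559104688) (nat_lit 76) (nat_lit 22923370563) (nat_lit 152) (nat_lit 76469622020) (nat_lit 8) (nat_lit 5) (nat_lit 9) (nat_lit 5) (nat_lit 10) (nat_lit 4) (nat_lit 334) (nat_lit 265) (nat_lit 121)) (XT.lf (nat_lit 0) (nat_lit 80724364770) (nat_lit 76) (nat_lit 6450505629) (nat_lit 152) (nat_lit 67316152511) (nat_lit 8) (nat_lit 5) (nat_lit 9) (nat_lit 5) (nat_lit 10) (nat_lit 4) (nat_lit 335) (nat_lit 265) (nat_lit 120))) (XT.nd (nat_lit 78) (nat_lit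 0) (nat_lit 0) (XT.lf (nat_lit 0) (nat_lit 103819814475) (nat_lit 152) (nat_lit 47030844251) (nat_lit 0) (nat_lit 10497841235) (nat_lit 8) (nat_lit 5) (nat_lit 10) (nat_lit 4) (nat_lit 8) (nat_lit 4) (nat_lit 336) (nat_lit 265) (nat_lit 119)) (XT.lf (nat_lit 0) (nat_lit 121401411440) (nat_lit 152) (nat_lit 19066367356) (nat_lit 0) (nat_lit 28075853299) (nat_lit 8) (nat_lit 5) (nat_lit 10) (nat_lit 4) (nat_lit 8) (nat_lit 4) (nat_lit 337) (nat_lit 265) (nat_lit 118)))) (XT.nd (nat_lit 156) (nat_lit 76) (nat_lit 0) (XT.nd (nat_lit 78) (nat_lit 0) (nat_lit 0) (XT.lf (nat_lit 0) (nat_lit 10634433384) (nat_lit 76) (nat_lit 129392411692) (nat_lit 76) (nat_lit 36063439359) (nat_lit 7) (nat_lit 4) (nat_lit 8) (nat_lit 5) (nat_lit 8) (nat_lit 4) (nat_lit 338) (nat_lit 265) (nat_lit 117)) (XT.lf (nat_lit 0) (nat_lit 42479983687) (nat_lit 76) (nat_lit 117425214321) (nat_lit 76) (nat_lit 24092990377)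 (nat_lit 7) (nat_lit 4) (nat_lit 8) (nat_lit 5) (nat_lit 8) (nat_lit 4) (nat_lit 339) (nat_lit 265) (nat_lit 116))) (XT.nd (nat_lit 78) (nat_lit 76) (nat_lit 0) (XT.lf (nat_lit 0) (nat_lit 75915686081) (nat_lit 76) (nat_lit 104860591513) (nat_lit 76) (nat_lit 11525270797) (nat_lit 7) (nat_lit 4) (nat_lit 8) (nat_lit 5) (nat_lit 8) (nat_lit 4) (nat_lit 340) (nat_lit 265) (nat_lit 115)) (XT.nd (nat_lit 78) (nat_lit 0) (nat_lit 0) (XT.lf (nat_lit 0) (nat_lit 1616203535) (nat_lit 152) (nat_lit 90025052775) (nat_lit 76) (nat_lit 109377574656) (nat_lit 6) (nat_lit 5) (nat_lit 8) (nat_lit 5) (nat_lit 7) (nat_lit 4) (nat_lit 341) (nat_lit 265) (nat_lit 114)) (XT.lf (nat_lit 0) (nat_lit 15026327787) (nat_lit 152) (nat_lit 62537106922) (nat_lit 76) (nat_lit 132599152103) (nat_lit 6) (nat_lit 5) (nat_lit 8) (nat_lit 5) (nat_lit 7) (nat_lit 4) (nat_lit 342) (nat_lit 265) (nat_lit 113)))))) (XT.nd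 (nat_lit 312) (nat_lit 0) (nat_lit 0) (XT.nd (nat_lit 156) (nat_lit 76) (nat_lit 0) (XT.nd (nat_lit 78) (nat_lit 0) (nat_lit 0) (XT.lf (nat_lit 0) (nat_lit 29105911467) (nat_lit 152) (nat_lit 33676635486) (nat_lit 76) (nat_lit 156981036912) (nat_lit 6) (nat_lit 5) (nat_lit 8) (nat_lit 5) (nat_lit 7) (nat_lit 4) (nat_lit 343) (nat_lit 265) (nat_lit 112)) (XT.lf (nat_lit 0) (nat_lit 43888477394) (nat_lit 152) (nat_lit 3374923058) (nat_lit 76) (nat_lit 182581281191) (nat_lit 6) (nat_lit 5) (nat_lit 8) (nat_lit 5) (nat_lit 7) (nat_lit 4) (nat_lit 344) (nat_lit 265) (nat_lit 111))) (XT.nd (nat_lit 78) (nat_lit 0) (nat_lit 0) (XT.lf (nat_lit 0) (nat_lit 29380537996) (nat_lit 76) (nat_lit 30487396693) (nat_lit 152) (nat_lit 180539012442) (nat_lit 5) (nat_lit 5) (nat_lit 6) (nat_lit 5) (nat_lit 7) (nat_lit 4) (nat_lit 345) (nat_lit 265) (nat_lit 110)) (XT.lf (nat_lit 0) (nat_lit 63889271499)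 (nat_lit 76) (nat_lit 12813318977) (nat_lit 152) (nat_lit 174791925067) (nat_lit 5) (nat_lit 5) (nat_lit 6) (nat_lit 5) (nat_lit 7) (nat_lit 4) (nat_lit 346) (nat_lit 265) (nat_lit 109)))) (XT.nd (nat_lit 156) (nat_lit 0) (nat_lit 0) (XT.nd (nat_lit 78) (nat_lit 0) (nat_lit 0) (XT.lf (nat_lit 0) (nat_lit 94467769181) (nat_lit 152) (nat_lit 163104332816) (nat_lit 0) (nat_lit 5559921756) (nat_lit 5) (nat_lit 5) (nat_lit 7) (nat_lit 4) (nat_lit 5) (nat_lit 4) (nat_lit 347) (nat_lit 265) (nat_lit 108)) (XT.lf (nat_lit 0) (nat_lit 113330406915) (nat_lit 152) (nat_lit 137589978016) (nat_lit 0) (nat_lit 24420563283) (nat_lit 5) (nat_lit 5) (nat_lit 7) (nat_lit 4) (nat_lit 5) (nat_lit 4) (nat_lit 348) (nat_lit 265) (nat_lit 107))) (XT.nd (nat_lit 78) (nat_lit 0) (nat_lit 0) (XT.lf (nat_lit 0) (nat_lit 133135362901) (nat_lit 152) (nat_lit 110801379359) (nat_lit 0) (nat_lit 44223618120) (nat_lit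 5) (nat_lit 5) (nat_lit 7) (nat_lit 4) (nat_lit 5) (nat_lit 4) (nat_lit 349) (nat_lit 265) (nat_lit 106)) (XT.nd (nat_lit 78) (nat_lit 0) (nat_lit 0) (XT.lf (nat_lit 0) (nat_lit 153929791797) (nat_lit 152) (nat_lit 82674754470) (nat_lit 0) (nat_lit 65016236397) (nat_lit 5) (nat_lit 5) (nat_lit 7) (nat_lit 4) (nat_lit 5) (nat_lit 4) (nat_lit 350) (nat_lit 265) (nat_lit 105)) (XT.lf (nat_lit 0) (nat_lit 175763204148) (nat_lit 152) (nat_lit 53143135192) (nat_lit 0) (nat_lit 86847924350) (nat_lit 5) (nat_lit 5) (nat_lit 7) (nat_lit 4) (nat_lit 5) (nat_lit 4) (nat_lit 351) (nat_lit 265) (nat_lit 104))))))))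
noncomputable def xc187 : XT := (XT.nd (nat_lit 32058) (nat_lit 0) (nat_lit 2128) (XT.nd (nat_lit 31356) (nat_lit 0) (nat_lit 4408) (XT.nd (nat_lit 30966) (nat_lit 0) (nat_lit 5168) (XT.nd (nat_lit 30810) (nat_lit 0) (nat_lit 5168) (XT.nd (nat_lit 156) (nat_lit 76) (nat_lit 0) (XT.lf (nat_lit 0) (nat_lit 198687584269) (nat_lit 152) (nat_lit 22136208148) (nat_lit 0) (nat_lit 109770662186) (nat_lit 5) (nat_lit 5) (nat_lit 7) (nat_lit 4) (nat_lit 5) (nat_lit 4) (nat_lit 352) (nat_lit 265) (nat_lit 103)) (XT.lf (nat_lit 0) (nat_lit 46077323842) (nat_lit 76) (nat_lit 202672375064) (nat_lit 76) (nat_lit 113752399300) (nat_lit 4) (nat_lit 4) (nat_lit 5) (nat_lit 5) (nat_lit 5) (nat_lit 4) (nat_lit 354) (nat_lit 265) (nat_lit 101))) (XT.nd (nat_lit 78) (nat_lit 0) (nat_lit 0) (XT.lf (nat_lit 0) (nat_lit 738085902) (nat_lit 0) (nat_lit 738085902) (nat_lit 684) (nat_lit 5924356298) (nat_lit 72)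 (nat_lit 5) (nat_lit 72) (nat_lit 3) (nat_lit 81) (nat_lit 3) (nat_lit 266) (nat_lit 266) (nat_lit 188)) (XT.lf (nat_lit 0) (nat_lit 3382981965) (nat_lit 684) (nat_lit 7073203661) (nat_lit 760) (nat_lit 4696137131) (nat_lit 72) (nat_lit 5) (nat_lit 81) (nat_lit 3) (nat_lit 82) (nat_lit 5) (nat_lit 267) (nat_lit 266) (nat_lit 187)))) (XT.nd (nat_lit 156) (nat_lit 0) (nat_lit 76) (XT.nd (nat_lit 78) (nat_lit 0) (nat_lit 76) (XT.lf (nat_lit 0) (nat_lit 3841499246) (nat_lit 684) (nat_lit 543233814) (nat_lit 760) (nat_lit 11136161013) (nat_lit 72) (nat_lit 5) (nat_lit 81) (nat_lit 3) (nat_lit 82) (nat_lit 5) (nat_lit 268) (nat_lit 266) (nat_lit 186)) (XT.lf (nat_lit 0) (nat_lit 4440467394) (nat_lit 684) (nat_lit 9424526617) (nat_lit 760) (nat_lit 2037079681) (nat_lit 73) (nat_lit 5) (nat_lit 82) (nat_lit 5) (nat_lit 83) (nat_lit 5) (nat_lit 269) (nat_lit 266) (nat_lit 185))) (XT.nd (nat_lit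 78) (nat_lit 0) (nat_lit 0) (XT.lf (nat_lit 0) (nat_lit 5134382534) (nat_lit 684) (nat_lit 2516094481) (nat_lit 760) (nat_lit 8648638671) (nat_lit 73) (nat_lit 5) (nat_lit 82) (nat_lit 5) (nat_lit 83) (nat_lit 5) (nat_lit 270) (nat_lit 266) (nat_lit 184)) (XT.nd (nat_lit 78) (nat_lit 0) (nat_lit 76) (XT.lf (nat_lit 76) (nat_lit 4884141966) (nat_lit 0) (nat_lit 1039646578) (nat_lit 760) (nat_lit 10789232260) (nat_lit 74) (nat_lit 5) (nat_lit 73) (nat_lit 5) (nat_lit 83) (nat_lit 5) (nat_lit 271) (nat_lit 266) (nat_lit 183)) (XT.lf (nat_lit 0) (nat_lit 6873320190) (nat_lit 684) (nat_lit 4507240054) (nat_lit 760) (nat_lit 5761076532) (nat_lit 74) (nat_lit 5) (nat_lit 83) (nat_lit 5) (nat_lit 84) (nat_lit 5) (nat_lit 272) (nat_lit 266) (nat_lit 182)))))) (XT.nd (nat_lit 312) (nat_lit 912) (nat_lit 0) (XT.nd (nat_lit 156) (nat_lit 0) (nat_lit 76) (XT.nd (nat_lit 78) (nat_lit 0) (nat_lit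 76) (XT.lf (nat_lit 76) (nat_lit 3257554834) (nat_lit 0) (nat_lit 4666584187) (nat_lit 760) (nat_lit 9664900056) (nat_lit 75) (nat_lit 5) (nat_lit 74) (nat_lit 5) (nat_lit 84) (nat_lit 5) (nat_lit 273) (nat_lit 266) (nat_lit 181)) (XT.lf (nat_lit 0) (nat_lit 9128768196) (nat_lit 684) (nat_lit 6537142083) (nat_lit 760) (nat_lit 2387881612) (nat_lit 75) (nat_lit 5) (nat_lit 84) (nat_lit 5) (nat_lit 85) (nat_lit 5) (nat_lit 274) (nat_lit 266) (nat_lit 180))) (XT.nd (nat_lit 78) (nat_lit 0) (nat_lit 0) (XT.lf (nat_lit 76) (nat_lit 1611754592) (nat_lit 0) (nat_lit 8870662514) (nat_lit 760) (nat_lit 8054967605) (nat_lit 76) (nat_lit 5) (nat_lit 75) (nat_lit 5) (nat_lit 85) (nat_lit 5) (nat_lit 275) (nat_lit 266) (nat_lit 179)) (XT.lf (nat_lit 76) (nat_lit 10384968772) (nat_lit 0) (nat_lit 1617068032) (nat_lit 760) (nat_lit 7038245739) (nat_lit 76) (nat_lit 5) (nat_lit 75) (nat_lit 5) (nat_lit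 85) (nat_lit 5) (nat_lit 276) (nat_lit 266) (nat_lit 178)))) (XT.nd (nat_lit 156) (nat_lit 380) (nat_lit 0) (XT.nd (nat_lit 78) (nat_lit 684) (nat_lit 0) (XT.lf (nat_lit 0) (nat_lit 13679506860) (nat_lit 684) (nat_lit 75412237) (nat_lit 76) (nat_lit 5809350596) (nat_lit 76) (nat_lit 5) (nat_lit 85) (nat_lit 5) (nat_lit 77) (nat_lit 5) (nat_lit 277) (nat_lit 266) (nat_lit 177)) (XT.lf (nat_lit 0) (nat_lit 9191379256) (nat_lit 684) (nat_lit 6408250282) (nat_lit 760) (nat_lit 4506923797) (nat_lit 67) (nat_lit 5) (nat_lit 76) (nat_lit 5) (nat_lit 77) (nat_lit 5) (nat_lit 278) (nat_lit 266) (nat_lit 176))) (XT.nd (nat_lit 78) (nat_lit 380) (nat_lit 0) (XT.lf (nat_lit 0) (nat_lit 17626613419) (nat_lit 760) (nat_lit 1782381853) (nat_lit 76) (nat_lit 1266447504) (nat_lit 67) (nat_lit 5) (nat_lit 77) (nat_lit 5) (nat_lit 68) (nat_lit 5) (nat_lit 279) (nat_lit 266) (nat_lit 175)) (XT.nd (nat_lit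 78) (nat_lit 76) (nat_lit 0) (XT.lf (nat_lit 0) (nat_lit 7946608628) (nat_lit 304) (nat_lit 12027146211) (nat_lit 380) (nat_lit 1288114170) (nat_lit 63) (nat_lit 5) (nat_lit 67) (nat_lit 5) (nat_lit 68) (nat_lit 5) (nat_lit 280) (nat_lit 266) (nat_lit 174)) (XT.lf (nat_lit 0) (nat_lit 563207499) (nat_lit 380) (nat_lit 3671364396) (nat_lit 76) (nat_lit 17641610962) (nat_lit 62) (nat_lit 5) (nat_lit 67) (nat_lit 5) (nat_lit 63) (nat_lit 5) (nat_lit 281) (nat_lit 266) (nat_lit 173))))))) (XT.nd (nat_lit 702) (nat_lit 1064) (nat_lit 0) (XT.nd (nat_lit 312) (nat_lit 532) (nat_lit 0) (XT.nd (nat_lit 156) (nat_lit 304) (nat_lit 0) (XT.nd (nat_lit 78) (nat_lit 0) (nat_lit 0) (XT.lf (nat_lit 0) (nat_lit 2621421505) (nat_lit 456) (nat_lit 15942613744) (nat_lit 76) (nat_lit 3948268828) (nat_lit 57) (nat_lit 5) (nat_lit 63) (nat_lit 5) (nat_lit 58) (nat_lit 5) (nat_lit 282) (nat_lit 266) (nat_lit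 172)) (XT.lf (nat_lit 0) (nat_lit 4905795864) (nat_lit 456) (nat_lit 5807109999) (nat_lit 76) (nat_lit 12461189945) (nat_lit 57) (nat_lit 5) (nat_lit 63) (nat_lit 5) (nat_lit 58) (nat_lit 5) (nat_lit 283) (nat_lit 266) (nat_lit 171))) (XT.nd (nat_lit 78) (nat_lit 0) (nat_lit 0) (XT.lf (nat_lit 0) (nat_lit 4985391408) (nat_lit 304) (nat_lit 2387914246) (nat_lit 380) (nat_lit 16492251281) (nat_lit 53) (nat_lit 5) (nat_lit 57) (nat_lit 5) (nat_lit 58) (nat_lit 5) (nat_lit 284) (nat_lit 266) (nat_lit 170)) (XT.lf (nat_lit 0) (nat_lit 10154696018) (nat_lit 380) (nat_lit 8177989869) (nat_lit 76) (nat_lit 6249404408) (nat_lit 53) (nat_lit 5) (nat_lit 58) (nat_lit 5) (nat_lit 54) (nat_lit 5) (nat_lit 285) (nat_lit 266) (nat_lit 169)))) (XT.nd (nat_lit 156) (nat_lit 228) (nat_lit 0) (XT.nd (nat_lit 78) (nat_lit 0) (nat_lit 0) (XT.lf (nat_lit 0) (nat_lit 3110525420) (nat_lit 304) (nat_lit 10044105767)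 (nat_lit 380) (nat_lit 12175868632) (nat_lit 49) (nat_lit 5) (nat_lit 53) (nat_lit 5) (nat_lit 54) (nat_lit 5) (nat_lit 286) (nat_lit 266) (nat_lit 168)) (XT.lf (nat_lit 0) (nat_lit 15238356613) (nat_lit 304) (nat_lit 1196720989) (nat_lit 380) (nat_lit 9674748652) (nat_lit 49) (nat_lit 5) (nat_lit 53) (nat_lit 5) (nat_lit 54) (nat_lit 5) (nat_lit 287) (nat_lit 266) (nat_lit 167))) (XT.nd (nat_lit 78) (nat_lit 0) (nat_lit 0) (XT.lf (nat_lit 0) (nat_lit 939178144) (nat_lit 228) (nat_lit 19073767194) (nat_lit 304) (nat_lit 6908524824) (nat_lit 46) (nat_lit 5) (nat_lit 49) (nat_lit 5) (nat_lit 50) (nat_lit 5) (nat_lit 288) (nat_lit 266) (nat_lit 166)) (XT.nd (nat_lit 78) (nat_lit 0) (nat_lit 0) (XT.lf (nat_lit 0) (nat_lit 13688682247) (nat_lit 228) (nat_lit 10277045404) (nat_lit 304) (nat_lit 3798187649) (nat_lit 46) (nat_lit 5) (nat_lit 49) (nat_lit 5) (nat_lit 50) (nat_lit 5) (nat_lit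 289) (nat_lit 266) (nat_lit 165)) (XT.lf (nat_lit 0) (nat_lit 27067240697) (nat_lit 228) (nat_lit 1041866135) (nat_lit 304) (nat_lit 539747115) (nat_lit 46) (nat_lit 5) (nat_lit 49) (nat_lit 5) (nat_lit 50) (nat_lit 5) (nat_lit 290) (nat_lit 266) (nat_lit 164)))))) (XT.nd (nat_lit 312) (nat_lit 456) (nat_lit 0) (XT.nd (nat_lit 156) (nat_lit 228) (nat_lit 0) (XT.nd (nat_lit 78) (nat_lit 0) (nat_lit 0) (XT.lf (nat_lit 0) (nat_lit 3106649447) (nat_lit 380) (nat_lit 17842641338) (nat_lit 76) (nat_lit 8610653413) (nat_lit 41) (nat_lit 5) (nat_lit 46) (nat_lit 5) (nat_lit 42) (nat_lit 5) (nat_lit 291) (nat_lit 266) (nat_lit 163)) (XT.lf (nat_lit 0) (nat_lit 6954871759) (nat_lit 380) (nat_lit 4813996998) (nat_lit 76) (nat_lit 18745412073) (nat_lit 41) (nat_lit 5) (nat_lit 46) (nat_lit 5) (nat_lit 42) (nat_lit 5) (nat_lit 292) (nat_lit 266) (nat_lit 162))) (XT.nd (nat_lit 78) (nat_lit 0) (nat_lit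 0) (XT.lf (nat_lit 0) (nat_lit 9150913625) (nat_lit 228) (nat_lit 1981120779) (nat_lit 304) (nat_lit 20377489175) (nat_lit 38) (nat_lit 5) (nat_lit 41) (nat_lit 5) (nat_lit 42) (nat_lit 5) (nat_lit 293) (nat_lit 266) (nat_lit 161)) (XT.lf (nat_lit 0) (nat_lit 15724251774) (nat_lit 304) (nat_lit 8708329939) (nat_lit 76) (nat_lit 8111651919) (nat_lit 38) (nat_lit 5) (nat_lit 42) (nat_lit 5) (nat_lit 39) (nat_lit 5) (nat_lit 294) (nat_lit 266) (nat_lit 160)))) (XT.nd (nat_lit 156) (nat_lit 228) (nat_lit 0) (XT.nd (nat_lit 78) (nat_lit 0) (nat_lit 0) (XT.lf (nat_lit 0) (nat_lit 5768797397) (nat_lit 228) (nat_lit 14893930596) (nat_lit 304) (nat_lit 12962133078) (nat_lit 35) (nat_lit 5) (nat_lit 38) (nat_lit 5) (nat_lit 39) (nat_lit 5) (nat_lit 295) (nat_lit 266) (nat_lit 159)) (XT.lf (nat_lit 0) (nat_lit 21264414058) (nat_lit 228) (nat_lit 4725457801) (nat_lit 304) (nat_lit 8762574433) (nat_lit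 35) (nat_lit 5) (nat_lit 38) (nat_lit 5) (nat_lit 39) (nat_lit 5) (nat_lit 296) (nat_lit 266) (nat_lit 158))) (XT.nd (nat_lit 78) (nat_lit 76) (nat_lit 0) (XT.lf (nat_lit 0) (nat_lit 1547418414) (nat_lit 152) (nat_lit 30147540660) (nat_lit 228) (nat_lit 4235885346) (nat_lit 33) (nat_lit 5) (nat_lit 35) (nat_lit 5) (nat_lit 36) (nat_lit 5) (nat_lit 297) (nat_lit 266) (nat_lit 157)) (XT.nd (nat_lit 78) (nat_lit 0) (nat_lit 0) (XT.lf (nat_lit 0) (nat_lit 804777416) (nat_lit 228) (nat_lit 19450770903) (nat_lit 76) (nat_lit 16897012643) (nat_lit 32) (nat_lit 5) (nat_lit 35) (nat_lit 5) (nat_lit 33) (nat_lit 5) (nat_lit 298) (nat_lit 266) (nat_lit 156)) (XT.lf (nat_lit 0) (nat_lit 5949932464) (nat_lit 228) (nat_lit 3848219208) (nat_lit 76) (nat_lit 28634010179) (nat_lit 32) (nat_lit 5) (nat_lit 35) (nat_lit 5) (nat_lit 33) (nat_lit 5) (nat_lit 299) (nat_lit 266) (nat_lit 155))))))))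
noncomputable def xc188 : XT := (XT.nd (nat_lit 1326) (nat_lit 608) (nat_lit 0) (XT.nd (nat_lit 624) (nat_lit 456) (nat_lit 0) (XT.nd (nat_lit 312) (nat_lit 380) (nat_lit 0) (XT.nd (nat_lit 156) (nat_lit 152) (nat_lit 0) (XT.nd (nat_lit 78) (nat_lit 0) (nat_lit 0) (XT.lf (nat_lit 0) (nat_lit 11571198780) (nat_lit 304) (nat_lit 26845906632) (nat_lit 76) (nat_lit 1347705353) (nat_lit 29) (nat_lit 5) (nat_lit 33) (nat_lit 5) (nat_lit 30) (nat_lit 5) (nat_lit 300) (nat_lit 266) (nat_lit 154)) (XT.lf (nat_lit 0) (nat_lit 17695550298) (nat_lit 304) (nat_lit 10671597341) (nat_lit 76) (nat_lit 12785853543) (nat_lit 29) (nat_lit 5) (nat_lit 33) (nat_lit 5) (nat_lit 30) (nat_lit 5) (nat_lit 301) (nat_lit 266) (nat_lit 153))) (XT.nd (nat_lit 78) (nat_lit 0) (nat_lit 0) (XT.lf (nat_lit 0) (nat_lit 6513170409) (nat_lit 152) (nat_lit 17710025071) (nat_lit 228) (nat_lit 18382561501) (nat_lit 27) (nat_lit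 5) (nat_lit 29) (nat_lit 5) (nat_lit 30) (nat_lit 5) (nat_lit 302) (nat_lit 266) (nat_lit 152)) (XT.lf (nat_lit 0) (nat_lit 24921059548) (nat_lit 152) (nat_lit 6332395727) (nat_lit 228) (nat_lit 12868892883) (nat_lit 27) (nat_lit 5) (nat_lit 29) (nat_lit 5) (nat_lit 30) (nat_lit 5) (nat_lit 303) (nat_lit 266) (nat_lit 151)))) (XT.nd (nat_lit 156) (nat_lit 228) (nat_lit 0) (XT.nd (nat_lit 78) (nat_lit 152) (nat_lit 0) (XT.lf (nat_lit 0) (nat_lit 38718566490) (nat_lit 228) (nat_lit 1559565221) (nat_lit 76) (nat_lit 5432479031) (nat_lit 27) (nat_lit 5) (nat_lit 30) (nat_lit 5) (nat_lit 28) (nat_lit 5) (nat_lit 304) (nat_lit 266) (nat_lit 150)) (XT.lf (nat_lit 0) (nat_lit 17411533917) (nat_lit 152) (nat_lit 29516943723) (nat_lit 228) (nat_lit 431239946) (nat_lit 25) (nat_lit 5) (nat_lit 27) (nat_lit 5) (nat_lit 28) (nat_lit 5) (nat_lit 305) (nat_lit 266) (nat_lit 149))) (XT.nd (nat_lit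 78) (nat_lit 152) (nat_lit 0) (XT.lf (nat_lit 0) (nat_lit 6273684972) (nat_lit 228) (nat_lit 11812102196) (nat_lit 76) (nat_lit 30999320909) (nat_lit 24) (nat_lit 5) (nat_lit 27) (nat_lit 5) (nat_lit 25) (nat_lit 5) (nat_lit 306) (nat_lit 266) (nat_lit 148)) (XT.lf (nat_lit 0) (nat_lit 7456441459) (nat_lit 152) (nat_lit 5955451563) (nat_lit 228) (nat_lit 37478902341) (nat_lit 22) (nat_lit 5) (nat_lit 24) (nat_lit 5) (nat_lit 25) (nat_lit 5) (nat_lit 307) (nat_lit 266) (nat_lit 147))))) (XT.nd (nat_lit 312) (nat_lit 304) (nat_lit 0) (XT.nd (nat_lit 156) (nat_lit 152) (nat_lit 0) (XT.nd (nat_lit 78) (nat_lit 0) (nat_lit 0) (XT.lf (nat_lit 0) (nat_lit 21212386899) (nat_lit 228) (nat_lit 24793413296) (nat_lit 76) (nat_lit 6765704916) (nat_lit 22) (nat_lit 5) (nat_lit 25) (nat_lit 5) (nat_lit 23) (nat_lit 5) (nat_lit 308) (nat_lit 266) (nat_lit 146)) (XT.lf (nat_lit 0) (nat_lit 29496893616)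 (nat_lit 228) (nat_lit 5323764776) (nat_lit 76) (nat_lit 19920899090) (nat_lit 22) (nat_lit 5) (nat_lit 25) (nat_lit 5) (nat_lit 23) (nat_lit 5) (nat_lit 309) (nat_lit 266) (nat_lit 145))) (XT.nd (nat_lit 78) (nat_lit 0) (nat_lit 0) (XT.lf (nat_lit 0) (nat_lit 15613664008) (nat_lit 152) (nat_lit 22822265946) (nat_lit 228) (nat_lit 18362173536) (nat_lit 20) (nat_lit 5) (nat_lit 22) (nat_lit 5) (nat_lit 23) (nat_lit 5) (nat_lit 310) (nat_lit 266) (nat_lit 144)) (XT.lf (nat_lit 0) (nat_lit 37777444096) (nat_lit 152) (nat_lit 10131247439) (nat_lit 228) (nat_lit 11044452524) (nat_lit 20) (nat_lit 5) (nat_lit 22) (nat_lit 5) (nat_lit 23) (nat_lit 5) (nat_lit 311) (nat_lit 266) (nat_lit 143)))) (XT.nd (nat_lit 156) (nat_lit 152) (nat_lit 0) (XT.nd (nat_lit 78) (nat_lit 152) (nat_lit 0) (XT.lf (nat_lit 0) (nat_lit 57901708524) (nat_lit 228) (nat_lit 221628057) (nat_lit 76) (nat_lit 3090274862)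 (nat_lit 20) (nat_lit 5) (nat_lit 23) (nat_lit 5) (nat_lit 21) (nat_lit 4) (nat_lit 312) (nat_lit 266) (nat_lit 142)) (XT.lf (nat_lit 0) (nat_lit 5173311279) (nat_lit 152) (nat_lit 41321400082) (nat_lit 76) (nat_lit 17062648216) (nat_lit 18) (nat_lit 5) (nat_lit 20) (nat_lit 5) (nat_lit 19) (nat_lit 5) (nat_lit 313) (nat_lit 266) (nat_lit 141))) (XT.nd (nat_lit 78) (nat_lit 152) (nat_lit 0) (XT.lf (nat_lit 0) (nat_lit 13972215908) (nat_lit 152) (nat_lit 20253351196) (nat_lit 76) (nat_lit 31789981652) (nat_lit 18) (nat_lit 5) (nat_lit 20) (nat_lit 5) (nat_lit 19) (nat_lit 5) (nat_lit 314) (nat_lit 266) (nat_lit 140)) (XT.nd (nat_lit 78) (nat_lit 0) (nat_lit 0) (XT.lf (nat_lit 0) (nat_lit 1924939182) (nat_lit 152) (nat_lit 21313243582) (nat_lit 228) (nat_lit 45357113429) (nat_lit 16) (nat_lit 5) (nat_lit 18) (nat_lit 5) (nat_lit 19) (nat_lit 5) (nat_lit 315) (nat_lit 266) (nat_lit 139))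 (XT.lf (nat_lit 0) (nat_lit 25910600624) (nat_lit 152) (nat_lit 7396977497) (nat_lit 228) (nat_lit 37979450802) (nat_lit 16) (nat_lit 5) (nat_lit 18) (nat_lit 5) (nat_lit 19) (nat_lit 5) (nat_lit 316) (nat_lit 266) (nat_lit 138))))))) (XT.nd (nat_lit 702) (nat_lit 228) (nat_lit 0) (XT.nd (nat_lit 312) (nat_lit 304) (nat_lit 0) (XT.nd (nat_lit 156) (nat_lit 0) (nat_lit 0) (XT.nd (nat_lit 78) (nat_lit 76) (nat_lit 0) (XT.lf (nat_lit 0) (nat_lit 43990330617) (nat_lit 228) (nat_lit 23135035431) (nat_lit 76) (nat_lit 6982492091) (nat_lit 16) (nat_lit 5) (nat_lit 19) (nat_lit 5) (nat_lit 17) (nat_lit 4) (nat_lit 317) (nat_lit 266) (nat_lit 137)) (XT.lf (nat_lit 0) (nat_lit 95867496) (nat_lit 76) (nat_lit 55231482793) (nat_lit 152) (nat_lit 21736376066) (nat_lit 15) (nat_lit 5) (nat_lit 16) (nat_lit 5) (nat_lit 17) (nat_lit 4) (nat_lit 318) (nat_lit 266) (nat_lit 136))) (XT.nd (nat_lit 78)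 (nat_lit 0) (nat_lit 0) (XT.lf (nat_lit 0) (nat_lit 25287216162) (nat_lit 76) (nat_lit 42333236798) (nat_lit 152) (nat_lit 12527477246) (nat_lit 15) (nat_lit 5) (nat_lit 16) (nat_lit 5) (nat_lit 17) (nat_lit 4) (nat_lit 319) (nat_lit 266) (nat_lit 135)) (XT.lf (nat_lit 0) (nat_lit 51734041216) (nat_lit 76) (nat_lit 28791720973) (nat_lit 152) (nat_lit 2860708133) (nat_lit 15) (nat_lit 5) (nat_lit 16) (nat_lit 5) (nat_lit 17) (nat_lit 4) (nat_lit 320) (nat_lit 266) (nat_lit 134)))) (XT.nd (nat_lit 156) (nat_lit 76) (nat_lit 0) (XT.nd (nat_lit 78) (nat_lit 152) (nat_lit 0) (XT.lf (nat_lit 0) (nat_lit 7053719566) (nat_lit 152) (nat_lit 7401515894) (nat_lit 76) (nat_lit 72326133568) (nat_lit 14) (nat_lit 5) (nat_lit 16) (nat_lit 5) (nat_lit 15) (nat_lit 5) (nat_lit 321) (nat_lit 266) (nat_lit 133)) (XT.lf (nat_lit 0) (nat_lit 17670818639) (nat_lit 228) (nat_lit 71737312668) (nat_lit 76)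 (nat_lit 920385240) (nat_lit 12) (nat_lit 5) (nat_lit 15) (nat_lit 5) (nat_lit 13) (nat_lit 4) (nat_lit 322) (nat_lit 266) (nat_lit 132))) (XT.nd (nat_lit 78) (nat_lit 76) (nat_lit 0) (XT.lf (nat_lit 0) (nat_lit 29180912116) (nat_lit 228) (nat_lit 48149073791) (nat_lit 76) (nat_lit 16704931560) (nat_lit 12) (nat_lit 5) (nat_lit 15) (nat_lit 5) (nat_lit 13) (nat_lit 4) (nat_lit 323) (nat_lit 266) (nat_lit 131)) (XT.nd (nat_lit 78) (nat_lit 76) (nat_lit 0) (XT.lf (nat_lit 0) (nat_lit 41264381921) (nat_lit 228) (nat_lit 23385058550) (nat_lit 76) (nat_lit 33277307234) (nat_lit 12) (nat_lit 5) (nat_lit 15) (nat_lit 5) (nat_lit 13) (nat_lit 4) (nat_lit 324) (nat_lit 266) (nat_lit 130)) (XT.lf (nat_lit 0) (nat_lit 2700115554) (nat_lit 76) (nat_lit 51292039035) (nat_lit 152) (nat_lit 48019011116) (nat_lit 11) (nat_lit 5) (nat_lit 12) (nat_lit 5) (nat_lit 13) (nat_lit 4) (nat_lit 325) (nat_lit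 266) (nat_lit 129)))))) (XT.nd (nat_lit 312) (nat_lit 152) (nat_lit 0) (XT.nd (nat_lit 156) (nat_lit 76) (nat_lit 0) (XT.nd (nat_lit 78) (nat_lit 0) (nat_lit 0) (XT.lf (nat_lit 0) (nat_lit 30898018180) (nat_lit 76) (nat_lit 36852351332) (nat_lit 152) (nat_lit 38529735001) (nat_lit 11) (nat_lit 5) (nat_lit 12) (nat_lit 5) (nat_lit 13) (nat_lit 4) (nat_lit 326) (nat_lit 266) (nat_lit 128)) (XT.lf (nat_lit 0) (nat_lit 60502571545) (nat_lit 76) (nat_lit 21692034437) (nat_lit 152) (nat_lit 28567981206) (nat_lit 11) (nat_lit 5) (nat_lit 12) (nat_lit 5) (nat_lit 13) (nat_lit 4) (nat_lit 327) (nat_lit 266) (nat_lit 127))) (XT.nd (nat_lit 78) (nat_lit 76) (nat_lit 0) (XT.lf (nat_lit 0) (nat_lit 91584262682) (nat_lit 76) (nat_lit 5774992355) (nat_lit 152) (nat_lit 18110031269) (nat_lit 11) (nat_lit 5) (nat_lit 12) (nat_lit 5) (nat_lit 13) (nat_lit 4) (nat_lit 328) (nat_lit 266) (nat_lit 126))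 (XT.lf (nat_lit 0) (nat_lit 3755122583) (nat_lit 76) (nat_lit 109754680497) (nat_lit 76) (nat_lit 6890136209) (nat_lit 10) (nat_lit 4) (nat_lit 11) (nat_lit 5) (nat_lit 11) (nat_lit 4) (nat_lit 329) (nat_lit 266) (nat_lit 125)))) (XT.nd (nat_lit 156) (nat_lit 76) (nat_lit 0) (XT.nd (nat_lit 78) (nat_lit 0) (nat_lit 0) (XT.lf (nat_lit 0) (nat_lit 5238300231) (nat_lit 152) (nat_lit 92131073130) (nat_lit 76) (nat_lit 28178731609) (nat_lit 9) (nat_lit 5) (nat_lit 11) (nat_lit 5) (nat_lit 10) (nat_lit 4) (nat_lit 330) (nat_lit 266) (nat_lit 124)) (XT.lf (nat_lit 0) (nat_lit 17739960571) (nat_lit 152) (nat_lit 66507473541) (nat_lit 76) (nat_lit 46700681307) (nat_lit 9) (nat_lit 5) (nat_lit 11) (nat_lit 5) (nat_lit 10) (nat_lit 4) (nat_lit 331) (nat_lit 266) (nat_lit 123))) (XT.nd (nat_lit 78) (nat_lit 76) (nat_lit 0) (XT.lf (nat_lit 0) (nat_lit 30865138059) (nat_lit 152) (nat_lit 39605435035)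 (nat_lit 76) (nat_lit 66147633433) (nat_lit 9) (nat_lit 5) (nat_lit 11) (nat_lit 5) (nat_lit 10) (nat_lit 4) (nat_lit 332) (nat_lit 266) (nat_lit 122)) (XT.nd (nat_lit 78) (nat_lit 76) (nat_lit 0) (XT.lf (nat_lit 0) (nat_lit 44645083115) (nat_lit 152) (nat_lit 11360905139) (nat_lit 76) (nat_lit 86565890252) (nat_lit 9) (nat_lit 5) (nat_lit 11) (nat_lit 5) (nat_lit 10) (nat_lit 4) (nat_lit 333) (nat_lit 266) (nat_lit 121)) (XT.lf (nat_lit 0) (nat_lit 18898226289) (nat_lit 76) (nat_lit 40509433118) (nat_lit 152) (nat_lit 89400894648) (nat_lit 8) (nat_lit 5) (nat_lit 9) (nat_lit 5) (nat_lit 10) (nat_lit 4) (nat_lit 334) (nat_lit 266) (nat_lit 120))))))))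
noncomputable def xc189 : XT := (XT.nd (nat_lit 1326) (nat_lit 76) (nat_lit 0) (XT.nd (nat_lit 624) (nat_lit 76) (nat_lit 0) (XT.nd (nat_lit 312) (nat_lit 152) (nat_lit 0) (XT.nd (nat_lit 156) (nat_lit 0) (nat_lit 0) (XT.nd (nat_lit 78) (nat_lit 0) (nat_lit 0) (XT.lf (nat_lit 0) (nat_lit 51062293140) (nat_lit 76) (nat_lit 24037082953) (nat_lit 152) (nat_lit 80248138300) (nat_lit 8) (nat_lit 5) (nat_lit 9) (nat_lit 5) (nat_lit 10) (nat_lit 4) (nat_lit 335) (nat_lit 266) (nat_lit 119)) (XT.lf (nat_lit 0) (nat_lit 84832233691) (nat_lit 76) (nat_lit 6742120302) (nat_lit 152) (nat_lit 70639136498) (nat_lit 8) (nat_lit 5) (nat_lit 9) (nat_lit 5) (nat_lit 10) (nat_lit 4) (nat_lit 336) (nat_lit 266) (nat_lit 118))) (XT.nd (nat_lit 78) (nat_lit 0) (nat_lit 0) (XT.lf (nat_lit 0) (nat_lit 109050064890) (nat_lit 152) (nat_lit 49312622992) (nat_lit 0) (nat_lit 11051229750) (nat_lit 8) (nat_lit 5)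 (nat_lit 10) (nat_lit 4) (nat_lit 8) (nat_lit 4) (nat_lit 337) (nat_lit 266) (nat_lit 117)) (XT.lf (nat_lit 0) (nat_lit 127508872194) (nat_lit 152) (nat_lit 19953244322) (nat_lit 0) (nat_lit 29506785443) (nat_lit 8) (nat_lit 5) (nat_lit 10) (nat_lit 4) (nat_lit 8) (nat_lit 4) (nat_lit 338) (nat_lit 266) (nat_lit 116)))) (XT.nd (nat_lit 156) (nat_lit 76) (nat_lit 0) (XT.nd (nat_lit 78) (nat_lit 0) (nat_lit 0) (XT.lf (nat_lit 0) (nat_lit 11231524819) (nat_lit 76) (nat_lit 135833292813) (nat_lit 76) (nat_lit 37828109289) (nat_lit 7) (nat_lit 4) (nat_lit 8) (nat_lit 5) (nat_lit 8) (nat_lit 4) (nat_lit 339) (nat_lit 266) (nat_lit 115)) (XT.lf (nat_lit 0) (nat_lit 44666239791) (nat_lit 76) (nat_lit 123269104119) (nat_lit 76) (nat_lit 25260971289) (nat_lit 7) (nat_lit 4) (nat_lit 8) (nat_lit 5) (nat_lit 8) (nat_lit 4) (nat_lit 340) (nat_lit 266) (nat_lit 114))) (XT.nd (nat_lit 78) (nat_lit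 76) (nat_lit 0) (XT.lf (nat_lit 0) (nat_lit 79770762689) (nat_lit 76) (nat_lit 110077553548) (nat_lit 76) (nat_lit 12066611853) (nat_lit 7) (nat_lit 4) (nat_lit 8) (nat_lit 5) (nat_lit 8) (nat_lit 4) (nat_lit 341) (nat_lit 266) (nat_lit 113)) (XT.lf (nat_lit 0) (nat_lit 1729208708) (nat_lit 152) (nat_lit 94468738950) (nat_lit 76) (nat_lit 114870182016) (nat_lit 6) (nat_lit 5) (nat_lit 8) (nat_lit 5) (nat_lit 7) (nat_lit 4) (nat_lit 342) (nat_lit 266) (nat_lit 112))))) (XT.nd (nat_lit 312) (nat_lit 0) (nat_lit 0) (XT.nd (nat_lit 156) (nat_lit 76) (nat_lit 0) (XT.nd (nat_lit 78) (nat_lit 0) (nat_lit 0) (XT.lf (nat_lit 0) (nat_lit 15808306077) (nat_lit 152) (nat_lit 65609137065) (nat_lit 76) (nat_lit 139251708401) (nat_lit 6) (nat_lit 5) (nat_lit 8) (nat_lit 5) (nat_lit 7) (nat_lit 4) (nat_lit 343) (nat_lit 266) (nat_lit 111)) (XT.lf (nat_lit 0) (nat_lit 30590408851) (nat_lit 152) (nat_lit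 35308252781) (nat_lit 76) (nat_lit 164851611323) (nat_lit 6) (nat_lit 5) (nat_lit 8) (nat_lit 5) (nat_lit 7) (nat_lit 4) (nat_lit 344) (nat_lit 266) (nat_lit 110))) (XT.nd (nat_lit 78) (nat_lit 76) (nat_lit 0) (XT.lf (nat_lit 0) (nat_lit 46110712512) (nat_lit 152) (nat_lit 3493941135) (nat_lit 76) (nat_lit 191730842932) (nat_lit 6) (nat_lit 5) (nat_lit 8) (nat_lit 5) (nat_lit 7) (nat_lit 4) (nat_lit 345) (nat_lit 266) (nat_lit 109)) (XT.lf (nat_lit 0) (nat_lit 30898490906) (nat_lit 76) (nat_lit 31990091293) (nat_lit 152) (nat_lit 189537322527) (nat_lit 5) (nat_lit 5) (nat_lit 6) (nat_lit 5) (nat_lit 7) (nat_lit 4) (nat_lit 346) (nat_lit 266) (nat_lit 108)))) (XT.nd (nat_lit 156) (nat_lit 0) (nat_lit 0) (XT.nd (nat_lit 78) (nat_lit 0) (nat_lit 0) (XT.lf (nat_lit 0) (nat_lit 67130331274) (nat_lit 76) (nat_lit 13433341845) (nat_lit 152) (nat_lit 183504244619) (nat_lit 5) (nat_lit 5) (nat_lit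 6) (nat_lit 5) (nat_lit 7) (nat_lit 4) (nat_lit 347) (nat_lit 266) (nat_lit 107)) (XT.lf (nat_lit 0) (nat_lit 99216181845) (nat_lit 152) (nat_lit 171214218519) (nat_lit 0) (nat_lit 5856948675) (nat_lit 5) (nat_lit 5) (nat_lit 7) (nat_lit 4) (nat_lit 5) (nat_lit 4) (nat_lit 348) (nat_lit 266) (nat_lit 106))) (XT.nd (nat_lit 78) (nat_lit 0) (nat_lit 0) (XT.lf (nat_lit 0) (nat_lit 119020759837) (nat_lit 152) (nat_lit 144426304594) (nat_lit 0) (nat_lit 25659716048) (nat_lit 5) (nat_lit 5) (nat_lit 7) (nat_lit 4) (nat_lit 5) (nat_lit 4) (nat_lit 349) (nat_lit 266) (nat_lit 105)) (XT.nd (nat_lit 78) (nat_lit 0) (nat_lit 0) (XT.lf (nat_lit 0) (nat_lit 139814828738) (nat_lit 152) (nat_lit 116300331829) (nat_lit 0) (nat_lit 46452060551) (nat_lit 5) (nat_lit 5) (nat_lit 7) (nat_lit 4) (nat_lit 5) (nat_lit 4) (nat_lit 350) (nat_lit 266) (nat_lit 104)) (XT.lf (nat_lit 0) (nat_lit 161647898236)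 (nat_lit 152) (nat_lit 86769333624) (nat_lit 0) (nat_lit 68283487765) (nat_lit 5) (nat_lit 5) (nat_lit 7) (nat_lit 4) (nat_lit 5) (nat_lit 4) (nat_lit 351) (nat_lit 266) (nat_lit 103))))))) (XT.nd (nat_lit 31434) (nat_lit 0) (nat_lit 4408) (XT.nd (nat_lit 31044) (nat_lit 0) (nat_lit 5168) (XT.nd (nat_lit 30888) (nat_lit 0) (nat_lit 5168) (XT.nd (nat_lit 156) (nat_lit 76) (nat_lit 0) (XT.lf (nat_lit 0) (nat_lit 184571951831) (nat_lit 152) (nat_lit 55762998077) (nat_lit 0) (nat_lit 91205977279) (nat_lit 5) (nat_lit 5) (nat_lit 7) (nat_lit 4) (nat_lit 5) (nat_lit 4) (nat_lit 352) (nat_lit 266) (nat_lit 102)) (XT.lf (nat_lit 0) (nat_lit 11337544175) (nat_lit 76) (nat_lit 222753529828) (nat_lit 76) (nat_lit 129384647009) (nat_lit 4) (nat_lit 4) (nat_lit 5) (nat_lit 5) (nat_lit 5) (nat_lit 4) (nat_lit 354) (nat_lit 266) (nat_lit 100))) (XT.nd (nat_lit 78) (nat_lit 0) (nat_lit 0) (XT.lf (nat_lit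 0) (nat_lit 913338739) (nat_lit 0) (nat_lit 913338739) (nat_lit 684) (nat_lit 5929138148) (nat_lit 72) (nat_lit 5) (nat_lit 72) (nat_lit 3) (nat_lit 81) (nat_lit 3) (nat_lit 267) (nat_lit 267) (nat_lit 186)) (XT.lf (nat_lit 0) (nat_lit 4075058826) (nat_lit 684) (nat_lit 7131154452) (nat_lit 760) (nat_lit 4675857274) (nat_lit 72) (nat_lit 5) (nat_lit 81) (nat_lit 3) (nat_lit 82) (nat_lit 5) (nat_lit 268) (nat_lit 267) (nat_lit 185)))) (XT.nd (nat_lit 156) (nat_lit 0) (nat_lit 76) (XT.nd (nat_lit 78) (nat_lit 0) (nat_lit 76) (XT.lf (nat_lit 0) (nat_lit 4531600649) (nat_lit 684) (nat_lit 288767512) (nat_lit 760) (nat_lit 11450029337) (nat_lit 72) (nat_lit 5) (nat_lit 81) (nat_lit 3) (nat_lit 82) (nat_lit 5) (nat_lit 269) (nat_lit 267) (nat_lit 184)) (XT.lf (nat_lit 0) (nat_lit 5137980961) (nat_lit 684) (nat_lit 9590026848) (nat_lit 760) (nat_lit 1943833195) (nat_lit 73) (nat_lit 5) (nat_lit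 82) (nat_lit 5) (nat_lit 83) (nat_lit 5) (nat_lit 270) (nat_lit 267) (nat_lit 183))) (XT.nd (nat_lit 78) (nat_lit 0) (nat_lit 0) (XT.lf (nat_lit 0) (nat_lit 5843949467) (nat_lit 684) (nat_lit 2350731490) (nat_lit 760) (nat_lit 8895260633) (nat_lit 73) (nat_lit 5) (nat_lit 82) (nat_lit 5) (nat_lit 83) (nat_lit 5) (nat_lit 271) (nat_lit 267) (nat_lit 182)) (XT.nd (nat_lit 78) (nat_lit 0) (nat_lit 76) (XT.lf (nat_lit 76) (nat_lit 5414820525) (nat_lit 0) (nat_lit 1240913693) (nat_lit 760) (nat_lit 10869733156) (nat_lit 74) (nat_lit 5) (nat_lit 73) (nat_lit 5) (nat_lit 83) (nat_lit 5) (nat_lit 272) (nat_lit 267) (nat_lit 181)) (XT.lf (nat_lit 0) (nat_lit 7629772385) (nat_lit 684) (nat_lit 4435452833) (nat_lit 760) (nat_lit 5911504891) (nat_lit 74) (nat_lit 5) (nat_lit 83) (nat_lit 5) (nat_lit 84) (nat_lit 5) (nat_lit 273) (nat_lit 267) (nat_lit 180)))))) (XT.nd (nat_lit 312) (nat_lit 912)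 (nat_lit 0) (XT.nd (nat_lit 156) (nat_lit 0) (nat_lit 76) (XT.nd (nat_lit 78) (nat_lit 0) (nat_lit 76) (XT.lf (nat_lit 76) (nat_lit 3712789070) (nat_lit 0) (nat_lit 5005251107) (nat_lit 760) (nat_lit 9729281196) (nat_lit 75) (nat_lit 5) (nat_lit 74) (nat_lit 5) (nat_lit 84) (nat_lit 5) (nat_lit 274) (nat_lit 267) (nat_lit 179)) (XT.lf (nat_lit 0) (nat_lit 9962396688) (nat_lit 684) (nat_lit 6563836549) (nat_lit 760) (nat_lit 2410164983) (nat_lit 75) (nat_lit 5) (nat_lit 84) (nat_lit 5) (nat_lit 85) (nat_lit 5) (nat_lit 275) (nat_lit 267) (nat_lit 178))) (XT.nd (nat_lit 78) (nat_lit 0) (nat_lit 0) (XT.lf (nat_lit 76) (nat_lit 1987663628) (nat_lit 0) (nat_lit 9382713778) (nat_lit 760) (nat_lit 8074519082) (nat_lit 76) (nat_lit 5) (nat_lit 75) (nat_lit 5) (nat_lit 85) (nat_lit 5) (nat_lit 276) (nat_lit 267) (nat_lit 177)) (XT.lf (nat_lit 76) (nat_lit 11185475597) (nat_lit 0) (nat_lit 1763176804)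 (nat_lit 760) (nat_lit 7025208595) (nat_lit 76) (nat_lit 5) (nat_lit 75) (nat_lit 5) (nat_lit 85) (nat_lit 5) (nat_lit 277) (nat_lit 267) (nat_lit 176)))) (XT.nd (nat_lit 156) (nat_lit 380) (nat_lit 0) (XT.nd (nat_lit 78) (nat_lit 0) (nat_lit 0) (XT.lf (nat_lit 0) (nat_lit 214061680) (nat_lit 684) (nat_lit 14481805422) (nat_lit 760) (nat_lit 5828939701) (nat_lit 67) (nat_lit 5) (nat_lit 76) (nat_lit 5) (nat_lit 77) (nat_lit 5) (nat_lit 278) (nat_lit 267) (nat_lit 175)) (XT.lf (nat_lit 0) (nat_lit 9932722193) (nat_lit 684) (nat_lit 6764662195) (nat_lit 760) (nat_lit 4397601154) (nat_lit 67) (nat_lit 5) (nat_lit 76) (nat_lit 5) (nat_lit 77) (nat_lit 5) (nat_lit 279) (nat_lit 267) (nat_lit 174))) (XT.nd (nat_lit 78) (nat_lit 380) (nat_lit 0) (XT.lf (nat_lit 0) (nat_lit 18810050112) (nat_lit 760) (nat_lit 1586518579) (nat_lit 76) (nat_lit 1296582076) (nat_lit 67) (nat_lit 5) (nat_lit 77)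 (nat_lit 5) (nat_lit 68) (nat_lit 5) (nat_lit 280) (nat_lit 267) (nat_lit 173)) (XT.nd (nat_lit 78) (nat_lit 76) (nat_lit 0) (XT.lf (nat_lit 0) (nat_lit 8624324937) (nat_lit 304) (nat_lit 12640215273) (nat_lit 380) (nat_lit 1044904178) (nat_lit 63) (nat_lit 5) (nat_lit 67) (nat_lit 5) (nat_lit 68) (nat_lit 5) (nat_lit 281) (nat_lit 267) (nat_lit 172)) (XT.lf (nat_lit 0) (nat_lit 874958423) (nat_lit 380) (nat_lit 3577693372) (nat_lit 76) (nat_lit 18502332387) (nat_lit 62) (nat_lit 5) (nat_lit 67) (nat_lit 5) (nat_lit 63) (nat_lit 5) (nat_lit 282) (nat_lit 267) (nat_lit 171))))))))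
noncomputable def xc190 : XT := (XT.nd (nat_lit 1326) (nat_lit 1216) (nat_lit 0) (XT.nd (nat_lit 624) (nat_lit 1064) (nat_lit 0) (XT.nd (nat_lit 312) (nat_lit 532) (nat_lit 0) (XT.nd (nat_lit 156) (nat_lit 304) (nat_lit 0) (XT.nd (nat_lit 78) (nat_lit 0) (nat_lit 0) (XT.lf (nat_lit 0) (nat_lit 3026812860) (nat_lit 456) (nat_lit 16452446071) (nat_lit 76) (nat_lit 4144155489) (nat_lit 57) (nat_lit 5) (nat_lit 63) (nat_lit 5) (nat_lit 58) (nat_lit 5) (nat_lit 283) (nat_lit 267) (nat_lit 170)) (XT.lf (nat_lit 0) (nat_lit 5412343066) (nat_lit 456) (nat_lit 5823848012) (nat_lit 76) (nat_lit 13082795366) (nat_lit 57) (nat_lit 5) (nat_lit 63) (nat_lit 5) (nat_lit 58) (nat_lit 5) (nat_lit 284) (nat_lit 267) (nat_lit 169))) (XT.nd (nat_lit 78) (nat_lit 0) (nat_lit 0) (XT.lf (nat_lit 0) (nat_lit 5503865280) (nat_lit 304) (nat_lit 2491125271) (nat_lit 380) (nat_lit 17050477743) (nat_lit 53) (nat_lit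 5) (nat_lit 57) (nat_lit 5) (nat_lit 58) (nat_lit 5) (nat_lit 285) (nat_lit 267) (nat_lit 168)) (XT.lf (nat_lit 0) (nat_lit 10903642535) (nat_lit 380) (nat_lit 8318014980) (nat_lit 76) (nat_lit 6576795273) (nat_lit 53) (nat_lit 5) (nat_lit 58) (nat_lit 5) (nat_lit 54) (nat_lit 5) (nat_lit 286) (nat_lit 267) (nat_lit 167)))) (XT.nd (nat_lit 156) (nat_lit 228) (nat_lit 0) (XT.nd (nat_lit 78) (nat_lit 0) (nat_lit 0) (XT.lf (nat_lit 0) (nat_lit 3530589390) (nat_lit 304) (nat_lit 10515628976) (nat_lit 380) (nat_lit 12538464678) (nat_lit 49) (nat_lit 5) (nat_lit 53) (nat_lit 5) (nat_lit 54) (nat_lit 5) (nat_lit 287) (nat_lit 267) (nat_lit 166)) (XT.lf (nat_lit 0) (nat_lit 16252215109) (nat_lit 304) (nat_lit 1227336010) (nat_lit 380) (nat_lit 9924012384) (nat_lit 49) (nat_lit 5) (nat_lit 53) (nat_lit 5) (nat_lit 54) (nat_lit 5) (nat_lit 288) (nat_lit 267) (nat_lit 165))) (XT.nd (nat_lit 78)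 (nat_lit 0) (nat_lit 0) (XT.lf (nat_lit 0) (nat_lit 1245129776) (nat_lit 228) (nat_lit 19985054868) (nat_lit 304) (nat_lit 7025940773) (nat_lit 46) (nat_lit 5) (nat_lit 49) (nat_lit 5) (nat_lit 50) (nat_lit 5) (nat_lit 289) (nat_lit 267) (nat_lit 164)) (XT.lf (nat_lit 0) (nat_lit 14619776098) (nat_lit 228) (nat_lit 10750516068) (nat_lit 304) (nat_lit 3770944373) (nat_lit 46) (nat_lit 5) (nat_lit 49) (nat_lit 5) (nat_lit 50) (nat_lit 5) (nat_lit 290) (nat_lit 267) (nat_lit 163))))) (XT.nd (nat_lit 312) (nat_lit 456) (nat_lit 0) (XT.nd (nat_lit 156) (nat_lit 228) (nat_lit 0) (XT.nd (nat_lit 78) (nat_lit 380) (nat_lit 0) (XT.lf (nat_lit 0) (nat_lit 28655516769) (nat_lit 228) (nat_lit 1055500769) (nat_lit 304) (nat_lit 359922415) (nat_lit 46) (nat_lit 5) (nat_lit 49) (nat_lit 5) (nat_lit 50) (nat_lit 5) (nat_lit 291) (nat_lit 267) (nat_lit 162)) (XT.lf (nat_lit 0) (nat_lit 3457042926) (nat_lit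 380) (nat_lit 18487115538) (nat_lit 76) (nat_lit 9083545609) (nat_lit 41) (nat_lit 5) (nat_lit 46) (nat_lit 5) (nat_lit 42) (nat_lit 5) (nat_lit 292) (nat_lit 267) (nat_lit 161))) (XT.nd (nat_lit 78) (nat_lit 228) (nat_lit 0) (XT.lf (nat_lit 0) (nat_lit 7488387735) (nat_lit 380) (nat_lit 4818832212) (nat_lit 76) (nat_lit 19723025082) (nat_lit 41) (nat_lit 5) (nat_lit 46) (nat_lit 5) (nat_lit 42) (nat_lit 5) (nat_lit 293) (nat_lit 267) (nat_lit 160)) (XT.lf (nat_lit 0) (nat_lit 9840519673) (nat_lit 228) (nat_lit 2028665648) (nat_lit 304) (nat_lit 21206347717) (nat_lit 38) (nat_lit 5) (nat_lit 41) (nat_lit 5) (nat_lit 42) (nat_lit 5) (nat_lit 294) (nat_lit 267) (nat_lit 159)))) (XT.nd (nat_lit 156) (nat_lit 228) (nat_lit 0) (XT.nd (nat_lit 78) (nat_lit 228) (nat_lit 0) (XT.lf (nat_lit 0) (nat_lit 16683181916) (nat_lit 304) (nat_lit 8914486576) (nat_lit 76) (nat_lit 8564722602) (nat_lit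 38) (nat_lit 5) (nat_lit 42) (nat_lit 5) (nat_lit 39) (nat_lit 5) (nat_lit 295) (nat_lit 267) (nat_lit 158)) (XT.lf (nat_lit 0) (nat_lit 6282799387) (nat_lit 228) (nat_lit 15581079569) (nat_lit 304) (nat_lit 13433426018) (nat_lit 35) (nat_lit 5) (nat_lit 38) (nat_lit 5) (nat_lit 39) (nat_lit 5) (nat_lit 296) (nat_lit 267) (nat_lit 157))) (XT.nd (nat_lit 78) (nat_lit 228) (nat_lit 0) (XT.lf (nat_lit 0) (nat_lit 22542455828) (nat_lit 228) (nat_lit 4906923494) (nat_lit 304) (nat_lit 9032309141) (nat_lit 35) (nat_lit 5) (nat_lit 38) (nat_lit 5) (nat_lit 39) (nat_lit 5) (nat_lit 297) (nat_lit 267) (nat_lit 156)) (XT.nd (nat_lit 78) (nat_lit 76) (nat_lit 0) (XT.lf (nat_lit 0) (nat_lit 1843548632) (nat_lit 152) (nat_lit 31592782950) (nat_lit 228) (nat_lit 4282862451) (nat_lit 33) (nat_lit 5) (nat_lit 35) (nat_lit 5) (nat_lit 36) (nat_lit 5) (nat_lit 298) (nat_lit 267) (nat_lit 155)) (XT.lf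 (nat_lit 0) (nat_lit 996961033) (nat_lit 228) (nat_lit 20209615498) (nat_lit 76) (nat_lit 17795687459) (nat_lit 32) (nat_lit 5) (nat_lit 35) (nat_lit 5) (nat_lit 33) (nat_lit 5) (nat_lit 299) (nat_lit 267) (nat_lit 154))))))) (XT.nd (nat_lit 702) (nat_lit 456) (nat_lit 0) (XT.nd (nat_lit 312) (nat_lit 380) (nat_lit 0) (XT.nd (nat_lit 156) (nat_lit 152) (nat_lit 0) (XT.nd (nat_lit 78) (nat_lit 228) (nat_lit 0) (XT.lf (nat_lit 0) (nat_lit 6392138369) (nat_lit 228) (nat_lit 3837112121) (nat_lit 76) (nat_lit 30116971815) (nat_lit 32) (nat_lit 5) (nat_lit 35) (nat_lit 5) (nat_lit 33) (nat_lit 5) (nat_lit 300) (nat_lit 267) (nat_lit 153)) (XT.lf (nat_lit 0) (nat_lit 12291629018) (nat_lit 304) (nat_lit 27981547623) (nat_lit 76) (nat_lit 1472483839) (nat_lit 29) (nat_lit 5) (nat_lit 33) (nat_lit 5) (nat_lit 30) (nat_lit 5) (nat_lit 301) (nat_lit 267) (nat_lit 152))) (XT.nd (nat_lit 78) (nat_lit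 152) (nat_lit 0) (XT.lf (nat_lit 0) (nat_lit 18715442383) (nat_lit 304) (nat_lit 11008363551) (nat_lit 76) (nat_lit 13479806428) (nat_lit 29) (nat_lit 5) (nat_lit 33) (nat_lit 5) (nat_lit 30) (nat_lit 5) (nat_lit 302) (nat_lit 267) (nat_lit 151)) (XT.lf (nat_lit 0) (nat_lit 7032468173) (nat_lit 152) (nat_lit 18533590876) (nat_lit 228) (nat_lit 19163130924) (nat_lit 27) (nat_lit 5) (nat_lit 29) (nat_lit 5) (nat_lit 30) (nat_lit 5) (nat_lit 303) (nat_lit 267) (nat_lit 150)))) (XT.nd (nat_lit 156) (nat_lit 380) (nat_lit 0) (XT.nd (nat_lit 78) (nat_lit 0) (nat_lit 0) (XT.lf (nat_lit 0) (nat_lit 26351530853) (nat_lit 152) (nat_lit 6590029372) (nat_lit 228) (nat_lit 13380376907) (nat_lit 27) (nat_lit 5) (nat_lit 29) (nat_lit 5) (nat_lit 30) (nat_lit 5) (nat_lit 304) (nat_lit 267) (nat_lit 149)) (XT.lf (nat_lit 0) (nat_lit 40774831123) (nat_lit 228) (nat_lit 1456566508) (nat_lit 76) (nat_lit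 5758482237) (nat_lit 27) (nat_lit 5) (nat_lit 30) (nat_lit 5) (nat_lit 28) (nat_lit 5) (nat_lit 305) (nat_lit 267) (nat_lit 148))) (XT.nd (nat_lit 78) (nat_lit 228) (nat_lit 0) (XT.lf (nat_lit 0) (nat_lit 18460168604) (nat_lit 152) (nat_lit 30932118910) (nat_lit 228) (nat_lit 329313703) (nat_lit 25) (nat_lit 5) (nat_lit 27) (nat_lit 5) (nat_lit 28) (nat_lit 5) (nat_lit 306) (nat_lit 267) (nat_lit 147)) (XT.nd (nat_lit 78) (nat_lit 152) (nat_lit 0) (XT.lf (nat_lit 0) (nat_lit 6701212884) (nat_lit 228) (nat_lit 12229152790) (nat_lit 76) (nat_lit 32603094333) (nat_lit 24) (nat_lit 5) (nat_lit 27) (nat_lit 5) (nat_lit 25) (nat_lit 5) (nat_lit 307) (nat_lit 267) (nat_lit 146)) (XT.lf (nat_lit 0) (nat_lit 8000018781) (nat_lit 152) (nat_lit 6193557395) (nat_lit 228) (nat_lit 39236003299) (nat_lit 22) (nat_lit 5) (nat_lit 24) (nat_lit 5) (nat_lit 25) (nat_lit 5) (nat_lit 308) (nat_lit 267)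 (nat_lit 145)))))) (XT.nd (nat_lit 312) (nat_lit 304) (nat_lit 0) (XT.nd (nat_lit 156) (nat_lit 152) (nat_lit 0) (XT.nd (nat_lit 78) (nat_lit 0) (nat_lit 0) (XT.lf (nat_lit 0) (nat_lit 22379692024) (nat_lit 228) (nat_lit 25865865542) (nat_lit 76) (nat_lit 7158996864) (nat_lit 22) (nat_lit 5) (nat_lit 25) (nat_lit 5) (nat_lit 23) (nat_lit 5) (nat_lit 309) (nat_lit 267) (nat_lit 144)) (XT.lf (nat_lit 0) (nat_lit 31073343802) (nat_lit 228) (nat_lit 5430697378) (nat_lit 76) (nat_lit 20969331380) (nat_lit 22) (nat_lit 5) (nat_lit 25) (nat_lit 5) (nat_lit 23) (nat_lit 5) (nat_lit 310) (nat_lit 267) (nat_lit 143))) (XT.nd (nat_lit 78) (nat_lit 0) (nat_lit 0) (XT.lf (nat_lit 0) (nat_lit 16551034206) (nat_lit 152) (nat_lit 23905905716) (nat_lit 228) (nat_lit 19175934238) (nat_lit 20) (nat_lit 5) (nat_lit 22) (nat_lit 5) (nat_lit 23) (nat_lit 5) (nat_lit 311) (nat_lit 267) (nat_lit 142)) (XT.lf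 (nat_lit 0) (nat_lit 39815542013) (nat_lit 152) (nat_lit 10583073119) (nat_lit 228) (nat_lit 11497296128) (nat_lit 20) (nat_lit 5) (nat_lit 22) (nat_lit 5) (nat_lit 23) (nat_lit 5) (nat_lit 312) (nat_lit 267) (nat_lit 141)))) (XT.nd (nat_lit 156) (nat_lit 152) (nat_lit 0) (XT.nd (nat_lit 78) (nat_lit 152) (nat_lit 0) (XT.lf (nat_lit 0) (nat_lit 60887597391) (nat_lit 228) (nat_lit 86746487) (nat_lit 76) (nat_lit 3295250297) (nat_lit 20) (nat_lit 5) (nat_lit 23) (nat_lit 5) (nat_lit 21) (nat_lit 4) (nat_lit 313) (nat_lit 267) (nat_lit 140)) (XT.lf (nat_lit 0) (nat_lit 5522298252) (nat_lit 152) (nat_lit 43240731910) (nat_lit 76) (nat_lit 17967538312) (nat_lit 18) (nat_lit 5) (nat_lit 20) (nat_lit 5) (nat_lit 19) (nat_lit 5) (nat_lit 314) (nat_lit 267) (nat_lit 139))) (XT.nd (nat_lit 78) (nat_lit 152) (nat_lit 0) (XT.lf (nat_lit 0) (nat_lit 14756847093) (nat_lit 152) (nat_lit 21126268112)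 (nat_lit 76) (nat_lit 33428773768) (nat_lit 18) (nat_lit 5) (nat_lit 20) (nat_lit 5) (nat_lit 19) (nat_lit 5) (nat_lit 315) (nat_lit 267) (nat_lit 138)) (XT.nd (nat_lit 78) (nat_lit 0) (nat_lit 0) (XT.lf (nat_lit 0) (nat_lit 2158682742) (nat_lit 152) (nat_lit 22325480048) (nat_lit 228) (nat_lit 47536564954) (nat_lit 16) (nat_lit 5) (nat_lit 18) (nat_lit 5) (nat_lit 19) (nat_lit 5) (nat_lit 316) (nat_lit 267) (nat_lit 137)) (XT.lf (nat_lit 0) (nat_lit 27337079799) (nat_lit 152) (nat_lit 7715944741) (nat_lit 228) (nat_lit 39794228916) (nat_lit 16) (nat_lit 5) (nat_lit 18) (nat_lit 5) (nat_lit 19) (nat_lit 5) (nat_lit 317) (nat_lit 267) (nat_lit 136))))))))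
noncomputable def xc191 : XT := (XT.nd (nat_lit 1404) (nat_lit 228) (nat_lit 0) (XT.nd (nat_lit 702) (nat_lit 228) (nat_lit 0) (XT.nd (nat_lit 312) (nat_lit 304) (nat_lit 0) (XT.nd (nat_lit 156) (nat_lit 0) (nat_lit 0) (XT.nd (nat_lit 78) (nat_lit 76) (nat_lit 0) (XT.lf (nat_lit 0) (nat_lit 46266858498) (nat_lit 228) (nat_lit 24163899914) (nat_lit 76) (nat_lit 7378524411) (nat_lit 16) (nat_lit 5) (nat_lit 19) (nat_lit 5) (nat_lit 17) (nat_lit 4) (nat_lit 318) (nat_lit 267) (nat_lit 135)) (XT.lf (nat_lit 0) (nat_lit 226485460) (nat_lit 76) (nat_lit 57942540960) (nat_lit 152) (nat_lit 22744008769) (nat_lit 15) (nat_lit 5) (nat_lit 16) (nat_lit 5) (nat_lit 17) (nat_lit 4) (nat_lit 319) (nat_lit 267) (nat_lit 134))) (XT.nd (nat_lit 78) (nat_lit 0) (nat_lit 0) (XT.lf (nat_lit 0) (nat_lit 26671409913) (nat_lit 76) (nat_lit 44401788188) (nat_lit 152) (nat_lit 13078435775) (nat_lit 15) (nat_lit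 5) (nat_lit 16) (nat_lit 5) (nat_lit 17) (nat_lit 4) (nat_lit 320) (nat_lit 267) (nat_lit 133)) (XT.lf (nat_lit 0) (nat_lit 54434869889) (nat_lit 76) (nat_lit 30185487546) (nat_lit 152) (nat_lit 2931919412) (nat_lit 15) (nat_lit 5) (nat_lit 16) (nat_lit 5) (nat_lit 17) (nat_lit 4) (nat_lit 321) (nat_lit 267) (nat_lit 132)))) (XT.nd (nat_lit 156) (nat_lit 76) (nat_lit 0) (XT.nd (nat_lit 78) (nat_lit 152) (nat_lit 0) (XT.lf (nat_lit 0) (nat_lit 7472620122) (nat_lit 152) (nat_lit 7660618138) (nat_lit 76) (nat_lit 75983796304) (nat_lit 14) (nat_lit 5) (nat_lit 16) (nat_lit 5) (nat_lit 15) (nat_lit 5) (nat_lit 322) (nat_lit 267) (nat_lit 131)) (XT.lf (nat_lit 0) (nat_lit 18619819218) (nat_lit 228) (nat_lit 75212362024) (nat_lit 76) (nat_lit 1009400354) (nat_lit 12) (nat_lit 5) (nat_lit 15) (nat_lit 5) (nat_lit 13) (nat_lit 4) (nat_lit 323) (nat_lit 267) (nat_lit 130))) (XT.nd (nat_lit 78)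 (nat_lit 76) (nat_lit 0) (XT.lf (nat_lit 0) (nat_lit 30702300243) (nat_lit 228) (nat_lit 50450035788) (nat_lit 76) (nat_lit 17581126569) (nat_lit 12) (nat_lit 5) (nat_lit 15) (nat_lit 5) (nat_lit 13) (nat_lit 4) (nat_lit 324) (nat_lit 267) (nat_lit 129)) (XT.nd (nat_lit 78) (nat_lit 76) (nat_lit 0) (XT.lf (nat_lit 0) (nat_lit 43386974847) (nat_lit 228) (nat_lit 24452890818) (nat_lit 76) (nat_lit 34980171101) (nat_lit 12) (nat_lit 5) (nat_lit 15) (nat_lit 5) (nat_lit 13) (nat_lit 4) (nat_lit 325) (nat_lit 267) (nat_lit 128)) (XT.lf (nat_lit 0) (nat_lit 2934906174) (nat_lit 76) (nat_lit 53814960570) (nat_lit 152) (nat_lit 50358876184) (nat_lit 11) (nat_lit 5) (nat_lit 12) (nat_lit 5) (nat_lit 13) (nat_lit 4) (nat_lit 326) (nat_lit 267) (nat_lit 127)))))) (XT.nd (nat_lit 312) (nat_lit 152) (nat_lit 0) (XT.nd (nat_lit 156) (nat_lit 76) (nat_lit 0) (XT.nd (nat_lit 78) (nat_lit 0) (nat_lit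 0) (XT.lf (nat_lit 0) (nat_lit 32537952272) (nat_lit 76) (nat_lit 38655273264) (nat_lit 152) (nat_lit 40398045096) (nat_lit 11) (nat_lit 5) (nat_lit 12) (nat_lit 5) (nat_lit 13) (nat_lit 4) (nat_lit 327) (nat_lit 267) (nat_lit 126)) (XT.lf (nat_lit 0) (nat_lit 63618207916) (nat_lit 76) (nat_lit 22738830791) (nat_lit 152) (nat_lit 29940973927) (nat_lit 11) (nat_lit 5) (nat_lit 12) (nat_lit 5) (nat_lit 13) (nat_lit 4) (nat_lit 328) (nat_lit 267) (nat_lit 125))) (XT.nd (nat_lit 78) (nat_lit 76) (nat_lit 0) (XT.lf (nat_lit 0) (nat_lit 96249673715) (nat_lit 76) (nat_lit 6027736861) (nat_lit 152) (nat_lit 18962764891) (nat_lit 11) (nat_lit 5) (nat_lit 12) (nat_lit 5) (nat_lit 13) (nat_lit 4) (nat_lit 329) (nat_lit 267) (nat_lit 124)) (XT.lf (nat_lit 0) (nat_lit 4029666868) (nat_lit 76) (nat_lit 115205319400) (nat_lit 76) (nat_lit 7182402940) (nat_lit 10) (nat_lit 4) (nat_lit 11) (nat_lit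 5) (nat_lit 11) (nat_lit 4) (nat_lit 330) (nat_lit 267) (nat_lit 123)))) (XT.nd (nat_lit 156) (nat_lit 76) (nat_lit 0) (XT.nd (nat_lit 78) (nat_lit 0) (nat_lit 0) (XT.lf (nat_lit 0) (nat_lit 5548375310) (nat_lit 152) (nat_lit 96653322417) (nat_lit 76) (nat_lit 29621347894) (nat_lit 9) (nat_lit 5) (nat_lit 11) (nat_lit 5) (nat_lit 10) (nat_lit 4) (nat_lit 331) (nat_lit 267) (nat_lit 122)) (XT.lf (nat_lit 0) (nat_lit 18672825331) (nat_lit 152) (nat_lit 69752557343) (nat_lit 76) (nat_lit 49067791282) (nat_lit 9) (nat_lit 5) (nat_lit 11) (nat_lit 5) (nat_lit 10) (nat_lit 4) (nat_lit 332) (nat_lit 267) (nat_lit 121))) (XT.nd (nat_lit 78) (nat_lit 76) (nat_lit 0) (XT.lf (nat_lit 0) (nat_lit 32452077562) (nat_lit 152) (nat_lit 41509240239) (nat_lit 76) (nat_lit 69485563589) (nat_lit 9) (nat_lit 5) (nat_lit 11) (nat_lit 5) (nat_lit 10) (nat_lit 4) (nat_lit 333) (nat_lit 267) (nat_lit 120))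 (XT.nd (nat_lit 78) (nat_lit 76) (nat_lit 0) (XT.lf (nat_lit 0) (nat_lit 46918939748) (nat_lit 152) (nat_lit 11856125112) (nat_lit 76) (nat_lit 90923278560) (nat_lit 9) (nat_lit 5) (nat_lit 11) (nat_lit 5) (nat_lit 10) (nat_lit 4) (nat_lit 334) (nat_lit 267) (nat_lit 119)) (XT.lf (nat_lit 0) (nat_lit 19914788287) (nat_lit 76) (nat_lit 42503994166) (nat_lit 152) (nat_lit 93828115742) (nat_lit 8) (nat_lit 5) (nat_lit 9) (nat_lit 5) (nat_lit 10) (nat_lit 4) (nat_lit 335) (nat_lit 267) (nat_lit 118))))))) (XT.nd (nat_lit 702) (nat_lit 76) (nat_lit 0) (XT.nd (nat_lit 312) (nat_lit 152) (nat_lit 0) (XT.nd (nat_lit 156) (nat_lit 0) (nat_lit 0) (XT.nd (nat_lit 78) (nat_lit 0) (nat_lit 0) (XT.lf (nat_lit 0) (nat_lit 53683646542) (nat_lit 76) (nat_lit 25209498426) (nat_lit 152) (nat_lit 84219760798) (nat_lit 8) (nat_lit 5) (nat_lit 9) (nat_lit 5) (nat_lit 10) (nat_lit 4) (nat_lit 336) (nat_lit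 267) (nat_lit 117)) (XT.lf (nat_lit 0) (nat_lit 89138834657) (nat_lit 76) (nat_lit 7051189485) (nat_lit 152) (nat_lit 74132251020) (nat_lit 8) (nat_lit 5) (nat_lit 9) (nat_lit 5) (nat_lit 10) (nat_lit 4) (nat_lit 337) (nat_lit 267) (nat_lit 116))) (XT.nd (nat_lit 78) (nat_lit 0) (nat_lit 0) (XT.lf (nat_lit 0) (nat_lit 114538177832) (nat_lit 152) (nat_lit 51714976616) (nat_lit 0) (nat_lit 11629638360) (nat_lit 8) (nat_lit 5) (nat_lit 10) (nat_lit 4) (nat_lit 8) (nat_lit 4) (nat_lit 338) (nat_lit 267) (nat_lit 115)) (XT.lf (nat_lit 0) (nat_lit 133918229801) (nat_lit 152) (nat_lit 20890642228) (nat_lit 0) (nat_lit 31006741022) (nat_lit 8) (nat_lit 5) (nat_lit 10) (nat_lit 4) (nat_lit 8) (nat_lit 4) (nat_lit 339) (nat_lit 267) (nat_lit 114)))) (XT.nd (nat_lit 156) (nat_lit 76) (nat_lit 0) (XT.nd (nat_lit 78) (nat_lit 0) (nat_lit 0) (XT.lf (nat_lit 0) (nat_lit 11852393365) (nat_lit 76) (nat_lit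 142598889913) (nat_lit 76) (nat_lit 39684592270) (nat_lit 7) (nat_lit 4) (nat_lit 8) (nat_lit 5) (nat_lit 8) (nat_lit 4) (nat_lit 340) (nat_lit 267) (nat_lit 113)) (XT.lf (nat_lit 0) (nat_lit 46956020643) (nat_lit 76) (nat_lit 129407733096) (nat_lit 76) (nat_lit 26490760345) (nat_lit 7) (nat_lit 4) (nat_lit 8) (nat_lit 5) (nat_lit 8) (nat_lit 4) (nat_lit 341) (nat_lit 267) (nat_lit 112))) (XT.nd (nat_lit 78) (nat_lit 76) (nat_lit 0) (XT.lf (nat_lit 0) (nat_lit 83813080692) (nat_lit 76) (nat_lit 115557787197) (nat_lit 76) (nat_lit 12638266724) (nat_lit 7) (nat_lit 4) (nat_lit 8) (nat_lit 5) (nat_lit 8) (nat_lit 4) (nat_lit 342) (nat_lit 267) (nat_lit 111)) (XT.nd (nat_lit 78) (nat_lit 0) (nat_lit 0) (XT.lf (nat_lit 0) (nat_lit 1844870954) (nat_lit 152) (nat_lit 99139961419) (nat_lit 76) (nat_lit 120635213682) (nat_lit 6) (nat_lit 5) (nat_lit 8) (nat_lit 5) (nat_lit 7) (nat_lit 4) (nat_lit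 343) (nat_lit 267) (nat_lit 110)) (XT.lf (nat_lit 0) (nat_lit 16626532629) (nat_lit 152) (nat_lit 68839865843) (nat_lit 76) (nat_lit 146234791502) (nat_lit 6) (nat_lit 5) (nat_lit 8) (nat_lit 5) (nat_lit 7) (nat_lit 4) (nat_lit 344) (nat_lit 267) (nat_lit 109)))))) (XT.nd (nat_lit 312) (nat_lit 0) (nat_lit 0) (XT.nd (nat_lit 156) (nat_lit 76) (nat_lit 0) (XT.nd (nat_lit 78) (nat_lit 0) (nat_lit 0) (XT.lf (nat_lit 0) (nat_lit 32146416196) (nat_lit 152) (nat_lit 37026305349) (nat_lit 76) (nat_lit 173113713490) (nat_lit 6) (nat_lit 5) (nat_lit 8) (nat_lit 5) (nat_lit 7) (nat_lit 4) (nat_lit 345) (nat_lit 267) (nat_lit 108)) (XT.lf (nat_lit 0) (nat_lit 48441473759) (nat_lit 152) (nat_lit 3623533362) (nat_lit 76) (nat_lit 201335977079) (nat_lit 6) (nat_lit 5) (nat_lit 8) (nat_lit 5) (nat_lit 7) (nat_lit 4) (nat_lit 346) (nat_lit 267) (nat_lit 107))) (XT.nd (nat_lit 78) (nat_lit 0) (nat_lit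 0) (XT.lf (nat_lit 0) (nat_lit 32487792784) (nat_lit 76) (nat_lit 33569935782) (nat_lit 152) (nat_lit 198988210843) (nat_lit 5) (nat_lit 5) (nat_lit 6) (nat_lit 5) (nat_lit 7) (nat_lit 4) (nat_lit 347) (nat_lit 267) (nat_lit 106)) (XT.lf (nat_lit 0) (nat_lit 70529111964) (nat_lit 76) (nat_lit 14086285055) (nat_lit 152) (nat_lit 192654716077) (nat_lit 5) (nat_lit 5) (nat_lit 6) (nat_lit 5) (nat_lit 7) (nat_lit 4) (nat_lit 348) (nat_lit 267) (nat_lit 105)))) (XT.nd (nat_lit 156) (nat_lit 0) (nat_lit 0) (XT.nd (nat_lit 78) (nat_lit 0) (nat_lit 0) (XT.lf (nat_lit 0) (nat_lit 104199688629) (nat_lit 152) (nat_lit 179733812947) (nat_lit 0) (nat_lit 6167057634) (nat_lit 5) (nat_lit 5) (nat_lit 7) (nat_lit 4) (nat_lit 5) (nat_lit 4) (nat_lit 349) (nat_lit 267) (nat_lit 104)) (XT.lf (nat_lit 0) (nat_lit 124993414678) (nat_lit 152) (nat_lit 151608461254) (nat_lit 0) (nat_lit 26959141398) (nat_lit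 5) (nat_lit 5) (nat_lit 7) (nat_lit 4) (nat_lit 5) (nat_lit 4) (nat_lit 350) (nat_lit 267) (nat_lit 103))) (XT.nd (nat_lit 234) (nat_lit 0) (nat_lit 0) (XT.lf (nat_lit 0) (nat_lit 146826157650) (nat_lit 152) (nat_lit 122078054546) (nat_lit 0) (nat_lit 48790320290) (nat_lit 5) (nat_lit 5) (nat_lit 7) (nat_lit 4) (nat_lit 5) (nat_lit 4) (nat_lit 351) (nat_lit 267) (nat_lit 102)) (XT.nd (nat_lit 30810) (nat_lit 0) (nat_lit 5092) (XT.lf (nat_lit 0) (nat_lit 219091433368) (nat_lit 152) (nat_lit 24335659756) (nat_lit 0) (nat_lit 121051336629) (nat_lit 5) (nat_lit 5) (nat_lit 7) (nat_lit 4) (nat_lit 5) (nat_lit 4) (nat_lit 354) (nat_lit 267) (nat_lit 99)) (XT.lf (nat_lit 0) (nat_lit 1084491882) (nat_lit 0) (nat_lit 1084491882) (nat_lit 684) (nat_lit 5961254045) (nat_lit 72) (nat_lit 5) (nat_lit 72) (nat_lit 3) (nat_lit 81) (nat_lit 3) (nat_lit 268) (nat_lit 268) (nat_lit 184))))))))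
noncomputable def xc192 : XT := (XT.nd (nat_lit 1326) (nat_lit 2128) (nat_lit 0) (XT.nd (nat_lit 624) (nat_lit 1140) (nat_lit 0) (XT.nd (nat_lit 312) (nat_lit 0) (nat_lit 76) (XT.nd (nat_lit 156) (nat_lit 0) (nat_lit 76) (XT.nd (nat_lit 78) (nat_lit 0) (nat_lit 0) (XT.lf (nat_lit 0) (nat_lit 4753122663) (nat_lit 684) (nat_lit 7219495038) (nat_lit 760) (nat_lit 4678278969) (nat_lit 72) (nat_lit 5) (nat_lit 81) (nat_lit 3) (nat_lit 82) (nat_lit 5) (nat_lit 269) (nat_lit 268) (nat_lit 183)) (XT.lf (nat_lit 0) (nat_lit 5209905345) (nat_lit 684) (nat_lit 47760996) (nat_lit 760) (nat_lit 11802177310) (nat_lit 72) (nat_lit 5) (nat_lit 81) (nat_lit 3) (nat_lit 82) (nat_lit 5) (nat_lit 270) (nat_lit 268) (nat_lit 182))) (XT.nd (nat_lit 78) (nat_lit 0) (nat_lit 0) (XT.lf (nat_lit 0) (nat_lit 5826163635) (nat_lit 684) (nat_lit 9792225604) (nat_lit 760) (nat_lit 1864062977) (nat_lit 73) (nat_lit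 5) (nat_lit 82) (nat_lit 5) (nat_lit 83) (nat_lit 5) (nat_lit 271) (nat_lit 268) (nat_lit 181)) (XT.lf (nat_lit 0) (nat_lit 6546893251) (nat_lit 684) (nat_lit 2204170364) (nat_lit 760) (nat_lit 9171488542) (nat_lit 73) (nat_lit 5) (nat_lit 82) (nat_lit 5) (nat_lit 83) (nat_lit 5) (nat_lit 272) (nat_lit 268) (nat_lit 180)))) (XT.nd (nat_lit 156) (nat_lit 0) (nat_lit 76) (XT.nd (nat_lit 78) (nat_lit 0) (nat_lit 76) (XT.lf (nat_lit 76) (nat_lit 5945399612) (nat_lit 0) (nat_lit 1438365080) (nat_lit 760) (nat_lit 10996928914) (nat_lit 74) (nat_lit 5) (nat_lit 73) (nat_lit 5) (nat_lit 83) (nat_lit 5) (nat_lit 273) (nat_lit 268) (nat_lit 179)) (XT.lf (nat_lit 0) (nat_lit 8385670242) (nat_lit 684) (nat_lit 4387702370) (nat_lit 760) (nat_lit 6082249779) (nat_lit 74) (nat_lit 5) (nat_lit 83) (nat_lit 5) (nat_lit 84) (nat_lit 5) (nat_lit 274) (nat_lit 268) (nat_lit 178))) (XT.nd (nat_lit 78) (nat_lit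 0) (nat_lit 76) (XT.lf (nat_lit 76) (nat_lit 4163604481) (nat_lit 0) (nat_lit 5351058070) (nat_lit 760) (nat_lit 9835823384) (nat_lit 75) (nat_lit 5) (nat_lit 74) (nat_lit 5) (nat_lit 84) (nat_lit 5) (nat_lit 275) (nat_lit 268) (nat_lit 177)) (XT.lf (nat_lit 0) (nat_lit 10802639047) (nat_lit 684) (nat_lit 6619772016) (nat_lit 760) (nat_lit 2442590955) (nat_lit 75) (nat_lit 5) (nat_lit 84) (nat_lit 5) (nat_lit 85) (nat_lit 5) (nat_lit 276) (nat_lit 268) (nat_lit 176))))) (XT.nd (nat_lit 312) (nat_lit 760) (nat_lit 0) (XT.nd (nat_lit 156) (nat_lit 608) (nat_lit 0) (XT.nd (nat_lit 78) (nat_lit 0) (nat_lit 0) (XT.lf (nat_lit 76) (nat_lit 2354911939) (nat_lit 0) (nat_lit 9913997438) (nat_lit 760) (nat_lit 8130674149) (nat_lit 76) (nat_lit 5) (nat_lit 75) (nat_lit 5) (nat_lit 85) (nat_lit 5) (nat_lit 277) (nat_lit 268) (nat_lit 175)) (XT.lf (nat_lit 76) (nat_lit 11999859024) (nat_lit 0) (nat_lit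 1910524188) (nat_lit 760) (nat_lit 7045449132) (nat_lit 76) (nat_lit 5) (nat_lit 75) (nat_lit 5) (nat_lit 85) (nat_lit 5) (nat_lit 278) (nat_lit 268) (nat_lit 174))) (XT.nd (nat_lit 78) (nat_lit 0) (nat_lit 0) (XT.lf (nat_lit 0) (nat_lit 493120930) (nat_lit 684) (nat_lit 15240180835) (nat_lit 760) (nat_lit 5801654463) (nat_lit 67) (nat_lit 5) (nat_lit 76) (nat_lit 5) (nat_lit 77) (nat_lit 5) (nat_lit 279) (nat_lit 268) (nat_lit 173)) (XT.lf (nat_lit 0) (nat_lit 10684935604) (nat_lit 684) (nat_lit 7135547821) (nat_lit 760) (nat_lit 4313926713) (nat_lit 67) (nat_lit 5) (nat_lit 76) (nat_lit 5) (nat_lit 77) (nat_lit 5) (nat_lit 280) (nat_lit 268) (nat_lit 172)))) (XT.nd (nat_lit 156) (nat_lit 456) (nat_lit 0) (XT.nd (nat_lit 78) (nat_lit 304) (nat_lit 0) (XT.lf (nat_lit 0) (nat_lit 20024571684) (nat_lit 760) (nat_lit 1407357099) (nat_lit 76) (nat_lit 1331308863) (nat_lit 67) (nat_lit 5)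 (nat_lit 77) (nat_lit 5) (nat_lit 68) (nat_lit 5) (nat_lit 281) (nat_lit 268) (nat_lit 171)) (XT.lf (nat_lit 0) (nat_lit 9309859440) (nat_lit 304) (nat_lit 13282848941) (nat_lit 380) (nat_lit 818132879) (nat_lit 63) (nat_lit 5) (nat_lit 67) (nat_lit 5) (nat_lit 68) (nat_lit 5) (nat_lit 282) (nat_lit 268) (nat_lit 170))) (XT.nd (nat_lit 78) (nat_lit 380) (nat_lit 0) (XT.lf (nat_lit 0) (nat_lit 1175931332) (nat_lit 380) (nat_lit 3505113875) (nat_lit 76) (nat_lit 19408075652) (nat_lit 62) (nat_lit 5) (nat_lit 67) (nat_lit 5) (nat_lit 63) (nat_lit 5) (nat_lit 283) (nat_lit 268) (nat_lit 169)) (XT.nd (nat_lit 78) (nat_lit 0) (nat_lit 0) (XT.lf (nat_lit 0) (nat_lit 3426970083) (nat_lit 456) (nat_lit 17014480292) (nat_lit 76) (nat_lit 4349978429) (nat_lit 57) (nat_lit 5) (nat_lit 63) (nat_lit 5) (nat_lit 58) (nat_lit 5) (nat_lit 284) (nat_lit 268) (nat_lit 168)) (XT.lf (nat_lit 0) (nat_lit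 5919928390) (nat_lit 456) (nat_lit 5866861287) (nat_lit 76) (nat_lit 13735616244) (nat_lit 57) (nat_lit 5) (nat_lit 63) (nat_lit 5) (nat_lit 58) (nat_lit 5) (nat_lit 285) (nat_lit 268) (nat_lit 167))))))) (XT.nd (nat_lit 702) (nat_lit 912) (nat_lit 0) (XT.nd (nat_lit 312) (nat_lit 608) (nat_lit 0) (XT.nd (nat_lit 156) (nat_lit 304) (nat_lit 0) (XT.nd (nat_lit 78) (nat_lit 0) (nat_lit 0) (XT.lf (nat_lit 0) (nat_lit 6023234781) (nat_lit 304) (nat_lit 2601001545) (nat_lit 380) (nat_lit 17661381583) (nat_lit 53) (nat_lit 5) (nat_lit 57) (nat_lit 5) (nat_lit 58) (nat_lit 5) (nat_lit 286) (nat_lit 268) (nat_lit 166)) (XT.lf (nat_lit 0) (nat_lit 11667610799) (nat_lit 380) (nat_lit 8490038738) (nat_lit 76) (nat_lit 6919168501) (nat_lit 53) (nat_lit 5) (nat_lit 58) (nat_lit 5) (nat_lit 54) (nat_lit 5) (nat_lit 287) (nat_lit 268) (nat_lit 165))) (XT.nd (nat_lit 78) (nat_lit 0) (nat_lit 0) (XT.lf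 (nat_lit 0) (nat_lit 3947062351) (nat_lit 304) (nat_lit 11013580874) (nat_lit 380) (nat_lit 12942079625) (nat_lit 49) (nat_lit 5) (nat_lit 53) (nat_lit 5) (nat_lit 54) (nat_lit 5) (nat_lit 288) (nat_lit 268) (nat_lit 164)) (XT.lf (nat_lit 0) (nat_lit 17293343475) (nat_lit 304) (nat_lit 1262198476) (nat_lit 380) (nat_lit 10207538444) (nat_lit 49) (nat_lit 5) (nat_lit 53) (nat_lit 5) (nat_lit 54) (nat_lit 5) (nat_lit 289) (nat_lit 268) (nat_lit 163)))) (XT.nd (nat_lit 156) (nat_lit 380) (nat_lit 0) (XT.nd (nat_lit 78) (nat_lit 0) (nat_lit 0) (XT.lf (nat_lit 0) (nat_lit 1542300302) (nat_lit 228) (nat_lit 20945848939) (nat_lit 304) (nat_lit 7170425756) (nat_lit 46) (nat_lit 5) (nat_lit 49) (nat_lit 5) (nat_lit 50) (nat_lit 5) (nat_lit 290) (nat_lit 268) (nat_lit 162)) (XT.lf (nat_lit 0) (nat_lit 15574492557) (nat_lit 228) (nat_lit 11251414565) (nat_lit 304) (nat_lit 3762527729) (nat_lit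 46) (nat_lit 5) (nat_lit 49) (nat_lit 5) (nat_lit 50) (nat_lit 5) (nat_lit 291) (nat_lit 268) (nat_lit 161))) (XT.nd (nat_lit 78) (nat_lit 380) (nat_lit 0) (XT.lf (nat_lit 0) (nat_lit 30301366564) (nat_lit 228) (nat_lit 1073392658) (nat_lit 304) (nat_lit 190333905) (nat_lit 46) (nat_lit 5) (nat_lit 49) (nat_lit 5) (nat_lit 50) (nat_lit 5) (nat_lit 292) (nat_lit 268) (nat_lit 160)) (XT.nd (nat_lit 78) (nat_lit 0) (nat_lit 0) (XT.lf (nat_lit 0) (nat_lit 3806821157) (nat_lit 380) (nat_lit 19186838328) (nat_lit 76) (nat_lit 9576144228) (nat_lit 41) (nat_lit 5) (nat_lit 46) (nat_lit 5) (nat_lit 42) (nat_lit 5) (nat_lit 293) (nat_lit 268) (nat_lit 159)) (XT.lf (nat_lit 0) (nat_lit 8031308154) (nat_lit 380) (nat_lit 4845837646) (nat_lit 76) (nat_lit 20745768087) (nat_lit 41) (nat_lit 5) (nat_lit 46) (nat_lit 5) (nat_lit 42) (nat_lit 5) (nat_lit 294) (nat_lit 268) (nat_lit 158)))))) (XT.nd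 (nat_lit 312) (nat_lit 456) (nat_lit 0) (XT.nd (nat_lit 156) (nat_lit 228) (nat_lit 0) (XT.nd (nat_lit 78) (nat_lit 0) (nat_lit 0) (XT.lf (nat_lit 0) (nat_lit 10543031251) (nat_lit 228) (nat_lit 2083376780) (nat_lit 304) (nat_lit 22094315066) (nat_lit 38) (nat_lit 5) (nat_lit 41) (nat_lit 5) (nat_lit 42) (nat_lit 5) (nat_lit 295) (nat_lit 268) (nat_lit 157)) (XT.lf (nat_lit 0) (nat_lit 17674000923) (nat_lit 304) (nat_lit 9152265454) (nat_lit 76) (nat_lit 9036031827) (nat_lit 38) (nat_lit 5) (nat_lit 42) (nat_lit 5) (nat_lit 39) (nat_lit 5) (nat_lit 296) (nat_lit 268) (nat_lit 156))) (XT.nd (nat_lit 78) (nat_lit 0) (nat_lit 0) (XT.lf (nat_lit 0) (nat_lit 6801530849) (nat_lit 228) (nat_lit 16307936218) (nat_lit 304) (nat_lit 13944722068) (nat_lit 35) (nat_lit 5) (nat_lit 38) (nat_lit 5) (nat_lit 39) (nat_lit 5) (nat_lit 297) (nat_lit 268) (nat_lit 155)) (XT.lf (nat_lit 0) (nat_lit 23864427659)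 (nat_lit 228) (nat_lit 5102557926) (nat_lit 304) (nat_lit 9331186265) (nat_lit 35) (nat_lit 5) (nat_lit 38) (nat_lit 5) (nat_lit 39) (nat_lit 5) (nat_lit 298) (nat_lit 268) (nat_lit 154)))) (XT.nd (nat_lit 156) (nat_lit 228) (nat_lit 0) (XT.nd (nat_lit 78) (nat_lit 76) (nat_lit 0) (XT.lf (nat_lit 0) (nat_lit 2134147195) (nat_lit 152) (nat_lit 33116064054) (nat_lit 228) (nat_lit 4347511548) (nat_lit 33) (nat_lit 5) (nat_lit 35) (nat_lit 5) (nat_lit 36) (nat_lit 5) (nat_lit 299) (nat_lit 268) (nat_lit 153)) (XT.lf (nat_lit 0) (nat_lit 1184627449) (nat_lit 228) (nat_lit 21026269561) (nat_lit 76) (nat_lit 18734291953) (nat_lit 32) (nat_lit 5) (nat_lit 35) (nat_lit 5) (nat_lit 33) (nat_lit 5) (nat_lit 300) (nat_lit 268) (nat_lit 152))) (XT.nd (nat_lit 78) (nat_lit 228) (nat_lit 0) (XT.lf (nat_lit 0) (nat_lit 6843000873) (nat_lit 228) (nat_lit 3844370858) (nat_lit 76) (nat_lit 31669315759)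 (nat_lit 32) (nat_lit 5) (nat_lit 35) (nat_lit 5) (nat_lit 33) (nat_lit 5) (nat_lit 301) (nat_lit 268) (nat_lit 151)) (XT.nd (nat_lit 78) (nat_lit 0) (nat_lit 0) (XT.lf (nat_lit 0) (nat_lit 13034891012) (nat_lit 304) (nat_lit 29193183427) (nat_lit 76) (nat_lit 1598165371) (nat_lit 29) (nat_lit 5) (nat_lit 33) (nat_lit 5) (nat_lit 30) (nat_lit 5) (nat_lit 302) (nat_lit 268) (nat_lit 150)) (XT.lf (nat_lit 0) (nat_lit 19773767400) (nat_lit 304) (nat_lit 11380265939) (nat_lit 76) (nat_lit 14203375169) (nat_lit 29) (nat_lit 5) (nat_lit 33) (nat_lit 5) (nat_lit 30) (nat_lit 5) (nat_lit 303) (nat_lit 268) (nat_lit 149))))))))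
noncomputable def xc193 : XT := (XT.nd (nat_lit 1326) (nat_lit 532) (nat_lit 0) (XT.nd (nat_lit 624) (nat_lit 532) (nat_lit 0) (XT.nd (nat_lit 312) (nat_lit 228) (nat_lit 0) (XT.nd (nat_lit 156) (nat_lit 152) (nat_lit 0) (XT.nd (nat_lit 78) (nat_lit 0) (nat_lit 0) (XT.lf (nat_lit 0) (nat_lit 7559728083) (nat_lit 152) (nat_lit 19404093142) (nat_lit 228) (nat_lit 19995610689) (nat_lit 27) (nat_lit 5) (nat_lit 29) (nat_lit 5) (nat_lit 30) (nat_lit 5) (nat_lit 304) (nat_lit 268) (nat_lit 148)) (XT.lf (nat_lit 0) (nat_lit 27836380254) (nat_lit 152) (nat_lit 6866028671) (nat_lit 228) (nat_lit 13929703580) (nat_lit 27) (nat_lit 5) (nat_lit 29) (nat_lit 5) (nat_lit 30) (nat_lit 5) (nat_lit 305) (nat_lit 268) (nat_lit 147))) (XT.nd (nat_lit 78) (nat_lit 152) (nat_lit 0) (XT.lf (nat_lit 0) (nat_lit 42922721258) (nat_lit 228) (nat_lit 1365243382) (nat_lit 76) (nat_lit 6095729935) (nat_lit 27)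 (nat_lit 5) (nat_lit 30) (nat_lit 5) (nat_lit 28) (nat_lit 5) (nat_lit 306) (nat_lit 268) (nat_lit 146)) (XT.lf (nat_lit 0) (nat_lit 19544680881) (nat_lit 152) (nat_lit 32423693565) (nat_lit 228) (nat_lit 233771913) (nat_lit 25) (nat_lit 5) (nat_lit 27) (nat_lit 5) (nat_lit 28) (nat_lit 5) (nat_lit 307) (nat_lit 268) (nat_lit 145)))) (XT.nd (nat_lit 156) (nat_lit 0) (nat_lit 0) (XT.nd (nat_lit 78) (nat_lit 152) (nat_lit 0) (XT.lf (nat_lit 0) (nat_lit 7139533086) (nat_lit 228) (nat_lit 12683191367) (nat_lit 76) (nat_lit 34282053928) (nat_lit 24) (nat_lit 5) (nat_lit 27) (nat_lit 5) (nat_lit 25) (nat_lit 5) (nat_lit 308) (nat_lit 268) (nat_lit 144)) (XT.lf (nat_lit 0) (nat_lit 8554899766) (nat_lit 152) (nat_lit 6449115768) (nat_lit 228) (nat_lit 41091822368) (nat_lit 22) (nat_lit 5) (nat_lit 24) (nat_lit 5) (nat_lit 25) (nat_lit 5) (nat_lit 309) (nat_lit 268) (nat_lit 143))) (XT.nd (nat_lit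 78) (nat_lit 0) (nat_lit 0) (XT.lf (nat_lit 0) (nat_lit 23595443773) (nat_lit 228) (nat_lit 27007486784) (nat_lit 76) (nat_lit 7566839408) (nat_lit 22) (nat_lit 5) (nat_lit 25) (nat_lit 5) (nat_lit 23) (nat_lit 5) (nat_lit 310) (nat_lit 268) (nat_lit 142)) (XT.lf (nat_lit 0) (nat_lit 32719170180) (nat_lit 228) (nat_lit 5557782689) (nat_lit 76) (nat_lit 22065314806) (nat_lit 22) (nat_lit 5) (nat_lit 25) (nat_lit 5) (nat_lit 23) (nat_lit 5) (nat_lit 311) (nat_lit 268) (nat_lit 141))))) (XT.nd (nat_lit 312) (nat_lit 228) (nat_lit 0) (XT.nd (nat_lit 156) (nat_lit 152) (nat_lit 0) (XT.nd (nat_lit 78) (nat_lit 0) (nat_lit 0) (XT.lf (nat_lit 0) (nat_lit 17520705642) (nat_lit 152) (nat_lit 25049070819) (nat_lit 228) (nat_lit 20040084261) (nat_lit 20) (nat_lit 5) (nat_lit 22) (nat_lit 5) (nat_lit 23) (nat_lit 5) (nat_lit 312) (nat_lit 268) (nat_lit 140)) (XT.lf (nat_lit 0) (nat_lit 41941671233)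 (nat_lit 152) (nat_lit 11062578981) (nat_lit 228) (nat_lit 11982021231) (nat_lit 20) (nat_lit 5) (nat_lit 22) (nat_lit 5) (nat_lit 23) (nat_lit 5) (nat_lit 313) (nat_lit 268) (nat_lit 139))) (XT.nd (nat_lit 78) (nat_lit 76) (nat_lit 0) (XT.lf (nat_lit 0) (nat_lit 42674767) (nat_lit 76) (nat_lit 63972330163) (nat_lit 152) (nat_lit 3463774559) (nat_lit 19) (nat_lit 5) (nat_lit 20) (nat_lit 5) (nat_lit 21) (nat_lit 4) (nat_lit 314) (nat_lit 268) (nat_lit 138)) (XT.lf (nat_lit 0) (nat_lit 5880337346) (nat_lit 152) (nat_lit 45269672654) (nat_lit 76) (nat_lit 18912860975) (nat_lit 18) (nat_lit 5) (nat_lit 20) (nat_lit 5) (nat_lit 19) (nat_lit 5) (nat_lit 315) (nat_lit 268) (nat_lit 137)))) (XT.nd (nat_lit 156) (nat_lit 76) (nat_lit 0) (XT.nd (nat_lit 78) (nat_lit 152) (nat_lit 0) (XT.lf (nat_lit 0) (nat_lit 15572712477) (nat_lit 152) (nat_lit 22055823564) (nat_lit 76) (nat_lit 35144922692)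 (nat_lit 18) (nat_lit 5) (nat_lit 20) (nat_lit 5) (nat_lit 19) (nat_lit 5) (nat_lit 316) (nat_lit 268) (nat_lit 136)) (XT.lf (nat_lit 0) (nat_lit 2391330350) (nat_lit 152) (nat_lit 23393295354) (nat_lit 228) (nat_lit 49833208034) (nat_lit 16) (nat_lit 5) (nat_lit 18) (nat_lit 5) (nat_lit 19) (nat_lit 5) (nat_lit 317) (nat_lit 268) (nat_lit 135))) (XT.nd (nat_lit 78) (nat_lit 76) (nat_lit 0) (XT.lf (nat_lit 0) (nat_lit 28822708523) (nat_lit 152) (nat_lit 8055590838) (nat_lit 228) (nat_lit 41707573536) (nat_lit 16) (nat_lit 5) (nat_lit 18) (nat_lit 5) (nat_lit 19) (nat_lit 5) (nat_lit 318) (nat_lit 268) (nat_lit 134)) (XT.nd (nat_lit 78) (nat_lit 76) (nat_lit 0) (XT.lf (nat_lit 0) (nat_lit 48650052988) (nat_lit 228) (nat_lit 25256097370) (nat_lit 76) (nat_lit 7789997313) (nat_lit 16) (nat_lit 5) (nat_lit 19) (nat_lit 5) (nat_lit 17) (nat_lit 4) (nat_lit 319) (nat_lit 268) (nat_lit 133))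 (XT.lf (nat_lit 0) (nat_lit 351936346) (nat_lit 76) (nat_lit 60793848532) (nat_lit 152) (nat_lit 23809385080) (nat_lit 15) (nat_lit 5) (nat_lit 16) (nat_lit 5) (nat_lit 17) (nat_lit 4) (nat_lit 320) (nat_lit 268) (nat_lit 132))))))) (XT.nd (nat_lit 702) (nat_lit 228) (nat_lit 0) (XT.nd (nat_lit 312) (nat_lit 76) (nat_lit 0) (XT.nd (nat_lit 156) (nat_lit 228) (nat_lit 0) (XT.nd (nat_lit 78) (nat_lit 0) (nat_lit 0) (XT.lf (nat_lit 0) (nat_lit 28113672420) (nat_lit 76) (nat_lit 46578240000) (nat_lit 152) (nat_lit 13663953633) (nat_lit 15) (nat_lit 5) (nat_lit 16) (nat_lit 5) (nat_lit 17) (nat_lit 4) (nat_lit 321) (nat_lit 268) (nat_lit 131)) (XT.lf (nat_lit 0) (nat_lit 57260129585) (nat_lit 76) (nat_lit 31653202307) (nat_lit 152) (nat_lit 3013368782) (nat_lit 15) (nat_lit 5) (nat_lit 16) (nat_lit 5) (nat_lit 17) (nat_lit 4) (nat_lit 322) (nat_lit 268) (nat_lit 130))) (XT.nd (nat_lit 78)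 (nat_lit 152) (nat_lit 0) (XT.lf (nat_lit 0) (nat_lit 7906309703) (nat_lit 152) (nat_lit 7942992764) (nat_lit 76) (nat_lit 79820497283) (nat_lit 14) (nat_lit 5) (nat_lit 16) (nat_lit 5) (nat_lit 15) (nat_lit 5) (nat_lit 323) (nat_lit 268) (nat_lit 129)) (XT.lf (nat_lit 0) (nat_lit 19610184008) (nat_lit 228) (nat_lit 78871559466) (nat_lit 76) (nat_lit 1098868877) (nat_lit 12) (nat_lit 5) (nat_lit 15) (nat_lit 5) (nat_lit 13) (nat_lit 4) (nat_lit 324) (nat_lit 268) (nat_lit 128)))) (XT.nd (nat_lit 156) (nat_lit 76) (nat_lit 0) (XT.nd (nat_lit 78) (nat_lit 0) (nat_lit 0) (XT.lf (nat_lit 0) (nat_lit 32293961760) (nat_lit 228) (nat_lit 52875946473) (nat_lit 76) (nat_lit 18497324331) (nat_lit 12) (nat_lit 5) (nat_lit 15) (nat_lit 5) (nat_lit 13) (nat_lit 4) (nat_lit 325) (nat_lit 268) (nat_lit 127)) (XT.lf (nat_lit 0) (nat_lit 45610177403) (nat_lit 228) (nat_lit 25583543831) (nat_lit 76)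 (nat_lit 36764552450) (nat_lit 12) (nat_lit 5) (nat_lit 15) (nat_lit 5) (nat_lit 13) (nat_lit 4) (nat_lit 326) (nat_lit 268) (nat_lit 126))) (XT.nd (nat_lit 78) (nat_lit 0) (nat_lit 0) (XT.lf (nat_lit 0) (nat_lit 3172159276) (nat_lit 76) (nat_lit 56467903231) (nat_lit 152) (nat_lit 52821413655) (nat_lit 11) (nat_lit 5) (nat_lit 12) (nat_lit 5) (nat_lit 13) (nat_lit 4) (nat_lit 327) (nat_lit 268) (nat_lit 125)) (XT.nd (nat_lit 78) (nat_lit 0) (nat_lit 0) (XT.lf (nat_lit 0) (nat_lit 34251047785) (nat_lit 76) (nat_lit 40552031815) (nat_lit 152) (nat_lit 42365179409) (nat_lit 11) (nat_lit 5) (nat_lit 12) (nat_lit 5) (nat_lit 13) (nat_lit 4) (nat_lit 328) (nat_lit 268) (nat_lit 124)) (XT.lf (nat_lit 0) (nat_lit 66881211549) (nat_lit 76) (nat_lit 23841481749) (nat_lit 152) (nat_lit 31387767442) (nat_lit 11) (nat_lit 5) (nat_lit 12) (nat_lit 5) (nat_lit 13) (nat_lit 4) (nat_lit 329) (nat_lit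 268) (nat_lit 123)))))) (XT.nd (nat_lit 312) (nat_lit 76) (nat_lit 0) (XT.nd (nat_lit 156) (nat_lit 76) (nat_lit 0) (XT.nd (nat_lit 78) (nat_lit 76) (nat_lit 0) (XT.lf (nat_lit 0) (nat_lit 101140341436) (nat_lit 76) (nat_lit 6296466007) (nat_lit 152) (nat_lit 19863041057) (nat_lit 11) (nat_lit 5) (nat_lit 12) (nat_lit 5) (nat_lit 13) (nat_lit 4) (nat_lit 330) (nat_lit 268) (nat_lit 122)) (XT.lf (nat_lit 0) (nat_lit 4309869627) (nat_lit 76) (nat_lit 120931939000) (nat_lit 76) (nat_lit 7494139795) (nat_lit 10) (nat_lit 4) (nat_lit 11) (nat_lit 5) (nat_lit 11) (nat_lit 4) (nat_lit 331) (nat_lit 268) (nat_lit 121))) (XT.nd (nat_lit 78) (nat_lit 0) (nat_lit 0) (XT.lf (nat_lit 0) (nat_lit 5869476676) (nat_lit 152) (nat_lit 101409521989) (nat_lit 76) (nat_lit 31132963774) (nat_lit 9) (nat_lit 5) (nat_lit 11) (nat_lit 5) (nat_lit 10) (nat_lit 4) (nat_lit 332) (nat_lit 268) (nat_lit 120)) (XT.lf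 (nat_lit 0) (nat_lit 19648069075) (nat_lit 152) (nat_lit 73167359926) (nat_lit 76) (nat_lit 51550274641) (nat_lit 9) (nat_lit 5) (nat_lit 11) (nat_lit 5) (nat_lit 10) (nat_lit 4) (nat_lit 333) (nat_lit 268) (nat_lit 119)))) (XT.nd (nat_lit 156) (nat_lit 76) (nat_lit 0) (XT.nd (nat_lit 78) (nat_lit 0) (nat_lit 0) (XT.lf (nat_lit 0) (nat_lit 34114302847) (nat_lit 152) (nat_lit 43515344837) (nat_lit 76) (nat_lit 72987550145) (nat_lit 9) (nat_lit 5) (nat_lit 11) (nat_lit 5) (nat_lit 10) (nat_lit 4) (nat_lit 334) (nat_lit 268) (nat_lit 118)) (XT.lf (nat_lit 0) (nat_lit 49302621408) (nat_lit 152) (nat_lit 12382876688) (nat_lit 76) (nat_lit 95495831418) (nat_lit 9) (nat_lit 5) (nat_lit 11) (nat_lit 5) (nat_lit 10) (nat_lit 4) (nat_lit 335) (nat_lit 268) (nat_lit 117))) (XT.nd (nat_lit 78) (nat_lit 0) (nat_lit 0) (XT.lf (nat_lit 0) (nat_lit 20975516982) (nat_lit 76) (nat_lit 44601157042) (nat_lit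 152) (nat_lit 98480679227) (nat_lit 8) (nat_lit 5) (nat_lit 9) (nat_lit 5) (nat_lit 10) (nat_lit 4) (nat_lit 336) (nat_lit 268) (nat_lit 116)) (XT.nd (nat_lit 78) (nat_lit 0) (nat_lit 0) (XT.lf (nat_lit 0) (nat_lit 56429723423) (nat_lit 76) (nat_lit 26443271602) (nat_lit 152) (nat_lit 88393756169) (nat_lit 8) (nat_lit 5) (nat_lit 9) (nat_lit 5) (nat_lit 10) (nat_lit 4) (nat_lit 337) (nat_lit 268) (nat_lit 115)) (XT.lf (nat_lit 0) (nat_lit 93654723584) (nat_lit 76) (nat_lit 7378318725) (nat_lit 152) (nat_lit 77803632458) (nat_lit 8) (nat_lit 5) (nat_lit 9) (nat_lit 5) (nat_lit 10) (nat_lit 4) (nat_lit 338) (nat_lit 268) (nat_lit 114))))))))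
noncomputable def xc194 : XT := (XT.nd (nat_lit 32292) (nat_lit 0) (nat_lit 3344) (XT.nd (nat_lit 624) (nat_lit 76) (nat_lit 0) (XT.nd (nat_lit 312) (nat_lit 76) (nat_lit 0) (XT.nd (nat_lit 156) (nat_lit 76) (nat_lit 0) (XT.nd (nat_lit 78) (nat_lit 0) (nat_lit 0) (XT.lf (nat_lit 0) (nat_lit 120297385769) (nat_lit 152) (nat_lit 54243330866) (nat_lit 0) (nat_lit 12234564380) (nat_lit 8) (nat_lit 5) (nat_lit 10) (nat_lit 4) (nat_lit 8) (nat_lit 4) (nat_lit 339) (nat_lit 268) (nat_lit 113)) (XT.lf (nat_lit 0) (nat_lit 140644902287) (nat_lit 152) (nat_lit 21880512834) (nat_lit 0) (nat_lit 32579405790) (nat_lit 8) (nat_lit 5) (nat_lit 10) (nat_lit 4) (nat_lit 8) (nat_lit 4) (nat_lit 340) (nat_lit 268) (nat_lit 112))) (XT.nd (nat_lit 78) (nat_lit 0) (nat_lit 0) (XT.lf (nat_lit 0) (nat_lit 12498792902) (nat_lit 76) (nat_lit 149705190381) (nat_lit 76) (nat_lit 41637146162) (nat_lit 7) (nat_lit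 4) (nat_lit 8) (nat_lit 5) (nat_lit 8) (nat_lit 4) (nat_lit 341) (nat_lit 268) (nat_lit 111)) (XT.lf (nat_lit 0) (nat_lit 49355040597) (nat_lit 76) (nat_lit 135855601629) (nat_lit 76) (nat_lit 27785131008) (nat_lit 7) (nat_lit 4) (nat_lit 8) (nat_lit 5) (nat_lit 8) (nat_lit 4) (nat_lit 342) (nat_lit 268) (nat_lit 110)))) (XT.nd (nat_lit 156) (nat_lit 0) (nat_lit 0) (XT.nd (nat_lit 78) (nat_lit 76) (nat_lit 0) (XT.lf (nat_lit 0) (nat_lit 88052514653) (nat_lit 76) (nat_lit 121314230727) (nat_lit 76) (nat_lit 13241449247) (nat_lit 7) (nat_lit 4) (nat_lit 8) (nat_lit 5) (nat_lit 8) (nat_lit 4) (nat_lit 343) (nat_lit 268) (nat_lit 109)) (XT.lf (nat_lit 0) (nat_lit 1963601404) (nat_lit 152) (nat_lit 104049599418) (nat_lit 76) (nat_lit 126686495967) (nat_lit 6) (nat_lit 5) (nat_lit 8) (nat_lit 5) (nat_lit 7) (nat_lit 4) (nat_lit 344) (nat_lit 268) (nat_lit 108))) (XT.nd (nat_lit 78) (nat_lit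 0) (nat_lit 0) (XT.lf (nat_lit 0) (nat_lit 17483084882) (nat_lit 152) (nat_lit 72236754305) (nat_lit 76) (nat_lit 153565123078) (nat_lit 6) (nat_lit 5) (nat_lit 8) (nat_lit 5) (nat_lit 7) (nat_lit 4) (nat_lit 345) (nat_lit 268) (nat_lit 107)) (XT.lf (nat_lit 0) (nat_lit 33777761408) (nat_lit 152) (nat_lit 38834663635) (nat_lit 76) (nat_lit 181787105832) (nat_lit 6) (nat_lit 5) (nat_lit 8) (nat_lit 5) (nat_lit 7) (nat_lit 4) (nat_lit 346) (nat_lit 268) (nat_lit 106))))) (XT.nd (nat_lit 312) (nat_lit 0) (nat_lit 0) (XT.nd (nat_lit 156) (nat_lit 0) (nat_lit 0) (XT.nd (nat_lit 78) (nat_lit 76) (nat_lit 0) (XT.lf (nat_lit 0) (nat_lit 50886427830) (nat_lit 152) (nat_lit 3763798620) (nat_lit 76) (nat_lit 211419639426) (nat_lit 6) (nat_lit 5) (nat_lit 8) (nat_lit 5) (nat_lit 7) (nat_lit 4) (nat_lit 347) (nat_lit 268) (nat_lit 105)) (XT.lf (nat_lit 0) (nat_lit 34152433972) (nat_lit 76) (nat_lit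 35230600302) (nat_lit 152) (nat_lit 208914058745) (nat_lit 5) (nat_lit 5) (nat_lit 6) (nat_lit 5) (nat_lit 7) (nat_lit 4) (nat_lit 348) (nat_lit 268) (nat_lit 104))) (XT.nd (nat_lit 78) (nat_lit 0) (nat_lit 0) (XT.lf (nat_lit 0) (nat_lit 74093902371) (nat_lit 76) (nat_lit 14773616194) (nat_lit 152) (nat_lit 202265011272) (nat_lit 5) (nat_lit 5) (nat_lit 6) (nat_lit 5) (nat_lit 7) (nat_lit 4) (nat_lit 349) (nat_lit 268) (nat_lit 103)) (XT.lf (nat_lit 0) (nat_lit 109430260536) (nat_lit 152) (nat_lit 188683209719) (nat_lit 0) (nat_lit 6491067228) (nat_lit 5) (nat_lit 5) (nat_lit 7) (nat_lit 4) (nat_lit 5) (nat_lit 4) (nat_lit 350) (nat_lit 268) (nat_lit 102)))) (XT.nd (nat_lit 31122) (nat_lit 0) (nat_lit 5092) (XT.nd (nat_lit 156) (nat_lit 0) (nat_lit 0) (XT.lf (nat_lit 0) (nat_lit 131262692531) (nat_lit 152) (nat_lit 159153366340) (nat_lit 0) (nat_lit 28322009623) (nat_lit 5) (nat_lit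 5) (nat_lit 7) (nat_lit 4) (nat_lit 5) (nat_lit 4) (nat_lit 351) (nat_lit 268) (nat_lit 101)) (XT.lf (nat_lit 0) (nat_lit 178255179517) (nat_lit 152) (nat_lit 95593680593) (nat_lit 0) (nat_lit 75311726829) (nat_lit 5) (nat_lit 5) (nat_lit 7) (nat_lit 4) (nat_lit 5) (nat_lit 4) (nat_lit 353) (nat_lit 268) (nat_lit 99))) (XT.nd (nat_lit 78) (nat_lit 0) (nat_lit 0) (XT.lf (nat_lit 0) (nat_lit 1252536164) (nat_lit 0) (nat_lit 1252536164) (nat_lit 684) (nat_lit 6019551658) (nat_lit 72) (nat_lit 5) (nat_lit 72) (nat_lit 3) (nat_lit 81) (nat_lit 3) (nat_lit 269) (nat_lit 269) (nat_lit 182)) (XT.nd (nat_lit 78) (nat_lit 0) (nat_lit 0) (XT.lf (nat_lit 0) (nat_lit 5420992761) (nat_lit 684) (nat_lit 7337188941) (nat_lit 760) (nat_lit 4702332447) (nat_lit 72) (nat_lit 5) (nat_lit 81) (nat_lit 3) (nat_lit 82) (nat_lit 5) (nat_lit 270) (nat_lit 269) (nat_lit 181)) (XT.lf (nat_lit 76) (nat_lit 187549764)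 (nat_lit 0) (nat_lit 5695506611) (nat_lit 760) (nat_lit 12007797474) (nat_lit 73) (nat_lit 5) (nat_lit 72) (nat_lit 5) (nat_lit 82) (nat_lit 5) (nat_lit 271) (nat_lit 269) (nat_lit 180))))))) (XT.nd (nat_lit 702) (nat_lit 1368) (nat_lit 0) (XT.nd (nat_lit 312) (nat_lit 456) (nat_lit 0) (XT.nd (nat_lit 156) (nat_lit 0) (nat_lit 0) (XT.nd (nat_lit 78) (nat_lit 0) (nat_lit 0) (XT.lf (nat_lit 0) (nat_lit 6508658778) (nat_lit 684) (nat_lit 10030315265) (nat_lit 760) (nat_lit 1796756486) (nat_lit 73) (nat_lit 5) (nat_lit 82) (nat_lit 5) (nat_lit 83) (nat_lit 5) (nat_lit 272) (nat_lit 269) (nat_lit 179)) (XT.lf (nat_lit 0) (nat_lit 7246796925) (nat_lit 684) (nat_lit 2074834482) (nat_lit 760) (nat_lit 9477196646) (nat_lit 73) (nat_lit 5) (nat_lit 82) (nat_lit 5) (nat_lit 83) (nat_lit 5) (nat_lit 273) (nat_lit 269) (nat_lit 178))) (XT.nd (nat_lit 78) (nat_lit 0) (nat_lit 76) (XT.lf (nat_lit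 76) (nat_lit 6478350373) (nat_lit 0) (nat_lit 1633100298) (nat_lit 760) (nat_lit 11169187243) (nat_lit 74) (nat_lit 5) (nat_lit 73) (nat_lit 5) (nat_lit 83) (nat_lit 5) (nat_lit 274) (nat_lit 269) (nat_lit 177)) (XT.lf (nat_lit 0) (nat_lit 9144553970) (nat_lit 684) (nat_lit 4362622087) (nat_lit 760) (nat_lit 6273137455) (nat_lit 74) (nat_lit 5) (nat_lit 83) (nat_lit 5) (nat_lit 84) (nat_lit 5) (nat_lit 275) (nat_lit 269) (nat_lit 176)))) (XT.nd (nat_lit 156) (nat_lit 532) (nat_lit 0) (XT.nd (nat_lit 78) (nat_lit 0) (nat_lit 76) (XT.lf (nat_lit 76) (nat_lit 4612307116) (nat_lit 0) (nat_lit 5705272569) (nat_lit 760) (nat_lit 9983014216) (nat_lit 75) (nat_lit 5) (nat_lit 74) (nat_lit 5) (nat_lit 84) (nat_lit 5) (nat_lit 276) (nat_lit 269) (nat_lit 175)) (XT.lf (nat_lit 0) (nat_lit 11653086214) (nat_lit 684) (nat_lit 6703816071) (nat_lit 760) (nat_lit 2484827282) (nat_lit 75) (nat_lit 5)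 (nat_lit 84) (nat_lit 5) (nat_lit 85) (nat_lit 5) (nat_lit 277) (nat_lit 269) (nat_lit 174))) (XT.nd (nat_lit 78) (nat_lit 608) (nat_lit 0) (XT.lf (nat_lit 76) (nat_lit 2715619104) (nat_lit 0) (nat_lit 10466067352) (nat_lit 760) (nat_lit 8221950817) (nat_lit 76) (nat_lit 5) (nat_lit 75) (nat_lit 5) (nat_lit 85) (nat_lit 5) (nat_lit 278) (nat_lit 269) (nat_lit 173)) (XT.nd (nat_lit 78) (nat_lit 608) (nat_lit 0) (XT.lf (nat_lit 76) (nat_lit 12831243946) (nat_lit 0) (nat_lit 2059736151) (nat_lit 760) (nat_lit 7097476789) (nat_lit 76) (nat_lit 5) (nat_lit 75) (nat_lit 5) (nat_lit 85) (nat_lit 5) (nat_lit 279) (nat_lit 269) (nat_lit 172)) (XT.lf (nat_lit 0) (nat_lit 761183930) (nat_lit 684) (nat_lit 16033287512) (nat_lit 760) (nat_lit 5802637664) (nat_lit 67) (nat_lit 5) (nat_lit 76) (nat_lit 5) (nat_lit 77) (nat_lit 5) (nat_lit 280) (nat_lit 269) (nat_lit 171)))))) (XT.nd (nat_lit 312)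 (nat_lit 988) (nat_lit 0) (XT.nd (nat_lit 156) (nat_lit 380) (nat_lit 0) (XT.nd (nat_lit 78) (nat_lit 0) (nat_lit 0) (XT.lf (nat_lit 0) (nat_lit 11450998530) (nat_lit 684) (nat_lit 7521942008) (nat_lit 760) (nat_lit 4254290171) (nat_lit 67) (nat_lit 5) (nat_lit 76) (nat_lit 5) (nat_lit 77) (nat_lit 5) (nat_lit 281) (nat_lit 269) (nat_lit 170)) (XT.lf (nat_lit 0) (nat_lit 21274343639) (nat_lit 760) (nat_lit 1243269255) (nat_lit 76) (nat_lit 1370570618) (nat_lit 67) (nat_lit 5) (nat_lit 77) (nat_lit 5) (nat_lit 68) (nat_lit 5) (nat_lit 282) (nat_lit 269) (nat_lit 169))) (XT.nd (nat_lit 78) (nat_lit 76) (nat_lit 0) (XT.lf (nat_lit 0) (nat_lit 10006026567) (nat_lit 304) (nat_lit 13956626675) (nat_lit 380) (nat_lit 605963325) (nat_lit 63) (nat_lit 5) (nat_lit 67) (nat_lit 5) (nat_lit 68) (nat_lit 5) (nat_lit 283) (nat_lit 269) (nat_lit 168)) (XT.lf (nat_lit 0) (nat_lit 1468038546) (nat_lit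 380) (nat_lit 3452284157) (nat_lit 76) (nat_lit 20360907231) (nat_lit 62) (nat_lit 5) (nat_lit 67) (nat_lit 5) (nat_lit 63) (nat_lit 5) (nat_lit 284) (nat_lit 269) (nat_lit 167)))) (XT.nd (nat_lit 156) (nat_lit 608) (nat_lit 0) (XT.nd (nat_lit 78) (nat_lit 0) (nat_lit 0) (XT.lf (nat_lit 0) (nat_lit 3824002560) (nat_lit 456) (nat_lit 17628843234) (nat_lit 76) (nat_lit 4566221265) (nat_lit 57) (nat_lit 5) (nat_lit 63) (nat_lit 5) (nat_lit 58) (nat_lit 5) (nat_lit 285) (nat_lit 269) (nat_lit 166)) (XT.lf (nat_lit 0) (nat_lit 6430861927) (nat_lit 456) (nat_lit 5935098568) (nat_lit 76) (nat_lit 14421200784) (nat_lit 57) (nat_lit 5) (nat_lit 63) (nat_lit 5) (nat_lit 58) (nat_lit 5) (nat_lit 286) (nat_lit 269) (nat_lit 165))) (XT.nd (nat_lit 78) (nat_lit 304) (nat_lit 0) (XT.lf (nat_lit 0) (nat_lit 6545871565) (nat_lit 304) (nat_lit 2717736440) (nat_lit 380) (nat_lit 18325294157) (nat_lit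 53) (nat_lit 5) (nat_lit 57) (nat_lit 5) (nat_lit 58) (nat_lit 5) (nat_lit 287) (nat_lit 269) (nat_lit 164)) (XT.nd (nat_lit 78) (nat_lit 304) (nat_lit 0) (XT.lf (nat_lit 0) (nat_lit 12449436814) (nat_lit 380) (nat_lit 8693337055) (nat_lit 76) (nat_lit 7277402177) (nat_lit 53) (nat_lit 5) (nat_lit 58) (nat_lit 5) (nat_lit 54) (nat_lit 5) (nat_lit 288) (nat_lit 269) (nat_lit 163)) (XT.lf (nat_lit 0) (nat_lit 4362051288) (nat_lit 304) (nat_lit 11539017694) (nat_lit 380) (nat_lit 13386636407) (nat_lit 49) (nat_lit 5) (nat_lit 53) (nat_lit 5) (nat_lit 54) (nat_lit 5) (nat_lit 289) (nat_lit 269) (nat_lit 162))))))))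
noncomputable def xc195 : XT := (XT.nd (nat_lit 1326) (nat_lit 988) (nat_lit 0) (XT.nd (nat_lit 624) (nat_lit 836) (nat_lit 0) (XT.nd (nat_lit 312) (nat_lit 608) (nat_lit 0) (XT.nd (nat_lit 156) (nat_lit 0) (nat_lit 0) (XT.nd (nat_lit 78) (nat_lit 228) (nat_lit 0) (XT.lf (nat_lit 0) (nat_lit 18365282858) (nat_lit 304) (nat_lit 1301268187) (nat_lit 380) (nat_lit 10525013272) (nat_lit 49) (nat_lit 5) (nat_lit 53) (nat_lit 5) (nat_lit 54) (nat_lit 5) (nat_lit 290) (nat_lit 269) (nat_lit 161)) (XT.lf (nat_lit 0) (nat_lit 1832489273) (nat_lit 228) (nat_lit 21958258237) (nat_lit 304) (nat_lit 7341362413) (nat_lit 46) (nat_lit 5) (nat_lit 49) (nat_lit 5) (nat_lit 50) (nat_lit 5) (nat_lit 291) (nat_lit 269) (nat_lit 160))) (XT.nd (nat_lit 78) (nat_lit 0) (nat_lit 0) (XT.lf (nat_lit 0) (nat_lit 16556144762) (nat_lit 228) (nat_lit 11780763246) (nat_lit 304) (nat_lit 3772002086) (nat_lit 46) (nat_lit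 5) (nat_lit 49) (nat_lit 5) (nat_lit 50) (nat_lit 5) (nat_lit 292) (nat_lit 269) (nat_lit 159)) (XT.lf (nat_lit 0) (nat_lit 32009699251) (nat_lit 228) (nat_lit 1095422247) (nat_lit 304) (nat_lit 29705810) (nat_lit 46) (nat_lit 5) (nat_lit 49) (nat_lit 5) (nat_lit 50) (nat_lit 5) (nat_lit 293) (nat_lit 269) (nat_lit 158)))) (XT.nd (nat_lit 156) (nat_lit 228) (nat_lit 0) (XT.nd (nat_lit 78) (nat_lit 0) (nat_lit 0) (XT.lf (nat_lit 0) (nat_lit 4157639388) (nat_lit 380) (nat_lit 19942431505) (nat_lit 76) (nat_lit 10089800726) (nat_lit 41) (nat_lit 5) (nat_lit 46) (nat_lit 5) (nat_lit 42) (nat_lit 5) (nat_lit 294) (nat_lit 269) (nat_lit 157)) (XT.lf (nat_lit 0) (nat_lit 8585708965) (nat_lit 380) (nat_lit 4894083109) (nat_lit 76) (nat_lit 21816246288) (nat_lit 41) (nat_lit 5) (nat_lit 46) (nat_lit 5) (nat_lit 42) (nat_lit 5) (nat_lit 295) (nat_lit 269) (nat_lit 156))) (XT.nd (nat_lit 78) (nat_lit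 0) (nat_lit 0) (XT.lf (nat_lit 0) (nat_lit 11261099451) (nat_lit 228) (nat_lit 2145167251) (nat_lit 304) (nat_lit 23042704255) (nat_lit 38) (nat_lit 5) (nat_lit 41) (nat_lit 5) (nat_lit 42) (nat_lit 5) (nat_lit 296) (nat_lit 269) (nat_lit 155)) (XT.lf (nat_lit 0) (nat_lit 18699796127) (nat_lit 304) (nat_lit 9421266072) (nat_lit 76) (nat_lit 9526901985) (nat_lit 38) (nat_lit 5) (nat_lit 42) (nat_lit 5) (nat_lit 39) (nat_lit 5) (nat_lit 297) (nat_lit 269) (nat_lit 154))))) (XT.nd (nat_lit 312) (nat_lit 380) (nat_lit 0) (XT.nd (nat_lit 156) (nat_lit 228) (nat_lit 0) (XT.nd (nat_lit 78) (nat_lit 0) (nat_lit 0) (XT.lf (nat_lit 0) (nat_lit 7327177906) (nat_lit 228) (nat_lit 17075988512) (nat_lit 304) (nat_lit 14496493092) (nat_lit 35) (nat_lit 5) (nat_lit 38) (nat_lit 5) (nat_lit 39) (nat_lit 5) (nat_lit 298) (nat_lit 269) (nat_lit 153)) (XT.lf (nat_lit 0) (nat_lit 25234382866) (nat_lit 228)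 (nat_lit 5312595807) (nat_lit 304) (nat_lit 9659207407) (nat_lit 35) (nat_lit 5) (nat_lit 38) (nat_lit 5) (nat_lit 39) (nat_lit 5) (nat_lit 299) (nat_lit 269) (nat_lit 152))) (XT.nd (nat_lit 78) (nat_lit 76) (nat_lit 0) (XT.lf (nat_lit 0) (nat_lit 2420828370) (nat_lit 152) (nat_lit 34720748850) (nat_lit 228) (nat_lit 4429291638) (nat_lit 33) (nat_lit 5) (nat_lit 35) (nat_lit 5) (nat_lit 36) (nat_lit 5) (nat_lit 300) (nat_lit 269) (nat_lit 151)) (XT.lf (nat_lit 0) (nat_lit 1368864141) (nat_lit 228) (nat_lit 21901776498) (nat_lit 76) (nat_lit 19715287840) (nat_lit 32) (nat_lit 5) (nat_lit 35) (nat_lit 5) (nat_lit 33) (nat_lit 5) (nat_lit 301) (nat_lit 269) (nat_lit 150)))) (XT.nd (nat_lit 156) (nat_lit 152) (nat_lit 0) (XT.nd (nat_lit 78) (nat_lit 228) (nat_lit 0) (XT.lf (nat_lit 0) (nat_lit 7304203601) (nat_lit 228) (nat_lit 3869154600) (nat_lit 76) (nat_lit 33294954204) (nat_lit 32)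 (nat_lit 5) (nat_lit 35) (nat_lit 5) (nat_lit 33) (nat_lit 5) (nat_lit 302) (nat_lit 269) (nat_lit 149)) (XT.lf (nat_lit 0) (nat_lit 13803352608) (nat_lit 304) (nat_lit 30482827561) (nat_lit 76) (nat_lit 1725291182) (nat_lit 29) (nat_lit 5) (nat_lit 33) (nat_lit 5) (nat_lit 30) (nat_lit 5) (nat_lit 303) (nat_lit 269) (nat_lit 148))) (XT.nd (nat_lit 78) (nat_lit 152) (nat_lit 0) (XT.lf (nat_lit 0) (nat_lit 20873614861) (nat_lit 304) (nat_lit 11787360154) (nat_lit 76) (nat_lit 14958513016) (nat_lit 29) (nat_lit 5) (nat_lit 33) (nat_lit 5) (nat_lit 30) (nat_lit 5) (nat_lit 304) (nat_lit 269) (nat_lit 147)) (XT.nd (nat_lit 78) (nat_lit 0) (nat_lit 0) (XT.lf (nat_lit 0) (nat_lit 8097021972) (nat_lit 152) (nat_lit 20323343352) (nat_lit 228) (nat_lit 20881398678) (nat_lit 27) (nat_lit 5) (nat_lit 29) (nat_lit 5) (nat_lit 30) (nat_lit 5) (nat_lit 305) (nat_lit 269) (nat_lit 146)) (XT.lf (nat_lit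 0) (nat_lit 29379920681) (nat_lit 152) (nat_lit 7160802059) (nat_lit 228) (nat_lit 14517624430) (nat_lit 27) (nat_lit 5) (nat_lit 29) (nat_lit 5) (nat_lit 30) (nat_lit 5) (nat_lit 306) (nat_lit 269) (nat_lit 145))))))) (XT.nd (nat_lit 702) (nat_lit 380) (nat_lit 0) (XT.nd (nat_lit 312) (nat_lit 228) (nat_lit 0) (XT.nd (nat_lit 156) (nat_lit 228) (nat_lit 0) (XT.nd (nat_lit 78) (nat_lit 152) (nat_lit 0) (XT.lf (nat_lit 0) (nat_lit 45167858300) (nat_lit 228) (nat_lit 1284615347) (nat_lit 76) (nat_lit 6445254379) (nat_lit 27) (nat_lit 5) (nat_lit 30) (nat_lit 5) (nat_lit 28) (nat_lit 5) (nat_lit 307) (nat_lit 269) (nat_lit 144)) (XT.lf (nat_lit 0) (nat_lit 20668403675) (nat_lit 152) (nat_lit 33994963239) (nat_lit 228) (nat_lit 143866427) (nat_lit 25) (nat_lit 5) (nat_lit 27) (nat_lit 5) (nat_lit 28) (nat_lit 5) (nat_lit 308) (nat_lit 269) (nat_lit 143))) (XT.nd (nat_lit 78) (nat_lit 152)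 (nat_lit 0) (XT.lf (nat_lit 0) (nat_lit 7590169204) (nat_lit 228) (nat_lit 13174567205) (nat_lit 76) (nat_lit 36040424089) (nat_lit 24) (nat_lit 5) (nat_lit 27) (nat_lit 5) (nat_lit 25) (nat_lit 5) (nat_lit 309) (nat_lit 269) (nat_lit 142)) (XT.lf (nat_lit 0) (nat_lit 9123125521) (nat_lit 152) (nat_lit 6722483577) (nat_lit 228) (nat_lit 43050285507) (nat_lit 22) (nat_lit 5) (nat_lit 24) (nat_lit 5) (nat_lit 25) (nat_lit 5) (nat_lit 310) (nat_lit 269) (nat_lit 141)))) (XT.nd (nat_lit 156) (nat_lit 228) (nat_lit 0) (XT.nd (nat_lit 78) (nat_lit 0) (nat_lit 0) (XT.lf (nat_lit 0) (nat_lit 24862986617) (nat_lit 228) (nat_lit 28220290116) (nat_lit 76) (nat_lit 7990435528) (nat_lit 22) (nat_lit 5) (nat_lit 25) (nat_lit 5) (nat_lit 23) (nat_lit 5) (nat_lit 311) (nat_lit 269) (nat_lit 140)) (XT.lf (nat_lit 0) (nat_lit 34438719790) (nat_lit 228) (nat_lit 5704651817) (nat_lit 76) (nat_lit 23211679737)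 (nat_lit 22) (nat_lit 5) (nat_lit 25) (nat_lit 5) (nat_lit 23) (nat_lit 5) (nat_lit 312) (nat_lit 269) (nat_lit 139))) (XT.nd (nat_lit 78) (nat_lit 76) (nat_lit 0) (XT.lf (nat_lit 0) (nat_lit 18525647705) (nat_lit 152) (nat_lit 26254240747) (nat_lit 228) (nat_lit 20956241138) (nat_lit 20) (nat_lit 5) (nat_lit 22) (nat_lit 5) (nat_lit 23) (nat_lit 5) (nat_lit 313) (nat_lit 269) (nat_lit 138)) (XT.nd (nat_lit 78) (nat_lit 76) (nat_lit 0) (XT.lf (nat_lit 0) (nat_lit 44161523158) (nat_lit 152) (nat_lit 11570675918) (nat_lit 228) (nat_lit 12499362924) (nat_lit 20) (nat_lit 5) (nat_lit 22) (nat_lit 5) (nat_lit 23) (nat_lit 5) (nat_lit 314) (nat_lit 269) (nat_lit 137)) (XT.lf (nat_lit 0) (nat_lit 168863128) (nat_lit 76) (nat_lit 67123533105) (nat_lit 152) (nat_lit 3556360464) (nat_lit 19) (nat_lit 5) (nat_lit 20) (nat_lit 5) (nat_lit 21) (nat_lit 4) (nat_lit 315) (nat_lit 269) (nat_lit 136))))))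 (XT.nd (nat_lit 312) (nat_lit 152) (nat_lit 0) (XT.nd (nat_lit 156) (nat_lit 152) (nat_lit 0) (XT.nd (nat_lit 78) (nat_lit 0) (nat_lit 0) (XT.lf (nat_lit 0) (nat_lit 6248661860) (nat_lit 152) (nat_lit 47412434426) (nat_lit 76) (nat_lit 19901085200) (nat_lit 18) (nat_lit 5) (nat_lit 20) (nat_lit 5) (nat_lit 19) (nat_lit 5) (nat_lit 316) (nat_lit 269) (nat_lit 135)) (XT.lf (nat_lit 0) (nat_lit 16422117289) (nat_lit 152) (nat_lit 23043641541) (nat_lit 76) (nat_lit 36942722328) (nat_lit 18) (nat_lit 5) (nat_lit 20) (nat_lit 5) (nat_lit 19) (nat_lit 5) (nat_lit 317) (nat_lit 269) (nat_lit 134))) (XT.nd (nat_lit 78) (nat_lit 0) (nat_lit 0) (XT.lf (nat_lit 0) (nat_lit 2624015662) (nat_lit 152) (nat_lit 24519006655) (nat_lit 228) (nat_lit 52252138125) (nat_lit 16) (nat_lit 5) (nat_lit 18) (nat_lit 5) (nat_lit 19) (nat_lit 5) (nat_lit 318) (nat_lit 269) (nat_lit 133)) (XT.lf (nat_lit 0) (nat_lit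 30371576135) (nat_lit 152) (nat_lit 8416509936) (nat_lit 228) (nat_lit 43723685250) (nat_lit 16) (nat_lit 5) (nat_lit 18) (nat_lit 5) (nat_lit 19) (nat_lit 5) (nat_lit 319) (nat_lit 269) (nat_lit 132)))) (XT.nd (nat_lit 156) (nat_lit 76) (nat_lit 0) (XT.nd (nat_lit 78) (nat_lit 76) (nat_lit 0) (XT.lf (nat_lit 0) (nat_lit 51145913065) (nat_lit 228) (nat_lit 26413689050) (nat_lit 76) (nat_lit 8218088273) (nat_lit 16) (nat_lit 5) (nat_lit 19) (nat_lit 5) (nat_lit 17) (nat_lit 4) (nat_lit 320) (nat_lit 269) (nat_lit 131)) (XT.lf (nat_lit 0) (nat_lit 473049365) (nat_lit 76) (nat_lit 63791981342) (nat_lit 152) (nat_lit 24934707733) (nat_lit 15) (nat_lit 5) (nat_lit 16) (nat_lit 5) (nat_lit 17) (nat_lit 4) (nat_lit 321) (nat_lit 269) (nat_lit 130))) (XT.nd (nat_lit 78) (nat_lit 76) (nat_lit 0) (XT.lf (nat_lit 0) (nat_lit 29617942900) (nat_lit 76) (nat_lit 48867571414) (nat_lit 152) (nat_lit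 14285106933) (nat_lit 15) (nat_lit 5) (nat_lit 16) (nat_lit 5) (nat_lit 17) (nat_lit 4) (nat_lit 322) (nat_lit 269) (nat_lit 129)) (XT.nd (nat_lit 78) (nat_lit 76) (nat_lit 0) (XT.lf (nat_lit 0) (nat_lit 60217028310) (nat_lit 76) (nat_lit 33198166626) (nat_lit 152) (nat_lit 3104947333) (nat_lit 15) (nat_lit 5) (nat_lit 16) (nat_lit 5) (nat_lit 17) (nat_lit 4) (nat_lit 323) (nat_lit 269) (nat_lit 128)) (XT.lf (nat_lit 0) (nat_lit 8356100085) (nat_lit 152) (nat_lit 8248844187) (nat_lit 76) (nat_lit 83845545878) (nat_lit 14) (nat_lit 5) (nat_lit 16) (nat_lit 5) (nat_lit 15) (nat_lit 5) (nat_lit 324) (nat_lit 269) (nat_lit 127))))))))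
noncomputable def xc196 : XT := (XT.nd (nat_lit 1326) (nat_lit 228) (nat_lit 0) (XT.nd (nat_lit 624) (nat_lit 152) (nat_lit 0) (XT.nd (nat_lit 312) (nat_lit 76) (nat_lit 0) (XT.nd (nat_lit 156) (nat_lit 76) (nat_lit 0) (XT.nd (nat_lit 78) (nat_lit 0) (nat_lit 0) (XT.lf (nat_lit 0) (nat_lit 20644547023) (nat_lit 228) (nat_lit 82723145911) (nat_lit 76) (nat_lit 1189185115) (nat_lit 12) (nat_lit 5) (nat_lit 15) (nat_lit 5) (nat_lit 13) (nat_lit 4) (nat_lit 325) (nat_lit 269) (nat_lit 126)) (XT.lf (nat_lit 0) (nat_lit 33959949194) (nat_lit 228) (nat_lit 55432132817) (nat_lit 76) (nat_lit 19455878922) (nat_lit 12) (nat_lit 5) (nat_lit 15) (nat_lit 5) (nat_lit 13) (nat_lit 4) (nat_lit 326) (nat_lit 269) (nat_lit 125))) (XT.nd (nat_lit 78) (nat_lit 76) (nat_lit 0) (XT.lf (nat_lit 0) (nat_lit 47939533269) (nat_lit 228) (nat_lit 26779281995) (nat_lit 76) (nat_lit 38634864239) (nat_lit 12) (nat_lit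 5) (nat_lit 15) (nat_lit 5) (nat_lit 13) (nat_lit 4) (nat_lit 327) (nat_lit 269) (nat_lit 124)) (XT.lf (nat_lit 0) (nat_lit 3412860477) (nat_lit 76) (nat_lit 59257007811) (nat_lit 152) (nat_lit 55412229155) (nat_lit 11) (nat_lit 5) (nat_lit 12) (nat_lit 5) (nat_lit 13) (nat_lit 4) (nat_lit 328) (nat_lit 269) (nat_lit 123)))) (XT.nd (nat_lit 156) (nat_lit 76) (nat_lit 0) (XT.nd (nat_lit 78) (nat_lit 0) (nat_lit 0) (XT.lf (nat_lit 0) (nat_lit 36041784209) (nat_lit 76) (nat_lit 42546975709) (nat_lit 152) (nat_lit 44435576301) (nat_lit 11) (nat_lit 5) (nat_lit 12) (nat_lit 5) (nat_lit 13) (nat_lit 4) (nat_lit 329) (nat_lit 269) (nat_lit 122)) (XT.lf (nat_lit 0) (nat_lit 70299733113) (nat_lit 76) (nat_lit 25002453267) (nat_lit 152) (nat_lit 32911572882) (nat_lit 11) (nat_lit 5) (nat_lit 12) (nat_lit 5) (nat_lit 13) (nat_lit 4) (nat_lit 330) (nat_lit 269) (nat_lit 121))) (XT.nd (nat_lit 78)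 (nat_lit 76) (nat_lit 0) (XT.lf (nat_lit 0) (nat_lit 106268273732) (nat_lit 76) (nat_lit 6581667813) (nat_lit 152) (nat_lit 20812780794) (nat_lit 11) (nat_lit 5) (nat_lit 12) (nat_lit 5) (nat_lit 13) (nat_lit 4) (nat_lit 331) (nat_lit 269) (nat_lit 120)) (XT.lf (nat_lit 0) (nat_lit 4596763939) (nat_lit 76) (nat_lit 126948017701) (nat_lit 76) (nat_lit 7825868742) (nat_lit 10) (nat_lit 4) (nat_lit 11) (nat_lit 5) (nat_lit 11) (nat_lit 4) (nat_lit 332) (nat_lit 269) (nat_lit 119))))) (XT.nd (nat_lit 312) (nat_lit 76) (nat_lit 0) (XT.nd (nat_lit 156) (nat_lit 0) (nat_lit 0) (XT.nd (nat_lit 78) (nat_lit 0) (nat_lit 0) (XT.lf (nat_lit 0) (nat_lit 6202571917) (nat_lit 152) (nat_lit 106410640675) (nat_lit 76) (nat_lit 32717320339) (nat_lit 9) (nat_lit 5) (nat_lit 11) (nat_lit 5) (nat_lit 10) (nat_lit 4) (nat_lit 333) (nat_lit 269) (nat_lit 118)) (XT.lf (nat_lit 0) (nat_lit 20668207201) (nat_lit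 152) (nat_lit 76759673242) (nat_lit 76) (nat_lit 54154177303) (nat_lit 9) (nat_lit 5) (nat_lit 11) (nat_lit 5) (nat_lit 10) (nat_lit 4) (nat_lit 334) (nat_lit 269) (nat_lit 117))) (XT.nd (nat_lit 78) (nat_lit 0) (nat_lit 0) (XT.lf (nat_lit 0) (nat_lit 35855955774) (nat_lit 152) (nat_lit 45628202861) (nat_lit 76) (nat_lit 76662059967) (nat_lit 9) (nat_lit 5) (nat_lit 11) (nat_lit 5) (nat_lit 10) (nat_lit 4) (nat_lit 335) (nat_lit 269) (nat_lit 116)) (XT.lf (nat_lit 0) (nat_lit 51801978939) (nat_lit 152) (nat_lit 12942106981) (nat_lit 76) (nat_lit 100294558526) (nat_lit 9) (nat_lit 5) (nat_lit 11) (nat_lit 5) (nat_lit 10) (nat_lit 4) (nat_lit 336) (nat_lit 269) (nat_lit 115)))) (XT.nd (nat_lit 156) (nat_lit 0) (nat_lit 0) (XT.nd (nat_lit 78) (nat_lit 0) (nat_lit 0) (XT.lf (nat_lit 0) (nat_lit 22083240025) (nat_lit 76) (nat_lit 46805784660) (nat_lit 152) (nat_lit 103369482075) (nat_lit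 8) (nat_lit 5) (nat_lit 9) (nat_lit 5) (nat_lit 10) (nat_lit 4) (nat_lit 337) (nat_lit 269) (nat_lit 114)) (XT.lf (nat_lit 0) (nat_lit 59307349779) (nat_lit 76) (nat_lit 27741215911) (nat_lit 152) (nat_lit 92779890536) (nat_lit 8) (nat_lit 5) (nat_lit 9) (nat_lit 5) (nat_lit 10) (nat_lit 4) (nat_lit 338) (nat_lit 269) (nat_lit 113))) (XT.nd (nat_lit 78) (nat_lit 0) (nat_lit 0) (XT.lf (nat_lit 0) (nat_lit 98390926606) (nat_lit 76) (nat_lit 7724168690) (nat_lit 152) (nat_lit 81661858423) (nat_lit 8) (nat_lit 5) (nat_lit 9) (nat_lit 5) (nat_lit 10) (nat_lit 4) (nat_lit 339) (nat_lit 269) (nat_lit 112)) (XT.nd (nat_lit 78) (nat_lit 0) (nat_lit 0) (XT.lf (nat_lit 0) (nat_lit 126341551244) (nat_lit 152) (nat_lit 56903438832) (nat_lit 0) (nat_lit 12867557091) (nat_lit 8) (nat_lit 5) (nat_lit 10) (nat_lit 4) (nat_lit 8) (nat_lit 4) (nat_lit 340) (nat_lit 269) (nat_lit 111)) (XT.lf (nat_lit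 0) (nat_lit 147705048531) (nat_lit 152) (nat_lit 22924958879) (nat_lit 0) (nat_lit 34228627977) (nat_lit 8) (nat_lit 5) (nat_lit 10) (nat_lit 4) (nat_lit 8) (nat_lit 4) (nat_lit 341) (nat_lit 269) (nat_lit 110))))))) (XT.nd (nat_lit 702) (nat_lit 0) (nat_lit 0) (XT.nd (nat_lit 312) (nat_lit 76) (nat_lit 0) (XT.nd (nat_lit 156) (nat_lit 76) (nat_lit 0) (XT.nd (nat_lit 78) (nat_lit 0) (nat_lit 0) (XT.lf (nat_lit 0) (nat_lit 13172512473) (nat_lit 76) (nat_lit 157169004070) (nat_lit 76) (nat_lit 43690272656) (nat_lit 7) (nat_lit 4) (nat_lit 8) (nat_lit 5) (nat_lit 8) (nat_lit 4) (nat_lit 342) (nat_lit 269) (nat_lit 109)) (XT.lf (nat_lit 0) (nat_lit 51869249700) (nat_lit 76) (nat_lit 142627957110) (nat_lit 76) (nat_lit 29147024879) (nat_lit 7) (nat_lit 4) (nat_lit 8) (nat_lit 5) (nat_lit 8) (nat_lit 4) (nat_lit 343) (nat_lit 269) (nat_lit 108))) (XT.nd (nat_lit 78) (nat_lit 76) (nat_lit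 0) (XT.lf (nat_lit 0) (nat_lit 92499385217) (nat_lit 76) (nat_lit 127360490263) (nat_lit 76) (nat_lit 13877462014) (nat_lit 7) (nat_lit 4) (nat_lit 8) (nat_lit 5) (nat_lit 8) (nat_lit 4) (nat_lit 344) (nat_lit 269) (nat_lit 107)) (XT.lf (nat_lit 0) (nat_lit 2085805876) (nat_lit 152) (nat_lit 109209122408) (nat_lit 76) (nat_lit 133038527433) (nat_lit 6) (nat_lit 5) (nat_lit 8) (nat_lit 5) (nat_lit 7) (nat_lit 4) (nat_lit 345) (nat_lit 269) (nat_lit 106)))) (XT.nd (nat_lit 156) (nat_lit 76) (nat_lit 0) (XT.nd (nat_lit 78) (nat_lit 0) (nat_lit 0) (XT.lf (nat_lit 0) (nat_lit 18380119509) (nat_lit 152) (nat_lit 75807680610) (nat_lit 76) (nat_lit 161260242725) (nat_lit 6) (nat_lit 5) (nat_lit 8) (nat_lit 5) (nat_lit 7) (nat_lit 4) (nat_lit 346) (nat_lit 269) (nat_lit 105)) (XT.lf (nat_lit 0) (nat_lit 35488440319) (nat_lit 152) (nat_lit 40737433568) (nat_lit 76) (nat_lit 190892521593) (nat_lit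 6) (nat_lit 5) (nat_lit 8) (nat_lit 5) (nat_lit 7) (nat_lit 4) (nat_lit 347) (nat_lit 269) (nat_lit 104))) (XT.nd (nat_lit 78) (nat_lit 76) (nat_lit 0) (XT.lf (nat_lit 0) (nat_lit 53451502403) (nat_lit 152) (nat_lit 3914880695) (nat_lit 76) (nat_lit 222005917082) (nat_lit 6) (nat_lit 5) (nat_lit 8) (nat_lit 5) (nat_lit 7) (nat_lit 4) (nat_lit 348) (nat_lit 269) (nat_lit 103)) (XT.nd (nat_lit 78) (nat_lit 0) (nat_lit 0) (XT.lf (nat_lit 0) (nat_lit 35896565013) (nat_lit 76) (nat_lit 36975955923) (nat_lit 152) (nat_lit 219338389673) (nat_lit 5) (nat_lit 5) (nat_lit 6) (nat_lit 5) (nat_lit 7) (nat_lit 4) (nat_lit 349) (nat_lit 269) (nat_lit 102)) (XT.lf (nat_lit 0) (nat_lit 77833368291) (nat_lit 76) (nat_lit 15496892820) (nat_lit 152) (nat_lit 212357907541) (nat_lit 5) (nat_lit 5) (nat_lit 6) (nat_lit 5) (nat_lit 7) (nat_lit 4) (nat_lit 350) (nat_lit 269) (nat_lit 101)))))) (XT.nd (nat_lit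 31356) (nat_lit 0) (nat_lit 5092) (XT.nd (nat_lit 31200) (nat_lit 0) (nat_lit 5092) (XT.nd (nat_lit 156) (nat_lit 0) (nat_lit 0) (XT.lf (nat_lit 0) (nat_lit 114920447010) (nat_lit 152) (nat_lit 198083543560) (nat_lit 0) (nat_lit 6829821689) (nat_lit 5) (nat_lit 5) (nat_lit 7) (nat_lit 4) (nat_lit 5) (nat_lit 4) (nat_lit 351) (nat_lit 269) (nat_lit 100)) (XT.lf (nat_lit 0) (nat_lit 161912383296) (nat_lit 152) (nat_lit 134524855396) (nat_lit 0) (nat_lit 53819120090) (nat_lit 5) (nat_lit 5) (nat_lit 7) (nat_lit 4) (nat_lit 5) (nat_lit 4) (nat_lit 353) (nat_lit 269) (nat_lit 98))) (XT.nd (nat_lit 78) (nat_lit 0) (nat_lit 0) (XT.lf (nat_lit 0) (nat_lit 1418400784) (nat_lit 0) (nat_lit 1418400784) (nat_lit 684) (nat_lit 6103055237) (nat_lit 72) (nat_lit 5) (nat_lit 72) (nat_lit 3) (nat_lit 81) (nat_lit 3) (nat_lit 270) (nat_lit 270) (nat_lit 180)) (XT.lf (nat_lit 0) (nat_lit 6082259147) (nat_lit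 684) (nat_lit 7483385487) (nat_lit 760) (nat_lit 4747099436) (nat_lit 72) (nat_lit 5) (nat_lit 81) (nat_lit 3) (nat_lit 82) (nat_lit 5) (nat_lit 271) (nat_lit 270) (nat_lit 179)))) (XT.nd (nat_lit 156) (nat_lit 0) (nat_lit 76) (XT.nd (nat_lit 78) (nat_lit 0) (nat_lit 76) (XT.lf (nat_lit 76) (nat_lit 414031074) (nat_lit 0) (nat_lit 6138202716) (nat_lit 760) (nat_lit 12213187759) (nat_lit 73) (nat_lit 5) (nat_lit 72) (nat_lit 5) (nat_lit 82) (nat_lit 5) (nat_lit 272) (nat_lit 270) (nat_lit 178)) (XT.lf (nat_lit 0) (nat_lit 7188909823) (nat_lit 684) (nat_lit 10303693505) (nat_lit 760) (nat_lit 1741007335) (nat_lit 73) (nat_lit 5) (nat_lit 82) (nat_lit 5) (nat_lit 83) (nat_lit 5) (nat_lit 273) (nat_lit 270) (nat_lit 177))) (XT.nd (nat_lit 78) (nat_lit 0) (nat_lit 0) (XT.lf (nat_lit 0) (nat_lit 7947058777) (nat_lit 684) (nat_lit 1961302375) (nat_lit 760) (nat_lit 9812402216) (nat_lit 73)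 (nat_lit 5) (nat_lit 82) (nat_lit 5) (nat_lit 83) (nat_lit 5) (nat_lit 274) (nat_lit 270) (nat_lit 176)) (XT.nd (nat_lit 78) (nat_lit 0) (nat_lit 76) (XT.lf (nat_lit 76) (nat_lit 7016037307) (nat_lit 0) (nat_lit 1826153919) (nat_lit 760) (nat_lit 11385163051) (nat_lit 74) (nat_lit 5) (nat_lit 73) (nat_lit 5) (nat_lit 83) (nat_lit 5) (nat_lit 275) (nat_lit 270) (nat_lit 175)) (XT.lf (nat_lit 0) (nat_lit 9909809075) (nat_lit 684) (nat_lit 4359015866) (nat_lit 760) (nat_lit 6484096085) (nat_lit 74) (nat_lit 5) (nat_lit 83) (nat_lit 5) (nat_lit 84) (nat_lit 5) (nat_lit 276) (nat_lit 270) (nat_lit 174))))))))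
noncomputable def xc197 : XT := (XT.nd (nat_lit 1326) (nat_lit 1824) (nat_lit 0) (XT.nd (nat_lit 624) (nat_lit 1292) (nat_lit 0) (XT.nd (nat_lit 312) (nat_lit 836) (nat_lit 0) (XT.nd (nat_lit 156) (nat_lit 0) (nat_lit 76) (XT.nd (nat_lit 78) (nat_lit 0) (nat_lit 76) (XT.lf (nat_lit 76) (nat_lit 5061083389) (nat_lit 0) (nat_lit 6069140818) (nat_lit 760) (nat_lit 10169602262) (nat_lit 75) (nat_lit 5) (nat_lit 74) (nat_lit 5) (nat_lit 84) (nat_lit 5) (nat_lit 277) (nat_lit 270) (nat_lit 173)) (XT.lf (nat_lit 0) (nat_lit 12517205572) (nat_lit 684) (nat_lit 6815020892) (nat_lit 760) (nat_lit 2536603139) (nat_lit 75) (nat_lit 5) (nat_lit 84) (nat_lit 5) (nat_lit 85) (nat_lit 5) (nat_lit 278) (nat_lit 270) (nat_lit 172))) (XT.nd (nat_lit 78) (nat_lit 0) (nat_lit 0) (XT.lf (nat_lit 76) (nat_lit 3071773365) (nat_lit 0) (nat_lit 11040500009) (nat_lit 760) (nat_lit 8347100929) (nat_lit 76) (nat_lit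 5) (nat_lit 75) (nat_lit 5) (nat_lit 85) (nat_lit 5) (nat_lit 279) (nat_lit 270) (nat_lit 171)) (XT.lf (nat_lit 76) (nat_lit 13682685481) (nat_lit 0) (nat_lit 2211417521) (nat_lit 760) (nat_lit 7180019744) (nat_lit 76) (nat_lit 5) (nat_lit 75) (nat_lit 5) (nat_lit 85) (nat_lit 5) (nat_lit 280) (nat_lit 270) (nat_lit 170)))) (XT.nd (nat_lit 156) (nat_lit 304) (nat_lit 0) (XT.nd (nat_lit 78) (nat_lit 0) (nat_lit 0) (XT.lf (nat_lit 0) (nat_lit 1020020408) (nat_lit 684) (nat_lit 16863158359) (nat_lit 760) (nat_lit 5830547759) (nat_lit 67) (nat_lit 5) (nat_lit 76) (nat_lit 5) (nat_lit 77) (nat_lit 5) (nat_lit 281) (nat_lit 270) (nat_lit 169)) (XT.lf (nat_lit 0) (nat_lit 12233812534) (nat_lit 684) (nat_lit 7924902414) (nat_lit 760) (nat_lit 4217269643) (nat_lit 67) (nat_lit 5) (nat_lit 76) (nat_lit 5) (nat_lit 77) (nat_lit 5) (nat_lit 282) (nat_lit 270) (nat_lit 168))) (XT.nd (nat_lit 78)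 (nat_lit 304) (nat_lit 0) (XT.lf (nat_lit 0) (nat_lit 22563496986) (nat_lit 760) (nat_lit 1092774488) (nat_lit 76) (nat_lit 1414333899) (nat_lit 67) (nat_lit 5) (nat_lit 77) (nat_lit 5) (nat_lit 68) (nat_lit 5) (nat_lit 283) (nat_lit 270) (nat_lit 167)) (XT.lf (nat_lit 0) (nat_lit 10715556155) (nat_lit 304) (nat_lit 14663197498) (nat_lit 380) (nat_lit 406713919) (nat_lit 63) (nat_lit 5) (nat_lit 67) (nat_lit 5) (nat_lit 68) (nat_lit 5) (nat_lit 284) (nat_lit 270) (nat_lit 166))))) (XT.nd (nat_lit 312) (nat_lit 532) (nat_lit 0) (XT.nd (nat_lit 156) (nat_lit 304) (nat_lit 0) (XT.nd (nat_lit 78) (nat_lit 380) (nat_lit 0) (XT.lf (nat_lit 0) (nat_lit 1753060107) (nat_lit 380) (nat_lit 3418018173) (nat_lit 76) (nat_lit 21363014086) (nat_lit 62) (nat_lit 5) (nat_lit 67) (nat_lit 5) (nat_lit 63) (nat_lit 5) (nat_lit 285) (nat_lit 270) (nat_lit 165)) (XT.lf (nat_lit 0) (nat_lit 4219904704) (nat_lit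 456) (nat_lit 18295898935) (nat_lit 76) (nat_lit 4793393022) (nat_lit 57) (nat_lit 5) (nat_lit 63) (nat_lit 5) (nat_lit 58) (nat_lit 5) (nat_lit 286) (nat_lit 270) (nat_lit 164))) (XT.nd (nat_lit 78) (nat_lit 304) (nat_lit 0) (XT.lf (nat_lit 0) (nat_lit 6947359324) (nat_lit 456) (nat_lit 6027675915) (nat_lit 76) (nat_lit 15141175770) (nat_lit 57) (nat_lit 5) (nat_lit 63) (nat_lit 5) (nat_lit 58) (nat_lit 5) (nat_lit 287) (nat_lit 270) (nat_lit 163)) (XT.lf (nat_lit 0) (nat_lit 7074049538) (nat_lit 304) (nat_lit 2841545999) (nat_lit 380) (nat_lit 19042777454) (nat_lit 53) (nat_lit 5) (nat_lit 57) (nat_lit 5) (nat_lit 58) (nat_lit 5) (nat_lit 288) (nat_lit 270) (nat_lit 162)))) (XT.nd (nat_lit 156) (nat_lit 228) (nat_lit 0) (XT.nd (nat_lit 78) (nat_lit 304) (nat_lit 0) (XT.lf (nat_lit 0) (nat_lit 13251904551) (nat_lit 380) (nat_lit 8927365704) (nat_lit 76) (nat_lit 7652406300) (nat_lit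 53) (nat_lit 5) (nat_lit 58) (nat_lit 5) (nat_lit 54) (nat_lit 5) (nat_lit 289) (nat_lit 270) (nat_lit 161)) (XT.lf (nat_lit 0) (nat_lit 4777555956) (nat_lit 304) (nat_lit 12093073138) (nat_lit 380) (nat_lit 13872251947) (nat_lit 49) (nat_lit 5) (nat_lit 53) (nat_lit 5) (nat_lit 54) (nat_lit 5) (nat_lit 290) (nat_lit 270) (nat_lit 160))) (XT.nd (nat_lit 78) (nat_lit 228) (nat_lit 0) (XT.lf (nat_lit 0) (nat_lit 19471549004) (nat_lit 304) (nat_lit 1344526415) (nat_lit 380) (nat_lit 10876296049) (nat_lit 49) (nat_lit 5) (nat_lit 53) (nat_lit 5) (nat_lit 54) (nat_lit 5) (nat_lit 291) (nat_lit 270) (nat_lit 159)) (XT.nd (nat_lit 78) (nat_lit 0) (nat_lit 0) (XT.lf (nat_lit 0) (nat_lit 2117378096) (nat_lit 228) (nat_lit 23024531104) (nat_lit 304) (nat_lit 7538285744) (nat_lit 46) (nat_lit 5) (nat_lit 49) (nat_lit 5) (nat_lit 50) (nat_lit 5) (nat_lit 292) (nat_lit 270) (nat_lit 158)) (XT.lf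 (nat_lit 0) (nat_lit 17568013294) (nat_lit 228) (nat_lit 12339668032) (nat_lit 304) (nat_lit 3798559533) (nat_lit 46) (nat_lit 5) (nat_lit 49) (nat_lit 5) (nat_lit 50) (nat_lit 5) (nat_lit 293) (nat_lit 270) (nat_lit 157))))))) (XT.nd (nat_lit 702) (nat_lit 760) (nat_lit 0) (XT.nd (nat_lit 312) (nat_lit 456) (nat_lit 0) (XT.nd (nat_lit 156) (nat_lit 228) (nat_lit 0) (XT.nd (nat_lit 78) (nat_lit 304) (nat_lit 0) (XT.lf (nat_lit 0) (nat_lit 119194142) (nat_lit 304) (nat_lit 1000282153) (nat_lit 76) (nat_lit 33664267932) (nat_lit 45) (nat_lit 5) (nat_lit 49) (nat_lit 5) (nat_lit 46) (nat_lit 5) (nat_lit 294) (nat_lit 270) (nat_lit 156)) (XT.lf (nat_lit 0) (nat_lit 4511078884) (nat_lit 380) (nat_lit 20754746966) (nat_lit 76) (nat_lit 10625900092) (nat_lit 41) (nat_lit 5) (nat_lit 46) (nat_lit 5) (nat_lit 42) (nat_lit 5) (nat_lit 295) (nat_lit 270) (nat_lit 155))) (XT.nd (nat_lit 78) (nat_lit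 228) (nat_lit 0) (XT.lf (nat_lit 0) (nat_lit 9153620630) (nat_lit 380) (nat_lit 4962781442) (nat_lit 76) (nat_lit 22937162726) (nat_lit 41) (nat_lit 5) (nat_lit 46) (nat_lit 5) (nat_lit 42) (nat_lit 5) (nat_lit 296) (nat_lit 270) (nat_lit 154)) (XT.lf (nat_lit 0) (nat_lit 11997321443) (nat_lit 228) (nat_lit 2213987185) (nat_lit 304) (nat_lit 24053046666) (nat_lit 38) (nat_lit 5) (nat_lit 41) (nat_lit 5) (nat_lit 42) (nat_lit 5) (nat_lit 297) (nat_lit 270) (nat_lit 153)))) (XT.nd (nat_lit 156) (nat_lit 228) (nat_lit 0) (XT.nd (nat_lit 78) (nat_lit 228) (nat_lit 0) (XT.lf (nat_lit 0) (nat_lit 19763670430) (nat_lit 304) (nat_lit 9721252138) (nat_lit 76) (nat_lit 10038683426) (nat_lit 38) (nat_lit 5) (nat_lit 42) (nat_lit 5) (nat_lit 39) (nat_lit 5) (nat_lit 298) (nat_lit 270) (nat_lit 152)) (XT.lf (nat_lit 0) (nat_lit 7861854728) (nat_lit 228) (nat_lit 17886845065) (nat_lit 304) (nat_lit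 15089376631) (nat_lit 35) (nat_lit 5) (nat_lit 38) (nat_lit 5) (nat_lit 39) (nat_lit 5) (nat_lit 299) (nat_lit 270) (nat_lit 151))) (XT.nd (nat_lit 78) (nat_lit 228) (nat_lit 0) (XT.lf (nat_lit 0) (nat_lit 26656404797) (nat_lit 228) (nat_lit 5537327623) (nat_lit 304) (nat_lit 10016509572) (nat_lit 35) (nat_lit 5) (nat_lit 38) (nat_lit 5) (nat_lit 39) (nat_lit 5) (nat_lit 300) (nat_lit 270) (nat_lit 150)) (XT.nd (nat_lit 78) (nat_lit 76) (nat_lit 0) (XT.lf (nat_lit 0) (nat_lit 2705111345) (nat_lit 152) (nat_lit 36410420391) (nat_lit 228) (nat_lit 4527767116) (nat_lit 33) (nat_lit 5) (nat_lit 35) (nat_lit 5) (nat_lit 36) (nat_lit 5) (nat_lit 301) (nat_lit 270) (nat_lit 149)) (XT.lf (nat_lit 0) (nat_lit 1550690857) (nat_lit 228) (nat_lit 22837403607) (nat_lit 76) (nat_lit 20741216666) (nat_lit 32) (nat_lit 5) (nat_lit 35) (nat_lit 5) (nat_lit 33) (nat_lit 5) (nat_lit 302) (nat_lit 270)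 (nat_lit 148)))))) (XT.nd (nat_lit 312) (nat_lit 380) (nat_lit 0) (XT.nd (nat_lit 156) (nat_lit 152) (nat_lit 0) (XT.nd (nat_lit 78) (nat_lit 228) (nat_lit 0) (XT.lf (nat_lit 0) (nat_lit 7777398076) (nat_lit 228) (nat_lit 3910744029) (nat_lit 76) (nat_lit 34997953756) (nat_lit 32) (nat_lit 5) (nat_lit 35) (nat_lit 5) (nat_lit 33) (nat_lit 5) (nat_lit 303) (nat_lit 270) (nat_lit 147)) (XT.lf (nat_lit 0) (nat_lit 14599386040) (nat_lit 304) (nat_lit 31852760289) (nat_lit 76) (nat_lit 1854383444) (nat_lit 29) (nat_lit 5) (nat_lit 33) (nat_lit 5) (nat_lit 30) (nat_lit 5) (nat_lit 304) (nat_lit 270) (nat_lit 146))) (XT.nd (nat_lit 78) (nat_lit 152) (nat_lit 0) (XT.lf (nat_lit 0) (nat_lit 22018120177) (nat_lit 304) (nat_lit 12229862780) (nat_lit 76) (nat_lit 15747226955) (nat_lit 29) (nat_lit 5) (nat_lit 33) (nat_lit 5) (nat_lit 30) (nat_lit 5) (nat_lit 305) (nat_lit 270) (nat_lit 145)) (XT.lf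 (nat_lit 0) (nat_lit 8646369655) (nat_lit 152) (nat_lit 21293293334) (nat_lit 228) (nat_lit 21822074013) (nat_lit 27) (nat_lit 5) (nat_lit 29) (nat_lit 5) (nat_lit 30) (nat_lit 5) (nat_lit 306) (nat_lit 270) (nat_lit 144)))) (XT.nd (nat_lit 156) (nat_lit 380) (nat_lit 0) (XT.nd (nat_lit 78) (nat_lit 0) (nat_lit 0) (XT.lf (nat_lit 0) (nat_lit 30986532510) (nat_lit 152) (nat_lit 7474825795) (nat_lit 228) (nat_lit 15145034604) (nat_lit 27) (nat_lit 5) (nat_lit 29) (nat_lit 5) (nat_lit 30) (nat_lit 5) (nat_lit 307) (nat_lit 270) (nat_lit 143)) (XT.lf (nat_lit 0) (nat_lit 47516048021) (nat_lit 228) (nat_lit 1213798309) (nat_lit 76) (nat_lit 6808095735) (nat_lit 27) (nat_lit 5) (nat_lit 30) (nat_lit 5) (nat_lit 28) (nat_lit 5) (nat_lit 308) (nat_lit 270) (nat_lit 142))) (XT.nd (nat_lit 78) (nat_lit 228) (nat_lit 0) (XT.lf (nat_lit 0) (nat_lit 21834693473) (nat_lit 152) (nat_lit 35649437022)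 (nat_lit 228) (nat_lit 58910922) (nat_lit 25) (nat_lit 5) (nat_lit 27) (nat_lit 5) (nat_lit 28) (nat_lit 5) (nat_lit 309) (nat_lit 270) (nat_lit 141)) (XT.nd (nat_lit 78) (nat_lit 152) (nat_lit 0) (XT.lf (nat_lit 0) (nat_lit 8054629558) (nat_lit 228) (nat_lit 13703786514) (nat_lit 76) (nat_lit 37882597187) (nat_lit 24) (nat_lit 5) (nat_lit 27) (nat_lit 5) (nat_lit 25) (nat_lit 5) (nat_lit 310) (nat_lit 270) (nat_lit 140)) (XT.lf (nat_lit 0) (nat_lit 9706701993) (nat_lit 152) (nat_lit 7014083511) (nat_lit 228) (nat_lit 45115608872) (nat_lit 22) (nat_lit 5) (nat_lit 24) (nat_lit 5) (nat_lit 25) (nat_lit 5) (nat_lit 311) (nat_lit 270) (nat_lit 139))))))))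
noncomputable def xc198 : XT := (XT.nd (nat_lit 1326) (nat_lit 456) (nat_lit 0) (XT.nd (nat_lit 624) (nat_lit 304) (nat_lit 0) (XT.nd (nat_lit 312) (nat_lit 304) (nat_lit 0) (XT.nd (nat_lit 156) (nat_lit 152) (nat_lit 0) (XT.nd (nat_lit 78) (nat_lit 0) (nat_lit 0) (XT.lf (nat_lit 0) (nat_lit 26185746519) (nat_lit 228) (nat_lit 29506523663) (nat_lit 76) (nat_lit 8431004153) (nat_lit 22) (nat_lit 5) (nat_lit 25) (nat_lit 5) (nat_lit 23) (nat_lit 5) (nat_lit 312) (nat_lit 270) (nat_lit 138)) (XT.lf (nat_lit 0) (nat_lit 36236475371) (nat_lit 228) (nat_lit 5871045399) (nat_lit 76) (nat_lit 24411355960) (nat_lit 22) (nat_lit 5) (nat_lit 25) (nat_lit 5) (nat_lit 23) (nat_lit 5) (nat_lit 313) (nat_lit 270) (nat_lit 137))) (XT.nd (nat_lit 78) (nat_lit 0) (nat_lit 0) (XT.lf (nat_lit 0) (nat_lit 19568852340) (nat_lit 152) (nat_lit 27524065153) (nat_lit 228) (nat_lit 21926187130) (nat_lit 20) (nat_lit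 5) (nat_lit 22) (nat_lit 5) (nat_lit 23) (nat_lit 5) (nat_lit 314) (nat_lit 270) (nat_lit 136)) (XT.lf (nat_lit 0) (nat_lit 46480953839) (nat_lit 152) (nat_lit 12108364351) (nat_lit 228) (nat_lit 13050172913) (nat_lit 20) (nat_lit 5) (nat_lit 22) (nat_lit 5) (nat_lit 23) (nat_lit 5) (nat_lit 315) (nat_lit 270) (nat_lit 135)))) (XT.nd (nat_lit 156) (nat_lit 152) (nat_lit 0) (XT.nd (nat_lit 78) (nat_lit 76) (nat_lit 0) (XT.lf (nat_lit 0) (nat_lit 289827484) (nat_lit 76) (nat_lit 70436704258) (nat_lit 152) (nat_lit 3661069350) (nat_lit 19) (nat_lit 5) (nat_lit 20) (nat_lit 5) (nat_lit 21) (nat_lit 4) (nat_lit 316) (nat_lit 270) (nat_lit 134)) (XT.lf (nat_lit 0) (nat_lit 6628494180) (nat_lit 152) (nat_lit 49673557861) (nat_lit 76) (nat_lit 20934761842) (nat_lit 18) (nat_lit 5) (nat_lit 20) (nat_lit 5) (nat_lit 19) (nat_lit 5) (nat_lit 317) (nat_lit 270) (nat_lit 133))) (XT.nd (nat_lit 78)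 (nat_lit 152) (nat_lit 0) (XT.lf (nat_lit 0) (nat_lit 17307412893) (nat_lit 152) (nat_lit 24091539536) (nat_lit 76) (nat_lit 38826641665) (nat_lit 18) (nat_lit 5) (nat_lit 20) (nat_lit 5) (nat_lit 19) (nat_lit 5) (nat_lit 318) (nat_lit 270) (nat_lit 132)) (XT.lf (nat_lit 0) (nat_lit 2857818526) (nat_lit 152) (nat_lit 25705089898) (nat_lit 228) (nat_lit 54798776495) (nat_lit 16) (nat_lit 5) (nat_lit 18) (nat_lit 5) (nat_lit 19) (nat_lit 5) (nat_lit 319) (nat_lit 270) (nat_lit 131))))) (XT.nd (nat_lit 312) (nat_lit 228) (nat_lit 0) (XT.nd (nat_lit 156) (nat_lit 76) (nat_lit 0) (XT.nd (nat_lit 78) (nat_lit 0) (nat_lit 0) (XT.lf (nat_lit 0) (nat_lit 31987871209) (nat_lit 152) (nat_lit 8799366776) (nat_lit 228) (nat_lit 45847042335) (nat_lit 16) (nat_lit 5) (nat_lit 18) (nat_lit 5) (nat_lit 19) (nat_lit 5) (nat_lit 320) (nat_lit 270) (nat_lit 130)) (XT.lf (nat_lit 0) (nat_lit 53760675774)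 (nat_lit 228) (nat_lit 27638942039) (nat_lit 76) (nat_lit 8663995946) (nat_lit 16) (nat_lit 5) (nat_lit 19) (nat_lit 5) (nat_lit 17) (nat_lit 4) (nat_lit 321) (nat_lit 270) (nat_lit 129))) (XT.nd (nat_lit 78) (nat_lit 0) (nat_lit 0) (XT.lf (nat_lit 0) (nat_lit 590594079) (nat_lit 76) (nat_lit 66943884613) (nat_lit 152) (nat_lit 26122353232) (nat_lit 15) (nat_lit 5) (nat_lit 16) (nat_lit 5) (nat_lit 17) (nat_lit 4) (nat_lit 322) (nat_lit 270) (nat_lit 128)) (XT.lf (nat_lit 0) (nat_lit 31188261232) (nat_lit 76) (nat_lit 51275049226) (nat_lit 152) (nat_lit 14943086196) (nat_lit 15) (nat_lit 5) (nat_lit 16) (nat_lit 5) (nat_lit 17) (nat_lit 4) (nat_lit 323) (nat_lit 270) (nat_lit 127)))) (XT.nd (nat_lit 156) (nat_lit 152) (nat_lit 0) (XT.nd (nat_lit 78) (nat_lit 76) (nat_lit 0) (XT.lf (nat_lit 0) (nat_lit 63313042761) (nat_lit 76) (nat_lit 34823883758) (nat_lit 152) (nat_lit 3206598430)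 (nat_lit 15) (nat_lit 5) (nat_lit 16) (nat_lit 5) (nat_lit 17) (nat_lit 4) (nat_lit 324) (nat_lit 270) (nat_lit 126)) (XT.lf (nat_lit 0) (nat_lit 8823315427) (nat_lit 152) (nat_lit 8578476225) (nat_lit 76) (nat_lit 88068683699) (nat_lit 14) (nat_lit 5) (nat_lit 16) (nat_lit 5) (nat_lit 15) (nat_lit 5) (nat_lit 325) (nat_lit 270) (nat_lit 125))) (XT.nd (nat_lit 78) (nat_lit 0) (nat_lit 0) (XT.lf (nat_lit 0) (nat_lit 21725621370) (nat_lit 228) (nat_lit 86775864179) (nat_lit 76) (nat_lit 1280728537) (nat_lit 12) (nat_lit 5) (nat_lit 15) (nat_lit 5) (nat_lit 13) (nat_lit 4) (nat_lit 326) (nat_lit 270) (nat_lit 124)) (XT.nd (nat_lit 78) (nat_lit 0) (nat_lit 0) (XT.lf (nat_lit 0) (nat_lit 35704467603) (nat_lit 228) (nat_lit 58124273717) (nat_lit 76) (nat_lit 20459229217) (nat_lit 12) (nat_lit 5) (nat_lit 15) (nat_lit 5) (nat_lit 13) (nat_lit 4) (nat_lit 327) (nat_lit 270) (nat_lit 123)) (XT.lf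 (nat_lit 0) (nat_lit 50380815599) (nat_lit 228) (nat_lit 28042564437) (nat_lit 76) (nat_lit 40595708736) (nat_lit 12) (nat_lit 5) (nat_lit 15) (nat_lit 5) (nat_lit 13) (nat_lit 4) (nat_lit 328) (nat_lit 270) (nat_lit 122))))))) (XT.nd (nat_lit 702) (nat_lit 228) (nat_lit 0) (XT.nd (nat_lit 312) (nat_lit 152) (nat_lit 0) (XT.nd (nat_lit 156) (nat_lit 0) (nat_lit 0) (XT.nd (nat_lit 78) (nat_lit 0) (nat_lit 0) (XT.lf (nat_lit 0) (nat_lit 3657964487) (nat_lit 76) (nat_lit 62188755632) (nat_lit 152) (nat_lit 58137257682) (nat_lit 11) (nat_lit 5) (nat_lit 12) (nat_lit 5) (nat_lit 13) (nat_lit 4) (nat_lit 329) (nat_lit 270) (nat_lit 121)) (XT.lf (nat_lit 0) (nat_lit 37914788644) (nat_lit 76) (nat_lit 44644703000) (nat_lit 152) (nat_lit 46613942800) (nat_lit 11) (nat_lit 5) (nat_lit 12) (nat_lit 5) (nat_lit 13) (nat_lit 4) (nat_lit 330) (nat_lit 270) (nat_lit 120))) (XT.nd (nat_lit 78) (nat_lit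 0) (nat_lit 0) (XT.lf (nat_lit 0) (nat_lit 73882258077) (nat_lit 76) (nat_lit 26224364984) (nat_lit 152) (nat_lit 34515806463) (nat_lit 11) (nat_lit 5) (nat_lit 12) (nat_lit 5) (nat_lit 13) (nat_lit 4) (nat_lit 331) (nat_lit 270) (nat_lit 119)) (XT.lf (nat_lit 0) (nat_lit 111646009618) (nat_lit 76) (nat_lit 6883883635) (nat_lit 152) (nat_lit 21814043584) (nat_lit 11) (nat_lit 5) (nat_lit 12) (nat_lit 5) (nat_lit 13) (nat_lit 4) (nat_lit 332) (nat_lit 270) (nat_lit 118)))) (XT.nd (nat_lit 156) (nat_lit 0) (nat_lit 0) (XT.nd (nat_lit 78) (nat_lit 76) (nat_lit 0) (XT.lf (nat_lit 0) (nat_lit 4891364794) (nat_lit 76) (nat_lit 133267737635) (nat_lit 76) (nat_lit 8178179827) (nat_lit 10) (nat_lit 4) (nat_lit 11) (nat_lit 5) (nat_lit 11) (nat_lit 4) (nat_lit 333) (nat_lit 270) (nat_lit 117)) (XT.lf (nat_lit 0) (nat_lit 6548638296) (nat_lit 152) (nat_lit 111668263490) (nat_lit 76) (nat_lit 34378318670)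 (nat_lit 9) (nat_lit 5) (nat_lit 11) (nat_lit 5) (nat_lit 10) (nat_lit 4) (nat_lit 334) (nat_lit 270) (nat_lit 116))) (XT.nd (nat_lit 78) (nat_lit 0) (nat_lit 0) (XT.lf (nat_lit 0) (nat_lit 21735844022) (nat_lit 152) (nat_lit 80537743363) (nat_lit 76) (nat_lit 56885821706) (nat_lit 9) (nat_lit 5) (nat_lit 11) (nat_lit 5) (nat_lit 10) (nat_lit 4) (nat_lit 335) (nat_lit 270) (nat_lit 115)) (XT.nd (nat_lit 78) (nat_lit 0) (nat_lit 0) (XT.lf (nat_lit 0) (nat_lit 37681350192) (nat_lit 152) (nat_lit 47852552488) (nat_lit 76) (nat_lit 80517958715) (nat_lit 9) (nat_lit 5) (nat_lit 11) (nat_lit 5) (nat_lit 10) (nat_lit 4) (nat_lit 336) (nat_lit 270) (nat_lit 114)) (XT.lf (nat_lit 0) (nat_lit 54423122295) (nat_lit 152) (nat_lit 13534868982) (nat_lit 76) (nat_lit 105330996691) (nat_lit 9) (nat_lit 5) (nat_lit 11) (nat_lit 5) (nat_lit 10) (nat_lit 4) (nat_lit 337) (nat_lit 270) (nat_lit 113))))))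 (XT.nd (nat_lit 312) (nat_lit 152) (nat_lit 0) (XT.nd (nat_lit 156) (nat_lit 0) (nat_lit 0) (XT.nd (nat_lit 78) (nat_lit 0) (nat_lit 0) (XT.lf (nat_lit 0) (nat_lit 23240868869) (nat_lit 76) (nat_lit 49123007921) (nat_lit 152) (nat_lit 108506000520) (nat_lit 8) (nat_lit 5) (nat_lit 9) (nat_lit 5) (nat_lit 10) (nat_lit 4) (nat_lit 338) (nat_lit 270) (nat_lit 112)) (XT.lf (nat_lit 0) (nat_lit 62323638071) (nat_lit 76) (nat_lit 29106309115) (nat_lit 152) (nat_lit 97388451103) (nat_lit 8) (nat_lit 5) (nat_lit 9) (nat_lit 5) (nat_lit 10) (nat_lit 4) (nat_lit 339) (nat_lit 270) (nat_lit 111))) (XT.nd (nat_lit 78) (nat_lit 0) (nat_lit 0) (XT.lf (nat_lit 0) (nat_lit 103358968938) (nat_lit 76) (nat_lit 8089455608) (nat_lit 152) (nat_lit 85715966620) (nat_lit 8) (nat_lit 5) (nat_lit 9) (nat_lit 5) (nat_lit 10) (nat_lit 4) (nat_lit 340) (nat_lit 270) (nat_lit 110)) (XT.lf (nat_lit 0) (nat_lit 132685201310)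 (nat_lit 152) (nat_lit 59701392110) (nat_lit 0) (nat_lit 13530222467) (nat_lit 8) (nat_lit 5) (nat_lit 10) (nat_lit 4) (nat_lit 8) (nat_lit 4) (nat_lit 341) (nat_lit 270) (nat_lit 109)))) (XT.nd (nat_lit 156) (nat_lit 76) (nat_lit 0) (XT.nd (nat_lit 78) (nat_lit 76) (nat_lit 0) (XT.lf (nat_lit 0) (nat_lit 155115608105) (nat_lit 152) (nat_lit 24026236667) (nat_lit 0) (nat_lit 35958428443) (nat_lit 8) (nat_lit 5) (nat_lit 10) (nat_lit 4) (nat_lit 8) (nat_lit 4) (nat_lit 342) (nat_lit 270) (nat_lit 108)) (XT.lf (nat_lit 0) (nat_lit 13875382927) (nat_lit 76) (nat_lit 165008002273) (nat_lit 76) (nat_lit 45848726594) (nat_lit 7) (nat_lit 4) (nat_lit 8) (nat_lit 5) (nat_lit 8) (nat_lit 4) (nat_lit 343) (nat_lit 270) (nat_lit 107))) (XT.nd (nat_lit 78) (nat_lit 76) (nat_lit 0) (XT.lf (nat_lit 0) (nat_lit 54504850119) (nat_lit 76) (nat_lit 149740829252) (nat_lit 76) (nat_lit 30579557366) (nat_lit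 7) (nat_lit 4) (nat_lit 8) (nat_lit 5) (nat_lit 8) (nat_lit 4) (nat_lit 344) (nat_lit 270) (nat_lit 106)) (XT.nd (nat_lit 78) (nat_lit 76) (nat_lit 0) (XT.lf (nat_lit 0) (nat_lit 97164485843) (nat_lit 76) (nat_lit 133710871239) (nat_lit 76) (nat_lit 14547698204) (nat_lit 7) (nat_lit 4) (nat_lit 8) (nat_lit 5) (nat_lit 8) (nat_lit 4) (nat_lit 345) (nat_lit 270) (nat_lit 105)) (XT.lf (nat_lit 0) (nat_lit 2211887011) (nat_lit 152) (nat_lit 114630615280) (nat_lit 76) (nat_lit 139706514274) (nat_lit 6) (nat_lit 5) (nat_lit 8) (nat_lit 5) (nat_lit 7) (nat_lit 4) (nat_lit 346) (nat_lit 270) (nat_lit 104))))))))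
noncomputable def xc199 : XT := (XT.nd (nat_lit 32604) (nat_lit 0) (nat_lit 2280) (XT.nd (nat_lit 31902) (nat_lit 0) (nat_lit 4712) (XT.nd (nat_lit 468) (nat_lit 0) (nat_lit 0) (XT.nd (nat_lit 156) (nat_lit 76) (nat_lit 0) (XT.nd (nat_lit 78) (nat_lit 0) (nat_lit 0) (XT.lf (nat_lit 0) (nat_lit 19319878666) (nat_lit 152) (nat_lit 79560956785) (nat_lit 76) (nat_lit 169338550546) (nat_lit 6) (nat_lit 5) (nat_lit 8) (nat_lit 5) (nat_lit 7) (nat_lit 4) (nat_lit 347) (nat_lit 270) (nat_lit 103)) (XT.lf (nat_lit 0) (nat_lit 37282627270) (nat_lit 152) (nat_lit 42738964432) (nat_lit 76) (nat_lit 200451714992) (nat_lit 6) (nat_lit 5) (nat_lit 8) (nat_lit 5) (nat_lit 7) (nat_lit 4) (nat_lit 348) (nat_lit 270) (nat_lit 102))) (XT.nd (nat_lit 78) (nat_lit 76) (nat_lit 0) (XT.lf (nat_lit 0) (nat_lit 56142901271) (nat_lit 152) (nat_lit 4076966811) (nat_lit 76) (nat_lit 233120086574) (nat_lit 6) (nat_lit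 5) (nat_lit 8) (nat_lit 5) (nat_lit 7) (nat_lit 4) (nat_lit 349) (nat_lit 270) (nat_lit 101)) (XT.lf (nat_lit 0) (nat_lit 37724508313) (nat_lit 76) (nat_lit 38810083067) (nat_lit 152) (nat_lit 230285924114) (nat_lit 5) (nat_lit 5) (nat_lit 6) (nat_lit 5) (nat_lit 7) (nat_lit 4) (nat_lit 350) (nat_lit 270) (nat_lit 100)))) (XT.nd (nat_lit 31200) (nat_lit 0) (nat_lit 5092) (XT.nd (nat_lit 31122) (nat_lit 0) (nat_lit 5092) (XT.lf (nat_lit 0) (nat_lit 144751922789) (nat_lit 152) (nat_lit 175403539019) (nat_lit 0) (nat_lit 31251484152) (nat_lit 5) (nat_lit 5) (nat_lit 7) (nat_lit 4) (nat_lit 5) (nat_lit 4) (nat_lit 353) (nat_lit 270) (nat_lit 97)) (XT.lf (nat_lit 0) (nat_lit 1582960562) (nat_lit 0) (nat_lit 1582960562) (nat_lit 684) (nat_lit 6210952666) (nat_lit 72) (nat_lit 5) (nat_lit 72) (nat_lit 3) (nat_lit 81) (nat_lit 3) (nat_lit 271) (nat_lit 271) (nat_lit 178))) (XT.nd (nat_lit 78)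 (nat_lit 0) (nat_lit 0) (XT.lf (nat_lit 0) (nat_lit 6740310198) (nat_lit 684) (nat_lit 7657407005) (nat_lit 760) (nat_lit 4811801680) (nat_lit 72) (nat_lit 5) (nat_lit 81) (nat_lit 3) (nat_lit 82) (nat_lit 5) (nat_lit 272) (nat_lit 271) (nat_lit 177)) (XT.nd (nat_lit 78) (nat_lit 0) (nat_lit 76) (XT.lf (nat_lit 76) (nat_lit 631652195) (nat_lit 0) (nat_lit 6588351650) (nat_lit 760) (nat_lit 12465570876) (nat_lit 73) (nat_lit 5) (nat_lit 72) (nat_lit 5) (nat_lit 82) (nat_lit 5) (nat_lit 273) (nat_lit 271) (nat_lit 176)) (XT.lf (nat_lit 0) (nat_lit 7870185796) (nat_lit 684) (nat_lit 10611950721) (nat_lit 760) (nat_lit 1696006024) (nat_lit 73) (nat_lit 5) (nat_lit 82) (nat_lit 5) (nat_lit 83) (nat_lit 5) (nat_lit 274) (nat_lit 271) (nat_lit 175)))))) (XT.nd (nat_lit 312) (nat_lit 456) (nat_lit 0) (XT.nd (nat_lit 156) (nat_lit 0) (nat_lit 76) (XT.nd (nat_lit 78) (nat_lit 0) (nat_lit 0) (XT.lf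 (nat_lit 0) (nat_lit 8650916936) (nat_lit 684) (nat_lit 1862293723) (nat_lit 760) (nat_lit 10177258825) (nat_lit 73) (nat_lit 5) (nat_lit 82) (nat_lit 5) (nat_lit 83) (nat_lit 5) (nat_lit 275) (nat_lit 271) (nat_lit 174)) (XT.lf (nat_lit 76) (nat_lit 7560734333) (nat_lit 0) (nat_lit 2018503434) (nat_lit 760) (nat_lit 11643778525) (nat_lit 74) (nat_lit 5) (nat_lit 73) (nat_lit 5) (nat_lit 83) (nat_lit 5) (nat_lit 276) (nat_lit 271) (nat_lit 173))) (XT.nd (nat_lit 78) (nat_lit 0) (nat_lit 0) (XT.lf (nat_lit 0) (nat_lit 10684689466) (nat_lit 684) (nat_lit 4375844369) (nat_lit 760) (nat_lit 6715150556) (nat_lit 74) (nat_lit 5) (nat_lit 83) (nat_lit 5) (nat_lit 84) (nat_lit 5) (nat_lit 277) (nat_lit 271) (nat_lit 172)) (XT.lf (nat_lit 76) (nat_lit 5512015941) (nat_lit 0) (nat_lit 6443894568) (nat_lit 760) (nat_lit 10394578825) (nat_lit 75) (nat_lit 5) (nat_lit 74) (nat_lit 5) (nat_lit 84)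 (nat_lit 5) (nat_lit 278) (nat_lit 271) (nat_lit 171)))) (XT.nd (nat_lit 156) (nat_lit 608) (nat_lit 0) (XT.nd (nat_lit 78) (nat_lit 0) (nat_lit 0) (XT.lf (nat_lit 0) (nat_lit 13398362946) (nat_lit 684) (nat_lit 6952610048) (nat_lit 760) (nat_lit 2597704944) (nat_lit 75) (nat_lit 5) (nat_lit 84) (nat_lit 5) (nat_lit 85) (nat_lit 5) (nat_lit 279) (nat_lit 271) (nat_lit 170)) (XT.lf (nat_lit 76) (nat_lit 3425247117) (nat_lit 0) (nat_lit 11638900782) (nat_lit 760) (nat_lit 8505093228) (nat_lit 76) (nat_lit 5) (nat_lit 75) (nat_lit 5) (nat_lit 85) (nat_lit 5) (nat_lit 280) (nat_lit 271) (nat_lit 169))) (XT.nd (nat_lit 78) (nat_lit 608) (nat_lit 0) (XT.lf (nat_lit 76) (nat_lit 14557186502) (nat_lit 0) (nat_lit 2366155799) (nat_lit 760) (nat_lit 7292008591) (nat_lit 76) (nat_lit 5) (nat_lit 75) (nat_lit 5) (nat_lit 85) (nat_lit 5) (nat_lit 281) (nat_lit 271) (nat_lit 168)) (XT.nd (nat_lit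 78) (nat_lit 0) (nat_lit 0) (XT.lf (nat_lit 0) (nat_lit 1271272931) (nat_lit 684) (nat_lit 17731900378) (nat_lit 760) (nat_lit 5884232255) (nat_lit 67) (nat_lit 5) (nat_lit 76) (nat_lit 5) (nat_lit 77) (nat_lit 5) (nat_lit 282) (nat_lit 271) (nat_lit 167)) (XT.lf (nat_lit 0) (nat_lit 13036218878) (nat_lit 684) (nat_lit 8345513345) (nat_lit 760) (nat_lit 4201616086) (nat_lit 67) (nat_lit 5) (nat_lit 76) (nat_lit 5) (nat_lit 77) (nat_lit 5) (nat_lit 283) (nat_lit 271) (nat_lit 166))))))) (XT.nd (nat_lit 702) (nat_lit 1064) (nat_lit 0) (XT.nd (nat_lit 312) (nat_lit 608) (nat_lit 0) (XT.nd (nat_lit 156) (nat_lit 456) (nat_lit 0) (XT.nd (nat_lit 78) (nat_lit 304) (nat_lit 0) (XT.lf (nat_lit 0) (nat_lit 23896149081) (nat_lit 760) (nat_lit 954525928) (nat_lit 76) (nat_lit 1462587783) (nat_lit 67) (nat_lit 5) (nat_lit 77) (nat_lit 5) (nat_lit 68) (nat_lit 5) (nat_lit 284) (nat_lit 271) (nat_lit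 165)) (XT.lf (nat_lit 0) (nat_lit 11441110161) (nat_lit 304) (nat_lit 15404284347) (nat_lit 380) (nat_lit 218843201) (nat_lit 63) (nat_lit 5) (nat_lit 67) (nat_lit 5) (nat_lit 68) (nat_lit 5) (nat_lit 285) (nat_lit 271) (nat_lit 164))) (XT.nd (nat_lit 78) (nat_lit 380) (nat_lit 0) (XT.lf (nat_lit 0) (nat_lit 2032658359) (nat_lit 380) (nat_lit 3401272649) (nat_lit 76) (nat_lit 22416708095) (nat_lit 62) (nat_lit 5) (nat_lit 67) (nat_lit 5) (nat_lit 63) (nat_lit 5) (nat_lit 286) (nat_lit 271) (nat_lit 163)) (XT.lf (nat_lit 0) (nat_lit 4616570702) (nat_lit 456) (nat_lit 19016239043) (nat_lit 76) (nat_lit 5032029288) (nat_lit 57) (nat_lit 5) (nat_lit 63) (nat_lit 5) (nat_lit 58) (nat_lit 5) (nat_lit 287) (nat_lit 271) (nat_lit 162)))) (XT.nd (nat_lit 156) (nat_lit 304) (nat_lit 0) (XT.nd (nat_lit 78) (nat_lit 304) (nat_lit 0) (XT.lf (nat_lit 0) (nat_lit 7471556588) (nat_lit 456) (nat_lit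 6143864626) (nat_lit 76) (nat_lit 15897250382) (nat_lit 57) (nat_lit 5) (nat_lit 63) (nat_lit 5) (nat_lit 58) (nat_lit 5) (nat_lit 288) (nat_lit 271) (nat_lit 161)) (XT.lf (nat_lit 0) (nat_lit 7609960082) (nat_lit 304) (nat_lit 2972668865) (nat_lit 380) (nat_lit 19814615728) (nat_lit 53) (nat_lit 5) (nat_lit 57) (nat_lit 5) (nat_lit 58) (nat_lit 5) (nat_lit 289) (nat_lit 271) (nat_lit 160))) (XT.nd (nat_lit 78) (nat_lit 304) (nat_lit 0) (XT.lf (nat_lit 0) (nat_lit 14077761363) (nat_lit 380) (nat_lit 9191749224) (nat_lit 76) (nat_lit 8045125495) (nat_lit 53) (nat_lit 5) (nat_lit 58) (nat_lit 5) (nat_lit 54) (nat_lit 5) (nat_lit 290) (nat_lit 271) (nat_lit 159)) (XT.nd (nat_lit 78) (nat_lit 0) (nat_lit 0) (XT.lf (nat_lit 0) (nat_lit 5195483281) (nat_lit 304) (nat_lit 12676959956) (nat_lit 380) (nat_lit 14399228462) (nat_lit 49) (nat_lit 5) (nat_lit 53) (nat_lit 5) (nat_lit 54) (nat_lit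 5) (nat_lit 291) (nat_lit 271) (nat_lit 158)) (XT.lf (nat_lit 0) (nat_lit 20615649814) (nat_lit 304) (nat_lit 1391974793) (nat_lit 380) (nat_lit 11261409821) (nat_lit 49) (nat_lit 5) (nat_lit 53) (nat_lit 5) (nat_lit 54) (nat_lit 5) (nat_lit 292) (nat_lit 271) (nat_lit 157)))))) (XT.nd (nat_lit 312) (nat_lit 456) (nat_lit 0) (XT.nd (nat_lit 156) (nat_lit 380) (nat_lit 0) (XT.nd (nat_lit 78) (nat_lit 0) (nat_lit 0) (XT.lf (nat_lit 0) (nat_lit 2398543472) (nat_lit 228) (nat_lit 24147059206) (nat_lit 304) (nat_lit 7760873691) (nat_lit 46) (nat_lit 5) (nat_lit 49) (nat_lit 5) (nat_lit 50) (nat_lit 5) (nat_lit 293) (nat_lit 271) (nat_lit 156)) (XT.lf (nat_lit 0) (nat_lit 18613362979) (nat_lit 228) (nat_lit 12929319574) (nat_lit 304) (nat_lit 3841510043) (nat_lit 46) (nat_lit 5) (nat_lit 49) (nat_lit 5) (nat_lit 50) (nat_lit 5) (nat_lit 294) (nat_lit 271) (nat_lit 155))) (XT.nd (nat_lit 78)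 (nat_lit 304) (nat_lit 0) (XT.lf (nat_lit 0) (nat_lit 260652202) (nat_lit 304) (nat_lit 886472835) (nat_lit 76) (nat_lit 35368687312) (nat_lit 45) (nat_lit 5) (nat_lit 49) (nat_lit 5) (nat_lit 46) (nat_lit 5) (nat_lit 295) (nat_lit 271) (nat_lit 154)) (XT.lf (nat_lit 0) (nat_lit 4868657796) (nat_lit 380) (nat_lit 21624859722) (nat_lit 76) (nat_lit 11185865691) (nat_lit 41) (nat_lit 5) (nat_lit 46) (nat_lit 5) (nat_lit 42) (nat_lit 5) (nat_lit 296) (nat_lit 271) (nat_lit 153)))) (XT.nd (nat_lit 156) (nat_lit 228) (nat_lit 0) (XT.nd (nat_lit 78) (nat_lit 228) (nat_lit 0) (XT.lf (nat_lit 0) (nat_lit 9737039726) (nat_lit 380) (nat_lit 5051278045) (nat_lit 76) (nat_lit 24111326190) (nat_lit 41) (nat_lit 5) (nat_lit 46) (nat_lit 5) (nat_lit 42) (nat_lit 5) (nat_lit 297) (nat_lit 271) (nat_lit 152)) (XT.lf (nat_lit 0) (nat_lit 12754255106) (nat_lit 228) (nat_lit 2289821757) (nat_lit 304) (nat_lit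 25127088748) (nat_lit 38) (nat_lit 5) (nat_lit 41) (nat_lit 5) (nat_lit 42) (nat_lit 5) (nat_lit 298) (nat_lit 271) (nat_lit 151))) (XT.nd (nat_lit 78) (nat_lit 228) (nat_lit 0) (XT.lf (nat_lit 0) (nat_lit 20868755990) (nat_lit 304) (nat_lit 10052142648) (nat_lit 76) (nat_lit 10572759404) (nat_lit 38) (nat_lit 5) (nat_lit 42) (nat_lit 5) (nat_lit 39) (nat_lit 5) (nat_lit 299) (nat_lit 271) (nat_lit 150)) (XT.nd (nat_lit 78) (nat_lit 0) (nat_lit 0) (XT.lf (nat_lit 0) (nat_lit 8407616786) (nat_lit 228) (nat_lit 18742236867) (nat_lit 304) (nat_lit 15724170981) (nat_lit 35) (nat_lit 5) (nat_lit 38) (nat_lit 5) (nat_lit 39) (nat_lit 5) (nat_lit 300) (nat_lit 271) (nat_lit 149)) (XT.lf (nat_lit 0) (nat_lit 28134624390) (nat_lit 228) (nat_lit 5777098336) (nat_lit 304) (nat_lit 10403359354) (nat_lit 35) (nat_lit 5) (nat_lit 38) (nat_lit 5) (nat_lit 39) (nat_lit 5) (nat_lit 301) (nat_lit 271)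 (nat_lit 148))))))))
noncomputable def xc200 : XT := (XT.nd (nat_lit 1326) (nat_lit 684) (nat_lit 0) (XT.nd (nat_lit 624) (nat_lit 684) (nat_lit 0) (XT.nd (nat_lit 312) (nat_lit 152) (nat_lit 0) (XT.nd (nat_lit 156) (nat_lit 228) (nat_lit 0) (XT.nd (nat_lit 78) (nat_lit 76) (nat_lit 0) (XT.lf (nat_lit 0) (nat_lit 2988431816) (nat_lit 152) (nat_lit 38188886171) (nat_lit 228) (nat_lit 4642600729) (nat_lit 33) (nat_lit 5) (nat_lit 35) (nat_lit 5) (nat_lit 36) (nat_lit 5) (nat_lit 302) (nat_lit 271) (nat_lit 147)) (XT.lf (nat_lit 0) (nat_lit 1731067585) (nat_lit 228) (nat_lit 23834637310) (nat_lit 76) (nat_lit 21814707826) (nat_lit 32) (nat_lit 5) (nat_lit 35) (nat_lit 5) (nat_lit 33) (nat_lit 5) (nat_lit 303) (nat_lit 271) (nat_lit 146))) (XT.nd (nat_lit 78) (nat_lit 228) (nat_lit 0) (XT.lf (nat_lit 0) (nat_lit 8264212919) (nat_lit 228) (nat_lit 3968532205) (nat_lit 76) (nat_lit 36782546993)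 (nat_lit 32) (nat_lit 5) (nat_lit 35) (nat_lit 5) (nat_lit 33) (nat_lit 5) (nat_lit 304) (nat_lit 271) (nat_lit 145)) (XT.lf (nat_lit 0) (nat_lit 15425378745) (nat_lit 304) (nat_lit 33305526512) (nat_lit 76) (nat_lit 1985948606) (nat_lit 29) (nat_lit 5) (nat_lit 33) (nat_lit 5) (nat_lit 30) (nat_lit 5) (nat_lit 305) (nat_lit 271) (nat_lit 144)))) (XT.nd (nat_lit 156) (nat_lit 0) (nat_lit 0) (XT.nd (nat_lit 78) (nat_lit 152) (nat_lit 0) (XT.lf (nat_lit 0) (nat_lit 23210477045) (nat_lit 304) (nat_lit 12708144689) (nat_lit 76) (nat_lit 16571584483) (nat_lit 29) (nat_lit 5) (nat_lit 33) (nat_lit 5) (nat_lit 30) (nat_lit 5) (nat_lit 306) (nat_lit 271) (nat_lit 143)) (XT.lf (nat_lit 0) (nat_lit 9209750800) (nat_lit 152) (nat_lit 22316037651) (nat_lit 228) (nat_lit 22819395765) (nat_lit 27) (nat_lit 5) (nat_lit 29) (nat_lit 5) (nat_lit 30) (nat_lit 5) (nat_lit 307) (nat_lit 271) (nat_lit 142)))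 (XT.nd (nat_lit 78) (nat_lit 0) (nat_lit 0) (XT.lf (nat_lit 0) (nat_lit 32660680718) (nat_lit 152) (nat_lit 7808642942) (nat_lit 228) (nat_lit 15812970193) (nat_lit 27) (nat_lit 5) (nat_lit 29) (nat_lit 5) (nat_lit 30) (nat_lit 5) (nat_lit 308) (nat_lit 271) (nat_lit 141)) (XT.lf (nat_lit 0) (nat_lit 49973298773) (nat_lit 228) (nat_lit 1151995885) (nat_lit 76) (nat_lit 7185306541) (nat_lit 27) (nat_lit 5) (nat_lit 30) (nat_lit 5) (nat_lit 28) (nat_lit 5) (nat_lit 309) (nat_lit 271) (nat_lit 140))))) (XT.nd (nat_lit 312) (nat_lit 304) (nat_lit 0) (XT.nd (nat_lit 156) (nat_lit 152) (nat_lit 0) (XT.nd (nat_lit 78) (nat_lit 0) (nat_lit 0) (XT.lf (nat_lit 0) (nat_lit 21029890) (nat_lit 228) (nat_lit 37369457634) (nat_lit 76) (nat_lit 23025558762) (nat_lit 24) (nat_lit 5) (nat_lit 27) (nat_lit 5) (nat_lit 25) (nat_lit 5) (nat_lit 310) (nat_lit 271) (nat_lit 139)) (XT.lf (nat_lit 0) (nat_lit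 8534414908) (nat_lit 228) (nat_lit 14271507311) (nat_lit 76) (nat_lit 39813145999) (nat_lit 24) (nat_lit 5) (nat_lit 27) (nat_lit 5) (nat_lit 25) (nat_lit 5) (nat_lit 311) (nat_lit 271) (nat_lit 138))) (XT.nd (nat_lit 78) (nat_lit 0) (nat_lit 0) (XT.lf (nat_lit 0) (nat_lit 10307610967) (nat_lit 152) (nat_lit 7324402885) (nat_lit 228) (nat_lit 47292304589) (nat_lit 22) (nat_lit 5) (nat_lit 24) (nat_lit 5) (nat_lit 25) (nat_lit 5) (nat_lit 312) (nat_lit 271) (nat_lit 137)) (XT.lf (nat_lit 0) (nat_lit 27567242981) (nat_lit 228) (nat_lit 30868669838) (nat_lit 76) (nat_lit 8889785061) (nat_lit 22) (nat_lit 5) (nat_lit 25) (nat_lit 5) (nat_lit 23) (nat_lit 5) (nat_lit 313) (nat_lit 271) (nat_lit 136)))) (XT.nd (nat_lit 156) (nat_lit 152) (nat_lit 0) (XT.nd (nat_lit 78) (nat_lit 152) (nat_lit 0) (XT.lf (nat_lit 0) (nat_lit 38117069745) (nat_lit 228) (nat_lit 6056807186) (nat_lit 76) (nat_lit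 25667381569) (nat_lit 22) (nat_lit 5) (nat_lit 25) (nat_lit 5) (nat_lit 23) (nat_lit 5) (nat_lit 314) (nat_lit 271) (nat_lit 135)) (XT.lf (nat_lit 0) (nat_lit 20653346885) (nat_lit 152) (nat_lit 28861368066) (nat_lit 228) (nat_lit 22951869670) (nat_lit 20) (nat_lit 5) (nat_lit 22) (nat_lit 5) (nat_lit 23) (nat_lit 5) (nat_lit 315) (nat_lit 271) (nat_lit 134))) (XT.nd (nat_lit 78) (nat_lit 152) (nat_lit 0) (XT.lf (nat_lit 0) (nat_lit 48906003367) (nat_lit 152) (nat_lit 12676734620) (nat_lit 228) (nat_lit 13635417924) (nat_lit 20) (nat_lit 5) (nat_lit 22) (nat_lit 5) (nat_lit 23) (nat_lit 5) (nat_lit 316) (nat_lit 271) (nat_lit 133)) (XT.nd (nat_lit 78) (nat_lit 76) (nat_lit 0) (XT.lf (nat_lit 0) (nat_lit 406378902) (nat_lit 76) (nat_lit 73919532212) (nat_lit 152) (nat_lit 3777810676) (nat_lit 19) (nat_lit 5) (nat_lit 20) (nat_lit 5) (nat_lit 21) (nat_lit 4) (nat_lit 317) (nat_lit 271)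 (nat_lit 132)) (XT.lf (nat_lit 0) (nat_lit 7021051974) (nat_lit 152) (nat_lit 52057917580) (nat_lit 76) (nat_lit 22016531573) (nat_lit 18) (nat_lit 5) (nat_lit 20) (nat_lit 5) (nat_lit 19) (nat_lit 5) (nat_lit 318) (nat_lit 271) (nat_lit 131))))))) (XT.nd (nat_lit 702) (nat_lit 228) (nat_lit 0) (XT.nd (nat_lit 312) (nat_lit 304) (nat_lit 0) (XT.nd (nat_lit 156) (nat_lit 0) (nat_lit 0) (XT.nd (nat_lit 78) (nat_lit 152) (nat_lit 0) (XT.lf (nat_lit 0) (nat_lit 18231005524) (nat_lit 152) (nat_lit 25201527776) (nat_lit 76) (nat_lit 40801337214) (nat_lit 18) (nat_lit 5) (nat_lit 20) (nat_lit 5) (nat_lit 19) (nat_lit 5) (nat_lit 319) (nat_lit 271) (nat_lit 130)) (XT.lf (nat_lit 0) (nat_lit 3093772564) (nat_lit 152) (nat_lit 26954183768) (nat_lit 228) (nat_lit 57478879913) (nat_lit 16) (nat_lit 5) (nat_lit 18) (nat_lit 5) (nat_lit 19) (nat_lit 5) (nat_lit 320) (nat_lit 271) (nat_lit 129)))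 (XT.nd (nat_lit 78) (nat_lit 0) (nat_lit 0) (XT.lf (nat_lit 0) (nat_lit 33675896305) (nat_lit 152) (nat_lit 9204896424) (nat_lit 228) (nat_lit 48082408351) (nat_lit 16) (nat_lit 5) (nat_lit 18) (nat_lit 5) (nat_lit 19) (nat_lit 5) (nat_lit 321) (nat_lit 271) (nat_lit 128)) (XT.lf (nat_lit 0) (nat_lit 56500833875) (nat_lit 228) (nat_lit 28934329990) (nat_lit 76) (nat_lit 9128944732) (nat_lit 16) (nat_lit 5) (nat_lit 19) (nat_lit 5) (nat_lit 17) (nat_lit 4) (nat_lit 322) (nat_lit 271) (nat_lit 127)))) (XT.nd (nat_lit 156) (nat_lit 228) (nat_lit 0) (XT.nd (nat_lit 78) (nat_lit 0) (nat_lit 0) (XT.lf (nat_lit 0) (nat_lit 705286819) (nat_lit 76) (nat_lit 70256887645) (nat_lit 152) (nat_lit 27374874624) (nat_lit 15) (nat_lit 5) (nat_lit 16) (nat_lit 5) (nat_lit 17) (nat_lit 4) (nat_lit 323) (nat_lit 271) (nat_lit 126)) (XT.lf (nat_lit 0) (nat_lit 32828781946) (nat_lit 76) (nat_lit 53806238641)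 (nat_lit 152) (nat_lit 15639196439) (nat_lit 15) (nat_lit 5) (nat_lit 16) (nat_lit 5) (nat_lit 17) (nat_lit 4) (nat_lit 324) (nat_lit 271) (nat_lit 125))) (XT.nd (nat_lit 78) (nat_lit 228) (nat_lit 0) (XT.lf (nat_lit 0) (nat_lit 66555940283) (nat_lit 76) (nat_lit 36534065521) (nat_lit 152) (nat_lit 3318314955) (nat_lit 15) (nat_lit 5) (nat_lit 16) (nat_lit 5) (nat_lit 17) (nat_lit 4) (nat_lit 325) (nat_lit 271) (nat_lit 124)) (XT.nd (nat_lit 78) (nat_lit 152) (nat_lit 0) (XT.lf (nat_lit 0) (nat_lit 9309297831) (nat_lit 152) (nat_lit 8932288769) (nat_lit 76) (nat_lit 92500109292) (nat_lit 14) (nat_lit 5) (nat_lit 16) (nat_lit 5) (nat_lit 15) (nat_lit 5) (nat_lit 326) (nat_lit 271) (nat_lit 123)) (XT.lf (nat_lit 0) (nat_lit 22856208105) (nat_lit 228) (nat_lit 91038975730) (nat_lit 76) (nat_lit 1373866249) (nat_lit 12) (nat_lit 5) (nat_lit 15) (nat_lit 5) (nat_lit 13) (nat_lit 4) (nat_lit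 327) (nat_lit 271) (nat_lit 122)))))) (XT.nd (nat_lit 312) (nat_lit 152) (nat_lit 0) (XT.nd (nat_lit 156) (nat_lit 76) (nat_lit 0) (XT.nd (nat_lit 78) (nat_lit 0) (nat_lit 0) (XT.lf (nat_lit 0) (nat_lit 37531886856) (nat_lit 228) (nat_lit 60958409634) (nat_lit 76) (nat_lit 21509906188) (nat_lit 12) (nat_lit 5) (nat_lit 15) (nat_lit 5) (nat_lit 13) (nat_lit 4) (nat_lit 328) (nat_lit 271) (nat_lit 121)) (XT.lf (nat_lit 0) (nat_lit 52940042923) (nat_lit 228) (nat_lit 29376047164) (nat_lit 76) (nat_lit 42651889896) (nat_lit 12) (nat_lit 5) (nat_lit 15) (nat_lit 5) (nat_lit 13) (nat_lit 4) (nat_lit 329) (nat_lit 271) (nat_lit 120))) (XT.nd (nat_lit 78) (nat_lit 0) (nat_lit 0) (XT.lf (nat_lit 0) (nat_lit 3908401020) (nat_lit 76) (nat_lit 65269982467) (nat_lit 152) (nat_lit 61002775503) (nat_lit 11) (nat_lit 5) (nat_lit 12) (nat_lit 5) (nat_lit 13) (nat_lit 4) (nat_lit 330) (nat_lit 271) (nat_lit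 119)) (XT.lf (nat_lit 0) (nat_lit 39874850276) (nat_lit 76) (nat_lit 46850070581) (nat_lit 152) (nat_lit 48905263690) (nat_lit 11) (nat_lit 5) (nat_lit 12) (nat_lit 5) (nat_lit 13) (nat_lit 4) (nat_lit 331) (nat_lit 271) (nat_lit 118)))) (XT.nd (nat_lit 156) (nat_lit 152) (nat_lit 0) (XT.nd (nat_lit 78) (nat_lit 0) (nat_lit 0) (XT.lf (nat_lit 0) (nat_lit 77637630219) (nat_lit 76) (nat_lit 27509995072) (nat_lit 152) (nat_lit 36204095596) (nat_lit 11) (nat_lit 5) (nat_lit 12) (nat_lit 5) (nat_lit 13) (nat_lit 4) (nat_lit 332) (nat_lit 271) (nat_lit 117)) (XT.lf (nat_lit 0) (nat_lit 117286652230) (nat_lit 76) (nat_lit 7203708140) (nat_lit 152) (nat_lit 22869030343) (nat_lit 11) (nat_lit 5) (nat_lit 12) (nat_lit 5) (nat_lit 13) (nat_lit 4) (nat_lit 333) (nat_lit 271) (nat_lit 116))) (XT.nd (nat_lit 78) (nat_lit 76) (nat_lit 0) (XT.lf (nat_lit 0) (nat_lit 5194674673) (nat_lit 76) (nat_lit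 139906017078) (nat_lit 76) (nat_lit 8551730676) (nat_lit 10) (nat_lit 4) (nat_lit 11) (nat_lit 5) (nat_lit 11) (nat_lit 4) (nat_lit 334) (nat_lit 271) (nat_lit 115)) (XT.nd (nat_lit 78) (nat_lit 0) (nat_lit 0) (XT.lf (nat_lit 0) (nat_lit 6908666840) (nat_lit 152) (nat_lit 117194616149) (nat_lit 76) (nat_lit 36120030353) (nat_lit 9) (nat_lit 5) (nat_lit 11) (nat_lit 5) (nat_lit 10) (nat_lit 4) (nat_lit 335) (nat_lit 271) (nat_lit 114)) (XT.lf (nat_lit 0) (nat_lit 22853680632) (nat_lit 152) (nat_lit 84510287183) (nat_lit 76) (nat_lit 59751823029) (nat_lit 9) (nat_lit 5) (nat_lit 11) (nat_lit 5) (nat_lit 10) (nat_lit 4) (nat_lit 336) (nat_lit 271) (nat_lit 113))))))))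
noncomputable def xc201 : XT := (XT.nd (nat_lit 32682) (nat_lit 0) (nat_lit 3268) (XT.nd (nat_lit 624) (nat_lit 76) (nat_lit 0) (XT.nd (nat_lit 312) (nat_lit 76) (nat_lit 0) (XT.nd (nat_lit 156) (nat_lit 76) (nat_lit 0) (XT.nd (nat_lit 78) (nat_lit 0) (nat_lit 0) (XT.lf (nat_lit 0) (nat_lit 39594983805) (nat_lit 152) (nat_lit 50193424543) (nat_lit 76) (nat_lit 84564533068) (nat_lit 9) (nat_lit 5) (nat_lit 11) (nat_lit 5) (nat_lit 10) (nat_lit 4) (nat_lit 337) (nat_lit 271) (nat_lit 112)) (XT.lf (nat_lit 0) (nat_lit 57172436604) (nat_lit 152) (nat_lit 14162321412) (nat_lit 76) (nat_lit 110617238351) (nat_lit 9) (nat_lit 5) (nat_lit 11) (nat_lit 5) (nat_lit 10) (nat_lit 4) (nat_lit 338) (nat_lit 271) (nat_lit 111))) (XT.nd (nat_lit 78) (nat_lit 0) (nat_lit 0) (XT.lf (nat_lit 0) (nat_lit 24451408315) (nat_lit 76) (nat_lit 51558236801) (nat_lit 152) (nat_lit 113902315822) (nat_lit 8) (nat_lit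 5) (nat_lit 9) (nat_lit 5) (nat_lit 10) (nat_lit 4) (nat_lit 339) (nat_lit 271) (nat_lit 110)) (XT.lf (nat_lit 0) (nat_lit 65486006643) (nat_lit 76) (nat_lit 30541699317) (nat_lit 152) (nat_lit 102230269159) (nat_lit 8) (nat_lit 5) (nat_lit 9) (nat_lit 5) (nat_lit 10) (nat_lit 4) (nat_lit 340) (nat_lit 271) (nat_lit 109)))) (XT.nd (nat_lit 156) (nat_lit 76) (nat_lit 0) (XT.nd (nat_lit 78) (nat_lit 0) (nat_lit 0) (XT.lf (nat_lit 0) (nat_lit 108570904689) (nat_lit 76) (nat_lit 8474951956) (nat_lit 152) (nat_lit 89975474952) (nat_lit 8) (nat_lit 5) (nat_lit 9) (nat_lit 5) (nat_lit 10) (nat_lit 4) (nat_lit 341) (nat_lit 271) (nat_lit 108)) (XT.lf (nat_lit 0) (nat_lit 139343563421) (nat_lit 152) (nat_lit 62643632996) (nat_lit 0) (nat_lit 14224227941) (nat_lit 8) (nat_lit 5) (nat_lit 10) (nat_lit 4) (nat_lit 8) (nat_lit 4) (nat_lit 342) (nat_lit 271) (nat_lit 107))) (XT.nd (nat_lit 78) (nat_lit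 76) (nat_lit 0) (XT.lf (nat_lit 0) (nat_lit 162894342838) (nat_lit 152) (nat_lit 25186759243) (nat_lit 0) (nat_lit 37773011151) (nat_lit 8) (nat_lit 5) (nat_lit 10) (nat_lit 4) (nat_lit 8) (nat_lit 4) (nat_lit 343) (nat_lit 271) (nat_lit 106)) (XT.lf (nat_lit 0) (nat_lit 14609283440) (nat_lit 76) (nat_lit 173240758849) (nat_lit 76) (nat_lit 48117526013) (nat_lit 7) (nat_lit 4) (nat_lit 8) (nat_lit 5) (nat_lit 8) (nat_lit 4) (nat_lit 344) (nat_lit 271) (nat_lit 105))))) (XT.nd (nat_lit 312) (nat_lit 0) (nat_lit 0) (XT.nd (nat_lit 156) (nat_lit 76) (nat_lit 0) (XT.nd (nat_lit 78) (nat_lit 0) (nat_lit 0) (XT.lf (nat_lit 0) (nat_lit 57268312973) (nat_lit 76) (nat_lit 157211067345) (nat_lit 76) (nat_lit 32086023890) (nat_lit 7) (nat_lit 4) (nat_lit 8) (nat_lit 5) (nat_lit 8) (nat_lit 4) (nat_lit 345) (nat_lit 271) (nat_lit 104)) (XT.lf (nat_lit 0) (nat_lit 102059110467) (nat_lit 76) (nat_lit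 140380411592) (nat_lit 76) (nat_lit 15253643738) (nat_lit 7) (nat_lit 4) (nat_lit 8) (nat_lit 5) (nat_lit 8) (nat_lit 4) (nat_lit 346) (nat_lit 271) (nat_lit 103))) (XT.nd (nat_lit 78) (nat_lit 0) (nat_lit 0) (XT.lf (nat_lit 0) (nat_lit 2342246296) (nat_lit 152) (nat_lit 120326805229) (nat_lit 76) (nat_lit 146706407307) (nat_lit 6) (nat_lit 5) (nat_lit 8) (nat_lit 5) (nat_lit 7) (nat_lit 4) (nat_lit 347) (nat_lit 271) (nat_lit 102)) (XT.lf (nat_lit 0) (nat_lit 20304696347) (nat_lit 152) (nat_lit 83505346705) (nat_lit 76) (nat_lit 177819351711) (nat_lit 6) (nat_lit 5) (nat_lit 8) (nat_lit 5) (nat_lit 7) (nat_lit 4) (nat_lit 348) (nat_lit 271) (nat_lit 101)))) (XT.nd (nat_lit 31512) (nat_lit 0) (nat_lit 5016) (XT.nd (nat_lit 78) (nat_lit 0) (nat_lit 0) (XT.lf (nat_lit 0) (nat_lit 39164686012) (nat_lit 152) (nat_lit 44843857493) (nat_lit 76) (nat_lit 210487513729) (nat_lit 6) (nat_lit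 5) (nat_lit 8) (nat_lit 5) (nat_lit 7) (nat_lit 4) (nat_lit 349) (nat_lit 271) (nat_lit 100)) (XT.lf (nat_lit 0) (nat_lit 58967120028) (nat_lit 152) (nat_lit 4250286427) (nat_lit 76) (nat_lit 244788674700) (nat_lit 6) (nat_lit 5) (nat_lit 8) (nat_lit 5) (nat_lit 7) (nat_lit 4) (nat_lit 350) (nat_lit 271) (nat_lit 99))) (XT.nd (nat_lit 78) (nat_lit 0) (nat_lit 0) (XT.lf (nat_lit 0) (nat_lit 1747042594) (nat_lit 0) (nat_lit 1747042594) (nat_lit 684) (nat_lit 6342583898) (nat_lit 72) (nat_lit 5) (nat_lit 72) (nat_lit 3) (nat_lit 81) (nat_lit 3) (nat_lit 272) (nat_lit 272) (nat_lit 176)) (XT.nd (nat_lit 78) (nat_lit 0) (nat_lit 0) (XT.lf (nat_lit 0) (nat_lit 7398357992) (nat_lit 684) (nat_lit 7858737440) (nat_lit 760) (nat_lit 4895790649) (nat_lit 72) (nat_lit 5) (nat_lit 81) (nat_lit 3) (nat_lit 82) (nat_lit 5) (nat_lit 273) (nat_lit 272) (nat_lit 175)) (XT.lf (nat_lit 76) (nat_lit 841846657)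 (nat_lit 0) (nat_lit 7047691044) (nat_lit 760) (nat_lit 12763882281) (nat_lit 73) (nat_lit 5) (nat_lit 72) (nat_lit 5) (nat_lit 82) (nat_lit 5) (nat_lit 274) (nat_lit 272) (nat_lit 174))))))) (XT.nd (nat_lit 702) (nat_lit 1368) (nat_lit 0) (XT.nd (nat_lit 312) (nat_lit 456) (nat_lit 0) (XT.nd (nat_lit 156) (nat_lit 0) (nat_lit 0) (XT.nd (nat_lit 78) (nat_lit 0) (nat_lit 0) (XT.lf (nat_lit 0) (nat_lit 8555604820) (nat_lit 684) (nat_lit 10954858952) (nat_lit 760) (nat_lit 1661031561) (nat_lit 73) (nat_lit 5) (nat_lit 82) (nat_lit 5) (nat_lit 83) (nat_lit 5) (nat_lit 275) (nat_lit 272) (nat_lit 173)) (XT.lf (nat_lit 0) (nat_lit 9361472054) (nat_lit 684) (nat_lit 1776656690) (nat_lit 760) (nat_lit 10572050561) (nat_lit 73) (nat_lit 5) (nat_lit 82) (nat_lit 5) (nat_lit 83) (nat_lit 5) (nat_lit 276) (nat_lit 272) (nat_lit 172))) (XT.nd (nat_lit 78) (nat_lit 0) (nat_lit 76) (XT.lf (nat_lit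 76) (nat_lit 8114639677) (nat_lit 0) (nat_lit 2211076515) (nat_lit 760) (nat_lit 11944205384) (nat_lit 74) (nat_lit 5) (nat_lit 73) (nat_lit 5) (nat_lit 83) (nat_lit 5) (nat_lit 277) (nat_lit 272) (nat_lit 171)) (XT.lf (nat_lit 0) (nat_lit 11472338849) (nat_lit 684) (nat_lit 4412212741) (nat_lit 760) (nat_lit 6966417985) (nat_lit 74) (nat_lit 5) (nat_lit 83) (nat_lit 5) (nat_lit 84) (nat_lit 5) (nat_lit 278) (nat_lit 272) (nat_lit 170)))) (XT.nd (nat_lit 156) (nat_lit 532) (nat_lit 0) (XT.nd (nat_lit 78) (nat_lit 0) (nat_lit 76) (XT.lf (nat_lit 76) (nat_lit 5967098265) (nat_lit 0) (nat_lit 6830757513) (nat_lit 760) (nat_lit 10657161689) (nat_lit 75) (nat_lit 5) (nat_lit 74) (nat_lit 5) (nat_lit 84) (nat_lit 5) (nat_lit 279) (nat_lit 272) (nat_lit 169)) (XT.lf (nat_lit 0) (nat_lit 14299843084) (nat_lit 684) (nat_lit 7115966729) (nat_lit 760) (nat_lit 2667972640) (nat_lit 75) (nat_lit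 5) (nat_lit 84) (nat_lit 5) (nat_lit 85) (nat_lit 5) (nat_lit 280) (nat_lit 272) (nat_lit 168))) (XT.nd (nat_lit 78) (nat_lit 608) (nat_lit 0) (XT.lf (nat_lit 76) (nat_lit 3777811136) (nat_lit 0) (nat_lit 12262910015) (nat_lit 760) (nat_lit 8695098232) (nat_lit 76) (nat_lit 5) (nat_lit 75) (nat_lit 5) (nat_lit 85) (nat_lit 5) (nat_lit 281) (nat_lit 272) (nat_lit 167)) (XT.nd (nat_lit 78) (nat_lit 608) (nat_lit 0) (XT.lf (nat_lit 76) (nat_lit 15457714078) (nat_lit 0) (nat_lit 2524524726) (nat_lit 760) (nat_lit 7432561728) (nat_lit 76) (nat_lit 5) (nat_lit 75) (nat_lit 5) (nat_lit 85) (nat_lit 5) (nat_lit 282) (nat_lit 272) (nat_lit 166)) (XT.lf (nat_lit 0) (nat_lit 1516470594) (nat_lit 684) (nat_lit 18641700931) (nat_lit 760) (nat_lit 5962713354) (nat_lit 67) (nat_lit 5) (nat_lit 76) (nat_lit 5) (nat_lit 77) (nat_lit 5) (nat_lit 283) (nat_lit 272) (nat_lit 165)))))) (XT.nd (nat_lit 312)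 (nat_lit 988) (nat_lit 0) (XT.nd (nat_lit 156) (nat_lit 380) (nat_lit 0) (XT.nd (nat_lit 78) (nat_lit 0) (nat_lit 0) (XT.lf (nat_lit 0) (nat_lit 13861014599) (nat_lit 684) (nat_lit 8784889521) (nat_lit 760) (nat_lit 4206239257) (nat_lit 67) (nat_lit 5) (nat_lit 76) (nat_lit 5) (nat_lit 77) (nat_lit 5) (nat_lit 284) (nat_lit 272) (nat_lit 164)) (XT.lf (nat_lit 0) (nat_lit 25276423426) (nat_lit 760) (nat_lit 827297772) (nat_lit 76) (nat_lit 1515342739) (nat_lit 67) (nat_lit 5) (nat_lit 77) (nat_lit 5) (nat_lit 68) (nat_lit 5) (nat_lit 285) (nat_lit 272) (nat_lit 163))) (XT.nd (nat_lit 78) (nat_lit 76) (nat_lit 0) (XT.lf (nat_lit 0) (nat_lit 12185298276) (nat_lit 304) (nat_lit 16181688564) (nat_lit 380) (nat_lit 40936006) (nat_lit 63) (nat_lit 5) (nat_lit 67) (nat_lit 5) (nat_lit 68) (nat_lit 5) (nat_lit 286) (nat_lit 272) (nat_lit 162)) (XT.lf (nat_lit 0) (nat_lit 2308391274) (nat_lit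 380) (nat_lit 3401135436) (nat_lit 76) (nat_lit 23524430851) (nat_lit 62) (nat_lit 5) (nat_lit 67) (nat_lit 5) (nat_lit 63) (nat_lit 5) (nat_lit 287) (nat_lit 272) (nat_lit 161)))) (XT.nd (nat_lit 156) (nat_lit 608) (nat_lit 0) (XT.nd (nat_lit 78) (nat_lit 0) (nat_lit 0) (XT.lf (nat_lit 0) (nat_lit 5015808092) (nat_lit 456) (nat_lit 19790674724) (nat_lit 76) (nat_lit 5282693442) (nat_lit 57) (nat_lit 5) (nat_lit 63) (nat_lit 5) (nat_lit 58) (nat_lit 5) (nat_lit 288) (nat_lit 272) (nat_lit 160)) (XT.lf (nat_lit 0) (nat_lit 8005523804) (nat_lit 456) (nat_lit 6283080456) (nat_lit 76) (nat_lit 16691220225) (nat_lit 57) (nat_lit 5) (nat_lit 63) (nat_lit 5) (nat_lit 58) (nat_lit 5) (nat_lit 289) (nat_lit 272) (nat_lit 159))) (XT.nd (nat_lit 78) (nat_lit 304) (nat_lit 0) (XT.lf (nat_lit 0) (nat_lit 8155726175) (nat_lit 304) (nat_lit 3111366314) (nat_lit 380) (nat_lit 20641808555) (nat_lit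 53) (nat_lit 5) (nat_lit 57) (nat_lit 5) (nat_lit 58) (nat_lit 5) (nat_lit 290) (nat_lit 272) (nat_lit 158)) (XT.nd (nat_lit 78) (nat_lit 304) (nat_lit 0) (XT.lf (nat_lit 0) (nat_lit 14929732501) (nat_lit 380) (nat_lit 9486271138) (nat_lit 76) (nat_lit 8456541751) (nat_lit 53) (nat_lit 5) (nat_lit 58) (nat_lit 5) (nat_lit 54) (nat_lit 5) (nat_lit 291) (nat_lit 272) (nat_lit 157)) (XT.lf (nat_lit 0) (nat_lit 5617660644) (nat_lit 304) (nat_lit 13291971818) (nat_lit 380) (nat_lit 14968046047) (nat_lit 49) (nat_lit 5) (nat_lit 53) (nat_lit 5) (nat_lit 54) (nat_lit 5) (nat_lit 292) (nat_lit 272) (nat_lit 156))))))))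
noncomputable def xc202 : XT := (XT.nd (nat_lit 1326) (nat_lit 988) (nat_lit 0) (XT.nd (nat_lit 624) (nat_lit 836) (nat_lit 0) (XT.nd (nat_lit 312) (nat_lit 532) (nat_lit 0) (XT.nd (nat_lit 156) (nat_lit 76) (nat_lit 0) (XT.nd (nat_lit 78) (nat_lit 228) (nat_lit 0) (XT.lf (nat_lit 0) (nat_lit 21801102018) (nat_lit 304) (nat_lit 1443634356) (nat_lit 380) (nat_lit 11680533800) (nat_lit 49) (nat_lit 5) (nat_lit 53) (nat_lit 5) (nat_lit 54) (nat_lit 5) (nat_lit 293) (nat_lit 272) (nat_lit 155)) (XT.lf (nat_lit 0) (nat_lit 2677469712) (nat_lit 228) (nat_lit 25328381823) (nat_lit 304) (nat_lit 8008938835) (nat_lit 46) (nat_lit 5) (nat_lit 49) (nat_lit 5) (nat_lit 50) (nat_lit 5) (nat_lit 294) (nat_lit 272) (nat_lit 154))) (XT.nd (nat_lit 78) (nat_lit 76) (nat_lit 0) (XT.lf (nat_lit 0) (nat_lit 19695458811) (nat_lit 228) (nat_lit 13550994750) (nat_lit 304) (nat_lit 3900272650) (nat_lit 46)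 (nat_lit 5) (nat_lit 49) (nat_lit 5) (nat_lit 50) (nat_lit 5) (nat_lit 295) (nat_lit 272) (nat_lit 153)) (XT.lf (nat_lit 0) (nat_lit 396585812) (nat_lit 304) (nat_lit 782203800) (nat_lit 76) (nat_lit 37156356131) (nat_lit 45) (nat_lit 5) (nat_lit 49) (nat_lit 5) (nat_lit 46) (nat_lit 5) (nat_lit 296) (nat_lit 272) (nat_lit 152)))) (XT.nd (nat_lit 156) (nat_lit 228) (nat_lit 0) (XT.nd (nat_lit 78) (nat_lit 0) (nat_lit 0) (XT.lf (nat_lit 0) (nat_lit 5231841224) (nat_lit 380) (nat_lit 22554062261) (nat_lit 76) (nat_lit 11771164050) (nat_lit 41) (nat_lit 5) (nat_lit 46) (nat_lit 5) (nat_lit 42) (nat_lit 5) (nat_lit 297) (nat_lit 272) (nat_lit 151)) (XT.lf (nat_lit 0) (nat_lit 10337939843) (nat_lit 380) (nat_lit 5159041521) (nat_lit 76) (nat_lit 25341659237) (nat_lit 41) (nat_lit 5) (nat_lit 46) (nat_lit 5) (nat_lit 42) (nat_lit 5) (nat_lit 298) (nat_lit 272) (nat_lit 150))) (XT.nd (nat_lit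 78) (nat_lit 0) (nat_lit 0) (XT.lf (nat_lit 0) (nat_lit 13534432796) (nat_lit 228) (nat_lit 2372689454) (nat_lit 304) (nat_lit 26266789896) (nat_lit 38) (nat_lit 5) (nat_lit 41) (nat_lit 5) (nat_lit 42) (nat_lit 5) (nat_lit 299) (nat_lit 272) (nat_lit 149)) (XT.lf (nat_lit 0) (nat_lit 22018227384) (nat_lit 304) (nat_lit 10414004114) (nat_lit 76) (nat_lit 11130550940) (nat_lit 38) (nat_lit 5) (nat_lit 42) (nat_lit 5) (nat_lit 39) (nat_lit 5) (nat_lit 300) (nat_lit 272) (nat_lit 148))))) (XT.nd (nat_lit 312) (nat_lit 380) (nat_lit 0) (XT.nd (nat_lit 156) (nat_lit 228) (nat_lit 0) (XT.nd (nat_lit 78) (nat_lit 0) (nat_lit 0) (XT.lf (nat_lit 0) (nat_lit 8966473200) (nat_lit 228) (nat_lit 19644019503) (nat_lit 304) (nat_lit 16401831248) (nat_lit 35) (nat_lit 5) (nat_lit 38) (nat_lit 5) (nat_lit 39) (nat_lit 5) (nat_lit 301) (nat_lit 272) (nat_lit 147)) (XT.lf (nat_lit 0) (nat_lit 29673237110)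 (nat_lit 228) (nat_lit 6032306389) (nat_lit 304) (nat_lit 10820148005) (nat_lit 35) (nat_lit 5) (nat_lit 38) (nat_lit 5) (nat_lit 39) (nat_lit 5) (nat_lit 302) (nat_lit 272) (nat_lit 146))) (XT.nd (nat_lit 78) (nat_lit 76) (nat_lit 0) (XT.lf (nat_lit 0) (nat_lit 3272152639) (nat_lit 152) (nat_lit 40060185137) (nat_lit 228) (nat_lit 4773547325) (nat_lit 33) (nat_lit 5) (nat_lit 35) (nat_lit 5) (nat_lit 36) (nat_lit 5) (nat_lit 303) (nat_lit 272) (nat_lit 145)) (XT.lf (nat_lit 0) (nat_lit 1910901858) (nat_lit 228) (nat_lit 24895179628) (nat_lit 76) (nat_lit 22938486597) (nat_lit 32) (nat_lit 5) (nat_lit 35) (nat_lit 5) (nat_lit 33) (nat_lit 5) (nat_lit 304) (nat_lit 272) (nat_lit 144)))) (XT.nd (nat_lit 156) (nat_lit 152) (nat_lit 0) (XT.nd (nat_lit 78) (nat_lit 228) (nat_lit 0) (XT.lf (nat_lit 0) (nat_lit 8766262511) (nat_lit 228) (nat_lit 4042016388) (nat_lit 76) (nat_lit 38653144228)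 (nat_lit 32) (nat_lit 5) (nat_lit 35) (nat_lit 5) (nat_lit 33) (nat_lit 5) (nat_lit 305) (nat_lit 272) (nat_lit 143)) (XT.lf (nat_lit 0) (nat_lit 16283743738) (nat_lit 304) (nat_lit 34843934999) (nat_lit 76) (nat_lit 2120480493) (nat_lit 29) (nat_lit 5) (nat_lit 33) (nat_lit 5) (nat_lit 30) (nat_lit 5) (nat_lit 306) (nat_lit 272) (nat_lit 142))) (XT.nd (nat_lit 78) (nat_lit 152) (nat_lit 0) (XT.lf (nat_lit 0) (nat_lit 24453949523) (nat_lit 304) (nat_lit 13222725411) (nat_lit 76) (nat_lit 17433720333) (nat_lit 29) (nat_lit 5) (nat_lit 33) (nat_lit 5) (nat_lit 30) (nat_lit 5) (nat_lit 307) (nat_lit 272) (nat_lit 141)) (XT.nd (nat_lit 78) (nat_lit 0) (nat_lit 0) (XT.lf (nat_lit 0) (nat_lit 9789116037) (nat_lit 152) (nat_lit 23393816540) (nat_lit 228) (nat_lit 23875302561) (nat_lit 27) (nat_lit 5) (nat_lit 29) (nat_lit 5) (nat_lit 30) (nat_lit 5) (nat_lit 308) (nat_lit 272) (nat_lit 140))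 (XT.lf (nat_lit 0) (nat_lit 34406931609) (nat_lit 152) (nat_lit 8162862715) (nat_lit 228) (nat_lit 16522606328) (nat_lit 27) (nat_lit 5) (nat_lit 29) (nat_lit 5) (nat_lit 30) (nat_lit 5) (nat_lit 309) (nat_lit 272) (nat_lit 139))))))) (XT.nd (nat_lit 702) (nat_lit 380) (nat_lit 0) (XT.nd (nat_lit 312) (nat_lit 228) (nat_lit 0) (XT.nd (nat_lit 156) (nat_lit 152) (nat_lit 0) (XT.nd (nat_lit 78) (nat_lit 228) (nat_lit 0) (XT.lf (nat_lit 0) (nat_lit 52545839766) (nat_lit 228) (nat_lit 1098491516) (nat_lit 76) (nat_lit 7577956013) (nat_lit 27) (nat_lit 5) (nat_lit 30) (nat_lit 5) (nat_lit 28) (nat_lit 5) (nat_lit 310) (nat_lit 272) (nat_lit 138)) (XT.lf (nat_lit 0) (nat_lit 95466025) (nat_lit 228) (nat_lit 39126055728) (nat_lit 76) (nat_lit 24211521416) (nat_lit 24) (nat_lit 5) (nat_lit 27) (nat_lit 5) (nat_lit 25) (nat_lit 5) (nat_lit 311) (nat_lit 272) (nat_lit 137))) (XT.nd (nat_lit 78)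 (nat_lit 152) (nat_lit 0) (XT.lf (nat_lit 0) (nat_lit 9031025787) (nat_lit 228) (nat_lit 14878535259) (nat_lit 76) (nat_lit 41836836362) (nat_lit 24) (nat_lit 5) (nat_lit 27) (nat_lit 5) (nat_lit 25) (nat_lit 5) (nat_lit 312) (nat_lit 272) (nat_lit 136)) (XT.lf (nat_lit 0) (nat_lit 10927820426) (nat_lit 152) (nat_lit 7653992823) (nat_lit 228) (nat_lit 49585187641) (nat_lit 22) (nat_lit 5) (nat_lit 24) (nat_lit 5) (nat_lit 25) (nat_lit 5) (nat_lit 313) (nat_lit 272) (nat_lit 135)))) (XT.nd (nat_lit 156) (nat_lit 228) (nat_lit 0) (XT.nd (nat_lit 78) (nat_lit 0) (nat_lit 0) (XT.lf (nat_lit 0) (nat_lit 29011100944) (nat_lit 228) (nat_lit 32309445727) (nat_lit 76) (nat_lit 9368043658) (nat_lit 22) (nat_lit 5) (nat_lit 25) (nat_lit 5) (nat_lit 23) (nat_lit 5) (nat_lit 314) (nat_lit 272) (nat_lit 134)) (XT.lf (nat_lit 0) (nat_lit 40085300199) (nat_lit 228) (nat_lit 6261878399) (nat_lit 76)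 (nat_lit 26982911927) (nat_lit 22) (nat_lit 5) (nat_lit 25) (nat_lit 5) (nat_lit 23) (nat_lit 5) (nat_lit 315) (nat_lit 272) (nat_lit 133))) (XT.nd (nat_lit 78) (nat_lit 76) (nat_lit 0) (XT.lf (nat_lit 0) (nat_lit 21782206454) (nat_lit 152) (nat_lit 30269152709) (nat_lit 228) (nat_lit 24035402549) (nat_lit 20) (nat_lit 5) (nat_lit 22) (nat_lit 5) (nat_lit 23) (nat_lit 5) (nat_lit 316) (nat_lit 272) (nat_lit 132)) (XT.nd (nat_lit 78) (nat_lit 76) (nat_lit 0) (XT.lf (nat_lit 0) (nat_lit 51442915178) (nat_lit 152) (nat_lit 13276967770) (nat_lit 228) (nat_lit 14256178721) (nat_lit 20) (nat_lit 5) (nat_lit 22) (nat_lit 5) (nat_lit 23) (nat_lit 5) (nat_lit 317) (nat_lit 272) (nat_lit 131)) (XT.lf (nat_lit 0) (nat_lit 519269317) (nat_lit 76) (nat_lit 77580128090) (nat_lit 152) (nat_lit 3906554142) (nat_lit 19) (nat_lit 5) (nat_lit 20) (nat_lit 5) (nat_lit 21) (nat_lit 4) (nat_lit 318) (nat_lit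 272) (nat_lit 130)))))) (XT.nd (nat_lit 312) (nat_lit 152) (nat_lit 0) (XT.nd (nat_lit 156) (nat_lit 152) (nat_lit 0) (XT.nd (nat_lit 78) (nat_lit 0) (nat_lit 0) (XT.lf (nat_lit 0) (nat_lit 7427554083) (nat_lit 152) (nat_lit 54570728948) (nat_lit 76) (nat_lit 23149132881) (nat_lit 18) (nat_lit 5) (nat_lit 20) (nat_lit 5) (nat_lit 19) (nat_lit 5) (nat_lit 319) (nat_lit 272) (nat_lit 129)) (XT.lf (nat_lit 0) (nat_lit 19195364857) (nat_lit 152) (nat_lit 26375809392) (nat_lit 76) (nat_lit 42871665722) (nat_lit 18) (nat_lit 5) (nat_lit 20) (nat_lit 5) (nat_lit 19) (nat_lit 5) (nat_lit 320) (nat_lit 272) (nat_lit 128))) (XT.nd (nat_lit 78) (nat_lit 0) (nat_lit 0) (XT.lf (nat_lit 0) (nat_lit 3332872178) (nat_lit 152) (nat_lit 28269094203) (nat_lit 228) (nat_lit 60298551431) (nat_lit 16) (nat_lit 5) (nat_lit 18) (nat_lit 5) (nat_lit 19) (nat_lit 5) (nat_lit 321) (nat_lit 272) (nat_lit 127))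 (XT.lf (nat_lit 0) (nat_lit 35440082535) (nat_lit 152) (nat_lit 9633904337) (nat_lit 228) (nat_lit 50434840694) (nat_lit 16) (nat_lit 5) (nat_lit 18) (nat_lit 5) (nat_lit 19) (nat_lit 5) (nat_lit 322) (nat_lit 272) (nat_lit 126)))) (XT.nd (nat_lit 156) (nat_lit 76) (nat_lit 0) (XT.nd (nat_lit 78) (nat_lit 76) (nat_lit 0) (XT.lf (nat_lit 0) (nat_lit 59373153857) (nat_lit 228) (nat_lit 30302534788) (nat_lit 76) (nat_lit 9614189237) (nat_lit 16) (nat_lit 5) (nat_lit 19) (nat_lit 5) (nat_lit 17) (nat_lit 4) (nat_lit 323) (nat_lit 272) (nat_lit 125)) (XT.lf (nat_lit 0) (nat_lit 817796543) (nat_lit 76) (nat_lit 73738719602) (nat_lit 152) (nat_lit 28695004959) (nat_lit 15) (nat_lit 5) (nat_lit 16) (nat_lit 5) (nat_lit 17) (nat_lit 4) (nat_lit 324) (nat_lit 272) (nat_lit 124))) (XT.nd (nat_lit 78) (nat_lit 76) (nat_lit 0) (XT.lf (nat_lit 0) (nat_lit 34543788075) (nat_lit 76) (nat_lit 56467014930)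 (nat_lit 152) (nat_lit 16374857788) (nat_lit 15) (nat_lit 5) (nat_lit 16) (nat_lit 5) (nat_lit 17) (nat_lit 4) (nat_lit 325) (nat_lit 272) (nat_lit 123)) (XT.nd (nat_lit 78) (nat_lit 76) (nat_lit 0) (XT.lf (nat_lit 0) (nat_lit 69953801137) (nat_lit 76) (nat_lit 38332639613) (nat_lit 152) (nat_lit 3440136919) (nat_lit 15) (nat_lit 5) (nat_lit 16) (nat_lit 5) (nat_lit 17) (nat_lit 4) (nat_lit 326) (nat_lit 272) (nat_lit 122)) (XT.lf (nat_lit 0) (nat_lit 9815412730) (nat_lit 152) (nat_lit 9310775074) (nat_lit 76) (nat_lit 97150503789) (nat_lit 14) (nat_lit 5) (nat_lit 16) (nat_lit 5) (nat_lit 15) (nat_lit 5) (nat_lit 327) (nat_lit 272) (nat_lit 121))))))))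
noncomputable def xc203 : XT := (XT.nd (nat_lit 1326) (nat_lit 152) (nat_lit 0) (XT.nd (nat_lit 624) (nat_lit 152) (nat_lit 0) (XT.nd (nat_lit 312) (nat_lit 76) (nat_lit 0) (XT.nd (nat_lit 156) (nat_lit 76) (nat_lit 0) (XT.nd (nat_lit 78) (nat_lit 0) (nat_lit 0) (XT.lf (nat_lit 0) (nat_lit 24039205055) (nat_lit 228) (nat_lit 95522279022) (nat_lit 76) (nat_lit 1468955285) (nat_lit 12) (nat_lit 5) (nat_lit 15) (nat_lit 5) (nat_lit 13) (nat_lit 4) (nat_lit 328) (nat_lit 272) (nat_lit 120)) (XT.lf (nat_lit 0) (nat_lit 39446754098) (nat_lit 228) (nat_lit 63940953454) (nat_lit 76) (nat_lit 22610540281) (nat_lit 12) (nat_lit 5) (nat_lit 15) (nat_lit 5) (nat_lit 13) (nat_lit 4) (nat_lit 329) (nat_lit 272) (nat_lit 119))) (XT.nd (nat_lit 78) (nat_lit 76) (nat_lit 0) (XT.lf (nat_lit 0) (nat_lit 55623495451) (nat_lit 228) (nat_lit 30782586035) (nat_lit 76) (nat_lit 44808426090) (nat_lit 12) (nat_lit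 5) (nat_lit 15) (nat_lit 5) (nat_lit 13) (nat_lit 4) (nat_lit 330) (nat_lit 272) (nat_lit 118)) (XT.lf (nat_lit 0) (nat_lit 4165080309) (nat_lit 76) (nat_lit 68507893430) (nat_lit 152) (nat_lit 64015413087) (nat_lit 11) (nat_lit 5) (nat_lit 12) (nat_lit 5) (nat_lit 13) (nat_lit 4) (nat_lit 331) (nat_lit 272) (nat_lit 117)))) (XT.nd (nat_lit 156) (nat_lit 76) (nat_lit 0) (XT.nd (nat_lit 78) (nat_lit 0) (nat_lit 0) (XT.lf (nat_lit 0) (nat_lit 41926934920) (nat_lit 76) (nat_lit 49168204434) (nat_lit 152) (nat_lit 51314811455) (nat_lit 11) (nat_lit 5) (nat_lit 12) (nat_lit 5) (nat_lit 13) (nat_lit 4) (nat_lit 332) (nat_lit 272) (nat_lit 116)) (XT.lf (nat_lit 0) (nat_lit 81575075664) (nat_lit 76) (nat_lit 28862285610) (nat_lit 152) (nat_lit 37980285690) (nat_lit 11) (nat_lit 5) (nat_lit 12) (nat_lit 5) (nat_lit 13) (nat_lit 4) (nat_lit 333) (nat_lit 272) (nat_lit 115))) (XT.nd (nat_lit 78)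 (nat_lit 76) (nat_lit 0) (XT.lf (nat_lit 0) (nat_lit 123203902874) (nat_lit 76) (nat_lit 7541789532) (nat_lit 152) (nat_lit 23980086922) (nat_lit 11) (nat_lit 5) (nat_lit 12) (nat_lit 5) (nat_lit 13) (nat_lit 4) (nat_lit 334) (nat_lit 272) (nat_lit 114)) (XT.lf (nat_lit 0) (nat_lit 5507688806) (nat_lit 76) (nat_lit 146878544744) (nat_lit 76) (nat_lit 8947246333) (nat_lit 10) (nat_lit 4) (nat_lit 11) (nat_lit 5) (nat_lit 11) (nat_lit 4) (nat_lit 335) (nat_lit 272) (nat_lit 113))))) (XT.nd (nat_lit 312) (nat_lit 76) (nat_lit 0) (XT.nd (nat_lit 156) (nat_lit 0) (nat_lit 0) (XT.nd (nat_lit 78) (nat_lit 0) (nat_lit 0) (XT.lf (nat_lit 0) (nat_lit 7283666286) (nat_lit 152) (nat_lit 123002591387) (nat_lit 76) (nat_lit 37946708288) (nat_lit 9) (nat_lit 5) (nat_lit 11) (nat_lit 5) (nat_lit 10) (nat_lit 4) (nat_lit 336) (nat_lit 272) (nat_lit 112)) (XT.lf (nat_lit 0) (nat_lit 24024522858) (nat_lit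 152) (nat_lit 88686510523) (nat_lit 76) (nat_lit 62759106006) (nat_lit 9) (nat_lit 5) (nat_lit 11) (nat_lit 5) (nat_lit 10) (nat_lit 4) (nat_lit 337) (nat_lit 272) (nat_lit 111))) (XT.nd (nat_lit 78) (nat_lit 0) (nat_lit 0) (XT.lf (nat_lit 0) (nat_lit 41601550323) (nat_lit 152) (nat_lit 52656151942) (nat_lit 76) (nat_lit 88811513841) (nat_lit 9) (nat_lit 5) (nat_lit 11) (nat_lit 5) (nat_lit 10) (nat_lit 4) (nat_lit 338) (nat_lit 272) (nat_lit 110)) (XT.lf (nat_lit 0) (nat_lit 60056598746) (nat_lit 152) (nat_lit 14825729076) (nat_lit 76) (nat_lit 116165961335) (nat_lit 9) (nat_lit 5) (nat_lit 11) (nat_lit 5) (nat_lit 10) (nat_lit 4) (nat_lit 339) (nat_lit 272) (nat_lit 109)))) (XT.nd (nat_lit 156) (nat_lit 0) (nat_lit 0) (XT.nd (nat_lit 78) (nat_lit 0) (nat_lit 0) (XT.lf (nat_lit 0) (nat_lit 25717966035) (nat_lit 76) (nat_lit 54117172209) (nat_lit 152) (nat_lit 119571141614) (nat_lit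 8) (nat_lit 5) (nat_lit 9) (nat_lit 5) (nat_lit 10) (nat_lit 4) (nat_lit 340) (nat_lit 272) (nat_lit 108)) (XT.lf (nat_lit 0) (nat_lit 68802199645) (nat_lit 76) (nat_lit 32050711490) (nat_lit 152) (nat_lit 107316744522) (nat_lit 8) (nat_lit 5) (nat_lit 9) (nat_lit 5) (nat_lit 10) (nat_lit 4) (nat_lit 341) (nat_lit 272) (nat_lit 107))) (XT.nd (nat_lit 78) (nat_lit 0) (nat_lit 0) (XT.lf (nat_lit 0) (nat_lit 114039347705) (nat_lit 76) (nat_lit 8881487371) (nat_lit 152) (nat_lit 94450402895) (nat_lit 8) (nat_lit 5) (nat_lit 9) (nat_lit 5) (nat_lit 10) (nat_lit 4) (nat_lit 342) (nat_lit 272) (nat_lit 106)) (XT.nd (nat_lit 78) (nat_lit 0) (nat_lit 0) (XT.lf (nat_lit 0) (nat_lit 146332602857) (nat_lit 152) (nat_lit 65736967734) (nat_lit 0) (nat_lit 14951307229) (nat_lit 8) (nat_lit 5) (nat_lit 10) (nat_lit 4) (nat_lit 8) (nat_lit 4) (nat_lit 343) (nat_lit 272) (nat_lit 105)) (XT.lf (nat_lit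 0) (nat_lit 171059880233) (nat_lit 152) (nat_lit 26409100146) (nat_lit 0) (nat_lit 39676773986) (nat_lit 8) (nat_lit 5) (nat_lit 10) (nat_lit 4) (nat_lit 8) (nat_lit 4) (nat_lit 344) (nat_lit 272) (nat_lit 104))))))) (XT.nd (nat_lit 32136) (nat_lit 0) (nat_lit 4636) (XT.nd (nat_lit 312) (nat_lit 0) (nat_lit 0) (XT.nd (nat_lit 156) (nat_lit 76) (nat_lit 0) (XT.nd (nat_lit 78) (nat_lit 0) (nat_lit 0) (XT.lf (nat_lit 0) (nat_lit 15376147943) (nat_lit 76) (nat_lit 181886793583) (nat_lit 76) (nat_lit 50501962938) (nat_lit 7) (nat_lit 4) (nat_lit 8) (nat_lit 5) (nat_lit 8) (nat_lit 4) (nat_lit 345) (nat_lit 272) (nat_lit 103)) (XT.lf (nat_lit 0) (nat_lit 60166395604) (nat_lit 76) (nat_lit 165056379561) (nat_lit 76) (nat_lit 33669906632) (nat_lit 7) (nat_lit 4) (nat_lit 8) (nat_lit 5) (nat_lit 8) (nat_lit 4) (nat_lit 346) (nat_lit 272) (nat_lit 102))) (XT.nd (nat_lit 78) (nat_lit 76) (nat_lit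 0) (XT.lf (nat_lit 0) (nat_lit 107195082165) (nat_lit 76) (nat_lit 147384916790) (nat_lit 76) (nat_lit 15996879780) (nat_lit 7) (nat_lit 4) (nat_lit 8) (nat_lit 5) (nat_lit 8) (nat_lit 4) (nat_lit 347) (nat_lit 272) (nat_lit 101)) (XT.lf (nat_lit 0) (nat_lit 2477285990) (nat_lit 152) (nat_lit 126311090330) (nat_lit 76) (nat_lit 154054940660) (nat_lit 6) (nat_lit 5) (nat_lit 8) (nat_lit 5) (nat_lit 7) (nat_lit 4) (nat_lit 348) (nat_lit 272) (nat_lit 100)))) (XT.nd (nat_lit 31590) (nat_lit 0) (nat_lit 5016) (XT.nd (nat_lit 78) (nat_lit 0) (nat_lit 0) (XT.lf (nat_lit 0) (nat_lit 21337004858) (nat_lit 152) (nat_lit 87650085316) (nat_lit 76) (nat_lit 186722903094) (nat_lit 6) (nat_lit 5) (nat_lit 8) (nat_lit 5) (nat_lit 7) (nat_lit 4) (nat_lit 349) (nat_lit 272) (nat_lit 99)) (XT.lf (nat_lit 0) (nat_lit 41139180973) (nat_lit 152) (nat_lit 47056975392) (nat_lit 76) (nat_lit 221023873985)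 (nat_lit 6) (nat_lit 5) (nat_lit 8) (nat_lit 5) (nat_lit 7) (nat_lit 4) (nat_lit 350) (nat_lit 272) (nat_lit 98))) (XT.nd (nat_lit 78) (nat_lit 0) (nat_lit 0) (XT.lf (nat_lit 0) (nat_lit 1911432369) (nat_lit 0) (nat_lit 1911432369) (nat_lit 684) (nat_lit 6497430643) (nat_lit 72) (nat_lit 5) (nat_lit 72) (nat_lit 3) (nat_lit 81) (nat_lit 3) (nat_lit 273) (nat_lit 273) (nat_lit 174)) (XT.nd (nat_lit 78) (nat_lit 0) (nat_lit 0) (XT.lf (nat_lit 0) (nat_lit 8059461637) (nat_lit 684) (nat_lit 8087012257) (nat_lit 760) (nat_lit 4998538355) (nat_lit 72) (nat_lit 5) (nat_lit 81) (nat_lit 3) (nat_lit 82) (nat_lit 5) (nat_lit 274) (nat_lit 273) (nat_lit 173)) (XT.lf (nat_lit 76) (nat_lit 1045945205) (nat_lit 0) (nat_lit 7517918510) (nat_lit 760) (nat_lit 13107321621) (nat_lit 73) (nat_lit 5) (nat_lit 72) (nat_lit 5) (nat_lit 82) (nat_lit 5) (nat_lit 275) (nat_lit 273) (nat_lit 172)))))) (XT.nd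 (nat_lit 312) (nat_lit 456) (nat_lit 0) (XT.nd (nat_lit 156) (nat_lit 0) (nat_lit 0) (XT.nd (nat_lit 78) (nat_lit 0) (nat_lit 0) (XT.lf (nat_lit 0) (nat_lit 9248155795) (nat_lit 684) (nat_lit 11332362167) (nat_lit 760) (nat_lit 1635443897) (nat_lit 73) (nat_lit 5) (nat_lit 82) (nat_lit 5) (nat_lit 83) (nat_lit 5) (nat_lit 276) (nat_lit 273) (nat_lit 171)) (XT.lf (nat_lit 0) (nat_lit 10081708260) (nat_lit 684) (nat_lit 1703356446) (nat_lit 760) (nat_lit 10997187145) (nat_lit 73) (nat_lit 5) (nat_lit 82) (nat_lit 5) (nat_lit 83) (nat_lit 5) (nat_lit 277) (nat_lit 273) (nat_lit 170))) (XT.nd (nat_lit 78) (nat_lit 0) (nat_lit 76) (XT.lf (nat_lit 76) (nat_lit 8679889690) (nat_lit 0) (nat_lit 2404757696) (nat_lit 760) (nat_lit 12285849153) (nat_lit 74) (nat_lit 5) (nat_lit 73) (nat_lit 5) (nat_lit 83) (nat_lit 5) (nat_lit 278) (nat_lit 273) (nat_lit 169)) (XT.lf (nat_lit 0) (nat_lit 12275810585)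 (nat_lit 684) (nat_lit 4467359572) (nat_lit 760) (nat_lit 7238103874) (nat_lit 74) (nat_lit 5) (nat_lit 83) (nat_lit 5) (nat_lit 84) (nat_lit 5) (nat_lit 279) (nat_lit 273) (nat_lit 168)))) (XT.nd (nat_lit 156) (nat_lit 532) (nat_lit 0) (XT.nd (nat_lit 78) (nat_lit 0) (nat_lit 76) (XT.lf (nat_lit 76) (nat_lit 6428248213) (nat_lit 0) (nat_lit 7230951367) (nat_lit 760) (nat_lit 10956780702) (nat_lit 75) (nat_lit 5) (nat_lit 74) (nat_lit 5) (nat_lit 84) (nat_lit 5) (nat_lit 280) (nat_lit 273) (nat_lit 167)) (XT.lf (nat_lit 0) (nat_lit 15224868791) (nat_lit 684) (nat_lit 7304623277) (nat_lit 760) (nat_lit 2747296395) (nat_lit 75) (nat_lit 5) (nat_lit 84) (nat_lit 5) (nat_lit 85) (nat_lit 5) (nat_lit 281) (nat_lit 273) (nat_lit 166))) (XT.nd (nat_lit 78) (nat_lit 608) (nat_lit 0) (XT.lf (nat_lit 76) (nat_lit 4131147646) (nat_lit 0) (nat_lit 12914208979) (nat_lit 760) (nat_lit 8916474770)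 (nat_lit 76) (nat_lit 5) (nat_lit 75) (nat_lit 5) (nat_lit 85) (nat_lit 5) (nat_lit 282) (nat_lit 273) (nat_lit 165)) (XT.nd (nat_lit 78) (nat_lit 608) (nat_lit 0) (XT.lf (nat_lit 76) (nat_lit 16387214975) (nat_lit 0) (nat_lit 2687087594) (nat_lit 760) (nat_lit 7600972315) (nat_lit 76) (nat_lit 5) (nat_lit 75) (nat_lit 5) (nat_lit 85) (nat_lit 5) (nat_lit 283) (nat_lit 273) (nat_lit 164)) (XT.lf (nat_lit 0) (nat_lit 1757041531) (nat_lit 684) (nat_lit 19594834081) (nat_lit 760) (nat_lit 6065175086) (nat_lit 67) (nat_lit 5) (nat_lit 76) (nat_lit 5) (nat_lit 77) (nat_lit 5) (nat_lit 284) (nat_lit 273) (nat_lit 163))))))))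
noncomputable def xc204 : XT := (XT.nd (nat_lit 1326) (nat_lit 1444) (nat_lit 0) (XT.nd (nat_lit 624) (nat_lit 1140) (nat_lit 0) (XT.nd (nat_lit 312) (nat_lit 684) (nat_lit 0) (XT.nd (nat_lit 156) (nat_lit 380) (nat_lit 0) (XT.nd (nat_lit 78) (nat_lit 0) (nat_lit 0) (XT.lf (nat_lit 0) (nat_lit 14710967622) (nat_lit 684) (nat_lit 9244179810) (nat_lit 760) (nat_lit 4230195091) (nat_lit 67) (nat_lit 5) (nat_lit 76) (nat_lit 5) (nat_lit 77) (nat_lit 5) (nat_lit 285) (nat_lit 273) (nat_lit 162)) (XT.lf (nat_lit 0) (nat_lit 26708468534) (nat_lit 760) (nat_lit 709973815) (nat_lit 76) (nat_lit 1572629665) (nat_lit 67) (nat_lit 5) (nat_lit 77) (nat_lit 5) (nat_lit 68) (nat_lit 5) (nat_lit 286) (nat_lit 273) (nat_lit 161))) (XT.nd (nat_lit 78) (nat_lit 0) (nat_lit 0) (XT.lf (nat_lit 0) (nat_lit 124202432) (nat_lit 380) (nat_lit 16870988673) (nat_lit 76) (nat_lit 12824386677) (nat_lit 62) (nat_lit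 5) (nat_lit 67) (nat_lit 5) (nat_lit 63) (nat_lit 5) (nat_lit 287) (nat_lit 273) (nat_lit 160)) (XT.lf (nat_lit 0) (nat_lit 2581724667) (nat_lit 380) (nat_lit 3416815023) (nat_lit 76) (nat_lit 24688758834) (nat_lit 62) (nat_lit 5) (nat_lit 67) (nat_lit 5) (nat_lit 63) (nat_lit 5) (nat_lit 288) (nat_lit 273) (nat_lit 159)))) (XT.nd (nat_lit 156) (nat_lit 304) (nat_lit 0) (XT.nd (nat_lit 78) (nat_lit 0) (nat_lit 0) (XT.lf (nat_lit 0) (nat_lit 5419350293) (nat_lit 456) (nat_lit 20620229982) (nat_lit 76) (nat_lit 5545977946) (nat_lit 57) (nat_lit 5) (nat_lit 63) (nat_lit 5) (nat_lit 58) (nat_lit 5) (nat_lit 289) (nat_lit 273) (nat_lit 158)) (XT.lf (nat_lit 0) (nat_lit 8551277895) (nat_lit 456) (nat_lit 6444874024) (nat_lit 76) (nat_lit 17524971552) (nat_lit 57) (nat_lit 5) (nat_lit 63) (nat_lit 5) (nat_lit 58) (nat_lit 5) (nat_lit 290) (nat_lit 273) (nat_lit 157))) (XT.nd (nat_lit 78) (nat_lit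 0) (nat_lit 0) (XT.lf (nat_lit 0) (nat_lit 8713415511) (nat_lit 304) (nat_lit 3257922390) (nat_lit 380) (nat_lit 21525565234) (nat_lit 53) (nat_lit 5) (nat_lit 57) (nat_lit 5) (nat_lit 58) (nat_lit 5) (nat_lit 291) (nat_lit 273) (nat_lit 156)) (XT.lf (nat_lit 0) (nat_lit 15810534835) (nat_lit 380) (nat_lit 9810865378) (nat_lit 76) (nat_lit 8887677212) (nat_lit 53) (nat_lit 5) (nat_lit 58) (nat_lit 5) (nat_lit 54) (nat_lit 5) (nat_lit 292) (nat_lit 273) (nat_lit 155))))) (XT.nd (nat_lit 312) (nat_lit 608) (nat_lit 0) (XT.nd (nat_lit 156) (nat_lit 228) (nat_lit 0) (XT.nd (nat_lit 78) (nat_lit 0) (nat_lit 0) (XT.lf (nat_lit 0) (nat_lit 6045848166) (nat_lit 304) (nat_lit 13939485479) (nat_lit 380) (nat_lit 15579356432) (nat_lit 49) (nat_lit 5) (nat_lit 53) (nat_lit 5) (nat_lit 54) (nat_lit 5) (nat_lit 293) (nat_lit 273) (nat_lit 154)) (XT.lf (nat_lit 0) (nat_lit 23031447109) (nat_lit 304)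 (nat_lit 1499544712) (nat_lit 380) (nat_lit 12133996759) (nat_lit 49) (nat_lit 5) (nat_lit 53) (nat_lit 5) (nat_lit 54) (nat_lit 5) (nat_lit 294) (nat_lit 273) (nat_lit 153))) (XT.nd (nat_lit 78) (nat_lit 0) (nat_lit 0) (XT.lf (nat_lit 0) (nat_lit 2955560038) (nat_lit 228) (nat_lit 26571190626) (nat_lit 304) (nat_lit 8282421115) (nat_lit 46) (nat_lit 5) (nat_lit 49) (nat_lit 5) (nat_lit 50) (nat_lit 5) (nat_lit 295) (nat_lit 273) (nat_lit 152)) (XT.lf (nat_lit 0) (nat_lit 20817581123) (nat_lit 228) (nat_lit 14206058498) (nat_lit 304) (nat_lit 3974367557) (nat_lit 46) (nat_lit 5) (nat_lit 49) (nat_lit 5) (nat_lit 50) (nat_lit 5) (nat_lit 296) (nat_lit 273) (nat_lit 151)))) (XT.nd (nat_lit 156) (nat_lit 228) (nat_lit 0) (XT.nd (nat_lit 78) (nat_lit 304) (nat_lit 0) (XT.lf (nat_lit 0) (nat_lit 527889932) (nat_lit 304) (nat_lit 686536052) (nat_lit 76) (nat_lit 39031620153) (nat_lit 45)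 (nat_lit 5) (nat_lit 49) (nat_lit 5) (nat_lit 46) (nat_lit 5) (nat_lit 297) (nat_lit 273) (nat_lit 150)) (XT.lf (nat_lit 0) (nat_lit 5602050553) (nat_lit 380) (nat_lit 23543860207) (nat_lit 76) (nat_lit 12383309621) (nat_lit 41) (nat_lit 5) (nat_lit 46) (nat_lit 5) (nat_lit 42) (nat_lit 5) (nat_lit 298) (nat_lit 273) (nat_lit 149))) (XT.nd (nat_lit 78) (nat_lit 228) (nat_lit 0) (XT.lf (nat_lit 0) (nat_lit 10958281852) (nat_lit 380) (nat_lit 5285655343) (nat_lit 76) (nat_lit 26631206360) (nat_lit 41) (nat_lit 5) (nat_lit 46) (nat_lit 5) (nat_lit 42) (nat_lit 5) (nat_lit 299) (nat_lit 273) (nat_lit 148)) (XT.nd (nat_lit 78) (nat_lit 0) (nat_lit 0) (XT.lf (nat_lit 0) (nat_lit 14340374332) (nat_lit 228) (nat_lit 2462640580) (nat_lit 304) (nat_lit 27474321419) (nat_lit 38) (nat_lit 5) (nat_lit 41) (nat_lit 5) (nat_lit 42) (nat_lit 5) (nat_lit 300) (nat_lit 273) (nat_lit 147)) (XT.lf (nat_lit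 0) (nat_lit 23215314349) (nat_lit 304) (nat_lit 10807043851) (nat_lit 76) (nat_lit 11713521631) (nat_lit 38) (nat_lit 5) (nat_lit 42) (nat_lit 5) (nat_lit 39) (nat_lit 5) (nat_lit 301) (nat_lit 273) (nat_lit 146))))))) (XT.nd (nat_lit 702) (nat_lit 608) (nat_lit 0) (XT.nd (nat_lit 312) (nat_lit 380) (nat_lit 0) (XT.nd (nat_lit 156) (nat_lit 228) (nat_lit 0) (XT.nd (nat_lit 78) (nat_lit 0) (nat_lit 0) (XT.lf (nat_lit 0) (nat_lit 9540398289) (nat_lit 228) (nat_lit 20594175845) (nat_lit 304) (nat_lit 17123466319) (nat_lit 35) (nat_lit 5) (nat_lit 38) (nat_lit 5) (nat_lit 39) (nat_lit 5) (nat_lit 302) (nat_lit 273) (nat_lit 145)) (XT.lf (nat_lit 0) (nat_lit 31276519374) (nat_lit 228) (nat_lit 6303403011) (nat_lit 304) (nat_lit 11267387318) (nat_lit 35) (nat_lit 5) (nat_lit 38) (nat_lit 5) (nat_lit 39) (nat_lit 5) (nat_lit 303) (nat_lit 273) (nat_lit 144))) (XT.nd (nat_lit 78) (nat_lit 76)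 (nat_lit 0) (XT.lf (nat_lit 0) (nat_lit 3557573633) (nat_lit 152) (nat_lit 42028595444) (nat_lit 228) (nat_lit 4920448328) (nat_lit 33) (nat_lit 5) (nat_lit 35) (nat_lit 5) (nat_lit 36) (nat_lit 5) (nat_lit 304) (nat_lit 273) (nat_lit 143)) (XT.lf (nat_lit 0) (nat_lit 2091055472) (nat_lit 228) (nat_lit 26020945821) (nat_lit 76) (nat_lit 24115382246) (nat_lit 32) (nat_lit 5) (nat_lit 35) (nat_lit 5) (nat_lit 33) (nat_lit 5) (nat_lit 305) (nat_lit 273) (nat_lit 142)))) (XT.nd (nat_lit 156) (nat_lit 152) (nat_lit 0) (XT.nd (nat_lit 78) (nat_lit 228) (nat_lit 0) (XT.lf (nat_lit 0) (nat_lit 9285155180) (nat_lit 228) (nat_lit 4130790743) (nat_lit 76) (nat_lit 40614345553) (nat_lit 32) (nat_lit 5) (nat_lit 35) (nat_lit 5) (nat_lit 33) (nat_lit 5) (nat_lit 306) (nat_lit 273) (nat_lit 141)) (XT.lf (nat_lit 0) (nat_lit 17176929616) (nat_lit 304) (nat_lit 36471058880) (nat_lit 76) (nat_lit 2258463209)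 (nat_lit 29) (nat_lit 5) (nat_lit 33) (nat_lit 5) (nat_lit 30) (nat_lit 5) (nat_lit 307) (nat_lit 273) (nat_lit 140))) (XT.nd (nat_lit 78) (nat_lit 152) (nat_lit 0) (XT.lf (nat_lit 0) (nat_lit 25751883848) (nat_lit 304) (nat_lit 13774268473) (nat_lit 76) (nat_lit 18335843198) (nat_lit 29) (nat_lit 5) (nat_lit 33) (nat_lit 5) (nat_lit 30) (nat_lit 5) (nat_lit 308) (nat_lit 273) (nat_lit 139)) (XT.nd (nat_lit 78) (nat_lit 0) (nat_lit 0) (XT.lf (nat_lit 0) (nat_lit 10386397416) (nat_lit 152) (nat_lit 24529019392) (nat_lit 228) (nat_lit 24991913047) (nat_lit 27) (nat_lit 5) (nat_lit 29) (nat_lit 5) (nat_lit 30) (nat_lit 5) (nat_lit 309) (nat_lit 273) (nat_lit 138)) (XT.lf (nat_lit 0) (nat_lit 36229969215) (nat_lit 152) (nat_lit 8538160160) (nat_lit 228) (nat_lit 17275256034) (nat_lit 27) (nat_lit 5) (nat_lit 29) (nat_lit 5) (nat_lit 30) (nat_lit 5) (nat_lit 310) (nat_lit 273) (nat_lit 137))))))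 (XT.nd (nat_lit 312) (nat_lit 228) (nat_lit 0) (XT.nd (nat_lit 156) (nat_lit 152) (nat_lit 0) (XT.nd (nat_lit 78) (nat_lit 228) (nat_lit 0) (XT.lf (nat_lit 0) (nat_lit 55240139514) (nat_lit 228) (nat_lit 1052641340) (nat_lit 76) (nat_lit 7987134218) (nat_lit 27) (nat_lit 5) (nat_lit 30) (nat_lit 5) (nat_lit 28) (nat_lit 5) (nat_lit 311) (nat_lit 273) (nat_lit 136)) (XT.lf (nat_lit 0) (nat_lit 166801358) (nat_lit 228) (nat_lit 40980884783) (nat_lit 76) (nat_lit 25453557547) (nat_lit 24) (nat_lit 5) (nat_lit 27) (nat_lit 5) (nat_lit 25) (nat_lit 5) (nat_lit 312) (nat_lit 273) (nat_lit 135))) (XT.nd (nat_lit 78) (nat_lit 152) (nat_lit 0) (XT.lf (nat_lit 0) (nat_lit 9545969488) (nat_lit 228) (nat_lit 15525820373) (nat_lit 76) (nat_lit 43958640142) (nat_lit 24) (nat_lit 5) (nat_lit 27) (nat_lit 5) (nat_lit 25) (nat_lit 5) (nat_lit 313) (nat_lit 273) (nat_lit 134)) (XT.lf (nat_lit 0) (nat_lit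 11569294360) (nat_lit 152) (nat_lit 8003467787) (nat_lit 228) (nat_lit 51999383823) (nat_lit 22) (nat_lit 5) (nat_lit 24) (nat_lit 5) (nat_lit 25) (nat_lit 5) (nat_lit 314) (nat_lit 273) (nat_lit 133)))) (XT.nd (nat_lit 156) (nat_lit 228) (nat_lit 0) (XT.nd (nat_lit 78) (nat_lit 0) (nat_lit 0) (XT.lf (nat_lit 0) (nat_lit 30521062626) (nat_lit 228) (nat_lit 33831804540) (nat_lit 76) (nat_lit 9867075631) (nat_lit 22) (nat_lit 5) (nat_lit 25) (nat_lit 5) (nat_lit 23) (nat_lit 5) (nat_lit 315) (nat_lit 273) (nat_lit 132)) (XT.lf (nat_lit 0) (nat_lit 42146142956) (nat_lit 228) (nat_lit 6486292821) (nat_lit 76) (nat_lit 28361228752) (nat_lit 22) (nat_lit 5) (nat_lit 25) (nat_lit 5) (nat_lit 23) (nat_lit 5) (nat_lit 316) (nat_lit 273) (nat_lit 131))) (XT.nd (nat_lit 78) (nat_lit 76) (nat_lit 0) (XT.lf (nat_lit 0) (nat_lit 22958565960) (nat_lit 152) (nat_lit 31750606934) (nat_lit 228) (nat_lit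 25179067820) (nat_lit 20) (nat_lit 5) (nat_lit 22) (nat_lit 5) (nat_lit 23) (nat_lit 5) (nat_lit 317) (nat_lit 273) (nat_lit 130)) (XT.nd (nat_lit 78) (nat_lit 76) (nat_lit 0) (XT.lf (nat_lit 0) (nat_lit 54098155397) (nat_lit 152) (nat_lit 13910336721) (nat_lit 228) (nat_lit 14913649698) (nat_lit 20) (nat_lit 5) (nat_lit 22) (nat_lit 5) (nat_lit 23) (nat_lit 5) (nat_lit 318) (nat_lit 273) (nat_lit 129)) (XT.lf (nat_lit 0) (nat_lit 629197834) (nat_lit 76) (nat_lit 81427043126) (nat_lit 152) (nat_lit 4047326686) (nat_lit 19) (nat_lit 5) (nat_lit 20) (nat_lit 5) (nat_lit 21) (nat_lit 4) (nat_lit 319) (nat_lit 273) (nat_lit 128))))))))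
noncomputable def xc205 : XT := (XT.nd (nat_lit 1326) (nat_lit 304) (nat_lit 0) (XT.nd (nat_lit 624) (nat_lit 380) (nat_lit 0) (XT.nd (nat_lit 312) (nat_lit 76) (nat_lit 0) (XT.nd (nat_lit 156) (nat_lit 152) (nat_lit 0) (XT.nd (nat_lit 78) (nat_lit 0) (nat_lit 0) (XT.lf (nat_lit 0) (nat_lit 7849226128) (nat_lit 152) (nat_lit 57217556088) (nat_lit 76) (nat_lit 24335410141) (nat_lit 18) (nat_lit 5) (nat_lit 20) (nat_lit 5) (nat_lit 19) (nat_lit 5) (nat_lit 320) (nat_lit 273) (nat_lit 127)) (XT.lf (nat_lit 0) (nat_lit 20203032472) (nat_lit 152) (nat_lit 27616781474) (nat_lit 76) (nat_lit 45042697214) (nat_lit 18) (nat_lit 5) (nat_lit 20) (nat_lit 5) (nat_lit 19) (nat_lit 5) (nat_lit 321) (nat_lit 273) (nat_lit 126))) (XT.nd (nat_lit 78) (nat_lit 0) (nat_lit 0) (XT.lf (nat_lit 0) (nat_lit 3576079039) (nat_lit 152) (nat_lit 29652799477) (nat_lit 228) (nat_lit 63264252266) (nat_lit 16) (nat_lit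 5) (nat_lit 18) (nat_lit 5) (nat_lit 19) (nat_lit 5) (nat_lit 322) (nat_lit 273) (nat_lit 125)) (XT.lf (nat_lit 0) (nat_lit 37285004045) (nat_lit 152) (nat_lit 10087266757) (nat_lit 228) (nat_lit 52909700122) (nat_lit 16) (nat_lit 5) (nat_lit 18) (nat_lit 5) (nat_lit 19) (nat_lit 5) (nat_lit 323) (nat_lit 273) (nat_lit 124)))) (XT.nd (nat_lit 156) (nat_lit 0) (nat_lit 0) (XT.nd (nat_lit 78) (nat_lit 76) (nat_lit 0) (XT.lf (nat_lit 0) (nat_lit 62384694352) (nat_lit 228) (nat_lit 31746449100) (nat_lit 76) (nat_lit 10121018670) (nat_lit 16) (nat_lit 5) (nat_lit 19) (nat_lit 5) (nat_lit 17) (nat_lit 4) (nat_lit 324) (nat_lit 273) (nat_lit 123)) (XT.lf (nat_lit 0) (nat_lit 928750210) (nat_lit 76) (nat_lit 77397526398) (nat_lit 152) (nat_lit 30085661423) (nat_lit 15) (nat_lit 5) (nat_lit 16) (nat_lit 5) (nat_lit 17) (nat_lit 4) (nat_lit 325) (nat_lit 273) (nat_lit 122))) (XT.nd (nat_lit 78)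 (nat_lit 0) (nat_lit 0) (XT.lf (nat_lit 0) (nat_lit 36337704946) (nat_lit 76) (nat_lit 59263575978) (nat_lit 152) (nat_lit 17151606598) (nat_lit 15) (nat_lit 5) (nat_lit 16) (nat_lit 5) (nat_lit 17) (nat_lit 4) (nat_lit 326) (nat_lit 273) (nat_lit 121)) (XT.lf (nat_lit 0) (nat_lit 73515041162) (nat_lit 76) (nat_lit 40223757595) (nat_lit 152) (nat_lit 3572149403) (nat_lit 15) (nat_lit 5) (nat_lit 16) (nat_lit 5) (nat_lit 17) (nat_lit 4) (nat_lit 327) (nat_lit 273) (nat_lit 120))))) (XT.nd (nat_lit 312) (nat_lit 152) (nat_lit 0) (XT.nd (nat_lit 156) (nat_lit 0) (nat_lit 0) (XT.nd (nat_lit 78) (nat_lit 152) (nat_lit 0) (XT.lf (nat_lit 0) (nat_lit 10343054121) (nat_lit 152) (nat_lit 9714519602) (nat_lit 76) (nat_lit 102031057579) (nat_lit 14) (nat_lit 5) (nat_lit 16) (nat_lit 5) (nat_lit 15) (nat_lit 5) (nat_lit 328) (nat_lit 273) (nat_lit 119)) (XT.lf (nat_lit 0) (nat_lit 25277615689)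 (nat_lit 228) (nat_lit 100236129486) (nat_lit 76) (nat_lit 1566344748) (nat_lit 12) (nat_lit 5) (nat_lit 15) (nat_lit 5) (nat_lit 13) (nat_lit 4) (nat_lit 329) (nat_lit 273) (nat_lit 118))) (XT.nd (nat_lit 78) (nat_lit 0) (nat_lit 0) (XT.lf (nat_lit 0) (nat_lit 41453806452) (nat_lit 228) (nat_lit 67078702568) (nat_lit 76) (nat_lit 23763868913) (nat_lit 12) (nat_lit 5) (nat_lit 15) (nat_lit 5) (nat_lit 13) (nat_lit 4) (nat_lit 330) (nat_lit 273) (nat_lit 117)) (XT.lf (nat_lit 0) (nat_lit 58437731793) (nat_lit 228) (nat_lit 32265240519) (nat_lit 76) (nat_lit 47070563221) (nat_lit 12) (nat_lit 5) (nat_lit 15) (nat_lit 5) (nat_lit 13) (nat_lit 4) (nat_lit 331) (nat_lit 273) (nat_lit 116)))) (XT.nd (nat_lit 156) (nat_lit 76) (nat_lit 0) (XT.nd (nat_lit 78) (nat_lit 0) (nat_lit 0) (XT.lf (nat_lit 0) (nat_lit 4428898258) (nat_lit 76) (nat_lit 71910078885) (nat_lit 152) (nat_lit 67182169056)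 (nat_lit 11) (nat_lit 5) (nat_lit 12) (nat_lit 5) (nat_lit 13) (nat_lit 4) (nat_lit 332) (nat_lit 273) (nat_lit 115)) (XT.lf (nat_lit 0) (nat_lit 44076199699) (nat_lit 76) (nat_lit 51604510641) (nat_lit 152) (nat_lit 53848157089) (nat_lit 11) (nat_lit 5) (nat_lit 12) (nat_lit 5) (nat_lit 13) (nat_lit 4) (nat_lit 333) (nat_lit 273) (nat_lit 114))) (XT.nd (nat_lit 78) (nat_lit 76) (nat_lit 0) (XT.lf (nat_lit 0) (nat_lit 85704227573) (nat_lit 76) (nat_lit 30284348448) (nat_lit 152) (nat_lit 39848447652) (nat_lit 11) (nat_lit 5) (nat_lit 12) (nat_lit 5) (nat_lit 13) (nat_lit 4) (nat_lit 334) (nat_lit 273) (nat_lit 113)) (XT.nd (nat_lit 78) (nat_lit 76) (nat_lit 0) (XT.lf (nat_lit 0) (nat_lit 129412096233) (nat_lit 76) (nat_lit 7898830015) (nat_lit 152) (nat_lit 25149708104) (nat_lit 11) (nat_lit 5) (nat_lit 12) (nat_lit 5) (nat_lit 13) (nat_lit 4) (nat_lit 335) (nat_lit 273) (nat_lit 112))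 (XT.lf (nat_lit 0) (nat_lit 5831400138) (nat_lit 76) (nat_lit 154201816029) (nat_lit 76) (nat_lit 9365519418) (nat_lit 10) (nat_lit 4) (nat_lit 11) (nat_lit 5) (nat_lit 11) (nat_lit 4) (nat_lit 336) (nat_lit 273) (nat_lit 111))))))) (XT.nd (nat_lit 702) (nat_lit 152) (nat_lit 0) (XT.nd (nat_lit 312) (nat_lit 76) (nat_lit 0) (XT.nd (nat_lit 156) (nat_lit 0) (nat_lit 0) (XT.nd (nat_lit 78) (nat_lit 0) (nat_lit 0) (XT.lf (nat_lit 0) (nat_lit 7674666928) (nat_lit 152) (nat_lit 129105777129) (nat_lit 76) (nat_lit 39862797822) (nat_lit 9) (nat_lit 5) (nat_lit 11) (nat_lit 5) (nat_lit 10) (nat_lit 4) (nat_lit 337) (nat_lit 273) (nat_lit 110)) (XT.lf (nat_lit 0) (nat_lit 25251289313) (nat_lit 152) (nat_lit 93076127642) (nat_lit 76) (nat_lit 65914922373) (nat_lit 9) (nat_lit 5) (nat_lit 11) (nat_lit 5) (nat_lit 10) (nat_lit 4) (nat_lit 338) (nat_lit 273) (nat_lit 109))) (XT.nd (nat_lit 78) (nat_lit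 0) (nat_lit 0) (XT.lf (nat_lit 0) (nat_lit 43705951946) (nat_lit 152) (nat_lit 55246380104) (nat_lit 76) (nat_lit 93269100073) (nat_lit 9) (nat_lit 5) (nat_lit 11) (nat_lit 5) (nat_lit 10) (nat_lit 4) (nat_lit 339) (nat_lit 273) (nat_lit 108)) (XT.lf (nat_lit 0) (nat_lit 63082594500) (nat_lit 152) (nat_lit 15526463687) (nat_lit 76) (nat_lit 121990459916) (nat_lit 9) (nat_lit 5) (nat_lit 11) (nat_lit 5) (nat_lit 10) (nat_lit 4) (nat_lit 340) (nat_lit 273) (nat_lit 107)))) (XT.nd (nat_lit 156) (nat_lit 0) (nat_lit 0) (XT.nd (nat_lit 78) (nat_lit 0) (nat_lit 0) (XT.lf (nat_lit 0) (nat_lit 27043762118) (nat_lit 76) (nat_lit 56805818636) (nat_lit 152) (nat_lit 125525852891) (nat_lit 8) (nat_lit 5) (nat_lit 9) (nat_lit 5) (nat_lit 10) (nat_lit 4) (nat_lit 341) (nat_lit 273) (nat_lit 106)) (XT.lf (nat_lit 0) (nat_lit 72280307515) (nat_lit 76) (nat_lit 33636854510) (nat_lit 152) (nat_lit 112659871458)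 (nat_lit 8) (nat_lit 5) (nat_lit 9) (nat_lit 5) (nat_lit 10) (nat_lit 4) (nat_lit 342) (nat_lit 273) (nat_lit 105))) (XT.nd (nat_lit 78) (nat_lit 0) (nat_lit 0) (XT.lf (nat_lit 0) (nat_lit 119777503554) (nat_lit 76) (nat_lit 9309949782) (nat_lit 152) (nat_lit 99151294192) (nat_lit 8) (nat_lit 5) (nat_lit 9) (nat_lit 5) (nat_lit 10) (nat_lit 4) (nat_lit 343) (nat_lit 273) (nat_lit 104)) (XT.nd (nat_lit 78) (nat_lit 0) (nat_lit 0) (XT.lf (nat_lit 0) (nat_lit 153669061812) (nat_lit 152) (nat_lit 68988580827) (nat_lit 0) (nat_lit 15713265236) (nat_lit 8) (nat_lit 5) (nat_lit 10) (nat_lit 4) (nat_lit 8) (nat_lit 4) (nat_lit 344) (nat_lit 273) (nat_lit 103)) (XT.lf (nat_lit 0) (nat_lit 179631758827) (nat_lit 152) (nat_lit 27695997731) (nat_lit 0) (nat_lit 41674319967) (nat_lit 8) (nat_lit 5) (nat_lit 10) (nat_lit 4) (nat_lit 8) (nat_lit 4) (nat_lit 345) (nat_lit 273) (nat_lit 102)))))) (XT.nd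 (nat_lit 31902) (nat_lit 0) (nat_lit 5016) (XT.nd (nat_lit 156) (nat_lit 76) (nat_lit 0) (XT.nd (nat_lit 78) (nat_lit 0) (nat_lit 0) (XT.lf (nat_lit 0) (nat_lit 16177971515) (nat_lit 76) (nat_lit 190966617880) (nat_lit 76) (nat_lit 53007614939) (nat_lit 7) (nat_lit 4) (nat_lit 8) (nat_lit 5) (nat_lit 8) (nat_lit 4) (nat_lit 346) (nat_lit 273) (nat_lit 101)) (XT.lf (nat_lit 0) (nat_lit 63206159360) (nat_lit 76) (nat_lit 173295374366) (nat_lit 76) (nat_lit 35334881825) (nat_lit 7) (nat_lit 4) (nat_lit 8) (nat_lit 5) (nat_lit 8) (nat_lit 4) (nat_lit 347) (nat_lit 273) (nat_lit 100))) (XT.nd (nat_lit 78) (nat_lit 76) (nat_lit 0) (XT.lf (nat_lit 0) (nat_lit 112584782916) (nat_lit 76) (nat_lit 154740996750) (nat_lit 76) (nat_lit 16779085542) (nat_lit 7) (nat_lit 4) (nat_lit 8) (nat_lit 5) (nat_lit 8) (nat_lit 4) (nat_lit 348) (nat_lit 273) (nat_lit 99)) (XT.lf (nat_lit 0) (nat_lit 2617410950)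 (nat_lit 152) (nat_lit 132597569871) (nat_lit 76) (nat_lit 161769672263) (nat_lit 6) (nat_lit 5) (nat_lit 8) (nat_lit 5) (nat_lit 7) (nat_lit 4) (nat_lit 349) (nat_lit 273) (nat_lit 98)))) (XT.nd (nat_lit 156) (nat_lit 0) (nat_lit 0) (XT.nd (nat_lit 78) (nat_lit 0) (nat_lit 0) (XT.lf (nat_lit 0) (nat_lit 2076879402) (nat_lit 0) (nat_lit 2076879402) (nat_lit 684) (nat_lit 6675107209) (nat_lit 72) (nat_lit 5) (nat_lit 72) (nat_lit 3) (nat_lit 81) (nat_lit 3) (nat_lit 274) (nat_lit 274) (nat_lit 172)) (XT.lf (nat_lit 0) (nat_lit 8726548774) (nat_lit 684) (nat_lit 8342009532) (nat_lit 760) (nat_lit 5119629148) (nat_lit 72) (nat_lit 5) (nat_lit 81) (nat_lit 3) (nat_lit 82) (nat_lit 5) (nat_lit 275) (nat_lit 274) (nat_lit 171))) (XT.nd (nat_lit 78) (nat_lit 0) (nat_lit 76) (XT.lf (nat_lit 76) (nat_lit 1245186878) (nat_lit 0) (nat_lit 8000701432) (nat_lit 760) (nat_lit 13495336432) (nat_lit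 73) (nat_lit 5) (nat_lit 72) (nat_lit 5) (nat_lit 82) (nat_lit 5) (nat_lit 276) (nat_lit 274) (nat_lit 170)) (XT.nd (nat_lit 78) (nat_lit 0) (nat_lit 0) (XT.lf (nat_lit 0) (nat_lit 9950718445) (nat_lit 684) (nat_lit 11744567820) (nat_lit 760) (nat_lit 1618677096) (nat_lit 73) (nat_lit 5) (nat_lit 82) (nat_lit 5) (nat_lit 83) (nat_lit 5) (nat_lit 277) (nat_lit 274) (nat_lit 169)) (XT.lf (nat_lit 0) (nat_lit 10814512588) (nat_lit 684) (nat_lit 1641464787) (nat_lit 760) (nat_lit 11453199840) (nat_lit 73) (nat_lit 5) (nat_lit 82) (nat_lit 5) (nat_lit 83) (nat_lit 5) (nat_lit 278) (nat_lit 274) (nat_lit 168))))))))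
noncomputable def xc206 : XT := (XT.nd (nat_lit 1326) (nat_lit 1900) (nat_lit 0) (XT.nd (nat_lit 624) (nat_lit 1368) (nat_lit 0) (XT.nd (nat_lit 312) (nat_lit 456) (nat_lit 0) (XT.nd (nat_lit 156) (nat_lit 0) (nat_lit 76) (XT.nd (nat_lit 78) (nat_lit 0) (nat_lit 76) (XT.lf (nat_lit 76) (nat_lit 9258571729) (nat_lit 0) (nat_lit 2600394542) (nat_lit 760) (nat_lit 12668335261) (nat_lit 74) (nat_lit 5) (nat_lit 73) (nat_lit 5) (nat_lit 83) (nat_lit 5) (nat_lit 279) (nat_lit 274) (nat_lit 167)) (XT.lf (nat_lit 0) (nat_lit 13098086188) (nat_lit 684) (nat_lit 4540647001) (nat_lit 760) (nat_lit 7530498855) (nat_lit 74) (nat_lit 5) (nat_lit 83) (nat_lit 5) (nat_lit 84) (nat_lit 5) (nat_lit 280) (nat_lit 274) (nat_lit 166))) (XT.nd (nat_lit 78) (nat_lit 0) (nat_lit 76) (XT.lf (nat_lit 76) (nat_lit 6897320520) (nat_lit 0) (nat_lit 7645701637) (nat_lit 760) (nat_lit 11293065023) (nat_lit 75) (nat_lit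 5) (nat_lit 74) (nat_lit 5) (nat_lit 84) (nat_lit 5) (nat_lit 281) (nat_lit 274) (nat_lit 165)) (XT.lf (nat_lit 0) (nat_lit 16176618853) (nat_lit 684) (nat_lit 7518251912) (nat_lit 760) (nat_lit 2835613707) (nat_lit 75) (nat_lit 5) (nat_lit 84) (nat_lit 5) (nat_lit 85) (nat_lit 5) (nat_lit 282) (nat_lit 274) (nat_lit 164)))) (XT.nd (nat_lit 156) (nat_lit 608) (nat_lit 0) (XT.nd (nat_lit 78) (nat_lit 0) (nat_lit 0) (XT.lf (nat_lit 76) (nat_lit 4486862356) (nat_lit 0) (nat_lit 13594525743) (nat_lit 760) (nat_lit 9168758033) (nat_lit 76) (nat_lit 5) (nat_lit 75) (nat_lit 5) (nat_lit 85) (nat_lit 5) (nat_lit 283) (nat_lit 274) (nat_lit 163)) (XT.lf (nat_lit 76) (nat_lit 17348630321) (nat_lit 0) (nat_lit 2854400369) (nat_lit 760) (nat_lit 7796696669) (nat_lit 76) (nat_lit 5) (nat_lit 75) (nat_lit 5) (nat_lit 85) (nat_lit 5) (nat_lit 284) (nat_lit 274) (nat_lit 162))) (XT.nd (nat_lit 78)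 (nat_lit 0) (nat_lit 0) (XT.lf (nat_lit 0) (nat_lit 1994324362) (nat_lit 684) (nat_lit 20593667035) (nat_lit 760) (nat_lit 6190951812) (nat_lit 67) (nat_lit 5) (nat_lit 76) (nat_lit 5) (nat_lit 77) (nat_lit 5) (nat_lit 285) (nat_lit 274) (nat_lit 161)) (XT.lf (nat_lit 0) (nat_lit 15588831007) (nat_lit 684) (nat_lit 9724570943) (nat_lit 760) (nat_lit 4272674343) (nat_lit 67) (nat_lit 5) (nat_lit 76) (nat_lit 5) (nat_lit 77) (nat_lit 5) (nat_lit 286) (nat_lit 274) (nat_lit 160))))) (XT.nd (nat_lit 312) (nat_lit 608) (nat_lit 0) (XT.nd (nat_lit 156) (nat_lit 380) (nat_lit 0) (XT.nd (nat_lit 78) (nat_lit 380) (nat_lit 0) (XT.lf (nat_lit 0) (nat_lit 28196476030) (nat_lit 760) (nat_lit 601537045) (nat_lit 76) (nat_lit 1634499053) (nat_lit 67) (nat_lit 5) (nat_lit 77) (nat_lit 5) (nat_lit 68) (nat_lit 5) (nat_lit 287) (nat_lit 274) (nat_lit 159)) (XT.lf (nat_lit 0) (nat_lit 280806677) (nat_lit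 380) (nat_lit 17567512217) (nat_lit 76) (nat_lit 13454278811) (nat_lit 62) (nat_lit 5) (nat_lit 67) (nat_lit 5) (nat_lit 63) (nat_lit 5) (nat_lit 288) (nat_lit 274) (nat_lit 158))) (XT.nd (nat_lit 78) (nat_lit 380) (nat_lit 0) (XT.lf (nat_lit 0) (nat_lit 2854043399) (nat_lit 380) (nat_lit 3447631117) (nat_lit 76) (nat_lit 25912408967) (nat_lit 62) (nat_lit 5) (nat_lit 67) (nat_lit 5) (nat_lit 63) (nat_lit 5) (nat_lit 289) (nat_lit 274) (nat_lit 157)) (XT.lf (nat_lit 0) (nat_lit 5828868190) (nat_lit 456) (nat_lit 21506136287) (nat_lit 76) (nat_lit 5822505715) (nat_lit 57) (nat_lit 5) (nat_lit 63) (nat_lit 5) (nat_lit 58) (nat_lit 5) (nat_lit 290) (nat_lit 274) (nat_lit 156)))) (XT.nd (nat_lit 156) (nat_lit 304) (nat_lit 0) (XT.nd (nat_lit 78) (nat_lit 304) (nat_lit 0) (XT.lf (nat_lit 0) (nat_lit 9110794534) (nat_lit 456) (nat_lit 6628922301) (nat_lit 76) (nat_lit 18400485722) (nat_lit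 57) (nat_lit 5) (nat_lit 63) (nat_lit 5) (nat_lit 58) (nat_lit 5) (nat_lit 291) (nat_lit 274) (nat_lit 155)) (XT.lf (nat_lit 0) (nat_lit 9285052752) (nat_lit 304) (nat_lit 3412644143) (nat_lit 380) (nat_lit 22467300412) (nat_lit 53) (nat_lit 5) (nat_lit 57) (nat_lit 5) (nat_lit 58) (nat_lit 5) (nat_lit 292) (nat_lit 274) (nat_lit 154))) (XT.nd (nat_lit 78) (nat_lit 304) (nat_lit 0) (XT.lf (nat_lit 0) (nat_lit 16722889884) (nat_lit 380) (nat_lit 10165608813) (nat_lit 76) (nat_lit 9339597012) (nat_lit 53) (nat_lit 5) (nat_lit 58) (nat_lit 5) (nat_lit 54) (nat_lit 5) (nat_lit 293) (nat_lit 274) (nat_lit 153)) (XT.nd (nat_lit 78) (nat_lit 0) (nat_lit 0) (XT.lf (nat_lit 0) (nat_lit 6481750088) (nat_lit 304) (nat_lit 14620963217) (nat_lit 380) (nat_lit 16233977844) (nat_lit 49) (nat_lit 5) (nat_lit 53) (nat_lit 5) (nat_lit 54) (nat_lit 5) (nat_lit 294) (nat_lit 274) (nat_lit 152)) (XT.lf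 (nat_lit 0) (nat_lit 24310266621) (nat_lit 304) (nat_lit 1559763342) (nat_lit 380) (nat_lit 12622271445) (nat_lit 49) (nat_lit 5) (nat_lit 53) (nat_lit 5) (nat_lit 54) (nat_lit 5) (nat_lit 295) (nat_lit 274) (nat_lit 151))))))) (XT.nd (nat_lit 702) (nat_lit 836) (nat_lit 0) (XT.nd (nat_lit 312) (nat_lit 456) (nat_lit 0) (XT.nd (nat_lit 156) (nat_lit 380) (nat_lit 0) (XT.nd (nat_lit 78) (nat_lit 0) (nat_lit 0) (XT.lf (nat_lit 0) (nat_lit 3234146966) (nat_lit 228) (nat_lit 27878334929) (nat_lit 304) (nat_lit 8581381480) (nat_lit 46) (nat_lit 5) (nat_lit 49) (nat_lit 5) (nat_lit 50) (nat_lit 5) (nat_lit 296) (nat_lit 274) (nat_lit 150)) (XT.lf (nat_lit 0) (nat_lit 21983040109) (nat_lit 228) (nat_lit 14895965968) (nat_lit 304) (nat_lit 4063409086) (nat_lit 46) (nat_lit 5) (nat_lit 49) (nat_lit 5) (nat_lit 50) (nat_lit 5) (nat_lit 297) (nat_lit 274) (nat_lit 149))) (XT.nd (nat_lit 78) (nat_lit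 304) (nat_lit 0) (XT.lf (nat_lit 0) (nat_lit 655395386) (nat_lit 304) (nat_lit 598615292) (nat_lit 76) (nat_lit 40999025393) (nat_lit 45) (nat_lit 5) (nat_lit 49) (nat_lit 5) (nat_lit 46) (nat_lit 5) (nat_lit 298) (nat_lit 274) (nat_lit 148)) (XT.lf (nat_lit 0) (nat_lit 5980672144) (nat_lit 380) (nat_lit 24595969165) (nat_lit 76) (nat_lit 13023869541) (nat_lit 41) (nat_lit 5) (nat_lit 46) (nat_lit 5) (nat_lit 42) (nat_lit 5) (nat_lit 299) (nat_lit 274) (nat_lit 147)))) (XT.nd (nat_lit 156) (nat_lit 228) (nat_lit 0) (XT.nd (nat_lit 78) (nat_lit 228) (nat_lit 0) (XT.lf (nat_lit 0) (nat_lit 11600023624) (nat_lit 380) (nat_lit 5430810442) (nat_lit 76) (nat_lit 27983142334) (nat_lit 41) (nat_lit 5) (nat_lit 46) (nat_lit 5) (nat_lit 42) (nat_lit 5) (nat_lit 300) (nat_lit 274) (nat_lit 146)) (XT.lf (nat_lit 0) (nat_lit 15174599303) (nat_lit 228) (nat_lit 2559755967) (nat_lit 304) (nat_lit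 28752066540) (nat_lit 38) (nat_lit 5) (nat_lit 41) (nat_lit 5) (nat_lit 42) (nat_lit 5) (nat_lit 301) (nat_lit 274) (nat_lit 145))) (XT.nd (nat_lit 78) (nat_lit 228) (nat_lit 0) (XT.lf (nat_lit 0) (nat_lit 24463314167) (nat_lit 304) (nat_lit 11231604236) (nat_lit 76) (nat_lit 12323182424) (nat_lit 38) (nat_lit 5) (nat_lit 42) (nat_lit 5) (nat_lit 39) (nat_lit 5) (nat_lit 302) (nat_lit 274) (nat_lit 144)) (XT.nd (nat_lit 78) (nat_lit 0) (nat_lit 0) (XT.lf (nat_lit 0) (nat_lit 10131342402) (nat_lit 228) (nat_lit 21594819211) (nat_lit 304) (nat_lit 17890336694) (nat_lit 35) (nat_lit 5) (nat_lit 38) (nat_lit 5) (nat_lit 39) (nat_lit 5) (nat_lit 303) (nat_lit 274) (nat_lit 143)) (XT.lf (nat_lit 0) (nat_lit 32948844579) (nat_lit 228) (nat_lit 6590891803) (nat_lit 304) (nat_lit 11745706264) (nat_lit 35) (nat_lit 5) (nat_lit 38) (nat_lit 5) (nat_lit 39) (nat_lit 5) (nat_lit 304) (nat_lit 274)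 (nat_lit 142)))))) (XT.nd (nat_lit 312) (nat_lit 380) (nat_lit 0) (XT.nd (nat_lit 156) (nat_lit 228) (nat_lit 0) (XT.nd (nat_lit 78) (nat_lit 76) (nat_lit 0) (XT.lf (nat_lit 0) (nat_lit 3845940625) (nat_lit 152) (nat_lit 44098642949) (nat_lit 228) (nat_lit 5083226877) (nat_lit 33) (nat_lit 5) (nat_lit 35) (nat_lit 5) (nat_lit 36) (nat_lit 5) (nat_lit 305) (nat_lit 274) (nat_lit 141)) (XT.lf (nat_lit 0) (nat_lit 2272350668) (nat_lit 228) (nat_lit 27214063147) (nat_lit 76) (nat_lit 25348336229) (nat_lit 32) (nat_lit 5) (nat_lit 35) (nat_lit 5) (nat_lit 33) (nat_lit 5) (nat_lit 306) (nat_lit 274) (nat_lit 140))) (XT.nd (nat_lit 78) (nat_lit 228) (nat_lit 0) (XT.lf (nat_lit 0) (nat_lit 9822500960) (nat_lit 228) (nat_lit 4234539837) (nat_lit 76) (nat_lit 42670953184) (nat_lit 32) (nat_lit 5) (nat_lit 35) (nat_lit 5) (nat_lit 33) (nat_lit 5) (nat_lit 307) (nat_lit 274) (nat_lit 139)) (XT.lf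 (nat_lit 0) (nat_lit 18107430238) (nat_lit 304) (nat_lit 38190237340) (nat_lit 76) (nat_lit 2400373845) (nat_lit 29) (nat_lit 5) (nat_lit 33) (nat_lit 5) (nat_lit 30) (nat_lit 5) (nat_lit 308) (nat_lit 274) (nat_lit 138)))) (XT.nd (nat_lit 156) (nat_lit 228) (nat_lit 0) (XT.nd (nat_lit 78) (nat_lit 152) (nat_lit 0) (XT.lf (nat_lit 0) (nat_lit 27107720079) (nat_lit 304) (nat_lit 14363577626) (nat_lit 76) (nat_lit 19280242477) (nat_lit 29) (nat_lit 5) (nat_lit 33) (nat_lit 5) (nat_lit 30) (nat_lit 5) (nat_lit 309) (nat_lit 274) (nat_lit 137)) (XT.lf (nat_lit 0) (nat_lit 11003518263) (nat_lit 152) (nat_lit 25724188751) (nat_lit 228) (nat_lit 26171527165) (nat_lit 27) (nat_lit 5) (nat_lit 29) (nat_lit 5) (nat_lit 30) (nat_lit 5) (nat_lit 310) (nat_lit 274) (nat_lit 136))) (XT.nd (nat_lit 78) (nat_lit 228) (nat_lit 0) (XT.lf (nat_lit 0) (nat_lit 38134611462) (nat_lit 152) (nat_lit 8935276158)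 (nat_lit 228) (nat_lit 18072369755) (nat_lit 27) (nat_lit 5) (nat_lit 29) (nat_lit 5) (nat_lit 30) (nat_lit 5) (nat_lit 311) (nat_lit 274) (nat_lit 135)) (XT.nd (nat_lit 78) (nat_lit 228) (nat_lit 0) (XT.lf (nat_lit 0) (nat_lit 58062924503) (nat_lit 228) (nat_lit 1013867737) (nat_lit 76) (nat_lit 8413956147) (nat_lit 27) (nat_lit 5) (nat_lit 30) (nat_lit 5) (nat_lit 28) (nat_lit 5) (nat_lit 312) (nat_lit 274) (nat_lit 134)) (XT.lf (nat_lit 0) (nat_lit 235515151) (nat_lit 228) (nat_lit 42937889357) (nat_lit 76) (nat_lit 26754770626) (nat_lit 24) (nat_lit 5) (nat_lit 27) (nat_lit 5) (nat_lit 25) (nat_lit 5) (nat_lit 313) (nat_lit 274) (nat_lit 133))))))))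
noncomputable def xc207 : XT := (XT.nd (nat_lit 1404) (nat_lit 380) (nat_lit 0) (XT.nd (nat_lit 702) (nat_lit 456) (nat_lit 0) (XT.nd (nat_lit 312) (nat_lit 304) (nat_lit 0) (XT.nd (nat_lit 156) (nat_lit 0) (nat_lit 0) (XT.nd (nat_lit 78) (nat_lit 152) (nat_lit 0) (XT.lf (nat_lit 0) (nat_lit 10080766748) (nat_lit 228) (nat_lit 16214454568) (nat_lit 76) (nat_lit 46183748531) (nat_lit 24) (nat_lit 5) (nat_lit 27) (nat_lit 5) (nat_lit 25) (nat_lit 5) (nat_lit 314) (nat_lit 274) (nat_lit 132)) (XT.lf (nat_lit 0) (nat_lit 12234002083) (nat_lit 152) (nat_lit 8373505415) (nat_lit 228) (nat_lit 54540338774) (nat_lit 22) (nat_lit 5) (nat_lit 24) (nat_lit 5) (nat_lit 25) (nat_lit 5) (nat_lit 315) (nat_lit 274) (nat_lit 131))) (XT.nd (nat_lit 78) (nat_lit 0) (nat_lit 0) (XT.lf (nat_lit 0) (nat_lit 32100999326) (nat_lit 228) (nat_lit 35438938103) (nat_lit 76) (nat_lit 10388211535) (nat_lit 22)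 (nat_lit 5) (nat_lit 25) (nat_lit 5) (nat_lit 23) (nat_lit 5) (nat_lit 316) (nat_lit 274) (nat_lit 130)) (XT.lf (nat_lit 0) (nat_lit 44304767788) (nat_lit 228) (nat_lit 6730172543) (nat_lit 76) (nat_lit 29805749354) (nat_lit 22) (nat_lit 5) (nat_lit 25) (nat_lit 5) (nat_lit 23) (nat_lit 5) (nat_lit 317) (nat_lit 274) (nat_lit 129)))) (XT.nd (nat_lit 156) (nat_lit 152) (nat_lit 0) (XT.nd (nat_lit 78) (nat_lit 0) (nat_lit 0) (XT.lf (nat_lit 0) (nat_lit 24185631839) (nat_lit 152) (nat_lit 33309109244) (nat_lit 228) (nat_lit 26385318394) (nat_lit 20) (nat_lit 5) (nat_lit 22) (nat_lit 5) (nat_lit 23) (nat_lit 5) (nat_lit 318) (nat_lit 274) (nat_lit 128)) (XT.lf (nat_lit 0) (nat_lit 56878432292) (nat_lit 152) (nat_lit 14578207807) (nat_lit 228) (nat_lit 15609139024) (nat_lit 20) (nat_lit 5) (nat_lit 22) (nat_lit 5) (nat_lit 23) (nat_lit 5) (nat_lit 319) (nat_lit 274) (nat_lit 127))) (XT.nd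 (nat_lit 78) (nat_lit 76) (nat_lit 0) (XT.lf (nat_lit 0) (nat_lit 736816503) (nat_lit 76) (nat_lit 85469287465) (nat_lit 152) (nat_lit 4200209878) (nat_lit 19) (nat_lit 5) (nat_lit 20) (nat_lit 5) (nat_lit 21) (nat_lit 4) (nat_lit 320) (nat_lit 274) (nat_lit 126)) (XT.nd (nat_lit 78) (nat_lit 0) (nat_lit 0) (XT.lf (nat_lit 0) (nat_lit 8287305884) (nat_lit 152) (nat_lit 60004321143) (nat_lit 76) (nat_lit 25578321797) (nat_lit 18) (nat_lit 5) (nat_lit 20) (nat_lit 5) (nat_lit 19) (nat_lit 5) (nat_lit 321) (nat_lit 274) (nat_lit 125)) (XT.lf (nat_lit 0) (nat_lit 21256630238) (nat_lit 152) (nat_lit 28927036976) (nat_lit 76) (nat_lit 47319728406) (nat_lit 18) (nat_lit 5) (nat_lit 20) (nat_lit 5) (nat_lit 19) (nat_lit 5) (nat_lit 322) (nat_lit 274) (nat_lit 124)))))) (XT.nd (nat_lit 312) (nat_lit 228) (nat_lit 0) (XT.nd (nat_lit 156) (nat_lit 76) (nat_lit 0) (XT.nd (nat_lit 78) (nat_lit 0)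 (nat_lit 0) (XT.lf (nat_lit 0) (nat_lit 3824328118) (nat_lit 152) (nat_lit 31108455835) (nat_lit 228) (nat_lit 66382814777) (nat_lit 16) (nat_lit 5) (nat_lit 18) (nat_lit 5) (nat_lit 19) (nat_lit 5) (nat_lit 323) (nat_lit 274) (nat_lit 123)) (XT.lf (nat_lit 0) (nat_lit 39215392464) (nat_lit 152) (nat_lit 10565931414) (nat_lit 228) (nat_lit 55512661222) (nat_lit 16) (nat_lit 5) (nat_lit 18) (nat_lit 5) (nat_lit 19) (nat_lit 5) (nat_lit 324) (nat_lit 274) (nat_lit 122))) (XT.nd (nat_lit 78) (nat_lit 76) (nat_lit 0) (XT.lf (nat_lit 0) (nat_lit 65542825034) (nat_lit 228) (nat_lit 33269179784) (nat_lit 76) (nat_lit 10650761188) (nat_lit 16) (nat_lit 5) (nat_lit 19) (nat_lit 5) (nat_lit 17) (nat_lit 4) (nat_lit 325) (nat_lit 274) (nat_lit 121)) (XT.lf (nat_lit 0) (nat_lit 1038737689) (nat_lit 76) (nat_lit 81241888719) (nat_lit 152) (nat_lit 31549950133) (nat_lit 15) (nat_lit 5) (nat_lit 16)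 (nat_lit 5) (nat_lit 17) (nat_lit 4) (nat_lit 326) (nat_lit 274) (nat_lit 120)))) (XT.nd (nat_lit 156) (nat_lit 228) (nat_lit 0) (XT.nd (nat_lit 78) (nat_lit 0) (nat_lit 0) (XT.lf (nat_lit 0) (nat_lit 38215113972) (nat_lit 76) (nat_lit 62202455730) (nat_lit 152) (nat_lit 17971097060) (nat_lit 15) (nat_lit 5) (nat_lit 16) (nat_lit 5) (nat_lit 17) (nat_lit 4) (nat_lit 327) (nat_lit 274) (nat_lit 119)) (XT.lf (nat_lit 0) (nat_lit 77248434914) (nat_lit 76) (nat_lit 42211803526) (nat_lit 152) (nat_lit 3714480809) (nat_lit 15) (nat_lit 5) (nat_lit 16) (nat_lit 5) (nat_lit 17) (nat_lit 4) (nat_lit 328) (nat_lit 274) (nat_lit 118))) (XT.nd (nat_lit 78) (nat_lit 152) (nat_lit 0) (XT.lf (nat_lit 0) (nat_lit 10893649688) (nat_lit 152) (nat_lit 10144196398) (nat_lit 76) (nat_lit 107153498077) (nat_lit 14) (nat_lit 5) (nat_lit 16) (nat_lit 5) (nat_lit 15) (nat_lit 5) (nat_lit 329) (nat_lit 274)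 (nat_lit 117)) (XT.nd (nat_lit 78) (nat_lit 0) (nat_lit 0) (XT.lf (nat_lit 0) (nat_lit 26574558043) (nat_lit 228) (nat_lit 105191461142) (nat_lit 76) (nat_lit 1666377812) (nat_lit 12) (nat_lit 5) (nat_lit 15) (nat_lit 5) (nat_lit 13) (nat_lit 4) (nat_lit 330) (nat_lit 274) (nat_lit 116)) (XT.lf (nat_lit 0) (nat_lit 43557983984) (nat_lit 228) (nat_lit 70378852155) (nat_lit 76) (nat_lit 24972744099) (nat_lit 12) (nat_lit 5) (nat_lit 15) (nat_lit 5) (nat_lit 13) (nat_lit 4) (nat_lit 331) (nat_lit 274) (nat_lit 115))))))) (XT.nd (nat_lit 702) (nat_lit 152) (nat_lit 0) (XT.nd (nat_lit 312) (nat_lit 152) (nat_lit 0) (XT.nd (nat_lit 156) (nat_lit 0) (nat_lit 0) (XT.nd (nat_lit 78) (nat_lit 76) (nat_lit 0) (XT.lf (nat_lit 0) (nat_lit 61389606201) (nat_lit 228) (nat_lit 33827278220) (nat_lit 76) (nat_lit 49443788278) (nat_lit 12) (nat_lit 5) (nat_lit 15) (nat_lit 5) (nat_lit 13) (nat_lit 4)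 (nat_lit 332) (nat_lit 274) (nat_lit 114)) (XT.lf (nat_lit 0) (nat_lit 4700741298) (nat_lit 76) (nat_lit 75484531387) (nat_lit 152) (nat_lit 70510425186) (nat_lit 11) (nat_lit 5) (nat_lit 12) (nat_lit 5) (nat_lit 13) (nat_lit 4) (nat_lit 333) (nat_lit 274) (nat_lit 113))) (XT.nd (nat_lit 78) (nat_lit 0) (nat_lit 0) (XT.lf (nat_lit 0) (nat_lit 46328007899) (nat_lit 76) (nat_lit 54164687179) (nat_lit 152) (nat_lit 56511181779) (nat_lit 11) (nat_lit 5) (nat_lit 12) (nat_lit 5) (nat_lit 13) (nat_lit 4) (nat_lit 334) (nat_lit 274) (nat_lit 112)) (XT.lf (nat_lit 0) (nat_lit 90035151538) (nat_lit 76) (nat_lit 31779471591) (nat_lit 152) (nat_lit 41812886069) (nat_lit 11) (nat_lit 5) (nat_lit 12) (nat_lit 5) (nat_lit 13) (nat_lit 4) (nat_lit 335) (nat_lit 274) (nat_lit 111)))) (XT.nd (nat_lit 156) (nat_lit 76) (nat_lit 0) (XT.nd (nat_lit 78) (nat_lit 76) (nat_lit 0) (XT.lf (nat_lit 0) (nat_lit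 135926236841) (nat_lit 76) (nat_lit 8275586488) (nat_lit 152) (nat_lit 26380542113) (nat_lit 11) (nat_lit 5) (nat_lit 12) (nat_lit 5) (nat_lit 13) (nat_lit 4) (nat_lit 336) (nat_lit 274) (nat_lit 110)) (XT.lf (nat_lit 0) (nat_lit 6166804061) (nat_lit 76) (nat_lit 161893171273) (nat_lit 76) (nat_lit 9807410599) (nat_lit 10) (nat_lit 4) (nat_lit 11) (nat_lit 5) (nat_lit 11) (nat_lit 4) (nat_lit 337) (nat_lit 274) (nat_lit 109))) (XT.nd (nat_lit 78) (nat_lit 0) (nat_lit 0) (XT.lf (nat_lit 0) (nat_lit 8082724381) (nat_lit 152) (nat_lit 135518486550) (nat_lit 76) (nat_lit 41872948253) (nat_lit 9) (nat_lit 5) (nat_lit 11) (nat_lit 5) (nat_lit 10) (nat_lit 4) (nat_lit 338) (nat_lit 274) (nat_lit 108)) (XT.nd (nat_lit 78) (nat_lit 0) (nat_lit 0) (XT.lf (nat_lit 0) (nat_lit 26537019594) (nat_lit 152) (nat_lit 97689382181) (nat_lit 76) (nat_lit 69226869005) (nat_lit 9) (nat_lit 5) (nat_lit 11)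 (nat_lit 5) (nat_lit 10) (nat_lit 4) (nat_lit 339) (nat_lit 274) (nat_lit 107)) (XT.lf (nat_lit 0) (nat_lit 45913312225) (nat_lit 152) (nat_lit 57970078306) (nat_lit 76) (nat_lit 97947984137) (nat_lit 9) (nat_lit 5) (nat_lit 11) (nat_lit 5) (nat_lit 10) (nat_lit 4) (nat_lit 340) (nat_lit 274) (nat_lit 106)))))) (XT.nd (nat_lit 312) (nat_lit 76) (nat_lit 0) (XT.nd (nat_lit 156) (nat_lit 0) (nat_lit 0) (XT.nd (nat_lit 78) (nat_lit 76) (nat_lit 0) (XT.lf (nat_lit 0) (nat_lit 66257736302) (nat_lit 152) (nat_lit 16266005154) (nat_lit 76) (nat_lit 128104677255) (nat_lit 9) (nat_lit 5) (nat_lit 11) (nat_lit 5) (nat_lit 10) (nat_lit 4) (nat_lit 341) (nat_lit 274) (nat_lit 105)) (XT.lf (nat_lit 0) (nat_lit 28432138688) (nat_lit 76) (nat_lit 59630497610) (nat_lit 152) (nat_lit 131780516688) (nat_lit 8) (nat_lit 5) (nat_lit 9) (nat_lit 5) (nat_lit 10) (nat_lit 4) (nat_lit 342) (nat_lit 274) (nat_lit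 104))) (XT.nd (nat_lit 78) (nat_lit 0) (nat_lit 0) (XT.lf (nat_lit 0) (nat_lit 75928788094) (nat_lit 76) (nat_lit 35303828704) (nat_lit 152) (nat_lit 118272266129) (nat_lit 8) (nat_lit 5) (nat_lit 9) (nat_lit 5) (nat_lit 10) (nat_lit 4) (nat_lit 343) (nat_lit 274) (nat_lit 103)) (XT.lf (nat_lit 0) (nat_lit 125799202735) (nat_lit 76) (nat_lit 9761286765) (nat_lit 152) (nat_lit 104089240900) (nat_lit 8) (nat_lit 5) (nat_lit 9) (nat_lit 5) (nat_lit 10) (nat_lit 4) (nat_lit 344) (nat_lit 274) (nat_lit 102)))) (XT.nd (nat_lit 156) (nat_lit 76) (nat_lit 0) (XT.nd (nat_lit 78) (nat_lit 0) (nat_lit 0) (XT.lf (nat_lit 0) (nat_lit 161370500219) (nat_lit 152) (nat_lit 72406050418) (nat_lit 0) (nat_lit 16511983051) (nat_lit 8) (nat_lit 5) (nat_lit 10) (nat_lit 4) (nat_lit 8) (nat_lit 4) (nat_lit 345) (nat_lit 274) (nat_lit 101)) (XT.lf (nat_lit 0) (nat_lit 188630475642) (nat_lit 152) (nat_lit 29050360046)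 (nat_lit 0) (nat_lit 43770468873) (nat_lit 8) (nat_lit 5) (nat_lit 10) (nat_lit 4) (nat_lit 8) (nat_lit 4) (nat_lit 346) (nat_lit 274) (nat_lit 100))) (XT.nd (nat_lit 78) (nat_lit 0) (nat_lit 0) (XT.lf (nat_lit 0) (nat_lit 17016816733) (nat_lit 76) (nat_lit 200501782895) (nat_lit 76) (nat_lit 55640357459) (nat_lit 7) (nat_lit 4) (nat_lit 8) (nat_lit 5) (nat_lit 8) (nat_lit 4) (nat_lit 347) (nat_lit 274) (nat_lit 99)) (XT.nd (nat_lit 78) (nat_lit 0) (nat_lit 0) (XT.lf (nat_lit 0) (nat_lit 66394987940) (nat_lit 76) (nat_lit 181947604151) (nat_lit 76) (nat_lit 37084827604) (nat_lit 7) (nat_lit 4) (nat_lit 8) (nat_lit 5) (nat_lit 8) (nat_lit 4) (nat_lit 348) (nat_lit 274) (nat_lit 98)) (XT.lf (nat_lit 0) (nat_lit 118241184550) (nat_lit 76) (nat_lit 162466104746) (nat_lit 76) (nat_lit 17602041427) (nat_lit 7) (nat_lit 4) (nat_lit 8) (nat_lit 5) (nat_lit 8) (nat_lit 4) (nat_lit 349) (nat_lit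 274) (nat_lit 97))))))))
noncomputable def xc208 : XT := (XT.nd (nat_lit 1326) (nat_lit 2128) (nat_lit 0) (XT.nd (nat_lit 624) (nat_lit 1140) (nat_lit 0) (XT.nd (nat_lit 312) (nat_lit 0) (nat_lit 76) (XT.nd (nat_lit 156) (nat_lit 0) (nat_lit 0) (XT.nd (nat_lit 78) (nat_lit 0) (nat_lit 0) (XT.lf (nat_lit 0) (nat_lit 2244102433) (nat_lit 0) (nat_lit 2244102433) (nat_lit 684) (nat_lit 6875352397) (nat_lit 72) (nat_lit 5) (nat_lit 72) (nat_lit 3) (nat_lit 81) (nat_lit 3) (nat_lit 275) (nat_lit 275) (nat_lit 170)) (XT.lf (nat_lit 0) (nat_lit 9402435446) (nat_lit 684) (nat_lit 8623642129) (nat_lit 760) (nat_lit 5258752443) (nat_lit 72) (nat_lit 5) (nat_lit 81) (nat_lit 3) (nat_lit 82) (nat_lit 5) (nat_lit 276) (nat_lit 275) (nat_lit 169))) (XT.nd (nat_lit 78) (nat_lit 0) (nat_lit 76) (XT.lf (nat_lit 76) (nat_lit 1440729136) (nat_lit 0) (nat_lit 8497686160) (nat_lit 760) (nat_lit 13927607771)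 (nat_lit 73) (nat_lit 5) (nat_lit 72) (nat_lit 5) (nat_lit 82) (nat_lit 5) (nat_lit 277) (nat_lit 275) (nat_lit 168)) (XT.lf (nat_lit 0) (nat_lit 10666081905) (nat_lit 684) (nat_lit 12191739562) (nat_lit 760) (nat_lit 1610233178) (nat_lit 73) (nat_lit 5) (nat_lit 82) (nat_lit 5) (nat_lit 83) (nat_lit 5) (nat_lit 278) (nat_lit 275) (nat_lit 167)))) (XT.nd (nat_lit 156) (nat_lit 0) (nat_lit 76) (XT.nd (nat_lit 78) (nat_lit 0) (nat_lit 0) (XT.lf (nat_lit 0) (nat_lit 11562693015) (nat_lit 684) (nat_lit 1590150741) (nat_lit 760) (nat_lit 11940738143) (nat_lit 73) (nat_lit 5) (nat_lit 82) (nat_lit 5) (nat_lit 83) (nat_lit 5) (nat_lit 279) (nat_lit 275) (nat_lit 166)) (XT.lf (nat_lit 76) (nat_lit 9852736192) (nat_lit 0) (nat_lit 2798803350) (nat_lit 760) (nat_lit 13091496831) (nat_lit 74) (nat_lit 5) (nat_lit 73) (nat_lit 5) (nat_lit 83) (nat_lit 5) (nat_lit 280) (nat_lit 275) (nat_lit 165)))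 (XT.nd (nat_lit 78) (nat_lit 0) (nat_lit 0) (XT.lf (nat_lit 0) (nat_lit 13942092605) (nat_lit 684) (nat_lit 4631551868) (nat_lit 760) (nat_lit 7843975985) (nat_lit 74) (nat_lit 5) (nat_lit 83) (nat_lit 5) (nat_lit 84) (nat_lit 5) (nat_lit 281) (nat_lit 275) (nat_lit 164)) (XT.lf (nat_lit 76) (nat_lit 7376118424) (nat_lit 0) (nat_lit 8076243138) (nat_lit 760) (nat_lit 11665831912) (nat_lit 75) (nat_lit 5) (nat_lit 74) (nat_lit 5) (nat_lit 84) (nat_lit 5) (nat_lit 282) (nat_lit 275) (nat_lit 163))))) (XT.nd (nat_lit 312) (nat_lit 760) (nat_lit 0) (XT.nd (nat_lit 156) (nat_lit 608) (nat_lit 0) (XT.nd (nat_lit 78) (nat_lit 0) (nat_lit 0) (XT.lf (nat_lit 0) (nat_lit 17158244919) (nat_lit 684) (nat_lit 7756656544) (nat_lit 760) (nat_lit 2932906857) (nat_lit 75) (nat_lit 5) (nat_lit 84) (nat_lit 5) (nat_lit 85) (nat_lit 5) (nat_lit 283) (nat_lit 275) (nat_lit 162)) (XT.lf (nat_lit 76) (nat_lit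 4846495566) (nat_lit 0) (nat_lit 14305640979) (nat_lit 760) (nat_lit 9451649018) (nat_lit 76) (nat_lit 5) (nat_lit 75) (nat_lit 5) (nat_lit 85) (nat_lit 5) (nat_lit 284) (nat_lit 275) (nat_lit 161))) (XT.nd (nat_lit 78) (nat_lit 608) (nat_lit 0) (XT.lf (nat_lit 76) (nat_lit 18344909545) (nat_lit 0) (nat_lit 3027014625) (nat_lit 760) (nat_lit 8019343963) (nat_lit 76) (nat_lit 5) (nat_lit 75) (nat_lit 5) (nat_lit 85) (nat_lit 5) (nat_lit 285) (nat_lit 275) (nat_lit 160)) (XT.lf (nat_lit 0) (nat_lit 2229578679) (nat_lit 684) (nat_lit 21640666713) (nat_lit 760) (nat_lit 6339517972) (nat_lit 67) (nat_lit 5) (nat_lit 76) (nat_lit 5) (nat_lit 77) (nat_lit 5) (nat_lit 286) (nat_lit 275) (nat_lit 159)))) (XT.nd (nat_lit 156) (nat_lit 760) (nat_lit 0) (XT.nd (nat_lit 78) (nat_lit 0) (nat_lit 0) (XT.lf (nat_lit 0) (nat_lit 16497356462) (nat_lit 684) (nat_lit 10227291230) (nat_lit 760) (nat_lit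 4332992411) (nat_lit 67) (nat_lit 5) (nat_lit 76) (nat_lit 5) (nat_lit 77) (nat_lit 5) (nat_lit 287) (nat_lit 275) (nat_lit 158)) (XT.lf (nat_lit 0) (nat_lit 29744698081) (nat_lit 760) (nat_lit 501060191) (nat_lit 76) (nat_lit 1701020290) (nat_lit 67) (nat_lit 5) (nat_lit 77) (nat_lit 5) (nat_lit 68) (nat_lit 5) (nat_lit 288) (nat_lit 275) (nat_lit 157))) (XT.nd (nat_lit 78) (nat_lit 380) (nat_lit 0) (XT.lf (nat_lit 0) (nat_lit 431258914) (nat_lit 380) (nat_lit 18312531011) (nat_lit 76) (nat_lit 14116718648) (nat_lit 62) (nat_lit 5) (nat_lit 67) (nat_lit 5) (nat_lit 63) (nat_lit 5) (nat_lit 289) (nat_lit 275) (nat_lit 156)) (XT.nd (nat_lit 78) (nat_lit 380) (nat_lit 0) (XT.lf (nat_lit 0) (nat_lit 3126661667) (nat_lit 380) (nat_lit 3493006181) (nat_lit 76) (nat_lit 27198244555) (nat_lit 62) (nat_lit 5) (nat_lit 67) (nat_lit 5) (nat_lit 63) (nat_lit 5) (nat_lit 290) (nat_lit 275) (nat_lit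 155)) (XT.lf (nat_lit 0) (nat_lit 6245980880) (nat_lit 456) (nat_lit 22449828412) (nat_lit 76) (nat_lit 6112931566) (nat_lit 57) (nat_lit 5) (nat_lit 63) (nat_lit 5) (nat_lit 58) (nat_lit 5) (nat_lit 291) (nat_lit 275) (nat_lit 154))))))) (XT.nd (nat_lit 702) (nat_lit 912) (nat_lit 0) (XT.nd (nat_lit 312) (nat_lit 608) (nat_lit 0) (XT.nd (nat_lit 156) (nat_lit 304) (nat_lit 0) (XT.nd (nat_lit 78) (nat_lit 304) (nat_lit 0) (XT.lf (nat_lit 0) (nat_lit 9686019290) (nat_lit 456) (nat_lit 6835021093) (nat_lit 76) (nat_lit 19319843879) (nat_lit 57) (nat_lit 5) (nat_lit 63) (nat_lit 5) (nat_lit 58) (nat_lit 5) (nat_lit 292) (nat_lit 275) (nat_lit 153)) (XT.lf (nat_lit 0) (nat_lit 9872630982) (nat_lit 304) (nat_lit 3575861958) (nat_lit 380) (nat_lit 23468630890) (nat_lit 53) (nat_lit 5) (nat_lit 57) (nat_lit 5) (nat_lit 58) (nat_lit 5) (nat_lit 293) (nat_lit 275) (nat_lit 152))) (XT.nd (nat_lit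 78) (nat_lit 304) (nat_lit 0) (XT.lf (nat_lit 0) (nat_lit 17669536245) (nat_lit 380) (nat_lit 10550714801) (nat_lit 76) (nat_lit 9813412181) (nat_lit 53) (nat_lit 5) (nat_lit 58) (nat_lit 5) (nat_lit 54) (nat_lit 5) (nat_lit 294) (nat_lit 275) (nat_lit 151)) (XT.lf (nat_lit 0) (nat_lit 6927025360) (nat_lit 304) (nat_lit 15337955564) (nat_lit 380) (nat_lit 16932890877) (nat_lit 49) (nat_lit 5) (nat_lit 53) (nat_lit 5) (nat_lit 54) (nat_lit 5) (nat_lit 295) (nat_lit 275) (nat_lit 150)))) (XT.nd (nat_lit 156) (nat_lit 380) (nat_lit 0) (XT.nd (nat_lit 78) (nat_lit 228) (nat_lit 0) (XT.lf (nat_lit 0) (nat_lit 25641196873) (nat_lit 304) (nat_lit 1624365020) (nat_lit 380) (nat_lit 13145969913) (nat_lit 49) (nat_lit 5) (nat_lit 53) (nat_lit 5) (nat_lit 54) (nat_lit 5) (nat_lit 296) (nat_lit 275) (nat_lit 149)) (XT.lf (nat_lit 0) (nat_lit 3514501866) (nat_lit 228) (nat_lit 29252827433) (nat_lit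 304) (nat_lit 8905996412) (nat_lit 46) (nat_lit 5) (nat_lit 49) (nat_lit 5) (nat_lit 50) (nat_lit 5) (nat_lit 297) (nat_lit 275) (nat_lit 148))) (XT.nd (nat_lit 78) (nat_lit 380) (nat_lit 0) (XT.lf (nat_lit 0) (nat_lit 23195189782) (nat_lit 228) (nat_lit 15622264988) (nat_lit 304) (nat_lit 4167099405) (nat_lit 46) (nat_lit 5) (nat_lit 49) (nat_lit 5) (nat_lit 50) (nat_lit 5) (nat_lit 298) (nat_lit 275) (nat_lit 147)) (XT.nd (nat_lit 78) (nat_lit 304) (nat_lit 0) (XT.lf (nat_lit 0) (nat_lit 779875773) (nat_lit 304) (nat_lit 517663914) (nat_lit 76) (nat_lit 43063329707) (nat_lit 45) (nat_lit 5) (nat_lit 49) (nat_lit 5) (nat_lit 46) (nat_lit 5) (nat_lit 299) (nat_lit 275) (nat_lit 146)) (XT.lf (nat_lit 0) (nat_lit 6369065446) (nat_lit 380) (nat_lit 25712312701) (nat_lit 76) (nat_lit 13694468405) (nat_lit 41) (nat_lit 5) (nat_lit 46) (nat_lit 5) (nat_lit 42) (nat_lit 5) (nat_lit 300) (nat_lit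 275) (nat_lit 145)))))) (XT.nd (nat_lit 312) (nat_lit 456) (nat_lit 0) (XT.nd (nat_lit 156) (nat_lit 228) (nat_lit 0) (XT.nd (nat_lit 78) (nat_lit 228) (nat_lit 0) (XT.lf (nat_lit 0) (nat_lit 12265129277) (nat_lit 380) (nat_lit 5594298657) (nat_lit 76) (nat_lit 29400780771) (nat_lit 41) (nat_lit 5) (nat_lit 46) (nat_lit 5) (nat_lit 42) (nat_lit 5) (nat_lit 301) (nat_lit 275) (nat_lit 144)) (XT.lf (nat_lit 0) (nat_lit 16039638796) (nat_lit 228) (nat_lit 2664145905) (nat_lit 304) (nat_lit 30102621386) (nat_lit 38) (nat_lit 5) (nat_lit 41) (nat_lit 5) (nat_lit 42) (nat_lit 5) (nat_lit 302) (nat_lit 275) (nat_lit 143))) (XT.nd (nat_lit 78) (nat_lit 228) (nat_lit 0) (XT.lf (nat_lit 0) (nat_lit 25765603777) (nat_lit 304) (nat_lit 11688157864) (nat_lit 76) (nat_lit 12961096385) (nat_lit 38) (nat_lit 5) (nat_lit 42) (nat_lit 5) (nat_lit 39) (nat_lit 5) (nat_lit 303) (nat_lit 275) (nat_lit 142))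 (XT.lf (nat_lit 0) (nat_lit 10741242128) (nat_lit 228) (nat_lit 22648196973) (nat_lit 304) (nat_lit 18703853130) (nat_lit 35) (nat_lit 5) (nat_lit 38) (nat_lit 5) (nat_lit 39) (nat_lit 5) (nat_lit 304) (nat_lit 275) (nat_lit 141)))) (XT.nd (nat_lit 156) (nat_lit 304) (nat_lit 0) (XT.nd (nat_lit 78) (nat_lit 152) (nat_lit 0) (XT.lf (nat_lit 0) (nat_lit 34694698814) (nat_lit 228) (nat_lit 6895328585) (nat_lit 304) (nat_lit 12255848340) (nat_lit 35) (nat_lit 5) (nat_lit 38) (nat_lit 5) (nat_lit 39) (nat_lit 5) (nat_lit 305) (nat_lit 275) (nat_lit 140)) (XT.lf (nat_lit 0) (nat_lit 4138453811) (nat_lit 152) (nat_lit 46275110455) (nat_lit 228) (nat_lit 5261883580) (nat_lit 33) (nat_lit 5) (nat_lit 35) (nat_lit 5) (nat_lit 36) (nat_lit 5) (nat_lit 306) (nat_lit 275) (nat_lit 139))) (XT.nd (nat_lit 78) (nat_lit 228) (nat_lit 0) (XT.lf (nat_lit 0) (nat_lit 2455575840) (nat_lit 228) (nat_lit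 28476870643) (nat_lit 76) (nat_lit 26640410519) (nat_lit 32) (nat_lit 5) (nat_lit 35) (nat_lit 5) (nat_lit 33) (nat_lit 5) (nat_lit 307) (nat_lit 275) (nat_lit 138)) (XT.nd (nat_lit 78) (nat_lit 228) (nat_lit 0) (XT.lf (nat_lit 0) (nat_lit 10379918998) (nat_lit 228) (nat_lit 4353032866) (nat_lit 76) (nat_lit 44827984156) (nat_lit 32) (nat_lit 5) (nat_lit 35) (nat_lit 5) (nat_lit 33) (nat_lit 5) (nat_lit 308) (nat_lit 275) (nat_lit 137)) (XT.lf (nat_lit 0) (nat_lit 19077794169) (nat_lit 304) (nat_lit 40005078473) (nat_lit 76) (nat_lit 2546685031) (nat_lit 29) (nat_lit 5) (nat_lit 33) (nat_lit 5) (nat_lit 30) (nat_lit 5) (nat_lit 309) (nat_lit 275) (nat_lit 136))))))))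
noncomputable def xc209 : XT := (XT.nd (nat_lit 1326) (nat_lit 608) (nat_lit 0) (XT.nd (nat_lit 624) (nat_lit 456) (nat_lit 0) (XT.nd (nat_lit 312) (nat_lit 380) (nat_lit 0) (XT.nd (nat_lit 156) (nat_lit 0) (nat_lit 0) (XT.nd (nat_lit 78) (nat_lit 152) (nat_lit 0) (XT.lf (nat_lit 0) (nat_lit 28525003625) (nat_lit 304) (nat_lit 14991593903) (nat_lit 76) (nat_lit 20269295072) (nat_lit 29) (nat_lit 5) (nat_lit 33) (nat_lit 5) (nat_lit 30) (nat_lit 5) (nat_lit 310) (nat_lit 275) (nat_lit 135)) (XT.lf (nat_lit 0) (nat_lit 11642402544) (nat_lit 152) (nat_lit 26982024846) (nat_lit 228) (nat_lit 27416628209) (nat_lit 27) (nat_lit 5) (nat_lit 29) (nat_lit 5) (nat_lit 30) (nat_lit 5) (nat_lit 311) (nat_lit 275) (nat_lit 134))) (XT.nd (nat_lit 78) (nat_lit 0) (nat_lit 0) (XT.lf (nat_lit 0) (nat_lit 40125826196) (nat_lit 152) (nat_lit 9355017735) (nat_lit 228) (nat_lit 18915535562) (nat_lit 27)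 (nat_lit 5) (nat_lit 29) (nat_lit 5) (nat_lit 30) (nat_lit 5) (nat_lit 312) (nat_lit 275) (nat_lit 133)) (XT.lf (nat_lit 0) (nat_lit 61021198177) (nat_lit 228) (nat_lit 981653487) (nat_lit 76) (nat_lit 8859565717) (nat_lit 27) (nat_lit 5) (nat_lit 30) (nat_lit 5) (nat_lit 28) (nat_lit 5) (nat_lit 313) (nat_lit 275) (nat_lit 132)))) (XT.nd (nat_lit 156) (nat_lit 152) (nat_lit 0) (XT.nd (nat_lit 78) (nat_lit 0) (nat_lit 0) (XT.lf (nat_lit 0) (nat_lit 302051657) (nat_lit 228) (nat_lit 45001301135) (nat_lit 76) (nat_lit 28118391427) (nat_lit 24) (nat_lit 5) (nat_lit 27) (nat_lit 5) (nat_lit 25) (nat_lit 5) (nat_lit 314) (nat_lit 275) (nat_lit 131)) (XT.lf (nat_lit 0) (nat_lit 10636958179) (nat_lit 228) (nat_lit 16945669973) (nat_lit 76) (nat_lit 48517585738) (nat_lit 24) (nat_lit 5) (nat_lit 27) (nat_lit 5) (nat_lit 25) (nat_lit 5) (nat_lit 315) (nat_lit 275) (nat_lit 130))) (XT.nd (nat_lit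 78) (nat_lit 0) (nat_lit 0) (XT.lf (nat_lit 0) (nat_lit 12923927134) (nat_lit 152) (nat_lit 8764846663) (nat_lit 228) (nat_lit 57213828057) (nat_lit 22) (nat_lit 5) (nat_lit 24) (nat_lit 5) (nat_lit 25) (nat_lit 5) (nat_lit 316) (nat_lit 275) (nat_lit 129)) (XT.lf (nat_lit 0) (nat_lit 33754923277) (nat_lit 228) (nat_lit 37134280324) (nat_lit 76) (nat_lit 10932821316) (nat_lit 22) (nat_lit 5) (nat_lit 25) (nat_lit 5) (nat_lit 23) (nat_lit 5) (nat_lit 317) (nat_lit 275) (nat_lit 128))))) (XT.nd (nat_lit 312) (nat_lit 228) (nat_lit 0) (XT.nd (nat_lit 156) (nat_lit 76) (nat_lit 0) (XT.nd (nat_lit 78) (nat_lit 152) (nat_lit 0) (XT.lf (nat_lit 0) (nat_lit 46566552830) (nat_lit 228) (nat_lit 6993724328) (nat_lit 76) (nat_lit 31320036063) (nat_lit 22) (nat_lit 5) (nat_lit 25) (nat_lit 5) (nat_lit 23) (nat_lit 5) (nat_lit 318) (nat_lit 275) (nat_lit 127)) (XT.lf (nat_lit 0) (nat_lit 25466693550)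 (nat_lit 152) (nat_lit 34948235421) (nat_lit 228) (nat_lit 27656781304) (nat_lit 20) (nat_lit 5) (nat_lit 22) (nat_lit 5) (nat_lit 23) (nat_lit 5) (nat_lit 319) (nat_lit 275) (nat_lit 126))) (XT.nd (nat_lit 78) (nat_lit 76) (nat_lit 0) (XT.lf (nat_lit 0) (nat_lit 59790715925) (nat_lit 152) (nat_lit 15282042688) (nat_lit 228) (nat_lit 16344069299) (nat_lit 20) (nat_lit 5) (nat_lit 22) (nat_lit 5) (nat_lit 23) (nat_lit 5) (nat_lit 320) (nat_lit 275) (nat_lit 125)) (XT.lf (nat_lit 0) (nat_lit 842735583) (nat_lit 76) (nat_lit 89716350191) (nat_lit 152) (nat_lit 4365337704) (nat_lit 19) (nat_lit 5) (nat_lit 20) (nat_lit 5) (nat_lit 21) (nat_lit 4) (nat_lit 321) (nat_lit 275) (nat_lit 124)))) (XT.nd (nat_lit 156) (nat_lit 152) (nat_lit 0) (XT.nd (nat_lit 78) (nat_lit 0) (nat_lit 0) (XT.lf (nat_lit 0) (nat_lit 8743048456) (nat_lit 152) (nat_lit 62937314751) (nat_lit 76) (nat_lit 26880948679)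 (nat_lit 18) (nat_lit 5) (nat_lit 20) (nat_lit 5) (nat_lit 19) (nat_lit 5) (nat_lit 322) (nat_lit 275) (nat_lit 123)) (XT.lf (nat_lit 0) (nat_lit 22358868682) (nat_lit 152) (nat_lit 30309367445) (nat_lit 76) (nat_lit 49708296534) (nat_lit 18) (nat_lit 5) (nat_lit 20) (nat_lit 5) (nat_lit 19) (nat_lit 5) (nat_lit 323) (nat_lit 275) (nat_lit 122))) (XT.nd (nat_lit 78) (nat_lit 0) (nat_lit 0) (XT.lf (nat_lit 0) (nat_lit 4078533302) (nat_lit 152) (nat_lit 32639403692) (nat_lit 228) (nat_lit 69661456558) (nat_lit 16) (nat_lit 5) (nat_lit 18) (nat_lit 5) (nat_lit 19) (nat_lit 5) (nat_lit 324) (nat_lit 275) (nat_lit 121)) (XT.nd (nat_lit 78) (nat_lit 0) (nat_lit 0) (XT.lf (nat_lit 0) (nat_lit 41236151398) (nat_lit 152) (nat_lit 11070918523) (nat_lit 228) (nat_lit 58249723846) (nat_lit 16) (nat_lit 5) (nat_lit 18) (nat_lit 5) (nat_lit 19) (nat_lit 5) (nat_lit 325) (nat_lit 275) (nat_lit 120))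 (XT.lf (nat_lit 0) (nat_lit 68855246073) (nat_lit 228) (nat_lit 34874052133) (nat_lit 76) (nat_lit 11204788212) (nat_lit 16) (nat_lit 5) (nat_lit 19) (nat_lit 5) (nat_lit 17) (nat_lit 4) (nat_lit 326) (nat_lit 275) (nat_lit 119))))))) (XT.nd (nat_lit 702) (nat_lit 228) (nat_lit 0) (XT.nd (nat_lit 312) (nat_lit 228) (nat_lit 0) (XT.nd (nat_lit 156) (nat_lit 76) (nat_lit 0) (XT.nd (nat_lit 78) (nat_lit 0) (nat_lit 0) (XT.lf (nat_lit 0) (nat_lit 1148316268) (nat_lit 76) (nat_lit 85280841206) (nat_lit 152) (nat_lit 33091171574) (nat_lit 15) (nat_lit 5) (nat_lit 16) (nat_lit 5) (nat_lit 17) (nat_lit 4) (nat_lit 327) (nat_lit 275) (nat_lit 118)) (XT.lf (nat_lit 0) (nat_lit 40180766523) (nat_lit 76) (nat_lit 65290538565) (nat_lit 152) (nat_lit 18835103279) (nat_lit 15) (nat_lit 5) (nat_lit 16) (nat_lit 5) (nat_lit 17) (nat_lit 4) (nat_lit 328) (nat_lit 275) (nat_lit 117))) (XT.nd (nat_lit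 78) (nat_lit 76) (nat_lit 0) (XT.lf (nat_lit 0) (nat_lit 81163139376) (nat_lit 76) (nat_lit 44301403272) (nat_lit 152) (nat_lit 3867301389) (nat_lit 15) (nat_lit 5) (nat_lit 16) (nat_lit 5) (nat_lit 17) (nat_lit 4) (nat_lit 329) (nat_lit 275) (nat_lit 116)) (XT.lf (nat_lit 0) (nat_lit 11468665834) (nat_lit 152) (nat_lit 10600567956) (nat_lit 76) (nat_lit 112530118668) (nat_lit 14) (nat_lit 5) (nat_lit 16) (nat_lit 5) (nat_lit 15) (nat_lit 5) (nat_lit 330) (nat_lit 275) (nat_lit 115)))) (XT.nd (nat_lit 156) (nat_lit 76) (nat_lit 0) (XT.nd (nat_lit 78) (nat_lit 0) (nat_lit 0) (XT.lf (nat_lit 0) (nat_lit 27933273764) (nat_lit 228) (nat_lit 110399809875) (nat_lit 76) (nat_lit 1769393598) (nat_lit 12) (nat_lit 5) (nat_lit 15) (nat_lit 5) (nat_lit 13) (nat_lit 4) (nat_lit 331) (nat_lit 275) (nat_lit 114)) (XT.lf (nat_lit 0) (nat_lit 45764443010) (nat_lit 228) (nat_lit 73849009691) (nat_lit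 76) (nat_lit 26240140252) (nat_lit 12) (nat_lit 5) (nat_lit 15) (nat_lit 5) (nat_lit 13) (nat_lit 4) (nat_lit 332) (nat_lit 275) (nat_lit 113))) (XT.nd (nat_lit 78) (nat_lit 76) (nat_lit 0) (XT.lf (nat_lit 0) (nat_lit 64486286347) (nat_lit 228) (nat_lit 35472180158) (nat_lit 76) (nat_lit 51933843356) (nat_lit 12) (nat_lit 5) (nat_lit 15) (nat_lit 5) (nat_lit 13) (nat_lit 4) (nat_lit 333) (nat_lit 275) (nat_lit 112)) (XT.nd (nat_lit 78) (nat_lit 0) (nat_lit 0) (XT.lf (nat_lit 0) (nat_lit 4981490948) (nat_lit 76) (nat_lit 79239663677) (nat_lit 152) (nat_lit 74007962480) (nat_lit 11) (nat_lit 5) (nat_lit 12) (nat_lit 5) (nat_lit 13) (nat_lit 4) (nat_lit 334) (nat_lit 275) (nat_lit 111)) (XT.lf (nat_lit 0) (nat_lit 48687944091) (nat_lit 76) (nat_lit 56854736510) (nat_lit 152) (nat_lit 59310089472) (nat_lit 11) (nat_lit 5) (nat_lit 12) (nat_lit 5) (nat_lit 13) (nat_lit 4) (nat_lit 335) (nat_lit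 275) (nat_lit 110)))))) (XT.nd (nat_lit 312) (nat_lit 76) (nat_lit 0) (XT.nd (nat_lit 156) (nat_lit 152) (nat_lit 0) (XT.nd (nat_lit 78) (nat_lit 0) (nat_lit 0) (XT.lf (nat_lit 0) (nat_lit 94578371778) (nat_lit 76) (nat_lit 33351126096) (nat_lit 152) (nat_lit 43878148090) (nat_lit 11) (nat_lit 5) (nat_lit 12) (nat_lit 5) (nat_lit 13) (nat_lit 4) (nat_lit 336) (nat_lit 275) (nat_lit 109)) (XT.lf (nat_lit 0) (nat_lit 142762036933) (nat_lit 76) (nat_lit 8672871456) (nat_lit 152) (nat_lit 27675395617) (nat_lit 11) (nat_lit 5) (nat_lit 12) (nat_lit 5) (nat_lit 13) (nat_lit 4) (nat_lit 337) (nat_lit 275) (nat_lit 108))) (XT.nd (nat_lit 78) (nat_lit 76) (nat_lit 0) (XT.lf (nat_lit 0) (nat_lit 6514902918) (nat_lit 76) (nat_lit 169970836134) (nat_lit 76) (nat_lit 10273849347) (nat_lit 10) (nat_lit 4) (nat_lit 11) (nat_lit 5) (nat_lit 11) (nat_lit 4) (nat_lit 338) (nat_lit 275) (nat_lit 107))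 (XT.lf (nat_lit 0) (nat_lit 8508923282) (nat_lit 152) (nat_lit 142255790074) (nat_lit 76) (nat_lit 43982024726) (nat_lit 9) (nat_lit 5) (nat_lit 11) (nat_lit 5) (nat_lit 10) (nat_lit 4) (nat_lit 339) (nat_lit 275) (nat_lit 106)))) (XT.nd (nat_lit 156) (nat_lit 76) (nat_lit 0) (XT.nd (nat_lit 78) (nat_lit 0) (nat_lit 0) (XT.lf (nat_lit 0) (nat_lit 27884882652) (nat_lit 152) (nat_lit 102537069573) (nat_lit 76) (nat_lit 72702906799) (nat_lit 9) (nat_lit 5) (nat_lit 11) (nat_lit 5) (nat_lit 10) (nat_lit 4) (nat_lit 340) (nat_lit 275) (nat_lit 105)) (XT.lf (nat_lit 0) (nat_lit 48228989339) (nat_lit 152) (nat_lit 60833552015) (nat_lit 76) (nat_lit 102859377957) (nat_lit 9) (nat_lit 5) (nat_lit 11) (nat_lit 5) (nat_lit 10) (nat_lit 4) (nat_lit 341) (nat_lit 275) (nat_lit 104))) (XT.nd (nat_lit 78) (nat_lit 76) (nat_lit 0) (XT.lf (nat_lit 0) (nat_lit 69589681692) (nat_lit 152) (nat_lit 17045943310)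 (nat_lit 76) (nat_lit 134523239321) (nat_lit 9) (nat_lit 5) (nat_lit 11) (nat_lit 5) (nat_lit 10) (nat_lit 4) (nat_lit 342) (nat_lit 275) (nat_lit 103)) (XT.nd (nat_lit 78) (nat_lit 0) (nat_lit 0) (XT.lf (nat_lit 0) (nat_lit 29886569625) (nat_lit 76) (nat_lit 62597861985) (nat_lit 152) (nat_lit 138349924520) (nat_lit 8) (nat_lit 5) (nat_lit 9) (nat_lit 5) (nat_lit 10) (nat_lit 4) (nat_lit 343) (nat_lit 275) (nat_lit 102)) (XT.lf (nat_lit 0) (nat_lit 79756488454) (nat_lit 76) (nat_lit 37055533943) (nat_lit 152) (nat_lit 124167195624) (nat_lit 8) (nat_lit 5) (nat_lit 9) (nat_lit 5) (nat_lit 10) (nat_lit 4) (nat_lit 344) (nat_lit 275) (nat_lit 101))))))))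
noncomputable def xc210 : XT := (XT.nd (nat_lit 33150) (nat_lit 0) (nat_lit 2128) (XT.nd (nat_lit 32448) (nat_lit 0) (nat_lit 4560) (XT.nd (nat_lit 32136) (nat_lit 0) (nat_lit 4940) (XT.nd (nat_lit 156) (nat_lit 76) (nat_lit 0) (XT.nd (nat_lit 78) (nat_lit 0) (nat_lit 0) (XT.lf (nat_lit 0) (nat_lit 132118935210) (nat_lit 76) (nat_lit 10236507107) (nat_lit 152) (nat_lit 109275908838) (nat_lit 8) (nat_lit 5) (nat_lit 9) (nat_lit 5) (nat_lit 10) (nat_lit 4) (nat_lit 345) (nat_lit 275) (nat_lit 100)) (XT.lf (nat_lit 0) (nat_lit 169455338443) (nat_lit 152) (nat_lit 75997364775) (nat_lit 0) (nat_lit 17349423068) (nat_lit 8) (nat_lit 5) (nat_lit 10) (nat_lit 4) (nat_lit 8) (nat_lit 4) (nat_lit 346) (nat_lit 275) (nat_lit 99))) (XT.nd (nat_lit 78) (nat_lit 76) (nat_lit 0) (XT.lf (nat_lit 0) (nat_lit 198077535817) (nat_lit 152) (nat_lit 30475270274) (nat_lit 0) (nat_lit 45970269331) (nat_lit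 8) (nat_lit 5) (nat_lit 10) (nat_lit 4) (nat_lit 8) (nat_lit 4) (nat_lit 347) (nat_lit 275) (nat_lit 98)) (XT.lf (nat_lit 0) (nat_lit 17894820058) (nat_lit 76) (nat_lit 210514930199) (nat_lit 76) (nat_lit 58406376940) (nat_lit 7) (nat_lit 4) (nat_lit 8) (nat_lit 5) (nat_lit 8) (nat_lit 4) (nat_lit 348) (nat_lit 275) (nat_lit 97)))) (XT.nd (nat_lit 156) (nat_lit 0) (nat_lit 0) (XT.nd (nat_lit 78) (nat_lit 0) (nat_lit 0) (XT.lf (nat_lit 0) (nat_lit 2413794232) (nat_lit 0) (nat_lit 2413794232) (nat_lit 684) (nat_lit 7098022354) (nat_lit 72) (nat_lit 5) (nat_lit 72) (nat_lit 3) (nat_lit 81) (nat_lit 3) (nat_lit 276) (nat_lit 276) (nat_lit 168)) (XT.lf (nat_lit 0) (nat_lit 10089844505) (nat_lit 684) (nat_lit 8931950875) (nat_lit 760) (nat_lit 5415696267) (nat_lit 72) (nat_lit 5) (nat_lit 81) (nat_lit 3) (nat_lit 82) (nat_lit 5) (nat_lit 277) (nat_lit 276) (nat_lit 167))) (XT.nd (nat_lit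 78) (nat_lit 0) (nat_lit 76) (XT.lf (nat_lit 76) (nat_lit 1633657125) (nat_lit 0) (nat_lit 9010506665) (nat_lit 760) (nat_lit 14404037609) (nat_lit 73) (nat_lit 5) (nat_lit 72) (nat_lit 5) (nat_lit 82) (nat_lit 5) (nat_lit 278) (nat_lit 276) (nat_lit 166)) (XT.lf (nat_lit 0) (nat_lit 11396961999) (nat_lit 684) (nat_lit 12674291030) (nat_lit 760) (nat_lit 1609676562) (nat_lit 73) (nat_lit 5) (nat_lit 82) (nat_lit 5) (nat_lit 83) (nat_lit 5) (nat_lit 279) (nat_lit 276) (nat_lit 165))))) (XT.nd (nat_lit 312) (nat_lit 456) (nat_lit 0) (XT.nd (nat_lit 156) (nat_lit 0) (nat_lit 76) (XT.nd (nat_lit 78) (nat_lit 0) (nat_lit 0) (XT.lf (nat_lit 0) (nat_lit 12328995283) (nat_lit 684) (nat_lit 1548672079) (nat_lit 760) (nat_lit 12460567169) (nat_lit 73) (nat_lit 5) (nat_lit 82) (nat_lit 5) (nat_lit 83) (nat_lit 5) (nat_lit 280) (nat_lit 276) (nat_lit 164)) (XT.lf (nat_lit 76) (nat_lit 10464407811)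 (nat_lit 0) (nat_lit 3000774430) (nat_lit 760) (nat_lit 13555364015) (nat_lit 74) (nat_lit 5) (nat_lit 73) (nat_lit 5) (nat_lit 83) (nat_lit 5) (nat_lit 281) (nat_lit 276) (nat_lit 163))) (XT.nd (nat_lit 78) (nat_lit 0) (nat_lit 0) (XT.lf (nat_lit 0) (nat_lit 14810718421) (nat_lit 684) (nat_lit 4739657821) (nat_lit 760) (nat_lit 8178988560) (nat_lit 74) (nat_lit 5) (nat_lit 83) (nat_lit 5) (nat_lit 84) (nat_lit 5) (nat_lit 282) (nat_lit 276) (nat_lit 162)) (XT.lf (nat_lit 76) (nat_lit 7866404507) (nat_lit 0) (nat_lit 8523825289) (nat_lit 760) (nat_lit 12075076920) (nat_lit 75) (nat_lit 5) (nat_lit 74) (nat_lit 5) (nat_lit 84) (nat_lit 5) (nat_lit 283) (nat_lit 276) (nat_lit 161)))) (XT.nd (nat_lit 156) (nat_lit 608) (nat_lit 0) (XT.nd (nat_lit 78) (nat_lit 0) (nat_lit 0) (XT.lf (nat_lit 0) (nat_lit 18172887435) (nat_lit 684) (nat_lit 8019765595) (nat_lit 760) (nat_lit 3039200694) (nat_lit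 75) (nat_lit 5) (nat_lit 84) (nat_lit 5) (nat_lit 85) (nat_lit 5) (nat_lit 284) (nat_lit 276) (nat_lit 160)) (XT.lf (nat_lit 76) (nat_lit 5211532447) (nat_lit 0) (nat_lit 15049393730) (nat_lit 760) (nat_lit 9765005241) (nat_lit 76) (nat_lit 5) (nat_lit 75) (nat_lit 5) (nat_lit 85) (nat_lit 5) (nat_lit 285) (nat_lit 276) (nat_lit 159))) (XT.nd (nat_lit 78) (nat_lit 608) (nat_lit 0) (XT.lf (nat_lit 76) (nat_lit 19379023691) (nat_lit 0) (nat_lit 3205480310) (nat_lit 760) (nat_lit 8268667134) (nat_lit 76) (nat_lit 5) (nat_lit 75) (nat_lit 5) (nat_lit 85) (nat_lit 5) (nat_lit 286) (nat_lit 276) (nat_lit 158)) (XT.nd (nat_lit 78) (nat_lit 0) (nat_lit 0) (XT.lf (nat_lit 0) (nat_lit 2463994665) (nat_lit 684) (nat_lit 22738406467) (nat_lit 760) (nat_lit 6510478967) (nat_lit 67) (nat_lit 5) (nat_lit 76) (nat_lit 5) (nat_lit 77) (nat_lit 5) (nat_lit 287) (nat_lit 276) (nat_lit 157)) (XT.lf (nat_lit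 0) (nat_lit 17439307191) (nat_lit 684) (nat_lit 10753614286) (nat_lit 760) (nat_lit 4410580219) (nat_lit 67) (nat_lit 5) (nat_lit 76) (nat_lit 5) (nat_lit 77) (nat_lit 5) (nat_lit 288) (nat_lit 276) (nat_lit 156))))))) (XT.nd (nat_lit 702) (nat_lit 1064) (nat_lit 0) (XT.nd (nat_lit 312) (nat_lit 608) (nat_lit 0) (XT.nd (nat_lit 156) (nat_lit 380) (nat_lit 0) (XT.nd (nat_lit 78) (nat_lit 380) (nat_lit 0) (XT.lf (nat_lit 0) (nat_lit 31357464277) (nat_lit 760) (nat_lit 407697141) (nat_lit 76) (nat_lit 1772281087) (nat_lit 67) (nat_lit 5) (nat_lit 77) (nat_lit 5) (nat_lit 68) (nat_lit 5) (nat_lit 289) (nat_lit 276) (nat_lit 155)) (XT.lf (nat_lit 0) (nat_lit 576551477) (nat_lit 380) (nat_lit 19107198999) (nat_lit 76) (nat_lit 14813235666) (nat_lit 62) (nat_lit 5) (nat_lit 67) (nat_lit 5) (nat_lit 63) (nat_lit 5) (nat_lit 290) (nat_lit 276) (nat_lit 154))) (XT.nd (nat_lit 78) (nat_lit 380)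 (nat_lit 0) (XT.lf (nat_lit 0) (nat_lit 3400832481) (nat_lit 380) (nat_lit 3552457858) (nat_lit 76) (nat_lit 28549281626) (nat_lit 62) (nat_lit 5) (nat_lit 67) (nat_lit 5) (nat_lit 63) (nat_lit 5) (nat_lit 291) (nat_lit 276) (nat_lit 153)) (XT.lf (nat_lit 0) (nat_lit 6672265666) (nat_lit 456) (nat_lit 23452941429) (nat_lit 76) (nat_lit 6417943735) (nat_lit 57) (nat_lit 5) (nat_lit 63) (nat_lit 5) (nat_lit 58) (nat_lit 5) (nat_lit 292) (nat_lit 276) (nat_lit 152)))) (XT.nd (nat_lit 156) (nat_lit 304) (nat_lit 0) (XT.nd (nat_lit 78) (nat_lit 304) (nat_lit 0) (XT.lf (nat_lit 0) (nat_lit 10278878105) (nat_lit 456) (nat_lit 7063078431) (nat_lit 76) (nat_lit 20285231874) (nat_lit 57) (nat_lit 5) (nat_lit 63) (nat_lit 5) (nat_lit 58) (nat_lit 5) (nat_lit 293) (nat_lit 276) (nat_lit 151)) (XT.lf (nat_lit 0) (nat_lit 10478122479) (nat_lit 304) (nat_lit 3747929984) (nat_lit 380) (nat_lit 24531373507)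 (nat_lit 53) (nat_lit 5) (nat_lit 57) (nat_lit 5) (nat_lit 58) (nat_lit 5) (nat_lit 294) (nat_lit 276) (nat_lit 150))) (XT.nd (nat_lit 78) (nat_lit 304) (nat_lit 0) (XT.lf (nat_lit 0) (nat_lit 18653241507) (nat_lit 380) (nat_lit 10966527682) (nat_lit 76) (nat_lit 10310282626) (nat_lit 53) (nat_lit 5) (nat_lit 58) (nat_lit 5) (nat_lit 54) (nat_lit 5) (nat_lit 295) (nat_lit 276) (nat_lit 149)) (XT.nd (nat_lit 78) (nat_lit 0) (nat_lit 0) (XT.lf (nat_lit 0) (nat_lit 7383297506) (nat_lit 304) (nat_lit 16092104304) (nat_lit 380) (nat_lit 17677235321) (nat_lit 49) (nat_lit 5) (nat_lit 53) (nat_lit 5) (nat_lit 54) (nat_lit 5) (nat_lit 296) (nat_lit 276) (nat_lit 148)) (XT.lf (nat_lit 0) (nat_lit 27027943267) (nat_lit 304) (nat_lit 1693441330) (nat_lit 380) (nat_lit 13705839743) (nat_lit 49) (nat_lit 5) (nat_lit 53) (nat_lit 5) (nat_lit 54) (nat_lit 5) (nat_lit 297) (nat_lit 276) (nat_lit 147))))))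 (XT.nd (nat_lit 312) (nat_lit 456) (nat_lit 0) (XT.nd (nat_lit 156) (nat_lit 380) (nat_lit 0) (XT.nd (nat_lit 78) (nat_lit 0) (nat_lit 0) (XT.lf (nat_lit 0) (nat_lit 3797843786) (nat_lit 228) (nat_lit 30697850444) (nat_lit 304) (nat_lit 9256553247) (nat_lit 46) (nat_lit 5) (nat_lit 49) (nat_lit 5) (nat_lit 50) (nat_lit 5) (nat_lit 298) (nat_lit 276) (nat_lit 146)) (XT.lf (nat_lit 0) (nat_lit 24457441487) (nat_lit 228) (nat_lit 16386598846) (nat_lit 304) (nat_lit 4285222961) (nat_lit 46) (nat_lit 5) (nat_lit 49) (nat_lit 5) (nat_lit 50) (nat_lit 5) (nat_lit 299) (nat_lit 276) (nat_lit 145))) (XT.nd (nat_lit 78) (nat_lit 304) (nat_lit 0) (XT.lf (nat_lit 0) (nat_lit 902053796) (nat_lit 304) (nat_lit 442973738) (nat_lit 76) (nat_lit 45229514827) (nat_lit 45) (nat_lit 5) (nat_lit 49) (nat_lit 5) (nat_lit 46) (nat_lit 5) (nat_lit 300) (nat_lit 276) (nat_lit 144)) (XT.lf (nat_lit 0) (nat_lit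 6768570596) (nat_lit 380) (nat_lit 26895021377) (nat_lit 76) (nat_lit 14396793083) (nat_lit 41) (nat_lit 5) (nat_lit 46) (nat_lit 5) (nat_lit 42) (nat_lit 5) (nat_lit 301) (nat_lit 276) (nat_lit 143)))) (XT.nd (nat_lit 156) (nat_lit 228) (nat_lit 0) (XT.nd (nat_lit 78) (nat_lit 228) (nat_lit 0) (XT.lf (nat_lit 0) (nat_lit 12955578005) (nat_lit 380) (nat_lit 5776006962) (nat_lit 76) (nat_lit 30887582912) (nat_lit 41) (nat_lit 5) (nat_lit 46) (nat_lit 5) (nat_lit 42) (nat_lit 5) (nat_lit 302) (nat_lit 276) (nat_lit 142)) (XT.lf (nat_lit 0) (nat_lit 16938046611) (nat_lit 228) (nat_lit 2775949245) (nat_lit 304) (nat_lit 31528796918) (nat_lit 38) (nat_lit 5) (nat_lit 41) (nat_lit 5) (nat_lit 42) (nat_lit 5) (nat_lit 303) (nat_lit 276) (nat_lit 141))) (XT.nd (nat_lit 78) (nat_lit 228) (nat_lit 0) (XT.lf (nat_lit 0) (nat_lit 27125651676) (nat_lit 304) (nat_lit 12177303550) (nat_lit 76) (nat_lit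 13628883485) (nat_lit 38) (nat_lit 5) (nat_lit 42) (nat_lit 5) (nat_lit 39) (nat_lit 5) (nat_lit 304) (nat_lit 276) (nat_lit 140)) (XT.nd (nat_lit 78) (nat_lit 0) (nat_lit 0) (XT.lf (nat_lit 0) (nat_lit 11372029955) (nat_lit 228) (nat_lit 23756694624) (nat_lit 304) (nat_lit 19565576036) (nat_lit 35) (nat_lit 5) (nat_lit 38) (nat_lit 5) (nat_lit 39) (nat_lit 5) (nat_lit 305) (nat_lit 276) (nat_lit 139)) (XT.lf (nat_lit 0) (nat_lit 36518696345) (nat_lit 228) (nat_lit 7217321492) (nat_lit 304) (nat_lit 12798669566) (nat_lit 35) (nat_lit 5) (nat_lit 38) (nat_lit 5) (nat_lit 39) (nat_lit 5) (nat_lit 306) (nat_lit 276) (nat_lit 138))))))))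
noncomputable def xc211 : XT := (XT.nd (nat_lit 1326) (nat_lit 684) (nat_lit 0) (XT.nd (nat_lit 624) (nat_lit 684) (nat_lit 0) (XT.nd (nat_lit 312) (nat_lit 152) (nat_lit 0) (XT.nd (nat_lit 156) (nat_lit 228) (nat_lit 0) (XT.nd (nat_lit 78) (nat_lit 76) (nat_lit 0) (XT.lf (nat_lit 0) (nat_lit 4436275509) (nat_lit 152) (nat_lit 48563047709) (nat_lit 228) (nat_lit 5456492824) (nat_lit 33) (nat_lit 5) (nat_lit 35) (nat_lit 5) (nat_lit 36) (nat_lit 5) (nat_lit 307) (nat_lit 276) (nat_lit 137)) (XT.lf (nat_lit 0) (nat_lit 2641490813) (nat_lit 228) (nat_lit 29811919925) (nat_lit 76) (nat_lit 27994796105) (nat_lit 32) (nat_lit 5) (nat_lit 35) (nat_lit 5) (nat_lit 33) (nat_lit 5) (nat_lit 308) (nat_lit 276) (nat_lit 136))) (XT.nd (nat_lit 78) (nat_lit 228) (nat_lit 0) (XT.lf (nat_lit 0) (nat_lit 10959044643) (nat_lit 228) (nat_lit 4486118557) (nat_lit 76) (nat_lit 47090683421) (nat_lit 32)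 (nat_lit 5) (nat_lit 35) (nat_lit 5) (nat_lit 33) (nat_lit 5) (nat_lit 309) (nat_lit 276) (nat_lit 135)) (XT.lf (nat_lit 0) (nat_lit 20090633917) (nat_lit 304) (nat_lit 41919463250) (nat_lit 76) (nat_lit 2697867351) (nat_lit 29) (nat_lit 5) (nat_lit 33) (nat_lit 5) (nat_lit 30) (nat_lit 5) (nat_lit 310) (nat_lit 276) (nat_lit 134)))) (XT.nd (nat_lit 156) (nat_lit 0) (nat_lit 0) (XT.nd (nat_lit 78) (nat_lit 152) (nat_lit 0) (XT.lf (nat_lit 0) (nat_lit 30007396701) (nat_lit 304) (nat_lit 15659393459) (nat_lit 76) (nat_lit 21305472271) (nat_lit 29) (nat_lit 5) (nat_lit 33) (nat_lit 5) (nat_lit 30) (nat_lit 5) (nat_lit 311) (nat_lit 276) (nat_lit 133)) (XT.lf (nat_lit 0) (nat_lit 12304983777) (nat_lit 152) (nat_lit 28305390630) (nat_lit 228) (nat_lit 28729885637) (nat_lit 27) (nat_lit 5) (nat_lit 29) (nat_lit 5) (nat_lit 30) (nat_lit 5) (nat_lit 312) (nat_lit 276) (nat_lit 132))) (XT.nd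 (nat_lit 78) (nat_lit 0) (nat_lit 0) (XT.lf (nat_lit 0) (nat_lit 42208747130) (nat_lit 152) (nat_lit 9798258661) (nat_lit 228) (nat_lit 19806479977) (nat_lit 27) (nat_lit 5) (nat_lit 29) (nat_lit 5) (nat_lit 30) (nat_lit 5) (nat_lit 313) (nat_lit 276) (nat_lit 131)) (XT.lf (nat_lit 0) (nat_lit 64122260308) (nat_lit 228) (nat_lit 955536490) (nat_lit 76) (nat_lit 9325139707) (nat_lit 27) (nat_lit 5) (nat_lit 30) (nat_lit 5) (nat_lit 28) (nat_lit 5) (nat_lit 314) (nat_lit 276) (nat_lit 130))))) (XT.nd (nat_lit 312) (nat_lit 304) (nat_lit 0) (XT.nd (nat_lit 156) (nat_lit 152) (nat_lit 0) (XT.nd (nat_lit 78) (nat_lit 0) (nat_lit 0) (XT.lf (nat_lit 0) (nat_lit 366823852) (nat_lit 228) (nat_lit 47175644931) (nat_lit 76) (nat_lit 29547786979) (nat_lit 24) (nat_lit 5) (nat_lit 27) (nat_lit 5) (nat_lit 25) (nat_lit 5) (nat_lit 315) (nat_lit 276) (nat_lit 129)) (XT.lf (nat_lit 0) (nat_lit 11216110481)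 (nat_lit 228) (nat_lit 17720837985) (nat_lit 76) (nat_lit 50965823102) (nat_lit 24) (nat_lit 5) (nat_lit 27) (nat_lit 5) (nat_lit 25) (nat_lit 5) (nat_lit 316) (nat_lit 276) (nat_lit 128))) (XT.nd (nat_lit 78) (nat_lit 0) (nat_lit 0) (XT.lf (nat_lit 0) (nat_lit 13641075824) (nat_lit 152) (nat_lit 9178296230) (nat_lit 228) (nat_lit 60025968298) (nat_lit 22) (nat_lit 5) (nat_lit 24) (nat_lit 5) (nat_lit 25) (nat_lit 5) (nat_lit 317) (nat_lit 276) (nat_lit 127)) (XT.lf (nat_lit 0) (nat_lit 35486999586) (nat_lit 228) (nat_lit 38921511633) (nat_lit 76) (nat_lit 11502318803) (nat_lit 22) (nat_lit 5) (nat_lit 25) (nat_lit 5) (nat_lit 23) (nat_lit 5) (nat_lit 318) (nat_lit 276) (nat_lit 126)))) (XT.nd (nat_lit 156) (nat_lit 152) (nat_lit 0) (XT.nd (nat_lit 78) (nat_lit 152) (nat_lit 0) (XT.lf (nat_lit 0) (nat_lit 48937099657) (nat_lit 228) (nat_lit 7277236538) (nat_lit 76) (nat_lit 32907805887)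 (nat_lit 22) (nat_lit 5) (nat_lit 25) (nat_lit 5) (nat_lit 23) (nat_lit 5) (nat_lit 319) (nat_lit 276) (nat_lit 125)) (XT.lf (nat_lit 0) (nat_lit 26805134911) (nat_lit 152) (nat_lit 36671765755) (nat_lit 228) (nat_lit 28996261631) (nat_lit 20) (nat_lit 5) (nat_lit 22) (nat_lit 5) (nat_lit 23) (nat_lit 5) (nat_lit 320) (nat_lit 276) (nat_lit 124))) (XT.nd (nat_lit 78) (nat_lit 152) (nat_lit 0) (XT.lf (nat_lit 0) (nat_lit 62842258087) (nat_lit 152) (nat_lit 16023400596) (nat_lit 228) (nat_lit 17119978728) (nat_lit 20) (nat_lit 5) (nat_lit 22) (nat_lit 5) (nat_lit 23) (nat_lit 5) (nat_lit 321) (nat_lit 276) (nat_lit 123)) (XT.nd (nat_lit 78) (nat_lit 76) (nat_lit 0) (XT.lf (nat_lit 0) (nat_lit 947528377) (nat_lit 76) (nat_lit 94178220627) (nat_lit 152) (nat_lit 4542894687) (nat_lit 19) (nat_lit 5) (nat_lit 20) (nat_lit 5) (nat_lit 21) (nat_lit 4) (nat_lit 322) (nat_lit 276) (nat_lit 122))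 (XT.lf (nat_lit 0) (nat_lit 9217731290) (nat_lit 152) (nat_lit 66023207745) (nat_lit 76) (nat_lit 28246502501) (nat_lit 18) (nat_lit 5) (nat_lit 20) (nat_lit 5) (nat_lit 19) (nat_lit 5) (nat_lit 323) (nat_lit 276) (nat_lit 121))))))) (XT.nd (nat_lit 702) (nat_lit 228) (nat_lit 0) (XT.nd (nat_lit 312) (nat_lit 304) (nat_lit 0) (XT.nd (nat_lit 156) (nat_lit 0) (nat_lit 0) (XT.nd (nat_lit 78) (nat_lit 152) (nat_lit 0) (XT.lf (nat_lit 0) (nat_lit 23512555365) (nat_lit 152) (nat_lit 31766766538) (nat_lit 76) (nat_lit 52214193634) (nat_lit 18) (nat_lit 5) (nat_lit 20) (nat_lit 5) (nat_lit 19) (nat_lit 5) (nat_lit 324) (nat_lit 276) (nat_lit 120)) (XT.lf (nat_lit 0) (nat_lit 4339592645) (nat_lit 152) (nat_lit 34249174389) (nat_lit 228) (nat_lit 73107795636) (nat_lit 16) (nat_lit 5) (nat_lit 18) (nat_lit 5) (nat_lit 19) (nat_lit 5) (nat_lit 325) (nat_lit 276) (nat_lit 119))) (XT.nd (nat_lit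 78) (nat_lit 0) (nat_lit 0) (XT.lf (nat_lit 0) (nat_lit 43352371043) (nat_lit 152) (nat_lit 11603322080) (nat_lit 228) (nat_lit 61127225516) (nat_lit 16) (nat_lit 5) (nat_lit 18) (nat_lit 5) (nat_lit 19) (nat_lit 5) (nat_lit 326) (nat_lit 276) (nat_lit 118)) (XT.lf (nat_lit 0) (nat_lit 72330008183) (nat_lit 228) (nat_lit 36564614930) (nat_lit 76) (nat_lit 11784518747) (nat_lit 16) (nat_lit 5) (nat_lit 19) (nat_lit 5) (nat_lit 17) (nat_lit 4) (nat_lit 327) (nat_lit 276) (nat_lit 117)))) (XT.nd (nat_lit 156) (nat_lit 228) (nat_lit 0) (XT.nd (nat_lit 78) (nat_lit 0) (nat_lit 0) (XT.lf (nat_lit 0) (nat_lit 1258014797) (nat_lit 76) (nat_lit 89523892836) (nat_lit 152) (nat_lit 34712826693) (nat_lit 15) (nat_lit 5) (nat_lit 16) (nat_lit 5) (nat_lit 17) (nat_lit 4) (nat_lit 328) (nat_lit 276) (nat_lit 116)) (XT.lf (nat_lit 0) (nat_lit 42239597912) (nat_lit 76) (nat_lit 68535074607) (nat_lit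 152) (nat_lit 19745521814) (nat_lit 15) (nat_lit 5) (nat_lit 16) (nat_lit 5) (nat_lit 17) (nat_lit 4) (nat_lit 329) (nat_lit 276) (nat_lit 115))) (XT.nd (nat_lit 78) (nat_lit 228) (nat_lit 0) (XT.lf (nat_lit 0) (nat_lit 85268718310) (nat_lit 76) (nat_lit 46497434497) (nat_lit 152) (nat_lit 4030822050) (nat_lit 15) (nat_lit 5) (nat_lit 16) (nat_lit 5) (nat_lit 17) (nat_lit 4) (nat_lit 330) (nat_lit 276) (nat_lit 114)) (XT.nd (nat_lit 78) (nat_lit 152) (nat_lit 0) (XT.lf (nat_lit 0) (nat_lit 12069612650) (nat_lit 152) (nat_lit 11084484552) (nat_lit 76) (nat_lit 118173808897) (nat_lit 14) (nat_lit 5) (nat_lit 16) (nat_lit 5) (nat_lit 15) (nat_lit 5) (nat_lit 331) (nat_lit 276) (nat_lit 113)) (XT.lf (nat_lit 0) (nat_lit 29357137287) (nat_lit 228) (nat_lit 115873338396) (nat_lit 76) (nat_lit 1875728942) (nat_lit 12) (nat_lit 5) (nat_lit 15) (nat_lit 5) (nat_lit 13) (nat_lit 4) (nat_lit 332)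 (nat_lit 276) (nat_lit 112)))))) (XT.nd (nat_lit 312) (nat_lit 152) (nat_lit 0) (XT.nd (nat_lit 156) (nat_lit 76) (nat_lit 0) (XT.nd (nat_lit 78) (nat_lit 0) (nat_lit 0) (XT.lf (nat_lit 0) (nat_lit 48078569766) (nat_lit 228) (nat_lit 77497210678) (nat_lit 76) (nat_lit 27569162183) (nat_lit 12) (nat_lit 5) (nat_lit 15) (nat_lit 5) (nat_lit 13) (nat_lit 4) (nat_lit 333) (nat_lit 276) (nat_lit 111)) (XT.lf (nat_lit 0) (nat_lit 67735271717) (nat_lit 228) (nat_lit 37203646787) (nat_lit 76) (nat_lit 54546740208) (nat_lit 12) (nat_lit 5) (nat_lit 15) (nat_lit 5) (nat_lit 13) (nat_lit 4) (nat_lit 334) (nat_lit 276) (nat_lit 110))) (XT.nd (nat_lit 78) (nat_lit 0) (nat_lit 0) (XT.lf (nat_lit 0) (nat_lit 5272028159) (nat_lit 76) (nat_lit 83184327786) (nat_lit 152) (nat_lit 77682978322) (nat_lit 11) (nat_lit 5) (nat_lit 12) (nat_lit 5) (nat_lit 13) (nat_lit 4) (nat_lit 335) (nat_lit 276) (nat_lit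 109)) (XT.lf (nat_lit 0) (nat_lit 51161829546) (nat_lit 76) (nat_lit 59680978979) (nat_lit 152) (nat_lit 62251420344) (nat_lit 11) (nat_lit 5) (nat_lit 12) (nat_lit 5) (nat_lit 13) (nat_lit 4) (nat_lit 336) (nat_lit 276) (nat_lit 108)))) (XT.nd (nat_lit 156) (nat_lit 152) (nat_lit 0) (XT.nd (nat_lit 78) (nat_lit 0) (nat_lit 0) (XT.lf (nat_lit 0) (nat_lit 99344898224) (nat_lit 76) (nat_lit 35002973490) (nat_lit 152) (nat_lit 46049033017) (nat_lit 11) (nat_lit 5) (nat_lit 12) (nat_lit 5) (nat_lit 13) (nat_lit 4) (nat_lit 337) (nat_lit 276) (nat_lit 107)) (XT.lf (nat_lit 0) (nat_lit 149935955787) (nat_lit 76) (nat_lit 9091554162) (nat_lit 152) (nat_lit 29037239228) (nat_lit 11) (nat_lit 5) (nat_lit 12) (nat_lit 5) (nat_lit 13) (nat_lit 4) (nat_lit 338) (nat_lit 276) (nat_lit 106))) (XT.nd (nat_lit 78) (nat_lit 76) (nat_lit 0) (XT.lf (nat_lit 0) (nat_lit 6876710336) (nat_lit 76) (nat_lit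 178453964151) (nat_lit 76) (nat_lit 10765834982) (nat_lit 10) (nat_lit 4) (nat_lit 11) (nat_lit 5) (nat_lit 11) (nat_lit 4) (nat_lit 339) (nat_lit 276) (nat_lit 105)) (XT.nd (nat_lit 78) (nat_lit 0) (nat_lit 0) (XT.lf (nat_lit 0) (nat_lit 8954380949) (nat_lit 152) (nat_lit 149333549371) (nat_lit 76) (nat_lit 46195120575) (nat_lit 9) (nat_lit 5) (nat_lit 11) (nat_lit 5) (nat_lit 10) (nat_lit 4) (nat_lit 340) (nat_lit 276) (nat_lit 104)) (XT.lf (nat_lit 0) (nat_lit 29298185359) (nat_lit 152) (nat_lit 107630560950) (nat_lit 76) (nat_lit 76351380342) (nat_lit 9) (nat_lit 5) (nat_lit 11) (nat_lit 5) (nat_lit 10) (nat_lit 4) (nat_lit 341) (nat_lit 276) (nat_lit 103))))))))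
noncomputable def xc212 : XT := (XT.nd (nat_lit 33228) (nat_lit 0) (nat_lit 2280) (XT.nd (nat_lit 32526) (nat_lit 0) (nat_lit 4864) (XT.nd (nat_lit 312) (nat_lit 0) (nat_lit 0) (XT.nd (nat_lit 156) (nat_lit 76) (nat_lit 0) (XT.nd (nat_lit 78) (nat_lit 0) (nat_lit 0) (XT.lf (nat_lit 0) (nat_lit 50658589829) (nat_lit 152) (nat_lit 63843456185) (nat_lit 76) (nat_lit 108015040381) (nat_lit 9) (nat_lit 5) (nat_lit 11) (nat_lit 5) (nat_lit 10) (nat_lit 4) (nat_lit 342) (nat_lit 276) (nat_lit 102)) (XT.lf (nat_lit 0) (nat_lit 73086452465) (nat_lit 152) (nat_lit 17867980065) (nat_lit 76) (nat_lit 141261490360) (nat_lit 9) (nat_lit 5) (nat_lit 11) (nat_lit 5) (nat_lit 10) (nat_lit 4) (nat_lit 343) (nat_lit 276) (nat_lit 101))) (XT.nd (nat_lit 78) (nat_lit 0) (nat_lit 0) (XT.lf (nat_lit 0) (nat_lit 31410670445) (nat_lit 76) (nat_lit 65714911088) (nat_lit 152) (nat_lit 145249626640) (nat_lit 8)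 (nat_lit 5) (nat_lit 9) (nat_lit 5) (nat_lit 10) (nat_lit 4) (nat_lit 344) (nat_lit 276) (nat_lit 100)) (XT.lf (nat_lit 0) (nat_lit 83772667485) (nat_lit 76) (nat_lit 38896078263) (nat_lit 152) (nat_lit 130358608637) (nat_lit 8) (nat_lit 5) (nat_lit 9) (nat_lit 5) (nat_lit 10) (nat_lit 4) (nat_lit 345) (nat_lit 276) (nat_lit 99)))) (XT.nd (nat_lit 156) (nat_lit 0) (nat_lit 0) (XT.nd (nat_lit 78) (nat_lit 0) (nat_lit 0) (XT.lf (nat_lit 0) (nat_lit 138751886360) (nat_lit 76) (nat_lit 10736682580) (nat_lit 152) (nat_lit 114723564501) (nat_lit 8) (nat_lit 5) (nat_lit 9) (nat_lit 5) (nat_lit 10) (nat_lit 4) (nat_lit 346) (nat_lit 276) (nat_lit 98)) (XT.lf (nat_lit 0) (nat_lit 177942901930) (nat_lit 152) (nat_lit 79770939895) (nat_lit 0) (nat_lit 18227634235) (nat_lit 8) (nat_lit 5) (nat_lit 10) (nat_lit 4) (nat_lit 8) (nat_lit 4) (nat_lit 347) (nat_lit 276) (nat_lit 97))) (XT.nd (nat_lit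 31980) (nat_lit 0) (nat_lit 4864) (XT.lf (nat_lit 0) (nat_lit 207995504574) (nat_lit 152) (nat_lit 31973992722) (nat_lit 0) (nat_lit 48279011382) (nat_lit 8) (nat_lit 5) (nat_lit 10) (nat_lit 4) (nat_lit 8) (nat_lit 4) (nat_lit 348) (nat_lit 276) (nat_lit 96)) (XT.lf (nat_lit 0) (nat_lit 2586626054) (nat_lit 0) (nat_lit 2586626054) (nat_lit 684) (nat_lit 7343084321) (nat_lit 72) (nat_lit 5) (nat_lit 72) (nat_lit 3) (nat_lit 81) (nat_lit 3) (nat_lit 277) (nat_lit 277) (nat_lit 166))))) (XT.nd (nat_lit 312) (nat_lit 0) (nat_lit 76) (XT.nd (nat_lit 156) (nat_lit 0) (nat_lit 76) (XT.nd (nat_lit 78) (nat_lit 0) (nat_lit 0) (XT.lf (nat_lit 0) (nat_lit 10791422705) (nat_lit 684) (nat_lit 9267098659) (nat_lit 760) (nat_lit 5590341581) (nat_lit 72) (nat_lit 5) (nat_lit 81) (nat_lit 3) (nat_lit 82) (nat_lit 5) (nat_lit 278) (nat_lit 277) (nat_lit 165)) (XT.lf (nat_lit 76) (nat_lit 1824992164)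 (nat_lit 0) (nat_lit 9540792720) (nat_lit 760) (nat_lit 14924737856) (nat_lit 73) (nat_lit 5) (nat_lit 72) (nat_lit 5) (nat_lit 82) (nat_lit 5) (nat_lit 279) (nat_lit 277) (nat_lit 164))) (XT.nd (nat_lit 78) (nat_lit 0) (nat_lit 0) (XT.lf (nat_lit 0) (nat_lit 12146017353) (nat_lit 684) (nat_lit 13192780630) (nat_lit 760) (nat_lit 1616629074) (nat_lit 73) (nat_lit 5) (nat_lit 82) (nat_lit 5) (nat_lit 83) (nat_lit 5) (nat_lit 280) (nat_lit 277) (nat_lit 163)) (XT.lf (nat_lit 0) (nat_lit 13116118623) (nat_lit 684) (nat_lit 1516367633) (nat_lit 760) (nat_lit 13013565703) (nat_lit 73) (nat_lit 5) (nat_lit 82) (nat_lit 5) (nat_lit 83) (nat_lit 5) (nat_lit 281) (nat_lit 277) (nat_lit 162)))) (XT.nd (nat_lit 156) (nat_lit 0) (nat_lit 76) (XT.nd (nat_lit 78) (nat_lit 0) (nat_lit 76) (XT.lf (nat_lit 76) (nat_lit 11095596283) (nat_lit 0) (nat_lit 3207077017) (nat_lit 760) (nat_lit 14060154749)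 (nat_lit 74) (nat_lit 5) (nat_lit 73) (nat_lit 5) (nat_lit 83) (nat_lit 5) (nat_lit 282) (nat_lit 277) (nat_lit 161)) (XT.lf (nat_lit 0) (nat_lit 15706829114) (nat_lit 684) (nat_lit 4864648295) (nat_lit 760) (nat_lit 8536068397) (nat_lit 74) (nat_lit 5) (nat_lit 83) (nat_lit 5) (nat_lit 84) (nat_lit 5) (nat_lit 283) (nat_lit 277) (nat_lit 160))) (XT.nd (nat_lit 78) (nat_lit 0) (nat_lit 76) (XT.lf (nat_lit 76) (nat_lit 8369910820) (nat_lit 0) (nat_lit 8989717228) (nat_lit 760) (nat_lit 12520965382) (nat_lit 75) (nat_lit 5) (nat_lit 74) (nat_lit 5) (nat_lit 84) (nat_lit 5) (nat_lit 284) (nat_lit 277) (nat_lit 159)) (XT.nd (nat_lit 78) (nat_lit 0) (nat_lit 0) (XT.lf (nat_lit 0) (nat_lit 19223690782) (nat_lit 684) (nat_lit 8307625733) (nat_lit 760) (nat_lit 3154560723) (nat_lit 75) (nat_lit 5) (nat_lit 84) (nat_lit 5) (nat_lit 85) (nat_lit 5) (nat_lit 285) (nat_lit 277) (nat_lit 158)) (XT.lf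 (nat_lit 76) (nat_lit 5583412563) (nat_lit 0) (nat_lit 15827687182) (nat_lit 760) (nat_lit 10108832621) (nat_lit 76) (nat_lit 5) (nat_lit 75) (nat_lit 5) (nat_lit 85) (nat_lit 5) (nat_lit 286) (nat_lit 277) (nat_lit 157))))))) (XT.nd (nat_lit 702) (nat_lit 1140) (nat_lit 0) (XT.nd (nat_lit 312) (nat_lit 1064) (nat_lit 0) (XT.nd (nat_lit 156) (nat_lit 0) (nat_lit 0) (XT.nd (nat_lit 78) (nat_lit 608) (nat_lit 0) (XT.lf (nat_lit 76) (nat_lit 20453978203) (nat_lit 0) (nat_lit 3390348388) (nat_lit 760) (nat_lit 8544554888) (nat_lit 76) (nat_lit 5) (nat_lit 75) (nat_lit 5) (nat_lit 85) (nat_lit 5) (nat_lit 287) (nat_lit 277) (nat_lit 156)) (XT.lf (nat_lit 0) (nat_lit 2698701928) (nat_lit 684) (nat_lit 23889572976) (nat_lit 760) (nat_lit 6703563093) (nat_lit 67) (nat_lit 5) (nat_lit 76) (nat_lit 5) (nat_lit 77) (nat_lit 5) (nat_lit 288) (nat_lit 277) (nat_lit 155))) (XT.nd (nat_lit 78) (nat_lit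 0) (nat_lit 0) (XT.lf (nat_lit 0) (nat_lit 18417470198) (nat_lit 684) (nat_lit 11304862795) (nat_lit 760) (nat_lit 4504976066) (nat_lit 67) (nat_lit 5) (nat_lit 76) (nat_lit 5) (nat_lit 77) (nat_lit 5) (nat_lit 289) (nat_lit 277) (nat_lit 154)) (XT.lf (nat_lit 0) (nat_lit 33039198073) (nat_lit 760) (nat_lit 320675141) (nat_lit 76) (nat_lit 1848387007) (nat_lit 67) (nat_lit 5) (nat_lit 77) (nat_lit 5) (nat_lit 68) (nat_lit 5) (nat_lit 290) (nat_lit 277) (nat_lit 153)))) (XT.nd (nat_lit 156) (nat_lit 684) (nat_lit 0) (XT.nd (nat_lit 78) (nat_lit 0) (nat_lit 0) (XT.lf (nat_lit 0) (nat_lit 717605461) (nat_lit 380) (nat_lit 19952845966) (nat_lit 76) (nat_lit 15545444919) (nat_lit 62) (nat_lit 5) (nat_lit 67) (nat_lit 5) (nat_lit 63) (nat_lit 5) (nat_lit 291) (nat_lit 277) (nat_lit 152)) (XT.lf (nat_lit 0) (nat_lit 3677756401) (nat_lit 380) (nat_lit 3625592196) (nat_lit 76) (nat_lit 29968695678)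 (nat_lit 62) (nat_lit 5) (nat_lit 67) (nat_lit 5) (nat_lit 63) (nat_lit 5) (nat_lit 292) (nat_lit 277) (nat_lit 151))) (XT.nd (nat_lit 78) (nat_lit 304) (nat_lit 0) (XT.lf (nat_lit 0) (nat_lit 7109267378) (nat_lit 456) (nat_lit 24517308770) (nat_lit 76) (nat_lit 6738265495) (nat_lit 57) (nat_lit 5) (nat_lit 63) (nat_lit 5) (nat_lit 58) (nat_lit 5) (nat_lit 293) (nat_lit 277) (nat_lit 150)) (XT.nd (nat_lit 78) (nat_lit 304) (nat_lit 0) (XT.lf (nat_lit 0) (nat_lit 10891287180) (nat_lit 456) (nat_lit 7313108799) (nat_lit 76) (nat_lit 21298945442) (nat_lit 57) (nat_lit 5) (nat_lit 63) (nat_lit 5) (nat_lit 58) (nat_lit 5) (nat_lit 294) (nat_lit 277) (nat_lit 149)) (XT.lf (nat_lit 0) (nat_lit 11103488873) (nat_lit 304) (nat_lit 3929226644) (nat_lit 380) (nat_lit 25657544062) (nat_lit 53) (nat_lit 5) (nat_lit 57) (nat_lit 5) (nat_lit 58) (nat_lit 5) (nat_lit 295) (nat_lit 277) (nat_lit 148))))))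 (XT.nd (nat_lit 312) (nat_lit 608) (nat_lit 0) (XT.nd (nat_lit 156) (nat_lit 228) (nat_lit 0) (XT.nd (nat_lit 78) (nat_lit 304) (nat_lit 0) (XT.lf (nat_lit 0) (nat_lit 19676813742) (nat_lit 380) (nat_lit 11413518139) (nat_lit 76) (nat_lit 10831420192) (nat_lit 53) (nat_lit 5) (nat_lit 58) (nat_lit 5) (nat_lit 54) (nat_lit 5) (nat_lit 296) (nat_lit 277) (nat_lit 147)) (XT.lf (nat_lit 0) (nat_lit 7852163858) (nat_lit 304) (nat_lit 16885145766) (nat_lit 380) (nat_lit 18468307882) (nat_lit 49) (nat_lit 5) (nat_lit 53) (nat_lit 5) (nat_lit 54) (nat_lit 5) (nat_lit 297) (nat_lit 277) (nat_lit 146))) (XT.nd (nat_lit 78) (nat_lit 228) (nat_lit 0) (XT.lf (nat_lit 0) (nat_lit 28474294218) (nat_lit 304) (nat_lit 1767100298) (nat_lit 380) (nat_lit 14302761058) (nat_lit 49) (nat_lit 5) (nat_lit 53) (nat_lit 5) (nat_lit 54) (nat_lit 5) (nat_lit 298) (nat_lit 277) (nat_lit 145)) (XT.lf (nat_lit 0)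 (nat_lit 4085347610) (nat_lit 228) (nat_lit 32216762593) (nat_lit 304) (nat_lit 9633446228) (nat_lit 46) (nat_lit 5) (nat_lit 49) (nat_lit 5) (nat_lit 50) (nat_lit 5) (nat_lit 299) (nat_lit 277) (nat_lit 144)))) (XT.nd (nat_lit 156) (nat_lit 532) (nat_lit 0) (XT.nd (nat_lit 78) (nat_lit 76) (nat_lit 0) (XT.lf (nat_lit 0) (nat_lit 25773277023) (nat_lit 228) (nat_lit 17190709386) (nat_lit 304) (nat_lit 4417641556) (nat_lit 46) (nat_lit 5) (nat_lit 49) (nat_lit 5) (nat_lit 50) (nat_lit 5) (nat_lit 300) (nat_lit 277) (nat_lit 143)) (XT.lf (nat_lit 0) (nat_lit 1022607039) (nat_lit 304) (nat_lit 373899411) (nat_lit 76) (nat_lit 47502798854) (nat_lit 45) (nat_lit 5) (nat_lit 49) (nat_lit 5) (nat_lit 46) (nat_lit 5) (nat_lit 301) (nat_lit 277) (nat_lit 142))) (XT.nd (nat_lit 78) (nat_lit 228) (nat_lit 0) (XT.lf (nat_lit 0) (nat_lit 7180515568) (nat_lit 380) (nat_lit 28146432801) (nat_lit 76)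 (nat_lit 15132597597) (nat_lit 41) (nat_lit 5) (nat_lit 46) (nat_lit 5) (nat_lit 42) (nat_lit 5) (nat_lit 302) (nat_lit 277) (nat_lit 141)) (XT.nd (nat_lit 78) (nat_lit 228) (nat_lit 0) (XT.lf (nat_lit 0) (nat_lit 13673372565) (nat_lit 380) (nat_lit 5975912409) (nat_lit 76) (nat_lit 32447166686) (nat_lit 41) (nat_lit 5) (nat_lit 46) (nat_lit 5) (nat_lit 42) (nat_lit 5) (nat_lit 303) (nat_lit 277) (nat_lit 140)) (XT.lf (nat_lit 0) (nat_lit 17872410054) (nat_lit 228) (nat_lit 2895332689) (nat_lit 304) (nat_lit 33033621763) (nat_lit 38) (nat_lit 5) (nat_lit 41) (nat_lit 5) (nat_lit 42) (nat_lit 5) (nat_lit 304) (nat_lit 277) (nat_lit 139))))))))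
noncomputable def xc213 : XT := (XT.nd (nat_lit 1326) (nat_lit 684) (nat_lit 0) (XT.nd (nat_lit 624) (nat_lit 684) (nat_lit 0) (XT.nd (nat_lit 312) (nat_lit 304) (nat_lit 0) (XT.nd (nat_lit 156) (nat_lit 152) (nat_lit 0) (XT.nd (nat_lit 78) (nat_lit 228) (nat_lit 0) (XT.lf (nat_lit 0) (nat_lit 28547029689) (nat_lit 304) (nat_lit 12699763098) (nat_lit 76) (nat_lit 14328225420) (nat_lit 38) (nat_lit 5) (nat_lit 42) (nat_lit 5) (nat_lit 39) (nat_lit 5) (nat_lit 305) (nat_lit 277) (nat_lit 138)) (XT.lf (nat_lit 0) (nat_lit 12025643443) (nat_lit 228) (nat_lit 24922840286) (nat_lit 304) (nat_lit 20477215609) (nat_lit 35) (nat_lit 5) (nat_lit 38) (nat_lit 5) (nat_lit 39) (nat_lit 5) (nat_lit 306) (nat_lit 277) (nat_lit 137))) (XT.nd (nat_lit 78) (nat_lit 152) (nat_lit 0) (XT.lf (nat_lit 0) (nat_lit 38425594963) (nat_lit 228) (nat_lit 7557531311) (nat_lit 304) (nat_lit 13375137112) (nat_lit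 35) (nat_lit 5) (nat_lit 38) (nat_lit 5) (nat_lit 39) (nat_lit 5) (nat_lit 307) (nat_lit 277) (nat_lit 136)) (XT.lf (nat_lit 0) (nat_lit 4740537363) (nat_lit 152) (nat_lit 50967782163) (nat_lit 228) (nat_lit 5667199610) (nat_lit 33) (nat_lit 5) (nat_lit 35) (nat_lit 5) (nat_lit 36) (nat_lit 5) (nat_lit 308) (nat_lit 277) (nat_lit 135)))) (XT.nd (nat_lit 156) (nat_lit 228) (nat_lit 0) (XT.nd (nat_lit 78) (nat_lit 0) (nat_lit 0) (XT.lf (nat_lit 0) (nat_lit 2830831731) (nat_lit 228) (nat_lit 31221976919) (nat_lit 76) (nat_lit 29414821679) (nat_lit 32) (nat_lit 5) (nat_lit 35) (nat_lit 5) (nat_lit 33) (nat_lit 5) (nat_lit 309) (nat_lit 277) (nat_lit 134)) (XT.lf (nat_lit 0) (nat_lit 11561536282) (nat_lit 228) (nat_lit 4633720673) (nat_lit 76) (nat_lit 49464537372) (nat_lit 32) (nat_lit 5) (nat_lit 35) (nat_lit 5) (nat_lit 33) (nat_lit 5) (nat_lit 310) (nat_lit 277) (nat_lit 133))) (XT.nd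 (nat_lit 78) (nat_lit 0) (nat_lit 0) (XT.lf (nat_lit 0) (nat_lit 21148635036) (nat_lit 304) (nat_lit 43937550565) (nat_lit 76) (nat_lit 2854391618) (nat_lit 29) (nat_lit 5) (nat_lit 33) (nat_lit 5) (nat_lit 30) (nat_lit 5) (nat_lit 311) (nat_lit 277) (nat_lit 132)) (XT.lf (nat_lit 0) (nat_lit 31558689796) (nat_lit 304) (nat_lit 16368186134) (nat_lit 76) (nat_lit 22391346742) (nat_lit 29) (nat_lit 5) (nat_lit 33) (nat_lit 5) (nat_lit 30) (nat_lit 5) (nat_lit 312) (nat_lit 277) (nat_lit 131))))) (XT.nd (nat_lit 312) (nat_lit 304) (nat_lit 0) (XT.nd (nat_lit 156) (nat_lit 228) (nat_lit 0) (XT.nd (nat_lit 78) (nat_lit 0) (nat_lit 0) (XT.lf (nat_lit 0) (nat_lit 12993213560) (nat_lit 152) (nat_lit 29697317342) (nat_lit 228) (nat_lit 30114158621) (nat_lit 27) (nat_lit 5) (nat_lit 29) (nat_lit 5) (nat_lit 30) (nat_lit 5) (nat_lit 313) (nat_lit 277) (nat_lit 130)) (XT.lf (nat_lit 0) (nat_lit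 44388689814) (nat_lit 152) (nat_lit 10265940338) (nat_lit 228) (nat_lit 20747069406) (nat_lit 27) (nat_lit 5) (nat_lit 29) (nat_lit 5) (nat_lit 30) (nat_lit 5) (nat_lit 314) (nat_lit 277) (nat_lit 129))) (XT.nd (nat_lit 78) (nat_lit 228) (nat_lit 0) (XT.lf (nat_lit 0) (nat_lit 67373726812) (nat_lit 228) (nat_lit 935104996) (nat_lit 76) (nat_lit 9811891661) (nat_lit 27) (nat_lit 5) (nat_lit 30) (nat_lit 5) (nat_lit 28) (nat_lit 5) (nat_lit 315) (nat_lit 277) (nat_lit 128)) (XT.lf (nat_lit 0) (nat_lit 430216848) (nat_lit 228) (nat_lit 49465745762) (nat_lit 76) (nat_lit 31046469735) (nat_lit 24) (nat_lit 5) (nat_lit 27) (nat_lit 5) (nat_lit 25) (nat_lit 5) (nat_lit 316) (nat_lit 277) (nat_lit 127)))) (XT.nd (nat_lit 156) (nat_lit 152) (nat_lit 0) (XT.nd (nat_lit 78) (nat_lit 152) (nat_lit 0) (XT.lf (nat_lit 0) (nat_lit 11819822484) (nat_lit 228) (nat_lit 18541469013) (nat_lit 76) (nat_lit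 53534393693) (nat_lit 24) (nat_lit 5) (nat_lit 27) (nat_lit 5) (nat_lit 25) (nat_lit 5) (nat_lit 317) (nat_lit 277) (nat_lit 126)) (XT.lf (nat_lit 0) (nat_lit 14387485473) (nat_lit 152) (nat_lit 9614723273) (nat_lit 228) (nat_lit 62983229378) (nat_lit 22) (nat_lit 5) (nat_lit 24) (nat_lit 5) (nat_lit 25) (nat_lit 5) (nat_lit 318) (nat_lit 277) (nat_lit 125))) (XT.nd (nat_lit 78) (nat_lit 152) (nat_lit 0) (XT.lf (nat_lit 0) (nat_lit 37301558314) (nat_lit 228) (nat_lit 40804564351) (nat_lit 76) (nat_lit 12098166190) (nat_lit 22) (nat_lit 5) (nat_lit 25) (nat_lit 5) (nat_lit 23) (nat_lit 5) (nat_lit 319) (nat_lit 277) (nat_lit 124)) (XT.nd (nat_lit 78) (nat_lit 152) (nat_lit 0) (XT.lf (nat_lit 0) (nat_lit 51422248686) (nat_lit 228) (nat_lit 7581076590) (nat_lit 76) (nat_lit 34572940417) (nat_lit 22) (nat_lit 5) (nat_lit 25) (nat_lit 5) (nat_lit 23) (nat_lit 5) (nat_lit 320) (nat_lit 277)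 (nat_lit 123)) (XT.lf (nat_lit 0) (nat_lit 28204445338) (nat_lit 152) (nat_lit 38483692875) (nat_lit 228) (nat_lit 30406747058) (nat_lit 20) (nat_lit 5) (nat_lit 22) (nat_lit 5) (nat_lit 23) (nat_lit 5) (nat_lit 321) (nat_lit 277) (nat_lit 122))))))) (XT.nd (nat_lit 702) (nat_lit 304) (nat_lit 0) (XT.nd (nat_lit 312) (nat_lit 228) (nat_lit 0) (XT.nd (nat_lit 156) (nat_lit 76) (nat_lit 0) (XT.nd (nat_lit 78) (nat_lit 76) (nat_lit 0) (XT.lf (nat_lit 0) (nat_lit 66040612593) (nat_lit 152) (nat_lit 16803940943) (nat_lit 228) (nat_lit 17938522755) (nat_lit 20) (nat_lit 5) (nat_lit 22) (nat_lit 5) (nat_lit 23) (nat_lit 5) (nat_lit 322) (nat_lit 277) (nat_lit 121)) (XT.lf (nat_lit 0) (nat_lit 1051735647) (nat_lit 76) (nat_lit 98865410958) (nat_lit 152) (nat_lit 4733114339) (nat_lit 19) (nat_lit 5) (nat_lit 20) (nat_lit 5) (nat_lit 21) (nat_lit 4) (nat_lit 323) (nat_lit 277) (nat_lit 120)))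 (XT.nd (nat_lit 78) (nat_lit 0) (nat_lit 0) (XT.lf (nat_lit 0) (nat_lit 9712659044) (nat_lit 152) (nat_lit 69269064057) (nat_lit 76) (nat_lit 29678334553) (nat_lit 18) (nat_lit 5) (nat_lit 20) (nat_lit 5) (nat_lit 19) (nat_lit 5) (nat_lit 324) (nat_lit 277) (nat_lit 119)) (XT.lf (nat_lit 0) (nat_lit 24720603313) (nat_lit 152) (nat_lit 33302434317) (nat_lit 76) (nat_lit 54843481342) (nat_lit 18) (nat_lit 5) (nat_lit 20) (nat_lit 5) (nat_lit 19) (nat_lit 5) (nat_lit 325) (nat_lit 277) (nat_lit 118)))) (XT.nd (nat_lit 156) (nat_lit 76) (nat_lit 0) (XT.nd (nat_lit 78) (nat_lit 0) (nat_lit 0) (XT.lf (nat_lit 0) (nat_lit 4608393300) (nat_lit 152) (nat_lit 35941497520) (nat_lit 228) (nat_lit 76729866825) (nat_lit 16) (nat_lit 5) (nat_lit 18) (nat_lit 5) (nat_lit 19) (nat_lit 5) (nat_lit 326) (nat_lit 277) (nat_lit 117)) (XT.lf (nat_lit 0) (nat_lit 45569342950) (nat_lit 152) (nat_lit 12164311432)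 (nat_lit 228) (nat_lit 64151854798) (nat_lit 16) (nat_lit 5) (nat_lit 18) (nat_lit 5) (nat_lit 19) (nat_lit 5) (nat_lit 327) (nat_lit 277) (nat_lit 116))) (XT.nd (nat_lit 78) (nat_lit 76) (nat_lit 0) (XT.lf (nat_lit 0) (nat_lit 75975533360) (nat_lit 228) (nat_lit 38344646303) (nat_lit 76) (nat_lit 12391423710) (nat_lit 16) (nat_lit 5) (nat_lit 19) (nat_lit 5) (nat_lit 17) (nat_lit 4) (nat_lit 328) (nat_lit 277) (nat_lit 115)) (XT.nd (nat_lit 78) (nat_lit 0) (nat_lit 0) (XT.lf (nat_lit 0) (nat_lit 1368337502) (nat_lit 76) (nat_lit 93981048539) (nat_lit 152) (nat_lit 36418623619) (nat_lit 15) (nat_lit 5) (nat_lit 16) (nat_lit 5) (nat_lit 17) (nat_lit 4) (nat_lit 329) (nat_lit 277) (nat_lit 114)) (XT.lf (nat_lit 0) (nat_lit 44396741583) (nat_lit 76) (nat_lit 71943696015) (nat_lit 152) (nat_lit 20704374659) (nat_lit 15) (nat_lit 5) (nat_lit 16) (nat_lit 5) (nat_lit 17) (nat_lit 4) (nat_lit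 330) (nat_lit 277) (nat_lit 113)))))) (XT.nd (nat_lit 312) (nat_lit 76) (nat_lit 0) (XT.nd (nat_lit 156) (nat_lit 152) (nat_lit 0) (XT.nd (nat_lit 78) (nat_lit 76) (nat_lit 0) (XT.lf (nat_lit 0) (nat_lit 89575167345) (nat_lit 76) (nat_lit 48805037343) (nat_lit 152) (nat_lit 4205293394) (nat_lit 15) (nat_lit 5) (nat_lit 16) (nat_lit 5) (nat_lit 17) (nat_lit 4) (nat_lit 331) (nat_lit 277) (nat_lit 112)) (XT.lf (nat_lit 0) (nat_lit 12698048861) (nat_lit 152) (nat_lit 11596884015) (nat_lit 76) (nat_lit 124098086006) (nat_lit 14) (nat_lit 5) (nat_lit 16) (nat_lit 5) (nat_lit 15) (nat_lit 5) (nat_lit 332) (nat_lit 277) (nat_lit 111))) (XT.nd (nat_lit 78) (nat_lit 0) (nat_lit 0) (XT.lf (nat_lit 0) (nat_lit 30849665204) (nat_lit 228) (nat_lit 121624862936) (nat_lit 76) (nat_lit 1985720074) (nat_lit 12) (nat_lit 5) (nat_lit 15) (nat_lit 5) (nat_lit 13) (nat_lit 4) (nat_lit 333) (nat_lit 277)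 (nat_lit 110)) (XT.lf (nat_lit 0) (nat_lit 50505994495) (nat_lit 228) (nat_lit 81331935613) (nat_lit 76) (nat_lit 28963053325) (nat_lit 12) (nat_lit 5) (nat_lit 15) (nat_lit 5) (nat_lit 13) (nat_lit 4) (nat_lit 334) (nat_lit 277) (nat_lit 109)))) (XT.nd (nat_lit 156) (nat_lit 0) (nat_lit 0) (XT.nd (nat_lit 78) (nat_lit 76) (nat_lit 0) (XT.lf (nat_lit 0) (nat_lit 71144412675) (nat_lit 228) (nat_lit 39025604747) (nat_lit 76) (nat_lit 57288775345) (nat_lit 12) (nat_lit 5) (nat_lit 15) (nat_lit 5) (nat_lit 13) (nat_lit 4) (nat_lit 335) (nat_lit 277) (nat_lit 108)) (XT.lf (nat_lit 0) (nat_lit 5573237425) (nat_lit 76) (nat_lit 87327835265) (nat_lit 152) (nat_lit 81544104760) (nat_lit 11) (nat_lit 5) (nat_lit 12) (nat_lit 5) (nat_lit 13) (nat_lit 4) (nat_lit 336) (nat_lit 277) (nat_lit 107))) (XT.nd (nat_lit 78) (nat_lit 0) (nat_lit 0) (XT.lf (nat_lit 0) (nat_lit 53755738030) (nat_lit 76)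 (nat_lit 62650067061) (nat_lit 152) (nat_lit 65342065191) (nat_lit 11) (nat_lit 5) (nat_lit 12) (nat_lit 5) (nat_lit 13) (nat_lit 4) (nat_lit 337) (nat_lit 277) (nat_lit 106)) (XT.nd (nat_lit 78) (nat_lit 0) (nat_lit 0) (XT.lf (nat_lit 0) (nat_lit 104346254571) (nat_lit 76) (nat_lit 36738873719) (nat_lit 152) (nat_lit 48330602601) (nat_lit 11) (nat_lit 5) (nat_lit 12) (nat_lit 5) (nat_lit 13) (nat_lit 4) (nat_lit 338) (nat_lit 277) (nat_lit 105)) (XT.lf (nat_lit 0) (nat_lit 157465240658) (nat_lit 76) (nat_lit 9532561922) (nat_lit 152) (nat_lit 30469213507) (nat_lit 11) (nat_lit 5) (nat_lit 12) (nat_lit 5) (nat_lit 13) (nat_lit 4) (nat_lit 339) (nat_lit 277) (nat_lit 104))))))))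
noncomputable def xc214 : XT := (XT.nd (nat_lit 33384) (nat_lit 0) (nat_lit 2508) (XT.nd (nat_lit 32682) (nat_lit 0) (nat_lit 4864) (XT.nd (nat_lit 312) (nat_lit 76) (nat_lit 0) (XT.nd (nat_lit 156) (nat_lit 0) (nat_lit 0) (XT.nd (nat_lit 78) (nat_lit 76) (nat_lit 0) (XT.lf (nat_lit 0) (nat_lit 7253255395) (nat_lit 76) (nat_lit 187362681597) (nat_lit 76) (nat_lit 11284437995) (nat_lit 10) (nat_lit 4) (nat_lit 11) (nat_lit 5) (nat_lit 11) (nat_lit 4) (nat_lit 340) (nat_lit 277) (nat_lit 103)) (XT.lf (nat_lit 0) (nat_lit 9420251019) (nat_lit 152) (nat_lit 156768453409) (nat_lit 76) (nat_lit 48517570131) (nat_lit 9) (nat_lit 5) (nat_lit 11) (nat_lit 5) (nat_lit 10) (nat_lit 4) (nat_lit 341) (nat_lit 277) (nat_lit 102))) (XT.nd (nat_lit 78) (nat_lit 0) (nat_lit 0) (XT.lf (nat_lit 0) (nat_lit 30780381315) (nat_lit 152) (nat_lit 112981828588) (nat_lit 76) (nat_lit 80181038432) (nat_lit 9)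 (nat_lit 5) (nat_lit 11) (nat_lit 5) (nat_lit 10) (nat_lit 4) (nat_lit 342) (nat_lit 277) (nat_lit 101)) (XT.lf (nat_lit 0) (nat_lit 53207982833) (nat_lit 152) (nat_lit 67006809557) (nat_lit 76) (nat_lit 113427305803) (nat_lit 9) (nat_lit 5) (nat_lit 11) (nat_lit 5) (nat_lit 10) (nat_lit 4) (nat_lit 343) (nat_lit 277) (nat_lit 100)))) (XT.nd (nat_lit 156) (nat_lit 0) (nat_lit 0) (XT.nd (nat_lit 78) (nat_lit 76) (nat_lit 0) (XT.lf (nat_lit 0) (nat_lit 76756454624) (nat_lit 152) (nat_lit 18733931985) (nat_lit 76) (nat_lit 148335530023) (nat_lit 9) (nat_lit 5) (nat_lit 11) (nat_lit 5) (nat_lit 10) (nat_lit 4) (nat_lit 344) (nat_lit 277) (nat_lit 99)) (XT.lf (nat_lit 0) (nat_lit 33008208356) (nat_lit 76) (nat_lit 68989006760) (nat_lit 152) (nat_lit 152495968193) (nat_lit 8) (nat_lit 5) (nat_lit 9) (nat_lit 5) (nat_lit 10) (nat_lit 4) (nat_lit 345) (nat_lit 277) (nat_lit 98))) (XT.nd (nat_lit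 78) (nat_lit 0) (nat_lit 0) (XT.lf (nat_lit 0) (nat_lit 87987019325) (nat_lit 76) (nat_lit 40829787050) (nat_lit 152) (nat_lit 136861167851) (nat_lit 8) (nat_lit 5) (nat_lit 9) (nat_lit 5) (nat_lit 10) (nat_lit 4) (nat_lit 346) (nat_lit 277) (nat_lit 97)) (XT.lf (nat_lit 0) (nat_lit 145713974454) (nat_lit 76) (nat_lit 11262949921) (nat_lit 152) (nat_lit 120445103471) (nat_lit 8) (nat_lit 5) (nat_lit 9) (nat_lit 5) (nat_lit 10) (nat_lit 4) (nat_lit 347) (nat_lit 277) (nat_lit 96))))) (XT.nd (nat_lit 312) (nat_lit 0) (nat_lit 76) (XT.nd (nat_lit 156) (nat_lit 0) (nat_lit 0) (XT.nd (nat_lit 78) (nat_lit 0) (nat_lit 0) (XT.lf (nat_lit 0) (nat_lit 2763251788) (nat_lit 0) (nat_lit 2763251788) (nat_lit 684) (nat_lit 7610611190) (nat_lit 72) (nat_lit 5) (nat_lit 72) (nat_lit 3) (nat_lit 81) (nat_lit 3) (nat_lit 278) (nat_lit 278) (nat_lit 164)) (XT.lf (nat_lit 0) (nat_lit 11509756628) (nat_lit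 684) (nat_lit 9629365374) (nat_lit 760) (nat_lit 5782657300) (nat_lit 72) (nat_lit 5) (nat_lit 81) (nat_lit 3) (nat_lit 82) (nat_lit 5) (nat_lit 279) (nat_lit 278) (nat_lit 163))) (XT.nd (nat_lit 78) (nat_lit 0) (nat_lit 76) (XT.lf (nat_lit 76) (nat_lit 2015699535) (nat_lit 0) (nat_lit 10090177683) (nat_lit 760) (nat_lit 15490020886) (nat_lit 73) (nat_lit 5) (nat_lit 72) (nat_lit 5) (nat_lit 82) (nat_lit 5) (nat_lit 280) (nat_lit 278) (nat_lit 162)) (XT.lf (nat_lit 0) (nat_lit 12915864484) (nat_lit 684) (nat_lit 13747907233) (nat_lit 760) (nat_lit 1630765457) (nat_lit 73) (nat_lit 5) (nat_lit 82) (nat_lit 5) (nat_lit 83) (nat_lit 5) (nat_lit 281) (nat_lit 278) (nat_lit 161)))) (XT.nd (nat_lit 156) (nat_lit 0) (nat_lit 76) (XT.nd (nat_lit 78) (nat_lit 0) (nat_lit 0) (XT.lf (nat_lit 0) (nat_lit 13926730519) (nat_lit 684) (nat_lit 1492650369) (nat_lit 760) (nat_lit 13600724873) (nat_lit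 73) (nat_lit 5) (nat_lit 82) (nat_lit 5) (nat_lit 83) (nat_lit 5) (nat_lit 282) (nat_lit 278) (nat_lit 160)) (XT.lf (nat_lit 76) (nat_lit 11748306329) (nat_lit 0) (nat_lit 3418463853) (nat_lit 760) (nat_lit 14606266824) (nat_lit 74) (nat_lit 5) (nat_lit 73) (nat_lit 5) (nat_lit 83) (nat_lit 5) (nat_lit 283) (nat_lit 278) (nat_lit 159))) (XT.nd (nat_lit 78) (nat_lit 0) (nat_lit 0) (XT.lf (nat_lit 0) (nat_lit 16633281473) (nat_lit 684) (nat_lit 5006300287) (nat_lit 760) (nat_lit 8915824568) (nat_lit 74) (nat_lit 5) (nat_lit 83) (nat_lit 5) (nat_lit 84) (nat_lit 5) (nat_lit 284) (nat_lit 278) (nat_lit 158)) (XT.nd (nat_lit 78) (nat_lit 0) (nat_lit 76) (XT.lf (nat_lit 76) (nat_lit 8888348391) (nat_lit 0) (nat_lit 9475212773) (nat_lit 760) (nat_lit 13003825093) (nat_lit 75) (nat_lit 5) (nat_lit 74) (nat_lit 5) (nat_lit 84) (nat_lit 5) (nat_lit 285) (nat_lit 278) (nat_lit 157)) (XT.lf (nat_lit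 0) (nat_lit 20313817703) (nat_lit 684) (nat_lit 8620396461) (nat_lit 760) (nat_lit 3279091476) (nat_lit 75) (nat_lit 5) (nat_lit 84) (nat_lit 5) (nat_lit 85) (nat_lit 5) (nat_lit 286) (nat_lit 278) (nat_lit 156))))))) (XT.nd (nat_lit 702) (nat_lit 1216) (nat_lit 0) (XT.nd (nat_lit 312) (nat_lit 760) (nat_lit 0) (XT.nd (nat_lit 156) (nat_lit 608) (nat_lit 0) (XT.nd (nat_lit 78) (nat_lit 0) (nat_lit 0) (XT.lf (nat_lit 76) (nat_lit 5963538742) (nat_lit 0) (nat_lit 16642494458) (nat_lit 760) (nat_lit 10483278440) (nat_lit 76) (nat_lit 5) (nat_lit 75) (nat_lit 5) (nat_lit 85) (nat_lit 5) (nat_lit 287) (nat_lit 278) (nat_lit 155)) (XT.lf (nat_lit 76) (nat_lit 21572825256) (nat_lit 0) (nat_lit 3582173347) (nat_lit 760) (nat_lit 8847024717) (nat_lit 76) (nat_lit 5) (nat_lit 75) (nat_lit 5) (nat_lit 85) (nat_lit 5) (nat_lit 288) (nat_lit 278) (nat_lit 154))) (XT.nd (nat_lit 78) (nat_lit 0) (nat_lit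 0) (XT.lf (nat_lit 0) (nat_lit 2934777641) (nat_lit 684) (nat_lit 25096973334) (nat_lit 760) (nat_lit 6918614425) (nat_lit 67) (nat_lit 5) (nat_lit 76) (nat_lit 5) (nat_lit 77) (nat_lit 5) (nat_lit 289) (nat_lit 278) (nat_lit 153)) (XT.lf (nat_lit 0) (nat_lit 19434668105) (nat_lit 684) (nat_lit 11882412325) (nat_lit 760) (nat_lit 4615818372) (nat_lit 67) (nat_lit 5) (nat_lit 76) (nat_lit 5) (nat_lit 77) (nat_lit 5) (nat_lit 290) (nat_lit 278) (nat_lit 152)))) (XT.nd (nat_lit 156) (nat_lit 380) (nat_lit 0) (XT.nd (nat_lit 78) (nat_lit 380) (nat_lit 0) (XT.lf (nat_lit 0) (nat_lit 34794432881) (nat_lit 760) (nat_lit 239287712) (nat_lit 76) (nat_lit 1929461111) (nat_lit 67) (nat_lit 5) (nat_lit 77) (nat_lit 5) (nat_lit 68) (nat_lit 5) (nat_lit 291) (nat_lit 278) (nat_lit 151)) (XT.lf (nat_lit 0) (nat_lit 855278397) (nat_lit 380) (nat_lit 20850975354) (nat_lit 76) (nat_lit 16315050471) (nat_lit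 62) (nat_lit 5) (nat_lit 67) (nat_lit 5) (nat_lit 63) (nat_lit 5) (nat_lit 292) (nat_lit 278) (nat_lit 150))) (XT.nd (nat_lit 78) (nat_lit 380) (nat_lit 0) (XT.lf (nat_lit 0) (nat_lit 3958589614) (nat_lit 380) (nat_lit 3712097606) (nat_lit 76) (nat_lit 31459828849) (nat_lit 62) (nat_lit 5) (nat_lit 67) (nat_lit 5) (nat_lit 63) (nat_lit 5) (nat_lit 293) (nat_lit 278) (nat_lit 149)) (XT.nd (nat_lit 78) (nat_lit 0) (nat_lit 0) (XT.lf (nat_lit 0) (nat_lit 7558507099) (nat_lit 456) (nat_lit 25644961301) (nat_lit 76) (nat_lit 7074656840) (nat_lit 57) (nat_lit 5) (nat_lit 63) (nat_lit 5) (nat_lit 58) (nat_lit 5) (nat_lit 294) (nat_lit 278) (nat_lit 148)) (XT.lf (nat_lit 0) (nat_lit 11525162350) (nat_lit 456) (nat_lit 7585228137) (nat_lit 76) (nat_lit 22363395639) (nat_lit 57) (nat_lit 5) (nat_lit 63) (nat_lit 5) (nat_lit 58) (nat_lit 5) (nat_lit 295) (nat_lit 278) (nat_lit 147)))))) (XT.nd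 (nat_lit 312) (nat_lit 608) (nat_lit 0) (XT.nd (nat_lit 156) (nat_lit 304) (nat_lit 0) (XT.nd (nat_lit 78) (nat_lit 0) (nat_lit 0) (XT.lf (nat_lit 0) (nat_lit 11750690772) (nat_lit 304) (nat_lit 4120155243) (nat_lit 380) (nat_lit 26849357211) (nat_lit 53) (nat_lit 5) (nat_lit 57) (nat_lit 5) (nat_lit 58) (nat_lit 5) (nat_lit 296) (nat_lit 278) (nat_lit 146)) (XT.lf (nat_lit 0) (nat_lit 20743112623) (nat_lit 380) (nat_lit 11892279373) (nat_lit 76) (nat_lit 11378091822) (nat_lit 53) (nat_lit 5) (nat_lit 58) (nat_lit 5) (nat_lit 54) (nat_lit 5) (nat_lit 297) (nat_lit 278) (nat_lit 145))) (XT.nd (nat_lit 78) (nat_lit 0) (nat_lit 0) (XT.lf (nat_lit 0) (nat_lit 8335204229) (nat_lit 304) (nat_lit 17718914389) (nat_lit 380) (nat_lit 19307560731) (nat_lit 49) (nat_lit 5) (nat_lit 53) (nat_lit 5) (nat_lit 54) (nat_lit 5) (nat_lit 298) (nat_lit 278) (nat_lit 144)) (XT.lf (nat_lit 0) (nat_lit 29984134813)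 (nat_lit 304) (nat_lit 1845466108) (nat_lit 380) (nat_lit 14937744306) (nat_lit 49) (nat_lit 5) (nat_lit 53) (nat_lit 5) (nat_lit 54) (nat_lit 5) (nat_lit 299) (nat_lit 278) (nat_lit 143)))) (XT.nd (nat_lit 156) (nat_lit 380) (nat_lit 0) (XT.nd (nat_lit 78) (nat_lit 0) (nat_lit 0) (XT.lf (nat_lit 0) (nat_lit 4378151620) (nat_lit 228) (nat_lit 33813106054) (nat_lit 304) (nat_lit 10037173251) (nat_lit 46) (nat_lit 5) (nat_lit 49) (nat_lit 5) (nat_lit 50) (nat_lit 5) (nat_lit 300) (nat_lit 278) (nat_lit 142)) (XT.lf (nat_lit 0) (nat_lit 27146261474) (nat_lit 228) (nat_lit 18036440408) (nat_lit 304) (nat_lit 4564290025) (nat_lit 46) (nat_lit 5) (nat_lit 49) (nat_lit 5) (nat_lit 50) (nat_lit 5) (nat_lit 301) (nat_lit 278) (nat_lit 141))) (XT.nd (nat_lit 78) (nat_lit 304) (nat_lit 0) (XT.lf (nat_lit 0) (nat_lit 1142173266) (nat_lit 304) (nat_lit 309852419) (nat_lit 76) (nat_lit 49888649259)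 (nat_lit 45) (nat_lit 5) (nat_lit 49) (nat_lit 5) (nat_lit 46) (nat_lit 5) (nat_lit 302) (nat_lit 278) (nat_lit 140)) (XT.nd (nat_lit 78) (nat_lit 0) (nat_lit 0) (XT.lf (nat_lit 0) (nat_lit 7606222927) (nat_lit 380) (nat_lit 29469092631) (nat_lit 76) (nat_lit 15903708075) (nat_lit 41) (nat_lit 5) (nat_lit 46) (nat_lit 5) (nat_lit 42) (nat_lit 5) (nat_lit 303) (nat_lit 278) (nat_lit 139)) (XT.lf (nat_lit 0) (nat_lit 14420547460) (nat_lit 380) (nat_lit 6194077735) (nat_lit 76) (nat_lit 34083316067) (nat_lit 41) (nat_lit 5) (nat_lit 46) (nat_lit 5) (nat_lit 42) (nat_lit 5) (nat_lit 304) (nat_lit 278) (nat_lit 138))))))))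
noncomputable def xc215 : XT := (XT.nd (nat_lit 1404) (nat_lit 684) (nat_lit 0) (XT.nd (nat_lit 702) (nat_lit 684) (nat_lit 0) (XT.nd (nat_lit 312) (nat_lit 456) (nat_lit 0) (XT.nd (nat_lit 156) (nat_lit 228) (nat_lit 0) (XT.nd (nat_lit 78) (nat_lit 0) (nat_lit 0) (XT.lf (nat_lit 0) (nat_lit 18845360363) (nat_lit 228) (nat_lit 3022490236) (nat_lit 304) (nat_lit 34620345935) (nat_lit 38) (nat_lit 5) (nat_lit 41) (nat_lit 5) (nat_lit 42) (nat_lit 5) (nat_lit 305) (nat_lit 278) (nat_lit 137)) (XT.lf (nat_lit 0) (nat_lit 30033424647) (nat_lit 304) (nat_lit 13256378799) (nat_lit 76) (nat_lit 15060870488) (nat_lit 38) (nat_lit 5) (nat_lit 42) (nat_lit 5) (nat_lit 39) (nat_lit 5) (nat_lit 306) (nat_lit 278) (nat_lit 136))) (XT.nd (nat_lit 78) (nat_lit 0) (nat_lit 0) (XT.lf (nat_lit 0) (nat_lit 12704033997) (nat_lit 228) (nat_lit 26149309676) (nat_lit 304) (nat_lit 21440632644) (nat_lit 35)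 (nat_lit 5) (nat_lit 38) (nat_lit 5) (nat_lit 39) (nat_lit 5) (nat_lit 307) (nat_lit 278) (nat_lit 135)) (XT.lf (nat_lit 0) (nat_lit 40420311265) (nat_lit 228) (nat_lit 7916672043) (nat_lit 304) (nat_lit 13986328496) (nat_lit 35) (nat_lit 5) (nat_lit 38) (nat_lit 5) (nat_lit 39) (nat_lit 5) (nat_lit 308) (nat_lit 278) (nat_lit 134)))) (XT.nd (nat_lit 156) (nat_lit 228) (nat_lit 0) (XT.nd (nat_lit 78) (nat_lit 76) (nat_lit 0) (XT.lf (nat_lit 0) (nat_lit 5052347068) (nat_lit 152) (nat_lit 53494930517) (nat_lit 228) (nat_lit 5894216864) (nat_lit 33) (nat_lit 5) (nat_lit 35) (nat_lit 5) (nat_lit 36) (nat_lit 5) (nat_lit 309) (nat_lit 278) (nat_lit 133)) (XT.lf (nat_lit 0) (nat_lit 3024315609) (nat_lit 228) (nat_lit 32710024516) (nat_lit 76) (nat_lit 30903962553) (nat_lit 32) (nat_lit 5) (nat_lit 35) (nat_lit 5) (nat_lit 33) (nat_lit 5) (nat_lit 310) (nat_lit 278) (nat_lit 132))) (XT.nd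 (nat_lit 78) (nat_lit 228) (nat_lit 0) (XT.lf (nat_lit 0) (nat_lit 12189081946) (nat_lit 228) (nat_lit 4795834088) (nat_lit 76) (nat_lit 51955287850) (nat_lit 32) (nat_lit 5) (nat_lit 35) (nat_lit 5) (nat_lit 33) (nat_lit 5) (nat_lit 311) (nat_lit 278) (nat_lit 131)) (XT.nd (nat_lit 78) (nat_lit 0) (nat_lit 0) (XT.lf (nat_lit 0) (nat_lit 22254565131) (nat_lit 304) (nat_lit 46063783334) (nat_lit 76) (nat_lit 3016731063) (nat_lit 29) (nat_lit 5) (nat_lit 33) (nat_lit 5) (nat_lit 30) (nat_lit 5) (nat_lit 312) (nat_lit 278) (nat_lit 130)) (XT.lf (nat_lit 0) (nat_lit 33182813184) (nat_lit 304) (nat_lit 17119314718) (nat_lit 76) (nat_lit 23529599664) (nat_lit 29) (nat_lit 5) (nat_lit 33) (nat_lit 5) (nat_lit 30) (nat_lit 5) (nat_lit 313) (nat_lit 278) (nat_lit 129)))))) (XT.nd (nat_lit 312) (nat_lit 304) (nat_lit 0) (XT.nd (nat_lit 156) (nat_lit 228) (nat_lit 0) (XT.nd (nat_lit 78) (nat_lit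 0) (nat_lit 0) (XT.lf (nat_lit 0) (nat_lit 13709069788) (nat_lit 152) (nat_lit 31161010584) (nat_lit 228) (nat_lit 31572500295) (nat_lit 27) (nat_lit 5) (nat_lit 29) (nat_lit 5) (nat_lit 30) (nat_lit 5) (nat_lit 314) (nat_lit 278) (nat_lit 128)) (XT.lf (nat_lit 0) (nat_lit 46671167686) (nat_lit 152) (nat_lit 10759072950) (nat_lit 228) (nat_lit 21739312155) (nat_lit 27) (nat_lit 5) (nat_lit 29) (nat_lit 5) (nat_lit 30) (nat_lit 5) (nat_lit 315) (nat_lit 278) (nat_lit 127))) (XT.nd (nat_lit 78) (nat_lit 228) (nat_lit 0) (XT.lf (nat_lit 0) (nat_lit 70783550105) (nat_lit 228) (nat_lit 919993291) (nat_lit 76) (nat_lit 10321075785) (nat_lit 27) (nat_lit 5) (nat_lit 30) (nat_lit 5) (nat_lit 28) (nat_lit 5) (nat_lit 316) (nat_lit 278) (nat_lit 126)) (XT.lf (nat_lit 0) (nat_lit 492591004) (nat_lit 228) (nat_lit 51876736982) (nat_lit 76) (nat_lit 32618106970) (nat_lit 24) (nat_lit 5) (nat_lit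 27) (nat_lit 5) (nat_lit 25) (nat_lit 5) (nat_lit 317) (nat_lit 278) (nat_lit 125)))) (XT.nd (nat_lit 156) (nat_lit 152) (nat_lit 0) (XT.nd (nat_lit 78) (nat_lit 152) (nat_lit 0) (XT.lf (nat_lit 0) (nat_lit 12449731050) (nat_lit 228) (nat_lit 19409212874) (nat_lit 76) (nat_lit 56229507423) (nat_lit 24) (nat_lit 5) (nat_lit 27) (nat_lit 5) (nat_lit 25) (nat_lit 5) (nat_lit 318) (nat_lit 278) (nat_lit 124)) (XT.lf (nat_lit 0) (nat_lit 15165232407) (nat_lit 152) (nat_lit 10075062367) (nat_lit 228) (nat_lit 66092447687) (nat_lit 22) (nat_lit 5) (nat_lit 24) (nat_lit 5) (nat_lit 25) (nat_lit 5) (nat_lit 319) (nat_lit 278) (nat_lit 123))) (XT.nd (nat_lit 78) (nat_lit 152) (nat_lit 0) (XT.lf (nat_lit 0) (nat_lit 39203106750) (nat_lit 228) (nat_lit 42787628974) (nat_lit 76) (nat_lit 12721878534) (nat_lit 22) (nat_lit 5) (nat_lit 25) (nat_lit 5) (nat_lit 23) (nat_lit 5) (nat_lit 320) (nat_lit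 278) (nat_lit 122)) (XT.nd (nat_lit 78) (nat_lit 152) (nat_lit 0) (XT.lf (nat_lit 0) (nat_lit 54028094949) (nat_lit 228) (nat_lit 7905688901) (nat_lit 76) (nat_lit 36319496041) (nat_lit 22) (nat_lit 5) (nat_lit 25) (nat_lit 5) (nat_lit 23) (nat_lit 5) (nat_lit 321) (nat_lit 278) (nat_lit 121)) (XT.lf (nat_lit 0) (nat_lit 29668231035) (nat_lit 152) (nat_lit 40388230200) (nat_lit 228) (nat_lit 31891413070) (nat_lit 20) (nat_lit 5) (nat_lit 22) (nat_lit 5) (nat_lit 23) (nat_lit 5) (nat_lit 322) (nat_lit 278) (nat_lit 120))))))) (XT.nd (nat_lit 702) (nat_lit 304) (nat_lit 0) (XT.nd (nat_lit 312) (nat_lit 228) (nat_lit 0) (XT.nd (nat_lit 156) (nat_lit 76) (nat_lit 0) (XT.nd (nat_lit 78) (nat_lit 76) (nat_lit 0) (XT.lf (nat_lit 0) (nat_lit 69393656013) (nat_lit 152) (nat_lit 17625426258) (nat_lit 228) (nat_lit 18801476187) (nat_lit 20) (nat_lit 5) (nat_lit 22) (nat_lit 5) (nat_lit 23) (nat_lit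 5) (nat_lit 323) (nat_lit 278) (nat_lit 119)) (XT.lf (nat_lit 0) (nat_lit 1155869688) (nat_lit 76) (nat_lit 103788980189) (nat_lit 152) (nat_lit 4936277918) (nat_lit 19) (nat_lit 5) (nat_lit 20) (nat_lit 5) (nat_lit 21) (nat_lit 4) (nat_lit 324) (nat_lit 278) (nat_lit 118))) (XT.nd (nat_lit 78) (nat_lit 0) (nat_lit 0) (XT.lf (nat_lit 0) (nat_lit 10229168359) (nat_lit 152) (nat_lit 72682354833) (nat_lit 76) (nat_lit 31179944639) (nat_lit 18) (nat_lit 5) (nat_lit 20) (nat_lit 5) (nat_lit 19) (nat_lit 5) (nat_lit 325) (nat_lit 278) (nat_lit 117)) (XT.lf (nat_lit 0) (nat_lit 25986039538) (nat_lit 152) (nat_lit 34919782293) (nat_lit 76) (nat_lit 57602506227) (nat_lit 18) (nat_lit 5) (nat_lit 20) (nat_lit 5) (nat_lit 19) (nat_lit 5) (nat_lit 326) (nat_lit 278) (nat_lit 116)))) (XT.nd (nat_lit 156) (nat_lit 76) (nat_lit 0) (XT.nd (nat_lit 78) (nat_lit 0) (nat_lit 0) (XT.lf (nat_lit 0) (nat_lit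 4885816160) (nat_lit 152) (nat_lit 37720308822) (nat_lit 228) (nat_lit 80536139220) (nat_lit 16) (nat_lit 5) (nat_lit 18) (nat_lit 5) (nat_lit 19) (nat_lit 5) (nat_lit 327) (nat_lit 278) (nat_lit 115)) (XT.lf (nat_lit 0) (nat_lit 47892575046) (nat_lit 152) (nat_lit 12755133125) (nat_lit 228) (nat_lit 67330665684) (nat_lit 16) (nat_lit 5) (nat_lit 18) (nat_lit 5) (nat_lit 19) (nat_lit 5) (nat_lit 328) (nat_lit 278) (nat_lit 114))) (XT.nd (nat_lit 78) (nat_lit 76) (nat_lit 0) (XT.lf (nat_lit 0) (nat_lit 79800636348) (nat_lit 228) (nat_lit 40218160365) (nat_lit 76) (nat_lit 13027030292) (nat_lit 16) (nat_lit 5) (nat_lit 19) (nat_lit 5) (nat_lit 17) (nat_lit 4) (nat_lit 329) (nat_lit 278) (nat_lit 113)) (XT.nd (nat_lit 78) (nat_lit 0) (nat_lit 0) (XT.lf (nat_lit 0) (nat_lit 1479767497) (nat_lit 76) (nat_lit 98662832087) (nat_lit 152) (nat_lit 38212485041) (nat_lit 15) (nat_lit 5) (nat_lit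 16) (nat_lit 5) (nat_lit 17) (nat_lit 4) (nat_lit 330) (nat_lit 278) (nat_lit 112)) (XT.lf (nat_lit 0) (nat_lit 46657543538) (nat_lit 76) (nat_lit 75524434265) (nat_lit 152) (nat_lit 21713812670) (nat_lit 15) (nat_lit 5) (nat_lit 16) (nat_lit 5) (nat_lit 17) (nat_lit 4) (nat_lit 331) (nat_lit 278) (nat_lit 111)))))) (XT.nd (nat_lit 312) (nat_lit 76) (nat_lit 0) (XT.nd (nat_lit 156) (nat_lit 152) (nat_lit 0) (XT.nd (nat_lit 78) (nat_lit 76) (nat_lit 0) (XT.lf (nat_lit 0) (nat_lit 94092939880) (nat_lit 76) (nat_lit 51229625828) (nat_lit 152) (nat_lit 4391004995) (nat_lit 15) (nat_lit 5) (nat_lit 16) (nat_lit 5) (nat_lit 17) (nat_lit 4) (nat_lit 332) (nat_lit 278) (nat_lit 110)) (XT.lf (nat_lit 0) (nat_lit 13355586749) (nat_lit 152) (nat_lit 12138791922) (nat_lit 76) (nat_lit 130317127869) (nat_lit 14) (nat_lit 5) (nat_lit 16) (nat_lit 5) (nat_lit 15) (nat_lit 5) (nat_lit 333) (nat_lit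 278) (nat_lit 109))) (XT.nd (nat_lit 78) (nat_lit 0) (nat_lit 0) (XT.lf (nat_lit 0) (nat_lit 32414525837) (nat_lit 228) (nat_lit 127667881703) (nat_lit 76) (nat_lit 2099704204) (nat_lit 12) (nat_lit 5) (nat_lit 15) (nat_lit 5) (nat_lit 13) (nat_lit 4) (nat_lit 334) (nat_lit 278) (nat_lit 108)) (XT.lf (nat_lit 0) (nat_lit 53052606002) (nat_lit 228) (nat_lit 85362128222) (nat_lit 76) (nat_lit 30425204207) (nat_lit 12) (nat_lit 5) (nat_lit 15) (nat_lit 5) (nat_lit 13) (nat_lit 4) (nat_lit 335) (nat_lit 278) (nat_lit 107)))) (XT.nd (nat_lit 156) (nat_lit 0) (nat_lit 0) (XT.nd (nat_lit 78) (nat_lit 76) (nat_lit 0) (XT.lf (nat_lit 0) (nat_lit 74721930244) (nat_lit 228) (nat_lit 40942214344) (nat_lit 76) (nat_lit 60166545746) (nat_lit 12) (nat_lit 5) (nat_lit 15) (nat_lit 5) (nat_lit 13) (nat_lit 4) (nat_lit 336) (nat_lit 278) (nat_lit 106)) (XT.lf (nat_lit 0) (nat_lit 5886010732) (nat_lit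 76) (nat_lit 91679978583) (nat_lit 152) (nat_lit 85600427932) (nat_lit 11) (nat_lit 5) (nat_lit 12) (nat_lit 5) (nat_lit 13) (nat_lit 4) (nat_lit 337) (nat_lit 278) (nat_lit 105))) (XT.nd (nat_lit 78) (nat_lit 0) (nat_lit 0) (XT.lf (nat_lit 0) (nat_lit 56476012013) (nat_lit 76) (nat_lit 65769000466) (nat_lit 152) (nat_lit 68589280769) (nat_lit 11) (nat_lit 5) (nat_lit 12) (nat_lit 5) (nat_lit 13) (nat_lit 4) (nat_lit 338) (nat_lit 278) (nat_lit 104)) (XT.nd (nat_lit 78) (nat_lit 0) (nat_lit 0) (XT.lf (nat_lit 0) (nat_lit 109594507377) (nat_lit 76) (nat_lit 38562893645) (nat_lit 152) (nat_lit 50728192082) (nat_lit 11) (nat_lit 5) (nat_lit 12) (nat_lit 5) (nat_lit 13) (nat_lit 4) (nat_lit 339) (nat_lit 278) (nat_lit 103)) (XT.lf (nat_lit 0) (nat_lit 165367969432) (nat_lit 76) (nat_lit 9996881675) (nat_lit 152) (nat_lit 31974635469) (nat_lit 11) (nat_lit 5) (nat_lit 12) (nat_lit 5) (nat_lit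 13) (nat_lit 4) (nat_lit 340) (nat_lit 278) (nat_lit 102))))))))
noncomputable def xc216 : XT := (XT.nd (nat_lit 33462) (nat_lit 0) (nat_lit 2280) (XT.nd (nat_lit 32760) (nat_lit 0) (nat_lit 4864) (XT.nd (nat_lit 312) (nat_lit 76) (nat_lit 0) (XT.nd (nat_lit 156) (nat_lit 0) (nat_lit 0) (XT.nd (nat_lit 78) (nat_lit 76) (nat_lit 0) (XT.lf (nat_lit 0) (nat_lit 7645586685) (nat_lit 76) (nat_lit 196718134714) (nat_lit 76) (nat_lit 11830801630) (nat_lit 10) (nat_lit 4) (nat_lit 11) (nat_lit 5) (nat_lit 11) (nat_lit 4) (nat_lit 341) (nat_lit 278) (nat_lit 101)) (XT.lf (nat_lit 0) (nat_lit 9907727083) (nat_lit 152) (nat_lit 164578056642) (nat_lit 76) (nat_lit 50954962040) (nat_lit 9) (nat_lit 5) (nat_lit 11) (nat_lit 5) (nat_lit 10) (nat_lit 4) (nat_lit 342) (nat_lit 278) (nat_lit 100))) (XT.nd (nat_lit 78) (nat_lit 0) (nat_lit 0) (XT.lf (nat_lit 0) (nat_lit 32335079917) (nat_lit 152) (nat_lit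 118603472933) (nat_lit 76) (nat_lit 84201055499) (nat_lit 9) (nat_lit 5) (nat_lit 11) (nat_lit 5) (nat_lit 10) (nat_lit 4) (nat_lit 343) (nat_lit 278) (nat_lit 99)) (XT.lf (nat_lit 0) (nat_lit 55883314866) (nat_lit 152) (nat_lit 70331009955) (nat_lit 76) (nat_lit 119109114089) (nat_lit 9) (nat_lit 5) (nat_lit 11) (nat_lit 5) (nat_lit 10) (nat_lit 4) (nat_lit 344) (nat_lit 278) (nat_lit 98)))) (XT.nd (nat_lit 156) (nat_lit 0) (nat_lit 0) (XT.nd (nat_lit 78) (nat_lit 76) (nat_lit 0) (XT.lf (nat_lit 0) (nat_lit 80608499157) (nat_lit 152) (nat_lit 19645733270) (nat_lit 76) (nat_lit 155762252234) (nat_lit 9) (nat_lit 5) (nat_lit 11) (nat_lit 5) (nat_lit 10) (nat_lit 4) (nat_lit 345) (nat_lit 278) (nat_lit 97)) (XT.lf (nat_lit 0) (nat_lit 34683112551) (nat_lit 76) (nat_lit 72427890310) (nat_lit 152) (nat_lit 160106127347) (nat_lit 8) (nat_lit 5) (nat_lit 9) (nat_lit 5) (nat_lit 10) (nat_lit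 4) (nat_lit 346) (nat_lit 278) (nat_lit 96))) (XT.nd (nat_lit 32214) (nat_lit 0) (nat_lit 4864) (XT.lf (nat_lit 0) (nat_lit 92409697698) (nat_lit 76) (nat_lit 42861212795) (nat_lit 152) (nat_lit 143690284096) (nat_lit 8) (nat_lit 5) (nat_lit 9) (nat_lit 5) (nat_lit 10) (nat_lit 4) (nat_lit 347) (nat_lit 278) (nat_lit 95)) (XT.lf (nat_lit 0) (nat_lit 2944311821) (nat_lit 0) (nat_lit 2944311821) (nat_lit 684) (nat_lit 7900776809) (nat_lit 72) (nat_lit 5) (nat_lit 72) (nat_lit 3) (nat_lit 81) (nat_lit 3) (nat_lit 279) (nat_lit 279) (nat_lit 162))))) (XT.nd (nat_lit 312) (nat_lit 0) (nat_lit 76) (XT.nd (nat_lit 156) (nat_lit 0) (nat_lit 76) (XT.nd (nat_lit 78) (nat_lit 0) (nat_lit 0) (XT.lf (nat_lit 0) (nat_lit 12247387578) (nat_lit 684) (nat_lit 10019143649) (nat_lit 760) (nat_lit 5992695960) (nat_lit 72) (nat_lit 5) (nat_lit 81) (nat_lit 3) (nat_lit 82) (nat_lit 5) (nat_lit 280) (nat_lit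 279) (nat_lit 161)) (XT.lf (nat_lit 76) (nat_lit 2206695634) (nat_lit 0) (nat_lit 10660305911) (nat_lit 760) (nat_lit 16100391443) (nat_lit 73) (nat_lit 5) (nat_lit 72) (nat_lit 5) (nat_lit 82) (nat_lit 5) (nat_lit 281) (nat_lit 279) (nat_lit 160))) (XT.nd (nat_lit 78) (nat_lit 0) (nat_lit 0) (XT.lf (nat_lit 0) (nat_lit 13709091960) (nat_lit 684) (nat_lit 14340506742) (nat_lit 760) (nat_lit 1651809335) (nat_lit 73) (nat_lit 5) (nat_lit 82) (nat_lit 5) (nat_lit 83) (nat_lit 5) (nat_lit 282) (nat_lit 279) (nat_lit 159)) (XT.lf (nat_lit 0) (nat_lit 14763480618) (nat_lit 684) (nat_lit 1477001122) (nat_lit 760) (nat_lit 14223147407) (nat_lit 73) (nat_lit 5) (nat_lit 82) (nat_lit 5) (nat_lit 83) (nat_lit 5) (nat_lit 283) (nat_lit 279) (nat_lit 158)))) (XT.nd (nat_lit 156) (nat_lit 0) (nat_lit 76) (XT.nd (nat_lit 78) (nat_lit 0) (nat_lit 76) (XT.lf (nat_lit 76) (nat_lit 12424547253) (nat_lit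 0) (nat_lit 3635675468) (nat_lit 760) (nat_lit 15194271175) (nat_lit 74) (nat_lit 5) (nat_lit 73) (nat_lit 5) (nat_lit 83) (nat_lit 5) (nat_lit 284) (nat_lit 279) (nat_lit 157)) (XT.lf (nat_lit 0) (nat_lit 17592937297) (nat_lit 684) (nat_lit 5164478862) (nat_lit 760) (nat_lit 9318942555) (nat_lit 74) (nat_lit 5) (nat_lit 83) (nat_lit 5) (nat_lit 84) (nat_lit 5) (nat_lit 285) (nat_lit 279) (nat_lit 156))) (XT.nd (nat_lit 78) (nat_lit 0) (nat_lit 76) (XT.lf (nat_lit 76) (nat_lit 9423416177) (nat_lit 0) (nat_lit 9981635255) (nat_lit 760) (nat_lit 13524140105) (nat_lit 75) (nat_lit 5) (nat_lit 74) (nat_lit 5) (nat_lit 84) (nat_lit 5) (nat_lit 286) (nat_lit 279) (nat_lit 155)) (XT.nd (nat_lit 78) (nat_lit 0) (nat_lit 0) (XT.lf (nat_lit 0) (nat_lit 21446463129) (nat_lit 684) (nat_lit 8958345482) (nat_lit 760) (nat_lit 3412935135) (nat_lit 75) (nat_lit 5) (nat_lit 84) (nat_lit 5) (nat_lit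 85) (nat_lit 5) (nat_lit 287) (nat_lit 279) (nat_lit 154)) (XT.lf (nat_lit 76) (nat_lit 6353285339) (nat_lit 0) (nat_lit 17495864457) (nat_lit 760) (nat_lit 10888625299) (nat_lit 76) (nat_lit 5) (nat_lit 75) (nat_lit 5) (nat_lit 85) (nat_lit 5) (nat_lit 288) (nat_lit 279) (nat_lit 153))))))) (XT.nd (nat_lit 702) (nat_lit 1140) (nat_lit 0) (XT.nd (nat_lit 312) (nat_lit 1064) (nat_lit 0) (XT.nd (nat_lit 156) (nat_lit 0) (nat_lit 0) (XT.nd (nat_lit 78) (nat_lit 608) (nat_lit 0) (XT.lf (nat_lit 76) (nat_lit 22738675719) (nat_lit 0) (nat_lit 3781515611) (nat_lit 760) (nat_lit 9176216845) (nat_lit 76) (nat_lit 5) (nat_lit 75) (nat_lit 5) (nat_lit 85) (nat_lit 5) (nat_lit 289) (nat_lit 279) (nat_lit 152)) (XT.lf (nat_lit 0) (nat_lit 3173254044) (nat_lit 684) (nat_lit 26363542372) (nat_lit 760) (nat_lit 7155586577) (nat_lit 67) (nat_lit 5) (nat_lit 76) (nat_lit 5) (nat_lit 77) (nat_lit 5) (nat_lit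 290) (nat_lit 279) (nat_lit 151))) (XT.nd (nat_lit 78) (nat_lit 0) (nat_lit 0) (XT.lf (nat_lit 0) (nat_lit 20493770578) (nat_lit 684) (nat_lit 12487695199) (nat_lit 760) (nat_lit 4742839224) (nat_lit 67) (nat_lit 5) (nat_lit 76) (nat_lit 5) (nat_lit 77) (nat_lit 5) (nat_lit 291) (nat_lit 279) (nat_lit 150)) (XT.lf (nat_lit 0) (nat_lit 36627827907) (nat_lit 760) (nat_lit 162888211) (nat_lit 76) (nat_lit 2015643693) (nat_lit 67) (nat_lit 5) (nat_lit 77) (nat_lit 5) (nat_lit 68) (nat_lit 5) (nat_lit 292) (nat_lit 279) (nat_lit 149)))) (XT.nd (nat_lit 156) (nat_lit 684) (nat_lit 0) (XT.nd (nat_lit 78) (nat_lit 0) (nat_lit 0) (XT.lf (nat_lit 0) (nat_lit 990371262) (nat_lit 380) (nat_lit 21803262980) (nat_lit 76) (nat_lit 17123849077) (nat_lit 62) (nat_lit 5) (nat_lit 67) (nat_lit 5) (nat_lit 63) (nat_lit 5) (nat_lit 293) (nat_lit 279) (nat_lit 148)) (XT.lf (nat_lit 0) (nat_lit 4244451423)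 (nat_lit 380) (nat_lit 3811739494) (nat_lit 76) (nat_lit 33026197512) (nat_lit 62) (nat_lit 5) (nat_lit 67) (nat_lit 5) (nat_lit 63) (nat_lit 5) (nat_lit 294) (nat_lit 279) (nat_lit 147))) (XT.nd (nat_lit 78) (nat_lit 304) (nat_lit 0) (XT.lf (nat_lit 0) (nat_lit 8021490370) (nat_lit 456) (nat_lit 26838127364) (nat_lit 76) (nat_lit 7427916277) (nat_lit 57) (nat_lit 5) (nat_lit 63) (nat_lit 5) (nat_lit 58) (nat_lit 5) (nat_lit 295) (nat_lit 279) (nat_lit 146)) (XT.nd (nat_lit 78) (nat_lit 304) (nat_lit 0) (XT.lf (nat_lit 0) (nat_lit 12182428007) (nat_lit 456) (nat_lit 7879649542) (nat_lit 76) (nat_lit 23481114558) (nat_lit 57) (nat_lit 5) (nat_lit 63) (nat_lit 5) (nat_lit 58) (nat_lit 5) (nat_lit 296) (nat_lit 279) (nat_lit 145)) (XT.lf (nat_lit 0) (nat_lit 12421696926) (nat_lit 304) (nat_lit 4321144653) (nat_lit 380) (nat_lit 28109227289) (nat_lit 53) (nat_lit 5) (nat_lit 57) (nat_lit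 5) (nat_lit 58) (nat_lit 5) (nat_lit 297) (nat_lit 279) (nat_lit 144)))))) (XT.nd (nat_lit 312) (nat_lit 608) (nat_lit 0) (XT.nd (nat_lit 156) (nat_lit 228) (nat_lit 0) (XT.nd (nat_lit 78) (nat_lit 304) (nat_lit 0) (XT.lf (nat_lit 0) (nat_lit 21855060267) (nat_lit 380) (nat_lit 12403524024) (nat_lit 76) (nat_lit 11951622826) (nat_lit 53) (nat_lit 5) (nat_lit 58) (nat_lit 5) (nat_lit 54) (nat_lit 5) (nat_lit 298) (nat_lit 279) (nat_lit 143)) (XT.lf (nat_lit 0) (nat_lit 8833989092) (nat_lit 304) (nat_lit 18595346580) (nat_lit 380) (nat_lit 20196600859) (nat_lit 49) (nat_lit 5) (nat_lit 53) (nat_lit 5) (nat_lit 54) (nat_lit 5) (nat_lit 299) (nat_lit 279) (nat_lit 142))) (XT.nd (nat_lit 78) (nat_lit 228) (nat_lit 0) (XT.lf (nat_lit 0) (nat_lit 31561460269) (nat_lit 304) (nat_lit 1928678910) (nat_lit 380) (nat_lit 15611928751) (nat_lit 49) (nat_lit 5) (nat_lit 53) (nat_lit 5) (nat_lit 54)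 (nat_lit 5) (nat_lit 300) (nat_lit 279) (nat_lit 141)) (XT.lf (nat_lit 0) (nat_lit 4677364534) (nat_lit 228) (nat_lit 35490614265) (nat_lit 304) (nat_lit 10468333239) (nat_lit 46) (nat_lit 5) (nat_lit 49) (nat_lit 5) (nat_lit 50) (nat_lit 5) (nat_lit 301) (nat_lit 279) (nat_lit 140)))) (XT.nd (nat_lit 156) (nat_lit 532) (nat_lit 0) (XT.nd (nat_lit 78) (nat_lit 76) (nat_lit 0) (XT.lf (nat_lit 0) (nat_lit 28580055818) (nat_lit 228) (nat_lit 18925741389) (nat_lit 304) (nat_lit 4725172455) (nat_lit 46) (nat_lit 5) (nat_lit 49) (nat_lit 5) (nat_lit 50) (nat_lit 5) (nat_lit 302) (nat_lit 279) (nat_lit 139)) (XT.lf (nat_lit 0) (nat_lit 1261355286) (nat_lit 304) (nat_lit 250295642) (nat_lit 76) (nat_lit 52392796428) (nat_lit 45) (nat_lit 5) (nat_lit 49) (nat_lit 5) (nat_lit 46) (nat_lit 5) (nat_lit 303) (nat_lit 279) (nat_lit 138))) (XT.nd (nat_lit 78) (nat_lit 228) (nat_lit 0) (XT.lf (nat_lit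 0) (nat_lit 8047016232) (nat_lit 380) (nat_lit 30865756505) (nat_lit 76) (nat_lit 16712027809) (nat_lit 41) (nat_lit 5) (nat_lit 46) (nat_lit 5) (nat_lit 42) (nat_lit 5) (nat_lit 304) (nat_lit 279) (nat_lit 137)) (XT.nd (nat_lit 78) (nat_lit 228) (nat_lit 0) (XT.lf (nat_lit 0) (nat_lit 15199176889) (nat_lit 380) (nat_lit 6430647567) (nat_lit 76) (nat_lit 35799990755) (nat_lit 41) (nat_lit 5) (nat_lit 46) (nat_lit 5) (nat_lit 42) (nat_lit 5) (nat_lit 305) (nat_lit 279) (nat_lit 136)) (XT.lf (nat_lit 0) (nat_lit 19859582854) (nat_lit 228) (nat_lit 3157642787) (nat_lit 304) (nat_lit 36292445394) (nat_lit 38) (nat_lit 5) (nat_lit 41) (nat_lit 5) (nat_lit 42) (nat_lit 5) (nat_lit 306) (nat_lit 279) (nat_lit 135))))))))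
noncomputable def xc217 : XT := (XT.nd (nat_lit 1326) (nat_lit 684) (nat_lit 0) (XT.nd (nat_lit 624) (nat_lit 684) (nat_lit 0) (XT.nd (nat_lit 312) (nat_lit 304) (nat_lit 0) (XT.nd (nat_lit 156) (nat_lit 152) (nat_lit 0) (XT.nd (nat_lit 78) (nat_lit 228) (nat_lit 0) (XT.lf (nat_lit 0) (nat_lit 31588650049) (nat_lit 304) (nat_lit 13848111613) (nat_lit 76) (nat_lit 15828638544) (nat_lit 38) (nat_lit 5) (nat_lit 42) (nat_lit 5) (nat_lit 39) (nat_lit 5) (nat_lit 307) (nat_lit 279) (nat_lit 134)) (XT.lf (nat_lit 0) (nat_lit 13409175272) (nat_lit 228) (nat_lit 27438931509) (nat_lit 304) (nat_lit 22457840017) (nat_lit 35) (nat_lit 5) (nat_lit 38) (nat_lit 5) (nat_lit 39) (nat_lit 5) (nat_lit 308) (nat_lit 279) (nat_lit 133))) (XT.nd (nat_lit 78) (nat_lit 152) (nat_lit 0) (XT.lf (nat_lit 0) (nat_lit 42507935948) (nat_lit 228) (nat_lit 8295511692) (nat_lit 304) (nat_lit 14633431341) (nat_lit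 35) (nat_lit 5) (nat_lit 38) (nat_lit 5) (nat_lit 39) (nat_lit 5) (nat_lit 309) (nat_lit 279) (nat_lit 132)) (XT.lf (nat_lit 0) (nat_lit 5372794660) (nat_lit 152) (nat_lit 56150411053) (nat_lit 228) (nat_lit 6137823194) (nat_lit 33) (nat_lit 5) (nat_lit 35) (nat_lit 5) (nat_lit 36) (nat_lit 5) (nat_lit 310) (nat_lit 279) (nat_lit 131)))) (XT.nd (nat_lit 156) (nat_lit 228) (nat_lit 0) (XT.nd (nat_lit 78) (nat_lit 0) (nat_lit 0) (XT.lf (nat_lit 0) (nat_lit 3222644580) (nat_lit 228) (nat_lit 34279266105) (nat_lit 76) (nat_lit 32465849833) (nat_lit 32) (nat_lit 5) (nat_lit 35) (nat_lit 5) (nat_lit 33) (nat_lit 5) (nat_lit 311) (nat_lit 279) (nat_lit 130)) (XT.lf (nat_lit 0) (nat_lit 12843405748) (nat_lit 228) (nat_lit 4972521377) (nat_lit 76) (nat_lit 54568946673) (nat_lit 32) (nat_lit 5) (nat_lit 35) (nat_lit 5) (nat_lit 33) (nat_lit 5) (nat_lit 312) (nat_lit 279) (nat_lit 129))) (XT.nd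 (nat_lit 78) (nat_lit 0) (nat_lit 0) (XT.lf (nat_lit 0) (nat_lit 23411282815) (nat_lit 304) (nat_lit 48302895621) (nat_lit 76) (nat_lit 3185363412) (nat_lit 29) (nat_lit 5) (nat_lit 33) (nat_lit 5) (nat_lit 30) (nat_lit 5) (nat_lit 313) (nat_lit 279) (nat_lit 128)) (XT.lf (nat_lit 0) (nat_lit 34883848536) (nat_lit 304) (nat_lit 17914254854) (nat_lit 76) (nat_lit 24723028024) (nat_lit 29) (nat_lit 5) (nat_lit 33) (nat_lit 5) (nat_lit 30) (nat_lit 5) (nat_lit 314) (nat_lit 279) (nat_lit 127))))) (XT.nd (nat_lit 312) (nat_lit 304) (nat_lit 0) (XT.nd (nat_lit 156) (nat_lit 228) (nat_lit 0) (XT.nd (nat_lit 78) (nat_lit 0) (nat_lit 0) (XT.lf (nat_lit 0) (nat_lit 14454564593) (nat_lit 152) (nat_lit 32699856918) (nat_lit 228) (nat_lit 33108162718) (nat_lit 27) (nat_lit 5) (nat_lit 29) (nat_lit 5) (nat_lit 30) (nat_lit 5) (nat_lit 315) (nat_lit 279) (nat_lit 126)) (XT.lf (nat_lit 0) (nat_lit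 49061908276) (nat_lit 152) (nat_lit 11278736888) (nat_lit 228) (nat_lit 22785361009) (nat_lit 27) (nat_lit 5) (nat_lit 29) (nat_lit 5) (nat_lit 30) (nat_lit 5) (nat_lit 316) (nat_lit 279) (nat_lit 125))) (XT.nd (nat_lit 78) (nat_lit 228) (nat_lit 0) (XT.lf (nat_lit 0) (nat_lit 74360040038) (nat_lit 228) (nat_lit 909877803) (nat_lit 76) (nat_lit 10853990836) (nat_lit 27) (nat_lit 5) (nat_lit 30) (nat_lit 5) (nat_lit 28) (nat_lit 5) (nat_lit 317) (nat_lit 279) (nat_lit 124)) (XT.lf (nat_lit 0) (nat_lit 554284784) (nat_lit 228) (nat_lit 54414069460) (nat_lit 76) (nat_lit 34266530457) (nat_lit 24) (nat_lit 5) (nat_lit 27) (nat_lit 5) (nat_lit 25) (nat_lit 5) (nat_lit 318) (nat_lit 279) (nat_lit 123)))) (XT.nd (nat_lit 156) (nat_lit 152) (nat_lit 0) (XT.nd (nat_lit 78) (nat_lit 152) (nat_lit 0) (XT.lf (nat_lit 0) (nat_lit 13107516869) (nat_lit 228) (nat_lit 20325859832) (nat_lit 76) (nat_lit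 59057666735) (nat_lit 24) (nat_lit 5) (nat_lit 27) (nat_lit 5) (nat_lit 25) (nat_lit 5) (nat_lit 319) (nat_lit 279) (nat_lit 122)) (XT.lf (nat_lit 0) (nat_lit 15976439751) (nat_lit 152) (nat_lit 10560314743) (nat_lit 228) (nat_lit 69360840447) (nat_lit 22) (nat_lit 5) (nat_lit 24) (nat_lit 5) (nat_lit 25) (nat_lit 5) (nat_lit 320) (nat_lit 279) (nat_lit 121))) (XT.nd (nat_lit 78) (nat_lit 152) (nat_lit 0) (XT.lf (nat_lit 0) (nat_lit 41196341924) (nat_lit 228) (nat_lit 44875161357) (nat_lit 76) (nat_lit 13375028274) (nat_lit 22) (nat_lit 5) (nat_lit 25) (nat_lit 5) (nat_lit 23) (nat_lit 5) (nat_lit 321) (nat_lit 279) (nat_lit 120)) (XT.nd (nat_lit 78) (nat_lit 152) (nat_lit 0) (XT.lf (nat_lit 0) (nat_lit 56761004303) (nat_lit 228) (nat_lit 8251593283) (nat_lit 76) (nat_lit 38151714475) (nat_lit 22) (nat_lit 5) (nat_lit 25) (nat_lit 5) (nat_lit 23) (nat_lit 5) (nat_lit 322) (nat_lit 279)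 (nat_lit 119)) (XT.lf (nat_lit 0) (nat_lit 31200226197) (nat_lit 152) (nat_lit 42389821014) (nat_lit 228) (nat_lit 33453628765) (nat_lit 20) (nat_lit 5) (nat_lit 22) (nat_lit 5) (nat_lit 23) (nat_lit 5) (nat_lit 323) (nat_lit 279) (nat_lit 118))))))) (XT.nd (nat_lit 702) (nat_lit 304) (nat_lit 0) (XT.nd (nat_lit 312) (nat_lit 228) (nat_lit 0) (XT.nd (nat_lit 156) (nat_lit 76) (nat_lit 0) (XT.nd (nat_lit 78) (nat_lit 76) (nat_lit 0) (XT.lf (nat_lit 0) (nat_lit 72909608918) (nat_lit 152) (nat_lit 18489725480) (nat_lit 228) (nat_lit 19710735750) (nat_lit 20) (nat_lit 5) (nat_lit 22) (nat_lit 5) (nat_lit 23) (nat_lit 5) (nat_lit 324) (nat_lit 279) (nat_lit 117)) (XT.lf (nat_lit 0) (nat_lit 1260418055) (nat_lit 76) (nat_lit 108960559524) (nat_lit 152) (nat_lit 5152713458) (nat_lit 19) (nat_lit 5) (nat_lit 20) (nat_lit 5) (nat_lit 21) (nat_lit 4) (nat_lit 325) (nat_lit 279) (nat_lit 116)))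 (XT.nd (nat_lit 78) (nat_lit 0) (nat_lit 0) (XT.lf (nat_lit 0) (nat_lit 10768632547) (nat_lit 152) (nat_lit 76270973775) (nat_lit 76) (nat_lit 32754990268) (nat_lit 18) (nat_lit 5) (nat_lit 20) (nat_lit 5) (nat_lit 19) (nat_lit 5) (nat_lit 326) (nat_lit 279) (nat_lit 115)) (XT.lf (nat_lit 0) (nat_lit 27312013678) (nat_lit 152) (nat_lit 36622439218) (nat_lit 76) (nat_lit 60497915726) (nat_lit 18) (nat_lit 5) (nat_lit 20) (nat_lit 5) (nat_lit 19) (nat_lit 5) (nat_lit 327) (nat_lit 279) (nat_lit 114)))) (XT.nd (nat_lit 156) (nat_lit 76) (nat_lit 0) (XT.nd (nat_lit 78) (nat_lit 0) (nat_lit 0) (XT.lf (nat_lit 0) (nat_lit 5172740252) (nat_lit 152) (nat_lit 39589758664) (nat_lit 228) (nat_lit 84535534892) (nat_lit 16) (nat_lit 5) (nat_lit 18) (nat_lit 5) (nat_lit 19) (nat_lit 5) (nat_lit 328) (nat_lit 279) (nat_lit 113)) (XT.lf (nat_lit 0) (nat_lit 50327806925) (nat_lit 152) (nat_lit 13377113020)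 (nat_lit 228) (nat_lit 70671092978) (nat_lit 16) (nat_lit 5) (nat_lit 18) (nat_lit 5) (nat_lit 19) (nat_lit 5) (nat_lit 329) (nat_lit 279) (nat_lit 112))) (XT.nd (nat_lit 78) (nat_lit 76) (nat_lit 0) (XT.lf (nat_lit 0) (nat_lit 83814546914) (nat_lit 228) (nat_lit 42189414639) (nat_lit 76) (nat_lit 13692926384) (nat_lit 16) (nat_lit 5) (nat_lit 19) (nat_lit 5) (nat_lit 17) (nat_lit 4) (nat_lit 330) (nat_lit 279) (nat_lit 111)) (XT.nd (nat_lit 78) (nat_lit 0) (nat_lit 0) (XT.lf (nat_lit 0) (nat_lit 1592770039) (nat_lit 76) (nat_lit 103580310310) (nat_lit 152) (nat_lit 40098556225) (nat_lit 15) (nat_lit 5) (nat_lit 16) (nat_lit 5) (nat_lit 17) (nat_lit 4) (nat_lit 331) (nat_lit 279) (nat_lit 110)) (XT.lf (nat_lit 0) (nat_lit 49027577065) (nat_lit 76) (nat_lit 79285738471) (nat_lit 152) (nat_lit 22776119428) (nat_lit 15) (nat_lit 5) (nat_lit 16) (nat_lit 5) (nat_lit 17) (nat_lit 4) (nat_lit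 332) (nat_lit 279) (nat_lit 109)))))) (XT.nd (nat_lit 312) (nat_lit 76) (nat_lit 0) (XT.nd (nat_lit 156) (nat_lit 152) (nat_lit 0) (XT.nd (nat_lit 78) (nat_lit 76) (nat_lit 0) (XT.lf (nat_lit 0) (nat_lit 98832973874) (nat_lit 76) (nat_lit 53776899970) (nat_lit 152) (nat_lit 4588284888) (nat_lit 15) (nat_lit 5) (nat_lit 16) (nat_lit 5) (nat_lit 17) (nat_lit 4) (nat_lit 333) (nat_lit 279) (nat_lit 108)) (XT.lf (nat_lit 0) (nat_lit 14043897102) (nat_lit 152) (nat_lit 12711322181) (nat_lit 76) (nat_lit 136845807449) (nat_lit 14) (nat_lit 5) (nat_lit 16) (nat_lit 5) (nat_lit 15) (nat_lit 5) (nat_lit 334) (nat_lit 279) (nat_lit 107))) (XT.nd (nat_lit 78) (nat_lit 0) (nat_lit 0) (XT.lf (nat_lit 0) (nat_lit 34055549064) (nat_lit 228) (nat_lit 134016605149) (nat_lit 76) (nat_lit 2218021048) (nat_lit 12) (nat_lit 5) (nat_lit 15) (nat_lit 5) (nat_lit 13) (nat_lit 4) (nat_lit 335) (nat_lit 279)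 (nat_lit 106)) (XT.lf (nat_lit 0) (nat_lit 55724566718) (nat_lit 228) (nat_lit 89597214977) (nat_lit 76) (nat_lit 31959161211) (nat_lit 12) (nat_lit 5) (nat_lit 15) (nat_lit 5) (nat_lit 13) (nat_lit 4) (nat_lit 336) (nat_lit 279) (nat_lit 105)))) (XT.nd (nat_lit 156) (nat_lit 0) (nat_lit 0) (XT.nd (nat_lit 78) (nat_lit 76) (nat_lit 0) (XT.lf (nat_lit 0) (nat_lit 78476436676) (nat_lit 228) (nat_lit 42957877770) (nat_lit 76) (nat_lit 63186965218) (nat_lit 12) (nat_lit 5) (nat_lit 15) (nat_lit 5) (nat_lit 13) (nat_lit 4) (nat_lit 337) (nat_lit 279) (nat_lit 104)) (XT.lf (nat_lit 0) (nat_lit 6211251346) (nat_lit 76) (nat_lit 96251053752) (nat_lit 152) (nat_lit 89861508679) (nat_lit 11) (nat_lit 5) (nat_lit 12) (nat_lit 5) (nat_lit 13) (nat_lit 4) (nat_lit 338) (nat_lit 279) (nat_lit 103))) (XT.nd (nat_lit 78) (nat_lit 0) (nat_lit 0) (XT.lf (nat_lit 0) (nat_lit 59329279355) (nat_lit 76)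 (nat_lit 69045142147) (nat_lit 152) (nat_lit 72000706093) (nat_lit 11) (nat_lit 5) (nat_lit 12) (nat_lit 5) (nat_lit 13) (nat_lit 4) (nat_lit 339) (nat_lit 279) (nat_lit 102)) (XT.nd (nat_lit 78) (nat_lit 0) (nat_lit 0) (XT.lf (nat_lit 0) (nat_lit 115102296309) (nat_lit 76) (nat_lit 40479316097) (nat_lit 152) (nat_lit 53247421958) (nat_lit 11) (nat_lit 5) (nat_lit 12) (nat_lit 5) (nat_lit 13) (nat_lit 4) (nat_lit 340) (nat_lit 279) (nat_lit 101)) (XT.lf (nat_lit 0) (nat_lit 173663095106) (nat_lit 76) (nat_lit 10485561730) (nat_lit 152) (nat_lit 33557005597) (nat_lit 11) (nat_lit 5) (nat_lit 12) (nat_lit 5) (nat_lit 13) (nat_lit 4) (nat_lit 341) (nat_lit 279) (nat_lit 100))))))))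
noncomputable def xc218 : XT := (XT.nd (nat_lit 33618) (nat_lit 0) (nat_lit 1976) (XT.nd (nat_lit 32916) (nat_lit 0) (nat_lit 4408) (XT.nd (nat_lit 312) (nat_lit 0) (nat_lit 0) (XT.nd (nat_lit 156) (nat_lit 0) (nat_lit 0) (XT.nd (nat_lit 78) (nat_lit 76) (nat_lit 0) (XT.lf (nat_lit 0) (nat_lit 8054776241) (nat_lit 76) (nat_lit 206542539442) (nat_lit 76) (nat_lit 12406143739) (nat_lit 10) (nat_lit 4) (nat_lit 11) (nat_lit 5) (nat_lit 11) (nat_lit 4) (nat_lit 342) (nat_lit 279) (nat_lit 99)) (XT.lf (nat_lit 0) (nat_lit 10418046329) (nat_lit 152) (nat_lit 172780819394) (nat_lit 76) (nat_lit 53513153138) (nat_lit 9) (nat_lit 5) (nat_lit 11) (nat_lit 5) (nat_lit 10) (nat_lit 4) (nat_lit 343) (nat_lit 279) (nat_lit 98))) (XT.nd (nat_lit 78) (nat_lit 0) (nat_lit 0) (XT.lf (nat_lit 0) (nat_lit 33966055714) (nat_lit 152) (nat_lit 124508751266) (nat_lit 76) (nat_lit 88421053984) (nat_lit 9) (nat_lit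 5) (nat_lit 11) (nat_lit 5) (nat_lit 10) (nat_lit 4) (nat_lit 344) (nat_lit 279) (nat_lit 97)) (XT.lf (nat_lit 0) (nat_lit 58691025182) (nat_lit 152) (nat_lit 73823850630) (nat_lit 76) (nat_lit 125074041898) (nat_lit 9) (nat_lit 5) (nat_lit 11) (nat_lit 5) (nat_lit 10) (nat_lit 4) (nat_lit 345) (nat_lit 279) (nat_lit 96)))) (XT.nd (nat_lit 32448) (nat_lit 0) (nat_lit 4788) (XT.nd (nat_lit 32370) (nat_lit 0) (nat_lit 4788) (XT.lf (nat_lit 0) (nat_lit 84651823708) (nat_lit 152) (nat_lit 20605439150) (nat_lit 76) (nat_lit 163559385898) (nat_lit 9) (nat_lit 5) (nat_lit 11) (nat_lit 5) (nat_lit 10) (nat_lit 4) (nat_lit 346) (nat_lit 279) (nat_lit 95)) (XT.lf (nat_lit 0) (nat_lit 3130436657) (nat_lit 0) (nat_lit 3130436657) (nat_lit 684) (nat_lit 8213851985) (nat_lit 72) (nat_lit 5) (nat_lit 72) (nat_lit 3) (nat_lit 81) (nat_lit 3) (nat_lit 280) (nat_lit 280) (nat_lit 160))) (XT.nd (nat_lit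 78) (nat_lit 0) (nat_lit 0) (XT.lf (nat_lit 0) (nat_lit 13006825546) (nat_lit 684) (nat_lit 10436935305) (nat_lit 760) (nat_lit 6220589984) (nat_lit 72) (nat_lit 5) (nat_lit 81) (nat_lit 3) (nat_lit 82) (nat_lit 5) (nat_lit 281) (nat_lit 280) (nat_lit 159)) (XT.lf (nat_lit 76) (nat_lit 2398854564) (nat_lit 0) (nat_lit 11252839885) (nat_lit 760) (nat_lit 16756539824) (nat_lit 73) (nat_lit 5) (nat_lit 72) (nat_lit 5) (nat_lit 82) (nat_lit 5) (nat_lit 282) (nat_lit 280) (nat_lit 158))))) (XT.nd (nat_lit 312) (nat_lit 456) (nat_lit 0) (XT.nd (nat_lit 156) (nat_lit 0) (nat_lit 0) (XT.nd (nat_lit 78) (nat_lit 0) (nat_lit 0) (XT.lf (nat_lit 0) (nat_lit 14528273770) (nat_lit 684) (nat_lit 14971549446) (nat_lit 760) (nat_lit 1679529602) (nat_lit 73) (nat_lit 5) (nat_lit 82) (nat_lit 5) (nat_lit 83) (nat_lit 5) (nat_lit 283) (nat_lit 280) (nat_lit 157)) (XT.lf (nat_lit 0) (nat_lit 15629013899)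 (nat_lit 684) (nat_lit 1468962956) (nat_lit 760) (nat_lit 14882047445) (nat_lit 73) (nat_lit 5) (nat_lit 82) (nat_lit 5) (nat_lit 83) (nat_lit 5) (nat_lit 284) (nat_lit 280) (nat_lit 156))) (XT.nd (nat_lit 78) (nat_lit 0) (nat_lit 76) (XT.lf (nat_lit 76) (nat_lit 13126342060) (nat_lit 0) (nat_lit 3859444204) (nat_lit 760) (nat_lit 15824906284) (nat_lit 74) (nat_lit 5) (nat_lit 73) (nat_lit 5) (nat_lit 83) (nat_lit 5) (nat_lit 285) (nat_lit 280) (nat_lit 155)) (XT.lf (nat_lit 0) (nat_lit 18588676452) (nat_lit 684) (nat_lit 5339132340) (nat_lit 760) (nat_lit 9746183796) (nat_lit 74) (nat_lit 5) (nat_lit 83) (nat_lit 5) (nat_lit 84) (nat_lit 5) (nat_lit 286) (nat_lit 280) (nat_lit 154)))) (XT.nd (nat_lit 156) (nat_lit 532) (nat_lit 0) (XT.nd (nat_lit 78) (nat_lit 0) (nat_lit 76) (XT.lf (nat_lit 76) (nat_lit 9976809542) (nat_lit 0) (nat_lit 10510342273) (nat_lit 760) (nat_lit 14082545529)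 (nat_lit 75) (nat_lit 5) (nat_lit 74) (nat_lit 5) (nat_lit 84) (nat_lit 5) (nat_lit 287) (nat_lit 280) (nat_lit 153)) (XT.lf (nat_lit 0) (nat_lit 22624867501) (nat_lit 684) (nat_lit 9321844795) (nat_lit 760) (nat_lit 3556270404) (nat_lit 75) (nat_lit 5) (nat_lit 84) (nat_lit 5) (nat_lit 85) (nat_lit 5) (nat_lit 288) (nat_lit 280) (nat_lit 152))) (XT.nd (nat_lit 78) (nat_lit 608) (nat_lit 0) (XT.lf (nat_lit 76) (nat_lit 6754005987) (nat_lit 0) (nat_lit 18389927771) (nat_lit 760) (nat_lit 11325285985) (nat_lit 76) (nat_lit 5) (nat_lit 75) (nat_lit 5) (nat_lit 85) (nat_lit 5) (nat_lit 289) (nat_lit 280) (nat_lit 151)) (XT.nd (nat_lit 78) (nat_lit 608) (nat_lit 0) (XT.lf (nat_lit 76) (nat_lit 23954710821) (nat_lit 0) (nat_lit 3988943859) (nat_lit 760) (nat_lit 9532389041) (nat_lit 76) (nat_lit 5) (nat_lit 75) (nat_lit 5) (nat_lit 85) (nat_lit 5) (nat_lit 290) (nat_lit 280) (nat_lit 150))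 (XT.lf (nat_lit 0) (nat_lit 3415125382) (nat_lit 684) (nat_lit 27692350213) (nat_lit 760) (nat_lit 7414537272) (nat_lit 67) (nat_lit 5) (nat_lit 76) (nat_lit 5) (nat_lit 77) (nat_lit 5) (nat_lit 291) (nat_lit 280) (nat_lit 149))))))) (XT.nd (nat_lit 702) (nat_lit 1064) (nat_lit 0) (XT.nd (nat_lit 312) (nat_lit 988) (nat_lit 0) (XT.nd (nat_lit 156) (nat_lit 380) (nat_lit 0) (XT.nd (nat_lit 78) (nat_lit 0) (nat_lit 0) (XT.lf (nat_lit 0) (nat_lit 21597705426) (nat_lit 684) (nat_lit 13122204457) (nat_lit 760) (nat_lit 4885858677) (nat_lit 67) (nat_lit 5) (nat_lit 76) (nat_lit 5) (nat_lit 77) (nat_lit 5) (nat_lit 292) (nat_lit 280) (nat_lit 148)) (XT.lf (nat_lit 0) (nat_lit 38544183822) (nat_lit 760) (nat_lit 90883971) (nat_lit 76) (nat_lit 2107092116) (nat_lit 67) (nat_lit 5) (nat_lit 77) (nat_lit 5) (nat_lit 68) (nat_lit 5) (nat_lit 293) (nat_lit 280) (nat_lit 147))) (XT.nd (nat_lit 78)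 (nat_lit 0) (nat_lit 0) (XT.lf (nat_lit 0) (nat_lit 1123634901) (nat_lit 380) (nat_lit 22811556612) (nat_lit 76) (nat_lit 17973734122) (nat_lit 62) (nat_lit 5) (nat_lit 67) (nat_lit 5) (nat_lit 63) (nat_lit 5) (nat_lit 294) (nat_lit 280) (nat_lit 146)) (XT.lf (nat_lit 0) (nat_lit 4536431209) (nat_lit 380) (nat_lit 3924355500) (nat_lit 76) (nat_lit 34671500332) (nat_lit 62) (nat_lit 5) (nat_lit 67) (nat_lit 5) (nat_lit 63) (nat_lit 5) (nat_lit 295) (nat_lit 280) (nat_lit 145)))) (XT.nd (nat_lit 156) (nat_lit 608) (nat_lit 0) (XT.nd (nat_lit 78) (nat_lit 0) (nat_lit 0) (XT.lf (nat_lit 0) (nat_lit 8499714925) (nat_lit 456) (nat_lit 28099233730) (nat_lit 76) (nat_lit 7798882698) (nat_lit 57) (nat_lit 5) (nat_lit 63) (nat_lit 5) (nat_lit 58) (nat_lit 5) (nat_lit 296) (nat_lit 280) (nat_lit 144)) (XT.lf (nat_lit 0) (nat_lit 12865025633) (nat_lit 456) (nat_lit 8196679636) (nat_lit 76) (nat_lit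 24654761341) (nat_lit 57) (nat_lit 5) (nat_lit 63) (nat_lit 5) (nat_lit 58) (nat_lit 5) (nat_lit 297) (nat_lit 280) (nat_lit 143))) (XT.nd (nat_lit 78) (nat_lit 304) (nat_lit 0) (XT.lf (nat_lit 0) (nat_lit 13118492988) (nat_lit 304) (nat_lit 4532650092) (nat_lit 380) (nat_lit 29439770031) (nat_lit 53) (nat_lit 5) (nat_lit 57) (nat_lit 5) (nat_lit 58) (nat_lit 5) (nat_lit 298) (nat_lit 280) (nat_lit 142)) (XT.nd (nat_lit 78) (nat_lit 304) (nat_lit 0) (XT.lf (nat_lit 0) (nat_lit 23015651840) (nat_lit 380) (nat_lit 12948081797) (nat_lit 76) (nat_lit 12553400260) (nat_lit 53) (nat_lit 5) (nat_lit 58) (nat_lit 5) (nat_lit 54) (nat_lit 5) (nat_lit 299) (nat_lit 280) (nat_lit 141)) (XT.lf (nat_lit 0) (nat_lit 9350087324) (nat_lit 304) (nat_lit 19516484858) (nat_lit 380) (nat_lit 21137190168) (nat_lit 49) (nat_lit 5) (nat_lit 53) (nat_lit 5) (nat_lit 54) (nat_lit 5) (nat_lit 300) (nat_lit 280)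 (nat_lit 140)))))) (XT.nd (nat_lit 312) (nat_lit 760) (nat_lit 0) (XT.nd (nat_lit 156) (nat_lit 76) (nat_lit 0) (XT.nd (nat_lit 78) (nat_lit 228) (nat_lit 0) (XT.lf (nat_lit 0) (nat_lit 33210389261) (nat_lit 304) (nat_lit 2016894712) (nat_lit 380) (nat_lit 16326581633) (nat_lit 49) (nat_lit 5) (nat_lit 53) (nat_lit 5) (nat_lit 54) (nat_lit 5) (nat_lit 301) (nat_lit 280) (nat_lit 139)) (XT.lf (nat_lit 0) (nat_lit 4984072065) (nat_lit 228) (nat_lit 37253220178) (nat_lit 304) (nat_lit 10927624119) (nat_lit 46) (nat_lit 5) (nat_lit 49) (nat_lit 5) (nat_lit 50) (nat_lit 5) (nat_lit 302) (nat_lit 280) (nat_lit 138))) (XT.nd (nat_lit 78) (nat_lit 76) (nat_lit 0) (XT.lf (nat_lit 0) (nat_lit 30078429375) (nat_lit 228) (nat_lit 19860671506) (nat_lit 304) (nat_lit 4900358905) (nat_lit 46) (nat_lit 5) (nat_lit 49) (nat_lit 5) (nat_lit 50) (nat_lit 5) (nat_lit 303) (nat_lit 280) (nat_lit 137)) (XT.lf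 (nat_lit 0) (nat_lit 1380725415) (nat_lit 304) (nat_lit 194738407) (nat_lit 76) (nat_lit 55021247774) (nat_lit 45) (nat_lit 5) (nat_lit 49) (nat_lit 5) (nat_lit 46) (nat_lit 5) (nat_lit 304) (nat_lit 280) (nat_lit 136)))) (XT.nd (nat_lit 156) (nat_lit 456) (nat_lit 0) (XT.nd (nat_lit 78) (nat_lit 0) (nat_lit 0) (XT.lf (nat_lit 0) (nat_lit 8504226144) (nat_lit 380) (nat_lit 32339392850) (nat_lit 76) (nat_lit 17559542423) (nat_lit 41) (nat_lit 5) (nat_lit 46) (nat_lit 5) (nat_lit 42) (nat_lit 5) (nat_lit 305) (nat_lit 280) (nat_lit 135)) (XT.lf (nat_lit 0) (nat_lit 16011382496) (nat_lit 380) (nat_lit 6685845202) (nat_lit 76) (nat_lit 37601336221) (nat_lit 41) (nat_lit 5) (nat_lit 46) (nat_lit 5) (nat_lit 42) (nat_lit 5) (nat_lit 306) (nat_lit 280) (nat_lit 134))) (XT.nd (nat_lit 78) (nat_lit 228) (nat_lit 0) (XT.lf (nat_lit 0) (nat_lit 20917826825) (nat_lit 228) (nat_lit 3301037887) (nat_lit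 304) (nat_lit 38053627448) (nat_lit 38) (nat_lit 5) (nat_lit 41) (nat_lit 5) (nat_lit 42) (nat_lit 5) (nat_lit 307) (nat_lit 280) (nat_lit 133)) (XT.nd (nat_lit 78) (nat_lit 228) (nat_lit 0) (XT.lf (nat_lit 0) (nat_lit 33216657763) (nat_lit 304) (nat_lit 14476039983) (nat_lit 76) (nat_lit 16633426056) (nat_lit 38) (nat_lit 5) (nat_lit 42) (nat_lit 5) (nat_lit 39) (nat_lit 5) (nat_lit 308) (nat_lit 280) (nat_lit 132)) (XT.lf (nat_lit 0) (nat_lit 14143071292) (nat_lit 228) (nat_lit 28794693368) (nat_lit 304) (nat_lit 23531004799) (nat_lit 35) (nat_lit 5) (nat_lit 38) (nat_lit 5) (nat_lit 39) (nat_lit 5) (nat_lit 309) (nat_lit 280) (nat_lit 131))))))))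
noncomputable def xc219 : XT := (XT.nd (nat_lit 1404) (nat_lit 684) (nat_lit 0) (XT.nd (nat_lit 702) (nat_lit 684) (nat_lit 0) (XT.nd (nat_lit 312) (nat_lit 380) (nat_lit 0) (XT.nd (nat_lit 156) (nat_lit 76) (nat_lit 0) (XT.nd (nat_lit 78) (nat_lit 152) (nat_lit 0) (XT.lf (nat_lit 0) (nat_lit 44693749180) (nat_lit 228) (nat_lit 8694873261) (nat_lit 304) (nat_lit 15317743652) (nat_lit 35) (nat_lit 5) (nat_lit 38) (nat_lit 5) (nat_lit 39) (nat_lit 5) (nat_lit 310) (nat_lit 280) (nat_lit 130)) (XT.lf (nat_lit 0) (nat_lit 5702958419) (nat_lit 152) (nat_lit 58940456785) (nat_lit 228) (nat_lit 6398361054) (nat_lit 33) (nat_lit 5) (nat_lit 35) (nat_lit 5) (nat_lit 36) (nat_lit 5) (nat_lit 311) (nat_lit 280) (nat_lit 129))) (XT.nd (nat_lit 78) (nat_lit 0) (nat_lit 0) (XT.lf (nat_lit 0) (nat_lit 3426509861) (nat_lit 228) (nat_lit 35933129967) (nat_lit 76) (nat_lit 34104279878) (nat_lit 32) (nat_lit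 5) (nat_lit 35) (nat_lit 5) (nat_lit 33) (nat_lit 5) (nat_lit 312) (nat_lit 280) (nat_lit 128)) (XT.lf (nat_lit 0) (nat_lit 13526274181) (nat_lit 228) (nat_lit 5163909880) (nat_lit 76) (nat_lit 57311810724) (nat_lit 32) (nat_lit 5) (nat_lit 35) (nat_lit 5) (nat_lit 33) (nat_lit 5) (nat_lit 313) (nat_lit 280) (nat_lit 127)))) (XT.nd (nat_lit 156) (nat_lit 152) (nat_lit 0) (XT.nd (nat_lit 78) (nat_lit 0) (nat_lit 0) (XT.lf (nat_lit 0) (nat_lit 24621746663) (nat_lit 304) (nat_lit 50659920784) (nat_lit 76) (nat_lit 3360772893) (nat_lit 29) (nat_lit 5) (nat_lit 33) (nat_lit 5) (nat_lit 30) (nat_lit 5) (nat_lit 314) (nat_lit 280) (nat_lit 126)) (XT.lf (nat_lit 0) (nat_lit 36666040684) (nat_lit 304) (nat_lit 18754615580) (nat_lit 76) (nat_lit 25974552102) (nat_lit 29) (nat_lit 5) (nat_lit 33) (nat_lit 5) (nat_lit 30) (nat_lit 5) (nat_lit 315) (nat_lit 280) (nat_lit 125))) (XT.nd (nat_lit 78)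 (nat_lit 0) (nat_lit 0) (XT.lf (nat_lit 0) (nat_lit 15231752066) (nat_lit 152) (nat_lit 34317430993) (nat_lit 228) (nat_lit 34724602517) (nat_lit 27) (nat_lit 5) (nat_lit 29) (nat_lit 5) (nat_lit 30) (nat_lit 5) (nat_lit 316) (nat_lit 280) (nat_lit 124)) (XT.nd (nat_lit 78) (nat_lit 0) (nat_lit 0) (XT.lf (nat_lit 0) (nat_lit 51566869635) (nat_lit 152) (nat_lit 11826084426) (nat_lit 228) (nat_lit 23887516358) (nat_lit 27) (nat_lit 5) (nat_lit 29) (nat_lit 5) (nat_lit 30) (nat_lit 5) (nat_lit 317) (nat_lit 280) (nat_lit 123)) (XT.lf (nat_lit 0) (nat_lit 78111885511) (nat_lit 228) (nat_lit 904473596) (nat_lit 76) (nat_lit 11411984039) (nat_lit 27) (nat_lit 5) (nat_lit 30) (nat_lit 5) (nat_lit 28) (nat_lit 5) (nat_lit 318) (nat_lit 280) (nat_lit 122)))))) (XT.nd (nat_lit 312) (nat_lit 304) (nat_lit 0) (XT.nd (nat_lit 156) (nat_lit 152) (nat_lit 0) (XT.nd (nat_lit 78) (nat_lit 0) (nat_lit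 0) (XT.lf (nat_lit 0) (nat_lit 615617373) (nat_lit 228) (nat_lit 57083521804) (nat_lit 76) (nat_lit 35995746448) (nat_lit 24) (nat_lit 5) (nat_lit 27) (nat_lit 5) (nat_lit 25) (nat_lit 5) (nat_lit 319) (nat_lit 280) (nat_lit 121)) (XT.lf (nat_lit 0) (nat_lit 13794910188) (nat_lit 228) (nat_lit 21293342224) (nat_lit 76) (nat_lit 62025682899) (nat_lit 24) (nat_lit 5) (nat_lit 27) (nat_lit 5) (nat_lit 25) (nat_lit 5) (nat_lit 320) (nat_lit 280) (nat_lit 120))) (XT.nd (nat_lit 78) (nat_lit 0) (nat_lit 0) (XT.lf (nat_lit 0) (nat_lit 16823285070) (nat_lit 152) (nat_lit 11071549760) (nat_lit 228) (nat_lit 72796021132) (nat_lit 22) (nat_lit 5) (nat_lit 24) (nat_lit 5) (nat_lit 25) (nat_lit 5) (nat_lit 321) (nat_lit 280) (nat_lit 119)) (XT.lf (nat_lit 0) (nat_lit 43286163408) (nat_lit 228) (nat_lit 47071890794) (nat_lit 76) (nat_lit 14059249813) (nat_lit 22) (nat_lit 5) (nat_lit 25) (nat_lit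 5) (nat_lit 23) (nat_lit 5) (nat_lit 322) (nat_lit 280) (nat_lit 118)))) (XT.nd (nat_lit 156) (nat_lit 152) (nat_lit 0) (XT.nd (nat_lit 78) (nat_lit 152) (nat_lit 0) (XT.lf (nat_lit 0) (nat_lit 59627630125) (nat_lit 228) (nat_lit 8619383775) (nat_lit 76) (nat_lit 40074033652) (nat_lit 22) (nat_lit 5) (nat_lit 25) (nat_lit 5) (nat_lit 23) (nat_lit 5) (nat_lit 323) (nat_lit 280) (nat_lit 117)) (XT.lf (nat_lit 0) (nat_lit 32804304273) (nat_lit 152) (nat_lit 44493148168) (nat_lit 228) (nat_lit 35096963302) (nat_lit 20) (nat_lit 5) (nat_lit 22) (nat_lit 5) (nat_lit 23) (nat_lit 5) (nat_lit 324) (nat_lit 280) (nat_lit 116))) (XT.nd (nat_lit 78) (nat_lit 152) (nat_lit 0) (XT.lf (nat_lit 0) (nat_lit 76597057713) (nat_lit 152) (nat_lit 19398817566) (nat_lit 228) (nat_lit 20668323108) (nat_lit 20) (nat_lit 5) (nat_lit 22) (nat_lit 5) (nat_lit 23) (nat_lit 5) (nat_lit 325) (nat_lit 280) (nat_lit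 115)) (XT.nd (nat_lit 78) (nat_lit 76) (nat_lit 0) (XT.lf (nat_lit 0) (nat_lit 1365847014) (nat_lit 76) (nat_lit 114392379179) (nat_lit 152) (nat_lit 5382795066) (nat_lit 19) (nat_lit 5) (nat_lit 20) (nat_lit 5) (nat_lit 21) (nat_lit 4) (nat_lit 326) (nat_lit 280) (nat_lit 114)) (XT.lf (nat_lit 0) (nat_lit 11332466234) (nat_lit 152) (nat_lit 80043253711) (nat_lit 76) (nat_lit 34407296152) (nat_lit 18) (nat_lit 5) (nat_lit 20) (nat_lit 5) (nat_lit 19) (nat_lit 5) (nat_lit 327) (nat_lit 280) (nat_lit 113))))))) (XT.nd (nat_lit 702) (nat_lit 228) (nat_lit 0) (XT.nd (nat_lit 312) (nat_lit 304) (nat_lit 0) (XT.nd (nat_lit 156) (nat_lit 0) (nat_lit 0) (XT.nd (nat_lit 78) (nat_lit 152) (nat_lit 0) (XT.lf (nat_lit 0) (nat_lit 28701806799) (nat_lit 152) (nat_lit 38414257605) (nat_lit 76) (nat_lit 63536674722) (nat_lit 18) (nat_lit 5) (nat_lit 20) (nat_lit 5) (nat_lit 19) (nat_lit 5) (nat_lit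 328) (nat_lit 280) (nat_lit 112)) (XT.lf (nat_lit 0) (nat_lit 5470046910) (nat_lit 152) (nat_lit 41554221111) (nat_lit 228) (nat_lit 88737448789) (nat_lit 16) (nat_lit 5) (nat_lit 18) (nat_lit 5) (nat_lit 19) (nat_lit 5) (nat_lit 329) (nat_lit 280) (nat_lit 111))) (XT.nd (nat_lit 78) (nat_lit 0) (nat_lit 0) (XT.lf (nat_lit 0) (nat_lit 52881025505) (nat_lit 152) (nat_lit 14031658683) (nat_lit 228) (nat_lit 74180968725) (nat_lit 16) (nat_lit 5) (nat_lit 18) (nat_lit 5) (nat_lit 19) (nat_lit 5) (nat_lit 330) (nat_lit 280) (nat_lit 110)) (XT.lf (nat_lit 0) (nat_lit 88026932988) (nat_lit 228) (nat_lit 44262918256) (nat_lit 76) (nat_lit 14390765063) (nat_lit 16) (nat_lit 5) (nat_lit 19) (nat_lit 5) (nat_lit 17) (nat_lit 4) (nat_lit 331) (nat_lit 280) (nat_lit 109)))) (XT.nd (nat_lit 156) (nat_lit 228) (nat_lit 0) (XT.nd (nat_lit 78) (nat_lit 0) (nat_lit 0) (XT.lf (nat_lit 0) (nat_lit 1707795541)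 (nat_lit 76) (nat_lit 108745118676) (nat_lit 152) (nat_lit 42081213679) (nat_lit 15) (nat_lit 5) (nat_lit 16) (nat_lit 5) (nat_lit 17) (nat_lit 4) (nat_lit 332) (nat_lit 280) (nat_lit 108)) (XT.lf (nat_lit 0) (nat_lit 51512657824) (nat_lit 76) (nat_lit 83236494776) (nat_lit 152) (nat_lit 23893715536) (nat_lit 15) (nat_lit 5) (nat_lit 16) (nat_lit 5) (nat_lit 17) (nat_lit 4) (nat_lit 333) (nat_lit 280) (nat_lit 107))) (XT.nd (nat_lit 78) (nat_lit 228) (nat_lit 0) (XT.lf (nat_lit 0) (nat_lit 103806719620) (nat_lit 76) (nat_lit 56452858665) (nat_lit 152) (nat_lit 4797499262) (nat_lit 15) (nat_lit 5) (nat_lit 16) (nat_lit 5) (nat_lit 17) (nat_lit 4) (nat_lit 334) (nat_lit 280) (nat_lit 106)) (XT.nd (nat_lit 78) (nat_lit 152) (nat_lit 0) (XT.lf (nat_lit 0) (nat_lit 14764714194) (nat_lit 152) (nat_lit 13315678008) (nat_lit 76) (nat_lit 143699728829) (nat_lit 14) (nat_lit 5) (nat_lit 16) (nat_lit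 5) (nat_lit 15) (nat_lit 5) (nat_lit 335) (nat_lit 280) (nat_lit 105)) (XT.lf (nat_lit 0) (nat_lit 35776736437) (nat_lit 228) (nat_lit 140685988115) (nat_lit 76) (nat_lit 2341014286) (nat_lit 12) (nat_lit 5) (nat_lit 15) (nat_lit 5) (nat_lit 13) (nat_lit 4) (nat_lit 336) (nat_lit 280) (nat_lit 104)))))) (XT.nd (nat_lit 312) (nat_lit 152) (nat_lit 0) (XT.nd (nat_lit 156) (nat_lit 76) (nat_lit 0) (XT.nd (nat_lit 78) (nat_lit 0) (nat_lit 0) (XT.lf (nat_lit 0) (nat_lit 58528328310) (nat_lit 228) (nat_lit 94047125924) (nat_lit 76) (nat_lit 33568635638) (nat_lit 12) (nat_lit 5) (nat_lit 15) (nat_lit 5) (nat_lit 13) (nat_lit 4) (nat_lit 337) (nat_lit 280) (nat_lit 103)) (XT.lf (nat_lit 0) (nat_lit 82416956849) (nat_lit 228) (nat_lit 45077248037) (nat_lit 76) (nat_lit 66357281448) (nat_lit 12) (nat_lit 5) (nat_lit 15) (nat_lit 5) (nat_lit 13) (nat_lit 4) (nat_lit 338) (nat_lit 280) (nat_lit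 102))) (XT.nd (nat_lit 78) (nat_lit 0) (nat_lit 0) (XT.lf (nat_lit 0) (nat_lit 6549877476) (nat_lit 76) (nat_lit 101051884209) (nat_lit 152) (nat_lit 94337404385) (nat_lit 11) (nat_lit 5) (nat_lit 12) (nat_lit 5) (nat_lit 13) (nat_lit 4) (nat_lit 339) (nat_lit 280) (nat_lit 101)) (XT.lf (nat_lit 0) (nat_lit 62322470525) (nat_lit 76) (nat_lit 72486235225) (nat_lit 152) (nat_lit 75584379753) (nat_lit 11) (nat_lit 5) (nat_lit 12) (nat_lit 5) (nat_lit 13) (nat_lit 4) (nat_lit 340) (nat_lit 280) (nat_lit 100)))) (XT.nd (nat_lit 156) (nat_lit 152) (nat_lit 0) (XT.nd (nat_lit 78) (nat_lit 0) (nat_lit 0) (XT.lf (nat_lit 0) (nat_lit 120882865603) (nat_lit 76) (nat_lit 42492649492) (nat_lit 152) (nat_lit 55894210537) (nat_lit 11) (nat_lit 5) (nat_lit 12) (nat_lit 5) (nat_lit 13) (nat_lit 4) (nat_lit 341) (nat_lit 280) (nat_lit 99)) (XT.lf (nat_lit 0) (nat_lit 182370492221) (nat_lit 76) (nat_lit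 10999713712) (nat_lit 152) (nat_lit 35220015382) (nat_lit 11) (nat_lit 5) (nat_lit 12) (nat_lit 5) (nat_lit 13) (nat_lit 4) (nat_lit 342) (nat_lit 280) (nat_lit 98))) (XT.nd (nat_lit 78) (nat_lit 76) (nat_lit 0) (XT.lf (nat_lit 0) (nat_lit 8481923418) (nat_lit 76) (nat_lit 216859233755) (nat_lit 76) (nat_lit 13011758888) (nat_lit 10) (nat_lit 4) (nat_lit 11) (nat_lit 5) (nat_lit 11) (nat_lit 4) (nat_lit 343) (nat_lit 280) (nat_lit 97)) (XT.nd (nat_lit 78) (nat_lit 0) (nat_lit 0) (XT.lf (nat_lit 0) (nat_lit 10952493218) (nat_lit 152) (nat_lit 181396150541) (nat_lit 76) (nat_lit 56198282899) (nat_lit 9) (nat_lit 5) (nat_lit 11) (nat_lit 5) (nat_lit 10) (nat_lit 4) (nat_lit 344) (nat_lit 280) (nat_lit 96)) (XT.lf (nat_lit 0) (nat_lit 35677258093) (nat_lit 152) (nat_lit 130711608046) (nat_lit 76) (nat_lit 92851127736) (nat_lit 9) (nat_lit 5) (nat_lit 11) (nat_lit 5) (nat_lit 10) (nat_lit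 4) (nat_lit 345) (nat_lit 280) (nat_lit 95))))))))
noncomputable def xc220 : XT := (XT.nd (nat_lit 33696) (nat_lit 0) (nat_lit 1748) (XT.nd (nat_lit 32994) (nat_lit 0) (nat_lit 4028) (XT.nd (nat_lit 32682) (nat_lit 0) (nat_lit 4864) (XT.nd (nat_lit 32526) (nat_lit 0) (nat_lit 4788) (XT.nd (nat_lit 32448) (nat_lit 0) (nat_lit 4788) (XT.lf (nat_lit 0) (nat_lit 61637861768) (nat_lit 152) (nat_lit 77493537653) (nat_lit 76) (nat_lit 131336335471) (nat_lit 9) (nat_lit 5) (nat_lit 11) (nat_lit 5) (nat_lit 10) (nat_lit 4) (nat_lit 346) (nat_lit 280) (nat_lit 94)) (XT.lf (nat_lit 0) (nat_lit 3322250323) (nat_lit 0) (nat_lit 3322250323) (nat_lit 684) (nat_lit 8550201124) (nat_lit 72) (nat_lit 5) (nat_lit 72) (nat_lit 3) (nat_lit 81) (nat_lit 3) (nat_lit 281) (nat_lit 281) (nat_lit 158))) (XT.nd (nat_lit 78) (nat_lit 0) (nat_lit 0) (XT.lf (nat_lit 0) (nat_lit 13790562368) (nat_lit 684) (nat_lit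 10883348486) (nat_lit 760) (nat_lit 6466548485) (nat_lit 72) (nat_lit 5) (nat_lit 81) (nat_lit 3) (nat_lit 82) (nat_lit 5) (nat_lit 282) (nat_lit 281) (nat_lit 157)) (XT.lf (nat_lit 76) (nat_lit 2593014205) (nat_lit 0) (nat_lit 11869467076) (nat_lit 760) (nat_lit 17459336257) (nat_lit 73) (nat_lit 5) (nat_lit 72) (nat_lit 5) (nat_lit 82) (nat_lit 5) (nat_lit 283) (nat_lit 281) (nat_lit 156)))) (XT.nd (nat_lit 156) (nat_lit 0) (nat_lit 0) (XT.nd (nat_lit 78) (nat_lit 0) (nat_lit 0) (XT.lf (nat_lit 0) (nat_lit 15375981983) (nat_lit 684) (nat_lit 15642138135) (nat_lit 760) (nat_lit 1713737194) (nat_lit 73) (nat_lit 5) (nat_lit 82) (nat_lit 5) (nat_lit 83) (nat_lit 5) (nat_lit 284) (nat_lit 281) (nat_lit 155)) (XT.lf (nat_lit 0) (nat_lit 16525983188) (nat_lit 684) (nat_lit 1468136073) (nat_lit 760) (nat_lit 15578750875) (nat_lit 73) (nat_lit 5) (nat_lit 82) (nat_lit 5) (nat_lit 83) (nat_lit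 5) (nat_lit 285) (nat_lit 281) (nat_lit 154))) (XT.nd (nat_lit 78) (nat_lit 0) (nat_lit 76) (XT.lf (nat_lit 76) (nat_lit 13855736210) (nat_lit 0) (nat_lit 4090498014) (nat_lit 760) (nat_lit 16499073640) (nat_lit 74) (nat_lit 5) (nat_lit 73) (nat_lit 5) (nat_lit 83) (nat_lit 5) (nat_lit 286) (nat_lit 281) (nat_lit 153)) (XT.lf (nat_lit 0) (nat_lit 19623409403) (nat_lit 684) (nat_lit 5530288080) (nat_lit 760) (nat_lit 10198385604) (nat_lit 74) (nat_lit 5) (nat_lit 83) (nat_lit 5) (nat_lit 84) (nat_lit 5) (nat_lit 287) (nat_lit 281) (nat_lit 152))))) (XT.nd (nat_lit 312) (nat_lit 912) (nat_lit 0) (XT.nd (nat_lit 156) (nat_lit 0) (nat_lit 76) (XT.nd (nat_lit 78) (nat_lit 0) (nat_lit 76) (XT.lf (nat_lit 76) (nat_lit 10550228300) (nat_lit 0) (nat_lit 11062730366) (nat_lit 760) (nat_lit 14679823299) (nat_lit 75) (nat_lit 5) (nat_lit 74) (nat_lit 5) (nat_lit 84) (nat_lit 5) (nat_lit 288) (nat_lit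 281) (nat_lit 151)) (XT.lf (nat_lit 0) (nat_lit 23852329667) (nat_lit 684) (nat_lit 9711367456) (nat_lit 760) (nat_lit 3709311600) (nat_lit 75) (nat_lit 5) (nat_lit 84) (nat_lit 5) (nat_lit 85) (nat_lit 5) (nat_lit 289) (nat_lit 281) (nat_lit 150))) (XT.nd (nat_lit 78) (nat_lit 0) (nat_lit 0) (XT.lf (nat_lit 76) (nat_lit 7167040872) (nat_lit 0) (nat_lit 19326902701) (nat_lit 760) (nat_lit 11793799193) (nat_lit 76) (nat_lit 5) (nat_lit 75) (nat_lit 5) (nat_lit 85) (nat_lit 5) (nat_lit 290) (nat_lit 281) (nat_lit 149)) (XT.lf (nat_lit 76) (nat_lit 25224193586) (nat_lit 0) (nat_lit 4205037282) (nat_lit 760) (nat_lit 9915912215) (nat_lit 76) (nat_lit 5) (nat_lit 75) (nat_lit 5) (nat_lit 85) (nat_lit 5) (nat_lit 291) (nat_lit 281) (nat_lit 148)))) (XT.nd (nat_lit 156) (nat_lit 380) (nat_lit 0) (XT.nd (nat_lit 78) (nat_lit 0) (nat_lit 0) (XT.lf (nat_lit 0) (nat_lit 3661354336) (nat_lit 684)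 (nat_lit 29086610103) (nat_lit 760) (nat_lit 7695623651) (nat_lit 67) (nat_lit 5) (nat_lit 76) (nat_lit 5) (nat_lit 77) (nat_lit 5) (nat_lit 292) (nat_lit 281) (nat_lit 147)) (XT.lf (nat_lit 0) (nat_lit 22749469445) (nat_lit 684) (nat_lit 13787497898) (nat_lit 760) (nat_lit 5044779721) (nat_lit 67) (nat_lit 5) (nat_lit 76) (nat_lit 5) (nat_lit 77) (nat_lit 5) (nat_lit 293) (nat_lit 281) (nat_lit 146))) (XT.nd (nat_lit 78) (nat_lit 380) (nat_lit 0) (XT.lf (nat_lit 0) (nat_lit 40548458337) (nat_lit 760) (nat_lit 22730981) (nat_lit 76) (nat_lit 2203980724) (nat_lit 67) (nat_lit 5) (nat_lit 77) (nat_lit 5) (nat_lit 68) (nat_lit 5) (nat_lit 294) (nat_lit 281) (nat_lit 145)) (XT.nd (nat_lit 78) (nat_lit 0) (nat_lit 0) (XT.lf (nat_lit 0) (nat_lit 1255775898) (nat_lit 380) (nat_lit 23877876377) (nat_lit 76) (nat_lit 18866699823) (nat_lit 62) (nat_lit 5) (nat_lit 67) (nat_lit 5) (nat_lit 63)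 (nat_lit 5) (nat_lit 295) (nat_lit 281) (nat_lit 144)) (XT.lf (nat_lit 0) (nat_lit 4835594914) (nat_lit 380) (nat_lit 4049851308) (nat_lit 76) (nat_lit 36399626773) (nat_lit 62) (nat_lit 5) (nat_lit 67) (nat_lit 5) (nat_lit 63) (nat_lit 5) (nat_lit 296) (nat_lit 281) (nat_lit 143))))))) (XT.nd (nat_lit 702) (nat_lit 988) (nat_lit 0) (XT.nd (nat_lit 312) (nat_lit 608) (nat_lit 0) (XT.nd (nat_lit 156) (nat_lit 304) (nat_lit 0) (XT.nd (nat_lit 78) (nat_lit 0) (nat_lit 0) (XT.lf (nat_lit 0) (nat_lit 8994678029) (nat_lit 456) (nat_lit 29430907432) (nat_lit 76) (nat_lit 8188437361) (nat_lit 57) (nat_lit 5) (nat_lit 63) (nat_lit 5) (nat_lit 58) (nat_lit 5) (nat_lit 297) (nat_lit 281) (nat_lit 142)) (XT.lf (nat_lit 0) (nat_lit 13574922017) (nat_lit 456) (nat_lit 8536715538) (nat_lit 76) (nat_lit 25887128482) (nat_lit 57) (nat_lit 5) (nat_lit 63) (nat_lit 5) (nat_lit 58) (nat_lit 5) (nat_lit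 298) (nat_lit 281) (nat_lit 141))) (XT.nd (nat_lit 78) (nat_lit 0) (nat_lit 0) (XT.lf (nat_lit 0) (nat_lit 13843089941) (nat_lit 304) (nat_lit 4755153986) (nat_lit 380) (nat_lit 30843805133) (nat_lit 53) (nat_lit 5) (nat_lit 57) (nat_lit 5) (nat_lit 58) (nat_lit 5) (nat_lit 299) (nat_lit 281) (nat_lit 140)) (XT.lf (nat_lit 0) (nat_lit 24227966006) (nat_lit 380) (nat_lit 13526897742) (nat_lit 76) (nat_lit 13184876435) (nat_lit 53) (nat_lit 5) (nat_lit 58) (nat_lit 5) (nat_lit 54) (nat_lit 5) (nat_lit 300) (nat_lit 281) (nat_lit 139)))) (XT.nd (nat_lit 156) (nat_lit 304) (nat_lit 0) (XT.nd (nat_lit 78) (nat_lit 0) (nat_lit 0) (XT.lf (nat_lit 0) (nat_lit 9885073574) (nat_lit 304) (nat_lit 20484482298) (nat_lit 380) (nat_lit 22131246289) (nat_lit 49) (nat_lit 5) (nat_lit 53) (nat_lit 5) (nat_lit 54) (nat_lit 5) (nat_lit 301) (nat_lit 281) (nat_lit 138)) (XT.lf (nat_lit 0) (nat_lit 34935177184)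 (nat_lit 304) (nat_lit 2110285349) (nat_lit 380) (nat_lit 17083097965) (nat_lit 49) (nat_lit 5) (nat_lit 53) (nat_lit 5) (nat_lit 54) (nat_lit 5) (nat_lit 302) (nat_lit 281) (nat_lit 137))) (XT.nd (nat_lit 78) (nat_lit 76) (nat_lit 0) (XT.lf (nat_lit 0) (nat_lit 5299343065) (nat_lit 228) (nat_lit 39105065041) (nat_lit 304) (nat_lit 11415841350) (nat_lit 46) (nat_lit 5) (nat_lit 49) (nat_lit 5) (nat_lit 50) (nat_lit 5) (nat_lit 303) (nat_lit 281) (nat_lit 136)) (XT.nd (nat_lit 78) (nat_lit 76) (nat_lit 0) (XT.lf (nat_lit 0) (nat_lit 31645272173) (nat_lit 228) (nat_lit 20843403990) (nat_lit 304) (nat_lit 5089982589) (nat_lit 46) (nat_lit 5) (nat_lit 49) (nat_lit 5) (nat_lit 50) (nat_lit 5) (nat_lit 304) (nat_lit 281) (nat_lit 135)) (XT.lf (nat_lit 0) (nat_lit 1500829589) (nat_lit 304) (nat_lit 142732001) (nat_lit 76) (nat_lit 57780302475) (nat_lit 45) (nat_lit 5) (nat_lit 49) (nat_lit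 5) (nat_lit 46) (nat_lit 5) (nat_lit 305) (nat_lit 281) (nat_lit 134)))))) (XT.nd (nat_lit 312) (nat_lit 456) (nat_lit 0) (XT.nd (nat_lit 156) (nat_lit 228) (nat_lit 0) (XT.nd (nat_lit 78) (nat_lit 0) (nat_lit 0) (XT.lf (nat_lit 0) (nat_lit 8979196274) (nat_lit 380) (nat_lit 33893186546) (nat_lit 76) (nat_lit 18448325190) (nat_lit 41) (nat_lit 5) (nat_lit 46) (nat_lit 5) (nat_lit 42) (nat_lit 5) (nat_lit 306) (nat_lit 281) (nat_lit 133)) (XT.lf (nat_lit 0) (nat_lit 16859340975) (nat_lit 380) (nat_lit 6959969894) (nat_lit 76) (nat_lit 39491694123) (nat_lit 41) (nat_lit 5) (nat_lit 46) (nat_lit 5) (nat_lit 42) (nat_lit 5) (nat_lit 307) (nat_lit 281) (nat_lit 132))) (XT.nd (nat_lit 78) (nat_lit 0) (nat_lit 0) (XT.lf (nat_lit 0) (nat_lit 22022915289) (nat_lit 228) (nat_lit 3452949609) (nat_lit 304) (nat_lit 39907836969) (nat_lit 38) (nat_lit 5) (nat_lit 41) (nat_lit 5) (nat_lit 42) (nat_lit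 5) (nat_lit 308) (nat_lit 281) (nat_lit 131)) (XT.lf (nat_lit 0) (nat_lit 34921549800) (nat_lit 304) (nat_lit 15141359250) (nat_lit 76) (nat_lit 17477211267) (nat_lit 38) (nat_lit 5) (nat_lit 42) (nat_lit 5) (nat_lit 39) (nat_lit 5) (nat_lit 309) (nat_lit 281) (nat_lit 130)))) (XT.nd (nat_lit 156) (nat_lit 228) (nat_lit 0) (XT.nd (nat_lit 78) (nat_lit 0) (nat_lit 0) (XT.lf (nat_lit 0) (nat_lit 14907764319) (nat_lit 228) (nat_lit 30219748021) (nat_lit 304) (nat_lit 24662450986) (nat_lit 35) (nat_lit 5) (nat_lit 38) (nat_lit 5) (nat_lit 39) (nat_lit 5) (nat_lit 310) (nat_lit 281) (nat_lit 129)) (XT.lf (nat_lit 0) (nat_lit 46983236126) (nat_lit 228) (nat_lit 9115635957) (nat_lit 304) (nat_lit 16040674594) (nat_lit 35) (nat_lit 5) (nat_lit 38) (nat_lit 5) (nat_lit 39) (nat_lit 5) (nat_lit 311) (nat_lit 281) (nat_lit 128))) (XT.nd (nat_lit 78) (nat_lit 76) (nat_lit 0) (XT.lf (nat_lit 0)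 (nat_lit 6043910445) (nat_lit 152) (nat_lit 61871629447) (nat_lit 228) (nat_lit 6676235298) (nat_lit 33) (nat_lit 5) (nat_lit 35) (nat_lit 5) (nat_lit 36) (nat_lit 5) (nat_lit 312) (nat_lit 281) (nat_lit 127)) (XT.nd (nat_lit 78) (nat_lit 0) (nat_lit 0) (XT.lf (nat_lit 0) (nat_lit 3636595492) (nat_lit 228) (nat_lit 37675274498) (nat_lit 76) (nat_lit 35823224079) (nat_lit 32) (nat_lit 5) (nat_lit 35) (nat_lit 5) (nat_lit 33) (nat_lit 5) (nat_lit 313) (nat_lit 281) (nat_lit 126)) (XT.lf (nat_lit 0) (nat_lit 14239502307) (nat_lit 228) (nat_lit 5370189216) (nat_lit 76) (nat_lit 60190477648) (nat_lit 32) (nat_lit 5) (nat_lit 35) (nat_lit 5) (nat_lit 33) (nat_lit 5) (nat_lit 314) (nat_lit 281) (nat_lit 125))))))))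
noncomputable def xc221 : XT := (XT.nd (nat_lit 1326) (nat_lit 532) (nat_lit 0) (XT.nd (nat_lit 624) (nat_lit 456) (nat_lit 0) (XT.nd (nat_lit 312) (nat_lit 380) (nat_lit 0) (XT.nd (nat_lit 156) (nat_lit 152) (nat_lit 0) (XT.nd (nat_lit 78) (nat_lit 0) (nat_lit 0) (XT.lf (nat_lit 0) (nat_lit 25889024206) (nat_lit 304) (nat_lit 53140200616) (nat_lit 76) (nat_lit 3543452183) (nat_lit 29) (nat_lit 5) (nat_lit 33) (nat_lit 5) (nat_lit 30) (nat_lit 5) (nat_lit 315) (nat_lit 281) (nat_lit 124)) (XT.lf (nat_lit 0) (nat_lit 38533809585) (nat_lit 304) (nat_lit 19642140447) (nat_lit 76) (nat_lit 27287223178) (nat_lit 29) (nat_lit 5) (nat_lit 33) (nat_lit 5) (nat_lit 30) (nat_lit 5) (nat_lit 316) (nat_lit 281) (nat_lit 123))) (XT.nd (nat_lit 78) (nat_lit 0) (nat_lit 0) (XT.lf (nat_lit 0) (nat_lit 16042735808) (nat_lit 152) (nat_lit 36017503203) (nat_lit 228) (nat_lit 36425487213) (nat_lit 27)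 (nat_lit 5) (nat_lit 29) (nat_lit 5) (nat_lit 30) (nat_lit 5) (nat_lit 317) (nat_lit 281) (nat_lit 122)) (XT.lf (nat_lit 0) (nat_lit 54192257059) (nat_lit 152) (nat_lit 12402341658) (nat_lit 228) (nat_lit 25048229861) (nat_lit 27) (nat_lit 5) (nat_lit 29) (nat_lit 5) (nat_lit 30) (nat_lit 5) (nat_lit 318) (nat_lit 281) (nat_lit 121)))) (XT.nd (nat_lit 156) (nat_lit 152) (nat_lit 0) (XT.nd (nat_lit 78) (nat_lit 228) (nat_lit 0) (XT.lf (nat_lit 0) (nat_lit 82048176814) (nat_lit 228) (nat_lit 903531201) (nat_lit 76) (nat_lit 11996455043) (nat_lit 27) (nat_lit 5) (nat_lit 30) (nat_lit 5) (nat_lit 28) (nat_lit 5) (nat_lit 319) (nat_lit 281) (nat_lit 120)) (XT.lf (nat_lit 0) (nat_lit 676891075) (nat_lit 228) (nat_lit 59891211609) (nat_lit 76) (nat_lit 37809945986) (nat_lit 24) (nat_lit 5) (nat_lit 27) (nat_lit 5) (nat_lit 25) (nat_lit 5) (nat_lit 320) (nat_lit 281) (nat_lit 119))) (XT.nd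 (nat_lit 78) (nat_lit 152) (nat_lit 0) (XT.lf (nat_lit 0) (nat_lit 14513696492) (nat_lit 228) (nat_lit 22313736682) (nat_lit 76) (nat_lit 65140692964) (nat_lit 24) (nat_lit 5) (nat_lit 27) (nat_lit 5) (nat_lit 25) (nat_lit 5) (nat_lit 321) (nat_lit 281) (nat_lit 118)) (XT.lf (nat_lit 0) (nat_lit 17708007902) (nat_lit 152) (nat_lit 11609906641) (nat_lit 228) (nat_lit 76406015987) (nat_lit 22) (nat_lit 5) (nat_lit 24) (nat_lit 5) (nat_lit 25) (nat_lit 5) (nat_lit 322) (nat_lit 281) (nat_lit 117))))) (XT.nd (nat_lit 312) (nat_lit 304) (nat_lit 0) (XT.nd (nat_lit 156) (nat_lit 152) (nat_lit 0) (XT.nd (nat_lit 78) (nat_lit 0) (nat_lit 0) (XT.lf (nat_lit 0) (nat_lit 45477686442) (nat_lit 228) (nat_lit 49382828979) (nat_lit 76) (nat_lit 14776244163) (nat_lit 22) (nat_lit 5) (nat_lit 25) (nat_lit 5) (nat_lit 23) (nat_lit 5) (nat_lit 323) (nat_lit 281) (nat_lit 116)) (XT.lf (nat_lit 0) (nat_lit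 62634930549) (nat_lit 228) (nat_lit 9009727864) (nat_lit 76) (nat_lit 42091099010) (nat_lit 22) (nat_lit 5) (nat_lit 25) (nat_lit 5) (nat_lit 23) (nat_lit 5) (nat_lit 324) (nat_lit 281) (nat_lit 115))) (XT.nd (nat_lit 78) (nat_lit 0) (nat_lit 0) (XT.lf (nat_lit 0) (nat_lit 34484489343) (nat_lit 152) (nat_lit 46703144445) (nat_lit 228) (nat_lit 36825192963) (nat_lit 20) (nat_lit 5) (nat_lit 22) (nat_lit 5) (nat_lit 23) (nat_lit 5) (nat_lit 325) (nat_lit 281) (nat_lit 114)) (XT.lf (nat_lit 0) (nat_lit 80464977128) (nat_lit 152) (nat_lit 20354795462) (nat_lit 228) (nat_lit 21676388307) (nat_lit 20) (nat_lit 5) (nat_lit 22) (nat_lit 5) (nat_lit 23) (nat_lit 5) (nat_lit 326) (nat_lit 281) (nat_lit 113)))) (XT.nd (nat_lit 156) (nat_lit 152) (nat_lit 0) (XT.nd (nat_lit 78) (nat_lit 76) (nat_lit 0) (XT.lf (nat_lit 0) (nat_lit 1472604722) (nat_lit 76) (nat_lit 120097296712) (nat_lit 152) (nat_lit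 5626942470) (nat_lit 19) (nat_lit 5) (nat_lit 20) (nat_lit 5) (nat_lit 21) (nat_lit 4) (nat_lit 327) (nat_lit 281) (nat_lit 112)) (XT.lf (nat_lit 0) (nat_lit 11922129963) (nat_lit 152) (nat_lit 84007984422) (nat_lit 76) (nat_lit 36140864015) (nat_lit 18) (nat_lit 5) (nat_lit 20) (nat_lit 5) (nat_lit 19) (nat_lit 5) (nat_lit 328) (nat_lit 281) (nat_lit 111))) (XT.nd (nat_lit 78) (nat_lit 152) (nat_lit 0) (XT.lf (nat_lit 0) (nat_lit 30158840393) (nat_lit 152) (nat_lit 40299320985) (nat_lit 76) (nat_lit 66726082797) (nat_lit 18) (nat_lit 5) (nat_lit 20) (nat_lit 5) (nat_lit 19) (nat_lit 5) (nat_lit 329) (nat_lit 281) (nat_lit 110)) (XT.nd (nat_lit 78) (nat_lit 0) (nat_lit 0) (XT.lf (nat_lit 0) (nat_lit 5778623764) (nat_lit 152) (nat_lit 43618303607) (nat_lit 228) (nat_lit 93151769893) (nat_lit 16) (nat_lit 5) (nat_lit 18) (nat_lit 5) (nat_lit 19) (nat_lit 5) (nat_lit 330) (nat_lit 281)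 (nat_lit 109)) (XT.lf (nat_lit 0) (nat_lit 55558481074) (nat_lit 152) (nat_lit 14720262037) (nat_lit 228) (nat_lit 77868539699) (nat_lit 16) (nat_lit 5) (nat_lit 18) (nat_lit 5) (nat_lit 19) (nat_lit 5) (nat_lit 331) (nat_lit 281) (nat_lit 108))))))) (XT.nd (nat_lit 702) (nat_lit 152) (nat_lit 0) (XT.nd (nat_lit 312) (nat_lit 304) (nat_lit 0) (XT.nd (nat_lit 156) (nat_lit 0) (nat_lit 0) (XT.nd (nat_lit 78) (nat_lit 76) (nat_lit 0) (XT.lf (nat_lit 0) (nat_lit 92447924743) (nat_lit 228) (nat_lit 46443440935) (nat_lit 76) (nat_lit 15122269176) (nat_lit 16) (nat_lit 5) (nat_lit 19) (nat_lit 5) (nat_lit 17) (nat_lit 4) (nat_lit 332) (nat_lit 281) (nat_lit 107)) (XT.lf (nat_lit 0) (nat_lit 1825282371) (nat_lit 76) (nat_lit 114169488306) (nat_lit 152) (nat_lit 44165074493) (nat_lit 15) (nat_lit 5) (nat_lit 16) (nat_lit 5) (nat_lit 17) (nat_lit 4) (nat_lit 333) (nat_lit 281) (nat_lit 106)))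 (XT.nd (nat_lit 78) (nat_lit 0) (nat_lit 0) (XT.lf (nat_lit 0) (nat_lit 54118859336) (nat_lit 76) (nat_lit 87386046845) (nat_lit 152) (nat_lit 25069163341) (nat_lit 15) (nat_lit 5) (nat_lit 16) (nat_lit 5) (nat_lit 17) (nat_lit 4) (nat_lit 334) (nat_lit 281) (nat_lit 105)) (XT.lf (nat_lit 0) (nat_lit 109026168574) (nat_lit 76) (nat_lit 59263813342) (nat_lit 152) (nat_lit 5019052347) (nat_lit 15) (nat_lit 5) (nat_lit 16) (nat_lit 5) (nat_lit 17) (nat_lit 4) (nat_lit 335) (nat_lit 281) (nat_lit 104)))) (XT.nd (nat_lit 156) (nat_lit 76) (nat_lit 0) (XT.nd (nat_lit 78) (nat_lit 152) (nat_lit 0) (XT.lf (nat_lit 0) (nat_lit 15519840821) (nat_lit 152) (nat_lit 13953153261) (nat_lit 76) (nat_lit 150895264938) (nat_lit 14) (nat_lit 5) (nat_lit 16) (nat_lit 5) (nat_lit 15) (nat_lit 5) (nat_lit 336) (nat_lit 281) (nat_lit 103)) (XT.lf (nat_lit 0) (nat_lit 37582271598) (nat_lit 228) (nat_lit 147691763900)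 (nat_lit 76) (nat_lit 2469032968) (nat_lit 12) (nat_lit 5) (nat_lit 15) (nat_lit 5) (nat_lit 13) (nat_lit 4) (nat_lit 337) (nat_lit 281) (nat_lit 102))) (XT.nd (nat_lit 78) (nat_lit 76) (nat_lit 0) (XT.lf (nat_lit 0) (nat_lit 61470647906) (nat_lit 228) (nat_lit 98722316867) (nat_lit 76) (nat_lit 35257513104) (nat_lit 12) (nat_lit 5) (nat_lit 15) (nat_lit 5) (nat_lit 13) (nat_lit 4) (nat_lit 338) (nat_lit 281) (nat_lit 101)) (XT.nd (nat_lit 78) (nat_lit 76) (nat_lit 0) (XT.lf (nat_lit 0) (nat_lit 86552950578) (nat_lit 228) (nat_lit 47305238674) (nat_lit 76) (nat_lit 69685093791) (nat_lit 12) (nat_lit 5) (nat_lit 15) (nat_lit 5) (nat_lit 13) (nat_lit 4) (nat_lit 339) (nat_lit 281) (nat_lit 100)) (XT.lf (nat_lit 0) (nat_lit 6902825828) (nat_lit 76) (nat_lit 106093846010) (nat_lit 152) (nat_lit 99038692085) (nat_lit 11) (nat_lit 5) (nat_lit 12) (nat_lit 5) (nat_lit 13) (nat_lit 4) (nat_lit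 340) (nat_lit 281) (nat_lit 99)))))) (XT.nd (nat_lit 312) (nat_lit 76) (nat_lit 0) (XT.nd (nat_lit 156) (nat_lit 76) (nat_lit 0) (XT.nd (nat_lit 78) (nat_lit 0) (nat_lit 0) (XT.lf (nat_lit 0) (nat_lit 65462836411) (nat_lit 76) (nat_lit 76100420882) (nat_lit 152) (nat_lit 79348758246) (nat_lit 11) (nat_lit 5) (nat_lit 12) (nat_lit 5) (nat_lit 13) (nat_lit 4) (nat_lit 341) (nat_lit 281) (nat_lit 98)) (XT.lf (nat_lit 0) (nat_lit 126950096845) (nat_lit 76) (nat_lit 44607638058) (nat_lit 152) (nat_lit 58674787259) (nat_lit 11) (nat_lit 5) (nat_lit 12) (nat_lit 5) (nat_lit 13) (nat_lit 4) (nat_lit 342) (nat_lit 281) (nat_lit 97))) (XT.nd (nat_lit 78) (nat_lit 76) (nat_lit 0) (XT.lf (nat_lit 0) (nat_lit 191511005368) (nat_lit 76) (nat_lit 11540514723) (nat_lit 152) (nat_lit 36967555385) (nat_lit 11) (nat_lit 5) (nat_lit 12) (nat_lit 5) (nat_lit 13) (nat_lit 4) (nat_lit 343) (nat_lit 281) (nat_lit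 96)) (XT.lf (nat_lit 0) (nat_lit 8928158695) (nat_lit 76) (nat_lit 227692732713) (nat_lit 76) (nat_lit 13649020720) (nat_lit 10) (nat_lit 4) (nat_lit 11) (nat_lit 5) (nat_lit 11) (nat_lit 4) (nat_lit 344) (nat_lit 281) (nat_lit 95)))) (XT.nd (nat_lit 32682) (nat_lit 0) (nat_lit 4788) (XT.nd (nat_lit 32604) (nat_lit 0) (nat_lit 4788) (XT.lf (nat_lit 0) (nat_lit 11512403206) (nat_lit 152) (nat_lit 190444452560) (nat_lit 76) (nat_lit 59016788523) (nat_lit 9) (nat_lit 5) (nat_lit 11) (nat_lit 5) (nat_lit 10) (nat_lit 4) (nat_lit 345) (nat_lit 281) (nat_lit 94)) (XT.lf (nat_lit 0) (nat_lit 3520373572) (nat_lit 0) (nat_lit 3520373572) (nat_lit 684) (nat_lit 8910279470) (nat_lit 72) (nat_lit 5) (nat_lit 72) (nat_lit 3) (nat_lit 81) (nat_lit 3) (nat_lit 282) (nat_lit 282) (nat_lit 156))) (XT.nd (nat_lit 78) (nat_lit 0) (nat_lit 0) (XT.lf (nat_lit 0) (nat_lit 14601084178) (nat_lit 684) (nat_lit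 11359095425) (nat_lit 760) (nat_lit 6730854597) (nat_lit 72) (nat_lit 5) (nat_lit 81) (nat_lit 3) (nat_lit 82) (nat_lit 5) (nat_lit 283) (nat_lit 282) (nat_lit 155)) (XT.nd (nat_lit 78) (nat_lit 0) (nat_lit 76) (XT.lf (nat_lit 76) (nat_lit 2789981844) (nat_lit 0) (nat_lit 12511906595) (nat_lit 760) (nat_lit 18209826373) (nat_lit 73) (nat_lit 5) (nat_lit 72) (nat_lit 5) (nat_lit 82) (nat_lit 5) (nat_lit 284) (nat_lit 282) (nat_lit 154)) (XT.lf (nat_lit 0) (nat_lit 16254798790) (nat_lit 684) (nat_lit 16353506917) (nat_lit 760) (nat_lit 1754282204) (nat_lit 73) (nat_lit 5) (nat_lit 82) (nat_lit 5) (nat_lit 83) (nat_lit 5) (nat_lit 285) (nat_lit 282) (nat_lit 153))))))))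
noncomputable def xc222 : XT := (XT.nd (nat_lit 1326) (nat_lit 1672) (nat_lit 0) (XT.nd (nat_lit 624) (nat_lit 1368) (nat_lit 0) (XT.nd (nat_lit 312) (nat_lit 456) (nat_lit 0) (XT.nd (nat_lit 156) (nat_lit 0) (nat_lit 76) (XT.nd (nat_lit 78) (nat_lit 0) (nat_lit 0) (XT.lf (nat_lit 0) (nat_lit 17457061118) (nat_lit 684) (nat_lit 1474173234) (nat_lit 760) (nat_lit 16314696182) (nat_lit 73) (nat_lit 5) (nat_lit 82) (nat_lit 5) (nat_lit 83) (nat_lit 5) (nat_lit 286) (nat_lit 282) (nat_lit 152)) (XT.lf (nat_lit 76) (nat_lit 14614806056) (nat_lit 0) (nat_lit 4329564047) (nat_lit 760) (nat_lit 17217834162) (nat_lit 74) (nat_lit 5) (nat_lit 73) (nat_lit 5) (nat_lit 83) (nat_lit 5) (nat_lit 287) (nat_lit 282) (nat_lit 151))) (XT.nd (nat_lit 78) (nat_lit 0) (nat_lit 0) (XT.lf (nat_lit 0) (nat_lit 20700089288) (nat_lit 684) (nat_lit 5738048855) (nat_lit 760) (nat_lit 10676461455) (nat_lit 74)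 (nat_lit 5) (nat_lit 83) (nat_lit 5) (nat_lit 84) (nat_lit 5) (nat_lit 288) (nat_lit 282) (nat_lit 150)) (XT.lf (nat_lit 76) (nat_lit 11145384415) (nat_lit 0) (nat_lit 11640239655) (nat_lit 760) (nat_lit 15316898812) (nat_lit 75) (nat_lit 5) (nat_lit 74) (nat_lit 5) (nat_lit 84) (nat_lit 5) (nat_lit 289) (nat_lit 282) (nat_lit 149)))) (XT.nd (nat_lit 156) (nat_lit 608) (nat_lit 0) (XT.nd (nat_lit 78) (nat_lit 0) (nat_lit 0) (XT.lf (nat_lit 0) (nat_lit 25132219429) (nat_lit 684) (nat_lit 10127484963) (nat_lit 760) (nat_lit 3872307952) (nat_lit 75) (nat_lit 5) (nat_lit 84) (nat_lit 5) (nat_lit 85) (nat_lit 5) (nat_lit 290) (nat_lit 282) (nat_lit 148)) (XT.lf (nat_lit 76) (nat_lit 7593723606) (nat_lit 0) (nat_lit 20309101388) (nat_lit 760) (nat_lit 12294826031) (nat_lit 76) (nat_lit 5) (nat_lit 75) (nat_lit 5) (nat_lit 85) (nat_lit 5) (nat_lit 291) (nat_lit 282) (nat_lit 147))) (XT.nd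 (nat_lit 78) (nat_lit 608) (nat_lit 0) (XT.lf (nat_lit 76) (nat_lit 26550480113) (nat_lit 0) (nat_lit 4430387767) (nat_lit 760) (nat_lit 10327266758) (nat_lit 76) (nat_lit 5) (nat_lit 75) (nat_lit 5) (nat_lit 85) (nat_lit 5) (nat_lit 292) (nat_lit 282) (nat_lit 146)) (XT.lf (nat_lit 0) (nat_lit 3912878003) (nat_lit 684) (nat_lit 30549686529) (nat_lit 760) (nat_lit 7999098272) (nat_lit 67) (nat_lit 5) (nat_lit 76) (nat_lit 5) (nat_lit 77) (nat_lit 5) (nat_lit 293) (nat_lit 282) (nat_lit 145))))) (XT.nd (nat_lit 312) (nat_lit 988) (nat_lit 0) (XT.nd (nat_lit 156) (nat_lit 76) (nat_lit 0) (XT.nd (nat_lit 78) (nat_lit 304) (nat_lit 0) (XT.lf (nat_lit 0) (nat_lit 23952139061) (nat_lit 684) (nat_lit 14485202242) (nat_lit 760) (nat_lit 5219583886) (nat_lit 67) (nat_lit 5) (nat_lit 76) (nat_lit 5) (nat_lit 77) (nat_lit 5) (nat_lit 294) (nat_lit 282) (nat_lit 144)) (XT.lf (nat_lit 0) (nat_lit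 43462018) (nat_lit 304) (nat_lit 42602998319) (nat_lit 380) (nat_lit 2263717396) (nat_lit 63) (nat_lit 5) (nat_lit 67) (nat_lit 5) (nat_lit 68) (nat_lit 5) (nat_lit 295) (nat_lit 282) (nat_lit 143))) (XT.nd (nat_lit 78) (nat_lit 0) (nat_lit 0) (XT.lf (nat_lit 0) (nat_lit 1387461973) (nat_lit 380) (nat_lit 25004415942) (nat_lit 76) (nat_lit 19804845694) (nat_lit 62) (nat_lit 5) (nat_lit 67) (nat_lit 5) (nat_lit 63) (nat_lit 5) (nat_lit 296) (nat_lit 282) (nat_lit 142)) (XT.lf (nat_lit 0) (nat_lit 5142991118) (nat_lit 380) (nat_lit 4188196965) (nat_lit 76) (nat_lit 38214666092) (nat_lit 62) (nat_lit 5) (nat_lit 67) (nat_lit 5) (nat_lit 63) (nat_lit 5) (nat_lit 297) (nat_lit 282) (nat_lit 141)))) (XT.nd (nat_lit 156) (nat_lit 608) (nat_lit 0) (XT.nd (nat_lit 78) (nat_lit 0) (nat_lit 0) (XT.lf (nat_lit 0) (nat_lit 9507883457) (nat_lit 456) (nat_lit 30835978442) (nat_lit 76) (nat_lit 8597505967)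 (nat_lit 57) (nat_lit 5) (nat_lit 63) (nat_lit 5) (nat_lit 58) (nat_lit 5) (nat_lit 298) (nat_lit 282) (nat_lit 140)) (XT.lf (nat_lit 0) (nat_lit 14314117191) (nat_lit 456) (nat_lit 8900242399) (nat_lit 76) (nat_lit 27181148466) (nat_lit 57) (nat_lit 5) (nat_lit 63) (nat_lit 5) (nat_lit 58) (nat_lit 5) (nat_lit 299) (nat_lit 282) (nat_lit 139))) (XT.nd (nat_lit 78) (nat_lit 304) (nat_lit 0) (XT.lf (nat_lit 0) (nat_lit 14597532243) (nat_lit 304) (nat_lit 4989166914) (nat_lit 380) (nat_lit 32324359653) (nat_lit 53) (nat_lit 5) (nat_lit 57) (nat_lit 5) (nat_lit 58) (nat_lit 5) (nat_lit 300) (nat_lit 282) (nat_lit 138)) (XT.nd (nat_lit 78) (nat_lit 304) (nat_lit 0) (XT.lf (nat_lit 0) (nat_lit 25495175258) (nat_lit 380) (nat_lit 14141031161) (nat_lit 76) (nat_lit 13847572557) (nat_lit 53) (nat_lit 5) (nat_lit 58) (nat_lit 5) (nat_lit 54) (nat_lit 5) (nat_lit 301) (nat_lit 282) (nat_lit 137))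 (XT.lf (nat_lit 0) (nat_lit 10440535310) (nat_lit 304) (nat_lit 21501607271) (nat_lit 380) (nat_lit 23180844081) (nat_lit 49) (nat_lit 5) (nat_lit 53) (nat_lit 5) (nat_lit 54) (nat_lit 5) (nat_lit 302) (nat_lit 282) (nat_lit 136))))))) (XT.nd (nat_lit 702) (nat_lit 608) (nat_lit 0) (XT.nd (nat_lit 312) (nat_lit 760) (nat_lit 0) (XT.nd (nat_lit 156) (nat_lit 76) (nat_lit 0) (XT.nd (nat_lit 78) (nat_lit 228) (nat_lit 0) (XT.lf (nat_lit 0) (nat_lit 36740229432) (nat_lit 304) (nat_lit 2209038530) (nat_lit 380) (nat_lit 17883000936) (nat_lit 49) (nat_lit 5) (nat_lit 53) (nat_lit 5) (nat_lit 54) (nat_lit 5) (nat_lit 303) (nat_lit 282) (nat_lit 135)) (XT.lf (nat_lit 0) (nat_lit 5624235294) (nat_lit 228) (nat_lit 41050507731) (nat_lit 304) (nat_lit 11933876978) (nat_lit 46) (nat_lit 5) (nat_lit 49) (nat_lit 5) (nat_lit 50) (nat_lit 5) (nat_lit 304) (nat_lit 282) (nat_lit 134))) (XT.nd (nat_lit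 78) (nat_lit 76) (nat_lit 0) (XT.lf (nat_lit 0) (nat_lit 33284607283) (nat_lit 228) (nat_lit 21876230797) (nat_lit 304) (nat_lit 5294237490) (nat_lit 46) (nat_lit 5) (nat_lit 49) (nat_lit 5) (nat_lit 50) (nat_lit 5) (nat_lit 305) (nat_lit 282) (nat_lit 133)) (XT.lf (nat_lit 0) (nat_lit 1622191163) (nat_lit 304) (nat_lit 93865584) (nat_lit 76) (nat_lit 60676566862) (nat_lit 45) (nat_lit 5) (nat_lit 49) (nat_lit 5) (nat_lit 46) (nat_lit 5) (nat_lit 306) (nat_lit 282) (nat_lit 132)))) (XT.nd (nat_lit 156) (nat_lit 456) (nat_lit 0) (XT.nd (nat_lit 78) (nat_lit 0) (nat_lit 0) (XT.lf (nat_lit 0) (nat_lit 9473288805) (nat_lit 380) (nat_lit 35530543428) (nat_lit 76) (nat_lit 19380542488) (nat_lit 41) (nat_lit 5) (nat_lit 46) (nat_lit 5) (nat_lit 42) (nat_lit 5) (nat_lit 307) (nat_lit 282) (nat_lit 131)) (XT.lf (nat_lit 0) (nat_lit 17745291565) (nat_lit 380) (nat_lit 7253394631) (nat_lit 76)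 (nat_lit 41475613152) (nat_lit 41) (nat_lit 5) (nat_lit 46) (nat_lit 5) (nat_lit 42) (nat_lit 5) (nat_lit 308) (nat_lit 282) (nat_lit 130))) (XT.nd (nat_lit 78) (nat_lit 228) (nat_lit 0) (XT.lf (nat_lit 0) (nat_lit 23177754590) (nat_lit 228) (nat_lit 3613678566) (nat_lit 304) (nat_lit 41859263420) (nat_lit 38) (nat_lit 5) (nat_lit 41) (nat_lit 5) (nat_lit 42) (nat_lit 5) (nat_lit 309) (nat_lit 282) (nat_lit 129)) (XT.nd (nat_lit 78) (nat_lit 228) (nat_lit 0) (XT.lf (nat_lit 0) (nat_lit 36707590237) (nat_lit 304) (nat_lit 15845381651) (nat_lit 76) (nat_lit 18362059503) (nat_lit 38) (nat_lit 5) (nat_lit 42) (nat_lit 5) (nat_lit 39) (nat_lit 5) (nat_lit 310) (nat_lit 282) (nat_lit 128)) (XT.lf (nat_lit 0) (nat_lit 15705342523) (nat_lit 228) (nat_lit 31717420215) (nat_lit 304) (nat_lit 25854662829) (nat_lit 35) (nat_lit 5) (nat_lit 38) (nat_lit 5) (nat_lit 39) (nat_lit 5) (nat_lit 311)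 (nat_lit 282) (nat_lit 127)))))) (XT.nd (nat_lit 312) (nat_lit 380) (nat_lit 0) (XT.nd (nat_lit 156) (nat_lit 76) (nat_lit 0) (XT.nd (nat_lit 78) (nat_lit 152) (nat_lit 0) (XT.lf (nat_lit 0) (nat_lit 49382102683) (nat_lit 228) (nat_lit 9558736605) (nat_lit 304) (nat_lit 16803745746) (nat_lit 35) (nat_lit 5) (nat_lit 38) (nat_lit 5) (nat_lit 39) (nat_lit 5) (nat_lit 312) (nat_lit 282) (nat_lit 126)) (XT.lf (nat_lit 0) (nat_lit 6396721935) (nat_lit 152) (nat_lit 64950834341) (nat_lit 228) (nat_lit 6971912088) (nat_lit 33) (nat_lit 5) (nat_lit 35) (nat_lit 5) (nat_lit 36) (nat_lit 5) (nat_lit 313) (nat_lit 282) (nat_lit 125))) (XT.nd (nat_lit 78) (nat_lit 0) (nat_lit 0) (XT.lf (nat_lit 0) (nat_lit 3853581855) (nat_lit 228) (nat_lit 39509594262) (nat_lit 76) (nat_lit 37626838985) (nat_lit 32) (nat_lit 5) (nat_lit 35) (nat_lit 5) (nat_lit 33) (nat_lit 5) (nat_lit 314) (nat_lit 282) (nat_lit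 124)) (XT.lf (nat_lit 0) (nat_lit 14984959887) (nat_lit 228) (nat_lit 5591609190) (nat_lit 76) (nat_lit 63211862199) (nat_lit 32) (nat_lit 5) (nat_lit 35) (nat_lit 5) (nat_lit 33) (nat_lit 5) (nat_lit 315) (nat_lit 282) (nat_lit 123)))) (XT.nd (nat_lit 156) (nat_lit 152) (nat_lit 0) (XT.nd (nat_lit 78) (nat_lit 0) (nat_lit 0) (XT.lf (nat_lit 0) (nat_lit 27216301004) (nat_lit 304) (nat_lit 55749395493) (nat_lit 76) (nat_lit 3733904288) (nat_lit 29) (nat_lit 5) (nat_lit 33) (nat_lit 5) (nat_lit 30) (nat_lit 5) (nat_lit 316) (nat_lit 282) (nat_lit 122)) (XT.lf (nat_lit 0) (nat_lit 40491762529) (nat_lit 304) (nat_lit 20578709227) (nat_lit 76) (nat_lit 28664231476) (nat_lit 29) (nat_lit 5) (nat_lit 33) (nat_lit 5) (nat_lit 30) (nat_lit 5) (nat_lit 317) (nat_lit 282) (nat_lit 121))) (XT.nd (nat_lit 78) (nat_lit 0) (nat_lit 0) (XT.lf (nat_lit 0) (nat_lit 16889676352) (nat_lit 152) (nat_lit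 37804047897) (nat_lit 228) (nat_lit 38214702226) (nat_lit 27) (nat_lit 5) (nat_lit 29) (nat_lit 5) (nat_lit 30) (nat_lit 5) (nat_lit 318) (nat_lit 282) (nat_lit 120)) (XT.nd (nat_lit 78) (nat_lit 0) (nat_lit 0) (XT.lf (nat_lit 0) (nat_lit 56944540154) (nat_lit 152) (nat_lit 13008810678) (nat_lit 228) (nat_lit 26270108642) (nat_lit 27) (nat_lit 5) (nat_lit 29) (nat_lit 5) (nat_lit 30) (nat_lit 5) (nat_lit 319) (nat_lit 282) (nat_lit 119)) (XT.lf (nat_lit 0) (nat_lit 86178428762) (nat_lit 228) (nat_lit 906833771) (nat_lit 76) (nat_lit 12608859928) (nat_lit 27) (nat_lit 5) (nat_lit 30) (nat_lit 5) (nat_lit 28) (nat_lit 5) (nat_lit 320) (nat_lit 282) (nat_lit 118))))))))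
noncomputable def xc223 : XT := (XT.nd (nat_lit 1404) (nat_lit 152) (nat_lit 0) (XT.nd (nat_lit 702) (nat_lit 456) (nat_lit 0) (XT.nd (nat_lit 312) (nat_lit 304) (nat_lit 0) (XT.nd (nat_lit 156) (nat_lit 152) (nat_lit 0) (XT.nd (nat_lit 78) (nat_lit 0) (nat_lit 0) (XT.lf (nat_lit 0) (nat_lit 738393528) (nat_lit 228) (nat_lit 62843607758) (nat_lit 76) (nat_lit 39713515590) (nat_lit 24) (nat_lit 5) (nat_lit 27) (nat_lit 5) (nat_lit 25) (nat_lit 5) (nat_lit 321) (nat_lit 282) (nat_lit 117)) (XT.lf (nat_lit 0) (nat_lit 15265722172) (nat_lit 228) (nat_lit 23389266915) (nat_lit 76) (nat_lit 68410177426) (nat_lit 24) (nat_lit 5) (nat_lit 27) (nat_lit 5) (nat_lit 25) (nat_lit 5) (nat_lit 322) (nat_lit 282) (nat_lit 116))) (XT.nd (nat_lit 78) (nat_lit 0) (nat_lit 0) (XT.lf (nat_lit 0) (nat_lit 18632917211) (nat_lit 152) (nat_lit 12176596434) (nat_lit 228) (nat_lit 80199281683) (nat_lit 22) (nat_lit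 5) (nat_lit 24) (nat_lit 5) (nat_lit 25) (nat_lit 5) (nat_lit 323) (nat_lit 282) (nat_lit 115)) (XT.lf (nat_lit 0) (nat_lit 47776255448) (nat_lit 228) (nat_lit 51813279857) (nat_lit 76) (nat_lit 15527783682) (nat_lit 22) (nat_lit 5) (nat_lit 25) (nat_lit 5) (nat_lit 23) (nat_lit 5) (nat_lit 324) (nat_lit 282) (nat_lit 114)))) (XT.nd (nat_lit 156) (nat_lit 152) (nat_lit 0) (XT.nd (nat_lit 78) (nat_lit 152) (nat_lit 0) (XT.lf (nat_lit 0) (nat_lit 65790186299) (nat_lit 228) (nat_lit 9423366095) (nat_lit 76) (nat_lit 44207775209) (nat_lit 22) (nat_lit 5) (nat_lit 25) (nat_lit 5) (nat_lit 23) (nat_lit 5) (nat_lit 325) (nat_lit 282) (nat_lit 113)) (XT.lf (nat_lit 0) (nat_lit 36244967648) (nat_lit 152) (nat_lit 49025003589) (nat_lit 228) (nat_lit 38642308843) (nat_lit 20) (nat_lit 5) (nat_lit 22) (nat_lit 5) (nat_lit 23) (nat_lit 5) (nat_lit 326) (nat_lit 282) (nat_lit 112))) (XT.nd (nat_lit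 78) (nat_lit 152) (nat_lit 0) (XT.lf (nat_lit 0) (nat_lit 84522753449) (nat_lit 152) (nat_lit 21359870399) (nat_lit 228) (nat_lit 22737213658) (nat_lit 20) (nat_lit 5) (nat_lit 22) (nat_lit 5) (nat_lit 23) (nat_lit 5) (nat_lit 327) (nat_lit 282) (nat_lit 111)) (XT.nd (nat_lit 78) (nat_lit 76) (nat_lit 0) (XT.lf (nat_lit 0) (nat_lit 1581124171) (nat_lit 76) (nat_lit 126088826922) (nat_lit 152) (nat_lit 5885620797) (nat_lit 19) (nat_lit 5) (nat_lit 20) (nat_lit 5) (nat_lit 21) (nat_lit 4) (nat_lit 328) (nat_lit 282) (nat_lit 110)) (XT.lf (nat_lit 0) (nat_lit 12539134798) (nat_lit 152) (nat_lit 88174431738) (nat_lit 76) (nat_lit 37959882778) (nat_lit 18) (nat_lit 5) (nat_lit 20) (nat_lit 5) (nat_lit 19) (nat_lit 5) (nat_lit 329) (nat_lit 282) (nat_lit 109)))))) (XT.nd (nat_lit 312) (nat_lit 304) (nat_lit 0) (XT.nd (nat_lit 156) (nat_lit 0) (nat_lit 0) (XT.nd (nat_lit 78) (nat_lit 152)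 (nat_lit 0) (XT.lf (nat_lit 0) (nat_lit 31686685591) (nat_lit 152) (nat_lit 42281951887) (nat_lit 76) (nat_lit 70073792233) (nat_lit 18) (nat_lit 5) (nat_lit 20) (nat_lit 5) (nat_lit 19) (nat_lit 5) (nat_lit 330) (nat_lit 282) (nat_lit 108)) (XT.lf (nat_lit 0) (nat_lit 6099368565) (nat_lit 152) (nat_lit 45786857282) (nat_lit 228) (nat_lit 97788903662) (nat_lit 16) (nat_lit 5) (nat_lit 18) (nat_lit 5) (nat_lit 19) (nat_lit 5) (nat_lit 331) (nat_lit 282) (nat_lit 107))) (XT.nd (nat_lit 78) (nat_lit 0) (nat_lit 0) (XT.lf (nat_lit 0) (nat_lit 58366703807) (nat_lit 152) (nat_lit 15444502277) (nat_lit 228) (nat_lit 81742485993) (nat_lit 16) (nat_lit 5) (nat_lit 18) (nat_lit 5) (nat_lit 19) (nat_lit 5) (nat_lit 332) (nat_lit 282) (nat_lit 106)) (XT.lf (nat_lit 0) (nat_lit 97088139670) (nat_lit 228) (nat_lit 48736022748) (nat_lit 76) (nat_lit 15889236023) (nat_lit 16) (nat_lit 5) (nat_lit 19)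 (nat_lit 5) (nat_lit 17) (nat_lit 4) (nat_lit 333) (nat_lit 282) (nat_lit 105)))) (XT.nd (nat_lit 156) (nat_lit 228) (nat_lit 0) (XT.nd (nat_lit 78) (nat_lit 0) (nat_lit 0) (XT.lf (nat_lit 0) (nat_lit 1945659462) (nat_lit 76) (nat_lit 119866274465) (nat_lit 152) (nat_lit 46355006339) (nat_lit 15) (nat_lit 5) (nat_lit 16) (nat_lit 5) (nat_lit 17) (nat_lit 4) (nat_lit 334) (nat_lit 282) (nat_lit 104)) (XT.lf (nat_lit 0) (nat_lit 56852528944) (nat_lit 76) (nat_lit 91744217514) (nat_lit 152) (nat_lit 26305172100) (nat_lit 15) (nat_lit 5) (nat_lit 16) (nat_lit 5) (nat_lit 17) (nat_lit 4) (nat_lit 335) (nat_lit 282) (nat_lit 103))) (XT.nd (nat_lit 78) (nat_lit 228) (nat_lit 0) (XT.lf (nat_lit 0) (nat_lit 114503883327) (nat_lit 76) (nat_lit 62216402415) (nat_lit 152) (nat_lit 5253386481) (nat_lit 15) (nat_lit 5) (nat_lit 16) (nat_lit 5) (nat_lit 17) (nat_lit 4) (nat_lit 336) (nat_lit 282)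 (nat_lit 102)) (XT.nd (nat_lit 78) (nat_lit 152) (nat_lit 0) (XT.lf (nat_lit 0) (nat_lit 16311153422) (nat_lit 152) (nat_lit 14625134148) (nat_lit 76) (nat_lit 158449597044) (nat_lit 14) (nat_lit 5) (nat_lit 16) (nat_lit 5) (nat_lit 15) (nat_lit 5) (nat_lit 337) (nat_lit 282) (nat_lit 101)) (XT.lf (nat_lit 0) (nat_lit 39476531064) (nat_lit 228) (nat_lit 155050480330) (nat_lit 76) (nat_lit 2602432887) (nat_lit 12) (nat_lit 5) (nat_lit 15) (nat_lit 5) (nat_lit 13) (nat_lit 4) (nat_lit 338) (nat_lit 282) (nat_lit 100))))))) (XT.nd (nat_lit 33306) (nat_lit 0) (nat_lit 4712) (XT.nd (nat_lit 312) (nat_lit 76) (nat_lit 0) (XT.nd (nat_lit 156) (nat_lit 76) (nat_lit 0) (XT.nd (nat_lit 78) (nat_lit 0) (nat_lit 0) (XT.lf (nat_lit 0) (nat_lit 64558604955) (nat_lit 228) (nat_lit 103633792934) (nat_lit 76) (nat_lit 37029863303) (nat_lit 12) (nat_lit 5) (nat_lit 15) (nat_lit 5) (nat_lit 13) (nat_lit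 4) (nat_lit 339) (nat_lit 282) (nat_lit 99)) (XT.lf (nat_lit 0) (nat_lit 90894335872) (nat_lit 228) (nat_lit 49647034155) (nat_lit 76) (nat_lit 73178371855) (nat_lit 12) (nat_lit 5) (nat_lit 15) (nat_lit 5) (nat_lit 13) (nat_lit 4) (nat_lit 340) (nat_lit 282) (nat_lit 98))) (XT.nd (nat_lit 78) (nat_lit 0) (nat_lit 0) (XT.lf (nat_lit 0) (nat_lit 7271055081) (nat_lit 76) (nat_lit 111388894402) (nat_lit 152) (nat_lit 103976492885) (nat_lit 11) (nat_lit 5) (nat_lit 12) (nat_lit 5) (nat_lit 13) (nat_lit 4) (nat_lit 341) (nat_lit 282) (nat_lit 97)) (XT.lf (nat_lit 0) (nat_lit 68757966768) (nat_lit 76) (nat_lit 79896257251) (nat_lit 152) (nat_lit 83302735392) (nat_lit 11) (nat_lit 5) (nat_lit 12) (nat_lit 5) (nat_lit 13) (nat_lit 4) (nat_lit 342) (nat_lit 282) (nat_lit 96)))) (XT.nd (nat_lit 156) (nat_lit 76) (nat_lit 0) (XT.nd (nat_lit 78) (nat_lit 0) (nat_lit 0) (XT.lf (nat_lit 0) (nat_lit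 133318543150) (nat_lit 76) (nat_lit 46829272652) (nat_lit 152) (nat_lit 61595706845) (nat_lit 11) (nat_lit 5) (nat_lit 12) (nat_lit 5) (nat_lit 13) (nat_lit 4) (nat_lit 343) (nat_lit 282) (nat_lit 95)) (XT.lf (nat_lit 0) (nat_lit 201106499886) (nat_lit 76) (nat_lit 12109209688) (nat_lit 152) (nat_lit 38803723843) (nat_lit 11) (nat_lit 5) (nat_lit 12) (nat_lit 5) (nat_lit 13) (nat_lit 4) (nat_lit 344) (nat_lit 282) (nat_lit 94))) (XT.nd (nat_lit 32682) (nat_lit 0) (nat_lit 4712) (XT.lf (nat_lit 0) (nat_lit 9394647452) (nat_lit 76) (nat_lit 239068786374) (nat_lit 76) (nat_lit 14319384580) (nat_lit 10) (nat_lit 4) (nat_lit 11) (nat_lit 5) (nat_lit 11) (nat_lit 4) (nat_lit 345) (nat_lit 282) (nat_lit 93)) (XT.nd (nat_lit 78) (nat_lit 0) (nat_lit 0) (XT.lf (nat_lit 0) (nat_lit 3725426929) (nat_lit 0) (nat_lit 3725426929) (nat_lit 684) (nat_lit 9294630895) (nat_lit 72) (nat_lit 5) (nat_lit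 72) (nat_lit 3) (nat_lit 81) (nat_lit 3) (nat_lit 283) (nat_lit 283) (nat_lit 154)) (XT.lf (nat_lit 0) (nat_lit 15440883232) (nat_lit 684) (nat_lit 11864990800) (nat_lit 760) (nat_lit 7013863256) (nat_lit 72) (nat_lit 5) (nat_lit 81) (nat_lit 3) (nat_lit 82) (nat_lit 5) (nat_lit 284) (nat_lit 283) (nat_lit 153)))))) (XT.nd (nat_lit 312) (nat_lit 0) (nat_lit 152) (XT.nd (nat_lit 156) (nat_lit 0) (nat_lit 76) (XT.nd (nat_lit 78) (nat_lit 0) (nat_lit 76) (XT.lf (nat_lit 76) (nat_lit 2990539375) (nat_lit 0) (nat_lit 13181915679) (nat_lit 760) (nat_lit 19009227717) (nat_lit 73) (nat_lit 5) (nat_lit 72) (nat_lit 5) (nat_lit 82) (nat_lit 5) (nat_lit 285) (nat_lit 283) (nat_lit 152)) (XT.lf (nat_lit 0) (nat_lit 17167328035) (nat_lit 684) (nat_lit 17107020698) (nat_lit 760) (nat_lit 1801051327) (nat_lit 73) (nat_lit 5) (nat_lit 82) (nat_lit 5) (nat_lit 83) (nat_lit 5) (nat_lit 286) (nat_lit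 283) (nat_lit 151))) (XT.nd (nat_lit 78) (nat_lit 0) (nat_lit 0) (XT.lf (nat_lit 0) (nat_lit 18424951607) (nat_lit 684) (nat_lit 1486775643) (nat_lit 760) (nat_lit 17091435765) (nat_lit 73) (nat_lit 5) (nat_lit 82) (nat_lit 5) (nat_lit 83) (nat_lit 5) (nat_lit 287) (nat_lit 283) (nat_lit 150)) (XT.lf (nat_lit 76) (nat_lit 15405667027) (nat_lit 0) (nat_lit 4577372076) (nat_lit 760) (nat_lit 17982405544) (nat_lit 74) (nat_lit 5) (nat_lit 73) (nat_lit 5) (nat_lit 83) (nat_lit 5) (nat_lit 288) (nat_lit 283) (nat_lit 149)))) (XT.nd (nat_lit 156) (nat_lit 0) (nat_lit 76) (XT.nd (nat_lit 78) (nat_lit 0) (nat_lit 0) (XT.lf (nat_lit 0) (nat_lit 21821723607) (nat_lit 684) (nat_lit 5962589730) (nat_lit 760) (nat_lit 11181401598) (nat_lit 74) (nat_lit 5) (nat_lit 83) (nat_lit 5) (nat_lit 84) (nat_lit 5) (nat_lit 289) (nat_lit 283) (nat_lit 148)) (XT.lf (nat_lit 76) (nat_lit 11764009372) (nat_lit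 0) (nat_lit 12244358459) (nat_lit 760) (nat_lit 15994838399) (nat_lit 75) (nat_lit 5) (nat_lit 74) (nat_lit 5) (nat_lit 84) (nat_lit 5) (nat_lit 290) (nat_lit 283) (nat_lit 147))) (XT.nd (nat_lit 78) (nat_lit 0) (nat_lit 0) (XT.lf (nat_lit 0) (nat_lit 26467989837) (nat_lit 684) (nat_lit 10570865229) (nat_lit 760) (nat_lit 4045543097) (nat_lit 75) (nat_lit 5) (nat_lit 84) (nat_lit 5) (nat_lit 85) (nat_lit 5) (nat_lit 291) (nat_lit 283) (nat_lit 146)) (XT.nd (nat_lit 78) (nat_lit 0) (nat_lit 0) (XT.lf (nat_lit 76) (nat_lit 8035387737) (nat_lit 0) (nat_lit 21338936096) (nat_lit 760) (nat_lit 12829147268) (nat_lit 76) (nat_lit 5) (nat_lit 75) (nat_lit 5) (nat_lit 85) (nat_lit 5) (nat_lit 292) (nat_lit 283) (nat_lit 145)) (XT.lf (nat_lit 76) (nat_lit 27937030738) (nat_lit 0) (nat_lit 4665602050) (nat_lit 760) (nat_lit 10767039558) (nat_lit 76) (nat_lit 5) (nat_lit 75) (nat_lit 5) (nat_lit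 85) (nat_lit 5) (nat_lit 293) (nat_lit 283) (nat_lit 144))))))))
noncomputable def xc224 : XT := (XT.nd (nat_lit 1326) (nat_lit 1368) (nat_lit 0) (XT.nd (nat_lit 624) (nat_lit 1140) (nat_lit 0) (XT.nd (nat_lit 312) (nat_lit 684) (nat_lit 0) (XT.nd (nat_lit 156) (nat_lit 380) (nat_lit 0) (XT.nd (nat_lit 78) (nat_lit 0) (nat_lit 0) (XT.lf (nat_lit 0) (nat_lit 4170613468) (nat_lit 684) (nat_lit 32085103665) (nat_lit 760) (nat_lit 8325305737) (nat_lit 67) (nat_lit 5) (nat_lit 76) (nat_lit 5) (nat_lit 77) (nat_lit 5) (nat_lit 294) (nat_lit 283) (nat_lit 143)) (XT.lf (nat_lit 0) (nat_lit 25208880838) (nat_lit 684) (nat_lit 15217017410) (nat_lit 760) (nat_lit 5410327415) (nat_lit 67) (nat_lit 5) (nat_lit 76) (nat_lit 5) (nat_lit 77) (nat_lit 5) (nat_lit 295) (nat_lit 283) (nat_lit 142))) (XT.nd (nat_lit 78) (nat_lit 76) (nat_lit 0) (XT.lf (nat_lit 0) (nat_lit 107420804) (nat_lit 304) (nat_lit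 44735729031) (nat_lit 380) (nat_lit 2309117232) (nat_lit 63) (nat_lit 5) (nat_lit 67) (nat_lit 5) (nat_lit 68) (nat_lit 5) (nat_lit 296) (nat_lit 283) (nat_lit 141)) (XT.lf (nat_lit 0) (nat_lit 1519326936) (nat_lit 380) (nat_lit 26193544445) (nat_lit 76) (nat_lit 20790381293) (nat_lit 62) (nat_lit 5) (nat_lit 67) (nat_lit 5) (nat_lit 63) (nat_lit 5) (nat_lit 297) (nat_lit 283) (nat_lit 140)))) (XT.nd (nat_lit 156) (nat_lit 304) (nat_lit 0) (XT.nd (nat_lit 78) (nat_lit 380) (nat_lit 0) (XT.lf (nat_lit 0) (nat_lit 5459656735) (nat_lit 380) (nat_lit 4339423676) (nat_lit 76) (nat_lit 40120916839) (nat_lit 62) (nat_lit 5) (nat_lit 67) (nat_lit 5) (nat_lit 63) (nat_lit 5) (nat_lit 298) (nat_lit 283) (nat_lit 139)) (XT.lf (nat_lit 0) (nat_lit 10040848175) (nat_lit 456) (nat_lit 32317483159) (nat_lit 76) (nat_lit 9027060845) (nat_lit 57) (nat_lit 5) (nat_lit 63) (nat_lit 5) (nat_lit 58) (nat_lit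 5) (nat_lit 299) (nat_lit 283) (nat_lit 138))) (XT.nd (nat_lit 78) (nat_lit 304) (nat_lit 0) (XT.lf (nat_lit 0) (nat_lit 15084652141) (nat_lit 456) (nat_lit 9287831466) (nat_lit 76) (nat_lit 28539900728) (nat_lit 57) (nat_lit 5) (nat_lit 63) (nat_lit 5) (nat_lit 58) (nat_lit 5) (nat_lit 300) (nat_lit 283) (nat_lit 137)) (XT.lf (nat_lit 0) (nat_lit 15383905730) (nat_lit 304) (nat_lit 5235228641) (nat_lit 380) (nat_lit 33884672205) (nat_lit 53) (nat_lit 5) (nat_lit 57) (nat_lit 5) (nat_lit 58) (nat_lit 5) (nat_lit 301) (nat_lit 283) (nat_lit 136))))) (XT.nd (nat_lit 312) (nat_lit 608) (nat_lit 0) (XT.nd (nat_lit 156) (nat_lit 228) (nat_lit 0) (XT.nd (nat_lit 78) (nat_lit 304) (nat_lit 0) (XT.lf (nat_lit 0) (nat_lit 26820556199) (nat_lit 380) (nat_lit 14791655083) (nat_lit 76) (nat_lit 14543082523) (nat_lit 53) (nat_lit 5) (nat_lit 58) (nat_lit 5) (nat_lit 54) (nat_lit 5) (nat_lit 302)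 (nat_lit 283) (nat_lit 135)) (XT.lf (nat_lit 0) (nat_lit 11018079588) (nat_lit 304) (nat_lit 22570248505) (nat_lit 380) (nat_lit 24288217783) (nat_lit 49) (nat_lit 5) (nat_lit 53) (nat_lit 5) (nat_lit 54) (nat_lit 5) (nat_lit 303) (nat_lit 283) (nat_lit 134))) (XT.nd (nat_lit 78) (nat_lit 228) (nat_lit 0) (XT.lf (nat_lit 0) (nat_lit 38630114725) (nat_lit 304) (nat_lit 2313357951) (nat_lit 380) (nat_lit 18727942886) (nat_lit 49) (nat_lit 5) (nat_lit 53) (nat_lit 5) (nat_lit 54) (nat_lit 5) (nat_lit 304) (nat_lit 283) (nat_lit 133)) (XT.lf (nat_lit 0) (nat_lit 5959800869) (nat_lit 228) (nat_lit 43094134648) (nat_lit 304) (nat_lit 12482719182) (nat_lit 46) (nat_lit 5) (nat_lit 49) (nat_lit 5) (nat_lit 50) (nat_lit 5) (nat_lit 305) (nat_lit 283) (nat_lit 132)))) (XT.nd (nat_lit 156) (nat_lit 532) (nat_lit 0) (XT.nd (nat_lit 78) (nat_lit 76) (nat_lit 0) (XT.lf (nat_lit 0) (nat_lit 35000603181)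 (nat_lit 228) (nat_lit 22961567604) (nat_lit 304) (nat_lit 5513376369) (nat_lit 46) (nat_lit 5) (nat_lit 49) (nat_lit 5) (nat_lit 50) (nat_lit 5) (nat_lit 306) (nat_lit 283) (nat_lit 131)) (XT.lf (nat_lit 0) (nat_lit 1745314412) (nat_lit 304) (nat_lit 47762476) (nat_lit 76) (nat_lit 63716970500) (nat_lit 45) (nat_lit 5) (nat_lit 49) (nat_lit 5) (nat_lit 46) (nat_lit 5) (nat_lit 307) (nat_lit 283) (nat_lit 130))) (XT.nd (nat_lit 78) (nat_lit 228) (nat_lit 0) (XT.lf (nat_lit 0) (nat_lit 9987889952) (nat_lit 380) (nat_lit 37255095592) (nat_lit 76) (nat_lit 20358459444) (nat_lit 41) (nat_lit 5) (nat_lit 46) (nat_lit 5) (nat_lit 42) (nat_lit 5) (nat_lit 308) (nat_lit 283) (nat_lit 129)) (XT.nd (nat_lit 78) (nat_lit 228) (nat_lit 0) (XT.lf (nat_lit 0) (nat_lit 18671543482) (nat_lit 380) (nat_lit 7566564356) (nat_lit 76) (nat_lit 43557860315) (nat_lit 41) (nat_lit 5) (nat_lit 46) (nat_lit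 5) (nat_lit 42) (nat_lit 5) (nat_lit 309) (nat_lit 283) (nat_lit 128)) (XT.lf (nat_lit 0) (nat_lit 24385343939) (nat_lit 228) (nat_lit 3783552043) (nat_lit 304) (nat_lit 43912348679) (nat_lit 38) (nat_lit 5) (nat_lit 41) (nat_lit 5) (nat_lit 42) (nat_lit 5) (nat_lit 310) (nat_lit 283) (nat_lit 127))))))) (XT.nd (nat_lit 702) (nat_lit 532) (nat_lit 0) (XT.nd (nat_lit 312) (nat_lit 456) (nat_lit 0) (XT.nd (nat_lit 156) (nat_lit 152) (nat_lit 0) (XT.nd (nat_lit 78) (nat_lit 228) (nat_lit 0) (XT.lf (nat_lit 0) (nat_lit 38579217319) (nat_lit 304) (nat_lit 16589536846) (nat_lit 76) (nat_lit 19290128621) (nat_lit 38) (nat_lit 5) (nat_lit 42) (nat_lit 5) (nat_lit 39) (nat_lit 5) (nat_lit 311) (nat_lit 283) (nat_lit 126)) (XT.lf (nat_lit 0) (nat_lit 16537947506) (nat_lit 228) (nat_lit 33291213941) (nat_lit 304) (nat_lit 27110288755) (nat_lit 35) (nat_lit 5) (nat_lit 38) (nat_lit 5) (nat_lit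 39) (nat_lit 5) (nat_lit 312) (nat_lit 283) (nat_lit 125))) (XT.nd (nat_lit 78) (nat_lit 152) (nat_lit 0) (XT.lf (nat_lit 0) (nat_lit 51896291491) (nat_lit 228) (nat_lit 10025171260) (nat_lit 304) (nat_lit 17608592827) (nat_lit 35) (nat_lit 5) (nat_lit 38) (nat_lit 5) (nat_lit 39) (nat_lit 5) (nat_lit 313) (nat_lit 283) (nat_lit 124)) (XT.lf (nat_lit 0) (nat_lit 6762468207) (nat_lit 152) (nat_lit 68185336078) (nat_lit 228) (nat_lit 7285918146) (nat_lit 33) (nat_lit 5) (nat_lit 35) (nat_lit 5) (nat_lit 36) (nat_lit 5) (nat_lit 314) (nat_lit 283) (nat_lit 123)))) (XT.nd (nat_lit 156) (nat_lit 380) (nat_lit 0) (XT.nd (nat_lit 78) (nat_lit 0) (nat_lit 0) (XT.lf (nat_lit 0) (nat_lit 4078149009) (nat_lit 228) (nat_lit 41440226845) (nat_lit 76) (nat_lit 39519476809) (nat_lit 32) (nat_lit 5) (nat_lit 35) (nat_lit 5) (nat_lit 33) (nat_lit 5) (nat_lit 315) (nat_lit 283) (nat_lit 122)) (XT.lf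 (nat_lit 0) (nat_lit 15764577464) (nat_lit 228) (nat_lit 5828478097) (nat_lit 76) (nat_lit 66383213285) (nat_lit 32) (nat_lit 5) (nat_lit 35) (nat_lit 5) (nat_lit 33) (nat_lit 5) (nat_lit 316) (nat_lit 283) (nat_lit 121))) (XT.nd (nat_lit 78) (nat_lit 152) (nat_lit 0) (XT.lf (nat_lit 0) (nat_lit 28606889830) (nat_lit 304) (nat_lit 58493495513) (nat_lit 76) (nat_lit 3932644397) (nat_lit 29) (nat_lit 5) (nat_lit 33) (nat_lit 5) (nat_lit 30) (nat_lit 5) (nat_lit 317) (nat_lit 283) (nat_lit 120)) (XT.nd (nat_lit 78) (nat_lit 152) (nat_lit 0) (XT.lf (nat_lit 0) (nat_lit 42544706632) (nat_lit 304) (nat_lit 21566340161) (nat_lit 76) (nat_lit 30108914378) (nat_lit 29) (nat_lit 5) (nat_lit 33) (nat_lit 5) (nat_lit 30) (nat_lit 5) (nat_lit 318) (nat_lit 283) (nat_lit 119)) (XT.lf (nat_lit 0) (nat_lit 17774798496) (nat_lit 152) (nat_lit 39681252137) (nat_lit 228) (nat_lit 40096358564) (nat_lit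 27) (nat_lit 5) (nat_lit 29) (nat_lit 5) (nat_lit 30) (nat_lit 5) (nat_lit 319) (nat_lit 283) (nat_lit 118)))))) (XT.nd (nat_lit 312) (nat_lit 304) (nat_lit 0) (XT.nd (nat_lit 156) (nat_lit 228) (nat_lit 0) (XT.nd (nat_lit 78) (nat_lit 0) (nat_lit 0) (XT.lf (nat_lit 0) (nat_lit 59830470329) (nat_lit 152) (nat_lit 13646872016) (nat_lit 228) (nat_lit 27555920005) (nat_lit 27) (nat_lit 5) (nat_lit 29) (nat_lit 5) (nat_lit 30) (nat_lit 5) (nat_lit 320) (nat_lit 283) (nat_lit 117)) (XT.lf (nat_lit 0) (nat_lit 90512604720) (nat_lit 228) (nat_lit 914194515) (nat_lit 76) (nat_lit 13250715290) (nat_lit 27) (nat_lit 5) (nat_lit 30) (nat_lit 5) (nat_lit 28) (nat_lit 5) (nat_lit 321) (nat_lit 283) (nat_lit 116))) (XT.nd (nat_lit 78) (nat_lit 0) (nat_lit 0) (XT.lf (nat_lit 0) (nat_lit 800399734) (nat_lit 228) (nat_lit 65947543764) (nat_lit 76) (nat_lit 41711048335) (nat_lit 24) (nat_lit 5) (nat_lit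 27) (nat_lit 5) (nat_lit 25) (nat_lit 5) (nat_lit 322) (nat_lit 283) (nat_lit 115)) (XT.lf (nat_lit 0) (nat_lit 16052900214) (nat_lit 228) (nat_lit 24522307040) (nat_lit 76) (nat_lit 71841978646) (nat_lit 24) (nat_lit 5) (nat_lit 27) (nat_lit 5) (nat_lit 25) (nat_lit 5) (nat_lit 323) (nat_lit 283) (nat_lit 114)))) (XT.nd (nat_lit 156) (nat_lit 152) (nat_lit 0) (XT.nd (nat_lit 78) (nat_lit 0) (nat_lit 0) (XT.lf (nat_lit 0) (nat_lit 19600398821) (nat_lit 152) (nat_lit 12772904224) (nat_lit 228) (nat_lit 84184724131) (nat_lit 22) (nat_lit 5) (nat_lit 24) (nat_lit 5) (nat_lit 25) (nat_lit 5) (nat_lit 324) (nat_lit 283) (nat_lit 113)) (XT.lf (nat_lit 0) (nat_lit 50187457956) (nat_lit 228) (nat_lit 54368850361) (nat_lit 76) (nat_lit 16315716912) (nat_lit 22) (nat_lit 5) (nat_lit 25) (nat_lit 5) (nat_lit 23) (nat_lit 5) (nat_lit 325) (nat_lit 283) (nat_lit 112))) (XT.nd (nat_lit 78) (nat_lit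 152) (nat_lit 0) (XT.lf (nat_lit 0) (nat_lit 69101019172) (nat_lit 228) (nat_lit 9861112029) (nat_lit 76) (nat_lit 46429158298) (nat_lit 22) (nat_lit 5) (nat_lit 25) (nat_lit 5) (nat_lit 23) (nat_lit 5) (nat_lit 326) (nat_lit 283) (nat_lit 111)) (XT.nd (nat_lit 78) (nat_lit 0) (nat_lit 0) (XT.lf (nat_lit 0) (nat_lit 38090099330) (nat_lit 152) (nat_lit 51464192020) (nat_lit 228) (nat_lit 40552525176) (nat_lit 20) (nat_lit 5) (nat_lit 22) (nat_lit 5) (nat_lit 23) (nat_lit 5) (nat_lit 327) (nat_lit 283) (nat_lit 110)) (XT.lf (nat_lit 0) (nat_lit 88780208550) (nat_lit 152) (nat_lit 22416376539) (nat_lit 228) (nat_lit 23853218046) (nat_lit 20) (nat_lit 5) (nat_lit 22) (nat_lit 5) (nat_lit 23) (nat_lit 5) (nat_lit 328) (nat_lit 283) (nat_lit 109))))))))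
noncomputable def xc225 : XT := (XT.nd (nat_lit 34086) (nat_lit 0) (nat_lit 3192) (XT.nd (nat_lit 624) (nat_lit 304) (nat_lit 0) (XT.nd (nat_lit 312) (nat_lit 76) (nat_lit 0) (XT.nd (nat_lit 156) (nat_lit 152) (nat_lit 0) (XT.nd (nat_lit 78) (nat_lit 76) (nat_lit 0) (XT.lf (nat_lit 0) (nat_lit 1691825925) (nat_lit 76) (nat_lit 132381173369) (nat_lit 152) (nat_lit 6159340569) (nat_lit 19) (nat_lit 5) (nat_lit 20) (nat_lit 5) (nat_lit 21) (nat_lit 4) (nat_lit 329) (nat_lit 283) (nat_lit 108)) (XT.lf (nat_lit 0) (nat_lit 13185046946) (nat_lit 152) (nat_lit 92552357947) (nat_lit 76) (nat_lit 39868739104) (nat_lit 18) (nat_lit 5) (nat_lit 20) (nat_lit 5) (nat_lit 19) (nat_lit 5) (nat_lit 330) (nat_lit 283) (nat_lit 107))) (XT.nd (nat_lit 78) (nat_lit 152) (nat_lit 0) (XT.lf (nat_lit 0) (nat_lit 33289072641) (nat_lit 152) (nat_lit 44366720549) (nat_lit 76) (nat_lit 73587826785) (nat_lit 18)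 (nat_lit 5) (nat_lit 20) (nat_lit 5) (nat_lit 19) (nat_lit 5) (nat_lit 331) (nat_lit 283) (nat_lit 106)) (XT.lf (nat_lit 0) (nat_lit 6433192878) (nat_lit 152) (nat_lit 48064987896) (nat_lit 228) (nat_lit 102659795805) (nat_lit 16) (nat_lit 5) (nat_lit 18) (nat_lit 5) (nat_lit 19) (nat_lit 5) (nat_lit 332) (nat_lit 283) (nat_lit 105)))) (XT.nd (nat_lit 156) (nat_lit 76) (nat_lit 0) (XT.nd (nat_lit 78) (nat_lit 0) (nat_lit 0) (XT.lf (nat_lit 0) (nat_lit 61312520792) (nat_lit 152) (nat_lit 16206049058) (nat_lit 228) (nat_lit 85811940731) (nat_lit 16) (nat_lit 5) (nat_lit 18) (nat_lit 5) (nat_lit 19) (nat_lit 5) (nat_lit 333) (nat_lit 283) (nat_lit 104)) (XT.lf (nat_lit 0) (nat_lit 101958708730) (nat_lit 228) (nat_lit 51145984670) (nat_lit 76) (nat_lit 16693542166) (nat_lit 16) (nat_lit 5) (nat_lit 19) (nat_lit 5) (nat_lit 17) (nat_lit 4) (nat_lit 334) (nat_lit 283) (nat_lit 103))) (XT.nd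 (nat_lit 78) (nat_lit 0) (nat_lit 0) (XT.lf (nat_lit 0) (nat_lit 2069348760) (nat_lit 76) (nat_lit 125848986595) (nat_lit 152) (nat_lit 48656138173) (nat_lit 15) (nat_lit 5) (nat_lit 16) (nat_lit 5) (nat_lit 17) (nat_lit 4) (nat_lit 335) (nat_lit 283) (nat_lit 102)) (XT.lf (nat_lit 0) (nat_lit 59720304271) (nat_lit 76) (nat_lit 96321331634) (nat_lit 152) (nat_lit 27604603578) (nat_lit 15) (nat_lit 5) (nat_lit 16) (nat_lit 5) (nat_lit 17) (nat_lit 4) (nat_lit 336) (nat_lit 283) (nat_lit 101))))) (XT.nd (nat_lit 312) (nat_lit 76) (nat_lit 0) (XT.nd (nat_lit 156) (nat_lit 152) (nat_lit 0) (XT.nd (nat_lit 78) (nat_lit 76) (nat_lit 0) (XT.lf (nat_lit 0) (nat_lit 120253028808) (nat_lit 76) (nat_lit 65317606578) (nat_lit 152) (nat_lit 5500982351) (nat_lit 15) (nat_lit 5) (nat_lit 16) (nat_lit 5) (nat_lit 17) (nat_lit 4) (nat_lit 337) (nat_lit 283) (nat_lit 100)) (XT.lf (nat_lit 0) (nat_lit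 17140607293) (nat_lit 152) (nat_lit 15333101261) (nat_lit 76) (nat_lit 166380756134) (nat_lit 14) (nat_lit 5) (nat_lit 16) (nat_lit 5) (nat_lit 15) (nat_lit 5) (nat_lit 338) (nat_lit 283) (nat_lit 99))) (XT.nd (nat_lit 78) (nat_lit 0) (nat_lit 0) (XT.lf (nat_lit 0) (nat_lit 41464095383) (nat_lit 228) (nat_lit 162779537893) (nat_lit 76) (nat_lit 2741577906) (nat_lit 12) (nat_lit 5) (nat_lit 15) (nat_lit 5) (nat_lit 13) (nat_lit 4) (nat_lit 339) (nat_lit 283) (nat_lit 98)) (XT.lf (nat_lit 0) (nat_lit 67799618789) (nat_lit 228) (nat_lit 108793133578) (nat_lit 76) (nat_lit 38889950158) (nat_lit 12) (nat_lit 5) (nat_lit 15) (nat_lit 5) (nat_lit 13) (nat_lit 4) (nat_lit 340) (nat_lit 283) (nat_lit 97)))) (XT.nd (nat_lit 156) (nat_lit 0) (nat_lit 0) (XT.nd (nat_lit 78) (nat_lit 76) (nat_lit 0) (XT.lf (nat_lit 0) (nat_lit 95451513224) (nat_lit 228) (nat_lit 52108101097) (nat_lit 76) (nat_lit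 76845474914) (nat_lit 12) (nat_lit 5) (nat_lit 15) (nat_lit 5) (nat_lit 13) (nat_lit 4) (nat_lit 341) (nat_lit 283) (nat_lit 96)) (XT.lf (nat_lit 0) (nat_lit 7655549298) (nat_lit 76) (nat_lit 116949591812) (nat_lit 152) (nat_lit 109162497752) (nat_lit 11) (nat_lit 5) (nat_lit 12) (nat_lit 5) (nat_lit 13) (nat_lit 4) (nat_lit 342) (nat_lit 283) (nat_lit 95))) (XT.nd (nat_lit 78) (nat_lit 0) (nat_lit 0) (XT.lf (nat_lit 0) (nat_lit 72215809356) (nat_lit 76) (nat_lit 83882739343) (nat_lit 152) (nat_lit 87455662850) (nat_lit 11) (nat_lit 5) (nat_lit 12) (nat_lit 5) (nat_lit 13) (nat_lit 4) (nat_lit 343) (nat_lit 283) (nat_lit 94)) (XT.nd (nat_lit 32838) (nat_lit 0) (nat_lit 4636) (XT.lf (nat_lit 0) (nat_lit 140003464831) (nat_lit 76) (nat_lit 49162802217) (nat_lit 152) (nat_lit 64663864271) (nat_lit 11) (nat_lit 5) (nat_lit 12) (nat_lit 5) (nat_lit 13) (nat_lit 4) (nat_lit 344) (nat_lit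 283) (nat_lit 93)) (XT.lf (nat_lit 0) (nat_lit 3938033584) (nat_lit 0) (nat_lit 3938033584) (nat_lit 684) (nat_lit 9703886205) (nat_lit 72) (nat_lit 5) (nat_lit 72) (nat_lit 3) (nat_lit 81) (nat_lit 3) (nat_lit 284) (nat_lit 284) (nat_lit 152))))))) (XT.nd (nat_lit 702) (nat_lit 1444) (nat_lit 0) (XT.nd (nat_lit 312) (nat_lit 0) (nat_lit 76) (XT.nd (nat_lit 156) (nat_lit 0) (nat_lit 76) (XT.nd (nat_lit 78) (nat_lit 0) (nat_lit 0) (XT.lf (nat_lit 0) (nat_lit 16312469203) (nat_lit 684) (nat_lit 12401950638) (nat_lit 760) (nat_lit 7315999438) (nat_lit 72) (nat_lit 5) (nat_lit 81) (nat_lit 3) (nat_lit 82) (nat_lit 5) (nat_lit 285) (nat_lit 284) (nat_lit 151)) (XT.lf (nat_lit 76) (nat_lit 3195448148) (nat_lit 0) (nat_lit 13881296048) (nat_lit 760) (nat_lit 19858927222) (nat_lit 73) (nat_lit 5) (nat_lit 72) (nat_lit 5) (nat_lit 82) (nat_lit 5) (nat_lit 286) (nat_lit 284) (nat_lit 150))) (XT.nd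 (nat_lit 78) (nat_lit 0) (nat_lit 0) (XT.lf (nat_lit 0) (nat_lit 18116206278) (nat_lit 684) (nat_lit 17904175302) (nat_lit 760) (nat_lit 1853965582) (nat_lit 73) (nat_lit 5) (nat_lit 82) (nat_lit 5) (nat_lit 83) (nat_lit 5) (nat_lit 287) (nat_lit 284) (nat_lit 149)) (XT.lf (nat_lit 0) (nat_lit 19432400941) (nat_lit 684) (nat_lit 1505689253) (nat_lit 760) (nat_lit 17910637733) (nat_lit 73) (nat_lit 5) (nat_lit 82) (nat_lit 5) (nat_lit 83) (nat_lit 5) (nat_lit 288) (nat_lit 284) (nat_lit 148)))) (XT.nd (nat_lit 156) (nat_lit 0) (nat_lit 76) (XT.nd (nat_lit 78) (nat_lit 0) (nat_lit 76) (XT.lf (nat_lit 76) (nat_lit 16230481596) (nat_lit 0) (nat_lit 4834657755) (nat_lit 760) (nat_lit 18794160446) (nat_lit 74) (nat_lit 5) (nat_lit 73) (nat_lit 5) (nat_lit 83) (nat_lit 5) (nat_lit 289) (nat_lit 284) (nat_lit 147)) (XT.lf (nat_lit 0) (nat_lit 22991385618) (nat_lit 684) (nat_lit 6204155435)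 (nat_lit 760) (nat_lit 11714274010) (nat_lit 74) (nat_lit 5) (nat_lit 83) (nat_lit 5) (nat_lit 84) (nat_lit 5) (nat_lit 290) (nat_lit 284) (nat_lit 146))) (XT.nd (nat_lit 78) (nat_lit 0) (nat_lit 76) (XT.lf (nat_lit 76) (nat_lit 12407861302) (nat_lit 0) (nat_lit 12876627921) (nat_lit 760) (nat_lit 16714847573) (nat_lit 75) (nat_lit 5) (nat_lit 74) (nat_lit 5) (nat_lit 84) (nat_lit 5) (nat_lit 291) (nat_lit 284) (nat_lit 145)) (XT.nd (nat_lit 78) (nat_lit 0) (nat_lit 0) (XT.lf (nat_lit 0) (nat_lit 27863189272) (nat_lit 684) (nat_lit 11042271092) (nat_lit 760) (nat_lit 4229334762) (nat_lit 75) (nat_lit 5) (nat_lit 84) (nat_lit 5) (nat_lit 85) (nat_lit 5) (nat_lit 292) (nat_lit 284) (nat_lit 144)) (XT.lf (nat_lit 76) (nat_lit 8493372951) (nat_lit 0) (nat_lit 22418925658) (nat_lit 760) (nat_lit 13397661261) (nat_lit 76) (nat_lit 5) (nat_lit 75) (nat_lit 5) (nat_lit 85) (nat_lit 5) (nat_lit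 293) (nat_lit 284) (nat_lit 143)))))) (XT.nd (nat_lit 312) (nat_lit 760) (nat_lit 0) (XT.nd (nat_lit 156) (nat_lit 304) (nat_lit 0) (XT.nd (nat_lit 78) (nat_lit 608) (nat_lit 0) (XT.lf (nat_lit 76) (nat_lit 29387421159) (nat_lit 0) (nat_lit 4911303825) (nat_lit 760) (nat_lit 11235921660) (nat_lit 76) (nat_lit 5) (nat_lit 75) (nat_lit 5) (nat_lit 85) (nat_lit 5) (nat_lit 294) (nat_lit 284) (nat_lit 142)) (XT.lf (nat_lit 0) (nat_lit 4435463022) (nat_lit 684) (nat_lit 33696554139) (nat_lit 760) (nat_lit 8674679914) (nat_lit 67) (nat_lit 5) (nat_lit 76) (nat_lit 5) (nat_lit 77) (nat_lit 5) (nat_lit 295) (nat_lit 284) (nat_lit 141))) (XT.nd (nat_lit 78) (nat_lit 304) (nat_lit 0) (XT.lf (nat_lit 0) (nat_lit 26522961908) (nat_lit 684) (nat_lit 15984720939) (nat_lit 760) (nat_lit 5617137967) (nat_lit 67) (nat_lit 5) (nat_lit 76) (nat_lit 5) (nat_lit 77) (nat_lit 5) (nat_lit 296) (nat_lit 284)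 (nat_lit 140)) (XT.lf (nat_lit 0) (nat_lit 168833282) (nat_lit 304) (nat_lit 46974856340) (nat_lit 380) (nat_lit 2363089162) (nat_lit 63) (nat_lit 5) (nat_lit 67) (nat_lit 5) (nat_lit 68) (nat_lit 5) (nat_lit 297) (nat_lit 284) (nat_lit 139)))) (XT.nd (nat_lit 156) (nat_lit 684) (nat_lit 0) (XT.nd (nat_lit 78) (nat_lit 0) (nat_lit 0) (XT.lf (nat_lit 0) (nat_lit 1651975246) (nat_lit 380) (nat_lit 27447809155) (nat_lit 76) (nat_lit 21825631256) (nat_lit 62) (nat_lit 5) (nat_lit 67) (nat_lit 5) (nat_lit 63) (nat_lit 5) (nat_lit 298) (nat_lit 284) (nat_lit 138)) (XT.lf (nat_lit 0) (nat_lit 5786622394) (nat_lit 380) (nat_lit 4503621039) (nat_lit 76) (nat_lit 42122896869) (nat_lit 62) (nat_lit 5) (nat_lit 67) (nat_lit 5) (nat_lit 63) (nat_lit 5) (nat_lit 299) (nat_lit 284) (nat_lit 137))) (XT.nd (nat_lit 78) (nat_lit 304) (nat_lit 0) (XT.lf (nat_lit 0) (nat_lit 10595108766) (nat_lit 456)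 (nat_lit 33878668695) (nat_lit 76) (nat_lit 9478123258) (nat_lit 57) (nat_lit 5) (nat_lit 63) (nat_lit 5) (nat_lit 58) (nat_lit 5) (nat_lit 300) (nat_lit 284) (nat_lit 136)) (XT.nd (nat_lit 78) (nat_lit 304) (nat_lit 0) (XT.lf (nat_lit 0) (nat_lit 15888616350) (nat_lit 456) (nat_lit 9700138637) (nat_lit 76) (nat_lit 29966618974) (nat_lit 57) (nat_lit 5) (nat_lit 63) (nat_lit 5) (nat_lit 58) (nat_lit 5) (nat_lit 301) (nat_lit 284) (nat_lit 135)) (XT.lf (nat_lit 0) (nat_lit 16204345347) (nat_lit 304) (nat_lit 5493909240) (nat_lit 380) (nat_lit 35528197943) (nat_lit 53) (nat_lit 5) (nat_lit 57) (nat_lit 5) (nat_lit 58) (nat_lit 5) (nat_lit 302) (nat_lit 284) (nat_lit 134))))))))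
noncomputable def xc226 : XT := (XT.nd (nat_lit 1326) (nat_lit 1064) (nat_lit 0) (XT.nd (nat_lit 624) (nat_lit 912) (nat_lit 0) (XT.nd (nat_lit 312) (nat_lit 380) (nat_lit 0) (XT.nd (nat_lit 156) (nat_lit 228) (nat_lit 0) (XT.nd (nat_lit 78) (nat_lit 304) (nat_lit 0) (XT.lf (nat_lit 0) (nat_lit 28207499817) (nat_lit 380) (nat_lit 15480056308) (nat_lit 76) (nat_lit 15273076866) (nat_lit 53) (nat_lit 5) (nat_lit 58) (nat_lit 5) (nat_lit 54) (nat_lit 5) (nat_lit 303) (nat_lit 284) (nat_lit 133)) (XT.lf (nat_lit 0) (nat_lit 11619339588) (nat_lit 304) (nat_lit 23692920449) (nat_lit 380) (nat_lit 25455763818) (nat_lit 49) (nat_lit 5) (nat_lit 53) (nat_lit 5) (nat_lit 54) (nat_lit 5) (nat_lit 304) (nat_lit 284) (nat_lit 132))) (XT.nd (nat_lit 78) (nat_lit 228) (nat_lit 0) (XT.lf (nat_lit 0) (nat_lit 40609578577) (nat_lit 304) (nat_lit 2423463485) (nat_lit 380) (nat_lit 19619706836) (nat_lit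 49) (nat_lit 5) (nat_lit 53) (nat_lit 5) (nat_lit 54) (nat_lit 5) (nat_lit 305) (nat_lit 284) (nat_lit 131)) (XT.lf (nat_lit 0) (nat_lit 6307091421) (nat_lit 228) (nat_lit 45240770206) (nat_lit 304) (nat_lit 13063452287) (nat_lit 46) (nat_lit 5) (nat_lit 49) (nat_lit 5) (nat_lit 50) (nat_lit 5) (nat_lit 306) (nat_lit 284) (nat_lit 130)))) (XT.nd (nat_lit 156) (nat_lit 304) (nat_lit 0) (XT.nd (nat_lit 78) (nat_lit 76) (nat_lit 0) (XT.lf (nat_lit 0) (nat_lit 36797586205) (nat_lit 228) (nat_lit 24101959152) (nat_lit 304) (nat_lit 5747709136) (nat_lit 46) (nat_lit 5) (nat_lit 49) (nat_lit 5) (nat_lit 50) (nat_lit 5) (nat_lit 307) (nat_lit 284) (nat_lit 129)) (XT.lf (nat_lit 0) (nat_lit 1870687789) (nat_lit 304) (nat_lit 4076779) (nat_lit 76) (nat_lit 66908783012) (nat_lit 45) (nat_lit 5) (nat_lit 49) (nat_lit 5) (nat_lit 46) (nat_lit 5) (nat_lit 308) (nat_lit 284) (nat_lit 128))) (XT.nd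 (nat_lit 78) (nat_lit 0) (nat_lit 0) (XT.lf (nat_lit 0) (nat_lit 10524415248) (nat_lit 380) (nat_lit 39070707508) (nat_lit 76) (nat_lit 21384445755) (nat_lit 41) (nat_lit 5) (nat_lit 46) (nat_lit 5) (nat_lit 42) (nat_lit 5) (nat_lit 309) (nat_lit 284) (nat_lit 127)) (XT.lf (nat_lit 0) (nat_lit 19640483322) (nat_lit 380) (nat_lit 7899994609) (nat_lit 76) (nat_lit 45743432701) (nat_lit 41) (nat_lit 5) (nat_lit 46) (nat_lit 5) (nat_lit 42) (nat_lit 5) (nat_lit 310) (nat_lit 284) (nat_lit 126))))) (XT.nd (nat_lit 312) (nat_lit 456) (nat_lit 0) (XT.nd (nat_lit 156) (nat_lit 228) (nat_lit 0) (XT.nd (nat_lit 78) (nat_lit 0) (nat_lit 0) (XT.lf (nat_lit 0) (nat_lit 25648784940) (nat_lit 228) (nat_lit 3962924246) (nat_lit 304) (nat_lit 46071795671) (nat_lit 38) (nat_lit 5) (nat_lit 41) (nat_lit 5) (nat_lit 42) (nat_lit 5) (nat_lit 311) (nat_lit 284) (nat_lit 125)) (XT.lf (nat_lit 0) (nat_lit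 40541055801) (nat_lit 304) (nat_lit 17375372974) (nat_lit 76) (nat_lit 20263674638) (nat_lit 38) (nat_lit 5) (nat_lit 42) (nat_lit 5) (nat_lit 39) (nat_lit 5) (nat_lit 312) (nat_lit 284) (nat_lit 124))) (XT.nd (nat_lit 78) (nat_lit 0) (nat_lit 0) (XT.lf (nat_lit 0) (nat_lit 17407781714) (nat_lit 228) (nat_lit 34944820184) (nat_lit 304) (nat_lit 28432145853) (nat_lit 35) (nat_lit 5) (nat_lit 38) (nat_lit 5) (nat_lit 39) (nat_lit 5) (nat_lit 313) (nat_lit 284) (nat_lit 123)) (XT.lf (nat_lit 0) (nat_lit 54531998287) (nat_lit 228) (nat_lit 10515997010) (nat_lit 304) (nat_lit 18456967860) (nat_lit 35) (nat_lit 5) (nat_lit 38) (nat_lit 5) (nat_lit 39) (nat_lit 5) (nat_lit 314) (nat_lit 284) (nat_lit 122)))) (XT.nd (nat_lit 156) (nat_lit 228) (nat_lit 0) (XT.nd (nat_lit 78) (nat_lit 76) (nat_lit 0) (XT.lf (nat_lit 0) (nat_lit 7142233500) (nat_lit 152) (nat_lit 71582775235) (nat_lit 228) (nat_lit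 7618840316) (nat_lit 33) (nat_lit 5) (nat_lit 35) (nat_lit 5) (nat_lit 36) (nat_lit 5) (nat_lit 315) (nat_lit 284) (nat_lit 121)) (XT.lf (nat_lit 0) (nat_lit 4310979871) (nat_lit 228) (nat_lit 43471560519) (nat_lit 76) (nat_lit 41505696341) (nat_lit 32) (nat_lit 5) (nat_lit 35) (nat_lit 5) (nat_lit 33) (nat_lit 5) (nat_lit 316) (nat_lit 284) (nat_lit 120))) (XT.nd (nat_lit 78) (nat_lit 228) (nat_lit 0) (XT.lf (nat_lit 0) (nat_lit 16580352443) (nat_lit 228) (nat_lit 6081161364) (nat_lit 76) (nat_lit 69712131751) (nat_lit 32) (nat_lit 5) (nat_lit 35) (nat_lit 5) (nat_lit 33) (nat_lit 5) (nat_lit 317) (nat_lit 284) (nat_lit 119)) (XT.nd (nat_lit 78) (nat_lit 0) (nat_lit 0) (XT.lf (nat_lit 0) (nat_lit 30064240014) (nat_lit 304) (nat_lit 61378832643) (nat_lit 76) (nat_lit 4140201692) (nat_lit 29) (nat_lit 5) (nat_lit 33) (nat_lit 5) (nat_lit 30) (nat_lit 5) (nat_lit 318) (nat_lit 284) (nat_lit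 118)) (XT.lf (nat_lit 0) (nat_lit 44697661671) (nat_lit 304) (nat_lit 22607192745) (nat_lit 76) (nat_lit 31624764930) (nat_lit 29) (nat_lit 5) (nat_lit 33) (nat_lit 5) (nat_lit 30) (nat_lit 5) (nat_lit 319) (nat_lit 284) (nat_lit 117))))))) (XT.nd (nat_lit 702) (nat_lit 380) (nat_lit 0) (XT.nd (nat_lit 312) (nat_lit 304) (nat_lit 0) (XT.nd (nat_lit 156) (nat_lit 228) (nat_lit 0) (XT.nd (nat_lit 78) (nat_lit 0) (nat_lit 0) (XT.lf (nat_lit 0) (nat_lit 18700398580) (nat_lit 152) (nat_lit 41653525034) (nat_lit 228) (nat_lit 42074801188) (nat_lit 27) (nat_lit 5) (nat_lit 29) (nat_lit 5) (nat_lit 30) (nat_lit 5) (nat_lit 320) (nat_lit 284) (nat_lit 116)) (XT.lf (nat_lit 0) (nat_lit 62857098759) (nat_lit 152) (nat_lit 14317987322) (nat_lit 228) (nat_lit 28908596668) (nat_lit 27) (nat_lit 5) (nat_lit 29) (nat_lit 5) (nat_lit 30) (nat_lit 5) (nat_lit 321) (nat_lit 284) (nat_lit 115))) (XT.nd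 (nat_lit 78) (nat_lit 228) (nat_lit 0) (XT.lf (nat_lit 0) (nat_lit 95061141550) (nat_lit 228) (nat_lit 925454405) (nat_lit 76) (nat_lit 13923602407) (nat_lit 27) (nat_lit 5) (nat_lit 30) (nat_lit 5) (nat_lit 28) (nat_lit 5) (nat_lit 322) (nat_lit 284) (nat_lit 114)) (XT.lf (nat_lit 0) (nat_lit 863173943) (nat_lit 228) (nat_lit 69210232170) (nat_lit 76) (nat_lit 43807355370) (nat_lit 24) (nat_lit 5) (nat_lit 27) (nat_lit 5) (nat_lit 25) (nat_lit 5) (nat_lit 323) (nat_lit 284) (nat_lit 113)))) (XT.nd (nat_lit 156) (nat_lit 152) (nat_lit 0) (XT.nd (nat_lit 78) (nat_lit 152) (nat_lit 0) (XT.lf (nat_lit 0) (nat_lit 16877215913) (nat_lit 228) (nat_lit 25715385457) (nat_lit 76) (nat_lit 75444320071) (nat_lit 24) (nat_lit 5) (nat_lit 27) (nat_lit 5) (nat_lit 25) (nat_lit 5) (nat_lit 324) (nat_lit 284) (nat_lit 112)) (XT.lf (nat_lit 0) (nat_lit 20612922844) (nat_lit 152) (nat_lit 13400191584)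 (nat_lit 228) (nat_lit 88371718491) (nat_lit 22) (nat_lit 5) (nat_lit 24) (nat_lit 5) (nat_lit 25) (nat_lit 5) (nat_lit 325) (nat_lit 284) (nat_lit 111))) (XT.nd (nat_lit 78) (nat_lit 152) (nat_lit 0) (XT.lf (nat_lit 0) (nat_lit 52717139004) (nat_lit 228) (nat_lit 57055462050) (nat_lit 76) (nat_lit 17141973547) (nat_lit 22) (nat_lit 5) (nat_lit 25) (nat_lit 5) (nat_lit 23) (nat_lit 5) (nat_lit 326) (nat_lit 284) (nat_lit 110)) (XT.nd (nat_lit 78) (nat_lit 152) (nat_lit 0) (XT.lf (nat_lit 0) (nat_lit 72575411226) (nat_lit 228) (nat_lit 10323852556) (nat_lit 76) (nat_lit 48760588394) (nat_lit 22) (nat_lit 5) (nat_lit 25) (nat_lit 5) (nat_lit 23) (nat_lit 5) (nat_lit 327) (nat_lit 284) (nat_lit 109)) (XT.lf (nat_lit 0) (nat_lit 40024430419) (nat_lit 152) (nat_lit 54026461259) (nat_lit 228) (nat_lit 42560288297) (nat_lit 20) (nat_lit 5) (nat_lit 22) (nat_lit 5) (nat_lit 23) (nat_lit 5)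 (nat_lit 328) (nat_lit 284) (nat_lit 108)))))) (XT.nd (nat_lit 312) (nat_lit 228) (nat_lit 0) (XT.nd (nat_lit 156) (nat_lit 76) (nat_lit 0) (XT.nd (nat_lit 78) (nat_lit 76) (nat_lit 0) (XT.lf (nat_lit 0) (nat_lit 93247624808) (nat_lit 152) (nat_lit 23526775974) (nat_lit 228) (nat_lit 25026961675) (nat_lit 20) (nat_lit 5) (nat_lit 22) (nat_lit 5) (nat_lit 23) (nat_lit 5) (nat_lit 329) (nat_lit 284) (nat_lit 107)) (XT.lf (nat_lit 0) (nat_lit 1805120663) (nat_lit 76) (nat_lit 138989261607) (nat_lit 152) (nat_lit 6448657922) (nat_lit 19) (nat_lit 5) (nat_lit 20) (nat_lit 5) (nat_lit 21) (nat_lit 4) (nat_lit 330) (nat_lit 284) (nat_lit 106))) (XT.nd (nat_lit 78) (nat_lit 0) (nat_lit 0) (XT.lf (nat_lit 0) (nat_lit 13861492407) (nat_lit 152) (nat_lit 97152043528) (nat_lit 76) (nat_lit 41872028383) (nat_lit 18) (nat_lit 5) (nat_lit 20) (nat_lit 5) (nat_lit 19) (nat_lit 5) (nat_lit 331) (nat_lit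 284) (nat_lit 105)) (XT.lf (nat_lit 0) (nat_lit 34969900667) (nat_lit 152) (nat_lit 46558454371) (nat_lit 76) (nat_lit 77276601290) (nat_lit 18) (nat_lit 5) (nat_lit 20) (nat_lit 5) (nat_lit 19) (nat_lit 5) (nat_lit 332) (nat_lit 284) (nat_lit 104)))) (XT.nd (nat_lit 156) (nat_lit 76) (nat_lit 0) (XT.nd (nat_lit 78) (nat_lit 0) (nat_lit 0) (XT.lf (nat_lit 0) (nat_lit 6781025660) (nat_lit 152) (nat_lit 50458067450) (nat_lit 228) (nat_lit 107775957442) (nat_lit 16) (nat_lit 5) (nat_lit 18) (nat_lit 5) (nat_lit 19) (nat_lit 5) (nat_lit 333) (nat_lit 284) (nat_lit 103)) (XT.lf (nat_lit 0) (nat_lit 64403073629) (nat_lit 152) (nat_lit 17006665948) (nat_lit 228) (nat_lit 90086510954) (nat_lit 16) (nat_lit 5) (nat_lit 18) (nat_lit 5) (nat_lit 19) (nat_lit 5) (nat_lit 334) (nat_lit 284) (nat_lit 102))) (XT.nd (nat_lit 78) (nat_lit 76) (nat_lit 0) (XT.lf (nat_lit 0) (nat_lit 107071303647) (nat_lit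 228) (nat_lit 53678939945) (nat_lit 76) (nat_lit 17537148384) (nat_lit 16) (nat_lit 5) (nat_lit 19) (nat_lit 5) (nat_lit 17) (nat_lit 4) (nat_lit 335) (nat_lit 284) (nat_lit 101)) (XT.nd (nat_lit 78) (nat_lit 0) (nat_lit 0) (XT.lf (nat_lit 0) (nat_lit 2196767512) (nat_lit 76) (nat_lit 132131819966) (nat_lit 152) (nat_lit 51073871627) (nat_lit 15) (nat_lit 5) (nat_lit 16) (nat_lit 5) (nat_lit 17) (nat_lit 4) (nat_lit 336) (nat_lit 284) (nat_lit 100)) (XT.lf (nat_lit 0) (nat_lit 62729130261) (nat_lit 76) (nat_lit 101128240161) (nat_lit 152) (nat_lit 28970478087) (nat_lit 15) (nat_lit 5) (nat_lit 16) (nat_lit 5) (nat_lit 17) (nat_lit 4) (nat_lit 337) (nat_lit 284) (nat_lit 99))))))))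
noncomputable def xc227 : XT := (XT.nd (nat_lit 34164) (nat_lit 0) (nat_lit 2052) (XT.nd (nat_lit 33462) (nat_lit 0) (nat_lit 4636) (XT.nd (nat_lit 312) (nat_lit 76) (nat_lit 0) (XT.nd (nat_lit 156) (nat_lit 152) (nat_lit 0) (XT.nd (nat_lit 78) (nat_lit 76) (nat_lit 0) (XT.lf (nat_lit 0) (nat_lit 126287404797) (nat_lit 76) (nat_lit 68574764950) (nat_lit 152) (nat_lit 5762359401) (nat_lit 15) (nat_lit 5) (nat_lit 16) (nat_lit 5) (nat_lit 17) (nat_lit 4) (nat_lit 338) (nat_lit 284) (nat_lit 98)) (XT.lf (nat_lit 0) (nat_lit 18010241920) (nat_lit 152) (nat_lit 16078631976) (nat_lit 76) (nat_lit 174707666264) (nat_lit 14) (nat_lit 5) (nat_lit 16) (nat_lit 5) (nat_lit 15) (nat_lit 5) (nat_lit 339) (nat_lit 284) (nat_lit 97))) (XT.nd (nat_lit 78) (nat_lit 0) (nat_lit 0) (XT.lf (nat_lit 0) (nat_lit 43549760710) (nat_lit 228) (nat_lit 170897230022) (nat_lit 76) (nat_lit 2886841268) (nat_lit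 12) (nat_lit 5) (nat_lit 15) (nat_lit 5) (nat_lit 13) (nat_lit 4) (nat_lit 340) (nat_lit 284) (nat_lit 96)) (XT.lf (nat_lit 0) (nat_lit 71201466926) (nat_lit 228) (nat_lit 114212519052) (nat_lit 76) (nat_lit 40842242396) (nat_lit 12) (nat_lit 5) (nat_lit 15) (nat_lit 5) (nat_lit 13) (nat_lit 4) (nat_lit 341) (nat_lit 284) (nat_lit 95)))) (XT.nd (nat_lit 156) (nat_lit 0) (nat_lit 0) (XT.nd (nat_lit 78) (nat_lit 76) (nat_lit 0) (XT.lf (nat_lit 0) (nat_lit 100235390978) (nat_lit 228) (nat_lit 54694200243) (nat_lit 76) (nat_lit 80695172213) (nat_lit 12) (nat_lit 5) (nat_lit 15) (nat_lit 5) (nat_lit 13) (nat_lit 4) (nat_lit 342) (nat_lit 284) (nat_lit 94)) (XT.lf (nat_lit 0) (nat_lit 8057321287) (nat_lit 76) (nat_lit 122789137336) (nat_lit 152) (nat_lit 114608994724) (nat_lit 11) (nat_lit 5) (nat_lit 12) (nat_lit 5) (nat_lit 13) (nat_lit 4) (nat_lit 343) (nat_lit 284) (nat_lit 93))) (XT.nd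 (nat_lit 32916) (nat_lit 0) (nat_lit 4636) (XT.lf (nat_lit 0) (nat_lit 75844689846) (nat_lit 76) (nat_lit 88069320055) (nat_lit 152) (nat_lit 91817371787) (nat_lit 11) (nat_lit 5) (nat_lit 12) (nat_lit 5) (nat_lit 13) (nat_lit 4) (nat_lit 344) (nat_lit 284) (nat_lit 92)) (XT.lf (nat_lit 0) (nat_lit 4158822165) (nat_lit 0) (nat_lit 4158822165) (nat_lit 684) (nat_lit 10138761935) (nat_lit 72) (nat_lit 5) (nat_lit 72) (nat_lit 3) (nat_lit 81) (nat_lit 3) (nat_lit 285) (nat_lit 285) (nat_lit 150))))) (XT.nd (nat_lit 312) (nat_lit 0) (nat_lit 76) (XT.nd (nat_lit 156) (nat_lit 0) (nat_lit 76) (XT.nd (nat_lit 78) (nat_lit 0) (nat_lit 0) (XT.lf (nat_lit 0) (nat_lit 17218380019) (nat_lit 684) (nat_lit 12970991751) (nat_lit 760) (nat_lit 7637756798) (nat_lit 72) (nat_lit 5) (nat_lit 81) (nat_lit 3) (nat_lit 82) (nat_lit 5) (nat_lit 286) (nat_lit 285) (nat_lit 149)) (XT.lf (nat_lit 76) (nat_lit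 3405453484) (nat_lit 0) (nat_lit 14611900156) (nat_lit 760) (nat_lit 20760479586) (nat_lit 73) (nat_lit 5) (nat_lit 72) (nat_lit 5) (nat_lit 82) (nat_lit 5) (nat_lit 287) (nat_lit 285) (nat_lit 148))) (XT.nd (nat_lit 78) (nat_lit 0) (nat_lit 0) (XT.lf (nat_lit 0) (nat_lit 19104113500) (nat_lit 684) (nat_lit 18746598189) (nat_lit 760) (nat_lit 1912978319) (nat_lit 73) (nat_lit 5) (nat_lit 82) (nat_lit 5) (nat_lit 83) (nat_lit 5) (nat_lit 288) (nat_lit 285) (nat_lit 147)) (XT.lf (nat_lit 0) (nat_lit 20482208519) (nat_lit 684) (nat_lit 1530701451) (nat_lit 760) (nat_lit 18774088150) (nat_lit 73) (nat_lit 5) (nat_lit 82) (nat_lit 5) (nat_lit 83) (nat_lit 5) (nat_lit 289) (nat_lit 285) (nat_lit 146)))) (XT.nd (nat_lit 156) (nat_lit 0) (nat_lit 76) (XT.nd (nat_lit 78) (nat_lit 0) (nat_lit 76) (XT.lf (nat_lit 76) (nat_lit 17091467097) (nat_lit 0) (nat_lit 5102165768) (nat_lit 760) (nat_lit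 19654625497) (nat_lit 74) (nat_lit 5) (nat_lit 73) (nat_lit 5) (nat_lit 83) (nat_lit 5) (nat_lit 290) (nat_lit 285) (nat_lit 145)) (XT.lf (nat_lit 0) (nat_lit 24212225495) (nat_lit 684) (nat_lit 6463058191) (nat_lit 760) (nat_lit 12276225653) (nat_lit 74) (nat_lit 5) (nat_lit 83) (nat_lit 5) (nat_lit 84) (nat_lit 5) (nat_lit 291) (nat_lit 285) (nat_lit 144))) (XT.nd (nat_lit 78) (nat_lit 0) (nat_lit 76) (XT.lf (nat_lit 76) (nat_lit 13078731884) (nat_lit 0) (nat_lit 13538646654) (nat_lit 760) (nat_lit 17478269999) (nat_lit 75) (nat_lit 5) (nat_lit 74) (nat_lit 5) (nat_lit 84) (nat_lit 5) (nat_lit 292) (nat_lit 285) (nat_lit 143)) (XT.nd (nat_lit 78) (nat_lit 0) (nat_lit 0) (XT.lf (nat_lit 0) (nat_lit 29321473400) (nat_lit 684) (nat_lit 11542559341) (nat_lit 760) (nat_lit 4424034616) (nat_lit 75) (nat_lit 5) (nat_lit 84) (nat_lit 5) (nat_lit 85) (nat_lit 5) (nat_lit 293) (nat_lit 285)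 (nat_lit 142)) (XT.lf (nat_lit 76) (nat_lit 8969031012) (nat_lit 0) (nat_lit 23551702105) (nat_lit 760) (nat_lit 14001382538) (nat_lit 76) (nat_lit 5) (nat_lit 75) (nat_lit 5) (nat_lit 85) (nat_lit 5) (nat_lit 294) (nat_lit 285) (nat_lit 141))))))) (XT.nd (nat_lit 702) (nat_lit 1140) (nat_lit 0) (XT.nd (nat_lit 312) (nat_lit 760) (nat_lit 0) (XT.nd (nat_lit 156) (nat_lit 304) (nat_lit 0) (XT.nd (nat_lit 78) (nat_lit 608) (nat_lit 0) (XT.lf (nat_lit 76) (nat_lit 30905353563) (nat_lit 0) (nat_lit 5168135840) (nat_lit 760) (nat_lit 11734706518) (nat_lit 76) (nat_lit 5) (nat_lit 75) (nat_lit 5) (nat_lit 85) (nat_lit 5) (nat_lit 295) (nat_lit 285) (nat_lit 140)) (XT.lf (nat_lit 0) (nat_lit 4708319057) (nat_lit 684) (nat_lit 35387908188) (nat_lit 760) (nat_lit 9047741702) (nat_lit 67) (nat_lit 5) (nat_lit 76) (nat_lit 5) (nat_lit 77) (nat_lit 5) (nat_lit 296) (nat_lit 285) (nat_lit 139)))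 (XT.nd (nat_lit 78) (nat_lit 304) (nat_lit 0) (XT.lf (nat_lit 0) (nat_lit 27897760369) (nat_lit 684) (nat_lit 16790172549) (nat_lit 760) (nat_lit 5840211810) (nat_lit 67) (nat_lit 5) (nat_lit 76) (nat_lit 5) (nat_lit 77) (nat_lit 5) (nat_lit 297) (nat_lit 285) (nat_lit 138)) (XT.lf (nat_lit 0) (nat_lit 228106182) (nat_lit 304) (nat_lit 49325722384) (nat_lit 380) (nat_lit 2425475882) (nat_lit 63) (nat_lit 5) (nat_lit 67) (nat_lit 5) (nat_lit 68) (nat_lit 5) (nat_lit 298) (nat_lit 285) (nat_lit 137)))) (XT.nd (nat_lit 156) (nat_lit 684) (nat_lit 0) (XT.nd (nat_lit 78) (nat_lit 0) (nat_lit 0) (XT.lf (nat_lit 0) (nat_lit 1785986220) (nat_lit 380) (nat_lit 28769938832) (nat_lit 76) (nat_lit 22913040617) (nat_lit 62) (nat_lit 5) (nat_lit 67) (nat_lit 5) (nat_lit 63) (nat_lit 5) (nat_lit 299) (nat_lit 285) (nat_lit 136)) (XT.lf (nat_lit 0) (nat_lit 6124917525) (nat_lit 380) (nat_lit 4680934680)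 (nat_lit 76) (nat_lit 44225353902) (nat_lit 62) (nat_lit 5) (nat_lit 67) (nat_lit 5) (nat_lit 63) (nat_lit 5) (nat_lit 300) (nat_lit 285) (nat_lit 135))) (XT.nd (nat_lit 78) (nat_lit 304) (nat_lit 0) (XT.lf (nat_lit 0) (nat_lit 11172227634) (nat_lit 456) (nat_lit 35522997938) (nat_lit 76) (nat_lit 9951765811) (nat_lit 57) (nat_lit 5) (nat_lit 63) (nat_lit 5) (nat_lit 58) (nat_lit 5) (nat_lit 301) (nat_lit 285) (nat_lit 134)) (XT.nd (nat_lit 78) (nat_lit 304) (nat_lit 0) (XT.lf (nat_lit 0) (nat_lit 16728155196) (nat_lit 456) (nat_lit 10137903481) (nat_lit 76) (nat_lit 31464698866) (nat_lit 57) (nat_lit 5) (nat_lit 63) (nat_lit 5) (nat_lit 58) (nat_lit 5) (nat_lit 302) (nat_lit 285) (nat_lit 133)) (XT.lf (nat_lit 0) (nat_lit 17061042733) (nat_lit 304) (nat_lit 5765810296) (nat_lit 380) (nat_lit 37258614304) (nat_lit 53) (nat_lit 5) (nat_lit 57) (nat_lit 5) (nat_lit 58) (nat_lit 5) (nat_lit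 303) (nat_lit 285) (nat_lit 132)))))) (XT.nd (nat_lit 312) (nat_lit 608) (nat_lit 0) (XT.nd (nat_lit 156) (nat_lit 228) (nat_lit 0) (XT.nd (nat_lit 78) (nat_lit 304) (nat_lit 0) (XT.lf (nat_lit 0) (nat_lit 29659521799) (nat_lit 380) (nat_lit 16207635968) (nat_lit 76) (nat_lit 16039306869) (nat_lit 53) (nat_lit 5) (nat_lit 58) (nat_lit 5) (nat_lit 54) (nat_lit 5) (nat_lit 304) (nat_lit 285) (nat_lit 131)) (XT.lf (nat_lit 0) (nat_lit 12245980963) (nat_lit 304) (nat_lit 24872268982) (nat_lit 380) (nat_lit 26686044205) (nat_lit 49) (nat_lit 5) (nat_lit 53) (nat_lit 5) (nat_lit 54) (nat_lit 5) (nat_lit 305) (nat_lit 285) (nat_lit 130))) (XT.nd (nat_lit 78) (nat_lit 228) (nat_lit 0) (XT.lf (nat_lit 0) (nat_lit 42683556929) (nat_lit 304) (nat_lit 2539591433) (nat_lit 380) (nat_lit 20560208555) (nat_lit 49) (nat_lit 5) (nat_lit 53) (nat_lit 5) (nat_lit 54) (nat_lit 5) (nat_lit 306) (nat_lit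 285) (nat_lit 129)) (XT.lf (nat_lit 0) (nat_lit 6667163007) (nat_lit 228) (nat_lit 47495487924) (nat_lit 304) (nat_lit 13677257234) (nat_lit 46) (nat_lit 5) (nat_lit 49) (nat_lit 5) (nat_lit 50) (nat_lit 5) (nat_lit 307) (nat_lit 285) (nat_lit 128)))) (XT.nd (nat_lit 156) (nat_lit 228) (nat_lit 0) (XT.nd (nat_lit 78) (nat_lit 380) (nat_lit 0) (XT.lf (nat_lit 0) (nat_lit 38680053148) (nat_lit 228) (nat_lit 25300084926) (nat_lit 304) (nat_lit 5997601576) (nat_lit 46) (nat_lit 5) (nat_lit 49) (nat_lit 5) (nat_lit 50) (nat_lit 5) (nat_lit 308) (nat_lit 285) (nat_lit 127)) (XT.lf (nat_lit 0) (nat_lit 38749934) (nat_lit 304) (nat_lit 1960642006) (nat_lit 380) (nat_lit 70221486734) (nat_lit 41) (nat_lit 5) (nat_lit 45) (nat_lit 5) (nat_lit 46) (nat_lit 5) (nat_lit 309) (nat_lit 285) (nat_lit 126))) (XT.nd (nat_lit 78) (nat_lit 228) (nat_lit 0) (XT.lf (nat_lit 0) (nat_lit 11084314740) (nat_lit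 380) (nat_lit 40981482916) (nat_lit 76) (nat_lit 22460981729) (nat_lit 41) (nat_lit 5) (nat_lit 46) (nat_lit 5) (nat_lit 42) (nat_lit 5) (nat_lit 310) (nat_lit 285) (nat_lit 125)) (XT.nd (nat_lit 78) (nat_lit 228) (nat_lit 0) (XT.lf (nat_lit 0) (nat_lit 20654582468) (nat_lit 380) (nat_lit 8254270561) (nat_lit 76) (nat_lit 48037569752) (nat_lit 41) (nat_lit 5) (nat_lit 46) (nat_lit 5) (nat_lit 42) (nat_lit 5) (nat_lit 311) (nat_lit 285) (nat_lit 124)) (XT.lf (nat_lit 0) (nat_lit 26971291130) (nat_lit 228) (nat_lit 4152176673) (nat_lit 304) (nat_lit 48342577798) (nat_lit 38) (nat_lit 5) (nat_lit 41) (nat_lit 5) (nat_lit 42) (nat_lit 5) (nat_lit 312) (nat_lit 285) (nat_lit 123))))))))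
noncomputable def xc228 : XT := (XT.nd (nat_lit 1326) (nat_lit 608) (nat_lit 0) (XT.nd (nat_lit 624) (nat_lit 684) (nat_lit 0) (XT.nd (nat_lit 312) (nat_lit 304) (nat_lit 0) (XT.nd (nat_lit 156) (nat_lit 152) (nat_lit 0) (XT.nd (nat_lit 78) (nat_lit 228) (nat_lit 0) (XT.lf (nat_lit 0) (nat_lit 42597929557) (nat_lit 304) (nat_lit 18204558208) (nat_lit 76) (nat_lit 21285057540) (nat_lit 38) (nat_lit 5) (nat_lit 42) (nat_lit 5) (nat_lit 39) (nat_lit 5) (nat_lit 313) (nat_lit 285) (nat_lit 122)) (XT.lf (nat_lit 0) (nat_lit 18317115772) (nat_lit 228) (nat_lit 36682125181) (nat_lit 304) (nat_lit 29823224947) (nat_lit 35) (nat_lit 5) (nat_lit 38) (nat_lit 5) (nat_lit 39) (nat_lit 5) (nat_lit 314) (nat_lit 285) (nat_lit 121))) (XT.nd (nat_lit 78) (nat_lit 152) (nat_lit 0) (XT.lf (nat_lit 0) (nat_lit 57295688651) (nat_lit 228) (nat_lit 11032333991) (nat_lit 304) (nat_lit 19350741778) (nat_lit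 35) (nat_lit 5) (nat_lit 38) (nat_lit 5) (nat_lit 39) (nat_lit 5) (nat_lit 315) (nat_lit 285) (nat_lit 120)) (XT.lf (nat_lit 0) (nat_lit 7537115589) (nat_lit 152) (nat_lit 75151185973) (nat_lit 228) (nat_lit 7971325426) (nat_lit 33) (nat_lit 5) (nat_lit 35) (nat_lit 5) (nat_lit 36) (nat_lit 5) (nat_lit 316) (nat_lit 285) (nat_lit 119)))) (XT.nd (nat_lit 156) (nat_lit 228) (nat_lit 0) (XT.nd (nat_lit 78) (nat_lit 0) (nat_lit 0) (XT.lf (nat_lit 0) (nat_lit 4552763252) (nat_lit 228) (nat_lit 45608242700) (nat_lit 76) (nat_lit 43590274303) (nat_lit 32) (nat_lit 5) (nat_lit 35) (nat_lit 5) (nat_lit 33) (nat_lit 5) (nat_lit 317) (nat_lit 285) (nat_lit 118)) (XT.lf (nat_lit 0) (nat_lit 17434355196) (nat_lit 228) (nat_lit 6350080533) (nat_lit 76) (nat_lit 73206588952) (nat_lit 32) (nat_lit 5) (nat_lit 35) (nat_lit 5) (nat_lit 33) (nat_lit 5) (nat_lit 318) (nat_lit 285) (nat_lit 117))) (XT.nd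 (nat_lit 78) (nat_lit 0) (nat_lit 0) (XT.lf (nat_lit 0) (nat_lit 31591946974) (nat_lit 304) (nat_lit 64412093871) (nat_lit 76) (nat_lit 4357121141) (nat_lit 29) (nat_lit 5) (nat_lit 33) (nat_lit 5) (nat_lit 30) (nat_lit 5) (nat_lit 319) (nat_lit 285) (nat_lit 116)) (XT.lf (nat_lit 0) (nat_lit 46955873287) (nat_lit 304) (nat_lit 23703571045) (nat_lit 76) (nat_lit 33215440667) (nat_lit 29) (nat_lit 5) (nat_lit 33) (nat_lit 5) (nat_lit 30) (nat_lit 5) (nat_lit 320) (nat_lit 285) (nat_lit 115))))) (XT.nd (nat_lit 312) (nat_lit 304) (nat_lit 0) (XT.nd (nat_lit 156) (nat_lit 228) (nat_lit 0) (XT.nd (nat_lit 78) (nat_lit 0) (nat_lit 0) (XT.lf (nat_lit 0) (nat_lit 19668851760) (nat_lit 152) (nat_lit 43725507671) (nat_lit 228) (nat_lit 44154618069) (nat_lit 27) (nat_lit 5) (nat_lit 29) (nat_lit 5) (nat_lit 30) (nat_lit 5) (nat_lit 321) (nat_lit 285) (nat_lit 114)) (XT.lf (nat_lit 0) (nat_lit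 66031794888) (nat_lit 152) (nat_lit 15023702293) (nat_lit 228) (nat_lit 30331242522) (nat_lit 27) (nat_lit 5) (nat_lit 29) (nat_lit 5) (nat_lit 30) (nat_lit 5) (nat_lit 322) (nat_lit 285) (nat_lit 113))) (XT.nd (nat_lit 78) (nat_lit 228) (nat_lit 0) (XT.lf (nat_lit 0) (nat_lit 99834975584) (nat_lit 228) (nat_lit 940480109) (nat_lit 76) (nat_lit 14629171509) (nat_lit 27) (nat_lit 5) (nat_lit 30) (nat_lit 5) (nat_lit 28) (nat_lit 5) (nat_lit 323) (nat_lit 285) (nat_lit 112)) (XT.lf (nat_lit 0) (nat_lit 926971390) (nat_lit 228) (nat_lit 72639280031) (nat_lit 76) (nat_lit 46007477893) (nat_lit 24) (nat_lit 5) (nat_lit 27) (nat_lit 5) (nat_lit 25) (nat_lit 5) (nat_lit 324) (nat_lit 285) (nat_lit 111)))) (XT.nd (nat_lit 156) (nat_lit 152) (nat_lit 0) (XT.nd (nat_lit 78) (nat_lit 152) (nat_lit 0) (XT.lf (nat_lit 0) (nat_lit 17740732661) (nat_lit 228) (nat_lit 26971189256) (nat_lit 76) (nat_lit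 79225826317) (nat_lit 24) (nat_lit 5) (nat_lit 27) (nat_lit 5) (nat_lit 25) (nat_lit 5) (nat_lit 325) (nat_lit 285) (nat_lit 110)) (XT.lf (nat_lit 0) (nat_lit 21673051146) (nat_lit 152) (nat_lit 14059899257) (nat_lit 228) (nat_lit 92770130406) (nat_lit 22) (nat_lit 5) (nat_lit 24) (nat_lit 5) (nat_lit 25) (nat_lit 5) (nat_lit 326) (nat_lit 285) (nat_lit 109))) (XT.nd (nat_lit 78) (nat_lit 152) (nat_lit 0) (XT.lf (nat_lit 0) (nat_lit 55371416045) (nat_lit 228) (nat_lit 59879363653) (nat_lit 76) (nat_lit 18008569539) (nat_lit 22) (nat_lit 5) (nat_lit 25) (nat_lit 5) (nat_lit 23) (nat_lit 5) (nat_lit 327) (nat_lit 285) (nat_lit 108)) (XT.nd (nat_lit 78) (nat_lit 152) (nat_lit 0) (XT.lf (nat_lit 0) (nat_lit 76221724731) (nat_lit 228) (nat_lit 10812548517) (nat_lit 76) (nat_lit 51207662876) (nat_lit 22) (nat_lit 5) (nat_lit 25) (nat_lit 5) (nat_lit 23) (nat_lit 5) (nat_lit 328) (nat_lit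 285) (nat_lit 107)) (XT.lf (nat_lit 0) (nat_lit 42052705111) (nat_lit 152) (nat_lit 56717861092) (nat_lit 228) (nat_lit 44670286261) (nat_lit 20) (nat_lit 5) (nat_lit 22) (nat_lit 5) (nat_lit 23) (nat_lit 5) (nat_lit 329) (nat_lit 285) (nat_lit 106))))))) (XT.nd (nat_lit 702) (nat_lit 228) (nat_lit 0) (XT.nd (nat_lit 312) (nat_lit 228) (nat_lit 0) (XT.nd (nat_lit 156) (nat_lit 76) (nat_lit 0) (XT.nd (nat_lit 78) (nat_lit 76) (nat_lit 0) (XT.lf (nat_lit 0) (nat_lit 97935770974) (nat_lit 152) (nat_lit 24693664077) (nat_lit 228) (nat_lit 26261151233) (nat_lit 20) (nat_lit 5) (nat_lit 22) (nat_lit 5) (nat_lit 23) (nat_lit 5) (nat_lit 330) (nat_lit 285) (nat_lit 105)) (XT.lf (nat_lit 0) (nat_lit 1921411564) (nat_lit 76) (nat_lit 145928774184) (nat_lit 152) (nat_lit 6754175013) (nat_lit 19) (nat_lit 5) (nat_lit 20) (nat_lit 5) (nat_lit 21) (nat_lit 4) (nat_lit 331) (nat_lit 285) (nat_lit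 104))) (XT.nd (nat_lit 78) (nat_lit 0) (nat_lit 0) (XT.lf (nat_lit 0) (nat_lit 14570161689) (nat_lit 152) (nat_lit 101984310270) (nat_lit 76) (nat_lit 43974566150) (nat_lit 18) (nat_lit 5) (nat_lit 20) (nat_lit 5) (nat_lit 19) (nat_lit 5) (nat_lit 332) (nat_lit 285) (nat_lit 103)) (XT.lf (nat_lit 0) (nat_lit 36733247758) (nat_lit 152) (nat_lit 48862248104) (nat_lit 76) (nat_lit 81148942162) (nat_lit 18) (nat_lit 5) (nat_lit 20) (nat_lit 5) (nat_lit 19) (nat_lit 5) (nat_lit 333) (nat_lit 285) (nat_lit 102)))) (XT.nd (nat_lit 156) (nat_lit 76) (nat_lit 0) (XT.nd (nat_lit 78) (nat_lit 0) (nat_lit 0) (XT.lf (nat_lit 0) (nat_lit 7143816750) (nat_lit 152) (nat_lit 52971746477) (nat_lit 228) (nat_lit 113149491682) (nat_lit 16) (nat_lit 5) (nat_lit 18) (nat_lit 5) (nat_lit 19) (nat_lit 5) (nat_lit 334) (nat_lit 285) (nat_lit 101)) (XT.lf (nat_lit 0) (nat_lit 67645836652) (nat_lit 152) (nat_lit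 17848214154) (nat_lit 228) (nat_lit 94576299710) (nat_lit 16) (nat_lit 5) (nat_lit 18) (nat_lit 5) (nat_lit 19) (nat_lit 5) (nat_lit 335) (nat_lit 285) (nat_lit 100))) (XT.nd (nat_lit 78) (nat_lit 76) (nat_lit 0) (XT.lf (nat_lit 0) (nat_lit 112438165410) (nat_lit 228) (nat_lit 56340806253) (nat_lit 76) (nat_lit 18422104768) (nat_lit 16) (nat_lit 5) (nat_lit 19) (nat_lit 5) (nat_lit 17) (nat_lit 4) (nat_lit 336) (nat_lit 285) (nat_lit 99)) (XT.nd (nat_lit 78) (nat_lit 0) (nat_lit 0) (XT.lf (nat_lit 0) (nat_lit 2328330436) (nat_lit 76) (nat_lit 138729689008) (nat_lit 152) (nat_lit 53613893141) (nat_lit 15) (nat_lit 5) (nat_lit 16) (nat_lit 5) (nat_lit 17) (nat_lit 4) (nat_lit 337) (nat_lit 285) (nat_lit 98)) (XT.lf (nat_lit 0) (nat_lit 65886276820) (nat_lit 76) (nat_lit 106176345543) (nat_lit 152) (nat_lit 30405980974) (nat_lit 15) (nat_lit 5) (nat_lit 16) (nat_lit 5) (nat_lit 17) (nat_lit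 4) (nat_lit 338) (nat_lit 285) (nat_lit 97)))))) (XT.nd (nat_lit 312) (nat_lit 0) (nat_lit 0) (XT.nd (nat_lit 156) (nat_lit 152) (nat_lit 0) (XT.nd (nat_lit 78) (nat_lit 76) (nat_lit 0) (XT.lf (nat_lit 0) (nat_lit 132621479843) (nat_lit 76) (nat_lit 71995592125) (nat_lit 152) (nat_lit 6038076403) (nat_lit 15) (nat_lit 5) (nat_lit 16) (nat_lit 5) (nat_lit 17) (nat_lit 4) (nat_lit 339) (nat_lit 285) (nat_lit 96)) (XT.lf (nat_lit 0) (nat_lit 18922186454) (nat_lit 152) (nat_lit 16863403169) (nat_lit 76) (nat_lit 183450190008) (nat_lit 14) (nat_lit 5) (nat_lit 16) (nat_lit 5) (nat_lit 15) (nat_lit 5) (nat_lit 340) (nat_lit 285) (nat_lit 95))) (XT.nd (nat_lit 78) (nat_lit 0) (nat_lit 0) (XT.lf (nat_lit 0) (nat_lit 45738550839) (nat_lit 228) (nat_lit 179422785614) (nat_lit 76) (nat_lit 3038606884) (nat_lit 12) (nat_lit 5) (nat_lit 15) (nat_lit 5) (nat_lit 13) (nat_lit 4) (nat_lit 341) (nat_lit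 285) (nat_lit 94)) (XT.lf (nat_lit 0) (nat_lit 74772304171) (nat_lit 228) (nat_lit 119904758424) (nat_lit 76) (nat_lit 42891424566) (nat_lit 12) (nat_lit 5) (nat_lit 15) (nat_lit 5) (nat_lit 13) (nat_lit 4) (nat_lit 342) (nat_lit 285) (nat_lit 93)))) (XT.nd (nat_lit 33150) (nat_lit 0) (nat_lit 4560) (XT.nd (nat_lit 33072) (nat_lit 0) (nat_lit 4560) (XT.lf (nat_lit 0) (nat_lit 105257411859) (nat_lit 228) (nat_lit 57411399226) (nat_lit 76) (nat_lit 84736664204) (nat_lit 12) (nat_lit 5) (nat_lit 15) (nat_lit 5) (nat_lit 13) (nat_lit 4) (nat_lit 343) (nat_lit 285) (nat_lit 92)) (XT.lf (nat_lit 0) (nat_lit 4388429397) (nat_lit 0) (nat_lit 4388429397) (nat_lit 684) (nat_lit 10600059597) (nat_lit 72) (nat_lit 5) (nat_lit 72) (nat_lit 3) (nat_lit 81) (nat_lit 3) (nat_lit 286) (nat_lit 286) (nat_lit 148))) (XT.nd (nat_lit 78) (nat_lit 0) (nat_lit 0) (XT.lf (nat_lit 0) (nat_lit 18161192313) (nat_lit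 684) (nat_lit 13573231661) (nat_lit 760) (nat_lit 7979696690) (nat_lit 72) (nat_lit 5) (nat_lit 81) (nat_lit 3) (nat_lit 82) (nat_lit 5) (nat_lit 287) (nat_lit 286) (nat_lit 147)) (XT.nd (nat_lit 78) (nat_lit 0) (nat_lit 76) (XT.lf (nat_lit 76) (nat_lit 3621288905) (nat_lit 0) (nat_lit 15375637392) (nat_lit 760) (nat_lit 21715606516) (nat_lit 73) (nat_lit 5) (nat_lit 72) (nat_lit 5) (nat_lit 82) (nat_lit 5) (nat_lit 288) (nat_lit 286) (nat_lit 146)) (XT.lf (nat_lit 0) (nat_lit 20133783491) (nat_lit 684) (nat_lit 19636049751) (nat_lit 760) (nat_lit 1978073454) (nat_lit 73) (nat_lit 5) (nat_lit 82) (nat_lit 5) (nat_lit 83) (nat_lit 5) (nat_lit 289) (nat_lit 286) (nat_lit 145))))))))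
noncomputable def xc229 : XT := (XT.nd (nat_lit 1326) (nat_lit 1672) (nat_lit 0) (XT.nd (nat_lit 624) (nat_lit 1368) (nat_lit 0) (XT.nd (nat_lit 312) (nat_lit 456) (nat_lit 0) (XT.nd (nat_lit 156) (nat_lit 0) (nat_lit 76) (XT.nd (nat_lit 78) (nat_lit 0) (nat_lit 0) (XT.lf (nat_lit 0) (nat_lit 21577237341) (nat_lit 684) (nat_lit 1561638098) (nat_lit 760) (nat_lit 19683693719) (nat_lit 73) (nat_lit 5) (nat_lit 82) (nat_lit 5) (nat_lit 83) (nat_lit 5) (nat_lit 290) (nat_lit 286) (nat_lit 144)) (XT.lf (nat_lit 76) (nat_lit 17990903420) (nat_lit 0) (nat_lit 5380652855) (nat_lit 760) (nat_lit 20565481062) (nat_lit 74) (nat_lit 5) (nat_lit 73) (nat_lit 5) (nat_lit 83) (nat_lit 5) (nat_lit 291) (nat_lit 286) (nat_lit 143))) (XT.nd (nat_lit 78) (nat_lit 0) (nat_lit 0) (XT.lf (nat_lit 0) (nat_lit 25487481301) (nat_lit 684) (nat_lit 6739675938) (nat_lit 760) (nat_lit 12868484049) (nat_lit 74)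 (nat_lit 5) (nat_lit 83) (nat_lit 5) (nat_lit 84) (nat_lit 5) (nat_lit 292) (nat_lit 286) (nat_lit 142)) (XT.lf (nat_lit 76) (nat_lit 13778453073) (nat_lit 0) (nat_lit 14232075437) (nat_lit 760) (nat_lit 18286587171) (nat_lit 75) (nat_lit 5) (nat_lit 74) (nat_lit 5) (nat_lit 84) (nat_lit 5) (nat_lit 293) (nat_lit 286) (nat_lit 141)))) (XT.nd (nat_lit 156) (nat_lit 608) (nat_lit 0) (XT.nd (nat_lit 78) (nat_lit 0) (nat_lit 0) (XT.lf (nat_lit 0) (nat_lit 30846617061) (nat_lit 684) (nat_lit 12072680229) (nat_lit 760) (nat_lit 4630028288) (nat_lit 75) (nat_lit 5) (nat_lit 84) (nat_lit 5) (nat_lit 85) (nat_lit 5) (nat_lit 294) (nat_lit 286) (nat_lit 140)) (XT.lf (nat_lit 76) (nat_lit 9463731463) (nat_lit 0) (nat_lit 24740017518) (nat_lit 760) (nat_lit 14641440974) (nat_lit 76) (nat_lit 5) (nat_lit 75) (nat_lit 5) (nat_lit 85) (nat_lit 5) (nat_lit 295) (nat_lit 286) (nat_lit 139))) (XT.nd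 (nat_lit 78) (nat_lit 608) (nat_lit 0) (XT.lf (nat_lit 76) (nat_lit 32494667813) (nat_lit 0) (nat_lit 5436761973) (nat_lit 760) (nat_lit 12264288805) (nat_lit 76) (nat_lit 5) (nat_lit 75) (nat_lit 5) (nat_lit 85) (nat_lit 5) (nat_lit 296) (nat_lit 286) (nat_lit 138)) (XT.lf (nat_lit 0) (nat_lit 4990068692) (nat_lit 684) (nat_lit 37163223181) (nat_lit 760) (nat_lit 9445097305) (nat_lit 67) (nat_lit 5) (nat_lit 76) (nat_lit 5) (nat_lit 77) (nat_lit 5) (nat_lit 297) (nat_lit 286) (nat_lit 137))))) (XT.nd (nat_lit 312) (nat_lit 988) (nat_lit 0) (XT.nd (nat_lit 156) (nat_lit 76) (nat_lit 0) (XT.nd (nat_lit 78) (nat_lit 304) (nat_lit 0) (XT.lf (nat_lit 0) (nat_lit 29336775704) (nat_lit 684) (nat_lit 17635318875) (nat_lit 760) (nat_lit 6079811466) (nat_lit 67) (nat_lit 5) (nat_lit 76) (nat_lit 5) (nat_lit 77) (nat_lit 5) (nat_lit 298) (nat_lit 286) (nat_lit 136)) (XT.lf (nat_lit 0) (nat_lit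 285616920) (nat_lit 304) (nat_lit 51793934332) (nat_lit 380) (nat_lit 2496166694) (nat_lit 63) (nat_lit 5) (nat_lit 67) (nat_lit 5) (nat_lit 68) (nat_lit 5) (nat_lit 299) (nat_lit 286) (nat_lit 135))) (XT.nd (nat_lit 78) (nat_lit 0) (nat_lit 0) (XT.lf (nat_lit 0) (nat_lit 1921917923) (nat_lit 380) (nat_lit 30162847763) (nat_lit 76) (nat_lit 24055180447) (nat_lit 62) (nat_lit 5) (nat_lit 67) (nat_lit 5) (nat_lit 63) (nat_lit 5) (nat_lit 300) (nat_lit 286) (nat_lit 134)) (XT.lf (nat_lit 0) (nat_lit 6475575203) (nat_lit 380) (nat_lit 4871564261) (nat_lit 76) (nat_lit 46433276644) (nat_lit 62) (nat_lit 5) (nat_lit 67) (nat_lit 5) (nat_lit 63) (nat_lit 5) (nat_lit 301) (nat_lit 286) (nat_lit 133)))) (XT.nd (nat_lit 156) (nat_lit 608) (nat_lit 0) (XT.nd (nat_lit 78) (nat_lit 0) (nat_lit 0) (XT.lf (nat_lit 0) (nat_lit 11773799043) (nat_lit 456) (nat_lit 37254155370) (nat_lit 76) (nat_lit 10449115000)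 (nat_lit 57) (nat_lit 5) (nat_lit 63) (nat_lit 5) (nat_lit 58) (nat_lit 5) (nat_lit 302) (nat_lit 286) (nat_lit 132)) (XT.lf (nat_lit 0) (nat_lit 17605477268) (nat_lit 456) (nat_lit 10601948689) (nat_lit 76) (nat_lit 33037706093) (nat_lit 57) (nat_lit 5) (nat_lit 63) (nat_lit 5) (nat_lit 58) (nat_lit 5) (nat_lit 303) (nat_lit 286) (nat_lit 131))) (XT.nd (nat_lit 78) (nat_lit 304) (nat_lit 0) (XT.lf (nat_lit 0) (nat_lit 17956253708) (nat_lit 304) (nat_lit 6051566202) (nat_lit 380) (nat_lit 39079827527) (nat_lit 53) (nat_lit 5) (nat_lit 57) (nat_lit 5) (nat_lit 58) (nat_lit 5) (nat_lit 304) (nat_lit 286) (nat_lit 130)) (XT.nd (nat_lit 78) (nat_lit 304) (nat_lit 0) (XT.lf (nat_lit 0) (nat_lit 31180272938) (nat_lit 380) (nat_lit 16975910595) (nat_lit 76) (nat_lit 16843608865) (nat_lit 53) (nat_lit 5) (nat_lit 58) (nat_lit 5) (nat_lit 54) (nat_lit 5) (nat_lit 305) (nat_lit 286) (nat_lit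 129)) (XT.lf (nat_lit 0) (nat_lit 12899708034) (nat_lit 304) (nat_lit 26111077453) (nat_lit 380) (nat_lit 27981790584) (nat_lit 49) (nat_lit 5) (nat_lit 53) (nat_lit 5) (nat_lit 54) (nat_lit 5) (nat_lit 306) (nat_lit 286) (nat_lit 128))))))) (XT.nd (nat_lit 702) (nat_lit 608) (nat_lit 0) (XT.nd (nat_lit 312) (nat_lit 456) (nat_lit 0) (XT.nd (nat_lit 156) (nat_lit 380) (nat_lit 0) (XT.nd (nat_lit 78) (nat_lit 228) (nat_lit 0) (XT.lf (nat_lit 0) (nat_lit 44857190036) (nat_lit 304) (nat_lit 2661994834) (nat_lit 380) (nat_lit 21551499143) (nat_lit 49) (nat_lit 5) (nat_lit 53) (nat_lit 5) (nat_lit 54) (nat_lit 5) (nat_lit 307) (nat_lit 286) (nat_lit 127)) (XT.lf (nat_lit 0) (nat_lit 7041080807) (nat_lit 228) (nat_lit 49863622145) (nat_lit 304) (nat_lit 14325412461) (nat_lit 46) (nat_lit 5) (nat_lit 49) (nat_lit 5) (nat_lit 50) (nat_lit 5) (nat_lit 308) (nat_lit 286) (nat_lit 126))) (XT.nd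 (nat_lit 78) (nat_lit 380) (nat_lit 0) (XT.lf (nat_lit 0) (nat_lit 40652684044) (nat_lit 228) (nat_lit 26558765196) (nat_lit 304) (nat_lit 6263474384) (nat_lit 46) (nat_lit 5) (nat_lit 49) (nat_lit 5) (nat_lit 50) (nat_lit 5) (nat_lit 309) (nat_lit 286) (nat_lit 125)) (XT.lf (nat_lit 0) (nat_lit 79845789) (nat_lit 304) (nat_lit 2051478383) (nat_lit 380) (nat_lit 73698920671) (nat_lit 41) (nat_lit 5) (nat_lit 45) (nat_lit 5) (nat_lit 46) (nat_lit 5) (nat_lit 310) (nat_lit 286) (nat_lit 124)))) (XT.nd (nat_lit 156) (nat_lit 456) (nat_lit 0) (XT.nd (nat_lit 78) (nat_lit 0) (nat_lit 0) (XT.lf (nat_lit 0) (nat_lit 11669078077) (nat_lit 380) (nat_lit 42991772512) (nat_lit 76) (nat_lit 23590664545) (nat_lit 41) (nat_lit 5) (nat_lit 46) (nat_lit 5) (nat_lit 42) (nat_lit 5) (nat_lit 311) (nat_lit 286) (nat_lit 123)) (XT.lf (nat_lit 0) (nat_lit 21716404544) (nat_lit 380) (nat_lit 8630046422)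 (nat_lit 76) (nat_lit 50445766077) (nat_lit 41) (nat_lit 5) (nat_lit 46) (nat_lit 5) (nat_lit 42) (nat_lit 5) (nat_lit 312) (nat_lit 286) (nat_lit 122))) (XT.nd (nat_lit 78) (nat_lit 228) (nat_lit 0) (XT.lf (nat_lit 0) (nat_lit 28356197585) (nat_lit 228) (nat_lit 4351718581) (nat_lit 304) (nat_lit 50729949176) (nat_lit 38) (nat_lit 5) (nat_lit 41) (nat_lit 5) (nat_lit 42) (nat_lit 5) (nat_lit 313) (nat_lit 286) (nat_lit 121)) (XT.nd (nat_lit 78) (nat_lit 228) (nat_lit 0) (XT.lf (nat_lit 0) (nat_lit 44754874530) (nat_lit 304) (nat_lit 19078882794) (nat_lit 76) (nat_lit 22356747306) (nat_lit 38) (nat_lit 5) (nat_lit 42) (nat_lit 5) (nat_lit 39) (nat_lit 5) (nat_lit 314) (nat_lit 286) (nat_lit 120)) (XT.lf (nat_lit 0) (nat_lit 19268295799) (nat_lit 228) (nat_lit 38507219184) (nat_lit 304) (nat_lit 31286696218) (nat_lit 35) (nat_lit 5) (nat_lit 38) (nat_lit 5) (nat_lit 39) (nat_lit 5) (nat_lit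 315) (nat_lit 286) (nat_lit 119)))))) (XT.nd (nat_lit 312) (nat_lit 380) (nat_lit 0) (XT.nd (nat_lit 156) (nat_lit 76) (nat_lit 0) (XT.nd (nat_lit 78) (nat_lit 152) (nat_lit 0) (XT.lf (nat_lit 0) (nat_lit 60194115215) (nat_lit 228) (nat_lit 11575367590) (nat_lit 304) (nat_lit 20291907461) (nat_lit 35) (nat_lit 5) (nat_lit 38) (nat_lit 5) (nat_lit 39) (nat_lit 5) (nat_lit 316) (nat_lit 286) (nat_lit 118)) (XT.lf (nat_lit 0) (nat_lit 7948230248) (nat_lit 152) (nat_lit 78899014637) (nat_lit 228) (nat_lit 8344080446) (nat_lit 33) (nat_lit 5) (nat_lit 35) (nat_lit 5) (nat_lit 36) (nat_lit 5) (nat_lit 317) (nat_lit 286) (nat_lit 117))) (XT.nd (nat_lit 78) (nat_lit 0) (nat_lit 0) (XT.lf (nat_lit 0) (nat_lit 4804196777) (nat_lit 228) (nat_lit 47855189216) (nat_lit 76) (nat_lit 45778217174) (nat_lit 32) (nat_lit 5) (nat_lit 35) (nat_lit 5) (nat_lit 33) (nat_lit 5) (nat_lit 318) (nat_lit 286)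 (nat_lit 116)) (XT.lf (nat_lit 0) (nat_lit 18328735206) (nat_lit 228) (nat_lit 6635712541) (nat_lit 76) (nat_lit 76874946168) (nat_lit 32) (nat_lit 5) (nat_lit 35) (nat_lit 5) (nat_lit 33) (nat_lit 5) (nat_lit 319) (nat_lit 286) (nat_lit 115)))) (XT.nd (nat_lit 156) (nat_lit 152) (nat_lit 0) (XT.nd (nat_lit 78) (nat_lit 0) (nat_lit 0) (XT.lf (nat_lit 0) (nat_lit 33193761972) (nat_lit 304) (nat_lit 67600335387) (nat_lit 76) (nat_lit 4583965284) (nat_lit 29) (nat_lit 5) (nat_lit 33) (nat_lit 5) (nat_lit 30) (nat_lit 5) (nat_lit 320) (nat_lit 286) (nat_lit 114)) (XT.lf (nat_lit 0) (nat_lit 49324826618) (nat_lit 304) (nat_lit 24857927523) (nat_lit 76) (nat_lit 34884772782) (nat_lit 29) (nat_lit 5) (nat_lit 33) (nat_lit 5) (nat_lit 30) (nat_lit 5) (nat_lit 321) (nat_lit 286) (nat_lit 113))) (XT.nd (nat_lit 78) (nat_lit 0) (nat_lit 0) (XT.lf (nat_lit 0) (nat_lit 20682619292) (nat_lit 152)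 (nat_lit 45902083631) (nat_lit 228) (nat_lit 46340649944) (nat_lit 27) (nat_lit 5) (nat_lit 29) (nat_lit 5) (nat_lit 30) (nat_lit 5) (nat_lit 322) (nat_lit 286) (nat_lit 112)) (XT.nd (nat_lit 78) (nat_lit 0) (nat_lit 0) (XT.lf (nat_lit 0) (nat_lit 69362265532) (nat_lit 152) (nat_lit 15765649862) (nat_lit 228) (nat_lit 31827138907) (nat_lit 27) (nat_lit 5) (nat_lit 29) (nat_lit 5) (nat_lit 30) (nat_lit 5) (nat_lit 323) (nat_lit 286) (nat_lit 111)) (XT.lf (nat_lit 0) (nat_lit 104845569674) (nat_lit 228) (nat_lit 959162149) (nat_lit 76) (nat_lit 15369146167) (nat_lit 27) (nat_lit 5) (nat_lit 30) (nat_lit 5) (nat_lit 28) (nat_lit 5) (nat_lit 324) (nat_lit 286) (nat_lit 110))))))))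
noncomputable def xc230 : XT := (XT.nd (nat_lit 1326) (nat_lit 152) (nat_lit 0) (XT.nd (nat_lit 624) (nat_lit 380) (nat_lit 0) (XT.nd (nat_lit 312) (nat_lit 228) (nat_lit 0) (XT.nd (nat_lit 156) (nat_lit 152) (nat_lit 0) (XT.nd (nat_lit 78) (nat_lit 0) (nat_lit 0) (XT.lf (nat_lit 0) (nat_lit 992039915) (nat_lit 228) (nat_lit 76242705486) (nat_lit 76) (nat_lit 48316699638) (nat_lit 24) (nat_lit 5) (nat_lit 27) (nat_lit 5) (nat_lit 25) (nat_lit 5) (nat_lit 325) (nat_lit 286) (nat_lit 109)) (XT.lf (nat_lit 0) (nat_lit 18645597822) (nat_lit 228) (nat_lit 28292569150) (nat_lit 76) (nat_lit 83195544157) (nat_lit 24) (nat_lit 5) (nat_lit 27) (nat_lit 5) (nat_lit 25) (nat_lit 5) (nat_lit 326) (nat_lit 286) (nat_lit 108))) (XT.nd (nat_lit 78) (nat_lit 0) (nat_lit 0) (XT.lf (nat_lit 0) (nat_lit 22783444891) (nat_lit 152) (nat_lit 14753550088) (nat_lit 228) (nat_lit 97390338504) (nat_lit 22) (nat_lit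 5) (nat_lit 24) (nat_lit 5) (nat_lit 25) (nat_lit 5) (nat_lit 327) (nat_lit 286) (nat_lit 107)) (XT.lf (nat_lit 0) (nat_lit 58156694413) (nat_lit 228) (nat_lit 62847144534) (nat_lit 76) (nat_lit 18917612361) (nat_lit 22) (nat_lit 5) (nat_lit 25) (nat_lit 5) (nat_lit 23) (nat_lit 5) (nat_lit 328) (nat_lit 286) (nat_lit 106)))) (XT.nd (nat_lit 156) (nat_lit 76) (nat_lit 0) (XT.nd (nat_lit 78) (nat_lit 152) (nat_lit 0) (XT.lf (nat_lit 0) (nat_lit 80048722935) (nat_lit 228) (nat_lit 11328235656) (nat_lit 76) (nat_lit 53776250157) (nat_lit 22) (nat_lit 5) (nat_lit 25) (nat_lit 5) (nat_lit 23) (nat_lit 5) (nat_lit 329) (nat_lit 286) (nat_lit 105)) (XT.lf (nat_lit 0) (nat_lit 44179878392) (nat_lit 152) (nat_lit 59544753484) (nat_lit 228) (nat_lit 46887459121) (nat_lit 20) (nat_lit 5) (nat_lit 22) (nat_lit 5) (nat_lit 23) (nat_lit 5) (nat_lit 330) (nat_lit 286) (nat_lit 104))) (XT.nd (nat_lit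 78) (nat_lit 76) (nat_lit 0) (XT.lf (nat_lit 0) (nat_lit 102855929070) (nat_lit 152) (nat_lit 25919775221) (nat_lit 228) (nat_lit 27558645507) (nat_lit 20) (nat_lit 5) (nat_lit 22) (nat_lit 5) (nat_lit 23) (nat_lit 5) (nat_lit 331) (nat_lit 286) (nat_lit 103)) (XT.lf (nat_lit 0) (nat_lit 2041096535) (nat_lit 76) (nat_lit 153216187493) (nat_lit 152) (nat_lit 7076540629) (nat_lit 19) (nat_lit 5) (nat_lit 20) (nat_lit 5) (nat_lit 21) (nat_lit 4) (nat_lit 332) (nat_lit 286) (nat_lit 102))))) (XT.nd (nat_lit 312) (nat_lit 152) (nat_lit 0) (XT.nd (nat_lit 156) (nat_lit 152) (nat_lit 0) (XT.nd (nat_lit 78) (nat_lit 0) (nat_lit 0) (XT.lf (nat_lit 0) (nat_lit 15312814591) (nat_lit 152) (nat_lit 107060545798) (nat_lit 76) (nat_lit 46181399989) (nat_lit 18) (nat_lit 5) (nat_lit 20) (nat_lit 5) (nat_lit 19) (nat_lit 5) (nat_lit 333) (nat_lit 286) (nat_lit 101)) (XT.lf (nat_lit 0) (nat_lit 38583381401)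 (nat_lit 152) (nat_lit 51283474809) (nat_lit 76) (nat_lit 85214108824) (nat_lit 18) (nat_lit 5) (nat_lit 20) (nat_lit 5) (nat_lit 19) (nat_lit 5) (nat_lit 334) (nat_lit 286) (nat_lit 100))) (XT.nd (nat_lit 78) (nat_lit 0) (nat_lit 0) (XT.lf (nat_lit 0) (nat_lit 7522540293) (nat_lit 152) (nat_lit 55611967048) (nat_lit 228) (nat_lit 118793121703) (nat_lit 16) (nat_lit 5) (nat_lit 18) (nat_lit 5) (nat_lit 19) (nat_lit 5) (nat_lit 335) (nat_lit 286) (nat_lit 99)) (XT.lf (nat_lit 0) (nat_lit 71048635823) (nat_lit 152) (nat_lit 18732656526) (nat_lit 228) (nat_lit 99291929397) (nat_lit 16) (nat_lit 5) (nat_lit 18) (nat_lit 5) (nat_lit 19) (nat_lit 5) (nat_lit 336) (nat_lit 286) (nat_lit 98)))) (XT.nd (nat_lit 156) (nat_lit 76) (nat_lit 0) (XT.nd (nat_lit 78) (nat_lit 76) (nat_lit 0) (XT.lf (nat_lit 0) (nat_lit 118072134071) (nat_lit 228) (nat_lit 59137818731) (nat_lit 76) (nat_lit 19350556006)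 (nat_lit 16) (nat_lit 5) (nat_lit 19) (nat_lit 5) (nat_lit 17) (nat_lit 4) (nat_lit 337) (nat_lit 286) (nat_lit 97)) (XT.lf (nat_lit 0) (nat_lit 2464451764) (nat_lit 76) (nat_lit 145658262386) (nat_lit 152) (nat_lit 56282186830) (nat_lit 15) (nat_lit 5) (nat_lit 16) (nat_lit 5) (nat_lit 17) (nat_lit 4) (nat_lit 338) (nat_lit 286) (nat_lit 96))) (XT.nd (nat_lit 78) (nat_lit 76) (nat_lit 0) (XT.lf (nat_lit 0) (nat_lit 69199357143) (nat_lit 76) (nat_lit 111477628466) (nat_lit 152) (nat_lit 31914469577) (nat_lit 15) (nat_lit 5) (nat_lit 16) (nat_lit 5) (nat_lit 17) (nat_lit 4) (nat_lit 339) (nat_lit 286) (nat_lit 95)) (XT.nd (nat_lit 78) (nat_lit 76) (nat_lit 0) (XT.lf (nat_lit 0) (nat_lit 139270426675) (nat_lit 76) (nat_lit 75588196155) (nat_lit 152) (nat_lit 6328732179) (nat_lit 15) (nat_lit 5) (nat_lit 16) (nat_lit 5) (nat_lit 17) (nat_lit 4) (nat_lit 340) (nat_lit 286) (nat_lit 94))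 (XT.lf (nat_lit 0) (nat_lit 19878665335) (nat_lit 152) (nat_lit 17689194274) (nat_lit 76) (nat_lit 192629176089) (nat_lit 14) (nat_lit 5) (nat_lit 16) (nat_lit 5) (nat_lit 15) (nat_lit 5) (nat_lit 341) (nat_lit 286) (nat_lit 93))))))) (XT.nd (nat_lit 33852) (nat_lit 0) (nat_lit 3420) (XT.nd (nat_lit 33462) (nat_lit 0) (nat_lit 4636) (XT.nd (nat_lit 33306) (nat_lit 0) (nat_lit 4560) (XT.nd (nat_lit 33228) (nat_lit 0) (nat_lit 4560) (XT.lf (nat_lit 0) (nat_lit 48035729713) (nat_lit 228) (nat_lit 188376413866) (nat_lit 76) (nat_lit 3197270609) (nat_lit 12) (nat_lit 5) (nat_lit 15) (nat_lit 5) (nat_lit 13) (nat_lit 4) (nat_lit 342) (nat_lit 286) (nat_lit 92)) (XT.lf (nat_lit 0) (nat_lit 4627502680) (nat_lit 0) (nat_lit 4627502680) (nat_lit 684) (nat_lit 11088665356) (nat_lit 72) (nat_lit 5) (nat_lit 72) (nat_lit 3) (nat_lit 81) (nat_lit 3) (nat_lit 287) (nat_lit 287) (nat_lit 146))) (XT.nd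 (nat_lit 78) (nat_lit 0) (nat_lit 0) (XT.lf (nat_lit 0) (nat_lit 19143531559) (nat_lit 684) (nat_lit 14209889002) (nat_lit 760) (nat_lit 8342447558) (nat_lit 72) (nat_lit 5) (nat_lit 81) (nat_lit 3) (nat_lit 82) (nat_lit 5) (nat_lit 288) (nat_lit 287) (nat_lit 145)) (XT.lf (nat_lit 76) (nat_lit 3843680105) (nat_lit 0) (nat_lit 16174480239) (nat_lit 760) (nat_lit 22726196774) (nat_lit 73) (nat_lit 5) (nat_lit 72) (nat_lit 5) (nat_lit 82) (nat_lit 5) (nat_lit 289) (nat_lit 287) (nat_lit 144)))) (XT.nd (nat_lit 156) (nat_lit 0) (nat_lit 0) (XT.nd (nat_lit 78) (nat_lit 0) (nat_lit 0) (XT.lf (nat_lit 0) (nat_lit 21208013995) (nat_lit 684) (nat_lit 20574425166) (nat_lit 760) (nat_lit 2049263947) (nat_lit 73) (nat_lit 5) (nat_lit 82) (nat_lit 5) (nat_lit 83) (nat_lit 5) (nat_lit 290) (nat_lit 287) (nat_lit 143)) (XT.lf (nat_lit 0) (nat_lit 22720424284) (nat_lit 684) (nat_lit 1598360886) (nat_lit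 760) (nat_lit 20641484901) (nat_lit 73) (nat_lit 5) (nat_lit 82) (nat_lit 5) (nat_lit 83) (nat_lit 5) (nat_lit 291) (nat_lit 287) (nat_lit 142))) (XT.nd (nat_lit 78) (nat_lit 0) (nat_lit 76) (XT.lf (nat_lit 76) (nat_lit 18931140625) (nat_lit 0) (nat_lit 5670890757) (nat_lit 760) (nat_lit 21528561727) (nat_lit 74) (nat_lit 5) (nat_lit 73) (nat_lit 5) (nat_lit 83) (nat_lit 5) (nat_lit 292) (nat_lit 287) (nat_lit 141)) (XT.nd (nat_lit 78) (nat_lit 0) (nat_lit 0) (XT.lf (nat_lit 0) (nat_lit 26820489861) (nat_lit 684) (nat_lit 7034450970) (nat_lit 760) (nat_lit 13492359148) (nat_lit 74) (nat_lit 5) (nat_lit 83) (nat_lit 5) (nat_lit 84) (nat_lit 5) (nat_lit 293) (nat_lit 287) (nat_lit 140)) (XT.lf (nat_lit 76) (nat_lit 14508903705) (nat_lit 0) (nat_lit 14958641976) (nat_lit 760) (nat_lit 19141418727) (nat_lit 75) (nat_lit 5) (nat_lit 74) (nat_lit 5) (nat_lit 84) (nat_lit 5) (nat_lit 294)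 (nat_lit 287) (nat_lit 139)))))) (XT.nd (nat_lit 312) (nat_lit 760) (nat_lit 0) (XT.nd (nat_lit 156) (nat_lit 608) (nat_lit 0) (XT.nd (nat_lit 78) (nat_lit 0) (nat_lit 0) (XT.lf (nat_lit 0) (nat_lit 32442526136) (nat_lit 684) (nat_lit 12633677434) (nat_lit 760) (nat_lit 4847735546) (nat_lit 75) (nat_lit 5) (nat_lit 84) (nat_lit 5) (nat_lit 85) (nat_lit 5) (nat_lit 295) (nat_lit 287) (nat_lit 138)) (XT.lf (nat_lit 76) (nat_lit 9978867153) (nat_lit 0) (nat_lit 25986751100) (nat_lit 760) (nat_lit 15319081557) (nat_lit 76) (nat_lit 5) (nat_lit 75) (nat_lit 5) (nat_lit 85) (nat_lit 5) (nat_lit 296) (nat_lit 287) (nat_lit 137))) (XT.nd (nat_lit 78) (nat_lit 608) (nat_lit 0) (XT.lf (nat_lit 76) (nat_lit 34159352743) (nat_lit 0) (nat_lit 5717869315) (nat_lit 760) (nat_lit 12825663754) (nat_lit 76) (nat_lit 5) (nat_lit 75) (nat_lit 5) (nat_lit 85) (nat_lit 5) (nat_lit 297) (nat_lit 287) (nat_lit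 136)) (XT.lf (nat_lit 0) (nat_lit 5281598141) (nat_lit 684) (nat_lit 39026753577) (nat_lit 760) (nat_lit 9867436994) (nat_lit 67) (nat_lit 5) (nat_lit 76) (nat_lit 5) (nat_lit 77) (nat_lit 5) (nat_lit 298) (nat_lit 287) (nat_lit 135)))) (XT.nd (nat_lit 156) (nat_lit 456) (nat_lit 0) (XT.nd (nat_lit 78) (nat_lit 304) (nat_lit 0) (XT.lf (nat_lit 0) (nat_lit 30843639265) (nat_lit 684) (nat_lit 18522198379) (nat_lit 760) (nat_lit 6336263776) (nat_lit 67) (nat_lit 5) (nat_lit 76) (nat_lit 5) (nat_lit 77) (nat_lit 5) (nat_lit 299) (nat_lit 287) (nat_lit 134)) (XT.lf (nat_lit 0) (nat_lit 341716750) (nat_lit 304) (nat_lit 54385377833) (nat_lit 380) (nat_lit 2575094772) (nat_lit 63) (nat_lit 5) (nat_lit 67) (nat_lit 5) (nat_lit 68) (nat_lit 5) (nat_lit 300) (nat_lit 287) (nat_lit 133))) (XT.nd (nat_lit 78) (nat_lit 380) (nat_lit 0) (XT.lf (nat_lit 0) (nat_lit 2060310773) (nat_lit 380) (nat_lit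 31629640481) (nat_lit 76) (nat_lit 25254753799) (nat_lit 62) (nat_lit 5) (nat_lit 67) (nat_lit 5) (nat_lit 63) (nat_lit 5) (nat_lit 301) (nat_lit 287) (nat_lit 132)) (XT.nd (nat_lit 78) (nat_lit 380) (nat_lit 0) (XT.lf (nat_lit 0) (nat_lit 6839636776) (nat_lit 380) (nat_lit 5075761837) (nat_lit 76) (nat_lit 48751906505) (nat_lit 62) (nat_lit 5) (nat_lit 67) (nat_lit 5) (nat_lit 63) (nat_lit 5) (nat_lit 302) (nat_lit 287) (nat_lit 131)) (XT.lf (nat_lit 0) (nat_lit 12401455007) (nat_lit 456) (nat_lit 39076053647) (nat_lit 76) (nat_lit 10971353877) (nat_lit 57) (nat_lit 5) (nat_lit 63) (nat_lit 5) (nat_lit 58) (nat_lit 5) (nat_lit 303) (nat_lit 287) (nat_lit 130))))))))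
noncomputable def xc231 : XT := (XT.nd (nat_lit 1404) (nat_lit 1064) (nat_lit 0) (XT.nd (nat_lit 702) (nat_lit 912) (nat_lit 0) (XT.nd (nat_lit 312) (nat_lit 608) (nat_lit 0) (XT.nd (nat_lit 156) (nat_lit 304) (nat_lit 0) (XT.nd (nat_lit 78) (nat_lit 304) (nat_lit 0) (XT.lf (nat_lit 0) (nat_lit 18522861618) (nat_lit 456) (nat_lit 11093179941) (nat_lit 76) (nat_lit 34689384852) (nat_lit 57) (nat_lit 5) (nat_lit 63) (nat_lit 5) (nat_lit 58) (nat_lit 5) (nat_lit 304) (nat_lit 287) (nat_lit 129)) (XT.lf (nat_lit 0) (nat_lit 18892305702) (nat_lit 304) (nat_lit 6351845547) (nat_lit 380) (nat_lit 40995979907) (nat_lit 53) (nat_lit 5) (nat_lit 57) (nat_lit 5) (nat_lit 58) (nat_lit 5) (nat_lit 305) (nat_lit 287) (nat_lit 128))) (XT.nd (nat_lit 78) (nat_lit 304) (nat_lit 0) (XT.lf (nat_lit 0) (nat_lit 32773549668) (nat_lit 380) (nat_lit 17786513680) (nat_lit 76) (nat_lit 17687908722) (nat_lit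 53) (nat_lit 5) (nat_lit 58) (nat_lit 5) (nat_lit 54) (nat_lit 5) (nat_lit 306) (nat_lit 287) (nat_lit 127)) (XT.lf (nat_lit 0) (nat_lit 13582269874) (nat_lit 304) (nat_lit 27412273069) (nat_lit 380) (nat_lit 29345908837) (nat_lit 49) (nat_lit 5) (nat_lit 53) (nat_lit 5) (nat_lit 54) (nat_lit 5) (nat_lit 307) (nat_lit 287) (nat_lit 126)))) (XT.nd (nat_lit 156) (nat_lit 380) (nat_lit 0) (XT.nd (nat_lit 78) (nat_lit 228) (nat_lit 0) (XT.lf (nat_lit 0) (nat_lit 47135836621) (nat_lit 304) (nat_lit 2790943855) (nat_lit 380) (nat_lit 22595768124) (nat_lit 49) (nat_lit 5) (nat_lit 53) (nat_lit 5) (nat_lit 54) (nat_lit 5) (nat_lit 308) (nat_lit 287) (nat_lit 125)) (XT.lf (nat_lit 0) (nat_lit 7429923646) (nat_lit 228) (nat_lit 52350780418) (nat_lit 304) (nat_lit 15009295207) (nat_lit 46) (nat_lit 5) (nat_lit 49) (nat_lit 5) (nat_lit 50) (nat_lit 5) (nat_lit 309) (nat_lit 287) (nat_lit 124)))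 (XT.nd (nat_lit 78) (nat_lit 380) (nat_lit 0) (XT.lf (nat_lit 0) (nat_lit 42720355197) (nat_lit 228) (nat_lit 27880967423) (nat_lit 304) (nat_lit 6545802506) (nat_lit 46) (nat_lit 5) (nat_lit 49) (nat_lit 5) (nat_lit 50) (nat_lit 5) (nat_lit 310) (nat_lit 287) (nat_lit 123)) (XT.nd (nat_lit 78) (nat_lit 0) (nat_lit 0) (XT.lf (nat_lit 0) (nat_lit 119355864) (nat_lit 304) (nat_lit 2147525569) (nat_lit 380) (nat_lit 77353353870) (nat_lit 41) (nat_lit 5) (nat_lit 45) (nat_lit 5) (nat_lit 46) (nat_lit 5) (nat_lit 311) (nat_lit 287) (nat_lit 122)) (XT.lf (nat_lit 0) (nat_lit 12280239555) (nat_lit 380) (nat_lit 45106182407) (nat_lit 76) (nat_lit 24776214760) (nat_lit 41) (nat_lit 5) (nat_lit 46) (nat_lit 5) (nat_lit 42) (nat_lit 5) (nat_lit 312) (nat_lit 287) (nat_lit 121)))))) (XT.nd (nat_lit 312) (nat_lit 456) (nat_lit 0) (XT.nd (nat_lit 156) (nat_lit 228) (nat_lit 0) (XT.nd (nat_lit 78)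 (nat_lit 228) (nat_lit 0) (XT.lf (nat_lit 0) (nat_lit 22828612937) (nat_lit 380) (nat_lit 9028045190) (nat_lit 76) (nat_lit 52973784845) (nat_lit 41) (nat_lit 5) (nat_lit 46) (nat_lit 5) (nat_lit 42) (nat_lit 5) (nat_lit 313) (nat_lit 287) (nat_lit 120)) (XT.lf (nat_lit 0) (nat_lit 29806970638) (nat_lit 228) (nat_lit 4561987571) (nat_lit 304) (nat_lit 53239455695) (nat_lit 38) (nat_lit 5) (nat_lit 41) (nat_lit 5) (nat_lit 42) (nat_lit 5) (nat_lit 314) (nat_lit 287) (nat_lit 119))) (XT.nd (nat_lit 78) (nat_lit 228) (nat_lit 0) (XT.lf (nat_lit 0) (nat_lit 47017152039) (nat_lit 304) (nat_lit 20000261561) (nat_lit 76) (nat_lit 23481330149) (nat_lit 38) (nat_lit 5) (nat_lit 42) (nat_lit 5) (nat_lit 39) (nat_lit 5) (nat_lit 315) (nat_lit 287) (nat_lit 118)) (XT.lf (nat_lit 0) (nat_lit 20263750714) (nat_lit 228) (nat_lit 40424405762) (nat_lit 304) (nat_lit 32825915405) (nat_lit 35) (nat_lit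 5) (nat_lit 38) (nat_lit 5) (nat_lit 39) (nat_lit 5) (nat_lit 316) (nat_lit 287) (nat_lit 117)))) (XT.nd (nat_lit 156) (nat_lit 304) (nat_lit 0) (XT.nd (nat_lit 78) (nat_lit 152) (nat_lit 0) (XT.lf (nat_lit 0) (nat_lit 63234335381) (nat_lit 228) (nat_lit 12146350844) (nat_lit 304) (nat_lit 21282583192) (nat_lit 35) (nat_lit 5) (nat_lit 38) (nat_lit 5) (nat_lit 39) (nat_lit 5) (nat_lit 317) (nat_lit 287) (nat_lit 116)) (XT.lf (nat_lit 0) (nat_lit 8376715575) (nat_lit 152) (nat_lit 82835139397) (nat_lit 228) (nat_lit 8737872902) (nat_lit 33) (nat_lit 5) (nat_lit 35) (nat_lit 5) (nat_lit 36) (nat_lit 5) (nat_lit 318) (nat_lit 287) (nat_lit 115))) (XT.nd (nat_lit 78) (nat_lit 228) (nat_lit 0) (XT.lf (nat_lit 0) (nat_lit 5065989711) (nat_lit 228) (nat_lit 50217594373) (nat_lit 76) (nat_lit 48074773526) (nat_lit 32) (nat_lit 5) (nat_lit 35) (nat_lit 5) (nat_lit 33) (nat_lit 5) (nat_lit 319)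 (nat_lit 287) (nat_lit 114)) (XT.nd (nat_lit 78) (nat_lit 228) (nat_lit 0) (XT.lf (nat_lit 0) (nat_lit 19265727295) (nat_lit 228) (nat_lit 6938589308) (nat_lit 76) (nat_lit 80725974898) (nat_lit 32) (nat_lit 5) (nat_lit 35) (nat_lit 5) (nat_lit 33) (nat_lit 5) (nat_lit 320) (nat_lit 287) (nat_lit 113)) (XT.lf (nat_lit 0) (nat_lit 34873602134) (nat_lit 304) (nat_lit 70950997799) (nat_lit 76) (nat_lit 4821316007) (nat_lit 29) (nat_lit 5) (nat_lit 33) (nat_lit 5) (nat_lit 30) (nat_lit 5) (nat_lit 321) (nat_lit 287) (nat_lit 112))))))) (XT.nd (nat_lit 702) (nat_lit 532) (nat_lit 0) (XT.nd (nat_lit 312) (nat_lit 380) (nat_lit 0) (XT.nd (nat_lit 156) (nat_lit 0) (nat_lit 0) (XT.nd (nat_lit 78) (nat_lit 152) (nat_lit 0) (XT.lf (nat_lit 0) (nat_lit 51810260390) (nat_lit 304) (nat_lit 26072867369) (nat_lit 76) (nat_lit 36636775668) (nat_lit 29) (nat_lit 5) (nat_lit 33) (nat_lit 5) (nat_lit 30)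 (nat_lit 5) (nat_lit 322) (nat_lit 287) (nat_lit 111)) (XT.lf (nat_lit 0) (nat_lit 21744255875) (nat_lit 152) (nat_lit 48188390150) (nat_lit 228) (nat_lit 48638000784) (nat_lit 27) (nat_lit 5) (nat_lit 29) (nat_lit 5) (nat_lit 30) (nat_lit 5) (nat_lit 323) (nat_lit 287) (nat_lit 110))) (XT.nd (nat_lit 78) (nat_lit 0) (nat_lit 0) (XT.lf (nat_lit 0) (nat_lit 72856574636) (nat_lit 152) (nat_lit 16545553628) (nat_lit 228) (nat_lit 33399751416) (nat_lit 27) (nat_lit 5) (nat_lit 29) (nat_lit 5) (nat_lit 30) (nat_lit 5) (nat_lit 324) (nat_lit 287) (nat_lit 109)) (XT.lf (nat_lit 0) (nat_lit 110104941411) (nat_lit 228) (nat_lit 981413259) (nat_lit 76) (nat_lit 16145327814) (nat_lit 27) (nat_lit 5) (nat_lit 30) (nat_lit 5) (nat_lit 28) (nat_lit 5) (nat_lit 325) (nat_lit 287) (nat_lit 108)))) (XT.nd (nat_lit 156) (nat_lit 152) (nat_lit 0) (XT.nd (nat_lit 78) (nat_lit 0) (nat_lit 0) (XT.lf (nat_lit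 0) (nat_lit 1058621461) (nat_lit 228) (nat_lit 80028955457) (nat_lit 76) (nat_lit 50740559881) (nat_lit 24) (nat_lit 5) (nat_lit 27) (nat_lit 5) (nat_lit 25) (nat_lit 5) (nat_lit 326) (nat_lit 287) (nat_lit 107)) (XT.lf (nat_lit 0) (nat_lit 19594048714) (nat_lit 228) (nat_lit 29682544938) (nat_lit 76) (nat_lit 87362964471) (nat_lit 24) (nat_lit 5) (nat_lit 27) (nat_lit 5) (nat_lit 25) (nat_lit 5) (nat_lit 327) (nat_lit 287) (nat_lit 106))) (XT.nd (nat_lit 78) (nat_lit 0) (nat_lit 0) (XT.lf (nat_lit 0) (nat_lit 23946872182) (nat_lit 152) (nat_lit 15482752189) (nat_lit 228) (nat_lit 102243258221) (nat_lit 22) (nat_lit 5) (nat_lit 24) (nat_lit 5) (nat_lit 25) (nat_lit 5) (nat_lit 328) (nat_lit 287) (nat_lit 105)) (XT.nd (nat_lit 78) (nat_lit 0) (nat_lit 0) (XT.lf (nat_lit 0) (nat_lit 61079683388) (nat_lit 228) (nat_lit 65965749107) (nat_lit 76) (nat_lit 19871306444) (nat_lit 22) (nat_lit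 5) (nat_lit 25) (nat_lit 5) (nat_lit 23) (nat_lit 5) (nat_lit 329) (nat_lit 287) (nat_lit 104)) (XT.lf (nat_lit 0) (nat_lit 84065591705) (nat_lit 228) (nat_lit 11872025863) (nat_lit 76) (nat_lit 56472504060) (nat_lit 22) (nat_lit 5) (nat_lit 25) (nat_lit 5) (nat_lit 23) (nat_lit 5) (nat_lit 330) (nat_lit 287) (nat_lit 103)))))) (XT.nd (nat_lit 312) (nat_lit 228) (nat_lit 0) (XT.nd (nat_lit 156) (nat_lit 152) (nat_lit 0) (XT.nd (nat_lit 78) (nat_lit 0) (nat_lit 0) (XT.lf (nat_lit 0) (nat_lit 46411129023) (nat_lit 152) (nat_lit 62513827292) (nat_lit 228) (nat_lit 49217009898) (nat_lit 20) (nat_lit 5) (nat_lit 22) (nat_lit 5) (nat_lit 23) (nat_lit 5) (nat_lit 331) (nat_lit 287) (nat_lit 102)) (XT.lf (nat_lit 0) (nat_lit 108019922392) (nat_lit 152) (nat_lit 27207988872) (nat_lit 228) (nat_lit 28922461421) (nat_lit 20) (nat_lit 5) (nat_lit 22) (nat_lit 5) (nat_lit 23) (nat_lit 5) (nat_lit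 332) (nat_lit 287) (nat_lit 101))) (XT.nd (nat_lit 78) (nat_lit 76) (nat_lit 0) (XT.lf (nat_lit 0) (nat_lit 2164570312) (nat_lit 76) (nat_lit 160868810564) (nat_lit 152) (nat_lit 7416450985) (nat_lit 19) (nat_lit 5) (nat_lit 20) (nat_lit 5) (nat_lit 21) (nat_lit 4) (nat_lit 333) (nat_lit 287) (nat_lit 100)) (XT.lf (nat_lit 0) (nat_lit 16091285086) (nat_lit 152) (nat_lit 112392729564) (nat_lit 76) (nat_lit 48497821944) (nat_lit 18) (nat_lit 5) (nat_lit 20) (nat_lit 5) (nat_lit 19) (nat_lit 5) (nat_lit 334) (nat_lit 287) (nat_lit 99)))) (XT.nd (nat_lit 156) (nat_lit 76) (nat_lit 0) (XT.nd (nat_lit 78) (nat_lit 152) (nat_lit 0) (XT.lf (nat_lit 0) (nat_lit 40524769296) (nat_lit 152) (nat_lit 53827797574) (nat_lit 76) (nat_lit 89481816128) (nat_lit 18) (nat_lit 5) (nat_lit 20) (nat_lit 5) (nat_lit 19) (nat_lit 5) (nat_lit 335) (nat_lit 287) (nat_lit 98)) (XT.lf (nat_lit 0) (nat_lit 7918198107)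 (nat_lit 152) (nat_lit 58384976509) (nat_lit 228) (nat_lit 124720220360) (nat_lit 16) (nat_lit 5) (nat_lit 18) (nat_lit 5) (nat_lit 19) (nat_lit 5) (nat_lit 336) (nat_lit 287) (nat_lit 97))) (XT.nd (nat_lit 78) (nat_lit 76) (nat_lit 0) (XT.lf (nat_lit 0) (nat_lit 74619668374) (nat_lit 152) (nat_lit 19662061836) (nat_lit 228) (nat_lit 104244566412) (nat_lit 16) (nat_lit 5) (nat_lit 18) (nat_lit 5) (nat_lit 19) (nat_lit 5) (nat_lit 337) (nat_lit 287) (nat_lit 96)) (XT.nd (nat_lit 78) (nat_lit 76) (nat_lit 0) (XT.lf (nat_lit 0) (nat_lit 123986679904) (nat_lit 228) (nat_lit 62076543830) (nat_lit 76) (nat_lit 20324746845) (nat_lit 16) (nat_lit 5) (nat_lit 19) (nat_lit 5) (nat_lit 17) (nat_lit 4) (nat_lit 338) (nat_lit 287) (nat_lit 95)) (XT.lf (nat_lit 0) (nat_lit 2605547192) (nat_lit 76) (nat_lit 152933999929) (nat_lit 152) (nat_lit 59085048128) (nat_lit 15) (nat_lit 5) (nat_lit 16) (nat_lit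 5) (nat_lit 17) (nat_lit 4) (nat_lit 339) (nat_lit 287) (nat_lit 94))))))))
noncomputable def xc232 : XT := (XT.nd (nat_lit 34554) (nat_lit 0) (nat_lit 1444) (XT.nd (nat_lit 33852) (nat_lit 0) (nat_lit 3724) (XT.nd (nat_lit 33540) (nat_lit 0) (nat_lit 4408) (XT.nd (nat_lit 156) (nat_lit 76) (nat_lit 0) (XT.nd (nat_lit 78) (nat_lit 0) (nat_lit 0) (XT.lf (nat_lit 0) (nat_lit 72676346752) (nat_lit 76) (nat_lit 117044676007) (nat_lit 152) (nat_lit 33499480634) (nat_lit 15) (nat_lit 5) (nat_lit 16) (nat_lit 5) (nat_lit 17) (nat_lit 4) (nat_lit 340) (nat_lit 287) (nat_lit 93)) (XT.lf (nat_lit 0) (nat_lit 146250159201) (nat_lit 76) (nat_lit 79361097504) (nat_lit 152) (nat_lit 6634966481) (nat_lit 15) (nat_lit 5) (nat_lit 16) (nat_lit 5) (nat_lit 17) (nat_lit 4) (nat_lit 341) (nat_lit 287) (nat_lit 92))) (XT.nd (nat_lit 33306) (nat_lit 0) (nat_lit 4408) (XT.lf (nat_lit 0) (nat_lit 20882004097)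 (nat_lit 152) (nat_lit 18557890674) (nat_lit 76) (nat_lit 202266509343) (nat_lit 14) (nat_lit 5) (nat_lit 16) (nat_lit 5) (nat_lit 15) (nat_lit 5) (nat_lit 342) (nat_lit 287) (nat_lit 91)) (XT.lf (nat_lit 0) (nat_lit 4876702588) (nat_lit 0) (nat_lit 4876702588) (nat_lit 684) (nat_lit 11605550125) (nat_lit 72) (nat_lit 5) (nat_lit 72) (nat_lit 3) (nat_lit 81) (nat_lit 3) (nat_lit 288) (nat_lit 288) (nat_lit 144)))) (XT.nd (nat_lit 156) (nat_lit 0) (nat_lit 76) (XT.nd (nat_lit 78) (nat_lit 0) (nat_lit 0) (XT.lf (nat_lit 0) (nat_lit 20168081952) (nat_lit 684) (nat_lit 14882284366) (nat_lit 760) (nat_lit 8726704660) (nat_lit 72) (nat_lit 5) (nat_lit 81) (nat_lit 3) (nat_lit 82) (nat_lit 5) (nat_lit 289) (nat_lit 288) (nat_lit 143)) (XT.lf (nat_lit 76) (nat_lit 4073348695) (nat_lit 0) (nat_lit 17010470443) (nat_lit 760) (nat_lit 23794307005) (nat_lit 73) (nat_lit 5) (nat_lit 72) (nat_lit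 5) (nat_lit 82) (nat_lit 5) (nat_lit 290) (nat_lit 288) (nat_lit 142))) (XT.nd (nat_lit 78) (nat_lit 0) (nat_lit 0) (XT.lf (nat_lit 0) (nat_lit 22329676671) (nat_lit 684) (nat_lit 21563756789) (nat_lit 760) (nat_lit 2126590474) (nat_lit 73) (nat_lit 5) (nat_lit 82) (nat_lit 5) (nat_lit 83) (nat_lit 5) (nat_lit 291) (nat_lit 288) (nat_lit 141)) (XT.lf (nat_lit 0) (nat_lit 23914790238) (nat_lit 684) (nat_lit 1640764992) (nat_lit 760) (nat_lit 21649619460) (nat_lit 73) (nat_lit 5) (nat_lit 82) (nat_lit 5) (nat_lit 83) (nat_lit 5) (nat_lit 292) (nat_lit 288) (nat_lit 140))))) (XT.nd (nat_lit 312) (nat_lit 760) (nat_lit 0) (XT.nd (nat_lit 156) (nat_lit 0) (nat_lit 76) (XT.nd (nat_lit 78) (nat_lit 0) (nat_lit 76) (XT.lf (nat_lit 76) (nat_lit 19914606531) (nat_lit 0) (nat_lit 5973669090) (nat_lit 760) (nat_lit 22545857488) (nat_lit 74) (nat_lit 5) (nat_lit 73) (nat_lit 5) (nat_lit 83) (nat_lit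 5) (nat_lit 293) (nat_lit 288) (nat_lit 139)) (XT.lf (nat_lit 0) (nat_lit 28214697570) (nat_lit 684) (nat_lit 7347888926) (nat_lit 760) (nat_lit 14149245493) (nat_lit 74) (nat_lit 5) (nat_lit 83) (nat_lit 5) (nat_lit 84) (nat_lit 5) (nat_lit 294) (nat_lit 288) (nat_lit 138))) (XT.nd (nat_lit 78) (nat_lit 0) (nat_lit 76) (XT.lf (nat_lit 76) (nat_lit 15272015990) (nat_lit 0) (nat_lit 15720145745) (nat_lit 760) (nat_lit 20044523402) (nat_lit 75) (nat_lit 5) (nat_lit 74) (nat_lit 5) (nat_lit 84) (nat_lit 5) (nat_lit 295) (nat_lit 288) (nat_lit 137)) (XT.lf (nat_lit 0) (nat_lit 34113249470) (nat_lit 684) (nat_lit 13226688465) (nat_lit 760) (nat_lit 5077610616) (nat_lit 75) (nat_lit 5) (nat_lit 84) (nat_lit 5) (nat_lit 85) (nat_lit 5) (nat_lit 296) (nat_lit 288) (nat_lit 136)))) (XT.nd (nat_lit 156) (nat_lit 912) (nat_lit 0) (XT.nd (nat_lit 78) (nat_lit 0) (nat_lit 0) (XT.lf (nat_lit 76)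 (nat_lit 10515859596) (nat_lit 0) (nat_lit 27294916506) (nat_lit 760) (nat_lit 16035664691) (nat_lit 76) (nat_lit 5) (nat_lit 75) (nat_lit 5) (nat_lit 85) (nat_lit 5) (nat_lit 297) (nat_lit 288) (nat_lit 135)) (XT.lf (nat_lit 76) (nat_lit 35903557604) (nat_lit 0) (nat_lit 6012170258) (nat_lit 760) (nat_lit 13419926995) (nat_lit 76) (nat_lit 5) (nat_lit 75) (nat_lit 5) (nat_lit 85) (nat_lit 5) (nat_lit 298) (nat_lit 288) (nat_lit 134))) (XT.nd (nat_lit 78) (nat_lit 304) (nat_lit 0) (XT.lf (nat_lit 0) (nat_lit 5583796883) (nat_lit 684) (nat_lit 40982961313) (nat_lit 760) (nat_lit 10315534308) (nat_lit 67) (nat_lit 5) (nat_lit 76) (nat_lit 5) (nat_lit 77) (nat_lit 5) (nat_lit 299) (nat_lit 288) (nat_lit 133)) (XT.nd (nat_lit 78) (nat_lit 304) (nat_lit 0) (XT.lf (nat_lit 0) (nat_lit 32422124881) (nat_lit 684) (nat_lit 19452946446) (nat_lit 760) (nat_lit 6609958359) (nat_lit 67) (nat_lit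 5) (nat_lit 76) (nat_lit 5) (nat_lit 77) (nat_lit 5) (nat_lit 300) (nat_lit 288) (nat_lit 132)) (XT.lf (nat_lit 0) (nat_lit 396733638) (nat_lit 304) (nat_lit 57106231109) (nat_lit 380) (nat_lit 2662234766) (nat_lit 63) (nat_lit 5) (nat_lit 67) (nat_lit 5) (nat_lit 68) (nat_lit 5) (nat_lit 301) (nat_lit 288) (nat_lit 131))))))) (XT.nd (nat_lit 702) (nat_lit 988) (nat_lit 0) (XT.nd (nat_lit 312) (nat_lit 836) (nat_lit 0) (XT.nd (nat_lit 156) (nat_lit 380) (nat_lit 0) (XT.nd (nat_lit 78) (nat_lit 0) (nat_lit 0) (XT.lf (nat_lit 0) (nat_lit 2201690895) (nat_lit 380) (nat_lit 33173617137) (nat_lit 76) (nat_lit 26514601993) (nat_lit 62) (nat_lit 5) (nat_lit 67) (nat_lit 5) (nat_lit 63) (nat_lit 5) (nat_lit 302) (nat_lit 288) (nat_lit 130)) (XT.lf (nat_lit 0) (nat_lit 7218156314) (nat_lit 380) (nat_lit 5293830529) (nat_lit 76) (nat_lit 51186749929) (nat_lit 62) (nat_lit 5) (nat_lit 67) (nat_lit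 5) (nat_lit 63) (nat_lit 5) (nat_lit 303) (nat_lit 288) (nat_lit 129))) (XT.nd (nat_lit 78) (nat_lit 0) (nat_lit 0) (XT.lf (nat_lit 0) (nat_lit 13056871078) (nat_lit 456) (nat_lit 40992840917) (nat_lit 76) (nat_lit 11519724861) (nat_lit 57) (nat_lit 5) (nat_lit 63) (nat_lit 5) (nat_lit 58) (nat_lit 5) (nat_lit 304) (nat_lit 288) (nat_lit 128)) (XT.lf (nat_lit 0) (nat_lit 19482665005) (nat_lit 456) (nat_lit 11612586165) (nat_lit 76) (nat_lit 36423666752) (nat_lit 57) (nat_lit 5) (nat_lit 63) (nat_lit 5) (nat_lit 58) (nat_lit 5) (nat_lit 305) (nat_lit 288) (nat_lit 127)))) (XT.nd (nat_lit 156) (nat_lit 532) (nat_lit 0) (XT.nd (nat_lit 78) (nat_lit 0) (nat_lit 0) (XT.lf (nat_lit 0) (nat_lit 19871605167) (nat_lit 304) (nat_lit 6667352595) (nat_lit 380) (nat_lit 43011457818) (nat_lit 53) (nat_lit 5) (nat_lit 57) (nat_lit 5) (nat_lit 58) (nat_lit 5) (nat_lit 306) (nat_lit 288) (nat_lit 126))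 (XT.lf (nat_lit 0) (nat_lit 34443304777) (nat_lit 380) (nat_lit 18641197691) (nat_lit 76) (nat_lit 18574226528) (nat_lit 53) (nat_lit 5) (nat_lit 58) (nat_lit 5) (nat_lit 54) (nat_lit 5) (nat_lit 307) (nat_lit 288) (nat_lit 125))) (XT.nd (nat_lit 78) (nat_lit 228) (nat_lit 0) (XT.lf (nat_lit 0) (nat_lit 14295466304) (nat_lit 304) (nat_lit 28778933655) (nat_lit 380) (nat_lit 30781484301) (nat_lit 49) (nat_lit 5) (nat_lit 53) (nat_lit 5) (nat_lit 54) (nat_lit 5) (nat_lit 308) (nat_lit 288) (nat_lit 124)) (XT.nd (nat_lit 78) (nat_lit 228) (nat_lit 0) (XT.lf (nat_lit 0) (nat_lit 49525088392) (nat_lit 304) (nat_lit 2926726222) (nat_lit 380) (nat_lit 23695347027) (nat_lit 49) (nat_lit 5) (nat_lit 53) (nat_lit 5) (nat_lit 54) (nat_lit 5) (nat_lit 309) (nat_lit 288) (nat_lit 123)) (XT.lf (nat_lit 0) (nat_lit 7834788353) (nat_lit 228) (nat_lit 54962856551) (nat_lit 304) (nat_lit 15730383208)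 (nat_lit 46) (nat_lit 5) (nat_lit 49) (nat_lit 5) (nat_lit 50) (nat_lit 5) (nat_lit 310) (nat_lit 288) (nat_lit 122)))))) (XT.nd (nat_lit 312) (nat_lit 608) (nat_lit 0) (XT.nd (nat_lit 156) (nat_lit 0) (nat_lit 0) (XT.nd (nat_lit 78) (nat_lit 380) (nat_lit 0) (XT.lf (nat_lit 0) (nat_lit 44888152504) (nat_lit 228) (nat_lit 29269813043) (nat_lit 304) (nat_lit 6845114765) (nat_lit 46) (nat_lit 5) (nat_lit 49) (nat_lit 5) (nat_lit 50) (nat_lit 5) (nat_lit 311) (nat_lit 288) (nat_lit 121)) (XT.lf (nat_lit 0) (nat_lit 157539336) (nat_lit 304) (nat_lit 2248981908) (nat_lit 380) (nat_lit 81193345523) (nat_lit 41) (nat_lit 5) (nat_lit 45) (nat_lit 5) (nat_lit 46) (nat_lit 5) (nat_lit 312) (nat_lit 288) (nat_lit 120))) (XT.nd (nat_lit 78) (nat_lit 0) (nat_lit 0) (XT.lf (nat_lit 0) (nat_lit 12919383119) (nat_lit 380) (nat_lit 47329583381) (nat_lit 76) (nat_lit 26020483083) (nat_lit 41) (nat_lit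 5) (nat_lit 46) (nat_lit 5) (nat_lit 42) (nat_lit 5) (nat_lit 313) (nat_lit 288) (nat_lit 119)) (XT.lf (nat_lit 0) (nat_lit 23993978428) (nat_lit 380) (nat_lit 9449058739) (nat_lit 76) (nat_lit 55627671787) (nat_lit 41) (nat_lit 5) (nat_lit 46) (nat_lit 5) (nat_lit 42) (nat_lit 5) (nat_lit 314) (nat_lit 288) (nat_lit 118)))) (XT.nd (nat_lit 156) (nat_lit 380) (nat_lit 0) (XT.nd (nat_lit 78) (nat_lit 0) (nat_lit 0) (XT.lf (nat_lit 0) (nat_lit 31327217739) (nat_lit 228) (nat_lit 4783450270) (nat_lit 304) (nat_lit 55876946901) (nat_lit 38) (nat_lit 5) (nat_lit 41) (nat_lit 5) (nat_lit 42) (nat_lit 5) (nat_lit 315) (nat_lit 288) (nat_lit 117)) (XT.lf (nat_lit 0) (nat_lit 49390262505) (nat_lit 304) (nat_lit 20970736885) (nat_lit 76) (nat_lit 24661515004) (nat_lit 38) (nat_lit 5) (nat_lit 42) (nat_lit 5) (nat_lit 39) (nat_lit 5) (nat_lit 316) (nat_lit 288) (nat_lit 116))) (XT.nd (nat_lit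 78) (nat_lit 152) (nat_lit 0) (XT.lf (nat_lit 0) (nat_lit 21305999588) (nat_lit 228) (nat_lit 42438211645) (nat_lit 304) (nat_lit 34444430563) (nat_lit 35) (nat_lit 5) (nat_lit 38) (nat_lit 5) (nat_lit 39) (nat_lit 5) (nat_lit 317) (nat_lit 288) (nat_lit 115)) (XT.nd (nat_lit 78) (nat_lit 152) (nat_lit 0) (XT.lf (nat_lit 0) (nat_lit 66423729615) (nat_lit 228) (nat_lit 12746607048) (nat_lit 304) (nat_lit 22325016531) (nat_lit 35) (nat_lit 5) (nat_lit 38) (nat_lit 5) (nat_lit 39) (nat_lit 5) (nat_lit 318) (nat_lit 288) (nat_lit 114)) (XT.lf (nat_lit 0) (nat_lit 8823736218) (nat_lit 152) (nat_lit 86968890950) (nat_lit 228) (nat_lit 9153531566) (nat_lit 33) (nat_lit 5) (nat_lit 35) (nat_lit 5) (nat_lit 36) (nat_lit 5) (nat_lit 319) (nat_lit 288) (nat_lit 113))))))))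
noncomputable def xc233 : XT := (XT.nd (nat_lit 1326) (nat_lit 228) (nat_lit 0) (XT.nd (nat_lit 624) (nat_lit 456) (nat_lit 0) (XT.nd (nat_lit 312) (nat_lit 380) (nat_lit 0) (XT.nd (nat_lit 156) (nat_lit 228) (nat_lit 0) (XT.nd (nat_lit 78) (nat_lit 0) (nat_lit 0) (XT.lf (nat_lit 0) (nat_lit 5338865700) (nat_lit 228) (nat_lit 52700941845) (nat_lit 76) (nat_lit 50485446889) (nat_lit 32) (nat_lit 5) (nat_lit 35) (nat_lit 5) (nat_lit 33) (nat_lit 5) (nat_lit 320) (nat_lit 288) (nat_lit 112)) (XT.lf (nat_lit 0) (nat_lit 20247657949) (nat_lit 228) (nat_lit 7259297586) (nat_lit 76) (nat_lit 84768878107) (nat_lit 32) (nat_lit 5) (nat_lit 35) (nat_lit 5) (nat_lit 33) (nat_lit 5) (nat_lit 321) (nat_lit 288) (nat_lit 111))) (XT.nd (nat_lit 78) (nat_lit 0) (nat_lit 0) (XT.lf (nat_lit 0) (nat_lit 36635560757) (nat_lit 304) (nat_lit 74471922423) (nat_lit 76) (nat_lit 5069776328) (nat_lit 29) (nat_lit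 5) (nat_lit 33) (nat_lit 5) (nat_lit 30) (nat_lit 5) (nat_lit 322) (nat_lit 288) (nat_lit 110)) (XT.lf (nat_lit 0) (nat_lit 54418181520) (nat_lit 304) (nat_lit 27351153340) (nat_lit 76) (nat_lit 38475656851) (nat_lit 29) (nat_lit 5) (nat_lit 33) (nat_lit 5) (nat_lit 30) (nat_lit 5) (nat_lit 323) (nat_lit 288) (nat_lit 109)))) (XT.nd (nat_lit 156) (nat_lit 228) (nat_lit 0) (XT.nd (nat_lit 78) (nat_lit 0) (nat_lit 0) (XT.lf (nat_lit 0) (nat_lit 22856417076) (nat_lit 152) (nat_lit 50589829917) (nat_lit 228) (nat_lit 51052048979) (nat_lit 27) (nat_lit 5) (nat_lit 29) (nat_lit 5) (nat_lit 30) (nat_lit 5) (nat_lit 324) (nat_lit 288) (nat_lit 108)) (XT.lf (nat_lit 0) (nat_lit 76523163755) (nat_lit 152) (nat_lit 17365231558) (nat_lit 228) (nat_lit 35052737230) (nat_lit 27) (nat_lit 5) (nat_lit 29) (nat_lit 5) (nat_lit 30) (nat_lit 5) (nat_lit 325) (nat_lit 288) (nat_lit 107))) (XT.nd (nat_lit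 78) (nat_lit 228) (nat_lit 0) (XT.lf (nat_lit 0) (nat_lit 115625692566) (nat_lit 228) (nat_lit 1007166917) (nat_lit 76) (nat_lit 16959600407) (nat_lit 27) (nat_lit 5) (nat_lit 30) (nat_lit 5) (nat_lit 28) (nat_lit 5) (nat_lit 326) (nat_lit 288) (nat_lit 106)) (XT.lf (nat_lit 0) (nat_lit 1126953487) (nat_lit 228) (nat_lit 84006924497) (nat_lit 76) (nat_lit 53284867024) (nat_lit 24) (nat_lit 5) (nat_lit 27) (nat_lit 5) (nat_lit 25) (nat_lit 5) (nat_lit 327) (nat_lit 288) (nat_lit 105))))) (XT.nd (nat_lit 312) (nat_lit 304) (nat_lit 0) (XT.nd (nat_lit 156) (nat_lit 0) (nat_lit 0) (XT.nd (nat_lit 78) (nat_lit 152) (nat_lit 0) (XT.lf (nat_lit 0) (nat_lit 20588418724) (nat_lit 228) (nat_lit 31144311487) (nat_lit 76) (nat_lit 91738045217) (nat_lit 24) (nat_lit 5) (nat_lit 27) (nat_lit 5) (nat_lit 25) (nat_lit 5) (nat_lit 328) (nat_lit 288) (nat_lit 104)) (XT.lf (nat_lit 0) (nat_lit 25166215833)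 (nat_lit 152) (nat_lit 16249202357) (nat_lit 228) (nat_lit 107340366974) (nat_lit 22) (nat_lit 5) (nat_lit 24) (nat_lit 5) (nat_lit 25) (nat_lit 5) (nat_lit 329) (nat_lit 288) (nat_lit 103))) (XT.nd (nat_lit 78) (nat_lit 0) (nat_lit 0) (XT.lf (nat_lit 0) (nat_lit 64147412913) (nat_lit 228) (nat_lit 69242492204) (nat_lit 76) (nat_lit 20871958808) (nat_lit 22) (nat_lit 5) (nat_lit 25) (nat_lit 5) (nat_lit 23) (nat_lit 5) (nat_lit 330) (nat_lit 288) (nat_lit 102)) (XT.lf (nat_lit 0) (nat_lit 88281962105) (nat_lit 228) (nat_lit 12445108720) (nat_lit 76) (nat_lit 59302878827) (nat_lit 22) (nat_lit 5) (nat_lit 25) (nat_lit 5) (nat_lit 23) (nat_lit 5) (nat_lit 331) (nat_lit 288) (nat_lit 101)))) (XT.nd (nat_lit 156) (nat_lit 152) (nat_lit 0) (XT.nd (nat_lit 78) (nat_lit 0) (nat_lit 0) (XT.lf (nat_lit 0) (nat_lit 48751872967) (nat_lit 152) (nat_lit 65632113789) (nat_lit 228) (nat_lit 51664416239)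 (nat_lit 20) (nat_lit 5) (nat_lit 22) (nat_lit 5) (nat_lit 23) (nat_lit 5) (nat_lit 332) (nat_lit 288) (nat_lit 100)) (XT.lf (nat_lit 0) (nat_lit 113440144695) (nat_lit 152) (nat_lit 28561336060) (nat_lit 228) (nat_lit 30355780536) (nat_lit 20) (nat_lit 5) (nat_lit 22) (nat_lit 5) (nat_lit 23) (nat_lit 5) (nat_lit 333) (nat_lit 288) (nat_lit 99))) (XT.nd (nat_lit 78) (nat_lit 76) (nat_lit 0) (XT.lf (nat_lit 0) (nat_lit 2292226448) (nat_lit 76) (nat_lit 168904825873) (nat_lit 152) (nat_lit 7774650700) (nat_lit 19) (nat_lit 5) (nat_lit 20) (nat_lit 5) (nat_lit 21) (nat_lit 4) (nat_lit 334) (nat_lit 288) (nat_lit 98)) (XT.nd (nat_lit 78) (nat_lit 0) (nat_lit 0) (XT.lf (nat_lit 0) (nat_lit 16907486317) (nat_lit 152) (nat_lit 117993460351) (nat_lit 76) (nat_lit 50929381482) (nat_lit 18) (nat_lit 5) (nat_lit 20) (nat_lit 5) (nat_lit 19) (nat_lit 5) (nat_lit 335) (nat_lit 288) (nat_lit 97))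 (XT.lf (nat_lit 0) (nat_lit 42562090595) (nat_lit 152) (nat_lit 56501182033) (nat_lit 76) (nat_lit 93962257830) (nat_lit 18) (nat_lit 5) (nat_lit 20) (nat_lit 5) (nat_lit 19) (nat_lit 5) (nat_lit 336) (nat_lit 288) (nat_lit 96))))))) (XT.nd (nat_lit 34086) (nat_lit 0) (nat_lit 3952) (XT.nd (nat_lit 312) (nat_lit 0) (nat_lit 0) (XT.nd (nat_lit 156) (nat_lit 76) (nat_lit 0) (XT.nd (nat_lit 78) (nat_lit 0) (nat_lit 0) (XT.lf (nat_lit 0) (nat_lit 8331823022) (nat_lit 152) (nat_lit 61297341985) (nat_lit 228) (nat_lit 130944841422) (nat_lit 16) (nat_lit 5) (nat_lit 18) (nat_lit 5) (nat_lit 19) (nat_lit 5) (nat_lit 337) (nat_lit 288) (nat_lit 95)) (XT.lf (nat_lit 0) (nat_lit 78367523231) (nat_lit 152) (nat_lit 20638609358) (nat_lit 228) (nat_lit 109445947155) (nat_lit 16) (nat_lit 5) (nat_lit 18) (nat_lit 5) (nat_lit 19) (nat_lit 5) (nat_lit 338) (nat_lit 288) (nat_lit 94))) (XT.nd (nat_lit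 78) (nat_lit 76) (nat_lit 0) (XT.lf (nat_lit 0) (nat_lit 130195936013) (nat_lit 228) (nat_lit 65163894072) (nat_lit 76) (nat_lit 21347027760) (nat_lit 16) (nat_lit 5) (nat_lit 19) (nat_lit 5) (nat_lit 17) (nat_lit 4) (nat_lit 339) (nat_lit 288) (nat_lit 93)) (XT.lf (nat_lit 0) (nat_lit 2752035744) (nat_lit 76) (nat_lit 160574191467) (nat_lit 152) (nat_lit 62029098227) (nat_lit 15) (nat_lit 5) (nat_lit 16) (nat_lit 5) (nat_lit 17) (nat_lit 4) (nat_lit 340) (nat_lit 288) (nat_lit 92)))) (XT.nd (nat_lit 33540) (nat_lit 0) (nat_lit 4332) (XT.nd (nat_lit 33462) (nat_lit 0) (nat_lit 4332) (XT.lf (nat_lit 0) (nat_lit 76325603320) (nat_lit 76) (nat_lit 122890711275) (nat_lit 152) (nat_lit 35164738182) (nat_lit 15) (nat_lit 5) (nat_lit 16) (nat_lit 5) (nat_lit 17) (nat_lit 4) (nat_lit 341) (nat_lit 288) (nat_lit 91)) (XT.lf (nat_lit 0) (nat_lit 5136705312) (nat_lit 0) (nat_lit 5136705312) (nat_lit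 684) (nat_lit 12151770035) (nat_lit 72) (nat_lit 5) (nat_lit 72) (nat_lit 3) (nat_lit 81) (nat_lit 3) (nat_lit 289) (nat_lit 289) (nat_lit 142))) (XT.nd (nat_lit 78) (nat_lit 0) (nat_lit 0) (XT.lf (nat_lit 0) (nat_lit 21237596086) (nat_lit 684) (nat_lit 15591841590) (nat_lit 760) (nat_lit 9133230120) (nat_lit 72) (nat_lit 5) (nat_lit 81) (nat_lit 3) (nat_lit 82) (nat_lit 5) (nat_lit 290) (nat_lit 289) (nat_lit 141)) (XT.nd (nat_lit 78) (nat_lit 0) (nat_lit 76) (XT.lf (nat_lit 76) (nat_lit 4311015753) (nat_lit 0) (nat_lit 17885725206) (nat_lit 760) (nat_lit 24922163301) (nat_lit 73) (nat_lit 5) (nat_lit 72) (nat_lit 5) (nat_lit 82) (nat_lit 5) (nat_lit 291) (nat_lit 289) (nat_lit 140)) (XT.lf (nat_lit 0) (nat_lit 23501726924) (nat_lit 684) (nat_lit 22606217069) (nat_lit 760) (nat_lit 2210120297) (nat_lit 73) (nat_lit 5) (nat_lit 82) (nat_lit 5) (nat_lit 83) (nat_lit 5) (nat_lit 292)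 (nat_lit 289) (nat_lit 139)))))) (XT.nd (nat_lit 312) (nat_lit 456) (nat_lit 0) (XT.nd (nat_lit 156) (nat_lit 0) (nat_lit 76) (XT.nd (nat_lit 78) (nat_lit 0) (nat_lit 0) (XT.lf (nat_lit 0) (nat_lit 25163450149) (nat_lit 684) (nat_lit 1688776994) (nat_lit 760) (nat_lit 22710386432) (nat_lit 73) (nat_lit 5) (nat_lit 82) (nat_lit 5) (nat_lit 83) (nat_lit 5) (nat_lit 293) (nat_lit 289) (nat_lit 138)) (XT.lf (nat_lit 76) (nat_lit 20943814295) (nat_lit 0) (nat_lit 6289798164) (nat_lit 760) (nat_lit 23619515601) (nat_lit 74) (nat_lit 5) (nat_lit 73) (nat_lit 5) (nat_lit 83) (nat_lit 5) (nat_lit 294) (nat_lit 289) (nat_lit 137))) (XT.nd (nat_lit 78) (nat_lit 0) (nat_lit 0) (XT.lf (nat_lit 0) (nat_lit 29673671192) (nat_lit 684) (nat_lit 7680558117) (nat_lit 760) (nat_lit 14840624671) (nat_lit 74) (nat_lit 5) (nat_lit 83) (nat_lit 5) (nat_lit 84) (nat_lit 5) (nat_lit 295) (nat_lit 289) (nat_lit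 136)) (XT.lf (nat_lit 76) (nat_lit 16069781959) (nat_lit 0) (nat_lit 16518462938) (nat_lit 760) (nat_lit 20997800582) (nat_lit 75) (nat_lit 5) (nat_lit 74) (nat_lit 5) (nat_lit 84) (nat_lit 5) (nat_lit 296) (nat_lit 289) (nat_lit 135)))) (XT.nd (nat_lit 156) (nat_lit 608) (nat_lit 0) (XT.nd (nat_lit 78) (nat_lit 0) (nat_lit 0) (XT.lf (nat_lit 0) (nat_lit 35862990880) (nat_lit 684) (nat_lit 13852945482) (nat_lit 760) (nat_lit 5320142660) (nat_lit 75) (nat_lit 5) (nat_lit 84) (nat_lit 5) (nat_lit 85) (nat_lit 5) (nat_lit 297) (nat_lit 289) (nat_lit 134)) (XT.lf (nat_lit 76) (nat_lit 11076164217) (nat_lit 0) (nat_lit 28667669453) (nat_lit 760) (nat_lit 16792667025) (nat_lit 76) (nat_lit 5) (nat_lit 75) (nat_lit 5) (nat_lit 85) (nat_lit 5) (nat_lit 298) (nat_lit 289) (nat_lit 133))) (XT.nd (nat_lit 78) (nat_lit 608) (nat_lit 0) (XT.lf (nat_lit 76) (nat_lit 37731603715) (nat_lit 0) (nat_lit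 6320404600) (nat_lit 760) (nat_lit 14048274868) (nat_lit 76) (nat_lit 5) (nat_lit 75) (nat_lit 5) (nat_lit 85) (nat_lit 5) (nat_lit 299) (nat_lit 289) (nat_lit 132)) (XT.nd (nat_lit 78) (nat_lit 0) (nat_lit 0) (XT.lf (nat_lit 0) (nat_lit 5897561634) (nat_lit 684) (nat_lit 43036526663) (nat_lit 760) (nat_lit 10790245685) (nat_lit 67) (nat_lit 5) (nat_lit 76) (nat_lit 5) (nat_lit 77) (nat_lit 5) (nat_lit 300) (nat_lit 289) (nat_lit 131)) (XT.lf (nat_lit 0) (nat_lit 34076159608) (nat_lit 684) (nat_lit 20429800707) (nat_lit 760) (nat_lit 6901346431) (nat_lit 67) (nat_lit 5) (nat_lit 76) (nat_lit 5) (nat_lit 77) (nat_lit 5) (nat_lit 301) (nat_lit 289) (nat_lit 130))))))))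
noncomputable def xc234 : XT := (XT.nd (nat_lit 1326) (nat_lit 1292) (nat_lit 0) (XT.nd (nat_lit 624) (nat_lit 1064) (nat_lit 0) (XT.nd (nat_lit 312) (nat_lit 608) (nat_lit 0) (XT.nd (nat_lit 156) (nat_lit 380) (nat_lit 0) (XT.nd (nat_lit 78) (nat_lit 76) (nat_lit 0) (XT.lf (nat_lit 0) (nat_lit 450974901) (nat_lit 304) (nat_lit 59962979748) (nat_lit 380) (nat_lit 2757600704) (nat_lit 63) (nat_lit 5) (nat_lit 67) (nat_lit 5) (nat_lit 68) (nat_lit 5) (nat_lit 302) (nat_lit 289) (nat_lit 129)) (XT.lf (nat_lit 0) (nat_lit 2346573249) (nat_lit 380) (nat_lit 34798279518) (nat_lit 76) (nat_lit 27837711234) (nat_lit 62) (nat_lit 5) (nat_lit 67) (nat_lit 5) (nat_lit 63) (nat_lit 5) (nat_lit 303) (nat_lit 289) (nat_lit 128))) (XT.nd (nat_lit 78) (nat_lit 380) (nat_lit 0) (XT.lf (nat_lit 0) (nat_lit 7612204899) (nat_lit 380) (nat_lit 5526123508) (nat_lit 76) (nat_lit 53743591369) (nat_lit 62)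 (nat_lit 5) (nat_lit 67) (nat_lit 5) (nat_lit 63) (nat_lit 5) (nat_lit 304) (nat_lit 289) (nat_lit 127)) (XT.lf (nat_lit 0) (nat_lit 13741772066) (nat_lit 456) (nat_lit 43008908893) (nat_lit 76) (nat_lit 12095532683) (nat_lit 57) (nat_lit 5) (nat_lit 63) (nat_lit 5) (nat_lit 58) (nat_lit 5) (nat_lit 305) (nat_lit 289) (nat_lit 126)))) (XT.nd (nat_lit 156) (nat_lit 304) (nat_lit 0) (XT.nd (nat_lit 78) (nat_lit 304) (nat_lit 0) (XT.lf (nat_lit 0) (nat_lit 20487329144) (nat_lit 456) (nat_lit 12161240168) (nat_lit 76) (nat_lit 38244680165) (nat_lit 57) (nat_lit 5) (nat_lit 63) (nat_lit 5) (nat_lit 58) (nat_lit 5) (nat_lit 306) (nat_lit 289) (nat_lit 125)) (XT.lf (nat_lit 0) (nat_lit 20896644999) (nat_lit 304) (nat_lit 6998828861) (nat_lit 380) (nat_lit 45130900474) (nat_lit 53) (nat_lit 5) (nat_lit 57) (nat_lit 5) (nat_lit 58) (nat_lit 5) (nat_lit 307) (nat_lit 289) (nat_lit 124))) (XT.nd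 (nat_lit 78) (nat_lit 304) (nat_lit 0) (XT.lf (nat_lit 0) (nat_lit 36193658339) (nat_lit 380) (nat_lit 19541836556) (nat_lit 76) (nat_lit 19504681501) (nat_lit 53) (nat_lit 5) (nat_lit 58) (nat_lit 5) (nat_lit 54) (nat_lit 5) (nat_lit 308) (nat_lit 289) (nat_lit 123)) (XT.lf (nat_lit 0) (nat_lit 15041153848) (nat_lit 304) (nat_lit 30214294789) (nat_lit 380) (nat_lit 32291787561) (nat_lit 49) (nat_lit 5) (nat_lit 53) (nat_lit 5) (nat_lit 54) (nat_lit 5) (nat_lit 309) (nat_lit 289) (nat_lit 122))))) (XT.nd (nat_lit 312) (nat_lit 456) (nat_lit 0) (XT.nd (nat_lit 156) (nat_lit 380) (nat_lit 0) (XT.nd (nat_lit 78) (nat_lit 228) (nat_lit 0) (XT.lf (nat_lit 0) (nat_lit 52030784934) (nat_lit 304) (nat_lit 3069647724) (nat_lit 380) (nat_lit 24852713469) (nat_lit 49) (nat_lit 5) (nat_lit 53) (nat_lit 5) (nat_lit 54) (nat_lit 5) (nat_lit 310) (nat_lit 289) (nat_lit 121)) (XT.lf (nat_lit 0) (nat_lit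 8256794006) (nat_lit 228) (nat_lit 57706044378) (nat_lit 304) (nat_lit 16490256781) (nat_lit 46) (nat_lit 5) (nat_lit 49) (nat_lit 5) (nat_lit 50) (nat_lit 5) (nat_lit 311) (nat_lit 289) (nat_lit 120))) (XT.nd (nat_lit 78) (nat_lit 380) (nat_lit 0) (XT.lf (nat_lit 0) (nat_lit 47161385115) (nat_lit 228) (nat_lit 30728584647) (nat_lit 304) (nat_lit 7161993754) (nat_lit 46) (nat_lit 5) (nat_lit 49) (nat_lit 5) (nat_lit 50) (nat_lit 5) (nat_lit 312) (nat_lit 289) (nat_lit 119)) (XT.lf (nat_lit 0) (nat_lit 194636872) (nat_lit 304) (nat_lit 2356061444) (nat_lit 380) (nat_lit 85227909815) (nat_lit 41) (nat_lit 5) (nat_lit 45) (nat_lit 5) (nat_lit 46) (nat_lit 5) (nat_lit 313) (nat_lit 289) (nat_lit 118)))) (XT.nd (nat_lit 156) (nat_lit 456) (nat_lit 0) (XT.nd (nat_lit 78) (nat_lit 0) (nat_lit 0) (XT.lf (nat_lit 0) (nat_lit 13588147364) (nat_lit 380) (nat_lit 49667120921) (nat_lit 76) (nat_lit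 27326457428) (nat_lit 41) (nat_lit 5) (nat_lit 46) (nat_lit 5) (nat_lit 42) (nat_lit 5) (nat_lit 314) (nat_lit 289) (nat_lit 117)) (XT.lf (nat_lit 0) (nat_lit 25215386959) (nat_lit 380) (nat_lit 9893948220) (nat_lit 76) (nat_lit 58413769844) (nat_lit 41) (nat_lit 5) (nat_lit 46) (nat_lit 5) (nat_lit 42) (nat_lit 5) (nat_lit 315) (nat_lit 289) (nat_lit 116))) (XT.nd (nat_lit 78) (nat_lit 228) (nat_lit 0) (XT.lf (nat_lit 0) (nat_lit 32920697511) (nat_lit 228) (nat_lit 5016603119) (nat_lit 304) (nat_lit 58648588732) (nat_lit 38) (nat_lit 5) (nat_lit 41) (nat_lit 5) (nat_lit 42) (nat_lit 5) (nat_lit 316) (nat_lit 289) (nat_lit 115)) (XT.nd (nat_lit 78) (nat_lit 228) (nat_lit 0) (XT.lf (nat_lit 0) (nat_lit 51879959634) (nat_lit 304) (nat_lit 21992482116) (nat_lit 76) (nat_lit 25900140275) (nat_lit 38) (nat_lit 5) (nat_lit 42) (nat_lit 5) (nat_lit 39) (nat_lit 5) (nat_lit 317) (nat_lit 289)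 (nat_lit 114)) (XT.lf (nat_lit 0) (nat_lit 22397659057) (nat_lit 228) (nat_lit 44553397143) (nat_lit 304) (nat_lit 36145989405) (nat_lit 35) (nat_lit 5) (nat_lit 38) (nat_lit 5) (nat_lit 39) (nat_lit 5) (nat_lit 318) (nat_lit 289) (nat_lit 113))))))) (XT.nd (nat_lit 702) (nat_lit 684) (nat_lit 0) (XT.nd (nat_lit 312) (nat_lit 380) (nat_lit 0) (XT.nd (nat_lit 156) (nat_lit 76) (nat_lit 0) (XT.nd (nat_lit 78) (nat_lit 152) (nat_lit 0) (XT.lf (nat_lit 0) (nat_lit 69770020372) (nat_lit 228) (nat_lit 13377532558) (nat_lit 304) (nat_lit 23421588608) (nat_lit 35) (nat_lit 5) (nat_lit 38) (nat_lit 5) (nat_lit 39) (nat_lit 5) (nat_lit 319) (nat_lit 289) (nat_lit 112)) (XT.lf (nat_lit 0) (nat_lit 9290487533) (nat_lit 152) (nat_lit 91310074349) (nat_lit 228) (nat_lit 9591947391) (nat_lit 33) (nat_lit 5) (nat_lit 35) (nat_lit 5) (nat_lit 36) (nat_lit 5) (nat_lit 320) (nat_lit 289) (nat_lit 111)))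 (XT.nd (nat_lit 78) (nat_lit 0) (nat_lit 0) (XT.lf (nat_lit 0) (nat_lit 5623565451) (nat_lit 228) (nat_lit 55311016377) (nat_lit 76) (nat_lit 53016009200) (nat_lit 32) (nat_lit 5) (nat_lit 35) (nat_lit 5) (nat_lit 33) (nat_lit 5) (nat_lit 321) (nat_lit 289) (nat_lit 110)) (XT.lf (nat_lit 0) (nat_lit 21276951766) (nat_lit 228) (nat_lit 7598479074) (nat_lit 76) (nat_lit 89013312456) (nat_lit 32) (nat_lit 5) (nat_lit 35) (nat_lit 5) (nat_lit 33) (nat_lit 5) (nat_lit 322) (nat_lit 289) (nat_lit 109)))) (XT.nd (nat_lit 156) (nat_lit 152) (nat_lit 0) (XT.nd (nat_lit 78) (nat_lit 0) (nat_lit 0) (XT.lf (nat_lit 0) (nat_lit 38483917947) (nat_lit 304) (nat_lit 78171368642) (nat_lit 76) (nat_lit 5329972192) (nat_lit 29) (nat_lit 5) (nat_lit 33) (nat_lit 5) (nat_lit 30) (nat_lit 5) (nat_lit 323) (nat_lit 289) (nat_lit 108)) (XT.lf (nat_lit 0) (nat_lit 57154880265) (nat_lit 304) (nat_lit 28695711101)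 (nat_lit 76) (nat_lit 40405827359) (nat_lit 29) (nat_lit 5) (nat_lit 33) (nat_lit 5) (nat_lit 30) (nat_lit 5) (nat_lit 324) (nat_lit 289) (nat_lit 107))) (XT.nd (nat_lit 78) (nat_lit 0) (nat_lit 0) (XT.lf (nat_lit 0) (nat_lit 24021866870) (nat_lit 152) (nat_lit 53112083554) (nat_lit 228) (nat_lit 53588459279) (nat_lit 27) (nat_lit 5) (nat_lit 29) (nat_lit 5) (nat_lit 30) (nat_lit 5) (nat_lit 325) (nat_lit 289) (nat_lit 106)) (XT.nd (nat_lit 78) (nat_lit 0) (nat_lit 0) (XT.lf (nat_lit 0) (nat_lit 80370873314) (nat_lit 152) (nat_lit 18226599936) (nat_lit 228) (nat_lit 36789952998) (nat_lit 27) (nat_lit 5) (nat_lit 29) (nat_lit 5) (nat_lit 30) (nat_lit 5) (nat_lit 326) (nat_lit 289) (nat_lit 105)) (XT.lf (nat_lit 0) (nat_lit 121421039856) (nat_lit 228) (nat_lit 1036376052) (nat_lit 76) (nat_lit 17813935260) (nat_lit 27) (nat_lit 5) (nat_lit 30) (nat_lit 5) (nat_lit 28) (nat_lit 5) (nat_lit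 327) (nat_lit 289) (nat_lit 104)))))) (XT.nd (nat_lit 312) (nat_lit 304) (nat_lit 0) (XT.nd (nat_lit 156) (nat_lit 152) (nat_lit 0) (XT.nd (nat_lit 78) (nat_lit 0) (nat_lit 0) (XT.lf (nat_lit 0) (nat_lit 1197270280) (nat_lit 228) (nat_lit 88185974819) (nat_lit 76) (nat_lit 55955712777) (nat_lit 24) (nat_lit 5) (nat_lit 27) (nat_lit 5) (nat_lit 25) (nat_lit 5) (nat_lit 328) (nat_lit 289) (nat_lit 103)) (XT.lf (nat_lit 0) (nat_lit 21631143583) (nat_lit 228) (nat_lit 32681245249) (nat_lit 76) (nat_lit 96331235480) (nat_lit 24) (nat_lit 5) (nat_lit 27) (nat_lit 5) (nat_lit 25) (nat_lit 5) (nat_lit 329) (nat_lit 289) (nat_lit 102))) (XT.nd (nat_lit 78) (nat_lit 0) (nat_lit 0) (XT.lf (nat_lit 0) (nat_lit 26444481311) (nat_lit 152) (nat_lit 17054689739) (nat_lit 228) (nat_lit 112693730759) (nat_lit 22) (nat_lit 5) (nat_lit 24) (nat_lit 5) (nat_lit 25) (nat_lit 5) (nat_lit 330) (nat_lit 289)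 (nat_lit 101)) (XT.lf (nat_lit 0) (nat_lit 67367251001) (nat_lit 228) (nat_lit 72685075447) (nat_lit 76) (nat_lit 21921984906) (nat_lit 22) (nat_lit 5) (nat_lit 25) (nat_lit 5) (nat_lit 23) (nat_lit 5) (nat_lit 331) (nat_lit 289) (nat_lit 100)))) (XT.nd (nat_lit 156) (nat_lit 152) (nat_lit 0) (XT.nd (nat_lit 78) (nat_lit 152) (nat_lit 0) (XT.lf (nat_lit 0) (nat_lit 92707933965) (nat_lit 228) (nat_lit 13048753330) (nat_lit 76) (nat_lit 62274144823) (nat_lit 22) (nat_lit 5) (nat_lit 25) (nat_lit 5) (nat_lit 23) (nat_lit 5) (nat_lit 332) (nat_lit 289) (nat_lit 99)) (XT.lf (nat_lit 0) (nat_lit 51207777267) (nat_lit 152) (nat_lit 68907003045) (nat_lit 228) (nat_lit 54235442808) (nat_lit 20) (nat_lit 5) (nat_lit 22) (nat_lit 5) (nat_lit 23) (nat_lit 5) (nat_lit 333) (nat_lit 289) (nat_lit 98))) (XT.nd (nat_lit 78) (nat_lit 152) (nat_lit 0) (XT.lf (nat_lit 0) (nat_lit 119129590646) (nat_lit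 152) (nat_lit 29983006261) (nat_lit 228) (nat_lit 31861955998) (nat_lit 20) (nat_lit 5) (nat_lit 22) (nat_lit 5) (nat_lit 23) (nat_lit 5) (nat_lit 334) (nat_lit 289) (nat_lit 97)) (XT.nd (nat_lit 78) (nat_lit 76) (nat_lit 0) (XT.lf (nat_lit 0) (nat_lit 2424459193) (nat_lit 76) (nat_lit 177343332275) (nat_lit 152) (nat_lit 8151933952) (nat_lit 19) (nat_lit 5) (nat_lit 20) (nat_lit 5) (nat_lit 21) (nat_lit 4) (nat_lit 335) (nat_lit 289) (nat_lit 96)) (XT.lf (nat_lit 0) (nat_lit 17763415713) (nat_lit 152) (nat_lit 123875985349) (nat_lit 76) (nat_lit 53481899028) (nat_lit 18) (nat_lit 5) (nat_lit 20) (nat_lit 5) (nat_lit 19) (nat_lit 5) (nat_lit 336) (nat_lit 289) (nat_lit 95))))))))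
noncomputable def xc235 : XT := (XT.nd (nat_lit 34866) (nat_lit 0) (nat_lit 1520) (XT.nd (nat_lit 34164) (nat_lit 0) (nat_lit 3952) (XT.nd (nat_lit 312) (nat_lit 76) (nat_lit 0) (XT.nd (nat_lit 156) (nat_lit 0) (nat_lit 0) (XT.nd (nat_lit 78) (nat_lit 152) (nat_lit 0) (XT.lf (nat_lit 0) (nat_lit 44700247582) (nat_lit 152) (nat_lit 59309909687) (nat_lit 76) (nat_lit 98666131172) (nat_lit 18) (nat_lit 5) (nat_lit 20) (nat_lit 5) (nat_lit 19) (nat_lit 5) (nat_lit 337) (nat_lit 289) (nat_lit 94)) (XT.lf (nat_lit 0) (nat_lit 8764482209) (nat_lit 152) (nat_lit 64355965685) (nat_lit 228) (nat_lit 137481752466) (nat_lit 16) (nat_lit 5) (nat_lit 18) (nat_lit 5) (nat_lit 19) (nat_lit 5) (nat_lit 338) (nat_lit 289) (nat_lit 93))) (XT.nd (nat_lit 78) (nat_lit 0) (nat_lit 0) (XT.lf (nat_lit 0) (nat_lit 82301202285) (nat_lit 152) (nat_lit 21664593730) (nat_lit 228) (nat_lit 114908405439) (nat_lit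 16) (nat_lit 5) (nat_lit 18) (nat_lit 5) (nat_lit 19) (nat_lit 5) (nat_lit 339) (nat_lit 289) (nat_lit 92)) (XT.lf (nat_lit 0) (nat_lit 136714732462) (nat_lit 228) (nat_lit 68407143696) (nat_lit 76) (nat_lit 22419860846) (nat_lit 16) (nat_lit 5) (nat_lit 19) (nat_lit 5) (nat_lit 17) (nat_lit 4) (nat_lit 340) (nat_lit 289) (nat_lit 91)))) (XT.nd (nat_lit 33618) (nat_lit 0) (nat_lit 4332) (XT.nd (nat_lit 33540) (nat_lit 0) (nat_lit 4332) (XT.lf (nat_lit 0) (nat_lit 2904341561) (nat_lit 76) (nat_lit 168596997676) (nat_lit 152) (nat_lit 65121299345) (nat_lit 15) (nat_lit 5) (nat_lit 16) (nat_lit 5) (nat_lit 17) (nat_lit 4) (nat_lit 341) (nat_lit 289) (nat_lit 90)) (XT.lf (nat_lit 0) (nat_lit 5408205063) (nat_lit 0) (nat_lit 5408205063) (nat_lit 684) (nat_lit 12728467294) (nat_lit 72) (nat_lit 5) (nat_lit 72) (nat_lit 3) (nat_lit 81) (nat_lit 3) (nat_lit 290) (nat_lit 290) (nat_lit 140)))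 (XT.nd (nat_lit 78) (nat_lit 0) (nat_lit 0) (XT.lf (nat_lit 0) (nat_lit 22354904495) (nat_lit 684) (nat_lit 16340089457) (nat_lit 760) (nat_lit 9562853282) (nat_lit 72) (nat_lit 5) (nat_lit 81) (nat_lit 3) (nat_lit 82) (nat_lit 5) (nat_lit 291) (nat_lit 290) (nat_lit 139)) (XT.nd (nat_lit 78) (nat_lit 0) (nat_lit 76) (XT.lf (nat_lit 76) (nat_lit 4557405201) (nat_lit 0) (nat_lit 18802443431) (nat_lit 760) (nat_lit 26112163480) (nat_lit 73) (nat_lit 5) (nat_lit 72) (nat_lit 5) (nat_lit 82) (nat_lit 5) (nat_lit 292) (nat_lit 290) (nat_lit 138)) (XT.lf (nat_lit 0) (nat_lit 24727213650) (nat_lit 684) (nat_lit 23704121972) (nat_lit 760) (nat_lit 2299946310) (nat_lit 73) (nat_lit 5) (nat_lit 82) (nat_lit 5) (nat_lit 83) (nat_lit 5) (nat_lit 293) (nat_lit 290) (nat_lit 137)))))) (XT.nd (nat_lit 312) (nat_lit 456) (nat_lit 0) (XT.nd (nat_lit 156) (nat_lit 0) (nat_lit 76) (XT.nd (nat_lit 78)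 (nat_lit 0) (nat_lit 0) (XT.lf (nat_lit 0) (nat_lit 26469623018) (nat_lit 684) (nat_lit 1742353034) (nat_lit 760) (nat_lit 23826210514) (nat_lit 73) (nat_lit 5) (nat_lit 82) (nat_lit 5) (nat_lit 83) (nat_lit 5) (nat_lit 294) (nat_lit 290) (nat_lit 136)) (XT.lf (nat_lit 76) (nat_lit 22021370032) (nat_lit 0) (nat_lit 6620111763) (nat_lit 760) (nat_lit 24751843071) (nat_lit 74) (nat_lit 5) (nat_lit 73) (nat_lit 5) (nat_lit 83) (nat_lit 5) (nat_lit 295) (nat_lit 290) (nat_lit 135))) (XT.nd (nat_lit 78) (nat_lit 0) (nat_lit 0) (XT.lf (nat_lit 0) (nat_lit 31201108715) (nat_lit 684) (nat_lit 8033089193) (nat_lit 760) (nat_lit 15568068063) (nat_lit 74) (nat_lit 5) (nat_lit 83) (nat_lit 5) (nat_lit 84) (nat_lit 5) (nat_lit 296) (nat_lit 290) (nat_lit 134)) (XT.lf (nat_lit 76) (nat_lit 16904259874) (nat_lit 0) (nat_lit 17355551532) (nat_lit 760) (nat_lit 22003292434) (nat_lit 75) (nat_lit 5)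 (nat_lit 74) (nat_lit 5) (nat_lit 84) (nat_lit 5) (nat_lit 297) (nat_lit 290) (nat_lit 133)))) (XT.nd (nat_lit 156) (nat_lit 608) (nat_lit 0) (XT.nd (nat_lit 78) (nat_lit 0) (nat_lit 0) (XT.lf (nat_lit 0) (nat_lit 37696121319) (nat_lit 684) (nat_lit 14513776514) (nat_lit 760) (nat_lit 5575856380) (nat_lit 75) (nat_lit 5) (nat_lit 84) (nat_lit 5) (nat_lit 85) (nat_lit 5) (nat_lit 298) (nat_lit 290) (nat_lit 132)) (XT.lf (nat_lit 76) (nat_lit 11661275505) (nat_lit 0) (nat_lit 30108315620) (nat_lit 760) (nat_lit 17591682778) (nat_lit 76) (nat_lit 5) (nat_lit 75) (nat_lit 5) (nat_lit 85) (nat_lit 5) (nat_lit 299) (nat_lit 290) (nat_lit 131))) (XT.nd (nat_lit 78) (nat_lit 608) (nat_lit 0) (XT.lf (nat_lit 76) (nat_lit 39647996355) (nat_lit 0) (nat_lit 6643341683) (nat_lit 760) (nat_lit 14712005185) (nat_lit 76) (nat_lit 5) (nat_lit 75) (nat_lit 5) (nat_lit 85) (nat_lit 5) (nat_lit 300) (nat_lit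 290) (nat_lit 130)) (XT.nd (nat_lit 78) (nat_lit 0) (nat_lit 0) (XT.lf (nat_lit 0) (nat_lit 6223800176) (nat_lit 684) (nat_lit 45192359604) (nat_lit 760) (nat_lit 11292510496) (nat_lit 67) (nat_lit 5) (nat_lit 76) (nat_lit 5) (nat_lit 77) (nat_lit 5) (nat_lit 301) (nat_lit 290) (nat_lit 129)) (XT.lf (nat_lit 0) (nat_lit 35809834692) (nat_lit 684) (nat_lit 21455106559) (nat_lit 760) (nat_lit 7210939969) (nat_lit 67) (nat_lit 5) (nat_lit 76) (nat_lit 5) (nat_lit 77) (nat_lit 5) (nat_lit 302) (nat_lit 290) (nat_lit 128))))))) (XT.nd (nat_lit 702) (nat_lit 1064) (nat_lit 0) (XT.nd (nat_lit 312) (nat_lit 608) (nat_lit 0) (XT.nd (nat_lit 156) (nat_lit 380) (nat_lit 0) (XT.nd (nat_lit 78) (nat_lit 76) (nat_lit 0) (XT.lf (nat_lit 0) (nat_lit 504729615) (nat_lit 304) (nat_lit 62962432212) (nat_lit 380) (nat_lit 2861244186) (nat_lit 63) (nat_lit 5) (nat_lit 67) (nat_lit 5) (nat_lit 68) (nat_lit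 5) (nat_lit 303) (nat_lit 290) (nat_lit 127)) (XT.lf (nat_lit 0) (nat_lit 2495464549) (nat_lit 380) (nat_lit 36507337734) (nat_lit 76) (nat_lit 29227219600) (nat_lit 62) (nat_lit 5) (nat_lit 67) (nat_lit 5) (nat_lit 63) (nat_lit 5) (nat_lit 304) (nat_lit 290) (nat_lit 126))) (XT.nd (nat_lit 78) (nat_lit 380) (nat_lit 0) (XT.lf (nat_lit 0) (nat_lit 8022874800) (nat_lit 380) (nat_lit 5773043245) (nat_lit 76) (nat_lit 56428506942) (nat_lit 62) (nat_lit 5) (nat_lit 67) (nat_lit 5) (nat_lit 63) (nat_lit 5) (nat_lit 305) (nat_lit 290) (nat_lit 125)) (XT.lf (nat_lit 0) (nat_lit 14457937707) (nat_lit 456) (nat_lit 45128901667) (nat_lit 76) (nat_lit 12700147483) (nat_lit 57) (nat_lit 5) (nat_lit 63) (nat_lit 5) (nat_lit 58) (nat_lit 5) (nat_lit 306) (nat_lit 290) (nat_lit 124)))) (XT.nd (nat_lit 156) (nat_lit 304) (nat_lit 0) (XT.nd (nat_lit 78) (nat_lit 304) (nat_lit 0) (XT.lf (nat_lit 0) (nat_lit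 21539388018) (nat_lit 456) (nat_lit 12740299633) (nat_lit 76) (nat_lit 40156760046) (nat_lit 57) (nat_lit 5) (nat_lit 63) (nat_lit 5) (nat_lit 58) (nat_lit 5) (nat_lit 307) (nat_lit 290) (nat_lit 123)) (XT.lf (nat_lit 0) (nat_lit 21970012010) (nat_lit 304) (nat_lit 7347054781) (nat_lit 380) (nat_lit 47359209456) (nat_lit 53) (nat_lit 5) (nat_lit 57) (nat_lit 5) (nat_lit 58) (nat_lit 5) (nat_lit 308) (nat_lit 290) (nat_lit 122))) (XT.nd (nat_lit 78) (nat_lit 304) (nat_lit 0) (XT.lf (nat_lit 0) (nat_lit 38028908896) (nat_lit 380) (nat_lit 20490428593) (nat_lit 76) (nat_lit 20481497115) (nat_lit 53) (nat_lit 5) (nat_lit 58) (nat_lit 5) (nat_lit 54) (nat_lit 5) (nat_lit 309) (nat_lit 290) (nat_lit 121)) (XT.nd (nat_lit 78) (nat_lit 0) (nat_lit 0) (XT.lf (nat_lit 0) (nat_lit 15821251657) (nat_lit 304) (nat_lit 31721757330) (nat_lit 380) (nat_lit 33880280835) (nat_lit 49) (nat_lit 5) (nat_lit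 53) (nat_lit 5) (nat_lit 54) (nat_lit 5) (nat_lit 310) (nat_lit 290) (nat_lit 120)) (XT.lf (nat_lit 0) (nat_lit 54659029054) (nat_lit 304) (nat_lit 3220032779) (nat_lit 380) (nat_lit 26070495709) (nat_lit 49) (nat_lit 5) (nat_lit 53) (nat_lit 5) (nat_lit 54) (nat_lit 5) (nat_lit 311) (nat_lit 290) (nat_lit 119)))))) (XT.nd (nat_lit 312) (nat_lit 456) (nat_lit 0) (XT.nd (nat_lit 156) (nat_lit 380) (nat_lit 0) (XT.nd (nat_lit 78) (nat_lit 0) (nat_lit 0) (XT.lf (nat_lit 0) (nat_lit 8697086074) (nat_lit 228) (nat_lit 60586852265) (nat_lit 304) (nat_lit 17290601287) (nat_lit 46) (nat_lit 5) (nat_lit 49) (nat_lit 5) (nat_lit 50) (nat_lit 5) (nat_lit 312) (nat_lit 290) (nat_lit 118)) (XT.lf (nat_lit 0) (nat_lit 49545599483) (nat_lit 228) (nat_lit 32260733564) (nat_lit 304) (nat_lit 7497075981) (nat_lit 46) (nat_lit 5) (nat_lit 49) (nat_lit 5) (nat_lit 50) (nat_lit 5) (nat_lit 313) (nat_lit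 290) (nat_lit 117))) (XT.nd (nat_lit 78) (nat_lit 0) (nat_lit 0) (XT.lf (nat_lit 0) (nat_lit 230872634) (nat_lit 304) (nat_lit 2468994167) (nat_lit 380) (nat_lit 89466536158) (nat_lit 41) (nat_lit 5) (nat_lit 45) (nat_lit 5) (nat_lit 46) (nat_lit 5) (nat_lit 314) (nat_lit 290) (nat_lit 116)) (XT.lf (nat_lit 0) (nat_lit 14288230551) (nat_lit 380) (nat_lit 52124226057) (nat_lit 76) (nat_lit 28697270268) (nat_lit 41) (nat_lit 5) (nat_lit 46) (nat_lit 5) (nat_lit 42) (nat_lit 5) (nat_lit 315) (nat_lit 290) (nat_lit 115)))) (XT.nd (nat_lit 156) (nat_lit 228) (nat_lit 0) (XT.nd (nat_lit 78) (nat_lit 228) (nat_lit 0) (XT.lf (nat_lit 0) (nat_lit 26495847562) (nat_lit 380) (nat_lit 10363644764) (nat_lit 76) (nat_lit 61338734497) (nat_lit 41) (nat_lit 5) (nat_lit 46) (nat_lit 5) (nat_lit 42) (nat_lit 5) (nat_lit 316) (nat_lit 290) (nat_lit 114)) (XT.lf (nat_lit 0) (nat_lit 34591330014) (nat_lit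 228) (nat_lit 5261973262) (nat_lit 304) (nat_lit 61560877114) (nat_lit 38) (nat_lit 5) (nat_lit 41) (nat_lit 5) (nat_lit 42) (nat_lit 5) (nat_lit 317) (nat_lit 290) (nat_lit 113))) (XT.nd (nat_lit 78) (nat_lit 228) (nat_lit 0) (XT.lf (nat_lit 0) (nat_lit 54492265102) (nat_lit 304) (nat_lit 23067805439) (nat_lit 76) (nat_lit 27200180868) (nat_lit 38) (nat_lit 5) (nat_lit 42) (nat_lit 5) (nat_lit 39) (nat_lit 5) (nat_lit 318) (nat_lit 290) (nat_lit 112)) (XT.nd (nat_lit 78) (nat_lit 0) (nat_lit 0) (XT.lf (nat_lit 0) (nat_lit 23541450845) (nat_lit 228) (nat_lit 46774967150) (nat_lit 304) (nat_lit 37934547209) (nat_lit 35) (nat_lit 5) (nat_lit 38) (nat_lit 5) (nat_lit 39) (nat_lit 5) (nat_lit 319) (nat_lit 290) (nat_lit 111)) (XT.lf (nat_lit 0) (nat_lit 73281291710) (nat_lit 228) (nat_lit 14040599805) (nat_lit 304) (nat_lit 24574818833) (nat_lit 35) (nat_lit 5) (nat_lit 38) (nat_lit 5)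 (nat_lit 39) (nat_lit 5) (nat_lit 320) (nat_lit 290) (nat_lit 110))))))))
noncomputable def xc236 : XT := (XT.nd (nat_lit 1326) (nat_lit 152) (nat_lit 0) (XT.nd (nat_lit 624) (nat_lit 684) (nat_lit 0) (XT.nd (nat_lit 312) (nat_lit 152) (nat_lit 0) (XT.nd (nat_lit 156) (nat_lit 228) (nat_lit 0) (XT.nd (nat_lit 78) (nat_lit 76) (nat_lit 0) (XT.lf (nat_lit 0) (nat_lit 9778199668) (nat_lit 152) (nat_lit 95868991990) (nat_lit 228) (nat_lit 10054074689) (nat_lit 33) (nat_lit 5) (nat_lit 35) (nat_lit 5) (nat_lit 36) (nat_lit 5) (nat_lit 321) (nat_lit 290) (nat_lit 109)) (XT.lf (nat_lit 0) (nat_lit 5920849362) (nat_lit 228) (nat_lit 58053916347) (nat_lit 76) (nat_lit 55672514844) (nat_lit 32) (nat_lit 5) (nat_lit 35) (nat_lit 5) (nat_lit 33) (nat_lit 5) (nat_lit 322) (nat_lit 290) (nat_lit 108))) (XT.nd (nat_lit 78) (nat_lit 228) (nat_lit 0) (XT.lf (nat_lit 0) (nat_lit 22356138057) (nat_lit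 228) (nat_lit 7956830792) (nat_lit 76) (nat_lit 93469411588) (nat_lit 32) (nat_lit 5) (nat_lit 35) (nat_lit 5) (nat_lit 33) (nat_lit 5) (nat_lit 323) (nat_lit 290) (nat_lit 107)) (XT.lf (nat_lit 0) (nat_lit 40423151624) (nat_lit 304) (nat_lit 82058032401) (nat_lit 76) (nat_lit 5602554292) (nat_lit 29) (nat_lit 5) (nat_lit 33) (nat_lit 5) (nat_lit 30) (nat_lit 5) (nat_lit 324) (nat_lit 290) (nat_lit 106)))) (XT.nd (nat_lit 156) (nat_lit 0) (nat_lit 0) (XT.nd (nat_lit 78) (nat_lit 152) (nat_lit 0) (XT.lf (nat_lit 0) (nat_lit 60026945973) (nat_lit 304) (nat_lit 30109635062) (nat_lit 76) (nat_lit 42431912527) (nat_lit 29) (nat_lit 5) (nat_lit 33) (nat_lit 5) (nat_lit 30) (nat_lit 5) (nat_lit 325) (nat_lit 290) (nat_lit 105)) (XT.lf (nat_lit 0) (nat_lit 25243485330) (nat_lit 152) (nat_lit 55761122780) (nat_lit 228) (nat_lit 56253195486) (nat_lit 27) (nat_lit 5) (nat_lit 29) (nat_lit 5) (nat_lit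 30) (nat_lit 5) (nat_lit 326) (nat_lit 290) (nat_lit 104))) (XT.nd (nat_lit 78) (nat_lit 0) (nat_lit 0) (XT.lf (nat_lit 0) (nat_lit 84408964710) (nat_lit 152) (nat_lit 19131677598) (nat_lit 228) (nat_lit 38615463261) (nat_lit 27) (nat_lit 5) (nat_lit 29) (nat_lit 5) (nat_lit 30) (nat_lit 5) (nat_lit 327) (nat_lit 290) (nat_lit 103)) (XT.lf (nat_lit 0) (nat_lit 127504847098) (nat_lit 228) (nat_lit 1069011898) (nat_lit 76) (nat_lit 18710396043) (nat_lit 27) (nat_lit 5) (nat_lit 30) (nat_lit 5) (nat_lit 28) (nat_lit 5) (nat_lit 328) (nat_lit 290) (nat_lit 102))))) (XT.nd (nat_lit 312) (nat_lit 304) (nat_lit 0) (XT.nd (nat_lit 156) (nat_lit 152) (nat_lit 0) (XT.nd (nat_lit 78) (nat_lit 0) (nat_lit 0) (XT.lf (nat_lit 0) (nat_lit 1269804196) (nat_lit 228) (nat_lit 92575957548) (nat_lit 76) (nat_lit 58759486989) (nat_lit 24) (nat_lit 5) (nat_lit 27) (nat_lit 5) (nat_lit 25) (nat_lit 5) (nat_lit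 329) (nat_lit 290) (nat_lit 101)) (XT.lf (nat_lit 0) (nat_lit 22724767812) (nat_lit 228) (nat_lit 34296911310) (nat_lit 76) (nat_lit 101153500657) (nat_lit 24) (nat_lit 5) (nat_lit 27) (nat_lit 5) (nat_lit 25) (nat_lit 5) (nat_lit 330) (nat_lit 290) (nat_lit 100))) (XT.nd (nat_lit 78) (nat_lit 0) (nat_lit 0) (XT.lf (nat_lit 0) (nat_lit 27784804865) (nat_lit 152) (nat_lit 17901099750) (nat_lit 228) (nat_lit 118316032204) (nat_lit 22) (nat_lit 5) (nat_lit 24) (nat_lit 5) (nat_lit 25) (nat_lit 5) (nat_lit 331) (nat_lit 290) (nat_lit 99)) (XT.lf (nat_lit 0) (nat_lit 70746921889) (nat_lit 228) (nat_lit 76301604623) (nat_lit 76) (nat_lit 23023914678) (nat_lit 22) (nat_lit 5) (nat_lit 25) (nat_lit 5) (nat_lit 23) (nat_lit 5) (nat_lit 332) (nat_lit 290) (nat_lit 98)))) (XT.nd (nat_lit 156) (nat_lit 152) (nat_lit 0) (XT.nd (nat_lit 78) (nat_lit 152) (nat_lit 0) (XT.lf (nat_lit 0) (nat_lit 97354100509)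 (nat_lit 228) (nat_lit 13684310429) (nat_lit 76) (nat_lit 65393404947) (nat_lit 22) (nat_lit 5) (nat_lit 25) (nat_lit 5) (nat_lit 23) (nat_lit 5) (nat_lit 333) (nat_lit 290) (nat_lit 97)) (XT.lf (nat_lit 0) (nat_lit 53784774431) (nat_lit 152) (nat_lit 72346261195) (nat_lit 228) (nat_lit 56936154410) (nat_lit 20) (nat_lit 5) (nat_lit 22) (nat_lit 5) (nat_lit 23) (nat_lit 5) (nat_lit 334) (nat_lit 290) (nat_lit 96))) (XT.nd (nat_lit 78) (nat_lit 152) (nat_lit 0) (XT.lf (nat_lit 0) (nat_lit 125101887608) (nat_lit 152) (nat_lit 31476354666) (nat_lit 228) (nat_lit 33444519952) (nat_lit 20) (nat_lit 5) (nat_lit 22) (nat_lit 5) (nat_lit 23) (nat_lit 5) (nat_lit 335) (nat_lit 290) (nat_lit 95)) (XT.nd (nat_lit 78) (nat_lit 76) (nat_lit 0) (XT.lf (nat_lit 0) (nat_lit 2561665304) (nat_lit 76) (nat_lit 186204390142) (nat_lit 152) (nat_lit 8549145813) (nat_lit 19) (nat_lit 5) (nat_lit 20) (nat_lit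 5) (nat_lit 21) (nat_lit 4) (nat_lit 336) (nat_lit 290) (nat_lit 94)) (XT.lf (nat_lit 0) (nat_lit 18661160268) (nat_lit 152) (nat_lit 130054230858) (nat_lit 76) (nat_lit 56161480122) (nat_lit 18) (nat_lit 5) (nat_lit 20) (nat_lit 5) (nat_lit 19) (nat_lit 5) (nat_lit 337) (nat_lit 290) (nat_lit 93))))))) (XT.nd (nat_lit 34320) (nat_lit 0) (nat_lit 3496) (XT.nd (nat_lit 33930) (nat_lit 0) (nat_lit 4256) (XT.nd (nat_lit 156) (nat_lit 0) (nat_lit 0) (XT.nd (nat_lit 78) (nat_lit 152) (nat_lit 0) (XT.lf (nat_lit 0) (nat_lit 46944377837) (nat_lit 152) (nat_lit 62260592068) (nat_lit 76) (nat_lit 103604662628) (nat_lit 18) (nat_lit 5) (nat_lit 20) (nat_lit 5) (nat_lit 19) (nat_lit 5) (nat_lit 338) (nat_lit 290) (nat_lit 92)) (XT.lf (nat_lit 0) (nat_lit 9217280503) (nat_lit 152) (nat_lit 67568101021) (nat_lit 228) (nat_lit 144346469544) (nat_lit 16) (nat_lit 5) (nat_lit 18) (nat_lit 5) (nat_lit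 19) (nat_lit 5) (nat_lit 339) (nat_lit 290) (nat_lit 91))) (XT.nd (nat_lit 33696) (nat_lit 0) (nat_lit 4256) (XT.lf (nat_lit 0) (nat_lit 86430142573) (nat_lit 152) (nat_lit 22742430133) (nat_lit 228) (nat_lit 120644901382) (nat_lit 16) (nat_lit 5) (nat_lit 18) (nat_lit 5) (nat_lit 19) (nat_lit 5) (nat_lit 340) (nat_lit 290) (nat_lit 90)) (XT.lf (nat_lit 0) (nat_lit 5691916437) (nat_lit 0) (nat_lit 5691916437) (nat_lit 684) (nat_lit 13336871390) (nat_lit 72) (nat_lit 5) (nat_lit 72) (nat_lit 3) (nat_lit 81) (nat_lit 3) (nat_lit 291) (nat_lit 291) (nat_lit 138)))) (XT.nd (nat_lit 156) (nat_lit 0) (nat_lit 76) (XT.nd (nat_lit 78) (nat_lit 0) (nat_lit 0) (XT.lf (nat_lit 0) (nat_lit 23522925097) (nat_lit 684) (nat_lit 17128663805) (nat_lit 760) (nat_lit 10016471372) (nat_lit 72) (nat_lit 5) (nat_lit 81) (nat_lit 3) (nat_lit 82) (nat_lit 5) (nat_lit 292) (nat_lit 291) (nat_lit 137)) (XT.lf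 (nat_lit 76) (nat_lit 4813247036) (nat_lit 0) (nat_lit 19762912055) (nat_lit 760) (nat_lit 27366880056) (nat_lit 73) (nat_lit 5) (nat_lit 72) (nat_lit 5) (nat_lit 82) (nat_lit 5) (nat_lit 293) (nat_lit 291) (nat_lit 136))) (XT.nd (nat_lit 78) (nat_lit 0) (nat_lit 0) (XT.lf (nat_lit 0) (nat_lit 26009288963) (nat_lit 684) (nat_lit 24859934919) (nat_lit 760) (nat_lit 2396186255) (nat_lit 73) (nat_lit 5) (nat_lit 82) (nat_lit 5) (nat_lit 83) (nat_lit 5) (nat_lit 294) (nat_lit 291) (nat_lit 135)) (XT.nd (nat_lit 78) (nat_lit 0) (nat_lit 0) (XT.lf (nat_lit 0) (nat_lit 27836641912) (nat_lit 684) (nat_lit 1801477207) (nat_lit 760) (nat_lit 24999656877) (nat_lit 73) (nat_lit 5) (nat_lit 82) (nat_lit 5) (nat_lit 83) (nat_lit 5) (nat_lit 295) (nat_lit 291) (nat_lit 134)) (XT.lf (nat_lit 76) (nat_lit 23149980504) (nat_lit 0) (nat_lit 6965469906) (nat_lit 760) (nat_lit 25945309773) (nat_lit 74)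 (nat_lit 5) (nat_lit 73) (nat_lit 5) (nat_lit 83) (nat_lit 5) (nat_lit 296) (nat_lit 291) (nat_lit 133)))))) (XT.nd (nat_lit 312) (nat_lit 912) (nat_lit 0) (XT.nd (nat_lit 156) (nat_lit 0) (nat_lit 76) (XT.nd (nat_lit 78) (nat_lit 0) (nat_lit 0) (XT.lf (nat_lit 0) (nat_lit 32800850285) (nat_lit 684) (nat_lit 8406175100) (nat_lit 760) (nat_lit 16333239864) (nat_lit 74) (nat_lit 5) (nat_lit 83) (nat_lit 5) (nat_lit 84) (nat_lit 5) (nat_lit 297) (nat_lit 291) (nat_lit 132)) (XT.lf (nat_lit 76) (nat_lit 17777580637) (nat_lit 0) (nat_lit 18233456498) (nat_lit 760) (nat_lit 23063186600) (nat_lit 75) (nat_lit 5) (nat_lit 74) (nat_lit 5) (nat_lit 84) (nat_lit 5) (nat_lit 298) (nat_lit 291) (nat_lit 131))) (XT.nd (nat_lit 78) (nat_lit 0) (nat_lit 0) (XT.lf (nat_lit 0) (nat_lit 39617191235) (nat_lit 684) (nat_lit 15210607071) (nat_lit 760) (nat_lit 5845312771) (nat_lit 75) (nat_lit 5) (nat_lit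 84) (nat_lit 5) (nat_lit 85) (nat_lit 5) (nat_lit 299) (nat_lit 291) (nat_lit 130)) (XT.lf (nat_lit 76) (nat_lit 12272732093) (nat_lit 0) (nat_lit 31620318879) (nat_lit 760) (nat_lit 18434425559) (nat_lit 76) (nat_lit 5) (nat_lit 75) (nat_lit 5) (nat_lit 85) (nat_lit 5) (nat_lit 300) (nat_lit 291) (nat_lit 129)))) (XT.nd (nat_lit 156) (nat_lit 380) (nat_lit 0) (XT.nd (nat_lit 78) (nat_lit 608) (nat_lit 0) (XT.lf (nat_lit 76) (nat_lit 41657436947) (nat_lit 0) (nat_lit 6981782556) (nat_lit 760) (nat_lit 15412518436) (nat_lit 76) (nat_lit 5) (nat_lit 75) (nat_lit 5) (nat_lit 85) (nat_lit 5) (nat_lit 301) (nat_lit 291) (nat_lit 128)) (XT.lf (nat_lit 0) (nat_lit 6563435046) (nat_lit 684) (nat_lit 47455611695) (nat_lit 760) (nat_lit 11823351465) (nat_lit 67) (nat_lit 5) (nat_lit 76) (nat_lit 5) (nat_lit 77) (nat_lit 5) (nat_lit 302) (nat_lit 291) (nat_lit 127))) (XT.nd (nat_lit 78) (nat_lit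 380) (nat_lit 0) (XT.lf (nat_lit 0) (nat_lit 37627416771) (nat_lit 684) (nat_lit 22531322945) (nat_lit 760) (nat_lit 7539311199) (nat_lit 67) (nat_lit 5) (nat_lit 76) (nat_lit 5) (nat_lit 77) (nat_lit 5) (nat_lit 303) (nat_lit 291) (nat_lit 126)) (XT.nd (nat_lit 78) (nat_lit 76) (nat_lit 0) (XT.lf (nat_lit 0) (nat_lit 558270830) (nat_lit 304) (nat_lit 66111736115) (nat_lit 380) (nat_lit 2973252832) (nat_lit 63) (nat_lit 5) (nat_lit 67) (nat_lit 5) (nat_lit 68) (nat_lit 5) (nat_lit 304) (nat_lit 291) (nat_lit 125)) (XT.lf (nat_lit 0) (nat_lit 2648866020) (nat_lit 380) (nat_lit 38304717537) (nat_lit 76) (nat_lit 30686424393) (nat_lit 62) (nat_lit 5) (nat_lit 67) (nat_lit 5) (nat_lit 63) (nat_lit 5) (nat_lit 305) (nat_lit 291) (nat_lit 124))))))))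
noncomputable def xc237 : XT := (XT.nd (nat_lit 1326) (nat_lit 1140) (nat_lit 0) (XT.nd (nat_lit 624) (nat_lit 988) (nat_lit 0) (XT.nd (nat_lit 312) (nat_lit 532) (nat_lit 0) (XT.nd (nat_lit 156) (nat_lit 304) (nat_lit 0) (XT.nd (nat_lit 78) (nat_lit 380) (nat_lit 0) (XT.lf (nat_lit 0) (nat_lit 8451283533) (nat_lit 380) (nat_lit 6035041042) (nat_lit 76) (nat_lit 59247878778) (nat_lit 62) (nat_lit 5) (nat_lit 67) (nat_lit 5) (nat_lit 63) (nat_lit 5) (nat_lit 306) (nat_lit 291) (nat_lit 123)) (XT.lf (nat_lit 0) (nat_lit 15207208322) (nat_lit 456) (nat_lit 47357725280) (nat_lit 76) (nat_lit 13335008070) (nat_lit 57) (nat_lit 5) (nat_lit 63) (nat_lit 5) (nat_lit 58) (nat_lit 5) (nat_lit 307) (nat_lit 291) (nat_lit 122))) (XT.nd (nat_lit 78) (nat_lit 304) (nat_lit 0) (XT.lf (nat_lit 0) (nat_lit 22641475257) (nat_lit 456) (nat_lit 13351008453) (nat_lit 76) (nat_lit 42164458250) (nat_lit 57)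 (nat_lit 5) (nat_lit 63) (nat_lit 5) (nat_lit 58) (nat_lit 5) (nat_lit 308) (nat_lit 291) (nat_lit 121)) (XT.lf (nat_lit 0) (nat_lit 23094394480) (nat_lit 304) (nat_lit 7712851490) (nat_lit 380) (nat_lit 49701559008) (nat_lit 53) (nat_lit 5) (nat_lit 57) (nat_lit 5) (nat_lit 58) (nat_lit 5) (nat_lit 309) (nat_lit 291) (nat_lit 120)))) (XT.nd (nat_lit 156) (nat_lit 228) (nat_lit 0) (XT.nd (nat_lit 78) (nat_lit 304) (nat_lit 0) (XT.lf (nat_lit 0) (nat_lit 39953544944) (nat_lit 380) (nat_lit 21489099873) (nat_lit 76) (nat_lit 21507006473) (nat_lit 53) (nat_lit 5) (nat_lit 58) (nat_lit 5) (nat_lit 54) (nat_lit 5) (nat_lit 310) (nat_lit 291) (nat_lit 119)) (XT.lf (nat_lit 0) (nat_lit 16637747452) (nat_lit 304) (nat_lit 33304895356) (nat_lit 380) (nat_lit 35550624940) (nat_lit 49) (nat_lit 5) (nat_lit 53) (nat_lit 5) (nat_lit 54) (nat_lit 5) (nat_lit 311) (nat_lit 291) (nat_lit 118))) (XT.nd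 (nat_lit 78) (nat_lit 228) (nat_lit 0) (XT.lf (nat_lit 0) (nat_lit 57416202613) (nat_lit 304) (nat_lit 3378225046) (nat_lit 380) (nat_lit 27351477699) (nat_lit 49) (nat_lit 5) (nat_lit 53) (nat_lit 5) (nat_lit 54) (nat_lit 5) (nat_lit 312) (nat_lit 291) (nat_lit 117)) (XT.lf (nat_lit 0) (nat_lit 9156840485) (nat_lit 228) (nat_lit 63612118387) (nat_lit 304) (nat_lit 18133209961) (nat_lit 46) (nat_lit 5) (nat_lit 49) (nat_lit 5) (nat_lit 50) (nat_lit 5) (nat_lit 313) (nat_lit 291) (nat_lit 116))))) (XT.nd (nat_lit 312) (nat_lit 608) (nat_lit 0) (XT.nd (nat_lit 156) (nat_lit 0) (nat_lit 0) (XT.nd (nat_lit 78) (nat_lit 380) (nat_lit 0) (XT.lf (nat_lit 0) (nat_lit 52046593845) (nat_lit 228) (nat_lit 33869887869) (nat_lit 304) (nat_lit 7851052266) (nat_lit 46) (nat_lit 5) (nat_lit 49) (nat_lit 5) (nat_lit 50) (nat_lit 5) (nat_lit 314) (nat_lit 291) (nat_lit 115)) (XT.lf (nat_lit 0) (nat_lit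 266456101) (nat_lit 304) (nat_lit 2588026326) (nat_lit 380) (nat_lit 93919210679) (nat_lit 41) (nat_lit 5) (nat_lit 45) (nat_lit 5) (nat_lit 46) (nat_lit 5) (nat_lit 315) (nat_lit 291) (nat_lit 114))) (XT.nd (nat_lit 78) (nat_lit 0) (nat_lit 0) (XT.lf (nat_lit 0) (nat_lit 15021395655) (nat_lit 380) (nat_lit 54706627010) (nat_lit 76) (nat_lit 30136206315) (nat_lit 41) (nat_lit 5) (nat_lit 46) (nat_lit 5) (nat_lit 42) (nat_lit 5) (nat_lit 316) (nat_lit 291) (nat_lit 113)) (XT.lf (nat_lit 0) (nat_lit 27838500490) (nat_lit 380) (nat_lit 10859150479) (nat_lit 76) (nat_lit 64409549826) (nat_lit 41) (nat_lit 5) (nat_lit 46) (nat_lit 5) (nat_lit 42) (nat_lit 5) (nat_lit 317) (nat_lit 291) (nat_lit 112)))) (XT.nd (nat_lit 156) (nat_lit 380) (nat_lit 0) (XT.nd (nat_lit 78) (nat_lit 0) (nat_lit 0) (XT.lf (nat_lit 0) (nat_lit 36343207287) (nat_lit 228) (nat_lit 5520119533) (nat_lit 304) (nat_lit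 64620652438) (nat_lit 38) (nat_lit 5) (nat_lit 41) (nat_lit 5) (nat_lit 42) (nat_lit 5) (nat_lit 318) (nat_lit 291) (nat_lit 111)) (XT.lf (nat_lit 0) (nat_lit 57233483787) (nat_lit 304) (nat_lit 24199154185) (nat_lit 76) (nat_lit 28564755517) (nat_lit 38) (nat_lit 5) (nat_lit 42) (nat_lit 5) (nat_lit 39) (nat_lit 5) (nat_lit 319) (nat_lit 291) (nat_lit 110))) (XT.nd (nat_lit 78) (nat_lit 152) (nat_lit 0) (XT.lf (nat_lit 0) (nat_lit 24740209405) (nat_lit 228) (nat_lit 49108182764) (nat_lit 304) (nat_lit 39814275326) (nat_lit 35) (nat_lit 5) (nat_lit 38) (nat_lit 5) (nat_lit 39) (nat_lit 5) (nat_lit 320) (nat_lit 291) (nat_lit 109)) (XT.nd (nat_lit 78) (nat_lit 152) (nat_lit 0) (XT.lf (nat_lit 0) (nat_lit 76966009646) (nat_lit 228) (nat_lit 14737360516) (nat_lit 304) (nat_lit 25787370019) (nat_lit 35) (nat_lit 5) (nat_lit 38) (nat_lit 5) (nat_lit 39) (nat_lit 5) (nat_lit 321) (nat_lit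 291) (nat_lit 108)) (XT.lf (nat_lit 0) (nat_lit 10288141631) (nat_lit 152) (nat_lit 100656467825) (nat_lit 228) (nat_lit 10540932554) (nat_lit 33) (nat_lit 5) (nat_lit 35) (nat_lit 5) (nat_lit 36) (nat_lit 5) (nat_lit 322) (nat_lit 291) (nat_lit 107))))))) (XT.nd (nat_lit 702) (nat_lit 456) (nat_lit 0) (XT.nd (nat_lit 312) (nat_lit 380) (nat_lit 0) (XT.nd (nat_lit 156) (nat_lit 228) (nat_lit 0) (XT.nd (nat_lit 78) (nat_lit 0) (nat_lit 0) (XT.lf (nat_lit 0) (nat_lit 6231500118) (nat_lit 228) (nat_lit 60936067178) (nat_lit 76) (nat_lit 58461315357) (nat_lit 32) (nat_lit 5) (nat_lit 35) (nat_lit 5) (nat_lit 33) (nat_lit 5) (nat_lit 323) (nat_lit 291) (nat_lit 106)) (XT.lf (nat_lit 0) (nat_lit 23487857616) (nat_lit 228) (nat_lit 8335105677) (nat_lit 76) (nat_lit 98147810520) (nat_lit 32) (nat_lit 5) (nat_lit 35) (nat_lit 5) (nat_lit 33) (nat_lit 5) (nat_lit 324) (nat_lit 291) (nat_lit 105)))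 (XT.nd (nat_lit 78) (nat_lit 0) (nat_lit 0) (XT.lf (nat_lit 0) (nat_lit 42457948915) (nat_lit 304) (nat_lit 86141065837) (nat_lit 76) (nat_lit 5888199912) (nat_lit 29) (nat_lit 5) (nat_lit 33) (nat_lit 5) (nat_lit 30) (nat_lit 5) (nat_lit 325) (nat_lit 291) (nat_lit 104)) (XT.lf (nat_lit 0) (nat_lit 63041283471) (nat_lit 304) (nat_lit 31596194736) (nat_lit 76) (nat_lit 44558763301) (nat_lit 29) (nat_lit 5) (nat_lit 33) (nat_lit 5) (nat_lit 30) (nat_lit 5) (nat_lit 326) (nat_lit 291) (nat_lit 103)))) (XT.nd (nat_lit 156) (nat_lit 228) (nat_lit 0) (XT.nd (nat_lit 78) (nat_lit 0) (nat_lit 0) (XT.lf (nat_lit 0) (nat_lit 26524276481) (nat_lit 152) (nat_lit 58543224314) (nat_lit 228) (nat_lit 59052533940) (nat_lit 27) (nat_lit 5) (nat_lit 29) (nat_lit 5) (nat_lit 30) (nat_lit 5) (nat_lit 327) (nat_lit 291) (nat_lit 102)) (XT.lf (nat_lit 0) (nat_lit 88647143312) (nat_lit 152) (nat_lit 20082590426)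 (nat_lit 228) (nat_lit 40533549451) (nat_lit 27) (nat_lit 5) (nat_lit 29) (nat_lit 5) (nat_lit 30) (nat_lit 5) (nat_lit 328) (nat_lit 291) (nat_lit 101))) (XT.nd (nat_lit 78) (nat_lit 228) (nat_lit 0) (XT.lf (nat_lit 0) (nat_lit 133891658839) (nat_lit 228) (nat_lit 1105062984) (nat_lit 76) (nat_lit 19651143981) (nat_lit 27) (nat_lit 5) (nat_lit 30) (nat_lit 5) (nat_lit 28) (nat_lit 5) (nat_lit 329) (nat_lit 291) (nat_lit 100)) (XT.nd (nat_lit 78) (nat_lit 0) (nat_lit 0) (XT.lf (nat_lit 0) (nat_lit 1344786835) (nat_lit 228) (nat_lit 97187235233) (nat_lit 76) (nat_lit 61702893152) (nat_lit 24) (nat_lit 5) (nat_lit 27) (nat_lit 5) (nat_lit 25) (nat_lit 5) (nat_lit 330) (nat_lit 291) (nat_lit 99)) (XT.lf (nat_lit 0) (nat_lit 23871951372) (nat_lit 228) (nat_lit 35995070978) (nat_lit 76) (nat_lit 106216348845) (nat_lit 24) (nat_lit 5) (nat_lit 27) (nat_lit 5) (nat_lit 25) (nat_lit 5) (nat_lit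 331) (nat_lit 291) (nat_lit 98)))))) (XT.nd (nat_lit 312) (nat_lit 152) (nat_lit 0) (XT.nd (nat_lit 156) (nat_lit 152) (nat_lit 0) (XT.nd (nat_lit 78) (nat_lit 0) (nat_lit 0) (XT.lf (nat_lit 0) (nat_lit 29190461878) (nat_lit 152) (nat_lit 18790418250) (nat_lit 228) (nat_lit 124220600171) (nat_lit 22) (nat_lit 5) (nat_lit 24) (nat_lit 5) (nat_lit 25) (nat_lit 5) (nat_lit 332) (nat_lit 291) (nat_lit 97)) (XT.lf (nat_lit 0) (nat_lit 74294524980) (nat_lit 228) (nat_lit 80100608123) (nat_lit 76) (nat_lit 24180398873) (nat_lit 22) (nat_lit 5) (nat_lit 25) (nat_lit 5) (nat_lit 23) (nat_lit 5) (nat_lit 333) (nat_lit 291) (nat_lit 96))) (XT.nd (nat_lit 78) (nat_lit 152) (nat_lit 0) (XT.lf (nat_lit 0) (nat_lit 102231574102) (nat_lit 228) (nat_lit 14353214777) (nat_lit 76) (nat_lit 68668111824) (nat_lit 22) (nat_lit 5) (nat_lit 25) (nat_lit 5) (nat_lit 23) (nat_lit 5) (nat_lit 334) (nat_lit 291)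 (nat_lit 95)) (XT.lf (nat_lit 0) (nat_lit 56489077371) (nat_lit 152) (nat_lit 75958048628) (nat_lit 228) (nat_lit 59772929896) (nat_lit 20) (nat_lit 5) (nat_lit 22) (nat_lit 5) (nat_lit 23) (nat_lit 5) (nat_lit 335) (nat_lit 291) (nat_lit 94)))) (XT.nd (nat_lit 156) (nat_lit 76) (nat_lit 0) (XT.nd (nat_lit 78) (nat_lit 76) (nat_lit 0) (XT.lf (nat_lit 0) (nat_lit 131371328863) (nat_lit 152) (nat_lit 33044909899) (nat_lit 228) (nat_lit 35107191441) (nat_lit 20) (nat_lit 5) (nat_lit 22) (nat_lit 5) (nat_lit 23) (nat_lit 5) (nat_lit 336) (nat_lit 291) (nat_lit 93)) (XT.lf (nat_lit 0) (nat_lit 2704245758) (nat_lit 76) (nat_lit 195509068837) (nat_lit 152) (nat_lit 8967183750) (nat_lit 19) (nat_lit 5) (nat_lit 20) (nat_lit 5) (nat_lit 21) (nat_lit 4) (nat_lit 337) (nat_lit 291) (nat_lit 92))) (XT.nd (nat_lit 78) (nat_lit 0) (nat_lit 0) (XT.lf (nat_lit 0) (nat_lit 19602901972) (nat_lit 152)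 (nat_lit 136542834683) (nat_lit 76) (nat_lit 58974530222) (nat_lit 18) (nat_lit 5) (nat_lit 20) (nat_lit 5) (nat_lit 19) (nat_lit 5) (nat_lit 338) (nat_lit 291) (nat_lit 91)) (XT.nd (nat_lit 33852) (nat_lit 0) (nat_lit 4104) (XT.lf (nat_lit 0) (nat_lit 49299866910) (nat_lit 152) (nat_lit 65360185750) (nat_lit 76) (nat_lit 108789634896) (nat_lit 18) (nat_lit 5) (nat_lit 20) (nat_lit 5) (nat_lit 19) (nat_lit 5) (nat_lit 339) (nat_lit 291) (nat_lit 90)) (XT.lf (nat_lit 0) (nat_lit 5988576768) (nat_lit 0) (nat_lit 5988576768) (nat_lit 684) (nat_lit 13978300657) (nat_lit 72) (nat_lit 5) (nat_lit 72) (nat_lit 3) (nat_lit 81) (nat_lit 3) (nat_lit 292) (nat_lit 292) (nat_lit 136))))))))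
noncomputable def xc238 : XT := (XT.nd (nat_lit 1326) (nat_lit 2128) (nat_lit 0) (XT.nd (nat_lit 624) (nat_lit 1140) (nat_lit 0) (XT.nd (nat_lit 312) (nat_lit 0) (nat_lit 76) (XT.nd (nat_lit 156) (nat_lit 0) (nat_lit 76) (XT.nd (nat_lit 78) (nat_lit 0) (nat_lit 0) (XT.lf (nat_lit 0) (nat_lit 24744672602) (nat_lit 684) (nat_lit 17959310034) (nat_lit 760) (nat_lit 10495050428) (nat_lit 72) (nat_lit 5) (nat_lit 81) (nat_lit 3) (nat_lit 82) (nat_lit 5) (nat_lit 293) (nat_lit 292) (nat_lit 135)) (XT.lf (nat_lit 76) (nat_lit 5079280430) (nat_lit 0) (nat_lit 20769512490) (nat_lit 760) (nat_lit 28689063880) (nat_lit 73) (nat_lit 5) (nat_lit 72) (nat_lit 5) (nat_lit 82) (nat_lit 5) (nat_lit 294) (nat_lit 292) (nat_lit 134))) (XT.nd (nat_lit 78) (nat_lit 0) (nat_lit 0) (XT.lf (nat_lit 0) (nat_lit 27351217928) (nat_lit 684) (nat_lit 26076271209) (nat_lit 760) (nat_lit 2498982080) (nat_lit 73)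 (nat_lit 5) (nat_lit 82) (nat_lit 5) (nat_lit 83) (nat_lit 5) (nat_lit 295) (nat_lit 292) (nat_lit 133)) (XT.lf (nat_lit 0) (nat_lit 29267964025) (nat_lit 684) (nat_lit 1866160158) (nat_lit 760) (nat_lit 26233436399) (nat_lit 73) (nat_lit 5) (nat_lit 82) (nat_lit 5) (nat_lit 83) (nat_lit 5) (nat_lit 296) (nat_lit 292) (nat_lit 132)))) (XT.nd (nat_lit 156) (nat_lit 0) (nat_lit 76) (XT.nd (nat_lit 78) (nat_lit 0) (nat_lit 76) (XT.lf (nat_lit 76) (nat_lit 24332460909) (nat_lit 0) (nat_lit 7326761591) (nat_lit 760) (nat_lit 27202552177) (nat_lit 74) (nat_lit 5) (nat_lit 73) (nat_lit 5) (nat_lit 83) (nat_lit 5) (nat_lit 297) (nat_lit 292) (nat_lit 131)) (XT.lf (nat_lit 0) (nat_lit 34476889293) (nat_lit 684) (nat_lit 8800571335) (nat_lit 760) (nat_lit 17137900403) (nat_lit 74) (nat_lit 5) (nat_lit 83) (nat_lit 5) (nat_lit 84) (nat_lit 5) (nat_lit 298) (nat_lit 292) (nat_lit 130))) (XT.nd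 (nat_lit 78) (nat_lit 0) (nat_lit 76) (XT.lf (nat_lit 76) (nat_lit 18691954245) (nat_lit 0) (nat_lit 19154315164) (nat_lit 760) (nat_lit 24179819440) (nat_lit 75) (nat_lit 5) (nat_lit 74) (nat_lit 5) (nat_lit 84) (nat_lit 5) (nat_lit 299) (nat_lit 292) (nat_lit 129)) (XT.lf (nat_lit 0) (nat_lit 41630943178) (nat_lit 684) (nat_lit 15944962123) (nat_lit 760) (nat_lit 6129109994) (nat_lit 75) (nat_lit 5) (nat_lit 84) (nat_lit 5) (nat_lit 85) (nat_lit 5) (nat_lit 300) (nat_lit 292) (nat_lit 128))))) (XT.nd (nat_lit 312) (nat_lit 760) (nat_lit 0) (XT.nd (nat_lit 156) (nat_lit 608) (nat_lit 0) (XT.nd (nat_lit 78) (nat_lit 0) (nat_lit 0) (XT.lf (nat_lit 76) (nat_lit 12912121816) (nat_lit 0) (nat_lit 33207309860) (nat_lit 760) (nat_lit 19322730639) (nat_lit 76) (nat_lit 5) (nat_lit 75) (nat_lit 5) (nat_lit 85) (nat_lit 5) (nat_lit 301) (nat_lit 292) (nat_lit 127)) (XT.lf (nat_lit 76) (nat_lit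 43764835574) (nat_lit 0) (nat_lit 7336562195) (nat_lit 760) (nat_lit 16151319407) (nat_lit 76) (nat_lit 5) (nat_lit 75) (nat_lit 5) (nat_lit 85) (nat_lit 5) (nat_lit 302) (nat_lit 292) (nat_lit 126))) (XT.nd (nat_lit 78) (nat_lit 0) (nat_lit 0) (XT.lf (nat_lit 0) (nat_lit 6917407126) (nat_lit 684) (nat_lit 49831688526) (nat_lit 760) (nat_lit 12383875450) (nat_lit 67) (nat_lit 5) (nat_lit 76) (nat_lit 5) (nat_lit 77) (nat_lit 5) (nat_lit 303) (nat_lit 292) (nat_lit 125)) (XT.lf (nat_lit 0) (nat_lit 39533359350) (nat_lit 684) (nat_lit 23661028374) (nat_lit 760) (nat_lit 7887092390) (nat_lit 67) (nat_lit 5) (nat_lit 76) (nat_lit 5) (nat_lit 77) (nat_lit 5) (nat_lit 304) (nat_lit 292) (nat_lit 124)))) (XT.nd (nat_lit 156) (nat_lit 380) (nat_lit 0) (XT.nd (nat_lit 78) (nat_lit 76) (nat_lit 0) (XT.lf (nat_lit 0) (nat_lit 611857600) (nat_lit 304) (nat_lit 69418395295) (nat_lit 380) (nat_lit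 3093748976) (nat_lit 63) (nat_lit 5) (nat_lit 67) (nat_lit 5) (nat_lit 68) (nat_lit 5) (nat_lit 305) (nat_lit 292) (nat_lit 123)) (XT.lf (nat_lit 0) (nat_lit 2807275982) (nat_lit 380) (nat_lit 40194568304) (nat_lit 76) (nat_lit 32218789888) (nat_lit 62) (nat_lit 5) (nat_lit 67) (nat_lit 5) (nat_lit 63) (nat_lit 5) (nat_lit 306) (nat_lit 292) (nat_lit 122))) (XT.nd (nat_lit 78) (nat_lit 380) (nat_lit 0) (XT.lf (nat_lit 0) (nat_lit 8898577863) (nat_lit 380) (nat_lit 6312616799) (nat_lit 76) (nat_lit 62208410121) (nat_lit 62) (nat_lit 5) (nat_lit 67) (nat_lit 5) (nat_lit 63) (nat_lit 5) (nat_lit 307) (nat_lit 292) (nat_lit 121)) (XT.nd (nat_lit 78) (nat_lit 0) (nat_lit 0) (XT.lf (nat_lit 0) (nat_lit 15991490489) (nat_lit 456) (nat_lit 49700558056) (nat_lit 76) (nat_lit 14001625332) (nat_lit 57) (nat_lit 5) (nat_lit 63) (nat_lit 5) (nat_lit 58) (nat_lit 5) (nat_lit 308) (nat_lit 292) (nat_lit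 120)) (XT.lf (nat_lit 0) (nat_lit 23796331640) (nat_lit 456) (nat_lit 13994698411) (nat_lit 76) (nat_lit 44272554362) (nat_lit 57) (nat_lit 5) (nat_lit 63) (nat_lit 5) (nat_lit 58) (nat_lit 5) (nat_lit 309) (nat_lit 292) (nat_lit 119))))))) (XT.nd (nat_lit 702) (nat_lit 912) (nat_lit 0) (XT.nd (nat_lit 312) (nat_lit 608) (nat_lit 0) (XT.nd (nat_lit 156) (nat_lit 304) (nat_lit 0) (XT.nd (nat_lit 78) (nat_lit 0) (nat_lit 0) (XT.lf (nat_lit 0) (nat_lit 24272589822) (nat_lit 304) (nat_lit 8097082699) (nat_lit 380) (nat_lit 52163407097) (nat_lit 53) (nat_lit 5) (nat_lit 57) (nat_lit 5) (nat_lit 58) (nat_lit 5) (nat_lit 310) (nat_lit 292) (nat_lit 118)) (XT.lf (nat_lit 0) (nat_lit 41972256752) (nat_lit 380) (nat_lit 22540108018) (nat_lit 76) (nat_lit 22583657932) (nat_lit 53) (nat_lit 5) (nat_lit 58) (nat_lit 5) (nat_lit 54) (nat_lit 5) (nat_lit 311) (nat_lit 292) (nat_lit 117))) (XT.nd (nat_lit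 78) (nat_lit 0) (nat_lit 0) (XT.lf (nat_lit 0) (nat_lit 17492703498) (nat_lit 304) (nat_lit 34967464532) (nat_lit 380) (nat_lit 37306686858) (nat_lit 49) (nat_lit 5) (nat_lit 53) (nat_lit 5) (nat_lit 54) (nat_lit 5) (nat_lit 312) (nat_lit 292) (nat_lit 116)) (XT.lf (nat_lit 0) (nat_lit 60308982909) (nat_lit 304) (nat_lit 3544588116) (nat_lit 380) (nat_lit 28698604603) (nat_lit 49) (nat_lit 5) (nat_lit 53) (nat_lit 5) (nat_lit 54) (nat_lit 5) (nat_lit 313) (nat_lit 292) (nat_lit 115)))) (XT.nd (nat_lit 156) (nat_lit 380) (nat_lit 0) (XT.nd (nat_lit 78) (nat_lit 0) (nat_lit 0) (XT.lf (nat_lit 0) (nat_lit 9637267640) (nat_lit 228) (nat_lit 66789026808) (nat_lit 304) (nat_lit 19019987112) (nat_lit 46) (nat_lit 5) (nat_lit 49) (nat_lit 5) (nat_lit 50) (nat_lit 5) (nat_lit 314) (nat_lit 292) (nat_lit 114)) (XT.lf (nat_lit 0) (nat_lit 54670433186) (nat_lit 228) (nat_lit 35559860836) (nat_lit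 304) (nat_lit 8224668358) (nat_lit 46) (nat_lit 5) (nat_lit 49) (nat_lit 5) (nat_lit 50) (nat_lit 5) (nat_lit 315) (nat_lit 292) (nat_lit 113))) (XT.nd (nat_lit 78) (nat_lit 0) (nat_lit 0) (XT.lf (nat_lit 0) (nat_lit 301583745) (nat_lit 304) (nat_lit 2713420794) (nat_lit 380) (nat_lit 98596438979) (nat_lit 41) (nat_lit 5) (nat_lit 45) (nat_lit 5) (nat_lit 46) (nat_lit 5) (nat_lit 316) (nat_lit 292) (nat_lit 112)) (XT.nd (nat_lit 78) (nat_lit 0) (nat_lit 0) (XT.lf (nat_lit 0) (nat_lit 15789475485) (nat_lit 380) (nat_lit 57420361672) (nat_lit 76) (nat_lit 31646710540) (nat_lit 41) (nat_lit 5) (nat_lit 46) (nat_lit 5) (nat_lit 42) (nat_lit 5) (nat_lit 317) (nat_lit 292) (nat_lit 111)) (XT.lf (nat_lit 0) (nat_lit 29246625559) (nat_lit 380) (nat_lit 11381539727) (nat_lit 76) (nat_lit 67633545325) (nat_lit 41) (nat_lit 5) (nat_lit 46) (nat_lit 5) (nat_lit 42) (nat_lit 5) (nat_lit 318) (nat_lit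 292) (nat_lit 110)))))) (XT.nd (nat_lit 312) (nat_lit 456) (nat_lit 0) (XT.nd (nat_lit 156) (nat_lit 228) (nat_lit 0) (XT.nd (nat_lit 78) (nat_lit 0) (nat_lit 0) (XT.lf (nat_lit 0) (nat_lit 38180604181) (nat_lit 228) (nat_lit 5791633544) (nat_lit 304) (nat_lit 67835114964) (nat_lit 38) (nat_lit 5) (nat_lit 41) (nat_lit 5) (nat_lit 42) (nat_lit 5) (nat_lit 319) (nat_lit 292) (nat_lit 109)) (XT.lf (nat_lit 0) (nat_lit 60110219590) (nat_lit 304) (nat_lit 25389119580) (nat_lit 76) (nat_lit 29997134431) (nat_lit 38) (nat_lit 5) (nat_lit 42) (nat_lit 5) (nat_lit 39) (nat_lit 5) (nat_lit 320) (nat_lit 292) (nat_lit 108))) (XT.nd (nat_lit 78) (nat_lit 0) (nat_lit 0) (XT.lf (nat_lit 0) (nat_lit 25996889733) (nat_lit 228) (nat_lit 51558573541) (nat_lit 304) (nat_lit 41789570278) (nat_lit 35) (nat_lit 5) (nat_lit 38) (nat_lit 5) (nat_lit 39) (nat_lit 5) (nat_lit 321) (nat_lit 292) (nat_lit 107))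 (XT.lf (nat_lit 0) (nat_lit 80833043326) (nat_lit 228) (nat_lit 15469449150) (nat_lit 304) (nat_lit 27062053935) (nat_lit 35) (nat_lit 5) (nat_lit 38) (nat_lit 5) (nat_lit 39) (nat_lit 5) (nat_lit 322) (nat_lit 292) (nat_lit 106)))) (XT.nd (nat_lit 156) (nat_lit 228) (nat_lit 0) (XT.nd (nat_lit 78) (nat_lit 76) (nat_lit 0) (XT.lf (nat_lit 0) (nat_lit 10821625339) (nat_lit 152) (nat_lit 105683872835) (nat_lit 228) (nat_lit 11053606511) (nat_lit 33) (nat_lit 5) (nat_lit 35) (nat_lit 5) (nat_lit 36) (nat_lit 5) (nat_lit 323) (nat_lit 292) (nat_lit 105)) (XT.lf (nat_lit 0) (nat_lit 6556325272) (nat_lit 228) (nat_lit 63964235628) (nat_lit 76) (nat_lit 61389074794) (nat_lit 32) (nat_lit 5) (nat_lit 35) (nat_lit 5) (nat_lit 33) (nat_lit 5) (nat_lit 324) (nat_lit 292) (nat_lit 104))) (XT.nd (nat_lit 78) (nat_lit 228) (nat_lit 0) (XT.lf (nat_lit 0) (nat_lit 24674869685) (nat_lit 228) (nat_lit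 8734113429) (nat_lit 76) (nat_lit 103059671208) (nat_lit 32) (nat_lit 5) (nat_lit 35) (nat_lit 5) (nat_lit 33) (nat_lit 5) (nat_lit 325) (nat_lit 292) (nat_lit 103)) (XT.nd (nat_lit 78) (nat_lit 0) (nat_lit 0) (XT.lf (nat_lit 0) (nat_lit 44593217980) (nat_lit 304) (nat_lit 90430098100) (nat_lit 76) (nat_lit 6187614810) (nat_lit 29) (nat_lit 5) (nat_lit 33) (nat_lit 5) (nat_lit 30) (nat_lit 5) (nat_lit 326) (nat_lit 292) (nat_lit 102)) (XT.lf (nat_lit 0) (nat_lit 66205130139) (nat_lit 304) (nat_lit 33158841588) (nat_lit 76) (nat_lit 46791468040) (nat_lit 29) (nat_lit 5) (nat_lit 33) (nat_lit 5) (nat_lit 30) (nat_lit 5) (nat_lit 327) (nat_lit 292) (nat_lit 101))))))))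
noncomputable def xc239 : XT := (XT.nd (nat_lit 35256) (nat_lit 0) (nat_lit 2128) (XT.nd (nat_lit 702) (nat_lit 152) (nat_lit 0) (XT.nd (nat_lit 312) (nat_lit 304) (nat_lit 0) (XT.nd (nat_lit 156) (nat_lit 228) (nat_lit 0) (XT.nd (nat_lit 78) (nat_lit 0) (nat_lit 0) (XT.lf (nat_lit 0) (nat_lit 27867376369) (nat_lit 152) (nat_lit 61464984528) (nat_lit 228) (nat_lit 61993077806) (nat_lit 27) (nat_lit 5) (nat_lit 29) (nat_lit 5) (nat_lit 30) (nat_lit 5) (nat_lit 328) (nat_lit 292) (nat_lit 100)) (XT.lf (nat_lit 0) (nat_lit 93095582443) (nat_lit 152) (nat_lit 21081576136) (nat_lit 228) (nat_lit 42548719466) (nat_lit 27) (nat_lit 5) (nat_lit 29) (nat_lit 5) (nat_lit 30) (nat_lit 5) (nat_lit 329) (nat_lit 292) (nat_lit 99))) (XT.nd (nat_lit 78) (nat_lit 228) (nat_lit 0) (XT.lf (nat_lit 0) (nat_lit 140596735556) (nat_lit 228) (nat_lit 1144534267) (nat_lit 76) (nat_lit 20638443254) (nat_lit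 27) (nat_lit 5) (nat_lit 30) (nat_lit 5) (nat_lit 28) (nat_lit 5) (nat_lit 330) (nat_lit 292) (nat_lit 98)) (XT.lf (nat_lit 0) (nat_lit 1422450148) (nat_lit 228) (nat_lit 102030705664) (nat_lit 76) (nat_lit 64792964623) (nat_lit 24) (nat_lit 5) (nat_lit 27) (nat_lit 5) (nat_lit 25) (nat_lit 5) (nat_lit 331) (nat_lit 292) (nat_lit 97)))) (XT.nd (nat_lit 156) (nat_lit 152) (nat_lit 0) (XT.nd (nat_lit 78) (nat_lit 152) (nat_lit 0) (XT.lf (nat_lit 0) (nat_lit 25075476532) (nat_lit 228) (nat_lit 37779689926) (nat_lit 76) (nat_lit 111531858491) (nat_lit 24) (nat_lit 5) (nat_lit 27) (nat_lit 5) (nat_lit 25) (nat_lit 5) (nat_lit 332) (nat_lit 292) (nat_lit 96)) (XT.lf (nat_lit 0) (nat_lit 30664875466) (nat_lit 152) (nat_lit 19724736000) (nat_lit 228) (nat_lit 130421440933) (nat_lit 22) (nat_lit 5) (nat_lit 24) (nat_lit 5) (nat_lit 25) (nat_lit 5) (nat_lit 333) (nat_lit 292) (nat_lit 95))) (XT.nd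 (nat_lit 78) (nat_lit 152) (nat_lit 0) (XT.lf (nat_lit 0) (nat_lit 78018554626) (nat_lit 228) (nat_lit 84091056459) (nat_lit 76) (nat_lit 25394215606) (nat_lit 22) (nat_lit 5) (nat_lit 25) (nat_lit 5) (nat_lit 23) (nat_lit 5) (nat_lit 334) (nat_lit 292) (nat_lit 94)) (XT.nd (nat_lit 78) (nat_lit 152) (nat_lit 0) (XT.lf (nat_lit 0) (nat_lit 107352013186) (nat_lit 228) (nat_lit 15056987831) (nat_lit 76) (nat_lit 72106085786) (nat_lit 22) (nat_lit 5) (nat_lit 25) (nat_lit 5) (nat_lit 23) (nat_lit 5) (nat_lit 335) (nat_lit 292) (nat_lit 93)) (XT.lf (nat_lit 0) (nat_lit 59327194930) (nat_lit 152) (nat_lit 79750939154) (nat_lit 228) (nat_lit 62752476859) (nat_lit 20) (nat_lit 5) (nat_lit 22) (nat_lit 5) (nat_lit 23) (nat_lit 5) (nat_lit 336) (nat_lit 292) (nat_lit 92)))))) (XT.nd (nat_lit 34164) (nat_lit 0) (nat_lit 4104) (XT.nd (nat_lit 156) (nat_lit 76) (nat_lit 0) (XT.nd (nat_lit 78) (nat_lit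 76) (nat_lit 0) (XT.lf (nat_lit 0) (nat_lit 137952908344) (nat_lit 152) (nat_lit 34692382150) (nat_lit 228) (nat_lit 36853884791) (nat_lit 20) (nat_lit 5) (nat_lit 22) (nat_lit 5) (nat_lit 23) (nat_lit 5) (nat_lit 337) (nat_lit 292) (nat_lit 91)) (XT.lf (nat_lit 0) (nat_lit 2852607423) (nat_lit 76) (nat_lit 205279496598) (nat_lit 152) (nat_lit 9406999306) (nat_lit 19) (nat_lit 5) (nat_lit 20) (nat_lit 5) (nat_lit 21) (nat_lit 4) (nat_lit 338) (nat_lit 292) (nat_lit 90))) (XT.nd (nat_lit 33930) (nat_lit 0) (nat_lit 4104) (XT.lf (nat_lit 0) (nat_lit 20590923434) (nat_lit 152) (nat_lit 143357180302) (nat_lit 76) (nat_lit 61927770196) (nat_lit 18) (nat_lit 5) (nat_lit 20) (nat_lit 5) (nat_lit 19) (nat_lit 5) (nat_lit 339) (nat_lit 292) (nat_lit 89)) (XT.lf (nat_lit 0) (nat_lit 6298948471) (nat_lit 0) (nat_lit 6298948471) (nat_lit 684) (nat_lit 14654164169) (nat_lit 72) (nat_lit 5) (nat_lit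 72) (nat_lit 3) (nat_lit 81) (nat_lit 3) (nat_lit 293) (nat_lit 293) (nat_lit 134)))) (XT.nd (nat_lit 156) (nat_lit 0) (nat_lit 76) (XT.nd (nat_lit 78) (nat_lit 0) (nat_lit 0) (XT.lf (nat_lit 0) (nat_lit 26023267910) (nat_lit 684) (nat_lit 18833886002) (nat_lit 760) (nat_lit 10999626521) (nat_lit 72) (nat_lit 5) (nat_lit 81) (nat_lit 3) (nat_lit 82) (nat_lit 5) (nat_lit 294) (nat_lit 293) (nat_lit 133)) (XT.lf (nat_lit 76) (nat_lit 5356256735) (nat_lit 0) (nat_lit 21824727192) (nat_lit 760) (nat_lit 30081648431) (nat_lit 73) (nat_lit 5) (nat_lit 72) (nat_lit 5) (nat_lit 82) (nat_lit 5) (nat_lit 295) (nat_lit 293) (nat_lit 132))) (XT.nd (nat_lit 78) (nat_lit 0) (nat_lit 0) (XT.lf (nat_lit 0) (nat_lit 28756388364) (nat_lit 684) (nat_lit 27355902951) (nat_lit 760) (nat_lit 2608499448) (nat_lit 73) (nat_lit 5) (nat_lit 82) (nat_lit 5) (nat_lit 83) (nat_lit 5) (nat_lit 296) (nat_lit 293)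 (nat_lit 131)) (XT.nd (nat_lit 78) (nat_lit 0) (nat_lit 0) (XT.lf (nat_lit 0) (nat_lit 30767180835) (nat_lit 684) (nat_lit 1936437862) (nat_lit 760) (nat_lit 27530411328) (nat_lit 73) (nat_lit 5) (nat_lit 82) (nat_lit 5) (nat_lit 83) (nat_lit 5) (nat_lit 297) (nat_lit 293) (nat_lit 130)) (XT.lf (nat_lit 76) (nat_lit 25571742801) (nat_lit 0) (nat_lit 7704907552) (nat_lit 760) (nat_lit 28526377668) (nat_lit 74) (nat_lit 5) (nat_lit 73) (nat_lit 5) (nat_lit 83) (nat_lit 5) (nat_lit 298) (nat_lit 293) (nat_lit 129))))))) (XT.nd (nat_lit 702) (nat_lit 1216) (nat_lit 0) (XT.nd (nat_lit 312) (nat_lit 912) (nat_lit 0) (XT.nd (nat_lit 156) (nat_lit 0) (nat_lit 76) (XT.nd (nat_lit 78) (nat_lit 0) (nat_lit 0) (XT.lf (nat_lit 0) (nat_lit 36233383639) (nat_lit 684) (nat_lit 9217096483) (nat_lit 760) (nat_lit 17983909751) (nat_lit 74) (nat_lit 5) (nat_lit 83) (nat_lit 5) (nat_lit 84) (nat_lit 5)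 (nat_lit 299) (nat_lit 293) (nat_lit 128)) (XT.lf (nat_lit 76) (nat_lit 19649676289) (nat_lit 0) (nat_lit 20120362750) (nat_lit 760) (nat_lit 25355679809) (nat_lit 75) (nat_lit 5) (nat_lit 74) (nat_lit 5) (nat_lit 84) (nat_lit 5) (nat_lit 300) (nat_lit 293) (nat_lit 127))) (XT.nd (nat_lit 78) (nat_lit 0) (nat_lit 0) (XT.lf (nat_lit 0) (nat_lit 43742324696) (nat_lit 684) (nat_lit 16718468460) (nat_lit 760) (nat_lit 6427884390) (nat_lit 75) (nat_lit 5) (nat_lit 84) (nat_lit 5) (nat_lit 85) (nat_lit 5) (nat_lit 301) (nat_lit 293) (nat_lit 126)) (XT.lf (nat_lit 76) (nat_lit 13581086745) (nat_lit 0) (nat_lit 34873094888) (nat_lit 760) (nat_lit 20258557694) (nat_lit 76) (nat_lit 5) (nat_lit 75) (nat_lit 5) (nat_lit 85) (nat_lit 5) (nat_lit 302) (nat_lit 293) (nat_lit 125)))) (XT.nd (nat_lit 156) (nat_lit 380) (nat_lit 0) (XT.nd (nat_lit 78) (nat_lit 608) (nat_lit 0) (XT.lf (nat_lit 76) (nat_lit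 45975323864) (nat_lit 0) (nat_lit 7708551766) (nat_lit 760) (nat_lit 16930019209) (nat_lit 76) (nat_lit 5) (nat_lit 75) (nat_lit 5) (nat_lit 85) (nat_lit 5) (nat_lit 303) (nat_lit 293) (nat_lit 124)) (XT.lf (nat_lit 0) (nat_lit 7286679140) (nat_lit 684) (nat_lit 52326262744) (nat_lit 760) (nat_lit 12975274585) (nat_lit 67) (nat_lit 5) (nat_lit 76) (nat_lit 5) (nat_lit 77) (nat_lit 5) (nat_lit 304) (nat_lit 293) (nat_lit 123))) (XT.nd (nat_lit 78) (nat_lit 380) (nat_lit 0) (XT.lf (nat_lit 0) (nat_lit 41532314611) (nat_lit 684) (nat_lit 24846927214) (nat_lit 760) (nat_lit 8254975926) (nat_lit 67) (nat_lit 5) (nat_lit 76) (nat_lit 5) (nat_lit 77) (nat_lit 5) (nat_lit 305) (nat_lit 293) (nat_lit 122)) (XT.nd (nat_lit 78) (nat_lit 76) (nat_lit 0) (XT.lf (nat_lit 0) (nat_lit 665736855) (nat_lit 304) (nat_lit 72890287734) (nat_lit 380) (nat_lit 3222888582) (nat_lit 63) (nat_lit 5) (nat_lit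 67) (nat_lit 5) (nat_lit 68) (nat_lit 5) (nat_lit 306) (nat_lit 293) (nat_lit 121)) (XT.lf (nat_lit 0) (nat_lit 2971192307) (nat_lit 380) (nat_lit 42181271676) (nat_lit 76) (nat_lit 33827955482) (nat_lit 62) (nat_lit 5) (nat_lit 67) (nat_lit 5) (nat_lit 63) (nat_lit 5) (nat_lit 307) (nat_lit 293) (nat_lit 120)))))) (XT.nd (nat_lit 312) (nat_lit 532) (nat_lit 0) (XT.nd (nat_lit 156) (nat_lit 304) (nat_lit 0) (XT.nd (nat_lit 78) (nat_lit 380) (nat_lit 0) (XT.lf (nat_lit 0) (nat_lit 9365937734) (nat_lit 380) (nat_lit 6606319026) (nat_lit 76) (nat_lit 65317141199) (nat_lit 62) (nat_lit 5) (nat_lit 67) (nat_lit 5) (nat_lit 63) (nat_lit 5) (nat_lit 308) (nat_lit 293) (nat_lit 119)) (XT.lf (nat_lit 0) (nat_lit 16812762747) (nat_lit 456) (nat_lit 52162861707) (nat_lit 76) (nat_lit 14701585836) (nat_lit 57) (nat_lit 5) (nat_lit 63) (nat_lit 5) (nat_lit 58) (nat_lit 5) (nat_lit 309) (nat_lit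 293) (nat_lit 118))) (XT.nd (nat_lit 78) (nat_lit 304) (nat_lit 0) (XT.lf (nat_lit 0) (nat_lit 25006812730) (nat_lit 456) (nat_lit 14672791186) (nat_lit 76) (nat_lit 46486067068) (nat_lit 57) (nat_lit 5) (nat_lit 63) (nat_lit 5) (nat_lit 58) (nat_lit 5) (nat_lit 310) (nat_lit 293) (nat_lit 117)) (XT.lf (nat_lit 0) (nat_lit 25507512391) (nat_lit 304) (nat_lit 8500656685) (nat_lit 380) (nat_lit 54750507283) (nat_lit 53) (nat_lit 5) (nat_lit 57) (nat_lit 5) (nat_lit 58) (nat_lit 5) (nat_lit 311) (nat_lit 293) (nat_lit 116)))) (XT.nd (nat_lit 156) (nat_lit 228) (nat_lit 0) (XT.nd (nat_lit 78) (nat_lit 304) (nat_lit 0) (XT.lf (nat_lit 0) (nat_lit 44089948556) (nat_lit 380) (nat_lit 23645846437) (nat_lit 76) (nat_lit 23714020997) (nat_lit 53) (nat_lit 5) (nat_lit 58) (nat_lit 5) (nat_lit 54) (nat_lit 5) (nat_lit 312) (nat_lit 293) (nat_lit 115)) (XT.lf (nat_lit 0) (nat_lit 18388262640) (nat_lit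 304) (nat_lit 36713410919) (nat_lit 380) (nat_lit 39152547886) (nat_lit 49) (nat_lit 5) (nat_lit 53) (nat_lit 5) (nat_lit 54) (nat_lit 5) (nat_lit 313) (nat_lit 293) (nat_lit 114))) (XT.nd (nat_lit 78) (nat_lit 228) (nat_lit 0) (XT.lf (nat_lit 0) (nat_lit 63344359642) (nat_lit 304) (nat_lit 3719506245) (nat_lit 380) (nat_lit 30114988819) (nat_lit 49) (nat_lit 5) (nat_lit 53) (nat_lit 5) (nat_lit 54) (nat_lit 5) (nat_lit 314) (nat_lit 293) (nat_lit 113)) (XT.nd (nat_lit 78) (nat_lit 0) (nat_lit 0) (XT.lf (nat_lit 0) (nat_lit 10139616401) (nat_lit 228) (nat_lit 70125124409) (nat_lit 304) (nat_lit 19952951686) (nat_lit 46) (nat_lit 5) (nat_lit 49) (nat_lit 5) (nat_lit 50) (nat_lit 5) (nat_lit 315) (nat_lit 293) (nat_lit 112)) (XT.lf (nat_lit 0) (nat_lit 57423464730) (nat_lit 228) (nat_lit 37334659840) (nat_lit 304) (nat_lit 8618725793) (nat_lit 46) (nat_lit 5) (nat_lit 49) (nat_lit 5)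 (nat_lit 50) (nat_lit 5) (nat_lit 316) (nat_lit 293) (nat_lit 111))))))))
noncomputable def xc240 : XT := (XT.nd (nat_lit 1326) (nat_lit 304) (nat_lit 0) (XT.nd (nat_lit 624) (nat_lit 684) (nat_lit 0) (XT.nd (nat_lit 312) (nat_lit 380) (nat_lit 0) (XT.nd (nat_lit 156) (nat_lit 228) (nat_lit 0) (XT.nd (nat_lit 78) (nat_lit 0) (nat_lit 0) (XT.lf (nat_lit 0) (nat_lit 336440565) (nat_lit 304) (nat_lit 2845457504) (nat_lit 380) (nat_lit 103509270240) (nat_lit 41) (nat_lit 5) (nat_lit 45) (nat_lit 5) (nat_lit 46) (nat_lit 5) (nat_lit 317) (nat_lit 293) (nat_lit 110)) (XT.lf (nat_lit 0) (nat_lit 16594377873) (nat_lit 380) (nat_lit 60271790922) (nat_lit 76) (nat_lit 33232396551) (nat_lit 41) (nat_lit 5) (nat_lit 46) (nat_lit 5) (nat_lit 42) (nat_lit 5) (nat_lit 318) (nat_lit 293) (nat_lit 109))) (XT.nd (nat_lit 78) (nat_lit 228) (nat_lit 0) (XT.lf (nat_lit 0) (nat_lit 30723650755) (nat_lit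 380) (nat_lit 11931960682) (nat_lit 76) (nat_lit 71018413529) (nat_lit 41) (nat_lit 5) (nat_lit 46) (nat_lit 5) (nat_lit 42) (nat_lit 5) (nat_lit 319) (nat_lit 293) (nat_lit 108)) (XT.lf (nat_lit 0) (nat_lit 40107989518) (nat_lit 228) (nat_lit 6077140875) (nat_lit 304) (nat_lit 71211841147) (nat_lit 38) (nat_lit 5) (nat_lit 41) (nat_lit 5) (nat_lit 42) (nat_lit 5) (nat_lit 320) (nat_lit 293) (nat_lit 107)))) (XT.nd (nat_lit 156) (nat_lit 152) (nat_lit 0) (XT.nd (nat_lit 78) (nat_lit 228) (nat_lit 0) (XT.lf (nat_lit 0) (nat_lit 63129391898) (nat_lit 304) (nat_lit 26640441940) (nat_lit 76) (nat_lit 31500747287) (nat_lit 38) (nat_lit 5) (nat_lit 42) (nat_lit 5) (nat_lit 39) (nat_lit 5) (nat_lit 321) (nat_lit 293) (nat_lit 106)) (XT.lf (nat_lit 0) (nat_lit 27314575361) (nat_lit 228) (nat_lit 54131950417) (nat_lit 304) (nat_lit 43865063472) (nat_lit 35) (nat_lit 5) (nat_lit 38) (nat_lit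 5) (nat_lit 39) (nat_lit 5) (nat_lit 322) (nat_lit 293) (nat_lit 105))) (XT.nd (nat_lit 78) (nat_lit 152) (nat_lit 0) (XT.lf (nat_lit 0) (nat_lit 84891687054) (nat_lit 228) (nat_lit 16238586559) (nat_lit 304) (nat_lit 28401837280) (nat_lit 35) (nat_lit 5) (nat_lit 38) (nat_lit 5) (nat_lit 39) (nat_lit 5) (nat_lit 323) (nat_lit 293) (nat_lit 104)) (XT.lf (nat_lit 0) (nat_lit 11380009668) (nat_lit 152) (nat_lit 110963151845) (nat_lit 228) (nat_lit 11593250400) (nat_lit 33) (nat_lit 5) (nat_lit 35) (nat_lit 5) (nat_lit 36) (nat_lit 5) (nat_lit 324) (nat_lit 293) (nat_lit 103))))) (XT.nd (nat_lit 312) (nat_lit 380) (nat_lit 0) (XT.nd (nat_lit 156) (nat_lit 228) (nat_lit 0) (XT.nd (nat_lit 78) (nat_lit 0) (nat_lit 0) (XT.lf (nat_lit 0) (nat_lit 6896159811) (nat_lit 228) (nat_lit 67145544997) (nat_lit 76) (nat_lit 64462785831) (nat_lit 32) (nat_lit 5) (nat_lit 35) (nat_lit 5) (nat_lit 33)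 (nat_lit 5) (nat_lit 325) (nat_lit 293) (nat_lit 102)) (XT.lf (nat_lit 0) (nat_lit 25920059146) (nat_lit 228) (nat_lit 9154721565) (nat_lit 76) (nat_lit 108216709336) (nat_lit 32) (nat_lit 5) (nat_lit 35) (nat_lit 5) (nat_lit 33) (nat_lit 5) (nat_lit 326) (nat_lit 293) (nat_lit 101))) (XT.nd (nat_lit 78) (nat_lit 0) (nat_lit 0) (XT.lf (nat_lit 0) (nat_lit 46834100302) (nat_lit 304) (nat_lit 94935257401) (nat_lit 76) (nat_lit 6501535144) (nat_lit 29) (nat_lit 5) (nat_lit 33) (nat_lit 5) (nat_lit 30) (nat_lit 5) (nat_lit 327) (nat_lit 293) (nat_lit 100)) (XT.lf (nat_lit 0) (nat_lit 69526073716) (nat_lit 304) (nat_lit 34801216425) (nat_lit 76) (nat_lit 49135364865) (nat_lit 29) (nat_lit 5) (nat_lit 33) (nat_lit 5) (nat_lit 30) (nat_lit 5) (nat_lit 328) (nat_lit 293) (nat_lit 99)))) (XT.nd (nat_lit 156) (nat_lit 228) (nat_lit 0) (XT.nd (nat_lit 78) (nat_lit 0) (nat_lit 0) (XT.lf (nat_lit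 0) (nat_lit 29276061345) (nat_lit 152) (nat_lit 64533334887) (nat_lit 228) (nat_lit 65081772212) (nat_lit 27) (nat_lit 5) (nat_lit 29) (nat_lit 5) (nat_lit 30) (nat_lit 5) (nat_lit 329) (nat_lit 293) (nat_lit 98)) (XT.lf (nat_lit 0) (nat_lit 97764948382) (nat_lit 152) (nat_lit 22130989354) (nat_lit 228) (nat_lit 44665717836) (nat_lit 27) (nat_lit 5) (nat_lit 29) (nat_lit 5) (nat_lit 30) (nat_lit 5) (nat_lit 330) (nat_lit 293) (nat_lit 97))) (XT.nd (nat_lit 78) (nat_lit 228) (nat_lit 0) (XT.lf (nat_lit 0) (nat_lit 147636090496) (nat_lit 228) (nat_lit 1187446362) (nat_lit 76) (nat_lit 21674666617) (nat_lit 27) (nat_lit 5) (nat_lit 30) (nat_lit 5) (nat_lit 28) (nat_lit 5) (nat_lit 331) (nat_lit 293) (nat_lit 96)) (XT.nd (nat_lit 78) (nat_lit 0) (nat_lit 0) (XT.lf (nat_lit 0) (nat_lit 1503027504) (nat_lit 228) (nat_lit 107117827042) (nat_lit 76) (nat_lit 68037081620) (nat_lit 24) (nat_lit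 5) (nat_lit 27) (nat_lit 5) (nat_lit 25) (nat_lit 5) (nat_lit 332) (nat_lit 293) (nat_lit 95)) (XT.lf (nat_lit 0) (nat_lit 26338254977) (nat_lit 228) (nat_lit 39654946894) (nat_lit 76) (nat_lit 117112707383) (nat_lit 24) (nat_lit 5) (nat_lit 27) (nat_lit 5) (nat_lit 25) (nat_lit 5) (nat_lit 333) (nat_lit 293) (nat_lit 94))))))) (XT.nd (nat_lit 34710) (nat_lit 0) (nat_lit 3572) (XT.nd (nat_lit 312) (nat_lit 0) (nat_lit 0) (XT.nd (nat_lit 156) (nat_lit 152) (nat_lit 0) (XT.nd (nat_lit 78) (nat_lit 0) (nat_lit 0) (XT.lf (nat_lit 0) (nat_lit 32211625357) (nat_lit 152) (nat_lit 20706253379) (nat_lit 228) (nat_lit 136933271033) (nat_lit 22) (nat_lit 5) (nat_lit 24) (nat_lit 5) (nat_lit 25) (nat_lit 5) (nat_lit 334) (nat_lit 293) (nat_lit 93)) (XT.lf (nat_lit 0) (nat_lit 81927920814) (nat_lit 228) (nat_lit 88282382916) (nat_lit 76) (nat_lit 26668277215) (nat_lit 22) (nat_lit 5) (nat_lit 25)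 (nat_lit 5) (nat_lit 23) (nat_lit 5) (nat_lit 335) (nat_lit 293) (nat_lit 92))) (XT.nd (nat_lit 78) (nat_lit 152) (nat_lit 0) (XT.lf (nat_lit 0) (nat_lit 112727650470) (nat_lit 228) (nat_lit 15797240683) (nat_lit 76) (nat_lit 75715533722) (nat_lit 22) (nat_lit 5) (nat_lit 25) (nat_lit 5) (nat_lit 23) (nat_lit 5) (nat_lit 336) (nat_lit 293) (nat_lit 91)) (XT.lf (nat_lit 0) (nat_lit 62305948046) (nat_lit 152) (nat_lit 83733940165) (nat_lit 228) (nat_lit 65881847158) (nat_lit 20) (nat_lit 5) (nat_lit 22) (nat_lit 5) (nat_lit 23) (nat_lit 5) (nat_lit 337) (nat_lit 293) (nat_lit 90)))) (XT.nd (nat_lit 34164) (nat_lit 0) (nat_lit 3952) (XT.nd (nat_lit 34086) (nat_lit 0) (nat_lit 3952) (XT.lf (nat_lit 0) (nat_lit 144862356971) (nat_lit 152) (nat_lit 36422671785) (nat_lit 228) (nat_lit 38688718513) (nat_lit 20) (nat_lit 5) (nat_lit 22) (nat_lit 5) (nat_lit 23) (nat_lit 5) (nat_lit 338) (nat_lit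 293) (nat_lit 89)) (XT.lf (nat_lit 0) (nat_lit 6623821395) (nat_lit 0) (nat_lit 6623821395) (nat_lit 684) (nat_lit 15365963968) (nat_lit 72) (nat_lit 5) (nat_lit 72) (nat_lit 3) (nat_lit 81) (nat_lit 3) (nat_lit 294) (nat_lit 294) (nat_lit 132))) (XT.nd (nat_lit 78) (nat_lit 0) (nat_lit 0) (XT.lf (nat_lit 0) (nat_lit 27361947567) (nat_lit 684) (nat_lit 19754365305) (nat_lit 760) (nat_lit 11531307232) (nat_lit 72) (nat_lit 5) (nat_lit 81) (nat_lit 3) (nat_lit 82) (nat_lit 5) (nat_lit 295) (nat_lit 294) (nat_lit 131)) (XT.nd (nat_lit 78) (nat_lit 0) (nat_lit 76) (XT.lf (nat_lit 76) (nat_lit 5644942391) (nat_lit 0) (nat_lit 22931146388) (nat_lit 760) (nat_lit 31547754759) (nat_lit 73) (nat_lit 5) (nat_lit 72) (nat_lit 5) (nat_lit 82) (nat_lit 5) (nat_lit 296) (nat_lit 294) (nat_lit 130)) (XT.lf (nat_lit 0) (nat_lit 30228320744) (nat_lit 684) (nat_lit 28701764476) (nat_lit 760) (nat_lit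 2724927382) (nat_lit 73) (nat_lit 5) (nat_lit 82) (nat_lit 5) (nat_lit 83) (nat_lit 5) (nat_lit 297) (nat_lit 294) (nat_lit 129)))))) (XT.nd (nat_lit 312) (nat_lit 456) (nat_lit 0) (XT.nd (nat_lit 156) (nat_lit 0) (nat_lit 76) (XT.nd (nat_lit 78) (nat_lit 0) (nat_lit 0) (XT.lf (nat_lit 0) (nat_lit 32338028411) (nat_lit 684) (nat_lit 2012370591) (nat_lit 760) (nat_lit 28893601381) (nat_lit 73) (nat_lit 5) (nat_lit 82) (nat_lit 5) (nat_lit 83) (nat_lit 5) (nat_lit 298) (nat_lit 294) (nat_lit 128)) (XT.lf (nat_lit 76) (nat_lit 26870882184) (nat_lit 0) (nat_lit 8100863027) (nat_lit 760) (nat_lit 29919769460) (nat_lit 74) (nat_lit 5) (nat_lit 73) (nat_lit 5) (nat_lit 83) (nat_lit 5) (nat_lit 299) (nat_lit 294) (nat_lit 127))) (XT.nd (nat_lit 78) (nat_lit 0) (nat_lit 0) (XT.lf (nat_lit 0) (nat_lit 38074667226) (nat_lit 684) (nat_lit 9656633013) (nat_lit 760) (nat_lit 18873231613) (nat_lit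 74) (nat_lit 5) (nat_lit 83) (nat_lit 5) (nat_lit 84) (nat_lit 5) (nat_lit 300) (nat_lit 294) (nat_lit 126)) (XT.lf (nat_lit 76) (nat_lit 20653134554) (nat_lit 0) (nat_lit 21133938102) (nat_lit 760) (nat_lit 26593413366) (nat_lit 75) (nat_lit 5) (nat_lit 74) (nat_lit 5) (nat_lit 84) (nat_lit 5) (nat_lit 301) (nat_lit 294) (nat_lit 125)))) (XT.nd (nat_lit 156) (nat_lit 608) (nat_lit 0) (XT.nd (nat_lit 78) (nat_lit 0) (nat_lit 0) (XT.lf (nat_lit 0) (nat_lit 45956501574) (nat_lit 684) (nat_lit 17532857399) (nat_lit 760) (nat_lit 6742311623) (nat_lit 75) (nat_lit 5) (nat_lit 84) (nat_lit 5) (nat_lit 85) (nat_lit 5) (nat_lit 302) (nat_lit 294) (nat_lit 124)) (XT.lf (nat_lit 76) (nat_lit 14281328236) (nat_lit 0) (nat_lit 36621665310) (nat_lit 760) (nat_lit 21243993990) (nat_lit 76) (nat_lit 5) (nat_lit 75) (nat_lit 5) (nat_lit 85) (nat_lit 5) (nat_lit 303) (nat_lit 294) (nat_lit 123))) (XT.nd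 (nat_lit 78) (nat_lit 608) (nat_lit 0) (XT.lf (nat_lit 76) (nat_lit 48294268300) (nat_lit 0) (nat_lit 8098660952) (nat_lit 760) (nat_lit 17750337704) (nat_lit 76) (nat_lit 5) (nat_lit 75) (nat_lit 5) (nat_lit 85) (nat_lit 5) (nat_lit 304) (nat_lit 294) (nat_lit 122)) (XT.nd (nat_lit 78) (nat_lit 0) (nat_lit 0) (XT.lf (nat_lit 0) (nat_lit 7672239090) (nat_lit 684) (nat_lit 54945287711) (nat_lit 760) (nat_lit 13598827759) (nat_lit 67) (nat_lit 5) (nat_lit 76) (nat_lit 5) (nat_lit 77) (nat_lit 5) (nat_lit 305) (nat_lit 294) (nat_lit 121)) (XT.lf (nat_lit 0) (nat_lit 43629145574) (nat_lit 684) (nat_lit 26091856269) (nat_lit 760) (nat_lit 8643714669) (nat_lit 67) (nat_lit 5) (nat_lit 76) (nat_lit 5) (nat_lit 77) (nat_lit 5) (nat_lit 306) (nat_lit 294) (nat_lit 120))))))))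
noncomputable def xc241 : XT := (XT.nd (nat_lit 1326) (nat_lit 988) (nat_lit 0) (XT.nd (nat_lit 624) (nat_lit 1064) (nat_lit 0) (XT.nd (nat_lit 312) (nat_lit 608) (nat_lit 0) (XT.nd (nat_lit 156) (nat_lit 380) (nat_lit 0) (XT.nd (nat_lit 78) (nat_lit 76) (nat_lit 0) (XT.lf (nat_lit 0) (nat_lit 720145126) (nat_lit 304) (nat_lit 76535684366) (nat_lit 380) (nat_lit 3360860364) (nat_lit 63) (nat_lit 5) (nat_lit 67) (nat_lit 5) (nat_lit 68) (nat_lit 5) (nat_lit 307) (nat_lit 294) (nat_lit 119)) (XT.lf (nat_lit 0) (nat_lit 3141114758) (nat_lit 380) (nat_lit 44269450867) (nat_lit 76) (nat_lit 35517744277) (nat_lit 62) (nat_lit 5) (nat_lit 67) (nat_lit 5) (nat_lit 63) (nat_lit 5) (nat_lit 308) (nat_lit 294) (nat_lit 118))) (XT.nd (nat_lit 78) (nat_lit 380) (nat_lit 0) (XT.lf (nat_lit 0) (nat_lit 9854580178) (nat_lit 380) (nat_lit 6916745080) (nat_lit 76) (nat_lit 68581465897) (nat_lit 62) (nat_lit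 5) (nat_lit 67) (nat_lit 5) (nat_lit 63) (nat_lit 5) (nat_lit 309) (nat_lit 294) (nat_lit 117)) (XT.lf (nat_lit 0) (nat_lit 17673081368) (nat_lit 456) (nat_lit 54750393226) (nat_lit 76) (nat_lit 15436555593) (nat_lit 57) (nat_lit 5) (nat_lit 63) (nat_lit 5) (nat_lit 58) (nat_lit 5) (nat_lit 310) (nat_lit 294) (nat_lit 116)))) (XT.nd (nat_lit 156) (nat_lit 304) (nat_lit 0) (XT.nd (nat_lit 78) (nat_lit 304) (nat_lit 0) (XT.lf (nat_lit 0) (nat_lit 26275896684) (nat_lit 456) (nat_lit 15386800682) (nat_lit 76) (nat_lit 48810266102) (nat_lit 57) (nat_lit 5) (nat_lit 63) (nat_lit 5) (nat_lit 58) (nat_lit 5) (nat_lit 311) (nat_lit 294) (nat_lit 115)) (XT.lf (nat_lit 0) (nat_lit 26802201460) (nat_lit 304) (nat_lit 8924528385) (nat_lit 380) (nat_lit 57468921383) (nat_lit 53) (nat_lit 5) (nat_lit 57) (nat_lit 5) (nat_lit 58) (nat_lit 5) (nat_lit 312) (nat_lit 294) (nat_lit 114))) (XT.nd (nat_lit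 78) (nat_lit 304) (nat_lit 0) (XT.lf (nat_lit 0) (nat_lit 46311751169) (nat_lit 380) (nat_lit 24808848978) (nat_lit 76) (nat_lit 24900792495) (nat_lit 53) (nat_lit 5) (nat_lit 58) (nat_lit 5) (nat_lit 54) (nat_lit 5) (nat_lit 313) (nat_lit 294) (nat_lit 113)) (XT.lf (nat_lit 0) (nat_lit 19326654426) (nat_lit 304) (nat_lit 38546880249) (nat_lit 380) (nat_lit 41092512409) (nat_lit 49) (nat_lit 5) (nat_lit 53) (nat_lit 5) (nat_lit 54) (nat_lit 5) (nat_lit 314) (nat_lit 294) (nat_lit 112))))) (XT.nd (nat_lit 312) (nat_lit 456) (nat_lit 0) (XT.nd (nat_lit 156) (nat_lit 380) (nat_lit 0) (XT.nd (nat_lit 78) (nat_lit 228) (nat_lit 0) (XT.lf (nat_lit 0) (nat_lit 66529652533) (nat_lit 304) (nat_lit 3903385161) (nat_lit 380) (nat_lit 31603916479) (nat_lit 49) (nat_lit 5) (nat_lit 53) (nat_lit 5) (nat_lit 54) (nat_lit 5) (nat_lit 315) (nat_lit 294) (nat_lit 111)) (XT.lf (nat_lit 0) (nat_lit 10665178065)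 (nat_lit 228) (nat_lit 73628338689) (nat_lit 304) (nat_lit 20934241191) (nat_lit 46) (nat_lit 5) (nat_lit 49) (nat_lit 5) (nat_lit 50) (nat_lit 5) (nat_lit 316) (nat_lit 294) (nat_lit 110))) (XT.nd (nat_lit 78) (nat_lit 380) (nat_lit 0) (XT.lf (nat_lit 0) (nat_lit 60312334008) (nat_lit 228) (nat_lit 39198495746) (nat_lit 304) (nat_lit 9034082960) (nat_lit 46) (nat_lit 5) (nat_lit 49) (nat_lit 5) (nat_lit 50) (nat_lit 5) (nat_lit 317) (nat_lit 294) (nat_lit 109)) (XT.lf (nat_lit 0) (nat_lit 371201488) (nat_lit 304) (nat_lit 2984433936) (nat_lit 380) (nat_lit 108669322697) (nat_lit 41) (nat_lit 5) (nat_lit 45) (nat_lit 5) (nat_lit 46) (nat_lit 5) (nat_lit 318) (nat_lit 294) (nat_lit 108)))) (XT.nd (nat_lit 156) (nat_lit 456) (nat_lit 0) (XT.nd (nat_lit 78) (nat_lit 0) (nat_lit 0) (XT.lf (nat_lit 0) (nat_lit 17438090974) (nat_lit 380) (nat_lit 63267612818) (nat_lit 76) (nat_lit 34897055366)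 (nat_lit 41) (nat_lit 5) (nat_lit 46) (nat_lit 5) (nat_lit 42) (nat_lit 5) (nat_lit 319) (nat_lit 294) (nat_lit 107)) (XT.lf (nat_lit 0) (nat_lit 32273161109) (nat_lit 380) (nat_lit 12511637145) (nat_lit 76) (nat_lit 74572228479) (nat_lit 41) (nat_lit 5) (nat_lit 46) (nat_lit 5) (nat_lit 42) (nat_lit 5) (nat_lit 320) (nat_lit 294) (nat_lit 106))) (XT.nd (nat_lit 78) (nat_lit 228) (nat_lit 0) (XT.lf (nat_lit 0) (nat_lit 42130037636) (nat_lit 228) (nat_lit 6377302367) (nat_lit 304) (nat_lit 74758800945) (nat_lit 38) (nat_lit 5) (nat_lit 41) (nat_lit 5) (nat_lit 42) (nat_lit 5) (nat_lit 321) (nat_lit 294) (nat_lit 105)) (XT.nd (nat_lit 78) (nat_lit 228) (nat_lit 0) (XT.lf (nat_lit 0) (nat_lit 66298252720) (nat_lit 304) (nat_lit 27956016311) (nat_lit 76) (nat_lit 33079191576) (nat_lit 38) (nat_lit 5) (nat_lit 42) (nat_lit 5) (nat_lit 39) (nat_lit 5) (nat_lit 322) (nat_lit 294) (nat_lit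 104)) (XT.lf (nat_lit 0) (nat_lit 28696486569) (nat_lit 228) (nat_lit 56834419319) (nat_lit 304) (nat_lit 46045631549) (nat_lit 35) (nat_lit 5) (nat_lit 38) (nat_lit 5) (nat_lit 39) (nat_lit 5) (nat_lit 323) (nat_lit 294) (nat_lit 103))))))) (XT.nd (nat_lit 702) (nat_lit 380) (nat_lit 0) (XT.nd (nat_lit 312) (nat_lit 380) (nat_lit 0) (XT.nd (nat_lit 156) (nat_lit 76) (nat_lit 0) (XT.nd (nat_lit 78) (nat_lit 152) (nat_lit 0) (XT.lf (nat_lit 0) (nat_lit 89151683255) (nat_lit 228) (nat_lit 17046583869) (nat_lit 304) (nat_lit 29809848099) (nat_lit 35) (nat_lit 5) (nat_lit 38) (nat_lit 5) (nat_lit 39) (nat_lit 5) (nat_lit 324) (nat_lit 294) (nat_lit 102)) (XT.lf (nat_lit 0) (nat_lit 11964704539) (nat_lit 152) (nat_lit 116506851722) (nat_lit 228) (nat_lit 12161088489) (nat_lit 33) (nat_lit 5) (nat_lit 35) (nat_lit 5) (nat_lit 36) (nat_lit 5) (nat_lit 325) (nat_lit 294) (nat_lit 101))) (XT.nd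 (nat_lit 78) (nat_lit 0) (nat_lit 0) (XT.lf (nat_lit 0) (nat_lit 7251868731) (nat_lit 228) (nat_lit 70487491262) (nat_lit 76) (nat_lit 67689786616) (nat_lit 32) (nat_lit 5) (nat_lit 35) (nat_lit 5) (nat_lit 33) (nat_lit 5) (nat_lit 326) (nat_lit 294) (nat_lit 100)) (XT.lf (nat_lit 0) (nat_lit 27226443941) (nat_lit 228) (nat_lit 9597856705) (nat_lit 76) (nat_lit 113631222416) (nat_lit 32) (nat_lit 5) (nat_lit 35) (nat_lit 5) (nat_lit 33) (nat_lit 5) (nat_lit 327) (nat_lit 294) (nat_lit 99)))) (XT.nd (nat_lit 156) (nat_lit 152) (nat_lit 0) (XT.nd (nat_lit 78) (nat_lit 0) (nat_lit 0) (XT.lf (nat_lit 0) (nat_lit 49185983478) (nat_lit 304) (nat_lit 99667194326) (nat_lit 76) (nat_lit 6830729447) (nat_lit 29) (nat_lit 5) (nat_lit 33) (nat_lit 5) (nat_lit 30) (nat_lit 5) (nat_lit 328) (nat_lit 294) (nat_lit 98)) (XT.lf (nat_lit 0) (nat_lit 73012070888) (nat_lit 304) (nat_lit 36527157299) (nat_lit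 76) (nat_lit 51596054580) (nat_lit 29) (nat_lit 5) (nat_lit 33) (nat_lit 5) (nat_lit 30) (nat_lit 5) (nat_lit 329) (nat_lit 294) (nat_lit 97))) (XT.nd (nat_lit 78) (nat_lit 0) (nat_lit 0) (XT.lf (nat_lit 0) (nat_lit 30753756619) (nat_lit 152) (nat_lit 67755558213) (nat_lit 228) (nat_lit 68325920248) (nat_lit 27) (nat_lit 5) (nat_lit 29) (nat_lit 5) (nat_lit 30) (nat_lit 5) (nat_lit 330) (nat_lit 294) (nat_lit 96)) (XT.nd (nat_lit 78) (nat_lit 0) (nat_lit 0) (XT.lf (nat_lit 0) (nat_lit 102666426474) (nat_lit 152) (nat_lit 23233306995) (nat_lit 228) (nat_lit 46889536513) (nat_lit 27) (nat_lit 5) (nat_lit 29) (nat_lit 5) (nat_lit 30) (nat_lit 5) (nat_lit 331) (nat_lit 294) (nat_lit 95)) (XT.lf (nat_lit 0) (nat_lit 155026528275) (nat_lit 228) (nat_lit 1233834899) (nat_lit 76) (nat_lit 22762301264) (nat_lit 27) (nat_lit 5) (nat_lit 30) (nat_lit 5) (nat_lit 28) (nat_lit 5) (nat_lit 332) (nat_lit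 294) (nat_lit 94)))))) (XT.nd (nat_lit 312) (nat_lit 0) (nat_lit 0) (XT.nd (nat_lit 156) (nat_lit 152) (nat_lit 0) (XT.nd (nat_lit 78) (nat_lit 0) (nat_lit 0) (XT.lf (nat_lit 0) (nat_lit 1586754706) (nat_lit 228) (nat_lit 112460644557) (nat_lit 76) (nat_lit 71442989003) (nat_lit 24) (nat_lit 5) (nat_lit 27) (nat_lit 5) (nat_lit 25) (nat_lit 5) (nat_lit 333) (nat_lit 294) (nat_lit 93)) (XT.lf (nat_lit 0) (nat_lit 27663335181) (nat_lit 228) (nat_lit 41625242965) (nat_lit 76) (nat_lit 122972203040) (nat_lit 24) (nat_lit 5) (nat_lit 27) (nat_lit 5) (nat_lit 25) (nat_lit 5) (nat_lit 334) (nat_lit 294) (nat_lit 92))) (XT.nd (nat_lit 78) (nat_lit 0) (nat_lit 0) (XT.lf (nat_lit 0) (nat_lit 33834457071) (nat_lit 152) (nat_lit 21737285393) (nat_lit 228) (nat_lit 143771551867) (nat_lit 22) (nat_lit 5) (nat_lit 24) (nat_lit 5) (nat_lit 25) (nat_lit 5) (nat_lit 335) (nat_lit 294) (nat_lit 91)) (XT.lf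 (nat_lit 0) (nat_lit 86031970783) (nat_lit 228) (nat_lit 92684505357) (nat_lit 76) (nat_lit 28005637407) (nat_lit 22) (nat_lit 5) (nat_lit 25) (nat_lit 5) (nat_lit 23) (nat_lit 5) (nat_lit 336) (nat_lit 294) (nat_lit 90)))) (XT.nd (nat_lit 34320) (nat_lit 0) (nat_lit 3800) (XT.nd (nat_lit 34242) (nat_lit 0) (nat_lit 3800) (XT.lf (nat_lit 0) (nat_lit 118371322449) (nat_lit 228) (nat_lit 16575677284) (nat_lit 76) (nat_lit 79505068818) (nat_lit 22) (nat_lit 5) (nat_lit 25) (nat_lit 5) (nat_lit 23) (nat_lit 5) (nat_lit 337) (nat_lit 294) (nat_lit 89)) (XT.lf (nat_lit 0) (nat_lit 6964015187) (nat_lit 0) (nat_lit 6964015187) (nat_lit 684) (nat_lit 16115297623) (nat_lit 72) (nat_lit 5) (nat_lit 72) (nat_lit 3) (nat_lit 81) (nat_lit 3) (nat_lit 295) (nat_lit 295) (nat_lit 130))) (XT.nd (nat_lit 78) (nat_lit 0) (nat_lit 0) (XT.lf (nat_lit 0) (nat_lit 28764073300) (nat_lit 684) (nat_lit 20722840943)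 (nat_lit 760) (nat_lit 12091273396) (nat_lit 72) (nat_lit 5) (nat_lit 81) (nat_lit 3) (nat_lit 82) (nat_lit 5) (nat_lit 296) (nat_lit 295) (nat_lit 129)) (XT.nd (nat_lit 78) (nat_lit 0) (nat_lit 76) (XT.lf (nat_lit 76) (nat_lit 5946121773) (nat_lit 0) (nat_lit 24091474987) (nat_lit 760) (nat_lit 33090697061) (nat_lit 73) (nat_lit 5) (nat_lit 72) (nat_lit 5) (nat_lit 82) (nat_lit 5) (nat_lit 297) (nat_lit 295) (nat_lit 128)) (XT.lf (nat_lit 0) (nat_lit 31770678242) (nat_lit 684) (nat_lit 30116958257) (nat_lit 760) (nat_lit 2848478024) (nat_lit 73) (nat_lit 5) (nat_lit 82) (nat_lit 5) (nat_lit 83) (nat_lit 5) (nat_lit 298) (nat_lit 295) (nat_lit 127))))))))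
noncomputable def xc242 : XT := (XT.nd (nat_lit 1326) (nat_lit 1672) (nat_lit 0) (XT.nd (nat_lit 624) (nat_lit 1368) (nat_lit 0) (XT.nd (nat_lit 312) (nat_lit 456) (nat_lit 0) (XT.nd (nat_lit 156) (nat_lit 0) (nat_lit 76) (XT.nd (nat_lit 78) (nat_lit 0) (nat_lit 0) (XT.lf (nat_lit 0) (nat_lit 33984397890) (nat_lit 684) (nat_lit 2094042032) (nat_lit 760) (nat_lit 30326190282) (nat_lit 73) (nat_lit 5) (nat_lit 82) (nat_lit 5) (nat_lit 83) (nat_lit 5) (nat_lit 299) (nat_lit 295) (nat_lit 126)) (XT.lf (nat_lit 76) (nat_lit 28233067783) (nat_lit 0) (nat_lit 8515620552) (nat_lit 760) (nat_lit 31385892091) (nat_lit 74) (nat_lit 5) (nat_lit 73) (nat_lit 5) (nat_lit 83) (nat_lit 5) (nat_lit 300) (nat_lit 295) (nat_lit 125))) (XT.nd (nat_lit 78) (nat_lit 0) (nat_lit 0) (XT.lf (nat_lit 0) (nat_lit 40005261725) (nat_lit 684) (nat_lit 10120128342) (nat_lit 760) (nat_lit 19807937524) (nat_lit 74)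 (nat_lit 5) (nat_lit 83) (nat_lit 5) (nat_lit 84) (nat_lit 5) (nat_lit 301) (nat_lit 295) (nat_lit 124)) (XT.lf (nat_lit 76) (nat_lit 21704815727) (nat_lit 0) (nat_lit 22197489623) (nat_lit 760) (nat_lit 27895827405) (nat_lit 75) (nat_lit 5) (nat_lit 74) (nat_lit 5) (nat_lit 84) (nat_lit 5) (nat_lit 302) (nat_lit 295) (nat_lit 123)))) (XT.nd (nat_lit 156) (nat_lit 608) (nat_lit 0) (XT.nd (nat_lit 78) (nat_lit 0) (nat_lit 0) (XT.lf (nat_lit 0) (nat_lit 48278871454) (nat_lit 684) (nat_lit 18389967856) (nat_lit 760) (nat_lit 7073107942) (nat_lit 75) (nat_lit 5) (nat_lit 84) (nat_lit 5) (nat_lit 85) (nat_lit 5) (nat_lit 303) (nat_lit 295) (nat_lit 122)) (XT.lf (nat_lit 76) (nat_lit 15014612022) (nat_lit 0) (nat_lit 38457207240) (nat_lit 760) (nat_lit 22281258008) (nat_lit 76) (nat_lit 5) (nat_lit 75) (nat_lit 5) (nat_lit 85) (nat_lit 5) (nat_lit 304) (nat_lit 295) (nat_lit 121))) (XT.nd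 (nat_lit 78) (nat_lit 608) (nat_lit 0) (XT.lf (nat_lit 76) (nat_lit 50727283975) (nat_lit 0) (nat_lit 8507840347) (nat_lit 760) (nat_lit 18614106321) (nat_lit 76) (nat_lit 5) (nat_lit 75) (nat_lit 5) (nat_lit 85) (nat_lit 5) (nat_lit 305) (nat_lit 295) (nat_lit 120)) (XT.lf (nat_lit 0) (nat_lit 8075103647) (nat_lit 684) (nat_lit 57695011806) (nat_lit 760) (nat_lit 14255902429) (nat_lit 67) (nat_lit 5) (nat_lit 76) (nat_lit 5) (nat_lit 77) (nat_lit 5) (nat_lit 306) (nat_lit 295) (nat_lit 119))))) (XT.nd (nat_lit 312) (nat_lit 988) (nat_lit 0) (XT.nd (nat_lit 156) (nat_lit 76) (nat_lit 0) (XT.nd (nat_lit 78) (nat_lit 304) (nat_lit 0) (XT.lf (nat_lit 0) (nat_lit 45828938664) (nat_lit 684) (nat_lit 27398791663) (nat_lit 760) (nat_lit 9054122577) (nat_lit 67) (nat_lit 5) (nat_lit 76) (nat_lit 5) (nat_lit 77) (nat_lit 5) (nat_lit 307) (nat_lit 295) (nat_lit 118)) (XT.lf (nat_lit 0) (nat_lit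 775310140) (nat_lit 304) (nat_lit 80363268806) (nat_lit 380) (nat_lit 3507885108) (nat_lit 63) (nat_lit 5) (nat_lit 67) (nat_lit 5) (nat_lit 68) (nat_lit 5) (nat_lit 308) (nat_lit 295) (nat_lit 117))) (XT.nd (nat_lit 78) (nat_lit 0) (nat_lit 0) (XT.lf (nat_lit 0) (nat_lit 3317547218) (nat_lit 380) (nat_lit 46463980650) (nat_lit 76) (nat_lit 37292172099) (nat_lit 62) (nat_lit 5) (nat_lit 67) (nat_lit 5) (nat_lit 63) (nat_lit 5) (nat_lit 309) (nat_lit 295) (nat_lit 116)) (XT.lf (nat_lit 0) (nat_lit 10365763208) (nat_lit 380) (nat_lit 7244541610) (nat_lit 76) (nat_lit 72009149295) (nat_lit 62) (nat_lit 5) (nat_lit 67) (nat_lit 5) (nat_lit 63) (nat_lit 5) (nat_lit 310) (nat_lit 295) (nat_lit 115)))) (XT.nd (nat_lit 156) (nat_lit 608) (nat_lit 0) (XT.nd (nat_lit 78) (nat_lit 0) (nat_lit 0) (XT.lf (nat_lit 0) (nat_lit 18574586215) (nat_lit 456) (nat_lit 57469217589) (nat_lit 76) (nat_lit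 16208284021) (nat_lit 57) (nat_lit 5) (nat_lit 63) (nat_lit 5) (nat_lit 58) (nat_lit 5) (nat_lit 311) (nat_lit 295) (nat_lit 114)) (XT.lf (nat_lit 0) (nat_lit 27606692260) (nat_lit 456) (nat_lit 16138335671) (nat_lit 76) (nat_lit 51250684786) (nat_lit 57) (nat_lit 5) (nat_lit 63) (nat_lit 5) (nat_lit 58) (nat_lit 5) (nat_lit 312) (nat_lit 295) (nat_lit 113))) (XT.nd (nat_lit 78) (nat_lit 304) (nat_lit 0) (XT.lf (nat_lit 0) (nat_lit 28159829401) (nat_lit 304) (nat_lit 9369701622) (nat_lit 380) (nat_lit 60325032973) (nat_lit 53) (nat_lit 5) (nat_lit 57) (nat_lit 5) (nat_lit 58) (nat_lit 5) (nat_lit 313) (nat_lit 295) (nat_lit 112)) (XT.nd (nat_lit 78) (nat_lit 304) (nat_lit 0) (XT.lf (nat_lit 0) (nat_lit 48643035040) (nat_lit 380) (nat_lit 26031795028) (nat_lit 76) (nat_lit 26146803047) (nat_lit 53) (nat_lit 5) (nat_lit 58) (nat_lit 5) (nat_lit 54) (nat_lit 5) (nat_lit 314) (nat_lit 295)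 (nat_lit 111)) (XT.lf (nat_lit 0) (nat_lit 20310201347) (nat_lit 304) (nat_lit 40472227693) (nat_lit 380) (nat_lit 43131117286) (nat_lit 49) (nat_lit 5) (nat_lit 53) (nat_lit 5) (nat_lit 54) (nat_lit 5) (nat_lit 315) (nat_lit 295) (nat_lit 110))))))) (XT.nd (nat_lit 702) (nat_lit 608) (nat_lit 0) (XT.nd (nat_lit 312) (nat_lit 456) (nat_lit 0) (XT.nd (nat_lit 156) (nat_lit 380) (nat_lit 0) (XT.nd (nat_lit 78) (nat_lit 228) (nat_lit 0) (XT.lf (nat_lit 0) (nat_lit 69872529635) (nat_lit 304) (nat_lit 4096652926) (nat_lit 380) (nat_lit 33168854451) (nat_lit 49) (nat_lit 5) (nat_lit 53) (nat_lit 5) (nat_lit 54) (nat_lit 5) (nat_lit 316) (nat_lit 295) (nat_lit 109)) (XT.lf (nat_lit 0) (nat_lit 11215290340) (nat_lit 228) (nat_lit 77306996494) (nat_lit 304) (nat_lit 21966115991) (nat_lit 46) (nat_lit 5) (nat_lit 49) (nat_lit 5) (nat_lit 50) (nat_lit 5) (nat_lit 317) (nat_lit 295) (nat_lit 108)))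 (XT.nd (nat_lit 78) (nat_lit 380) (nat_lit 0) (XT.lf (nat_lit 0) (nat_lit 63344001539) (nat_lit 228) (nat_lit 41155792791) (nat_lit 304) (nat_lit 9471656384) (nat_lit 46) (nat_lit 5) (nat_lit 49) (nat_lit 5) (nat_lit 50) (nat_lit 5) (nat_lit 318) (nat_lit 295) (nat_lit 107)) (XT.lf (nat_lit 0) (nat_lit 406032669) (nat_lit 304) (nat_lit 3130665661) (nat_lit 380) (nat_lit 114088810551) (nat_lit 41) (nat_lit 5) (nat_lit 45) (nat_lit 5) (nat_lit 46) (nat_lit 5) (nat_lit 319) (nat_lit 295) (nat_lit 106)))) (XT.nd (nat_lit 156) (nat_lit 456) (nat_lit 0) (XT.nd (nat_lit 78) (nat_lit 0) (nat_lit 0) (XT.lf (nat_lit 0) (nat_lit 18322688682) (nat_lit 380) (nat_lit 66414877678) (nat_lit 76) (nat_lit 36644664586) (nat_lit 41) (nat_lit 5) (nat_lit 46) (nat_lit 5) (nat_lit 42) (nat_lit 5) (nat_lit 320) (nat_lit 295) (nat_lit 105)) (XT.lf (nat_lit 0) (nat_lit 33898907887) (nat_lit 380) (nat_lit 13121870639)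 (nat_lit 76) (nat_lit 78303465095) (nat_lit 41) (nat_lit 5) (nat_lit 46) (nat_lit 5) (nat_lit 42) (nat_lit 5) (nat_lit 321) (nat_lit 295) (nat_lit 104))) (XT.nd (nat_lit 78) (nat_lit 228) (nat_lit 0) (XT.lf (nat_lit 0) (nat_lit 44251640328) (nat_lit 228) (nat_lit 6692815511) (nat_lit 304) (nat_lit 78484376132) (nat_lit 38) (nat_lit 5) (nat_lit 41) (nat_lit 5) (nat_lit 42) (nat_lit 5) (nat_lit 322) (nat_lit 295) (nat_lit 103)) (XT.nd (nat_lit 78) (nat_lit 228) (nat_lit 0) (XT.lf (nat_lit 0) (nat_lit 69624404565) (nat_lit 304) (nat_lit 29338898554) (nat_lit 76) (nat_lit 34736241335) (nat_lit 38) (nat_lit 5) (nat_lit 42) (nat_lit 5) (nat_lit 39) (nat_lit 5) (nat_lit 323) (nat_lit 295) (nat_lit 102)) (XT.lf (nat_lit 0) (nat_lit 30145988848) (nat_lit 228) (nat_lit 59672395507) (nat_lit 304) (nat_lit 48336407369) (nat_lit 35) (nat_lit 5) (nat_lit 38) (nat_lit 5) (nat_lit 39) (nat_lit 5) (nat_lit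 324) (nat_lit 295) (nat_lit 101)))))) (XT.nd (nat_lit 312) (nat_lit 380) (nat_lit 0) (XT.nd (nat_lit 156) (nat_lit 76) (nat_lit 0) (XT.nd (nat_lit 78) (nat_lit 152) (nat_lit 0) (XT.lf (nat_lit 0) (nat_lit 93623246419) (nat_lit 228) (nat_lit 17895346607) (nat_lit 304) (nat_lit 31289382640) (nat_lit 35) (nat_lit 5) (nat_lit 38) (nat_lit 5) (nat_lit 39) (nat_lit 5) (nat_lit 325) (nat_lit 295) (nat_lit 100)) (XT.lf (nat_lit 0) (nat_lit 12577175038) (nat_lit 152) (nat_lit 122328151028) (nat_lit 228) (nat_lit 12758417805) (nat_lit 33) (nat_lit 5) (nat_lit 35) (nat_lit 5) (nat_lit 36) (nat_lit 5) (nat_lit 326) (nat_lit 295) (nat_lit 99))) (XT.nd (nat_lit 78) (nat_lit 0) (nat_lit 0) (XT.lf (nat_lit 0) (nat_lit 7624349632) (nat_lit 228) (nat_lit 73997960169) (nat_lit 76) (nat_lit 71077778435) (nat_lit 32) (nat_lit 5) (nat_lit 35) (nat_lit 5) (nat_lit 33) (nat_lit 5) (nat_lit 327) (nat_lit 295)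 (nat_lit 98)) (XT.lf (nat_lit 0) (nat_lit 28597182771) (nat_lit 228) (nat_lit 10064506058) (nat_lit 76) (nat_lit 119316119240) (nat_lit 32) (nat_lit 5) (nat_lit 35) (nat_lit 5) (nat_lit 33) (nat_lit 5) (nat_lit 328) (nat_lit 295) (nat_lit 97)))) (XT.nd (nat_lit 156) (nat_lit 152) (nat_lit 0) (XT.nd (nat_lit 78) (nat_lit 0) (nat_lit 0) (XT.lf (nat_lit 0) (nat_lit 51654514545) (nat_lit 304) (nat_lit 104637106474) (nat_lit 76) (nat_lit 7176000655) (nat_lit 29) (nat_lit 5) (nat_lit 33) (nat_lit 5) (nat_lit 30) (nat_lit 5) (nat_lit 329) (nat_lit 295) (nat_lit 96)) (XT.lf (nat_lit 0) (nat_lit 76671466711) (nat_lit 304) (nat_lit 38340707955) (nat_lit 76) (nat_lit 54179414200) (nat_lit 29) (nat_lit 5) (nat_lit 33) (nat_lit 5) (nat_lit 30) (nat_lit 5) (nat_lit 330) (nat_lit 295) (nat_lit 95))) (XT.nd (nat_lit 78) (nat_lit 0) (nat_lit 0) (XT.lf (nat_lit 0) (nat_lit 32304045090) (nat_lit 152)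 (nat_lit 71139305813) (nat_lit 228) (nat_lit 71733199866) (nat_lit 27) (nat_lit 5) (nat_lit 29) (nat_lit 5) (nat_lit 30) (nat_lit 5) (nat_lit 331) (nat_lit 295) (nat_lit 94)) (XT.nd (nat_lit 78) (nat_lit 0) (nat_lit 0) (XT.lf (nat_lit 0) (nat_lit 107811748408) (nat_lit 152) (nat_lit 24391133954) (nat_lit 228) (nat_lit 49225426297) (nat_lit 27) (nat_lit 5) (nat_lit 29) (nat_lit 5) (nat_lit 30) (nat_lit 5) (nat_lit 332) (nat_lit 295) (nat_lit 93)) (XT.lf (nat_lit 0) (nat_lit 162785685305) (nat_lit 228) (nat_lit 1283749973) (nat_lit 76) (nat_lit 23903954936) (nat_lit 27) (nat_lit 5) (nat_lit 30) (nat_lit 5) (nat_lit 28) (nat_lit 5) (nat_lit 333) (nat_lit 295) (nat_lit 92))))))))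
noncomputable def xc243 : XT := (XT.nd (nat_lit 35646) (nat_lit 0) (nat_lit 836) (XT.nd (nat_lit 34944) (nat_lit 0) (nat_lit 3116) (XT.nd (nat_lit 34632) (nat_lit 0) (nat_lit 3800) (XT.nd (nat_lit 156) (nat_lit 152) (nat_lit 0) (XT.nd (nat_lit 78) (nat_lit 0) (nat_lit 0) (XT.lf (nat_lit 0) (nat_lit 1673870970) (nat_lit 228) (nat_lit 118071818429) (nat_lit 76) (nat_lit 75018814918) (nat_lit 24) (nat_lit 5) (nat_lit 27) (nat_lit 5) (nat_lit 25) (nat_lit 5) (nat_lit 334) (nat_lit 295) (nat_lit 91)) (XT.lf (nat_lit 0) (nat_lit 29053910061) (nat_lit 228) (nat_lit 43695211441) (nat_lit 76) (nat_lit 129124314587) (nat_lit 24) (nat_lit 5) (nat_lit 27) (nat_lit 5) (nat_lit 25) (nat_lit 5) (nat_lit 335) (nat_lit 295) (nat_lit 90))) (XT.nd (nat_lit 34398) (nat_lit 0) (nat_lit 3800) (XT.lf (nat_lit 0) (nat_lit 35537291440) (nat_lit 152) (nat_lit 22820266982) (nat_lit 228) (nat_lit 150952526088)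 (nat_lit 22) (nat_lit 5) (nat_lit 24) (nat_lit 5) (nat_lit 25) (nat_lit 5) (nat_lit 336) (nat_lit 295) (nat_lit 89)) (XT.lf (nat_lit 0) (nat_lit 7320381681) (nat_lit 0) (nat_lit 7320381681) (nat_lit 684) (nat_lit 16903861104) (nat_lit 72) (nat_lit 5) (nat_lit 72) (nat_lit 3) (nat_lit 81) (nat_lit 3) (nat_lit 296) (nat_lit 296) (nat_lit 128)))) (XT.nd (nat_lit 156) (nat_lit 0) (nat_lit 76) (XT.nd (nat_lit 78) (nat_lit 0) (nat_lit 0) (XT.lf (nat_lit 0) (nat_lit 30233141686) (nat_lit 684) (nat_lit 21741529360) (nat_lit 760) (nat_lit 12680781105) (nat_lit 72) (nat_lit 5) (nat_lit 81) (nat_lit 3) (nat_lit 82) (nat_lit 5) (nat_lit 297) (nat_lit 296) (nat_lit 127)) (XT.lf (nat_lit 76) (nat_lit 6260599982) (nat_lit 0) (nat_lit 25308539694) (nat_lit 760) (nat_lit 34713988888) (nat_lit 73) (nat_lit 5) (nat_lit 72) (nat_lit 5) (nat_lit 82) (nat_lit 5) (nat_lit 298) (nat_lit 296) (nat_lit 126)))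 (XT.nd (nat_lit 78) (nat_lit 0) (nat_lit 0) (XT.lf (nat_lit 0) (nat_lit 33387276972) (nat_lit 684) (nat_lit 31604761325) (nat_lit 760) (nat_lit 2979386527) (nat_lit 73) (nat_lit 5) (nat_lit 82) (nat_lit 5) (nat_lit 83) (nat_lit 5) (nat_lit 299) (nat_lit 296) (nat_lit 125)) (XT.lf (nat_lit 0) (nat_lit 35710346182) (nat_lit 684) (nat_lit 2181558567) (nat_lit 760) (nat_lit 31831532750) (nat_lit 73) (nat_lit 5) (nat_lit 82) (nat_lit 5) (nat_lit 83) (nat_lit 5) (nat_lit 300) (nat_lit 296) (nat_lit 124))))) (XT.nd (nat_lit 312) (nat_lit 760) (nat_lit 0) (XT.nd (nat_lit 156) (nat_lit 0) (nat_lit 76) (XT.nd (nat_lit 78) (nat_lit 0) (nat_lit 76) (XT.lf (nat_lit 76) (nat_lit 29661629553) (nat_lit 0) (nat_lit 8950212803) (nat_lit 760) (nat_lit 32928097496) (nat_lit 74) (nat_lit 5) (nat_lit 73) (nat_lit 5) (nat_lit 83) (nat_lit 5) (nat_lit 301) (nat_lit 296) (nat_lit 123)) (XT.lf (nat_lit 0) (nat_lit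 42029888655) (nat_lit 684) (nat_lit 10608596146) (nat_lit 760) (nat_lit 20790211344) (nat_lit 74) (nat_lit 5) (nat_lit 83) (nat_lit 5) (nat_lit 84) (nat_lit 5) (nat_lit 302) (nat_lit 296) (nat_lit 122))) (XT.nd (nat_lit 78) (nat_lit 0) (nat_lit 76) (XT.lf (nat_lit 76) (nat_lit 22807312246) (nat_lit 0) (nat_lit 23313581443) (nat_lit 760) (nat_lit 29265896209) (nat_lit 75) (nat_lit 5) (nat_lit 74) (nat_lit 5) (nat_lit 84) (nat_lit 5) (nat_lit 303) (nat_lit 296) (nat_lit 121)) (XT.lf (nat_lit 0) (nat_lit 50715077885) (nat_lit 684) (nat_lit 19291749775) (nat_lit 760) (nat_lit 7421031582) (nat_lit 75) (nat_lit 5) (nat_lit 84) (nat_lit 5) (nat_lit 85) (nat_lit 5) (nat_lit 304) (nat_lit 296) (nat_lit 120)))) (XT.nd (nat_lit 156) (nat_lit 912) (nat_lit 0) (XT.nd (nat_lit 78) (nat_lit 0) (nat_lit 0) (XT.lf (nat_lit 76) (nat_lit 15782773347) (nat_lit 0) (nat_lit 40384111743) (nat_lit 760) (nat_lit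 23372703510) (nat_lit 76) (nat_lit 5) (nat_lit 75) (nat_lit 5) (nat_lit 85) (nat_lit 5) (nat_lit 305) (nat_lit 296) (nat_lit 119)) (XT.lf (nat_lit 76) (nat_lit 53280248864) (nat_lit 0) (nat_lit 8937083927) (nat_lit 760) (nat_lit 19523271258) (nat_lit 76) (nat_lit 5) (nat_lit 75) (nat_lit 5) (nat_lit 85) (nat_lit 5) (nat_lit 306) (nat_lit 296) (nat_lit 118))) (XT.nd (nat_lit 78) (nat_lit 304) (nat_lit 0) (XT.lf (nat_lit 0) (nat_lit 8496321507) (nat_lit 684) (nat_lit 60581993425) (nat_lit 760) (nat_lit 14947956764) (nat_lit 67) (nat_lit 5) (nat_lit 76) (nat_lit 5) (nat_lit 77) (nat_lit 5) (nat_lit 307) (nat_lit 296) (nat_lit 117)) (XT.nd (nat_lit 78) (nat_lit 304) (nat_lit 0) (XT.lf (nat_lit 0) (nat_lit 48137016718) (nat_lit 684) (nat_lit 28770856036) (nat_lit 760) (nat_lit 9487075575) (nat_lit 67) (nat_lit 5) (nat_lit 76) (nat_lit 5) (nat_lit 77) (nat_lit 5) (nat_lit 308) (nat_lit 296)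 (nat_lit 116)) (XT.lf (nat_lit 0) (nat_lit 831452299) (nat_lit 304) (nat_lit 84382158071) (nat_lit 380) (nat_lit 3664215170) (nat_lit 63) (nat_lit 5) (nat_lit 67) (nat_lit 5) (nat_lit 68) (nat_lit 5) (nat_lit 309) (nat_lit 296) (nat_lit 115))))))) (XT.nd (nat_lit 702) (nat_lit 988) (nat_lit 0) (XT.nd (nat_lit 312) (nat_lit 836) (nat_lit 0) (XT.nd (nat_lit 156) (nat_lit 380) (nat_lit 0) (XT.nd (nat_lit 78) (nat_lit 0) (nat_lit 0) (XT.lf (nat_lit 0) (nat_lit 3500999837) (nat_lit 380) (nat_lit 48769998041) (nat_lit 76) (nat_lit 39155456992) (nat_lit 62) (nat_lit 5) (nat_lit 67) (nat_lit 5) (nat_lit 63) (nat_lit 5) (nat_lit 310) (nat_lit 296) (nat_lit 114)) (XT.lf (nat_lit 0) (nat_lit 10900789709) (nat_lit 380) (nat_lit 7590405222) (nat_lit 76) (nat_lit 75608346082) (nat_lit 62) (nat_lit 5) (nat_lit 67) (nat_lit 5) (nat_lit 63) (nat_lit 5) (nat_lit 311) (nat_lit 296) (nat_lit 113))) (XT.nd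 (nat_lit 78) (nat_lit 0) (nat_lit 0) (XT.lf (nat_lit 0) (nat_lit 19519506708) (nat_lit 456) (nat_lit 60325721282) (nat_lit 76) (nat_lit 17018608107) (nat_lit 57) (nat_lit 5) (nat_lit 63) (nat_lit 5) (nat_lit 58) (nat_lit 5) (nat_lit 312) (nat_lit 296) (nat_lit 112)) (XT.lf (nat_lit 0) (nat_lit 29002447047) (nat_lit 456) (nat_lit 16929102752) (nat_lit 76) (nat_lit 53813133201) (nat_lit 57) (nat_lit 5) (nat_lit 63) (nat_lit 5) (nat_lit 58) (nat_lit 5) (nat_lit 313) (nat_lit 296) (nat_lit 111)))) (XT.nd (nat_lit 156) (nat_lit 532) (nat_lit 0) (XT.nd (nat_lit 78) (nat_lit 0) (nat_lit 0) (XT.lf (nat_lit 0) (nat_lit 29583710094) (nat_lit 304) (nat_lit 9837231436) (nat_lit 380) (nat_lit 63325561737) (nat_lit 53) (nat_lit 5) (nat_lit 57) (nat_lit 5) (nat_lit 58) (nat_lit 5) (nat_lit 314) (nat_lit 296) (nat_lit 110)) (XT.lf (nat_lit 0) (nat_lit 51089423811) (nat_lit 380) (nat_lit 27317515030)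 (nat_lit 76) (nat_lit 27455023859) (nat_lit 53) (nat_lit 5) (nat_lit 58) (nat_lit 5) (nat_lit 54) (nat_lit 5) (nat_lit 315) (nat_lit 296) (nat_lit 109))) (XT.nd (nat_lit 78) (nat_lit 228) (nat_lit 0) (XT.lf (nat_lit 0) (nat_lit 21341325200) (nat_lit 304) (nat_lit 42494028132) (nat_lit 380) (nat_lit 45273141863) (nat_lit 49) (nat_lit 5) (nat_lit 53) (nat_lit 5) (nat_lit 54) (nat_lit 5) (nat_lit 316) (nat_lit 296) (nat_lit 108)) (XT.nd (nat_lit 78) (nat_lit 228) (nat_lit 0) (XT.lf (nat_lit 0) (nat_lit 73381026389) (nat_lit 304) (nat_lit 4299760862) (nat_lit 380) (nat_lit 34813457852) (nat_lit 49) (nat_lit 5) (nat_lit 53) (nat_lit 5) (nat_lit 54) (nat_lit 5) (nat_lit 317) (nat_lit 296) (nat_lit 107)) (XT.lf (nat_lit 0) (nat_lit 11791341363) (nat_lit 228) (nat_lit 81169843706) (nat_lit 304) (nat_lit 23050963959) (nat_lit 46) (nat_lit 5) (nat_lit 49) (nat_lit 5) (nat_lit 50) (nat_lit 5)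 (nat_lit 318) (nat_lit 296) (nat_lit 106)))))) (XT.nd (nat_lit 312) (nat_lit 608) (nat_lit 0) (XT.nd (nat_lit 156) (nat_lit 0) (nat_lit 0) (XT.nd (nat_lit 78) (nat_lit 380) (nat_lit 0) (XT.lf (nat_lit 0) (nat_lit 66525760193) (nat_lit 228) (nat_lit 43211198990) (nat_lit 304) (nat_lit 9932422221) (nat_lit 46) (nat_lit 5) (nat_lit 49) (nat_lit 5) (nat_lit 50) (nat_lit 5) (nat_lit 319) (nat_lit 296) (nat_lit 105)) (XT.lf (nat_lit 0) (nat_lit 441092676) (nat_lit 304) (nat_lit 3284486951) (nat_lit 380) (nat_lit 119780572366) (nat_lit 41) (nat_lit 5) (nat_lit 45) (nat_lit 5) (nat_lit 46) (nat_lit 5) (nat_lit 320) (nat_lit 296) (nat_lit 104))) (XT.nd (nat_lit 78) (nat_lit 0) (nat_lit 0) (XT.lf (nat_lit 0) (nat_lit 19250336185) (nat_lit 380) (nat_lit 69721004072) (nat_lit 76) (nat_lit 38479397998) (nat_lit 41) (nat_lit 5) (nat_lit 46) (nat_lit 5) (nat_lit 42) (nat_lit 5) (nat_lit 321) (nat_lit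 296) (nat_lit 103)) (XT.lf (nat_lit 0) (nat_lit 35604818110) (nat_lit 380) (nat_lit 13764042752) (nat_lit 76) (nat_lit 82221019476) (nat_lit 41) (nat_lit 5) (nat_lit 46) (nat_lit 5) (nat_lit 42) (nat_lit 5) (nat_lit 322) (nat_lit 296) (nat_lit 102)))) (XT.nd (nat_lit 156) (nat_lit 380) (nat_lit 0) (XT.nd (nat_lit 78) (nat_lit 0) (nat_lit 0) (XT.lf (nat_lit 0) (nat_lit 46477919223) (nat_lit 228) (nat_lit 7024415948) (nat_lit 304) (nat_lit 82397379645) (nat_lit 38) (nat_lit 5) (nat_lit 41) (nat_lit 5) (nat_lit 42) (nat_lit 5) (nat_lit 323) (nat_lit 296) (nat_lit 101)) (XT.lf (nat_lit 0) (nat_lit 73115819087) (nat_lit 304) (nat_lit 30792311897) (nat_lit 76) (nat_lit 36475856288) (nat_lit 38) (nat_lit 5) (nat_lit 42) (nat_lit 5) (nat_lit 39) (nat_lit 5) (nat_lit 324) (nat_lit 296) (nat_lit 100))) (XT.nd (nat_lit 78) (nat_lit 152) (nat_lit 0) (XT.lf (nat_lit 0) (nat_lit 31666601624) (nat_lit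 228) (nat_lit 62652618657) (nat_lit 304) (nat_lit 50742791677) (nat_lit 35) (nat_lit 5) (nat_lit 38) (nat_lit 5) (nat_lit 39) (nat_lit 5) (nat_lit 325) (nat_lit 296) (nat_lit 99)) (XT.nd (nat_lit 78) (nat_lit 152) (nat_lit 0) (XT.lf (nat_lit 0) (nat_lit 98317088105) (nat_lit 228) (nat_lit 18786879057) (nat_lit 304) (nat_lit 32843912666) (nat_lit 35) (nat_lit 5) (nat_lit 38) (nat_lit 5) (nat_lit 39) (nat_lit 5) (nat_lit 326) (nat_lit 296) (nat_lit 98)) (XT.lf (nat_lit 0) (nat_lit 13218945601) (nat_lit 152) (nat_lit 128440891206) (nat_lit 228) (nat_lit 13386610706) (nat_lit 33) (nat_lit 5) (nat_lit 35) (nat_lit 5) (nat_lit 36) (nat_lit 5) (nat_lit 327) (nat_lit 296) (nat_lit 97))))))))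
noncomputable def xc244 : XT := (XT.nd (nat_lit 35802) (nat_lit 0) (nat_lit 1292) (XT.nd (nat_lit 35100) (nat_lit 0) (nat_lit 3648) (XT.nd (nat_lit 312) (nat_lit 380) (nat_lit 0) (XT.nd (nat_lit 156) (nat_lit 228) (nat_lit 0) (XT.nd (nat_lit 78) (nat_lit 0) (nat_lit 0) (XT.lf (nat_lit 0) (nat_lit 8014535336) (nat_lit 228) (nat_lit 77685245338) (nat_lit 76) (nat_lit 74634844217) (nat_lit 32) (nat_lit 5) (nat_lit 35) (nat_lit 5) (nat_lit 33) (nat_lit 5) (nat_lit 328) (nat_lit 296) (nat_lit 96)) (XT.lf (nat_lit 0) (nat_lit 30035583073) (nat_lit 228) (nat_lit 10555719133) (nat_lit 76) (nat_lit 125284950783) (nat_lit 32) (nat_lit 5) (nat_lit 35) (nat_lit 5) (nat_lit 33) (nat_lit 5) (nat_lit 329) (nat_lit 296) (nat_lit 95))) (XT.nd (nat_lit 78) (nat_lit 0) (nat_lit 0) (XT.lf (nat_lit 0) (nat_lit 54245613871) (nat_lit 304) (nat_lit 109856764456) (nat_lit 76) (nat_lit 7538188203) (nat_lit 29)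 (nat_lit 5) (nat_lit 33) (nat_lit 5) (nat_lit 30) (nat_lit 5) (nat_lit 330) (nat_lit 296) (nat_lit 94)) (XT.lf (nat_lit 0) (nat_lit 80513014903) (nat_lit 304) (nat_lit 40246126837) (nat_lit 76) (nat_lit 56891611115) (nat_lit 29) (nat_lit 5) (nat_lit 33) (nat_lit 5) (nat_lit 30) (nat_lit 5) (nat_lit 331) (nat_lit 296) (nat_lit 93)))) (XT.nd (nat_lit 156) (nat_lit 228) (nat_lit 0) (XT.nd (nat_lit 78) (nat_lit 0) (nat_lit 0) (XT.lf (nat_lit 0) (nat_lit 33930676498) (nat_lit 152) (nat_lit 74692615493) (nat_lit 228) (nat_lit 75311681724) (nat_lit 27) (nat_lit 5) (nat_lit 29) (nat_lit 5) (nat_lit 30) (nat_lit 5) (nat_lit 332) (nat_lit 296) (nat_lit 92)) (XT.lf (nat_lit 0) (nat_lit 113213220735) (nat_lit 152) (nat_lit 25607209118) (nat_lit 228) (nat_lit 51678908911) (nat_lit 27) (nat_lit 5) (nat_lit 29) (nat_lit 5) (nat_lit 30) (nat_lit 5) (nat_lit 333) (nat_lit 296) (nat_lit 91))) (XT.nd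 (nat_lit 78) (nat_lit 228) (nat_lit 0) (XT.lf (nat_lit 0) (nat_lit 170932072170) (nat_lit 228) (nat_lit 1337255683) (nat_lit 76) (nat_lit 25102362304) (nat_lit 27) (nat_lit 5) (nat_lit 30) (nat_lit 5) (nat_lit 28) (nat_lit 5) (nat_lit 334) (nat_lit 296) (nat_lit 90)) (XT.lf (nat_lit 0) (nat_lit 1764619872) (nat_lit 228) (nat_lit 123964653473) (nat_lit 76) (nat_lit 78773090326) (nat_lit 24) (nat_lit 5) (nat_lit 27) (nat_lit 5) (nat_lit 25) (nat_lit 5) (nat_lit 335) (nat_lit 296) (nat_lit 89))))) (XT.nd (nat_lit 312) (nat_lit 0) (nat_lit 76) (XT.nd (nat_lit 156) (nat_lit 0) (nat_lit 0) (XT.nd (nat_lit 78) (nat_lit 0) (nat_lit 0) (XT.lf (nat_lit 0) (nat_lit 7693807326) (nat_lit 0) (nat_lit 7693807326) (nat_lit 684) (nat_lit 17733451982) (nat_lit 72) (nat_lit 5) (nat_lit 72) (nat_lit 3) (nat_lit 81) (nat_lit 3) (nat_lit 297) (nat_lit 297) (nat_lit 126)) (XT.lf (nat_lit 0) (nat_lit 31772793982)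 (nat_lit 684) (nat_lit 22812774871) (nat_lit 760) (nat_lit 13301163959) (nat_lit 72) (nat_lit 5) (nat_lit 81) (nat_lit 3) (nat_lit 82) (nat_lit 5) (nat_lit 298) (nat_lit 297) (nat_lit 125))) (XT.nd (nat_lit 78) (nat_lit 0) (nat_lit 76) (XT.lf (nat_lit 76) (nat_lit 6589205600) (nat_lit 0) (nat_lit 26585296345) (nat_lit 760) (nat_lit 36421349987) (nat_lit 73) (nat_lit 5) (nat_lit 72) (nat_lit 5) (nat_lit 82) (nat_lit 5) (nat_lit 299) (nat_lit 297) (nat_lit 124)) (XT.lf (nat_lit 0) (nat_lit 35082096437) (nat_lit 684) (nat_lit 33168632184) (nat_lit 760) (nat_lit 3117911048) (nat_lit 73) (nat_lit 5) (nat_lit 82) (nat_lit 5) (nat_lit 83) (nat_lit 5) (nat_lit 300) (nat_lit 297) (nat_lit 123)))) (XT.nd (nat_lit 156) (nat_lit 0) (nat_lit 76) (XT.nd (nat_lit 78) (nat_lit 0) (nat_lit 0) (XT.lf (nat_lit 0) (nat_lit 37520106936) (nat_lit 684) (nat_lit 2275048679) (nat_lit 760) (nat_lit 33413161953)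 (nat_lit 73) (nat_lit 5) (nat_lit 82) (nat_lit 5) (nat_lit 83) (nat_lit 5) (nat_lit 301) (nat_lit 297) (nat_lit 122)) (XT.lf (nat_lit 76) (nat_lit 31160047430) (nat_lit 0) (nat_lit 9405715482) (nat_lit 760) (nat_lit 34549931669) (nat_lit 74) (nat_lit 5) (nat_lit 73) (nat_lit 5) (nat_lit 83) (nat_lit 5) (nat_lit 302) (nat_lit 297) (nat_lit 121))) (XT.nd (nat_lit 78) (nat_lit 0) (nat_lit 0) (XT.lf (nat_lit 0) (nat_lit 44153481812) (nat_lit 684) (nat_lit 11123117914) (nat_lit 760) (nat_lit 21822354060) (nat_lit 74) (nat_lit 5) (nat_lit 83) (nat_lit 5) (nat_lit 84) (nat_lit 5) (nat_lit 303) (nat_lit 297) (nat_lit 120)) (XT.nd (nat_lit 78) (nat_lit 0) (nat_lit 76) (XT.lf (nat_lit 76) (nat_lit 23963329316) (nat_lit 0) (nat_lit 24484899825) (nat_lit 760) (nat_lit 30706766923) (nat_lit 75) (nat_lit 5) (nat_lit 74) (nat_lit 5) (nat_lit 84) (nat_lit 5) (nat_lit 304) (nat_lit 297) (nat_lit 119))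 (XT.lf (nat_lit 0) (nat_lit 53271024848) (nat_lit 684) (nat_lit 20240267900) (nat_lit 760) (nat_lit 7786884289) (nat_lit 75) (nat_lit 5) (nat_lit 84) (nat_lit 5) (nat_lit 85) (nat_lit 5) (nat_lit 305) (nat_lit 297) (nat_lit 118))))))) (XT.nd (nat_lit 702) (nat_lit 1216) (nat_lit 0) (XT.nd (nat_lit 312) (nat_lit 760) (nat_lit 0) (XT.nd (nat_lit 156) (nat_lit 608) (nat_lit 0) (XT.nd (nat_lit 78) (nat_lit 0) (nat_lit 0) (XT.lf (nat_lit 76) (nat_lit 16587722195) (nat_lit 0) (nat_lit 42406985484) (nat_lit 760) (nat_lit 24520824039) (nat_lit 76) (nat_lit 5) (nat_lit 75) (nat_lit 5) (nat_lit 85) (nat_lit 5) (nat_lit 306) (nat_lit 297) (nat_lit 117)) (XT.lf (nat_lit 76) (nat_lit 55959318622) (nat_lit 0) (nat_lit 9387431604) (nat_lit 760) (nat_lit 20479897062) (nat_lit 76) (nat_lit 5) (nat_lit 75) (nat_lit 5) (nat_lit 85) (nat_lit 5) (nat_lit 307) (nat_lit 297) (nat_lit 116))) (XT.nd (nat_lit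 78) (nat_lit 0) (nat_lit 0) (XT.lf (nat_lit 0) (nat_lit 8936976745) (nat_lit 684) (nat_lit 63613116706) (nat_lit 760) (nat_lit 15676542098) (nat_lit 67) (nat_lit 5) (nat_lit 76) (nat_lit 5) (nat_lit 77) (nat_lit 5) (nat_lit 308) (nat_lit 297) (nat_lit 115)) (XT.lf (nat_lit 0) (nat_lit 50558952471) (nat_lit 684) (nat_lit 30211326084) (nat_lit 760) (nat_lit 9943512683) (nat_lit 67) (nat_lit 5) (nat_lit 76) (nat_lit 5) (nat_lit 77) (nat_lit 5) (nat_lit 309) (nat_lit 297) (nat_lit 114)))) (XT.nd (nat_lit 156) (nat_lit 380) (nat_lit 0) (XT.nd (nat_lit 78) (nat_lit 76) (nat_lit 0) (XT.lf (nat_lit 0) (nat_lit 888786049) (nat_lit 304) (nat_lit 88601924319) (nat_lit 380) (nat_lit 3830134142) (nat_lit 63) (nat_lit 5) (nat_lit 67) (nat_lit 5) (nat_lit 68) (nat_lit 5) (nat_lit 310) (nat_lit 297) (nat_lit 113)) (XT.lf (nat_lit 0) (nat_lit 3691991106) (nat_lit 380) (nat_lit 51192913688) (nat_lit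 76) (nat_lit 41112029196) (nat_lit 62) (nat_lit 5) (nat_lit 67) (nat_lit 5) (nat_lit 63) (nat_lit 5) (nat_lit 311) (nat_lit 297) (nat_lit 112))) (XT.nd (nat_lit 78) (nat_lit 380) (nat_lit 0) (XT.lf (nat_lit 0) (nat_lit 11461011363) (nat_lit 380) (nat_lit 7955083335) (nat_lit 76) (nat_lit 79387619914) (nat_lit 62) (nat_lit 5) (nat_lit 67) (nat_lit 5) (nat_lit 63) (nat_lit 5) (nat_lit 312) (nat_lit 297) (nat_lit 111)) (XT.nd (nat_lit 78) (nat_lit 0) (nat_lit 0) (XT.lf (nat_lit 0) (nat_lit 20510167924) (nat_lit 456) (nat_lit 63326626677) (nat_lit 76) (nat_lit 17869456775) (nat_lit 57) (nat_lit 5) (nat_lit 63) (nat_lit 5) (nat_lit 58) (nat_lit 5) (nat_lit 313) (nat_lit 297) (nat_lit 110)) (XT.lf (nat_lit 0) (nat_lit 30466555951) (nat_lit 456) (nat_lit 17760909635) (nat_lit 76) (nat_lit 56503712017) (nat_lit 57) (nat_lit 5) (nat_lit 63) (nat_lit 5) (nat_lit 58) (nat_lit 5) (nat_lit 314)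 (nat_lit 297) (nat_lit 109)))))) (XT.nd (nat_lit 312) (nat_lit 608) (nat_lit 0) (XT.nd (nat_lit 156) (nat_lit 304) (nat_lit 0) (XT.nd (nat_lit 78) (nat_lit 0) (nat_lit 0) (XT.lf (nat_lit 0) (nat_lit 31077307592) (nat_lit 304) (nat_lit 10328226552) (nat_lit 380) (nat_lit 66477578705) (nat_lit 53) (nat_lit 5) (nat_lit 57) (nat_lit 5) (nat_lit 58) (nat_lit 5) (nat_lit 315) (nat_lit 297) (nat_lit 108)) (XT.lf (nat_lit 0) (nat_lit 53656808397) (nat_lit 380) (nat_lit 28668996451) (nat_lit 76) (nat_lit 28828573837) (nat_lit 53) (nat_lit 5) (nat_lit 58) (nat_lit 5) (nat_lit 54) (nat_lit 5) (nat_lit 316) (nat_lit 297) (nat_lit 107))) (XT.nd (nat_lit 78) (nat_lit 0) (nat_lit 0) (XT.lf (nat_lit 0) (nat_lit 22422553624) (nat_lit 304) (nat_lit 44617086958) (nat_lit 380) (nat_lit 47523618650) (nat_lit 49) (nat_lit 5) (nat_lit 53) (nat_lit 5) (nat_lit 54) (nat_lit 5) (nat_lit 317) (nat_lit 297) (nat_lit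 106)) (XT.lf (nat_lit 0) (nat_lit 77063565484) (nat_lit 304) (nat_lit 4513184542) (nat_lit 380) (nat_lit 36541578072) (nat_lit 49) (nat_lit 5) (nat_lit 53) (nat_lit 5) (nat_lit 54) (nat_lit 5) (nat_lit 318) (nat_lit 297) (nat_lit 105)))) (XT.nd (nat_lit 156) (nat_lit 380) (nat_lit 0) (XT.nd (nat_lit 78) (nat_lit 0) (nat_lit 0) (XT.lf (nat_lit 0) (nat_lit 12394773742) (nat_lit 228) (nat_lit 85226065949) (nat_lit 304) (nat_lit 24191305506) (nat_lit 46) (nat_lit 5) (nat_lit 49) (nat_lit 5) (nat_lit 50) (nat_lit 5) (nat_lit 319) (nat_lit 297) (nat_lit 104)) (XT.lf (nat_lit 0) (nat_lit 69865253261) (nat_lit 228) (nat_lit 45369597089) (nat_lit 304) (nat_lit 10417417951) (nat_lit 46) (nat_lit 5) (nat_lit 49) (nat_lit 5) (nat_lit 50) (nat_lit 5) (nat_lit 320) (nat_lit 297) (nat_lit 103))) (XT.nd (nat_lit 78) (nat_lit 0) (nat_lit 0) (XT.lf (nat_lit 0) (nat_lit 476533589) (nat_lit 304) (nat_lit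 3446251442) (nat_lit 380) (nat_lit 125758101018) (nat_lit 41) (nat_lit 5) (nat_lit 45) (nat_lit 5) (nat_lit 46) (nat_lit 5) (nat_lit 321) (nat_lit 297) (nat_lit 102)) (XT.nd (nat_lit 78) (nat_lit 0) (nat_lit 0) (XT.lf (nat_lit 0) (nat_lit 20223295688) (nat_lit 380) (nat_lit 73193795782) (nat_lit 76) (nat_lit 40405635637) (nat_lit 41) (nat_lit 5) (nat_lit 46) (nat_lit 5) (nat_lit 42) (nat_lit 5) (nat_lit 322) (nat_lit 297) (nat_lit 101)) (XT.lf (nat_lit 0) (nat_lit 37395004437) (nat_lit 380) (nat_lit 14439617753) (nat_lit 76) (nat_lit 86334230202) (nat_lit 41) (nat_lit 5) (nat_lit 46) (nat_lit 5) (nat_lit 42) (nat_lit 5) (nat_lit 323) (nat_lit 297) (nat_lit 100))))))))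
noncomputable def xc245 : XT := (XT.nd (nat_lit 35958) (nat_lit 0) (nat_lit 1444) (XT.nd (nat_lit 624) (nat_lit 152) (nat_lit 0) (XT.nd (nat_lit 312) (nat_lit 456) (nat_lit 0) (XT.nd (nat_lit 156) (nat_lit 228) (nat_lit 0) (XT.nd (nat_lit 78) (nat_lit 0) (nat_lit 0) (XT.lf (nat_lit 0) (nat_lit 48814238658) (nat_lit 228) (nat_lit 7372879067) (nat_lit 304) (nat_lit 86507076026) (nat_lit 38) (nat_lit 5) (nat_lit 41) (nat_lit 5) (nat_lit 42) (nat_lit 5) (nat_lit 324) (nat_lit 297) (nat_lit 99)) (XT.lf (nat_lit 0) (nat_lit 76780856566) (nat_lit 304) (nat_lit 32319653945) (nat_lit 76) (nat_lit 38302191402) (nat_lit 38) (nat_lit 5) (nat_lit 42) (nat_lit 5) (nat_lit 39) (nat_lit 5) (nat_lit 325) (nat_lit 297) (nat_lit 98))) (XT.nd (nat_lit 78) (nat_lit 0) (nat_lit 0) (XT.lf (nat_lit 0) (nat_lit 33262007292) (nat_lit 228) (nat_lit 65782168752) (nat_lit 304) (nat_lit 53270465446) (nat_lit 35)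 (nat_lit 5) (nat_lit 38) (nat_lit 5) (nat_lit 39) (nat_lit 5) (nat_lit 326) (nat_lit 297) (nat_lit 97)) (XT.lf (nat_lit 0) (nat_lit 103244443069) (nat_lit 228) (nat_lit 19723288878) (nat_lit 304) (nat_lit 34477093238) (nat_lit 35) (nat_lit 5) (nat_lit 38) (nat_lit 5) (nat_lit 39) (nat_lit 5) (nat_lit 327) (nat_lit 297) (nat_lit 96)))) (XT.nd (nat_lit 156) (nat_lit 228) (nat_lit 0) (XT.nd (nat_lit 78) (nat_lit 76) (nat_lit 0) (XT.lf (nat_lit 0) (nat_lit 13891604275) (nat_lit 152) (nat_lit 134859609351) (nat_lit 228) (nat_lit 14047117668) (nat_lit 33) (nat_lit 5) (nat_lit 35) (nat_lit 5) (nat_lit 36) (nat_lit 5) (nat_lit 328) (nat_lit 297) (nat_lit 95)) (XT.lf (nat_lit 0) (nat_lit 8423396544) (nat_lit 228) (nat_lit 81558067387) (nat_lit 76) (nat_lit 78369467934) (nat_lit 32) (nat_lit 5) (nat_lit 35) (nat_lit 5) (nat_lit 33) (nat_lit 5) (nat_lit 329) (nat_lit 297) (nat_lit 94))) (XT.nd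 (nat_lit 78) (nat_lit 228) (nat_lit 0) (XT.lf (nat_lit 0) (nat_lit 31545109314) (nat_lit 228) (nat_lit 11072609644) (nat_lit 76) (nat_lit 131551942613) (nat_lit 32) (nat_lit 5) (nat_lit 35) (nat_lit 5) (nat_lit 33) (nat_lit 5) (nat_lit 330) (nat_lit 297) (nat_lit 93)) (XT.lf (nat_lit 0) (nat_lit 56965489665) (nat_lit 304) (nat_lit 115338539330) (nat_lit 76) (nat_lit 7918170189) (nat_lit 29) (nat_lit 5) (nat_lit 33) (nat_lit 5) (nat_lit 30) (nat_lit 5) (nat_lit 331) (nat_lit 297) (nat_lit 92))))) (XT.nd (nat_lit 34944) (nat_lit 0) (nat_lit 3420) (XT.nd (nat_lit 156) (nat_lit 0) (nat_lit 0) (XT.nd (nat_lit 78) (nat_lit 152) (nat_lit 0) (XT.lf (nat_lit 0) (nat_lit 84545899077) (nat_lit 304) (nat_lit 42247896657) (nat_lit 76) (nat_lit 59739117934) (nat_lit 29) (nat_lit 5) (nat_lit 33) (nat_lit 5) (nat_lit 30) (nat_lit 5) (nat_lit 332) (nat_lit 297) (nat_lit 91)) (XT.lf (nat_lit 0) (nat_lit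 35637576901) (nat_lit 152) (nat_lit 78423930521) (nat_lit 228) (nat_lit 79069848000) (nat_lit 27) (nat_lit 5) (nat_lit 29) (nat_lit 5) (nat_lit 30) (nat_lit 5) (nat_lit 333) (nat_lit 297) (nat_lit 90))) (XT.nd (nat_lit 34710) (nat_lit 0) (nat_lit 3420) (XT.lf (nat_lit 0) (nat_lit 118883754704) (nat_lit 152) (nat_lit 26884411720) (nat_lit 228) (nat_lit 54255789776) (nat_lit 27) (nat_lit 5) (nat_lit 29) (nat_lit 5) (nat_lit 30) (nat_lit 5) (nat_lit 334) (nat_lit 297) (nat_lit 89)) (XT.lf (nat_lit 0) (nat_lit 8085215663) (nat_lit 0) (nat_lit 8085215663) (nat_lit 684) (nat_lit 18605972947) (nat_lit 72) (nat_lit 5) (nat_lit 72) (nat_lit 3) (nat_lit 81) (nat_lit 3) (nat_lit 298) (nat_lit 298) (nat_lit 124)))) (XT.nd (nat_lit 156) (nat_lit 0) (nat_lit 76) (XT.nd (nat_lit 78) (nat_lit 0) (nat_lit 0) (XT.lf (nat_lit 0) (nat_lit 33386826163) (nat_lit 684) (nat_lit 23939054470) (nat_lit 760) (nat_lit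 13953835581) (nat_lit 72) (nat_lit 5) (nat_lit 81) (nat_lit 3) (nat_lit 82) (nat_lit 5) (nat_lit 299) (nat_lit 298) (nat_lit 123)) (XT.lf (nat_lit 76) (nat_lit 6932793426) (nat_lit 0) (nat_lit 27924837503) (nat_lit 760) (nat_lit 38216713771) (nat_lit 73) (nat_lit 5) (nat_lit 72) (nat_lit 5) (nat_lit 82) (nat_lit 5) (nat_lit 300) (nat_lit 298) (nat_lit 122))) (XT.nd (nat_lit 78) (nat_lit 0) (nat_lit 0) (XT.lf (nat_lit 0) (nat_lit 36859290254) (nat_lit 684) (nat_lit 34812218254) (nat_lit 760) (nat_lit 3264332853) (nat_lit 73) (nat_lit 5) (nat_lit 82) (nat_lit 5) (nat_lit 83) (nat_lit 5) (nat_lit 301) (nat_lit 298) (nat_lit 121)) (XT.nd (nat_lit 78) (nat_lit 0) (nat_lit 0) (XT.lf (nat_lit 0) (nat_lit 39418101801) (nat_lit 684) (nat_lit 2374662504) (nat_lit 760) (nat_lit 35074797435) (nat_lit 73) (nat_lit 5) (nat_lit 82) (nat_lit 5) (nat_lit 83) (nat_lit 5) (nat_lit 302) (nat_lit 298) (nat_lit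 120)) (XT.lf (nat_lit 76) (nat_lit 32731960368) (nat_lit 0) (nat_lit 9883250272) (nat_lit 760) (nat_lit 36255141901) (nat_lit 74) (nat_lit 5) (nat_lit 73) (nat_lit 5) (nat_lit 83) (nat_lit 5) (nat_lit 303) (nat_lit 298) (nat_lit 119))))))) (XT.nd (nat_lit 702) (nat_lit 1216) (nat_lit 0) (XT.nd (nat_lit 312) (nat_lit 912) (nat_lit 0) (XT.nd (nat_lit 156) (nat_lit 0) (nat_lit 76) (XT.nd (nat_lit 78) (nat_lit 0) (nat_lit 0) (XT.lf (nat_lit 0) (nat_lit 46381200098) (nat_lit 684) (nat_lit 11664844750) (nat_lit 760) (nat_lit 22906788904) (nat_lit 74) (nat_lit 5) (nat_lit 83) (nat_lit 5) (nat_lit 84) (nat_lit 5) (nat_lit 304) (nat_lit 298) (nat_lit 118)) (XT.lf (nat_lit 76) (nat_lit 25175692116) (nat_lit 0) (nat_lit 25714259836) (nat_lit 760) (nat_lit 32221765953) (nat_lit 75) (nat_lit 5) (nat_lit 74) (nat_lit 5) (nat_lit 84) (nat_lit 5) (nat_lit 305) (nat_lit 298) (nat_lit 117))) (XT.nd (nat_lit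 78) (nat_lit 0) (nat_lit 0) (XT.lf (nat_lit 0) (nat_lit 55952891799) (nat_lit 684) (nat_lit 21237705908) (nat_lit 760) (nat_lit 8171512972) (nat_lit 75) (nat_lit 5) (nat_lit 84) (nat_lit 5) (nat_lit 85) (nat_lit 5) (nat_lit 306) (nat_lit 298) (nat_lit 116)) (XT.lf (nat_lit 76) (nat_lit 17431448605) (nat_lit 0) (nat_lit 44530661883) (nat_lit 760) (nat_lit 25728257851) (nat_lit 76) (nat_lit 5) (nat_lit 75) (nat_lit 5) (nat_lit 85) (nat_lit 5) (nat_lit 307) (nat_lit 298) (nat_lit 115)))) (XT.nd (nat_lit 156) (nat_lit 380) (nat_lit 0) (XT.nd (nat_lit 78) (nat_lit 608) (nat_lit 0) (XT.lf (nat_lit 76) (nat_lit 58770941982) (nat_lit 0) (nat_lit 9859971874) (nat_lit 760) (nat_lit 21486170592) (nat_lit 76) (nat_lit 5) (nat_lit 75) (nat_lit 5) (nat_lit 85) (nat_lit 5) (nat_lit 308) (nat_lit 298) (nat_lit 114)) (XT.lf (nat_lit 0) (nat_lit 9398192170) (nat_lit 684) (nat_lit 66795608014) (nat_lit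 760) (nat_lit 16443305706) (nat_lit 67) (nat_lit 5) (nat_lit 76) (nat_lit 5) (nat_lit 77) (nat_lit 5) (nat_lit 309) (nat_lit 298) (nat_lit 113))) (XT.nd (nat_lit 78) (nat_lit 380) (nat_lit 0) (XT.lf (nat_lit 0) (nat_lit 53100582560) (nat_lit 684) (nat_lit 31723640458) (nat_lit 760) (nat_lit 10424437368) (nat_lit 67) (nat_lit 5) (nat_lit 76) (nat_lit 5) (nat_lit 77) (nat_lit 5) (nat_lit 310) (nat_lit 298) (nat_lit 112)) (XT.nd (nat_lit 78) (nat_lit 76) (nat_lit 0) (XT.lf (nat_lit 0) (nat_lit 947521165) (nat_lit 304) (nat_lit 93032617673) (nat_lit 380) (nat_lit 4005956690) (nat_lit 63) (nat_lit 5) (nat_lit 67) (nat_lit 5) (nat_lit 68) (nat_lit 5) (nat_lit 311) (nat_lit 298) (nat_lit 111)) (XT.lf (nat_lit 0) (nat_lit 3891049869) (nat_lit 380) (nat_lit 53738423993) (nat_lit 76) (nat_lit 43166541635) (nat_lit 62) (nat_lit 5) (nat_lit 67) (nat_lit 5) (nat_lit 63) (nat_lit 5) (nat_lit 312)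 (nat_lit 298) (nat_lit 110)))))) (XT.nd (nat_lit 312) (nat_lit 532) (nat_lit 0) (XT.nd (nat_lit 156) (nat_lit 304) (nat_lit 0) (XT.nd (nat_lit 78) (nat_lit 380) (nat_lit 0) (XT.lf (nat_lit 0) (nat_lit 12047832606) (nat_lit 380) (nat_lit 8339375236) (nat_lit 76) (nat_lit 83355963747) (nat_lit 62) (nat_lit 5) (nat_lit 67) (nat_lit 5) (nat_lit 63) (nat_lit 5) (nat_lit 313) (nat_lit 298) (nat_lit 109)) (XT.lf (nat_lit 0) (nat_lit 21548996846) (nat_lit 456) (nat_lit 66479007292) (nat_lit 76) (nat_lit 18762855476) (nat_lit 57) (nat_lit 5) (nat_lit 63) (nat_lit 5) (nat_lit 58) (nat_lit 5) (nat_lit 314) (nat_lit 298) (nat_lit 108))) (XT.nd (nat_lit 78) (nat_lit 304) (nat_lit 0) (XT.lf (nat_lit 0) (nat_lit 32002569964) (nat_lit 456) (nat_lit 18635668717) (nat_lit 76) (nat_lit 59328827010) (nat_lit 57) (nat_lit 5) (nat_lit 63) (nat_lit 5) (nat_lit 58) (nat_lit 5) (nat_lit 315) (nat_lit 298) (nat_lit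 107)) (XT.lf (nat_lit 0) (nat_lit 32644245074) (nat_lit 304) (nat_lit 10843851979) (nat_lit 380) (nat_lit 69788522384) (nat_lit 53) (nat_lit 5) (nat_lit 57) (nat_lit 5) (nat_lit 58) (nat_lit 5) (nat_lit 316) (nat_lit 298) (nat_lit 106)))) (XT.nd (nat_lit 156) (nat_lit 228) (nat_lit 0) (XT.nd (nat_lit 78) (nat_lit 304) (nat_lit 0) (XT.lf (nat_lit 0) (nat_lit 56351361647) (nat_lit 380) (nat_lit 30089390191) (nat_lit 76) (nat_lit 30270727050) (nat_lit 53) (nat_lit 5) (nat_lit 58) (nat_lit 5) (nat_lit 54) (nat_lit 5) (nat_lit 317) (nat_lit 298) (nat_lit 105)) (XT.lf (nat_lit 0) (nat_lit 23556526806) (nat_lit 304) (nat_lit 46846451436) (nat_lit 380) (nat_lit 49887844656) (nat_lit 49) (nat_lit 5) (nat_lit 53) (nat_lit 5) (nat_lit 54) (nat_lit 5) (nat_lit 318) (nat_lit 298) (nat_lit 104))) (XT.nd (nat_lit 78) (nat_lit 228) (nat_lit 0) (XT.lf (nat_lit 0) (nat_lit 80928977569) (nat_lit 304)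 (nat_lit 4737424846) (nat_lit 380) (nat_lit 38357271332) (nat_lit 49) (nat_lit 5) (nat_lit 53) (nat_lit 5) (nat_lit 54) (nat_lit 5) (nat_lit 319) (nat_lit 298) (nat_lit 103)) (XT.nd (nat_lit 78) (nat_lit 0) (nat_lit 0) (XT.lf (nat_lit 0) (nat_lit 13027088675) (nat_lit 228) (nat_lit 89485310341) (nat_lit 304) (nat_lit 25389798990) (nat_lit 46) (nat_lit 5) (nat_lit 49) (nat_lit 5) (nat_lit 50) (nat_lit 5) (nat_lit 320) (nat_lit 298) (nat_lit 102)) (XT.lf (nat_lit 0) (nat_lit 73370493301) (nat_lit 228) (nat_lit 47636116082) (nat_lit 304) (nat_lit 10927744285) (nat_lit 46) (nat_lit 5) (nat_lit 49) (nat_lit 5) (nat_lit 50) (nat_lit 5) (nat_lit 321) (nat_lit 298) (nat_lit 101))))))))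
noncomputable def xc246 : XT := (XT.nd (nat_lit 36114) (nat_lit 0) (nat_lit 1292) (XT.nd (nat_lit 624) (nat_lit 304) (nat_lit 0) (XT.nd (nat_lit 312) (nat_lit 380) (nat_lit 0) (XT.nd (nat_lit 156) (nat_lit 228) (nat_lit 0) (XT.nd (nat_lit 78) (nat_lit 0) (nat_lit 0) (XT.lf (nat_lit 0) (nat_lit 512502019) (nat_lit 304) (nat_lit 3616332851) (nat_lit 380) (nat_lit 132035575260) (nat_lit 41) (nat_lit 5) (nat_lit 45) (nat_lit 5) (nat_lit 46) (nat_lit 5) (nat_lit 322) (nat_lit 298) (nat_lit 100)) (XT.lf (nat_lit 0) (nat_lit 21243932302) (nat_lit 380) (nat_lit 76841459727) (nat_lit 76) (nat_lit 42427974325) (nat_lit 41) (nat_lit 5) (nat_lit 46) (nat_lit 5) (nat_lit 42) (nat_lit 5) (nat_lit 323) (nat_lit 298) (nat_lit 99))) (XT.nd (nat_lit 78) (nat_lit 228) (nat_lit 0) (XT.lf (nat_lit 0) (nat_lit 39273775450) (nat_lit 380) (nat_lit 15150145455) (nat_lit 76) (nat_lit 90652900670) (nat_lit 41)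 (nat_lit 5) (nat_lit 46) (nat_lit 5) (nat_lit 42) (nat_lit 5) (nat_lit 324) (nat_lit 298) (nat_lit 98)) (XT.lf (nat_lit 0) (nat_lit 51266219047) (nat_lit 228) (nat_lit 7739021726) (nat_lit 304) (nat_lit 90823202978) (nat_lit 38) (nat_lit 5) (nat_lit 41) (nat_lit 5) (nat_lit 42) (nat_lit 5) (nat_lit 325) (nat_lit 298) (nat_lit 97)))) (XT.nd (nat_lit 156) (nat_lit 152) (nat_lit 0) (XT.nd (nat_lit 78) (nat_lit 228) (nat_lit 0) (XT.lf (nat_lit 0) (nat_lit 80628286264) (nat_lit 304) (nat_lit 33924504173) (nat_lit 76) (nat_lit 40219606912) (nat_lit 38) (nat_lit 5) (nat_lit 42) (nat_lit 5) (nat_lit 39) (nat_lit 5) (nat_lit 326) (nat_lit 298) (nat_lit 96)) (XT.lf (nat_lit 0) (nat_lit 34936060569) (nat_lit 228) (nat_lit 69068482778) (nat_lit 304) (nat_lit 55925402945) (nat_lit 35) (nat_lit 5) (nat_lit 38) (nat_lit 5) (nat_lit 39) (nat_lit 5) (nat_lit 327) (nat_lit 298) (nat_lit 95))) (XT.nd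 (nat_lit 78) (nat_lit 152) (nat_lit 0) (XT.lf (nat_lit 0) (nat_lit 108417096568) (nat_lit 228) (nat_lit 20706791977) (nat_lit 304) (nat_lit 36192770973) (nat_lit 35) (nat_lit 5) (nat_lit 38) (nat_lit 5) (nat_lit 39) (nat_lit 5) (nat_lit 328) (nat_lit 298) (nat_lit 94)) (XT.lf (nat_lit 0) (nat_lit 14596807068) (nat_lit 152) (nat_lit 141599572661) (nat_lit 228) (nat_lit 14741470310) (nat_lit 33) (nat_lit 5) (nat_lit 35) (nat_lit 5) (nat_lit 36) (nat_lit 5) (nat_lit 329) (nat_lit 298) (nat_lit 93))))) (XT.nd (nat_lit 35100) (nat_lit 0) (nat_lit 3268) (XT.nd (nat_lit 156) (nat_lit 228) (nat_lit 0) (XT.nd (nat_lit 78) (nat_lit 0) (nat_lit 0) (XT.lf (nat_lit 0) (nat_lit 8851944550) (nat_lit 228) (nat_lit 85625594142) (nat_lit 76) (nat_lit 82290554941) (nat_lit 32) (nat_lit 5) (nat_lit 35) (nat_lit 5) (nat_lit 33) (nat_lit 5) (nat_lit 330) (nat_lit 298) (nat_lit 92)) (XT.lf (nat_lit 0) (nat_lit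 33129391616) (nat_lit 228) (nat_lit 11616357636) (nat_lit 76) (nat_lit 138132028897) (nat_lit 32) (nat_lit 5) (nat_lit 35) (nat_lit 5) (nat_lit 33) (nat_lit 5) (nat_lit 331) (nat_lit 298) (nat_lit 91))) (XT.nd (nat_lit 78) (nat_lit 0) (nat_lit 0) (XT.lf (nat_lit 0) (nat_lit 59820653128) (nat_lit 304) (nat_lit 121095431514) (nat_lit 76) (nat_lit 8316865615) (nat_lit 29) (nat_lit 5) (nat_lit 33) (nat_lit 5) (nat_lit 30) (nat_lit 5) (nat_lit 332) (nat_lit 298) (nat_lit 90)) (XT.lf (nat_lit 0) (nat_lit 88779754965) (nat_lit 304) (nat_lit 44350734554) (nat_lit 76) (nat_lit 62728728037) (nat_lit 29) (nat_lit 5) (nat_lit 33) (nat_lit 5) (nat_lit 30) (nat_lit 5) (nat_lit 333) (nat_lit 298) (nat_lit 89)))) (XT.nd (nat_lit 156) (nat_lit 0) (nat_lit 0) (XT.nd (nat_lit 78) (nat_lit 0) (nat_lit 0) (XT.lf (nat_lit 0) (nat_lit 8495569842) (nat_lit 0) (nat_lit 8495569842) (nat_lit 684) (nat_lit 19523435645)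 (nat_lit 72) (nat_lit 5) (nat_lit 72) (nat_lit 3) (nat_lit 81) (nat_lit 3) (nat_lit 299) (nat_lit 299) (nat_lit 122)) (XT.lf (nat_lit 0) (nat_lit 35079199201) (nat_lit 684) (nat_lit 25122983025) (nat_lit 760) (nat_lit 14640292369) (nat_lit 72) (nat_lit 5) (nat_lit 81) (nat_lit 3) (nat_lit 82) (nat_lit 5) (nat_lit 300) (nat_lit 299) (nat_lit 121))) (XT.nd (nat_lit 78) (nat_lit 0) (nat_lit 76) (XT.lf (nat_lit 76) (nat_lit 7292247197) (nat_lit 0) (nat_lit 29330400323) (nat_lit 760) (nat_lit 40104235433) (nat_lit 73) (nat_lit 5) (nat_lit 72) (nat_lit 5) (nat_lit 82) (nat_lit 5) (nat_lit 301) (nat_lit 299) (nat_lit 120)) (XT.nd (nat_lit 78) (nat_lit 0) (nat_lit 0) (XT.lf (nat_lit 0) (nat_lit 38723197165) (nat_lit 684) (nat_lit 36539363825) (nat_lit 760) (nat_lit 3418956528) (nat_lit 73) (nat_lit 5) (nat_lit 82) (nat_lit 5) (nat_lit 83) (nat_lit 5) (nat_lit 302) (nat_lit 299) (nat_lit 119))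 (XT.lf (nat_lit 0) (nat_lit 41408952033) (nat_lit 684) (nat_lit 2480571495) (nat_lit 760) (nat_lit 36820353528) (nat_lit 73) (nat_lit 5) (nat_lit 82) (nat_lit 5) (nat_lit 83) (nat_lit 5) (nat_lit 303) (nat_lit 299) (nat_lit 118))))))) (XT.nd (nat_lit 702) (nat_lit 1292) (nat_lit 0) (XT.nd (nat_lit 312) (nat_lit 760) (nat_lit 0) (XT.nd (nat_lit 156) (nat_lit 0) (nat_lit 76) (XT.nd (nat_lit 78) (nat_lit 0) (nat_lit 76) (XT.lf (nat_lit 76) (nat_lit 34381175681) (nat_lit 0) (nat_lit 10383987856) (nat_lit 760) (nat_lit 38047684618) (nat_lit 74) (nat_lit 5) (nat_lit 73) (nat_lit 5) (nat_lit 83) (nat_lit 5) (nat_lit 304) (nat_lit 299) (nat_lit 117)) (XT.lf (nat_lit 0) (nat_lit 48718440778) (nat_lit 684) (nat_lit 12234999404) (nat_lit 760) (nat_lit 24046066800) (nat_lit 74) (nat_lit 5) (nat_lit 83) (nat_lit 5) (nat_lit 84) (nat_lit 5) (nat_lit 305) (nat_lit 299) (nat_lit 116))) (XT.nd (nat_lit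 78) (nat_lit 0) (nat_lit 76) (XT.lf (nat_lit 76) (nat_lit 26447353215) (nat_lit 0) (nat_lit 27004612302) (nat_lit 760) (nat_lit 33814405891) (nat_lit 75) (nat_lit 5) (nat_lit 74) (nat_lit 5) (nat_lit 84) (nat_lit 5) (nat_lit 306) (nat_lit 299) (nat_lit 115)) (XT.lf (nat_lit 0) (nat_lit 58767149276) (nat_lit 684) (nat_lit 22286370898) (nat_lit 760) (nat_lit 8575811495) (nat_lit 75) (nat_lit 5) (nat_lit 84) (nat_lit 5) (nat_lit 85) (nat_lit 5) (nat_lit 307) (nat_lit 299) (nat_lit 114)))) (XT.nd (nat_lit 156) (nat_lit 912) (nat_lit 0) (XT.nd (nat_lit 78) (nat_lit 0) (nat_lit 0) (XT.lf (nat_lit 76) (nat_lit 18316028110) (nat_lit 0) (nat_lit 46760212777) (nat_lit 760) (nat_lit 26997793293) (nat_lit 76) (nat_lit 5) (nat_lit 75) (nat_lit 5) (nat_lit 85) (nat_lit 5) (nat_lit 308) (nat_lit 299) (nat_lit 113)) (XT.lf (nat_lit 76) (nat_lit 61721876771) (nat_lit 0) (nat_lit 10355844562) (nat_lit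 760) (nat_lit 22544405359) (nat_lit 76) (nat_lit 5) (nat_lit 75) (nat_lit 5) (nat_lit 85) (nat_lit 5) (nat_lit 309) (nat_lit 299) (nat_lit 112))) (XT.nd (nat_lit 78) (nat_lit 304) (nat_lit 0) (XT.lf (nat_lit 0) (nat_lit 9881132697) (nat_lit 684) (nat_lit 70137053243) (nat_lit 760) (nat_lit 17249993897) (nat_lit 67) (nat_lit 5) (nat_lit 76) (nat_lit 5) (nat_lit 77) (nat_lit 5) (nat_lit 310) (nat_lit 299) (nat_lit 111)) (XT.nd (nat_lit 78) (nat_lit 304) (nat_lit 0) (XT.lf (nat_lit 0) (nat_lit 55768022086) (nat_lit 684) (nat_lit 33311408032) (nat_lit 760) (nat_lit 10930919147) (nat_lit 67) (nat_lit 5) (nat_lit 76) (nat_lit 5) (nat_lit 77) (nat_lit 5) (nat_lit 311) (nat_lit 299) (nat_lit 110)) (XT.lf (nat_lit 0) (nat_lit 1007863948) (nat_lit 304) (nat_lit 97684790178) (nat_lit 380) (nat_lit 4192028529) (nat_lit 63) (nat_lit 5) (nat_lit 67) (nat_lit 5) (nat_lit 68) (nat_lit 5) (nat_lit 312)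 (nat_lit 299) (nat_lit 109)))))) (XT.nd (nat_lit 312) (nat_lit 836) (nat_lit 0) (XT.nd (nat_lit 156) (nat_lit 380) (nat_lit 0) (XT.nd (nat_lit 78) (nat_lit 0) (nat_lit 0) (XT.lf (nat_lit 0) (nat_lit 4098717291) (nat_lit 380) (nat_lit 56412523987) (nat_lit 76) (nat_lit 45323880943) (nat_lit 62) (nat_lit 5) (nat_lit 67) (nat_lit 5) (nat_lit 63) (nat_lit 5) (nat_lit 313) (nat_lit 299) (nat_lit 108)) (XT.lf (nat_lit 0) (nat_lit 12662714644) (nat_lit 380) (nat_lit 8744133326) (nat_lit 76) (nat_lit 87522821198) (nat_lit 62) (nat_lit 5) (nat_lit 67) (nat_lit 5) (nat_lit 63) (nat_lit 5) (nat_lit 314) (nat_lit 299) (nat_lit 107))) (XT.nd (nat_lit 78) (nat_lit 0) (nat_lit 0) (XT.lf (nat_lit 0) (nat_lit 22638528798) (nat_lit 456) (nat_lit 69790303943) (nat_lit 76) (nat_lit 19700931005) (nat_lit 57) (nat_lit 5) (nat_lit 63) (nat_lit 5) (nat_lit 58) (nat_lit 5) (nat_lit 315) (nat_lit 299) (nat_lit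 106)) (XT.lf (nat_lit 0) (nat_lit 33614205233) (nat_lit 456) (nat_lit 19555400997) (nat_lit 76) (nat_lit 62295204318) (nat_lit 57) (nat_lit 5) (nat_lit 63) (nat_lit 5) (nat_lit 58) (nat_lit 5) (nat_lit 316) (nat_lit 299) (nat_lit 105)))) (XT.nd (nat_lit 156) (nat_lit 532) (nat_lit 0) (XT.nd (nat_lit 78) (nat_lit 0) (nat_lit 0) (XT.lf (nat_lit 0) (nat_lit 34288314110) (nat_lit 304) (nat_lit 11385331742) (nat_lit 380) (nat_lit 73266215845) (nat_lit 53) (nat_lit 5) (nat_lit 57) (nat_lit 5) (nat_lit 58) (nat_lit 5) (nat_lit 317) (nat_lit 299) (nat_lit 104)) (XT.lf (nat_lit 0) (nat_lit 59179553612) (nat_lit 380) (nat_lit 31582017449) (nat_lit 76) (nat_lit 31784920564) (nat_lit 53) (nat_lit 5) (nat_lit 58) (nat_lit 5) (nat_lit 54) (nat_lit 5) (nat_lit 318) (nat_lit 299) (nat_lit 103))) (XT.nd (nat_lit 78) (nat_lit 228) (nat_lit 0) (XT.lf (nat_lit 0) (nat_lit 24746004394) (nat_lit 304) (nat_lit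 49187422652) (nat_lit 380) (nat_lit 52371393419) (nat_lit 49) (nat_lit 5) (nat_lit 53) (nat_lit 5) (nat_lit 54) (nat_lit 5) (nat_lit 319) (nat_lit 299) (nat_lit 102)) (XT.nd (nat_lit 78) (nat_lit 228) (nat_lit 0) (XT.lf (nat_lit 0) (nat_lit 84986522873) (nat_lit 304) (nat_lit 4973009083) (nat_lit 380) (nat_lit 40264807784) (nat_lit 49) (nat_lit 5) (nat_lit 53) (nat_lit 5) (nat_lit 54) (nat_lit 5) (nat_lit 320) (nat_lit 299) (nat_lit 101)) (XT.lf (nat_lit 0) (nat_lit 13689850135) (nat_lit 228) (nat_lit 93957708370) (nat_lit 304) (nat_lit 26649246498) (nat_lit 46) (nat_lit 5) (nat_lit 49) (nat_lit 5) (nat_lit 50) (nat_lit 5) (nat_lit 321) (nat_lit 299) (nat_lit 100))))))))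
noncomputable def xc247 : XT := (XT.nd (nat_lit 36270) (nat_lit 0) (nat_lit 1292) (XT.nd (nat_lit 702) (nat_lit 304) (nat_lit 0) (XT.nd (nat_lit 312) (nat_lit 608) (nat_lit 0) (XT.nd (nat_lit 156) (nat_lit 0) (nat_lit 0) (XT.nd (nat_lit 78) (nat_lit 380) (nat_lit 0) (XT.lf (nat_lit 0) (nat_lit 77049881800) (nat_lit 228) (nat_lit 50016143326) (nat_lit 304) (nat_lit 11464567269) (nat_lit 46) (nat_lit 5) (nat_lit 49) (nat_lit 5) (nat_lit 50) (nat_lit 5) (nat_lit 322) (nat_lit 299) (nat_lit 99)) (XT.lf (nat_lit 0) (nat_lit 549140046) (nat_lit 304) (nat_lit 3795125763) (nat_lit 380) (nat_lit 138627892972) (nat_lit 41) (nat_lit 5) (nat_lit 45) (nat_lit 5) (nat_lit 46) (nat_lit 5) (nat_lit 323) (nat_lit 299) (nat_lit 98))) (XT.nd (nat_lit 78) (nat_lit 0) (nat_lit 0) (XT.lf (nat_lit 0) (nat_lit 22314720147) (nat_lit 380) (nat_lit 80672624918) (nat_lit 76) (nat_lit 44551238716) (nat_lit 41)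 (nat_lit 5) (nat_lit 46) (nat_lit 5) (nat_lit 42) (nat_lit 5) (nat_lit 324) (nat_lit 299) (nat_lit 97)) (XT.lf (nat_lit 0) (nat_lit 41245646346) (nat_lit 380) (nat_lit 15897264352) (nat_lit 76) (nat_lit 95187322537) (nat_lit 41) (nat_lit 5) (nat_lit 46) (nat_lit 5) (nat_lit 42) (nat_lit 5) (nat_lit 325) (nat_lit 299) (nat_lit 96)))) (XT.nd (nat_lit 156) (nat_lit 380) (nat_lit 0) (XT.nd (nat_lit 78) (nat_lit 0) (nat_lit 0) (XT.lf (nat_lit 0) (nat_lit 53839750822) (nat_lit 228) (nat_lit 8123704064) (nat_lit 304) (nat_lit 95355994102) (nat_lit 38) (nat_lit 5) (nat_lit 41) (nat_lit 5) (nat_lit 42) (nat_lit 5) (nat_lit 326) (nat_lit 299) (nat_lit 95)) (XT.lf (nat_lit 0) (nat_lit 84667307716) (nat_lit 304) (nat_lit 35610631905) (nat_lit 76) (nat_lit 42232678814) (nat_lit 38) (nat_lit 5) (nat_lit 42) (nat_lit 5) (nat_lit 39) (nat_lit 5) (nat_lit 327) (nat_lit 299) (nat_lit 94))) (XT.nd (nat_lit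 78) (nat_lit 152) (nat_lit 0) (XT.lf (nat_lit 0) (nat_lit 36692798212) (nat_lit 228) (nat_lit 72519372303) (nat_lit 304) (nat_lit 58713885543) (nat_lit 35) (nat_lit 5) (nat_lit 38) (nat_lit 5) (nat_lit 39) (nat_lit 5) (nat_lit 328) (nat_lit 299) (nat_lit 93)) (XT.nd (nat_lit 78) (nat_lit 152) (nat_lit 0) (XT.lf (nat_lit 0) (nat_lit 113847412934) (nat_lit 228) (nat_lit 21739717658) (nat_lit 304) (nat_lit 37994992808) (nat_lit 35) (nat_lit 5) (nat_lit 38) (nat_lit 5) (nat_lit 39) (nat_lit 5) (nat_lit 329) (nat_lit 299) (nat_lit 92)) (XT.lf (nat_lit 0) (nat_lit 15336282414) (nat_lit 152) (nat_lit 148676814643) (nat_lit 228) (nat_lit 15471284651) (nat_lit 33) (nat_lit 5) (nat_lit 35) (nat_lit 5) (nat_lit 36) (nat_lit 5) (nat_lit 330) (nat_lit 299) (nat_lit 91)))))) (XT.nd (nat_lit 35178) (nat_lit 0) (nat_lit 3268) (XT.nd (nat_lit 156) (nat_lit 228) (nat_lit 0) (XT.nd (nat_lit 78) (nat_lit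 0) (nat_lit 0) (XT.lf (nat_lit 0) (nat_lit 9301234002) (nat_lit 228) (nat_lit 89897461954) (nat_lit 76) (nat_lit 86407453310) (nat_lit 32) (nat_lit 5) (nat_lit 35) (nat_lit 5) (nat_lit 33) (nat_lit 5) (nat_lit 331) (nat_lit 299) (nat_lit 90)) (XT.lf (nat_lit 0) (nat_lit 34792234745) (nat_lit 228) (nat_lit 12188211808) (nat_lit 76) (nat_lit 145040888077) (nat_lit 32) (nat_lit 5) (nat_lit 35) (nat_lit 5) (nat_lit 33) (nat_lit 5) (nat_lit 332) (nat_lit 299) (nat_lit 89))) (XT.nd (nat_lit 34944) (nat_lit 0) (nat_lit 3268) (XT.lf (nat_lit 0) (nat_lit 62817934293) (nat_lit 304) (nat_lit 127141101245) (nat_lit 76) (nat_lit 8735236712) (nat_lit 29) (nat_lit 5) (nat_lit 33) (nat_lit 5) (nat_lit 30) (nat_lit 5) (nat_lit 333) (nat_lit 299) (nat_lit 88)) (XT.lf (nat_lit 0) (nat_lit 8925875225) (nat_lit 0) (nat_lit 8925875225) (nat_lit 684) (nat_lit 20487964842) (nat_lit 72) (nat_lit 5) (nat_lit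 72) (nat_lit 3) (nat_lit 81) (nat_lit 3) (nat_lit 300) (nat_lit 300) (nat_lit 120)))) (XT.nd (nat_lit 156) (nat_lit 0) (nat_lit 76) (XT.nd (nat_lit 78) (nat_lit 0) (nat_lit 0) (XT.lf (nat_lit 0) (nat_lit 36854049619) (nat_lit 684) (nat_lit 26367318873) (nat_lit 760) (nat_lit 15362116521) (nat_lit 72) (nat_lit 5) (nat_lit 81) (nat_lit 3) (nat_lit 82) (nat_lit 5) (nat_lit 301) (nat_lit 300) (nat_lit 119)) (XT.lf (nat_lit 76) (nat_lit 7668482324) (nat_lit 0) (nat_lit 30805374710) (nat_lit 760) (nat_lit 42088300694) (nat_lit 73) (nat_lit 5) (nat_lit 72) (nat_lit 5) (nat_lit 82) (nat_lit 5) (nat_lit 302) (nat_lit 300) (nat_lit 118))) (XT.nd (nat_lit 78) (nat_lit 0) (nat_lit 0) (XT.lf (nat_lit 0) (nat_lit 40678352397) (nat_lit 684) (nat_lit 38354118554) (nat_lit 760) (nat_lit 3582110280) (nat_lit 73) (nat_lit 5) (nat_lit 82) (nat_lit 5) (nat_lit 83) (nat_lit 5) (nat_lit 303) (nat_lit 300)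 (nat_lit 117)) (XT.nd (nat_lit 78) (nat_lit 0) (nat_lit 0) (XT.lf (nat_lit 0) (nat_lit 43497490466) (nat_lit 684) (nat_lit 2592968201) (nat_lit 760) (nat_lit 38653948276) (nat_lit 73) (nat_lit 5) (nat_lit 82) (nat_lit 5) (nat_lit 83) (nat_lit 5) (nat_lit 304) (nat_lit 300) (nat_lit 116)) (XT.lf (nat_lit 76) (nat_lit 36111678722) (nat_lit 0) (nat_lit 10909151031) (nat_lit 760) (nat_lit 39931733813) (nat_lit 74) (nat_lit 5) (nat_lit 73) (nat_lit 5) (nat_lit 83) (nat_lit 5) (nat_lit 305) (nat_lit 300) (nat_lit 115))))))) (XT.nd (nat_lit 702) (nat_lit 1216) (nat_lit 0) (XT.nd (nat_lit 312) (nat_lit 912) (nat_lit 0) (XT.nd (nat_lit 156) (nat_lit 0) (nat_lit 76) (XT.nd (nat_lit 78) (nat_lit 0) (nat_lit 0) (XT.lf (nat_lit 0) (nat_lit 51170853225) (nat_lit 684) (nat_lit 12834878550) (nat_lit 760) (nat_lit 25242872136) (nat_lit 74) (nat_lit 5) (nat_lit 83) (nat_lit 5) (nat_lit 84) (nat_lit 5)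 (nat_lit 306) (nat_lit 300) (nat_lit 114)) (XT.lf (nat_lit 76) (nat_lit 27781400235) (nat_lit 0) (nat_lit 28359051056) (nat_lit 760) (nat_lit 35488392980) (nat_lit 75) (nat_lit 5) (nat_lit 74) (nat_lit 5) (nat_lit 84) (nat_lit 5) (nat_lit 307) (nat_lit 300) (nat_lit 113))) (XT.nd (nat_lit 78) (nat_lit 0) (nat_lit 0) (XT.lf (nat_lit 0) (nat_lit 61720575119) (nat_lit 684) (nat_lit 23388698236) (nat_lit 760) (nat_lit 9000722591) (nat_lit 75) (nat_lit 5) (nat_lit 84) (nat_lit 5) (nat_lit 85) (nat_lit 5) (nat_lit 308) (nat_lit 300) (nat_lit 112)) (XT.lf (nat_lit 76) (nat_lit 19243627316) (nat_lit 0) (nat_lit 49100960649) (nat_lit 760) (nat_lit 28332374612) (nat_lit 76) (nat_lit 5) (nat_lit 75) (nat_lit 5) (nat_lit 85) (nat_lit 5) (nat_lit 309) (nat_lit 300) (nat_lit 111)))) (XT.nd (nat_lit 156) (nat_lit 380) (nat_lit 0) (XT.nd (nat_lit 78) (nat_lit 608) (nat_lit 0) (XT.lf (nat_lit 76) (nat_lit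 64819206610) (nat_lit 0) (nat_lit 10876243679) (nat_lit 760) (nat_lit 23657046250) (nat_lit 76) (nat_lit 5) (nat_lit 75) (nat_lit 5) (nat_lit 85) (nat_lit 5) (nat_lit 310) (nat_lit 300) (nat_lit 110)) (XT.lf (nat_lit 0) (nat_lit 10387008760) (nat_lit 684) (nat_lit 73645415953) (nat_lit 760) (nat_lit 18098455411) (nat_lit 67) (nat_lit 5) (nat_lit 76) (nat_lit 5) (nat_lit 77) (nat_lit 5) (nat_lit 311) (nat_lit 300) (nat_lit 109))) (XT.nd (nat_lit 78) (nat_lit 380) (nat_lit 0) (XT.lf (nat_lit 0) (nat_lit 58567679788) (nat_lit 684) (nat_lit 34978416575) (nat_lit 760) (nat_lit 11464095408) (nat_lit 67) (nat_lit 5) (nat_lit 76) (nat_lit 5) (nat_lit 77) (nat_lit 5) (nat_lit 312) (nat_lit 300) (nat_lit 108)) (XT.nd (nat_lit 78) (nat_lit 76) (nat_lit 0) (XT.lf (nat_lit 0) (nat_lit 1070018348) (nat_lit 304) (nat_lit 102569520954) (nat_lit 380) (nat_lit 4388726558) (nat_lit 63) (nat_lit 5) (nat_lit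 67) (nat_lit 5) (nat_lit 68) (nat_lit 5) (nat_lit 313) (nat_lit 300) (nat_lit 107)) (XT.lf (nat_lit 0) (nat_lit 4315548782) (nat_lit 380) (nat_lit 59221520975) (nat_lit 76) (nat_lit 47589179050) (nat_lit 62) (nat_lit 5) (nat_lit 67) (nat_lit 5) (nat_lit 63) (nat_lit 5) (nat_lit 314) (nat_lit 300) (nat_lit 106)))))) (XT.nd (nat_lit 312) (nat_lit 532) (nat_lit 0) (XT.nd (nat_lit 156) (nat_lit 304) (nat_lit 0) (XT.nd (nat_lit 78) (nat_lit 380) (nat_lit 0) (XT.lf (nat_lit 0) (nat_lit 13307179544) (nat_lit 380) (nat_lit 9170264553) (nat_lit 76) (nat_lit 91898108981) (nat_lit 62) (nat_lit 5) (nat_lit 67) (nat_lit 5) (nat_lit 63) (nat_lit 5) (nat_lit 315) (nat_lit 300) (nat_lit 105)) (XT.lf (nat_lit 0) (nat_lit 23781414067) (nat_lit 456) (nat_lit 73268341848) (nat_lit 76) (nat_lit 20685916561) (nat_lit 57) (nat_lit 5) (nat_lit 63) (nat_lit 5) (nat_lit 58) (nat_lit 5) (nat_lit 316) (nat_lit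 300) (nat_lit 104))) (XT.nd (nat_lit 78) (nat_lit 304) (nat_lit 0) (XT.lf (nat_lit 0) (nat_lit 35305352476) (nat_lit 456) (nat_lit 20522240293) (nat_lit 76) (nat_lit 65409906445) (nat_lit 57) (nat_lit 5) (nat_lit 63) (nat_lit 5) (nat_lit 58) (nat_lit 5) (nat_lit 317) (nat_lit 300) (nat_lit 103)) (XT.lf (nat_lit 0) (nat_lit 36013484267) (nat_lit 304) (nat_lit 11953951767) (nat_lit 380) (nat_lit 76918884770) (nat_lit 53) (nat_lit 5) (nat_lit 57) (nat_lit 5) (nat_lit 58) (nat_lit 5) (nat_lit 318) (nat_lit 300) (nat_lit 102)))) (XT.nd (nat_lit 156) (nat_lit 228) (nat_lit 0) (XT.nd (nat_lit 78) (nat_lit 304) (nat_lit 0) (XT.lf (nat_lit 0) (nat_lit 62148167468) (nat_lit 380) (nat_lit 33150377050) (nat_lit 76) (nat_lit 33374762658) (nat_lit 53) (nat_lit 5) (nat_lit 58) (nat_lit 5) (nat_lit 54) (nat_lit 5) (nat_lit 319) (nat_lit 300) (nat_lit 101)) (XT.lf (nat_lit 0) (nat_lit 25993872639) (nat_lit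 304) (nat_lit 51645568065) (nat_lit 380) (nat_lit 54980127742) (nat_lit 49) (nat_lit 5) (nat_lit 53) (nat_lit 5) (nat_lit 54) (nat_lit 5) (nat_lit 320) (nat_lit 300) (nat_lit 100))) (XT.nd (nat_lit 78) (nat_lit 228) (nat_lit 0) (XT.lf (nat_lit 0) (nat_lit 89245913803) (nat_lit 304) (nat_lit 5220492186) (nat_lit 380) (nat_lit 42268681176) (nat_lit 49) (nat_lit 5) (nat_lit 53) (nat_lit 5) (nat_lit 54) (nat_lit 5) (nat_lit 321) (nat_lit 300) (nat_lit 99)) (XT.nd (nat_lit 78) (nat_lit 0) (nat_lit 0) (XT.lf (nat_lit 0) (nat_lit 14384689151) (nat_lit 228) (nat_lit 98653899923) (nat_lit 304) (nat_lit 27972600032) (nat_lit 46) (nat_lit 5) (nat_lit 49) (nat_lit 5) (nat_lit 50) (nat_lit 5) (nat_lit 322) (nat_lit 300) (nat_lit 98)) (XT.lf (nat_lit 0) (nat_lit 80912229708) (nat_lit 228) (nat_lit 52515337286) (nat_lit 304) (nat_lit 12029120594) (nat_lit 46) (nat_lit 5) (nat_lit 49) (nat_lit 5) (nat_lit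 50) (nat_lit 5) (nat_lit 323) (nat_lit 300) (nat_lit 97))))))))
noncomputable def xc248 : XT := (XT.nd (nat_lit 36348) (nat_lit 0) (nat_lit 684) (XT.nd (nat_lit 624) (nat_lit 76) (nat_lit 0) (XT.nd (nat_lit 312) (nat_lit 380) (nat_lit 0) (XT.nd (nat_lit 156) (nat_lit 228) (nat_lit 0) (XT.nd (nat_lit 78) (nat_lit 0) (nat_lit 0) (XT.lf (nat_lit 0) (nat_lit 586586096) (nat_lit 304) (nat_lit 3983046468) (nat_lit 380) (nat_lit 145550706169) (nat_lit 41) (nat_lit 5) (nat_lit 45) (nat_lit 5) (nat_lit 46) (nat_lit 5) (nat_lit 324) (nat_lit 300) (nat_lit 96)) (XT.lf (nat_lit 0) (nat_lit 23438248653) (nat_lit 380) (nat_lit 84696362471) (nat_lit 76) (nat_lit 46780492874) (nat_lit 41) (nat_lit 5) (nat_lit 46) (nat_lit 5) (nat_lit 42) (nat_lit 5) (nat_lit 325) (nat_lit 300) (nat_lit 95))) (XT.nd (nat_lit 78) (nat_lit 228) (nat_lit 0) (XT.lf (nat_lit 0) (nat_lit 43315350090) (nat_lit 380) (nat_lit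 16682705005) (nat_lit 76) (nat_lit 99948300304) (nat_lit 41) (nat_lit 5) (nat_lit 46) (nat_lit 5) (nat_lit 42) (nat_lit 5) (nat_lit 326) (nat_lit 300) (nat_lit 94)) (XT.lf (nat_lit 0) (nat_lit 56541008950) (nat_lit 228) (nat_lit 8527831446) (nat_lit 304) (nat_lit 100116202855) (nat_lit 38) (nat_lit 5) (nat_lit 41) (nat_lit 5) (nat_lit 42) (nat_lit 5) (nat_lit 327) (nat_lit 300) (nat_lit 93)))) (XT.nd (nat_lit 156) (nat_lit 152) (nat_lit 0) (XT.nd (nat_lit 78) (nat_lit 228) (nat_lit 0) (XT.lf (nat_lit 0) (nat_lit 88907573001) (nat_lit 304) (nat_lit 37382004791) (nat_lit 76) (nat_lit 44346209858) (nat_lit 38) (nat_lit 5) (nat_lit 42) (nat_lit 5) (nat_lit 39) (nat_lit 5) (nat_lit 328) (nat_lit 300) (nat_lit 92)) (XT.lf (nat_lit 0) (nat_lit 38536449111) (nat_lit 228) (nat_lit 76143041949) (nat_lit 304) (nat_lit 61642516284) (nat_lit 35) (nat_lit 5) (nat_lit 38) (nat_lit 5) (nat_lit 39)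 (nat_lit 5) (nat_lit 329) (nat_lit 300) (nat_lit 91))) (XT.nd (nat_lit 78) (nat_lit 152) (nat_lit 0) (XT.lf (nat_lit 0) (nat_lit 119548365474) (nat_lit 228) (nat_lit 22824514047) (nat_lit 304) (nat_lit 39888015271) (nat_lit 35) (nat_lit 5) (nat_lit 38) (nat_lit 5) (nat_lit 39) (nat_lit 5) (nat_lit 330) (nat_lit 300) (nat_lit 90)) (XT.lf (nat_lit 0) (nat_lit 16111835757) (nat_lit 152) (nat_lit 156108173152) (nat_lit 228) (nat_lit 16238264597) (nat_lit 33) (nat_lit 5) (nat_lit 35) (nat_lit 5) (nat_lit 36) (nat_lit 5) (nat_lit 331) (nat_lit 300) (nat_lit 89))))) (XT.nd (nat_lit 35334) (nat_lit 0) (nat_lit 3116) (XT.nd (nat_lit 35178) (nat_lit 0) (nat_lit 3040) (XT.nd (nat_lit 35100) (nat_lit 0) (nat_lit 3040) (XT.lf (nat_lit 0) (nat_lit 9772365748) (nat_lit 228) (nat_lit 94383798185) (nat_lit 76) (nat_lit 90729976200) (nat_lit 32) (nat_lit 5) (nat_lit 35) (nat_lit 5) (nat_lit 33) (nat_lit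 5) (nat_lit 332) (nat_lit 300) (nat_lit 88)) (XT.lf (nat_lit 0) (nat_lit 9377182038) (nat_lit 0) (nat_lit 9377182038) (nat_lit 684) (nat_lit 21501802917) (nat_lit 72) (nat_lit 5) (nat_lit 72) (nat_lit 3) (nat_lit 81) (nat_lit 3) (nat_lit 301) (nat_lit 301) (nat_lit 118))) (XT.nd (nat_lit 78) (nat_lit 0) (nat_lit 0) (XT.lf (nat_lit 0) (nat_lit 38715700361) (nat_lit 684) (nat_lit 27674969801) (nat_lit 760) (nat_lit 16120979292) (nat_lit 72) (nat_lit 5) (nat_lit 81) (nat_lit 3) (nat_lit 82) (nat_lit 5) (nat_lit 302) (nat_lit 301) (nat_lit 117)) (XT.lf (nat_lit 76) (nat_lit 8062448632) (nat_lit 0) (nat_lit 32353311810) (nat_lit 760) (nat_lit 44173535221) (nat_lit 73) (nat_lit 5) (nat_lit 72) (nat_lit 5) (nat_lit 82) (nat_lit 5) (nat_lit 303) (nat_lit 301) (nat_lit 116)))) (XT.nd (nat_lit 156) (nat_lit 0) (nat_lit 0) (XT.nd (nat_lit 78) (nat_lit 0) (nat_lit 0) (XT.lf (nat_lit 0) (nat_lit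 42729499380) (nat_lit 684) (nat_lit 40260746512) (nat_lit 760) (nat_lit 3754146338) (nat_lit 73) (nat_lit 5) (nat_lit 82) (nat_lit 5) (nat_lit 83) (nat_lit 5) (nat_lit 304) (nat_lit 301) (nat_lit 115)) (XT.lf (nat_lit 0) (nat_lit 45688773907) (nat_lit 684) (nat_lit 2712066164) (nat_lit 760) (nat_lit 40579912875) (nat_lit 73) (nat_lit 5) (nat_lit 82) (nat_lit 5) (nat_lit 83) (nat_lit 5) (nat_lit 305) (nat_lit 301) (nat_lit 114))) (XT.nd (nat_lit 78) (nat_lit 0) (nat_lit 76) (XT.lf (nat_lit 76) (nat_lit 37927642937) (nat_lit 0) (nat_lit 11460017909) (nat_lit 760) (nat_lit 41911690085) (nat_lit 74) (nat_lit 5) (nat_lit 73) (nat_lit 5) (nat_lit 83) (nat_lit 5) (nat_lit 306) (nat_lit 301) (nat_lit 113)) (XT.nd (nat_lit 78) (nat_lit 0) (nat_lit 0) (XT.lf (nat_lit 0) (nat_lit 53744353173) (nat_lit 684) (nat_lit 13465855290) (nat_lit 760) (nat_lit 26500028890) (nat_lit 74) (nat_lit 5) (nat_lit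 83) (nat_lit 5) (nat_lit 84) (nat_lit 5) (nat_lit 307) (nat_lit 301) (nat_lit 112)) (XT.lf (nat_lit 76) (nat_lit 29181063769) (nat_lit 0) (nat_lit 29780820516) (nat_lit 760) (nat_lit 37247635118) (nat_lit 75) (nat_lit 5) (nat_lit 74) (nat_lit 5) (nat_lit 84) (nat_lit 5) (nat_lit 308) (nat_lit 301) (nat_lit 111))))))) (XT.nd (nat_lit 702) (nat_lit 1216) (nat_lit 0) (XT.nd (nat_lit 312) (nat_lit 760) (nat_lit 0) (XT.nd (nat_lit 156) (nat_lit 608) (nat_lit 0) (XT.nd (nat_lit 78) (nat_lit 0) (nat_lit 0) (XT.lf (nat_lit 0) (nat_lit 64820271339) (nat_lit 684) (nat_lit 24547256769) (nat_lit 760) (nat_lit 9447239919) (nat_lit 75) (nat_lit 5) (nat_lit 84) (nat_lit 5) (nat_lit 85) (nat_lit 5) (nat_lit 309) (nat_lit 301) (nat_lit 110)) (XT.lf (nat_lit 76) (nat_lit 20216509635) (nat_lit 0) (nat_lit 51558491433) (nat_lit 760) (nat_lit 29735108222) (nat_lit 76) (nat_lit 5) (nat_lit 75) (nat_lit 5)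 (nat_lit 85) (nat_lit 5) (nat_lit 310) (nat_lit 301) (nat_lit 109))) (XT.nd (nat_lit 78) (nat_lit 608) (nat_lit 0) (XT.lf (nat_lit 76) (nat_lit 68070358324) (nat_lit 0) (nat_lit 11422420388) (nat_lit 760) (nat_lit 24826674639) (nat_lit 76) (nat_lit 5) (nat_lit 75) (nat_lit 5) (nat_lit 85) (nat_lit 5) (nat_lit 311) (nat_lit 301) (nat_lit 108)) (XT.lf (nat_lit 0) (nat_lit 10917079767) (nat_lit 684) (nat_lit 77329056409) (nat_lit 760) (nat_lit 18990645138) (nat_lit 67) (nat_lit 5) (nat_lit 76) (nat_lit 5) (nat_lit 77) (nat_lit 5) (nat_lit 312) (nat_lit 301) (nat_lit 107)))) (XT.nd (nat_lit 156) (nat_lit 456) (nat_lit 0) (XT.nd (nat_lit 78) (nat_lit 304) (nat_lit 0) (XT.lf (nat_lit 0) (nat_lit 61506273843) (nat_lit 684) (nat_lit 36728641840) (nat_lit 760) (nat_lit 12025173470) (nat_lit 67) (nat_lit 5) (nat_lit 76) (nat_lit 5) (nat_lit 77) (nat_lit 5) (nat_lit 313) (nat_lit 301) (nat_lit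 106)) (XT.lf (nat_lit 0) (nat_lit 1134187022) (nat_lit 304) (nat_lit 107698442595) (nat_lit 380) (nat_lit 4596459125) (nat_lit 63) (nat_lit 5) (nat_lit 67) (nat_lit 5) (nat_lit 68) (nat_lit 5) (nat_lit 314) (nat_lit 301) (nat_lit 105))) (XT.nd (nat_lit 78) (nat_lit 380) (nat_lit 0) (XT.lf (nat_lit 0) (nat_lit 4542115905) (nat_lit 380) (nat_lit 62172048986) (nat_lit 76) (nat_lit 49967825358) (nat_lit 62) (nat_lit 5) (nat_lit 67) (nat_lit 5) (nat_lit 63) (nat_lit 5) (nat_lit 315) (nat_lit 301) (nat_lit 104)) (XT.nd (nat_lit 78) (nat_lit 380) (nat_lit 0) (XT.lf (nat_lit 0) (nat_lit 13982814411) (nat_lit 380) (nat_lit 9618732031) (nat_lit 76) (nat_lit 96492240483) (nat_lit 62) (nat_lit 5) (nat_lit 67) (nat_lit 5) (nat_lit 63) (nat_lit 5) (nat_lit 316) (nat_lit 301) (nat_lit 103)) (XT.lf (nat_lit 0) (nat_lit 24980424752) (nat_lit 456) (nat_lit 76921348699) (nat_lit 76) (nat_lit 21720157067)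 (nat_lit 57) (nat_lit 5) (nat_lit 63) (nat_lit 5) (nat_lit 58) (nat_lit 5) (nat_lit 317) (nat_lit 301) (nat_lit 102)))))) (XT.nd (nat_lit 312) (nat_lit 608) (nat_lit 0) (XT.nd (nat_lit 156) (nat_lit 304) (nat_lit 0) (XT.nd (nat_lit 78) (nat_lit 304) (nat_lit 0) (XT.lf (nat_lit 0) (nat_lit 37080086749) (nat_lit 456) (nat_lit 21538437792) (nat_lit 76) (nat_lit 68680349078) (nat_lit 57) (nat_lit 5) (nat_lit 63) (nat_lit 5) (nat_lit 58) (nat_lit 5) (nat_lit 318) (nat_lit 301) (nat_lit 101)) (XT.lf (nat_lit 0) (nat_lit 37823913085) (nat_lit 304) (nat_lit 12551062904) (nat_lit 380) (nat_lit 80755176522) (nat_lit 53) (nat_lit 5) (nat_lit 57) (nat_lit 5) (nat_lit 58) (nat_lit 5) (nat_lit 319) (nat_lit 301) (nat_lit 100))) (XT.nd (nat_lit 78) (nat_lit 304) (nat_lit 0) (XT.lf (nat_lit 0) (nat_lit 65264316135) (nat_lit 380) (nat_lit 34798153253) (nat_lit 76) (nat_lit 35044041440) (nat_lit 53)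 (nat_lit 5) (nat_lit 58) (nat_lit 5) (nat_lit 54) (nat_lit 5) (nat_lit 320) (nat_lit 301) (nat_lit 99)) (XT.lf (nat_lit 0) (nat_lit 27303151781) (nat_lit 304) (nat_lit 54226734705) (nat_lit 380) (nat_lit 57720213179) (nat_lit 49) (nat_lit 5) (nat_lit 53) (nat_lit 5) (nat_lit 54) (nat_lit 5) (nat_lit 321) (nat_lit 301) (nat_lit 98)))) (XT.nd (nat_lit 156) (nat_lit 380) (nat_lit 0) (XT.nd (nat_lit 78) (nat_lit 228) (nat_lit 0) (XT.lf (nat_lit 0) (nat_lit 93717338550) (nat_lit 304) (nat_lit 5480457972) (nat_lit 380) (nat_lit 44373619092) (nat_lit 49) (nat_lit 5) (nat_lit 53) (nat_lit 5) (nat_lit 54) (nat_lit 5) (nat_lit 322) (nat_lit 301) (nat_lit 97)) (XT.lf (nat_lit 0) (nat_lit 15113308197) (nat_lit 228) (nat_lit 103585058532) (nat_lit 304) (nat_lit 29362968093) (nat_lit 46) (nat_lit 5) (nat_lit 49) (nat_lit 5) (nat_lit 50) (nat_lit 5) (nat_lit 323) (nat_lit 301) (nat_lit 96))) (XT.nd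 (nat_lit 78) (nat_lit 380) (nat_lit 0) (XT.lf (nat_lit 0) (nat_lit 84966778897) (nat_lit 228) (nat_lit 55139640925) (nat_lit 304) (nat_lit 12622708108) (nat_lit 46) (nat_lit 5) (nat_lit 49) (nat_lit 5) (nat_lit 50) (nat_lit 5) (nat_lit 324) (nat_lit 301) (nat_lit 95)) (XT.nd (nat_lit 78) (nat_lit 0) (nat_lit 0) (XT.lf (nat_lit 0) (nat_lit 624975762) (nat_lit 304) (nat_lit 4180533863) (nat_lit 380) (nat_lit 152820457847) (nat_lit 41) (nat_lit 5) (nat_lit 45) (nat_lit 5) (nat_lit 46) (nat_lit 5) (nat_lit 325) (nat_lit 301) (nat_lit 94)) (XT.lf (nat_lit 0) (nat_lit 24617229111) (nat_lit 380) (nat_lit 88922206725) (nat_lit 76) (nat_lit 49121052413) (nat_lit 41) (nat_lit 5) (nat_lit 46) (nat_lit 5) (nat_lit 42) (nat_lit 5) (nat_lit 326) (nat_lit 301) (nat_lit 93))))))))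
noncomputable def xc249 : XT := (XT.nd (nat_lit 36504) (nat_lit 0) (nat_lit 228) (XT.nd (nat_lit 35802) (nat_lit 0) (nat_lit 2432) (XT.nd (nat_lit 312) (nat_lit 0) (nat_lit 0) (XT.nd (nat_lit 156) (nat_lit 228) (nat_lit 0) (XT.nd (nat_lit 78) (nat_lit 228) (nat_lit 0) (XT.lf (nat_lit 0) (nat_lit 45487849048) (nat_lit 380) (nat_lit 17508293712) (nat_lit 76) (nat_lit 104947177124) (nat_lit 41) (nat_lit 5) (nat_lit 46) (nat_lit 5) (nat_lit 42) (nat_lit 5) (nat_lit 327) (nat_lit 301) (nat_lit 92)) (XT.lf (nat_lit 0) (nat_lit 59376468093) (nat_lit 228) (nat_lit 8952356514) (nat_lit 304) (nat_lit 105115127781) (nat_lit 38) (nat_lit 5) (nat_lit 41) (nat_lit 5) (nat_lit 42) (nat_lit 5) (nat_lit 328) (nat_lit 301) (nat_lit 91))) (XT.nd (nat_lit 78) (nat_lit 228) (nat_lit 0) (XT.lf (nat_lit 0) (nat_lit 93359210063) (nat_lit 304) (nat_lit 39242797811) (nat_lit 76) (nat_lit 46565241079) (nat_lit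 38) (nat_lit 5) (nat_lit 42) (nat_lit 5) (nat_lit 39) (nat_lit 5) (nat_lit 329) (nat_lit 301) (nat_lit 90)) (XT.lf (nat_lit 0) (nat_lit 40471444799) (nat_lit 228) (nat_lit 79948108814) (nat_lit 304) (nat_lit 64718235262) (nat_lit 35) (nat_lit 5) (nat_lit 38) (nat_lit 5) (nat_lit 39) (nat_lit 5) (nat_lit 330) (nat_lit 301) (nat_lit 89)))) (XT.nd (nat_lit 35334) (nat_lit 0) (nat_lit 2812) (XT.nd (nat_lit 35256) (nat_lit 0) (nat_lit 2812) (XT.lf (nat_lit 0) (nat_lit 125533567778) (nat_lit 228) (nat_lit 23963753813) (nat_lit 304) (nat_lit 41876314286) (nat_lit 35) (nat_lit 5) (nat_lit 38) (nat_lit 5) (nat_lit 39) (nat_lit 5) (nat_lit 331) (nat_lit 301) (nat_lit 88)) (XT.lf (nat_lit 0) (nat_lit 9850588127) (nat_lit 0) (nat_lit 9850588127) (nat_lit 684) (nat_lit 22567314679) (nat_lit 72) (nat_lit 5) (nat_lit 72) (nat_lit 3) (nat_lit 81) (nat_lit 3) (nat_lit 302) (nat_lit 302) (nat_lit 116)))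 (XT.nd (nat_lit 78) (nat_lit 0) (nat_lit 0) (XT.lf (nat_lit 0) (nat_lit 40668672011) (nat_lit 684) (nat_lit 29048999457) (nat_lit 760) (nat_lit 16918644534) (nat_lit 72) (nat_lit 5) (nat_lit 81) (nat_lit 3) (nat_lit 82) (nat_lit 5) (nat_lit 303) (nat_lit 302) (nat_lit 115)) (XT.lf (nat_lit 76) (nat_lit 8475133143) (nat_lit 0) (nat_lit 33977932833) (nat_lit 760) (nat_lit 46364814697) (nat_lit 73) (nat_lit 5) (nat_lit 72) (nat_lit 5) (nat_lit 82) (nat_lit 5) (nat_lit 304) (nat_lit 302) (nat_lit 114))))) (XT.nd (nat_lit 312) (nat_lit 456) (nat_lit 0) (XT.nd (nat_lit 156) (nat_lit 0) (nat_lit 0) (XT.nd (nat_lit 78) (nat_lit 0) (nat_lit 0) (XT.lf (nat_lit 0) (nat_lit 44881601890) (nat_lit 684) (nat_lit 42263735793) (nat_lit 760) (nat_lit 3935441450) (nat_lit 73) (nat_lit 5) (nat_lit 82) (nat_lit 5) (nat_lit 83) (nat_lit 5) (nat_lit 305) (nat_lit 302) (nat_lit 113)) (XT.lf (nat_lit 0) (nat_lit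 47988095975) (nat_lit 684) (nat_lit 2838099905) (nat_lit 760) (nat_lit 42602801657) (nat_lit 73) (nat_lit 5) (nat_lit 82) (nat_lit 5) (nat_lit 83) (nat_lit 5) (nat_lit 306) (nat_lit 302) (nat_lit 112))) (XT.nd (nat_lit 78) (nat_lit 0) (nat_lit 76) (XT.lf (nat_lit 76) (nat_lit 39833440303) (nat_lit 0) (nat_lit 12037925224) (nat_lit 760) (nat_lit 43992190309) (nat_lit 74) (nat_lit 5) (nat_lit 73) (nat_lit 5) (nat_lit 83) (nat_lit 5) (nat_lit 307) (nat_lit 302) (nat_lit 111)) (XT.lf (nat_lit 0) (nat_lit 56445137532) (nat_lit 684) (nat_lit 14129381899) (nat_lit 760) (nat_lit 27820507113) (nat_lit 74) (nat_lit 5) (nat_lit 83) (nat_lit 5) (nat_lit 84) (nat_lit 5) (nat_lit 308) (nat_lit 302) (nat_lit 110)))) (XT.nd (nat_lit 156) (nat_lit 532) (nat_lit 0) (XT.nd (nat_lit 78) (nat_lit 0) (nat_lit 76) (XT.lf (nat_lit 76) (nat_lit 30649725595) (nat_lit 0) (nat_lit 31273323588) (nat_lit 760) (nat_lit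 39096250424) (nat_lit 75) (nat_lit 5) (nat_lit 74) (nat_lit 5) (nat_lit 84) (nat_lit 5) (nat_lit 309) (nat_lit 302) (nat_lit 109)) (XT.lf (nat_lit 0) (nat_lit 68073681698) (nat_lit 684) (nat_lit 25764754412) (nat_lit 760) (nat_lit 9916410258) (nat_lit 75) (nat_lit 5) (nat_lit 84) (nat_lit 5) (nat_lit 85) (nat_lit 5) (nat_lit 310) (nat_lit 302) (nat_lit 108))) (XT.nd (nat_lit 78) (nat_lit 608) (nat_lit 0) (XT.lf (nat_lit 76) (nat_lit 21237041196) (nat_lit 0) (nat_lit 54138667933) (nat_lit 760) (nat_lit 31209269420) (nat_lit 76) (nat_lit 5) (nat_lit 75) (nat_lit 5) (nat_lit 85) (nat_lit 5) (nat_lit 311) (nat_lit 302) (nat_lit 107)) (XT.nd (nat_lit 78) (nat_lit 608) (nat_lit 0) (XT.lf (nat_lit 76) (nat_lit 71483120126) (nat_lit 0) (nat_lit 11995686102) (nat_lit 760) (nat_lit 26056013881) (nat_lit 76) (nat_lit 5) (nat_lit 75) (nat_lit 5) (nat_lit 85) (nat_lit 5) (nat_lit 312) (nat_lit 302)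 (nat_lit 106)) (XT.lf (nat_lit 0) (nat_lit 11472657627) (nat_lit 684) (nat_lit 81196751550) (nat_lit 760) (nat_lit 19928628149) (nat_lit 67) (nat_lit 5) (nat_lit 76) (nat_lit 5) (nat_lit 77) (nat_lit 5) (nat_lit 313) (nat_lit 302) (nat_lit 105))))))) (XT.nd (nat_lit 702) (nat_lit 836) (nat_lit 0) (XT.nd (nat_lit 312) (nat_lit 988) (nat_lit 0) (XT.nd (nat_lit 156) (nat_lit 76) (nat_lit 0) (XT.nd (nat_lit 78) (nat_lit 304) (nat_lit 0) (XT.lf (nat_lit 0) (nat_lit 64590848366) (nat_lit 684) (nat_lit 38566257094) (nat_lit 760) (nat_lit 12615432862) (nat_lit 67) (nat_lit 5) (nat_lit 76) (nat_lit 5) (nat_lit 77) (nat_lit 5) (nat_lit 314) (nat_lit 302) (nat_lit 104)) (XT.lf (nat_lit 0) (nat_lit 1200572342) (nat_lit 304) (nat_lit 113083768891) (nat_lit 380) (nat_lit 4815666425) (nat_lit 63) (nat_lit 5) (nat_lit 67) (nat_lit 5) (nat_lit 68) (nat_lit 5) (nat_lit 315) (nat_lit 302) (nat_lit 103)))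 (XT.nd (nat_lit 78) (nat_lit 0) (nat_lit 0) (XT.lf (nat_lit 0) (nat_lit 4779008261) (nat_lit 380) (nat_lit 65271084055) (nat_lit 76) (nat_lit 52465479534) (nat_lit 62) (nat_lit 5) (nat_lit 67) (nat_lit 5) (nat_lit 63) (nat_lit 5) (nat_lit 316) (nat_lit 302) (nat_lit 102)) (XT.lf (nat_lit 0) (nat_lit 14691275666) (nat_lit 380) (nat_lit 10090556841) (nat_lit 76) (nat_lit 101316150515) (nat_lit 62) (nat_lit 5) (nat_lit 67) (nat_lit 5) (nat_lit 63) (nat_lit 5) (nat_lit 317) (nat_lit 302) (nat_lit 101)))) (XT.nd (nat_lit 156) (nat_lit 608) (nat_lit 0) (XT.nd (nat_lit 78) (nat_lit 0) (nat_lit 0) (XT.lf (nat_lit 0) (nat_lit 26238461846) (nat_lit 456) (nat_lit 80757973738) (nat_lit 76) (nat_lit 22806114741) (nat_lit 57) (nat_lit 5) (nat_lit 63) (nat_lit 5) (nat_lit 58) (nat_lit 5) (nat_lit 318) (nat_lit 302) (nat_lit 100)) (XT.lf (nat_lit 0) (nat_lit 38942677616) (nat_lit 456) (nat_lit 22606366923)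 (nat_lit 76) (nat_lit 72114318743) (nat_lit 57) (nat_lit 5) (nat_lit 63) (nat_lit 5) (nat_lit 58) (nat_lit 5) (nat_lit 319) (nat_lit 302) (nat_lit 99))) (XT.nd (nat_lit 78) (nat_lit 304) (nat_lit 0) (XT.lf (nat_lit 0) (nat_lit 39723956453) (nat_lit 304) (nat_lit 13178084121) (nat_lit 380) (nat_lit 84784180258) (nat_lit 53) (nat_lit 5) (nat_lit 57) (nat_lit 5) (nat_lit 58) (nat_lit 5) (nat_lit 320) (nat_lit 302) (nat_lit 98)) (XT.nd (nat_lit 78) (nat_lit 304) (nat_lit 0) (XT.lf (nat_lit 0) (nat_lit 68535459647) (nat_lit 380) (nat_lit 36529224045) (nat_lit 76) (nat_lit 36796733896) (nat_lit 53) (nat_lit 5) (nat_lit 58) (nat_lit 5) (nat_lit 54) (nat_lit 5) (nat_lit 321) (nat_lit 302) (nat_lit 97)) (XT.lf (nat_lit 0) (nat_lit 28677003710) (nat_lit 304) (nat_lit 56937063038) (nat_lit 380) (nat_lit 60598132274) (nat_lit 49) (nat_lit 5) (nat_lit 53) (nat_lit 5) (nat_lit 54) (nat_lit 5) (nat_lit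 322) (nat_lit 302) (nat_lit 96)))))) (XT.nd (nat_lit 312) (nat_lit 228) (nat_lit 0) (XT.nd (nat_lit 156) (nat_lit 380) (nat_lit 0) (XT.nd (nat_lit 78) (nat_lit 228) (nat_lit 0) (XT.lf (nat_lit 0) (nat_lit 98411485802) (nat_lit 304) (nat_lit 5753520488) (nat_lit 380) (nat_lit 46584593794) (nat_lit 49) (nat_lit 5) (nat_lit 53) (nat_lit 5) (nat_lit 54) (nat_lit 5) (nat_lit 323) (nat_lit 302) (nat_lit 95)) (XT.lf (nat_lit 0) (nat_lit 15877485705) (nat_lit 228) (nat_lit 108762917911) (nat_lit 304) (nat_lit 30823622673) (nat_lit 46) (nat_lit 5) (nat_lit 49) (nat_lit 5) (nat_lit 50) (nat_lit 5) (nat_lit 324) (nat_lit 302) (nat_lit 94))) (XT.nd (nat_lit 78) (nat_lit 380) (nat_lit 0) (XT.lf (nat_lit 0) (nat_lit 89223224602) (nat_lit 228) (nat_lit 57895295783) (nat_lit 304) (nat_lit 13246706538) (nat_lit 46) (nat_lit 5) (nat_lit 49) (nat_lit 5) (nat_lit 50) (nat_lit 5) (nat_lit 325) (nat_lit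 302) (nat_lit 93)) (XT.lf (nat_lit 0) (nat_lit 664442565) (nat_lit 304) (nat_lit 4388050417) (nat_lit 380) (nat_lit 160454420758) (nat_lit 41) (nat_lit 5) (nat_lit 45) (nat_lit 5) (nat_lit 46) (nat_lit 5) (nat_lit 326) (nat_lit 302) (nat_lit 92)))) (XT.nd (nat_lit 156) (nat_lit 228) (nat_lit 0) (XT.nd (nat_lit 78) (nat_lit 0) (nat_lit 0) (XT.lf (nat_lit 0) (nat_lit 25854501475) (nat_lit 380) (nat_lit 93360177496) (nat_lit 76) (nat_lit 51578497229) (nat_lit 41) (nat_lit 5) (nat_lit 46) (nat_lit 5) (nat_lit 42) (nat_lit 5) (nat_lit 327) (nat_lit 302) (nat_lit 91)) (XT.lf (nat_lit 0) (nat_lit 47768347127) (nat_lit 380) (nat_lit 18375956431) (nat_lit 76) (nat_lit 110195861881) (nat_lit 41) (nat_lit 5) (nat_lit 46) (nat_lit 5) (nat_lit 42) (nat_lit 5) (nat_lit 328) (nat_lit 302) (nat_lit 90))) (XT.nd (nat_lit 78) (nat_lit 0) (nat_lit 0) (XT.lf (nat_lit 0) (nat_lit 62352918433) (nat_lit 228)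 (nat_lit 9398281365) (nat_lit 304) (nat_lit 110364639075) (nat_lit 38) (nat_lit 5) (nat_lit 41) (nat_lit 5) (nat_lit 42) (nat_lit 5) (nat_lit 329) (nat_lit 302) (nat_lit 89)) (XT.nd (nat_lit 35412) (nat_lit 0) (nat_lit 2584) (XT.lf (nat_lit 0) (nat_lit 98032847130) (nat_lit 304) (nat_lit 41197402808) (nat_lit 76) (nat_lit 48895063885) (nat_lit 38) (nat_lit 5) (nat_lit 42) (nat_lit 5) (nat_lit 39) (nat_lit 5) (nat_lit 330) (nat_lit 302) (nat_lit 88)) (XT.lf (nat_lit 0) (nat_lit 10347241784) (nat_lit 0) (nat_lit 10347241784) (nat_lit 684) (nat_lit 23686992537) (nat_lit 72) (nat_lit 5) (nat_lit 72) (nat_lit 3) (nat_lit 81) (nat_lit 3) (nat_lit 303) (nat_lit 303) (nat_lit 114))))))))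
noncomputable def xc250 : XT := (XT.nd (nat_lit 1326) (nat_lit 1216) (nat_lit 0) (XT.nd (nat_lit 624) (nat_lit 1140) (nat_lit 0) (XT.nd (nat_lit 312) (nat_lit 0) (nat_lit 76) (XT.nd (nat_lit 156) (nat_lit 0) (nat_lit 76) (XT.nd (nat_lit 78) (nat_lit 0) (nat_lit 0) (XT.lf (nat_lit 0) (nat_lit 42717694393) (nat_lit 684) (nat_lit 30492634161) (nat_lit 760) (nat_lit 17756972478) (nat_lit 72) (nat_lit 5) (nat_lit 81) (nat_lit 3) (nat_lit 82) (nat_lit 5) (nat_lit 304) (nat_lit 303) (nat_lit 113)) (XT.lf (nat_lit 76) (nat_lit 8907562888) (nat_lit 0) (nat_lit 35683138257) (nat_lit 760) (nat_lit 48667275580) (nat_lit 73) (nat_lit 5) (nat_lit 72) (nat_lit 5) (nat_lit 82) (nat_lit 5) (nat_lit 305) (nat_lit 303) (nat_lit 112))) (XT.nd (nat_lit 78) (nat_lit 0) (nat_lit 0) (XT.lf (nat_lit 0) (nat_lit 47139856624) (nat_lit 684) (nat_lit 44367808709) (nat_lit 760) (nat_lit 4126397464) (nat_lit 73)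 (nat_lit 5) (nat_lit 82) (nat_lit 5) (nat_lit 83) (nat_lit 5) (nat_lit 306) (nat_lit 303) (nat_lit 111)) (XT.lf (nat_lit 0) (nat_lit 50401000430) (nat_lit 684) (nat_lit 2971325021) (nat_lit 760) (nat_lit 44727402636) (nat_lit 73) (nat_lit 5) (nat_lit 82) (nat_lit 5) (nat_lit 83) (nat_lit 5) (nat_lit 307) (nat_lit 303) (nat_lit 110)))) (XT.nd (nat_lit 156) (nat_lit 0) (nat_lit 76) (XT.nd (nat_lit 78) (nat_lit 0) (nat_lit 76) (XT.lf (nat_lit 76) (nat_lit 41833652200) (nat_lit 0) (nat_lit 12644271751) (nat_lit 760) (nat_lit 46178117938) (nat_lit 74) (nat_lit 5) (nat_lit 73) (nat_lit 5) (nat_lit 83) (nat_lit 5) (nat_lit 308) (nat_lit 303) (nat_lit 109)) (XT.lf (nat_lit 0) (nat_lit 59279699805) (nat_lit 684) (nat_lit 14826992802) (nat_lit 760) (nat_lit 29207429774) (nat_lit 74) (nat_lit 5) (nat_lit 83) (nat_lit 5) (nat_lit 84) (nat_lit 5) (nat_lit 309) (nat_lit 303) (nat_lit 108))) (XT.nd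 (nat_lit 78) (nat_lit 0) (nat_lit 76) (XT.lf (nat_lit 76) (nat_lit 32190927193) (nat_lit 0) (nat_lit 32840129946) (nat_lit 760) (nat_lit 41038576369) (nat_lit 75) (nat_lit 5) (nat_lit 74) (nat_lit 5) (nat_lit 84) (nat_lit 5) (nat_lit 310) (nat_lit 303) (nat_lit 107)) (XT.lf (nat_lit 0) (nat_lit 71488610039) (nat_lit 684) (nat_lit 27044044110) (nat_lit 760) (nat_lit 10409335844) (nat_lit 75) (nat_lit 5) (nat_lit 84) (nat_lit 5) (nat_lit 85) (nat_lit 5) (nat_lit 311) (nat_lit 303) (nat_lit 106))))) (XT.nd (nat_lit 312) (nat_lit 760) (nat_lit 0) (XT.nd (nat_lit 156) (nat_lit 608) (nat_lit 0) (XT.nd (nat_lit 78) (nat_lit 0) (nat_lit 0) (XT.lf (nat_lit 76) (nat_lit 22307696956) (nat_lit 0) (nat_lit 56847643895) (nat_lit 760) (nat_lit 32758309568) (nat_lit 76) (nat_lit 5) (nat_lit 75) (nat_lit 5) (nat_lit 85) (nat_lit 5) (nat_lit 312) (nat_lit 303) (nat_lit 105)) (XT.lf (nat_lit 76) (nat_lit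 75065660608) (nat_lit 0) (nat_lit 12597415707) (nat_lit 760) (nat_lit 27347935220) (nat_lit 76) (nat_lit 5) (nat_lit 75) (nat_lit 5) (nat_lit 85) (nat_lit 5) (nat_lit 313) (nat_lit 303) (nat_lit 104))) (XT.nd (nat_lit 78) (nat_lit 0) (nat_lit 0) (XT.lf (nat_lit 0) (nat_lit 12055110348) (nat_lit 684) (nat_lit 85257715949) (nat_lit 760) (nat_lit 20914584050) (nat_lit 67) (nat_lit 5) (nat_lit 76) (nat_lit 5) (nat_lit 77) (nat_lit 5) (nat_lit 314) (nat_lit 303) (nat_lit 103)) (XT.lf (nat_lit 0) (nat_lit 67828790631) (nat_lit 684) (nat_lit 40495643112) (nat_lit 760) (nat_lit 13236227832) (nat_lit 67) (nat_lit 5) (nat_lit 76) (nat_lit 5) (nat_lit 77) (nat_lit 5) (nat_lit 315) (nat_lit 303) (nat_lit 102)))) (XT.nd (nat_lit 156) (nat_lit 380) (nat_lit 0) (XT.nd (nat_lit 78) (nat_lit 76) (nat_lit 0) (XT.lf (nat_lit 0) (nat_lit 1269377349) (nat_lit 304) (nat_lit 118738323926) (nat_lit 380) (nat_lit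 5046821032) (nat_lit 63) (nat_lit 5) (nat_lit 67) (nat_lit 5) (nat_lit 68) (nat_lit 5) (nat_lit 316) (nat_lit 303) (nat_lit 101)) (XT.lf (nat_lit 0) (nat_lit 5026835374) (nat_lit 380) (nat_lit 68525960361) (nat_lit 76) (nat_lit 55088084947) (nat_lit 62) (nat_lit 5) (nat_lit 67) (nat_lit 5) (nat_lit 63) (nat_lit 5) (nat_lit 317) (nat_lit 303) (nat_lit 100))) (XT.nd (nat_lit 78) (nat_lit 380) (nat_lit 0) (XT.lf (nat_lit 0) (nat_lit 15434293449) (nat_lit 380) (nat_lit 10586820020) (nat_lit 76) (nat_lit 106381321313) (nat_lit 62) (nat_lit 5) (nat_lit 67) (nat_lit 5) (nat_lit 63) (nat_lit 5) (nat_lit 318) (nat_lit 303) (nat_lit 99)) (XT.nd (nat_lit 78) (nat_lit 0) (nat_lit 0) (XT.lf (nat_lit 0) (nat_lit 27558562586) (nat_lit 456) (nat_lit 84787307893) (nat_lit 76) (nat_lit 23946374963) (nat_lit 57) (nat_lit 5) (nat_lit 63) (nat_lit 5) (nat_lit 58) (nat_lit 5) (nat_lit 319) (nat_lit 303)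 (nat_lit 98)) (XT.lf (nat_lit 0) (nat_lit 40897599732) (nat_lit 456) (nat_lit 23728528573) (nat_lit 76) (nat_lit 75719991333) (nat_lit 57) (nat_lit 5) (nat_lit 63) (nat_lit 5) (nat_lit 58) (nat_lit 5) (nat_lit 320) (nat_lit 303) (nat_lit 97))))))) (XT.nd (nat_lit 36192) (nat_lit 0) (nat_lit 2356) (XT.nd (nat_lit 312) (nat_lit 608) (nat_lit 0) (XT.nd (nat_lit 156) (nat_lit 304) (nat_lit 0) (XT.nd (nat_lit 78) (nat_lit 0) (nat_lit 0) (XT.lf (nat_lit 0) (nat_lit 41718179413) (nat_lit 304) (nat_lit 13836505852) (nat_lit 380) (nat_lit 89015448146) (nat_lit 53) (nat_lit 5) (nat_lit 57) (nat_lit 5) (nat_lit 58) (nat_lit 5) (nat_lit 321) (nat_lit 303) (nat_lit 96)) (XT.lf (nat_lit 0) (nat_lit 71969423291) (nat_lit 380) (nat_lit 38347669945) (nat_lit 76) (nat_lit 38637015384) (nat_lit 53) (nat_lit 5) (nat_lit 58) (nat_lit 5) (nat_lit 54) (nat_lit 5) (nat_lit 322) (nat_lit 303) (nat_lit 95)))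 (XT.nd (nat_lit 78) (nat_lit 0) (nat_lit 0) (XT.lf (nat_lit 0) (nat_lit 30118739919) (nat_lit 304) (nat_lit 59783001539) (nat_lit 380) (nat_lit 63620699600) (nat_lit 49) (nat_lit 5) (nat_lit 53) (nat_lit 5) (nat_lit 54) (nat_lit 5) (nat_lit 323) (nat_lit 303) (nat_lit 94)) (XT.lf (nat_lit 0) (nat_lit 103339570590) (nat_lit 304) (nat_lit 6040325416) (nat_lit 380) (nat_lit 48906833686) (nat_lit 49) (nat_lit 5) (nat_lit 53) (nat_lit 5) (nat_lit 54) (nat_lit 5) (nat_lit 324) (nat_lit 303) (nat_lit 93)))) (XT.nd (nat_lit 156) (nat_lit 380) (nat_lit 0) (XT.nd (nat_lit 78) (nat_lit 0) (nat_lit 0) (XT.lf (nat_lit 0) (nat_lit 16679080714) (nat_lit 228) (nat_lit 114199799817) (nat_lit 304) (nat_lit 32358006687) (nat_lit 46) (nat_lit 5) (nat_lit 49) (nat_lit 5) (nat_lit 50) (nat_lit 5) (nat_lit 325) (nat_lit 303) (nat_lit 92)) (XT.lf (nat_lit 0) (nat_lit 93691738902) (nat_lit 228) (nat_lit 60788856773)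 (nat_lit 304) (nat_lit 13902568417) (nat_lit 46) (nat_lit 5) (nat_lit 49) (nat_lit 5) (nat_lit 50) (nat_lit 5) (nat_lit 326) (nat_lit 303) (nat_lit 91))) (XT.nd (nat_lit 78) (nat_lit 0) (nat_lit 0) (XT.lf (nat_lit 0) (nat_lit 705118674) (nat_lit 304) (nat_lit 4606083198) (nat_lit 380) (nat_lit 168470738184) (nat_lit 41) (nat_lit 5) (nat_lit 45) (nat_lit 5) (nat_lit 46) (nat_lit 5) (nat_lit 327) (nat_lit 303) (nat_lit 90)) (XT.nd (nat_lit 78) (nat_lit 0) (nat_lit 0) (XT.lf (nat_lit 0) (nat_lit 27153041431) (nat_lit 380) (nat_lit 98020803545) (nat_lit 76) (nat_lit 54158684853) (nat_lit 41) (nat_lit 5) (nat_lit 46) (nat_lit 5) (nat_lit 42) (nat_lit 5) (nat_lit 328) (nat_lit 303) (nat_lit 89)) (XT.lf (nat_lit 0) (nat_lit 50162302466) (nat_lit 380) (nat_lit 19287722991) (nat_lit 76) (nat_lit 115706857605) (nat_lit 41) (nat_lit 5) (nat_lit 46) (nat_lit 5) (nat_lit 42) (nat_lit 5) (nat_lit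 329) (nat_lit 303) (nat_lit 88)))))) (XT.nd (nat_lit 312) (nat_lit 0) (nat_lit 76) (XT.nd (nat_lit 156) (nat_lit 0) (nat_lit 0) (XT.nd (nat_lit 78) (nat_lit 0) (nat_lit 0) (XT.lf (nat_lit 0) (nat_lit 10868344690) (nat_lit 0) (nat_lit 10868344690) (nat_lit 684) (nat_lit 24863462005) (nat_lit 72) (nat_lit 5) (nat_lit 72) (nat_lit 3) (nat_lit 81) (nat_lit 3) (nat_lit 304) (nat_lit 304) (nat_lit 112)) (XT.lf (nat_lit 0) (nat_lit 44867718597) (nat_lit 684) (nat_lit 32009270159) (nat_lit 760) (nat_lit 18637923792) (nat_lit 72) (nat_lit 5) (nat_lit 81) (nat_lit 3) (nat_lit 82) (nat_lit 5) (nat_lit 305) (nat_lit 304) (nat_lit 111))) (XT.nd (nat_lit 78) (nat_lit 0) (nat_lit 76) (XT.lf (nat_lit 76) (nat_lit 9360807778) (nat_lit 0) (nat_lit 37473017421) (nat_lit 760) (nat_lit 51086326569) (nat_lit 73) (nat_lit 5) (nat_lit 72) (nat_lit 5) (nat_lit 82) (nat_lit 5) (nat_lit 306) (nat_lit 304) (nat_lit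 110)) (XT.lf (nat_lit 0) (nat_lit 49509706271) (nat_lit 684) (nat_lit 46577932593) (nat_lit 760) (nat_lit 4327442001) (nat_lit 73) (nat_lit 5) (nat_lit 82) (nat_lit 5) (nat_lit 83) (nat_lit 5) (nat_lit 307) (nat_lit 304) (nat_lit 109)))) (XT.nd (nat_lit 156) (nat_lit 0) (nat_lit 76) (XT.nd (nat_lit 78) (nat_lit 0) (nat_lit 0) (XT.lf (nat_lit 0) (nat_lit 52933295039) (nat_lit 684) (nat_lit 3112018366) (nat_lit 760) (nat_lit 46958748638) (nat_lit 73) (nat_lit 5) (nat_lit 82) (nat_lit 5) (nat_lit 83) (nat_lit 5) (nat_lit 308) (nat_lit 304) (nat_lit 108)) (XT.lf (nat_lit 76) (nat_lit 43933080734) (nat_lit 0) (nat_lit 13280521862) (nat_lit 760) (nat_lit 48474613961) (nat_lit 74) (nat_lit 5) (nat_lit 73) (nat_lit 5) (nat_lit 83) (nat_lit 5) (nat_lit 309) (nat_lit 304) (nat_lit 107))) (XT.nd (nat_lit 78) (nat_lit 0) (nat_lit 0) (XT.lf (nat_lit 0) (nat_lit 62254846153) (nat_lit 684) (nat_lit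 15560307802) (nat_lit 760) (nat_lit 30664079997) (nat_lit 74) (nat_lit 5) (nat_lit 83) (nat_lit 5) (nat_lit 84) (nat_lit 5) (nat_lit 310) (nat_lit 304) (nat_lit 106)) (XT.nd (nat_lit 78) (nat_lit 0) (nat_lit 76) (XT.lf (nat_lit 76) (nat_lit 33808378602) (nat_lit 0) (nat_lit 34484984678) (nat_lit 760) (nat_lit 43079179495) (nat_lit 75) (nat_lit 5) (nat_lit 74) (nat_lit 5) (nat_lit 84) (nat_lit 5) (nat_lit 311) (nat_lit 304) (nat_lit 105)) (XT.lf (nat_lit 0) (nat_lit 75073239413) (nat_lit 684) (nat_lit 28388130195) (nat_lit 760) (nat_lit 10927176853) (nat_lit 75) (nat_lit 5) (nat_lit 84) (nat_lit 5) (nat_lit 85) (nat_lit 5) (nat_lit 312) (nat_lit 304) (nat_lit 104))))))))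
noncomputable def xc251 : XT := (XT.nd (nat_lit 36972) (nat_lit 0) (nat_lit 912) (XT.nd (nat_lit 702) (nat_lit 1216) (nat_lit 0) (XT.nd (nat_lit 312) (nat_lit 760) (nat_lit 0) (XT.nd (nat_lit 156) (nat_lit 608) (nat_lit 0) (XT.nd (nat_lit 78) (nat_lit 0) (nat_lit 0) (XT.lf (nat_lit 76) (nat_lit 23431067019) (nat_lit 0) (nat_lit 59691878757) (nat_lit 760) (nat_lit 34385863756) (nat_lit 76) (nat_lit 5) (nat_lit 75) (nat_lit 5) (nat_lit 85) (nat_lit 5) (nat_lit 313) (nat_lit 304) (nat_lit 103)) (XT.lf (nat_lit 76) (nat_lit 78826548606) (nat_lit 0) (nat_lit 13229050938) (nat_lit 760) (nat_lit 28705464085) (nat_lit 76) (nat_lit 5) (nat_lit 75) (nat_lit 5) (nat_lit 85) (nat_lit 5) (nat_lit 314) (nat_lit 304) (nat_lit 102))) (XT.nd (nat_lit 78) (nat_lit 0) (nat_lit 0) (XT.lf (nat_lit 0) (nat_lit 12665865719) (nat_lit 684) (nat_lit 89521623806) (nat_lit 760) (nat_lit 21950811659) (nat_lit 67)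 (nat_lit 5) (nat_lit 76) (nat_lit 5) (nat_lit 77) (nat_lit 5) (nat_lit 315) (nat_lit 304) (nat_lit 101)) (XT.lf (nat_lit 0) (nat_lit 71227849071) (nat_lit 684) (nat_lit 42521398658) (nat_lit 760) (nat_lit 13888990087) (nat_lit 67) (nat_lit 5) (nat_lit 76) (nat_lit 5) (nat_lit 77) (nat_lit 5) (nat_lit 316) (nat_lit 304) (nat_lit 100)))) (XT.nd (nat_lit 156) (nat_lit 380) (nat_lit 0) (XT.nd (nat_lit 78) (nat_lit 76) (nat_lit 0) (XT.lf (nat_lit 0) (nat_lit 1340806661) (nat_lit 304) (nat_lit 124675572632) (nat_lit 380) (nat_lit 5290428557) (nat_lit 63) (nat_lit 5) (nat_lit 67) (nat_lit 5) (nat_lit 68) (nat_lit 5) (nat_lit 317) (nat_lit 304) (nat_lit 99)) (XT.lf (nat_lit 0) (nat_lit 5286228571) (nat_lit 380) (nat_lit 71944387271) (nat_lit 76) (nat_lit 57841882786) (nat_lit 62) (nat_lit 5) (nat_lit 67) (nat_lit 5) (nat_lit 63) (nat_lit 5) (nat_lit 318) (nat_lit 304) (nat_lit 98))) (XT.nd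 (nat_lit 78) (nat_lit 380) (nat_lit 0) (XT.lf (nat_lit 0) (nat_lit 16213676148) (nat_lit 380) (nat_lit 11108664727) (nat_lit 76) (nat_lit 111699809848) (nat_lit 62) (nat_lit 5) (nat_lit 67) (nat_lit 5) (nat_lit 63) (nat_lit 5) (nat_lit 319) (nat_lit 304) (nat_lit 97)) (XT.nd (nat_lit 78) (nat_lit 0) (nat_lit 0) (XT.lf (nat_lit 0) (nat_lit 28943908082) (nat_lit 456) (nat_lit 89018905006) (nat_lit 76) (nat_lit 25143652429) (nat_lit 57) (nat_lit 5) (nat_lit 63) (nat_lit 5) (nat_lit 58) (nat_lit 5) (nat_lit 320) (nat_lit 304) (nat_lit 96)) (XT.lf (nat_lit 0) (nat_lit 42949543878) (nat_lit 456) (nat_lit 24907556637) (nat_lit 76) (nat_lit 79505951583) (nat_lit 57) (nat_lit 5) (nat_lit 63) (nat_lit 5) (nat_lit 58) (nat_lit 5) (nat_lit 321) (nat_lit 304) (nat_lit 95)))))) (XT.nd (nat_lit 312) (nat_lit 608) (nat_lit 0) (XT.nd (nat_lit 156) (nat_lit 304) (nat_lit 0) (XT.nd (nat_lit 78) (nat_lit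 0) (nat_lit 0) (XT.lf (nat_lit 0) (nat_lit 43811367419) (nat_lit 304) (nat_lit 14527893525) (nat_lit 380) (nat_lit 93459017718) (nat_lit 53) (nat_lit 5) (nat_lit 57) (nat_lit 5) (nat_lit 58) (nat_lit 5) (nat_lit 322) (nat_lit 304) (nat_lit 94)) (XT.lf (nat_lit 0) (nat_lit 75574416598) (nat_lit 380) (nat_lit 40257783327) (nat_lit 76) (nat_lit 40569269594) (nat_lit 53) (nat_lit 5) (nat_lit 58) (nat_lit 5) (nat_lit 54) (nat_lit 5) (nat_lit 323) (nat_lit 304) (nat_lit 93))) (XT.nd (nat_lit 78) (nat_lit 0) (nat_lit 0) (XT.lf (nat_lit 0) (nat_lit 31631829770) (nat_lit 304) (nat_lit 62771322001) (nat_lit 380) (nat_lit 66795077630) (nat_lit 49) (nat_lit 5) (nat_lit 53) (nat_lit 5) (nat_lit 54) (nat_lit 5) (nat_lit 324) (nat_lit 304) (nat_lit 92)) (XT.lf (nat_lit 0) (nat_lit 108513361363) (nat_lit 304) (nat_lit 6341551577) (nat_lit 380) (nat_lit 51345835418) (nat_lit 49) (nat_lit 5) (nat_lit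 53) (nat_lit 5) (nat_lit 54) (nat_lit 5) (nat_lit 325) (nat_lit 304) (nat_lit 91)))) (XT.nd (nat_lit 156) (nat_lit 380) (nat_lit 0) (XT.nd (nat_lit 78) (nat_lit 0) (nat_lit 0) (XT.lf (nat_lit 0) (nat_lit 17520037674) (nat_lit 228) (nat_lit 119908643332) (nat_lit 304) (nat_lit 33969741833) (nat_lit 46) (nat_lit 5) (nat_lit 49) (nat_lit 5) (nat_lit 50) (nat_lit 5) (nat_lit 326) (nat_lit 304) (nat_lit 90)) (XT.lf (nat_lit 0) (nat_lit 98382995299) (nat_lit 228) (nat_lit 63827207730) (nat_lit 304) (nat_lit 14591825231) (nat_lit 46) (nat_lit 5) (nat_lit 49) (nat_lit 5) (nat_lit 50) (nat_lit 5) (nat_lit 327) (nat_lit 304) (nat_lit 89))) (XT.nd (nat_lit 78) (nat_lit 0) (nat_lit 0) (XT.lf (nat_lit 0) (nat_lit 747135589) (nat_lit 304) (nat_lit 4835144963) (nat_lit 380) (nat_lit 176888466829) (nat_lit 41) (nat_lit 5) (nat_lit 45) (nat_lit 5) (nat_lit 46) (nat_lit 5) (nat_lit 328) (nat_lit 304)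 (nat_lit 88)) (XT.nd (nat_lit 35646) (nat_lit 0) (nat_lit 2356) (XT.lf (nat_lit 0) (nat_lit 28515967772) (nat_lit 380) (nat_lit 102915147283) (nat_lit 76) (nat_lit 56867764458) (nat_lit 41) (nat_lit 5) (nat_lit 46) (nat_lit 5) (nat_lit 42) (nat_lit 5) (nat_lit 329) (nat_lit 304) (nat_lit 87)) (XT.lf (nat_lit 0) (nat_lit 11415154956) (nat_lit 0) (nat_lit 11415154956) (nat_lit 684) (nat_lit 26099487568) (nat_lit 72) (nat_lit 5) (nat_lit 72) (nat_lit 3) (nat_lit 81) (nat_lit 3) (nat_lit 305) (nat_lit 305) (nat_lit 110))))))) (XT.nd (nat_lit 702) (nat_lit 1444) (nat_lit 0) (XT.nd (nat_lit 312) (nat_lit 0) (nat_lit 76) (XT.nd (nat_lit 156) (nat_lit 0) (nat_lit 76) (XT.nd (nat_lit 78) (nat_lit 0) (nat_lit 0) (XT.lf (nat_lit 0) (nat_lit 47123929456) (nat_lit 684) (nat_lit 33602481324) (nat_lit 760) (nat_lit 19563563919) (nat_lit 72) (nat_lit 5) (nat_lit 81) (nat_lit 3) (nat_lit 82) (nat_lit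 5) (nat_lit 306) (nat_lit 305) (nat_lit 109)) (XT.lf (nat_lit 76) (nat_lit 9835983538) (nat_lit 0) (nat_lit 39351858542) (nat_lit 760) (nat_lit 53627660775) (nat_lit 73) (nat_lit 5) (nat_lit 72) (nat_lit 5) (nat_lit 82) (nat_lit 5) (nat_lit 307) (nat_lit 305) (nat_lit 108))) (XT.nd (nat_lit 78) (nat_lit 0) (nat_lit 0) (XT.lf (nat_lit 0) (nat_lit 51996853096) (nat_lit 684) (nat_lit 48899331217) (nat_lit 760) (nat_lit 4539029215) (nat_lit 73) (nat_lit 5) (nat_lit 82) (nat_lit 5) (nat_lit 83) (nat_lit 5) (nat_lit 308) (nat_lit 305) (nat_lit 107)) (XT.lf (nat_lit 0) (nat_lit 55591065992) (nat_lit 684) (nat_lit 3260478326) (nat_lit 760) (nat_lit 49302129036) (nat_lit 73) (nat_lit 5) (nat_lit 82) (nat_lit 5) (nat_lit 83) (nat_lit 5) (nat_lit 309) (nat_lit 305) (nat_lit 106)))) (XT.nd (nat_lit 156) (nat_lit 0) (nat_lit 76) (XT.nd (nat_lit 78) (nat_lit 0) (nat_lit 76) (XT.lf (nat_lit 76) (nat_lit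 46136760552) (nat_lit 0) (nat_lit 13948209200) (nat_lit 760) (nat_lit 50887088537) (nat_lit 74) (nat_lit 5) (nat_lit 73) (nat_lit 5) (nat_lit 83) (nat_lit 5) (nat_lit 310) (nat_lit 305) (nat_lit 105)) (XT.lf (nat_lit 0) (nat_lit 65377712141) (nat_lit 684) (nat_lit 16331035536) (nat_lit 760) (nat_lit 32193908699) (nat_lit 74) (nat_lit 5) (nat_lit 83) (nat_lit 5) (nat_lit 84) (nat_lit 5) (nat_lit 311) (nat_lit 305) (nat_lit 104))) (XT.nd (nat_lit 78) (nat_lit 0) (nat_lit 76) (XT.lf (nat_lit 76) (nat_lit 35505967646) (nat_lit 0) (nat_lit 36211817345) (nat_lit 760) (nat_lit 45222865733) (nat_lit 75) (nat_lit 5) (nat_lit 74) (nat_lit 5) (nat_lit 84) (nat_lit 5) (nat_lit 312) (nat_lit 305) (nat_lit 103)) (XT.nd (nat_lit 78) (nat_lit 0) (nat_lit 0) (XT.lf (nat_lit 0) (nat_lit 78836152061) (nat_lit 684) (nat_lit 29800175143) (nat_lit 760) (nat_lit 11471154032) (nat_lit 75) (nat_lit 5) (nat_lit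 84) (nat_lit 5) (nat_lit 85) (nat_lit 5) (nat_lit 313) (nat_lit 305) (nat_lit 102)) (XT.lf (nat_lit 76) (nat_lit 24609863196) (nat_lit 0) (nat_lit 62678153119) (nat_lit 760) (nat_lit 36095758947) (nat_lit 76) (nat_lit 5) (nat_lit 75) (nat_lit 5) (nat_lit 85) (nat_lit 5) (nat_lit 314) (nat_lit 305) (nat_lit 101)))))) (XT.nd (nat_lit 312) (nat_lit 760) (nat_lit 0) (XT.nd (nat_lit 156) (nat_lit 304) (nat_lit 0) (XT.nd (nat_lit 78) (nat_lit 608) (nat_lit 0) (XT.lf (nat_lit 76) (nat_lit 82774773966) (nat_lit 0) (nat_lit 13892103888) (nat_lit 760) (nat_lit 30131786817) (nat_lit 76) (nat_lit 5) (nat_lit 75) (nat_lit 5) (nat_lit 85) (nat_lit 5) (nat_lit 315) (nat_lit 305) (nat_lit 100)) (XT.lf (nat_lit 0) (nat_lit 13306415108) (nat_lit 684) (nat_lit 93998632035) (nat_lit 760) (nat_lit 23039734017) (nat_lit 67) (nat_lit 5) (nat_lit 76) (nat_lit 5) (nat_lit 77) (nat_lit 5) (nat_lit 316) (nat_lit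 305) (nat_lit 99))) (XT.nd (nat_lit 78) (nat_lit 304) (nat_lit 0) (XT.lf (nat_lit 0) (nat_lit 74796152099) (nat_lit 684) (nat_lit 44648351485) (nat_lit 760) (nat_lit 14575231758) (nat_lit 67) (nat_lit 5) (nat_lit 76) (nat_lit 5) (nat_lit 77) (nat_lit 5) (nat_lit 317) (nat_lit 305) (nat_lit 98)) (XT.lf (nat_lit 0) (nat_lit 1415067352) (nat_lit 304) (nat_lit 130909652858) (nat_lit 380) (nat_lit 5547028418) (nat_lit 63) (nat_lit 5) (nat_lit 67) (nat_lit 5) (nat_lit 68) (nat_lit 5) (nat_lit 318) (nat_lit 305) (nat_lit 97)))) (XT.nd (nat_lit 156) (nat_lit 684) (nat_lit 0) (XT.nd (nat_lit 78) (nat_lit 0) (nat_lit 0) (XT.lf (nat_lit 0) (nat_lit 5557842882) (nat_lit 380) (nat_lit 75534467307) (nat_lit 76) (nat_lit 60733426896) (nat_lit 62) (nat_lit 5) (nat_lit 67) (nat_lit 5) (nat_lit 63) (nat_lit 5) (nat_lit 319) (nat_lit 305) (nat_lit 96)) (XT.lf (nat_lit 0) (nat_lit 17031315082) (nat_lit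 380) (nat_lit 11657298604) (nat_lit 76) (nat_lit 117284276502) (nat_lit 62) (nat_lit 5) (nat_lit 67) (nat_lit 5) (nat_lit 63) (nat_lit 5) (nat_lit 320) (nat_lit 305) (nat_lit 95))) (XT.nd (nat_lit 78) (nat_lit 304) (nat_lit 0) (XT.lf (nat_lit 0) (nat_lit 30397831257) (nat_lit 456) (nat_lit 93462804195) (nat_lit 76) (nat_lit 26400797606) (nat_lit 57) (nat_lit 5) (nat_lit 63) (nat_lit 5) (nat_lit 58) (nat_lit 5) (nat_lit 321) (nat_lit 305) (nat_lit 94)) (XT.nd (nat_lit 78) (nat_lit 304) (nat_lit 0) (XT.lf (nat_lit 0) (nat_lit 45103428473) (nat_lit 456) (nat_lit 26146223934) (nat_lit 76) (nat_lit 83481213500) (nat_lit 57) (nat_lit 5) (nat_lit 63) (nat_lit 5) (nat_lit 58) (nat_lit 5) (nat_lit 322) (nat_lit 305) (nat_lit 93)) (XT.lf (nat_lit 0) (nat_lit 46008538090) (nat_lit 304) (nat_lit 15253891268) (nat_lit 380) (nat_lit 98125435421) (nat_lit 53) (nat_lit 5) (nat_lit 57) (nat_lit 5) (nat_lit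 58) (nat_lit 5) (nat_lit 323) (nat_lit 305) (nat_lit 92))))))))
noncomputable def xc252 : XT := (XT.nd (nat_lit 37050) (nat_lit 0) (nat_lit 228) (XT.nd (nat_lit 36348) (nat_lit 0) (nat_lit 1596) (XT.nd (nat_lit 312) (nat_lit 0) (nat_lit 0) (XT.nd (nat_lit 156) (nat_lit 228) (nat_lit 0) (XT.nd (nat_lit 78) (nat_lit 304) (nat_lit 0) (XT.lf (nat_lit 0) (nat_lit 79359053203) (nat_lit 380) (nat_lit 42264078284) (nat_lit 76) (nat_lit 42598099006) (nat_lit 53) (nat_lit 5) (nat_lit 58) (nat_lit 5) (nat_lit 54) (nat_lit 5) (nat_lit 324) (nat_lit 305) (nat_lit 91)) (XT.lf (nat_lit 0) (nat_lit 33219909109) (nat_lit 304) (nat_lit 65909135616) (nat_lit 380) (nat_lit 70128793461) (nat_lit 49) (nat_lit 5) (nat_lit 53) (nat_lit 5) (nat_lit 54) (nat_lit 5) (nat_lit 325) (nat_lit 305) (nat_lit 90))) (XT.nd (nat_lit 78) (nat_lit 228) (nat_lit 0) (XT.lf (nat_lit 0) (nat_lit 113945208336) (nat_lit 304)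 (nat_lit 6657912504) (nat_lit 380) (nat_lit 53907376665) (nat_lit 49) (nat_lit 5) (nat_lit 53) (nat_lit 5) (nat_lit 54) (nat_lit 5) (nat_lit 326) (nat_lit 305) (nat_lit 89)) (XT.lf (nat_lit 0) (nat_lit 18402391417) (nat_lit 228) (nat_lit 125903035612) (nat_lit 304) (nat_lit 35662636918) (nat_lit 46) (nat_lit 5) (nat_lit 49) (nat_lit 5) (nat_lit 50) (nat_lit 5) (nat_lit 327) (nat_lit 305) (nat_lit 88)))) (XT.nd (nat_lit 35880) (nat_lit 0) (nat_lit 1976) (XT.nd (nat_lit 35802) (nat_lit 0) (nat_lit 1976) (XT.lf (nat_lit 0) (nat_lit 103308194454) (nat_lit 228) (nat_lit 67017577748) (nat_lit 304) (nat_lit 15316090771) (nat_lit 46) (nat_lit 5) (nat_lit 49) (nat_lit 5) (nat_lit 50) (nat_lit 5) (nat_lit 328) (nat_lit 305) (nat_lit 87)) (XT.lf (nat_lit 0) (nat_lit 11988990283) (nat_lit 0) (nat_lit 11988990283) (nat_lit 684) (nat_lit 27397978919) (nat_lit 72) (nat_lit 5) (nat_lit 72) (nat_lit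 3) (nat_lit 81) (nat_lit 3) (nat_lit 306) (nat_lit 306) (nat_lit 108))) (XT.nd (nat_lit 78) (nat_lit 0) (nat_lit 0) (XT.lf (nat_lit 0) (nat_lit 49491758517) (nat_lit 684) (nat_lit 35276027300) (nat_lit 760) (nat_lit 20536067681) (nat_lit 72) (nat_lit 5) (nat_lit 81) (nat_lit 3) (nat_lit 82) (nat_lit 5) (nat_lit 307) (nat_lit 306) (nat_lit 107)) (XT.lf (nat_lit 76) (nat_lit 10334254706) (nat_lit 0) (nat_lit 41324159180) (nat_lit 760) (nat_lit 56297268646) (nat_lit 73) (nat_lit 5) (nat_lit 72) (nat_lit 5) (nat_lit 82) (nat_lit 5) (nat_lit 308) (nat_lit 306) (nat_lit 106))))) (XT.nd (nat_lit 312) (nat_lit 456) (nat_lit 0) (XT.nd (nat_lit 156) (nat_lit 0) (nat_lit 0) (XT.nd (nat_lit 78) (nat_lit 0) (nat_lit 0) (XT.lf (nat_lit 0) (nat_lit 54607273086) (nat_lit 684) (nat_lit 51337496865) (nat_lit 760) (nat_lit 4761640643) (nat_lit 73) (nat_lit 5) (nat_lit 82) (nat_lit 5) (nat_lit 83) (nat_lit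 5) (nat_lit 309) (nat_lit 306) (nat_lit 105)) (XT.lf (nat_lit 0) (nat_lit 58380692944) (nat_lit 684) (nat_lit 3417025183) (nat_lit 760) (nat_lit 51763102123) (nat_lit 73) (nat_lit 5) (nat_lit 82) (nat_lit 5) (nat_lit 83) (nat_lit 5) (nat_lit 310) (nat_lit 306) (nat_lit 104))) (XT.nd (nat_lit 78) (nat_lit 0) (nat_lit 76) (XT.lf (nat_lit 76) (nat_lit 48449971170) (nat_lit 0) (nat_lit 14648940518) (nat_lit 760) (nat_lit 53421233330) (nat_lit 74) (nat_lit 5) (nat_lit 73) (nat_lit 5) (nat_lit 83) (nat_lit 5) (nat_lit 311) (nat_lit 306) (nat_lit 103)) (XT.lf (nat_lit 0) (nat_lit 68655780225) (nat_lit 684) (nat_lit 17140977193) (nat_lit 760) (nat_lit 33800542639) (nat_lit 74) (nat_lit 5) (nat_lit 83) (nat_lit 5) (nat_lit 84) (nat_lit 5) (nat_lit 312) (nat_lit 306) (nat_lit 102)))) (XT.nd (nat_lit 156) (nat_lit 532) (nat_lit 0) (XT.nd (nat_lit 78) (nat_lit 0) (nat_lit 76) (XT.lf (nat_lit 76)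 (nat_lit 37287769532) (nat_lit 0) (nat_lit 38024751462) (nat_lit 760) (nat_lit 47474691345) (nat_lit 75) (nat_lit 5) (nat_lit 74) (nat_lit 5) (nat_lit 84) (nat_lit 5) (nat_lit 313) (nat_lit 306) (nat_lit 101)) (XT.lf (nat_lit 0) (nat_lit 82786350301) (nat_lit 684) (nat_lit 31283506748) (nat_lit 760) (nat_lit 12042551494) (nat_lit 75) (nat_lit 5) (nat_lit 84) (nat_lit 5) (nat_lit 85) (nat_lit 5) (nat_lit 314) (nat_lit 306) (nat_lit 100))) (XT.nd (nat_lit 78) (nat_lit 608) (nat_lit 0) (XT.lf (nat_lit 76) (nat_lit 25846925813) (nat_lit 0) (nat_lit 65813584969) (nat_lit 760) (nat_lit 37892022635) (nat_lit 76) (nat_lit 5) (nat_lit 75) (nat_lit 5) (nat_lit 85) (nat_lit 5) (nat_lit 315) (nat_lit 306) (nat_lit 99)) (XT.nd (nat_lit 78) (nat_lit 608) (nat_lit 0) (XT.lf (nat_lit 76) (nat_lit 86919769289) (nat_lit 0) (nat_lit 14588160696) (nat_lit 760) (nat_lit 31630257816) (nat_lit 76) (nat_lit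 5) (nat_lit 75) (nat_lit 5) (nat_lit 85) (nat_lit 5) (nat_lit 316) (nat_lit 306) (nat_lit 98)) (XT.lf (nat_lit 0) (nat_lit 13978317363) (nat_lit 684) (nat_lit 98699404489) (nat_lit 760) (nat_lit 24183903733) (nat_lit 67) (nat_lit 5) (nat_lit 76) (nat_lit 5) (nat_lit 77) (nat_lit 5) (nat_lit 317) (nat_lit 306) (nat_lit 97))))))) (XT.nd (nat_lit 702) (nat_lit 0) (nat_lit 0) (XT.nd (nat_lit 312) (nat_lit 988) (nat_lit 0) (XT.nd (nat_lit 156) (nat_lit 76) (nat_lit 0) (XT.nd (nat_lit 78) (nat_lit 304) (nat_lit 0) (XT.lf (nat_lit 0) (nat_lit 78542227799) (nat_lit 684) (nat_lit 46881569870) (nat_lit 760) (nat_lit 15296548599) (nat_lit 67) (nat_lit 5) (nat_lit 76) (nat_lit 5) (nat_lit 77) (nat_lit 5) (nat_lit 318) (nat_lit 306) (nat_lit 96)) (XT.lf (nat_lit 0) (nat_lit 1492369796) (nat_lit 304) (nat_lit 137455409057) (nat_lit 380) (nat_lit 5817194745) (nat_lit 63) (nat_lit 5) (nat_lit 67) (nat_lit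 5) (nat_lit 68) (nat_lit 5) (nat_lit 319) (nat_lit 306) (nat_lit 95))) (XT.nd (nat_lit 78) (nat_lit 0) (nat_lit 0) (XT.lf (nat_lit 0) (nat_lit 5842358956) (nat_lit 380) (nat_lit 79304715093) (nat_lit 76) (nat_lit 63769599348) (nat_lit 62) (nat_lit 5) (nat_lit 67) (nat_lit 5) (nat_lit 63) (nat_lit 5) (nat_lit 320) (nat_lit 306) (nat_lit 94)) (XT.lf (nat_lit 0) (nat_lit 17889189341) (nat_lit 380) (nat_lit 12233996316) (nat_lit 76) (nat_lit 123148015191) (nat_lit 62) (nat_lit 5) (nat_lit 67) (nat_lit 5) (nat_lit 63) (nat_lit 5) (nat_lit 321) (nat_lit 306) (nat_lit 93)))) (XT.nd (nat_lit 156) (nat_lit 608) (nat_lit 0) (XT.nd (nat_lit 78) (nat_lit 0) (nat_lit 0) (XT.lf (nat_lit 0) (nat_lit 31923825107) (nat_lit 456) (nat_lit 98129553419) (nat_lit 76) (nat_lit 27720803523) (nat_lit 57) (nat_lit 5) (nat_lit 63) (nat_lit 5) (nat_lit 58) (nat_lit 5) (nat_lit 322) (nat_lit 306) (nat_lit 92))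 (XT.lf (nat_lit 0) (nat_lit 47364411598) (nat_lit 456) (nat_lit 27447448478) (nat_lit 76) (nat_lit 87655241829) (nat_lit 57) (nat_lit 5) (nat_lit 63) (nat_lit 5) (nat_lit 58) (nat_lit 5) (nat_lit 323) (nat_lit 306) (nat_lit 91))) (XT.nd (nat_lit 78) (nat_lit 304) (nat_lit 0) (XT.lf (nat_lit 0) (nat_lit 48314953476) (nat_lit 304) (nat_lit 16016225801) (nat_lit 380) (nat_lit 103025781403) (nat_lit 53) (nat_lit 5) (nat_lit 57) (nat_lit 5) (nat_lit 58) (nat_lit 5) (nat_lit 324) (nat_lit 306) (nat_lit 90)) (XT.nd (nat_lit 78) (nat_lit 304) (nat_lit 0) (XT.lf (nat_lit 0) (nat_lit 83332371646) (nat_lit 380) (nat_lit 44371301057) (nat_lit 76) (nat_lit 44728335868) (nat_lit 53) (nat_lit 5) (nat_lit 58) (nat_lit 5) (nat_lit 54) (nat_lit 5) (nat_lit 325) (nat_lit 306) (nat_lit 89)) (XT.lf (nat_lit 0) (nat_lit 34886789236) (nat_lit 304) (nat_lit 69203909870) (nat_lit 380) (nat_lit 73629756445)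 (nat_lit 49) (nat_lit 5) (nat_lit 53) (nat_lit 5) (nat_lit 54) (nat_lit 5) (nat_lit 326) (nat_lit 306) (nat_lit 88)))))) (XT.nd (nat_lit 36192) (nat_lit 0) (nat_lit 1824) (XT.nd (nat_lit 36036) (nat_lit 0) (nat_lit 1748) (XT.nd (nat_lit 35958) (nat_lit 0) (nat_lit 1748) (XT.lf (nat_lit 0) (nat_lit 119648073203) (nat_lit 304) (nat_lit 6990158104) (nat_lit 380) (nat_lit 56597529604) (nat_lit 49) (nat_lit 5) (nat_lit 53) (nat_lit 5) (nat_lit 54) (nat_lit 5) (nat_lit 327) (nat_lit 306) (nat_lit 87)) (XT.lf (nat_lit 0) (nat_lit 12591231252) (nat_lit 0) (nat_lit 12591231252) (nat_lit 684) (nat_lit 28761997569) (nat_lit 72) (nat_lit 5) (nat_lit 72) (nat_lit 3) (nat_lit 81) (nat_lit 3) (nat_lit 307) (nat_lit 307) (nat_lit 106))) (XT.nd (nat_lit 78) (nat_lit 0) (nat_lit 0) (XT.lf (nat_lit 0) (nat_lit 51976897544) (nat_lit 684) (nat_lit 37033862144) (nat_lit 760) (nat_lit 21557724187) (nat_lit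 72) (nat_lit 5) (nat_lit 81) (nat_lit 3) (nat_lit 82) (nat_lit 5) (nat_lit 308) (nat_lit 307) (nat_lit 105)) (XT.lf (nat_lit 76) (nat_lit 10856837729) (nat_lit 0) (nat_lit 43394637171) (nat_lit 760) (nat_lit 59101451653) (nat_lit 73) (nat_lit 5) (nat_lit 72) (nat_lit 5) (nat_lit 82) (nat_lit 5) (nat_lit 309) (nat_lit 307) (nat_lit 104)))) (XT.nd (nat_lit 156) (nat_lit 0) (nat_lit 0) (XT.nd (nat_lit 78) (nat_lit 0) (nat_lit 0) (XT.lf (nat_lit 0) (nat_lit 57347230694) (nat_lit 684) (nat_lit 53898203080) (nat_lit 760) (nat_lit 4995786138) (nat_lit 73) (nat_lit 5) (nat_lit 82) (nat_lit 5) (nat_lit 83) (nat_lit 5) (nat_lit 310) (nat_lit 307) (nat_lit 103)) (XT.lf (nat_lit 0) (nat_lit 61308864690) (nat_lit 684) (nat_lit 3582001558) (nat_lit 760) (nat_lit 54347508146) (nat_lit 73) (nat_lit 5) (nat_lit 82) (nat_lit 5) (nat_lit 83) (nat_lit 5) (nat_lit 311) (nat_lit 307) (nat_lit 102))) (XT.nd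 (nat_lit 78) (nat_lit 0) (nat_lit 76) (XT.lf (nat_lit 76) (nat_lit 50878249857) (nat_lit 0) (nat_lit 15384399659) (nat_lit 760) (nat_lit 56083034557) (nat_lit 74) (nat_lit 5) (nat_lit 73) (nat_lit 5) (nat_lit 83) (nat_lit 5) (nat_lit 312) (nat_lit 307) (nat_lit 101)) (XT.nd (nat_lit 78) (nat_lit 0) (nat_lit 0) (XT.lf (nat_lit 0) (nat_lit 72096898013) (nat_lit 684) (nat_lit 17992030480) (nat_lit 760) (nat_lit 35487792906) (nat_lit 74) (nat_lit 5) (nat_lit 83) (nat_lit 5) (nat_lit 84) (nat_lit 5) (nat_lit 313) (nat_lit 307) (nat_lit 100)) (XT.lf (nat_lit 76) (nat_lit 39158056879) (nat_lit 0) (nat_lit 39928114431) (nat_lit 760) (nat_lit 49839974506) (nat_lit 75) (nat_lit 5) (nat_lit 74) (nat_lit 5) (nat_lit 84) (nat_lit 5) (nat_lit 314) (nat_lit 307) (nat_lit 99))))))))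
noncomputable def xc253 : XT := (XT.nd (nat_lit 37362) (nat_lit 0) (nat_lit 304) (XT.nd (nat_lit 624) (nat_lit 684) (nat_lit 0) (XT.nd (nat_lit 312) (nat_lit 380) (nat_lit 0) (XT.nd (nat_lit 156) (nat_lit 608) (nat_lit 0) (XT.nd (nat_lit 78) (nat_lit 0) (nat_lit 0) (XT.lf (nat_lit 0) (nat_lit 86933278372) (nat_lit 684) (nat_lit 32841625711) (nat_lit 760) (nat_lit 12642719669) (nat_lit 75) (nat_lit 5) (nat_lit 84) (nat_lit 5) (nat_lit 85) (nat_lit 5) (nat_lit 315) (nat_lit 307) (nat_lit 98)) (XT.lf (nat_lit 76) (nat_lit 27145230794) (nat_lit 0) (nat_lit 69105646706) (nat_lit 760) (nat_lit 39778892012) (nat_lit 76) (nat_lit 5) (nat_lit 75) (nat_lit 5) (nat_lit 85) (nat_lit 5) (nat_lit 316) (nat_lit 307) (nat_lit 97))) (XT.nd (nat_lit 78) (nat_lit 608) (nat_lit 0) (XT.lf (nat_lit 76) (nat_lit 91271432698) (nat_lit 0) (nat_lit 15318885387) (nat_lit 760) (nat_lit 33204407131) (nat_lit 76)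 (nat_lit 5) (nat_lit 75) (nat_lit 5) (nat_lit 85) (nat_lit 5) (nat_lit 317) (nat_lit 307) (nat_lit 96)) (XT.lf (nat_lit 0) (nat_lit 14683202845) (nat_lit 684) (nat_lit 103635137390) (nat_lit 760) (nat_lit 25386008685) (nat_lit 67) (nat_lit 5) (nat_lit 76) (nat_lit 5) (nat_lit 77) (nat_lit 5) (nat_lit 318) (nat_lit 307) (nat_lit 95)))) (XT.nd (nat_lit 156) (nat_lit 76) (nat_lit 0) (XT.nd (nat_lit 78) (nat_lit 304) (nat_lit 0) (XT.lf (nat_lit 0) (nat_lit 82475024535) (nat_lit 684) (nat_lit 49226374722) (nat_lit 760) (nat_lit 16054623424) (nat_lit 67) (nat_lit 5) (nat_lit 76) (nat_lit 5) (nat_lit 77) (nat_lit 5) (nat_lit 319) (nat_lit 307) (nat_lit 94)) (XT.lf (nat_lit 0) (nat_lit 1572928492) (nat_lit 304) (nat_lit 144328427633) (nat_lit 380) (nat_lit 6101537390) (nat_lit 63) (nat_lit 5) (nat_lit 67) (nat_lit 5) (nat_lit 68) (nat_lit 5) (nat_lit 320) (nat_lit 307) (nat_lit 93))) (XT.nd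 (nat_lit 78) (nat_lit 0) (nat_lit 0) (XT.lf (nat_lit 0) (nat_lit 6140485004) (nat_lit 380) (nat_lit 83264077305) (nat_lit 76) (nat_lit 66957626805) (nat_lit 62) (nat_lit 5) (nat_lit 67) (nat_lit 5) (nat_lit 63) (nat_lit 5) (nat_lit 321) (nat_lit 307) (nat_lit 92)) (XT.lf (nat_lit 0) (nat_lit 18789370807) (nat_lit 380) (nat_lit 12840102282) (nat_lit 76) (nat_lit 129304984988) (nat_lit 62) (nat_lit 5) (nat_lit 67) (nat_lit 5) (nat_lit 63) (nat_lit 5) (nat_lit 322) (nat_lit 307) (nat_lit 91))))) (XT.nd (nat_lit 36348) (nat_lit 0) (nat_lit 1444) (XT.nd (nat_lit 156) (nat_lit 304) (nat_lit 0) (XT.nd (nat_lit 78) (nat_lit 0) (nat_lit 0) (XT.lf (nat_lit 0) (nat_lit 33525551316) (nat_lit 456) (nat_lit 103030234278) (nat_lit 76) (nat_lit 29106812893) (nat_lit 57) (nat_lit 5) (nat_lit 63) (nat_lit 5) (nat_lit 58) (nat_lit 5) (nat_lit 323) (nat_lit 307) (nat_lit 90)) (XT.lf (nat_lit 0) (nat_lit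 49737903562) (nat_lit 456) (nat_lit 28814300129) (nat_lit 76) (nat_lit 92037974582) (nat_lit 57) (nat_lit 5) (nat_lit 63) (nat_lit 5) (nat_lit 58) (nat_lit 5) (nat_lit 324) (nat_lit 307) (nat_lit 89))) (XT.nd (nat_lit 78) (nat_lit 0) (nat_lit 0) (XT.lf (nat_lit 0) (nat_lit 50736132878) (nat_lit 304) (nat_lit 16816710533) (nat_lit 380) (nat_lit 108171695607) (nat_lit 53) (nat_lit 5) (nat_lit 57) (nat_lit 5) (nat_lit 58) (nat_lit 5) (nat_lit 325) (nat_lit 307) (nat_lit 88)) (XT.lf (nat_lit 0) (nat_lit 87503857151) (nat_lit 380) (nat_lit 46584441038) (nat_lit 76) (nat_lit 46965053714) (nat_lit 53) (nat_lit 5) (nat_lit 58) (nat_lit 5) (nat_lit 54) (nat_lit 5) (nat_lit 326) (nat_lit 307) (nat_lit 87)))) (XT.nd (nat_lit 156) (nat_lit 0) (nat_lit 0) (XT.nd (nat_lit 78) (nat_lit 0) (nat_lit 0) (XT.lf (nat_lit 0) (nat_lit 13223324747) (nat_lit 0) (nat_lit 13223324747) (nat_lit 684) (nat_lit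 30194763845) (nat_lit 72) (nat_lit 5) (nat_lit 72) (nat_lit 3) (nat_lit 81) (nat_lit 3) (nat_lit 308) (nat_lit 308) (nat_lit 104)) (XT.lf (nat_lit 0) (nat_lit 54585312581) (nat_lit 684) (nat_lit 38880143440) (nat_lit 760) (nat_lit 22630942026) (nat_lit 72) (nat_lit 5) (nat_lit 81) (nat_lit 3) (nat_lit 82) (nat_lit 5) (nat_lit 309) (nat_lit 308) (nat_lit 103))) (XT.nd (nat_lit 78) (nat_lit 0) (nat_lit 76) (XT.lf (nat_lit 76) (nat_lit 11405004139) (nat_lit 0) (nat_lit 45568242074) (nat_lit 760) (nat_lit 62046836776) (nat_lit 73) (nat_lit 5) (nat_lit 72) (nat_lit 5) (nat_lit 82) (nat_lit 5) (nat_lit 310) (nat_lit 308) (nat_lit 102)) (XT.nd (nat_lit 78) (nat_lit 0) (nat_lit 0) (XT.lf (nat_lit 0) (nat_lit 60223294228) (nat_lit 684) (nat_lit 56587518106) (nat_lit 760) (nat_lit 5242004889) (nat_lit 73) (nat_lit 5) (nat_lit 82) (nat_lit 5) (nat_lit 83) (nat_lit 5) (nat_lit 311) (nat_lit 308)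 (nat_lit 101)) (XT.lf (nat_lit 0) (nat_lit 64382595543) (nat_lit 684) (nat_lit 3755772943) (nat_lit 760) (nat_lit 57061483024) (nat_lit 73) (nat_lit 5) (nat_lit 82) (nat_lit 5) (nat_lit 83) (nat_lit 5) (nat_lit 312) (nat_lit 308) (nat_lit 100))))))) (XT.nd (nat_lit 702) (nat_lit 456) (nat_lit 0) (XT.nd (nat_lit 312) (nat_lit 760) (nat_lit 0) (XT.nd (nat_lit 156) (nat_lit 0) (nat_lit 76) (XT.nd (nat_lit 78) (nat_lit 0) (nat_lit 76) (XT.lf (nat_lit 76) (nat_lit 53427405096) (nat_lit 0) (nat_lit 16156351720) (nat_lit 760) (nat_lit 58878786793) (nat_lit 74) (nat_lit 5) (nat_lit 73) (nat_lit 5) (nat_lit 83) (nat_lit 5) (nat_lit 313) (nat_lit 308) (nat_lit 99)) (XT.lf (nat_lit 0) (nat_lit 75709297360) (nat_lit 684) (nat_lit 18886193843) (nat_lit 760) (nat_lit 37259663852) (nat_lit 74) (nat_lit 5) (nat_lit 83) (nat_lit 5) (nat_lit 84) (nat_lit 5) (nat_lit 314) (nat_lit 308) (nat_lit 98)))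 (XT.nd (nat_lit 78) (nat_lit 0) (nat_lit 76) (XT.lf (nat_lit 76) (nat_lit 41121310171) (nat_lit 0) (nat_lit 41926447950) (nat_lit 760) (nat_lit 52324307557) (nat_lit 75) (nat_lit 5) (nat_lit 74) (nat_lit 5) (nat_lit 84) (nat_lit 5) (nat_lit 315) (nat_lit 308) (nat_lit 97)) (XT.lf (nat_lit 0) (nat_lit 91286845288) (nat_lit 684) (nat_lit 34478213687) (nat_lit 760) (nat_lit 13273078418) (nat_lit 75) (nat_lit 5) (nat_lit 84) (nat_lit 5) (nat_lit 85) (nat_lit 5) (nat_lit 316) (nat_lit 308) (nat_lit 96)))) (XT.nd (nat_lit 156) (nat_lit 912) (nat_lit 0) (XT.nd (nat_lit 78) (nat_lit 0) (nat_lit 0) (XT.lf (nat_lit 76) (nat_lit 28507897042) (nat_lit 0) (nat_lit 72562182999) (nat_lit 760) (nat_lit 41760823684) (nat_lit 76) (nat_lit 5) (nat_lit 75) (nat_lit 5) (nat_lit 85) (nat_lit 5) (nat_lit 317) (nat_lit 308) (nat_lit 95)) (XT.lf (nat_lit 76) (nat_lit 95840151674) (nat_lit 0) (nat_lit 16086023902)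 (nat_lit 760) (nat_lit 34857948507) (nat_lit 76) (nat_lit 5) (nat_lit 75) (nat_lit 5) (nat_lit 85) (nat_lit 5) (nat_lit 318) (nat_lit 308) (nat_lit 94))) (XT.nd (nat_lit 78) (nat_lit 304) (nat_lit 0) (XT.lf (nat_lit 0) (nat_lit 15422777603) (nat_lit 684) (nat_lit 108817586030) (nat_lit 760) (nat_lit 26648878067) (nat_lit 67) (nat_lit 5) (nat_lit 76) (nat_lit 5) (nat_lit 77) (nat_lit 5) (nat_lit 319) (nat_lit 308) (nat_lit 93)) (XT.nd (nat_lit 78) (nat_lit 304) (nat_lit 0) (XT.lf (nat_lit 0) (nat_lit 86603932539) (nat_lit 684) (nat_lit 51688352288) (nat_lit 760) (nat_lit 16851229783) (nat_lit 67) (nat_lit 5) (nat_lit 76) (nat_lit 5) (nat_lit 77) (nat_lit 5) (nat_lit 320) (nat_lit 308) (nat_lit 92)) (XT.lf (nat_lit 0) (nat_lit 1656962859) (nat_lit 304) (nat_lit 151545074070) (nat_lit 380) (nat_lit 6400703065) (nat_lit 63) (nat_lit 5) (nat_lit 67) (nat_lit 5) (nat_lit 68) (nat_lit 5) (nat_lit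 321) (nat_lit 308) (nat_lit 91)))))) (XT.nd (nat_lit 36504) (nat_lit 0) (nat_lit 1140) (XT.nd (nat_lit 156) (nat_lit 380) (nat_lit 0) (XT.nd (nat_lit 78) (nat_lit 0) (nat_lit 0) (XT.lf (nat_lit 0) (nat_lit 6452958777) (nat_lit 380) (nat_lit 87421953695) (nat_lit 76) (nat_lit 70305097705) (nat_lit 62) (nat_lit 5) (nat_lit 67) (nat_lit 5) (nat_lit 63) (nat_lit 5) (nat_lit 322) (nat_lit 308) (nat_lit 90)) (XT.lf (nat_lit 0) (nat_lit 19734029370) (nat_lit 380) (nat_lit 13477033610) (nat_lit 76) (nat_lit 135769843342) (nat_lit 62) (nat_lit 5) (nat_lit 67) (nat_lit 5) (nat_lit 63) (nat_lit 5) (nat_lit 323) (nat_lit 308) (nat_lit 89))) (XT.nd (nat_lit 78) (nat_lit 0) (nat_lit 0) (XT.lf (nat_lit 0) (nat_lit 35206849247) (nat_lit 456) (nat_lit 108176488112) (nat_lit 76) (nat_lit 30562125596) (nat_lit 57) (nat_lit 5) (nat_lit 63) (nat_lit 5) (nat_lit 58) (nat_lit 5) (nat_lit 324) (nat_lit 308)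 (nat_lit 88)) (XT.lf (nat_lit 0) (nat_lit 52229580042) (nat_lit 456) (nat_lit 30250007631) (nat_lit 76) (nat_lit 96639846700) (nat_lit 57) (nat_lit 5) (nat_lit 63) (nat_lit 5) (nat_lit 58) (nat_lit 5) (nat_lit 325) (nat_lit 308) (nat_lit 87)))) (XT.nd (nat_lit 156) (nat_lit 0) (nat_lit 0) (XT.nd (nat_lit 78) (nat_lit 0) (nat_lit 0) (XT.lf (nat_lit 0) (nat_lit 13886787521) (nat_lit 0) (nat_lit 13886787521) (nat_lit 684) (nat_lit 31699664303) (nat_lit 72) (nat_lit 5) (nat_lit 72) (nat_lit 3) (nat_lit 81) (nat_lit 3) (nat_lit 309) (nat_lit 309) (nat_lit 102)) (XT.lf (nat_lit 0) (nat_lit 57323258626) (nat_lit 684) (nat_lit 40819241941) (nat_lit 760) (nat_lit 23758254777) (nat_lit 72) (nat_lit 5) (nat_lit 81) (nat_lit 3) (nat_lit 82) (nat_lit 5) (nat_lit 310) (nat_lit 309) (nat_lit 101))) (XT.nd (nat_lit 78) (nat_lit 0) (nat_lit 76) (XT.lf (nat_lit 76) (nat_lit 11980083845) (nat_lit 0) (nat_lit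 47850167144) (nat_lit 760) (nat_lit 65140391804) (nat_lit 73) (nat_lit 5) (nat_lit 72) (nat_lit 5) (nat_lit 82) (nat_lit 5) (nat_lit 311) (nat_lit 309) (nat_lit 100)) (XT.nd (nat_lit 78) (nat_lit 0) (nat_lit 0) (XT.lf (nat_lit 0) (nat_lit 63242351910) (nat_lit 684) (nat_lit 59411819066) (nat_lit 760) (nat_lit 5500866534) (nat_lit 73) (nat_lit 5) (nat_lit 82) (nat_lit 5) (nat_lit 83) (nat_lit 5) (nat_lit 312) (nat_lit 309) (nat_lit 99)) (XT.lf (nat_lit 0) (nat_lit 67609242434) (nat_lit 684) (nat_lit 3938728308) (nat_lit 760) (nat_lit 59911472795) (nat_lit 73) (nat_lit 5) (nat_lit 82) (nat_lit 5) (nat_lit 83) (nat_lit 5) (nat_lit 313) (nat_lit 309) (nat_lit 98))))))))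
noncomputable def xc254 : XT := (XT.nd (nat_lit 37674) (nat_lit 0) (nat_lit 76) (XT.nd (nat_lit 624) (nat_lit 380) (nat_lit 0) (XT.nd (nat_lit 312) (nat_lit 456) (nat_lit 0) (XT.nd (nat_lit 156) (nat_lit 0) (nat_lit 76) (XT.nd (nat_lit 78) (nat_lit 0) (nat_lit 76) (XT.lf (nat_lit 76) (nat_lit 56103530676) (nat_lit 0) (nat_lit 16966647381) (nat_lit 760) (nat_lit 61815107547) (nat_lit 74) (nat_lit 5) (nat_lit 73) (nat_lit 5) (nat_lit 83) (nat_lit 5) (nat_lit 314) (nat_lit 309) (nat_lit 97)) (XT.lf (nat_lit 0) (nat_lit 79501614333) (nat_lit 684) (nat_lit 19825570963) (nat_lit 760) (nat_lit 39120362510) (nat_lit 74) (nat_lit 5) (nat_lit 83) (nat_lit 5) (nat_lit 84) (nat_lit 5) (nat_lit 315) (nat_lit 309) (nat_lit 96))) (XT.nd (nat_lit 78) (nat_lit 0) (nat_lit 76) (XT.lf (nat_lit 76) (nat_lit 43182228695) (nat_lit 0) (nat_lit 44024518916) (nat_lit 760) (nat_lit 54933569942) (nat_lit 75)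 (nat_lit 5) (nat_lit 74) (nat_lit 5) (nat_lit 84) (nat_lit 5) (nat_lit 316) (nat_lit 309) (nat_lit 95)) (XT.lf (nat_lit 0) (nat_lit 95857448775) (nat_lit 684) (nat_lit 36197141777) (nat_lit 760) (nat_lit 13935120335) (nat_lit 75) (nat_lit 5) (nat_lit 84) (nat_lit 5) (nat_lit 85) (nat_lit 5) (nat_lit 317) (nat_lit 309) (nat_lit 94)))) (XT.nd (nat_lit 156) (nat_lit 608) (nat_lit 0) (XT.nd (nat_lit 78) (nat_lit 0) (nat_lit 0) (XT.lf (nat_lit 76) (nat_lit 29938194124) (nat_lit 0) (nat_lit 76191429526) (nat_lit 760) (nat_lit 43842503934) (nat_lit 76) (nat_lit 5) (nat_lit 75) (nat_lit 5) (nat_lit 85) (nat_lit 5) (nat_lit 318) (nat_lit 309) (nat_lit 93)) (XT.lf (nat_lit 76) (nat_lit 100636828048) (nat_lit 0) (nat_lit 16891408313) (nat_lit 760) (nat_lit 36594787900) (nat_lit 76) (nat_lit 5) (nat_lit 75) (nat_lit 5) (nat_lit 85) (nat_lit 5) (nat_lit 319) (nat_lit 309) (nat_lit 92))) (XT.nd (nat_lit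 78) (nat_lit 0) (nat_lit 0) (XT.lf (nat_lit 0) (nat_lit 16198827699) (nat_lit 684) (nat_lit 114259092788) (nat_lit 760) (nat_lit 27975488816) (nat_lit 67) (nat_lit 5) (nat_lit 76) (nat_lit 5) (nat_lit 77) (nat_lit 5) (nat_lit 320) (nat_lit 309) (nat_lit 91)) (XT.lf (nat_lit 0) (nat_lit 90938806515) (nat_lit 684) (nat_lit 54273367479) (nat_lit 760) (nat_lit 17688235887) (nat_lit 67) (nat_lit 5) (nat_lit 76) (nat_lit 5) (nat_lit 77) (nat_lit 5) (nat_lit 321) (nat_lit 309) (nat_lit 90))))) (XT.nd (nat_lit 36660) (nat_lit 0) (nat_lit 760) (XT.nd (nat_lit 156) (nat_lit 0) (nat_lit 0) (XT.nd (nat_lit 78) (nat_lit 76) (nat_lit 0) (XT.lf (nat_lit 0) (nat_lit 1744698024) (nat_lit 304) (nat_lit 159122531905) (nat_lit 380) (nat_lit 6715376590) (nat_lit 63) (nat_lit 5) (nat_lit 67) (nat_lit 5) (nat_lit 68) (nat_lit 5) (nat_lit 322) (nat_lit 309) (nat_lit 89)) (XT.lf (nat_lit 0) (nat_lit 6780549595)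 (nat_lit 380) (nat_lit 91788219202) (nat_lit 76) (nat_lit 73819980308) (nat_lit 62) (nat_lit 5) (nat_lit 67) (nat_lit 5) (nat_lit 63) (nat_lit 5) (nat_lit 323) (nat_lit 309) (nat_lit 88))) (XT.nd (nat_lit 36426) (nat_lit 0) (nat_lit 760) (XT.lf (nat_lit 0) (nat_lit 20725438342) (nat_lit 380) (nat_lit 14146283216) (nat_lit 76) (nat_lit 142557980955) (nat_lit 62) (nat_lit 5) (nat_lit 67) (nat_lit 5) (nat_lit 63) (nat_lit 5) (nat_lit 324) (nat_lit 309) (nat_lit 87)) (XT.lf (nat_lit 0) (nat_lit 14583209924) (nat_lit 0) (nat_lit 14583209924) (nat_lit 684) (nat_lit 33280259551) (nat_lit 72) (nat_lit 5) (nat_lit 72) (nat_lit 3) (nat_lit 81) (nat_lit 3) (nat_lit 310) (nat_lit 310) (nat_lit 100)))) (XT.nd (nat_lit 156) (nat_lit 0) (nat_lit 76) (XT.nd (nat_lit 78) (nat_lit 0) (nat_lit 0) (XT.lf (nat_lit 0) (nat_lit 60197294952) (nat_lit 684) (nat_lit 42855751728) (nat_lit 760) (nat_lit 24942326836)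 (nat_lit 72) (nat_lit 5) (nat_lit 81) (nat_lit 3) (nat_lit 82) (nat_lit 5) (nat_lit 311) (nat_lit 310) (nat_lit 99)) (XT.lf (nat_lit 76) (nat_lit 12583468536) (nat_lit 0) (nat_lit 50245861865) (nat_lit 760) (nat_lit 68389441497) (nat_lit 73) (nat_lit 5) (nat_lit 72) (nat_lit 5) (nat_lit 82) (nat_lit 5) (nat_lit 312) (nat_lit 310) (nat_lit 98))) (XT.nd (nat_lit 78) (nat_lit 0) (nat_lit 0) (XT.lf (nat_lit 0) (nat_lit 66411628661) (nat_lit 684) (nat_lit 62377806894) (nat_lit 760) (nat_lit 5772972356) (nat_lit 73) (nat_lit 5) (nat_lit 82) (nat_lit 5) (nat_lit 83) (nat_lit 5) (nat_lit 313) (nat_lit 310) (nat_lit 97)) (XT.nd (nat_lit 78) (nat_lit 0) (nat_lit 0) (XT.lf (nat_lit 0) (nat_lit 70996522800) (nat_lit 684) (nat_lit 4131280795) (nat_lit 760) (nat_lit 62904248811) (nat_lit 73) (nat_lit 5) (nat_lit 82) (nat_lit 5) (nat_lit 83) (nat_lit 5) (nat_lit 314) (nat_lit 310) (nat_lit 96)) (XT.lf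 (nat_lit 76) (nat_lit 58913020430) (nat_lit 0) (nat_lit 17817227437) (nat_lit 760) (nat_lit 64898952641) (nat_lit 74) (nat_lit 5) (nat_lit 73) (nat_lit 5) (nat_lit 83) (nat_lit 5) (nat_lit 315) (nat_lit 310) (nat_lit 95))))))) (XT.nd (nat_lit 37206) (nat_lit 0) (nat_lit 684) (XT.nd (nat_lit 312) (nat_lit 836) (nat_lit 0) (XT.nd (nat_lit 156) (nat_lit 0) (nat_lit 76) (XT.nd (nat_lit 78) (nat_lit 0) (nat_lit 0) (XT.lf (nat_lit 0) (nat_lit 83482910111) (nat_lit 684) (nat_lit 20812375523) (nat_lit 760) (nat_lit 41074308496) (nat_lit 74) (nat_lit 5) (nat_lit 83) (nat_lit 5) (nat_lit 84) (nat_lit 5) (nat_lit 316) (nat_lit 310) (nat_lit 94)) (XT.lf (nat_lit 76) (nat_lit 45345741957) (nat_lit 0) (nat_lit 46227330866) (nat_lit 760) (nat_lit 57673941870) (nat_lit 75) (nat_lit 5) (nat_lit 74) (nat_lit 5) (nat_lit 84) (nat_lit 5) (nat_lit 317) (nat_lit 310) (nat_lit 93))) (XT.nd (nat_lit 78) (nat_lit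 0) (nat_lit 0) (XT.lf (nat_lit 0) (nat_lit 100656000327) (nat_lit 684) (nat_lit 38002479506) (nat_lit 760) (nat_lit 14630414218) (nat_lit 75) (nat_lit 5) (nat_lit 84) (nat_lit 5) (nat_lit 85) (nat_lit 5) (nat_lit 318) (nat_lit 310) (nat_lit 92)) (XT.lf (nat_lit 76) (nat_lit 31439550297) (nat_lit 0) (nat_lit 80002032637) (nat_lit 760) (nat_lit 46028859576) (nat_lit 76) (nat_lit 5) (nat_lit 75) (nat_lit 5) (nat_lit 85) (nat_lit 5) (nat_lit 319) (nat_lit 310) (nat_lit 91)))) (XT.nd (nat_lit 156) (nat_lit 304) (nat_lit 0) (XT.nd (nat_lit 78) (nat_lit 608) (nat_lit 0) (XT.lf (nat_lit 76) (nat_lit 105672904180) (nat_lit 0) (nat_lit 17736961238) (nat_lit 760) (nat_lit 38419032482) (nat_lit 76) (nat_lit 5) (nat_lit 75) (nat_lit 5) (nat_lit 85) (nat_lit 5) (nat_lit 320) (nat_lit 310) (nat_lit 90)) (XT.lf (nat_lit 0) (nat_lit 17013223702) (nat_lit 684) (nat_lit 119972616548) (nat_lit 760) (nat_lit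 29368972414) (nat_lit 67) (nat_lit 5) (nat_lit 76) (nat_lit 5) (nat_lit 77) (nat_lit 5) (nat_lit 321) (nat_lit 310) (nat_lit 89))) (XT.nd (nat_lit 78) (nat_lit 304) (nat_lit 0) (XT.lf (nat_lit 0) (nat_lit 95489989334) (nat_lit 684) (nat_lit 56987577874) (nat_lit 760) (nat_lit 18567608784) (nat_lit 67) (nat_lit 5) (nat_lit 76) (nat_lit 5) (nat_lit 77) (nat_lit 5) (nat_lit 322) (nat_lit 310) (nat_lit 88)) (XT.nd (nat_lit 36582) (nat_lit 0) (nat_lit 684) (XT.lf (nat_lit 0) (nat_lit 1836365599) (nat_lit 304) (nat_lit 167078843653) (nat_lit 380) (nat_lit 7046282265) (nat_lit 63) (nat_lit 5) (nat_lit 67) (nat_lit 5) (nat_lit 68) (nat_lit 5) (nat_lit 323) (nat_lit 310) (nat_lit 87)) (XT.lf (nat_lit 0) (nat_lit 15314259787) (nat_lit 0) (nat_lit 15314259787) (nat_lit 684) (nat_lit 34940292512) (nat_lit 72) (nat_lit 5) (nat_lit 72) (nat_lit 3) (nat_lit 81) (nat_lit 3) (nat_lit 311) (nat_lit 311)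 (nat_lit 98)))))) (XT.nd (nat_lit 312) (nat_lit 0) (nat_lit 76) (XT.nd (nat_lit 156) (nat_lit 0) (nat_lit 76) (XT.nd (nat_lit 78) (nat_lit 0) (nat_lit 0) (XT.lf (nat_lit 0) (nat_lit 63214301100) (nat_lit 684) (nat_lit 44994500938) (nat_lit 760) (nat_lit 26185959568) (nat_lit 72) (nat_lit 5) (nat_lit 81) (nat_lit 3) (nat_lit 82) (nat_lit 5) (nat_lit 312) (nat_lit 311) (nat_lit 97)) (XT.lf (nat_lit 76) (nat_lit 13216615204) (nat_lit 0) (nat_lit 52761045084) (nat_lit 760) (nat_lit 71801684640) (nat_lit 73) (nat_lit 5) (nat_lit 72) (nat_lit 5) (nat_lit 82) (nat_lit 5) (nat_lit 313) (nat_lit 311) (nat_lit 96))) (XT.nd (nat_lit 78) (nat_lit 0) (nat_lit 0) (XT.lf (nat_lit 0) (nat_lit 69738703660) (nat_lit 684) (nat_lit 65492522069) (nat_lit 760) (nat_lit 6058956571) (nat_lit 73) (nat_lit 5) (nat_lit 82) (nat_lit 5) (nat_lit 83) (nat_lit 5) (nat_lit 314) (nat_lit 311) (nat_lit 95)) (XT.lf (nat_lit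 0) (nat_lit 74552533289) (nat_lit 684) (nat_lit 4333868482) (nat_lit 760) (nat_lit 66046923725) (nat_lit 73) (nat_lit 5) (nat_lit 82) (nat_lit 5) (nat_lit 83) (nat_lit 5) (nat_lit 315) (nat_lit 311) (nat_lit 94)))) (XT.nd (nat_lit 156) (nat_lit 0) (nat_lit 76) (XT.nd (nat_lit 78) (nat_lit 0) (nat_lit 76) (XT.lf (nat_lit 76) (nat_lit 61862583670) (nat_lit 0) (nat_lit 18710127527) (nat_lit 760) (nat_lit 68137632444) (nat_lit 74) (nat_lit 5) (nat_lit 73) (nat_lit 5) (nat_lit 83) (nat_lit 5) (nat_lit 316) (nat_lit 311) (nat_lit 93)) (XT.lf (nat_lit 0) (nat_lit 87662692861) (nat_lit 684) (nat_lit 21848936259) (nat_lit 760) (nat_lit 43126144428) (nat_lit 74) (nat_lit 5) (nat_lit 83) (nat_lit 5) (nat_lit 84) (nat_lit 5) (nat_lit 317) (nat_lit 311) (nat_lit 92))) (XT.nd (nat_lit 78) (nat_lit 0) (nat_lit 76) (XT.lf (nat_lit 76) (nat_lit 47617021643) (nat_lit 0) (nat_lit 48540135961) (nat_lit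 760) (nat_lit 60551918719) (nat_lit 75) (nat_lit 5) (nat_lit 74) (nat_lit 5) (nat_lit 84) (nat_lit 5) (nat_lit 318) (nat_lit 311) (nat_lit 91)) (XT.nd (nat_lit 78) (nat_lit 0) (nat_lit 0) (XT.lf (nat_lit 0) (nat_lit 105693951467) (nat_lit 684) (nat_lit 39898504289) (nat_lit 760) (nat_lit 15360608729) (nat_lit 75) (nat_lit 5) (nat_lit 84) (nat_lit 5) (nat_lit 85) (nat_lit 5) (nat_lit 319) (nat_lit 311) (nat_lit 90)) (XT.lf (nat_lit 76) (nat_lit 33015560889) (nat_lit 0) (nat_lit 84003069992) (nat_lit 760) (nat_lit 48325069399) (nat_lit 76) (nat_lit 5) (nat_lit 75) (nat_lit 5) (nat_lit 85) (nat_lit 5) (nat_lit 320) (nat_lit 311) (nat_lit 89))))))))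
noncomputable def xc255 : XT := (XT.nd (nat_lit 74880) (nat_lit 0) (nat_lit 380) (XT.nd (nat_lit 37362) (nat_lit 0) (nat_lit 380) (XT.nd (nat_lit 36972) (nat_lit 0) (nat_lit 380) (XT.nd (nat_lit 36816) (nat_lit 0) (nat_lit 380) (XT.nd (nat_lit 78) (nat_lit 608) (nat_lit 0) (XT.lf (nat_lit 76) (nat_lit 110960390415) (nat_lit 0) (nat_lit 18624700464) (nat_lit 760) (nat_lit 40335000148) (nat_lit 76) (nat_lit 5) (nat_lit 75) (nat_lit 5) (nat_lit 85) (nat_lit 5) (nat_lit 321) (nat_lit 311) (nat_lit 88)) (XT.lf (nat_lit 0) (nat_lit 17867925357) (nat_lit 684) (nat_lit 125971763586) (nat_lit 760) (nat_lit 30832622084) (nat_lit 67) (nat_lit 5) (nat_lit 76) (nat_lit 5) (nat_lit 77) (nat_lit 5) (nat_lit 322) (nat_lit 311) (nat_lit 87))) (XT.nd (nat_lit 78) (nat_lit 0) (nat_lit 0) (XT.lf (nat_lit 0) (nat_lit 16081686488) (nat_lit 0) (nat_lit 16081686488) (nat_lit 684) (nat_lit 36683697146) (nat_lit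 72) (nat_lit 5) (nat_lit 72) (nat_lit 3) (nat_lit 81) (nat_lit 3) (nat_lit 312) (nat_lit 312) (nat_lit 96)) (XT.lf (nat_lit 0) (nat_lit 66381493615) (nat_lit 684) (nat_lit 47240563058) (nat_lit 760) (nat_lit 27492097810) (nat_lit 72) (nat_lit 5) (nat_lit 81) (nat_lit 3) (nat_lit 82) (nat_lit 5) (nat_lit 313) (nat_lit 312) (nat_lit 95)))) (XT.nd (nat_lit 156) (nat_lit 0) (nat_lit 76) (XT.nd (nat_lit 78) (nat_lit 0) (nat_lit 76) (XT.lf (nat_lit 76) (nat_lit 13881049812) (nat_lit 0) (nat_lit 55401718768) (nat_lit 760) (nat_lit 75385212018) (nat_lit 73) (nat_lit 5) (nat_lit 72) (nat_lit 5) (nat_lit 82) (nat_lit 5) (nat_lit 314) (nat_lit 312) (nat_lit 94)) (XT.lf (nat_lit 0) (nat_lit 73231528699) (nat_lit 684) (nat_lit 68763361169) (nat_lit 760) (nat_lit 6359487707) (nat_lit 73) (nat_lit 5) (nat_lit 82) (nat_lit 5) (nat_lit 83) (nat_lit 5) (nat_lit 315) (nat_lit 312) (nat_lit 93))) (XT.nd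 (nat_lit 78) (nat_lit 0) (nat_lit 0) (XT.lf (nat_lit 0) (nat_lit 78285769339) (nat_lit 684) (nat_lit 4546955237) (nat_lit 760) (nat_lit 69346968299) (nat_lit 73) (nat_lit 5) (nat_lit 82) (nat_lit 5) (nat_lit 83) (nat_lit 5) (nat_lit 316) (nat_lit 312) (nat_lit 92)) (XT.nd (nat_lit 78) (nat_lit 0) (nat_lit 76) (XT.lf (nat_lit 76) (nat_lit 64959261350) (nat_lit 0) (nat_lit 19647483081) (nat_lit 760) (nat_lit 71538828960) (nat_lit 74) (nat_lit 5) (nat_lit 73) (nat_lit 5) (nat_lit 83) (nat_lit 5) (nat_lit 317) (nat_lit 312) (nat_lit 91)) (XT.lf (nat_lit 0) (nat_lit 92050940651) (nat_lit 684) (nat_lit 22937702310) (nat_lit 760) (nat_lit 45280746895) (nat_lit 74) (nat_lit 5) (nat_lit 83) (nat_lit 5) (nat_lit 84) (nat_lit 5) (nat_lit 318) (nat_lit 312) (nat_lit 90)))))) (XT.nd (nat_lit 37128) (nat_lit 0) (nat_lit 0) (XT.nd (nat_lit 156) (nat_lit 152) (nat_lit 0) (XT.nd (nat_lit 78) (nat_lit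 0) (nat_lit 76) (XT.lf (nat_lit 76) (nat_lit 50001494119) (nat_lit 0) (nat_lit 50968447568) (nat_lit 760) (nat_lit 63574326225) (nat_lit 75) (nat_lit 5) (nat_lit 74) (nat_lit 5) (nat_lit 84) (nat_lit 5) (nat_lit 319) (nat_lit 312) (nat_lit 89)) (XT.lf (nat_lit 0) (nat_lit 110983321261) (nat_lit 684) (nat_lit 41889711415) (nat_lit 760) (nat_lit 16127436264) (nat_lit 75) (nat_lit 5) (nat_lit 84) (nat_lit 5) (nat_lit 85) (nat_lit 5) (nat_lit 320) (nat_lit 312) (nat_lit 88))) (XT.nd (nat_lit 36894) (nat_lit 228) (nat_lit 0) (XT.lf (nat_lit 76) (nat_lit 34669997052) (nat_lit 0) (nat_lit 88204072220) (nat_lit 760) (nat_lit 50736576243) (nat_lit 76) (nat_lit 5) (nat_lit 75) (nat_lit 5) (nat_lit 85) (nat_lit 5) (nat_lit 321) (nat_lit 312) (nat_lit 87)) (XT.lf (nat_lit 0) (nat_lit 16887325199) (nat_lit 0) (nat_lit 16887325199) (nat_lit 684) (nat_lit 38514607634) (nat_lit 72) (nat_lit 5) (nat_lit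 72) (nat_lit 3) (nat_lit 81) (nat_lit 3) (nat_lit 313) (nat_lit 313) (nat_lit 94)))) (XT.nd (nat_lit 156) (nat_lit 0) (nat_lit 76) (XT.nd (nat_lit 78) (nat_lit 0) (nat_lit 0) (XT.lf (nat_lit 0) (nat_lit 69706443544) (nat_lit 684) (nat_lit 49599268829) (nat_lit 760) (nat_lit 28863836726) (nat_lit 72) (nat_lit 5) (nat_lit 81) (nat_lit 3) (nat_lit 82) (nat_lit 5) (nat_lit 314) (nat_lit 313) (nat_lit 93)) (XT.lf (nat_lit 76) (nat_lit 14578371098) (nat_lit 0) (nat_lit 58174182420) (nat_lit 760) (nat_lit 79148525359) (nat_lit 73) (nat_lit 5) (nat_lit 72) (nat_lit 5) (nat_lit 82) (nat_lit 5) (nat_lit 315) (nat_lit 313) (nat_lit 92))) (XT.nd (nat_lit 78) (nat_lit 0) (nat_lit 0) (XT.lf (nat_lit 0) (nat_lit 76898447407) (nat_lit 684) (nat_lit 72198094305) (nat_lit 760) (nat_lit 6675270081) (nat_lit 73) (nat_lit 5) (nat_lit 82) (nat_lit 5) (nat_lit 83) (nat_lit 5) (nat_lit 316) (nat_lit 313) (nat_lit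 91)) (XT.nd (nat_lit 78) (nat_lit 0) (nat_lit 0) (XT.lf (nat_lit 0) (nat_lit 82205145685) (nat_lit 684) (nat_lit 4771031644) (nat_lit 760) (nat_lit 72812229084) (nat_lit 73) (nat_lit 5) (nat_lit 82) (nat_lit 5) (nat_lit 83) (nat_lit 5) (nat_lit 317) (nat_lit 313) (nat_lit 90)) (XT.lf (nat_lit 76) (nat_lit 68210443009) (nat_lit 0) (nat_lit 20631534494) (nat_lit 760) (nat_lit 75110613848) (nat_lit 74) (nat_lit 5) (nat_lit 73) (nat_lit 5) (nat_lit 83) (nat_lit 5) (nat_lit 318) (nat_lit 313) (nat_lit 89))))))) (XT.nd (nat_lit 37596) (nat_lit 0) (nat_lit 0) (XT.nd (nat_lit 37206) (nat_lit 0) (nat_lit 0) (XT.nd (nat_lit 156) (nat_lit 152) (nat_lit 0) (XT.nd (nat_lit 78) (nat_lit 0) (nat_lit 0) (XT.lf (nat_lit 0) (nat_lit 96658125458) (nat_lit 684) (nat_lit 24081248867) (nat_lit 760) (nat_lit 47543237977) (nat_lit 74) (nat_lit 5) (nat_lit 83) (nat_lit 5) (nat_lit 84) (nat_lit 5) (nat_lit 319)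 (nat_lit 313) (nat_lit 88)) (XT.lf (nat_lit 76) (nat_lit 52504853537) (nat_lit 0) (nat_lit 53518053447) (nat_lit 760) (nat_lit 66748336477) (nat_lit 75) (nat_lit 5) (nat_lit 74) (nat_lit 5) (nat_lit 84) (nat_lit 5) (nat_lit 320) (nat_lit 313) (nat_lit 87))) (XT.nd (nat_lit 36972) (nat_lit 228) (nat_lit 0) (XT.lf (nat_lit 0) (nat_lit 116536725166) (nat_lit 684) (nat_lit 43980824570) (nat_lit 760) (nat_lit 16932717009) (nat_lit 75) (nat_lit 5) (nat_lit 84) (nat_lit 5) (nat_lit 85) (nat_lit 5) (nat_lit 321) (nat_lit 313) (nat_lit 86)) (XT.lf (nat_lit 0) (nat_lit 17733101334) (nat_lit 0) (nat_lit 17733101334) (nat_lit 684) (nat_lit 40437368066) (nat_lit 72) (nat_lit 5) (nat_lit 72) (nat_lit 3) (nat_lit 81) (nat_lit 3) (nat_lit 314) (nat_lit 314) (nat_lit 92)))) (XT.nd (nat_lit 156) (nat_lit 0) (nat_lit 76) (XT.nd (nat_lit 78) (nat_lit 0) (nat_lit 0) (XT.lf (nat_lit 0) (nat_lit 73197094744)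 (nat_lit 684) (nat_lit 52076218771) (nat_lit 760) (nat_lit 30304429039) (nat_lit 72) (nat_lit 5) (nat_lit 81) (nat_lit 3) (nat_lit 82) (nat_lit 5) (nat_lit 315) (nat_lit 314) (nat_lit 91)) (XT.lf (nat_lit 76) (nat_lit 15310254547) (nat_lit 0) (nat_lit 61085048197) (nat_lit 760) (nat_lit 83100557286) (nat_lit 73) (nat_lit 5) (nat_lit 72) (nat_lit 5) (nat_lit 82) (nat_lit 5) (nat_lit 316) (nat_lit 314) (nat_lit 90))) (XT.nd (nat_lit 78) (nat_lit 0) (nat_lit 0) (XT.lf (nat_lit 0) (nat_lit 80748215376) (nat_lit 684) (nat_lit 75804883444) (nat_lit 760) (nat_lit 7007045366) (nat_lit 73) (nat_lit 5) (nat_lit 82) (nat_lit 5) (nat_lit 83) (nat_lit 5) (nat_lit 317) (nat_lit 314) (nat_lit 89)) (XT.nd (nat_lit 78) (nat_lit 0) (nat_lit 0) (XT.lf (nat_lit 0) (nat_lit 86320017825) (nat_lit 684) (nat_lit 5006616010) (nat_lit 760) (nat_lit 76450946997) (nat_lit 73) (nat_lit 5) (nat_lit 82) (nat_lit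 5) (nat_lit 83) (nat_lit 5) (nat_lit 318) (nat_lit 314) (nat_lit 88)) (XT.lf (nat_lit 76) (nat_lit 71623884517) (nat_lit 0) (nat_lit 21664632541) (nat_lit 760) (nat_lit 78861467390) (nat_lit 74) (nat_lit 5) (nat_lit 73) (nat_lit 5) (nat_lit 83) (nat_lit 5) (nat_lit 319) (nat_lit 314) (nat_lit 87)))))) (XT.nd (nat_lit 37362) (nat_lit 0) (nat_lit 0) (XT.nd (nat_lit 37206) (nat_lit 0) (nat_lit 0) (XT.nd (nat_lit 37128) (nat_lit 152) (nat_lit 0) (XT.lf (nat_lit 0) (nat_lit 101495238329) (nat_lit 684) (nat_lit 25282283139) (nat_lit 760) (nat_lit 49918997370) (nat_lit 74) (nat_lit 5) (nat_lit 83) (nat_lit 5) (nat_lit 84) (nat_lit 5) (nat_lit 320) (nat_lit 314) (nat_lit 86)) (XT.lf (nat_lit 0) (nat_lit 18621035198) (nat_lit 0) (nat_lit 18621035198) (nat_lit 684) (nat_lit 42456542638) (nat_lit 72) (nat_lit 5) (nat_lit 72) (nat_lit 3) (nat_lit 81) (nat_lit 3) (nat_lit 315) (nat_lit 315) (nat_lit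 90))) (XT.nd (nat_lit 78) (nat_lit 0) (nat_lit 0) (XT.lf (nat_lit 0) (nat_lit 76861783062) (nat_lit 684) (nat_lit 54677296378) (nat_lit 760) (nat_lit 31817292646) (nat_lit 72) (nat_lit 5) (nat_lit 81) (nat_lit 3) (nat_lit 82) (nat_lit 5) (nat_lit 316) (nat_lit 315) (nat_lit 89)) (XT.lf (nat_lit 76) (nat_lit 16078456520) (nat_lit 0) (nat_lit 64141256758) (nat_lit 760) (nat_lit 87250692325) (nat_lit 73) (nat_lit 5) (nat_lit 72) (nat_lit 5) (nat_lit 82) (nat_lit 5) (nat_lit 317) (nat_lit 315) (nat_lit 88)))) (XT.nd (nat_lit 37362) (nat_lit 76) (nat_lit 0) (XT.nd (nat_lit 78) (nat_lit 0) (nat_lit 0) (XT.lf (nat_lit 0) (nat_lit 84790021246) (nat_lit 684) (nat_lit 79592301696) (nat_lit 760) (nat_lit 7355594261) (nat_lit 73) (nat_lit 5) (nat_lit 82) (nat_lit 5) (nat_lit 83) (nat_lit 5) (nat_lit 318) (nat_lit 315) (nat_lit 87)) (XT.lf (nat_lit 0) (nat_lit 90640204527) (nat_lit 684) (nat_lit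 5254255459) (nat_lit 760) (nat_lit 80271776848) (nat_lit 73) (nat_lit 5) (nat_lit 82) (nat_lit 5) (nat_lit 83) (nat_lit 5) (nat_lit 319) (nat_lit 315) (nat_lit 86))) (XT.nd (nat_lit 78) (nat_lit 0) (nat_lit 0) (XT.lf (nat_lit 0) (nat_lit 19553246866) (nat_lit 0) (nat_lit 19553246866) (nat_lit 684) (nat_lit 44576926386) (nat_lit 72) (nat_lit 5) (nat_lit 72) (nat_lit 3) (nat_lit 81) (nat_lit 3) (nat_lit 316) (nat_lit 316) (nat_lit 88)) (XT.nd (nat_lit 78) (nat_lit 0) (nat_lit 0) (XT.lf (nat_lit 0) (nat_lit 80709256416) (nat_lit 684) (nat_lit 57408681984) (nat_lit 760) (nat_lit 33406018644) (nat_lit 72) (nat_lit 5) (nat_lit 81) (nat_lit 3) (nat_lit 82) (nat_lit 5) (nat_lit 317) (nat_lit 316) (nat_lit 87)) (XT.lf (nat_lit 76) (nat_lit 16884818572) (nat_lit 0) (nat_lit 67350093882) (nat_lit 760) (nat_lit 91608789005) (nat_lit 73) (nat_lit 5) (nat_lit 72) (nat_lit 5) (nat_lit 82) (nat_lit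 5) (nat_lit 318) (nat_lit 316) (nat_lit 86))))))))

set_option maxRecDepth 10000000 in
noncomputable def Tp : PT := (PT.nd (nat_lit 4623762) (PT.nd (nat_lit 4286334) (PT.nd (nat_lit 3949374) (PT.nd (nat_lit 3686904) pc0 pc1) (PT.nd (nat_lit 187278) pc2 pc3)) (PT.nd (nat_lit 187746) (PT.nd (nat_lit 112242) pc4 pc5) (PT.nd (nat_lit 75114) pc6 pc7))) (PT.nd (nat_lit 223704) (PT.nd (nat_lit 112476) (PT.nd (nat_lit 38688) pc8 pc9) (PT.nd (nat_lit 38298) pc10 pc11)) (PT.nd (nat_lit 77766) (PT.nd (nat_lit 37830) pc12 pc13) (PT.nd (nat_lit 112476) pc14 pc15))))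

set_option maxRecDepth 10000000 in
noncomputable def Tx : XT := (XT.nd (nat_lit 6706674) (nat_lit 0) (nat_lit 76) XT.nil (XT.nd (nat_lit 5173896) (nat_lit 0) (nat_lit 0) (XT.nd (nat_lit 2511522) (nat_lit 0) (nat_lit 76) (XT.nd (nat_lit 1758510) (nat_lit 0) (nat_lit 76) (XT.nd (nat_lit 1234272) (nat_lit 0) (nat_lit 0) (XT.nd (nat_lit 860418) (nat_lit 0) (nat_lit 0) (XT.nd (nat_lit 598494) (nat_lit 0) (nat_lit 0) (XT.nd (nat_lit 411606) (nat_lit 0) (nat_lit 0) (XT.nd (nat_lit 262626) (nat_lit 0) (nat_lit 0) (XT.nd (nat_lit 187200) (nat_lit 0) (nat_lit 0) xc0 xc1) (XT.nd (nat_lit 74802) (nat_lit 0) (nat_lit 0) xc2 xc3)) (XT.nd (nat_lit 111462) (nat_lit 0) (nat_lit 0) (XT.nd (nat_lit 38220) (nat_lit 0) (nat_lit 0) xc4 xc5) (XT.nd (nat_lit 37752) (nat_lit 0) (nat_lit 0) xc6 xc7))) (XT.nd (nat_lit 148902) (nat_lit 0) (nat_lit 0) (XT.nd (nat_lit 74724) (nat_lit 0) (nat_lit 0) (XT.nd (nat_lit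 37440) (nat_lit 0) (nat_lit 0) xc8 xc9) (XT.nd (nat_lit 37128) (nat_lit 0) (nat_lit 0) xc10 xc11)) (XT.nd (nat_lit 39624) (nat_lit 0) (nat_lit 0) (XT.nd (nat_lit 2730) (nat_lit 0) (nat_lit 0) xc12 xc13) (XT.nd (nat_lit 36738) (nat_lit 0) (nat_lit 0) xc14 xc15)))) (XT.nd (nat_lit 188838) (nat_lit 0) (nat_lit 0) (XT.nd (nat_lit 111540) (nat_lit 0) (nat_lit 0) (XT.nd (nat_lit 39156) (nat_lit 0) (nat_lit 0) (XT.nd (nat_lit 36426) (nat_lit 0) (nat_lit 0) xc16 xc17) (XT.nd (nat_lit 36270) (nat_lit 0) (nat_lit 0) xc18 xc19)) (XT.nd (nat_lit 38688) (nat_lit 0) (nat_lit 0) (XT.nd (nat_lit 2730) (nat_lit 0) (nat_lit 0) xc20 xc21) (XT.nd (nat_lit 35802) (nat_lit 0) (nat_lit 76) xc22 xc23))) (XT.nd (nat_lit 109278) (nat_lit 0) (nat_lit 0) (XT.nd (nat_lit 38376) (nat_lit 0) (nat_lit 0) (XT.nd (nat_lit 35646) (nat_lit 0) (nat_lit 0) xc24 xc25) (XT.nd (nat_lit 35490) (nat_lit 0) (nat_lit 0) xc26 xc27))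 (XT.nd (nat_lit 37908) (nat_lit 0) (nat_lit 0) (XT.nd (nat_lit 2730) (nat_lit 76) (nat_lit 0) xc28 xc29) (XT.nd (nat_lit 2730) (nat_lit 76) (nat_lit 0) xc30 xc31))))) (XT.nd (nat_lit 265746) (nat_lit 0) (nat_lit 0) (XT.nd (nat_lit 149526) (nat_lit 0) (nat_lit 0) (XT.nd (nat_lit 75036) (nat_lit 0) (nat_lit 0) (XT.nd (nat_lit 37596) (nat_lit 0) (nat_lit 0) (XT.nd (nat_lit 2730) (nat_lit 76) (nat_lit 0) xc32 xc33) (XT.nd (nat_lit 2730) (nat_lit 76) (nat_lit 0) xc34 xc35)) (XT.nd (nat_lit 37284) (nat_lit 0) (nat_lit 0) (XT.nd (nat_lit 2730) (nat_lit 76) (nat_lit 0) xc36 xc37) (XT.nd (nat_lit 2730) (nat_lit 76) (nat_lit 0) xc38 xc39))) (XT.nd (nat_lit 73944) (nat_lit 0) (nat_lit 0) (XT.nd (nat_lit 37050) (nat_lit 0) (nat_lit 0) (XT.nd (nat_lit 2730) (nat_lit 76) (nat_lit 0) xc40 xc41) (XT.nd (nat_lit 2730) (nat_lit 76) (nat_lit 0) xc42 xc43)) (XT.nd (nat_lit 36738) (nat_lit 0) (nat_lit 76)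 (XT.nd (nat_lit 2730) (nat_lit 76) (nat_lit 0) xc44 xc45) (XT.nd (nat_lit 2730) (nat_lit 152) (nat_lit 0) xc46 xc47)))) (XT.nd (nat_lit 145470) (nat_lit 0) (nat_lit 0) (XT.nd (nat_lit 73008) (nat_lit 0) (nat_lit 0) (XT.nd (nat_lit 36582) (nat_lit 0) (nat_lit 0) (XT.nd (nat_lit 33852) (nat_lit 0) (nat_lit 76) xc48 xc49) (XT.nd (nat_lit 33696) (nat_lit 0) (nat_lit 76) xc50 xc51)) (XT.nd (nat_lit 36270) (nat_lit 0) (nat_lit 0) (XT.nd (nat_lit 33540) (nat_lit 0) (nat_lit 228) xc52 xc53) (XT.nd (nat_lit 2730) (nat_lit 76) (nat_lit 0) xc54 xc55))) (XT.nd (nat_lit 41496) (nat_lit 0) (nat_lit 76) (XT.nd (nat_lit 35958) (nat_lit 0) (nat_lit 76) (XT.nd (nat_lit 2730) (nat_lit 76) (nat_lit 0) xc56 xc57) (XT.nd (nat_lit 2730) (nat_lit 228) (nat_lit 0) xc58 xc59)) (XT.nd (nat_lit 35802) (nat_lit 0) (nat_lit 0) (XT.nd (nat_lit 33072) (nat_lit 0) (nat_lit 76) xc60 xc61) (XT.nd (nat_lit 2730) (nat_lit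 0) (nat_lit 0) xc62 xc63)))))) (XT.nd (nat_lit 410670) (nat_lit 0) (nat_lit 0) (XT.nd (nat_lit 222144) (nat_lit 0) (nat_lit 0) (XT.nd (nat_lit 111774) (nat_lit 0) (nat_lit 0) (XT.nd (nat_lit 41028) (nat_lit 0) (nat_lit 0) (XT.nd (nat_lit 35568) (nat_lit 0) (nat_lit 0) (XT.nd (nat_lit 2730) (nat_lit 0) (nat_lit 0) xc64 xc65) (XT.nd (nat_lit 2730) (nat_lit 228) (nat_lit 0) xc66 xc67)) (XT.nd (nat_lit 35412) (nat_lit 0) (nat_lit 0) (XT.nd (nat_lit 32682) (nat_lit 0) (nat_lit 152) xc68 xc69) (XT.nd (nat_lit 2730) (nat_lit 0) (nat_lit 0) xc70 xc71))) (XT.nd (nat_lit 40560) (nat_lit 0) (nat_lit 0) (XT.nd (nat_lit 35100) (nat_lit 0) (nat_lit 0) (XT.nd (nat_lit 2730) (nat_lit 152) (nat_lit 0) xc72 xc73) (XT.nd (nat_lit 2730) (nat_lit 608) (nat_lit 0) xc74 xc75)) (XT.nd (nat_lit 34944) (nat_lit 0) (nat_lit 0) (XT.nd (nat_lit 32214) (nat_lit 0) (nat_lit 532) xc76 xc77) (XT.nd (nat_lit 2730) (nat_lit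 0) (nat_lit 0) xc78 xc79)))) (XT.nd (nat_lit 80184) (nat_lit 0) (nat_lit 0) (XT.nd (nat_lit 40092) (nat_lit 0) (nat_lit 0) (XT.nd (nat_lit 5460) (nat_lit 0) (nat_lit 0) (XT.nd (nat_lit 2730) (nat_lit 532) (nat_lit 0) xc80 xc81) (XT.nd (nat_lit 31902) (nat_lit 0) (nat_lit 684) xc82 xc83)) (XT.nd (nat_lit 34554) (nat_lit 0) (nat_lit 152) (XT.nd (nat_lit 2730) (nat_lit 76) (nat_lit 0) xc84 xc85) (XT.nd (nat_lit 2730) (nat_lit 608) (nat_lit 0) xc86 xc87))) (XT.nd (nat_lit 68718) (nat_lit 0) (nat_lit 0) (XT.nd (nat_lit 34398) (nat_lit 0) (nat_lit 0) (XT.nd (nat_lit 31668) (nat_lit 0) (nat_lit 988) xc88 xc89) (XT.nd (nat_lit 2730) (nat_lit 152) (nat_lit 0) xc90 xc91)) (XT.nd (nat_lit 5460) (nat_lit 228) (nat_lit 0) (XT.nd (nat_lit 2730) (nat_lit 1140) (nat_lit 0) xc92 xc93) (XT.nd (nat_lit 2730) (nat_lit 0) (nat_lit 0) xc94 xc95))))) (XT.nd (nat_lit 185016) (nat_lit 0) (nat_lit 0) (XT.nd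 (nat_lit 78702) (nat_lit 0) (nat_lit 0) (XT.nd (nat_lit 39390) (nat_lit 0) (nat_lit 0) (XT.nd (nat_lit 5460) (nat_lit 0) (nat_lit 0) (XT.nd (nat_lit 2730) (nat_lit 380) (nat_lit 0) xc96 xc97) (XT.nd (nat_lit 31200) (nat_lit 0) (nat_lit 684) xc98 xc99)) (XT.nd (nat_lit 33774) (nat_lit 0) (nat_lit 228) (XT.nd (nat_lit 2730) (nat_lit 152) (nat_lit 0) xc100 xc101) (XT.nd (nat_lit 2730) (nat_lit 1064) (nat_lit 0) xc102 xc103))) (XT.nd (nat_lit 39078) (nat_lit 0) (nat_lit 0) (XT.nd (nat_lit 33618) (nat_lit 0) (nat_lit 0) (XT.nd (nat_lit 2730) (nat_lit 0) (nat_lit 0) xc104 xc105) (XT.nd (nat_lit 2730) (nat_lit 456) (nat_lit 0) xc106 xc107)) (XT.nd (nat_lit 33540) (nat_lit 0) (nat_lit 0) (XT.nd (nat_lit 30810) (nat_lit 0) (nat_lit 1064) xc108 xc109) (XT.nd (nat_lit 2730) (nat_lit 228) (nat_lit 0) xc110 xc111)))) (XT.nd (nat_lit 78468) (nat_lit 0) (nat_lit 0) (XT.nd (nat_lit 39156) (nat_lit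 0) (nat_lit 0) (XT.nd (nat_lit 5460) (nat_lit 456) (nat_lit 0) (XT.nd (nat_lit 2730) (nat_lit 1672) (nat_lit 0) xc112 xc113) (XT.nd (nat_lit 2730) (nat_lit 0) (nat_lit 0) xc114 xc115)) (XT.nd (nat_lit 5460) (nat_lit 152) (nat_lit 0) (XT.nd (nat_lit 2730) (nat_lit 608) (nat_lit 0) xc116 xc117) (XT.nd (nat_lit 31044) (nat_lit 0) (nat_lit 1520) xc118 xc119))) (XT.nd (nat_lit 39390) (nat_lit 0) (nat_lit 0) (XT.nd (nat_lit 5460) (nat_lit 0) (nat_lit 0) (XT.nd (nat_lit 2730) (nat_lit 304) (nat_lit 0) xc120 xc121) (XT.nd (nat_lit 31122) (nat_lit 0) (nat_lit 532) xc122 xc123)) (XT.nd (nat_lit 33930) (nat_lit 0) (nat_lit 152) (XT.nd (nat_lit 2730) (nat_lit 0) (nat_lit 0) xc124 xc125) (XT.nd (nat_lit 2730) (nat_lit 836) (nat_lit 0) xc126 xc127))))))) (XT.nd (nat_lit 857610) (nat_lit 0) (nat_lit 228) (XT.nd (nat_lit 407316) (nat_lit 0) (nat_lit 76) (XT.nd (nat_lit 187668) (nat_lit 0) (nat_lit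 0) (XT.nd (nat_lit 107952) (nat_lit 0) (nat_lit 0) (XT.nd (nat_lit 68172) (nat_lit 0) (nat_lit 0) (XT.nd (nat_lit 34008) (nat_lit 0) (nat_lit 0) (XT.nd (nat_lit 31278) (nat_lit 0) (nat_lit 1368) xc128 xc129) (XT.nd (nat_lit 2730) (nat_lit 228) (nat_lit 0) xc130 xc131)) (XT.nd (nat_lit 5460) (nat_lit 456) (nat_lit 0) (XT.nd (nat_lit 2730) (nat_lit 1596) (nat_lit 0) xc132 xc133) (XT.nd (nat_lit 2730) (nat_lit 0) (nat_lit 0) xc134 xc135))) (XT.nd (nat_lit 39780) (nat_lit 0) (nat_lit 0) (XT.nd (nat_lit 5460) (nat_lit 76) (nat_lit 0) (XT.nd (nat_lit 2730) (nat_lit 456) (nat_lit 0) xc136 xc137) (XT.nd (nat_lit 31590) (nat_lit 0) (nat_lit 760) xc138 xc139)) (XT.nd (nat_lit 34398) (nat_lit 0) (nat_lit 228) (XT.nd (nat_lit 2730) (nat_lit 152) (nat_lit 0) xc140 xc141) (XT.nd (nat_lit 2730) (nat_lit 836) (nat_lit 0) xc142 xc143)))) (XT.nd (nat_lit 109356) (nat_lit 0) (nat_lit 0) (XT.nd (nat_lit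 69108) (nat_lit 0) (nat_lit 0) (XT.nd (nat_lit 34476) (nat_lit 0) (nat_lit 0) (XT.nd (nat_lit 31746) (nat_lit 0) (nat_lit 1216) xc144 xc145) (XT.nd (nat_lit 2730) (nat_lit 228) (nat_lit 0) xc146 xc147)) (XT.nd (nat_lit 5460) (nat_lit 304) (nat_lit 0) (XT.nd (nat_lit 2730) (nat_lit 1064) (nat_lit 0) xc148 xc149) (XT.nd (nat_lit 31980) (nat_lit 0) (nat_lit 1520) xc150 xc151))) (XT.nd (nat_lit 40326) (nat_lit 0) (nat_lit 0) (XT.nd (nat_lit 34788) (nat_lit 0) (nat_lit 304) (XT.nd (nat_lit 2730) (nat_lit 304) (nat_lit 0) xc152 xc153) (XT.nd (nat_lit 2730) (nat_lit 1216) (nat_lit 0) xc154 xc155)) (XT.nd (nat_lit 34866) (nat_lit 0) (nat_lit 0) (XT.nd (nat_lit 32136) (nat_lit 0) (nat_lit 1520) xc156 xc157) (XT.nd (nat_lit 2730) (nat_lit 304) (nat_lit 0) xc158 xc159))))) (XT.nd (nat_lit 192972) (nat_lit 0) (nat_lit 76) (XT.nd (nat_lit 81276) (nat_lit 0) (nat_lit 0) (XT.nd (nat_lit 40560) (nat_lit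 0) (nat_lit 0) (XT.nd (nat_lit 5460) (nat_lit 152) (nat_lit 0) (XT.nd (nat_lit 2730) (nat_lit 1140) (nat_lit 0) xc160 xc161) (XT.nd (nat_lit 32370) (nat_lit 0) (nat_lit 1140) xc162 xc163)) (XT.nd (nat_lit 35178) (nat_lit 0) (nat_lit 76) (XT.nd (nat_lit 2730) (nat_lit 152) (nat_lit 0) xc164 xc165) (XT.nd (nat_lit 2730) (nat_lit 836) (nat_lit 0) xc166 xc167))) (XT.nd (nat_lit 70668) (nat_lit 0) (nat_lit 76) (XT.nd (nat_lit 35256) (nat_lit 0) (nat_lit 76) (XT.nd (nat_lit 32526) (nat_lit 0) (nat_lit 608) xc168 xc169) (XT.nd (nat_lit 2730) (nat_lit 0) (nat_lit 0) xc170 xc171)) (XT.nd (nat_lit 35490) (nat_lit 0) (nat_lit 228) (XT.nd (nat_lit 2730) (nat_lit 380) (nat_lit 0) xc172 xc173) (XT.nd (nat_lit 2730) (nat_lit 1368) (nat_lit 0) xc174 xc175)))) (XT.nd (nat_lit 112554) (nat_lit 0) (nat_lit 0) (XT.nd (nat_lit 71214) (nat_lit 0) (nat_lit 0) (XT.nd (nat_lit 35568) (nat_lit 0) (nat_lit 0)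 (XT.nd (nat_lit 32838) (nat_lit 0) (nat_lit 912) xc176 xc177) (XT.nd (nat_lit 2730) (nat_lit 76) (nat_lit 0) xc178 xc179)) (XT.nd (nat_lit 35802) (nat_lit 0) (nat_lit 304) (XT.nd (nat_lit 2730) (nat_lit 532) (nat_lit 0) xc180 xc181) (XT.nd (nat_lit 2730) (nat_lit 1444) (nat_lit 0) xc182 xc183))) (XT.nd (nat_lit 72150) (nat_lit 0) (nat_lit 0) (XT.nd (nat_lit 35958) (nat_lit 0) (nat_lit 0) (XT.nd (nat_lit 33228) (nat_lit 0) (nat_lit 912) xc184 xc185) (XT.nd (nat_lit 2730) (nat_lit 76) (nat_lit 0) xc186 xc187)) (XT.nd (nat_lit 36192) (nat_lit 0) (nat_lit 76) (XT.nd (nat_lit 2730) (nat_lit 304) (nat_lit 0) xc188 xc189) (XT.nd (nat_lit 2730) (nat_lit 836) (nat_lit 0) xc190 xc191)))))) (XT.nd (nat_lit 564720) (nat_lit 0) (nat_lit 456) (XT.nd (nat_lit 263094) (nat_lit 0) (nat_lit 152) (XT.nd (nat_lit 115128) (nat_lit 0) (nat_lit 76) (XT.nd (nat_lit 41886) (nat_lit 0) (nat_lit 0) (XT.nd (nat_lit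 5460) (nat_lit 228) (nat_lit 0) (XT.nd (nat_lit 2730) (nat_lit 1596) (nat_lit 0) xc192 xc193) (XT.nd (nat_lit 33696) (nat_lit 0) (nat_lit 684) xc194 xc195)) (XT.nd (nat_lit 36504) (nat_lit 0) (nat_lit 0) (XT.nd (nat_lit 33774) (nat_lit 0) (nat_lit 1292) xc196 xc197) (XT.nd (nat_lit 2730) (nat_lit 76) (nat_lit 0) xc198 xc199))) (XT.nd (nat_lit 73710) (nat_lit 0) (nat_lit 0) (XT.nd (nat_lit 36816) (nat_lit 0) (nat_lit 0) (XT.nd (nat_lit 2730) (nat_lit 228) (nat_lit 0) xc200 xc201) (XT.nd (nat_lit 2730) (nat_lit 608) (nat_lit 0) xc202 xc203)) (XT.nd (nat_lit 37050) (nat_lit 0) (nat_lit 76) (XT.nd (nat_lit 2730) (nat_lit 988) (nat_lit 0) xc204 xc205) (XT.nd (nat_lit 2730) (nat_lit 1292) (nat_lit 0) xc206 xc207)))) (XT.nd (nat_lit 117702) (nat_lit 0) (nat_lit 76) (XT.nd (nat_lit 42744) (nat_lit 0) (nat_lit 76) (XT.nd (nat_lit 5460) (nat_lit 76) (nat_lit 0) (XT.nd (nat_lit 2730) (nat_lit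 1596) (nat_lit 0) xc208 xc209) (XT.nd (nat_lit 34554) (nat_lit 0) (nat_lit 152) xc210 xc211)) (XT.nd (nat_lit 37362) (nat_lit 0) (nat_lit 0) (XT.nd (nat_lit 34632) (nat_lit 0) (nat_lit 228) xc212 xc213) (XT.nd (nat_lit 34788) (nat_lit 0) (nat_lit 228) xc214 xc215))) (XT.nd (nat_lit 75426) (nat_lit 0) (nat_lit 76) (XT.nd (nat_lit 37596) (nat_lit 0) (nat_lit 76) (XT.nd (nat_lit 34866) (nat_lit 0) (nat_lit 228) xc216 xc217) (XT.nd (nat_lit 35022) (nat_lit 0) (nat_lit 0) xc218 xc219)) (XT.nd (nat_lit 70356) (nat_lit 0) (nat_lit 76) (XT.nd (nat_lit 35100) (nat_lit 0) (nat_lit 0) xc220 xc221) (XT.nd (nat_lit 2730) (nat_lit 1292) (nat_lit 0) xc222 xc223))))) (XT.nd (nat_lit 376974) (nat_lit 0) (nat_lit 684) (XT.nd (nat_lit 153660) (nat_lit 0) (nat_lit 228) (XT.nd (nat_lit 76518) (nat_lit 0) (nat_lit 76) (XT.nd (nat_lit 38220) (nat_lit 0) (nat_lit 0) (XT.nd (nat_lit 2730) (nat_lit 684) (nat_lit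 0) xc224 xc225) (XT.nd (nat_lit 2730) (nat_lit 304) (nat_lit 0) xc226 xc227)) (XT.nd (nat_lit 38454) (nat_lit 0) (nat_lit 0) (XT.nd (nat_lit 35724) (nat_lit 0) (nat_lit 1140) xc228 xc229) (XT.nd (nat_lit 35880) (nat_lit 0) (nat_lit 228) xc230 xc231))) (XT.nd (nat_lit 111072) (nat_lit 0) (nat_lit 152) (XT.nd (nat_lit 72072) (nat_lit 0) (nat_lit 76) (XT.nd (nat_lit 35958) (nat_lit 0) (nat_lit 76) xc232 xc233) (XT.nd (nat_lit 2730) (nat_lit 228) (nat_lit 0) xc234 xc235)) (XT.nd (nat_lit 72852) (nat_lit 0) (nat_lit 152) (XT.nd (nat_lit 36348) (nat_lit 0) (nat_lit 152) xc236 xc237) (XT.nd (nat_lit 2730) (nat_lit 836) (nat_lit 0) xc238 xc239)))) (XT.nd (nat_lit 263172) (nat_lit 0) (nat_lit 912) (XT.nd (nat_lit 113412) (nat_lit 0) (nat_lit 304) (XT.nd (nat_lit 73632) (nat_lit 0) (nat_lit 152) (XT.nd (nat_lit 36738) (nat_lit 0) (nat_lit 152) xc240 xc241) (XT.nd (nat_lit 2730) (nat_lit 380)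 (nat_lit 0) xc242 xc243)) (XT.nd (nat_lit 74568) (nat_lit 0) (nat_lit 380) (XT.nd (nat_lit 37206) (nat_lit 0) (nat_lit 228) xc244 xc245) (XT.nd (nat_lit 37518) (nat_lit 0) (nat_lit 0) xc246 xc247))) (XT.nd (nat_lit 187590) (nat_lit 0) (nat_lit 1064) (XT.nd (nat_lit 110994) (nat_lit 0) (nat_lit 684) (XT.nd (nat_lit 37752) (nat_lit 0) (nat_lit 228) xc248 xc249) (XT.nd (nat_lit 38220) (nat_lit 0) (nat_lit 0) xc250 xc251)) (XT.nd (nat_lit 149292) (nat_lit 0) (nat_lit 1216) (XT.nd (nat_lit 74334) (nat_lit 0) (nat_lit 532) xc252 xc253) (XT.nd (nat_lit 75582) (nat_lit 0) (nat_lit 380) xc254 xc255)))))))) XT.nil))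

set_option maxRecDepth 10000000 in
noncomputable def Te : XT := XT.nil

set_option maxRecDepth 10000000 in
noncomputable def Tz : ZL := (ZL.cons (nat_lit 76) (nat_lit 3) (nat_lit 91973545313484061020) (ZL.cons (nat_lit 152) (nat_lit 6) (nat_lit 180037559808890249798) (ZL.cons (nat_lit 228) (nat_lit 6) (nat_lit 176345288470896561830) (ZL.cons (nat_lit 304) (nat_lit 3) (nat_lit 88071976913256066796) (ZL.cons (nat_lit 380) (nat_lit 6) (nat_lit 172468403566003189466) (ZL.cons (nat_lit 456) (nat_lit 6) (nat_lit 169002157717219348504) (ZL.cons (nat_lit 532) (nat_lit 3) (nat_lit 84405205218426613186) (ZL.cons (nat_lit 608) (nat_lit 6) (nat_lit 165362599575996315494) (ZL.cons (nat_lit 684) (nat_lit 6) (nat_lit 162116761909954226092) (ZL.cons (nat_lit 760) (nat_lit 3) (nat_lit 80967072726231340602) (ZL.cons (nat_lit 836) (nat_lit 6) (nat_lit 158708632360610032220) (ZL.cons (nat_lit 912) (nat_lit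 6) (nat_lit 155678380507362528902) (ZL.cons (nat_lit 988) (nat_lit 3) (nat_lit 77752230035828147838) (ZL.cons (nat_lit 1064) (nat_lit 6) (nat_lit 152836175007355296240) (ZL.cons (nat_lit 1140) (nat_lit 6) (nat_lit 152496616061452650416) (ZL.cons (nat_lit 1216) (nat_lit 6) (nat_lit 149677938796641468720) (ZL.cons (nat_lit 1292) (nat_lit 3) (nat_lit 74756150143222528061) (ZL.cons (nat_lit 1368) (nat_lit 6) (nat_lit 147041717140877962052) (ZL.cons (nat_lit 1444) (nat_lit 6) (nat_lit 146718327668589727936) (ZL.cons (nat_lit 1520) (nat_lit 6) (nat_lit 144108045892129867456) (ZL.cons (nat_lit 1596) (nat_lit 3) (nat_lit 71975147465019022969) (ZL.cons (nat_lit 1672) (nat_lit 6) (nat_lit 141675240000454855970) (ZL.cons (nat_lit 1748) (nat_lit 6) (nat_lit 141367250026847013954) (ZL.cons (nat_lit 1824) (nat_lit 6) (nat_lit 139414117598584514880) (ZL.cons (nat_lit 1900) (nat_lit 6) (nat_lit 138963042852104272392)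 (ZL.cons (nat_lit 1976) (nat_lit 3) (nat_lit 69406401920294125947) (ZL.cons (nat_lit 2052) (nat_lit 6) (nat_lit 136731949103012814718) (ZL.cons (nat_lit 2128) (nat_lit 6) (nat_lit 136438625318624393748) (ZL.cons (nat_lit 2204) (nat_lit 6) (nat_lit 134668656651598613652) (ZL.cons (nat_lit 2280) (nat_lit 6) (nat_lit 134239061654950763662) (ZL.cons (nat_lit 2356) (nat_lit 3) (nat_lit 67047988441039181595) (ZL.cons (nat_lit 2432) (nat_lit 6) (nat_lit 132768252896786873480) (ZL.cons (nat_lit 2508) (nat_lit 6) (nat_lit 132208875793225281564) (ZL.cons (nat_lit 2584) (nat_lit 6) (nat_lit 131929519808093452072) (ZL.cons (nat_lit 2660) (nat_lit 6) (nat_lit 130343233957586696308) (ZL.cons (nat_lit 2736) (nat_lit 6) (nat_lit 129934095865541124890) (ZL.cons (nat_lit 2812) (nat_lit 3) (nat_lit 64898912326640847935) (ZL.cons (nat_lit 2888) (nat_lit 6) (nat_lit 128637694143664439834) (ZL.cons (nat_lit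 2964) (nat_lit 6) (nat_lit 128104954045034352296) (ZL.cons (nat_lit 3040) (nat_lit 6) (nat_lit 127838900725861181350) (ZL.cons (nat_lit 3116) (nat_lit 6) (nat_lit 127088195542377744862) (ZL.cons (nat_lit 3192) (nat_lit 6) (nat_lit 126437739247000499118) (ZL.cons (nat_lit 3268) (nat_lit 6) (nat_lit 126048083921242812052) (ZL.cons (nat_lit 3344) (nat_lit 3) (nat_lit 62959150907164535063) (ZL.cons (nat_lit 3420) (nat_lit 6) (nat_lit 125691048871342595454) (ZL.cons (nat_lit 3496) (nat_lit 6) (nat_lit 124928481912396627606) (ZL.cons (nat_lit 3572) (nat_lit 6) (nat_lit 124421110389891782334) (ZL.cons (nat_lit 3648) (nat_lit 6) (nat_lit 124167726276393524288) (ZL.cons (nat_lit 3724) (nat_lit 6) (nat_lit 123573588571378442832) (ZL.cons (nat_lit 3800) (nat_lit 6) (nat_lit 122954106385304875456) (ZL.cons (nat_lit 3876) (nat_lit 6) (nat_lit 122583006075059459204) (ZL.cons (nat_lit 3952) (nat_lit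 3) (nat_lit 61229702034237471542) (ZL.cons (nat_lit 4028) (nat_lit 6) (nat_lit 122369833287419711020) (ZL.cons (nat_lit 4104) (nat_lit 6) (nat_lit 121643579040804503544) (ZL.cons (nat_lit 4180) (nat_lit 6) (nat_lit 121160368066990365188) (ZL.cons (nat_lit 4256) (nat_lit 6) (nat_lit 120919049863658690862) (ZL.cons (nat_lit 4332) (nat_lit 6) (nat_lit 121314349976511006620) (ZL.cons (nat_lit 4408) (nat_lit 6) (nat_lit 120486408053189475242) (ZL.cons (nat_lit 4484) (nat_lit 6) (nat_lit 119896425018833696786) (ZL.cons (nat_lit 4560) (nat_lit 6) (nat_lit 119542996151933300356) (ZL.cons (nat_lit 4636) (nat_lit 3) (nat_lit 59712639977593071075) (ZL.cons (nat_lit 4712) (nat_lit 6) (nat_lit 120404625583150166048) (ZL.cons (nat_lit 4788) (nat_lit 6) (nat_lit 119479838253441659524) (ZL.cons (nat_lit 4864) (nat_lit 6) (nat_lit 118788167542379557166) (ZL.cons (nat_lit 4940) (nat_lit 6) (nat_lit 118327966614937520636)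 (ZL.cons (nat_lit 5016) (nat_lit 6) (nat_lit 118098139754621640326) (ZL.cons (nat_lit 5092) (nat_lit 6) (nat_lit 118621473046799752072) (ZL.cons (nat_lit 5168) (nat_lit 6) (nat_lit 117832956929350674568) (ZL.cons (nat_lit 5244) (nat_lit 6) (nat_lit 117271068325202314136) (ZL.cons (nat_lit 5320) (nat_lit 6) (nat_lit 116934469404344793726) (ZL.cons (nat_lit 5396) (nat_lit 3) (nat_lit 58411179370388035811) (ZL.cons (nat_lit 5472) (nat_lit 6) (nat_lit 116493286487343670884) (ZL.cons (nat_lit 5548) (nat_lit 6) (nat_lit 116634380242911250604) (ZL.cons (nat_lit 5624) (nat_lit 6) (nat_lit 116916903691559666186) (ZL.cons (nat_lit 5700) (nat_lit 6) (nat_lit 117341529508166651950) (ZL.cons (nat_lit 5776) (nat_lit 6) (nat_lit 117909268706581272150) (ZL.cons (nat_lit 5852) (nat_lit 6) (nat_lit 117028518868763646886) (ZL.cons (nat_lit 5928) (nat_lit 6) (nat_lit 116369784858228311308) (ZL.cons (nat_lit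 6004) (nat_lit 6) (nat_lit 115931498260664466996) (ZL.cons (nat_lit 6080) (nat_lit 6) (nat_lit 115712615536554104792) (ZL.cons (nat_lit 6156) (nat_lit 3) (nat_lit 57606606454472465742) (ZL.cons (nat_lit 6232) (nat_lit 6) (nat_lit 115285480442284423536) (ZL.cons (nat_lit 6308) (nat_lit 6) (nat_lit 115502455107858469910) (ZL.cons (nat_lit 6384) (nat_lit 6) (nat_lit 115864653512013675478) (ZL.cons (nat_lit 6460) (nat_lit 6) (nat_lit 116372938031902790728) (ZL.cons (nat_lit 6536) (nat_lit 6) (nat_lit 115621970300998907390) (ZL.cons (nat_lit 6612) (nat_lit 6) (nat_lit 115086838297048087932) (ZL.cons (nat_lit 6688) (nat_lit 6) (nat_lit 114766267896231401826) (ZL.cons (nat_lit 6764) (nat_lit 3) (nat_lit 57329747917844880863) (ZL.cons (nat_lit 6840) (nat_lit 6) (nat_lit 114135188970799426062) (ZL.cons (nat_lit 6916) (nat_lit 6) (nat_lit 114283337414145384768) (ZL.cons (nat_lit 6992) (nat_lit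 6) (nat_lit 114579987035226221128) (ZL.cons (nat_lit 7068) (nat_lit 6) (nat_lit 115025844142663556182) (ZL.cons (nat_lit 7144) (nat_lit 6) (nat_lit 114398478418344188964) (ZL.cons (nat_lit 7220) (nat_lit 6) (nat_lit 113981062611140527712) (ZL.cons (nat_lit 7296) (nat_lit 6) (nat_lit 113772602873892563710) (ZL.cons (nat_lit 7372) (nat_lit 3) (nat_lit 56590383519619218380) (ZL.cons (nat_lit 7448) (nat_lit 6) (nat_lit 113256647949244903414) (ZL.cons (nat_lit 7524) (nat_lit 6) (nat_lit 113484471348097652106) (ZL.cons (nat_lit 7600) (nat_lit 6) (nat_lit 113864779672460617952) (ZL.cons (nat_lit 7676) (nat_lit 6) (nat_lit 113355130144888408940) (ZL.cons (nat_lit 7752) (nat_lit 6) (nat_lit 113049825001253469792) (ZL.cons (nat_lit 7828) (nat_lit 3) (nat_lit 56474068662273572945) (ZL.cons (nat_lit 7904) (nat_lit 6) (nat_lit 112419942214431072318) (ZL.cons (nat_lit 7980) (nat_lit 6) (nat_lit 112575498079944328958)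 (ZL.cons (nat_lit 8056) (nat_lit 6) (nat_lit 112886980182079207136) (ZL.cons (nat_lit 8132) (nat_lit 6) (nat_lit 112489441318075720228) (ZL.cons (nat_lit 8208) (nat_lit 6) (nat_lit 112290908234982421180) (ZL.cons (nat_lit 8284) (nat_lit 3) (nat_lit 55885614026596214990) (ZL.cons (nat_lit 8360) (nat_lit 6) (nat_lit 111850903008699219966) (ZL.cons (nat_lit 8436) (nat_lit 6) (nat_lit 112090117577494606092) (ZL.cons (nat_lit 8512) (nat_lit 6) (nat_lit 111799350774032759284) (ZL.cons (nat_lit 8588) (nat_lit 3) (nat_lit 55851252683822892069) (ZL.cons (nat_lit 8664) (nat_lit 6) (nat_lit 111308960908002217728) (ZL.cons (nat_lit 8740) (nat_lit 6) (nat_lit 111472294566791137200) (ZL.cons (nat_lit 8816) (nat_lit 6) (nat_lit 111283215440035614294) (ZL.cons (nat_lit 8892) (nat_lit 3) (nat_lit 55474190719759164689) (ZL.cons (nat_lit 8968) (nat_lit 6) (nat_lit 111032040142800458864) (ZL.cons (nat_lit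 9044) (nat_lit 3) (nat_lit 55469903211215955552) (ZL.cons (nat_lit 9120) (nat_lit 6) (nat_lit 110768306080703545660) (ZL.cons (nat_lit 9196) (nat_lit 1) (nat_lit 18446744073709551617) ZL.nil)))))))))))))))))))))))))))))))))))))))))))))))))))))))))))))))))))))))))))))))))))))))))))))))))))))))))))))))))))))))))

noncomputable def vl : XL := ⟨(nat_lit 0), (nat_lit 76), (nat_lit 123915070), (nat_lit 152), (nat_lit 266745525), (nat_lit 152), (nat_lit 266745525), (nat_lit 1), (nat_lit 4), (nat_lit 2), (nat_lit 5), (nat_lit 2), (nat_lit 4), (nat_lit 0), (nat_lit 0), (nat_lit 0)⟩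

noncomputable def cp0 : Nat := (nat_lit 4568121710649403420597994018322318017483082874333952813879067804958045430585764327413882850367568746333425492917802496922623654942900163851649793619731336254099394874149669536582035716361393601083701051024335489687401493851176047799250204770877948415240229487158770426079836157553129548834189797596423035381113623417678133457981856708721525569274781464072453469897184659475709861646425736729819333270517210195642736833947681467960584692742050609626505459443612461995566168586289418121393223765541159802690991593518350266196208325985177607810463761984382470997823345387041004621450092705750453491079078296102344062024046722307407231907477303559384363619852637920559612549521738885991206555817513252639018045419138227033675287572351594400185184421712686832903995594516854156407656970801210342301425592659713197530911748905142364377371928334234098890202145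1730542998942625440448239274496203555551289461958313084221671123361808508989742663046532238199787865921274744920079700845692015240323682447404075996785858387012182857064274524765840500846211378714955745992026833242736533617664596992972774286763219543139869467452197843803078335793329741704282577748598356500046202635485448373999941518953307477875003356979150267957084873172268929631289658797051950686021318558568319977851354784031344519824206946966255547670869792137435720733475384534090770919452404589591405949810684616504364239553014163176166143971070123459178051107115702433510318573911541845075881551949253327287253219931441807718770759702884682923735418836140429698725624109322081002778245102258780748828551858391905994374381354785593158759577172769369036932013915506824891982561025612488489298320945423460297822053478665950970401674279476130325324464618337889508160926441475200655903564498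3872210602017350712571867927921292847049541000943949980735122881205444333289461686024510052333738704597794410038883176990091825163372081608273721896042259268831730955238798024097111506055054344351391090871600091817512356165389154828125223298277681914056819280567576098030480833706551593952029269766867192592533606133872831465797437314798487446286165634341622303727333753004122057699159449061184618663747216909729126355857921936774832207794227321979762398571102500864196592152763597524561798550317198351910293139090275194405675966245061281373210570041111708813060843247857792058193105014165700396818095682552620529306725848534414820056182148647416223007824321295583707599984637424385441368496519099272848004743648308361849968871065707049548459111921060292544946419696278147983753692903459361983529843626515464408497349324391594479008321344137970746114974203787567668083851511173298543567121566108937035995476216362427066826671819419534608056858898805492925237628991469029089254065427014846911097814027296226448494563080201541206248725151744)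

noncomputable def cp1 : Nat := (nat_lit 6025377269883642789062589723249448157026014185532213821430513476796605615123088177608083044750188674519628151175480279786454517496600777917755612693616453486546337174216708911955655533359559807569369290865454701502977292077195838509316452760931959596719268688941697604736173788910864688462490728525936183632320692377363079311510618118904010065075307460154325582574913708646998612553490626611725973551036226089286981147241620934456976157798291921950709274080136673038964821525867618491624796091758825175064993893345216612773592949364272953489410541622467105698194539245581840638398088273297974006282382514167847842143991050168359045835663460072034231668138491548478745015528932086388544983481685726706645855589479160850841780747599259546556784511193112134499236133239130738276631623432984547682846713070182619746884819619608220422081043074703783393554088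0665107071006205498439302167508930545672446212884434260664496796743930344600756561800581154414420334487671750525865543272919896355734266490949086624929593679933251797241862217849856016056682787430653203858495814183191884886365849478467880187694595859011447062504317009441390755706476653685750174708906817838262251330248156578281862051281931869623587600649555991516351577547969070074558509110724287491605531630552800658527453620110952743741049774797646690292281838384896684228644694712865544430951826324048886813721797388583423746210081359003070448204541852608062820556214820227551409782005254404377898702438227855457414126509141440562301447916254138967043809295934488401983933756865591433186443230674491714480619616290505825121827010076255715378034339309040807443834700552658160159319808371570285094380618569800766546411532980159044757671671153185401381547489195890427460460588636602160316192652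1726304943806035099161095049973330312198126470230284463566230513926619976625281510753147636032193700473741348392472070719109135738114684257397422571857461424630599633720786343035890384101685089483426021452396730352908860603197849897937815304135742645261970072776651448721459871004682775774666090962545131616596521440138863645041290894405585984568095510562907730992120211682155921333636460513249512748451433622444357871996188526764271869906295542424561436617998307014844535530354815114589787125812931999931523012744822257150272798369591910558401427050788063251108980222177359801991115757779637027120308949453129094365661505347469413619164717771916879631124381648593319871947872711867159640719179365112577513977799904307444228567588049813491923831514948739785335889053794393031460810969443432488200556496746694412219553285303313671032221615442195806759395111260090520490316322901929278229901555981811360688720038353819315881797374721368343857641831826103709683781709596827212346574944464240632765907806911312677709820895886711894213184716800)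

noncomputable def rc0 : Nat := (nat_lit 4987559399421096425477338822619504697108693709009468990973720439756051417456667460887168114704371680882953574650162553650611495798225889934867791806773800264344504717993410243373752937131621750636510608315688581772311657952383549567737527906291830025467095389548695060626323652311360550670483496454859235897666723919871818061750684633965498017644707766654621291970263631288651370979183779953581118418008825558397375512571401863583909954884531970177264318502380131221456898187694618546244221470624468453500942732527213102161782083524852821402172515833859642725597569952636499206011339316621797737075213593362427098732542369623859437902635971532636249836242656188673964274166878844896820199730516227693326952538707249919174475576153327492882399718842141868285468624908637976533478926267324951690314770938901555100937771238720453231144043004220002978301371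4046513403588069074226343924837865831857487260550796354464189141096030625371978892561821688821888683246485797403015660659210803241276817996560755421623167592748838688870090255628084942798743351188303093003076935496626718568177449629658502876290999157794521190585030100882174500033179188182318081043798997923225384104754820684509563796847475263687560089557273348692273330083383708265576202775891796958913084927530915894183450147558390591547456309493262341772121418847029298725367086137323010423181452475158233888054015622664267539328983098413339883750443796869175465856053186125115521059740158314831233550568394070573161088334282398672246711842252021011835380077439162358401431142105204654373410555199980599734126000793983278295431149106912784164678164429536123691267016217992919559416702146321360855687235393791538895077094198343063603309057627128519008223408377995880686806540288364997624629518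1285633111311932723216032737113135473483499919143462068594058238885356285981342925570583864658900625915085791327761938378120181462578437497592179994114643669378374020156190929711204887204795258416727500809058393294785179719148966585734922803765586044772262394785312422008487923233945202379312594698974276785830034000420861163402511588525812596429813532796626339945857116732463616718455753514609710731444996867305401947614979919163856905346577196234589834183877108738115644330933149292966542855261271527216205153153439389755178773882745591959010411078883776151282559097416113446710614565727284746421553020245342392020626002410065032762896265661226117330577160634020460534488543573340505996540641965502074889105908380094272644654449753689387949766765123459977623005079021861252426650254267541400726070600898703363397487798974206726701217959272001696193778478045550553589164907088159517400509190158798348884529033732501014833072568789541148632454095366364664011831895381102383342561023348368470619719814024324755167820483362929894076973056000)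

noncomputable def rc1 : Nat := (nat_lit 5669342622587584275559901926723868414903197996698992361173058537901488613352385932443110264420064979129685247322870414872423321042537356370198807959373592417281561131514732013949853014501692253054190897124324681304183922125774052018618321817322605971714368724414111613684091847212728268741677178824894480529259115767737260287358546263685040081629666942657816416647723732948445674042362900905657846688328953356625317692475453857694066759127593719329826898261442283430325154514661638554983343814729978426955780126786843512806185747354413843398618438941459928470295334281326963851707754980499371949607203884372769592818616553663081639692373064806327398252563624283318160443717027337427607071363499650092923188656216968090447936030693567519121379000514186439535297464755487682050389725069170173822176091366283720365437173457599812295526791168617798483581192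5561221976296463954836716343291408954906228161584119677751419982800752763571616418940517945832456938862771648930096062181673197629839863915606789781007922667036259481074311592310231489606296103259360457441205604496189462298231403428008894948604813633845999739599152492744883140597154834351145702987535185780167201638044426777841987959788270947572532459850847496251686011404313246320661948343359257377765079952424593503029616522255104670539208374004157429807718525990028069836517647561995178370736728449930513253545795566733045224524065105976089754695673990463575700338413576642318490635730405935239851561950123710851083578263838970577195007960182772124137580459274261170555291812935858759899880831205693870834950633358611553903889475707675255885263151148553298870290574789704201221517248519545772164271217636855256427167048932906915413855348868391469423828547310821430878555312394244428140002901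8535835276208662490001414509609938147875998995354583909024448283304271318458257869045183239507071390452198402626374169294325134151099824803021661527073805909931097496474371655405280160928961666290772504008668516772008160141191047593056217706030038608326970701537712906441592308265451390013409192617022697484900794321234370260407919860650372189057098982759704964000330252400539722933571707014076495023284635922360463572034425464049084597351615976428109195678472165468853042392257252652074838236234789649462802910074448359564440365076245676542222016402355238986805087569938895592412753485050960088878665378502969907197019233896681253952155688484909473105692578756103286607689689164959862844776709545312382805411170052748034442038386308964473503816265065979005830509457960868642360576534341139565363866133884585711232816506178109419090343849057684579128611292713274397180472671117131881508956900903361239738408203413843392502281318196920864312457028368431850124935194952566440734707933427095227363920833259540960762153013863201600725246279680)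

noncomputable def rc2 : Nat := (nat_lit 6025377269883642789062589723249448157026014185532213821430513476796605615123088177608083044750188674519628151175480279786454517496600777917755612693616453486546337174216708911955655533359559807569369290865454701502977292077195838509316452760931959596719268688941697604736173788910864688462490728525936183632320692377363079311510618118904010065075307460154325582574913708646998612553490626611725973551036226089286981147241620934456976157798291921950709274080136673038964821525867618491624796091758825175064993893345216612773592949364272953489410541622467105698194539245581840638398088273297974006282382514167847842143991050168359045835663460072034231668138491548478745015528932086388544983481685726706645855589479160850841780747599259546556784511193112134499236133239130738276631623432984547682846713070182619746884819619608220422081043074703783393554088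0665107071006205498439302167508930545672446212884434260664496796743930344600756561800581154414420334487671750525865543272919896355734266490949086624929593679933251797241862217849856016056682787430653203858495814183191884886365849478467880187694595859011447062504317009441390755706476653685750174708906817838262251330248156578281862051281931869623587600649555991516351577547969070074558509110724287491605531630552800658527453620110952743741049774797646690292281838384896684228644694712865544430951826324048886813721797388583423746210081359003070448204541852608062820556214820227551409782005254404377898702438227855457414126509141440562301447916254138967043809295934488401983933756865591433186443230674491714480619616290505825121827010076255715378034339309040807443834700552658160159319808371570285094380618569800766546411532980159044757671671153185401381547489195890427460460588636602160316192652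1726304943806035099161095049973330312198126470230284463566230513926619976625281510753147636032193700473741348392472070719109135738114684257397422571857461424630599633720786343035890384101685089483426021452396730352908860603197849897937815304135742645261970072776651448721459871004682775774666090962545131616596521440138863645041290894405585984568095510562907730992120211682155921333636460513249512748451433622444357871996188526764271869906295542424561436617998307014844535530354815114589787125812931999931523012744822257150272798369591910558401427050788063251108980222177359801991115757779637027120308949453129094365661505347469413619164717771916879631124381648593319871947872711867159640719179365112577513977799904307444228567588049813491923831514948739785335889053794393031460810969443432488200556496746694412219553285303313671032221615442195806759395111260090520490316322901929278229901555981811360688720038353819315881797374721368343857641831826103709683781709596827212346574944464240632765907806911312677709820895886711894213184716800)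

end Vale.Agent.Lib.P154.PChain.BS.S4
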