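import Vale.Agent.Lib.P154.PChain.BS.R4_0

set_option linter.all false

namespace Vale.Agent.Lib.P154.PChain.BS.S5

open Vale.Agent.Lib.P154.Chain

noncomputable def pc0 : PT := (PT.nd (nat_lit 3462186) (PT.nd (nat_lit 3312270) (PT.nd (nat_lit 3237312) (PT.nd (nat_lit 3199794) (PT.nd (nat_lit 3199716) (PT.nd (nat_lit 3162276) PT.nil (PT.lf (nat_lit 76) (nat_lit 3) (nat_lit 1) (nat_lit 1) (nat_lit 138) (nat_lit 84) (nat_lit 138))) (PT.lf (nat_lit 152) (nat_lit 6) (nat_lit 2) (nat_lit 3) (nat_lit 137) (nat_lit 85) (nat_lit 138))) (PT.nd (nat_lit 37362) (PT.lf (nat_lit 152) (nat_lit 6) (nat_lit 2) (nat_lit 1) (nat_lit 138) (nat_lit 85) (nat_lit 137)) (PT.nd (nat_lit 78) (PT.lf (nat_lit 228) (nat_lit 6) (nat_lit 3) (nat_lit 3) (nat_lit 136) (nat_lit 86) (nat_lit 138)) (PT.lf (nat_lit 304) (nat_lit 3) (nat_lit 4) (nat_lit 1) (nat_lit 137) (nat_lit 86) (nat_lit 137))))) (PT.nd (nat_lit 37440) (PT.nd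 (nat_lit 37362) (PT.lf (nat_lit 228) (nat_lit 6) (nat_lit 3) (nat_lit 1) (nat_lit 138) (nat_lit 86) (nat_lit 136)) (PT.lf (nat_lit 380) (nat_lit 6) (nat_lit 5) (nat_lit 3) (nat_lit 136) (nat_lit 87) (nat_lit 137))) (PT.nd (nat_lit 37362) (PT.lf (nat_lit 380) (nat_lit 6) (nat_lit 5) (nat_lit 1) (nat_lit 137) (nat_lit 87) (nat_lit 136)) (PT.nd (nat_lit 78) (PT.lf (nat_lit 456) (nat_lit 6) (nat_lit 6) (nat_lit 3) (nat_lit 135) (nat_lit 88) (nat_lit 137)) (PT.lf (nat_lit 532) (nat_lit 3) (nat_lit 7) (nat_lit 1) (nat_lit 136) (nat_lit 88) (nat_lit 136)))))) (PT.nd (nat_lit 74958) (PT.nd (nat_lit 37440) (PT.nd (nat_lit 37362) (PT.lf (nat_lit 456) (nat_lit 6) (nat_lit 6) (nat_lit 1) (nat_lit 137) (nat_lit 88) (nat_lit 135)) (PT.lf (nat_lit 608) (nat_lit 6) (nat_lit 8) (nat_lit 3) (nat_lit 135) (nat_lit 89) (nat_lit 136))) (PT.nd (nat_lit 37362) (PT.lf (nat_lit 608) (nat_lit 6) (nat_lit 8) (nat_lit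 1) (nat_lit 136) (nat_lit 89) (nat_lit 135)) (PT.nd (nat_lit 78) (PT.lf (nat_lit 684) (nat_lit 6) (nat_lit 9) (nat_lit 3) (nat_lit 134) (nat_lit 90) (nat_lit 136)) (PT.lf (nat_lit 760) (nat_lit 3) (nat_lit 10) (nat_lit 1) (nat_lit 135) (nat_lit 90) (nat_lit 135))))) (PT.nd (nat_lit 37440) (PT.nd (nat_lit 37362) (PT.lf (nat_lit 684) (nat_lit 6) (nat_lit 9) (nat_lit 1) (nat_lit 136) (nat_lit 90) (nat_lit 134)) (PT.lf (nat_lit 836) (nat_lit 6) (nat_lit 11) (nat_lit 3) (nat_lit 134) (nat_lit 91) (nat_lit 135))) (PT.nd (nat_lit 37362) (PT.lf (nat_lit 836) (nat_lit 6) (nat_lit 11) (nat_lit 1) (nat_lit 135) (nat_lit 91) (nat_lit 134)) (PT.nd (nat_lit 78) (PT.lf (nat_lit 912) (nat_lit 6) (nat_lit 12) (nat_lit 3) (nat_lit 133) (nat_lit 92) (nat_lit 135)) (PT.lf (nat_lit 988) (nat_lit 3) (nat_lit 13) (nat_lit 1) (nat_lit 134) (nat_lit 92) (nat_lit 134))))))) (PT.nd (nat_lit 112398) (PT.nd (nat_lit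 74802) (PT.nd (nat_lit 37362) (PT.nd (nat_lit 37284) (PT.lf (nat_lit 912) (nat_lit 6) (nat_lit 12) (nat_lit 1) (nat_lit 135) (nat_lit 92) (nat_lit 133)) (PT.lf (nat_lit 1064) (nat_lit 6) (nat_lit 14) (nat_lit 3) (nat_lit 132) (nat_lit 93) (nat_lit 135))) (PT.nd (nat_lit 78) (PT.lf (nat_lit 1140) (nat_lit 6) (nat_lit 15) (nat_lit 3) (nat_lit 133) (nat_lit 93) (nat_lit 134)) (PT.nd (nat_lit 78) (PT.lf (nat_lit 1140) (nat_lit 6) (nat_lit 15) (nat_lit 1) (nat_lit 134) (nat_lit 93) (nat_lit 133)) (PT.lf (nat_lit 1064) (nat_lit 6) (nat_lit 14) (nat_lit 1) (nat_lit 135) (nat_lit 93) (nat_lit 132))))) (PT.nd (nat_lit 156) (PT.nd (nat_lit 78) (PT.lf (nat_lit 1216) (nat_lit 6) (nat_lit 16) (nat_lit 3) (nat_lit 132) (nat_lit 94) (nat_lit 134)) (PT.lf (nat_lit 1292) (nat_lit 3) (nat_lit 17) (nat_lit 1) (nat_lit 133) (nat_lit 94) (nat_lit 133))) (PT.nd (nat_lit 37284) (PT.lf (nat_lit 1216) (nat_lit 6)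 (nat_lit 16) (nat_lit 1) (nat_lit 134) (nat_lit 94) (nat_lit 132)) (PT.nd (nat_lit 78) (PT.lf (nat_lit 1368) (nat_lit 6) (nat_lit 18) (nat_lit 3) (nat_lit 131) (nat_lit 95) (nat_lit 134)) (PT.lf (nat_lit 1444) (nat_lit 6) (nat_lit 19) (nat_lit 3) (nat_lit 132) (nat_lit 95) (nat_lit 133)))))) (PT.nd (nat_lit 74802) (PT.nd (nat_lit 37362) (PT.nd (nat_lit 78) (PT.lf (nat_lit 1444) (nat_lit 6) (nat_lit 19) (nat_lit 1) (nat_lit 133) (nat_lit 95) (nat_lit 132)) (PT.lf (nat_lit 1368) (nat_lit 6) (nat_lit 18) (nat_lit 1) (nat_lit 134) (nat_lit 95) (nat_lit 131))) (PT.nd (nat_lit 78) (PT.lf (nat_lit 1520) (nat_lit 6) (nat_lit 20) (nat_lit 3) (nat_lit 131) (nat_lit 96) (nat_lit 133)) (PT.nd (nat_lit 78) (PT.lf (nat_lit 1596) (nat_lit 3) (nat_lit 21) (nat_lit 1) (nat_lit 132) (nat_lit 96) (nat_lit 132)) (PT.lf (nat_lit 1520) (nat_lit 6) (nat_lit 20) (nat_lit 1) (nat_lit 133) (nat_lit 96) (nat_lit 131)))))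 (PT.nd (nat_lit 156) (PT.nd (nat_lit 78) (PT.lf (nat_lit 1672) (nat_lit 6) (nat_lit 22) (nat_lit 3) (nat_lit 130) (nat_lit 97) (nat_lit 133)) (PT.lf (nat_lit 1748) (nat_lit 6) (nat_lit 23) (nat_lit 3) (nat_lit 131) (nat_lit 97) (nat_lit 132))) (PT.nd (nat_lit 78) (PT.lf (nat_lit 1748) (nat_lit 6) (nat_lit 23) (nat_lit 1) (nat_lit 132) (nat_lit 97) (nat_lit 131)) (PT.nd (nat_lit 37206) (PT.lf (nat_lit 1672) (nat_lit 6) (nat_lit 22) (nat_lit 1) (nat_lit 133) (nat_lit 97) (nat_lit 130)) (PT.lf (nat_lit 1824) (nat_lit 6) (nat_lit 24) (nat_lit 3) (nat_lit 129) (nat_lit 98) (nat_lit 133))))))))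
noncomputable def pc1 : PT := (PT.nd (nat_lit 149916) (PT.nd (nat_lit 75036) (PT.nd (nat_lit 37518) (PT.nd (nat_lit 156) (PT.nd (nat_lit 78) (PT.lf (nat_lit 1900) (nat_lit 6) (nat_lit 25) (nat_lit 3) (nat_lit 130) (nat_lit 98) (nat_lit 132)) (PT.lf (nat_lit 1976) (nat_lit 3) (nat_lit 26) (nat_lit 1) (nat_lit 131) (nat_lit 98) (nat_lit 131))) (PT.nd (nat_lit 78) (PT.lf (nat_lit 1900) (nat_lit 6) (nat_lit 25) (nat_lit 1) (nat_lit 132) (nat_lit 98) (nat_lit 130)) (PT.nd (nat_lit 37206) (PT.lf (nat_lit 1824) (nat_lit 6) (nat_lit 24) (nat_lit 1) (nat_lit 133) (nat_lit 98) (nat_lit 129)) (PT.lf (nat_lit 2052) (nat_lit 6) (nat_lit 27) (nat_lit 3) (nat_lit 129) (nat_lit 99) (nat_lit 132))))) (PT.nd (nat_lit 156) (PT.nd (nat_lit 78) (PT.lf (nat_lit 2128) (nat_lit 6) (nat_lit 28) (nat_lit 3) (nat_lit 130) (nat_lit 99) (nat_lit 131)) (PT.lf (nat_lit 2128) (nat_lit 6) (nat_lit 28) (nat_lit 1) (nat_lit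 131) (nat_lit 99) (nat_lit 130))) (PT.nd (nat_lit 37206) (PT.lf (nat_lit 2052) (nat_lit 6) (nat_lit 27) (nat_lit 1) (nat_lit 132) (nat_lit 99) (nat_lit 129)) (PT.nd (nat_lit 78) (PT.lf (nat_lit 2204) (nat_lit 6) (nat_lit 29) (nat_lit 3) (nat_lit 128) (nat_lit 100) (nat_lit 132)) (PT.lf (nat_lit 2280) (nat_lit 6) (nat_lit 30) (nat_lit 3) (nat_lit 129) (nat_lit 100) (nat_lit 131)))))) (PT.nd (nat_lit 37440) (PT.nd (nat_lit 156) (PT.nd (nat_lit 78) (PT.lf (nat_lit 2356) (nat_lit 3) (nat_lit 31) (nat_lit 1) (nat_lit 130) (nat_lit 100) (nat_lit 130)) (PT.lf (nat_lit 2280) (nat_lit 6) (nat_lit 30) (nat_lit 1) (nat_lit 131) (nat_lit 100) (nat_lit 129))) (PT.nd (nat_lit 37128) (PT.lf (nat_lit 2204) (nat_lit 6) (nat_lit 29) (nat_lit 1) (nat_lit 132) (nat_lit 100) (nat_lit 128)) (PT.nd (nat_lit 78) (PT.lf (nat_lit 2432) (nat_lit 6) (nat_lit 32) (nat_lit 3) (nat_lit 127) (nat_lit 101) (nat_lit 132))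 (PT.lf (nat_lit 2508) (nat_lit 6) (nat_lit 33) (nat_lit 3) (nat_lit 128) (nat_lit 101) (nat_lit 131))))) (PT.nd (nat_lit 156) (PT.nd (nat_lit 78) (PT.lf (nat_lit 2584) (nat_lit 6) (nat_lit 34) (nat_lit 3) (nat_lit 129) (nat_lit 101) (nat_lit 130)) (PT.lf (nat_lit 2584) (nat_lit 6) (nat_lit 34) (nat_lit 1) (nat_lit 130) (nat_lit 101) (nat_lit 129))) (PT.nd (nat_lit 78) (PT.lf (nat_lit 2508) (nat_lit 6) (nat_lit 33) (nat_lit 1) (nat_lit 131) (nat_lit 101) (nat_lit 128)) (PT.nd (nat_lit 37128) (PT.lf (nat_lit 2432) (nat_lit 6) (nat_lit 32) (nat_lit 1) (nat_lit 132) (nat_lit 101) (nat_lit 127)) (PT.lf (nat_lit 2660) (nat_lit 6) (nat_lit 35) (nat_lit 3) (nat_lit 127) (nat_lit 102) (nat_lit 131))))))) (PT.nd (nat_lit 74802) (PT.nd (nat_lit 37440) (PT.nd (nat_lit 156) (PT.nd (nat_lit 78) (PT.lf (nat_lit 2736) (nat_lit 6) (nat_lit 36) (nat_lit 3) (nat_lit 128) (nat_lit 102) (nat_lit 130)) (PT.lf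 (nat_lit 2812) (nat_lit 3) (nat_lit 37) (nat_lit 1) (nat_lit 129) (nat_lit 102) (nat_lit 129))) (PT.nd (nat_lit 78) (PT.lf (nat_lit 2736) (nat_lit 6) (nat_lit 36) (nat_lit 1) (nat_lit 130) (nat_lit 102) (nat_lit 128)) (PT.nd (nat_lit 37128) (PT.lf (nat_lit 2660) (nat_lit 6) (nat_lit 35) (nat_lit 1) (nat_lit 131) (nat_lit 102) (nat_lit 127)) (PT.lf (nat_lit 2888) (nat_lit 6) (nat_lit 38) (nat_lit 3) (nat_lit 126) (nat_lit 103) (nat_lit 131))))) (PT.nd (nat_lit 156) (PT.nd (nat_lit 78) (PT.lf (nat_lit 2964) (nat_lit 6) (nat_lit 39) (nat_lit 3) (nat_lit 127) (nat_lit 103) (nat_lit 130)) (PT.lf (nat_lit 3040) (nat_lit 6) (nat_lit 40) (nat_lit 3) (nat_lit 128) (nat_lit 103) (nat_lit 129))) (PT.nd (nat_lit 78) (PT.lf (nat_lit 3040) (nat_lit 6) (nat_lit 40) (nat_lit 1) (nat_lit 129) (nat_lit 103) (nat_lit 128)) (PT.nd (nat_lit 78) (PT.lf (nat_lit 2964) (nat_lit 6) (nat_lit 39) (nat_lit 1) (nat_lit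 130) (nat_lit 103) (nat_lit 127)) (PT.lf (nat_lit 2888) (nat_lit 6) (nat_lit 38) (nat_lit 1) (nat_lit 131) (nat_lit 103) (nat_lit 126)))))) (PT.nd (nat_lit 390) (PT.nd (nat_lit 156) (PT.nd (nat_lit 78) (PT.lf (nat_lit 3116) (nat_lit 6) (nat_lit 41) (nat_lit 3) (nat_lit 125) (nat_lit 104) (nat_lit 131)) (PT.lf (nat_lit 3192) (nat_lit 6) (nat_lit 42) (nat_lit 3) (nat_lit 126) (nat_lit 104) (nat_lit 130))) (PT.nd (nat_lit 78) (PT.lf (nat_lit 3268) (nat_lit 6) (nat_lit 43) (nat_lit 3) (nat_lit 127) (nat_lit 104) (nat_lit 129)) (PT.nd (nat_lit 78) (PT.lf (nat_lit 3344) (nat_lit 3) (nat_lit 44) (nat_lit 1) (nat_lit 128) (nat_lit 104) (nat_lit 128)) (PT.lf (nat_lit 3268) (nat_lit 6) (nat_lit 43) (nat_lit 1) (nat_lit 129) (nat_lit 104) (nat_lit 127))))) (PT.nd (nat_lit 37128) (PT.nd (nat_lit 78) (PT.lf (nat_lit 3192) (nat_lit 6) (nat_lit 42) (nat_lit 1) (nat_lit 130) (nat_lit 104) (nat_lit 126))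 (PT.nd (nat_lit 36972) (PT.lf (nat_lit 3116) (nat_lit 6) (nat_lit 41) (nat_lit 1) (nat_lit 131) (nat_lit 104) (nat_lit 125)) (PT.lf (nat_lit 3420) (nat_lit 6) (nat_lit 45) (nat_lit 3) (nat_lit 124) (nat_lit 105) (nat_lit 131)))) (PT.nd (nat_lit 78) (PT.lf (nat_lit 3496) (nat_lit 6) (nat_lit 46) (nat_lit 3) (nat_lit 125) (nat_lit 105) (nat_lit 130)) (PT.nd (nat_lit 78) (PT.lf (nat_lit 3572) (nat_lit 6) (nat_lit 47) (nat_lit 3) (nat_lit 126) (nat_lit 105) (nat_lit 129)) (PT.lf (nat_lit 3648) (nat_lit 6) (nat_lit 48) (nat_lit 3) (nat_lit 127) (nat_lit 105) (nat_lit 128))))))))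
noncomputable def pc2 : PT := (PT.nd (nat_lit 112164) (PT.nd (nat_lit 37674) (PT.nd (nat_lit 37284) (PT.nd (nat_lit 156) (PT.nd (nat_lit 78) (PT.lf (nat_lit 3648) (nat_lit 6) (nat_lit 48) (nat_lit 1) (nat_lit 128) (nat_lit 105) (nat_lit 127)) (PT.lf (nat_lit 3572) (nat_lit 6) (nat_lit 47) (nat_lit 1) (nat_lit 129) (nat_lit 105) (nat_lit 126))) (PT.nd (nat_lit 78) (PT.lf (nat_lit 3496) (nat_lit 6) (nat_lit 46) (nat_lit 1) (nat_lit 130) (nat_lit 105) (nat_lit 125)) (PT.nd (nat_lit 36972) (PT.lf (nat_lit 3420) (nat_lit 6) (nat_lit 45) (nat_lit 1) (nat_lit 131) (nat_lit 105) (nat_lit 124)) (PT.lf (nat_lit 3724) (nat_lit 6) (nat_lit 49) (nat_lit 3) (nat_lit 124) (nat_lit 106) (nat_lit 130))))) (PT.nd (nat_lit 156) (PT.nd (nat_lit 78) (PT.lf (nat_lit 3800) (nat_lit 6) (nat_lit 50) (nat_lit 3) (nat_lit 125) (nat_lit 106) (nat_lit 129)) (PT.lf (nat_lit 3876) (nat_lit 6) (nat_lit 51) (nat_lit 3)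 (nat_lit 126) (nat_lit 106) (nat_lit 128))) (PT.nd (nat_lit 78) (PT.lf (nat_lit 3952) (nat_lit 3) (nat_lit 52) (nat_lit 1) (nat_lit 127) (nat_lit 106) (nat_lit 127)) (PT.nd (nat_lit 78) (PT.lf (nat_lit 3876) (nat_lit 6) (nat_lit 51) (nat_lit 1) (nat_lit 128) (nat_lit 106) (nat_lit 126)) (PT.lf (nat_lit 3800) (nat_lit 6) (nat_lit 50) (nat_lit 1) (nat_lit 129) (nat_lit 106) (nat_lit 125)))))) (PT.nd (nat_lit 37284) (PT.nd (nat_lit 37050) (PT.nd (nat_lit 36972) (PT.lf (nat_lit 3724) (nat_lit 6) (nat_lit 49) (nat_lit 1) (nat_lit 130) (nat_lit 106) (nat_lit 124)) (PT.lf (nat_lit 4028) (nat_lit 6) (nat_lit 53) (nat_lit 3) (nat_lit 123) (nat_lit 107) (nat_lit 130))) (PT.nd (nat_lit 78) (PT.lf (nat_lit 4104) (nat_lit 6) (nat_lit 54) (nat_lit 3) (nat_lit 124) (nat_lit 107) (nat_lit 129)) (PT.nd (nat_lit 78) (PT.lf (nat_lit 4180) (nat_lit 6) (nat_lit 55) (nat_lit 3) (nat_lit 125) (nat_lit 107) (nat_lit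 128)) (PT.lf (nat_lit 4256) (nat_lit 6) (nat_lit 56) (nat_lit 3) (nat_lit 126) (nat_lit 107) (nat_lit 127))))) (PT.nd (nat_lit 156) (PT.nd (nat_lit 78) (PT.lf (nat_lit 4256) (nat_lit 6) (nat_lit 56) (nat_lit 1) (nat_lit 127) (nat_lit 107) (nat_lit 126)) (PT.lf (nat_lit 4180) (nat_lit 6) (nat_lit 55) (nat_lit 1) (nat_lit 128) (nat_lit 107) (nat_lit 125))) (PT.nd (nat_lit 78) (PT.lf (nat_lit 4104) (nat_lit 6) (nat_lit 54) (nat_lit 1) (nat_lit 129) (nat_lit 107) (nat_lit 124)) (PT.nd (nat_lit 36894) (PT.lf (nat_lit 4028) (nat_lit 6) (nat_lit 53) (nat_lit 1) (nat_lit 130) (nat_lit 107) (nat_lit 123)) (PT.lf (nat_lit 4332) (nat_lit 6) (nat_lit 57) (nat_lit 3) (nat_lit 122) (nat_lit 108) (nat_lit 130))))))) (PT.nd (nat_lit 37518) (PT.nd (nat_lit 390) (PT.nd (nat_lit 156) (PT.nd (nat_lit 78) (PT.lf (nat_lit 4408) (nat_lit 6) (nat_lit 58) (nat_lit 3) (nat_lit 123) (nat_lit 108) (nat_lit 129)) (PT.lf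 (nat_lit 4484) (nat_lit 6) (nat_lit 59) (nat_lit 3) (nat_lit 124) (nat_lit 108) (nat_lit 128))) (PT.nd (nat_lit 78) (PT.lf (nat_lit 4560) (nat_lit 6) (nat_lit 60) (nat_lit 3) (nat_lit 125) (nat_lit 108) (nat_lit 127)) (PT.nd (nat_lit 78) (PT.lf (nat_lit 4636) (nat_lit 3) (nat_lit 61) (nat_lit 1) (nat_lit 126) (nat_lit 108) (nat_lit 126)) (PT.lf (nat_lit 4560) (nat_lit 6) (nat_lit 60) (nat_lit 1) (nat_lit 127) (nat_lit 108) (nat_lit 125))))) (PT.nd (nat_lit 156) (PT.nd (nat_lit 78) (PT.lf (nat_lit 4484) (nat_lit 6) (nat_lit 59) (nat_lit 1) (nat_lit 128) (nat_lit 108) (nat_lit 124)) (PT.lf (nat_lit 4408) (nat_lit 6) (nat_lit 58) (nat_lit 1) (nat_lit 129) (nat_lit 108) (nat_lit 123))) (PT.nd (nat_lit 36816) (PT.lf (nat_lit 4332) (nat_lit 6) (nat_lit 57) (nat_lit 1) (nat_lit 130) (nat_lit 108) (nat_lit 122)) (PT.nd (nat_lit 78) (PT.lf (nat_lit 4712) (nat_lit 6) (nat_lit 62) (nat_lit 3) (nat_lit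 121) (nat_lit 109) (nat_lit 130)) (PT.lf (nat_lit 4788) (nat_lit 6) (nat_lit 63) (nat_lit 3) (nat_lit 122) (nat_lit 109) (nat_lit 129)))))) (PT.nd (nat_lit 390) (PT.nd (nat_lit 156) (PT.nd (nat_lit 78) (PT.lf (nat_lit 4864) (nat_lit 6) (nat_lit 64) (nat_lit 3) (nat_lit 123) (nat_lit 109) (nat_lit 128)) (PT.lf (nat_lit 4940) (nat_lit 6) (nat_lit 65) (nat_lit 3) (nat_lit 124) (nat_lit 109) (nat_lit 127))) (PT.nd (nat_lit 78) (PT.lf (nat_lit 5016) (nat_lit 6) (nat_lit 66) (nat_lit 3) (nat_lit 125) (nat_lit 109) (nat_lit 126)) (PT.nd (nat_lit 78) (PT.lf (nat_lit 5016) (nat_lit 6) (nat_lit 66) (nat_lit 1) (nat_lit 126) (nat_lit 109) (nat_lit 125)) (PT.lf (nat_lit 4940) (nat_lit 6) (nat_lit 65) (nat_lit 1) (nat_lit 127) (nat_lit 109) (nat_lit 124))))) (PT.nd (nat_lit 36972) (PT.nd (nat_lit 78) (PT.lf (nat_lit 4864) (nat_lit 6) (nat_lit 64) (nat_lit 1) (nat_lit 128) (nat_lit 109) (nat_lit 123))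 (PT.nd (nat_lit 78) (PT.lf (nat_lit 4788) (nat_lit 6) (nat_lit 63) (nat_lit 1) (nat_lit 129) (nat_lit 109) (nat_lit 122)) (PT.lf (nat_lit 4712) (nat_lit 6) (nat_lit 62) (nat_lit 1) (nat_lit 130) (nat_lit 109) (nat_lit 121)))) (PT.nd (nat_lit 78) (PT.lf (nat_lit 5092) (nat_lit 6) (nat_lit 67) (nat_lit 3) (nat_lit 121) (nat_lit 110) (nat_lit 129)) (PT.nd (nat_lit 78) (PT.lf (nat_lit 5168) (nat_lit 6) (nat_lit 68) (nat_lit 3) (nat_lit 122) (nat_lit 110) (nat_lit 128)) (PT.lf (nat_lit 5244) (nat_lit 6) (nat_lit 69) (nat_lit 3) (nat_lit 123) (nat_lit 110) (nat_lit 127))))))))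
noncomputable def pc3 : PT := (PT.nd (nat_lit 74958) (PT.nd (nat_lit 37518) (PT.nd (nat_lit 390) (PT.nd (nat_lit 156) (PT.nd (nat_lit 78) (PT.lf (nat_lit 5320) (nat_lit 6) (nat_lit 70) (nat_lit 3) (nat_lit 124) (nat_lit 110) (nat_lit 126)) (PT.lf (nat_lit 5396) (nat_lit 3) (nat_lit 71) (nat_lit 1) (nat_lit 125) (nat_lit 110) (nat_lit 125))) (PT.nd (nat_lit 78) (PT.lf (nat_lit 5320) (nat_lit 6) (nat_lit 70) (nat_lit 1) (nat_lit 126) (nat_lit 110) (nat_lit 124)) (PT.nd (nat_lit 78) (PT.lf (nat_lit 5244) (nat_lit 6) (nat_lit 69) (nat_lit 1) (nat_lit 127) (nat_lit 110) (nat_lit 123)) (PT.lf (nat_lit 5168) (nat_lit 6) (nat_lit 68) (nat_lit 1) (nat_lit 128) (nat_lit 110) (nat_lit 122))))) (PT.nd (nat_lit 36894) (PT.nd (nat_lit 36816) (PT.lf (nat_lit 5092) (nat_lit 6) (nat_lit 67) (nat_lit 1) (nat_lit 129) (nat_lit 110) (nat_lit 121)) (PT.lf (nat_lit 5776) (nat_lit 6) (nat_lit 76) (nat_lit 3) (nat_lit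 120) (nat_lit 111) (nat_lit 129))) (PT.nd (nat_lit 78) (PT.lf (nat_lit 5852) (nat_lit 6) (nat_lit 77) (nat_lit 3) (nat_lit 121) (nat_lit 111) (nat_lit 128)) (PT.nd (nat_lit 78) (PT.lf (nat_lit 5928) (nat_lit 6) (nat_lit 78) (nat_lit 3) (nat_lit 122) (nat_lit 111) (nat_lit 127)) (PT.lf (nat_lit 6004) (nat_lit 6) (nat_lit 79) (nat_lit 3) (nat_lit 123) (nat_lit 111) (nat_lit 126)))))) (PT.nd (nat_lit 390) (PT.nd (nat_lit 156) (PT.nd (nat_lit 78) (PT.lf (nat_lit 6080) (nat_lit 6) (nat_lit 80) (nat_lit 3) (nat_lit 124) (nat_lit 111) (nat_lit 125)) (PT.lf (nat_lit 6080) (nat_lit 6) (nat_lit 80) (nat_lit 1) (nat_lit 125) (nat_lit 111) (nat_lit 124))) (PT.nd (nat_lit 78) (PT.lf (nat_lit 6004) (nat_lit 6) (nat_lit 79) (nat_lit 1) (nat_lit 126) (nat_lit 111) (nat_lit 123)) (PT.nd (nat_lit 78) (PT.lf (nat_lit 5928) (nat_lit 6) (nat_lit 78) (nat_lit 1) (nat_lit 127) (nat_lit 111) (nat_lit 122)) (PT.lf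 (nat_lit 5852) (nat_lit 6) (nat_lit 77) (nat_lit 1) (nat_lit 128) (nat_lit 111) (nat_lit 121))))) (PT.nd (nat_lit 36816) (PT.nd (nat_lit 36738) (PT.lf (nat_lit 5776) (nat_lit 6) (nat_lit 76) (nat_lit 1) (nat_lit 129) (nat_lit 111) (nat_lit 120)) (PT.lf (nat_lit 5700) (nat_lit 6) (nat_lit 75) (nat_lit 3) (nat_lit 119) (nat_lit 112) (nat_lit 129))) (PT.nd (nat_lit 78) (PT.lf (nat_lit 6460) (nat_lit 6) (nat_lit 85) (nat_lit 3) (nat_lit 120) (nat_lit 112) (nat_lit 128)) (PT.nd (nat_lit 78) (PT.lf (nat_lit 6536) (nat_lit 6) (nat_lit 86) (nat_lit 3) (nat_lit 121) (nat_lit 112) (nat_lit 127)) (PT.lf (nat_lit 6612) (nat_lit 6) (nat_lit 87) (nat_lit 3) (nat_lit 122) (nat_lit 112) (nat_lit 126))))))) (PT.nd (nat_lit 37362) (PT.nd (nat_lit 390) (PT.nd (nat_lit 156) (PT.nd (nat_lit 78) (PT.lf (nat_lit 6688) (nat_lit 6) (nat_lit 88) (nat_lit 3) (nat_lit 123) (nat_lit 112) (nat_lit 125)) (PT.lf (nat_lit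 6764) (nat_lit 3) (nat_lit 89) (nat_lit 1) (nat_lit 124) (nat_lit 112) (nat_lit 124))) (PT.nd (nat_lit 78) (PT.lf (nat_lit 6688) (nat_lit 6) (nat_lit 88) (nat_lit 1) (nat_lit 125) (nat_lit 112) (nat_lit 123)) (PT.nd (nat_lit 78) (PT.lf (nat_lit 6612) (nat_lit 6) (nat_lit 87) (nat_lit 1) (nat_lit 126) (nat_lit 112) (nat_lit 122)) (PT.lf (nat_lit 6536) (nat_lit 6) (nat_lit 86) (nat_lit 1) (nat_lit 127) (nat_lit 112) (nat_lit 121))))) (PT.nd (nat_lit 36738) (PT.nd (nat_lit 78) (PT.lf (nat_lit 6460) (nat_lit 6) (nat_lit 85) (nat_lit 1) (nat_lit 128) (nat_lit 112) (nat_lit 120)) (PT.lf (nat_lit 5700) (nat_lit 6) (nat_lit 75) (nat_lit 1) (nat_lit 129) (nat_lit 112) (nat_lit 119))) (PT.nd (nat_lit 78) (PT.lf (nat_lit 5624) (nat_lit 6) (nat_lit 74) (nat_lit 3) (nat_lit 118) (nat_lit 113) (nat_lit 129)) (PT.nd (nat_lit 78) (PT.lf (nat_lit 6384) (nat_lit 6) (nat_lit 84) (nat_lit 3) (nat_lit 119) (nat_lit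 113) (nat_lit 128)) (PT.lf (nat_lit 7068) (nat_lit 6) (nat_lit 93) (nat_lit 3) (nat_lit 120) (nat_lit 113) (nat_lit 127)))))) (PT.nd (nat_lit 390) (PT.nd (nat_lit 156) (PT.nd (nat_lit 78) (PT.lf (nat_lit 7144) (nat_lit 6) (nat_lit 94) (nat_lit 3) (nat_lit 121) (nat_lit 113) (nat_lit 126)) (PT.lf (nat_lit 7220) (nat_lit 6) (nat_lit 95) (nat_lit 3) (nat_lit 122) (nat_lit 113) (nat_lit 125))) (PT.nd (nat_lit 78) (PT.lf (nat_lit 7296) (nat_lit 6) (nat_lit 96) (nat_lit 3) (nat_lit 123) (nat_lit 113) (nat_lit 124)) (PT.nd (nat_lit 78) (PT.lf (nat_lit 7296) (nat_lit 6) (nat_lit 96) (nat_lit 1) (nat_lit 124) (nat_lit 113) (nat_lit 123)) (PT.lf (nat_lit 7220) (nat_lit 6) (nat_lit 95) (nat_lit 1) (nat_lit 125) (nat_lit 113) (nat_lit 122))))) (PT.nd (nat_lit 234) (PT.nd (nat_lit 78) (PT.lf (nat_lit 7144) (nat_lit 6) (nat_lit 94) (nat_lit 1) (nat_lit 126) (nat_lit 113) (nat_lit 121)) (PT.nd (nat_lit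 78) (PT.lf (nat_lit 7068) (nat_lit 6) (nat_lit 93) (nat_lit 1) (nat_lit 127) (nat_lit 113) (nat_lit 120)) (PT.lf (nat_lit 6384) (nat_lit 6) (nat_lit 84) (nat_lit 1) (nat_lit 128) (nat_lit 113) (nat_lit 119)))) (PT.nd (nat_lit 36582) (PT.lf (nat_lit 5624) (nat_lit 6) (nat_lit 74) (nat_lit 1) (nat_lit 129) (nat_lit 113) (nat_lit 118)) (PT.nd (nat_lit 78) (PT.lf (nat_lit 5548) (nat_lit 6) (nat_lit 73) (nat_lit 3) (nat_lit 117) (nat_lit 114) (nat_lit 129)) (PT.lf (nat_lit 6308) (nat_lit 6) (nat_lit 83) (nat_lit 3) (nat_lit 118) (nat_lit 114) (nat_lit 128))))))))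
noncomputable def pc4 : PT := (PT.nd (nat_lit 37986) (PT.nd (nat_lit 780) (PT.nd (nat_lit 390) (PT.nd (nat_lit 156) (PT.nd (nat_lit 78) (PT.lf (nat_lit 6992) (nat_lit 6) (nat_lit 92) (nat_lit 3) (nat_lit 119) (nat_lit 114) (nat_lit 127)) (PT.lf (nat_lit 7600) (nat_lit 6) (nat_lit 100) (nat_lit 3) (nat_lit 120) (nat_lit 114) (nat_lit 126))) (PT.nd (nat_lit 78) (PT.lf (nat_lit 7676) (nat_lit 6) (nat_lit 101) (nat_lit 3) (nat_lit 121) (nat_lit 114) (nat_lit 125)) (PT.nd (nat_lit 78) (PT.lf (nat_lit 7752) (nat_lit 6) (nat_lit 102) (nat_lit 3) (nat_lit 122) (nat_lit 114) (nat_lit 124)) (PT.lf (nat_lit 7828) (nat_lit 3) (nat_lit 103) (nat_lit 1) (nat_lit 123) (nat_lit 114) (nat_lit 123))))) (PT.nd (nat_lit 156) (PT.nd (nat_lit 78) (PT.lf (nat_lit 7752) (nat_lit 6) (nat_lit 102) (nat_lit 1) (nat_lit 124) (nat_lit 114) (nat_lit 122)) (PT.lf (nat_lit 7676) (nat_lit 6) (nat_lit 101) (nat_lit 1) (nat_lit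 125) (nat_lit 114) (nat_lit 121))) (PT.nd (nat_lit 78) (PT.lf (nat_lit 7600) (nat_lit 6) (nat_lit 100) (nat_lit 1) (nat_lit 126) (nat_lit 114) (nat_lit 120)) (PT.nd (nat_lit 78) (PT.lf (nat_lit 6992) (nat_lit 6) (nat_lit 92) (nat_lit 1) (nat_lit 127) (nat_lit 114) (nat_lit 119)) (PT.lf (nat_lit 6308) (nat_lit 6) (nat_lit 83) (nat_lit 1) (nat_lit 128) (nat_lit 114) (nat_lit 118)))))) (PT.nd (nat_lit 36816) (PT.nd (nat_lit 36582) (PT.nd (nat_lit 36504) (PT.lf (nat_lit 5548) (nat_lit 6) (nat_lit 73) (nat_lit 1) (nat_lit 129) (nat_lit 114) (nat_lit 117)) (PT.lf (nat_lit 5472) (nat_lit 6) (nat_lit 72) (nat_lit 3) (nat_lit 116) (nat_lit 115) (nat_lit 129))) (PT.nd (nat_lit 78) (PT.lf (nat_lit 6232) (nat_lit 6) (nat_lit 82) (nat_lit 3) (nat_lit 117) (nat_lit 115) (nat_lit 128)) (PT.nd (nat_lit 78) (PT.lf (nat_lit 6916) (nat_lit 6) (nat_lit 91) (nat_lit 3) (nat_lit 118) (nat_lit 115) (nat_lit 127))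 (PT.lf (nat_lit 7524) (nat_lit 6) (nat_lit 99) (nat_lit 3) (nat_lit 119) (nat_lit 115) (nat_lit 126))))) (PT.nd (nat_lit 156) (PT.nd (nat_lit 78) (PT.lf (nat_lit 8056) (nat_lit 6) (nat_lit 106) (nat_lit 3) (nat_lit 120) (nat_lit 115) (nat_lit 125)) (PT.lf (nat_lit 8132) (nat_lit 6) (nat_lit 107) (nat_lit 3) (nat_lit 121) (nat_lit 115) (nat_lit 124))) (PT.nd (nat_lit 78) (PT.lf (nat_lit 8208) (nat_lit 6) (nat_lit 108) (nat_lit 3) (nat_lit 122) (nat_lit 115) (nat_lit 123)) (PT.nd (nat_lit 78) (PT.lf (nat_lit 8208) (nat_lit 6) (nat_lit 108) (nat_lit 1) (nat_lit 123) (nat_lit 115) (nat_lit 122)) (PT.lf (nat_lit 8132) (nat_lit 6) (nat_lit 107) (nat_lit 1) (nat_lit 124) (nat_lit 115) (nat_lit 121))))))) (PT.nd (nat_lit 37128) (PT.nd (nat_lit 36738) (PT.nd (nat_lit 156) (PT.nd (nat_lit 78) (PT.lf (nat_lit 8056) (nat_lit 6) (nat_lit 106) (nat_lit 1) (nat_lit 125) (nat_lit 115) (nat_lit 120)) (PT.lf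 (nat_lit 7524) (nat_lit 6) (nat_lit 99) (nat_lit 1) (nat_lit 126) (nat_lit 115) (nat_lit 119))) (PT.nd (nat_lit 78) (PT.lf (nat_lit 6916) (nat_lit 6) (nat_lit 91) (nat_lit 1) (nat_lit 127) (nat_lit 115) (nat_lit 118)) (PT.nd (nat_lit 78) (PT.lf (nat_lit 6232) (nat_lit 6) (nat_lit 82) (nat_lit 1) (nat_lit 128) (nat_lit 115) (nat_lit 117)) (PT.lf (nat_lit 5472) (nat_lit 6) (nat_lit 72) (nat_lit 1) (nat_lit 129) (nat_lit 115) (nat_lit 116))))) (PT.nd (nat_lit 156) (PT.nd (nat_lit 78) (PT.lf (nat_lit 5472) (nat_lit 6) (nat_lit 72) (nat_lit 5) (nat_lit 115) (nat_lit 116) (nat_lit 129)) (PT.lf (nat_lit 6156) (nat_lit 3) (nat_lit 81) (nat_lit 3) (nat_lit 116) (nat_lit 116) (nat_lit 128))) (PT.nd (nat_lit 78) (PT.lf (nat_lit 6840) (nat_lit 6) (nat_lit 90) (nat_lit 3) (nat_lit 117) (nat_lit 116) (nat_lit 127)) (PT.nd (nat_lit 78) (PT.lf (nat_lit 7448) (nat_lit 6) (nat_lit 98) (nat_lit 3) (nat_lit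 118) (nat_lit 116) (nat_lit 126)) (PT.lf (nat_lit 7980) (nat_lit 6) (nat_lit 105) (nat_lit 3) (nat_lit 119) (nat_lit 116) (nat_lit 125)))))) (PT.nd (nat_lit 390) (PT.nd (nat_lit 156) (PT.nd (nat_lit 78) (PT.lf (nat_lit 8436) (nat_lit 6) (nat_lit 111) (nat_lit 3) (nat_lit 120) (nat_lit 116) (nat_lit 124)) (PT.lf (nat_lit 8512) (nat_lit 6) (nat_lit 112) (nat_lit 3) (nat_lit 121) (nat_lit 116) (nat_lit 123))) (PT.nd (nat_lit 78) (PT.lf (nat_lit 8588) (nat_lit 3) (nat_lit 113) (nat_lit 1) (nat_lit 122) (nat_lit 116) (nat_lit 122)) (PT.nd (nat_lit 78) (PT.lf (nat_lit 8512) (nat_lit 6) (nat_lit 112) (nat_lit 1) (nat_lit 123) (nat_lit 116) (nat_lit 121)) (PT.lf (nat_lit 8436) (nat_lit 6) (nat_lit 111) (nat_lit 1) (nat_lit 124) (nat_lit 116) (nat_lit 120))))) (PT.nd (nat_lit 234) (PT.nd (nat_lit 78) (PT.lf (nat_lit 7980) (nat_lit 6) (nat_lit 105) (nat_lit 1) (nat_lit 125) (nat_lit 116) (nat_lit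 119)) (PT.nd (nat_lit 78) (PT.lf (nat_lit 7448) (nat_lit 6) (nat_lit 98) (nat_lit 1) (nat_lit 126) (nat_lit 116) (nat_lit 118)) (PT.lf (nat_lit 6840) (nat_lit 6) (nat_lit 90) (nat_lit 1) (nat_lit 127) (nat_lit 116) (nat_lit 117)))) (PT.nd (nat_lit 78) (PT.lf (nat_lit 6156) (nat_lit 3) (nat_lit 81) (nat_lit 0) (nat_lit 128) (nat_lit 116) (nat_lit 116)) (PT.nd (nat_lit 36348) (PT.lf (nat_lit 5472) (nat_lit 6) (nat_lit 72) (nat_lit 0) (nat_lit 129) (nat_lit 116) (nat_lit 115)) (PT.lf (nat_lit 5548) (nat_lit 6) (nat_lit 73) (nat_lit 5) (nat_lit 114) (nat_lit 117) (nat_lit 129))))))))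
noncomputable def pc5 : PT := (PT.nd (nat_lit 37752) (PT.nd (nat_lit 780) (PT.nd (nat_lit 390) (PT.nd (nat_lit 156) (PT.nd (nat_lit 78) (PT.lf (nat_lit 6232) (nat_lit 6) (nat_lit 82) (nat_lit 5) (nat_lit 115) (nat_lit 117) (nat_lit 128)) (PT.lf (nat_lit 6840) (nat_lit 6) (nat_lit 90) (nat_lit 5) (nat_lit 116) (nat_lit 117) (nat_lit 127))) (PT.nd (nat_lit 78) (PT.lf (nat_lit 7372) (nat_lit 3) (nat_lit 97) (nat_lit 3) (nat_lit 117) (nat_lit 117) (nat_lit 126)) (PT.nd (nat_lit 78) (PT.lf (nat_lit 7904) (nat_lit 6) (nat_lit 104) (nat_lit 3) (nat_lit 118) (nat_lit 117) (nat_lit 125)) (PT.lf (nat_lit 8360) (nat_lit 6) (nat_lit 110) (nat_lit 3) (nat_lit 119) (nat_lit 117) (nat_lit 124))))) (PT.nd (nat_lit 156) (PT.nd (nat_lit 78) (PT.lf (nat_lit 8740) (nat_lit 6) (nat_lit 115) (nat_lit 3) (nat_lit 120) (nat_lit 117) (nat_lit 123)) (PT.lf (nat_lit 8816) (nat_lit 6) (nat_lit 116) (nat_lit 3) (nat_lit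 121) (nat_lit 117) (nat_lit 122))) (PT.nd (nat_lit 78) (PT.lf (nat_lit 8816) (nat_lit 6) (nat_lit 116) (nat_lit 1) (nat_lit 122) (nat_lit 117) (nat_lit 121)) (PT.nd (nat_lit 78) (PT.lf (nat_lit 8740) (nat_lit 6) (nat_lit 115) (nat_lit 1) (nat_lit 123) (nat_lit 117) (nat_lit 120)) (PT.lf (nat_lit 8360) (nat_lit 6) (nat_lit 110) (nat_lit 1) (nat_lit 124) (nat_lit 117) (nat_lit 119)))))) (PT.nd (nat_lit 36582) (PT.nd (nat_lit 156) (PT.nd (nat_lit 78) (PT.lf (nat_lit 7904) (nat_lit 6) (nat_lit 104) (nat_lit 1) (nat_lit 125) (nat_lit 117) (nat_lit 118)) (PT.lf (nat_lit 7372) (nat_lit 3) (nat_lit 97) (nat_lit 0) (nat_lit 126) (nat_lit 117) (nat_lit 117))) (PT.nd (nat_lit 78) (PT.lf (nat_lit 6840) (nat_lit 6) (nat_lit 90) (nat_lit 0) (nat_lit 127) (nat_lit 117) (nat_lit 116)) (PT.nd (nat_lit 78) (PT.lf (nat_lit 6232) (nat_lit 6) (nat_lit 82) (nat_lit 0) (nat_lit 128) (nat_lit 117) (nat_lit 115))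 (PT.lf (nat_lit 5548) (nat_lit 6) (nat_lit 73) (nat_lit 0) (nat_lit 129) (nat_lit 117) (nat_lit 114))))) (PT.nd (nat_lit 156) (PT.nd (nat_lit 78) (PT.lf (nat_lit 5624) (nat_lit 6) (nat_lit 74) (nat_lit 5) (nat_lit 113) (nat_lit 118) (nat_lit 129)) (PT.lf (nat_lit 6308) (nat_lit 6) (nat_lit 83) (nat_lit 5) (nat_lit 114) (nat_lit 118) (nat_lit 128))) (PT.nd (nat_lit 78) (PT.lf (nat_lit 6916) (nat_lit 6) (nat_lit 91) (nat_lit 5) (nat_lit 115) (nat_lit 118) (nat_lit 127)) (PT.nd (nat_lit 78) (PT.lf (nat_lit 7448) (nat_lit 6) (nat_lit 98) (nat_lit 5) (nat_lit 116) (nat_lit 118) (nat_lit 126)) (PT.lf (nat_lit 7904) (nat_lit 6) (nat_lit 104) (nat_lit 5) (nat_lit 117) (nat_lit 118) (nat_lit 125))))))) (PT.nd (nat_lit 780) (PT.nd (nat_lit 390) (PT.nd (nat_lit 156) (PT.nd (nat_lit 78) (PT.lf (nat_lit 8284) (nat_lit 3) (nat_lit 109) (nat_lit 3) (nat_lit 118) (nat_lit 118) (nat_lit 124)) (PT.lf (nat_lit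 8664) (nat_lit 6) (nat_lit 114) (nat_lit 3) (nat_lit 119) (nat_lit 118) (nat_lit 123))) (PT.nd (nat_lit 78) (PT.lf (nat_lit 8968) (nat_lit 6) (nat_lit 118) (nat_lit 3) (nat_lit 120) (nat_lit 118) (nat_lit 122)) (PT.nd (nat_lit 78) (PT.lf (nat_lit 9044) (nat_lit 3) (nat_lit 119) (nat_lit 1) (nat_lit 121) (nat_lit 118) (nat_lit 121)) (PT.lf (nat_lit 8968) (nat_lit 6) (nat_lit 118) (nat_lit 1) (nat_lit 122) (nat_lit 118) (nat_lit 120))))) (PT.nd (nat_lit 156) (PT.nd (nat_lit 78) (PT.lf (nat_lit 8664) (nat_lit 6) (nat_lit 114) (nat_lit 1) (nat_lit 123) (nat_lit 118) (nat_lit 119)) (PT.lf (nat_lit 8284) (nat_lit 3) (nat_lit 109) (nat_lit 0) (nat_lit 124) (nat_lit 118) (nat_lit 118))) (PT.nd (nat_lit 78) (PT.lf (nat_lit 7904) (nat_lit 6) (nat_lit 104) (nat_lit 0) (nat_lit 125) (nat_lit 118) (nat_lit 117)) (PT.nd (nat_lit 78) (PT.lf (nat_lit 7448) (nat_lit 6) (nat_lit 98) (nat_lit 0) (nat_lit 126)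 (nat_lit 118) (nat_lit 116)) (PT.lf (nat_lit 6916) (nat_lit 6) (nat_lit 91) (nat_lit 0) (nat_lit 127) (nat_lit 118) (nat_lit 115)))))) (PT.nd (nat_lit 36504) (PT.nd (nat_lit 36270) (PT.nd (nat_lit 78) (PT.lf (nat_lit 6308) (nat_lit 6) (nat_lit 83) (nat_lit 0) (nat_lit 128) (nat_lit 118) (nat_lit 114)) (PT.lf (nat_lit 5624) (nat_lit 6) (nat_lit 74) (nat_lit 0) (nat_lit 129) (nat_lit 118) (nat_lit 113))) (PT.nd (nat_lit 78) (PT.lf (nat_lit 5700) (nat_lit 6) (nat_lit 75) (nat_lit 5) (nat_lit 112) (nat_lit 119) (nat_lit 129)) (PT.nd (nat_lit 78) (PT.lf (nat_lit 6384) (nat_lit 6) (nat_lit 84) (nat_lit 5) (nat_lit 113) (nat_lit 119) (nat_lit 128)) (PT.lf (nat_lit 6992) (nat_lit 6) (nat_lit 92) (nat_lit 5) (nat_lit 114) (nat_lit 119) (nat_lit 127))))) (PT.nd (nat_lit 234) (PT.nd (nat_lit 78) (PT.lf (nat_lit 7524) (nat_lit 6) (nat_lit 99) (nat_lit 5) (nat_lit 115) (nat_lit 119) (nat_lit 126)) (PT.nd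 (nat_lit 78) (PT.lf (nat_lit 7980) (nat_lit 6) (nat_lit 105) (nat_lit 5) (nat_lit 116) (nat_lit 119) (nat_lit 125)) (PT.lf (nat_lit 8360) (nat_lit 6) (nat_lit 110) (nat_lit 5) (nat_lit 117) (nat_lit 119) (nat_lit 124)))) (PT.nd (nat_lit 78) (PT.lf (nat_lit 8664) (nat_lit 6) (nat_lit 114) (nat_lit 5) (nat_lit 118) (nat_lit 119) (nat_lit 123)) (PT.nd (nat_lit 78) (PT.lf (nat_lit 8892) (nat_lit 3) (nat_lit 117) (nat_lit 3) (nat_lit 119) (nat_lit 119) (nat_lit 122)) (PT.lf (nat_lit 9120) (nat_lit 6) (nat_lit 120) (nat_lit 3) (nat_lit 120) (nat_lit 119) (nat_lit 121))))))))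
noncomputable def pc6 : PT := (PT.nd (nat_lit 37596) (PT.nd (nat_lit 36816) (PT.nd (nat_lit 390) (PT.nd (nat_lit 156) (PT.nd (nat_lit 78) (PT.lf (nat_lit 9120) (nat_lit 6) (nat_lit 120) (nat_lit 1) (nat_lit 121) (nat_lit 119) (nat_lit 120)) (PT.lf (nat_lit 8892) (nat_lit 3) (nat_lit 117) (nat_lit 0) (nat_lit 122) (nat_lit 119) (nat_lit 119))) (PT.nd (nat_lit 78) (PT.lf (nat_lit 8664) (nat_lit 6) (nat_lit 114) (nat_lit 0) (nat_lit 123) (nat_lit 119) (nat_lit 118)) (PT.nd (nat_lit 78) (PT.lf (nat_lit 8360) (nat_lit 6) (nat_lit 110) (nat_lit 0) (nat_lit 124) (nat_lit 119) (nat_lit 117)) (PT.lf (nat_lit 7980) (nat_lit 6) (nat_lit 105) (nat_lit 0) (nat_lit 125) (nat_lit 119) (nat_lit 116))))) (PT.nd (nat_lit 156) (PT.nd (nat_lit 78) (PT.lf (nat_lit 7524) (nat_lit 6) (nat_lit 99) (nat_lit 0) (nat_lit 126) (nat_lit 119) (nat_lit 115)) (PT.lf (nat_lit 6992) (nat_lit 6) (nat_lit 92) (nat_lit 0) (nat_lit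 127) (nat_lit 119) (nat_lit 114))) (PT.nd (nat_lit 78) (PT.lf (nat_lit 6384) (nat_lit 6) (nat_lit 84) (nat_lit 0) (nat_lit 128) (nat_lit 119) (nat_lit 113)) (PT.nd (nat_lit 36114) (PT.lf (nat_lit 5700) (nat_lit 6) (nat_lit 75) (nat_lit 0) (nat_lit 129) (nat_lit 119) (nat_lit 112)) (PT.lf (nat_lit 5776) (nat_lit 6) (nat_lit 76) (nat_lit 5) (nat_lit 111) (nat_lit 120) (nat_lit 129)))))) (PT.nd (nat_lit 390) (PT.nd (nat_lit 156) (PT.nd (nat_lit 78) (PT.lf (nat_lit 6460) (nat_lit 6) (nat_lit 85) (nat_lit 5) (nat_lit 112) (nat_lit 120) (nat_lit 128)) (PT.lf (nat_lit 7068) (nat_lit 6) (nat_lit 93) (nat_lit 5) (nat_lit 113) (nat_lit 120) (nat_lit 127))) (PT.nd (nat_lit 78) (PT.lf (nat_lit 7600) (nat_lit 6) (nat_lit 100) (nat_lit 5) (nat_lit 114) (nat_lit 120) (nat_lit 126)) (PT.nd (nat_lit 78) (PT.lf (nat_lit 8056) (nat_lit 6) (nat_lit 106) (nat_lit 5) (nat_lit 115) (nat_lit 120) (nat_lit 125))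 (PT.lf (nat_lit 8436) (nat_lit 6) (nat_lit 111) (nat_lit 5) (nat_lit 116) (nat_lit 120) (nat_lit 124))))) (PT.nd (nat_lit 156) (PT.nd (nat_lit 78) (PT.lf (nat_lit 8740) (nat_lit 6) (nat_lit 115) (nat_lit 5) (nat_lit 117) (nat_lit 120) (nat_lit 123)) (PT.lf (nat_lit 8968) (nat_lit 6) (nat_lit 118) (nat_lit 5) (nat_lit 118) (nat_lit 120) (nat_lit 122))) (PT.nd (nat_lit 78) (PT.lf (nat_lit 9120) (nat_lit 6) (nat_lit 120) (nat_lit 5) (nat_lit 119) (nat_lit 120) (nat_lit 121)) (PT.nd (nat_lit 78) (PT.lf (nat_lit 9196) (nat_lit 1) (nat_lit 121) (nat_lit 0) (nat_lit 120) (nat_lit 120) (nat_lit 120)) (PT.lf (nat_lit 9120) (nat_lit 6) (nat_lit 120) (nat_lit 0) (nat_lit 121) (nat_lit 120) (nat_lit 119))))))) (PT.nd (nat_lit 36660) (PT.nd (nat_lit 390) (PT.nd (nat_lit 156) (PT.nd (nat_lit 78) (PT.lf (nat_lit 8968) (nat_lit 6) (nat_lit 118) (nat_lit 0) (nat_lit 122) (nat_lit 120) (nat_lit 118)) (PT.lf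 (nat_lit 8740) (nat_lit 6) (nat_lit 115) (nat_lit 0) (nat_lit 123) (nat_lit 120) (nat_lit 117))) (PT.nd (nat_lit 78) (PT.lf (nat_lit 8436) (nat_lit 6) (nat_lit 111) (nat_lit 0) (nat_lit 124) (nat_lit 120) (nat_lit 116)) (PT.nd (nat_lit 78) (PT.lf (nat_lit 8056) (nat_lit 6) (nat_lit 106) (nat_lit 0) (nat_lit 125) (nat_lit 120) (nat_lit 115)) (PT.lf (nat_lit 7600) (nat_lit 6) (nat_lit 100) (nat_lit 0) (nat_lit 126) (nat_lit 120) (nat_lit 114))))) (PT.nd (nat_lit 156) (PT.nd (nat_lit 78) (PT.lf (nat_lit 7068) (nat_lit 6) (nat_lit 93) (nat_lit 0) (nat_lit 127) (nat_lit 120) (nat_lit 113)) (PT.lf (nat_lit 6460) (nat_lit 6) (nat_lit 85) (nat_lit 0) (nat_lit 128) (nat_lit 120) (nat_lit 112))) (PT.nd (nat_lit 35958) (PT.lf (nat_lit 5776) (nat_lit 6) (nat_lit 76) (nat_lit 0) (nat_lit 129) (nat_lit 120) (nat_lit 111)) (PT.nd (nat_lit 78) (PT.lf (nat_lit 4712) (nat_lit 6) (nat_lit 62) (nat_lit 5) (nat_lit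 109) (nat_lit 121) (nat_lit 130)) (PT.lf (nat_lit 5092) (nat_lit 6) (nat_lit 67) (nat_lit 5) (nat_lit 110) (nat_lit 121) (nat_lit 129)))))) (PT.nd (nat_lit 390) (PT.nd (nat_lit 156) (PT.nd (nat_lit 78) (PT.lf (nat_lit 5852) (nat_lit 6) (nat_lit 77) (nat_lit 5) (nat_lit 111) (nat_lit 121) (nat_lit 128)) (PT.lf (nat_lit 6536) (nat_lit 6) (nat_lit 86) (nat_lit 5) (nat_lit 112) (nat_lit 121) (nat_lit 127))) (PT.nd (nat_lit 78) (PT.lf (nat_lit 7144) (nat_lit 6) (nat_lit 94) (nat_lit 5) (nat_lit 113) (nat_lit 121) (nat_lit 126)) (PT.nd (nat_lit 78) (PT.lf (nat_lit 7676) (nat_lit 6) (nat_lit 101) (nat_lit 5) (nat_lit 114) (nat_lit 121) (nat_lit 125)) (PT.lf (nat_lit 8132) (nat_lit 6) (nat_lit 107) (nat_lit 5) (nat_lit 115) (nat_lit 121) (nat_lit 124))))) (PT.nd (nat_lit 234) (PT.nd (nat_lit 78) (PT.lf (nat_lit 8512) (nat_lit 6) (nat_lit 112) (nat_lit 5) (nat_lit 116) (nat_lit 121) (nat_lit 123))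 (PT.nd (nat_lit 78) (PT.lf (nat_lit 8816) (nat_lit 6) (nat_lit 116) (nat_lit 5) (nat_lit 117) (nat_lit 121) (nat_lit 122)) (PT.lf (nat_lit 9044) (nat_lit 3) (nat_lit 119) (nat_lit 4) (nat_lit 118) (nat_lit 121) (nat_lit 121)))) (PT.nd (nat_lit 78) (PT.lf (nat_lit 9120) (nat_lit 6) (nat_lit 120) (nat_lit 4) (nat_lit 119) (nat_lit 121) (nat_lit 120)) (PT.nd (nat_lit 78) (PT.lf (nat_lit 9120) (nat_lit 6) (nat_lit 120) (nat_lit 2) (nat_lit 120) (nat_lit 121) (nat_lit 119)) (PT.lf (nat_lit 9044) (nat_lit 3) (nat_lit 119) (nat_lit 0) (nat_lit 121) (nat_lit 121) (nat_lit 118))))))))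
noncomputable def pc7 : PT := (PT.nd (nat_lit 37284) (PT.nd (nat_lit 36504) (PT.nd (nat_lit 390) (PT.nd (nat_lit 156) (PT.nd (nat_lit 78) (PT.lf (nat_lit 8816) (nat_lit 6) (nat_lit 116) (nat_lit 0) (nat_lit 122) (nat_lit 121) (nat_lit 117)) (PT.lf (nat_lit 8512) (nat_lit 6) (nat_lit 112) (nat_lit 0) (nat_lit 123) (nat_lit 121) (nat_lit 116))) (PT.nd (nat_lit 78) (PT.lf (nat_lit 8132) (nat_lit 6) (nat_lit 107) (nat_lit 0) (nat_lit 124) (nat_lit 121) (nat_lit 115)) (PT.nd (nat_lit 78) (PT.lf (nat_lit 7676) (nat_lit 6) (nat_lit 101) (nat_lit 0) (nat_lit 125) (nat_lit 121) (nat_lit 114)) (PT.lf (nat_lit 7144) (nat_lit 6) (nat_lit 94) (nat_lit 0) (nat_lit 126) (nat_lit 121) (nat_lit 113))))) (PT.nd (nat_lit 156) (PT.nd (nat_lit 78) (PT.lf (nat_lit 6536) (nat_lit 6) (nat_lit 86) (nat_lit 0) (nat_lit 127) (nat_lit 121) (nat_lit 112)) (PT.lf (nat_lit 5852) (nat_lit 6) (nat_lit 77) (nat_lit 0) (nat_lit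 128) (nat_lit 121) (nat_lit 111))) (PT.nd (nat_lit 78) (PT.lf (nat_lit 5092) (nat_lit 6) (nat_lit 67) (nat_lit 0) (nat_lit 129) (nat_lit 121) (nat_lit 110)) (PT.nd (nat_lit 35802) (PT.lf (nat_lit 4712) (nat_lit 6) (nat_lit 62) (nat_lit 0) (nat_lit 130) (nat_lit 121) (nat_lit 109)) (PT.lf (nat_lit 4332) (nat_lit 6) (nat_lit 57) (nat_lit 5) (nat_lit 108) (nat_lit 122) (nat_lit 130)))))) (PT.nd (nat_lit 390) (PT.nd (nat_lit 156) (PT.nd (nat_lit 78) (PT.lf (nat_lit 4788) (nat_lit 6) (nat_lit 63) (nat_lit 5) (nat_lit 109) (nat_lit 122) (nat_lit 129)) (PT.lf (nat_lit 5168) (nat_lit 6) (nat_lit 68) (nat_lit 5) (nat_lit 110) (nat_lit 122) (nat_lit 128))) (PT.nd (nat_lit 78) (PT.lf (nat_lit 5928) (nat_lit 6) (nat_lit 78) (nat_lit 5) (nat_lit 111) (nat_lit 122) (nat_lit 127)) (PT.nd (nat_lit 78) (PT.lf (nat_lit 6612) (nat_lit 6) (nat_lit 87) (nat_lit 5) (nat_lit 112) (nat_lit 122) (nat_lit 126)) (PT.lf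 (nat_lit 7220) (nat_lit 6) (nat_lit 95) (nat_lit 5) (nat_lit 113) (nat_lit 122) (nat_lit 125))))) (PT.nd (nat_lit 156) (PT.nd (nat_lit 78) (PT.lf (nat_lit 7752) (nat_lit 6) (nat_lit 102) (nat_lit 5) (nat_lit 114) (nat_lit 122) (nat_lit 124)) (PT.lf (nat_lit 8208) (nat_lit 6) (nat_lit 108) (nat_lit 5) (nat_lit 115) (nat_lit 122) (nat_lit 123))) (PT.nd (nat_lit 78) (PT.lf (nat_lit 8588) (nat_lit 3) (nat_lit 113) (nat_lit 4) (nat_lit 116) (nat_lit 122) (nat_lit 122)) (PT.nd (nat_lit 78) (PT.lf (nat_lit 8816) (nat_lit 6) (nat_lit 116) (nat_lit 4) (nat_lit 117) (nat_lit 122) (nat_lit 121)) (PT.lf (nat_lit 8968) (nat_lit 6) (nat_lit 118) (nat_lit 4) (nat_lit 118) (nat_lit 122) (nat_lit 120))))))) (PT.nd (nat_lit 780) (PT.nd (nat_lit 390) (PT.nd (nat_lit 156) (PT.nd (nat_lit 78) (PT.lf (nat_lit 8892) (nat_lit 3) (nat_lit 117) (nat_lit 2) (nat_lit 119) (nat_lit 122) (nat_lit 119)) (PT.lf (nat_lit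 8968) (nat_lit 6) (nat_lit 118) (nat_lit 2) (nat_lit 120) (nat_lit 122) (nat_lit 118))) (PT.nd (nat_lit 78) (PT.lf (nat_lit 8816) (nat_lit 6) (nat_lit 116) (nat_lit 2) (nat_lit 121) (nat_lit 122) (nat_lit 117)) (PT.nd (nat_lit 78) (PT.lf (nat_lit 8588) (nat_lit 3) (nat_lit 113) (nat_lit 0) (nat_lit 122) (nat_lit 122) (nat_lit 116)) (PT.lf (nat_lit 8208) (nat_lit 6) (nat_lit 108) (nat_lit 0) (nat_lit 123) (nat_lit 122) (nat_lit 115))))) (PT.nd (nat_lit 156) (PT.nd (nat_lit 78) (PT.lf (nat_lit 7752) (nat_lit 6) (nat_lit 102) (nat_lit 0) (nat_lit 124) (nat_lit 122) (nat_lit 114)) (PT.lf (nat_lit 7220) (nat_lit 6) (nat_lit 95) (nat_lit 0) (nat_lit 125) (nat_lit 122) (nat_lit 113))) (PT.nd (nat_lit 78) (PT.lf (nat_lit 6612) (nat_lit 6) (nat_lit 87) (nat_lit 0) (nat_lit 126) (nat_lit 122) (nat_lit 112)) (PT.nd (nat_lit 78) (PT.lf (nat_lit 5928) (nat_lit 6) (nat_lit 78) (nat_lit 0) (nat_lit 127)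 (nat_lit 122) (nat_lit 111)) (PT.lf (nat_lit 5168) (nat_lit 6) (nat_lit 68) (nat_lit 0) (nat_lit 128) (nat_lit 122) (nat_lit 110)))))) (PT.nd (nat_lit 36036) (PT.nd (nat_lit 35802) (PT.nd (nat_lit 78) (PT.lf (nat_lit 4788) (nat_lit 6) (nat_lit 63) (nat_lit 0) (nat_lit 129) (nat_lit 122) (nat_lit 109)) (PT.lf (nat_lit 4332) (nat_lit 6) (nat_lit 57) (nat_lit 0) (nat_lit 130) (nat_lit 122) (nat_lit 108))) (PT.nd (nat_lit 78) (PT.lf (nat_lit 4028) (nat_lit 6) (nat_lit 53) (nat_lit 5) (nat_lit 107) (nat_lit 123) (nat_lit 130)) (PT.nd (nat_lit 78) (PT.lf (nat_lit 4408) (nat_lit 6) (nat_lit 58) (nat_lit 5) (nat_lit 108) (nat_lit 123) (nat_lit 129)) (PT.lf (nat_lit 4864) (nat_lit 6) (nat_lit 64) (nat_lit 5) (nat_lit 109) (nat_lit 123) (nat_lit 128))))) (PT.nd (nat_lit 234) (PT.nd (nat_lit 78) (PT.lf (nat_lit 5244) (nat_lit 6) (nat_lit 69) (nat_lit 5) (nat_lit 110) (nat_lit 123) (nat_lit 127)) (PT.nd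 (nat_lit 78) (PT.lf (nat_lit 6004) (nat_lit 6) (nat_lit 79) (nat_lit 5) (nat_lit 111) (nat_lit 123) (nat_lit 126)) (PT.lf (nat_lit 6688) (nat_lit 6) (nat_lit 88) (nat_lit 5) (nat_lit 112) (nat_lit 123) (nat_lit 125)))) (PT.nd (nat_lit 78) (PT.lf (nat_lit 7296) (nat_lit 6) (nat_lit 96) (nat_lit 5) (nat_lit 113) (nat_lit 123) (nat_lit 124)) (PT.nd (nat_lit 78) (PT.lf (nat_lit 7828) (nat_lit 3) (nat_lit 103) (nat_lit 4) (nat_lit 114) (nat_lit 123) (nat_lit 123)) (PT.lf (nat_lit 8208) (nat_lit 6) (nat_lit 108) (nat_lit 4) (nat_lit 115) (nat_lit 123) (nat_lit 122))))))))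
noncomputable def pc8 : PT := (PT.nd (nat_lit 37050) (PT.nd (nat_lit 780) (PT.nd (nat_lit 390) (PT.nd (nat_lit 156) (PT.nd (nat_lit 78) (PT.lf (nat_lit 8512) (nat_lit 6) (nat_lit 112) (nat_lit 4) (nat_lit 116) (nat_lit 123) (nat_lit 121)) (PT.lf (nat_lit 8740) (nat_lit 6) (nat_lit 115) (nat_lit 4) (nat_lit 117) (nat_lit 123) (nat_lit 120))) (PT.nd (nat_lit 78) (PT.lf (nat_lit 8664) (nat_lit 6) (nat_lit 114) (nat_lit 4) (nat_lit 118) (nat_lit 123) (nat_lit 119)) (PT.nd (nat_lit 78) (PT.lf (nat_lit 8664) (nat_lit 6) (nat_lit 114) (nat_lit 2) (nat_lit 119) (nat_lit 123) (nat_lit 118)) (PT.lf (nat_lit 8740) (nat_lit 6) (nat_lit 115) (nat_lit 2) (nat_lit 120) (nat_lit 123) (nat_lit 117))))) (PT.nd (nat_lit 156) (PT.nd (nat_lit 78) (PT.lf (nat_lit 8512) (nat_lit 6) (nat_lit 112) (nat_lit 2) (nat_lit 121) (nat_lit 123) (nat_lit 116)) (PT.lf (nat_lit 8208) (nat_lit 6) (nat_lit 108) (nat_lit 2) (nat_lit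 122) (nat_lit 123) (nat_lit 115))) (PT.nd (nat_lit 78) (PT.lf (nat_lit 7828) (nat_lit 3) (nat_lit 103) (nat_lit 0) (nat_lit 123) (nat_lit 123) (nat_lit 114)) (PT.nd (nat_lit 78) (PT.lf (nat_lit 7296) (nat_lit 6) (nat_lit 96) (nat_lit 0) (nat_lit 124) (nat_lit 123) (nat_lit 113)) (PT.lf (nat_lit 6688) (nat_lit 6) (nat_lit 88) (nat_lit 0) (nat_lit 125) (nat_lit 123) (nat_lit 112)))))) (PT.nd (nat_lit 35880) (PT.nd (nat_lit 156) (PT.nd (nat_lit 78) (PT.lf (nat_lit 6004) (nat_lit 6) (nat_lit 79) (nat_lit 0) (nat_lit 126) (nat_lit 123) (nat_lit 111)) (PT.lf (nat_lit 5244) (nat_lit 6) (nat_lit 69) (nat_lit 0) (nat_lit 127) (nat_lit 123) (nat_lit 110))) (PT.nd (nat_lit 78) (PT.lf (nat_lit 4864) (nat_lit 6) (nat_lit 64) (nat_lit 0) (nat_lit 128) (nat_lit 123) (nat_lit 109)) (PT.nd (nat_lit 78) (PT.lf (nat_lit 4408) (nat_lit 6) (nat_lit 58) (nat_lit 0) (nat_lit 129) (nat_lit 123) (nat_lit 108)) (PT.lf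 (nat_lit 4028) (nat_lit 6) (nat_lit 53) (nat_lit 0) (nat_lit 130) (nat_lit 123) (nat_lit 107))))) (PT.nd (nat_lit 156) (PT.nd (nat_lit 78) (PT.lf (nat_lit 3420) (nat_lit 6) (nat_lit 45) (nat_lit 5) (nat_lit 105) (nat_lit 124) (nat_lit 131)) (PT.lf (nat_lit 3724) (nat_lit 6) (nat_lit 49) (nat_lit 5) (nat_lit 106) (nat_lit 124) (nat_lit 130))) (PT.nd (nat_lit 78) (PT.lf (nat_lit 4104) (nat_lit 6) (nat_lit 54) (nat_lit 5) (nat_lit 107) (nat_lit 124) (nat_lit 129)) (PT.nd (nat_lit 78) (PT.lf (nat_lit 4484) (nat_lit 6) (nat_lit 59) (nat_lit 5) (nat_lit 108) (nat_lit 124) (nat_lit 128)) (PT.lf (nat_lit 4940) (nat_lit 6) (nat_lit 65) (nat_lit 5) (nat_lit 109) (nat_lit 124) (nat_lit 127))))))) (PT.nd (nat_lit 780) (PT.nd (nat_lit 390) (PT.nd (nat_lit 156) (PT.nd (nat_lit 78) (PT.lf (nat_lit 5320) (nat_lit 6) (nat_lit 70) (nat_lit 5) (nat_lit 110) (nat_lit 124) (nat_lit 126)) (PT.lf (nat_lit 6080)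 (nat_lit 6) (nat_lit 80) (nat_lit 5) (nat_lit 111) (nat_lit 124) (nat_lit 125))) (PT.nd (nat_lit 78) (PT.lf (nat_lit 6764) (nat_lit 3) (nat_lit 89) (nat_lit 4) (nat_lit 112) (nat_lit 124) (nat_lit 124)) (PT.nd (nat_lit 78) (PT.lf (nat_lit 7296) (nat_lit 6) (nat_lit 96) (nat_lit 4) (nat_lit 113) (nat_lit 124) (nat_lit 123)) (PT.lf (nat_lit 7752) (nat_lit 6) (nat_lit 102) (nat_lit 4) (nat_lit 114) (nat_lit 124) (nat_lit 122))))) (PT.nd (nat_lit 156) (PT.nd (nat_lit 78) (PT.lf (nat_lit 8132) (nat_lit 6) (nat_lit 107) (nat_lit 4) (nat_lit 115) (nat_lit 124) (nat_lit 121)) (PT.lf (nat_lit 8436) (nat_lit 6) (nat_lit 111) (nat_lit 4) (nat_lit 116) (nat_lit 124) (nat_lit 120))) (PT.nd (nat_lit 78) (PT.lf (nat_lit 8360) (nat_lit 6) (nat_lit 110) (nat_lit 4) (nat_lit 117) (nat_lit 124) (nat_lit 119)) (PT.nd (nat_lit 78) (PT.lf (nat_lit 8284) (nat_lit 3) (nat_lit 109) (nat_lit 2) (nat_lit 118) (nat_lit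 124) (nat_lit 118)) (PT.lf (nat_lit 8360) (nat_lit 6) (nat_lit 110) (nat_lit 2) (nat_lit 119) (nat_lit 124) (nat_lit 117)))))) (PT.nd (nat_lit 390) (PT.nd (nat_lit 156) (PT.nd (nat_lit 78) (PT.lf (nat_lit 8436) (nat_lit 6) (nat_lit 111) (nat_lit 2) (nat_lit 120) (nat_lit 124) (nat_lit 116)) (PT.lf (nat_lit 8132) (nat_lit 6) (nat_lit 107) (nat_lit 2) (nat_lit 121) (nat_lit 124) (nat_lit 115))) (PT.nd (nat_lit 78) (PT.lf (nat_lit 7752) (nat_lit 6) (nat_lit 102) (nat_lit 2) (nat_lit 122) (nat_lit 124) (nat_lit 114)) (PT.nd (nat_lit 78) (PT.lf (nat_lit 7296) (nat_lit 6) (nat_lit 96) (nat_lit 2) (nat_lit 123) (nat_lit 124) (nat_lit 113)) (PT.lf (nat_lit 6764) (nat_lit 3) (nat_lit 89) (nat_lit 0) (nat_lit 124) (nat_lit 124) (nat_lit 112))))) (PT.nd (nat_lit 234) (PT.nd (nat_lit 78) (PT.lf (nat_lit 6080) (nat_lit 6) (nat_lit 80) (nat_lit 0) (nat_lit 125) (nat_lit 124) (nat_lit 111)) (PT.nd (nat_lit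 78) (PT.lf (nat_lit 5320) (nat_lit 6) (nat_lit 70) (nat_lit 0) (nat_lit 126) (nat_lit 124) (nat_lit 110)) (PT.lf (nat_lit 4940) (nat_lit 6) (nat_lit 65) (nat_lit 0) (nat_lit 127) (nat_lit 124) (nat_lit 109)))) (PT.nd (nat_lit 78) (PT.lf (nat_lit 4484) (nat_lit 6) (nat_lit 59) (nat_lit 0) (nat_lit 128) (nat_lit 124) (nat_lit 108)) (PT.nd (nat_lit 78) (PT.lf (nat_lit 4104) (nat_lit 6) (nat_lit 54) (nat_lit 0) (nat_lit 129) (nat_lit 124) (nat_lit 107)) (PT.lf (nat_lit 3724) (nat_lit 6) (nat_lit 49) (nat_lit 0) (nat_lit 130) (nat_lit 124) (nat_lit 106))))))))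
noncomputable def pc9 : PT := (PT.nd (nat_lit 36894) (PT.nd (nat_lit 36114) (PT.nd (nat_lit 35724) (PT.nd (nat_lit 35490) (PT.nd (nat_lit 35412) (PT.lf (nat_lit 3420) (nat_lit 6) (nat_lit 45) (nat_lit 0) (nat_lit 131) (nat_lit 124) (nat_lit 105)) (PT.lf (nat_lit 3116) (nat_lit 6) (nat_lit 41) (nat_lit 5) (nat_lit 104) (nat_lit 125) (nat_lit 131))) (PT.nd (nat_lit 78) (PT.lf (nat_lit 3496) (nat_lit 6) (nat_lit 46) (nat_lit 5) (nat_lit 105) (nat_lit 125) (nat_lit 130)) (PT.nd (nat_lit 78) (PT.lf (nat_lit 3800) (nat_lit 6) (nat_lit 50) (nat_lit 5) (nat_lit 106) (nat_lit 125) (nat_lit 129)) (PT.lf (nat_lit 4180) (nat_lit 6) (nat_lit 55) (nat_lit 5) (nat_lit 107) (nat_lit 125) (nat_lit 128))))) (PT.nd (nat_lit 156) (PT.nd (nat_lit 78) (PT.lf (nat_lit 4560) (nat_lit 6) (nat_lit 60) (nat_lit 5) (nat_lit 108) (nat_lit 125) (nat_lit 127)) (PT.lf (nat_lit 5016) (nat_lit 6) (nat_lit 66) (nat_lit 5)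 (nat_lit 109) (nat_lit 125) (nat_lit 126))) (PT.nd (nat_lit 78) (PT.lf (nat_lit 5396) (nat_lit 3) (nat_lit 71) (nat_lit 4) (nat_lit 110) (nat_lit 125) (nat_lit 125)) (PT.nd (nat_lit 78) (PT.lf (nat_lit 6080) (nat_lit 6) (nat_lit 80) (nat_lit 4) (nat_lit 111) (nat_lit 125) (nat_lit 124)) (PT.lf (nat_lit 6688) (nat_lit 6) (nat_lit 88) (nat_lit 4) (nat_lit 112) (nat_lit 125) (nat_lit 123)))))) (PT.nd (nat_lit 390) (PT.nd (nat_lit 156) (PT.nd (nat_lit 78) (PT.lf (nat_lit 7220) (nat_lit 6) (nat_lit 95) (nat_lit 4) (nat_lit 113) (nat_lit 125) (nat_lit 122)) (PT.lf (nat_lit 7676) (nat_lit 6) (nat_lit 101) (nat_lit 4) (nat_lit 114) (nat_lit 125) (nat_lit 121))) (PT.nd (nat_lit 78) (PT.lf (nat_lit 8056) (nat_lit 6) (nat_lit 106) (nat_lit 4) (nat_lit 115) (nat_lit 125) (nat_lit 120)) (PT.nd (nat_lit 78) (PT.lf (nat_lit 7980) (nat_lit 6) (nat_lit 105) (nat_lit 4) (nat_lit 116) (nat_lit 125) (nat_lit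 119)) (PT.lf (nat_lit 7904) (nat_lit 6) (nat_lit 104) (nat_lit 4) (nat_lit 117) (nat_lit 125) (nat_lit 118))))) (PT.nd (nat_lit 156) (PT.nd (nat_lit 78) (PT.lf (nat_lit 7904) (nat_lit 6) (nat_lit 104) (nat_lit 2) (nat_lit 118) (nat_lit 125) (nat_lit 117)) (PT.lf (nat_lit 7980) (nat_lit 6) (nat_lit 105) (nat_lit 2) (nat_lit 119) (nat_lit 125) (nat_lit 116))) (PT.nd (nat_lit 78) (PT.lf (nat_lit 8056) (nat_lit 6) (nat_lit 106) (nat_lit 2) (nat_lit 120) (nat_lit 125) (nat_lit 115)) (PT.nd (nat_lit 78) (PT.lf (nat_lit 7676) (nat_lit 6) (nat_lit 101) (nat_lit 2) (nat_lit 121) (nat_lit 125) (nat_lit 114)) (PT.lf (nat_lit 7220) (nat_lit 6) (nat_lit 95) (nat_lit 2) (nat_lit 122) (nat_lit 125) (nat_lit 113))))))) (PT.nd (nat_lit 36036) (PT.nd (nat_lit 390) (PT.nd (nat_lit 156) (PT.nd (nat_lit 78) (PT.lf (nat_lit 6688) (nat_lit 6) (nat_lit 88) (nat_lit 2) (nat_lit 123) (nat_lit 125) (nat_lit 112))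 (PT.lf (nat_lit 6080) (nat_lit 6) (nat_lit 80) (nat_lit 2) (nat_lit 124) (nat_lit 125) (nat_lit 111))) (PT.nd (nat_lit 78) (PT.lf (nat_lit 5396) (nat_lit 3) (nat_lit 71) (nat_lit 0) (nat_lit 125) (nat_lit 125) (nat_lit 110)) (PT.nd (nat_lit 78) (PT.lf (nat_lit 5016) (nat_lit 6) (nat_lit 66) (nat_lit 0) (nat_lit 126) (nat_lit 125) (nat_lit 109)) (PT.lf (nat_lit 4560) (nat_lit 6) (nat_lit 60) (nat_lit 0) (nat_lit 127) (nat_lit 125) (nat_lit 108))))) (PT.nd (nat_lit 156) (PT.nd (nat_lit 78) (PT.lf (nat_lit 4180) (nat_lit 6) (nat_lit 55) (nat_lit 0) (nat_lit 128) (nat_lit 125) (nat_lit 107)) (PT.lf (nat_lit 3800) (nat_lit 6) (nat_lit 50) (nat_lit 0) (nat_lit 129) (nat_lit 125) (nat_lit 106))) (PT.nd (nat_lit 78) (PT.lf (nat_lit 3496) (nat_lit 6) (nat_lit 46) (nat_lit 0) (nat_lit 130) (nat_lit 125) (nat_lit 105)) (PT.nd (nat_lit 35334) (PT.lf (nat_lit 3116) (nat_lit 6) (nat_lit 41) (nat_lit 0)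 (nat_lit 131) (nat_lit 125) (nat_lit 104)) (PT.lf (nat_lit 2888) (nat_lit 6) (nat_lit 38) (nat_lit 5) (nat_lit 103) (nat_lit 126) (nat_lit 131)))))) (PT.nd (nat_lit 390) (PT.nd (nat_lit 156) (PT.nd (nat_lit 78) (PT.lf (nat_lit 3192) (nat_lit 6) (nat_lit 42) (nat_lit 5) (nat_lit 104) (nat_lit 126) (nat_lit 130)) (PT.lf (nat_lit 3572) (nat_lit 6) (nat_lit 47) (nat_lit 5) (nat_lit 105) (nat_lit 126) (nat_lit 129))) (PT.nd (nat_lit 78) (PT.lf (nat_lit 3876) (nat_lit 6) (nat_lit 51) (nat_lit 5) (nat_lit 106) (nat_lit 126) (nat_lit 128)) (PT.nd (nat_lit 78) (PT.lf (nat_lit 4256) (nat_lit 6) (nat_lit 56) (nat_lit 5) (nat_lit 107) (nat_lit 126) (nat_lit 127)) (PT.lf (nat_lit 4636) (nat_lit 3) (nat_lit 61) (nat_lit 4) (nat_lit 108) (nat_lit 126) (nat_lit 126))))) (PT.nd (nat_lit 234) (PT.nd (nat_lit 78) (PT.lf (nat_lit 5016) (nat_lit 6) (nat_lit 66) (nat_lit 4) (nat_lit 109) (nat_lit 126) (nat_lit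 125)) (PT.nd (nat_lit 78) (PT.lf (nat_lit 5320) (nat_lit 6) (nat_lit 70) (nat_lit 4) (nat_lit 110) (nat_lit 126) (nat_lit 124)) (PT.lf (nat_lit 6004) (nat_lit 6) (nat_lit 79) (nat_lit 4) (nat_lit 111) (nat_lit 126) (nat_lit 123)))) (PT.nd (nat_lit 78) (PT.lf (nat_lit 6612) (nat_lit 6) (nat_lit 87) (nat_lit 4) (nat_lit 112) (nat_lit 126) (nat_lit 122)) (PT.nd (nat_lit 78) (PT.lf (nat_lit 7144) (nat_lit 6) (nat_lit 94) (nat_lit 4) (nat_lit 113) (nat_lit 126) (nat_lit 121)) (PT.lf (nat_lit 7600) (nat_lit 6) (nat_lit 100) (nat_lit 4) (nat_lit 114) (nat_lit 126) (nat_lit 120))))))))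
noncomputable def pc10 : PT := (PT.nd (nat_lit 36660) (PT.nd (nat_lit 780) (PT.nd (nat_lit 390) (PT.nd (nat_lit 156) (PT.nd (nat_lit 78) (PT.lf (nat_lit 7524) (nat_lit 6) (nat_lit 99) (nat_lit 4) (nat_lit 115) (nat_lit 126) (nat_lit 119)) (PT.lf (nat_lit 7448) (nat_lit 6) (nat_lit 98) (nat_lit 4) (nat_lit 116) (nat_lit 126) (nat_lit 118))) (PT.nd (nat_lit 78) (PT.lf (nat_lit 7372) (nat_lit 3) (nat_lit 97) (nat_lit 2) (nat_lit 117) (nat_lit 126) (nat_lit 117)) (PT.nd (nat_lit 78) (PT.lf (nat_lit 7448) (nat_lit 6) (nat_lit 98) (nat_lit 2) (nat_lit 118) (nat_lit 126) (nat_lit 116)) (PT.lf (nat_lit 7524) (nat_lit 6) (nat_lit 99) (nat_lit 2) (nat_lit 119) (nat_lit 126) (nat_lit 115))))) (PT.nd (nat_lit 156) (PT.nd (nat_lit 78) (PT.lf (nat_lit 7600) (nat_lit 6) (nat_lit 100) (nat_lit 2) (nat_lit 120) (nat_lit 126) (nat_lit 114)) (PT.lf (nat_lit 7144) (nat_lit 6) (nat_lit 94) (nat_lit 2) (nat_lit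 121) (nat_lit 126) (nat_lit 113))) (PT.nd (nat_lit 78) (PT.lf (nat_lit 6612) (nat_lit 6) (nat_lit 87) (nat_lit 2) (nat_lit 122) (nat_lit 126) (nat_lit 112)) (PT.nd (nat_lit 78) (PT.lf (nat_lit 6004) (nat_lit 6) (nat_lit 79) (nat_lit 2) (nat_lit 123) (nat_lit 126) (nat_lit 111)) (PT.lf (nat_lit 5320) (nat_lit 6) (nat_lit 70) (nat_lit 2) (nat_lit 124) (nat_lit 126) (nat_lit 110)))))) (PT.nd (nat_lit 390) (PT.nd (nat_lit 156) (PT.nd (nat_lit 78) (PT.lf (nat_lit 5016) (nat_lit 6) (nat_lit 66) (nat_lit 2) (nat_lit 125) (nat_lit 126) (nat_lit 109)) (PT.lf (nat_lit 4636) (nat_lit 3) (nat_lit 61) (nat_lit 0) (nat_lit 126) (nat_lit 126) (nat_lit 108))) (PT.nd (nat_lit 78) (PT.lf (nat_lit 4256) (nat_lit 6) (nat_lit 56) (nat_lit 0) (nat_lit 127) (nat_lit 126) (nat_lit 107)) (PT.nd (nat_lit 78) (PT.lf (nat_lit 3876) (nat_lit 6) (nat_lit 51) (nat_lit 0) (nat_lit 128) (nat_lit 126) (nat_lit 106)) (PT.lf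 (nat_lit 3572) (nat_lit 6) (nat_lit 47) (nat_lit 0) (nat_lit 129) (nat_lit 126) (nat_lit 105))))) (PT.nd (nat_lit 35256) (PT.nd (nat_lit 78) (PT.lf (nat_lit 3192) (nat_lit 6) (nat_lit 42) (nat_lit 0) (nat_lit 130) (nat_lit 126) (nat_lit 104)) (PT.lf (nat_lit 2888) (nat_lit 6) (nat_lit 38) (nat_lit 0) (nat_lit 131) (nat_lit 126) (nat_lit 103))) (PT.nd (nat_lit 78) (PT.lf (nat_lit 2432) (nat_lit 6) (nat_lit 32) (nat_lit 5) (nat_lit 101) (nat_lit 127) (nat_lit 132)) (PT.nd (nat_lit 78) (PT.lf (nat_lit 2660) (nat_lit 6) (nat_lit 35) (nat_lit 5) (nat_lit 102) (nat_lit 127) (nat_lit 131)) (PT.lf (nat_lit 2964) (nat_lit 6) (nat_lit 39) (nat_lit 5) (nat_lit 103) (nat_lit 127) (nat_lit 130))))))) (PT.nd (nat_lit 780) (PT.nd (nat_lit 390) (PT.nd (nat_lit 156) (PT.nd (nat_lit 78) (PT.lf (nat_lit 3268) (nat_lit 6) (nat_lit 43) (nat_lit 5) (nat_lit 104) (nat_lit 127) (nat_lit 129)) (PT.lf (nat_lit 3648)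 (nat_lit 6) (nat_lit 48) (nat_lit 5) (nat_lit 105) (nat_lit 127) (nat_lit 128))) (PT.nd (nat_lit 78) (PT.lf (nat_lit 3952) (nat_lit 3) (nat_lit 52) (nat_lit 4) (nat_lit 106) (nat_lit 127) (nat_lit 127)) (PT.nd (nat_lit 78) (PT.lf (nat_lit 4256) (nat_lit 6) (nat_lit 56) (nat_lit 4) (nat_lit 107) (nat_lit 127) (nat_lit 126)) (PT.lf (nat_lit 4560) (nat_lit 6) (nat_lit 60) (nat_lit 4) (nat_lit 108) (nat_lit 127) (nat_lit 125))))) (PT.nd (nat_lit 156) (PT.nd (nat_lit 78) (PT.lf (nat_lit 4940) (nat_lit 6) (nat_lit 65) (nat_lit 4) (nat_lit 109) (nat_lit 127) (nat_lit 124)) (PT.lf (nat_lit 5244) (nat_lit 6) (nat_lit 69) (nat_lit 4) (nat_lit 110) (nat_lit 127) (nat_lit 123))) (PT.nd (nat_lit 78) (PT.lf (nat_lit 5928) (nat_lit 6) (nat_lit 78) (nat_lit 4) (nat_lit 111) (nat_lit 127) (nat_lit 122)) (PT.nd (nat_lit 78) (PT.lf (nat_lit 6536) (nat_lit 6) (nat_lit 86) (nat_lit 4) (nat_lit 112) (nat_lit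 127) (nat_lit 121)) (PT.lf (nat_lit 7068) (nat_lit 6) (nat_lit 93) (nat_lit 4) (nat_lit 113) (nat_lit 127) (nat_lit 120)))))) (PT.nd (nat_lit 390) (PT.nd (nat_lit 156) (PT.nd (nat_lit 78) (PT.lf (nat_lit 6992) (nat_lit 6) (nat_lit 92) (nat_lit 4) (nat_lit 114) (nat_lit 127) (nat_lit 119)) (PT.lf (nat_lit 6916) (nat_lit 6) (nat_lit 91) (nat_lit 4) (nat_lit 115) (nat_lit 127) (nat_lit 118))) (PT.nd (nat_lit 78) (PT.lf (nat_lit 6840) (nat_lit 6) (nat_lit 90) (nat_lit 4) (nat_lit 116) (nat_lit 127) (nat_lit 117)) (PT.nd (nat_lit 78) (PT.lf (nat_lit 6840) (nat_lit 6) (nat_lit 90) (nat_lit 2) (nat_lit 117) (nat_lit 127) (nat_lit 116)) (PT.lf (nat_lit 6916) (nat_lit 6) (nat_lit 91) (nat_lit 2) (nat_lit 118) (nat_lit 127) (nat_lit 115))))) (PT.nd (nat_lit 234) (PT.nd (nat_lit 78) (PT.lf (nat_lit 6992) (nat_lit 6) (nat_lit 92) (nat_lit 2) (nat_lit 119) (nat_lit 127) (nat_lit 114)) (PT.nd (nat_lit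 78) (PT.lf (nat_lit 7068) (nat_lit 6) (nat_lit 93) (nat_lit 2) (nat_lit 120) (nat_lit 127) (nat_lit 113)) (PT.lf (nat_lit 6536) (nat_lit 6) (nat_lit 86) (nat_lit 2) (nat_lit 121) (nat_lit 127) (nat_lit 112)))) (PT.nd (nat_lit 78) (PT.lf (nat_lit 5928) (nat_lit 6) (nat_lit 78) (nat_lit 2) (nat_lit 122) (nat_lit 127) (nat_lit 111)) (PT.nd (nat_lit 78) (PT.lf (nat_lit 5244) (nat_lit 6) (nat_lit 69) (nat_lit 2) (nat_lit 123) (nat_lit 127) (nat_lit 110)) (PT.lf (nat_lit 4940) (nat_lit 6) (nat_lit 65) (nat_lit 2) (nat_lit 124) (nat_lit 127) (nat_lit 109))))))))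
noncomputable def pc11 : PT := (PT.nd (nat_lit 36504) (PT.nd (nat_lit 35724) (PT.nd (nat_lit 390) (PT.nd (nat_lit 156) (PT.nd (nat_lit 78) (PT.lf (nat_lit 4560) (nat_lit 6) (nat_lit 60) (nat_lit 2) (nat_lit 125) (nat_lit 127) (nat_lit 108)) (PT.lf (nat_lit 4256) (nat_lit 6) (nat_lit 56) (nat_lit 2) (nat_lit 126) (nat_lit 127) (nat_lit 107))) (PT.nd (nat_lit 78) (PT.lf (nat_lit 3952) (nat_lit 3) (nat_lit 52) (nat_lit 0) (nat_lit 127) (nat_lit 127) (nat_lit 106)) (PT.nd (nat_lit 78) (PT.lf (nat_lit 3648) (nat_lit 6) (nat_lit 48) (nat_lit 0) (nat_lit 128) (nat_lit 127) (nat_lit 105)) (PT.lf (nat_lit 3268) (nat_lit 6) (nat_lit 43) (nat_lit 0) (nat_lit 129) (nat_lit 127) (nat_lit 104))))) (PT.nd (nat_lit 156) (PT.nd (nat_lit 78) (PT.lf (nat_lit 2964) (nat_lit 6) (nat_lit 39) (nat_lit 0) (nat_lit 130) (nat_lit 127) (nat_lit 103)) (PT.lf (nat_lit 2660) (nat_lit 6) (nat_lit 35) (nat_lit 0) (nat_lit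 131) (nat_lit 127) (nat_lit 102))) (PT.nd (nat_lit 35022) (PT.lf (nat_lit 2432) (nat_lit 6) (nat_lit 32) (nat_lit 0) (nat_lit 132) (nat_lit 127) (nat_lit 101)) (PT.nd (nat_lit 78) (PT.lf (nat_lit 2204) (nat_lit 6) (nat_lit 29) (nat_lit 5) (nat_lit 100) (nat_lit 128) (nat_lit 132)) (PT.lf (nat_lit 2508) (nat_lit 6) (nat_lit 33) (nat_lit 5) (nat_lit 101) (nat_lit 128) (nat_lit 131)))))) (PT.nd (nat_lit 390) (PT.nd (nat_lit 156) (PT.nd (nat_lit 78) (PT.lf (nat_lit 2736) (nat_lit 6) (nat_lit 36) (nat_lit 5) (nat_lit 102) (nat_lit 128) (nat_lit 130)) (PT.lf (nat_lit 3040) (nat_lit 6) (nat_lit 40) (nat_lit 5) (nat_lit 103) (nat_lit 128) (nat_lit 129))) (PT.nd (nat_lit 78) (PT.lf (nat_lit 3344) (nat_lit 3) (nat_lit 44) (nat_lit 4) (nat_lit 104) (nat_lit 128) (nat_lit 128)) (PT.nd (nat_lit 78) (PT.lf (nat_lit 3648) (nat_lit 6) (nat_lit 48) (nat_lit 4) (nat_lit 105) (nat_lit 128) (nat_lit 127)) (PT.lf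 (nat_lit 3876) (nat_lit 6) (nat_lit 51) (nat_lit 4) (nat_lit 106) (nat_lit 128) (nat_lit 126))))) (PT.nd (nat_lit 156) (PT.nd (nat_lit 78) (PT.lf (nat_lit 4180) (nat_lit 6) (nat_lit 55) (nat_lit 4) (nat_lit 107) (nat_lit 128) (nat_lit 125)) (PT.lf (nat_lit 4484) (nat_lit 6) (nat_lit 59) (nat_lit 4) (nat_lit 108) (nat_lit 128) (nat_lit 124))) (PT.nd (nat_lit 78) (PT.lf (nat_lit 4864) (nat_lit 6) (nat_lit 64) (nat_lit 4) (nat_lit 109) (nat_lit 128) (nat_lit 123)) (PT.nd (nat_lit 78) (PT.lf (nat_lit 5168) (nat_lit 6) (nat_lit 68) (nat_lit 4) (nat_lit 110) (nat_lit 128) (nat_lit 122)) (PT.lf (nat_lit 5852) (nat_lit 6) (nat_lit 77) (nat_lit 4) (nat_lit 111) (nat_lit 128) (nat_lit 121))))))) (PT.nd (nat_lit 780) (PT.nd (nat_lit 390) (PT.nd (nat_lit 156) (PT.nd (nat_lit 78) (PT.lf (nat_lit 6460) (nat_lit 6) (nat_lit 85) (nat_lit 4) (nat_lit 112) (nat_lit 128) (nat_lit 120)) (PT.lf (nat_lit 6384)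 (nat_lit 6) (nat_lit 84) (nat_lit 4) (nat_lit 113) (nat_lit 128) (nat_lit 119))) (PT.nd (nat_lit 78) (PT.lf (nat_lit 6308) (nat_lit 6) (nat_lit 83) (nat_lit 4) (nat_lit 114) (nat_lit 128) (nat_lit 118)) (PT.nd (nat_lit 78) (PT.lf (nat_lit 6232) (nat_lit 6) (nat_lit 82) (nat_lit 4) (nat_lit 115) (nat_lit 128) (nat_lit 117)) (PT.lf (nat_lit 6156) (nat_lit 3) (nat_lit 81) (nat_lit 2) (nat_lit 116) (nat_lit 128) (nat_lit 116))))) (PT.nd (nat_lit 156) (PT.nd (nat_lit 78) (PT.lf (nat_lit 6232) (nat_lit 6) (nat_lit 82) (nat_lit 2) (nat_lit 117) (nat_lit 128) (nat_lit 115)) (PT.lf (nat_lit 6308) (nat_lit 6) (nat_lit 83) (nat_lit 2) (nat_lit 118) (nat_lit 128) (nat_lit 114))) (PT.nd (nat_lit 78) (PT.lf (nat_lit 6384) (nat_lit 6) (nat_lit 84) (nat_lit 2) (nat_lit 119) (nat_lit 128) (nat_lit 113)) (PT.nd (nat_lit 78) (PT.lf (nat_lit 6460) (nat_lit 6) (nat_lit 85) (nat_lit 2) (nat_lit 120) (nat_lit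 128) (nat_lit 112)) (PT.lf (nat_lit 5852) (nat_lit 6) (nat_lit 77) (nat_lit 2) (nat_lit 121) (nat_lit 128) (nat_lit 111)))))) (PT.nd (nat_lit 390) (PT.nd (nat_lit 156) (PT.nd (nat_lit 78) (PT.lf (nat_lit 5168) (nat_lit 6) (nat_lit 68) (nat_lit 2) (nat_lit 122) (nat_lit 128) (nat_lit 110)) (PT.lf (nat_lit 4864) (nat_lit 6) (nat_lit 64) (nat_lit 2) (nat_lit 123) (nat_lit 128) (nat_lit 109))) (PT.nd (nat_lit 78) (PT.lf (nat_lit 4484) (nat_lit 6) (nat_lit 59) (nat_lit 2) (nat_lit 124) (nat_lit 128) (nat_lit 108)) (PT.nd (nat_lit 78) (PT.lf (nat_lit 4180) (nat_lit 6) (nat_lit 55) (nat_lit 2) (nat_lit 125) (nat_lit 128) (nat_lit 107)) (PT.lf (nat_lit 3876) (nat_lit 6) (nat_lit 51) (nat_lit 2) (nat_lit 126) (nat_lit 128) (nat_lit 106))))) (PT.nd (nat_lit 234) (PT.nd (nat_lit 78) (PT.lf (nat_lit 3648) (nat_lit 6) (nat_lit 48) (nat_lit 2) (nat_lit 127) (nat_lit 128) (nat_lit 105)) (PT.nd (nat_lit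 78) (PT.lf (nat_lit 3344) (nat_lit 3) (nat_lit 44) (nat_lit 0) (nat_lit 128) (nat_lit 128) (nat_lit 104)) (PT.lf (nat_lit 3040) (nat_lit 6) (nat_lit 40) (nat_lit 0) (nat_lit 129) (nat_lit 128) (nat_lit 103)))) (PT.nd (nat_lit 78) (PT.lf (nat_lit 2736) (nat_lit 6) (nat_lit 36) (nat_lit 0) (nat_lit 130) (nat_lit 128) (nat_lit 102)) (PT.nd (nat_lit 78) (PT.lf (nat_lit 2508) (nat_lit 6) (nat_lit 33) (nat_lit 0) (nat_lit 131) (nat_lit 128) (nat_lit 101)) (PT.lf (nat_lit 2204) (nat_lit 6) (nat_lit 29) (nat_lit 0) (nat_lit 132) (nat_lit 128) (nat_lit 100))))))))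
noncomputable def pc12 : PT := (PT.nd (nat_lit 1560) (PT.nd (nat_lit 780) (PT.nd (nat_lit 390) (PT.nd (nat_lit 156) (PT.nd (nat_lit 78) (PT.lf (nat_lit 1824) (nat_lit 6) (nat_lit 24) (nat_lit 5) (nat_lit 98) (nat_lit 129) (nat_lit 133)) (PT.lf (nat_lit 2052) (nat_lit 6) (nat_lit 27) (nat_lit 5) (nat_lit 99) (nat_lit 129) (nat_lit 132))) (PT.nd (nat_lit 78) (PT.lf (nat_lit 2280) (nat_lit 6) (nat_lit 30) (nat_lit 5) (nat_lit 100) (nat_lit 129) (nat_lit 131)) (PT.nd (nat_lit 78) (PT.lf (nat_lit 2584) (nat_lit 6) (nat_lit 34) (nat_lit 5) (nat_lit 101) (nat_lit 129) (nat_lit 130)) (PT.lf (nat_lit 2812) (nat_lit 3) (nat_lit 37) (nat_lit 4) (nat_lit 102) (nat_lit 129) (nat_lit 129))))) (PT.nd (nat_lit 156) (PT.nd (nat_lit 78) (PT.lf (nat_lit 3040) (nat_lit 6) (nat_lit 40) (nat_lit 4) (nat_lit 103) (nat_lit 129) (nat_lit 128)) (PT.lf (nat_lit 3268) (nat_lit 6) (nat_lit 43) (nat_lit 4) (nat_lit 104)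 (nat_lit 129) (nat_lit 127))) (PT.nd (nat_lit 78) (PT.lf (nat_lit 3572) (nat_lit 6) (nat_lit 47) (nat_lit 4) (nat_lit 105) (nat_lit 129) (nat_lit 126)) (PT.nd (nat_lit 78) (PT.lf (nat_lit 3800) (nat_lit 6) (nat_lit 50) (nat_lit 4) (nat_lit 106) (nat_lit 129) (nat_lit 125)) (PT.lf (nat_lit 4104) (nat_lit 6) (nat_lit 54) (nat_lit 4) (nat_lit 107) (nat_lit 129) (nat_lit 124)))))) (PT.nd (nat_lit 390) (PT.nd (nat_lit 156) (PT.nd (nat_lit 78) (PT.lf (nat_lit 4408) (nat_lit 6) (nat_lit 58) (nat_lit 4) (nat_lit 108) (nat_lit 129) (nat_lit 123)) (PT.lf (nat_lit 4788) (nat_lit 6) (nat_lit 63) (nat_lit 4) (nat_lit 109) (nat_lit 129) (nat_lit 122))) (PT.nd (nat_lit 78) (PT.lf (nat_lit 5092) (nat_lit 6) (nat_lit 67) (nat_lit 4) (nat_lit 110) (nat_lit 129) (nat_lit 121)) (PT.nd (nat_lit 78) (PT.lf (nat_lit 5776) (nat_lit 6) (nat_lit 76) (nat_lit 4) (nat_lit 111) (nat_lit 129) (nat_lit 120)) (PT.lf (nat_lit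 5700) (nat_lit 6) (nat_lit 75) (nat_lit 4) (nat_lit 112) (nat_lit 129) (nat_lit 119))))) (PT.nd (nat_lit 156) (PT.nd (nat_lit 78) (PT.lf (nat_lit 5624) (nat_lit 6) (nat_lit 74) (nat_lit 4) (nat_lit 113) (nat_lit 129) (nat_lit 118)) (PT.lf (nat_lit 5548) (nat_lit 6) (nat_lit 73) (nat_lit 4) (nat_lit 114) (nat_lit 129) (nat_lit 117))) (PT.nd (nat_lit 78) (PT.lf (nat_lit 5472) (nat_lit 6) (nat_lit 72) (nat_lit 4) (nat_lit 115) (nat_lit 129) (nat_lit 116)) (PT.nd (nat_lit 78) (PT.lf (nat_lit 5472) (nat_lit 6) (nat_lit 72) (nat_lit 2) (nat_lit 116) (nat_lit 129) (nat_lit 115)) (PT.lf (nat_lit 5548) (nat_lit 6) (nat_lit 73) (nat_lit 2) (nat_lit 117) (nat_lit 129) (nat_lit 114))))))) (PT.nd (nat_lit 780) (PT.nd (nat_lit 390) (PT.nd (nat_lit 156) (PT.nd (nat_lit 78) (PT.lf (nat_lit 5624) (nat_lit 6) (nat_lit 74) (nat_lit 2) (nat_lit 118) (nat_lit 129) (nat_lit 113)) (PT.lf (nat_lit 5700) (nat_lit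 6) (nat_lit 75) (nat_lit 2) (nat_lit 119) (nat_lit 129) (nat_lit 112))) (PT.nd (nat_lit 78) (PT.lf (nat_lit 5776) (nat_lit 6) (nat_lit 76) (nat_lit 2) (nat_lit 120) (nat_lit 129) (nat_lit 111)) (PT.nd (nat_lit 78) (PT.lf (nat_lit 5092) (nat_lit 6) (nat_lit 67) (nat_lit 2) (nat_lit 121) (nat_lit 129) (nat_lit 110)) (PT.lf (nat_lit 4788) (nat_lit 6) (nat_lit 63) (nat_lit 2) (nat_lit 122) (nat_lit 129) (nat_lit 109))))) (PT.nd (nat_lit 156) (PT.nd (nat_lit 78) (PT.lf (nat_lit 4408) (nat_lit 6) (nat_lit 58) (nat_lit 2) (nat_lit 123) (nat_lit 129) (nat_lit 108)) (PT.lf (nat_lit 4104) (nat_lit 6) (nat_lit 54) (nat_lit 2) (nat_lit 124) (nat_lit 129) (nat_lit 107))) (PT.nd (nat_lit 78) (PT.lf (nat_lit 3800) (nat_lit 6) (nat_lit 50) (nat_lit 2) (nat_lit 125) (nat_lit 129) (nat_lit 106)) (PT.nd (nat_lit 78) (PT.lf (nat_lit 3572) (nat_lit 6) (nat_lit 47) (nat_lit 2) (nat_lit 126) (nat_lit 129) (nat_lit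 105)) (PT.lf (nat_lit 3268) (nat_lit 6) (nat_lit 43) (nat_lit 2) (nat_lit 127) (nat_lit 129) (nat_lit 104)))))) (PT.nd (nat_lit 390) (PT.nd (nat_lit 156) (PT.nd (nat_lit 78) (PT.lf (nat_lit 3040) (nat_lit 6) (nat_lit 40) (nat_lit 2) (nat_lit 128) (nat_lit 129) (nat_lit 103)) (PT.lf (nat_lit 2812) (nat_lit 3) (nat_lit 37) (nat_lit 0) (nat_lit 129) (nat_lit 129) (nat_lit 102))) (PT.nd (nat_lit 78) (PT.lf (nat_lit 2584) (nat_lit 6) (nat_lit 34) (nat_lit 0) (nat_lit 130) (nat_lit 129) (nat_lit 101)) (PT.nd (nat_lit 78) (PT.lf (nat_lit 2280) (nat_lit 6) (nat_lit 30) (nat_lit 0) (nat_lit 131) (nat_lit 129) (nat_lit 100)) (PT.lf (nat_lit 2052) (nat_lit 6) (nat_lit 27) (nat_lit 0) (nat_lit 132) (nat_lit 129) (nat_lit 99))))) (PT.nd (nat_lit 34866) (PT.nd (nat_lit 34710) (PT.lf (nat_lit 1824) (nat_lit 6) (nat_lit 24) (nat_lit 0) (nat_lit 133) (nat_lit 129) (nat_lit 98)) (PT.nd (nat_lit 78) (PT.lf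 (nat_lit 1672) (nat_lit 6) (nat_lit 22) (nat_lit 5) (nat_lit 97) (nat_lit 130) (nat_lit 133)) (PT.lf (nat_lit 1900) (nat_lit 6) (nat_lit 25) (nat_lit 5) (nat_lit 98) (nat_lit 130) (nat_lit 132)))) (PT.nd (nat_lit 78) (PT.lf (nat_lit 2128) (nat_lit 6) (nat_lit 28) (nat_lit 5) (nat_lit 99) (nat_lit 130) (nat_lit 131)) (PT.nd (nat_lit 78) (PT.lf (nat_lit 2356) (nat_lit 3) (nat_lit 31) (nat_lit 4) (nat_lit 100) (nat_lit 130) (nat_lit 130)) (PT.lf (nat_lit 2584) (nat_lit 6) (nat_lit 34) (nat_lit 4) (nat_lit 101) (nat_lit 130) (nat_lit 129))))))))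
noncomputable def pc13 : PT := (PT.nd (nat_lit 2418) (PT.nd (nat_lit 1638) (PT.nd (nat_lit 390) (PT.nd (nat_lit 156) (PT.nd (nat_lit 78) (PT.lf (nat_lit 2736) (nat_lit 6) (nat_lit 36) (nat_lit 4) (nat_lit 102) (nat_lit 130) (nat_lit 128)) (PT.lf (nat_lit 2964) (nat_lit 6) (nat_lit 39) (nat_lit 4) (nat_lit 103) (nat_lit 130) (nat_lit 127))) (PT.nd (nat_lit 78) (PT.lf (nat_lit 3192) (nat_lit 6) (nat_lit 42) (nat_lit 4) (nat_lit 104) (nat_lit 130) (nat_lit 126)) (PT.nd (nat_lit 78) (PT.lf (nat_lit 3496) (nat_lit 6) (nat_lit 46) (nat_lit 4) (nat_lit 105) (nat_lit 130) (nat_lit 125)) (PT.lf (nat_lit 3724) (nat_lit 6) (nat_lit 49) (nat_lit 4) (nat_lit 106) (nat_lit 130) (nat_lit 124))))) (PT.nd (nat_lit 156) (PT.nd (nat_lit 78) (PT.lf (nat_lit 4028) (nat_lit 6) (nat_lit 53) (nat_lit 4) (nat_lit 107) (nat_lit 130) (nat_lit 123)) (PT.lf (nat_lit 4332) (nat_lit 6) (nat_lit 57) (nat_lit 4) (nat_lit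 108) (nat_lit 130) (nat_lit 122))) (PT.nd (nat_lit 936) (PT.lf (nat_lit 4712) (nat_lit 6) (nat_lit 62) (nat_lit 4) (nat_lit 109) (nat_lit 130) (nat_lit 121)) (PT.nd (nat_lit 78) (PT.lf (nat_lit 4712) (nat_lit 6) (nat_lit 62) (nat_lit 2) (nat_lit 121) (nat_lit 130) (nat_lit 109)) (PT.lf (nat_lit 4332) (nat_lit 6) (nat_lit 57) (nat_lit 2) (nat_lit 122) (nat_lit 130) (nat_lit 108)))))) (PT.nd (nat_lit 390) (PT.nd (nat_lit 156) (PT.nd (nat_lit 78) (PT.lf (nat_lit 4028) (nat_lit 6) (nat_lit 53) (nat_lit 2) (nat_lit 123) (nat_lit 130) (nat_lit 107)) (PT.lf (nat_lit 3724) (nat_lit 6) (nat_lit 49) (nat_lit 2) (nat_lit 124) (nat_lit 130) (nat_lit 106))) (PT.nd (nat_lit 78) (PT.lf (nat_lit 3496) (nat_lit 6) (nat_lit 46) (nat_lit 2) (nat_lit 125) (nat_lit 130) (nat_lit 105)) (PT.nd (nat_lit 78) (PT.lf (nat_lit 3192) (nat_lit 6) (nat_lit 42) (nat_lit 2) (nat_lit 126) (nat_lit 130) (nat_lit 104)) (PT.lf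 (nat_lit 2964) (nat_lit 6) (nat_lit 39) (nat_lit 2) (nat_lit 127) (nat_lit 130) (nat_lit 103))))) (PT.nd (nat_lit 156) (PT.nd (nat_lit 78) (PT.lf (nat_lit 2736) (nat_lit 6) (nat_lit 36) (nat_lit 2) (nat_lit 128) (nat_lit 130) (nat_lit 102)) (PT.lf (nat_lit 2584) (nat_lit 6) (nat_lit 34) (nat_lit 2) (nat_lit 129) (nat_lit 130) (nat_lit 101))) (PT.nd (nat_lit 78) (PT.lf (nat_lit 2356) (nat_lit 3) (nat_lit 31) (nat_lit 0) (nat_lit 130) (nat_lit 130) (nat_lit 100)) (PT.nd (nat_lit 78) (PT.lf (nat_lit 2128) (nat_lit 6) (nat_lit 28) (nat_lit 0) (nat_lit 131) (nat_lit 130) (nat_lit 99)) (PT.lf (nat_lit 1900) (nat_lit 6) (nat_lit 25) (nat_lit 0) (nat_lit 132) (nat_lit 130) (nat_lit 98))))))) (PT.nd (nat_lit 35256) (PT.nd (nat_lit 34866) (PT.nd (nat_lit 34632) (PT.nd (nat_lit 34554) (PT.lf (nat_lit 1672) (nat_lit 6) (nat_lit 22) (nat_lit 0) (nat_lit 133) (nat_lit 130) (nat_lit 97)) (PT.lf (nat_lit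 1368) (nat_lit 6) (nat_lit 18) (nat_lit 5) (nat_lit 95) (nat_lit 131) (nat_lit 134))) (PT.nd (nat_lit 78) (PT.lf (nat_lit 1520) (nat_lit 6) (nat_lit 20) (nat_lit 5) (nat_lit 96) (nat_lit 131) (nat_lit 133)) (PT.nd (nat_lit 78) (PT.lf (nat_lit 1748) (nat_lit 6) (nat_lit 23) (nat_lit 5) (nat_lit 97) (nat_lit 131) (nat_lit 132)) (PT.lf (nat_lit 1976) (nat_lit 3) (nat_lit 26) (nat_lit 4) (nat_lit 98) (nat_lit 131) (nat_lit 131))))) (PT.nd (nat_lit 156) (PT.nd (nat_lit 78) (PT.lf (nat_lit 2128) (nat_lit 6) (nat_lit 28) (nat_lit 4) (nat_lit 99) (nat_lit 131) (nat_lit 130)) (PT.lf (nat_lit 2280) (nat_lit 6) (nat_lit 30) (nat_lit 4) (nat_lit 100) (nat_lit 131) (nat_lit 129))) (PT.nd (nat_lit 78) (PT.lf (nat_lit 2508) (nat_lit 6) (nat_lit 33) (nat_lit 4) (nat_lit 101) (nat_lit 131) (nat_lit 128)) (PT.nd (nat_lit 78) (PT.lf (nat_lit 2660) (nat_lit 6) (nat_lit 35) (nat_lit 4) (nat_lit 102) (nat_lit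 131) (nat_lit 127)) (PT.lf (nat_lit 2888) (nat_lit 6) (nat_lit 38) (nat_lit 4) (nat_lit 103) (nat_lit 131) (nat_lit 126)))))) (PT.nd (nat_lit 1794) (PT.nd (nat_lit 1560) (PT.nd (nat_lit 78) (PT.lf (nat_lit 3116) (nat_lit 6) (nat_lit 41) (nat_lit 4) (nat_lit 104) (nat_lit 131) (nat_lit 125)) (PT.lf (nat_lit 3420) (nat_lit 6) (nat_lit 45) (nat_lit 4) (nat_lit 105) (nat_lit 131) (nat_lit 124))) (PT.nd (nat_lit 78) (PT.lf (nat_lit 3420) (nat_lit 6) (nat_lit 45) (nat_lit 2) (nat_lit 124) (nat_lit 131) (nat_lit 105)) (PT.nd (nat_lit 78) (PT.lf (nat_lit 3116) (nat_lit 6) (nat_lit 41) (nat_lit 2) (nat_lit 125) (nat_lit 131) (nat_lit 104)) (PT.lf (nat_lit 2888) (nat_lit 6) (nat_lit 38) (nat_lit 2) (nat_lit 126) (nat_lit 131) (nat_lit 103))))) (PT.nd (nat_lit 234) (PT.nd (nat_lit 78) (PT.lf (nat_lit 2660) (nat_lit 6) (nat_lit 35) (nat_lit 2) (nat_lit 127) (nat_lit 131) (nat_lit 102)) (PT.nd (nat_lit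 78) (PT.lf (nat_lit 2508) (nat_lit 6) (nat_lit 33) (nat_lit 2) (nat_lit 128) (nat_lit 131) (nat_lit 101)) (PT.lf (nat_lit 2280) (nat_lit 6) (nat_lit 30) (nat_lit 2) (nat_lit 129) (nat_lit 131) (nat_lit 100)))) (PT.nd (nat_lit 78) (PT.lf (nat_lit 2128) (nat_lit 6) (nat_lit 28) (nat_lit 2) (nat_lit 130) (nat_lit 131) (nat_lit 99)) (PT.nd (nat_lit 78) (PT.lf (nat_lit 1976) (nat_lit 3) (nat_lit 26) (nat_lit 0) (nat_lit 131) (nat_lit 131) (nat_lit 98)) (PT.lf (nat_lit 1748) (nat_lit 6) (nat_lit 23) (nat_lit 0) (nat_lit 132) (nat_lit 131) (nat_lit 97))))))))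
noncomputable def pc14 : PT := (PT.nd (nat_lit 71838) (PT.nd (nat_lit 35022) (PT.nd (nat_lit 34632) (PT.nd (nat_lit 34398) (PT.nd (nat_lit 78) (PT.lf (nat_lit 1520) (nat_lit 6) (nat_lit 20) (nat_lit 0) (nat_lit 133) (nat_lit 131) (nat_lit 96)) (PT.lf (nat_lit 1368) (nat_lit 6) (nat_lit 18) (nat_lit 0) (nat_lit 134) (nat_lit 131) (nat_lit 95))) (PT.nd (nat_lit 78) (PT.lf (nat_lit 1064) (nat_lit 6) (nat_lit 14) (nat_lit 5) (nat_lit 93) (nat_lit 132) (nat_lit 135)) (PT.nd (nat_lit 78) (PT.lf (nat_lit 1216) (nat_lit 6) (nat_lit 16) (nat_lit 5) (nat_lit 94) (nat_lit 132) (nat_lit 134)) (PT.lf (nat_lit 1444) (nat_lit 6) (nat_lit 19) (nat_lit 5) (nat_lit 95) (nat_lit 132) (nat_lit 133))))) (PT.nd (nat_lit 156) (PT.nd (nat_lit 78) (PT.lf (nat_lit 1596) (nat_lit 3) (nat_lit 21) (nat_lit 4) (nat_lit 96) (nat_lit 132) (nat_lit 132)) (PT.lf (nat_lit 1748) (nat_lit 6) (nat_lit 23) (nat_lit 4) (nat_lit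 97) (nat_lit 132) (nat_lit 131))) (PT.nd (nat_lit 78) (PT.lf (nat_lit 1900) (nat_lit 6) (nat_lit 25) (nat_lit 4) (nat_lit 98) (nat_lit 132) (nat_lit 130)) (PT.nd (nat_lit 78) (PT.lf (nat_lit 2052) (nat_lit 6) (nat_lit 27) (nat_lit 4) (nat_lit 99) (nat_lit 132) (nat_lit 129)) (PT.lf (nat_lit 2204) (nat_lit 6) (nat_lit 29) (nat_lit 4) (nat_lit 100) (nat_lit 132) (nat_lit 128)))))) (PT.nd (nat_lit 2340) (PT.nd (nat_lit 2106) (PT.nd (nat_lit 2028) (PT.lf (nat_lit 2432) (nat_lit 6) (nat_lit 32) (nat_lit 4) (nat_lit 101) (nat_lit 132) (nat_lit 127)) (PT.lf (nat_lit 2432) (nat_lit 6) (nat_lit 32) (nat_lit 2) (nat_lit 127) (nat_lit 132) (nat_lit 101))) (PT.nd (nat_lit 78) (PT.lf (nat_lit 2204) (nat_lit 6) (nat_lit 29) (nat_lit 2) (nat_lit 128) (nat_lit 132) (nat_lit 100)) (PT.nd (nat_lit 78) (PT.lf (nat_lit 2052) (nat_lit 6) (nat_lit 27) (nat_lit 2) (nat_lit 129) (nat_lit 132) (nat_lit 99)) (PT.lf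 (nat_lit 1900) (nat_lit 6) (nat_lit 25) (nat_lit 2) (nat_lit 130) (nat_lit 132) (nat_lit 98))))) (PT.nd (nat_lit 156) (PT.nd (nat_lit 78) (PT.lf (nat_lit 1748) (nat_lit 6) (nat_lit 23) (nat_lit 2) (nat_lit 131) (nat_lit 132) (nat_lit 97)) (PT.lf (nat_lit 1596) (nat_lit 3) (nat_lit 21) (nat_lit 0) (nat_lit 132) (nat_lit 132) (nat_lit 96))) (PT.nd (nat_lit 78) (PT.lf (nat_lit 1444) (nat_lit 6) (nat_lit 19) (nat_lit 0) (nat_lit 133) (nat_lit 132) (nat_lit 95)) (PT.nd (nat_lit 78) (PT.lf (nat_lit 1216) (nat_lit 6) (nat_lit 16) (nat_lit 0) (nat_lit 134) (nat_lit 132) (nat_lit 94)) (PT.lf (nat_lit 1064) (nat_lit 6) (nat_lit 14) (nat_lit 0) (nat_lit 135) (nat_lit 132) (nat_lit 93))))))) (PT.nd (nat_lit 3120) (PT.nd (nat_lit 390) (PT.nd (nat_lit 156) (PT.nd (nat_lit 78) (PT.lf (nat_lit 912) (nat_lit 6) (nat_lit 12) (nat_lit 5) (nat_lit 92) (nat_lit 133) (nat_lit 135)) (PT.lf (nat_lit 1140) (nat_lit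 6) (nat_lit 15) (nat_lit 5) (nat_lit 93) (nat_lit 133) (nat_lit 134))) (PT.nd (nat_lit 78) (PT.lf (nat_lit 1292) (nat_lit 3) (nat_lit 17) (nat_lit 4) (nat_lit 94) (nat_lit 133) (nat_lit 133)) (PT.nd (nat_lit 78) (PT.lf (nat_lit 1444) (nat_lit 6) (nat_lit 19) (nat_lit 4) (nat_lit 95) (nat_lit 133) (nat_lit 132)) (PT.lf (nat_lit 1520) (nat_lit 6) (nat_lit 20) (nat_lit 4) (nat_lit 96) (nat_lit 133) (nat_lit 131))))) (PT.nd (nat_lit 2496) (PT.nd (nat_lit 78) (PT.lf (nat_lit 1672) (nat_lit 6) (nat_lit 22) (nat_lit 4) (nat_lit 97) (nat_lit 133) (nat_lit 130)) (PT.lf (nat_lit 1824) (nat_lit 6) (nat_lit 24) (nat_lit 4) (nat_lit 98) (nat_lit 133) (nat_lit 129))) (PT.nd (nat_lit 78) (PT.lf (nat_lit 1824) (nat_lit 6) (nat_lit 24) (nat_lit 2) (nat_lit 129) (nat_lit 133) (nat_lit 98)) (PT.nd (nat_lit 78) (PT.lf (nat_lit 1672) (nat_lit 6) (nat_lit 22) (nat_lit 2) (nat_lit 130) (nat_lit 133) (nat_lit 97))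 (PT.lf (nat_lit 1520) (nat_lit 6) (nat_lit 20) (nat_lit 2) (nat_lit 131) (nat_lit 133) (nat_lit 96)))))) (PT.nd (nat_lit 34320) (PT.nd (nat_lit 156) (PT.nd (nat_lit 78) (PT.lf (nat_lit 1444) (nat_lit 6) (nat_lit 19) (nat_lit 2) (nat_lit 132) (nat_lit 133) (nat_lit 95)) (PT.lf (nat_lit 1292) (nat_lit 3) (nat_lit 17) (nat_lit 0) (nat_lit 133) (nat_lit 133) (nat_lit 94))) (PT.nd (nat_lit 78) (PT.lf (nat_lit 1140) (nat_lit 6) (nat_lit 15) (nat_lit 0) (nat_lit 134) (nat_lit 133) (nat_lit 93)) (PT.nd (nat_lit 34008) (PT.lf (nat_lit 912) (nat_lit 6) (nat_lit 12) (nat_lit 0) (nat_lit 135) (nat_lit 133) (nat_lit 92)) (PT.lf (nat_lit 684) (nat_lit 6) (nat_lit 9) (nat_lit 5) (nat_lit 90) (nat_lit 134) (nat_lit 136))))) (PT.nd (nat_lit 234) (PT.nd (nat_lit 78) (PT.lf (nat_lit 836) (nat_lit 6) (nat_lit 11) (nat_lit 5) (nat_lit 91) (nat_lit 134) (nat_lit 135)) (PT.nd (nat_lit 78) (PT.lf (nat_lit 988)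 (nat_lit 3) (nat_lit 13) (nat_lit 4) (nat_lit 92) (nat_lit 134) (nat_lit 134)) (PT.lf (nat_lit 1140) (nat_lit 6) (nat_lit 15) (nat_lit 4) (nat_lit 93) (nat_lit 134) (nat_lit 133)))) (PT.nd (nat_lit 78) (PT.lf (nat_lit 1216) (nat_lit 6) (nat_lit 16) (nat_lit 4) (nat_lit 94) (nat_lit 134) (nat_lit 132)) (PT.nd (nat_lit 2808) (PT.lf (nat_lit 1368) (nat_lit 6) (nat_lit 18) (nat_lit 4) (nat_lit 95) (nat_lit 134) (nat_lit 131)) (PT.lf (nat_lit 1368) (nat_lit 6) (nat_lit 18) (nat_lit 2) (nat_lit 131) (nat_lit 134) (nat_lit 95))))))))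
noncomputable def pc15 : PT := (PT.nd (nat_lit 71682) (PT.nd (nat_lit 34476) (PT.nd (nat_lit 34086) (PT.nd (nat_lit 156) (PT.nd (nat_lit 78) (PT.lf (nat_lit 1216) (nat_lit 6) (nat_lit 16) (nat_lit 2) (nat_lit 132) (nat_lit 134) (nat_lit 94)) (PT.lf (nat_lit 1140) (nat_lit 6) (nat_lit 15) (nat_lit 2) (nat_lit 133) (nat_lit 134) (nat_lit 93))) (PT.nd (nat_lit 78) (PT.lf (nat_lit 988) (nat_lit 3) (nat_lit 13) (nat_lit 0) (nat_lit 134) (nat_lit 134) (nat_lit 92)) (PT.nd (nat_lit 78) (PT.lf (nat_lit 836) (nat_lit 6) (nat_lit 11) (nat_lit 0) (nat_lit 135) (nat_lit 134) (nat_lit 91)) (PT.lf (nat_lit 684) (nat_lit 6) (nat_lit 9) (nat_lit 0) (nat_lit 136) (nat_lit 134) (nat_lit 90))))) (PT.nd (nat_lit 156) (PT.nd (nat_lit 78) (PT.lf (nat_lit 456) (nat_lit 6) (nat_lit 6) (nat_lit 5) (nat_lit 88) (nat_lit 135) (nat_lit 137)) (PT.lf (nat_lit 608) (nat_lit 6) (nat_lit 8) (nat_lit 5) (nat_lit 89) (nat_lit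 135) (nat_lit 136))) (PT.nd (nat_lit 78) (PT.lf (nat_lit 760) (nat_lit 3) (nat_lit 10) (nat_lit 4) (nat_lit 90) (nat_lit 135) (nat_lit 135)) (PT.nd (nat_lit 78) (PT.lf (nat_lit 836) (nat_lit 6) (nat_lit 11) (nat_lit 4) (nat_lit 91) (nat_lit 135) (nat_lit 134)) (PT.lf (nat_lit 912) (nat_lit 6) (nat_lit 12) (nat_lit 4) (nat_lit 92) (nat_lit 135) (nat_lit 133)))))) (PT.nd (nat_lit 3354) (PT.nd (nat_lit 3120) (PT.nd (nat_lit 3042) (PT.lf (nat_lit 1064) (nat_lit 6) (nat_lit 14) (nat_lit 4) (nat_lit 93) (nat_lit 135) (nat_lit 132)) (PT.lf (nat_lit 1064) (nat_lit 6) (nat_lit 14) (nat_lit 2) (nat_lit 132) (nat_lit 135) (nat_lit 93))) (PT.nd (nat_lit 78) (PT.lf (nat_lit 912) (nat_lit 6) (nat_lit 12) (nat_lit 2) (nat_lit 133) (nat_lit 135) (nat_lit 92)) (PT.nd (nat_lit 78) (PT.lf (nat_lit 836) (nat_lit 6) (nat_lit 11) (nat_lit 2) (nat_lit 134) (nat_lit 135) (nat_lit 91)) (PT.lf (nat_lit 760) (nat_lit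 3) (nat_lit 10) (nat_lit 0) (nat_lit 135) (nat_lit 135) (nat_lit 90))))) (PT.nd (nat_lit 33618) (PT.nd (nat_lit 78) (PT.lf (nat_lit 608) (nat_lit 6) (nat_lit 8) (nat_lit 0) (nat_lit 136) (nat_lit 135) (nat_lit 89)) (PT.lf (nat_lit 456) (nat_lit 6) (nat_lit 6) (nat_lit 0) (nat_lit 137) (nat_lit 135) (nat_lit 88))) (PT.nd (nat_lit 78) (PT.lf (nat_lit 228) (nat_lit 6) (nat_lit 3) (nat_lit 5) (nat_lit 86) (nat_lit 136) (nat_lit 138)) (PT.nd (nat_lit 78) (PT.lf (nat_lit 380) (nat_lit 6) (nat_lit 5) (nat_lit 5) (nat_lit 87) (nat_lit 136) (nat_lit 137)) (PT.lf (nat_lit 532) (nat_lit 3) (nat_lit 7) (nat_lit 4) (nat_lit 88) (nat_lit 136) (nat_lit 136))))))) (PT.nd (nat_lit 37440) (PT.nd (nat_lit 3744) (PT.nd (nat_lit 3510) (PT.nd (nat_lit 78) (PT.lf (nat_lit 608) (nat_lit 6) (nat_lit 8) (nat_lit 4) (nat_lit 89) (nat_lit 136) (nat_lit 135)) (PT.lf (nat_lit 684) (nat_lit 6) (nat_lit 9) (nat_lit 4)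 (nat_lit 90) (nat_lit 136) (nat_lit 134))) (PT.nd (nat_lit 78) (PT.lf (nat_lit 684) (nat_lit 6) (nat_lit 9) (nat_lit 2) (nat_lit 134) (nat_lit 136) (nat_lit 90)) (PT.nd (nat_lit 78) (PT.lf (nat_lit 608) (nat_lit 6) (nat_lit 8) (nat_lit 2) (nat_lit 135) (nat_lit 136) (nat_lit 89)) (PT.lf (nat_lit 532) (nat_lit 3) (nat_lit 7) (nat_lit 0) (nat_lit 136) (nat_lit 136) (nat_lit 88))))) (PT.nd (nat_lit 33462) (PT.nd (nat_lit 78) (PT.lf (nat_lit 380) (nat_lit 6) (nat_lit 5) (nat_lit 0) (nat_lit 137) (nat_lit 136) (nat_lit 87)) (PT.lf (nat_lit 228) (nat_lit 6) (nat_lit 3) (nat_lit 0) (nat_lit 138) (nat_lit 136) (nat_lit 86))) (PT.nd (nat_lit 78) (PT.lf (nat_lit 152) (nat_lit 6) (nat_lit 2) (nat_lit 5) (nat_lit 85) (nat_lit 137) (nat_lit 138)) (PT.nd (nat_lit 78) (PT.lf (nat_lit 304) (nat_lit 3) (nat_lit 4) (nat_lit 4) (nat_lit 86) (nat_lit 137) (nat_lit 137)) (PT.lf (nat_lit 380) (nat_lit 6) (nat_lit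 5) (nat_lit 4) (nat_lit 87) (nat_lit 137) (nat_lit 136)))))) (PT.nd (nat_lit 37206) (PT.nd (nat_lit 3744) (PT.nd (nat_lit 3666) (PT.lf (nat_lit 456) (nat_lit 6) (nat_lit 6) (nat_lit 4) (nat_lit 88) (nat_lit 137) (nat_lit 135)) (PT.lf (nat_lit 456) (nat_lit 6) (nat_lit 6) (nat_lit 2) (nat_lit 135) (nat_lit 137) (nat_lit 88))) (PT.nd (nat_lit 78) (PT.lf (nat_lit 380) (nat_lit 6) (nat_lit 5) (nat_lit 2) (nat_lit 136) (nat_lit 137) (nat_lit 87)) (PT.nd (nat_lit 78) (PT.lf (nat_lit 304) (nat_lit 3) (nat_lit 4) (nat_lit 0) (nat_lit 137) (nat_lit 137) (nat_lit 86)) (PT.lf (nat_lit 152) (nat_lit 6) (nat_lit 2) (nat_lit 0) (nat_lit 138) (nat_lit 137) (nat_lit 85))))) (PT.nd (nat_lit 4056) (PT.nd (nat_lit 78) (PT.lf (nat_lit 76) (nat_lit 3) (nat_lit 1) (nat_lit 4) (nat_lit 84) (nat_lit 138) (nat_lit 138)) (PT.nd (nat_lit 78) (PT.lf (nat_lit 152) (nat_lit 6) (nat_lit 2) (nat_lit 4) (nat_lit 85) (nat_lit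 138) (nat_lit 137)) (PT.lf (nat_lit 228) (nat_lit 6) (nat_lit 3) (nat_lit 4) (nat_lit 86) (nat_lit 138) (nat_lit 136)))) (PT.nd (nat_lit 78) (PT.lf (nat_lit 228) (nat_lit 6) (nat_lit 3) (nat_lit 2) (nat_lit 136) (nat_lit 138) (nat_lit 86)) (PT.nd (nat_lit 78) (PT.lf (nat_lit 152) (nat_lit 6) (nat_lit 2) (nat_lit 2) (nat_lit 137) (nat_lit 138) (nat_lit 85)) (PT.lf (nat_lit 76) (nat_lit 3) (nat_lit 1) (nat_lit 0) (nat_lit 138) (nat_lit 138) (nat_lit 84))))))))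
noncomputable def xc0 : XT := (XT.nd (nat_lit 112632) (nat_lit 0) (nat_lit 0) (XT.nd (nat_lit 74958) (nat_lit 0) (nat_lit 0) (XT.nd (nat_lit 37518) (nat_lit 0) (nat_lit 0) (XT.nd (nat_lit 37284) (nat_lit 0) (nat_lit 0) (XT.nd (nat_lit 78) (nat_lit 0) (nat_lit 0) (XT.lf (nat_lit 0) (nat_lit 75081563274) (nat_lit 76) (nat_lit 30915980574) (nat_lit 76) (nat_lit 30715195589) (nat_lit 2) (nat_lit 4) (nat_lit 3) (nat_lit 5) (nat_lit 3) (nat_lit 4) (nat_lit 335) (nat_lit 193) (nat_lit 192)) (XT.lf (nat_lit 0) (nat_lit 84099248191) (nat_lit 76) (nat_lit 29876486359) (nat_lit 76) (nat_lit 29484477578) (nat_lit 2) (nat_lit 4) (nat_lit 3) (nat_lit 5) (nat_lit 3) (nat_lit 4) (nat_lit 336) (nat_lit 193) (nat_lit 191))) (XT.nd (nat_lit 78) (nat_lit 0) (nat_lit 0) (XT.lf (nat_lit 0) (nat_lit 24818162496) (nat_lit 76) (nat_lit 17179060990) (nat_lit 76) (nat_lit 17179060990) (nat_lit 2) (nat_lit 4) (nat_lit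 3) (nat_lit 5) (nat_lit 3) (nat_lit 4) (nat_lit 332) (nat_lit 194) (nat_lit 194)) (XT.nd (nat_lit 78) (nat_lit 0) (nat_lit 0) (XT.lf (nat_lit 0) (nat_lit 57824625613) (nat_lit 76) (nat_lit 33280406818) (nat_lit 76) (nat_lit 33069582583) (nat_lit 2) (nat_lit 4) (nat_lit 3) (nat_lit 5) (nat_lit 3) (nat_lit 4) (nat_lit 333) (nat_lit 194) (nat_lit 193)) (XT.lf (nat_lit 0) (nat_lit 66242643984) (nat_lit 76) (nat_lit 32229869253) (nat_lit 76) (nat_lit 31818260032) (nat_lit 2) (nat_lit 4) (nat_lit 3) (nat_lit 5) (nat_lit 3) (nat_lit 4) (nat_lit 334) (nat_lit 194) (nat_lit 192))))) (XT.nd (nat_lit 37206) (nat_lit 0) (nat_lit 0) (XT.nd (nat_lit 78) (nat_lit 0) (nat_lit 0) (XT.lf (nat_lit 0) (nat_lit 74910423007) (nat_lit 76) (nat_lit 31204008005) (nat_lit 76) (nat_lit 30601174988) (nat_lit 2) (nat_lit 4) (nat_lit 3) (nat_lit 5) (nat_lit 3) (nat_lit 4) (nat_lit 335) (nat_lit 194) (nat_lit 191)) (XT.nd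 (nat_lit 37050) (nat_lit 0) (nat_lit 0) (XT.lf (nat_lit 0) (nat_lit 83848600251) (nat_lit 76) (nat_lit 30200380547) (nat_lit 76) (nat_lit 29415429630) (nat_lit 2) (nat_lit 4) (nat_lit 3) (nat_lit 5) (nat_lit 3) (nat_lit 4) (nat_lit 336) (nat_lit 194) (nat_lit 190)) (XT.lf (nat_lit 0) (nat_lit 16984017894) (nat_lit 76) (nat_lit 18391594523) (nat_lit 76) (nat_lit 18391594523) (nat_lit 2) (nat_lit 4) (nat_lit 3) (nat_lit 5) (nat_lit 3) (nat_lit 4) (nat_lit 330) (nat_lit 195) (nat_lit 195)))) (XT.nd (nat_lit 78) (nat_lit 0) (nat_lit 0) (XT.lf (nat_lit 0) (nat_lit 41658246168) (nat_lit 76) (nat_lit 35686946175) (nat_lit 76) (nat_lit 35465580728) (nat_lit 2) (nat_lit 4) (nat_lit 3) (nat_lit 5) (nat_lit 3) (nat_lit 4) (nat_lit 331) (nat_lit 195) (nat_lit 194)) (XT.nd (nat_lit 78) (nat_lit 0) (nat_lit 0) (XT.lf (nat_lit 0) (nat_lit 49544284922) (nat_lit 76) (nat_lit 34621007682) (nat_lit 76) (nat_lit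 34188818000) (nat_lit 2) (nat_lit 4) (nat_lit 3) (nat_lit 5) (nat_lit 3) (nat_lit 4) (nat_lit 332) (nat_lit 195) (nat_lit 193)) (XT.lf (nat_lit 0) (nat_lit 57644928333) (nat_lit 76) (nat_lit 33582835620) (nat_lit 76) (nat_lit 32949860953) (nat_lit 2) (nat_lit 4) (nat_lit 3) (nat_lit 5) (nat_lit 3) (nat_lit 4) (nat_lit 333) (nat_lit 195) (nat_lit 192)))))) (XT.nd (nat_lit 37206) (nat_lit 0) (nat_lit 0) (XT.nd (nat_lit 156) (nat_lit 0) (nat_lit 0) (XT.nd (nat_lit 78) (nat_lit 0) (nat_lit 0) (XT.lf (nat_lit 0) (nat_lit 65979463647) (nat_lit 76) (nat_lit 32569958150) (nat_lit 76) (nat_lit 31745759687) (nat_lit 2) (nat_lit 4) (nat_lit 3) (nat_lit 5) (nat_lit 3) (nat_lit 4) (nat_lit 334) (nat_lit 195) (nat_lit 191)) (XT.lf (nat_lit 0) (nat_lit 74567734996) (nat_lit 76) (nat_lit 31579963659) (nat_lit 76) (nat_lit 30573647295) (nat_lit 2) (nat_lit 4) (nat_lit 3) (nat_lit 5) (nat_lit 3) (nat_lit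 4) (nat_lit 335) (nat_lit 195) (nat_lit 190))) (XT.nd (nat_lit 36894) (nat_lit 0) (nat_lit 0) (XT.lf (nat_lit 0) (nat_lit 83430190646) (nat_lit 76) (nat_lit 30610495018) (nat_lit 76) (nat_lit 29430733034) (nat_lit 2) (nat_lit 4) (nat_lit 3) (nat_lit 5) (nat_lit 3) (nat_lit 4) (nat_lit 336) (nat_lit 195) (nat_lit 189)) (XT.nd (nat_lit 78) (nat_lit 0) (nat_lit 0) (XT.lf (nat_lit 0) (nat_lit 9601878447) (nat_lit 76) (nat_lit 19631882171) (nat_lit 76) (nat_lit 19631882171) (nat_lit 2) (nat_lit 4) (nat_lit 3) (nat_lit 5) (nat_lit 3) (nat_lit 4) (nat_lit 328) (nat_lit 196) (nat_lit 196)) (XT.lf (nat_lit 0) (nat_lit 26455343759) (nat_lit 76) (nat_lit 38144780119) (nat_lit 76) (nat_lit 37912346400) (nat_lit 2) (nat_lit 4) (nat_lit 3) (nat_lit 5) (nat_lit 3) (nat_lit 4) (nat_lit 329) (nat_lit 196) (nat_lit 195))))) (XT.nd (nat_lit 234) (nat_lit 0) (nat_lit 0) (XT.nd (nat_lit 78) (nat_lit 0) (nat_lit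 0) (XT.lf (nat_lit 0) (nat_lit 33871393715) (nat_lit 76) (nat_lit 37059219033) (nat_lit 76) (nat_lit 36605419868) (nat_lit 2) (nat_lit 4) (nat_lit 3) (nat_lit 5) (nat_lit 3) (nat_lit 4) (nat_lit 330) (nat_lit 196) (nat_lit 194)) (XT.nd (nat_lit 78) (nat_lit 0) (nat_lit 0) (XT.lf (nat_lit 0) (nat_lit 41469564023) (nat_lit 76) (nat_lit 36004496416) (nat_lit 76) (nat_lit 35339873016) (nat_lit 2) (nat_lit 4) (nat_lit 3) (nat_lit 5) (nat_lit 3) (nat_lit 4) (nat_lit 331) (nat_lit 196) (nat_lit 193)) (XT.lf (nat_lit 0) (nat_lit 49267945567) (nat_lit 76) (nat_lit 34978101024) (nat_lit 76) (nat_lit 34112692638) (nat_lit 2) (nat_lit 4) (nat_lit 3) (nat_lit 5) (nat_lit 3) (nat_lit 4) (nat_lit 332) (nat_lit 196) (nat_lit 192)))) (XT.nd (nat_lit 78) (nat_lit 0) (nat_lit 0) (XT.lf (nat_lit 0) (nat_lit 57285105921) (nat_lit 76) (nat_lit 33977589057) (nat_lit 76) (nat_lit 32920956875) (nat_lit 2) (nat_lit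 4) (nat_lit 3) (nat_lit 5) (nat_lit 3) (nat_lit 4) (nat_lit 333) (nat_lit 196) (nat_lit 191)) (XT.nd (nat_lit 78) (nat_lit 0) (nat_lit 0) (XT.lf (nat_lit 0) (nat_lit 65540133562) (nat_lit 76) (nat_lit 33000578344) (nat_lit 76) (nat_lit 31761828262) (nat_lit 2) (nat_lit 4) (nat_lit 3) (nat_lit 5) (nat_lit 3) (nat_lit 4) (nat_lit 334) (nat_lit 196) (nat_lit 190)) (XT.lf (nat_lit 0) (nat_lit 74052683317) (nat_lit 76) (nat_lit 32044742670) (nat_lit 76) (nat_lit 30632546968) (nat_lit 2) (nat_lit 4) (nat_lit 3) (nat_lit 5) (nat_lit 3) (nat_lit 4) (nat_lit 335) (nat_lit 196) (nat_lit 189))))))) (XT.nd (nat_lit 37518) (nat_lit 0) (nat_lit 0) (XT.nd (nat_lit 37050) (nat_lit 0) (nat_lit 0) (XT.nd (nat_lit 36816) (nat_lit 0) (nat_lit 0) (XT.nd (nat_lit 36738) (nat_lit 0) (nat_lit 0) (XT.lf (nat_lit 0) (nat_lit 82843023163) (nat_lit 76) (nat_lit 31107806235) (nat_lit 76) (nat_lit 29530424228) (nat_lit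 2) (nat_lit 4) (nat_lit 3) (nat_lit 5) (nat_lit 3) (nat_lit 4) (nat_lit 336) (nat_lit 196) (nat_lit 188)) (XT.lf (nat_lit 0) (nat_lit 2615904033) (nat_lit 76) (nat_lit 20904367818) (nat_lit 76) (nat_lit 20904367818) (nat_lit 2) (nat_lit 4) (nat_lit 3) (nat_lit 5) (nat_lit 3) (nat_lit 4) (nat_lit 326) (nat_lit 197) (nat_lit 197))) (XT.nd (nat_lit 78) (nat_lit 0) (nat_lit 0) (XT.lf (nat_lit 0) (nat_lit 12099367439) (nat_lit 76) (nat_lit 40662891357) (nat_lit 76) (nat_lit 40418835952) (nat_lit 2) (nat_lit 4) (nat_lit 3) (nat_lit 5) (nat_lit 3) (nat_lit 4) (nat_lit 327) (nat_lit 197) (nat_lit 196)) (XT.nd (nat_lit 78) (nat_lit 0) (nat_lit 0) (XT.lf (nat_lit 0) (nat_lit 19102282717) (nat_lit 76) (nat_lit 39553595828) (nat_lit 76) (nat_lit 39077106705) (nat_lit 2) (nat_lit 4) (nat_lit 3) (nat_lit 5) (nat_lit 3) (nat_lit 4) (nat_lit 328) (nat_lit 197) (nat_lit 195)) (XT.lf (nat_lit 0) (nat_lit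 26257227507) (nat_lit 76) (nat_lit 38478207873) (nat_lit 76) (nat_lit 37780353302) (nat_lit 2) (nat_lit 4) (nat_lit 3) (nat_lit 5) (nat_lit 3) (nat_lit 4) (nat_lit 329) (nat_lit 197) (nat_lit 194))))) (XT.nd (nat_lit 234) (nat_lit 0) (nat_lit 0) (XT.nd (nat_lit 78) (nat_lit 0) (nat_lit 0) (XT.lf (nat_lit 0) (nat_lit 33581237392) (nat_lit 76) (nat_lit 37434167042) (nat_lit 76) (nat_lit 36525488237) (nat_lit 2) (nat_lit 4) (nat_lit 3) (nat_lit 5) (nat_lit 3) (nat_lit 4) (nat_lit 330) (nat_lit 197) (nat_lit 193)) (XT.nd (nat_lit 78) (nat_lit 0) (nat_lit 0) (XT.lf (nat_lit 0) (nat_lit 41091750491) (nat_lit 76) (nat_lit 36418987526) (nat_lit 76) (nat_lit 35309523735) (nat_lit 2) (nat_lit 4) (nat_lit 3) (nat_lit 5) (nat_lit 3) (nat_lit 4) (nat_lit 331) (nat_lit 197) (nat_lit 192)) (XT.lf (nat_lit 0) (nat_lit 48806648978) (nat_lit 76) (nat_lit 35430252228) (nat_lit 76) (nat_lit 34129564641) (nat_lit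 2) (nat_lit 4) (nat_lit 3) (nat_lit 5) (nat_lit 3) (nat_lit 4) (nat_lit 332) (nat_lit 197) (nat_lit 191)))) (XT.nd (nat_lit 78) (nat_lit 0) (nat_lit 0) (XT.lf (nat_lit 0) (nat_lit 56744301658) (nat_lit 76) (nat_lit 34465607019) (nat_lit 76) (nat_lit 32982801531) (nat_lit 2) (nat_lit 4) (nat_lit 3) (nat_lit 5) (nat_lit 3) (nat_lit 4) (nat_lit 333) (nat_lit 197) (nat_lit 190)) (XT.nd (nat_lit 78) (nat_lit 0) (nat_lit 0) (XT.lf (nat_lit 0) (nat_lit 64923607705) (nat_lit 76) (nat_lit 33522755123) (nat_lit 76) (nat_lit 31866504016) (nat_lit 2) (nat_lit 4) (nat_lit 3) (nat_lit 5) (nat_lit 3) (nat_lit 4) (nat_lit 334) (nat_lit 197) (nat_lit 189)) (XT.lf (nat_lit 0) (nat_lit 73364041657) (nat_lit 76) (nat_lit 32599451655) (nat_lit 76) (nat_lit 30778014243) (nat_lit 2) (nat_lit 4) (nat_lit 3) (nat_lit 5) (nat_lit 3) (nat_lit 4) (nat_lit 335) (nat_lit 197) (nat_lit 188)))))) (XT.nd (nat_lit 36894)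 (nat_lit 0) (nat_lit 0) (XT.nd (nat_lit 36660) (nat_lit 0) (nat_lit 0) (XT.nd (nat_lit 36582) (nat_lit 0) (nat_lit 76) (XT.lf (nat_lit 0) (nat_lit 82085699785) (nat_lit 76) (nat_lit 31693498274) (nat_lit 76) (nat_lit 29714740572) (nat_lit 2) (nat_lit 4) (nat_lit 3) (nat_lit 5) (nat_lit 3) (nat_lit 4) (nat_lit 336) (nat_lit 197) (nat_lit 187)) (XT.lf (nat_lit 0) (nat_lit 18226881691) (nat_lit 152) (nat_lit 3946697809) (nat_lit 0) (nat_lit 18226881691) (nat_lit 3) (nat_lit 5) (nat_lit 5) (nat_lit 4) (nat_lit 3) (nat_lit 4) (nat_lit 324) (nat_lit 198) (nat_lit 198))) (XT.nd (nat_lit 78) (nat_lit 76) (nat_lit 0) (XT.lf (nat_lit 0) (nat_lit 41747948209) (nat_lit 152) (nat_lit 1487149542) (nat_lit 0) (nat_lit 41491690034) (nat_lit 3) (nat_lit 5) (nat_lit 5) (nat_lit 4) (nat_lit 3) (nat_lit 4) (nat_lit 325) (nat_lit 198) (nat_lit 197)) (XT.nd (nat_lit 78) (nat_lit 0) (nat_lit 0) (XT.lf (nat_lit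 0) (nat_lit 5125260179) (nat_lit 76) (nat_lit 42113058698) (nat_lit 76) (nat_lit 41612745118) (nat_lit 2) (nat_lit 4) (nat_lit 3) (nat_lit 5) (nat_lit 3) (nat_lit 4) (nat_lit 326) (nat_lit 198) (nat_lit 196)) (XT.lf (nat_lit 0) (nat_lit 11891345375) (nat_lit 76) (nat_lit 41012990498) (nat_lit 76) (nat_lit 40280243199) (nat_lit 2) (nat_lit 4) (nat_lit 3) (nat_lit 5) (nat_lit 3) (nat_lit 4) (nat_lit 327) (nat_lit 198) (nat_lit 195))))) (XT.nd (nat_lit 234) (nat_lit 0) (nat_lit 0) (XT.nd (nat_lit 78) (nat_lit 0) (nat_lit 0) (XT.lf (nat_lit 0) (nat_lit 18797618579) (nat_lit 76) (nat_lit 39947291238) (nat_lit 76) (nat_lit 38993178492) (nat_lit 2) (nat_lit 4) (nat_lit 3) (nat_lit 5) (nat_lit 3) (nat_lit 4) (nat_lit 328) (nat_lit 198) (nat_lit 194)) (XT.nd (nat_lit 78) (nat_lit 0) (nat_lit 0) (XT.lf (nat_lit 0) (nat_lit 25860523298) (nat_lit 76) (nat_lit 38913423537) (nat_lit 76) (nat_lit 37748486557)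 (nat_lit 2) (nat_lit 4) (nat_lit 3) (nat_lit 5) (nat_lit 3) (nat_lit 4) (nat_lit 329) (nat_lit 198) (nat_lit 193)) (XT.lf (nat_lit 0) (nat_lit 33096875973) (nat_lit 76) (nat_lit 37908925807) (nat_lit 76) (nat_lit 36543203841) (nat_lit 2) (nat_lit 4) (nat_lit 3) (nat_lit 5) (nat_lit 3) (nat_lit 4) (nat_lit 330) (nat_lit 198) (nat_lit 192)))) (XT.nd (nat_lit 78) (nat_lit 0) (nat_lit 0) (XT.lf (nat_lit 0) (nat_lit 40523906015) (nat_lit 76) (nat_lit 36931406385) (nat_lit 76) (nat_lit 35374460624) (nat_lit 2) (nat_lit 4) (nat_lit 3) (nat_lit 5) (nat_lit 3) (nat_lit 4) (nat_lit 331) (nat_lit 198) (nat_lit 191)) (XT.nd (nat_lit 78) (nat_lit 0) (nat_lit 0) (XT.lf (nat_lit 0) (nat_lit 48159296828) (nat_lit 76) (nat_lit 35978537846) (nat_lit 76) (nat_lit 34239474183) (nat_lit 2) (nat_lit 4) (nat_lit 3) (nat_lit 5) (nat_lit 3) (nat_lit 4) (nat_lit 332) (nat_lit 198) (nat_lit 190)) (XT.lf (nat_lit 0)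 (nat_lit 56021227915) (nat_lit 76) (nat_lit 35048051453) (nat_lit 76) (nat_lit 33135542170) (nat_lit 2) (nat_lit 4) (nat_lit 3) (nat_lit 5) (nat_lit 3) (nat_lit 4) (nat_lit 333) (nat_lit 198) (nat_lit 189))))))))
noncomputable def xc1 : XT := (XT.nd (nat_lit 74256) (nat_lit 0) (nat_lit 0) (XT.nd (nat_lit 37206) (nat_lit 0) (nat_lit 0) (XT.nd (nat_lit 36738) (nat_lit 0) (nat_lit 0) (XT.nd (nat_lit 156) (nat_lit 0) (nat_lit 0) (XT.nd (nat_lit 78) (nat_lit 0) (nat_lit 0) (XT.lf (nat_lit 0) (nat_lit 64128418158) (nat_lit 76) (nat_lit 34137731763) (nat_lit 76) (nat_lit 32060036176) (nat_lit 2) (nat_lit 4) (nat_lit 3) (nat_lit 5) (nat_lit 3) (nat_lit 4) (nat_lit 334) (nat_lit 198) (nat_lit 188)) (XT.lf (nat_lit 0) (nat_lit 72500170392) (nat_lit 76) (nat_lit 33245411349) (nat_lit 76) (nat_lit 31010395472) (nat_lit 2) (nat_lit 4) (nat_lit 3) (nat_lit 5) (nat_lit 3) (nat_lit 4) (nat_lit 335) (nat_lit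 198) (nat_lit 187))) (XT.nd (nat_lit 36426) (nat_lit 0) (nat_lit 76) (XT.lf (nat_lit 0) (nat_lit 81156417361) (nat_lit 76) (nat_lit 32368965638) (nat_lit 76) (nat_lit 29984120913) (nat_lit 2) (nat_lit 4) (nat_lit 3) (nat_lit 5) (nat_lit 3) (nat_lit 4) (nat_lit 336) (nat_lit 198) (nat_lit 186)) (XT.nd (nat_lit 78) (nat_lit 0) (nat_lit 0) (XT.lf (nat_lit 0) (nat_lit 13294234120) (nat_lit 152) (nat_lit 10166526169) (nat_lit 0) (nat_lit 13294234120) (nat_lit 3) (nat_lit 5) (nat_lit 5) (nat_lit 4) (nat_lit 3) (nat_lit 4) (nat_lit 322) (nat_lit 199) (nat_lit 199)) (XT.lf (nat_lit 0) (nat_lit 31562963144) (nat_lit 152) (nat_lit 14208743304) (nat_lit 0) (nat_lit 31293892060) (nat_lit 3) (nat_lit 5) (nat_lit 5) (nat_lit 4) (nat_lit 3) (nat_lit 4) (nat_lit 323) (nat_lit 199) (nat_lit 198))))) (XT.nd (nat_lit 234) (nat_lit 0) (nat_lit 0) (XT.nd (nat_lit 78) (nat_lit 76) (nat_lit 0) (XT.lf (nat_lit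 0) (nat_lit 36662502729) (nat_lit 152) (nat_lit 8003087811) (nat_lit 0) (nat_lit 36137173470) (nat_lit 3) (nat_lit 5) (nat_lit 5) (nat_lit 4) (nat_lit 3) (nat_lit 4) (nat_lit 324) (nat_lit 199) (nat_lit 197)) (XT.nd (nat_lit 78) (nat_lit 76) (nat_lit 0) (XT.lf (nat_lit 0) (nat_lit 41899228757) (nat_lit 152) (nat_lit 1701310487) (nat_lit 0) (nat_lit 41129844093) (nat_lit 3) (nat_lit 5) (nat_lit 5) (nat_lit 4) (nat_lit 3) (nat_lit 4) (nat_lit 325) (nat_lit 199) (nat_lit 196)) (XT.lf (nat_lit 0) (nat_lit 4805362834) (nat_lit 76) (nat_lit 42526438878) (nat_lit 76) (nat_lit 41524620495) (nat_lit 2) (nat_lit 4) (nat_lit 3) (nat_lit 5) (nat_lit 3) (nat_lit 4) (nat_lit 326) (nat_lit 199) (nat_lit 195)))) (XT.nd (nat_lit 78) (nat_lit 0) (nat_lit 0) (XT.lf (nat_lit 0) (nat_lit 11474805956) (nat_lit 76) (nat_lit 41469966946) (nat_lit 76) (nat_lit 40246783117) (nat_lit 2) (nat_lit 4) (nat_lit 3) (nat_lit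 5) (nat_lit 3) (nat_lit 4) (nat_lit 327) (nat_lit 199) (nat_lit 194)) (XT.nd (nat_lit 78) (nat_lit 0) (nat_lit 0) (XT.lf (nat_lit 0) (nat_lit 18289039089) (nat_lit 76) (nat_lit 40445787941) (nat_lit 76) (nat_lit 39011779876) (nat_lit 2) (nat_lit 4) (nat_lit 3) (nat_lit 5) (nat_lit 3) (nat_lit 4) (nat_lit 328) (nat_lit 199) (nat_lit 193)) (XT.lf (nat_lit 0) (nat_lit 25264286599) (nat_lit 76) (nat_lit 39451463340) (nat_lit 76) (nat_lit 37816670290) (nat_lit 2) (nat_lit 4) (nat_lit 3) (nat_lit 5) (nat_lit 3) (nat_lit 4) (nat_lit 329) (nat_lit 199) (nat_lit 192)))))) (XT.nd (nat_lit 390) (nat_lit 0) (nat_lit 0) (XT.nd (nat_lit 156) (nat_lit 0) (nat_lit 0) (XT.nd (nat_lit 78) (nat_lit 0) (nat_lit 0) (XT.lf (nat_lit 0) (nat_lit 32417156217) (nat_lit 76) (nat_lit 38484625705) (nat_lit 76) (nat_lit 36658608859) (nat_lit 2) (nat_lit 4) (nat_lit 3) (nat_lit 5) (nat_lit 3) (nat_lit 4) (nat_lit 330)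 (nat_lit 199) (nat_lit 191)) (XT.lf (nat_lit 0) (nat_lit 39764678585) (nat_lit 76) (nat_lit 37542973041) (nat_lit 76) (nat_lit 35534838295) (nat_lit 2) (nat_lit 4) (nat_lit 3) (nat_lit 5) (nat_lit 3) (nat_lit 4) (nat_lit 331) (nat_lit 199) (nat_lit 190))) (XT.nd (nat_lit 78) (nat_lit 0) (nat_lit 0) (XT.lf (nat_lit 0) (nat_lit 47324347804) (nat_lit 76) (nat_lit 36624263318) (nat_lit 76) (nat_lit 34442682951) (nat_lit 2) (nat_lit 4) (nat_lit 3) (nat_lit 5) (nat_lit 3) (nat_lit 4) (nat_lit 332) (nat_lit 199) (nat_lit 189)) (XT.nd (nat_lit 78) (nat_lit 0) (nat_lit 0) (XT.lf (nat_lit 0) (nat_lit 55114163087) (nat_lit 76) (nat_lit 35726309131) (nat_lit 76) (nat_lit 33379542460) (nat_lit 2) (nat_lit 4) (nat_lit 3) (nat_lit 5) (nat_lit 3) (nat_lit 4) (nat_lit 333) (nat_lit 199) (nat_lit 188)) (XT.lf (nat_lit 0) (nat_lit 63152671613) (nat_lit 76) (nat_lit 34846972495) (nat_lit 76) (nat_lit 32342885534)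 (nat_lit 2) (nat_lit 4) (nat_lit 3) (nat_lit 5) (nat_lit 3) (nat_lit 4) (nat_lit 334) (nat_lit 199) (nat_lit 187))))) (XT.nd (nat_lit 36426) (nat_lit 0) (nat_lit 76) (XT.nd (nat_lit 78) (nat_lit 0) (nat_lit 0) (XT.lf (nat_lit 0) (nat_lit 71459012687) (nat_lit 76) (nat_lit 33984159751) (nat_lit 76) (nat_lit 31330243943) (nat_lit 2) (nat_lit 4) (nat_lit 3) (nat_lit 5) (nat_lit 3) (nat_lit 4) (nat_lit 335) (nat_lit 199) (nat_lit 186)) (XT.nd (nat_lit 36270) (nat_lit 0) (nat_lit 76) (XT.lf (nat_lit 0) (nat_lit 80052963313) (nat_lit 76) (nat_lit 33135816583) (nat_lit 76) (nat_lit 30339206634) (nat_lit 2) (nat_lit 4) (nat_lit 3) (nat_lit 5) (nat_lit 3) (nat_lit 4) (nat_lit 336) (nat_lit 199) (nat_lit 185)) (XT.lf (nat_lit 0) (nat_lit 8658273123) (nat_lit 152) (nat_lit 16137431588) (nat_lit 0) (nat_lit 8658273123) (nat_lit 3) (nat_lit 5) (nat_lit 5) (nat_lit 4) (nat_lit 3) (nat_lit 4) (nat_lit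 320) (nat_lit 200) (nat_lit 200)))) (XT.nd (nat_lit 78) (nat_lit 0) (nat_lit 0) (XT.lf (nat_lit 0) (nat_lit 22009698624) (nat_lit 152) (nat_lit 26390596601) (nat_lit 0) (nat_lit 21727173986) (nat_lit 3) (nat_lit 5) (nat_lit 5) (nat_lit 4) (nat_lit 3) (nat_lit 4) (nat_lit 321) (nat_lit 200) (nat_lit 199)) (XT.nd (nat_lit 78) (nat_lit 0) (nat_lit 0) (XT.lf (nat_lit 0) (nat_lit 26807644555) (nat_lit 152) (nat_lit 20448229139) (nat_lit 0) (nat_lit 26256048833) (nat_lit 3) (nat_lit 5) (nat_lit 5) (nat_lit 4) (nat_lit 3) (nat_lit 4) (nat_lit 322) (nat_lit 200) (nat_lit 198)) (XT.lf (nat_lit 0) (nat_lit 31721807719) (nat_lit 152) (nat_lit 14433612296) (nat_lit 0) (nat_lit 30913953822) (nat_lit 3) (nat_lit 5) (nat_lit 5) (nat_lit 4) (nat_lit 3) (nat_lit 4) (nat_lit 323) (nat_lit 200) (nat_lit 197))))))) (XT.nd (nat_lit 858) (nat_lit 0) (nat_lit 0) (XT.nd (nat_lit 390) (nat_lit 0) (nat_lit 0) (XT.nd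 (nat_lit 156) (nat_lit 76) (nat_lit 0) (XT.nd (nat_lit 78) (nat_lit 0) (nat_lit 0) (XT.lf (nat_lit 0) (nat_lit 36763888507) (nat_lit 152) (nat_lit 8332425556) (nat_lit 0) (nat_lit 35711979205) (nat_lit 3) (nat_lit 5) (nat_lit 5) (nat_lit 4) (nat_lit 3) (nat_lit 4) (nat_lit 324) (nat_lit 200) (nat_lit 196)) (XT.lf (nat_lit 0) (nat_lit 41945891871) (nat_lit 152) (nat_lit 2130142284) (nat_lit 0) (nat_lit 40661548850) (nat_lit 3) (nat_lit 5) (nat_lit 5) (nat_lit 4) (nat_lit 3) (nat_lit 4) (nat_lit 325) (nat_lit 200) (nat_lit 195))) (XT.nd (nat_lit 78) (nat_lit 0) (nat_lit 0) (XT.lf (nat_lit 0) (nat_lit 4271354370) (nat_lit 76) (nat_lit 43049860416) (nat_lit 76) (nat_lit 41544151948) (nat_lit 2) (nat_lit 4) (nat_lit 3) (nat_lit 5) (nat_lit 3) (nat_lit 4) (nat_lit 326) (nat_lit 200) (nat_lit 194)) (XT.nd (nat_lit 78) (nat_lit 0) (nat_lit 0) (XT.lf (nat_lit 0) (nat_lit 10848757421) (nat_lit 76)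 (nat_lit 42034908739) (nat_lit 76) (nat_lit 40318376037) (nat_lit 2) (nat_lit 4) (nat_lit 3) (nat_lit 5) (nat_lit 3) (nat_lit 4) (nat_lit 327) (nat_lit 200) (nat_lit 193)) (XT.lf (nat_lit 0) (nat_lit 17575333344) (nat_lit 76) (nat_lit 41050272834) (nat_lit 76) (nat_lit 39132955146) (nat_lit 2) (nat_lit 4) (nat_lit 3) (nat_lit 5) (nat_lit 3) (nat_lit 4) (nat_lit 328) (nat_lit 200) (nat_lit 192))))) (XT.nd (nat_lit 234) (nat_lit 0) (nat_lit 0) (XT.nd (nat_lit 78) (nat_lit 0) (nat_lit 0) (XT.lf (nat_lit 0) (nat_lit 24467097797) (nat_lit 76) (nat_lit 40093608329) (nat_lit 76) (nat_lit 37985066845) (nat_lit 2) (nat_lit 4) (nat_lit 3) (nat_lit 5) (nat_lit 3) (nat_lit 4) (nat_lit 329) (nat_lit 200) (nat_lit 191)) (XT.nd (nat_lit 78) (nat_lit 0) (nat_lit 0) (XT.lf (nat_lit 0) (nat_lit 31540459741) (nat_lit 76) (nat_lit 39162637451) (nat_lit 76) (nat_lit 36871978066) (nat_lit 2) (nat_lit 4) (nat_lit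 3) (nat_lit 5) (nat_lit 3) (nat_lit 4) (nat_lit 330) (nat_lit 200) (nat_lit 190)) (XT.lf (nat_lit 0) (nat_lit 38812260515) (nat_lit 76) (nat_lit 38255143604) (nat_lit 76) (nat_lit 35791038599) (nat_lit 2) (nat_lit 4) (nat_lit 3) (nat_lit 5) (nat_lit 3) (nat_lit 4) (nat_lit 331) (nat_lit 200) (nat_lit 189)))) (XT.nd (nat_lit 78) (nat_lit 0) (nat_lit 0) (XT.lf (nat_lit 0) (nat_lit 46299813931) (nat_lit 76) (nat_lit 37368966087) (nat_lit 76) (nat_lit 34739674778) (nat_lit 2) (nat_lit 4) (nat_lit 3) (nat_lit 5) (nat_lit 3) (nat_lit 4) (nat_lit 332) (nat_lit 200) (nat_lit 188)) (XT.nd (nat_lit 78) (nat_lit 0) (nat_lit 0) (XT.lf (nat_lit 0) (nat_lit 54020947496) (nat_lit 76) (nat_lit 36501994954) (nat_lit 76) (nat_lit 33715383355) (nat_lit 2) (nat_lit 4) (nat_lit 3) (nat_lit 5) (nat_lit 3) (nat_lit 4) (nat_lit 333) (nat_lit 200) (nat_lit 187)) (XT.lf (nat_lit 0) (nat_lit 61994044862) (nat_lit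 76) (nat_lit 35652165988) (nat_lit 76) (nat_lit 32715725541) (nat_lit 2) (nat_lit 4) (nat_lit 3) (nat_lit 5) (nat_lit 3) (nat_lit 4) (nat_lit 334) (nat_lit 200) (nat_lit 186)))))) (XT.nd (nat_lit 36426) (nat_lit 0) (nat_lit 0) (XT.nd (nat_lit 36192) (nat_lit 0) (nat_lit 76) (XT.nd (nat_lit 78) (nat_lit 0) (nat_lit 0) (XT.lf (nat_lit 0) (nat_lit 70238089594) (nat_lit 76) (nat_lit 34817455787) (nat_lit 76) (nat_lit 31738321199) (nat_lit 2) (nat_lit 4) (nat_lit 3) (nat_lit 5) (nat_lit 3) (nat_lit 4) (nat_lit 335) (nat_lit 200) (nat_lit 185)) (XT.lf (nat_lit 0) (nat_lit 78772710370) (nat_lit 76) (nat_lit 33995876945) (nat_lit 76) (nat_lit 30780843176) (nat_lit 2) (nat_lit 4) (nat_lit 3) (nat_lit 5) (nat_lit 3) (nat_lit 4) (nat_lit 336) (nat_lit 200) (nat_lit 184))) (XT.nd (nat_lit 78) (nat_lit 0) (nat_lit 0) (XT.lf (nat_lit 0) (nat_lit 4283320382) (nat_lit 152) (nat_lit 21899023448) (nat_lit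 0) (nat_lit 4283320382) (nat_lit 3) (nat_lit 5) (nat_lit 5) (nat_lit 4) (nat_lit 3) (nat_lit 4) (nat_lit 318) (nat_lit 201) (nat_lit 201)) (XT.nd (nat_lit 78) (nat_lit 0) (nat_lit 0) (XT.lf (nat_lit 0) (nat_lit 13013664121) (nat_lit 152) (nat_lit 38115039022) (nat_lit 0) (nat_lit 12717013251) (nat_lit 3) (nat_lit 5) (nat_lit 5) (nat_lit 4) (nat_lit 3) (nat_lit 4) (nat_lit 319) (nat_lit 201) (nat_lit 200)) (XT.lf (nat_lit 0) (nat_lit 17546681376) (nat_lit 152) (nat_lit 32395798817) (nat_lit 0) (nat_lit 16967505868) (nat_lit 3) (nat_lit 5) (nat_lit 5) (nat_lit 4) (nat_lit 3) (nat_lit 4) (nat_lit 320) (nat_lit 201) (nat_lit 199))))) (XT.nd (nat_lit 234) (nat_lit 76) (nat_lit 0) (XT.nd (nat_lit 78) (nat_lit 0) (nat_lit 0) (XT.lf (nat_lit 0) (nat_lit 22176485429) (nat_lit 152) (nat_lit 26626709043) (nat_lit 0) (nat_lit 21328238837) (nat_lit 3) (nat_lit 5) (nat_lit 5) (nat_lit 4) (nat_lit 3) (nat_lit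 4) (nat_lit 321) (nat_lit 201) (nat_lit 198)) (XT.nd (nat_lit 78) (nat_lit 0) (nat_lit 0) (XT.lf (nat_lit 0) (nat_lit 26914099622) (nat_lit 152) (nat_lit 20794033772) (nat_lit 0) (nat_lit 25809594854) (nat_lit 3) (nat_lit 5) (nat_lit 5) (nat_lit 4) (nat_lit 3) (nat_lit 4) (nat_lit 322) (nat_lit 201) (nat_lit 197)) (XT.lf (nat_lit 0) (nat_lit 31770803988) (nat_lit 152) (nat_lit 14883885683) (nat_lit 0) (nat_lit 30422243816) (nat_lit 3) (nat_lit 5) (nat_lit 5) (nat_lit 4) (nat_lit 3) (nat_lit 4) (nat_lit 323) (nat_lit 201) (nat_lit 196)))) (XT.nd (nat_lit 78) (nat_lit 76) (nat_lit 0) (XT.lf (nat_lit 0) (nat_lit 36758162111) (nat_lit 152) (nat_lit 8882192994) (nat_lit 0) (nat_lit 35177168220) (nat_lit 3) (nat_lit 5) (nat_lit 5) (nat_lit 4) (nat_lit 3) (nat_lit 4) (nat_lit 324) (nat_lit 201) (nat_lit 195)) (XT.nd (nat_lit 78) (nat_lit 76) (nat_lit 0) (XT.lf (nat_lit 0) (nat_lit 41888048651)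 (nat_lit 152) (nat_lit 2774665961) (nat_lit 0) (nat_lit 40085689314) (nat_lit 3) (nat_lit 5) (nat_lit 5) (nat_lit 4) (nat_lit 3) (nat_lit 4) (nat_lit 325) (nat_lit 201) (nat_lit 194)) (XT.lf (nat_lit 0) (nat_lit 3521963338) (nat_lit 76) (nat_lit 43684569554) (nat_lit 76) (nat_lit 41671385981) (nat_lit 2) (nat_lit 4) (nat_lit 3) (nat_lit 5) (nat_lit 3) (nat_lit 4) (nat_lit 326) (nat_lit 201) (nat_lit 193))))))))
noncomputable def xc2 : XT := (XT.nd (nat_lit 37596) (nat_lit 0) (nat_lit 0) (XT.nd (nat_lit 36738) (nat_lit 0) (nat_lit 0) (XT.nd (nat_lit 390) (nat_lit 0) (nat_lit 0) (XT.nd (nat_lit 156) (nat_lit 0) (nat_lit 0) (XT.nd (nat_lit 78) (nat_lit 0) (nat_lit 0) (XT.lf (nat_lit 0) (nat_lit 10011709179) (nat_lit 76) (nat_lit 42709160977) (nat_lit 76) (nat_lit 40495192419) (nat_lit 2) (nat_lit 4) (nat_lit 3) (nat_lit 5) (nat_lit 3) (nat_lit 4) (nat_lit 327) (nat_lit 201) (nat_lit 192)) (XT.lf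 (nat_lit 0) (nat_lit 16654802045) (nat_lit 76) (nat_lit 41762185167) (nat_lit 76) (nat_lit 39356992813) (nat_lit 2) (nat_lit 4) (nat_lit 3) (nat_lit 5) (nat_lit 3) (nat_lit 4) (nat_lit 328) (nat_lit 201) (nat_lit 191))) (XT.nd (nat_lit 78) (nat_lit 0) (nat_lit 0) (XT.lf (nat_lit 0) (nat_lit 23467058824) (nat_lit 76) (nat_lit 40841387419) (nat_lit 76) (nat_lit 38254077165) (nat_lit 2) (nat_lit 4) (nat_lit 3) (nat_lit 5) (nat_lit 3) (nat_lit 4) (nat_lit 329) (nat_lit 201) (nat_lit 190)) (XT.nd (nat_lit 78) (nat_lit 0) (nat_lit 0) (XT.lf (nat_lit 0) (nat_lit 30464699175) (nat_lit 76) (nat_lit 39944575358) (nat_lit 76) (nat_lit 37183819484) (nat_lit 2) (nat_lit 4) (nat_lit 3) (nat_lit 5) (nat_lit 3) (nat_lit 4) (nat_lit 330) (nat_lit 201) (nat_lit 189)) (XT.lf (nat_lit 0) (nat_lit 37664384145) (nat_lit 76) (nat_lit 39069613717) (nat_lit 76) (nat_lit 36143671538) (nat_lit 2) (nat_lit 4) (nat_lit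 3) (nat_lit 5) (nat_lit 3) (nat_lit 4) (nat_lit 331) (nat_lit 201) (nat_lit 188))))) (XT.nd (nat_lit 234) (nat_lit 0) (nat_lit 0) (XT.nd (nat_lit 78) (nat_lit 0) (nat_lit 0) (XT.lf (nat_lit 0) (nat_lit 45083255843) (nat_lit 76) (nat_lit 38214419254) (nat_lit 76) (nat_lit 35131156785) (nat_lit 2) (nat_lit 4) (nat_lit 3) (nat_lit 5) (nat_lit 3) (nat_lit 4) (nat_lit 332) (nat_lit 201) (nat_lit 187)) (XT.nd (nat_lit 78) (nat_lit 0) (nat_lit 0) (XT.lf (nat_lit 0) (nat_lit 52738978249) (nat_lit 76) (nat_lit 37376955791) (nat_lit 76) (nat_lit 34143864474) (nat_lit 2) (nat_lit 4) (nat_lit 3) (nat_lit 5) (nat_lit 3) (nat_lit 4) (nat_lit 333) (nat_lit 201) (nat_lit 186)) (XT.lf (nat_lit 0) (nat_lit 60649779272) (nat_lit 76) (nat_lit 36555229368) (nat_lit 76) (nat_lit 33179443911) (nat_lit 2) (nat_lit 4) (nat_lit 3) (nat_lit 5) (nat_lit 3) (nat_lit 4) (nat_lit 334) (nat_lit 201) (nat_lit 185)))) (XT.nd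 (nat_lit 78) (nat_lit 0) (nat_lit 0) (XT.lf (nat_lit 0) (nat_lit 68834494154) (nat_lit 76) (nat_lit 35747283493) (nat_lit 76) (nat_lit 32235598855) (nat_lit 2) (nat_lit 4) (nat_lit 3) (nat_lit 5) (nat_lit 3) (nat_lit 4) (nat_lit 335) (nat_lit 201) (nat_lit 184)) (XT.nd (nat_lit 35958) (nat_lit 0) (nat_lit 76) (XT.lf (nat_lit 0) (nat_lit 77312610311) (nat_lit 76) (nat_lit 34951194487) (nat_lit 76) (nat_lit 31310082056) (nat_lit 2) (nat_lit 4) (nat_lit 3) (nat_lit 5) (nat_lit 3) (nat_lit 4) (nat_lit 336) (nat_lit 201) (nat_lit 183)) (XT.lf (nat_lit 0) (nat_lit 136609850) (nat_lit 152) (nat_lit 27488051973) (nat_lit 0) (nat_lit 136609850) (nat_lit 3) (nat_lit 5) (nat_lit 5) (nat_lit 4) (nat_lit 3) (nat_lit 4) (nat_lit 316) (nat_lit 202) (nat_lit 202)))))) (XT.nd (nat_lit 390) (nat_lit 76) (nat_lit 0) (XT.nd (nat_lit 156) (nat_lit 0) (nat_lit 0) (XT.nd (nat_lit 78) (nat_lit 0) (nat_lit 0) (XT.lf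 (nat_lit 0) (nat_lit 4506506570) (nat_lit 152) (nat_lit 49458353414) (nat_lit 0) (nat_lit 4195023157) (nat_lit 3) (nat_lit 5) (nat_lit 5) (nat_lit 4) (nat_lit 3) (nat_lit 4) (nat_lit 317) (nat_lit 202) (nat_lit 201)) (XT.lf (nat_lit 0) (nat_lit 8808282650) (nat_lit 152) (nat_lit 43925029320) (nat_lit 0) (nat_lit 8200148367) (nat_lit 3) (nat_lit 5) (nat_lit 5) (nat_lit 4) (nat_lit 3) (nat_lit 4) (nat_lit 318) (nat_lit 202) (nat_lit 200))) (XT.nd (nat_lit 78) (nat_lit 0) (nat_lit 0) (XT.lf (nat_lit 0) (nat_lit 13188790266) (nat_lit 152) (nat_lit 38362957086) (nat_lit 0) (nat_lit 12298131344) (nat_lit 3) (nat_lit 5) (nat_lit 5) (nat_lit 4) (nat_lit 3) (nat_lit 4) (nat_lit 319) (nat_lit 202) (nat_lit 199)) (XT.nd (nat_lit 78) (nat_lit 0) (nat_lit 0) (XT.lf (nat_lit 0) (nat_lit 17658459196) (nat_lit 152) (nat_lit 32758893681) (nat_lit 0) (nat_lit 16498729191) (nat_lit 3) (nat_lit 5) (nat_lit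 5) (nat_lit 4) (nat_lit 3) (nat_lit 4) (nat_lit 320) (nat_lit 202) (nat_lit 198)) (XT.lf (nat_lit 0) (nat_lit 22227931511) (nat_lit 152) (nat_lit 27099496099) (nat_lit 0) (nat_lit 20811943330) (nat_lit 3) (nat_lit 5) (nat_lit 5) (nat_lit 4) (nat_lit 3) (nat_lit 4) (nat_lit 321) (nat_lit 202) (nat_lit 197))))) (XT.nd (nat_lit 234) (nat_lit 76) (nat_lit 0) (XT.nd (nat_lit 78) (nat_lit 0) (nat_lit 0) (XT.lf (nat_lit 0) (nat_lit 26908086906) (nat_lit 152) (nat_lit 21371289582) (nat_lit 0) (nat_lit 25248043320) (nat_lit 3) (nat_lit 5) (nat_lit 5) (nat_lit 4) (nat_lit 3) (nat_lit 4) (nat_lit 322) (nat_lit 202) (nat_lit 196)) (XT.nd (nat_lit 78) (nat_lit 0) (nat_lit 0) (XT.lf (nat_lit 0) (nat_lit 31710068608) (nat_lit 152) (nat_lit 15560635543) (nat_lit 0) (nat_lit 29817591303) (nat_lit 3) (nat_lit 5) (nat_lit 5) (nat_lit 4) (nat_lit 3) (nat_lit 4) (nat_lit 323) (nat_lit 202) (nat_lit 195)) (XT.lf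 (nat_lit 0) (nat_lit 36645309907) (nat_lit 152) (nat_lit 9653699093) (nat_lit 0) (nat_lit 34531467156) (nat_lit 3) (nat_lit 5) (nat_lit 5) (nat_lit 4) (nat_lit 3) (nat_lit 4) (nat_lit 324) (nat_lit 202) (nat_lit 194)))) (XT.nd (nat_lit 78) (nat_lit 76) (nat_lit 0) (XT.lf (nat_lit 0) (nat_lit 41725561378) (nat_lit 152) (nat_lit 3636416097) (nat_lit 0) (nat_lit 39400894392) (nat_lit 3) (nat_lit 5) (nat_lit 5) (nat_lit 4) (nat_lit 3) (nat_lit 4) (nat_lit 325) (nat_lit 202) (nat_lit 193)) (XT.nd (nat_lit 78) (nat_lit 0) (nat_lit 0) (XT.lf (nat_lit 0) (nat_lit 2555405473) (nat_lit 76) (nat_lit 44432077503) (nat_lit 76) (nat_lit 41906625532) (nat_lit 2) (nat_lit 4) (nat_lit 3) (nat_lit 5) (nat_lit 3) (nat_lit 4) (nat_lit 326) (nat_lit 202) (nat_lit 192)) (XT.lf (nat_lit 0) (nat_lit 8961668257) (nat_lit 76) (nat_lit 43494329022) (nat_lit 76) (nat_lit 40777653255) (nat_lit 2) (nat_lit 4) (nat_lit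 3) (nat_lit 5) (nat_lit 3) (nat_lit 4) (nat_lit 327) (nat_lit 202) (nat_lit 191))))))) (XT.nd (nat_lit 36582) (nat_lit 0) (nat_lit 0) (XT.nd (nat_lit 390) (nat_lit 0) (nat_lit 0) (XT.nd (nat_lit 156) (nat_lit 0) (nat_lit 0) (XT.nd (nat_lit 78) (nat_lit 0) (nat_lit 0) (XT.lf (nat_lit 0) (nat_lit 15525253450) (nat_lit 76) (nat_lit 42583219970) (nat_lit 76) (nat_lit 39684426302) (nat_lit 2) (nat_lit 4) (nat_lit 3) (nat_lit 5) (nat_lit 3) (nat_lit 4) (nat_lit 328) (nat_lit 202) (nat_lit 190)) (XT.lf (nat_lit 0) (nat_lit 22261788635) (nat_lit 76) (nat_lit 41696581039) (nat_lit 76) (nat_lit 38624341751) (nat_lit 2) (nat_lit 4) (nat_lit 3) (nat_lit 5) (nat_lit 3) (nat_lit 4) (nat_lit 329) (nat_lit 202) (nat_lit 189))) (XT.nd (nat_lit 78) (nat_lit 0) (nat_lit 0) (XT.lf (nat_lit 0) (nat_lit 29187313182) (nat_lit 76) (nat_lit 40832301184) (nat_lit 76) (nat_lit 37594875591) (nat_lit 2) (nat_lit 4)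 (nat_lit 3) (nat_lit 5) (nat_lit 3) (nat_lit 4) (nat_lit 330) (nat_lit 202) (nat_lit 188)) (XT.nd (nat_lit 78) (nat_lit 0) (nat_lit 0) (XT.lf (nat_lit 0) (nat_lit 36318316435) (nat_lit 76) (nat_lit 39988322596) (nat_lit 76) (nat_lit 36593576714) (nat_lit 2) (nat_lit 4) (nat_lit 3) (nat_lit 5) (nat_lit 3) (nat_lit 4) (nat_lit 331) (nat_lit 202) (nat_lit 187)) (XT.lf (nat_lit 0) (nat_lit 43671776974) (nat_lit 76) (nat_lit 39162635803) (nat_lit 76) (nat_lit 35618061073) (nat_lit 2) (nat_lit 4) (nat_lit 3) (nat_lit 5) (nat_lit 3) (nat_lit 4) (nat_lit 332) (nat_lit 202) (nat_lit 186))))) (XT.nd (nat_lit 234) (nat_lit 0) (nat_lit 0) (XT.nd (nat_lit 78) (nat_lit 0) (nat_lit 0) (XT.lf (nat_lit 0) (nat_lit 51265203036) (nat_lit 76) (nat_lit 38353274883) (nat_lit 76) (nat_lit 34666006012) (nat_lit 2) (nat_lit 4) (nat_lit 3) (nat_lit 5) (nat_lit 3) (nat_lit 4) (nat_lit 333) (nat_lit 202) (nat_lit 185))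 (XT.nd (nat_lit 78) (nat_lit 0) (nat_lit 0) (XT.lf (nat_lit 0) (nat_lit 59116674210) (nat_lit 76) (nat_lit 37558312787) (nat_lit 76) (nat_lit 33735144734) (nat_lit 2) (nat_lit 4) (nat_lit 3) (nat_lit 5) (nat_lit 3) (nat_lit 4) (nat_lit 334) (nat_lit 202) (nat_lit 184)) (XT.lf (nat_lit 0) (nat_lit 67244884472) (nat_lit 76) (nat_lit 36775856747) (nat_lit 76) (nat_lit 32823260903) (nat_lit 2) (nat_lit 4) (nat_lit 3) (nat_lit 5) (nat_lit 3) (nat_lit 4) (nat_lit 335) (nat_lit 202) (nat_lit 183)))) (XT.nd (nat_lit 35802) (nat_lit 0) (nat_lit 228) (XT.lf (nat_lit 0) (nat_lit 75669186706) (nat_lit 76) (nat_lit 36004043774) (nat_lit 76) (nat_lit 31928183365) (nat_lit 2) (nat_lit 4) (nat_lit 3) (nat_lit 5) (nat_lit 3) (nat_lit 4) (nat_lit 336) (nat_lit 202) (nat_lit 182)) (XT.nd (nat_lit 78) (nat_lit 0) (nat_lit 0) (XT.lf (nat_lit 0) (nat_lit 17761028012) (nat_lit 76) (nat_lit 3774630659) (nat_lit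 76) (nat_lit 3774630659) (nat_lit 5) (nat_lit 4) (nat_lit 6) (nat_lit 5) (nat_lit 6) (nat_lit 4) (nat_lit 314) (nat_lit 203) (nat_lit 203)) (XT.lf (nat_lit 0) (nat_lit 45607867632) (nat_lit 76) (nat_lit 3869914756) (nat_lit 76) (nat_lit 3533045444) (nat_lit 5) (nat_lit 4) (nat_lit 6) (nat_lit 5) (nat_lit 6) (nat_lit 4) (nat_lit 315) (nat_lit 203) (nat_lit 202)))))) (XT.nd (nat_lit 390) (nat_lit 76) (nat_lit 0) (XT.nd (nat_lit 156) (nat_lit 0) (nat_lit 0) (XT.nd (nat_lit 78) (nat_lit 0) (nat_lit 0) (XT.lf (nat_lit 0) (nat_lit 414219451) (nat_lit 76) (nat_lit 113818321) (nat_lit 152) (nat_lit 54996711261) (nat_lit 3) (nat_lit 5) (nat_lit 4) (nat_lit 5) (nat_lit 5) (nat_lit 4) (nat_lit 316) (nat_lit 203) (nat_lit 201)) (XT.lf (nat_lit 0) (nat_lit 4690389022) (nat_lit 152) (nat_lit 49718667381) (nat_lit 0) (nat_lit 3755197154) (nat_lit 3) (nat_lit 5) (nat_lit 5) (nat_lit 4) (nat_lit 3) (nat_lit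 4) (nat_lit 317) (nat_lit 203) (nat_lit 200))) (XT.nd (nat_lit 78) (nat_lit 0) (nat_lit 0) (XT.lf (nat_lit 0) (nat_lit 8925649361) (nat_lit 152) (nat_lit 44306278928) (nat_lit 0) (nat_lit 7707932856) (nat_lit 3) (nat_lit 5) (nat_lit 5) (nat_lit 4) (nat_lit 3) (nat_lit 4) (nat_lit 318) (nat_lit 203) (nat_lit 199)) (XT.nd (nat_lit 78) (nat_lit 0) (nat_lit 0) (XT.lf (nat_lit 0) (nat_lit 13242808652) (nat_lit 152) (nat_lit 38859383494) (nat_lit 0) (nat_lit 11756021062) (nat_lit 3) (nat_lit 5) (nat_lit 5) (nat_lit 4) (nat_lit 3) (nat_lit 4) (nat_lit 319) (nat_lit 203) (nat_lit 198)) (XT.lf (nat_lit 0) (nat_lit 17652145845) (nat_lit 152) (nat_lit 33365012281) (nat_lit 0) (nat_lit 15909100080) (nat_lit 3) (nat_lit 5) (nat_lit 5) (nat_lit 4) (nat_lit 3) (nat_lit 4) (nat_lit 320) (nat_lit 203) (nat_lit 197))))) (XT.nd (nat_lit 234) (nat_lit 76) (nat_lit 0) (XT.nd (nat_lit 78) (nat_lit 0) (nat_lit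 0) (XT.lf (nat_lit 0) (nat_lit 22164159362) (nat_lit 152) (nat_lit 27810083452) (nat_lit 0) (nat_lit 20177058192) (nat_lit 3) (nat_lit 5) (nat_lit 5) (nat_lit 4) (nat_lit 3) (nat_lit 4) (nat_lit 321) (nat_lit 203) (nat_lit 196)) (XT.nd (nat_lit 78) (nat_lit 0) (nat_lit 0) (XT.lf (nat_lit 0) (nat_lit 26789592092) (nat_lit 152) (nat_lit 22181370986) (nat_lit 0) (nat_lit 24570057203) (nat_lit 3) (nat_lit 5) (nat_lit 5) (nat_lit 4) (nat_lit 3) (nat_lit 4) (nat_lit 322) (nat_lit 203) (nat_lit 195)) (XT.lf (nat_lit 0) (nat_lit 31539456971) (nat_lit 152) (nat_lit 16465473187) (nat_lit 0) (nat_lit 29098556635) (nat_lit 3) (nat_lit 5) (nat_lit 5) (nat_lit 4) (nat_lit 3) (nat_lit 4) (nat_lit 323) (nat_lit 203) (nat_lit 194)))) (XT.nd (nat_lit 78) (nat_lit 76) (nat_lit 0) (XT.lf (nat_lit 0) (nat_lit 36425063200) (nat_lit 152) (nat_lit 10648780774) (nat_lit 0) (nat_lit 33773338630) (nat_lit 3) (nat_lit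 5) (nat_lit 5) (nat_lit 4) (nat_lit 3) (nat_lit 4) (nat_lit 324) (nat_lit 203) (nat_lit 193)) (XT.nd (nat_lit 78) (nat_lit 76) (nat_lit 0) (XT.lf (nat_lit 0) (nat_lit 41458043175) (nat_lit 152) (nat_lit 4717444480) (nat_lit 0) (nat_lit 38605533619) (nat_lit 3) (nat_lit 5) (nat_lit 5) (nat_lit 4) (nat_lit 3) (nat_lit 4) (nat_lit 325) (nat_lit 203) (nat_lit 192)) (XT.lf (nat_lit 0) (nat_lit 1369379449) (nat_lit 76) (nat_lit 45294164046) (nat_lit 76) (nat_lit 42250430695) (nat_lit 2) (nat_lit 4) (nat_lit 3) (nat_lit 5) (nat_lit 3) (nat_lit 4) (nat_lit 326) (nat_lit 203) (nat_lit 191))))))))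
noncomputable def xc3 : XT := (XT.nd (nat_lit 37284) (nat_lit 0) (nat_lit 0) (XT.nd (nat_lit 36426) (nat_lit 0) (nat_lit 76) (XT.nd (nat_lit 390) (nat_lit 0) (nat_lit 0) (XT.nd (nat_lit 156) (nat_lit 0) (nat_lit 0) (XT.nd (nat_lit 78) (nat_lit 0) (nat_lit 0) (XT.lf (nat_lit 0) (nat_lit 7696134559) (nat_lit 76) (nat_lit 44392282322) (nat_lit 76) (nat_lit 41166431070) (nat_lit 2) (nat_lit 4) (nat_lit 3) (nat_lit 5) (nat_lit 3) (nat_lit 4) (nat_lit 327) (nat_lit 203) (nat_lit 190)) (XT.lf (nat_lit 0) (nat_lit 14183998158) (nat_lit 76) (nat_lit 43515332086) (nat_lit 76) (nat_lit 40116035214) (nat_lit 2) (nat_lit 4) (nat_lit 3) (nat_lit 5) (nat_lit 3) (nat_lit 4) (nat_lit 328) (nat_lit 203) (nat_lit 189))) (XT.nd (nat_lit 78) (nat_lit 0) (nat_lit 0) (XT.lf (nat_lit 0) (nat_lit 20848417540) (nat_lit 76) (nat_lit 42661225362) (nat_lit 76) (nat_lit 39096742185) (nat_lit 2) (nat_lit 4) (nat_lit 3)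 (nat_lit 5) (nat_lit 3) (nat_lit 4) (nat_lit 329) (nat_lit 203) (nat_lit 188)) (XT.nd (nat_lit 78) (nat_lit 0) (nat_lit 0) (XT.lf (nat_lit 0) (nat_lit 27705260369) (nat_lit 76) (nat_lit 41827928560) (nat_lit 76) (nat_lit 38106125094) (nat_lit 2) (nat_lit 4) (nat_lit 3) (nat_lit 5) (nat_lit 3) (nat_lit 4) (nat_lit 330) (nat_lit 203) (nat_lit 187)) (XT.lf (nat_lit 0) (nat_lit 34770852463) (nat_lit 76) (nat_lit 41013457643) (nat_lit 76) (nat_lit 37141825329) (nat_lit 2) (nat_lit 4) (nat_lit 3) (nat_lit 5) (nat_lit 3) (nat_lit 4) (nat_lit 331) (nat_lit 203) (nat_lit 186))))) (XT.nd (nat_lit 234) (nat_lit 0) (nat_lit 0) (XT.nd (nat_lit 78) (nat_lit 0) (nat_lit 0) (XT.lf (nat_lit 0) (nat_lit 42062016658) (nat_lit 76) (nat_lit 40215873393) (nat_lit 76) (nat_lit 36201546938) (nat_lit 2) (nat_lit 4) (nat_lit 3) (nat_lit 5) (nat_lit 3) (nat_lit 4) (nat_lit 332) (nat_lit 203) (nat_lit 185)) (XT.nd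 (nat_lit 78) (nat_lit 0) (nat_lit 0) (XT.lf (nat_lit 0) (nat_lit 49596112871) (nat_lit 76) (nat_lit 39433276799) (nat_lit 76) (nat_lit 35283051163) (nat_lit 2) (nat_lit 4) (nat_lit 3) (nat_lit 5) (nat_lit 3) (nat_lit 4) (nat_lit 333) (nat_lit 203) (nat_lit 184)) (XT.lf (nat_lit 0) (nat_lit 57391079425) (nat_lit 76) (nat_lit 38663804538) (nat_lit 76) (nat_lit 34384151109) (nat_lit 2) (nat_lit 4) (nat_lit 3) (nat_lit 5) (nat_lit 3) (nat_lit 4) (nat_lit 334) (nat_lit 203) (nat_lit 183)))) (XT.nd (nat_lit 78) (nat_lit 0) (nat_lit 0) (XT.lf (nat_lit 0) (nat_lit 65465475765) (nat_lit 76) (nat_lit 37905624532) (nat_lit 76) (nat_lit 33502706539) (nat_lit 2) (nat_lit 4) (nat_lit 3) (nat_lit 5) (nat_lit 3) (nat_lit 4) (nat_lit 335) (nat_lit 203) (nat_lit 182)) (XT.nd (nat_lit 35646) (nat_lit 0) (nat_lit 228) (XT.lf (nat_lit 0) (nat_lit 73838526643) (nat_lit 76) (nat_lit 37156931590) (nat_lit 76) (nat_lit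 32636618775) (nat_lit 2) (nat_lit 4) (nat_lit 3) (nat_lit 5) (nat_lit 3) (nat_lit 4) (nat_lit 336) (nat_lit 203) (nat_lit 181)) (XT.lf (nat_lit 0) (nat_lit 8061740026) (nat_lit 76) (nat_lit 7515892555) (nat_lit 76) (nat_lit 7515892555) (nat_lit 5) (nat_lit 4) (nat_lit 6) (nat_lit 5) (nat_lit 6) (nat_lit 4) (nat_lit 312) (nat_lit 204) (nat_lit 204)))))) (XT.nd (nat_lit 390) (nat_lit 0) (nat_lit 0) (XT.nd (nat_lit 156) (nat_lit 152) (nat_lit 0) (XT.nd (nat_lit 78) (nat_lit 0) (nat_lit 0) (XT.lf (nat_lit 0) (nat_lit 25654848302) (nat_lit 76) (nat_lit 11523724256) (nat_lit 76) (nat_lit 11170011478) (nat_lit 5) (nat_lit 4) (nat_lit 6) (nat_lit 5) (nat_lit 6) (nat_lit 4) (nat_lit 313) (nat_lit 204) (nat_lit 203)) (XT.lf (nat_lit 0) (nat_lit 35388028463) (nat_lit 76) (nat_lit 7962701464) (nat_lit 76) (nat_lit 7272119375) (nat_lit 5) (nat_lit 4) (nat_lit 6) (nat_lit 5) (nat_lit 6) (nat_lit 4) (nat_lit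 314) (nat_lit 204) (nat_lit 202))) (XT.nd (nat_lit 78) (nat_lit 152) (nat_lit 0) (XT.lf (nat_lit 0) (nat_lit 45346194774) (nat_lit 76) (nat_lit 4340238110) (nat_lit 76) (nat_lit 3328828105) (nat_lit 5) (nat_lit 4) (nat_lit 6) (nat_lit 5) (nat_lit 6) (nat_lit 4) (nat_lit 315) (nat_lit 204) (nat_lit 201)) (XT.nd (nat_lit 78) (nat_lit 0) (nat_lit 0) (XT.lf (nat_lit 0) (nat_lit 15409279) (nat_lit 76) (nat_lit 640930464) (nat_lit 152) (nat_lit 54874978131) (nat_lit 3) (nat_lit 5) (nat_lit 4) (nat_lit 5) (nat_lit 5) (nat_lit 4) (nat_lit 316) (nat_lit 204) (nat_lit 200)) (XT.lf (nat_lit 0) (nat_lit 4747108328) (nat_lit 152) (nat_lit 50239915110) (nat_lit 0) (nat_lit 3185981359) (nat_lit 3) (nat_lit 5) (nat_lit 5) (nat_lit 4) (nat_lit 3) (nat_lit 4) (nat_lit 317) (nat_lit 204) (nat_lit 199))))) (XT.nd (nat_lit 234) (nat_lit 0) (nat_lit 0) (XT.nd (nat_lit 78) (nat_lit 0) (nat_lit 0) (XT.lf (nat_lit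 0) (nat_lit 8919020343) (nat_lit 152) (nat_lit 44942703458) (nat_lit 0) (nat_lit 7088822289) (nat_lit 3) (nat_lit 5) (nat_lit 5) (nat_lit 4) (nat_lit 3) (nat_lit 4) (nat_lit 318) (nat_lit 204) (nat_lit 198)) (XT.nd (nat_lit 78) (nat_lit 0) (nat_lit 0) (XT.lf (nat_lit 0) (nat_lit 13175847895) (nat_lit 152) (nat_lit 39605500215) (nat_lit 0) (nat_lit 11089391667) (nat_lit 3) (nat_lit 5) (nat_lit 5) (nat_lit 4) (nat_lit 3) (nat_lit 4) (nat_lit 319) (nat_lit 204) (nat_lit 197)) (XT.lf (nat_lit 0) (nat_lit 17527726290) (nat_lit 152) (nat_lit 34215597756) (nat_lit 0) (nat_lit 15197214657) (nat_lit 3) (nat_lit 5) (nat_lit 5) (nat_lit 4) (nat_lit 3) (nat_lit 4) (nat_lit 320) (nat_lit 204) (nat_lit 196)))) (XT.nd (nat_lit 78) (nat_lit 0) (nat_lit 0) (XT.lf (nat_lit 0) (nat_lit 21985017143) (nat_lit 152) (nat_lit 28760162978) (nat_lit 0) (nat_lit 19422071791) (nat_lit 3) (nat_lit 5) (nat_lit 5) (nat_lit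 4) (nat_lit 3) (nat_lit 4) (nat_lit 321) (nat_lit 204) (nat_lit 195)) (XT.nd (nat_lit 78) (nat_lit 0) (nat_lit 0) (XT.lf (nat_lit 0) (nat_lit 26558333049) (nat_lit 152) (nat_lit 23226206751) (nat_lit 0) (nat_lit 23774022251) (nat_lit 3) (nat_lit 5) (nat_lit 5) (nat_lit 4) (nat_lit 3) (nat_lit 4) (nat_lit 322) (nat_lit 204) (nat_lit 194)) (XT.lf (nat_lit 0) (nat_lit 31258562858) (nat_lit 152) (nat_lit 17600552989) (nat_lit 0) (nat_lit 28263427824) (nat_lit 3) (nat_lit 5) (nat_lit 5) (nat_lit 4) (nat_lit 3) (nat_lit 4) (nat_lit 323) (nat_lit 204) (nat_lit 193))))))) (XT.nd (nat_lit 858) (nat_lit 0) (nat_lit 0) (XT.nd (nat_lit 390) (nat_lit 0) (nat_lit 0) (XT.nd (nat_lit 156) (nat_lit 76) (nat_lit 0) (XT.nd (nat_lit 78) (nat_lit 0) (nat_lit 0) (XT.lf (nat_lit 0) (nat_lit 36096897592) (nat_lit 152) (nat_lit 11869807278) (nat_lit 0) (nat_lit 32900977573) (nat_lit 3) (nat_lit 5) (nat_lit 5) (nat_lit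 4) (nat_lit 3) (nat_lit 4) (nat_lit 324) (nat_lit 204) (nat_lit 192)) (XT.lf (nat_lit 0) (nat_lit 41084857096) (nat_lit 152) (nat_lit 6020324986) (nat_lit 0) (nat_lit 37697713281) (nat_lit 3) (nat_lit 5) (nat_lit 5) (nat_lit 4) (nat_lit 3) (nat_lit 4) (nat_lit 325) (nat_lit 204) (nat_lit 191))) (XT.nd (nat_lit 78) (nat_lit 76) (nat_lit 0) (XT.lf (nat_lit 0) (nat_lit 46234317463) (nat_lit 152) (nat_lit 38178774) (nat_lit 0) (nat_lit 42665055748) (nat_lit 3) (nat_lit 5) (nat_lit 5) (nat_lit 4) (nat_lit 3) (nat_lit 4) (nat_lit 326) (nat_lit 204) (nat_lit 190)) (XT.nd (nat_lit 78) (nat_lit 0) (nat_lit 0) (XT.lf (nat_lit 0) (nat_lit 6212094909) (nat_lit 76) (nat_lit 45405158862) (nat_lit 76) (nat_lit 41662451526) (nat_lit 2) (nat_lit 4) (nat_lit 3) (nat_lit 5) (nat_lit 3) (nat_lit 4) (nat_lit 327) (nat_lit 204) (nat_lit 189)) (XT.lf (nat_lit 0) (nat_lit 12627842705) (nat_lit 76) (nat_lit 44560740832)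 (nat_lit 76) (nat_lit 40652847192) (nat_lit 2) (nat_lit 4) (nat_lit 3) (nat_lit 5) (nat_lit 3) (nat_lit 4) (nat_lit 328) (nat_lit 204) (nat_lit 188))))) (XT.nd (nat_lit 234) (nat_lit 0) (nat_lit 0) (XT.nd (nat_lit 78) (nat_lit 0) (nat_lit 0) (XT.lf (nat_lit 0) (nat_lit 19223580368) (nat_lit 76) (nat_lit 43737617161) (nat_lit 76) (nat_lit 39672403231) (nat_lit 2) (nat_lit 4) (nat_lit 3) (nat_lit 5) (nat_lit 3) (nat_lit 4) (nat_lit 329) (nat_lit 204) (nat_lit 187)) (XT.nd (nat_lit 78) (nat_lit 0) (nat_lit 0) (XT.lf (nat_lit 0) (nat_lit 26015012038) (nat_lit 76) (nat_lit 42933828030) (nat_lit 76) (nat_lit 38718785252) (nat_lit 2) (nat_lit 4) (nat_lit 3) (nat_lit 5) (nat_lit 3) (nat_lit 4) (nat_lit 330) (nat_lit 204) (nat_lit 186)) (XT.lf (nat_lit 0) (nat_lit 33018307789) (nat_lit 76) (nat_lit 42147459655) (nat_lit 76) (nat_lit 37789722737) (nat_lit 2) (nat_lit 4) (nat_lit 3) (nat_lit 5) (nat_lit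 3) (nat_lit 4) (nat_lit 331) (nat_lit 204) (nat_lit 185)))) (XT.nd (nat_lit 78) (nat_lit 0) (nat_lit 0) (XT.lf (nat_lit 0) (nat_lit 40250142134) (nat_lit 76) (nat_lit 41376639731) (nat_lit 76) (nat_lit 36883003631) (nat_lit 2) (nat_lit 4) (nat_lit 3) (nat_lit 5) (nat_lit 3) (nat_lit 4) (nat_lit 332) (nat_lit 204) (nat_lit 184)) (XT.nd (nat_lit 78) (nat_lit 0) (nat_lit 0) (XT.lf (nat_lit 0) (nat_lit 47727733728) (nat_lit 76) (nat_lit 40619532973) (nat_lit 76) (nat_lit 35996469081) (nat_lit 2) (nat_lit 4) (nat_lit 3) (nat_lit 5) (nat_lit 3) (nat_lit 4) (nat_lit 333) (nat_lit 204) (nat_lit 183)) (XT.lf (nat_lit 0) (nat_lit 55468886359) (nat_lit 76) (nat_lit 39874336745) (nat_lit 76) (nat_lit 35128008289) (nat_lit 2) (nat_lit 4) (nat_lit 3) (nat_lit 5) (nat_lit 3) (nat_lit 4) (nat_lit 334) (nat_lit 204) (nat_lit 182)))))) (XT.nd (nat_lit 35958) (nat_lit 0) (nat_lit 76) (XT.nd (nat_lit 35724)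 (nat_lit 0) (nat_lit 228) (XT.nd (nat_lit 35568) (nat_lit 0) (nat_lit 228) (XT.lf (nat_lit 0) (nat_lit 63492031343) (nat_lit 76) (nat_lit 39139276770) (nat_lit 76) (nat_lit 34275553492) (nat_lit 2) (nat_lit 4) (nat_lit 3) (nat_lit 5) (nat_lit 3) (nat_lit 4) (nat_lit 335) (nat_lit 204) (nat_lit 181)) (XT.nd (nat_lit 78) (nat_lit 76) (nat_lit 0) (XT.lf (nat_lit 0) (nat_lit 9986676143) (nat_lit 152) (nat_lit 1115991475) (nat_lit 0) (nat_lit 9986676143) (nat_lit 6) (nat_lit 5) (nat_lit 8) (nat_lit 4) (nat_lit 6) (nat_lit 4) (nat_lit 310) (nat_lit 205) (nat_lit 205)) (XT.lf (nat_lit 0) (nat_lit 6771229980) (nat_lit 76) (nat_lit 18866634969) (nat_lit 76) (nat_lit 18495236553) (nat_lit 5) (nat_lit 4) (nat_lit 6) (nat_lit 5) (nat_lit 6) (nat_lit 4) (nat_lit 311) (nat_lit 205) (nat_lit 204)))) (XT.nd (nat_lit 78) (nat_lit 0) (nat_lit 0) (XT.lf (nat_lit 0) (nat_lit 15982751113) (nat_lit 76) (nat_lit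 15465897263) (nat_lit 76) (nat_lit 14740786069) (nat_lit 5) (nat_lit 4) (nat_lit 6) (nat_lit 5) (nat_lit 6) (nat_lit 4) (nat_lit 312) (nat_lit 205) (nat_lit 203)) (XT.nd (nat_lit 78) (nat_lit 0) (nat_lit 0) (XT.lf (nat_lit 0) (nat_lit 25380091801) (nat_lit 76) (nat_lit 12017563777) (nat_lit 76) (nat_lit 10955583272) (nat_lit 5) (nat_lit 4) (nat_lit 6) (nat_lit 5) (nat_lit 6) (nat_lit 4) (nat_lit 313) (nat_lit 205) (nat_lit 202)) (XT.lf (nat_lit 0) (nat_lit 34985626666) (nat_lit 76) (nat_lit 8513424194) (nat_lit 76) (nat_lit 7130615773) (nat_lit 5) (nat_lit 4) (nat_lit 6) (nat_lit 5) (nat_lit 6) (nat_lit 4) (nat_lit 314) (nat_lit 205) (nat_lit 201))))) (XT.nd (nat_lit 234) (nat_lit 0) (nat_lit 0) (XT.nd (nat_lit 78) (nat_lit 152) (nat_lit 0) (XT.lf (nat_lit 0) (nat_lit 44822226028) (nat_lit 76) (nat_lit 4945135324) (nat_lit 76) (nat_lit 3256776507) (nat_lit 5) (nat_lit 4) (nat_lit 6) (nat_lit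 5) (nat_lit 6) (nat_lit 4) (nat_lit 315) (nat_lit 205) (nat_lit 200)) (XT.nd (nat_lit 78) (nat_lit 76) (nat_lit 0) (XT.lf (nat_lit 0) (nat_lit 661983189) (nat_lit 152) (nat_lit 635533318) (nat_lit 76) (nat_lit 54244642440) (nat_lit 4) (nat_lit 5) (nat_lit 6) (nat_lit 5) (nat_lit 5) (nat_lit 4) (nat_lit 316) (nat_lit 205) (nat_lit 199)) (XT.lf (nat_lit 0) (nat_lit 4676799533) (nat_lit 152) (nat_lit 51023337667) (nat_lit 0) (nat_lit 2486020494) (nat_lit 3) (nat_lit 5) (nat_lit 5) (nat_lit 4) (nat_lit 3) (nat_lit 4) (nat_lit 317) (nat_lit 205) (nat_lit 198)))) (XT.nd (nat_lit 78) (nat_lit 0) (nat_lit 0) (XT.lf (nat_lit 0) (nat_lit 8788379810) (nat_lit 152) (nat_lit 45835818206) (nat_lit 0) (nat_lit 6341342595) (nat_lit 3) (nat_lit 5) (nat_lit 5) (nat_lit 4) (nat_lit 3) (nat_lit 4) (nat_lit 318) (nat_lit 205) (nat_lit 197)) (XT.nd (nat_lit 78) (nat_lit 0) (nat_lit 0) (XT.lf (nat_lit 0) (nat_lit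 12987748565) (nat_lit 152) (nat_lit 40603083718) (nat_lit 0) (nat_lit 10296655946) (nat_lit 3) (nat_lit 5) (nat_lit 5) (nat_lit 4) (nat_lit 3) (nat_lit 4) (nat_lit 319) (nat_lit 205) (nat_lit 196)) (XT.lf (nat_lit 0) (nat_lit 17284904296) (nat_lit 152) (nat_lit 35312675309) (nat_lit 0) (nat_lit 14361377957) (nat_lit 3) (nat_lit 5) (nat_lit 5) (nat_lit 4) (nat_lit 3) (nat_lit 4) (nat_lit 320) (nat_lit 205) (nat_lit 195))))))))
noncomputable def xc4 : XT := (XT.nd (nat_lit 37050) (nat_lit 0) (nat_lit 0) (XT.nd (nat_lit 858) (nat_lit 0) (nat_lit 0) (XT.nd (nat_lit 390) (nat_lit 76) (nat_lit 0) (XT.nd (nat_lit 156) (nat_lit 0) (nat_lit 0) (XT.nd (nat_lit 78) (nat_lit 0) (nat_lit 0) (XT.lf (nat_lit 0) (nat_lit 21690078324) (nat_lit 152) (nat_lit 29951996770) (nat_lit 0) (nat_lit 18545186539) (nat_lit 3) (nat_lit 5) (nat_lit 5) (nat_lit 4) (nat_lit 3) (nat_lit 4) (nat_lit 321) (nat_lit 205) (nat_lit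 194)) (XT.lf (nat_lit 0) (nat_lit 26213759161) (nat_lit 152) (nat_lit 24508284580) (nat_lit 0) (nat_lit 22858043141) (nat_lit 3) (nat_lit 5) (nat_lit 5) (nat_lit 4) (nat_lit 3) (nat_lit 4) (nat_lit 322) (nat_lit 205) (nat_lit 193))) (XT.nd (nat_lit 78) (nat_lit 0) (nat_lit 0) (XT.lf (nat_lit 0) (nat_lit 30866717475) (nat_lit 152) (nat_lit 18968577521) (nat_lit 0) (nat_lit 27310216469) (nat_lit 3) (nat_lit 5) (nat_lit 5) (nat_lit 4) (nat_lit 3) (nat_lit 4) (nat_lit 323) (nat_lit 205) (nat_lit 192)) (XT.nd (nat_lit 78) (nat_lit 0) (nat_lit 0) (XT.lf (nat_lit 0) (nat_lit 35660031737) (nat_lit 152) (nat_lit 13319685812) (nat_lit 0) (nat_lit 31912306935) (nat_lit 3) (nat_lit 5) (nat_lit 5) (nat_lit 4) (nat_lit 3) (nat_lit 4) (nat_lit 324) (nat_lit 205) (nat_lit 191)) (XT.lf (nat_lit 0) (nat_lit 40605114601) (nat_lit 152) (nat_lit 7548159712) (nat_lit 0) (nat_lit 36675271899) (nat_lit 3) (nat_lit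 5) (nat_lit 5) (nat_lit 4) (nat_lit 3) (nat_lit 4) (nat_lit 325) (nat_lit 205) (nat_lit 190))))) (XT.nd (nat_lit 234) (nat_lit 0) (nat_lit 0) (XT.nd (nat_lit 78) (nat_lit 76) (nat_lit 0) (XT.lf (nat_lit 0) (nat_lit 45713740074) (nat_lit 152) (nat_lit 1640257493) (nat_lit 0) (nat_lit 41610451752) (nat_lit 3) (nat_lit 5) (nat_lit 5) (nat_lit 4) (nat_lit 3) (nat_lit 4) (nat_lit 326) (nat_lit 205) (nat_lit 189)) (XT.nd (nat_lit 78) (nat_lit 0) (nat_lit 0) (XT.lf (nat_lit 0) (nat_lit 4506015879) (nat_lit 76) (nat_lit 46535370251) (nat_lit 76) (nat_lit 42266895624) (nat_lit 2) (nat_lit 4) (nat_lit 3) (nat_lit 5) (nat_lit 3) (nat_lit 4) (nat_lit 327) (nat_lit 205) (nat_lit 188)) (XT.lf (nat_lit 0) (nat_lit 10853081957) (nat_lit 76) (nat_lit 45721935275) (nat_lit 76) (nat_lit 41296140358) (nat_lit 2) (nat_lit 4) (nat_lit 3) (nat_lit 5) (nat_lit 3) (nat_lit 4) (nat_lit 328) (nat_lit 205) (nat_lit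 187)))) (XT.nd (nat_lit 78) (nat_lit 0) (nat_lit 0) (XT.lf (nat_lit 0) (nat_lit 17383408461) (nat_lit 76) (nat_lit 44928319273) (nat_lit 76) (nat_lit 40352695509) (nat_lit 2) (nat_lit 4) (nat_lit 3) (nat_lit 5) (nat_lit 3) (nat_lit 4) (nat_lit 329) (nat_lit 205) (nat_lit 186)) (XT.nd (nat_lit 78) (nat_lit 0) (nat_lit 0) (XT.lf (nat_lit 0) (nat_lit 24112543788) (nat_lit 76) (nat_lit 44152632685) (nat_lit 76) (nat_lit 39434314780) (nat_lit 2) (nat_lit 4) (nat_lit 3) (nat_lit 5) (nat_lit 3) (nat_lit 4) (nat_lit 330) (nat_lit 205) (nat_lit 185)) (XT.lf (nat_lit 0) (nat_lit 31056509689) (nat_lit 76) (nat_lit 43393028637) (nat_lit 76) (nat_lit 38538811551) (nat_lit 2) (nat_lit 4) (nat_lit 3) (nat_lit 5) (nat_lit 3) (nat_lit 4) (nat_lit 331) (nat_lit 205) (nat_lit 184)))))) (XT.nd (nat_lit 35724) (nat_lit 0) (nat_lit 228) (XT.nd (nat_lit 156) (nat_lit 0) (nat_lit 0) (XT.nd (nat_lit 78) (nat_lit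 0) (nat_lit 0) (XT.lf (nat_lit 0) (nat_lit 38231839415) (nat_lit 76) (nat_lit 42647698549) (nat_lit 76) (nat_lit 37664053670) (nat_lit 2) (nat_lit 4) (nat_lit 3) (nat_lit 5) (nat_lit 3) (nat_lit 4) (nat_lit 332) (nat_lit 205) (nat_lit 183)) (XT.lf (nat_lit 0) (nat_lit 45655617086) (nat_lit 76) (nat_lit 41914867823) (nat_lit 76) (nat_lit 36807958381) (nat_lit 2) (nat_lit 4) (nat_lit 3) (nat_lit 5) (nat_lit 3) (nat_lit 4) (nat_lit 333) (nat_lit 205) (nat_lit 182))) (XT.nd (nat_lit 78) (nat_lit 0) (nat_lit 0) (XT.lf (nat_lit 0) (nat_lit 53345518361) (nat_lit 76) (nat_lit 41192791627) (nat_lit 76) (nat_lit 35968487362) (nat_lit 2) (nat_lit 4) (nat_lit 3) (nat_lit 5) (nat_lit 3) (nat_lit 4) (nat_lit 334) (nat_lit 205) (nat_lit 181)) (XT.nd (nat_lit 35412) (nat_lit 0) (nat_lit 304) (XT.lf (nat_lit 0) (nat_lit 61319852531) (nat_lit 76) (nat_lit 40479750730) (nat_lit 76) (nat_lit 35143641872) (nat_lit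 2) (nat_lit 4) (nat_lit 3) (nat_lit 5) (nat_lit 3) (nat_lit 4) (nat_lit 335) (nat_lit 205) (nat_lit 180)) (XT.lf (nat_lit 0) (nat_lit 4782183219) (nat_lit 152) (nat_lit 9712053398) (nat_lit 0) (nat_lit 4782183219) (nat_lit 6) (nat_lit 5) (nat_lit 8) (nat_lit 4) (nat_lit 6) (nat_lit 4) (nat_lit 308) (nat_lit 206) (nat_lit 206))))) (XT.nd (nat_lit 234) (nat_lit 0) (nat_lit 0) (XT.nd (nat_lit 78) (nat_lit 76) (nat_lit 0) (XT.lf (nat_lit 0) (nat_lit 14873378396) (nat_lit 152) (nat_lit 10963497092) (nat_lit 0) (nat_lit 14483410059) (nat_lit 6) (nat_lit 5) (nat_lit 8) (nat_lit 4) (nat_lit 6) (nat_lit 4) (nat_lit 309) (nat_lit 206) (nat_lit 205)) (XT.nd (nat_lit 78) (nat_lit 76) (nat_lit 0) (XT.lf (nat_lit 0) (nat_lit 20282825072) (nat_lit 152) (nat_lit 2376864903) (nat_lit 0) (nat_lit 19521458319) (nat_lit 6) (nat_lit 5) (nat_lit 8) (nat_lit 4) (nat_lit 6) (nat_lit 4) (nat_lit 310) (nat_lit 206)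 (nat_lit 204)) (XT.lf (nat_lit 0) (nat_lit 6482735655) (nat_lit 76) (nat_lit 19385166467) (nat_lit 76) (nat_lit 18270086936) (nat_lit 5) (nat_lit 4) (nat_lit 6) (nat_lit 5) (nat_lit 6) (nat_lit 4) (nat_lit 311) (nat_lit 206) (nat_lit 203)))) (XT.nd (nat_lit 78) (nat_lit 0) (nat_lit 0) (XT.lf (nat_lit 0) (nat_lit 15560229226) (nat_lit 76) (nat_lit 16044156129) (nat_lit 76) (nat_lit 14592207287) (nat_lit 5) (nat_lit 4) (nat_lit 6) (nat_lit 5) (nat_lit 6) (nat_lit 4) (nat_lit 312) (nat_lit 206) (nat_lit 202)) (XT.nd (nat_lit 78) (nat_lit 0) (nat_lit 0) (XT.lf (nat_lit 0) (nat_lit 24829924617) (nat_lit 76) (nat_lit 12652705852) (nat_lit 76) (nat_lit 10879929094) (nat_lit 5) (nat_lit 4) (nat_lit 6) (nat_lit 5) (nat_lit 6) (nat_lit 4) (nat_lit 313) (nat_lit 206) (nat_lit 201)) (XT.lf (nat_lit 0) (nat_lit 34313892533) (nat_lit 76) (nat_lit 9202740752) (nat_lit 76) (nat_lit 7124413598) (nat_lit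 5) (nat_lit 4) (nat_lit 6) (nat_lit 5) (nat_lit 6) (nat_lit 4) (nat_lit 314) (nat_lit 206) (nat_lit 200))))))) (XT.nd (nat_lit 858) (nat_lit 76) (nat_lit 0) (XT.nd (nat_lit 390) (nat_lit 0) (nat_lit 0) (XT.nd (nat_lit 156) (nat_lit 76) (nat_lit 0) (XT.nd (nat_lit 78) (nat_lit 76) (nat_lit 0) (XT.lf (nat_lit 0) (nat_lit 44034713848) (nat_lit 76) (nat_lit 5686046629) (nat_lit 76) (nat_lit 3316719097) (nat_lit 5) (nat_lit 4) (nat_lit 6) (nat_lit 5) (nat_lit 6) (nat_lit 4) (nat_lit 315) (nat_lit 206) (nat_lit 199)) (XT.lf (nat_lit 0) (nat_lit 541444539) (nat_lit 152) (nat_lit 1547338332) (nat_lit 76) (nat_lit 53468621308) (nat_lit 4) (nat_lit 5) (nat_lit 6) (nat_lit 5) (nat_lit 5) (nat_lit 4) (nat_lit 316) (nat_lit 206) (nat_lit 198))) (XT.nd (nat_lit 78) (nat_lit 0) (nat_lit 0) (XT.lf (nat_lit 0) (nat_lit 4479295237) (nat_lit 152) (nat_lit 52070800344) (nat_lit 0) (nat_lit 1653647986) (nat_lit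 3) (nat_lit 5) (nat_lit 5) (nat_lit 4) (nat_lit 3) (nat_lit 4) (nat_lit 317) (nat_lit 206) (nat_lit 197)) (XT.nd (nat_lit 78) (nat_lit 0) (nat_lit 0) (XT.lf (nat_lit 0) (nat_lit 8533416716) (nat_lit 152) (nat_lit 46987749637) (nat_lit 0) (nat_lit 5463714060) (nat_lit 3) (nat_lit 5) (nat_lit 5) (nat_lit 4) (nat_lit 3) (nat_lit 4) (nat_lit 318) (nat_lit 206) (nat_lit 196)) (XT.lf (nat_lit 0) (nat_lit 12678062806) (nat_lit 152) (nat_lit 41854509199) (nat_lit 0) (nat_lit 9375926432) (nat_lit 3) (nat_lit 5) (nat_lit 5) (nat_lit 4) (nat_lit 3) (nat_lit 4) (nat_lit 319) (nat_lit 206) (nat_lit 195))))) (XT.nd (nat_lit 234) (nat_lit 0) (nat_lit 0) (XT.nd (nat_lit 78) (nat_lit 0) (nat_lit 0) (XT.lf (nat_lit 0) (nat_lit 16923101713) (nat_lit 152) (nat_lit 36658857030) (nat_lit 0) (nat_lit 13399599892) (nat_lit 3) (nat_lit 5) (nat_lit 5) (nat_lit 4) (nat_lit 3) (nat_lit 4) (nat_lit 320) (nat_lit 206)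 (nat_lit 194)) (XT.nd (nat_lit 78) (nat_lit 0) (nat_lit 0) (XT.lf (nat_lit 0) (nat_lit 21278640672) (nat_lit 152) (nat_lit 31388422528) (nat_lit 0) (nat_lit 17544314616) (nat_lit 3) (nat_lit 5) (nat_lit 5) (nat_lit 4) (nat_lit 3) (nat_lit 4) (nat_lit 321) (nat_lit 206) (nat_lit 193)) (XT.lf (nat_lit 0) (nat_lit 25755050013) (nat_lit 152) (nat_lit 26030657041) (nat_lit 0) (nat_lit 21819938972) (nat_lit 3) (nat_lit 5) (nat_lit 5) (nat_lit 4) (nat_lit 3) (nat_lit 4) (nat_lit 322) (nat_lit 206) (nat_lit 192)))) (XT.nd (nat_lit 78) (nat_lit 0) (nat_lit 0) (XT.lf (nat_lit 0) (nat_lit 30362987855) (nat_lit 152) (nat_lit 20572803983) (nat_lit 0) (nat_lit 26236653018) (nat_lit 3) (nat_lit 5) (nat_lit 5) (nat_lit 4) (nat_lit 3) (nat_lit 4) (nat_lit 323) (nat_lit 206) (nat_lit 191)) (XT.nd (nat_lit 78) (nat_lit 0) (nat_lit 0) (XT.lf (nat_lit 0) (nat_lit 35113425478) (nat_lit 152) (nat_lit 15001868467)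 (nat_lit 0) (nat_lit 30804972740) (nat_lit 3) (nat_lit 5) (nat_lit 5) (nat_lit 4) (nat_lit 3) (nat_lit 4) (nat_lit 324) (nat_lit 206) (nat_lit 190)) (XT.lf (nat_lit 0) (nat_lit 40017673447) (nat_lit 152) (nat_lit 9304586360) (nat_lit 0) (nat_lit 35535775089) (nat_lit 3) (nat_lit 5) (nat_lit 5) (nat_lit 4) (nat_lit 3) (nat_lit 4) (nat_lit 325) (nat_lit 206) (nat_lit 189)))))) (XT.nd (nat_lit 390) (nat_lit 0) (nat_lit 0) (XT.nd (nat_lit 156) (nat_lit 0) (nat_lit 0) (XT.nd (nat_lit 78) (nat_lit 76) (nat_lit 0) (XT.lf (nat_lit 0) (nat_lit 45087408544) (nat_lit 152) (nat_lit 3467392705) (nat_lit 0) (nat_lit 40440323881) (nat_lit 3) (nat_lit 5) (nat_lit 5) (nat_lit 4) (nat_lit 3) (nat_lit 4) (nat_lit 326) (nat_lit 206) (nat_lit 188)) (XT.lf (nat_lit 0) (nat_lit 2573835376) (nat_lit 76) (nat_lit 47785607469) (nat_lit 76) (nat_lit 42981202516) (nat_lit 2) (nat_lit 4) (nat_lit 3) (nat_lit 5) (nat_lit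 3) (nat_lit 4) (nat_lit 327) (nat_lit 206) (nat_lit 187))) (XT.nd (nat_lit 78) (nat_lit 0) (nat_lit 0) (XT.lf (nat_lit 0) (nat_lit 8855490294) (nat_lit 76) (nat_lit 47001680163) (nat_lit 76) (nat_lit 42047446363) (nat_lit 2) (nat_lit 4) (nat_lit 3) (nat_lit 5) (nat_lit 3) (nat_lit 4) (nat_lit 328) (nat_lit 206) (nat_lit 186)) (XT.nd (nat_lit 78) (nat_lit 0) (nat_lit 0) (XT.lf (nat_lit 0) (nat_lit 15323520456) (nat_lit 76) (nat_lit 46236166705) (nat_lit 76) (nat_lit 41139238764) (nat_lit 2) (nat_lit 4) (nat_lit 3) (nat_lit 5) (nat_lit 3) (nat_lit 4) (nat_lit 329) (nat_lit 206) (nat_lit 185)) (XT.lf (nat_lit 0) (nat_lit 21993325933) (nat_lit 76) (nat_lit 45487244443) (nat_lit 76) (nat_lit 40254417321) (nat_lit 2) (nat_lit 4) (nat_lit 3) (nat_lit 5) (nat_lit 3) (nat_lit 4) (nat_lit 330) (nat_lit 206) (nat_lit 184))))) (XT.nd (nat_lit 234) (nat_lit 0) (nat_lit 0) (XT.nd (nat_lit 78) (nat_lit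 0) (nat_lit 0) (XT.lf (nat_lit 0) (nat_lit 28880787214) (nat_lit 76) (nat_lit 44753130230) (nat_lit 76) (nat_lit 39390875316) (nat_lit 2) (nat_lit 4) (nat_lit 3) (nat_lit 5) (nat_lit 3) (nat_lit 4) (nat_lit 331) (nat_lit 206) (nat_lit 183)) (XT.nd (nat_lit 78) (nat_lit 0) (nat_lit 0) (XT.lf (nat_lit 0) (nat_lit 36002303018) (nat_lit 76) (nat_lit 44032076175) (nat_lit 76) (nat_lit 38546556697) (nat_lit 2) (nat_lit 4) (nat_lit 3) (nat_lit 5) (nat_lit 3) (nat_lit 4) (nat_lit 332) (nat_lit 206) (nat_lit 182)) (XT.lf (nat_lit 0) (nat_lit 43374829333) (nat_lit 76) (nat_lit 43322365481) (nat_lit 76) (nat_lit 37719451180) (nat_lit 2) (nat_lit 4) (nat_lit 3) (nat_lit 5) (nat_lit 3) (nat_lit 4) (nat_lit 333) (nat_lit 206) (nat_lit 181)))) (XT.nd (nat_lit 78) (nat_lit 0) (nat_lit 0) (XT.lf (nat_lit 0) (nat_lit 51015919794) (nat_lit 76) (nat_lit 42622308362) (nat_lit 76) (nat_lit 36907589469) (nat_lit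 2) (nat_lit 4) (nat_lit 3) (nat_lit 5) (nat_lit 3) (nat_lit 4) (nat_lit 334) (nat_lit 206) (nat_lit 180)) (XT.nd (nat_lit 35256) (nat_lit 0) (nat_lit 456) (XT.lf (nat_lit 0) (nat_lit 58943767474) (nat_lit 76) (nat_lit 41930238016) (nat_lit 76) (nat_lit 36109038557) (nat_lit 2) (nat_lit 4) (nat_lit 3) (nat_lit 5) (nat_lit 3) (nat_lit 4) (nat_lit 335) (nat_lit 206) (nat_lit 179)) (XT.lf (nat_lit 0) (nat_lit 17337748072) (nat_lit 76) (nat_lit 150753991) (nat_lit 76) (nat_lit 150753991) (nat_lit 8) (nat_lit 4) (nat_lit 9) (nat_lit 5) (nat_lit 9) (nat_lit 4) (nat_lit 306) (nat_lit 207) (nat_lit 207))))))))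
noncomputable def xc5 : XT := (XT.nd (nat_lit 1716) (nat_lit 0) (nat_lit 0) (XT.nd (nat_lit 858) (nat_lit 76) (nat_lit 0) (XT.nd (nat_lit 390) (nat_lit 152) (nat_lit 0) (XT.nd (nat_lit 156) (nat_lit 76) (nat_lit 0) (XT.nd (nat_lit 78) (nat_lit 0) (nat_lit 0) (XT.lf (nat_lit 0) (nat_lit 4752615446) (nat_lit 152) (nat_lit 27778838325) (nat_lit 0) (nat_lit 4343148693) (nat_lit 6) (nat_lit 5) (nat_lit 8) (nat_lit 4) (nat_lit 6) (nat_lit 4) (nat_lit 307) (nat_lit 207) (nat_lit 206)) (XT.lf (nat_lit 0) (nat_lit 9889312863) (nat_lit 152) (nat_lit 19576232845) (nat_lit 0) (nat_lit 9089877772) (nat_lit 6) (nat_lit 5) (nat_lit 8) (nat_lit 4) (nat_lit 6) (nat_lit 4) (nat_lit 308) (nat_lit 207) (nat_lit 205))) (XT.nd (nat_lit 78) (nat_lit 76) (nat_lit 0) (XT.lf (nat_lit 0) (nat_lit 15117829270) (nat_lit 152) (nat_lit 11260505092) (nat_lit 0) (nat_lit 13946995763) (nat_lit 6) (nat_lit 5) (nat_lit 8)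 (nat_lit 4) (nat_lit 6) (nat_lit 4) (nat_lit 309) (nat_lit 207) (nat_lit 204)) (XT.nd (nat_lit 78) (nat_lit 76) (nat_lit 0) (XT.lf (nat_lit 0) (nat_lit 20450613516) (nat_lit 152) (nat_lit 2811855714) (nat_lit 0) (nat_lit 18926067232) (nat_lit 6) (nat_lit 5) (nat_lit 8) (nat_lit 4) (nat_lit 6) (nat_lit 4) (nat_lit 310) (nat_lit 207) (nat_lit 203)) (XT.lf (nat_lit 0) (nat_lit 5905060111) (nat_lit 76) (nat_lit 20052065645) (nat_lit 76) (nat_lit 18190650049) (nat_lit 5) (nat_lit 4) (nat_lit 6) (nat_lit 5) (nat_lit 6) (nat_lit 4) (nat_lit 311) (nat_lit 207) (nat_lit 202))))) (XT.nd (nat_lit 234) (nat_lit 152) (nat_lit 0) (XT.nd (nat_lit 78) (nat_lit 0) (nat_lit 0) (XT.lf (nat_lit 0) (nat_lit 14854908386) (nat_lit 76) (nat_lit 16767938516) (nat_lit 76) (nat_lit 14585695004) (nat_lit 5) (nat_lit 4) (nat_lit 6) (nat_lit 5) (nat_lit 6) (nat_lit 4) (nat_lit 312) (nat_lit 207) (nat_lit 201)) (XT.nd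 (nat_lit 78) (nat_lit 0) (nat_lit 0) (XT.lf (nat_lit 0) (nat_lit 24003036828) (nat_lit 76) (nat_lit 13430662722) (nat_lit 76) (nat_lit 10942868814) (nat_lit 5) (nat_lit 4) (nat_lit 6) (nat_lit 5) (nat_lit 6) (nat_lit 4) (nat_lit 313) (nat_lit 207) (nat_lit 200)) (XT.lf (nat_lit 0) (nat_lit 33371226697) (nat_lit 76) (nat_lit 10032292369) (nat_lit 76) (nat_lit 7253498084) (nat_lit 5) (nat_lit 4) (nat_lit 6) (nat_lit 5) (nat_lit 6) (nat_lit 4) (nat_lit 314) (nat_lit 207) (nat_lit 199)))) (XT.nd (nat_lit 78) (nat_lit 152) (nat_lit 0) (XT.lf (nat_lit 0) (nat_lit 42981783206) (nat_lit 76) (nat_lit 6564736100) (nat_lit 76) (nat_lit 3508798598) (nat_lit 5) (nat_lit 4) (nat_lit 6) (nat_lit 5) (nat_lit 6) (nat_lit 4) (nat_lit 315) (nat_lit 207) (nat_lit 198)) (XT.nd (nat_lit 78) (nat_lit 76) (nat_lit 0) (XT.lf (nat_lit 0) (nat_lit 294288673) (nat_lit 152) (nat_lit 2722477415) (nat_lit 76) (nat_lit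 52560328221) (nat_lit 4) (nat_lit 5) (nat_lit 6) (nat_lit 5) (nat_lit 5) (nat_lit 4) (nat_lit 316) (nat_lit 207) (nat_lit 197)) (XT.lf (nat_lit 0) (nat_lit 4154125190) (nat_lit 152) (nat_lit 53384797100) (nat_lit 0) (nat_lit 686881996) (nat_lit 3) (nat_lit 5) (nat_lit 5) (nat_lit 4) (nat_lit 3) (nat_lit 4) (nat_lit 317) (nat_lit 207) (nat_lit 196)))))) (XT.nd (nat_lit 390) (nat_lit 76) (nat_lit 0) (XT.nd (nat_lit 156) (nat_lit 0) (nat_lit 0) (XT.nd (nat_lit 78) (nat_lit 0) (nat_lit 0) (XT.lf (nat_lit 0) (nat_lit 8153524004) (nat_lit 152) (nat_lit 48401240444) (nat_lit 0) (nat_lit 4453847092) (nat_lit 3) (nat_lit 5) (nat_lit 5) (nat_lit 4) (nat_lit 3) (nat_lit 4) (nat_lit 318) (nat_lit 207) (nat_lit 195)) (XT.lf (nat_lit 0) (nat_lit 12246053271) (nat_lit 152) (nat_lit 43362756245) (nat_lit 0) (nat_lit 8325010912) (nat_lit 3) (nat_lit 5) (nat_lit 5) (nat_lit 4) (nat_lit 3) (nat_lit 4) (nat_lit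 319) (nat_lit 207) (nat_lit 194))) (XT.nd (nat_lit 78) (nat_lit 0) (nat_lit 0) (XT.lf (nat_lit 0) (nat_lit 16441457108) (nat_lit 152) (nat_lit 38257348113) (nat_lit 0) (nat_lit 12309590514) (nat_lit 3) (nat_lit 5) (nat_lit 5) (nat_lit 4) (nat_lit 3) (nat_lit 4) (nat_lit 320) (nat_lit 207) (nat_lit 193)) (XT.nd (nat_lit 78) (nat_lit 0) (nat_lit 0) (XT.lf (nat_lit 0) (nat_lit 20749724571) (nat_lit 152) (nat_lit 33072860313) (nat_lit 0) (nat_lit 16417072992) (nat_lit 3) (nat_lit 5) (nat_lit 5) (nat_lit 4) (nat_lit 3) (nat_lit 4) (nat_lit 321) (nat_lit 207) (nat_lit 192)) (XT.lf (nat_lit 0) (nat_lit 25181113441) (nat_lit 152) (nat_lit 27796948828) (nat_lit 0) (nat_lit 20657238066) (nat_lit 3) (nat_lit 5) (nat_lit 5) (nat_lit 4) (nat_lit 3) (nat_lit 4) (nat_lit 322) (nat_lit 207) (nat_lit 191))))) (XT.nd (nat_lit 234) (nat_lit 76) (nat_lit 0) (XT.nd (nat_lit 78) (nat_lit 0) (nat_lit 0) (XT.lf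 (nat_lit 0) (nat_lit 29746174643) (nat_lit 152) (nat_lit 22417051962) (nat_lit 0) (nat_lit 25040181368) (nat_lit 3) (nat_lit 5) (nat_lit 5) (nat_lit 4) (nat_lit 3) (nat_lit 4) (nat_lit 323) (nat_lit 207) (nat_lit 190)) (XT.nd (nat_lit 78) (nat_lit 0) (nat_lit 0) (XT.lf (nat_lit 0) (nat_lit 34455777371) (nat_lit 152) (nat_lit 16920360439) (nat_lit 0) (nat_lit 29576338476) (nat_lit 3) (nat_lit 5) (nat_lit 5) (nat_lit 4) (nat_lit 3) (nat_lit 4) (nat_lit 324) (nat_lit 207) (nat_lit 189)) (XT.lf (nat_lit 0) (nat_lit 39321134964) (nat_lit 152) (nat_lit 11293786897) (nat_lit 0) (nat_lit 34276509764) (nat_lit 3) (nat_lit 5) (nat_lit 5) (nat_lit 4) (nat_lit 3) (nat_lit 4) (nat_lit 325) (nat_lit 207) (nat_lit 188)))) (XT.nd (nat_lit 78) (nat_lit 76) (nat_lit 0) (XT.lf (nat_lit 0) (nat_lit 44353831608) (nat_lit 152) (nat_lit 5523934732) (nat_lit 0) (nat_lit 39151886117) (nat_lit 3) (nat_lit 5) (nat_lit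 5) (nat_lit 4) (nat_lit 3) (nat_lit 4) (nat_lit 326) (nat_lit 207) (nat_lit 187)) (XT.nd (nat_lit 78) (nat_lit 0) (nat_lit 0) (XT.lf (nat_lit 0) (nat_lit 410952971) (nat_lit 76) (nat_lit 49158847272) (nat_lit 76) (nat_lit 43807072934) (nat_lit 2) (nat_lit 4) (nat_lit 3) (nat_lit 5) (nat_lit 3) (nat_lit 4) (nat_lit 327) (nat_lit 207) (nat_lit 186)) (XT.lf (nat_lit 0) (nat_lit 6630311546) (nat_lit 76) (nat_lit 48403022509) (nat_lit 76) (nat_lit 42908554031) (nat_lit 2) (nat_lit 4) (nat_lit 3) (nat_lit 5) (nat_lit 3) (nat_lit 4) (nat_lit 328) (nat_lit 207) (nat_lit 185))))))) (XT.nd (nat_lit 35880) (nat_lit 0) (nat_lit 76) (XT.nd (nat_lit 390) (nat_lit 0) (nat_lit 0) (XT.nd (nat_lit 156) (nat_lit 0) (nat_lit 0) (XT.nd (nat_lit 78) (nat_lit 0) (nat_lit 0) (XT.lf (nat_lit 0) (nat_lit 13039011858) (nat_lit 76) (nat_lit 47664273378) (nat_lit 76) (nat_lit 42033905717) (nat_lit 2) (nat_lit 4) (nat_lit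 3) (nat_lit 5) (nat_lit 3) (nat_lit 4) (nat_lit 329) (nat_lit 207) (nat_lit 184)) (XT.lf (nat_lit 0) (nat_lit 19652312715) (nat_lit 76) (nat_lit 46940840951) (nat_lit 76) (nat_lit 41181045499) (nat_lit 2) (nat_lit 4) (nat_lit 3) (nat_lit 5) (nat_lit 3) (nat_lit 4) (nat_lit 330) (nat_lit 207) (nat_lit 183))) (XT.nd (nat_lit 78) (nat_lit 0) (nat_lit 0) (XT.lf (nat_lit 0) (nat_lit 26485960074) (nat_lit 76) (nat_lit 46231002771) (nat_lit 76) (nat_lit 40347942755) (nat_lit 2) (nat_lit 4) (nat_lit 3) (nat_lit 5) (nat_lit 3) (nat_lit 4) (nat_lit 331) (nat_lit 207) (nat_lit 182)) (XT.nd (nat_lit 78) (nat_lit 0) (nat_lit 0) (XT.lf (nat_lit 0) (nat_lit 33556224522) (nat_lit 76) (nat_lit 45533068747) (nat_lit 76) (nat_lit 39532613909) (nat_lit 2) (nat_lit 4) (nat_lit 3) (nat_lit 5) (nat_lit 3) (nat_lit 4) (nat_lit 332) (nat_lit 207) (nat_lit 181)) (XT.lf (nat_lit 0) (nat_lit 40879940023) (nat_lit 76)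 (nat_lit 44845377131) (nat_lit 76) (nat_lit 38733117700) (nat_lit 2) (nat_lit 4) (nat_lit 3) (nat_lit 5) (nat_lit 3) (nat_lit 4) (nat_lit 333) (nat_lit 207) (nat_lit 180))))) (XT.nd (nat_lit 35256) (nat_lit 0) (nat_lit 304) (XT.nd (nat_lit 78) (nat_lit 0) (nat_lit 0) (XT.lf (nat_lit 0) (nat_lit 48474543994) (nat_lit 76) (nat_lit 44166290563) (nat_lit 76) (nat_lit 37947550567) (nat_lit 2) (nat_lit 4) (nat_lit 3) (nat_lit 5) (nat_lit 3) (nat_lit 4) (nat_lit 334) (nat_lit 207) (nat_lit 179)) (XT.nd (nat_lit 35100) (nat_lit 0) (nat_lit 456) (XT.lf (nat_lit 0) (nat_lit 56358118827) (nat_lit 76) (nat_lit 43494192169) (nat_lit 76) (nat_lit 37174042111) (nat_lit 2) (nat_lit 4) (nat_lit 3) (nat_lit 5) (nat_lit 3) (nat_lit 4) (nat_lit 335) (nat_lit 207) (nat_lit 178)) (XT.lf (nat_lit 0) (nat_lit 6547091553) (nat_lit 76) (nat_lit 4804838643) (nat_lit 76) (nat_lit 4804838643) (nat_lit 8) (nat_lit 4)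 (nat_lit 9) (nat_lit 5) (nat_lit 9) (nat_lit 4) (nat_lit 304) (nat_lit 208) (nat_lit 208)))) (XT.nd (nat_lit 78) (nat_lit 152) (nat_lit 0) (XT.lf (nat_lit 0) (nat_lit 23699945987) (nat_lit 76) (nat_lit 5250708006) (nat_lit 76) (nat_lit 4807869712) (nat_lit 8) (nat_lit 4) (nat_lit 9) (nat_lit 5) (nat_lit 9) (nat_lit 4) (nat_lit 305) (nat_lit 208) (nat_lit 207)) (XT.nd (nat_lit 78) (nat_lit 76) (nat_lit 0) (XT.lf (nat_lit 0) (nat_lit 52011438) (nat_lit 152) (nat_lit 759005829) (nat_lit 76) (nat_lit 34470101525) (nat_lit 7) (nat_lit 5) (nat_lit 9) (nat_lit 5) (nat_lit 8) (nat_lit 4) (nat_lit 306) (nat_lit 208) (nat_lit 206)) (XT.lf (nat_lit 0) (nat_lit 5009288864) (nat_lit 152) (nat_lit 28090696725) (nat_lit 0) (nat_lit 3779913681) (nat_lit 6) (nat_lit 5) (nat_lit 8) (nat_lit 4) (nat_lit 6) (nat_lit 4) (nat_lit 307) (nat_lit 208) (nat_lit 205)))))) (XT.nd (nat_lit 468) (nat_lit 152) (nat_lit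 0) (XT.nd (nat_lit 234) (nat_lit 76) (nat_lit 0) (XT.nd (nat_lit 78) (nat_lit 0) (nat_lit 0) (XT.lf (nat_lit 0) (nat_lit 10065490729) (nat_lit 152) (nat_lit 20032973197) (nat_lit 0) (nat_lit 8464717130) (nat_lit 6) (nat_lit 5) (nat_lit 8) (nat_lit 4) (nat_lit 6) (nat_lit 4) (nat_lit 308) (nat_lit 208) (nat_lit 204)) (XT.nd (nat_lit 78) (nat_lit 0) (nat_lit 0) (XT.lf (nat_lit 0) (nat_lit 15217344706) (nat_lit 152) (nat_lit 11855228255) (nat_lit 0) (nat_lit 13262858330) (nat_lit 6) (nat_lit 5) (nat_lit 8) (nat_lit 4) (nat_lit 6) (nat_lit 4) (nat_lit 309) (nat_lit 208) (nat_lit 203)) (XT.lf (nat_lit 0) (nat_lit 20477117114) (nat_lit 152) (nat_lit 3537991078) (nat_lit 0) (nat_lit 18185761427) (nat_lit 6) (nat_lit 5) (nat_lit 8) (nat_lit 4) (nat_lit 6) (nat_lit 4) (nat_lit 310) (nat_lit 208) (nat_lit 202)))) (XT.nd (nat_lit 78) (nat_lit 0) (nat_lit 0) (XT.lf (nat_lit 0) (nat_lit 5036827933) (nat_lit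 76) (nat_lit 20868920359) (nat_lit 76) (nat_lit 18256736755) (nat_lit 5) (nat_lit 4) (nat_lit 6) (nat_lit 5) (nat_lit 6) (nat_lit 4) (nat_lit 311) (nat_lit 208) (nat_lit 201)) (XT.nd (nat_lit 78) (nat_lit 0) (nat_lit 0) (XT.lf (nat_lit 0) (nat_lit 13865109259) (nat_lit 76) (nat_lit 17638967713) (nat_lit 76) (nat_lit 14721233714) (nat_lit 5) (nat_lit 4) (nat_lit 6) (nat_lit 5) (nat_lit 6) (nat_lit 4) (nat_lit 312) (nat_lit 208) (nat_lit 200)) (XT.lf (nat_lit 0) (nat_lit 22897459654) (nat_lit 76) (nat_lit 14353286667) (nat_lit 76) (nat_lit 11144552290) (nat_lit 5) (nat_lit 4) (nat_lit 6) (nat_lit 5) (nat_lit 6) (nat_lit 4) (nat_lit 313) (nat_lit 208) (nat_lit 199))))) (XT.nd (nat_lit 234) (nat_lit 152) (nat_lit 0) (XT.nd (nat_lit 78) (nat_lit 0) (nat_lit 0) (XT.lf (nat_lit 0) (nat_lit 32155384717) (nat_lit 76) (nat_lit 11004054168) (nat_lit 76) (nat_lit 7518176575) (nat_lit 5) (nat_lit 4)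 (nat_lit 6) (nat_lit 5) (nat_lit 6) (nat_lit 4) (nat_lit 314) (nat_lit 208) (nat_lit 198)) (XT.nd (nat_lit 78) (nat_lit 0) (nat_lit 0) (XT.lf (nat_lit 0) (nat_lit 41660927124) (nat_lit 76) (nat_lit 7583295854) (nat_lit 76) (nat_lit 3833472341) (nat_lit 5) (nat_lit 4) (nat_lit 6) (nat_lit 5) (nat_lit 6) (nat_lit 4) (nat_lit 315) (nat_lit 208) (nat_lit 197)) (XT.lf (nat_lit 0) (nat_lit 51436719121) (nat_lit 76) (nat_lit 4082867063) (nat_lit 76) (nat_lit 81666483) (nat_lit 5) (nat_lit 4) (nat_lit 6) (nat_lit 5) (nat_lit 6) (nat_lit 4) (nat_lit 316) (nat_lit 208) (nat_lit 196)))) (XT.nd (nat_lit 78) (nat_lit 0) (nat_lit 0) (XT.lf (nat_lit 0) (nat_lit 3279729245) (nat_lit 76) (nat_lit 424870043) (nat_lit 152) (nat_lit 54547670565) (nat_lit 3) (nat_lit 5) (nat_lit 4) (nat_lit 5) (nat_lit 5) (nat_lit 4) (nat_lit 317) (nat_lit 208) (nat_lit 195)) (XT.nd (nat_lit 78) (nat_lit 0) (nat_lit 0) (XT.lf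 (nat_lit 0) (nat_lit 7647797168) (nat_lit 152) (nat_lit 50079656081) (nat_lit 0) (nat_lit 3309337245) (nat_lit 3) (nat_lit 5) (nat_lit 5) (nat_lit 4) (nat_lit 3) (nat_lit 4) (nat_lit 318) (nat_lit 208) (nat_lit 194)) (XT.lf (nat_lit 0) (nat_lit 11690691365) (nat_lit 152) (nat_lit 45131415920) (nat_lit 0) (nat_lit 7141407207) (nat_lit 3) (nat_lit 5) (nat_lit 5) (nat_lit 4) (nat_lit 3) (nat_lit 4) (nat_lit 319) (nat_lit 208) (nat_lit 193))))))))
noncomputable def xc6 : XT := (XT.nd (nat_lit 36582) (nat_lit 0) (nat_lit 0) (XT.nd (nat_lit 858) (nat_lit 0) (nat_lit 0) (XT.nd (nat_lit 390) (nat_lit 76) (nat_lit 0) (XT.nd (nat_lit 156) (nat_lit 0) (nat_lit 0) (XT.nd (nat_lit 78) (nat_lit 0) (nat_lit 0) (XT.lf (nat_lit 0) (nat_lit 15838823707) (nat_lit 152) (nat_lit 40111954490) (nat_lit 0) (nat_lit 11088754563) (nat_lit 3) (nat_lit 5) (nat_lit 5) (nat_lit 4) (nat_lit 3) (nat_lit 4) (nat_lit 320)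 (nat_lit 208) (nat_lit 192)) (XT.lf (nat_lit 0) (nat_lit 20102070699) (nat_lit 152) (nat_lit 35009320692) (nat_lit 0) (nat_lit 15160777759) (nat_lit 3) (nat_lit 5) (nat_lit 5) (nat_lit 4) (nat_lit 3) (nat_lit 4) (nat_lit 321) (nat_lit 208) (nat_lit 191))) (XT.nd (nat_lit 78) (nat_lit 0) (nat_lit 0) (XT.lf (nat_lit 0) (nat_lit 24490582929) (nat_lit 152) (nat_lit 29811365399) (nat_lit 0) (nat_lit 19367172089) (nat_lit 3) (nat_lit 5) (nat_lit 5) (nat_lit 4) (nat_lit 3) (nat_lit 4) (nat_lit 322) (nat_lit 208) (nat_lit 190)) (XT.nd (nat_lit 78) (nat_lit 0) (nat_lit 0) (XT.lf (nat_lit 0) (nat_lit 29014809237) (nat_lit 152) (nat_lit 24505712526) (nat_lit 0) (nat_lit 23717952776) (nat_lit 3) (nat_lit 5) (nat_lit 5) (nat_lit 4) (nat_lit 3) (nat_lit 4) (nat_lit 323) (nat_lit 208) (nat_lit 189)) (XT.lf (nat_lit 0) (nat_lit 33685521588) (nat_lit 152) (nat_lit 19079729567) (nat_lit 0) (nat_lit 28223478824)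 (nat_lit 3) (nat_lit 5) (nat_lit 5) (nat_lit 4) (nat_lit 3) (nat_lit 4) (nat_lit 324) (nat_lit 208) (nat_lit 188))))) (XT.nd (nat_lit 234) (nat_lit 76) (nat_lit 0) (XT.nd (nat_lit 78) (nat_lit 0) (nat_lit 0) (XT.lf (nat_lit 0) (nat_lit 38513840728) (nat_lit 152) (nat_lit 13520497515) (nat_lit 0) (nat_lit 32894477673) (nat_lit 3) (nat_lit 5) (nat_lit 5) (nat_lit 4) (nat_lit 3) (nat_lit 4) (nat_lit 325) (nat_lit 208) (nat_lit 187)) (XT.nd (nat_lit 78) (nat_lit 0) (nat_lit 0) (XT.lf (nat_lit 0) (nat_lit 43511262654) (nat_lit 152) (nat_lit 7814780102) (nat_lit 0) (nat_lit 37742070751) (nat_lit 3) (nat_lit 5) (nat_lit 5) (nat_lit 4) (nat_lit 3) (nat_lit 4) (nat_lit 326) (nat_lit 208) (nat_lit 186)) (XT.lf (nat_lit 0) (nat_lit 48689685989) (nat_lit 152) (nat_lit 1948992288) (nat_lit 0) (nat_lit 42777799946) (nat_lit 3) (nat_lit 5) (nat_lit 5) (nat_lit 4) (nat_lit 3) (nat_lit 4) (nat_lit 327) (nat_lit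 208) (nat_lit 185)))) (XT.nd (nat_lit 78) (nat_lit 0) (nat_lit 0) (XT.lf (nat_lit 0) (nat_lit 4172247668) (nat_lit 76) (nat_lit 49929298842) (nat_lit 76) (nat_lit 43881513617) (nat_lit 2) (nat_lit 4) (nat_lit 3) (nat_lit 5) (nat_lit 3) (nat_lit 4) (nat_lit 328) (nat_lit 208) (nat_lit 184)) (XT.nd (nat_lit 78) (nat_lit 0) (nat_lit 0) (XT.lf (nat_lit 0) (nat_lit 10524443360) (nat_lit 76) (nat_lit 49216039545) (nat_lit 76) (nat_lit 43038826529) (nat_lit 2) (nat_lit 4) (nat_lit 3) (nat_lit 5) (nat_lit 3) (nat_lit 4) (nat_lit 329) (nat_lit 208) (nat_lit 183)) (XT.lf (nat_lit 0) (nat_lit 17083930295) (nat_lit 76) (nat_lit 48516883152) (nat_lit 76) (nat_lit 42216405572) (nat_lit 2) (nat_lit 4) (nat_lit 3) (nat_lit 5) (nat_lit 3) (nat_lit 4) (nat_lit 330) (nat_lit 208) (nat_lit 182)))))) (XT.nd (nat_lit 35256) (nat_lit 0) (nat_lit 304) (XT.nd (nat_lit 156) (nat_lit 0) (nat_lit 0) (XT.nd (nat_lit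 78) (nat_lit 0) (nat_lit 0) (XT.lf (nat_lit 0) (nat_lit 23866326298) (nat_lit 76) (nat_lit 47830165004) (nat_lit 76) (nat_lit 41412292601) (nat_lit 2) (nat_lit 4) (nat_lit 3) (nat_lit 5) (nat_lit 3) (nat_lit 4) (nat_lit 331) (nat_lit 208) (nat_lit 181)) (XT.lf (nat_lit 0) (nat_lit 30887779932) (nat_lit 76) (nat_lit 47154250058) (nat_lit 76) (nat_lit 40624573061) (nat_lit 2) (nat_lit 4) (nat_lit 3) (nat_lit 5) (nat_lit 3) (nat_lit 4) (nat_lit 332) (nat_lit 208) (nat_lit 180))) (XT.nd (nat_lit 78) (nat_lit 0) (nat_lit 0) (XT.lf (nat_lit 0) (nat_lit 38165008943) (nat_lit 76) (nat_lit 46487528992) (nat_lit 76) (nat_lit 39851371431) (nat_lit 2) (nat_lit 4) (nat_lit 3) (nat_lit 5) (nat_lit 3) (nat_lit 4) (nat_lit 333) (nat_lit 208) (nat_lit 179)) (XT.nd (nat_lit 78) (nat_lit 0) (nat_lit 0) (XT.lf (nat_lit 0) (nat_lit 45715340067) (nat_lit 76) (nat_lit 45828414376) (nat_lit 76) (nat_lit 39090846754)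 (nat_lit 2) (nat_lit 4) (nat_lit 3) (nat_lit 5) (nat_lit 3) (nat_lit 4) (nat_lit 334) (nat_lit 208) (nat_lit 178)) (XT.lf (nat_lit 0) (nat_lit 53556750282) (nat_lit 76) (nat_lit 45175336889) (nat_lit 76) (nat_lit 38341188256) (nat_lit 2) (nat_lit 4) (nat_lit 3) (nat_lit 5) (nat_lit 3) (nat_lit 4) (nat_lit 335) (nat_lit 208) (nat_lit 177))))) (XT.nd (nat_lit 234) (nat_lit 152) (nat_lit 0) (XT.nd (nat_lit 78) (nat_lit 76) (nat_lit 0) (XT.lf (nat_lit 0) (nat_lit 5595905618) (nat_lit 152) (nat_lit 3627103383) (nat_lit 0) (nat_lit 5595905618) (nat_lit 9) (nat_lit 5) (nat_lit 11) (nat_lit 4) (nat_lit 9) (nat_lit 4) (nat_lit 302) (nat_lit 209) (nat_lit 209)) (XT.nd (nat_lit 78) (nat_lit 0) (nat_lit 0) (XT.lf (nat_lit 0) (nat_lit 2680097720) (nat_lit 76) (nat_lit 14363809030) (nat_lit 76) (nat_lit 13898828821) (nat_lit 8) (nat_lit 4) (nat_lit 9) (nat_lit 5) (nat_lit 9) (nat_lit 4) (nat_lit 303)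 (nat_lit 209) (nat_lit 208)) (XT.lf (nat_lit 0) (nat_lit 12933682241) (nat_lit 76) (nat_lit 10145213511) (nat_lit 76) (nat_lit 9237395007) (nat_lit 8) (nat_lit 4) (nat_lit 9) (nat_lit 5) (nat_lit 9) (nat_lit 4) (nat_lit 304) (nat_lit 209) (nat_lit 207)))) (XT.nd (nat_lit 78) (nat_lit 152) (nat_lit 0) (XT.lf (nat_lit 0) (nat_lit 23386587153) (nat_lit 76) (nat_lit 5853440435) (nat_lit 76) (nat_lit 4523871176) (nat_lit 8) (nat_lit 4) (nat_lit 9) (nat_lit 5) (nat_lit 9) (nat_lit 4) (nat_lit 305) (nat_lit 209) (nat_lit 206)) (XT.nd (nat_lit 78) (nat_lit 76) (nat_lit 0) (XT.lf (nat_lit 0) (nat_lit 248029084) (nat_lit 152) (nat_lit 1227737604) (nat_lit 76) (nat_lit 33813166633) (nat_lit 7) (nat_lit 5) (nat_lit 9) (nat_lit 5) (nat_lit 8) (nat_lit 4) (nat_lit 306) (nat_lit 209) (nat_lit 205)) (XT.lf (nat_lit 0) (nat_lit 5113780072) (nat_lit 152) (nat_lit 28715156047) (nat_lit 0) (nat_lit 3061569377)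 (nat_lit 6) (nat_lit 5) (nat_lit 8) (nat_lit 4) (nat_lit 6) (nat_lit 4) (nat_lit 307) (nat_lit 209) (nat_lit 204))))))) (XT.nd (nat_lit 858) (nat_lit 76) (nat_lit 0) (XT.nd (nat_lit 390) (nat_lit 152) (nat_lit 0) (XT.nd (nat_lit 156) (nat_lit 76) (nat_lit 0) (XT.nd (nat_lit 78) (nat_lit 0) (nat_lit 0) (XT.lf (nat_lit 0) (nat_lit 10093319507) (nat_lit 152) (nat_lit 20795415330) (nat_lit 0) (nat_lit 7687396035) (nat_lit 6) (nat_lit 5) (nat_lit 8) (nat_lit 4) (nat_lit 6) (nat_lit 4) (nat_lit 308) (nat_lit 209) (nat_lit 203)) (XT.lf (nat_lit 0) (nat_lit 15172161646) (nat_lit 152) (nat_lit 12749082589) (nat_lit 0) (nat_lit 12429368863) (nat_lit 6) (nat_lit 5) (nat_lit 8) (nat_lit 4) (nat_lit 6) (nat_lit 4) (nat_lit 309) (nat_lit 209) (nat_lit 202))) (XT.nd (nat_lit 78) (nat_lit 76) (nat_lit 0) (XT.lf (nat_lit 0) (nat_lit 20362398971) (nat_lit 152) (nat_lit 4556999889) (nat_lit 0) (nat_lit 17298778271)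 (nat_lit 6) (nat_lit 5) (nat_lit 8) (nat_lit 4) (nat_lit 6) (nat_lit 4) (nat_lit 310) (nat_lit 209) (nat_lit 201)) (XT.nd (nat_lit 78) (nat_lit 0) (nat_lit 0) (XT.lf (nat_lit 0) (nat_lit 3875971900) (nat_lit 76) (nat_lit 21837675500) (nat_lit 76) (nat_lit 18468504405) (nat_lit 5) (nat_lit 4) (nat_lit 6) (nat_lit 5) (nat_lit 6) (nat_lit 4) (nat_lit 311) (nat_lit 209) (nat_lit 200)) (XT.lf (nat_lit 0) (nat_lit 12588475179) (nat_lit 76) (nat_lit 18659317602) (nat_lit 76) (nat_lit 14999146129) (nat_lit 5) (nat_lit 4) (nat_lit 6) (nat_lit 5) (nat_lit 6) (nat_lit 4) (nat_lit 312) (nat_lit 209) (nat_lit 199))))) (XT.nd (nat_lit 234) (nat_lit 152) (nat_lit 0) (XT.nd (nat_lit 78) (nat_lit 0) (nat_lit 0) (XT.lf (nat_lit 0) (nat_lit 21510560768) (nat_lit 76) (nat_lit 15422774409) (nat_lit 76) (nat_lit 11485459720) (nat_lit 5) (nat_lit 4) (nat_lit 6) (nat_lit 5) (nat_lit 6) (nat_lit 4) (nat_lit 313)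 (nat_lit 209) (nat_lit 198)) (XT.nd (nat_lit 78) (nat_lit 0) (nat_lit 0) (XT.lf (nat_lit 0) (nat_lit 30663471729) (nat_lit 76) (nat_lit 12120339866) (nat_lit 76) (nat_lit 7919079257) (nat_lit 5) (nat_lit 4) (nat_lit 6) (nat_lit 5) (nat_lit 6) (nat_lit 4) (nat_lit 314) (nat_lit 209) (nat_lit 197)) (XT.lf (nat_lit 0) (nat_lit 40069000707) (nat_lit 76) (nat_lit 8744151035) (nat_lit 76) (nat_lit 4291513358) (nat_lit 5) (nat_lit 4) (nat_lit 6) (nat_lit 5) (nat_lit 6) (nat_lit 4) (nat_lit 315) (nat_lit 209) (nat_lit 196)))) (XT.nd (nat_lit 78) (nat_lit 152) (nat_lit 0) (XT.lf (nat_lit 0) (nat_lit 49749541818) (nat_lit 76) (nat_lit 5286169369) (nat_lit 76) (nat_lit 594124962) (nat_lit 5) (nat_lit 4) (nat_lit 6) (nat_lit 5) (nat_lit 6) (nat_lit 4) (nat_lit 316) (nat_lit 209) (nat_lit 195)) (XT.nd (nat_lit 78) (nat_lit 0) (nat_lit 0) (XT.lf (nat_lit 0) (nat_lit 1441265673) (nat_lit 76) (nat_lit 1692387769)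 (nat_lit 152) (nat_lit 55149429653) (nat_lit 3) (nat_lit 5) (nat_lit 4) (nat_lit 5) (nat_lit 5) (nat_lit 4) (nat_lit 317) (nat_lit 209) (nat_lit 194)) (XT.lf (nat_lit 0) (nat_lit 7015032098) (nat_lit 152) (nat_lit 52026992777) (nat_lit 0) (nat_lit 2027459497) (nat_lit 3) (nat_lit 5) (nat_lit 5) (nat_lit 4) (nat_lit 3) (nat_lit 4) (nat_lit 318) (nat_lit 209) (nat_lit 193)))))) (XT.nd (nat_lit 390) (nat_lit 76) (nat_lit 0) (XT.nd (nat_lit 156) (nat_lit 0) (nat_lit 0) (XT.nd (nat_lit 78) (nat_lit 0) (nat_lit 0) (XT.lf (nat_lit 0) (nat_lit 11010654800) (nat_lit 152) (nat_lit 47164699317) (nat_lit 0) (nat_lit 5822297213) (nat_lit 3) (nat_lit 5) (nat_lit 5) (nat_lit 4) (nat_lit 3) (nat_lit 4) (nat_lit 319) (nat_lit 209) (nat_lit 192)) (XT.lf (nat_lit 0) (nat_lit 15113766670) (nat_lit 152) (nat_lit 42227091889) (nat_lit 0) (nat_lit 9734185287) (nat_lit 3) (nat_lit 5) (nat_lit 5) (nat_lit 4) (nat_lit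 3) (nat_lit 4) (nat_lit 320) (nat_lit 209) (nat_lit 191))) (XT.nd (nat_lit 78) (nat_lit 0) (nat_lit 0) (XT.lf (nat_lit 0) (nat_lit 19334137022) (nat_lit 152) (nat_lit 37202414284) (nat_lit 0) (nat_lit 13772437739) (nat_lit 3) (nat_lit 5) (nat_lit 5) (nat_lit 4) (nat_lit 3) (nat_lit 4) (nat_lit 321) (nat_lit 209) (nat_lit 190)) (XT.nd (nat_lit 78) (nat_lit 0) (nat_lit 0) (XT.lf (nat_lit 0) (nat_lit 23681814357) (nat_lit 152) (nat_lit 32078702984) (nat_lit 0) (nat_lit 17946669454) (nat_lit 3) (nat_lit 5) (nat_lit 5) (nat_lit 4) (nat_lit 3) (nat_lit 4) (nat_lit 322) (nat_lit 209) (nat_lit 189)) (XT.lf (nat_lit 0) (nat_lit 28167150289) (nat_lit 152) (nat_lit 26843758676) (nat_lit 0) (nat_lit 22266819081) (nat_lit 3) (nat_lit 5) (nat_lit 5) (nat_lit 4) (nat_lit 3) (nat_lit 4) (nat_lit 323) (nat_lit 209) (nat_lit 188))))) (XT.nd (nat_lit 234) (nat_lit 76) (nat_lit 0) (XT.nd (nat_lit 78) (nat_lit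 0) (nat_lit 0) (XT.lf (nat_lit 0) (nat_lit 32800824187) (nat_lit 152) (nat_lit 21485117207) (nat_lit 0) (nat_lit 26743172689) (nat_lit 3) (nat_lit 5) (nat_lit 5) (nat_lit 4) (nat_lit 3) (nat_lit 4) (nat_lit 324) (nat_lit 209) (nat_lit 187)) (XT.nd (nat_lit 78) (nat_lit 0) (nat_lit 0) (XT.lf (nat_lit 0) (nat_lit 37593868609) (nat_lit 152) (nat_lit 15990019907) (nat_lit 0) (nat_lit 31386388264) (nat_lit 3) (nat_lit 5) (nat_lit 5) (nat_lit 4) (nat_lit 3) (nat_lit 4) (nat_lit 325) (nat_lit 209) (nat_lit 186)) (XT.lf (nat_lit 0) (nat_lit 42557695566) (nat_lit 152) (nat_lit 10345383211) (nat_lit 0) (nat_lit 36207521080) (nat_lit 3) (nat_lit 5) (nat_lit 5) (nat_lit 4) (nat_lit 3) (nat_lit 4) (nat_lit 326) (nat_lit 209) (nat_lit 185)))) (XT.nd (nat_lit 78) (nat_lit 76) (nat_lit 0) (XT.lf (nat_lit 0) (nat_lit 47704123692) (nat_lit 152) (nat_lit 4537767507) (nat_lit 0) (nat_lit 41218050025) (nat_lit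 3) (nat_lit 5) (nat_lit 5) (nat_lit 4) (nat_lit 3) (nat_lit 4) (nat_lit 327) (nat_lit 209) (nat_lit 184)) (XT.nd (nat_lit 78) (nat_lit 0) (nat_lit 0) (XT.lf (nat_lit 0) (nat_lit 1475446127) (nat_lit 76) (nat_lit 51584143153) (nat_lit 76) (nat_lit 44968641694) (nat_lit 2) (nat_lit 4) (nat_lit 3) (nat_lit 5) (nat_lit 3) (nat_lit 4) (nat_lit 328) (nat_lit 209) (nat_lit 183)) (XT.lf (nat_lit 0) (nat_lit 7773827896) (nat_lit 76) (nat_lit 50895159890) (nat_lit 76) (nat_lit 44156393866) (nat_lit 2) (nat_lit 4) (nat_lit 3) (nat_lit 5) (nat_lit 3) (nat_lit 4) (nat_lit 329) (nat_lit 209) (nat_lit 182))))))))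
noncomputable def xc7 : XT := (XT.nd (nat_lit 36426) (nat_lit 0) (nat_lit 0) (XT.nd (nat_lit 35568) (nat_lit 0) (nat_lit 228) (XT.nd (nat_lit 390) (nat_lit 0) (nat_lit 0) (XT.nd (nat_lit 156) (nat_lit 0) (nat_lit 0) (XT.nd (nat_lit 78) (nat_lit 0) (nat_lit 0) (XT.lf (nat_lit 0) (nat_lit 14282063475) (nat_lit 76) (nat_lit 50219123528) (nat_lit 76) (nat_lit 43362962682) (nat_lit 2) (nat_lit 4) (nat_lit 3) (nat_lit 5) (nat_lit 3) (nat_lit 4) (nat_lit 330) (nat_lit 209) (nat_lit 181)) (XT.lf (nat_lit 0) (nat_lit 21015648664) (nat_lit 76) (nat_lit 49554424457) (nat_lit 76) (nat_lit 42586459019) (nat_lit 2) (nat_lit 4) (nat_lit 3) (nat_lit 5) (nat_lit 3) (nat_lit 4) (nat_lit 331) (nat_lit 209) (nat_lit 180))) (XT.nd (nat_lit 78) (nat_lit 0) (nat_lit 0) (XT.lf (nat_lit 0) (nat_lit 27990615808) (nat_lit 76) (nat_lit 48899480061) (nat_lit 76) (nat_lit 41825034058) (nat_lit 2) (nat_lit 4) (nat_lit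 3) (nat_lit 5) (nat_lit 3) (nat_lit 4) (nat_lit 332) (nat_lit 209) (nat_lit 179)) (XT.nd (nat_lit 78) (nat_lit 0) (nat_lit 0) (XT.lf (nat_lit 0) (nat_lit 35223571971) (nat_lit 76) (nat_lit 48252730948) (nat_lit 76) (nat_lit 41076874883) (nat_lit 2) (nat_lit 4) (nat_lit 3) (nat_lit 5) (nat_lit 3) (nat_lit 4) (nat_lit 333) (nat_lit 209) (nat_lit 178)) (XT.lf (nat_lit 0) (nat_lit 42731738478) (nat_lit 76) (nat_lit 47612637240) (nat_lit 76) (nat_lit 40340200163) (nat_lit 2) (nat_lit 4) (nat_lit 3) (nat_lit 5) (nat_lit 3) (nat_lit 4) (nat_lit 334) (nat_lit 209) (nat_lit 177))))) (XT.nd (nat_lit 34944) (nat_lit 0) (nat_lit 456) (XT.nd (nat_lit 34788) (nat_lit 0) (nat_lit 532) (XT.lf (nat_lit 0) (nat_lit 50532991916) (nat_lit 76) (nat_lit 46977674903) (nat_lit 76) (nat_lit 39613255911) (nat_lit 2) (nat_lit 4) (nat_lit 3) (nat_lit 5) (nat_lit 3) (nat_lit 4) (nat_lit 335) (nat_lit 209) (nat_lit 176))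 (XT.nd (nat_lit 78) (nat_lit 0) (nat_lit 0) (XT.lf (nat_lit 0) (nat_lit 199927922) (nat_lit 152) (nat_lit 13211999877) (nat_lit 0) (nat_lit 199927922) (nat_lit 9) (nat_lit 5) (nat_lit 11) (nat_lit 4) (nat_lit 9) (nat_lit 4) (nat_lit 300) (nat_lit 210) (nat_lit 210)) (XT.lf (nat_lit 0) (nat_lit 5949927961) (nat_lit 152) (nat_lit 16988247453) (nat_lit 0) (nat_lit 5461698742) (nat_lit 9) (nat_lit 5) (nat_lit 11) (nat_lit 4) (nat_lit 9) (nat_lit 4) (nat_lit 301) (nat_lit 210) (nat_lit 209)))) (XT.nd (nat_lit 78) (nat_lit 76) (nat_lit 0) (XT.lf (nat_lit 0) (nat_lit 11587218337) (nat_lit 152) (nat_lit 7419444129) (nat_lit 0) (nat_lit 10634008908) (nat_lit 9) (nat_lit 5) (nat_lit 11) (nat_lit 4) (nat_lit 9) (nat_lit 4) (nat_lit 302) (nat_lit 210) (nat_lit 208)) (XT.nd (nat_lit 78) (nat_lit 0) (nat_lit 0) (XT.lf (nat_lit 0) (nat_lit 2351070943) (nat_lit 76) (nat_lit 14996678081) (nat_lit 76) (nat_lit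 13600630358) (nat_lit 8) (nat_lit 4) (nat_lit 9) (nat_lit 5) (nat_lit 9) (nat_lit 4) (nat_lit 303) (nat_lit 210) (nat_lit 207)) (XT.lf (nat_lit 0) (nat_lit 12451797496) (nat_lit 76) (nat_lit 10845278766) (nat_lit 76) (nat_lit 9027480287) (nat_lit 8) (nat_lit 4) (nat_lit 9) (nat_lit 5) (nat_lit 9) (nat_lit 4) (nat_lit 304) (nat_lit 210) (nat_lit 206)))))) (XT.nd (nat_lit 390) (nat_lit 76) (nat_lit 0) (XT.nd (nat_lit 156) (nat_lit 76) (nat_lit 0) (XT.nd (nat_lit 78) (nat_lit 76) (nat_lit 0) (XT.lf (nat_lit 0) (nat_lit 22759123391) (nat_lit 76) (nat_lit 6617502076) (nat_lit 76) (nat_lit 4398036210) (nat_lit 8) (nat_lit 4) (nat_lit 9) (nat_lit 5) (nat_lit 9) (nat_lit 4) (nat_lit 305) (nat_lit 210) (nat_lit 205)) (XT.lf (nat_lit 0) (nat_lit 292895170) (nat_lit 152) (nat_lit 2007429038) (nat_lit 76) (nat_lit 33001737043) (nat_lit 7) (nat_lit 5) (nat_lit 9) (nat_lit 5) (nat_lit 8) (nat_lit 4) (nat_lit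 306) (nat_lit 210) (nat_lit 204))) (XT.nd (nat_lit 78) (nat_lit 0) (nat_lit 0) (XT.lf (nat_lit 0) (nat_lit 5066337859) (nat_lit 152) (nat_lit 29653703096) (nat_lit 0) (nat_lit 2186405436) (nat_lit 6) (nat_lit 5) (nat_lit 8) (nat_lit 4) (nat_lit 6) (nat_lit 4) (nat_lit 307) (nat_lit 210) (nat_lit 203)) (XT.nd (nat_lit 78) (nat_lit 0) (nat_lit 0) (XT.lf (nat_lit 0) (nat_lit 9972865456) (nat_lit 152) (nat_lit 21865374580) (nat_lit 0) (nat_lit 6756063722) (nat_lit 6) (nat_lit 5) (nat_lit 8) (nat_lit 4) (nat_lit 6) (nat_lit 4) (nat_lit 308) (nat_lit 210) (nat_lit 202)) (XT.lf (nat_lit 0) (nat_lit 14982172512) (nat_lit 152) (nat_lit 13944196317) (nat_lit 0) (nat_lit 11444542861) (nat_lit 6) (nat_lit 5) (nat_lit 8) (nat_lit 4) (nat_lit 6) (nat_lit 4) (nat_lit 309) (nat_lit 210) (nat_lit 201))))) (XT.nd (nat_lit 234) (nat_lit 0) (nat_lit 0) (XT.nd (nat_lit 78) (nat_lit 76) (nat_lit 0) (XT.lf (nat_lit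 0) (nat_lit 20106185947) (nat_lit 152) (nat_lit 5871308357) (nat_lit 0) (nat_lit 16263005901) (nat_lit 6) (nat_lit 5) (nat_lit 8) (nat_lit 4) (nat_lit 6) (nat_lit 4) (nat_lit 310) (nat_lit 210) (nat_lit 200)) (XT.nd (nat_lit 78) (nat_lit 0) (nat_lit 0) (XT.lf (nat_lit 0) (nat_lit 2419728070) (nat_lit 76) (nat_lit 22960637630) (nat_lit 76) (nat_lit 18826457206) (nat_lit 5) (nat_lit 4) (nat_lit 6) (nat_lit 5) (nat_lit 6) (nat_lit 4) (nat_lit 311) (nat_lit 210) (nat_lit 199)) (XT.lf (nat_lit 0) (nat_lit 11021966542) (nat_lit 76) (nat_lit 19831417585) (nat_lit 76) (nat_lit 15420093945) (nat_lit 5) (nat_lit 4) (nat_lit 6) (nat_lit 5) (nat_lit 6) (nat_lit 4) (nat_lit 312) (nat_lit 210) (nat_lit 198)))) (XT.nd (nat_lit 78) (nat_lit 0) (nat_lit 0) (XT.lf (nat_lit 0) (nat_lit 19839038030) (nat_lit 76) (nat_lit 16641672348) (nat_lit 76) (nat_lit 11966402788) (nat_lit 5) (nat_lit 4) (nat_lit 6) (nat_lit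 5) (nat_lit 6) (nat_lit 4) (nat_lit 313) (nat_lit 210) (nat_lit 197)) (XT.nd (nat_lit 78) (nat_lit 0) (nat_lit 0) (XT.lf (nat_lit 0) (nat_lit 28891935561) (nat_lit 76) (nat_lit 13383807288) (nat_lit 76) (nat_lit 8457160660) (nat_lit 5) (nat_lit 4) (nat_lit 6) (nat_lit 5) (nat_lit 6) (nat_lit 4) (nat_lit 314) (nat_lit 210) (nat_lit 196)) (XT.lf (nat_lit 0) (nat_lit 38202213653) (nat_lit 76) (nat_lit 10050065582) (nat_lit 76) (nat_lit 4884012224) (nat_lit 5) (nat_lit 4) (nat_lit 6) (nat_lit 5) (nat_lit 6) (nat_lit 4) (nat_lit 315) (nat_lit 210) (nat_lit 195))))))) (XT.nd (nat_lit 858) (nat_lit 76) (nat_lit 0) (XT.nd (nat_lit 390) (nat_lit 0) (nat_lit 0) (XT.nd (nat_lit 156) (nat_lit 76) (nat_lit 0) (XT.nd (nat_lit 78) (nat_lit 76) (nat_lit 0) (XT.lf (nat_lit 0) (nat_lit 47792039635) (nat_lit 76) (nat_lit 6632509751) (nat_lit 76) (nat_lit 1238449982) (nat_lit 5) (nat_lit 4) (nat_lit 6) (nat_lit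 5) (nat_lit 6) (nat_lit 4) (nat_lit 316) (nat_lit 210) (nat_lit 194)) (XT.lf (nat_lit 0) (nat_lit 2439652112) (nat_lit 152) (nat_lit 658714940) (nat_lit 76) (nat_lit 55219958611) (nat_lit 4) (nat_lit 5) (nat_lit 6) (nat_lit 5) (nat_lit 5) (nat_lit 4) (nat_lit 317) (nat_lit 210) (nat_lit 193))) (XT.nd (nat_lit 78) (nat_lit 0) (nat_lit 0) (XT.lf (nat_lit 0) (nat_lit 6253722208) (nat_lit 152) (nat_lit 54247887046) (nat_lit 0) (nat_lit 605161757) (nat_lit 3) (nat_lit 5) (nat_lit 5) (nat_lit 4) (nat_lit 3) (nat_lit 4) (nat_lit 318) (nat_lit 210) (nat_lit 192)) (XT.nd (nat_lit 78) (nat_lit 0) (nat_lit 0) (XT.lf (nat_lit 0) (nat_lit 10204324439) (nat_lit 152) (nat_lit 49467447589) (nat_lit 0) (nat_lit 4364540191) (nat_lit 3) (nat_lit 5) (nat_lit 5) (nat_lit 4) (nat_lit 3) (nat_lit 4) (nat_lit 319) (nat_lit 210) (nat_lit 191)) (XT.lf (nat_lit 0) (nat_lit 14264559669) (nat_lit 152) (nat_lit 44607796353)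 (nat_lit 0) (nat_lit 8242657521) (nat_lit 3) (nat_lit 5) (nat_lit 5) (nat_lit 4) (nat_lit 3) (nat_lit 4) (nat_lit 320) (nat_lit 210) (nat_lit 190))))) (XT.nd (nat_lit 234) (nat_lit 0) (nat_lit 0) (XT.nd (nat_lit 78) (nat_lit 0) (nat_lit 0) (XT.lf (nat_lit 0) (nat_lit 18444095126) (nat_lit 152) (nat_lit 39657362741) (nat_lit 0) (nat_lit 12248747359) (nat_lit 3) (nat_lit 5) (nat_lit 5) (nat_lit 4) (nat_lit 3) (nat_lit 4) (nat_lit 321) (nat_lit 210) (nat_lit 189)) (XT.nd (nat_lit 78) (nat_lit 0) (nat_lit 0) (XT.lf (nat_lit 0) (nat_lit 22752882086) (nat_lit 152) (nat_lit 34604360005) (nat_lit 0) (nat_lit 16392348013) (nat_lit 3) (nat_lit 5) (nat_lit 5) (nat_lit 4) (nat_lit 3) (nat_lit 4) (nat_lit 322) (nat_lit 210) (nat_lit 188)) (XT.lf (nat_lit 0) (nat_lit 27201179563) (nat_lit 152) (nat_lit 29436757187) (nat_lit 0) (nat_lit 20683325201) (nat_lit 3) (nat_lit 5) (nat_lit 5) (nat_lit 4) (nat_lit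 3) (nat_lit 4) (nat_lit 323) (nat_lit 210) (nat_lit 187)))) (XT.nd (nat_lit 78) (nat_lit 0) (nat_lit 0) (XT.lf (nat_lit 0) (nat_lit 31799578744) (nat_lit 152) (nat_lit 24142250470) (nat_lit 0) (nat_lit 25131895534) (nat_lit 3) (nat_lit 5) (nat_lit 5) (nat_lit 4) (nat_lit 3) (nat_lit 4) (nat_lit 324) (nat_lit 210) (nat_lit 186)) (XT.nd (nat_lit 78) (nat_lit 0) (nat_lit 0) (XT.lf (nat_lit 0) (nat_lit 36559028197) (nat_lit 152) (nat_lit 18708233887) (nat_lit 0) (nat_lit 29748650846) (nat_lit 3) (nat_lit 5) (nat_lit 5) (nat_lit 4) (nat_lit 3) (nat_lit 4) (nat_lit 325) (nat_lit 210) (nat_lit 185)) (XT.lf (nat_lit 0) (nat_lit 41490859945) (nat_lit 152) (nat_lit 13121769302) (nat_lit 0) (nat_lit 34544583413) (nat_lit 3) (nat_lit 5) (nat_lit 5) (nat_lit 4) (nat_lit 3) (nat_lit 4) (nat_lit 326) (nat_lit 210) (nat_lit 184)))))) (XT.nd (nat_lit 468) (nat_lit 0) (nat_lit 0) (XT.nd (nat_lit 234) (nat_lit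 0) (nat_lit 0) (XT.nd (nat_lit 78) (nat_lit 76) (nat_lit 0) (XT.lf (nat_lit 0) (nat_lit 46606816445) (nat_lit 152) (nat_lit 7369555609) (nat_lit 0) (nat_lit 39531112120) (nat_lit 3) (nat_lit 5) (nat_lit 5) (nat_lit 4) (nat_lit 3) (nat_lit 4) (nat_lit 327) (nat_lit 210) (nat_lit 183)) (XT.nd (nat_lit 78) (nat_lit 76) (nat_lit 0) (XT.lf (nat_lit 0) (nat_lit 51919078544) (nat_lit 152) (nat_lit 1437897062) (nat_lit 0) (nat_lit 44720109656) (nat_lit 3) (nat_lit 5) (nat_lit 5) (nat_lit 4) (nat_lit 3) (nat_lit 4) (nat_lit 328) (nat_lit 210) (nat_lit 182)) (XT.lf (nat_lit 0) (nat_lit 4780616380) (nat_lit 76) (nat_lit 52705632316) (nat_lit 76) (nat_lit 45389268605) (nat_lit 2) (nat_lit 4) (nat_lit 3) (nat_lit 5) (nat_lit 3) (nat_lit 4) (nat_lit 329) (nat_lit 210) (nat_lit 181)))) (XT.nd (nat_lit 78) (nat_lit 0) (nat_lit 0) (XT.lf (nat_lit 0) (nat_lit 11240041145) (nat_lit 76) (nat_lit 52051615032)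 (nat_lit 76) (nat_lit 44623446728) (nat_lit 2) (nat_lit 4) (nat_lit 3) (nat_lit 5) (nat_lit 3) (nat_lit 4) (nat_lit 330) (nat_lit 210) (nat_lit 180)) (XT.nd (nat_lit 78) (nat_lit 0) (nat_lit 0) (XT.lf (nat_lit 0) (nat_lit 17927139844) (nat_lit 76) (nat_lit 51407886512) (nat_lit 76) (nat_lit 43873237643) (nat_lit 2) (nat_lit 4) (nat_lit 3) (nat_lit 5) (nat_lit 3) (nat_lit 4) (nat_lit 331) (nat_lit 210) (nat_lit 179)) (XT.lf (nat_lit 0) (nat_lit 24857834140) (nat_lit 76) (nat_lit 50772914068) (nat_lit 76) (nat_lit 43136855138) (nat_lit 2) (nat_lit 4) (nat_lit 3) (nat_lit 5) (nat_lit 3) (nat_lit 4) (nat_lit 332) (nat_lit 210) (nat_lit 178))))) (XT.nd (nat_lit 34788) (nat_lit 0) (nat_lit 532) (XT.nd (nat_lit 78) (nat_lit 0) (nat_lit 0) (XT.lf (nat_lit 0) (nat_lit 32048625686) (nat_lit 76) (nat_lit 50145185863) (nat_lit 76) (nat_lit 42412545921) (nat_lit 2) (nat_lit 4) (nat_lit 3) (nat_lit 5)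 (nat_lit 3) (nat_lit 4) (nat_lit 333) (nat_lit 210) (nat_lit 177)) (XT.nd (nat_lit 78) (nat_lit 0) (nat_lit 0) (XT.lf (nat_lit 0) (nat_lit 39516635416) (nat_lit 76) (nat_lit 49523207304) (nat_lit 76) (nat_lit 41698585447) (nat_lit 2) (nat_lit 4) (nat_lit 3) (nat_lit 5) (nat_lit 3) (nat_lit 4) (nat_lit 334) (nat_lit 210) (nat_lit 176)) (XT.lf (nat_lit 0) (nat_lit 47279644303) (nat_lit 76) (nat_lit 48905497490) (nat_lit 76) (nat_lit 40993273809) (nat_lit 2) (nat_lit 4) (nat_lit 3) (nat_lit 5) (nat_lit 3) (nat_lit 4) (nat_lit 335) (nat_lit 210) (nat_lit 175)))) (XT.nd (nat_lit 78) (nat_lit 152) (nat_lit 0) (XT.lf (nat_lit 0) (nat_lit 2740314559) (nat_lit 76) (nat_lit 4889755661) (nat_lit 76) (nat_lit 4889755661) (nat_lit 11) (nat_lit 4) (nat_lit 12) (nat_lit 5) (nat_lit 12) (nat_lit 4) (nat_lit 298) (nat_lit 211) (nat_lit 211)) (XT.nd (nat_lit 78) (nat_lit 152) (nat_lit 0) (XT.lf (nat_lit 0)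 (nat_lit 16558518411) (nat_lit 76) (nat_lit 5036648232) (nat_lit 76) (nat_lit 4508628331) (nat_lit 11) (nat_lit 4) (nat_lit 12) (nat_lit 5) (nat_lit 12) (nat_lit 4) (nat_lit 299) (nat_lit 211) (nat_lit 210)) (XT.lf (nat_lit 0) (nat_lit 627320115) (nat_lit 76) (nat_lit 189535111) (nat_lit 152) (nat_lit 26409785800) (nat_lit 9) (nat_lit 5) (nat_lit 10) (nat_lit 5) (nat_lit 11) (nat_lit 4) (nat_lit 300) (nat_lit 211) (nat_lit 209))))))))
noncomputable def xc8 : XT := (XT.nd (nat_lit 1716) (nat_lit 76) (nat_lit 0) (XT.nd (nat_lit 858) (nat_lit 152) (nat_lit 0) (XT.nd (nat_lit 390) (nat_lit 228) (nat_lit 0) (XT.nd (nat_lit 156) (nat_lit 76) (nat_lit 0) (XT.nd (nat_lit 78) (nat_lit 0) (nat_lit 0) (XT.lf (nat_lit 0) (nat_lit 6272283296) (nat_lit 152) (nat_lit 17326984046) (nat_lit 0) (nat_lit 4806433187) (nat_lit 9) (nat_lit 5) (nat_lit 11) (nat_lit 4) (nat_lit 9) (nat_lit 4) (nat_lit 301) (nat_lit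 211) (nat_lit 208)) (XT.lf (nat_lit 0) (nat_lit 11821171652) (nat_lit 152) (nat_lit 7915549639) (nat_lit 0) (nat_lit 9912483249) (nat_lit 9) (nat_lit 5) (nat_lit 11) (nat_lit 4) (nat_lit 9) (nat_lit 4) (nat_lit 302) (nat_lit 211) (nat_lit 207))) (XT.nd (nat_lit 78) (nat_lit 0) (nat_lit 0) (XT.lf (nat_lit 0) (nat_lit 1692233993) (nat_lit 76) (nat_lit 15798942803) (nat_lit 76) (nat_lit 13468503644) (nat_lit 8) (nat_lit 4) (nat_lit 9) (nat_lit 5) (nat_lit 9) (nat_lit 4) (nat_lit 303) (nat_lit 211) (nat_lit 206)) (XT.nd (nat_lit 78) (nat_lit 0) (nat_lit 0) (XT.lf (nat_lit 0) (nat_lit 11647381529) (nat_lit 76) (nat_lit 11711539874) (nat_lit 76) (nat_lit 8979433328) (nat_lit 8) (nat_lit 4) (nat_lit 9) (nat_lit 5) (nat_lit 9) (nat_lit 4) (nat_lit 304) (nat_lit 211) (nat_lit 205)) (XT.lf (nat_lit 0) (nat_lit 21816060741) (nat_lit 76) (nat_lit 7544712123) (nat_lit 76) (nat_lit 4430065208) (nat_lit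 8) (nat_lit 4) (nat_lit 9) (nat_lit 5) (nat_lit 9) (nat_lit 4) (nat_lit 305) (nat_lit 211) (nat_lit 204))))) (XT.nd (nat_lit 234) (nat_lit 76) (nat_lit 0) (XT.nd (nat_lit 78) (nat_lit 76) (nat_lit 0) (XT.lf (nat_lit 0) (nat_lit 186716519) (nat_lit 152) (nat_lit 3099936541) (nat_lit 76) (nat_lit 32033880780) (nat_lit 7) (nat_lit 5) (nat_lit 9) (nat_lit 5) (nat_lit 8) (nat_lit 4) (nat_lit 306) (nat_lit 211) (nat_lit 203)) (XT.nd (nat_lit 78) (nat_lit 0) (nat_lit 0) (XT.lf (nat_lit 0) (nat_lit 4866849268) (nat_lit 152) (nat_lit 30908572511) (nat_lit 0) (nat_lit 1152338135) (nat_lit 6) (nat_lit 5) (nat_lit 8) (nat_lit 4) (nat_lit 6) (nat_lit 4) (nat_lit 307) (nat_lit 211) (nat_lit 202)) (XT.lf (nat_lit 0) (nat_lit 9703841781) (nat_lit 152) (nat_lit 23245398472) (nat_lit 0) (nat_lit 5668502733) (nat_lit 6) (nat_lit 5) (nat_lit 8) (nat_lit 4) (nat_lit 6) (nat_lit 4) (nat_lit 308) (nat_lit 211)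 (nat_lit 201)))) (XT.nd (nat_lit 78) (nat_lit 76) (nat_lit 0) (XT.lf (nat_lit 0) (nat_lit 14646924948) (nat_lit 152) (nat_lit 15443414948) (nat_lit 0) (nat_lit 10306035503) (nat_lit 6) (nat_lit 5) (nat_lit 8) (nat_lit 4) (nat_lit 6) (nat_lit 4) (nat_lit 309) (nat_lit 211) (nat_lit 200)) (XT.nd (nat_lit 78) (nat_lit 76) (nat_lit 0) (XT.lf (nat_lit 0) (nat_lit 19707868012) (nat_lit 152) (nat_lit 7484045788) (nat_lit 0) (nat_lit 15075978190) (nat_lit 6) (nat_lit 5) (nat_lit 8) (nat_lit 4) (nat_lit 6) (nat_lit 4) (nat_lit 310) (nat_lit 211) (nat_lit 199)) (XT.lf (nat_lit 0) (nat_lit 664629195) (nat_lit 76) (nat_lit 24240480466) (nat_lit 76) (nat_lit 19331447428) (nat_lit 5) (nat_lit 4) (nat_lit 6) (nat_lit 5) (nat_lit 6) (nat_lit 4) (nat_lit 311) (nat_lit 211) (nat_lit 198)))))) (XT.nd (nat_lit 390) (nat_lit 152) (nat_lit 0) (XT.nd (nat_lit 156) (nat_lit 0) (nat_lit 0) (XT.nd (nat_lit 78) (nat_lit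 0) (nat_lit 0) (XT.lf (nat_lit 0) (nat_lit 9161853566) (nat_lit 76) (nat_lit 21158058378) (nat_lit 76) (nat_lit 15985079419) (nat_lit 5) (nat_lit 4) (nat_lit 6) (nat_lit 5) (nat_lit 6) (nat_lit 4) (nat_lit 312) (nat_lit 211) (nat_lit 197)) (XT.lf (nat_lit 0) (nat_lit 17878911624) (nat_lit 76) (nat_lit 18012882623) (nat_lit 76) (nat_lit 12588526597) (nat_lit 5) (nat_lit 4) (nat_lit 6) (nat_lit 5) (nat_lit 6) (nat_lit 4) (nat_lit 313) (nat_lit 211) (nat_lit 196))) (XT.nd (nat_lit 78) (nat_lit 0) (nat_lit 0) (XT.lf (nat_lit 0) (nat_lit 26836558269) (nat_lit 76) (nat_lit 14797464688) (nat_lit 76) (nat_lit 9133701932) (nat_lit 5) (nat_lit 4) (nat_lit 6) (nat_lit 5) (nat_lit 6) (nat_lit 4) (nat_lit 314) (nat_lit 211) (nat_lit 195)) (XT.nd (nat_lit 78) (nat_lit 0) (nat_lit 0) (XT.lf (nat_lit 0) (nat_lit 36056121232) (nat_lit 76) (nat_lit 11504148816) (nat_lit 76) (nat_lit 5612379650) (nat_lit 5)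 (nat_lit 4) (nat_lit 6) (nat_lit 5) (nat_lit 6) (nat_lit 4) (nat_lit 315) (nat_lit 211) (nat_lit 194)) (XT.lf (nat_lit 0) (nat_lit 45559551853) (nat_lit 76) (nat_lit 8125093779) (nat_lit 76) (nat_lit 2016175651) (nat_lit 5) (nat_lit 4) (nat_lit 6) (nat_lit 5) (nat_lit 6) (nat_lit 4) (nat_lit 316) (nat_lit 211) (nat_lit 193))))) (XT.nd (nat_lit 234) (nat_lit 0) (nat_lit 0) (XT.nd (nat_lit 78) (nat_lit 76) (nat_lit 0) (XT.lf (nat_lit 0) (nat_lit 1631012116) (nat_lit 152) (nat_lit 3004772067) (nat_lit 76) (nat_lit 53721995207) (nat_lit 4) (nat_lit 5) (nat_lit 6) (nat_lit 5) (nat_lit 5) (nat_lit 4) (nat_lit 317) (nat_lit 211) (nat_lit 192)) (XT.nd (nat_lit 78) (nat_lit 0) (nat_lit 0) (XT.lf (nat_lit 0) (nat_lit 4391408826) (nat_lit 76) (nat_lit 980067035) (nat_lit 152) (nat_lit 55776980702) (nat_lit 3) (nat_lit 5) (nat_lit 4) (nat_lit 5) (nat_lit 5) (nat_lit 4) (nat_lit 318) (nat_lit 211) (nat_lit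 191)) (XT.lf (nat_lit 0) (nat_lit 9269780448) (nat_lit 152) (nat_lit 52045143469) (nat_lit 0) (nat_lit 2764665292) (nat_lit 3) (nat_lit 5) (nat_lit 5) (nat_lit 4) (nat_lit 3) (nat_lit 4) (nat_lit 319) (nat_lit 211) (nat_lit 190)))) (XT.nd (nat_lit 78) (nat_lit 0) (nat_lit 0) (XT.lf (nat_lit 0) (nat_lit 13289180784) (nat_lit 152) (nat_lit 47259736225) (nat_lit 0) (nat_lit 6610620008) (nat_lit 3) (nat_lit 5) (nat_lit 5) (nat_lit 4) (nat_lit 3) (nat_lit 4) (nat_lit 320) (nat_lit 211) (nat_lit 189)) (XT.nd (nat_lit 78) (nat_lit 0) (nat_lit 0) (XT.lf (nat_lit 0) (nat_lit 17429825865) (nat_lit 152) (nat_lit 42380011178) (nat_lit 0) (nat_lit 10586078784) (nat_lit 3) (nat_lit 5) (nat_lit 5) (nat_lit 4) (nat_lit 3) (nat_lit 4) (nat_lit 321) (nat_lit 211) (nat_lit 188)) (XT.lf (nat_lit 0) (nat_lit 21701574371) (nat_lit 152) (nat_lit 37394349932) (nat_lit 0) (nat_lit 14700507000) (nat_lit 3) (nat_lit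 5) (nat_lit 5) (nat_lit 4) (nat_lit 3) (nat_lit 4) (nat_lit 322) (nat_lit 211) (nat_lit 187))))))) (XT.nd (nat_lit 936) (nat_lit 0) (nat_lit 0) (XT.nd (nat_lit 390) (nat_lit 76) (nat_lit 0) (XT.nd (nat_lit 156) (nat_lit 0) (nat_lit 0) (XT.nd (nat_lit 78) (nat_lit 0) (nat_lit 0) (XT.lf (nat_lit 0) (nat_lit 26114597131) (nat_lit 152) (nat_lit 32290881866) (nat_lit 0) (nat_lit 18963700913) (nat_lit 3) (nat_lit 5) (nat_lit 5) (nat_lit 4) (nat_lit 3) (nat_lit 4) (nat_lit 323) (nat_lit 211) (nat_lit 186)) (XT.lf (nat_lit 0) (nat_lit 30679401343) (nat_lit 152) (nat_lit 27057455866) (nat_lit 0) (nat_lit 23385810984) (nat_lit 3) (nat_lit 5) (nat_lit 5) (nat_lit 4) (nat_lit 3) (nat_lit 4) (nat_lit 324) (nat_lit 211) (nat_lit 185))) (XT.nd (nat_lit 78) (nat_lit 0) (nat_lit 0) (XT.lf (nat_lit 0) (nat_lit 35406855587) (nat_lit 152) (nat_lit 21681611394) (nat_lit 0) (nat_lit 27977366047) (nat_lit 3) (nat_lit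 5) (nat_lit 5) (nat_lit 4) (nat_lit 3) (nat_lit 4) (nat_lit 325) (nat_lit 211) (nat_lit 184)) (XT.nd (nat_lit 78) (nat_lit 0) (nat_lit 0) (XT.lf (nat_lit 0) (nat_lit 40308215708) (nat_lit 152) (nat_lit 16150548819) (nat_lit 0) (nat_lit 32749298375) (nat_lit 3) (nat_lit 5) (nat_lit 5) (nat_lit 4) (nat_lit 3) (nat_lit 4) (nat_lit 326) (nat_lit 211) (nat_lit 183)) (XT.lf (nat_lit 0) (nat_lit 45395151610) (nat_lit 152) (nat_lit 10451098946) (nat_lit 0) (nat_lit 37712969714) (nat_lit 3) (nat_lit 5) (nat_lit 5) (nat_lit 4) (nat_lit 3) (nat_lit 4) (nat_lit 327) (nat_lit 211) (nat_lit 182))))) (XT.nd (nat_lit 234) (nat_lit 0) (nat_lit 0) (XT.nd (nat_lit 78) (nat_lit 76) (nat_lit 0) (XT.lf (nat_lit 0) (nat_lit 50679775045) (nat_lit 152) (nat_lit 4569691655) (nat_lit 0) (nat_lit 42880198326) (nat_lit 3) (nat_lit 5) (nat_lit 5) (nat_lit 4) (nat_lit 3) (nat_lit 4) (nat_lit 328) (nat_lit 211) (nat_lit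 181)) (XT.nd (nat_lit 78) (nat_lit 0) (nat_lit 0) (XT.lf (nat_lit 0) (nat_lit 1537682119) (nat_lit 76) (nat_lit 54651767473) (nat_lit 76) (nat_lit 46740386161) (nat_lit 2) (nat_lit 4) (nat_lit 3) (nat_lit 5) (nat_lit 3) (nat_lit 4) (nat_lit 329) (nat_lit 211) (nat_lit 180)) (XT.lf (nat_lit 0) (nat_lit 7950620394) (nat_lit 76) (nat_lit 54018720739) (nat_lit 76) (nat_lit 46000858862) (nat_lit 2) (nat_lit 4) (nat_lit 3) (nat_lit 5) (nat_lit 3) (nat_lit 4) (nat_lit 330) (nat_lit 211) (nat_lit 179)))) (XT.nd (nat_lit 78) (nat_lit 0) (nat_lit 0) (XT.lf (nat_lit 0) (nat_lit 14593446245) (nat_lit 76) (nat_lit 53394964172) (nat_lit 76) (nat_lit 45275692233) (nat_lit 2) (nat_lit 4) (nat_lit 3) (nat_lit 5) (nat_lit 3) (nat_lit 4) (nat_lit 331) (nat_lit 211) (nat_lit 178)) (XT.nd (nat_lit 78) (nat_lit 0) (nat_lit 0) (XT.lf (nat_lit 0) (nat_lit 21481975924) (nat_lit 76) (nat_lit 52779012635) (nat_lit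 76) (nat_lit 44563159686) (nat_lit 2) (nat_lit 4) (nat_lit 3) (nat_lit 5) (nat_lit 3) (nat_lit 4) (nat_lit 332) (nat_lit 211) (nat_lit 177)) (XT.lf (nat_lit 0) (nat_lit 28632610693) (nat_lit 76) (nat_lit 52169399580) (nat_lit 76) (nat_lit 43861564715) (nat_lit 2) (nat_lit 4) (nat_lit 3) (nat_lit 5) (nat_lit 3) (nat_lit 4) (nat_lit 333) (nat_lit 211) (nat_lit 176)))))) (XT.nd (nat_lit 34788) (nat_lit 0) (nat_lit 456) (XT.nd (nat_lit 34554) (nat_lit 0) (nat_lit 684) (XT.nd (nat_lit 34476) (nat_lit 0) (nat_lit 760) (XT.lf (nat_lit 0) (nat_lit 43788961378) (nat_lit 76) (nat_lit 50963394705) (nat_lit 76) (nat_lit 42484527708) (nat_lit 2) (nat_lit 4) (nat_lit 3) (nat_lit 5) (nat_lit 3) (nat_lit 4) (nat_lit 335) (nat_lit 211) (nat_lit 174)) (XT.lf (nat_lit 0) (nat_lit 1856529035) (nat_lit 152) (nat_lit 7822416670) (nat_lit 0) (nat_lit 1856529035) (nat_lit 12) (nat_lit 5) (nat_lit 14) (nat_lit 4)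 (nat_lit 12) (nat_lit 4) (nat_lit 296) (nat_lit 212) (nat_lit 212))) (XT.nd (nat_lit 78) (nat_lit 76) (nat_lit 0) (XT.lf (nat_lit 0) (nat_lit 9640285158) (nat_lit 152) (nat_lit 5304387570) (nat_lit 0) (nat_lit 9085864262) (nat_lit 12) (nat_lit 5) (nat_lit 14) (nat_lit 4) (nat_lit 12) (nat_lit 4) (nat_lit 297) (nat_lit 212) (nat_lit 211)) (XT.nd (nat_lit 78) (nat_lit 0) (nat_lit 0) (XT.lf (nat_lit 0) (nat_lit 5306373347) (nat_lit 76) (nat_lit 10409374440) (nat_lit 76) (nat_lit 9326933643) (nat_lit 11) (nat_lit 4) (nat_lit 12) (nat_lit 5) (nat_lit 12) (nat_lit 4) (nat_lit 298) (nat_lit 212) (nat_lit 210)) (XT.lf (nat_lit 0) (nat_lit 16218304761) (nat_lit 76) (nat_lit 5738361085) (nat_lit 76) (nat_lit 4153044193) (nat_lit 11) (nat_lit 4) (nat_lit 12) (nat_lit 5) (nat_lit 12) (nat_lit 4) (nat_lit 299) (nat_lit 212) (nat_lit 209))))) (XT.nd (nat_lit 234) (nat_lit 76) (nat_lit 0) (XT.nd (nat_lit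 78) (nat_lit 0) (nat_lit 0) (XT.lf (nat_lit 0) (nat_lit 107718861) (nat_lit 76) (nat_lit 962214817) (nat_lit 152) (nat_lit 26165444349) (nat_lit 9) (nat_lit 5) (nat_lit 10) (nat_lit 5) (nat_lit 11) (nat_lit 4) (nat_lit 300) (nat_lit 212) (nat_lit 208)) (XT.nd (nat_lit 78) (nat_lit 0) (nat_lit 0) (XT.lf (nat_lit 0) (nat_lit 6429532258) (nat_lit 152) (nat_lit 18005263747) (nat_lit 0) (nat_lit 3982571141) (nat_lit 9) (nat_lit 5) (nat_lit 11) (nat_lit 4) (nat_lit 9) (nat_lit 4) (nat_lit 301) (nat_lit 212) (nat_lit 207)) (XT.lf (nat_lit 0) (nat_lit 11894228216) (nat_lit 152) (nat_lit 8743704498) (nat_lit 0) (nat_lit 9025516342) (nat_lit 9) (nat_lit 5) (nat_lit 11) (nat_lit 4) (nat_lit 9) (nat_lit 4) (nat_lit 302) (nat_lit 212) (nat_lit 206)))) (XT.nd (nat_lit 78) (nat_lit 0) (nat_lit 0) (XT.lf (nat_lit 0) (nat_lit 702018211) (nat_lit 76) (nat_lit 16772513353) (nat_lit 76) (nat_lit 13502134092)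 (nat_lit 8) (nat_lit 4) (nat_lit 9) (nat_lit 5) (nat_lit 9) (nat_lit 4) (nat_lit 303) (nat_lit 212) (nat_lit 205)) (XT.nd (nat_lit 78) (nat_lit 0) (nat_lit 0) (XT.lf (nat_lit 0) (nat_lit 10518519063) (nat_lit 76) (nat_lit 12746059362) (nat_lit 76) (nat_lit 9093139733) (nat_lit 8) (nat_lit 4) (nat_lit 9) (nat_lit 5) (nat_lit 9) (nat_lit 4) (nat_lit 304) (nat_lit 212) (nat_lit 204)) (XT.lf (nat_lit 0) (nat_lit 20555153815) (nat_lit 76) (nat_lit 8637278219) (nat_lit 76) (nat_lit 4620034429) (nat_lit 8) (nat_lit 4) (nat_lit 9) (nat_lit 5) (nat_lit 9) (nat_lit 4) (nat_lit 305) (nat_lit 212) (nat_lit 203))))))))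
noncomputable def xc9 : XT := (XT.nd (nat_lit 1716) (nat_lit 76) (nat_lit 0) (XT.nd (nat_lit 858) (nat_lit 152) (nat_lit 0) (XT.nd (nat_lit 390) (nat_lit 76) (nat_lit 0) (XT.nd (nat_lit 156) (nat_lit 0) (nat_lit 0) (XT.nd (nat_lit 78) (nat_lit 152) (nat_lit 0) (XT.lf (nat_lit 0) (nat_lit 30835819215) (nat_lit 76) (nat_lit 4436387111) (nat_lit 76) (nat_lit 72167930) (nat_lit 8) (nat_lit 4) (nat_lit 9) (nat_lit 5) (nat_lit 9) (nat_lit 4) (nat_lit 306) (nat_lit 212) (nat_lit 202)) (XT.lf (nat_lit 0) (nat_lit 4471309564) (nat_lit 76) (nat_lit 43952257) (nat_lit 152) (nat_lit 32439222312) (nat_lit 6) (nat_lit 5) (nat_lit 7) (nat_lit 5) (nat_lit 8) (nat_lit 4) (nat_lit 307) (nat_lit 212) (nat_lit 201))) (XT.nd (nat_lit 78) (nat_lit 0) (nat_lit 0) (XT.lf (nat_lit 0) (nat_lit 9285607950) (nat_lit 152) (nat_lit 24938772775) (nat_lit 0) (nat_lit 4422123637) (nat_lit 6) (nat_lit 5) (nat_lit 8) (nat_lit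 4) (nat_lit 6) (nat_lit 4) (nat_lit 308) (nat_lit 212) (nat_lit 200)) (XT.nd (nat_lit 78) (nat_lit 0) (nat_lit 0) (XT.lf (nat_lit 0) (nat_lit 14165620745) (nat_lit 152) (nat_lit 17250308051) (nat_lit 0) (nat_lit 9011136055) (nat_lit 6) (nat_lit 5) (nat_lit 8) (nat_lit 4) (nat_lit 6) (nat_lit 4) (nat_lit 309) (nat_lit 212) (nat_lit 199)) (XT.lf (nat_lit 0) (nat_lit 19166496790) (nat_lit 152) (nat_lit 9399052034) (nat_lit 0) (nat_lit 13734868883) (nat_lit 6) (nat_lit 5) (nat_lit 8) (nat_lit 4) (nat_lit 6) (nat_lit 4) (nat_lit 310) (nat_lit 212) (nat_lit 198))))) (XT.nd (nat_lit 234) (nat_lit 0) (nat_lit 0) (XT.nd (nat_lit 78) (nat_lit 76) (nat_lit 0) (XT.lf (nat_lit 0) (nat_lit 24300142932) (nat_lit 152) (nat_lit 1366311257) (nat_lit 0) (nat_lit 18604569105) (nat_lit 6) (nat_lit 5) (nat_lit 8) (nat_lit 4) (nat_lit 6) (nat_lit 4) (nat_lit 311) (nat_lit 212) (nat_lit 197)) (XT.nd (nat_lit 78)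 (nat_lit 0) (nat_lit 0) (XT.lf (nat_lit 0) (nat_lit 7003707409) (nat_lit 76) (nat_lit 22642398648) (nat_lit 76) (nat_lit 16695447754) (nat_lit 5) (nat_lit 4) (nat_lit 6) (nat_lit 5) (nat_lit 6) (nat_lit 4) (nat_lit 312) (nat_lit 212) (nat_lit 196)) (XT.lf (nat_lit 0) (nat_lit 15625514582) (nat_lit 76) (nat_lit 19539670019) (nat_lit 76) (nat_lit 13353312394) (nat_lit 5) (nat_lit 4) (nat_lit 6) (nat_lit 5) (nat_lit 6) (nat_lit 4) (nat_lit 313) (nat_lit 212) (nat_lit 195)))) (XT.nd (nat_lit 78) (nat_lit 0) (nat_lit 0) (XT.lf (nat_lit 0) (nat_lit 24492446098) (nat_lit 76) (nat_lit 16364677918) (nat_lit 76) (nat_lit 9950313883) (nat_lit 5) (nat_lit 4) (nat_lit 6) (nat_lit 5) (nat_lit 6) (nat_lit 4) (nat_lit 314) (nat_lit 212) (nat_lit 194)) (XT.nd (nat_lit 78) (nat_lit 0) (nat_lit 0) (XT.lf (nat_lit 0) (nat_lit 33625613700) (nat_lit 76) (nat_lit 13109862841) (nat_lit 76) (nat_lit 6478349844)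 (nat_lit 5) (nat_lit 4) (nat_lit 6) (nat_lit 5) (nat_lit 6) (nat_lit 4) (nat_lit 315) (nat_lit 212) (nat_lit 193)) (XT.lf (nat_lit 0) (nat_lit 43046763024) (nat_lit 76) (nat_lit 9767475227) (nat_lit 76) (nat_lit 2929153695) (nat_lit 5) (nat_lit 4) (nat_lit 6) (nat_lit 5) (nat_lit 6) (nat_lit 4) (nat_lit 316) (nat_lit 212) (nat_lit 192)))))) (XT.nd (nat_lit 390) (nat_lit 0) (nat_lit 0) (XT.nd (nat_lit 156) (nat_lit 0) (nat_lit 0) (XT.nd (nat_lit 78) (nat_lit 76) (nat_lit 0) (XT.lf (nat_lit 0) (nat_lit 691953793) (nat_lit 152) (nat_lit 5630615841) (nat_lit 76) (nat_lit 52079384210) (nat_lit 4) (nat_lit 5) (nat_lit 6) (nat_lit 5) (nat_lit 5) (nat_lit 4) (nat_lit 317) (nat_lit 212) (nat_lit 191)) (XT.lf (nat_lit 0) (nat_lit 1636317210) (nat_lit 76) (nat_lit 2727811207) (nat_lit 152) (nat_lit 56830573782) (nat_lit 3) (nat_lit 5) (nat_lit 4) (nat_lit 5) (nat_lit 5) (nat_lit 4) (nat_lit 318) (nat_lit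 212) (nat_lit 190))) (XT.nd (nat_lit 78) (nat_lit 0) (nat_lit 0) (XT.lf (nat_lit 0) (nat_lit 8204797724) (nat_lit 152) (nat_lit 54903924327) (nat_lit 0) (nat_lit 1018863289) (nat_lit 3) (nat_lit 5) (nat_lit 5) (nat_lit 4) (nat_lit 3) (nat_lit 4) (nat_lit 319) (nat_lit 212) (nat_lit 189)) (XT.nd (nat_lit 78) (nat_lit 0) (nat_lit 0) (XT.lf (nat_lit 0) (nat_lit 12185307683) (nat_lit 152) (nat_lit 50189225649) (nat_lit 0) (nat_lit 4834186944) (nat_lit 3) (nat_lit 5) (nat_lit 5) (nat_lit 4) (nat_lit 3) (nat_lit 4) (nat_lit 320) (nat_lit 212) (nat_lit 188)) (XT.lf (nat_lit 0) (nat_lit 16288914311) (nat_lit 152) (nat_lit 45376842091) (nat_lit 0) (nat_lit 8780473282) (nat_lit 3) (nat_lit 5) (nat_lit 5) (nat_lit 4) (nat_lit 3) (nat_lit 4) (nat_lit 321) (nat_lit 212) (nat_lit 187))))) (XT.nd (nat_lit 234) (nat_lit 0) (nat_lit 0) (XT.nd (nat_lit 78) (nat_lit 0) (nat_lit 0) (XT.lf (nat_lit 0) (nat_lit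 20525388100) (nat_lit 152) (nat_lit 40455315597) (nat_lit 0) (nat_lit 12867118223) (nat_lit 3) (nat_lit 5) (nat_lit 5) (nat_lit 4) (nat_lit 3) (nat_lit 4) (nat_lit 322) (nat_lit 212) (nat_lit 186)) (XT.nd (nat_lit 78) (nat_lit 0) (nat_lit 0) (XT.lf (nat_lit 0) (nat_lit 24904815891) (nat_lit 152) (nat_lit 35412928248) (nat_lit 0) (nat_lit 17103851873) (nat_lit 3) (nat_lit 5) (nat_lit 5) (nat_lit 4) (nat_lit 3) (nat_lit 4) (nat_lit 323) (nat_lit 212) (nat_lit 185)) (XT.lf (nat_lit 0) (nat_lit 29437624894) (nat_lit 152) (nat_lit 30237674359) (nat_lit 0) (nat_lit 21500761694) (nat_lit 3) (nat_lit 5) (nat_lit 5) (nat_lit 4) (nat_lit 3) (nat_lit 4) (nat_lit 324) (nat_lit 212) (nat_lit 184)))) (XT.nd (nat_lit 78) (nat_lit 0) (nat_lit 0) (XT.lf (nat_lit 0) (nat_lit 34134607511) (nat_lit 152) (nat_lit 24917231897) (nat_lit 0) (nat_lit 26068316520) (nat_lit 3) (nat_lit 5) (nat_lit 5) (nat_lit 4) (nat_lit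 3) (nat_lit 4) (nat_lit 325) (nat_lit 212) (nat_lit 183)) (XT.nd (nat_lit 78) (nat_lit 0) (nat_lit 0) (XT.lf (nat_lit 0) (nat_lit 39006947034) (nat_lit 152) (nat_lit 19438933143) (nat_lit 0) (nat_lit 30817391479) (nat_lit 3) (nat_lit 5) (nat_lit 5) (nat_lit 4) (nat_lit 3) (nat_lit 4) (nat_lit 326) (nat_lit 212) (nat_lit 182)) (XT.lf (nat_lit 0) (nat_lit 44066244272) (nat_lit 152) (nat_lit 13789734526) (nat_lit 0) (nat_lit 35759293894) (nat_lit 3) (nat_lit 5) (nat_lit 5) (nat_lit 4) (nat_lit 3) (nat_lit 4) (nat_lit 327) (nat_lit 212) (nat_lit 181))))))) (XT.nd (nat_lit 35178) (nat_lit 0) (nat_lit 304) (XT.nd (nat_lit 390) (nat_lit 0) (nat_lit 0) (XT.nd (nat_lit 156) (nat_lit 76) (nat_lit 0) (XT.nd (nat_lit 78) (nat_lit 0) (nat_lit 0) (XT.lf (nat_lit 0) (nat_lit 49324545170) (nat_lit 152) (nat_lit 7956185575) (nat_lit 0) (nat_lit 40905790199) (nat_lit 3) (nat_lit 5) (nat_lit 5) (nat_lit 4)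 (nat_lit 3) (nat_lit 4) (nat_lit 328) (nat_lit 212) (nat_lit 180)) (XT.lf (nat_lit 0) (nat_lit 54794369492) (nat_lit 152) (nat_lit 1924396888) (nat_lit 0) (nat_lit 46269133957) (nat_lit 3) (nat_lit 5) (nat_lit 5) (nat_lit 4) (nat_lit 3) (nat_lit 4) (nat_lit 329) (nat_lit 212) (nat_lit 179))) (XT.nd (nat_lit 78) (nat_lit 0) (nat_lit 0) (XT.lf (nat_lit 0) (nat_lit 4405969267) (nat_lit 76) (nat_lit 56125124235) (nat_lit 76) (nat_lit 47498478638) (nat_lit 2) (nat_lit 4) (nat_lit 3) (nat_lit 5) (nat_lit 3) (nat_lit 4) (nat_lit 330) (nat_lit 212) (nat_lit 178)) (XT.nd (nat_lit 78) (nat_lit 0) (nat_lit 0) (XT.lf (nat_lit 0) (nat_lit 11006630502) (nat_lit 76) (nat_lit 55520388574) (nat_lit 76) (nat_lit 46797161966) (nat_lit 2) (nat_lit 4) (nat_lit 3) (nat_lit 5) (nat_lit 3) (nat_lit 4) (nat_lit 331) (nat_lit 212) (nat_lit 177)) (XT.lf (nat_lit 0) (nat_lit 17855003403) (nat_lit 76) (nat_lit 54922552188)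 (nat_lit 76) (nat_lit 46107343664) (nat_lit 2) (nat_lit 4) (nat_lit 3) (nat_lit 5) (nat_lit 3) (nat_lit 4) (nat_lit 332) (nat_lit 212) (nat_lit 176))))) (XT.nd (nat_lit 34554) (nat_lit 0) (nat_lit 760) (XT.nd (nat_lit 156) (nat_lit 0) (nat_lit 0) (XT.lf (nat_lit 0) (nat_lit 24967393621) (nat_lit 76) (nat_lit 54330191656) (nat_lit 76) (nat_lit 45427381308) (nat_lit 2) (nat_lit 4) (nat_lit 3) (nat_lit 5) (nat_lit 3) (nat_lit 4) (nat_lit 333) (nat_lit 212) (nat_lit 175)) (XT.nd (nat_lit 34320) (nat_lit 0) (nat_lit 912) (XT.lf (nat_lit 0) (nat_lit 40052631990) (nat_lit 76) (nat_lit 53156266304) (nat_lit 76) (nat_lit 44090568211) (nat_lit 2) (nat_lit 4) (nat_lit 3) (nat_lit 5) (nat_lit 3) (nat_lit 4) (nat_lit 335) (nat_lit 212) (nat_lit 173)) (XT.lf (nat_lit 0) (nat_lit 3500708183) (nat_lit 152) (nat_lit 3572988154) (nat_lit 152) (nat_lit 3572988154) (nat_lit 14) (nat_lit 4) (nat_lit 16) (nat_lit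 5) (nat_lit 16) (nat_lit 4) (nat_lit 294) (nat_lit 213) (nat_lit 213)))) (XT.nd (nat_lit 78) (nat_lit 152) (nat_lit 0) (XT.lf (nat_lit 0) (nat_lit 18517143251) (nat_lit 152) (nat_lit 2121747104) (nat_lit 152) (nat_lit 1522140905) (nat_lit 14) (nat_lit 4) (nat_lit 16) (nat_lit 5) (nat_lit 16) (nat_lit 4) (nat_lit 295) (nat_lit 213) (nat_lit 212)) (XT.nd (nat_lit 78) (nat_lit 0) (nat_lit 0) (XT.lf (nat_lit 0) (nat_lit 4193204590) (nat_lit 152) (nat_lit 15824231526) (nat_lit 0) (nat_lit 3056641753) (nat_lit 12) (nat_lit 5) (nat_lit 14) (nat_lit 4) (nat_lit 12) (nat_lit 4) (nat_lit 296) (nat_lit 213) (nat_lit 211)) (XT.lf (nat_lit 0) (nat_lit 10023293180) (nat_lit 152) (nat_lit 5654641168) (nat_lit 0) (nat_lit 8358710443) (nat_lit 12) (nat_lit 5) (nat_lit 14) (nat_lit 4) (nat_lit 12) (nat_lit 4) (nat_lit 297) (nat_lit 213) (nat_lit 210)))))) (XT.nd (nat_lit 390) (nat_lit 228) (nat_lit 0) (XT.nd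 (nat_lit 156) (nat_lit 152) (nat_lit 0) (XT.nd (nat_lit 78) (nat_lit 0) (nat_lit 0) (XT.lf (nat_lit 0) (nat_lit 4783191138) (nat_lit 76) (nat_lit 11218022671) (nat_lit 76) (nat_lit 9050563838) (nat_lit 11) (nat_lit 4) (nat_lit 12) (nat_lit 5) (nat_lit 12) (nat_lit 4) (nat_lit 298) (nat_lit 213) (nat_lit 209)) (XT.lf (nat_lit 0) (nat_lit 15537067431) (nat_lit 76) (nat_lit 6615437635) (nat_lit 76) (nat_lit 3969049187) (nat_lit 11) (nat_lit 4) (nat_lit 12) (nat_lit 5) (nat_lit 12) (nat_lit 4) (nat_lit 299) (nat_lit 213) (nat_lit 208))) (XT.nd (nat_lit 78) (nat_lit 76) (nat_lit 0) (XT.lf (nat_lit 0) (nat_lit 1163043549) (nat_lit 152) (nat_lit 741533486) (nat_lit 76) (nat_lit 25345265720) (nat_lit 10) (nat_lit 5) (nat_lit 12) (nat_lit 5) (nat_lit 11) (nat_lit 4) (nat_lit 300) (nat_lit 213) (nat_lit 207)) (XT.nd (nat_lit 78) (nat_lit 0) (nat_lit 0) (XT.lf (nat_lit 0) (nat_lit 6422049251) (nat_lit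 152) (nat_lit 19024701509) (nat_lit 0) (nat_lit 2988151027) (nat_lit 9) (nat_lit 5) (nat_lit 11) (nat_lit 4) (nat_lit 9) (nat_lit 4) (nat_lit 301) (nat_lit 213) (nat_lit 206)) (XT.lf (nat_lit 0) (nat_lit 11806561972) (nat_lit 152) (nat_lit 9905880506) (nat_lit 0) (nat_lit 7970996361) (nat_lit 9) (nat_lit 5) (nat_lit 11) (nat_lit 4) (nat_lit 9) (nat_lit 4) (nat_lit 302) (nat_lit 213) (nat_lit 205))))) (XT.nd (nat_lit 234) (nat_lit 152) (nat_lit 0) (XT.nd (nat_lit 78) (nat_lit 76) (nat_lit 0) (XT.lf (nat_lit 0) (nat_lit 17303752103) (nat_lit 152) (nat_lit 609797887) (nat_lit 0) (nat_lit 13085646124) (nat_lit 9) (nat_lit 5) (nat_lit 11) (nat_lit 4) (nat_lit 9) (nat_lit 4) (nat_lit 303) (nat_lit 213) (nat_lit 204)) (XT.nd (nat_lit 78) (nat_lit 0) (nat_lit 0) (XT.lf (nat_lit 0) (nat_lit 9062522331) (nat_lit 76) (nat_lit 13951300372) (nat_lit 76) (nat_lit 9368870231) (nat_lit 8) (nat_lit 4) (nat_lit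 9) (nat_lit 5) (nat_lit 9) (nat_lit 4) (nat_lit 304) (nat_lit 213) (nat_lit 203)) (XT.lf (nat_lit 0) (nat_lit 18973400454) (nat_lit 76) (nat_lit 9897801713) (nat_lit 76) (nat_lit 4968396181) (nat_lit 8) (nat_lit 4) (nat_lit 9) (nat_lit 5) (nat_lit 9) (nat_lit 4) (nat_lit 305) (nat_lit 213) (nat_lit 202)))) (XT.nd (nat_lit 78) (nat_lit 152) (nat_lit 0) (XT.lf (nat_lit 0) (nat_lit 29134297637) (nat_lit 76) (nat_lit 5749560589) (nat_lit 76) (nat_lit 489702305) (nat_lit 8) (nat_lit 4) (nat_lit 9) (nat_lit 5) (nat_lit 9) (nat_lit 4) (nat_lit 306) (nat_lit 213) (nat_lit 201)) (XT.nd (nat_lit 78) (nat_lit 0) (nat_lit 0) (XT.lf (nat_lit 0) (nat_lit 2592565988) (nat_lit 76) (nat_lit 1430656268) (nat_lit 152) (nat_lit 32963085907) (nat_lit 6) (nat_lit 5) (nat_lit 7) (nat_lit 5) (nat_lit 8) (nat_lit 4) (nat_lit 307) (nat_lit 213) (nat_lit 200)) (XT.lf (nat_lit 0) (nat_lit 8717168167) (nat_lit 152)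 (nat_lit 26949529333) (nat_lit 0) (nat_lit 3013958864) (nat_lit 6) (nat_lit 5) (nat_lit 8) (nat_lit 4) (nat_lit 6) (nat_lit 4) (nat_lit 308) (nat_lit 213) (nat_lit 199))))))))
noncomputable def xc10 : XT := (XT.nd (nat_lit 1716) (nat_lit 0) (nat_lit 0) (XT.nd (nat_lit 858) (nat_lit 76) (nat_lit 0) (XT.nd (nat_lit 390) (nat_lit 152) (nat_lit 0) (XT.nd (nat_lit 156) (nat_lit 76) (nat_lit 0) (XT.nd (nat_lit 78) (nat_lit 0) (nat_lit 0) (XT.lf (nat_lit 0) (nat_lit 13537113942) (nat_lit 152) (nat_lit 19369177752) (nat_lit 0) (nat_lit 7556761424) (nat_lit 6) (nat_lit 5) (nat_lit 8) (nat_lit 4) (nat_lit 6) (nat_lit 4) (nat_lit 309) (nat_lit 213) (nat_lit 198)) (XT.lf (nat_lit 0) (nat_lit 18480783302) (nat_lit 152) (nat_lit 11620886633) (nat_lit 0) (nat_lit 12236484863) (nat_lit 6) (nat_lit 5) (nat_lit 8) (nat_lit 4) (nat_lit 6) (nat_lit 4) (nat_lit 310) (nat_lit 213) (nat_lit 197))) (XT.nd (nat_lit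 78) (nat_lit 76) (nat_lit 0) (XT.lf (nat_lit 0) (nat_lit 23559946886) (nat_lit 152) (nat_lit 3686207664) (nat_lit 0) (nat_lit 17064271380) (nat_lit 6) (nat_lit 5) (nat_lit 8) (nat_lit 4) (nat_lit 6) (nat_lit 4) (nat_lit 311) (nat_lit 213) (nat_lit 196)) (XT.nd (nat_lit 78) (nat_lit 0) (nat_lit 0) (XT.lf (nat_lit 0) (nat_lit 4542389630) (nat_lit 76) (nat_lit 24287972539) (nat_lit 76) (nat_lit 17552890303) (nat_lit 5) (nat_lit 4) (nat_lit 6) (nat_lit 5) (nat_lit 6) (nat_lit 4) (nat_lit 312) (nat_lit 213) (nat_lit 195)) (XT.lf (nat_lit 0) (nat_lit 13073481673) (nat_lit 76) (nat_lit 21225669744) (nat_lit 76) (nat_lit 14262581098) (nat_lit 5) (nat_lit 4) (nat_lit 6) (nat_lit 5) (nat_lit 6) (nat_lit 4) (nat_lit 313) (nat_lit 213) (nat_lit 194))))) (XT.nd (nat_lit 234) (nat_lit 152) (nat_lit 0) (XT.nd (nat_lit 78) (nat_lit 0) (nat_lit 0) (XT.lf (nat_lit 0) (nat_lit 21854017828) (nat_lit 76) (nat_lit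 18089178438) (nat_lit 76) (nat_lit 10908940829) (nat_lit 5) (nat_lit 4) (nat_lit 6) (nat_lit 5) (nat_lit 6) (nat_lit 4) (nat_lit 314) (nat_lit 213) (nat_lit 193)) (XT.nd (nat_lit 78) (nat_lit 0) (nat_lit 0) (XT.lf (nat_lit 0) (nat_lit 30904904134) (nat_lit 76) (nat_lit 14871030784) (nat_lit 76) (nat_lit 7483984640) (nat_lit 5) (nat_lit 4) (nat_lit 6) (nat_lit 5) (nat_lit 6) (nat_lit 4) (nat_lit 315) (nat_lit 213) (nat_lit 192)) (XT.lf (nat_lit 0) (nat_lit 40247690319) (nat_lit 76) (nat_lit 11563564525) (nat_lit 76) (nat_lit 3979557872) (nat_lit 5) (nat_lit 4) (nat_lit 6) (nat_lit 5) (nat_lit 6) (nat_lit 4) (nat_lit 316) (nat_lit 213) (nat_lit 191)))) (XT.nd (nat_lit 78) (nat_lit 152) (nat_lit 0) (XT.lf (nat_lit 0) (nat_lit 49904621113) (nat_lit 76) (nat_lit 8158904743) (nat_lit 76) (nat_lit 387316652) (nat_lit 5) (nat_lit 4) (nat_lit 6) (nat_lit 5) (nat_lit 6) (nat_lit 4) (nat_lit 317) (nat_lit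 213) (nat_lit 190)) (XT.nd (nat_lit 78) (nat_lit 76) (nat_lit 0) (XT.lf (nat_lit 0) (nat_lit 3236871877) (nat_lit 152) (nat_lit 1379387167) (nat_lit 76) (nat_lit 56629131271) (nat_lit 4) (nat_lit 5) (nat_lit 6) (nat_lit 5) (nat_lit 5) (nat_lit 4) (nat_lit 318) (nat_lit 213) (nat_lit 189)) (XT.lf (nat_lit 0) (nat_lit 6120961897) (nat_lit 76) (nat_lit 894476955) (nat_lit 152) (nat_lit 57164718091) (nat_lit 3) (nat_lit 5) (nat_lit 4) (nat_lit 5) (nat_lit 5) (nat_lit 4) (nat_lit 319) (nat_lit 213) (nat_lit 188)))))) (XT.nd (nat_lit 390) (nat_lit 76) (nat_lit 0) (XT.nd (nat_lit 156) (nat_lit 0) (nat_lit 0) (XT.nd (nat_lit 78) (nat_lit 0) (nat_lit 0) (XT.lf (nat_lit 0) (nat_lit 10950312098) (nat_lit 152) (nat_lit 53403239598) (nat_lit 0) (nat_lit 2909128728) (nat_lit 3) (nat_lit 5) (nat_lit 5) (nat_lit 4) (nat_lit 3) (nat_lit 4) (nat_lit 320) (nat_lit 213) (nat_lit 187)) (XT.lf (nat_lit 0) (nat_lit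 15018644009) (nat_lit 152) (nat_lit 48654990792) (nat_lit 0) (nat_lit 6827631790) (nat_lit 3) (nat_lit 5) (nat_lit 5) (nat_lit 4) (nat_lit 3) (nat_lit 4) (nat_lit 321) (nat_lit 213) (nat_lit 186))) (XT.nd (nat_lit 78) (nat_lit 0) (nat_lit 0) (XT.lf (nat_lit 0) (nat_lit 19221522828) (nat_lit 152) (nat_lit 43794545015) (nat_lit 0) (nat_lit 10887816469) (nat_lit 3) (nat_lit 5) (nat_lit 5) (nat_lit 4) (nat_lit 3) (nat_lit 4) (nat_lit 322) (nat_lit 213) (nat_lit 185)) (XT.nd (nat_lit 78) (nat_lit 0) (nat_lit 0) (XT.lf (nat_lit 0) (nat_lit 23568955410) (nat_lit 152) (nat_lit 38810329777) (nat_lit 0) (nat_lit 15099349870) (nat_lit 3) (nat_lit 5) (nat_lit 5) (nat_lit 4) (nat_lit 3) (nat_lit 4) (nat_lit 323) (nat_lit 213) (nat_lit 184)) (XT.lf (nat_lit 0) (nat_lit 28071292786) (nat_lit 152) (nat_lit 33690477899) (nat_lit 0) (nat_lit 19472259453) (nat_lit 3) (nat_lit 5) (nat_lit 5) (nat_lit 4) (nat_lit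 3) (nat_lit 4) (nat_lit 324) (nat_lit 213) (nat_lit 183))))) (XT.nd (nat_lit 234) (nat_lit 76) (nat_lit 0) (XT.nd (nat_lit 78) (nat_lit 0) (nat_lit 0) (XT.lf (nat_lit 0) (nat_lit 32739254806) (nat_lit 152) (nat_lit 28422799256) (nat_lit 0) (nat_lit 24016956909) (nat_lit 3) (nat_lit 5) (nat_lit 5) (nat_lit 4) (nat_lit 3) (nat_lit 4) (nat_lit 325) (nat_lit 213) (nat_lit 182)) (XT.nd (nat_lit 78) (nat_lit 0) (nat_lit 0) (XT.lf (nat_lit 0) (nat_lit 37583955665) (nat_lit 152) (nat_lit 22994751758) (nat_lit 0) (nat_lit 28744262946) (nat_lit 3) (nat_lit 5) (nat_lit 5) (nat_lit 4) (nat_lit 3) (nat_lit 4) (nat_lit 326) (nat_lit 213) (nat_lit 181)) (XT.lf (nat_lit 0) (nat_lit 42616930365) (nat_lit 152) (nat_lit 17393411481) (nat_lit 0) (nat_lit 33665433053) (nat_lit 3) (nat_lit 5) (nat_lit 5) (nat_lit 4) (nat_lit 3) (nat_lit 4) (nat_lit 327) (nat_lit 213) (nat_lit 180)))) (XT.nd (nat_lit 78) (nat_lit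 76) (nat_lit 0) (XT.lf (nat_lit 0) (nat_lit 47850162180) (nat_lit 152) (nat_lit 11605441902) (nat_lit 0) (nat_lit 38792184303) (nat_lit 3) (nat_lit 5) (nat_lit 5) (nat_lit 4) (nat_lit 3) (nat_lit 4) (nat_lit 328) (nat_lit 213) (nat_lit 179)) (XT.nd (nat_lit 78) (nat_lit 76) (nat_lit 0) (XT.lf (nat_lit 0) (nat_lit 53296111185) (nat_lit 152) (nat_lit 5617062139) (nat_lit 0) (nat_lit 44136723247) (nat_lit 3) (nat_lit 5) (nat_lit 5) (nat_lit 4) (nat_lit 3) (nat_lit 4) (nat_lit 329) (nat_lit 213) (nat_lit 178)) (XT.lf (nat_lit 0) (nat_lit 597648120) (nat_lit 76) (nat_lit 58375840765) (nat_lit 76) (nat_lit 49119871815) (nat_lit 2) (nat_lit 4) (nat_lit 3) (nat_lit 5) (nat_lit 3) (nat_lit 4) (nat_lit 330) (nat_lit 213) (nat_lit 177))))))) (XT.nd (nat_lit 35022) (nat_lit 0) (nat_lit 304) (XT.nd (nat_lit 34554) (nat_lit 0) (nat_lit 684) (XT.nd (nat_lit 156) (nat_lit 0) (nat_lit 0) (XT.nd (nat_lit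 78) (nat_lit 0) (nat_lit 0) (XT.lf (nat_lit 0) (nat_lit 7158152577) (nat_lit 76) (nat_lit 57789220254) (nat_lit 76) (nat_lit 48441269389) (nat_lit 2) (nat_lit 4) (nat_lit 3) (nat_lit 5) (nat_lit 3) (nat_lit 4) (nat_lit 331) (nat_lit 213) (nat_lit 176)) (XT.lf (nat_lit 0) (nat_lit 13968280928) (nat_lit 76) (nat_lit 57208636391) (nat_lit 76) (nat_lit 47773083702) (nat_lit 2) (nat_lit 4) (nat_lit 3) (nat_lit 5) (nat_lit 3) (nat_lit 4) (nat_lit 332) (nat_lit 213) (nat_lit 175))) (XT.nd (nat_lit 156) (nat_lit 0) (nat_lit 0) (XT.lf (nat_lit 0) (nat_lit 21044247765) (nat_lit 76) (nat_lit 56632706834) (nat_lit 76) (nat_lit 47113723836) (nat_lit 2) (nat_lit 4) (nat_lit 3) (nat_lit 5) (nat_lit 3) (nat_lit 4) (nat_lit 333) (nat_lit 213) (nat_lit 174)) (XT.nd (nat_lit 34164) (nat_lit 0) (nat_lit 1064) (XT.lf (nat_lit 0) (nat_lit 36061760118) (nat_lit 76) (nat_lit 55489333408) (nat_lit 76) (nat_lit 45815219224)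 (nat_lit 2) (nat_lit 4) (nat_lit 3) (nat_lit 5) (nat_lit 3) (nat_lit 4) (nat_lit 335) (nat_lit 213) (nat_lit 172)) (XT.lf (nat_lit 0) (nat_lit 1177856485) (nat_lit 152) (nat_lit 7489743290) (nat_lit 0) (nat_lit 1177856485) (nat_lit 16) (nat_lit 5) (nat_lit 18) (nat_lit 4) (nat_lit 16) (nat_lit 4) (nat_lit 292) (nat_lit 214) (nat_lit 214))))) (XT.nd (nat_lit 234) (nat_lit 228) (nat_lit 0) (XT.nd (nat_lit 78) (nat_lit 152) (nat_lit 0) (XT.lf (nat_lit 0) (nat_lit 8434135395) (nat_lit 152) (nat_lit 4233298315) (nat_lit 0) (nat_lit 7804548886) (nat_lit 16) (nat_lit 5) (nat_lit 18) (nat_lit 4) (nat_lit 16) (nat_lit 4) (nat_lit 293) (nat_lit 214) (nat_lit 213)) (XT.nd (nat_lit 78) (nat_lit 0) (nat_lit 0) (XT.lf (nat_lit 0) (nat_lit 6821325139) (nat_lit 152) (nat_lit 7852207035) (nat_lit 152) (nat_lit 6623014327) (nat_lit 14) (nat_lit 4) (nat_lit 16) (nat_lit 5) (nat_lit 16) (nat_lit 4) (nat_lit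 294) (nat_lit 214) (nat_lit 212)) (XT.lf (nat_lit 0) (nat_lit 18165536570) (nat_lit 152) (nat_lit 2900972324) (nat_lit 152) (nat_lit 1100726094) (nat_lit 14) (nat_lit 4) (nat_lit 16) (nat_lit 5) (nat_lit 16) (nat_lit 4) (nat_lit 295) (nat_lit 214) (nat_lit 211)))) (XT.nd (nat_lit 78) (nat_lit 76) (nat_lit 0) (XT.lf (nat_lit 0) (nat_lit 4498224517) (nat_lit 152) (nat_lit 16362853218) (nat_lit 0) (nat_lit 2222392742) (nat_lit 12) (nat_lit 5) (nat_lit 14) (nat_lit 4) (nat_lit 12) (nat_lit 4) (nat_lit 296) (nat_lit 214) (nat_lit 210)) (XT.nd (nat_lit 78) (nat_lit 76) (nat_lit 0) (XT.lf (nat_lit 0) (nat_lit 10235800254) (nat_lit 152) (nat_lit 6355982302) (nat_lit 0) (nat_lit 7457092383) (nat_lit 12) (nat_lit 5) (nat_lit 14) (nat_lit 4) (nat_lit 12) (nat_lit 4) (nat_lit 297) (nat_lit 214) (nat_lit 209)) (XT.lf (nat_lit 0) (nat_lit 3909836819) (nat_lit 76) (nat_lit 12207381368) (nat_lit 76) (nat_lit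 8949743881) (nat_lit 11) (nat_lit 4) (nat_lit 12) (nat_lit 5) (nat_lit 12) (nat_lit 4) (nat_lit 298) (nat_lit 214) (nat_lit 208)))))) (XT.nd (nat_lit 390) (nat_lit 228) (nat_lit 0) (XT.nd (nat_lit 156) (nat_lit 76) (nat_lit 0) (XT.nd (nat_lit 78) (nat_lit 76) (nat_lit 0) (XT.lf (nat_lit 0) (nat_lit 14513184424) (nat_lit 76) (nat_lit 7669966160) (nat_lit 76) (nat_lit 3956205231) (nat_lit 11) (nat_lit 4) (nat_lit 12) (nat_lit 5) (nat_lit 12) (nat_lit 4) (nat_lit 299) (nat_lit 214) (nat_lit 207)) (XT.lf (nat_lit 0) (nat_lit 1093485186) (nat_lit 152) (nat_lit 1928389279) (nat_lit 76) (nat_lit 24248282825) (nat_lit 10) (nat_lit 5) (nat_lit 12) (nat_lit 5) (nat_lit 11) (nat_lit 4) (nat_lit 300) (nat_lit 214) (nat_lit 206))) (XT.nd (nat_lit 78) (nat_lit 0) (nat_lit 0) (XT.lf (nat_lit 0) (nat_lit 6249816457) (nat_lit 152) (nat_lit 20387724563) (nat_lit 0) (nat_lit 1820805179) (nat_lit 9) (nat_lit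 5) (nat_lit 11) (nat_lit 4) (nat_lit 9) (nat_lit 4) (nat_lit 301) (nat_lit 214) (nat_lit 205)) (XT.nd (nat_lit 78) (nat_lit 0) (nat_lit 0) (XT.lf (nat_lit 0) (nat_lit 11557964190) (nat_lit 152) (nat_lit 11404844748) (nat_lit 0) (nat_lit 6746412543) (nat_lit 9) (nat_lit 5) (nat_lit 11) (nat_lit 4) (nat_lit 9) (nat_lit 4) (nat_lit 302) (nat_lit 214) (nat_lit 204)) (XT.lf (nat_lit 0) (nat_lit 16982425762) (nat_lit 152) (nat_lit 2238229926) (nat_lit 0) (nat_lit 11806549954) (nat_lit 9) (nat_lit 5) (nat_lit 11) (nat_lit 4) (nat_lit 9) (nat_lit 4) (nat_lit 303) (nat_lit 214) (nat_lit 203))))) (XT.nd (nat_lit 234) (nat_lit 152) (nat_lit 0) (XT.nd (nat_lit 78) (nat_lit 0) (nat_lit 0) (XT.lf (nat_lit 0) (nat_lit 7275924673) (nat_lit 76) (nat_lit 15330132524) (nat_lit 76) (nat_lit 9807281325) (nat_lit 8) (nat_lit 4) (nat_lit 9) (nat_lit 5) (nat_lit 9) (nat_lit 4) (nat_lit 304) (nat_lit 214) (nat_lit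 202)) (XT.nd (nat_lit 78) (nat_lit 0) (nat_lit 0) (XT.lf (nat_lit 0) (nat_lit 17067034578) (nat_lit 76) (nat_lit 11329283849) (nat_lit 76) (nat_lit 5475979897) (nat_lit 8) (nat_lit 4) (nat_lit 9) (nat_lit 5) (nat_lit 9) (nat_lit 4) (nat_lit 305) (nat_lit 214) (nat_lit 201)) (XT.lf (nat_lit 0) (nat_lit 27113866792) (nat_lit 76) (nat_lit 7231185569) (nat_lit 76) (nat_lit 1063164708) (nat_lit 8) (nat_lit 4) (nat_lit 9) (nat_lit 5) (nat_lit 9) (nat_lit 4) (nat_lit 306) (nat_lit 214) (nat_lit 200)))) (XT.nd (nat_lit 78) (nat_lit 0) (nat_lit 0) (XT.lf (nat_lit 0) (nat_lit 390119834) (nat_lit 76) (nat_lit 2988141782) (nat_lit 152) (nat_lit 33645385082) (nat_lit 6) (nat_lit 5) (nat_lit 7) (nat_lit 5) (nat_lit 8) (nat_lit 4) (nat_lit 307) (nat_lit 214) (nat_lit 199)) (XT.nd (nat_lit 78) (nat_lit 0) (nat_lit 0) (XT.lf (nat_lit 0) (nat_lit 7997169004) (nat_lit 152) (nat_lit 29282455662) (nat_lit 0)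 (nat_lit 1440655643) (nat_lit 6) (nat_lit 5) (nat_lit 8) (nat_lit 4) (nat_lit 6) (nat_lit 4) (nat_lit 308) (nat_lit 214) (nat_lit 198)) (XT.lf (nat_lit 0) (nat_lit 12759908094) (nat_lit 152) (nat_lit 21805068980) (nat_lit 0) (nat_lit 5939448813) (nat_lit 6) (nat_lit 5) (nat_lit 8) (nat_lit 4) (nat_lit 6) (nat_lit 4) (nat_lit 309) (nat_lit 214) (nat_lit 197))))))))
noncomputable def xc11 : XT := (XT.nd (nat_lit 1716) (nat_lit 0) (nat_lit 0) (XT.nd (nat_lit 858) (nat_lit 76) (nat_lit 0) (XT.nd (nat_lit 390) (nat_lit 152) (nat_lit 0) (XT.nd (nat_lit 156) (nat_lit 76) (nat_lit 0) (XT.nd (nat_lit 78) (nat_lit 0) (nat_lit 0) (XT.lf (nat_lit 0) (nat_lit 17649094896) (nat_lit 152) (nat_lit 14154839668) (nat_lit 0) (nat_lit 10577258547) (nat_lit 6) (nat_lit 5) (nat_lit 8) (nat_lit 4) (nat_lit 6) (nat_lit 4) (nat_lit 310) (nat_lit 214) (nat_lit 196)) (XT.lf (nat_lit 0) (nat_lit 22676370330) (nat_lit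 152) (nat_lit 6313552897) (nat_lit 0) (nat_lit 15365127251) (nat_lit 6) (nat_lit 5) (nat_lit 8) (nat_lit 4) (nat_lit 6) (nat_lit 4) (nat_lit 311) (nat_lit 214) (nat_lit 195))) (XT.nd (nat_lit 78) (nat_lit 0) (nat_lit 0) (XT.lf (nat_lit 0) (nat_lit 1772039946) (nat_lit 76) (nat_lit 26098698085) (nat_lit 76) (nat_lit 18559448596) (nat_lit 5) (nat_lit 4) (nat_lit 6) (nat_lit 5) (nat_lit 6) (nat_lit 4) (nat_lit 312) (nat_lit 214) (nat_lit 194)) (XT.nd (nat_lit 78) (nat_lit 0) (nat_lit 0) (XT.lf (nat_lit 0) (nat_lit 10216736628) (nat_lit 76) (nat_lit 23074896085) (nat_lit 76) (nat_lit 15318497634) (nat_lit 5) (nat_lit 4) (nat_lit 6) (nat_lit 5) (nat_lit 6) (nat_lit 4) (nat_lit 313) (nat_lit 214) (nat_lit 193)) (XT.lf (nat_lit 0) (nat_lit 18914991487) (nat_lit 76) (nat_lit 19975072201) (nat_lit 76) (nat_lit 12011865215) (nat_lit 5) (nat_lit 4) (nat_lit 6) (nat_lit 5) (nat_lit 6) (nat_lit 4) (nat_lit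 314) (nat_lit 214) (nat_lit 192))))) (XT.nd (nat_lit 234) (nat_lit 152) (nat_lit 0) (XT.nd (nat_lit 78) (nat_lit 0) (nat_lit 0) (XT.lf (nat_lit 0) (nat_lit 27887514653) (nat_lit 76) (nat_lit 16791845902) (nat_lit 76) (nat_lit 8631678407) (nat_lit 5) (nat_lit 4) (nat_lit 6) (nat_lit 5) (nat_lit 6) (nat_lit 4) (nat_lit 315) (nat_lit 214) (nat_lit 191)) (XT.nd (nat_lit 78) (nat_lit 0) (nat_lit 0) (XT.lf (nat_lit 0) (nat_lit 37155669277) (nat_lit 76) (nat_lit 13517638078) (nat_lit 76) (nat_lit 5169889144) (nat_lit 5) (nat_lit 4) (nat_lit 6) (nat_lit 5) (nat_lit 6) (nat_lit 4) (nat_lit 316) (nat_lit 214) (nat_lit 190)) (XT.lf (nat_lit 0) (nat_lit 46741522394) (nat_lit 76) (nat_lit 10144652994) (nat_lit 76) (nat_lit 1618255072) (nat_lit 5) (nat_lit 4) (nat_lit 6) (nat_lit 5) (nat_lit 6) (nat_lit 4) (nat_lit 317) (nat_lit 214) (nat_lit 189)))) (XT.nd (nat_lit 78) (nat_lit 76) (nat_lit 0) (XT.lf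 (nat_lit 0) (nat_lit 1992034683) (nat_lit 152) (nat_lit 4652709407) (nat_lit 76) (nat_lit 54655747134) (nat_lit 4) (nat_lit 5) (nat_lit 6) (nat_lit 5) (nat_lit 5) (nat_lit 4) (nat_lit 318) (nat_lit 214) (nat_lit 188)) (XT.nd (nat_lit 78) (nat_lit 0) (nat_lit 0) (XT.lf (nat_lit 0) (nat_lit 2715988649) (nat_lit 76) (nat_lit 2985769164) (nat_lit 152) (nat_lit 58535584797) (nat_lit 3) (nat_lit 5) (nat_lit 4) (nat_lit 5) (nat_lit 5) (nat_lit 4) (nat_lit 319) (nat_lit 214) (nat_lit 187)) (XT.lf (nat_lit 0) (nat_lit 9581253563) (nat_lit 152) (nat_lit 56909430486) (nat_lit 0) (nat_lit 830861886) (nat_lit 3) (nat_lit 5) (nat_lit 5) (nat_lit 4) (nat_lit 3) (nat_lit 4) (nat_lit 320) (nat_lit 214) (nat_lit 186)))))) (XT.nd (nat_lit 390) (nat_lit 76) (nat_lit 0) (XT.nd (nat_lit 156) (nat_lit 0) (nat_lit 0) (XT.nd (nat_lit 78) (nat_lit 0) (nat_lit 0) (XT.lf (nat_lit 0) (nat_lit 13615990504) (nat_lit 152)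 (nat_lit 52222262397) (nat_lit 0) (nat_lit 4722904687) (nat_lit 3) (nat_lit 5) (nat_lit 5) (nat_lit 4) (nat_lit 3) (nat_lit 4) (nat_lit 321) (nat_lit 214) (nat_lit 185)) (XT.lf (nat_lit 0) (nat_lit 17786874115) (nat_lit 152) (nat_lit 47419988732) (nat_lit 0) (nat_lit 8757889116) (nat_lit 3) (nat_lit 5) (nat_lit 5) (nat_lit 4) (nat_lit 3) (nat_lit 4) (nat_lit 322) (nat_lit 214) (nat_lit 184))) (XT.nd (nat_lit 78) (nat_lit 0) (nat_lit 0) (XT.lf (nat_lit 0) (nat_lit 22103835070) (nat_lit 152) (nat_lit 42491175504) (nat_lit 0) (nat_lit 12945422279) (nat_lit 3) (nat_lit 5) (nat_lit 5) (nat_lit 4) (nat_lit 3) (nat_lit 4) (nat_lit 323) (nat_lit 214) (nat_lit 183)) (XT.nd (nat_lit 78) (nat_lit 0) (nat_lit 0) (XT.lf (nat_lit 0) (nat_lit 26577151848) (nat_lit 152) (nat_lit 37424087445) (nat_lit 0) (nat_lit 17295474493) (nat_lit 3) (nat_lit 5) (nat_lit 5) (nat_lit 4) (nat_lit 3) (nat_lit 4) (nat_lit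 324) (nat_lit 214) (nat_lit 182)) (XT.lf (nat_lit 0) (nat_lit 31217475204) (nat_lit 152) (nat_lit 32206660060) (nat_lit 0) (nat_lit 21818403026) (nat_lit 3) (nat_lit 5) (nat_lit 5) (nat_lit 4) (nat_lit 3) (nat_lit 4) (nat_lit 325) (nat_lit 214) (nat_lit 181))))) (XT.nd (nat_lit 234) (nat_lit 76) (nat_lit 0) (XT.nd (nat_lit 78) (nat_lit 0) (nat_lit 0) (XT.lf (nat_lit 0) (nat_lit 36035853526) (nat_lit 152) (nat_lit 26826470901) (nat_lit 0) (nat_lit 26524976755) (nat_lit 3) (nat_lit 5) (nat_lit 5) (nat_lit 4) (nat_lit 3) (nat_lit 4) (nat_lit 326) (nat_lit 214) (nat_lit 180)) (XT.nd (nat_lit 78) (nat_lit 0) (nat_lit 0) (XT.lf (nat_lit 0) (nat_lit 41043759143) (nat_lit 152) (nat_lit 21270709995) (nat_lit 0) (nat_lit 31426401807) (nat_lit 3) (nat_lit 5) (nat_lit 5) (nat_lit 4) (nat_lit 3) (nat_lit 4) (nat_lit 327) (nat_lit 214) (nat_lit 179)) (XT.lf (nat_lit 0) (nat_lit 46253115640) (nat_lit 152)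 (nat_lit 15526149340) (nat_lit 0) (nat_lit 36534348243) (nat_lit 3) (nat_lit 5) (nat_lit 5) (nat_lit 4) (nat_lit 3) (nat_lit 4) (nat_lit 328) (nat_lit 214) (nat_lit 178)))) (XT.nd (nat_lit 78) (nat_lit 76) (nat_lit 0) (XT.lf (nat_lit 0) (nat_lit 51676326248) (nat_lit 152) (nat_lit 9579111411) (nat_lit 0) (nat_lit 41860977840) (nat_lit 3) (nat_lit 5) (nat_lit 5) (nat_lit 4) (nat_lit 3) (nat_lit 4) (nat_lit 329) (nat_lit 214) (nat_lit 177)) (XT.nd (nat_lit 78) (nat_lit 76) (nat_lit 0) (XT.lf (nat_lit 0) (nat_lit 57326303372) (nat_lit 152) (nat_lit 3415436593) (nat_lit 0) (nat_lit 47418973049) (nat_lit 3) (nat_lit 5) (nat_lit 5) (nat_lit 4) (nat_lit 3) (nat_lit 4) (nat_lit 330) (nat_lit 214) (nat_lit 176)) (XT.lf (nat_lit 0) (nat_lit 3038849427) (nat_lit 76) (nat_lit 60206861191) (nat_lit 76) (nat_lit 50211929044) (nat_lit 2) (nat_lit 4) (nat_lit 3) (nat_lit 5) (nat_lit 3) (nat_lit 4) (nat_lit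 331) (nat_lit 214) (nat_lit 175))))))) (XT.nd (nat_lit 34866) (nat_lit 0) (nat_lit 304) (XT.nd (nat_lit 34398) (nat_lit 0) (nat_lit 760) (XT.nd (nat_lit 234) (nat_lit 0) (nat_lit 0) (XT.nd (nat_lit 78) (nat_lit 0) (nat_lit 0) (XT.lf (nat_lit 0) (nat_lit 9812554397) (nat_lit 76) (nat_lit 59642708303) (nat_lit 76) (nat_lit 49564345847) (nat_lit 2) (nat_lit 4) (nat_lit 3) (nat_lit 5) (nat_lit 3) (nat_lit 4) (nat_lit 332) (nat_lit 214) (nat_lit 174)) (XT.lf (nat_lit 0) (nat_lit 16853832299) (nat_lit 76) (nat_lit 59082427293) (nat_lit 76) (nat_lit 48924607400) (nat_lit 2) (nat_lit 4) (nat_lit 3) (nat_lit 5) (nat_lit 3) (nat_lit 4) (nat_lit 333) (nat_lit 214) (nat_lit 173))) (XT.nd (nat_lit 34008) (nat_lit 0) (nat_lit 1216) (XT.lf (nat_lit 0) (nat_lit 31806843686) (nat_lit 76) (nat_lit 57968150940) (nat_lit 76) (nat_lit 47662587060) (nat_lit 2) (nat_lit 4) (nat_lit 3) (nat_lit 5) (nat_lit 3) (nat_lit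 4) (nat_lit 335) (nat_lit 214) (nat_lit 171)) (XT.nd (nat_lit 78) (nat_lit 0) (nat_lit 0) (XT.lf (nat_lit 0) (nat_lit 408944608) (nat_lit 152) (nat_lit 4356570903) (nat_lit 152) (nat_lit 4356570903) (nat_lit 18) (nat_lit 4) (nat_lit 20) (nat_lit 5) (nat_lit 20) (nat_lit 4) (nat_lit 290) (nat_lit 215) (nat_lit 215)) (XT.lf (nat_lit 0) (nat_lit 12392040501) (nat_lit 152) (nat_lit 3619231082) (nat_lit 152) (nat_lit 2938333272) (nat_lit 18) (nat_lit 4) (nat_lit 20) (nat_lit 5) (nat_lit 20) (nat_lit 4) (nat_lit 291) (nat_lit 215) (nat_lit 214))))) (XT.nd (nat_lit 234) (nat_lit 152) (nat_lit 0) (XT.nd (nat_lit 78) (nat_lit 152) (nat_lit 0) (XT.lf (nat_lit 0) (nat_lit 2909977149) (nat_lit 152) (nat_lit 15164892428) (nat_lit 0) (nat_lit 1619324806) (nat_lit 16) (nat_lit 5) (nat_lit 18) (nat_lit 4) (nat_lit 16) (nat_lit 4) (nat_lit 292) (nat_lit 215) (nat_lit 213)) (XT.nd (nat_lit 78) (nat_lit 152)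 (nat_lit 0) (XT.lf (nat_lit 0) (nat_lit 8886683712) (nat_lit 152) (nat_lit 4595281161) (nat_lit 0) (nat_lit 6996425171) (nat_lit 16) (nat_lit 5) (nat_lit 18) (nat_lit 4) (nat_lit 16) (nat_lit 4) (nat_lit 293) (nat_lit 215) (nat_lit 212)) (XT.lf (nat_lit 0) (nat_lit 6280622670) (nat_lit 152) (nat_lit 8743388009) (nat_lit 152) (nat_lit 6282075945) (nat_lit 14) (nat_lit 4) (nat_lit 16) (nat_lit 5) (nat_lit 16) (nat_lit 4) (nat_lit 294) (nat_lit 215) (nat_lit 211)))) (XT.nd (nat_lit 78) (nat_lit 152) (nat_lit 0) (XT.lf (nat_lit 0) (nat_lit 17461486049) (nat_lit 152) (nat_lit 3861671863) (nat_lit 152) (nat_lit 856499301) (nat_lit 14) (nat_lit 4) (nat_lit 16) (nat_lit 5) (nat_lit 16) (nat_lit 4) (nat_lit 295) (nat_lit 215) (nat_lit 210)) (XT.nd (nat_lit 78) (nat_lit 0) (nat_lit 0) (XT.lf (nat_lit 0) (nat_lit 4628844091) (nat_lit 152) (nat_lit 17261980850) (nat_lit 0) (nat_lit 1208324730) (nat_lit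 12) (nat_lit 5) (nat_lit 14) (nat_lit 4) (nat_lit 12) (nat_lit 4) (nat_lit 296) (nat_lit 215) (nat_lit 209)) (XT.lf (nat_lit 0) (nat_lit 10278312347) (nat_lit 152) (nat_lit 7410080831) (nat_lit 0) (nat_lit 6378863372) (nat_lit 12) (nat_lit 5) (nat_lit 14) (nat_lit 4) (nat_lit 12) (nat_lit 4) (nat_lit 297) (nat_lit 215) (nat_lit 208)))))) (XT.nd (nat_lit 468) (nat_lit 228) (nat_lit 0) (XT.nd (nat_lit 234) (nat_lit 76) (nat_lit 0) (XT.nd (nat_lit 78) (nat_lit 76) (nat_lit 0) (XT.lf (nat_lit 0) (nat_lit 2684230975) (nat_lit 76) (nat_lit 13379806146) (nat_lit 76) (nat_lit 9024233727) (nat_lit 11) (nat_lit 4) (nat_lit 12) (nat_lit 5) (nat_lit 12) (nat_lit 4) (nat_lit 298) (nat_lit 215) (nat_lit 207)) (XT.nd (nat_lit 78) (nat_lit 76) (nat_lit 0) (XT.lf (nat_lit 0) (nat_lit 13144217926) (nat_lit 76) (nat_lit 8904457441) (nat_lit 76) (nat_lit 4114481743) (nat_lit 11) (nat_lit 4) (nat_lit 12) (nat_lit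 5) (nat_lit 12) (nat_lit 4) (nat_lit 299) (nat_lit 215) (nat_lit 206)) (XT.lf (nat_lit 0) (nat_lit 860057516) (nat_lit 152) (nat_lit 3457776347) (nat_lit 76) (nat_lit 22978567202) (nat_lit 10) (nat_lit 5) (nat_lit 12) (nat_lit 5) (nat_lit 11) (nat_lit 4) (nat_lit 300) (nat_lit 215) (nat_lit 205)))) (XT.nd (nat_lit 78) (nat_lit 0) (nat_lit 0) (XT.lf (nat_lit 0) (nat_lit 5912423799) (nat_lit 152) (nat_lit 22097578204) (nat_lit 0) (nat_lit 477754201) (nat_lit 9) (nat_lit 5) (nat_lit 11) (nat_lit 4) (nat_lit 9) (nat_lit 4) (nat_lit 301) (nat_lit 215) (nat_lit 204)) (XT.nd (nat_lit 78) (nat_lit 0) (nat_lit 0) (XT.lf (nat_lit 0) (nat_lit 11147842972) (nat_lit 152) (nat_lit 13244166185) (nat_lit 0) (nat_lit 5348849213) (nat_lit 9) (nat_lit 5) (nat_lit 11) (nat_lit 4) (nat_lit 9) (nat_lit 4) (nat_lit 302) (nat_lit 215) (nat_lit 203)) (XT.lf (nat_lit 0) (nat_lit 16503039249) (nat_lit 152) (nat_lit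 4200854027) (nat_lit 0) (nat_lit 10357070099) (nat_lit 9) (nat_lit 5) (nat_lit 11) (nat_lit 4) (nat_lit 9) (nat_lit 4) (nat_lit 303) (nat_lit 215) (nat_lit 202))))) (XT.nd (nat_lit 234) (nat_lit 152) (nat_lit 0) (XT.nd (nat_lit 78) (nat_lit 0) (nat_lit 0) (XT.lf (nat_lit 0) (nat_lit 5154472286) (nat_lit 76) (nat_lit 16885838752) (nat_lit 76) (nat_lit 10409416849) (nat_lit 8) (nat_lit 4) (nat_lit 9) (nat_lit 5) (nat_lit 9) (nat_lit 4) (nat_lit 304) (nat_lit 215) (nat_lit 201)) (XT.nd (nat_lit 78) (nat_lit 0) (nat_lit 0) (XT.lf (nat_lit 0) (nat_lit 14831517222) (nat_lit 76) (nat_lit 12935132920) (nat_lit 76) (nat_lit 6143994109) (nat_lit 8) (nat_lit 4) (nat_lit 9) (nat_lit 5) (nat_lit 9) (nat_lit 4) (nat_lit 305) (nat_lit 215) (nat_lit 200)) (XT.lf (nat_lit 0) (nat_lit 24769716131) (nat_lit 76) (nat_lit 8884789728) (nat_lit 76) (nat_lit 1793920528) (nat_lit 8) (nat_lit 4) (nat_lit 9) (nat_lit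 5) (nat_lit 9) (nat_lit 4) (nat_lit 306) (nat_lit 215) (nat_lit 199)))) (XT.nd (nat_lit 78) (nat_lit 76) (nat_lit 0) (XT.lf (nat_lit 0) (nat_lit 2599427507) (nat_lit 152) (nat_lit 2099488873) (nat_lit 76) (nat_lit 32367054764) (nat_lit 7) (nat_lit 5) (nat_lit 9) (nat_lit 5) (nat_lit 8) (nat_lit 4) (nat_lit 307) (nat_lit 215) (nat_lit 198)) (XT.nd (nat_lit 78) (nat_lit 0) (nat_lit 0) (XT.lf (nat_lit 0) (nat_lit 6819319308) (nat_lit 76) (nat_lit 307533065) (nat_lit 152) (nat_lit 31638529479) (nat_lit 6) (nat_lit 5) (nat_lit 7) (nat_lit 5) (nat_lit 8) (nat_lit 4) (nat_lit 308) (nat_lit 215) (nat_lit 197)) (XT.lf (nat_lit 0) (nat_lit 11832152710) (nat_lit 152) (nat_lit 24563781474) (nat_lit 0) (nat_lit 4155347477) (nat_lit 6) (nat_lit 5) (nat_lit 8) (nat_lit 4) (nat_lit 6) (nat_lit 4) (nat_lit 309) (nat_lit 215) (nat_lit 196))))))))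
noncomputable def xc12 : XT := (XT.nd (nat_lit 1716) (nat_lit 76) (nat_lit 0) (XT.nd (nat_lit 858) (nat_lit 0) (nat_lit 0) (XT.nd (nat_lit 390) (nat_lit 152) (nat_lit 0) (XT.nd (nat_lit 156) (nat_lit 76) (nat_lit 0) (XT.nd (nat_lit 78) (nat_lit 0) (nat_lit 0) (XT.lf (nat_lit 0) (nat_lit 16669451362) (nat_lit 152) (nat_lit 17006944360) (nat_lit 0) (nat_lit 8753239399) (nat_lit 6) (nat_lit 5) (nat_lit 8) (nat_lit 4) (nat_lit 6) (nat_lit 4) (nat_lit 310) (nat_lit 215) (nat_lit 195)) (XT.lf (nat_lit 0) (nat_lit 21647309510) (nat_lit 152) (nat_lit 9254602539) (nat_lit 0) (nat_lit 13503091137) (nat_lit 6) (nat_lit 5) (nat_lit 8) (nat_lit 4) (nat_lit 6) (nat_lit 4) (nat_lit 311) (nat_lit 215) (nat_lit 194))) (XT.nd (nat_lit 78) (nat_lit 76) (nat_lit 0) (XT.lf (nat_lit 0) (nat_lit 26777579198) (nat_lit 152) (nat_lit 1288298054) (nat_lit 0) (nat_lit 18416211863) (nat_lit 6) (nat_lit 5) (nat_lit 8)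 (nat_lit 4) (nat_lit 6) (nat_lit 4) (nat_lit 312) (nat_lit 215) (nat_lit 193)) (XT.nd (nat_lit 78) (nat_lit 0) (nat_lit 0) (XT.lf (nat_lit 0) (nat_lit 7048477674) (nat_lit 76) (nat_lit 25091751959) (nat_lit 76) (nat_lit 16523576089) (nat_lit 5) (nat_lit 4) (nat_lit 6) (nat_lit 5) (nat_lit 6) (nat_lit 4) (nat_lit 313) (nat_lit 215) (nat_lit 192)) (XT.lf (nat_lit 0) (nat_lit 15668369393) (nat_lit 76) (nat_lit 22026849431) (nat_lit 76) (nat_lit 13261713051) (nat_lit 5) (nat_lit 4) (nat_lit 6) (nat_lit 5) (nat_lit 6) (nat_lit 4) (nat_lit 314) (nat_lit 215) (nat_lit 191))))) (XT.nd (nat_lit 234) (nat_lit 152) (nat_lit 0) (XT.nd (nat_lit 78) (nat_lit 0) (nat_lit 0) (XT.lf (nat_lit 0) (nat_lit 24566260998) (nat_lit 76) (nat_lit 18876881566) (nat_lit 76) (nat_lit 9924163748) (nat_lit 5) (nat_lit 4) (nat_lit 6) (nat_lit 5) (nat_lit 6) (nat_lit 4) (nat_lit 315) (nat_lit 215) (nat_lit 190)) (XT.nd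 (nat_lit 78) (nat_lit 0) (nat_lit 0) (XT.lf (nat_lit 0) (nat_lit 33763337945) (nat_lit 76) (nat_lit 15634348440) (nat_lit 76) (nat_lit 6502981634) (nat_lit 5) (nat_lit 4) (nat_lit 6) (nat_lit 5) (nat_lit 6) (nat_lit 4) (nat_lit 316) (nat_lit 215) (nat_lit 189)) (XT.lf (nat_lit 0) (nat_lit 43281498035) (nat_lit 76) (nat_lit 12291529737) (nat_lit 76) (nat_lit 2990021036) (nat_lit 5) (nat_lit 4) (nat_lit 6) (nat_lit 5) (nat_lit 6) (nat_lit 4) (nat_lit 317) (nat_lit 215) (nat_lit 188)))) (XT.nd (nat_lit 78) (nat_lit 76) (nat_lit 0) (XT.lf (nat_lit 0) (nat_lit 610923656) (nat_lit 152) (nat_lit 8223373575) (nat_lit 76) (nat_lit 52526310768) (nat_lit 4) (nat_lit 5) (nat_lit 6) (nat_lit 5) (nat_lit 5) (nat_lit 4) (nat_lit 318) (nat_lit 215) (nat_lit 187)) (XT.nd (nat_lit 78) (nat_lit 76) (nat_lit 0) (XT.lf (nat_lit 0) (nat_lit 4260145559) (nat_lit 152) (nat_lit 969776825) (nat_lit 76) (nat_lit 59069370557)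 (nat_lit 4) (nat_lit 5) (nat_lit 6) (nat_lit 5) (nat_lit 5) (nat_lit 4) (nat_lit 319) (nat_lit 215) (nat_lit 186)) (XT.lf (nat_lit 0) (nat_lit 6655117162) (nat_lit 76) (nat_lit 1433535270) (nat_lit 152) (nat_lit 59296391136) (nat_lit 3) (nat_lit 5) (nat_lit 4) (nat_lit 5) (nat_lit 5) (nat_lit 4) (nat_lit 320) (nat_lit 215) (nat_lit 185)))))) (XT.nd (nat_lit 390) (nat_lit 0) (nat_lit 0) (XT.nd (nat_lit 156) (nat_lit 0) (nat_lit 0) (XT.nd (nat_lit 78) (nat_lit 0) (nat_lit 0) (XT.lf (nat_lit 0) (nat_lit 12077614147) (nat_lit 152) (nat_lit 56087150411) (nat_lit 0) (nat_lit 2461280716) (nat_lit 3) (nat_lit 5) (nat_lit 5) (nat_lit 4) (nat_lit 3) (nat_lit 4) (nat_lit 321) (nat_lit 215) (nat_lit 184)) (XT.lf (nat_lit 0) (nat_lit 16218026130) (nat_lit 152) (nat_lit 51340278755) (nat_lit 0) (nat_lit 6472264908) (nat_lit 3) (nat_lit 5) (nat_lit 5) (nat_lit 4) (nat_lit 3) (nat_lit 4) (nat_lit 322) (nat_lit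 215) (nat_lit 183))) (XT.nd (nat_lit 78) (nat_lit 0) (nat_lit 0) (XT.lf (nat_lit 0) (nat_lit 20505966488) (nat_lit 152) (nat_lit 46464229347) (nat_lit 0) (nat_lit 10636940702) (nat_lit 3) (nat_lit 5) (nat_lit 5) (nat_lit 4) (nat_lit 3) (nat_lit 4) (nat_lit 323) (nat_lit 215) (nat_lit 182)) (XT.nd (nat_lit 78) (nat_lit 0) (nat_lit 0) (XT.lf (nat_lit 0) (nat_lit 24951644602) (nat_lit 152) (nat_lit 41447392545) (nat_lit 0) (nat_lit 14965223993) (nat_lit 3) (nat_lit 5) (nat_lit 5) (nat_lit 4) (nat_lit 3) (nat_lit 4) (nat_lit 324) (nat_lit 215) (nat_lit 181)) (XT.lf (nat_lit 0) (nat_lit 29565645420) (nat_lit 152) (nat_lit 36277823499) (nat_lit 0) (nat_lit 19467420218) (nat_lit 3) (nat_lit 5) (nat_lit 5) (nat_lit 4) (nat_lit 3) (nat_lit 4) (nat_lit 325) (nat_lit 215) (nat_lit 180))))) (XT.nd (nat_lit 234) (nat_lit 0) (nat_lit 0) (XT.nd (nat_lit 78) (nat_lit 0) (nat_lit 0) (XT.lf (nat_lit 0) (nat_lit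 34358954659) (nat_lit 152) (nat_lit 30943213712) (nat_lit 0) (nat_lit 24154248892) (nat_lit 3) (nat_lit 5) (nat_lit 5) (nat_lit 4) (nat_lit 3) (nat_lit 4) (nat_lit 326) (nat_lit 215) (nat_lit 179)) (XT.nd (nat_lit 78) (nat_lit 0) (nat_lit 0) (XT.lf (nat_lit 0) (nat_lit 39342984959) (nat_lit 152) (nat_lit 25430861731) (nat_lit 0) (nat_lit 29036869130) (nat_lit 3) (nat_lit 5) (nat_lit 5) (nat_lit 4) (nat_lit 3) (nat_lit 4) (nat_lit 327) (nat_lit 215) (nat_lit 178)) (XT.lf (nat_lit 0) (nat_lit 44529603059) (nat_lit 152) (nat_lit 19727642909) (nat_lit 0) (nat_lit 34126906219) (nat_lit 3) (nat_lit 5) (nat_lit 5) (nat_lit 4) (nat_lit 3) (nat_lit 4) (nat_lit 328) (nat_lit 215) (nat_lit 177)))) (XT.nd (nat_lit 78) (nat_lit 0) (nat_lit 0) (XT.lf (nat_lit 0) (nat_lit 49931158050) (nat_lit 152) (nat_lit 13819978154) (nat_lit 0) (nat_lit 39436479295) (nat_lit 3) (nat_lit 5) (nat_lit 5) (nat_lit 4) (nat_lit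 3) (nat_lit 4) (nat_lit 329) (nat_lit 215) (nat_lit 176)) (XT.nd (nat_lit 78) (nat_lit 0) (nat_lit 0) (XT.lf (nat_lit 0) (nat_lit 55560510777) (nat_lit 152) (nat_lit 7693801598) (nat_lit 0) (nat_lit 44978230198) (nat_lit 3) (nat_lit 5) (nat_lit 5) (nat_lit 4) (nat_lit 3) (nat_lit 4) (nat_lit 330) (nat_lit 215) (nat_lit 175)) (XT.lf (nat_lit 0) (nat_lit 61431064462) (nat_lit 152) (nat_lit 1334527105) (nat_lit 0) (nat_lit 50765353574) (nat_lit 3) (nat_lit 5) (nat_lit 5) (nat_lit 4) (nat_lit 3) (nat_lit 4) (nat_lit 331) (nat_lit 215) (nat_lit 174))))))) (XT.nd (nat_lit 34710) (nat_lit 0) (nat_lit 456) (XT.nd (nat_lit 34242) (nat_lit 0) (nat_lit 912) (XT.nd (nat_lit 234) (nat_lit 0) (nat_lit 0) (XT.nd (nat_lit 78) (nat_lit 0) (nat_lit 0) (XT.lf (nat_lit 0) (nat_lit 5377929223) (nat_lit 76) (nat_lit 62230563333) (nat_lit 76) (nat_lit 51485395009) (nat_lit 2) (nat_lit 4) (nat_lit 3) (nat_lit 5)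 (nat_lit 3) (nat_lit 4) (nat_lit 332) (nat_lit 215) (nat_lit 173)) (XT.lf (nat_lit 0) (nat_lit 12386170045) (nat_lit 76) (nat_lit 61685185702) (nat_lit 76) (nat_lit 50864343628) (nat_lit 2) (nat_lit 4) (nat_lit 3) (nat_lit 5) (nat_lit 3) (nat_lit 4) (nat_lit 333) (nat_lit 215) (nat_lit 172))) (XT.nd (nat_lit 33852) (nat_lit 0) (nat_lit 1368) (XT.lf (nat_lit 0) (nat_lit 27277751940) (nat_lit 76) (nat_lit 60598620846) (nat_lit 76) (nat_lit 49637070213) (nat_lit 2) (nat_lit 4) (nat_lit 3) (nat_lit 5) (nat_lit 3) (nat_lit 4) (nat_lit 335) (nat_lit 215) (nat_lit 170)) (XT.nd (nat_lit 78) (nat_lit 152) (nat_lit 0) (XT.lf (nat_lit 0) (nat_lit 6373415460) (nat_lit 152) (nat_lit 1048254743) (nat_lit 152) (nat_lit 1048254743) (nat_lit 22) (nat_lit 4) (nat_lit 24) (nat_lit 5) (nat_lit 24) (nat_lit 4) (nat_lit 288) (nat_lit 216) (nat_lit 216)) (XT.lf (nat_lit 0) (nat_lit 3964335144) (nat_lit 152) (nat_lit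 10362068952) (nat_lit 0) (nat_lit 3249392444) (nat_lit 20) (nat_lit 5) (nat_lit 22) (nat_lit 4) (nat_lit 20) (nat_lit 4) (nat_lit 289) (nat_lit 216) (nat_lit 215))))) (XT.nd (nat_lit 234) (nat_lit 152) (nat_lit 0) (XT.nd (nat_lit 78) (nat_lit 152) (nat_lit 0) (XT.lf (nat_lit 0) (nat_lit 631868944) (nat_lit 152) (nat_lit 9505739751) (nat_lit 152) (nat_lit 8109899242) (nat_lit 18) (nat_lit 4) (nat_lit 20) (nat_lit 5) (nat_lit 20) (nat_lit 4) (nat_lit 290) (nat_lit 216) (nat_lit 214)) (XT.nd (nat_lit 78) (nat_lit 152) (nat_lit 0) (XT.lf (nat_lit 0) (nat_lit 12028858066) (nat_lit 152) (nat_lit 4485786400) (nat_lit 152) (nat_lit 2441471787) (nat_lit 18) (nat_lit 4) (nat_lit 20) (nat_lit 5) (nat_lit 20) (nat_lit 4) (nat_lit 291) (nat_lit 216) (nat_lit 213)) (XT.lf (nat_lit 0) (nat_lit 3283437021) (nat_lit 152) (nat_lit 15721551416) (nat_lit 0) (nat_lit 699059353) (nat_lit 16) (nat_lit 5) (nat_lit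 18) (nat_lit 4) (nat_lit 16) (nat_lit 4) (nat_lit 292) (nat_lit 216) (nat_lit 212)))) (XT.nd (nat_lit 78) (nat_lit 152) (nat_lit 0) (XT.lf (nat_lit 0) (nat_lit 9163271334) (nat_lit 152) (nat_lit 5320108719) (nat_lit 0) (nat_lit 6007840144) (nat_lit 16) (nat_lit 5) (nat_lit 18) (nat_lit 4) (nat_lit 16) (nat_lit 4) (nat_lit 293) (nat_lit 216) (nat_lit 211)) (XT.nd (nat_lit 78) (nat_lit 0) (nat_lit 0) (XT.lf (nat_lit 0) (nat_lit 5378021572) (nat_lit 152) (nat_lit 9821641090) (nat_lit 152) (nat_lit 6122349402) (nat_lit 14) (nat_lit 4) (nat_lit 16) (nat_lit 5) (nat_lit 16) (nat_lit 4) (nat_lit 294) (nat_lit 216) (nat_lit 210)) (XT.lf (nat_lit 0) (nat_lit 16403315378) (nat_lit 152) (nat_lit 5006133101) (nat_lit 152) (nat_lit 788879034) (nat_lit 14) (nat_lit 4) (nat_lit 16) (nat_lit 5) (nat_lit 16) (nat_lit 4) (nat_lit 295) (nat_lit 216) (nat_lit 209)))))) (XT.nd (nat_lit 390) (nat_lit 152) (nat_lit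 0) (XT.nd (nat_lit 156) (nat_lit 152) (nat_lit 0) (XT.nd (nat_lit 78) (nat_lit 0) (nat_lit 0) (XT.lf (nat_lit 0) (nat_lit 4585374309) (nat_lit 152) (nat_lit 18523755202) (nat_lit 0) (nat_lit 12023269) (nat_lit 12) (nat_lit 5) (nat_lit 14) (nat_lit 4) (nat_lit 12) (nat_lit 4) (nat_lit 296) (nat_lit 216) (nat_lit 208)) (XT.lf (nat_lit 0) (nat_lit 10150930680) (nat_lit 152) (nat_lit 8819446514) (nat_lit 0) (nat_lit 5121456197) (nat_lit 12) (nat_lit 5) (nat_lit 14) (nat_lit 4) (nat_lit 12) (nat_lit 4) (nat_lit 297) (nat_lit 216) (nat_lit 207))) (XT.nd (nat_lit 78) (nat_lit 76) (nat_lit 0) (XT.lf (nat_lit 0) (nat_lit 1103455497) (nat_lit 76) (nat_lit 14738088494) (nat_lit 76) (nat_lit 9274210732) (nat_lit 11) (nat_lit 4) (nat_lit 12) (nat_lit 5) (nat_lit 12) (nat_lit 4) (nat_lit 298) (nat_lit 216) (nat_lit 206)) (XT.nd (nat_lit 78) (nat_lit 76) (nat_lit 0) (XT.lf (nat_lit 0) (nat_lit 11426908492)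 (nat_lit 76) (nat_lit 10321850744) (nat_lit 76) (nat_lit 4444255574) (nat_lit 11) (nat_lit 4) (nat_lit 12) (nat_lit 5) (nat_lit 12) (nat_lit 4) (nat_lit 299) (nat_lit 216) (nat_lit 205)) (XT.lf (nat_lit 0) (nat_lit 462204759) (nat_lit 152) (nat_lit 5333336087) (nat_lit 76) (nat_lit 21533095718) (nat_lit 10) (nat_lit 5) (nat_lit 12) (nat_lit 5) (nat_lit 11) (nat_lit 4) (nat_lit 300) (nat_lit 216) (nat_lit 204))))) (XT.nd (nat_lit 234) (nat_lit 76) (nat_lit 0) (XT.nd (nat_lit 78) (nat_lit 0) (nat_lit 0) (XT.lf (nat_lit 0) (nat_lit 4354323945) (nat_lit 76) (nat_lit 1064981266) (nat_lit 152) (nat_lit 23103589495) (nat_lit 9) (nat_lit 5) (nat_lit 10) (nat_lit 5) (nat_lit 11) (nat_lit 4) (nat_lit 301) (nat_lit 216) (nat_lit 203)) (XT.nd (nat_lit 78) (nat_lit 0) (nat_lit 0) (XT.lf (nat_lit 0) (nat_lit 10575221839) (nat_lit 152) (nat_lit 15428224156) (nat_lit 0) (nat_lit 3774978840) (nat_lit 9)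 (nat_lit 5) (nat_lit 11) (nat_lit 4) (nat_lit 9) (nat_lit 4) (nat_lit 302) (nat_lit 216) (nat_lit 202)) (XT.lf (nat_lit 0) (nat_lit 15864451168) (nat_lit 152) (nat_lit 6502343106) (nat_lit 0) (nat_lit 8733755416) (nat_lit 9) (nat_lit 5) (nat_lit 11) (nat_lit 4) (nat_lit 9) (nat_lit 4) (nat_lit 303) (nat_lit 216) (nat_lit 201)))) (XT.nd (nat_lit 78) (nat_lit 0) (nat_lit 0) (XT.lf (nat_lit 0) (nat_lit 2693114092) (nat_lit 76) (nat_lit 18622123119) (nat_lit 76) (nat_lit 11176710459) (nat_lit 8) (nat_lit 4) (nat_lit 9) (nat_lit 5) (nat_lit 9) (nat_lit 4) (nat_lit 304) (nat_lit 216) (nat_lit 200)) (XT.nd (nat_lit 78) (nat_lit 0) (nat_lit 0) (XT.lf (nat_lit 0) (nat_lit 12261525724) (nat_lit 76) (nat_lit 14719172376) (nat_lit 76) (nat_lit 6974029327) (nat_lit 8) (nat_lit 4) (nat_lit 9) (nat_lit 5) (nat_lit 9) (nat_lit 4) (nat_lit 305) (nat_lit 216) (nat_lit 199)) (XT.lf (nat_lit 0) (nat_lit 22096264344)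 (nat_lit 76) (nat_lit 10714310220) (nat_lit 76) (nat_lit 2683709659) (nat_lit 8) (nat_lit 4) (nat_lit 9) (nat_lit 5) (nat_lit 9) (nat_lit 4) (nat_lit 306) (nat_lit 216) (nat_lit 198))))))))
noncomputable def xc13 : XT := (XT.nd (nat_lit 1716) (nat_lit 76) (nat_lit 0) (XT.nd (nat_lit 858) (nat_lit 152) (nat_lit 0) (XT.nd (nat_lit 390) (nat_lit 76) (nat_lit 0) (XT.nd (nat_lit 156) (nat_lit 0) (nat_lit 0) (XT.nd (nat_lit 78) (nat_lit 76) (nat_lit 0) (XT.lf (nat_lit 0) (nat_lit 1671203369) (nat_lit 152) (nat_lit 4909922019) (nat_lit 76) (nat_lit 30532666749) (nat_lit 7) (nat_lit 5) (nat_lit 9) (nat_lit 5) (nat_lit 8) (nat_lit 4) (nat_lit 307) (nat_lit 216) (nat_lit 197)) (XT.lf (nat_lit 0) (nat_lit 3856133524) (nat_lit 76) (nat_lit 2260869807) (nat_lit 152) (nat_lit 32698679332) (nat_lit 6) (nat_lit 5) (nat_lit 7) (nat_lit 5) (nat_lit 8) (nat_lit 4) (nat_lit 308) (nat_lit 216) (nat_lit 196)))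 (XT.nd (nat_lit 78) (nat_lit 0) (nat_lit 0) (XT.lf (nat_lit 0) (nat_lit 10751638850) (nat_lit 152) (nat_lit 27651883598) (nat_lit 0) (nat_lit 2200209558) (nat_lit 6) (nat_lit 5) (nat_lit 8) (nat_lit 4) (nat_lit 6) (nat_lit 4) (nat_lit 309) (nat_lit 216) (nat_lit 195)) (XT.nd (nat_lit 78) (nat_lit 0) (nat_lit 0) (XT.lf (nat_lit 0) (nat_lit 15539520215) (nat_lit 152) (nat_lit 20183991435) (nat_lit 0) (nat_lit 6760084513) (nat_lit 6) (nat_lit 5) (nat_lit 8) (nat_lit 4) (nat_lit 6) (nat_lit 4) (nat_lit 310) (nat_lit 216) (nat_lit 194)) (XT.lf (nat_lit 0) (nat_lit 20470314282) (nat_lit 152) (nat_lit 12516359090) (nat_lit 0) (nat_lit 11473729618) (nat_lit 6) (nat_lit 5) (nat_lit 8) (nat_lit 4) (nat_lit 6) (nat_lit 4) (nat_lit 311) (nat_lit 216) (nat_lit 193))))) (XT.nd (nat_lit 234) (nat_lit 0) (nat_lit 0) (XT.nd (nat_lit 78) (nat_lit 76) (nat_lit 0) (XT.lf (nat_lit 0) (nat_lit 25555761035) (nat_lit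 152) (nat_lit 4630730297) (nat_lit 0) (nat_lit 16352367836) (nat_lit 6) (nat_lit 5) (nat_lit 8) (nat_lit 4) (nat_lit 6) (nat_lit 4) (nat_lit 312) (nat_lit 216) (nat_lit 192)) (XT.nd (nat_lit 78) (nat_lit 0) (nat_lit 0) (XT.lf (nat_lit 0) (nat_lit 3561161336) (nat_lit 76) (nat_lit 27281039406) (nat_lit 76) (nat_lit 17880685698) (nat_lit 5) (nat_lit 4) (nat_lit 6) (nat_lit 5) (nat_lit 6) (nat_lit 4) (nat_lit 313) (nat_lit 216) (nat_lit 191)) (XT.lf (nat_lit 0) (nat_lit 12106421495) (nat_lit 76) (nat_lit 24249395312) (nat_lit 76) (nat_lit 14661460166) (nat_lit 5) (nat_lit 4) (nat_lit 6) (nat_lit 5) (nat_lit 6) (nat_lit 4) (nat_lit 314) (nat_lit 216) (nat_lit 190)))) (XT.nd (nat_lit 78) (nat_lit 0) (nat_lit 0) (XT.lf (nat_lit 0) (nat_lit 20933235422) (nat_lit 76) (nat_lit 21131102146) (nat_lit 76) (nat_lit 11364518011) (nat_lit 5) (nat_lit 4) (nat_lit 6) (nat_lit 5) (nat_lit 6) (nat_lit 4) (nat_lit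 315) (nat_lit 216) (nat_lit 189)) (XT.nd (nat_lit 78) (nat_lit 0) (nat_lit 0) (XT.lf (nat_lit 0) (nat_lit 30062619343) (nat_lit 76) (nat_lit 17918735400) (nat_lit 76) (nat_lit 7982009371) (nat_lit 5) (nat_lit 4) (nat_lit 6) (nat_lit 5) (nat_lit 6) (nat_lit 4) (nat_lit 316) (nat_lit 216) (nat_lit 188)) (XT.lf (nat_lit 0) (nat_lit 39516309885) (nat_lit 76) (nat_lit 14604646581) (nat_lit 76) (nat_lit 4505880654) (nat_lit 5) (nat_lit 4) (nat_lit 6) (nat_lit 5) (nat_lit 6) (nat_lit 4) (nat_lit 317) (nat_lit 216) (nat_lit 187)))))) (XT.nd (nat_lit 390) (nat_lit 0) (nat_lit 0) (XT.nd (nat_lit 156) (nat_lit 76) (nat_lit 0) (XT.nd (nat_lit 78) (nat_lit 76) (nat_lit 0) (XT.lf (nat_lit 0) (nat_lit 49316815835) (nat_lit 76) (nat_lit 11180945003) (nat_lit 76) (nat_lit 927855363) (nat_lit 5) (nat_lit 4) (nat_lit 6) (nat_lit 5) (nat_lit 6) (nat_lit 4) (nat_lit 318) (nat_lit 216) (nat_lit 186)) (XT.lf (nat_lit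 0) (nat_lit 2706716641) (nat_lit 152) (nat_lit 4905429823) (nat_lit 76) (nat_lit 56753422559) (nat_lit 4) (nat_lit 5) (nat_lit 6) (nat_lit 5) (nat_lit 5) (nat_lit 4) (nat_lit 319) (nat_lit 216) (nat_lit 185))) (XT.nd (nat_lit 78) (nat_lit 0) (nat_lit 0) (XT.lf (nat_lit 0) (nat_lit 2583687021) (nat_lit 76) (nat_lit 3881203512) (nat_lit 152) (nat_lit 60988555903) (nat_lit 3) (nat_lit 5) (nat_lit 4) (nat_lit 5) (nat_lit 5) (nat_lit 4) (nat_lit 320) (nat_lit 216) (nat_lit 184)) (XT.nd (nat_lit 78) (nat_lit 0) (nat_lit 0) (XT.lf (nat_lit 0) (nat_lit 10399852136) (nat_lit 152) (nat_lit 60258856946) (nat_lit 0) (nat_lit 37375060) (nat_lit 3) (nat_lit 5) (nat_lit 5) (nat_lit 4) (nat_lit 3) (nat_lit 4) (nat_lit 321) (nat_lit 216) (nat_lit 183)) (XT.lf (nat_lit 0) (nat_lit 14511243522) (nat_lit 152) (nat_lit 55564749110) (nat_lit 0) (nat_lit 4025501882) (nat_lit 3) (nat_lit 5) (nat_lit 5) (nat_lit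 4) (nat_lit 3) (nat_lit 4) (nat_lit 322) (nat_lit 216) (nat_lit 182))))) (XT.nd (nat_lit 234) (nat_lit 0) (nat_lit 0) (XT.nd (nat_lit 78) (nat_lit 0) (nat_lit 0) (XT.lf (nat_lit 0) (nat_lit 18771545215) (nat_lit 152) (nat_lit 50738950959) (nat_lit 0) (nat_lit 8168408753) (nat_lit 3) (nat_lit 5) (nat_lit 5) (nat_lit 4) (nat_lit 3) (nat_lit 4) (nat_lit 323) (nat_lit 216) (nat_lit 181)) (XT.nd (nat_lit 78) (nat_lit 0) (nat_lit 0) (XT.lf (nat_lit 0) (nat_lit 23190900792) (nat_lit 152) (nat_lit 45769972496) (nat_lit 0) (nat_lit 12475959737) (nat_lit 3) (nat_lit 5) (nat_lit 5) (nat_lit 4) (nat_lit 3) (nat_lit 4) (nat_lit 324) (nat_lit 216) (nat_lit 180)) (XT.lf (nat_lit 0) (nat_lit 27779832527) (nat_lit 152) (nat_lit 40645982822) (nat_lit 0) (nat_lit 16958410907) (nat_lit 3) (nat_lit 5) (nat_lit 5) (nat_lit 4) (nat_lit 3) (nat_lit 4) (nat_lit 325) (nat_lit 216) (nat_lit 179)))) (XT.nd (nat_lit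 78) (nat_lit 0) (nat_lit 0) (XT.lf (nat_lit 0) (nat_lit 32549266448) (nat_lit 152) (nat_lit 35354781959) (nat_lit 0) (nat_lit 21626434767) (nat_lit 3) (nat_lit 5) (nat_lit 5) (nat_lit 4) (nat_lit 3) (nat_lit 4) (nat_lit 326) (nat_lit 216) (nat_lit 178)) (XT.nd (nat_lit 78) (nat_lit 0) (nat_lit 0) (XT.lf (nat_lit 0) (nat_lit 37510558351) (nat_lit 152) (nat_lit 29883771812) (nat_lit 0) (nat_lit 26491145658) (nat_lit 3) (nat_lit 5) (nat_lit 5) (nat_lit 4) (nat_lit 3) (nat_lit 4) (nat_lit 327) (nat_lit 216) (nat_lit 177)) (XT.lf (nat_lit 0) (nat_lit 42675520834) (nat_lit 152) (nat_lit 24219926165) (nat_lit 0) (nat_lit 31564126226) (nat_lit 3) (nat_lit 5) (nat_lit 5) (nat_lit 4) (nat_lit 3) (nat_lit 4) (nat_lit 328) (nat_lit 216) (nat_lit 176))))))) (XT.nd (nat_lit 34554) (nat_lit 0) (nat_lit 532) (XT.nd (nat_lit 468) (nat_lit 0) (nat_lit 0) (XT.nd (nat_lit 156) (nat_lit 76) (nat_lit 0) (XT.nd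 (nat_lit 78) (nat_lit 0) (nat_lit 0) (XT.lf (nat_lit 0) (nat_lit 48056451429) (nat_lit 152) (nat_lit 18349759671) (nat_lit 0) (nat_lit 36857454996) (nat_lit 3) (nat_lit 5) (nat_lit 5) (nat_lit 4) (nat_lit 3) (nat_lit 4) (nat_lit 329) (nat_lit 216) (nat_lit 175)) (XT.lf (nat_lit 0) (nat_lit 53666161873) (nat_lit 152) (nat_lit 12259295744) (nat_lit 0) (nat_lit 42383735132) (nat_lit 3) (nat_lit 5) (nat_lit 5) (nat_lit 4) (nat_lit 3) (nat_lit 4) (nat_lit 330) (nat_lit 216) (nat_lit 174))) (XT.nd (nat_lit 78) (nat_lit 76) (nat_lit 0) (XT.lf (nat_lit 0) (nat_lit 59518008622) (nat_lit 152) (nat_lit 5934033280) (nat_lit 0) (nat_lit 48156124444) (nat_lit 3) (nat_lit 5) (nat_lit 5) (nat_lit 4) (nat_lit 3) (nat_lit 4) (nat_lit 331) (nat_lit 216) (nat_lit 173)) (XT.nd (nat_lit 78) (nat_lit 0) (nat_lit 0) (XT.lf (nat_lit 0) (nat_lit 653846776) (nat_lit 76) (nat_lit 64978363041) (nat_lit 76) (nat_lit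 53540805113) (nat_lit 2) (nat_lit 4) (nat_lit 3) (nat_lit 5) (nat_lit 3) (nat_lit 4) (nat_lit 332) (nat_lit 216) (nat_lit 172)) (XT.lf (nat_lit 0) (nat_lit 7630623712) (nat_lit 76) (nat_lit 64447179103) (nat_lit 76) (nat_lit 52937550938) (nat_lit 2) (nat_lit 4) (nat_lit 3) (nat_lit 5) (nat_lit 3) (nat_lit 4) (nat_lit 333) (nat_lit 216) (nat_lit 171))))) (XT.nd (nat_lit 33852) (nat_lit 0) (nat_lit 1216) (XT.nd (nat_lit 33696) (nat_lit 0) (nat_lit 1520) (XT.lf (nat_lit 0) (nat_lit 22463701328) (nat_lit 76) (nat_lit 63387006149) (nat_lit 76) (nat_lit 51743369833) (nat_lit 2) (nat_lit 4) (nat_lit 3) (nat_lit 5) (nat_lit 3) (nat_lit 4) (nat_lit 335) (nat_lit 216) (nat_lit 169)) (XT.nd (nat_lit 78) (nat_lit 152) (nat_lit 0) (XT.lf (nat_lit 0) (nat_lit 1390967160) (nat_lit 228) (nat_lit 5099387587) (nat_lit 0) (nat_lit 1390967160) (nat_lit 24) (nat_lit 5) (nat_lit 27) (nat_lit 4) (nat_lit 24) (nat_lit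 4) (nat_lit 286) (nat_lit 217) (nat_lit 217)) (XT.lf (nat_lit 0) (nat_lit 983912596) (nat_lit 152) (nat_lit 8063008034) (nat_lit 152) (nat_lit 7289797505) (nat_lit 22) (nat_lit 4) (nat_lit 24) (nat_lit 5) (nat_lit 24) (nat_lit 4) (nat_lit 287) (nat_lit 217) (nat_lit 216)))) (XT.nd (nat_lit 78) (nat_lit 304) (nat_lit 0) (XT.lf (nat_lit 0) (nat_lit 12563946882) (nat_lit 152) (nat_lit 2944420522) (nat_lit 152) (nat_lit 1434819012) (nat_lit 22) (nat_lit 4) (nat_lit 24) (nat_lit 5) (nat_lit 24) (nat_lit 4) (nat_lit 288) (nat_lit 217) (nat_lit 215)) (XT.nd (nat_lit 78) (nat_lit 152) (nat_lit 0) (XT.lf (nat_lit 0) (nat_lit 4496542360) (nat_lit 152) (nat_lit 10735969161) (nat_lit 0) (nat_lit 2350012017) (nat_lit 20) (nat_lit 5) (nat_lit 22) (nat_lit 4) (nat_lit 20) (nat_lit 4) (nat_lit 289) (nat_lit 217) (nat_lit 214)) (XT.lf (nat_lit 0) (nat_lit 73365225) (nat_lit 152) (nat_lit 10489580211) (nat_lit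 152) (nat_lit 7694575763) (nat_lit 18) (nat_lit 4) (nat_lit 20) (nat_lit 5) (nat_lit 20) (nat_lit 4) (nat_lit 290) (nat_lit 217) (nat_lit 213)))))) (XT.nd (nat_lit 468) (nat_lit 228) (nat_lit 0) (XT.nd (nat_lit 234) (nat_lit 304) (nat_lit 0) (XT.nd (nat_lit 78) (nat_lit 152) (nat_lit 0) (XT.lf (nat_lit 0) (nat_lit 11301628477) (nat_lit 152) (nat_lit 5540062455) (nat_lit 152) (nat_lit 2127463623) (nat_lit 18) (nat_lit 4) (nat_lit 20) (nat_lit 5) (nat_lit 20) (nat_lit 4) (nat_lit 291) (nat_lit 217) (nat_lit 212)) (XT.nd (nat_lit 78) (nat_lit 0) (nat_lit 0) (XT.lf (nat_lit 0) (nat_lit 3065594602) (nat_lit 76) (nat_lit 415380059) (nat_lit 152) (nat_lit 16239401749) (nat_lit 16) (nat_lit 5) (nat_lit 17) (nat_lit 5) (nat_lit 18) (nat_lit 4) (nat_lit 292) (nat_lit 217) (nat_lit 211)) (XT.lf (nat_lit 0) (nat_lit 9264556803) (nat_lit 152) (nat_lit 6409506766) (nat_lit 0) (nat_lit 4836440032) (nat_lit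 16) (nat_lit 5) (nat_lit 18) (nat_lit 4) (nat_lit 16) (nat_lit 4) (nat_lit 293) (nat_lit 217) (nat_lit 210)))) (XT.nd (nat_lit 78) (nat_lit 152) (nat_lit 0) (XT.lf (nat_lit 0) (nat_lit 4111372794) (nat_lit 152) (nat_lit 11089533548) (nat_lit 152) (nat_lit 6143454398) (nat_lit 14) (nat_lit 4) (nat_lit 16) (nat_lit 5) (nat_lit 16) (nat_lit 4) (nat_lit 294) (nat_lit 217) (nat_lit 209)) (XT.nd (nat_lit 78) (nat_lit 152) (nat_lit 0) (XT.lf (nat_lit 0) (nat_lit 14988505102) (nat_lit 152) (nat_lit 6337080947) (nat_lit 152) (nat_lit 897704293) (nat_lit 14) (nat_lit 4) (nat_lit 16) (nat_lit 5) (nat_lit 16) (nat_lit 4) (nat_lit 295) (nat_lit 217) (nat_lit 208)) (XT.lf (nat_lit 0) (nat_lit 2984523845) (nat_lit 76) (nat_lit 1396612925) (nat_lit 152) (nat_lit 18767992672) (nat_lit 12) (nat_lit 5) (nat_lit 13) (nat_lit 5) (nat_lit 14) (nat_lit 4) (nat_lit 296) (nat_lit 217) (nat_lit 207))))) (XT.nd (nat_lit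 234) (nat_lit 152) (nat_lit 0) (XT.nd (nat_lit 78) (nat_lit 76) (nat_lit 0) (XT.lf (nat_lit 0) (nat_lit 9853351962) (nat_lit 152) (nat_lit 10587434983) (nat_lit 0) (nat_lit 3681877033) (nat_lit 12) (nat_lit 5) (nat_lit 14) (nat_lit 4) (nat_lit 12) (nat_lit 4) (nat_lit 297) (nat_lit 217) (nat_lit 206)) (XT.nd (nat_lit 78) (nat_lit 76) (nat_lit 0) (XT.lf (nat_lit 0) (nat_lit 15457247631) (nat_lit 152) (nat_lit 819935049) (nat_lit 0) (nat_lit 8872055294) (nat_lit 12) (nat_lit 5) (nat_lit 14) (nat_lit 4) (nat_lit 12) (nat_lit 4) (nat_lit 298) (nat_lit 217) (nat_lit 205)) (XT.lf (nat_lit 0) (nat_lit 9357167289) (nat_lit 76) (nat_lit 11925520815) (nat_lit 76) (nat_lit 4946311897) (nat_lit 11) (nat_lit 4) (nat_lit 12) (nat_lit 5) (nat_lit 12) (nat_lit 4) (nat_lit 299) (nat_lit 217) (nat_lit 204)))) (XT.nd (nat_lit 78) (nat_lit 152) (nat_lit 0) (XT.lf (nat_lit 0) (nat_lit 19806386313) (nat_lit 76)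 (nat_lit 7457493658) (nat_lit 76) (nat_lit 103030855) (nat_lit 11) (nat_lit 4) (nat_lit 12) (nat_lit 5) (nat_lit 12) (nat_lit 4) (nat_lit 300) (nat_lit 217) (nat_lit 203)) (XT.nd (nat_lit 78) (nat_lit 0) (nat_lit 0) (XT.lf (nat_lit 0) (nat_lit 1962114133) (nat_lit 76) (nat_lit 2803384186) (nat_lit 152) (nat_lit 23798460700) (nat_lit 9) (nat_lit 5) (nat_lit 10) (nat_lit 5) (nat_lit 11) (nat_lit 4) (nat_lit 301) (nat_lit 217) (nat_lit 202)) (XT.lf (nat_lit 0) (nat_lit 9838737406) (nat_lit 152) (nat_lit 17962218797) (nat_lit 0) (nat_lit 2021054113) (nat_lit 9) (nat_lit 5) (nat_lit 11) (nat_lit 4) (nat_lit 9) (nat_lit 4) (nat_lit 302) (nat_lit 217) (nat_lit 201))))))))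
noncomputable def xc14 : XT := (XT.nd (nat_lit 1716) (nat_lit 76) (nat_lit 0) (XT.nd (nat_lit 858) (nat_lit 228) (nat_lit 0) (XT.nd (nat_lit 390) (nat_lit 76) (nat_lit 0) (XT.nd (nat_lit 156) (nat_lit 152) (nat_lit 0) (XT.nd (nat_lit 78) (nat_lit 0) (nat_lit 0) (XT.lf (nat_lit 0) (nat_lit 15065141071) (nat_lit 152) (nat_lit 9148176898) (nat_lit 0) (nat_lit 6932740870) (nat_lit 9) (nat_lit 5) (nat_lit 11) (nat_lit 4) (nat_lit 9) (nat_lit 4) (nat_lit 303) (nat_lit 217) (nat_lit 200)) (XT.lf (nat_lit 0) (nat_lit 20430205289) (nat_lit 152) (nat_lit 111785532) (nat_lit 0) (nat_lit 11998074699) (nat_lit 9) (nat_lit 5) (nat_lit 11) (nat_lit 4) (nat_lit 9) (nat_lit 4) (nat_lit 304) (nat_lit 217) (nat_lit 199))) (XT.nd (nat_lit 78) (nat_lit 76) (nat_lit 0) (XT.lf (nat_lit 0) (nat_lit 9350941058) (nat_lit 76) (nat_lit 16685649929) (nat_lit 76) (nat_lit 7968061827) (nat_lit 8) (nat_lit 4) (nat_lit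 9) (nat_lit 5) (nat_lit 9) (nat_lit 4) (nat_lit 305) (nat_lit 217) (nat_lit 198)) (XT.nd (nat_lit 78) (nat_lit 76) (nat_lit 0) (XT.lf (nat_lit 0) (nat_lit 19087146069) (nat_lit 76) (nat_lit 12724103046) (nat_lit 76) (nat_lit 3734650645) (nat_lit 8) (nat_lit 4) (nat_lit 9) (nat_lit 5) (nat_lit 9) (nat_lit 4) (nat_lit 306) (nat_lit 217) (nat_lit 197)) (XT.lf (nat_lit 0) (nat_lit 587629076) (nat_lit 152) (nat_lit 8055483755) (nat_lit 76) (nat_lit 28524223211) (nat_lit 7) (nat_lit 5) (nat_lit 9) (nat_lit 5) (nat_lit 8) (nat_lit 4) (nat_lit 307) (nat_lit 217) (nat_lit 196))))) (XT.nd (nat_lit 234) (nat_lit 0) (nat_lit 0) (XT.nd (nat_lit 78) (nat_lit 0) (nat_lit 0) (XT.lf (nat_lit 0) (nat_lit 555759886) (nat_lit 76) (nat_lit 4395333511) (nat_lit 152) (nat_lit 33920632827) (nat_lit 6) (nat_lit 5) (nat_lit 7) (nat_lit 5) (nat_lit 8) (nat_lit 4) (nat_lit 308) (nat_lit 217) (nat_lit 195)) (XT.nd (nat_lit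 78) (nat_lit 0) (nat_lit 0) (XT.lf (nat_lit 0) (nat_lit 9515793860) (nat_lit 152) (nat_lit 31076727977) (nat_lit 0) (nat_lit 69379963) (nat_lit 6) (nat_lit 5) (nat_lit 8) (nat_lit 4) (nat_lit 6) (nat_lit 4) (nat_lit 309) (nat_lit 217) (nat_lit 194)) (XT.lf (nat_lit 0) (nat_lit 14256611144) (nat_lit 152) (nat_lit 23693545290) (nat_lit 0) (nat_lit 4593048285) (nat_lit 6) (nat_lit 5) (nat_lit 8) (nat_lit 4) (nat_lit 6) (nat_lit 4) (nat_lit 310) (nat_lit 217) (nat_lit 193)))) (XT.nd (nat_lit 78) (nat_lit 0) (nat_lit 0) (XT.lf (nat_lit 0) (nat_lit 19142582276) (nat_lit 152) (nat_lit 16106588637) (nat_lit 0) (nat_lit 9272210882) (nat_lit 6) (nat_lit 5) (nat_lit 8) (nat_lit 4) (nat_lit 6) (nat_lit 4) (nat_lit 311) (nat_lit 217) (nat_lit 192)) (XT.nd (nat_lit 78) (nat_lit 0) (nat_lit 0) (XT.lf (nat_lit 0) (nat_lit 24185340520) (nat_lit 152) (nat_lit 8297793836) (nat_lit 0) (nat_lit 14118008616)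 (nat_lit 6) (nat_lit 5) (nat_lit 8) (nat_lit 4) (nat_lit 6) (nat_lit 4) (nat_lit 312) (nat_lit 217) (nat_lit 191)) (XT.lf (nat_lit 0) (nat_lit 29396892443) (nat_lit 152) (nat_lit 248568517) (nat_lit 0) (nat_lit 19141979101) (nat_lit 6) (nat_lit 5) (nat_lit 8) (nat_lit 4) (nat_lit 6) (nat_lit 4) (nat_lit 313) (nat_lit 217) (nat_lit 190)))))) (XT.nd (nat_lit 390) (nat_lit 152) (nat_lit 0) (XT.nd (nat_lit 156) (nat_lit 0) (nat_lit 0) (XT.nd (nat_lit 78) (nat_lit 0) (nat_lit 0) (XT.lf (nat_lit 0) (nat_lit 8220666962) (nat_lit 76) (nat_lit 26648001619) (nat_lit 76) (nat_lit 16214439289) (nat_lit 5) (nat_lit 4) (nat_lit 6) (nat_lit 5) (nat_lit 6) (nat_lit 4) (nat_lit 314) (nat_lit 217) (nat_lit 189)) (XT.lf (nat_lit 0) (nat_lit 16979787864) (nat_lit 76) (nat_lit 23559874833) (nat_lit 76) (nat_lit 12956170609) (nat_lit 5) (nat_lit 4) (nat_lit 6) (nat_lit 5) (nat_lit 6) (nat_lit 4) (nat_lit 315)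 (nat_lit 217) (nat_lit 188))) (XT.nd (nat_lit 78) (nat_lit 0) (nat_lit 0) (XT.lf (nat_lit 0) (nat_lit 26044702236) (nat_lit 76) (nat_lit 20376237972) (nat_lit 76) (nat_lit 9610493849) (nat_lit 5) (nat_lit 4) (nat_lit 6) (nat_lit 5) (nat_lit 6) (nat_lit 4) (nat_lit 316) (nat_lit 217) (nat_lit 187)) (XT.nd (nat_lit 78) (nat_lit 0) (nat_lit 0) (XT.lf (nat_lit 0) (nat_lit 35436993207) (nat_lit 76) (nat_lit 17089510950) (nat_lit 76) (nat_lit 6169443114) (nat_lit 5) (nat_lit 4) (nat_lit 6) (nat_lit 5) (nat_lit 6) (nat_lit 4) (nat_lit 317) (nat_lit 217) (nat_lit 186)) (XT.lf (nat_lit 0) (nat_lit 45179023376) (nat_lit 76) (nat_lit 13691868225) (nat_lit 76) (nat_lit 2624825424) (nat_lit 5) (nat_lit 4) (nat_lit 6) (nat_lit 5) (nat_lit 6) (nat_lit 4) (nat_lit 318) (nat_lit 217) (nat_lit 185))))) (XT.nd (nat_lit 234) (nat_lit 0) (nat_lit 0) (XT.nd (nat_lit 78) (nat_lit 76) (nat_lit 0) (XT.lf (nat_lit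 0) (nat_lit 1011664674) (nat_lit 152) (nat_lit 9153339668) (nat_lit 76) (nat_lit 54272107549) (nat_lit 4) (nat_lit 5) (nat_lit 6) (nat_lit 5) (nat_lit 5) (nat_lit 4) (nat_lit 319) (nat_lit 217) (nat_lit 184)) (XT.nd (nat_lit 78) (nat_lit 76) (nat_lit 0) (XT.lf (nat_lit 0) (nat_lit 4715292202) (nat_lit 152) (nat_lit 1768286412) (nat_lit 76) (nat_lit 61043063077) (nat_lit 4) (nat_lit 5) (nat_lit 6) (nat_lit 5) (nat_lit 5) (nat_lit 4) (nat_lit 320) (nat_lit 217) (nat_lit 183)) (XT.lf (nat_lit 0) (nat_lit 5998330030) (nat_lit 76) (nat_lit 2605424705) (nat_lit 152) (nat_lit 62166934869) (nat_lit 3) (nat_lit 5) (nat_lit 4) (nat_lit 5) (nat_lit 5) (nat_lit 4) (nat_lit 321) (nat_lit 217) (nat_lit 182)))) (XT.nd (nat_lit 78) (nat_lit 0) (nat_lit 0) (XT.lf (nat_lit 0) (nat_lit 12662462521) (nat_lit 152) (nat_lit 60103458059) (nat_lit 0) (nat_lit 1411774413) (nat_lit 3) (nat_lit 5) (nat_lit 5) (nat_lit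 4) (nat_lit 3) (nat_lit 4) (nat_lit 322) (nat_lit 217) (nat_lit 181)) (XT.nd (nat_lit 78) (nat_lit 0) (nat_lit 0) (XT.lf (nat_lit 0) (nat_lit 16896441678) (nat_lit 152) (nat_lit 55325518248) (nat_lit 0) (nat_lit 5533948977) (nat_lit 3) (nat_lit 5) (nat_lit 5) (nat_lit 4) (nat_lit 3) (nat_lit 4) (nat_lit 323) (nat_lit 217) (nat_lit 180)) (XT.lf (nat_lit 0) (nat_lit 21290728171) (nat_lit 152) (nat_lit 50402119156) (nat_lit 0) (nat_lit 9821754905) (nat_lit 3) (nat_lit 5) (nat_lit 5) (nat_lit 4) (nat_lit 3) (nat_lit 4) (nat_lit 324) (nat_lit 217) (nat_lit 179))))))) (XT.nd (nat_lit 34398) (nat_lit 0) (nat_lit 912) (XT.nd (nat_lit 390) (nat_lit 76) (nat_lit 0) (XT.nd (nat_lit 156) (nat_lit 0) (nat_lit 0) (XT.nd (nat_lit 78) (nat_lit 0) (nat_lit 0) (XT.lf (nat_lit 0) (nat_lit 25855784589) (nat_lit 152) (nat_lit 45321538406) (nat_lit 0) (nat_lit 14285401261) (nat_lit 3) (nat_lit 5) (nat_lit 5)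 (nat_lit 4) (nat_lit 3) (nat_lit 4) (nat_lit 325) (nat_lit 217) (nat_lit 178)) (XT.lf (nat_lit 0) (nat_lit 30602480112) (nat_lit 152) (nat_lit 40071679377) (nat_lit 0) (nat_lit 18935515774) (nat_lit 3) (nat_lit 5) (nat_lit 5) (nat_lit 4) (nat_lit 3) (nat_lit 4) (nat_lit 326) (nat_lit 217) (nat_lit 177))) (XT.nd (nat_lit 78) (nat_lit 0) (nat_lit 0) (XT.lf (nat_lit 0) (nat_lit 35542116398) (nat_lit 152) (nat_lit 34640042404) (nat_lit 0) (nat_lit 23783170144) (nat_lit 3) (nat_lit 5) (nat_lit 5) (nat_lit 4) (nat_lit 3) (nat_lit 4) (nat_lit 327) (nat_lit 217) (nat_lit 176)) (XT.nd (nat_lit 78) (nat_lit 0) (nat_lit 0) (XT.lf (nat_lit 0) (nat_lit 40686454485) (nat_lit 152) (nat_lit 29013695018) (nat_lit 0) (nat_lit 28839906407) (nat_lit 3) (nat_lit 5) (nat_lit 5) (nat_lit 4) (nat_lit 3) (nat_lit 4) (nat_lit 328) (nat_lit 217) (nat_lit 175)) (XT.lf (nat_lit 0) (nat_lit 46047742797) (nat_lit 152)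 (nat_lit 23179241155) (nat_lit 0) (nat_lit 34117764410) (nat_lit 3) (nat_lit 5) (nat_lit 5) (nat_lit 4) (nat_lit 3) (nat_lit 4) (nat_lit 329) (nat_lit 217) (nat_lit 174))))) (XT.nd (nat_lit 234) (nat_lit 76) (nat_lit 0) (XT.nd (nat_lit 78) (nat_lit 0) (nat_lit 0) (XT.lf (nat_lit 0) (nat_lit 51638746306) (nat_lit 152) (nat_lit 17122789257) (nat_lit 0) (nat_lit 39629310482) (nat_lit 3) (nat_lit 5) (nat_lit 5) (nat_lit 4) (nat_lit 3) (nat_lit 4) (nat_lit 330) (nat_lit 217) (nat_lit 173)) (XT.nd (nat_lit 78) (nat_lit 0) (nat_lit 0) (XT.lf (nat_lit 0) (nat_lit 57472776925) (nat_lit 152) (nat_lit 10829919200) (nat_lit 0) (nat_lit 45387667352) (nat_lit 3) (nat_lit 5) (nat_lit 5) (nat_lit 4) (nat_lit 3) (nat_lit 4) (nat_lit 331) (nat_lit 217) (nat_lit 172)) (XT.lf (nat_lit 0) (nat_lit 63563725203) (nat_lit 152) (nat_lit 4285647961) (nat_lit 0) (nat_lit 51406545392) (nat_lit 3) (nat_lit 5) (nat_lit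 5) (nat_lit 4) (nat_lit 3) (nat_lit 4) (nat_lit 332) (nat_lit 217) (nat_lit 171)))) (XT.nd (nat_lit 156) (nat_lit 0) (nat_lit 0) (XT.lf (nat_lit 0) (nat_lit 2575870570) (nat_lit 76) (nat_lit 67374983672) (nat_lit 76) (nat_lit 55149165540) (nat_lit 2) (nat_lit 4) (nat_lit 3) (nat_lit 5) (nat_lit 3) (nat_lit 4) (nat_lit 333) (nat_lit 217) (nat_lit 170)) (XT.nd (nat_lit 33540) (nat_lit 0) (nat_lit 2052) (XT.lf (nat_lit 0) (nat_lit 17353229826) (nat_lit 76) (nat_lit 66339945863) (nat_lit 76) (nat_lit 53986500921) (nat_lit 2) (nat_lit 4) (nat_lit 3) (nat_lit 5) (nat_lit 3) (nat_lit 4) (nat_lit 335) (nat_lit 217) (nat_lit 168)) (XT.lf (nat_lit 0) (nat_lit 3115919277) (nat_lit 228) (nat_lit 1118495212) (nat_lit 0) (nat_lit 3115919277) (nat_lit 29) (nat_lit 5) (nat_lit 32) (nat_lit 4) (nat_lit 29) (nat_lit 4) (nat_lit 284) (nat_lit 218) (nat_lit 218)))))) (XT.nd (nat_lit 390) (nat_lit 456) (nat_lit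 0) (XT.nd (nat_lit 156) (nat_lit 304) (nat_lit 0) (XT.nd (nat_lit 78) (nat_lit 228) (nat_lit 0) (XT.lf (nat_lit 0) (nat_lit 9301593981) (nat_lit 152) (nat_lit 3376768529) (nat_lit 152) (nat_lit 2540541341) (nat_lit 27) (nat_lit 4) (nat_lit 29) (nat_lit 5) (nat_lit 29) (nat_lit 4) (nat_lit 285) (nat_lit 218) (nat_lit 217)) (XT.lf (nat_lit 0) (nat_lit 3482058559) (nat_lit 228) (nat_lit 10387056253) (nat_lit 0) (nat_lit 1896976973) (nat_lit 24) (nat_lit 5) (nat_lit 27) (nat_lit 4) (nat_lit 24) (nat_lit 4) (nat_lit 286) (nat_lit 218) (nat_lit 216))) (XT.nd (nat_lit 78) (nat_lit 152) (nat_lit 0) (XT.lf (nat_lit 0) (nat_lit 609000316) (nat_lit 152) (nat_lit 9028015126) (nat_lit 152) (nat_lit 6706542560) (nat_lit 22) (nat_lit 4) (nat_lit 24) (nat_lit 5) (nat_lit 24) (nat_lit 4) (nat_lit 287) (nat_lit 218) (nat_lit 215)) (XT.nd (nat_lit 78) (nat_lit 152) (nat_lit 0) (XT.lf (nat_lit 0) (nat_lit 12014859327)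 (nat_lit 152) (nat_lit 3980570953) (nat_lit 152) (nat_lit 957773643) (nat_lit 22) (nat_lit 4) (nat_lit 24) (nat_lit 5) (nat_lit 24) (nat_lit 4) (nat_lit 288) (nat_lit 218) (nat_lit 214)) (XT.lf (nat_lit 0) (nat_lit 4847281254) (nat_lit 152) (nat_lit 11484659817) (nat_lit 0) (nat_lit 1264052480) (nat_lit 20) (nat_lit 5) (nat_lit 22) (nat_lit 4) (nat_lit 20) (nat_lit 4) (nat_lit 289) (nat_lit 218) (nat_lit 213))))) (XT.nd (nat_lit 234) (nat_lit 152) (nat_lit 0) (XT.nd (nat_lit 78) (nat_lit 304) (nat_lit 0) (XT.lf (nat_lit 0) (nat_lit 10816310720) (nat_lit 152) (nat_lit 842190471) (nat_lit 0) (nat_lit 6615487561) (nat_lit 20) (nat_lit 5) (nat_lit 22) (nat_lit 4) (nat_lit 20) (nat_lit 4) (nat_lit 290) (nat_lit 218) (nat_lit 212)) (XT.nd (nat_lit 78) (nat_lit 152) (nat_lit 0) (XT.lf (nat_lit 0) (nat_lit 10208620234) (nat_lit 152) (nat_lit 6784569427) (nat_lit 152) (nat_lit 1995561140) (nat_lit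 18) (nat_lit 4) (nat_lit 20) (nat_lit 5) (nat_lit 20) (nat_lit 4) (nat_lit 291) (nat_lit 218) (nat_lit 211)) (XT.lf (nat_lit 0) (nat_lit 1771571353) (nat_lit 76) (nat_lit 1736190200) (nat_lit 152) (nat_lit 16235316536) (nat_lit 16) (nat_lit 5) (nat_lit 17) (nat_lit 5) (nat_lit 18) (nat_lit 4) (nat_lit 292) (nat_lit 218) (nat_lit 210)))) (XT.nd (nat_lit 78) (nat_lit 152) (nat_lit 0) (XT.lf (nat_lit 0) (nat_lit 9190781273) (nat_lit 152) (nat_lit 7866069109) (nat_lit 0) (nat_lit 3479435787) (nat_lit 16) (nat_lit 5) (nat_lit 18) (nat_lit 4) (nat_lit 16) (nat_lit 4) (nat_lit 293) (nat_lit 218) (nat_lit 209)) (XT.nd (nat_lit 78) (nat_lit 0) (nat_lit 0) (XT.lf (nat_lit 0) (nat_lit 2477660506) (nat_lit 152) (nat_lit 12550084173) (nat_lit 152) (nat_lit 6345441183) (nat_lit 14) (nat_lit 4) (nat_lit 16) (nat_lit 5) (nat_lit 16) (nat_lit 4) (nat_lit 294) (nat_lit 218) (nat_lit 208)) (XT.lf (nat_lit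 0) (nat_lit 13213686625) (nat_lit 152) (nat_lit 7857684322) (nat_lit 152) (nat_lit 1183234186) (nat_lit 14) (nat_lit 4) (nat_lit 16) (nat_lit 5) (nat_lit 16) (nat_lit 4) (nat_lit 295) (nat_lit 218) (nat_lit 207))))))))
noncomputable def xc15 : XT := (XT.nd (nat_lit 1716) (nat_lit 228) (nat_lit 0) (XT.nd (nat_lit 858) (nat_lit 228) (nat_lit 0) (XT.nd (nat_lit 390) (nat_lit 228) (nat_lit 0) (XT.nd (nat_lit 156) (nat_lit 76) (nat_lit 0) (XT.nd (nat_lit 78) (nat_lit 0) (nat_lit 0) (XT.lf (nat_lit 0) (nat_lit 1006544633) (nat_lit 76) (nat_lit 2997608148) (nat_lit 152) (nat_lit 19179338259) (nat_lit 12) (nat_lit 5) (nat_lit 13) (nat_lit 5) (nat_lit 14) (nat_lit 4) (nat_lit 296) (nat_lit 218) (nat_lit 206)) (XT.lf (nat_lit 0) (nat_lit 9384867674) (nat_lit 152) (nat_lit 12718255734) (nat_lit 0) (nat_lit 2056698310) (nat_lit 12) (nat_lit 5) (nat_lit 14) (nat_lit 4) (nat_lit 12) (nat_lit 4) (nat_lit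 297) (nat_lit 218) (nat_lit 205))) (XT.nd (nat_lit 78) (nat_lit 76) (nat_lit 0) (XT.lf (nat_lit 0) (nat_lit 14916277101) (nat_lit 152) (nat_lit 3078250741) (nat_lit 0) (nat_lit 7194091158) (nat_lit 12) (nat_lit 5) (nat_lit 14) (nat_lit 4) (nat_lit 12) (nat_lit 4) (nat_lit 298) (nat_lit 218) (nat_lit 204)) (XT.nd (nat_lit 78) (nat_lit 0) (nat_lit 0) (XT.lf (nat_lit 0) (nat_lit 6930066363) (nat_lit 76) (nat_lit 13719285915) (nat_lit 76) (nat_lit 5621846087) (nat_lit 11) (nat_lit 4) (nat_lit 12) (nat_lit 5) (nat_lit 12) (nat_lit 4) (nat_lit 299) (nat_lit 218) (nat_lit 203)) (XT.lf (nat_lit 0) (nat_lit 17261342222) (nat_lit 76) (nat_lit 9302321024) (nat_lit 76) (nat_lit 847496543) (nat_lit 11) (nat_lit 4) (nat_lit 12) (nat_lit 5) (nat_lit 12) (nat_lit 4) (nat_lit 300) (nat_lit 218) (nat_lit 202))))) (XT.nd (nat_lit 234) (nat_lit 76) (nat_lit 0) (XT.nd (nat_lit 78) (nat_lit 76) (nat_lit 0) (XT.lf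 (nat_lit 0) (nat_lit 3952330801) (nat_lit 152) (nat_lit 771959290) (nat_lit 76) (nat_lit 23886670292) (nat_lit 10) (nat_lit 5) (nat_lit 12) (nat_lit 5) (nat_lit 11) (nat_lit 4) (nat_lit 301) (nat_lit 218) (nat_lit 201)) (XT.nd (nat_lit 78) (nat_lit 0) (nat_lit 0) (XT.lf (nat_lit 0) (nat_lit 8936636139) (nat_lit 152) (nat_lit 20852183430) (nat_lit 0) (nat_lit 82899020) (nat_lit 9) (nat_lit 5) (nat_lit 11) (nat_lit 4) (nat_lit 9) (nat_lit 4) (nat_lit 302) (nat_lit 218) (nat_lit 200)) (XT.lf (nat_lit 0) (nat_lit 14103205838) (nat_lit 152) (nat_lit 12144655008) (nat_lit 0) (nat_lit 4949738331) (nat_lit 9) (nat_lit 5) (nat_lit 11) (nat_lit 4) (nat_lit 9) (nat_lit 4) (nat_lit 303) (nat_lit 218) (nat_lit 199)))) (XT.nd (nat_lit 78) (nat_lit 76) (nat_lit 0) (XT.lf (nat_lit 0) (nat_lit 19411285326) (nat_lit 152) (nat_lit 3209705049) (nat_lit 0) (nat_lit 9972360306) (nat_lit 9) (nat_lit 5) (nat_lit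 11) (nat_lit 4) (nat_lit 9) (nat_lit 4) (nat_lit 304) (nat_lit 218) (nat_lit 198)) (XT.nd (nat_lit 78) (nat_lit 0) (nat_lit 0) (XT.lf (nat_lit 0) (nat_lit 6092833260) (nat_lit 76) (nat_lit 18839247669) (nat_lit 76) (nat_lit 9128458350) (nat_lit 8) (nat_lit 4) (nat_lit 9) (nat_lit 5) (nat_lit 9) (nat_lit 4) (nat_lit 305) (nat_lit 218) (nat_lit 197)) (XT.lf (nat_lit 0) (nat_lit 15735196738) (nat_lit 76) (nat_lit 14918953426) (nat_lit 76) (nat_lit 4949245729) (nat_lit 8) (nat_lit 4) (nat_lit 9) (nat_lit 5) (nat_lit 9) (nat_lit 4) (nat_lit 306) (nat_lit 218) (nat_lit 196)))))) (XT.nd (nat_lit 390) (nat_lit 76) (nat_lit 0) (XT.nd (nat_lit 156) (nat_lit 76) (nat_lit 0) (XT.nd (nat_lit 78) (nat_lit 76) (nat_lit 0) (XT.lf (nat_lit 0) (nat_lit 25676463969) (nat_lit 76) (nat_lit 10883185342) (nat_lit 76) (nat_lit 666888712) (nat_lit 8) (nat_lit 4) (nat_lit 9) (nat_lit 5) (nat_lit 9) (nat_lit 4) (nat_lit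 307) (nat_lit 218) (nat_lit 195)) (XT.lf (nat_lit 0) (nat_lit 3656046297) (nat_lit 152) (nat_lit 3029369247) (nat_lit 76) (nat_lit 32247339441) (nat_lit 7) (nat_lit 5) (nat_lit 9) (nat_lit 5) (nat_lit 8) (nat_lit 4) (nat_lit 308) (nat_lit 218) (nat_lit 194))) (XT.nd (nat_lit 78) (nat_lit 0) (nat_lit 0) (XT.lf (nat_lit 0) (nat_lit 5856818572) (nat_lit 76) (nat_lit 2286839179) (nat_lit 152) (nat_lit 32581612319) (nat_lit 6) (nat_lit 5) (nat_lit 7) (nat_lit 5) (nat_lit 8) (nat_lit 4) (nat_lit 309) (nat_lit 218) (nat_lit 193)) (XT.nd (nat_lit 78) (nat_lit 0) (nat_lit 0) (XT.lf (nat_lit 0) (nat_lit 12817669603) (nat_lit 152) (nat_lit 27543962006) (nat_lit 0) (nat_lit 2246971104) (nat_lit 6) (nat_lit 5) (nat_lit 8) (nat_lit 4) (nat_lit 6) (nat_lit 4) (nat_lit 310) (nat_lit 218) (nat_lit 192)) (XT.lf (nat_lit 0) (nat_lit 17660952225) (nat_lit 152) (nat_lit 20033839345) (nat_lit 0) (nat_lit 6893293216)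 (nat_lit 6) (nat_lit 5) (nat_lit 8) (nat_lit 4) (nat_lit 6) (nat_lit 4) (nat_lit 311) (nat_lit 218) (nat_lit 191))))) (XT.nd (nat_lit 234) (nat_lit 0) (nat_lit 0) (XT.nd (nat_lit 78) (nat_lit 76) (nat_lit 0) (XT.lf (nat_lit 0) (nat_lit 22663054745) (nat_lit 152) (nat_lit 12298219775) (nat_lit 0) (nat_lit 11707814299) (nat_lit 6) (nat_lit 5) (nat_lit 8) (nat_lit 4) (nat_lit 6) (nat_lit 4) (nat_lit 312) (nat_lit 218) (nat_lit 190)) (XT.nd (nat_lit 78) (nat_lit 76) (nat_lit 0) (XT.lf (nat_lit 0) (nat_lit 27835886932) (nat_lit 152) (nat_lit 4318685152) (nat_lit 0) (nat_lit 16701997497) (nat_lit 6) (nat_lit 5) (nat_lit 8) (nat_lit 4) (nat_lit 6) (nat_lit 4) (nat_lit 313) (nat_lit 218) (nat_lit 189)) (XT.lf (nat_lit 0) (nat_lit 4001854000) (nat_lit 76) (nat_lit 29228379321) (nat_lit 76) (nat_lit 17924347992) (nat_lit 5) (nat_lit 4) (nat_lit 6) (nat_lit 5) (nat_lit 6) (nat_lit 4) (nat_lit 314)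 (nat_lit 218) (nat_lit 188)))) (XT.nd (nat_lit 78) (nat_lit 0) (nat_lit 0) (XT.lf (nat_lit 0) (nat_lit 12696505352) (nat_lit 76) (nat_lit 26168982419) (nat_lit 76) (nat_lit 14702911192) (nat_lit 5) (nat_lit 4) (nat_lit 6) (nat_lit 5) (nat_lit 6) (nat_lit 4) (nat_lit 315) (nat_lit 218) (nat_lit 187)) (XT.nd (nat_lit 78) (nat_lit 0) (nat_lit 0) (XT.lf (nat_lit 0) (nat_lit 21700020154) (nat_lit 76) (nat_lit 23012707354) (nat_lit 76) (nat_lit 11392312414) (nat_lit 5) (nat_lit 4) (nat_lit 6) (nat_lit 5) (nat_lit 6) (nat_lit 4) (nat_lit 316) (nat_lit 218) (nat_lit 186)) (XT.lf (nat_lit 0) (nat_lit 31033835345) (nat_lit 76) (nat_lit 19752039185) (nat_lit 76) (nat_lit 7984669280) (nat_lit 5) (nat_lit 4) (nat_lit 6) (nat_lit 5) (nat_lit 6) (nat_lit 4) (nat_lit 317) (nat_lit 218) (nat_lit 185))))))) (XT.nd (nat_lit 858) (nat_lit 76) (nat_lit 0) (XT.nd (nat_lit 390) (nat_lit 0) (nat_lit 0) (XT.nd (nat_lit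 156) (nat_lit 152) (nat_lit 0) (XT.nd (nat_lit 78) (nat_lit 0) (nat_lit 0) (XT.lf (nat_lit 0) (nat_lit 40720174294) (nat_lit 76) (nat_lit 16379214415) (nat_lit 76) (nat_lit 4471868353) (nat_lit 5) (nat_lit 4) (nat_lit 6) (nat_lit 5) (nat_lit 6) (nat_lit 4) (nat_lit 318) (nat_lit 218) (nat_lit 184)) (XT.lf (nat_lit 0) (nat_lit 50782099713) (nat_lit 76) (nat_lit 12886202511) (nat_lit 76) (nat_lit 845545822) (nat_lit 5) (nat_lit 4) (nat_lit 6) (nat_lit 5) (nat_lit 6) (nat_lit 4) (nat_lit 319) (nat_lit 218) (nat_lit 183))) (XT.nd (nat_lit 78) (nat_lit 76) (nat_lit 0) (XT.lf (nat_lit 0) (nat_lit 2846285745) (nat_lit 152) (nat_lit 6389659125) (nat_lit 76) (nat_lit 58368540917) (nat_lit 4) (nat_lit 5) (nat_lit 6) (nat_lit 5) (nat_lit 5) (nat_lit 4) (nat_lit 320) (nat_lit 218) (nat_lit 182)) (XT.nd (nat_lit 78) (nat_lit 0) (nat_lit 0) (XT.lf (nat_lit 0) (nat_lit 1235355528) (nat_lit 76) (nat_lit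 5426659931) (nat_lit 152) (nat_lit 64188714735) (nat_lit 3) (nat_lit 5) (nat_lit 4) (nat_lit 5) (nat_lit 5) (nat_lit 4) (nat_lit 321) (nat_lit 218) (nat_lit 181)) (XT.lf (nat_lit 0) (nat_lit 9278254386) (nat_lit 76) (nat_lit 1402508654) (nat_lit 152) (nat_lit 63578185168) (nat_lit 3) (nat_lit 5) (nat_lit 4) (nat_lit 5) (nat_lit 5) (nat_lit 4) (nat_lit 322) (nat_lit 218) (nat_lit 180))))) (XT.nd (nat_lit 234) (nat_lit 0) (nat_lit 0) (XT.nd (nat_lit 78) (nat_lit 0) (nat_lit 0) (XT.lf (nat_lit 0) (nat_lit 14876191342) (nat_lit 152) (nat_lit 60234851612) (nat_lit 0) (nat_lit 2727288848) (nat_lit 3) (nat_lit 5) (nat_lit 5) (nat_lit 4) (nat_lit 3) (nat_lit 4) (nat_lit 323) (nat_lit 218) (nat_lit 179)) (XT.nd (nat_lit 78) (nat_lit 0) (nat_lit 0) (XT.lf (nat_lit 0) (nat_lit 19246602518) (nat_lit 152) (nat_lit 55354861445) (nat_lit 0) (nat_lit 6996289963) (nat_lit 3) (nat_lit 5) (nat_lit 5) (nat_lit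 4) (nat_lit 3) (nat_lit 4) (nat_lit 324) (nat_lit 218) (nat_lit 178)) (XT.lf (nat_lit 0) (nat_lit 23788920539) (nat_lit 152) (nat_lit 50315622528) (nat_lit 0) (nat_lit 11442026972) (nat_lit 3) (nat_lit 5) (nat_lit 5) (nat_lit 4) (nat_lit 3) (nat_lit 4) (nat_lit 325) (nat_lit 218) (nat_lit 177)))) (XT.nd (nat_lit 78) (nat_lit 0) (nat_lit 0) (XT.lf (nat_lit 0) (nat_lit 28513960446) (nat_lit 152) (nat_lit 45105136674) (nat_lit 0) (nat_lit 16075084964) (nat_lit 3) (nat_lit 5) (nat_lit 5) (nat_lit 4) (nat_lit 3) (nat_lit 4) (nat_lit 326) (nat_lit 218) (nat_lit 176)) (XT.nd (nat_lit 78) (nat_lit 0) (nat_lit 0) (XT.lf (nat_lit 0) (nat_lit 33432972335) (nat_lit 152) (nat_lit 39710997962) (nat_lit 0) (nat_lit 20906495029) (nat_lit 3) (nat_lit 5) (nat_lit 5) (nat_lit 4) (nat_lit 3) (nat_lit 4) (nat_lit 327) (nat_lit 218) (nat_lit 175)) (XT.lf (nat_lit 0) (nat_lit 38557668139) (nat_lit 152) (nat_lit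 34120363206) (nat_lit 0) (nat_lit 25947760524) (nat_lit 3) (nat_lit 5) (nat_lit 5) (nat_lit 4) (nat_lit 3) (nat_lit 4) (nat_lit 328) (nat_lit 218) (nat_lit 174)))))) (XT.nd (nat_lit 33852) (nat_lit 0) (nat_lit 1672) (XT.nd (nat_lit 234) (nat_lit 76) (nat_lit 0) (XT.nd (nat_lit 78) (nat_lit 0) (nat_lit 0) (XT.lf (nat_lit 0) (nat_lit 43900249515) (nat_lit 152) (nat_lit 28319921371) (nat_lit 0) (nat_lit 31210884463) (nat_lit 3) (nat_lit 5) (nat_lit 5) (nat_lit 4) (nat_lit 3) (nat_lit 4) (nat_lit 329) (nat_lit 218) (nat_lit 173)) (XT.nd (nat_lit 78) (nat_lit 0) (nat_lit 0) (XT.lf (nat_lit 0) (nat_lit 49473436894) (nat_lit 152) (nat_lit 22295861881) (nat_lit 0) (nat_lit 36708398093) (nat_lit 3) (nat_lit 5) (nat_lit 5) (nat_lit 4) (nat_lit 3) (nat_lit 4) (nat_lit 330) (nat_lit 218) (nat_lit 172)) (XT.lf (nat_lit 0) (nat_lit 55290499771) (nat_lit 152) (nat_lit 16033841737) (nat_lit 0) (nat_lit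 42453390732) (nat_lit 3) (nat_lit 5) (nat_lit 5) (nat_lit 4) (nat_lit 3) (nat_lit 4) (nat_lit 331) (nat_lit 218) (nat_lit 171)))) (XT.nd (nat_lit 78) (nat_lit 76) (nat_lit 0) (XT.lf (nat_lit 0) (nat_lit 61365288295) (nat_lit 152) (nat_lit 9518951367) (nat_lit 0) (nat_lit 48459540935) (nat_lit 3) (nat_lit 5) (nat_lit 5) (nat_lit 4) (nat_lit 3) (nat_lit 4) (nat_lit 332) (nat_lit 218) (nat_lit 170)) (XT.nd (nat_lit 156) (nat_lit 76) (nat_lit 0) (XT.lf (nat_lit 0) (nat_lit 67712266248) (nat_lit 152) (nat_lit 2735679128) (nat_lit 0) (nat_lit 54741149058) (nat_lit 3) (nat_lit 5) (nat_lit 5) (nat_lit 4) (nat_lit 3) (nat_lit 4) (nat_lit 333) (nat_lit 218) (nat_lit 169)) (XT.lf (nat_lit 0) (nat_lit 11934169643) (nat_lit 76) (nat_lit 69464470797) (nat_lit 76) (nat_lit 56371804263) (nat_lit 2) (nat_lit 4) (nat_lit 3) (nat_lit 5) (nat_lit 3) (nat_lit 4) (nat_lit 335) (nat_lit 218) (nat_lit 167)))))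 (XT.nd (nat_lit 234) (nat_lit 380) (nat_lit 0) (XT.nd (nat_lit 78) (nat_lit 228) (nat_lit 0) (XT.lf (nat_lit 0) (nat_lit 1674813723) (nat_lit 152) (nat_lit 2598242911) (nat_lit 152) (nat_lit 2598242911) (nat_lit 32) (nat_lit 4) (nat_lit 34) (nat_lit 5) (nat_lit 34) (nat_lit 4) (nat_lit 282) (nat_lit 219) (nat_lit 219)) (XT.nd (nat_lit 78) (nat_lit 0) (nat_lit 0) (XT.lf (nat_lit 0) (nat_lit 796476513) (nat_lit 152) (nat_lit 41383692) (nat_lit 228) (nat_lit 13373424827) (nat_lit 29) (nat_lit 5) (nat_lit 31) (nat_lit 5) (nat_lit 32) (nat_lit 4) (nat_lit 283) (nat_lit 219) (nat_lit 218)) (XT.lf (nat_lit 0) (nat_lit 6998206812) (nat_lit 228) (nat_lit 2421973107) (nat_lit 0) (nat_lit 5283941077) (nat_lit 29) (nat_lit 5) (nat_lit 32) (nat_lit 4) (nat_lit 29) (nat_lit 4) (nat_lit 284) (nat_lit 219) (nat_lit 217)))) (XT.nd (nat_lit 78) (nat_lit 228) (nat_lit 0) (XT.lf (nat_lit 0) (nat_lit 8933249589)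 (nat_lit 152) (nat_lit 4401587770) (nat_lit 152) (nat_lit 1890915189) (nat_lit 27) (nat_lit 4) (nat_lit 29) (nat_lit 5) (nat_lit 29) (nat_lit 4) (nat_lit 285) (nat_lit 219) (nat_lit 216)) (XT.nd (nat_lit 78) (nat_lit 0) (nat_lit 0) (XT.lf (nat_lit 0) (nat_lit 3999016652) (nat_lit 228) (nat_lit 10952347777) (nat_lit 0) (nat_lit 825079476) (nat_lit 24) (nat_lit 5) (nat_lit 27) (nat_lit 4) (nat_lit 24) (nat_lit 4) (nat_lit 286) (nat_lit 219) (nat_lit 215)) (XT.lf (nat_lit 0) (nat_lit 10046761795) (nat_lit 228) (nat_lit 138951484) (nat_lit 0) (nat_lit 6171499876) (nat_lit 24) (nat_lit 5) (nat_lit 27) (nat_lit 4) (nat_lit 24) (nat_lit 4) (nat_lit 287) (nat_lit 219) (nat_lit 214))))))))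
noncomputable def xc16 : XT := (XT.nd (nat_lit 1716) (nat_lit 228) (nat_lit 0) (XT.nd (nat_lit 858) (nat_lit 456) (nat_lit 0) (XT.nd (nat_lit 390) (nat_lit 304) (nat_lit 0) (XT.nd (nat_lit 156) (nat_lit 304) (nat_lit 0) (XT.nd (nat_lit 78) (nat_lit 152) (nat_lit 0) (XT.lf (nat_lit 0) (nat_lit 11098260905) (nat_lit 152) (nat_lit 5207427803) (nat_lit 152) (nat_lit 664237557) (nat_lit 22) (nat_lit 4) (nat_lit 24) (nat_lit 5) (nat_lit 24) (nat_lit 4) (nat_lit 288) (nat_lit 219) (nat_lit 213)) (XT.lf (nat_lit 0) (nat_lit 5006203329) (nat_lit 76) (nat_lit 11292134) (nat_lit 152) (nat_lit 12598739930) (nat_lit 20) (nat_lit 5) (nat_lit 21) (nat_lit 5) (nat_lit 22) (nat_lit 4) (nat_lit 289) (nat_lit 219) (nat_lit 212))) (XT.nd (nat_lit 78) (nat_lit 304) (nat_lit 0) (XT.lf (nat_lit 0) (nat_lit 10894351261) (nat_lit 152) (nat_lit 2125009810) (nat_lit 0) (nat_lit 5277707431) (nat_lit 20) (nat_lit 5)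 (nat_lit 22) (nat_lit 4) (nat_lit 20) (nat_lit 4) (nat_lit 290) (nat_lit 219) (nat_lit 211)) (XT.nd (nat_lit 78) (nat_lit 152) (nat_lit 0) (XT.lf (nat_lit 0) (nat_lit 8747230937) (nat_lit 152) (nat_lit 8222270429) (nat_lit 152) (nat_lit 2045450286) (nat_lit 18) (nat_lit 4) (nat_lit 20) (nat_lit 5) (nat_lit 20) (nat_lit 4) (nat_lit 291) (nat_lit 219) (nat_lit 210)) (XT.lf (nat_lit 0) (nat_lit 104404747) (nat_lit 76) (nat_lit 3252603203) (nat_lit 152) (nat_lit 16415404533) (nat_lit 16) (nat_lit 5) (nat_lit 17) (nat_lit 5) (nat_lit 18) (nat_lit 4) (nat_lit 292) (nat_lit 219) (nat_lit 209))))) (XT.nd (nat_lit 234) (nat_lit 152) (nat_lit 0) (XT.nd (nat_lit 78) (nat_lit 152) (nat_lit 0) (XT.lf (nat_lit 0) (nat_lit 8941769090) (nat_lit 152) (nat_lit 9693263754) (nat_lit 0) (nat_lit 1933596447) (nat_lit 16) (nat_lit 5) (nat_lit 18) (nat_lit 4) (nat_lit 16) (nat_lit 4) (nat_lit 293) (nat_lit 219)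 (nat_lit 208)) (XT.nd (nat_lit 78) (nat_lit 0) (nat_lit 0) (XT.lf (nat_lit 0) (nat_lit 472994917) (nat_lit 152) (nat_lit 14206770467) (nat_lit 152) (nat_lit 6728790678) (nat_lit 14) (nat_lit 4) (nat_lit 16) (nat_lit 5) (nat_lit 16) (nat_lit 4) (nat_lit 294) (nat_lit 219) (nat_lit 207)) (XT.lf (nat_lit 0) (nat_lit 11074634190) (nat_lit 152) (nat_lit 9571563712) (nat_lit 152) (nat_lit 1646148545) (nat_lit 14) (nat_lit 4) (nat_lit 16) (nat_lit 5) (nat_lit 16) (nat_lit 4) (nat_lit 295) (nat_lit 219) (nat_lit 206)))) (XT.nd (nat_lit 78) (nat_lit 76) (nat_lit 0) (XT.lf (nat_lit 0) (nat_lit 3466298628) (nat_lit 228) (nat_lit 1314957881) (nat_lit 76) (nat_lit 18442679660) (nat_lit 13) (nat_lit 5) (nat_lit 16) (nat_lit 5) (nat_lit 14) (nat_lit 4) (nat_lit 296) (nat_lit 219) (nat_lit 205)) (XT.nd (nat_lit 78) (nat_lit 0) (nat_lit 0) (XT.lf (nat_lit 0) (nat_lit 8744362375) (nat_lit 152) (nat_lit 15216982151)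 (nat_lit 0) (nat_lit 242050555) (nat_lit 12) (nat_lit 5) (nat_lit 14) (nat_lit 4) (nat_lit 12) (nat_lit 4) (nat_lit 297) (nat_lit 219) (nat_lit 204)) (XT.lf (nat_lit 0) (nat_lit 14206737286) (nat_lit 152) (nat_lit 5698400911) (nat_lit 0) (nat_lit 5329171581) (nat_lit 12) (nat_lit 5) (nat_lit 14) (nat_lit 4) (nat_lit 12) (nat_lit 4) (nat_lit 298) (nat_lit 219) (nat_lit 203)))))) (XT.nd (nat_lit 390) (nat_lit 228) (nat_lit 0) (XT.nd (nat_lit 156) (nat_lit 152) (nat_lit 0) (XT.nd (nat_lit 78) (nat_lit 0) (nat_lit 0) (XT.lf (nat_lit 0) (nat_lit 4139826903) (nat_lit 76) (nat_lit 15707416915) (nat_lit 76) (nat_lit 6472466557) (nat_lit 11) (nat_lit 4) (nat_lit 12) (nat_lit 5) (nat_lit 12) (nat_lit 4) (nat_lit 299) (nat_lit 219) (nat_lit 202)) (XT.lf (nat_lit 0) (nat_lit 14358775937) (nat_lit 76) (nat_lit 11339082752) (nat_lit 76) (nat_lit 1763766058) (nat_lit 11) (nat_lit 4) (nat_lit 12) (nat_lit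 5) (nat_lit 12) (nat_lit 4) (nat_lit 300) (nat_lit 219) (nat_lit 201))) (XT.nd (nat_lit 78) (nat_lit 76) (nat_lit 0) (XT.lf (nat_lit 0) (nat_lit 2992638150) (nat_lit 152) (nat_lit 3824419663) (nat_lit 76) (nat_lit 21846509744) (nat_lit 10) (nat_lit 5) (nat_lit 12) (nat_lit 5) (nat_lit 11) (nat_lit 4) (nat_lit 301) (nat_lit 219) (nat_lit 200)) (XT.nd (nat_lit 78) (nat_lit 0) (nat_lit 0) (XT.lf (nat_lit 0) (nat_lit 5802027674) (nat_lit 76) (nat_lit 2084782711) (nat_lit 152) (nat_lit 22040256417) (nat_lit 9) (nat_lit 5) (nat_lit 10) (nat_lit 5) (nat_lit 11) (nat_lit 4) (nat_lit 302) (nat_lit 219) (nat_lit 199)) (XT.lf (nat_lit 0) (nat_lit 12976355148) (nat_lit 152) (nat_lit 15498911907) (nat_lit 0) (nat_lit 2780026364) (nat_lit 9) (nat_lit 5) (nat_lit 11) (nat_lit 4) (nat_lit 9) (nat_lit 4) (nat_lit 303) (nat_lit 219) (nat_lit 198))))) (XT.nd (nat_lit 234) (nat_lit 152) (nat_lit 0) (XT.nd (nat_lit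 78) (nat_lit 76) (nat_lit 0) (XT.lf (nat_lit 0) (nat_lit 18230163465) (nat_lit 152) (nat_lit 6660572811) (nat_lit 0) (nat_lit 7761970383) (nat_lit 9) (nat_lit 5) (nat_lit 11) (nat_lit 4) (nat_lit 9) (nat_lit 4) (nat_lit 304) (nat_lit 219) (nat_lit 197)) (XT.nd (nat_lit 78) (nat_lit 0) (nat_lit 0) (XT.lf (nat_lit 0) (nat_lit 2479444929) (nat_lit 76) (nat_lit 21185093209) (nat_lit 76) (nat_lit 10457981748) (nat_lit 8) (nat_lit 4) (nat_lit 9) (nat_lit 5) (nat_lit 9) (nat_lit 4) (nat_lit 305) (nat_lit 219) (nat_lit 196)) (XT.lf (nat_lit 0) (nat_lit 12032435519) (nat_lit 76) (nat_lit 17304087196) (nat_lit 76) (nat_lit 6330386802) (nat_lit 8) (nat_lit 4) (nat_lit 9) (nat_lit 5) (nat_lit 9) (nat_lit 4) (nat_lit 306) (nat_lit 219) (nat_lit 195)))) (XT.nd (nat_lit 78) (nat_lit 152) (nat_lit 0) (XT.lf (nat_lit 0) (nat_lit 21888585714) (nat_lit 76) (nat_lit 13305736473) (nat_lit 76) (nat_lit 2097189477)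 (nat_lit 8) (nat_lit 4) (nat_lit 9) (nat_lit 5) (nat_lit 9) (nat_lit 4) (nat_lit 307) (nat_lit 219) (nat_lit 194)) (XT.nd (nat_lit 78) (nat_lit 76) (nat_lit 0) (XT.lf (nat_lit 0) (nat_lit 2207750701) (nat_lit 152) (nat_lit 6950476502) (nat_lit 76) (nat_lit 29841317884) (nat_lit 7) (nat_lit 5) (nat_lit 9) (nat_lit 5) (nat_lit 8) (nat_lit 4) (nat_lit 308) (nat_lit 219) (nat_lit 193)) (XT.lf (nat_lit 0) (nat_lit 1778019945) (nat_lit 76) (nat_lit 4834415110) (nat_lit 152) (nat_lit 34182138490) (nat_lit 6) (nat_lit 5) (nat_lit 7) (nat_lit 5) (nat_lit 8) (nat_lit 4) (nat_lit 309) (nat_lit 219) (nat_lit 192))))))) (XT.nd (nat_lit 858) (nat_lit 76) (nat_lit 0) (XT.nd (nat_lit 390) (nat_lit 152) (nat_lit 0) (XT.nd (nat_lit 156) (nat_lit 0) (nat_lit 0) (XT.nd (nat_lit 78) (nat_lit 0) (nat_lit 0) (XT.lf (nat_lit 0) (nat_lit 10932671465) (nat_lit 76) (nat_lit 289379770) (nat_lit 152) (nat_lit 31457811167)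 (nat_lit 6) (nat_lit 5) (nat_lit 7) (nat_lit 5) (nat_lit 8) (nat_lit 4) (nat_lit 310) (nat_lit 219) (nat_lit 191)) (XT.lf (nat_lit 0) (nat_lit 16021896438) (nat_lit 152) (nat_lit 24307461812) (nat_lit 0) (nat_lit 4331312532) (nat_lit 6) (nat_lit 5) (nat_lit 8) (nat_lit 4) (nat_lit 6) (nat_lit 4) (nat_lit 311) (nat_lit 219) (nat_lit 190))) (XT.nd (nat_lit 78) (nat_lit 0) (nat_lit 0) (XT.lf (nat_lit 0) (nat_lit 20985279222) (nat_lit 152) (nat_lit 16641532937) (nat_lit 0) (nat_lit 9116046327) (nat_lit 6) (nat_lit 5) (nat_lit 8) (nat_lit 4) (nat_lit 6) (nat_lit 4) (nat_lit 312) (nat_lit 219) (nat_lit 189)) (XT.nd (nat_lit 78) (nat_lit 0) (nat_lit 0) (XT.lf (nat_lit 0) (nat_lit 26121235469) (nat_lit 152) (nat_lit 8728370406) (nat_lit 0) (nat_lit 14081860681) (nat_lit 6) (nat_lit 5) (nat_lit 8) (nat_lit 4) (nat_lit 6) (nat_lit 4) (nat_lit 313) (nat_lit 219) (nat_lit 188)) (XT.lf (nat_lit 0) (nat_lit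 31441993647) (nat_lit 152) (nat_lit 549133354) (nat_lit 0) (nat_lit 19240578959) (nat_lit 6) (nat_lit 5) (nat_lit 8) (nat_lit 4) (nat_lit 6) (nat_lit 4) (nat_lit 314) (nat_lit 219) (nat_lit 187))))) (XT.nd (nat_lit 234) (nat_lit 76) (nat_lit 0) (XT.nd (nat_lit 78) (nat_lit 0) (nat_lit 0) (XT.lf (nat_lit 0) (nat_lit 8073189597) (nat_lit 76) (nat_lit 28964637067) (nat_lit 76) (nat_lit 16608898666) (nat_lit 5) (nat_lit 4) (nat_lit 6) (nat_lit 5) (nat_lit 6) (nat_lit 4) (nat_lit 315) (nat_lit 219) (nat_lit 186)) (XT.nd (nat_lit 78) (nat_lit 0) (nat_lit 0) (XT.lf (nat_lit 0) (nat_lit 17018228618) (nat_lit 76) (nat_lit 25834420855) (nat_lit 76) (nat_lit 13331707489) (nat_lit 5) (nat_lit 4) (nat_lit 6) (nat_lit 5) (nat_lit 6) (nat_lit 4) (nat_lit 316) (nat_lit 219) (nat_lit 185)) (XT.lf (nat_lit 0) (nat_lit 26296352588) (nat_lit 76) (nat_lit 22598570640) (nat_lit 76) (nat_lit 9955881118) (nat_lit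 5) (nat_lit 4) (nat_lit 6) (nat_lit 5) (nat_lit 6) (nat_lit 4) (nat_lit 317) (nat_lit 219) (nat_lit 184)))) (XT.nd (nat_lit 78) (nat_lit 76) (nat_lit 0) (XT.lf (nat_lit 0) (nat_lit 35929652280) (nat_lit 76) (nat_lit 19249382019) (nat_lit 76) (nat_lit 6473381871) (nat_lit 5) (nat_lit 4) (nat_lit 6) (nat_lit 5) (nat_lit 6) (nat_lit 4) (nat_lit 318) (nat_lit 219) (nat_lit 183)) (XT.nd (nat_lit 78) (nat_lit 76) (nat_lit 0) (XT.lf (nat_lit 0) (nat_lit 45941064121) (nat_lit 76) (nat_lit 15778880731) (nat_lit 76) (nat_lit 2875918082) (nat_lit 5) (nat_lit 4) (nat_lit 6) (nat_lit 5) (nat_lit 6) (nat_lit 4) (nat_lit 319) (nat_lit 219) (nat_lit 182)) (XT.lf (nat_lit 0) (nat_lit 828585167) (nat_lit 152) (nat_lit 11341851426) (nat_lit 76) (nat_lit 55517472552) (nat_lit 4) (nat_lit 5) (nat_lit 6) (nat_lit 5) (nat_lit 5) (nat_lit 4) (nat_lit 320) (nat_lit 219) (nat_lit 181)))))) (XT.nd (nat_lit 390) (nat_lit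 0) (nat_lit 0) (XT.nd (nat_lit 156) (nat_lit 0) (nat_lit 0) (XT.nd (nat_lit 78) (nat_lit 76) (nat_lit 0) (XT.lf (nat_lit 0) (nat_lit 4606774942) (nat_lit 152) (nat_lit 3787284914) (nat_lit 76) (nat_lit 62541233714) (nat_lit 4) (nat_lit 5) (nat_lit 6) (nat_lit 5) (nat_lit 5) (nat_lit 4) (nat_lit 321) (nat_lit 219) (nat_lit 180)) (XT.lf (nat_lit 0) (nat_lit 4135226022) (nat_lit 76) (nat_lit 4428290751) (nat_lit 152) (nat_lit 65781868144) (nat_lit 3) (nat_lit 5) (nat_lit 4) (nat_lit 5) (nat_lit 5) (nat_lit 4) (nat_lit 322) (nat_lit 219) (nat_lit 179))) (XT.nd (nat_lit 78) (nat_lit 0) (nat_lit 0) (XT.lf (nat_lit 0) (nat_lit 12445122074) (nat_lit 76) (nat_lit 263393918) (nat_lit 152) (nat_lit 65217777924) (nat_lit 3) (nat_lit 5) (nat_lit 4) (nat_lit 5) (nat_lit 5) (nat_lit 4) (nat_lit 323) (nat_lit 219) (nat_lit 178)) (XT.nd (nat_lit 78) (nat_lit 0) (nat_lit 0) (XT.lf (nat_lit 0) (nat_lit 17053656868)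 (nat_lit 152) (nat_lit 60639991606) (nat_lit 0) (nat_lit 3992837612) (nat_lit 3) (nat_lit 5) (nat_lit 5) (nat_lit 4) (nat_lit 3) (nat_lit 4) (nat_lit 324) (nat_lit 219) (nat_lit 177)) (XT.lf (nat_lit 0) (nat_lit 21574319272) (nat_lit 152) (nat_lit 55640125864) (nat_lit 0) (nat_lit 8421518101) (nat_lit 3) (nat_lit 5) (nat_lit 5) (nat_lit 4) (nat_lit 3) (nat_lit 4) (nat_lit 325) (nat_lit 219) (nat_lit 176))))) (XT.nd (nat_lit 234) (nat_lit 0) (nat_lit 0) (XT.nd (nat_lit 78) (nat_lit 0) (nat_lit 0) (XT.lf (nat_lit 0) (nat_lit 26278734782) (nat_lit 152) (nat_lit 50467138271) (nat_lit 0) (nat_lit 13038331787) (nat_lit 3) (nat_lit 5) (nat_lit 5) (nat_lit 4) (nat_lit 3) (nat_lit 4) (nat_lit 326) (nat_lit 219) (nat_lit 175)) (XT.nd (nat_lit 78) (nat_lit 0) (nat_lit 0) (XT.lf (nat_lit 0) (nat_lit 31178104389) (nat_lit 152) (nat_lit 45108712189) (nat_lit 0) (nat_lit 17854271085) (nat_lit 3) (nat_lit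 5) (nat_lit 5) (nat_lit 4) (nat_lit 3) (nat_lit 4) (nat_lit 327) (nat_lit 219) (nat_lit 174)) (XT.lf (nat_lit 0) (nat_lit 36284093257) (nat_lit 152) (nat_lit 39552089462) (nat_lit 0) (nat_lit 22880802516) (nat_lit 3) (nat_lit 5) (nat_lit 5) (nat_lit 4) (nat_lit 3) (nat_lit 4) (nat_lit 328) (nat_lit 219) (nat_lit 173)))) (XT.nd (nat_lit 78) (nat_lit 0) (nat_lit 0) (XT.lf (nat_lit 0) (nat_lit 41608858504) (nat_lit 152) (nat_lit 33784040035) (nat_lit 0) (nat_lit 28129894013) (nat_lit 3) (nat_lit 5) (nat_lit 5) (nat_lit 4) (nat_lit 3) (nat_lit 4) (nat_lit 329) (nat_lit 219) (nat_lit 172)) (XT.nd (nat_lit 78) (nat_lit 0) (nat_lit 0) (XT.lf (nat_lit 0) (nat_lit 47165078141) (nat_lit 152) (nat_lit 27790830458) (nat_lit 0) (nat_lit 33614043413) (nat_lit 3) (nat_lit 5) (nat_lit 5) (nat_lit 4) (nat_lit 3) (nat_lit 4) (nat_lit 330) (nat_lit 219) (nat_lit 171)) (XT.lf (nat_lit 0) (nat_lit 52965981263)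 (nat_lit 152) (nat_lit 21558191182) (nat_lit 0) (nat_lit 39346308213) (nat_lit 3) (nat_lit 5) (nat_lit 5) (nat_lit 4) (nat_lit 3) (nat_lit 4) (nat_lit 331) (nat_lit 219) (nat_lit 170))))))))
noncomputable def xc17 : XT := (XT.nd (nat_lit 34944) (nat_lit 0) (nat_lit 228) (XT.nd (nat_lit 34086) (nat_lit 0) (nat_lit 760) (XT.nd (nat_lit 33618) (nat_lit 0) (nat_lit 1672) (XT.nd (nat_lit 234) (nat_lit 76) (nat_lit 0) (XT.nd (nat_lit 78) (nat_lit 0) (nat_lit 0) (XT.lf (nat_lit 0) (nat_lit 59025379544) (nat_lit 152) (nat_lit 15071282593) (nat_lit 0) (nat_lit 45340336665) (nat_lit 3) (nat_lit 5) (nat_lit 5) (nat_lit 4) (nat_lit 3) (nat_lit 4) (nat_lit 332) (nat_lit 219) (nat_lit 169)) (XT.lf (nat_lit 0) (nat_lit 65357700123) (nat_lit 152) (nat_lit 8314659668) (nat_lit 0) (nat_lit 51610400263) (nat_lit 3) (nat_lit 5) (nat_lit 5) (nat_lit 4) (nat_lit 3) (nat_lit 4) (nat_lit 333) (nat_lit 219) (nat_lit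 168))) (XT.nd (nat_lit 33228) (nat_lit 0) (nat_lit 2432) (XT.lf (nat_lit 0) (nat_lit 6193618256) (nat_lit 76) (nat_lit 72768020294) (nat_lit 76) (nat_lit 58904959154) (nat_lit 2) (nat_lit 4) (nat_lit 3) (nat_lit 5) (nat_lit 3) (nat_lit 4) (nat_lit 335) (nat_lit 219) (nat_lit 166)) (XT.nd (nat_lit 78) (nat_lit 228) (nat_lit 0) (XT.lf (nat_lit 0) (nat_lit 3493450090) (nat_lit 228) (nat_lit 1472816863) (nat_lit 228) (nat_lit 1472816863) (nat_lit 37) (nat_lit 4) (nat_lit 40) (nat_lit 5) (nat_lit 40) (nat_lit 4) (nat_lit 280) (nat_lit 220) (nat_lit 220)) (XT.lf (nat_lit 0) (nat_lit 3149873624) (nat_lit 228) (nat_lit 7950157273) (nat_lit 0) (nat_lit 2200274935) (nat_lit 34) (nat_lit 5) (nat_lit 37) (nat_lit 4) (nat_lit 34) (nat_lit 4) (nat_lit 281) (nat_lit 220) (nat_lit 219))))) (XT.nd (nat_lit 234) (nat_lit 380) (nat_lit 0) (XT.nd (nat_lit 78) (nat_lit 228) (nat_lit 0) (XT.lf (nat_lit 0) (nat_lit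 3164406096) (nat_lit 152) (nat_lit 6217843518) (nat_lit 152) (nat_lit 4363865125) (nat_lit 32) (nat_lit 4) (nat_lit 34) (nat_lit 5) (nat_lit 34) (nat_lit 4) (nat_lit 282) (nat_lit 220) (nat_lit 218)) (XT.nd (nat_lit 78) (nat_lit 0) (nat_lit 0) (XT.lf (nat_lit 0) (nat_lit 413585672) (nat_lit 152) (nat_lit 1127733572) (nat_lit 228) (nat_lit 12676732105) (nat_lit 29) (nat_lit 5) (nat_lit 31) (nat_lit 5) (nat_lit 32) (nat_lit 4) (nat_lit 283) (nat_lit 220) (nat_lit 217)) (XT.lf (nat_lit 0) (nat_lit 7584870536) (nat_lit 228) (nat_lit 2977361590) (nat_lit 0) (nat_lit 4152257481) (nat_lit 29) (nat_lit 5) (nat_lit 32) (nat_lit 4) (nat_lit 29) (nat_lit 4) (nat_lit 284) (nat_lit 220) (nat_lit 216)))) (XT.nd (nat_lit 78) (nat_lit 228) (nat_lit 0) (XT.lf (nat_lit 0) (nat_lit 8195683794) (nat_lit 152) (nat_lit 5617439110) (nat_lit 152) (nat_lit 1426343344) (nat_lit 27) (nat_lit 4) (nat_lit 29) (nat_lit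 5) (nat_lit 29) (nat_lit 4) (nat_lit 285) (nat_lit 220) (nat_lit 215)) (XT.nd (nat_lit 78) (nat_lit 0) (nat_lit 0) (XT.lf (nat_lit 0) (nat_lit 3893323266) (nat_lit 152) (nat_lit 444993737) (nat_lit 228) (nat_lit 11455279491) (nat_lit 24) (nat_lit 5) (nat_lit 26) (nat_lit 5) (nat_lit 27) (nat_lit 4) (nat_lit 286) (nat_lit 220) (nat_lit 214)) (XT.lf (nat_lit 0) (nat_lit 10285253492) (nat_lit 228) (nat_lit 1245243658) (nat_lit 0) (nat_lit 4846975406) (nat_lit 24) (nat_lit 5) (nat_lit 27) (nat_lit 4) (nat_lit 24) (nat_lit 4) (nat_lit 287) (nat_lit 220) (nat_lit 213)))))) (XT.nd (nat_lit 390) (nat_lit 380) (nat_lit 0) (XT.nd (nat_lit 156) (nat_lit 228) (nat_lit 0) (XT.nd (nat_lit 78) (nat_lit 152) (nat_lit 0) (XT.lf (nat_lit 0) (nat_lit 9811969237) (nat_lit 152) (nat_lit 6627912162) (nat_lit 152) (nat_lit 553511860) (nat_lit 22) (nat_lit 4) (nat_lit 24) (nat_lit 5) (nat_lit 24) (nat_lit 4) (nat_lit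 288) (nat_lit 220) (nat_lit 212)) (XT.lf (nat_lit 0) (nat_lit 3513938667) (nat_lit 76) (nat_lit 1507819781) (nat_lit 152) (nat_lit 12621113767) (nat_lit 20) (nat_lit 5) (nat_lit 21) (nat_lit 5) (nat_lit 22) (nat_lit 4) (nat_lit 289) (nat_lit 220) (nat_lit 211))) (XT.nd (nat_lit 78) (nat_lit 228) (nat_lit 0) (XT.lf (nat_lit 0) (nat_lit 10796547638) (nat_lit 152) (nat_lit 3779578743) (nat_lit 0) (nat_lit 3750710175) (nat_lit 20) (nat_lit 5) (nat_lit 22) (nat_lit 4) (nat_lit 20) (nat_lit 4) (nat_lit 290) (nat_lit 220) (nat_lit 210)) (XT.nd (nat_lit 78) (nat_lit 76) (nat_lit 0) (XT.lf (nat_lit 0) (nat_lit 6913981087) (nat_lit 152) (nat_lit 9856588557) (nat_lit 152) (nat_lit 2277249844) (nat_lit 18) (nat_lit 4) (nat_lit 20) (nat_lit 5) (nat_lit 20) (nat_lit 4) (nat_lit 291) (nat_lit 220) (nat_lit 209)) (XT.lf (nat_lit 0) (nat_lit 3047002179) (nat_lit 228) (nat_lit 1902020717) (nat_lit 76) (nat_lit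 14858867123) (nat_lit 17) (nat_lit 5) (nat_lit 20) (nat_lit 5) (nat_lit 18) (nat_lit 4) (nat_lit 292) (nat_lit 220) (nat_lit 208))))) (XT.nd (nat_lit 234) (nat_lit 152) (nat_lit 0) (XT.nd (nat_lit 78) (nat_lit 152) (nat_lit 0) (XT.lf (nat_lit 0) (nat_lit 8516927367) (nat_lit 152) (nat_lit 11895441162) (nat_lit 0) (nat_lit 195241442) (nat_lit 16) (nat_lit 5) (nat_lit 18) (nat_lit 4) (nat_lit 16) (nat_lit 4) (nat_lit 293) (nat_lit 220) (nat_lit 207)) (XT.nd (nat_lit 78) (nat_lit 152) (nat_lit 0) (XT.lf (nat_lit 0) (nat_lit 14174475003) (nat_lit 152) (nat_lit 1870176800) (nat_lit 0) (nat_lit 5405353701) (nat_lit 16) (nat_lit 5) (nat_lit 18) (nat_lit 4) (nat_lit 16) (nat_lit 4) (nat_lit 294) (nat_lit 220) (nat_lit 206)) (XT.lf (nat_lit 0) (nat_lit 8566254814) (nat_lit 152) (nat_lit 11482799781) (nat_lit 152) (nat_lit 2287549548) (nat_lit 14) (nat_lit 4) (nat_lit 16) (nat_lit 5) (nat_lit 16)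 (nat_lit 4) (nat_lit 295) (nat_lit 220) (nat_lit 205)))) (XT.nd (nat_lit 78) (nat_lit 76) (nat_lit 0) (XT.lf (nat_lit 0) (nat_lit 2766654243) (nat_lit 228) (nat_lit 3984779196) (nat_lit 76) (nat_lit 16519116875) (nat_lit 13) (nat_lit 5) (nat_lit 16) (nat_lit 5) (nat_lit 14) (nat_lit 4) (nat_lit 296) (nat_lit 220) (nat_lit 204)) (XT.nd (nat_lit 78) (nat_lit 0) (nat_lit 0) (XT.lf (nat_lit 0) (nat_lit 6146087188) (nat_lit 76) (nat_lit 1801541383) (nat_lit 152) (nat_lit 16305339717) (nat_lit 12) (nat_lit 5) (nat_lit 13) (nat_lit 5) (nat_lit 14) (nat_lit 4) (nat_lit 297) (nat_lit 220) (nat_lit 203)) (XT.lf (nat_lit 0) (nat_lit 13326938807) (nat_lit 152) (nat_lit 8686624011) (nat_lit 0) (nat_lit 3272856278) (nat_lit 12) (nat_lit 5) (nat_lit 14) (nat_lit 4) (nat_lit 12) (nat_lit 4) (nat_lit 298) (nat_lit 220) (nat_lit 202))))))) (XT.nd (nat_lit 858) (nat_lit 152) (nat_lit 0) (XT.nd (nat_lit 390)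 (nat_lit 152) (nat_lit 0) (XT.nd (nat_lit 156) (nat_lit 152) (nat_lit 0) (XT.nd (nat_lit 78) (nat_lit 0) (nat_lit 0) (XT.lf (nat_lit 0) (nat_lit 979805479) (nat_lit 76) (nat_lit 17894647458) (nat_lit 76) (nat_lit 7500198594) (nat_lit 11) (nat_lit 4) (nat_lit 12) (nat_lit 5) (nat_lit 12) (nat_lit 4) (nat_lit 299) (nat_lit 220) (nat_lit 201)) (XT.lf (nat_lit 0) (nat_lit 11091776587) (nat_lit 76) (nat_lit 13572628276) (nat_lit 76) (nat_lit 2854020996) (nat_lit 11) (nat_lit 4) (nat_lit 12) (nat_lit 5) (nat_lit 12) (nat_lit 4) (nat_lit 300) (nat_lit 220) (nat_lit 200))) (XT.nd (nat_lit 78) (nat_lit 76) (nat_lit 0) (XT.lf (nat_lit 0) (nat_lit 1865274343) (nat_lit 152) (nat_lit 7240822662) (nat_lit 76) (nat_lit 19616374624) (nat_lit 10) (nat_lit 5) (nat_lit 12) (nat_lit 5) (nat_lit 11) (nat_lit 4) (nat_lit 301) (nat_lit 220) (nat_lit 199)) (XT.nd (nat_lit 78) (nat_lit 0) (nat_lit 0) (XT.lf (nat_lit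 0) (nat_lit 2217503667) (nat_lit 76) (nat_lit 4451882778) (nat_lit 152) (nat_lit 23319321514) (nat_lit 9) (nat_lit 5) (nat_lit 10) (nat_lit 5) (nat_lit 11) (nat_lit 4) (nat_lit 302) (nat_lit 220) (nat_lit 198)) (XT.lf (nat_lit 0) (nat_lit 11681906023) (nat_lit 152) (nat_lit 19218933921) (nat_lit 0) (nat_lit 418438989) (nat_lit 9) (nat_lit 5) (nat_lit 11) (nat_lit 4) (nat_lit 9) (nat_lit 4) (nat_lit 303) (nat_lit 220) (nat_lit 197))))) (XT.nd (nat_lit 234) (nat_lit 76) (nat_lit 0) (XT.nd (nat_lit 78) (nat_lit 76) (nat_lit 0) (XT.lf (nat_lit 0) (nat_lit 16884027511) (nat_lit 152) (nat_lit 10472605172) (nat_lit 0) (nat_lit 5361642097) (nat_lit 9) (nat_lit 5) (nat_lit 11) (nat_lit 4) (nat_lit 9) (nat_lit 4) (nat_lit 304) (nat_lit 220) (nat_lit 196)) (XT.nd (nat_lit 78) (nat_lit 76) (nat_lit 0) (XT.lf (nat_lit 0) (nat_lit 22245342691) (nat_lit 152) (nat_lit 1468599232) (nat_lit 0) (nat_lit 10476368345)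 (nat_lit 9) (nat_lit 5) (nat_lit 11) (nat_lit 4) (nat_lit 9) (nat_lit 4) (nat_lit 305) (nat_lit 220) (nat_lit 195)) (XT.lf (nat_lit 0) (nat_lit 7970046316) (nat_lit 76) (nat_lit 19885183245) (nat_lit 76) (nat_lit 7881362296) (nat_lit 8) (nat_lit 4) (nat_lit 9) (nat_lit 5) (nat_lit 9) (nat_lit 4) (nat_lit 306) (nat_lit 220) (nat_lit 194)))) (XT.nd (nat_lit 78) (nat_lit 76) (nat_lit 0) (XT.lf (nat_lit 0) (nat_lit 17745132667) (nat_lit 76) (nat_lit 15922468103) (nat_lit 76) (nat_lit 3694983724) (nat_lit 8) (nat_lit 4) (nat_lit 9) (nat_lit 5) (nat_lit 9) (nat_lit 4) (nat_lit 307) (nat_lit 220) (nat_lit 193)) (XT.nd (nat_lit 78) (nat_lit 0) (nat_lit 0) (XT.lf (nat_lit 0) (nat_lit 597415983) (nat_lit 152) (nat_lit 11227742724) (nat_lit 76) (nat_lit 27247257117) (nat_lit 7) (nat_lit 5) (nat_lit 9) (nat_lit 5) (nat_lit 8) (nat_lit 4) (nat_lit 308) (nat_lit 220) (nat_lit 192)) (XT.lf (nat_lit 0)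 (nat_lit 4943371596) (nat_lit 152) (nat_lit 2608322153) (nat_lit 76) (nat_lit 33317536737) (nat_lit 7) (nat_lit 5) (nat_lit 9) (nat_lit 5) (nat_lit 8) (nat_lit 4) (nat_lit 309) (nat_lit 220) (nat_lit 191)))))) (XT.nd (nat_lit 390) (nat_lit 76) (nat_lit 0) (XT.nd (nat_lit 156) (nat_lit 0) (nat_lit 0) (XT.nd (nat_lit 78) (nat_lit 0) (nat_lit 0) (XT.lf (nat_lit 0) (nat_lit 6422170432) (nat_lit 76) (nat_lit 3064896468) (nat_lit 152) (nat_lit 33269453254) (nat_lit 6) (nat_lit 5) (nat_lit 7) (nat_lit 5) (nat_lit 8) (nat_lit 4) (nat_lit 310) (nat_lit 220) (nat_lit 190)) (XT.lf (nat_lit 0) (nat_lit 14221512403) (nat_lit 152) (nat_lit 28937631328) (nat_lit 0) (nat_lit 1580168875) (nat_lit 6) (nat_lit 5) (nat_lit 8) (nat_lit 4) (nat_lit 6) (nat_lit 4) (nat_lit 311) (nat_lit 220) (nat_lit 189))) (XT.nd (nat_lit 78) (nat_lit 0) (nat_lit 0) (XT.lf (nat_lit 0) (nat_lit 19148019247) (nat_lit 152) (nat_lit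 21338074545) (nat_lit 0) (nat_lit 6336533825) (nat_lit 6) (nat_lit 5) (nat_lit 8) (nat_lit 4) (nat_lit 6) (nat_lit 4) (nat_lit 312) (nat_lit 220) (nat_lit 188)) (XT.nd (nat_lit 78) (nat_lit 0) (nat_lit 0) (XT.lf (nat_lit 0) (nat_lit 24248855552) (nat_lit 152) (nat_lit 13488123529) (nat_lit 0) (nat_lit 11275330231) (nat_lit 6) (nat_lit 5) (nat_lit 8) (nat_lit 4) (nat_lit 6) (nat_lit 4) (nat_lit 313) (nat_lit 220) (nat_lit 187)) (XT.lf (nat_lit 0) (nat_lit 29536166165) (nat_lit 152) (nat_lit 5369087921) (nat_lit 0) (nat_lit 16408317132) (nat_lit 6) (nat_lit 5) (nat_lit 8) (nat_lit 4) (nat_lit 6) (nat_lit 4) (nat_lit 314) (nat_lit 220) (nat_lit 186))))) (XT.nd (nat_lit 234) (nat_lit 0) (nat_lit 0) (XT.nd (nat_lit 78) (nat_lit 0) (nat_lit 0) (XT.lf (nat_lit 0) (nat_lit 3098832702) (nat_lit 76) (nat_lit 31953495095) (nat_lit 76) (nat_lit 18678671096) (nat_lit 5) (nat_lit 4) (nat_lit 6) (nat_lit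 5) (nat_lit 6) (nat_lit 4) (nat_lit 315) (nat_lit 220) (nat_lit 185)) (XT.nd (nat_lit 78) (nat_lit 0) (nat_lit 0) (XT.lf (nat_lit 0) (nat_lit 11988180503) (nat_lit 76) (nat_lit 28848096838) (nat_lit 76) (nat_lit 15433296683) (nat_lit 5) (nat_lit 4) (nat_lit 6) (nat_lit 5) (nat_lit 6) (nat_lit 4) (nat_lit 316) (nat_lit 220) (nat_lit 184)) (XT.lf (nat_lit 0) (nat_lit 21213265216) (nat_lit 76) (nat_lit 25635882772) (nat_lit 76) (nat_lit 12087771991) (nat_lit 5) (nat_lit 4) (nat_lit 6) (nat_lit 5) (nat_lit 6) (nat_lit 4) (nat_lit 317) (nat_lit 220) (nat_lit 183)))) (XT.nd (nat_lit 78) (nat_lit 0) (nat_lit 0) (XT.lf (nat_lit 0) (nat_lit 30796051330) (nat_lit 76) (nat_lit 22309204767) (nat_lit 76) (nat_lit 8634131485) (nat_lit 5) (nat_lit 4) (nat_lit 6) (nat_lit 5) (nat_lit 6) (nat_lit 4) (nat_lit 318) (nat_lit 220) (nat_lit 182)) (XT.nd (nat_lit 78) (nat_lit 0) (nat_lit 0) (XT.lf (nat_lit 0)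 (nat_lit 40759355001) (nat_lit 76) (nat_lit 18860142163) (nat_lit 76) (nat_lit 5064152213) (nat_lit 5) (nat_lit 4) (nat_lit 6) (nat_lit 5) (nat_lit 6) (nat_lit 4) (nat_lit 319) (nat_lit 220) (nat_lit 181)) (XT.lf (nat_lit 0) (nat_lit 51126898381) (nat_lit 76) (nat_lit 15280482904) (nat_lit 76) (nat_lit 1369334223) (nat_lit 5) (nat_lit 4) (nat_lit 6) (nat_lit 5) (nat_lit 6) (nat_lit 4) (nat_lit 320) (nat_lit 220) (nat_lit 180))))))))
noncomputable def xc18 : XT := (XT.nd (nat_lit 34788) (nat_lit 0) (nat_lit 456) (XT.nd (nat_lit 858) (nat_lit 76) (nat_lit 0) (XT.nd (nat_lit 390) (nat_lit 0) (nat_lit 0) (XT.nd (nat_lit 156) (nat_lit 76) (nat_lit 0) (XT.nd (nat_lit 78) (nat_lit 0) (nat_lit 0) (XT.lf (nat_lit 0) (nat_lit 2411133386) (nat_lit 152) (nat_lit 9126222886) (nat_lit 76) (nat_lit 59487884991) (nat_lit 4) (nat_lit 5) (nat_lit 6) (nat_lit 5) (nat_lit 5) (nat_lit 4) (nat_lit 321) (nat_lit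 220) (nat_lit 179)) (XT.lf (nat_lit 0) (nat_lit 6304846033) (nat_lit 152) (nat_lit 1326438577) (nat_lit 76) (nat_lit 66805951410) (nat_lit 4) (nat_lit 5) (nat_lit 6) (nat_lit 5) (nat_lit 5) (nat_lit 4) (nat_lit 322) (nat_lit 220) (nat_lit 178))) (XT.nd (nat_lit 78) (nat_lit 0) (nat_lit 0) (XT.lf (nat_lit 0) (nat_lit 6916230151) (nat_lit 76) (nat_lit 3498047985) (nat_lit 152) (nat_lit 67604945834) (nat_lit 3) (nat_lit 5) (nat_lit 4) (nat_lit 5) (nat_lit 5) (nat_lit 4) (nat_lit 323) (nat_lit 220) (nat_lit 177)) (XT.nd (nat_lit 78) (nat_lit 0) (nat_lit 0) (XT.lf (nat_lit 0) (nat_lit 14706669922) (nat_lit 152) (nat_lit 66270093284) (nat_lit 0) (nat_lit 804246776) (nat_lit 3) (nat_lit 5) (nat_lit 5) (nat_lit 4) (nat_lit 3) (nat_lit 4) (nat_lit 324) (nat_lit 220) (nat_lit 176)) (XT.lf (nat_lit 0) (nat_lit 19206707929) (nat_lit 152) (nat_lit 61307725803) (nat_lit 0) (nat_lit 5216682959) (nat_lit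 3) (nat_lit 5) (nat_lit 5) (nat_lit 4) (nat_lit 3) (nat_lit 4) (nat_lit 325) (nat_lit 220) (nat_lit 175))))) (XT.nd (nat_lit 234) (nat_lit 0) (nat_lit 0) (XT.nd (nat_lit 78) (nat_lit 0) (nat_lit 0) (XT.lf (nat_lit 0) (nat_lit 23891481156) (nat_lit 152) (nat_lit 56170450840) (nat_lit 0) (nat_lit 9818025878) (nat_lit 3) (nat_lit 5) (nat_lit 5) (nat_lit 4) (nat_lit 3) (nat_lit 4) (nat_lit 326) (nat_lit 220) (nat_lit 174)) (XT.nd (nat_lit 78) (nat_lit 0) (nat_lit 0) (XT.lf (nat_lit 0) (nat_lit 28772143827) (nat_lit 152) (nat_lit 50846036786) (nat_lit 0) (nat_lit 14619231112) (nat_lit 3) (nat_lit 5) (nat_lit 5) (nat_lit 4) (nat_lit 3) (nat_lit 4) (nat_lit 327) (nat_lit 220) (nat_lit 173)) (XT.lf (nat_lit 0) (nat_lit 33860316566) (nat_lit 152) (nat_lit 45321806467) (nat_lit 0) (nat_lit 19631730101) (nat_lit 3) (nat_lit 5) (nat_lit 5) (nat_lit 4) (nat_lit 3) (nat_lit 4) (nat_lit 328) (nat_lit 220)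 (nat_lit 172)))) (XT.nd (nat_lit 78) (nat_lit 0) (nat_lit 0) (XT.lf (nat_lit 0) (nat_lit 39168114070) (nat_lit 152) (nat_lit 39584606953) (nat_lit 0) (nat_lit 24867457368) (nat_lit 3) (nat_lit 5) (nat_lit 5) (nat_lit 4) (nat_lit 3) (nat_lit 4) (nat_lit 329) (nat_lit 220) (nat_lit 171)) (XT.nd (nat_lit 78) (nat_lit 0) (nat_lit 0) (XT.lf (nat_lit 0) (nat_lit 44708173953) (nat_lit 152) (nat_lit 33620778244) (nat_lit 0) (nat_lit 30338878929) (nat_lit 3) (nat_lit 5) (nat_lit 5) (nat_lit 4) (nat_lit 3) (nat_lit 4) (nat_lit 330) (nat_lit 220) (nat_lit 170)) (XT.lf (nat_lit 0) (nat_lit 50493686832) (nat_lit 152) (nat_lit 27416120749) (nat_lit 0) (nat_lit 36059021979) (nat_lit 3) (nat_lit 5) (nat_lit 5) (nat_lit 4) (nat_lit 3) (nat_lit 4) (nat_lit 331) (nat_lit 220) (nat_lit 169)))))) (XT.nd (nat_lit 33462) (nat_lit 0) (nat_lit 1900) (XT.nd (nat_lit 234) (nat_lit 76) (nat_lit 0) (XT.nd (nat_lit 78)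 (nat_lit 0) (nat_lit 0) (XT.lf (nat_lit 0) (nat_lit 56538427740) (nat_lit 152) (nat_lit 20955861474) (nat_lit 0) (nat_lit 42041505906) (nat_lit 3) (nat_lit 5) (nat_lit 5) (nat_lit 4) (nat_lit 3) (nat_lit 4) (nat_lit 332) (nat_lit 220) (nat_lit 168)) (XT.lf (nat_lit 0) (nat_lit 62856788916) (nat_lit 152) (nat_lit 14224618848) (nat_lit 0) (nat_lit 48300574719) (nat_lit 3) (nat_lit 5) (nat_lit 5) (nat_lit 4) (nat_lit 3) (nat_lit 4) (nat_lit 333) (nat_lit 220) (nat_lit 167))) (XT.nd (nat_lit 33072) (nat_lit 0) (nat_lit 2888) (XT.lf (nat_lit 0) (nat_lit 117907686) (nat_lit 76) (nat_lit 76258459950) (nat_lit 76) (nat_lit 61591996915) (nat_lit 2) (nat_lit 4) (nat_lit 3) (nat_lit 5) (nat_lit 3) (nat_lit 4) (nat_lit 335) (nat_lit 220) (nat_lit 165)) (XT.nd (nat_lit 78) (nat_lit 228) (nat_lit 0) (XT.lf (nat_lit 0) (nat_lit 4523786405) (nat_lit 228) (nat_lit 762655006) (nat_lit 228) (nat_lit 762655006)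 (nat_lit 43) (nat_lit 4) (nat_lit 46) (nat_lit 5) (nat_lit 46) (nat_lit 4) (nat_lit 278) (nat_lit 221) (nat_lit 221)) (XT.lf (nat_lit 0) (nat_lit 4581613186) (nat_lit 228) (nat_lit 4342550894) (nat_lit 0) (nat_lit 3554622204) (nat_lit 40) (nat_lit 5) (nat_lit 43) (nat_lit 4) (nat_lit 40) (nat_lit 4) (nat_lit 279) (nat_lit 221) (nat_lit 220))))) (XT.nd (nat_lit 234) (nat_lit 380) (nat_lit 0) (XT.nd (nat_lit 78) (nat_lit 380) (nat_lit 0) (XT.lf (nat_lit 0) (nat_lit 6805208921) (nat_lit 228) (nat_lit 4040781630) (nat_lit 228) (nat_lit 2035703999) (nat_lit 37) (nat_lit 4) (nat_lit 40) (nat_lit 5) (nat_lit 40) (nat_lit 4) (nat_lit 280) (nat_lit 221) (nat_lit 219)) (XT.nd (nat_lit 78) (nat_lit 152) (nat_lit 0) (XT.lf (nat_lit 0) (nat_lit 3918004387) (nat_lit 228) (nat_lit 8322451653) (nat_lit 0) (nat_lit 1066947371) (nat_lit 34) (nat_lit 5) (nat_lit 37) (nat_lit 4) (nat_lit 34) (nat_lit 4) (nat_lit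 281) (nat_lit 221) (nat_lit 218)) (XT.lf (nat_lit 0) (nat_lit 2608301042) (nat_lit 152) (nat_lit 7430370015) (nat_lit 152) (nat_lit 3717998995) (nat_lit 32) (nat_lit 4) (nat_lit 34) (nat_lit 5) (nat_lit 34) (nat_lit 4) (nat_lit 282) (nat_lit 221) (nat_lit 217)))) (XT.nd (nat_lit 78) (nat_lit 304) (nat_lit 0) (XT.lf (nat_lit 0) (nat_lit 2066574517) (nat_lit 228) (nat_lit 337523799) (nat_lit 76) (nat_lit 11827660756) (nat_lit 31) (nat_lit 5) (nat_lit 34) (nat_lit 5) (nat_lit 32) (nat_lit 4) (nat_lit 283) (nat_lit 221) (nat_lit 216)) (XT.nd (nat_lit 78) (nat_lit 152) (nat_lit 0) (XT.lf (nat_lit 0) (nat_lit 7993226545) (nat_lit 228) (nat_lit 3904478227) (nat_lit 0) (nat_lit 2834093281) (nat_lit 29) (nat_lit 5) (nat_lit 32) (nat_lit 4) (nat_lit 29) (nat_lit 4) (nat_lit 284) (nat_lit 221) (nat_lit 215)) (XT.lf (nat_lit 0) (nat_lit 7087140488) (nat_lit 152) (nat_lit 7027217433) (nat_lit 152) (nat_lit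 1145719683) (nat_lit 27) (nat_lit 4) (nat_lit 29) (nat_lit 5) (nat_lit 29) (nat_lit 4) (nat_lit 285) (nat_lit 221) (nat_lit 214))))))) (XT.nd (nat_lit 858) (nat_lit 380) (nat_lit 0) (XT.nd (nat_lit 390) (nat_lit 532) (nat_lit 0) (XT.nd (nat_lit 156) (nat_lit 304) (nat_lit 0) (XT.nd (nat_lit 78) (nat_lit 0) (nat_lit 0) (XT.lf (nat_lit 0) (nat_lit 2578641675) (nat_lit 152) (nat_lit 1927814286) (nat_lit 228) (nat_lit 11310963778) (nat_lit 24) (nat_lit 5) (nat_lit 26) (nat_lit 5) (nat_lit 27) (nat_lit 4) (nat_lit 286) (nat_lit 221) (nat_lit 213)) (XT.lf (nat_lit 0) (nat_lit 10347204288) (nat_lit 228) (nat_lit 2724394025) (nat_lit 0) (nat_lit 3332961755) (nat_lit 24) (nat_lit 5) (nat_lit 27) (nat_lit 4) (nat_lit 24) (nat_lit 4) (nat_lit 287) (nat_lit 221) (nat_lit 212))) (XT.nd (nat_lit 78) (nat_lit 152) (nat_lit 0) (XT.lf (nat_lit 0) (nat_lit 8152921727) (nat_lit 152) (nat_lit 8245406134) (nat_lit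 152) (nat_lit 625332918) (nat_lit 22) (nat_lit 4) (nat_lit 24) (nat_lit 5) (nat_lit 24) (nat_lit 4) (nat_lit 288) (nat_lit 221) (nat_lit 211)) (XT.nd (nat_lit 78) (nat_lit 0) (nat_lit 0) (XT.lf (nat_lit 0) (nat_lit 1643751189) (nat_lit 76) (nat_lit 3203936499) (nat_lit 152) (nat_lit 12828651530) (nat_lit 20) (nat_lit 5) (nat_lit 21) (nat_lit 5) (nat_lit 22) (nat_lit 4) (nat_lit 289) (nat_lit 221) (nat_lit 210)) (XT.lf (nat_lit 0) (nat_lit 10522666986) (nat_lit 152) (nat_lit 5809836721) (nat_lit 0) (nat_lit 2030860087) (nat_lit 20) (nat_lit 5) (nat_lit 22) (nat_lit 4) (nat_lit 20) (nat_lit 4) (nat_lit 290) (nat_lit 221) (nat_lit 209))))) (XT.nd (nat_lit 234) (nat_lit 228) (nat_lit 0) (XT.nd (nat_lit 78) (nat_lit 152) (nat_lit 0) (XT.lf (nat_lit 0) (nat_lit 4704505805) (nat_lit 152) (nat_lit 11691415046) (nat_lit 152) (nat_lit 2691511718) (nat_lit 18) (nat_lit 4) (nat_lit 20) (nat_lit 5) (nat_lit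 20) (nat_lit 4) (nat_lit 291) (nat_lit 221) (nat_lit 208)) (XT.nd (nat_lit 78) (nat_lit 76) (nat_lit 0) (XT.lf (nat_lit 0) (nat_lit 2562989898) (nat_lit 228) (nat_lit 4280935193) (nat_lit 76) (nat_lit 13006090561) (nat_lit 17) (nat_lit 5) (nat_lit 20) (nat_lit 5) (nat_lit 18) (nat_lit 4) (nat_lit 292) (nat_lit 221) (nat_lit 207)) (XT.lf (nat_lit 0) (nat_lit 6157908161) (nat_lit 76) (nat_lit 1774392965) (nat_lit 152) (nat_lit 12720508199) (nat_lit 16) (nat_lit 5) (nat_lit 17) (nat_lit 5) (nat_lit 18) (nat_lit 4) (nat_lit 293) (nat_lit 221) (nat_lit 206)))) (XT.nd (nat_lit 78) (nat_lit 228) (nat_lit 0) (XT.lf (nat_lit 0) (nat_lit 13500504648) (nat_lit 152) (nat_lit 4578070228) (nat_lit 0) (nat_lit 3419362973) (nat_lit 16) (nat_lit 5) (nat_lit 18) (nat_lit 4) (nat_lit 16) (nat_lit 4) (nat_lit 294) (nat_lit 221) (nat_lit 205)) (XT.nd (nat_lit 78) (nat_lit 76) (nat_lit 0) (XT.lf (nat_lit 0) (nat_lit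 5682576166) (nat_lit 152) (nat_lit 13595943093) (nat_lit 152) (nat_lit 3108964340) (nat_lit 14) (nat_lit 4) (nat_lit 16) (nat_lit 5) (nat_lit 16) (nat_lit 4) (nat_lit 295) (nat_lit 221) (nat_lit 204)) (XT.lf (nat_lit 0) (nat_lit 1893878283) (nat_lit 228) (nat_lit 7028917339) (nat_lit 76) (nat_lit 14400939101) (nat_lit 13) (nat_lit 5) (nat_lit 16) (nat_lit 5) (nat_lit 14) (nat_lit 4) (nat_lit 296) (nat_lit 221) (nat_lit 203)))))) (XT.nd (nat_lit 390) (nat_lit 152) (nat_lit 0) (XT.nd (nat_lit 156) (nat_lit 152) (nat_lit 0) (XT.nd (nat_lit 78) (nat_lit 0) (nat_lit 0) (XT.lf (nat_lit 0) (nat_lit 2927256170) (nat_lit 76) (nat_lit 4052474183) (nat_lit 152) (nat_lit 17329320184) (nat_lit 12) (nat_lit 5) (nat_lit 13) (nat_lit 5) (nat_lit 14) (nat_lit 4) (nat_lit 297) (nat_lit 221) (nat_lit 202)) (XT.lf (nat_lit 0) (nat_lit 12274786904) (nat_lit 152) (nat_lit 12050034858) (nat_lit 0) (nat_lit 1020249260)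 (nat_lit 12) (nat_lit 5) (nat_lit 14) (nat_lit 4) (nat_lit 12) (nat_lit 4) (nat_lit 298) (nat_lit 221) (nat_lit 201))) (XT.nd (nat_lit 78) (nat_lit 152) (nat_lit 0) (XT.lf (nat_lit 0) (nat_lit 17753247936) (nat_lit 152) (nat_lit 2507615304) (nat_lit 0) (nat_lit 6174551877) (nat_lit 12) (nat_lit 5) (nat_lit 14) (nat_lit 4) (nat_lit 12) (nat_lit 4) (nat_lit 299) (nat_lit 221) (nat_lit 200)) (XT.nd (nat_lit 78) (nat_lit 76) (nat_lit 0) (XT.lf (nat_lit 0) (nat_lit 7452565600) (nat_lit 76) (nat_lit 16008275560) (nat_lit 76) (nat_lit 4120857201) (nat_lit 11) (nat_lit 4) (nat_lit 12) (nat_lit 5) (nat_lit 12) (nat_lit 4) (nat_lit 300) (nat_lit 221) (nat_lit 199)) (XT.lf (nat_lit 0) (nat_lit 567555180) (nat_lit 152) (nat_lit 11029302581) (nat_lit 76) (nat_lit 17190955085) (nat_lit 10) (nat_lit 5) (nat_lit 12) (nat_lit 5) (nat_lit 11) (nat_lit 4) (nat_lit 301) (nat_lit 221) (nat_lit 198))))) (XT.nd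 (nat_lit 234) (nat_lit 76) (nat_lit 0) (XT.nd (nat_lit 78) (nat_lit 76) (nat_lit 0) (XT.lf (nat_lit 0) (nat_lit 5297395571) (nat_lit 152) (nat_lit 1707746814) (nat_lit 76) (nat_lit 23051168544) (nat_lit 10) (nat_lit 5) (nat_lit 12) (nat_lit 5) (nat_lit 11) (nat_lit 4) (nat_lit 302) (nat_lit 221) (nat_lit 197)) (XT.nd (nat_lit 78) (nat_lit 0) (nat_lit 0) (XT.lf (nat_lit 0) (nat_lit 8054513486) (nat_lit 76) (nat_lit 2183249686) (nat_lit 152) (nat_lit 21151315291) (nat_lit 9) (nat_lit 5) (nat_lit 10) (nat_lit 5) (nat_lit 11) (nat_lit 4) (nat_lit 303) (nat_lit 221) (nat_lit 196)) (XT.lf (nat_lit 0) (nat_lit 15369672377) (nat_lit 152) (nat_lit 14654878398) (nat_lit 0) (nat_lit 2765660381) (nat_lit 9) (nat_lit 5) (nat_lit 11) (nat_lit 4) (nat_lit 9) (nat_lit 4) (nat_lit 304) (nat_lit 221) (nat_lit 195)))) (XT.nd (nat_lit 78) (nat_lit 76) (nat_lit 0) (XT.lf (nat_lit 0) (nat_lit 20684106079) (nat_lit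 152) (nat_lit 5734328555) (nat_lit 0) (nat_lit 7845247481) (nat_lit 9) (nat_lit 5) (nat_lit 11) (nat_lit 4) (nat_lit 9) (nat_lit 4) (nat_lit 305) (nat_lit 221) (nat_lit 194)) (XT.nd (nat_lit 78) (nat_lit 0) (nat_lit 0) (XT.lf (nat_lit 0) (nat_lit 3538356772) (nat_lit 76) (nat_lit 22668387039) (nat_lit 76) (nat_lit 9605865010) (nat_lit 8) (nat_lit 4) (nat_lit 9) (nat_lit 5) (nat_lit 9) (nat_lit 4) (nat_lit 306) (nat_lit 221) (nat_lit 193)) (XT.lf (nat_lit 0) (nat_lit 13236239462) (nat_lit 76) (nat_lit 18739610547) (nat_lit 76) (nat_lit 5464075727) (nat_lit 8) (nat_lit 4) (nat_lit 9) (nat_lit 5) (nat_lit 9) (nat_lit 4) (nat_lit 307) (nat_lit 221) (nat_lit 192))))))))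
noncomputable def xc19 : XT := (XT.nd (nat_lit 1716) (nat_lit 0) (nat_lit 0) (XT.nd (nat_lit 858) (nat_lit 152) (nat_lit 0) (XT.nd (nat_lit 390) (nat_lit 76) (nat_lit 0) (XT.nd (nat_lit 156) (nat_lit 76) (nat_lit 0) (XT.nd (nat_lit 78) (nat_lit 76) (nat_lit 0) (XT.lf (nat_lit 0) (nat_lit 23268285329) (nat_lit 76) (nat_lit 14680656404) (nat_lit 76) (nat_lit 1202252260) (nat_lit 8) (nat_lit 4) (nat_lit 9) (nat_lit 5) (nat_lit 9) (nat_lit 4) (nat_lit 308) (nat_lit 221) (nat_lit 191)) (XT.lf (nat_lit 0) (nat_lit 3127509029) (nat_lit 152) (nat_lit 7322769695) (nat_lit 76) (nat_lit 30499289458) (nat_lit 7) (nat_lit 5) (nat_lit 9) (nat_lit 5) (nat_lit 8) (nat_lit 4) (nat_lit 309) (nat_lit 221) (nat_lit 190))) (XT.nd (nat_lit 78) (nat_lit 0) (nat_lit 0) (XT.lf (nat_lit 0) (nat_lit 1545088324) (nat_lit 76) (nat_lit 6041468231) (nat_lit 152) (nat_lit 35252862808) (nat_lit 6) (nat_lit 5) (nat_lit 7)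 (nat_lit 5) (nat_lit 8) (nat_lit 4) (nat_lit 310) (nat_lit 221) (nat_lit 189)) (XT.nd (nat_lit 78) (nat_lit 0) (nat_lit 0) (XT.lf (nat_lit 0) (nat_lit 10875024523) (nat_lit 76) (nat_lit 1393887869) (nat_lit 152) (nat_lit 32554883141) (nat_lit 6) (nat_lit 5) (nat_lit 7) (nat_lit 5) (nat_lit 8) (nat_lit 4) (nat_lit 311) (nat_lit 221) (nat_lit 188)) (XT.lf (nat_lit 0) (nat_lit 17146900392) (nat_lit 152) (nat_lit 26399026840) (nat_lit 0) (nat_lit 3362658906) (nat_lit 6) (nat_lit 5) (nat_lit 8) (nat_lit 4) (nat_lit 6) (nat_lit 4) (nat_lit 312) (nat_lit 221) (nat_lit 187))))) (XT.nd (nat_lit 234) (nat_lit 76) (nat_lit 0) (XT.nd (nat_lit 78) (nat_lit 0) (nat_lit 0) (XT.lf (nat_lit 0) (nat_lit 22214289132) (nat_lit 152) (nat_lit 18609277267) (nat_lit 0) (nat_lit 8275723934) (nat_lit 6) (nat_lit 5) (nat_lit 8) (nat_lit 4) (nat_lit 6) (nat_lit 4) (nat_lit 313) (nat_lit 221) (nat_lit 186)) (XT.nd (nat_lit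 78) (nat_lit 0) (nat_lit 0) (XT.lf (nat_lit 0) (nat_lit 27469744922) (nat_lit 152) (nat_lit 10547576367) (nat_lit 0) (nat_lit 13384204759) (nat_lit 6) (nat_lit 5) (nat_lit 8) (nat_lit 4) (nat_lit 6) (nat_lit 4) (nat_lit 314) (nat_lit 221) (nat_lit 185)) (XT.lf (nat_lit 0) (nat_lit 32925780753) (nat_lit 152) (nat_lit 2194729614) (nat_lit 0) (nat_lit 18700264432) (nat_lit 6) (nat_lit 5) (nat_lit 8) (nat_lit 4) (nat_lit 6) (nat_lit 4) (nat_lit 315) (nat_lit 221) (nat_lit 184)))) (XT.nd (nat_lit 78) (nat_lit 0) (nat_lit 0) (XT.lf (nat_lit 0) (nat_lit 6597899505) (nat_lit 76) (nat_lit 32060910724) (nat_lit 76) (nat_lit 17702083778) (nat_lit 5) (nat_lit 4) (nat_lit 6) (nat_lit 5) (nat_lit 6) (nat_lit 4) (nat_lit 316) (nat_lit 221) (nat_lit 183)) (XT.nd (nat_lit 78) (nat_lit 0) (nat_lit 0) (XT.lf (nat_lit 0) (nat_lit 15772470640) (nat_lit 76) (nat_lit 28871207275) (nat_lit 76) (nat_lit 14385417828)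 (nat_lit 5) (nat_lit 4) (nat_lit 6) (nat_lit 5) (nat_lit 6) (nat_lit 4) (nat_lit 317) (nat_lit 221) (nat_lit 182)) (XT.lf (nat_lit 0) (nat_lit 25307148584) (nat_lit 76) (nat_lit 25565967953) (nat_lit 76) (nat_lit 10959261839) (nat_lit 5) (nat_lit 4) (nat_lit 6) (nat_lit 5) (nat_lit 6) (nat_lit 4) (nat_lit 318) (nat_lit 221) (nat_lit 181)))))) (XT.nd (nat_lit 390) (nat_lit 0) (nat_lit 0) (XT.nd (nat_lit 156) (nat_lit 152) (nat_lit 0) (XT.nd (nat_lit 78) (nat_lit 0) (nat_lit 0) (XT.lf (nat_lit 0) (nat_lit 35224634950) (nat_lit 76) (nat_lit 22137323142) (nat_lit 76) (nat_lit 7415458297) (nat_lit 5) (nat_lit 4) (nat_lit 6) (nat_lit 5) (nat_lit 6) (nat_lit 4) (nat_lit 319) (nat_lit 221) (nat_lit 180)) (XT.lf (nat_lit 0) (nat_lit 45548542802) (nat_lit 76) (nat_lit 18577109400) (nat_lit 76) (nat_lit 3745569574) (nat_lit 5) (nat_lit 4) (nat_lit 6) (nat_lit 5) (nat_lit 6) (nat_lit 4) (nat_lit 320)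 (nat_lit 221) (nat_lit 179))) (XT.nd (nat_lit 78) (nat_lit 76) (nat_lit 0) (XT.lf (nat_lit 0) (nat_lit 57988083) (nat_lit 152) (nat_lit 14818276379) (nat_lit 76) (nat_lit 56244879223) (nat_lit 4) (nat_lit 5) (nat_lit 6) (nat_lit 5) (nat_lit 5) (nat_lit 4) (nat_lit 321) (nat_lit 221) (nat_lit 178)) (XT.nd (nat_lit 78) (nat_lit 76) (nat_lit 0) (XT.lf (nat_lit 0) (nat_lit 3929530383) (nat_lit 152) (nat_lit 7058523952) (nat_lit 76) (nat_lit 63545761155) (nat_lit 4) (nat_lit 5) (nat_lit 6) (nat_lit 5) (nat_lit 5) (nat_lit 4) (nat_lit 322) (nat_lit 221) (nat_lit 177)) (XT.lf (nat_lit 0) (nat_lit 1031180664) (nat_lit 76) (nat_lit 6930096512) (nat_lit 152) (nat_lit 70156868193) (nat_lit 3) (nat_lit 5) (nat_lit 4) (nat_lit 5) (nat_lit 5) (nat_lit 4) (nat_lit 323) (nat_lit 221) (nat_lit 176))))) (XT.nd (nat_lit 234) (nat_lit 0) (nat_lit 0) (XT.nd (nat_lit 78) (nat_lit 0) (nat_lit 0) (XT.lf (nat_lit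 0) (nat_lit 9596955789) (nat_lit 76) (nat_lit 2628363261) (nat_lit 152) (nat_lit 69655473655) (nat_lit 3) (nat_lit 5) (nat_lit 4) (nat_lit 5) (nat_lit 5) (nat_lit 4) (nat_lit 324) (nat_lit 221) (nat_lit 175)) (XT.nd (nat_lit 78) (nat_lit 0) (nat_lit 0) (XT.lf (nat_lit 0) (nat_lit 16680449339) (nat_lit 152) (nat_lit 67331916630) (nat_lit 0) (nat_lit 1819890988) (nat_lit 3) (nat_lit 5) (nat_lit 5) (nat_lit 4) (nat_lit 3) (nat_lit 4) (nat_lit 325) (nat_lit 221) (nat_lit 174)) (XT.lf (nat_lit 0) (nat_lit 21346515630) (nat_lit 152) (nat_lit 62228653695) (nat_lit 0) (nat_lit 6406499843) (nat_lit 3) (nat_lit 5) (nat_lit 5) (nat_lit 4) (nat_lit 3) (nat_lit 4) (nat_lit 326) (nat_lit 221) (nat_lit 173)))) (XT.nd (nat_lit 78) (nat_lit 0) (nat_lit 0) (XT.lf (nat_lit 0) (nat_lit 26209362172) (nat_lit 152) (nat_lit 56936632050) (nat_lit 0) (nat_lit 11193672635) (nat_lit 3) (nat_lit 5) (nat_lit 5) (nat_lit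 4) (nat_lit 3) (nat_lit 4) (nat_lit 327) (nat_lit 221) (nat_lit 172)) (XT.nd (nat_lit 78) (nat_lit 0) (nat_lit 0) (XT.lf (nat_lit 0) (nat_lit 31280567168) (nat_lit 152) (nat_lit 51443251643) (nat_lit 0) (nat_lit 16192807394) (nat_lit 3) (nat_lit 5) (nat_lit 5) (nat_lit 4) (nat_lit 3) (nat_lit 4) (nat_lit 328) (nat_lit 221) (nat_lit 171)) (XT.lf (nat_lit 0) (nat_lit 36572204918) (nat_lit 152) (nat_lit 45735432998) (nat_lit 0) (nat_lit 21415806822) (nat_lit 3) (nat_lit 5) (nat_lit 5) (nat_lit 4) (nat_lit 3) (nat_lit 4) (nat_lit 329) (nat_lit 221) (nat_lit 170))))))) (XT.nd (nat_lit 33774) (nat_lit 0) (nat_lit 988) (XT.nd (nat_lit 33306) (nat_lit 0) (nat_lit 2356) (XT.nd (nat_lit 156) (nat_lit 0) (nat_lit 0) (XT.nd (nat_lit 78) (nat_lit 0) (nat_lit 0) (XT.lf (nat_lit 0) (nat_lit 42096874558) (nat_lit 152) (nat_lit 39799586069) (nat_lit 0) (nat_lit 26875106632) (nat_lit 3) (nat_lit 5) (nat_lit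 5) (nat_lit 4) (nat_lit 3) (nat_lit 4) (nat_lit 330) (nat_lit 221) (nat_lit 169)) (XT.lf (nat_lit 0) (nat_lit 47867730064) (nat_lit 152) (nat_lit 33621577889) (nat_lit 0) (nat_lit 32583705157) (nat_lit 3) (nat_lit 5) (nat_lit 5) (nat_lit 4) (nat_lit 3) (nat_lit 4) (nat_lit 331) (nat_lit 221) (nat_lit 168))) (XT.nd (nat_lit 78) (nat_lit 0) (nat_lit 0) (XT.lf (nat_lit 0) (nat_lit 53898511568) (nat_lit 152) (nat_lit 27186698913) (nat_lit 0) (nat_lit 38555194299) (nat_lit 3) (nat_lit 5) (nat_lit 5) (nat_lit 4) (nat_lit 3) (nat_lit 4) (nat_lit 332) (nat_lit 221) (nat_lit 167)) (XT.nd (nat_lit 156) (nat_lit 0) (nat_lit 0) (XT.lf (nat_lit 0) (nat_lit 60203578074) (nat_lit 152) (nat_lit 20479628001) (nat_lit 0) (nat_lit 44803791887) (nat_lit 3) (nat_lit 5) (nat_lit 5) (nat_lit 4) (nat_lit 3) (nat_lit 4) (nat_lit 333) (nat_lit 221) (nat_lit 166)) (XT.lf (nat_lit 0) (nat_lit 73697303145) (nat_lit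 152) (nat_lit 6184347406) (nat_lit 0) (nat_lit 58192518065) (nat_lit 3) (nat_lit 5) (nat_lit 5) (nat_lit 4) (nat_lit 3) (nat_lit 4) (nat_lit 335) (nat_lit 221) (nat_lit 164))))) (XT.nd (nat_lit 234) (nat_lit 684) (nat_lit 0) (XT.nd (nat_lit 78) (nat_lit 532) (nat_lit 0) (XT.lf (nat_lit 0) (nat_lit 4941442215) (nat_lit 228) (nat_lit 377804355) (nat_lit 228) (nat_lit 377804355) (nat_lit 50) (nat_lit 4) (nat_lit 53) (nat_lit 5) (nat_lit 53) (nat_lit 4) (nat_lit 276) (nat_lit 222) (nat_lit 222)) (XT.nd (nat_lit 78) (nat_lit 228) (nat_lit 0) (XT.lf (nat_lit 0) (nat_lit 5323391619) (nat_lit 304) (nat_lit 2201406391) (nat_lit 0) (nat_lit 4212700872) (nat_lit 46) (nat_lit 5) (nat_lit 50) (nat_lit 4) (nat_lit 46) (nat_lit 4) (nat_lit 277) (nat_lit 222) (nat_lit 221)) (XT.lf (nat_lit 0) (nat_lit 8869507978) (nat_lit 228) (nat_lit 2700359125) (nat_lit 228) (nat_lit 531867667) (nat_lit 43) (nat_lit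 4) (nat_lit 46) (nat_lit 5) (nat_lit 46) (nat_lit 4) (nat_lit 278) (nat_lit 222) (nat_lit 220)))) (XT.nd (nat_lit 78) (nat_lit 456) (nat_lit 0) (XT.lf (nat_lit 0) (nat_lit 5430788708) (nat_lit 228) (nat_lit 4707749802) (nat_lit 0) (nat_lit 2347370545) (nat_lit 40) (nat_lit 5) (nat_lit 43) (nat_lit 4) (nat_lit 40) (nat_lit 4) (nat_lit 279) (nat_lit 222) (nat_lit 219)) (XT.nd (nat_lit 78) (nat_lit 228) (nat_lit 0) (XT.lf (nat_lit 0) (nat_lit 6259702545) (nat_lit 228) (nat_lit 5323755206) (nat_lit 228) (nat_lit 1308825948) (nat_lit 37) (nat_lit 4) (nat_lit 40) (nat_lit 5) (nat_lit 40) (nat_lit 4) (nat_lit 280) (nat_lit 222) (nat_lit 218)) (XT.lf (nat_lit 0) (nat_lit 4251135781) (nat_lit 152) (nat_lit 257838830) (nat_lit 228) (nat_lit 8812566502) (nat_lit 34) (nat_lit 5) (nat_lit 36) (nat_lit 5) (nat_lit 37) (nat_lit 4) (nat_lit 281) (nat_lit 222) (nat_lit 217)))))) (XT.nd (nat_lit 468) (nat_lit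 608) (nat_lit 0) (XT.nd (nat_lit 234) (nat_lit 380) (nat_lit 0) (XT.nd (nat_lit 78) (nat_lit 228) (nat_lit 0) (XT.lf (nat_lit 0) (nat_lit 1679988225) (nat_lit 152) (nat_lit 8836952282) (nat_lit 152) (nat_lit 3257349657) (nat_lit 32) (nat_lit 4) (nat_lit 34) (nat_lit 5) (nat_lit 34) (nat_lit 4) (nat_lit 282) (nat_lit 222) (nat_lit 216)) (XT.nd (nat_lit 78) (nat_lit 152) (nat_lit 0) (XT.lf (nat_lit 0) (nat_lit 2419156790) (nat_lit 228) (nat_lit 1449951532) (nat_lit 76) (nat_lit 10383204110) (nat_lit 31) (nat_lit 5) (nat_lit 34) (nat_lit 5) (nat_lit 32) (nat_lit 4) (nat_lit 283) (nat_lit 222) (nat_lit 215)) (XT.lf (nat_lit 0) (nat_lit 8224247114) (nat_lit 228) (nat_lit 5205530438) (nat_lit 0) (nat_lit 1326309991) (nat_lit 29) (nat_lit 5) (nat_lit 32) (nat_lit 4) (nat_lit 29) (nat_lit 4) (nat_lit 284) (nat_lit 222) (nat_lit 214)))) (XT.nd (nat_lit 78) (nat_lit 228) (nat_lit 0) (XT.lf (nat_lit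 0) (nat_lit 5604980282) (nat_lit 152) (nat_lit 8634279354) (nat_lit 152) (nat_lit 1048376054) (nat_lit 27) (nat_lit 4) (nat_lit 29) (nat_lit 5) (nat_lit 29) (nat_lit 4) (nat_lit 285) (nat_lit 222) (nat_lit 213)) (XT.nd (nat_lit 78) (nat_lit 0) (nat_lit 0) (XT.lf (nat_lit 0) (nat_lit 885252846) (nat_lit 152) (nat_lit 3610491995) (nat_lit 228) (nat_lit 11352468191) (nat_lit 24) (nat_lit 5) (nat_lit 26) (nat_lit 5) (nat_lit 27) (nat_lit 4) (nat_lit 286) (nat_lit 222) (nat_lit 212)) (XT.lf (nat_lit 0) (nat_lit 10232761686) (nat_lit 228) (nat_lit 4579924371) (nat_lit 0) (nat_lit 1625854127) (nat_lit 24) (nat_lit 5) (nat_lit 27) (nat_lit 4) (nat_lit 24) (nat_lit 4) (nat_lit 287) (nat_lit 222) (nat_lit 211))))) (XT.nd (nat_lit 234) (nat_lit 304) (nat_lit 0) (XT.nd (nat_lit 78) (nat_lit 152) (nat_lit 0) (XT.lf (nat_lit 0) (nat_lit 6117168259) (nat_lit 152) (nat_lit 10063760896) (nat_lit 152) (nat_lit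 879871735) (nat_lit 22) (nat_lit 4) (nat_lit 24) (nat_lit 5) (nat_lit 24) (nat_lit 4) (nat_lit 288) (nat_lit 222) (nat_lit 210)) (XT.nd (nat_lit 78) (nat_lit 76) (nat_lit 0) (XT.lf (nat_lit 0) (nat_lit 4500720999) (nat_lit 228) (nat_lit 596931819) (nat_lit 76) (nat_lit 12618887697) (nat_lit 21) (nat_lit 5) (nat_lit 24) (nat_lit 5) (nat_lit 22) (nat_lit 4) (nat_lit 289) (nat_lit 222) (nat_lit 209)) (XT.lf (nat_lit 0) (nat_lit 10072057208) (nat_lit 152) (nat_lit 8220617690) (nat_lit 0) (nat_lit 114062285) (nat_lit 20) (nat_lit 5) (nat_lit 22) (nat_lit 4) (nat_lit 20) (nat_lit 4) (nat_lit 290) (nat_lit 222) (nat_lit 208)))) (XT.nd (nat_lit 78) (nat_lit 152) (nat_lit 0) (XT.lf (nat_lit 0) (nat_lit 2113544433) (nat_lit 152) (nat_lit 13731118530) (nat_lit 152) (nat_lit 3289222246) (nat_lit 18) (nat_lit 4) (nat_lit 20) (nat_lit 5) (nat_lit 20) (nat_lit 4) (nat_lit 291) (nat_lit 222) (nat_lit 207))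 (XT.nd (nat_lit 78) (nat_lit 76) (nat_lit 0) (XT.lf (nat_lit 0) (nat_lit 1902815096) (nat_lit 228) (nat_lit 7040040076) (nat_lit 76) (nat_lit 10956064622) (nat_lit 17) (nat_lit 5) (nat_lit 20) (nat_lit 5) (nat_lit 18) (nat_lit 4) (nat_lit 292) (nat_lit 222) (nat_lit 206)) (XT.lf (nat_lit 0) (nat_lit 3220108190) (nat_lit 76) (nat_lit 3953180337) (nat_lit 152) (nat_lit 13531442741) (nat_lit 16) (nat_lit 5) (nat_lit 17) (nat_lit 5) (nat_lit 18) (nat_lit 4) (nat_lit 293) (nat_lit 222) (nat_lit 205))))))))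
noncomputable def xc20 : XT := (XT.nd (nat_lit 1716) (nat_lit 228) (nat_lit 0) (XT.nd (nat_lit 858) (nat_lit 228) (nat_lit 0) (XT.nd (nat_lit 390) (nat_lit 228) (nat_lit 0) (XT.nd (nat_lit 156) (nat_lit 152) (nat_lit 0) (XT.nd (nat_lit 78) (nat_lit 152) (nat_lit 0) (XT.lf (nat_lit 0) (nat_lit 12651702913) (nat_lit 152) (nat_lit 7666362567) (nat_lit 0) (nat_lit 1234538145) (nat_lit 16) (nat_lit 5) (nat_lit 18) (nat_lit 4) (nat_lit 16) (nat_lit 4) (nat_lit 294) (nat_lit 222) (nat_lit 204)) (XT.lf (nat_lit 0) (nat_lit 2416732343) (nat_lit 152) (nat_lit 15916024940) (nat_lit 152) (nat_lit 4112348670) (nat_lit 14) (nat_lit 4) (nat_lit 16) (nat_lit 5) (nat_lit 16) (nat_lit 4) (nat_lit 295) (nat_lit 222) (nat_lit 203))) (XT.nd (nat_lit 78) (nat_lit 76) (nat_lit 0) (XT.lf (nat_lit 0) (nat_lit 845892710) (nat_lit 228) (nat_lit 10454620260) (nat_lit 76) (nat_lit 12083103060) (nat_lit 13) (nat_lit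 5) (nat_lit 16) (nat_lit 5) (nat_lit 14) (nat_lit 4) (nat_lit 296) (nat_lit 222) (nat_lit 202)) (XT.nd (nat_lit 78) (nat_lit 76) (nat_lit 0) (XT.lf (nat_lit 0) (nat_lit 5842481550) (nat_lit 228) (nat_lit 662122240) (nat_lit 76) (nat_lit 17867048018) (nat_lit 13) (nat_lit 5) (nat_lit 16) (nat_lit 5) (nat_lit 14) (nat_lit 4) (nat_lit 297) (nat_lit 222) (nat_lit 201)) (XT.lf (nat_lit 0) (nat_lit 9599282916) (nat_lit 76) (nat_lit 1462552488) (nat_lit 152) (nat_lit 14348148035) (nat_lit 12) (nat_lit 5) (nat_lit 13) (nat_lit 5) (nat_lit 14) (nat_lit 4) (nat_lit 298) (nat_lit 222) (nat_lit 200))))) (XT.nd (nat_lit 234) (nat_lit 152) (nat_lit 0) (XT.nd (nat_lit 78) (nat_lit 76) (nat_lit 0) (XT.lf (nat_lit 0) (nat_lit 16469442620) (nat_lit 152) (nat_lit 6354117642) (nat_lit 0) (nat_lit 3678931042) (nat_lit 12) (nat_lit 5) (nat_lit 14) (nat_lit 4) (nat_lit 12) (nat_lit 4) (nat_lit 299) (nat_lit 222)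 (nat_lit 199)) (XT.nd (nat_lit 78) (nat_lit 0) (nat_lit 0) (XT.lf (nat_lit 0) (nat_lit 3432478190) (nat_lit 76) (nat_lit 18651823766) (nat_lit 76) (nat_lit 5567290950) (nat_lit 11) (nat_lit 4) (nat_lit 12) (nat_lit 5) (nat_lit 12) (nat_lit 4) (nat_lit 300) (nat_lit 222) (nat_lit 198)) (XT.lf (nat_lit 0) (nat_lit 13651742494) (nat_lit 76) (nat_lit 14286145782) (nat_lit 76) (nat_lit 921592739) (nat_lit 11) (nat_lit 4) (nat_lit 12) (nat_lit 5) (nat_lit 12) (nat_lit 4) (nat_lit 301) (nat_lit 222) (nat_lit 197)))) (XT.nd (nat_lit 78) (nat_lit 76) (nat_lit 0) (XT.lf (nat_lit 0) (nat_lit 3775797235) (nat_lit 152) (nat_lit 5966370585) (nat_lit 76) (nat_lit 20387622067) (nat_lit 10) (nat_lit 5) (nat_lit 12) (nat_lit 5) (nat_lit 11) (nat_lit 4) (nat_lit 302) (nat_lit 222) (nat_lit 196)) (XT.nd (nat_lit 78) (nat_lit 0) (nat_lit 0) (XT.lf (nat_lit 0) (nat_lit 3624640516) (nat_lit 76) (nat_lit 5000909281)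 (nat_lit 152) (nat_lit 22839756552) (nat_lit 9) (nat_lit 5) (nat_lit 10) (nat_lit 5) (nat_lit 11) (nat_lit 4) (nat_lit 303) (nat_lit 222) (nat_lit 195)) (XT.lf (nat_lit 0) (nat_lit 13651012073) (nat_lit 76) (nat_lit 32795634) (nat_lit 152) (nat_lit 19184869900) (nat_lit 9) (nat_lit 5) (nat_lit 10) (nat_lit 5) (nat_lit 11) (nat_lit 4) (nat_lit 304) (nat_lit 222) (nat_lit 194)))))) (XT.nd (nat_lit 390) (nat_lit 76) (nat_lit 0) (XT.nd (nat_lit 156) (nat_lit 152) (nat_lit 0) (XT.nd (nat_lit 78) (nat_lit 0) (nat_lit 0) (XT.lf (nat_lit 0) (nat_lit 18953277131) (nat_lit 152) (nat_lit 10376282436) (nat_lit 0) (nat_lit 5013965570) (nat_lit 9) (nat_lit 5) (nat_lit 11) (nat_lit 4) (nat_lit 9) (nat_lit 4) (nat_lit 305) (nat_lit 222) (nat_lit 193)) (XT.lf (nat_lit 0) (nat_lit 24399379131) (nat_lit 152) (nat_lit 1248340333) (nat_lit 0) (nat_lit 10247054779) (nat_lit 9) (nat_lit 5) (nat_lit 11) (nat_lit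 4) (nat_lit 9) (nat_lit 4) (nat_lit 306) (nat_lit 222) (nat_lit 192))) (XT.nd (nat_lit 78) (nat_lit 76) (nat_lit 0) (XT.lf (nat_lit 0) (nat_lit 8351170639) (nat_lit 76) (nat_lit 21763871287) (nat_lit 76) (nat_lit 7408677610) (nat_lit 8) (nat_lit 4) (nat_lit 9) (nat_lit 5) (nat_lit 9) (nat_lit 4) (nat_lit 307) (nat_lit 222) (nat_lit 191)) (XT.nd (nat_lit 78) (nat_lit 76) (nat_lit 0) (XT.lf (nat_lit 0) (nat_lit 18313190509) (nat_lit 76) (nat_lit 17735700499) (nat_lit 76) (nat_lit 3187297941) (nat_lit 8) (nat_lit 4) (nat_lit 9) (nat_lit 5) (nat_lit 9) (nat_lit 4) (nat_lit 308) (nat_lit 222) (nat_lit 190)) (XT.lf (nat_lit 0) (nat_lit 1143432457) (nat_lit 152) (nat_lit 12411243127) (nat_lit 76) (nat_lit 27481615069) (nat_lit 7) (nat_lit 5) (nat_lit 9) (nat_lit 5) (nat_lit 8) (nat_lit 4) (nat_lit 309) (nat_lit 222) (nat_lit 189))))) (XT.nd (nat_lit 234) (nat_lit 0) (nat_lit 0) (XT.nd (nat_lit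 78) (nat_lit 76) (nat_lit 0) (XT.lf (nat_lit 0) (nat_lit 5551659762) (nat_lit 152) (nat_lit 3637787848) (nat_lit 76) (nat_lit 33738239858) (nat_lit 7) (nat_lit 5) (nat_lit 9) (nat_lit 5) (nat_lit 8) (nat_lit 4) (nat_lit 310) (nat_lit 222) (nat_lit 188)) (XT.nd (nat_lit 78) (nat_lit 0) (nat_lit 0) (XT.lf (nat_lit 0) (nat_lit 5557338520) (nat_lit 76) (nat_lit 4606157431) (nat_lit 152) (nat_lit 34750703305) (nat_lit 6) (nat_lit 5) (nat_lit 7) (nat_lit 5) (nat_lit 8) (nat_lit 4) (nat_lit 311) (nat_lit 222) (nat_lit 187)) (XT.lf (nat_lit 0) (nat_lit 14977158087) (nat_lit 152) (nat_lit 31836439708) (nat_lit 0) (nat_lit 187340915) (nat_lit 6) (nat_lit 5) (nat_lit 8) (nat_lit 4) (nat_lit 6) (nat_lit 4) (nat_lit 312) (nat_lit 222) (nat_lit 186)))) (XT.nd (nat_lit 78) (nat_lit 0) (nat_lit 0) (XT.lf (nat_lit 0) (nat_lit 20012692004) (nat_lit 152) (nat_lit 24104024844) (nat_lit 0) (nat_lit 5075899868)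 (nat_lit 6) (nat_lit 5) (nat_lit 8) (nat_lit 4) (nat_lit 6) (nat_lit 4) (nat_lit 313) (nat_lit 222) (nat_lit 185)) (XT.nd (nat_lit 78) (nat_lit 0) (nat_lit 0) (XT.lf (nat_lit 0) (nat_lit 25237809868) (nat_lit 152) (nat_lit 16096928428) (nat_lit 0) (nat_lit 10161041574) (nat_lit 6) (nat_lit 5) (nat_lit 8) (nat_lit 4) (nat_lit 6) (nat_lit 4) (nat_lit 314) (nat_lit 222) (nat_lit 184)) (XT.lf (nat_lit 0) (nat_lit 30664952434) (nat_lit 152) (nat_lit 7796085945) (nat_lit 0) (nat_lit 15454873515) (nat_lit 6) (nat_lit 5) (nat_lit 8) (nat_lit 4) (nat_lit 6) (nat_lit 4) (nat_lit 315) (nat_lit 222) (nat_lit 183))))))) (XT.nd (nat_lit 858) (nat_lit 0) (nat_lit 0) (XT.nd (nat_lit 390) (nat_lit 152) (nat_lit 0) (XT.nd (nat_lit 156) (nat_lit 0) (nat_lit 0) (XT.nd (nat_lit 78) (nat_lit 0) (nat_lit 0) (XT.lf (nat_lit 0) (nat_lit 834551622) (nat_lit 76) (nat_lit 35480512070) (nat_lit 76) (nat_lit 20143470650)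 (nat_lit 5) (nat_lit 4) (nat_lit 6) (nat_lit 5) (nat_lit 6) (nat_lit 4) (nat_lit 316) (nat_lit 222) (nat_lit 182)) (XT.lf (nat_lit 0) (nat_lit 9961014587) (nat_lit 76) (nat_lit 32312247303) (nat_lit 76) (nat_lit 16854289216) (nat_lit 5) (nat_lit 4) (nat_lit 6) (nat_lit 5) (nat_lit 6) (nat_lit 4) (nat_lit 317) (nat_lit 222) (nat_lit 181))) (XT.nd (nat_lit 78) (nat_lit 0) (nat_lit 0) (XT.lf (nat_lit 0) (nat_lit 19449875226) (nat_lit 76) (nat_lit 29027425775) (nat_lit 76) (nat_lit 13454308957) (nat_lit 5) (nat_lit 4) (nat_lit 6) (nat_lit 5) (nat_lit 6) (nat_lit 4) (nat_lit 318) (nat_lit 222) (nat_lit 180)) (XT.nd (nat_lit 78) (nat_lit 0) (nat_lit 0) (XT.lf (nat_lit 0) (nat_lit 29323726065) (nat_lit 76) (nat_lit 25618226481) (nat_lit 76) (nat_lit 9935434681) (nat_lit 5) (nat_lit 4) (nat_lit 6) (nat_lit 5) (nat_lit 6) (nat_lit 4) (nat_lit 319) (nat_lit 222) (nat_lit 179)) (XT.lf (nat_lit 0) (nat_lit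 39606076271) (nat_lit 76) (nat_lit 22076532279) (nat_lit 76) (nat_lit 6289288116) (nat_lit 5) (nat_lit 4) (nat_lit 6) (nat_lit 5) (nat_lit 6) (nat_lit 4) (nat_lit 320) (nat_lit 222) (nat_lit 178))))) (XT.nd (nat_lit 234) (nat_lit 76) (nat_lit 0) (XT.nd (nat_lit 78) (nat_lit 76) (nat_lit 0) (XT.lf (nat_lit 0) (nat_lit 50321407631) (nat_lit 76) (nat_lit 18393910566) (nat_lit 76) (nat_lit 2507187961) (nat_lit 5) (nat_lit 4) (nat_lit 6) (nat_lit 5) (nat_lit 6) (nat_lit 4) (nat_lit 321) (nat_lit 222) (nat_lit 177)) (XT.nd (nat_lit 78) (nat_lit 0) (nat_lit 0) (XT.lf (nat_lit 0) (nat_lit 1392163990) (nat_lit 152) (nat_lit 13155371076) (nat_lit 76) (nat_lit 60089010722) (nat_lit 4) (nat_lit 5) (nat_lit 6) (nat_lit 5) (nat_lit 5) (nat_lit 4) (nat_lit 322) (nat_lit 222) (nat_lit 176)) (XT.lf (nat_lit 0) (nat_lit 5393889286) (nat_lit 152) (nat_lit 5122098604) (nat_lit 76) (nat_lit 67705799248) (nat_lit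 4) (nat_lit 5) (nat_lit 6) (nat_lit 5) (nat_lit 5) (nat_lit 4) (nat_lit 323) (nat_lit 222) (nat_lit 175)))) (XT.nd (nat_lit 78) (nat_lit 0) (nat_lit 0) (XT.lf (nat_lit 0) (nat_lit 3306467440) (nat_lit 76) (nat_lit 6281756458) (nat_lit 152) (nat_lit 72398312106) (nat_lit 3) (nat_lit 5) (nat_lit 4) (nat_lit 5) (nat_lit 5) (nat_lit 4) (nat_lit 324) (nat_lit 222) (nat_lit 174)) (XT.nd (nat_lit 78) (nat_lit 0) (nat_lit 0) (XT.lf (nat_lit 0) (nat_lit 12194639523) (nat_lit 76) (nat_lit 1812310110) (nat_lit 152) (nat_lit 71932152579) (nat_lit 3) (nat_lit 5) (nat_lit 4) (nat_lit 5) (nat_lit 5) (nat_lit 4) (nat_lit 325) (nat_lit 222) (nat_lit 173)) (XT.lf (nat_lit 0) (nat_lit 18637778763) (nat_lit 152) (nat_lit 68656171130) (nat_lit 0) (nat_lit 2795631000) (nat_lit 3) (nat_lit 5) (nat_lit 5) (nat_lit 4) (nat_lit 3) (nat_lit 4) (nat_lit 326) (nat_lit 222) (nat_lit 172)))))) (XT.nd (nat_lit 390) (nat_lit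 0) (nat_lit 0) (XT.nd (nat_lit 156) (nat_lit 0) (nat_lit 0) (XT.nd (nat_lit 78) (nat_lit 0) (nat_lit 0) (XT.lf (nat_lit 0) (nat_lit 23483657562) (nat_lit 152) (nat_lit 63394999397) (nat_lit 0) (nat_lit 7569439561) (nat_lit 3) (nat_lit 5) (nat_lit 5) (nat_lit 4) (nat_lit 3) (nat_lit 4) (nat_lit 327) (nat_lit 222) (nat_lit 171)) (XT.lf (nat_lit 0) (nat_lit 28538702804) (nat_lit 152) (nat_lit 57930999860) (nat_lit 0) (nat_lit 12555846482) (nat_lit 3) (nat_lit 5) (nat_lit 5) (nat_lit 4) (nat_lit 3) (nat_lit 4) (nat_lit 328) (nat_lit 222) (nat_lit 170))) (XT.nd (nat_lit 78) (nat_lit 0) (nat_lit 0) (XT.lf (nat_lit 0) (nat_lit 33814950311) (nat_lit 152) (nat_lit 52251162994) (nat_lit 0) (nat_lit 17766724159) (nat_lit 3) (nat_lit 5) (nat_lit 5) (nat_lit 4) (nat_lit 3) (nat_lit 4) (nat_lit 329) (nat_lit 222) (nat_lit 169)) (XT.nd (nat_lit 78) (nat_lit 0) (nat_lit 0) (XT.lf (nat_lit 0) (nat_lit 39324962578)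 (nat_lit 152) (nat_lit 46341965380) (nat_lit 0) (nat_lit 23214479445) (nat_lit 3) (nat_lit 5) (nat_lit 5) (nat_lit 4) (nat_lit 3) (nat_lit 4) (nat_lit 330) (nat_lit 222) (nat_lit 168)) (XT.lf (nat_lit 0) (nat_lit 45081858680) (nat_lit 152) (nat_lit 40189337499) (nat_lit 0) (nat_lit 28912083185) (nat_lit 3) (nat_lit 5) (nat_lit 5) (nat_lit 4) (nat_lit 3) (nat_lit 4) (nat_lit 331) (nat_lit 222) (nat_lit 167))))) (XT.nd (nat_lit 32994) (nat_lit 0) (nat_lit 3496) (XT.nd (nat_lit 78) (nat_lit 0) (nat_lit 0) (XT.lf (nat_lit 0) (nat_lit 51099345514) (nat_lit 152) (nat_lit 33778630236) (nat_lit 0) (nat_lit 34873101102) (nat_lit 3) (nat_lit 5) (nat_lit 5) (nat_lit 4) (nat_lit 3) (nat_lit 4) (nat_lit 332) (nat_lit 222) (nat_lit 166)) (XT.nd (nat_lit 156) (nat_lit 0) (nat_lit 0) (XT.lf (nat_lit 0) (nat_lit 57391750429) (nat_lit 152) (nat_lit 27094580004) (nat_lit 0) (nat_lit 41111726096) (nat_lit 3)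 (nat_lit 5) (nat_lit 5) (nat_lit 4) (nat_lit 3) (nat_lit 4) (nat_lit 333) (nat_lit 222) (nat_lit 165)) (XT.lf (nat_lit 0) (nat_lit 70861932407) (nat_lit 152) (nat_lit 12842104301) (nat_lit 0) (nat_lit 54481909128) (nat_lit 3) (nat_lit 5) (nat_lit 5) (nat_lit 4) (nat_lit 3) (nat_lit 4) (nat_lit 335) (nat_lit 222) (nat_lit 163)))) (XT.nd (nat_lit 78) (nat_lit 608) (nat_lit 0) (XT.lf (nat_lit 0) (nat_lit 4894118130) (nat_lit 228) (nat_lit 242546324) (nat_lit 228) (nat_lit 242546324) (nat_lit 57) (nat_lit 4) (nat_lit 60) (nat_lit 5) (nat_lit 60) (nat_lit 4) (nat_lit 274) (nat_lit 223) (nat_lit 223)) (XT.nd (nat_lit 78) (nat_lit 304) (nat_lit 0) (XT.lf (nat_lit 0) (nat_lit 5535726914) (nat_lit 304) (nat_lit 1198150709) (nat_lit 0) (nat_lit 4334514871) (nat_lit 53) (nat_lit 5) (nat_lit 57) (nat_lit 4) (nat_lit 53) (nat_lit 4) (nat_lit 275) (nat_lit 223) (nat_lit 222)) (XT.lf (nat_lit 0) (nat_lit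 321654871) (nat_lit 304) (nat_lit 1692264123) (nat_lit 76) (nat_lit 9383649228) (nat_lit 49) (nat_lit 5) (nat_lit 53) (nat_lit 5) (nat_lit 50) (nat_lit 4) (nat_lit 276) (nat_lit 223) (nat_lit 221))))))))
noncomputable def xc21 : XT := (XT.nd (nat_lit 1716) (nat_lit 532) (nat_lit 0) (XT.nd (nat_lit 858) (nat_lit 912) (nat_lit 0) (XT.nd (nat_lit 390) (nat_lit 760) (nat_lit 0) (XT.nd (nat_lit 156) (nat_lit 608) (nat_lit 0) (XT.nd (nat_lit 78) (nat_lit 304) (nat_lit 0) (XT.lf (nat_lit 0) (nat_lit 6260027566) (nat_lit 304) (nat_lit 2559316188) (nat_lit 0) (nat_lit 2925310823) (nat_lit 46) (nat_lit 5) (nat_lit 50) (nat_lit 4) (nat_lit 46) (nat_lit 4) (nat_lit 277) (nat_lit 223) (nat_lit 220)) (XT.lf (nat_lit 0) (nat_lit 276823915) (nat_lit 304) (nat_lit 3780193443) (nat_lit 76) (nat_lit 8055270226) (nat_lit 42) (nat_lit 5) (nat_lit 46) (nat_lit 5) (nat_lit 43) (nat_lit 4) (nat_lit 278) (nat_lit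 223) (nat_lit 219))) (XT.nd (nat_lit 78) (nat_lit 456) (nat_lit 0) (XT.lf (nat_lit 0) (nat_lit 6104170614) (nat_lit 228) (nat_lit 5439017138) (nat_lit 0) (nat_lit 956983799) (nat_lit 40) (nat_lit 5) (nat_lit 43) (nat_lit 4) (nat_lit 40) (nat_lit 4) (nat_lit 279) (nat_lit 223) (nat_lit 218)) (XT.nd (nat_lit 78) (nat_lit 228) (nat_lit 0) (XT.lf (nat_lit 0) (nat_lit 5349082227) (nat_lit 228) (nat_lit 6797609152) (nat_lit 228) (nat_lit 763268913) (nat_lit 37) (nat_lit 4) (nat_lit 40) (nat_lit 5) (nat_lit 40) (nat_lit 4) (nat_lit 280) (nat_lit 223) (nat_lit 217)) (XT.lf (nat_lit 0) (nat_lit 3136824027) (nat_lit 152) (nat_lit 1797201730) (nat_lit 228) (nat_lit 8408431811) (nat_lit 34) (nat_lit 5) (nat_lit 36) (nat_lit 5) (nat_lit 37) (nat_lit 4) (nat_lit 281) (nat_lit 223) (nat_lit 216))))) (XT.nd (nat_lit 234) (nat_lit 380) (nat_lit 0) (XT.nd (nat_lit 78) (nat_lit 228) (nat_lit 0) (XT.lf (nat_lit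 0) (nat_lit 377257375) (nat_lit 152) (nat_lit 10440939324) (nat_lit 152) (nat_lit 2980820325) (nat_lit 32) (nat_lit 4) (nat_lit 34) (nat_lit 5) (nat_lit 34) (nat_lit 4) (nat_lit 282) (nat_lit 223) (nat_lit 215)) (XT.nd (nat_lit 78) (nat_lit 152) (nat_lit 0) (XT.lf (nat_lit 0) (nat_lit 2595929906) (nat_lit 228) (nat_lit 2934416708) (nat_lit 76) (nat_lit 8749533018) (nat_lit 31) (nat_lit 5) (nat_lit 34) (nat_lit 5) (nat_lit 32) (nat_lit 4) (nat_lit 283) (nat_lit 223) (nat_lit 214)) (XT.lf (nat_lit 0) (nat_lit 7900016388) (nat_lit 152) (nat_lit 382139261) (nat_lit 228) (nat_lit 6505150061) (nat_lit 29) (nat_lit 5) (nat_lit 31) (nat_lit 5) (nat_lit 32) (nat_lit 4) (nat_lit 284) (nat_lit 223) (nat_lit 213)))) (XT.nd (nat_lit 78) (nat_lit 228) (nat_lit 0) (XT.lf (nat_lit 0) (nat_lit 3745674223) (nat_lit 152) (nat_lit 10442451211) (nat_lit 152) (nat_lit 1134080686) (nat_lit 27) (nat_lit 4) (nat_lit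 29) (nat_lit 5) (nat_lit 29) (nat_lit 4) (nat_lit 285) (nat_lit 223) (nat_lit 212)) (XT.nd (nat_lit 78) (nat_lit 152) (nat_lit 0) (XT.lf (nat_lit 0) (nat_lit 4317605562) (nat_lit 228) (nat_lit 1167636836) (nat_lit 76) (nat_lit 10400463869) (nat_lit 26) (nat_lit 5) (nat_lit 29) (nat_lit 5) (nat_lit 27) (nat_lit 4) (nat_lit 286) (nat_lit 223) (nat_lit 211)) (XT.lf (nat_lit 0) (nat_lit 9660429767) (nat_lit 152) (nat_lit 283952964) (nat_lit 228) (nat_lit 6535029190) (nat_lit 24) (nat_lit 5) (nat_lit 26) (nat_lit 5) (nat_lit 27) (nat_lit 4) (nat_lit 287) (nat_lit 223) (nat_lit 210)))))) (XT.nd (nat_lit 390) (nat_lit 380) (nat_lit 0) (XT.nd (nat_lit 156) (nat_lit 304) (nat_lit 0) (XT.nd (nat_lit 78) (nat_lit 76) (nat_lit 0) (XT.lf (nat_lit 0) (nat_lit 3699861802) (nat_lit 152) (nat_lit 12087305863) (nat_lit 152) (nat_lit 1317734355) (nat_lit 22) (nat_lit 4) (nat_lit 24) (nat_lit 5) (nat_lit 24)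 (nat_lit 4) (nat_lit 288) (nat_lit 223) (nat_lit 209)) (XT.lf (nat_lit 0) (nat_lit 3993693991) (nat_lit 228) (nat_lit 3185712028) (nat_lit 76) (nat_lit 10583755956) (nat_lit 21) (nat_lit 5) (nat_lit 24) (nat_lit 5) (nat_lit 22) (nat_lit 4) (nat_lit 289) (nat_lit 223) (nat_lit 208))) (XT.nd (nat_lit 78) (nat_lit 228) (nat_lit 0) (XT.lf (nat_lit 0) (nat_lit 7419159423) (nat_lit 76) (nat_lit 2044135480) (nat_lit 152) (nat_lit 8993175606) (nat_lit 20) (nat_lit 5) (nat_lit 21) (nat_lit 5) (nat_lit 22) (nat_lit 4) (nat_lit 290) (nat_lit 223) (nat_lit 207)) (XT.nd (nat_lit 78) (nat_lit 228) (nat_lit 0) (XT.lf (nat_lit 0) (nat_lit 15123799064) (nat_lit 152) (nat_lit 848191311) (nat_lit 0) (nat_lit 3215048167) (nat_lit 20) (nat_lit 5) (nat_lit 22) (nat_lit 4) (nat_lit 20) (nat_lit 4) (nat_lit 291) (nat_lit 223) (nat_lit 206)) (XT.lf (nat_lit 0) (nat_lit 1064905927) (nat_lit 228) (nat_lit 10185904663)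 (nat_lit 76) (nat_lit 8703908289) (nat_lit 17) (nat_lit 5) (nat_lit 20) (nat_lit 5) (nat_lit 18) (nat_lit 4) (nat_lit 292) (nat_lit 223) (nat_lit 205))))) (XT.nd (nat_lit 234) (nat_lit 304) (nat_lit 0) (XT.nd (nat_lit 78) (nat_lit 76) (nat_lit 0) (XT.lf (nat_lit 0) (nat_lit 6237189646) (nat_lit 228) (nat_lit 104180904) (nat_lit 76) (nat_lit 14422155655) (nat_lit 17) (nat_lit 5) (nat_lit 20) (nat_lit 5) (nat_lit 18) (nat_lit 4) (nat_lit 293) (nat_lit 223) (nat_lit 204)) (XT.nd (nat_lit 78) (nat_lit 0) (nat_lit 0) (XT.lf (nat_lit 0) (nat_lit 10460069699) (nat_lit 76) (nat_lit 1177296030) (nat_lit 152) (nat_lit 9976427753) (nat_lit 16) (nat_lit 5) (nat_lit 17) (nat_lit 5) (nat_lit 18) (nat_lit 4) (nat_lit 294) (nat_lit 223) (nat_lit 203)) (XT.lf (nat_lit 0) (nat_lit 17221427385) (nat_lit 152) (nat_lit 1214874094) (nat_lit 0) (nat_lit 4072949608) (nat_lit 16) (nat_lit 5) (nat_lit 18) (nat_lit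 4) (nat_lit 16) (nat_lit 4) (nat_lit 295) (nat_lit 223) (nat_lit 202)))) (XT.nd (nat_lit 78) (nat_lit 152) (nat_lit 0) (XT.lf (nat_lit 0) (nat_lit 9176457203) (nat_lit 152) (nat_lit 13886411501) (nat_lit 152) (nat_lit 387356398) (nat_lit 14) (nat_lit 4) (nat_lit 16) (nat_lit 5) (nat_lit 16) (nat_lit 4) (nat_lit 296) (nat_lit 223) (nat_lit 201)) (XT.nd (nat_lit 78) (nat_lit 76) (nat_lit 0) (XT.lf (nat_lit 0) (nat_lit 4558577205) (nat_lit 228) (nat_lit 4579026543) (nat_lit 76) (nat_lit 15302555319) (nat_lit 13) (nat_lit 5) (nat_lit 16) (nat_lit 5) (nat_lit 14) (nat_lit 4) (nat_lit 297) (nat_lit 223) (nat_lit 200)) (XT.lf (nat_lit 0) (nat_lit 5505853276) (nat_lit 76) (nat_lit 4177287372) (nat_lit 152) (nat_lit 15798231920) (nat_lit 12) (nat_lit 5) (nat_lit 13) (nat_lit 5) (nat_lit 14) (nat_lit 4) (nat_lit 298) (nat_lit 223) (nat_lit 199))))))) (XT.nd (nat_lit 858) (nat_lit 228) (nat_lit 0)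 (XT.nd (nat_lit 390) (nat_lit 152) (nat_lit 0) (XT.nd (nat_lit 156) (nat_lit 152) (nat_lit 0) (XT.nd (nat_lit 78) (nat_lit 0) (nat_lit 0) (XT.lf (nat_lit 0) (nat_lit 15010561821) (nat_lit 152) (nat_lit 10587979406) (nat_lit 0) (nat_lit 977781126) (nat_lit 12) (nat_lit 5) (nat_lit 14) (nat_lit 4) (nat_lit 12) (nat_lit 4) (nat_lit 299) (nat_lit 223) (nat_lit 198)) (XT.lf (nat_lit 0) (nat_lit 20540911459) (nat_lit 152) (nat_lit 958971860) (nat_lit 0) (nat_lit 6228110537) (nat_lit 12) (nat_lit 5) (nat_lit 14) (nat_lit 4) (nat_lit 12) (nat_lit 4) (nat_lit 300) (nat_lit 223) (nat_lit 197))) (XT.nd (nat_lit 78) (nat_lit 76) (nat_lit 0) (XT.lf (nat_lit 0) (nat_lit 9153196017) (nat_lit 76) (nat_lit 17181992520) (nat_lit 76) (nat_lit 2602505667) (nat_lit 11) (nat_lit 4) (nat_lit 12) (nat_lit 5) (nat_lit 12) (nat_lit 4) (nat_lit 301) (nat_lit 223) (nat_lit 196)) (XT.nd (nat_lit 78) (nat_lit 0) (nat_lit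 0) (XT.lf (nat_lit 0) (nat_lit 2079652583) (nat_lit 152) (nat_lit 10611778709) (nat_lit 76) (nat_lit 17518527972) (nat_lit 10) (nat_lit 5) (nat_lit 12) (nat_lit 5) (nat_lit 11) (nat_lit 4) (nat_lit 302) (nat_lit 223) (nat_lit 195)) (XT.lf (nat_lit 0) (nat_lit 6848817750) (nat_lit 152) (nat_lit 1172265419) (nat_lit 76) (nat_lit 23526839205) (nat_lit 10) (nat_lit 5) (nat_lit 12) (nat_lit 5) (nat_lit 11) (nat_lit 4) (nat_lit 303) (nat_lit 223) (nat_lit 194))))) (XT.nd (nat_lit 234) (nat_lit 76) (nat_lit 0) (XT.nd (nat_lit 78) (nat_lit 0) (nat_lit 0) (XT.lf (nat_lit 0) (nat_lit 8752322935) (nat_lit 76) (nat_lit 3098938996) (nat_lit 152) (nat_lit 21101733755) (nat_lit 9) (nat_lit 5) (nat_lit 10) (nat_lit 5) (nat_lit 11) (nat_lit 4) (nat_lit 304) (nat_lit 223) (nat_lit 193)) (XT.nd (nat_lit 78) (nat_lit 0) (nat_lit 0) (XT.lf (nat_lit 0) (nat_lit 17048734827) (nat_lit 152) (nat_lit 15405513148)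 (nat_lit 0) (nat_lit 1975781466) (nat_lit 9) (nat_lit 5) (nat_lit 11) (nat_lit 4) (nat_lit 9) (nat_lit 4) (nat_lit 305) (nat_lit 223) (nat_lit 192)) (XT.lf (nat_lit 0) (nat_lit 22454338844) (nat_lit 152) (nat_lit 6349663559) (nat_lit 0) (nat_lit 7178516158) (nat_lit 9) (nat_lit 5) (nat_lit 11) (nat_lit 4) (nat_lit 9) (nat_lit 4) (nat_lit 306) (nat_lit 223) (nat_lit 191)))) (XT.nd (nat_lit 78) (nat_lit 0) (nat_lit 0) (XT.lf (nat_lit 0) (nat_lit 3078295082) (nat_lit 76) (nat_lit 25002450942) (nat_lit 76) (nat_lit 9533419375) (nat_lit 8) (nat_lit 4) (nat_lit 9) (nat_lit 5) (nat_lit 9) (nat_lit 4) (nat_lit 307) (nat_lit 223) (nat_lit 190)) (XT.nd (nat_lit 78) (nat_lit 0) (nat_lit 0) (XT.lf (nat_lit 0) (nat_lit 12973623528) (nat_lit 76) (nat_lit 21003597636) (nat_lit 76) (nat_lit 5350557612) (nat_lit 8) (nat_lit 4) (nat_lit 9) (nat_lit 5) (nat_lit 9) (nat_lit 4) (nat_lit 308) (nat_lit 223) (nat_lit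 189)) (XT.lf (nat_lit 0) (nat_lit 23233511327) (nat_lit 76) (nat_lit 16862040558) (nat_lit 76) (nat_lit 1033754383) (nat_lit 8) (nat_lit 4) (nat_lit 9) (nat_lit 5) (nat_lit 9) (nat_lit 4) (nat_lit 309) (nat_lit 223) (nat_lit 188)))))) (XT.nd (nat_lit 468) (nat_lit 76) (nat_lit 0) (XT.nd (nat_lit 234) (nat_lit 0) (nat_lit 0) (XT.nd (nat_lit 78) (nat_lit 76) (nat_lit 0) (XT.lf (nat_lit 0) (nat_lit 3360390062) (nat_lit 152) (nat_lit 9173595444) (nat_lit 76) (nat_lit 30488063372) (nat_lit 7) (nat_lit 5) (nat_lit 9) (nat_lit 5) (nat_lit 8) (nat_lit 4) (nat_lit 310) (nat_lit 223) (nat_lit 187)) (XT.nd (nat_lit 78) (nat_lit 76) (nat_lit 0) (XT.lf (nat_lit 0) (nat_lit 7886181780) (nat_lit 152) (nat_lit 145191680) (nat_lit 76) (nat_lit 36979787613) (nat_lit 7) (nat_lit 5) (nat_lit 9) (nat_lit 5) (nat_lit 8) (nat_lit 4) (nat_lit 311) (nat_lit 223) (nat_lit 186)) (XT.lf (nat_lit 0) (nat_lit 9404362616)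 (nat_lit 76) (nat_lit 3260606607) (nat_lit 152) (nat_lit 34433995709) (nat_lit 6) (nat_lit 5) (nat_lit 7) (nat_lit 5) (nat_lit 8) (nat_lit 4) (nat_lit 312) (nat_lit 223) (nat_lit 185)))) (XT.nd (nat_lit 78) (nat_lit 0) (nat_lit 0) (XT.lf (nat_lit 0) (nat_lit 17638822270) (nat_lit 152) (nat_lit 29985448991) (nat_lit 0) (nat_lit 1668239405) (nat_lit 6) (nat_lit 5) (nat_lit 8) (nat_lit 4) (nat_lit 6) (nat_lit 4) (nat_lit 313) (nat_lit 223) (nat_lit 184)) (XT.nd (nat_lit 78) (nat_lit 0) (nat_lit 0) (XT.lf (nat_lit 0) (nat_lit 22835046870) (nat_lit 152) (nat_lit 22030356845) (nat_lit 0) (nat_lit 6731153379) (nat_lit 6) (nat_lit 5) (nat_lit 8) (nat_lit 4) (nat_lit 6) (nat_lit 4) (nat_lit 314) (nat_lit 223) (nat_lit 183)) (XT.lf (nat_lit 0) (nat_lit 28234672042) (nat_lit 152) (nat_lit 13779042239) (nat_lit 0) (nat_lit 12003816051) (nat_lit 6) (nat_lit 5) (nat_lit 8) (nat_lit 4) (nat_lit 6) (nat_lit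 4) (nat_lit 315) (nat_lit 223) (nat_lit 182))))) (XT.nd (nat_lit 234) (nat_lit 0) (nat_lit 0) (XT.nd (nat_lit 78) (nat_lit 76) (nat_lit 0) (XT.lf (nat_lit 0) (nat_lit 33850554038) (nat_lit 152) (nat_lit 5211859185) (nat_lit 0) (nat_lit 17498781379) (nat_lit 6) (nat_lit 5) (nat_lit 8) (nat_lit 4) (nat_lit 6) (nat_lit 4) (nat_lit 316) (nat_lit 223) (nat_lit 181)) (XT.nd (nat_lit 78) (nat_lit 0) (nat_lit 0) (XT.lf (nat_lit 0) (nat_lit 3765060258) (nat_lit 76) (nat_lit 35967195809) (nat_lit 76) (nat_lit 19500264419) (nat_lit 5) (nat_lit 4) (nat_lit 6) (nat_lit 5) (nat_lit 6) (nat_lit 4) (nat_lit 317) (nat_lit 223) (nat_lit 180)) (XT.lf (nat_lit 0) (nat_lit 13210285368) (nat_lit 76) (nat_lit 32701819798) (nat_lit 76) (nat_lit 16125213427) (nat_lit 5) (nat_lit 4) (nat_lit 6) (nat_lit 5) (nat_lit 6) (nat_lit 4) (nat_lit 318) (nat_lit 223) (nat_lit 179)))) (XT.nd (nat_lit 78) (nat_lit 0) (nat_lit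 0) (XT.lf (nat_lit 0) (nat_lit 23042578561) (nat_lit 76) (nat_lit 29311140044) (nat_lit 76) (nat_lit 12630081309) (nat_lit 5) (nat_lit 4) (nat_lit 6) (nat_lit 5) (nat_lit 6) (nat_lit 4) (nat_lit 319) (nat_lit 223) (nat_lit 178)) (XT.nd (nat_lit 78) (nat_lit 0) (nat_lit 0) (XT.lf (nat_lit 0) (nat_lit 33285350056) (nat_lit 76) (nat_lit 25787083500) (nat_lit 76) (nat_lit 9006546324) (nat_lit 5) (nat_lit 4) (nat_lit 6) (nat_lit 5) (nat_lit 6) (nat_lit 4) (nat_lit 320) (nat_lit 223) (nat_lit 177)) (XT.lf (nat_lit 0) (nat_lit 43962987407) (nat_lit 76) (nat_lit 22121259556) (nat_lit 76) (nat_lit 5245981007) (nat_lit 5) (nat_lit 4) (nat_lit 6) (nat_lit 5) (nat_lit 6) (nat_lit 4) (nat_lit 321) (nat_lit 223) (nat_lit 176))))))))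
noncomputable def xc22 : XT := (XT.nd (nat_lit 34320) (nat_lit 0) (nat_lit 532) (XT.nd (nat_lit 858) (nat_lit 0) (nat_lit 0) (XT.nd (nat_lit 390) (nat_lit 0) (nat_lit 0) (XT.nd (nat_lit 156) (nat_lit 76) (nat_lit 0) (XT.nd (nat_lit 78) (nat_lit 76) (nat_lit 0) (XT.lf (nat_lit 0) (nat_lit 55100913558) (nat_lit 76) (nat_lit 18304940059) (nat_lit 76) (nat_lit 1339431631) (nat_lit 5) (nat_lit 4) (nat_lit 6) (nat_lit 5) (nat_lit 6) (nat_lit 4) (nat_lit 322) (nat_lit 223) (nat_lit 175)) (XT.lf (nat_lit 0) (nat_lit 2669279221) (nat_lit 152) (nat_lit 11632804825) (nat_lit 76) (nat_lit 64029413673) (nat_lit 4) (nat_lit 5) (nat_lit 6) (nat_lit 5) (nat_lit 5) (nat_lit 4) (nat_lit 323) (nat_lit 223) (nat_lit 174))) (XT.nd (nat_lit 78) (nat_lit 76) (nat_lit 0) (XT.lf (nat_lit 0) (nat_lit 6813590447) (nat_lit 152) (nat_lit 3301694197) (nat_lit 76) (nat_lit 71982472463) (nat_lit 4) (nat_lit 5) (nat_lit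 6) (nat_lit 5) (nat_lit 5) (nat_lit 4) (nat_lit 324) (nat_lit 223) (nat_lit 173)) (XT.nd (nat_lit 78) (nat_lit 0) (nat_lit 0) (XT.lf (nat_lit 0) (nat_lit 5488777426) (nat_lit 76) (nat_lit 5693490649) (nat_lit 152) (nat_lit 74869566037) (nat_lit 3) (nat_lit 5) (nat_lit 4) (nat_lit 5) (nat_lit 5) (nat_lit 4) (nat_lit 325) (nat_lit 223) (nat_lit 172)) (XT.lf (nat_lit 0) (nat_lit 14725311133) (nat_lit 76) (nat_lit 1043541204) (nat_lit 152) (nat_lit 74434796709) (nat_lit 3) (nat_lit 5) (nat_lit 4) (nat_lit 5) (nat_lit 5) (nat_lit 4) (nat_lit 326) (nat_lit 223) (nat_lit 171))))) (XT.nd (nat_lit 234) (nat_lit 0) (nat_lit 0) (XT.nd (nat_lit 78) (nat_lit 0) (nat_lit 0) (XT.lf (nat_lit 0) (nat_lit 20588540225) (nat_lit 152) (nat_lit 70236515894) (nat_lit 0) (nat_lit 3737902765) (nat_lit 3) (nat_lit 5) (nat_lit 5) (nat_lit 4) (nat_lit 3) (nat_lit 4) (nat_lit 327) (nat_lit 223) (nat_lit 170)) (XT.nd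 (nat_lit 78) (nat_lit 0) (nat_lit 0) (XT.lf (nat_lit 0) (nat_lit 25628195225) (nat_lit 152) (nat_lit 64800498136) (nat_lit 0) (nat_lit 8712187935) (nat_lit 3) (nat_lit 5) (nat_lit 5) (nat_lit 4) (nat_lit 3) (nat_lit 4) (nat_lit 328) (nat_lit 223) (nat_lit 169)) (XT.lf (nat_lit 0) (nat_lit 30889785358) (nat_lit 152) (nat_lit 59147310585) (nat_lit 0) (nat_lit 13911521088) (nat_lit 3) (nat_lit 5) (nat_lit 5) (nat_lit 4) (nat_lit 3) (nat_lit 4) (nat_lit 329) (nat_lit 223) (nat_lit 168)))) (XT.nd (nat_lit 78) (nat_lit 0) (nat_lit 0) (XT.lf (nat_lit 0) (nat_lit 36385838221) (nat_lit 152) (nat_lit 53263493270) (nat_lit 0) (nat_lit 19348281588) (nat_lit 3) (nat_lit 5) (nat_lit 5) (nat_lit 4) (nat_lit 3) (nat_lit 4) (nat_lit 330) (nat_lit 223) (nat_lit 167)) (XT.nd (nat_lit 78) (nat_lit 0) (nat_lit 0) (XT.lf (nat_lit 0) (nat_lit 42129439654) (nat_lit 152) (nat_lit 47135037102) (nat_lit 0) (nat_lit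 25035414103) (nat_lit 3) (nat_lit 5) (nat_lit 5) (nat_lit 4) (nat_lit 3) (nat_lit 4) (nat_lit 331) (nat_lit 223) (nat_lit 166)) (XT.lf (nat_lit 0) (nat_lit 48134264897) (nat_lit 152) (nat_lit 40747350520) (nat_lit 0) (nat_lit 30986459426) (nat_lit 3) (nat_lit 5) (nat_lit 5) (nat_lit 4) (nat_lit 3) (nat_lit 4) (nat_lit 332) (nat_lit 223) (nat_lit 165)))))) (XT.nd (nat_lit 32994) (nat_lit 0) (nat_lit 2584) (XT.nd (nat_lit 32760) (nat_lit 0) (nat_lit 4028) (XT.nd (nat_lit 156) (nat_lit 0) (nat_lit 0) (XT.lf (nat_lit 0) (nat_lit 54414611155) (nat_lit 152) (nat_lit 34085224744) (nat_lit 0) (nat_lit 37215586711) (nat_lit 3) (nat_lit 5) (nat_lit 5) (nat_lit 4) (nat_lit 3) (nat_lit 4) (nat_lit 333) (nat_lit 223) (nat_lit 164)) (XT.lf (nat_lit 0) (nat_lit 67862371138) (nat_lit 152) (nat_lit 19873515605) (nat_lit 0) (nat_lit 50568109604) (nat_lit 3) (nat_lit 5) (nat_lit 5) (nat_lit 4) (nat_lit 3)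 (nat_lit 4) (nat_lit 335) (nat_lit 223) (nat_lit 162))) (XT.nd (nat_lit 78) (nat_lit 608) (nat_lit 0) (XT.lf (nat_lit 0) (nat_lit 4505941221) (nat_lit 304) (nat_lit 293188462) (nat_lit 304) (nat_lit 293188462) (nat_lit 64) (nat_lit 4) (nat_lit 68) (nat_lit 5) (nat_lit 68) (nat_lit 4) (nat_lit 272) (nat_lit 224) (nat_lit 224)) (XT.nd (nat_lit 78) (nat_lit 304) (nat_lit 0) (XT.lf (nat_lit 0) (nat_lit 5353627437) (nat_lit 304) (nat_lit 1056305372) (nat_lit 0) (nat_lit 4054516613) (nat_lit 60) (nat_lit 5) (nat_lit 64) (nat_lit 4) (nat_lit 60) (nat_lit 4) (nat_lit 273) (nat_lit 224) (nat_lit 223)) (XT.lf (nat_lit 0) (nat_lit 682470835) (nat_lit 304) (nat_lit 1150943433) (nat_lit 76) (nat_lit 8928390894) (nat_lit 56) (nat_lit 5) (nat_lit 60) (nat_lit 5) (nat_lit 57) (nat_lit 4) (nat_lit 274) (nat_lit 224) (nat_lit 222))))) (XT.nd (nat_lit 234) (nat_lit 684) (nat_lit 0) (XT.nd (nat_lit 78) (nat_lit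 532) (nat_lit 0) (XT.lf (nat_lit 0) (nat_lit 6566763780) (nat_lit 304) (nat_lit 1548558025) (nat_lit 0) (nat_lit 2960267622) (nat_lit 53) (nat_lit 5) (nat_lit 57) (nat_lit 4) (nat_lit 53) (nat_lit 4) (nat_lit 275) (nat_lit 224) (nat_lit 221)) (XT.nd (nat_lit 78) (nat_lit 228) (nat_lit 0) (XT.lf (nat_lit 0) (nat_lit 1212281731) (nat_lit 304) (nat_lit 2235098976) (nat_lit 76) (nat_lit 7960616962) (nat_lit 49) (nat_lit 5) (nat_lit 53) (nat_lit 5) (nat_lit 50) (nat_lit 4) (nat_lit 276) (nat_lit 224) (nat_lit 220)) (XT.lf (nat_lit 0) (nat_lit 7024838799) (nat_lit 304) (nat_lit 3275987949) (nat_lit 0) (nat_lit 1458156259) (nat_lit 46) (nat_lit 5) (nat_lit 50) (nat_lit 4) (nat_lit 46) (nat_lit 4) (nat_lit 277) (nat_lit 224) (nat_lit 219)))) (XT.nd (nat_lit 78) (nat_lit 380) (nat_lit 0) (XT.lf (nat_lit 0) (nat_lit 901293809) (nat_lit 304) (nat_lit 4696512535) (nat_lit 76) (nat_lit 6532049426) (nat_lit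 42) (nat_lit 5) (nat_lit 46) (nat_lit 5) (nat_lit 43) (nat_lit 4) (nat_lit 278) (nat_lit 224) (nat_lit 218)) (XT.nd (nat_lit 78) (nat_lit 228) (nat_lit 0) (XT.lf (nat_lit 0) (nat_lit 5977254465) (nat_lit 152) (nat_lit 632184677) (nat_lit 228) (nat_lit 5911986283) (nat_lit 40) (nat_lit 5) (nat_lit 42) (nat_lit 5) (nat_lit 43) (nat_lit 4) (nat_lit 279) (nat_lit 224) (nat_lit 217)) (XT.lf (nat_lit 0) (nat_lit 4071179824) (nat_lit 228) (nat_lit 8465852645) (nat_lit 228) (nat_lit 397733948) (nat_lit 37) (nat_lit 4) (nat_lit 40) (nat_lit 5) (nat_lit 40) (nat_lit 4) (nat_lit 280) (nat_lit 224) (nat_lit 216))))))) (XT.nd (nat_lit 858) (nat_lit 760) (nat_lit 0) (XT.nd (nat_lit 390) (nat_lit 532) (nat_lit 0) (XT.nd (nat_lit 156) (nat_lit 532) (nat_lit 0) (XT.nd (nat_lit 78) (nat_lit 0) (nat_lit 0) (XT.lf (nat_lit 0) (nat_lit 1650137449) (nat_lit 152) (nat_lit 3533572133) (nat_lit 228) (nat_lit 8186806803)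 (nat_lit 34) (nat_lit 5) (nat_lit 36) (nat_lit 5) (nat_lit 37) (nat_lit 4) (nat_lit 281) (nat_lit 224) (nat_lit 215)) (XT.lf (nat_lit 0) (nat_lit 10955682079) (nat_lit 228) (nat_lit 1277567155) (nat_lit 0) (nat_lit 1597284519) (nat_lit 34) (nat_lit 5) (nat_lit 37) (nat_lit 4) (nat_lit 34) (nat_lit 4) (nat_lit 282) (nat_lit 224) (nat_lit 214))) (XT.nd (nat_lit 78) (nat_lit 304) (nat_lit 0) (XT.lf (nat_lit 0) (nat_lit 2597314755) (nat_lit 228) (nat_lit 4794453768) (nat_lit 76) (nat_lit 6922757788) (nat_lit 31) (nat_lit 5) (nat_lit 34) (nat_lit 5) (nat_lit 32) (nat_lit 4) (nat_lit 283) (nat_lit 224) (nat_lit 213)) (XT.nd (nat_lit 78) (nat_lit 152) (nat_lit 0) (XT.lf (nat_lit 0) (nat_lit 5860175320) (nat_lit 152) (nat_lit 2318169557) (nat_lit 228) (nat_lit 6646844362) (nat_lit 29) (nat_lit 5) (nat_lit 31) (nat_lit 5) (nat_lit 32) (nat_lit 4) (nat_lit 284) (nat_lit 224) (nat_lit 212)) (XT.lf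 (nat_lit 0) (nat_lit 1504795391) (nat_lit 152) (nat_lit 12456038176) (nat_lit 152) (nat_lit 1403037639) (nat_lit 27) (nat_lit 4) (nat_lit 29) (nat_lit 5) (nat_lit 29) (nat_lit 4) (nat_lit 285) (nat_lit 224) (nat_lit 211))))) (XT.nd (nat_lit 234) (nat_lit 152) (nat_lit 0) (XT.nd (nat_lit 78) (nat_lit 304) (nat_lit 0) (XT.lf (nat_lit 0) (nat_lit 3972375536) (nat_lit 228) (nat_lit 3583369247) (nat_lit 76) (nat_lit 8374221084) (nat_lit 26) (nat_lit 5) (nat_lit 29) (nat_lit 5) (nat_lit 27) (nat_lit 4) (nat_lit 286) (nat_lit 224) (nat_lit 210)) (XT.nd (nat_lit 78) (nat_lit 152) (nat_lit 0) (XT.lf (nat_lit 0) (nat_lit 7064737602) (nat_lit 152) (nat_lit 2431824301) (nat_lit 228) (nat_lit 7030255259) (nat_lit 24) (nat_lit 5) (nat_lit 26) (nat_lit 5) (nat_lit 27) (nat_lit 4) (nat_lit 287) (nat_lit 224) (nat_lit 209)) (XT.lf (nat_lit 0) (nat_lit 895246864) (nat_lit 152) (nat_lit 14320859001) (nat_lit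 152) (nat_lit 1939963307) (nat_lit 22) (nat_lit 4) (nat_lit 24) (nat_lit 5) (nat_lit 24) (nat_lit 4) (nat_lit 288) (nat_lit 224) (nat_lit 208)))) (XT.nd (nat_lit 78) (nat_lit 76) (nat_lit 0) (XT.lf (nat_lit 0) (nat_lit 3309598713) (nat_lit 228) (nat_lit 6160828707) (nat_lit 76) (nat_lit 8346361201) (nat_lit 21) (nat_lit 5) (nat_lit 24) (nat_lit 5) (nat_lit 22) (nat_lit 4) (nat_lit 289) (nat_lit 224) (nat_lit 207)) (XT.nd (nat_lit 78) (nat_lit 0) (nat_lit 0) (XT.lf (nat_lit 0) (nat_lit 4263108408) (nat_lit 76) (nat_lit 4415269273) (nat_lit 152) (nat_lit 9834801091) (nat_lit 20) (nat_lit 5) (nat_lit 21) (nat_lit 5) (nat_lit 22) (nat_lit 4) (nat_lit 290) (nat_lit 224) (nat_lit 206)) (XT.lf (nat_lit 0) (nat_lit 14247388643) (nat_lit 152) (nat_lit 4155728245) (nat_lit 0) (nat_lit 843428963) (nat_lit 20) (nat_lit 5) (nat_lit 22) (nat_lit 4) (nat_lit 20) (nat_lit 4) (nat_lit 291) (nat_lit 224)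 (nat_lit 205)))))) (XT.nd (nat_lit 390) (nat_lit 304) (nat_lit 0) (XT.nd (nat_lit 156) (nat_lit 228) (nat_lit 0) (XT.nd (nat_lit 78) (nat_lit 0) (nat_lit 0) (XT.lf (nat_lit 0) (nat_lit 47267370) (nat_lit 228) (nat_lit 13726019107) (nat_lit 76) (nat_lit 6244259287) (nat_lit 17) (nat_lit 5) (nat_lit 20) (nat_lit 5) (nat_lit 18) (nat_lit 4) (nat_lit 292) (nat_lit 224) (nat_lit 204)) (XT.lf (nat_lit 0) (nat_lit 5155516742) (nat_lit 228) (nat_lit 3754379728) (nat_lit 76) (nat_lit 11918425420) (nat_lit 17) (nat_lit 5) (nat_lit 20) (nat_lit 5) (nat_lit 18) (nat_lit 4) (nat_lit 293) (nat_lit 224) (nat_lit 203))) (XT.nd (nat_lit 78) (nat_lit 152) (nat_lit 0) (XT.lf (nat_lit 0) (nat_lit 6630295927) (nat_lit 76) (nat_lit 3827597679) (nat_lit 152) (nat_lit 11223675035) (nat_lit 16) (nat_lit 5) (nat_lit 17) (nat_lit 5) (nat_lit 18) (nat_lit 4) (nat_lit 294) (nat_lit 224) (nat_lit 202)) (XT.nd (nat_lit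 78) (nat_lit 152) (nat_lit 0) (XT.lf (nat_lit 0) (nat_lit 15957007783) (nat_lit 152) (nat_lit 5190187618) (nat_lit 0) (nat_lit 1432422599) (nat_lit 16) (nat_lit 5) (nat_lit 18) (nat_lit 4) (nat_lit 16) (nat_lit 4) (nat_lit 295) (nat_lit 224) (nat_lit 201)) (XT.lf (nat_lit 0) (nat_lit 5021745611) (nat_lit 152) (nat_lit 16680126663) (nat_lit 152) (nat_lit 1821658311) (nat_lit 14) (nat_lit 4) (nat_lit 16) (nat_lit 5) (nat_lit 16) (nat_lit 4) (nat_lit 296) (nat_lit 224) (nat_lit 200))))) (XT.nd (nat_lit 234) (nat_lit 152) (nat_lit 0) (XT.nd (nat_lit 78) (nat_lit 76) (nat_lit 0) (XT.lf (nat_lit 0) (nat_lit 3096821827) (nat_lit 228) (nat_lit 8889904012) (nat_lit 76) (nat_lit 12528853747) (nat_lit 13) (nat_lit 5) (nat_lit 16) (nat_lit 5) (nat_lit 14) (nat_lit 4) (nat_lit 297) (nat_lit 224) (nat_lit 199)) (XT.nd (nat_lit 78) (nat_lit 0) (nat_lit 0) (XT.lf (nat_lit 0) (nat_lit 1015303500) (nat_lit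 76) (nat_lit 7110114084) (nat_lit 152) (nat_lit 17434290873) (nat_lit 12) (nat_lit 5) (nat_lit 13) (nat_lit 5) (nat_lit 14) (nat_lit 4) (nat_lit 298) (nat_lit 224) (nat_lit 198)) (XT.lf (nat_lit 0) (nat_lit 11418259805) (nat_lit 76) (nat_lit 1973846025) (nat_lit 152) (nat_lit 13264409010) (nat_lit 12) (nat_lit 5) (nat_lit 13) (nat_lit 5) (nat_lit 14) (nat_lit 4) (nat_lit 299) (nat_lit 224) (nat_lit 197)))) (XT.nd (nat_lit 78) (nat_lit 152) (nat_lit 0) (XT.lf (nat_lit 0) (nat_lit 18854420110) (nat_lit 152) (nat_lit 5676567268) (nat_lit 0) (nat_lit 3279272985) (nat_lit 12) (nat_lit 5) (nat_lit 14) (nat_lit 4) (nat_lit 12) (nat_lit 4) (nat_lit 300) (nat_lit 224) (nat_lit 196)) (XT.nd (nat_lit 78) (nat_lit 76) (nat_lit 0) (XT.lf (nat_lit 0) (nat_lit 4257891205) (nat_lit 76) (nat_lit 20297024041) (nat_lit 76) (nat_lit 4467890315) (nat_lit 11) (nat_lit 4) (nat_lit 12) (nat_lit 5) (nat_lit 12)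 (nat_lit 4) (nat_lit 301) (nat_lit 224) (nat_lit 195)) (XT.lf (nat_lit 0) (nat_lit 204923174) (nat_lit 152) (nat_lit 15655031681) (nat_lit 76) (nat_lit 14437055083) (nat_lit 10) (nat_lit 5) (nat_lit 12) (nat_lit 5) (nat_lit 11) (nat_lit 4) (nat_lit 302) (nat_lit 224) (nat_lit 194))))))))
noncomputable def xc23 : XT := (XT.nd (nat_lit 1716) (nat_lit 76) (nat_lit 0) (XT.nd (nat_lit 858) (nat_lit 152) (nat_lit 0) (XT.nd (nat_lit 390) (nat_lit 228) (nat_lit 0) (XT.nd (nat_lit 156) (nat_lit 0) (nat_lit 0) (XT.nd (nat_lit 78) (nat_lit 76) (nat_lit 0) (XT.lf (nat_lit 0) (nat_lit 4930521549) (nat_lit 152) (nat_lit 6292440315) (nat_lit 76) (nat_lit 20413345832) (nat_lit 10) (nat_lit 5) (nat_lit 12) (nat_lit 5) (nat_lit 11) (nat_lit 4) (nat_lit 303) (nat_lit 224) (nat_lit 193)) (XT.lf (nat_lit 0) (nat_lit 3455529546) (nat_lit 76) (nat_lit 6385027981) (nat_lit 152) (nat_lit 23203622055) (nat_lit 9)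 (nat_lit 5) (nat_lit 10) (nat_lit 5) (nat_lit 11) (nat_lit 4) (nat_lit 304) (nat_lit 224) (nat_lit 192))) (XT.nd (nat_lit 78) (nat_lit 0) (nat_lit 0) (XT.lf (nat_lit 0) (nat_lit 13676515402) (nat_lit 76) (nat_lit 1301944224) (nat_lit 152) (nat_lit 19544565908) (nat_lit 9) (nat_lit 5) (nat_lit 10) (nat_lit 5) (nat_lit 11) (nat_lit 4) (nat_lit 305) (nat_lit 224) (nat_lit 191)) (XT.nd (nat_lit 78) (nat_lit 0) (nat_lit 0) (XT.lf (nat_lit 0) (nat_lit 20332979050) (nat_lit 152) (nat_lit 11846804996) (nat_lit 0) (nat_lit 3897287024) (nat_lit 9) (nat_lit 5) (nat_lit 11) (nat_lit 4) (nat_lit 9) (nat_lit 4) (nat_lit 306) (nat_lit 224) (nat_lit 190)) (XT.lf (nat_lit 0) (nat_lit 25893062911) (nat_lit 152) (nat_lit 2544305014) (nat_lit 0) (nat_lit 9273362427) (nat_lit 9) (nat_lit 5) (nat_lit 11) (nat_lit 4) (nat_lit 9) (nat_lit 4) (nat_lit 307) (nat_lit 224) (nat_lit 189))))) (XT.nd (nat_lit 234) (nat_lit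 76) (nat_lit 0) (XT.nd (nat_lit 78) (nat_lit 76) (nat_lit 0) (XT.lf (nat_lit 0) (nat_lit 7236871129) (nat_lit 76) (nat_lit 24492128523) (nat_lit 76) (nat_lit 7697181888) (nat_lit 8) (nat_lit 4) (nat_lit 9) (nat_lit 5) (nat_lit 9) (nat_lit 4) (nat_lit 308) (nat_lit 224) (nat_lit 188)) (XT.nd (nat_lit 78) (nat_lit 76) (nat_lit 0) (XT.lf (nat_lit 0) (nat_lit 17436267840) (nat_lit 76) (nat_lit 20377163265) (nat_lit 76) (nat_lit 3415315534) (nat_lit 8) (nat_lit 4) (nat_lit 9) (nat_lit 5) (nat_lit 9) (nat_lit 4) (nat_lit 309) (nat_lit 224) (nat_lit 187)) (XT.lf (nat_lit 0) (nat_lit 992677813) (nat_lit 152) (nat_lit 15105665194) (nat_lit 76) (nat_lit 27024830824) (nat_lit 7) (nat_lit 5) (nat_lit 9) (nat_lit 5) (nat_lit 8) (nat_lit 4) (nat_lit 310) (nat_lit 224) (nat_lit 186)))) (XT.nd (nat_lit 78) (nat_lit 76) (nat_lit 0) (XT.lf (nat_lit 0) (nat_lit 5487399118) (nat_lit 152) (nat_lit 6132765158)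 (nat_lit 76) (nat_lit 33493072028) (nat_lit 7) (nat_lit 5) (nat_lit 9) (nat_lit 5) (nat_lit 8) (nat_lit 4) (nat_lit 311) (nat_lit 224) (nat_lit 185)) (XT.nd (nat_lit 78) (nat_lit 0) (nat_lit 0) (XT.lf (nat_lit 0) (nat_lit 3243711961) (nat_lit 76) (nat_lit 6933663788) (nat_lit 152) (nat_lit 37026346040) (nat_lit 6) (nat_lit 5) (nat_lit 7) (nat_lit 5) (nat_lit 8) (nat_lit 4) (nat_lit 312) (nat_lit 224) (nat_lit 184)) (XT.lf (nat_lit 0) (nat_lit 13111911514) (nat_lit 76) (nat_lit 1994286647) (nat_lit 152) (nat_lit 34292436755) (nat_lit 6) (nat_lit 5) (nat_lit 7) (nat_lit 5) (nat_lit 8) (nat_lit 4) (nat_lit 313) (nat_lit 224) (nat_lit 183)))))) (XT.nd (nat_lit 390) (nat_lit 76) (nat_lit 0) (XT.nd (nat_lit 156) (nat_lit 76) (nat_lit 0) (XT.nd (nat_lit 78) (nat_lit 0) (nat_lit 0) (XT.lf (nat_lit 0) (nat_lit 20255735065) (nat_lit 152) (nat_lit 28361988830) (nat_lit 0) (nat_lit 3086373773) (nat_lit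 6) (nat_lit 5) (nat_lit 8) (nat_lit 4) (nat_lit 6) (nat_lit 4) (nat_lit 314) (nat_lit 224) (nat_lit 182)) (XT.lf (nat_lit 0) (nat_lit 25629153196) (nat_lit 152) (nat_lit 20157843630) (nat_lit 0) (nat_lit 8338875236) (nat_lit 6) (nat_lit 5) (nat_lit 8) (nat_lit 4) (nat_lit 6) (nat_lit 4) (nat_lit 315) (nat_lit 224) (nat_lit 181))) (XT.nd (nat_lit 78) (nat_lit 76) (nat_lit 0) (XT.lf (nat_lit 0) (nat_lit 31220076104) (nat_lit 152) (nat_lit 11635583820) (nat_lit 0) (nat_lit 13814639414) (nat_lit 6) (nat_lit 5) (nat_lit 8) (nat_lit 4) (nat_lit 6) (nat_lit 4) (nat_lit 316) (nat_lit 224) (nat_lit 180)) (XT.nd (nat_lit 78) (nat_lit 76) (nat_lit 0) (XT.lf (nat_lit 0) (nat_lit 37041815511) (nat_lit 152) (nat_lit 2774918305) (nat_lit 0) (nat_lit 19526703839) (nat_lit 6) (nat_lit 5) (nat_lit 8) (nat_lit 4) (nat_lit 6) (nat_lit 4) (nat_lit 317) (nat_lit 224) (nat_lit 179)) (XT.lf (nat_lit 0) (nat_lit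 6573522843) (nat_lit 76) (nat_lit 36597898580) (nat_lit 76) (nat_lit 18978334545) (nat_lit 5) (nat_lit 4) (nat_lit 6) (nat_lit 5) (nat_lit 6) (nat_lit 4) (nat_lit 318) (nat_lit 224) (nat_lit 178))))) (XT.nd (nat_lit 234) (nat_lit 76) (nat_lit 0) (XT.nd (nat_lit 78) (nat_lit 0) (nat_lit 0) (XT.lf (nat_lit 0) (nat_lit 16366237325) (nat_lit 76) (nat_lit 33224856484) (nat_lit 76) (nat_lit 15505814007) (nat_lit 5) (nat_lit 4) (nat_lit 6) (nat_lit 5) (nat_lit 6) (nat_lit 4) (nat_lit 319) (nat_lit 224) (nat_lit 177)) (XT.nd (nat_lit 78) (nat_lit 0) (nat_lit 0) (XT.lf (nat_lit 0) (nat_lit 26571314811) (nat_lit 76) (nat_lit 29717597709) (nat_lit 76) (nat_lit 11903813859) (nat_lit 5) (nat_lit 4) (nat_lit 6) (nat_lit 5) (nat_lit 6) (nat_lit 4) (nat_lit 320) (nat_lit 224) (nat_lit 176)) (XT.lf (nat_lit 0) (nat_lit 37213053104) (nat_lit 76) (nat_lit 26067771640) (nat_lit 76) (nat_lit 8163757911) (nat_lit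 5) (nat_lit 4) (nat_lit 6) (nat_lit 5) (nat_lit 6) (nat_lit 4) (nat_lit 321) (nat_lit 224) (nat_lit 175)))) (XT.nd (nat_lit 78) (nat_lit 76) (nat_lit 0) (XT.lf (nat_lit 0) (nat_lit 48316789677) (nat_lit 76) (nat_lit 22266688214) (nat_lit 76) (nat_lit 4276741268) (nat_lit 5) (nat_lit 4) (nat_lit 6) (nat_lit 5) (nat_lit 6) (nat_lit 4) (nat_lit 322) (nat_lit 224) (nat_lit 174)) (XT.nd (nat_lit 78) (nat_lit 76) (nat_lit 0) (XT.lf (nat_lit 0) (nat_lit 59908961998) (nat_lit 76) (nat_lit 18305297233) (nat_lit 76) (nat_lit 233509127) (nat_lit 5) (nat_lit 4) (nat_lit 6) (nat_lit 5) (nat_lit 6) (nat_lit 4) (nat_lit 323) (nat_lit 224) (nat_lit 173)) (XT.lf (nat_lit 0) (nat_lit 3897987656) (nat_lit 152) (nat_lit 10236817126) (nat_lit 76) (nat_lit 68079820787) (nat_lit 4) (nat_lit 5) (nat_lit 6) (nat_lit 5) (nat_lit 5) (nat_lit 4) (nat_lit 324) (nat_lit 224) (nat_lit 172))))))) (XT.nd (nat_lit 33384)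 (nat_lit 0) (nat_lit 2128) (XT.nd (nat_lit 390) (nat_lit 0) (nat_lit 0) (XT.nd (nat_lit 156) (nat_lit 0) (nat_lit 0) (XT.nd (nat_lit 78) (nat_lit 76) (nat_lit 0) (XT.lf (nat_lit 0) (nat_lit 8197359944) (nat_lit 152) (nat_lit 1583323725) (nat_lit 76) (nat_lit 76390106973) (nat_lit 4) (nat_lit 5) (nat_lit 6) (nat_lit 5) (nat_lit 5) (nat_lit 4) (nat_lit 325) (nat_lit 224) (nat_lit 171)) (XT.lf (nat_lit 0) (nat_lit 7592682615) (nat_lit 76) (nat_lit 5159703837) (nat_lit 152) (nat_lit 77571174339) (nat_lit 3) (nat_lit 5) (nat_lit 4) (nat_lit 5) (nat_lit 5) (nat_lit 4) (nat_lit 326) (nat_lit 224) (nat_lit 170))) (XT.nd (nat_lit 78) (nat_lit 0) (nat_lit 0) (XT.lf (nat_lit 0) (nat_lit 17203925563) (nat_lit 76) (nat_lit 316231270) (nat_lit 152) (nat_lit 77164279402) (nat_lit 3) (nat_lit 5) (nat_lit 4) (nat_lit 5) (nat_lit 5) (nat_lit 4) (nat_lit 327) (nat_lit 224) (nat_lit 169)) (XT.nd (nat_lit 78)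 (nat_lit 0) (nat_lit 0) (XT.lf (nat_lit 0) (nat_lit 22542114650) (nat_lit 152) (nat_lit 72068102421) (nat_lit 0) (nat_lit 4652680185) (nat_lit 3) (nat_lit 5) (nat_lit 5) (nat_lit 4) (nat_lit 3) (nat_lit 4) (nat_lit 328) (nat_lit 224) (nat_lit 168)) (XT.lf (nat_lit 0) (nat_lit 27789745380) (nat_lit 152) (nat_lit 66440295169) (nat_lit 0) (nat_lit 9841018553) (nat_lit 3) (nat_lit 5) (nat_lit 5) (nat_lit 4) (nat_lit 3) (nat_lit 4) (nat_lit 329) (nat_lit 224) (nat_lit 167))))) (XT.nd (nat_lit 234) (nat_lit 0) (nat_lit 0) (XT.nd (nat_lit 78) (nat_lit 0) (nat_lit 0) (XT.lf (nat_lit 0) (nat_lit 33272503573) (nat_lit 152) (nat_lit 60580649568) (nat_lit 0) (nat_lit 15267307829) (nat_lit 3) (nat_lit 5) (nat_lit 5) (nat_lit 4) (nat_lit 3) (nat_lit 4) (nat_lit 330) (nat_lit 224) (nat_lit 166)) (XT.nd (nat_lit 78) (nat_lit 0) (nat_lit 0) (XT.lf (nat_lit 0) (nat_lit 39003443415) (nat_lit 152) (nat_lit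 54475214080) (nat_lit 0) (nat_lit 20944467750) (nat_lit 3) (nat_lit 5) (nat_lit 5) (nat_lit 4) (nat_lit 3) (nat_lit 4) (nat_lit 331) (nat_lit 224) (nat_lit 165)) (XT.lf (nat_lit 0) (nat_lit 44996210001) (nat_lit 152) (nat_lit 48109451954) (nat_lit 0) (nat_lit 26886015363) (nat_lit 3) (nat_lit 5) (nat_lit 5) (nat_lit 4) (nat_lit 3) (nat_lit 4) (nat_lit 332) (nat_lit 224) (nat_lit 164)))) (XT.nd (nat_lit 32604) (nat_lit 0) (nat_lit 4940) (XT.lf (nat_lit 0) (nat_lit 51265071823) (nat_lit 152) (nat_lit 41468206613) (nat_lit 0) (nat_lit 33106097211) (nat_lit 3) (nat_lit 5) (nat_lit 5) (nat_lit 4) (nat_lit 3) (nat_lit 4) (nat_lit 333) (nat_lit 224) (nat_lit 163)) (XT.nd (nat_lit 78) (nat_lit 380) (nat_lit 0) (XT.lf (nat_lit 0) (nat_lit 3881171671) (nat_lit 304) (nat_lit 476180612) (nat_lit 304) (nat_lit 476180612) (nat_lit 73) (nat_lit 4) (nat_lit 77) (nat_lit 5) (nat_lit 77) (nat_lit 4) (nat_lit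 270) (nat_lit 225) (nat_lit 225)) (XT.lf (nat_lit 0) (nat_lit 4890586782) (nat_lit 380) (nat_lit 1543367209) (nat_lit 0) (nat_lit 3485598426) (nat_lit 68) (nat_lit 5) (nat_lit 73) (nat_lit 4) (nat_lit 68) (nat_lit 4) (nat_lit 271) (nat_lit 225) (nat_lit 224)))))) (XT.nd (nat_lit 468) (nat_lit 1140) (nat_lit 0) (XT.nd (nat_lit 234) (nat_lit 760) (nat_lit 0) (XT.nd (nat_lit 78) (nat_lit 532) (nat_lit 0) (XT.lf (nat_lit 0) (nat_lit 686438983) (nat_lit 380) (nat_lit 1349601369) (nat_lit 76) (nat_lit 8152006387) (nat_lit 63) (nat_lit 5) (nat_lit 68) (nat_lit 5) (nat_lit 64) (nat_lit 4) (nat_lit 272) (nat_lit 225) (nat_lit 223)) (XT.nd (nat_lit 78) (nat_lit 304) (nat_lit 0) (XT.lf (nat_lit 0) (nat_lit 6486573290) (nat_lit 304) (nat_lit 1398975535) (nat_lit 0) (nat_lit 2586147695) (nat_lit 60) (nat_lit 5) (nat_lit 64) (nat_lit 4) (nat_lit 60) (nat_lit 4) (nat_lit 273) (nat_lit 225) (nat_lit 222))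 (XT.lf (nat_lit 0) (nat_lit 1672655221) (nat_lit 304) (nat_lit 1683267308) (nat_lit 76) (nat_lit 7416352936) (nat_lit 56) (nat_lit 5) (nat_lit 60) (nat_lit 5) (nat_lit 57) (nat_lit 4) (nat_lit 274) (nat_lit 225) (nat_lit 221)))) (XT.nd (nat_lit 78) (nat_lit 532) (nat_lit 0) (XT.lf (nat_lit 0) (nat_lit 7430080317) (nat_lit 304) (nat_lit 2250206961) (nat_lit 0) (nat_lit 1409713150) (nat_lit 53) (nat_lit 5) (nat_lit 57) (nat_lit 4) (nat_lit 53) (nat_lit 4) (nat_lit 275) (nat_lit 225) (nat_lit 220)) (XT.nd (nat_lit 78) (nat_lit 228) (nat_lit 0) (XT.lf (nat_lit 0) (nat_lit 1933137054) (nat_lit 304) (nat_lit 3133751073) (nat_lit 76) (nat_lit 6358744799) (nat_lit 49) (nat_lit 5) (nat_lit 53) (nat_lit 5) (nat_lit 50) (nat_lit 4) (nat_lit 276) (nat_lit 225) (nat_lit 219)) (XT.lf (nat_lit 0) (nat_lit 7425448842) (nat_lit 228) (nat_lit 196082319) (nat_lit 304) (nat_lit 4158930578) (nat_lit 46) (nat_lit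 5) (nat_lit 49) (nat_lit 5) (nat_lit 50) (nat_lit 4) (nat_lit 277) (nat_lit 225) (nat_lit 218))))) (XT.nd (nat_lit 234) (nat_lit 456) (nat_lit 0) (XT.nd (nat_lit 78) (nat_lit 380) (nat_lit 0) (XT.lf (nat_lit 0) (nat_lit 1353407501) (nat_lit 304) (nat_lit 5978253142) (nat_lit 76) (nat_lit 4822973891) (nat_lit 42) (nat_lit 5) (nat_lit 46) (nat_lit 5) (nat_lit 43) (nat_lit 4) (nat_lit 278) (nat_lit 225) (nat_lit 217)) (XT.nd (nat_lit 78) (nat_lit 228) (nat_lit 0) (XT.lf (nat_lit 0) (nat_lit 4518568544) (nat_lit 152) (nat_lit 2434384252) (nat_lit 228) (nat_lit 5596613821) (nat_lit 40) (nat_lit 5) (nat_lit 42) (nat_lit 5) (nat_lit 43) (nat_lit 4) (nat_lit 279) (nat_lit 225) (nat_lit 216)) (XT.lf (nat_lit 0) (nat_lit 2422952710) (nat_lit 228) (nat_lit 10332457693) (nat_lit 228) (nat_lit 211350732) (nat_lit 37) (nat_lit 4) (nat_lit 40) (nat_lit 5) (nat_lit 40) (nat_lit 4) (nat_lit 280) (nat_lit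 225) (nat_lit 215)))) (XT.nd (nat_lit 78) (nat_lit 380) (nat_lit 0) (XT.lf (nat_lit 0) (nat_lit 5260662903) (nat_lit 304) (nat_lit 208317750) (nat_lit 76) (nat_lit 7936742447) (nat_lit 36) (nat_lit 5) (nat_lit 40) (nat_lit 5) (nat_lit 37) (nat_lit 4) (nat_lit 281) (nat_lit 225) (nat_lit 214)) (XT.nd (nat_lit 78) (nat_lit 228) (nat_lit 0) (XT.lf (nat_lit 0) (nat_lit 10566387952) (nat_lit 152) (nat_lit 361550330) (nat_lit 228) (nat_lit 2941030681) (nat_lit 34) (nat_lit 5) (nat_lit 36) (nat_lit 5) (nat_lit 37) (nat_lit 4) (nat_lit 282) (nat_lit 225) (nat_lit 213)) (XT.lf (nat_lit 0) (nat_lit 2423314634) (nat_lit 228) (nat_lit 7034491372) (nat_lit 76) (nat_lit 4898528955) (nat_lit 31) (nat_lit 5) (nat_lit 34) (nat_lit 5) (nat_lit 32) (nat_lit 4) (nat_lit 283) (nat_lit 225) (nat_lit 212))))))))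
noncomputable def xc24 : XT := (XT.nd (nat_lit 1716) (nat_lit 456) (nat_lit 0) (XT.nd (nat_lit 858) (nat_lit 532) (nat_lit 0) (XT.nd (nat_lit 390) (nat_lit 608) (nat_lit 0) (XT.nd (nat_lit 156) (nat_lit 380) (nat_lit 0) (XT.nd (nat_lit 78) (nat_lit 0) (nat_lit 0) (XT.lf (nat_lit 0) (nat_lit 3439570268) (nat_lit 152) (nat_lit 4459994322) (nat_lit 228) (nat_lit 6970653828) (nat_lit 29) (nat_lit 5) (nat_lit 31) (nat_lit 5) (nat_lit 32) (nat_lit 4) (nat_lit 284) (nat_lit 225) (nat_lit 211)) (XT.lf (nat_lit 0) (nat_lit 13567637746) (nat_lit 228) (nat_lit 1101078026) (nat_lit 0) (nat_lit 743690530) (nat_lit 29) (nat_lit 5) (nat_lit 32) (nat_lit 4) (nat_lit 29) (nat_lit 4) (nat_lit 285) (nat_lit 225) (nat_lit 210))) (XT.nd (nat_lit 78) (nat_lit 152) (nat_lit 0) (XT.lf (nat_lit 0) (nat_lit 3450723196) (nat_lit 228) (nat_lit 6384970603) (nat_lit 76) (nat_lit 6145658703) (nat_lit 26) (nat_lit 5) (nat_lit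 29) (nat_lit 5) (nat_lit 27) (nat_lit 4) (nat_lit 286) (nat_lit 225) (nat_lit 209)) (XT.nd (nat_lit 78) (nat_lit 0) (nat_lit 0) (XT.lf (nat_lit 0) (nat_lit 4081777037) (nat_lit 152) (nat_lit 4790516180) (nat_lit 228) (nat_lit 7709053753) (nat_lit 24) (nat_lit 5) (nat_lit 26) (nat_lit 5) (nat_lit 27) (nat_lit 4) (nat_lit 287) (nat_lit 225) (nat_lit 208)) (XT.lf (nat_lit 0) (nat_lit 14488525334) (nat_lit 228) (nat_lit 2258407470) (nat_lit 0) (nat_lit 466827133) (nat_lit 24) (nat_lit 5) (nat_lit 27) (nat_lit 4) (nat_lit 24) (nat_lit 4) (nat_lit 288) (nat_lit 225) (nat_lit 207))))) (XT.nd (nat_lit 234) (nat_lit 304) (nat_lit 0) (XT.nd (nat_lit 78) (nat_lit 76) (nat_lit 0) (XT.lf (nat_lit 0) (nat_lit 2446806368) (nat_lit 228) (nat_lit 9529365466) (nat_lit 76) (nat_lit 5901376302) (nat_lit 21) (nat_lit 5) (nat_lit 24) (nat_lit 5) (nat_lit 22) (nat_lit 4) (nat_lit 289) (nat_lit 225) (nat_lit 206))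 (XT.nd (nat_lit 78) (nat_lit 0) (nat_lit 0) (XT.lf (nat_lit 0) (nat_lit 711603848) (nat_lit 76) (nat_lit 7002714587) (nat_lit 152) (nat_lit 10862712108) (nat_lit 20) (nat_lit 5) (nat_lit 21) (nat_lit 5) (nat_lit 22) (nat_lit 4) (nat_lit 290) (nat_lit 225) (nat_lit 205)) (XT.lf (nat_lit 0) (nat_lit 11437423058) (nat_lit 76) (nat_lit 1772645015) (nat_lit 152) (nat_lit 6102579051) (nat_lit 20) (nat_lit 5) (nat_lit 21) (nat_lit 5) (nat_lit 22) (nat_lit 4) (nat_lit 291) (nat_lit 225) (nat_lit 204)))) (XT.nd (nat_lit 78) (nat_lit 152) (nat_lit 0) (XT.lf (nat_lit 0) (nat_lit 2407099555) (nat_lit 152) (nat_lit 16504650501) (nat_lit 152) (nat_lit 1175461002) (nat_lit 18) (nat_lit 4) (nat_lit 20) (nat_lit 5) (nat_lit 20) (nat_lit 4) (nat_lit 292) (nat_lit 225) (nat_lit 203)) (XT.nd (nat_lit 78) (nat_lit 76) (nat_lit 0) (XT.lf (nat_lit 0) (nat_lit 3894740756) (nat_lit 228) (nat_lit 7802015140) (nat_lit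 76) (nat_lit 9203445314) (nat_lit 17) (nat_lit 5) (nat_lit 20) (nat_lit 5) (nat_lit 18) (nat_lit 4) (nat_lit 293) (nat_lit 225) (nat_lit 202)) (XT.lf (nat_lit 0) (nat_lit 2400267649) (nat_lit 76) (nat_lit 6698107312) (nat_lit 152) (nat_lit 12658078610) (nat_lit 16) (nat_lit 5) (nat_lit 17) (nat_lit 5) (nat_lit 18) (nat_lit 4) (nat_lit 294) (nat_lit 225) (nat_lit 201)))))) (XT.nd (nat_lit 390) (nat_lit 228) (nat_lit 0) (XT.nd (nat_lit 156) (nat_lit 152) (nat_lit 0) (XT.nd (nat_lit 78) (nat_lit 152) (nat_lit 0) (XT.lf (nat_lit 0) (nat_lit 13076879160) (nat_lit 76) (nat_lit 1450319039) (nat_lit 152) (nat_lit 8129454726) (nat_lit 16) (nat_lit 5) (nat_lit 17) (nat_lit 5) (nat_lit 18) (nat_lit 4) (nat_lit 295) (nat_lit 225) (nat_lit 200)) (XT.lf (nat_lit 0) (nat_lit 463510684) (nat_lit 152) (nat_lit 19696852017) (nat_lit 152) (nat_lit 3443593110) (nat_lit 14) (nat_lit 4) (nat_lit 16) (nat_lit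 5) (nat_lit 16) (nat_lit 4) (nat_lit 296) (nat_lit 225) (nat_lit 199))) (XT.nd (nat_lit 78) (nat_lit 76) (nat_lit 0) (XT.lf (nat_lit 0) (nat_lit 1453735044) (nat_lit 228) (nat_lit 13605018642) (nat_lit 76) (nat_lit 9539339250) (nat_lit 13) (nat_lit 5) (nat_lit 16) (nat_lit 5) (nat_lit 14) (nat_lit 4) (nat_lit 297) (nat_lit 225) (nat_lit 198)) (XT.nd (nat_lit 78) (nat_lit 76) (nat_lit 0) (XT.lf (nat_lit 0) (nat_lit 6422283680) (nat_lit 228) (nat_lit 3807285743) (nat_lit 76) (nat_lit 15414488406) (nat_lit 13) (nat_lit 5) (nat_lit 16) (nat_lit 5) (nat_lit 14) (nat_lit 4) (nat_lit 298) (nat_lit 225) (nat_lit 197)) (XT.lf (nat_lit 0) (nat_lit 6434748547) (nat_lit 76) (nat_lit 5168185773) (nat_lit 152) (nat_lit 15140543982) (nat_lit 12) (nat_lit 5) (nat_lit 13) (nat_lit 5) (nat_lit 14) (nat_lit 4) (nat_lit 299) (nat_lit 225) (nat_lit 196))))) (XT.nd (nat_lit 234) (nat_lit 152) (nat_lit 0) (XT.nd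 (nat_lit 78) (nat_lit 76) (nat_lit 0) (XT.lf (nat_lit 0) (nat_lit 16987817375) (nat_lit 152) (nat_lit 10798520416) (nat_lit 0) (nat_lit 113240363) (nat_lit 12) (nat_lit 5) (nat_lit 14) (nat_lit 4) (nat_lit 12) (nat_lit 4) (nat_lit 300) (nat_lit 225) (nat_lit 195)) (XT.nd (nat_lit 78) (nat_lit 76) (nat_lit 0) (XT.lf (nat_lit 0) (nat_lit 22602882792) (nat_lit 152) (nat_lit 1025419569) (nat_lit 0) (nat_lit 5486413779) (nat_lit 12) (nat_lit 5) (nat_lit 14) (nat_lit 4) (nat_lit 12) (nat_lit 4) (nat_lit 301) (nat_lit 225) (nat_lit 194)) (XT.lf (nat_lit 0) (nat_lit 9264301729) (nat_lit 76) (nat_lit 19236572417) (nat_lit 76) (nat_lit 1889730070) (nat_lit 11) (nat_lit 4) (nat_lit 12) (nat_lit 5) (nat_lit 12) (nat_lit 4) (nat_lit 302) (nat_lit 225) (nat_lit 193)))) (XT.nd (nat_lit 78) (nat_lit 76) (nat_lit 0) (XT.lf (nat_lit 0) (nat_lit 2831251559) (nat_lit 152) (nat_lit 11818804856) (nat_lit 76)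 (nat_lit 17081661609) (nat_lit 10) (nat_lit 5) (nat_lit 12) (nat_lit 5) (nat_lit 11) (nat_lit 4) (nat_lit 303) (nat_lit 225) (nat_lit 192)) (XT.nd (nat_lit 78) (nat_lit 76) (nat_lit 0) (XT.lf (nat_lit 0) (nat_lit 7668554508) (nat_lit 152) (nat_lit 2208035274) (nat_lit 76) (nat_lit 23265207193) (nat_lit 10) (nat_lit 5) (nat_lit 12) (nat_lit 5) (nat_lit 11) (nat_lit 4) (nat_lit 304) (nat_lit 225) (nat_lit 191)) (XT.lf (nat_lit 0) (nat_lit 7901235852) (nat_lit 76) (nat_lit 4845287263) (nat_lit 152) (nat_lit 21875941696) (nat_lit 9) (nat_lit 5) (nat_lit 10) (nat_lit 5) (nat_lit 11) (nat_lit 4) (nat_lit 305) (nat_lit 225) (nat_lit 190))))))) (XT.nd (nat_lit 858) (nat_lit 228) (nat_lit 0) (XT.nd (nat_lit 390) (nat_lit 152) (nat_lit 0) (XT.nd (nat_lit 156) (nat_lit 76) (nat_lit 0) (XT.nd (nat_lit 78) (nat_lit 0) (nat_lit 0) (XT.lf (nat_lit 0) (nat_lit 18030248894) (nat_lit 152) (nat_lit 17752853078)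 (nat_lit 0) (nat_lit 395554928) (nat_lit 9) (nat_lit 5) (nat_lit 11) (nat_lit 4) (nat_lit 9) (nat_lit 4) (nat_lit 306) (nat_lit 225) (nat_lit 189)) (XT.lf (nat_lit 0) (nat_lit 23555349074) (nat_lit 152) (nat_lit 8512629320) (nat_lit 0) (nat_lit 5745408958) (nat_lit 9) (nat_lit 5) (nat_lit 11) (nat_lit 4) (nat_lit 9) (nat_lit 4) (nat_lit 307) (nat_lit 225) (nat_lit 188))) (XT.nd (nat_lit 78) (nat_lit 0) (nat_lit 0) (XT.lf (nat_lit 0) (nat_lit 1089274378) (nat_lit 76) (nat_lit 28209599185) (nat_lit 76) (nat_lit 10232757972) (nat_lit 8) (nat_lit 4) (nat_lit 9) (nat_lit 5) (nat_lit 9) (nat_lit 4) (nat_lit 308) (nat_lit 225) (nat_lit 187)) (XT.nd (nat_lit 78) (nat_lit 0) (nat_lit 0) (XT.lf (nat_lit 0) (nat_lit 11231060529) (nat_lit 76) (nat_lit 24119959469) (nat_lit 76) (nat_lit 5984164832) (nat_lit 8) (nat_lit 4) (nat_lit 9) (nat_lit 5) (nat_lit 9) (nat_lit 4) (nat_lit 309) (nat_lit 225) (nat_lit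 186)) (XT.lf (nat_lit 0) (nat_lit 21767458225) (nat_lit 76) (nat_lit 19875282876) (nat_lit 76) (nat_lit 1588104025) (nat_lit 8) (nat_lit 4) (nat_lit 9) (nat_lit 5) (nat_lit 9) (nat_lit 4) (nat_lit 310) (nat_lit 225) (nat_lit 185))))) (XT.nd (nat_lit 234) (nat_lit 0) (nat_lit 0) (XT.nd (nat_lit 78) (nat_lit 76) (nat_lit 0) (XT.lf (nat_lit 0) (nat_lit 2908016039) (nat_lit 152) (nat_lit 12528081731) (nat_lit 76) (nat_lit 29786172830) (nat_lit 7) (nat_lit 5) (nat_lit 9) (nat_lit 5) (nat_lit 8) (nat_lit 4) (nat_lit 311) (nat_lit 225) (nat_lit 184)) (XT.nd (nat_lit 78) (nat_lit 76) (nat_lit 0) (XT.lf (nat_lit 0) (nat_lit 7538630346) (nat_lit 152) (nat_lit 3265244633) (nat_lit 76) (nat_lit 36510678453) (nat_lit 7) (nat_lit 5) (nat_lit 9) (nat_lit 5) (nat_lit 8) (nat_lit 4) (nat_lit 312) (nat_lit 225) (nat_lit 183)) (XT.lf (nat_lit 0) (nat_lit 6489069718) (nat_lit 76) (nat_lit 5919060986) (nat_lit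 152) (nat_lit 37103131209) (nat_lit 6) (nat_lit 5) (nat_lit 7) (nat_lit 5) (nat_lit 8) (nat_lit 4) (nat_lit 313) (nat_lit 225) (nat_lit 182)))) (XT.nd (nat_lit 78) (nat_lit 0) (nat_lit 0) (XT.lf (nat_lit 0) (nat_lit 16703861526) (nat_lit 76) (nat_lit 797538131) (nat_lit 152) (nat_lit 34317027990) (nat_lit 6) (nat_lit 5) (nat_lit 7) (nat_lit 5) (nat_lit 8) (nat_lit 4) (nat_lit 314) (nat_lit 225) (nat_lit 181)) (XT.nd (nat_lit 78) (nat_lit 0) (nat_lit 0) (XT.lf (nat_lit 0) (nat_lit 22842192277) (nat_lit 152) (nat_lit 26947677741) (nat_lit 0) (nat_lit 4451325022) (nat_lit 6) (nat_lit 5) (nat_lit 8) (nat_lit 4) (nat_lit 6) (nat_lit 4) (nat_lit 315) (nat_lit 225) (nat_lit 180)) (XT.lf (nat_lit 0) (nat_lit 28409344626) (nat_lit 152) (nat_lit 18468201973) (nat_lit 0) (nat_lit 9908802389) (nat_lit 6) (nat_lit 5) (nat_lit 8) (nat_lit 4) (nat_lit 6) (nat_lit 4) (nat_lit 316) (nat_lit 225) (nat_lit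 179)))))) (XT.nd (nat_lit 390) (nat_lit 152) (nat_lit 0) (XT.nd (nat_lit 156) (nat_lit 76) (nat_lit 0) (XT.nd (nat_lit 78) (nat_lit 0) (nat_lit 0) (XT.lf (nat_lit 0) (nat_lit 34208445405) (nat_lit 152) (nat_lit 9648283165) (nat_lit 0) (nat_lit 15603450805) (nat_lit 6) (nat_lit 5) (nat_lit 8) (nat_lit 4) (nat_lit 6) (nat_lit 4) (nat_lit 317) (nat_lit 225) (nat_lit 178)) (XT.lf (nat_lit 0) (nat_lit 40253301997) (nat_lit 152) (nat_lit 466921510) (nat_lit 0) (nat_lit 21548828955) (nat_lit 6) (nat_lit 5) (nat_lit 8) (nat_lit 4) (nat_lit 6) (nat_lit 4) (nat_lit 318) (nat_lit 225) (nat_lit 177))) (XT.nd (nat_lit 78) (nat_lit 0) (nat_lit 0) (XT.lf (nat_lit 0) (nat_lit 9278806308) (nat_lit 76) (nat_lit 37368694172) (nat_lit 76) (nat_lit 18569479757) (nat_lit 5) (nat_lit 4) (nat_lit 6) (nat_lit 5) (nat_lit 6) (nat_lit 4) (nat_lit 319) (nat_lit 225) (nat_lit 176)) (XT.nd (nat_lit 78) (nat_lit 0) (nat_lit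 0) (XT.lf (nat_lit 0) (nat_lit 19447984737) (nat_lit 76) (nat_lit 33877433272) (nat_lit 76) (nat_lit 14987988979) (nat_lit 5) (nat_lit 4) (nat_lit 6) (nat_lit 5) (nat_lit 6) (nat_lit 4) (nat_lit 320) (nat_lit 225) (nat_lit 175)) (XT.lf (nat_lit 0) (nat_lit 30055533452) (nat_lit 76) (nat_lit 30242843275) (nat_lit 76) (nat_lit 11267465763) (nat_lit 5) (nat_lit 4) (nat_lit 6) (nat_lit 5) (nat_lit 6) (nat_lit 4) (nat_lit 321) (nat_lit 225) (nat_lit 174))))) (XT.nd (nat_lit 234) (nat_lit 76) (nat_lit 0) (XT.nd (nat_lit 78) (nat_lit 76) (nat_lit 0) (XT.lf (nat_lit 0) (nat_lit 41126708522) (nat_lit 76) (nat_lit 26456270393) (nat_lit 76) (nat_lit 7399051722) (nat_lit 5) (nat_lit 4) (nat_lit 6) (nat_lit 5) (nat_lit 6) (nat_lit 4) (nat_lit 322) (nat_lit 225) (nat_lit 173)) (XT.nd (nat_lit 78) (nat_lit 76) (nat_lit 0) (XT.lf (nat_lit 0) (nat_lit 52687869887) (nat_lit 76) (nat_lit 22508698979) (nat_lit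 76) (nat_lit 3373536345) (nat_lit 5) (nat_lit 4) (nat_lit 6) (nat_lit 5) (nat_lit 6) (nat_lit 4) (nat_lit 323) (nat_lit 225) (nat_lit 172)) (XT.lf (nat_lit 0) (nat_lit 802689824) (nat_lit 152) (nat_lit 17579934633) (nat_lit 76) (nat_lit 63955748704) (nat_lit 4) (nat_lit 5) (nat_lit 6) (nat_lit 5) (nat_lit 5) (nat_lit 4) (nat_lit 324) (nat_lit 225) (nat_lit 171)))) (XT.nd (nat_lit 78) (nat_lit 76) (nat_lit 0) (XT.lf (nat_lit 0) (nat_lit 5086306062) (nat_lit 152) (nat_lit 8954891142) (nat_lit 76) (nat_lit 72253822195) (nat_lit 4) (nat_lit 5) (nat_lit 6) (nat_lit 5) (nat_lit 5) (nat_lit 4) (nat_lit 325) (nat_lit 225) (nat_lit 170)) (XT.nd (nat_lit 78) (nat_lit 0) (nat_lit 0) (XT.lf (nat_lit 0) (nat_lit 46772152) (nat_lit 76) (nat_lit 9507018747) (nat_lit 152) (nat_lit 80896632979) (nat_lit 3) (nat_lit 5) (nat_lit 4) (nat_lit 5) (nat_lit 5) (nat_lit 4) (nat_lit 326) (nat_lit 225) (nat_lit 169))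 (XT.lf (nat_lit 0) (nat_lit 9631696625) (nat_lit 76) (nat_lit 4675320463) (nat_lit 152) (nat_lit 80504726254) (nat_lit 3) (nat_lit 5) (nat_lit 4) (nat_lit 5) (nat_lit 5) (nat_lit 4) (nat_lit 327) (nat_lit 225) (nat_lit 168))))))))
noncomputable def xc25 : XT := (XT.nd (nat_lit 34086) (nat_lit 0) (nat_lit 456) (XT.nd (nat_lit 33228) (nat_lit 0) (nat_lit 2128) (XT.nd (nat_lit 390) (nat_lit 0) (nat_lit 0) (XT.nd (nat_lit 156) (nat_lit 0) (nat_lit 0) (XT.nd (nat_lit 78) (nat_lit 0) (nat_lit 0) (XT.lf (nat_lit 0) (nat_lit 19273113270) (nat_lit 152) (nat_lit 79751116533) (nat_lit 0) (nat_lit 367657738) (nat_lit 3) (nat_lit 5) (nat_lit 5) (nat_lit 4) (nat_lit 3) (nat_lit 4) (nat_lit 328) (nat_lit 225) (nat_lit 167)) (XT.lf (nat_lit 0) (nat_lit 24507449330) (nat_lit 152) (nat_lit 74147480995) (nat_lit 0) (nat_lit 5545524881) (nat_lit 3) (nat_lit 5) (nat_lit 5) (nat_lit 4) (nat_lit 3) (nat_lit 4)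 (nat_lit 329) (nat_lit 225) (nat_lit 166))) (XT.nd (nat_lit 78) (nat_lit 0) (nat_lit 0) (XT.lf (nat_lit 0) (nat_lit 29977545932) (nat_lit 152) (nat_lit 68310856073) (nat_lit 0) (nat_lit 10961841562) (nat_lit 3) (nat_lit 5) (nat_lit 5) (nat_lit 4) (nat_lit 3) (nat_lit 4) (nat_lit 330) (nat_lit 225) (nat_lit 165)) (XT.nd (nat_lit 78) (nat_lit 0) (nat_lit 0) (XT.lf (nat_lit 0) (nat_lit 35696427116) (nat_lit 152) (nat_lit 62227345042) (nat_lit 0) (nat_lit 16629503774) (nat_lit 3) (nat_lit 5) (nat_lit 5) (nat_lit 4) (nat_lit 3) (nat_lit 4) (nat_lit 331) (nat_lit 225) (nat_lit 164)) (XT.lf (nat_lit 0) (nat_lit 41677709266) (nat_lit 152) (nat_lit 55882463351) (nat_lit 0) (nat_lit 22562005951) (nat_lit 3) (nat_lit 5) (nat_lit 5) (nat_lit 4) (nat_lit 3) (nat_lit 4) (nat_lit 332) (nat_lit 225) (nat_lit 163))))) (XT.nd (nat_lit 32604) (nat_lit 0) (nat_lit 4560) (XT.nd (nat_lit 32448) (nat_lit 0) (nat_lit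 5624) (XT.lf (nat_lit 0) (nat_lit 47935633530) (nat_lit 152) (nat_lit 49261104140) (nat_lit 0) (nat_lit 28773473097) (nat_lit 3) (nat_lit 5) (nat_lit 5) (nat_lit 4) (nat_lit 3) (nat_lit 4) (nat_lit 333) (nat_lit 225) (nat_lit 162)) (XT.nd (nat_lit 78) (nat_lit 380) (nat_lit 0) (XT.lf (nat_lit 0) (nat_lit 3107364741) (nat_lit 380) (nat_lit 746507714) (nat_lit 380) (nat_lit 746507714) (nat_lit 82) (nat_lit 4) (nat_lit 87) (nat_lit 5) (nat_lit 87) (nat_lit 4) (nat_lit 268) (nat_lit 226) (nat_lit 226)) (XT.lf (nat_lit 0) (nat_lit 4241991865) (nat_lit 380) (nat_lit 2463881737) (nat_lit 0) (nat_lit 2722496957) (nat_lit 77) (nat_lit 5) (nat_lit 82) (nat_lit 4) (nat_lit 77) (nat_lit 4) (nat_lit 269) (nat_lit 226) (nat_lit 225)))) (XT.nd (nat_lit 78) (nat_lit 684) (nat_lit 0) (XT.lf (nat_lit 0) (nat_lit 439198006) (nat_lit 380) (nat_lit 2075060962) (nat_lit 76) (nat_lit 7156322990) (nat_lit 72) (nat_lit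 5) (nat_lit 77) (nat_lit 5) (nat_lit 73) (nat_lit 4) (nat_lit 270) (nat_lit 226) (nat_lit 224)) (XT.nd (nat_lit 78) (nat_lit 380) (nat_lit 0) (XT.lf (nat_lit 0) (nat_lit 6133563505) (nat_lit 380) (nat_lit 1878042551) (nat_lit 0) (nat_lit 1915253225) (nat_lit 68) (nat_lit 5) (nat_lit 73) (nat_lit 4) (nat_lit 68) (nat_lit 4) (nat_lit 271) (nat_lit 226) (nat_lit 223)) (XT.lf (nat_lit 0) (nat_lit 1784017722) (nat_lit 380) (nat_lit 1871120159) (nat_lit 76) (nat_lit 6543431661) (nat_lit 63) (nat_lit 5) (nat_lit 68) (nat_lit 5) (nat_lit 64) (nat_lit 4) (nat_lit 272) (nat_lit 226) (nat_lit 222)))))) (XT.nd (nat_lit 390) (nat_lit 1140) (nat_lit 0) (XT.nd (nat_lit 156) (nat_lit 760) (nat_lit 0) (XT.nd (nat_lit 78) (nat_lit 304) (nat_lit 0) (XT.lf (nat_lit 0) (nat_lit 7456051660) (nat_lit 304) (nat_lit 2085131743) (nat_lit 0) (nat_lit 945024568) (nat_lit 60) (nat_lit 5) (nat_lit 64) (nat_lit 4) (nat_lit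 60) (nat_lit 4) (nat_lit 273) (nat_lit 226) (nat_lit 221)) (XT.lf (nat_lit 0) (nat_lit 2497283997) (nat_lit 304) (nat_lit 2563761351) (nat_lit 76) (nat_lit 5728951937) (nat_lit 56) (nat_lit 5) (nat_lit 60) (nat_lit 5) (nat_lit 57) (nat_lit 4) (nat_lit 274) (nat_lit 226) (nat_lit 220))) (XT.nd (nat_lit 78) (nat_lit 532) (nat_lit 0) (XT.lf (nat_lit 0) (nat_lit 7803651842) (nat_lit 228) (nat_lit 327225694) (nat_lit 304) (nat_lit 2980687908) (nat_lit 53) (nat_lit 5) (nat_lit 56) (nat_lit 5) (nat_lit 57) (nat_lit 4) (nat_lit 275) (nat_lit 226) (nat_lit 219)) (XT.nd (nat_lit 78) (nat_lit 228) (nat_lit 0) (XT.lf (nat_lit 0) (nat_lit 2485937163) (nat_lit 304) (nat_lit 4390360063) (nat_lit 76) (nat_lit 4574218760) (nat_lit 49) (nat_lit 5) (nat_lit 53) (nat_lit 5) (nat_lit 50) (nat_lit 4) (nat_lit 276) (nat_lit 226) (nat_lit 218)) (XT.lf (nat_lit 0) (nat_lit 5995513060) (nat_lit 228) (nat_lit 2070253754)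 (nat_lit 304) (nat_lit 3742947855) (nat_lit 46) (nat_lit 5) (nat_lit 49) (nat_lit 5) (nat_lit 50) (nat_lit 4) (nat_lit 277) (nat_lit 226) (nat_lit 217))))) (XT.nd (nat_lit 234) (nat_lit 456) (nat_lit 0) (XT.nd (nat_lit 78) (nat_lit 380) (nat_lit 0) (XT.lf (nat_lit 0) (nat_lit 1634241452) (nat_lit 304) (nat_lit 7628467029) (nat_lit 76) (nat_lit 2923974393) (nat_lit 42) (nat_lit 5) (nat_lit 46) (nat_lit 5) (nat_lit 43) (nat_lit 4) (nat_lit 278) (nat_lit 226) (nat_lit 216)) (XT.nd (nat_lit 78) (nat_lit 228) (nat_lit 0) (XT.lf (nat_lit 0) (nat_lit 2691287250) (nat_lit 152) (nat_lit 4434860023) (nat_lit 228) (nat_lit 5458796324) (nat_lit 40) (nat_lit 5) (nat_lit 42) (nat_lit 5) (nat_lit 43) (nat_lit 4) (nat_lit 279) (nat_lit 226) (nat_lit 215)) (XT.lf (nat_lit 0) (nat_lit 400476537) (nat_lit 228) (nat_lit 12401868594) (nat_lit 228) (nat_lit 203675494) (nat_lit 37) (nat_lit 4) (nat_lit 40) (nat_lit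 5) (nat_lit 40) (nat_lit 4) (nat_lit 280) (nat_lit 226) (nat_lit 214)))) (XT.nd (nat_lit 78) (nat_lit 380) (nat_lit 0) (XT.lf (nat_lit 0) (nat_lit 5182540029) (nat_lit 304) (nat_lit 2407500157) (nat_lit 76) (nat_lit 5857597221) (nat_lit 36) (nat_lit 5) (nat_lit 40) (nat_lit 5) (nat_lit 37) (nat_lit 4) (nat_lit 281) (nat_lit 226) (nat_lit 213)) (XT.nd (nat_lit 78) (nat_lit 228) (nat_lit 0) (XT.lf (nat_lit 0) (nat_lit 8190002306) (nat_lit 152) (nat_lit 2555399981) (nat_lit 228) (nat_lit 3168696786) (nat_lit 34) (nat_lit 5) (nat_lit 36) (nat_lit 5) (nat_lit 37) (nat_lit 4) (nat_lit 282) (nat_lit 226) (nat_lit 212)) (XT.lf (nat_lit 0) (nat_lit 2073515257) (nat_lit 228) (nat_lit 9659862942) (nat_lit 76) (nat_lit 2672026926) (nat_lit 31) (nat_lit 5) (nat_lit 34) (nat_lit 5) (nat_lit 32) (nat_lit 4) (nat_lit 283) (nat_lit 226) (nat_lit 211))))))) (XT.nd (nat_lit 858) (nat_lit 608) (nat_lit 0) (XT.nd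 (nat_lit 390) (nat_lit 532) (nat_lit 0) (XT.nd (nat_lit 156) (nat_lit 380) (nat_lit 0) (XT.nd (nat_lit 78) (nat_lit 0) (nat_lit 0) (XT.lf (nat_lit 0) (nat_lit 632437886) (nat_lit 152) (nat_lit 6812713139) (nat_lit 228) (nat_lit 7477349434) (nat_lit 29) (nat_lit 5) (nat_lit 31) (nat_lit 5) (nat_lit 32) (nat_lit 4) (nat_lit 284) (nat_lit 226) (nat_lit 210)) (XT.lf (nat_lit 0) (nat_lit 11388362121) (nat_lit 152) (nat_lit 1642451690) (nat_lit 228) (nat_lit 2436416798) (nat_lit 29) (nat_lit 5) (nat_lit 31) (nat_lit 5) (nat_lit 32) (nat_lit 4) (nat_lit 285) (nat_lit 226) (nat_lit 209))) (XT.nd (nat_lit 78) (nat_lit 152) (nat_lit 0) (XT.lf (nat_lit 0) (nat_lit 2751406513) (nat_lit 228) (nat_lit 9579111382) (nat_lit 76) (nat_lit 3709470623) (nat_lit 26) (nat_lit 5) (nat_lit 29) (nat_lit 5) (nat_lit 27) (nat_lit 4) (nat_lit 286) (nat_lit 226) (nat_lit 208)) (XT.nd (nat_lit 78) (nat_lit 0) (nat_lit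 0) (XT.lf (nat_lit 0) (nat_lit 704445784) (nat_lit 152) (nat_lit 7365644532) (nat_lit 228) (nat_lit 8573040859) (nat_lit 24) (nat_lit 5) (nat_lit 26) (nat_lit 5) (nat_lit 27) (nat_lit 4) (nat_lit 287) (nat_lit 226) (nat_lit 207)) (XT.lf (nat_lit 0) (nat_lit 11468810673) (nat_lit 152) (nat_lit 2144772060) (nat_lit 228) (nat_lit 3664202269) (nat_lit 24) (nat_lit 5) (nat_lit 26) (nat_lit 5) (nat_lit 27) (nat_lit 4) (nat_lit 288) (nat_lit 226) (nat_lit 206))))) (XT.nd (nat_lit 234) (nat_lit 228) (nat_lit 0) (XT.nd (nat_lit 78) (nat_lit 76) (nat_lit 0) (XT.lf (nat_lit 0) (nat_lit 1403262687) (nat_lit 228) (nat_lit 13299342631) (nat_lit 76) (nat_lit 3242979867) (nat_lit 21) (nat_lit 5) (nat_lit 24) (nat_lit 5) (nat_lit 22) (nat_lit 4) (nat_lit 289) (nat_lit 226) (nat_lit 205)) (XT.nd (nat_lit 78) (nat_lit 76) (nat_lit 0) (XT.lf (nat_lit 0) (nat_lit 6600003272) (nat_lit 228) (nat_lit 3180511799)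 (nat_lit 76) (nat_lit 8866727331) (nat_lit 21) (nat_lit 5) (nat_lit 24) (nat_lit 5) (nat_lit 22) (nat_lit 4) (nat_lit 290) (nat_lit 226) (nat_lit 204)) (XT.lf (nat_lit 0) (nat_lit 7376859497) (nat_lit 76) (nat_lit 4625814390) (nat_lit 152) (nat_lit 7383026671) (nat_lit 20) (nat_lit 5) (nat_lit 21) (nat_lit 5) (nat_lit 22) (nat_lit 4) (nat_lit 291) (nat_lit 226) (nat_lit 203)))) (XT.nd (nat_lit 78) (nat_lit 228) (nat_lit 0) (XT.lf (nat_lit 0) (nat_lit 17594444949) (nat_lit 152) (nat_lit 1847623981) (nat_lit 0) (nat_lit 721539750) (nat_lit 20) (nat_lit 5) (nat_lit 22) (nat_lit 4) (nat_lit 20) (nat_lit 4) (nat_lit 292) (nat_lit 226) (nat_lit 202)) (XT.nd (nat_lit 78) (nat_lit 0) (nat_lit 0) (XT.lf (nat_lit 0) (nat_lit 2451859840) (nat_lit 228) (nat_lit 12256724368) (nat_lit 76) (nat_lit 6270751100) (nat_lit 17) (nat_lit 5) (nat_lit 20) (nat_lit 5) (nat_lit 18) (nat_lit 4) (nat_lit 293) (nat_lit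 226) (nat_lit 201)) (XT.lf (nat_lit 0) (nat_lit 7577105928) (nat_lit 228) (nat_lit 2196374472) (nat_lit 76) (nat_lit 12064500177) (nat_lit 17) (nat_lit 5) (nat_lit 20) (nat_lit 5) (nat_lit 18) (nat_lit 4) (nat_lit 294) (nat_lit 226) (nat_lit 200)))))) (XT.nd (nat_lit 468) (nat_lit 228) (nat_lit 0) (XT.nd (nat_lit 234) (nat_lit 152) (nat_lit 0) (XT.nd (nat_lit 78) (nat_lit 152) (nat_lit 0) (XT.lf (nat_lit 0) (nat_lit 8344155733) (nat_lit 76) (nat_lit 4586671227) (nat_lit 152) (nat_lit 9809645340) (nat_lit 16) (nat_lit 5) (nat_lit 17) (nat_lit 5) (nat_lit 18) (nat_lit 4) (nat_lit 295) (nat_lit 226) (nat_lit 199)) (XT.nd (nat_lit 78) (nat_lit 152) (nat_lit 0) (XT.lf (nat_lit 0) (nat_lit 18478013956) (nat_lit 152) (nat_lit 4421111727) (nat_lit 0) (nat_lit 791266259) (nat_lit 16) (nat_lit 5) (nat_lit 18) (nat_lit 4) (nat_lit 16) (nat_lit 4) (nat_lit 296) (nat_lit 226) (nat_lit 198)) (XT.lf (nat_lit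 0) (nat_lit 5948516005) (nat_lit 152) (nat_lit 18357218964) (nat_lit 152) (nat_lit 382050433) (nat_lit 14) (nat_lit 4) (nat_lit 16) (nat_lit 5) (nat_lit 16) (nat_lit 4) (nat_lit 297) (nat_lit 226) (nat_lit 197)))) (XT.nd (nat_lit 78) (nat_lit 76) (nat_lit 0) (XT.lf (nat_lit 0) (nat_lit 4546060617) (nat_lit 228) (nat_lit 9021351984) (nat_lit 76) (nat_lit 12167917614) (nat_lit 13) (nat_lit 5) (nat_lit 16) (nat_lit 5) (nat_lit 14) (nat_lit 4) (nat_lit 298) (nat_lit 226) (nat_lit 196)) (XT.nd (nat_lit 78) (nat_lit 0) (nat_lit 0) (XT.lf (nat_lit 0) (nat_lit 1035817343) (nat_lit 76) (nat_lit 8593383927) (nat_lit 152) (nat_lit 17208506108) (nat_lit 12) (nat_lit 5) (nat_lit 13) (nat_lit 5) (nat_lit 14) (nat_lit 4) (nat_lit 299) (nat_lit 226) (nat_lit 195)) (XT.lf (nat_lit 0) (nat_lit 11626036878) (nat_lit 76) (nat_lit 3342754686) (nat_lit 152) (nat_lit 13026404346) (nat_lit 12) (nat_lit 5) (nat_lit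 13) (nat_lit 5) (nat_lit 14) (nat_lit 4) (nat_lit 300) (nat_lit 226) (nat_lit 194))))) (XT.nd (nat_lit 234) (nat_lit 76) (nat_lit 0) (XT.nd (nat_lit 78) (nat_lit 152) (nat_lit 0) (XT.lf (nat_lit 0) (nat_lit 20509343174) (nat_lit 152) (nat_lit 6638469234) (nat_lit 0) (nat_lit 2064785376) (nat_lit 12) (nat_lit 5) (nat_lit 14) (nat_lit 4) (nat_lit 12) (nat_lit 4) (nat_lit 301) (nat_lit 226) (nat_lit 193)) (XT.nd (nat_lit 78) (nat_lit 76) (nat_lit 0) (XT.lf (nat_lit 0) (nat_lit 3467134497) (nat_lit 76) (nat_lit 22844111061) (nat_lit 76) (nat_lit 4180150088) (nat_lit 11) (nat_lit 4) (nat_lit 12) (nat_lit 5) (nat_lit 12) (nat_lit 4) (nat_lit 302) (nat_lit 226) (nat_lit 192)) (XT.lf (nat_lit 0) (nat_lit 546009519) (nat_lit 152) (nat_lit 17764517052) (nat_lit 76) (nat_lit 13523853955) (nat_lit 10) (nat_lit 5) (nat_lit 12) (nat_lit 5) (nat_lit 11) (nat_lit 4) (nat_lit 303) (nat_lit 226) (nat_lit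 191)))) (XT.nd (nat_lit 78) (nat_lit 76) (nat_lit 0) (XT.lf (nat_lit 0) (nat_lit 5345677833) (nat_lit 152) (nat_lit 8220195521) (nat_lit 76) (nat_lit 19679739041) (nat_lit 10) (nat_lit 5) (nat_lit 12) (nat_lit 5) (nat_lit 11) (nat_lit 4) (nat_lit 304) (nat_lit 226) (nat_lit 190)) (XT.nd (nat_lit 78) (nat_lit 0) (nat_lit 0) (XT.lf (nat_lit 0) (nat_lit 1704878497) (nat_lit 76) (nat_lit 8623362257) (nat_lit 152) (nat_lit 24400924391) (nat_lit 9) (nat_lit 5) (nat_lit 10) (nat_lit 5) (nat_lit 11) (nat_lit 4) (nat_lit 305) (nat_lit 226) (nat_lit 189)) (XT.lf (nat_lit 0) (nat_lit 12171970959) (nat_lit 76) (nat_lit 3401390977) (nat_lit 152) (nat_lit 20713175097) (nat_lit 9) (nat_lit 5) (nat_lit 10) (nat_lit 5) (nat_lit 11) (nat_lit 4) (nat_lit 306) (nat_lit 226) (nat_lit 188))))))))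
noncomputable def xc26 : XT := (XT.nd (nat_lit 1716) (nat_lit 0) (nat_lit 0) (XT.nd (nat_lit 858) (nat_lit 228) (nat_lit 0) (XT.nd (nat_lit 390) (nat_lit 76) (nat_lit 0) (XT.nd (nat_lit 156) (nat_lit 152) (nat_lit 0) (XT.nd (nat_lit 78) (nat_lit 0) (nat_lit 0) (XT.lf (nat_lit 0) (nat_lit 21032448074) (nat_lit 152) (nat_lit 14900956754) (nat_lit 0) (nat_lit 1989863705) (nat_lit 9) (nat_lit 5) (nat_lit 11) (nat_lit 4) (nat_lit 9) (nat_lit 4) (nat_lit 307) (nat_lit 226) (nat_lit 187)) (XT.lf (nat_lit 0) (nat_lit 26733770562) (nat_lit 152) (nat_lit 5376795093) (nat_lit 0) (nat_lit 7532232768) (nat_lit 9) (nat_lit 5) (nat_lit 11) (nat_lit 4) (nat_lit 9) (nat_lit 4) (nat_lit 308) (nat_lit 226) (nat_lit 186))) (XT.nd (nat_lit 78) (nat_lit 76) (nat_lit 0) (XT.lf (nat_lit 0) (nat_lit 4603115091) (nat_lit 76) (nat_lit 28099340592) (nat_lit 76) (nat_lit 8746418585) (nat_lit 8) (nat_lit 4) (nat_lit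 9) (nat_lit 5) (nat_lit 9) (nat_lit 4) (nat_lit 309) (nat_lit 226) (nat_lit 185)) (XT.nd (nat_lit 78) (nat_lit 76) (nat_lit 0) (XT.lf (nat_lit 0) (nat_lit 15087258311) (nat_lit 76) (nat_lit 23877635012) (nat_lit 76) (nat_lit 4380537563) (nat_lit 8) (nat_lit 4) (nat_lit 9) (nat_lit 5) (nat_lit 9) (nat_lit 4) (nat_lit 310) (nat_lit 226) (nat_lit 184)) (XT.lf (nat_lit 0) (nat_lit 141891156) (nat_lit 152) (nat_lit 19346368345) (nat_lit 76) (nat_lit 25850264068) (nat_lit 7) (nat_lit 5) (nat_lit 9) (nat_lit 5) (nat_lit 8) (nat_lit 4) (nat_lit 311) (nat_lit 226) (nat_lit 183))))) (XT.nd (nat_lit 234) (nat_lit 0) (nat_lit 0) (XT.nd (nat_lit 78) (nat_lit 76) (nat_lit 0) (XT.lf (nat_lit 0) (nat_lit 4745665672) (nat_lit 152) (nat_lit 10131477453) (nat_lit 76) (nat_lit 32554484160) (nat_lit 7) (nat_lit 5) (nat_lit 9) (nat_lit 5) (nat_lit 8) (nat_lit 4) (nat_lit 312) (nat_lit 226) (nat_lit 182)) (XT.nd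 (nat_lit 78) (nat_lit 76) (nat_lit 0) (XT.lf (nat_lit 0) (nat_lit 9527227417) (nat_lit 152) (nat_lit 549451279) (nat_lit 76) (nat_lit 39554310174) (nat_lit 7) (nat_lit 5) (nat_lit 9) (nat_lit 5) (nat_lit 8) (nat_lit 4) (nat_lit 313) (nat_lit 226) (nat_lit 181)) (XT.lf (nat_lit 0) (nat_lit 9610051239) (nat_lit 76) (nat_lit 4980287513) (nat_lit 152) (nat_lit 37348734814) (nat_lit 6) (nat_lit 5) (nat_lit 7) (nat_lit 5) (nat_lit 8) (nat_lit 4) (nat_lit 314) (nat_lit 226) (nat_lit 180)))) (XT.nd (nat_lit 78) (nat_lit 0) (nat_lit 0) (XT.lf (nat_lit 0) (nat_lit 19867153666) (nat_lit 152) (nat_lit 34164710843) (nat_lit 0) (nat_lit 331909336) (nat_lit 6) (nat_lit 5) (nat_lit 8) (nat_lit 4) (nat_lit 6) (nat_lit 4) (nat_lit 315) (nat_lit 226) (nat_lit 179)) (XT.nd (nat_lit 78) (nat_lit 0) (nat_lit 0) (XT.lf (nat_lit 0) (nat_lit 25411667387) (nat_lit 152) (nat_lit 25725981782) (nat_lit 0) (nat_lit 5771970693)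 (nat_lit 6) (nat_lit 5) (nat_lit 8) (nat_lit 4) (nat_lit 6) (nat_lit 4) (nat_lit 316) (nat_lit 226) (nat_lit 178)) (XT.lf (nat_lit 0) (nat_lit 31189207568) (nat_lit 152) (nat_lit 16944869361) (nat_lit 0) (nat_lit 11450032433) (nat_lit 6) (nat_lit 5) (nat_lit 8) (nat_lit 4) (nat_lit 6) (nat_lit 4) (nat_lit 317) (nat_lit 226) (nat_lit 177)))))) (XT.nd (nat_lit 390) (nat_lit 152) (nat_lit 0) (XT.nd (nat_lit 156) (nat_lit 0) (nat_lit 0) (XT.nd (nat_lit 78) (nat_lit 76) (nat_lit 0) (XT.lf (nat_lit 0) (nat_lit 37213530257) (nat_lit 152) (nat_lit 7800466170) (nat_lit 0) (nat_lit 17379613749) (nat_lit 6) (nat_lit 5) (nat_lit 8) (nat_lit 4) (nat_lit 6) (nat_lit 4) (nat_lit 318) (nat_lit 226) (nat_lit 176)) (XT.lf (nat_lit 0) (nat_lit 1763410673) (nat_lit 76) (nat_lit 41752519388) (nat_lit 76) (nat_lit 21828373001) (nat_lit 5) (nat_lit 4) (nat_lit 6) (nat_lit 5) (nat_lit 6) (nat_lit 4) (nat_lit 319)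 (nat_lit 226) (nat_lit 175))) (XT.nd (nat_lit 78) (nat_lit 0) (nat_lit 0) (XT.lf (nat_lit 0) (nat_lit 11898399523) (nat_lit 76) (nat_lit 38276494560) (nat_lit 76) (nat_lit 18266414955) (nat_lit 5) (nat_lit 4) (nat_lit 6) (nat_lit 5) (nat_lit 6) (nat_lit 4) (nat_lit 320) (nat_lit 226) (nat_lit 174)) (XT.nd (nat_lit 78) (nat_lit 0) (nat_lit 0) (XT.lf (nat_lit 0) (nat_lit 22473386736) (nat_lit 76) (nat_lit 34656415107) (nat_lit 76) (nat_lit 14564494342) (nat_lit 5) (nat_lit 4) (nat_lit 6) (nat_lit 5) (nat_lit 6) (nat_lit 4) (nat_lit 321) (nat_lit 226) (nat_lit 173)) (XT.lf (nat_lit 0) (nat_lit 33513550850) (nat_lit 76) (nat_lit 30883661792) (nat_lit 76) (nat_lit 10713797066) (nat_lit 5) (nat_lit 4) (nat_lit 6) (nat_lit 5) (nat_lit 6) (nat_lit 4) (nat_lit 322) (nat_lit 226) (nat_lit 172))))) (XT.nd (nat_lit 234) (nat_lit 76) (nat_lit 0) (XT.nd (nat_lit 78) (nat_lit 76) (nat_lit 0) (XT.lf (nat_lit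 0) (nat_lit 45045177972) (nat_lit 76) (nat_lit 26949251869) (nat_lit 76) (nat_lit 6705154798) (nat_lit 5) (nat_lit 4) (nat_lit 6) (nat_lit 5) (nat_lit 6) (nat_lit 4) (nat_lit 323) (nat_lit 226) (nat_lit 171)) (XT.nd (nat_lit 78) (nat_lit 76) (nat_lit 0) (XT.lf (nat_lit 0) (nat_lit 57095724357) (nat_lit 76) (nat_lit 22843817696) (nat_lit 76) (nat_lit 2529023153) (nat_lit 5) (nat_lit 4) (nat_lit 6) (nat_lit 5) (nat_lit 6) (nat_lit 4) (nat_lit 324) (nat_lit 226) (nat_lit 170)) (XT.lf (nat_lit 0) (nat_lit 1788937671) (nat_lit 152) (nat_lit 16750581993) (nat_lit 76) (nat_lit 67886879347) (nat_lit 4) (nat_lit 5) (nat_lit 6) (nat_lit 5) (nat_lit 5) (nat_lit 4) (nat_lit 325) (nat_lit 226) (nat_lit 169)))) (XT.nd (nat_lit 78) (nat_lit 76) (nat_lit 0) (XT.lf (nat_lit 0) (nat_lit 6241681704) (nat_lit 152) (nat_lit 7775636298) (nat_lit 76) (nat_lit 76564935407) (nat_lit 4) (nat_lit 5) (nat_lit 6) (nat_lit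 5) (nat_lit 5) (nat_lit 4) (nat_lit 326) (nat_lit 226) (nat_lit 168)) (XT.nd (nat_lit 78) (nat_lit 0) (nat_lit 0) (XT.lf (nat_lit 0) (nat_lit 1629472550) (nat_lit 76) (nat_lit 9275352002) (nat_lit 152) (nat_lit 84041458149) (nat_lit 3) (nat_lit 5) (nat_lit 4) (nat_lit 5) (nat_lit 5) (nat_lit 4) (nat_lit 327) (nat_lit 226) (nat_lit 167)) (XT.lf (nat_lit 0) (nat_lit 11618387923) (nat_lit 76) (nat_lit 4235736312) (nat_lit 152) (nat_lit 83672813540) (nat_lit 3) (nat_lit 5) (nat_lit 4) (nat_lit 5) (nat_lit 5) (nat_lit 4) (nat_lit 328) (nat_lit 226) (nat_lit 166))))))) (XT.nd (nat_lit 33072) (nat_lit 0) (nat_lit 2356) (XT.nd (nat_lit 32604) (nat_lit 0) (nat_lit 4940) (XT.nd (nat_lit 156) (nat_lit 0) (nat_lit 0) (XT.nd (nat_lit 78) (nat_lit 0) (nat_lit 0) (XT.lf (nat_lit 0) (nat_lit 21035082216) (nat_lit 152) (nat_lit 82287218506) (nat_lit 0) (nat_lit 1014812707) (nat_lit 3) (nat_lit 5) (nat_lit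 5) (nat_lit 4) (nat_lit 3) (nat_lit 4) (nat_lit 329) (nat_lit 226) (nat_lit 165)) (XT.lf (nat_lit 0) (nat_lit 26493120161) (nat_lit 152) (nat_lit 76472518041) (nat_lit 0) (nat_lit 6421631680) (nat_lit 3) (nat_lit 5) (nat_lit 5) (nat_lit 4) (nat_lit 3) (nat_lit 4) (nat_lit 330) (nat_lit 226) (nat_lit 164))) (XT.nd (nat_lit 78) (nat_lit 0) (nat_lit 0) (XT.lf (nat_lit 0) (nat_lit 32200516909) (nat_lit 152) (nat_lit 70409887445) (nat_lit 0) (nat_lit 12080248454) (nat_lit 3) (nat_lit 5) (nat_lit 5) (nat_lit 4) (nat_lit 3) (nat_lit 4) (nat_lit 331) (nat_lit 226) (nat_lit 163)) (XT.nd (nat_lit 78) (nat_lit 0) (nat_lit 0) (XT.lf (nat_lit 0) (nat_lit 38170861501) (nat_lit 152) (nat_lit 64084891883) (nat_lit 0) (nat_lit 18004135929) (nat_lit 3) (nat_lit 5) (nat_lit 5) (nat_lit 4) (nat_lit 3) (nat_lit 4) (nat_lit 332) (nat_lit 226) (nat_lit 162)) (XT.lf (nat_lit 0) (nat_lit 44418369043) (nat_lit 152)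 (nat_lit 57482471841) (nat_lit 0) (nat_lit 24207398597) (nat_lit 3) (nat_lit 5) (nat_lit 5) (nat_lit 4) (nat_lit 3) (nat_lit 4) (nat_lit 333) (nat_lit 226) (nat_lit 161))))) (XT.nd (nat_lit 234) (nat_lit 988) (nat_lit 0) (XT.nd (nat_lit 78) (nat_lit 836) (nat_lit 0) (XT.lf (nat_lit 0) (nat_lit 2258068503) (nat_lit 380) (nat_lit 1066318462) (nat_lit 380) (nat_lit 1066318462) (nat_lit 92) (nat_lit 4) (nat_lit 97) (nat_lit 5) (nat_lit 97) (nat_lit 4) (nat_lit 266) (nat_lit 227) (nat_lit 227)) (XT.nd (nat_lit 78) (nat_lit 456) (nat_lit 0) (XT.lf (nat_lit 0) (nat_lit 3488030815) (nat_lit 380) (nat_lit 3653533416) (nat_lit 0) (nat_lit 1844697072) (nat_lit 87) (nat_lit 5) (nat_lit 92) (nat_lit 4) (nat_lit 87) (nat_lit 4) (nat_lit 267) (nat_lit 227) (nat_lit 226)) (XT.lf (nat_lit 0) (nat_lit 29700686) (nat_lit 456) (nat_lit 3148121103) (nat_lit 76) (nat_lit 6026613535) (nat_lit 81) (nat_lit 5) (nat_lit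 87) (nat_lit 5) (nat_lit 82) (nat_lit 4) (nat_lit 268) (nat_lit 227) (nat_lit 225)))) (XT.nd (nat_lit 78) (nat_lit 684) (nat_lit 0) (XT.lf (nat_lit 0) (nat_lit 5603785162) (nat_lit 380) (nat_lit 2790279757) (nat_lit 0) (nat_lit 1041682594) (nat_lit 77) (nat_lit 5) (nat_lit 82) (nat_lit 4) (nat_lit 77) (nat_lit 4) (nat_lit 269) (nat_lit 227) (nat_lit 224)) (XT.nd (nat_lit 78) (nat_lit 304) (nat_lit 0) (XT.lf (nat_lit 0) (nat_lit 1652649473) (nat_lit 380) (nat_lit 2585450811) (nat_lit 76) (nat_lit 5443069483) (nat_lit 72) (nat_lit 5) (nat_lit 77) (nat_lit 5) (nat_lit 73) (nat_lit 4) (nat_lit 270) (nat_lit 227) (nat_lit 223)) (XT.lf (nat_lit 0) (nat_lit 7217488062) (nat_lit 380) (nat_lit 2548190081) (nat_lit 0) (nat_lit 175812262) (nat_lit 68) (nat_lit 5) (nat_lit 73) (nat_lit 4) (nat_lit 68) (nat_lit 4) (nat_lit 271) (nat_lit 227) (nat_lit 222)))))) (XT.nd (nat_lit 390) (nat_lit 1140) (nat_lit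 0) (XT.nd (nat_lit 156) (nat_lit 836) (nat_lit 0) (XT.nd (nat_lit 78) (nat_lit 228) (nat_lit 0) (XT.lf (nat_lit 0) (nat_lit 2720414900) (nat_lit 380) (nat_lit 2732915319) (nat_lit 76) (nat_lit 4763068636) (nat_lit 63) (nat_lit 5) (nat_lit 68) (nat_lit 5) (nat_lit 64) (nat_lit 4) (nat_lit 272) (nat_lit 227) (nat_lit 221)) (XT.lf (nat_lit 0) (nat_lit 7382797458) (nat_lit 228) (nat_lit 890129844) (nat_lit 304) (nat_lit 2234834330) (nat_lit 60) (nat_lit 5) (nat_lit 63) (nat_lit 5) (nat_lit 64) (nat_lit 4) (nat_lit 273) (nat_lit 227) (nat_lit 220))) (XT.nd (nat_lit 78) (nat_lit 532) (nat_lit 0) (XT.lf (nat_lit 0) (nat_lit 3158320565) (nat_lit 304) (nat_lit 3794521977) (nat_lit 76) (nat_lit 3862170274) (nat_lit 56) (nat_lit 5) (nat_lit 60) (nat_lit 5) (nat_lit 57) (nat_lit 4) (nat_lit 274) (nat_lit 227) (nat_lit 219)) (XT.nd (nat_lit 78) (nat_lit 304) (nat_lit 0) (XT.lf (nat_lit 0) (nat_lit 6403292510)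 (nat_lit 228) (nat_lit 2280004317) (nat_lit 304) (nat_lit 2456664808) (nat_lit 53) (nat_lit 5) (nat_lit 56) (nat_lit 5) (nat_lit 57) (nat_lit 4) (nat_lit 275) (nat_lit 227) (nat_lit 218)) (XT.lf (nat_lit 0) (nat_lit 2871998250) (nat_lit 304) (nat_lit 6007917870) (nat_lit 76) (nat_lit 2602789971) (nat_lit 49) (nat_lit 5) (nat_lit 53) (nat_lit 5) (nat_lit 50) (nat_lit 4) (nat_lit 276) (nat_lit 227) (nat_lit 217))))) (XT.nd (nat_lit 234) (nat_lit 456) (nat_lit 0) (XT.nd (nat_lit 78) (nat_lit 456) (nat_lit 0) (XT.lf (nat_lit 0) (nat_lit 4204507624) (nat_lit 228) (nat_lit 4139800190) (nat_lit 304) (nat_lit 3499930122) (nat_lit 46) (nat_lit 5) (nat_lit 49) (nat_lit 5) (nat_lit 50) (nat_lit 4) (nat_lit 277) (nat_lit 227) (nat_lit 216)) (XT.nd (nat_lit 78) (nat_lit 152) (nat_lit 0) (XT.lf (nat_lit 0) (nat_lit 1744464316) (nat_lit 304) (nat_lit 9651083275) (nat_lit 76) (nat_lit 830529506) (nat_lit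 42) (nat_lit 5) (nat_lit 46) (nat_lit 5) (nat_lit 43) (nat_lit 4) (nat_lit 278) (nat_lit 227) (nat_lit 215)) (XT.lf (nat_lit 0) (nat_lit 491059911) (nat_lit 152) (nat_lit 6638375027) (nat_lit 228) (nat_lit 5498205654) (nat_lit 40) (nat_lit 5) (nat_lit 42) (nat_lit 5) (nat_lit 43) (nat_lit 4) (nat_lit 279) (nat_lit 227) (nat_lit 214)))) (XT.nd (nat_lit 78) (nat_lit 456) (nat_lit 0) (XT.lf (nat_lit 0) (nat_lit 11073816200) (nat_lit 152) (nat_lit 1639123913) (nat_lit 228) (nat_lit 338648495) (nat_lit 40) (nat_lit 5) (nat_lit 42) (nat_lit 5) (nat_lit 43) (nat_lit 4) (nat_lit 280) (nat_lit 227) (nat_lit 213)) (XT.nd (nat_lit 78) (nat_lit 152) (nat_lit 0) (XT.lf (nat_lit 0) (nat_lit 4933292822) (nat_lit 304) (nat_lit 4984846047) (nat_lit 76) (nat_lit 3578696097) (nat_lit 36) (nat_lit 5) (nat_lit 40) (nat_lit 5) (nat_lit 37) (nat_lit 4) (nat_lit 281) (nat_lit 227) (nat_lit 212)) (XT.lf (nat_lit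 0) (nat_lit 5434281040) (nat_lit 152) (nat_lit 4957698792) (nat_lit 228) (nat_lit 3574521495) (nat_lit 34) (nat_lit 5) (nat_lit 36) (nat_lit 5) (nat_lit 37) (nat_lit 4) (nat_lit 282) (nat_lit 227) (nat_lit 211))))))))
noncomputable def xc27 : XT := (XT.nd (nat_lit 1716) (nat_lit 456) (nat_lit 0) (XT.nd (nat_lit 858) (nat_lit 532) (nat_lit 0) (XT.nd (nat_lit 390) (nat_lit 684) (nat_lit 0) (XT.nd (nat_lit 156) (nat_lit 380) (nat_lit 0) (XT.nd (nat_lit 78) (nat_lit 0) (nat_lit 0) (XT.lf (nat_lit 0) (nat_lit 1547083767) (nat_lit 228) (nat_lit 12676819364) (nat_lit 76) (nat_lit 237950506) (nat_lit 31) (nat_lit 5) (nat_lit 34) (nat_lit 5) (nat_lit 32) (nat_lit 4) (nat_lit 283) (nat_lit 227) (nat_lit 210)) (XT.lf (nat_lit 0) (nat_lit 6838706524) (nat_lit 228) (nat_lit 2517796389) (nat_lit 76) (nat_lit 5624916404) (nat_lit 31) (nat_lit 5) (nat_lit 34) (nat_lit 5) (nat_lit 32) (nat_lit 4) (nat_lit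 284) (nat_lit 227) (nat_lit 209))) (XT.nd (nat_lit 78) (nat_lit 228) (nat_lit 0) (XT.lf (nat_lit 0) (nat_lit 8070548675) (nat_lit 152) (nat_lit 4257594179) (nat_lit 228) (nat_lit 3200960028) (nat_lit 29) (nat_lit 5) (nat_lit 31) (nat_lit 5) (nat_lit 32) (nat_lit 4) (nat_lit 285) (nat_lit 227) (nat_lit 208)) (XT.nd (nat_lit 78) (nat_lit 0) (nat_lit 0) (XT.lf (nat_lit 0) (nat_lit 1872760447) (nat_lit 228) (nat_lit 13173396681) (nat_lit 76) (nat_lit 1059856398) (nat_lit 26) (nat_lit 5) (nat_lit 29) (nat_lit 5) (nat_lit 27) (nat_lit 4) (nat_lit 286) (nat_lit 227) (nat_lit 207)) (XT.lf (nat_lit 0) (nat_lit 7117604835) (nat_lit 228) (nat_lit 3015287291) (nat_lit 76) (nat_lit 6578537908) (nat_lit 26) (nat_lit 5) (nat_lit 29) (nat_lit 5) (nat_lit 27) (nat_lit 4) (nat_lit 287) (nat_lit 227) (nat_lit 206))))) (XT.nd (nat_lit 234) (nat_lit 304) (nat_lit 0) (XT.nd (nat_lit 78) (nat_lit 228) (nat_lit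 0) (XT.lf (nat_lit 0) (nat_lit 7580567868) (nat_lit 152) (nat_lit 4986050636) (nat_lit 228) (nat_lit 4782355596) (nat_lit 24) (nat_lit 5) (nat_lit 26) (nat_lit 5) (nat_lit 27) (nat_lit 4) (nat_lit 288) (nat_lit 227) (nat_lit 205)) (XT.nd (nat_lit 78) (nat_lit 0) (nat_lit 0) (XT.lf (nat_lit 0) (nat_lit 176483044) (nat_lit 228) (nat_lit 17479736339) (nat_lit 76) (nat_lit 364842381) (nat_lit 21) (nat_lit 5) (nat_lit 24) (nat_lit 5) (nat_lit 22) (nat_lit 4) (nat_lit 289) (nat_lit 227) (nat_lit 204)) (XT.lf (nat_lit 0) (nat_lit 5312336856) (nat_lit 228) (nat_lit 7464003153) (nat_lit 76) (nat_lit 5948254779) (nat_lit 21) (nat_lit 5) (nat_lit 24) (nat_lit 5) (nat_lit 22) (nat_lit 4) (nat_lit 290) (nat_lit 227) (nat_lit 203)))) (XT.nd (nat_lit 78) (nat_lit 228) (nat_lit 0) (XT.lf (nat_lit 0) (nat_lit 2907975893) (nat_lit 76) (nat_lit 7706086533) (nat_lit 152) (nat_lit 8852065731) (nat_lit 20) (nat_lit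 5) (nat_lit 21) (nat_lit 5) (nat_lit 22) (nat_lit 4) (nat_lit 291) (nat_lit 227) (nat_lit 202)) (XT.nd (nat_lit 78) (nat_lit 228) (nat_lit 0) (XT.lf (nat_lit 0) (nat_lit 13759013544) (nat_lit 76) (nat_lit 2383603136) (nat_lit 152) (nat_lit 4103360733) (nat_lit 20) (nat_lit 5) (nat_lit 21) (nat_lit 5) (nat_lit 22) (nat_lit 4) (nat_lit 292) (nat_lit 227) (nat_lit 201)) (XT.lf (nat_lit 0) (nat_lit 823438563) (nat_lit 228) (nat_lit 17129113862) (nat_lit 76) (nat_lit 3113360171) (nat_lit 17) (nat_lit 5) (nat_lit 20) (nat_lit 5) (nat_lit 18) (nat_lit 4) (nat_lit 293) (nat_lit 227) (nat_lit 200)))))) (XT.nd (nat_lit 390) (nat_lit 228) (nat_lit 0) (XT.nd (nat_lit 156) (nat_lit 228) (nat_lit 0) (XT.nd (nat_lit 78) (nat_lit 76) (nat_lit 0) (XT.lf (nat_lit 0) (nat_lit 5896003436) (nat_lit 228) (nat_lit 7159330658) (nat_lit 76) (nat_lit 8870843509) (nat_lit 17) (nat_lit 5) (nat_lit 20) (nat_lit 5) (nat_lit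 18) (nat_lit 4) (nat_lit 294) (nat_lit 227) (nat_lit 199)) (XT.lf (nat_lit 0) (nat_lit 3194456372) (nat_lit 76) (nat_lit 7955593449) (nat_lit 152) (nat_lit 11681647173) (nat_lit 16) (nat_lit 5) (nat_lit 17) (nat_lit 5) (nat_lit 18) (nat_lit 4) (nat_lit 295) (nat_lit 227) (nat_lit 198))) (XT.nd (nat_lit 78) (nat_lit 228) (nat_lit 0) (XT.lf (nat_lit 0) (nat_lit 14043789552) (nat_lit 76) (nat_lit 2597100977) (nat_lit 152) (nat_lit 7142452142) (nat_lit 16) (nat_lit 5) (nat_lit 17) (nat_lit 5) (nat_lit 18) (nat_lit 4) (nat_lit 296) (nat_lit 227) (nat_lit 197)) (XT.nd (nat_lit 78) (nat_lit 76) (nat_lit 0) (XT.lf (nat_lit 0) (nat_lit 467187108) (nat_lit 152) (nat_lit 21877172417) (nat_lit 152) (nat_lit 2440138118) (nat_lit 14) (nat_lit 4) (nat_lit 16) (nat_lit 5) (nat_lit 16) (nat_lit 4) (nat_lit 297) (nat_lit 227) (nat_lit 196)) (XT.lf (nat_lit 0) (nat_lit 2482521480) (nat_lit 228) (nat_lit 14659121893)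 (nat_lit 76) (nat_lit 8692392348) (nat_lit 13) (nat_lit 5) (nat_lit 16) (nat_lit 5) (nat_lit 14) (nat_lit 4) (nat_lit 298) (nat_lit 227) (nat_lit 195))))) (XT.nd (nat_lit 234) (nat_lit 152) (nat_lit 0) (XT.nd (nat_lit 78) (nat_lit 76) (nat_lit 0) (XT.lf (nat_lit 0) (nat_lit 7512265074) (nat_lit 228) (nat_lit 4697891157) (nat_lit 76) (nat_lit 14727888462) (nat_lit 13) (nat_lit 5) (nat_lit 16) (nat_lit 5) (nat_lit 14) (nat_lit 4) (nat_lit 299) (nat_lit 227) (nat_lit 194)) (XT.nd (nat_lit 78) (nat_lit 0) (nat_lit 0) (XT.lf (nat_lit 0) (nat_lit 5725275738) (nat_lit 76) (nat_lit 7038443242) (nat_lit 152) (nat_lit 15334486809) (nat_lit 12) (nat_lit 5) (nat_lit 13) (nat_lit 5) (nat_lit 14) (nat_lit 4) (nat_lit 300) (nat_lit 227) (nat_lit 193)) (XT.lf (nat_lit 0) (nat_lit 16624164938) (nat_lit 76) (nat_lit 1619787770) (nat_lit 152) (nat_lit 11073491607) (nat_lit 12) (nat_lit 5) (nat_lit 13) (nat_lit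 5) (nat_lit 14) (nat_lit 4) (nat_lit 301) (nat_lit 227) (nat_lit 192)))) (XT.nd (nat_lit 78) (nat_lit 152) (nat_lit 0) (XT.lf (nat_lit 0) (nat_lit 23958515484) (nat_lit 152) (nat_lit 2707374826) (nat_lit 0) (nat_lit 3932997883) (nat_lit 12) (nat_lit 5) (nat_lit 14) (nat_lit 4) (nat_lit 12) (nat_lit 4) (nat_lit 302) (nat_lit 227) (nat_lit 191)) (XT.nd (nat_lit 78) (nat_lit 76) (nat_lit 0) (XT.lf (nat_lit 0) (nat_lit 7781310541) (nat_lit 76) (nat_lit 22193592004) (nat_lit 76) (nat_lit 1969069256) (nat_lit 11) (nat_lit 4) (nat_lit 12) (nat_lit 5) (nat_lit 12) (nat_lit 4) (nat_lit 303) (nat_lit 227) (nat_lit 190)) (XT.lf (nat_lit 0) (nat_lit 2833180182) (nat_lit 152) (nat_lit 14662695688) (nat_lit 76) (nat_lit 15860993654) (nat_lit 10) (nat_lit 5) (nat_lit 12) (nat_lit 5) (nat_lit 11) (nat_lit 4) (nat_lit 304) (nat_lit 227) (nat_lit 189))))))) (XT.nd (nat_lit 858) (nat_lit 152) (nat_lit 0) (XT.nd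 (nat_lit 390) (nat_lit 228) (nat_lit 0) (XT.nd (nat_lit 156) (nat_lit 0) (nat_lit 0) (XT.nd (nat_lit 78) (nat_lit 76) (nat_lit 0) (XT.lf (nat_lit 0) (nat_lit 7765219046) (nat_lit 152) (nat_lit 4831160329) (nat_lit 76) (nat_lit 22245580280) (nat_lit 10) (nat_lit 5) (nat_lit 12) (nat_lit 5) (nat_lit 11) (nat_lit 4) (nat_lit 305) (nat_lit 227) (nat_lit 188)) (XT.lf (nat_lit 0) (nat_lit 5481239864) (nat_lit 76) (nat_lit 7448663085) (nat_lit 152) (nat_lit 23471862340) (nat_lit 9) (nat_lit 5) (nat_lit 10) (nat_lit 5) (nat_lit 11) (nat_lit 4) (nat_lit 306) (nat_lit 227) (nat_lit 187))) (XT.nd (nat_lit 78) (nat_lit 0) (nat_lit 0) (XT.lf (nat_lit 0) (nat_lit 16295919451) (nat_lit 76) (nat_lit 2042063111) (nat_lit 152) (nat_lit 19702064070) (nat_lit 9) (nat_lit 5) (nat_lit 10) (nat_lit 5) (nat_lit 11) (nat_lit 4) (nat_lit 307) (nat_lit 227) (nat_lit 186)) (XT.nd (nat_lit 78) (nat_lit 0) (nat_lit 0)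 (XT.lf (nat_lit 0) (nat_lit 23989455271) (nat_lit 152) (nat_lit 12254132504) (nat_lit 0) (nat_lit 3517502950) (nat_lit 9) (nat_lit 5) (nat_lit 11) (nat_lit 4) (nat_lit 9) (nat_lit 4) (nat_lit 308) (nat_lit 227) (nat_lit 185)) (XT.lf (nat_lit 0) (nat_lit 29885111274) (nat_lit 152) (nat_lit 2415280478) (nat_lit 0) (nat_lit 9268983511) (nat_lit 9) (nat_lit 5) (nat_lit 11) (nat_lit 4) (nat_lit 9) (nat_lit 4) (nat_lit 309) (nat_lit 227) (nat_lit 184))))) (XT.nd (nat_lit 234) (nat_lit 76) (nat_lit 0) (XT.nd (nat_lit 78) (nat_lit 76) (nat_lit 0) (XT.lf (nat_lit 0) (nat_lit 7971027756) (nat_lit 76) (nat_lit 28124952926) (nat_lit 76) (nat_lit 7371515218) (nat_lit 8) (nat_lit 4) (nat_lit 9) (nat_lit 5) (nat_lit 9) (nat_lit 4) (nat_lit 310) (nat_lit 227) (nat_lit 183)) (XT.nd (nat_lit 78) (nat_lit 76) (nat_lit 0) (XT.lf (nat_lit 0) (nat_lit 18829961141) (nat_lit 76) (nat_lit 23757845624) (nat_lit 76)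 (nat_lit 2873636541) (nat_lit 8) (nat_lit 4) (nat_lit 9) (nat_lit 5) (nat_lit 9) (nat_lit 4) (nat_lit 311) (nat_lit 227) (nat_lit 182)) (XT.lf (nat_lit 0) (nat_lit 1760651267) (nat_lit 152) (nat_lit 17434631176) (nat_lit 76) (nat_lit 28360875070) (nat_lit 7) (nat_lit 5) (nat_lit 9) (nat_lit 5) (nat_lit 8) (nat_lit 4) (nat_lit 312) (nat_lit 227) (nat_lit 181)))) (XT.nd (nat_lit 78) (nat_lit 76) (nat_lit 0) (XT.lf (nat_lit 0) (nat_lit 6517868530) (nat_lit 152) (nat_lit 7896093625) (nat_lit 76) (nat_lit 35342301510) (nat_lit 7) (nat_lit 5) (nat_lit 9) (nat_lit 5) (nat_lit 8) (nat_lit 4) (nat_lit 313) (nat_lit 227) (nat_lit 180)) (XT.nd (nat_lit 78) (nat_lit 0) (nat_lit 0) (XT.lf (nat_lit 0) (nat_lit 2074954274) (nat_lit 76) (nat_lit 9410408409) (nat_lit 152) (nat_lit 40581867750) (nat_lit 6) (nat_lit 5) (nat_lit 7) (nat_lit 5) (nat_lit 8) (nat_lit 4) (nat_lit 314) (nat_lit 227) (nat_lit 179))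 (XT.lf (nat_lit 0) (nat_lit 12627087166) (nat_lit 76) (nat_lit 4109368535) (nat_lit 152) (nat_lit 37756259578) (nat_lit 6) (nat_lit 5) (nat_lit 7) (nat_lit 5) (nat_lit 8) (nat_lit 4) (nat_lit 315) (nat_lit 227) (nat_lit 178)))))) (XT.nd (nat_lit 468) (nat_lit 76) (nat_lit 0) (XT.nd (nat_lit 234) (nat_lit 76) (nat_lit 0) (XT.nd (nat_lit 78) (nat_lit 0) (nat_lit 0) (XT.lf (nat_lit 0) (nat_lit 22219907060) (nat_lit 152) (nat_lit 33426203675) (nat_lit 0) (nat_lit 1394294727) (nat_lit 6) (nat_lit 5) (nat_lit 8) (nat_lit 4) (nat_lit 6) (nat_lit 4) (nat_lit 316) (nat_lit 227) (nat_lit 177)) (XT.nd (nat_lit 78) (nat_lit 0) (nat_lit 0) (XT.lf (nat_lit 0) (nat_lit 27976913338) (nat_lit 152) (nat_lit 24682049718) (nat_lit 0) (nat_lit 7056559632) (nat_lit 6) (nat_lit 5) (nat_lit 8) (nat_lit 4) (nat_lit 6) (nat_lit 4) (nat_lit 317) (nat_lit 227) (nat_lit 176)) (XT.lf (nat_lit 0) (nat_lit 33981679929)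 (nat_lit 152) (nat_lit 15572845064) (nat_lit 0) (nat_lit 12971096344) (nat_lit 6) (nat_lit 5) (nat_lit 8) (nat_lit 4) (nat_lit 6) (nat_lit 4) (nat_lit 318) (nat_lit 227) (nat_lit 175)))) (XT.nd (nat_lit 78) (nat_lit 76) (nat_lit 0) (XT.lf (nat_lit 0) (nat_lit 40248503896) (nat_lit 152) (nat_lit 6076901130) (nat_lit 0) (nat_lit 19151987093) (nat_lit 6) (nat_lit 5) (nat_lit 8) (nat_lit 4) (nat_lit 6) (nat_lit 4) (nat_lit 319) (nat_lit 227) (nat_lit 174)) (XT.nd (nat_lit 78) (nat_lit 0) (nat_lit 0) (XT.lf (nat_lit 0) (nat_lit 3904583968) (nat_lit 76) (nat_lit 42925255529) (nat_lit 76) (nat_lit 21746897566) (nat_lit 5) (nat_lit 4) (nat_lit 6) (nat_lit 5) (nat_lit 6) (nat_lit 4) (nat_lit 320) (nat_lit 227) (nat_lit 173)) (XT.lf (nat_lit 0) (nat_lit 14448560225) (nat_lit 76) (nat_lit 39318995643) (nat_lit 76) (nat_lit 18062693717) (nat_lit 5) (nat_lit 4) (nat_lit 6) (nat_lit 5) (nat_lit 6) (nat_lit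 4) (nat_lit 321) (nat_lit 227) (nat_lit 172))))) (XT.nd (nat_lit 234) (nat_lit 76) (nat_lit 0) (XT.nd (nat_lit 78) (nat_lit 0) (nat_lit 0) (XT.lf (nat_lit 0) (nat_lit 25459190097) (nat_lit 76) (nat_lit 35559403819) (nat_lit 76) (nat_lit 14228869549) (nat_lit 5) (nat_lit 4) (nat_lit 6) (nat_lit 5) (nat_lit 6) (nat_lit 4) (nat_lit 322) (nat_lit 227) (nat_lit 171)) (XT.nd (nat_lit 78) (nat_lit 0) (nat_lit 0) (XT.lf (nat_lit 0) (nat_lit 36962689368) (nat_lit 76) (nat_lit 31637528650) (nat_lit 76) (nat_lit 10236296909) (nat_lit 5) (nat_lit 4) (nat_lit 6) (nat_lit 5) (nat_lit 6) (nat_lit 4) (nat_lit 323) (nat_lit 227) (nat_lit 170)) (XT.lf (nat_lit 0) (nat_lit 48986447324) (nat_lit 76) (nat_lit 27544032337) (nat_lit 76) (nat_lit 6075469671) (nat_lit 5) (nat_lit 4) (nat_lit 6) (nat_lit 5) (nat_lit 6) (nat_lit 4) (nat_lit 324) (nat_lit 227) (nat_lit 169)))) (XT.nd (nat_lit 78) (nat_lit 76) (nat_lit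 0) (XT.lf (nat_lit 0) (nat_lit 61559091959) (nat_lit 76) (nat_lit 23269168460) (nat_lit 76) (nat_lit 1736481104) (nat_lit 5) (nat_lit 4) (nat_lit 6) (nat_lit 5) (nat_lit 6) (nat_lit 4) (nat_lit 325) (nat_lit 227) (nat_lit 168)) (XT.nd (nat_lit 78) (nat_lit 0) (nat_lit 0) (XT.lf (nat_lit 0) (nat_lit 2736537258) (nat_lit 152) (nat_lit 16038587854) (nat_lit 76) (nat_lit 71946387221) (nat_lit 4) (nat_lit 5) (nat_lit 6) (nat_lit 5) (nat_lit 5) (nat_lit 4) (nat_lit 326) (nat_lit 227) (nat_lit 167)) (XT.lf (nat_lit 0) (nat_lit 7371054078) (nat_lit 152) (nat_lit 6688681695) (nat_lit 76) (nat_lit 81026671613) (nat_lit 4) (nat_lit 5) (nat_lit 6) (nat_lit 5) (nat_lit 5) (nat_lit 4) (nat_lit 327) (nat_lit 227) (nat_lit 166))))))))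
noncomputable def xc28 : XT := (XT.nd (nat_lit 33852) (nat_lit 0) (nat_lit 684) (XT.nd (nat_lit 32994) (nat_lit 0) (nat_lit 2812) (XT.nd (nat_lit 32526) (nat_lit 0) (nat_lit 5624) (XT.nd (nat_lit 156) (nat_lit 0) (nat_lit 0) (XT.nd (nat_lit 78) (nat_lit 0) (nat_lit 0) (XT.lf (nat_lit 0) (nat_lit 3144380908) (nat_lit 76) (nat_lit 9097833722) (nat_lit 152) (nat_lit 87427198650) (nat_lit 3) (nat_lit 5) (nat_lit 4) (nat_lit 5) (nat_lit 5) (nat_lit 4) (nat_lit 328) (nat_lit 227) (nat_lit 165)) (XT.lf (nat_lit 0) (nat_lit 13564483252) (nat_lit 76) (nat_lit 3836774671) (nat_lit 152) (nat_lit 87078994782) (nat_lit 3) (nat_lit 5) (nat_lit 4) (nat_lit 5) (nat_lit 5) (nat_lit 4) (nat_lit 329) (nat_lit 227) (nat_lit 164))) (XT.nd (nat_lit 78) (nat_lit 0) (nat_lit 0) (XT.lf (nat_lit 0) (nat_lit 22810930008) (nat_lit 152) (nat_lit 85085067999) (nat_lit 0) (nat_lit 1635868156) (nat_lit 3) (nat_lit 5) (nat_lit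 5) (nat_lit 4) (nat_lit 3) (nat_lit 4) (nat_lit 330) (nat_lit 227) (nat_lit 163)) (XT.nd (nat_lit 78) (nat_lit 0) (nat_lit 0) (XT.lf (nat_lit 0) (nat_lit 28507389198) (nat_lit 152) (nat_lit 79042323531) (nat_lit 0) (nat_lit 7285870229) (nat_lit 3) (nat_lit 5) (nat_lit 5) (nat_lit 4) (nat_lit 3) (nat_lit 4) (nat_lit 331) (nat_lit 227) (nat_lit 162)) (XT.lf (nat_lit 0) (nat_lit 34467317068) (nat_lit 152) (nat_lit 72736267139) (nat_lit 0) (nat_lit 13201553225) (nat_lit 3) (nat_lit 5) (nat_lit 5) (nat_lit 4) (nat_lit 3) (nat_lit 4) (nat_lit 332) (nat_lit 227) (nat_lit 161))))) (XT.nd (nat_lit 234) (nat_lit 1140) (nat_lit 0) (XT.nd (nat_lit 78) (nat_lit 836) (nat_lit 0) (XT.lf (nat_lit 0) (nat_lit 1395126080) (nat_lit 456) (nat_lit 1403754898) (nat_lit 456) (nat_lit 1403754898) (nat_lit 103) (nat_lit 4) (nat_lit 109) (nat_lit 5) (nat_lit 109) (nat_lit 4) (nat_lit 264) (nat_lit 228) (nat_lit 228))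 (XT.nd (nat_lit 78) (nat_lit 380) (nat_lit 0) (XT.lf (nat_lit 0) (nat_lit 2696174666) (nat_lit 456) (nat_lit 4974102567) (nat_lit 0) (nat_lit 918909224) (nat_lit 97) (nat_lit 5) (nat_lit 103) (nat_lit 4) (nat_lit 97) (nat_lit 4) (nat_lit 265) (nat_lit 228) (nat_lit 227)) (XT.lf (nat_lit 0) (nat_lit 4362461928) (nat_lit 380) (nat_lit 3946288005) (nat_lit 380) (nat_lit 476388808) (nat_lit 92) (nat_lit 4) (nat_lit 97) (nat_lit 5) (nat_lit 97) (nat_lit 4) (nat_lit 266) (nat_lit 228) (nat_lit 226)))) (XT.nd (nat_lit 78) (nat_lit 760) (nat_lit 0) (XT.lf (nat_lit 0) (nat_lit 4978144293) (nat_lit 380) (nat_lit 3971344798) (nat_lit 0) (nat_lit 44230366) (nat_lit 87) (nat_lit 5) (nat_lit 92) (nat_lit 4) (nat_lit 87) (nat_lit 4) (nat_lit 267) (nat_lit 228) (nat_lit 225)) (XT.nd (nat_lit 78) (nat_lit 304) (nat_lit 0) (XT.lf (nat_lit 0) (nat_lit 1368197060) (nat_lit 456) (nat_lit 3647026042) (nat_lit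 76) (nat_lit 4199878480) (nat_lit 81) (nat_lit 5) (nat_lit 87) (nat_lit 5) (nat_lit 82) (nat_lit 4) (nat_lit 268) (nat_lit 228) (nat_lit 224)) (XT.lf (nat_lit 0) (nat_lit 5998542649) (nat_lit 304) (nat_lit 820463359) (nat_lit 380) (nat_lit 2631276371) (nat_lit 77) (nat_lit 5) (nat_lit 81) (nat_lit 5) (nat_lit 82) (nat_lit 4) (nat_lit 269) (nat_lit 228) (nat_lit 223)))))) (XT.nd (nat_lit 390) (nat_lit 1216) (nat_lit 0) (XT.nd (nat_lit 156) (nat_lit 912) (nat_lit 0) (XT.nd (nat_lit 78) (nat_lit 304) (nat_lit 0) (XT.lf (nat_lit 0) (nat_lit 2709466343) (nat_lit 380) (nat_lit 3427952533) (nat_lit 76) (nat_lit 3561710195) (nat_lit 72) (nat_lit 5) (nat_lit 77) (nat_lit 5) (nat_lit 73) (nat_lit 4) (nat_lit 270) (nat_lit 228) (nat_lit 222)) (XT.lf (nat_lit 0) (nat_lit 6390536296) (nat_lit 304) (nat_lit 1771433027) (nat_lit 380) (nat_lit 1801000458) (nat_lit 68) (nat_lit 5) (nat_lit 72) (nat_lit 5)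 (nat_lit 73) (nat_lit 4) (nat_lit 271) (nat_lit 228) (nat_lit 221))) (XT.nd (nat_lit 78) (nat_lit 532) (nat_lit 0) (XT.lf (nat_lit 0) (nat_lit 3497860034) (nat_lit 380) (nat_lit 3937038742) (nat_lit 76) (nat_lit 2806678354) (nat_lit 63) (nat_lit 5) (nat_lit 68) (nat_lit 5) (nat_lit 64) (nat_lit 4) (nat_lit 272) (nat_lit 228) (nat_lit 220)) (XT.nd (nat_lit 78) (nat_lit 304) (nat_lit 0) (XT.lf (nat_lit 0) (nat_lit 6012923817) (nat_lit 228) (nat_lit 2928683853) (nat_lit 304) (nat_lit 1594727277) (nat_lit 60) (nat_lit 5) (nat_lit 63) (nat_lit 5) (nat_lit 64) (nat_lit 4) (nat_lit 273) (nat_lit 228) (nat_lit 219)) (XT.lf (nat_lit 0) (nat_lit 3657338821) (nat_lit 304) (nat_lit 5378479569) (nat_lit 76) (nat_lit 1811563229) (nat_lit 56) (nat_lit 5) (nat_lit 60) (nat_lit 5) (nat_lit 57) (nat_lit 4) (nat_lit 274) (nat_lit 228) (nat_lit 218))))) (XT.nd (nat_lit 234) (nat_lit 456) (nat_lit 0) (XT.nd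 (nat_lit 78) (nat_lit 532) (nat_lit 0) (XT.lf (nat_lit 0) (nat_lit 4649616623) (nat_lit 228) (nat_lit 4425216134) (nat_lit 304) (nat_lit 2100838476) (nat_lit 53) (nat_lit 5) (nat_lit 56) (nat_lit 5) (nat_lit 57) (nat_lit 4) (nat_lit 275) (nat_lit 228) (nat_lit 217)) (XT.nd (nat_lit 78) (nat_lit 228) (nat_lit 0) (XT.lf (nat_lit 0) (nat_lit 3092239506) (nat_lit 304) (nat_lit 7990275824) (nat_lit 76) (nat_lit 439764554) (nat_lit 49) (nat_lit 5) (nat_lit 53) (nat_lit 5) (nat_lit 50) (nat_lit 4) (nat_lit 276) (nat_lit 228) (nat_lit 216)) (XT.lf (nat_lit 0) (nat_lit 2048168235) (nat_lit 228) (nat_lit 6409649120) (nat_lit 304) (nat_lit 3429298765) (nat_lit 46) (nat_lit 5) (nat_lit 49) (nat_lit 5) (nat_lit 50) (nat_lit 4) (nat_lit 277) (nat_lit 228) (nat_lit 215)))) (XT.nd (nat_lit 78) (nat_lit 152) (nat_lit 0) (XT.lf (nat_lit 0) (nat_lit 207226543) (nat_lit 228) (nat_lit 1491448699) (nat_lit 304)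 (nat_lit 10573805652) (nat_lit 42) (nat_lit 5) (nat_lit 45) (nat_lit 5) (nat_lit 46) (nat_lit 5) (nat_lit 278) (nat_lit 228) (nat_lit 214)) (XT.nd (nat_lit 78) (nat_lit 152) (nat_lit 0) (XT.lf (nat_lit 0) (nat_lit 6982888527) (nat_lit 304) (nat_lit 2046620348) (nat_lit 76) (nat_lit 3647648443) (nat_lit 42) (nat_lit 5) (nat_lit 46) (nat_lit 5) (nat_lit 43) (nat_lit 4) (nat_lit 279) (nat_lit 228) (nat_lit 213)) (XT.lf (nat_lit 0) (nat_lit 8370817276) (nat_lit 152) (nat_lit 4096504149) (nat_lit 228) (nat_lit 636841990) (nat_lit 40) (nat_lit 5) (nat_lit 42) (nat_lit 5) (nat_lit 43) (nat_lit 4) (nat_lit 280) (nat_lit 228) (nat_lit 212))))))) (XT.nd (nat_lit 858) (nat_lit 684) (nat_lit 0) (XT.nd (nat_lit 390) (nat_lit 608) (nat_lit 0) (XT.nd (nat_lit 156) (nat_lit 380) (nat_lit 0) (XT.nd (nat_lit 78) (nat_lit 152) (nat_lit 0) (XT.lf (nat_lit 0) (nat_lit 4512327836) (nat_lit 304) (nat_lit 7946491955)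 (nat_lit 76) (nat_lit 1094613119) (nat_lit 36) (nat_lit 5) (nat_lit 40) (nat_lit 5) (nat_lit 37) (nat_lit 4) (nat_lit 281) (nat_lit 228) (nat_lit 211)) (XT.lf (nat_lit 0) (nat_lit 2292662913) (nat_lit 152) (nat_lit 7574166521) (nat_lit 228) (nat_lit 4159471056) (nat_lit 34) (nat_lit 5) (nat_lit 36) (nat_lit 5) (nat_lit 37) (nat_lit 4) (nat_lit 282) (nat_lit 228) (nat_lit 210))) (XT.nd (nat_lit 78) (nat_lit 304) (nat_lit 0) (XT.lf (nat_lit 0) (nat_lit 881683508) (nat_lit 228) (nat_lit 1560012834) (nat_lit 76) (nat_lit 12082951055) (nat_lit 33) (nat_lit 5) (nat_lit 36) (nat_lit 5) (nat_lit 34) (nat_lit 5) (nat_lit 283) (nat_lit 228) (nat_lit 209)) (XT.nd (nat_lit 78) (nat_lit 152) (nat_lit 0) (XT.lf (nat_lit 0) (nat_lit 6063976531) (nat_lit 228) (nat_lit 6048698713) (nat_lit 76) (nat_lit 2934884347) (nat_lit 31) (nat_lit 5) (nat_lit 34) (nat_lit 5) (nat_lit 32) (nat_lit 4) (nat_lit 284) (nat_lit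 228) (nat_lit 208)) (XT.lf (nat_lit 0) (nat_lit 4357498199) (nat_lit 152) (nat_lit 7093162565) (nat_lit 228) (nat_lit 4147728406) (nat_lit 29) (nat_lit 5) (nat_lit 31) (nat_lit 5) (nat_lit 32) (nat_lit 4) (nat_lit 285) (nat_lit 228) (nat_lit 207))))) (XT.nd (nat_lit 234) (nat_lit 228) (nat_lit 0) (XT.nd (nat_lit 78) (nat_lit 304) (nat_lit 0) (XT.lf (nat_lit 0) (nat_lit 840190599) (nat_lit 228) (nat_lit 995264210) (nat_lit 76) (nat_lit 14343304991) (nat_lit 28) (nat_lit 5) (nat_lit 31) (nat_lit 5) (nat_lit 29) (nat_lit 5) (nat_lit 286) (nat_lit 228) (nat_lit 206)) (XT.nd (nat_lit 78) (nat_lit 152) (nat_lit 0) (XT.lf (nat_lit 0) (nat_lit 5993663228) (nat_lit 228) (nat_lit 7124657315) (nat_lit 76) (nat_lit 3668652793) (nat_lit 26) (nat_lit 5) (nat_lit 29) (nat_lit 5) (nat_lit 27) (nat_lit 4) (nat_lit 287) (nat_lit 228) (nat_lit 205)) (XT.lf (nat_lit 0) (nat_lit 3286080370) (nat_lit 152) (nat_lit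 8054482768) (nat_lit 228) (nat_lit 6087070891) (nat_lit 24) (nat_lit 5) (nat_lit 26) (nat_lit 5) (nat_lit 27) (nat_lit 4) (nat_lit 288) (nat_lit 228) (nat_lit 204)))) (XT.nd (nat_lit 78) (nat_lit 228) (nat_lit 0) (XT.lf (nat_lit 0) (nat_lit 14164494035) (nat_lit 152) (nat_lit 2742948521) (nat_lit 228) (nat_lit 1194410059) (nat_lit 24) (nat_lit 5) (nat_lit 26) (nat_lit 5) (nat_lit 27) (nat_lit 4) (nat_lit 289) (nat_lit 228) (nat_lit 203)) (XT.nd (nat_lit 78) (nat_lit 0) (nat_lit 0) (XT.lf (nat_lit 0) (nat_lit 3841412944) (nat_lit 228) (nat_lit 12162954956) (nat_lit 76) (nat_lit 2805109184) (nat_lit 21) (nat_lit 5) (nat_lit 24) (nat_lit 5) (nat_lit 22) (nat_lit 4) (nat_lit 290) (nat_lit 228) (nat_lit 202)) (XT.lf (nat_lit 0) (nat_lit 9059959172) (nat_lit 228) (nat_lit 1941233597) (nat_lit 76) (nat_lit 8552357693) (nat_lit 21) (nat_lit 5) (nat_lit 24) (nat_lit 5) (nat_lit 22) (nat_lit 4) (nat_lit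 291) (nat_lit 228) (nat_lit 201)))))) (XT.nd (nat_lit 390) (nat_lit 304) (nat_lit 0) (XT.nd (nat_lit 156) (nat_lit 304) (nat_lit 0) (XT.nd (nat_lit 78) (nat_lit 0) (nat_lit 0) (XT.lf (nat_lit 0) (nat_lit 8780337613) (nat_lit 76) (nat_lit 5735674694) (nat_lit 152) (nat_lit 5819604949) (nat_lit 20) (nat_lit 5) (nat_lit 21) (nat_lit 5) (nat_lit 22) (nat_lit 4) (nat_lit 292) (nat_lit 228) (nat_lit 200)) (XT.lf (nat_lit 0) (nat_lit 19901214626) (nat_lit 76) (nat_lit 259244088) (nat_lit 152) (nat_lit 998943942) (nat_lit 20) (nat_lit 5) (nat_lit 21) (nat_lit 5) (nat_lit 22) (nat_lit 4) (nat_lit 293) (nat_lit 228) (nat_lit 199))) (XT.nd (nat_lit 78) (nat_lit 76) (nat_lit 0) (XT.lf (nat_lit 0) (nat_lit 4027992019) (nat_lit 228) (nat_lit 12547255337) (nat_lit 76) (nat_lit 5446699469) (nat_lit 17) (nat_lit 5) (nat_lit 20) (nat_lit 5) (nat_lit 18) (nat_lit 4) (nat_lit 294) (nat_lit 228) (nat_lit 198))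 (XT.nd (nat_lit 78) (nat_lit 76) (nat_lit 0) (XT.lf (nat_lit 0) (nat_lit 9203547920) (nat_lit 228) (nat_lit 2337950316) (nat_lit 76) (nat_lit 11388358342) (nat_lit 17) (nat_lit 5) (nat_lit 20) (nat_lit 5) (nat_lit 18) (nat_lit 4) (nat_lit 295) (nat_lit 228) (nat_lit 197)) (XT.lf (nat_lit 0) (nat_lit 8385061126) (nat_lit 76) (nat_lit 6240131397) (nat_lit 152) (nat_lit 9258419565) (nat_lit 16) (nat_lit 5) (nat_lit 17) (nat_lit 5) (nat_lit 18) (nat_lit 4) (nat_lit 296) (nat_lit 228) (nat_lit 196))))) (XT.nd (nat_lit 234) (nat_lit 76) (nat_lit 0) (XT.nd (nat_lit 78) (nat_lit 228) (nat_lit 0) (XT.lf (nat_lit 0) (nat_lit 19537295160) (nat_lit 76) (nat_lit 714344860) (nat_lit 152) (nat_lit 4635470019) (nat_lit 16) (nat_lit 5) (nat_lit 17) (nat_lit 5) (nat_lit 18) (nat_lit 4) (nat_lit 297) (nat_lit 228) (nat_lit 195)) (XT.nd (nat_lit 78) (nat_lit 0) (nat_lit 0) (XT.lf (nat_lit 0) (nat_lit 226753078)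 (nat_lit 228) (nat_lit 20734018731) (nat_lit 76) (nat_lit 4979637550) (nat_lit 13) (nat_lit 5) (nat_lit 16) (nat_lit 5) (nat_lit 14) (nat_lit 4) (nat_lit 298) (nat_lit 228) (nat_lit 194)) (XT.lf (nat_lit 0) (nat_lit 5215125101) (nat_lit 228) (nat_lit 10844908058) (nat_lit 76) (nat_lit 10985654792) (nat_lit 13) (nat_lit 5) (nat_lit 16) (nat_lit 5) (nat_lit 14) (nat_lit 4) (nat_lit 299) (nat_lit 228) (nat_lit 193)))) (XT.nd (nat_lit 78) (nat_lit 76) (nat_lit 0) (XT.lf (nat_lit 0) (nat_lit 10372142659) (nat_lit 228) (nat_lit 602147687) (nat_lit 76) (nat_lit 17234418909) (nat_lit 13) (nat_lit 5) (nat_lit 16) (nat_lit 5) (nat_lit 14) (nat_lit 4) (nat_lit 300) (nat_lit 228) (nat_lit 192)) (XT.nd (nat_lit 78) (nat_lit 0) (nat_lit 0) (XT.lf (nat_lit 0) (nat_lit 10218040683) (nat_lit 76) (nat_lit 5590265737) (nat_lit 152) (nat_lit 13620989286) (nat_lit 12) (nat_lit 5) (nat_lit 13) (nat_lit 5) (nat_lit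 14) (nat_lit 4) (nat_lit 301) (nat_lit 228) (nat_lit 191)) (XT.lf (nat_lit 0) (nat_lit 21448092055) (nat_lit 152) (nat_lit 9251577417) (nat_lit 0) (nat_lit 13338022) (nat_lit 12) (nat_lit 5) (nat_lit 14) (nat_lit 4) (nat_lit 12) (nat_lit 4) (nat_lit 302) (nat_lit 228) (nat_lit 190))))))))
noncomputable def xc29 : XT := (XT.nd (nat_lit 1716) (nat_lit 152) (nat_lit 0) (XT.nd (nat_lit 858) (nat_lit 152) (nat_lit 0) (XT.nd (nat_lit 390) (nat_lit 152) (nat_lit 0) (XT.nd (nat_lit 156) (nat_lit 76) (nat_lit 0) (XT.nd (nat_lit 78) (nat_lit 76) (nat_lit 0) (XT.lf (nat_lit 0) (nat_lit 1044317707) (nat_lit 76) (nat_lit 26320534190) (nat_lit 76) (nat_lit 4696251446) (nat_lit 11) (nat_lit 4) (nat_lit 12) (nat_lit 5) (nat_lit 12) (nat_lit 4) (nat_lit 303) (nat_lit 228) (nat_lit 189)) (XT.lf (nat_lit 0) (nat_lit 125079417) (nat_lit 152) (nat_lit 21550875062) (nat_lit 76) (nat_lit 11799878781) (nat_lit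 10) (nat_lit 5) (nat_lit 12) (nat_lit 5) (nat_lit 11) (nat_lit 4) (nat_lit 304) (nat_lit 228) (nat_lit 188))) (XT.nd (nat_lit 78) (nat_lit 76) (nat_lit 0) (XT.lf (nat_lit 0) (nat_lit 5024608069) (nat_lit 152) (nat_lit 11776740027) (nat_lit 76) (nat_lit 18160571229) (nat_lit 10) (nat_lit 5) (nat_lit 12) (nat_lit 5) (nat_lit 11) (nat_lit 4) (nat_lit 305) (nat_lit 228) (nat_lit 187)) (XT.nd (nat_lit 78) (nat_lit 76) (nat_lit 0) (XT.lf (nat_lit 0) (nat_lit 10105640834) (nat_lit 152) (nat_lit 1625965540) (nat_lit 76) (nat_lit 24792647763) (nat_lit 10) (nat_lit 5) (nat_lit 12) (nat_lit 5) (nat_lit 11) (nat_lit 4) (nat_lit 306) (nat_lit 228) (nat_lit 186)) (XT.lf (nat_lit 0) (nat_lit 9103254186) (nat_lit 76) (nat_lit 6364527272) (nat_lit 152) (nat_lit 22696150903) (nat_lit 9) (nat_lit 5) (nat_lit 10) (nat_lit 5) (nat_lit 11) (nat_lit 4) (nat_lit 307) (nat_lit 228) (nat_lit 185))))) (XT.nd (nat_lit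 234) (nat_lit 76) (nat_lit 0) (XT.nd (nat_lit 78) (nat_lit 76) (nat_lit 0) (XT.lf (nat_lit 0) (nat_lit 20299241451) (nat_lit 76) (nat_lit 756957727) (nat_lit 152) (nat_lit 18830686746) (nat_lit 9) (nat_lit 5) (nat_lit 10) (nat_lit 5) (nat_lit 11) (nat_lit 4) (nat_lit 308) (nat_lit 228) (nat_lit 184)) (XT.nd (nat_lit 78) (nat_lit 76) (nat_lit 0) (XT.lf (nat_lit 0) (nat_lit 26917168211) (nat_lit 152) (nat_lit 9790311158) (nat_lit 0) (nat_lit 4988748673) (nat_lit 9) (nat_lit 5) (nat_lit 11) (nat_lit 4) (nat_lit 9) (nat_lit 4) (nat_lit 309) (nat_lit 228) (nat_lit 183)) (XT.lf (nat_lit 0) (nat_lit 401823154) (nat_lit 76) (nat_lit 32627349278) (nat_lit 76) (nat_lit 10568158365) (nat_lit 8) (nat_lit 4) (nat_lit 9) (nat_lit 5) (nat_lit 9) (nat_lit 4) (nat_lit 310) (nat_lit 228) (nat_lit 182)))) (XT.nd (nat_lit 78) (nat_lit 76) (nat_lit 0) (XT.lf (nat_lit 0) (nat_lit 11215617157) (nat_lit 76) (nat_lit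 28280085202) (nat_lit 76) (nat_lit 6096350121) (nat_lit 8) (nat_lit 4) (nat_lit 9) (nat_lit 5) (nat_lit 9) (nat_lit 4) (nat_lit 311) (nat_lit 228) (nat_lit 181)) (XT.nd (nat_lit 78) (nat_lit 76) (nat_lit 0) (XT.lf (nat_lit 0) (nat_lit 22481971592) (nat_lit 76) (nat_lit 23754199458) (nat_lit 76) (nat_lit 1451850884) (nat_lit 8) (nat_lit 4) (nat_lit 9) (nat_lit 5) (nat_lit 9) (nat_lit 4) (nat_lit 312) (nat_lit 228) (nat_lit 180)) (XT.lf (nat_lit 0) (nat_lit 3310511997) (nat_lit 152) (nat_lit 15694974449) (nat_lit 76) (nat_lit 30883769434) (nat_lit 7) (nat_lit 5) (nat_lit 9) (nat_lit 5) (nat_lit 8) (nat_lit 4) (nat_lit 313) (nat_lit 228) (nat_lit 179)))))) (XT.nd (nat_lit 390) (nat_lit 76) (nat_lit 0) (XT.nd (nat_lit 156) (nat_lit 0) (nat_lit 0) (XT.nd (nat_lit 78) (nat_lit 76) (nat_lit 0) (XT.lf (nat_lit 0) (nat_lit 8235979258) (nat_lit 152) (nat_lit 5803861844) (nat_lit 76) (nat_lit 38161655263)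 (nat_lit 7) (nat_lit 5) (nat_lit 9) (nat_lit 5) (nat_lit 8) (nat_lit 4) (nat_lit 314) (nat_lit 228) (nat_lit 178)) (XT.lf (nat_lit 0) (nat_lit 4594448049) (nat_lit 76) (nat_lit 8814325636) (nat_lit 152) (nat_lit 41220568778) (nat_lit 6) (nat_lit 5) (nat_lit 7) (nat_lit 5) (nat_lit 8) (nat_lit 4) (nat_lit 315) (nat_lit 228) (nat_lit 177))) (XT.nd (nat_lit 78) (nat_lit 0) (nat_lit 0) (XT.lf (nat_lit 0) (nat_lit 15559152059) (nat_lit 76) (nat_lit 3299024396) (nat_lit 152) (nat_lit 38319889357) (nat_lit 6) (nat_lit 5) (nat_lit 7) (nat_lit 5) (nat_lit 8) (nat_lit 4) (nat_lit 316) (nat_lit 228) (nat_lit 176)) (XT.nd (nat_lit 78) (nat_lit 0) (nat_lit 0) (XT.lf (nat_lit 0) (nat_lit 24563914396) (nat_lit 152) (nat_lit 32878246093) (nat_lit 0) (nat_lit 2412571752) (nat_lit 6) (nat_lit 5) (nat_lit 8) (nat_lit 4) (nat_lit 6) (nat_lit 4) (nat_lit 317) (nat_lit 228) (nat_lit 175)) (XT.lf (nat_lit 0) (nat_lit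 30550056131) (nat_lit 152) (nat_lit 23802563856) (nat_lit 0) (nat_lit 8312780270) (nat_lit 6) (nat_lit 5) (nat_lit 8) (nat_lit 4) (nat_lit 6) (nat_lit 4) (nat_lit 318) (nat_lit 228) (nat_lit 174))))) (XT.nd (nat_lit 234) (nat_lit 0) (nat_lit 0) (XT.nd (nat_lit 78) (nat_lit 76) (nat_lit 0) (XT.lf (nat_lit 0) (nat_lit 36799142141) (nat_lit 152) (nat_lit 14338546033) (nat_lit 0) (nat_lit 14480025119) (nat_lit 6) (nat_lit 5) (nat_lit 8) (nat_lit 4) (nat_lit 6) (nat_lit 4) (nat_lit 319) (nat_lit 228) (nat_lit 173)) (XT.nd (nat_lit 78) (nat_lit 76) (nat_lit 0) (XT.lf (nat_lit 0) (nat_lit 43326051200) (nat_lit 152) (nat_lit 4463659250) (nat_lit 0) (nat_lit 20928990217) (nat_lit 6) (nat_lit 5) (nat_lit 8) (nat_lit 4) (nat_lit 6) (nat_lit 4) (nat_lit 320) (nat_lit 228) (nat_lit 172)) (XT.lf (nat_lit 0) (nat_lit 5961947191) (nat_lit 76) (nat_lit 44241686262) (nat_lit 76) (nat_lit 21770392934) (nat_lit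 5) (nat_lit 4) (nat_lit 6) (nat_lit 5) (nat_lit 6) (nat_lit 4) (nat_lit 321) (nat_lit 228) (nat_lit 171)))) (XT.nd (nat_lit 78) (nat_lit 0) (nat_lit 0) (XT.lf (nat_lit 0) (nat_lit 16944449212) (nat_lit 76) (nat_lit 40494629193) (nat_lit 76) (nat_lit 17952638394) (nat_lit 5) (nat_lit 4) (nat_lit 6) (nat_lit 5) (nat_lit 6) (nat_lit 4) (nat_lit 322) (nat_lit 228) (nat_lit 170)) (XT.nd (nat_lit 78) (nat_lit 0) (nat_lit 0) (XT.lf (nat_lit 0) (nat_lit 28421160055) (nat_lit 76) (nat_lit 36584691884) (nat_lit 76) (nat_lit 13975370160) (nat_lit 5) (nat_lit 4) (nat_lit 6) (nat_lit 5) (nat_lit 6) (nat_lit 4) (nat_lit 323) (nat_lit 228) (nat_lit 169)) (XT.lf (nat_lit 0) (nat_lit 40419405221) (nat_lit 76) (nat_lit 32502564962) (nat_lit 76) (nat_lit 9829118548) (nat_lit 5) (nat_lit 4) (nat_lit 6) (nat_lit 5) (nat_lit 6) (nat_lit 4) (nat_lit 324) (nat_lit 228) (nat_lit 168))))))) (XT.nd (nat_lit 32838)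 (nat_lit 0) (nat_lit 3496) (XT.nd (nat_lit 390) (nat_lit 0) (nat_lit 0) (XT.nd (nat_lit 156) (nat_lit 152) (nat_lit 0) (XT.nd (nat_lit 78) (nat_lit 0) (nat_lit 0) (XT.lf (nat_lit 0) (nat_lit 52967751961) (nat_lit 76) (nat_lit 28238529078) (nat_lit 76) (nat_lit 5504011530) (nat_lit 5) (nat_lit 4) (nat_lit 6) (nat_lit 5) (nat_lit 6) (nat_lit 4) (nat_lit 325) (nat_lit 228) (nat_lit 167)) (XT.lf (nat_lit 0) (nat_lit 66096077290) (nat_lit 76) (nat_lit 23782431763) (nat_lit 76) (nat_lit 989751231) (nat_lit 5) (nat_lit 4) (nat_lit 6) (nat_lit 5) (nat_lit 6) (nat_lit 4) (nat_lit 326) (nat_lit 228) (nat_lit 166))) (XT.nd (nat_lit 78) (nat_lit 76) (nat_lit 0) (XT.lf (nat_lit 0) (nat_lit 3651733920) (nat_lit 152) (nat_lit 15435053991) (nat_lit 76) (nat_lit 76147029854) (nat_lit 4) (nat_lit 5) (nat_lit 6) (nat_lit 5) (nat_lit 5) (nat_lit 4) (nat_lit 327) (nat_lit 228) (nat_lit 165)) (XT.nd (nat_lit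 78) (nat_lit 76) (nat_lit 0) (XT.lf (nat_lit 0) (nat_lit 8480911352) (nat_lit 152) (nat_lit 5684579346) (nat_lit 76) (nat_lit 85652598786) (nat_lit 4) (nat_lit 5) (nat_lit 6) (nat_lit 5) (nat_lit 5) (nat_lit 4) (nat_lit 328) (nat_lit 228) (nat_lit 164)) (XT.lf (nat_lit 0) (nat_lit 4601767509) (nat_lit 76) (nat_lit 8971060212) (nat_lit 152) (nat_lit 91058121026) (nat_lit 3) (nat_lit 5) (nat_lit 4) (nat_lit 5) (nat_lit 5) (nat_lit 4) (nat_lit 329) (nat_lit 228) (nat_lit 163))))) (XT.nd (nat_lit 32214) (nat_lit 0) (nat_lit 7600) (XT.nd (nat_lit 78) (nat_lit 0) (nat_lit 0) (XT.lf (nat_lit 0) (nat_lit 15480962230) (nat_lit 76) (nat_lit 3474646551) (nat_lit 152) (nat_lit 90727765895) (nat_lit 3) (nat_lit 5) (nat_lit 4) (nat_lit 5) (nat_lit 5) (nat_lit 4) (nat_lit 330) (nat_lit 228) (nat_lit 162)) (XT.nd (nat_lit 78) (nat_lit 0) (nat_lit 0) (XT.lf (nat_lit 0) (nat_lit 24608250821) (nat_lit 152)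 (nat_lit 88145206721) (nat_lit 0) (nat_lit 2234953912) (nat_lit 3) (nat_lit 5) (nat_lit 5) (nat_lit 4) (nat_lit 3) (nat_lit 4) (nat_lit 331) (nat_lit 228) (nat_lit 161)) (XT.lf (nat_lit 0) (nat_lit 30558258004) (nat_lit 152) (nat_lit 81857187634) (nat_lit 0) (nat_lit 8142823120) (nat_lit 3) (nat_lit 5) (nat_lit 5) (nat_lit 4) (nat_lit 3) (nat_lit 4) (nat_lit 332) (nat_lit 228) (nat_lit 160)))) (XT.nd (nat_lit 78) (nat_lit 912) (nat_lit 0) (XT.lf (nat_lit 0) (nat_lit 570641156) (nat_lit 456) (nat_lit 1731953126) (nat_lit 456) (nat_lit 1731953126) (nat_lit 115) (nat_lit 4) (nat_lit 121) (nat_lit 5) (nat_lit 121) (nat_lit 4) (nat_lit 262) (nat_lit 229) (nat_lit 229)) (XT.nd (nat_lit 78) (nat_lit 456) (nat_lit 0) (XT.lf (nat_lit 0) (nat_lit 1923296103) (nat_lit 456) (nat_lit 6309160504) (nat_lit 0) (nat_lit 1183527) (nat_lit 109) (nat_lit 5) (nat_lit 115) (nat_lit 4) (nat_lit 109) (nat_lit 4)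 (nat_lit 263) (nat_lit 229) (nat_lit 228)) (XT.lf (nat_lit 0) (nat_lit 2641201206) (nat_lit 456) (nat_lit 4760272404) (nat_lit 456) (nat_lit 1007576422) (nat_lit 103) (nat_lit 4) (nat_lit 109) (nat_lit 5) (nat_lit 109) (nat_lit 4) (nat_lit 264) (nat_lit 229) (nat_lit 227)))))) (XT.nd (nat_lit 468) (nat_lit 1748) (nat_lit 0) (XT.nd (nat_lit 234) (nat_lit 1140) (nat_lit 0) (XT.nd (nat_lit 78) (nat_lit 760) (nat_lit 0) (XT.lf (nat_lit 0) (nat_lit 3303538213) (nat_lit 380) (nat_lit 1031263246) (nat_lit 456) (nat_lit 4261638920) (nat_lit 97) (nat_lit 5) (nat_lit 102) (nat_lit 5) (nat_lit 103) (nat_lit 4) (nat_lit 265) (nat_lit 229) (nat_lit 226)) (XT.nd (nat_lit 78) (nat_lit 304) (nat_lit 0) (XT.lf (nat_lit 0) (nat_lit 1006371035) (nat_lit 456) (nat_lit 4905126858) (nat_lit 76) (nat_lit 2884537388) (nat_lit 91) (nat_lit 5) (nat_lit 97) (nat_lit 5) (nat_lit 92) (nat_lit 4) (nat_lit 266) (nat_lit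 229) (nat_lit 225)) (XT.lf (nat_lit 0) (nat_lit 4381564701) (nat_lit 304) (nat_lit 1955821246) (nat_lit 380) (nat_lit 2670703560) (nat_lit 87) (nat_lit 5) (nat_lit 91) (nat_lit 5) (nat_lit 92) (nat_lit 4) (nat_lit 267) (nat_lit 229) (nat_lit 224)))) (XT.nd (nat_lit 78) (nat_lit 684) (nat_lit 0) (XT.lf (nat_lit 0) (nat_lit 2554794696) (nat_lit 456) (nat_lit 4469581765) (nat_lit 76) (nat_lit 2208838601) (nat_lit 81) (nat_lit 5) (nat_lit 87) (nat_lit 5) (nat_lit 82) (nat_lit 4) (nat_lit 268) (nat_lit 229) (nat_lit 223)) (XT.nd (nat_lit 78) (nat_lit 380) (nat_lit 0) (XT.lf (nat_lit 0) (nat_lit 5018083185) (nat_lit 304) (nat_lit 2876435495) (nat_lit 380) (nat_lit 1577371959) (nat_lit 77) (nat_lit 5) (nat_lit 81) (nat_lit 5) (nat_lit 82) (nat_lit 4) (nat_lit 269) (nat_lit 229) (nat_lit 222)) (XT.lf (nat_lit 0) (nat_lit 3612164847) (nat_lit 380) (nat_lit 4604572083) (nat_lit 76) (nat_lit 1507765696)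 (nat_lit 72) (nat_lit 5) (nat_lit 77) (nat_lit 5) (nat_lit 73) (nat_lit 4) (nat_lit 270) (nat_lit 229) (nat_lit 221))))) (XT.nd (nat_lit 234) (nat_lit 836) (nat_lit 0) (XT.nd (nat_lit 78) (nat_lit 608) (nat_lit 0) (XT.lf (nat_lit 0) (nat_lit 5052147110) (nat_lit 304) (nat_lit 3903507004) (nat_lit 380) (nat_lit 1036102496) (nat_lit 68) (nat_lit 5) (nat_lit 72) (nat_lit 5) (nat_lit 73) (nat_lit 4) (nat_lit 271) (nat_lit 229) (nat_lit 220)) (XT.nd (nat_lit 78) (nat_lit 228) (nat_lit 0) (XT.lf (nat_lit 0) (nat_lit 4118204184) (nat_lit 380) (nat_lit 5486357388) (nat_lit 76) (nat_lit 669602741) (nat_lit 63) (nat_lit 5) (nat_lit 68) (nat_lit 5) (nat_lit 64) (nat_lit 4) (nat_lit 272) (nat_lit 229) (nat_lit 219)) (XT.lf (nat_lit 0) (nat_lit 4297736594) (nat_lit 228) (nat_lit 5156683317) (nat_lit 304) (nat_lit 1117853982) (nat_lit 60) (nat_lit 5) (nat_lit 63) (nat_lit 5) (nat_lit 64) (nat_lit 4) (nat_lit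 273) (nat_lit 229) (nat_lit 218)))) (XT.nd (nat_lit 78) (nat_lit 532) (nat_lit 0) (XT.lf (nat_lit 0) (nat_lit 3563455857) (nat_lit 228) (nat_lit 436264689) (nat_lit 304) (nat_lit 6887334407) (nat_lit 56) (nat_lit 5) (nat_lit 59) (nat_lit 5) (nat_lit 60) (nat_lit 5) (nat_lit 274) (nat_lit 229) (nat_lit 217)) (XT.nd (nat_lit 78) (nat_lit 304) (nat_lit 0) (XT.lf (nat_lit 0) (nat_lit 2538448761) (nat_lit 228) (nat_lit 6767968794) (nat_lit 304) (nat_lit 1912361706) (nat_lit 53) (nat_lit 5) (nat_lit 56) (nat_lit 5) (nat_lit 57) (nat_lit 4) (nat_lit 275) (nat_lit 229) (nat_lit 216)) (XT.lf (nat_lit 0) (nat_lit 1207789456) (nat_lit 228) (nat_lit 1958219463) (nat_lit 304) (nat_lit 8402757964) (nat_lit 49) (nat_lit 5) (nat_lit 52) (nat_lit 5) (nat_lit 53) (nat_lit 5) (nat_lit 276) (nat_lit 229) (nat_lit 215))))))))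
noncomputable def xc30 : XT := (XT.nd (nat_lit 1716) (nat_lit 760) (nat_lit 0) (XT.nd (nat_lit 858) (nat_lit 760) (nat_lit 0) (XT.nd (nat_lit 390) (nat_lit 760) (nat_lit 0) (XT.nd (nat_lit 156) (nat_lit 684) (nat_lit 0) (XT.nd (nat_lit 78) (nat_lit 304) (nat_lit 0) (XT.lf (nat_lit 0) (nat_lit 8411166668) (nat_lit 304) (nat_lit 469299273) (nat_lit 76) (nat_lit 3056847340) (nat_lit 49) (nat_lit 5) (nat_lit 53) (nat_lit 5) (nat_lit 50) (nat_lit 4) (nat_lit 277) (nat_lit 229) (nat_lit 214)) (XT.lf (nat_lit 0) (nat_lit 1517022859) (nat_lit 304) (nat_lit 2496688257) (nat_lit 76) (nat_lit 8311685908) (nat_lit 45) (nat_lit 5) (nat_lit 49) (nat_lit 5) (nat_lit 46) (nat_lit 5) (nat_lit 278) (nat_lit 229) (nat_lit 213))) (XT.nd (nat_lit 78) (nat_lit 456) (nat_lit 0) (XT.lf (nat_lit 0) (nat_lit 6674461162) (nat_lit 304) (nat_lit 4951542477) (nat_lit 76) (nat_lit 1107958970) (nat_lit 42) (nat_lit 5)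 (nat_lit 46) (nat_lit 5) (nat_lit 43) (nat_lit 4) (nat_lit 279) (nat_lit 229) (nat_lit 212)) (XT.nd (nat_lit 78) (nat_lit 304) (nat_lit 0) (XT.lf (nat_lit 0) (nat_lit 5289427306) (nat_lit 152) (nat_lit 6765742011) (nat_lit 228) (nat_lit 1108992953) (nat_lit 40) (nat_lit 5) (nat_lit 42) (nat_lit 5) (nat_lit 43) (nat_lit 4) (nat_lit 280) (nat_lit 229) (nat_lit 211)) (XT.lf (nat_lit 0) (nat_lit 2301914002) (nat_lit 228) (nat_lit 1632420599) (nat_lit 304) (nat_lit 9682760648) (nat_lit 36) (nat_lit 5) (nat_lit 39) (nat_lit 5) (nat_lit 40) (nat_lit 5) (nat_lit 281) (nat_lit 229) (nat_lit 210))))) (XT.nd (nat_lit 234) (nat_lit 380) (nat_lit 0) (XT.nd (nat_lit 78) (nat_lit 380) (nat_lit 0) (XT.lf (nat_lit 0) (nat_lit 9180642794) (nat_lit 304) (nat_lit 1218089742) (nat_lit 76) (nat_lit 3694548146) (nat_lit 36) (nat_lit 5) (nat_lit 40) (nat_lit 5) (nat_lit 37) (nat_lit 4) (nat_lit 282) (nat_lit 229)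 (nat_lit 209)) (XT.nd (nat_lit 78) (nat_lit 152) (nat_lit 0) (XT.lf (nat_lit 0) (nat_lit 62248251) (nat_lit 228) (nat_lit 5266203616) (nat_lit 76) (nat_lit 9265888505) (nat_lit 33) (nat_lit 5) (nat_lit 36) (nat_lit 5) (nat_lit 34) (nat_lit 5) (nat_lit 283) (nat_lit 229) (nat_lit 208)) (XT.lf (nat_lit 0) (nat_lit 5113037072) (nat_lit 228) (nat_lit 9981017137) (nat_lit 76) (nat_lit 27206933) (nat_lit 31) (nat_lit 5) (nat_lit 34) (nat_lit 5) (nat_lit 32) (nat_lit 4) (nat_lit 284) (nat_lit 229) (nat_lit 207)))) (XT.nd (nat_lit 78) (nat_lit 228) (nat_lit 0) (XT.lf (nat_lit 0) (nat_lit 240370098) (nat_lit 152) (nat_lit 10155908203) (nat_lit 228) (nat_lit 5278976140) (nat_lit 29) (nat_lit 5) (nat_lit 31) (nat_lit 5) (nat_lit 32) (nat_lit 4) (nat_lit 285) (nat_lit 229) (nat_lit 206)) (XT.nd (nat_lit 78) (nat_lit 228) (nat_lit 0) (XT.lf (nat_lit 0) (nat_lit 10973376690) (nat_lit 152) (nat_lit 4946358979)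 (nat_lit 228) (nat_lit 338048092) (nat_lit 29) (nat_lit 5) (nat_lit 31) (nat_lit 5) (nat_lit 32) (nat_lit 4) (nat_lit 286) (nat_lit 229) (nat_lit 205)) (XT.lf (nat_lit 0) (nat_lit 4688817879) (nat_lit 228) (nat_lit 11647194777) (nat_lit 76) (nat_lit 534131437) (nat_lit 26) (nat_lit 5) (nat_lit 29) (nat_lit 5) (nat_lit 27) (nat_lit 4) (nat_lit 287) (nat_lit 229) (nat_lit 204)))))) (XT.nd (nat_lit 390) (nat_lit 304) (nat_lit 0) (XT.nd (nat_lit 156) (nat_lit 304) (nat_lit 0) (XT.nd (nat_lit 78) (nat_lit 152) (nat_lit 0) (XT.lf (nat_lit 0) (nat_lit 9946194243) (nat_lit 228) (nat_lit 1397072312) (nat_lit 76) (nat_lit 6170274617) (nat_lit 26) (nat_lit 5) (nat_lit 29) (nat_lit 5) (nat_lit 27) (nat_lit 4) (nat_lit 288) (nat_lit 229) (nat_lit 203)) (XT.lf (nat_lit 0) (nat_lit 9359810839) (nat_lit 152) (nat_lit 6083488195) (nat_lit 228) (nat_lit 2746602230) (nat_lit 24) (nat_lit 5) (nat_lit 26) (nat_lit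 5) (nat_lit 27) (nat_lit 4) (nat_lit 289) (nat_lit 229) (nat_lit 202))) (XT.nd (nat_lit 78) (nat_lit 76) (nat_lit 0) (XT.lf (nat_lit 0) (nat_lit 1607778369) (nat_lit 152) (nat_lit 581541094) (nat_lit 228) (nat_lit 16712604223) (nat_lit 21) (nat_lit 5) (nat_lit 23) (nat_lit 5) (nat_lit 24) (nat_lit 5) (nat_lit 290) (nat_lit 229) (nat_lit 201)) (XT.nd (nat_lit 78) (nat_lit 76) (nat_lit 0) (XT.lf (nat_lit 0) (nat_lit 7349679280) (nat_lit 228) (nat_lit 7155893453) (nat_lit 76) (nat_lit 5142212429) (nat_lit 21) (nat_lit 5) (nat_lit 24) (nat_lit 5) (nat_lit 22) (nat_lit 4) (nat_lit 291) (nat_lit 229) (nat_lit 200)) (XT.lf (nat_lit 0) (nat_lit 3375389054) (nat_lit 76) (nat_lit 9328295989) (nat_lit 152) (nat_lit 7729268814) (nat_lit 20) (nat_lit 5) (nat_lit 21) (nat_lit 5) (nat_lit 22) (nat_lit 4) (nat_lit 292) (nat_lit 229) (nat_lit 199))))) (XT.nd (nat_lit 234) (nat_lit 76) (nat_lit 0) (XT.nd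 (nat_lit 78) (nat_lit 228) (nat_lit 0) (XT.lf (nat_lit 0) (nat_lit 14413878689) (nat_lit 76) (nat_lit 3885754423) (nat_lit 152) (nat_lit 2958599647) (nat_lit 20) (nat_lit 5) (nat_lit 21) (nat_lit 5) (nat_lit 22) (nat_lit 4) (nat_lit 293) (nat_lit 229) (nat_lit 198)) (XT.nd (nat_lit 78) (nat_lit 0) (nat_lit 0) (XT.lf (nat_lit 0) (nat_lit 1968624029) (nat_lit 228) (nat_lit 18372976902) (nat_lit 76) (nat_lit 1783915333) (nat_lit 17) (nat_lit 5) (nat_lit 20) (nat_lit 5) (nat_lit 18) (nat_lit 4) (nat_lit 294) (nat_lit 229) (nat_lit 197)) (XT.lf (nat_lit 0) (nat_lit 7098671917) (nat_lit 228) (nat_lit 8241906795) (nat_lit 76) (nat_lit 7694246497) (nat_lit 17) (nat_lit 5) (nat_lit 20) (nat_lit 5) (nat_lit 18) (nat_lit 4) (nat_lit 295) (nat_lit 229) (nat_lit 196)))) (XT.nd (nat_lit 78) (nat_lit 0) (nat_lit 0) (XT.lf (nat_lit 0) (nat_lit 2287612012) (nat_lit 76) (nat_lit 10130751132) (nat_lit 152)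 (nat_lit 11573308510) (nat_lit 16) (nat_lit 5) (nat_lit 17) (nat_lit 5) (nat_lit 18) (nat_lit 4) (nat_lit 296) (nat_lit 229) (nat_lit 195)) (XT.nd (nat_lit 78) (nat_lit 0) (nat_lit 0) (XT.lf (nat_lit 0) (nat_lit 13367472402) (nat_lit 76) (nat_lit 4635365428) (nat_lit 152) (nat_lit 6993621752) (nat_lit 16) (nat_lit 5) (nat_lit 17) (nat_lit 5) (nat_lit 18) (nat_lit 4) (nat_lit 297) (nat_lit 229) (nat_lit 194)) (XT.lf (nat_lit 0) (nat_lit 23794927080) (nat_lit 152) (nat_lit 1204318292) (nat_lit 0) (nat_lit 1054449930) (nat_lit 16) (nat_lit 5) (nat_lit 18) (nat_lit 4) (nat_lit 16) (nat_lit 4) (nat_lit 298) (nat_lit 229) (nat_lit 193))))))) (XT.nd (nat_lit 858) (nat_lit 228) (nat_lit 0) (XT.nd (nat_lit 390) (nat_lit 228) (nat_lit 0) (XT.nd (nat_lit 156) (nat_lit 76) (nat_lit 0) (XT.nd (nat_lit 78) (nat_lit 0) (nat_lit 0) (XT.lf (nat_lit 0) (nat_lit 2722355064) (nat_lit 228) (nat_lit 17440081639)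 (nat_lit 76) (nat_lit 6998755452) (nat_lit 13) (nat_lit 5) (nat_lit 16) (nat_lit 5) (nat_lit 14) (nat_lit 4) (nat_lit 299) (nat_lit 229) (nat_lit 192)) (XT.lf (nat_lit 0) (nat_lit 7841847386) (nat_lit 228) (nat_lit 7262736291) (nat_lit 76) (nat_lit 13220781364) (nat_lit 13) (nat_lit 5) (nat_lit 16) (nat_lit 5) (nat_lit 14) (nat_lit 4) (nat_lit 300) (nat_lit 229) (nat_lit 191))) (XT.nd (nat_lit 78) (nat_lit 0) (nat_lit 0) (XT.lf (nat_lit 0) (nat_lit 3361353392) (nat_lit 76) (nat_lit 9815008765) (nat_lit 152) (nat_lit 16372663403) (nat_lit 12) (nat_lit 5) (nat_lit 13) (nat_lit 5) (nat_lit 14) (nat_lit 4) (nat_lit 301) (nat_lit 229) (nat_lit 190)) (XT.nd (nat_lit 78) (nat_lit 0) (nat_lit 0) (XT.lf (nat_lit 0) (nat_lit 14544363270) (nat_lit 76) (nat_lit 4237035563) (nat_lit 152) (nat_lit 12052404408) (nat_lit 12) (nat_lit 5) (nat_lit 13) (nat_lit 5) (nat_lit 14) (nat_lit 4) (nat_lit 302) (nat_lit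 229) (nat_lit 189)) (XT.lf (nat_lit 0) (nat_lit 24614184295) (nat_lit 152) (nat_lit 6031601169) (nat_lit 0) (nat_lit 1538655166) (nat_lit 12) (nat_lit 5) (nat_lit 14) (nat_lit 4) (nat_lit 12) (nat_lit 4) (nat_lit 303) (nat_lit 229) (nat_lit 188))))) (XT.nd (nat_lit 234) (nat_lit 76) (nat_lit 0) (XT.nd (nat_lit 78) (nat_lit 76) (nat_lit 0) (XT.lf (nat_lit 0) (nat_lit 4673529009) (nat_lit 76) (nat_lit 26087937978) (nat_lit 76) (nat_lit 2840500721) (nat_lit 11) (nat_lit 4) (nat_lit 12) (nat_lit 5) (nat_lit 12) (nat_lit 4) (nat_lit 304) (nat_lit 229) (nat_lit 187)) (XT.nd (nat_lit 78) (nat_lit 0) (nat_lit 0) (XT.lf (nat_lit 0) (nat_lit 2083494224) (nat_lit 152) (nat_lit 19181666009) (nat_lit 76) (nat_lit 13824661189) (nat_lit 10) (nat_lit 5) (nat_lit 12) (nat_lit 5) (nat_lit 11) (nat_lit 4) (nat_lit 305) (nat_lit 229) (nat_lit 186)) (XT.lf (nat_lit 0) (nat_lit 7135039268) (nat_lit 152) (nat_lit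 9082955309) (nat_lit 76) (nat_lit 20435064999) (nat_lit 10) (nat_lit 5) (nat_lit 12) (nat_lit 5) (nat_lit 11) (nat_lit 4) (nat_lit 306) (nat_lit 229) (nat_lit 185)))) (XT.nd (nat_lit 78) (nat_lit 0) (nat_lit 0) (XT.lf (nat_lit 0) (nat_lit 1447284311) (nat_lit 76) (nat_lit 10948218171) (nat_lit 152) (nat_lit 25900303459) (nat_lit 9) (nat_lit 5) (nat_lit 10) (nat_lit 5) (nat_lit 11) (nat_lit 4) (nat_lit 307) (nat_lit 229) (nat_lit 184)) (XT.nd (nat_lit 78) (nat_lit 0) (nat_lit 0) (XT.lf (nat_lit 0) (nat_lit 12595108349) (nat_lit 76) (nat_lit 5361602646) (nat_lit 152) (nat_lit 22062881755) (nat_lit 9) (nat_lit 5) (nat_lit 10) (nat_lit 5) (nat_lit 11) (nat_lit 4) (nat_lit 308) (nat_lit 229) (nat_lit 183)) (XT.lf (nat_lit 0) (nat_lit 23747312003) (nat_lit 152) (nat_lit 17629359900) (nat_lit 0) (nat_lit 454390169) (nat_lit 9) (nat_lit 5) (nat_lit 11) (nat_lit 4) (nat_lit 9) (nat_lit 4) (nat_lit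 309) (nat_lit 229) (nat_lit 182)))))) (XT.nd (nat_lit 390) (nat_lit 76) (nat_lit 0) (XT.nd (nat_lit 156) (nat_lit 76) (nat_lit 0) (XT.nd (nat_lit 78) (nat_lit 76) (nat_lit 0) (XT.lf (nat_lit 0) (nat_lit 29830591406) (nat_lit 152) (nat_lit 7489325154) (nat_lit 0) (nat_lit 6413125404) (nat_lit 9) (nat_lit 5) (nat_lit 11) (nat_lit 4) (nat_lit 9) (nat_lit 4) (nat_lit 310) (nat_lit 229) (nat_lit 181)) (XT.lf (nat_lit 0) (nat_lit 3132426706) (nat_lit 76) (nat_lit 33067178294) (nat_lit 76) (nat_lit 9531098799) (nat_lit 8) (nat_lit 4) (nat_lit 9) (nat_lit 5) (nat_lit 9) (nat_lit 4) (nat_lit 311) (nat_lit 229) (nat_lit 180))) (XT.nd (nat_lit 78) (nat_lit 76) (nat_lit 0) (XT.lf (nat_lit 0) (nat_lit 14357838391) (nat_lit 76) (nat_lit 28559290940) (nat_lit 76) (nat_lit 4910246214) (nat_lit 8) (nat_lit 4) (nat_lit 9) (nat_lit 5) (nat_lit 9) (nat_lit 4) (nat_lit 312) (nat_lit 229) (nat_lit 179)) (XT.nd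 (nat_lit 78) (nat_lit 76) (nat_lit 0) (XT.lf (nat_lit 0) (nat_lit 26064584815) (nat_lit 76) (nat_lit 23861148933) (nat_lit 76) (nat_lit 104518273) (nat_lit 8) (nat_lit 4) (nat_lit 9) (nat_lit 5) (nat_lit 9) (nat_lit 4) (nat_lit 313) (nat_lit 229) (nat_lit 178)) (XT.lf (nat_lit 0) (nat_lit 4801958836) (nat_lit 152) (nat_lit 14111117016) (nat_lit 76) (nat_lit 33430089980) (nat_lit 7) (nat_lit 5) (nat_lit 9) (nat_lit 5) (nat_lit 8) (nat_lit 4) (nat_lit 314) (nat_lit 229) (nat_lit 177))))) (XT.nd (nat_lit 234) (nat_lit 0) (nat_lit 0) (XT.nd (nat_lit 78) (nat_lit 76) (nat_lit 0) (XT.lf (nat_lit 0) (nat_lit 9910560353) (nat_lit 152) (nat_lit 3838239550) (nat_lit 76) (nat_lit 41024149524) (nat_lit 7) (nat_lit 5) (nat_lit 9) (nat_lit 5) (nat_lit 8) (nat_lit 4) (nat_lit 315) (nat_lit 229) (nat_lit 176)) (XT.nd (nat_lit 78) (nat_lit 0) (nat_lit 0) (XT.lf (nat_lit 0) (nat_lit 7015323343) (nat_lit 76)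 (nat_lit 8287601379) (nat_lit 152) (nat_lit 42020470360) (nat_lit 6) (nat_lit 5) (nat_lit 7) (nat_lit 5) (nat_lit 8) (nat_lit 4) (nat_lit 316) (nat_lit 229) (nat_lit 175)) (XT.lf (nat_lit 0) (nat_lit 18423921939) (nat_lit 76) (nat_lit 2542603675) (nat_lit 152) (nat_lit 39034810628) (nat_lit 6) (nat_lit 5) (nat_lit 7) (nat_lit 5) (nat_lit 8) (nat_lit 4) (nat_lit 317) (nat_lit 229) (nat_lit 174)))) (XT.nd (nat_lit 78) (nat_lit 0) (nat_lit 0) (XT.lf (nat_lit 0) (nat_lit 26910488331) (nat_lit 152) (nat_lit 32509217115) (nat_lit 0) (nat_lit 3393574298) (nat_lit 6) (nat_lit 5) (nat_lit 8) (nat_lit 4) (nat_lit 6) (nat_lit 4) (nat_lit 318) (nat_lit 229) (nat_lit 173)) (XT.nd (nat_lit 78) (nat_lit 0) (nat_lit 0) (XT.lf (nat_lit 0) (nat_lit 33142681047) (nat_lit 152) (nat_lit 23075605112) (nat_lit 0) (nat_lit 9547823053) (nat_lit 6) (nat_lit 5) (nat_lit 8) (nat_lit 4) (nat_lit 6) (nat_lit 4) (nat_lit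 319) (nat_lit 229) (nat_lit 172)) (XT.lf (nat_lit 0) (nat_lit 39653501257) (nat_lit 152) (nat_lit 13229676252) (nat_lit 0) (nat_lit 15984410918) (nat_lit 6) (nat_lit 5) (nat_lit 8) (nat_lit 4) (nat_lit 6) (nat_lit 4) (nat_lit 320) (nat_lit 229) (nat_lit 171))))))))
noncomputable def xc31 : XT := (XT.nd (nat_lit 33540) (nat_lit 0) (nat_lit 1368) (XT.nd (nat_lit 858) (nat_lit 0) (nat_lit 0) (XT.nd (nat_lit 390) (nat_lit 152) (nat_lit 0) (XT.nd (nat_lit 156) (nat_lit 0) (nat_lit 0) (XT.nd (nat_lit 78) (nat_lit 76) (nat_lit 0) (XT.lf (nat_lit 0) (nat_lit 46458450912) (nat_lit 152) (nat_lit 2947987848) (nat_lit 0) (nat_lit 22718663102) (nat_lit 6) (nat_lit 5) (nat_lit 8) (nat_lit 4) (nat_lit 6) (nat_lit 4) (nat_lit 321) (nat_lit 229) (nat_lit 170)) (XT.lf (nat_lit 0) (nat_lit 7949055004) (nat_lit 76) (nat_lit 45701088449) (nat_lit 76) (nat_lit 21893969715) (nat_lit 5) (nat_lit 4) (nat_lit 6)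 (nat_lit 5) (nat_lit 6) (nat_lit 4) (nat_lit 322) (nat_lit 229) (nat_lit 169))) (XT.nd (nat_lit 78) (nat_lit 0) (nat_lit 0) (XT.lf (nat_lit 0) (nat_lit 19400253057) (nat_lit 76) (nat_lit 41802520532) (nat_lit 76) (nat_lit 17931277107) (nat_lit 5) (nat_lit 4) (nat_lit 6) (nat_lit 5) (nat_lit 6) (nat_lit 4) (nat_lit 323) (nat_lit 229) (nat_lit 168)) (XT.nd (nat_lit 78) (nat_lit 0) (nat_lit 0) (XT.lf (nat_lit 0) (nat_lit 31374200328) (nat_lit 76) (nat_lit 37731221602) (nat_lit 76) (nat_lit 13798907043) (nat_lit 5) (nat_lit 4) (nat_lit 6) (nat_lit 5) (nat_lit 6) (nat_lit 4) (nat_lit 324) (nat_lit 229) (nat_lit 167)) (XT.lf (nat_lit 0) (nat_lit 43899406215) (nat_lit 76) (nat_lit 33477498091) (nat_lit 76) (nat_lit 9487020547) (nat_lit 5) (nat_lit 4) (nat_lit 6) (nat_lit 5) (nat_lit 6) (nat_lit 4) (nat_lit 325) (nat_lit 229) (nat_lit 166))))) (XT.nd (nat_lit 234) (nat_lit 76) (nat_lit 0) (XT.nd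 (nat_lit 78) (nat_lit 76) (nat_lit 0) (XT.lf (nat_lit 0) (nat_lit 57005692638) (nat_lit 76) (nat_lit 29031222084) (nat_lit 76) (nat_lit 4985351222) (nat_lit 5) (nat_lit 4) (nat_lit 6) (nat_lit 5) (nat_lit 6) (nat_lit 4) (nat_lit 326) (nat_lit 229) (nat_lit 165)) (XT.nd (nat_lit 78) (nat_lit 76) (nat_lit 0) (XT.lf (nat_lit 0) (nat_lit 70724265040) (nat_lit 76) (nat_lit 24381807211) (nat_lit 76) (nat_lit 283180808) (nat_lit 5) (nat_lit 4) (nat_lit 6) (nat_lit 5) (nat_lit 6) (nat_lit 4) (nat_lit 327) (nat_lit 229) (nat_lit 164)) (XT.lf (nat_lit 0) (nat_lit 4540324969) (nat_lit 152) (nat_lit 14932010087) (nat_lit 76) (nat_lit 80501613339) (nat_lit 4) (nat_lit 5) (nat_lit 6) (nat_lit 5) (nat_lit 5) (nat_lit 4) (nat_lit 328) (nat_lit 229) (nat_lit 163)))) (XT.nd (nat_lit 78) (nat_lit 76) (nat_lit 0) (XT.lf (nat_lit 0) (nat_lit 9577342018) (nat_lit 152) (nat_lit 4754716310) (nat_lit 76) (nat_lit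 90456402052) (nat_lit 4) (nat_lit 5) (nat_lit 6) (nat_lit 5) (nat_lit 5) (nat_lit 4) (nat_lit 329) (nat_lit 229) (nat_lit 162)) (XT.nd (nat_lit 78) (nat_lit 0) (nat_lit 0) (XT.lf (nat_lit 0) (nat_lit 6011146184) (nat_lit 76) (nat_lit 8892025742) (nat_lit 152) (nat_lit 94939428386) (nat_lit 3) (nat_lit 5) (nat_lit 4) (nat_lit 5) (nat_lit 5) (nat_lit 4) (nat_lit 330) (nat_lit 229) (nat_lit 161)) (XT.lf (nat_lit 0) (nat_lit 17378143960) (nat_lit 76) (nat_lit 3145914611) (nat_lit 152) (nat_lit 94624536389) (nat_lit 3) (nat_lit 5) (nat_lit 4) (nat_lit 5) (nat_lit 5) (nat_lit 4) (nat_lit 331) (nat_lit 229) (nat_lit 160)))))) (XT.nd (nat_lit 32214) (nat_lit 0) (nat_lit 5624) (XT.nd (nat_lit 31980) (nat_lit 0) (nat_lit 8056) (XT.nd (nat_lit 31902) (nat_lit 0) (nat_lit 10032) (XT.lf (nat_lit 0) (nat_lit 26434377025) (nat_lit 152) (nat_lit 91469369843) (nat_lit 0) (nat_lit 2815901017) (nat_lit 3)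 (nat_lit 5) (nat_lit 5) (nat_lit 4) (nat_lit 3) (nat_lit 4) (nat_lit 332) (nat_lit 229) (nat_lit 159)) (XT.lf (nat_lit 0) (nat_lit 1858493714) (nat_lit 608) (nat_lit 167999463) (nat_lit 0) (nat_lit 1858493714) (nat_lit 135) (nat_lit 5) (nat_lit 143) (nat_lit 4) (nat_lit 135) (nat_lit 4) (nat_lit 260) (nat_lit 230) (nat_lit 230))) (XT.nd (nat_lit 78) (nat_lit 912) (nat_lit 0) (XT.lf (nat_lit 0) (nat_lit 347496632) (nat_lit 456) (nat_lit 878426681) (nat_lit 532) (nat_lit 6690410408) (nat_lit 121) (nat_lit 5) (nat_lit 127) (nat_lit 5) (nat_lit 128) (nat_lit 4) (nat_lit 261) (nat_lit 230) (nat_lit 229)) (XT.nd (nat_lit 78) (nat_lit 456) (nat_lit 0) (XT.lf (nat_lit 0) (nat_lit 997056160) (nat_lit 456) (nat_lit 5567207373) (nat_lit 456) (nat_lit 1508666668) (nat_lit 115) (nat_lit 4) (nat_lit 121) (nat_lit 5) (nat_lit 121) (nat_lit 4) (nat_lit 262) (nat_lit 230) (nat_lit 228)) (XT.lf (nat_lit 0)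 (nat_lit 1611650293) (nat_lit 380) (nat_lit 2110365423) (nat_lit 456) (nat_lit 4518673191) (nat_lit 109) (nat_lit 5) (nat_lit 114) (nat_lit 5) (nat_lit 115) (nat_lit 4) (nat_lit 263) (nat_lit 230) (nat_lit 227))))) (XT.nd (nat_lit 234) (nat_lit 1064) (nat_lit 0) (XT.nd (nat_lit 78) (nat_lit 836) (nat_lit 0) (XT.lf (nat_lit 0) (nat_lit 631250158) (nat_lit 532) (nat_lit 6232889133) (nat_lit 76) (nat_lit 1556068914) (nat_lit 102) (nat_lit 5) (nat_lit 109) (nat_lit 5) (nat_lit 103) (nat_lit 4) (nat_lit 264) (nat_lit 230) (nat_lit 226)) (XT.nd (nat_lit 78) (nat_lit 456) (nat_lit 0) (XT.lf (nat_lit 0) (nat_lit 2679071523) (nat_lit 380) (nat_lit 3160234678) (nat_lit 456) (nat_lit 2771640839) (nat_lit 97) (nat_lit 5) (nat_lit 102) (nat_lit 5) (nat_lit 103) (nat_lit 4) (nat_lit 265) (nat_lit 230) (nat_lit 225)) (XT.lf (nat_lit 0) (nat_lit 2332878095) (nat_lit 456) (nat_lit 5707021388) (nat_lit 76)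 (nat_lit 774429475) (nat_lit 91) (nat_lit 5) (nat_lit 97) (nat_lit 5) (nat_lit 92) (nat_lit 4) (nat_lit 266) (nat_lit 230) (nat_lit 224)))) (XT.nd (nat_lit 78) (nat_lit 760) (nat_lit 0) (XT.lf (nat_lit 0) (nat_lit 3426059113) (nat_lit 304) (nat_lit 4126149613) (nat_lit 380) (nat_lit 1477700440) (nat_lit 87) (nat_lit 5) (nat_lit 91) (nat_lit 5) (nat_lit 92) (nat_lit 4) (nat_lit 267) (nat_lit 230) (nat_lit 223)) (XT.nd (nat_lit 78) (nat_lit 304) (nat_lit 0) (XT.lf (nat_lit 0) (nat_lit 3592318829) (nat_lit 456) (nat_lit 5617746738) (nat_lit 76) (nat_lit 48753326) (nat_lit 81) (nat_lit 5) (nat_lit 87) (nat_lit 5) (nat_lit 82) (nat_lit 4) (nat_lit 268) (nat_lit 230) (nat_lit 222)) (XT.lf (nat_lit 0) (nat_lit 3712273888) (nat_lit 304) (nat_lit 5110397460) (nat_lit 380) (nat_lit 678258771) (nat_lit 77) (nat_lit 5) (nat_lit 81) (nat_lit 5) (nat_lit 82) (nat_lit 4) (nat_lit 269) (nat_lit 230) (nat_lit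 221))))))) (XT.nd (nat_lit 858) (nat_lit 1444) (nat_lit 0) (XT.nd (nat_lit 390) (nat_lit 1216) (nat_lit 0) (XT.nd (nat_lit 156) (nat_lit 912) (nat_lit 0) (XT.nd (nat_lit 78) (nat_lit 304) (nat_lit 0) (XT.lf (nat_lit 0) (nat_lit 3631932422) (nat_lit 304) (nat_lit 738056496) (nat_lit 380) (nat_lit 5387149090) (nat_lit 72) (nat_lit 5) (nat_lit 76) (nat_lit 5) (nat_lit 77) (nat_lit 5) (nat_lit 270) (nat_lit 230) (nat_lit 220)) (XT.lf (nat_lit 0) (nat_lit 3376721485) (nat_lit 304) (nat_lit 6221987027) (nat_lit 380) (nat_lit 429262630) (nat_lit 68) (nat_lit 5) (nat_lit 72) (nat_lit 5) (nat_lit 73) (nat_lit 4) (nat_lit 271) (nat_lit 230) (nat_lit 219))) (XT.nd (nat_lit 78) (nat_lit 532) (nat_lit 0) (XT.lf (nat_lit 0) (nat_lit 2912983334) (nat_lit 304) (nat_lit 1686149323) (nat_lit 380) (nat_lit 5714619087) (nat_lit 63) (nat_lit 5) (nat_lit 67) (nat_lit 5) (nat_lit 68) (nat_lit 5) (nat_lit 272)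 (nat_lit 230) (nat_lit 218)) (XT.nd (nat_lit 78) (nat_lit 304) (nat_lit 0) (XT.lf (nat_lit 0) (nat_lit 2233152012) (nat_lit 228) (nat_lit 7579432996) (nat_lit 304) (nat_lit 803079033) (nat_lit 60) (nat_lit 5) (nat_lit 63) (nat_lit 5) (nat_lit 64) (nat_lit 4) (nat_lit 273) (nat_lit 230) (nat_lit 217)) (XT.lf (nat_lit 0) (nat_lit 1283692564) (nat_lit 228) (nat_lit 2918047516) (nat_lit 304) (nat_lit 6731923424) (nat_lit 56) (nat_lit 5) (nat_lit 59) (nat_lit 5) (nat_lit 60) (nat_lit 5) (nat_lit 274) (nat_lit 230) (nat_lit 216))))) (XT.nd (nat_lit 234) (nat_lit 684) (nat_lit 0) (XT.nd (nat_lit 78) (nat_lit 304) (nat_lit 0) (XT.lf (nat_lit 0) (nat_lit 64762335) (nat_lit 228) (nat_lit 9313840278) (nat_lit 304) (nat_lit 1890785745) (nat_lit 53) (nat_lit 5) (nat_lit 56) (nat_lit 5) (nat_lit 57) (nat_lit 4) (nat_lit 275) (nat_lit 230) (nat_lit 215)) (XT.nd (nat_lit 78) (nat_lit 228) (nat_lit 0) (XT.lf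 (nat_lit 0) (nat_lit 3095236114) (nat_lit 304) (nat_lit 1461355378) (nat_lit 76) (nat_lit 7065633658) (nat_lit 52) (nat_lit 5) (nat_lit 56) (nat_lit 5) (nat_lit 53) (nat_lit 5) (nat_lit 276) (nat_lit 230) (nat_lit 214)) (XT.lf (nat_lit 0) (nat_lit 8222939998) (nat_lit 304) (nat_lit 3315937380) (nat_lit 76) (nat_lit 455510699) (nat_lit 49) (nat_lit 5) (nat_lit 53) (nat_lit 5) (nat_lit 50) (nat_lit 4) (nat_lit 277) (nat_lit 230) (nat_lit 213)))) (XT.nd (nat_lit 78) (nat_lit 380) (nat_lit 0) (XT.lf (nat_lit 0) (nat_lit 1172079885) (nat_lit 304) (nat_lit 5573071975) (nat_lit 76) (nat_lit 5640609458) (nat_lit 45) (nat_lit 5) (nat_lit 49) (nat_lit 5) (nat_lit 46) (nat_lit 5) (nat_lit 278) (nat_lit 230) (nat_lit 212)) (XT.nd (nat_lit 78) (nat_lit 152) (nat_lit 0) (XT.lf (nat_lit 0) (nat_lit 4541561483) (nat_lit 228) (nat_lit 1673220662) (nat_lit 304) (nat_lit 6583068661) (nat_lit 42) (nat_lit 5)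 (nat_lit 45) (nat_lit 5) (nat_lit 46) (nat_lit 5) (nat_lit 279) (nat_lit 230) (nat_lit 211)) (XT.lf (nat_lit 0) (nat_lit 1822309646) (nat_lit 152) (nat_lit 9653192827) (nat_lit 228) (nat_lit 1756225554) (nat_lit 40) (nat_lit 5) (nat_lit 42) (nat_lit 5) (nat_lit 43) (nat_lit 4) (nat_lit 280) (nat_lit 230) (nat_lit 210)))))) (XT.nd (nat_lit 468) (nat_lit 608) (nat_lit 0) (XT.nd (nat_lit 234) (nat_lit 380) (nat_lit 0) (XT.nd (nat_lit 78) (nat_lit 380) (nat_lit 0) (XT.lf (nat_lit 0) (nat_lit 3208606392) (nat_lit 228) (nat_lit 1380534554) (nat_lit 76) (nat_lit 9098512523) (nat_lit 39) (nat_lit 5) (nat_lit 42) (nat_lit 5) (nat_lit 40) (nat_lit 5) (nat_lit 281) (nat_lit 230) (nat_lit 209)) (XT.nd (nat_lit 78) (nat_lit 152) (nat_lit 0) (XT.lf (nat_lit 0) (nat_lit 8345716405) (nat_lit 304) (nat_lit 5078057406) (nat_lit 76) (nat_lit 743409659) (nat_lit 36) (nat_lit 5) (nat_lit 40) (nat_lit 5) (nat_lit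 37) (nat_lit 4) (nat_lit 282) (nat_lit 230) (nat_lit 208)) (XT.lf (nat_lit 0) (nat_lit 5287426784) (nat_lit 152) (nat_lit 8432732692) (nat_lit 228) (nat_lit 951250143) (nat_lit 34) (nat_lit 5) (nat_lit 36) (nat_lit 5) (nat_lit 37) (nat_lit 4) (nat_lit 283) (nat_lit 230) (nat_lit 207)))) (XT.nd (nat_lit 78) (nat_lit 152) (nat_lit 0) (XT.lf (nat_lit 0) (nat_lit 847230319) (nat_lit 152) (nat_lit 3166835242) (nat_lit 228) (nat_lit 11187720639) (nat_lit 31) (nat_lit 5) (nat_lit 33) (nat_lit 5) (nat_lit 34) (nat_lit 5) (nat_lit 284) (nat_lit 230) (nat_lit 206)) (XT.nd (nat_lit 78) (nat_lit 152) (nat_lit 0) (XT.lf (nat_lit 0) (nat_lit 9203729267) (nat_lit 228) (nat_lit 4206912508) (nat_lit 76) (nat_lit 2348002602) (nat_lit 31) (nat_lit 5) (nat_lit 34) (nat_lit 5) (nat_lit 32) (nat_lit 4) (nat_lit 285) (nat_lit 230) (nat_lit 205)) (XT.lf (nat_lit 0) (nat_lit 6345725346) (nat_lit 152) (nat_lit 8281359123)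 (nat_lit 228) (nat_lit 1717147105) (nat_lit 29) (nat_lit 5) (nat_lit 31) (nat_lit 5) (nat_lit 32) (nat_lit 4) (nat_lit 286) (nat_lit 230) (nat_lit 204))))) (XT.nd (nat_lit 234) (nat_lit 228) (nat_lit 0) (XT.nd (nat_lit 78) (nat_lit 152) (nat_lit 0) (XT.lf (nat_lit 0) (nat_lit 338870118) (nat_lit 152) (nat_lit 2888861398) (nat_lit 228) (nat_lit 13732575729) (nat_lit 26) (nat_lit 5) (nat_lit 28) (nat_lit 5) (nat_lit 29) (nat_lit 5) (nat_lit 287) (nat_lit 230) (nat_lit 203)) (XT.nd (nat_lit 78) (nat_lit 152) (nat_lit 0) (XT.lf (nat_lit 0) (nat_lit 8402161491) (nat_lit 228) (nat_lit 6435442261) (nat_lit 76) (nat_lit 2768637231) (nat_lit 26) (nat_lit 5) (nat_lit 29) (nat_lit 5) (nat_lit 27) (nat_lit 4) (nat_lit 288) (nat_lit 230) (nat_lit 202)) (XT.lf (nat_lit 0) (nat_lit 4131904560) (nat_lit 152) (nat_lit 9664558472) (nat_lit 228) (nat_lit 4489268108) (nat_lit 24) (nat_lit 5) (nat_lit 26) (nat_lit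 5) (nat_lit 27) (nat_lit 4) (nat_lit 289) (nat_lit 230) (nat_lit 201)))) (XT.nd (nat_lit 78) (nat_lit 152) (nat_lit 0) (XT.lf (nat_lit 0) (nat_lit 413793540) (nat_lit 228) (nat_lit 3816657717) (nat_lit 76) (nat_lit 14769853329) (nat_lit 23) (nat_lit 5) (nat_lit 26) (nat_lit 5) (nat_lit 24) (nat_lit 5) (nat_lit 290) (nat_lit 230) (nat_lit 200)) (XT.nd (nat_lit 78) (nat_lit 0) (nat_lit 0) (XT.lf (nat_lit 0) (nat_lit 5451197410) (nat_lit 228) (nat_lit 12805164614) (nat_lit 76) (nat_lit 1493533197) (nat_lit 21) (nat_lit 5) (nat_lit 24) (nat_lit 5) (nat_lit 22) (nat_lit 4) (nat_lit 291) (nat_lit 230) (nat_lit 199)) (XT.lf (nat_lit 0) (nat_lit 10725050490) (nat_lit 228) (nat_lit 2420527807) (nat_lit 76) (nat_lit 7391928752) (nat_lit 21) (nat_lit 5) (nat_lit 24) (nat_lit 5) (nat_lit 22) (nat_lit 4) (nat_lit 292) (nat_lit 230) (nat_lit 198))))))))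
noncomputable def xc32 : XT := (XT.nd (nat_lit 1716) (nat_lit 304) (nat_lit 0) (XT.nd (nat_lit 858) (nat_lit 380) (nat_lit 0) (XT.nd (nat_lit 390) (nat_lit 304) (nat_lit 0) (XT.nd (nat_lit 156) (nat_lit 304) (nat_lit 0) (XT.nd (nat_lit 78) (nat_lit 0) (nat_lit 0) (XT.lf (nat_lit 0) (nat_lit 8491324408) (nat_lit 76) (nat_lit 7759754593) (nat_lit 152) (nat_lit 5113841255) (nat_lit 20) (nat_lit 5) (nat_lit 21) (nat_lit 5) (nat_lit 22) (nat_lit 4) (nat_lit 293) (nat_lit 230) (nat_lit 197)) (XT.lf (nat_lit 0) (nat_lit 19846159196) (nat_lit 76) (nat_lit 2141988625) (nat_lit 152) (nat_lit 247585820) (nat_lit 20) (nat_lit 5) (nat_lit 21) (nat_lit 5) (nat_lit 22) (nat_lit 4) (nat_lit 294) (nat_lit 230) (nat_lit 196))) (XT.nd (nat_lit 78) (nat_lit 76) (nat_lit 0) (XT.lf (nat_lit 0) (nat_lit 4799703133) (nat_lit 228) (nat_lit 14593805453) (nat_lit 76) (nat_lit 3754265438) (nat_lit 17) (nat_lit 5) (nat_lit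 20) (nat_lit 5) (nat_lit 18) (nat_lit 4) (nat_lit 295) (nat_lit 230) (nat_lit 195)) (XT.nd (nat_lit 78) (nat_lit 76) (nat_lit 0) (XT.lf (nat_lit 0) (nat_lit 10056127324) (nat_lit 228) (nat_lit 4179887568) (nat_lit 76) (nat_lit 9870534382) (nat_lit 17) (nat_lit 5) (nat_lit 20) (nat_lit 5) (nat_lit 18) (nat_lit 4) (nat_lit 296) (nat_lit 230) (nat_lit 194)) (XT.lf (nat_lit 0) (nat_lit 6747857583) (nat_lit 76) (nat_lit 8811791032) (nat_lit 152) (nat_lit 9554146516) (nat_lit 16) (nat_lit 5) (nat_lit 17) (nat_lit 5) (nat_lit 18) (nat_lit 4) (nat_lit 297) (nat_lit 230) (nat_lit 193))))) (XT.nd (nat_lit 234) (nat_lit 76) (nat_lit 0) (XT.nd (nat_lit 78) (nat_lit 228) (nat_lit 0) (XT.lf (nat_lit 0) (nat_lit 18174765041) (nat_lit 76) (nat_lit 3128564503) (nat_lit 152) (nat_lit 4869181488) (nat_lit 16) (nat_lit 5) (nat_lit 17) (nat_lit 5) (nat_lit 18) (nat_lit 4) (nat_lit 298) (nat_lit 230) (nat_lit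 192)) (XT.nd (nat_lit 78) (nat_lit 0) (nat_lit 0) (XT.lf (nat_lit 0) (nat_lit 28019793) (nat_lit 228) (nat_lit 24499114696) (nat_lit 76) (nat_lit 2757697824) (nat_lit 13) (nat_lit 5) (nat_lit 16) (nat_lit 5) (nat_lit 14) (nat_lit 4) (nat_lit 299) (nat_lit 230) (nat_lit 191)) (XT.lf (nat_lit 0) (nat_lit 5111773798) (nat_lit 228) (nat_lit 14384069369) (nat_lit 76) (nat_lit 8954258780) (nat_lit 13) (nat_lit 5) (nat_lit 16) (nat_lit 5) (nat_lit 14) (nat_lit 4) (nat_lit 300) (nat_lit 230) (nat_lit 190)))) (XT.nd (nat_lit 78) (nat_lit 76) (nat_lit 0) (XT.lf (nat_lit 0) (nat_lit 10379940690) (nat_lit 228) (nat_lit 3884905151) (nat_lit 76) (nat_lit 15410930485) (nat_lit 13) (nat_lit 5) (nat_lit 16) (nat_lit 5) (nat_lit 14) (nat_lit 4) (nat_lit 301) (nat_lit 230) (nat_lit 189)) (XT.nd (nat_lit 78) (nat_lit 0) (nat_lit 0) (XT.lf (nat_lit 0) (nat_lit 7163154921) (nat_lit 76) (nat_lit 8750765431) (nat_lit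 152) (nat_lit 15048787675) (nat_lit 12) (nat_lit 5) (nat_lit 13) (nat_lit 5) (nat_lit 14) (nat_lit 4) (nat_lit 302) (nat_lit 230) (nat_lit 188)) (XT.lf (nat_lit 0) (nat_lit 18732280347) (nat_lit 76) (nat_lit 2967940891) (nat_lit 152) (nat_lit 10614539963) (nat_lit 12) (nat_lit 5) (nat_lit 13) (nat_lit 5) (nat_lit 14) (nat_lit 4) (nat_lit 303) (nat_lit 230) (nat_lit 187)))))) (XT.nd (nat_lit 390) (nat_lit 152) (nat_lit 0) (XT.nd (nat_lit 156) (nat_lit 152) (nat_lit 0) (XT.nd (nat_lit 78) (nat_lit 76) (nat_lit 0) (XT.lf (nat_lit 0) (nat_lit 27743929916) (nat_lit 152) (nat_lit 2992995178) (nat_lit 0) (nat_lit 2998490640) (nat_lit 12) (nat_lit 5) (nat_lit 14) (nat_lit 4) (nat_lit 12) (nat_lit 4) (nat_lit 304) (nat_lit 230) (nat_lit 186)) (XT.lf (nat_lit 0) (nat_lit 8151645746) (nat_lit 76) (nat_lit 25987688236) (nat_lit 76) (nat_lit 1086323220) (nat_lit 11) (nat_lit 4) (nat_lit 12) (nat_lit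 5) (nat_lit 12) (nat_lit 4) (nat_lit 305) (nat_lit 230) (nat_lit 185))) (XT.nd (nat_lit 78) (nat_lit 76) (nat_lit 0) (XT.lf (nat_lit 0) (nat_lit 3958336359) (nat_lit 152) (nat_lit 17014442910) (nat_lit 76) (nat_lit 15817289685) (nat_lit 10) (nat_lit 5) (nat_lit 12) (nat_lit 5) (nat_lit 11) (nat_lit 4) (nat_lit 306) (nat_lit 230) (nat_lit 184)) (XT.nd (nat_lit 78) (nat_lit 76) (nat_lit 0) (XT.lf (nat_lit 0) (nat_lit 9178141160) (nat_lit 152) (nat_lit 6559668408) (nat_lit 76) (nat_lit 22696242475) (nat_lit 10) (nat_lit 5) (nat_lit 12) (nat_lit 5) (nat_lit 11) (nat_lit 4) (nat_lit 307) (nat_lit 230) (nat_lit 183)) (XT.lf (nat_lit 0) (nat_lit 4411735626) (nat_lit 76) (nat_lit 10237390042) (nat_lit 152) (nat_lit 25511436067) (nat_lit 9) (nat_lit 5) (nat_lit 10) (nat_lit 5) (nat_lit 11) (nat_lit 4) (nat_lit 308) (nat_lit 230) (nat_lit 182))))) (XT.nd (nat_lit 234) (nat_lit 152) (nat_lit 0) (XT.nd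 (nat_lit 78) (nat_lit 0) (nat_lit 0) (XT.lf (nat_lit 0) (nat_lit 15979232432) (nat_lit 76) (nat_lit 4431359885) (nat_lit 152) (nat_lit 21562328163) (nat_lit 9) (nat_lit 5) (nat_lit 10) (nat_lit 5) (nat_lit 11) (nat_lit 4) (nat_lit 309) (nat_lit 230) (nat_lit 181)) (XT.nd (nat_lit 78) (nat_lit 0) (nat_lit 0) (XT.lf (nat_lit 0) (nat_lit 26427596447) (nat_lit 152) (nat_lit 15853207360) (nat_lit 0) (nat_lit 1596099485) (nat_lit 9) (nat_lit 5) (nat_lit 11) (nat_lit 4) (nat_lit 9) (nat_lit 4) (nat_lit 310) (nat_lit 230) (nat_lit 180)) (XT.lf (nat_lit 0) (nat_lit 32743948446) (nat_lit 152) (nat_lit 5332724236) (nat_lit 0) (nat_lit 7799486253) (nat_lit 9) (nat_lit 5) (nat_lit 11) (nat_lit 4) (nat_lit 9) (nat_lit 4) (nat_lit 311) (nat_lit 230) (nat_lit 179)))) (XT.nd (nat_lit 78) (nat_lit 76) (nat_lit 0) (XT.lf (nat_lit 0) (nat_lit 5747562684) (nat_lit 76) (nat_lit 33639776712) (nat_lit 76) (nat_lit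 8587728584) (nat_lit 8) (nat_lit 4) (nat_lit 9) (nat_lit 5) (nat_lit 9) (nat_lit 4) (nat_lit 312) (nat_lit 230) (nat_lit 178)) (XT.nd (nat_lit 78) (nat_lit 76) (nat_lit 0) (XT.lf (nat_lit 0) (nat_lit 17417172828) (nat_lit 76) (nat_lit 28957959776) (nat_lit 76) (nat_lit 3803448854) (nat_lit 8) (nat_lit 4) (nat_lit 9) (nat_lit 5) (nat_lit 9) (nat_lit 4) (nat_lit 313) (nat_lit 230) (nat_lit 177)) (XT.lf (nat_lit 0) (nat_lit 1155179449) (nat_lit 152) (nat_lit 22907080253) (nat_lit 76) (nat_lit 28430914814) (nat_lit 7) (nat_lit 5) (nat_lit 9) (nat_lit 5) (nat_lit 8) (nat_lit 4) (nat_lit 314) (nat_lit 230) (nat_lit 176))))))) (XT.nd (nat_lit 858) (nat_lit 152) (nat_lit 0) (XT.nd (nat_lit 390) (nat_lit 76) (nat_lit 0) (XT.nd (nat_lit 156) (nat_lit 76) (nat_lit 0) (XT.nd (nat_lit 78) (nat_lit 0) (nat_lit 0) (XT.lf (nat_lit 0) (nat_lit 6244706428) (nat_lit 152) (nat_lit 12668277262) (nat_lit 76)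 (nat_lit 36010557811) (nat_lit 7) (nat_lit 5) (nat_lit 9) (nat_lit 5) (nat_lit 8) (nat_lit 4) (nat_lit 315) (nat_lit 230) (nat_lit 175)) (XT.lf (nat_lit 0) (nat_lit 11551468990) (nat_lit 152) (nat_lit 1984060475) (nat_lit 76) (nat_lit 43941036364) (nat_lit 7) (nat_lit 5) (nat_lit 9) (nat_lit 5) (nat_lit 8) (nat_lit 4) (nat_lit 316) (nat_lit 230) (nat_lit 174))) (XT.nd (nat_lit 78) (nat_lit 0) (nat_lit 0) (XT.lf (nat_lit 0) (nat_lit 9353529774) (nat_lit 76) (nat_lit 7824484361) (nat_lit 152) (nat_lit 42977614643) (nat_lit 6) (nat_lit 5) (nat_lit 7) (nat_lit 5) (nat_lit 8) (nat_lit 4) (nat_lit 317) (nat_lit 230) (nat_lit 173)) (XT.nd (nat_lit 78) (nat_lit 0) (nat_lit 0) (XT.lf (nat_lit 0) (nat_lit 21237918287) (nat_lit 76) (nat_lit 1834022347) (nat_lit 152) (nat_lit 39897142364) (nat_lit 6) (nat_lit 5) (nat_lit 7) (nat_lit 5) (nat_lit 8) (nat_lit 4) (nat_lit 318) (nat_lit 230) (nat_lit 172))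 (XT.lf (nat_lit 0) (nat_lit 29270414756) (nat_lit 152) (nat_lit 32308880888) (nat_lit 0) (nat_lit 4343637556) (nat_lit 6) (nat_lit 5) (nat_lit 8) (nat_lit 4) (nat_lit 6) (nat_lit 4) (nat_lit 319) (nat_lit 230) (nat_lit 171))))) (XT.nd (nat_lit 234) (nat_lit 76) (nat_lit 0) (XT.nd (nat_lit 78) (nat_lit 0) (nat_lit 0) (XT.lf (nat_lit 0) (nat_lit 35765912252) (nat_lit 152) (nat_lit 22490531003) (nat_lit 0) (nat_lit 10768437580) (nat_lit 6) (nat_lit 5) (nat_lit 8) (nat_lit 4) (nat_lit 6) (nat_lit 4) (nat_lit 320) (nat_lit 230) (nat_lit 170)) (XT.nd (nat_lit 78) (nat_lit 0) (nat_lit 0) (XT.lf (nat_lit 0) (nat_lit 42556268845) (nat_lit 152) (nat_lit 12235108290) (nat_lit 0) (nat_lit 17491463249) (nat_lit 6) (nat_lit 5) (nat_lit 8) (nat_lit 4) (nat_lit 6) (nat_lit 4) (nat_lit 321) (nat_lit 230) (nat_lit 169)) (XT.lf (nat_lit 0) (nat_lit 49657652054) (nat_lit 152) (nat_lit 1518195074) (nat_lit 0)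 (nat_lit 24528721767) (nat_lit 6) (nat_lit 5) (nat_lit 8) (nat_lit 4) (nat_lit 6) (nat_lit 4) (nat_lit 322) (nat_lit 230) (nat_lit 168)))) (XT.nd (nat_lit 78) (nat_lit 0) (nat_lit 0) (XT.lf (nat_lit 0) (nat_lit 9878490025) (nat_lit 76) (nat_lit 47303437996) (nat_lit 76) (nat_lit 22113436575) (nat_lit 5) (nat_lit 4) (nat_lit 6) (nat_lit 5) (nat_lit 6) (nat_lit 4) (nat_lit 323) (nat_lit 230) (nat_lit 167)) (XT.nd (nat_lit 78) (nat_lit 0) (nat_lit 0) (XT.lf (nat_lit 0) (nat_lit 21829296443) (nat_lit 76) (nat_lit 43242451439) (nat_lit 76) (nat_lit 17994287034) (nat_lit 5) (nat_lit 4) (nat_lit 6) (nat_lit 5) (nat_lit 6) (nat_lit 4) (nat_lit 324) (nat_lit 230) (nat_lit 166)) (XT.lf (nat_lit 0) (nat_lit 34332463424) (nat_lit 76) (nat_lit 38998549235) (nat_lit 76) (nat_lit 13694991511) (nat_lit 5) (nat_lit 4) (nat_lit 6) (nat_lit 5) (nat_lit 6) (nat_lit 4) (nat_lit 325) (nat_lit 230) (nat_lit 165))))))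 (XT.nd (nat_lit 390) (nat_lit 76) (nat_lit 0) (XT.nd (nat_lit 156) (nat_lit 76) (nat_lit 0) (XT.nd (nat_lit 78) (nat_lit 0) (nat_lit 0) (XT.lf (nat_lit 0) (nat_lit 47417760412) (nat_lit 76) (nat_lit 34561626854) (nat_lit 76) (nat_lit 9205313590) (nat_lit 5) (nat_lit 4) (nat_lit 6) (nat_lit 5) (nat_lit 6) (nat_lit 4) (nat_lit 326) (nat_lit 230) (nat_lit 164)) (XT.lf (nat_lit 0) (nat_lit 61116342875) (nat_lit 76) (nat_lit 29921120197) (nat_lit 76) (nat_lit 4514563560) (nat_lit 5) (nat_lit 4) (nat_lit 6) (nat_lit 5) (nat_lit 6) (nat_lit 4) (nat_lit 327) (nat_lit 230) (nat_lit 163))) (XT.nd (nat_lit 78) (nat_lit 0) (nat_lit 0) (XT.lf (nat_lit 0) (nat_lit 380847420) (nat_lit 152) (nat_lit 24681287204) (nat_lit 76) (nat_lit 75076133255) (nat_lit 4) (nat_lit 5) (nat_lit 6) (nat_lit 5) (nat_lit 5) (nat_lit 4) (nat_lit 328) (nat_lit 230) (nat_lit 162)) (XT.nd (nat_lit 78) (nat_lit 0) (nat_lit 0)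 (XT.lf (nat_lit 0) (nat_lit 5407707978) (nat_lit 152) (nat_lit 14522332493) (nat_lit 76) (nat_lit 85023049555) (nat_lit 4) (nat_lit 5) (nat_lit 6) (nat_lit 5) (nat_lit 5) (nat_lit 4) (nat_lit 329) (nat_lit 230) (nat_lit 161)) (XT.lf (nat_lit 0) (nat_lit 10666082223) (nat_lit 152) (nat_lit 3891234888) (nat_lit 76) (nat_lit 95451941725) (nat_lit 4) (nat_lit 5) (nat_lit 6) (nat_lit 5) (nat_lit 5) (nat_lit 4) (nat_lit 330) (nat_lit 230) (nat_lit 160))))) (XT.nd (nat_lit 31902) (nat_lit 0) (nat_lit 8968) (XT.nd (nat_lit 78) (nat_lit 0) (nat_lit 0) (XT.lf (nat_lit 0) (nat_lit 7381354559) (nat_lit 76) (nat_lit 8858089632) (nat_lit 152) (nat_lit 99077239994) (nat_lit 3) (nat_lit 5) (nat_lit 4) (nat_lit 5) (nat_lit 5) (nat_lit 4) (nat_lit 331) (nat_lit 230) (nat_lit 159)) (XT.nd (nat_lit 31746) (nat_lit 0) (nat_lit 11172) (XT.lf (nat_lit 0) (nat_lit 19265766459) (nat_lit 76) (nat_lit 2847460440)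 (nat_lit 152) (nat_lit 98775611008) (nat_lit 3) (nat_lit 5) (nat_lit 4) (nat_lit 5) (nat_lit 5) (nat_lit 4) (nat_lit 332) (nat_lit 230) (nat_lit 158)) (XT.lf (nat_lit 0) (nat_lit 1487370271) (nat_lit 608) (nat_lit 777925685) (nat_lit 0) (nat_lit 1487370271) (nat_lit 150) (nat_lit 5) (nat_lit 158) (nat_lit 4) (nat_lit 150) (nat_lit 4) (nat_lit 258) (nat_lit 231) (nat_lit 231)))) (XT.nd (nat_lit 78) (nat_lit 1596) (nat_lit 0) (XT.lf (nat_lit 0) (nat_lit 645391890) (nat_lit 608) (nat_lit 1005484063) (nat_lit 76) (nat_lit 5983758977) (nat_lit 142) (nat_lit 5) (nat_lit 150) (nat_lit 5) (nat_lit 143) (nat_lit 4) (nat_lit 259) (nat_lit 231) (nat_lit 230)) (XT.nd (nat_lit 78) (nat_lit 1064) (nat_lit 0) (XT.lf (nat_lit 0) (nat_lit 5845339828) (nat_lit 608) (nat_lit 472465484) (nat_lit 0) (nat_lit 1456028056) (nat_lit 135) (nat_lit 5) (nat_lit 143) (nat_lit 4) (nat_lit 135) (nat_lit 4) (nat_lit 260)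 (nat_lit 231) (nat_lit 229)) (XT.lf (nat_lit 0) (nat_lit 42938906) (nat_lit 456) (nat_lit 3144952675) (nat_lit 532) (nat_lit 4735565798) (nat_lit 121) (nat_lit 5) (nat_lit 127) (nat_lit 5) (nat_lit 128) (nat_lit 4) (nat_lit 261) (nat_lit 231) (nat_lit 228))))))))
noncomputable def xc33 : XT := (XT.nd (nat_lit 1716) (nat_lit 1672) (nat_lit 0) (XT.nd (nat_lit 858) (nat_lit 2204) (nat_lit 0) (XT.nd (nat_lit 390) (nat_lit 2128) (nat_lit 0) (XT.nd (nat_lit 156) (nat_lit 1368) (nat_lit 0) (XT.nd (nat_lit 78) (nat_lit 380) (nat_lit 0) (XT.lf (nat_lit 0) (nat_lit 297250835) (nat_lit 532) (nat_lit 7523325405) (nat_lit 76) (nat_lit 263781821) (nat_lit 114) (nat_lit 5) (nat_lit 121) (nat_lit 5) (nat_lit 115) (nat_lit 4) (nat_lit 262) (nat_lit 231) (nat_lit 227)) (XT.lf (nat_lit 0) (nat_lit 1004632426) (nat_lit 380) (nat_lit 4378171602) (nat_lit 456) (nat_lit 2872563841) (nat_lit 109) (nat_lit 5) (nat_lit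 114) (nat_lit 5) (nat_lit 115) (nat_lit 4) (nat_lit 263) (nat_lit 231) (nat_lit 226))) (XT.nd (nat_lit 78) (nat_lit 836) (nat_lit 0) (XT.lf (nat_lit 0) (nat_lit 1418470915) (nat_lit 456) (nat_lit 696853056) (nat_lit 532) (nat_lit 6323185153) (nat_lit 102) (nat_lit 5) (nat_lit 108) (nat_lit 5) (nat_lit 109) (nat_lit 5) (nat_lit 264) (nat_lit 231) (nat_lit 225)) (XT.nd (nat_lit 78) (nat_lit 456) (nat_lit 0) (XT.lf (nat_lit 0) (nat_lit 1749476176) (nat_lit 380) (nat_lit 5454785957) (nat_lit 456) (nat_lit 1428749115) (nat_lit 97) (nat_lit 5) (nat_lit 102) (nat_lit 5) (nat_lit 103) (nat_lit 4) (nat_lit 265) (nat_lit 231) (nat_lit 224)) (XT.lf (nat_lit 0) (nat_lit 1999352447) (nat_lit 380) (nat_lit 1530950772) (nat_lit 456) (nat_lit 5309455997) (nat_lit 91) (nat_lit 5) (nat_lit 96) (nat_lit 5) (nat_lit 97) (nat_lit 5) (nat_lit 266) (nat_lit 231) (nat_lit 223))))) (XT.nd (nat_lit 234) (nat_lit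 988) (nat_lit 0) (XT.nd (nat_lit 78) (nat_lit 836) (nat_lit 0) (XT.lf (nat_lit 0) (nat_lit 2154029522) (nat_lit 304) (nat_lit 6471041911) (nat_lit 380) (nat_lit 434171961) (nat_lit 87) (nat_lit 5) (nat_lit 91) (nat_lit 5) (nat_lit 92) (nat_lit 4) (nat_lit 267) (nat_lit 231) (nat_lit 222)) (XT.nd (nat_lit 78) (nat_lit 380) (nat_lit 0) (XT.lf (nat_lit 0) (nat_lit 2174640071) (nat_lit 380) (nat_lit 2331006743) (nat_lit 456) (nat_lit 4785655006) (nat_lit 81) (nat_lit 5) (nat_lit 86) (nat_lit 5) (nat_lit 87) (nat_lit 5) (nat_lit 268) (nat_lit 231) (nat_lit 221)) (XT.lf (nat_lit 0) (nat_lit 66873033) (nat_lit 380) (nat_lit 7460119889) (nat_lit 76) (nat_lit 2010457368) (nat_lit 76) (nat_lit 5) (nat_lit 81) (nat_lit 5) (nat_lit 77) (nat_lit 5) (nat_lit 269) (nat_lit 231) (nat_lit 220)))) (XT.nd (nat_lit 78) (nat_lit 684) (nat_lit 0) (XT.lf (nat_lit 0) (nat_lit 1793892927) (nat_lit 304) (nat_lit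 3200312489) (nat_lit 380) (nat_lit 4802623628) (nat_lit 72) (nat_lit 5) (nat_lit 76) (nat_lit 5) (nat_lit 77) (nat_lit 5) (nat_lit 270) (nat_lit 231) (nat_lit 219)) (XT.nd (nat_lit 78) (nat_lit 304) (nat_lit 0) (XT.lf (nat_lit 0) (nat_lit 20554913) (nat_lit 380) (nat_lit 8711630808) (nat_lit 76) (nat_lit 1339507836) (nat_lit 67) (nat_lit 5) (nat_lit 72) (nat_lit 5) (nat_lit 68) (nat_lit 5) (nat_lit 271) (nat_lit 231) (nat_lit 218)) (XT.lf (nat_lit 0) (nat_lit 683644574) (nat_lit 304) (nat_lit 4250339323) (nat_lit 380) (nat_lit 5426683982) (nat_lit 63) (nat_lit 5) (nat_lit 67) (nat_lit 5) (nat_lit 68) (nat_lit 5) (nat_lit 272) (nat_lit 231) (nat_lit 217)))))) (XT.nd (nat_lit 390) (nat_lit 1140) (nat_lit 0) (XT.nd (nat_lit 156) (nat_lit 760) (nat_lit 0) (XT.nd (nat_lit 78) (nat_lit 304) (nat_lit 0) (XT.lf (nat_lit 0) (nat_lit 10018741236) (nat_lit 380) (nat_lit 182121040) (nat_lit 76) (nat_lit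 465692860) (nat_lit 63) (nat_lit 5) (nat_lit 68) (nat_lit 5) (nat_lit 64) (nat_lit 4) (nat_lit 273) (nat_lit 231) (nat_lit 216)) (XT.lf (nat_lit 0) (nat_lit 4259167335) (nat_lit 304) (nat_lit 1331032443) (nat_lit 76) (nat_lit 5397259799) (nat_lit 59) (nat_lit 5) (nat_lit 63) (nat_lit 5) (nat_lit 60) (nat_lit 5) (nat_lit 274) (nat_lit 231) (nat_lit 215))) (XT.nd (nat_lit 78) (nat_lit 532) (nat_lit 0) (XT.lf (nat_lit 0) (nat_lit 8596465658) (nat_lit 228) (nat_lit 728797205) (nat_lit 304) (nat_lit 2001345066) (nat_lit 56) (nat_lit 5) (nat_lit 59) (nat_lit 5) (nat_lit 60) (nat_lit 5) (nat_lit 275) (nat_lit 231) (nat_lit 214)) (XT.nd (nat_lit 78) (nat_lit 228) (nat_lit 0) (XT.lf (nat_lit 0) (nat_lit 2876304369) (nat_lit 304) (nat_lit 4475592483) (nat_lit 76) (nat_lit 4330988560) (nat_lit 52) (nat_lit 5) (nat_lit 56) (nat_lit 5) (nat_lit 53) (nat_lit 5) (nat_lit 276) (nat_lit 231) (nat_lit 213))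 (XT.lf (nat_lit 0) (nat_lit 5496821236) (nat_lit 228) (nat_lit 2399242691) (nat_lit 304) (nat_lit 4162311232) (nat_lit 49) (nat_lit 5) (nat_lit 52) (nat_lit 5) (nat_lit 53) (nat_lit 5) (nat_lit 277) (nat_lit 231) (nat_lit 212))))) (XT.nd (nat_lit 234) (nat_lit 608) (nat_lit 0) (XT.nd (nat_lit 78) (nat_lit 228) (nat_lit 0) (XT.lf (nat_lit 0) (nat_lit 661033039) (nat_lit 304) (nat_lit 9033293071) (nat_lit 76) (nat_lit 2759451153) (nat_lit 45) (nat_lit 5) (nat_lit 49) (nat_lit 5) (nat_lit 46) (nat_lit 5) (nat_lit 278) (nat_lit 231) (nat_lit 211)) (XT.nd (nat_lit 78) (nat_lit 0) (nat_lit 0) (XT.lf (nat_lit 0) (nat_lit 903487512) (nat_lit 228) (nat_lit 4696121124) (nat_lit 304) (nat_lit 7269459840) (nat_lit 42) (nat_lit 5) (nat_lit 45) (nat_lit 5) (nat_lit 46) (nat_lit 5) (nat_lit 279) (nat_lit 231) (nat_lit 210)) (XT.lf (nat_lit 0) (nat_lit 10746538839) (nat_lit 304) (nat_lit 1999006594) (nat_lit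 76) (nat_lit 560888181) (nat_lit 42) (nat_lit 5) (nat_lit 46) (nat_lit 5) (nat_lit 43) (nat_lit 4) (nat_lit 280) (nat_lit 231) (nat_lit 209)))) (XT.nd (nat_lit 78) (nat_lit 380) (nat_lit 0) (XT.lf (nat_lit 0) (nat_lit 2335115086) (nat_lit 228) (nat_lit 5412883458) (nat_lit 76) (nat_lit 6017226032) (nat_lit 39) (nat_lit 5) (nat_lit 42) (nat_lit 5) (nat_lit 40) (nat_lit 5) (nat_lit 281) (nat_lit 231) (nat_lit 208)) (XT.nd (nat_lit 78) (nat_lit 152) (nat_lit 0) (XT.lf (nat_lit 0) (nat_lit 4883135647) (nat_lit 228) (nat_lit 2478715150) (nat_lit 304) (nat_lit 6886280363) (nat_lit 36) (nat_lit 5) (nat_lit 39) (nat_lit 5) (nat_lit 40) (nat_lit 5) (nat_lit 282) (nat_lit 231) (nat_lit 207)) (XT.lf (nat_lit 0) (nat_lit 839899932) (nat_lit 152) (nat_lit 11768945984) (nat_lit 228) (nat_lit 2147397073) (nat_lit 34) (nat_lit 5) (nat_lit 36) (nat_lit 5) (nat_lit 37) (nat_lit 4) (nat_lit 283) (nat_lit 231)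 (nat_lit 206))))))) (XT.nd (nat_lit 858) (nat_lit 608) (nat_lit 0) (XT.nd (nat_lit 390) (nat_lit 456) (nat_lit 0) (XT.nd (nat_lit 156) (nat_lit 380) (nat_lit 0) (XT.nd (nat_lit 78) (nat_lit 152) (nat_lit 0) (XT.lf (nat_lit 0) (nat_lit 2773592831) (nat_lit 228) (nat_lit 3786236396) (nat_lit 76) (nat_lit 8729222846) (nat_lit 33) (nat_lit 5) (nat_lit 36) (nat_lit 5) (nat_lit 34) (nat_lit 5) (nat_lit 284) (nat_lit 231) (nat_lit 205)) (XT.lf (nat_lit 0) (nat_lit 6773303658) (nat_lit 152) (nat_lit 1072227830) (nat_lit 228) (nat_lit 8003965324) (nat_lit 31) (nat_lit 5) (nat_lit 33) (nat_lit 5) (nat_lit 34) (nat_lit 5) (nat_lit 285) (nat_lit 231) (nat_lit 204))) (XT.nd (nat_lit 78) (nat_lit 228) (nat_lit 0) (XT.lf (nat_lit 0) (nat_lit 1298007619) (nat_lit 152) (nat_lit 11856879996) (nat_lit 228) (nat_lit 3283668567) (nat_lit 29) (nat_lit 5) (nat_lit 31) (nat_lit 5) (nat_lit 32) (nat_lit 4) (nat_lit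 286) (nat_lit 231) (nat_lit 203)) (XT.nd (nat_lit 78) (nat_lit 152) (nat_lit 0) (XT.lf (nat_lit 0) (nat_lit 1634557911) (nat_lit 228) (nat_lit 4883506657) (nat_lit 76) (nat_lit 10538783920) (nat_lit 28) (nat_lit 5) (nat_lit 31) (nat_lit 5) (nat_lit 29) (nat_lit 5) (nat_lit 287) (nat_lit 231) (nat_lit 202)) (XT.lf (nat_lit 0) (nat_lit 5792953036) (nat_lit 152) (nat_lit 888791367) (nat_lit 228) (nat_lit 11024901096) (nat_lit 26) (nat_lit 5) (nat_lit 28) (nat_lit 5) (nat_lit 29) (nat_lit 5) (nat_lit 288) (nat_lit 231) (nat_lit 201))))) (XT.nd (nat_lit 234) (nat_lit 76) (nat_lit 0) (XT.nd (nat_lit 78) (nat_lit 380) (nat_lit 0) (XT.lf (nat_lit 0) (nat_lit 11977736883) (nat_lit 228) (nat_lit 1501783756) (nat_lit 76) (nat_lit 4909608070) (nat_lit 26) (nat_lit 5) (nat_lit 29) (nat_lit 5) (nat_lit 27) (nat_lit 4) (nat_lit 289) (nat_lit 231) (nat_lit 200)) (XT.nd (nat_lit 78) (nat_lit 228) (nat_lit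 0) (XT.lf (nat_lit 0) (nat_lit 9443284542) (nat_lit 152) (nat_lit 8097278925) (nat_lit 228) (nat_lit 1565197052) (nat_lit 24) (nat_lit 5) (nat_lit 26) (nat_lit 5) (nat_lit 27) (nat_lit 4) (nat_lit 290) (nat_lit 231) (nat_lit 199)) (XT.lf (nat_lit 0) (nat_lit 933366833) (nat_lit 152) (nat_lit 2450179155) (nat_lit 228) (nat_lit 16475871190) (nat_lit 21) (nat_lit 5) (nat_lit 23) (nat_lit 5) (nat_lit 24) (nat_lit 5) (nat_lit 291) (nat_lit 231) (nat_lit 198)))) (XT.nd (nat_lit 78) (nat_lit 76) (nat_lit 0) (XT.lf (nat_lit 0) (nat_lit 8588411801) (nat_lit 228) (nat_lit 8594793970) (nat_lit 76) (nat_lit 3465929572) (nat_lit 21) (nat_lit 5) (nat_lit 24) (nat_lit 5) (nat_lit 22) (nat_lit 4) (nat_lit 292) (nat_lit 231) (nat_lit 197)) (XT.nd (nat_lit 78) (nat_lit 0) (nat_lit 0) (XT.lf (nat_lit 0) (nat_lit 2119450461) (nat_lit 76) (nat_lit 11890468407) (nat_lit 152) (nat_lit 7469800292) (nat_lit 20)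 (nat_lit 5) (nat_lit 21) (nat_lit 5) (nat_lit 22) (nat_lit 4) (nat_lit 293) (nat_lit 231) (nat_lit 196)) (XT.lf (nat_lit 0) (nat_lit 13403115935) (nat_lit 76) (nat_lit 6301977067) (nat_lit 152) (nat_lit 2646729690) (nat_lit 20) (nat_lit 5) (nat_lit 21) (nat_lit 5) (nat_lit 22) (nat_lit 4) (nat_lit 294) (nat_lit 231) (nat_lit 195)))))) (XT.nd (nat_lit 390) (nat_lit 304) (nat_lit 0) (XT.nd (nat_lit 156) (nat_lit 76) (nat_lit 0) (XT.nd (nat_lit 78) (nat_lit 0) (nat_lit 0) (XT.lf (nat_lit 0) (nat_lit 1855749201) (nat_lit 152) (nat_lit 449741825) (nat_lit 228) (nat_lit 20963351226) (nat_lit 17) (nat_lit 5) (nat_lit 19) (nat_lit 5) (nat_lit 20) (nat_lit 5) (nat_lit 295) (nat_lit 231) (nat_lit 194)) (XT.lf (nat_lit 0) (nat_lit 7518280491) (nat_lit 228) (nat_lit 11062434234) (nat_lit 76) (nat_lit 5648241147) (nat_lit 17) (nat_lit 5) (nat_lit 20) (nat_lit 5) (nat_lit 18) (nat_lit 4) (nat_lit 296)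 (nat_lit 231) (nat_lit 193))) (XT.nd (nat_lit 78) (nat_lit 76) (nat_lit 0) (XT.lf (nat_lit 0) (nat_lit 12919497691) (nat_lit 228) (nat_lit 330728145) (nat_lit 76) (nat_lit 11989072946) (nat_lit 17) (nat_lit 5) (nat_lit 20) (nat_lit 5) (nat_lit 18) (nat_lit 4) (nat_lit 297) (nat_lit 231) (nat_lit 192)) (XT.nd (nat_lit 78) (nat_lit 0) (nat_lit 0) (XT.lf (nat_lit 0) (nat_lit 11027078099) (nat_lit 76) (nat_lit 7596600397) (nat_lit 152) (nat_lit 7675547792) (nat_lit 16) (nat_lit 5) (nat_lit 17) (nat_lit 5) (nat_lit 18) (nat_lit 4) (nat_lit 298) (nat_lit 231) (nat_lit 191)) (XT.lf (nat_lit 0) (nat_lit 22837624852) (nat_lit 76) (nat_lit 1708059217) (nat_lit 152) (nat_lit 2868539562) (nat_lit 16) (nat_lit 5) (nat_lit 17) (nat_lit 5) (nat_lit 18) (nat_lit 4) (nat_lit 299) (nat_lit 231) (nat_lit 190))))) (XT.nd (nat_lit 234) (nat_lit 76) (nat_lit 0) (XT.nd (nat_lit 78) (nat_lit 0) (nat_lit 0) (XT.lf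 (nat_lit 0) (nat_lit 2175421717) (nat_lit 228) (nat_lit 21983102477) (nat_lit 76) (nat_lit 4424692768) (nat_lit 13) (nat_lit 5) (nat_lit 16) (nat_lit 5) (nat_lit 14) (nat_lit 4) (nat_lit 300) (nat_lit 231) (nat_lit 189)) (XT.nd (nat_lit 78) (nat_lit 0) (nat_lit 0) (XT.lf (nat_lit 0) (nat_lit 7411172901) (nat_lit 228) (nat_lit 11540446214) (nat_lit 76) (nat_lit 10858267007) (nat_lit 13) (nat_lit 5) (nat_lit 16) (nat_lit 5) (nat_lit 14) (nat_lit 4) (nat_lit 301) (nat_lit 231) (nat_lit 188)) (XT.lf (nat_lit 0) (nat_lit 12845423832) (nat_lit 228) (nat_lit 685982196) (nat_lit 76) (nat_lit 17568424903) (nat_lit 13) (nat_lit 5) (nat_lit 16) (nat_lit 5) (nat_lit 14) (nat_lit 4) (nat_lit 302) (nat_lit 231) (nat_lit 187)))) (XT.nd (nat_lit 78) (nat_lit 0) (nat_lit 0) (XT.lf (nat_lit 0) (nat_lit 10817216394) (nat_lit 76) (nat_lit 7777878511) (nat_lit 152) (nat_lit 13857908330) (nat_lit 12) (nat_lit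 5) (nat_lit 13) (nat_lit 5) (nat_lit 14) (nat_lit 4) (nat_lit 303) (nat_lit 231) (nat_lit 186)) (XT.nd (nat_lit 78) (nat_lit 0) (nat_lit 0) (XT.lf (nat_lit 0) (nat_lit 22807850294) (nat_lit 76) (nat_lit 1773075849) (nat_lit 152) (nat_lit 9294487220) (nat_lit 12) (nat_lit 5) (nat_lit 13) (nat_lit 5) (nat_lit 14) (nat_lit 4) (nat_lit 304) (nat_lit 231) (nat_lit 185)) (XT.lf (nat_lit 0) (nat_lit 30853608413) (nat_lit 152) (nat_lit 112997726) (nat_lit 0) (nat_lit 4402748700) (nat_lit 12) (nat_lit 5) (nat_lit 14) (nat_lit 4) (nat_lit 12) (nat_lit 4) (nat_lit 305) (nat_lit 231) (nat_lit 184))))))))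
noncomputable def xc34 : XT := (XT.nd (nat_lit 1716) (nat_lit 152) (nat_lit 0) (XT.nd (nat_lit 858) (nat_lit 152) (nat_lit 0) (XT.nd (nat_lit 390) (nat_lit 152) (nat_lit 0) (XT.nd (nat_lit 156) (nat_lit 76) (nat_lit 0) (XT.nd (nat_lit 78) (nat_lit 0) (nat_lit 0) (XT.lf (nat_lit 0) (nat_lit 567968529) (nat_lit 152) (nat_lit 25439312839) (nat_lit 76) (nat_lit 10928327117) (nat_lit 10) (nat_lit 5) (nat_lit 12) (nat_lit 5) (nat_lit 11) (nat_lit 4) (nat_lit 306) (nat_lit 231) (nat_lit 183)) (XT.lf (nat_lit 0) (nat_lit 5762300728) (nat_lit 152) (nat_lit 15029512993) (nat_lit 76) (nat_lit 17788558193) (nat_lit 10) (nat_lit 5) (nat_lit 12) (nat_lit 5) (nat_lit 11) (nat_lit 4) (nat_lit 307) (nat_lit 231) (nat_lit 182))) (XT.nd (nat_lit 78) (nat_lit 76) (nat_lit 0) (XT.lf (nat_lit 0) (nat_lit 11166617314) (nat_lit 152) (nat_lit 4187030816) (nat_lit 76) (nat_lit 24955248907) (nat_lit 10) (nat_lit 5)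 (nat_lit 12) (nat_lit 5) (nat_lit 11) (nat_lit 4) (nat_lit 308) (nat_lit 231) (nat_lit 181)) (XT.nd (nat_lit 78) (nat_lit 0) (nat_lit 0) (XT.lf (nat_lit 0) (nat_lit 7255530660) (nat_lit 76) (nat_lit 9607999646) (nat_lit 152) (nat_lit 25259676746) (nat_lit 9) (nat_lit 5) (nat_lit 10) (nat_lit 5) (nat_lit 11) (nat_lit 4) (nat_lit 309) (nat_lit 231) (nat_lit 180)) (XT.lf (nat_lit 0) (nat_lit 19276487629) (nat_lit 76) (nat_lit 3566013690) (nat_lit 152) (nat_lit 21185843500) (nat_lit 9) (nat_lit 5) (nat_lit 10) (nat_lit 5) (nat_lit 11) (nat_lit 4) (nat_lit 310) (nat_lit 231) (nat_lit 179))))) (XT.nd (nat_lit 234) (nat_lit 76) (nat_lit 0) (XT.nd (nat_lit 78) (nat_lit 76) (nat_lit 0) (XT.lf (nat_lit 0) (nat_lit 29103097668) (nat_lit 152) (nat_lit 14235327561) (nat_lit 0) (nat_lit 2690861200) (nat_lit 9) (nat_lit 5) (nat_lit 11) (nat_lit 4) (nat_lit 9) (nat_lit 4) (nat_lit 311) (nat_lit 231) (nat_lit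 178)) (XT.nd (nat_lit 78) (nat_lit 76) (nat_lit 0) (XT.lf (nat_lit 0) (nat_lit 35670785297) (nat_lit 152) (nat_lit 3303607908) (nat_lit 0) (nat_lit 9156086034) (nat_lit 9) (nat_lit 5) (nat_lit 11) (nat_lit 4) (nat_lit 9) (nat_lit 4) (nat_lit 312) (nat_lit 231) (nat_lit 177)) (XT.lf (nat_lit 0) (nat_lit 8264886073) (nat_lit 76) (nat_lit 34341483918) (nat_lit 76) (nat_lit 7729201040) (nat_lit 8) (nat_lit 4) (nat_lit 9) (nat_lit 5) (nat_lit 9) (nat_lit 4) (nat_lit 313) (nat_lit 231) (nat_lit 176)))) (XT.nd (nat_lit 78) (nat_lit 76) (nat_lit 0) (XT.lf (nat_lit 0) (nat_lit 20411788854) (nat_lit 76) (nat_lit 29472256212) (nat_lit 76) (nat_lit 2767036560) (nat_lit 8) (nat_lit 4) (nat_lit 9) (nat_lit 5) (nat_lit 9) (nat_lit 4) (nat_lit 314) (nat_lit 231) (nat_lit 175)) (XT.nd (nat_lit 78) (nat_lit 0) (nat_lit 0) (XT.lf (nat_lit 0) (nat_lit 2358319040) (nat_lit 152) (nat_lit 22006343213) (nat_lit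 76) (nat_lit 30718139918) (nat_lit 7) (nat_lit 5) (nat_lit 9) (nat_lit 5) (nat_lit 8) (nat_lit 4) (nat_lit 315) (nat_lit 231) (nat_lit 174)) (XT.lf (nat_lit 0) (nat_lit 7647780434) (nat_lit 152) (nat_lit 11353032979) (nat_lit 76) (nat_lit 38635542238) (nat_lit 7) (nat_lit 5) (nat_lit 9) (nat_lit 5) (nat_lit 8) (nat_lit 4) (nat_lit 316) (nat_lit 231) (nat_lit 173)))))) (XT.nd (nat_lit 390) (nat_lit 76) (nat_lit 0) (XT.nd (nat_lit 156) (nat_lit 0) (nat_lit 0) (XT.nd (nat_lit 78) (nat_lit 76) (nat_lit 0) (XT.lf (nat_lit 0) (nat_lit 13167936425) (nat_lit 152) (nat_lit 227398598) (nat_lit 76) (nat_lit 46923284885) (nat_lit 7) (nat_lit 5) (nat_lit 9) (nat_lit 5) (nat_lit 8) (nat_lit 4) (nat_lit 317) (nat_lit 231) (nat_lit 172)) (XT.lf (nat_lit 0) (nat_lit 11623873168) (nat_lit 76) (nat_lit 7419792854) (nat_lit 152) (nat_lit 44088963189) (nat_lit 6) (nat_lit 5) (nat_lit 7) (nat_lit 5) (nat_lit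 8) (nat_lit 4) (nat_lit 318) (nat_lit 231) (nat_lit 171))) (XT.nd (nat_lit 78) (nat_lit 0) (nat_lit 0) (XT.lf (nat_lit 0) (nat_lit 24016639826) (nat_lit 76) (nat_lit 1167708488) (nat_lit 152) (nat_lit 40903873591) (nat_lit 6) (nat_lit 5) (nat_lit 7) (nat_lit 5) (nat_lit 8) (nat_lit 4) (nat_lit 319) (nat_lit 231) (nat_lit 170)) (XT.nd (nat_lit 78) (nat_lit 0) (nat_lit 0) (XT.lf (nat_lit 0) (nat_lit 31654028020) (nat_lit 152) (nat_lit 32268273157) (nat_lit 0) (nat_lit 5268651219) (nat_lit 6) (nat_lit 5) (nat_lit 8) (nat_lit 4) (nat_lit 6) (nat_lit 4) (nat_lit 320) (nat_lit 231) (nat_lit 169)) (XT.lf (nat_lit 0) (nat_lit 38430486460) (nat_lit 152) (nat_lit 22037865386) (nat_lit 0) (nat_lit 11980984968) (nat_lit 6) (nat_lit 5) (nat_lit 8) (nat_lit 4) (nat_lit 6) (nat_lit 4) (nat_lit 321) (nat_lit 231) (nat_lit 168))))) (XT.nd (nat_lit 234) (nat_lit 0) (nat_lit 0) (XT.nd (nat_lit 78) (nat_lit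 76) (nat_lit 0) (XT.lf (nat_lit 0) (nat_lit 45518633331) (nat_lit 152) (nat_lit 11344775926) (nat_lit 0) (nat_lit 19008060706) (nat_lit 6) (nat_lit 5) (nat_lit 8) (nat_lit 4) (nat_lit 6) (nat_lit 4) (nat_lit 322) (nat_lit 231) (nat_lit 167)) (XT.nd (nat_lit 78) (nat_lit 76) (nat_lit 0) (XT.lf (nat_lit 0) (nat_lit 52935345174) (nat_lit 152) (nat_lit 163545039) (nat_lit 0) (nat_lit 26366609564) (nat_lit 6) (nat_lit 5) (nat_lit 8) (nat_lit 4) (nat_lit 6) (nat_lit 4) (nat_lit 323) (nat_lit 231) (nat_lit 166)) (XT.lf (nat_lit 0) (nat_lit 11761967605) (nat_lit 76) (nat_lit 49049376448) (nat_lit 76) (nat_lit 22425247520) (nat_lit 5) (nat_lit 4) (nat_lit 6) (nat_lit 5) (nat_lit 6) (nat_lit 4) (nat_lit 324) (nat_lit 231) (nat_lit 165)))) (XT.nd (nat_lit 78) (nat_lit 0) (nat_lit 0) (XT.lf (nat_lit 0) (nat_lit 24244145151) (nat_lit 76) (nat_lit 44814827870) (nat_lit 76) (nat_lit 18137943401) (nat_lit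 5) (nat_lit 4) (nat_lit 6) (nat_lit 5) (nat_lit 6) (nat_lit 4) (nat_lit 325) (nat_lit 231) (nat_lit 164)) (XT.nd (nat_lit 78) (nat_lit 0) (nat_lit 0) (XT.lf (nat_lit 0) (nat_lit 37309452200) (nat_lit 76) (nat_lit 40386813705) (nat_lit 76) (nat_lit 13659685863) (nat_lit 5) (nat_lit 4) (nat_lit 6) (nat_lit 5) (nat_lit 6) (nat_lit 4) (nat_lit 326) (nat_lit 231) (nat_lit 163)) (XT.lf (nat_lit 0) (nat_lit 50988996628) (nat_lit 76) (nat_lit 35754791063) (nat_lit 76) (nat_lit 8979812389) (nat_lit 5) (nat_lit 4) (nat_lit 6) (nat_lit 5) (nat_lit 6) (nat_lit 4) (nat_lit 327) (nat_lit 231) (nat_lit 162))))))) (XT.nd (nat_lit 32370) (nat_lit 0) (nat_lit 4864) (XT.nd (nat_lit 31902) (nat_lit 0) (nat_lit 9424) (XT.nd (nat_lit 156) (nat_lit 76) (nat_lit 0) (XT.nd (nat_lit 78) (nat_lit 76) (nat_lit 0) (XT.lf (nat_lit 0) (nat_lit 65315348777) (nat_lit 76) (nat_lit 30907731317) (nat_lit 76) (nat_lit 4087180423)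 (nat_lit 5) (nat_lit 4) (nat_lit 6) (nat_lit 5) (nat_lit 6) (nat_lit 4) (nat_lit 328) (nat_lit 231) (nat_lit 161)) (XT.lf (nat_lit 0) (nat_lit 1009762896) (nat_lit 152) (nat_lit 24814134328) (nat_lit 76) (nat_lit 79302659488) (nat_lit 4) (nat_lit 5) (nat_lit 6) (nat_lit 5) (nat_lit 5) (nat_lit 4) (nat_lit 329) (nat_lit 231) (nat_lit 160))) (XT.nd (nat_lit 78) (nat_lit 76) (nat_lit 0) (XT.lf (nat_lit 0) (nat_lit 6258924905) (nat_lit 152) (nat_lit 14199670797) (nat_lit 76) (nat_lit 89724411148) (nat_lit 4) (nat_lit 5) (nat_lit 6) (nat_lit 5) (nat_lit 5) (nat_lit 4) (nat_lit 330) (nat_lit 231) (nat_lit 159)) (XT.nd (nat_lit 78) (nat_lit 76) (nat_lit 0) (XT.lf (nat_lit 0) (nat_lit 11752559219) (nat_lit 152) (nat_lit 3086960137) (nat_lit 76) (nat_lit 100653309396) (nat_lit 4) (nat_lit 5) (nat_lit 6) (nat_lit 5) (nat_lit 5) (nat_lit 4) (nat_lit 331) (nat_lit 231) (nat_lit 158)) (XT.lf (nat_lit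 0) (nat_lit 8720627335) (nat_lit 76) (nat_lit 8866946588) (nat_lit 152) (nat_lit 103478576089) (nat_lit 3) (nat_lit 5) (nat_lit 4) (nat_lit 5) (nat_lit 5) (nat_lit 4) (nat_lit 332) (nat_lit 231) (nat_lit 157))))) (XT.nd (nat_lit 234) (nat_lit 1748) (nat_lit 0) (XT.nd (nat_lit 78) (nat_lit 1672) (nat_lit 0) (XT.lf (nat_lit 0) (nat_lit 1198925927) (nat_lit 1140) (nat_lit 1238875366) (nat_lit 0) (nat_lit 1198925927) (nat_lit 172) (nat_lit 5) (nat_lit 187) (nat_lit 4) (nat_lit 172) (nat_lit 4) (nat_lit 256) (nat_lit 232) (nat_lit 232)) (XT.nd (nat_lit 78) (nat_lit 532) (nat_lit 0) (XT.lf (nat_lit 0) (nat_lit 207140907) (nat_lit 1140) (nat_lit 2083857371) (nat_lit 76) (nat_lit 5095585261) (nat_lit 157) (nat_lit 5) (nat_lit 172) (nat_lit 5) (nat_lit 158) (nat_lit 4) (nat_lit 257) (nat_lit 232) (nat_lit 231)) (XT.lf (nat_lit 0) (nat_lit 5284583743) (nat_lit 608) (nat_lit 1687138889) (nat_lit 0)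 (nat_lit 537543062) (nat_lit 150) (nat_lit 5) (nat_lit 158) (nat_lit 4) (nat_lit 150) (nat_lit 4) (nat_lit 258) (nat_lit 232) (nat_lit 230)))) (XT.nd (nat_lit 78) (nat_lit 1140) (nat_lit 0) (XT.lf (nat_lit 0) (nat_lit 2786574875) (nat_lit 608) (nat_lit 1295655208) (nat_lit 76) (nat_lit 3559529654) (nat_lit 142) (nat_lit 5) (nat_lit 150) (nat_lit 5) (nat_lit 143) (nat_lit 4) (nat_lit 259) (nat_lit 232) (nat_lit 229)) (XT.nd (nat_lit 78) (nat_lit 532) (nat_lit 0) (XT.lf (nat_lit 0) (nat_lit 68882215) (nat_lit 608) (nat_lit 892109722) (nat_lit 76) (nat_lit 6824131783) (nat_lit 134) (nat_lit 5) (nat_lit 142) (nat_lit 5) (nat_lit 135) (nat_lit 5) (nat_lit 260) (nat_lit 232) (nat_lit 228)) (XT.lf (nat_lit 0) (nat_lit 5022602296) (nat_lit 608) (nat_lit 535257559) (nat_lit 76) (nat_lit 2380315775) (nat_lit 127) (nat_lit 5) (nat_lit 135) (nat_lit 5) (nat_lit 128) (nat_lit 4) (nat_lit 261) (nat_lit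 232) (nat_lit 227)))))) (XT.nd (nat_lit 390) (nat_lit 1824) (nat_lit 0) (XT.nd (nat_lit 156) (nat_lit 1368) (nat_lit 0) (XT.nd (nat_lit 78) (nat_lit 836) (nat_lit 0) (XT.lf (nat_lit 0) (nat_lit 1960013176) (nat_lit 532) (nat_lit 195844707) (nat_lit 76) (nat_lit 5946560526) (nat_lit 120) (nat_lit 5) (nat_lit 127) (nat_lit 5) (nat_lit 121) (nat_lit 5) (nat_lit 262) (nat_lit 232) (nat_lit 226)) (XT.lf (nat_lit 0) (nat_lit 101992697) (nat_lit 380) (nat_lit 6807610994) (nat_lit 456) (nat_lit 1368108625) (nat_lit 109) (nat_lit 5) (nat_lit 114) (nat_lit 5) (nat_lit 115) (nat_lit 4) (nat_lit 263) (nat_lit 232) (nat_lit 225))) (XT.nd (nat_lit 78) (nat_lit 836) (nat_lit 0) (XT.lf (nat_lit 0) (nat_lit 332372693) (nat_lit 456) (nat_lit 3145592959) (nat_lit 532) (nat_lit 4986017504) (nat_lit 102) (nat_lit 5) (nat_lit 108) (nat_lit 5) (nat_lit 109) (nat_lit 5) (nat_lit 264) (nat_lit 232) (nat_lit 224))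 (XT.nd (nat_lit 78) (nat_lit 456) (nat_lit 0) (XT.lf (nat_lit 0) (nat_lit 512538849) (nat_lit 380) (nat_lit 7920380300) (nat_lit 456) (nat_lit 229766387) (nat_lit 97) (nat_lit 5) (nat_lit 102) (nat_lit 5) (nat_lit 103) (nat_lit 4) (nat_lit 265) (nat_lit 232) (nat_lit 223)) (XT.lf (nat_lit 0) (nat_lit 570053958) (nat_lit 380) (nat_lit 4025959100) (nat_lit 456) (nat_lit 4276538078) (nat_lit 91) (nat_lit 5) (nat_lit 96) (nat_lit 5) (nat_lit 97) (nat_lit 5) (nat_lit 266) (nat_lit 232) (nat_lit 222))))) (XT.nd (nat_lit 234) (nat_lit 684) (nat_lit 0) (XT.nd (nat_lit 78) (nat_lit 760) (nat_lit 0) (XT.lf (nat_lit 0) (nat_lit 453344032) (nat_lit 380) (nat_lit 8538159299) (nat_lit 76) (nat_lit 104525369) (nat_lit 86) (nat_lit 5) (nat_lit 91) (nat_lit 5) (nat_lit 87) (nat_lit 5) (nat_lit 267) (nat_lit 232) (nat_lit 221)) (XT.nd (nat_lit 78) (nat_lit 380) (nat_lit 0) (XT.lf (nat_lit 0) (nat_lit 381672371)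 (nat_lit 380) (nat_lit 4895060652) (nat_lit 456) (nat_lit 4054614772) (nat_lit 81) (nat_lit 5) (nat_lit 86) (nat_lit 5) (nat_lit 87) (nat_lit 5) (nat_lit 268) (nat_lit 232) (nat_lit 220)) (XT.lf (nat_lit 0) (nat_lit 99301474) (nat_lit 304) (nat_lit 556892174) (nat_lit 380) (nat_lit 8925051492) (nat_lit 76) (nat_lit 5) (nat_lit 80) (nat_lit 5) (nat_lit 81) (nat_lit 5) (nat_lit 269) (nat_lit 232) (nat_lit 219)))) (XT.nd (nat_lit 78) (nat_lit 684) (nat_lit 0) (XT.lf (nat_lit 0) (nat_lit 5475203443) (nat_lit 380) (nat_lit 375858428) (nat_lit 76) (nat_lit 3992941281) (nat_lit 76) (nat_lit 5) (nat_lit 81) (nat_lit 5) (nat_lit 77) (nat_lit 5) (nat_lit 270) (nat_lit 232) (nat_lit 218)) (XT.nd (nat_lit 78) (nat_lit 304) (nat_lit 0) (XT.lf (nat_lit 0) (nat_lit 332167911) (nat_lit 380) (nat_lit 998535027) (nat_lit 76) (nat_lit 8791571799) (nat_lit 71) (nat_lit 5) (nat_lit 76) (nat_lit 5) (nat_lit 72)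 (nat_lit 5) (nat_lit 271) (nat_lit 232) (nat_lit 217)) (XT.lf (nat_lit 0) (nat_lit 5135242436) (nat_lit 380) (nat_lit 1861704068) (nat_lit 76) (nat_lit 3417727300) (nat_lit 67) (nat_lit 5) (nat_lit 72) (nat_lit 5) (nat_lit 68) (nat_lit 5) (nat_lit 272) (nat_lit 232) (nat_lit 216))))))))
noncomputable def xc35 : XT := (XT.nd (nat_lit 1716) (nat_lit 988) (nat_lit 0) (XT.nd (nat_lit 858) (nat_lit 1216) (nat_lit 0) (XT.nd (nat_lit 390) (nat_lit 988) (nat_lit 0) (XT.nd (nat_lit 156) (nat_lit 760) (nat_lit 0) (XT.nd (nat_lit 78) (nat_lit 304) (nat_lit 0) (XT.lf (nat_lit 0) (nat_lit 7794497451) (nat_lit 304) (nat_lit 2324363097) (nat_lit 380) (nat_lit 604843366) (nat_lit 63) (nat_lit 5) (nat_lit 67) (nat_lit 5) (nat_lit 68) (nat_lit 5) (nat_lit 273) (nat_lit 232) (nat_lit 215)) (XT.lf (nat_lit 0) (nat_lit 4174933220) (nat_lit 304) (nat_lit 4281272523) (nat_lit 76) (nat_lit 2592281692) (nat_lit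 59) (nat_lit 5) (nat_lit 63) (nat_lit 5) (nat_lit 60) (nat_lit 5) (nat_lit 274) (nat_lit 232) (nat_lit 214))) (XT.nd (nat_lit 78) (nat_lit 532) (nat_lit 0) (XT.lf (nat_lit 0) (nat_lit 5478018856) (nat_lit 228) (nat_lit 3659867687) (nat_lit 304) (nat_lit 2252939210) (nat_lit 56) (nat_lit 5) (nat_lit 59) (nat_lit 5) (nat_lit 60) (nat_lit 5) (nat_lit 275) (nat_lit 232) (nat_lit 213)) (XT.nd (nat_lit 78) (nat_lit 228) (nat_lit 0) (XT.lf (nat_lit 0) (nat_lit 2497082409) (nat_lit 304) (nat_lit 7865666935) (nat_lit 76) (nat_lit 1388491056) (nat_lit 52) (nat_lit 5) (nat_lit 56) (nat_lit 5) (nat_lit 53) (nat_lit 5) (nat_lit 276) (nat_lit 232) (nat_lit 212)) (XT.lf (nat_lit 0) (nat_lit 1932608233) (nat_lit 228) (nat_lit 5480590862) (nat_lit 304) (nat_lit 4716724614) (nat_lit 49) (nat_lit 5) (nat_lit 52) (nat_lit 5) (nat_lit 53) (nat_lit 5) (nat_lit 277) (nat_lit 232) (nat_lit 211))))) (XT.nd (nat_lit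 234) (nat_lit 456) (nat_lit 0) (XT.nd (nat_lit 78) (nat_lit 532) (nat_lit 0) (XT.lf (nat_lit 0) (nat_lit 12176907118) (nat_lit 228) (nat_lit 341723609) (nat_lit 304) (nat_lit 10769721) (nat_lit 49) (nat_lit 5) (nat_lit 52) (nat_lit 5) (nat_lit 53) (nat_lit 5) (nat_lit 278) (nat_lit 232) (nat_lit 210)) (XT.nd (nat_lit 78) (nat_lit 228) (nat_lit 0) (XT.lf (nat_lit 0) (nat_lit 4846694103) (nat_lit 304) (nat_lit 3068212209) (nat_lit 76) (nat_lit 5032302326) (nat_lit 45) (nat_lit 5) (nat_lit 49) (nat_lit 5) (nat_lit 46) (nat_lit 5) (nat_lit 279) (nat_lit 232) (nat_lit 209)) (XT.lf (nat_lit 0) (nat_lit 7181472682) (nat_lit 228) (nat_lit 2712896083) (nat_lit 304) (nat_lit 3493253358) (nat_lit 42) (nat_lit 5) (nat_lit 45) (nat_lit 5) (nat_lit 46) (nat_lit 5) (nat_lit 280) (nat_lit 232) (nat_lit 208)))) (XT.nd (nat_lit 78) (nat_lit 228) (nat_lit 0) (XT.lf (nat_lit 0) (nat_lit 1289653537) (nat_lit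 228) (nat_lit 9849652173) (nat_lit 76) (nat_lit 2711351373) (nat_lit 39) (nat_lit 5) (nat_lit 42) (nat_lit 5) (nat_lit 40) (nat_lit 5) (nat_lit 281) (nat_lit 232) (nat_lit 207)) (XT.nd (nat_lit 78) (nat_lit 0) (nat_lit 0) (XT.lf (nat_lit 0) (nat_lit 261974301) (nat_lit 228) (nat_lit 5950390414) (nat_lit 304) (nat_lit 8124381930) (nat_lit 36) (nat_lit 5) (nat_lit 39) (nat_lit 5) (nat_lit 40) (nat_lit 5) (nat_lit 282) (nat_lit 232) (nat_lit 206)) (XT.lf (nat_lit 0) (nat_lit 10897402216) (nat_lit 228) (nat_lit 467031343) (nat_lit 304) (nat_lit 3483331982) (nat_lit 36) (nat_lit 5) (nat_lit 39) (nat_lit 5) (nat_lit 40) (nat_lit 5) (nat_lit 283) (nat_lit 232) (nat_lit 205)))))) (XT.nd (nat_lit 390) (nat_lit 608) (nat_lit 0) (XT.nd (nat_lit 156) (nat_lit 228) (nat_lit 0) (XT.nd (nat_lit 78) (nat_lit 152) (nat_lit 0) (XT.lf (nat_lit 0) (nat_lit 1363436506) (nat_lit 228) (nat_lit 8821586599) (nat_lit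 76) (nat_lit 5199000295) (nat_lit 33) (nat_lit 5) (nat_lit 36) (nat_lit 5) (nat_lit 34) (nat_lit 5) (nat_lit 284) (nat_lit 232) (nat_lit 204)) (XT.lf (nat_lit 0) (nat_lit 1548865647) (nat_lit 152) (nat_lit 4782300051) (nat_lit 228) (nat_lit 9616480925) (nat_lit 31) (nat_lit 5) (nat_lit 33) (nat_lit 5) (nat_lit 34) (nat_lit 5) (nat_lit 285) (nat_lit 232) (nat_lit 203))) (XT.nd (nat_lit 78) (nat_lit 228) (nat_lit 0) (XT.lf (nat_lit 0) (nat_lit 11539837846) (nat_lit 228) (nat_lit 4100192986) (nat_lit 76) (nat_lit 899745395) (nat_lit 31) (nat_lit 5) (nat_lit 34) (nat_lit 5) (nat_lit 32) (nat_lit 4) (nat_lit 286) (nat_lit 232) (nat_lit 202)) (XT.nd (nat_lit 78) (nat_lit 76) (nat_lit 0) (XT.lf (nat_lit 0) (nat_lit 6626561379) (nat_lit 152) (nat_lit 10391765252) (nat_lit 228) (nat_lit 143001253) (nat_lit 29) (nat_lit 5) (nat_lit 31) (nat_lit 5) (nat_lit 32) (nat_lit 4) (nat_lit 287) (nat_lit 232)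 (nat_lit 201)) (XT.lf (nat_lit 0) (nat_lit 4802344094) (nat_lit 228) (nat_lit 50499857) (nat_lit 76) (nat_lit 12961504910) (nat_lit 28) (nat_lit 5) (nat_lit 31) (nat_lit 5) (nat_lit 29) (nat_lit 5) (nat_lit 288) (nat_lit 232) (nat_lit 200))))) (XT.nd (nat_lit 234) (nat_lit 228) (nat_lit 0) (XT.nd (nat_lit 78) (nat_lit 228) (nat_lit 0) (XT.lf (nat_lit 0) (nat_lit 10012067806) (nat_lit 228) (nat_lit 7495234283) (nat_lit 76) (nat_lit 992159739) (nat_lit 26) (nat_lit 5) (nat_lit 29) (nat_lit 5) (nat_lit 27) (nat_lit 4) (nat_lit 289) (nat_lit 232) (nat_lit 199)) (XT.nd (nat_lit 78) (nat_lit 76) (nat_lit 0) (XT.lf (nat_lit 0) (nat_lit 3253443957) (nat_lit 152) (nat_lit 12216555738) (nat_lit 228) (nat_lit 3749280494) (nat_lit 24) (nat_lit 5) (nat_lit 26) (nat_lit 5) (nat_lit 27) (nat_lit 4) (nat_lit 290) (nat_lit 232) (nat_lit 198)) (XT.lf (nat_lit 0) (nat_lit 1188699220) (nat_lit 228) (nat_lit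 5441569398) (nat_lit 76) (nat_lit 13344936270) (nat_lit 23) (nat_lit 5) (nat_lit 26) (nat_lit 5) (nat_lit 24) (nat_lit 5) (nat_lit 291) (nat_lit 232) (nat_lit 197)))) (XT.nd (nat_lit 78) (nat_lit 76) (nat_lit 0) (XT.lf (nat_lit 0) (nat_lit 5533880398) (nat_lit 152) (nat_lit 729366152) (nat_lit 228) (nat_lit 14505621025) (nat_lit 21) (nat_lit 5) (nat_lit 23) (nat_lit 5) (nat_lit 24) (nat_lit 5) (nat_lit 292) (nat_lit 232) (nat_lit 196)) (XT.nd (nat_lit 78) (nat_lit 76) (nat_lit 0) (XT.lf (nat_lit 0) (nat_lit 11616158486) (nat_lit 228) (nat_lit 4624870290) (nat_lit 76) (nat_lit 5360513775) (nat_lit 21) (nat_lit 5) (nat_lit 24) (nat_lit 5) (nat_lit 22) (nat_lit 4) (nat_lit 293) (nat_lit 232) (nat_lit 195)) (XT.lf (nat_lit 0) (nat_lit 6498970895) (nat_lit 76) (nat_lit 10727120155) (nat_lit 152) (nat_lit 5250143995) (nat_lit 20) (nat_lit 5) (nat_lit 21) (nat_lit 5) (nat_lit 22) (nat_lit 4) (nat_lit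 294) (nat_lit 232) (nat_lit 194))))))) (XT.nd (nat_lit 858) (nat_lit 380) (nat_lit 0) (XT.nd (nat_lit 390) (nat_lit 304) (nat_lit 0) (XT.nd (nat_lit 156) (nat_lit 76) (nat_lit 0) (XT.nd (nat_lit 78) (nat_lit 228) (nat_lit 0) (XT.lf (nat_lit 0) (nat_lit 18143317361) (nat_lit 76) (nat_lit 4942912422) (nat_lit 152) (nat_lit 309403020) (nat_lit 20) (nat_lit 5) (nat_lit 21) (nat_lit 5) (nat_lit 22) (nat_lit 4) (nat_lit 295) (nat_lit 232) (nat_lit 193)) (XT.lf (nat_lit 0) (nat_lit 4776790227) (nat_lit 228) (nat_lit 18421054550) (nat_lit 76) (nat_lit 1161997815) (nat_lit 17) (nat_lit 5) (nat_lit 20) (nat_lit 5) (nat_lit 18) (nat_lit 4) (nat_lit 296) (nat_lit 232) (nat_lit 192))) (XT.nd (nat_lit 78) (nat_lit 76) (nat_lit 0) (XT.lf (nat_lit 0) (nat_lit 10142350707) (nat_lit 228) (nat_lit 7750647563) (nat_lit 76) (nat_lit 7478283534) (nat_lit 17) (nat_lit 5) (nat_lit 20) (nat_lit 5) (nat_lit 18) (nat_lit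 4) (nat_lit 297) (nat_lit 232) (nat_lit 191)) (XT.nd (nat_lit 78) (nat_lit 0) (nat_lit 0) (XT.lf (nat_lit 0) (nat_lit 3399945760) (nat_lit 76) (nat_lit 12339310309) (nat_lit 152) (nat_lit 10695196838) (nat_lit 16) (nat_lit 5) (nat_lit 17) (nat_lit 5) (nat_lit 18) (nat_lit 4) (nat_lit 298) (nat_lit 232) (nat_lit 190)) (XT.lf (nat_lit 0) (nat_lit 15153785870) (nat_lit 76) (nat_lit 6474588977) (nat_lit 152) (nat_lit 5922086134) (nat_lit 16) (nat_lit 5) (nat_lit 17) (nat_lit 5) (nat_lit 18) (nat_lit 4) (nat_lit 299) (nat_lit 232) (nat_lit 189))))) (XT.nd (nat_lit 234) (nat_lit 76) (nat_lit 0) (XT.nd (nat_lit 78) (nat_lit 228) (nat_lit 0) (XT.lf (nat_lit 0) (nat_lit 27384605015) (nat_lit 76) (nat_lit 363136998) (nat_lit 152) (nat_lit 976500781) (nat_lit 16) (nat_lit 5) (nat_lit 17) (nat_lit 5) (nat_lit 18) (nat_lit 4) (nat_lit 300) (nat_lit 232) (nat_lit 188)) (XT.nd (nat_lit 78) (nat_lit 0)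 (nat_lit 0) (XT.lf (nat_lit 0) (nat_lit 4230678911) (nat_lit 228) (nat_lit 19689089388) (nat_lit 76) (nat_lit 6032875300) (nat_lit 13) (nat_lit 5) (nat_lit 16) (nat_lit 5) (nat_lit 14) (nat_lit 4) (nat_lit 301) (nat_lit 232) (nat_lit 187)) (XT.lf (nat_lit 0) (nat_lit 9635527839) (nat_lit 228) (nat_lit 8885879751) (nat_lit 76) (nat_lit 12722083113) (nat_lit 13) (nat_lit 5) (nat_lit 16) (nat_lit 5) (nat_lit 14) (nat_lit 4) (nat_lit 302) (nat_lit 232) (nat_lit 186)))) (XT.nd (nat_lit 78) (nat_lit 0) (nat_lit 0) (XT.lf (nat_lit 0) (nat_lit 2404339614) (nat_lit 76) (nat_lit 12871987673) (nat_lit 152) (nat_lit 17323621142) (nat_lit 12) (nat_lit 5) (nat_lit 13) (nat_lit 5) (nat_lit 14) (nat_lit 4) (nat_lit 303) (nat_lit 232) (nat_lit 185)) (XT.nd (nat_lit 78) (nat_lit 0) (nat_lit 0) (XT.lf (nat_lit 0) (nat_lit 14347559052) (nat_lit 76) (nat_lit 6887475212) (nat_lit 152) (nat_lit 12788156374) (nat_lit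 12) (nat_lit 5) (nat_lit 13) (nat_lit 5) (nat_lit 14) (nat_lit 4) (nat_lit 304) (nat_lit 232) (nat_lit 184)) (XT.lf (nat_lit 0) (nat_lit 26795368370) (nat_lit 76) (nat_lit 643351331) (nat_lit 152) (nat_lit 8080499798) (nat_lit 12) (nat_lit 5) (nat_lit 13) (nat_lit 5) (nat_lit 14) (nat_lit 4) (nat_lit 305) (nat_lit 232) (nat_lit 183)))))) (XT.nd (nat_lit 468) (nat_lit 152) (nat_lit 0) (XT.nd (nat_lit 234) (nat_lit 76) (nat_lit 0) (XT.nd (nat_lit 78) (nat_lit 76) (nat_lit 0) (XT.lf (nat_lit 0) (nat_lit 2681660572) (nat_lit 76) (nat_lit 31302747973) (nat_lit 76) (nat_lit 3104720811) (nat_lit 11) (nat_lit 4) (nat_lit 12) (nat_lit 5) (nat_lit 12) (nat_lit 4) (nat_lit 306) (nat_lit 232) (nat_lit 182)) (XT.nd (nat_lit 78) (nat_lit 0) (nat_lit 0) (XT.lf (nat_lit 0) (nat_lit 2125936052) (nat_lit 152) (nat_lit 24010657469) (nat_lit 76) (nat_lit 12598937781) (nat_lit 10) (nat_lit 5) (nat_lit 12) (nat_lit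 5) (nat_lit 11) (nat_lit 4) (nat_lit 307) (nat_lit 232) (nat_lit 181)) (XT.lf (nat_lit 0) (nat_lit 7507148237) (nat_lit 152) (nat_lit 13208968631) (nat_lit 76) (nat_lit 19748647349) (nat_lit 10) (nat_lit 5) (nat_lit 12) (nat_lit 5) (nat_lit 11) (nat_lit 4) (nat_lit 308) (nat_lit 232) (nat_lit 180)))) (XT.nd (nat_lit 78) (nat_lit 76) (nat_lit 0) (XT.lf (nat_lit 0) (nat_lit 13112312439) (nat_lit 152) (nat_lit 1946839489) (nat_lit 76) (nat_lit 27222688730) (nat_lit 10) (nat_lit 5) (nat_lit 12) (nat_lit 5) (nat_lit 11) (nat_lit 4) (nat_lit 309) (nat_lit 232) (nat_lit 179)) (XT.nd (nat_lit 78) (nat_lit 0) (nat_lit 0) (XT.lf (nat_lit 0) (nat_lit 9997634407) (nat_lit 76) (nat_lit 9053243257) (nat_lit 152) (nat_lit 25137326231) (nat_lit 9) (nat_lit 5) (nat_lit 10) (nat_lit 5) (nat_lit 11) (nat_lit 4) (nat_lit 310) (nat_lit 232) (nat_lit 178)) (XT.lf (nat_lit 0) (nat_lit 22506337928) (nat_lit 76)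 (nat_lit 2758451165) (nat_lit 152) (nat_lit 20925769625) (nat_lit 9) (nat_lit 5) (nat_lit 10) (nat_lit 5) (nat_lit 11) (nat_lit 4) (nat_lit 311) (nat_lit 232) (nat_lit 177))))) (XT.nd (nat_lit 234) (nat_lit 76) (nat_lit 0) (XT.nd (nat_lit 78) (nat_lit 76) (nat_lit 0) (XT.lf (nat_lit 0) (nat_lit 31786480579) (nat_lit 152) (nat_lit 12760662948) (nat_lit 0) (nat_lit 3745999944) (nat_lit 9) (nat_lit 5) (nat_lit 11) (nat_lit 4) (nat_lit 9) (nat_lit 4) (nat_lit 312) (nat_lit 232) (nat_lit 176)) (XT.nd (nat_lit 78) (nat_lit 76) (nat_lit 0) (XT.lf (nat_lit 0) (nat_lit 38624065539) (nat_lit 152) (nat_lit 1386473074) (nat_lit 0) (nat_lit 10490648129) (nat_lit 9) (nat_lit 5) (nat_lit 11) (nat_lit 4) (nat_lit 9) (nat_lit 4) (nat_lit 313) (nat_lit 232) (nat_lit 175)) (XT.lf (nat_lit 0) (nat_lit 10700756458) (nat_lit 76) (nat_lit 35169413778) (nat_lit 76) (nat_lit 6947485153) (nat_lit 8) (nat_lit 4) (nat_lit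 9) (nat_lit 5) (nat_lit 9) (nat_lit 4) (nat_lit 314) (nat_lit 232) (nat_lit 174)))) (XT.nd (nat_lit 78) (nat_lit 76) (nat_lit 0) (XT.lf (nat_lit 0) (nat_lit 23358688851) (nat_lit 76) (nat_lit 30099064894) (nat_lit 76) (nat_lit 1792839875) (nat_lit 8) (nat_lit 4) (nat_lit 9) (nat_lit 5) (nat_lit 9) (nat_lit 4) (nat_lit 315) (nat_lit 232) (nat_lit 173)) (XT.nd (nat_lit 78) (nat_lit 0) (nat_lit 0) (XT.lf (nat_lit 0) (nat_lit 3515128978) (nat_lit 152) (nat_lit 21250795473) (nat_lit 76) (nat_lit 33039243616) (nat_lit 7) (nat_lit 5) (nat_lit 9) (nat_lit 5) (nat_lit 8) (nat_lit 4) (nat_lit 316) (nat_lit 232) (nat_lit 172)) (XT.lf (nat_lit 0) (nat_lit 9019592299) (nat_lit 152) (nat_lit 10153194246) (nat_lit 76) (nat_lit 41315125733) (nat_lit 7) (nat_lit 5) (nat_lit 9) (nat_lit 5) (nat_lit 8) (nat_lit 4) (nat_lit 317) (nat_lit 232) (nat_lit 171))))))))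
noncomputable def xc36 : XT := (XT.nd (nat_lit 32994) (nat_lit 0) (nat_lit 2888) (XT.nd (nat_lit 858) (nat_lit 152) (nat_lit 0) (XT.nd (nat_lit 390) (nat_lit 76) (nat_lit 0) (XT.nd (nat_lit 156) (nat_lit 0) (nat_lit 0) (XT.nd (nat_lit 78) (nat_lit 0) (nat_lit 0) (XT.lf (nat_lit 0) (nat_lit 1473305134) (nat_lit 76) (nat_lit 13309497892) (nat_lit 152) (nat_lit 48522502860) (nat_lit 6) (nat_lit 5) (nat_lit 7) (nat_lit 5) (nat_lit 8) (nat_lit 4) (nat_lit 318) (nat_lit 232) (nat_lit 170)) (XT.lf (nat_lit 0) (nat_lit 13840138850) (nat_lit 76) (nat_lit 7068863471) (nat_lit 152) (nat_lit 45352339071) (nat_lit 6) (nat_lit 5) (nat_lit 7) (nat_lit 5) (nat_lit 8) (nat_lit 4) (nat_lit 319) (nat_lit 232) (nat_lit 169))) (XT.nd (nat_lit 78) (nat_lit 0) (nat_lit 0) (XT.lf (nat_lit 0) (nat_lit 26774683269) (nat_lit 76) (nat_lit 538551983) (nat_lit 152) (nat_lit 42052807959) (nat_lit 6) (nat_lit 5) (nat_lit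 7) (nat_lit 5) (nat_lit 8) (nat_lit 4) (nat_lit 320) (nat_lit 232) (nat_lit 168)) (XT.nd (nat_lit 78) (nat_lit 0) (nat_lit 0) (XT.lf (nat_lit 0) (nat_lit 34071280464) (nat_lit 152) (nat_lit 32379599036) (nat_lit 0) (nat_lit 6174108074) (nat_lit 6) (nat_lit 5) (nat_lit 8) (nat_lit 4) (nat_lit 6) (nat_lit 4) (nat_lit 321) (nat_lit 232) (nat_lit 167)) (XT.lf (nat_lit 0) (nat_lit 41146821300) (nat_lit 152) (nat_lit 21709198867) (nat_lit 0) (nat_lit 13191485926) (nat_lit 6) (nat_lit 5) (nat_lit 8) (nat_lit 4) (nat_lit 6) (nat_lit 4) (nat_lit 322) (nat_lit 232) (nat_lit 166))))) (XT.nd (nat_lit 234) (nat_lit 0) (nat_lit 0) (XT.nd (nat_lit 78) (nat_lit 76) (nat_lit 0) (XT.lf (nat_lit 0) (nat_lit 48551527395) (nat_lit 152) (nat_lit 10549576828) (nat_lit 0) (nat_lit 20540798703) (nat_lit 6) (nat_lit 5) (nat_lit 8) (nat_lit 4) (nat_lit 6) (nat_lit 4) (nat_lit 323) (nat_lit 232) (nat_lit 165)) (XT.nd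 (nat_lit 78) (nat_lit 0) (nat_lit 0) (XT.lf (nat_lit 0) (nat_lit 1148243984) (nat_lit 76) (nat_lit 55165822641) (nat_lit 76) (nat_lit 27102338407) (nat_lit 5) (nat_lit 4) (nat_lit 6) (nat_lit 5) (nat_lit 6) (nat_lit 4) (nat_lit 324) (nat_lit 232) (nat_lit 164)) (XT.lf (nat_lit 0) (nat_lit 13610431591) (nat_lit 76) (nat_lit 50940182279) (nat_lit 76) (nat_lit 22826454672) (nat_lit 5) (nat_lit 4) (nat_lit 6) (nat_lit 5) (nat_lit 6) (nat_lit 4) (nat_lit 325) (nat_lit 232) (nat_lit 163)))) (XT.nd (nat_lit 78) (nat_lit 0) (nat_lit 0) (XT.lf (nat_lit 0) (nat_lit 26656700604) (nat_lit 76) (nat_lit 46520652129) (nat_lit 76) (nat_lit 18359073691) (nat_lit 5) (nat_lit 4) (nat_lit 6) (nat_lit 5) (nat_lit 6) (nat_lit 4) (nat_lit 326) (nat_lit 232) (nat_lit 162)) (XT.nd (nat_lit 78) (nat_lit 0) (nat_lit 0) (XT.lf (nat_lit 0) (nat_lit 40318113568) (nat_lit 76) (nat_lit 41896709501) (nat_lit 76) (nat_lit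 13689558842) (nat_lit 5) (nat_lit 4) (nat_lit 6) (nat_lit 5) (nat_lit 6) (nat_lit 4) (nat_lit 327) (nat_lit 232) (nat_lit 161)) (XT.lf (nat_lit 0) (nat_lit 54627197657) (nat_lit 76) (nat_lit 37057345007) (nat_lit 76) (nat_lit 8806792234) (nat_lit 5) (nat_lit 4) (nat_lit 6) (nat_lit 5) (nat_lit 6) (nat_lit 4) (nat_lit 328) (nat_lit 232) (nat_lit 160)))))) (XT.nd (nat_lit 31668) (nat_lit 0) (nat_lit 10564) (XT.nd (nat_lit 156) (nat_lit 76) (nat_lit 0) (XT.nd (nat_lit 78) (nat_lit 76) (nat_lit 0) (XT.lf (nat_lit 0) (nat_lit 69618022118) (nat_lit 76) (nat_lit 31991036350) (nat_lit 76) (nat_lit 3699148230) (nat_lit 5) (nat_lit 4) (nat_lit 6) (nat_lit 5) (nat_lit 6) (nat_lit 4) (nat_lit 329) (nat_lit 232) (nat_lit 159)) (XT.lf (nat_lit 0) (nat_lit 1613423925) (nat_lit 152) (nat_lit 25056004548) (nat_lit 76) (nat_lit 83696563048) (nat_lit 4) (nat_lit 5) (nat_lit 6) (nat_lit 5) (nat_lit 5) (nat_lit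 4) (nat_lit 330) (nat_lit 232) (nat_lit 158))) (XT.nd (nat_lit 78) (nat_lit 76) (nat_lit 0) (XT.lf (nat_lit 0) (nat_lit 7098702468) (nat_lit 152) (nat_lit 13958381483) (nat_lit 76) (nat_lit 94618984644) (nat_lit 4) (nat_lit 5) (nat_lit 6) (nat_lit 5) (nat_lit 5) (nat_lit 4) (nat_lit 331) (nat_lit 232) (nat_lit 157)) (XT.nd (nat_lit 156) (nat_lit 76) (nat_lit 0) (XT.lf (nat_lit 0) (nat_lit 12841931292) (nat_lit 152) (nat_lit 2335333998) (nat_lit 76) (nat_lit 106074882426) (nat_lit 4) (nat_lit 5) (nat_lit 6) (nat_lit 5) (nat_lit 5) (nat_lit 4) (nat_lit 332) (nat_lit 232) (nat_lit 156)) (XT.lf (nat_lit 0) (nat_lit 23048812168) (nat_lit 76) (nat_lit 2330331038) (nat_lit 152) (nat_lit 107870292579) (nat_lit 3) (nat_lit 5) (nat_lit 4) (nat_lit 5) (nat_lit 5) (nat_lit 4) (nat_lit 334) (nat_lit 232) (nat_lit 154))))) (XT.nd (nat_lit 234) (nat_lit 2280) (nat_lit 0) (XT.nd (nat_lit 78) (nat_lit 2128)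 (nat_lit 0) (XT.lf (nat_lit 0) (nat_lit 1006297385) (nat_lit 988) (nat_lit 1523709059) (nat_lit 0) (nat_lit 1006297385) (nat_lit 200) (nat_lit 5) (nat_lit 213) (nat_lit 4) (nat_lit 200) (nat_lit 4) (nat_lit 254) (nat_lit 233) (nat_lit 233)) (XT.nd (nat_lit 78) (nat_lit 1140) (nat_lit 0) (XT.lf (nat_lit 0) (nat_lit 4333650971) (nat_lit 988) (nat_lit 2772591802) (nat_lit 988) (nat_lit 64133586) (nat_lit 187) (nat_lit 4) (nat_lit 200) (nat_lit 5) (nat_lit 200) (nat_lit 4) (nat_lit 255) (nat_lit 233) (nat_lit 232)) (XT.lf (nat_lit 0) (nat_lit 4671542358) (nat_lit 1064) (nat_lit 234607686) (nat_lit 1140) (nat_lit 2371252110) (nat_lit 172) (nat_lit 5) (nat_lit 186) (nat_lit 5) (nat_lit 187) (nat_lit 4) (nat_lit 256) (nat_lit 233) (nat_lit 231)))) (XT.nd (nat_lit 78) (nat_lit 1140) (nat_lit 0) (XT.lf (nat_lit 0) (nat_lit 2538812504) (nat_lit 1140) (nat_lit 2365233602) (nat_lit 76) (nat_lit 2489763447)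 (nat_lit 157) (nat_lit 5) (nat_lit 172) (nat_lit 5) (nat_lit 158) (nat_lit 4) (nat_lit 257) (nat_lit 233) (nat_lit 230)) (XT.nd (nat_lit 78) (nat_lit 608) (nat_lit 0) (XT.lf (nat_lit 0) (nat_lit 5419233325) (nat_lit 532) (nat_lit 2073268488) (nat_lit 608) (nat_lit 27975074) (nat_lit 150) (nat_lit 5) (nat_lit 157) (nat_lit 5) (nat_lit 158) (nat_lit 4) (nat_lit 258) (nat_lit 233) (nat_lit 229)) (XT.lf (nat_lit 0) (nat_lit 4803595573) (nat_lit 608) (nat_lit 1854429135) (nat_lit 76) (nat_lit 998669386) (nat_lit 142) (nat_lit 5) (nat_lit 150) (nat_lit 5) (nat_lit 143) (nat_lit 4) (nat_lit 259) (nat_lit 233) (nat_lit 228))))))) (XT.nd (nat_lit 858) (nat_lit 2660) (nat_lit 0) (XT.nd (nat_lit 390) (nat_lit 2432) (nat_lit 0) (XT.nd (nat_lit 156) (nat_lit 1444) (nat_lit 0) (XT.nd (nat_lit 78) (nat_lit 532) (nat_lit 0) (XT.lf (nat_lit 0) (nat_lit 1916480594) (nat_lit 608) (nat_lit 1619109553) (nat_lit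 76) (nat_lit 4267586214) (nat_lit 134) (nat_lit 5) (nat_lit 142) (nat_lit 5) (nat_lit 135) (nat_lit 5) (nat_lit 260) (nat_lit 233) (nat_lit 227)) (XT.lf (nat_lit 0) (nat_lit 6566191058) (nat_lit 532) (nat_lit 167744115) (nat_lit 608) (nat_lit 1226603005) (nat_lit 127) (nat_lit 5) (nat_lit 134) (nat_lit 5) (nat_lit 135) (nat_lit 5) (nat_lit 261) (nat_lit 233) (nat_lit 226))) (XT.nd (nat_lit 78) (nat_lit 912) (nat_lit 0) (XT.lf (nat_lit 0) (nat_lit 3502658512) (nat_lit 532) (nat_lit 1230494768) (nat_lit 76) (nat_lit 3394746845) (nat_lit 120) (nat_lit 5) (nat_lit 127) (nat_lit 5) (nat_lit 121) (nat_lit 5) (nat_lit 262) (nat_lit 233) (nat_lit 225)) (XT.nd (nat_lit 78) (nat_lit 380) (nat_lit 0) (XT.lf (nat_lit 0) (nat_lit 19725172) (nat_lit 532) (nat_lit 1087825696) (nat_lit 76) (nat_lit 7199582566) (nat_lit 113) (nat_lit 5) (nat_lit 120) (nat_lit 5) (nat_lit 114) (nat_lit 5) (nat_lit 263) (nat_lit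 233) (nat_lit 224)) (XT.lf (nat_lit 0) (nat_lit 4717332694) (nat_lit 456) (nat_lit 1037205863) (nat_lit 76) (nat_lit 2742305004) (nat_lit 108) (nat_lit 5) (nat_lit 114) (nat_lit 5) (nat_lit 109) (nat_lit 5) (nat_lit 264) (nat_lit 233) (nat_lit 223))))) (XT.nd (nat_lit 234) (nat_lit 1064) (nat_lit 0) (XT.nd (nat_lit 78) (nat_lit 836) (nat_lit 0) (XT.lf (nat_lit 0) (nat_lit 840391706) (nat_lit 532) (nat_lit 1040899938) (nat_lit 76) (nat_lit 6817658388) (nat_lit 101) (nat_lit 5) (nat_lit 108) (nat_lit 5) (nat_lit 102) (nat_lit 5) (nat_lit 265) (nat_lit 233) (nat_lit 222)) (XT.nd (nat_lit 78) (nat_lit 456) (nat_lit 0) (XT.lf (nat_lit 0) (nat_lit 5536258640) (nat_lit 456) (nat_lit 1153219441) (nat_lit 76) (nat_lit 2223193301) (nat_lit 96) (nat_lit 5) (nat_lit 102) (nat_lit 5) (nat_lit 97) (nat_lit 5) (nat_lit 266) (nat_lit 233) (nat_lit 221)) (XT.lf (nat_lit 0) (nat_lit 1228770976) (nat_lit 456)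 (nat_lit 1363166712) (nat_lit 76) (nat_lit 6547312840) (nat_lit 90) (nat_lit 5) (nat_lit 96) (nat_lit 5) (nat_lit 91) (nat_lit 5) (nat_lit 267) (nat_lit 233) (nat_lit 220)))) (XT.nd (nat_lit 78) (nat_lit 760) (nat_lit 0) (XT.lf (nat_lit 0) (nat_lit 5923676800) (nat_lit 380) (nat_lit 1707622566) (nat_lit 76) (nat_lit 1747264894) (nat_lit 86) (nat_lit 5) (nat_lit 91) (nat_lit 5) (nat_lit 87) (nat_lit 5) (nat_lit 268) (nat_lit 233) (nat_lit 219)) (XT.nd (nat_lit 78) (nat_lit 304) (nat_lit 0) (XT.lf (nat_lit 0) (nat_lit 1142037515) (nat_lit 456) (nat_lit 2192848503) (nat_lit 76) (nat_lit 6296597637) (nat_lit 80) (nat_lit 5) (nat_lit 86) (nat_lit 5) (nat_lit 81) (nat_lit 5) (nat_lit 269) (nat_lit 233) (nat_lit 218)) (XT.lf (nat_lit 0) (nat_lit 5830988920) (nat_lit 380) (nat_lit 2848260519) (nat_lit 76) (nat_lit 1219017390) (nat_lit 76) (nat_lit 5) (nat_lit 81) (nat_lit 5) (nat_lit 77) (nat_lit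 5) (nat_lit 270) (nat_lit 233) (nat_lit 217)))))) (XT.nd (nat_lit 390) (nat_lit 1140) (nat_lit 0) (XT.nd (nat_lit 156) (nat_lit 836) (nat_lit 0) (XT.nd (nat_lit 78) (nat_lit 304) (nat_lit 0) (XT.lf (nat_lit 0) (nat_lit 523623970) (nat_lit 380) (nat_lit 3688906786) (nat_lit 76) (nat_lit 5967160275) (nat_lit 71) (nat_lit 5) (nat_lit 76) (nat_lit 5) (nat_lit 72) (nat_lit 5) (nat_lit 271) (nat_lit 233) (nat_lit 216)) (XT.lf (nat_lit 0) (nat_lit 5195116559) (nat_lit 380) (nat_lit 4745912876) (nat_lit 76) (nat_lit 535116797) (nat_lit 67) (nat_lit 5) (nat_lit 72) (nat_lit 5) (nat_lit 68) (nat_lit 5) (nat_lit 272) (nat_lit 233) (nat_lit 215))) (XT.nd (nat_lit 78) (nat_lit 532) (nat_lit 0) (XT.lf (nat_lit 0) (nat_lit 4745992920) (nat_lit 304) (nat_lit 5329873185) (nat_lit 380) (nat_lit 712499794) (nat_lit 63) (nat_lit 5) (nat_lit 67) (nat_lit 5) (nat_lit 68) (nat_lit 5) (nat_lit 273) (nat_lit 233)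 (nat_lit 214)) (XT.nd (nat_lit 78) (nat_lit 228) (nat_lit 0) (XT.lf (nat_lit 0) (nat_lit 3513936670) (nat_lit 228) (nat_lit 426662206) (nat_lit 304) (nat_lit 7176540653) (nat_lit 59) (nat_lit 5) (nat_lit 62) (nat_lit 5) (nat_lit 63) (nat_lit 5) (nat_lit 274) (nat_lit 233) (nat_lit 213)) (XT.lf (nat_lit 0) (nat_lit 1989881261) (nat_lit 228) (nat_lit 6806357788) (nat_lit 304) (nat_lit 2666549336) (nat_lit 56) (nat_lit 5) (nat_lit 59) (nat_lit 5) (nat_lit 60) (nat_lit 5) (nat_lit 275) (nat_lit 233) (nat_lit 212))))) (XT.nd (nat_lit 234) (nat_lit 608) (nat_lit 0) (XT.nd (nat_lit 78) (nat_lit 228) (nat_lit 0) (XT.lf (nat_lit 0) (nat_lit 169940458) (nat_lit 228) (nat_lit 1804068678) (nat_lit 304) (nat_lit 9852923474) (nat_lit 52) (nat_lit 5) (nat_lit 55) (nat_lit 5) (nat_lit 56) (nat_lit 5) (nat_lit 276) (nat_lit 233) (nat_lit 211)) (XT.nd (nat_lit 78) (nat_lit 228) (nat_lit 0) (XT.lf (nat_lit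 0) (nat_lit 6788129002) (nat_lit 304) (nat_lit 1978694859) (nat_lit 76) (nat_lit 3441932225) (nat_lit 52) (nat_lit 5) (nat_lit 56) (nat_lit 5) (nat_lit 53) (nat_lit 5) (nat_lit 277) (nat_lit 233) (nat_lit 210)) (XT.lf (nat_lit 0) (nat_lit 8129471806) (nat_lit 228) (nat_lit 3680828771) (nat_lit 304) (nat_lit 800506490) (nat_lit 49) (nat_lit 5) (nat_lit 52) (nat_lit 5) (nat_lit 53) (nat_lit 5) (nat_lit 278) (nat_lit 233) (nat_lit 209)))) (XT.nd (nat_lit 78) (nat_lit 304) (nat_lit 0) (XT.lf (nat_lit 0) (nat_lit 3936664929) (nat_lit 304) (nat_lit 7418683469) (nat_lit 76) (nat_lit 1677636374) (nat_lit 45) (nat_lit 5) (nat_lit 49) (nat_lit 5) (nat_lit 46) (nat_lit 5) (nat_lit 279) (nat_lit 233) (nat_lit 208)) (XT.nd (nat_lit 78) (nat_lit 76) (nat_lit 0) (XT.lf (nat_lit 0) (nat_lit 2650270849) (nat_lit 228) (nat_lit 6230773134) (nat_lit 304) (nat_lit 4595520456) (nat_lit 42) (nat_lit 5) (nat_lit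 45) (nat_lit 5) (nat_lit 46) (nat_lit 5) (nat_lit 280) (nat_lit 233) (nat_lit 207)) (XT.lf (nat_lit 0) (nat_lit 85199647) (nat_lit 304) (nat_lit 750661301) (nat_lit 76) (nat_lit 13107829443) (nat_lit 41) (nat_lit 5) (nat_lit 45) (nat_lit 5) (nat_lit 42) (nat_lit 5) (nat_lit 281) (nat_lit 233) (nat_lit 206))))))))
noncomputable def xc37 : XT := (XT.nd (nat_lit 1716) (nat_lit 608) (nat_lit 0) (XT.nd (nat_lit 858) (nat_lit 760) (nat_lit 0) (XT.nd (nat_lit 390) (nat_lit 608) (nat_lit 0) (XT.nd (nat_lit 156) (nat_lit 380) (nat_lit 0) (XT.nd (nat_lit 78) (nat_lit 228) (nat_lit 0) (XT.lf (nat_lit 0) (nat_lit 4933160612) (nat_lit 228) (nat_lit 4684620620) (nat_lit 76) (nat_lit 4814300505) (nat_lit 39) (nat_lit 5) (nat_lit 42) (nat_lit 5) (nat_lit 40) (nat_lit 5) (nat_lit 282) (nat_lit 233) (nat_lit 205)) (XT.lf (nat_lit 0) (nat_lit 5770415671) (nat_lit 228) (nat_lit 4213986539) (nat_lit 304) (nat_lit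 4961779694) (nat_lit 36) (nat_lit 5) (nat_lit 39) (nat_lit 5) (nat_lit 40) (nat_lit 5) (nat_lit 283) (nat_lit 233) (nat_lit 204))) (XT.nd (nat_lit 78) (nat_lit 228) (nat_lit 0) (XT.lf (nat_lit 0) (nat_lit 1197527501) (nat_lit 152) (nat_lit 14057135314) (nat_lit 228) (nat_lit 232440780) (nat_lit 34) (nat_lit 5) (nat_lit 36) (nat_lit 5) (nat_lit 37) (nat_lit 4) (nat_lit 284) (nat_lit 233) (nat_lit 203)) (XT.nd (nat_lit 78) (nat_lit 152) (nat_lit 0) (XT.lf (nat_lit 0) (nat_lit 4673517456) (nat_lit 228) (nat_lit 4030104104) (nat_lit 76) (nat_lit 7349211206) (nat_lit 33) (nat_lit 5) (nat_lit 36) (nat_lit 5) (nat_lit 34) (nat_lit 5) (nat_lit 285) (nat_lit 233) (nat_lit 202)) (XT.lf (nat_lit 0) (nat_lit 6708880420) (nat_lit 152) (nat_lit 3075232848) (nat_lit 228) (nat_lit 6863838739) (nat_lit 31) (nat_lit 5) (nat_lit 33) (nat_lit 5) (nat_lit 34) (nat_lit 5) (nat_lit 286) (nat_lit 233) (nat_lit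 201))))) (XT.nd (nat_lit 234) (nat_lit 228) (nat_lit 0) (XT.nd (nat_lit 78) (nat_lit 228) (nat_lit 0) (XT.lf (nat_lit 0) (nat_lit 622118608) (nat_lit 152) (nat_lit 14505545772) (nat_lit 228) (nat_lit 2145932508) (nat_lit 29) (nat_lit 5) (nat_lit 31) (nat_lit 5) (nat_lit 32) (nat_lit 4) (nat_lit 287) (nat_lit 233) (nat_lit 200)) (XT.nd (nat_lit 78) (nat_lit 152) (nat_lit 0) (XT.lf (nat_lit 0) (nat_lit 2791881807) (nat_lit 228) (nat_lit 6224649930) (nat_lit 76) (nat_lit 8912103888) (nat_lit 28) (nat_lit 5) (nat_lit 31) (nat_lit 5) (nat_lit 29) (nat_lit 5) (nat_lit 288) (nat_lit 233) (nat_lit 199)) (XT.lf (nat_lit 0) (nat_lit 4642725304) (nat_lit 152) (nat_lit 3243510549) (nat_lit 228) (nat_lit 10731013539) (nat_lit 26) (nat_lit 5) (nat_lit 28) (nat_lit 5) (nat_lit 29) (nat_lit 5) (nat_lit 289) (nat_lit 233) (nat_lit 198)))) (XT.nd (nat_lit 78) (nat_lit 228) (nat_lit 0) (XT.lf (nat_lit 0) (nat_lit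 13238482507) (nat_lit 228) (nat_lit 3330157433) (nat_lit 76) (nat_lit 2771636188) (nat_lit 26) (nat_lit 5) (nat_lit 29) (nat_lit 5) (nat_lit 27) (nat_lit 4) (nat_lit 290) (nat_lit 233) (nat_lit 197)) (XT.nd (nat_lit 78) (nat_lit 76) (nat_lit 0) (XT.lf (nat_lit 0) (nat_lit 7825821158) (nat_lit 152) (nat_lit 11056078076) (nat_lit 228) (nat_lit 1216922071) (nat_lit 24) (nat_lit 5) (nat_lit 26) (nat_lit 5) (nat_lit 27) (nat_lit 4) (nat_lit 291) (nat_lit 233) (nat_lit 196)) (XT.lf (nat_lit 0) (nat_lit 3787895053) (nat_lit 228) (nat_lit 1461282820) (nat_lit 76) (nat_lit 15646494657) (nat_lit 23) (nat_lit 5) (nat_lit 26) (nat_lit 5) (nat_lit 24) (nat_lit 5) (nat_lit 292) (nat_lit 233) (nat_lit 195)))))) (XT.nd (nat_lit 390) (nat_lit 304) (nat_lit 0) (XT.nd (nat_lit 156) (nat_lit 304) (nat_lit 0) (XT.nd (nat_lit 78) (nat_lit 0) (nat_lit 0) (XT.lf (nat_lit 0) (nat_lit 9043643490) (nat_lit 228) (nat_lit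 11799219269) (nat_lit 76) (nat_lit 888431370) (nat_lit 21) (nat_lit 5) (nat_lit 24) (nat_lit 5) (nat_lit 22) (nat_lit 4) (nat_lit 293) (nat_lit 233) (nat_lit 194)) (XT.lf (nat_lit 0) (nat_lit 14553724774) (nat_lit 228) (nat_lit 865489425) (nat_lit 76) (nat_lit 7189798170) (nat_lit 21) (nat_lit 5) (nat_lit 24) (nat_lit 5) (nat_lit 22) (nat_lit 4) (nat_lit 294) (nat_lit 233) (nat_lit 193))) (XT.nd (nat_lit 78) (nat_lit 228) (nat_lit 0) (XT.lf (nat_lit 0) (nat_lit 10700153373) (nat_lit 76) (nat_lit 9669034736) (nat_lit 152) (nat_lit 3160591047) (nat_lit 20) (nat_lit 5) (nat_lit 21) (nat_lit 5) (nat_lit 22) (nat_lit 4) (nat_lit 295) (nat_lit 233) (nat_lit 192)) (XT.nd (nat_lit 78) (nat_lit 152) (nat_lit 0) (XT.lf (nat_lit 0) (nat_lit 1877811971) (nat_lit 152) (nat_lit 1774768208) (nat_lit 76) (nat_lit 20845360403) (nat_lit 19) (nat_lit 5) (nat_lit 21) (nat_lit 5) (nat_lit 20) (nat_lit 5) (nat_lit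 296) (nat_lit 233) (nat_lit 191)) (XT.lf (nat_lit 0) (nat_lit 7156730873) (nat_lit 228) (nat_lit 15661242151) (nat_lit 76) (nat_lit 2694031352) (nat_lit 17) (nat_lit 5) (nat_lit 20) (nat_lit 5) (nat_lit 18) (nat_lit 4) (nat_lit 297) (nat_lit 233) (nat_lit 190))))) (XT.nd (nat_lit 234) (nat_lit 228) (nat_lit 0) (XT.nd (nat_lit 78) (nat_lit 76) (nat_lit 0) (XT.lf (nat_lit 0) (nat_lit 12688612181) (nat_lit 228) (nat_lit 4632594107) (nat_lit 76) (nat_lit 9255944041) (nat_lit 17) (nat_lit 5) (nat_lit 20) (nat_lit 5) (nat_lit 18) (nat_lit 4) (nat_lit 298) (nat_lit 233) (nat_lit 189)) (XT.nd (nat_lit 78) (nat_lit 0) (nat_lit 0) (XT.lf (nat_lit 0) (nat_lit 6975041969) (nat_lit 76) (nat_lit 11525950644) (nat_lit 152) (nat_lit 9194490920) (nat_lit 16) (nat_lit 5) (nat_lit 17) (nat_lit 5) (nat_lit 18) (nat_lit 4) (nat_lit 299) (nat_lit 233) (nat_lit 188)) (XT.lf (nat_lit 0) (nat_lit 19154426516) (nat_lit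 76) (nat_lit 5436103969) (nat_lit 152) (nat_lit 4279651623) (nat_lit 16) (nat_lit 5) (nat_lit 17) (nat_lit 5) (nat_lit 18) (nat_lit 4) (nat_lit 300) (nat_lit 233) (nat_lit 187)))) (XT.nd (nat_lit 78) (nat_lit 0) (nat_lit 0) (XT.lf (nat_lit 0) (nat_lit 830886115) (nat_lit 228) (nat_lit 28350236203) (nat_lit 76) (nat_lit 923266337) (nat_lit 13) (nat_lit 5) (nat_lit 16) (nat_lit 5) (nat_lit 14) (nat_lit 4) (nat_lit 301) (nat_lit 233) (nat_lit 186)) (XT.nd (nat_lit 78) (nat_lit 0) (nat_lit 0) (XT.lf (nat_lit 0) (nat_lit 6207733136) (nat_lit 228) (nat_lit 17595840263) (nat_lit 76) (nat_lit 7592521690) (nat_lit 13) (nat_lit 5) (nat_lit 16) (nat_lit 5) (nat_lit 14) (nat_lit 4) (nat_lit 302) (nat_lit 233) (nat_lit 185)) (XT.lf (nat_lit 0) (nat_lit 11798752116) (nat_lit 228) (nat_lit 6399027458) (nat_lit 76) (nat_lit 14556285006) (nat_lit 13) (nat_lit 5) (nat_lit 16) (nat_lit 5) (nat_lit 14) (nat_lit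 4) (nat_lit 303) (nat_lit 233) (nat_lit 184))))))) (XT.nd (nat_lit 858) (nat_lit 228) (nat_lit 0) (XT.nd (nat_lit 390) (nat_lit 152) (nat_lit 0) (XT.nd (nat_lit 156) (nat_lit 152) (nat_lit 0) (XT.nd (nat_lit 78) (nat_lit 0) (nat_lit 0) (XT.lf (nat_lit 0) (nat_lit 5371682155) (nat_lit 76) (nat_lit 12297208746) (nat_lit 152) (nat_lit 16511090415) (nat_lit 12) (nat_lit 5) (nat_lit 13) (nat_lit 5) (nat_lit 14) (nat_lit 4) (nat_lit 304) (nat_lit 233) (nat_lit 183)) (XT.lf (nat_lit 0) (nat_lit 17776485158) (nat_lit 76) (nat_lit 6071488677) (nat_lit 152) (nat_lit 11828791065) (nat_lit 12) (nat_lit 5) (nat_lit 13) (nat_lit 5) (nat_lit 14) (nat_lit 4) (nat_lit 305) (nat_lit 233) (nat_lit 182))) (XT.nd (nat_lit 78) (nat_lit 152) (nat_lit 0) (XT.lf (nat_lit 0) (nat_lit 30292106901) (nat_lit 152) (nat_lit 6536427015) (nat_lit 0) (nat_lit 421203371) (nat_lit 12) (nat_lit 5) (nat_lit 14) (nat_lit 4) (nat_lit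 12) (nat_lit 4) (nat_lit 306) (nat_lit 233) (nat_lit 181)) (XT.nd (nat_lit 78) (nat_lit 76) (nat_lit 0) (XT.lf (nat_lit 0) (nat_lit 5357847461) (nat_lit 76) (nat_lit 31767307974) (nat_lit 76) (nat_lit 1774232547) (nat_lit 11) (nat_lit 4) (nat_lit 12) (nat_lit 5) (nat_lit 12) (nat_lit 4) (nat_lit 307) (nat_lit 233) (nat_lit 180)) (XT.lf (nat_lit 0) (nat_lit 3619597114) (nat_lit 152) (nat_lit 22761647474) (nat_lit 76) (nat_lit 14248562048) (nat_lit 10) (nat_lit 5) (nat_lit 12) (nat_lit 5) (nat_lit 11) (nat_lit 4) (nat_lit 308) (nat_lit 233) (nat_lit 179))))) (XT.nd (nat_lit 234) (nat_lit 76) (nat_lit 0) (XT.nd (nat_lit 78) (nat_lit 76) (nat_lit 0) (XT.lf (nat_lit 0) (nat_lit 9203804943) (nat_lit 152) (nat_lit 11536519092) (nat_lit 76) (nat_lit 21707201029) (nat_lit 10) (nat_lit 5) (nat_lit 12) (nat_lit 5) (nat_lit 11) (nat_lit 4) (nat_lit 309) (nat_lit 233) (nat_lit 178)) (XT.nd (nat_lit 78)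 (nat_lit 0) (nat_lit 0) (XT.lf (nat_lit 0) (nat_lit 181161234) (nat_lit 76) (nat_lit 14846888539) (nat_lit 152) (nat_lit 29329280804) (nat_lit 9) (nat_lit 5) (nat_lit 10) (nat_lit 5) (nat_lit 11) (nat_lit 4) (nat_lit 310) (nat_lit 233) (nat_lit 177)) (XT.lf (nat_lit 0) (nat_lit 12655636049) (nat_lit 76) (nat_lit 8566988077) (nat_lit 152) (nat_lit 25137653446) (nat_lit 9) (nat_lit 5) (nat_lit 10) (nat_lit 5) (nat_lit 11) (nat_lit 4) (nat_lit 311) (nat_lit 233) (nat_lit 176)))) (XT.nd (nat_lit 78) (nat_lit 76) (nat_lit 0) (XT.lf (nat_lit 0) (nat_lit 25687007131) (nat_lit 76) (nat_lit 2002166730) (nat_lit 152) (nat_lit 20775354205) (nat_lit 9) (nat_lit 5) (nat_lit 10) (nat_lit 5) (nat_lit 11) (nat_lit 4) (nat_lit 312) (nat_lit 233) (nat_lit 175)) (XT.nd (nat_lit 78) (nat_lit 76) (nat_lit 0) (XT.lf (nat_lit 0) (nat_lit 34489843634) (nat_lit 152) (nat_lit 11415538734) (nat_lit 0) (nat_lit 4768307364)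 (nat_lit 9) (nat_lit 5) (nat_lit 11) (nat_lit 4) (nat_lit 9) (nat_lit 4) (nat_lit 313) (nat_lit 233) (nat_lit 174)) (XT.lf (nat_lit 0) (nat_lit 441540616) (nat_lit 76) (nat_lit 41178962108) (nat_lit 76) (nat_lit 11373129443) (nat_lit 8) (nat_lit 4) (nat_lit 9) (nat_lit 5) (nat_lit 9) (nat_lit 4) (nat_lit 314) (nat_lit 233) (nat_lit 173)))))) (XT.nd (nat_lit 468) (nat_lit 76) (nat_lit 0) (XT.nd (nat_lit 234) (nat_lit 76) (nat_lit 0) (XT.nd (nat_lit 78) (nat_lit 76) (nat_lit 0) (XT.lf (nat_lit 0) (nat_lit 13070375761) (nat_lit 76) (nat_lit 36121404344) (nat_lit 76) (nat_lit 6235289398) (nat_lit 8) (nat_lit 4) (nat_lit 9) (nat_lit 5) (nat_lit 9) (nat_lit 4) (nat_lit 315) (nat_lit 233) (nat_lit 172)) (XT.nd (nat_lit 78) (nat_lit 76) (nat_lit 0) (XT.lf (nat_lit 0) (nat_lit 26273843750) (nat_lit 76) (nat_lit 30835941831) (nat_lit 76) (nat_lit 873367570) (nat_lit 8) (nat_lit 4) (nat_lit 9) (nat_lit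 5) (nat_lit 9) (nat_lit 4) (nat_lit 316) (nat_lit 233) (nat_lit 171)) (XT.lf (nat_lit 0) (nat_lit 4633192897) (nat_lit 152) (nat_lit 20630011074) (nat_lit 76) (nat_lit 35403402352) (nat_lit 7) (nat_lit 5) (nat_lit 9) (nat_lit 5) (nat_lit 8) (nat_lit 4) (nat_lit 317) (nat_lit 233) (nat_lit 170)))) (XT.nd (nat_lit 78) (nat_lit 76) (nat_lit 0) (XT.lf (nat_lit 0) (nat_lit 10368007600) (nat_lit 152) (nat_lit 9057688080) (nat_lit 76) (nat_lit 44059164453) (nat_lit 7) (nat_lit 5) (nat_lit 9) (nat_lit 5) (nat_lit 8) (nat_lit 4) (nat_lit 318) (nat_lit 233) (nat_lit 169)) (XT.nd (nat_lit 78) (nat_lit 0) (nat_lit 0) (XT.lf (nat_lit 0) (nat_lit 3104181842) (nat_lit 76) (nat_lit 13287430858) (nat_lit 152) (nat_lit 50052368691) (nat_lit 6) (nat_lit 5) (nat_lit 7) (nat_lit 5) (nat_lit 8) (nat_lit 4) (nat_lit 319) (nat_lit 233) (nat_lit 168)) (XT.lf (nat_lit 0) (nat_lit 16015204317) (nat_lit 76) (nat_lit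 6767504807) (nat_lit 152) (nat_lit 46766375727) (nat_lit 6) (nat_lit 5) (nat_lit 7) (nat_lit 5) (nat_lit 8) (nat_lit 4) (nat_lit 320) (nat_lit 233) (nat_lit 167))))) (XT.nd (nat_lit 234) (nat_lit 76) (nat_lit 0) (XT.nd (nat_lit 78) (nat_lit 0) (nat_lit 0) (XT.lf (nat_lit 0) (nat_lit 29468271797) (nat_lit 152) (nat_lit 43284932415) (nat_lit 0) (nat_lit 57006669) (nat_lit 6) (nat_lit 5) (nat_lit 8) (nat_lit 4) (nat_lit 6) (nat_lit 4) (nat_lit 321) (nat_lit 233) (nat_lit 166)) (XT.nd (nat_lit 78) (nat_lit 0) (nat_lit 0) (XT.lf (nat_lit 0) (nat_lit 36531806885) (nat_lit 152) (nat_lit 32636141094) (nat_lit 0) (nat_lit 7065148439) (nat_lit 6) (nat_lit 5) (nat_lit 8) (nat_lit 4) (nat_lit 6) (nat_lit 4) (nat_lit 322) (nat_lit 233) (nat_lit 165)) (XT.lf (nat_lit 0) (nat_lit 43925078935) (nat_lit 152) (nat_lit 21497098911) (nat_lit 0) (nat_lit 14405664947) (nat_lit 6) (nat_lit 5) (nat_lit 8) (nat_lit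 4) (nat_lit 6) (nat_lit 4) (nat_lit 323) (nat_lit 233) (nat_lit 164)))) (XT.nd (nat_lit 78) (nat_lit 76) (nat_lit 0) (XT.lf (nat_lit 0) (nat_lit 51665690974) (nat_lit 152) (nat_lit 9841284337) (nat_lit 0) (nat_lit 22096033614) (nat_lit 6) (nat_lit 5) (nat_lit 8) (nat_lit 4) (nat_lit 6) (nat_lit 4) (nat_lit 324) (nat_lit 233) (nat_lit 163)) (XT.nd (nat_lit 78) (nat_lit 0) (nat_lit 0) (XT.lf (nat_lit 0) (nat_lit 2406004378) (nat_lit 76) (nat_lit 57389196639) (nat_lit 76) (nat_lit 27771688448) (nat_lit 5) (nat_lit 4) (nat_lit 6) (nat_lit 5) (nat_lit 6) (nat_lit 4) (nat_lit 325) (nat_lit 233) (nat_lit 162)) (XT.lf (nat_lit 0) (nat_lit 15434141928) (nat_lit 76) (nat_lit 52977746503) (nat_lit 76) (nat_lit 23314666092) (nat_lit 5) (nat_lit 4) (nat_lit 6) (nat_lit 5) (nat_lit 6) (nat_lit 4) (nat_lit 326) (nat_lit 233) (nat_lit 161))))))))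
noncomputable def xc38 : XT := (XT.nd (nat_lit 32838) (nat_lit 0) (nat_lit 1900) (XT.nd (nat_lit 31980) (nat_lit 0) (nat_lit 7068) (XT.nd (nat_lit 390) (nat_lit 76) (nat_lit 0) (XT.nd (nat_lit 156) (nat_lit 76) (nat_lit 0) (XT.nd (nat_lit 78) (nat_lit 0) (nat_lit 0) (XT.lf (nat_lit 0) (nat_lit 29078286832) (nat_lit 76) (nat_lit 48361499126) (nat_lit 76) (nat_lit 18655016600) (nat_lit 5) (nat_lit 4) (nat_lit 6) (nat_lit 5) (nat_lit 6) (nat_lit 4) (nat_lit 327) (nat_lit 233) (nat_lit 160)) (XT.lf (nat_lit 0) (nat_lit 43370925149) (nat_lit 76) (nat_lit 43529463443) (nat_lit 76) (nat_lit 13781645570) (nat_lit 5) (nat_lit 4) (nat_lit 6) (nat_lit 5) (nat_lit 6) (nat_lit 4) (nat_lit 328) (nat_lit 233) (nat_lit 159))) (XT.nd (nat_lit 78) (nat_lit 76) (nat_lit 0) (XT.lf (nat_lit 0) (nat_lit 58346086970) (nat_lit 76) (nat_lit 38470134607) (nat_lit 76) (nat_lit 8682949736) (nat_lit 5) (nat_lit 4) (nat_lit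 6) (nat_lit 5) (nat_lit 6) (nat_lit 4) (nat_lit 329) (nat_lit 233) (nat_lit 158)) (XT.nd (nat_lit 78) (nat_lit 76) (nat_lit 0) (XT.lf (nat_lit 0) (nat_lit 74039427444) (nat_lit 76) (nat_lit 33171466596) (nat_lit 76) (nat_lit 3346789347) (nat_lit 5) (nat_lit 4) (nat_lit 6) (nat_lit 5) (nat_lit 6) (nat_lit 4) (nat_lit 330) (nat_lit 233) (nat_lit 157)) (XT.lf (nat_lit 0) (nat_lit 2195839234) (nat_lit 152) (nat_lit 25402830630) (nat_lit 76) (nat_lit 88270298760) (nat_lit 4) (nat_lit 5) (nat_lit 6) (nat_lit 5) (nat_lit 5) (nat_lit 4) (nat_lit 331) (nat_lit 233) (nat_lit 156))))) (XT.nd (nat_lit 31356) (nat_lit 0) (nat_lit 13908) (XT.nd (nat_lit 156) (nat_lit 76) (nat_lit 0) (XT.lf (nat_lit 0) (nat_lit 7931489128) (nat_lit 152) (nat_lit 13793468038) (nat_lit 76) (nat_lit 99720322029) (nat_lit 4) (nat_lit 5) (nat_lit 6) (nat_lit 5) (nat_lit 5) (nat_lit 4) (nat_lit 332) (nat_lit 233) (nat_lit 155))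 (XT.nd (nat_lit 31122) (nat_lit 0) (nat_lit 16796) (XT.lf (nat_lit 0) (nat_lit 11336686539) (nat_lit 76) (nat_lit 9005338044) (nat_lit 152) (nat_lit 113104350560) (nat_lit 3) (nat_lit 5) (nat_lit 4) (nat_lit 5) (nat_lit 5) (nat_lit 4) (nat_lit 334) (nat_lit 233) (nat_lit 153)) (XT.lf (nat_lit 0) (nat_lit 921007090) (nat_lit 836) (nat_lit 1608657931) (nat_lit 0) (nat_lit 921007090) (nat_lit 224) (nat_lit 5) (nat_lit 235) (nat_lit 4) (nat_lit 224) (nat_lit 4) (nat_lit 252) (nat_lit 234) (nat_lit 234)))) (XT.nd (nat_lit 78) (nat_lit 2052) (nat_lit 0) (XT.lf (nat_lit 0) (nat_lit 3771539620) (nat_lit 836) (nat_lit 3071049605) (nat_lit 836) (nat_lit 141852044) (nat_lit 213) (nat_lit 4) (nat_lit 224) (nat_lit 5) (nat_lit 224) (nat_lit 4) (nat_lit 253) (nat_lit 234) (nat_lit 233)) (XT.nd (nat_lit 78) (nat_lit 1064) (nat_lit 0) (XT.lf (nat_lit 0) (nat_lit 3900856563) (nat_lit 912) (nat_lit 837944464)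 (nat_lit 988) (nat_lit 2337671632) (nat_lit 200) (nat_lit 5) (nat_lit 212) (nat_lit 5) (nat_lit 213) (nat_lit 4) (nat_lit 254) (nat_lit 234) (nat_lit 232)) (XT.lf (nat_lit 0) (nat_lit 2474638715) (nat_lit 1064) (nat_lit 3108306767) (nat_lit 76) (nat_lit 1594789766) (nat_lit 186) (nat_lit 5) (nat_lit 200) (nat_lit 5) (nat_lit 187) (nat_lit 4) (nat_lit 255) (nat_lit 234) (nat_lit 231)))))) (XT.nd (nat_lit 390) (nat_lit 2888) (nat_lit 0) (XT.nd (nat_lit 156) (nat_lit 1748) (nat_lit 0) (XT.nd (nat_lit 78) (nat_lit 1064) (nat_lit 0) (XT.lf (nat_lit 0) (nat_lit 34016453) (nat_lit 1140) (nat_lit 3011073939) (nat_lit 76) (nat_lit 4243546843) (nat_lit 171) (nat_lit 5) (nat_lit 186) (nat_lit 5) (nat_lit 172) (nat_lit 5) (nat_lit 256) (nat_lit 234) (nat_lit 230)) (XT.lf (nat_lit 0) (nat_lit 4501916016) (nat_lit 1064) (nat_lit 252736277) (nat_lit 1140) (nat_lit 2654275810) (nat_lit 157) (nat_lit 5)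 (nat_lit 171) (nat_lit 5) (nat_lit 172) (nat_lit 5) (nat_lit 257) (nat_lit 234) (nat_lit 229))) (XT.nd (nat_lit 78) (nat_lit 1140) (nat_lit 0) (XT.lf (nat_lit 0) (nat_lit 2010994508) (nat_lit 608) (nat_lit 2805525500) (nat_lit 76) (nat_lit 2722281495) (nat_lit 149) (nat_lit 5) (nat_lit 157) (nat_lit 5) (nat_lit 150) (nat_lit 5) (nat_lit 258) (nat_lit 234) (nat_lit 228)) (XT.nd (nat_lit 78) (nat_lit 608) (nat_lit 0) (XT.lf (nat_lit 0) (nat_lit 4979120963) (nat_lit 532) (nat_lit 1738850345) (nat_lit 608) (nat_lit 961000806) (nat_lit 142) (nat_lit 5) (nat_lit 149) (nat_lit 5) (nat_lit 150) (nat_lit 5) (nat_lit 259) (nat_lit 234) (nat_lit 227)) (XT.lf (nat_lit 0) (nat_lit 3641916374) (nat_lit 608) (nat_lit 2622241948) (nat_lit 76) (nat_lit 1564864568) (nat_lit 134) (nat_lit 5) (nat_lit 142) (nat_lit 5) (nat_lit 135) (nat_lit 5) (nat_lit 260) (nat_lit 234) (nat_lit 226))))) (XT.nd (nat_lit 234)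 (nat_lit 1292) (nat_lit 0) (XT.nd (nat_lit 78) (nat_lit 988) (nat_lit 0) (XT.lf (nat_lit 0) (nat_lit 351856218) (nat_lit 608) (nat_lit 2563883505) (nat_lit 76) (nat_lit 5074070814) (nat_lit 126) (nat_lit 5) (nat_lit 134) (nat_lit 5) (nat_lit 127) (nat_lit 5) (nat_lit 261) (nat_lit 234) (nat_lit 225)) (XT.nd (nat_lit 78) (nat_lit 532) (nat_lit 0) (XT.lf (nat_lit 0) (nat_lit 4920855116) (nat_lit 532) (nat_lit 2553717044) (nat_lit 76) (nat_lit 686531858) (nat_lit 120) (nat_lit 5) (nat_lit 127) (nat_lit 5) (nat_lit 121) (nat_lit 5) (nat_lit 262) (nat_lit 234) (nat_lit 224)) (XT.lf (nat_lit 0) (nat_lit 1268741632) (nat_lit 532) (nat_lit 2598468893) (nat_lit 76) (nat_lit 4476176619) (nat_lit 113) (nat_lit 5) (nat_lit 120) (nat_lit 5) (nat_lit 114) (nat_lit 5) (nat_lit 263) (nat_lit 234) (nat_lit 223)))) (XT.nd (nat_lit 78) (nat_lit 912) (nat_lit 0) (XT.lf (nat_lit 0) (nat_lit 5832333275) (nat_lit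 456) (nat_lit 2701732326) (nat_lit 76) (nat_lit 3224256) (nat_lit 108) (nat_lit 5) (nat_lit 114) (nat_lit 5) (nat_lit 109) (nat_lit 5) (nat_lit 264) (nat_lit 234) (nat_lit 222)) (XT.nd (nat_lit 78) (nat_lit 380) (nat_lit 0) (XT.lf (nat_lit 0) (nat_lit 1787265617) (nat_lit 532) (nat_lit 2902144990) (nat_lit 76) (nat_lit 4053036343) (nat_lit 101) (nat_lit 5) (nat_lit 108) (nat_lit 5) (nat_lit 102) (nat_lit 5) (nat_lit 265) (nat_lit 234) (nat_lit 221)) (XT.lf (nat_lit 0) (nat_lit 5774351108) (nat_lit 380) (nat_lit 581752872) (nat_lit 456) (nat_lit 2604026738) (nat_lit 96) (nat_lit 5) (nat_lit 101) (nat_lit 5) (nat_lit 102) (nat_lit 5) (nat_lit 266) (nat_lit 234) (nat_lit 220))))))) (XT.nd (nat_lit 858) (nat_lit 1824) (nat_lit 0) (XT.nd (nat_lit 390) (nat_lit 1444) (nat_lit 0) (XT.nd (nat_lit 156) (nat_lit 1140) (nat_lit 0) (XT.nd (nat_lit 78) (nat_lit 304) (nat_lit 0) (XT.lf (nat_lit 0) (nat_lit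 1875303468) (nat_lit 456) (nat_lit 3596309444) (nat_lit 76) (nat_lit 3718337801) (nat_lit 90) (nat_lit 5) (nat_lit 96) (nat_lit 5) (nat_lit 91) (nat_lit 5) (nat_lit 267) (nat_lit 234) (nat_lit 219)) (XT.lf (nat_lit 0) (nat_lit 5303726390) (nat_lit 304) (nat_lit 1145413883) (nat_lit 380) (nat_lit 2983889709) (nat_lit 86) (nat_lit 5) (nat_lit 90) (nat_lit 5) (nat_lit 91) (nat_lit 5) (nat_lit 268) (nat_lit 234) (nat_lit 218))) (XT.nd (nat_lit 78) (nat_lit 684) (nat_lit 0) (XT.lf (nat_lit 0) (nat_lit 1488553227) (nat_lit 456) (nat_lit 4819389910) (nat_lit 76) (nat_lit 3381452559) (nat_lit 80) (nat_lit 5) (nat_lit 86) (nat_lit 5) (nat_lit 81) (nat_lit 5) (nat_lit 269) (nat_lit 234) (nat_lit 217)) (XT.nd (nat_lit 78) (nat_lit 380) (nat_lit 0) (XT.lf (nat_lit 0) (nat_lit 4278398746) (nat_lit 304) (nat_lit 1783914288) (nat_lit 380) (nat_lit 3897439118) (nat_lit 76) (nat_lit 5) (nat_lit 80) (nat_lit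 5) (nat_lit 81) (nat_lit 5) (nat_lit 270) (nat_lit 234) (nat_lit 216)) (XT.lf (nat_lit 0) (nat_lit 569042726) (nat_lit 380) (nat_lit 6730735443) (nat_lit 76) (nat_lit 2945091059) (nat_lit 71) (nat_lit 5) (nat_lit 76) (nat_lit 5) (nat_lit 72) (nat_lit 5) (nat_lit 271) (nat_lit 234) (nat_lit 215))))) (XT.nd (nat_lit 234) (nat_lit 760) (nat_lit 0) (XT.nd (nat_lit 78) (nat_lit 380) (nat_lit 0) (XT.lf (nat_lit 0) (nat_lit 2530479820) (nat_lit 304) (nat_lit 2601706589) (nat_lit 380) (nat_lit 5412491988) (nat_lit 67) (nat_lit 5) (nat_lit 71) (nat_lit 5) (nat_lit 72) (nat_lit 5) (nat_lit 272) (nat_lit 234) (nat_lit 214)) (XT.nd (nat_lit 78) (nat_lit 76) (nat_lit 0) (XT.lf (nat_lit 0) (nat_lit 1336364746) (nat_lit 304) (nat_lit 8548725178) (nat_lit 380) (nat_lit 975742095) (nat_lit 63) (nat_lit 5) (nat_lit 67) (nat_lit 5) (nat_lit 68) (nat_lit 5) (nat_lit 273) (nat_lit 234) (nat_lit 213)) (XT.lf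 (nat_lit 0) (nat_lit 3580296202) (nat_lit 380) (nat_lit 132605847) (nat_lit 76) (nat_lit 7479936572) (nat_lit 62) (nat_lit 5) (nat_lit 67) (nat_lit 5) (nat_lit 63) (nat_lit 5) (nat_lit 274) (nat_lit 234) (nat_lit 212)))) (XT.nd (nat_lit 78) (nat_lit 532) (nat_lit 0) (XT.lf (nat_lit 0) (nat_lit 8317542618) (nat_lit 304) (nat_lit 1839639777) (nat_lit 76) (nat_lit 1384943700) (nat_lit 59) (nat_lit 5) (nat_lit 63) (nat_lit 5) (nat_lit 60) (nat_lit 5) (nat_lit 275) (nat_lit 234) (nat_lit 211)) (XT.nd (nat_lit 78) (nat_lit 228) (nat_lit 0) (XT.lf (nat_lit 0) (nat_lit 1342188048) (nat_lit 304) (nat_lit 3869798267) (nat_lit 76) (nat_lit 6697065478) (nat_lit 55) (nat_lit 5) (nat_lit 59) (nat_lit 5) (nat_lit 56) (nat_lit 5) (nat_lit 276) (nat_lit 234) (nat_lit 210)) (XT.lf (nat_lit 0) (nat_lit 6022303045) (nat_lit 304) (nat_lit 6240437217) (nat_lit 76) (nat_lit 32231593) (nat_lit 52) (nat_lit 5) (nat_lit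 56) (nat_lit 5) (nat_lit 53) (nat_lit 5) (nat_lit 277) (nat_lit 234) (nat_lit 209)))))) (XT.nd (nat_lit 390) (nat_lit 836) (nat_lit 0) (XT.nd (nat_lit 156) (nat_lit 456) (nat_lit 0) (XT.nd (nat_lit 78) (nat_lit 304) (nat_lit 0) (XT.lf (nat_lit 0) (nat_lit 3690767362) (nat_lit 228) (nat_lit 7251105388) (nat_lit 304) (nat_lit 1758300944) (nat_lit 49) (nat_lit 5) (nat_lit 52) (nat_lit 5) (nat_lit 53) (nat_lit 5) (nat_lit 278) (nat_lit 234) (nat_lit 208)) (XT.lf (nat_lit 0) (nat_lit 931682564) (nat_lit 228) (nat_lit 1945690100) (nat_lit 304) (nat_lit 10248927890) (nat_lit 45) (nat_lit 5) (nat_lit 48) (nat_lit 5) (nat_lit 49) (nat_lit 5) (nat_lit 279) (nat_lit 234) (nat_lit 207))) (XT.nd (nat_lit 78) (nat_lit 456) (nat_lit 0) (XT.lf (nat_lit 0) (nat_lit 7720678317) (nat_lit 304) (nat_lit 2246591605) (nat_lit 76) (nat_lit 3605706610) (nat_lit 45) (nat_lit 5) (nat_lit 49) (nat_lit 5) (nat_lit 46)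 (nat_lit 5) (nat_lit 280) (nat_lit 234) (nat_lit 206)) (XT.nd (nat_lit 78) (nat_lit 228) (nat_lit 0) (XT.lf (nat_lit 0) (nat_lit 8166920699) (nat_lit 228) (nat_lit 4626293134) (nat_lit 304) (nat_lit 1249285703) (nat_lit 42) (nat_lit 5) (nat_lit 45) (nat_lit 5) (nat_lit 46) (nat_lit 5) (nat_lit 281) (nat_lit 234) (nat_lit 205)) (XT.lf (nat_lit 0) (nat_lit 3481813842) (nat_lit 228) (nat_lit 10048365931) (nat_lit 76) (nat_lit 1005365016) (nat_lit 39) (nat_lit 5) (nat_lit 42) (nat_lit 5) (nat_lit 40) (nat_lit 5) (nat_lit 282) (nat_lit 234) (nat_lit 204))))) (XT.nd (nat_lit 234) (nat_lit 380) (nat_lit 0) (XT.nd (nat_lit 78) (nat_lit 228) (nat_lit 0) (XT.lf (nat_lit 0) (nat_lit 216913227) (nat_lit 228) (nat_lit 8211271150) (nat_lit 304) (nat_lit 6624660479) (nat_lit 36) (nat_lit 5) (nat_lit 39) (nat_lit 5) (nat_lit 40) (nat_lit 5) (nat_lit 283) (nat_lit 234) (nat_lit 203)) (XT.nd (nat_lit 78)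 (nat_lit 228) (nat_lit 0) (XT.lf (nat_lit 0) (nat_lit 11043374237) (nat_lit 228) (nat_lit 2579857390) (nat_lit 304) (nat_lit 1972842527) (nat_lit 36) (nat_lit 5) (nat_lit 39) (nat_lit 5) (nat_lit 40) (nat_lit 5) (nat_lit 284) (nat_lit 234) (nat_lit 202)) (XT.lf (nat_lit 0) (nat_lit 2848232224) (nat_lit 228) (nat_lit 10018316604) (nat_lit 76) (nat_lit 3299369087) (nat_lit 33) (nat_lit 5) (nat_lit 36) (nat_lit 5) (nat_lit 34) (nat_lit 5) (nat_lit 285) (nat_lit 234) (nat_lit 201)))) (XT.nd (nat_lit 78) (nat_lit 228) (nat_lit 0) (XT.lf (nat_lit 0) (nat_lit 524717645) (nat_lit 152) (nat_lit 7328026734) (nat_lit 228) (nat_lit 8911520382) (nat_lit 31) (nat_lit 5) (nat_lit 33) (nat_lit 5) (nat_lit 34) (nat_lit 5) (nat_lit 286) (nat_lit 234) (nat_lit 200)) (XT.nd (nat_lit 78) (nat_lit 228) (nat_lit 0) (XT.lf (nat_lit 0) (nat_lit 11654366610) (nat_lit 152) (nat_lit 1463749861) (nat_lit 228) (nat_lit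 4274181486) (nat_lit 31) (nat_lit 5) (nat_lit 33) (nat_lit 5) (nat_lit 34) (nat_lit 5) (nat_lit 287) (nat_lit 234) (nat_lit 199)) (XT.lf (nat_lit 0) (nat_lit 589885320) (nat_lit 228) (nat_lit 12857238916) (nat_lit 76) (nat_lit 4604324227) (nat_lit 28) (nat_lit 5) (nat_lit 31) (nat_lit 5) (nat_lit 29) (nat_lit 5) (nat_lit 288) (nat_lit 234) (nat_lit 198))))))))
noncomputable def xc39 : XT := (XT.nd (nat_lit 1716) (nat_lit 456) (nat_lit 0) (XT.nd (nat_lit 858) (nat_lit 532) (nat_lit 0) (XT.nd (nat_lit 390) (nat_lit 304) (nat_lit 0) (XT.nd (nat_lit 156) (nat_lit 380) (nat_lit 0) (XT.nd (nat_lit 78) (nat_lit 152) (nat_lit 0) (XT.lf (nat_lit 0) (nat_lit 5597329077) (nat_lit 228) (nat_lit 2150021605) (nat_lit 76) (nat_lit 10995356675) (nat_lit 28) (nat_lit 5) (nat_lit 31) (nat_lit 5) (nat_lit 29) (nat_lit 5) (nat_lit 289) (nat_lit 234) (nat_lit 197)) (XT.lf (nat_lit 0) (nat_lit 9135002569) (nat_lit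 152) (nat_lit 1725403947) (nat_lit 228) (nat_lit 8608038670) (nat_lit 26) (nat_lit 5) (nat_lit 28) (nat_lit 5) (nat_lit 29) (nat_lit 5) (nat_lit 290) (nat_lit 234) (nat_lit 196))) (XT.nd (nat_lit 78) (nat_lit 228) (nat_lit 0) (XT.lf (nat_lit 0) (nat_lit 633463248) (nat_lit 152) (nat_lit 15745423830) (nat_lit 228) (nat_lit 3851885673) (nat_lit 24) (nat_lit 5) (nat_lit 26) (nat_lit 5) (nat_lit 27) (nat_lit 4) (nat_lit 291) (nat_lit 234) (nat_lit 195)) (XT.nd (nat_lit 78) (nat_lit 152) (nat_lit 0) (XT.lf (nat_lit 0) (nat_lit 1165985563) (nat_lit 228) (nat_lit 8824495990) (nat_lit 76) (nat_lit 11039084914) (nat_lit 23) (nat_lit 5) (nat_lit 26) (nat_lit 5) (nat_lit 24) (nat_lit 5) (nat_lit 292) (nat_lit 234) (nat_lit 194)) (XT.lf (nat_lit 0) (nat_lit 2368899246) (nat_lit 152) (nat_lit 3934799847) (nat_lit 228) (nat_lit 15565060226) (nat_lit 21) (nat_lit 5) (nat_lit 23) (nat_lit 5) (nat_lit 24)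 (nat_lit 5) (nat_lit 293) (nat_lit 234) (nat_lit 193))))) (XT.nd (nat_lit 234) (nat_lit 228) (nat_lit 0) (XT.nd (nat_lit 78) (nat_lit 76) (nat_lit 0) (XT.lf (nat_lit 0) (nat_lit 11740357439) (nat_lit 228) (nat_lit 8588585585) (nat_lit 76) (nat_lit 2419765992) (nat_lit 21) (nat_lit 5) (nat_lit 24) (nat_lit 5) (nat_lit 22) (nat_lit 4) (nat_lit 294) (nat_lit 234) (nat_lit 192)) (XT.nd (nat_lit 78) (nat_lit 0) (nat_lit 0) (XT.lf (nat_lit 0) (nat_lit 2764801284) (nat_lit 76) (nat_lit 14680835998) (nat_lit 152) (nat_lit 6227171425) (nat_lit 20) (nat_lit 5) (nat_lit 21) (nat_lit 5) (nat_lit 22) (nat_lit 4) (nat_lit 295) (nat_lit 234) (nat_lit 191)) (XT.lf (nat_lit 0) (nat_lit 14751019484) (nat_lit 76) (nat_lit 8706281097) (nat_lit 152) (nat_lit 1185232711) (nat_lit 20) (nat_lit 5) (nat_lit 21) (nat_lit 5) (nat_lit 22) (nat_lit 4) (nat_lit 296) (nat_lit 234) (nat_lit 190)))) (XT.nd (nat_lit 78)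 (nat_lit 0) (nat_lit 0) (XT.lf (nat_lit 0) (nat_lit 1556471298) (nat_lit 152) (nat_lit 2422343317) (nat_lit 228) (nat_lit 21682288386) (nat_lit 17) (nat_lit 5) (nat_lit 19) (nat_lit 5) (nat_lit 20) (nat_lit 5) (nat_lit 297) (nat_lit 234) (nat_lit 189)) (XT.nd (nat_lit 78) (nat_lit 0) (nat_lit 0) (XT.lf (nat_lit 0) (nat_lit 9456609263) (nat_lit 228) (nat_lit 13105651083) (nat_lit 76) (nat_lit 4165634187) (nat_lit 17) (nat_lit 5) (nat_lit 20) (nat_lit 5) (nat_lit 18) (nat_lit 4) (nat_lit 298) (nat_lit 234) (nat_lit 188)) (XT.lf (nat_lit 0) (nat_lit 15172606453) (nat_lit 228) (nat_lit 1684554121) (nat_lit 76) (nat_lit 10991980544) (nat_lit 17) (nat_lit 5) (nat_lit 20) (nat_lit 5) (nat_lit 18) (nat_lit 4) (nat_lit 299) (nat_lit 234) (nat_lit 187)))))) (XT.nd (nat_lit 390) (nat_lit 228) (nat_lit 0) (XT.nd (nat_lit 156) (nat_lit 228) (nat_lit 0) (XT.nd (nat_lit 78) (nat_lit 0) (nat_lit 0) (XT.lf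 (nat_lit 0) (nat_lit 10412319165) (nat_lit 76) (nat_lit 10804901074) (nat_lit 152) (nat_lit 7807988020) (nat_lit 16) (nat_lit 5) (nat_lit 17) (nat_lit 5) (nat_lit 18) (nat_lit 4) (nat_lit 300) (nat_lit 234) (nat_lit 186)) (XT.lf (nat_lit 0) (nat_lit 23053600316) (nat_lit 76) (nat_lit 4472340498) (nat_lit 152) (nat_lit 2735322350) (nat_lit 16) (nat_lit 5) (nat_lit 17) (nat_lit 5) (nat_lit 18) (nat_lit 4) (nat_lit 301) (nat_lit 234) (nat_lit 185))) (XT.nd (nat_lit 78) (nat_lit 0) (nat_lit 0) (XT.lf (nat_lit 0) (nat_lit 2553878306) (nat_lit 228) (nat_lit 26836601733) (nat_lit 76) (nat_lit 2167527392) (nat_lit 13) (nat_lit 5) (nat_lit 16) (nat_lit 5) (nat_lit 14) (nat_lit 4) (nat_lit 302) (nat_lit 234) (nat_lit 184)) (XT.nd (nat_lit 78) (nat_lit 0) (nat_lit 0) (XT.lf (nat_lit 0) (nat_lit 8119498731) (nat_lit 228) (nat_lit 15684064390) (nat_lit 76) (nat_lit 9113193239) (nat_lit 13) (nat_lit 5)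 (nat_lit 16) (nat_lit 5) (nat_lit 14) (nat_lit 4) (nat_lit 303) (nat_lit 234) (nat_lit 183)) (XT.lf (nat_lit 0) (nat_lit 13913812521) (nat_lit 228) (nat_lit 4060342749) (nat_lit 76) (nat_lit 16370809223) (nat_lit 13) (nat_lit 5) (nat_lit 16) (nat_lit 5) (nat_lit 14) (nat_lit 4) (nat_lit 304) (nat_lit 234) (nat_lit 182))))) (XT.nd (nat_lit 234) (nat_lit 152) (nat_lit 0) (XT.nd (nat_lit 78) (nat_lit 0) (nat_lit 0) (XT.lf (nat_lit 0) (nat_lit 8222693075) (nat_lit 76) (nat_lit 11806964141) (nat_lit 152) (nat_lit 15814003863) (nat_lit 12) (nat_lit 5) (nat_lit 13) (nat_lit 5) (nat_lit 14) (nat_lit 4) (nat_lit 305) (nat_lit 234) (nat_lit 181)) (XT.nd (nat_lit 78) (nat_lit 0) (nat_lit 0) (XT.lf (nat_lit 0) (nat_lit 21124763523) (nat_lit 76) (nat_lit 5322582118) (nat_lit 152) (nat_lit 10970096263) (nat_lit 12) (nat_lit 5) (nat_lit 13) (nat_lit 5) (nat_lit 14) (nat_lit 4) (nat_lit 306) (nat_lit 234)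 (nat_lit 180)) (XT.lf (nat_lit 0) (nat_lit 33156321965) (nat_lit 152) (nat_lit 4489440501) (nat_lit 0) (nat_lit 1425066681) (nat_lit 12) (nat_lit 5) (nat_lit 14) (nat_lit 4) (nat_lit 12) (nat_lit 4) (nat_lit 307) (nat_lit 234) (nat_lit 179)))) (XT.nd (nat_lit 78) (nat_lit 76) (nat_lit 0) (XT.lf (nat_lit 0) (nat_lit 7931502973) (nat_lit 76) (nat_lit 32357417230) (nat_lit 76) (nat_lit 515348433) (nat_lit 11) (nat_lit 4) (nat_lit 12) (nat_lit 5) (nat_lit 12) (nat_lit 4) (nat_lit 308) (nat_lit 234) (nat_lit 178)) (XT.nd (nat_lit 78) (nat_lit 0) (nat_lit 0) (XT.lf (nat_lit 0) (nat_lit 5058957250) (nat_lit 152) (nat_lit 21677922257) (nat_lit 76) (nat_lit 15885867590) (nat_lit 10) (nat_lit 5) (nat_lit 12) (nat_lit 5) (nat_lit 11) (nat_lit 4) (nat_lit 309) (nat_lit 234) (nat_lit 177)) (XT.lf (nat_lit 0) (nat_lit 10862452600) (nat_lit 152) (nat_lit 9997337818) (nat_lit 76) (nat_lit 23673396737) (nat_lit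 10) (nat_lit 5) (nat_lit 12) (nat_lit 5) (nat_lit 11) (nat_lit 4) (nat_lit 310) (nat_lit 234) (nat_lit 176))))))) (XT.nd (nat_lit 858) (nat_lit 152) (nat_lit 0) (XT.nd (nat_lit 390) (nat_lit 152) (nat_lit 0) (XT.nd (nat_lit 156) (nat_lit 76) (nat_lit 0) (XT.nd (nat_lit 78) (nat_lit 0) (nat_lit 0) (XT.lf (nat_lit 0) (nat_lit 2245571603) (nat_lit 76) (nat_lit 14695025972) (nat_lit 152) (nat_lit 29599040944) (nat_lit 9) (nat_lit 5) (nat_lit 10) (nat_lit 5) (nat_lit 11) (nat_lit 4) (nat_lit 311) (nat_lit 234) (nat_lit 175)) (XT.lf (nat_lit 0) (nat_lit 15245896239) (nat_lit 76) (nat_lit 8143711773) (nat_lit 152) (nat_lit 25254818118) (nat_lit 9) (nat_lit 5) (nat_lit 10) (nat_lit 5) (nat_lit 11) (nat_lit 4) (nat_lit 312) (nat_lit 234) (nat_lit 174))) (XT.nd (nat_lit 78) (nat_lit 76) (nat_lit 0) (XT.lf (nat_lit 0) (nat_lit 28835622618) (nat_lit 76) (nat_lit 1291202963) (nat_lit 152) (nat_lit 20728676200)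 (nat_lit 9) (nat_lit 5) (nat_lit 10) (nat_lit 5) (nat_lit 11) (nat_lit 4) (nat_lit 313) (nat_lit 234) (nat_lit 173)) (XT.nd (nat_lit 78) (nat_lit 76) (nat_lit 0) (XT.lf (nat_lit 0) (nat_lit 37224802053) (nat_lit 152) (nat_lit 10187533484) (nat_lit 0) (nat_lit 5764099079) (nat_lit 9) (nat_lit 5) (nat_lit 11) (nat_lit 4) (nat_lit 9) (nat_lit 4) (nat_lit 314) (nat_lit 234) (nat_lit 172)) (XT.lf (nat_lit 0) (nat_lit 2210838103) (nat_lit 76) (nat_lit 42469833906) (nat_lit 76) (nat_lit 10932671617) (nat_lit 8) (nat_lit 4) (nat_lit 9) (nat_lit 5) (nat_lit 9) (nat_lit 4) (nat_lit 315) (nat_lit 234) (nat_lit 171))))) (XT.nd (nat_lit 234) (nat_lit 76) (nat_lit 0) (XT.nd (nat_lit 78) (nat_lit 76) (nat_lit 0) (XT.lf (nat_lit 0) (nat_lit 15387914031) (nat_lit 76) (nat_lit 37195973316) (nat_lit 76) (nat_lit 5585992632) (nat_lit 8) (nat_lit 4) (nat_lit 9) (nat_lit 5) (nat_lit 9) (nat_lit 4) (nat_lit 316)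 (nat_lit 234) (nat_lit 170)) (XT.nd (nat_lit 78) (nat_lit 76) (nat_lit 0) (XT.lf (nat_lit 0) (nat_lit 29172316397) (nat_lit 76) (nat_lit 31681071070) (nat_lit 76) (nat_lit 1739533) (nat_lit 8) (nat_lit 4) (nat_lit 9) (nat_lit 5) (nat_lit 9) (nat_lit 4) (nat_lit 317) (nat_lit 234) (nat_lit 169)) (XT.lf (nat_lit 0) (nat_lit 5719553195) (nat_lit 152) (nat_lit 20134686981) (nat_lit 76) (nat_lit 37819555740) (nat_lit 7) (nat_lit 5) (nat_lit 9) (nat_lit 5) (nat_lit 8) (nat_lit 4) (nat_lit 318) (nat_lit 234) (nat_lit 168)))) (XT.nd (nat_lit 78) (nat_lit 76) (nat_lit 0) (XT.lf (nat_lit 0) (nat_lit 11700408602) (nat_lit 152) (nat_lit 8056453773) (nat_lit 76) (nat_lit 46877344838) (nat_lit 7) (nat_lit 5) (nat_lit 9) (nat_lit 5) (nat_lit 8) (nat_lit 4) (nat_lit 319) (nat_lit 234) (nat_lit 167)) (XT.nd (nat_lit 78) (nat_lit 0) (nat_lit 0) (XT.lf (nat_lit 0) (nat_lit 4671827624) (nat_lit 76) (nat_lit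 13328181603) (nat_lit 152) (nat_lit 51742053509) (nat_lit 6) (nat_lit 5) (nat_lit 7) (nat_lit 5) (nat_lit 8) (nat_lit 4) (nat_lit 320) (nat_lit 234) (nat_lit 166)) (XT.lf (nat_lit 0) (nat_lit 18161142333) (nat_lit 76) (nat_lit 6511955479) (nat_lit 152) (nat_lit 48330472022) (nat_lit 6) (nat_lit 5) (nat_lit 7) (nat_lit 5) (nat_lit 8) (nat_lit 4) (nat_lit 321) (nat_lit 234) (nat_lit 165)))))) (XT.nd (nat_lit 468) (nat_lit 76) (nat_lit 0) (XT.nd (nat_lit 234) (nat_lit 76) (nat_lit 0) (XT.nd (nat_lit 78) (nat_lit 0) (nat_lit 0) (XT.lf (nat_lit 0) (nat_lit 31662601956) (nat_lit 152) (nat_lit 44151619137) (nat_lit 0) (nat_lit 614461728) (nat_lit 6) (nat_lit 5) (nat_lit 8) (nat_lit 4) (nat_lit 6) (nat_lit 4) (nat_lit 322) (nat_lit 234) (nat_lit 164)) (XT.nd (nat_lit 78) (nat_lit 0) (nat_lit 0) (XT.lf (nat_lit 0) (nat_lit 39044984438) (nat_lit 152) (nat_lit 33032176816) (nat_lit 0) (nat_lit 7946600837)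 (nat_lit 6) (nat_lit 5) (nat_lit 8) (nat_lit 4) (nat_lit 6) (nat_lit 4) (nat_lit 323) (nat_lit 234) (nat_lit 163)) (XT.lf (nat_lit 0) (nat_lit 46775225461) (nat_lit 152) (nat_lit 21395028778) (nat_lit 0) (nat_lit 15628991029) (nat_lit 6) (nat_lit 5) (nat_lit 8) (nat_lit 4) (nat_lit 6) (nat_lit 4) (nat_lit 324) (nat_lit 234) (nat_lit 162)))) (XT.nd (nat_lit 78) (nat_lit 76) (nat_lit 0) (XT.lf (nat_lit 0) (nat_lit 54871730361) (nat_lit 152) (nat_lit 9212467526) (nat_lit 0) (nat_lit 23679923708) (nat_lit 6) (nat_lit 5) (nat_lit 8) (nat_lit 4) (nat_lit 6) (nat_lit 4) (nat_lit 325) (nat_lit 234) (nat_lit 161)) (XT.nd (nat_lit 78) (nat_lit 0) (nat_lit 0) (XT.lf (nat_lit 0) (nat_lit 3615055795) (nat_lit 76) (nat_lit 59773470862) (nat_lit 76) (nat_lit 28538262095) (nat_lit 5) (nat_lit 4) (nat_lit 6) (nat_lit 5) (nat_lit 6) (nat_lit 4) (nat_lit 326) (nat_lit 234) (nat_lit 160)) (XT.lf (nat_lit 0)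 (nat_lit 17242754927) (nat_lit 76) (nat_lit 55164552296) (nat_lit 76) (nat_lit 23888008182) (nat_lit 5) (nat_lit 4) (nat_lit 6) (nat_lit 5) (nat_lit 6) (nat_lit 4) (nat_lit 327) (nat_lit 234) (nat_lit 159))))) (XT.nd (nat_lit 234) (nat_lit 76) (nat_lit 0) (XT.nd (nat_lit 78) (nat_lit 0) (nat_lit 0) (XT.lf (nat_lit 0) (nat_lit 31519730604) (nat_lit 76) (nat_lit 50339496432) (nat_lit 76) (nat_lit 19023585321) (nat_lit 5) (nat_lit 4) (nat_lit 6) (nat_lit 5) (nat_lit 6) (nat_lit 4) (nat_lit 328) (nat_lit 234) (nat_lit 158)) (XT.nd (nat_lit 78) (nat_lit 0) (nat_lit 0) (XT.lf (nat_lit 0) (nat_lit 46479975626) (nat_lit 76) (nat_lit 45286815044) (nat_lit 76) (nat_lit 13933411554) (nat_lit 5) (nat_lit 4) (nat_lit 6) (nat_lit 5) (nat_lit 6) (nat_lit 4) (nat_lit 329) (nat_lit 234) (nat_lit 157)) (XT.lf (nat_lit 0) (nat_lit 62159109624) (nat_lit 76) (nat_lit 39994477935) (nat_lit 76) (nat_lit 8605367419)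 (nat_lit 5) (nat_lit 4) (nat_lit 6) (nat_lit 5) (nat_lit 6) (nat_lit 4) (nat_lit 330) (nat_lit 234) (nat_lit 156)))) (XT.nd (nat_lit 78) (nat_lit 76) (nat_lit 0) (XT.lf (nat_lit 0) (nat_lit 78594463868) (nat_lit 76) (nat_lit 34449884305) (nat_lit 76) (nat_lit 3026767096) (nat_lit 5) (nat_lit 4) (nat_lit 6) (nat_lit 5) (nat_lit 6) (nat_lit 4) (nat_lit 331) (nat_lit 234) (nat_lit 155)) (XT.nd (nat_lit 156) (nat_lit 0) (nat_lit 0) (XT.lf (nat_lit 0) (nat_lit 2760727896) (nat_lit 152) (nat_lit 25851226904) (nat_lit 76) (nat_lit 93036564320) (nat_lit 4) (nat_lit 5) (nat_lit 6) (nat_lit 5) (nat_lit 5) (nat_lit 4) (nat_lit 332) (nat_lit 234) (nat_lit 154)) (XT.lf (nat_lit 0) (nat_lit 15048866909) (nat_lit 152) (nat_lit 966526041) (nat_lit 76) (nat_lit 117637901240) (nat_lit 4) (nat_lit 5) (nat_lit 6) (nat_lit 5) (nat_lit 5) (nat_lit 4) (nat_lit 334) (nat_lit 234) (nat_lit 152))))))))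
noncomputable def xc40 : XT := (XT.nd (nat_lit 1716) (nat_lit 3648) (nat_lit 0) (XT.nd (nat_lit 858) (nat_lit 4788) (nat_lit 0) (XT.nd (nat_lit 390) (nat_lit 4940) (nat_lit 0) (XT.nd (nat_lit 156) (nat_lit 2660) (nat_lit 0) (XT.nd (nat_lit 78) (nat_lit 760) (nat_lit 0) (XT.lf (nat_lit 0) (nat_lit 953339269) (nat_lit 684) (nat_lit 1472559328) (nat_lit 0) (nat_lit 953339269) (nat_lit 244) (nat_lit 5) (nat_lit 253) (nat_lit 4) (nat_lit 244) (nat_lit 4) (nat_lit 250) (nat_lit 235) (nat_lit 235)) (XT.lf (nat_lit 0) (nat_lit 1248573) (nat_lit 760) (nat_lit 3165392558) (nat_lit 76) (nat_lit 3660888996) (nat_lit 234) (nat_lit 5) (nat_lit 244) (nat_lit 5) (nat_lit 235) (nat_lit 4) (nat_lit 251) (nat_lit 235) (nat_lit 234))) (XT.nd (nat_lit 78) (nat_lit 1900) (nat_lit 0) (XT.lf (nat_lit 0) (nat_lit 3561832192) (nat_lit 760) (nat_lit 1239563296) (nat_lit 836) (nat_lit 2103799053) (nat_lit 224) (nat_lit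 5) (nat_lit 234) (nat_lit 5) (nat_lit 235) (nat_lit 4) (nat_lit 252) (nat_lit 235) (nat_lit 233)) (XT.nd (nat_lit 78) (nat_lit 988) (nat_lit 0) (XT.lf (nat_lit 0) (nat_lit 2620900245) (nat_lit 912) (nat_lit 3474139466) (nat_lit 76) (nat_lit 896911438) (nat_lit 212) (nat_lit 5) (nat_lit 224) (nat_lit 5) (nat_lit 213) (nat_lit 4) (nat_lit 253) (nat_lit 235) (nat_lit 232)) (XT.lf (nat_lit 0) (nat_lit 282816393) (nat_lit 988) (nat_lit 3568094217) (nat_lit 76) (nat_lit 3236938882) (nat_lit 199) (nat_lit 5) (nat_lit 212) (nat_lit 5) (nat_lit 200) (nat_lit 5) (nat_lit 254) (nat_lit 235) (nat_lit 231))))) (XT.nd (nat_lit 234) (nat_lit 1748) (nat_lit 0) (XT.nd (nat_lit 78) (nat_lit 2204) (nat_lit 0) (XT.lf (nat_lit 0) (nat_lit 3552426367) (nat_lit 988) (nat_lit 1360769823) (nat_lit 1064) (nat_lit 2279625969) (nat_lit 186) (nat_lit 5) (nat_lit 199) (nat_lit 5) (nat_lit 200) (nat_lit 5) (nat_lit 255)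 (nat_lit 235) (nat_lit 230)) (XT.nd (nat_lit 78) (nat_lit 1064) (nat_lit 0) (XT.lf (nat_lit 0) (nat_lit 2278404215) (nat_lit 1140) (nat_lit 3692185623) (nat_lit 76) (nat_lit 1336661769) (nat_lit 171) (nat_lit 5) (nat_lit 186) (nat_lit 5) (nat_lit 172) (nat_lit 5) (nat_lit 256) (nat_lit 235) (nat_lit 229)) (XT.lf (nat_lit 0) (nat_lit 3697462784) (nat_lit 1064) (nat_lit 3185803038) (nat_lit 1140) (nat_lit 548009473) (nat_lit 157) (nat_lit 5) (nat_lit 171) (nat_lit 5) (nat_lit 172) (nat_lit 5) (nat_lit 257) (nat_lit 235) (nat_lit 228)))) (XT.nd (nat_lit 78) (nat_lit 1140) (nat_lit 0) (XT.lf (nat_lit 0) (nat_lit 3787841962) (nat_lit 532) (nat_lit 147103944) (nat_lit 608) (nat_lit 3630071841) (nat_lit 149) (nat_lit 5) (nat_lit 156) (nat_lit 5) (nat_lit 157) (nat_lit 5) (nat_lit 258) (nat_lit 235) (nat_lit 227)) (XT.nd (nat_lit 78) (nat_lit 532) (nat_lit 0) (XT.lf (nat_lit 0) (nat_lit 803946713)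 (nat_lit 608) (nat_lit 3836314586) (nat_lit 76) (nat_lit 3068314123) (nat_lit 141) (nat_lit 5) (nat_lit 149) (nat_lit 5) (nat_lit 142) (nat_lit 5) (nat_lit 259) (nat_lit 235) (nat_lit 226)) (XT.lf (nat_lit 0) (nat_lit 3945798331) (nat_lit 532) (nat_lit 1316151054) (nat_lit 608) (nat_lit 2600395914) (nat_lit 134) (nat_lit 5) (nat_lit 141) (nat_lit 5) (nat_lit 142) (nat_lit 5) (nat_lit 260) (nat_lit 235) (nat_lit 225)))))) (XT.nd (nat_lit 390) (nat_lit 2280) (nat_lit 0) (XT.nd (nat_lit 156) (nat_lit 1444) (nat_lit 0) (XT.nd (nat_lit 78) (nat_lit 456) (nat_lit 0) (XT.lf (nat_lit 0) (nat_lit 1785025110) (nat_lit 608) (nat_lit 4030458212) (nat_lit 76) (nat_lit 2211064873) (nat_lit 126) (nat_lit 5) (nat_lit 134) (nat_lit 5) (nat_lit 127) (nat_lit 5) (nat_lit 261) (nat_lit 235) (nat_lit 224)) (XT.lf (nat_lit 0) (nat_lit 4011387586) (nat_lit 456) (nat_lit 2228009048) (nat_lit 532) (nat_lit 1962070001)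 (nat_lit 120) (nat_lit 5) (nat_lit 126) (nat_lit 5) (nat_lit 127) (nat_lit 5) (nat_lit 262) (nat_lit 235) (nat_lit 223))) (XT.nd (nat_lit 78) (nat_lit 912) (nat_lit 0) (XT.lf (nat_lit 0) (nat_lit 2393075453) (nat_lit 532) (nat_lit 4407817352) (nat_lit 76) (nat_lit 1586527564) (nat_lit 113) (nat_lit 5) (nat_lit 120) (nat_lit 5) (nat_lit 114) (nat_lit 5) (nat_lit 263) (nat_lit 235) (nat_lit 222)) (XT.nd (nat_lit 78) (nat_lit 532) (nat_lit 0) (XT.lf (nat_lit 0) (nat_lit 3884487712) (nat_lit 380) (nat_lit 2966454855) (nat_lit 456) (nat_lit 1733716166) (nat_lit 108) (nat_lit 5) (nat_lit 113) (nat_lit 5) (nat_lit 114) (nat_lit 5) (nat_lit 264) (nat_lit 235) (nat_lit 221)) (XT.lf (nat_lit 0) (nat_lit 2605316983) (nat_lit 532) (nat_lit 5076071108) (nat_lit 76) (nat_lit 1112326314) (nat_lit 101) (nat_lit 5) (nat_lit 108) (nat_lit 5) (nat_lit 102) (nat_lit 5) (nat_lit 265) (nat_lit 235) (nat_lit 220)))))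 (XT.nd (nat_lit 234) (nat_lit 1140) (nat_lit 0) (XT.nd (nat_lit 78) (nat_lit 760) (nat_lit 0) (XT.lf (nat_lit 0) (nat_lit 3453099361) (nat_lit 380) (nat_lit 3616900072) (nat_lit 456) (nat_lit 1944667762) (nat_lit 96) (nat_lit 5) (nat_lit 101) (nat_lit 5) (nat_lit 102) (nat_lit 5) (nat_lit 266) (nat_lit 235) (nat_lit 219)) (XT.nd (nat_lit 78) (nat_lit 304) (nat_lit 0) (XT.lf (nat_lit 0) (nat_lit 2388083384) (nat_lit 456) (nat_lit 6156726934) (nat_lit 76) (nat_lit 703631573) (nat_lit 90) (nat_lit 5) (nat_lit 96) (nat_lit 5) (nat_lit 91) (nat_lit 5) (nat_lit 267) (nat_lit 235) (nat_lit 218)) (XT.lf (nat_lit 0) (nat_lit 2590187188) (nat_lit 304) (nat_lit 4268492379) (nat_lit 380) (nat_lit 2636065924) (nat_lit 86) (nat_lit 5) (nat_lit 90) (nat_lit 5) (nat_lit 91) (nat_lit 5) (nat_lit 268) (nat_lit 235) (nat_lit 217)))) (XT.nd (nat_lit 78) (nat_lit 684) (nat_lit 0) (XT.lf (nat_lit 0) (nat_lit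 1695611276) (nat_lit 456) (nat_lit 7788514146) (nat_lit 76) (nat_lit 271022365) (nat_lit 80) (nat_lit 5) (nat_lit 86) (nat_lit 5) (nat_lit 81) (nat_lit 5) (nat_lit 269) (nat_lit 235) (nat_lit 216)) (XT.nd (nat_lit 78) (nat_lit 380) (nat_lit 0) (XT.lf (nat_lit 0) (nat_lit 1150085480) (nat_lit 304) (nat_lit 5016376502) (nat_lit 380) (nat_lit 3862241470) (nat_lit 76) (nat_lit 5) (nat_lit 80) (nat_lit 5) (nat_lit 81) (nat_lit 5) (nat_lit 270) (nat_lit 235) (nat_lit 215)) (XT.lf (nat_lit 0) (nat_lit 183855126) (nat_lit 304) (nat_lit 287440246) (nat_lit 380) (nat_lit 9846586252) (nat_lit 71) (nat_lit 5) (nat_lit 75) (nat_lit 5) (nat_lit 76) (nat_lit 5) (nat_lit 271) (nat_lit 235) (nat_lit 214))))))) (XT.nd (nat_lit 858) (nat_lit 1368) (nat_lit 0) (XT.nd (nat_lit 390) (nat_lit 1064) (nat_lit 0) (XT.nd (nat_lit 156) (nat_lit 912) (nat_lit 0) (XT.nd (nat_lit 78) (nat_lit 304) (nat_lit 0) (XT.lf (nat_lit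 0) (nat_lit 4938501264) (nat_lit 380) (nat_lit 1015412052) (nat_lit 76) (nat_lit 4666754184) (nat_lit 71) (nat_lit 5) (nat_lit 76) (nat_lit 5) (nat_lit 72) (nat_lit 5) (nat_lit 272) (nat_lit 235) (nat_lit 213)) (XT.lf (nat_lit 0) (nat_lit 8535388618) (nat_lit 304) (nat_lit 1044205554) (nat_lit 380) (nat_lit 1360675147) (nat_lit 67) (nat_lit 5) (nat_lit 71) (nat_lit 5) (nat_lit 72) (nat_lit 5) (nat_lit 273) (nat_lit 235) (nat_lit 212))) (XT.nd (nat_lit 78) (nat_lit 532) (nat_lit 0) (XT.lf (nat_lit 0) (nat_lit 3103865318) (nat_lit 380) (nat_lit 4081609523) (nat_lit 76) (nat_lit 4089969167) (nat_lit 62) (nat_lit 5) (nat_lit 67) (nat_lit 5) (nat_lit 63) (nat_lit 5) (nat_lit 274) (nat_lit 235) (nat_lit 211)) (XT.nd (nat_lit 78) (nat_lit 304) (nat_lit 0) (XT.lf (nat_lit 0) (nat_lit 5597838530) (nat_lit 228) (nat_lit 2128046391) (nat_lit 304) (nat_lit 3902386036) (nat_lit 59) (nat_lit 5) (nat_lit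 62) (nat_lit 5) (nat_lit 63) (nat_lit 5) (nat_lit 275) (nat_lit 235) (nat_lit 210)) (XT.lf (nat_lit 0) (nat_lit 553921467) (nat_lit 304) (nat_lit 8295378887) (nat_lit 76) (nat_lit 3149878917) (nat_lit 55) (nat_lit 5) (nat_lit 59) (nat_lit 5) (nat_lit 56) (nat_lit 5) (nat_lit 276) (nat_lit 235) (nat_lit 209))))) (XT.nd (nat_lit 234) (nat_lit 532) (nat_lit 0) (XT.nd (nat_lit 78) (nat_lit 304) (nat_lit 0) (XT.lf (nat_lit 0) (nat_lit 1452437401) (nat_lit 228) (nat_lit 3678240515) (nat_lit 304) (nat_lit 7257594975) (nat_lit 52) (nat_lit 5) (nat_lit 55) (nat_lit 5) (nat_lit 56) (nat_lit 5) (nat_lit 277) (nat_lit 235) (nat_lit 208)) (XT.nd (nat_lit 78) (nat_lit 304) (nat_lit 0) (XT.lf (nat_lit 0) (nat_lit 9922331897) (nat_lit 304) (nat_lit 1127338316) (nat_lit 76) (nat_lit 1747711322) (nat_lit 52) (nat_lit 5) (nat_lit 56) (nat_lit 5) (nat_lit 53) (nat_lit 5) (nat_lit 278) (nat_lit 235) (nat_lit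 207)) (XT.lf (nat_lit 0) (nat_lit 1706521546) (nat_lit 304) (nat_lit 4098487404) (nat_lit 76) (nat_lit 7421162427) (nat_lit 48) (nat_lit 5) (nat_lit 52) (nat_lit 5) (nat_lit 49) (nat_lit 5) (nat_lit 279) (nat_lit 235) (nat_lit 206)))) (XT.nd (nat_lit 78) (nat_lit 304) (nat_lit 0) (XT.lf (nat_lit 0) (nat_lit 6168734546) (nat_lit 228) (nat_lit 251649479) (nat_lit 304) (nat_lit 7256407682) (nat_lit 45) (nat_lit 5) (nat_lit 48) (nat_lit 5) (nat_lit 49) (nat_lit 5) (nat_lit 280) (nat_lit 235) (nat_lit 205)) (XT.nd (nat_lit 78) (nat_lit 76) (nat_lit 0) (XT.lf (nat_lit 0) (nat_lit 2721880522) (nat_lit 228) (nat_lit 8664674225) (nat_lit 304) (nat_lit 2763009057) (nat_lit 42) (nat_lit 5) (nat_lit 45) (nat_lit 5) (nat_lit 46) (nat_lit 5) (nat_lit 281) (nat_lit 235) (nat_lit 204)) (XT.lf (nat_lit 0) (nat_lit 1894100878) (nat_lit 304) (nat_lit 1206494805) (nat_lit 76) (nat_lit 11545609499) (nat_lit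 41) (nat_lit 5) (nat_lit 45) (nat_lit 5) (nat_lit 42) (nat_lit 5) (nat_lit 282) (nat_lit 235) (nat_lit 203)))))) (XT.nd (nat_lit 390) (nat_lit 608) (nat_lit 0) (XT.nd (nat_lit 156) (nat_lit 380) (nat_lit 0) (XT.nd (nat_lit 78) (nat_lit 228) (nat_lit 0) (XT.lf (nat_lit 0) (nat_lit 6747600375) (nat_lit 228) (nat_lit 5663610780) (nat_lit 76) (nat_lit 2755131432) (nat_lit 39) (nat_lit 5) (nat_lit 42) (nat_lit 5) (nat_lit 40) (nat_lit 5) (nat_lit 283) (nat_lit 235) (nat_lit 202)) (XT.lf (nat_lit 0) (nat_lit 4974842490) (nat_lit 228) (nat_lit 6864855207) (nat_lit 304) (nat_lit 3873011453) (nat_lit 36) (nat_lit 5) (nat_lit 39) (nat_lit 5) (nat_lit 40) (nat_lit 5) (nat_lit 284) (nat_lit 235) (nat_lit 201))) (XT.nd (nat_lit 78) (nat_lit 304) (nat_lit 0) (XT.lf (nat_lit 0) (nat_lit 847722155) (nat_lit 304) (nat_lit 179253962) (nat_lit 76) (nat_lit 15260292464) (nat_lit 35) (nat_lit 5) (nat_lit 39)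 (nat_lit 5) (nat_lit 36) (nat_lit 5) (nat_lit 285) (nat_lit 235) (nat_lit 200)) (XT.nd (nat_lit 78) (nat_lit 152) (nat_lit 0) (XT.lf (nat_lit 0) (nat_lit 5791126828) (nat_lit 228) (nat_lit 5999148793) (nat_lit 76) (nat_lit 5097215975) (nat_lit 33) (nat_lit 5) (nat_lit 36) (nat_lit 5) (nat_lit 34) (nat_lit 5) (nat_lit 286) (nat_lit 235) (nat_lit 199)) (XT.lf (nat_lit 0) (nat_lit 4941469878) (nat_lit 152) (nat_lit 6013242708) (nat_lit 228) (nat_lit 6563906696) (nat_lit 31) (nat_lit 5) (nat_lit 33) (nat_lit 5) (nat_lit 34) (nat_lit 5) (nat_lit 287) (nat_lit 235) (nat_lit 198))))) (XT.nd (nat_lit 234) (nat_lit 228) (nat_lit 0) (XT.nd (nat_lit 78) (nat_lit 380) (nat_lit 0) (XT.lf (nat_lit 0) (nat_lit 16354954571) (nat_lit 228) (nat_lit 1764135375) (nat_lit 76) (nat_lit 62938953) (nat_lit 31) (nat_lit 5) (nat_lit 34) (nat_lit 5) (nat_lit 32) (nat_lit 4) (nat_lit 288) (nat_lit 235) (nat_lit 197))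 (XT.nd (nat_lit 78) (nat_lit 152) (nat_lit 0) (XT.lf (nat_lit 0) (nat_lit 3158287377) (nat_lit 228) (nat_lit 9323090556) (nat_lit 76) (nat_lit 6394204812) (nat_lit 28) (nat_lit 5) (nat_lit 31) (nat_lit 5) (nat_lit 29) (nat_lit 5) (nat_lit 289) (nat_lit 235) (nat_lit 196)) (XT.lf (nat_lit 0) (nat_lit 1754825329) (nat_lit 152) (nat_lit 6557246076) (nat_lit 228) (nat_lit 11292562275) (nat_lit 26) (nat_lit 5) (nat_lit 28) (nat_lit 5) (nat_lit 29) (nat_lit 5) (nat_lit 290) (nat_lit 235) (nat_lit 195)))) (XT.nd (nat_lit 78) (nat_lit 228) (nat_lit 0) (XT.lf (nat_lit 0) (nat_lit 13455826168) (nat_lit 152) (nat_lit 287608722) (nat_lit 228) (nat_lit 6626172535) (nat_lit 26) (nat_lit 5) (nat_lit 28) (nat_lit 5) (nat_lit 29) (nat_lit 5) (nat_lit 291) (nat_lit 235) (nat_lit 194)) (XT.nd (nat_lit 78) (nat_lit 76) (nat_lit 0) (XT.lf (nat_lit 0) (nat_lit 4474405391) (nat_lit 152) (nat_lit 15002574776) (nat_lit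 228) (nat_lit 1694995064) (nat_lit 24) (nat_lit 5) (nat_lit 26) (nat_lit 5) (nat_lit 27) (nat_lit 4) (nat_lit 292) (nat_lit 235) (nat_lit 193)) (XT.lf (nat_lit 0) (nat_lit 3418225773) (nat_lit 228) (nat_lit 5592367979) (nat_lit 76) (nat_lit 13002818944) (nat_lit 23) (nat_lit 5) (nat_lit 26) (nat_lit 5) (nat_lit 24) (nat_lit 5) (nat_lit 293) (nat_lit 235) (nat_lit 192))))))))
noncomputable def xc41 : XT := (XT.nd (nat_lit 1716) (nat_lit 380) (nat_lit 0) (XT.nd (nat_lit 858) (nat_lit 304) (nat_lit 0) (XT.nd (nat_lit 390) (nat_lit 304) (nat_lit 0) (XT.nd (nat_lit 156) (nat_lit 304) (nat_lit 0) (XT.nd (nat_lit 78) (nat_lit 0) (nat_lit 0) (XT.lf (nat_lit 0) (nat_lit 6055401099) (nat_lit 152) (nat_lit 2687248850) (nat_lit 228) (nat_lit 14154106869) (nat_lit 21) (nat_lit 5) (nat_lit 23) (nat_lit 5) (nat_lit 24) (nat_lit 5) (nat_lit 294) (nat_lit 235) (nat_lit 191)) (XT.lf (nat_lit 0) (nat_lit 14363231796)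 (nat_lit 228) (nat_lit 5570763483) (nat_lit 76) (nat_lit 3889428264) (nat_lit 21) (nat_lit 5) (nat_lit 24) (nat_lit 5) (nat_lit 22) (nat_lit 4) (nat_lit 295) (nat_lit 235) (nat_lit 190))) (XT.nd (nat_lit 78) (nat_lit 228) (nat_lit 0) (XT.lf (nat_lit 0) (nat_lit 6251477961) (nat_lit 76) (nat_lit 14037539345) (nat_lit 152) (nat_lit 4506732007) (nat_lit 20) (nat_lit 5) (nat_lit 21) (nat_lit 5) (nat_lit 22) (nat_lit 4) (nat_lit 296) (nat_lit 235) (nat_lit 189)) (XT.nd (nat_lit 78) (nat_lit 152) (nat_lit 0) (XT.lf (nat_lit 0) (nat_lit 677076212) (nat_lit 152) (nat_lit 7145930890) (nat_lit 76) (nat_lit 17993644353) (nat_lit 19) (nat_lit 5) (nat_lit 21) (nat_lit 5) (nat_lit 20) (nat_lit 5) (nat_lit 297) (nat_lit 235) (nat_lit 188)) (XT.lf (nat_lit 0) (nat_lit 4769955048) (nat_lit 152) (nat_lit 1244881223) (nat_lit 228) (nat_lit 20872829637) (nat_lit 17) (nat_lit 5) (nat_lit 19) (nat_lit 5) (nat_lit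 20) (nat_lit 5) (nat_lit 298) (nat_lit 235) (nat_lit 187))))) (XT.nd (nat_lit 234) (nat_lit 228) (nat_lit 0) (XT.nd (nat_lit 78) (nat_lit 76) (nat_lit 0) (XT.lf (nat_lit 0) (nat_lit 11690928928) (nat_lit 228) (nat_lit 10732676789) (nat_lit 76) (nat_lit 5586524755) (nat_lit 17) (nat_lit 5) (nat_lit 20) (nat_lit 5) (nat_lit 18) (nat_lit 4) (nat_lit 299) (nat_lit 235) (nat_lit 186)) (XT.nd (nat_lit 78) (nat_lit 0) (nat_lit 0) (XT.lf (nat_lit 0) (nat_lit 1137468419) (nat_lit 76) (nat_lit 16482311163) (nat_lit 152) (nat_lit 11569910774) (nat_lit 16) (nat_lit 5) (nat_lit 17) (nat_lit 5) (nat_lit 18) (nat_lit 4) (nat_lit 300) (nat_lit 235) (nat_lit 185)) (XT.lf (nat_lit 0) (nat_lit 13734318431) (nat_lit 76) (nat_lit 10168414062) (nat_lit 152) (nat_lit 6523804703) (nat_lit 16) (nat_lit 5) (nat_lit 17) (nat_lit 5) (nat_lit 18) (nat_lit 4) (nat_lit 301) (nat_lit 235) (nat_lit 184)))) (XT.nd (nat_lit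 78) (nat_lit 228) (nat_lit 0) (XT.lf (nat_lit 0) (nat_lit 26874264435) (nat_lit 76) (nat_lit 3575260318) (nat_lit 152) (nat_lit 1277247784) (nat_lit 16) (nat_lit 5) (nat_lit 17) (nat_lit 5) (nat_lit 18) (nat_lit 4) (nat_lit 302) (nat_lit 235) (nat_lit 183)) (XT.nd (nat_lit 78) (nat_lit 0) (nat_lit 0) (XT.lf (nat_lit 0) (nat_lit 4206695020) (nat_lit 228) (nat_lit 25519795737) (nat_lit 76) (nat_lit 3362613727) (nat_lit 13) (nat_lit 5) (nat_lit 16) (nat_lit 5) (nat_lit 14) (nat_lit 4) (nat_lit 303) (nat_lit 235) (nat_lit 182)) (XT.lf (nat_lit 0) (nat_lit 9977971571) (nat_lit 228) (nat_lit 13936233246) (nat_lit 76) (nat_lit 10603814773) (nat_lit 13) (nat_lit 5) (nat_lit 16) (nat_lit 5) (nat_lit 14) (nat_lit 4) (nat_lit 304) (nat_lit 235) (nat_lit 181)))))) (XT.nd (nat_lit 390) (nat_lit 76) (nat_lit 0) (XT.nd (nat_lit 156) (nat_lit 152) (nat_lit 0) (XT.nd (nat_lit 78) (nat_lit 76) (nat_lit 0)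 (XT.lf (nat_lit 0) (nat_lit 15992834483) (nat_lit 228) (nat_lit 1851898588) (nat_lit 76) (nat_lit 18175027658) (nat_lit 13) (nat_lit 5) (nat_lit 16) (nat_lit 5) (nat_lit 14) (nat_lit 4) (nat_lit 305) (nat_lit 235) (nat_lit 180)) (XT.lf (nat_lit 0) (nat_lit 10976164974) (nat_lit 76) (nat_lit 11394949497) (nat_lit 152) (nat_lit 15223623717) (nat_lit 12) (nat_lit 5) (nat_lit 13) (nat_lit 5) (nat_lit 14) (nat_lit 4) (nat_lit 306) (nat_lit 235) (nat_lit 179))) (XT.nd (nat_lit 78) (nat_lit 152) (nat_lit 0) (XT.lf (nat_lit 0) (nat_lit 24411799075) (nat_lit 76) (nat_lit 4634079938) (nat_lit 152) (nat_lit 10203286468) (nat_lit 12) (nat_lit 5) (nat_lit 13) (nat_lit 5) (nat_lit 14) (nat_lit 4) (nat_lit 307) (nat_lit 235) (nat_lit 178)) (XT.nd (nat_lit 78) (nat_lit 152) (nat_lit 0) (XT.lf (nat_lit 0) (nat_lit 36038273863) (nat_lit 152) (nat_lit 2560798816) (nat_lit 0) (nat_lit 2387751435) (nat_lit 12)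 (nat_lit 5) (nat_lit 14) (nat_lit 4) (nat_lit 12) (nat_lit 4) (nat_lit 308) (nat_lit 235) (nat_lit 177)) (XT.lf (nat_lit 0) (nat_lit 667900674) (nat_lit 152) (nat_lit 32395195180) (nat_lit 76) (nat_lit 9744828097) (nat_lit 10) (nat_lit 5) (nat_lit 12) (nat_lit 5) (nat_lit 11) (nat_lit 4) (nat_lit 309) (nat_lit 235) (nat_lit 176))))) (XT.nd (nat_lit 234) (nat_lit 0) (nat_lit 0) (XT.nd (nat_lit 78) (nat_lit 76) (nat_lit 0) (XT.lf (nat_lit 0) (nat_lit 6453293122) (nat_lit 152) (nat_lit 20746573390) (nat_lit 76) (nat_lit 17519052072) (nat_lit 10) (nat_lit 5) (nat_lit 12) (nat_lit 5) (nat_lit 11) (nat_lit 4) (nat_lit 310) (nat_lit 235) (nat_lit 175)) (XT.nd (nat_lit 78) (nat_lit 76) (nat_lit 0) (XT.lf (nat_lit 0) (nat_lit 12492611430) (nat_lit 152) (nat_lit 8577923776) (nat_lit 76) (nat_lit 25656010481) (nat_lit 10) (nat_lit 5) (nat_lit 12) (nat_lit 5) (nat_lit 11) (nat_lit 4) (nat_lit 311) (nat_lit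 235) (nat_lit 174)) (XT.lf (nat_lit 0) (nat_lit 4222115314) (nat_lit 76) (nat_lit 14618705168) (nat_lit 152) (nat_lit 29993547276) (nat_lit 9) (nat_lit 5) (nat_lit 10) (nat_lit 5) (nat_lit 11) (nat_lit 4) (nat_lit 312) (nat_lit 235) (nat_lit 173)))) (XT.nd (nat_lit 78) (nat_lit 0) (nat_lit 0) (XT.lf (nat_lit 0) (nat_lit 17783681651) (nat_lit 76) (nat_lit 7778447740) (nat_lit 152) (nat_lit 25483801200) (nat_lit 9) (nat_lit 5) (nat_lit 10) (nat_lit 5) (nat_lit 11) (nat_lit 4) (nat_lit 313) (nat_lit 235) (nat_lit 172)) (XT.nd (nat_lit 78) (nat_lit 0) (nat_lit 0) (XT.lf (nat_lit 0) (nat_lit 31968347178) (nat_lit 76) (nat_lit 620096805) (nat_lit 152) (nat_lit 20780578750) (nat_lit 9) (nat_lit 5) (nat_lit 10) (nat_lit 5) (nat_lit 11) (nat_lit 4) (nat_lit 314) (nat_lit 235) (nat_lit 171)) (XT.lf (nat_lit 0) (nat_lit 40002564820) (nat_lit 152) (nat_lit 9065361689) (nat_lit 0) (nat_lit 6739266707)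 (nat_lit 9) (nat_lit 5) (nat_lit 11) (nat_lit 4) (nat_lit 9) (nat_lit 4) (nat_lit 315) (nat_lit 235) (nat_lit 170))))))) (XT.nd (nat_lit 858) (nat_lit 152) (nat_lit 0) (XT.nd (nat_lit 390) (nat_lit 76) (nat_lit 0) (XT.nd (nat_lit 156) (nat_lit 76) (nat_lit 0) (XT.nd (nat_lit 78) (nat_lit 0) (nat_lit 0) (XT.lf (nat_lit 0) (nat_lit 3906160468) (nat_lit 76) (nat_lit 43896657748) (nat_lit 76) (nat_lit 10564008782) (nat_lit 8) (nat_lit 4) (nat_lit 9) (nat_lit 5) (nat_lit 9) (nat_lit 4) (nat_lit 316) (nat_lit 235) (nat_lit 169)) (XT.lf (nat_lit 0) (nat_lit 17666624456) (nat_lit 76) (nat_lit 38392278789) (nat_lit 76) (nat_lit 4993581392) (nat_lit 8) (nat_lit 4) (nat_lit 9) (nat_lit 5) (nat_lit 9) (nat_lit 4) (nat_lit 317) (nat_lit 235) (nat_lit 168))) (XT.nd (nat_lit 78) (nat_lit 0) (nat_lit 0) (XT.lf (nat_lit 0) (nat_lit 812209753) (nat_lit 152) (nat_lit 31812814866) (nat_lit 76) (nat_lit 31247963332)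 (nat_lit 7) (nat_lit 5) (nat_lit 9) (nat_lit 5) (nat_lit 8) (nat_lit 4) (nat_lit 318) (nat_lit 235) (nat_lit 167)) (XT.nd (nat_lit 78) (nat_lit 0) (nat_lit 0) (XT.lf (nat_lit 0) (nat_lit 6780769542) (nat_lit 152) (nat_lit 19756546367) (nat_lit 76) (nat_lit 40296459395) (nat_lit 7) (nat_lit 5) (nat_lit 9) (nat_lit 5) (nat_lit 8) (nat_lit 4) (nat_lit 319) (nat_lit 235) (nat_lit 166)) (XT.lf (nat_lit 0) (nat_lit 13023751591) (nat_lit 152) (nat_lit 7140347925) (nat_lit 76) (nat_lit 49779236716) (nat_lit 7) (nat_lit 5) (nat_lit 9) (nat_lit 5) (nat_lit 8) (nat_lit 4) (nat_lit 320) (nat_lit 235) (nat_lit 165))))) (XT.nd (nat_lit 234) (nat_lit 0) (nat_lit 0) (XT.nd (nat_lit 78) (nat_lit 0) (nat_lit 0) (XT.lf (nat_lit 0) (nat_lit 6186540720) (nat_lit 76) (nat_lit 13428948237) (nat_lit 152) (nat_lit 53591801430) (nat_lit 6) (nat_lit 5) (nat_lit 7) (nat_lit 5) (nat_lit 8) (nat_lit 4) (nat_lit 321)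 (nat_lit 235) (nat_lit 164)) (XT.nd (nat_lit 78) (nat_lit 0) (nat_lit 0) (XT.lf (nat_lit 0) (nat_lit 20289315368) (nat_lit 76) (nat_lit 6298846161) (nat_lit 152) (nat_lit 50044753000) (nat_lit 6) (nat_lit 5) (nat_lit 7) (nat_lit 5) (nat_lit 8) (nat_lit 4) (nat_lit 322) (nat_lit 235) (nat_lit 163)) (XT.lf (nat_lit 0) (nat_lit 33899624634) (nat_lit 152) (nat_lit 45182275015) (nat_lit 0) (nat_lit 1148227649) (nat_lit 6) (nat_lit 5) (nat_lit 8) (nat_lit 4) (nat_lit 6) (nat_lit 4) (nat_lit 323) (nat_lit 235) (nat_lit 162)))) (XT.nd (nat_lit 78) (nat_lit 0) (nat_lit 0) (XT.lf (nat_lit 0) (nat_lit 41619988498) (nat_lit 152) (nat_lit 33562904630) (nat_lit 0) (nat_lit 8823019293) (nat_lit 6) (nat_lit 5) (nat_lit 8) (nat_lit 4) (nat_lit 6) (nat_lit 4) (nat_lit 324) (nat_lit 235) (nat_lit 161)) (XT.nd (nat_lit 78) (nat_lit 0) (nat_lit 0) (XT.lf (nat_lit 0) (nat_lit 49707086580) (nat_lit 152) (nat_lit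 21397274476) (nat_lit 0) (nat_lit 16866715260) (nat_lit 6) (nat_lit 5) (nat_lit 8) (nat_lit 4) (nat_lit 6) (nat_lit 4) (nat_lit 325) (nat_lit 235) (nat_lit 160)) (XT.lf (nat_lit 0) (nat_lit 58180173875) (nat_lit 152) (nat_lit 8656418769) (nat_lit 0) (nat_lit 25298467208) (nat_lit 6) (nat_lit 5) (nat_lit 8) (nat_lit 4) (nat_lit 6) (nat_lit 4) (nat_lit 326) (nat_lit 235) (nat_lit 159)))))) (XT.nd (nat_lit 390) (nat_lit 76) (nat_lit 0) (XT.nd (nat_lit 156) (nat_lit 0) (nat_lit 0) (XT.nd (nat_lit 78) (nat_lit 0) (nat_lit 0) (XT.lf (nat_lit 0) (nat_lit 4783338015) (nat_lit 76) (nat_lit 62322066754) (nat_lit 76) (nat_lit 29400993090) (nat_lit 5) (nat_lit 4) (nat_lit 6) (nat_lit 5) (nat_lit 6) (nat_lit 4) (nat_lit 327) (nat_lit 235) (nat_lit 158)) (XT.lf (nat_lit 0) (nat_lit 19045396893) (nat_lit 76) (nat_lit 57503658339) (nat_lit 76) (nat_lit 24545092296) (nat_lit 5) (nat_lit 4) (nat_lit 6) (nat_lit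 5) (nat_lit 6) (nat_lit 4) (nat_lit 328) (nat_lit 235) (nat_lit 157))) (XT.nd (nat_lit 78) (nat_lit 0) (nat_lit 0) (XT.lf (nat_lit 0) (nat_lit 33991435439) (nat_lit 76) (nat_lit 52457307852) (nat_lit 76) (nat_lit 19463034783) (nat_lit 5) (nat_lit 4) (nat_lit 6) (nat_lit 5) (nat_lit 6) (nat_lit 4) (nat_lit 329) (nat_lit 235) (nat_lit 156)) (XT.nd (nat_lit 78) (nat_lit 0) (nat_lit 0) (XT.lf (nat_lit 0) (nat_lit 49657039460) (nat_lit 76) (nat_lit 47171000175) (nat_lit 76) (nat_lit 14142720413) (nat_lit 5) (nat_lit 4) (nat_lit 6) (nat_lit 5) (nat_lit 6) (nat_lit 4) (nat_lit 330) (nat_lit 235) (nat_lit 155)) (XT.lf (nat_lit 0) (nat_lit 66079508012) (nat_lit 76) (nat_lit 41632148860) (nat_lit 76) (nat_lit 8571481772) (nat_lit 5) (nat_lit 4) (nat_lit 6) (nat_lit 5) (nat_lit 6) (nat_lit 4) (nat_lit 331) (nat_lit 235) (nat_lit 154))))) (XT.nd (nat_lit 31044) (nat_lit 0) (nat_lit 17480) (XT.nd (nat_lit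 156) (nat_lit 76) (nat_lit 0) (XT.lf (nat_lit 0) (nat_lit 83297942211) (nat_lit 76) (nat_lit 35827566166) (nat_lit 76) (nat_lit 2736054006) (nat_lit 5) (nat_lit 4) (nat_lit 6) (nat_lit 5) (nat_lit 6) (nat_lit 4) (nat_lit 332) (nat_lit 235) (nat_lit 153)) (XT.nd (nat_lit 30810) (nat_lit 0) (nat_lit 19456) (XT.lf (nat_lit 0) (nat_lit 9592693105) (nat_lit 152) (nat_lit 13675698805) (nat_lit 76) (nat_lit 110599124908) (nat_lit 4) (nat_lit 5) (nat_lit 6) (nat_lit 5) (nat_lit 5) (nat_lit 4) (nat_lit 334) (nat_lit 235) (nat_lit 151)) (XT.lf (nat_lit 0) (nat_lit 1112665205) (nat_lit 532) (nat_lit 1096195916) (nat_lit 0) (nat_lit 1112665205) (nat_lit 260) (nat_lit 5) (nat_lit 267) (nat_lit 4) (nat_lit 260) (nat_lit 4) (nat_lit 248) (nat_lit 236) (nat_lit 236)))) (XT.nd (nat_lit 78) (nat_lit 1368) (nat_lit 0) (XT.lf (nat_lit 0) (nat_lit 378653142) (nat_lit 608) (nat_lit 2657447347) (nat_lit 76) (nat_lit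 3662371558) (nat_lit 252) (nat_lit 5) (nat_lit 260) (nat_lit 5) (nat_lit 253) (nat_lit 4) (nat_lit 249) (nat_lit 236) (nat_lit 235)) (XT.nd (nat_lit 78) (nat_lit 760) (nat_lit 0) (XT.lf (nat_lit 0) (nat_lit 3695826986) (nat_lit 608) (nat_lit 1419889855) (nat_lit 684) (nat_lit 1646668990) (nat_lit 244) (nat_lit 5) (nat_lit 252) (nat_lit 5) (nat_lit 253) (nat_lit 4) (nat_lit 250) (nat_lit 236) (nat_lit 234)) (XT.lf (nat_lit 0) (nat_lit 3001666159) (nat_lit 760) (nat_lit 3417941867) (nat_lit 76) (nat_lit 415534956) (nat_lit 234) (nat_lit 5) (nat_lit 244) (nat_lit 5) (nat_lit 235) (nat_lit 4) (nat_lit 251) (nat_lit 236) (nat_lit 233))))))))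
noncomputable def xc42 : XT := (XT.nd (nat_lit 1716) (nat_lit 3496) (nat_lit 0) (XT.nd (nat_lit 858) (nat_lit 4028) (nat_lit 0) (XT.nd (nat_lit 390) (nat_lit 3876) (nat_lit 0) (XT.nd (nat_lit 156) (nat_lit 3116) (nat_lit 0) (XT.nd (nat_lit 78) (nat_lit 836) (nat_lit 0) (XT.lf (nat_lit 0) (nat_lit 745351161) (nat_lit 836) (nat_lit 3724458048) (nat_lit 76) (nat_lit 2446865774) (nat_lit 223) (nat_lit 5) (nat_lit 234) (nat_lit 5) (nat_lit 224) (nat_lit 5) (nat_lit 252) (nat_lit 236) (nat_lit 232)) (XT.lf (nat_lit 0) (nat_lit 3013327197) (nat_lit 836) (nat_lit 2284030056) (nat_lit 912) (nat_lit 1709735676) (nat_lit 212) (nat_lit 5) (nat_lit 223) (nat_lit 5) (nat_lit 224) (nat_lit 5) (nat_lit 253) (nat_lit 236) (nat_lit 231))) (XT.nd (nat_lit 78) (nat_lit 2128) (nat_lit 0) (XT.lf (nat_lit 0) (nat_lit 2749545048) (nat_lit 988) (nat_lit 4224687222) (nat_lit 76) (nat_lit 132565964) (nat_lit 199)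 (nat_lit 5) (nat_lit 212) (nat_lit 5) (nat_lit 200) (nat_lit 5) (nat_lit 254) (nat_lit 236) (nat_lit 230)) (XT.nd (nat_lit 78) (nat_lit 1064) (nat_lit 0) (XT.lf (nat_lit 0) (nat_lit 45938941) (nat_lit 1064) (nat_lit 4437926549) (nat_lit 76) (nat_lit 2731697504) (nat_lit 185) (nat_lit 5) (nat_lit 199) (nat_lit 5) (nat_lit 186) (nat_lit 5) (nat_lit 255) (nat_lit 236) (nat_lit 229)) (XT.lf (nat_lit 0) (nat_lit 2688707621) (nat_lit 1064) (nat_lit 1741559944) (nat_lit 1140) (nat_lit 2903203613) (nat_lit 171) (nat_lit 5) (nat_lit 185) (nat_lit 5) (nat_lit 186) (nat_lit 5) (nat_lit 256) (nat_lit 236) (nat_lit 228))))) (XT.nd (nat_lit 234) (nat_lit 1596) (nat_lit 0) (XT.nd (nat_lit 78) (nat_lit 1140) (nat_lit 0) (XT.lf (nat_lit 0) (nat_lit 1415503850) (nat_lit 1140) (nat_lit 4837071491) (nat_lit 76) (nat_lit 1208644954) (nat_lit 156) (nat_lit 5) (nat_lit 171) (nat_lit 5) (nat_lit 157) (nat_lit 5)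 (nat_lit 257) (nat_lit 236) (nat_lit 227)) (XT.nd (nat_lit 78) (nat_lit 608) (nat_lit 0) (XT.lf (nat_lit 0) (nat_lit 2553425989) (nat_lit 532) (nat_lit 3222309142) (nat_lit 608) (nat_lit 1822659095) (nat_lit 149) (nat_lit 5) (nat_lit 156) (nat_lit 5) (nat_lit 157) (nat_lit 5) (nat_lit 258) (nat_lit 236) (nat_lit 226)) (XT.lf (nat_lit 0) (nat_lit 2435430295) (nat_lit 608) (nat_lit 5256946939) (nat_lit 76) (nat_lit 53484623) (nat_lit 141) (nat_lit 5) (nat_lit 149) (nat_lit 5) (nat_lit 142) (nat_lit 5) (nat_lit 259) (nat_lit 236) (nat_lit 225)))) (XT.nd (nat_lit 78) (nat_lit 1064) (nat_lit 0) (XT.lf (nat_lit 0) (nat_lit 2393767072) (nat_lit 532) (nat_lit 4390892653) (nat_lit 608) (nat_lit 1118436515) (nat_lit 134) (nat_lit 5) (nat_lit 141) (nat_lit 5) (nat_lit 142) (nat_lit 5) (nat_lit 260) (nat_lit 236) (nat_lit 224)) (XT.nd (nat_lit 78) (nat_lit 456) (nat_lit 0) (XT.lf (nat_lit 0) (nat_lit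 2277191923) (nat_lit 532) (nat_lit 831048039) (nat_lit 608) (nat_lit 4962712732) (nat_lit 126) (nat_lit 5) (nat_lit 133) (nat_lit 5) (nat_lit 134) (nat_lit 5) (nat_lit 261) (nat_lit 236) (nat_lit 223)) (XT.lf (nat_lit 0) (nat_lit 2119073098) (nat_lit 456) (nat_lit 5329275660) (nat_lit 532) (nat_lit 801127532) (nat_lit 120) (nat_lit 5) (nat_lit 126) (nat_lit 5) (nat_lit 127) (nat_lit 5) (nat_lit 262) (nat_lit 236) (nat_lit 222)))))) (XT.nd (nat_lit 390) (nat_lit 1748) (nat_lit 0) (XT.nd (nat_lit 156) (nat_lit 1368) (nat_lit 0) (XT.nd (nat_lit 78) (nat_lit 380) (nat_lit 0) (XT.lf (nat_lit 0) (nat_lit 1904251731) (nat_lit 456) (nat_lit 1505624878) (nat_lit 532) (nat_lit 5029027154) (nat_lit 113) (nat_lit 5) (nat_lit 119) (nat_lit 5) (nat_lit 120) (nat_lit 5) (nat_lit 263) (nat_lit 236) (nat_lit 221)) (XT.lf (nat_lit 0) (nat_lit 1629376988) (nat_lit 380) (nat_lit 6119418408) (nat_lit 456) (nat_lit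 891071290) (nat_lit 108) (nat_lit 5) (nat_lit 113) (nat_lit 5) (nat_lit 114) (nat_lit 5) (nat_lit 264) (nat_lit 236) (nat_lit 220))) (XT.nd (nat_lit 78) (nat_lit 836) (nat_lit 0) (XT.lf (nat_lit 0) (nat_lit 1264708218) (nat_lit 456) (nat_lit 2051505653) (nat_lit 532) (nat_lit 5536068980) (nat_lit 101) (nat_lit 5) (nat_lit 107) (nat_lit 5) (nat_lit 108) (nat_lit 5) (nat_lit 265) (nat_lit 236) (nat_lit 219)) (XT.nd (nat_lit 78) (nat_lit 456) (nat_lit 0) (XT.lf (nat_lit 0) (nat_lit 812619804) (nat_lit 380) (nat_lit 6845228932) (nat_lit 456) (nat_lit 1419215805) (nat_lit 96) (nat_lit 5) (nat_lit 101) (nat_lit 5) (nat_lit 102) (nat_lit 5) (nat_lit 266) (nat_lit 236) (nat_lit 218)) (XT.lf (nat_lit 0) (nat_lit 239062587) (nat_lit 380) (nat_lit 2553817901) (nat_lit 456) (nat_lit 6521246374) (nat_lit 90) (nat_lit 5) (nat_lit 95) (nat_lit 5) (nat_lit 96) (nat_lit 5) (nat_lit 267) (nat_lit 236) (nat_lit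 217))))) (XT.nd (nat_lit 234) (nat_lit 988) (nat_lit 0) (XT.nd (nat_lit 78) (nat_lit 760) (nat_lit 0) (XT.lf (nat_lit 0) (nat_lit 7140547041) (nat_lit 456) (nat_lit 449545926) (nat_lit 76) (nat_lit 1974146444) (nat_lit 90) (nat_lit 5) (nat_lit 96) (nat_lit 5) (nat_lit 91) (nat_lit 5) (nat_lit 268) (nat_lit 236) (nat_lit 216)) (XT.nd (nat_lit 78) (nat_lit 380) (nat_lit 0) (XT.lf (nat_lit 0) (nat_lit 1806113152) (nat_lit 380) (nat_lit 1283567789) (nat_lit 76) (nat_lit 6737943284) (nat_lit 85) (nat_lit 5) (nat_lit 90) (nat_lit 5) (nat_lit 86) (nat_lit 5) (nat_lit 269) (nat_lit 236) (nat_lit 215)) (XT.lf (nat_lit 0) (nat_lit 6154130667) (nat_lit 456) (nat_lit 2284604066) (nat_lit 76) (nat_lit 1666236758) (nat_lit 80) (nat_lit 5) (nat_lit 86) (nat_lit 5) (nat_lit 81) (nat_lit 5) (nat_lit 270) (nat_lit 236) (nat_lit 214)))) (XT.nd (nat_lit 78) (nat_lit 608) (nat_lit 0) (XT.lf (nat_lit 0) (nat_lit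 292336620) (nat_lit 380) (nat_lit 3467994208) (nat_lit 76) (nat_lit 6636705607) (nat_lit 75) (nat_lit 5) (nat_lit 80) (nat_lit 5) (nat_lit 76) (nat_lit 5) (nat_lit 271) (nat_lit 236) (nat_lit 213)) (XT.nd (nat_lit 78) (nat_lit 304) (nat_lit 0) (XT.lf (nat_lit 0) (nat_lit 4626250748) (nat_lit 380) (nat_lit 4874150274) (nat_lit 76) (nat_lit 1203513920) (nat_lit 71) (nat_lit 5) (nat_lit 76) (nat_lit 5) (nat_lit 72) (nat_lit 5) (nat_lit 272) (nat_lit 236) (nat_lit 212)) (XT.lf (nat_lit 0) (nat_lit 4511059939) (nat_lit 304) (nat_lit 4655150228) (nat_lit 380) (nat_lit 1860430007) (nat_lit 67) (nat_lit 5) (nat_lit 71) (nat_lit 5) (nat_lit 72) (nat_lit 5) (nat_lit 273) (nat_lit 236) (nat_lit 211))))))) (XT.nd (nat_lit 858) (nat_lit 1368) (nat_lit 0) (XT.nd (nat_lit 390) (nat_lit 988) (nat_lit 0) (XT.nd (nat_lit 156) (nat_lit 532) (nat_lit 0) (XT.nd (nat_lit 78) (nat_lit 228) (nat_lit 0) (XT.lf (nat_lit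 0) (nat_lit 2476393758) (nat_lit 380) (nat_lit 8411046307) (nat_lit 76) (nat_lit 478725649) (nat_lit 62) (nat_lit 5) (nat_lit 67) (nat_lit 5) (nat_lit 63) (nat_lit 5) (nat_lit 274) (nat_lit 236) (nat_lit 210)) (XT.lf (nat_lit 0) (nat_lit 1095536121) (nat_lit 228) (nat_lit 5900495389) (nat_lit 304) (nat_lit 4726111342) (nat_lit 59) (nat_lit 5) (nat_lit 62) (nat_lit 5) (nat_lit 63) (nat_lit 5) (nat_lit 275) (nat_lit 236) (nat_lit 209))) (XT.nd (nat_lit 78) (nat_lit 532) (nat_lit 0) (XT.lf (nat_lit 0) (nat_lit 11083939748) (nat_lit 228) (nat_lit 627277033) (nat_lit 304) (nat_lit 385768815) (nat_lit 59) (nat_lit 5) (nat_lit 62) (nat_lit 5) (nat_lit 63) (nat_lit 5) (nat_lit 276) (nat_lit 236) (nat_lit 208)) (XT.nd (nat_lit 78) (nat_lit 228) (nat_lit 0) (XT.lf (nat_lit 0) (nat_lit 4112492539) (nat_lit 304) (nat_lit 3484068501) (nat_lit 76) (nat_lit 4892279442) (nat_lit 55) (nat_lit 5) (nat_lit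 59) (nat_lit 5) (nat_lit 56) (nat_lit 5) (nat_lit 277) (nat_lit 236) (nat_lit 207)) (XT.lf (nat_lit 0) (nat_lit 6601334087) (nat_lit 228) (nat_lit 2197412078) (nat_lit 304) (nat_lit 4102431004) (nat_lit 52) (nat_lit 5) (nat_lit 55) (nat_lit 5) (nat_lit 56) (nat_lit 5) (nat_lit 278) (nat_lit 236) (nat_lit 206))))) (XT.nd (nat_lit 234) (nat_lit 456) (nat_lit 0) (XT.nd (nat_lit 78) (nat_lit 228) (nat_lit 0) (XT.lf (nat_lit 0) (nat_lit 377634503) (nat_lit 304) (nat_lit 9526545444) (nat_lit 76) (nat_lit 3429965760) (nat_lit 48) (nat_lit 5) (nat_lit 52) (nat_lit 5) (nat_lit 49) (nat_lit 5) (nat_lit 279) (nat_lit 236) (nat_lit 205)) (XT.nd (nat_lit 78) (nat_lit 0) (nat_lit 0) (XT.lf (nat_lit 0) (nat_lit 554244610) (nat_lit 228) (nat_lit 4432691489) (nat_lit 304) (nat_lit 8801024913) (nat_lit 45) (nat_lit 5) (nat_lit 48) (nat_lit 5) (nat_lit 49) (nat_lit 5) (nat_lit 280) (nat_lit 236) (nat_lit 204))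 (XT.lf (nat_lit 0) (nat_lit 9837604347) (nat_lit 304) (nat_lit 3092645759) (nat_lit 76) (nat_lit 1334003457) (nat_lit 45) (nat_lit 5) (nat_lit 49) (nat_lit 5) (nat_lit 46) (nat_lit 5) (nat_lit 281) (nat_lit 236) (nat_lit 203)))) (XT.nd (nat_lit 78) (nat_lit 152) (nat_lit 0) (XT.lf (nat_lit 0) (nat_lit 184265799) (nat_lit 304) (nat_lit 7256652459) (nat_lit 76) (nat_lit 7322867403) (nat_lit 41) (nat_lit 5) (nat_lit 45) (nat_lit 5) (nat_lit 42) (nat_lit 5) (nat_lit 282) (nat_lit 236) (nat_lit 202)) (XT.nd (nat_lit 78) (nat_lit 0) (nat_lit 0) (XT.lf (nat_lit 0) (nat_lit 3287354551) (nat_lit 152) (nat_lit 1617635470) (nat_lit 228) (nat_lit 10382965072) (nat_lit 39) (nat_lit 5) (nat_lit 41) (nat_lit 5) (nat_lit 42) (nat_lit 5) (nat_lit 283) (nat_lit 236) (nat_lit 201)) (XT.lf (nat_lit 0) (nat_lit 9889239660) (nat_lit 228) (nat_lit 1513980935) (nat_lit 76) (nat_lit 4434382937) (nat_lit 39) (nat_lit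 5) (nat_lit 42) (nat_lit 5) (nat_lit 40) (nat_lit 5) (nat_lit 284) (nat_lit 236) (nat_lit 200)))))) (XT.nd (nat_lit 390) (nat_lit 532) (nat_lit 0) (XT.nd (nat_lit 156) (nat_lit 380) (nat_lit 0) (XT.nd (nat_lit 78) (nat_lit 228) (nat_lit 0) (XT.lf (nat_lit 0) (nat_lit 9529329379) (nat_lit 228) (nat_lit 5614465766) (nat_lit 304) (nat_lit 1270397129) (nat_lit 36) (nat_lit 5) (nat_lit 39) (nat_lit 5) (nat_lit 40) (nat_lit 5) (nat_lit 285) (nat_lit 236) (nat_lit 199)) (XT.lf (nat_lit 0) (nat_lit 3545005872) (nat_lit 228) (nat_lit 12978424559) (nat_lit 76) (nat_lit 495975865) (nat_lit 33) (nat_lit 5) (nat_lit 36) (nat_lit 5) (nat_lit 34) (nat_lit 5) (nat_lit 286) (nat_lit 236) (nat_lit 198))) (XT.nd (nat_lit 78) (nat_lit 380) (nat_lit 0) (XT.lf (nat_lit 0) (nat_lit 8620803798) (nat_lit 228) (nat_lit 2199257125) (nat_lit 76) (nat_lit 6833145647) (nat_lit 33) (nat_lit 5) (nat_lit 36) (nat_lit 5)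 (nat_lit 34) (nat_lit 5) (nat_lit 287) (nat_lit 236) (nat_lit 197)) (XT.nd (nat_lit 78) (nat_lit 228) (nat_lit 0) (XT.lf (nat_lit 0) (nat_lit 9170871128) (nat_lit 152) (nat_lit 4789020162) (nat_lit 228) (nat_lit 4358596630) (nat_lit 31) (nat_lit 5) (nat_lit 33) (nat_lit 5) (nat_lit 34) (nat_lit 5) (nat_lit 288) (nat_lit 236) (nat_lit 196)) (XT.lf (nat_lit 0) (nat_lit 518674793) (nat_lit 228) (nat_lit 16984156576) (nat_lit 76) (nat_lit 1514699417) (nat_lit 28) (nat_lit 5) (nat_lit 31) (nat_lit 5) (nat_lit 29) (nat_lit 5) (nat_lit 289) (nat_lit 236) (nat_lit 195))))) (XT.nd (nat_lit 234) (nat_lit 380) (nat_lit 0) (XT.nd (nat_lit 78) (nat_lit 152) (nat_lit 0) (XT.lf (nat_lit 0) (nat_lit 5619065954) (nat_lit 228) (nat_lit 6000573605) (nat_lit 76) (nat_lit 8128576616) (nat_lit 28) (nat_lit 5) (nat_lit 31) (nat_lit 5) (nat_lit 29) (nat_lit 5) (nat_lit 290) (nat_lit 236) (nat_lit 194)) (XT.nd (nat_lit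 78) (nat_lit 0) (nat_lit 0) (XT.lf (nat_lit 0) (nat_lit 5522636567) (nat_lit 152) (nat_lit 5433617500) (nat_lit 228) (nat_lit 9559792228) (nat_lit 26) (nat_lit 5) (nat_lit 28) (nat_lit 5) (nat_lit 29) (nat_lit 5) (nat_lit 291) (nat_lit 236) (nat_lit 193)) (XT.lf (nat_lit 0) (nat_lit 16563448216) (nat_lit 228) (nat_lit 3699485109) (nat_lit 76) (nat_lit 1059300941) (nat_lit 26) (nat_lit 5) (nat_lit 29) (nat_lit 5) (nat_lit 27) (nat_lit 4) (nat_lit 292) (nat_lit 236) (nat_lit 192)))) (XT.nd (nat_lit 78) (nat_lit 152) (nat_lit 0) (XT.lf (nat_lit 0) (nat_lit 344451968) (nat_lit 228) (nat_lit 14016909088) (nat_lit 76) (nat_lit 7805314658) (nat_lit 23) (nat_lit 5) (nat_lit 26) (nat_lit 5) (nat_lit 24) (nat_lit 5) (nat_lit 293) (nat_lit 236) (nat_lit 191)) (XT.nd (nat_lit 78) (nat_lit 152) (nat_lit 0) (XT.lf (nat_lit 0) (nat_lit 5579106162) (nat_lit 228) (nat_lit 2540147093) (nat_lit 76) (nat_lit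 14933485773) (nat_lit 23) (nat_lit 5) (nat_lit 26) (nat_lit 5) (nat_lit 24) (nat_lit 5) (nat_lit 294) (nat_lit 236) (nat_lit 190)) (XT.lf (nat_lit 0) (nat_lit 9594503934) (nat_lit 152) (nat_lit 1511596789) (nat_lit 228) (nat_lit 12876137501) (nat_lit 21) (nat_lit 5) (nat_lit 23) (nat_lit 5) (nat_lit 24) (nat_lit 5) (nat_lit 295) (nat_lit 236) (nat_lit 189))))))))
noncomputable def xc43 : XT := (XT.nd (nat_lit 1716) (nat_lit 228) (nat_lit 0) (XT.nd (nat_lit 858) (nat_lit 304) (nat_lit 0) (XT.nd (nat_lit 390) (nat_lit 380) (nat_lit 0) (XT.nd (nat_lit 156) (nat_lit 228) (nat_lit 0) (XT.nd (nat_lit 78) (nat_lit 76) (nat_lit 0) (XT.lf (nat_lit 0) (nat_lit 16927975231) (nat_lit 228) (nat_lit 2722543036) (nat_lit 76) (nat_lit 5307186726) (nat_lit 21) (nat_lit 5) (nat_lit 24) (nat_lit 5) (nat_lit 22) (nat_lit 4) (nat_lit 296) (nat_lit 236) (nat_lit 188)) (XT.lf (nat_lit 0) (nat_lit 9601182572) (nat_lit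 76) (nat_lit 13490129734) (nat_lit 152) (nat_lit 2889167937) (nat_lit 20) (nat_lit 5) (nat_lit 21) (nat_lit 5) (nat_lit 22) (nat_lit 4) (nat_lit 297) (nat_lit 236) (nat_lit 187))) (XT.nd (nat_lit 78) (nat_lit 152) (nat_lit 0) (XT.lf (nat_lit 0) (nat_lit 2431824347) (nat_lit 152) (nat_lit 4575158710) (nat_lit 76) (nat_lit 20047560030) (nat_lit 19) (nat_lit 5) (nat_lit 21) (nat_lit 5) (nat_lit 20) (nat_lit 5) (nat_lit 298) (nat_lit 236) (nat_lit 186)) (XT.nd (nat_lit 78) (nat_lit 0) (nat_lit 0) (XT.lf (nat_lit 0) (nat_lit 7852589023) (nat_lit 152) (nat_lit 129275615) (nat_lit 228) (nat_lit 20198944435) (nat_lit 17) (nat_lit 5) (nat_lit 19) (nat_lit 5) (nat_lit 20) (nat_lit 5) (nat_lit 299) (nat_lit 236) (nat_lit 185)) (XT.lf (nat_lit 0) (nat_lit 13873198008) (nat_lit 228) (nat_lit 8522592398) (nat_lit 76) (nat_lit 6965722973) (nat_lit 17) (nat_lit 5) (nat_lit 20) (nat_lit 5) (nat_lit 18) (nat_lit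 4) (nat_lit 300) (nat_lit 236) (nat_lit 184))))) (XT.nd (nat_lit 234) (nat_lit 228) (nat_lit 0) (XT.nd (nat_lit 78) (nat_lit 76) (nat_lit 0) (XT.lf (nat_lit 0) (nat_lit 3862325943) (nat_lit 76) (nat_lit 16185729515) (nat_lit 152) (nat_lit 10553565630) (nat_lit 16) (nat_lit 5) (nat_lit 17) (nat_lit 5) (nat_lit 18) (nat_lit 4) (nat_lit 301) (nat_lit 236) (nat_lit 183)) (XT.nd (nat_lit 78) (nat_lit 76) (nat_lit 0) (XT.lf (nat_lit 0) (nat_lit 16961971594) (nat_lit 76) (nat_lit 9609504093) (nat_lit 152) (nat_lit 5331099050) (nat_lit 16) (nat_lit 5) (nat_lit 17) (nat_lit 5) (nat_lit 18) (nat_lit 4) (nat_lit 302) (nat_lit 236) (nat_lit 182)) (XT.lf (nat_lit 0) (nat_lit 103399486) (nat_lit 152) (nat_lit 2633074313) (nat_lit 76) (nat_lit 30533474268) (nat_lit 15) (nat_lit 5) (nat_lit 17) (nat_lit 5) (nat_lit 16) (nat_lit 5) (nat_lit 303) (nat_lit 236) (nat_lit 181)))) (XT.nd (nat_lit 78) (nat_lit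 76) (nat_lit 0) (XT.lf (nat_lit 0) (nat_lit 5800361107) (nat_lit 228) (nat_lit 24384324226) (nat_lit 76) (nat_lit 4516422388) (nat_lit 13) (nat_lit 5) (nat_lit 16) (nat_lit 5) (nat_lit 14) (nat_lit 4) (nat_lit 304) (nat_lit 236) (nat_lit 180)) (XT.nd (nat_lit 78) (nat_lit 76) (nat_lit 0) (XT.lf (nat_lit 0) (nat_lit 11794328565) (nat_lit 228) (nat_lit 12336415100) (nat_lit 76) (nat_lit 12072746439) (nat_lit 13) (nat_lit 5) (nat_lit 16) (nat_lit 5) (nat_lit 14) (nat_lit 4) (nat_lit 305) (nat_lit 236) (nat_lit 179)) (XT.lf (nat_lit 0) (nat_lit 247604624) (nat_lit 76) (nat_lit 17801974011) (nat_lit 152) (nat_lit 19732593522) (nat_lit 12) (nat_lit 5) (nat_lit 13) (nat_lit 5) (nat_lit 14) (nat_lit 4) (nat_lit 306) (nat_lit 236) (nat_lit 178)))))) (XT.nd (nat_lit 390) (nat_lit 152) (nat_lit 0) (XT.nd (nat_lit 156) (nat_lit 152) (nat_lit 0) (XT.nd (nat_lit 78) (nat_lit 0) (nat_lit 0) (XT.lf (nat_lit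 0) (nat_lit 13649542152) (nat_lit 76) (nat_lit 11055524319) (nat_lit 152) (nat_lit 14732124323) (nat_lit 12) (nat_lit 5) (nat_lit 13) (nat_lit 5) (nat_lit 14) (nat_lit 4) (nat_lit 307) (nat_lit 236) (nat_lit 177)) (XT.lf (nat_lit 0) (nat_lit 27655788009) (nat_lit 76) (nat_lit 3999905217) (nat_lit 152) (nat_lit 9520421668) (nat_lit 12) (nat_lit 5) (nat_lit 13) (nat_lit 5) (nat_lit 14) (nat_lit 4) (nat_lit 308) (nat_lit 236) (nat_lit 176))) (XT.nd (nat_lit 78) (nat_lit 152) (nat_lit 0) (XT.lf (nat_lit 0) (nat_lit 38950514812) (nat_lit 152) (nat_lit 735901153) (nat_lit 0) (nat_lit 3315693583) (nat_lit 12) (nat_lit 5) (nat_lit 14) (nat_lit 4) (nat_lit 12) (nat_lit 4) (nat_lit 309) (nat_lit 236) (nat_lit 175)) (XT.nd (nat_lit 78) (nat_lit 0) (nat_lit 0) (XT.lf (nat_lit 0) (nat_lit 1788331907) (nat_lit 152) (nat_lit 32095674006) (nat_lit 76) (nat_lit 11031013409) (nat_lit 10) (nat_lit 5) (nat_lit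 12) (nat_lit 5) (nat_lit 11) (nat_lit 4) (nat_lit 310) (nat_lit 236) (nat_lit 174)) (XT.lf (nat_lit 0) (nat_lit 7811230349) (nat_lit 152) (nat_lit 19956015456) (nat_lit 76) (nat_lit 19155903634) (nat_lit 10) (nat_lit 5) (nat_lit 12) (nat_lit 5) (nat_lit 11) (nat_lit 4) (nat_lit 311) (nat_lit 236) (nat_lit 173))))) (XT.nd (nat_lit 234) (nat_lit 76) (nat_lit 0) (XT.nd (nat_lit 78) (nat_lit 76) (nat_lit 0) (XT.lf (nat_lit 0) (nat_lit 14103215878) (nat_lit 152) (nat_lit 7265975581) (nat_lit 76) (nat_lit 27663476680) (nat_lit 10) (nat_lit 5) (nat_lit 12) (nat_lit 5) (nat_lit 11) (nat_lit 4) (nat_lit 312) (nat_lit 236) (nat_lit 172)) (XT.nd (nat_lit 78) (nat_lit 0) (nat_lit 0) (XT.lf (nat_lit 0) (nat_lit 6124164508) (nat_lit 76) (nat_lit 14613974121) (nat_lit 152) (nat_lit 30508693379) (nat_lit 9) (nat_lit 5) (nat_lit 10) (nat_lit 5) (nat_lit 11) (nat_lit 4) (nat_lit 313) (nat_lit 236) (nat_lit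 171)) (XT.lf (nat_lit 0) (nat_lit 20283288048) (nat_lit 76) (nat_lit 7466735550) (nat_lit 152) (nat_lit 25820342440) (nat_lit 9) (nat_lit 5) (nat_lit 10) (nat_lit 5) (nat_lit 11) (nat_lit 4) (nat_lit 314) (nat_lit 236) (nat_lit 170)))) (XT.nd (nat_lit 78) (nat_lit 76) (nat_lit 0) (XT.lf (nat_lit 0) (nat_lit 35084486124) (nat_lit 152) (nat_lit 20910594861) (nat_lit 0) (nat_lit 15853857) (nat_lit 9) (nat_lit 5) (nat_lit 11) (nat_lit 4) (nat_lit 9) (nat_lit 4) (nat_lit 315) (nat_lit 236) (nat_lit 169)) (XT.nd (nat_lit 78) (nat_lit 76) (nat_lit 0) (XT.lf (nat_lit 0) (nat_lit 42834006135) (nat_lit 152) (nat_lit 8038767217) (nat_lit 0) (nat_lit 7699325437) (nat_lit 9) (nat_lit 5) (nat_lit 11) (nat_lit 4) (nat_lit 9) (nat_lit 4) (nat_lit 316) (nat_lit 236) (nat_lit 168)) (XT.lf (nat_lit 0) (nat_lit 5538911086) (nat_lit 76) (nat_lit 45459592357) (nat_lit 76) (nat_lit 10262008391) (nat_lit 8) (nat_lit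 4) (nat_lit 9) (nat_lit 5) (nat_lit 9) (nat_lit 4) (nat_lit 317) (nat_lit 236) (nat_lit 167))))))) (XT.nd (nat_lit 858) (nat_lit 0) (nat_lit 0) (XT.nd (nat_lit 390) (nat_lit 76) (nat_lit 0) (XT.nd (nat_lit 156) (nat_lit 76) (nat_lit 0) (XT.nd (nat_lit 78) (nat_lit 76) (nat_lit 0) (XT.lf (nat_lit 0) (nat_lit 19918948626) (nat_lit 76) (nat_lit 39710084843) (nat_lit 76) (nat_lit 4452593004) (nat_lit 8) (nat_lit 4) (nat_lit 9) (nat_lit 5) (nat_lit 9) (nat_lit 4) (nat_lit 318) (nat_lit 236) (nat_lit 166)) (XT.lf (nat_lit 0) (nat_lit 1591142800) (nat_lit 152) (nat_lit 32084527073) (nat_lit 76) (nat_lit 33368386135) (nat_lit 7) (nat_lit 5) (nat_lit 9) (nat_lit 5) (nat_lit 8) (nat_lit 4) (nat_lit 319) (nat_lit 236) (nat_lit 165))) (XT.nd (nat_lit 78) (nat_lit 76) (nat_lit 0) (XT.lf (nat_lit 0) (nat_lit 7822972361) (nat_lit 152) (nat_lit 19488251270) (nat_lit 76) (nat_lit 42842734399) (nat_lit 7)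 (nat_lit 5) (nat_lit 9) (nat_lit 5) (nat_lit 8) (nat_lit 4) (nat_lit 320) (nat_lit 236) (nat_lit 164)) (XT.nd (nat_lit 78) (nat_lit 76) (nat_lit 0) (XT.lf (nat_lit 0) (nat_lit 14344619497) (nat_lit 152) (nat_lit 6301058259) (nat_lit 76) (nat_lit 52774343347) (nat_lit 7) (nat_lit 5) (nat_lit 9) (nat_lit 5) (nat_lit 8) (nat_lit 4) (nat_lit 321) (nat_lit 236) (nat_lit 163)) (XT.lf (nat_lit 0) (nat_lit 7657882916) (nat_lit 76) (nat_lit 13587341276) (nat_lit 152) (nat_lit 55602589004) (nat_lit 6) (nat_lit 5) (nat_lit 7) (nat_lit 5) (nat_lit 8) (nat_lit 4) (nat_lit 322) (nat_lit 236) (nat_lit 162))))) (XT.nd (nat_lit 234) (nat_lit 76) (nat_lit 0) (XT.nd (nat_lit 78) (nat_lit 0) (nat_lit 0) (XT.lf (nat_lit 0) (nat_lit 22410462242) (nat_lit 76) (nat_lit 6125165257) (nat_lit 152) (nat_lit 51910035890) (nat_lit 6) (nat_lit 5) (nat_lit 7) (nat_lit 5) (nat_lit 8) (nat_lit 4) (nat_lit 323) (nat_lit 236)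 (nat_lit 161)) (XT.nd (nat_lit 78) (nat_lit 0) (nat_lit 0) (XT.lf (nat_lit 0) (nat_lit 36187705711) (nat_lit 152) (nat_lit 46373883025) (nat_lit 0) (nat_lit 1661913711) (nat_lit 6) (nat_lit 5) (nat_lit 8) (nat_lit 4) (nat_lit 6) (nat_lit 4) (nat_lit 324) (nat_lit 236) (nat_lit 160)) (XT.lf (nat_lit 0) (nat_lit 44265844919) (nat_lit 152) (nat_lit 34224377728) (nat_lit 0) (nat_lit 9698717572) (nat_lit 6) (nat_lit 5) (nat_lit 8) (nat_lit 4) (nat_lit 6) (nat_lit 4) (nat_lit 325) (nat_lit 236) (nat_lit 159)))) (XT.nd (nat_lit 78) (nat_lit 76) (nat_lit 0) (XT.lf (nat_lit 0) (nat_lit 52730399953) (nat_lit 152) (nat_lit 21498879025) (nat_lit 0) (nat_lit 18123905608) (nat_lit 6) (nat_lit 5) (nat_lit 8) (nat_lit 4) (nat_lit 6) (nat_lit 4) (nat_lit 326) (nat_lit 236) (nat_lit 158)) (XT.nd (nat_lit 78) (nat_lit 76) (nat_lit 0) (XT.lf (nat_lit 0) (nat_lit 61601524515) (nat_lit 152) (nat_lit 8167088113)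 (nat_lit 0) (nat_lit 26957537792) (nat_lit 6) (nat_lit 5) (nat_lit 8) (nat_lit 4) (nat_lit 6) (nat_lit 4) (nat_lit 327) (nat_lit 236) (nat_lit 157)) (XT.lf (nat_lit 0) (nat_lit 5918223221) (nat_lit 76) (nat_lit 65039006691) (nat_lit 76) (nat_lit 30359312941) (nat_lit 5) (nat_lit 4) (nat_lit 6) (nat_lit 5) (nat_lit 6) (nat_lit 4) (nat_lit 328) (nat_lit 236) (nat_lit 156)))))) (XT.nd (nat_lit 31200) (nat_lit 0) (nat_lit 15656) (XT.nd (nat_lit 234) (nat_lit 0) (nat_lit 0) (XT.nd (nat_lit 78) (nat_lit 0) (nat_lit 0) (XT.lf (nat_lit 0) (nat_lit 20850731790) (nat_lit 76) (nat_lit 59998685635) (nat_lit 76) (nat_lit 25284985193) (nat_lit 5) (nat_lit 4) (nat_lit 6) (nat_lit 5) (nat_lit 6) (nat_lit 4) (nat_lit 329) (nat_lit 236) (nat_lit 155)) (XT.nd (nat_lit 78) (nat_lit 0) (nat_lit 0) (XT.lf (nat_lit 0) (nat_lit 36503450118) (nat_lit 76) (nat_lit 54718120273) (nat_lit 76) (nat_lit 19972032505) (nat_lit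 5) (nat_lit 4) (nat_lit 6) (nat_lit 5) (nat_lit 6) (nat_lit 4) (nat_lit 330) (nat_lit 236) (nat_lit 154)) (XT.lf (nat_lit 0) (nat_lit 52913646582) (nat_lit 76) (nat_lit 49184737830) (nat_lit 76) (nat_lit 14407804989) (nat_lit 5) (nat_lit 4) (nat_lit 6) (nat_lit 5) (nat_lit 6) (nat_lit 4) (nat_lit 331) (nat_lit 236) (nat_lit 153)))) (XT.nd (nat_lit 30810) (nat_lit 0) (nat_lit 19836) (XT.lf (nat_lit 0) (nat_lit 70120393078) (nat_lit 76) (nat_lit 43385363585) (nat_lit 76) (nat_lit 8579054484) (nat_lit 5) (nat_lit 4) (nat_lit 6) (nat_lit 5) (nat_lit 6) (nat_lit 4) (nat_lit 332) (nat_lit 236) (nat_lit 152)) (XT.nd (nat_lit 78) (nat_lit 456) (nat_lit 0) (XT.lf (nat_lit 0) (nat_lit 1407725915) (nat_lit 380) (nat_lit 461721749) (nat_lit 0) (nat_lit 1407725915) (nat_lit 272) (nat_lit 5) (nat_lit 277) (nat_lit 4) (nat_lit 272) (nat_lit 4) (nat_lit 246) (nat_lit 237) (nat_lit 237)) (XT.lf (nat_lit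 0) (nat_lit 1012102242) (nat_lit 456) (nat_lit 1650773902) (nat_lit 76) (nat_lit 3933595017) (nat_lit 266) (nat_lit 5) (nat_lit 272) (nat_lit 5) (nat_lit 267) (nat_lit 4) (nat_lit 247) (nat_lit 237) (nat_lit 236))))) (XT.nd (nat_lit 234) (nat_lit 2432) (nat_lit 0) (XT.nd (nat_lit 78) (nat_lit 1292) (nat_lit 0) (XT.lf (nat_lit 0) (nat_lit 4340529522) (nat_lit 456) (nat_lit 1361326438) (nat_lit 532) (nat_lit 945246945) (nat_lit 260) (nat_lit 5) (nat_lit 266) (nat_lit 5) (nat_lit 267) (nat_lit 4) (nat_lit 248) (nat_lit 237) (nat_lit 235)) (XT.nd (nat_lit 78) (nat_lit 684) (nat_lit 0) (XT.lf (nat_lit 0) (nat_lit 3638940189) (nat_lit 608) (nat_lit 2899448505) (nat_lit 76) (nat_lit 167856591) (nat_lit 252) (nat_lit 5) (nat_lit 260) (nat_lit 5) (nat_lit 253) (nat_lit 4) (nat_lit 249) (nat_lit 237) (nat_lit 234)) (XT.lf (nat_lit 0) (nat_lit 1445554617) (nat_lit 684) (nat_lit 3437794824) (nat_lit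 76) (nat_lit 1890577206) (nat_lit 243) (nat_lit 5) (nat_lit 252) (nat_lit 5) (nat_lit 244) (nat_lit 5) (nat_lit 250) (nat_lit 237) (nat_lit 233)))) (XT.nd (nat_lit 78) (nat_lit 1748) (nat_lit 0) (XT.lf (nat_lit 0) (nat_lit 2928367621) (nat_lit 684) (nat_lit 3004044783) (nat_lit 760) (nat_lit 918021673) (nat_lit 234) (nat_lit 5) (nat_lit 243) (nat_lit 5) (nat_lit 244) (nat_lit 5) (nat_lit 251) (nat_lit 237) (nat_lit 232)) (XT.nd (nat_lit 78) (nat_lit 912) (nat_lit 0) (XT.lf (nat_lit 0) (nat_lit 2571840763) (nat_lit 760) (nat_lit 888839755) (nat_lit 836) (nat_lit 3475060663) (nat_lit 223) (nat_lit 5) (nat_lit 233) (nat_lit 5) (nat_lit 234) (nat_lit 5) (nat_lit 252) (nat_lit 237) (nat_lit 231)) (XT.lf (nat_lit 0) (nat_lit 837732349) (nat_lit 912) (nat_lit 4767914615) (nat_lit 76) (nat_lit 1424408789) (nat_lit 211) (nat_lit 5) (nat_lit 223) (nat_lit 5) (nat_lit 212) (nat_lit 5) (nat_lit 253)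 (nat_lit 237) (nat_lit 230))))))))
noncomputable def xc44 : XT := (XT.nd (nat_lit 1716) (nat_lit 3116) (nat_lit 0) (XT.nd (nat_lit 858) (nat_lit 3876) (nat_lit 0) (XT.nd (nat_lit 390) (nat_lit 2736) (nat_lit 0) (XT.nd (nat_lit 156) (nat_lit 2736) (nat_lit 0) (XT.nd (nat_lit 78) (nat_lit 1064) (nat_lit 0) (XT.lf (nat_lit 0) (nat_lit 1978201953) (nat_lit 912) (nat_lit 3166237752) (nat_lit 988) (nat_lit 1988685362) (nat_lit 199) (nat_lit 5) (nat_lit 211) (nat_lit 5) (nat_lit 212) (nat_lit 5) (nat_lit 254) (nat_lit 237) (nat_lit 229)) (XT.lf (nat_lit 0) (nat_lit 1733397357) (nat_lit 988) (nat_lit 492903287) (nat_lit 1064) (nat_lit 5019425336) (nat_lit 185) (nat_lit 5) (nat_lit 198) (nat_lit 5) (nat_lit 199) (nat_lit 5) (nat_lit 255) (nat_lit 237) (nat_lit 228))) (XT.nd (nat_lit 78) (nat_lit 1672) (nat_lit 0) (XT.lf (nat_lit 0) (nat_lit 1498608968) (nat_lit 1064) (nat_lit 4993862400) (nat_lit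 1140) (nat_lit 874954763) (nat_lit 171) (nat_lit 5) (nat_lit 185) (nat_lit 5) (nat_lit 186) (nat_lit 5) (nat_lit 256) (nat_lit 237) (nat_lit 227)) (XT.nd (nat_lit 78) (nat_lit 532) (nat_lit 0) (XT.lf (nat_lit 0) (nat_lit 1269502649) (nat_lit 1064) (nat_lit 2010450325) (nat_lit 1140) (nat_lit 4218592610) (nat_lit 156) (nat_lit 5) (nat_lit 170) (nat_lit 5) (nat_lit 171) (nat_lit 5) (nat_lit 257) (nat_lit 237) (nat_lit 226)) (XT.lf (nat_lit 0) (nat_lit 1054578703) (nat_lit 532) (nat_lit 6456477276) (nat_lit 608) (nat_lit 128755100) (nat_lit 149) (nat_lit 5) (nat_lit 156) (nat_lit 5) (nat_lit 157) (nat_lit 5) (nat_lit 258) (nat_lit 237) (nat_lit 225))))) (XT.nd (nat_lit 234) (nat_lit 988) (nat_lit 0) (XT.nd (nat_lit 78) (nat_lit 1140) (nat_lit 0) (XT.lf (nat_lit 0) (nat_lit 803790601) (nat_lit 532) (nat_lit 3182892317) (nat_lit 608) (nat_lit 3803596531) (nat_lit 141) (nat_lit 5) (nat_lit 148)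 (nat_lit 5) (nat_lit 149) (nat_lit 5) (nat_lit 259) (nat_lit 237) (nat_lit 224)) (XT.nd (nat_lit 78) (nat_lit 532) (nat_lit 0) (XT.lf (nat_lit 0) (nat_lit 241688025) (nat_lit 608) (nat_lit 7391408567) (nat_lit 76) (nat_lit 318665315) (nat_lit 133) (nat_lit 5) (nat_lit 141) (nat_lit 5) (nat_lit 134) (nat_lit 5) (nat_lit 260) (nat_lit 237) (nat_lit 223)) (XT.lf (nat_lit 0) (nat_lit 249342982) (nat_lit 532) (nat_lit 4090645442) (nat_lit 608) (nat_lit 3782681220) (nat_lit 126) (nat_lit 5) (nat_lit 133) (nat_lit 5) (nat_lit 134) (nat_lit 5) (nat_lit 261) (nat_lit 237) (nat_lit 222)))) (XT.nd (nat_lit 78) (nat_lit 912) (nat_lit 0) (XT.lf (nat_lit 0) (nat_lit 237428220) (nat_lit 608) (nat_lit 71136323) (nat_lit 76) (nat_lit 7996705804) (nat_lit 125) (nat_lit 5) (nat_lit 133) (nat_lit 5) (nat_lit 126) (nat_lit 5) (nat_lit 262) (nat_lit 237) (nat_lit 221)) (XT.nd (nat_lit 78) (nat_lit 456) (nat_lit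 0) (XT.lf (nat_lit 0) (nat_lit 4329081927) (nat_lit 532) (nat_lit 479435210) (nat_lit 76) (nat_lit 3689217292) (nat_lit 119) (nat_lit 5) (nat_lit 126) (nat_lit 5) (nat_lit 120) (nat_lit 5) (nat_lit 263) (nat_lit 237) (nat_lit 220)) (XT.lf (nat_lit 0) (nat_lit 7778328067) (nat_lit 456) (nat_lit 766022165) (nat_lit 532) (nat_lit 158205310) (nat_lit 113) (nat_lit 5) (nat_lit 119) (nat_lit 5) (nat_lit 120) (nat_lit 5) (nat_lit 264) (nat_lit 237) (nat_lit 219)))))) (XT.nd (nat_lit 390) (nat_lit 1748) (nat_lit 0) (XT.nd (nat_lit 156) (nat_lit 1216) (nat_lit 0) (XT.nd (nat_lit 78) (nat_lit 456) (nat_lit 0) (XT.lf (nat_lit 0) (nat_lit 3929238363) (nat_lit 456) (nat_lit 1487534708) (nat_lit 76) (nat_lit 3501290984) (nat_lit 107) (nat_lit 5) (nat_lit 113) (nat_lit 5) (nat_lit 108) (nat_lit 5) (nat_lit 265) (nat_lit 237) (nat_lit 218)) (XT.lf (nat_lit 0) (nat_lit 7024325002) (nat_lit 456) (nat_lit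 1128271721) (nat_lit 532) (nat_lit 993928244) (nat_lit 101) (nat_lit 5) (nat_lit 107) (nat_lit 5) (nat_lit 108) (nat_lit 5) (nat_lit 266) (nat_lit 237) (nat_lit 217))) (XT.nd (nat_lit 78) (nat_lit 760) (nat_lit 0) (XT.lf (nat_lit 0) (nat_lit 3103320001) (nat_lit 456) (nat_lit 2897232163) (nat_lit 76) (nat_lit 3386230014) (nat_lit 95) (nat_lit 5) (nat_lit 101) (nat_lit 5) (nat_lit 96) (nat_lit 5) (nat_lit 267) (nat_lit 237) (nat_lit 216)) (XT.nd (nat_lit 78) (nat_lit 380) (nat_lit 0) (XT.lf (nat_lit 0) (nat_lit 5851841644) (nat_lit 380) (nat_lit 1481586085) (nat_lit 456) (nat_lit 2307109055) (nat_lit 90) (nat_lit 5) (nat_lit 95) (nat_lit 5) (nat_lit 96) (nat_lit 5) (nat_lit 268) (nat_lit 237) (nat_lit 215)) (XT.lf (nat_lit 0) (nat_lit 1804843777) (nat_lit 380) (nat_lit 4842725577) (nat_lit 76) (nat_lit 3259892562) (nat_lit 85) (nat_lit 5) (nat_lit 90) (nat_lit 5) (nat_lit 86) (nat_lit 5)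 (nat_lit 269) (nat_lit 237) (nat_lit 214))))) (XT.nd (nat_lit 234) (nat_lit 684) (nat_lit 0) (XT.nd (nat_lit 78) (nat_lit 684) (nat_lit 0) (XT.lf (nat_lit 0) (nat_lit 4120054069) (nat_lit 380) (nat_lit 1915716408) (nat_lit 456) (nat_lit 4152652961) (nat_lit 80) (nat_lit 5) (nat_lit 85) (nat_lit 5) (nat_lit 86) (nat_lit 5) (nat_lit 270) (nat_lit 237) (nat_lit 213)) (XT.nd (nat_lit 78) (nat_lit 380) (nat_lit 0) (XT.lf (nat_lit 0) (nat_lit 3005238034) (nat_lit 304) (nat_lit 7452597400) (nat_lit 380) (nat_lit 26408068) (nat_lit 76) (nat_lit 5) (nat_lit 80) (nat_lit 5) (nat_lit 81) (nat_lit 5) (nat_lit 271) (nat_lit 237) (nat_lit 212)) (XT.lf (nat_lit 0) (nat_lit 1666011313) (nat_lit 304) (nat_lit 2528662626) (nat_lit 380) (nat_lit 6599945516) (nat_lit 71) (nat_lit 5) (nat_lit 75) (nat_lit 5) (nat_lit 76) (nat_lit 5) (nat_lit 272) (nat_lit 237) (nat_lit 211)))) (XT.nd (nat_lit 78) (nat_lit 380)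 (nat_lit 0) (XT.lf (nat_lit 0) (nat_lit 112155112) (nat_lit 304) (nat_lit 8496410822) (nat_lit 380) (nat_lit 2512645927) (nat_lit 67) (nat_lit 5) (nat_lit 71) (nat_lit 5) (nat_lit 72) (nat_lit 5) (nat_lit 273) (nat_lit 237) (nat_lit 210)) (XT.nd (nat_lit 78) (nat_lit 304) (nat_lit 0) (XT.lf (nat_lit 0) (nat_lit 1745693208) (nat_lit 380) (nat_lit 1666785900) (nat_lit 76) (nat_lit 8051261464) (nat_lit 66) (nat_lit 5) (nat_lit 71) (nat_lit 5) (nat_lit 67) (nat_lit 5) (nat_lit 274) (nat_lit 237) (nat_lit 209)) (XT.lf (nat_lit 0) (nat_lit 6149205792) (nat_lit 380) (nat_lit 3726981226) (nat_lit 76) (nat_lit 1947089431) (nat_lit 62) (nat_lit 5) (nat_lit 67) (nat_lit 5) (nat_lit 63) (nat_lit 5) (nat_lit 275) (nat_lit 237) (nat_lit 208))))))) (XT.nd (nat_lit 858) (nat_lit 1064) (nat_lit 0) (XT.nd (nat_lit 390) (nat_lit 988) (nat_lit 0) (XT.nd (nat_lit 156) (nat_lit 532) (nat_lit 0) (XT.nd (nat_lit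 78) (nat_lit 304) (nat_lit 0) (XT.lf (nat_lit 0) (nat_lit 6108607490) (nat_lit 228) (nat_lit 4664880466) (nat_lit 304) (nat_lit 1427429744) (nat_lit 59) (nat_lit 5) (nat_lit 62) (nat_lit 5) (nat_lit 63) (nat_lit 5) (nat_lit 276) (nat_lit 237) (nat_lit 207)) (XT.lf (nat_lit 0) (nat_lit 2948722040) (nat_lit 304) (nat_lit 8799468971) (nat_lit 76) (nat_lit 849221084) (nat_lit 55) (nat_lit 5) (nat_lit 59) (nat_lit 5) (nat_lit 56) (nat_lit 5) (nat_lit 277) (nat_lit 237) (nat_lit 206))) (XT.nd (nat_lit 78) (nat_lit 304) (nat_lit 0) (XT.lf (nat_lit 0) (nat_lit 1103468732) (nat_lit 228) (nat_lit 6427863359) (nat_lit 304) (nat_lit 5481588886) (nat_lit 52) (nat_lit 5) (nat_lit 55) (nat_lit 5) (nat_lit 56) (nat_lit 5) (nat_lit 278) (nat_lit 237) (nat_lit 205)) (XT.nd (nat_lit 78) (nat_lit 304) (nat_lit 0) (XT.lf (nat_lit 0) (nat_lit 11535731690) (nat_lit 228) (nat_lit 797314008) (nat_lit 304) (nat_lit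 1116583194) (nat_lit 52) (nat_lit 5) (nat_lit 55) (nat_lit 5) (nat_lit 56) (nat_lit 5) (nat_lit 279) (nat_lit 237) (nat_lit 204)) (XT.lf (nat_lit 0) (nat_lit 3434383598) (nat_lit 304) (nat_lit 5386833596) (nat_lit 76) (nat_lit 5085008082) (nat_lit 48) (nat_lit 5) (nat_lit 52) (nat_lit 5) (nat_lit 49) (nat_lit 5) (nat_lit 280) (nat_lit 237) (nat_lit 203))))) (XT.nd (nat_lit 234) (nat_lit 456) (nat_lit 0) (XT.nd (nat_lit 78) (nat_lit 304) (nat_lit 0) (XT.lf (nat_lit 0) (nat_lit 5065678126) (nat_lit 228) (nat_lit 3106912068) (nat_lit 304) (nat_lit 6213354225) (nat_lit 45) (nat_lit 5) (nat_lit 48) (nat_lit 5) (nat_lit 49) (nat_lit 5) (nat_lit 281) (nat_lit 237) (nat_lit 202)) (XT.nd (nat_lit 78) (nat_lit 76) (nat_lit 0) (XT.lf (nat_lit 0) (nat_lit 1117637017) (nat_lit 228) (nat_lit 12033240463) (nat_lit 304) (nat_lit 1738779904) (nat_lit 42) (nat_lit 5) (nat_lit 45) (nat_lit 5) (nat_lit 46)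 (nat_lit 5) (nat_lit 282) (nat_lit 237) (nat_lit 201)) (XT.lf (nat_lit 0) (nat_lit 2940701981) (nat_lit 304) (nat_lit 3343269872) (nat_lit 76) (nat_lit 9132657999) (nat_lit 41) (nat_lit 5) (nat_lit 45) (nat_lit 5) (nat_lit 42) (nat_lit 5) (nat_lit 283) (nat_lit 237) (nat_lit 200)))) (XT.nd (nat_lit 78) (nat_lit 304) (nat_lit 0) (XT.lf (nat_lit 0) (nat_lit 7605360637) (nat_lit 152) (nat_lit 201208952) (nat_lit 228) (nat_lit 8163304399) (nat_lit 39) (nat_lit 5) (nat_lit 41) (nat_lit 5) (nat_lit 42) (nat_lit 5) (nat_lit 284) (nat_lit 237) (nat_lit 199)) (XT.nd (nat_lit 78) (nat_lit 76) (nat_lit 0) (XT.lf (nat_lit 0) (nat_lit 2479391567) (nat_lit 228) (nat_lit 10471689323) (nat_lit 304) (nat_lit 3598725292) (nat_lit 36) (nat_lit 5) (nat_lit 39) (nat_lit 5) (nat_lit 40) (nat_lit 5) (nat_lit 285) (nat_lit 237) (nat_lit 198)) (XT.lf (nat_lit 0) (nat_lit 1178914986) (nat_lit 304) (nat_lit 3258897955)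 (nat_lit 76) (nat_lit 12720413559) (nat_lit 35) (nat_lit 5) (nat_lit 39) (nat_lit 5) (nat_lit 36) (nat_lit 5) (nat_lit 286) (nat_lit 237) (nat_lit 197)))))) (XT.nd (nat_lit 390) (nat_lit 532) (nat_lit 0) (XT.nd (nat_lit 156) (nat_lit 228) (nat_lit 0) (XT.nd (nat_lit 78) (nat_lit 152) (nat_lit 0) (XT.lf (nat_lit 0) (nat_lit 6141418669) (nat_lit 228) (nat_lit 9722727589) (nat_lit 76) (nat_lit 1931316442) (nat_lit 33) (nat_lit 5) (nat_lit 36) (nat_lit 5) (nat_lit 34) (nat_lit 5) (nat_lit 287) (nat_lit 237) (nat_lit 196)) (XT.lf (nat_lit 0) (nat_lit 1437515113) (nat_lit 152) (nat_lit 9932111438) (nat_lit 228) (nat_lit 7094479218) (nat_lit 31) (nat_lit 5) (nat_lit 33) (nat_lit 5) (nat_lit 34) (nat_lit 5) (nat_lit 288) (nat_lit 237) (nat_lit 195))) (XT.nd (nat_lit 78) (nat_lit 228) (nat_lit 0) (XT.lf (nat_lit 0) (nat_lit 13241503352) (nat_lit 152) (nat_lit 3645355812) (nat_lit 228) (nat_lit 2278562378)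 (nat_lit 31) (nat_lit 5) (nat_lit 33) (nat_lit 5) (nat_lit 34) (nat_lit 5) (nat_lit 289) (nat_lit 237) (nat_lit 194)) (XT.nd (nat_lit 78) (nat_lit 0) (nat_lit 0) (XT.lf (nat_lit 0) (nat_lit 2737812541) (nat_lit 228) (nat_lit 14225105854) (nat_lit 76) (nat_lit 2937731115) (nat_lit 28) (nat_lit 5) (nat_lit 31) (nat_lit 5) (nat_lit 29) (nat_lit 5) (nat_lit 290) (nat_lit 237) (nat_lit 193)) (XT.lf (nat_lit 0) (nat_lit 7988784974) (nat_lit 228) (nat_lit 2864165570) (nat_lit 76) (nat_lit 9818145187) (nat_lit 28) (nat_lit 5) (nat_lit 31) (nat_lit 5) (nat_lit 29) (nat_lit 5) (nat_lit 291) (nat_lit 237) (nat_lit 192))))) (XT.nd (nat_lit 234) (nat_lit 152) (nat_lit 0) (XT.nd (nat_lit 78) (nat_lit 228) (nat_lit 0) (XT.lf (nat_lit 0) (nat_lit 9136700342) (nat_lit 152) (nat_lit 4388753360) (nat_lit 228) (nat_lit 7953973984) (nat_lit 26) (nat_lit 5) (nat_lit 28) (nat_lit 5) (nat_lit 29) (nat_lit 5) (nat_lit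 292) (nat_lit 237) (nat_lit 191)) (XT.nd (nat_lit 78) (nat_lit 228) (nat_lit 0) (XT.lf (nat_lit 0) (nat_lit 19328803835) (nat_lit 228) (nat_lit 658080856) (nat_lit 76) (nat_lit 2341651208) (nat_lit 26) (nat_lit 5) (nat_lit 29) (nat_lit 5) (nat_lit 27) (nat_lit 4) (nat_lit 293) (nat_lit 237) (nat_lit 190)) (XT.lf (nat_lit 0) (nat_lit 2256883233) (nat_lit 228) (nat_lit 11544574272) (nat_lit 76) (nat_lit 9415128850) (nat_lit 23) (nat_lit 5) (nat_lit 26) (nat_lit 5) (nat_lit 24) (nat_lit 5) (nat_lit 294) (nat_lit 237) (nat_lit 189)))) (XT.nd (nat_lit 78) (nat_lit 0) (nat_lit 0) (XT.lf (nat_lit 0) (nat_lit 361985643) (nat_lit 152) (nat_lit 7304516089) (nat_lit 228) (nat_lit 16483128769) (nat_lit 21) (nat_lit 5) (nat_lit 23) (nat_lit 5) (nat_lit 24) (nat_lit 5) (nat_lit 295) (nat_lit 237) (nat_lit 188)) (XT.nd (nat_lit 78) (nat_lit 0) (nat_lit 0) (XT.lf (nat_lit 0) (nat_lit 13009678364) (nat_lit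 152) (nat_lit 398954857) (nat_lit 228) (nat_lit 11718878879) (nat_lit 21) (nat_lit 5) (nat_lit 23) (nat_lit 5) (nat_lit 24) (nat_lit 5) (nat_lit 296) (nat_lit 237) (nat_lit 187)) (XT.lf (nat_lit 0) (nat_lit 19449278161) (nat_lit 228) (nat_lit 22607945) (nat_lit 76) (nat_lit 6682103477) (nat_lit 21) (nat_lit 5) (nat_lit 24) (nat_lit 5) (nat_lit 22) (nat_lit 4) (nat_lit 297) (nat_lit 237) (nat_lit 186))))))))
noncomputable def xc45 : XT := (XT.nd (nat_lit 1716) (nat_lit 228) (nat_lit 0) (XT.nd (nat_lit 858) (nat_lit 304) (nat_lit 0) (XT.nd (nat_lit 390) (nat_lit 304) (nat_lit 0) (XT.nd (nat_lit 156) (nat_lit 228) (nat_lit 0) (XT.nd (nat_lit 78) (nat_lit 76) (nat_lit 0) (XT.lf (nat_lit 0) (nat_lit 12836008788) (nat_lit 76) (nat_lit 13031496466) (nat_lit 152) (nat_lit 1362061100) (nat_lit 20) (nat_lit 5) (nat_lit 21) (nat_lit 5) (nat_lit 22) (nat_lit 4) (nat_lit 298) (nat_lit 237) (nat_lit 185))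 (XT.lf (nat_lit 0) (nat_lit 4114317446) (nat_lit 152) (nat_lit 2148071998) (nat_lit 76) (nat_lit 22096861804) (nat_lit 19) (nat_lit 5) (nat_lit 21) (nat_lit 5) (nat_lit 20) (nat_lit 5) (nat_lit 299) (nat_lit 237) (nat_lit 184))) (XT.nd (nat_lit 78) (nat_lit 76) (nat_lit 0) (XT.lf (nat_lit 0) (nat_lit 9901293662) (nat_lit 228) (nat_lit 18727404119) (nat_lit 76) (nat_lit 914406492) (nat_lit 17) (nat_lit 5) (nat_lit 20) (nat_lit 5) (nat_lit 18) (nat_lit 4) (nat_lit 300) (nat_lit 237) (nat_lit 183)) (XT.nd (nat_lit 78) (nat_lit 76) (nat_lit 0) (XT.lf (nat_lit 0) (nat_lit 16016039434) (nat_lit 228) (nat_lit 6457367615) (nat_lit 76) (nat_lit 8311625431) (nat_lit 17) (nat_lit 5) (nat_lit 20) (nat_lit 5) (nat_lit 18) (nat_lit 4) (nat_lit 301) (nat_lit 237) (nat_lit 182)) (XT.lf (nat_lit 0) (nat_lit 6475382470) (nat_lit 76) (nat_lit 15978510589) (nat_lit 152) (nat_lit 9634676398) (nat_lit 16) (nat_lit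 5) (nat_lit 17) (nat_lit 5) (nat_lit 18) (nat_lit 4) (nat_lit 302) (nat_lit 237) (nat_lit 181))))) (XT.nd (nat_lit 234) (nat_lit 76) (nat_lit 0) (XT.nd (nat_lit 78) (nat_lit 228) (nat_lit 0) (XT.lf (nat_lit 0) (nat_lit 20114775155) (nat_lit 76) (nat_lit 9121878915) (nat_lit 152) (nat_lit 4219970656) (nat_lit 16) (nat_lit 5) (nat_lit 17) (nat_lit 5) (nat_lit 18) (nat_lit 4) (nat_lit 303) (nat_lit 237) (nat_lit 180)) (XT.nd (nat_lit 78) (nat_lit 152) (nat_lit 0) (XT.lf (nat_lit 0) (nat_lit 1395045443) (nat_lit 152) (nat_lit 543260797) (nat_lit 76) (nat_lit 32955638238) (nat_lit 15) (nat_lit 5) (nat_lit 17) (nat_lit 5) (nat_lit 16) (nat_lit 5) (nat_lit 304) (nat_lit 237) (nat_lit 179)) (XT.lf (nat_lit 0) (nat_lit 7345101463) (nat_lit 228) (nat_lit 23416273953) (nat_lit 76) (nat_lit 5636282485) (nat_lit 13) (nat_lit 5) (nat_lit 16) (nat_lit 5) (nat_lit 14) (nat_lit 4) (nat_lit 305) (nat_lit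 237) (nat_lit 178)))) (XT.nd (nat_lit 78) (nat_lit 76) (nat_lit 0) (XT.lf (nat_lit 0) (nat_lit 13579018613) (nat_lit 228) (nat_lit 10870124918) (nat_lit 76) (nat_lit 13527849455) (nat_lit 13) (nat_lit 5) (nat_lit 16) (nat_lit 5) (nat_lit 14) (nat_lit 4) (nat_lit 306) (nat_lit 237) (nat_lit 177)) (XT.nd (nat_lit 78) (nat_lit 0) (nat_lit 0) (XT.lf (nat_lit 0) (nat_lit 2283383835) (nat_lit 76) (nat_lit 17826193994) (nat_lit 152) (nat_lit 19526194075) (nat_lit 12) (nat_lit 5) (nat_lit 13) (nat_lit 5) (nat_lit 14) (nat_lit 4) (nat_lit 307) (nat_lit 237) (nat_lit 176)) (XT.lf (nat_lit 0) (nat_lit 16259065907) (nat_lit 76) (nat_lit 10783654137) (nat_lit 152) (nat_lit 14332512327) (nat_lit 12) (nat_lit 5) (nat_lit 13) (nat_lit 5) (nat_lit 14) (nat_lit 4) (nat_lit 308) (nat_lit 237) (nat_lit 175)))))) (XT.nd (nat_lit 390) (nat_lit 152) (nat_lit 0) (XT.nd (nat_lit 156) (nat_lit 76) (nat_lit 0) (XT.nd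 (nat_lit 78) (nat_lit 76) (nat_lit 0) (XT.lf (nat_lit 0) (nat_lit 30873859931) (nat_lit 76) (nat_lit 3414522956) (nat_lit 152) (nat_lit 8914330168) (nat_lit 12) (nat_lit 5) (nat_lit 13) (nat_lit 5) (nat_lit 14) (nat_lit 4) (nat_lit 309) (nat_lit 237) (nat_lit 174)) (XT.lf (nat_lit 0) (nat_lit 1018551372) (nat_lit 76) (nat_lit 40896379671) (nat_lit 76) (nat_lit 3206100665) (nat_lit 11) (nat_lit 4) (nat_lit 12) (nat_lit 5) (nat_lit 12) (nat_lit 4) (nat_lit 310) (nat_lit 237) (nat_lit 173))) (XT.nd (nat_lit 78) (nat_lit 0) (nat_lit 0) (XT.lf (nat_lit 0) (nat_lit 2863722380) (nat_lit 152) (nat_lit 31959613323) (nat_lit 76) (nat_lit 12307229754) (nat_lit 10) (nat_lit 5) (nat_lit 12) (nat_lit 5) (nat_lit 11) (nat_lit 4) (nat_lit 311) (nat_lit 237) (nat_lit 172)) (XT.nd (nat_lit 78) (nat_lit 0) (nat_lit 0) (XT.lf (nat_lit 0) (nat_lit 9140814607) (nat_lit 152) (nat_lit 19295869197) (nat_lit 76)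 (nat_lit 20803856602) (nat_lit 10) (nat_lit 5) (nat_lit 12) (nat_lit 5) (nat_lit 11) (nat_lit 4) (nat_lit 312) (nat_lit 237) (nat_lit 171)) (XT.lf (nat_lit 0) (nat_lit 15702684044) (nat_lit 152) (nat_lit 6050277186) (nat_lit 76) (nat_lit 29703943643) (nat_lit 10) (nat_lit 5) (nat_lit 12) (nat_lit 5) (nat_lit 11) (nat_lit 4) (nat_lit 313) (nat_lit 237) (nat_lit 170))))) (XT.nd (nat_lit 234) (nat_lit 76) (nat_lit 0) (XT.nd (nat_lit 78) (nat_lit 0) (nat_lit 0) (XT.lf (nat_lit 0) (nat_lit 7964108270) (nat_lit 76) (nat_lit 14677401800) (nat_lit 152) (nat_lit 31141129172) (nat_lit 9) (nat_lit 5) (nat_lit 10) (nat_lit 5) (nat_lit 11) (nat_lit 4) (nat_lit 314) (nat_lit 237) (nat_lit 169)) (XT.nd (nat_lit 78) (nat_lit 0) (nat_lit 0) (XT.lf (nat_lit 0) (nat_lit 22758152961) (nat_lit 76) (nat_lit 7204576112) (nat_lit 152) (nat_lit 26260884442) (nat_lit 9) (nat_lit 5) (nat_lit 10) (nat_lit 5) (nat_lit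 11) (nat_lit 4) (nat_lit 315) (nat_lit 237) (nat_lit 168)) (XT.lf (nat_lit 0) (nat_lit 37630437167) (nat_lit 152) (nat_lit 20546731693) (nat_lit 0) (nat_lit 610070735) (nat_lit 9) (nat_lit 5) (nat_lit 11) (nat_lit 4) (nat_lit 9) (nat_lit 4) (nat_lit 316) (nat_lit 237) (nat_lit 167)))) (XT.nd (nat_lit 78) (nat_lit 76) (nat_lit 0) (XT.lf (nat_lit 0) (nat_lit 45729731906) (nat_lit 152) (nat_lit 7098426614) (nat_lit 0) (nat_lit 8649457600) (nat_lit 9) (nat_lit 5) (nat_lit 11) (nat_lit 4) (nat_lit 9) (nat_lit 4) (nat_lit 317) (nat_lit 237) (nat_lit 166)) (XT.nd (nat_lit 78) (nat_lit 0) (nat_lit 0) (XT.lf (nat_lit 0) (nat_lit 7119659446) (nat_lit 76) (nat_lit 47159421608) (nat_lit 76) (nat_lit 10022092184) (nat_lit 8) (nat_lit 4) (nat_lit 9) (nat_lit 5) (nat_lit 9) (nat_lit 4) (nat_lit 318) (nat_lit 237) (nat_lit 165)) (XT.lf (nat_lit 0) (nat_lit 22156613015) (nat_lit 76) (nat_lit 41149731594)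 (nat_lit 76) (nat_lit 3958063962) (nat_lit 8) (nat_lit 4) (nat_lit 9) (nat_lit 5) (nat_lit 9) (nat_lit 4) (nat_lit 319) (nat_lit 237) (nat_lit 164))))))) (XT.nd (nat_lit 858) (nat_lit 0) (nat_lit 0) (XT.nd (nat_lit 390) (nat_lit 76) (nat_lit 0) (XT.nd (nat_lit 156) (nat_lit 76) (nat_lit 0) (XT.nd (nat_lit 78) (nat_lit 0) (nat_lit 0) (XT.lf (nat_lit 0) (nat_lit 2340380266) (nat_lit 152) (nat_lit 32492446364) (nat_lit 76) (nat_lit 35542950237) (nat_lit 7) (nat_lit 5) (nat_lit 9) (nat_lit 5) (nat_lit 8) (nat_lit 4) (nat_lit 320) (nat_lit 237) (nat_lit 163)) (XT.lf (nat_lit 0) (nat_lit 8851911766) (nat_lit 152) (nat_lit 19323323774) (nat_lit 76) (nat_lit 45466913781) (nat_lit 7) (nat_lit 5) (nat_lit 9) (nat_lit 5) (nat_lit 8) (nat_lit 4) (nat_lit 321) (nat_lit 237) (nat_lit 162))) (XT.nd (nat_lit 78) (nat_lit 76) (nat_lit 0) (XT.lf (nat_lit 0) (nat_lit 15669270269) (nat_lit 152) (nat_lit 5531025401)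 (nat_lit 76) (nat_lit 55872148764) (nat_lit 7) (nat_lit 5) (nat_lit 9) (nat_lit 5) (nat_lit 8) (nat_lit 4) (nat_lit 322) (nat_lit 237) (nat_lit 161)) (XT.nd (nat_lit 78) (nat_lit 0) (nat_lit 0) (XT.lf (nat_lit 0) (nat_lit 9094759067) (nat_lit 76) (nat_lit 13801352899) (nat_lit 152) (nat_lit 57776094873) (nat_lit 6) (nat_lit 5) (nat_lit 7) (nat_lit 5) (nat_lit 8) (nat_lit 4) (nat_lit 323) (nat_lit 237) (nat_lit 160)) (XT.lf (nat_lit 0) (nat_lit 24534777740) (nat_lit 76) (nat_lit 5988227862) (nat_lit 152) (nat_lit 53927800941) (nat_lit 6) (nat_lit 5) (nat_lit 7) (nat_lit 5) (nat_lit 8) (nat_lit 4) (nat_lit 324) (nat_lit 237) (nat_lit 159))))) (XT.nd (nat_lit 234) (nat_lit 76) (nat_lit 0) (XT.nd (nat_lit 78) (nat_lit 0) (nat_lit 0) (XT.lf (nat_lit 0) (nat_lit 38535050040) (nat_lit 152) (nat_lit 47724318002) (nat_lit 0) (nat_lit 2158863981) (nat_lit 6) (nat_lit 5) (nat_lit 8) (nat_lit 4) (nat_lit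 6) (nat_lit 4) (nat_lit 325) (nat_lit 237) (nat_lit 158)) (XT.nd (nat_lit 78) (nat_lit 0) (nat_lit 0) (XT.lf (nat_lit 0) (nat_lit 46991479111) (nat_lit 152) (nat_lit 35013445019) (nat_lit 0) (nat_lit 10577800674) (nat_lit 6) (nat_lit 5) (nat_lit 8) (nat_lit 4) (nat_lit 6) (nat_lit 4) (nat_lit 326) (nat_lit 237) (nat_lit 157)) (XT.lf (nat_lit 0) (nat_lit 55854864661) (nat_lit 152) (nat_lit 21695583362) (nat_lit 0) (nat_lit 19405479197) (nat_lit 6) (nat_lit 5) (nat_lit 8) (nat_lit 4) (nat_lit 6) (nat_lit 4) (nat_lit 327) (nat_lit 237) (nat_lit 156)))) (XT.nd (nat_lit 78) (nat_lit 76) (nat_lit 0) (XT.lf (nat_lit 0) (nat_lit 65146309989) (nat_lit 152) (nat_lit 7739023838) (nat_lit 0) (nat_lit 28662917832) (nat_lit 6) (nat_lit 5) (nat_lit 8) (nat_lit 4) (nat_lit 6) (nat_lit 4) (nat_lit 328) (nat_lit 237) (nat_lit 155)) (XT.nd (nat_lit 78) (nat_lit 0) (nat_lit 0) (XT.lf (nat_lit 0) (nat_lit 7026577289)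 (nat_lit 76) (nat_lit 67928904053) (nat_lit 76) (nat_lit 31413124570) (nat_lit 5) (nat_lit 4) (nat_lit 6) (nat_lit 5) (nat_lit 6) (nat_lit 4) (nat_lit 329) (nat_lit 237) (nat_lit 154)) (XT.lf (nat_lit 0) (nat_lit 22667023529) (nat_lit 76) (nat_lit 62653807563) (nat_lit 76) (nat_lit 26107183007) (nat_lit 5) (nat_lit 4) (nat_lit 6) (nat_lit 5) (nat_lit 6) (nat_lit 4) (nat_lit 330) (nat_lit 237) (nat_lit 153)))))) (XT.nd (nat_lit 31044) (nat_lit 0) (nat_lit 15656) (XT.nd (nat_lit 30810) (nat_lit 0) (nat_lit 19836) (XT.nd (nat_lit 78) (nat_lit 0) (nat_lit 0) (XT.lf (nat_lit 0) (nat_lit 39065532290) (nat_lit 76) (nat_lit 57125633568) (nat_lit 76) (nat_lit 20549632753) (nat_lit 5) (nat_lit 4) (nat_lit 6) (nat_lit 5) (nat_lit 6) (nat_lit 4) (nat_lit 331) (nat_lit 237) (nat_lit 152)) (XT.nd (nat_lit 30654) (nat_lit 0) (nat_lit 20672) (XT.lf (nat_lit 0) (nat_lit 56261147641) (nat_lit 76) (nat_lit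 51331219751) (nat_lit 76) (nat_lit 14727241546) (nat_lit 5) (nat_lit 4) (nat_lit 6) (nat_lit 5) (nat_lit 6) (nat_lit 4) (nat_lit 332) (nat_lit 237) (nat_lit 151)) (XT.lf (nat_lit 0) (nat_lit 456751846) (nat_lit 228) (nat_lit 1394518006) (nat_lit 228) (nat_lit 1394518006) (nat_lit 277) (nat_lit 4) (nat_lit 280) (nat_lit 5) (nat_lit 280) (nat_lit 4) (nat_lit 244) (nat_lit 238) (nat_lit 238)))) (XT.nd (nat_lit 78) (nat_lit 760) (nat_lit 0) (XT.lf (nat_lit 0) (nat_lit 1919536223) (nat_lit 304) (nat_lit 110668248) (nat_lit 76) (nat_lit 4490700589) (nat_lit 276) (nat_lit 5) (nat_lit 280) (nat_lit 5) (nat_lit 277) (nat_lit 4) (nat_lit 245) (nat_lit 238) (nat_lit 237)) (XT.nd (nat_lit 78) (nat_lit 380) (nat_lit 0) (XT.lf (nat_lit 0) (nat_lit 19763540) (nat_lit 380) (nat_lit 1027721556) (nat_lit 76) (nat_lit 5511132613) (nat_lit 271) (nat_lit 5) (nat_lit 276) (nat_lit 5) (nat_lit 272) (nat_lit 5)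 (nat_lit 246) (nat_lit 238) (nat_lit 236)) (XT.lf (nat_lit 0) (nat_lit 4553280551) (nat_lit 456) (nat_lit 1881687084) (nat_lit 76) (nat_lit 169454948) (nat_lit 266) (nat_lit 5) (nat_lit 272) (nat_lit 5) (nat_lit 267) (nat_lit 4) (nat_lit 247) (nat_lit 238) (nat_lit 235))))) (XT.nd (nat_lit 234) (nat_lit 2432) (nat_lit 0) (XT.nd (nat_lit 78) (nat_lit 1216) (nat_lit 0) (XT.lf (nat_lit 0) (nat_lit 2405582837) (nat_lit 532) (nat_lit 2669618725) (nat_lit 76) (nat_lit 1583454878) (nat_lit 259) (nat_lit 5) (nat_lit 266) (nat_lit 5) (nat_lit 260) (nat_lit 5) (nat_lit 248) (nat_lit 238) (nat_lit 234)) (XT.nd (nat_lit 78) (nat_lit 608) (nat_lit 0) (XT.lf (nat_lit 0) (nat_lit 117581106) (nat_lit 608) (nat_lit 3385935231) (nat_lit 76) (nat_lit 3218236690) (nat_lit 251) (nat_lit 5) (nat_lit 259) (nat_lit 5) (nat_lit 252) (nat_lit 5) (nat_lit 249) (nat_lit 238) (nat_lit 233)) (XT.lf (nat_lit 0) (nat_lit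 2735188501) (nat_lit 608) (nat_lit 1692642477) (nat_lit 684) (nat_lit 2365346332) (nat_lit 243) (nat_lit 5) (nat_lit 251) (nat_lit 5) (nat_lit 252) (nat_lit 5) (nat_lit 250) (nat_lit 238) (nat_lit 232)))) (XT.nd (nat_lit 78) (nat_lit 1672) (nat_lit 0) (XT.lf (nat_lit 0) (nat_lit 1865528240) (nat_lit 760) (nat_lit 4673596362) (nat_lit 76) (nat_lit 334476326) (nat_lit 233) (nat_lit 5) (nat_lit 243) (nat_lit 5) (nat_lit 234) (nat_lit 5) (nat_lit 251) (nat_lit 238) (nat_lit 231)) (XT.nd (nat_lit 78) (nat_lit 912) (nat_lit 0) (XT.lf (nat_lit 0) (nat_lit 1702879363) (nat_lit 760) (nat_lit 4403504038) (nat_lit 836) (nat_lit 856161519) (nat_lit 223) (nat_lit 5) (nat_lit 233) (nat_lit 5) (nat_lit 234) (nat_lit 5) (nat_lit 252) (nat_lit 238) (nat_lit 230)) (XT.lf (nat_lit 0) (nat_lit 1243973833) (nat_lit 836) (nat_lit 2029196511) (nat_lit 912) (nat_lit 3787185374) (nat_lit 211) (nat_lit 5) (nat_lit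 222) (nat_lit 5) (nat_lit 223) (nat_lit 5) (nat_lit 253) (nat_lit 238) (nat_lit 229))))))))
noncomputable def xc46 : XT := (XT.nd (nat_lit 1716) (nat_lit 3116) (nat_lit 0) (XT.nd (nat_lit 858) (nat_lit 3800) (nat_lit 0) (XT.nd (nat_lit 390) (nat_lit 3268) (nat_lit 0) (XT.nd (nat_lit 156) (nat_lit 2280) (nat_lit 0) (XT.nd (nat_lit 78) (nat_lit 988) (nat_lit 0) (XT.lf (nat_lit 0) (nat_lit 272224443) (nat_lit 988) (nat_lit 6335853006) (nat_lit 76) (nat_lit 559570131) (nat_lit 198) (nat_lit 5) (nat_lit 211) (nat_lit 5) (nat_lit 199) (nat_lit 5) (nat_lit 254) (nat_lit 238) (nat_lit 228)) (XT.lf (nat_lit 0) (nat_lit 415644342) (nat_lit 988) (nat_lit 3918935512) (nat_lit 1064) (nat_lit 2948757104) (nat_lit 185) (nat_lit 5) (nat_lit 198) (nat_lit 5) (nat_lit 199) (nat_lit 5) (nat_lit 255) (nat_lit 238) (nat_lit 227))) (XT.nd (nat_lit 78) (nat_lit 1140) (nat_lit 0) (XT.lf (nat_lit 0) (nat_lit 35151952)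 (nat_lit 1064) (nat_lit 1001268264) (nat_lit 1140) (nat_lit 6372579492) (nat_lit 170) (nat_lit 5) (nat_lit 184) (nat_lit 5) (nat_lit 185) (nat_lit 5) (nat_lit 256) (nat_lit 238) (nat_lit 226)) (XT.nd (nat_lit 78) (nat_lit 1140) (nat_lit 0) (XT.lf (nat_lit 0) (nat_lit 5057918955) (nat_lit 1140) (nat_lit 351113484) (nat_lit 76) (nat_lit 2134542184) (nat_lit 170) (nat_lit 5) (nat_lit 185) (nat_lit 5) (nat_lit 171) (nat_lit 5) (nat_lit 257) (nat_lit 238) (nat_lit 225)) (XT.lf (nat_lit 0) (nat_lit 1455579351) (nat_lit 1140) (nat_lit 733827246) (nat_lit 76) (nat_lit 5498691192) (nat_lit 155) (nat_lit 5) (nat_lit 170) (nat_lit 5) (nat_lit 156) (nat_lit 5) (nat_lit 258) (nat_lit 238) (nat_lit 224))))) (XT.nd (nat_lit 234) (nat_lit 1596) (nat_lit 0) (XT.nd (nat_lit 78) (nat_lit 1140) (nat_lit 0) (XT.lf (nat_lit 0) (nat_lit 5444019973) (nat_lit 608) (nat_lit 1135169809) (nat_lit 76) (nat_lit 1263265516)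 (nat_lit 148) (nat_lit 5) (nat_lit 156) (nat_lit 5) (nat_lit 149) (nat_lit 5) (nat_lit 259) (nat_lit 238) (nat_lit 223)) (XT.nd (nat_lit 78) (nat_lit 532) (nat_lit 0) (XT.lf (nat_lit 0) (nat_lit 1513536321) (nat_lit 608) (nat_lit 1565791511) (nat_lit 76) (nat_lit 4927558775) (nat_lit 140) (nat_lit 5) (nat_lit 148) (nat_lit 5) (nat_lit 141) (nat_lit 5) (nat_lit 260) (nat_lit 238) (nat_lit 222)) (XT.lf (nat_lit 0) (nat_lit 5481423824) (nat_lit 608) (nat_lit 2029565301) (nat_lit 76) (nat_lit 670886438) (nat_lit 133) (nat_lit 5) (nat_lit 141) (nat_lit 5) (nat_lit 134) (nat_lit 5) (nat_lit 261) (nat_lit 238) (nat_lit 221)))) (XT.nd (nat_lit 78) (nat_lit 988) (nat_lit 0) (XT.lf (nat_lit 0) (nat_lit 1197683587) (nat_lit 608) (nat_lit 2550506216) (nat_lit 76) (nat_lit 4619156159) (nat_lit 125) (nat_lit 5) (nat_lit 133) (nat_lit 5) (nat_lit 126) (nat_lit 5) (nat_lit 262) (nat_lit 238) (nat_lit 220))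 (XT.nd (nat_lit 78) (nat_lit 532) (nat_lit 0) (XT.lf (nat_lit 0) (nat_lit 5153875496) (nat_lit 532) (nat_lit 3127516545) (nat_lit 76) (nat_lit 282630532) (nat_lit 119) (nat_lit 5) (nat_lit 126) (nat_lit 5) (nat_lit 120) (nat_lit 5) (nat_lit 263) (nat_lit 238) (nat_lit 219)) (XT.lf (nat_lit 0) (nat_lit 486504485) (nat_lit 532) (nat_lit 3786529232) (nat_lit 76) (nat_lit 4498836777) (nat_lit 112) (nat_lit 5) (nat_lit 119) (nat_lit 5) (nat_lit 113) (nat_lit 5) (nat_lit 264) (nat_lit 238) (nat_lit 218)))))) (XT.nd (nat_lit 390) (nat_lit 1748) (nat_lit 0) (XT.nd (nat_lit 156) (nat_lit 1216) (nat_lit 0) (XT.nd (nat_lit 78) (nat_lit 456) (nat_lit 0) (XT.lf (nat_lit 0) (nat_lit 4435601039) (nat_lit 456) (nat_lit 4533074124) (nat_lit 76) (nat_lit 22846945) (nat_lit 107) (nat_lit 5) (nat_lit 113) (nat_lit 5) (nat_lit 108) (nat_lit 5) (nat_lit 265) (nat_lit 238) (nat_lit 217)) (XT.lf (nat_lit 0) (nat_lit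 3832128572) (nat_lit 456) (nat_lit 4726422811) (nat_lit 532) (nat_lit 664568568) (nat_lit 101) (nat_lit 5) (nat_lit 107) (nat_lit 5) (nat_lit 108) (nat_lit 5) (nat_lit 266) (nat_lit 238) (nat_lit 216))) (XT.nd (nat_lit 78) (nat_lit 760) (nat_lit 0) (XT.lf (nat_lit 0) (nat_lit 3101592872) (nat_lit 380) (nat_lit 190593707) (nat_lit 456) (nat_lit 6175232880) (nat_lit 95) (nat_lit 5) (nat_lit 100) (nat_lit 5) (nat_lit 101) (nat_lit 5) (nat_lit 267) (nat_lit 238) (nat_lit 215)) (XT.nd (nat_lit 78) (nat_lit 380) (nat_lit 0) (XT.lf (nat_lit 0) (nat_lit 2231482529) (nat_lit 380) (nat_lit 5188515420) (nat_lit 456) (nat_lit 2304354813) (nat_lit 90) (nat_lit 5) (nat_lit 95) (nat_lit 5) (nat_lit 96) (nat_lit 5) (nat_lit 268) (nat_lit 238) (nat_lit 214)) (XT.lf (nat_lit 0) (nat_lit 1236152635) (nat_lit 304) (nat_lit 438272563) (nat_lit 380) (nat_lit 8320947003) (nat_lit 85) (nat_lit 5) (nat_lit 89) (nat_lit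 5) (nat_lit 90) (nat_lit 5) (nat_lit 269) (nat_lit 238) (nat_lit 213))))) (XT.nd (nat_lit 234) (nat_lit 988) (nat_lit 0) (XT.nd (nat_lit 78) (nat_lit 380) (nat_lit 0) (XT.lf (nat_lit 0) (nat_lit 46913746) (nat_lit 380) (nat_lit 5753144315) (nat_lit 456) (nat_lit 4479531172) (nat_lit 80) (nat_lit 5) (nat_lit 85) (nat_lit 5) (nat_lit 86) (nat_lit 5) (nat_lit 270) (nat_lit 238) (nat_lit 212)) (XT.nd (nat_lit 78) (nat_lit 380) (nat_lit 0) (XT.lf (nat_lit 0) (nat_lit 9309841843) (nat_lit 380) (nat_lit 794215902) (nat_lit 456) (nat_lit 474985600) (nat_lit 80) (nat_lit 5) (nat_lit 85) (nat_lit 5) (nat_lit 86) (nat_lit 5) (nat_lit 271) (nat_lit 238) (nat_lit 211)) (XT.lf (nat_lit 0) (nat_lit 3660151438) (nat_lit 380) (nat_lit 2828979341) (nat_lit 76) (nat_lit 4403343981) (nat_lit 75) (nat_lit 5) (nat_lit 80) (nat_lit 5) (nat_lit 76) (nat_lit 5) (nat_lit 272) (nat_lit 238) (nat_lit 210)))) (XT.nd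 (nat_lit 78) (nat_lit 684) (nat_lit 0) (XT.lf (nat_lit 0) (nat_lit 6629018102) (nat_lit 304) (nat_lit 1334047520) (nat_lit 380) (nat_lit 3259411973) (nat_lit 71) (nat_lit 5) (nat_lit 75) (nat_lit 5) (nat_lit 76) (nat_lit 5) (nat_lit 273) (nat_lit 238) (nat_lit 209)) (XT.nd (nat_lit 78) (nat_lit 304) (nat_lit 0) (XT.lf (nat_lit 0) (nat_lit 899895363) (nat_lit 380) (nat_lit 6623867342) (nat_lit 76) (nat_lit 4044942053) (nat_lit 66) (nat_lit 5) (nat_lit 71) (nat_lit 5) (nat_lit 67) (nat_lit 5) (nat_lit 274) (nat_lit 238) (nat_lit 208)) (XT.lf (nat_lit 0) (nat_lit 2984573149) (nat_lit 304) (nat_lit 2197752621) (nat_lit 380) (nat_lit 6749618745) (nat_lit 62) (nat_lit 5) (nat_lit 66) (nat_lit 5) (nat_lit 67) (nat_lit 5) (nat_lit 275) (nat_lit 238) (nat_lit 207))))))) (XT.nd (nat_lit 858) (nat_lit 1140) (nat_lit 0) (XT.nd (nat_lit 390) (nat_lit 912) (nat_lit 0) (XT.nd (nat_lit 156) (nat_lit 760)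 (nat_lit 0) (XT.nd (nat_lit 78) (nat_lit 76) (nat_lit 0) (XT.lf (nat_lit 0) (nat_lit 730972063) (nat_lit 228) (nat_lit 8951761244) (nat_lit 304) (nat_lit 2630636711) (nat_lit 59) (nat_lit 5) (nat_lit 62) (nat_lit 5) (nat_lit 63) (nat_lit 5) (nat_lit 276) (nat_lit 238) (nat_lit 206)) (XT.lf (nat_lit 0) (nat_lit 1674216148) (nat_lit 304) (nat_lit 1818666719) (nat_lit 76) (nat_lit 9220234747) (nat_lit 58) (nat_lit 5) (nat_lit 62) (nat_lit 5) (nat_lit 59) (nat_lit 5) (nat_lit 277) (nat_lit 238) (nat_lit 205))) (XT.nd (nat_lit 78) (nat_lit 532) (nat_lit 0) (XT.lf (nat_lit 0) (nat_lit 6146260722) (nat_lit 304) (nat_lit 4724958601) (nat_lit 76) (nat_lit 2260784031) (nat_lit 55) (nat_lit 5) (nat_lit 59) (nat_lit 5) (nat_lit 56) (nat_lit 5) (nat_lit 278) (nat_lit 238) (nat_lit 204)) (XT.nd (nat_lit 78) (nat_lit 304) (nat_lit 0) (XT.lf (nat_lit 0) (nat_lit 5543719215) (nat_lit 228) (nat_lit 5311191123)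 (nat_lit 304) (nat_lit 2716649892) (nat_lit 52) (nat_lit 5) (nat_lit 55) (nat_lit 5) (nat_lit 56) (nat_lit 5) (nat_lit 279) (nat_lit 238) (nat_lit 203)) (XT.lf (nat_lit 0) (nat_lit 1715728217) (nat_lit 304) (nat_lit 11756548051) (nat_lit 76) (nat_lit 560888866) (nat_lit 48) (nat_lit 5) (nat_lit 52) (nat_lit 5) (nat_lit 49) (nat_lit 5) (nat_lit 280) (nat_lit 238) (nat_lit 202))))) (XT.nd (nat_lit 234) (nat_lit 380) (nat_lit 0) (XT.nd (nat_lit 78) (nat_lit 532) (nat_lit 0) (XT.lf (nat_lit 0) (nat_lit 6361538034) (nat_lit 304) (nat_lit 1469291720) (nat_lit 76) (nat_lit 6684876658) (nat_lit 48) (nat_lit 5) (nat_lit 52) (nat_lit 5) (nat_lit 49) (nat_lit 5) (nat_lit 281) (nat_lit 238) (nat_lit 201)) (XT.nd (nat_lit 78) (nat_lit 304) (nat_lit 0) (XT.lf (nat_lit 0) (nat_lit 9385829412) (nat_lit 228) (nat_lit 1858707563) (nat_lit 304) (nat_lit 3777788890) (nat_lit 45) (nat_lit 5) (nat_lit 48) (nat_lit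 5) (nat_lit 49) (nat_lit 5) (nat_lit 282) (nat_lit 238) (nat_lit 200)) (XT.lf (nat_lit 0) (nat_lit 826310206) (nat_lit 304) (nat_lit 10370485545) (nat_lit 76) (nat_lit 4356589959) (nat_lit 41) (nat_lit 5) (nat_lit 45) (nat_lit 5) (nat_lit 42) (nat_lit 5) (nat_lit 283) (nat_lit 238) (nat_lit 199)))) (XT.nd (nat_lit 78) (nat_lit 228) (nat_lit 0) (XT.lf (nat_lit 0) (nat_lit 375548181) (nat_lit 152) (nat_lit 5207611044) (nat_lit 228) (nat_lit 10526783305) (nat_lit 39) (nat_lit 5) (nat_lit 41) (nat_lit 5) (nat_lit 42) (nat_lit 5) (nat_lit 284) (nat_lit 238) (nat_lit 198)) (XT.nd (nat_lit 78) (nat_lit 228) (nat_lit 0) (XT.lf (nat_lit 0) (nat_lit 10617291808) (nat_lit 228) (nat_lit 4951479891) (nat_lit 76) (nat_lit 1124454509) (nat_lit 39) (nat_lit 5) (nat_lit 42) (nat_lit 5) (nat_lit 40) (nat_lit 5) (nat_lit 285) (nat_lit 238) (nat_lit 197)) (XT.lf (nat_lit 0) (nat_lit 6322825362) (nat_lit 228)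 (nat_lit 9618634376) (nat_lit 304) (nat_lit 1363142802) (nat_lit 36) (nat_lit 5) (nat_lit 39) (nat_lit 5) (nat_lit 40) (nat_lit 5) (nat_lit 286) (nat_lit 238) (nat_lit 196)))))) (XT.nd (nat_lit 390) (nat_lit 532) (nat_lit 0) (XT.nd (nat_lit 156) (nat_lit 380) (nat_lit 0) (XT.nd (nat_lit 78) (nat_lit 0) (nat_lit 0) (XT.lf (nat_lit 0) (nat_lit 170958615) (nat_lit 152) (nat_lit 3324148604) (nat_lit 228) (nat_lit 14451085558) (nat_lit 33) (nat_lit 5) (nat_lit 35) (nat_lit 5) (nat_lit 36) (nat_lit 5) (nat_lit 287) (nat_lit 238) (nat_lit 195)) (XT.lf (nat_lit 0) (nat_lit 8642741306) (nat_lit 228) (nat_lit 6667260160) (nat_lit 76) (nat_lit 3307285243) (nat_lit 33) (nat_lit 5) (nat_lit 36) (nat_lit 5) (nat_lit 34) (nat_lit 5) (nat_lit 288) (nat_lit 238) (nat_lit 194))) (XT.nd (nat_lit 78) (nat_lit 228) (nat_lit 0) (XT.lf (nat_lit 0) (nat_lit 4949475315) (nat_lit 152) (nat_lit 9111464288) (nat_lit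 228) (nat_lit 5260665957) (nat_lit 31) (nat_lit 5) (nat_lit 33) (nat_lit 5) (nat_lit 34) (nat_lit 5) (nat_lit 289) (nat_lit 238) (nat_lit 193)) (XT.nd (nat_lit 78) (nat_lit 228) (nat_lit 0) (XT.lf (nat_lit 0) (nat_lit 17179849420) (nat_lit 152) (nat_lit 2573097200) (nat_lit 228) (nat_lit 308169334) (nat_lit 31) (nat_lit 5) (nat_lit 33) (nat_lit 5) (nat_lit 34) (nat_lit 5) (nat_lit 290) (nat_lit 238) (nat_lit 192)) (XT.lf (nat_lit 0) (nat_lit 4864003856) (nat_lit 228) (nat_lit 11663564275) (nat_lit 76) (nat_lit 4306655518) (nat_lit 28) (nat_lit 5) (nat_lit 31) (nat_lit 5) (nat_lit 29) (nat_lit 5) (nat_lit 291) (nat_lit 238) (nat_lit 191))))) (XT.nd (nat_lit 234) (nat_lit 228) (nat_lit 0) (XT.nd (nat_lit 78) (nat_lit 152) (nat_lit 0) (XT.lf (nat_lit 0) (nat_lit 111756321) (nat_lit 152) (nat_lit 10172114255) (nat_lit 228) (nat_lit 11362215964) (nat_lit 26) (nat_lit 5) (nat_lit 28) (nat_lit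 5) (nat_lit 29) (nat_lit 5) (nat_lit 292) (nat_lit 238) (nat_lit 190)) (XT.nd (nat_lit 78) (nat_lit 152) (nat_lit 0) (XT.lf (nat_lit 0) (nat_lit 12621138032) (nat_lit 152) (nat_lit 3414045890) (nat_lit 228) (nat_lit 6461597531) (nat_lit 26) (nat_lit 5) (nat_lit 28) (nat_lit 5) (nat_lit 29) (nat_lit 5) (nat_lit 293) (nat_lit 238) (nat_lit 189)) (XT.lf (nat_lit 0) (nat_lit 2279925067) (nat_lit 152) (nat_lit 19794317268) (nat_lit 228) (nat_lit 1315813369) (nat_lit 24) (nat_lit 5) (nat_lit 26) (nat_lit 5) (nat_lit 27) (nat_lit 4) (nat_lit 294) (nat_lit 238) (nat_lit 188)))) (XT.nd (nat_lit 78) (nat_lit 152) (nat_lit 0) (XT.lf (nat_lit 0) (nat_lit 4088737523) (nat_lit 228) (nat_lit 9243634939) (nat_lit 76) (nat_lit 10992051695) (nat_lit 23) (nat_lit 5) (nat_lit 26) (nat_lit 5) (nat_lit 24) (nat_lit 5) (nat_lit 295) (nat_lit 238) (nat_lit 187)) (XT.nd (nat_lit 78) (nat_lit 0) (nat_lit 0) (XT.lf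 (nat_lit 0) (nat_lit 3175750862) (nat_lit 152) (nat_lit 6538102111) (nat_lit 228) (nat_lit 15591984734) (nat_lit 21) (nat_lit 5) (nat_lit 23) (nat_lit 5) (nat_lit 24) (nat_lit 5) (nat_lit 296) (nat_lit 238) (nat_lit 186)) (XT.lf (nat_lit 0) (nat_lit 15670184962) (nat_lit 228) (nat_lit 10018687016) (nat_lit 76) (nat_lit 645993045) (nat_lit 21) (nat_lit 5) (nat_lit 24) (nat_lit 5) (nat_lit 22) (nat_lit 4) (nat_lit 297) (nat_lit 238) (nat_lit 185))))))))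
noncomputable def xc47 : XT := (XT.nd (nat_lit 1716) (nat_lit 228) (nat_lit 0) (XT.nd (nat_lit 858) (nat_lit 304) (nat_lit 0) (XT.nd (nat_lit 390) (nat_lit 380) (nat_lit 0) (XT.nd (nat_lit 156) (nat_lit 152) (nat_lit 0) (XT.nd (nat_lit 78) (nat_lit 76) (nat_lit 0) (XT.lf (nat_lit 0) (nat_lit 2599376919) (nat_lit 76) (nat_lit 19366539405) (nat_lit 152) (nat_lit 5448219815) (nat_lit 20) (nat_lit 5) (nat_lit 21) (nat_lit 5) (nat_lit 22) (nat_lit 4) (nat_lit 298) (nat_lit 238) (nat_lit 184)) (XT.lf (nat_lit 0) (nat_lit 84316718) (nat_lit 152) (nat_lit 12570111978) (nat_lit 76) (nat_lit 15891296030) (nat_lit 19) (nat_lit 5) (nat_lit 21) (nat_lit 5) (nat_lit 20) (nat_lit 5) (nat_lit 299) (nat_lit 238) (nat_lit 183))) (XT.nd (nat_lit 78) (nat_lit 0) (nat_lit 0) (XT.lf (nat_lit 0) (nat_lit 156507818) (nat_lit 152) (nat_lit 5580813968) (nat_lit 228) (nat_lit 23996292247) (nat_lit 17) (nat_lit 5)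 (nat_lit 19) (nat_lit 5) (nat_lit 20) (nat_lit 5) (nat_lit 300) (nat_lit 238) (nat_lit 182)) (XT.nd (nat_lit 78) (nat_lit 0) (nat_lit 0) (XT.lf (nat_lit 0) (nat_lit 11776531228) (nat_lit 228) (nat_lit 17291055845) (nat_lit 76) (nat_lit 1910237588) (nat_lit 17) (nat_lit 5) (nat_lit 20) (nat_lit 5) (nat_lit 18) (nat_lit 4) (nat_lit 301) (nat_lit 238) (nat_lit 181)) (XT.lf (nat_lit 0) (nat_lit 18131291770) (nat_lit 228) (nat_lit 4520504110) (nat_lit 76) (nat_lit 9632074103) (nat_lit 17) (nat_lit 5) (nat_lit 20) (nat_lit 5) (nat_lit 18) (nat_lit 4) (nat_lit 302) (nat_lit 238) (nat_lit 180))))) (XT.nd (nat_lit 234) (nat_lit 76) (nat_lit 0) (XT.nd (nat_lit 78) (nat_lit 228) (nat_lit 0) (XT.lf (nat_lit 0) (nat_lit 8994108718) (nat_lit 76) (nat_lit 15855435754) (nat_lit 152) (nat_lit 8804330840) (nat_lit 16) (nat_lit 5) (nat_lit 17) (nat_lit 5) (nat_lit 18) (nat_lit 4) (nat_lit 303) (nat_lit 238)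 (nat_lit 179)) (XT.nd (nat_lit 78) (nat_lit 228) (nat_lit 0) (XT.lf (nat_lit 0) (nat_lit 23210949269) (nat_lit 76) (nat_lit 8699877276) (nat_lit 152) (nat_lit 3181369782) (nat_lit 16) (nat_lit 5) (nat_lit 17) (nat_lit 5) (nat_lit 18) (nat_lit 4) (nat_lit 304) (nat_lit 238) (nat_lit 178)) (XT.lf (nat_lit 0) (nat_lit 1473261057) (nat_lit 152) (nat_lit 1172570184) (nat_lit 228) (nat_lit 33956557040) (nat_lit 13) (nat_lit 5) (nat_lit 15) (nat_lit 5) (nat_lit 16) (nat_lit 5) (nat_lit 305) (nat_lit 238) (nat_lit 177)))) (XT.nd (nat_lit 78) (nat_lit 76) (nat_lit 0) (XT.lf (nat_lit 0) (nat_lit 8850426650) (nat_lit 228) (nat_lit 22603172472) (nat_lit 76) (nat_lit 6729016318) (nat_lit 13) (nat_lit 5) (nat_lit 16) (nat_lit 5) (nat_lit 14) (nat_lit 4) (nat_lit 306) (nat_lit 238) (nat_lit 176)) (XT.nd (nat_lit 78) (nat_lit 76) (nat_lit 0) (XT.lf (nat_lit 0) (nat_lit 15341845842) (nat_lit 228) (nat_lit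 9524188137) (nat_lit 76) (nat_lit 14976546412) (nat_lit 13) (nat_lit 5) (nat_lit 16) (nat_lit 5) (nat_lit 14) (nat_lit 4) (nat_lit 307) (nat_lit 238) (nat_lit 175)) (XT.lf (nat_lit 0) (nat_lit 4232835549) (nat_lit 76) (nat_lit 17932126172) (nat_lit 152) (nat_lit 19420391195) (nat_lit 12) (nat_lit 5) (nat_lit 13) (nat_lit 5) (nat_lit 14) (nat_lit 4) (nat_lit 308) (nat_lit 238) (nat_lit 174)))))) (XT.nd (nat_lit 390) (nat_lit 152) (nat_lit 0) (XT.nd (nat_lit 156) (nat_lit 152) (nat_lit 0) (XT.nd (nat_lit 78) (nat_lit 0) (nat_lit 0) (XT.lf (nat_lit 0) (nat_lit 18819907319) (nat_lit 76) (nat_lit 10574858251) (nat_lit 152) (nat_lit 14018554531) (nat_lit 12) (nat_lit 5) (nat_lit 13) (nat_lit 5) (nat_lit 14) (nat_lit 4) (nat_lit 309) (nat_lit 238) (nat_lit 173)) (XT.lf (nat_lit 0) (nat_lit 34082208277) (nat_lit 76) (nat_lit 2872888540) (nat_lit 152) (nat_lit 8378538664) (nat_lit 12) (nat_lit 5)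 (nat_lit 13) (nat_lit 5) (nat_lit 14) (nat_lit 4) (nat_lit 310) (nat_lit 238) (nat_lit 172))) (XT.nd (nat_lit 78) (nat_lit 76) (nat_lit 0) (XT.lf (nat_lit 0) (nat_lit 2708141755) (nat_lit 76) (nat_lit 42231756651) (nat_lit 76) (nat_lit 2408694564) (nat_lit 11) (nat_lit 4) (nat_lit 12) (nat_lit 5) (nat_lit 12) (nat_lit 4) (nat_lit 311) (nat_lit 238) (nat_lit 171)) (XT.nd (nat_lit 78) (nat_lit 0) (nat_lit 0) (XT.lf (nat_lit 0) (nat_lit 3901215871) (nat_lit 152) (nat_lit 31978596815) (nat_lit 76) (nat_lit 13579884371) (nat_lit 10) (nat_lit 5) (nat_lit 12) (nat_lit 5) (nat_lit 11) (nat_lit 4) (nat_lit 312) (nat_lit 238) (nat_lit 170)) (XT.lf (nat_lit 0) (nat_lit 10449576643) (nat_lit 152) (nat_lit 18756855825) (nat_lit 76) (nat_lit 22470042888) (nat_lit 10) (nat_lit 5) (nat_lit 12) (nat_lit 5) (nat_lit 11) (nat_lit 4) (nat_lit 313) (nat_lit 238) (nat_lit 169))))) (XT.nd (nat_lit 234) (nat_lit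 76) (nat_lit 0) (XT.nd (nat_lit 78) (nat_lit 76) (nat_lit 0) (XT.lf (nat_lit 0) (nat_lit 17298981395) (nat_lit 152) (nat_lit 4920594062) (nat_lit 76) (nat_lit 31785325070) (nat_lit 10) (nat_lit 5) (nat_lit 12) (nat_lit 5) (nat_lit 11) (nat_lit 4) (nat_lit 314) (nat_lit 238) (nat_lit 168)) (XT.nd (nat_lit 78) (nat_lit 0) (nat_lit 0) (XT.lf (nat_lit 0) (nat_lit 9753457028) (nat_lit 76) (nat_lit 14806037400) (nat_lit 152) (nat_lit 31888209326) (nat_lit 9) (nat_lit 5) (nat_lit 10) (nat_lit 5) (nat_lit 11) (nat_lit 4) (nat_lit 315) (nat_lit 238) (nat_lit 167)) (XT.lf (nat_lit 0) (nat_lit 25220959032) (nat_lit 76) (nat_lit 6988391117) (nat_lit 152) (nat_lit 26802522660) (nat_lit 9) (nat_lit 5) (nat_lit 10) (nat_lit 5) (nat_lit 11) (nat_lit 4) (nat_lit 316) (nat_lit 238) (nat_lit 166)))) (XT.nd (nat_lit 78) (nat_lit 76) (nat_lit 0) (XT.lf (nat_lit 0) (nat_lit 40230078515) (nat_lit 152) (nat_lit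 20295707360) (nat_lit 0) (nat_lit 1178827502) (nat_lit 9) (nat_lit 5) (nat_lit 11) (nat_lit 4) (nat_lit 9) (nat_lit 4) (nat_lit 317) (nat_lit 238) (nat_lit 165)) (XT.nd (nat_lit 78) (nat_lit 76) (nat_lit 0) (XT.lf (nat_lit 0) (nat_lit 48700141825) (nat_lit 152) (nat_lit 6235861357) (nat_lit 0) (nat_lit 9594552604) (nat_lit 9) (nat_lit 5) (nat_lit 11) (nat_lit 4) (nat_lit 9) (nat_lit 4) (nat_lit 318) (nat_lit 238) (nat_lit 164)) (XT.lf (nat_lit 0) (nat_lit 8658229998) (nat_lit 76) (nat_lit 48997528411) (nat_lit 76) (nat_lit 9840188516) (nat_lit 8) (nat_lit 4) (nat_lit 9) (nat_lit 5) (nat_lit 9) (nat_lit 4) (nat_lit 319) (nat_lit 238) (nat_lit 163))))))) (XT.nd (nat_lit 858) (nat_lit 0) (nat_lit 0) (XT.nd (nat_lit 390) (nat_lit 76) (nat_lit 0) (XT.nd (nat_lit 156) (nat_lit 76) (nat_lit 0) (XT.nd (nat_lit 78) (nat_lit 76) (nat_lit 0) (XT.lf (nat_lit 0) (nat_lit 24390717551) (nat_lit 76) (nat_lit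 42712109337) (nat_lit 76) (nat_lit 3505483086) (nat_lit 8) (nat_lit 4) (nat_lit 9) (nat_lit 5) (nat_lit 9) (nat_lit 4) (nat_lit 320) (nat_lit 238) (nat_lit 162)) (XT.lf (nat_lit 0) (nat_lit 3064819076) (nat_lit 152) (nat_lit 33031982912) (nat_lit 76) (nat_lit 37779185998) (nat_lit 7) (nat_lit 5) (nat_lit 9) (nat_lit 5) (nat_lit 8) (nat_lit 4) (nat_lit 321) (nat_lit 238) (nat_lit 161))) (XT.nd (nat_lit 78) (nat_lit 76) (nat_lit 0) (XT.lf (nat_lit 0) (nat_lit 9873002399) (nat_lit 152) (nat_lit 19256074943) (nat_lit 76) (nat_lit 48177486375) (nat_lit 7) (nat_lit 5) (nat_lit 9) (nat_lit 5) (nat_lit 8) (nat_lit 4) (nat_lit 322) (nat_lit 238) (nat_lit 160)) (XT.nd (nat_lit 78) (nat_lit 76) (nat_lit 0) (XT.lf (nat_lit 0) (nat_lit 17003681444) (nat_lit 152) (nat_lit 4823371891) (nat_lit 76) (nat_lit 59082162777) (nat_lit 7) (nat_lit 5) (nat_lit 9) (nat_lit 5) (nat_lit 8) (nat_lit 4) (nat_lit 323)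 (nat_lit 238) (nat_lit 159)) (XT.lf (nat_lit 0) (nat_lit 10505489769) (nat_lit 76) (nat_lit 14069329442) (nat_lit 152) (nat_lit 60114674147) (nat_lit 6) (nat_lit 5) (nat_lit 7) (nat_lit 5) (nat_lit 8) (nat_lit 4) (nat_lit 324) (nat_lit 238) (nat_lit 158))))) (XT.nd (nat_lit 234) (nat_lit 76) (nat_lit 0) (XT.nd (nat_lit 78) (nat_lit 0) (nat_lit 0) (XT.lf (nat_lit 0) (nat_lit 26671985911) (nat_lit 76) (nat_lit 5885647729) (nat_lit 152) (nat_lit 56100166731) (nat_lit 6) (nat_lit 5) (nat_lit 7) (nat_lit 5) (nat_lit 8) (nat_lit 4) (nat_lit 325) (nat_lit 238) (nat_lit 157)) (XT.nd (nat_lit 78) (nat_lit 0) (nat_lit 0) (XT.lf (nat_lit 0) (nat_lit 40949747253) (nat_lit 152) (nat_lit 49232294288) (nat_lit 0) (nat_lit 2642185488) (nat_lit 6) (nat_lit 5) (nat_lit 8) (nat_lit 4) (nat_lit 6) (nat_lit 4) (nat_lit 326) (nat_lit 238) (nat_lit 156)) (XT.lf (nat_lit 0) (nat_lit 49805762315) (nat_lit 152) (nat_lit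 35927698589) (nat_lit 0) (nat_lit 11464193858) (nat_lit 6) (nat_lit 5) (nat_lit 8) (nat_lit 4) (nat_lit 6) (nat_lit 4) (nat_lit 327) (nat_lit 238) (nat_lit 155)))) (XT.nd (nat_lit 78) (nat_lit 76) (nat_lit 0) (XT.lf (nat_lit 0) (nat_lit 59090188131) (nat_lit 152) (nat_lit 21983773311) (nat_lit 0) (nat_lit 20716232348) (nat_lit 6) (nat_lit 5) (nat_lit 8) (nat_lit 4) (nat_lit 6) (nat_lit 4) (nat_lit 328) (nat_lit 238) (nat_lit 154)) (XT.nd (nat_lit 78) (nat_lit 76) (nat_lit 0) (XT.lf (nat_lit 0) (nat_lit 68825130476) (nat_lit 152) (nat_lit 7367318630) (nat_lit 0) (nat_lit 30420329620) (nat_lit 6) (nat_lit 5) (nat_lit 8) (nat_lit 4) (nat_lit 6) (nat_lit 4) (nat_lit 329) (nat_lit 238) (nat_lit 153)) (XT.lf (nat_lit 0) (nat_lit 8114815819) (nat_lit 76) (nat_lit 70996956538) (nat_lit 76) (nat_lit 32562779422) (nat_lit 5) (nat_lit 4) (nat_lit 6) (nat_lit 5) (nat_lit 6) (nat_lit 4) (nat_lit 330)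 (nat_lit 238) (nat_lit 152)))))) (XT.nd (nat_lit 30966) (nat_lit 0) (nat_lit 16492) (XT.nd (nat_lit 30732) (nat_lit 0) (nat_lit 20216) (XT.nd (nat_lit 30576) (nat_lit 0) (nat_lit 20900) (XT.lf (nat_lit 0) (nat_lit 24502193435) (nat_lit 76) (nat_lit 65473742971) (nat_lit 76) (nat_lit 27011588466) (nat_lit 5) (nat_lit 4) (nat_lit 6) (nat_lit 5) (nat_lit 6) (nat_lit 4) (nat_lit 331) (nat_lit 238) (nat_lit 151)) (XT.nd (nat_lit 78) (nat_lit 228) (nat_lit 0) (XT.lf (nat_lit 0) (nat_lit 1681851728) (nat_lit 76) (nat_lit 772632882) (nat_lit 76) (nat_lit 772632882) (nat_lit 283) (nat_lit 4) (nat_lit 284) (nat_lit 5) (nat_lit 284) (nat_lit 4) (nat_lit 242) (nat_lit 239) (nat_lit 239)) (XT.lf (nat_lit 0) (nat_lit 2036018319) (nat_lit 152) (nat_lit 1101884259) (nat_lit 228) (nat_lit 3332863398) (nat_lit 280) (nat_lit 5) (nat_lit 282) (nat_lit 5) (nat_lit 283) (nat_lit 4) (nat_lit 243) (nat_lit 239)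 (nat_lit 238)))) (XT.nd (nat_lit 78) (nat_lit 380) (nat_lit 0) (XT.lf (nat_lit 0) (nat_lit 808289466) (nat_lit 228) (nat_lit 443130226) (nat_lit 304) (nat_lit 5244414408) (nat_lit 276) (nat_lit 5) (nat_lit 279) (nat_lit 5) (nat_lit 280) (nat_lit 5) (nat_lit 244) (nat_lit 239) (nat_lit 237)) (XT.nd (nat_lit 78) (nat_lit 380) (nat_lit 0) (XT.lf (nat_lit 0) (nat_lit 5764342491) (nat_lit 304) (nat_lit 329906345) (nat_lit 76) (nat_lit 434805031) (nat_lit 276) (nat_lit 5) (nat_lit 280) (nat_lit 5) (nat_lit 277) (nat_lit 4) (nat_lit 245) (nat_lit 239) (nat_lit 236)) (XT.lf (nat_lit 0) (nat_lit 3646398273) (nat_lit 380) (nat_lit 1384180543) (nat_lit 76) (nat_lit 1539559414) (nat_lit 271) (nat_lit 5) (nat_lit 276) (nat_lit 5) (nat_lit 272) (nat_lit 5) (nat_lit 246) (nat_lit 239) (nat_lit 235))))) (XT.nd (nat_lit 234) (nat_lit 2204) (nat_lit 0) (XT.nd (nat_lit 78) (nat_lit 1064) (nat_lit 0) (XT.lf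 (nat_lit 0) (nat_lit 1399116776) (nat_lit 456) (nat_lit 2358417593) (nat_lit 76) (nat_lit 2862379361) (nat_lit 265) (nat_lit 5) (nat_lit 271) (nat_lit 5) (nat_lit 266) (nat_lit 5) (nat_lit 247) (nat_lit 239) (nat_lit 234)) (XT.nd (nat_lit 78) (nat_lit 608) (nat_lit 0) (XT.lf (nat_lit 0) (nat_lit 3411287392) (nat_lit 456) (nat_lit 2261994822) (nat_lit 532) (nat_lit 1004922792) (nat_lit 259) (nat_lit 5) (nat_lit 265) (nat_lit 5) (nat_lit 266) (nat_lit 5) (nat_lit 248) (nat_lit 239) (nat_lit 233)) (XT.lf (nat_lit 0) (nat_lit 2625274495) (nat_lit 532) (nat_lit 534633599) (nat_lit 608) (nat_lit 3585074820) (nat_lit 251) (nat_lit 5) (nat_lit 258) (nat_lit 5) (nat_lit 259) (nat_lit 5) (nat_lit 249) (nat_lit 239) (nat_lit 232)))) (XT.nd (nat_lit 78) (nat_lit 1520) (nat_lit 0) (XT.lf (nat_lit 0) (nat_lit 512073341) (nat_lit 684) (nat_lit 4921236107) (nat_lit 76) (nat_lit 1387095646) (nat_lit 242)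 (nat_lit 5) (nat_lit 251) (nat_lit 5) (nat_lit 243) (nat_lit 5) (nat_lit 250) (nat_lit 239) (nat_lit 231)) (XT.nd (nat_lit 78) (nat_lit 836) (nat_lit 0) (XT.lf (nat_lit 0) (nat_lit 1212003655) (nat_lit 684) (nat_lit 3361011212) (nat_lit 760) (nat_lit 2331148661) (nat_lit 233) (nat_lit 5) (nat_lit 242) (nat_lit 5) (nat_lit 243) (nat_lit 5) (nat_lit 251) (nat_lit 239) (nat_lit 230)) (XT.lf (nat_lit 0) (nat_lit 580937068) (nat_lit 760) (nat_lit 1063660792) (nat_lit 836) (nat_lit 5352484391) (nat_lit 222) (nat_lit 5) (nat_lit 232) (nat_lit 5) (nat_lit 233) (nat_lit 5) (nat_lit 252) (nat_lit 239) (nat_lit 229))))))))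
noncomputable def xc48 : XT := (XT.nd (nat_lit 1716) (nat_lit 3648) (nat_lit 0) (XT.nd (nat_lit 858) (nat_lit 3648) (nat_lit 0) (XT.nd (nat_lit 390) (nat_lit 3876) (nat_lit 0) (XT.nd (nat_lit 156) (nat_lit 3040) (nat_lit 0) (XT.nd (nat_lit 78) (nat_lit 912) (nat_lit 0) (XT.lf (nat_lit 0) (nat_lit 5631738926) (nat_lit 836) (nat_lit 21892881) (nat_lit 76) (nat_lit 1445046244) (nat_lit 222) (nat_lit 5) (nat_lit 233) (nat_lit 5) (nat_lit 223) (nat_lit 5) (nat_lit 253) (nat_lit 239) (nat_lit 228)) (XT.lf (nat_lit 0) (nat_lit 2433013925) (nat_lit 912) (nat_lit 592685447) (nat_lit 76) (nat_lit 4183274077) (nat_lit 210) (nat_lit 5) (nat_lit 222) (nat_lit 5) (nat_lit 211) (nat_lit 5) (nat_lit 254) (nat_lit 239) (nat_lit 227))) (XT.nd (nat_lit 78) (nat_lit 2128) (nat_lit 0) (XT.lf (nat_lit 0) (nat_lit 6198631177) (nat_lit 912) (nat_lit 163016572) (nat_lit 988) (nat_lit 967262183) (nat_lit 198) (nat_lit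 5) (nat_lit 210) (nat_lit 5) (nat_lit 211) (nat_lit 5) (nat_lit 255) (nat_lit 239) (nat_lit 226)) (XT.nd (nat_lit 78) (nat_lit 1064) (nat_lit 0) (XT.lf (nat_lit 0) (nat_lit 2872446287) (nat_lit 1064) (nat_lit 1684411117) (nat_lit 76) (nat_lit 2900565656) (nat_lit 184) (nat_lit 5) (nat_lit 198) (nat_lit 5) (nat_lit 185) (nat_lit 5) (nat_lit 256) (nat_lit 239) (nat_lit 225)) (XT.lf (nat_lit 0) (nat_lit 5376245521) (nat_lit 1064) (nat_lit 1390200033) (nat_lit 1140) (nat_lit 829584752) (nat_lit 170) (nat_lit 5) (nat_lit 184) (nat_lit 5) (nat_lit 185) (nat_lit 5) (nat_lit 257) (nat_lit 239) (nat_lit 224))))) (XT.nd (nat_lit 234) (nat_lit 1596) (nat_lit 0) (XT.nd (nat_lit 78) (nat_lit 1140) (nat_lit 0) (XT.lf (nat_lit 0) (nat_lit 2959879380) (nat_lit 1140) (nat_lit 2782135923) (nat_lit 76) (nat_lit 2001835965) (nat_lit 155) (nat_lit 5) (nat_lit 170) (nat_lit 5) (nat_lit 156) (nat_lit 5) (nat_lit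 258) (nat_lit 239) (nat_lit 223)) (XT.nd (nat_lit 78) (nat_lit 608) (nat_lit 0) (XT.lf (nat_lit 0) (nat_lit 4546396196) (nat_lit 532) (nat_lit 2285225553) (nat_lit 608) (nat_lit 1070270570) (nat_lit 148) (nat_lit 5) (nat_lit 155) (nat_lit 5) (nat_lit 156) (nat_lit 5) (nat_lit 259) (nat_lit 239) (nat_lit 222)) (XT.lf (nat_lit 0) (nat_lit 2689821681) (nat_lit 608) (nat_lit 3967558612) (nat_lit 76) (nat_lit 1412508015) (nat_lit 140) (nat_lit 5) (nat_lit 148) (nat_lit 5) (nat_lit 141) (nat_lit 5) (nat_lit 260) (nat_lit 239) (nat_lit 221)))) (XT.nd (nat_lit 78) (nat_lit 1064) (nat_lit 0) (XT.lf (nat_lit 0) (nat_lit 3625422382) (nat_lit 532) (nat_lit 2923247986) (nat_lit 608) (nat_lit 1699638854) (nat_lit 133) (nat_lit 5) (nat_lit 140) (nat_lit 5) (nat_lit 141) (nat_lit 5) (nat_lit 261) (nat_lit 239) (nat_lit 220)) (XT.nd (nat_lit 78) (nat_lit 456) (nat_lit 0) (XT.lf (nat_lit 0) (nat_lit 2048275070)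 (nat_lit 608) (nat_lit 5329676783) (nat_lit 76) (nat_lit 1059608590) (nat_lit 125) (nat_lit 5) (nat_lit 133) (nat_lit 5) (nat_lit 126) (nat_lit 5) (nat_lit 262) (nat_lit 239) (nat_lit 219)) (XT.lf (nat_lit 0) (nat_lit 2521565369) (nat_lit 456) (nat_lit 3378830294) (nat_lit 532) (nat_lit 2737105126) (nat_lit 119) (nat_lit 5) (nat_lit 125) (nat_lit 5) (nat_lit 126) (nat_lit 5) (nat_lit 263) (nat_lit 239) (nat_lit 218)))))) (XT.nd (nat_lit 390) (nat_lit 1824) (nat_lit 0) (XT.nd (nat_lit 156) (nat_lit 912) (nat_lit 0) (XT.nd (nat_lit 78) (nat_lit 380) (nat_lit 0) (XT.lf (nat_lit 0) (nat_lit 1012094813) (nat_lit 532) (nat_lit 6967183760) (nat_lit 76) (nat_lit 870036516) (nat_lit 112) (nat_lit 5) (nat_lit 119) (nat_lit 5) (nat_lit 113) (nat_lit 5) (nat_lit 264) (nat_lit 239) (nat_lit 217)) (XT.lf (nat_lit 0) (nat_lit 1132448026) (nat_lit 380) (nat_lit 3727735624) (nat_lit 456) (nat_lit 4211937977)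 (nat_lit 107) (nat_lit 5) (nat_lit 112) (nat_lit 5) (nat_lit 113) (nat_lit 5) (nat_lit 265) (nat_lit 239) (nat_lit 216))) (XT.nd (nat_lit 78) (nat_lit 456) (nat_lit 0) (XT.lf (nat_lit 0) (nat_lit 312330078) (nat_lit 456) (nat_lit 8534733642) (nat_lit 532) (nat_lit 460856611) (nat_lit 101) (nat_lit 5) (nat_lit 107) (nat_lit 5) (nat_lit 108) (nat_lit 5) (nat_lit 266) (nat_lit 239) (nat_lit 215)) (XT.nd (nat_lit 78) (nat_lit 380) (nat_lit 0) (XT.lf (nat_lit 0) (nat_lit 3397373776) (nat_lit 532) (nat_lit 644930792) (nat_lit 76) (nat_lit 5512802817) (nat_lit 100) (nat_lit 5) (nat_lit 107) (nat_lit 5) (nat_lit 101) (nat_lit 5) (nat_lit 267) (nat_lit 239) (nat_lit 214)) (XT.lf (nat_lit 0) (nat_lit 7397787983) (nat_lit 456) (nat_lit 1701211314) (nat_lit 76) (nat_lit 716967881) (nat_lit 95) (nat_lit 5) (nat_lit 101) (nat_lit 5) (nat_lit 96) (nat_lit 5) (nat_lit 268) (nat_lit 239) (nat_lit 213)))))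 (XT.nd (nat_lit 234) (nat_lit 684) (nat_lit 0) (XT.nd (nat_lit 78) (nat_lit 684) (nat_lit 0) (XT.lf (nat_lit 0) (nat_lit 1473104920) (nat_lit 456) (nat_lit 2923422446) (nat_lit 76) (nat_lit 5693280283) (nat_lit 89) (nat_lit 5) (nat_lit 95) (nat_lit 5) (nat_lit 90) (nat_lit 5) (nat_lit 269) (nat_lit 239) (nat_lit 212)) (XT.nd (nat_lit 78) (nat_lit 380) (nat_lit 0) (XT.lf (nat_lit 0) (nat_lit 5472314421) (nat_lit 380) (nat_lit 4306223481) (nat_lit 76) (nat_lit 599371569) (nat_lit 85) (nat_lit 5) (nat_lit 90) (nat_lit 5) (nat_lit 86) (nat_lit 5) (nat_lit 270) (nat_lit 239) (nat_lit 211)) (XT.lf (nat_lit 0) (nat_lit 4795721405) (nat_lit 380) (nat_lit 4881481220) (nat_lit 456) (nat_lit 1003222008) (nat_lit 80) (nat_lit 5) (nat_lit 85) (nat_lit 5) (nat_lit 86) (nat_lit 5) (nat_lit 271) (nat_lit 239) (nat_lit 210)))) (XT.nd (nat_lit 78) (nat_lit 304) (nat_lit 0) (XT.lf (nat_lit 0) (nat_lit 3001537614)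 (nat_lit 380) (nat_lit 7670146333) (nat_lit 76) (nat_lit 326626084) (nat_lit 75) (nat_lit 5) (nat_lit 80) (nat_lit 5) (nat_lit 76) (nat_lit 5) (nat_lit 272) (nat_lit 239) (nat_lit 209)) (XT.nd (nat_lit 78) (nat_lit 0) (nat_lit 0) (XT.lf (nat_lit 0) (nat_lit 1617793604) (nat_lit 304) (nat_lit 5585441641) (nat_lit 380) (nat_lit 4128191353) (nat_lit 71) (nat_lit 5) (nat_lit 75) (nat_lit 5) (nat_lit 76) (nat_lit 5) (nat_lit 273) (nat_lit 239) (nat_lit 208)) (XT.lf (nat_lit 0) (nat_lit 11386506398) (nat_lit 304) (nat_lit 202520202) (nat_lit 380) (nat_lit 93102917) (nat_lit 71) (nat_lit 5) (nat_lit 75) (nat_lit 5) (nat_lit 76) (nat_lit 5) (nat_lit 274) (nat_lit 239) (nat_lit 207))))))) (XT.nd (nat_lit 858) (nat_lit 1216) (nat_lit 0) (XT.nd (nat_lit 390) (nat_lit 1216) (nat_lit 0) (XT.nd (nat_lit 156) (nat_lit 532) (nat_lit 0) (XT.nd (nat_lit 78) (nat_lit 304) (nat_lit 0) (XT.lf (nat_lit 0) (nat_lit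 4107421902) (nat_lit 380) (nat_lit 2501290640) (nat_lit 76) (nat_lit 5439263265) (nat_lit 66) (nat_lit 5) (nat_lit 71) (nat_lit 5) (nat_lit 67) (nat_lit 5) (nat_lit 275) (nat_lit 239) (nat_lit 206)) (XT.lf (nat_lit 0) (nat_lit 7459905451) (nat_lit 304) (nat_lit 1035056782) (nat_lit 380) (nat_lit 3937889869) (nat_lit 62) (nat_lit 5) (nat_lit 66) (nat_lit 5) (nat_lit 67) (nat_lit 5) (nat_lit 276) (nat_lit 239) (nat_lit 205))) (XT.nd (nat_lit 78) (nat_lit 228) (nat_lit 0) (XT.lf (nat_lit 0) (nat_lit 285798328) (nat_lit 304) (nat_lit 7788440859) (nat_lit 76) (nat_lit 4761997603) (nat_lit 58) (nat_lit 5) (nat_lit 62) (nat_lit 5) (nat_lit 59) (nat_lit 5) (nat_lit 277) (nat_lit 239) (nat_lit 204)) (XT.nd (nat_lit 78) (nat_lit 0) (nat_lit 0) (XT.lf (nat_lit 0) (nat_lit 2274328222) (nat_lit 228) (nat_lit 2356953365) (nat_lit 304) (nat_lit 8627694823) (nat_lit 55) (nat_lit 5) (nat_lit 58) (nat_lit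 5) (nat_lit 59) (nat_lit 5) (nat_lit 278) (nat_lit 239) (nat_lit 203)) (XT.lf (nat_lit 0) (nat_lit 9220106710) (nat_lit 304) (nat_lit 866436628) (nat_lit 76) (nat_lit 3615639009) (nat_lit 55) (nat_lit 5) (nat_lit 59) (nat_lit 5) (nat_lit 56) (nat_lit 5) (nat_lit 279) (nat_lit 239) (nat_lit 202))))) (XT.nd (nat_lit 234) (nat_lit 456) (nat_lit 0) (XT.nd (nat_lit 78) (nat_lit 532) (nat_lit 0) (XT.lf (nat_lit 0) (nat_lit 9798299322) (nat_lit 228) (nat_lit 4272382967) (nat_lit 304) (nat_lit 96003078) (nat_lit 52) (nat_lit 5) (nat_lit 55) (nat_lit 5) (nat_lit 56) (nat_lit 5) (nat_lit 280) (nat_lit 239) (nat_lit 201)) (XT.nd (nat_lit 78) (nat_lit 228) (nat_lit 0) (XT.lf (nat_lit 0) (nat_lit 4425738681) (nat_lit 304) (nat_lit 8356867305) (nat_lit 76) (nat_lit 1870474426) (nat_lit 48) (nat_lit 5) (nat_lit 52) (nat_lit 5) (nat_lit 49) (nat_lit 5) (nat_lit 281) (nat_lit 239) (nat_lit 200)) (XT.lf (nat_lit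 0) (nat_lit 2299746846) (nat_lit 228) (nat_lit 6901235666) (nat_lit 304) (nat_lit 5961995568) (nat_lit 45) (nat_lit 5) (nat_lit 48) (nat_lit 5) (nat_lit 49) (nat_lit 5) (nat_lit 282) (nat_lit 239) (nat_lit 199)))) (XT.nd (nat_lit 78) (nat_lit 456) (nat_lit 0) (XT.lf (nat_lit 0) (nat_lit 13543889480) (nat_lit 228) (nat_lit 678581618) (nat_lit 304) (nat_lit 1475764008) (nat_lit 45) (nat_lit 5) (nat_lit 48) (nat_lit 5) (nat_lit 49) (nat_lit 5) (nat_lit 283) (nat_lit 239) (nat_lit 198)) (XT.nd (nat_lit 78) (nat_lit 152) (nat_lit 0) (XT.lf (nat_lit 0) (nat_lit 3240780142) (nat_lit 304) (nat_lit 7195054345) (nat_lit 76) (nat_lit 5821496209) (nat_lit 41) (nat_lit 5) (nat_lit 45) (nat_lit 5) (nat_lit 42) (nat_lit 5) (nat_lit 284) (nat_lit 239) (nat_lit 197)) (XT.lf (nat_lit 0) (nat_lit 3982394575) (nat_lit 152) (nat_lit 4174560398) (nat_lit 228) (nat_lit 8687236344) (nat_lit 39) (nat_lit 5) (nat_lit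 41) (nat_lit 5) (nat_lit 42) (nat_lit 5) (nat_lit 285) (nat_lit 239) (nat_lit 196)))))) (XT.nd (nat_lit 390) (nat_lit 608) (nat_lit 0) (XT.nd (nat_lit 156) (nat_lit 304) (nat_lit 0) (XT.nd (nat_lit 78) (nat_lit 304) (nat_lit 0) (XT.lf (nat_lit 0) (nat_lit 13345366911) (nat_lit 228) (nat_lit 1725830960) (nat_lit 76) (nat_lit 2388478851) (nat_lit 39) (nat_lit 5) (nat_lit 42) (nat_lit 5) (nat_lit 40) (nat_lit 5) (nat_lit 286) (nat_lit 239) (nat_lit 195)) (XT.lf (nat_lit 0) (nat_lit 744823327) (nat_lit 304) (nat_lit 8098568983) (nat_lit 76) (nat_lit 9260285735) (nat_lit 35) (nat_lit 5) (nat_lit 39) (nat_lit 5) (nat_lit 36) (nat_lit 5) (nat_lit 287) (nat_lit 239) (nat_lit 194))) (XT.nd (nat_lit 78) (nat_lit 152) (nat_lit 0) (XT.lf (nat_lit 0) (nat_lit 3500053350) (nat_lit 152) (nat_lit 2247626885) (nat_lit 228) (nat_lit 13031467105) (nat_lit 33) (nat_lit 5) (nat_lit 35) (nat_lit 5) (nat_lit 36)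 (nat_lit 5) (nat_lit 288) (nat_lit 239) (nat_lit 193)) (XT.nd (nat_lit 78) (nat_lit 152) (nat_lit 0) (XT.lf (nat_lit 0) (nat_lit 11065129350) (nat_lit 228) (nat_lit 3788284114) (nat_lit 76) (nat_lit 4633105722) (nat_lit 33) (nat_lit 5) (nat_lit 36) (nat_lit 5) (nat_lit 34) (nat_lit 5) (nat_lit 289) (nat_lit 239) (nat_lit 192)) (XT.lf (nat_lit 0) (nat_lit 8317207081) (nat_lit 152) (nat_lit 8372250453) (nat_lit 228) (nat_lit 3538631480) (nat_lit 31) (nat_lit 5) (nat_lit 33) (nat_lit 5) (nat_lit 34) (nat_lit 5) (nat_lit 290) (nat_lit 239) (nat_lit 191))))) (XT.nd (nat_lit 234) (nat_lit 228) (nat_lit 0) (XT.nd (nat_lit 78) (nat_lit 304) (nat_lit 0) (XT.lf (nat_lit 0) (nat_lit 1536385846) (nat_lit 228) (nat_lit 11959302) (nat_lit 76) (nat_lit 19458615847) (nat_lit 30) (nat_lit 5) (nat_lit 33) (nat_lit 5) (nat_lit 31) (nat_lit 5) (nat_lit 291) (nat_lit 239) (nat_lit 190)) (XT.nd (nat_lit 78) (nat_lit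 152) (nat_lit 0) (XT.lf (nat_lit 0) (nat_lit 6911558414) (nat_lit 228) (nat_lit 9278219249) (nat_lit 76) (nat_lit 5630412645) (nat_lit 28) (nat_lit 5) (nat_lit 31) (nat_lit 5) (nat_lit 29) (nat_lit 5) (nat_lit 292) (nat_lit 239) (nat_lit 189)) (XT.lf (nat_lit 0) (nat_lit 3000775254) (nat_lit 152) (nat_lit 9543438884) (nat_lit 228) (nat_lit 10130255189) (nat_lit 26) (nat_lit 5) (nat_lit 28) (nat_lit 5) (nat_lit 29) (nat_lit 5) (nat_lit 293) (nat_lit 239) (nat_lit 188)))) (XT.nd (nat_lit 78) (nat_lit 228) (nat_lit 0) (XT.lf (nat_lit 0) (nat_lit 15998319807) (nat_lit 152) (nat_lit 2501623342) (nat_lit 228) (nat_lit 5070323528) (nat_lit 26) (nat_lit 5) (nat_lit 28) (nat_lit 5) (nat_lit 29) (nat_lit 5) (nat_lit 294) (nat_lit 239) (nat_lit 187)) (XT.nd (nat_lit 78) (nat_lit 0) (nat_lit 0) (XT.lf (nat_lit 0) (nat_lit 282508536) (nat_lit 228) (nat_lit 19411243921) (nat_lit 76) (nat_lit 4815736347)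 (nat_lit 23) (nat_lit 5) (nat_lit 26) (nat_lit 5) (nat_lit 24) (nat_lit 5) (nat_lit 295) (nat_lit 239) (nat_lit 186)) (XT.lf (nat_lit 0) (nat_lit 5852367260) (nat_lit 228) (nat_lit 7095233425) (nat_lit 76) (nat_lit 12544979815) (nat_lit 23) (nat_lit 5) (nat_lit 26) (nat_lit 5) (nat_lit 24) (nat_lit 5) (nat_lit 296) (nat_lit 239) (nat_lit 185))))))))
noncomputable def xc49 : XT := (XT.nd (nat_lit 1716) (nat_lit 304) (nat_lit 0) (XT.nd (nat_lit 858) (nat_lit 304) (nat_lit 0) (XT.nd (nat_lit 390) (nat_lit 304) (nat_lit 0) (XT.nd (nat_lit 156) (nat_lit 304) (nat_lit 0) (XT.nd (nat_lit 78) (nat_lit 0) (nat_lit 0) (XT.lf (nat_lit 0) (nat_lit 5870289822) (nat_lit 152) (nat_lit 5838576575) (nat_lit 228) (nat_lit 14815755876) (nat_lit 21) (nat_lit 5) (nat_lit 23) (nat_lit 5) (nat_lit 24) (nat_lit 5) (nat_lit 297) (nat_lit 239) (nat_lit 184)) (XT.lf (nat_lit 0) (nat_lit 17900539405) (nat_lit 228)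 (nat_lit 8069724171) (nat_lit 76) (nat_lit 1636770109) (nat_lit 21) (nat_lit 5) (nat_lit 24) (nat_lit 5) (nat_lit 22) (nat_lit 4) (nat_lit 298) (nat_lit 239) (nat_lit 183))) (XT.nd (nat_lit 78) (nat_lit 228) (nat_lit 0) (XT.lf (nat_lit 0) (nat_lit 5109017150) (nat_lit 76) (nat_lit 19356017651) (nat_lit 152) (nat_lit 4276669908) (nat_lit 20) (nat_lit 5) (nat_lit 21) (nat_lit 5) (nat_lit 22) (nat_lit 4) (nat_lit 299) (nat_lit 239) (nat_lit 182)) (XT.nd (nat_lit 78) (nat_lit 152) (nat_lit 0) (XT.lf (nat_lit 0) (nat_lit 1436898287) (nat_lit 152) (nat_lit 10904399114) (nat_lit 76) (nat_lit 17590232949) (nat_lit 19) (nat_lit 5) (nat_lit 21) (nat_lit 5) (nat_lit 20) (nat_lit 5) (nat_lit 300) (nat_lit 239) (nat_lit 181)) (XT.lf (nat_lit 0) (nat_lit 2392788360) (nat_lit 152) (nat_lit 4936978630) (nat_lit 228) (nat_lit 23850379761) (nat_lit 17) (nat_lit 5) (nat_lit 19) (nat_lit 5) (nat_lit 20) (nat_lit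 5) (nat_lit 301) (nat_lit 239) (nat_lit 180))))) (XT.nd (nat_lit 234) (nat_lit 228) (nat_lit 0) (XT.nd (nat_lit 78) (nat_lit 76) (nat_lit 0) (XT.lf (nat_lit 0) (nat_lit 13617215278) (nat_lit 228) (nat_lit 16003483032) (nat_lit 76) (nat_lit 2867527944) (nat_lit 17) (nat_lit 5) (nat_lit 20) (nat_lit 5) (nat_lit 18) (nat_lit 4) (nat_lit 302) (nat_lit 239) (nat_lit 179)) (XT.nd (nat_lit 78) (nat_lit 76) (nat_lit 0) (XT.lf (nat_lit 0) (nat_lit 20230101587) (nat_lit 228) (nat_lit 2696885882) (nat_lit 76) (nat_lit 10934419215) (nat_lit 17) (nat_lit 5) (nat_lit 20) (nat_lit 5) (nat_lit 18) (nat_lit 4) (nat_lit 303) (nat_lit 239) (nat_lit 178)) (XT.lf (nat_lit 0) (nat_lit 11434704970) (nat_lit 76) (nat_lit 15811926033) (nat_lit 152) (nat_lit 8054452709) (nat_lit 16) (nat_lit 5) (nat_lit 17) (nat_lit 5) (nat_lit 18) (nat_lit 4) (nat_lit 304) (nat_lit 239) (nat_lit 177)))) (XT.nd (nat_lit 78) (nat_lit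 228) (nat_lit 0) (XT.lf (nat_lit 0) (nat_lit 26267583224) (nat_lit 76) (nat_lit 8338412559) (nat_lit 152) (nat_lit 2207014773) (nat_lit 16) (nat_lit 5) (nat_lit 17) (nat_lit 5) (nat_lit 18) (nat_lit 4) (nat_lit 305) (nat_lit 239) (nat_lit 176)) (XT.nd (nat_lit 78) (nat_lit 0) (nat_lit 0) (XT.lf (nat_lit 0) (nat_lit 3410903654) (nat_lit 152) (nat_lit 443523836) (nat_lit 228) (nat_lit 34545045110) (nat_lit 13) (nat_lit 5) (nat_lit 15) (nat_lit 5) (nat_lit 16) (nat_lit 5) (nat_lit 306) (nat_lit 239) (nat_lit 175)) (XT.lf (nat_lit 0) (nat_lit 10325211124) (nat_lit 228) (nat_lit 21933861546) (nat_lit 76) (nat_lit 7800995214) (nat_lit 13) (nat_lit 5) (nat_lit 16) (nat_lit 5) (nat_lit 14) (nat_lit 4) (nat_lit 307) (nat_lit 239) (nat_lit 174)))))) (XT.nd (nat_lit 390) (nat_lit 152) (nat_lit 0) (XT.nd (nat_lit 156) (nat_lit 76) (nat_lit 0) (XT.nd (nat_lit 78) (nat_lit 76) (nat_lit 0) (XT.lf (nat_lit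 0) (nat_lit 17092045888) (nat_lit 228) (nat_lit 8286617020) (nat_lit 76) (nat_lit 16425876666) (nat_lit 13) (nat_lit 5) (nat_lit 16) (nat_lit 5) (nat_lit 14) (nat_lit 4) (nat_lit 308) (nat_lit 239) (nat_lit 173)) (XT.lf (nat_lit 0) (nat_lit 6109132675) (nat_lit 76) (nat_lit 18116371916) (nat_lit 152) (nat_lit 19409902743) (nat_lit 12) (nat_lit 5) (nat_lit 13) (nat_lit 5) (nat_lit 14) (nat_lit 4) (nat_lit 309) (nat_lit 239) (nat_lit 172))) (XT.nd (nat_lit 78) (nat_lit 76) (nat_lit 0) (XT.lf (nat_lit 0) (nat_lit 21346288731) (nat_lit 76) (nat_lit 10425162532) (nat_lit 152) (nat_lit 13784712722) (nat_lit 12) (nat_lit 5) (nat_lit 13) (nat_lit 5) (nat_lit 14) (nat_lit 4) (nat_lit 310) (nat_lit 239) (nat_lit 171)) (XT.nd (nat_lit 78) (nat_lit 76) (nat_lit 0) (XT.lf (nat_lit 0) (nat_lit 37296210163) (nat_lit 76) (nat_lit 2370400936) (nat_lit 152) (nat_lit 7907208897) (nat_lit 12) (nat_lit 5) (nat_lit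 13) (nat_lit 5) (nat_lit 14) (nat_lit 4) (nat_lit 311) (nat_lit 239) (nat_lit 170)) (XT.lf (nat_lit 0) (nat_lit 4329864321) (nat_lit 76) (nat_lit 43699859673) (nat_lit 76) (nat_lit 1660457062) (nat_lit 11) (nat_lit 4) (nat_lit 12) (nat_lit 5) (nat_lit 12) (nat_lit 4) (nat_lit 312) (nat_lit 239) (nat_lit 169))))) (XT.nd (nat_lit 234) (nat_lit 76) (nat_lit 0) (XT.nd (nat_lit 78) (nat_lit 0) (nat_lit 0) (XT.lf (nat_lit 0) (nat_lit 4907439813) (nat_lit 152) (nat_lit 32145329673) (nat_lit 76) (nat_lit 14855062834) (nat_lit 10) (nat_lit 5) (nat_lit 12) (nat_lit 5) (nat_lit 11) (nat_lit 4) (nat_lit 313) (nat_lit 239) (nat_lit 168)) (XT.nd (nat_lit 78) (nat_lit 0) (nat_lit 0) (XT.lf (nat_lit 0) (nat_lit 11744591808) (nat_lit 152) (nat_lit 18330701489) (nat_lit 76) (nat_lit 24161339551) (nat_lit 10) (nat_lit 5) (nat_lit 12) (nat_lit 5) (nat_lit 11) (nat_lit 4) (nat_lit 314) (nat_lit 239) (nat_lit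 167)) (XT.lf (nat_lit 0) (nat_lit 18899679353) (nat_lit 152) (nat_lit 3867578883) (nat_lit 76) (nat_lit 33915348007) (nat_lit 10) (nat_lit 5) (nat_lit 12) (nat_lit 5) (nat_lit 11) (nat_lit 4) (nat_lit 315) (nat_lit 239) (nat_lit 166)))) (XT.nd (nat_lit 78) (nat_lit 0) (nat_lit 0) (XT.lf (nat_lit 0) (nat_lit 11502937901) (nat_lit 76) (nat_lit 14997373745) (nat_lit 152) (nat_lit 32747947407) (nat_lit 9) (nat_lit 5) (nat_lit 10) (nat_lit 5) (nat_lit 11) (nat_lit 4) (nat_lit 316) (nat_lit 239) (nat_lit 165)) (XT.nd (nat_lit 78) (nat_lit 0) (nat_lit 0) (XT.lf (nat_lit 0) (nat_lit 27683728909) (nat_lit 76) (nat_lit 6814986364) (nat_lit 152) (nat_lit 27442960807) (nat_lit 9) (nat_lit 5) (nat_lit 10) (nat_lit 5) (nat_lit 11) (nat_lit 4) (nat_lit 317) (nat_lit 239) (nat_lit 164)) (XT.lf (nat_lit 0) (nat_lit 42892937987) (nat_lit 152) (nat_lit 20150981692) (nat_lit 0) (nat_lit 1725980424) (nat_lit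 9) (nat_lit 5) (nat_lit 11) (nat_lit 4) (nat_lit 9) (nat_lit 4) (nat_lit 318) (nat_lit 239) (nat_lit 163))))))) (XT.nd (nat_lit 858) (nat_lit 76) (nat_lit 0) (XT.nd (nat_lit 390) (nat_lit 76) (nat_lit 0) (XT.nd (nat_lit 156) (nat_lit 76) (nat_lit 0) (XT.nd (nat_lit 78) (nat_lit 76) (nat_lit 0) (XT.lf (nat_lit 0) (nat_lit 51755487531) (nat_lit 152) (nat_lit 5443358200) (nat_lit 0) (nat_lit 10539243612) (nat_lit 9) (nat_lit 5) (nat_lit 11) (nat_lit 4) (nat_lit 9) (nat_lit 4) (nat_lit 319) (nat_lit 239) (nat_lit 162)) (XT.lf (nat_lit 0) (nat_lit 10163783293) (nat_lit 76) (nat_lit 50975872606) (nat_lit 76) (nat_lit 9712689300) (nat_lit 8) (nat_lit 4) (nat_lit 9) (nat_lit 5) (nat_lit 9) (nat_lit 4) (nat_lit 320) (nat_lit 239) (nat_lit 161))) (XT.nd (nat_lit 78) (nat_lit 76) (nat_lit 0) (XT.lf (nat_lit 0) (nat_lit 26631817043) (nat_lit 76) (nat_lit 44398636495) (nat_lit 76) (nat_lit 3090749010)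 (nat_lit 8) (nat_lit 4) (nat_lit 9) (nat_lit 5) (nat_lit 9) (nat_lit 4) (nat_lit 321) (nat_lit 239) (nat_lit 160)) (XT.nd (nat_lit 78) (nat_lit 0) (nat_lit 0) (XT.lf (nat_lit 0) (nat_lit 3769007692) (nat_lit 152) (nat_lit 33699377276) (nat_lit 76) (nat_lit 40084551874) (nat_lit 7) (nat_lit 5) (nat_lit 9) (nat_lit 5) (nat_lit 8) (nat_lit 4) (nat_lit 322) (nat_lit 239) (nat_lit 159)) (XT.lf (nat_lit 0) (nat_lit 10891364578) (nat_lit 152) (nat_lit 19281540804) (nat_lit 76) (nat_lit 50982938384) (nat_lit 7) (nat_lit 5) (nat_lit 9) (nat_lit 5) (nat_lit 8) (nat_lit 4) (nat_lit 323) (nat_lit 239) (nat_lit 158))))) (XT.nd (nat_lit 234) (nat_lit 0) (nat_lit 0) (XT.nd (nat_lit 78) (nat_lit 76) (nat_lit 0) (XT.lf (nat_lit 0) (nat_lit 18353591286) (nat_lit 152) (nat_lit 4171837736) (nat_lit 76) (nat_lit 62413963955) (nat_lit 7) (nat_lit 5) (nat_lit 9) (nat_lit 5) (nat_lit 8) (nat_lit 4) (nat_lit 324)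 (nat_lit 239) (nat_lit 157)) (XT.nd (nat_lit 78) (nat_lit 0) (nat_lit 0) (XT.lf (nat_lit 0) (nat_lit 11897877861) (nat_lit 76) (nat_lit 14389946841) (nat_lit 152) (nat_lit 62621337133) (nat_lit 6) (nat_lit 5) (nat_lit 7) (nat_lit 5) (nat_lit 8) (nat_lit 4) (nat_lit 325) (nat_lit 239) (nat_lit 156)) (XT.lf (nat_lit 0) (nat_lit 28831407686) (nat_lit 76) (nat_lit 5815311951) (nat_lit 152) (nat_lit 58429869619) (nat_lit 6) (nat_lit 5) (nat_lit 7) (nat_lit 5) (nat_lit 8) (nat_lit 4) (nat_lit 326) (nat_lit 239) (nat_lit 155)))) (XT.nd (nat_lit 78) (nat_lit 0) (nat_lit 0) (XT.lf (nat_lit 0) (nat_lit 43439814852) (nat_lit 152) (nat_lit 50897319783) (nat_lit 0) (nat_lit 3114773954) (nat_lit 6) (nat_lit 5) (nat_lit 8) (nat_lit 4) (nat_lit 6) (nat_lit 4) (nat_lit 327) (nat_lit 239) (nat_lit 154)) (XT.nd (nat_lit 78) (nat_lit 0) (nat_lit 0) (XT.lf (nat_lit 0) (nat_lit 52717555418) (nat_lit 152) (nat_lit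 36965427120) (nat_lit 0) (nat_lit 12361669447) (nat_lit 6) (nat_lit 5) (nat_lit 8) (nat_lit 4) (nat_lit 6) (nat_lit 4) (nat_lit 328) (nat_lit 239) (nat_lit 153)) (XT.lf (nat_lit 0) (nat_lit 62446130859) (nat_lit 152) (nat_lit 22360432073) (nat_lit 0) (nat_lit 22060868628) (nat_lit 6) (nat_lit 5) (nat_lit 8) (nat_lit 4) (nat_lit 6) (nat_lit 4) (nat_lit 329) (nat_lit 239) (nat_lit 152)))))) (XT.nd (nat_lit 30732) (nat_lit 0) (nat_lit 19228) (XT.nd (nat_lit 30498) (nat_lit 0) (nat_lit 21052) (XT.nd (nat_lit 78) (nat_lit 76) (nat_lit 0) (XT.lf (nat_lit 0) (nat_lit 72648704448) (nat_lit 152) (nat_lit 7047560844) (nat_lit 0) (nat_lit 32235464828) (nat_lit 6) (nat_lit 5) (nat_lit 8) (nat_lit 4) (nat_lit 6) (nat_lit 4) (nat_lit 330) (nat_lit 239) (nat_lit 151)) (XT.lf (nat_lit 0) (nat_lit 9188955400) (nat_lit 76) (nat_lit 74248942488) (nat_lit 76) (nat_lit 33809057735) (nat_lit 5) (nat_lit 4) (nat_lit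 6) (nat_lit 5) (nat_lit 6) (nat_lit 4) (nat_lit 331) (nat_lit 239) (nat_lit 150))) (XT.nd (nat_lit 78) (nat_lit 228) (nat_lit 0) (XT.lf (nat_lit 0) (nat_lit 1073741823) (nat_lit 0) (nat_lit 0) (nat_lit 0) (nat_lit 0) (nat_lit 285) (nat_lit 0) (nat_lit 1) (nat_lit 0) (nat_lit 1) (nat_lit 0) (nat_lit 240) (nat_lit 240) (nat_lit 240)) (XT.nd (nat_lit 78) (nat_lit 152) (nat_lit 0) (XT.lf (nat_lit 0) (nat_lit 4673021279) (nat_lit 76) (nat_lit 1650744828) (nat_lit 0) (nat_lit 122401168) (nat_lit 284) (nat_lit 5) (nat_lit 285) (nat_lit 0) (nat_lit 284) (nat_lit 4) (nat_lit 241) (nat_lit 240) (nat_lit 239)) (XT.lf (nat_lit 0) (nat_lit 2798789381) (nat_lit 152) (nat_lit 3203001582) (nat_lit 76) (nat_lit 456534987) (nat_lit 282) (nat_lit 5) (nat_lit 284) (nat_lit 5) (nat_lit 283) (nat_lit 4) (nat_lit 242) (nat_lit 240) (nat_lit 238))))) (XT.nd (nat_lit 234) (nat_lit 1292) (nat_lit 0) (XT.nd (nat_lit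 78) (nat_lit 304) (nat_lit 0) (XT.lf (nat_lit 0) (nat_lit 813515177) (nat_lit 228) (nat_lit 4662194074) (nat_lit 76) (nat_lit 1003245222) (nat_lit 279) (nat_lit 5) (nat_lit 282) (nat_lit 5) (nat_lit 280) (nat_lit 5) (nat_lit 243) (nat_lit 240) (nat_lit 237)) (XT.nd (nat_lit 78) (nat_lit 76) (nat_lit 0) (XT.lf (nat_lit 0) (nat_lit 461541513) (nat_lit 228) (nat_lit 4731178441) (nat_lit 304) (nat_lit 1315000746) (nat_lit 276) (nat_lit 5) (nat_lit 279) (nat_lit 5) (nat_lit 280) (nat_lit 5) (nat_lit 244) (nat_lit 240) (nat_lit 236)) (XT.lf (nat_lit 0) (nat_lit 2965967707) (nat_lit 304) (nat_lit 795911155) (nat_lit 76) (nat_lit 2782681820) (nat_lit 275) (nat_lit 5) (nat_lit 279) (nat_lit 5) (nat_lit 276) (nat_lit 5) (nat_lit 245) (nat_lit 240) (nat_lit 235)))) (XT.nd (nat_lit 78) (nat_lit 912) (nat_lit 0) (XT.lf (nat_lit 0) (nat_lit 617179246) (nat_lit 380) (nat_lit 1960744123) (nat_lit 76) (nat_lit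 4012000535) (nat_lit 270) (nat_lit 5) (nat_lit 275) (nat_lit 5) (nat_lit 271) (nat_lit 5) (nat_lit 246) (nat_lit 240) (nat_lit 234)) (XT.nd (nat_lit 78) (nat_lit 532) (nat_lit 0) (XT.lf (nat_lit 0) (nat_lit 3578619260) (nat_lit 380) (nat_lit 1162064799) (nat_lit 456) (nat_lit 1902814074) (nat_lit 265) (nat_lit 5) (nat_lit 270) (nat_lit 5) (nat_lit 271) (nat_lit 5) (nat_lit 247) (nat_lit 240) (nat_lit 233)) (XT.lf (nat_lit 0) (nat_lit 2130334244) (nat_lit 532) (nat_lit 4106568439) (nat_lit 76) (nat_lit 468692177) (nat_lit 258) (nat_lit 5) (nat_lit 265) (nat_lit 5) (nat_lit 259) (nat_lit 5) (nat_lit 248) (nat_lit 240) (nat_lit 232))))))))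
noncomputable def xc50 : XT := (XT.nd (nat_lit 1716) (nat_lit 4332) (nat_lit 0) (XT.nd (nat_lit 858) (nat_lit 4712) (nat_lit 0) (XT.nd (nat_lit 390) (nat_lit 5624) (nat_lit 0) (XT.nd (nat_lit 156) (nat_lit 1596) (nat_lit 0) (XT.nd (nat_lit 78) (nat_lit 684) (nat_lit 0) (XT.lf (nat_lit 0) (nat_lit 1677136534) (nat_lit 532) (nat_lit 4475567169) (nat_lit 608) (nat_lit 623393196) (nat_lit 251) (nat_lit 5) (nat_lit 258) (nat_lit 5) (nat_lit 259) (nat_lit 5) (nat_lit 249) (nat_lit 240) (nat_lit 231)) (XT.lf (nat_lit 0) (nat_lit 803271188) (nat_lit 608) (nat_lit 2477964479) (nat_lit 684) (nat_lit 3573774745) (nat_lit 242) (nat_lit 5) (nat_lit 250) (nat_lit 5) (nat_lit 251) (nat_lit 5) (nat_lit 250) (nat_lit 240) (nat_lit 230))) (XT.nd (nat_lit 78) (nat_lit 1520) (nat_lit 0) (XT.lf (nat_lit 0) (nat_lit 255256121) (nat_lit 684) (nat_lit 5313446) (nat_lit 76) (nat_lit 6682572104) (nat_lit 241) (nat_lit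 5) (nat_lit 250) (nat_lit 5) (nat_lit 242) (nat_lit 5) (nat_lit 251) (nat_lit 240) (nat_lit 229)) (XT.nd (nat_lit 78) (nat_lit 836) (nat_lit 0) (XT.lf (nat_lit 0) (nat_lit 4074681542) (nat_lit 760) (nat_lit 788617920) (nat_lit 76) (nat_lit 2175681019) (nat_lit 232) (nat_lit 5) (nat_lit 242) (nat_lit 5) (nat_lit 233) (nat_lit 5) (nat_lit 252) (nat_lit 240) (nat_lit 228)) (XT.lf (nat_lit 0) (nat_lit 781363307) (nat_lit 836) (nat_lit 1525543076) (nat_lit 76) (nat_lit 4837308648) (nat_lit 221) (nat_lit 5) (nat_lit 232) (nat_lit 5) (nat_lit 222) (nat_lit 5) (nat_lit 253) (nat_lit 240) (nat_lit 227))))) (XT.nd (nat_lit 234) (nat_lit 2812) (nat_lit 0) (XT.nd (nat_lit 78) (nat_lit 1976) (nat_lit 0) (XT.lf (nat_lit 0) (nat_lit 4519982714) (nat_lit 912) (nat_lit 2246740522) (nat_lit 76) (nat_lit 491580870) (nat_lit 210) (nat_lit 5) (nat_lit 222) (nat_lit 5) (nat_lit 211) (nat_lit 5) (nat_lit 254)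 (nat_lit 240) (nat_lit 226)) (XT.nd (nat_lit 78) (nat_lit 988) (nat_lit 0) (XT.lf (nat_lit 0) (nat_lit 940119685) (nat_lit 988) (nat_lit 2959616053) (nat_lit 76) (nat_lit 3481694974) (nat_lit 197) (nat_lit 5) (nat_lit 210) (nat_lit 5) (nat_lit 198) (nat_lit 5) (nat_lit 255) (nat_lit 240) (nat_lit 225)) (XT.lf (nat_lit 0) (nat_lit 3847019207) (nat_lit 988) (nat_lit 778137515) (nat_lit 1064) (nat_lit 2888789427) (nat_lit 184) (nat_lit 5) (nat_lit 197) (nat_lit 5) (nat_lit 198) (nat_lit 5) (nat_lit 256) (nat_lit 240) (nat_lit 224)))) (XT.nd (nat_lit 78) (nat_lit 1672) (nat_lit 0) (XT.lf (nat_lit 0) (nat_lit 735770181) (nat_lit 1140) (nat_lit 4382091735) (nat_lit 76) (nat_lit 2538050948) (nat_lit 169) (nat_lit 5) (nat_lit 184) (nat_lit 5) (nat_lit 170) (nat_lit 5) (nat_lit 257) (nat_lit 240) (nat_lit 223)) (XT.nd (nat_lit 78) (nat_lit 608) (nat_lit 0) (XT.lf (nat_lit 0) (nat_lit 2688251516)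 (nat_lit 1064) (nat_lit 1696441413) (nat_lit 1140) (nat_lit 3422714851) (nat_lit 155) (nat_lit 5) (nat_lit 169) (nat_lit 5) (nat_lit 170) (nat_lit 5) (nat_lit 258) (nat_lit 240) (nat_lit 222)) (XT.lf (nat_lit 0) (nat_lit 164676654) (nat_lit 608) (nat_lit 5871863801) (nat_lit 76) (nat_lit 1932612243) (nat_lit 147) (nat_lit 5) (nat_lit 155) (nat_lit 5) (nat_lit 148) (nat_lit 5) (nat_lit 259) (nat_lit 240) (nat_lit 221)))))) (XT.nd (nat_lit 390) (nat_lit 2508) (nat_lit 0) (XT.nd (nat_lit 156) (nat_lit 1140) (nat_lit 0) (XT.nd (nat_lit 78) (nat_lit 532) (nat_lit 0) (XT.lf (nat_lit 0) (nat_lit 1459682908) (nat_lit 532) (nat_lit 2327493609) (nat_lit 608) (nat_lit 4353325548) (nat_lit 140) (nat_lit 5) (nat_lit 147) (nat_lit 5) (nat_lit 148) (nat_lit 5) (nat_lit 260) (nat_lit 240) (nat_lit 220)) (XT.lf (nat_lit 0) (nat_lit 800890205) (nat_lit 532) (nat_lit 6721223544) (nat_lit 608) (nat_lit 800679710)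 (nat_lit 133) (nat_lit 5) (nat_lit 140) (nat_lit 5) (nat_lit 141) (nat_lit 5) (nat_lit 261) (nat_lit 240) (nat_lit 219))) (XT.nd (nat_lit 78) (nat_lit 532) (nat_lit 0) (XT.lf (nat_lit 0) (nat_lit 73647984) (nat_lit 532) (nat_lit 2743956489) (nat_lit 608) (nat_lit 5697685196) (nat_lit 125) (nat_lit 5) (nat_lit 132) (nat_lit 5) (nat_lit 133) (nat_lit 5) (nat_lit 262) (nat_lit 240) (nat_lit 218)) (XT.nd (nat_lit 78) (nat_lit 532) (nat_lit 0) (XT.lf (nat_lit 0) (nat_lit 6549345078) (nat_lit 608) (nat_lit 691025313) (nat_lit 76) (nat_lit 1478605877) (nat_lit 125) (nat_lit 5) (nat_lit 133) (nat_lit 5) (nat_lit 126) (nat_lit 5) (nat_lit 263) (nat_lit 240) (nat_lit 217)) (XT.lf (nat_lit 0) (nat_lit 1466987218) (nat_lit 532) (nat_lit 1536436322) (nat_lit 76) (nat_lit 5930373314) (nat_lit 118) (nat_lit 5) (nat_lit 125) (nat_lit 5) (nat_lit 119) (nat_lit 5) (nat_lit 264) (nat_lit 240) (nat_lit 216)))))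 (XT.nd (nat_lit 234) (nat_lit 1140) (nat_lit 0) (XT.nd (nat_lit 78) (nat_lit 912) (nat_lit 0) (XT.lf (nat_lit 0) (nat_lit 5194573989) (nat_lit 532) (nat_lit 2471537634) (nat_lit 76) (nat_lit 1494225584) (nat_lit 112) (nat_lit 5) (nat_lit 119) (nat_lit 5) (nat_lit 113) (nat_lit 5) (nat_lit 265) (nat_lit 240) (nat_lit 215)) (XT.nd (nat_lit 78) (nat_lit 532) (nat_lit 0) (XT.lf (nat_lit 0) (nat_lit 5894223302) (nat_lit 380) (nat_lit 3189316848) (nat_lit 456) (nat_lit 315646277) (nat_lit 107) (nat_lit 5) (nat_lit 112) (nat_lit 5) (nat_lit 113) (nat_lit 5) (nat_lit 266) (nat_lit 240) (nat_lit 214)) (XT.lf (nat_lit 0) (nat_lit 3412737693) (nat_lit 532) (nat_lit 4670334891) (nat_lit 76) (nat_lit 1567173982) (nat_lit 100) (nat_lit 5) (nat_lit 107) (nat_lit 5) (nat_lit 101) (nat_lit 5) (nat_lit 267) (nat_lit 240) (nat_lit 213)))) (XT.nd (nat_lit 78) (nat_lit 760) (nat_lit 0) (XT.lf (nat_lit 0) (nat_lit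 3942986766) (nat_lit 380) (nat_lit 3364248112) (nat_lit 456) (nat_lit 2607148588) (nat_lit 95) (nat_lit 5) (nat_lit 100) (nat_lit 5) (nat_lit 101) (nat_lit 5) (nat_lit 268) (nat_lit 240) (nat_lit 212)) (XT.nd (nat_lit 78) (nat_lit 304) (nat_lit 0) (XT.lf (nat_lit 0) (nat_lit 1155118357) (nat_lit 456) (nat_lit 7418024934) (nat_lit 76) (nat_lit 1619208370) (nat_lit 89) (nat_lit 5) (nat_lit 95) (nat_lit 5) (nat_lit 90) (nat_lit 5) (nat_lit 269) (nat_lit 240) (nat_lit 211)) (XT.lf (nat_lit 0) (nat_lit 1421485216) (nat_lit 304) (nat_lit 3626887343) (nat_lit 380) (nat_lit 5435347289) (nat_lit 85) (nat_lit 5) (nat_lit 89) (nat_lit 5) (nat_lit 90) (nat_lit 5) (nat_lit 270) (nat_lit 240) (nat_lit 210))))))) (XT.nd (nat_lit 858) (nat_lit 1748) (nat_lit 0) (XT.nd (nat_lit 390) (nat_lit 1140) (nat_lit 0) (XT.nd (nat_lit 156) (nat_lit 988) (nat_lit 0) (XT.nd (nat_lit 78) (nat_lit 456) (nat_lit 0) (XT.lf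 (nat_lit 0) (nat_lit 9118802300) (nat_lit 380) (nat_lit 89304748) (nat_lit 76) (nat_lit 1582245246) (nat_lit 85) (nat_lit 5) (nat_lit 90) (nat_lit 5) (nat_lit 86) (nat_lit 5) (nat_lit 271) (nat_lit 240) (nat_lit 209)) (XT.lf (nat_lit 0) (nat_lit 2257947536) (nat_lit 456) (nat_lit 1793269205) (nat_lit 76) (nat_lit 7059940023) (nat_lit 79) (nat_lit 5) (nat_lit 85) (nat_lit 5) (nat_lit 80) (nat_lit 5) (nat_lit 272) (nat_lit 240) (nat_lit 208))) (XT.nd (nat_lit 78) (nat_lit 684) (nat_lit 0) (XT.lf (nat_lit 0) (nat_lit 6336876413) (nat_lit 380) (nat_lit 3713984191) (nat_lit 76) (nat_lit 1397169345) (nat_lit 75) (nat_lit 5) (nat_lit 80) (nat_lit 5) (nat_lit 76) (nat_lit 5) (nat_lit 273) (nat_lit 240) (nat_lit 207)) (XT.nd (nat_lit 78) (nat_lit 380) (nat_lit 0) (XT.lf (nat_lit 0) (nat_lit 5913956989) (nat_lit 304) (nat_lit 4723542586) (nat_lit 380) (nat_lit 1163858392) (nat_lit 71) (nat_lit 5)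 (nat_lit 75) (nat_lit 5) (nat_lit 76) (nat_lit 5) (nat_lit 274) (nat_lit 240) (nat_lit 206)) (XT.lf (nat_lit 0) (nat_lit 2910967173) (nat_lit 380) (nat_lit 8338209512) (nat_lit 76) (nat_lit 922798936) (nat_lit 66) (nat_lit 5) (nat_lit 71) (nat_lit 5) (nat_lit 67) (nat_lit 5) (nat_lit 275) (nat_lit 240) (nat_lit 205))))) (XT.nd (nat_lit 234) (nat_lit 532) (nat_lit 0) (XT.nd (nat_lit 78) (nat_lit 304) (nat_lit 0) (XT.lf (nat_lit 0) (nat_lit 1441473918) (nat_lit 304) (nat_lit 5753684951) (nat_lit 380) (nat_lit 5364855197) (nat_lit 62) (nat_lit 5) (nat_lit 66) (nat_lit 5) (nat_lit 67) (nat_lit 5) (nat_lit 276) (nat_lit 240) (nat_lit 204)) (XT.nd (nat_lit 78) (nat_lit 304) (nat_lit 0) (XT.lf (nat_lit 0) (nat_lit 11689991634) (nat_lit 380) (nat_lit 1211545606) (nat_lit 76) (nat_lit 66144689) (nat_lit 62) (nat_lit 5) (nat_lit 67) (nat_lit 5) (nat_lit 63) (nat_lit 5) (nat_lit 277) (nat_lit 240)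 (nat_lit 203)) (XT.lf (nat_lit 0) (nat_lit 3015795291) (nat_lit 304) (nat_lit 4235436289) (nat_lit 76) (nat_lit 6141920652) (nat_lit 58) (nat_lit 5) (nat_lit 62) (nat_lit 5) (nat_lit 59) (nat_lit 5) (nat_lit 278) (nat_lit 240) (nat_lit 202)))) (XT.nd (nat_lit 78) (nat_lit 304) (nat_lit 0) (XT.lf (nat_lit 0) (nat_lit 6217462379) (nat_lit 228) (nat_lit 1268581658) (nat_lit 304) (nat_lit 6353923161) (nat_lit 55) (nat_lit 5) (nat_lit 58) (nat_lit 5) (nat_lit 59) (nat_lit 5) (nat_lit 279) (nat_lit 240) (nat_lit 201)) (XT.nd (nat_lit 78) (nat_lit 76) (nat_lit 0) (XT.lf (nat_lit 0) (nat_lit 2860129988) (nat_lit 228) (nat_lit 9357802317) (nat_lit 304) (nat_lit 2090147806) (nat_lit 52) (nat_lit 5) (nat_lit 55) (nat_lit 5) (nat_lit 56) (nat_lit 5) (nat_lit 280) (nat_lit 240) (nat_lit 200)) (XT.lf (nat_lit 0) (nat_lit 2352583728) (nat_lit 304) (nat_lit 926561938) (nat_lit 76) (nat_lit 11519487815)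 (nat_lit 51) (nat_lit 5) (nat_lit 55) (nat_lit 5) (nat_lit 52) (nat_lit 5) (nat_lit 281) (nat_lit 240) (nat_lit 199)))))) (XT.nd (nat_lit 390) (nat_lit 836) (nat_lit 0) (XT.nd (nat_lit 156) (nat_lit 456) (nat_lit 0) (XT.nd (nat_lit 78) (nat_lit 228) (nat_lit 0) (XT.lf (nat_lit 0) (nat_lit 7027274189) (nat_lit 304) (nat_lit 5157923234) (nat_lit 76) (nat_lit 3126393718) (nat_lit 48) (nat_lit 5) (nat_lit 52) (nat_lit 5) (nat_lit 49) (nat_lit 5) (nat_lit 282) (nat_lit 240) (nat_lit 198)) (XT.lf (nat_lit 0) (nat_lit 5927847138) (nat_lit 228) (nat_lit 6033858094) (nat_lit 304) (nat_lit 3887795987) (nat_lit 45) (nat_lit 5) (nat_lit 48) (nat_lit 5) (nat_lit 49) (nat_lit 5) (nat_lit 283) (nat_lit 240) (nat_lit 197))) (XT.nd (nat_lit 78) (nat_lit 152) (nat_lit 0) (XT.lf (nat_lit 0) (nat_lit 711586457) (nat_lit 304) (nat_lit 15250877827) (nat_lit 76) (nat_lit 451793189) (nat_lit 41) (nat_lit 5) (nat_lit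 45) (nat_lit 5) (nat_lit 42) (nat_lit 5) (nat_lit 284) (nat_lit 240) (nat_lit 196)) (XT.nd (nat_lit 78) (nat_lit 152) (nat_lit 0) (XT.lf (nat_lit 0) (nat_lit 5555340170) (nat_lit 304) (nat_lit 4204280553) (nat_lit 76) (nat_lit 7243706396) (nat_lit 41) (nat_lit 5) (nat_lit 45) (nat_lit 5) (nat_lit 42) (nat_lit 5) (nat_lit 285) (nat_lit 240) (nat_lit 195)) (XT.lf (nat_lit 0) (nat_lit 7435998644) (nat_lit 152) (nat_lit 3210108192) (nat_lit 228) (nat_lit 6975669702) (nat_lit 39) (nat_lit 5) (nat_lit 41) (nat_lit 5) (nat_lit 42) (nat_lit 5) (nat_lit 286) (nat_lit 240) (nat_lit 194))))) (XT.nd (nat_lit 234) (nat_lit 380) (nat_lit 0) (XT.nd (nat_lit 78) (nat_lit 228) (nat_lit 0) (XT.lf (nat_lit 0) (nat_lit 1364825737) (nat_lit 228) (nat_lit 14653863764) (nat_lit 304) (nat_lit 2251708266) (nat_lit 36) (nat_lit 5) (nat_lit 39) (nat_lit 5) (nat_lit 40) (nat_lit 5) (nat_lit 287) (nat_lit 240) (nat_lit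 193)) (XT.nd (nat_lit 78) (nat_lit 152) (nat_lit 0) (XT.lf (nat_lit 0) (nat_lit 2730539282) (nat_lit 304) (nat_lit 5402782218) (nat_lit 76) (nat_lit 10815161875) (nat_lit 35) (nat_lit 5) (nat_lit 39) (nat_lit 5) (nat_lit 36) (nat_lit 5) (nat_lit 288) (nat_lit 240) (nat_lit 192)) (XT.lf (nat_lit 0) (nat_lit 6686889853) (nat_lit 152) (nat_lit 1232816257) (nat_lit 228) (nat_lit 11740026646) (nat_lit 33) (nat_lit 5) (nat_lit 35) (nat_lit 5) (nat_lit 36) (nat_lit 5) (nat_lit 289) (nat_lit 240) (nat_lit 191)))) (XT.nd (nat_lit 78) (nat_lit 380) (nat_lit 0) (XT.lf (nat_lit 0) (nat_lit 13423602125) (nat_lit 228) (nat_lit 1064012102) (nat_lit 76) (nat_lit 5917329005) (nat_lit 33) (nat_lit 5) (nat_lit 36) (nat_lit 5) (nat_lit 34) (nat_lit 5) (nat_lit 290) (nat_lit 240) (nat_lit 190)) (XT.nd (nat_lit 78) (nat_lit 228) (nat_lit 0) (XT.lf (nat_lit 0) (nat_lit 11563233421) (nat_lit 152) (nat_lit 7707155901)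 (nat_lit 228) (nat_lit 1915048065) (nat_lit 31) (nat_lit 5) (nat_lit 33) (nat_lit 5) (nat_lit 34) (nat_lit 5) (nat_lit 291) (nat_lit 240) (nat_lit 189)) (XT.lf (nat_lit 0) (nat_lit 2771927703) (nat_lit 152) (nat_lit 549237619) (nat_lit 228) (nat_lit 18683367876) (nat_lit 28) (nat_lit 5) (nat_lit 30) (nat_lit 5) (nat_lit 31) (nat_lit 5) (nat_lit 292) (nat_lit 240) (nat_lit 188))))))))
noncomputable def xc51 : XT := (XT.nd (nat_lit 1716) (nat_lit 304) (nat_lit 0) (XT.nd (nat_lit 858) (nat_lit 532) (nat_lit 0) (XT.nd (nat_lit 390) (nat_lit 456) (nat_lit 0) (XT.nd (nat_lit 156) (nat_lit 228) (nat_lit 0) (XT.nd (nat_lit 78) (nat_lit 152) (nat_lit 0) (XT.lf (nat_lit 0) (nat_lit 8893738934) (nat_lit 228) (nat_lit 7049592125) (nat_lit 76) (nat_lit 6917306839) (nat_lit 28) (nat_lit 5) (nat_lit 31) (nat_lit 5) (nat_lit 29) (nat_lit 5) (nat_lit 293) (nat_lit 240) (nat_lit 187)) (XT.lf (nat_lit 0) (nat_lit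 5766171039) (nat_lit 152) (nat_lit 8989063359) (nat_lit 228) (nat_lit 9004049968) (nat_lit 26) (nat_lit 5) (nat_lit 28) (nat_lit 5) (nat_lit 29) (nat_lit 5) (nat_lit 294) (nat_lit 240) (nat_lit 186))) (XT.nd (nat_lit 78) (nat_lit 228) (nat_lit 0) (XT.lf (nat_lit 0) (nat_lit 19289052009) (nat_lit 152) (nat_lit 1644278348) (nat_lit 228) (nat_lit 3768870199) (nat_lit 26) (nat_lit 5) (nat_lit 28) (nat_lit 5) (nat_lit 29) (nat_lit 5) (nat_lit 295) (nat_lit 240) (nat_lit 185)) (XT.nd (nat_lit 78) (nat_lit 0) (nat_lit 0) (XT.lf (nat_lit 0) (nat_lit 1781579544) (nat_lit 228) (nat_lit 17895536344) (nat_lit 76) (nat_lit 6012071293) (nat_lit 23) (nat_lit 5) (nat_lit 26) (nat_lit 5) (nat_lit 24) (nat_lit 5) (nat_lit 296) (nat_lit 240) (nat_lit 184)) (XT.lf (nat_lit 0) (nat_lit 7559219510) (nat_lit 228) (nat_lit 5082119121) (nat_lit 76) (nat_lit 14082274643) (nat_lit 23) (nat_lit 5) (nat_lit 26) (nat_lit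 5) (nat_lit 24) (nat_lit 5) (nat_lit 297) (nat_lit 240) (nat_lit 183))))) (XT.nd (nat_lit 234) (nat_lit 228) (nat_lit 0) (XT.nd (nat_lit 78) (nat_lit 76) (nat_lit 0) (XT.lf (nat_lit 0) (nat_lit 8463805598) (nat_lit 152) (nat_lit 5199502554) (nat_lit 228) (nat_lit 14145361726) (nat_lit 21) (nat_lit 5) (nat_lit 23) (nat_lit 5) (nat_lit 24) (nat_lit 5) (nat_lit 298) (nat_lit 240) (nat_lit 182)) (XT.nd (nat_lit 78) (nat_lit 76) (nat_lit 0) (XT.lf (nat_lit 0) (nat_lit 20107897617) (nat_lit 228) (nat_lit 6251081403) (nat_lit 76) (nat_lit 2587975882) (nat_lit 21) (nat_lit 5) (nat_lit 24) (nat_lit 5) (nat_lit 22) (nat_lit 4) (nat_lit 299) (nat_lit 240) (nat_lit 181)) (XT.lf (nat_lit 0) (nat_lit 7522900103) (nat_lit 76) (nat_lit 19435973887) (nat_lit 152) (nat_lit 3180788304) (nat_lit 20) (nat_lit 5) (nat_lit 21) (nat_lit 5) (nat_lit 22) (nat_lit 4) (nat_lit 300) (nat_lit 240) (nat_lit 180)))) (XT.nd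 (nat_lit 78) (nat_lit 152) (nat_lit 0) (XT.lf (nat_lit 0) (nat_lit 2731750668) (nat_lit 152) (nat_lit 9368695294) (nat_lit 76) (nat_lit 19290036767) (nat_lit 19) (nat_lit 5) (nat_lit 21) (nat_lit 5) (nat_lit 20) (nat_lit 5) (nat_lit 301) (nat_lit 240) (nat_lit 179)) (XT.nd (nat_lit 78) (nat_lit 0) (nat_lit 0) (XT.lf (nat_lit 0) (nat_lit 4533702291) (nat_lit 152) (nat_lit 4346751792) (nat_lit 228) (nat_lit 23822284601) (nat_lit 17) (nat_lit 5) (nat_lit 19) (nat_lit 5) (nat_lit 20) (nat_lit 5) (nat_lit 302) (nat_lit 240) (nat_lit 178)) (XT.lf (nat_lit 0) (nat_lit 15433547688) (nat_lit 228) (nat_lit 14851615819) (nat_lit 76) (nat_lit 3792562823) (nat_lit 17) (nat_lit 5) (nat_lit 20) (nat_lit 5) (nat_lit 18) (nat_lit 4) (nat_lit 303) (nat_lit 240) (nat_lit 177)))))) (XT.nd (nat_lit 390) (nat_lit 228) (nat_lit 0) (XT.nd (nat_lit 156) (nat_lit 228) (nat_lit 0) (XT.nd (nat_lit 78) (nat_lit 76)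 (nat_lit 0) (XT.lf (nat_lit 0) (nat_lit 22323008233) (nat_lit 228) (nat_lit 972643162) (nat_lit 76) (nat_lit 12225576825) (nat_lit 17) (nat_lit 5) (nat_lit 20) (nat_lit 5) (nat_lit 18) (nat_lit 4) (nat_lit 304) (nat_lit 240) (nat_lit 176)) (XT.lf (nat_lit 0) (nat_lit 13812236877) (nat_lit 76) (nat_lit 15843990353) (nat_lit 152) (nat_lit 7377724394) (nat_lit 16) (nat_lit 5) (nat_lit 17) (nat_lit 5) (nat_lit 18) (nat_lit 4) (nat_lit 305) (nat_lit 240) (nat_lit 175))) (XT.nd (nat_lit 78) (nat_lit 228) (nat_lit 0) (XT.lf (nat_lit 0) (nat_lit 29300768726) (nat_lit 76) (nat_lit 8032921776) (nat_lit 152) (nat_lit 1289316987) (nat_lit 16) (nat_lit 5) (nat_lit 17) (nat_lit 5) (nat_lit 18) (nat_lit 4) (nat_lit 306) (nat_lit 240) (nat_lit 174)) (XT.nd (nat_lit 78) (nat_lit 0) (nat_lit 0) (XT.lf (nat_lit 0) (nat_lit 5025780025) (nat_lit 228) (nat_lit 35019740277) (nat_lit 76) (nat_lit 243890390) (nat_lit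 13) (nat_lit 5) (nat_lit 16) (nat_lit 5) (nat_lit 14) (nat_lit 4) (nat_lit 307) (nat_lit 240) (nat_lit 173)) (XT.lf (nat_lit 0) (nat_lit 11777764780) (nat_lit 228) (nat_lit 21398382696) (nat_lit 76) (nat_lit 8858190626) (nat_lit 13) (nat_lit 5) (nat_lit 16) (nat_lit 5) (nat_lit 14) (nat_lit 4) (nat_lit 308) (nat_lit 240) (nat_lit 172))))) (XT.nd (nat_lit 234) (nat_lit 152) (nat_lit 0) (XT.nd (nat_lit 78) (nat_lit 76) (nat_lit 0) (XT.lf (nat_lit 0) (nat_lit 18838355896) (nat_lit 228) (nat_lit 7146498417) (nat_lit 76) (nat_lit 17882547310) (nat_lit 13) (nat_lit 5) (nat_lit 16) (nat_lit 5) (nat_lit 14) (nat_lit 4) (nat_lit 309) (nat_lit 240) (nat_lit 171)) (XT.nd (nat_lit 78) (nat_lit 0) (nat_lit 0) (XT.lf (nat_lit 0) (nat_lit 7924480782) (nat_lit 76) (nat_lit 18376058481) (nat_lit 152) (nat_lit 19490141180) (nat_lit 12) (nat_lit 5) (nat_lit 13) (nat_lit 5) (nat_lit 14) (nat_lit 4) (nat_lit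 310) (nat_lit 240) (nat_lit 170)) (XT.lf (nat_lit 0) (nat_lit 23851595047) (nat_lit 76) (nat_lit 10331056819) (nat_lit 152) (nat_lit 13626084834) (nat_lit 12) (nat_lit 5) (nat_lit 13) (nat_lit 5) (nat_lit 14) (nat_lit 4) (nat_lit 311) (nat_lit 240) (nat_lit 169)))) (XT.nd (nat_lit 78) (nat_lit 152) (nat_lit 0) (XT.lf (nat_lit 0) (nat_lit 40530536746) (nat_lit 76) (nat_lit 1902860184) (nat_lit 152) (nat_lit 7495080271) (nat_lit 12) (nat_lit 5) (nat_lit 13) (nat_lit 5) (nat_lit 14) (nat_lit 4) (nat_lit 312) (nat_lit 240) (nat_lit 168)) (XT.nd (nat_lit 78) (nat_lit 76) (nat_lit 0) (XT.lf (nat_lit 0) (nat_lit 5894489489) (nat_lit 76) (nat_lit 45301192964) (nat_lit 76) (nat_lit 955568595) (nat_lit 11) (nat_lit 4) (nat_lit 12) (nat_lit 5) (nat_lit 12) (nat_lit 4) (nat_lit 313) (nat_lit 240) (nat_lit 167)) (XT.lf (nat_lit 0) (nat_lit 5888560691) (nat_lit 152) (nat_lit 32453551274) (nat_lit 76)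 (nat_lit 16138572660) (nat_lit 10) (nat_lit 5) (nat_lit 12) (nat_lit 5) (nat_lit 11) (nat_lit 4) (nat_lit 314) (nat_lit 240) (nat_lit 166))))))) (XT.nd (nat_lit 858) (nat_lit 76) (nat_lit 0) (XT.nd (nat_lit 390) (nat_lit 152) (nat_lit 0) (XT.nd (nat_lit 156) (nat_lit 76) (nat_lit 0) (XT.nd (nat_lit 78) (nat_lit 0) (nat_lit 0) (XT.lf (nat_lit 0) (nat_lit 13032534625) (nat_lit 152) (nat_lit 18010050961) (nat_lit 76) (nat_lit 25884412894) (nat_lit 10) (nat_lit 5) (nat_lit 12) (nat_lit 5) (nat_lit 11) (nat_lit 4) (nat_lit 315) (nat_lit 240) (nat_lit 165)) (XT.lf (nat_lit 0) (nat_lit 20512009250) (nat_lit 152) (nat_lit 2882685825) (nat_lit 76) (nat_lit 36101597661) (nat_lit 10) (nat_lit 5) (nat_lit 12) (nat_lit 5) (nat_lit 11) (nat_lit 4) (nat_lit 316) (nat_lit 240) (nat_lit 164))) (XT.nd (nat_lit 78) (nat_lit 0) (nat_lit 0) (XT.lf (nat_lit 0) (nat_lit 13222581868) (nat_lit 76) (nat_lit 15249314519)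 (nat_lit 152) (nat_lit 33718975267) (nat_lit 9) (nat_lit 5) (nat_lit 10) (nat_lit 5) (nat_lit 11) (nat_lit 4) (nat_lit 317) (nat_lit 240) (nat_lit 163)) (XT.nd (nat_lit 78) (nat_lit 0) (nat_lit 0) (XT.lf (nat_lit 0) (nat_lit 30157912566) (nat_lit 76) (nat_lit 6681518622) (nat_lit 152) (nat_lit 28180471219) (nat_lit 9) (nat_lit 5) (nat_lit 10) (nat_lit 5) (nat_lit 11) (nat_lit 4) (nat_lit 318) (nat_lit 240) (nat_lit 162)) (XT.lf (nat_lit 0) (nat_lit 45628383568) (nat_lit 152) (nat_lit 20106820086) (nat_lit 0) (nat_lit 2255101709) (nat_lit 9) (nat_lit 5) (nat_lit 11) (nat_lit 4) (nat_lit 9) (nat_lit 4) (nat_lit 319) (nat_lit 240) (nat_lit 161))))) (XT.nd (nat_lit 234) (nat_lit 76) (nat_lit 0) (XT.nd (nat_lit 78) (nat_lit 76) (nat_lit 0) (XT.lf (nat_lit 0) (nat_lit 54905927319) (nat_lit 152) (nat_lit 4713896881) (nat_lit 0) (nat_lit 11487941282) (nat_lit 9) (nat_lit 5) (nat_lit 11) (nat_lit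 4) (nat_lit 9) (nat_lit 4) (nat_lit 320) (nat_lit 240) (nat_lit 160)) (XT.nd (nat_lit 78) (nat_lit 0) (nat_lit 0) (XT.lf (nat_lit 0) (nat_lit 11644890186) (nat_lit 76) (nat_lit 53096972609) (nat_lit 76) (nat_lit 9636411165) (nat_lit 8) (nat_lit 4) (nat_lit 9) (nat_lit 5) (nat_lit 9) (nat_lit 4) (nat_lit 321) (nat_lit 240) (nat_lit 159)) (XT.lf (nat_lit 0) (nat_lit 28889996208) (nat_lit 76) (nat_lit 46211241055) (nat_lit 76) (nat_lit 2710131604) (nat_lit 8) (nat_lit 4) (nat_lit 9) (nat_lit 5) (nat_lit 9) (nat_lit 4) (nat_lit 322) (nat_lit 240) (nat_lit 158)))) (XT.nd (nat_lit 78) (nat_lit 0) (nat_lit 0) (XT.lf (nat_lit 0) (nat_lit 4457183846) (nat_lit 152) (nat_lit 34491643391) (nat_lit 76) (nat_lit 42466472507) (nat_lit 7) (nat_lit 5) (nat_lit 9) (nat_lit 5) (nat_lit 8) (nat_lit 4) (nat_lit 323) (nat_lit 240) (nat_lit 157)) (XT.nd (nat_lit 78) (nat_lit 0) (nat_lit 0) (XT.lf (nat_lit 0) (nat_lit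 11911862112) (nat_lit 152) (nat_lit 19395424750) (nat_lit 76) (nat_lit 53891792960) (nat_lit 7) (nat_lit 5) (nat_lit 9) (nat_lit 5) (nat_lit 8) (nat_lit 4) (nat_lit 324) (nat_lit 240) (nat_lit 156)) (XT.lf (nat_lit 0) (nat_lit 19724536855) (nat_lit 152) (nat_lit 3570721914) (nat_lit 76) (nat_lit 65877240873) (nat_lit 7) (nat_lit 5) (nat_lit 9) (nat_lit 5) (nat_lit 8) (nat_lit 4) (nat_lit 325) (nat_lit 240) (nat_lit 155)))))) (XT.nd (nat_lit 30888) (nat_lit 0) (nat_lit 19988) (XT.nd (nat_lit 234) (nat_lit 0) (nat_lit 0) (XT.nd (nat_lit 78) (nat_lit 0) (nat_lit 0) (XT.lf (nat_lit 0) (nat_lit 13279269354) (nat_lit 76) (nat_lit 14762188789) (nat_lit 152) (nat_lit 65299732133) (nat_lit 6) (nat_lit 5) (nat_lit 7) (nat_lit 5) (nat_lit 8) (nat_lit 4) (nat_lit 326) (nat_lit 240) (nat_lit 154)) (XT.nd (nat_lit 78) (nat_lit 0) (nat_lit 0) (XT.lf (nat_lit 0) (nat_lit 31022023404) (nat_lit 76) (nat_lit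 5775358125) (nat_lit 152) (nat_lit 60920247046) (nat_lit 6) (nat_lit 5) (nat_lit 7) (nat_lit 5) (nat_lit 8) (nat_lit 4) (nat_lit 327) (nat_lit 240) (nat_lit 153)) (XT.lf (nat_lit 0) (nat_lit 46013238916) (nat_lit 152) (nat_lit 52719655868) (nat_lit 0) (nat_lit 3579337315) (nat_lit 6) (nat_lit 5) (nat_lit 8) (nat_lit 4) (nat_lit 6) (nat_lit 4) (nat_lit 328) (nat_lit 240) (nat_lit 152)))) (XT.nd (nat_lit 78) (nat_lit 0) (nat_lit 0) (XT.lf (nat_lit 0) (nat_lit 55735750638) (nat_lit 152) (nat_lit 38125574757) (nat_lit 0) (nat_lit 13273871647) (nat_lit 6) (nat_lit 5) (nat_lit 8) (nat_lit 4) (nat_lit 6) (nat_lit 4) (nat_lit 329) (nat_lit 240) (nat_lit 151)) (XT.nd (nat_lit 78) (nat_lit 0) (nat_lit 0) (XT.lf (nat_lit 0) (nat_lit 65932549257) (nat_lit 152) (nat_lit 22823097754) (nat_lit 0) (nat_lit 23444025133) (nat_lit 6) (nat_lit 5) (nat_lit 8) (nat_lit 4) (nat_lit 6) (nat_lit 4) (nat_lit 330)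 (nat_lit 240) (nat_lit 150)) (XT.lf (nat_lit 0) (nat_lit 76627912867) (nat_lit 152) (nat_lit 6775790389) (nat_lit 0) (nat_lit 34114012424) (nat_lit 6) (nat_lit 5) (nat_lit 8) (nat_lit 4) (nat_lit 6) (nat_lit 4) (nat_lit 331) (nat_lit 240) (nat_lit 149))))) (XT.nd (nat_lit 234) (nat_lit 684) (nat_lit 0) (XT.nd (nat_lit 78) (nat_lit 228) (nat_lit 0) (XT.lf (nat_lit 0) (nat_lit 1344685333) (nat_lit 228) (nat_lit 941176504) (nat_lit 228) (nat_lit 941176504) (nat_lit 281) (nat_lit 3) (nat_lit 284) (nat_lit 3) (nat_lit 284) (nat_lit 5) (nat_lit 241) (nat_lit 241) (nat_lit 238)) (XT.nd (nat_lit 78) (nat_lit 0) (nat_lit 0) (XT.lf (nat_lit 0) (nat_lit 596952153) (nat_lit 228) (nat_lit 3545604542) (nat_lit 304) (nat_lit 2327904134) (nat_lit 278) (nat_lit 5) (nat_lit 281) (nat_lit 3) (nat_lit 282) (nat_lit 5) (nat_lit 242) (nat_lit 241) (nat_lit 237)) (XT.lf (nat_lit 76) (nat_lit 1361657044) (nat_lit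 0) (nat_lit 3490567699) (nat_lit 304) (nat_lit 1642658294) (nat_lit 279) (nat_lit 5) (nat_lit 278) (nat_lit 5) (nat_lit 282) (nat_lit 5) (nat_lit 243) (nat_lit 241) (nat_lit 236)))) (XT.nd (nat_lit 78) (nat_lit 380) (nat_lit 0) (XT.lf (nat_lit 0) (nat_lit 2510359864) (nat_lit 304) (nat_lit 111667338) (nat_lit 380) (nat_lit 3905602103) (nat_lit 274) (nat_lit 5) (nat_lit 278) (nat_lit 5) (nat_lit 279) (nat_lit 5) (nat_lit 244) (nat_lit 241) (nat_lit 235)) (XT.nd (nat_lit 78) (nat_lit 0) (nat_lit 0) (XT.lf (nat_lit 0) (nat_lit 57921923) (nat_lit 380) (nat_lit 1471367988) (nat_lit 456) (nat_lit 5039325242) (nat_lit 269) (nat_lit 5) (nat_lit 274) (nat_lit 5) (nat_lit 275) (nat_lit 5) (nat_lit 245) (nat_lit 241) (nat_lit 234)) (XT.lf (nat_lit 76) (nat_lit 3844173035) (nat_lit 0) (nat_lit 197563040) (nat_lit 456) (nat_lit 2575847013) (nat_lit 270) (nat_lit 5) (nat_lit 269) (nat_lit 5) (nat_lit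 275) (nat_lit 5) (nat_lit 246) (nat_lit 241) (nat_lit 233))))))))
noncomputable def xc52 : XT := (XT.nd (nat_lit 1716) (nat_lit 5092) (nat_lit 0) (XT.nd (nat_lit 858) (nat_lit 5244) (nat_lit 0) (XT.nd (nat_lit 390) (nat_lit 5472) (nat_lit 0) (XT.nd (nat_lit 156) (nat_lit 1292) (nat_lit 0) (XT.nd (nat_lit 78) (nat_lit 456) (nat_lit 0) (XT.lf (nat_lit 0) (nat_lit 1335945511) (nat_lit 456) (nat_lit 4012459669) (nat_lit 76) (nat_lit 1326535565) (nat_lit 264) (nat_lit 5) (nat_lit 270) (nat_lit 5) (nat_lit 265) (nat_lit 5) (nat_lit 247) (nat_lit 241) (nat_lit 232)) (XT.lf (nat_lit 0) (nat_lit 1542454801) (nat_lit 456) (nat_lit 3661341997) (nat_lit 532) (nat_lit 1536865310) (nat_lit 258) (nat_lit 5) (nat_lit 264) (nat_lit 5) (nat_lit 265) (nat_lit 5) (nat_lit 248) (nat_lit 241) (nat_lit 231))) (XT.nd (nat_lit 78) (nat_lit 684) (nat_lit 0) (XT.lf (nat_lit 0) (nat_lit 482024494) (nat_lit 532) (nat_lit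 1746176012) (nat_lit 608) (nat_lit 4586761124) (nat_lit 250) (nat_lit 5) (nat_lit 257) (nat_lit 5) (nat_lit 258) (nat_lit 5) (nat_lit 249) (nat_lit 241) (nat_lit 230)) (XT.nd (nat_lit 78) (nat_lit 684) (nat_lit 0) (XT.lf (nat_lit 0) (nat_lit 5990959629) (nat_lit 608) (nat_lit 512277958) (nat_lit 76) (nat_lit 394638109) (nat_lit 250) (nat_lit 5) (nat_lit 258) (nat_lit 5) (nat_lit 251) (nat_lit 5) (nat_lit 250) (nat_lit 241) (nat_lit 229)) (XT.lf (nat_lit 0) (nat_lit 2762828763) (nat_lit 684) (nat_lit 1476452693) (nat_lit 76) (nat_lit 2749441195) (nat_lit 241) (nat_lit 5) (nat_lit 250) (nat_lit 5) (nat_lit 242) (nat_lit 5) (nat_lit 251) (nat_lit 241) (nat_lit 228))))) (XT.nd (nat_lit 234) (nat_lit 3116) (nat_lit 0) (XT.nd (nat_lit 78) (nat_lit 1672) (nat_lit 0) (XT.lf (nat_lit 0) (nat_lit 4697323067) (nat_lit 684) (nat_lit 1751152420) (nat_lit 760) (nat_lit 640353983) (nat_lit 232) (nat_lit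 5) (nat_lit 241) (nat_lit 5) (nat_lit 242) (nat_lit 5) (nat_lit 252) (nat_lit 241) (nat_lit 227)) (XT.nd (nat_lit 78) (nat_lit 836) (nat_lit 0) (XT.lf (nat_lit 0) (nat_lit 2932217639) (nat_lit 836) (nat_lit 3293906236) (nat_lit 76) (nat_lit 971337692) (nat_lit 221) (nat_lit 5) (nat_lit 232) (nat_lit 5) (nat_lit 222) (nat_lit 5) (nat_lit 253) (nat_lit 241) (nat_lit 226)) (XT.lf (nat_lit 0) (nat_lit 3137300430) (nat_lit 836) (nat_lit 3420139811) (nat_lit 912) (nat_lit 757736551) (nat_lit 210) (nat_lit 5) (nat_lit 221) (nat_lit 5) (nat_lit 222) (nat_lit 5) (nat_lit 254) (nat_lit 241) (nat_lit 225)))) (XT.nd (nat_lit 78) (nat_lit 2128) (nat_lit 0) (XT.lf (nat_lit 0) (nat_lit 2387524184) (nat_lit 912) (nat_lit 357406605) (nat_lit 988) (nat_lit 4697122559) (nat_lit 197) (nat_lit 5) (nat_lit 209) (nat_lit 5) (nat_lit 210) (nat_lit 5) (nat_lit 255) (nat_lit 241) (nat_lit 224)) (XT.nd (nat_lit 78)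 (nat_lit 1140) (nat_lit 0) (XT.lf (nat_lit 0) (nat_lit 1637674246) (nat_lit 988) (nat_lit 4683273374) (nat_lit 1064) (nat_lit 1257089246) (nat_lit 184) (nat_lit 5) (nat_lit 197) (nat_lit 5) (nat_lit 198) (nat_lit 5) (nat_lit 256) (nat_lit 241) (nat_lit 223)) (XT.lf (nat_lit 0) (nat_lit 888863461) (nat_lit 1064) (nat_lit 1316696511) (nat_lit 1140) (nat_lit 5518057756) (nat_lit 169) (nat_lit 5) (nat_lit 183) (nat_lit 5) (nat_lit 184) (nat_lit 5) (nat_lit 257) (nat_lit 241) (nat_lit 222)))))) (XT.nd (nat_lit 390) (nat_lit 2432) (nat_lit 0) (XT.nd (nat_lit 156) (nat_lit 1672) (nat_lit 0) (XT.nd (nat_lit 78) (nat_lit 76) (nat_lit 0) (XT.lf (nat_lit 0) (nat_lit 123300059) (nat_lit 1064) (nat_lit 5615127872) (nat_lit 1140) (nat_lit 2140340254) (nat_lit 155) (nat_lit 5) (nat_lit 169) (nat_lit 5) (nat_lit 170) (nat_lit 5) (nat_lit 258) (nat_lit 241) (nat_lit 221)) (XT.lf (nat_lit 0) (nat_lit 1306128810)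 (nat_lit 1140) (nat_lit 647573714) (nat_lit 76) (nat_lit 6090078524) (nat_lit 154) (nat_lit 5) (nat_lit 169) (nat_lit 5) (nat_lit 155) (nat_lit 5) (nat_lit 259) (nat_lit 241) (nat_lit 220))) (XT.nd (nat_lit 78) (nat_lit 1140) (nat_lit 0) (XT.lf (nat_lit 0) (nat_lit 4815767797) (nat_lit 608) (nat_lit 1457202070) (nat_lit 76) (nat_lit 1945699510) (nat_lit 147) (nat_lit 5) (nat_lit 155) (nat_lit 5) (nat_lit 148) (nat_lit 5) (nat_lit 260) (nat_lit 241) (nat_lit 219)) (XT.nd (nat_lit 78) (nat_lit 532) (nat_lit 0) (XT.lf (nat_lit 0) (nat_lit 37166028) (nat_lit 608) (nat_lit 2298763382) (nat_lit 76) (nat_lit 6068419459) (nat_lit 139) (nat_lit 5) (nat_lit 147) (nat_lit 5) (nat_lit 140) (nat_lit 5) (nat_lit 261) (nat_lit 241) (nat_lit 218)) (XT.lf (nat_lit 0) (nat_lit 3524923029) (nat_lit 608) (nat_lit 3214595855) (nat_lit 76) (nat_lit 1860677241) (nat_lit 132) (nat_lit 5) (nat_lit 140) (nat_lit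 5) (nat_lit 133) (nat_lit 5) (nat_lit 262) (nat_lit 241) (nat_lit 217))))) (XT.nd (nat_lit 234) (nat_lit 912) (nat_lit 0) (XT.nd (nat_lit 78) (nat_lit 988) (nat_lit 0) (XT.lf (nat_lit 0) (nat_lit 4618634350) (nat_lit 532) (nat_lit 2525629256) (nat_lit 608) (nat_lit 1663119552) (nat_lit 125) (nat_lit 5) (nat_lit 132) (nat_lit 5) (nat_lit 133) (nat_lit 5) (nat_lit 263) (nat_lit 241) (nat_lit 216)) (XT.nd (nat_lit 78) (nat_lit 456) (nat_lit 0) (XT.lf (nat_lit 0) (nat_lit 1839982539) (nat_lit 532) (nat_lit 5246834416) (nat_lit 76) (nat_lit 1939068449) (nat_lit 118) (nat_lit 5) (nat_lit 125) (nat_lit 5) (nat_lit 119) (nat_lit 5) (nat_lit 264) (nat_lit 241) (nat_lit 215)) (XT.lf (nat_lit 0) (nat_lit 2848373413) (nat_lit 456) (nat_lit 2605843503) (nat_lit 532) (nat_lit 3801722510) (nat_lit 112) (nat_lit 5) (nat_lit 118) (nat_lit 5) (nat_lit 119) (nat_lit 5) (nat_lit 265) (nat_lit 241) (nat_lit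 214)))) (XT.nd (nat_lit 78) (nat_lit 532) (nat_lit 0) (XT.lf (nat_lit 0) (nat_lit 1834335592) (nat_lit 380) (nat_lit 7385331767) (nat_lit 456) (nat_lit 278934472) (nat_lit 107) (nat_lit 5) (nat_lit 112) (nat_lit 5) (nat_lit 113) (nat_lit 5) (nat_lit 266) (nat_lit 241) (nat_lit 213)) (XT.nd (nat_lit 78) (nat_lit 0) (nat_lit 0) (XT.lf (nat_lit 0) (nat_lit 682983466) (nat_lit 456) (nat_lit 2651000072) (nat_lit 532) (nat_lit 6419209929) (nat_lit 100) (nat_lit 5) (nat_lit 106) (nat_lit 5) (nat_lit 107) (nat_lit 5) (nat_lit 267) (nat_lit 241) (nat_lit 212)) (XT.lf (nat_lit 0) (nat_lit 7109174591) (nat_lit 532) (nat_lit 576973326) (nat_lit 76) (nat_lit 2334856487) (nat_lit 100) (nat_lit 5) (nat_lit 107) (nat_lit 5) (nat_lit 101) (nat_lit 5) (nat_lit 268) (nat_lit 241) (nat_lit 211))))))) (XT.nd (nat_lit 858) (nat_lit 1900) (nat_lit 0) (XT.nd (nat_lit 390) (nat_lit 1292) (nat_lit 0) (XT.nd (nat_lit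 156) (nat_lit 1064) (nat_lit 0) (XT.nd (nat_lit 78) (nat_lit 380) (nat_lit 0) (XT.lf (nat_lit 0) (nat_lit 753448863) (nat_lit 456) (nat_lit 1966859218) (nat_lit 76) (nat_lit 7581928097) (nat_lit 94) (nat_lit 5) (nat_lit 100) (nat_lit 5) (nat_lit 95) (nat_lit 5) (nat_lit 269) (nat_lit 241) (nat_lit 210)) (XT.lf (nat_lit 0) (nat_lit 4534729711) (nat_lit 456) (nat_lit 3538125716) (nat_lit 76) (nat_lit 2524191667) (nat_lit 89) (nat_lit 5) (nat_lit 95) (nat_lit 5) (nat_lit 90) (nat_lit 5) (nat_lit 270) (nat_lit 241) (nat_lit 209))) (XT.nd (nat_lit 78) (nat_lit 760) (nat_lit 0) (XT.lf (nat_lit 0) (nat_lit 5621511600) (nat_lit 304) (nat_lit 2882641445) (nat_lit 380) (nat_lit 2402636238) (nat_lit 85) (nat_lit 5) (nat_lit 89) (nat_lit 5) (nat_lit 90) (nat_lit 5) (nat_lit 271) (nat_lit 241) (nat_lit 208)) (XT.nd (nat_lit 78) (nat_lit 304) (nat_lit 0) (XT.lf (nat_lit 0) (nat_lit 1412264708) (nat_lit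 456) (nat_lit 7241469007) (nat_lit 76) (nat_lit 2578010306) (nat_lit 79) (nat_lit 5) (nat_lit 85) (nat_lit 5) (nat_lit 80) (nat_lit 5) (nat_lit 272) (nat_lit 241) (nat_lit 207)) (XT.lf (nat_lit 0) (nat_lit 2127325995) (nat_lit 304) (nat_lit 3248798324) (nat_lit 380) (nat_lit 6196015019) (nat_lit 75) (nat_lit 5) (nat_lit 79) (nat_lit 5) (nat_lit 80) (nat_lit 5) (nat_lit 273) (nat_lit 241) (nat_lit 206))))) (XT.nd (nat_lit 234) (nat_lit 608) (nat_lit 0) (XT.nd (nat_lit 78) (nat_lit 380) (nat_lit 0) (XT.lf (nat_lit 0) (nat_lit 37251639) (nat_lit 304) (nat_lit 9505953136) (nat_lit 380) (nat_lit 2386335580) (nat_lit 71) (nat_lit 5) (nat_lit 75) (nat_lit 5) (nat_lit 76) (nat_lit 5) (nat_lit 274) (nat_lit 241) (nat_lit 205)) (XT.nd (nat_lit 78) (nat_lit 304) (nat_lit 0) (XT.lf (nat_lit 0) (nat_lit 1621631973) (nat_lit 380) (nat_lit 2286636577) (nat_lit 76) (nat_lit 8395025073) (nat_lit 70) (nat_lit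 5) (nat_lit 75) (nat_lit 5) (nat_lit 71) (nat_lit 5) (nat_lit 275) (nat_lit 241) (nat_lit 204)) (XT.lf (nat_lit 0) (nat_lit 5788429382) (nat_lit 380) (nat_lit 4907785947) (nat_lit 76) (nat_lit 1998697319) (nat_lit 66) (nat_lit 5) (nat_lit 71) (nat_lit 5) (nat_lit 67) (nat_lit 5) (nat_lit 276) (nat_lit 241) (nat_lit 203)))) (XT.nd (nat_lit 78) (nat_lit 304) (nat_lit 0) (XT.lf (nat_lit 0) (nat_lit 5250598597) (nat_lit 304) (nat_lit 4942063750) (nat_lit 380) (nat_lit 2912692114) (nat_lit 62) (nat_lit 5) (nat_lit 66) (nat_lit 5) (nat_lit 67) (nat_lit 5) (nat_lit 277) (nat_lit 241) (nat_lit 202)) (XT.nd (nat_lit 78) (nat_lit 0) (nat_lit 0) (XT.lf (nat_lit 0) (nat_lit 1258396533) (nat_lit 304) (nat_lit 11146169273) (nat_lit 76) (nat_lit 1131411246) (nat_lit 58) (nat_lit 5) (nat_lit 62) (nat_lit 5) (nat_lit 59) (nat_lit 5) (nat_lit 278) (nat_lit 241) (nat_lit 201)) (XT.lf (nat_lit 0) (nat_lit 5629811402)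 (nat_lit 304) (nat_lit 871310949) (nat_lit 76) (nat_lit 7484683957) (nat_lit 58) (nat_lit 5) (nat_lit 62) (nat_lit 5) (nat_lit 59) (nat_lit 5) (nat_lit 279) (nat_lit 241) (nat_lit 200)))))) (XT.nd (nat_lit 390) (nat_lit 912) (nat_lit 0) (XT.nd (nat_lit 156) (nat_lit 456) (nat_lit 0) (XT.nd (nat_lit 78) (nat_lit 304) (nat_lit 0) (XT.lf (nat_lit 0) (nat_lit 10001730279) (nat_lit 228) (nat_lit 237934209) (nat_lit 304) (nat_lit 4217962718) (nat_lit 55) (nat_lit 5) (nat_lit 58) (nat_lit 5) (nat_lit 59) (nat_lit 5) (nat_lit 280) (nat_lit 241) (nat_lit 199)) (XT.lf (nat_lit 0) (nat_lit 182856075) (nat_lit 304) (nat_lit 8514227998) (nat_lit 76) (nat_lit 6254256532) (nat_lit 51) (nat_lit 5) (nat_lit 55) (nat_lit 5) (nat_lit 52) (nat_lit 5) (nat_lit 281) (nat_lit 241) (nat_lit 198))) (XT.nd (nat_lit 78) (nat_lit 228) (nat_lit 0) (XT.lf (nat_lit 0) (nat_lit 2392873317) (nat_lit 228) (nat_lit 2323851497)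 (nat_lit 304) (nat_lit 10751839427) (nat_lit 48) (nat_lit 5) (nat_lit 51) (nat_lit 5) (nat_lit 52) (nat_lit 5) (nat_lit 282) (nat_lit 241) (nat_lit 197)) (XT.nd (nat_lit 78) (nat_lit 228) (nat_lit 0) (XT.lf (nat_lit 0) (nat_lit 9537593522) (nat_lit 304) (nat_lit 2135286573) (nat_lit 76) (nat_lit 4337040451) (nat_lit 48) (nat_lit 5) (nat_lit 52) (nat_lit 5) (nat_lit 49) (nat_lit 5) (nat_lit 283) (nat_lit 241) (nat_lit 196)) (XT.lf (nat_lit 0) (nat_lit 9410736503) (nat_lit 228) (nat_lit 5235832762) (nat_lit 304) (nat_lit 1930440335) (nat_lit 45) (nat_lit 5) (nat_lit 48) (nat_lit 5) (nat_lit 49) (nat_lit 5) (nat_lit 284) (nat_lit 241) (nat_lit 195))))) (XT.nd (nat_lit 234) (nat_lit 456) (nat_lit 0) (XT.nd (nat_lit 78) (nat_lit 152) (nat_lit 0) (XT.lf (nat_lit 0) (nat_lit 2797185800) (nat_lit 304) (nat_lit 12822444090) (nat_lit 76) (nat_lit 1551654635) (nat_lit 41) (nat_lit 5) (nat_lit 45) (nat_lit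 5) (nat_lit 42) (nat_lit 5) (nat_lit 285) (nat_lit 241) (nat_lit 194)) (XT.nd (nat_lit 78) (nat_lit 152) (nat_lit 0) (XT.lf (nat_lit 0) (nat_lit 7785507198) (nat_lit 304) (nat_lit 1375468268) (nat_lit 76) (nat_lit 8631864845) (nat_lit 41) (nat_lit 5) (nat_lit 45) (nat_lit 5) (nat_lit 42) (nat_lit 5) (nat_lit 286) (nat_lit 241) (nat_lit 193)) (XT.lf (nat_lit 0) (nat_lit 10759711810) (nat_lit 152) (nat_lit 2306504554) (nat_lit 228) (nat_lit 5378032817) (nat_lit 39) (nat_lit 5) (nat_lit 41) (nat_lit 5) (nat_lit 42) (nat_lit 5) (nat_lit 287) (nat_lit 241) (nat_lit 192)))) (XT.nd (nat_lit 78) (nat_lit 228) (nat_lit 0) (XT.lf (nat_lit 0) (nat_lit 4347364563) (nat_lit 228) (nat_lit 14307923950) (nat_lit 304) (nat_lit 471671530) (nat_lit 36) (nat_lit 5) (nat_lit 39) (nat_lit 5) (nat_lit 40) (nat_lit 5) (nat_lit 288) (nat_lit 241) (nat_lit 191)) (XT.nd (nat_lit 78) (nat_lit 152) (nat_lit 0) (XT.lf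 (nat_lit 0) (nat_lit 4634390316) (nat_lit 304) (nat_lit 2860481224) (nat_lit 76) (nat_lit 12346270856) (nat_lit 35) (nat_lit 5) (nat_lit 39) (nat_lit 5) (nat_lit 36) (nat_lit 5) (nat_lit 289) (nat_lit 241) (nat_lit 190)) (XT.lf (nat_lit 0) (nat_lit 9753056419) (nat_lit 152) (nat_lit 272060724) (nat_lit 228) (nat_lit 10564657171) (nat_lit 33) (nat_lit 5) (nat_lit 35) (nat_lit 5) (nat_lit 36) (nat_lit 5) (nat_lit 290) (nat_lit 241) (nat_lit 189))))))))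
noncomputable def xc53 : XT := (XT.nd (nat_lit 1716) (nat_lit 456) (nat_lit 0) (XT.nd (nat_lit 858) (nat_lit 608) (nat_lit 0) (XT.nd (nat_lit 390) (nat_lit 456) (nat_lit 0) (XT.nd (nat_lit 156) (nat_lit 380) (nat_lit 0) (XT.nd (nat_lit 78) (nat_lit 0) (nat_lit 0) (XT.lf (nat_lit 0) (nat_lit 1555948746) (nat_lit 152) (nat_lit 14191174621) (nat_lit 228) (nat_lit 5626913641) (nat_lit 31) (nat_lit 5) (nat_lit 33) (nat_lit 5) (nat_lit 34) (nat_lit 5) (nat_lit 291) (nat_lit 241) (nat_lit 188)) (XT.lf (nat_lit 0) (nat_lit 14708439071) (nat_lit 152) (nat_lit 7109559434) (nat_lit 228) (nat_lit 377680297) (nat_lit 31) (nat_lit 5) (nat_lit 33) (nat_lit 5) (nat_lit 34) (nat_lit 5) (nat_lit 292) (nat_lit 241) (nat_lit 187))) (XT.nd (nat_lit 78) (nat_lit 152) (nat_lit 0) (XT.lf (nat_lit 0) (nat_lit 5040349142) (nat_lit 228) (nat_lit 17624370195) (nat_lit 76) (nat_lit 392052613) (nat_lit 28) (nat_lit 5)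 (nat_lit 31) (nat_lit 5) (nat_lit 29) (nat_lit 5) (nat_lit 293) (nat_lit 241) (nat_lit 186)) (XT.nd (nat_lit 78) (nat_lit 152) (nat_lit 0) (XT.lf (nat_lit 0) (nat_lit 10822872682) (nat_lit 228) (nat_lit 4959860315) (nat_lit 76) (nat_lit 8175075638) (nat_lit 28) (nat_lit 5) (nat_lit 31) (nat_lit 5) (nat_lit 29) (nat_lit 5) (nat_lit 294) (nat_lit 241) (nat_lit 185)) (XT.lf (nat_lit 0) (nat_lit 8426685507) (nat_lit 152) (nat_lit 8502872565) (nat_lit 228) (nat_lit 7973329128) (nat_lit 26) (nat_lit 5) (nat_lit 28) (nat_lit 5) (nat_lit 29) (nat_lit 5) (nat_lit 295) (nat_lit 241) (nat_lit 184))))) (XT.nd (nat_lit 234) (nat_lit 228) (nat_lit 0) (XT.nd (nat_lit 78) (nat_lit 228) (nat_lit 0) (XT.lf (nat_lit 0) (nat_lit 22512748339) (nat_lit 152) (nat_lit 835402778) (nat_lit 228) (nat_lit 2546910529) (nat_lit 26) (nat_lit 5) (nat_lit 28) (nat_lit 5) (nat_lit 29) (nat_lit 5) (nat_lit 296) (nat_lit 241)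 (nat_lit 183)) (XT.nd (nat_lit 78) (nat_lit 0) (nat_lit 0) (XT.lf (nat_lit 0) (nat_lit 3217547937) (nat_lit 228) (nat_lit 16535193185) (nat_lit 76) (nat_lit 7179385179) (nat_lit 23) (nat_lit 5) (nat_lit 26) (nat_lit 5) (nat_lit 24) (nat_lit 5) (nat_lit 297) (nat_lit 241) (nat_lit 182)) (XT.lf (nat_lit 0) (nat_lit 9219932310) (nat_lit 228) (nat_lit 3188491767) (nat_lit 76) (nat_lit 15611826776) (nat_lit 23) (nat_lit 5) (nat_lit 26) (nat_lit 5) (nat_lit 24) (nat_lit 5) (nat_lit 298) (nat_lit 241) (nat_lit 181)))) (XT.nd (nat_lit 78) (nat_lit 76) (nat_lit 0) (XT.lf (nat_lit 0) (nat_lit 10973164844) (nat_lit 152) (nat_lit 4615030653) (nat_lit 228) (nat_lit 13572646189) (nat_lit 21) (nat_lit 5) (nat_lit 23) (nat_lit 5) (nat_lit 24) (nat_lit 5) (nat_lit 299) (nat_lit 241) (nat_lit 180)) (XT.nd (nat_lit 78) (nat_lit 76) (nat_lit 0) (XT.lf (nat_lit 0) (nat_lit 22303615620) (nat_lit 228) (nat_lit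 4548098986) (nat_lit 76) (nat_lit 3505916415) (nat_lit 21) (nat_lit 5) (nat_lit 24) (nat_lit 5) (nat_lit 22) (nat_lit 4) (nat_lit 300) (nat_lit 241) (nat_lit 179)) (XT.lf (nat_lit 0) (nat_lit 9856806646) (nat_lit 76) (nat_lit 19602471314) (nat_lit 152) (nat_lit 2151877515) (nat_lit 20) (nat_lit 5) (nat_lit 21) (nat_lit 5) (nat_lit 22) (nat_lit 4) (nat_lit 301) (nat_lit 241) (nat_lit 178)))))) (XT.nd (nat_lit 390) (nat_lit 304) (nat_lit 0) (XT.nd (nat_lit 156) (nat_lit 76) (nat_lit 0) (XT.nd (nat_lit 78) (nat_lit 152) (nat_lit 0) (XT.lf (nat_lit 0) (nat_lit 3977642027) (nat_lit 152) (nat_lit 7949670852) (nat_lit 76) (nat_lit 20998567784) (nat_lit 19) (nat_lit 5) (nat_lit 21) (nat_lit 5) (nat_lit 20) (nat_lit 5) (nat_lit 302) (nat_lit 241) (nat_lit 177)) (XT.lf (nat_lit 0) (nat_lit 6593742974) (nat_lit 152) (nat_lit 3804836983) (nat_lit 228) (nat_lit 23906265817) (nat_lit 17) (nat_lit 5) (nat_lit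 19) (nat_lit 5) (nat_lit 20) (nat_lit 5) (nat_lit 303) (nat_lit 241) (nat_lit 176))) (XT.nd (nat_lit 78) (nat_lit 76) (nat_lit 0) (XT.lf (nat_lit 0) (nat_lit 17235131327) (nat_lit 228) (nat_lit 13823637548) (nat_lit 76) (nat_lit 4691178250) (nat_lit 17) (nat_lit 5) (nat_lit 20) (nat_lit 5) (nat_lit 18) (nat_lit 4) (nat_lit 304) (nat_lit 241) (nat_lit 175)) (XT.nd (nat_lit 78) (nat_lit 0) (nat_lit 0) (XT.lf (nat_lit 0) (nat_lit 678205639) (nat_lit 76) (nat_lit 23748335433) (nat_lit 152) (nat_lit 12840395340) (nat_lit 16) (nat_lit 5) (nat_lit 17) (nat_lit 5) (nat_lit 18) (nat_lit 4) (nat_lit 305) (nat_lit 241) (nat_lit 174)) (XT.lf (nat_lit 0) (nat_lit 16140759522) (nat_lit 76) (nat_lit 15948179003) (nat_lit 152) (nat_lit 6767516781) (nat_lit 16) (nat_lit 5) (nat_lit 17) (nat_lit 5) (nat_lit 18) (nat_lit 4) (nat_lit 306) (nat_lit 241) (nat_lit 173))))) (XT.nd (nat_lit 234) (nat_lit 76) (nat_lit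 0) (XT.nd (nat_lit 78) (nat_lit 228) (nat_lit 0) (XT.lf (nat_lit 0) (nat_lit 32325722212) (nat_lit 76) (nat_lit 7779319419) (nat_lit 152) (nat_lit 421312520) (nat_lit 16) (nat_lit 5) (nat_lit 17) (nat_lit 5) (nat_lit 18) (nat_lit 4) (nat_lit 307) (nat_lit 241) (nat_lit 172)) (XT.nd (nat_lit 78) (nat_lit 0) (nat_lit 0) (XT.lf (nat_lit 0) (nat_lit 6168776740) (nat_lit 228) (nat_lit 35216277836) (nat_lit 76) (nat_lit 891461720) (nat_lit 13) (nat_lit 5) (nat_lit 16) (nat_lit 5) (nat_lit 14) (nat_lit 4) (nat_lit 308) (nat_lit 241) (nat_lit 171)) (XT.lf (nat_lit 0) (nat_lit 13215898460) (nat_lit 228) (nat_lit 20987873780) (nat_lit 76) (nat_lit 9906220929) (nat_lit 13) (nat_lit 5) (nat_lit 16) (nat_lit 5) (nat_lit 14) (nat_lit 4) (nat_lit 309) (nat_lit 241) (nat_lit 170)))) (XT.nd (nat_lit 78) (nat_lit 76) (nat_lit 0) (XT.lf (nat_lit 0) (nat_lit 20589078874) (nat_lit 228) (nat_lit 6093891860) (nat_lit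 76) (nat_lit 19352980172) (nat_lit 13) (nat_lit 5) (nat_lit 16) (nat_lit 5) (nat_lit 14) (nat_lit 4) (nat_lit 310) (nat_lit 241) (nat_lit 169)) (XT.nd (nat_lit 78) (nat_lit 0) (nat_lit 0) (XT.lf (nat_lit 0) (nat_lit 9690220896) (nat_lit 76) (nat_lit 18708800606) (nat_lit 152) (nat_lit 19657159168) (nat_lit 12) (nat_lit 5) (nat_lit 13) (nat_lit 5) (nat_lit 14) (nat_lit 4) (nat_lit 311) (nat_lit 241) (nat_lit 168)) (XT.lf (nat_lit 0) (nat_lit 26348475823) (nat_lit 76) (nat_lit 10289456519) (nat_lit 152) (nat_lit 13538351865) (nat_lit 12) (nat_lit 5) (nat_lit 13) (nat_lit 5) (nat_lit 14) (nat_lit 4) (nat_lit 312) (nat_lit 241) (nat_lit 167))))))) (XT.nd (nat_lit 858) (nat_lit 152) (nat_lit 0) (XT.nd (nat_lit 390) (nat_lit 152) (nat_lit 0) (XT.nd (nat_lit 156) (nat_lit 76) (nat_lit 0) (XT.nd (nat_lit 78) (nat_lit 76) (nat_lit 0) (XT.lf (nat_lit 0) (nat_lit 43799255035) (nat_lit 76) (nat_lit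 1466428772) (nat_lit 152) (nat_lit 7137417894) (nat_lit 12) (nat_lit 5) (nat_lit 13) (nat_lit 5) (nat_lit 14) (nat_lit 4) (nat_lit 313) (nat_lit 241) (nat_lit 166)) (XT.lf (nat_lit 0) (nat_lit 7412009386) (nat_lit 76) (nat_lit 47036856066) (nat_lit 76) (nat_lit 288688231) (nat_lit 11) (nat_lit 4) (nat_lit 12) (nat_lit 5) (nat_lit 12) (nat_lit 4) (nat_lit 314) (nat_lit 241) (nat_lit 165))) (XT.nd (nat_lit 78) (nat_lit 0) (nat_lit 0) (XT.lf (nat_lit 0) (nat_lit 6850334656) (nat_lit 152) (nat_lit 32897956836) (nat_lit 76) (nat_lit 17435983546) (nat_lit 10) (nat_lit 5) (nat_lit 12) (nat_lit 5) (nat_lit 11) (nat_lit 4) (nat_lit 315) (nat_lit 241) (nat_lit 164)) (XT.nd (nat_lit 78) (nat_lit 0) (nat_lit 0) (XT.lf (nat_lit 0) (nat_lit 14319728908) (nat_lit 152) (nat_lit 17788389698) (nat_lit 76) (nat_lit 27645759495) (nat_lit 10) (nat_lit 5) (nat_lit 12) (nat_lit 5) (nat_lit 11) (nat_lit 4) (nat_lit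 316) (nat_lit 241) (nat_lit 163)) (XT.lf (nat_lit 0) (nat_lit 22142912144) (nat_lit 152) (nat_lit 1958092677) (nat_lit 76) (nat_lit 38351559406) (nat_lit 10) (nat_lit 5) (nat_lit 12) (nat_lit 5) (nat_lit 11) (nat_lit 4) (nat_lit 317) (nat_lit 241) (nat_lit 162))))) (XT.nd (nat_lit 234) (nat_lit 76) (nat_lit 0) (XT.nd (nat_lit 78) (nat_lit 0) (nat_lit 0) (XT.lf (nat_lit 0) (nat_lit 14921803543) (nat_lit 76) (nat_lit 15560144949) (nat_lit 152) (nat_lit 34800507241) (nat_lit 9) (nat_lit 5) (nat_lit 10) (nat_lit 5) (nat_lit 11) (nat_lit 4) (nat_lit 318) (nat_lit 241) (nat_lit 161)) (XT.nd (nat_lit 78) (nat_lit 0) (nat_lit 0) (XT.lf (nat_lit 0) (nat_lit 32654467796) (nat_lit 76) (nat_lit 6585465700) (nat_lit 152) (nat_lit 29013859742) (nat_lit 9) (nat_lit 5) (nat_lit 10) (nat_lit 5) (nat_lit 11) (nat_lit 4) (nat_lit 319) (nat_lit 241) (nat_lit 160)) (XT.lf (nat_lit 0) (nat_lit 48445674566) (nat_lit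 152) (nat_lit 20158228492) (nat_lit 0) (nat_lit 2769509642) (nat_lit 9) (nat_lit 5) (nat_lit 11) (nat_lit 4) (nat_lit 9) (nat_lit 4) (nat_lit 320) (nat_lit 241) (nat_lit 159)))) (XT.nd (nat_lit 78) (nat_lit 76) (nat_lit 0) (XT.lf (nat_lit 0) (nat_lit 58161577799) (nat_lit 152) (nat_lit 4041084488) (nat_lit 0) (nat_lit 12444864868) (nat_lit 9) (nat_lit 5) (nat_lit 11) (nat_lit 4) (nat_lit 9) (nat_lit 4) (nat_lit 321) (nat_lit 241) (nat_lit 158)) (XT.nd (nat_lit 78) (nat_lit 0) (nat_lit 0) (XT.lf (nat_lit 0) (nat_lit 13109599755) (nat_lit 76) (nat_lit 55363890511) (nat_lit 76) (nat_lit 9608560430) (nat_lit 8) (nat_lit 4) (nat_lit 9) (nat_lit 5) (nat_lit 9) (nat_lit 4) (nat_lit 322) (nat_lit 241) (nat_lit 157)) (XT.lf (nat_lit 0) (nat_lit 31174938933) (nat_lit 76) (nat_lit 48152345271) (nat_lit 76) (nat_lit 2360236952) (nat_lit 8) (nat_lit 4) (nat_lit 9) (nat_lit 5) (nat_lit 9) (nat_lit 4)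 (nat_lit 323) (nat_lit 241) (nat_lit 156)))))) (XT.nd (nat_lit 468) (nat_lit 0) (nat_lit 0) (XT.nd (nat_lit 234) (nat_lit 76) (nat_lit 0) (XT.nd (nat_lit 78) (nat_lit 0) (nat_lit 0) (XT.lf (nat_lit 0) (nat_lit 5133309043) (nat_lit 152) (nat_lit 35406517852) (nat_lit 76) (nat_lit 44932374852) (nat_lit 7) (nat_lit 5) (nat_lit 9) (nat_lit 5) (nat_lit 8) (nat_lit 4) (nat_lit 324) (nat_lit 241) (nat_lit 155)) (XT.nd (nat_lit 78) (nat_lit 0) (nat_lit 0) (XT.lf (nat_lit 0) (nat_lit 12939137127) (nat_lit 152) (nat_lit 19594045789) (nat_lit 76) (nat_lit 56912648056) (nat_lit 7) (nat_lit 5) (nat_lit 9) (nat_lit 5) (nat_lit 8) (nat_lit 4) (nat_lit 325) (nat_lit 241) (nat_lit 154)) (XT.lf (nat_lit 0) (nat_lit 21121889326) (nat_lit 152) (nat_lit 3014829249) (nat_lit 76) (nat_lit 69481831915) (nat_lit 7) (nat_lit 5) (nat_lit 9) (nat_lit 5) (nat_lit 8) (nat_lit 4) (nat_lit 326) (nat_lit 241) (nat_lit 153))))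 (XT.nd (nat_lit 78) (nat_lit 0) (nat_lit 0) (XT.lf (nat_lit 0) (nat_lit 14656609330) (nat_lit 76) (nat_lit 15185327349) (nat_lit 152) (nat_lit 68154132022) (nat_lit 6) (nat_lit 5) (nat_lit 7) (nat_lit 5) (nat_lit 8) (nat_lit 4) (nat_lit 327) (nat_lit 241) (nat_lit 152)) (XT.nd (nat_lit 78) (nat_lit 0) (nat_lit 0) (XT.lf (nat_lit 0) (nat_lit 33252530772) (nat_lit 76) (nat_lit 5764153766) (nat_lit 152) (nat_lit 63575224430) (nat_lit 6) (nat_lit 5) (nat_lit 7) (nat_lit 5) (nat_lit 8) (nat_lit 4) (nat_lit 328) (nat_lit 241) (nat_lit 151)) (XT.lf (nat_lit 0) (nat_lit 48678012718) (nat_lit 152) (nat_lit 54700282739) (nat_lit 0) (nat_lit 4038417254) (nat_lit 6) (nat_lit 5) (nat_lit 8) (nat_lit 4) (nat_lit 6) (nat_lit 4) (nat_lit 329) (nat_lit 241) (nat_lit 150))))) (XT.nd (nat_lit 30732) (nat_lit 0) (nat_lit 19988) (XT.nd (nat_lit 78) (nat_lit 0) (nat_lit 0) (XT.lf (nat_lit 0) (nat_lit 58869311366)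 (nat_lit 152) (nat_lit 39407704998) (nat_lit 0) (nat_lit 14204339584) (nat_lit 6) (nat_lit 5) (nat_lit 8) (nat_lit 4) (nat_lit 6) (nat_lit 4) (nat_lit 330) (nat_lit 241) (nat_lit 149)) (XT.nd (nat_lit 30576) (nat_lit 0) (nat_lit 20672) (XT.lf (nat_lit 0) (nat_lit 69559436907) (nat_lit 152) (nat_lit 23369825501) (nat_lit 0) (nat_lit 24870297204) (nat_lit 6) (nat_lit 5) (nat_lit 8) (nat_lit 4) (nat_lit 6) (nat_lit 4) (nat_lit 331) (nat_lit 241) (nat_lit 148)) (XT.lf (nat_lit 0) (nat_lit 1184703982) (nat_lit 0) (nat_lit 1184703982) (nat_lit 228) (nat_lit 875895647) (nat_lit 278) (nat_lit 5) (nat_lit 278) (nat_lit 3) (nat_lit 281) (nat_lit 3) (nat_lit 242) (nat_lit 242) (nat_lit 236)))) (XT.nd (nat_lit 78) (nat_lit 304) (nat_lit 0) (XT.lf (nat_lit 76) (nat_lit 687359722) (nat_lit 0) (nat_lit 1597718262) (nat_lit 380) (nat_lit 4234028164) (nat_lit 274) (nat_lit 5) (nat_lit 273) (nat_lit 3) (nat_lit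 278) (nat_lit 5) (nat_lit 243) (nat_lit 242) (nat_lit 235)) (XT.nd (nat_lit 78) (nat_lit 304) (nat_lit 0) (XT.lf (nat_lit 76) (nat_lit 5668210840) (nat_lit 0) (nat_lit 602080616) (nat_lit 380) (nat_lit 285563056) (nat_lit 274) (nat_lit 5) (nat_lit 273) (nat_lit 3) (nat_lit 278) (nat_lit 5) (nat_lit 244) (nat_lit 242) (nat_lit 234)) (XT.lf (nat_lit 0) (nat_lit 3580929381) (nat_lit 380) (nat_lit 2393253215) (nat_lit 456) (nat_lit 626030913) (nat_lit 269) (nat_lit 5) (nat_lit 274) (nat_lit 5) (nat_lit 275) (nat_lit 5) (nat_lit 245) (nat_lit 242) (nat_lit 233))))))))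
noncomputable def xc54 : XT := (XT.nd (nat_lit 1716) (nat_lit 5396) (nat_lit 0) (XT.nd (nat_lit 858) (nat_lit 6840) (nat_lit 0) (XT.nd (nat_lit 390) (nat_lit 4028) (nat_lit 0) (XT.nd (nat_lit 156) (nat_lit 1064) (nat_lit 0) (XT.nd (nat_lit 78) (nat_lit 0) (nat_lit 0) (XT.lf (nat_lit 0) (nat_lit 769806794) (nat_lit 456) (nat_lit 3826871437) (nat_lit 532) (nat_lit 2056420664) (nat_lit 263) (nat_lit 5) (nat_lit 269) (nat_lit 5) (nat_lit 270) (nat_lit 5) (nat_lit 246) (nat_lit 242) (nat_lit 232)) (XT.lf (nat_lit 76) (nat_lit 1505630314) (nat_lit 0) (nat_lit 2988344100) (nat_lit 532) (nat_lit 2220188522) (nat_lit 264) (nat_lit 5) (nat_lit 263) (nat_lit 5) (nat_lit 270) (nat_lit 5) (nat_lit 247) (nat_lit 242) (nat_lit 231))) (XT.nd (nat_lit 78) (nat_lit 532) (nat_lit 0) (XT.lf (nat_lit 76) (nat_lit 253688110) (nat_lit 0) (nat_lit 1157895156) (nat_lit 608) (nat_lit 5372333129) (nat_lit 257) (nat_lit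 5) (nat_lit 256) (nat_lit 5) (nat_lit 264) (nat_lit 5) (nat_lit 248) (nat_lit 242) (nat_lit 230)) (XT.nd (nat_lit 78) (nat_lit 608) (nat_lit 0) (XT.lf (nat_lit 0) (nat_lit 5026084860) (nat_lit 532) (nat_lit 934545180) (nat_lit 76) (nat_lit 901049083) (nat_lit 257) (nat_lit 5) (nat_lit 264) (nat_lit 5) (nat_lit 258) (nat_lit 5) (nat_lit 249) (nat_lit 242) (nat_lit 229)) (XT.lf (nat_lit 0) (nat_lit 1693350481) (nat_lit 608) (nat_lit 2079912010) (nat_lit 76) (nat_lit 3174513607) (nat_lit 249) (nat_lit 5) (nat_lit 257) (nat_lit 5) (nat_lit 250) (nat_lit 5) (nat_lit 250) (nat_lit 242) (nat_lit 228))))) (XT.nd (nat_lit 234) (nat_lit 1900) (nat_lit 0) (XT.nd (nat_lit 78) (nat_lit 1520) (nat_lit 0) (XT.lf (nat_lit 0) (nat_lit 3858638273) (nat_lit 608) (nat_lit 1350642471) (nat_lit 684) (nat_lit 1833418944) (nat_lit 241) (nat_lit 5) (nat_lit 249) (nat_lit 5) (nat_lit 250) (nat_lit 5) (nat_lit 251)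 (nat_lit 242) (nat_lit 227)) (XT.nd (nat_lit 78) (nat_lit 760) (nat_lit 0) (XT.lf (nat_lit 0) (nat_lit 1593520756) (nat_lit 760) (nat_lit 4264429066) (nat_lit 76) (nat_lit 1288319171) (nat_lit 231) (nat_lit 5) (nat_lit 241) (nat_lit 5) (nat_lit 232) (nat_lit 5) (nat_lit 252) (nat_lit 242) (nat_lit 226)) (XT.lf (nat_lit 0) (nat_lit 1925829075) (nat_lit 760) (nat_lit 3109120519) (nat_lit 836) (nat_lit 2223550492) (nat_lit 221) (nat_lit 5) (nat_lit 231) (nat_lit 5) (nat_lit 232) (nat_lit 5) (nat_lit 253) (nat_lit 242) (nat_lit 225)))) (XT.nd (nat_lit 78) (nat_lit 988) (nat_lit 0) (XT.lf (nat_lit 0) (nat_lit 1003887084) (nat_lit 836) (nat_lit 118112530) (nat_lit 912) (nat_lit 6258159858) (nat_lit 209) (nat_lit 5) (nat_lit 220) (nat_lit 5) (nat_lit 221) (nat_lit 5) (nat_lit 254) (nat_lit 242) (nat_lit 224)) (XT.nd (nat_lit 78) (nat_lit 76) (nat_lit 0) (XT.lf (nat_lit 0) (nat_lit 67202050) (nat_lit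 912) (nat_lit 4435462382) (nat_lit 988) (nat_lit 3007567046) (nat_lit 197) (nat_lit 5) (nat_lit 209) (nat_lit 5) (nat_lit 210) (nat_lit 5) (nat_lit 255) (nat_lit 242) (nat_lit 223)) (XT.lf (nat_lit 0) (nat_lit 298197524) (nat_lit 988) (nat_lit 828561129) (nat_lit 76) (nat_lit 6523289116) (nat_lit 196) (nat_lit 5) (nat_lit 209) (nat_lit 5) (nat_lit 197) (nat_lit 5) (nat_lit 256) (nat_lit 242) (nat_lit 222)))))) (XT.nd (nat_lit 390) (nat_lit 2508) (nat_lit 0) (XT.nd (nat_lit 156) (nat_lit 2280) (nat_lit 0) (XT.nd (nat_lit 78) (nat_lit 1064) (nat_lit 0) (XT.lf (nat_lit 0) (nat_lit 3630627767) (nat_lit 1064) (nat_lit 1755516862) (nat_lit 76) (nat_lit 2412466041) (nat_lit 183) (nat_lit 5) (nat_lit 197) (nat_lit 5) (nat_lit 184) (nat_lit 5) (nat_lit 257) (nat_lit 242) (nat_lit 221)) (XT.lf (nat_lit 0) (nat_lit 5274374390) (nat_lit 1064) (nat_lit 1773492218) (nat_lit 1140) (nat_lit 909529009) (nat_lit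 169) (nat_lit 5) (nat_lit 183) (nat_lit 5) (nat_lit 184) (nat_lit 5) (nat_lit 258) (nat_lit 242) (nat_lit 220))) (XT.nd (nat_lit 78) (nat_lit 1140) (nat_lit 0) (XT.lf (nat_lit 0) (nat_lit 2396354324) (nat_lit 1140) (nat_lit 3652120394) (nat_lit 76) (nat_lit 2077229002) (nat_lit 154) (nat_lit 5) (nat_lit 169) (nat_lit 5) (nat_lit 155) (nat_lit 5) (nat_lit 259) (nat_lit 242) (nat_lit 219)) (XT.nd (nat_lit 78) (nat_lit 608) (nat_lit 0) (XT.lf (nat_lit 0) (nat_lit 3647915538) (nat_lit 532) (nat_lit 2139402428) (nat_lit 608) (nat_lit 2516980189) (nat_lit 147) (nat_lit 5) (nat_lit 154) (nat_lit 5) (nat_lit 155) (nat_lit 5) (nat_lit 260) (nat_lit 242) (nat_lit 218)) (XT.lf (nat_lit 0) (nat_lit 785299924) (nat_lit 608) (nat_lit 5706397576) (nat_lit 76) (nat_lit 2001774520) (nat_lit 139) (nat_lit 5) (nat_lit 147) (nat_lit 5) (nat_lit 140) (nat_lit 5) (nat_lit 261) (nat_lit 242) (nat_lit 217)))))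 (XT.nd (nat_lit 234) (nat_lit 1368) (nat_lit 0) (XT.nd (nat_lit 78) (nat_lit 608) (nat_lit 0) (XT.lf (nat_lit 0) (nat_lit 1860385916) (nat_lit 532) (nat_lit 2295352728) (nat_lit 608) (nat_lit 4537228612) (nat_lit 132) (nat_lit 5) (nat_lit 139) (nat_lit 5) (nat_lit 140) (nat_lit 5) (nat_lit 262) (nat_lit 242) (nat_lit 216)) (XT.nd (nat_lit 78) (nat_lit 76) (nat_lit 0) (XT.lf (nat_lit 0) (nat_lit 882550150) (nat_lit 532) (nat_lit 6771983707) (nat_lit 608) (nat_lit 1249359109) (nat_lit 125) (nat_lit 5) (nat_lit 132) (nat_lit 5) (nat_lit 133) (nat_lit 5) (nat_lit 263) (nat_lit 242) (nat_lit 215)) (XT.lf (nat_lit 0) (nat_lit 2129217264) (nat_lit 608) (nat_lit 178720827) (nat_lit 76) (nat_lit 6817944451) (nat_lit 124) (nat_lit 5) (nat_lit 132) (nat_lit 5) (nat_lit 125) (nat_lit 5) (nat_lit 264) (nat_lit 242) (nat_lit 214)))) (XT.nd (nat_lit 78) (nat_lit 912) (nat_lit 0) (XT.lf (nat_lit 0) (nat_lit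 5633410266) (nat_lit 532) (nat_lit 1312938491) (nat_lit 76) (nat_lit 2412996763) (nat_lit 118) (nat_lit 5) (nat_lit 125) (nat_lit 5) (nat_lit 119) (nat_lit 5) (nat_lit 265) (nat_lit 242) (nat_lit 213)) (XT.nd (nat_lit 78) (nat_lit 456) (nat_lit 0) (XT.lf (nat_lit 0) (nat_lit 7066745419) (nat_lit 456) (nat_lit 2224532995) (nat_lit 532) (nat_lit 314059563) (nat_lit 112) (nat_lit 5) (nat_lit 118) (nat_lit 5) (nat_lit 119) (nat_lit 5) (nat_lit 266) (nat_lit 242) (nat_lit 212)) (XT.lf (nat_lit 0) (nat_lit 3191290646) (nat_lit 456) (nat_lit 3904967639) (nat_lit 76) (nat_lit 2767023907) (nat_lit 106) (nat_lit 5) (nat_lit 112) (nat_lit 5) (nat_lit 107) (nat_lit 5) (nat_lit 267) (nat_lit 242) (nat_lit 211))))))) (XT.nd (nat_lit 858) (nat_lit 2052) (nat_lit 0) (XT.nd (nat_lit 390) (nat_lit 1672) (nat_lit 0) (XT.nd (nat_lit 156) (nat_lit 760) (nat_lit 0) (XT.nd (nat_lit 78) (nat_lit 456) (nat_lit 0)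 (XT.lf (nat_lit 0) (nat_lit 4738165627) (nat_lit 456) (nat_lit 2113985598) (nat_lit 532) (nat_lit 3282462154) (nat_lit 100) (nat_lit 5) (nat_lit 106) (nat_lit 5) (nat_lit 107) (nat_lit 5) (nat_lit 268) (nat_lit 242) (nat_lit 210)) (XT.lf (nat_lit 0) (nat_lit 270085835) (nat_lit 456) (nat_lit 7037527297) (nat_lit 76) (nat_lit 3112021324) (nat_lit 94) (nat_lit 5) (nat_lit 100) (nat_lit 5) (nat_lit 95) (nat_lit 5) (nat_lit 269) (nat_lit 242) (nat_lit 209))) (XT.nd (nat_lit 78) (nat_lit 380) (nat_lit 0) (XT.lf (nat_lit 0) (nat_lit 1850076562) (nat_lit 380) (nat_lit 2076775550) (nat_lit 456) (nat_lit 6791408249) (nat_lit 89) (nat_lit 5) (nat_lit 94) (nat_lit 5) (nat_lit 95) (nat_lit 5) (nat_lit 270) (nat_lit 242) (nat_lit 208)) (XT.nd (nat_lit 78) (nat_lit 76) (nat_lit 0) (XT.lf (nat_lit 0) (nat_lit 143366931) (nat_lit 304) (nat_lit 7632498200) (nat_lit 380) (nat_lit 3255825491) (nat_lit 85)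 (nat_lit 5) (nat_lit 89) (nat_lit 5) (nat_lit 90) (nat_lit 5) (nat_lit 271) (nat_lit 242) (nat_lit 207)) (XT.lf (nat_lit 0) (nat_lit 465232249) (nat_lit 380) (nat_lit 1717305679) (nat_lit 76) (nat_lit 9177738287) (nat_lit 84) (nat_lit 5) (nat_lit 89) (nat_lit 5) (nat_lit 85) (nat_lit 5) (nat_lit 272) (nat_lit 242) (nat_lit 206))))) (XT.nd (nat_lit 234) (nat_lit 608) (nat_lit 0) (XT.nd (nat_lit 78) (nat_lit 684) (nat_lit 0) (XT.lf (nat_lit 0) (nat_lit 4325573417) (nat_lit 456) (nat_lit 3823783535) (nat_lit 76) (nat_lit 3554486851) (nat_lit 79) (nat_lit 5) (nat_lit 85) (nat_lit 5) (nat_lit 80) (nat_lit 5) (nat_lit 273) (nat_lit 242) (nat_lit 205)) (XT.nd (nat_lit 78) (nat_lit 380) (nat_lit 0) (XT.lf (nat_lit 0) (nat_lit 5905105186) (nat_lit 304) (nat_lit 2482446237) (nat_lit 380) (nat_lit 3676910011) (nat_lit 75) (nat_lit 5) (nat_lit 79) (nat_lit 5) (nat_lit 80) (nat_lit 5) (nat_lit 274) (nat_lit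 242) (nat_lit 204)) (XT.lf (nat_lit 0) (nat_lit 228800669) (nat_lit 380) (nat_lit 8764353150) (nat_lit 76) (nat_lit 3449315028) (nat_lit 70) (nat_lit 5) (nat_lit 75) (nat_lit 5) (nat_lit 71) (nat_lit 5) (nat_lit 275) (nat_lit 242) (nat_lit 203)))) (XT.nd (nat_lit 78) (nat_lit 304) (nat_lit 0) (XT.lf (nat_lit 0) (nat_lit 1143696020) (nat_lit 304) (nat_lit 3127686434) (nat_lit 380) (nat_lit 8566487841) (nat_lit 66) (nat_lit 5) (nat_lit 70) (nat_lit 5) (nat_lit 71) (nat_lit 5) (nat_lit 276) (nat_lit 242) (nat_lit 202)) (XT.nd (nat_lit 78) (nat_lit 304) (nat_lit 0) (XT.lf (nat_lit 0) (nat_lit 8555777246) (nat_lit 380) (nat_lit 1663529856) (nat_lit 76) (nat_lit 3032653442) (nat_lit 66) (nat_lit 5) (nat_lit 71) (nat_lit 5) (nat_lit 67) (nat_lit 5) (nat_lit 277) (nat_lit 242) (nat_lit 201)) (XT.lf (nat_lit 0) (nat_lit 8902743931) (nat_lit 304) (nat_lit 4192064490) (nat_lit 380) (nat_lit 590838426)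 (nat_lit 62) (nat_lit 5) (nat_lit 66) (nat_lit 5) (nat_lit 67) (nat_lit 5) (nat_lit 278) (nat_lit 242) (nat_lit 200)))))) (XT.nd (nat_lit 390) (nat_lit 988) (nat_lit 0) (XT.nd (nat_lit 156) (nat_lit 532) (nat_lit 0) (XT.nd (nat_lit 78) (nat_lit 228) (nat_lit 0) (XT.lf (nat_lit 0) (nat_lit 3667246213) (nat_lit 304) (nat_lit 8297861399) (nat_lit 76) (nat_lit 2174331592) (nat_lit 58) (nat_lit 5) (nat_lit 62) (nat_lit 5) (nat_lit 59) (nat_lit 5) (nat_lit 279) (nat_lit 242) (nat_lit 199)) (XT.lf (nat_lit 0) (nat_lit 2374910695) (nat_lit 228) (nat_lit 5793439279) (nat_lit 304) (nat_lit 6446217300) (nat_lit 55) (nat_lit 5) (nat_lit 58) (nat_lit 5) (nat_lit 59) (nat_lit 5) (nat_lit 280) (nat_lit 242) (nat_lit 198))) (XT.nd (nat_lit 78) (nat_lit 532) (nat_lit 0) (XT.lf (nat_lit 0) (nat_lit 12916897143) (nat_lit 304) (nat_lit 1467930881) (nat_lit 76) (nat_lit 728039335) (nat_lit 55) (nat_lit 5) (nat_lit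 59) (nat_lit 5) (nat_lit 56) (nat_lit 5) (nat_lit 281) (nat_lit 242) (nat_lit 197)) (XT.nd (nat_lit 78) (nat_lit 228) (nat_lit 0) (XT.lf (nat_lit 0) (nat_lit 2309627581) (nat_lit 304) (nat_lit 5778920564) (nat_lit 76) (nat_lit 7544349146) (nat_lit 51) (nat_lit 5) (nat_lit 55) (nat_lit 5) (nat_lit 52) (nat_lit 5) (nat_lit 282) (nat_lit 242) (nat_lit 196)) (XT.lf (nat_lit 0) (nat_lit 5582925847) (nat_lit 228) (nat_lit 1415939097) (nat_lit 304) (nat_lit 9179375076) (nat_lit 48) (nat_lit 5) (nat_lit 51) (nat_lit 5) (nat_lit 52) (nat_lit 5) (nat_lit 283) (nat_lit 242) (nat_lit 195))))) (XT.nd (nat_lit 234) (nat_lit 456) (nat_lit 0) (XT.nd (nat_lit 78) (nat_lit 304) (nat_lit 0) (XT.lf (nat_lit 0) (nat_lit 748086942) (nat_lit 228) (nat_lit 11231813717) (nat_lit 304) (nat_lit 4769302313) (nat_lit 45) (nat_lit 5) (nat_lit 48) (nat_lit 5) (nat_lit 49) (nat_lit 5) (nat_lit 284) (nat_lit 242) (nat_lit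 194)) (XT.nd (nat_lit 78) (nat_lit 304) (nat_lit 0) (XT.lf (nat_lit 0) (nat_lit 12771520047) (nat_lit 228) (nat_lit 4500147542) (nat_lit 304) (nat_lit 75265798) (nat_lit 45) (nat_lit 5) (nat_lit 48) (nat_lit 5) (nat_lit 49) (nat_lit 5) (nat_lit 285) (nat_lit 242) (nat_lit 193)) (XT.lf (nat_lit 0) (nat_lit 4796473679) (nat_lit 304) (nat_lit 10569255520) (nat_lit 76) (nat_lit 2606354634) (nat_lit 41) (nat_lit 5) (nat_lit 45) (nat_lit 5) (nat_lit 42) (nat_lit 5) (nat_lit 286) (nat_lit 242) (nat_lit 192)))) (XT.nd (nat_lit 78) (nat_lit 304) (nat_lit 0) (XT.lf (nat_lit 0) (nat_lit 1338361013) (nat_lit 152) (nat_lit 8620171060) (nat_lit 228) (nat_lit 8668550092) (nat_lit 39) (nat_lit 5) (nat_lit 41) (nat_lit 5) (nat_lit 42) (nat_lit 5) (nat_lit 287) (nat_lit 242) (nat_lit 191)) (XT.nd (nat_lit 78) (nat_lit 304) (nat_lit 0) (XT.lf (nat_lit 0) (nat_lit 13975169721) (nat_lit 152) (nat_lit 1456651506)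 (nat_lit 228) (nat_lit 3881473803) (nat_lit 39) (nat_lit 5) (nat_lit 41) (nat_lit 5) (nat_lit 42) (nat_lit 5) (nat_lit 288) (nat_lit 242) (nat_lit 190)) (XT.lf (nat_lit 0) (nat_lit 1197574885) (nat_lit 304) (nat_lit 12835300175) (nat_lit 76) (nat_lit 5998418524) (nat_lit 35) (nat_lit 5) (nat_lit 39) (nat_lit 5) (nat_lit 36) (nat_lit 5) (nat_lit 289) (nat_lit 242) (nat_lit 189))))))))
noncomputable def xc55 : XT := (XT.nd (nat_lit 1716) (nat_lit 532) (nat_lit 0) (XT.nd (nat_lit 858) (nat_lit 608) (nat_lit 0) (XT.nd (nat_lit 390) (nat_lit 532) (nat_lit 0) (XT.nd (nat_lit 156) (nat_lit 380) (nat_lit 0) (XT.nd (nat_lit 78) (nat_lit 152) (nat_lit 0) (XT.lf (nat_lit 0) (nat_lit 6469124862) (nat_lit 304) (nat_lit 452539205) (nat_lit 76) (nat_lit 13861861848) (nat_lit 35) (nat_lit 5) (nat_lit 39) (nat_lit 5) (nat_lit 36) (nat_lit 5) (nat_lit 290) (nat_lit 242) (nat_lit 188)) (XT.lf (nat_lit 0) (nat_lit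 12083040745) (nat_lit 228) (nat_lit 8858856110) (nat_lit 76) (nat_lit 629158379) (nat_lit 33) (nat_lit 5) (nat_lit 36) (nat_lit 5) (nat_lit 34) (nat_lit 5) (nat_lit 291) (nat_lit 242) (nat_lit 187))) (XT.nd (nat_lit 78) (nat_lit 228) (nat_lit 0) (XT.lf (nat_lit 0) (nat_lit 4078549972) (nat_lit 152) (nat_lit 13964586436) (nat_lit 228) (nat_lit 4352906780) (nat_lit 31) (nat_lit 5) (nat_lit 33) (nat_lit 5) (nat_lit 34) (nat_lit 5) (nat_lit 292) (nat_lit 242) (nat_lit 186)) (XT.nd (nat_lit 78) (nat_lit 152) (nat_lit 0) (XT.lf (nat_lit 0) (nat_lit 1063556955) (nat_lit 228) (nat_lit 5499172119) (nat_lit 76) (nat_lit 16697948791) (nat_lit 30) (nat_lit 5) (nat_lit 33) (nat_lit 5) (nat_lit 31) (nat_lit 5) (nat_lit 293) (nat_lit 242) (nat_lit 185)) (XT.lf (nat_lit 0) (nat_lit 6706125458) (nat_lit 228) (nat_lit 16179673071) (nat_lit 76) (nat_lit 1280134727) (nat_lit 28) (nat_lit 5) (nat_lit 31) (nat_lit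 5) (nat_lit 29) (nat_lit 5) (nat_lit 294) (nat_lit 242) (nat_lit 184))))) (XT.nd (nat_lit 234) (nat_lit 380) (nat_lit 0) (XT.nd (nat_lit 78) (nat_lit 152) (nat_lit 0) (XT.lf (nat_lit 0) (nat_lit 12710453325) (nat_lit 228) (nat_lit 2992695584) (nat_lit 76) (nat_lit 9410952737) (nat_lit 28) (nat_lit 5) (nat_lit 31) (nat_lit 5) (nat_lit 29) (nat_lit 5) (nat_lit 295) (nat_lit 242) (nat_lit 183)) (XT.nd (nat_lit 78) (nat_lit 0) (nat_lit 0) (XT.lf (nat_lit 0) (nat_lit 10999680477) (nat_lit 152) (nat_lit 8079359538) (nat_lit 228) (nat_lit 7028754461) (nat_lit 26) (nat_lit 5) (nat_lit 28) (nat_lit 5) (nat_lit 29) (nat_lit 5) (nat_lit 296) (nat_lit 242) (nat_lit 182)) (XT.lf (nat_lit 0) (nat_lit 25687586418) (nat_lit 152) (nat_lit 68928483) (nat_lit 228) (nat_lit 1394978795) (nat_lit 26) (nat_lit 5) (nat_lit 28) (nat_lit 5) (nat_lit 29) (nat_lit 5) (nat_lit 297) (nat_lit 242) (nat_lit 181)))) (XT.nd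 (nat_lit 78) (nat_lit 152) (nat_lit 0) (XT.lf (nat_lit 0) (nat_lit 4600093739) (nat_lit 228) (nat_lit 15316492549) (nat_lit 76) (nat_lit 8324486248) (nat_lit 23) (nat_lit 5) (nat_lit 26) (nat_lit 5) (nat_lit 24) (nat_lit 5) (nat_lit 298) (nat_lit 242) (nat_lit 180)) (XT.nd (nat_lit 78) (nat_lit 152) (nat_lit 0) (XT.lf (nat_lit 0) (nat_lit 10844422644) (nat_lit 228) (nat_lit 1399858932) (nat_lit 76) (nat_lit 17141115077) (nat_lit 23) (nat_lit 5) (nat_lit 26) (nat_lit 5) (nat_lit 24) (nat_lit 5) (nat_lit 299) (nat_lit 242) (nat_lit 179)) (XT.lf (nat_lit 0) (nat_lit 13414039835) (nat_lit 152) (nat_lit 4079843837) (nat_lit 228) (nat_lit 13090295620) (nat_lit 21) (nat_lit 5) (nat_lit 23) (nat_lit 5) (nat_lit 24) (nat_lit 5) (nat_lit 300) (nat_lit 242) (nat_lit 178)))))) (XT.nd (nat_lit 390) (nat_lit 304) (nat_lit 0) (XT.nd (nat_lit 156) (nat_lit 228) (nat_lit 0) (XT.nd (nat_lit 78) (nat_lit 76)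 (nat_lit 0) (XT.lf (nat_lit 0) (nat_lit 24498454562) (nat_lit 228) (nat_lit 2947352927) (nat_lit 76) (nat_lit 4396442838) (nat_lit 21) (nat_lit 5) (nat_lit 24) (nat_lit 5) (nat_lit 22) (nat_lit 4) (nat_lit 301) (nat_lit 242) (nat_lit 177)) (XT.lf (nat_lit 0) (nat_lit 12125394405) (nat_lit 76) (nat_lit 19852162891) (nat_lit 152) (nat_lit 1181965537) (nat_lit 20) (nat_lit 5) (nat_lit 21) (nat_lit 5) (nat_lit 22) (nat_lit 4) (nat_lit 302) (nat_lit 242) (nat_lit 176))) (XT.nd (nat_lit 78) (nat_lit 152) (nat_lit 0) (XT.lf (nat_lit 0) (nat_lit 5182695399) (nat_lit 152) (nat_lit 6635173255) (nat_lit 76) (nat_lit 22723352572) (nat_lit 19) (nat_lit 5) (nat_lit 21) (nat_lit 5) (nat_lit 20) (nat_lit 5) (nat_lit 303) (nat_lit 242) (nat_lit 175)) (XT.nd (nat_lit 78) (nat_lit 0) (nat_lit 0) (XT.lf (nat_lit 0) (nat_lit 8586337667) (nat_lit 152) (nat_lit 3306414525) (nat_lit 228) (nat_lit 24097376828) (nat_lit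 17) (nat_lit 5) (nat_lit 19) (nat_lit 5) (nat_lit 20) (nat_lit 5) (nat_lit 304) (nat_lit 242) (nat_lit 174)) (XT.lf (nat_lit 0) (nat_lit 19031043227) (nat_lit 228) (nat_lit 12908870164) (nat_lit 76) (nat_lit 5568809530) (nat_lit 17) (nat_lit 5) (nat_lit 20) (nat_lit 5) (nat_lit 18) (nat_lit 4) (nat_lit 305) (nat_lit 242) (nat_lit 173))))) (XT.nd (nat_lit 234) (nat_lit 152) (nat_lit 0) (XT.nd (nat_lit 78) (nat_lit 76) (nat_lit 0) (XT.lf (nat_lit 0) (nat_lit 2272030970) (nat_lit 76) (nat_lit 24280503759) (nat_lit 152) (nat_lit 12549944790) (nat_lit 16) (nat_lit 5) (nat_lit 17) (nat_lit 5) (nat_lit 18) (nat_lit 4) (nat_lit 306) (nat_lit 242) (nat_lit 172)) (XT.nd (nat_lit 78) (nat_lit 76) (nat_lit 0) (XT.lf (nat_lit 0) (nat_lit 18433430878) (nat_lit 76) (nat_lit 16121541814) (nat_lit 152) (nat_lit 6217825651) (nat_lit 16) (nat_lit 5) (nat_lit 17) (nat_lit 5) (nat_lit 18) (nat_lit 4) (nat_lit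 307) (nat_lit 242) (nat_lit 171)) (XT.lf (nat_lit 0) (nat_lit 395528133) (nat_lit 152) (nat_lit 7174433542) (nat_lit 76) (nat_lit 34957375063) (nat_lit 15) (nat_lit 5) (nat_lit 17) (nat_lit 5) (nat_lit 16) (nat_lit 5) (nat_lit 308) (nat_lit 242) (nat_lit 170)))) (XT.nd (nat_lit 78) (nat_lit 0) (nat_lit 0) (XT.lf (nat_lit 0) (nat_lit 7286020759) (nat_lit 228) (nat_lit 35567160250) (nat_lit 76) (nat_lit 1512340303) (nat_lit 13) (nat_lit 5) (nat_lit 16) (nat_lit 5) (nat_lit 14) (nat_lit 4) (nat_lit 309) (nat_lit 242) (nat_lit 169)) (XT.nd (nat_lit 78) (nat_lit 0) (nat_lit 0) (XT.lf (nat_lit 0) (nat_lit 14646984033) (nat_lit 228) (nat_lit 20694475585) (nat_lit 76) (nat_lit 10950394354) (nat_lit 13) (nat_lit 5) (nat_lit 16) (nat_lit 5) (nat_lit 14) (nat_lit 4) (nat_lit 310) (nat_lit 242) (nat_lit 168)) (XT.lf (nat_lit 0) (nat_lit 22352142960) (nat_lit 228) (nat_lit 5119737040) (nat_lit 76) (nat_lit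 20843355255) (nat_lit 13) (nat_lit 5) (nat_lit 16) (nat_lit 5) (nat_lit 14) (nat_lit 4) (nat_lit 311) (nat_lit 242) (nat_lit 167))))))) (XT.nd (nat_lit 858) (nat_lit 228) (nat_lit 0) (XT.nd (nat_lit 390) (nat_lit 76) (nat_lit 0) (XT.nd (nat_lit 156) (nat_lit 152) (nat_lit 0) (XT.nd (nat_lit 78) (nat_lit 0) (nat_lit 0) (XT.lf (nat_lit 0) (nat_lit 11416923392) (nat_lit 76) (nat_lit 19112666216) (nat_lit 152) (nat_lit 19907600736) (nat_lit 12) (nat_lit 5) (nat_lit 13) (nat_lit 5) (nat_lit 14) (nat_lit 4) (nat_lit 312) (nat_lit 242) (nat_lit 166)) (XT.lf (nat_lit 0) (nat_lit 28848939091) (nat_lit 76) (nat_lit 10297667991) (nat_lit 152) (nat_lit 13517730039) (nat_lit 12) (nat_lit 5) (nat_lit 13) (nat_lit 5) (nat_lit 14) (nat_lit 4) (nat_lit 313) (nat_lit 242) (nat_lit 165))) (XT.nd (nat_lit 78) (nat_lit 152) (nat_lit 0) (XT.lf (nat_lit 0) (nat_lit 47115922051) (nat_lit 76) (nat_lit 1057596541)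 (nat_lit 152) (nat_lit 6829965532) (nat_lit 12) (nat_lit 5) (nat_lit 13) (nat_lit 5) (nat_lit 14) (nat_lit 4) (nat_lit 314) (nat_lit 242) (nat_lit 164)) (XT.nd (nat_lit 78) (nat_lit 0) (nat_lit 0) (XT.lf (nat_lit 0) (nat_lit 338359923) (nat_lit 152) (nat_lit 48566743901) (nat_lit 76) (nat_lit 8549944653) (nat_lit 10) (nat_lit 5) (nat_lit 12) (nat_lit 5) (nat_lit 11) (nat_lit 4) (nat_lit 315) (nat_lit 242) (nat_lit 163)) (XT.lf (nat_lit 0) (nat_lit 7798153820) (nat_lit 152) (nat_lit 33474127238) (nat_lit 76) (nat_lit 18752664585) (nat_lit 10) (nat_lit 5) (nat_lit 12) (nat_lit 5) (nat_lit 11) (nat_lit 4) (nat_lit 316) (nat_lit 242) (nat_lit 162))))) (XT.nd (nat_lit 234) (nat_lit 0) (nat_lit 0) (XT.nd (nat_lit 78) (nat_lit 76) (nat_lit 0) (XT.lf (nat_lit 0) (nat_lit 15612193859) (nat_lit 152) (nat_lit 17659973526) (nat_lit 76) (nat_lit 29451744481) (nat_lit 10) (nat_lit 5) (nat_lit 12) (nat_lit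 5) (nat_lit 11) (nat_lit 4) (nat_lit 317) (nat_lit 242) (nat_lit 161)) (XT.nd (nat_lit 78) (nat_lit 76) (nat_lit 0) (XT.lf (nat_lit 0) (nat_lit 23799084899) (nat_lit 152) (nat_lit 1086630018) (nat_lit 76) (nat_lit 40672658340) (nat_lit 10) (nat_lit 5) (nat_lit 12) (nat_lit 5) (nat_lit 11) (nat_lit 4) (nat_lit 318) (nat_lit 242) (nat_lit 160)) (XT.lf (nat_lit 0) (nat_lit 16609474294) (nat_lit 76) (nat_lit 15928505670) (nat_lit 152) (nat_lit 35992308758) (nat_lit 9) (nat_lit 5) (nat_lit 10) (nat_lit 5) (nat_lit 11) (nat_lit 4) (nat_lit 319) (nat_lit 242) (nat_lit 159)))) (XT.nd (nat_lit 78) (nat_lit 0) (nat_lit 0) (XT.lf (nat_lit 0) (nat_lit 35183934589) (nat_lit 76) (nat_lit 6524599435) (nat_lit 152) (nat_lit 29942434781) (nat_lit 9) (nat_lit 5) (nat_lit 10) (nat_lit 5) (nat_lit 11) (nat_lit 4) (nat_lit 320) (nat_lit 242) (nat_lit 158)) (XT.nd (nat_lit 78) (nat_lit 0) (nat_lit 0) (XT.lf (nat_lit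 0) (nat_lit 51354009831) (nat_lit 152) (nat_lit 20300894928) (nat_lit 0) (nat_lit 3272296097) (nat_lit 9) (nat_lit 5) (nat_lit 11) (nat_lit 4) (nat_lit 9) (nat_lit 4) (nat_lit 321) (nat_lit 242) (nat_lit 157)) (XT.lf (nat_lit 0) (nat_lit 61532562915) (nat_lit 152) (nat_lit 3419095867) (nat_lit 0) (nat_lit 13414070943) (nat_lit 9) (nat_lit 5) (nat_lit 11) (nat_lit 4) (nat_lit 9) (nat_lit 4) (nat_lit 322) (nat_lit 242) (nat_lit 156)))))) (XT.nd (nat_lit 468) (nat_lit 0) (nat_lit 0) (XT.nd (nat_lit 234) (nat_lit 76) (nat_lit 0) (XT.nd (nat_lit 78) (nat_lit 76) (nat_lit 0) (XT.lf (nat_lit 0) (nat_lit 14565501565) (nat_lit 76) (nat_lit 57780220430) (nat_lit 76) (nat_lit 9626701565) (nat_lit 8) (nat_lit 4) (nat_lit 9) (nat_lit 5) (nat_lit 9) (nat_lit 4) (nat_lit 323) (nat_lit 242) (nat_lit 155)) (XT.nd (nat_lit 78) (nat_lit 76) (nat_lit 0) (XT.lf (nat_lit 0) (nat_lit 33495992377) (nat_lit 76)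 (nat_lit 50224853386) (nat_lit 76) (nat_lit 2037975574) (nat_lit 8) (nat_lit 4) (nat_lit 9) (nat_lit 5) (nat_lit 9) (nat_lit 4) (nat_lit 324) (nat_lit 242) (nat_lit 154)) (XT.lf (nat_lit 0) (nat_lit 5801100123) (nat_lit 152) (nat_lit 36442414984) (nat_lit 76) (nat_lit 47489722593) (nat_lit 7) (nat_lit 5) (nat_lit 9) (nat_lit 5) (nat_lit 8) (nat_lit 4) (nat_lit 325) (nat_lit 242) (nat_lit 153)))) (XT.nd (nat_lit 78) (nat_lit 76) (nat_lit 0) (XT.lf (nat_lit 0) (nat_lit 13977642200) (nat_lit 152) (nat_lit 19874292115) (nat_lit 76) (nat_lit 60054212837) (nat_lit 7) (nat_lit 5) (nat_lit 9) (nat_lit 5) (nat_lit 8) (nat_lit 4) (nat_lit 326) (nat_lit 242) (nat_lit 152)) (XT.nd (nat_lit 78) (nat_lit 76) (nat_lit 0) (XT.lf (nat_lit 0) (nat_lit 22550886856) (nat_lit 152) (nat_lit 2499422176) (nat_lit 76) (nat_lit 73237763871) (nat_lit 7) (nat_lit 5) (nat_lit 9) (nat_lit 5) (nat_lit 8) (nat_lit 4) (nat_lit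 327) (nat_lit 242) (nat_lit 151)) (XT.lf (nat_lit 0) (nat_lit 16036493318) (nat_lit 76) (nat_lit 15658905844) (nat_lit 152) (nat_lit 71189424367) (nat_lit 6) (nat_lit 5) (nat_lit 7) (nat_lit 5) (nat_lit 8) (nat_lit 4) (nat_lit 328) (nat_lit 242) (nat_lit 150))))) (XT.nd (nat_lit 30810) (nat_lit 0) (nat_lit 19456) (XT.nd (nat_lit 78) (nat_lit 0) (nat_lit 0) (XT.lf (nat_lit 0) (nat_lit 35531398760) (nat_lit 76) (nat_lit 5780277766) (nat_lit 152) (nat_lit 66399305407) (nat_lit 6) (nat_lit 5) (nat_lit 7) (nat_lit 5) (nat_lit 8) (nat_lit 4) (nat_lit 329) (nat_lit 242) (nat_lit 149)) (XT.nd (nat_lit 78) (nat_lit 0) (nat_lit 0) (XT.lf (nat_lit 0) (nat_lit 51442173541) (nat_lit 152) (nat_lit 56840869735) (nat_lit 0) (nat_lit 4494408931) (nat_lit 6) (nat_lit 5) (nat_lit 8) (nat_lit 4) (nat_lit 6) (nat_lit 4) (nat_lit 330) (nat_lit 242) (nat_lit 148)) (XT.lf (nat_lit 0) (nat_lit 62127310446) (nat_lit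 152) (nat_lit 40811969162) (nat_lit 0) (nat_lit 15156528768) (nat_lit 6) (nat_lit 5) (nat_lit 8) (nat_lit 4) (nat_lit 6) (nat_lit 4) (nat_lit 331) (nat_lit 242) (nat_lit 147)))) (XT.nd (nat_lit 78) (nat_lit 836) (nat_lit 0) (XT.lf (nat_lit 0) (nat_lit 3074214034) (nat_lit 380) (nat_lit 100813794) (nat_lit 380) (nat_lit 100813794) (nat_lit 273) (nat_lit 3) (nat_lit 278) (nat_lit 3) (nat_lit 278) (nat_lit 5) (nat_lit 243) (nat_lit 243) (nat_lit 234)) (XT.nd (nat_lit 78) (nat_lit 456) (nat_lit 0) (XT.lf (nat_lit 0) (nat_lit 3351738545) (nat_lit 380) (nat_lit 1913432365) (nat_lit 456) (nat_lit 1326339981) (nat_lit 268) (nat_lit 5) (nat_lit 273) (nat_lit 3) (nat_lit 274) (nat_lit 5) (nat_lit 244) (nat_lit 243) (nat_lit 233)) (XT.lf (nat_lit 0) (nat_lit 430636126) (nat_lit 456) (nat_lit 3544283958) (nat_lit 532) (nat_lit 2665095238) (nat_lit 262) (nat_lit 5) (nat_lit 268) (nat_lit 5) (nat_lit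 269) (nat_lit 5) (nat_lit 245) (nat_lit 243) (nat_lit 232))))))))
noncomputable def xc56 : XT := (XT.nd (nat_lit 1716) (nat_lit 5092) (nat_lit 0) (XT.nd (nat_lit 858) (nat_lit 6840) (nat_lit 0) (XT.nd (nat_lit 390) (nat_lit 3952) (nat_lit 0) (XT.nd (nat_lit 156) (nat_lit 532) (nat_lit 0) (XT.nd (nat_lit 78) (nat_lit 532) (nat_lit 0) (XT.lf (nat_lit 76) (nat_lit 1572146439) (nat_lit 0) (nat_lit 2449497384) (nat_lit 532) (nat_lit 2674889548) (nat_lit 263) (nat_lit 5) (nat_lit 262) (nat_lit 5) (nat_lit 269) (nat_lit 5) (nat_lit 246) (nat_lit 243) (nat_lit 231)) (XT.lf (nat_lit 76) (nat_lit 123804802) (nat_lit 0) (nat_lit 705771115) (nat_lit 608) (nat_lit 5932220782) (nat_lit 256) (nat_lit 5) (nat_lit 255) (nat_lit 5) (nat_lit 263) (nat_lit 5) (nat_lit 247) (nat_lit 243) (nat_lit 230))) (XT.nd (nat_lit 78) (nat_lit 608) (nat_lit 0) (XT.lf (nat_lit 0) (nat_lit 4304280878) (nat_lit 532) (nat_lit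 1261653299) (nat_lit 608) (nat_lit 1268677186) (nat_lit 256) (nat_lit 5) (nat_lit 263) (nat_lit 5) (nat_lit 264) (nat_lit 5) (nat_lit 248) (nat_lit 243) (nat_lit 229)) (XT.nd (nat_lit 78) (nat_lit 0) (nat_lit 0) (XT.lf (nat_lit 0) (nat_lit 863932453) (nat_lit 608) (nat_lit 2593450056) (nat_lit 684) (nat_lit 3458653857) (nat_lit 248) (nat_lit 5) (nat_lit 256) (nat_lit 5) (nat_lit 257) (nat_lit 5) (nat_lit 249) (nat_lit 243) (nat_lit 228)) (XT.lf (nat_lit 76) (nat_lit 3116061277) (nat_lit 0) (nat_lit 1105053271) (nat_lit 684) (nat_lit 2784822402) (nat_lit 249) (nat_lit 5) (nat_lit 248) (nat_lit 5) (nat_lit 257) (nat_lit 5) (nat_lit 250) (nat_lit 243) (nat_lit 227))))) (XT.nd (nat_lit 234) (nat_lit 2660) (nat_lit 0) (XT.nd (nat_lit 78) (nat_lit 684) (nat_lit 0) (XT.lf (nat_lit 0) (nat_lit 501139126) (nat_lit 684) (nat_lit 5152533159) (nat_lit 76) (nat_lit 1450919179) (nat_lit 240) (nat_lit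 5) (nat_lit 249) (nat_lit 5) (nat_lit 241) (nat_lit 5) (nat_lit 251) (nat_lit 243) (nat_lit 226)) (XT.nd (nat_lit 78) (nat_lit 0) (nat_lit 0) (XT.lf (nat_lit 0) (nat_lit 802713578) (nat_lit 684) (nat_lit 2967239536) (nat_lit 760) (nat_lit 3441573656) (nat_lit 231) (nat_lit 5) (nat_lit 240) (nat_lit 5) (nat_lit 241) (nat_lit 5) (nat_lit 252) (nat_lit 243) (nat_lit 225)) (XT.lf (nat_lit 0) (nat_lit 7033536804) (nat_lit 684) (nat_lit 45515260) (nat_lit 760) (nat_lit 248889264) (nat_lit 231) (nat_lit 5) (nat_lit 240) (nat_lit 5) (nat_lit 241) (nat_lit 5) (nat_lit 253) (nat_lit 243) (nat_lit 224)))) (XT.nd (nat_lit 78) (nat_lit 1824) (nat_lit 0) (XT.lf (nat_lit 0) (nat_lit 2961842405) (nat_lit 836) (nat_lit 1396146515) (nat_lit 76) (nat_lit 3094128389) (nat_lit 220) (nat_lit 5) (nat_lit 231) (nat_lit 5) (nat_lit 221) (nat_lit 5) (nat_lit 254) (nat_lit 243) (nat_lit 223)) (XT.nd (nat_lit 78) (nat_lit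 988) (nat_lit 0) (XT.lf (nat_lit 0) (nat_lit 5114957289) (nat_lit 836) (nat_lit 1103141233) (nat_lit 912) (nat_lit 1368011125) (nat_lit 209) (nat_lit 5) (nat_lit 220) (nat_lit 5) (nat_lit 221) (nat_lit 5) (nat_lit 255) (nat_lit 243) (nat_lit 222)) (XT.lf (nat_lit 0) (nat_lit 1793139912) (nat_lit 988) (nat_lit 3564553085) (nat_lit 76) (nat_lit 2371312621) (nat_lit 196) (nat_lit 5) (nat_lit 209) (nat_lit 5) (nat_lit 197) (nat_lit 5) (nat_lit 256) (nat_lit 243) (nat_lit 221)))))) (XT.nd (nat_lit 390) (nat_lit 3040) (nat_lit 0) (XT.nd (nat_lit 156) (nat_lit 1672) (nat_lit 0) (XT.nd (nat_lit 78) (nat_lit 1140) (nat_lit 0) (XT.lf (nat_lit 0) (nat_lit 3211994794) (nat_lit 988) (nat_lit 1788619143) (nat_lit 1064) (nat_lit 2880868886) (nat_lit 183) (nat_lit 5) (nat_lit 196) (nat_lit 5) (nat_lit 197) (nat_lit 5) (nat_lit 257) (nat_lit 243) (nat_lit 220)) (XT.lf (nat_lit 0) (nat_lit 251832010) (nat_lit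 1140) (nat_lit 5792034179) (nat_lit 76) (nat_lit 1999997379) (nat_lit 168) (nat_lit 5) (nat_lit 183) (nat_lit 5) (nat_lit 169) (nat_lit 5) (nat_lit 258) (nat_lit 243) (nat_lit 219))) (XT.nd (nat_lit 78) (nat_lit 608) (nat_lit 0) (XT.lf (nat_lit 0) (nat_lit 1249513776) (nat_lit 1064) (nat_lit 2169999360) (nat_lit 1140) (nat_lit 4796155712) (nat_lit 154) (nat_lit 5) (nat_lit 168) (nat_lit 5) (nat_lit 169) (nat_lit 5) (nat_lit 259) (nat_lit 243) (nat_lit 218)) (XT.nd (nat_lit 78) (nat_lit 76) (nat_lit 0) (XT.lf (nat_lit 0) (nat_lit 223621986) (nat_lit 532) (nat_lit 6466906046) (nat_lit 608) (nat_lit 1707472612) (nat_lit 147) (nat_lit 5) (nat_lit 154) (nat_lit 5) (nat_lit 155) (nat_lit 5) (nat_lit 260) (nat_lit 243) (nat_lit 217)) (XT.lf (nat_lit 0) (nat_lit 1468018612) (nat_lit 608) (nat_lit 837133992) (nat_lit 76) (nat_lit 6285246665) (nat_lit 146) (nat_lit 5) (nat_lit 154) (nat_lit 5) (nat_lit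 147) (nat_lit 5) (nat_lit 261) (nat_lit 243) (nat_lit 216))))) (XT.nd (nat_lit 234) (nat_lit 1368) (nat_lit 0) (XT.nd (nat_lit 78) (nat_lit 1140) (nat_lit 0) (XT.lf (nat_lit 0) (nat_lit 4728213632) (nat_lit 608) (nat_lit 1955732085) (nat_lit 76) (nat_lit 2109378416) (nat_lit 139) (nat_lit 5) (nat_lit 147) (nat_lit 5) (nat_lit 140) (nat_lit 5) (nat_lit 262) (nat_lit 243) (nat_lit 215)) (XT.nd (nat_lit 78) (nat_lit 608) (nat_lit 0) (XT.lf (nat_lit 0) (nat_lit 5873699871) (nat_lit 532) (nat_lit 2245270654) (nat_lit 608) (nat_lit 888636959) (nat_lit 132) (nat_lit 5) (nat_lit 139) (nat_lit 5) (nat_lit 140) (nat_lit 5) (nat_lit 263) (nat_lit 243) (nat_lit 214)) (XT.lf (nat_lit 0) (nat_lit 2372263472) (nat_lit 608) (nat_lit 4407248299) (nat_lit 76) (nat_lit 2453408088) (nat_lit 124) (nat_lit 5) (nat_lit 132) (nat_lit 5) (nat_lit 125) (nat_lit 5) (nat_lit 264) (nat_lit 243) (nat_lit 213)))) (XT.nd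 (nat_lit 78) (nat_lit 912) (nat_lit 0) (XT.lf (nat_lit 0) (nat_lit 3696427628) (nat_lit 456) (nat_lit 2059060981) (nat_lit 532) (nat_lit 3714625846) (nat_lit 118) (nat_lit 5) (nat_lit 124) (nat_lit 5) (nat_lit 125) (nat_lit 5) (nat_lit 265) (nat_lit 243) (nat_lit 212)) (XT.nd (nat_lit 78) (nat_lit 456) (nat_lit 0) (XT.lf (nat_lit 0) (nat_lit 2475838350) (nat_lit 456) (nat_lit 6820346554) (nat_lit 532) (nat_lit 423534862) (nat_lit 112) (nat_lit 5) (nat_lit 118) (nat_lit 5) (nat_lit 119) (nat_lit 5) (nat_lit 266) (nat_lit 243) (nat_lit 211)) (XT.lf (nat_lit 0) (nat_lit 1127447790) (nat_lit 380) (nat_lit 1830795067) (nat_lit 456) (nat_lit 7023314293) (nat_lit 106) (nat_lit 5) (nat_lit 111) (nat_lit 5) (nat_lit 112) (nat_lit 5) (nat_lit 267) (nat_lit 243) (nat_lit 210))))))) (XT.nd (nat_lit 858) (nat_lit 1748) (nat_lit 0) (XT.nd (nat_lit 390) (nat_lit 1748) (nat_lit 0) (XT.nd (nat_lit 156) (nat_lit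 1140) (nat_lit 0) (XT.nd (nat_lit 78) (nat_lit 456) (nat_lit 0) (XT.lf (nat_lit 0) (nat_lit 6505917923) (nat_lit 456) (nat_lit 345389210) (nat_lit 76) (nat_lit 3405062805) (nat_lit 106) (nat_lit 5) (nat_lit 112) (nat_lit 5) (nat_lit 107) (nat_lit 5) (nat_lit 268) (nat_lit 243) (nat_lit 209)) (XT.lf (nat_lit 0) (nat_lit 8622269363) (nat_lit 456) (nat_lit 1612370160) (nat_lit 532) (nat_lit 310341931) (nat_lit 100) (nat_lit 5) (nat_lit 106) (nat_lit 5) (nat_lit 107) (nat_lit 5) (nat_lit 269) (nat_lit 243) (nat_lit 208))) (XT.nd (nat_lit 78) (nat_lit 684) (nat_lit 0) (XT.lf (nat_lit 0) (nat_lit 3253063211) (nat_lit 456) (nat_lit 3694949296) (nat_lit 76) (nat_lit 3898742621) (nat_lit 94) (nat_lit 5) (nat_lit 100) (nat_lit 5) (nat_lit 95) (nat_lit 5) (nat_lit 270) (nat_lit 243) (nat_lit 207)) (XT.nd (nat_lit 78) (nat_lit 304) (nat_lit 0) (XT.lf (nat_lit 0) (nat_lit 5531133963) (nat_lit 380) (nat_lit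 1454625731) (nat_lit 456) (nat_lit 4177987346) (nat_lit 89) (nat_lit 5) (nat_lit 94) (nat_lit 5) (nat_lit 95) (nat_lit 5) (nat_lit 271) (nat_lit 243) (nat_lit 206)) (XT.lf (nat_lit 0) (nat_lit 3717279364) (nat_lit 304) (nat_lit 7214563438) (nat_lit 380) (nat_lit 564084067) (nat_lit 85) (nat_lit 5) (nat_lit 89) (nat_lit 5) (nat_lit 90) (nat_lit 5) (nat_lit 272) (nat_lit 243) (nat_lit 205))))) (XT.nd (nat_lit 234) (nat_lit 988) (nat_lit 0) (XT.nd (nat_lit 78) (nat_lit 304) (nat_lit 0) (XT.lf (nat_lit 0) (nat_lit 1683637978) (nat_lit 380) (nat_lit 1486592883) (nat_lit 456) (nat_lit 8673600812) (nat_lit 79) (nat_lit 5) (nat_lit 84) (nat_lit 5) (nat_lit 85) (nat_lit 5) (nat_lit 273) (nat_lit 243) (nat_lit 204)) (XT.nd (nat_lit 78) (nat_lit 304) (nat_lit 0) (XT.lf (nat_lit 0) (nat_lit 7120260681) (nat_lit 456) (nat_lit 586619948) (nat_lit 76) (nat_lit 4500987637) (nat_lit 79) (nat_lit 5) (nat_lit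 85) (nat_lit 5) (nat_lit 80) (nat_lit 5) (nat_lit 274) (nat_lit 243) (nat_lit 203)) (XT.lf (nat_lit 0) (nat_lit 9530440166) (nat_lit 304) (nat_lit 1764126823) (nat_lit 380) (nat_lit 1294854597) (nat_lit 75) (nat_lit 5) (nat_lit 79) (nat_lit 5) (nat_lit 80) (nat_lit 5) (nat_lit 275) (nat_lit 243) (nat_lit 202)))) (XT.nd (nat_lit 78) (nat_lit 608) (nat_lit 0) (XT.lf (nat_lit 0) (nat_lit 2676121634) (nat_lit 380) (nat_lit 5847954809) (nat_lit 76) (nat_lit 4464079474) (nat_lit 70) (nat_lit 5) (nat_lit 75) (nat_lit 5) (nat_lit 71) (nat_lit 5) (nat_lit 276) (nat_lit 243) (nat_lit 201)) (XT.nd (nat_lit 78) (nat_lit 304) (nat_lit 0) (XT.lf (nat_lit 0) (nat_lit 4459337426) (nat_lit 304) (nat_lit 2376823031) (nat_lit 380) (nat_lit 6569867139) (nat_lit 66) (nat_lit 5) (nat_lit 70) (nat_lit 5) (nat_lit 71) (nat_lit 5) (nat_lit 277) (nat_lit 243) (nat_lit 200)) (XT.lf (nat_lit 0) (nat_lit 1446735915)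 (nat_lit 304) (nat_lit 9798289388) (nat_lit 380) (nat_lit 2598641922) (nat_lit 62) (nat_lit 5) (nat_lit 66) (nat_lit 5) (nat_lit 67) (nat_lit 5) (nat_lit 278) (nat_lit 243) (nat_lit 199)))))) (XT.nd (nat_lit 390) (nat_lit 912) (nat_lit 0) (XT.nd (nat_lit 156) (nat_lit 532) (nat_lit 0) (XT.nd (nat_lit 78) (nat_lit 228) (nat_lit 0) (XT.lf (nat_lit 0) (nat_lit 1586137033) (nat_lit 380) (nat_lit 1895112493) (nat_lit 76) (nat_lit 10820208311) (nat_lit 61) (nat_lit 5) (nat_lit 66) (nat_lit 5) (nat_lit 62) (nat_lit 5) (nat_lit 279) (nat_lit 243) (nat_lit 198)) (XT.lf (nat_lit 0) (nat_lit 5978436055) (nat_lit 304) (nat_lit 5623760059) (nat_lit 76) (nat_lit 3177696502) (nat_lit 58) (nat_lit 5) (nat_lit 62) (nat_lit 5) (nat_lit 59) (nat_lit 5) (nat_lit 280) (nat_lit 243) (nat_lit 197))) (XT.nd (nat_lit 78) (nat_lit 304) (nat_lit 0) (XT.lf (nat_lit 0) (nat_lit 5494105236) (nat_lit 228) (nat_lit 5138006799)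 (nat_lit 304) (nat_lit 4648967339) (nat_lit 55) (nat_lit 5) (nat_lit 58) (nat_lit 5) (nat_lit 59) (nat_lit 5) (nat_lit 281) (nat_lit 243) (nat_lit 196)) (XT.nd (nat_lit 78) (nat_lit 76) (nat_lit 0) (XT.lf (nat_lit 0) (nat_lit 1395989887) (nat_lit 228) (nat_lit 14146294540) (nat_lit 304) (nat_lit 264405811) (nat_lit 52) (nat_lit 5) (nat_lit 55) (nat_lit 5) (nat_lit 56) (nat_lit 5) (nat_lit 282) (nat_lit 243) (nat_lit 195)) (XT.lf (nat_lit 0) (nat_lit 4345860618) (nat_lit 304) (nat_lit 3200729328) (nat_lit 76) (nat_lit 8808078882) (nat_lit 51) (nat_lit 5) (nat_lit 55) (nat_lit 5) (nat_lit 52) (nat_lit 5) (nat_lit 283) (nat_lit 243) (nat_lit 194))))) (XT.nd (nat_lit 234) (nat_lit 380) (nat_lit 0) (XT.nd (nat_lit 78) (nat_lit 304) (nat_lit 0) (XT.lf (nat_lit 0) (nat_lit 8647023489) (nat_lit 228) (nat_lit 557842651) (nat_lit 304) (nat_lit 7724460544) (nat_lit 48) (nat_lit 5) (nat_lit 51) (nat_lit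 5) (nat_lit 52) (nat_lit 5) (nat_lit 284) (nat_lit 243) (nat_lit 193)) (XT.nd (nat_lit 78) (nat_lit 76) (nat_lit 0) (XT.lf (nat_lit 0) (nat_lit 3538107212) (nat_lit 228) (nat_lit 10843426443) (nat_lit 304) (nat_lit 3149008805) (nat_lit 45) (nat_lit 5) (nat_lit 48) (nat_lit 5) (nat_lit 49) (nat_lit 5) (nat_lit 285) (nat_lit 243) (nat_lit 192)) (XT.lf (nat_lit 0) (nat_lit 1658215479) (nat_lit 304) (nat_lit 2145453800) (nat_lit 76) (nat_lit 14356674818) (nat_lit 44) (nat_lit 5) (nat_lit 48) (nat_lit 5) (nat_lit 45) (nat_lit 5) (nat_lit 286) (nat_lit 243) (nat_lit 191)))) (XT.nd (nat_lit 78) (nat_lit 152) (nat_lit 0) (XT.lf (nat_lit 0) (nat_lit 6722853907) (nat_lit 304) (nat_lit 8472493104) (nat_lit 76) (nat_lit 3622946530) (nat_lit 41) (nat_lit 5) (nat_lit 45) (nat_lit 5) (nat_lit 42) (nat_lit 5) (nat_lit 287) (nat_lit 243) (nat_lit 190)) (XT.nd (nat_lit 78) (nat_lit 0) (nat_lit 0) (XT.lf (nat_lit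 0) (nat_lit 3955252703) (nat_lit 152) (nat_lit 8131962208) (nat_lit 228) (nat_lit 7420586497) (nat_lit 39) (nat_lit 5) (nat_lit 41) (nat_lit 5) (nat_lit 42) (nat_lit 5) (nat_lit 288) (nat_lit 243) (nat_lit 189)) (XT.lf (nat_lit 0) (nat_lit 17102474530) (nat_lit 152) (nat_lit 654038934) (nat_lit 228) (nat_lit 2474222638) (nat_lit 39) (nat_lit 5) (nat_lit 41) (nat_lit 5) (nat_lit 42) (nat_lit 5) (nat_lit 289) (nat_lit 243) (nat_lit 188))))))))
noncomputable def xc57 : XT := (XT.nd (nat_lit 1716) (nat_lit 532) (nat_lit 0) (XT.nd (nat_lit 858) (nat_lit 608) (nat_lit 0) (XT.nd (nat_lit 390) (nat_lit 684) (nat_lit 0) (XT.nd (nat_lit 156) (nat_lit 228) (nat_lit 0) (XT.nd (nat_lit 78) (nat_lit 152) (nat_lit 0) (XT.lf (nat_lit 0) (nat_lit 2784134611) (nat_lit 304) (nat_lit 11047573678) (nat_lit 76) (nat_lit 7153841782) (nat_lit 35) (nat_lit 5) (nat_lit 39) (nat_lit 5) (nat_lit 36) (nat_lit 5) (nat_lit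 290) (nat_lit 243) (nat_lit 187)) (XT.lf (nat_lit 0) (nat_lit 1875227715) (nat_lit 152) (nat_lit 6389361113) (nat_lit 228) (nat_lit 13512517187) (nat_lit 33) (nat_lit 5) (nat_lit 35) (nat_lit 5) (nat_lit 36) (nat_lit 5) (nat_lit 291) (nat_lit 243) (nat_lit 186))) (XT.nd (nat_lit 78) (nat_lit 228) (nat_lit 0) (XT.lf (nat_lit 0) (nat_lit 14101626995) (nat_lit 228) (nat_lit 7018849524) (nat_lit 76) (nat_lit 1485330865) (nat_lit 33) (nat_lit 5) (nat_lit 36) (nat_lit 5) (nat_lit 34) (nat_lit 5) (nat_lit 292) (nat_lit 243) (nat_lit 185)) (XT.nd (nat_lit 78) (nat_lit 76) (nat_lit 0) (XT.lf (nat_lit 0) (nat_lit 6499986577) (nat_lit 152) (nat_lit 13813702908) (nat_lit 228) (nat_lit 3159801512) (nat_lit 31) (nat_lit 5) (nat_lit 33) (nat_lit 5) (nat_lit 34) (nat_lit 5) (nat_lit 293) (nat_lit 243) (nat_lit 184)) (XT.lf (nat_lit 0) (nat_lit 2434088880) (nat_lit 228) (nat_lit 3634795050) (nat_lit 76)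 (nat_lit 18314102895) (nat_lit 30) (nat_lit 5) (nat_lit 33) (nat_lit 5) (nat_lit 31) (nat_lit 5) (nat_lit 294) (nat_lit 243) (nat_lit 183))))) (XT.nd (nat_lit 234) (nat_lit 380) (nat_lit 0) (XT.nd (nat_lit 78) (nat_lit 152) (nat_lit 0) (XT.lf (nat_lit 0) (nat_lit 8323752692) (nat_lit 228) (nat_lit 14878982680) (nat_lit 76) (nat_lit 2131877956) (nat_lit 28) (nat_lit 5) (nat_lit 31) (nat_lit 5) (nat_lit 29) (nat_lit 5) (nat_lit 295) (nat_lit 243) (nat_lit 182)) (XT.nd (nat_lit 78) (nat_lit 152) (nat_lit 0) (XT.lf (nat_lit 0) (nat_lit 14567234049) (nat_lit 228) (nat_lit 1133116988) (nat_lit 76) (nat_lit 10631725605) (nat_lit 28) (nat_lit 5) (nat_lit 31) (nat_lit 5) (nat_lit 29) (nat_lit 5) (nat_lit 296) (nat_lit 243) (nat_lit 181)) (XT.lf (nat_lit 0) (nat_lit 13501284178) (nat_lit 152) (nat_lit 7713570911) (nat_lit 228) (nat_lit 6161832888) (nat_lit 26) (nat_lit 5) (nat_lit 28) (nat_lit 5)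 (nat_lit 29) (nat_lit 5) (nat_lit 297) (nat_lit 243) (nat_lit 180)))) (XT.nd (nat_lit 78) (nat_lit 228) (nat_lit 0) (XT.lf (nat_lit 0) (nat_lit 356955244) (nat_lit 152) (nat_lit 27822751863) (nat_lit 228) (nat_lit 294309491) (nat_lit 24) (nat_lit 5) (nat_lit 26) (nat_lit 5) (nat_lit 27) (nat_lit 4) (nat_lit 298) (nat_lit 243) (nat_lit 179)) (XT.nd (nat_lit 78) (nat_lit 152) (nat_lit 0) (XT.lf (nat_lit 0) (nat_lit 5938187682) (nat_lit 228) (nat_lit 14227024392) (nat_lit 76) (nat_lit 9453755287) (nat_lit 23) (nat_lit 5) (nat_lit 26) (nat_lit 5) (nat_lit 24) (nat_lit 5) (nat_lit 299) (nat_lit 243) (nat_lit 178)) (XT.lf (nat_lit 0) (nat_lit 303006376) (nat_lit 152) (nat_lit 12141873183) (nat_lit 228) (nat_lit 18377167353) (nat_lit 21) (nat_lit 5) (nat_lit 23) (nat_lit 5) (nat_lit 24) (nat_lit 5) (nat_lit 300) (nat_lit 243) (nat_lit 177)))))) (XT.nd (nat_lit 390) (nat_lit 304) (nat_lit 0) (XT.nd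 (nat_lit 156) (nat_lit 304) (nat_lit 0) (XT.nd (nat_lit 78) (nat_lit 0) (nat_lit 0) (XT.lf (nat_lit 0) (nat_lit 15801038198) (nat_lit 152) (nat_lit 3589107368) (nat_lit 228) (nat_lit 12691764706) (nat_lit 21) (nat_lit 5) (nat_lit 23) (nat_lit 5) (nat_lit 24) (nat_lit 5) (nat_lit 301) (nat_lit 243) (nat_lit 176)) (XT.lf (nat_lit 0) (nat_lit 26702659068) (nat_lit 228) (nat_lit 1436533718) (nat_lit 76) (nat_lit 5265000220) (nat_lit 21) (nat_lit 5) (nat_lit 24) (nat_lit 5) (nat_lit 22) (nat_lit 4) (nat_lit 302) (nat_lit 243) (nat_lit 175))) (XT.nd (nat_lit 78) (nat_lit 228) (nat_lit 0) (XT.lf (nat_lit 0) (nat_lit 14342319388) (nat_lit 76) (nat_lit 20182247689) (nat_lit 152) (nat_lit 263734241) (nat_lit 20) (nat_lit 5) (nat_lit 21) (nat_lit 5) (nat_lit 22) (nat_lit 4) (nat_lit 303) (nat_lit 243) (nat_lit 174)) (XT.nd (nat_lit 78) (nat_lit 152) (nat_lit 0) (XT.lf (nat_lit 0) (nat_lit 6354457171)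 (nat_lit 152) (nat_lit 5414114557) (nat_lit 76) (nat_lit 24471634847) (nat_lit 19) (nat_lit 5) (nat_lit 21) (nat_lit 5) (nat_lit 20) (nat_lit 5) (nat_lit 304) (nat_lit 243) (nat_lit 173)) (XT.lf (nat_lit 0) (nat_lit 10523960713) (nat_lit 152) (nat_lit 2847096424) (nat_lit 228) (nat_lit 24391404598) (nat_lit 17) (nat_lit 5) (nat_lit 19) (nat_lit 5) (nat_lit 20) (nat_lit 5) (nat_lit 305) (nat_lit 243) (nat_lit 172))))) (XT.nd (nat_lit 234) (nat_lit 228) (nat_lit 0) (XT.nd (nat_lit 78) (nat_lit 76) (nat_lit 0) (XT.lf (nat_lit 0) (nat_lit 20829901813) (nat_lit 228) (nat_lit 12097670350) (nat_lit 76) (nat_lit 6430535601) (nat_lit 17) (nat_lit 5) (nat_lit 20) (nat_lit 5) (nat_lit 18) (nat_lit 4) (nat_lit 306) (nat_lit 243) (nat_lit 171)) (XT.nd (nat_lit 78) (nat_lit 0) (nat_lit 0) (XT.lf (nat_lit 0) (nat_lit 3800521452) (nat_lit 76) (nat_lit 24900199291) (nat_lit 152) (nat_lit 12331663965) (nat_lit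 16) (nat_lit 5) (nat_lit 17) (nat_lit 5) (nat_lit 18) (nat_lit 4) (nat_lit 307) (nat_lit 243) (nat_lit 170)) (XT.lf (nat_lit 0) (nat_lit 20702615691) (nat_lit 76) (nat_lit 16361590662) (nat_lit 152) (nat_lit 5723214015) (nat_lit 16) (nat_lit 5) (nat_lit 17) (nat_lit 5) (nat_lit 18) (nat_lit 4) (nat_lit 308) (nat_lit 243) (nat_lit 169)))) (XT.nd (nat_lit 78) (nat_lit 152) (nat_lit 0) (XT.lf (nat_lit 0) (nat_lit 1167480403) (nat_lit 152) (nat_lit 6234309337) (nat_lit 76) (nat_lit 37228818423) (nat_lit 15) (nat_lit 5) (nat_lit 17) (nat_lit 5) (nat_lit 16) (nat_lit 5) (nat_lit 309) (nat_lit 243) (nat_lit 168)) (XT.nd (nat_lit 78) (nat_lit 0) (nat_lit 0) (XT.lf (nat_lit 0) (nat_lit 8383931940) (nat_lit 228) (nat_lit 36066668850) (nat_lit 76) (nat_lit 2110683392) (nat_lit 13) (nat_lit 5) (nat_lit 16) (nat_lit 5) (nat_lit 14) (nat_lit 4) (nat_lit 310) (nat_lit 243) (nat_lit 167)) (XT.lf (nat_lit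 0) (nat_lit 16078009561) (nat_lit 228) (nat_lit 20511247542) (nat_lit 76) (nat_lit 11995748428) (nat_lit 13) (nat_lit 5) (nat_lit 16) (nat_lit 5) (nat_lit 14) (nat_lit 4) (nat_lit 311) (nat_lit 243) (nat_lit 166))))))) (XT.nd (nat_lit 858) (nat_lit 228) (nat_lit 0) (XT.nd (nat_lit 390) (nat_lit 76) (nat_lit 0) (XT.nd (nat_lit 156) (nat_lit 152) (nat_lit 0) (XT.nd (nat_lit 78) (nat_lit 76) (nat_lit 0) (XT.lf (nat_lit 0) (nat_lit 24135156133) (nat_lit 228) (nat_lit 4215769776) (nat_lit 76) (nat_lit 22359650977) (nat_lit 13) (nat_lit 5) (nat_lit 16) (nat_lit 5) (nat_lit 14) (nat_lit 4) (nat_lit 312) (nat_lit 243) (nat_lit 165)) (XT.lf (nat_lit 0) (nat_lit 13114473826) (nat_lit 76) (nat_lit 19586145857) (nat_lit 152) (nat_lit 20238657516) (nat_lit 12) (nat_lit 5) (nat_lit 13) (nat_lit 5) (nat_lit 14) (nat_lit 4) (nat_lit 313) (nat_lit 243) (nat_lit 164))) (XT.nd (nat_lit 78) (nat_lit 152) (nat_lit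 0) (XT.lf (nat_lit 0) (nat_lit 31364437726) (nat_lit 76) (nat_lit 10353357420) (nat_lit 152) (nat_lit 13560927725) (nat_lit 12) (nat_lit 5) (nat_lit 13) (nat_lit 5) (nat_lit 14) (nat_lit 4) (nat_lit 314) (nat_lit 243) (nat_lit 163)) (XT.nd (nat_lit 78) (nat_lit 152) (nat_lit 0) (XT.lf (nat_lit 0) (nat_lit 50493672135) (nat_lit 76) (nat_lit 673148777) (nat_lit 152) (nat_lit 6568903032) (nat_lit 12) (nat_lit 5) (nat_lit 13) (nat_lit 5) (nat_lit 14) (nat_lit 4) (nat_lit 315) (nat_lit 243) (nat_lit 162)) (XT.lf (nat_lit 0) (nat_lit 931756425) (nat_lit 152) (nat_lit 49977245439) (nat_lit 76) (nat_lit 9401138898) (nat_lit 10) (nat_lit 5) (nat_lit 12) (nat_lit 5) (nat_lit 11) (nat_lit 4) (nat_lit 316) (nat_lit 243) (nat_lit 161))))) (XT.nd (nat_lit 234) (nat_lit 76) (nat_lit 0) (XT.nd (nat_lit 78) (nat_lit 0) (nat_lit 0) (XT.lf (nat_lit 0) (nat_lit 8737088659) (nat_lit 152) (nat_lit 34178466308)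 (nat_lit 76) (nat_lit 20093818778) (nat_lit 10) (nat_lit 5) (nat_lit 12) (nat_lit 5) (nat_lit 11) (nat_lit 4) (nat_lit 317) (nat_lit 243) (nat_lit 160)) (XT.nd (nat_lit 78) (nat_lit 0) (nat_lit 0) (XT.lf (nat_lit 0) (nat_lit 16915686550) (nat_lit 152) (nat_lit 17619765257) (nat_lit 76) (nat_lit 31308637385) (nat_lit 10) (nat_lit 5) (nat_lit 12) (nat_lit 5) (nat_lit 11) (nat_lit 4) (nat_lit 318) (nat_lit 243) (nat_lit 159)) (XT.lf (nat_lit 0) (nat_lit 25487022952) (nat_lit 152) (nat_lit 261716810) (nat_lit 76) (nat_lit 43072296666) (nat_lit 10) (nat_lit 5) (nat_lit 12) (nat_lit 5) (nat_lit 11) (nat_lit 4) (nat_lit 319) (nat_lit 243) (nat_lit 158)))) (XT.nd (nat_lit 78) (nat_lit 0) (nat_lit 0) (XT.lf (nat_lit 0) (nat_lit 18293989345) (nat_lit 76) (nat_lit 16353369478) (nat_lit 152) (nat_lit 37294669007) (nat_lit 9) (nat_lit 5) (nat_lit 10) (nat_lit 5) (nat_lit 11) (nat_lit 4) (nat_lit 320)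 (nat_lit 243) (nat_lit 157)) (XT.nd (nat_lit 78) (nat_lit 0) (nat_lit 0) (XT.lf (nat_lit 0) (nat_lit 37756504020) (nat_lit 76) (nat_lit 6496961335) (nat_lit 152) (nat_lit 30965980150) (nat_lit 9) (nat_lit 5) (nat_lit 10) (nat_lit 5) (nat_lit 11) (nat_lit 4) (nat_lit 321) (nat_lit 243) (nat_lit 156)) (XT.lf (nat_lit 0) (nat_lit 54362573395) (nat_lit 152) (nat_lit 20531136965) (nat_lit 0) (nat_lit 3766351693) (nat_lit 9) (nat_lit 5) (nat_lit 11) (nat_lit 4) (nat_lit 9) (nat_lit 4) (nat_lit 322) (nat_lit 243) (nat_lit 155)))))) (XT.nd (nat_lit 468) (nat_lit 76) (nat_lit 0) (XT.nd (nat_lit 234) (nat_lit 76) (nat_lit 0) (XT.nd (nat_lit 78) (nat_lit 76) (nat_lit 0) (XT.lf (nat_lit 0) (nat_lit 65029060653) (nat_lit 152) (nat_lit 2842619508) (nat_lit 0) (nat_lit 14399480005) (nat_lit 9) (nat_lit 5) (nat_lit 11) (nat_lit 4) (nat_lit 9) (nat_lit 4) (nat_lit 323) (nat_lit 243) (nat_lit 154)) (XT.nd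 (nat_lit 78) (nat_lit 0) (nat_lit 0) (XT.lf (nat_lit 0) (nat_lit 16019782832) (nat_lit 76) (nat_lit 60350079881) (nat_lit 76) (nat_lit 9688728809) (nat_lit 8) (nat_lit 4) (nat_lit 9) (nat_lit 5) (nat_lit 9) (nat_lit 4) (nat_lit 324) (nat_lit 243) (nat_lit 153)) (XT.lf (nat_lit 0) (nat_lit 35862226461) (nat_lit 76) (nat_lit 52432142178) (nat_lit 76) (nat_lit 1740533559) (nat_lit 8) (nat_lit 4) (nat_lit 9) (nat_lit 5) (nat_lit 9) (nat_lit 4) (nat_lit 325) (nat_lit 243) (nat_lit 152)))) (XT.nd (nat_lit 78) (nat_lit 0) (nat_lit 0) (XT.lf (nat_lit 0) (nat_lit 6464058193) (nat_lit 152) (nat_lit 37598387197) (nat_lit 76) (nat_lit 50146049083) (nat_lit 7) (nat_lit 5) (nat_lit 9) (nat_lit 5) (nat_lit 8) (nat_lit 4) (nat_lit 326) (nat_lit 243) (nat_lit 151)) (XT.nd (nat_lit 78) (nat_lit 0) (nat_lit 0) (XT.lf (nat_lit 0) (nat_lit 15031670085) (nat_lit 152) (nat_lit 20233579544) (nat_lit 76) (nat_lit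 63325342871) (nat_lit 7) (nat_lit 5) (nat_lit 9) (nat_lit 5) (nat_lit 8) (nat_lit 4) (nat_lit 327) (nat_lit 243) (nat_lit 150)) (XT.lf (nat_lit 0) (nat_lit 24016665270) (nat_lit 152) (nat_lit 2020176925) (nat_lit 76) (nat_lit 77155289580) (nat_lit 7) (nat_lit 5) (nat_lit 9) (nat_lit 5) (nat_lit 8) (nat_lit 4) (nat_lit 328) (nat_lit 243) (nat_lit 149))))) (XT.nd (nat_lit 30888) (nat_lit 0) (nat_lit 18848) (XT.nd (nat_lit 78) (nat_lit 0) (nat_lit 0) (XT.lf (nat_lit 0) (nat_lit 17425214602) (nat_lit 76) (nat_lit 16182723814) (nat_lit 152) (nat_lit 74411104877) (nat_lit 6) (nat_lit 5) (nat_lit 7) (nat_lit 5) (nat_lit 8) (nat_lit 4) (nat_lit 329) (nat_lit 243) (nat_lit 148)) (XT.nd (nat_lit 78) (nat_lit 0) (nat_lit 0) (XT.lf (nat_lit 0) (nat_lit 37866917859) (nat_lit 76) (nat_lit 5822503728) (nat_lit 152) (nat_lit 69397565241) (nat_lit 6) (nat_lit 5) (nat_lit 7) (nat_lit 5) (nat_lit 8) (nat_lit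 4) (nat_lit 330) (nat_lit 243) (nat_lit 147)) (XT.lf (nat_lit 0) (nat_lit 54313837943) (nat_lit 152) (nat_lit 59143750283) (nat_lit 0) (nat_lit 4949579096) (nat_lit 6) (nat_lit 5) (nat_lit 8) (nat_lit 4) (nat_lit 6) (nat_lit 4) (nat_lit 331) (nat_lit 243) (nat_lit 146)))) (XT.nd (nat_lit 78) (nat_lit 532) (nat_lit 0) (XT.lf (nat_lit 0) (nat_lit 158832323) (nat_lit 532) (nat_lit 1579498267) (nat_lit 532) (nat_lit 1579498267) (nat_lit 261) (nat_lit 3) (nat_lit 268) (nat_lit 3) (nat_lit 268) (nat_lit 5) (nat_lit 244) (nat_lit 244) (nat_lit 232)) (XT.nd (nat_lit 78) (nat_lit 532) (nat_lit 0) (XT.lf (nat_lit 76) (nat_lit 1747668160) (nat_lit 0) (nat_lit 2038075599) (nat_lit 532) (nat_lit 2901985778) (nat_lit 262) (nat_lit 5) (nat_lit 261) (nat_lit 3) (nat_lit 268) (nat_lit 5) (nat_lit 245) (nat_lit 244) (nat_lit 231)) (XT.lf (nat_lit 76) (nat_lit 98071067) (nat_lit 0) (nat_lit 382816582) (nat_lit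 608) (nat_lit 6267659380) (nat_lit 255) (nat_lit 5) (nat_lit 254) (nat_lit 5) (nat_lit 262) (nat_lit 5) (nat_lit 246) (nat_lit 244) (nat_lit 230))))))))
noncomputable def xc58 : XT := (XT.nd (nat_lit 1716) (nat_lit 5092) (nat_lit 0) (XT.nd (nat_lit 858) (nat_lit 5852) (nat_lit 0) (XT.nd (nat_lit 390) (nat_lit 4256) (nat_lit 0) (XT.nd (nat_lit 156) (nat_lit 608) (nat_lit 0) (XT.nd (nat_lit 78) (nat_lit 608) (nat_lit 0) (XT.lf (nat_lit 0) (nat_lit 3823959907) (nat_lit 532) (nat_lit 1488042437) (nat_lit 608) (nat_lit 1504601699) (nat_lit 255) (nat_lit 5) (nat_lit 262) (nat_lit 5) (nat_lit 263) (nat_lit 5) (nat_lit 247) (nat_lit 244) (nat_lit 229)) (XT.lf (nat_lit 0) (nat_lit 272775547) (nat_lit 608) (nat_lit 3011422198) (nat_lit 684) (nat_lit 3609224869) (nat_lit 247) (nat_lit 5) (nat_lit 255) (nat_lit 5) (nat_lit 256) (nat_lit 5) (nat_lit 248) (nat_lit 244) (nat_lit 228))) (XT.nd (nat_lit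 78) (nat_lit 608) (nat_lit 0) (XT.lf (nat_lit 76) (nat_lit 2475239960) (nat_lit 0) (nat_lit 1006610009) (nat_lit 684) (nat_lit 3496596983) (nat_lit 248) (nat_lit 5) (nat_lit 247) (nat_lit 5) (nat_lit 256) (nat_lit 5) (nat_lit 249) (nat_lit 244) (nat_lit 227)) (XT.nd (nat_lit 78) (nat_lit 684) (nat_lit 0) (XT.lf (nat_lit 76) (nat_lit 1116408980) (nat_lit 0) (nat_lit 5601730152) (nat_lit 684) (nat_lit 354077715) (nat_lit 249) (nat_lit 5) (nat_lit 248) (nat_lit 5) (nat_lit 257) (nat_lit 5) (nat_lit 250) (nat_lit 244) (nat_lit 226)) (XT.lf (nat_lit 0) (nat_lit 2762042222) (nat_lit 684) (nat_lit 221782327) (nat_lit 760) (nat_lit 4190242354) (nat_lit 239) (nat_lit 5) (nat_lit 248) (nat_lit 5) (nat_lit 249) (nat_lit 5) (nat_lit 251) (nat_lit 244) (nat_lit 225))))) (XT.nd (nat_lit 234) (nat_lit 2812) (nat_lit 0) (XT.nd (nat_lit 78) (nat_lit 1444) (nat_lit 0) (XT.lf (nat_lit 76) (nat_lit 5789609896)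 (nat_lit 0) (nat_lit 118449937) (nat_lit 760) (nat_lit 1376839836) (nat_lit 240) (nat_lit 5) (nat_lit 239) (nat_lit 5) (nat_lit 249) (nat_lit 5) (nat_lit 252) (nat_lit 244) (nat_lit 224)) (XT.nd (nat_lit 78) (nat_lit 760) (nat_lit 0) (XT.lf (nat_lit 0) (nat_lit 1681600846) (nat_lit 760) (nat_lit 2774326912) (nat_lit 76) (nat_lit 2948024594) (nat_lit 230) (nat_lit 5) (nat_lit 240) (nat_lit 5) (nat_lit 231) (nat_lit 5) (nat_lit 253) (nat_lit 244) (nat_lit 223)) (XT.lf (nat_lit 0) (nat_lit 3495103991) (nat_lit 760) (nat_lit 1258199694) (nat_lit 836) (nat_lit 2778966106) (nat_lit 220) (nat_lit 5) (nat_lit 230) (nat_lit 5) (nat_lit 231) (nat_lit 5) (nat_lit 254) (nat_lit 244) (nat_lit 222)))) (XT.nd (nat_lit 78) (nat_lit 1900) (nat_lit 0) (XT.lf (nat_lit 0) (nat_lit 221295985) (nat_lit 912) (nat_lit 5299659152) (nat_lit 76) (nat_lit 2148840971) (nat_lit 208) (nat_lit 5) (nat_lit 220) (nat_lit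 5) (nat_lit 209) (nat_lit 5) (nat_lit 255) (nat_lit 244) (nat_lit 221)) (XT.nd (nat_lit 78) (nat_lit 988) (nat_lit 0) (XT.lf (nat_lit 0) (nat_lit 1228946144) (nat_lit 912) (nat_lit 2001719904) (nat_lit 988) (nat_lit 4585549729) (nat_lit 196) (nat_lit 5) (nat_lit 208) (nat_lit 5) (nat_lit 209) (nat_lit 5) (nat_lit 256) (nat_lit 244) (nat_lit 220)) (XT.lf (nat_lit 0) (nat_lit 86824366) (nat_lit 988) (nat_lit 6231693701) (nat_lit 1064) (nat_lit 1653921304) (nat_lit 183) (nat_lit 5) (nat_lit 196) (nat_lit 5) (nat_lit 197) (nat_lit 5) (nat_lit 257) (nat_lit 244) (nat_lit 219)))))) (XT.nd (nat_lit 390) (nat_lit 2508) (nat_lit 0) (XT.nd (nat_lit 156) (nat_lit 2204) (nat_lit 0) (XT.nd (nat_lit 78) (nat_lit 1064) (nat_lit 0) (XT.lf (nat_lit 0) (nat_lit 1345016755) (nat_lit 1064) (nat_lit 1060709700) (nat_lit 76) (nat_lit 5732180301) (nat_lit 182) (nat_lit 5) (nat_lit 196) (nat_lit 5) (nat_lit 183)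 (nat_lit 5) (nat_lit 258) (nat_lit 244) (nat_lit 218)) (XT.lf (nat_lit 0) (nat_lit 4401444477) (nat_lit 1140) (nat_lit 2240565931) (nat_lit 76) (nat_lit 1671178129) (nat_lit 168) (nat_lit 5) (nat_lit 183) (nat_lit 5) (nat_lit 169) (nat_lit 5) (nat_lit 259) (nat_lit 244) (nat_lit 217))) (XT.nd (nat_lit 78) (nat_lit 1140) (nat_lit 0) (XT.lf (nat_lit 0) (nat_lit 5042955922) (nat_lit 1064) (nat_lit 2523417075) (nat_lit 1140) (nat_lit 932462211) (nat_lit 154) (nat_lit 5) (nat_lit 168) (nat_lit 5) (nat_lit 169) (nat_lit 5) (nat_lit 260) (nat_lit 244) (nat_lit 216)) (XT.nd (nat_lit 78) (nat_lit 532) (nat_lit 0) (XT.lf (nat_lit 0) (nat_lit 2108116449) (nat_lit 608) (nat_lit 4730946261) (nat_lit 76) (nat_lit 1855663624) (nat_lit 146) (nat_lit 5) (nat_lit 154) (nat_lit 5) (nat_lit 147) (nat_lit 5) (nat_lit 261) (nat_lit 244) (nat_lit 215)) (XT.lf (nat_lit 0) (nat_lit 2828505927) (nat_lit 532) (nat_lit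 2421986568) (nat_lit 608) (nat_lit 3650809763) (nat_lit 139) (nat_lit 5) (nat_lit 146) (nat_lit 5) (nat_lit 147) (nat_lit 5) (nat_lit 262) (nat_lit 244) (nat_lit 214))))) (XT.nd (nat_lit 234) (nat_lit 1368) (nat_lit 0) (XT.nd (nat_lit 78) (nat_lit 608) (nat_lit 0) (XT.lf (nat_lit 0) (nat_lit 1639226223) (nat_lit 532) (nat_lit 6881879791) (nat_lit 608) (nat_lit 598194840) (nat_lit 132) (nat_lit 5) (nat_lit 139) (nat_lit 5) (nat_lit 140) (nat_lit 5) (nat_lit 263) (nat_lit 244) (nat_lit 213)) (XT.nd (nat_lit 78) (nat_lit 0) (nat_lit 0) (XT.lf (nat_lit 0) (nat_lit 356200959) (nat_lit 532) (nat_lit 2178918735) (nat_lit 608) (nat_lit 6813169911) (nat_lit 124) (nat_lit 5) (nat_lit 131) (nat_lit 5) (nat_lit 132) (nat_lit 5) (nat_lit 264) (nat_lit 244) (nat_lit 212)) (XT.lf (nat_lit 0) (nat_lit 5809236796) (nat_lit 608) (nat_lit 997178447) (nat_lit 76) (nat_lit 2782439899) (nat_lit 124) (nat_lit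 5) (nat_lit 132) (nat_lit 5) (nat_lit 125) (nat_lit 5) (nat_lit 265) (nat_lit 244) (nat_lit 211)))) (XT.nd (nat_lit 78) (nat_lit 912) (nat_lit 0) (XT.lf (nat_lit 0) (nat_lit 7407615664) (nat_lit 456) (nat_lit 1829887970) (nat_lit 532) (nat_lit 604422750) (nat_lit 118) (nat_lit 5) (nat_lit 124) (nat_lit 5) (nat_lit 125) (nat_lit 5) (nat_lit 266) (nat_lit 244) (nat_lit 210)) (XT.nd (nat_lit 78) (nat_lit 380) (nat_lit 0) (XT.lf (nat_lit 0) (nat_lit 2678949963) (nat_lit 532) (nat_lit 4013420143) (nat_lit 76) (nat_lit 3414589903) (nat_lit 111) (nat_lit 5) (nat_lit 118) (nat_lit 5) (nat_lit 112) (nat_lit 5) (nat_lit 267) (nat_lit 244) (nat_lit 209)) (XT.lf (nat_lit 0) (nat_lit 4669340477) (nat_lit 380) (nat_lit 1436970566) (nat_lit 456) (nat_lit 4279153111) (nat_lit 106) (nat_lit 5) (nat_lit 111) (nat_lit 5) (nat_lit 112) (nat_lit 5) (nat_lit 268) (nat_lit 244) (nat_lit 208))))))) (XT.nd (nat_lit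 858) (nat_lit 1748) (nat_lit 0) (XT.nd (nat_lit 390) (nat_lit 1672) (nat_lit 0) (XT.nd (nat_lit 156) (nat_lit 760) (nat_lit 0) (XT.nd (nat_lit 78) (nat_lit 456) (nat_lit 0) (XT.lf (nat_lit 0) (nat_lit 3103643190) (nat_lit 456) (nat_lit 6619139662) (nat_lit 532) (nat_lit 954738348) (nat_lit 100) (nat_lit 5) (nat_lit 106) (nat_lit 5) (nat_lit 107) (nat_lit 5) (nat_lit 269) (nat_lit 244) (nat_lit 207)) (XT.lf (nat_lit 0) (nat_lit 1379374059) (nat_lit 380) (nat_lit 1103540472) (nat_lit 456) (nat_lit 8500788131) (nat_lit 94) (nat_lit 5) (nat_lit 99) (nat_lit 5) (nat_lit 100) (nat_lit 5) (nat_lit 270) (nat_lit 244) (nat_lit 206))) (XT.nd (nat_lit 78) (nat_lit 760) (nat_lit 0) (XT.lf (nat_lit 0) (nat_lit 6109115994) (nat_lit 456) (nat_lit 528717744) (nat_lit 76) (nat_lit 4666124405) (nat_lit 94) (nat_lit 5) (nat_lit 100) (nat_lit 5) (nat_lit 95) (nat_lit 5) (nat_lit 271) (nat_lit 244) (nat_lit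 205)) (XT.nd (nat_lit 78) (nat_lit 380) (nat_lit 0) (XT.lf (nat_lit 0) (nat_lit 9062614538) (nat_lit 380) (nat_lit 868863959) (nat_lit 456) (nat_lit 1708436541) (nat_lit 89) (nat_lit 5) (nat_lit 94) (nat_lit 5) (nat_lit 95) (nat_lit 5) (nat_lit 272) (nat_lit 244) (nat_lit 204)) (XT.lf (nat_lit 0) (nat_lit 1957891161) (nat_lit 380) (nat_lit 4872405395) (nat_lit 76) (nat_lit 5160623338) (nat_lit 84) (nat_lit 5) (nat_lit 89) (nat_lit 5) (nat_lit 85) (nat_lit 5) (nat_lit 273) (nat_lit 244) (nat_lit 203))))) (XT.nd (nat_lit 234) (nat_lit 912) (nat_lit 0) (XT.nd (nat_lit 78) (nat_lit 380) (nat_lit 0) (XT.lf (nat_lit 0) (nat_lit 4963008612) (nat_lit 380) (nat_lit 814182906) (nat_lit 456) (nat_lit 6581744485) (nat_lit 79) (nat_lit 5) (nat_lit 84) (nat_lit 5) (nat_lit 85) (nat_lit 5) (nat_lit 274) (nat_lit 244) (nat_lit 202)) (XT.nd (nat_lit 78) (nat_lit 76) (nat_lit 0) (XT.lf (nat_lit 0) (nat_lit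 2543294918) (nat_lit 304) (nat_lit 7296119104) (nat_lit 380) (nat_lit 2904492705) (nat_lit 75) (nat_lit 5) (nat_lit 79) (nat_lit 5) (nat_lit 80) (nat_lit 5) (nat_lit 275) (nat_lit 244) (nat_lit 201)) (XT.lf (nat_lit 0) (nat_lit 948866144) (nat_lit 380) (nat_lit 129765854) (nat_lit 76) (nat_lit 12068994814) (nat_lit 74) (nat_lit 5) (nat_lit 79) (nat_lit 5) (nat_lit 75) (nat_lit 5) (nat_lit 276) (nat_lit 244) (nat_lit 200)))) (XT.nd (nat_lit 78) (nat_lit 608) (nat_lit 0) (XT.lf (nat_lit 0) (nat_lit 5019343526) (nat_lit 380) (nat_lit 3097616950) (nat_lit 76) (nat_lit 5451273194) (nat_lit 70) (nat_lit 5) (nat_lit 75) (nat_lit 5) (nat_lit 71) (nat_lit 5) (nat_lit 277) (nat_lit 244) (nat_lit 199)) (XT.nd (nat_lit 78) (nat_lit 304) (nat_lit 0) (XT.lf (nat_lit 0) (nat_lit 7637820492) (nat_lit 304) (nat_lit 1672763751) (nat_lit 380) (nat_lit 4698863813) (nat_lit 66) (nat_lit 5) (nat_lit 70) (nat_lit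 5) (nat_lit 71) (nat_lit 5) (nat_lit 278) (nat_lit 244) (nat_lit 198)) (XT.lf (nat_lit 0) (nat_lit 4447149942) (nat_lit 304) (nat_lit 9426869274) (nat_lit 380) (nat_lit 597064857) (nat_lit 62) (nat_lit 5) (nat_lit 66) (nat_lit 5) (nat_lit 67) (nat_lit 5) (nat_lit 279) (nat_lit 244) (nat_lit 197)))))) (XT.nd (nat_lit 390) (nat_lit 912) (nat_lit 0) (XT.nd (nat_lit 156) (nat_lit 532) (nat_lit 0) (XT.nd (nat_lit 78) (nat_lit 0) (nat_lit 0) (XT.lf (nat_lit 0) (nat_lit 857682037) (nat_lit 228) (nat_lit 2806402355) (nat_lit 304) (nat_lit 11289931196) (nat_lit 58) (nat_lit 5) (nat_lit 61) (nat_lit 5) (nat_lit 62) (nat_lit 5) (nat_lit 280) (nat_lit 244) (nat_lit 196)) (XT.lf (nat_lit 0) (nat_lit 8207360154) (nat_lit 304) (nat_lit 3103139072) (nat_lit 76) (nat_lit 4148053735) (nat_lit 58) (nat_lit 5) (nat_lit 62) (nat_lit 5) (nat_lit 59) (nat_lit 5) (nat_lit 281) (nat_lit 244) (nat_lit 195))) (XT.nd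 (nat_lit 78) (nat_lit 304) (nat_lit 0) (XT.lf (nat_lit 0) (nat_lit 8490306195) (nat_lit 228) (nat_lit 4537669548) (nat_lit 304) (nat_lit 2958911556) (nat_lit 55) (nat_lit 5) (nat_lit 58) (nat_lit 5) (nat_lit 59) (nat_lit 5) (nat_lit 282) (nat_lit 244) (nat_lit 194)) (XT.nd (nat_lit 78) (nat_lit 0) (nat_lit 0) (XT.lf (nat_lit 0) (nat_lit 1557078675) (nat_lit 304) (nat_lit 12397959740) (nat_lit 76) (nat_lit 2585044180) (nat_lit 51) (nat_lit 5) (nat_lit 55) (nat_lit 5) (nat_lit 52) (nat_lit 5) (nat_lit 283) (nat_lit 244) (nat_lit 193)) (XT.lf (nat_lit 0) (nat_lit 6305332023) (nat_lit 304) (nat_lit 760187776) (nat_lit 76) (nat_lit 10052575597) (nat_lit 51) (nat_lit 5) (nat_lit 55) (nat_lit 5) (nat_lit 52) (nat_lit 5) (nat_lit 284) (nat_lit 244) (nat_lit 192))))) (XT.nd (nat_lit 234) (nat_lit 152) (nat_lit 0) (XT.nd (nat_lit 78) (nat_lit 532) (nat_lit 0) (XT.lf (nat_lit 0) (nat_lit 11351077229)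 (nat_lit 304) (nat_lit 6120404608) (nat_lit 76) (nat_lit 251787841) (nat_lit 48) (nat_lit 5) (nat_lit 52) (nat_lit 5) (nat_lit 49) (nat_lit 5) (nat_lit 285) (nat_lit 244) (nat_lit 191)) (XT.nd (nat_lit 78) (nat_lit 304) (nat_lit 0) (XT.lf (nat_lit 0) (nat_lit 6211716357) (nat_lit 228) (nat_lit 10523939751) (nat_lit 304) (nat_lit 1620510382) (nat_lit 45) (nat_lit 5) (nat_lit 48) (nat_lit 5) (nat_lit 49) (nat_lit 5) (nat_lit 286) (nat_lit 244) (nat_lit 190)) (XT.lf (nat_lit 0) (nat_lit 161278254) (nat_lit 228) (nat_lit 3155731570) (nat_lit 304) (nat_lit 15702362793) (nat_lit 41) (nat_lit 5) (nat_lit 44) (nat_lit 5) (nat_lit 45) (nat_lit 5) (nat_lit 287) (nat_lit 244) (nat_lit 189)))) (XT.nd (nat_lit 78) (nat_lit 152) (nat_lit 0) (XT.lf (nat_lit 0) (nat_lit 8588753105) (nat_lit 304) (nat_lit 6514961123) (nat_lit 76) (nat_lit 4607970650) (nat_lit 41) (nat_lit 5) (nat_lit 45) (nat_lit 5) (nat_lit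 42) (nat_lit 5) (nat_lit 288) (nat_lit 244) (nat_lit 188)) (XT.nd (nat_lit 78) (nat_lit 0) (nat_lit 0) (XT.lf (nat_lit 0) (nat_lit 6465916598) (nat_lit 152) (nat_lit 7704803035) (nat_lit 228) (nat_lit 6266544531) (nat_lit 39) (nat_lit 5) (nat_lit 41) (nat_lit 5) (nat_lit 42) (nat_lit 5) (nat_lit 289) (nat_lit 244) (nat_lit 187)) (XT.lf (nat_lit 0) (nat_lit 20054079252) (nat_lit 228) (nat_lit 1039202811) (nat_lit 76) (nat_lit 105219597) (nat_lit 39) (nat_lit 5) (nat_lit 42) (nat_lit 5) (nat_lit 40) (nat_lit 5) (nat_lit 290) (nat_lit 244) (nat_lit 186))))))))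
noncomputable def xc59 : XT := (XT.nd (nat_lit 1716) (nat_lit 532) (nat_lit 0) (XT.nd (nat_lit 858) (nat_lit 608) (nat_lit 0) (XT.nd (nat_lit 390) (nat_lit 684) (nat_lit 0) (XT.nd (nat_lit 156) (nat_lit 228) (nat_lit 0) (XT.nd (nat_lit 78) (nat_lit 152) (nat_lit 0) (XT.lf (nat_lit 0) (nat_lit 4308085995) (nat_lit 304) (nat_lit 9396331948) (nat_lit 76) (nat_lit 8287499705) (nat_lit 35) (nat_lit 5) (nat_lit 39) (nat_lit 5) (nat_lit 36) (nat_lit 5) (nat_lit 291) (nat_lit 244) (nat_lit 185)) (XT.lf (nat_lit 0) (nat_lit 4109443177) (nat_lit 152) (nat_lit 5907754878) (nat_lit 228) (nat_lit 12807279404) (nat_lit 33) (nat_lit 5) (nat_lit 35) (nat_lit 5) (nat_lit 36) (nat_lit 5) (nat_lit 292) (nat_lit 244) (nat_lit 184))) (XT.nd (nat_lit 78) (nat_lit 228) (nat_lit 0) (XT.lf (nat_lit 0) (nat_lit 16089641871) (nat_lit 228) (nat_lit 5299089604) (nat_lit 76) (nat_lit 2307637833) (nat_lit 33) (nat_lit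 5) (nat_lit 36) (nat_lit 5) (nat_lit 34) (nat_lit 5) (nat_lit 293) (nat_lit 244) (nat_lit 183)) (XT.nd (nat_lit 78) (nat_lit 76) (nat_lit 0) (XT.lf (nat_lit 0) (nat_lit 8836332034) (nat_lit 152) (nat_lit 13734217669) (nat_lit 228) (nat_lit 2038199200) (nat_lit 31) (nat_lit 5) (nat_lit 33) (nat_lit 5) (nat_lit 34) (nat_lit 5) (nat_lit 294) (nat_lit 244) (nat_lit 182)) (XT.lf (nat_lit 0) (nat_lit 3750672305) (nat_lit 228) (nat_lit 1876094281) (nat_lit 76) (nat_lit 19938430864) (nat_lit 30) (nat_lit 5) (nat_lit 33) (nat_lit 5) (nat_lit 31) (nat_lit 5) (nat_lit 295) (nat_lit 244) (nat_lit 181))))) (XT.nd (nat_lit 234) (nat_lit 380) (nat_lit 0) (XT.nd (nat_lit 78) (nat_lit 152) (nat_lit 0) (XT.lf (nat_lit 0) (nat_lit 9903043238) (nat_lit 228) (nat_lit 13709395266) (nat_lit 76) (nat_lit 2952972074) (nat_lit 28) (nat_lit 5) (nat_lit 31) (nat_lit 5) (nat_lit 29) (nat_lit 5) (nat_lit 296) (nat_lit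 244) (nat_lit 180)) (XT.nd (nat_lit 78) (nat_lit 0) (nat_lit 0) (XT.lf (nat_lit 0) (nat_lit 645233757) (nat_lit 152) (nat_lit 15764281434) (nat_lit 228) (nat_lit 11204756910) (nat_lit 26) (nat_lit 5) (nat_lit 28) (nat_lit 5) (nat_lit 29) (nat_lit 5) (nat_lit 297) (nat_lit 244) (nat_lit 179)) (XT.lf (nat_lit 0) (nat_lit 15946524966) (nat_lit 152) (nat_lit 7401057526) (nat_lit 228) (nat_lit 5364836736) (nat_lit 26) (nat_lit 5) (nat_lit 28) (nat_lit 5) (nat_lit 29) (nat_lit 5) (nat_lit 298) (nat_lit 244) (nat_lit 178)))) (XT.nd (nat_lit 78) (nat_lit 152) (nat_lit 0) (XT.lf (nat_lit 0) (nat_lit 752328325) (nat_lit 228) (nat_lit 27752998375) (nat_lit 76) (nat_lit 1359947650) (nat_lit 23) (nat_lit 5) (nat_lit 26) (nat_lit 5) (nat_lit 24) (nat_lit 5) (nat_lit 299) (nat_lit 244) (nat_lit 177)) (XT.nd (nat_lit 78) (nat_lit 152) (nat_lit 0) (XT.lf (nat_lit 0) (nat_lit 7240166685) (nat_lit 228) (nat_lit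 13255570364) (nat_lit 76) (nat_lit 10573195637) (nat_lit 23) (nat_lit 5) (nat_lit 26) (nat_lit 5) (nat_lit 24) (nat_lit 5) (nat_lit 300) (nat_lit 244) (nat_lit 176)) (XT.lf (nat_lit 0) (nat_lit 1952724667) (nat_lit 152) (nat_lit 12087320499) (nat_lit 228) (nat_lit 18293125059) (nat_lit 21) (nat_lit 5) (nat_lit 23) (nat_lit 5) (nat_lit 24) (nat_lit 5) (nat_lit 301) (nat_lit 244) (nat_lit 175)))))) (XT.nd (nat_lit 390) (nat_lit 304) (nat_lit 0) (XT.nd (nat_lit 156) (nat_lit 304) (nat_lit 0) (XT.nd (nat_lit 78) (nat_lit 0) (nat_lit 0) (XT.lf (nat_lit 0) (nat_lit 18147821510) (nat_lit 152) (nat_lit 3138423362) (nat_lit 228) (nat_lit 12371209455) (nat_lit 21) (nat_lit 5) (nat_lit 23) (nat_lit 5) (nat_lit 24) (nat_lit 5) (nat_lit 302) (nat_lit 244) (nat_lit 174)) (XT.lf (nat_lit 0) (nat_lit 28926029463) (nat_lit 228) (nat_lit 4336045) (nat_lit 76) (nat_lit 6116672218) (nat_lit 21) (nat_lit 5)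 (nat_lit 24) (nat_lit 5) (nat_lit 22) (nat_lit 4) (nat_lit 303) (nat_lit 244) (nat_lit 173))) (XT.nd (nat_lit 78) (nat_lit 152) (nat_lit 0) (XT.lf (nat_lit 0) (nat_lit 597651345) (nat_lit 152) (nat_lit 19986745417) (nat_lit 76) (nat_lit 15916660708) (nat_lit 19) (nat_lit 5) (nat_lit 21) (nat_lit 5) (nat_lit 20) (nat_lit 5) (nat_lit 304) (nat_lit 244) (nat_lit 172)) (XT.nd (nat_lit 78) (nat_lit 152) (nat_lit 0) (XT.lf (nat_lit 0) (nat_lit 7499959624) (nat_lit 152) (nat_lit 4276369164) (nat_lit 76) (nat_lit 26250422618) (nat_lit 19) (nat_lit 5) (nat_lit 21) (nat_lit 5) (nat_lit 20) (nat_lit 5) (nat_lit 305) (nat_lit 244) (nat_lit 171)) (XT.lf (nat_lit 0) (nat_lit 12418236901) (nat_lit 152) (nat_lit 2422885415) (nat_lit 228) (nat_lit 24784815127) (nat_lit 17) (nat_lit 5) (nat_lit 19) (nat_lit 5) (nat_lit 20) (nat_lit 5) (nat_lit 306) (nat_lit 244) (nat_lit 170))))) (XT.nd (nat_lit 234) (nat_lit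 228) (nat_lit 0) (XT.nd (nat_lit 78) (nat_lit 76) (nat_lit 0) (XT.lf (nat_lit 0) (nat_lit 22639928808) (nat_lit 228) (nat_lit 11381335435) (nat_lit 76) (nat_lit 7281119610) (nat_lit 17) (nat_lit 5) (nat_lit 20) (nat_lit 5) (nat_lit 18) (nat_lit 4) (nat_lit 307) (nat_lit 244) (nat_lit 169)) (XT.nd (nat_lit 78) (nat_lit 0) (nat_lit 0) (XT.lf (nat_lit 0) (nat_lit 5273893495) (nat_lit 76) (nat_lit 25606134738) (nat_lit 152) (nat_lit 12181101525) (nat_lit 16) (nat_lit 5) (nat_lit 17) (nat_lit 5) (nat_lit 18) (nat_lit 4) (nat_lit 308) (nat_lit 244) (nat_lit 168)) (XT.lf (nat_lit 0) (nat_lit 22959980734) (nat_lit 76) (nat_lit 16666265892) (nat_lit 152) (nat_lit 5278759823) (nat_lit 16) (nat_lit 5) (nat_lit 17) (nat_lit 5) (nat_lit 18) (nat_lit 4) (nat_lit 309) (nat_lit 244) (nat_lit 167)))) (XT.nd (nat_lit 78) (nat_lit 152) (nat_lit 0) (XT.lf (nat_lit 0) (nat_lit 1908100104) (nat_lit 152) (nat_lit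 5367933301) (nat_lit 76) (nat_lit 39565156946) (nat_lit 15) (nat_lit 5) (nat_lit 17) (nat_lit 5) (nat_lit 16) (nat_lit 5) (nat_lit 310) (nat_lit 244) (nat_lit 166)) (XT.nd (nat_lit 78) (nat_lit 0) (nat_lit 0) (XT.lf (nat_lit 0) (nat_lit 9468534562) (nat_lit 228) (nat_lit 36710048176) (nat_lit 76) (nat_lit 2690345521) (nat_lit 13) (nat_lit 5) (nat_lit 16) (nat_lit 5) (nat_lit 14) (nat_lit 4) (nat_lit 311) (nat_lit 244) (nat_lit 165)) (XT.lf (nat_lit 0) (nat_lit 17515630063) (nat_lit 228) (nat_lit 20432091714) (nat_lit 76) (nat_lit 13047086286) (nat_lit 13) (nat_lit 5) (nat_lit 16) (nat_lit 5) (nat_lit 14) (nat_lit 4) (nat_lit 312) (nat_lit 244) (nat_lit 164))))))) (XT.nd (nat_lit 858) (nat_lit 228) (nat_lit 0) (XT.nd (nat_lit 390) (nat_lit 76) (nat_lit 0) (XT.nd (nat_lit 156) (nat_lit 152) (nat_lit 0) (XT.nd (nat_lit 78) (nat_lit 76) (nat_lit 0) (XT.lf (nat_lit 0) (nat_lit 25945456820) (nat_lit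 228) (nat_lit 3374445688) (nat_lit 76) (nat_lit 23907681560) (nat_lit 13) (nat_lit 5) (nat_lit 16) (nat_lit 5) (nat_lit 14) (nat_lit 4) (nat_lit 313) (nat_lit 244) (nat_lit 163)) (XT.lf (nat_lit 0) (nat_lit 14792151498) (nat_lit 76) (nat_lit 20128125558) (nat_lit 152) (nat_lit 20648029614) (nat_lit 12) (nat_lit 5) (nat_lit 13) (nat_lit 5) (nat_lit 14) (nat_lit 4) (nat_lit 314) (nat_lit 244) (nat_lit 162))) (XT.nd (nat_lit 78) (nat_lit 152) (nat_lit 0) (XT.lf (nat_lit 0) (nat_lit 33905949118) (nat_lit 76) (nat_lit 10454522823) (nat_lit 152) (nat_lit 13665106704) (nat_lit 12) (nat_lit 5) (nat_lit 13) (nat_lit 5) (nat_lit 14) (nat_lit 4) (nat_lit 315) (nat_lit 244) (nat_lit 161)) (XT.nd (nat_lit 78) (nat_lit 152) (nat_lit 0) (XT.lf (nat_lit 0) (nat_lit 53945298128) (nat_lit 76) (nat_lit 310137198) (nat_lit 152) (nat_lit 6350807796) (nat_lit 12) (nat_lit 5) (nat_lit 13) (nat_lit 5) (nat_lit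 14) (nat_lit 4) (nat_lit 316) (nat_lit 244) (nat_lit 160)) (XT.lf (nat_lit 0) (nat_lit 1501227244) (nat_lit 152) (nat_lit 51552900766) (nat_lit 76) (nat_lit 10255501522) (nat_lit 10) (nat_lit 5) (nat_lit 12) (nat_lit 5) (nat_lit 11) (nat_lit 4) (nat_lit 317) (nat_lit 244) (nat_lit 159))))) (XT.nd (nat_lit 234) (nat_lit 0) (nat_lit 0) (XT.nd (nat_lit 78) (nat_lit 76) (nat_lit 0) (XT.lf (nat_lit 0) (nat_lit 9671926900) (nat_lit 152) (nat_lit 35008144913) (nat_lit 76) (nat_lit 21464515126) (nat_lit 10) (nat_lit 5) (nat_lit 12) (nat_lit 5) (nat_lit 11) (nat_lit 4) (nat_lit 318) (nat_lit 244) (nat_lit 158)) (XT.nd (nat_lit 78) (nat_lit 76) (nat_lit 0) (XT.lf (nat_lit 0) (nat_lit 18235741171) (nat_lit 152) (nat_lit 17663377607) (nat_lit 76) (nat_lit 33222645834) (nat_lit 10) (nat_lit 5) (nat_lit 12) (nat_lit 5) (nat_lit 11) (nat_lit 4) (nat_lit 319) (nat_lit 244) (nat_lit 157)) (XT.lf (nat_lit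 0) (nat_lit 533100938) (nat_lit 76) (nat_lit 26685083646) (nat_lit 152) (nat_lit 45029912748) (nat_lit 9) (nat_lit 5) (nat_lit 10) (nat_lit 5) (nat_lit 11) (nat_lit 4) (nat_lit 320) (nat_lit 244) (nat_lit 156)))) (XT.nd (nat_lit 78) (nat_lit 0) (nat_lit 0) (XT.lf (nat_lit 0) (nat_lit 19983329480) (nat_lit 76) (nat_lit 16834020741) (nat_lit 152) (nat_lit 38708377343) (nat_lit 9) (nat_lit 5) (nat_lit 10) (nat_lit 5) (nat_lit 11) (nat_lit 4) (nat_lit 321) (nat_lit 244) (nat_lit 155)) (XT.nd (nat_lit 78) (nat_lit 0) (nat_lit 0) (XT.lf (nat_lit 0) (nat_lit 40382082238) (nat_lit 76) (nat_lit 6500840630) (nat_lit 152) (nat_lit 32084731430) (nat_lit 9) (nat_lit 5) (nat_lit 10) (nat_lit 5) (nat_lit 11) (nat_lit 4) (nat_lit 322) (nat_lit 244) (nat_lit 154)) (XT.lf (nat_lit 0) (nat_lit 57480577867) (nat_lit 152) (nat_lit 20845854620) (nat_lit 0) (nat_lit 4254388817) (nat_lit 9) (nat_lit 5) (nat_lit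 11) (nat_lit 4) (nat_lit 9) (nat_lit 4) (nat_lit 323) (nat_lit 244) (nat_lit 153)))))) (XT.nd (nat_lit 468) (nat_lit 76) (nat_lit 0) (XT.nd (nat_lit 234) (nat_lit 76) (nat_lit 0) (XT.nd (nat_lit 78) (nat_lit 76) (nat_lit 0) (XT.lf (nat_lit 0) (nat_lit 68661347783) (nat_lit 152) (nat_lit 2306808395) (nat_lit 0) (nat_lit 15404901186) (nat_lit 9) (nat_lit 5) (nat_lit 11) (nat_lit 4) (nat_lit 9) (nat_lit 4) (nat_lit 324) (nat_lit 244) (nat_lit 152)) (XT.nd (nat_lit 78) (nat_lit 0) (nat_lit 0) (XT.lf (nat_lit 0) (nat_lit 17479280988) (nat_lit 76) (nat_lit 63078103993) (nat_lit 76) (nat_lit 9792840684) (nat_lit 8) (nat_lit 4) (nat_lit 9) (nat_lit 5) (nat_lit 9) (nat_lit 4) (nat_lit 325) (nat_lit 244) (nat_lit 151)) (XT.lf (nat_lit 0) (nat_lit 38282489226) (nat_lit 76) (nat_lit 54778054161) (nat_lit 76) (nat_lit 1465346365) (nat_lit 8) (nat_lit 4) (nat_lit 9) (nat_lit 5) (nat_lit 9) (nat_lit 4)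 (nat_lit 326) (nat_lit 244) (nat_lit 150)))) (XT.nd (nat_lit 78) (nat_lit 0) (nat_lit 0) (XT.lf (nat_lit 0) (nat_lit 7125495174) (nat_lit 152) (nat_lit 38874090198) (nat_lit 76) (nat_lit 52908989053) (nat_lit 7) (nat_lit 5) (nat_lit 9) (nat_lit 5) (nat_lit 8) (nat_lit 4) (nat_lit 327) (nat_lit 244) (nat_lit 149)) (XT.nd (nat_lit 78) (nat_lit 0) (nat_lit 0) (XT.lf (nat_lit 0) (nat_lit 16105381276) (nat_lit 152) (nat_lit 20669814370) (nat_lit 76) (nat_lit 66735074315) (nat_lit 7) (nat_lit 5) (nat_lit 9) (nat_lit 5) (nat_lit 8) (nat_lit 4) (nat_lit 328) (nat_lit 244) (nat_lit 148)) (XT.lf (nat_lit 0) (nat_lit 25524286807) (nat_lit 152) (nat_lit 1573143723) (nat_lit 76) (nat_lit 81244924822) (nat_lit 7) (nat_lit 5) (nat_lit 9) (nat_lit 5) (nat_lit 8) (nat_lit 4) (nat_lit 329) (nat_lit 244) (nat_lit 147))))) (XT.nd (nat_lit 30966) (nat_lit 0) (nat_lit 18240) (XT.nd (nat_lit 78) (nat_lit 0) (nat_lit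 0) (XT.lf (nat_lit 0) (nat_lit 18828807866) (nat_lit 76) (nat_lit 16756823885) (nat_lit 152) (nat_lit 77825273991) (nat_lit 6) (nat_lit 5) (nat_lit 7) (nat_lit 5) (nat_lit 8) (nat_lit 4) (nat_lit 330) (nat_lit 244) (nat_lit 146)) (XT.nd (nat_lit 30810) (nat_lit 0) (nat_lit 18848) (XT.lf (nat_lit 0) (nat_lit 40267247117) (nat_lit 76) (nat_lit 5889784991) (nat_lit 152) (nat_lit 72575647188) (nat_lit 6) (nat_lit 5) (nat_lit 7) (nat_lit 5) (nat_lit 8) (nat_lit 4) (nat_lit 331) (nat_lit 244) (nat_lit 145)) (XT.lf (nat_lit 0) (nat_lit 91186059) (nat_lit 0) (nat_lit 91186059) (nat_lit 532) (nat_lit 3189694961) (nat_lit 254) (nat_lit 5) (nat_lit 254) (nat_lit 3) (nat_lit 261) (nat_lit 3) (nat_lit 245) (nat_lit 245) (nat_lit 230)))) (XT.nd (nat_lit 78) (nat_lit 608) (nat_lit 0) (XT.lf (nat_lit 0) (nat_lit 3584063874) (nat_lit 532) (nat_lit 1607987048) (nat_lit 608) (nat_lit 1615560802) (nat_lit 254)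 (nat_lit 5) (nat_lit 261) (nat_lit 3) (nat_lit 262) (nat_lit 5) (nat_lit 246) (nat_lit 245) (nat_lit 229)) (XT.nd (nat_lit 78) (nat_lit 608) (nat_lit 0) (XT.lf (nat_lit 76) (nat_lit 3551007643) (nat_lit 0) (nat_lit 3245820741) (nat_lit 608) (nat_lit 83024989) (nat_lit 255) (nat_lit 5) (nat_lit 254) (nat_lit 5) (nat_lit 262) (nat_lit 5) (nat_lit 247) (nat_lit 245) (nat_lit 228)) (XT.lf (nat_lit 76) (nat_lit 1941955571) (nat_lit 0) (nat_lit 1047936899) (nat_lit 684) (nat_lit 3970266803) (nat_lit 247) (nat_lit 5) (nat_lit 246) (nat_lit 5) (nat_lit 255) (nat_lit 5) (nat_lit 248) (nat_lit 245) (nat_lit 227))))))))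
noncomputable def xc60 : XT := (XT.nd (nat_lit 1716) (nat_lit 4864) (nat_lit 0) (XT.nd (nat_lit 858) (nat_lit 5244) (nat_lit 0) (XT.nd (nat_lit 390) (nat_lit 4636) (nat_lit 0) (XT.nd (nat_lit 156) (nat_lit 684) (nat_lit 0) (XT.nd (nat_lit 78) (nat_lit 684) (nat_lit 0) (XT.lf (nat_lit 76) (nat_lit 381592576) (nat_lit 0) (nat_lit 5695392730) (nat_lit 684) (nat_lit 972100276) (nat_lit 248) (nat_lit 5) (nat_lit 247) (nat_lit 5) (nat_lit 256) (nat_lit 5) (nat_lit 249) (nat_lit 245) (nat_lit 226)) (XT.lf (nat_lit 0) (nat_lit 2013742484) (nat_lit 684) (nat_lit 1132439522) (nat_lit 760) (nat_lit 3999701529) (nat_lit 238) (nat_lit 5) (nat_lit 247) (nat_lit 5) (nat_lit 248) (nat_lit 5) (nat_lit 250) (nat_lit 245) (nat_lit 225))) (XT.nd (nat_lit 78) (nat_lit 684) (nat_lit 0) (XT.lf (nat_lit 76) (nat_lit 4650036740) (nat_lit 0) (nat_lit 349795796) (nat_lit 760) (nat_lit 2251706130) (nat_lit 239) (nat_lit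 5) (nat_lit 238) (nat_lit 5) (nat_lit 248) (nat_lit 5) (nat_lit 251) (nat_lit 245) (nat_lit 224)) (XT.nd (nat_lit 78) (nat_lit 0) (nat_lit 0) (XT.lf (nat_lit 0) (nat_lit 658740063) (nat_lit 760) (nat_lit 4062580057) (nat_lit 836) (nat_lit 2644306353) (nat_lit 229) (nat_lit 5) (nat_lit 239) (nat_lit 5) (nat_lit 240) (nat_lit 5) (nat_lit 252) (nat_lit 245) (nat_lit 223)) (XT.lf (nat_lit 76) (nat_lit 1971077225) (nat_lit 0) (nat_lit 1585896148) (nat_lit 836) (nat_lit 3931497010) (nat_lit 230) (nat_lit 5) (nat_lit 229) (nat_lit 5) (nat_lit 240) (nat_lit 5) (nat_lit 253) (nat_lit 245) (nat_lit 222))))) (XT.nd (nat_lit 234) (nat_lit 3040) (nat_lit 0) (XT.nd (nat_lit 78) (nat_lit 912) (nat_lit 0) (XT.lf (nat_lit 0) (nat_lit 655475599) (nat_lit 760) (nat_lit 5855497335) (nat_lit 836) (nat_lit 1109525102) (nat_lit 220) (nat_lit 5) (nat_lit 230) (nat_lit 5) (nat_lit 231) (nat_lit 5) (nat_lit 254)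 (nat_lit 245) (nat_lit 221)) (XT.nd (nat_lit 78) (nat_lit 836) (nat_lit 0) (XT.lf (nat_lit 0) (nat_lit 1741110274) (nat_lit 836) (nat_lit 655138713) (nat_lit 76) (nat_lit 5364971050) (nat_lit 219) (nat_lit 5) (nat_lit 230) (nat_lit 5) (nat_lit 220) (nat_lit 5) (nat_lit 255) (nat_lit 245) (nat_lit 220)) (XT.lf (nat_lit 0) (nat_lit 4639251055) (nat_lit 912) (nat_lit 1959054216) (nat_lit 76) (nat_lit 1312829043) (nat_lit 208) (nat_lit 5) (nat_lit 220) (nat_lit 5) (nat_lit 209) (nat_lit 5) (nat_lit 256) (nat_lit 245) (nat_lit 219)))) (XT.nd (nat_lit 78) (nat_lit 2128) (nat_lit 0) (XT.lf (nat_lit 0) (nat_lit 4792627892) (nat_lit 912) (nat_lit 2830275431) (nat_lit 988) (nat_lit 447730798) (nat_lit 196) (nat_lit 5) (nat_lit 208) (nat_lit 5) (nat_lit 209) (nat_lit 5) (nat_lit 257) (nat_lit 245) (nat_lit 218)) (XT.nd (nat_lit 78) (nat_lit 1064) (nat_lit 0) (XT.lf (nat_lit 0) (nat_lit 2402891386)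 (nat_lit 1064) (nat_lit 4631606688) (nat_lit 76) (nat_lit 1205137853) (nat_lit 182) (nat_lit 5) (nat_lit 196) (nat_lit 5) (nat_lit 183) (nat_lit 5) (nat_lit 258) (nat_lit 245) (nat_lit 217)) (XT.lf (nat_lit 0) (nat_lit 2391585782) (nat_lit 1064) (nat_lit 2953786526) (nat_lit 1140) (nat_lit 3073096089) (nat_lit 168) (nat_lit 5) (nat_lit 182) (nat_lit 5) (nat_lit 183) (nat_lit 5) (nat_lit 259) (nat_lit 245) (nat_lit 216)))))) (XT.nd (nat_lit 390) (nat_lit 2432) (nat_lit 0) (XT.nd (nat_lit 156) (nat_lit 1672) (nat_lit 0) (XT.nd (nat_lit 78) (nat_lit 76) (nat_lit 0) (XT.lf (nat_lit 0) (nat_lit 1153885921) (nat_lit 1064) (nat_lit 7231122515) (nat_lit 1140) (nat_lit 222991389) (nat_lit 154) (nat_lit 5) (nat_lit 168) (nat_lit 5) (nat_lit 169) (nat_lit 5) (nat_lit 260) (nat_lit 245) (nat_lit 215)) (XT.lf (nat_lit 0) (nat_lit 2689387230) (nat_lit 1140) (nat_lit 155190777) (nat_lit 76) (nat_lit 5962655510)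 (nat_lit 153) (nat_lit 5) (nat_lit 168) (nat_lit 5) (nat_lit 154) (nat_lit 5) (nat_lit 261) (nat_lit 245) (nat_lit 214))) (XT.nd (nat_lit 78) (nat_lit 1140) (nat_lit 0) (XT.lf (nat_lit 0) (nat_lit 5720078103) (nat_lit 608) (nat_lit 1489110449) (nat_lit 76) (nat_lit 1808082389) (nat_lit 146) (nat_lit 5) (nat_lit 154) (nat_lit 5) (nat_lit 147) (nat_lit 5) (nat_lit 262) (nat_lit 245) (nat_lit 213)) (XT.nd (nat_lit 78) (nat_lit 608) (nat_lit 0) (XT.lf (nat_lit 0) (nat_lit 6348607194) (nat_lit 532) (nat_lit 2536464809) (nat_lit 608) (nat_lit 353471784) (nat_lit 139) (nat_lit 5) (nat_lit 146) (nat_lit 5) (nat_lit 147) (nat_lit 5) (nat_lit 263) (nat_lit 245) (nat_lit 212)) (XT.lf (nat_lit 0) (nat_lit 2666587188) (nat_lit 608) (nat_lit 4390055912) (nat_lit 76) (nat_lit 2414170967) (nat_lit 131) (nat_lit 5) (nat_lit 139) (nat_lit 5) (nat_lit 132) (nat_lit 5) (nat_lit 264) (nat_lit 245) (nat_lit 211)))))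 (XT.nd (nat_lit 234) (nat_lit 912) (nat_lit 0) (XT.nd (nat_lit 78) (nat_lit 988) (nat_lit 0) (XT.lf (nat_lit 0) (nat_lit 3732873295) (nat_lit 532) (nat_lit 2087418574) (nat_lit 608) (nat_lit 3894793154) (nat_lit 124) (nat_lit 5) (nat_lit 131) (nat_lit 5) (nat_lit 132) (nat_lit 5) (nat_lit 265) (nat_lit 245) (nat_lit 210)) (XT.nd (nat_lit 78) (nat_lit 532) (nat_lit 0) (XT.lf (nat_lit 0) (nat_lit 2290568966) (nat_lit 456) (nat_lit 6840998496) (nat_lit 532) (nat_lit 840187155) (nat_lit 118) (nat_lit 5) (nat_lit 124) (nat_lit 5) (nat_lit 125) (nat_lit 5) (nat_lit 266) (nat_lit 245) (nat_lit 209)) (XT.lf (nat_lit 0) (nat_lit 726267199) (nat_lit 456) (nat_lit 1589627974) (nat_lit 532) (nat_lit 7924999728) (nat_lit 111) (nat_lit 5) (nat_lit 117) (nat_lit 5) (nat_lit 118) (nat_lit 5) (nat_lit 267) (nat_lit 245) (nat_lit 208)))) (XT.nd (nat_lit 78) (nat_lit 912) (nat_lit 0) (XT.lf (nat_lit 0) (nat_lit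 5638279452) (nat_lit 532) (nat_lit 959324252) (nat_lit 76) (nat_lit 3925022681) (nat_lit 111) (nat_lit 5) (nat_lit 118) (nat_lit 5) (nat_lit 112) (nat_lit 5) (nat_lit 268) (nat_lit 245) (nat_lit 207)) (XT.nd (nat_lit 78) (nat_lit 532) (nat_lit 0) (XT.lf (nat_lit 0) (nat_lit 8064277160) (nat_lit 380) (nat_lit 1068579407) (nat_lit 456) (nat_lit 1685558024) (nat_lit 106) (nat_lit 5) (nat_lit 111) (nat_lit 5) (nat_lit 112) (nat_lit 5) (nat_lit 269) (nat_lit 245) (nat_lit 206)) (XT.lf (nat_lit 0) (nat_lit 1673425198) (nat_lit 532) (nat_lit 4735151845) (nat_lit 76) (nat_lit 4719086400) (nat_lit 99) (nat_lit 5) (nat_lit 106) (nat_lit 5) (nat_lit 100) (nat_lit 5) (nat_lit 270) (nat_lit 245) (nat_lit 205))))))) (XT.nd (nat_lit 858) (nat_lit 1748) (nat_lit 0) (XT.nd (nat_lit 390) (nat_lit 1596) (nat_lit 0) (XT.nd (nat_lit 156) (nat_lit 760) (nat_lit 0) (XT.nd (nat_lit 78) (nat_lit 380) (nat_lit 0)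 (XT.lf (nat_lit 0) (nat_lit 4564175947) (nat_lit 380) (nat_lit 602681853) (nat_lit 456) (nat_lit 6285109638) (nat_lit 94) (nat_lit 5) (nat_lit 99) (nat_lit 5) (nat_lit 100) (nat_lit 5) (nat_lit 271) (nat_lit 245) (nat_lit 204)) (XT.lf (nat_lit 0) (nat_lit 2533725222) (nat_lit 380) (nat_lit 6348195143) (nat_lit 456) (nat_lit 2909285295) (nat_lit 89) (nat_lit 5) (nat_lit 94) (nat_lit 5) (nat_lit 95) (nat_lit 5) (nat_lit 272) (nat_lit 245) (nat_lit 203))) (XT.nd (nat_lit 78) (nat_lit 380) (nat_lit 0) (XT.lf (nat_lit 0) (nat_lit 320688607) (nat_lit 304) (nat_lit 305566586) (nat_lit 380) (nat_lit 11520985858) (nat_lit 84) (nat_lit 5) (nat_lit 88) (nat_lit 5) (nat_lit 89) (nat_lit 5) (nat_lit 273) (nat_lit 245) (nat_lit 202)) (XT.nd (nat_lit 78) (nat_lit 380) (nat_lit 0) (XT.lf (nat_lit 0) (nat_lit 4358390485) (nat_lit 380) (nat_lit 2132369385) (nat_lit 76) (nat_lit 6027167132) (nat_lit 84) (nat_lit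 5) (nat_lit 89) (nat_lit 5) (nat_lit 85) (nat_lit 5) (nat_lit 274) (nat_lit 245) (nat_lit 201)) (XT.lf (nat_lit 0) (nat_lit 8109289414) (nat_lit 380) (nat_lit 177577202) (nat_lit 456) (nat_lit 4620095776) (nat_lit 79) (nat_lit 5) (nat_lit 84) (nat_lit 5) (nat_lit 85) (nat_lit 5) (nat_lit 275) (nat_lit 245) (nat_lit 200))))) (XT.nd (nat_lit 234) (nat_lit 912) (nat_lit 0) (XT.nd (nat_lit 78) (nat_lit 380) (nat_lit 0) (XT.lf (nat_lit 0) (nat_lit 5547107732) (nat_lit 304) (nat_lit 6933192222) (nat_lit 380) (nat_lit 833195656) (nat_lit 75) (nat_lit 5) (nat_lit 79) (nat_lit 5) (nat_lit 80) (nat_lit 5) (nat_lit 276) (nat_lit 245) (nat_lit 199)) (XT.nd (nat_lit 78) (nat_lit 0) (nat_lit 0) (XT.lf (nat_lit 0) (nat_lit 2700196371) (nat_lit 304) (nat_lit 391849365) (nat_lit 380) (nat_lit 10647187882) (nat_lit 70) (nat_lit 5) (nat_lit 74) (nat_lit 5) (nat_lit 75) (nat_lit 5) (nat_lit 277) (nat_lit 245)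 (nat_lit 198)) (XT.lf (nat_lit 0) (nat_lit 7274315973) (nat_lit 380) (nat_lit 492646913) (nat_lit 76) (nat_lit 6416798074) (nat_lit 70) (nat_lit 5) (nat_lit 75) (nat_lit 5) (nat_lit 71) (nat_lit 5) (nat_lit 278) (nat_lit 245) (nat_lit 197)))) (XT.nd (nat_lit 78) (nat_lit 608) (nat_lit 0) (XT.lf (nat_lit 0) (nat_lit 10700451830) (nat_lit 304) (nat_lit 1010006990) (nat_lit 380) (nat_lit 2938798674) (nat_lit 66) (nat_lit 5) (nat_lit 70) (nat_lit 5) (nat_lit 71) (nat_lit 5) (nat_lit 279) (nat_lit 245) (nat_lit 196)) (XT.nd (nat_lit 78) (nat_lit 228) (nat_lit 0) (XT.lf (nat_lit 0) (nat_lit 1280930513) (nat_lit 380) (nat_lit 7823091479) (nat_lit 76) (nat_lit 6031494402) (nat_lit 61) (nat_lit 5) (nat_lit 66) (nat_lit 5) (nat_lit 62) (nat_lit 5) (nat_lit 280) (nat_lit 245) (nat_lit 195)) (XT.lf (nat_lit 0) (nat_lit 3519298505) (nat_lit 228) (nat_lit 2158510758) (nat_lit 304) (nat_lit 9966673183)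 (nat_lit 58) (nat_lit 5) (nat_lit 61) (nat_lit 5) (nat_lit 62) (nat_lit 5) (nat_lit 281) (nat_lit 245) (nat_lit 194)))))) (XT.nd (nat_lit 390) (nat_lit 988) (nat_lit 0) (XT.nd (nat_lit 156) (nat_lit 532) (nat_lit 0) (XT.nd (nat_lit 78) (nat_lit 228) (nat_lit 0) (XT.lf (nat_lit 0) (nat_lit 10368297137) (nat_lit 304) (nat_lit 716972680) (nat_lit 76) (nat_lit 5091485817) (nat_lit 58) (nat_lit 5) (nat_lit 62) (nat_lit 5) (nat_lit 59) (nat_lit 5) (nat_lit 282) (nat_lit 245) (nat_lit 193)) (XT.lf (nat_lit 0) (nat_lit 11383298327) (nat_lit 228) (nat_lit 3987013261) (nat_lit 304) (nat_lit 1363089196) (nat_lit 55) (nat_lit 5) (nat_lit 58) (nat_lit 5) (nat_lit 59) (nat_lit 5) (nat_lit 283) (nat_lit 245) (nat_lit 192))) (XT.nd (nat_lit 78) (nat_lit 228) (nat_lit 0) (XT.lf (nat_lit 0) (nat_lit 3294150108) (nat_lit 304) (nat_lit 10541116758) (nat_lit 76) (nat_lit 3480099027) (nat_lit 51) (nat_lit 5)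 (nat_lit 55) (nat_lit 5) (nat_lit 52) (nat_lit 5) (nat_lit 284) (nat_lit 245) (nat_lit 191)) (XT.nd (nat_lit 78) (nat_lit 0) (nat_lit 0) (XT.lf (nat_lit 0) (nat_lit 1591662831) (nat_lit 228) (nat_lit 6624442972) (nat_lit 304) (nat_lit 9708177427) (nat_lit 48) (nat_lit 5) (nat_lit 51) (nat_lit 5) (nat_lit 52) (nat_lit 5) (nat_lit 285) (nat_lit 245) (nat_lit 190)) (XT.lf (nat_lit 0) (nat_lit 13452960545) (nat_lit 304) (nat_lit 4095011409) (nat_lit 76) (nat_lit 1013667782) (nat_lit 48) (nat_lit 5) (nat_lit 52) (nat_lit 5) (nat_lit 49) (nat_lit 5) (nat_lit 286) (nat_lit 245) (nat_lit 189))))) (XT.nd (nat_lit 234) (nat_lit 456) (nat_lit 0) (XT.nd (nat_lit 78) (nat_lit 304) (nat_lit 0) (XT.lf (nat_lit 0) (nat_lit 8786886107) (nat_lit 228) (nat_lit 10268587519) (nat_lit 304) (nat_lit 172330582) (nat_lit 45) (nat_lit 5) (nat_lit 48) (nat_lit 5) (nat_lit 49) (nat_lit 5) (nat_lit 287) (nat_lit 245)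 (nat_lit 188)) (XT.nd (nat_lit 78) (nat_lit 0) (nat_lit 0) (XT.lf (nat_lit 0) (nat_lit 2399581096) (nat_lit 228) (nat_lit 2532684322) (nat_lit 304) (nat_lit 14993040681) (nat_lit 41) (nat_lit 5) (nat_lit 44) (nat_lit 5) (nat_lit 45) (nat_lit 5) (nat_lit 288) (nat_lit 245) (nat_lit 187)) (XT.lf (nat_lit 0) (nat_lit 10405725002) (nat_lit 304) (nat_lit 4680929917) (nat_lit 76) (nat_lit 5567509131) (nat_lit 41) (nat_lit 5) (nat_lit 45) (nat_lit 5) (nat_lit 42) (nat_lit 5) (nat_lit 289) (nat_lit 245) (nat_lit 186)))) (XT.nd (nat_lit 78) (nat_lit 304) (nat_lit 0) (XT.lf (nat_lit 0) (nat_lit 8887082051) (nat_lit 152) (nat_lit 7333800753) (nat_lit 228) (nat_lit 5196587139) (nat_lit 39) (nat_lit 5) (nat_lit 41) (nat_lit 5) (nat_lit 42) (nat_lit 5) (nat_lit 290) (nat_lit 245) (nat_lit 185)) (XT.nd (nat_lit 78) (nat_lit 0) (nat_lit 0) (XT.lf (nat_lit 0) (nat_lit 129805702) (nat_lit 304) (nat_lit 21261283951)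 (nat_lit 76) (nat_lit 827141131) (nat_lit 35) (nat_lit 5) (nat_lit 39) (nat_lit 5) (nat_lit 36) (nat_lit 5) (nat_lit 291) (nat_lit 245) (nat_lit 184)) (XT.lf (nat_lit 0) (nat_lit 5779494516) (nat_lit 304) (nat_lit 7867399872) (nat_lit 76) (nat_lit 9405698577) (nat_lit 35) (nat_lit 5) (nat_lit 39) (nat_lit 5) (nat_lit 36) (nat_lit 5) (nat_lit 292) (nat_lit 245) (nat_lit 183))))))))
noncomputable def xc61 : XT := (XT.nd (nat_lit 1716) (nat_lit 532) (nat_lit 0) (XT.nd (nat_lit 858) (nat_lit 608) (nat_lit 0) (XT.nd (nat_lit 390) (nat_lit 532) (nat_lit 0) (XT.nd (nat_lit 156) (nat_lit 380) (nat_lit 0) (XT.nd (nat_lit 78) (nat_lit 0) (nat_lit 0) (XT.lf (nat_lit 0) (nat_lit 6256370281) (nat_lit 152) (nat_lit 5476544627) (nat_lit 228) (nat_lit 12195159345) (nat_lit 33) (nat_lit 5) (nat_lit 35) (nat_lit 5) (nat_lit 36) (nat_lit 5) (nat_lit 293) (nat_lit 245) (nat_lit 182)) (XT.lf (nat_lit 0) (nat_lit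 18057782492) (nat_lit 228) (nat_lit 3685855969) (nat_lit 76) (nat_lit 3101514440) (nat_lit 33) (nat_lit 5) (nat_lit 36) (nat_lit 5) (nat_lit 34) (nat_lit 5) (nat_lit 294) (nat_lit 245) (nat_lit 181))) (XT.nd (nat_lit 78) (nat_lit 228) (nat_lit 0) (XT.lf (nat_lit 0) (nat_lit 11102498865) (nat_lit 152) (nat_lit 13722361310) (nat_lit 228) (nat_lit 979481145) (nat_lit 31) (nat_lit 5) (nat_lit 33) (nat_lit 5) (nat_lit 34) (nat_lit 5) (nat_lit 295) (nat_lit 245) (nat_lit 180)) (XT.nd (nat_lit 78) (nat_lit 152) (nat_lit 0) (XT.lf (nat_lit 0) (nat_lit 5021996380) (nat_lit 228) (nat_lit 209862242) (nat_lit 76) (nat_lit 21578094198) (nat_lit 30) (nat_lit 5) (nat_lit 33) (nat_lit 5) (nat_lit 31) (nat_lit 5) (nat_lit 296) (nat_lit 245) (nat_lit 179)) (XT.lf (nat_lit 0) (nat_lit 11453164028) (nat_lit 228) (nat_lit 12659230972) (nat_lit 76) (nat_lit 3748693439) (nat_lit 28) (nat_lit 5) (nat_lit 31) (nat_lit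 5) (nat_lit 29) (nat_lit 5) (nat_lit 297) (nat_lit 245) (nat_lit 178))))) (XT.nd (nat_lit 234) (nat_lit 152) (nat_lit 0) (XT.nd (nat_lit 78) (nat_lit 228) (nat_lit 0) (XT.lf (nat_lit 0) (nat_lit 2363377900) (nat_lit 152) (nat_lit 15887550810) (nat_lit 228) (nat_lit 10712530187) (nat_lit 26) (nat_lit 5) (nat_lit 28) (nat_lit 5) (nat_lit 29) (nat_lit 5) (nat_lit 298) (nat_lit 245) (nat_lit 177)) (XT.nd (nat_lit 78) (nat_lit 228) (nat_lit 0) (XT.lf (nat_lit 0) (nat_lit 18349453553) (nat_lit 152) (nat_lit 7137829740) (nat_lit 228) (nat_lit 4630731365) (nat_lit 26) (nat_lit 5) (nat_lit 28) (nat_lit 5) (nat_lit 29) (nat_lit 5) (nat_lit 299) (nat_lit 245) (nat_lit 176)) (XT.lf (nat_lit 0) (nat_lit 1747153903) (nat_lit 228) (nat_lit 27537976630) (nat_lit 76) (nat_lit 2043899876) (nat_lit 23) (nat_lit 5) (nat_lit 26) (nat_lit 5) (nat_lit 24) (nat_lit 5) (nat_lit 300) (nat_lit 245) (nat_lit 175))))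 (XT.nd (nat_lit 78) (nat_lit 152) (nat_lit 0) (XT.lf (nat_lit 0) (nat_lit 8513802793) (nat_lit 228) (nat_lit 12391994917) (nat_lit 76) (nat_lit 11688479079) (nat_lit 23) (nat_lit 5) (nat_lit 26) (nat_lit 5) (nat_lit 24) (nat_lit 5) (nat_lit 301) (nat_lit 245) (nat_lit 174)) (XT.nd (nat_lit 78) (nat_lit 0) (nat_lit 0) (XT.lf (nat_lit 0) (nat_lit 3532962236) (nat_lit 152) (nat_lit 12091553786) (nat_lit 228) (nat_lit 18298120848) (nat_lit 21) (nat_lit 5) (nat_lit 23) (nat_lit 5) (nat_lit 24) (nat_lit 5) (nat_lit 302) (nat_lit 245) (nat_lit 173)) (XT.lf (nat_lit 0) (nat_lit 20467213858) (nat_lit 152) (nat_lit 2723789542) (nat_lit 228) (nat_lit 12123426628) (nat_lit 21) (nat_lit 5) (nat_lit 23) (nat_lit 5) (nat_lit 24) (nat_lit 5) (nat_lit 303) (nat_lit 245) (nat_lit 172)))))) (XT.nd (nat_lit 390) (nat_lit 304) (nat_lit 0) (XT.nd (nat_lit 156) (nat_lit 152) (nat_lit 0) (XT.nd (nat_lit 78) (nat_lit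 76) (nat_lit 0) (XT.lf (nat_lit 0) (nat_lit 1386701115) (nat_lit 76) (nat_lit 29804617183) (nat_lit 152) (nat_lit 5582850621) (nat_lit 20) (nat_lit 5) (nat_lit 21) (nat_lit 5) (nat_lit 22) (nat_lit 4) (nat_lit 304) (nat_lit 245) (nat_lit 171)) (XT.lf (nat_lit 0) (nat_lit 1415895430) (nat_lit 152) (nat_lit 19644700668) (nat_lit 76) (nat_lit 17241261390) (nat_lit 19) (nat_lit 5) (nat_lit 21) (nat_lit 5) (nat_lit 20) (nat_lit 5) (nat_lit 305) (nat_lit 245) (nat_lit 170))) (XT.nd (nat_lit 78) (nat_lit 152) (nat_lit 0) (XT.lf (nat_lit 0) (nat_lit 8625778098) (nat_lit 152) (nat_lit 3212680937) (nat_lit 76) (nat_lit 28066531984) (nat_lit 19) (nat_lit 5) (nat_lit 21) (nat_lit 5) (nat_lit 20) (nat_lit 5) (nat_lit 306) (nat_lit 245) (nat_lit 169)) (XT.nd (nat_lit 78) (nat_lit 0) (nat_lit 0) (XT.lf (nat_lit 0) (nat_lit 14280035958) (nat_lit 152) (nat_lit 2030137777) (nat_lit 228) (nat_lit 25274704680)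 (nat_lit 17) (nat_lit 5) (nat_lit 19) (nat_lit 5) (nat_lit 20) (nat_lit 5) (nat_lit 307) (nat_lit 245) (nat_lit 168)) (XT.lf (nat_lit 0) (nat_lit 24469006340) (nat_lit 228) (nat_lit 10752018142) (nat_lit 76) (nat_lit 8125046092) (nat_lit 17) (nat_lit 5) (nat_lit 20) (nat_lit 5) (nat_lit 18) (nat_lit 4) (nat_lit 308) (nat_lit 245) (nat_lit 167))))) (XT.nd (nat_lit 234) (nat_lit 152) (nat_lit 0) (XT.nd (nat_lit 78) (nat_lit 76) (nat_lit 0) (XT.lf (nat_lit 0) (nat_lit 6701620797) (nat_lit 76) (nat_lit 26397484997) (nat_lit 152) (nat_lit 12094332894) (nat_lit 16) (nat_lit 5) (nat_lit 17) (nat_lit 5) (nat_lit 18) (nat_lit 4) (nat_lit 309) (nat_lit 245) (nat_lit 166)) (XT.nd (nat_lit 78) (nat_lit 76) (nat_lit 0) (XT.lf (nat_lit 0) (nat_lit 25216582273) (nat_lit 76) (nat_lit 17033906350) (nat_lit 152) (nat_lit 4880008569) (nat_lit 16) (nat_lit 5) (nat_lit 17) (nat_lit 5) (nat_lit 18) (nat_lit 4)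 (nat_lit 310) (nat_lit 245) (nat_lit 165)) (XT.lf (nat_lit 0) (nat_lit 2622322053) (nat_lit 152) (nat_lit 4567766245) (nat_lit 76) (nat_lit 41974160919) (nat_lit 15) (nat_lit 5) (nat_lit 17) (nat_lit 5) (nat_lit 16) (nat_lit 5) (nat_lit 311) (nat_lit 245) (nat_lit 164)))) (XT.nd (nat_lit 78) (nat_lit 0) (nat_lit 0) (XT.lf (nat_lit 0) (nat_lit 10545504170) (nat_lit 228) (nat_lit 37493438008) (nat_lit 76) (nat_lit 3254910832) (nat_lit 13) (nat_lit 5) (nat_lit 16) (nat_lit 5) (nat_lit 14) (nat_lit 4) (nat_lit 312) (nat_lit 245) (nat_lit 163)) (XT.nd (nat_lit 78) (nat_lit 0) (nat_lit 0) (XT.lf (nat_lit 0) (nat_lit 18966214309) (nat_lit 228) (nat_lit 20451684321) (nat_lit 76) (nat_lit 14109010158) (nat_lit 13) (nat_lit 5) (nat_lit 16) (nat_lit 5) (nat_lit 14) (nat_lit 4) (nat_lit 313) (nat_lit 245) (nat_lit 162)) (XT.lf (nat_lit 0) (nat_lit 27790160844) (nat_lit 228) (nat_lit 2588870850) (nat_lit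 76) (nat_lit 25493131883) (nat_lit 13) (nat_lit 5) (nat_lit 16) (nat_lit 5) (nat_lit 14) (nat_lit 4) (nat_lit 314) (nat_lit 245) (nat_lit 161))))))) (XT.nd (nat_lit 858) (nat_lit 228) (nat_lit 0) (XT.nd (nat_lit 390) (nat_lit 76) (nat_lit 0) (XT.nd (nat_lit 156) (nat_lit 152) (nat_lit 0) (XT.nd (nat_lit 78) (nat_lit 0) (nat_lit 0) (XT.lf (nat_lit 0) (nat_lit 16458701460) (nat_lit 76) (nat_lit 20737862819) (nat_lit 152) (nat_lit 21133890708) (nat_lit 12) (nat_lit 5) (nat_lit 13) (nat_lit 5) (nat_lit 14) (nat_lit 4) (nat_lit 315) (nat_lit 245) (nat_lit 160)) (XT.lf (nat_lit 0) (nat_lit 36484048847) (nat_lit 76) (nat_lit 10599468948) (nat_lit 152) (nat_lit 13827847385) (nat_lit 12) (nat_lit 5) (nat_lit 13) (nat_lit 5) (nat_lit 14) (nat_lit 4) (nat_lit 316) (nat_lit 245) (nat_lit 159))) (XT.nd (nat_lit 78) (nat_lit 152) (nat_lit 0) (XT.lf (nat_lit 0) (nat_lit 57449508907) (nat_lit 152) (nat_lit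 6138801747) (nat_lit 0) (nat_lit 33480113) (nat_lit 12) (nat_lit 5) (nat_lit 14) (nat_lit 4) (nat_lit 12) (nat_lit 4) (nat_lit 317) (nat_lit 245) (nat_lit 158)) (XT.nd (nat_lit 78) (nat_lit 0) (nat_lit 0) (XT.lf (nat_lit 0) (nat_lit 2050558900) (nat_lit 152) (nat_lit 53293169890) (nat_lit 76) (nat_lit 11116853178) (nat_lit 10) (nat_lit 5) (nat_lit 12) (nat_lit 5) (nat_lit 11) (nat_lit 4) (nat_lit 318) (nat_lit 245) (nat_lit 157)) (XT.lf (nat_lit 0) (nat_lit 10607209238) (nat_lit 152) (nat_lit 35961051289) (nat_lit 76) (nat_lit 22869718578) (nat_lit 10) (nat_lit 5) (nat_lit 12) (nat_lit 5) (nat_lit 11) (nat_lit 4) (nat_lit 319) (nat_lit 245) (nat_lit 156))))) (XT.nd (nat_lit 234) (nat_lit 0) (nat_lit 0) (XT.nd (nat_lit 78) (nat_lit 76) (nat_lit 0) (XT.lf (nat_lit 0) (nat_lit 19577705366) (nat_lit 152) (nat_lit 17787021849) (nat_lit 76) (nat_lit 35199947359) (nat_lit 10) (nat_lit 5) (nat_lit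 12) (nat_lit 5) (nat_lit 11) (nat_lit 4) (nat_lit 320) (nat_lit 245) (nat_lit 155)) (XT.nd (nat_lit 78) (nat_lit 0) (nat_lit 0) (XT.lf (nat_lit 0) (nat_lit 1297509002) (nat_lit 76) (nat_lit 27698369056) (nat_lit 152) (nat_lit 46851860658) (nat_lit 9) (nat_lit 5) (nat_lit 10) (nat_lit 5) (nat_lit 11) (nat_lit 4) (nat_lit 321) (nat_lit 245) (nat_lit 154)) (XT.lf (nat_lit 0) (nat_lit 21685117875) (nat_lit 76) (nat_lit 17370037233) (nat_lit 152) (nat_lit 40234703136) (nat_lit 9) (nat_lit 5) (nat_lit 10) (nat_lit 5) (nat_lit 11) (nat_lit 4) (nat_lit 322) (nat_lit 245) (nat_lit 153)))) (XT.nd (nat_lit 78) (nat_lit 0) (nat_lit 0) (XT.lf (nat_lit 0) (nat_lit 43070350084) (nat_lit 76) (nat_lit 6534754523) (nat_lit 152) (nat_lit 33299355550) (nat_lit 9) (nat_lit 5) (nat_lit 10) (nat_lit 5) (nat_lit 11) (nat_lit 4) (nat_lit 323) (nat_lit 245) (nat_lit 152)) (XT.nd (nat_lit 78) (nat_lit 0) (nat_lit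 0) (XT.lf (nat_lit 0) (nat_lit 60717305901) (nat_lit 152) (nat_lit 21242488220) (nat_lit 0) (nat_lit 4738962715) (nat_lit 9) (nat_lit 5) (nat_lit 11) (nat_lit 4) (nat_lit 9) (nat_lit 4) (nat_lit 324) (nat_lit 245) (nat_lit 151)) (XT.lf (nat_lit 0) (nat_lit 72439842925) (nat_lit 152) (nat_lit 1807235356) (nat_lit 0) (nat_lit 16434055252) (nat_lit 9) (nat_lit 5) (nat_lit 11) (nat_lit 4) (nat_lit 9) (nat_lit 4) (nat_lit 325) (nat_lit 245) (nat_lit 150)))))) (XT.nd (nat_lit 31278) (nat_lit 0) (nat_lit 17556) (XT.nd (nat_lit 234) (nat_lit 76) (nat_lit 0) (XT.nd (nat_lit 78) (nat_lit 76) (nat_lit 0) (XT.lf (nat_lit 0) (nat_lit 18950532125) (nat_lit 76) (nat_lit 65969442406) (nat_lit 76) (nat_lit 9937517125) (nat_lit 8) (nat_lit 4) (nat_lit 9) (nat_lit 5) (nat_lit 9) (nat_lit 4) (nat_lit 326) (nat_lit 245) (nat_lit 149)) (XT.nd (nat_lit 78) (nat_lit 76) (nat_lit 0) (XT.lf (nat_lit 0) (nat_lit 40765458533)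 (nat_lit 76) (nat_lit 57266893263) (nat_lit 76) (nat_lit 1210075023) (nat_lit 8) (nat_lit 4) (nat_lit 9) (nat_lit 5) (nat_lit 9) (nat_lit 4) (nat_lit 327) (nat_lit 245) (nat_lit 148)) (XT.lf (nat_lit 0) (nat_lit 7788558207) (nat_lit 152) (nat_lit 40269752659) (nat_lit 76) (nat_lit 55786309268) (nat_lit 7) (nat_lit 5) (nat_lit 9) (nat_lit 5) (nat_lit 8) (nat_lit 4) (nat_lit 328) (nat_lit 245) (nat_lit 147)))) (XT.nd (nat_lit 78) (nat_lit 76) (nat_lit 0) (XT.lf (nat_lit 0) (nat_lit 17202829648) (nat_lit 152) (nat_lit 21181360280) (nat_lit 76) (nat_lit 70292657328) (nat_lit 7) (nat_lit 5) (nat_lit 9) (nat_lit 5) (nat_lit 8) (nat_lit 4) (nat_lit 329) (nat_lit 245) (nat_lit 146)) (XT.nd (nat_lit 78) (nat_lit 76) (nat_lit 0) (XT.lf (nat_lit 0) (nat_lit 27078767155) (nat_lit 152) (nat_lit 1154710615) (nat_lit 76) (nat_lit 85517484680) (nat_lit 7) (nat_lit 5) (nat_lit 9) (nat_lit 5) (nat_lit 8)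 (nat_lit 4) (nat_lit 330) (nat_lit 245) (nat_lit 145)) (XT.lf (nat_lit 0) (nat_lit 20253089560) (nat_lit 76) (nat_lit 17381480390) (nat_lit 152) (nat_lit 81438636438) (nat_lit 6) (nat_lit 5) (nat_lit 7) (nat_lit 5) (nat_lit 8) (nat_lit 4) (nat_lit 331) (nat_lit 245) (nat_lit 144))))) (XT.nd (nat_lit 234) (nat_lit 608) (nat_lit 0) (XT.nd (nat_lit 78) (nat_lit 684) (nat_lit 0) (XT.lf (nat_lit 0) (nat_lit 1667989988) (nat_lit 0) (nat_lit 1667989988) (nat_lit 532) (nat_lit 101673721) (nat_lit 254) (nat_lit 5) (nat_lit 254) (nat_lit 3) (nat_lit 261) (nat_lit 3) (nat_lit 246) (nat_lit 246) (nat_lit 228)) (XT.nd (nat_lit 78) (nat_lit 0) (nat_lit 76) (XT.lf (nat_lit 76) (nat_lit 1522160970) (nat_lit 0) (nat_lit 1222018378) (nat_lit 684) (nat_lit 4206847764) (nat_lit 246) (nat_lit 5) (nat_lit 245) (nat_lit 3) (nat_lit 254) (nat_lit 5) (nat_lit 247) (nat_lit 246) (nat_lit 227)) (XT.lf (nat_lit 0)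 (nat_lit 5693407093) (nat_lit 608) (nat_lit 236680310) (nat_lit 684) (nat_lit 1105126277) (nat_lit 246) (nat_lit 5) (nat_lit 254) (nat_lit 5) (nat_lit 255) (nat_lit 5) (nat_lit 248) (nat_lit 246) (nat_lit 226)))) (XT.nd (nat_lit 78) (nat_lit 0) (nat_lit 0) (XT.lf (nat_lit 0) (nat_lit 1515755070) (nat_lit 684) (nat_lit 1939001479) (nat_lit 760) (nat_lit 3672378526) (nat_lit 237) (nat_lit 5) (nat_lit 246) (nat_lit 5) (nat_lit 247) (nat_lit 5) (nat_lit 249) (nat_lit 246) (nat_lit 225)) (XT.nd (nat_lit 78) (nat_lit 0) (nat_lit 76) (XT.lf (nat_lit 76) (nat_lit 3620763466) (nat_lit 0) (nat_lit 731698178) (nat_lit 760) (nat_lit 2875309631) (nat_lit 238) (nat_lit 5) (nat_lit 237) (nat_lit 5) (nat_lit 247) (nat_lit 5) (nat_lit 250) (nat_lit 246) (nat_lit 224)) (XT.lf (nat_lit 76) (nat_lit 2081150903) (nat_lit 0) (nat_lit 5144918065) (nat_lit 760) (nat_lit 110935319) (nat_lit 239) (nat_lit 5) (nat_lit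 238) (nat_lit 5) (nat_lit 248) (nat_lit 5) (nat_lit 251) (nat_lit 246) (nat_lit 223))))))))
noncomputable def xc62 : XT := (XT.nd (nat_lit 1716) (nat_lit 4256) (nat_lit 0) (XT.nd (nat_lit 858) (nat_lit 4332) (nat_lit 0) (XT.nd (nat_lit 390) (nat_lit 4712) (nat_lit 0) (XT.nd (nat_lit 156) (nat_lit 1520) (nat_lit 0) (XT.nd (nat_lit 78) (nat_lit 0) (nat_lit 76) (XT.lf (nat_lit 76) (nat_lit 549055683) (nat_lit 0) (nat_lit 2077682326) (nat_lit 836) (nat_lit 4827854764) (nat_lit 229) (nat_lit 5) (nat_lit 228) (nat_lit 5) (nat_lit 239) (nat_lit 5) (nat_lit 252) (nat_lit 246) (nat_lit 222)) (XT.lf (nat_lit 0) (nat_lit 5411198535) (nat_lit 760) (nat_lit 943069161) (nat_lit 836) (nat_lit 1226761284) (nat_lit 229) (nat_lit 5) (nat_lit 239) (nat_lit 5) (nat_lit 240) (nat_lit 5) (nat_lit 253) (nat_lit 246) (nat_lit 221))) (XT.nd (nat_lit 78) (nat_lit 760) (nat_lit 0) (XT.lf (nat_lit 0) (nat_lit 533643243)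 (nat_lit 836) (nat_lit 2424567936) (nat_lit 912) (nat_lit 4757996185) (nat_lit 218) (nat_lit 5) (nat_lit 229) (nat_lit 5) (nat_lit 230) (nat_lit 5) (nat_lit 254) (nat_lit 246) (nat_lit 220)) (XT.nd (nat_lit 78) (nat_lit 836) (nat_lit 0) (XT.lf (nat_lit 0) (nat_lit 3240670744) (nat_lit 836) (nat_lit 3915563807) (nat_lit 76) (nat_lit 704191293) (nat_lit 219) (nat_lit 5) (nat_lit 230) (nat_lit 5) (nat_lit 220) (nat_lit 5) (nat_lit 255) (nat_lit 246) (nat_lit 219)) (XT.lf (nat_lit 0) (nat_lit 2587851266) (nat_lit 836) (nat_lit 3439417893) (nat_lit 912) (nat_lit 1986567452) (nat_lit 208) (nat_lit 5) (nat_lit 219) (nat_lit 5) (nat_lit 220) (nat_lit 5) (nat_lit 256) (nat_lit 246) (nat_lit 218))))) (XT.nd (nat_lit 234) (nat_lit 2736) (nat_lit 0) (XT.nd (nat_lit 78) (nat_lit 988) (nat_lit 0) (XT.lf (nat_lit 0) (nat_lit 689174365) (nat_lit 988) (nat_lit 6946639103) (nat_lit 76) (nat_lit 541382298)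 (nat_lit 195) (nat_lit 5) (nat_lit 208) (nat_lit 5) (nat_lit 196) (nat_lit 5) (nat_lit 257) (nat_lit 246) (nat_lit 217)) (XT.nd (nat_lit 78) (nat_lit 988) (nat_lit 0) (XT.lf (nat_lit 0) (nat_lit 3422846491) (nat_lit 988) (nat_lit 175122011) (nat_lit 76) (nat_lit 4751478634) (nat_lit 195) (nat_lit 5) (nat_lit 208) (nat_lit 5) (nat_lit 196) (nat_lit 5) (nat_lit 258) (nat_lit 246) (nat_lit 216)) (XT.lf (nat_lit 0) (nat_lit 6246955317) (nat_lit 1064) (nat_lit 1569222722) (nat_lit 76) (nat_lit 715778717) (nat_lit 182) (nat_lit 5) (nat_lit 196) (nat_lit 5) (nat_lit 183) (nat_lit 5) (nat_lit 259) (nat_lit 246) (nat_lit 215)))) (XT.nd (nat_lit 78) (nat_lit 1596) (nat_lit 0) (XT.lf (nat_lit 0) (nat_lit 456397249) (nat_lit 1140) (nat_lit 3018272249) (nat_lit 76) (nat_lit 5249702579) (nat_lit 167) (nat_lit 5) (nat_lit 182) (nat_lit 5) (nat_lit 168) (nat_lit 5) (nat_lit 260) (nat_lit 246) (nat_lit 214))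 (XT.nd (nat_lit 78) (nat_lit 532) (nat_lit 0) (XT.lf (nat_lit 0) (nat_lit 3246015662) (nat_lit 1140) (nat_lit 4525453744) (nat_lit 76) (nat_lit 1155735267) (nat_lit 153) (nat_lit 5) (nat_lit 168) (nat_lit 5) (nat_lit 154) (nat_lit 5) (nat_lit 261) (nat_lit 246) (nat_lit 213)) (XT.lf (nat_lit 0) (nat_lit 3038353328) (nat_lit 532) (nat_lit 3124793286) (nat_lit 608) (nat_lit 2977607941) (nat_lit 146) (nat_lit 5) (nat_lit 153) (nat_lit 5) (nat_lit 154) (nat_lit 5) (nat_lit 262) (nat_lit 246) (nat_lit 212)))))) (XT.nd (nat_lit 390) (nat_lit 2128) (nat_lit 0) (XT.nd (nat_lit 156) (nat_lit 1064) (nat_lit 0) (XT.nd (nat_lit 78) (nat_lit 608) (nat_lit 0) (XT.lf (nat_lit 0) (nat_lit 1623102638) (nat_lit 532) (nat_lit 7579131133) (nat_lit 608) (nat_lit 163671462) (nat_lit 139) (nat_lit 5) (nat_lit 146) (nat_lit 5) (nat_lit 147) (nat_lit 5) (nat_lit 263) (nat_lit 246) (nat_lit 211)) (XT.lf (nat_lit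 0) (nat_lit 103164446) (nat_lit 532) (nat_lit 2628684790) (nat_lit 608) (nat_lit 6869989627) (nat_lit 131) (nat_lit 5) (nat_lit 138) (nat_lit 5) (nat_lit 139) (nat_lit 5) (nat_lit 264) (nat_lit 246) (nat_lit 210))) (XT.nd (nat_lit 78) (nat_lit 1064) (nat_lit 0) (XT.lf (nat_lit 0) (nat_lit 5777182025) (nat_lit 608) (nat_lit 1473064625) (nat_lit 76) (nat_lit 2599202941) (nat_lit 131) (nat_lit 5) (nat_lit 139) (nat_lit 5) (nat_lit 132) (nat_lit 5) (nat_lit 265) (nat_lit 246) (nat_lit 209)) (XT.nd (nat_lit 78) (nat_lit 532) (nat_lit 0) (XT.lf (nat_lit 0) (nat_lit 6966104069) (nat_lit 532) (nat_lit 2009978983) (nat_lit 608) (nat_lit 1133491766) (nat_lit 124) (nat_lit 5) (nat_lit 131) (nat_lit 5) (nat_lit 132) (nat_lit 5) (nat_lit 266) (nat_lit 246) (nat_lit 208)) (XT.lf (nat_lit 0) (nat_lit 1926612173) (nat_lit 532) (nat_lit 4950078263) (nat_lit 76) (nat_lit 3505238338) (nat_lit 117) (nat_lit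 5) (nat_lit 124) (nat_lit 5) (nat_lit 118) (nat_lit 5) (nat_lit 267) (nat_lit 246) (nat_lit 207))))) (XT.nd (nat_lit 234) (nat_lit 760) (nat_lit 0) (XT.nd (nat_lit 78) (nat_lit 912) (nat_lit 0) (XT.lf (nat_lit 0) (nat_lit 3780214474) (nat_lit 456) (nat_lit 1339143616) (nat_lit 532) (nat_lit 5548265640) (nat_lit 111) (nat_lit 5) (nat_lit 117) (nat_lit 5) (nat_lit 118) (nat_lit 5) (nat_lit 268) (nat_lit 246) (nat_lit 206)) (XT.nd (nat_lit 78) (nat_lit 532) (nat_lit 0) (XT.lf (nat_lit 0) (nat_lit 1983585963) (nat_lit 380) (nat_lit 6518379656) (nat_lit 456) (nat_lit 2464876185) (nat_lit 106) (nat_lit 5) (nat_lit 111) (nat_lit 5) (nat_lit 112) (nat_lit 5) (nat_lit 269) (nat_lit 246) (nat_lit 205)) (XT.lf (nat_lit 0) (nat_lit 47459179) (nat_lit 456) (nat_lit 714538040) (nat_lit 532) (nat_lit 10518803136) (nat_lit 99) (nat_lit 5) (nat_lit 105) (nat_lit 5) (nat_lit 106) (nat_lit 5) (nat_lit 270)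 (nat_lit 246) (nat_lit 204)))) (XT.nd (nat_lit 78) (nat_lit 760) (nat_lit 0) (XT.lf (nat_lit 0) (nat_lit 4166473837) (nat_lit 532) (nat_lit 2062355097) (nat_lit 76) (nat_lit 5379006426) (nat_lit 99) (nat_lit 5) (nat_lit 106) (nat_lit 5) (nat_lit 100) (nat_lit 5) (nat_lit 271) (nat_lit 246) (nat_lit 203)) (XT.nd (nat_lit 78) (nat_lit 380) (nat_lit 0) (XT.lf (nat_lit 0) (nat_lit 7618537294) (nat_lit 380) (nat_lit 128475227) (nat_lit 456) (nat_lit 4204156140) (nat_lit 94) (nat_lit 5) (nat_lit 99) (nat_lit 5) (nat_lit 100) (nat_lit 5) (nat_lit 272) (nat_lit 246) (nat_lit 202)) (XT.lf (nat_lit 0) (nat_lit 5472137108) (nat_lit 380) (nat_lit 6096773838) (nat_lit 456) (nat_lit 741003595) (nat_lit 89) (nat_lit 5) (nat_lit 94) (nat_lit 5) (nat_lit 95) (nat_lit 5) (nat_lit 273) (nat_lit 246) (nat_lit 201))))))) (XT.nd (nat_lit 858) (nat_lit 1596) (nat_lit 0) (XT.nd (nat_lit 390) (nat_lit 1216) (nat_lit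 0) (XT.nd (nat_lit 156) (nat_lit 684) (nat_lit 0) (XT.nd (nat_lit 78) (nat_lit 380) (nat_lit 0) (XT.lf (nat_lit 0) (nat_lit 2847440715) (nat_lit 380) (nat_lit 9573218500) (nat_lit 76) (nat_lit 264951760) (nat_lit 84) (nat_lit 5) (nat_lit 89) (nat_lit 5) (nat_lit 85) (nat_lit 5) (nat_lit 274) (nat_lit 246) (nat_lit 200)) (XT.lf (nat_lit 0) (nat_lit 476576060) (nat_lit 380) (nat_lit 6192845489) (nat_lit 456) (nat_lit 6408469460) (nat_lit 79) (nat_lit 5) (nat_lit 84) (nat_lit 5) (nat_lit 85) (nat_lit 5) (nat_lit 275) (nat_lit 246) (nat_lit 199))) (XT.nd (nat_lit 78) (nat_lit 684) (nat_lit 0) (XT.lf (nat_lit 0) (nat_lit 10719668217) (nat_lit 456) (nat_lit 2349560199) (nat_lit 76) (nat_lit 419538827) (nat_lit 79) (nat_lit 5) (nat_lit 85) (nat_lit 5) (nat_lit 80) (nat_lit 5) (nat_lit 276) (nat_lit 246) (nat_lit 198)) (XT.nd (nat_lit 78) (nat_lit 304) (nat_lit 0) (XT.lf (nat_lit 0) (nat_lit 1113435518)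 (nat_lit 380) (nat_lit 5495097663) (nat_lit 76) (nat_lit 7308988682) (nat_lit 74) (nat_lit 5) (nat_lit 79) (nat_lit 5) (nat_lit 75) (nat_lit 5) (nat_lit 277) (nat_lit 246) (nat_lit 197)) (XT.lf (nat_lit 0) (nat_lit 5151269440) (nat_lit 380) (nat_lit 8958604665) (nat_lit 76) (nat_lit 256549946) (nat_lit 70) (nat_lit 5) (nat_lit 75) (nat_lit 5) (nat_lit 71) (nat_lit 5) (nat_lit 278) (nat_lit 246) (nat_lit 196))))) (XT.nd (nat_lit 234) (nat_lit 532) (nat_lit 0) (XT.nd (nat_lit 78) (nat_lit 380) (nat_lit 0) (XT.lf (nat_lit 0) (nat_lit 2025511881) (nat_lit 304) (nat_lit 7449682205) (nat_lit 380) (nat_lit 5360132810) (nat_lit 66) (nat_lit 5) (nat_lit 70) (nat_lit 5) (nat_lit 71) (nat_lit 5) (nat_lit 279) (nat_lit 246) (nat_lit 195)) (XT.nd (nat_lit 78) (nat_lit 380) (nat_lit 0) (XT.lf (nat_lit 0) (nat_lit 13666984909) (nat_lit 304) (nat_lit 383505119) (nat_lit 380) (nat_lit 1276207243) (nat_lit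 66) (nat_lit 5) (nat_lit 70) (nat_lit 5) (nat_lit 71) (nat_lit 5) (nat_lit 280) (nat_lit 246) (nat_lit 194)) (XT.lf (nat_lit 0) (nat_lit 3064355890) (nat_lit 380) (nat_lit 5768882753) (nat_lit 76) (nat_lit 7005264299) (nat_lit 61) (nat_lit 5) (nat_lit 66) (nat_lit 5) (nat_lit 62) (nat_lit 5) (nat_lit 281) (nat_lit 246) (nat_lit 193)))) (XT.nd (nat_lit 78) (nat_lit 304) (nat_lit 0) (XT.lf (nat_lit 0) (nat_lit 6070530882) (nat_lit 228) (nat_lit 1551505036) (nat_lit 304) (nat_lit 8752757797) (nat_lit 58) (nat_lit 5) (nat_lit 61) (nat_lit 5) (nat_lit 62) (nat_lit 5) (nat_lit 282) (nat_lit 246) (nat_lit 192)) (XT.nd (nat_lit 78) (nat_lit 76) (nat_lit 0) (XT.lf (nat_lit 0) (nat_lit 1583126372) (nat_lit 228) (nat_lit 10906621266) (nat_lit 304) (nat_lit 4445752073) (nat_lit 55) (nat_lit 5) (nat_lit 58) (nat_lit 5) (nat_lit 59) (nat_lit 5) (nat_lit 283) (nat_lit 246) (nat_lit 191)) (XT.lf (nat_lit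 0) (nat_lit 147470317) (nat_lit 304) (nat_lit 3332152958) (nat_lit 76) (nat_lit 14042485010) (nat_lit 54) (nat_lit 5) (nat_lit 58) (nat_lit 5) (nat_lit 55) (nat_lit 5) (nat_lit 284) (nat_lit 246) (nat_lit 190)))))) (XT.nd (nat_lit 390) (nat_lit 608) (nat_lit 0) (XT.nd (nat_lit 156) (nat_lit 532) (nat_lit 0) (XT.nd (nat_lit 78) (nat_lit 228) (nat_lit 0) (XT.lf (nat_lit 0) (nat_lit 4963816797) (nat_lit 304) (nat_lit 8821695526) (nat_lit 76) (nat_lit 4348709546) (nat_lit 51) (nat_lit 5) (nat_lit 55) (nat_lit 5) (nat_lit 52) (nat_lit 5) (nat_lit 285) (nat_lit 246) (nat_lit 189)) (XT.lf (nat_lit 0) (nat_lit 3853328228) (nat_lit 228) (nat_lit 6227852835) (nat_lit 304) (nat_lit 8694008665) (nat_lit 48) (nat_lit 5) (nat_lit 51) (nat_lit 5) (nat_lit 52) (nat_lit 5) (nat_lit 286) (nat_lit 246) (nat_lit 188))) (XT.nd (nat_lit 78) (nat_lit 532) (nat_lit 0) (XT.lf (nat_lit 0) (nat_lit 15517290616) (nat_lit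 304) (nat_lit 2185101273) (nat_lit 76) (nat_lit 1743979787) (nat_lit 48) (nat_lit 5) (nat_lit 52) (nat_lit 5) (nat_lit 49) (nat_lit 5) (nat_lit 287) (nat_lit 246) (nat_lit 187)) (XT.nd (nat_lit 78) (nat_lit 228) (nat_lit 0) (XT.lf (nat_lit 0) (nat_lit 1182552086) (nat_lit 304) (nat_lit 8878635171) (nat_lit 76) (nat_lit 10085781251) (nat_lit 44) (nat_lit 5) (nat_lit 48) (nat_lit 5) (nat_lit 45) (nat_lit 5) (nat_lit 288) (nat_lit 246) (nat_lit 186)) (XT.lf (nat_lit 0) (nat_lit 4542452603) (nat_lit 228) (nat_lit 1951079240) (nat_lit 304) (nat_lit 14387191354) (nat_lit 41) (nat_lit 5) (nat_lit 44) (nat_lit 5) (nat_lit 45) (nat_lit 5) (nat_lit 289) (nat_lit 246) (nat_lit 185))))) (XT.nd (nat_lit 234) (nat_lit 152) (nat_lit 0) (XT.nd (nat_lit 78) (nat_lit 456) (nat_lit 0) (XT.lf (nat_lit 0) (nat_lit 12184545713) (nat_lit 304) (nat_lit 2955992955) (nat_lit 76) (nat_lit 6507236015) (nat_lit 41)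 (nat_lit 5) (nat_lit 45) (nat_lit 5) (nat_lit 42) (nat_lit 5) (nat_lit 290) (nat_lit 246) (nat_lit 184)) (XT.nd (nat_lit 78) (nat_lit 304) (nat_lit 0) (XT.lf (nat_lit 0) (nat_lit 11234265744) (nat_lit 152) (nat_lit 7014556611) (nat_lit 228) (nat_lit 4201736570) (nat_lit 39) (nat_lit 5) (nat_lit 41) (nat_lit 5) (nat_lit 42) (nat_lit 5) (nat_lit 291) (nat_lit 246) (nat_lit 183)) (XT.lf (nat_lit 0) (nat_lit 1332490484) (nat_lit 304) (nat_lit 20420777982) (nat_lit 76) (nat_lit 1538806650) (nat_lit 35) (nat_lit 5) (nat_lit 39) (nat_lit 5) (nat_lit 36) (nat_lit 5) (nat_lit 292) (nat_lit 246) (nat_lit 182)))) (XT.nd (nat_lit 78) (nat_lit 152) (nat_lit 0) (XT.lf (nat_lit 0) (nat_lit 7207702096) (nat_lit 304) (nat_lit 6447845898) (nat_lit 76) (nat_lit 10514372518) (nat_lit 35) (nat_lit 5) (nat_lit 39) (nat_lit 5) (nat_lit 36) (nat_lit 5) (nat_lit 293) (nat_lit 246) (nat_lit 181)) (XT.nd (nat_lit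 78) (nat_lit 0) (nat_lit 0) (XT.lf (nat_lit 0) (nat_lit 8330145661) (nat_lit 152) (nat_lit 5091326057) (nat_lit 228) (nat_lit 11668877376) (nat_lit 33) (nat_lit 5) (nat_lit 35) (nat_lit 5) (nat_lit 36) (nat_lit 5) (nat_lit 294) (nat_lit 246) (nat_lit 180)) (XT.lf (nat_lit 0) (nat_lit 20016144203) (nat_lit 228) (nat_lit 2166576781) (nat_lit 76) (nat_lit 3872004870) (nat_lit 33) (nat_lit 5) (nat_lit 36) (nat_lit 5) (nat_lit 34) (nat_lit 5) (nat_lit 295) (nat_lit 246) (nat_lit 179))))))))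
noncomputable def xc63 : XT := (XT.nd (nat_lit 1716) (nat_lit 380) (nat_lit 0) (XT.nd (nat_lit 858) (nat_lit 532) (nat_lit 0) (XT.nd (nat_lit 390) (nat_lit 532) (nat_lit 0) (XT.nd (nat_lit 156) (nat_lit 152) (nat_lit 0) (XT.nd (nat_lit 78) (nat_lit 152) (nat_lit 0) (XT.lf (nat_lit 0) (nat_lit 23795052) (nat_lit 228) (nat_lit 13750822957) (nat_lit 76) (nat_lit 13288327910) (nat_lit 30) (nat_lit 5) (nat_lit 33) (nat_lit 5) (nat_lit 31) (nat_lit 5) (nat_lit 296) (nat_lit 246) (nat_lit 178)) (XT.lf (nat_lit 0) (nat_lit 1403435955) (nat_lit 152) (nat_lit 4866180824) (nat_lit 228) (nat_lit 21850039390) (nat_lit 28) (nat_lit 5) (nat_lit 30) (nat_lit 5) (nat_lit 31) (nat_lit 5) (nat_lit 297) (nat_lit 246) (nat_lit 177))) (XT.nd (nat_lit 78) (nat_lit 152) (nat_lit 0) (XT.lf (nat_lit 0) (nat_lit 12982709873) (nat_lit 228) (nat_lit 11717921266) (nat_lit 76) (nat_lit 4523949210) (nat_lit 28) (nat_lit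 5) (nat_lit 31) (nat_lit 5) (nat_lit 29) (nat_lit 5) (nat_lit 298) (nat_lit 246) (nat_lit 176)) (XT.nd (nat_lit 78) (nat_lit 0) (nat_lit 0) (XT.lf (nat_lit 0) (nat_lit 4010691880) (nat_lit 152) (nat_lit 16078803910) (nat_lit 228) (nat_lit 10293540308) (nat_lit 26) (nat_lit 5) (nat_lit 28) (nat_lit 5) (nat_lit 29) (nat_lit 5) (nat_lit 299) (nat_lit 246) (nat_lit 175)) (XT.lf (nat_lit 0) (nat_lit 20723254882) (nat_lit 152) (nat_lit 6920316997) (nat_lit 228) (nat_lit 3953109469) (nat_lit 26) (nat_lit 5) (nat_lit 28) (nat_lit 5) (nat_lit 29) (nat_lit 5) (nat_lit 300) (nat_lit 246) (nat_lit 174))))) (XT.nd (nat_lit 234) (nat_lit 152) (nat_lit 0) (XT.nd (nat_lit 78) (nat_lit 152) (nat_lit 0) (XT.lf (nat_lit 0) (nat_lit 2702728524) (nat_lit 228) (nat_lit 27461205018) (nat_lit 76) (nat_lit 2704784071) (nat_lit 23) (nat_lit 5) (nat_lit 26) (nat_lit 5) (nat_lit 24) (nat_lit 5) (nat_lit 301) (nat_lit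 246) (nat_lit 173)) (XT.nd (nat_lit 78) (nat_lit 152) (nat_lit 0) (XT.lf (nat_lit 0) (nat_lit 9766366196) (nat_lit 228) (nat_lit 11627146621) (nat_lit 76) (nat_lit 12804987986) (nat_lit 23) (nat_lit 5) (nat_lit 26) (nat_lit 5) (nat_lit 24) (nat_lit 5) (nat_lit 302) (nat_lit 246) (nat_lit 172)) (XT.lf (nat_lit 0) (nat_lit 5054373464) (nat_lit 152) (nat_lit 12151793391) (nat_lit 228) (nat_lit 18387938034) (nat_lit 21) (nat_lit 5) (nat_lit 23) (nat_lit 5) (nat_lit 24) (nat_lit 5) (nat_lit 303) (nat_lit 246) (nat_lit 171)))) (XT.nd (nat_lit 78) (nat_lit 152) (nat_lit 0) (XT.lf (nat_lit 0) (nat_lit 22771301328) (nat_lit 152) (nat_lit 2341561796) (nat_lit 228) (nat_lit 11943799049) (nat_lit 21) (nat_lit 5) (nat_lit 23) (nat_lit 5) (nat_lit 24) (nat_lit 5) (nat_lit 304) (nat_lit 246) (nat_lit 170)) (XT.nd (nat_lit 78) (nat_lit 76) (nat_lit 0) (XT.lf (nat_lit 0) (nat_lit 2718026713) (nat_lit 76)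 (nat_lit 30775743665) (nat_lit 152) (nat_lit 5096229858) (nat_lit 20) (nat_lit 5) (nat_lit 21) (nat_lit 5) (nat_lit 22) (nat_lit 4) (nat_lit 305) (nat_lit 246) (nat_lit 169)) (XT.lf (nat_lit 0) (nat_lit 2201757338) (nat_lit 152) (nat_lit 19410262668) (nat_lit 76) (nat_lit 18582932302) (nat_lit 19) (nat_lit 5) (nat_lit 21) (nat_lit 5) (nat_lit 20) (nat_lit 5) (nat_lit 306) (nat_lit 246) (nat_lit 168)))))) (XT.nd (nat_lit 390) (nat_lit 304) (nat_lit 0) (XT.nd (nat_lit 156) (nat_lit 76) (nat_lit 0) (XT.nd (nat_lit 78) (nat_lit 152) (nat_lit 0) (XT.lf (nat_lit 0) (nat_lit 9738083324) (nat_lit 152) (nat_lit 2214578761) (nat_lit 76) (nat_lit 29926627958) (nat_lit 19) (nat_lit 5) (nat_lit 21) (nat_lit 5) (nat_lit 20) (nat_lit 5) (nat_lit 307) (nat_lit 246) (nat_lit 167)) (XT.lf (nat_lit 0) (nat_lit 16119559038) (nat_lit 152) (nat_lit 1665529555) (nat_lit 228) (nat_lit 25858756284) (nat_lit 17)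 (nat_lit 5) (nat_lit 19) (nat_lit 5) (nat_lit 20) (nat_lit 5) (nat_lit 308) (nat_lit 246) (nat_lit 166))) (XT.nd (nat_lit 78) (nat_lit 76) (nat_lit 0) (XT.lf (nat_lit 0) (nat_lit 26324729757) (nat_lit 228) (nat_lit 10202649375) (nat_lit 76) (nat_lit 8966555088) (nat_lit 17) (nat_lit 5) (nat_lit 20) (nat_lit 5) (nat_lit 18) (nat_lit 4) (nat_lit 309) (nat_lit 246) (nat_lit 165)) (XT.nd (nat_lit 78) (nat_lit 0) (nat_lit 0) (XT.lf (nat_lit 0) (nat_lit 8092513743) (nat_lit 76) (nat_lit 27273861307) (nat_lit 152) (nat_lit 12067916925) (nat_lit 16) (nat_lit 5) (nat_lit 17) (nat_lit 5) (nat_lit 18) (nat_lit 4) (nat_lit 310) (nat_lit 246) (nat_lit 164)) (XT.lf (nat_lit 0) (nat_lit 27482946535) (nat_lit 76) (nat_lit 17463222678) (nat_lit 152) (nat_lit 4522930317) (nat_lit 16) (nat_lit 5) (nat_lit 17) (nat_lit 5) (nat_lit 18) (nat_lit 4) (nat_lit 311) (nat_lit 246) (nat_lit 163))))) (XT.nd (nat_lit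 234) (nat_lit 76) (nat_lit 0) (XT.nd (nat_lit 78) (nat_lit 152) (nat_lit 0) (XT.lf (nat_lit 0) (nat_lit 3314723366) (nat_lit 152) (nat_lit 3826935762) (nat_lit 76) (nat_lit 44463568397) (nat_lit 15) (nat_lit 5) (nat_lit 17) (nat_lit 5) (nat_lit 16) (nat_lit 5) (nat_lit 312) (nat_lit 246) (nat_lit 162)) (XT.nd (nat_lit 78) (nat_lit 0) (nat_lit 0) (XT.lf (nat_lit 0) (nat_lit 11620210562) (nat_lit 228) (nat_lit 38413812787) (nat_lit 76) (nat_lit 3807722618) (nat_lit 13) (nat_lit 5) (nat_lit 16) (nat_lit 5) (nat_lit 14) (nat_lit 4) (nat_lit 313) (nat_lit 246) (nat_lit 161)) (XT.lf (nat_lit 0) (nat_lit 20435888056) (nat_lit 228) (nat_lit 20565414135) (nat_lit 76) (nat_lit 15185952327) (nat_lit 13) (nat_lit 5) (nat_lit 16) (nat_lit 5) (nat_lit 14) (nat_lit 4) (nat_lit 314) (nat_lit 246) (nat_lit 160)))) (XT.nd (nat_lit 78) (nat_lit 76) (nat_lit 0) (XT.lf (nat_lit 0) (nat_lit 29676205107) (nat_lit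 228) (nat_lit 1852738772) (nat_lit 76) (nat_lit 27121590060) (nat_lit 13) (nat_lit 5) (nat_lit 16) (nat_lit 5) (nat_lit 14) (nat_lit 4) (nat_lit 315) (nat_lit 246) (nat_lit 159)) (XT.nd (nat_lit 78) (nat_lit 0) (nat_lit 0) (XT.lf (nat_lit 0) (nat_lit 18122400602) (nat_lit 76) (nat_lit 21414965468) (nat_lit 152) (nat_lit 21694857001) (nat_lit 12) (nat_lit 5) (nat_lit 13) (nat_lit 5) (nat_lit 14) (nat_lit 4) (nat_lit 316) (nat_lit 246) (nat_lit 158)) (XT.lf (nat_lit 0) (nat_lit 39108978975) (nat_lit 76) (nat_lit 10786784784) (nat_lit 152) (nat_lit 14047117618) (nat_lit 12) (nat_lit 5) (nat_lit 13) (nat_lit 5) (nat_lit 14) (nat_lit 4) (nat_lit 317) (nat_lit 246) (nat_lit 157))))))) (XT.nd (nat_lit 858) (nat_lit 76) (nat_lit 0) (XT.nd (nat_lit 390) (nat_lit 76) (nat_lit 0) (XT.nd (nat_lit 156) (nat_lit 76) (nat_lit 0) (XT.nd (nat_lit 78) (nat_lit 152) (nat_lit 0) (XT.lf (nat_lit 0) (nat_lit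 60761378551) (nat_lit 152) (nat_lit 5672898108) (nat_lit 0) (nat_lit 355126620) (nat_lit 12) (nat_lit 5) (nat_lit 14) (nat_lit 4) (nat_lit 12) (nat_lit 4) (nat_lit 318) (nat_lit 246) (nat_lit 156)) (XT.lf (nat_lit 0) (nat_lit 2583263982) (nat_lit 152) (nat_lit 55198303747) (nat_lit 76) (nat_lit 11988865071) (nat_lit 10) (nat_lit 5) (nat_lit 12) (nat_lit 5) (nat_lit 11) (nat_lit 4) (nat_lit 319) (nat_lit 246) (nat_lit 155))) (XT.nd (nat_lit 78) (nat_lit 76) (nat_lit 0) (XT.lf (nat_lit 0) (nat_lit 11547262211) (nat_lit 152) (nat_lit 37035747055) (nat_lit 76) (nat_lit 24314318063) (nat_lit 10) (nat_lit 5) (nat_lit 12) (nat_lit 5) (nat_lit 11) (nat_lit 4) (nat_lit 320) (nat_lit 246) (nat_lit 154)) (XT.nd (nat_lit 78) (nat_lit 76) (nat_lit 0) (XT.lf (nat_lit 0) (nat_lit 20946773979) (nat_lit 152) (nat_lit 17987461704) (nat_lit 76) (nat_lit 37246719542) (nat_lit 10) (nat_lit 5) (nat_lit 12) (nat_lit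 5) (nat_lit 11) (nat_lit 4) (nat_lit 321) (nat_lit 246) (nat_lit 153)) (XT.lf (nat_lit 0) (nat_lit 2031548187) (nat_lit 76) (nat_lit 28792159371) (nat_lit 152) (nat_lit 48804841239) (nat_lit 9) (nat_lit 5) (nat_lit 10) (nat_lit 5) (nat_lit 11) (nat_lit 4) (nat_lit 322) (nat_lit 246) (nat_lit 152))))) (XT.nd (nat_lit 234) (nat_lit 76) (nat_lit 0) (XT.nd (nat_lit 78) (nat_lit 0) (nat_lit 0) (XT.lf (nat_lit 0) (nat_lit 23406672564) (nat_lit 76) (nat_lit 17961274201) (nat_lit 152) (nat_lit 41875378815) (nat_lit 9) (nat_lit 5) (nat_lit 10) (nat_lit 5) (nat_lit 11) (nat_lit 4) (nat_lit 323) (nat_lit 246) (nat_lit 151)) (XT.nd (nat_lit 78) (nat_lit 0) (nat_lit 0) (XT.lf (nat_lit 0) (nat_lit 45830818821) (nat_lit 76) (nat_lit 6597430445) (nat_lit 152) (nat_lit 34610933348) (nat_lit 9) (nat_lit 5) (nat_lit 10) (nat_lit 5) (nat_lit 11) (nat_lit 4) (nat_lit 324) (nat_lit 246) (nat_lit 150)) (XT.lf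 (nat_lit 0) (nat_lit 64082150009) (nat_lit 152) (nat_lit 21718980765) (nat_lit 0) (nat_lit 5222490857) (nat_lit 9) (nat_lit 5) (nat_lit 11) (nat_lit 4) (nat_lit 9) (nat_lit 4) (nat_lit 325) (nat_lit 246) (nat_lit 149)))) (XT.nd (nat_lit 78) (nat_lit 76) (nat_lit 0) (XT.lf (nat_lit 0) (nat_lit 76375148226) (nat_lit 152) (nat_lit 1339852490) (nat_lit 0) (nat_lit 17490596115) (nat_lit 9) (nat_lit 5) (nat_lit 11) (nat_lit 4) (nat_lit 9) (nat_lit 4) (nat_lit 326) (nat_lit 246) (nat_lit 148)) (XT.nd (nat_lit 78) (nat_lit 0) (nat_lit 0) (XT.lf (nat_lit 0) (nat_lit 20439815727) (nat_lit 76) (nat_lit 69029758710) (nat_lit 76) (nat_lit 10121499020) (nat_lit 8) (nat_lit 4) (nat_lit 9) (nat_lit 5) (nat_lit 9) (nat_lit 4) (nat_lit 327) (nat_lit 246) (nat_lit 147)) (XT.lf (nat_lit 0) (nat_lit 43319690504) (nat_lit 76) (nat_lit 59903422864) (nat_lit 76) (nat_lit 972584525) (nat_lit 8) (nat_lit 4) (nat_lit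 9) (nat_lit 5) (nat_lit 9) (nat_lit 4) (nat_lit 328) (nat_lit 246) (nat_lit 146)))))) (XT.nd (nat_lit 31356) (nat_lit 0) (nat_lit 15960) (XT.nd (nat_lit 31122) (nat_lit 0) (nat_lit 17404) (XT.nd (nat_lit 78) (nat_lit 0) (nat_lit 0) (XT.lf (nat_lit 0) (nat_lit 8456252125) (nat_lit 152) (nat_lit 41786149998) (nat_lit 76) (nat_lit 58785938348) (nat_lit 7) (nat_lit 5) (nat_lit 9) (nat_lit 5) (nat_lit 8) (nat_lit 4) (nat_lit 329) (nat_lit 246) (nat_lit 145)) (XT.nd (nat_lit 78) (nat_lit 0) (nat_lit 0) (XT.lf (nat_lit 0) (nat_lit 18327986376) (nat_lit 152) (nat_lit 21767008966) (nat_lit 76) (nat_lit 74007588877) (nat_lit 7) (nat_lit 5) (nat_lit 9) (nat_lit 5) (nat_lit 8) (nat_lit 4) (nat_lit 330) (nat_lit 246) (nat_lit 144)) (XT.lf (nat_lit 0) (nat_lit 28685100985) (nat_lit 152) (nat_lit 761570596) (nat_lit 76) (nat_lit 89984119564) (nat_lit 7) (nat_lit 5) (nat_lit 9) (nat_lit 5) (nat_lit 8) (nat_lit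 4) (nat_lit 331) (nat_lit 246) (nat_lit 143)))) (XT.nd (nat_lit 78) (nat_lit 684) (nat_lit 0) (XT.lf (nat_lit 0) (nat_lit 2783430529) (nat_lit 684) (nat_lit 365923990) (nat_lit 684) (nat_lit 365923990) (nat_lit 245) (nat_lit 3) (nat_lit 254) (nat_lit 3) (nat_lit 254) (nat_lit 5) (nat_lit 247) (nat_lit 247) (nat_lit 226)) (XT.nd (nat_lit 78) (nat_lit 0) (nat_lit 0) (XT.lf (nat_lit 0) (nat_lit 1267025064) (nat_lit 684) (nat_lit 2635394747) (nat_lit 760) (nat_lit 3215353152) (nat_lit 236) (nat_lit 5) (nat_lit 245) (nat_lit 3) (nat_lit 246) (nat_lit 5) (nat_lit 248) (nat_lit 247) (nat_lit 225)) (XT.lf (nat_lit 76) (nat_lit 2707885989) (nat_lit 0) (nat_lit 1256698216) (nat_lit 760) (nat_lit 3248951344) (nat_lit 237) (nat_lit 5) (nat_lit 236) (nat_lit 5) (nat_lit 246) (nat_lit 5) (nat_lit 249) (nat_lit 247) (nat_lit 224))))) (XT.nd (nat_lit 234) (nat_lit 760) (nat_lit 0) (XT.nd (nat_lit 78) (nat_lit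 760) (nat_lit 0) (XT.lf (nat_lit 76) (nat_lit 967082562) (nat_lit 0) (nat_lit 5716012503) (nat_lit 760) (nat_lit 634825952) (nat_lit 238) (nat_lit 5) (nat_lit 237) (nat_lit 5) (nat_lit 247) (nat_lit 5) (nat_lit 250) (nat_lit 247) (nat_lit 223)) (XT.nd (nat_lit 78) (nat_lit 0) (nat_lit 76) (XT.lf (nat_lit 0) (nat_lit 1968119424) (nat_lit 760) (nat_lit 749774284) (nat_lit 836) (nat_lit 4712430489) (nat_lit 227) (nat_lit 5) (nat_lit 237) (nat_lit 5) (nat_lit 238) (nat_lit 5) (nat_lit 251) (nat_lit 247) (nat_lit 222)) (XT.lf (nat_lit 0) (nat_lit 4590186848) (nat_lit 760) (nat_lit 2424962892) (nat_lit 836) (nat_lit 536313302) (nat_lit 228) (nat_lit 5) (nat_lit 238) (nat_lit 5) (nat_lit 239) (nat_lit 5) (nat_lit 252) (nat_lit 247) (nat_lit 221)))) (XT.nd (nat_lit 78) (nat_lit 836) (nat_lit 0) (XT.lf (nat_lit 76) (nat_lit 3580424220) (nat_lit 0) (nat_lit 3686903258) (nat_lit 836) (nat_lit 413961953)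 (nat_lit 229) (nat_lit 5) (nat_lit 228) (nat_lit 5) (nat_lit 239) (nat_lit 5) (nat_lit 253) (nat_lit 247) (nat_lit 220)) (XT.nd (nat_lit 78) (nat_lit 0) (nat_lit 76) (XT.lf (nat_lit 76) (nat_lit 2041603142) (nat_lit 0) (nat_lit 78494512) (nat_lit 912) (nat_lit 5700076060) (nat_lit 218) (nat_lit 5) (nat_lit 217) (nat_lit 5) (nat_lit 229) (nat_lit 5) (nat_lit 254) (nat_lit 247) (nat_lit 219)) (XT.lf (nat_lit 76) (nat_lit 483144784) (nat_lit 0) (nat_lit 4237073478) (nat_lit 912) (nat_lit 3247531358) (nat_lit 219) (nat_lit 5) (nat_lit 218) (nat_lit 5) (nat_lit 230) (nat_lit 5) (nat_lit 255) (nat_lit 247) (nat_lit 218))))))))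
noncomputable def xc64 : XT := (XT.nd (nat_lit 1716) (nat_lit 3876) (nat_lit 0) (XT.nd (nat_lit 858) (nat_lit 3420) (nat_lit 0) (XT.nd (nat_lit 390) (nat_lit 3268) (nat_lit 0) (XT.nd (nat_lit 156) (nat_lit 3040) (nat_lit 0) (XT.nd (nat_lit 78) (nat_lit 836) (nat_lit 0) (XT.lf (nat_lit 76) (nat_lit 7082531121) (nat_lit 0) (nat_lit 298497127) (nat_lit 912) (nat_lit 744048857) (nat_lit 219) (nat_lit 5) (nat_lit 218) (nat_lit 5) (nat_lit 230) (nat_lit 5) (nat_lit 256) (nat_lit 247) (nat_lit 217)) (XT.lf (nat_lit 0) (nat_lit 1815828836) (nat_lit 912) (nat_lit 2608434577) (nat_lit 76) (nat_lit 3866695359) (nat_lit 207) (nat_lit 5) (nat_lit 219) (nat_lit 5) (nat_lit 208) (nat_lit 5) (nat_lit 257) (nat_lit 247) (nat_lit 216))) (XT.nd (nat_lit 78) (nat_lit 2128) (nat_lit 0) (XT.lf (nat_lit 0) (nat_lit 4278657359) (nat_lit 912) (nat_lit 145219421) (nat_lit 988) (nat_lit 4043228076) (nat_lit 195) (nat_lit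 5) (nat_lit 207) (nat_lit 5) (nat_lit 208) (nat_lit 5) (nat_lit 258) (nat_lit 247) (nat_lit 215)) (XT.nd (nat_lit 78) (nat_lit 1140) (nat_lit 0) (XT.lf (nat_lit 0) (nat_lit 2830322626) (nat_lit 988) (nat_lit 4313585133) (nat_lit 1064) (nat_lit 1508949036) (nat_lit 182) (nat_lit 5) (nat_lit 195) (nat_lit 5) (nat_lit 196) (nat_lit 5) (nat_lit 259) (nat_lit 247) (nat_lit 214)) (XT.lf (nat_lit 0) (nat_lit 1079045788) (nat_lit 1140) (nat_lit 7493495057) (nat_lit 76) (nat_lit 276766228) (nat_lit 167) (nat_lit 5) (nat_lit 182) (nat_lit 5) (nat_lit 168) (nat_lit 5) (nat_lit 260) (nat_lit 247) (nat_lit 213))))) (XT.nd (nat_lit 234) (nat_lit 1596) (nat_lit 0) (XT.nd (nat_lit 78) (nat_lit 1672) (nat_lit 0) (XT.lf (nat_lit 0) (nat_lit 3762829456) (nat_lit 1140) (nat_lit 195093351) (nat_lit 76) (nat_lit 5097497565) (nat_lit 167) (nat_lit 5) (nat_lit 182) (nat_lit 5) (nat_lit 168) (nat_lit 5) (nat_lit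 261) (nat_lit 247) (nat_lit 212)) (XT.nd (nat_lit 78) (nat_lit 608) (nat_lit 0) (XT.lf (nat_lit 0) (nat_lit 6560776932) (nat_lit 1140) (nat_lit 1759331738) (nat_lit 76) (nat_lit 952537719) (nat_lit 153) (nat_lit 5) (nat_lit 168) (nat_lit 5) (nat_lit 154) (nat_lit 5) (nat_lit 262) (nat_lit 247) (nat_lit 211)) (XT.lf (nat_lit 0) (nat_lit 731693) (nat_lit 608) (nat_lit 3403959082) (nat_lit 76) (nat_lit 6096150213) (nat_lit 145) (nat_lit 5) (nat_lit 153) (nat_lit 5) (nat_lit 146) (nat_lit 5) (nat_lit 263) (nat_lit 247) (nat_lit 210)))) (XT.nd (nat_lit 78) (nat_lit 1064) (nat_lit 0) (XT.lf (nat_lit 0) (nat_lit 2778889473) (nat_lit 608) (nat_lit 5145417336) (nat_lit 76) (nat_lit 1815934298) (nat_lit 138) (nat_lit 5) (nat_lit 146) (nat_lit 5) (nat_lit 139) (nat_lit 5) (nat_lit 264) (nat_lit 247) (nat_lit 209)) (XT.nd (nat_lit 78) (nat_lit 532) (nat_lit 0) (XT.lf (nat_lit 0) (nat_lit 3005692614)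 (nat_lit 532) (nat_lit 2697639423) (nat_lit 608) (nat_lit 4288230902) (nat_lit 131) (nat_lit 5) (nat_lit 138) (nat_lit 5) (nat_lit 139) (nat_lit 5) (nat_lit 265) (nat_lit 247) (nat_lit 208)) (XT.lf (nat_lit 0) (nat_lit 1324010957) (nat_lit 532) (nat_lit 7455224925) (nat_lit 608) (nat_lit 1476222576) (nat_lit 124) (nat_lit 5) (nat_lit 131) (nat_lit 5) (nat_lit 132) (nat_lit 5) (nat_lit 266) (nat_lit 247) (nat_lit 207)))))) (XT.nd (nat_lit 390) (nat_lit 1520) (nat_lit 0) (XT.nd (nat_lit 156) (nat_lit 1368) (nat_lit 0) (XT.nd (nat_lit 78) (nat_lit 456) (nat_lit 0) (XT.lf (nat_lit 0) (nat_lit 1461954256) (nat_lit 608) (nat_lit 468853304) (nat_lit 76) (nat_lit 8601036461) (nat_lit 123) (nat_lit 5) (nat_lit 131) (nat_lit 5) (nat_lit 124) (nat_lit 5) (nat_lit 267) (nat_lit 247) (nat_lit 206)) (XT.lf (nat_lit 0) (nat_lit 4555000701) (nat_lit 532) (nat_lit 2379725978) (nat_lit 76) (nat_lit 3885874063)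 (nat_lit 117) (nat_lit 5) (nat_lit 124) (nat_lit 5) (nat_lit 118) (nat_lit 5) (nat_lit 268) (nat_lit 247) (nat_lit 205))) (XT.nd (nat_lit 78) (nat_lit 912) (nat_lit 0) (XT.lf (nat_lit 0) (nat_lit 6706308114) (nat_lit 456) (nat_lit 1106812128) (nat_lit 532) (nat_lit 3310500624) (nat_lit 111) (nat_lit 5) (nat_lit 117) (nat_lit 5) (nat_lit 118) (nat_lit 5) (nat_lit 269) (nat_lit 247) (nat_lit 204)) (XT.nd (nat_lit 78) (nat_lit 532) (nat_lit 0) (XT.lf (nat_lit 0) (nat_lit 4813761619) (nat_lit 380) (nat_lit 6464003045) (nat_lit 456) (nat_lit 162850377) (nat_lit 106) (nat_lit 5) (nat_lit 111) (nat_lit 5) (nat_lit 112) (nat_lit 5) (nat_lit 270) (nat_lit 247) (nat_lit 203)) (XT.lf (nat_lit 0) (nat_lit 2752331478) (nat_lit 456) (nat_lit 338452129) (nat_lit 532) (nat_lit 8681593376) (nat_lit 99) (nat_lit 5) (nat_lit 105) (nat_lit 5) (nat_lit 106) (nat_lit 5) (nat_lit 271) (nat_lit 247) (nat_lit 202)))))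 (XT.nd (nat_lit 234) (nat_lit 684) (nat_lit 0) (XT.nd (nat_lit 78) (nat_lit 456) (nat_lit 0) (XT.lf (nat_lit 0) (nat_lit 483003848) (nat_lit 380) (nat_lit 6081812917) (nat_lit 456) (nat_lit 5554145220) (nat_lit 94) (nat_lit 5) (nat_lit 99) (nat_lit 5) (nat_lit 100) (nat_lit 5) (nat_lit 272) (nat_lit 247) (nat_lit 201)) (XT.nd (nat_lit 78) (nat_lit 456) (nat_lit 0) (XT.lf (nat_lit 0) (nat_lit 10243415497) (nat_lit 456) (nat_lit 1922386461) (nat_lit 76) (nat_lit 316258741) (nat_lit 94) (nat_lit 5) (nat_lit 100) (nat_lit 5) (nat_lit 95) (nat_lit 5) (nat_lit 273) (nat_lit 247) (nat_lit 200)) (XT.lf (nat_lit 0) (nat_lit 1294812708) (nat_lit 456) (nat_lit 4577778210) (nat_lit 76) (nat_lit 6988174212) (nat_lit 88) (nat_lit 5) (nat_lit 94) (nat_lit 5) (nat_lit 89) (nat_lit 5) (nat_lit 274) (nat_lit 247) (nat_lit 199)))) (XT.nd (nat_lit 78) (nat_lit 380) (nat_lit 0) (XT.lf (nat_lit 0) (nat_lit 4978889323)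 (nat_lit 380) (nat_lit 7474484949) (nat_lit 76) (nat_lit 803855434) (nat_lit 84) (nat_lit 5) (nat_lit 89) (nat_lit 5) (nat_lit 85) (nat_lit 5) (nat_lit 275) (nat_lit 247) (nat_lit 198)) (XT.nd (nat_lit 78) (nat_lit 0) (nat_lit 0) (XT.lf (nat_lit 0) (nat_lit 3003918843) (nat_lit 380) (nat_lit 5917397731) (nat_lit 456) (nat_lit 4750069105) (nat_lit 79) (nat_lit 5) (nat_lit 84) (nat_lit 5) (nat_lit 85) (nat_lit 5) (nat_lit 276) (nat_lit 247) (nat_lit 197)) (XT.lf (nat_lit 0) (nat_lit 13088078476) (nat_lit 456) (nat_lit 30571906) (nat_lit 76) (nat_lit 986870834) (nat_lit 79) (nat_lit 5) (nat_lit 85) (nat_lit 5) (nat_lit 80) (nat_lit 5) (nat_lit 277) (nat_lit 247) (nat_lit 196))))))) (XT.nd (nat_lit 858) (nat_lit 1520) (nat_lit 0) (XT.nd (nat_lit 390) (nat_lit 988) (nat_lit 0) (XT.nd (nat_lit 156) (nat_lit 684) (nat_lit 0) (XT.nd (nat_lit 78) (nat_lit 304) (nat_lit 0) (XT.lf (nat_lit 0) (nat_lit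 2957061377) (nat_lit 380) (nat_lit 3365136027) (nat_lit 76) (nat_lit 8235054688) (nat_lit 74) (nat_lit 5) (nat_lit 79) (nat_lit 5) (nat_lit 75) (nat_lit 5) (nat_lit 278) (nat_lit 247) (nat_lit 195)) (XT.lf (nat_lit 0) (nat_lit 7139968012) (nat_lit 380) (nat_lit 7022471938) (nat_lit 76) (nat_lit 867983400) (nat_lit 70) (nat_lit 5) (nat_lit 75) (nat_lit 5) (nat_lit 71) (nat_lit 5) (nat_lit 279) (nat_lit 247) (nat_lit 194))) (XT.nd (nat_lit 78) (nat_lit 380) (nat_lit 0) (XT.lf (nat_lit 0) (nat_lit 4442511749) (nat_lit 304) (nat_lit 7177402295) (nat_lit 380) (nat_lit 3904776246) (nat_lit 66) (nat_lit 5) (nat_lit 70) (nat_lit 5) (nat_lit 71) (nat_lit 5) (nat_lit 280) (nat_lit 247) (nat_lit 193)) (XT.nd (nat_lit 78) (nat_lit 0) (nat_lit 0) (XT.lf (nat_lit 0) (nat_lit 302509387) (nat_lit 380) (nat_lit 15525087312) (nat_lit 76) (nat_lit 215227748) (nat_lit 61) (nat_lit 5) (nat_lit 66) (nat_lit 5)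 (nat_lit 62) (nat_lit 5) (nat_lit 281) (nat_lit 247) (nat_lit 192)) (XT.lf (nat_lit 0) (nat_lit 4777100988) (nat_lit 380) (nat_lit 3839310291) (nat_lit 76) (nat_lit 7965228356) (nat_lit 61) (nat_lit 5) (nat_lit 66) (nat_lit 5) (nat_lit 62) (nat_lit 5) (nat_lit 282) (nat_lit 247) (nat_lit 191))))) (XT.nd (nat_lit 234) (nat_lit 456) (nat_lit 0) (XT.nd (nat_lit 78) (nat_lit 304) (nat_lit 0) (XT.lf (nat_lit 0) (nat_lit 8528495025) (nat_lit 228) (nat_lit 980616560) (nat_lit 304) (nat_lit 7637335329) (nat_lit 58) (nat_lit 5) (nat_lit 61) (nat_lit 5) (nat_lit 62) (nat_lit 5) (nat_lit 283) (nat_lit 247) (nat_lit 190)) (XT.nd (nat_lit 78) (nat_lit 76) (nat_lit 0) (XT.lf (nat_lit 0) (nat_lit 3794645781) (nat_lit 228) (nat_lit 10780284246) (nat_lit 304) (nat_lit 3161707369) (nat_lit 55) (nat_lit 5) (nat_lit 58) (nat_lit 5) (nat_lit 59) (nat_lit 5) (nat_lit 284) (nat_lit 247) (nat_lit 189)) (XT.lf (nat_lit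 0) (nat_lit 1561451774) (nat_lit 304) (nat_lit 1438264794) (nat_lit 76) (nat_lit 15354619328) (nat_lit 54) (nat_lit 5) (nat_lit 58) (nat_lit 5) (nat_lit 55) (nat_lit 5) (nat_lit 285) (nat_lit 247) (nat_lit 188)))) (XT.nd (nat_lit 78) (nat_lit 228) (nat_lit 0) (XT.lf (nat_lit 0) (nat_lit 6577049980) (nat_lit 304) (nat_lit 7225159378) (nat_lit 76) (nat_lit 5196172749) (nat_lit 51) (nat_lit 5) (nat_lit 55) (nat_lit 5) (nat_lit 52) (nat_lit 5) (nat_lit 286) (nat_lit 247) (nat_lit 187)) (XT.nd (nat_lit 78) (nat_lit 0) (nat_lit 0) (XT.lf (nat_lit 0) (nat_lit 6025207570) (nat_lit 228) (nat_lit 5879098278) (nat_lit 304) (nat_lit 7768547979) (nat_lit 48) (nat_lit 5) (nat_lit 51) (nat_lit 5) (nat_lit 52) (nat_lit 5) (nat_lit 287) (nat_lit 247) (nat_lit 186)) (XT.lf (nat_lit 0) (nat_lit 17555451786) (nat_lit 304) (nat_lit 376296738) (nat_lit 76) (nat_lit 2447621965) (nat_lit 48) (nat_lit 5) (nat_lit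 52) (nat_lit 5) (nat_lit 49) (nat_lit 5) (nat_lit 288) (nat_lit 247) (nat_lit 185)))))) (XT.nd (nat_lit 390) (nat_lit 532) (nat_lit 0) (XT.nd (nat_lit 156) (nat_lit 456) (nat_lit 0) (XT.nd (nat_lit 78) (nat_lit 228) (nat_lit 0) (XT.lf (nat_lit 0) (nat_lit 2475210999) (nat_lit 304) (nat_lit 7433596897) (nat_lit 76) (nat_lit 11207161562) (nat_lit 44) (nat_lit 5) (nat_lit 48) (nat_lit 5) (nat_lit 45) (nat_lit 5) (nat_lit 289) (nat_lit 247) (nat_lit 184)) (XT.lf (nat_lit 0) (nat_lit 6604398319) (nat_lit 228) (nat_lit 1406239280) (nat_lit 304) (nat_lit 13877071228) (nat_lit 41) (nat_lit 5) (nat_lit 44) (nat_lit 5) (nat_lit 45) (nat_lit 5) (nat_lit 290) (nat_lit 247) (nat_lit 183))) (XT.nd (nat_lit 78) (nat_lit 456) (nat_lit 0) (XT.lf (nat_lit 0) (nat_lit 13935300854) (nat_lit 304) (nat_lit 1326936859) (nat_lit 76) (nat_lit 7432463057) (nat_lit 41) (nat_lit 5) (nat_lit 45) (nat_lit 5) (nat_lit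 42) (nat_lit 5) (nat_lit 291) (nat_lit 247) (nat_lit 182)) (XT.nd (nat_lit 78) (nat_lit 304) (nat_lit 0) (XT.lf (nat_lit 0) (nat_lit 13521901562) (nat_lit 152) (nat_lit 6743121919) (nat_lit 228) (nat_lit 3273791720) (nat_lit 39) (nat_lit 5) (nat_lit 41) (nat_lit 5) (nat_lit 42) (nat_lit 5) (nat_lit 292) (nat_lit 247) (nat_lit 181)) (XT.lf (nat_lit 0) (nat_lit 2484098678) (nat_lit 304) (nat_lit 19715222627) (nat_lit 76) (nat_lit 2223736518) (nat_lit 35) (nat_lit 5) (nat_lit 39) (nat_lit 5) (nat_lit 36) (nat_lit 5) (nat_lit 293) (nat_lit 247) (nat_lit 180))))) (XT.nd (nat_lit 234) (nat_lit 380) (nat_lit 0) (XT.nd (nat_lit 78) (nat_lit 152) (nat_lit 0) (XT.lf (nat_lit 0) (nat_lit 8601404982) (nat_lit 304) (nat_lit 5125862712) (nat_lit 76) (nat_lit 11619128796) (nat_lit 35) (nat_lit 5) (nat_lit 39) (nat_lit 5) (nat_lit 36) (nat_lit 5) (nat_lit 294) (nat_lit 247) (nat_lit 179)) (XT.nd (nat_lit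 78) (nat_lit 0) (nat_lit 0) (XT.lf (nat_lit 0) (nat_lit 10343892731) (nat_lit 152) (nat_lit 4748118391) (nat_lit 228) (nat_lit 11221899534) (nat_lit 33) (nat_lit 5) (nat_lit 35) (nat_lit 5) (nat_lit 36) (nat_lit 5) (nat_lit 295) (nat_lit 247) (nat_lit 178)) (XT.lf (nat_lit 0) (nat_lit 21974296163) (nat_lit 228) (nat_lit 729715610) (nat_lit 76) (nat_lit 4623804396) (nat_lit 33) (nat_lit 5) (nat_lit 36) (nat_lit 5) (nat_lit 34) (nat_lit 5) (nat_lit 296) (nat_lit 247) (nat_lit 177)))) (XT.nd (nat_lit 78) (nat_lit 152) (nat_lit 0) (XT.lf (nat_lit 0) (nat_lit 961203752) (nat_lit 228) (nat_lit 12917978183) (nat_lit 76) (nat_lit 14507968830) (nat_lit 30) (nat_lit 5) (nat_lit 33) (nat_lit 5) (nat_lit 31) (nat_lit 5) (nat_lit 297) (nat_lit 247) (nat_lit 176)) (XT.nd (nat_lit 78) (nat_lit 0) (nat_lit 0) (XT.lf (nat_lit 0) (nat_lit 2950412118) (nat_lit 152) (nat_lit 4538518540) (nat_lit 228) (nat_lit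 22008718203) (nat_lit 28) (nat_lit 5) (nat_lit 30) (nat_lit 5) (nat_lit 31) (nat_lit 5) (nat_lit 298) (nat_lit 247) (nat_lit 175)) (XT.lf (nat_lit 0) (nat_lit 14499770668) (nat_lit 228) (nat_lit 10875906895) (nat_lit 76) (nat_lit 5283317736) (nat_lit 28) (nat_lit 5) (nat_lit 31) (nat_lit 5) (nat_lit 29) (nat_lit 5) (nat_lit 299) (nat_lit 247) (nat_lit 174))))))))
noncomputable def xc65 : XT := (XT.nd (nat_lit 1716) (nat_lit 228) (nat_lit 0) (XT.nd (nat_lit 858) (nat_lit 532) (nat_lit 0) (XT.nd (nat_lit 390) (nat_lit 304) (nat_lit 0) (XT.nd (nat_lit 156) (nat_lit 380) (nat_lit 0) (XT.nd (nat_lit 78) (nat_lit 0) (nat_lit 0) (XT.lf (nat_lit 0) (nat_lit 5598206142) (nat_lit 152) (nat_lit 16335692459) (nat_lit 228) (nat_lit 9942352119) (nat_lit 26) (nat_lit 5) (nat_lit 28) (nat_lit 5) (nat_lit 29) (nat_lit 5) (nat_lit 300) (nat_lit 247) (nat_lit 173)) (XT.lf (nat_lit 0) (nat_lit 23080350644)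 (nat_lit 152) (nat_lit 6745331279) (nat_lit 228) (nat_lit 3326131414) (nat_lit 26) (nat_lit 5) (nat_lit 28) (nat_lit 5) (nat_lit 29) (nat_lit 5) (nat_lit 301) (nat_lit 247) (nat_lit 172))) (XT.nd (nat_lit 78) (nat_lit 152) (nat_lit 0) (XT.lf (nat_lit 0) (nat_lit 3625363297) (nat_lit 228) (nat_lit 27515743325) (nat_lit 76) (nat_lit 3346770849) (nat_lit 23) (nat_lit 5) (nat_lit 26) (nat_lit 5) (nat_lit 24) (nat_lit 5) (nat_lit 302) (nat_lit 247) (nat_lit 171)) (XT.nd (nat_lit 78) (nat_lit 152) (nat_lit 0) (XT.lf (nat_lit 0) (nat_lit 11004682931) (nat_lit 228) (nat_lit 10952768767) (nat_lit 76) (nat_lit 13927854123) (nat_lit 23) (nat_lit 5) (nat_lit 26) (nat_lit 5) (nat_lit 24) (nat_lit 5) (nat_lit 303) (nat_lit 247) (nat_lit 170)) (XT.lf (nat_lit 0) (nat_lit 6526831925) (nat_lit 152) (nat_lit 12265652372) (nat_lit 228) (nat_lit 18558955021) (nat_lit 21) (nat_lit 5) (nat_lit 23) (nat_lit 5)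 (nat_lit 24) (nat_lit 5) (nat_lit 304) (nat_lit 247) (nat_lit 169))))) (XT.nd (nat_lit 234) (nat_lit 152) (nat_lit 0) (XT.nd (nat_lit 78) (nat_lit 152) (nat_lit 0) (XT.lf (nat_lit 0) (nat_lit 25071523335) (nat_lit 152) (nat_lit 1988420182) (nat_lit 228) (nat_lit 11828246226) (nat_lit 21) (nat_lit 5) (nat_lit 23) (nat_lit 5) (nat_lit 24) (nat_lit 5) (nat_lit 305) (nat_lit 247) (nat_lit 168)) (XT.nd (nat_lit 78) (nat_lit 76) (nat_lit 0) (XT.lf (nat_lit 0) (nat_lit 3998590673) (nat_lit 76) (nat_lit 31843687875) (nat_lit 152) (nat_lit 4656471470) (nat_lit 20) (nat_lit 5) (nat_lit 21) (nat_lit 5) (nat_lit 22) (nat_lit 4) (nat_lit 306) (nat_lit 247) (nat_lit 167)) (XT.lf (nat_lit 0) (nat_lit 2960432177) (nat_lit 152) (nat_lit 19277217494) (nat_lit 76) (nat_lit 19947097369) (nat_lit 19) (nat_lit 5) (nat_lit 21) (nat_lit 5) (nat_lit 20) (nat_lit 5) (nat_lit 307) (nat_lit 247) (nat_lit 166)))) (XT.nd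 (nat_lit 78) (nat_lit 152) (nat_lit 0) (XT.lf (nat_lit 0) (nat_lit 10842689368) (nat_lit 152) (nat_lit 1274299787) (nat_lit 76) (nat_lit 31837262643) (nat_lit 19) (nat_lit 5) (nat_lit 21) (nat_lit 5) (nat_lit 20) (nat_lit 5) (nat_lit 308) (nat_lit 247) (nat_lit 165)) (XT.nd (nat_lit 78) (nat_lit 0) (nat_lit 0) (XT.lf (nat_lit 0) (nat_lit 17946417971) (nat_lit 152) (nat_lit 1326025887) (nat_lit 228) (nat_lit 26535201009) (nat_lit 17) (nat_lit 5) (nat_lit 19) (nat_lit 5) (nat_lit 20) (nat_lit 5) (nat_lit 309) (nat_lit 247) (nat_lit 164)) (XT.lf (nat_lit 0) (nat_lit 28214456585) (nat_lit 228) (nat_lit 9726868307) (nat_lit 76) (nat_lit 9809673492) (nat_lit 17) (nat_lit 5) (nat_lit 20) (nat_lit 5) (nat_lit 18) (nat_lit 4) (nat_lit 310) (nat_lit 247) (nat_lit 163)))))) (XT.nd (nat_lit 390) (nat_lit 228) (nat_lit 0) (XT.nd (nat_lit 156) (nat_lit 228) (nat_lit 0) (XT.nd (nat_lit 78) (nat_lit 0)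 (nat_lit 0) (XT.lf (nat_lit 0) (nat_lit 9454791953) (nat_lit 76) (nat_lit 28235288667) (nat_lit 152) (nat_lit 12098856885) (nat_lit 16) (nat_lit 5) (nat_lit 17) (nat_lit 5) (nat_lit 18) (nat_lit 4) (nat_lit 311) (nat_lit 247) (nat_lit 162)) (XT.lf (nat_lit 0) (nat_lit 29769143884) (nat_lit 76) (nat_lit 17953273616) (nat_lit 152) (nat_lit 4203880750) (nat_lit 16) (nat_lit 5) (nat_lit 17) (nat_lit 5) (nat_lit 18) (nat_lit 4) (nat_lit 312) (nat_lit 247) (nat_lit 161))) (XT.nd (nat_lit 78) (nat_lit 152) (nat_lit 0) (XT.lf (nat_lit 0) (nat_lit 3989561765) (nat_lit 152) (nat_lit 3139172532) (nat_lit 76) (nat_lit 47041122720) (nat_lit 15) (nat_lit 5) (nat_lit 17) (nat_lit 5) (nat_lit 16) (nat_lit 5) (nat_lit 313) (nat_lit 247) (nat_lit 160)) (XT.nd (nat_lit 78) (nat_lit 0) (nat_lit 0) (XT.lf (nat_lit 0) (nat_lit 12697757311) (nat_lit 228) (nat_lit 39468927805) (nat_lit 76) (nat_lit 4351910332)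 (nat_lit 13) (nat_lit 5) (nat_lit 16) (nat_lit 5) (nat_lit 14) (nat_lit 4) (nat_lit 314) (nat_lit 247) (nat_lit 159)) (XT.lf (nat_lit 0) (nat_lit 21930574098) (nat_lit 228) (nat_lit 20769327108) (nat_lit 76) (nat_lit 16282203832) (nat_lit 13) (nat_lit 5) (nat_lit 16) (nat_lit 5) (nat_lit 14) (nat_lit 4) (nat_lit 315) (nat_lit 247) (nat_lit 158))))) (XT.nd (nat_lit 234) (nat_lit 152) (nat_lit 0) (XT.nd (nat_lit 78) (nat_lit 76) (nat_lit 0) (XT.lf (nat_lit 0) (nat_lit 31610388352) (nat_lit 228) (nat_lit 1160273107) (nat_lit 76) (nat_lit 28798578028) (nat_lit 13) (nat_lit 5) (nat_lit 16) (nat_lit 5) (nat_lit 14) (nat_lit 4) (nat_lit 316) (nat_lit 247) (nat_lit 157)) (XT.nd (nat_lit 78) (nat_lit 0) (nat_lit 0) (XT.lf (nat_lit 0) (nat_lit 19791118428) (nat_lit 76) (nat_lit 22159373160) (nat_lit 152) (nat_lit 22329959721) (nat_lit 12) (nat_lit 5) (nat_lit 13) (nat_lit 5) (nat_lit 14) (nat_lit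 4) (nat_lit 317) (nat_lit 247) (nat_lit 156)) (XT.lf (nat_lit 0) (nat_lit 41790711538) (nat_lit 76) (nat_lit 11015323468) (nat_lit 152) (nat_lit 14321244805) (nat_lit 12) (nat_lit 5) (nat_lit 13) (nat_lit 5) (nat_lit 14) (nat_lit 4) (nat_lit 318) (nat_lit 247) (nat_lit 155)))) (XT.nd (nat_lit 78) (nat_lit 152) (nat_lit 0) (XT.lf (nat_lit 0) (nat_lit 64197990969) (nat_lit 152) (nat_lit 5255550971) (nat_lit 0) (nat_lit 663107443) (nat_lit 12) (nat_lit 5) (nat_lit 14) (nat_lit 4) (nat_lit 12) (nat_lit 4) (nat_lit 319) (nat_lit 247) (nat_lit 154)) (XT.nd (nat_lit 78) (nat_lit 0) (nat_lit 0) (XT.lf (nat_lit 0) (nat_lit 3102610525) (nat_lit 152) (nat_lit 57269307697) (nat_lit 76) (nat_lit 12875083140) (nat_lit 10) (nat_lit 5) (nat_lit 12) (nat_lit 5) (nat_lit 11) (nat_lit 4) (nat_lit 320) (nat_lit 247) (nat_lit 153)) (XT.lf (nat_lit 0) (nat_lit 12496228506) (nat_lit 152) (nat_lit 38231428468)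 (nat_lit 76) (nat_lit 25803152837) (nat_lit 10) (nat_lit 5) (nat_lit 12) (nat_lit 5) (nat_lit 11) (nat_lit 4) (nat_lit 321) (nat_lit 247) (nat_lit 152))))))) (XT.nd (nat_lit 31902) (nat_lit 0) (nat_lit 13224) (XT.nd (nat_lit 390) (nat_lit 152) (nat_lit 0) (XT.nd (nat_lit 156) (nat_lit 0) (nat_lit 0) (XT.nd (nat_lit 78) (nat_lit 76) (nat_lit 0) (XT.lf (nat_lit 0) (nat_lit 22348020473) (nat_lit 152) (nat_lit 18261971990) (nat_lit 76) (nat_lit 39369168730) (nat_lit 10) (nat_lit 5) (nat_lit 12) (nat_lit 5) (nat_lit 11) (nat_lit 4) (nat_lit 322) (nat_lit 247) (nat_lit 151)) (XT.lf (nat_lit 0) (nat_lit 2740076829) (nat_lit 76) (nat_lit 29967705536) (nat_lit 152) (nat_lit 50891693322) (nat_lit 9) (nat_lit 5) (nat_lit 10) (nat_lit 5) (nat_lit 11) (nat_lit 4) (nat_lit 323) (nat_lit 247) (nat_lit 150))) (XT.nd (nat_lit 78) (nat_lit 0) (nat_lit 0) (XT.lf (nat_lit 0) (nat_lit 25155054985) (nat_lit 76)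 (nat_lit 18607850479) (nat_lit 152) (nat_lit 43632585871) (nat_lit 9) (nat_lit 5) (nat_lit 10) (nat_lit 5) (nat_lit 11) (nat_lit 4) (nat_lit 324) (nat_lit 247) (nat_lit 149)) (XT.nd (nat_lit 78) (nat_lit 0) (nat_lit 0) (XT.lf (nat_lit 0) (nat_lit 48672882423) (nat_lit 76) (nat_lit 6687790128) (nat_lit 152) (nat_lit 36020944888) (nat_lit 9) (nat_lit 5) (nat_lit 10) (nat_lit 5) (nat_lit 11) (nat_lit 4) (nat_lit 325) (nat_lit 247) (nat_lit 148)) (XT.lf (nat_lit 0) (nat_lit 67584650990) (nat_lit 152) (nat_lit 22273744438) (nat_lit 0) (nat_lit 5707270734) (nat_lit 9) (nat_lit 5) (nat_lit 11) (nat_lit 4) (nat_lit 9) (nat_lit 4) (nat_lit 326) (nat_lit 247) (nat_lit 147))))) (XT.nd (nat_lit 234) (nat_lit 76) (nat_lit 0) (XT.nd (nat_lit 78) (nat_lit 76) (nat_lit 0) (XT.lf (nat_lit 0) (nat_lit 80478089905) (nat_lit 152) (nat_lit 900954290) (nat_lit 0) (nat_lit 18578131002) (nat_lit 9) (nat_lit 5)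 (nat_lit 11) (nat_lit 4) (nat_lit 9) (nat_lit 4) (nat_lit 327) (nat_lit 247) (nat_lit 146)) (XT.nd (nat_lit 78) (nat_lit 0) (nat_lit 0) (XT.lf (nat_lit 0) (nat_lit 21953196079) (nat_lit 76) (nat_lit 72265232301) (nat_lit 76) (nat_lit 10343769924) (nat_lit 8) (nat_lit 4) (nat_lit 9) (nat_lit 5) (nat_lit 9) (nat_lit 4) (nat_lit 328) (nat_lit 247) (nat_lit 145)) (XT.lf (nat_lit 0) (nat_lit 45953665091) (nat_lit 76) (nat_lit 62692866059) (nat_lit 76) (nat_lit 750924183) (nat_lit 8) (nat_lit 4) (nat_lit 9) (nat_lit 5) (nat_lit 9) (nat_lit 4) (nat_lit 329) (nat_lit 247) (nat_lit 144)))) (XT.nd (nat_lit 31122) (nat_lit 0) (nat_lit 17404) (XT.lf (nat_lit 0) (nat_lit 9131460203) (nat_lit 152) (nat_lit 43424581948) (nat_lit 76) (nat_lit 61915995916) (nat_lit 7) (nat_lit 5) (nat_lit 9) (nat_lit 5) (nat_lit 8) (nat_lit 4) (nat_lit 330) (nat_lit 247) (nat_lit 143)) (XT.nd (nat_lit 78) (nat_lit 0) (nat_lit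 0) (XT.lf (nat_lit 0) (nat_lit 958845642) (nat_lit 0) (nat_lit 958845642) (nat_lit 684) (nat_lit 1686705926) (nat_lit 236) (nat_lit 5) (nat_lit 236) (nat_lit 3) (nat_lit 245) (nat_lit 3) (nat_lit 248) (nat_lit 248) (nat_lit 224)) (XT.lf (nat_lit 0) (nat_lit 6407945412) (nat_lit 684) (nat_lit 25709636) (nat_lit 760) (nat_lit 874855246) (nat_lit 236) (nat_lit 5) (nat_lit 245) (nat_lit 3) (nat_lit 246) (nat_lit 5) (nat_lit 249) (nat_lit 248) (nat_lit 223)))))) (XT.nd (nat_lit 390) (nat_lit 2660) (nat_lit 0) (XT.nd (nat_lit 156) (nat_lit 760) (nat_lit 0) (XT.nd (nat_lit 78) (nat_lit 0) (nat_lit 0) (XT.lf (nat_lit 0) (nat_lit 1576654692) (nat_lit 760) (nat_lit 1925462961) (nat_lit 836) (nat_lit 3913576070) (nat_lit 226) (nat_lit 5) (nat_lit 236) (nat_lit 5) (nat_lit 237) (nat_lit 5) (nat_lit 250) (nat_lit 248) (nat_lit 222)) (XT.lf (nat_lit 76) (nat_lit 3732155011) (nat_lit 0) (nat_lit 310874618)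 (nat_lit 836) (nat_lit 3488788798) (nat_lit 227) (nat_lit 5) (nat_lit 226) (nat_lit 5) (nat_lit 237) (nat_lit 5) (nat_lit 251) (nat_lit 248) (nat_lit 221))) (XT.nd (nat_lit 78) (nat_lit 836) (nat_lit 0) (XT.lf (nat_lit 76) (nat_lit 1980233563) (nat_lit 0) (nat_lit 4575423654) (nat_lit 836) (nat_lit 1100753834) (nat_lit 228) (nat_lit 5) (nat_lit 227) (nat_lit 5) (nat_lit 238) (nat_lit 5) (nat_lit 252) (nat_lit 248) (nat_lit 220)) (XT.nd (nat_lit 78) (nat_lit 0) (nat_lit 76) (XT.lf (nat_lit 76) (nat_lit 240808501) (nat_lit 0) (nat_lit 1042426019) (nat_lit 912) (nat_lit 6506796443) (nat_lit 217) (nat_lit 5) (nat_lit 216) (nat_lit 5) (nat_lit 228) (nat_lit 5) (nat_lit 253) (nat_lit 248) (nat_lit 219)) (XT.lf (nat_lit 0) (nat_lit 3713907138) (nat_lit 836) (nat_lit 1485222970) (nat_lit 912) (nat_lit 2732675253) (nat_lit 217) (nat_lit 5) (nat_lit 228) (nat_lit 5) (nat_lit 229) (nat_lit 5) (nat_lit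 254) (nat_lit 248) (nat_lit 218))))) (XT.nd (nat_lit 234) (nat_lit 1900) (nat_lit 0) (XT.nd (nat_lit 78) (nat_lit 836) (nat_lit 0) (XT.lf (nat_lit 76) (nat_lit 4879455966) (nat_lit 0) (nat_lit 1315882973) (nat_lit 912) (nat_lit 1887746058) (nat_lit 218) (nat_lit 5) (nat_lit 217) (nat_lit 5) (nat_lit 229) (nat_lit 5) (nat_lit 255) (nat_lit 248) (nat_lit 217)) (XT.nd (nat_lit 78) (nat_lit 0) (nat_lit 0) (XT.lf (nat_lit 0) (nat_lit 498420617) (nat_lit 912) (nat_lit 4947962523) (nat_lit 988) (nat_lit 2797143080) (nat_lit 206) (nat_lit 5) (nat_lit 218) (nat_lit 5) (nat_lit 219) (nat_lit 5) (nat_lit 256) (nat_lit 248) (nat_lit 216)) (XT.lf (nat_lit 76) (nat_lit 1686794332) (nat_lit 0) (nat_lit 1222260520) (nat_lit 988) (nat_lit 5504306185) (nat_lit 207) (nat_lit 5) (nat_lit 206) (nat_lit 5) (nat_lit 219) (nat_lit 5) (nat_lit 257) (nat_lit 248) (nat_lit 215)))) (XT.nd (nat_lit 78) (nat_lit 1064)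 (nat_lit 0) (XT.lf (nat_lit 0) (nat_lit 45523290) (nat_lit 912) (nat_lit 5363594741) (nat_lit 988) (nat_lit 3183748617) (nat_lit 195) (nat_lit 5) (nat_lit 207) (nat_lit 5) (nat_lit 208) (nat_lit 5) (nat_lit 258) (nat_lit 248) (nat_lit 214)) (XT.nd (nat_lit 78) (nat_lit 1064) (nat_lit 0) (XT.lf (nat_lit 0) (nat_lit 7196293282) (nat_lit 912) (nat_lit 810062371) (nat_lit 988) (nat_lit 776061009) (nat_lit 195) (nat_lit 5) (nat_lit 207) (nat_lit 5) (nat_lit 208) (nat_lit 5) (nat_lit 259) (nat_lit 248) (nat_lit 213)) (XT.lf (nat_lit 0) (nat_lit 1706661146) (nat_lit 1064) (nat_lit 3289597336) (nat_lit 76) (nat_lit 3985231911) (nat_lit 181) (nat_lit 5) (nat_lit 195) (nat_lit 5) (nat_lit 182) (nat_lit 5) (nat_lit 260) (nat_lit 248) (nat_lit 212))))))))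
noncomputable def xc66 : XT := (XT.nd (nat_lit 1716) (nat_lit 2888) (nat_lit 0) (XT.nd (nat_lit 858) (nat_lit 3344) (nat_lit 0) (XT.nd (nat_lit 390) (nat_lit 2508) (nat_lit 0) (XT.nd (nat_lit 156) (nat_lit 1140) (nat_lit 0) (XT.nd (nat_lit 78) (nat_lit 1064) (nat_lit 0) (XT.lf (nat_lit 0) (nat_lit 4154855863) (nat_lit 1064) (nat_lit 106414992) (nat_lit 1140) (nat_lit 4930308685) (nat_lit 167) (nat_lit 5) (nat_lit 181) (nat_lit 5) (nat_lit 182) (nat_lit 5) (nat_lit 261) (nat_lit 248) (nat_lit 211)) (XT.lf (nat_lit 0) (nat_lit 2542352005) (nat_lit 1064) (nat_lit 4411390760) (nat_lit 1140) (nat_lit 2458322897) (nat_lit 153) (nat_lit 5) (nat_lit 167) (nat_lit 5) (nat_lit 168) (nat_lit 5) (nat_lit 262) (nat_lit 248) (nat_lit 210))) (XT.nd (nat_lit 78) (nat_lit 532) (nat_lit 0) (XT.lf (nat_lit 0) (nat_lit 110012181) (nat_lit 608) (nat_lit 8761421501) (nat_lit 76) (nat_lit 773021632) (nat_lit 145)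 (nat_lit 5) (nat_lit 153) (nat_lit 5) (nat_lit 146) (nat_lit 5) (nat_lit 263) (nat_lit 248) (nat_lit 209)) (XT.nd (nat_lit 78) (nat_lit 532) (nat_lit 0) (XT.lf (nat_lit 0) (nat_lit 2781912026) (nat_lit 608) (nat_lit 877097184) (nat_lit 76) (nat_lit 6228118357) (nat_lit 145) (nat_lit 5) (nat_lit 153) (nat_lit 5) (nat_lit 146) (nat_lit 5) (nat_lit 264) (nat_lit 248) (nat_lit 208)) (XT.lf (nat_lit 0) (nat_lit 5591204467) (nat_lit 608) (nat_lit 2697134087) (nat_lit 76) (nat_lit 1853645724) (nat_lit 138) (nat_lit 5) (nat_lit 146) (nat_lit 5) (nat_lit 139) (nat_lit 5) (nat_lit 265) (nat_lit 248) (nat_lit 207))))) (XT.nd (nat_lit 234) (nat_lit 912) (nat_lit 0) (XT.nd (nat_lit 78) (nat_lit 1064) (nat_lit 0) (XT.lf (nat_lit 0) (nat_lit 5783977195) (nat_lit 532) (nat_lit 2775850549) (nat_lit 608) (nat_lit 1849347021) (nat_lit 131) (nat_lit 5) (nat_lit 138) (nat_lit 5) (nat_lit 139) (nat_lit 5) (nat_lit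 266) (nat_lit 248) (nat_lit 206)) (XT.nd (nat_lit 78) (nat_lit 456) (nat_lit 0) (XT.lf (nat_lit 0) (nat_lit 983923681) (nat_lit 608) (nat_lit 6677072027) (nat_lit 76) (nat_lit 3028108615) (nat_lit 123) (nat_lit 5) (nat_lit 131) (nat_lit 5) (nat_lit 124) (nat_lit 5) (nat_lit 267) (nat_lit 248) (nat_lit 205)) (XT.lf (nat_lit 0) (nat_lit 2106959327) (nat_lit 456) (nat_lit 1832832354) (nat_lit 532) (nat_lit 7042252127) (nat_lit 117) (nat_lit 5) (nat_lit 123) (nat_lit 5) (nat_lit 124) (nat_lit 5) (nat_lit 268) (nat_lit 248) (nat_lit 204)))) (XT.nd (nat_lit 78) (nat_lit 456) (nat_lit 0) (XT.lf (nat_lit 0) (nat_lit 58304083) (nat_lit 456) (nat_lit 7021658281) (nat_lit 532) (nat_lit 4208704234) (nat_lit 111) (nat_lit 5) (nat_lit 117) (nat_lit 5) (nat_lit 118) (nat_lit 5) (nat_lit 269) (nat_lit 248) (nat_lit 203)) (XT.nd (nat_lit 78) (nat_lit 456) (nat_lit 0) (XT.lf (nat_lit 0) (nat_lit 9524238409)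 (nat_lit 456) (nat_lit 890689090) (nat_lit 532) (nat_lit 1194684795) (nat_lit 111) (nat_lit 5) (nat_lit 117) (nat_lit 5) (nat_lit 118) (nat_lit 5) (nat_lit 270) (nat_lit 248) (nat_lit 202)) (XT.lf (nat_lit 0) (nat_lit 1989208981) (nat_lit 456) (nat_lit 4432967791) (nat_lit 76) (nat_lit 5522247809) (nat_lit 105) (nat_lit 5) (nat_lit 111) (nat_lit 5) (nat_lit 106) (nat_lit 5) (nat_lit 271) (nat_lit 248) (nat_lit 201)))))) (XT.nd (nat_lit 390) (nat_lit 1748) (nat_lit 0) (XT.nd (nat_lit 156) (nat_lit 760) (nat_lit 0) (XT.nd (nat_lit 78) (nat_lit 380) (nat_lit 0) (XT.lf (nat_lit 0) (nat_lit 5323217478) (nat_lit 532) (nat_lit 6954249267) (nat_lit 76) (nat_lit 17797422) (nat_lit 99) (nat_lit 5) (nat_lit 106) (nat_lit 5) (nat_lit 100) (nat_lit 5) (nat_lit 272) (nat_lit 248) (nat_lit 200)) (XT.lf (nat_lit 0) (nat_lit 2948490872) (nat_lit 380) (nat_lit 5950235088) (nat_lit 456) (nat_lit 3762780908)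 (nat_lit 94) (nat_lit 5) (nat_lit 99) (nat_lit 5) (nat_lit 100) (nat_lit 5) (nat_lit 273) (nat_lit 248) (nat_lit 199))) (XT.nd (nat_lit 78) (nat_lit 380) (nat_lit 0) (XT.lf (nat_lit 0) (nat_lit 370196303) (nat_lit 380) (nat_lit 12303097349) (nat_lit 456) (nat_lit 372259656) (nat_lit 89) (nat_lit 5) (nat_lit 94) (nat_lit 5) (nat_lit 95) (nat_lit 5) (nat_lit 274) (nat_lit 248) (nat_lit 198)) (XT.nd (nat_lit 78) (nat_lit 304) (nat_lit 0) (XT.lf (nat_lit 0) (nat_lit 3225933255) (nat_lit 456) (nat_lit 2453461709) (nat_lit 76) (nat_lit 7765569863) (nat_lit 88) (nat_lit 5) (nat_lit 94) (nat_lit 5) (nat_lit 89) (nat_lit 5) (nat_lit 275) (nat_lit 248) (nat_lit 197)) (XT.lf (nat_lit 0) (nat_lit 7031984874) (nat_lit 380) (nat_lit 5510436430) (nat_lit 76) (nat_lit 1320833773) (nat_lit 84) (nat_lit 5) (nat_lit 89) (nat_lit 5) (nat_lit 85) (nat_lit 5) (nat_lit 276) (nat_lit 248) (nat_lit 196))))) (XT.nd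 (nat_lit 234) (nat_lit 988) (nat_lit 0) (XT.nd (nat_lit 78) (nat_lit 380) (nat_lit 0) (XT.lf (nat_lit 0) (nat_lit 5424875766) (nat_lit 380) (nat_lit 5682573710) (nat_lit 456) (nat_lit 3192721016) (nat_lit 79) (nat_lit 5) (nat_lit 84) (nat_lit 5) (nat_lit 85) (nat_lit 5) (nat_lit 277) (nat_lit 248) (nat_lit 195)) (XT.nd (nat_lit 78) (nat_lit 0) (nat_lit 0) (XT.lf (nat_lit 0) (nat_lit 655027378) (nat_lit 380) (nat_lit 12543067464) (nat_lit 76) (nat_lit 1559547797) (nat_lit 74) (nat_lit 5) (nat_lit 79) (nat_lit 5) (nat_lit 75) (nat_lit 5) (nat_lit 278) (nat_lit 248) (nat_lit 194)) (XT.lf (nat_lit 0) (nat_lit 4726641505) (nat_lit 380) (nat_lit 1352244057) (nat_lit 76) (nat_lit 9155303179) (nat_lit 74) (nat_lit 5) (nat_lit 79) (nat_lit 5) (nat_lit 75) (nat_lit 5) (nat_lit 279) (nat_lit 248) (nat_lit 193)))) (XT.nd (nat_lit 78) (nat_lit 684) (nat_lit 0) (XT.lf (nat_lit 0) (nat_lit 9067156980)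 (nat_lit 380) (nat_lit 5211180151) (nat_lit 76) (nat_lit 1454335818) (nat_lit 70) (nat_lit 5) (nat_lit 75) (nat_lit 5) (nat_lit 71) (nat_lit 5) (nat_lit 280) (nat_lit 248) (nat_lit 192)) (XT.nd (nat_lit 78) (nat_lit 380) (nat_lit 0) (XT.lf (nat_lit 0) (nat_lit 6765067517) (nat_lit 304) (nat_lit 6951452437) (nat_lit 380) (nat_lit 2536873830) (nat_lit 66) (nat_lit 5) (nat_lit 70) (nat_lit 5) (nat_lit 71) (nat_lit 5) (nat_lit 281) (nat_lit 248) (nat_lit 191)) (XT.lf (nat_lit 0) (nat_lit 1802898954) (nat_lit 380) (nat_lit 14188944917) (nat_lit 76) (nat_lit 806656603) (nat_lit 61) (nat_lit 5) (nat_lit 66) (nat_lit 5) (nat_lit 62) (nat_lit 5) (nat_lit 282) (nat_lit 248) (nat_lit 190))))))) (XT.nd (nat_lit 858) (nat_lit 1216) (nat_lit 0) (XT.nd (nat_lit 390) (nat_lit 912) (nat_lit 0) (XT.nd (nat_lit 156) (nat_lit 532) (nat_lit 0) (XT.nd (nat_lit 78) (nat_lit 228) (nat_lit 0) (XT.lf (nat_lit 0)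 (nat_lit 6430493274) (nat_lit 380) (nat_lit 2019469367) (nat_lit 76) (nat_lit 8916506409) (nat_lit 61) (nat_lit 5) (nat_lit 66) (nat_lit 5) (nat_lit 62) (nat_lit 5) (nat_lit 283) (nat_lit 248) (nat_lit 189)) (XT.lf (nat_lit 0) (nat_lit 10909058187) (nat_lit 228) (nat_lit 441471671) (nat_lit 304) (nat_lit 6610530568) (nat_lit 58) (nat_lit 5) (nat_lit 61) (nat_lit 5) (nat_lit 62) (nat_lit 5) (nat_lit 284) (nat_lit 248) (nat_lit 188))) (XT.nd (nat_lit 78) (nat_lit 304) (nat_lit 0) (XT.lf (nat_lit 0) (nat_lit 5918494252) (nat_lit 228) (nat_lit 10710075707) (nat_lit 304) (nat_lit 1953504931) (nat_lit 55) (nat_lit 5) (nat_lit 58) (nat_lit 5) (nat_lit 59) (nat_lit 5) (nat_lit 285) (nat_lit 248) (nat_lit 187)) (XT.nd (nat_lit 78) (nat_lit 0) (nat_lit 0) (XT.lf (nat_lit 0) (nat_lit 365892283) (nat_lit 228) (nat_lit 2552984127) (nat_lit 304) (nat_lit 16313272305) (nat_lit 51) (nat_lit 5) (nat_lit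 54) (nat_lit 5) (nat_lit 55) (nat_lit 5) (nat_lit 286) (nat_lit 248) (nat_lit 186)) (XT.lf (nat_lit 0) (nat_lit 8144036123) (nat_lit 304) (nat_lit 5738235102) (nat_lit 76) (nat_lit 6027435106) (nat_lit 51) (nat_lit 5) (nat_lit 55) (nat_lit 5) (nat_lit 52) (nat_lit 5) (nat_lit 287) (nat_lit 248) (nat_lit 185))))) (XT.nd (nat_lit 234) (nat_lit 380) (nat_lit 0) (XT.nd (nat_lit 78) (nat_lit 304) (nat_lit 0) (XT.lf (nat_lit 0) (nat_lit 8121672420) (nat_lit 228) (nat_lit 5574280224) (nat_lit 304) (nat_lit 6923269148) (nat_lit 48) (nat_lit 5) (nat_lit 51) (nat_lit 5) (nat_lit 52) (nat_lit 5) (nat_lit 288) (nat_lit 248) (nat_lit 184)) (XT.nd (nat_lit 78) (nat_lit 76) (nat_lit 0) (XT.lf (nat_lit 0) (nat_lit 1371385695) (nat_lit 228) (nat_lit 18219961540) (nat_lit 304) (nat_lit 1770932110) (nat_lit 45) (nat_lit 5) (nat_lit 48) (nat_lit 5) (nat_lit 49) (nat_lit 5) (nat_lit 289) (nat_lit 248) (nat_lit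 183)) (XT.lf (nat_lit 0) (nat_lit 3717820809) (nat_lit 304) (nat_lit 6091925238) (nat_lit 76) (nat_lit 12327239594) (nat_lit 44) (nat_lit 5) (nat_lit 48) (nat_lit 5) (nat_lit 45) (nat_lit 5) (nat_lit 290) (nat_lit 248) (nat_lit 182)))) (XT.nd (nat_lit 78) (nat_lit 152) (nat_lit 0) (XT.lf (nat_lit 0) (nat_lit 8598856862) (nat_lit 228) (nat_lit 893881020) (nat_lit 304) (nat_lit 13455750465) (nat_lit 41) (nat_lit 5) (nat_lit 44) (nat_lit 5) (nat_lit 45) (nat_lit 5) (nat_lit 291) (nat_lit 248) (nat_lit 181)) (XT.nd (nat_lit 78) (nat_lit 0) (nat_lit 0) (XT.lf (nat_lit 0) (nat_lit 222722963) (nat_lit 152) (nat_lit 15446883297) (nat_lit 228) (nat_lit 8127599651) (nat_lit 39) (nat_lit 5) (nat_lit 41) (nat_lit 5) (nat_lit 42) (nat_lit 5) (nat_lit 292) (nat_lit 248) (nat_lit 180)) (XT.lf (nat_lit 0) (nat_lit 15763459253) (nat_lit 152) (nat_lit 6515958268) (nat_lit 228) (nat_lit 2405253026) (nat_lit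 39) (nat_lit 5) (nat_lit 41) (nat_lit 5) (nat_lit 42) (nat_lit 5) (nat_lit 293) (nat_lit 248) (nat_lit 179)))))) (XT.nd (nat_lit 390) (nat_lit 532) (nat_lit 0) (XT.nd (nat_lit 156) (nat_lit 380) (nat_lit 0) (XT.nd (nat_lit 78) (nat_lit 0) (nat_lit 0) (XT.lf (nat_lit 0) (nat_lit 3592415785) (nat_lit 304) (nat_lit 19134911872) (nat_lit 76) (nat_lit 2886387775) (nat_lit 35) (nat_lit 5) (nat_lit 39) (nat_lit 5) (nat_lit 36) (nat_lit 5) (nat_lit 294) (nat_lit 248) (nat_lit 178)) (XT.lf (nat_lit 0) (nat_lit 9968724919) (nat_lit 304) (nat_lit 3890658813) (nat_lit 76) (nat_lit 12725289456) (nat_lit 35) (nat_lit 5) (nat_lit 39) (nat_lit 5) (nat_lit 36) (nat_lit 5) (nat_lit 295) (nat_lit 248) (nat_lit 177))) (XT.nd (nat_lit 78) (nat_lit 228) (nat_lit 0) (XT.lf (nat_lit 0) (nat_lit 12309830940) (nat_lit 152) (nat_lit 4443325699) (nat_lit 228) (nat_lit 10848371644) (nat_lit 33) (nat_lit 5) (nat_lit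 35) (nat_lit 5) (nat_lit 36) (nat_lit 5) (nat_lit 296) (nat_lit 248) (nat_lit 176)) (XT.nd (nat_lit 78) (nat_lit 76) (nat_lit 0) (XT.lf (nat_lit 0) (nat_lit 647975840) (nat_lit 152) (nat_lit 23299603781) (nat_lit 228) (nat_lit 4719550719) (nat_lit 31) (nat_lit 5) (nat_lit 33) (nat_lit 5) (nat_lit 34) (nat_lit 5) (nat_lit 297) (nat_lit 248) (nat_lit 175)) (XT.lf (nat_lit 0) (nat_lit 1858442124) (nat_lit 228) (nat_lit 12184842241) (nat_lit 76) (nat_lit 15736972284) (nat_lit 30) (nat_lit 5) (nat_lit 33) (nat_lit 5) (nat_lit 31) (nat_lit 5) (nat_lit 298) (nat_lit 248) (nat_lit 174))))) (XT.nd (nat_lit 234) (nat_lit 228) (nat_lit 0) (XT.nd (nat_lit 78) (nat_lit 152) (nat_lit 0) (XT.lf (nat_lit 0) (nat_lit 4437437817) (nat_lit 152) (nat_lit 4247556644) (nat_lit 228) (nat_lit 22262148982) (nat_lit 28) (nat_lit 5) (nat_lit 30) (nat_lit 5) (nat_lit 31) (nat_lit 5) (nat_lit 299) (nat_lit 248) (nat_lit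 173)) (XT.nd (nat_lit 78) (nat_lit 152) (nat_lit 0) (XT.lf (nat_lit 0) (nat_lit 16011993034) (nat_lit 228) (nat_lit 10124545383) (nat_lit 76) (nat_lit 6031085496) (nat_lit 28) (nat_lit 5) (nat_lit 31) (nat_lit 5) (nat_lit 29) (nat_lit 5) (nat_lit 300) (nat_lit 248) (nat_lit 172)) (XT.lf (nat_lit 0) (nat_lit 7136147895) (nat_lit 152) (nat_lit 16656285112) (nat_lit 228) (nat_lit 9654104460) (nat_lit 26) (nat_lit 5) (nat_lit 28) (nat_lit 5) (nat_lit 29) (nat_lit 5) (nat_lit 301) (nat_lit 248) (nat_lit 171)))) (XT.nd (nat_lit 78) (nat_lit 228) (nat_lit 0) (XT.lf (nat_lit 0) (nat_lit 25432493362) (nat_lit 152) (nat_lit 6610034062) (nat_lit 228) (nat_lit 2744471065) (nat_lit 26) (nat_lit 5) (nat_lit 28) (nat_lit 5) (nat_lit 29) (nat_lit 5) (nat_lit 302) (nat_lit 248) (nat_lit 170)) (XT.nd (nat_lit 78) (nat_lit 0) (nat_lit 0) (XT.lf (nat_lit 0) (nat_lit 4520915676) (nat_lit 228) (nat_lit 27695592220)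 (nat_lit 76) (nat_lit 3973744379) (nat_lit 23) (nat_lit 5) (nat_lit 26) (nat_lit 5) (nat_lit 24) (nat_lit 5) (nat_lit 303) (nat_lit 248) (nat_lit 169)) (XT.lf (nat_lit 0) (nat_lit 12235187758) (nat_lit 228) (nat_lit 10361418376) (nat_lit 76) (nat_lit 15061994437) (nat_lit 23) (nat_lit 5) (nat_lit 26) (nat_lit 5) (nat_lit 24) (nat_lit 5) (nat_lit 304) (nat_lit 248) (nat_lit 168))))))))
noncomputable def xc67 : XT := (XT.nd (nat_lit 1716) (nat_lit 76) (nat_lit 0) (XT.nd (nat_lit 858) (nat_lit 304) (nat_lit 0) (XT.nd (nat_lit 390) (nat_lit 456) (nat_lit 0) (XT.nd (nat_lit 156) (nat_lit 152) (nat_lit 0) (XT.nd (nat_lit 78) (nat_lit 0) (nat_lit 0) (XT.lf (nat_lit 0) (nat_lit 7959513465) (nat_lit 152) (nat_lit 12431106702) (nat_lit 228) (nat_lit 18808100128) (nat_lit 21) (nat_lit 5) (nat_lit 23) (nat_lit 5) (nat_lit 24) (nat_lit 5) (nat_lit 305) (nat_lit 248) (nat_lit 167)) (XT.lf (nat_lit 0)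 (nat_lit 27378756591) (nat_lit 152) (nat_lit 1661338059) (nat_lit 228) (nat_lit 11773179828) (nat_lit 21) (nat_lit 5) (nat_lit 23) (nat_lit 5) (nat_lit 24) (nat_lit 5) (nat_lit 306) (nat_lit 248) (nat_lit 166))) (XT.nd (nat_lit 78) (nat_lit 76) (nat_lit 0) (XT.lf (nat_lit 0) (nat_lit 5236762950) (nat_lit 76) (nat_lit 33008803813) (nat_lit 152) (nat_lit 4259299687) (nat_lit 20) (nat_lit 5) (nat_lit 21) (nat_lit 5) (nat_lit 22) (nat_lit 4) (nat_lit 307) (nat_lit 248) (nat_lit 165)) (XT.nd (nat_lit 78) (nat_lit 0) (nat_lit 0) (XT.lf (nat_lit 0) (nat_lit 3696741289) (nat_lit 152) (nat_lit 19240118453) (nat_lit 76) (nat_lit 21339026796) (nat_lit 19) (nat_lit 5) (nat_lit 21) (nat_lit 5) (nat_lit 20) (nat_lit 5) (nat_lit 308) (nat_lit 248) (nat_lit 164)) (XT.lf (nat_lit 0) (nat_lit 11945097649) (nat_lit 152) (nat_lit 384719619) (nat_lit 76) (nat_lit 33804911069) (nat_lit 19) (nat_lit 5) (nat_lit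 21) (nat_lit 5) (nat_lit 20) (nat_lit 5) (nat_lit 309) (nat_lit 248) (nat_lit 163))))) (XT.nd (nat_lit 234) (nat_lit 228) (nat_lit 0) (XT.nd (nat_lit 78) (nat_lit 76) (nat_lit 0) (XT.lf (nat_lit 0) (nat_lit 19769708013) (nat_lit 152) (nat_lit 1008853127) (nat_lit 228) (nat_lit 27302783654) (nat_lit 17) (nat_lit 5) (nat_lit 19) (nat_lit 5) (nat_lit 20) (nat_lit 5) (nat_lit 310) (nat_lit 248) (nat_lit 162)) (XT.nd (nat_lit 78) (nat_lit 76) (nat_lit 0) (XT.lf (nat_lit 0) (nat_lit 30145352058) (nat_lit 228) (nat_lit 9318959082) (nat_lit 76) (nat_lit 10658243924) (nat_lit 17) (nat_lit 5) (nat_lit 20) (nat_lit 5) (nat_lit 18) (nat_lit 4) (nat_lit 311) (nat_lit 248) (nat_lit 161)) (XT.lf (nat_lit 0) (nat_lit 10796150619) (nat_lit 76) (nat_lit 29282186248) (nat_lit 152) (nat_lit 12184565365) (nat_lit 16) (nat_lit 5) (nat_lit 17) (nat_lit 5) (nat_lit 18) (nat_lit 4) (nat_lit 312) (nat_lit 248) (nat_lit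 160)))) (XT.nd (nat_lit 78) (nat_lit 228) (nat_lit 0) (XT.lf (nat_lit 0) (nat_lit 32084857334) (nat_lit 76) (nat_lit 18503445057) (nat_lit 152) (nat_lit 3919565870) (nat_lit 16) (nat_lit 5) (nat_lit 17) (nat_lit 5) (nat_lit 18) (nat_lit 4) (nat_lit 313) (nat_lit 248) (nat_lit 159)) (XT.nd (nat_lit 78) (nat_lit 152) (nat_lit 0) (XT.lf (nat_lit 0) (nat_lit 4650810585) (nat_lit 152) (nat_lit 2498752458) (nat_lit 76) (nat_lit 49714608247) (nat_lit 15) (nat_lit 5) (nat_lit 17) (nat_lit 5) (nat_lit 16) (nat_lit 5) (nat_lit 314) (nat_lit 248) (nat_lit 158)) (XT.lf (nat_lit 0) (nat_lit 13783018166) (nat_lit 228) (nat_lit 40657271591) (nat_lit 76) (nat_lit 4890414314) (nat_lit 13) (nat_lit 5) (nat_lit 16) (nat_lit 5) (nat_lit 14) (nat_lit 4) (nat_lit 315) (nat_lit 248) (nat_lit 157)))))) (XT.nd (nat_lit 390) (nat_lit 228) (nat_lit 0) (XT.nd (nat_lit 156) (nat_lit 76) (nat_lit 0) (XT.nd (nat_lit 78)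 (nat_lit 0) (nat_lit 0) (XT.lf (nat_lit 0) (nat_lit 23456029460) (nat_lit 228) (nat_lit 21060076698) (nat_lit 76) (nat_lit 17401941133) (nat_lit 13) (nat_lit 5) (nat_lit 16) (nat_lit 5) (nat_lit 14) (nat_lit 4) (nat_lit 316) (nat_lit 248) (nat_lit 156)) (XT.lf (nat_lit 0) (nat_lit 33599409348) (nat_lit 228) (nat_lit 506175557) (nat_lit 76) (nat_lit 30529580367) (nat_lit 13) (nat_lit 5) (nat_lit 16) (nat_lit 5) (nat_lit 14) (nat_lit 4) (nat_lit 317) (nat_lit 248) (nat_lit 155))) (XT.nd (nat_lit 78) (nat_lit 0) (nat_lit 0) (XT.lf (nat_lit 0) (nat_lit 21472373030) (nat_lit 76) (nat_lit 22971341289) (nat_lit 152) (nat_lit 23038620855) (nat_lit 12) (nat_lit 5) (nat_lit 13) (nat_lit 5) (nat_lit 14) (nat_lit 4) (nat_lit 318) (nat_lit 248) (nat_lit 154)) (XT.nd (nat_lit 78) (nat_lit 0) (nat_lit 0) (XT.lf (nat_lit 0) (nat_lit 44539007763) (nat_lit 76) (nat_lit 11284184377) (nat_lit 152) (nat_lit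 14648890995) (nat_lit 12) (nat_lit 5) (nat_lit 13) (nat_lit 5) (nat_lit 14) (nat_lit 4) (nat_lit 319) (nat_lit 248) (nat_lit 153)) (XT.lf (nat_lit 0) (nat_lit 67769381212) (nat_lit 152) (nat_lit 4882508074) (nat_lit 0) (nat_lit 959504984) (nat_lit 12) (nat_lit 5) (nat_lit 14) (nat_lit 4) (nat_lit 12) (nat_lit 4) (nat_lit 320) (nat_lit 248) (nat_lit 152))))) (XT.nd (nat_lit 234) (nat_lit 76) (nat_lit 0) (XT.nd (nat_lit 78) (nat_lit 0) (nat_lit 0) (XT.lf (nat_lit 0) (nat_lit 3611648846) (nat_lit 152) (nat_lit 59507910283) (nat_lit 76) (nat_lit 13778950508) (nat_lit 10) (nat_lit 5) (nat_lit 12) (nat_lit 5) (nat_lit 11) (nat_lit 4) (nat_lit 321) (nat_lit 248) (nat_lit 151)) (XT.nd (nat_lit 78) (nat_lit 0) (nat_lit 0) (XT.lf (nat_lit 0) (nat_lit 13458094975) (nat_lit 152) (nat_lit 39547892463) (nat_lit 76) (nat_lit 27341037347) (nat_lit 10) (nat_lit 5) (nat_lit 12) (nat_lit 5) (nat_lit 11) (nat_lit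 4) (nat_lit 322) (nat_lit 248) (nat_lit 150)) (XT.lf (nat_lit 0) (nat_lit 23786426299) (nat_lit 152) (nat_lit 18608301610) (nat_lit 76) (nat_lit 41573557517) (nat_lit 10) (nat_lit 5) (nat_lit 12) (nat_lit 5) (nat_lit 11) (nat_lit 4) (nat_lit 323) (nat_lit 248) (nat_lit 149)))) (XT.nd (nat_lit 78) (nat_lit 0) (nat_lit 0) (XT.lf (nat_lit 0) (nat_lit 3427603331) (nat_lit 76) (nat_lit 31226578972) (nat_lit 152) (nat_lit 53115742860) (nat_lit 9) (nat_lit 5) (nat_lit 10) (nat_lit 5) (nat_lit 11) (nat_lit 4) (nat_lit 324) (nat_lit 248) (nat_lit 148)) (XT.nd (nat_lit 78) (nat_lit 0) (nat_lit 0) (XT.lf (nat_lit 0) (nat_lit 26937115030) (nat_lit 76) (nat_lit 19310136488) (nat_lit 152) (nat_lit 45508943614) (nat_lit 9) (nat_lit 5) (nat_lit 10) (nat_lit 5) (nat_lit 11) (nat_lit 4) (nat_lit 325) (nat_lit 248) (nat_lit 147)) (XT.lf (nat_lit 0) (nat_lit 51605866825) (nat_lit 76) (nat_lit 6804935335) (nat_lit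 152) (nat_lit 37531257322) (nat_lit 9) (nat_lit 5) (nat_lit 10) (nat_lit 5) (nat_lit 11) (nat_lit 4) (nat_lit 326) (nat_lit 248) (nat_lit 146))))))) (XT.nd (nat_lit 31980) (nat_lit 0) (nat_lit 9272) (XT.nd (nat_lit 31512) (nat_lit 0) (nat_lit 15732) (XT.nd (nat_lit 156) (nat_lit 76) (nat_lit 0) (XT.nd (nat_lit 78) (nat_lit 0) (nat_lit 0) (XT.lf (nat_lit 0) (nat_lit 71234535222) (nat_lit 152) (nat_lit 22905630875) (nat_lit 0) (nat_lit 6195496253) (nat_lit 9) (nat_lit 5) (nat_lit 11) (nat_lit 4) (nat_lit 9) (nat_lit 4) (nat_lit 327) (nat_lit 248) (nat_lit 145)) (XT.lf (nat_lit 0) (nat_lit 84759757908) (nat_lit 152) (nat_lit 487144115) (nat_lit 0) (nat_lit 19700239439) (nat_lit 9) (nat_lit 5) (nat_lit 11) (nat_lit 4) (nat_lit 9) (nat_lit 4) (nat_lit 328) (nat_lit 248) (nat_lit 144))) (XT.nd (nat_lit 78) (nat_lit 0) (nat_lit 0) (XT.lf (nat_lit 0) (nat_lit 23496560704) (nat_lit 76) (nat_lit 75682562537)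 (nat_lit 76) (nat_lit 10603539784) (nat_lit 8) (nat_lit 4) (nat_lit 9) (nat_lit 5) (nat_lit 9) (nat_lit 4) (nat_lit 329) (nat_lit 248) (nat_lit 143)) (XT.nd (nat_lit 31200) (nat_lit 0) (nat_lit 16492) (XT.lf (nat_lit 0) (nat_lit 48675829128) (nat_lit 76) (nat_lit 65640908049) (nat_lit 76) (nat_lit 543309786) (nat_lit 8) (nat_lit 4) (nat_lit 9) (nat_lit 5) (nat_lit 9) (nat_lit 4) (nat_lit 330) (nat_lit 248) (nat_lit 142)) (XT.lf (nat_lit 0) (nat_lit 723128198) (nat_lit 836) (nat_lit 1491141193) (nat_lit 836) (nat_lit 1491141193) (nat_lit 225) (nat_lit 3) (nat_lit 236) (nat_lit 3) (nat_lit 236) (nat_lit 5) (nat_lit 249) (nat_lit 249) (nat_lit 222))))) (XT.nd (nat_lit 234) (nat_lit 0) (nat_lit 76) (XT.nd (nat_lit 78) (nat_lit 760) (nat_lit 0) (XT.lf (nat_lit 76) (nat_lit 2457552123) (nat_lit 0) (nat_lit 1314806622) (nat_lit 836) (nat_lit 3749571582) (nat_lit 226) (nat_lit 5) (nat_lit 225) (nat_lit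 3) (nat_lit 236) (nat_lit 5) (nat_lit 250) (nat_lit 249) (nat_lit 221)) (XT.nd (nat_lit 78) (nat_lit 836) (nat_lit 0) (XT.lf (nat_lit 76) (nat_lit 502978241) (nat_lit 0) (nat_lit 5621276023) (nat_lit 836) (nat_lit 1517405737) (nat_lit 227) (nat_lit 5) (nat_lit 226) (nat_lit 5) (nat_lit 237) (nat_lit 5) (nat_lit 251) (nat_lit 249) (nat_lit 220)) (XT.lf (nat_lit 0) (nat_lit 735468604) (nat_lit 836) (nat_lit 1415558113) (nat_lit 912) (nat_lit 5618677713) (nat_lit 215) (nat_lit 5) (nat_lit 226) (nat_lit 5) (nat_lit 227) (nat_lit 5) (nat_lit 252) (nat_lit 249) (nat_lit 219)))) (XT.nd (nat_lit 78) (nat_lit 0) (nat_lit 0) (XT.lf (nat_lit 0) (nat_lit 2995486737) (nat_lit 836) (nat_lit 3332822773) (nat_lit 912) (nat_lit 1577922334) (nat_lit 216) (nat_lit 5) (nat_lit 227) (nat_lit 5) (nat_lit 228) (nat_lit 5) (nat_lit 253) (nat_lit 249) (nat_lit 218)) (XT.nd (nat_lit 78) (nat_lit 0) (nat_lit 76) (XT.lf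 (nat_lit 76) (nat_lit 2793913694) (nat_lit 0) (nat_lit 2510027496) (nat_lit 912) (nat_lit 2747874663) (nat_lit 217) (nat_lit 5) (nat_lit 216) (nat_lit 5) (nat_lit 228) (nat_lit 5) (nat_lit 254) (nat_lit 249) (nat_lit 217)) (XT.lf (nat_lit 76) (nat_lit 1014976867) (nat_lit 0) (nat_lit 6649561712) (nat_lit 912) (nat_lit 542318194) (nat_lit 218) (nat_lit 5) (nat_lit 217) (nat_lit 5) (nat_lit 229) (nat_lit 5) (nat_lit 255) (nat_lit 249) (nat_lit 216)))))) (XT.nd (nat_lit 468) (nat_lit 3876) (nat_lit 0) (XT.nd (nat_lit 234) (nat_lit 1824) (nat_lit 0) (XT.nd (nat_lit 78) (nat_lit 0) (nat_lit 76) (XT.lf (nat_lit 0) (nat_lit 1700427345) (nat_lit 912) (nat_lit 782866762) (nat_lit 988) (nat_lit 5887256893) (nat_lit 205) (nat_lit 5) (nat_lit 217) (nat_lit 5) (nat_lit 218) (nat_lit 5) (nat_lit 256) (nat_lit 249) (nat_lit 215)) (XT.nd (nat_lit 78) (nat_lit 0) (nat_lit 0) (XT.lf (nat_lit 0) (nat_lit 4007957483)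 (nat_lit 912) (nat_lit 2584844155) (nat_lit 988) (nat_lit 1950797287) (nat_lit 206) (nat_lit 5) (nat_lit 218) (nat_lit 5) (nat_lit 219) (nat_lit 5) (nat_lit 257) (nat_lit 249) (nat_lit 214)) (XT.lf (nat_lit 76) (nat_lit 4306820611) (nat_lit 0) (nat_lit 2090743302) (nat_lit 988) (nat_lit 2328968600) (nat_lit 207) (nat_lit 5) (nat_lit 206) (nat_lit 5) (nat_lit 219) (nat_lit 5) (nat_lit 258) (nat_lit 249) (nat_lit 213)))) (XT.nd (nat_lit 78) (nat_lit 1064) (nat_lit 0) (XT.lf (nat_lit 0) (nat_lit 2622754745) (nat_lit 912) (nat_lit 6258043030) (nat_lit 988) (nat_lit 38813695) (nat_lit 195) (nat_lit 5) (nat_lit 207) (nat_lit 5) (nat_lit 208) (nat_lit 5) (nat_lit 259) (nat_lit 249) (nat_lit 212)) (XT.nd (nat_lit 78) (nat_lit 0) (nat_lit 0) (XT.lf (nat_lit 0) (nat_lit 879656843) (nat_lit 988) (nat_lit 1415213948) (nat_lit 1064) (nat_lit 6827741973) (nat_lit 181) (nat_lit 5) (nat_lit 194) (nat_lit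 5) (nat_lit 195) (nat_lit 5) (nat_lit 260) (nat_lit 249) (nat_lit 211)) (XT.lf (nat_lit 0) (nat_lit 4749037608) (nat_lit 1064) (nat_lit 906382550) (nat_lit 76) (nat_lit 3680390878) (nat_lit 181) (nat_lit 5) (nat_lit 195) (nat_lit 5) (nat_lit 182) (nat_lit 5) (nat_lit 261) (nat_lit 249) (nat_lit 210))))) (XT.nd (nat_lit 234) (nat_lit 1140) (nat_lit 0) (XT.nd (nat_lit 78) (nat_lit 1672) (nat_lit 0) (XT.lf (nat_lit 0) (nat_lit 6837264153) (nat_lit 1064) (nat_lit 477090057) (nat_lit 1140) (nat_lit 2245848881) (nat_lit 167) (nat_lit 5) (nat_lit 181) (nat_lit 5) (nat_lit 182) (nat_lit 5) (nat_lit 262) (nat_lit 249) (nat_lit 209)) (XT.nd (nat_lit 78) (nat_lit 532) (nat_lit 0) (XT.lf (nat_lit 0) (nat_lit 226912640) (nat_lit 1140) (nat_lit 4632691204) (nat_lit 76) (nat_lit 4935754844) (nat_lit 152) (nat_lit 5) (nat_lit 167) (nat_lit 5) (nat_lit 153) (nat_lit 5) (nat_lit 263) (nat_lit 249) (nat_lit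 208)) (XT.lf (nat_lit 0) (nat_lit 2764221122) (nat_lit 608) (nat_lit 6630864144) (nat_lit 76) (nat_lit 647063793) (nat_lit 145) (nat_lit 5) (nat_lit 153) (nat_lit 5) (nat_lit 146) (nat_lit 5) (nat_lit 264) (nat_lit 249) (nat_lit 207)))) (XT.nd (nat_lit 78) (nat_lit 608) (nat_lit 0) (XT.lf (nat_lit 0) (nat_lit 1555718418) (nat_lit 532) (nat_lit 3902823091) (nat_lit 608) (nat_lit 4841989973) (nat_lit 138) (nat_lit 5) (nat_lit 145) (nat_lit 5) (nat_lit 146) (nat_lit 5) (nat_lit 265) (nat_lit 249) (nat_lit 206)) (XT.nd (nat_lit 78) (nat_lit 608) (nat_lit 0) (XT.lf (nat_lit 0) (nat_lit 8295590559) (nat_lit 608) (nat_lit 377973453) (nat_lit 76) (nat_lit 1898178088) (nat_lit 138) (nat_lit 5) (nat_lit 146) (nat_lit 5) (nat_lit 139) (nat_lit 5) (nat_lit 266) (nat_lit 249) (nat_lit 205)) (XT.lf (nat_lit 0) (nat_lit 455732816) (nat_lit 608) (nat_lit 2402906124) (nat_lit 76) (nat_lit 7996514655) (nat_lit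 130) (nat_lit 5) (nat_lit 138) (nat_lit 5) (nat_lit 131) (nat_lit 5) (nat_lit 267) (nat_lit 249) (nat_lit 204))))))))
noncomputable def xc68 : XT := (XT.nd (nat_lit 1716) (nat_lit 2356) (nat_lit 0) (XT.nd (nat_lit 858) (nat_lit 2356) (nat_lit 0) (XT.nd (nat_lit 390) (nat_lit 1976) (nat_lit 0) (XT.nd (nat_lit 156) (nat_lit 912) (nat_lit 0) (XT.nd (nat_lit 78) (nat_lit 456) (nat_lit 0) (XT.lf (nat_lit 0) (nat_lit 3304059227) (nat_lit 608) (nat_lit 4574600932) (nat_lit 76) (nat_lit 3272723368) (nat_lit 123) (nat_lit 5) (nat_lit 131) (nat_lit 5) (nat_lit 124) (nat_lit 5) (nat_lit 268) (nat_lit 249) (nat_lit 203)) (XT.lf (nat_lit 0) (nat_lit 4578795231) (nat_lit 456) (nat_lit 1743533556) (nat_lit 532) (nat_lit 5139395708) (nat_lit 117) (nat_lit 5) (nat_lit 123) (nat_lit 5) (nat_lit 124) (nat_lit 5) (nat_lit 269) (nat_lit 249) (nat_lit 202))) (XT.nd (nat_lit 78) (nat_lit 456) (nat_lit 0) (XT.lf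 (nat_lit 0) (nat_lit 2425614420) (nat_lit 456) (nat_lit 7114204391) (nat_lit 532) (nat_lit 2246433865) (nat_lit 111) (nat_lit 5) (nat_lit 117) (nat_lit 5) (nat_lit 118) (nat_lit 5) (nat_lit 270) (nat_lit 249) (nat_lit 201)) (XT.nd (nat_lit 78) (nat_lit 0) (nat_lit 0) (XT.lf (nat_lit 0) (nat_lit 120342075) (nat_lit 380) (nat_lit 679738943) (nat_lit 456) (nat_lit 11326078159) (nat_lit 105) (nat_lit 5) (nat_lit 110) (nat_lit 5) (nat_lit 111) (nat_lit 5) (nat_lit 271) (nat_lit 249) (nat_lit 200)) (XT.lf (nat_lit 0) (nat_lit 4045009739) (nat_lit 456) (nat_lit 2365650545) (nat_lit 76) (nat_lit 6069062152) (nat_lit 105) (nat_lit 5) (nat_lit 111) (nat_lit 5) (nat_lit 106) (nat_lit 5) (nat_lit 272) (nat_lit 249) (nat_lit 199))))) (XT.nd (nat_lit 234) (nat_lit 684) (nat_lit 0) (XT.nd (nat_lit 78) (nat_lit 836) (nat_lit 0) (XT.lf (nat_lit 0) (nat_lit 7477188574) (nat_lit 532) (nat_lit 5022249772) (nat_lit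 76) (nat_lit 350875517) (nat_lit 99) (nat_lit 5) (nat_lit 106) (nat_lit 5) (nat_lit 100) (nat_lit 5) (nat_lit 273) (nat_lit 249) (nat_lit 198)) (XT.nd (nat_lit 78) (nat_lit 456) (nat_lit 0) (XT.lf (nat_lit 0) (nat_lit 5310279888) (nat_lit 380) (nat_lit 5852582693) (nat_lit 456) (nat_lit 2074211044) (nat_lit 94) (nat_lit 5) (nat_lit 99) (nat_lit 5) (nat_lit 100) (nat_lit 5) (nat_lit 274) (nat_lit 249) (nat_lit 197)) (XT.lf (nat_lit 0) (nat_lit 1394259371) (nat_lit 456) (nat_lit 11064219537) (nat_lit 76) (nat_lit 1183428060) (nat_lit 88) (nat_lit 5) (nat_lit 94) (nat_lit 5) (nat_lit 89) (nat_lit 5) (nat_lit 275) (nat_lit 249) (nat_lit 196)))) (XT.nd (nat_lit 78) (nat_lit 684) (nat_lit 0) (XT.lf (nat_lit 0) (nat_lit 5080091515) (nat_lit 456) (nat_lit 441708117) (nat_lit 76) (nat_lit 8542045128) (nat_lit 88) (nat_lit 5) (nat_lit 94) (nat_lit 5) (nat_lit 89) (nat_lit 5) (nat_lit 276) (nat_lit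 249) (nat_lit 195)) (XT.nd (nat_lit 78) (nat_lit 380) (nat_lit 0) (XT.lf (nat_lit 0) (nat_lit 9020002335) (nat_lit 380) (nat_lit 3665529438) (nat_lit 76) (nat_lit 1819334025) (nat_lit 84) (nat_lit 5) (nat_lit 89) (nat_lit 5) (nat_lit 85) (nat_lit 5) (nat_lit 277) (nat_lit 249) (nat_lit 194)) (XT.lf (nat_lit 0) (nat_lit 7755766701) (nat_lit 380) (nat_lit 5485347377) (nat_lit 456) (nat_lit 1724373807) (nat_lit 79) (nat_lit 5) (nat_lit 84) (nat_lit 5) (nat_lit 85) (nat_lit 5) (nat_lit 278) (nat_lit 249) (nat_lit 193)))))) (XT.nd (nat_lit 390) (nat_lit 988) (nat_lit 0) (XT.nd (nat_lit 156) (nat_lit 684) (nat_lit 0) (XT.nd (nat_lit 78) (nat_lit 304) (nat_lit 0) (XT.lf (nat_lit 0) (nat_lit 2232280708) (nat_lit 380) (nat_lit 11092936293) (nat_lit 76) (nat_lit 2121806860) (nat_lit 74) (nat_lit 5) (nat_lit 79) (nat_lit 5) (nat_lit 75) (nat_lit 5) (nat_lit 279) (nat_lit 249) (nat_lit 192)) (XT.lf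 (nat_lit 0) (nat_lit 569625414) (nat_lit 304) (nat_lit 5869778003) (nat_lit 380) (nat_lit 9510139152) (nat_lit 70) (nat_lit 5) (nat_lit 74) (nat_lit 5) (nat_lit 75) (nat_lit 5) (nat_lit 280) (nat_lit 249) (nat_lit 191))) (XT.nd (nat_lit 78) (nat_lit 684) (nat_lit 0) (XT.lf (nat_lit 0) (nat_lit 10944723960) (nat_lit 380) (nat_lit 3510364662) (nat_lit 76) (nat_lit 2019527211) (nat_lit 70) (nat_lit 5) (nat_lit 75) (nat_lit 5) (nat_lit 71) (nat_lit 5) (nat_lit 281) (nat_lit 249) (nat_lit 190)) (XT.nd (nat_lit 78) (nat_lit 380) (nat_lit 0) (XT.lf (nat_lit 0) (nat_lit 9008472984) (nat_lit 304) (nat_lit 6768576104) (nat_lit 380) (nat_lit 1245902348) (nat_lit 66) (nat_lit 5) (nat_lit 70) (nat_lit 5) (nat_lit 71) (nat_lit 5) (nat_lit 282) (nat_lit 249) (nat_lit 189)) (XT.lf (nat_lit 0) (nat_lit 3240222222) (nat_lit 380) (nat_lit 12982386030) (nat_lit 76) (nat_lit 1373671943) (nat_lit 61) (nat_lit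 5) (nat_lit 66) (nat_lit 5) (nat_lit 62) (nat_lit 5) (nat_lit 283) (nat_lit 249) (nat_lit 188))))) (XT.nd (nat_lit 234) (nat_lit 532) (nat_lit 0) (XT.nd (nat_lit 78) (nat_lit 456) (nat_lit 0) (XT.lf (nat_lit 0) (nat_lit 8035044909) (nat_lit 380) (nat_lit 295675090) (nat_lit 76) (nat_lit 9863934121) (nat_lit 61) (nat_lit 5) (nat_lit 66) (nat_lit 5) (nat_lit 62) (nat_lit 5) (nat_lit 284) (nat_lit 249) (nat_lit 187)) (XT.nd (nat_lit 78) (nat_lit 228) (nat_lit 0) (XT.lf (nat_lit 0) (nat_lit 13157697159) (nat_lit 304) (nat_lit 5594075415) (nat_lit 76) (nat_lit 68582532) (nat_lit 58) (nat_lit 5) (nat_lit 62) (nat_lit 5) (nat_lit 59) (nat_lit 5) (nat_lit 285) (nat_lit 249) (nat_lit 186)) (XT.lf (nat_lit 0) (nat_lit 7968719357) (nat_lit 228) (nat_lit 10692996498) (nat_lit 304) (nat_lit 811916860) (nat_lit 55) (nat_lit 5) (nat_lit 58) (nat_lit 5) (nat_lit 59) (nat_lit 5) (nat_lit 286) (nat_lit 249)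 (nat_lit 185)))) (XT.nd (nat_lit 78) (nat_lit 228) (nat_lit 0) (XT.lf (nat_lit 0) (nat_lit 2113099208) (nat_lit 228) (nat_lit 2125560220) (nat_lit 304) (nat_lit 15918499765) (nat_lit 51) (nat_lit 5) (nat_lit 54) (nat_lit 5) (nat_lit 55) (nat_lit 5) (nat_lit 287) (nat_lit 249) (nat_lit 184)) (XT.nd (nat_lit 78) (nat_lit 228) (nat_lit 0) (XT.lf (nat_lit 0) (nat_lit 9674261643) (nat_lit 304) (nat_lit 4348791080) (nat_lit 76) (nat_lit 6847132231) (nat_lit 51) (nat_lit 5) (nat_lit 55) (nat_lit 5) (nat_lit 52) (nat_lit 5) (nat_lit 288) (nat_lit 249) (nat_lit 183)) (XT.lf (nat_lit 0) (nat_lit 10156059416) (nat_lit 228) (nat_lit 5309889502) (nat_lit 304) (nat_lit 6150424686) (nat_lit 48) (nat_lit 5) (nat_lit 51) (nat_lit 5) (nat_lit 52) (nat_lit 5) (nat_lit 289) (nat_lit 249) (nat_lit 182))))))) (XT.nd (nat_lit 858) (nat_lit 836) (nat_lit 0) (XT.nd (nat_lit 390) (nat_lit 836) (nat_lit 0) (XT.nd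 (nat_lit 156) (nat_lit 380) (nat_lit 0) (XT.nd (nat_lit 78) (nat_lit 76) (nat_lit 0) (XT.lf (nat_lit 0) (nat_lit 3049352501) (nat_lit 228) (nat_lit 18575527178) (nat_lit 304) (nat_lit 772701045) (nat_lit 45) (nat_lit 5) (nat_lit 48) (nat_lit 5) (nat_lit 49) (nat_lit 5) (nat_lit 290) (nat_lit 249) (nat_lit 181)) (XT.lf (nat_lit 0) (nat_lit 4918541110) (nat_lit 304) (nat_lit 4842461179) (nat_lit 76) (nat_lit 13451284071) (nat_lit 44) (nat_lit 5) (nat_lit 48) (nat_lit 5) (nat_lit 45) (nat_lit 5) (nat_lit 291) (nat_lit 249) (nat_lit 180))) (XT.nd (nat_lit 78) (nat_lit 152) (nat_lit 0) (XT.lf (nat_lit 0) (nat_lit 10538313199) (nat_lit 228) (nat_lit 410076002) (nat_lit 304) (nat_lit 13117042002) (nat_lit 41) (nat_lit 5) (nat_lit 44) (nat_lit 5) (nat_lit 45) (nat_lit 5) (nat_lit 292) (nat_lit 249) (nat_lit 179)) (XT.nd (nat_lit 78) (nat_lit 0) (nat_lit 0) (XT.lf (nat_lit 0) (nat_lit 1724775886)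 (nat_lit 152) (nat_lit 15681780083) (nat_lit 228) (nat_lit 7550905081) (nat_lit 39) (nat_lit 5) (nat_lit 41) (nat_lit 5) (nat_lit 42) (nat_lit 5) (nat_lit 293) (nat_lit 249) (nat_lit 178)) (XT.lf (nat_lit 0) (nat_lit 17971552953) (nat_lit 152) (nat_lit 6329901535) (nat_lit 228) (nat_lit 1589254199) (nat_lit 39) (nat_lit 5) (nat_lit 41) (nat_lit 5) (nat_lit 42) (nat_lit 5) (nat_lit 294) (nat_lit 249) (nat_lit 177))))) (XT.nd (nat_lit 234) (nat_lit 380) (nat_lit 0) (XT.nd (nat_lit 78) (nat_lit 152) (nat_lit 0) (XT.lf (nat_lit 0) (nat_lit 4664655325) (nat_lit 304) (nat_lit 18671184099) (nat_lit 76) (nat_lit 3530901659) (nat_lit 35) (nat_lit 5) (nat_lit 39) (nat_lit 5) (nat_lit 36) (nat_lit 5) (nat_lit 295) (nat_lit 249) (nat_lit 176)) (XT.nd (nat_lit 78) (nat_lit 152) (nat_lit 0) (XT.lf (nat_lit 0) (nat_lit 11317274261) (nat_lit 304) (nat_lit 2732359976) (nat_lit 76) (nat_lit 13837929639) (nat_lit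 35) (nat_lit 5) (nat_lit 39) (nat_lit 5) (nat_lit 36) (nat_lit 5) (nat_lit 296) (nat_lit 249) (nat_lit 175)) (XT.lf (nat_lit 0) (nat_lit 14239375613) (nat_lit 152) (nat_lit 4173701860) (nat_lit 228) (nat_lit 10543059735) (nat_lit 33) (nat_lit 5) (nat_lit 35) (nat_lit 5) (nat_lit 36) (nat_lit 5) (nat_lit 297) (nat_lit 249) (nat_lit 174)))) (XT.nd (nat_lit 78) (nat_lit 228) (nat_lit 0) (XT.lf (nat_lit 0) (nat_lit 1976906279) (nat_lit 152) (nat_lit 23968125273) (nat_lit 228) (nat_lit 4130691593) (nat_lit 31) (nat_lit 5) (nat_lit 33) (nat_lit 5) (nat_lit 34) (nat_lit 5) (nat_lit 298) (nat_lit 249) (nat_lit 173)) (XT.nd (nat_lit 78) (nat_lit 152) (nat_lit 0) (XT.lf (nat_lit 0) (nat_lit 2721593875) (nat_lit 228) (nat_lit 11543259092) (nat_lit 76) (nat_lit 16980605489) (nat_lit 30) (nat_lit 5) (nat_lit 33) (nat_lit 5) (nat_lit 31) (nat_lit 5) (nat_lit 299) (nat_lit 249) (nat_lit 172)) (XT.lf (nat_lit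 0) (nat_lit 5874280314) (nat_lit 152) (nat_lit 3990194953) (nat_lit 228) (nat_lit 22606997810) (nat_lit 28) (nat_lit 5) (nat_lit 30) (nat_lit 5) (nat_lit 31) (nat_lit 5) (nat_lit 300) (nat_lit 249) (nat_lit 171)))))) (XT.nd (nat_lit 390) (nat_lit 456) (nat_lit 0) (XT.nd (nat_lit 156) (nat_lit 228) (nat_lit 0) (XT.nd (nat_lit 78) (nat_lit 152) (nat_lit 0) (XT.lf (nat_lit 0) (nat_lit 17526636979) (nat_lit 228) (nat_lit 9456027204) (nat_lit 76) (nat_lit 6771280925) (nat_lit 28) (nat_lit 5) (nat_lit 31) (nat_lit 5) (nat_lit 29) (nat_lit 5) (nat_lit 301) (nat_lit 249) (nat_lit 170)) (XT.lf (nat_lit 0) (nat_lit 8634026895) (nat_lit 152) (nat_lit 17039038623) (nat_lit 228) (nat_lit 9424460236) (nat_lit 26) (nat_lit 5) (nat_lit 28) (nat_lit 5) (nat_lit 29) (nat_lit 5) (nat_lit 302) (nat_lit 249) (nat_lit 169))) (XT.nd (nat_lit 78) (nat_lit 228) (nat_lit 0) (XT.lf (nat_lit 0) (nat_lit 27790852893)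 (nat_lit 152) (nat_lit 6511906485) (nat_lit 228) (nat_lit 2203266574) (nat_lit 26) (nat_lit 5) (nat_lit 28) (nat_lit 5) (nat_lit 29) (nat_lit 5) (nat_lit 303) (nat_lit 249) (nat_lit 168)) (XT.nd (nat_lit 78) (nat_lit 0) (nat_lit 0) (XT.lf (nat_lit 0) (nat_lit 5394838298) (nat_lit 228) (nat_lit 27995620564) (nat_lit 76) (nat_lit 4589334082) (nat_lit 23) (nat_lit 5) (nat_lit 26) (nat_lit 5) (nat_lit 24) (nat_lit 5) (nat_lit 304) (nat_lit 249) (nat_lit 167)) (XT.lf (nat_lit 0) (nat_lit 13463972706) (nat_lit 228) (nat_lit 9846392851) (nat_lit 76) (nat_lit 16212144143) (nat_lit 23) (nat_lit 5) (nat_lit 26) (nat_lit 5) (nat_lit 24) (nat_lit 5) (nat_lit 305) (nat_lit 249) (nat_lit 166))))) (XT.nd (nat_lit 234) (nat_lit 228) (nat_lit 0) (XT.nd (nat_lit 78) (nat_lit 76) (nat_lit 0) (XT.lf (nat_lit 0) (nat_lit 9360972081) (nat_lit 152) (nat_lit 12646468577) (nat_lit 228) (nat_lit 19132811126) (nat_lit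 21) (nat_lit 5) (nat_lit 23) (nat_lit 5) (nat_lit 24) (nat_lit 5) (nat_lit 306) (nat_lit 249) (nat_lit 165)) (XT.nd (nat_lit 78) (nat_lit 76) (nat_lit 0) (XT.lf (nat_lit 0) (nat_lit 29703392461) (nat_lit 152) (nat_lit 1357554048) (nat_lit 228) (nat_lit 11775463574) (nat_lit 21) (nat_lit 5) (nat_lit 23) (nat_lit 5) (nat_lit 24) (nat_lit 5) (nat_lit 307) (nat_lit 249) (nat_lit 164)) (XT.lf (nat_lit 0) (nat_lit 6440317871) (nat_lit 76) (nat_lit 34271880325) (nat_lit 152) (nat_lit 3900840312) (nat_lit 20) (nat_lit 5) (nat_lit 21) (nat_lit 5) (nat_lit 22) (nat_lit 4) (nat_lit 308) (nat_lit 249) (nat_lit 163)))) (XT.nd (nat_lit 78) (nat_lit 152) (nat_lit 0) (XT.lf (nat_lit 0) (nat_lit 4415172460) (nat_lit 152) (nat_lit 19294224225) (nat_lit 76) (nat_lit 22763868893) (nat_lit 19) (nat_lit 5) (nat_lit 21) (nat_lit 5) (nat_lit 20) (nat_lit 5) (nat_lit 309) (nat_lit 249) (nat_lit 162)) (XT.nd (nat_lit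 78) (nat_lit 0) (nat_lit 0) (XT.lf (nat_lit 0) (nat_lit 469880266) (nat_lit 152) (nat_lit 12585173905) (nat_lit 228) (nat_lit 35370641473) (nat_lit 17) (nat_lit 5) (nat_lit 19) (nat_lit 5) (nat_lit 20) (nat_lit 5) (nat_lit 310) (nat_lit 249) (nat_lit 161)) (XT.lf (nat_lit 0) (nat_lit 21598074723) (nat_lit 152) (nat_lit 711473511) (nat_lit 228) (nat_lit 28160732446) (nat_lit 17) (nat_lit 5) (nat_lit 19) (nat_lit 5) (nat_lit 20) (nat_lit 5) (nat_lit 311) (nat_lit 249) (nat_lit 160))))))))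
noncomputable def xc69 : XT := (XT.nd (nat_lit 32916) (nat_lit 0) (nat_lit 6536) (XT.nd (nat_lit 858) (nat_lit 152) (nat_lit 0) (XT.nd (nat_lit 390) (nat_lit 228) (nat_lit 0) (XT.nd (nat_lit 156) (nat_lit 228) (nat_lit 0) (XT.nd (nat_lit 78) (nat_lit 76) (nat_lit 0) (XT.lf (nat_lit 0) (nat_lit 32124431583) (nat_lit 228) (nat_lit 8973793529) (nat_lit 76) (nat_lit 11515951364) (nat_lit 17) (nat_lit 5) (nat_lit 20) (nat_lit 5) (nat_lit 18) (nat_lit 4) (nat_lit 312) (nat_lit 249) (nat_lit 159)) (XT.lf (nat_lit 0) (nat_lit 12123821251) (nat_lit 76) (nat_lit 30415350569) (nat_lit 152) (nat_lit 12322832759) (nat_lit 16) (nat_lit 5) (nat_lit 17) (nat_lit 5) (nat_lit 18) (nat_lit 4) (nat_lit 313) (nat_lit 249) (nat_lit 158))) (XT.nd (nat_lit 78) (nat_lit 228) (nat_lit 0) (XT.lf (nat_lit 0) (nat_lit 34439446011) (nat_lit 76) (nat_lit 19113431604) (nat_lit 152) (nat_lit 3667009998) (nat_lit 16) (nat_lit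 5) (nat_lit 17) (nat_lit 5) (nat_lit 18) (nat_lit 4) (nat_lit 314) (nat_lit 249) (nat_lit 157)) (XT.nd (nat_lit 78) (nat_lit 152) (nat_lit 0) (XT.lf (nat_lit 0) (nat_lit 5302190780) (nat_lit 152) (nat_lit 1900444093) (nat_lit 76) (nat_lit 52491884591) (nat_lit 15) (nat_lit 5) (nat_lit 17) (nat_lit 5) (nat_lit 16) (nat_lit 5) (nat_lit 315) (nat_lit 249) (nat_lit 156)) (XT.lf (nat_lit 0) (nat_lit 14880670652) (nat_lit 228) (nat_lit 41978023966) (nat_lit 76) (nat_lit 5426008467) (nat_lit 13) (nat_lit 5) (nat_lit 16) (nat_lit 5) (nat_lit 14) (nat_lit 4) (nat_lit 316) (nat_lit 249) (nat_lit 155))))) (XT.nd (nat_lit 234) (nat_lit 152) (nat_lit 0) (XT.nd (nat_lit 78) (nat_lit 76) (nat_lit 0) (XT.lf (nat_lit 0) (nat_lit 25017880055) (nat_lit 228) (nat_lit 21434879385) (nat_lit 76) (nat_lit 18549250988) (nat_lit 13) (nat_lit 5) (nat_lit 16) (nat_lit 5) (nat_lit 14) (nat_lit 4) (nat_lit 317) (nat_lit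 249) (nat_lit 154)) (XT.nd (nat_lit 78) (nat_lit 0) (nat_lit 0) (XT.lf (nat_lit 0) (nat_lit 116698732) (nat_lit 76) (nat_lit 35534325835) (nat_lit 152) (nat_lit 32204494621) (nat_lit 12) (nat_lit 5) (nat_lit 13) (nat_lit 5) (nat_lit 14) (nat_lit 4) (nat_lit 318) (nat_lit 249) (nat_lit 153)) (XT.lf (nat_lit 0) (nat_lit 23173382775) (nat_lit 76) (nat_lit 23851427149) (nat_lit 152) (nat_lit 23820631851) (nat_lit 12) (nat_lit 5) (nat_lit 13) (nat_lit 5) (nat_lit 14) (nat_lit 4) (nat_lit 319) (nat_lit 249) (nat_lit 152)))) (XT.nd (nat_lit 78) (nat_lit 152) (nat_lit 0) (XT.lf (nat_lit 0) (nat_lit 47363473479) (nat_lit 76) (nat_lit 11592697211) (nat_lit 152) (nat_lit 15029030738) (nat_lit 12) (nat_lit 5) (nat_lit 13) (nat_lit 5) (nat_lit 14) (nat_lit 4) (nat_lit 320) (nat_lit 249) (nat_lit 151)) (XT.nd (nat_lit 78) (nat_lit 152) (nat_lit 0) (XT.lf (nat_lit 0) (nat_lit 71485732989) (nat_lit 152)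 (nat_lit 4549925590) (nat_lit 0) (nat_lit 1246248641) (nat_lit 12) (nat_lit 5) (nat_lit 14) (nat_lit 4) (nat_lit 12) (nat_lit 4) (nat_lit 321) (nat_lit 249) (nat_lit 150)) (XT.lf (nat_lit 0) (nat_lit 4113236091) (nat_lit 152) (nat_lit 61916536818) (nat_lit 76) (nat_lit 14703828383) (nat_lit 10) (nat_lit 5) (nat_lit 12) (nat_lit 5) (nat_lit 11) (nat_lit 4) (nat_lit 322) (nat_lit 249) (nat_lit 149)))))) (XT.nd (nat_lit 390) (nat_lit 76) (nat_lit 0) (XT.nd (nat_lit 156) (nat_lit 76) (nat_lit 0) (XT.nd (nat_lit 78) (nat_lit 0) (nat_lit 0) (XT.lf (nat_lit 0) (nat_lit 14436718583) (nat_lit 152) (nat_lit 40985507106) (nat_lit 76) (nat_lit 28932784785) (nat_lit 10) (nat_lit 5) (nat_lit 12) (nat_lit 5) (nat_lit 11) (nat_lit 4) (nat_lit 323) (nat_lit 249) (nat_lit 148)) (XT.lf (nat_lit 0) (nat_lit 25266908433) (nat_lit 152) (nat_lit 19024640519) (nat_lit 76) (nat_lit 43866231175) (nat_lit 10) (nat_lit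 5) (nat_lit 12) (nat_lit 5) (nat_lit 11) (nat_lit 4) (nat_lit 324) (nat_lit 249) (nat_lit 147))) (XT.nd (nat_lit 78) (nat_lit 0) (nat_lit 0) (XT.lf (nat_lit 0) (nat_lit 4098323779) (nat_lit 76) (nat_lit 32570663622) (nat_lit 152) (nat_lit 55480795193) (nat_lit 9) (nat_lit 5) (nat_lit 10) (nat_lit 5) (nat_lit 11) (nat_lit 4) (nat_lit 325) (nat_lit 249) (nat_lit 146)) (XT.nd (nat_lit 78) (nat_lit 0) (nat_lit 0) (XT.lf (nat_lit 0) (nat_lit 28759532954) (nat_lit 76) (nat_lit 20068743980) (nat_lit 152) (nat_lit 47507500500) (nat_lit 9) (nat_lit 5) (nat_lit 10) (nat_lit 5) (nat_lit 11) (nat_lit 4) (nat_lit 326) (nat_lit 249) (nat_lit 145)) (XT.lf (nat_lit 0) (nat_lit 54639076521) (nat_lit 76) (nat_lit 6948135118) (nat_lit 152) (nat_lit 39144115145) (nat_lit 9) (nat_lit 5) (nat_lit 10) (nat_lit 5) (nat_lit 11) (nat_lit 4) (nat_lit 327) (nat_lit 249) (nat_lit 144))))) (XT.nd (nat_lit 31434) (nat_lit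 0) (nat_lit 15656) (XT.nd (nat_lit 78) (nat_lit 76) (nat_lit 0) (XT.lf (nat_lit 0) (nat_lit 75041751038) (nat_lit 152) (nat_lit 23613904904) (nat_lit 0) (nat_lit 6689272863) (nat_lit 9) (nat_lit 5) (nat_lit 11) (nat_lit 4) (nat_lit 9) (nat_lit 4) (nat_lit 328) (nat_lit 249) (nat_lit 143)) (XT.nd (nat_lit 78) (nat_lit 76) (nat_lit 0) (XT.lf (nat_lit 0) (nat_lit 89231544903) (nat_lit 152) (nat_lit 95303687) (nat_lit 0) (nat_lit 20860491218) (nat_lit 9) (nat_lit 5) (nat_lit 11) (nat_lit 4) (nat_lit 9) (nat_lit 4) (nat_lit 329) (nat_lit 249) (nat_lit 142)) (XT.lf (nat_lit 0) (nat_lit 25075656151) (nat_lit 76) (nat_lit 79288975127) (nat_lit 76) (nat_lit 10900230481) (nat_lit 8) (nat_lit 4) (nat_lit 9) (nat_lit 5) (nat_lit 9) (nat_lit 4) (nat_lit 330) (nat_lit 249) (nat_lit 141)))) (XT.nd (nat_lit 78) (nat_lit 836) (nat_lit 0) (XT.lf (nat_lit 0) (nat_lit 2990223408) (nat_lit 836) (nat_lit 414075920)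 (nat_lit 836) (nat_lit 414075920) (nat_lit 225) (nat_lit 3) (nat_lit 236) (nat_lit 3) (nat_lit 236) (nat_lit 5) (nat_lit 250) (nat_lit 250) (nat_lit 220)) (XT.nd (nat_lit 78) (nat_lit 0) (nat_lit 76) (XT.lf (nat_lit 0) (nat_lit 463018282) (nat_lit 836) (nat_lit 2946543266) (nat_lit 912) (nat_lit 4349958490) (nat_lit 214) (nat_lit 5) (nat_lit 225) (nat_lit 3) (nat_lit 226) (nat_lit 5) (nat_lit 251) (nat_lit 250) (nat_lit 219)) (XT.lf (nat_lit 0) (nat_lit 2558970782) (nat_lit 836) (nat_lit 5062323844) (nat_lit 912) (nat_lit 269801827) (nat_lit 215) (nat_lit 5) (nat_lit 226) (nat_lit 5) (nat_lit 227) (nat_lit 5) (nat_lit 252) (nat_lit 250) (nat_lit 218))))))) (XT.nd (nat_lit 858) (nat_lit 5472) (nat_lit 0) (XT.nd (nat_lit 390) (nat_lit 2888) (nat_lit 0) (XT.nd (nat_lit 156) (nat_lit 836) (nat_lit 0) (XT.nd (nat_lit 78) (nat_lit 0) (nat_lit 76) (XT.lf (nat_lit 76) (nat_lit 832748630) (nat_lit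 0) (nat_lit 3872409010) (nat_lit 912) (nat_lit 3326024231) (nat_lit 216) (nat_lit 5) (nat_lit 215) (nat_lit 5) (nat_lit 227) (nat_lit 5) (nat_lit 253) (nat_lit 250) (nat_lit 217)) (XT.lf (nat_lit 0) (nat_lit 6890136002) (nat_lit 836) (nat_lit 1126626348) (nat_lit 912) (nat_lit 163844066) (nat_lit 216) (nat_lit 5) (nat_lit 227) (nat_lit 5) (nat_lit 228) (nat_lit 5) (nat_lit 254) (nat_lit 250) (nat_lit 216))) (XT.nd (nat_lit 78) (nat_lit 0) (nat_lit 76) (XT.lf (nat_lit 0) (nat_lit 803290224) (nat_lit 912) (nat_lit 3108009235) (nat_lit 988) (nat_lit 4427028149) (nat_lit 204) (nat_lit 5) (nat_lit 216) (nat_lit 5) (nat_lit 217) (nat_lit 5) (nat_lit 255) (nat_lit 250) (nat_lit 215)) (XT.nd (nat_lit 78) (nat_lit 0) (nat_lit 0) (XT.lf (nat_lit 0) (nat_lit 2912041553) (nat_lit 912) (nat_lit 5106104685) (nat_lit 988) (nat_lit 487541538) (nat_lit 205) (nat_lit 5) (nat_lit 217) (nat_lit 5) (nat_lit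 218) (nat_lit 5) (nat_lit 256) (nat_lit 250) (nat_lit 214)) (XT.lf (nat_lit 76) (nat_lit 1531586641) (nat_lit 0) (nat_lit 3573693140) (nat_lit 988) (nat_lit 3576998951) (nat_lit 206) (nat_lit 5) (nat_lit 205) (nat_lit 5) (nat_lit 218) (nat_lit 5) (nat_lit 257) (nat_lit 250) (nat_lit 213))))) (XT.nd (nat_lit 234) (nat_lit 2052) (nat_lit 0) (XT.nd (nat_lit 78) (nat_lit 988) (nat_lit 0) (XT.lf (nat_lit 0) (nat_lit 7369004642) (nat_lit 912) (nat_lit 346270949) (nat_lit 988) (nat_lit 1153822007) (nat_lit 206) (nat_lit 5) (nat_lit 218) (nat_lit 5) (nat_lit 219) (nat_lit 5) (nat_lit 258) (nat_lit 250) (nat_lit 212)) (XT.nd (nat_lit 78) (nat_lit 0) (nat_lit 76) (XT.lf (nat_lit 0) (nat_lit 670982297) (nat_lit 988) (nat_lit 2249830733) (nat_lit 1064) (nat_lit 6144346199) (nat_lit 193) (nat_lit 5) (nat_lit 206) (nat_lit 5) (nat_lit 207) (nat_lit 5) (nat_lit 259) (nat_lit 250) (nat_lit 211)) (XT.lf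 (nat_lit 0) (nat_lit 2898496236) (nat_lit 988) (nat_lit 4211223855) (nat_lit 76) (nat_lit 2161687471) (nat_lit 194) (nat_lit 5) (nat_lit 207) (nat_lit 5) (nat_lit 195) (nat_lit 5) (nat_lit 260) (nat_lit 250) (nat_lit 210)))) (XT.nd (nat_lit 78) (nat_lit 1140) (nat_lit 0) (XT.lf (nat_lit 0) (nat_lit 3254925712) (nat_lit 988) (nat_lit 1975627272) (nat_lit 1064) (nat_lit 4257807426) (nat_lit 181) (nat_lit 5) (nat_lit 194) (nat_lit 5) (nat_lit 195) (nat_lit 5) (nat_lit 261) (nat_lit 250) (nat_lit 209)) (XT.nd (nat_lit 78) (nat_lit 76) (nat_lit 0) (XT.lf (nat_lit 0) (nat_lit 1386181874) (nat_lit 1064) (nat_lit 6295757978) (nat_lit 1140) (nat_lit 2034317432) (nat_lit 167) (nat_lit 5) (nat_lit 181) (nat_lit 5) (nat_lit 182) (nat_lit 5) (nat_lit 262) (nat_lit 250) (nat_lit 208)) (XT.lf (nat_lit 0) (nat_lit 294478909) (nat_lit 1140) (nat_lit 534879126) (nat_lit 76) (nat_lit 9126269346) (nat_lit 166)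 (nat_lit 5) (nat_lit 181) (nat_lit 5) (nat_lit 167) (nat_lit 5) (nat_lit 263) (nat_lit 250) (nat_lit 207)))))) (XT.nd (nat_lit 468) (nat_lit 2204) (nat_lit 0) (XT.nd (nat_lit 234) (nat_lit 1140) (nat_lit 0) (XT.nd (nat_lit 78) (nat_lit 1064) (nat_lit 0) (XT.lf (nat_lit 0) (nat_lit 2739648216) (nat_lit 1140) (nat_lit 2546234437) (nat_lit 76) (nat_lit 4919375825) (nat_lit 152) (nat_lit 5) (nat_lit 167) (nat_lit 5) (nat_lit 153) (nat_lit 5) (nat_lit 264) (nat_lit 250) (nat_lit 206)) (XT.nd (nat_lit 78) (nat_lit 532) (nat_lit 0) (XT.lf (nat_lit 0) (nat_lit 5304888716) (nat_lit 608) (nat_lit 4632585645) (nat_lit 76) (nat_lit 530111839) (nat_lit 145) (nat_lit 5) (nat_lit 153) (nat_lit 5) (nat_lit 146) (nat_lit 5) (nat_lit 265) (nat_lit 250) (nat_lit 205)) (XT.lf (nat_lit 0) (nat_lit 3896542173) (nat_lit 532) (nat_lit 4144733960) (nat_lit 608) (nat_lit 2700609966) (nat_lit 138) (nat_lit 5) (nat_lit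 145) (nat_lit 5) (nat_lit 146) (nat_lit 5) (nat_lit 266) (nat_lit 250) (nat_lit 204)))) (XT.nd (nat_lit 78) (nat_lit 608) (nat_lit 0) (XT.lf (nat_lit 0) (nat_lit 1865394506) (nat_lit 532) (nat_lit 9062295436) (nat_lit 608) (nat_lit 101950400) (nat_lit 131) (nat_lit 5) (nat_lit 138) (nat_lit 5) (nat_lit 139) (nat_lit 5) (nat_lit 267) (nat_lit 250) (nat_lit 203)) (XT.nd (nat_lit 78) (nat_lit 532) (nat_lit 0) (XT.lf (nat_lit 0) (nat_lit 2618796461) (nat_lit 608) (nat_lit 314538581) (nat_lit 76) (nat_lit 8396512845) (nat_lit 130) (nat_lit 5) (nat_lit 138) (nat_lit 5) (nat_lit 131) (nat_lit 5) (nat_lit 268) (nat_lit 250) (nat_lit 202)) (XT.lf (nat_lit 0) (nat_lit 5529071134) (nat_lit 608) (nat_lit 2593512660) (nat_lit 76) (nat_lit 3520903139) (nat_lit 123) (nat_lit 5) (nat_lit 131) (nat_lit 5) (nat_lit 124) (nat_lit 5) (nat_lit 269) (nat_lit 250) (nat_lit 201))))) (XT.nd (nat_lit 234) (nat_lit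 836) (nat_lit 0) (XT.nd (nat_lit 78) (nat_lit 912) (nat_lit 0) (XT.lf (nat_lit 0) (nat_lit 6954209313) (nat_lit 456) (nat_lit 1666591943) (nat_lit 532) (nat_lit 3351042114) (nat_lit 117) (nat_lit 5) (nat_lit 123) (nat_lit 5) (nat_lit 124) (nat_lit 5) (nat_lit 270) (nat_lit 250) (nat_lit 200)) (XT.nd (nat_lit 78) (nat_lit 456) (nat_lit 0) (XT.lf (nat_lit 0) (nat_lit 4691471226) (nat_lit 456) (nat_lit 7235414107) (nat_lit 532) (nat_lit 388047548) (nat_lit 111) (nat_lit 5) (nat_lit 117) (nat_lit 5) (nat_lit 118) (nat_lit 5) (nat_lit 271) (nat_lit 250) (nat_lit 199)) (XT.lf (nat_lit 0) (nat_lit 2249955198) (nat_lit 380) (nat_lit 450783555) (nat_lit 456) (nat_lit 9972829567) (nat_lit 105) (nat_lit 5) (nat_lit 110) (nat_lit 5) (nat_lit 111) (nat_lit 5) (nat_lit 272) (nat_lit 250) (nat_lit 198)))) (XT.nd (nat_lit 78) (nat_lit 836) (nat_lit 0) (XT.lf (nat_lit 0) (nat_lit 6021718556) (nat_lit 456)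 (nat_lit 407773765) (nat_lit 76) (nat_lit 6618049910) (nat_lit 105) (nat_lit 5) (nat_lit 111) (nat_lit 5) (nat_lit 106) (nat_lit 5) (nat_lit 273) (nat_lit 250) (nat_lit 197)) (XT.nd (nat_lit 78) (nat_lit 380) (nat_lit 0) (XT.lf (nat_lit 0) (nat_lit 9563347523) (nat_lit 532) (nat_lit 3205596312) (nat_lit 76) (nat_lit 669723805) (nat_lit 99) (nat_lit 5) (nat_lit 106) (nat_lit 5) (nat_lit 100) (nat_lit 5) (nat_lit 274) (nat_lit 250) (nat_lit 196)) (XT.lf (nat_lit 0) (nat_lit 7584287735) (nat_lit 380) (nat_lit 5786786295) (nat_lit 456) (nat_lit 475691293) (nat_lit 94) (nat_lit 5) (nat_lit 99) (nat_lit 5) (nat_lit 100) (nat_lit 5) (nat_lit 275) (nat_lit 250) (nat_lit 195))))))))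
noncomputable def xc70 : XT := (XT.nd (nat_lit 1716) (nat_lit 1748) (nat_lit 0) (XT.nd (nat_lit 858) (nat_lit 1748) (nat_lit 0) (XT.nd (nat_lit 390) (nat_lit 1216) (nat_lit 0) (XT.nd (nat_lit 156) (nat_lit 760) (nat_lit 0) (XT.nd (nat_lit 78) (nat_lit 304) (nat_lit 0) (XT.lf (nat_lit 0) (nat_lit 3076221480) (nat_lit 456) (nat_lit 9584643203) (nat_lit 76) (nat_lit 1612310674) (nat_lit 88) (nat_lit 5) (nat_lit 94) (nat_lit 5) (nat_lit 89) (nat_lit 5) (nat_lit 276) (nat_lit 250) (nat_lit 194)) (XT.lf (nat_lit 0) (nat_lit 1501493947) (nat_lit 304) (nat_lit 5382510794) (nat_lit 380) (nat_lit 7834192631) (nat_lit 84) (nat_lit 5) (nat_lit 88) (nat_lit 5) (nat_lit 89) (nat_lit 5) (nat_lit 277) (nat_lit 250) (nat_lit 193))) (XT.nd (nat_lit 78) (nat_lit 760) (nat_lit 0) (XT.lf (nat_lit 0) (nat_lit 10955282015) (nat_lit 380) (nat_lit 1925514469) (nat_lit 76) (nat_lit 2302553392) (nat_lit 84) (nat_lit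 5) (nat_lit 89) (nat_lit 5) (nat_lit 85) (nat_lit 5) (nat_lit 278) (nat_lit 250) (nat_lit 192)) (XT.nd (nat_lit 78) (nat_lit 380) (nat_lit 0) (XT.lf (nat_lit 0) (nat_lit 10011715714) (nat_lit 380) (nat_lit 5323011555) (nat_lit 456) (nat_lit 333963689) (nat_lit 79) (nat_lit 5) (nat_lit 84) (nat_lit 5) (nat_lit 85) (nat_lit 5) (nat_lit 279) (nat_lit 250) (nat_lit 191)) (XT.lf (nat_lit 0) (nat_lit 3744803552) (nat_lit 380) (nat_lit 9763424792) (nat_lit 76) (nat_lit 2667154956) (nat_lit 74) (nat_lit 5) (nat_lit 79) (nat_lit 5) (nat_lit 75) (nat_lit 5) (nat_lit 280) (nat_lit 250) (nat_lit 190))))) (XT.nd (nat_lit 234) (nat_lit 608) (nat_lit 0) (XT.nd (nat_lit 78) (nat_lit 304) (nat_lit 0) (XT.lf (nat_lit 0) (nat_lit 2428255981) (nat_lit 304) (nat_lit 5684908986) (nat_lit 380) (nat_lit 8591430045) (nat_lit 70) (nat_lit 5) (nat_lit 74) (nat_lit 5) (nat_lit 75) (nat_lit 5) (nat_lit 281) (nat_lit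 250) (nat_lit 189)) (XT.nd (nat_lit 78) (nat_lit 304) (nat_lit 0) (XT.lf (nat_lit 0) (nat_lit 12783759824) (nat_lit 380) (nat_lit 1906858407) (nat_lit 76) (nat_lit 2567192553) (nat_lit 70) (nat_lit 5) (nat_lit 75) (nat_lit 5) (nat_lit 71) (nat_lit 5) (nat_lit 282) (nat_lit 250) (nat_lit 188)) (XT.lf (nat_lit 0) (nat_lit 11186925741) (nat_lit 304) (nat_lit 6625872070) (nat_lit 380) (nat_lit 22197308) (nat_lit 66) (nat_lit 5) (nat_lit 70) (nat_lit 5) (nat_lit 71) (nat_lit 5) (nat_lit 283) (nat_lit 250) (nat_lit 187)))) (XT.nd (nat_lit 78) (nat_lit 228) (nat_lit 0) (XT.lf (nat_lit 0) (nat_lit 4624163782) (nat_lit 380) (nat_lit 11893631289) (nat_lit 76) (nat_lit 1920072103) (nat_lit 61) (nat_lit 5) (nat_lit 66) (nat_lit 5) (nat_lit 62) (nat_lit 5) (nat_lit 284) (nat_lit 250) (nat_lit 186)) (XT.nd (nat_lit 78) (nat_lit 0) (nat_lit 0) (XT.lf (nat_lit 0) (nat_lit 1371420647) (nat_lit 228) (nat_lit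 8242302727) (nat_lit 304) (nat_lit 9453861269) (nat_lit 58) (nat_lit 5) (nat_lit 61) (nat_lit 5) (nat_lit 62) (nat_lit 5) (nat_lit 285) (nat_lit 250) (nat_lit 185)) (XT.lf (nat_lit 0) (nat_lit 14944014388) (nat_lit 304) (nat_lit 4235619498) (nat_lit 76) (nat_lit 546462769) (nat_lit 58) (nat_lit 5) (nat_lit 62) (nat_lit 5) (nat_lit 59) (nat_lit 5) (nat_lit 286) (nat_lit 250) (nat_lit 184)))))) (XT.nd (nat_lit 390) (nat_lit 684) (nat_lit 0) (XT.nd (nat_lit 156) (nat_lit 532) (nat_lit 0) (XT.nd (nat_lit 78) (nat_lit 228) (nat_lit 0) (XT.lf (nat_lit 0) (nat_lit 266237017) (nat_lit 304) (nat_lit 10457511769) (nat_lit 76) (nat_lit 9689432005) (nat_lit 54) (nat_lit 5) (nat_lit 58) (nat_lit 5) (nat_lit 55) (nat_lit 5) (nat_lit 287) (nat_lit 250) (nat_lit 183)) (XT.lf (nat_lit 0) (nat_lit 3786928599) (nat_lit 228) (nat_lit 1728370555) (nat_lit 304) (nat_lit 15616523478) (nat_lit 51) (nat_lit 5) (nat_lit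 54) (nat_lit 5) (nat_lit 55) (nat_lit 5) (nat_lit 288) (nat_lit 250) (nat_lit 182))) (XT.nd (nat_lit 78) (nat_lit 532) (nat_lit 0) (XT.lf (nat_lit 0) (nat_lit 11176590339) (nat_lit 304) (nat_lit 3045726527) (nat_lit 76) (nat_lit 7659625231) (nat_lit 51) (nat_lit 5) (nat_lit 55) (nat_lit 5) (nat_lit 52) (nat_lit 5) (nat_lit 289) (nat_lit 250) (nat_lit 181)) (XT.nd (nat_lit 78) (nat_lit 304) (nat_lit 0) (XT.lf (nat_lit 0) (nat_lit 12140781549) (nat_lit 228) (nat_lit 5082771974) (nat_lit 304) (nat_lit 5442972752) (nat_lit 48) (nat_lit 5) (nat_lit 51) (nat_lit 5) (nat_lit 52) (nat_lit 5) (nat_lit 290) (nat_lit 250) (nat_lit 180)) (XT.lf (nat_lit 0) (nat_lit 171000049) (nat_lit 304) (nat_lit 18827783127) (nat_lit 76) (nat_lit 4488864305) (nat_lit 44) (nat_lit 5) (nat_lit 48) (nat_lit 5) (nat_lit 45) (nat_lit 5) (nat_lit 291) (nat_lit 250) (nat_lit 179))))) (XT.nd (nat_lit 234) (nat_lit 304) (nat_lit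 0) (XT.nd (nat_lit 78) (nat_lit 380) (nat_lit 0) (XT.lf (nat_lit 0) (nat_lit 6084948220) (nat_lit 304) (nat_lit 3675005716) (nat_lit 76) (nat_lit 14584331265) (nat_lit 44) (nat_lit 5) (nat_lit 48) (nat_lit 5) (nat_lit 45) (nat_lit 5) (nat_lit 292) (nat_lit 250) (nat_lit 178)) (XT.nd (nat_lit 78) (nat_lit 152) (nat_lit 0) (XT.lf (nat_lit 0) (nat_lit 12386086609) (nat_lit 304) (nat_lit 12807121940) (nat_lit 76) (nat_lit 47832471) (nat_lit 41) (nat_lit 5) (nat_lit 45) (nat_lit 5) (nat_lit 42) (nat_lit 5) (nat_lit 293) (nat_lit 250) (nat_lit 177)) (XT.lf (nat_lit 0) (nat_lit 3163320144) (nat_lit 152) (nat_lit 15978388472) (nat_lit 228) (nat_lit 7036772737) (nat_lit 39) (nat_lit 5) (nat_lit 41) (nat_lit 5) (nat_lit 42) (nat_lit 5) (nat_lit 294) (nat_lit 250) (nat_lit 176)))) (XT.nd (nat_lit 78) (nat_lit 304) (nat_lit 0) (XT.lf (nat_lit 0) (nat_lit 20158040566) (nat_lit 152) (nat_lit 6182129359)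 (nat_lit 228) (nat_lit 819500148) (nat_lit 39) (nat_lit 5) (nat_lit 41) (nat_lit 5) (nat_lit 42) (nat_lit 5) (nat_lit 295) (nat_lit 250) (nat_lit 175)) (XT.nd (nat_lit 78) (nat_lit 0) (nat_lit 0) (XT.lf (nat_lit 0) (nat_lit 5707519611) (nat_lit 304) (nat_lit 18316332087) (nat_lit 76) (nat_lit 4161137894) (nat_lit 35) (nat_lit 5) (nat_lit 39) (nat_lit 5) (nat_lit 36) (nat_lit 5) (nat_lit 296) (nat_lit 250) (nat_lit 174)) (XT.lf (nat_lit 0) (nat_lit 12654215612) (nat_lit 304) (nat_lit 1641919674) (nat_lit 76) (nat_lit 14961912932) (nat_lit 35) (nat_lit 5) (nat_lit 39) (nat_lit 5) (nat_lit 36) (nat_lit 5) (nat_lit 297) (nat_lit 250) (nat_lit 173))))))) (XT.nd (nat_lit 858) (nat_lit 684) (nat_lit 0) (XT.nd (nat_lit 390) (nat_lit 532) (nat_lit 0) (XT.nd (nat_lit 156) (nat_lit 228) (nat_lit 0) (XT.nd (nat_lit 78) (nat_lit 152) (nat_lit 0) (XT.lf (nat_lit 0) (nat_lit 16143229315) (nat_lit 152)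 (nat_lit 3936318814) (nat_lit 228) (nat_lit 10301296176) (nat_lit 33) (nat_lit 5) (nat_lit 35) (nat_lit 5) (nat_lit 36) (nat_lit 5) (nat_lit 298) (nat_lit 250) (nat_lit 172)) (XT.lf (nat_lit 0) (nat_lit 3251744017) (nat_lit 152) (nat_lit 24716228864) (nat_lit 228) (nat_lit 3589075006) (nat_lit 31) (nat_lit 5) (nat_lit 33) (nat_lit 5) (nat_lit 34) (nat_lit 5) (nat_lit 299) (nat_lit 250) (nat_lit 171))) (XT.nd (nat_lit 78) (nat_lit 152) (nat_lit 0) (XT.lf (nat_lit 0) (nat_lit 3556294563) (nat_lit 228) (nat_lit 10985886662) (nat_lit 76) (nat_lit 18243952852) (nat_lit 30) (nat_lit 5) (nat_lit 33) (nat_lit 5) (nat_lit 31) (nat_lit 5) (nat_lit 300) (nat_lit 250) (nat_lit 170)) (XT.nd (nat_lit 78) (nat_lit 0) (nat_lit 0) (XT.lf (nat_lit 0) (nat_lit 7270008485) (nat_lit 152) (nat_lit 3763637107) (nat_lit 228) (nat_lit 23040514483) (nat_lit 28) (nat_lit 5) (nat_lit 30) (nat_lit 5) (nat_lit 31) (nat_lit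 5) (nat_lit 301) (nat_lit 250) (nat_lit 169)) (XT.lf (nat_lit 0) (nat_lit 19050628050) (nat_lit 228) (nat_lit 8863299813) (nat_lit 76) (nat_lit 7507705429) (nat_lit 28) (nat_lit 5) (nat_lit 31) (nat_lit 5) (nat_lit 29) (nat_lit 5) (nat_lit 302) (nat_lit 250) (nat_lit 168))))) (XT.nd (nat_lit 234) (nat_lit 152) (nat_lit 0) (XT.nd (nat_lit 78) (nat_lit 228) (nat_lit 0) (XT.lf (nat_lit 0) (nat_lit 10100713824) (nat_lit 152) (nat_lit 17482772193) (nat_lit 228) (nat_lit 9249561301) (nat_lit 26) (nat_lit 5) (nat_lit 28) (nat_lit 5) (nat_lit 29) (nat_lit 5) (nat_lit 303) (nat_lit 250) (nat_lit 167)) (XT.nd (nat_lit 78) (nat_lit 228) (nat_lit 0) (XT.lf (nat_lit 0) (nat_lit 30166096094) (nat_lit 152) (nat_lit 6448722417) (nat_lit 228) (nat_lit 1698075667) (nat_lit 26) (nat_lit 5) (nat_lit 28) (nat_lit 5) (nat_lit 29) (nat_lit 5) (nat_lit 304) (nat_lit 250) (nat_lit 166)) (XT.lf (nat_lit 0) (nat_lit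 6252223604) (nat_lit 228) (nat_lit 28411500217) (nat_lit 76) (nat_lit 5196943628) (nat_lit 23) (nat_lit 5) (nat_lit 26) (nat_lit 5) (nat_lit 24) (nat_lit 5) (nat_lit 305) (nat_lit 250) (nat_lit 165)))) (XT.nd (nat_lit 78) (nat_lit 152) (nat_lit 0) (XT.lf (nat_lit 0) (nat_lit 14696831713) (nat_lit 228) (nat_lit 9401663564) (nat_lit 76) (nat_lit 17382887391) (nat_lit 23) (nat_lit 5) (nat_lit 26) (nat_lit 5) (nat_lit 24) (nat_lit 5) (nat_lit 306) (nat_lit 250) (nat_lit 164)) (XT.nd (nat_lit 78) (nat_lit 0) (nat_lit 0) (XT.lf (nat_lit 0) (nat_lit 10739209295) (nat_lit 152) (nat_lit 12910362565) (nat_lit 228) (nat_lit 19530999068) (nat_lit 21) (nat_lit 5) (nat_lit 23) (nat_lit 5) (nat_lit 24) (nat_lit 5) (nat_lit 307) (nat_lit 250) (nat_lit 163)) (XT.lf (nat_lit 0) (nat_lit 32055408379) (nat_lit 152) (nat_lit 1074546568) (nat_lit 228) (nat_lit 11832377119) (nat_lit 21) (nat_lit 5) (nat_lit 23)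 (nat_lit 5) (nat_lit 24) (nat_lit 5) (nat_lit 308) (nat_lit 250) (nat_lit 162)))))) (XT.nd (nat_lit 390) (nat_lit 380) (nat_lit 0) (XT.nd (nat_lit 156) (nat_lit 152) (nat_lit 0) (XT.nd (nat_lit 78) (nat_lit 76) (nat_lit 0) (XT.lf (nat_lit 0) (nat_lit 7616498639) (nat_lit 76) (nat_lit 35634124066) (nat_lit 152) (nat_lit 3577583589) (nat_lit 20) (nat_lit 5) (nat_lit 21) (nat_lit 5) (nat_lit 22) (nat_lit 4) (nat_lit 309) (nat_lit 250) (nat_lit 161)) (XT.lf (nat_lit 0) (nat_lit 5119916668) (nat_lit 152) (nat_lit 19435443236) (nat_lit 76) (nat_lit 24226679804) (nat_lit 19) (nat_lit 5) (nat_lit 21) (nat_lit 5) (nat_lit 20) (nat_lit 5) (nat_lit 310) (nat_lit 250) (nat_lit 160))) (XT.nd (nat_lit 78) (nat_lit 0) (nat_lit 0) (XT.lf (nat_lit 0) (nat_lit 1293261241) (nat_lit 152) (nat_lit 12883173294) (nat_lit 228) (nat_lit 36656135079) (nat_lit 17) (nat_lit 5) (nat_lit 19) (nat_lit 5) (nat_lit 20)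 (nat_lit 5) (nat_lit 311) (nat_lit 250) (nat_lit 159)) (XT.nd (nat_lit 78) (nat_lit 0) (nat_lit 0) (XT.lf (nat_lit 0) (nat_lit 23439775565) (nat_lit 152) (nat_lit 431562133) (nat_lit 228) (nat_lit 29108732434) (nat_lit 17) (nat_lit 5) (nat_lit 19) (nat_lit 5) (nat_lit 20) (nat_lit 5) (nat_lit 312) (nat_lit 250) (nat_lit 158)) (XT.lf (nat_lit 0) (nat_lit 34158600483) (nat_lit 228) (nat_lit 8686779345) (nat_lit 76) (nat_lit 12386347794) (nat_lit 17) (nat_lit 5) (nat_lit 20) (nat_lit 5) (nat_lit 18) (nat_lit 4) (nat_lit 313) (nat_lit 250) (nat_lit 157))))) (XT.nd (nat_lit 234) (nat_lit 228) (nat_lit 0) (XT.nd (nat_lit 78) (nat_lit 76) (nat_lit 0) (XT.lf (nat_lit 0) (nat_lit 13444627371) (nat_lit 76) (nat_lit 31635941235) (nat_lit 152) (nat_lit 12511799001) (nat_lit 16) (nat_lit 5) (nat_lit 17) (nat_lit 5) (nat_lit 18) (nat_lit 4) (nat_lit 314) (nat_lit 250) (nat_lit 156)) (XT.nd (nat_lit 78)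 (nat_lit 76) (nat_lit 0) (XT.lf (nat_lit 0) (nat_lit 36842004080) (nat_lit 76) (nat_lit 19783220458) (nat_lit 152) (nat_lit 3443526787) (nat_lit 16) (nat_lit 5) (nat_lit 17) (nat_lit 5) (nat_lit 18) (nat_lit 4) (nat_lit 315) (nat_lit 250) (nat_lit 155)) (XT.lf (nat_lit 0) (nat_lit 5947200242) (nat_lit 152) (nat_lit 1339460867) (nat_lit 76) (nat_lit 55380919576) (nat_lit 15) (nat_lit 5) (nat_lit 17) (nat_lit 5) (nat_lit 16) (nat_lit 5) (nat_lit 316) (nat_lit 250) (nat_lit 154)))) (XT.nd (nat_lit 78) (nat_lit 76) (nat_lit 0) (XT.lf (nat_lit 0) (nat_lit 15995227158) (nat_lit 228) (nat_lit 43431019309) (nat_lit 76) (nat_lit 5961321079) (nat_lit 13) (nat_lit 5) (nat_lit 16) (nat_lit 5) (nat_lit 14) (nat_lit 4) (nat_lit 317) (nat_lit 250) (nat_lit 153)) (XT.nd (nat_lit 78) (nat_lit 76) (nat_lit 0) (XT.lf (nat_lit 0) (nat_lit 26621653079) (nat_lit 228) (nat_lit 21891474921) (nat_lit 76) (nat_lit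 19728153716) (nat_lit 13) (nat_lit 5) (nat_lit 16) (nat_lit 5) (nat_lit 14) (nat_lit 4) (nat_lit 318) (nat_lit 250) (nat_lit 152)) (XT.lf (nat_lit 0) (nat_lit 720048996) (nat_lit 76) (nat_lit 37055345741) (nat_lit 152) (nat_lit 33462414545) (nat_lit 12) (nat_lit 5) (nat_lit 13) (nat_lit 5) (nat_lit 14) (nat_lit 4) (nat_lit 319) (nat_lit 250) (nat_lit 151))))))))
noncomputable def xc71 : XT := (XT.nd (nat_lit 32994) (nat_lit 0) (nat_lit 4332) (XT.nd (nat_lit 32136) (nat_lit 0) (nat_lit 14060) (XT.nd (nat_lit 390) (nat_lit 152) (nat_lit 0) (XT.nd (nat_lit 156) (nat_lit 152) (nat_lit 0) (XT.nd (nat_lit 78) (nat_lit 0) (nat_lit 0) (XT.lf (nat_lit 0) (nat_lit 24901114130) (nat_lit 76) (nat_lit 24800478140) (nat_lit 152) (nat_lit 24676135056) (nat_lit 12) (nat_lit 5) (nat_lit 13) (nat_lit 5) (nat_lit 14) (nat_lit 4) (nat_lit 320) (nat_lit 250) (nat_lit 150)) (XT.lf (nat_lit 0) (nat_lit 50273611168)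 (nat_lit 76) (nat_lit 11940407912) (nat_lit 152) (nat_lit 15460931430) (nat_lit 12) (nat_lit 5) (nat_lit 13) (nat_lit 5) (nat_lit 14) (nat_lit 4) (nat_lit 321) (nat_lit 250) (nat_lit 149))) (XT.nd (nat_lit 78) (nat_lit 152) (nat_lit 0) (XT.lf (nat_lit 0) (nat_lit 75357418928) (nat_lit 152) (nat_lit 4254330815) (nat_lit 0) (nat_lit 1525131057) (nat_lit 12) (nat_lit 5) (nat_lit 14) (nat_lit 4) (nat_lit 12) (nat_lit 4) (nat_lit 322) (nat_lit 250) (nat_lit 148)) (XT.nd (nat_lit 78) (nat_lit 0) (nat_lit 0) (XT.lf (nat_lit 0) (nat_lit 4610058714) (nat_lit 152) (nat_lit 64498287487) (nat_lit 76) (nat_lit 15653015585) (nat_lit 10) (nat_lit 5) (nat_lit 12) (nat_lit 5) (nat_lit 11) (nat_lit 4) (nat_lit 323) (nat_lit 250) (nat_lit 147)) (XT.lf (nat_lit 0) (nat_lit 15435850530) (nat_lit 152) (nat_lit 42545186108) (nat_lit 76) (nat_lit 30583229532) (nat_lit 10) (nat_lit 5) (nat_lit 12) (nat_lit 5) (nat_lit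 11) (nat_lit 4) (nat_lit 324) (nat_lit 250) (nat_lit 146))))) (XT.nd (nat_lit 234) (nat_lit 76) (nat_lit 0) (XT.nd (nat_lit 78) (nat_lit 76) (nat_lit 0) (XT.lf (nat_lit 0) (nat_lit 26794345300) (nat_lit 152) (nat_lit 19509590303) (nat_lit 76) (nat_lit 46253643217) (nat_lit 10) (nat_lit 5) (nat_lit 12) (nat_lit 5) (nat_lit 11) (nat_lit 4) (nat_lit 325) (nat_lit 250) (nat_lit 145)) (XT.nd (nat_lit 78) (nat_lit 0) (nat_lit 0) (XT.lf (nat_lit 0) (nat_lit 4756156323) (nat_lit 76) (nat_lit 34002149819) (nat_lit 152) (nat_lit 57991129910) (nat_lit 9) (nat_lit 5) (nat_lit 10) (nat_lit 5) (nat_lit 11) (nat_lit 4) (nat_lit 326) (nat_lit 250) (nat_lit 144)) (XT.lf (nat_lit 0) (nat_lit 30628858511) (nat_lit 76) (nat_lit 20884517385) (nat_lit 152) (nat_lit 49631727864) (nat_lit 9) (nat_lit 5) (nat_lit 10) (nat_lit 5) (nat_lit 11) (nat_lit 4) (nat_lit 327) (nat_lit 250) (nat_lit 143)))) (XT.nd (nat_lit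 78) (nat_lit 76) (nat_lit 0) (XT.lf (nat_lit 0) (nat_lit 57781838833) (nat_lit 76) (nat_lit 7116814451) (nat_lit 152) (nat_lit 40862132654) (nat_lit 9) (nat_lit 5) (nat_lit 10) (nat_lit 5) (nat_lit 11) (nat_lit 4) (nat_lit 328) (nat_lit 250) (nat_lit 142)) (XT.nd (nat_lit 78) (nat_lit 76) (nat_lit 0) (XT.lf (nat_lit 0) (nat_lit 79016504400) (nat_lit 152) (nat_lit 24398221451) (nat_lit 0) (nat_lit 7190631560) (nat_lit 9) (nat_lit 5) (nat_lit 11) (nat_lit 4) (nat_lit 9) (nat_lit 4) (nat_lit 329) (nat_lit 250) (nat_lit 141)) (XT.lf (nat_lit 0) (nat_lit 282956143) (nat_lit 76) (nat_lit 93624948628) (nat_lit 76) (nat_lit 21782227253) (nat_lit 8) (nat_lit 4) (nat_lit 9) (nat_lit 5) (nat_lit 9) (nat_lit 4) (nat_lit 330) (nat_lit 250) (nat_lit 140)))))) (XT.nd (nat_lit 390) (nat_lit 760) (nat_lit 0) (XT.nd (nat_lit 156) (nat_lit 836) (nat_lit 0) (XT.nd (nat_lit 78) (nat_lit 0) (nat_lit 0) (XT.lf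 (nat_lit 0) (nat_lit 603797494) (nat_lit 0) (nat_lit 603797494) (nat_lit 836) (nat_lit 2735408536) (nat_lit 214) (nat_lit 5) (nat_lit 214) (nat_lit 3) (nat_lit 225) (nat_lit 3) (nat_lit 251) (nat_lit 251) (nat_lit 218)) (XT.lf (nat_lit 0) (nat_lit 4407477509) (nat_lit 836) (nat_lit 977581528) (nat_lit 912) (nat_lit 2635777442) (nat_lit 214) (nat_lit 5) (nat_lit 225) (nat_lit 3) (nat_lit 226) (nat_lit 5) (nat_lit 252) (nat_lit 251) (nat_lit 217))) (XT.nd (nat_lit 78) (nat_lit 836) (nat_lit 0) (XT.lf (nat_lit 76) (nat_lit 5028697838) (nat_lit 0) (nat_lit 1409783390) (nat_lit 912) (nat_lit 1726032417) (nat_lit 215) (nat_lit 5) (nat_lit 214) (nat_lit 5) (nat_lit 226) (nat_lit 5) (nat_lit 253) (nat_lit 251) (nat_lit 216)) (XT.nd (nat_lit 78) (nat_lit 0) (nat_lit 0) (XT.lf (nat_lit 0) (nat_lit 199782364) (nat_lit 912) (nat_lit 5314408259) (nat_lit 988) (nat_lit 2802895267) (nat_lit 203) (nat_lit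 5) (nat_lit 215) (nat_lit 5) (nat_lit 216) (nat_lit 5) (nat_lit 254) (nat_lit 251) (nat_lit 215)) (XT.lf (nat_lit 76) (nat_lit 955536923) (nat_lit 0) (nat_lit 1174782266) (nat_lit 988) (nat_lit 6348376999) (nat_lit 204) (nat_lit 5) (nat_lit 203) (nat_lit 5) (nat_lit 216) (nat_lit 5) (nat_lit 255) (nat_lit 251) (nat_lit 214))))) (XT.nd (nat_lit 234) (nat_lit 836) (nat_lit 0) (XT.nd (nat_lit 78) (nat_lit 0) (nat_lit 0) (XT.lf (nat_lit 0) (nat_lit 4138018583) (nat_lit 912) (nat_lit 1100096257) (nat_lit 988) (nat_lit 3411087347) (nat_lit 204) (nat_lit 5) (nat_lit 216) (nat_lit 5) (nat_lit 217) (nat_lit 5) (nat_lit 256) (nat_lit 251) (nat_lit 213)) (XT.nd (nat_lit 78) (nat_lit 0) (nat_lit 76) (XT.lf (nat_lit 76) (nat_lit 5676034115) (nat_lit 0) (nat_lit 534469566) (nat_lit 988) (nat_lit 2619020887) (nat_lit 205) (nat_lit 5) (nat_lit 204) (nat_lit 5) (nat_lit 217) (nat_lit 5) (nat_lit 257) (nat_lit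 251) (nat_lit 212)) (XT.lf (nat_lit 76) (nat_lit 3757786250) (nat_lit 0) (nat_lit 4621251845) (nat_lit 988) (nat_lit 640264700) (nat_lit 206) (nat_lit 5) (nat_lit 205) (nat_lit 5) (nat_lit 218) (nat_lit 5) (nat_lit 258) (nat_lit 251) (nat_lit 211)))) (XT.nd (nat_lit 78) (nat_lit 0) (nat_lit 0) (XT.lf (nat_lit 0) (nat_lit 1374591170) (nat_lit 988) (nat_lit 7413675366) (nat_lit 1064) (nat_lit 431129003) (nat_lit 193) (nat_lit 5) (nat_lit 206) (nat_lit 5) (nat_lit 207) (nat_lit 5) (nat_lit 259) (nat_lit 251) (nat_lit 210)) (XT.nd (nat_lit 78) (nat_lit 0) (nat_lit 76) (XT.lf (nat_lit 0) (nat_lit 3487915025) (nat_lit 988) (nat_lit 215057035) (nat_lit 1064) (nat_lit 5726188789) (nat_lit 193) (nat_lit 5) (nat_lit 206) (nat_lit 5) (nat_lit 207) (nat_lit 5) (nat_lit 260) (nat_lit 251) (nat_lit 209)) (XT.lf (nat_lit 0) (nat_lit 5708686673) (nat_lit 988) (nat_lit 2244838153) (nat_lit 76) (nat_lit 1696014353)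 (nat_lit 194) (nat_lit 5) (nat_lit 207) (nat_lit 5) (nat_lit 195) (nat_lit 5) (nat_lit 261) (nat_lit 251) (nat_lit 208))))))) (XT.nd (nat_lit 858) (nat_lit 3420) (nat_lit 0) (XT.nd (nat_lit 390) (nat_lit 2660) (nat_lit 0) (XT.nd (nat_lit 156) (nat_lit 1596) (nat_lit 0) (XT.nd (nat_lit 78) (nat_lit 1140) (nat_lit 0) (XT.lf (nat_lit 0) (nat_lit 5532217147) (nat_lit 988) (nat_lit 2518538003) (nat_lit 1064) (nat_lit 1830043243) (nat_lit 181) (nat_lit 5) (nat_lit 194) (nat_lit 5) (nat_lit 195) (nat_lit 5) (nat_lit 262) (nat_lit 251) (nat_lit 207)) (XT.lf (nat_lit 0) (nat_lit 388128783) (nat_lit 1140) (nat_lit 6534104548) (nat_lit 76) (nat_lit 3201151944) (nat_lit 166) (nat_lit 5) (nat_lit 181) (nat_lit 5) (nat_lit 167) (nat_lit 5) (nat_lit 263) (nat_lit 251) (nat_lit 206))) (XT.nd (nat_lit 78) (nat_lit 532) (nat_lit 0) (XT.lf (nat_lit 0) (nat_lit 1556309720) (nat_lit 1064) (nat_lit 1132120368)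 (nat_lit 1140) (nat_lit 7689005229) (nat_lit 152) (nat_lit 5) (nat_lit 166) (nat_lit 5) (nat_lit 167) (nat_lit 5) (nat_lit 264) (nat_lit 251) (nat_lit 205)) (XT.nd (nat_lit 78) (nat_lit 532) (nat_lit 0) (XT.lf (nat_lit 0) (nat_lit 5145465042) (nat_lit 1140) (nat_lit 570968991) (nat_lit 76) (nat_lit 4926644606) (nat_lit 152) (nat_lit 5) (nat_lit 167) (nat_lit 5) (nat_lit 153) (nat_lit 5) (nat_lit 265) (nat_lit 251) (nat_lit 204)) (XT.lf (nat_lit 0) (nat_lit 7749232052) (nat_lit 608) (nat_lit 2750997960) (nat_lit 76) (nat_lit 421193264) (nat_lit 145) (nat_lit 5) (nat_lit 153) (nat_lit 5) (nat_lit 146) (nat_lit 5) (nat_lit 266) (nat_lit 251) (nat_lit 203))))) (XT.nd (nat_lit 234) (nat_lit 988) (nat_lit 0) (XT.nd (nat_lit 78) (nat_lit 1140) (nat_lit 0) (XT.lf (nat_lit 0) (nat_lit 6144011309) (nat_lit 532) (nat_lit 4394392167) (nat_lit 608) (nat_lit 673754292) (nat_lit 138) (nat_lit 5) (nat_lit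 145) (nat_lit 5) (nat_lit 146) (nat_lit 5) (nat_lit 267) (nat_lit 251) (nat_lit 202)) (XT.nd (nat_lit 78) (nat_lit 532) (nat_lit 0) (XT.lf (nat_lit 0) (nat_lit 1933400021) (nat_lit 608) (nat_lit 7518083547) (nat_lit 76) (nat_lit 2064847388) (nat_lit 130) (nat_lit 5) (nat_lit 138) (nat_lit 5) (nat_lit 131) (nat_lit 5) (nat_lit 268) (nat_lit 251) (nat_lit 201)) (XT.lf (nat_lit 0) (nat_lit 1706215151) (nat_lit 532) (nat_lit 3001216651) (nat_lit 608) (nat_lit 7126680945) (nat_lit 123) (nat_lit 5) (nat_lit 130) (nat_lit 5) (nat_lit 131) (nat_lit 5) (nat_lit 269) (nat_lit 251) (nat_lit 200)))) (XT.nd (nat_lit 78) (nat_lit 988) (nat_lit 0) (XT.lf (nat_lit 0) (nat_lit 7673832124) (nat_lit 608) (nat_lit 718817936) (nat_lit 76) (nat_lit 3773631835) (nat_lit 123) (nat_lit 5) (nat_lit 131) (nat_lit 5) (nat_lit 124) (nat_lit 5) (nat_lit 270) (nat_lit 251) (nat_lit 199)) (XT.nd (nat_lit 78) (nat_lit 532)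 (nat_lit 0) (XT.lf (nat_lit 0) (nat_lit 9248835261) (nat_lit 456) (nat_lit 1601061412) (nat_lit 532) (nat_lit 1663425622) (nat_lit 117) (nat_lit 5) (nat_lit 123) (nat_lit 5) (nat_lit 124) (nat_lit 5) (nat_lit 271) (nat_lit 251) (nat_lit 198)) (XT.lf (nat_lit 0) (nat_lit 1353110775) (nat_lit 532) (nat_lit 6017711403) (nat_lit 76) (nat_lit 5504463974) (nat_lit 110) (nat_lit 5) (nat_lit 117) (nat_lit 5) (nat_lit 111) (nat_lit 5) (nat_lit 272) (nat_lit 251) (nat_lit 197)))))) (XT.nd (nat_lit 468) (nat_lit 1444) (nat_lit 0) (XT.nd (nat_lit 234) (nat_lit 1140) (nat_lit 0) (XT.nd (nat_lit 78) (nat_lit 456) (nat_lit 0) (XT.lf (nat_lit 0) (nat_lit 4288617147) (nat_lit 380) (nat_lit 234826284) (nat_lit 456) (nat_lit 8730380343) (nat_lit 105) (nat_lit 5) (nat_lit 110) (nat_lit 5) (nat_lit 111) (nat_lit 5) (nat_lit 273) (nat_lit 251) (nat_lit 196)) (XT.nd (nat_lit 78) (nat_lit 0) (nat_lit 0) (XT.lf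 (nat_lit 0) (nat_lit 1483932100) (nat_lit 456) (nat_lit 6462622860) (nat_lit 532) (nat_lit 5701991934) (nat_lit 99) (nat_lit 5) (nat_lit 105) (nat_lit 5) (nat_lit 106) (nat_lit 5) (nat_lit 274) (nat_lit 251) (nat_lit 195)) (XT.lf (nat_lit 0) (nat_lit 11594621041) (nat_lit 532) (nat_lit 1490351458) (nat_lit 76) (nat_lit 976502069) (nat_lit 99) (nat_lit 5) (nat_lit 106) (nat_lit 5) (nat_lit 100) (nat_lit 5) (nat_lit 275) (nat_lit 251) (nat_lit 194)))) (XT.nd (nat_lit 78) (nat_lit 684) (nat_lit 0) (XT.lf (nat_lit 0) (nat_lit 1024115303) (nat_lit 456) (nat_lit 4716566225) (nat_lit 76) (nat_lit 8750808394) (nat_lit 93) (nat_lit 5) (nat_lit 99) (nat_lit 5) (nat_lit 94) (nat_lit 5) (nat_lit 276) (nat_lit 251) (nat_lit 193)) (XT.nd (nat_lit 78) (nat_lit 304) (nat_lit 0) (XT.lf (nat_lit 0) (nat_lit 4692390052) (nat_lit 456) (nat_lit 8220077348) (nat_lit 76) (nat_lit 2028265175) (nat_lit 88) (nat_lit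 5) (nat_lit 94) (nat_lit 5) (nat_lit 89) (nat_lit 5) (nat_lit 277) (nat_lit 251) (nat_lit 192)) (XT.lf (nat_lit 0) (nat_lit 3367514559) (nat_lit 304) (nat_lit 5270627512) (nat_lit 380) (nat_lit 6771542460) (nat_lit 84) (nat_lit 5) (nat_lit 88) (nat_lit 5) (nat_lit 89) (nat_lit 5) (nat_lit 278) (nat_lit 251) (nat_lit 191))))) (XT.nd (nat_lit 234) (nat_lit 684) (nat_lit 0) (XT.nd (nat_lit 78) (nat_lit 760) (nat_lit 0) (XT.lf (nat_lit 0) (nat_lit 12849331433) (nat_lit 380) (nat_lit 277308159) (nat_lit 76) (nat_lit 2773465792) (nat_lit 84) (nat_lit 5) (nat_lit 89) (nat_lit 5) (nat_lit 85) (nat_lit 5) (nat_lit 279) (nat_lit 251) (nat_lit 190)) (XT.nd (nat_lit 78) (nat_lit 304) (nat_lit 0) (XT.lf (nat_lit 0) (nat_lit 969391197) (nat_lit 456) (nat_lit 4213970020) (nat_lit 76) (nat_lit 11227598158) (nat_lit 78) (nat_lit 5) (nat_lit 84) (nat_lit 5) (nat_lit 79) (nat_lit 5) (nat_lit 280) (nat_lit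 251) (nat_lit 189)) (XT.lf (nat_lit 0) (nat_lit 5202709316) (nat_lit 380) (nat_lit 8542608897) (nat_lit 76) (nat_lit 3198932434) (nat_lit 74) (nat_lit 5) (nat_lit 79) (nat_lit 5) (nat_lit 75) (nat_lit 5) (nat_lit 281) (nat_lit 251) (nat_lit 188)))) (XT.nd (nat_lit 78) (nat_lit 380) (nat_lit 0) (XT.lf (nat_lit 0) (nat_lit 4209668142) (nat_lit 304) (nat_lit 5535269704) (nat_lit 380) (nat_lit 7756406478) (nat_lit 70) (nat_lit 5) (nat_lit 74) (nat_lit 5) (nat_lit 75) (nat_lit 5) (nat_lit 282) (nat_lit 251) (nat_lit 187)) (XT.nd (nat_lit 78) (nat_lit 380) (nat_lit 0) (XT.lf (nat_lit 0) (nat_lit 14594648192) (nat_lit 380) (nat_lit 388573675) (nat_lit 76) (nat_lit 3100712255) (nat_lit 70) (nat_lit 5) (nat_lit 75) (nat_lit 5) (nat_lit 71) (nat_lit 5) (nat_lit 283) (nat_lit 251) (nat_lit 186)) (XT.lf (nat_lit 0) (nat_lit 1120826237) (nat_lit 380) (nat_lit 5388619620) (nat_lit 76) (nat_lit 12181500983)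 (nat_lit 65) (nat_lit 5) (nat_lit 70) (nat_lit 5) (nat_lit 66) (nat_lit 5) (nat_lit 284) (nat_lit 251) (nat_lit 185))))))))
noncomputable def xc72 : XT := (XT.nd (nat_lit 1716) (nat_lit 1064) (nat_lit 0) (XT.nd (nat_lit 858) (nat_lit 1216) (nat_lit 0) (XT.nd (nat_lit 390) (nat_lit 912) (nat_lit 0) (XT.nd (nat_lit 156) (nat_lit 532) (nat_lit 0) (XT.nd (nat_lit 78) (nat_lit 228) (nat_lit 0) (XT.lf (nat_lit 0) (nat_lit 5963698909) (nat_lit 380) (nat_lit 10912009866) (nat_lit 76) (nat_lit 2449378713) (nat_lit 61) (nat_lit 5) (nat_lit 66) (nat_lit 5) (nat_lit 62) (nat_lit 5) (nat_lit 285) (nat_lit 251) (nat_lit 184)) (XT.lf (nat_lit 0) (nat_lit 2971110257) (nat_lit 228) (nat_lit 8193566798) (nat_lit 304) (nat_lit 8822823331) (nat_lit 58) (nat_lit 5) (nat_lit 61) (nat_lit 5) (nat_lit 62) (nat_lit 5) (nat_lit 286) (nat_lit 251) (nat_lit 183))) (XT.nd (nat_lit 78) (nat_lit 532) (nat_lit 0) (XT.lf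 (nat_lit 0) (nat_lit 16714736532) (nat_lit 304) (nat_lit 2961541346) (nat_lit 76) (nat_lit 1004127051) (nat_lit 58) (nat_lit 5) (nat_lit 62) (nat_lit 5) (nat_lit 59) (nat_lit 5) (nat_lit 287) (nat_lit 251) (nat_lit 182)) (XT.nd (nat_lit 78) (nat_lit 228) (nat_lit 0) (XT.lf (nat_lit 0) (nat_lit 1279198871) (nat_lit 304) (nat_lit 9516031453) (nat_lit 76) (nat_lit 10607426371) (nat_lit 54) (nat_lit 5) (nat_lit 58) (nat_lit 5) (nat_lit 55) (nat_lit 5) (nat_lit 288) (nat_lit 251) (nat_lit 181)) (XT.lf (nat_lit 0) (nat_lit 5398655466) (nat_lit 228) (nat_lit 1358129058) (nat_lit 304) (nat_lit 15401520832) (nat_lit 51) (nat_lit 5) (nat_lit 54) (nat_lit 5) (nat_lit 55) (nat_lit 5) (nat_lit 289) (nat_lit 251) (nat_lit 180))))) (XT.nd (nat_lit 234) (nat_lit 380) (nat_lit 0) (XT.nd (nat_lit 78) (nat_lit 532) (nat_lit 0) (XT.lf (nat_lit 0) (nat_lit 12659334244) (nat_lit 304) (nat_lit 1818870807) (nat_lit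 76) (nat_lit 8469034057) (nat_lit 51) (nat_lit 5) (nat_lit 55) (nat_lit 5) (nat_lit 52) (nat_lit 5) (nat_lit 290) (nat_lit 251) (nat_lit 179)) (XT.nd (nat_lit 78) (nat_lit 304) (nat_lit 0) (XT.lf (nat_lit 0) (nat_lit 14087429843) (nat_lit 228) (nat_lit 4890096964) (nat_lit 304) (nat_lit 4794510805) (nat_lit 48) (nat_lit 5) (nat_lit 51) (nat_lit 5) (nat_lit 52) (nat_lit 5) (nat_lit 291) (nat_lit 251) (nat_lit 178)) (XT.lf (nat_lit 0) (nat_lit 1056197723) (nat_lit 304) (nat_lit 18426716548) (nat_lit 76) (nat_lit 5151862750) (nat_lit 44) (nat_lit 5) (nat_lit 48) (nat_lit 5) (nat_lit 45) (nat_lit 5) (nat_lit 292) (nat_lit 251) (nat_lit 177)))) (XT.nd (nat_lit 78) (nat_lit 380) (nat_lit 0) (XT.lf (nat_lit 0) (nat_lit 7224098175) (nat_lit 304) (nat_lit 2580226730) (nat_lit 76) (nat_lit 15731219475) (nat_lit 44) (nat_lit 5) (nat_lit 48) (nat_lit 5) (nat_lit 45) (nat_lit 5) (nat_lit 293) (nat_lit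 251) (nat_lit 176)) (XT.nd (nat_lit 78) (nat_lit 152) (nat_lit 0) (XT.lf (nat_lit 0) (nat_lit 13816653474) (nat_lit 304) (nat_lit 12184699833) (nat_lit 76) (nat_lit 476537122) (nat_lit 41) (nat_lit 5) (nat_lit 45) (nat_lit 5) (nat_lit 42) (nat_lit 5) (nat_lit 294) (nat_lit 251) (nat_lit 175)) (XT.lf (nat_lit 0) (nat_lit 4548067071) (nat_lit 152) (nat_lit 16335148607) (nat_lit 228) (nat_lit 6579833507) (nat_lit 39) (nat_lit 5) (nat_lit 41) (nat_lit 5) (nat_lit 42) (nat_lit 5) (nat_lit 295) (nat_lit 251) (nat_lit 174)))))) (XT.nd (nat_lit 390) (nat_lit 608) (nat_lit 0) (XT.nd (nat_lit 156) (nat_lit 304) (nat_lit 0) (XT.nd (nat_lit 78) (nat_lit 304) (nat_lit 0) (XT.lf (nat_lit 0) (nat_lit 22334114899) (nat_lit 152) (nat_lit 6070131742) (nat_lit 228) (nat_lit 90210520) (nat_lit 39) (nat_lit 5) (nat_lit 41) (nat_lit 5) (nat_lit 42) (nat_lit 5) (nat_lit 296) (nat_lit 251) (nat_lit 173)) (XT.lf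 (nat_lit 0) (nat_lit 6727255247) (nat_lit 304) (nat_lit 18063521738) (nat_lit 76) (nat_lit 4780706038) (nat_lit 35) (nat_lit 5) (nat_lit 39) (nat_lit 5) (nat_lit 36) (nat_lit 5) (nat_lit 297) (nat_lit 251) (nat_lit 172))) (XT.nd (nat_lit 78) (nat_lit 304) (nat_lit 0) (XT.lf (nat_lit 0) (nat_lit 13986316541) (nat_lit 304) (nat_lit 611037606) (nat_lit 76) (nat_lit 16101924054) (nat_lit 35) (nat_lit 5) (nat_lit 39) (nat_lit 5) (nat_lit 36) (nat_lit 5) (nat_lit 298) (nat_lit 251) (nat_lit 171)) (XT.nd (nat_lit 78) (nat_lit 152) (nat_lit 0) (XT.lf (nat_lit 0) (nat_lit 18031465540) (nat_lit 152) (nat_lit 3728537803) (nat_lit 228) (nat_lit 10118931012) (nat_lit 33) (nat_lit 5) (nat_lit 35) (nat_lit 5) (nat_lit 36) (nat_lit 5) (nat_lit 299) (nat_lit 251) (nat_lit 170)) (XT.lf (nat_lit 0) (nat_lit 4480991014) (nat_lit 152) (nat_lit 25543602508) (nat_lit 228) (nat_lit 3089933593) (nat_lit 31) (nat_lit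 5) (nat_lit 33) (nat_lit 5) (nat_lit 34) (nat_lit 5) (nat_lit 300) (nat_lit 251) (nat_lit 169))))) (XT.nd (nat_lit 234) (nat_lit 380) (nat_lit 0) (XT.nd (nat_lit 78) (nat_lit 152) (nat_lit 0) (XT.lf (nat_lit 0) (nat_lit 4367779126) (nat_lit 228) (nat_lit 10506123957) (nat_lit 76) (nat_lit 19531948308) (nat_lit 30) (nat_lit 5) (nat_lit 33) (nat_lit 5) (nat_lit 31) (nat_lit 5) (nat_lit 301) (nat_lit 251) (nat_lit 168)) (XT.nd (nat_lit 78) (nat_lit 0) (nat_lit 0) (XT.lf (nat_lit 0) (nat_lit 8633068234) (nat_lit 152) (nat_lit 3565363095) (nat_lit 228) (nat_lit 23560491938) (nat_lit 28) (nat_lit 5) (nat_lit 30) (nat_lit 5) (nat_lit 31) (nat_lit 5) (nat_lit 302) (nat_lit 251) (nat_lit 167)) (XT.lf (nat_lit 0) (nat_lit 20590605460) (nat_lit 228) (nat_lit 8339998816) (nat_lit 76) (nat_lit 8243961864) (nat_lit 28) (nat_lit 5) (nat_lit 31) (nat_lit 5) (nat_lit 29) (nat_lit 5) (nat_lit 303) (nat_lit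 251) (nat_lit 166)))) (XT.nd (nat_lit 78) (nat_lit 228) (nat_lit 0) (XT.lf (nat_lit 0) (nat_lit 11544511949) (nat_lit 152) (nat_lit 17986644715) (nat_lit 228) (nat_lit 9125987713) (nat_lit 26) (nat_lit 5) (nat_lit 28) (nat_lit 5) (nat_lit 29) (nat_lit 5) (nat_lit 304) (nat_lit 251) (nat_lit 165)) (XT.nd (nat_lit 78) (nat_lit 228) (nat_lit 0) (XT.lf (nat_lit 0) (nat_lit 32568460359) (nat_lit 152) (nat_lit 6418524169) (nat_lit 228) (nat_lit 1224835020) (nat_lit 26) (nat_lit 5) (nat_lit 28) (nat_lit 5) (nat_lit 29) (nat_lit 5) (nat_lit 305) (nat_lit 251) (nat_lit 164)) (XT.lf (nat_lit 0) (nat_lit 7097844662) (nat_lit 228) (nat_lit 28939647676) (nat_lit 76) (nat_lit 5799777514) (nat_lit 23) (nat_lit 5) (nat_lit 26) (nat_lit 5) (nat_lit 24) (nat_lit 5) (nat_lit 306) (nat_lit 251) (nat_lit 163))))))) (XT.nd (nat_lit 858) (nat_lit 456) (nat_lit 0) (XT.nd (nat_lit 390) (nat_lit 304) (nat_lit 0)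 (XT.nd (nat_lit 156) (nat_lit 152) (nat_lit 0) (XT.nd (nat_lit 78) (nat_lit 152) (nat_lit 0) (XT.lf (nat_lit 0) (nat_lit 15939301755) (nat_lit 228) (nat_lit 9021815741) (nat_lit 76) (nat_lit 18578685765) (nat_lit 23) (nat_lit 5) (nat_lit 26) (nat_lit 5) (nat_lit 24) (nat_lit 5) (nat_lit 307) (nat_lit 251) (nat_lit 162)) (XT.lf (nat_lit 0) (nat_lit 12101737659) (nat_lit 152) (nat_lit 13221704329) (nat_lit 228) (nat_lit 20001016037) (nat_lit 21) (nat_lit 5) (nat_lit 23) (nat_lit 5) (nat_lit 24) (nat_lit 5) (nat_lit 308) (nat_lit 251) (nat_lit 161))) (XT.nd (nat_lit 78) (nat_lit 152) (nat_lit 0) (XT.lf (nat_lit 0) (nat_lit 34444433941) (nat_lit 152) (nat_lit 810010692) (nat_lit 228) (nat_lit 11941583610) (nat_lit 21) (nat_lit 5) (nat_lit 23) (nat_lit 5) (nat_lit 24) (nat_lit 5) (nat_lit 309) (nat_lit 251) (nat_lit 160)) (XT.nd (nat_lit 78) (nat_lit 76) (nat_lit 0) (XT.lf (nat_lit 0) (nat_lit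 8772076291) (nat_lit 76) (nat_lit 37097145212) (nat_lit 152) (nat_lit 3286350533) (nat_lit 20) (nat_lit 5) (nat_lit 21) (nat_lit 5) (nat_lit 22) (nat_lit 4) (nat_lit 310) (nat_lit 251) (nat_lit 159)) (XT.lf (nat_lit 0) (nat_lit 5814901694) (nat_lit 152) (nat_lit 19660283698) (nat_lit 76) (nat_lit 25732451405) (nat_lit 19) (nat_lit 5) (nat_lit 21) (nat_lit 5) (nat_lit 20) (nat_lit 5) (nat_lit 311) (nat_lit 251) (nat_lit 158))))) (XT.nd (nat_lit 234) (nat_lit 152) (nat_lit 0) (XT.nd (nat_lit 78) (nat_lit 0) (nat_lit 0) (XT.lf (nat_lit 0) (nat_lit 2083445356) (nat_lit 152) (nat_lit 13226870002) (nat_lit 228) (nat_lit 38050811705) (nat_lit 17) (nat_lit 5) (nat_lit 19) (nat_lit 5) (nat_lit 20) (nat_lit 5) (nat_lit 312) (nat_lit 251) (nat_lit 157)) (XT.nd (nat_lit 78) (nat_lit 0) (nat_lit 0) (XT.lf (nat_lit 0) (nat_lit 25302736775) (nat_lit 152) (nat_lit 166985996) (nat_lit 228) (nat_lit 30146902266)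 (nat_lit 17) (nat_lit 5) (nat_lit 19) (nat_lit 5) (nat_lit 20) (nat_lit 5) (nat_lit 313) (nat_lit 251) (nat_lit 156)) (XT.lf (nat_lit 0) (nat_lit 36254691343) (nat_lit 228) (nat_lit 8453813224) (nat_lit 76) (nat_lit 13272875035) (nat_lit 17) (nat_lit 5) (nat_lit 20) (nat_lit 5) (nat_lit 18) (nat_lit 4) (nat_lit 314) (nat_lit 251) (nat_lit 155)))) (XT.nd (nat_lit 78) (nat_lit 76) (nat_lit 0) (XT.lf (nat_lit 0) (nat_lit 14765035662) (nat_lit 76) (nat_lit 32945469034) (nat_lit 152) (nat_lit 12749928274) (nat_lit 16) (nat_lit 5) (nat_lit 17) (nat_lit 5) (nat_lit 18) (nat_lit 4) (nat_lit 315) (nat_lit 251) (nat_lit 154)) (XT.nd (nat_lit 78) (nat_lit 76) (nat_lit 0) (XT.lf (nat_lit 0) (nat_lit 39301415639) (nat_lit 76) (nat_lit 20513077420) (nat_lit 152) (nat_lit 3246692958) (nat_lit 16) (nat_lit 5) (nat_lit 17) (nat_lit 5) (nat_lit 18) (nat_lit 4) (nat_lit 316) (nat_lit 251) (nat_lit 153)) (XT.lf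 (nat_lit 0) (nat_lit 6589140683) (nat_lit 152) (nat_lit 811417647) (nat_lit 76) (nat_lit 58389821115) (nat_lit 15) (nat_lit 5) (nat_lit 17) (nat_lit 5) (nat_lit 16) (nat_lit 5) (nat_lit 317) (nat_lit 251) (nat_lit 152)))))) (XT.nd (nat_lit 390) (nat_lit 228) (nat_lit 0) (XT.nd (nat_lit 156) (nat_lit 76) (nat_lit 0) (XT.nd (nat_lit 78) (nat_lit 0) (nat_lit 0) (XT.lf (nat_lit 0) (nat_lit 17131063775) (nat_lit 228) (nat_lit 45016714623) (nat_lit 76) (nat_lit 6498853970) (nat_lit 13) (nat_lit 5) (nat_lit 16) (nat_lit 5) (nat_lit 14) (nat_lit 4) (nat_lit 318) (nat_lit 251) (nat_lit 151)) (XT.lf (nat_lit 0) (nat_lit 28272807409) (nat_lit 228) (nat_lit 22428090904) (nat_lit 76) (nat_lit 20942625057) (nat_lit 13) (nat_lit 5) (nat_lit 16) (nat_lit 5) (nat_lit 14) (nat_lit 4) (nat_lit 319) (nat_lit 251) (nat_lit 150))) (XT.nd (nat_lit 78) (nat_lit 0) (nat_lit 0) (XT.lf (nat_lit 0) (nat_lit 1298015462)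 (nat_lit 76) (nat_lit 38676188869) (nat_lit 152) (nat_lit 34815984427) (nat_lit 12) (nat_lit 5) (nat_lit 13) (nat_lit 5) (nat_lit 14) (nat_lit 4) (nat_lit 320) (nat_lit 251) (nat_lit 149)) (XT.nd (nat_lit 78) (nat_lit 0) (nat_lit 0) (XT.lf (nat_lit 0) (nat_lit 26662326042) (nat_lit 76) (nat_lit 25819621896) (nat_lit 152) (nat_lit 25605607671) (nat_lit 12) (nat_lit 5) (nat_lit 13) (nat_lit 5) (nat_lit 14) (nat_lit 4) (nat_lit 321) (nat_lit 251) (nat_lit 148)) (XT.lf (nat_lit 0) (nat_lit 53278869065) (nat_lit 76) (nat_lit 12327066259) (nat_lit 152) (nat_lit 15944135965) (nat_lit 12) (nat_lit 5) (nat_lit 13) (nat_lit 5) (nat_lit 14) (nat_lit 4) (nat_lit 322) (nat_lit 251) (nat_lit 147))))) (XT.nd (nat_lit 234) (nat_lit 76) (nat_lit 0) (XT.nd (nat_lit 78) (nat_lit 152) (nat_lit 0) (XT.lf (nat_lit 0) (nat_lit 79395039796) (nat_lit 152) (nat_lit 3992588349) (nat_lit 0) (nat_lit 1797822970) (nat_lit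 12) (nat_lit 5) (nat_lit 14) (nat_lit 4) (nat_lit 12) (nat_lit 4) (nat_lit 323) (nat_lit 251) (nat_lit 146)) (XT.nd (nat_lit 78) (nat_lit 0) (nat_lit 0) (XT.lf (nat_lit 0) (nat_lit 5104653095) (nat_lit 152) (nat_lit 67256919619) (nat_lit 76) (nat_lit 16629766847) (nat_lit 10) (nat_lit 5) (nat_lit 12) (nat_lit 5) (nat_lit 11) (nat_lit 4) (nat_lit 324) (nat_lit 251) (nat_lit 145)) (XT.lf (nat_lit 0) (nat_lit 16459158719) (nat_lit 152) (nat_lit 44228367087) (nat_lit 76) (nat_lit 32297248611) (nat_lit 10) (nat_lit 5) (nat_lit 12) (nat_lit 5) (nat_lit 11) (nat_lit 4) (nat_lit 325) (nat_lit 251) (nat_lit 144)))) (XT.nd (nat_lit 78) (nat_lit 76) (nat_lit 0) (XT.lf (nat_lit 0) (nat_lit 28373601291) (nat_lit 152) (nat_lit 20062138080) (nat_lit 76) (nat_lit 48742380238) (nat_lit 10) (nat_lit 5) (nat_lit 12) (nat_lit 5) (nat_lit 11) (nat_lit 4) (nat_lit 326) (nat_lit 251) (nat_lit 143)) (XT.nd (nat_lit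 78) (nat_lit 0) (nat_lit 0) (XT.lf (nat_lit 0) (nat_lit 5404772624) (nat_lit 76) (nat_lit 35523529888) (nat_lit 152) (nat_lit 60651498158) (nat_lit 9) (nat_lit 5) (nat_lit 10) (nat_lit 5) (nat_lit 11) (nat_lit 4) (nat_lit 327) (nat_lit 251) (nat_lit 142)) (XT.lf (nat_lit 0) (nat_lit 32551547614) (nat_lit 76) (nat_lit 21758526662) (nat_lit 152) (nat_lit 51885515927) (nat_lit 9) (nat_lit 5) (nat_lit 10) (nat_lit 5) (nat_lit 11) (nat_lit 4) (nat_lit 328) (nat_lit 251) (nat_lit 141))))))))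
noncomputable def xc73 : XT := (XT.nd (nat_lit 33072) (nat_lit 0) (nat_lit 2660) (XT.nd (nat_lit 32214) (nat_lit 0) (nat_lit 8208) (XT.nd (nat_lit 31746) (nat_lit 0) (nat_lit 13832) (XT.nd (nat_lit 31512) (nat_lit 0) (nat_lit 14668) (XT.nd (nat_lit 78) (nat_lit 0) (nat_lit 0) (XT.lf (nat_lit 0) (nat_lit 61043546181) (nat_lit 76) (nat_lit 7310544133) (nat_lit 152) (nat_lit 42688288495) (nat_lit 9) (nat_lit 5) (nat_lit 10) (nat_lit 5) (nat_lit 11) (nat_lit 4) (nat_lit 329) (nat_lit 251) (nat_lit 140)) (XT.lf (nat_lit 0) (nat_lit 83169294073) (nat_lit 152) (nat_lit 25258605360) (nat_lit 0) (nat_lit 7701541872) (nat_lit 9) (nat_lit 5) (nat_lit 11) (nat_lit 4) (nat_lit 9) (nat_lit 4) (nat_lit 330) (nat_lit 251) (nat_lit 139))) (XT.nd (nat_lit 78) (nat_lit 912) (nat_lit 0) (XT.lf (nat_lit 0) (nat_lit 1572141260) (nat_lit 0) (nat_lit 1572141260) (nat_lit 836) (nat_lit 935286561) (nat_lit 214) (nat_lit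 5) (nat_lit 214) (nat_lit 3) (nat_lit 225) (nat_lit 3) (nat_lit 252) (nat_lit 252) (nat_lit 216)) (XT.nd (nat_lit 78) (nat_lit 912) (nat_lit 0) (XT.lf (nat_lit 76) (nat_lit 910849773) (nat_lit 0) (nat_lit 7282499490) (nat_lit 912) (nat_lit 113382416) (nat_lit 215) (nat_lit 5) (nat_lit 214) (nat_lit 5) (nat_lit 226) (nat_lit 5) (nat_lit 253) (nat_lit 252) (nat_lit 215)) (XT.lf (nat_lit 0) (nat_lit 1669683362) (nat_lit 912) (nat_lit 1334511775) (nat_lit 988) (nat_lit 5458102132) (nat_lit 202) (nat_lit 5) (nat_lit 214) (nat_lit 5) (nat_lit 215) (nat_lit 5) (nat_lit 254) (nat_lit 252) (nat_lit 214))))) (XT.nd (nat_lit 234) (nat_lit 912) (nat_lit 0) (XT.nd (nat_lit 78) (nat_lit 0) (nat_lit 0) (XT.lf (nat_lit 0) (nat_lit 3496809995) (nat_lit 912) (nat_lit 3575252231) (nat_lit 988) (nat_lit 1555061918) (nat_lit 203) (nat_lit 5) (nat_lit 215) (nat_lit 5) (nat_lit 216) (nat_lit 5) (nat_lit 255) (nat_lit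 252) (nat_lit 213)) (XT.nd (nat_lit 78) (nat_lit 0) (nat_lit 76) (XT.lf (nat_lit 76) (nat_lit 2950720830) (nat_lit 0) (nat_lit 2435346856) (nat_lit 988) (nat_lit 3415224540) (nat_lit 204) (nat_lit 5) (nat_lit 203) (nat_lit 5) (nat_lit 216) (nat_lit 5) (nat_lit 256) (nat_lit 252) (nat_lit 212)) (XT.lf (nat_lit 76) (nat_lit 823150624) (nat_lit 0) (nat_lit 6517948044) (nat_lit 988) (nat_lit 1644143210) (nat_lit 205) (nat_lit 5) (nat_lit 204) (nat_lit 5) (nat_lit 217) (nat_lit 5) (nat_lit 257) (nat_lit 252) (nat_lit 211)))) (XT.nd (nat_lit 78) (nat_lit 0) (nat_lit 76) (XT.lf (nat_lit 0) (nat_lit 202440841) (nat_lit 988) (nat_lit 1315053857) (nat_lit 1064) (nat_lit 7661294029) (nat_lit 191) (nat_lit 5) (nat_lit 204) (nat_lit 5) (nat_lit 205) (nat_lit 5) (nat_lit 258) (nat_lit 252) (nat_lit 210)) (XT.nd (nat_lit 78) (nat_lit 0) (nat_lit 0) (XT.lf (nat_lit 0) (nat_lit 2111623329) (nat_lit 988)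 (nat_lit 3507462227) (nat_lit 1064) (nat_lit 3762497936) (nat_lit 192) (nat_lit 5) (nat_lit 205) (nat_lit 5) (nat_lit 206) (nat_lit 5) (nat_lit 259) (nat_lit 252) (nat_lit 209)) (XT.lf (nat_lit 76) (nat_lit 3853609828) (nat_lit 0) (nat_lit 242887217) (nat_lit 1064) (nat_lit 5498792188) (nat_lit 193) (nat_lit 5) (nat_lit 192) (nat_lit 5) (nat_lit 206) (nat_lit 5) (nat_lit 260) (nat_lit 252) (nat_lit 208)))))) (XT.nd (nat_lit 390) (nat_lit 2660) (nat_lit 0) (XT.nd (nat_lit 156) (nat_lit 3116) (nat_lit 0) (XT.nd (nat_lit 78) (nat_lit 0) (nat_lit 76) (XT.lf (nat_lit 76) (nat_lit 1756090631) (nat_lit 0) (nat_lit 4447711750) (nat_lit 1064) (nat_lit 3615351960) (nat_lit 194) (nat_lit 5) (nat_lit 193) (nat_lit 5) (nat_lit 207) (nat_lit 5) (nat_lit 261) (nat_lit 252) (nat_lit 207)) (XT.lf (nat_lit 0) (nat_lit 8411595497) (nat_lit 988) (nat_lit 382525054) (nat_lit 76) (nat_lit 1260400111) (nat_lit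 194) (nat_lit 5) (nat_lit 207) (nat_lit 5) (nat_lit 195) (nat_lit 5) (nat_lit 262) (nat_lit 252) (nat_lit 206))) (XT.nd (nat_lit 78) (nat_lit 2128) (nat_lit 0) (XT.lf (nat_lit 0) (nat_lit 464364356) (nat_lit 1064) (nat_lit 2578249805) (nat_lit 76) (nat_lit 7257729262) (nat_lit 180) (nat_lit 5) (nat_lit 194) (nat_lit 5) (nat_lit 181) (nat_lit 5) (nat_lit 263) (nat_lit 252) (nat_lit 205)) (XT.nd (nat_lit 78) (nat_lit 1064) (nat_lit 0) (XT.lf (nat_lit 0) (nat_lit 2659218110) (nat_lit 1140) (nat_lit 4872653972) (nat_lit 76) (nat_lit 3025754241) (nat_lit 166) (nat_lit 5) (nat_lit 181) (nat_lit 5) (nat_lit 167) (nat_lit 5) (nat_lit 264) (nat_lit 252) (nat_lit 204)) (XT.lf (nat_lit 0) (nat_lit 3565290923) (nat_lit 1064) (nat_lit 1420584109) (nat_lit 1140) (nat_lit 5841372081) (nat_lit 152) (nat_lit 5) (nat_lit 166) (nat_lit 5) (nat_lit 167) (nat_lit 5) (nat_lit 265) (nat_lit 252) (nat_lit 203)))))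 (XT.nd (nat_lit 234) (nat_lit 1520) (nat_lit 0) (XT.nd (nat_lit 78) (nat_lit 608) (nat_lit 0) (XT.lf (nat_lit 0) (nat_lit 1333605477) (nat_lit 532) (nat_lit 6139851946) (nat_lit 608) (nat_lit 3635682844) (nat_lit 145) (nat_lit 5) (nat_lit 152) (nat_lit 5) (nat_lit 153) (nat_lit 5) (nat_lit 266) (nat_lit 252) (nat_lit 202)) (XT.nd (nat_lit 78) (nat_lit 608) (nat_lit 0) (XT.lf (nat_lit 0) (nat_lit 10113200593) (nat_lit 608) (nat_lit 971797775) (nat_lit 76) (nat_lit 319419217) (nat_lit 145) (nat_lit 5) (nat_lit 153) (nat_lit 5) (nat_lit 146) (nat_lit 5) (nat_lit 267) (nat_lit 252) (nat_lit 201)) (XT.lf (nat_lit 0) (nat_lit 1228993108) (nat_lit 608) (nat_lit 3411185807) (nat_lit 76) (nat_lit 7071615173) (nat_lit 137) (nat_lit 5) (nat_lit 145) (nat_lit 5) (nat_lit 138) (nat_lit 5) (nat_lit 268) (nat_lit 252) (nat_lit 200)))) (XT.nd (nat_lit 78) (nat_lit 988) (nat_lit 0) (XT.lf (nat_lit 0) (nat_lit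 3878921769) (nat_lit 608) (nat_lit 5986191288) (nat_lit 76) (nat_lit 2168238733) (nat_lit 130) (nat_lit 5) (nat_lit 138) (nat_lit 5) (nat_lit 131) (nat_lit 5) (nat_lit 269) (nat_lit 252) (nat_lit 199)) (XT.nd (nat_lit 78) (nat_lit 456) (nat_lit 0) (XT.lf (nat_lit 0) (nat_lit 3644635743) (nat_lit 532) (nat_lit 3076792062) (nat_lit 608) (nat_lit 5647860265) (nat_lit 123) (nat_lit 5) (nat_lit 130) (nat_lit 5) (nat_lit 131) (nat_lit 5) (nat_lit 270) (nat_lit 252) (nat_lit 198)) (XT.lf (nat_lit 0) (nat_lit 1084425207) (nat_lit 456) (nat_lit 8678132598) (nat_lit 532) (nat_lit 2957866609) (nat_lit 117) (nat_lit 5) (nat_lit 123) (nat_lit 5) (nat_lit 124) (nat_lit 5) (nat_lit 271) (nat_lit 252) (nat_lit 197))))))) (XT.nd (nat_lit 858) (nat_lit 2280) (nat_lit 0) (XT.nd (nat_lit 390) (nat_lit 1520) (nat_lit 0) (XT.nd (nat_lit 156) (nat_lit 1216) (nat_lit 0) (XT.nd (nat_lit 78) (nat_lit 532) (nat_lit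 0) (XT.lf (nat_lit 0) (nat_lit 11477186760) (nat_lit 456) (nat_lit 1546093959) (nat_lit 532) (nat_lit 63904297) (nat_lit 117) (nat_lit 5) (nat_lit 123) (nat_lit 5) (nat_lit 124) (nat_lit 5) (nat_lit 272) (nat_lit 252) (nat_lit 196)) (XT.lf (nat_lit 0) (nat_lit 3010435144) (nat_lit 532) (nat_lit 4519951461) (nat_lit 76) (nat_lit 5938313856) (nat_lit 110) (nat_lit 5) (nat_lit 117) (nat_lit 5) (nat_lit 111) (nat_lit 5) (nat_lit 273) (nat_lit 252) (nat_lit 195))) (XT.nd (nat_lit 78) (nat_lit 836) (nat_lit 0) (XT.lf (nat_lit 0) (nat_lit 6250135704) (nat_lit 380) (nat_lit 30244289) (nat_lit 456) (nat_lit 7587678767) (nat_lit 105) (nat_lit 5) (nat_lit 110) (nat_lit 5) (nat_lit 111) (nat_lit 5) (nat_lit 274) (nat_lit 252) (nat_lit 194)) (XT.nd (nat_lit 78) (nat_lit 380) (nat_lit 0) (XT.lf (nat_lit 0) (nat_lit 3300183876) (nat_lit 456) (nat_lit 6520295792) (nat_lit 532) (nat_lit 4463784025) (nat_lit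 99) (nat_lit 5) (nat_lit 105) (nat_lit 5) (nat_lit 106) (nat_lit 5) (nat_lit 275) (nat_lit 252) (nat_lit 193)) (XT.lf (nat_lit 0) (nat_lit 138999513) (nat_lit 380) (nat_lit 13445401782) (nat_lit 456) (nat_lit 1135547775) (nat_lit 94) (nat_lit 5) (nat_lit 99) (nat_lit 5) (nat_lit 100) (nat_lit 5) (nat_lit 276) (nat_lit 252) (nat_lit 192))))) (XT.nd (nat_lit 234) (nat_lit 760) (nat_lit 0) (XT.nd (nat_lit 78) (nat_lit 684) (nat_lit 0) (XT.lf (nat_lit 0) (nat_lit 2448422736) (nat_lit 456) (nat_lit 3270549661) (nat_lit 76) (nat_lit 9453774375) (nat_lit 93) (nat_lit 5) (nat_lit 99) (nat_lit 5) (nat_lit 94) (nat_lit 5) (nat_lit 277) (nat_lit 252) (nat_lit 191)) (XT.nd (nat_lit 78) (nat_lit 304) (nat_lit 0) (XT.lf (nat_lit 0) (nat_lit 6253410912) (nat_lit 456) (nat_lit 6958702063) (nat_lit 76) (nat_lit 2433840762) (nat_lit 88) (nat_lit 5) (nat_lit 94) (nat_lit 5) (nat_lit 89) (nat_lit 5) (nat_lit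 278) (nat_lit 252) (nat_lit 190)) (XT.lf (nat_lit 0) (nat_lit 5160331027) (nat_lit 304) (nat_lit 5188572655) (nat_lit 380) (nat_lit 5790972370) (nat_lit 84) (nat_lit 5) (nat_lit 88) (nat_lit 5) (nat_lit 89) (nat_lit 5) (nat_lit 279) (nat_lit 252) (nat_lit 189)))) (XT.nd (nat_lit 78) (nat_lit 380) (nat_lit 0) (XT.lf (nat_lit 0) (nat_lit 1316818940) (nat_lit 380) (nat_lit 13408757603) (nat_lit 456) (nat_lit 1930685448) (nat_lit 79) (nat_lit 5) (nat_lit 84) (nat_lit 5) (nat_lit 85) (nat_lit 5) (nat_lit 280) (nat_lit 252) (nat_lit 188)) (XT.nd (nat_lit 78) (nat_lit 304) (nat_lit 0) (XT.lf (nat_lit 0) (nat_lit 2208981297) (nat_lit 456) (nat_lit 2862325473) (nat_lit 76) (nat_lit 12122769957) (nat_lit 78) (nat_lit 5) (nat_lit 84) (nat_lit 5) (nat_lit 79) (nat_lit 5) (nat_lit 281) (nat_lit 252) (nat_lit 187)) (XT.lf (nat_lit 0) (nat_lit 6615375925) (nat_lit 380) (nat_lit 7419637632) (nat_lit 76)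 (nat_lit 3720257497) (nat_lit 74) (nat_lit 5) (nat_lit 79) (nat_lit 5) (nat_lit 75) (nat_lit 5) (nat_lit 282) (nat_lit 252) (nat_lit 186)))))) (XT.nd (nat_lit 390) (nat_lit 1064) (nat_lit 0) (XT.nd (nat_lit 156) (nat_lit 608) (nat_lit 0) (XT.nd (nat_lit 78) (nat_lit 304) (nat_lit 0) (XT.lf (nat_lit 0) (nat_lit 5925819904) (nat_lit 304) (nat_lit 5418486948) (nat_lit 380) (nat_lit 6997201795) (nat_lit 70) (nat_lit 5) (nat_lit 74) (nat_lit 5) (nat_lit 75) (nat_lit 5) (nat_lit 283) (nat_lit 252) (nat_lit 185)) (XT.lf (nat_lit 0) (nat_lit 1076614108) (nat_lit 304) (nat_lit 15320882348) (nat_lit 380) (nat_lit 2556974963) (nat_lit 66) (nat_lit 5) (nat_lit 70) (nat_lit 5) (nat_lit 71) (nat_lit 5) (nat_lit 284) (nat_lit 252) (nat_lit 184))) (XT.nd (nat_lit 78) (nat_lit 532) (nat_lit 0) (XT.lf (nat_lit 0) (nat_lit 2214217758) (nat_lit 380) (nat_lit 4214396012) (nat_lit 76) (nat_lit 13164404444) (nat_lit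 65) (nat_lit 5) (nat_lit 70) (nat_lit 5) (nat_lit 66) (nat_lit 5) (nat_lit 285) (nat_lit 252) (nat_lit 183)) (XT.nd (nat_lit 78) (nat_lit 228) (nat_lit 0) (XT.lf (nat_lit 0) (nat_lit 7267169060) (nat_lit 380) (nat_lit 10027857084) (nat_lit 76) (nat_lit 2964866247) (nat_lit 61) (nat_lit 5) (nat_lit 66) (nat_lit 5) (nat_lit 62) (nat_lit 5) (nat_lit 286) (nat_lit 252) (nat_lit 182)) (XT.lf (nat_lit 0) (nat_lit 4508435455) (nat_lit 228) (nat_lit 8185239637) (nat_lit 304) (nat_lit 8262847943) (nat_lit 58) (nat_lit 5) (nat_lit 61) (nat_lit 5) (nat_lit 62) (nat_lit 5) (nat_lit 287) (nat_lit 252) (nat_lit 181))))) (XT.nd (nat_lit 234) (nat_lit 532) (nat_lit 0) (XT.nd (nat_lit 78) (nat_lit 532) (nat_lit 0) (XT.lf (nat_lit 0) (nat_lit 18478837462) (nat_lit 304) (nat_lit 1761900384) (nat_lit 76) (nat_lit 1444665506) (nat_lit 58) (nat_lit 5) (nat_lit 62) (nat_lit 5) (nat_lit 59) (nat_lit 5) (nat_lit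 288) (nat_lit 252) (nat_lit 180)) (XT.nd (nat_lit 78) (nat_lit 228) (nat_lit 0) (XT.lf (nat_lit 0) (nat_lit 2249870835) (nat_lit 304) (nat_lit 8663619053) (nat_lit 76) (nat_lit 11531015618) (nat_lit 54) (nat_lit 5) (nat_lit 58) (nat_lit 5) (nat_lit 55) (nat_lit 5) (nat_lit 289) (nat_lit 252) (nat_lit 179)) (XT.lf (nat_lit 0) (nat_lit 6958729224) (nat_lit 228) (nat_lit 1011831408) (nat_lit 304) (nat_lit 15268350777) (nat_lit 51) (nat_lit 5) (nat_lit 54) (nat_lit 5) (nat_lit 55) (nat_lit 5) (nat_lit 290) (nat_lit 252) (nat_lit 178)))) (XT.nd (nat_lit 78) (nat_lit 532) (nat_lit 0) (XT.lf (nat_lit 0) (nat_lit 14130318542) (nat_lit 304) (nat_lit 658891856) (nat_lit 76) (nat_lit 9279268131) (nat_lit 51) (nat_lit 5) (nat_lit 55) (nat_lit 5) (nat_lit 52) (nat_lit 5) (nat_lit 291) (nat_lit 252) (nat_lit 177)) (XT.nd (nat_lit 78) (nat_lit 304) (nat_lit 0) (XT.lf (nat_lit 0) (nat_lit 16006866384) (nat_lit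 228) (nat_lit 4729328698) (nat_lit 304) (nat_lit 4199215408) (nat_lit 48) (nat_lit 5) (nat_lit 51) (nat_lit 5) (nat_lit 52) (nat_lit 5) (nat_lit 292) (nat_lit 252) (nat_lit 176)) (XT.lf (nat_lit 0) (nat_lit 1904152889) (nat_lit 304) (nat_lit 18130405450) (nat_lit 76) (nat_lit 5807238408) (nat_lit 44) (nat_lit 5) (nat_lit 48) (nat_lit 5) (nat_lit 45) (nat_lit 5) (nat_lit 293) (nat_lit 252) (nat_lit 175))))))))
noncomputable def xc74 : XT := (XT.nd (nat_lit 1716) (nat_lit 608) (nat_lit 0) (XT.nd (nat_lit 858) (nat_lit 836) (nat_lit 0) (XT.nd (nat_lit 390) (nat_lit 532) (nat_lit 0) (XT.nd (nat_lit 156) (nat_lit 456) (nat_lit 0) (XT.nd (nat_lit 78) (nat_lit 228) (nat_lit 0) (XT.lf (nat_lit 0) (nat_lit 8342584303) (nat_lit 304) (nat_lit 1549574327) (nat_lit 76) (nat_lit 16896620945) (nat_lit 44) (nat_lit 5) (nat_lit 48) (nat_lit 5) (nat_lit 45) (nat_lit 5) (nat_lit 294) (nat_lit 252) (nat_lit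 174)) (XT.lf (nat_lit 0) (nat_lit 15243325182) (nat_lit 304) (nat_lit 11648557769) (nat_lit 76) (nat_lit 887042460) (nat_lit 41) (nat_lit 5) (nat_lit 45) (nat_lit 5) (nat_lit 42) (nat_lit 5) (nat_lit 295) (nat_lit 252) (nat_lit 173))) (XT.nd (nat_lit 78) (nat_lit 304) (nat_lit 0) (XT.lf (nat_lit 0) (nat_lit 5888015477) (nat_lit 152) (nat_lit 16750854528) (nat_lit 228) (nat_lit 6175239815) (nat_lit 39) (nat_lit 5) (nat_lit 41) (nat_lit 5) (nat_lit 42) (nat_lit 5) (nat_lit 296) (nat_lit 252) (nat_lit 172)) (XT.nd (nat_lit 78) (nat_lit 228) (nat_lit 0) (XT.lf (nat_lit 0) (nat_lit 592146801) (nat_lit 228) (nat_lit 5393558188) (nat_lit 76) (nat_lit 23912261037) (nat_lit 38) (nat_lit 5) (nat_lit 41) (nat_lit 5) (nat_lit 39) (nat_lit 5) (nat_lit 297) (nat_lit 252) (nat_lit 171)) (XT.lf (nat_lit 0) (nat_lit 7729703864) (nat_lit 304) (nat_lit 17906718728) (nat_lit 76) (nat_lit 5392994174) (nat_lit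 35) (nat_lit 5) (nat_lit 39) (nat_lit 5) (nat_lit 36) (nat_lit 5) (nat_lit 298) (nat_lit 252) (nat_lit 170))))) (XT.nd (nat_lit 234) (nat_lit 228) (nat_lit 0) (XT.nd (nat_lit 78) (nat_lit 152) (nat_lit 0) (XT.lf (nat_lit 0) (nat_lit 375236632) (nat_lit 152) (nat_lit 14948370220) (nat_lit 228) (nat_lit 16890869518) (nat_lit 33) (nat_lit 5) (nat_lit 35) (nat_lit 5) (nat_lit 36) (nat_lit 5) (nat_lit 299) (nat_lit 252) (nat_lit 169)) (XT.nd (nat_lit 78) (nat_lit 152) (nat_lit 0) (XT.lf (nat_lit 0) (nat_lit 19913605491) (nat_lit 152) (nat_lit 3547983331) (nat_lit 228) (nat_lit 9992288018) (nat_lit 33) (nat_lit 5) (nat_lit 35) (nat_lit 5) (nat_lit 36) (nat_lit 5) (nat_lit 300) (nat_lit 252) (nat_lit 168)) (XT.lf (nat_lit 0) (nat_lit 5672532442) (nat_lit 152) (nat_lit 26450317510) (nat_lit 228) (nat_lit 2628924456) (nat_lit 31) (nat_lit 5) (nat_lit 33) (nat_lit 5) (nat_lit 34) (nat_lit 5) (nat_lit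 301) (nat_lit 252) (nat_lit 167)))) (XT.nd (nat_lit 78) (nat_lit 152) (nat_lit 0) (XT.lf (nat_lit 0) (nat_lit 5160925303) (nat_lit 228) (nat_lit 10098045087) (nat_lit 76) (nat_lit 20849405419) (nat_lit 30) (nat_lit 5) (nat_lit 33) (nat_lit 5) (nat_lit 31) (nat_lit 5) (nat_lit 302) (nat_lit 252) (nat_lit 166)) (XT.nd (nat_lit 78) (nat_lit 0) (nat_lit 0) (XT.lf (nat_lit 0) (nat_lit 9971351419) (nat_lit 152) (nat_lit 3393104386) (nat_lit 228) (nat_lit 24165230123) (nat_lit 28) (nat_lit 5) (nat_lit 30) (nat_lit 5) (nat_lit 31) (nat_lit 5) (nat_lit 303) (nat_lit 252) (nat_lit 165)) (XT.lf (nat_lit 0) (nat_lit 22152966578) (nat_lit 228) (nat_lit 7880385617) (nat_lit 76) (nat_lit 8983480741) (nat_lit 28) (nat_lit 5) (nat_lit 31) (nat_lit 5) (nat_lit 29) (nat_lit 5) (nat_lit 304) (nat_lit 252) (nat_lit 164)))))) (XT.nd (nat_lit 390) (nat_lit 304) (nat_lit 0) (XT.nd (nat_lit 156) (nat_lit 380) (nat_lit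 0) (XT.nd (nat_lit 78) (nat_lit 0) (nat_lit 0) (XT.lf (nat_lit 0) (nat_lit 12973222747) (nat_lit 152) (nat_lit 18550134694) (nat_lit 228) (nat_lit 9050720974) (nat_lit 26) (nat_lit 5) (nat_lit 28) (nat_lit 5) (nat_lit 29) (nat_lit 5) (nat_lit 305) (nat_lit 252) (nat_lit 163)) (XT.lf (nat_lit 0) (nat_lit 35007821664) (nat_lit 152) (nat_lit 6419600610) (nat_lit 228) (nat_lit 779823318) (nat_lit 26) (nat_lit 5) (nat_lit 28) (nat_lit 5) (nat_lit 29) (nat_lit 5) (nat_lit 306) (nat_lit 252) (nat_lit 162))) (XT.nd (nat_lit 78) (nat_lit 152) (nat_lit 0) (XT.lf (nat_lit 0) (nat_lit 7936192567) (nat_lit 228) (nat_lit 29577171964) (nat_lit 76) (nat_lit 6400865442) (nat_lit 23) (nat_lit 5) (nat_lit 26) (nat_lit 5) (nat_lit 24) (nat_lit 5) (nat_lit 307) (nat_lit 252) (nat_lit 161)) (XT.nd (nat_lit 78) (nat_lit 152) (nat_lit 0) (XT.lf (nat_lit 0) (nat_lit 17196700816) (nat_lit 228) (nat_lit 8701994055)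 (nat_lit 76) (nat_lit 19803904864) (nat_lit 23) (nat_lit 5) (nat_lit 26) (nat_lit 5) (nat_lit 24) (nat_lit 5) (nat_lit 308) (nat_lit 252) (nat_lit 160)) (XT.lf (nat_lit 0) (nat_lit 13455638964) (nat_lit 152) (nat_lit 13579681732) (nat_lit 228) (nat_lit 20541626490) (nat_lit 21) (nat_lit 5) (nat_lit 23) (nat_lit 5) (nat_lit 24) (nat_lit 5) (nat_lit 309) (nat_lit 252) (nat_lit 159))))) (XT.nd (nat_lit 234) (nat_lit 152) (nat_lit 0) (XT.nd (nat_lit 78) (nat_lit 152) (nat_lit 0) (XT.lf (nat_lit 0) (nat_lit 36879812230) (nat_lit 152) (nat_lit 561837119) (nat_lit 228) (nat_lit 12101100553) (nat_lit 21) (nat_lit 5) (nat_lit 23) (nat_lit 5) (nat_lit 24) (nat_lit 5) (nat_lit 310) (nat_lit 252) (nat_lit 158)) (XT.nd (nat_lit 78) (nat_lit 76) (nat_lit 0) (XT.lf (nat_lit 0) (nat_lit 9913403661) (nat_lit 76) (nat_lit 38662945732) (nat_lit 152) (nat_lit 3024262405) (nat_lit 20) (nat_lit 5) (nat_lit 21)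 (nat_lit 5) (nat_lit 22) (nat_lit 4) (nat_lit 311) (nat_lit 252) (nat_lit 157)) (XT.lf (nat_lit 0) (nat_lit 6503822916) (nat_lit 152) (nat_lit 19965808812) (nat_lit 76) (nat_lit 27286137568) (nat_lit 19) (nat_lit 5) (nat_lit 21) (nat_lit 5) (nat_lit 20) (nat_lit 5) (nat_lit 312) (nat_lit 252) (nat_lit 156)))) (XT.nd (nat_lit 78) (nat_lit 0) (nat_lit 0) (XT.lf (nat_lit 0) (nat_lit 2845686607) (nat_lit 152) (nat_lit 13615685651) (nat_lit 228) (nat_lit 39555955348) (nat_lit 17) (nat_lit 5) (nat_lit 19) (nat_lit 5) (nat_lit 20) (nat_lit 5) (nat_lit 313) (nat_lit 252) (nat_lit 155)) (XT.nd (nat_lit 78) (nat_lit 0) (nat_lit 0) (XT.lf (nat_lit 0) (nat_lit 27111200466) (nat_lit 228) (nat_lit 31192368589) (nat_lit 76) (nat_lit 82571700) (nat_lit 17) (nat_lit 5) (nat_lit 20) (nat_lit 5) (nat_lit 18) (nat_lit 4) (nat_lit 314) (nat_lit 252) (nat_lit 154)) (XT.lf (nat_lit 0) (nat_lit 38419499231) (nat_lit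 228) (nat_lit 8271238498) (nat_lit 76) (nat_lit 14178885999) (nat_lit 17) (nat_lit 5) (nat_lit 20) (nat_lit 5) (nat_lit 18) (nat_lit 4) (nat_lit 315) (nat_lit 252) (nat_lit 153))))))) (XT.nd (nat_lit 858) (nat_lit 76) (nat_lit 0) (XT.nd (nat_lit 390) (nat_lit 228) (nat_lit 0) (XT.nd (nat_lit 156) (nat_lit 228) (nat_lit 0) (XT.nd (nat_lit 78) (nat_lit 0) (nat_lit 0) (XT.lf (nat_lit 0) (nat_lit 16091203021) (nat_lit 76) (nat_lit 34345786238) (nat_lit 152) (nat_lit 13035986432) (nat_lit 16) (nat_lit 5) (nat_lit 17) (nat_lit 5) (nat_lit 18) (nat_lit 4) (nat_lit 316) (nat_lit 252) (nat_lit 152)) (XT.lf (nat_lit 0) (nat_lit 41826406017) (nat_lit 76) (nat_lit 21303534865) (nat_lit 152) (nat_lit 3074324505) (nat_lit 16) (nat_lit 5) (nat_lit 17) (nat_lit 5) (nat_lit 18) (nat_lit 4) (nat_lit 317) (nat_lit 252) (nat_lit 151))) (XT.nd (nat_lit 78) (nat_lit 152) (nat_lit 0) (XT.lf (nat_lit 0) (nat_lit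 7231142325) (nat_lit 152) (nat_lit 312291237) (nat_lit 76) (nat_lit 61526868234) (nat_lit 15) (nat_lit 5) (nat_lit 17) (nat_lit 5) (nat_lit 16) (nat_lit 5) (nat_lit 318) (nat_lit 252) (nat_lit 150)) (XT.nd (nat_lit 78) (nat_lit 0) (nat_lit 0) (XT.lf (nat_lit 0) (nat_lit 18292447131) (nat_lit 228) (nat_lit 46736162009) (nat_lit 76) (nat_lit 7041000149) (nat_lit 13) (nat_lit 5) (nat_lit 16) (nat_lit 5) (nat_lit 14) (nat_lit 4) (nat_lit 319) (nat_lit 252) (nat_lit 149)) (XT.lf (nat_lit 0) (nat_lit 29976762224) (nat_lit 228) (nat_lit 23043411310) (nat_lit 76) (nat_lit 22196616768) (nat_lit 13) (nat_lit 5) (nat_lit 16) (nat_lit 5) (nat_lit 14) (nat_lit 4) (nat_lit 320) (nat_lit 252) (nat_lit 148))))) (XT.nd (nat_lit 234) (nat_lit 152) (nat_lit 0) (XT.nd (nat_lit 78) (nat_lit 0) (nat_lit 0) (XT.lf (nat_lit 0) (nat_lit 1854493573) (nat_lit 76) (nat_lit 40399636264) (nat_lit 152) (nat_lit 36266941612)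 (nat_lit 12) (nat_lit 5) (nat_lit 13) (nat_lit 5) (nat_lit 14) (nat_lit 4) (nat_lit 321) (nat_lit 252) (nat_lit 147)) (XT.nd (nat_lit 78) (nat_lit 0) (nat_lit 0) (XT.lf (nat_lit 0) (nat_lit 28463611237) (nat_lit 76) (nat_lit 26910258182) (nat_lit 152) (nat_lit 26609848020) (nat_lit 12) (nat_lit 5) (nat_lit 13) (nat_lit 5) (nat_lit 14) (nat_lit 4) (nat_lit 322) (nat_lit 252) (nat_lit 146)) (XT.lf (nat_lit 0) (nat_lit 56388687655) (nat_lit 76) (nat_lit 12752614992) (nat_lit 152) (nat_lit 16478447492) (nat_lit 12) (nat_lit 5) (nat_lit 13) (nat_lit 5) (nat_lit 14) (nat_lit 4) (nat_lit 323) (nat_lit 252) (nat_lit 145)))) (XT.nd (nat_lit 78) (nat_lit 152) (nat_lit 0) (XT.lf (nat_lit 0) (nat_lit 83609462917) (nat_lit 152) (nat_lit 3761869461) (nat_lit 0) (nat_lit 2065886780) (nat_lit 12) (nat_lit 5) (nat_lit 14) (nat_lit 4) (nat_lit 12) (nat_lit 4) (nat_lit 324) (nat_lit 252) (nat_lit 144)) (XT.nd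 (nat_lit 78) (nat_lit 0) (nat_lit 0) (XT.lf (nat_lit 0) (nat_lit 5599424476) (nat_lit 152) (nat_lit 70196833862) (nat_lit 76) (nat_lit 17637310049) (nat_lit 10) (nat_lit 5) (nat_lit 12) (nat_lit 5) (nat_lit 11) (nat_lit 4) (nat_lit 325) (nat_lit 252) (nat_lit 143)) (XT.lf (nat_lit 0) (nat_lit 17510248775) (nat_lit 152) (nat_lit 46036993310) (nat_lit 76) (nat_lit 34079782337) (nat_lit 10) (nat_lit 5) (nat_lit 12) (nat_lit 5) (nat_lit 11) (nat_lit 4) (nat_lit 326) (nat_lit 252) (nat_lit 142)))))) (XT.nd (nat_lit 31824) (nat_lit 0) (nat_lit 13832) (XT.nd (nat_lit 156) (nat_lit 0) (nat_lit 0) (XT.nd (nat_lit 78) (nat_lit 76) (nat_lit 0) (XT.lf (nat_lit 0) (nat_lit 30009550041) (nat_lit 152) (nat_lit 20681633429) (nat_lit 76) (nat_lit 51339186197) (nat_lit 10) (nat_lit 5) (nat_lit 12) (nat_lit 5) (nat_lit 11) (nat_lit 4) (nat_lit 327) (nat_lit 252) (nat_lit 141)) (XT.lf (nat_lit 0) (nat_lit 6047626662)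 (nat_lit 76) (nat_lit 37137595341) (nat_lit 152) (nat_lit 63467122274) (nat_lit 9) (nat_lit 5) (nat_lit 10) (nat_lit 5) (nat_lit 11) (nat_lit 4) (nat_lit 328) (nat_lit 252) (nat_lit 140))) (XT.nd (nat_lit 78) (nat_lit 0) (nat_lit 0) (XT.lf (nat_lit 0) (nat_lit 34533996810) (nat_lit 76) (nat_lit 22692061527) (nat_lit 152) (nat_lit 54273171921) (nat_lit 9) (nat_lit 5) (nat_lit 10) (nat_lit 5) (nat_lit 11) (nat_lit 4) (nat_lit 329) (nat_lit 252) (nat_lit 139)) (XT.nd (nat_lit 31512) (nat_lit 0) (nat_lit 14592) (XT.lf (nat_lit 0) (nat_lit 64433696647) (nat_lit 76) (nat_lit 7529031846) (nat_lit 152) (nat_lit 44625922157) (nat_lit 9) (nat_lit 5) (nat_lit 10) (nat_lit 5) (nat_lit 11) (nat_lit 4) (nat_lit 330) (nat_lit 252) (nat_lit 138)) (XT.lf (nat_lit 0) (nat_lit 759649108) (nat_lit 988) (nat_lit 1734361482) (nat_lit 988) (nat_lit 1734361482) (nat_lit 201) (nat_lit 3) (nat_lit 214) (nat_lit 3)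 (nat_lit 214) (nat_lit 5) (nat_lit 253) (nat_lit 253) (nat_lit 214))))) (XT.nd (nat_lit 234) (nat_lit 760) (nat_lit 0) (XT.nd (nat_lit 78) (nat_lit 0) (nat_lit 76) (XT.lf (nat_lit 76) (nat_lit 2695448741) (nat_lit 0) (nat_lit 474913948) (nat_lit 988) (nat_lit 5445922287) (nat_lit 202) (nat_lit 5) (nat_lit 201) (nat_lit 3) (nat_lit 214) (nat_lit 5) (nat_lit 254) (nat_lit 253) (nat_lit 213)) (XT.nd (nat_lit 78) (nat_lit 0) (nat_lit 76) (XT.lf (nat_lit 76) (nat_lit 366155781) (nat_lit 0) (nat_lit 4516746643) (nat_lit 988) (nat_lit 3901755866) (nat_lit 203) (nat_lit 5) (nat_lit 202) (nat_lit 5) (nat_lit 215) (nat_lit 5) (nat_lit 255) (nat_lit 253) (nat_lit 212)) (XT.lf (nat_lit 0) (nat_lit 6653091322) (nat_lit 912) (nat_lit 1935532810) (nat_lit 988) (nat_lit 373877951) (nat_lit 203) (nat_lit 5) (nat_lit 215) (nat_lit 5) (nat_lit 216) (nat_lit 5) (nat_lit 256) (nat_lit 253) (nat_lit 211)))) (XT.nd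 (nat_lit 78) (nat_lit 912) (nat_lit 0) (XT.lf (nat_lit 76) (nat_lit 4864612481) (nat_lit 0) (nat_lit 3647205334) (nat_lit 988) (nat_lit 637621768) (nat_lit 204) (nat_lit 5) (nat_lit 203) (nat_lit 5) (nat_lit 216) (nat_lit 5) (nat_lit 257) (nat_lit 253) (nat_lit 210)) (XT.nd (nat_lit 78) (nat_lit 0) (nat_lit 0) (XT.lf (nat_lit 0) (nat_lit 1068052101) (nat_lit 988) (nat_lit 6677718504) (nat_lit 1064) (nat_lit 1600654923) (nat_lit 191) (nat_lit 5) (nat_lit 204) (nat_lit 5) (nat_lit 205) (nat_lit 5) (nat_lit 258) (nat_lit 253) (nat_lit 209)) (XT.lf (nat_lit 76) (nat_lit 413823472) (nat_lit 0) (nat_lit 2431969867) (nat_lit 1064) (nat_lit 6707457118) (nat_lit 192) (nat_lit 5) (nat_lit 191) (nat_lit 5) (nat_lit 205) (nat_lit 5) (nat_lit 259) (nat_lit 253) (nat_lit 208))))))))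
noncomputable def xc75 : XT := (XT.nd (nat_lit 1716) (nat_lit 3876) (nat_lit 0) (XT.nd (nat_lit 858) (nat_lit 3876) (nat_lit 0) (XT.nd (nat_lit 390) (nat_lit 3800) (nat_lit 0) (XT.nd (nat_lit 156) (nat_lit 912) (nat_lit 0) (XT.nd (nat_lit 78) (nat_lit 0) (nat_lit 0) (XT.lf (nat_lit 0) (nat_lit 4730386083) (nat_lit 988) (nat_lit 1859100373) (nat_lit 1064) (nat_lit 3180560960) (nat_lit 192) (nat_lit 5) (nat_lit 205) (nat_lit 5) (nat_lit 206) (nat_lit 5) (nat_lit 260) (nat_lit 253) (nat_lit 207)) (XT.lf (nat_lit 76) (nat_lit 5817748289) (nat_lit 0) (nat_lit 894108221) (nat_lit 1064) (nat_lit 3285909906) (nat_lit 193) (nat_lit 5) (nat_lit 192) (nat_lit 5) (nat_lit 206) (nat_lit 5) (nat_lit 261) (nat_lit 253) (nat_lit 206))) (XT.nd (nat_lit 78) (nat_lit 988) (nat_lit 0) (XT.lf (nat_lit 76) (nat_lit 3645613602) (nat_lit 0) (nat_lit 5175594706) (nat_lit 1064) (nat_lit 1414952761) (nat_lit 194)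 (nat_lit 5) (nat_lit 193) (nat_lit 5) (nat_lit 207) (nat_lit 5) (nat_lit 262) (nat_lit 253) (nat_lit 205)) (XT.nd (nat_lit 78) (nat_lit 0) (nat_lit 0) (XT.lf (nat_lit 0) (nat_lit 541198462) (nat_lit 1064) (nat_lit 9074874609) (nat_lit 76) (nat_lit 870315141) (nat_lit 180) (nat_lit 5) (nat_lit 194) (nat_lit 5) (nat_lit 181) (nat_lit 5) (nat_lit 263) (nat_lit 253) (nat_lit 204)) (XT.lf (nat_lit 0) (nat_lit 2617662837) (nat_lit 1064) (nat_lit 920958728) (nat_lit 76) (nat_lit 7208667355) (nat_lit 180) (nat_lit 5) (nat_lit 194) (nat_lit 5) (nat_lit 181) (nat_lit 5) (nat_lit 264) (nat_lit 253) (nat_lit 203))))) (XT.nd (nat_lit 234) (nat_lit 1140) (nat_lit 0) (XT.nd (nat_lit 78) (nat_lit 1596) (nat_lit 0) (XT.lf (nat_lit 0) (nat_lit 4834521772) (nat_lit 1140) (nat_lit 3312970748) (nat_lit 76) (nat_lit 2872774107) (nat_lit 166) (nat_lit 5) (nat_lit 181) (nat_lit 5) (nat_lit 167) (nat_lit 5) (nat_lit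 265) (nat_lit 253) (nat_lit 202)) (XT.nd (nat_lit 78) (nat_lit 532) (nat_lit 0) (XT.lf (nat_lit 0) (nat_lit 5495179702) (nat_lit 1064) (nat_lit 1701915103) (nat_lit 1140) (nat_lit 4108875234) (nat_lit 152) (nat_lit 5) (nat_lit 166) (nat_lit 5) (nat_lit 167) (nat_lit 5) (nat_lit 266) (nat_lit 253) (nat_lit 201)) (XT.lf (nat_lit 0) (nat_lit 3164507511) (nat_lit 532) (nat_lit 6566157250) (nat_lit 608) (nat_lit 1873824916) (nat_lit 145) (nat_lit 5) (nat_lit 152) (nat_lit 5) (nat_lit 153) (nat_lit 5) (nat_lit 267) (nat_lit 253) (nat_lit 200)))) (XT.nd (nat_lit 78) (nat_lit 532) (nat_lit 0) (XT.lf (nat_lit 0) (nat_lit 491651964) (nat_lit 608) (nat_lit 11189580811) (nat_lit 76) (nat_lit 235837294) (nat_lit 137) (nat_lit 5) (nat_lit 145) (nat_lit 5) (nat_lit 138) (nat_lit 5) (nat_lit 268) (nat_lit 253) (nat_lit 199)) (XT.nd (nat_lit 78) (nat_lit 532) (nat_lit 0) (XT.lf (nat_lit 0) (nat_lit 3034325188)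 (nat_lit 608) (nat_lit 1855153160) (nat_lit 76) (nat_lit 7352417389) (nat_lit 137) (nat_lit 5) (nat_lit 145) (nat_lit 5) (nat_lit 138) (nat_lit 5) (nat_lit 269) (nat_lit 253) (nat_lit 198)) (XT.lf (nat_lit 0) (nat_lit 5749830894) (nat_lit 608) (nat_lit 4555073245) (nat_lit 76) (nat_lit 2276785795) (nat_lit 130) (nat_lit 5) (nat_lit 138) (nat_lit 5) (nat_lit 131) (nat_lit 5) (nat_lit 270) (nat_lit 253) (nat_lit 197)))))) (XT.nd (nat_lit 390) (nat_lit 1976) (nat_lit 0) (XT.nd (nat_lit 156) (nat_lit 912) (nat_lit 0) (XT.nd (nat_lit 78) (nat_lit 456) (nat_lit 0) (XT.lf (nat_lit 0) (nat_lit 5507692777) (nat_lit 532) (nat_lit 3163071193) (nat_lit 608) (nat_lit 4265713842) (nat_lit 123) (nat_lit 5) (nat_lit 130) (nat_lit 5) (nat_lit 131) (nat_lit 5) (nat_lit 271) (nat_lit 253) (nat_lit 196)) (XT.lf (nat_lit 0) (nat_lit 2820465263) (nat_lit 456) (nat_lit 8983448252) (nat_lit 532) (nat_lit 1503195553)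 (nat_lit 117) (nat_lit 5) (nat_lit 123) (nat_lit 5) (nat_lit 124) (nat_lit 5) (nat_lit 272) (nat_lit 253) (nat_lit 195))) (XT.nd (nat_lit 78) (nat_lit 836) (nat_lit 0) (XT.lf (nat_lit 0) (nat_lit 1430678967) (nat_lit 532) (nat_lit 55805041) (nat_lit 76) (nat_lit 12207652264) (nat_lit 116) (nat_lit 5) (nat_lit 123) (nat_lit 5) (nat_lit 117) (nat_lit 5) (nat_lit 273) (nat_lit 253) (nat_lit 194)) (XT.nd (nat_lit 78) (nat_lit 380) (nat_lit 0) (XT.lf (nat_lit 0) (nat_lit 4602833391) (nat_lit 532) (nat_lit 3114524532) (nat_lit 76) (nat_lit 6379108627) (nat_lit 110) (nat_lit 5) (nat_lit 117) (nat_lit 5) (nat_lit 111) (nat_lit 5) (nat_lit 274) (nat_lit 253) (nat_lit 193)) (XT.lf (nat_lit 0) (nat_lit 7984428263) (nat_lit 456) (nat_lit 6371788803) (nat_lit 76) (nat_lit 161246003) (nat_lit 105) (nat_lit 5) (nat_lit 111) (nat_lit 5) (nat_lit 106) (nat_lit 5) (nat_lit 275) (nat_lit 253) (nat_lit 192)))))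 (XT.nd (nat_lit 234) (nat_lit 1064) (nat_lit 0) (XT.nd (nat_lit 78) (nat_lit 456) (nat_lit 0) (XT.lf (nat_lit 0) (nat_lit 5045288463) (nat_lit 456) (nat_lit 6605532158) (nat_lit 532) (nat_lit 3305288413) (nat_lit 99) (nat_lit 5) (nat_lit 105) (nat_lit 5) (nat_lit 106) (nat_lit 5) (nat_lit 276) (nat_lit 253) (nat_lit 191)) (XT.nd (nat_lit 78) (nat_lit 0) (nat_lit 0) (XT.lf (nat_lit 0) (nat_lit 138657268) (nat_lit 456) (nat_lit 13696778653) (nat_lit 76) (nat_lit 1579599543) (nat_lit 93) (nat_lit 5) (nat_lit 99) (nat_lit 5) (nat_lit 94) (nat_lit 5) (nat_lit 277) (nat_lit 253) (nat_lit 190)) (XT.lf (nat_lit 0) (nat_lit 3816287562) (nat_lit 456) (nat_lit 1908594265) (nat_lit 76) (nat_lit 10167211902) (nat_lit 93) (nat_lit 5) (nat_lit 99) (nat_lit 5) (nat_lit 94) (nat_lit 5) (nat_lit 278) (nat_lit 253) (nat_lit 189)))) (XT.nd (nat_lit 78) (nat_lit 684) (nat_lit 0) (XT.lf (nat_lit 0) (nat_lit 7769166590)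 (nat_lit 456) (nat_lit 5789739977) (nat_lit 76) (nat_lit 2831416998) (nat_lit 88) (nat_lit 5) (nat_lit 94) (nat_lit 5) (nat_lit 89) (nat_lit 5) (nat_lit 279) (nat_lit 253) (nat_lit 188)) (XT.nd (nat_lit 78) (nat_lit 380) (nat_lit 0) (XT.lf (nat_lit 0) (nat_lit 6891763214) (nat_lit 304) (nat_lit 5134544388) (nat_lit 380) (nat_lit 4884015579) (nat_lit 84) (nat_lit 5) (nat_lit 88) (nat_lit 5) (nat_lit 89) (nat_lit 5) (nat_lit 280) (nat_lit 253) (nat_lit 187)) (XT.lf (nat_lit 0) (nat_lit 2846412662) (nat_lit 380) (nat_lit 13737105458) (nat_lit 456) (nat_lit 870242412) (nat_lit 79) (nat_lit 5) (nat_lit 84) (nat_lit 5) (nat_lit 85) (nat_lit 5) (nat_lit 281) (nat_lit 253) (nat_lit 186))))))) (XT.nd (nat_lit 858) (nat_lit 1520) (nat_lit 0) (XT.nd (nat_lit 390) (nat_lit 1292) (nat_lit 0) (XT.nd (nat_lit 156) (nat_lit 684) (nat_lit 0) (XT.nd (nat_lit 78) (nat_lit 304) (nat_lit 0) (XT.lf (nat_lit 0)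 (nat_lit 3399811804) (nat_lit 456) (nat_lit 1588350547) (nat_lit 76) (nat_lit 13031667539) (nat_lit 78) (nat_lit 5) (nat_lit 84) (nat_lit 5) (nat_lit 79) (nat_lit 5) (nat_lit 282) (nat_lit 253) (nat_lit 185)) (XT.lf (nat_lit 0) (nat_lit 7991524444) (nat_lit 380) (nat_lit 6384631568) (nat_lit 76) (nat_lit 4234051270) (nat_lit 74) (nat_lit 5) (nat_lit 79) (nat_lit 5) (nat_lit 75) (nat_lit 5) (nat_lit 283) (nat_lit 253) (nat_lit 184))) (XT.nd (nat_lit 78) (nat_lit 380) (nat_lit 0) (XT.lf (nat_lit 0) (nat_lit 7587796483) (nat_lit 304) (nat_lit 5332453253) (nat_lit 380) (nat_lit 6306676391) (nat_lit 70) (nat_lit 5) (nat_lit 74) (nat_lit 5) (nat_lit 75) (nat_lit 5) (nat_lit 284) (nat_lit 253) (nat_lit 183)) (XT.nd (nat_lit 78) (nat_lit 76) (nat_lit 0) (XT.lf (nat_lit 0) (nat_lit 2484400836) (nat_lit 304) (nat_lit 15709946297) (nat_lit 380) (nat_lit 1677208937) (nat_lit 66) (nat_lit 5) (nat_lit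 70) (nat_lit 5) (nat_lit 71) (nat_lit 5) (nat_lit 285) (nat_lit 253) (nat_lit 182)) (XT.lf (nat_lit 0) (nat_lit 3265835865) (nat_lit 380) (nat_lit 3115678543) (nat_lit 76) (nat_lit 14161698055) (nat_lit 65) (nat_lit 5) (nat_lit 70) (nat_lit 5) (nat_lit 66) (nat_lit 5) (nat_lit 286) (nat_lit 253) (nat_lit 181))))) (XT.nd (nat_lit 234) (nat_lit 760) (nat_lit 0) (XT.nd (nat_lit 78) (nat_lit 228) (nat_lit 0) (XT.lf (nat_lit 0) (nat_lit 8542350827) (nat_lit 380) (nat_lit 9232421570) (nat_lit 76) (nat_lit 3469589014) (nat_lit 61) (nat_lit 5) (nat_lit 66) (nat_lit 5) (nat_lit 62) (nat_lit 5) (nat_lit 287) (nat_lit 253) (nat_lit 180)) (XT.nd (nat_lit 78) (nat_lit 0) (nat_lit 0) (XT.lf (nat_lit 0) (nat_lit 5993512271) (nat_lit 228) (nat_lit 8215358307) (nat_lit 304) (nat_lit 7767948114) (nat_lit 58) (nat_lit 5) (nat_lit 61) (nat_lit 5) (nat_lit 62) (nat_lit 5) (nat_lit 288) (nat_lit 253) (nat_lit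 179)) (XT.lf (nat_lit 0) (nat_lit 20244832944) (nat_lit 304) (nat_lit 627575421) (nat_lit 76) (nat_lit 1870941505) (nat_lit 58) (nat_lit 5) (nat_lit 62) (nat_lit 5) (nat_lit 59) (nat_lit 5) (nat_lit 289) (nat_lit 253) (nat_lit 178)))) (XT.nd (nat_lit 78) (nat_lit 456) (nat_lit 0) (XT.lf (nat_lit 0) (nat_lit 3184778907) (nat_lit 304) (nat_lit 7892070779) (nat_lit 76) (nat_lit 12464226652) (nat_lit 54) (nat_lit 5) (nat_lit 58) (nat_lit 5) (nat_lit 55) (nat_lit 5) (nat_lit 290) (nat_lit 253) (nat_lit 177)) (XT.nd (nat_lit 78) (nat_lit 228) (nat_lit 0) (XT.lf (nat_lit 0) (nat_lit 8476861591) (nat_lit 228) (nat_lit 686727646) (nat_lit 304) (nat_lit 15212497481) (nat_lit 51) (nat_lit 5) (nat_lit 54) (nat_lit 5) (nat_lit 55) (nat_lit 5) (nat_lit 291) (nat_lit 253) (nat_lit 176)) (XT.lf (nat_lit 0) (nat_lit 451599457) (nat_lit 228) (nat_lit 15149682716) (nat_lit 304) (nat_lit 9646796142) (nat_lit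 48) (nat_lit 5) (nat_lit 51) (nat_lit 5) (nat_lit 52) (nat_lit 5) (nat_lit 292) (nat_lit 253) (nat_lit 175)))))) (XT.nd (nat_lit 468) (nat_lit 760) (nat_lit 0) (XT.nd (nat_lit 234) (nat_lit 456) (nat_lit 0) (XT.nd (nat_lit 78) (nat_lit 304) (nat_lit 0) (XT.lf (nat_lit 0) (nat_lit 17909309521) (nat_lit 228) (nat_lit 4598200472) (nat_lit 304) (nat_lit 3651787572) (nat_lit 48) (nat_lit 5) (nat_lit 51) (nat_lit 5) (nat_lit 52) (nat_lit 5) (nat_lit 293) (nat_lit 253) (nat_lit 174)) (XT.nd (nat_lit 78) (nat_lit 0) (nat_lit 0) (XT.lf (nat_lit 0) (nat_lit 2720580742) (nat_lit 304) (nat_lit 17932484067) (nat_lit 76) (nat_lit 6458400801) (nat_lit 44) (nat_lit 5) (nat_lit 48) (nat_lit 5) (nat_lit 45) (nat_lit 5) (nat_lit 294) (nat_lit 253) (nat_lit 173)) (XT.lf (nat_lit 0) (nat_lit 9446589907) (nat_lit 304) (nat_lit 575203848) (nat_lit 76) (nat_lit 18085071490) (nat_lit 44) (nat_lit 5) (nat_lit 48)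 (nat_lit 5) (nat_lit 45) (nat_lit 5) (nat_lit 295) (nat_lit 253) (nat_lit 172)))) (XT.nd (nat_lit 78) (nat_lit 228) (nat_lit 0) (XT.lf (nat_lit 0) (nat_lit 16672919136) (nat_lit 304) (nat_lit 11192094904) (nat_lit 76) (nat_lit 1282123366) (nat_lit 41) (nat_lit 5) (nat_lit 45) (nat_lit 5) (nat_lit 42) (nat_lit 5) (nat_lit 296) (nat_lit 253) (nat_lit 171)) (XT.nd (nat_lit 78) (nat_lit 76) (nat_lit 0) (XT.lf (nat_lit 0) (nat_lit 7191527409) (nat_lit 152) (nat_lit 17224631714) (nat_lit 228) (nat_lit 5818618253) (nat_lit 39) (nat_lit 5) (nat_lit 41) (nat_lit 5) (nat_lit 42) (nat_lit 5) (nat_lit 297) (nat_lit 253) (nat_lit 170)) (XT.lf (nat_lit 0) (nat_lit 1243087020) (nat_lit 228) (nat_lit 4689185602) (nat_lit 76) (nat_lit 25441325212) (nat_lit 38) (nat_lit 5) (nat_lit 41) (nat_lit 5) (nat_lit 39) (nat_lit 5) (nat_lit 298) (nat_lit 253) (nat_lit 169))))) (XT.nd (nat_lit 234) (nat_lit 380) (nat_lit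 0) (XT.nd (nat_lit 78) (nat_lit 152) (nat_lit 0) (XT.lf (nat_lit 0) (nat_lit 8720348563) (nat_lit 304) (nat_lit 17840622378) (nat_lit 76) (nat_lit 6001195205) (nat_lit 35) (nat_lit 5) (nat_lit 39) (nat_lit 5) (nat_lit 36) (nat_lit 5) (nat_lit 299) (nat_lit 253) (nat_lit 168)) (XT.nd (nat_lit 78) (nat_lit 0) (nat_lit 0) (XT.lf (nat_lit 0) (nat_lit 1327871487) (nat_lit 152) (nat_lit 15346282672) (nat_lit 228) (nat_lit 17132946761) (nat_lit 33) (nat_lit 5) (nat_lit 35) (nat_lit 5) (nat_lit 36) (nat_lit 5) (nat_lit 300) (nat_lit 253) (nat_lit 167)) (XT.lf (nat_lit 0) (nat_lit 21798688645) (nat_lit 152) (nat_lit 3392519584) (nat_lit 228) (nat_lit 9918125054) (nat_lit 33) (nat_lit 5) (nat_lit 35) (nat_lit 5) (nat_lit 36) (nat_lit 5) (nat_lit 301) (nat_lit 253) (nat_lit 166)))) (XT.nd (nat_lit 78) (nat_lit 228) (nat_lit 0) (XT.lf (nat_lit 0) (nat_lit 6833702717) (nat_lit 152) (nat_lit 27436810597)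 (nat_lit 228) (nat_lit 2202088759) (nat_lit 31) (nat_lit 5) (nat_lit 33) (nat_lit 5) (nat_lit 34) (nat_lit 5) (nat_lit 302) (nat_lit 253) (nat_lit 165)) (XT.nd (nat_lit 78) (nat_lit 152) (nat_lit 0) (XT.lf (nat_lit 0) (nat_lit 5940293310) (nat_lit 228) (nat_lit 9756339569) (nat_lit 76) (nat_lit 22201045481) (nat_lit 30) (nat_lit 5) (nat_lit 33) (nat_lit 5) (nat_lit 31) (nat_lit 5) (nat_lit 303) (nat_lit 253) (nat_lit 164)) (XT.lf (nat_lit 0) (nat_lit 11292258920) (nat_lit 152) (nat_lit 3244821406) (nat_lit 228) (nat_lit 24853503953) (nat_lit 28) (nat_lit 5) (nat_lit 30) (nat_lit 5) (nat_lit 31) (nat_lit 5) (nat_lit 304) (nat_lit 253) (nat_lit 163))))))))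
noncomputable def xc76 : XT := (XT.nd (nat_lit 1716) (nat_lit 76) (nat_lit 0) (XT.nd (nat_lit 858) (nat_lit 532) (nat_lit 0) (XT.nd (nat_lit 390) (nat_lit 456) (nat_lit 0) (XT.nd (nat_lit 156) (nat_lit 228) (nat_lit 0) (XT.nd (nat_lit 78) (nat_lit 152) (nat_lit 0) (XT.lf (nat_lit 0) (nat_lit 23743908191) (nat_lit 228) (nat_lit 7479290938) (nat_lit 76) (nat_lit 9729544377) (nat_lit 28) (nat_lit 5) (nat_lit 31) (nat_lit 5) (nat_lit 29) (nat_lit 5) (nat_lit 305) (nat_lit 253) (nat_lit 162)) (XT.lf (nat_lit 0) (nat_lit 14394206062) (nat_lit 152) (nat_lit 19173022602) (nat_lit 228) (nat_lit 9021110877) (nat_lit 26) (nat_lit 5) (nat_lit 28) (nat_lit 5) (nat_lit 29) (nat_lit 5) (nat_lit 306) (nat_lit 253) (nat_lit 161))) (XT.nd (nat_lit 78) (nat_lit 228) (nat_lit 0) (XT.lf (nat_lit 0) (nat_lit 37493757678) (nat_lit 152) (nat_lit 6450467472) (nat_lit 228) (nat_lit 359627679) (nat_lit 26) (nat_lit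 5) (nat_lit 28) (nat_lit 5) (nat_lit 29) (nat_lit 5) (nat_lit 307) (nat_lit 253) (nat_lit 160)) (XT.nd (nat_lit 78) (nat_lit 0) (nat_lit 0) (XT.lf (nat_lit 0) (nat_lit 8771510742) (nat_lit 228) (nat_lit 30321828207) (nat_lit 76) (nat_lit 7003084725) (nat_lit 23) (nat_lit 5) (nat_lit 26) (nat_lit 5) (nat_lit 24) (nat_lit 5) (nat_lit 308) (nat_lit 253) (nat_lit 159)) (XT.lf (nat_lit 0) (nat_lit 18474163043) (nat_lit 228) (nat_lit 8437853419) (nat_lit 76) (nat_lit 21062839166) (nat_lit 23) (nat_lit 5) (nat_lit 26) (nat_lit 5) (nat_lit 24) (nat_lit 5) (nat_lit 309) (nat_lit 253) (nat_lit 158))))) (XT.nd (nat_lit 234) (nat_lit 228) (nat_lit 0) (XT.nd (nat_lit 78) (nat_lit 76) (nat_lit 0) (XT.lf (nat_lit 0) (nat_lit 14807617666) (nat_lit 152) (nat_lit 13983738096) (nat_lit 228) (nat_lit 21151981875) (nat_lit 21) (nat_lit 5) (nat_lit 23) (nat_lit 5) (nat_lit 24) (nat_lit 5) (nat_lit 310) (nat_lit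 253) (nat_lit 157)) (XT.nd (nat_lit 78) (nat_lit 76) (nat_lit 0) (XT.lf (nat_lit 0) (nat_lit 39370656893) (nat_lit 152) (nat_lit 328093049) (nat_lit 228) (nat_lit 12309273734) (nat_lit 21) (nat_lit 5) (nat_lit 23) (nat_lit 5) (nat_lit 24) (nat_lit 5) (nat_lit 311) (nat_lit 253) (nat_lit 156)) (XT.lf (nat_lit 0) (nat_lit 11046464825) (nat_lit 76) (nat_lit 40333910033) (nat_lit 152) (nat_lit 2788713026) (nat_lit 20) (nat_lit 5) (nat_lit 21) (nat_lit 5) (nat_lit 22) (nat_lit 4) (nat_lit 312) (nat_lit 253) (nat_lit 155)))) (XT.nd (nat_lit 78) (nat_lit 152) (nat_lit 0) (XT.lf (nat_lit 0) (nat_lit 7190171557) (nat_lit 152) (nat_lit 20349596694) (nat_lit 76) (nat_lit 28892678998) (nat_lit 19) (nat_lit 5) (nat_lit 21) (nat_lit 5) (nat_lit 20) (nat_lit 5) (nat_lit 313) (nat_lit 253) (nat_lit 154)) (XT.nd (nat_lit 78) (nat_lit 0) (nat_lit 0) (XT.lf (nat_lit 0) (nat_lit 3584858903) (nat_lit 152) (nat_lit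 14049279139) (nat_lit 228) (nat_lit 41173302374) (nat_lit 17) (nat_lit 5) (nat_lit 19) (nat_lit 5) (nat_lit 20) (nat_lit 5) (nat_lit 314) (nat_lit 253) (nat_lit 153)) (XT.lf (nat_lit 0) (nat_lit 28802068414) (nat_lit 228) (nat_lit 32175543793) (nat_lit 76) (nat_lit 317526201) (nat_lit 17) (nat_lit 5) (nat_lit 20) (nat_lit 5) (nat_lit 18) (nat_lit 4) (nat_lit 315) (nat_lit 253) (nat_lit 152)))))) (XT.nd (nat_lit 390) (nat_lit 228) (nat_lit 0) (XT.nd (nat_lit 156) (nat_lit 228) (nat_lit 0) (XT.nd (nat_lit 78) (nat_lit 76) (nat_lit 0) (XT.lf (nat_lit 0) (nat_lit 40659815072) (nat_lit 228) (nat_lit 8135806875) (nat_lit 76) (nat_lit 15107664505) (nat_lit 17) (nat_lit 5) (nat_lit 20) (nat_lit 5) (nat_lit 18) (nat_lit 4) (nat_lit 316) (nat_lit 253) (nat_lit 151)) (XT.lf (nat_lit 0) (nat_lit 17429019930) (nat_lit 76) (nat_lit 35839078953) (nat_lit 152) (nat_lit 13369020896) (nat_lit 16) (nat_lit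 5) (nat_lit 17) (nat_lit 5) (nat_lit 18) (nat_lit 4) (nat_lit 317) (nat_lit 253) (nat_lit 150))) (XT.nd (nat_lit 78) (nat_lit 228) (nat_lit 0) (XT.lf (nat_lit 0) (nat_lit 44425589897) (nat_lit 76) (nat_lit 22155381516) (nat_lit 152) (nat_lit 2924455152) (nat_lit 16) (nat_lit 5) (nat_lit 17) (nat_lit 5) (nat_lit 18) (nat_lit 4) (nat_lit 318) (nat_lit 253) (nat_lit 149)) (XT.nd (nat_lit 78) (nat_lit 0) (nat_lit 0) (XT.lf (nat_lit 0) (nat_lit 164832019) (nat_lit 152) (nat_lit 7712939060) (nat_lit 228) (nat_lit 64637293855) (nat_lit 13) (nat_lit 5) (nat_lit 15) (nat_lit 5) (nat_lit 16) (nat_lit 5) (nat_lit 319) (nat_lit 253) (nat_lit 148)) (XT.lf (nat_lit 0) (nat_lit 19483559435) (nat_lit 228) (nat_lit 48590985215) (nat_lit 76) (nat_lit 7590060117) (nat_lit 13) (nat_lit 5) (nat_lit 16) (nat_lit 5) (nat_lit 14) (nat_lit 4) (nat_lit 320) (nat_lit 253) (nat_lit 147))))) (XT.nd (nat_lit 234) (nat_lit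 152) (nat_lit 0) (XT.nd (nat_lit 78) (nat_lit 76) (nat_lit 0) (XT.lf (nat_lit 0) (nat_lit 31738924094) (nat_lit 228) (nat_lit 23736548644) (nat_lit 76) (nat_lit 23494076139) (nat_lit 13) (nat_lit 5) (nat_lit 16) (nat_lit 5) (nat_lit 14) (nat_lit 4) (nat_lit 321) (nat_lit 253) (nat_lit 146)) (XT.nd (nat_lit 78) (nat_lit 0) (nat_lit 0) (XT.lf (nat_lit 0) (nat_lit 2393093389) (nat_lit 76) (nat_lit 42228813498) (nat_lit 152) (nat_lit 37817393422) (nat_lit 12) (nat_lit 5) (nat_lit 13) (nat_lit 5) (nat_lit 14) (nat_lit 4) (nat_lit 322) (nat_lit 253) (nat_lit 145)) (XT.lf (nat_lit 0) (nat_lit 30311434787) (nat_lit 76) (nat_lit 28074052444) (nat_lit 152) (nat_lit 27689963972) (nat_lit 12) (nat_lit 5) (nat_lit 13) (nat_lit 5) (nat_lit 14) (nat_lit 4) (nat_lit 323) (nat_lit 253) (nat_lit 144)))) (XT.nd (nat_lit 78) (nat_lit 152) (nat_lit 0) (XT.lf (nat_lit 0) (nat_lit 59612543931) (nat_lit 76) (nat_lit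 13217180364) (nat_lit 152) (nat_lit 17063916106) (nat_lit 12) (nat_lit 5) (nat_lit 13) (nat_lit 5) (nat_lit 14) (nat_lit 4) (nat_lit 324) (nat_lit 253) (nat_lit 143)) (XT.nd (nat_lit 78) (nat_lit 152) (nat_lit 0) (XT.lf (nat_lit 0) (nat_lit 88011859991) (nat_lit 152) (nat_lit 3559624336) (nat_lit 0) (nat_lit 2330788976) (nat_lit 12) (nat_lit 5) (nat_lit 14) (nat_lit 4) (nat_lit 12) (nat_lit 4) (nat_lit 325) (nat_lit 253) (nat_lit 142)) (XT.lf (nat_lit 0) (nat_lit 6096664386) (nat_lit 152) (nat_lit 73323064000) (nat_lit 76) (nat_lit 18678862499) (nat_lit 10) (nat_lit 5) (nat_lit 12) (nat_lit 5) (nat_lit 11) (nat_lit 4) (nat_lit 326) (nat_lit 253) (nat_lit 141))))))) (XT.nd (nat_lit 32370) (nat_lit 0) (nat_lit 9196) (XT.nd (nat_lit 31902) (nat_lit 0) (nat_lit 13680) (XT.nd (nat_lit 156) (nat_lit 76) (nat_lit 0) (XT.nd (nat_lit 78) (nat_lit 0) (nat_lit 0) (XT.lf (nat_lit 0) (nat_lit 18592683772)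 (nat_lit 152) (nat_lit 47973498638) (nat_lit 76) (nat_lit 35935854261) (nat_lit 10) (nat_lit 5) (nat_lit 12) (nat_lit 5) (nat_lit 11) (nat_lit 4) (nat_lit 327) (nat_lit 253) (nat_lit 140)) (XT.lf (nat_lit 0) (nat_lit 31707096646) (nat_lit 152) (nat_lit 21367768113) (nat_lit 76) (nat_lit 54050986276) (nat_lit 10) (nat_lit 5) (nat_lit 12) (nat_lit 5) (nat_lit 11) (nat_lit 4) (nat_lit 328) (nat_lit 253) (nat_lit 139))) (XT.nd (nat_lit 78) (nat_lit 0) (nat_lit 0) (XT.lf (nat_lit 0) (nat_lit 6687981152) (nat_lit 76) (nat_lit 38847435615) (nat_lit 152) (nat_lit 66443697624) (nat_lit 9) (nat_lit 5) (nat_lit 10) (nat_lit 5) (nat_lit 11) (nat_lit 4) (nat_lit 329) (nat_lit 253) (nat_lit 138)) (XT.nd (nat_lit 31590) (nat_lit 0) (nat_lit 14592) (XT.lf (nat_lit 0) (nat_lit 36582575848) (nat_lit 76) (nat_lit 23686626991) (nat_lit 152) (nat_lit 56799420267) (nat_lit 9) (nat_lit 5) (nat_lit 10) (nat_lit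 5) (nat_lit 11) (nat_lit 4) (nat_lit 330) (nat_lit 253) (nat_lit 137)) (XT.lf (nat_lit 0) (nat_lit 2360023080) (nat_lit 988) (nat_lit 1014732476) (nat_lit 988) (nat_lit 1014732476) (nat_lit 201) (nat_lit 3) (nat_lit 214) (nat_lit 3) (nat_lit 214) (nat_lit 5) (nat_lit 254) (nat_lit 254) (nat_lit 212))))) (XT.nd (nat_lit 234) (nat_lit 0) (nat_lit 76) (XT.nd (nat_lit 78) (nat_lit 912) (nat_lit 0) (XT.lf (nat_lit 76) (nat_lit 4396687784) (nat_lit 0) (nat_lit 1923234717) (nat_lit 988) (nat_lit 2630910429) (nat_lit 202) (nat_lit 5) (nat_lit 201) (nat_lit 3) (nat_lit 214) (nat_lit 5) (nat_lit 255) (nat_lit 254) (nat_lit 211)) (XT.nd (nat_lit 78) (nat_lit 988) (nat_lit 0) (XT.lf (nat_lit 76) (nat_lit 2012835920) (nat_lit 0) (nat_lit 5965433861) (nat_lit 988) (nat_lit 1153860904) (nat_lit 203) (nat_lit 5) (nat_lit 202) (nat_lit 5) (nat_lit 215) (nat_lit 5) (nat_lit 256) (nat_lit 254) (nat_lit 210))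 (XT.lf (nat_lit 0) (nat_lit 366697218) (nat_lit 988) (nat_lit 393833998) (nat_lit 1064) (nat_lit 8562712611) (nat_lit 189) (nat_lit 5) (nat_lit 202) (nat_lit 5) (nat_lit 203) (nat_lit 5) (nat_lit 257) (nat_lit 254) (nat_lit 209)))) (XT.nd (nat_lit 78) (nat_lit 0) (nat_lit 76) (XT.lf (nat_lit 0) (nat_lit 1965630306) (nat_lit 988) (nat_lit 2832831076) (nat_lit 1064) (nat_lit 4724500395) (nat_lit 190) (nat_lit 5) (nat_lit 203) (nat_lit 5) (nat_lit 204) (nat_lit 5) (nat_lit 258) (nat_lit 254) (nat_lit 208)) (XT.nd (nat_lit 78) (nat_lit 0) (nat_lit 0) (XT.lf (nat_lit 0) (nat_lit 3625504736) (nat_lit 988) (nat_lit 5310123633) (nat_lit 1064) (nat_lit 797777131) (nat_lit 191) (nat_lit 5) (nat_lit 204) (nat_lit 5) (nat_lit 205) (nat_lit 5) (nat_lit 259) (nat_lit 254) (nat_lit 207)) (XT.lf (nat_lit 76) (nat_lit 2087222836) (nat_lit 0) (nat_lit 3301556565) (nat_lit 1064) (nat_lit 4565141447) (nat_lit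 192) (nat_lit 5) (nat_lit 191) (nat_lit 5) (nat_lit 205) (nat_lit 5) (nat_lit 260) (nat_lit 254) (nat_lit 206)))))) (XT.nd (nat_lit 390) (nat_lit 2736) (nat_lit 0) (XT.nd (nat_lit 156) (nat_lit 1976) (nat_lit 0) (XT.nd (nat_lit 78) (nat_lit 0) (nat_lit 0) (XT.lf (nat_lit 0) (nat_lit 7246435173) (nat_lit 988) (nat_lit 297874017) (nat_lit 1064) (nat_lit 2641120189) (nat_lit 192) (nat_lit 5) (nat_lit 205) (nat_lit 5) (nat_lit 206) (nat_lit 5) (nat_lit 261) (nat_lit 254) (nat_lit 205)) (XT.lf (nat_lit 76) (nat_lit 7715400301) (nat_lit 0) (nat_lit 1518474987) (nat_lit 1064) (nat_lit 1193677609) (nat_lit 193) (nat_lit 5) (nat_lit 192) (nat_lit 5) (nat_lit 206) (nat_lit 5) (nat_lit 262) (nat_lit 254) (nat_lit 204))) (XT.nd (nat_lit 78) (nat_lit 988) (nat_lit 0) (XT.lf (nat_lit 0) (nat_lit 660934191) (nat_lit 1064) (nat_lit 5225267125) (nat_lit 1140) (nat_lit 4794497687) (nat_lit 179) (nat_lit 5)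 (nat_lit 193) (nat_lit 5) (nat_lit 194) (nat_lit 5) (nat_lit 263) (nat_lit 254) (nat_lit 203)) (XT.nd (nat_lit 78) (nat_lit 1064) (nat_lit 0) (XT.lf (nat_lit 0) (nat_lit 2596906255) (nat_lit 1064) (nat_lit 7827472085) (nat_lit 76) (nat_lit 521499117) (nat_lit 180) (nat_lit 5) (nat_lit 194) (nat_lit 5) (nat_lit 181) (nat_lit 5) (nat_lit 264) (nat_lit 254) (nat_lit 202)) (XT.lf (nat_lit 0) (nat_lit 666131245) (nat_lit 1064) (nat_lit 4020863585) (nat_lit 1140) (nat_lit 6535723424) (nat_lit 166) (nat_lit 5) (nat_lit 180) (nat_lit 5) (nat_lit 181) (nat_lit 5) (nat_lit 265) (nat_lit 254) (nat_lit 201))))) (XT.nd (nat_lit 234) (nat_lit 1140) (nat_lit 0) (XT.nd (nat_lit 78) (nat_lit 1596) (nat_lit 0) (XT.lf (nat_lit 0) (nat_lit 6928712945) (nat_lit 1140) (nat_lit 1842958585) (nat_lit 76) (nat_lit 2740432906) (nat_lit 166) (nat_lit 5) (nat_lit 181) (nat_lit 5) (nat_lit 167) (nat_lit 5) (nat_lit 266)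 (nat_lit 254) (nat_lit 200)) (XT.nd (nat_lit 78) (nat_lit 532) (nat_lit 0) (XT.lf (nat_lit 0) (nat_lit 7358713502) (nat_lit 1064) (nat_lit 1977760781) (nat_lit 1140) (nat_lit 2477978451) (nat_lit 152) (nat_lit 5) (nat_lit 166) (nat_lit 5) (nat_lit 167) (nat_lit 5) (nat_lit 267) (nat_lit 254) (nat_lit 199)) (XT.lf (nat_lit 0) (nat_lit 4922934029) (nat_lit 532) (nat_lit 7002685255) (nat_lit 608) (nat_lit 204575508) (nat_lit 145) (nat_lit 5) (nat_lit 152) (nat_lit 5) (nat_lit 153) (nat_lit 5) (nat_lit 268) (nat_lit 254) (nat_lit 198)))) (XT.nd (nat_lit 78) (nat_lit 532) (nat_lit 0) (XT.lf (nat_lit 0) (nat_lit 2177074967) (nat_lit 608) (nat_lit 10104686578) (nat_lit 76) (nat_lit 178316261) (nat_lit 137) (nat_lit 5) (nat_lit 145) (nat_lit 5) (nat_lit 138) (nat_lit 5) (nat_lit 269) (nat_lit 254) (nat_lit 197)) (XT.nd (nat_lit 78) (nat_lit 532) (nat_lit 0) (XT.lf (nat_lit 0) (nat_lit 4767794214)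 (nat_lit 608) (nat_lit 381841034) (nat_lit 76) (nat_lit 7654025975) (nat_lit 137) (nat_lit 5) (nat_lit 145) (nat_lit 5) (nat_lit 138) (nat_lit 5) (nat_lit 270) (nat_lit 254) (nat_lit 196)) (XT.lf (nat_lit 0) (nat_lit 7558377347) (nat_lit 608) (nat_lit 3213278058) (nat_lit 76) (nat_lit 2390747647) (nat_lit 130) (nat_lit 5) (nat_lit 138) (nat_lit 5) (nat_lit 131) (nat_lit 5) (nat_lit 271) (nat_lit 254) (nat_lit 195))))))))
noncomputable def xc77 : XT := (XT.nd (nat_lit 1716) (nat_lit 2356) (nat_lit 0) (XT.nd (nat_lit 858) (nat_lit 2280) (nat_lit 0) (XT.nd (nat_lit 390) (nat_lit 2052) (nat_lit 0) (XT.nd (nat_lit 156) (nat_lit 912) (nat_lit 0) (XT.nd (nat_lit 78) (nat_lit 456) (nat_lit 0) (XT.lf (nat_lit 0) (nat_lit 7307635463) (nat_lit 532) (nat_lit 3259945412) (nat_lit 608) (nat_lit 2969213198) (nat_lit 123) (nat_lit 5) (nat_lit 130) (nat_lit 5) (nat_lit 131) (nat_lit 5) (nat_lit 272) (nat_lit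 254) (nat_lit 194)) (XT.lf (nat_lit 0) (nat_lit 4486947751) (nat_lit 456) (nat_lit 9315984860) (nat_lit 532) (nat_lit 124782191) (nat_lit 117) (nat_lit 5) (nat_lit 123) (nat_lit 5) (nat_lit 124) (nat_lit 5) (nat_lit 273) (nat_lit 254) (nat_lit 193))) (XT.nd (nat_lit 78) (nat_lit 380) (nat_lit 0) (XT.lf (nat_lit 0) (nat_lit 1451865654) (nat_lit 456) (nat_lit 1421645094) (nat_lit 532) (nat_lit 11461895653) (nat_lit 110) (nat_lit 5) (nat_lit 116) (nat_lit 5) (nat_lit 117) (nat_lit 5) (nat_lit 274) (nat_lit 254) (nat_lit 192)) (XT.nd (nat_lit 78) (nat_lit 380) (nat_lit 0) (XT.lf (nat_lit 0) (nat_lit 6140799542) (nat_lit 532) (nat_lit 1790500645) (nat_lit 76) (nat_lit 6828566623) (nat_lit 110) (nat_lit 5) (nat_lit 117) (nat_lit 5) (nat_lit 111) (nat_lit 5) (nat_lit 275) (nat_lit 254) (nat_lit 191)) (XT.lf (nat_lit 0) (nat_lit 9644724082) (nat_lit 456) (nat_lit 5214890586) (nat_lit 76) (nat_lit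 343805195) (nat_lit 105) (nat_lit 5) (nat_lit 111) (nat_lit 5) (nat_lit 106) (nat_lit 5) (nat_lit 276) (nat_lit 254) (nat_lit 190))))) (XT.nd (nat_lit 234) (nat_lit 1140) (nat_lit 0) (XT.nd (nat_lit 78) (nat_lit 456) (nat_lit 0) (XT.lf (nat_lit 0) (nat_lit 6730745986) (nat_lit 456) (nat_lit 6717415638) (nat_lit 532) (nat_lit 2217323978) (nat_lit 99) (nat_lit 5) (nat_lit 105) (nat_lit 5) (nat_lit 106) (nat_lit 5) (nat_lit 277) (nat_lit 254) (nat_lit 189)) (XT.nd (nat_lit 78) (nat_lit 0) (nat_lit 0) (XT.lf (nat_lit 0) (nat_lit 1331726978) (nat_lit 456) (nat_lit 12928776747) (nat_lit 76) (nat_lit 1887864099) (nat_lit 93) (nat_lit 5) (nat_lit 99) (nat_lit 5) (nat_lit 94) (nat_lit 5) (nat_lit 278) (nat_lit 254) (nat_lit 188)) (XT.lf (nat_lit 0) (nat_lit 5136756081) (nat_lit 456) (nat_lit 620366037) (nat_lit 76) (nat_lit 10893938763) (nat_lit 93) (nat_lit 5) (nat_lit 99) (nat_lit 5) (nat_lit 94)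 (nat_lit 5) (nat_lit 279) (nat_lit 254) (nat_lit 187)))) (XT.nd (nat_lit 78) (nat_lit 760) (nat_lit 0) (XT.lf (nat_lit 0) (nat_lit 9248858599) (nat_lit 456) (nat_lit 4703356508) (nat_lit 76) (nat_lit 3223222948) (nat_lit 88) (nat_lit 5) (nat_lit 94) (nat_lit 5) (nat_lit 89) (nat_lit 5) (nat_lit 280) (nat_lit 254) (nat_lit 186)) (XT.nd (nat_lit 78) (nat_lit 456) (nat_lit 0) (XT.lf (nat_lit 0) (nat_lit 8572782792) (nat_lit 304) (nat_lit 5106956958) (nat_lit 380) (nat_lit 4042950681) (nat_lit 84) (nat_lit 5) (nat_lit 88) (nat_lit 5) (nat_lit 89) (nat_lit 5) (nat_lit 281) (nat_lit 254) (nat_lit 185)) (XT.lf (nat_lit 0) (nat_lit 133010815) (nat_lit 456) (nat_lit 13979321030) (nat_lit 76) (nat_lit 4182046246) (nat_lit 78) (nat_lit 5) (nat_lit 84) (nat_lit 5) (nat_lit 79) (nat_lit 5) (nat_lit 282) (nat_lit 254) (nat_lit 184)))))) (XT.nd (nat_lit 390) (nat_lit 1292) (nat_lit 0) (XT.nd (nat_lit 156)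 (nat_lit 684) (nat_lit 0) (XT.nd (nat_lit 78) (nat_lit 304) (nat_lit 0) (XT.lf (nat_lit 0) (nat_lit 4549740210) (nat_lit 456) (nat_lit 382424583) (nat_lit 76) (nat_lit 13957862331) (nat_lit 78) (nat_lit 5) (nat_lit 84) (nat_lit 5) (nat_lit 79) (nat_lit 5) (nat_lit 283) (nat_lit 254) (nat_lit 183)) (XT.lf (nat_lit 0) (nat_lit 9339290890) (nat_lit 380) (nat_lit 5428590634) (nat_lit 76) (nat_lit 4743060771) (nat_lit 74) (nat_lit 5) (nat_lit 79) (nat_lit 5) (nat_lit 75) (nat_lit 5) (nat_lit 284) (nat_lit 254) (nat_lit 182))) (XT.nd (nat_lit 78) (nat_lit 380) (nat_lit 0) (XT.lf (nat_lit 0) (nat_lit 9205903389) (nat_lit 304) (nat_lit 5275304449) (nat_lit 380) (nat_lit 5678349899) (nat_lit 70) (nat_lit 5) (nat_lit 74) (nat_lit 5) (nat_lit 75) (nat_lit 5) (nat_lit 285) (nat_lit 254) (nat_lit 181)) (XT.nd (nat_lit 78) (nat_lit 76) (nat_lit 0) (XT.lf (nat_lit 0) (nat_lit 3836698902) (nat_lit 304)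 (nat_lit 16153511486) (nat_lit 380) (nat_lit 847133082) (nat_lit 66) (nat_lit 5) (nat_lit 70) (nat_lit 5) (nat_lit 71) (nat_lit 5) (nat_lit 286) (nat_lit 254) (nat_lit 180)) (XT.lf (nat_lit 0) (nat_lit 4282558242) (nat_lit 380) (nat_lit 2083764267) (nat_lit 76) (nat_lit 15177332517) (nat_lit 65) (nat_lit 5) (nat_lit 70) (nat_lit 5) (nat_lit 66) (nat_lit 5) (nat_lit 287) (nat_lit 254) (nat_lit 179))))) (XT.nd (nat_lit 234) (nat_lit 532) (nat_lit 0) (XT.nd (nat_lit 78) (nat_lit 456) (nat_lit 0) (XT.lf (nat_lit 0) (nat_lit 9796518994) (nat_lit 380) (nat_lit 8517781090) (nat_lit 76) (nat_lit 3966405838) (nat_lit 61) (nat_lit 5) (nat_lit 66) (nat_lit 5) (nat_lit 62) (nat_lit 5) (nat_lit 288) (nat_lit 254) (nat_lit 178)) (XT.nd (nat_lit 78) (nat_lit 228) (nat_lit 0) (XT.lf (nat_lit 0) (nat_lit 7435732142) (nat_lit 228) (nat_lit 8282232063) (nat_lit 304) (nat_lit 7332724453) (nat_lit 58) (nat_lit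 5) (nat_lit 61) (nat_lit 5) (nat_lit 62) (nat_lit 5) (nat_lit 289) (nat_lit 254) (nat_lit 177)) (XT.lf (nat_lit 0) (nat_lit 458769000) (nat_lit 228) (nat_lit 21566483004) (nat_lit 304) (nat_lit 1831256735) (nat_lit 55) (nat_lit 5) (nat_lit 58) (nat_lit 5) (nat_lit 59) (nat_lit 5) (nat_lit 290) (nat_lit 254) (nat_lit 176)))) (XT.nd (nat_lit 78) (nat_lit 456) (nat_lit 0) (XT.lf (nat_lit 0) (nat_lit 4089972076) (nat_lit 304) (nat_lit 7193949396) (nat_lit 76) (nat_lit 13410939347) (nat_lit 54) (nat_lit 5) (nat_lit 58) (nat_lit 5) (nat_lit 55) (nat_lit 5) (nat_lit 291) (nat_lit 254) (nat_lit 175)) (XT.nd (nat_lit 78) (nat_lit 228) (nat_lit 0) (XT.lf (nat_lit 0) (nat_lit 9962106852) (nat_lit 228) (nat_lit 380297288) (nat_lit 304) (nat_lit 15230019557) (nat_lit 51) (nat_lit 5) (nat_lit 54) (nat_lit 5) (nat_lit 55) (nat_lit 5) (nat_lit 292) (nat_lit 254) (nat_lit 174)) (XT.lf (nat_lit 0) (nat_lit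 1523798304) (nat_lit 228) (nat_lit 15557076698) (nat_lit 304) (nat_lit 9407813467) (nat_lit 48) (nat_lit 5) (nat_lit 51) (nat_lit 5) (nat_lit 52) (nat_lit 5) (nat_lit 293) (nat_lit 254) (nat_lit 173))))))) (XT.nd (nat_lit 858) (nat_lit 988) (nat_lit 0) (XT.nd (nat_lit 390) (nat_lit 684) (nat_lit 0) (XT.nd (nat_lit 156) (nat_lit 380) (nat_lit 0) (XT.nd (nat_lit 78) (nat_lit 304) (nat_lit 0) (XT.lf (nat_lit 0) (nat_lit 19804412020) (nat_lit 228) (nat_lit 4494691302) (nat_lit 304) (nat_lit 3147403159) (nat_lit 48) (nat_lit 5) (nat_lit 51) (nat_lit 5) (nat_lit 52) (nat_lit 5) (nat_lit 294) (nat_lit 254) (nat_lit 172)) (XT.lf (nat_lit 0) (nat_lit 3510777769) (nat_lit 304) (nat_lit 17827347131) (nat_lit 76) (nat_lit 7108577506) (nat_lit 44) (nat_lit 5) (nat_lit 48) (nat_lit 5) (nat_lit 45) (nat_lit 5) (nat_lit 295) (nat_lit 254) (nat_lit 171))) (XT.nd (nat_lit 78) (nat_lit 152) (nat_lit 0) (XT.lf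 (nat_lit 0) (nat_lit 357061748) (nat_lit 228) (nat_lit 10188307083) (nat_lit 304) (nat_lit 18947368627) (nat_lit 41) (nat_lit 5) (nat_lit 44) (nat_lit 5) (nat_lit 45) (nat_lit 5) (nat_lit 296) (nat_lit 254) (nat_lit 170)) (XT.nd (nat_lit 78) (nat_lit 152) (nat_lit 0) (XT.lf (nat_lit 0) (nat_lit 18111941686) (nat_lit 304) (nat_lit 10809395112) (nat_lit 76) (nat_lit 1664350878) (nat_lit 41) (nat_lit 5) (nat_lit 45) (nat_lit 5) (nat_lit 42) (nat_lit 5) (nat_lit 297) (nat_lit 254) (nat_lit 169)) (XT.lf (nat_lit 0) (nat_lit 8466397347) (nat_lit 152) (nat_lit 17755917231) (nat_lit 228) (nat_lit 5506026668) (nat_lit 39) (nat_lit 5) (nat_lit 41) (nat_lit 5) (nat_lit 42) (nat_lit 5) (nat_lit 298) (nat_lit 254) (nat_lit 168))))) (XT.nd (nat_lit 234) (nat_lit 228) (nat_lit 0) (XT.nd (nat_lit 78) (nat_lit 380) (nat_lit 0) (XT.lf (nat_lit 0) (nat_lit 1868808609) (nat_lit 228) (nat_lit 4040152370) (nat_lit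 76) (nat_lit 27015841471) (nat_lit 38) (nat_lit 5) (nat_lit 41) (nat_lit 5) (nat_lit 39) (nat_lit 5) (nat_lit 299) (nat_lit 254) (nat_lit 167)) (XT.nd (nat_lit 78) (nat_lit 152) (nat_lit 0) (XT.lf (nat_lit 0) (nat_lit 9704356473) (nat_lit 304) (nat_lit 17860606071) (nat_lit 76) (nat_lit 6608330996) (nat_lit 35) (nat_lit 5) (nat_lit 39) (nat_lit 5) (nat_lit 36) (nat_lit 5) (nat_lit 300) (nat_lit 254) (nat_lit 166)) (XT.lf (nat_lit 0) (nat_lit 2241315423) (nat_lit 152) (nat_lit 15796584507) (nat_lit 228) (nat_lit 17443139465) (nat_lit 33) (nat_lit 5) (nat_lit 35) (nat_lit 5) (nat_lit 36) (nat_lit 5) (nat_lit 301) (nat_lit 254) (nat_lit 165)))) (XT.nd (nat_lit 78) (nat_lit 228) (nat_lit 0) (XT.lf (nat_lit 0) (nat_lit 23695337708) (nat_lit 152) (nat_lit 3260229088) (nat_lit 228) (nat_lit 9893598322) (nat_lit 33) (nat_lit 5) (nat_lit 35) (nat_lit 5) (nat_lit 36) (nat_lit 5) (nat_lit 302) (nat_lit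 254) (nat_lit 164)) (XT.nd (nat_lit 78) (nat_lit 76) (nat_lit 0) (XT.lf (nat_lit 0) (nat_lit 7971345815) (nat_lit 152) (nat_lit 28503868553) (nat_lit 228) (nat_lit 1805815038) (nat_lit 31) (nat_lit 5) (nat_lit 33) (nat_lit 5) (nat_lit 34) (nat_lit 5) (nat_lit 303) (nat_lit 254) (nat_lit 163)) (XT.lf (nat_lit 0) (nat_lit 6710162163) (nat_lit 228) (nat_lit 9476258342) (nat_lit 76) (nat_lit 23591523869) (nat_lit 30) (nat_lit 5) (nat_lit 33) (nat_lit 5) (nat_lit 31) (nat_lit 5) (nat_lit 304) (nat_lit 254) (nat_lit 162)))))) (XT.nd (nat_lit 468) (nat_lit 456) (nat_lit 0) (XT.nd (nat_lit 234) (nat_lit 228) (nat_lit 0) (XT.nd (nat_lit 78) (nat_lit 152) (nat_lit 0) (XT.lf (nat_lit 0) (nat_lit 12602758424) (nat_lit 152) (nat_lit 3118683158) (nat_lit 228) (nat_lit 25624535001) (nat_lit 28) (nat_lit 5) (nat_lit 30) (nat_lit 5) (nat_lit 31) (nat_lit 5) (nat_lit 305) (nat_lit 254) (nat_lit 161)) (XT.nd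 (nat_lit 78) (nat_lit 152) (nat_lit 0) (XT.lf (nat_lit 0) (nat_lit 25369464855) (nat_lit 228) (nat_lit 7132063685) (nat_lit 76) (nat_lit 10485309214) (nat_lit 28) (nat_lit 5) (nat_lit 31) (nat_lit 5) (nat_lit 29) (nat_lit 5) (nat_lit 306) (nat_lit 254) (nat_lit 160)) (XT.lf (nat_lit 0) (nat_lit 15814435347) (nat_lit 152) (nat_lit 19855375477) (nat_lit 228) (nat_lit 9034845655) (nat_lit 26) (nat_lit 5) (nat_lit 28) (nat_lit 5) (nat_lit 29) (nat_lit 5) (nat_lit 307) (nat_lit 254) (nat_lit 159)))) (XT.nd (nat_lit 78) (nat_lit 152) (nat_lit 0) (XT.lf (nat_lit 0) (nat_lit 38128080) (nat_lit 228) (nat_lit 6471336550) (nat_lit 76) (nat_lit 39997093398) (nat_lit 25) (nat_lit 5) (nat_lit 28) (nat_lit 5) (nat_lit 26) (nat_lit 5) (nat_lit 308) (nat_lit 254) (nat_lit 158)) (XT.nd (nat_lit 78) (nat_lit 0) (nat_lit 0) (XT.lf (nat_lit 0) (nat_lit 9607826457) (nat_lit 228) (nat_lit 31171976438) (nat_lit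 76) (nat_lit 7609180921) (nat_lit 23) (nat_lit 5) (nat_lit 26) (nat_lit 5) (nat_lit 24) (nat_lit 5) (nat_lit 309) (nat_lit 254) (nat_lit 157)) (XT.lf (nat_lit 0) (nat_lit 19776671364) (nat_lit 228) (nat_lit 8225514491) (nat_lit 76) (nat_lit 22359735372) (nat_lit 23) (nat_lit 5) (nat_lit 26) (nat_lit 5) (nat_lit 24) (nat_lit 5) (nat_lit 310) (nat_lit 254) (nat_lit 156))))) (XT.nd (nat_lit 234) (nat_lit 228) (nat_lit 0) (XT.nd (nat_lit 78) (nat_lit 76) (nat_lit 0) (XT.lf (nat_lit 0) (nat_lit 16164050028) (nat_lit 152) (nat_lit 14433557453) (nat_lit 228) (nat_lit 21831598257) (nat_lit 21) (nat_lit 5) (nat_lit 23) (nat_lit 5) (nat_lit 24) (nat_lit 5) (nat_lit 311) (nat_lit 254) (nat_lit 155)) (XT.nd (nat_lit 78) (nat_lit 76) (nat_lit 0) (XT.lf (nat_lit 0) (nat_lit 41925905431) (nat_lit 152) (nat_lit 107004799) (nat_lit 228) (nat_lit 12564753886) (nat_lit 21) (nat_lit 5) (nat_lit 23) (nat_lit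 5) (nat_lit 24) (nat_lit 5) (nat_lit 312) (nat_lit 254) (nat_lit 154)) (XT.lf (nat_lit 0) (nat_lit 12176920474) (nat_lit 76) (nat_lit 42112797838) (nat_lit 152) (nat_lit 2577343689) (nat_lit 20) (nat_lit 5) (nat_lit 21) (nat_lit 5) (nat_lit 22) (nat_lit 4) (nat_lit 313) (nat_lit 254) (nat_lit 153)))) (XT.nd (nat_lit 78) (nat_lit 152) (nat_lit 0) (XT.lf (nat_lit 0) (nat_lit 7877260629) (nat_lit 152) (nat_lit 20809704593) (nat_lit 76) (nat_lit 30557026827) (nat_lit 19) (nat_lit 5) (nat_lit 21) (nat_lit 5) (nat_lit 20) (nat_lit 5) (nat_lit 314) (nat_lit 254) (nat_lit 152)) (XT.nd (nat_lit 78) (nat_lit 0) (nat_lit 0) (XT.lf (nat_lit 0) (nat_lit 4305496829) (nat_lit 152) (nat_lit 14527533758) (nat_lit 228) (nat_lit 42905028045) (nat_lit 17) (nat_lit 5) (nat_lit 19) (nat_lit 5) (nat_lit 20) (nat_lit 5) (nat_lit 315) (nat_lit 254) (nat_lit 151)) (XT.lf (nat_lit 0) (nat_lit 30546306006) (nat_lit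 228) (nat_lit 33261469984) (nat_lit 76) (nat_lit 542768421) (nat_lit 17) (nat_lit 5) (nat_lit 20) (nat_lit 5) (nat_lit 18) (nat_lit 4) (nat_lit 316) (nat_lit 254) (nat_lit 150))))))))
noncomputable def xc78 : XT := (XT.nd (nat_lit 33384) (nat_lit 0) (nat_lit 4864) (XT.nd (nat_lit 858) (nat_lit 0) (nat_lit 0) (XT.nd (nat_lit 390) (nat_lit 228) (nat_lit 0) (XT.nd (nat_lit 156) (nat_lit 228) (nat_lit 0) (XT.nd (nat_lit 78) (nat_lit 76) (nat_lit 0) (XT.lf (nat_lit 0) (nat_lit 42982457418) (nat_lit 228) (nat_lit 8044643887) (nat_lit 76) (nat_lit 16062443835) (nat_lit 17) (nat_lit 5) (nat_lit 20) (nat_lit 5) (nat_lit 18) (nat_lit 4) (nat_lit 317) (nat_lit 254) (nat_lit 149)) (XT.lf (nat_lit 0) (nat_lit 18784150526) (nat_lit 76) (nat_lit 37427861385) (nat_lit 152) (nat_lit 13748342819) (nat_lit 16) (nat_lit 5) (nat_lit 17) (nat_lit 5) (nat_lit 18) (nat_lit 4) (nat_lit 318) (nat_lit 254) (nat_lit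 148))) (XT.nd (nat_lit 78) (nat_lit 228) (nat_lit 0) (XT.lf (nat_lit 0) (nat_lit 47107516630) (nat_lit 76) (nat_lit 23069653910) (nat_lit 152) (nat_lit 2795316840) (nat_lit 16) (nat_lit 5) (nat_lit 17) (nat_lit 5) (nat_lit 18) (nat_lit 4) (nat_lit 319) (nat_lit 254) (nat_lit 147)) (XT.nd (nat_lit 78) (nat_lit 0) (nat_lit 0) (XT.lf (nat_lit 0) (nat_lit 625920593) (nat_lit 152) (nat_lit 7907223304) (nat_lit 228) (nat_lit 67599648529) (nat_lit 13) (nat_lit 5) (nat_lit 15) (nat_lit 5) (nat_lit 16) (nat_lit 5) (nat_lit 320) (nat_lit 254) (nat_lit 146)) (XT.lf (nat_lit 0) (nat_lit 20708521939) (nat_lit 228) (nat_lit 50583359969) (nat_lit 76) (nat_lit 8148256964) (nat_lit 13) (nat_lit 5) (nat_lit 16) (nat_lit 5) (nat_lit 14) (nat_lit 4) (nat_lit 321) (nat_lit 254) (nat_lit 145))))) (XT.nd (nat_lit 234) (nat_lit 152) (nat_lit 0) (XT.nd (nat_lit 78) (nat_lit 76) (nat_lit 0) (XT.lf (nat_lit 0) (nat_lit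 33564712711) (nat_lit 228) (nat_lit 24507019403) (nat_lit 76) (nat_lit 24838964557) (nat_lit 13) (nat_lit 5) (nat_lit 16) (nat_lit 5) (nat_lit 14) (nat_lit 4) (nat_lit 322) (nat_lit 254) (nat_lit 144)) (XT.nd (nat_lit 78) (nat_lit 0) (nat_lit 0) (XT.lf (nat_lit 0) (nat_lit 2917169951) (nat_lit 76) (nat_lit 44167188794) (nat_lit 152) (nat_lit 39469809332) (nat_lit 12) (nat_lit 5) (nat_lit 13) (nat_lit 5) (nat_lit 14) (nat_lit 4) (nat_lit 323) (nat_lit 254) (nat_lit 143)) (XT.lf (nat_lit 0) (nat_lit 32212170234) (nat_lit 76) (nat_lit 29312930896) (nat_lit 152) (nat_lit 28847363351) (nat_lit 12) (nat_lit 5) (nat_lit 13) (nat_lit 5) (nat_lit 14) (nat_lit 4) (nat_lit 324) (nat_lit 254) (nat_lit 142)))) (XT.nd (nat_lit 78) (nat_lit 152) (nat_lit 0) (XT.lf (nat_lit 0) (nat_lit 62959993706) (nat_lit 76) (nat_lit 13721063982) (nat_lit 152) (nat_lit 17700827321) (nat_lit 12) (nat_lit 5) (nat_lit 13)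 (nat_lit 5) (nat_lit 14) (nat_lit 4) (nat_lit 325) (nat_lit 254) (nat_lit 141)) (XT.nd (nat_lit 78) (nat_lit 152) (nat_lit 0) (XT.lf (nat_lit 0) (nat_lit 92613744536) (nat_lit 152) (nat_lit 3383556937) (nat_lit 0) (nat_lit 2593911515) (nat_lit 12) (nat_lit 5) (nat_lit 14) (nat_lit 4) (nat_lit 12) (nat_lit 4) (nat_lit 326) (nat_lit 254) (nat_lit 140)) (XT.lf (nat_lit 0) (nat_lit 6598566708) (nat_lit 152) (nat_lit 76641270212) (nat_lit 76) (nat_lit 19757646393) (nat_lit 10) (nat_lit 5) (nat_lit 12) (nat_lit 5) (nat_lit 11) (nat_lit 4) (nat_lit 327) (nat_lit 254) (nat_lit 139)))))) (XT.nd (nat_lit 32058) (nat_lit 0) (nat_lit 12768) (XT.nd (nat_lit 31824) (nat_lit 0) (nat_lit 13528) (XT.nd (nat_lit 78) (nat_lit 0) (nat_lit 0) (XT.lf (nat_lit 0) (nat_lit 19710002820) (nat_lit 152) (nat_lit 50040795486) (nat_lit 76) (nat_lit 37870590563) (nat_lit 10) (nat_lit 5) (nat_lit 12) (nat_lit 5) (nat_lit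 11) (nat_lit 4) (nat_lit 328) (nat_lit 254) (nat_lit 138)) (XT.lf (nat_lit 0) (nat_lit 33471198964) (nat_lit 152) (nat_lit 22120558343) (nat_lit 76) (nat_lit 56884910437) (nat_lit 10) (nat_lit 5) (nat_lit 12) (nat_lit 5) (nat_lit 11) (nat_lit 4) (nat_lit 329) (nat_lit 254) (nat_lit 137))) (XT.nd (nat_lit 78) (nat_lit 988) (nat_lit 0) (XT.lf (nat_lit 0) (nat_lit 3895159398) (nat_lit 988) (nat_lit 334088528) (nat_lit 988) (nat_lit 334088528) (nat_lit 201) (nat_lit 3) (nat_lit 214) (nat_lit 3) (nat_lit 214) (nat_lit 5) (nat_lit 255) (nat_lit 255) (nat_lit 210)) (XT.nd (nat_lit 78) (nat_lit 0) (nat_lit 76) (XT.lf (nat_lit 0) (nat_lit 37085318) (nat_lit 988) (nat_lit 3274068230) (nat_lit 1064) (nat_lit 5999893756) (nat_lit 188) (nat_lit 5) (nat_lit 201) (nat_lit 3) (nat_lit 202) (nat_lit 5) (nat_lit 256) (nat_lit 255) (nat_lit 209)) (XT.lf (nat_lit 0) (nat_lit 1429370879) (nat_lit 988) (nat_lit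 5929061725) (nat_lit 1064) (nat_lit 2146654718) (nat_lit 189) (nat_lit 5) (nat_lit 202) (nat_lit 5) (nat_lit 203) (nat_lit 5) (nat_lit 257) (nat_lit 255) (nat_lit 208))))) (XT.nd (nat_lit 234) (nat_lit 836) (nat_lit 0) (XT.nd (nat_lit 78) (nat_lit 0) (nat_lit 76) (XT.lf (nat_lit 76) (nat_lit 1068808297) (nat_lit 0) (nat_lit 1819148343) (nat_lit 1064) (nat_lit 6821141839) (nat_lit 190) (nat_lit 5) (nat_lit 189) (nat_lit 5) (nat_lit 203) (nat_lit 5) (nat_lit 258) (nat_lit 255) (nat_lit 207)) (XT.nd (nat_lit 78) (nat_lit 0) (nat_lit 76) (XT.lf (nat_lit 0) (nat_lit 4442205473) (nat_lit 988) (nat_lit 1468983551) (nat_lit 1064) (nat_lit 4011600792) (nat_lit 190) (nat_lit 5) (nat_lit 203) (nat_lit 5) (nat_lit 204) (nat_lit 5) (nat_lit 259) (nat_lit 255) (nat_lit 206)) (XT.lf (nat_lit 0) (nat_lit 6078027166) (nat_lit 988) (nat_lit 4032336575) (nat_lit 1064) (nat_lit 36840103) (nat_lit 191) (nat_lit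 5) (nat_lit 204) (nat_lit 5) (nat_lit 205) (nat_lit 5) (nat_lit 260) (nat_lit 255) (nat_lit 205)))) (XT.nd (nat_lit 78) (nat_lit 988) (nat_lit 0) (XT.lf (nat_lit 76) (nat_lit 3690639026) (nat_lit 0) (nat_lit 4145081744) (nat_lit 1064) (nat_lit 2546061986) (nat_lit 192) (nat_lit 5) (nat_lit 191) (nat_lit 5) (nat_lit 205) (nat_lit 5) (nat_lit 261) (nat_lit 255) (nat_lit 204)) (XT.nd (nat_lit 78) (nat_lit 1064) (nat_lit 0) (XT.lf (nat_lit 76) (nat_lit 1211259588) (nat_lit 0) (nat_lit 8476741424) (nat_lit 1064) (nat_lit 940028169) (nat_lit 193) (nat_lit 5) (nat_lit 192) (nat_lit 5) (nat_lit 206) (nat_lit 5) (nat_lit 262) (nat_lit 255) (nat_lit 203)) (XT.lf (nat_lit 0) (nat_lit 777894118) (nat_lit 1064) (nat_lit 1334419349) (nat_lit 1140) (nat_lit 8772803847) (nat_lit 178) (nat_lit 5) (nat_lit 192) (nat_lit 5) (nat_lit 193) (nat_lit 5) (nat_lit 263) (nat_lit 255) (nat_lit 202))))))) (XT.nd (nat_lit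 858) (nat_lit 3192) (nat_lit 0) (XT.nd (nat_lit 390) (nat_lit 2736) (nat_lit 0) (XT.nd (nat_lit 156) (nat_lit 2052) (nat_lit 0) (XT.nd (nat_lit 78) (nat_lit 0) (nat_lit 76) (XT.lf (nat_lit 0) (nat_lit 2614745730) (nat_lit 1064) (nat_lit 3962243629) (nat_lit 1140) (nat_lit 4576340001) (nat_lit 179) (nat_lit 5) (nat_lit 193) (nat_lit 5) (nat_lit 194) (nat_lit 5) (nat_lit 264) (nat_lit 255) (nat_lit 201)) (XT.lf (nat_lit 0) (nat_lit 4566794987) (nat_lit 1064) (nat_lit 6675855889) (nat_lit 76) (nat_lit 191717583) (nat_lit 180) (nat_lit 5) (nat_lit 194) (nat_lit 5) (nat_lit 181) (nat_lit 5) (nat_lit 265) (nat_lit 255) (nat_lit 200))) (XT.nd (nat_lit 78) (nat_lit 1064) (nat_lit 0) (XT.lf (nat_lit 0) (nat_lit 2198198114) (nat_lit 1064) (nat_lit 4489975761) (nat_lit 1140) (nat_lit 5039245345) (nat_lit 166) (nat_lit 5) (nat_lit 180) (nat_lit 5) (nat_lit 181) (nat_lit 5) (nat_lit 266) (nat_lit 255)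 (nat_lit 199)) (XT.nd (nat_lit 78) (nat_lit 1064) (nat_lit 0) (XT.lf (nat_lit 0) (nat_lit 8955389032) (nat_lit 1140) (nat_lit 451514042) (nat_lit 76) (nat_lit 2627132641) (nat_lit 166) (nat_lit 5) (nat_lit 181) (nat_lit 5) (nat_lit 167) (nat_lit 5) (nat_lit 267) (nat_lit 255) (nat_lit 198)) (XT.lf (nat_lit 0) (nat_lit 9167714769) (nat_lit 1064) (nat_lit 2249664622) (nat_lit 1140) (nat_lit 936262366) (nat_lit 152) (nat_lit 5) (nat_lit 166) (nat_lit 5) (nat_lit 167) (nat_lit 5) (nat_lit 268) (nat_lit 255) (nat_lit 197))))) (XT.nd (nat_lit 234) (nat_lit 1064) (nat_lit 0) (XT.nd (nat_lit 78) (nat_lit 1064) (nat_lit 0) (XT.lf (nat_lit 0) (nat_lit 1357223449) (nat_lit 608) (nat_lit 6080049632) (nat_lit 76) (nat_lit 5249581593) (nat_lit 144) (nat_lit 5) (nat_lit 152) (nat_lit 5) (nat_lit 145) (nat_lit 5) (nat_lit 269) (nat_lit 255) (nat_lit 196)) (XT.nd (nat_lit 78) (nat_lit 532) (nat_lit 0) (XT.lf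 (nat_lit 0) (nat_lit 3792359922) (nat_lit 608) (nat_lit 9118425874) (nat_lit 76) (nat_lit 124363233) (nat_lit 137) (nat_lit 5) (nat_lit 145) (nat_lit 5) (nat_lit 138) (nat_lit 5) (nat_lit 270) (nat_lit 255) (nat_lit 195)) (XT.lf (nat_lit 0) (nat_lit 1039829186) (nat_lit 532) (nat_lit 5411046599) (nat_lit 608) (nat_lit 6947018475) (nat_lit 130) (nat_lit 5) (nat_lit 137) (nat_lit 5) (nat_lit 138) (nat_lit 5) (nat_lit 271) (nat_lit 255) (nat_lit 194)))) (XT.nd (nat_lit 78) (nat_lit 1064) (nat_lit 0) (XT.lf (nat_lit 0) (nat_lit 9315937854) (nat_lit 608) (nat_lit 1950314886) (nat_lit 76) (nat_lit 2510396198) (nat_lit 130) (nat_lit 5) (nat_lit 138) (nat_lit 5) (nat_lit 131) (nat_lit 5) (nat_lit 272) (nat_lit 255) (nat_lit 193)) (XT.nd (nat_lit 78) (nat_lit 532) (nat_lit 0) (XT.lf (nat_lit 0) (nat_lit 9055836326) (nat_lit 532) (nat_lit 3367360514) (nat_lit 608) (nat_lit 1748253145) (nat_lit 123)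 (nat_lit 5) (nat_lit 130) (nat_lit 5) (nat_lit 131) (nat_lit 5) (nat_lit 273) (nat_lit 255) (nat_lit 192)) (XT.lf (nat_lit 0) (nat_lit 1164241693) (nat_lit 532) (nat_lit 8499993737) (nat_lit 76) (nat_lit 4918933372) (nat_lit 116) (nat_lit 5) (nat_lit 123) (nat_lit 5) (nat_lit 117) (nat_lit 5) (nat_lit 274) (nat_lit 255) (nat_lit 191)))))) (XT.nd (nat_lit 390) (nat_lit 1444) (nat_lit 0) (XT.nd (nat_lit 156) (nat_lit 1292) (nat_lit 0) (XT.nd (nat_lit 78) (nat_lit 0) (nat_lit 0) (XT.lf (nat_lit 0) (nat_lit 2895549285) (nat_lit 456) (nat_lit 1365965613) (nat_lit 532) (nat_lit 10751247836) (nat_lit 110) (nat_lit 5) (nat_lit 116) (nat_lit 5) (nat_lit 117) (nat_lit 5) (nat_lit 275) (nat_lit 255) (nat_lit 190)) (XT.lf (nat_lit 0) (nat_lit 7634074876) (nat_lit 532) (nat_lit 537848702) (nat_lit 76) (nat_lit 7288364628) (nat_lit 110) (nat_lit 5) (nat_lit 117) (nat_lit 5) (nat_lit 111) (nat_lit 5) (nat_lit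 276) (nat_lit 255) (nat_lit 189))) (XT.nd (nat_lit 78) (nat_lit 912) (nat_lit 0) (XT.lf (nat_lit 0) (nat_lit 11270791947) (nat_lit 456) (nat_lit 4137324314) (nat_lit 76) (nat_lit 519269280) (nat_lit 105) (nat_lit 5) (nat_lit 111) (nat_lit 5) (nat_lit 106) (nat_lit 5) (nat_lit 277) (nat_lit 255) (nat_lit 188)) (XT.nd (nat_lit 78) (nat_lit 456) (nat_lit 0) (XT.lf (nat_lit 0) (nat_lit 8367231676) (nat_lit 456) (nat_lit 6855197415) (nat_lit 532) (nat_lit 1191474662) (nat_lit 99) (nat_lit 5) (nat_lit 105) (nat_lit 5) (nat_lit 106) (nat_lit 5) (nat_lit 278) (nat_lit 255) (nat_lit 187)) (XT.lf (nat_lit 0) (nat_lit 2474174413) (nat_lit 456) (nat_lit 12257446117) (nat_lit 76) (nat_lit 2190225177) (nat_lit 93) (nat_lit 5) (nat_lit 99) (nat_lit 5) (nat_lit 94) (nat_lit 5) (nat_lit 279) (nat_lit 255) (nat_lit 186))))) (XT.nd (nat_lit 234) (nat_lit 760) (nat_lit 0) (XT.nd (nat_lit 78) (nat_lit 304) (nat_lit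 0) (XT.lf (nat_lit 0) (nat_lit 615647705) (nat_lit 380) (nat_lit 5808493767) (nat_lit 456) (nat_lit 11026970618) (nat_lit 88) (nat_lit 5) (nat_lit 93) (nat_lit 5) (nat_lit 94) (nat_lit 5) (nat_lit 280) (nat_lit 255) (nat_lit 185)) (XT.nd (nat_lit 78) (nat_lit 304) (nat_lit 0) (XT.lf (nat_lit 0) (nat_lit 10701082644) (nat_lit 456) (nat_lit 3690569262) (nat_lit 76) (nat_lit 3611354708) (nat_lit 88) (nat_lit 5) (nat_lit 94) (nat_lit 5) (nat_lit 89) (nat_lit 5) (nat_lit 281) (nat_lit 255) (nat_lit 184)) (XT.lf (nat_lit 0) (nat_lit 10213604622) (nat_lit 304) (nat_lit 5104423039) (nat_lit 380) (nat_lit 3260730255) (nat_lit 84) (nat_lit 5) (nat_lit 88) (nat_lit 5) (nat_lit 89) (nat_lit 5) (nat_lit 282) (nat_lit 255) (nat_lit 183)))) (XT.nd (nat_lit 78) (nat_lit 304) (nat_lit 0) (XT.lf (nat_lit 0) (nat_lit 1072935467) (nat_lit 456) (nat_lit 13454150423) (nat_lit 76) (nat_lit 4652683239) (nat_lit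 78) (nat_lit 5) (nat_lit 84) (nat_lit 5) (nat_lit 79) (nat_lit 5) (nat_lit 283) (nat_lit 255) (nat_lit 182)) (XT.nd (nat_lit 78) (nat_lit 0) (nat_lit 0) (XT.lf (nat_lit 0) (nat_lit 779509665) (nat_lit 304) (nat_lit 4894043164) (nat_lit 380) (nat_lit 14132819554) (nat_lit 74) (nat_lit 5) (nat_lit 78) (nat_lit 5) (nat_lit 79) (nat_lit 5) (nat_lit 284) (nat_lit 255) (nat_lit 181)) (XT.lf (nat_lit 0) (nat_lit 10666291919) (nat_lit 380) (nat_lit 4543310404) (nat_lit 76) (nat_lit 5249879966) (nat_lit 74) (nat_lit 5) (nat_lit 79) (nat_lit 5) (nat_lit 75) (nat_lit 5) (nat_lit 285) (nat_lit 255) (nat_lit 180))))))))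
noncomputable def xc79 : XT := (XT.nd (nat_lit 1716) (nat_lit 1368) (nat_lit 0) (XT.nd (nat_lit 858) (nat_lit 1216) (nat_lit 0) (XT.nd (nat_lit 390) (nat_lit 1064) (nat_lit 0) (XT.nd (nat_lit 156) (nat_lit 608) (nat_lit 0) (XT.nd (nat_lit 78) (nat_lit 304) (nat_lit 0) (XT.lf (nat_lit 0) (nat_lit 10789751467) (nat_lit 304) (nat_lit 5245399406) (nat_lit 380) (nat_lit 5106339674) (nat_lit 70) (nat_lit 5) (nat_lit 74) (nat_lit 5) (nat_lit 75) (nat_lit 5) (nat_lit 286) (nat_lit 255) (nat_lit 179)) (XT.lf (nat_lit 0) (nat_lit 5142436818) (nat_lit 304) (nat_lit 16651044542) (nat_lit 380) (nat_lit 60522569) (nat_lit 66) (nat_lit 5) (nat_lit 70) (nat_lit 5) (nat_lit 71) (nat_lit 5) (nat_lit 287) (nat_lit 255) (nat_lit 178))) (XT.nd (nat_lit 78) (nat_lit 532) (nat_lit 0) (XT.lf (nat_lit 0) (nat_lit 5270772852) (nat_lit 380) (nat_lit 1110675199) (nat_lit 76) (nat_lit 16215155660) (nat_lit 65) (nat_lit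 5) (nat_lit 70) (nat_lit 5) (nat_lit 66) (nat_lit 5) (nat_lit 288) (nat_lit 255) (nat_lit 177)) (XT.nd (nat_lit 78) (nat_lit 228) (nat_lit 0) (XT.lf (nat_lit 0) (nat_lit 11036504242) (nat_lit 380) (nat_lit 7876766237) (nat_lit 76) (nat_lit 4458002660) (nat_lit 61) (nat_lit 5) (nat_lit 66) (nat_lit 5) (nat_lit 62) (nat_lit 5) (nat_lit 289) (nat_lit 255) (nat_lit 176)) (XT.lf (nat_lit 0) (nat_lit 8843840071) (nat_lit 228) (nat_lit 8384421525) (nat_lit 304) (nat_lit 6952312089) (nat_lit 58) (nat_lit 5) (nat_lit 61) (nat_lit 5) (nat_lit 62) (nat_lit 5) (nat_lit 290) (nat_lit 255) (nat_lit 175))))) (XT.nd (nat_lit 234) (nat_lit 532) (nat_lit 0) (XT.nd (nat_lit 78) (nat_lit 304) (nat_lit 0) (XT.lf (nat_lit 0) (nat_lit 1507410556) (nat_lit 228) (nat_lit 22321723322) (nat_lit 304) (nat_lit 1198247977) (nat_lit 55) (nat_lit 5) (nat_lit 58) (nat_lit 5) (nat_lit 59) (nat_lit 5) (nat_lit 291) (nat_lit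 255) (nat_lit 174)) (XT.nd (nat_lit 78) (nat_lit 228) (nat_lit 0) (XT.lf (nat_lit 0) (nat_lit 4971073150) (nat_lit 304) (nat_lit 6562513150) (nat_lit 76) (nat_lit 14374911587) (nat_lit 54) (nat_lit 5) (nat_lit 58) (nat_lit 5) (nat_lit 55) (nat_lit 5) (nat_lit 292) (nat_lit 255) (nat_lit 173)) (XT.lf (nat_lit 0) (nat_lit 11422935262) (nat_lit 228) (nat_lit 90226673) (nat_lit 304) (nat_lit 15317504391) (nat_lit 51) (nat_lit 5) (nat_lit 54) (nat_lit 5) (nat_lit 55) (nat_lit 5) (nat_lit 293) (nat_lit 255) (nat_lit 172)))) (XT.nd (nat_lit 78) (nat_lit 304) (nat_lit 0) (XT.lf (nat_lit 0) (nat_lit 2552023479) (nat_lit 228) (nat_lit 16017388444) (nat_lit 304) (nat_lit 9223943386) (nat_lit 48) (nat_lit 5) (nat_lit 51) (nat_lit 5) (nat_lit 52) (nat_lit 5) (nat_lit 294) (nat_lit 255) (nat_lit 171)) (XT.nd (nat_lit 78) (nat_lit 304) (nat_lit 0) (XT.lf (nat_lit 0) (nat_lit 21701332869) (nat_lit 228)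 (nat_lit 4417004829) (nat_lit 304) (nat_lit 2681667836) (nat_lit 48) (nat_lit 5) (nat_lit 51) (nat_lit 5) (nat_lit 52) (nat_lit 5) (nat_lit 295) (nat_lit 255) (nat_lit 170)) (XT.lf (nat_lit 0) (nat_lit 4279666308) (nat_lit 304) (nat_lit 17810087604) (nat_lit 76) (nat_lit 7760837823) (nat_lit 44) (nat_lit 5) (nat_lit 48) (nat_lit 5) (nat_lit 45) (nat_lit 5) (nat_lit 296) (nat_lit 255) (nat_lit 169)))))) (XT.nd (nat_lit 390) (nat_lit 532) (nat_lit 0) (XT.nd (nat_lit 156) (nat_lit 456) (nat_lit 0) (XT.nd (nat_lit 78) (nat_lit 0) (nat_lit 0) (XT.lf (nat_lit 0) (nat_lit 1257496111) (nat_lit 228) (nat_lit 10388719978) (nat_lit 304) (nat_lit 19303336304) (nat_lit 41) (nat_lit 5) (nat_lit 44) (nat_lit 5) (nat_lit 45) (nat_lit 5) (nat_lit 297) (nat_lit 255) (nat_lit 168)) (XT.lf (nat_lit 0) (nat_lit 19566633187) (nat_lit 304) (nat_lit 10495166873) (nat_lit 76) (nat_lit 2036113860) (nat_lit 41) (nat_lit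 5) (nat_lit 45) (nat_lit 5) (nat_lit 42) (nat_lit 5) (nat_lit 298) (nat_lit 255) (nat_lit 167))) (XT.nd (nat_lit 78) (nat_lit 304) (nat_lit 0) (XT.lf (nat_lit 0) (nat_lit 9719915462) (nat_lit 152) (nat_lit 18344442282) (nat_lit 228) (nat_lit 5233915306) (nat_lit 39) (nat_lit 5) (nat_lit 41) (nat_lit 5) (nat_lit 42) (nat_lit 5) (nat_lit 299) (nat_lit 255) (nat_lit 166)) (XT.nd (nat_lit 78) (nat_lit 228) (nat_lit 0) (XT.lf (nat_lit 0) (nat_lit 2473421137) (nat_lit 228) (nat_lit 3440806235) (nat_lit 76) (nat_lit 28640964609) (nat_lit 38) (nat_lit 5) (nat_lit 41) (nat_lit 5) (nat_lit 39) (nat_lit 5) (nat_lit 300) (nat_lit 255) (nat_lit 165)) (XT.lf (nat_lit 0) (nat_lit 10686617817) (nat_lit 304) (nat_lit 17962663652) (nat_lit 76) (nat_lit 7217274557) (nat_lit 35) (nat_lit 5) (nat_lit 39) (nat_lit 5) (nat_lit 36) (nat_lit 5) (nat_lit 301) (nat_lit 255) (nat_lit 164))))) (XT.nd (nat_lit 234) (nat_lit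 228) (nat_lit 0) (XT.nd (nat_lit 78) (nat_lit 152) (nat_lit 0) (XT.lf (nat_lit 0) (nat_lit 3121680842) (nat_lit 152) (nat_lit 16298874232) (nat_lit 228) (nat_lit 17819645978) (nat_lit 33) (nat_lit 5) (nat_lit 35) (nat_lit 5) (nat_lit 36) (nat_lit 5) (nat_lit 302) (nat_lit 255) (nat_lit 163)) (XT.nd (nat_lit 78) (nat_lit 152) (nat_lit 0) (XT.lf (nat_lit 0) (nat_lit 25611818543) (nat_lit 152) (nat_lit 3149393400) (nat_lit 228) (nat_lit 9916230180) (nat_lit 33) (nat_lit 5) (nat_lit 35) (nat_lit 5) (nat_lit 36) (nat_lit 5) (nat_lit 303) (nat_lit 255) (nat_lit 162)) (XT.lf (nat_lit 0) (nat_lit 9091870441) (nat_lit 152) (nat_lit 29652615202) (nat_lit 228) (nat_lit 1436805873) (nat_lit 31) (nat_lit 5) (nat_lit 33) (nat_lit 5) (nat_lit 34) (nat_lit 5) (nat_lit 304) (nat_lit 255) (nat_lit 161)))) (XT.nd (nat_lit 78) (nat_lit 152) (nat_lit 0) (XT.lf (nat_lit 0) (nat_lit 7474562958) (nat_lit 228) (nat_lit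 9253564950) (nat_lit 76) (nat_lit 25025454815) (nat_lit 30) (nat_lit 5) (nat_lit 33) (nat_lit 5) (nat_lit 31) (nat_lit 5) (nat_lit 305) (nat_lit 255) (nat_lit 160)) (XT.nd (nat_lit 78) (nat_lit 0) (nat_lit 0) (XT.lf (nat_lit 0) (nat_lit 13909437441) (nat_lit 152) (nat_lit 3013048773) (nat_lit 228) (nat_lit 26477966603) (nat_lit 28) (nat_lit 5) (nat_lit 30) (nat_lit 5) (nat_lit 31) (nat_lit 5) (nat_lit 306) (nat_lit 255) (nat_lit 159)) (XT.lf (nat_lit 0) (nat_lit 27035544679) (nat_lit 228) (nat_lit 6834524647) (nat_lit 76) (nat_lit 11253826483) (nat_lit 28) (nat_lit 5) (nat_lit 31) (nat_lit 5) (nat_lit 29) (nat_lit 5) (nat_lit 307) (nat_lit 255) (nat_lit 158))))))) (XT.nd (nat_lit 858) (nat_lit 532) (nat_lit 0) (XT.nd (nat_lit 390) (nat_lit 304) (nat_lit 0) (XT.nd (nat_lit 156) (nat_lit 304) (nat_lit 0) (XT.nd (nat_lit 78) (nat_lit 76) (nat_lit 0) (XT.lf (nat_lit 0) (nat_lit 17240548482)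 (nat_lit 152) (nat_lit 20597533588) (nat_lit 228) (nat_lit 9089925111) (nat_lit 26) (nat_lit 5) (nat_lit 28) (nat_lit 5) (nat_lit 29) (nat_lit 5) (nat_lit 308) (nat_lit 255) (nat_lit 157)) (XT.lf (nat_lit 0) (nat_lit 410436871) (nat_lit 228) (nat_lit 6182083831) (nat_lit 76) (nat_lit 42227939978) (nat_lit 25) (nat_lit 5) (nat_lit 28) (nat_lit 5) (nat_lit 26) (nat_lit 5) (nat_lit 309) (nat_lit 255) (nat_lit 156))) (XT.nd (nat_lit 78) (nat_lit 152) (nat_lit 0) (XT.lf (nat_lit 0) (nat_lit 10448979845) (nat_lit 228) (nat_lit 32126545165) (nat_lit 76) (nat_lit 8221786870) (nat_lit 23) (nat_lit 5) (nat_lit 26) (nat_lit 5) (nat_lit 24) (nat_lit 5) (nat_lit 310) (nat_lit 255) (nat_lit 155)) (XT.nd (nat_lit 78) (nat_lit 152) (nat_lit 0) (XT.lf (nat_lit 0) (nat_lit 21109087853) (nat_lit 228) (nat_lit 8061523459) (nat_lit 76) (nat_lit 23698814428) (nat_lit 23) (nat_lit 5) (nat_lit 26) (nat_lit 5) (nat_lit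 24) (nat_lit 5) (nat_lit 311) (nat_lit 255) (nat_lit 154)) (XT.lf (nat_lit 0) (nat_lit 17531029380) (nat_lit 152) (nat_lit 14929051608) (nat_lit 228) (nat_lit 22580336708) (nat_lit 21) (nat_lit 5) (nat_lit 23) (nat_lit 5) (nat_lit 24) (nat_lit 5) (nat_lit 312) (nat_lit 255) (nat_lit 153))))) (XT.nd (nat_lit 234) (nat_lit 152) (nat_lit 0) (XT.nd (nat_lit 78) (nat_lit 152) (nat_lit 0) (XT.lf (nat_lit 0) (nat_lit 44452301764) (nat_lit 228) (nat_lit 12764408534) (nat_lit 76) (nat_lit 101046991) (nat_lit 21) (nat_lit 5) (nat_lit 24) (nat_lit 5) (nat_lit 22) (nat_lit 4) (nat_lit 313) (nat_lit 255) (nat_lit 152)) (XT.nd (nat_lit 78) (nat_lit 76) (nat_lit 0) (XT.lf (nat_lit 0) (nat_lit 13310149635) (nat_lit 76) (nat_lit 44002739140) (nat_lit 152) (nat_lit 2388020409) (nat_lit 20) (nat_lit 5) (nat_lit 21) (nat_lit 5) (nat_lit 22) (nat_lit 4) (nat_lit 314) (nat_lit 255) (nat_lit 151)) (XT.lf (nat_lit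 0) (nat_lit 8568248826) (nat_lit 152) (nat_lit 21344637047) (nat_lit 76) (nat_lit 32284165133) (nat_lit 19) (nat_lit 5) (nat_lit 21) (nat_lit 5) (nat_lit 20) (nat_lit 5) (nat_lit 315) (nat_lit 255) (nat_lit 150)))) (XT.nd (nat_lit 78) (nat_lit 0) (nat_lit 0) (XT.lf (nat_lit 0) (nat_lit 5011832877) (nat_lit 152) (nat_lit 15050545967) (nat_lit 228) (nat_lit 44753735731) (nat_lit 17) (nat_lit 5) (nat_lit 19) (nat_lit 5) (nat_lit 20) (nat_lit 5) (nat_lit 316) (nat_lit 255) (nat_lit 149)) (XT.nd (nat_lit 78) (nat_lit 0) (nat_lit 0) (XT.lf (nat_lit 0) (nat_lit 32349479965) (nat_lit 228) (nat_lit 34450302215) (nat_lit 76) (nat_lit 759807895) (nat_lit 17) (nat_lit 5) (nat_lit 20) (nat_lit 5) (nat_lit 18) (nat_lit 4) (nat_lit 317) (nat_lit 255) (nat_lit 148)) (XT.lf (nat_lit 0) (nat_lit 45394302821) (nat_lit 228) (nat_lit 7995217730) (nat_lit 76) (nat_lit 17046424172) (nat_lit 17) (nat_lit 5) (nat_lit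 20) (nat_lit 5) (nat_lit 18) (nat_lit 4) (nat_lit 318) (nat_lit 255) (nat_lit 147)))))) (XT.nd (nat_lit 468) (nat_lit 152) (nat_lit 0) (XT.nd (nat_lit 234) (nat_lit 76) (nat_lit 0) (XT.nd (nat_lit 78) (nat_lit 228) (nat_lit 0) (XT.lf (nat_lit 0) (nat_lit 20162069708) (nat_lit 76) (nat_lit 39114971900) (nat_lit 152) (nat_lit 14173511322) (nat_lit 16) (nat_lit 5) (nat_lit 17) (nat_lit 5) (nat_lit 18) (nat_lit 4) (nat_lit 319) (nat_lit 255) (nat_lit 146)) (XT.nd (nat_lit 78) (nat_lit 228) (nat_lit 0) (XT.lf (nat_lit 0) (nat_lit 49880713085) (nat_lit 76) (nat_lit 24047629411) (nat_lit 152) (nat_lit 2685322075) (nat_lit 16) (nat_lit 5) (nat_lit 17) (nat_lit 5) (nat_lit 18) (nat_lit 4) (nat_lit 320) (nat_lit 255) (nat_lit 145)) (XT.lf (nat_lit 0) (nat_lit 1067962176) (nat_lit 152) (nat_lit 8129012851) (nat_lit 228) (nat_lit 70735177424) (nat_lit 13) (nat_lit 5) (nat_lit 15) (nat_lit 5) (nat_lit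 16) (nat_lit 5) (nat_lit 321) (nat_lit 255) (nat_lit 144)))) (XT.nd (nat_lit 78) (nat_lit 76) (nat_lit 0) (XT.lf (nat_lit 0) (nat_lit 21971417000) (nat_lit 228) (nat_lit 52715997803) (nat_lit 76) (nat_lit 8717750394) (nat_lit 13) (nat_lit 5) (nat_lit 16) (nat_lit 5) (nat_lit 14) (nat_lit 4) (nat_lit 322) (nat_lit 255) (nat_lit 143)) (XT.nd (nat_lit 78) (nat_lit 76) (nat_lit 0) (XT.lf (nat_lit 0) (nat_lit 35459585455) (nat_lit 228) (nat_lit 25354722597) (nat_lit 76) (nat_lit 26235275243) (nat_lit 13) (nat_lit 5) (nat_lit 16) (nat_lit 5) (nat_lit 14) (nat_lit 4) (nat_lit 323) (nat_lit 255) (nat_lit 142)) (XT.lf (nat_lit 0) (nat_lit 3429851027) (nat_lit 76) (nat_lit 46218572834) (nat_lit 152) (nat_lit 41227015209) (nat_lit 12) (nat_lit 5) (nat_lit 13) (nat_lit 5) (nat_lit 14) (nat_lit 4) (nat_lit 324) (nat_lit 255) (nat_lit 141))))) (XT.nd (nat_lit 234) (nat_lit 152) (nat_lit 0) (XT.nd (nat_lit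 78) (nat_lit 0) (nat_lit 0) (XT.lf (nat_lit 0) (nat_lit 34172133582) (nat_lit 76) (nat_lit 30629077060) (nat_lit 152) (nat_lit 30083746195) (nat_lit 12) (nat_lit 5) (nat_lit 13) (nat_lit 5) (nat_lit 14) (nat_lit 4) (nat_lit 325) (nat_lit 255) (nat_lit 140)) (XT.nd (nat_lit 78) (nat_lit 0) (nat_lit 0) (XT.lf (nat_lit 0) (nat_lit 66440712283) (nat_lit 76) (nat_lit 14264735866) (nat_lit 152) (nat_lit 18389692189) (nat_lit 12) (nat_lit 5) (nat_lit 13) (nat_lit 5) (nat_lit 14) (nat_lit 4) (nat_lit 326) (nat_lit 255) (nat_lit 139)) (XT.lf (nat_lit 0) (nat_lit 97427009128) (nat_lit 152) (nat_lit 3231602253) (nat_lit 0) (nat_lit 2856562274) (nat_lit 12) (nat_lit 5) (nat_lit 14) (nat_lit 4) (nat_lit 12) (nat_lit 4) (nat_lit 327) (nat_lit 255) (nat_lit 138)))) (XT.nd (nat_lit 78) (nat_lit 0) (nat_lit 0) (XT.lf (nat_lit 0) (nat_lit 7107242529) (nat_lit 152) (nat_lit 80157735548) (nat_lit 76) (nat_lit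 20876903559) (nat_lit 10) (nat_lit 5) (nat_lit 12) (nat_lit 5) (nat_lit 11) (nat_lit 4) (nat_lit 328) (nat_lit 255) (nat_lit 137)) (XT.nd (nat_lit 31824) (nat_lit 0) (nat_lit 13528) (XT.lf (nat_lit 0) (nat_lit 20865738662) (nat_lit 152) (nat_lit 52242265570) (nat_lit 76) (nat_lit 39889238993) (nat_lit 10) (nat_lit 5) (nat_lit 12) (nat_lit 5) (nat_lit 11) (nat_lit 4) (nat_lit 329) (nat_lit 255) (nat_lit 136)) (XT.lf (nat_lit 0) (nat_lit 309526168) (nat_lit 0) (nat_lit 309526168) (nat_lit 988) (nat_lit 4130704433) (nat_lit 188) (nat_lit 5) (nat_lit 188) (nat_lit 3) (nat_lit 201) (nat_lit 3) (nat_lit 256) (nat_lit 256) (nat_lit 208))))))))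
noncomputable def xc80 : XT := (XT.nd (nat_lit 1716) (nat_lit 5016) (nat_lit 0) (XT.nd (nat_lit 858) (nat_lit 4636) (nat_lit 0) (XT.nd (nat_lit 390) (nat_lit 1672) (nat_lit 0) (XT.nd (nat_lit 156) (nat_lit 0) (nat_lit 76) (XT.nd (nat_lit 78) (nat_lit 0) (nat_lit 76) (XT.lf (nat_lit 0) (nat_lit 2529312195) (nat_lit 988) (nat_lit 2094252586) (nat_lit 1064) (nat_lit 5073103906) (nat_lit 188) (nat_lit 5) (nat_lit 201) (nat_lit 3) (nat_lit 202) (nat_lit 5) (nat_lit 257) (nat_lit 256) (nat_lit 207)) (XT.lf (nat_lit 0) (nat_lit 3874792301) (nat_lit 988) (nat_lit 4833631291) (nat_lit 1064) (nat_lit 1195728269) (nat_lit 189) (nat_lit 5) (nat_lit 202) (nat_lit 5) (nat_lit 203) (nat_lit 5) (nat_lit 258) (nat_lit 256) (nat_lit 206))) (XT.nd (nat_lit 78) (nat_lit 0) (nat_lit 76) (XT.lf (nat_lit 76) (nat_lit 2474234170) (nat_lit 0) (nat_lit 2832023916) (nat_lit 1064) (nat_lit 4815343694) (nat_lit 190)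 (nat_lit 5) (nat_lit 189) (nat_lit 5) (nat_lit 203) (nat_lit 5) (nat_lit 259) (nat_lit 256) (nat_lit 205)) (XT.nd (nat_lit 78) (nat_lit 0) (nat_lit 0) (XT.lf (nat_lit 0) (nat_lit 6821498197) (nat_lit 988) (nat_lit 176909754) (nat_lit 1064) (nat_lit 3351296820) (nat_lit 190) (nat_lit 5) (nat_lit 203) (nat_lit 5) (nat_lit 204) (nat_lit 5) (nat_lit 260) (nat_lit 256) (nat_lit 204)) (XT.lf (nat_lit 76) (nat_lit 7747381779) (nat_lit 0) (nat_lit 701376966) (nat_lit 1064) (nat_lit 2139506040) (nat_lit 191) (nat_lit 5) (nat_lit 190) (nat_lit 5) (nat_lit 204) (nat_lit 5) (nat_lit 261) (nat_lit 256) (nat_lit 203))))) (XT.nd (nat_lit 234) (nat_lit 912) (nat_lit 0) (XT.nd (nat_lit 78) (nat_lit 988) (nat_lit 0) (XT.lf (nat_lit 76) (nat_lit 5234858096) (nat_lit 0) (nat_lit 4967707578) (nat_lit 1064) (nat_lit 634964603) (nat_lit 192) (nat_lit 5) (nat_lit 191) (nat_lit 5) (nat_lit 205) (nat_lit 5) (nat_lit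 262) (nat_lit 256) (nat_lit 202)) (XT.nd (nat_lit 78) (nat_lit 0) (nat_lit 0) (XT.lf (nat_lit 0) (nat_lit 943467125) (nat_lit 1064) (nat_lit 8448317474) (nat_lit 1140) (nat_lit 1706811945) (nat_lit 178) (nat_lit 5) (nat_lit 192) (nat_lit 5) (nat_lit 193) (nat_lit 5) (nat_lit 263) (nat_lit 256) (nat_lit 201)) (XT.lf (nat_lit 0) (nat_lit 2637013777) (nat_lit 1064) (nat_lit 39423491) (nat_lit 1140) (nat_lit 8694727593) (nat_lit 178) (nat_lit 5) (nat_lit 192) (nat_lit 5) (nat_lit 193) (nat_lit 5) (nat_lit 264) (nat_lit 256) (nat_lit 200)))) (XT.nd (nat_lit 78) (nat_lit 988) (nat_lit 0) (XT.lf (nat_lit 0) (nat_lit 4487673338) (nat_lit 1064) (nat_lit 2777782702) (nat_lit 1140) (nat_lit 4389844013) (nat_lit 179) (nat_lit 5) (nat_lit 193) (nat_lit 5) (nat_lit 194) (nat_lit 5) (nat_lit 265) (nat_lit 256) (nat_lit 199)) (XT.nd (nat_lit 78) (nat_lit 988) (nat_lit 0) (XT.lf (nat_lit 76) (nat_lit 6341412897)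 (nat_lit 0) (nat_lit 123886333) (nat_lit 1140) (nat_lit 5487415987) (nat_lit 180) (nat_lit 5) (nat_lit 179) (nat_lit 5) (nat_lit 194) (nat_lit 5) (nat_lit 266) (nat_lit 256) (nat_lit 198)) (XT.lf (nat_lit 0) (nat_lit 3667527800) (nat_lit 1064) (nat_lit 4957621032) (nat_lit 1140) (nat_lit 3637453191) (nat_lit 166) (nat_lit 5) (nat_lit 180) (nat_lit 5) (nat_lit 181) (nat_lit 5) (nat_lit 267) (nat_lit 256) (nat_lit 197)))))) (XT.nd (nat_lit 390) (nat_lit 1900) (nat_lit 0) (XT.nd (nat_lit 156) (nat_lit 1596) (nat_lit 0) (XT.nd (nat_lit 78) (nat_lit 76) (nat_lit 0) (XT.lf (nat_lit 0) (nat_lit 888918360) (nat_lit 1064) (nat_lit 10046812560) (nat_lit 1140) (nat_lit 1651066388) (nat_lit 152) (nat_lit 5) (nat_lit 166) (nat_lit 5) (nat_lit 167) (nat_lit 5) (nat_lit 268) (nat_lit 256) (nat_lit 196)) (XT.lf (nat_lit 0) (nat_lit 517389362) (nat_lit 1140) (nat_lit 1996464306) (nat_lit 76) (nat_lit 10410575499)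 (nat_lit 151) (nat_lit 5) (nat_lit 166) (nat_lit 5) (nat_lit 152) (nat_lit 5) (nat_lit 269) (nat_lit 256) (nat_lit 195))) (XT.nd (nat_lit 78) (nat_lit 1064) (nat_lit 0) (XT.lf (nat_lit 0) (nat_lit 2847158208) (nat_lit 608) (nat_lit 5036651352) (nat_lit 76) (nat_lit 5392116373) (nat_lit 144) (nat_lit 5) (nat_lit 152) (nat_lit 5) (nat_lit 145) (nat_lit 5) (nat_lit 270) (nat_lit 256) (nat_lit 194)) (XT.nd (nat_lit 78) (nat_lit 532) (nat_lit 0) (XT.lf (nat_lit 0) (nat_lit 5348355429) (nat_lit 608) (nat_lit 8221517206) (nat_lit 76) (nat_lit 73557502) (nat_lit 137) (nat_lit 5) (nat_lit 145) (nat_lit 5) (nat_lit 138) (nat_lit 5) (nat_lit 271) (nat_lit 256) (nat_lit 193)) (XT.lf (nat_lit 0) (nat_lit 2405872008) (nat_lit 532) (nat_lit 5681490947) (nat_lit 608) (nat_lit 5938641033) (nat_lit 130) (nat_lit 5) (nat_lit 137) (nat_lit 5) (nat_lit 138) (nat_lit 5) (nat_lit 272) (nat_lit 256) (nat_lit 192)))))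 (XT.nd (nat_lit 234) (nat_lit 836) (nat_lit 0) (XT.nd (nat_lit 78) (nat_lit 1064) (nat_lit 0) (XT.lf (nat_lit 0) (nat_lit 11033110384) (nat_lit 608) (nat_lit 756558908) (nat_lit 76) (nat_lit 2636016840) (nat_lit 130) (nat_lit 5) (nat_lit 138) (nat_lit 5) (nat_lit 131) (nat_lit 5) (nat_lit 273) (nat_lit 256) (nat_lit 191)) (XT.nd (nat_lit 78) (nat_lit 532) (nat_lit 0) (XT.lf (nat_lit 0) (nat_lit 10762885820) (nat_lit 532) (nat_lit 3485313875) (nat_lit 608) (nat_lit 593560848) (nat_lit 123) (nat_lit 5) (nat_lit 130) (nat_lit 5) (nat_lit 131) (nat_lit 5) (nat_lit 274) (nat_lit 256) (nat_lit 190)) (XT.lf (nat_lit 0) (nat_lit 2394976496) (nat_lit 532) (nat_lit 7644673960) (nat_lit 76) (nat_lit 5235516222) (nat_lit 116) (nat_lit 5) (nat_lit 123) (nat_lit 5) (nat_lit 117) (nat_lit 5) (nat_lit 275) (nat_lit 256) (nat_lit 189)))) (XT.nd (nat_lit 78) (nat_lit 380) (nat_lit 0) (XT.lf (nat_lit 0) (nat_lit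 4283946113) (nat_lit 456) (nat_lit 1319287263) (nat_lit 532) (nat_lit 10124417847) (nat_lit 110) (nat_lit 5) (nat_lit 116) (nat_lit 5) (nat_lit 117) (nat_lit 5) (nat_lit 276) (nat_lit 256) (nat_lit 188)) (XT.nd (nat_lit 78) (nat_lit 0) (nat_lit 0) (XT.lf (nat_lit 0) (nat_lit 665642016) (nat_lit 380) (nat_lit 8432485598) (nat_lit 456) (nat_lit 7100904184) (nat_lit 105) (nat_lit 5) (nat_lit 110) (nat_lit 5) (nat_lit 111) (nat_lit 5) (nat_lit 277) (nat_lit 256) (nat_lit 187)) (XT.lf (nat_lit 0) (nat_lit 12871820579) (nat_lit 456) (nat_lit 3130303182) (nat_lit 76) (nat_lit 688791769) (nat_lit 105) (nat_lit 5) (nat_lit 111) (nat_lit 5) (nat_lit 106) (nat_lit 5) (nat_lit 278) (nat_lit 256) (nat_lit 186))))))) (XT.nd (nat_lit 858) (nat_lit 1976) (nat_lit 0) (XT.nd (nat_lit 390) (nat_lit 1444) (nat_lit 0) (XT.nd (nat_lit 156) (nat_lit 684) (nat_lit 0) (XT.nd (nat_lit 78) (nat_lit 456) (nat_lit 0)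 (XT.lf (nat_lit 0) (nat_lit 9964684770) (nat_lit 456) (nat_lit 7018284720) (nat_lit 532) (nat_lit 220013914) (nat_lit 99) (nat_lit 5) (nat_lit 105) (nat_lit 5) (nat_lit 106) (nat_lit 5) (nat_lit 279) (nat_lit 256) (nat_lit 185)) (XT.lf (nat_lit 0) (nat_lit 3573720853) (nat_lit 456) (nat_lit 11675062670) (nat_lit 76) (nat_lit 2488369426) (nat_lit 93) (nat_lit 5) (nat_lit 99) (nat_lit 5) (nat_lit 94) (nat_lit 5) (nat_lit 280) (nat_lit 256) (nat_lit 184))) (XT.nd (nat_lit 78) (nat_lit 304) (nat_lit 0) (XT.lf (nat_lit 0) (nat_lit 1807424077) (nat_lit 380) (nat_lit 5878453910) (nat_lit 456) (nat_lit 10608135814) (nat_lit 88) (nat_lit 5) (nat_lit 93) (nat_lit 5) (nat_lit 94) (nat_lit 5) (nat_lit 281) (nat_lit 256) (nat_lit 183)) (XT.nd (nat_lit 78) (nat_lit 304) (nat_lit 0) (XT.lf (nat_lit 0) (nat_lit 12133897425) (nat_lit 456) (nat_lit 2743165686) (nat_lit 76) (nat_lit 3997791480) (nat_lit 88)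 (nat_lit 5) (nat_lit 94) (nat_lit 5) (nat_lit 89) (nat_lit 5) (nat_lit 282) (nat_lit 256) (nat_lit 182)) (XT.lf (nat_lit 0) (nat_lit 11823770287) (nat_lit 304) (nat_lit 5125737825) (nat_lit 380) (nat_lit 2530916009) (nat_lit 84) (nat_lit 5) (nat_lit 88) (nat_lit 5) (nat_lit 89) (nat_lit 5) (nat_lit 283) (nat_lit 256) (nat_lit 181))))) (XT.nd (nat_lit 234) (nat_lit 684) (nat_lit 0) (XT.nd (nat_lit 78) (nat_lit 304) (nat_lit 0) (XT.lf (nat_lit 0) (nat_lit 1973089370) (nat_lit 456) (nat_lit 13016529909) (nat_lit 76) (nat_lit 5122537066) (nat_lit 78) (nat_lit 5) (nat_lit 84) (nat_lit 5) (nat_lit 79) (nat_lit 5) (nat_lit 284) (nat_lit 256) (nat_lit 180)) (XT.nd (nat_lit 78) (nat_lit 0) (nat_lit 0) (XT.lf (nat_lit 0) (nat_lit 1896985854) (nat_lit 304) (nat_lit 4876809093) (nat_lit 380) (nat_lit 13997250526) (nat_lit 74) (nat_lit 5) (nat_lit 78) (nat_lit 5) (nat_lit 79) (nat_lit 5) (nat_lit 285)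 (nat_lit 256) (nat_lit 179)) (XT.lf (nat_lit 0) (nat_lit 11979684959) (nat_lit 380) (nat_lit 3721306072) (nat_lit 76) (nat_lit 5756969118) (nat_lit 74) (nat_lit 5) (nat_lit 79) (nat_lit 5) (nat_lit 75) (nat_lit 5) (nat_lit 286) (nat_lit 256) (nat_lit 178)))) (XT.nd (nat_lit 78) (nat_lit 380) (nat_lit 0) (XT.lf (nat_lit 0) (nat_lit 12348334650) (nat_lit 304) (nat_lit 5241301790) (nat_lit 380) (nat_lit 4585304984) (nat_lit 70) (nat_lit 5) (nat_lit 74) (nat_lit 5) (nat_lit 75) (nat_lit 5) (nat_lit 287) (nat_lit 256) (nat_lit 177)) (XT.nd (nat_lit 78) (nat_lit 0) (nat_lit 0) (XT.lf (nat_lit 0) (nat_lit 674916792) (nat_lit 380) (nat_lit 16520556234) (nat_lit 76) (nat_lit 5728169360) (nat_lit 65) (nat_lit 5) (nat_lit 70) (nat_lit 5) (nat_lit 66) (nat_lit 5) (nat_lit 288) (nat_lit 256) (nat_lit 176)) (XT.lf (nat_lit 0) (nat_lit 6236430948) (nat_lit 380) (nat_lit 189086708) (nat_lit 76) (nat_lit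 17278935226) (nat_lit 65) (nat_lit 5) (nat_lit 70) (nat_lit 5) (nat_lit 66) (nat_lit 5) (nat_lit 289) (nat_lit 256) (nat_lit 175)))))) (XT.nd (nat_lit 390) (nat_lit 912) (nat_lit 0) (XT.nd (nat_lit 156) (nat_lit 532) (nat_lit 0) (XT.nd (nat_lit 78) (nat_lit 228) (nat_lit 0) (XT.lf (nat_lit 0) (nat_lit 12268746051) (nat_lit 380) (nat_lit 7302891253) (nat_lit 76) (nat_lit 4946913250) (nat_lit 61) (nat_lit 5) (nat_lit 66) (nat_lit 5) (nat_lit 62) (nat_lit 5) (nat_lit 290) (nat_lit 256) (nat_lit 174)) (XT.lf (nat_lit 0) (nat_lit 10226006062) (nat_lit 228) (nat_lit 8520720025) (nat_lit 304) (nat_lit 6622332603) (nat_lit 58) (nat_lit 5) (nat_lit 61) (nat_lit 5) (nat_lit 62) (nat_lit 5) (nat_lit 291) (nat_lit 256) (nat_lit 173))) (XT.nd (nat_lit 78) (nat_lit 304) (nat_lit 0) (XT.lf (nat_lit 0) (nat_lit 2513124037) (nat_lit 228) (nat_lit 23144762929) (nat_lit 304) (nat_lit 600952580) (nat_lit 55)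 (nat_lit 5) (nat_lit 58) (nat_lit 5) (nat_lit 59) (nat_lit 5) (nat_lit 292) (nat_lit 256) (nat_lit 172)) (XT.nd (nat_lit 78) (nat_lit 228) (nat_lit 0) (XT.lf (nat_lit 0) (nat_lit 5833325193) (nat_lit 304) (nat_lit 5991651310) (nat_lit 76) (nat_lit 15359802538) (nat_lit 54) (nat_lit 5) (nat_lit 58) (nat_lit 5) (nat_lit 55) (nat_lit 5) (nat_lit 293) (nat_lit 256) (nat_lit 171)) (XT.lf (nat_lit 0) (nat_lit 12683472805) (nat_lit 304) (nat_lit 15288199678) (nat_lit 76) (nat_lit 181989682) (nat_lit 51) (nat_lit 5) (nat_lit 55) (nat_lit 5) (nat_lit 52) (nat_lit 5) (nat_lit 294) (nat_lit 256) (nat_lit 170))))) (XT.nd (nat_lit 234) (nat_lit 380) (nat_lit 0) (XT.nd (nat_lit 78) (nat_lit 304) (nat_lit 0) (XT.lf (nat_lit 0) (nat_lit 3543148699) (nat_lit 228) (nat_lit 16530237830) (nat_lit 304) (nat_lit 9091706765) (nat_lit 48) (nat_lit 5) (nat_lit 51) (nat_lit 5) (nat_lit 52) (nat_lit 5) (nat_lit 295)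 (nat_lit 256) (nat_lit 169)) (XT.nd (nat_lit 78) (nat_lit 304) (nat_lit 0) (XT.lf (nat_lit 0) (nat_lit 23608803365) (nat_lit 228) (nat_lit 4363550275) (nat_lit 304) (nat_lit 2250576189) (nat_lit 48) (nat_lit 5) (nat_lit 51) (nat_lit 5) (nat_lit 52) (nat_lit 5) (nat_lit 296) (nat_lit 256) (nat_lit 168)) (XT.lf (nat_lit 0) (nat_lit 5031835247) (nat_lit 304) (nat_lit 17876440616) (nat_lit 76) (nat_lit 8418114582) (nat_lit 44) (nat_lit 5) (nat_lit 48) (nat_lit 5) (nat_lit 45) (nat_lit 5) (nat_lit 297) (nat_lit 256) (nat_lit 167)))) (XT.nd (nat_lit 78) (nat_lit 152) (nat_lit 0) (XT.lf (nat_lit 0) (nat_lit 2120898152) (nat_lit 228) (nat_lit 10627881636) (nat_lit 304) (nat_lit 19732085201) (nat_lit 41) (nat_lit 5) (nat_lit 44) (nat_lit 5) (nat_lit 45) (nat_lit 5) (nat_lit 298) (nat_lit 256) (nat_lit 166)) (XT.nd (nat_lit 78) (nat_lit 152) (nat_lit 0) (XT.lf (nat_lit 0) (nat_lit 21043009668) (nat_lit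 304) (nat_lit 10244688942) (nat_lit 76) (nat_lit 2399638770) (nat_lit 41) (nat_lit 5) (nat_lit 45) (nat_lit 5) (nat_lit 42) (nat_lit 5) (nat_lit 299) (nat_lit 256) (nat_lit 165)) (XT.lf (nat_lit 0) (nat_lit 10958925518) (nat_lit 152) (nat_lit 18990216948) (nat_lit 228) (nat_lit 4999091620) (nat_lit 39) (nat_lit 5) (nat_lit 41) (nat_lit 5) (nat_lit 42) (nat_lit 5) (nat_lit 300) (nat_lit 256) (nat_lit 164))))))))
noncomputable def xc81 : XT := (XT.nd (nat_lit 1716) (nat_lit 228) (nat_lit 0) (XT.nd (nat_lit 858) (nat_lit 760) (nat_lit 0) (XT.nd (nat_lit 390) (nat_lit 608) (nat_lit 0) (XT.nd (nat_lit 156) (nat_lit 304) (nat_lit 0) (XT.nd (nat_lit 78) (nat_lit 228) (nat_lit 0) (XT.lf (nat_lit 0) (nat_lit 3060740354) (nat_lit 228) (nat_lit 2885995070) (nat_lit 76) (nat_lit 30321839201) (nat_lit 38) (nat_lit 5) (nat_lit 41) (nat_lit 5) (nat_lit 39) (nat_lit 5) (nat_lit 301) (nat_lit 256) (nat_lit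 163)) (XT.lf (nat_lit 0) (nat_lit 11671781833) (nat_lit 304) (nat_lit 18143361260) (nat_lit 76) (nat_lit 7830770495) (nat_lit 35) (nat_lit 5) (nat_lit 39) (nat_lit 5) (nat_lit 36) (nat_lit 5) (nat_lit 302) (nat_lit 256) (nat_lit 162))) (XT.nd (nat_lit 78) (nat_lit 152) (nat_lit 0) (XT.lf (nat_lit 0) (nat_lit 3974635313) (nat_lit 152) (nat_lit 16853011141) (nat_lit 228) (nat_lit 18261058697) (nat_lit 33) (nat_lit 5) (nat_lit 35) (nat_lit 5) (nat_lit 36) (nat_lit 5) (nat_lit 303) (nat_lit 256) (nat_lit 161)) (XT.nd (nat_lit 78) (nat_lit 152) (nat_lit 0) (XT.lf (nat_lit 0) (nat_lit 27556095593) (nat_lit 152) (nat_lit 3058475639) (nat_lit 228) (nat_lit 9983880186) (nat_lit 33) (nat_lit 5) (nat_lit 35) (nat_lit 5) (nat_lit 36) (nat_lit 5) (nat_lit 304) (nat_lit 256) (nat_lit 160)) (XT.lf (nat_lit 0) (nat_lit 10201300549) (nat_lit 152) (nat_lit 30884500584) (nat_lit 228) (nat_lit 1092047602) (nat_lit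 31) (nat_lit 5) (nat_lit 33) (nat_lit 5) (nat_lit 34) (nat_lit 5) (nat_lit 305) (nat_lit 256) (nat_lit 159))))) (XT.nd (nat_lit 234) (nat_lit 380) (nat_lit 0) (XT.nd (nat_lit 78) (nat_lit 152) (nat_lit 0) (XT.lf (nat_lit 0) (nat_lit 8237309416) (nat_lit 228) (nat_lit 9084491443) (nat_lit 76) (nat_lit 26507434814) (nat_lit 30) (nat_lit 5) (nat_lit 33) (nat_lit 5) (nat_lit 31) (nat_lit 5) (nat_lit 306) (nat_lit 256) (nat_lit 158)) (XT.nd (nat_lit 78) (nat_lit 0) (nat_lit 0) (XT.lf (nat_lit 0) (nat_lit 15218552030) (nat_lit 152) (nat_lit 2926450833) (nat_lit 228) (nat_lit 27413842124) (nat_lit 28) (nat_lit 5) (nat_lit 30) (nat_lit 5) (nat_lit 31) (nat_lit 5) (nat_lit 307) (nat_lit 256) (nat_lit 157)) (XT.lf (nat_lit 0) (nat_lit 28747962802) (nat_lit 228) (nat_lit 6582924600) (nat_lit 76) (nat_lit 12038061397) (nat_lit 28) (nat_lit 5) (nat_lit 31) (nat_lit 5) (nat_lit 29) (nat_lit 5) (nat_lit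 308) (nat_lit 256) (nat_lit 156)))) (XT.nd (nat_lit 78) (nat_lit 228) (nat_lit 0) (XT.lf (nat_lit 0) (nat_lit 18678894606) (nat_lit 152) (nat_lit 21400099009) (nat_lit 228) (nat_lit 9184636489) (nat_lit 26) (nat_lit 5) (nat_lit 28) (nat_lit 5) (nat_lit 29) (nat_lit 5) (nat_lit 309) (nat_lit 256) (nat_lit 155)) (XT.nd (nat_lit 78) (nat_lit 152) (nat_lit 0) (XT.lf (nat_lit 0) (nat_lit 766924599) (nat_lit 228) (nat_lit 5935342630) (nat_lit 76) (nat_lit 44548853449) (nat_lit 25) (nat_lit 5) (nat_lit 28) (nat_lit 5) (nat_lit 26) (nat_lit 5) (nat_lit 310) (nat_lit 256) (nat_lit 154)) (XT.lf (nat_lit 0) (nat_lit 11298650666) (nat_lit 228) (nat_lit 33184999322) (nat_lit 76) (nat_lit 8843440298) (nat_lit 23) (nat_lit 5) (nat_lit 26) (nat_lit 5) (nat_lit 24) (nat_lit 5) (nat_lit 311) (nat_lit 256) (nat_lit 153)))))) (XT.nd (nat_lit 390) (nat_lit 456) (nat_lit 0) (XT.nd (nat_lit 156) (nat_lit 152)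 (nat_lit 0) (XT.nd (nat_lit 78) (nat_lit 152) (nat_lit 0) (XT.lf (nat_lit 0) (nat_lit 22476182082) (nat_lit 228) (nat_lit 7942815725) (nat_lit 76) (nat_lit 25084292373) (nat_lit 23) (nat_lit 5) (nat_lit 26) (nat_lit 5) (nat_lit 24) (nat_lit 5) (nat_lit 312) (nat_lit 256) (nat_lit 152)) (XT.lf (nat_lit 0) (nat_lit 18914407924) (nat_lit 152) (nat_lit 15470348890) (nat_lit 228) (nat_lit 23398386232) (nat_lit 21) (nat_lit 5) (nat_lit 23) (nat_lit 5) (nat_lit 24) (nat_lit 5) (nat_lit 313) (nat_lit 256) (nat_lit 151))) (XT.nd (nat_lit 78) (nat_lit 152) (nat_lit 0) (XT.lf (nat_lit 0) (nat_lit 46964101475) (nat_lit 228) (nat_lit 12912961786) (nat_lit 76) (nat_lit 297672655) (nat_lit 21) (nat_lit 5) (nat_lit 24) (nat_lit 5) (nat_lit 22) (nat_lit 4) (nat_lit 314) (nat_lit 256) (nat_lit 150)) (XT.nd (nat_lit 78) (nat_lit 76) (nat_lit 0) (XT.lf (nat_lit 0) (nat_lit 14451288080) (nat_lit 76) (nat_lit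 46007231116) (nat_lit 152) (nat_lit 2218813297) (nat_lit 20) (nat_lit 5) (nat_lit 21) (nat_lit 5) (nat_lit 22) (nat_lit 4) (nat_lit 315) (nat_lit 256) (nat_lit 149)) (XT.lf (nat_lit 0) (nat_lit 9266162550) (nat_lit 152) (nat_lit 21953317629) (nat_lit 76) (nat_lit 34079132541) (nat_lit 19) (nat_lit 5) (nat_lit 21) (nat_lit 5) (nat_lit 20) (nat_lit 5) (nat_lit 316) (nat_lit 256) (nat_lit 148))))) (XT.nd (nat_lit 234) (nat_lit 304) (nat_lit 0) (XT.nd (nat_lit 78) (nat_lit 0) (nat_lit 0) (XT.lf (nat_lit 0) (nat_lit 5707831512) (nat_lit 152) (nat_lit 15618615688) (nat_lit 228) (nat_lit 46722448624) (nat_lit 17) (nat_lit 5) (nat_lit 19) (nat_lit 5) (nat_lit 20) (nat_lit 5) (nat_lit 317) (nat_lit 256) (nat_lit 147)) (XT.nd (nat_lit 78) (nat_lit 0) (nat_lit 0) (XT.lf (nat_lit 0) (nat_lit 34217165899) (nat_lit 228) (nat_lit 35742666516) (nat_lit 76) (nat_lit 970044143) (nat_lit 17) (nat_lit 5) (nat_lit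 20) (nat_lit 5) (nat_lit 18) (nat_lit 4) (nat_lit 318) (nat_lit 256) (nat_lit 146)) (XT.lf (nat_lit 0) (nat_lit 47902315044) (nat_lit 228) (nat_lit 7985311179) (nat_lit 76) (nat_lit 18062789050) (nat_lit 17) (nat_lit 5) (nat_lit 20) (nat_lit 5) (nat_lit 18) (nat_lit 4) (nat_lit 319) (nat_lit 256) (nat_lit 145)))) (XT.nd (nat_lit 78) (nat_lit 228) (nat_lit 0) (XT.lf (nat_lit 0) (nat_lit 21568097596) (nat_lit 76) (nat_lit 40903570786) (nat_lit 152) (nat_lit 14644319644) (nat_lit 16) (nat_lit 5) (nat_lit 17) (nat_lit 5) (nat_lit 18) (nat_lit 4) (nat_lit 320) (nat_lit 256) (nat_lit 144)) (XT.nd (nat_lit 78) (nat_lit 228) (nat_lit 0) (XT.lf (nat_lit 0) (nat_lit 52753724361) (nat_lit 76) (nat_lit 25090820683) (nat_lit 152) (nat_lit 2593047946) (nat_lit 16) (nat_lit 5) (nat_lit 17) (nat_lit 5) (nat_lit 18) (nat_lit 4) (nat_lit 321) (nat_lit 256) (nat_lit 143)) (XT.lf (nat_lit 0) (nat_lit 1493918610)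 (nat_lit 152) (nat_lit 8378028920) (nat_lit 228) (nat_lit 74050209736) (nat_lit 13) (nat_lit 5) (nat_lit 15) (nat_lit 5) (nat_lit 16) (nat_lit 5) (nat_lit 322) (nat_lit 256) (nat_lit 142))))))) (XT.nd (nat_lit 32682) (nat_lit 0) (nat_lit 10184) (XT.nd (nat_lit 390) (nat_lit 152) (nat_lit 0) (XT.nd (nat_lit 156) (nat_lit 76) (nat_lit 0) (XT.nd (nat_lit 78) (nat_lit 0) (nat_lit 0) (XT.lf (nat_lit 0) (nat_lit 23276308906) (nat_lit 228) (nat_lit 54992133144) (nat_lit 76) (nat_lit 9300649779) (nat_lit 13) (nat_lit 5) (nat_lit 16) (nat_lit 5) (nat_lit 14) (nat_lit 4) (nat_lit 323) (nat_lit 256) (nat_lit 141)) (XT.lf (nat_lit 0) (nat_lit 37429060971) (nat_lit 228) (nat_lit 26279921061) (nat_lit 76) (nat_lit 27687050306) (nat_lit 13) (nat_lit 5) (nat_lit 16) (nat_lit 5) (nat_lit 14) (nat_lit 4) (nat_lit 324) (nat_lit 256) (nat_lit 140))) (XT.nd (nat_lit 78) (nat_lit 0) (nat_lit 0) (XT.lf (nat_lit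 0) (nat_lit 3934062471) (nat_lit 76) (nat_lit 48387120161) (nat_lit 152) (nat_lit 43092189470) (nat_lit 12) (nat_lit 5) (nat_lit 13) (nat_lit 5) (nat_lit 14) (nat_lit 4) (nat_lit 325) (nat_lit 256) (nat_lit 139)) (XT.nd (nat_lit 78) (nat_lit 0) (nat_lit 0) (XT.lf (nat_lit 0) (nat_lit 36197615396) (nat_lit 76) (nat_lit 32024929661) (nat_lit 152) (nat_lit 31401098743) (nat_lit 12) (nat_lit 5) (nat_lit 13) (nat_lit 5) (nat_lit 14) (nat_lit 4) (nat_lit 326) (nat_lit 256) (nat_lit 138)) (XT.lf (nat_lit 0) (nat_lit 70064533741) (nat_lit 76) (nat_lit 14848828609) (nat_lit 152) (nat_lit 19131238930) (nat_lit 12) (nat_lit 5) (nat_lit 13) (nat_lit 5) (nat_lit 14) (nat_lit 4) (nat_lit 327) (nat_lit 256) (nat_lit 137))))) (XT.nd (nat_lit 32058) (nat_lit 0) (nat_lit 13528) (XT.nd (nat_lit 78) (nat_lit 152) (nat_lit 0) (XT.lf (nat_lit 0) (nat_lit 102463962637) (nat_lit 152) (nat_lit 3101905693) (nat_lit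 0) (nat_lit 3119984658) (nat_lit 12) (nat_lit 5) (nat_lit 14) (nat_lit 4) (nat_lit 12) (nat_lit 4) (nat_lit 328) (nat_lit 256) (nat_lit 136)) (XT.nd (nat_lit 31902) (nat_lit 0) (nat_lit 13528) (XT.lf (nat_lit 0) (nat_lit 7624733894) (nat_lit 152) (nat_lit 83879365477) (nat_lit 76) (nat_lit 22039909596) (nat_lit 10) (nat_lit 5) (nat_lit 12) (nat_lit 5) (nat_lit 11) (nat_lit 4) (nat_lit 329) (nat_lit 256) (nat_lit 135)) (XT.lf (nat_lit 0) (nat_lit 920811979) (nat_lit 0) (nat_lit 920811979) (nat_lit 988) (nat_lit 3107386459) (nat_lit 188) (nat_lit 5) (nat_lit 188) (nat_lit 3) (nat_lit 201) (nat_lit 3) (nat_lit 257) (nat_lit 257) (nat_lit 206)))) (XT.nd (nat_lit 78) (nat_lit 0) (nat_lit 76) (XT.lf (nat_lit 0) (nat_lit 4914619175) (nat_lit 988) (nat_lit 980353828) (nat_lit 1064) (nat_lit 4214029362) (nat_lit 188) (nat_lit 5) (nat_lit 201) (nat_lit 3) (nat_lit 202) (nat_lit 5) (nat_lit 258) (nat_lit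 257) (nat_lit 205)) (XT.nd (nat_lit 78) (nat_lit 0) (nat_lit 0) (XT.lf (nat_lit 0) (nat_lit 6221777157) (nat_lit 988) (nat_lit 3812833472) (nat_lit 1064) (nat_lit 295642406) (nat_lit 189) (nat_lit 5) (nat_lit 202) (nat_lit 5) (nat_lit 203) (nat_lit 5) (nat_lit 259) (nat_lit 257) (nat_lit 204)) (XT.lf (nat_lit 76) (nat_lit 3824236544) (nat_lit 0) (nat_lit 3809832056) (nat_lit 1064) (nat_lit 2927443996) (nat_lit 190) (nat_lit 5) (nat_lit 189) (nat_lit 5) (nat_lit 203) (nat_lit 5) (nat_lit 260) (nat_lit 257) (nat_lit 203)))))) (XT.nd (nat_lit 390) (nat_lit 2508) (nat_lit 0) (XT.nd (nat_lit 156) (nat_lit 988) (nat_lit 0) (XT.nd (nat_lit 78) (nat_lit 0) (nat_lit 0) (XT.lf (nat_lit 76) (nat_lit 1073767419) (nat_lit 0) (nat_lit 8055755470) (nat_lit 1064) (nat_lit 1674568776) (nat_lit 191) (nat_lit 5) (nat_lit 190) (nat_lit 5) (nat_lit 204) (nat_lit 5) (nat_lit 261) (nat_lit 257) (nat_lit 202))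 (XT.lf (nat_lit 76) (nat_lit 9337817111) (nat_lit 0) (nat_lit 1408399488) (nat_lit 1064) (nat_lit 311315731) (nat_lit 191) (nat_lit 5) (nat_lit 190) (nat_lit 5) (nat_lit 204) (nat_lit 5) (nat_lit 262) (nat_lit 257) (nat_lit 201))) (XT.nd (nat_lit 78) (nat_lit 0) (nat_lit 76) (XT.lf (nat_lit 0) (nat_lit 1159107972) (nat_lit 1064) (nat_lit 4603440581) (nat_lit 1140) (nat_lit 5559064608) (nat_lit 177) (nat_lit 5) (nat_lit 191) (nat_lit 5) (nat_lit 192) (nat_lit 5) (nat_lit 263) (nat_lit 257) (nat_lit 200)) (XT.nd (nat_lit 78) (nat_lit 0) (nat_lit 0) (XT.lf (nat_lit 0) (nat_lit 2724188056) (nat_lit 1064) (nat_lit 7573860180) (nat_lit 1140) (nat_lit 1300041642) (nat_lit 178) (nat_lit 5) (nat_lit 192) (nat_lit 5) (nat_lit 193) (nat_lit 5) (nat_lit 264) (nat_lit 257) (nat_lit 199)) (XT.lf (nat_lit 76) (nat_lit 1217480057) (nat_lit 0) (nat_lit 3214085263) (nat_lit 1140) (nat_lit 7455010031) (nat_lit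 179) (nat_lit 5) (nat_lit 178) (nat_lit 5) (nat_lit 193) (nat_lit 5) (nat_lit 265) (nat_lit 257) (nat_lit 198))))) (XT.nd (nat_lit 234) (nat_lit 1672) (nat_lit 0) (XT.nd (nat_lit 78) (nat_lit 988) (nat_lit 0) (XT.lf (nat_lit 0) (nat_lit 6292274984) (nat_lit 1064) (nat_lit 1662637272) (nat_lit 1140) (nat_lit 4232635090) (nat_lit 179) (nat_lit 5) (nat_lit 193) (nat_lit 5) (nat_lit 194) (nat_lit 5) (nat_lit 266) (nat_lit 257) (nat_lit 197)) (XT.nd (nat_lit 78) (nat_lit 988) (nat_lit 0) (XT.lf (nat_lit 76) (nat_lit 7876571458) (nat_lit 0) (nat_lit 428671243) (nat_lit 1140) (nat_lit 4196644901) (nat_lit 180) (nat_lit 5) (nat_lit 179) (nat_lit 5) (nat_lit 194) (nat_lit 5) (nat_lit 267) (nat_lit 257) (nat_lit 196)) (XT.lf (nat_lit 0) (nat_lit 5083938004) (nat_lit 1064) (nat_lit 5426043112) (nat_lit 1140) (nat_lit 2319321840) (nat_lit 166) (nat_lit 5) (nat_lit 180) (nat_lit 5) (nat_lit 181) (nat_lit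 5) (nat_lit 268) (nat_lit 257) (nat_lit 195)))) (XT.nd (nat_lit 78) (nat_lit 608) (nat_lit 0) (XT.lf (nat_lit 0) (nat_lit 2178210918) (nat_lit 1064) (nat_lit 10698610743) (nat_lit 1140) (nat_lit 294798840) (nat_lit 152) (nat_lit 5) (nat_lit 166) (nat_lit 5) (nat_lit 167) (nat_lit 5) (nat_lit 269) (nat_lit 257) (nat_lit 194)) (XT.nd (nat_lit 78) (nat_lit 532) (nat_lit 0) (XT.lf (nat_lit 0) (nat_lit 1886824821) (nat_lit 1140) (nat_lit 881494677) (nat_lit 76) (nat_lit 10759539130) (nat_lit 151) (nat_lit 5) (nat_lit 166) (nat_lit 5) (nat_lit 152) (nat_lit 5) (nat_lit 270) (nat_lit 257) (nat_lit 193)) (XT.lf (nat_lit 0) (nat_lit 4279378781) (nat_lit 608) (nat_lit 4066351710) (nat_lit 76) (nat_lit 5552929175) (nat_lit 144) (nat_lit 5) (nat_lit 152) (nat_lit 5) (nat_lit 145) (nat_lit 5) (nat_lit 271) (nat_lit 257) (nat_lit 192))))))))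
noncomputable def xc82 : XT := (XT.nd (nat_lit 1716) (nat_lit 2584) (nat_lit 0) (XT.nd (nat_lit 858) (nat_lit 2508) (nat_lit 0) (XT.nd (nat_lit 390) (nat_lit 2128) (nat_lit 0) (XT.nd (nat_lit 156) (nat_lit 1064) (nat_lit 0) (XT.nd (nat_lit 78) (nat_lit 532) (nat_lit 0) (XT.lf (nat_lit 0) (nat_lit 6855117882) (nat_lit 608) (nat_lit 7405536412) (nat_lit 76) (nat_lit 25513026) (nat_lit 137) (nat_lit 5) (nat_lit 145) (nat_lit 5) (nat_lit 138) (nat_lit 5) (nat_lit 272) (nat_lit 257) (nat_lit 191)) (XT.lf (nat_lit 0) (nat_lit 3718048930) (nat_lit 532) (nat_lit 5965467553) (nat_lit 608) (nat_lit 5005887492) (nat_lit 130) (nat_lit 5) (nat_lit 137) (nat_lit 5) (nat_lit 138) (nat_lit 5) (nat_lit 273) (nat_lit 257) (nat_lit 190))) (XT.nd (nat_lit 78) (nat_lit 532) (nat_lit 0) (XT.lf (nat_lit 0) (nat_lit 384334412) (nat_lit 532) (nat_lit 12339160539) (nat_lit 608) (nat_lit 2387269185) (nat_lit 123)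 (nat_lit 5) (nat_lit 130) (nat_lit 5) (nat_lit 131) (nat_lit 5) (nat_lit 274) (nat_lit 257) (nat_lit 189)) (XT.nd (nat_lit 78) (nat_lit 456) (nat_lit 0) (XT.lf (nat_lit 0) (nat_lit 493564027) (nat_lit 608) (nat_lit 3115303925) (nat_lit 76) (nat_lit 11940130743) (nat_lit 122) (nat_lit 5) (nat_lit 130) (nat_lit 5) (nat_lit 123) (nat_lit 5) (nat_lit 275) (nat_lit 257) (nat_lit 188)) (XT.lf (nat_lit 0) (nat_lit 3578237990) (nat_lit 532) (nat_lit 6865620162) (nat_lit 76) (nat_lit 5561361131) (nat_lit 116) (nat_lit 5) (nat_lit 123) (nat_lit 5) (nat_lit 117) (nat_lit 5) (nat_lit 276) (nat_lit 257) (nat_lit 187))))) (XT.nd (nat_lit 234) (nat_lit 1292) (nat_lit 0) (XT.nd (nat_lit 78) (nat_lit 380) (nat_lit 0) (XT.lf (nat_lit 0) (nat_lit 5626142842) (nat_lit 456) (nat_lit 1280964433) (nat_lit 532) (nat_lit 9574500526) (nat_lit 110) (nat_lit 5) (nat_lit 116) (nat_lit 5) (nat_lit 117) (nat_lit 5) (nat_lit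 277) (nat_lit 257) (nat_lit 186)) (XT.nd (nat_lit 78) (nat_lit 0) (nat_lit 0) (XT.lf (nat_lit 0) (nat_lit 1825112426) (nat_lit 380) (nat_lit 8714665944) (nat_lit 456) (nat_lit 6437969719) (nat_lit 105) (nat_lit 5) (nat_lit 110) (nat_lit 5) (nat_lit 111) (nat_lit 5) (nat_lit 278) (nat_lit 257) (nat_lit 185)) (XT.lf (nat_lit 0) (nat_lit 14456444747) (nat_lit 456) (nat_lit 2185786733) (nat_lit 76) (nat_lit 853443625) (nat_lit 105) (nat_lit 5) (nat_lit 111) (nat_lit 5) (nat_lit 106) (nat_lit 5) (nat_lit 279) (nat_lit 257) (nat_lit 184)))) (XT.nd (nat_lit 78) (nat_lit 760) (nat_lit 0) (XT.lf (nat_lit 0) (nat_lit 690423280) (nat_lit 532) (nat_lit 6508835439) (nat_lit 76) (nat_lit 10834994565) (nat_lit 98) (nat_lit 5) (nat_lit 105) (nat_lit 5) (nat_lit 99) (nat_lit 5) (nat_lit 280) (nat_lit 257) (nat_lit 183)) (XT.nd (nat_lit 78) (nat_lit 380) (nat_lit 0) (XT.lf (nat_lit 0) (nat_lit 4637520474)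 (nat_lit 456) (nat_lit 11174683601) (nat_lit 76) (nat_lit 2783883581) (nat_lit 93) (nat_lit 5) (nat_lit 99) (nat_lit 5) (nat_lit 94) (nat_lit 5) (nat_lit 281) (nat_lit 257) (nat_lit 182)) (XT.lf (nat_lit 0) (nat_lit 2950851051) (nat_lit 380) (nat_lit 5972408764) (nat_lit 456) (nat_lit 10258557721) (nat_lit 88) (nat_lit 5) (nat_lit 93) (nat_lit 5) (nat_lit 94) (nat_lit 5) (nat_lit 282) (nat_lit 257) (nat_lit 181)))))) (XT.nd (nat_lit 390) (nat_lit 1444) (nat_lit 0) (XT.nd (nat_lit 156) (nat_lit 760) (nat_lit 0) (XT.nd (nat_lit 78) (nat_lit 304) (nat_lit 0) (XT.lf (nat_lit 0) (nat_lit 13554887670) (nat_lit 456) (nat_lit 1853628244) (nat_lit 76) (nat_lit 4384410338) (nat_lit 88) (nat_lit 5) (nat_lit 94) (nat_lit 5) (nat_lit 89) (nat_lit 5) (nat_lit 283) (nat_lit 257) (nat_lit 180)) (XT.lf (nat_lit 0) (nat_lit 13412224500) (nat_lit 304) (nat_lit 5169864748) (nat_lit 380) (nat_lit 1847619852)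 (nat_lit 84) (nat_lit 5) (nat_lit 88) (nat_lit 5) (nat_lit 89) (nat_lit 5) (nat_lit 284) (nat_lit 257) (nat_lit 179))) (XT.nd (nat_lit 78) (nat_lit 304) (nat_lit 0) (XT.lf (nat_lit 0) (nat_lit 2839550759) (nat_lit 456) (nat_lit 12660256145) (nat_lit 76) (nat_lit 5593829148) (nat_lit 78) (nat_lit 5) (nat_lit 84) (nat_lit 5) (nat_lit 79) (nat_lit 5) (nat_lit 285) (nat_lit 257) (nat_lit 178)) (XT.nd (nat_lit 78) (nat_lit 0) (nat_lit 0) (XT.lf (nat_lit 0) (nat_lit 2970067079) (nat_lit 304) (nat_lit 4883065665) (nat_lit 380) (nat_lit 13933203750) (nat_lit 74) (nat_lit 5) (nat_lit 78) (nat_lit 5) (nat_lit 79) (nat_lit 5) (nat_lit 286) (nat_lit 257) (nat_lit 177)) (XT.lf (nat_lit 0) (nat_lit 13286223352) (nat_lit 380) (nat_lit 2955743392) (nat_lit 76) (nat_lit 6266672588) (nat_lit 74) (nat_lit 5) (nat_lit 79) (nat_lit 5) (nat_lit 75) (nat_lit 5) (nat_lit 287) (nat_lit 257) (nat_lit 176))))) (XT.nd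 (nat_lit 234) (nat_lit 456) (nat_lit 0) (XT.nd (nat_lit 78) (nat_lit 684) (nat_lit 0) (XT.lf (nat_lit 0) (nat_lit 13890101141) (nat_lit 304) (nat_lit 5261763625) (nat_lit 380) (nat_lit 4110396380) (nat_lit 70) (nat_lit 5) (nat_lit 74) (nat_lit 5) (nat_lit 75) (nat_lit 5) (nat_lit 288) (nat_lit 257) (nat_lit 175)) (XT.nd (nat_lit 78) (nat_lit 304) (nat_lit 0) (XT.lf (nat_lit 0) (nat_lit 1377347826) (nat_lit 380) (nat_lit 16415991426) (nat_lit 76) (nat_lit 6255550955) (nat_lit 65) (nat_lit 5) (nat_lit 70) (nat_lit 5) (nat_lit 66) (nat_lit 5) (nat_lit 289) (nat_lit 257) (nat_lit 174)) (XT.lf (nat_lit 0) (nat_lit 701424969) (nat_lit 304) (nat_lit 6490413093) (nat_lit 380) (nat_lit 17677697760) (nat_lit 61) (nat_lit 5) (nat_lit 65) (nat_lit 5) (nat_lit 66) (nat_lit 5) (nat_lit 290) (nat_lit 257) (nat_lit 173)))) (XT.nd (nat_lit 78) (nat_lit 456) (nat_lit 0) (XT.lf (nat_lit 0) (nat_lit 13499341264)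 (nat_lit 380) (nat_lit 6790291331) (nat_lit 76) (nat_lit 5435538239) (nat_lit 61) (nat_lit 5) (nat_lit 66) (nat_lit 5) (nat_lit 62) (nat_lit 5) (nat_lit 291) (nat_lit 257) (nat_lit 172)) (XT.nd (nat_lit 78) (nat_lit 228) (nat_lit 0) (XT.lf (nat_lit 0) (nat_lit 11589890481) (nat_lit 228) (nat_lit 8690136909) (nat_lit 304) (nat_lit 6338850512) (nat_lit 58) (nat_lit 5) (nat_lit 61) (nat_lit 5) (nat_lit 62) (nat_lit 5) (nat_lit 292) (nat_lit 257) (nat_lit 171)) (XT.lf (nat_lit 0) (nat_lit 3482628723) (nat_lit 228) (nat_lit 24036199207) (nat_lit 304) (nat_lit 34893364) (nat_lit 55) (nat_lit 5) (nat_lit 58) (nat_lit 5) (nat_lit 59) (nat_lit 5) (nat_lit 293) (nat_lit 257) (nat_lit 170))))))) (XT.nd (nat_lit 858) (nat_lit 912) (nat_lit 0) (XT.nd (nat_lit 390) (nat_lit 836) (nat_lit 0) (XT.nd (nat_lit 156) (nat_lit 532) (nat_lit 0) (XT.nd (nat_lit 78) (nat_lit 228) (nat_lit 0) (XT.lf (nat_lit 0)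 (nat_lit 6681633979) (nat_lit 304) (nat_lit 5475825714) (nat_lit 76) (nat_lit 16369194363) (nat_lit 54) (nat_lit 5) (nat_lit 58) (nat_lit 5) (nat_lit 55) (nat_lit 5) (nat_lit 294) (nat_lit 257) (nat_lit 169)) (XT.lf (nat_lit 0) (nat_lit 13857840053) (nat_lit 304) (nat_lit 15246253871) (nat_lit 76) (nat_lit 440412531) (nat_lit 51) (nat_lit 5) (nat_lit 55) (nat_lit 5) (nat_lit 52) (nat_lit 5) (nat_lit 295) (nat_lit 257) (nat_lit 168))) (XT.nd (nat_lit 78) (nat_lit 304) (nat_lit 0) (XT.lf (nat_lit 0) (nat_lit 4503547898) (nat_lit 228) (nat_lit 17095507059) (nat_lit 304) (nat_lit 9008030161) (nat_lit 48) (nat_lit 5) (nat_lit 51) (nat_lit 5) (nat_lit 52) (nat_lit 5) (nat_lit 296) (nat_lit 257) (nat_lit 167)) (XT.nd (nat_lit 78) (nat_lit 304) (nat_lit 0) (XT.lf (nat_lit 0) (nat_lit 25535188071) (nat_lit 228) (nat_lit 4332925253) (nat_lit 304) (nat_lit 1850474578) (nat_lit 48) (nat_lit 5) (nat_lit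 51) (nat_lit 5) (nat_lit 52) (nat_lit 5) (nat_lit 297) (nat_lit 257) (nat_lit 166)) (XT.lf (nat_lit 0) (nat_lit 5771577236) (nat_lit 304) (nat_lit 18022733061) (nat_lit 76) (nat_lit 9083224272) (nat_lit 44) (nat_lit 5) (nat_lit 48) (nat_lit 5) (nat_lit 45) (nat_lit 5) (nat_lit 298) (nat_lit 257) (nat_lit 165))))) (XT.nd (nat_lit 234) (nat_lit 456) (nat_lit 0) (XT.nd (nat_lit 78) (nat_lit 152) (nat_lit 0) (XT.lf (nat_lit 0) (nat_lit 2953044860) (nat_lit 228) (nat_lit 10905058630) (nat_lit 304) (nat_lit 20232142598) (nat_lit 41) (nat_lit 5) (nat_lit 44) (nat_lit 5) (nat_lit 45) (nat_lit 5) (nat_lit 299) (nat_lit 257) (nat_lit 164)) (XT.nd (nat_lit 78) (nat_lit 152) (nat_lit 0) (XT.lf (nat_lit 0) (nat_lit 22546901487) (nat_lit 304) (nat_lit 10053761234) (nat_lit 76) (nat_lit 2757007754) (nat_lit 41) (nat_lit 5) (nat_lit 45) (nat_lit 5) (nat_lit 42) (nat_lit 5) (nat_lit 300) (nat_lit 257) (nat_lit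 163)) (XT.lf (nat_lit 0) (nat_lit 12189877947) (nat_lit 152) (nat_lit 19693516959) (nat_lit 228) (nat_lit 4798688421) (nat_lit 39) (nat_lit 5) (nat_lit 41) (nat_lit 5) (nat_lit 42) (nat_lit 5) (nat_lit 301) (nat_lit 257) (nat_lit 162)))) (XT.nd (nat_lit 78) (nat_lit 380) (nat_lit 0) (XT.lf (nat_lit 0) (nat_lit 3634319922) (nat_lit 228) (nat_lit 2371019108) (nat_lit 76) (nat_lit 32063624007) (nat_lit 38) (nat_lit 5) (nat_lit 41) (nat_lit 5) (nat_lit 39) (nat_lit 5) (nat_lit 302) (nat_lit 257) (nat_lit 161)) (XT.nd (nat_lit 78) (nat_lit 152) (nat_lit 0) (XT.lf (nat_lit 0) (nat_lit 12664289859) (nat_lit 304) (nat_lit 18399794107) (nat_lit 76) (nat_lit 8451453881) (nat_lit 35) (nat_lit 5) (nat_lit 39) (nat_lit 5) (nat_lit 36) (nat_lit 5) (nat_lit 303) (nat_lit 257) (nat_lit 160)) (XT.lf (nat_lit 0) (nat_lit 4805449100) (nat_lit 152) (nat_lit 17459102240) (nat_lit 228) (nat_lit 18766338771) (nat_lit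 33) (nat_lit 5) (nat_lit 35) (nat_lit 5) (nat_lit 36) (nat_lit 5) (nat_lit 304) (nat_lit 257) (nat_lit 159)))))) (XT.nd (nat_lit 390) (nat_lit 532) (nat_lit 0) (XT.nd (nat_lit 156) (nat_lit 228) (nat_lit 0) (XT.nd (nat_lit 78) (nat_lit 152) (nat_lit 0) (XT.lf (nat_lit 0) (nat_lit 29535883250) (nat_lit 152) (nat_lit 2986104698) (nat_lit 228) (nat_lit 10094719089) (nat_lit 33) (nat_lit 5) (nat_lit 35) (nat_lit 5) (nat_lit 36) (nat_lit 5) (nat_lit 305) (nat_lit 257) (nat_lit 158)) (XT.lf (nat_lit 0) (nat_lit 11305321663) (nat_lit 152) (nat_lit 32201292164) (nat_lit 228) (nat_lit 768782804) (nat_lit 31) (nat_lit 5) (nat_lit 33) (nat_lit 5) (nat_lit 34) (nat_lit 5) (nat_lit 306) (nat_lit 257) (nat_lit 157))) (XT.nd (nat_lit 78) (nat_lit 152) (nat_lit 0) (XT.lf (nat_lit 0) (nat_lit 9002025962) (nat_lit 228) (nat_lit 8965698551) (nat_lit 76) (nat_lit 28042064839) (nat_lit 30) (nat_lit 5) (nat_lit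 33) (nat_lit 5) (nat_lit 31) (nat_lit 5) (nat_lit 307) (nat_lit 257) (nat_lit 156)) (XT.nd (nat_lit 78) (nat_lit 0) (nat_lit 0) (XT.lf (nat_lit 0) (nat_lit 16536071665) (nat_lit 152) (nat_lit 2857580287) (nat_lit 228) (nat_lit 28432586104) (nat_lit 28) (nat_lit 5) (nat_lit 30) (nat_lit 5) (nat_lit 31) (nat_lit 5) (nat_lit 308) (nat_lit 257) (nat_lit 155)) (XT.lf (nat_lit 0) (nat_lit 30512472860) (nat_lit 228) (nat_lit 6373906405) (nat_lit 76) (nat_lit 12840911034) (nat_lit 28) (nat_lit 5) (nat_lit 31) (nat_lit 5) (nat_lit 29) (nat_lit 5) (nat_lit 309) (nat_lit 257) (nat_lit 154))))) (XT.nd (nat_lit 234) (nat_lit 152) (nat_lit 0) (XT.nd (nat_lit 78) (nat_lit 228) (nat_lit 0) (XT.lf (nat_lit 0) (nat_lit 20135577386) (nat_lit 152) (nat_lit 22263925948) (nat_lit 228) (nat_lit 9317532825) (nat_lit 26) (nat_lit 5) (nat_lit 28) (nat_lit 5) (nat_lit 29) (nat_lit 5) (nat_lit 310) (nat_lit 257) (nat_lit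 153)) (XT.nd (nat_lit 78) (nat_lit 152) (nat_lit 0) (XT.lf (nat_lit 0) (nat_lit 1110001789) (nat_lit 228) (nat_lit 5727941604) (nat_lit 76) (nat_lit 46966333738) (nat_lit 25) (nat_lit 5) (nat_lit 28) (nat_lit 5) (nat_lit 26) (nat_lit 5) (nat_lit 311) (nat_lit 257) (nat_lit 152)) (XT.lf (nat_lit 0) (nat_lit 12160383044) (nat_lit 228) (nat_lit 34347312234) (nat_lit 76) (nat_lit 9476600144) (nat_lit 23) (nat_lit 5) (nat_lit 26) (nat_lit 5) (nat_lit 24) (nat_lit 5) (nat_lit 312) (nat_lit 257) (nat_lit 151)))) (XT.nd (nat_lit 78) (nat_lit 152) (nat_lit 0) (XT.lf (nat_lit 0) (nat_lit 23882657705) (nat_lit 228) (nat_lit 7866683127) (nat_lit 76) (nat_lit 26520400164) (nat_lit 23) (nat_lit 5) (nat_lit 26) (nat_lit 5) (nat_lit 24) (nat_lit 5) (nat_lit 313) (nat_lit 257) (nat_lit 150)) (XT.nd (nat_lit 78) (nat_lit 0) (nat_lit 0) (XT.lf (nat_lit 0) (nat_lit 20319835418) (nat_lit 152) (nat_lit 16057784430)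 (nat_lit 228) (nat_lit 24286249024) (nat_lit 21) (nat_lit 5) (nat_lit 23) (nat_lit 5) (nat_lit 24) (nat_lit 5) (nat_lit 314) (nat_lit 257) (nat_lit 149)) (XT.lf (nat_lit 0) (nat_lit 49574605527) (nat_lit 228) (nat_lit 13114467314) (nat_lit 76) (nat_lit 486318932) (nat_lit 21) (nat_lit 5) (nat_lit 24) (nat_lit 5) (nat_lit 22) (nat_lit 4) (nat_lit 315) (nat_lit 257) (nat_lit 148))))))))
noncomputable def xc83 : XT := (XT.nd (nat_lit 33618) (nat_lit 0) (nat_lit 4712) (XT.nd (nat_lit 858) (nat_lit 0) (nat_lit 0) (XT.nd (nat_lit 390) (nat_lit 380) (nat_lit 0) (XT.nd (nat_lit 156) (nat_lit 152) (nat_lit 0) (XT.nd (nat_lit 78) (nat_lit 76) (nat_lit 0) (XT.lf (nat_lit 0) (nat_lit 15605263788) (nat_lit 76) (nat_lit 48130136908) (nat_lit 152) (nat_lit 2067977879) (nat_lit 20) (nat_lit 5) (nat_lit 21) (nat_lit 5) (nat_lit 22) (nat_lit 4) (nat_lit 316) (nat_lit 257) (nat_lit 147)) (XT.lf (nat_lit 0)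 (nat_lit 9973916286) (nat_lit 152) (nat_lit 22635063991) (nat_lit 76) (nat_lit 35947043048) (nat_lit 19) (nat_lit 5) (nat_lit 21) (nat_lit 5) (nat_lit 20) (nat_lit 5) (nat_lit 317) (nat_lit 257) (nat_lit 146))) (XT.nd (nat_lit 78) (nat_lit 0) (nat_lit 0) (XT.lf (nat_lit 0) (nat_lit 6397220357) (nat_lit 152) (nat_lit 16232238013) (nat_lit 228) (nat_lit 48814603806) (nat_lit 17) (nat_lit 5) (nat_lit 19) (nat_lit 5) (nat_lit 20) (nat_lit 5) (nat_lit 318) (nat_lit 257) (nat_lit 145)) (XT.nd (nat_lit 78) (nat_lit 0) (nat_lit 0) (XT.lf (nat_lit 0) (nat_lit 36154973796) (nat_lit 228) (nat_lit 37139640376) (nat_lit 76) (nat_lit 1174778416) (nat_lit 17) (nat_lit 5) (nat_lit 20) (nat_lit 5) (nat_lit 18) (nat_lit 4) (nat_lit 319) (nat_lit 257) (nat_lit 144)) (XT.lf (nat_lit 0) (nat_lit 50513573274) (nat_lit 228) (nat_lit 8012996295) (nat_lit 76) (nat_lit 19114720946) (nat_lit 17) (nat_lit 5) (nat_lit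 20) (nat_lit 5) (nat_lit 18) (nat_lit 4) (nat_lit 320) (nat_lit 257) (nat_lit 143))))) (XT.nd (nat_lit 234) (nat_lit 76) (nat_lit 0) (XT.nd (nat_lit 78) (nat_lit 228) (nat_lit 0) (XT.lf (nat_lit 0) (nat_lit 23007431640) (nat_lit 76) (nat_lit 42797139611) (nat_lit 152) (nat_lit 15160783023) (nat_lit 16) (nat_lit 5) (nat_lit 17) (nat_lit 5) (nat_lit 18) (nat_lit 4) (nat_lit 321) (nat_lit 257) (nat_lit 142)) (XT.nd (nat_lit 78) (nat_lit 228) (nat_lit 0) (XT.lf (nat_lit 0) (nat_lit 55735152641) (nat_lit 76) (nat_lit 26200971513) (nat_lit 152) (nat_lit 2517221674) (nat_lit 16) (nat_lit 5) (nat_lit 17) (nat_lit 5) (nat_lit 18) (nat_lit 4) (nat_lit 322) (nat_lit 257) (nat_lit 141)) (XT.lf (nat_lit 0) (nat_lit 1906535924) (nat_lit 152) (nat_lit 8654132566) (nat_lit 228) (nat_lit 77551607697) (nat_lit 13) (nat_lit 5) (nat_lit 15) (nat_lit 5) (nat_lit 16) (nat_lit 5) (nat_lit 323) (nat_lit 257) (nat_lit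 140)))) (XT.nd (nat_lit 78) (nat_lit 76) (nat_lit 0) (XT.lf (nat_lit 0) (nat_lit 24627263631) (nat_lit 228) (nat_lit 57415513453) (nat_lit 76) (nat_lit 9899026363) (nat_lit 13) (nat_lit 5) (nat_lit 16) (nat_lit 5) (nat_lit 14) (nat_lit 4) (nat_lit 324) (nat_lit 257) (nat_lit 139)) (XT.nd (nat_lit 78) (nat_lit 76) (nat_lit 0) (XT.lf (nat_lit 0) (nat_lit 39478741905) (nat_lit 228) (nat_lit 27283225354) (nat_lit 76) (nat_lit 29198397198) (nat_lit 13) (nat_lit 5) (nat_lit 16) (nat_lit 5) (nat_lit 14) (nat_lit 4) (nat_lit 325) (nat_lit 257) (nat_lit 138)) (XT.lf (nat_lit 0) (nat_lit 4432551437) (nat_lit 76) (nat_lit 50677332119) (nat_lit 152) (nat_lit 45068861076) (nat_lit 12) (nat_lit 5) (nat_lit 13) (nat_lit 5) (nat_lit 14) (nat_lit 4) (nat_lit 326) (nat_lit 257) (nat_lit 137)))))) (XT.nd (nat_lit 32292) (nat_lit 0) (nat_lit 12464) (XT.nd (nat_lit 156) (nat_lit 0) (nat_lit 0) (XT.nd (nat_lit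 78) (nat_lit 0) (nat_lit 0) (XT.lf (nat_lit 0) (nat_lit 38294911255) (nat_lit 76) (nat_lit 33503181811) (nat_lit 152) (nat_lit 32801689045) (nat_lit 12) (nat_lit 5) (nat_lit 13) (nat_lit 5) (nat_lit 14) (nat_lit 4) (nat_lit 327) (nat_lit 257) (nat_lit 136)) (XT.lf (nat_lit 0) (nat_lit 73841489084) (nat_lit 76) (nat_lit 15474132580) (nat_lit 152) (nat_lit 19926405986) (nat_lit 12) (nat_lit 5) (nat_lit 13) (nat_lit 5) (nat_lit 14) (nat_lit 4) (nat_lit 328) (nat_lit 257) (nat_lit 135))) (XT.nd (nat_lit 31980) (nat_lit 0) (nat_lit 13376) (XT.lf (nat_lit 0) (nat_lit 107737367619) (nat_lit 152) (nat_lit 2992804449) (nat_lit 0) (nat_lit 3385366450) (nat_lit 12) (nat_lit 5) (nat_lit 14) (nat_lit 4) (nat_lit 12) (nat_lit 4) (nat_lit 329) (nat_lit 257) (nat_lit 134)) (XT.nd (nat_lit 78) (nat_lit 0) (nat_lit 0) (XT.lf (nat_lit 0) (nat_lit 1507269360) (nat_lit 0) (nat_lit 1507269360) (nat_lit 988) (nat_lit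 2147242680) (nat_lit 188) (nat_lit 5) (nat_lit 188) (nat_lit 3) (nat_lit 201) (nat_lit 3) (nat_lit 258) (nat_lit 258) (nat_lit 204)) (XT.lf (nat_lit 76) (nat_lit 77456383) (nat_lit 0) (nat_lit 7132474019) (nat_lit 1064) (nat_lit 3338740329) (nat_lit 189) (nat_lit 5) (nat_lit 188) (nat_lit 5) (nat_lit 202) (nat_lit 5) (nat_lit 259) (nat_lit 258) (nat_lit 203))))) (XT.nd (nat_lit 234) (nat_lit 0) (nat_lit 0) (XT.nd (nat_lit 78) (nat_lit 912) (nat_lit 0) (XT.lf (nat_lit 76) (nat_lit 7920057998) (nat_lit 0) (nat_lit 571357159) (nat_lit 1064) (nat_lit 2292504204) (nat_lit 189) (nat_lit 5) (nat_lit 188) (nat_lit 5) (nat_lit 202) (nat_lit 5) (nat_lit 260) (nat_lit 258) (nat_lit 202)) (XT.nd (nat_lit 78) (nat_lit 988) (nat_lit 0) (XT.lf (nat_lit 76) (nat_lit 5127730154) (nat_lit 0) (nat_lit 4758788007) (nat_lit 1064) (nat_lit 1143052584) (nat_lit 190) (nat_lit 5) (nat_lit 189) (nat_lit 5) (nat_lit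 203) (nat_lit 5) (nat_lit 261) (nat_lit 258) (nat_lit 201)) (XT.lf (nat_lit 0) (nat_lit 83064506) (nat_lit 1064) (nat_lit 9014595829) (nat_lit 1140) (nat_lit 2189329869) (nat_lit 176) (nat_lit 5) (nat_lit 190) (nat_lit 5) (nat_lit 191) (nat_lit 5) (nat_lit 262) (nat_lit 258) (nat_lit 200)))) (XT.nd (nat_lit 78) (nat_lit 0) (nat_lit 76) (XT.lf (nat_lit 0) (nat_lit 1400498078) (nat_lit 1064) (nat_lit 673660890) (nat_lit 1140) (nat_lit 9481284150) (nat_lit 176) (nat_lit 5) (nat_lit 190) (nat_lit 5) (nat_lit 191) (nat_lit 5) (nat_lit 263) (nat_lit 258) (nat_lit 199)) (XT.nd (nat_lit 78) (nat_lit 0) (nat_lit 76) (XT.lf (nat_lit 0) (nat_lit 2861336239) (nat_lit 1064) (nat_lit 3679003669) (nat_lit 1140) (nat_lit 5294758996) (nat_lit 177) (nat_lit 5) (nat_lit 191) (nat_lit 5) (nat_lit 192) (nat_lit 5) (nat_lit 264) (nat_lit 258) (nat_lit 198)) (XT.lf (nat_lit 0) (nat_lit 4432776212) (nat_lit 1064)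 (nat_lit 6776250997) (nat_lit 1140) (nat_lit 918684630) (nat_lit 178) (nat_lit 5) (nat_lit 192) (nat_lit 5) (nat_lit 193) (nat_lit 5) (nat_lit 265) (nat_lit 258) (nat_lit 197))))))) (XT.nd (nat_lit 858) (nat_lit 3648) (nat_lit 0) (XT.nd (nat_lit 390) (nat_lit 2204) (nat_lit 0) (XT.nd (nat_lit 156) (nat_lit 2052) (nat_lit 0) (XT.nd (nat_lit 78) (nat_lit 0) (nat_lit 76) (XT.lf (nat_lit 76) (nat_lit 2420937786) (nat_lit 0) (nat_lit 3740692587) (nat_lit 1140) (nat_lit 6271056121) (nat_lit 179) (nat_lit 5) (nat_lit 178) (nat_lit 5) (nat_lit 193) (nat_lit 5) (nat_lit 266) (nat_lit 258) (nat_lit 196)) (XT.lf (nat_lit 0) (nat_lit 8040193023) (nat_lit 1064) (nat_lit 608322817) (nat_lit 1140) (nat_lit 4102587820) (nat_lit 179) (nat_lit 5) (nat_lit 193) (nat_lit 5) (nat_lit 194) (nat_lit 5) (nat_lit 267) (nat_lit 258) (nat_lit 195))) (XT.nd (nat_lit 78) (nat_lit 2128) (nat_lit 0) (XT.lf (nat_lit 76)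 (nat_lit 9375241679) (nat_lit 0) (nat_lit 720935275) (nat_lit 1140) (nat_lit 2986847319) (nat_lit 180) (nat_lit 5) (nat_lit 179) (nat_lit 5) (nat_lit 194) (nat_lit 5) (nat_lit 268) (nat_lit 258) (nat_lit 194)) (XT.nd (nat_lit 78) (nat_lit 1140) (nat_lit 0) (XT.lf (nat_lit 0) (nat_lit 6456532921) (nat_lit 1064) (nat_lit 5897382480) (nat_lit 1140) (nat_lit 1074740076) (nat_lit 166) (nat_lit 5) (nat_lit 180) (nat_lit 5) (nat_lit 181) (nat_lit 5) (nat_lit 269) (nat_lit 258) (nat_lit 193)) (XT.lf (nat_lit 0) (nat_lit 976088091) (nat_lit 1140) (nat_lit 10383159022) (nat_lit 76) (nat_lit 2430289395) (nat_lit 151) (nat_lit 5) (nat_lit 166) (nat_lit 5) (nat_lit 152) (nat_lit 5) (nat_lit 270) (nat_lit 258) (nat_lit 192))))) (XT.nd (nat_lit 234) (nat_lit 1140) (nat_lit 0) (XT.nd (nat_lit 78) (nat_lit 532) (nat_lit 0) (XT.lf (nat_lit 0) (nat_lit 179791895) (nat_lit 532) (nat_lit 3021756396) (nat_lit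 608) (nat_lit 10963837817) (nat_lit 144) (nat_lit 5) (nat_lit 151) (nat_lit 5) (nat_lit 152) (nat_lit 5) (nat_lit 271) (nat_lit 258) (nat_lit 191)) (XT.nd (nat_lit 78) (nat_lit 532) (nat_lit 0) (XT.lf (nat_lit 0) (nat_lit 5663291179) (nat_lit 608) (nat_lit 3161159354) (nat_lit 76) (nat_lit 5731897161) (nat_lit 144) (nat_lit 5) (nat_lit 152) (nat_lit 5) (nat_lit 145) (nat_lit 5) (nat_lit 272) (nat_lit 258) (nat_lit 190)) (XT.lf (nat_lit 0) (nat_lit 8301667693) (nat_lit 532) (nat_lit 20525547) (nat_lit 608) (nat_lit 6642508432) (nat_lit 137) (nat_lit 5) (nat_lit 144) (nat_lit 5) (nat_lit 145) (nat_lit 5) (nat_lit 273) (nat_lit 258) (nat_lit 189)))) (XT.nd (nat_lit 78) (nat_lit 608) (nat_lit 0) (XT.lf (nat_lit 0) (nat_lit 4985024684) (nat_lit 532) (nat_lit 6263652094) (nat_lit 608) (nat_lit 4140820785) (nat_lit 130) (nat_lit 5) (nat_lit 137) (nat_lit 5) (nat_lit 138) (nat_lit 5) (nat_lit 274)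 (nat_lit 258) (nat_lit 188)) (XT.nd (nat_lit 78) (nat_lit 76) (nat_lit 0) (XT.lf (nat_lit 0) (nat_lit 1487026073) (nat_lit 532) (nat_lit 12912568483) (nat_lit 608) (nat_lit 1433655683) (nat_lit 123) (nat_lit 5) (nat_lit 130) (nat_lit 5) (nat_lit 131) (nat_lit 5) (nat_lit 275) (nat_lit 258) (nat_lit 187)) (XT.lf (nat_lit 0) (nat_lit 1520184434) (nat_lit 608) (nat_lit 2217532994) (nat_lit 76) (nat_lit 12556958319) (nat_lit 122) (nat_lit 5) (nat_lit 130) (nat_lit 5) (nat_lit 123) (nat_lit 5) (nat_lit 276) (nat_lit 258) (nat_lit 186)))))) (XT.nd (nat_lit 468) (nat_lit 1444) (nat_lit 0) (XT.nd (nat_lit 234) (nat_lit 912) (nat_lit 0) (XT.nd (nat_lit 78) (nat_lit 836) (nat_lit 0) (XT.lf (nat_lit 0) (nat_lit 4721787232) (nat_lit 532) (nat_lit 6155579178) (nat_lit 76) (nat_lit 5897541749) (nat_lit 116) (nat_lit 5) (nat_lit 123) (nat_lit 5) (nat_lit 117) (nat_lit 5) (nat_lit 277) (nat_lit 258) (nat_lit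 185)) (XT.nd (nat_lit 78) (nat_lit 380) (nat_lit 0) (XT.lf (nat_lit 0) (nat_lit 6930578712) (nat_lit 456) (nat_lit 1250421096) (nat_lit 532) (nat_lit 9095277060) (nat_lit 110) (nat_lit 5) (nat_lit 116) (nat_lit 5) (nat_lit 117) (nat_lit 5) (nat_lit 278) (nat_lit 258) (nat_lit 184)) (XT.lf (nat_lit 0) (nat_lit 2937854042) (nat_lit 380) (nat_lit 9023919482) (nat_lit 456) (nat_lit 5836530632) (nat_lit 105) (nat_lit 5) (nat_lit 110) (nat_lit 5) (nat_lit 111) (nat_lit 5) (nat_lit 279) (nat_lit 258) (nat_lit 183)))) (XT.nd (nat_lit 78) (nat_lit 912) (nat_lit 0) (XT.lf (nat_lit 0) (nat_lit 16032811781) (nat_lit 456) (nat_lit 1296407945) (nat_lit 76) (nat_lit 1014222171) (nat_lit 105) (nat_lit 5) (nat_lit 111) (nat_lit 5) (nat_lit 106) (nat_lit 5) (nat_lit 280) (nat_lit 258) (nat_lit 182)) (XT.nd (nat_lit 78) (nat_lit 380) (nat_lit 0) (XT.lf (nat_lit 0) (nat_lit 1556626950) (nat_lit 532) (nat_lit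 5846379277) (nat_lit 76) (nat_lit 11506704928) (nat_lit 98) (nat_lit 5) (nat_lit 105) (nat_lit 5) (nat_lit 99) (nat_lit 5) (nat_lit 281) (nat_lit 258) (nat_lit 181)) (XT.lf (nat_lit 0) (nat_lit 5672220605) (nat_lit 456) (nat_lit 10750077915) (nat_lit 76) (nat_lit 3078266588) (nat_lit 93) (nat_lit 5) (nat_lit 99) (nat_lit 5) (nat_lit 94) (nat_lit 5) (nat_lit 282) (nat_lit 258) (nat_lit 180))))) (XT.nd (nat_lit 234) (nat_lit 760) (nat_lit 0) (XT.nd (nat_lit 78) (nat_lit 304) (nat_lit 0) (XT.lf (nat_lit 0) (nat_lit 4053546230) (nat_lit 380) (nat_lit 6089652475) (nat_lit 456) (nat_lit 9973313376) (nat_lit 88) (nat_lit 5) (nat_lit 93) (nat_lit 5) (nat_lit 94) (nat_lit 5) (nat_lit 283) (nat_lit 258) (nat_lit 179)) (XT.nd (nat_lit 78) (nat_lit 304) (nat_lit 0) (XT.lf (nat_lit 0) (nat_lit 14971221961) (nat_lit 456) (nat_lit 1015066367) (nat_lit 76) (nat_lit 4772999821) (nat_lit 88) (nat_lit 5) (nat_lit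 94) (nat_lit 5) (nat_lit 89) (nat_lit 5) (nat_lit 284) (nat_lit 258) (nat_lit 178)) (XT.lf (nat_lit 0) (nat_lit 14987385113) (nat_lit 304) (nat_lit 5235922640) (nat_lit 380) (nat_lit 1205450316) (nat_lit 84) (nat_lit 5) (nat_lit 88) (nat_lit 5) (nat_lit 89) (nat_lit 5) (nat_lit 285) (nat_lit 258) (nat_lit 177)))) (XT.nd (nat_lit 78) (nat_lit 304) (nat_lit 0) (XT.lf (nat_lit 0) (nat_lit 3677951807) (nat_lit 456) (nat_lit 12379799330) (nat_lit 76) (nat_lit 6068681811) (nat_lit 78) (nat_lit 5) (nat_lit 84) (nat_lit 5) (nat_lit 79) (nat_lit 5) (nat_lit 286) (nat_lit 258) (nat_lit 176)) (XT.nd (nat_lit 78) (nat_lit 0) (nat_lit 0) (XT.lf (nat_lit 0) (nat_lit 4005855632) (nat_lit 304) (nat_lit 4911723363) (nat_lit 380) (nat_lit 13936975681) (nat_lit 74) (nat_lit 5) (nat_lit 78) (nat_lit 5) (nat_lit 79) (nat_lit 5) (nat_lit 287) (nat_lit 258) (nat_lit 175)) (XT.lf (nat_lit 0) (nat_lit 14592306986)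 (nat_lit 380) (nat_lit 2240375927) (nat_lit 76) (nat_lit 6781235255) (nat_lit 74) (nat_lit 5) (nat_lit 79) (nat_lit 5) (nat_lit 75) (nat_lit 5) (nat_lit 288) (nat_lit 258) (nat_lit 174))))))))
noncomputable def xc84 : XT := (XT.nd (nat_lit 1716) (nat_lit 1216) (nat_lit 0) (XT.nd (nat_lit 858) (nat_lit 1216) (nat_lit 0) (XT.nd (nat_lit 390) (nat_lit 1064) (nat_lit 0) (XT.nd (nat_lit 156) (nat_lit 532) (nat_lit 0) (XT.nd (nat_lit 78) (nat_lit 380) (nat_lit 0) (XT.lf (nat_lit 0) (nat_lit 15423018677) (nat_lit 304) (nat_lit 5305710534) (nat_lit 380) (nat_lit 3677209755) (nat_lit 70) (nat_lit 5) (nat_lit 74) (nat_lit 5) (nat_lit 75) (nat_lit 5) (nat_lit 289) (nat_lit 258) (nat_lit 173)) (XT.lf (nat_lit 0) (nat_lit 2052732400) (nat_lit 380) (nat_lit 16392716058) (nat_lit 76) (nat_lit 6786898233) (nat_lit 65) (nat_lit 5) (nat_lit 70) (nat_lit 5) (nat_lit 66) (nat_lit 5) (nat_lit 290) (nat_lit 258)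 (nat_lit 172))) (XT.nd (nat_lit 78) (nat_lit 228) (nat_lit 0) (XT.lf (nat_lit 0) (nat_lit 1556375918) (nat_lit 304) (nat_lit 6580570645) (nat_lit 380) (nat_lit 17957745781) (nat_lit 61) (nat_lit 5) (nat_lit 65) (nat_lit 5) (nat_lit 66) (nat_lit 5) (nat_lit 291) (nat_lit 258) (nat_lit 171)) (XT.nd (nat_lit 78) (nat_lit 228) (nat_lit 0) (XT.lf (nat_lit 0) (nat_lit 14734088745) (nat_lit 380) (nat_lit 6333665774) (nat_lit 76) (nat_lit 5926162613) (nat_lit 61) (nat_lit 5) (nat_lit 66) (nat_lit 5) (nat_lit 62) (nat_lit 5) (nat_lit 292) (nat_lit 258) (nat_lit 170)) (XT.lf (nat_lit 0) (nat_lit 12942703931) (nat_lit 228) (nat_lit 8891882651) (nat_lit 304) (nat_lit 6098333880) (nat_lit 58) (nat_lit 5) (nat_lit 61) (nat_lit 5) (nat_lit 62) (nat_lit 5) (nat_lit 293) (nat_lit 258) (nat_lit 169))))) (XT.nd (nat_lit 234) (nat_lit 532) (nat_lit 0) (XT.nd (nat_lit 78) (nat_lit 228) (nat_lit 0) (XT.lf (nat_lit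 0) (nat_lit 494212646) (nat_lit 304) (nat_lit 24497715812) (nat_lit 76) (nat_lit 3922952383) (nat_lit 54) (nat_lit 5) (nat_lit 58) (nat_lit 5) (nat_lit 55) (nat_lit 5) (nat_lit 294) (nat_lit 258) (nat_lit 168)) (XT.nd (nat_lit 78) (nat_lit 228) (nat_lit 0) (XT.lf (nat_lit 0) (nat_lit 7520606859) (nat_lit 304) (nat_lit 5010017761) (nat_lit 76) (nat_lit 17406612538) (nat_lit 54) (nat_lit 5) (nat_lit 58) (nat_lit 5) (nat_lit 55) (nat_lit 5) (nat_lit 295) (nat_lit 258) (nat_lit 167)) (XT.lf (nat_lit 0) (nat_lit 15040703582) (nat_lit 304) (nat_lit 15277178091) (nat_lit 76) (nat_lit 688576799) (nat_lit 51) (nat_lit 5) (nat_lit 55) (nat_lit 5) (nat_lit 52) (nat_lit 5) (nat_lit 296) (nat_lit 258) (nat_lit 166)))) (XT.nd (nat_lit 78) (nat_lit 304) (nat_lit 0) (XT.lf (nat_lit 0) (nat_lit 5439148662) (nat_lit 228) (nat_lit 17713327616) (nat_lit 304) (nat_lit 8970212221) (nat_lit 48) (nat_lit 5) (nat_lit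 51) (nat_lit 5) (nat_lit 52) (nat_lit 5) (nat_lit 297) (nat_lit 258) (nat_lit 165)) (XT.nd (nat_lit 78) (nat_lit 304) (nat_lit 0) (XT.lf (nat_lit 0) (nat_lit 27488541160) (nat_lit 228) (nat_lit 4323900281) (nat_lit 304) (nat_lit 1478027404) (nat_lit 48) (nat_lit 5) (nat_lit 51) (nat_lit 5) (nat_lit 52) (nat_lit 5) (nat_lit 298) (nat_lit 258) (nat_lit 164)) (XT.lf (nat_lit 0) (nat_lit 6502922742) (nat_lit 304) (nat_lit 18245838343) (nat_lit 76) (nat_lit 9758885678) (nat_lit 44) (nat_lit 5) (nat_lit 48) (nat_lit 5) (nat_lit 45) (nat_lit 5) (nat_lit 299) (nat_lit 258) (nat_lit 163)))))) (XT.nd (nat_lit 390) (nat_lit 532) (nat_lit 0) (XT.nd (nat_lit 156) (nat_lit 456) (nat_lit 0) (XT.nd (nat_lit 78) (nat_lit 0) (nat_lit 0) (XT.lf (nat_lit 0) (nat_lit 3759292840) (nat_lit 228) (nat_lit 11219729168) (nat_lit 304) (nat_lit 20802437379) (nat_lit 41) (nat_lit 5) (nat_lit 44) (nat_lit 5) (nat_lit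 45) (nat_lit 5) (nat_lit 300) (nat_lit 258) (nat_lit 162)) (XT.lf (nat_lit 0) (nat_lit 24083989269) (nat_lit 304) (nat_lit 9918660493) (nat_lit 76) (nat_lit 3110175189) (nat_lit 41) (nat_lit 5) (nat_lit 45) (nat_lit 5) (nat_lit 42) (nat_lit 5) (nat_lit 301) (nat_lit 258) (nat_lit 161))) (XT.nd (nat_lit 78) (nat_lit 304) (nat_lit 0) (XT.lf (nat_lit 0) (nat_lit 13418878559) (nat_lit 152) (nat_lit 20454872320) (nat_lit 228) (nat_lit 4630135060) (nat_lit 39) (nat_lit 5) (nat_lit 41) (nat_lit 5) (nat_lit 42) (nat_lit 5) (nat_lit 302) (nat_lit 258) (nat_lit 160)) (XT.nd (nat_lit 78) (nat_lit 228) (nat_lit 0) (XT.lf (nat_lit 0) (nat_lit 4197480407) (nat_lit 228) (nat_lit 1891587555) (nat_lit 76) (nat_lit 33871515271) (nat_lit 38) (nat_lit 5) (nat_lit 41) (nat_lit 5) (nat_lit 39) (nat_lit 5) (nat_lit 303) (nat_lit 258) (nat_lit 159)) (XT.lf (nat_lit 0) (nat_lit 13668405880) (nat_lit 304) (nat_lit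 18729547789) (nat_lit 76) (nat_lit 9081867719) (nat_lit 35) (nat_lit 5) (nat_lit 39) (nat_lit 5) (nat_lit 36) (nat_lit 5) (nat_lit 304) (nat_lit 258) (nat_lit 158))))) (XT.nd (nat_lit 234) (nat_lit 228) (nat_lit 0) (XT.nd (nat_lit 78) (nat_lit 152) (nat_lit 0) (XT.lf (nat_lit 0) (nat_lit 5619038581) (nat_lit 152) (nat_lit 18117490950) (nat_lit 228) (nat_lit 19334793705) (nat_lit 33) (nat_lit 5) (nat_lit 35) (nat_lit 5) (nat_lit 36) (nat_lit 5) (nat_lit 305) (nat_lit 258) (nat_lit 157)) (XT.nd (nat_lit 78) (nat_lit 152) (nat_lit 0) (XT.lf (nat_lit 0) (nat_lit 31558693628) (nat_lit 152) (nat_lit 2931060979) (nat_lit 228) (nat_lit 10247205515) (nat_lit 33) (nat_lit 5) (nat_lit 35) (nat_lit 5) (nat_lit 36) (nat_lit 5) (nat_lit 306) (nat_lit 258) (nat_lit 156)) (XT.lf (nat_lit 0) (nat_lit 12409323425) (nat_lit 152) (nat_lit 33605067929) (nat_lit 228) (nat_lit 464485274) (nat_lit 31) (nat_lit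 5) (nat_lit 33) (nat_lit 5) (nat_lit 34) (nat_lit 5) (nat_lit 307) (nat_lit 258) (nat_lit 155)))) (XT.nd (nat_lit 78) (nat_lit 152) (nat_lit 0) (XT.lf (nat_lit 0) (nat_lit 9772173587) (nat_lit 228) (nat_lit 8894239747) (nat_lit 76) (nat_lit 29633971513) (nat_lit 30) (nat_lit 5) (nat_lit 33) (nat_lit 5) (nat_lit 31) (nat_lit 5) (nat_lit 308) (nat_lit 258) (nat_lit 154)) (XT.nd (nat_lit 78) (nat_lit 0) (nat_lit 0) (XT.lf (nat_lit 0) (nat_lit 17867720630) (nat_lit 152) (nat_lit 2805272827) (nat_lit 228) (nat_lit 29534988083) (nat_lit 28) (nat_lit 5) (nat_lit 30) (nat_lit 5) (nat_lit 31) (nat_lit 5) (nat_lit 309) (nat_lit 258) (nat_lit 153)) (XT.lf (nat_lit 0) (nat_lit 32334796655) (nat_lit 228) (nat_lit 6204470727) (nat_lit 76) (nat_lit 13665221046) (nat_lit 28) (nat_lit 5) (nat_lit 31) (nat_lit 5) (nat_lit 29) (nat_lit 5) (nat_lit 310) (nat_lit 258) (nat_lit 152))))))) (XT.nd (nat_lit 858)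 (nat_lit 380) (nat_lit 0) (XT.nd (nat_lit 390) (nat_lit 304) (nat_lit 0) (XT.nd (nat_lit 156) (nat_lit 304) (nat_lit 0) (XT.nd (nat_lit 78) (nat_lit 76) (nat_lit 0) (XT.lf (nat_lit 0) (nat_lit 21616495076) (nat_lit 152) (nat_lit 23190112710) (nat_lit 228) (nat_lit 9487413557) (nat_lit 26) (nat_lit 5) (nat_lit 28) (nat_lit 5) (nat_lit 29) (nat_lit 5) (nat_lit 311) (nat_lit 258) (nat_lit 151)) (XT.lf (nat_lit 0) (nat_lit 1441901843) (nat_lit 228) (nat_lit 5557043303) (nat_lit 76) (nat_lit 49487020144) (nat_lit 25) (nat_lit 5) (nat_lit 28) (nat_lit 5) (nat_lit 26) (nat_lit 5) (nat_lit 312) (nat_lit 258) (nat_lit 150))) (XT.nd (nat_lit 78) (nat_lit 152) (nat_lit 0) (XT.lf (nat_lit 0) (nat_lit 13037608404) (nat_lit 228) (nat_lit 35613941289) (nat_lit 76) (nat_lit 10123661744) (nat_lit 23) (nat_lit 5) (nat_lit 26) (nat_lit 5) (nat_lit 24) (nat_lit 5) (nat_lit 313) (nat_lit 258) (nat_lit 149))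 (XT.nd (nat_lit 78) (nat_lit 152) (nat_lit 0) (XT.lf (nat_lit 0) (nat_lit 25333177455) (nat_lit 228) (nat_lit 7830744373) (nat_lit 76) (nat_lit 28011402642) (nat_lit 23) (nat_lit 5) (nat_lit 26) (nat_lit 5) (nat_lit 24) (nat_lit 5) (nat_lit 314) (nat_lit 258) (nat_lit 148)) (XT.lf (nat_lit 0) (nat_lit 21752795079) (nat_lit 152) (nat_lit 16691891880) (nat_lit 228) (nat_lit 25244727898) (nat_lit 21) (nat_lit 5) (nat_lit 23) (nat_lit 5) (nat_lit 24) (nat_lit 5) (nat_lit 315) (nat_lit 258) (nat_lit 147))))) (XT.nd (nat_lit 234) (nat_lit 152) (nat_lit 0) (XT.nd (nat_lit 78) (nat_lit 152) (nat_lit 0) (XT.lf (nat_lit 0) (nat_lit 52291248709) (nat_lit 228) (nat_lit 13367340283) (nat_lit 76) (nat_lit 668242718) (nat_lit 21) (nat_lit 5) (nat_lit 24) (nat_lit 5) (nat_lit 22) (nat_lit 4) (nat_lit 316) (nat_lit 258) (nat_lit 146)) (XT.nd (nat_lit 78) (nat_lit 76) (nat_lit 0) (XT.lf (nat_lit 0) (nat_lit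 16776829748) (nat_lit 76) (nat_lit 50375686144) (nat_lit 152) (nat_lit 1933938149) (nat_lit 20) (nat_lit 5) (nat_lit 21) (nat_lit 5) (nat_lit 22) (nat_lit 4) (nat_lit 317) (nat_lit 258) (nat_lit 145)) (XT.lf (nat_lit 0) (nat_lit 10694331474) (nat_lit 152) (nat_lit 23389565925) (nat_lit 76) (nat_lit 37893106202) (nat_lit 19) (nat_lit 5) (nat_lit 21) (nat_lit 5) (nat_lit 20) (nat_lit 5) (nat_lit 318) (nat_lit 258) (nat_lit 144)))) (XT.nd (nat_lit 78) (nat_lit 0) (nat_lit 0) (XT.lf (nat_lit 0) (nat_lit 7083518809) (nat_lit 152) (nat_lit 16892096208) (nat_lit 228) (nat_lit 51034048509) (nat_lit 17) (nat_lit 5) (nat_lit 19) (nat_lit 5) (nat_lit 20) (nat_lit 5) (nat_lit 319) (nat_lit 258) (nat_lit 143)) (XT.nd (nat_lit 78) (nat_lit 0) (nat_lit 0) (XT.lf (nat_lit 0) (nat_lit 38168572464) (nat_lit 228) (nat_lit 38642736259) (nat_lit 76) (nat_lit 1375224426) (nat_lit 17) (nat_lit 5) (nat_lit 20)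 (nat_lit 5) (nat_lit 18) (nat_lit 4) (nat_lit 320) (nat_lit 258) (nat_lit 142)) (XT.lf (nat_lit 0) (nat_lit 53235299536) (nat_lit 228) (nat_lit 8076611694) (nat_lit 76) (nat_lit 20205416126) (nat_lit 17) (nat_lit 5) (nat_lit 20) (nat_lit 5) (nat_lit 18) (nat_lit 4) (nat_lit 321) (nat_lit 258) (nat_lit 141)))))) (XT.nd (nat_lit 390) (nat_lit 76) (nat_lit 0) (XT.nd (nat_lit 156) (nat_lit 228) (nat_lit 0) (XT.nd (nat_lit 78) (nat_lit 0) (nat_lit 0) (XT.lf (nat_lit 0) (nat_lit 24485176614) (nat_lit 76) (nat_lit 44799482113) (nat_lit 152) (nat_lit 15723128203) (nat_lit 16) (nat_lit 5) (nat_lit 17) (nat_lit 5) (nat_lit 18) (nat_lit 4) (nat_lit 322) (nat_lit 258) (nat_lit 140)) (XT.lf (nat_lit 0) (nat_lit 58833694455) (nat_lit 76) (nat_lit 27380053918) (nat_lit 152) (nat_lit 2456707547) (nat_lit 16) (nat_lit 5) (nat_lit 17) (nat_lit 5) (nat_lit 18) (nat_lit 4) (nat_lit 323) (nat_lit 258) (nat_lit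 139))) (XT.nd (nat_lit 78) (nat_lit 0) (nat_lit 0) (XT.lf (nat_lit 0) (nat_lit 2308367376) (nat_lit 152) (nat_lit 8957317380) (nat_lit 228) (nat_lit 81246773092) (nat_lit 13) (nat_lit 5) (nat_lit 15) (nat_lit 5) (nat_lit 16) (nat_lit 5) (nat_lit 324) (nat_lit 258) (nat_lit 138)) (XT.nd (nat_lit 78) (nat_lit 0) (nat_lit 0) (XT.lf (nat_lit 0) (nat_lit 26028367655) (nat_lit 228) (nat_lit 59990392212) (nat_lit 76) (nat_lit 10514924707) (nat_lit 13) (nat_lit 5) (nat_lit 16) (nat_lit 5) (nat_lit 14) (nat_lit 4) (nat_lit 325) (nat_lit 258) (nat_lit 137)) (XT.lf (nat_lit 0) (nat_lit 41614336946) (nat_lit 228) (nat_lit 28365580036) (nat_lit 76) (nat_lit 30773504701) (nat_lit 13) (nat_lit 5) (nat_lit 16) (nat_lit 5) (nat_lit 14) (nat_lit 4) (nat_lit 326) (nat_lit 258) (nat_lit 136))))) (XT.nd (nat_lit 32214) (nat_lit 0) (nat_lit 13376) (XT.nd (nat_lit 78) (nat_lit 0) (nat_lit 0) (XT.lf (nat_lit 0)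 (nat_lit 4927907665) (nat_lit 76) (nat_lit 53094061265) (nat_lit 152) (nat_lit 47160909238) (nat_lit 12) (nat_lit 5) (nat_lit 13) (nat_lit 5) (nat_lit 14) (nat_lit 4) (nat_lit 327) (nat_lit 258) (nat_lit 135)) (XT.nd (nat_lit 78) (nat_lit 0) (nat_lit 0) (XT.lf (nat_lit 0) (nat_lit 40470350776) (nat_lit 76) (nat_lit 35066781415) (nat_lit 152) (nat_lit 34288064077) (nat_lit 12) (nat_lit 5) (nat_lit 13) (nat_lit 5) (nat_lit 14) (nat_lit 4) (nat_lit 328) (nat_lit 258) (nat_lit 134)) (XT.lf (nat_lit 0) (nat_lit 77781843498) (nat_lit 76) (nat_lit 16141592079) (nat_lit 152) (nat_lit 20776336361) (nat_lit 12) (nat_lit 5) (nat_lit 13) (nat_lit 5) (nat_lit 14) (nat_lit 4) (nat_lit 329) (nat_lit 258) (nat_lit 133)))) (XT.nd (nat_lit 78) (nat_lit 0) (nat_lit 0) (XT.lf (nat_lit 0) (nat_lit 2072806780) (nat_lit 0) (nat_lit 2072806780) (nat_lit 988) (nat_lit 1242801546) (nat_lit 188) (nat_lit 5) (nat_lit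 188) (nat_lit 3) (nat_lit 201) (nat_lit 3) (nat_lit 259) (nat_lit 259) (nat_lit 202)) (XT.nd (nat_lit 78) (nat_lit 0) (nat_lit 0) (XT.lf (nat_lit 76) (nat_lit 1103836609) (nat_lit 0) (nat_lit 8334773666) (nat_lit 1064) (nat_lit 1577553395) (nat_lit 189) (nat_lit 5) (nat_lit 188) (nat_lit 5) (nat_lit 202) (nat_lit 5) (nat_lit 260) (nat_lit 259) (nat_lit 201)) (XT.lf (nat_lit 76) (nat_lit 9289877475) (nat_lit 0) (nat_lit 1405330680) (nat_lit 1064) (nat_lit 570820890) (nat_lit 189) (nat_lit 5) (nat_lit 188) (nat_lit 5) (nat_lit 202) (nat_lit 5) (nat_lit 261) (nat_lit 259) (nat_lit 200))))))))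
noncomputable def xc85 : XT := (XT.nd (nat_lit 1716) (nat_lit 4560) (nat_lit 0) (XT.nd (nat_lit 858) (nat_lit 3876) (nat_lit 0) (XT.nd (nat_lit 390) (nat_lit 2356) (nat_lit 0) (XT.nd (nat_lit 156) (nat_lit 0) (nat_lit 76) (XT.nd (nat_lit 78) (nat_lit 0) (nat_lit 76) (XT.lf (nat_lit 0) (nat_lit 540301244) (nat_lit 1064) (nat_lit 5138919702) (nat_lit 1140) (nat_lit 5847231800) (nat_lit 175) (nat_lit 5) (nat_lit 189) (nat_lit 5) (nat_lit 190) (nat_lit 5) (nat_lit 262) (nat_lit 259) (nat_lit 199)) (XT.lf (nat_lit 0) (nat_lit 1726266265) (nat_lit 1064) (nat_lit 8390184757) (nat_lit 1140) (nat_lit 1682450506) (nat_lit 176) (nat_lit 5) (nat_lit 190) (nat_lit 5) (nat_lit 191) (nat_lit 5) (nat_lit 263) (nat_lit 259) (nat_lit 198))) (XT.nd (nat_lit 78) (nat_lit 0) (nat_lit 76) (XT.lf (nat_lit 76) (nat_lit 322900700) (nat_lit 0) (nat_lit 2711724805) (nat_lit 1140) (nat_lit 9048555522) (nat_lit 177)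 (nat_lit 5) (nat_lit 176) (nat_lit 5) (nat_lit 191) (nat_lit 5) (nat_lit 264) (nat_lit 259) (nat_lit 197)) (XT.nd (nat_lit 78) (nat_lit 0) (nat_lit 76) (XT.lf (nat_lit 0) (nat_lit 4495807012) (nat_lit 1064) (nat_lit 2815689507) (nat_lit 1140) (nat_lit 5067652191) (nat_lit 177) (nat_lit 5) (nat_lit 191) (nat_lit 5) (nat_lit 192) (nat_lit 5) (nat_lit 265) (nat_lit 259) (nat_lit 196)) (XT.lf (nat_lit 0) (nat_lit 6080608903) (nat_lit 1064) (nat_lit 6048122782) (nat_lit 1140) (nat_lit 559758006) (nat_lit 178) (nat_lit 5) (nat_lit 192) (nat_lit 5) (nat_lit 193) (nat_lit 5) (nat_lit 266) (nat_lit 259) (nat_lit 195))))) (XT.nd (nat_lit 234) (nat_lit 2584) (nat_lit 0) (XT.nd (nat_lit 78) (nat_lit 0) (nat_lit 76) (XT.lf (nat_lit 76) (nat_lit 3578341797) (nat_lit 0) (nat_lit 4259612080) (nat_lit 1140) (nat_lit 5172632136) (nat_lit 179) (nat_lit 5) (nat_lit 178) (nat_lit 5) (nat_lit 193) (nat_lit 5)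 (nat_lit 267) (nat_lit 259) (nat_lit 194)) (XT.nd (nat_lit 78) (nat_lit 0) (nat_lit 0) (XT.lf (nat_lit 76) (nat_lit 400779024) (nat_lit 0) (nat_lit 9345325425) (nat_lit 1140) (nat_lit 3600877774) (nat_lit 180) (nat_lit 5) (nat_lit 179) (nat_lit 5) (nat_lit 194) (nat_lit 5) (nat_lit 268) (nat_lit 259) (nat_lit 193)) (XT.lf (nat_lit 76) (nat_lit 10846127707) (nat_lit 0) (nat_lit 1002633259) (nat_lit 1140) (nat_lit 1848543582) (nat_lit 180) (nat_lit 5) (nat_lit 179) (nat_lit 5) (nat_lit 194) (nat_lit 5) (nat_lit 269) (nat_lit 259) (nat_lit 192)))) (XT.nd (nat_lit 78) (nat_lit 1596) (nat_lit 0) (XT.lf (nat_lit 0) (nat_lit 103519686) (nat_lit 1140) (nat_lit 6269126222) (nat_lit 76) (nat_lit 7689214506) (nat_lit 165) (nat_lit 5) (nat_lit 180) (nat_lit 5) (nat_lit 166) (nat_lit 5) (nat_lit 270) (nat_lit 259) (nat_lit 191)) (XT.nd (nat_lit 78) (nat_lit 532) (nat_lit 0) (XT.lf (nat_lit 0) (nat_lit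 2185515314) (nat_lit 1140) (nat_lit 9852933240) (nat_lit 76) (nat_lit 2403599443) (nat_lit 151) (nat_lit 5) (nat_lit 166) (nat_lit 5) (nat_lit 152) (nat_lit 5) (nat_lit 271) (nat_lit 259) (nat_lit 190)) (XT.lf (nat_lit 0) (nat_lit 1208084848) (nat_lit 532) (nat_lit 3268694090) (nat_lit 608) (nat_lit 10361377448) (nat_lit 144) (nat_lit 5) (nat_lit 151) (nat_lit 5) (nat_lit 152) (nat_lit 5) (nat_lit 272) (nat_lit 259) (nat_lit 189)))))) (XT.nd (nat_lit 390) (nat_lit 2204) (nat_lit 0) (XT.nd (nat_lit 156) (nat_lit 1140) (nat_lit 0) (XT.nd (nat_lit 78) (nat_lit 532) (nat_lit 0) (XT.lf (nat_lit 0) (nat_lit 7007628943) (nat_lit 608) (nat_lit 2313766128) (nat_lit 76) (nat_lit 5928987736) (nat_lit 144) (nat_lit 5) (nat_lit 152) (nat_lit 5) (nat_lit 145) (nat_lit 5) (nat_lit 273) (nat_lit 259) (nat_lit 188)) (XT.lf (nat_lit 0) (nat_lit 9693381215) (nat_lit 532) (nat_lit 64950801) (nat_lit 608) (nat_lit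 5922149508) (nat_lit 137) (nat_lit 5) (nat_lit 144) (nat_lit 5) (nat_lit 145) (nat_lit 5) (nat_lit 274) (nat_lit 259) (nat_lit 187))) (XT.nd (nat_lit 78) (nat_lit 608) (nat_lit 0) (XT.lf (nat_lit 0) (nat_lit 6214841277) (nat_lit 532) (nat_lit 6576754121) (nat_lit 608) (nat_lit 3336196444) (nat_lit 130) (nat_lit 5) (nat_lit 137) (nat_lit 5) (nat_lit 138) (nat_lit 5) (nat_lit 275) (nat_lit 259) (nat_lit 186)) (XT.nd (nat_lit 78) (nat_lit 76) (nat_lit 0) (XT.lf (nat_lit 0) (nat_lit 2544121087) (nat_lit 532) (nat_lit 13518695698) (nat_lit 608) (nat_lit 532116734) (nat_lit 123) (nat_lit 5) (nat_lit 130) (nat_lit 5) (nat_lit 131) (nat_lit 5) (nat_lit 276) (nat_lit 259) (nat_lit 185)) (XT.lf (nat_lit 0) (nat_lit 2504984772) (nat_lit 608) (nat_lit 1372821320) (nat_lit 76) (nat_lit 13202784500) (nat_lit 122) (nat_lit 5) (nat_lit 130) (nat_lit 5) (nat_lit 123) (nat_lit 5) (nat_lit 277) (nat_lit 259)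 (nat_lit 184))))) (XT.nd (nat_lit 234) (nat_lit 912) (nat_lit 0) (XT.nd (nat_lit 78) (nat_lit 836) (nat_lit 0) (XT.lf (nat_lit 0) (nat_lit 5832831099) (nat_lit 532) (nat_lit 5507964040) (nat_lit 76) (nat_lit 6245128642) (nat_lit 116) (nat_lit 5) (nat_lit 123) (nat_lit 5) (nat_lit 117) (nat_lit 5) (nat_lit 278) (nat_lit 259) (nat_lit 183)) (XT.nd (nat_lit 78) (nat_lit 380) (nat_lit 0) (XT.lf (nat_lit 0) (nat_lit 8205115565) (nat_lit 456) (nat_lit 1227144819) (nat_lit 532) (nat_lit 8681153391) (nat_lit 110) (nat_lit 5) (nat_lit 116) (nat_lit 5) (nat_lit 117) (nat_lit 5) (nat_lit 279) (nat_lit 259) (nat_lit 182)) (XT.lf (nat_lit 0) (nat_lit 4011264653) (nat_lit 380) (nat_lit 9360394586) (nat_lit 456) (nat_lit 5290862766) (nat_lit 105) (nat_lit 5) (nat_lit 110) (nat_lit 5) (nat_lit 111) (nat_lit 5) (nat_lit 280) (nat_lit 259) (nat_lit 181)))) (XT.nd (nat_lit 78) (nat_lit 912) (nat_lit 0) (XT.lf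 (nat_lit 0) (nat_lit 17608642661) (nat_lit 456) (nat_lit 455406914) (nat_lit 76) (nat_lit 1172059234) (nat_lit 105) (nat_lit 5) (nat_lit 111) (nat_lit 5) (nat_lit 106) (nat_lit 5) (nat_lit 281) (nat_lit 259) (nat_lit 180)) (XT.nd (nat_lit 78) (nat_lit 380) (nat_lit 0) (XT.lf (nat_lit 0) (nat_lit 2388818848) (nat_lit 532) (nat_lit 5242645693) (nat_lit 76) (nat_lit 12199918301) (nat_lit 98) (nat_lit 5) (nat_lit 105) (nat_lit 5) (nat_lit 99) (nat_lit 5) (nat_lit 282) (nat_lit 259) (nat_lit 179)) (XT.lf (nat_lit 0) (nat_lit 6684016766) (nat_lit 456) (nat_lit 10395663565) (nat_lit 76) (nat_lit 3372940760) (nat_lit 93) (nat_lit 5) (nat_lit 99) (nat_lit 5) (nat_lit 94) (nat_lit 5) (nat_lit 283) (nat_lit 259) (nat_lit 178))))))) (XT.nd (nat_lit 858) (nat_lit 1900) (nat_lit 0) (XT.nd (nat_lit 390) (nat_lit 1216) (nat_lit 0) (XT.nd (nat_lit 156) (nat_lit 1064) (nat_lit 0) (XT.nd (nat_lit 78) (nat_lit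 0) (nat_lit 0) (XT.lf (nat_lit 0) (nat_lit 5122575130) (nat_lit 380) (nat_lit 6229621061) (nat_lit 456) (nat_lit 9748013303) (nat_lit 88) (nat_lit 5) (nat_lit 93) (nat_lit 5) (nat_lit 94) (nat_lit 5) (nat_lit 284) (nat_lit 259) (nat_lit 177)) (XT.lf (nat_lit 0) (nat_lit 16389705878) (nat_lit 456) (nat_lit 221154571) (nat_lit 76) (nat_lit 5165272456) (nat_lit 88) (nat_lit 5) (nat_lit 94) (nat_lit 5) (nat_lit 89) (nat_lit 5) (nat_lit 285) (nat_lit 259) (nat_lit 176))) (XT.nd (nat_lit 78) (nat_lit 760) (nat_lit 0) (XT.lf (nat_lit 0) (nat_lit 16557207327) (nat_lit 304) (nat_lit 5323174241) (nat_lit 380) (nat_lit 599463849) (nat_lit 84) (nat_lit 5) (nat_lit 88) (nat_lit 5) (nat_lit 89) (nat_lit 5) (nat_lit 286) (nat_lit 259) (nat_lit 175)) (XT.nd (nat_lit 78) (nat_lit 304) (nat_lit 0) (XT.lf (nat_lit 0) (nat_lit 4493526051) (nat_lit 456) (nat_lit 12170245421) (nat_lit 76) (nat_lit 6549132868)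 (nat_lit 78) (nat_lit 5) (nat_lit 84) (nat_lit 5) (nat_lit 79) (nat_lit 5) (nat_lit 287) (nat_lit 259) (nat_lit 174)) (XT.lf (nat_lit 0) (nat_lit 5010942245) (nat_lit 304) (nat_lit 4961848684) (nat_lit 380) (nat_lit 14005354391) (nat_lit 74) (nat_lit 5) (nat_lit 78) (nat_lit 5) (nat_lit 79) (nat_lit 5) (nat_lit 288) (nat_lit 259) (nat_lit 173))))) (XT.nd (nat_lit 234) (nat_lit 532) (nat_lit 0) (XT.nd (nat_lit 78) (nat_lit 684) (nat_lit 0) (XT.lf (nat_lit 0) (nat_lit 15904028880) (nat_lit 380) (nat_lit 1569488026) (nat_lit 76) (nat_lit 7302817687) (nat_lit 74) (nat_lit 5) (nat_lit 79) (nat_lit 5) (nat_lit 75) (nat_lit 5) (nat_lit 289) (nat_lit 259) (nat_lit 172)) (XT.nd (nat_lit 78) (nat_lit 380) (nat_lit 0) (XT.lf (nat_lit 0) (nat_lit 16954634445) (nat_lit 304) (nat_lit 5372228466) (nat_lit 380) (nat_lit 3281744671) (nat_lit 70) (nat_lit 5) (nat_lit 74) (nat_lit 5) (nat_lit 75) (nat_lit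 5) (nat_lit 290) (nat_lit 259) (nat_lit 171)) (XT.lf (nat_lit 0) (nat_lit 2705497983) (nat_lit 380) (nat_lit 16446751009) (nat_lit 76) (nat_lit 7324492333) (nat_lit 65) (nat_lit 5) (nat_lit 70) (nat_lit 5) (nat_lit 66) (nat_lit 5) (nat_lit 291) (nat_lit 259) (nat_lit 170)))) (XT.nd (nat_lit 78) (nat_lit 228) (nat_lit 0) (XT.lf (nat_lit 0) (nat_lit 2377849771) (nat_lit 304) (nat_lit 6697024934) (nat_lit 380) (nat_lit 18307935231) (nat_lit 61) (nat_lit 5) (nat_lit 65) (nat_lit 5) (nat_lit 66) (nat_lit 5) (nat_lit 292) (nat_lit 259) (nat_lit 169)) (XT.nd (nat_lit 78) (nat_lit 228) (nat_lit 0) (XT.lf (nat_lit 0) (nat_lit 15978530523) (nat_lit 380) (nat_lit 5928226503) (nat_lit 76) (nat_lit 6420971842) (nat_lit 61) (nat_lit 5) (nat_lit 66) (nat_lit 5) (nat_lit 62) (nat_lit 5) (nat_lit 293) (nat_lit 259) (nat_lit 168)) (XT.lf (nat_lit 0) (nat_lit 14291262190) (nat_lit 228) (nat_lit 9125355600)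 (nat_lit 304) (nat_lit 5897618686) (nat_lit 58) (nat_lit 5) (nat_lit 61) (nat_lit 5) (nat_lit 62) (nat_lit 5) (nat_lit 294) (nat_lit 259) (nat_lit 167)))))) (XT.nd (nat_lit 468) (nat_lit 836) (nat_lit 0) (XT.nd (nat_lit 234) (nat_lit 532) (nat_lit 0) (XT.nd (nat_lit 78) (nat_lit 228) (nat_lit 0) (XT.lf (nat_lit 0) (nat_lit 999772022) (nat_lit 304) (nat_lit 25018221375) (nat_lit 76) (nat_lit 4327631866) (nat_lit 54) (nat_lit 5) (nat_lit 58) (nat_lit 5) (nat_lit 55) (nat_lit 5) (nat_lit 295) (nat_lit 259) (nat_lit 166)) (XT.nd (nat_lit 78) (nat_lit 228) (nat_lit 0) (XT.lf (nat_lit 0) (nat_lit 8354588386) (nat_lit 304) (nat_lit 4589680337) (nat_lit 76) (nat_lit 18475544939) (nat_lit 54) (nat_lit 5) (nat_lit 58) (nat_lit 5) (nat_lit 55) (nat_lit 5) (nat_lit 296) (nat_lit 259) (nat_lit 165)) (XT.lf (nat_lit 0) (nat_lit 16237157379) (nat_lit 304) (nat_lit 15377646091) (nat_lit 76) (nat_lit 928124588)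 (nat_lit 51) (nat_lit 5) (nat_lit 55) (nat_lit 5) (nat_lit 52) (nat_lit 5) (nat_lit 297) (nat_lit 259) (nat_lit 164)))) (XT.nd (nat_lit 78) (nat_lit 304) (nat_lit 0) (XT.lf (nat_lit 0) (nat_lit 6355481034) (nat_lit 228) (nat_lit 18384069011) (nat_lit 304) (nat_lit 8975893400) (nat_lit 48) (nat_lit 5) (nat_lit 51) (nat_lit 5) (nat_lit 52) (nat_lit 5) (nat_lit 298) (nat_lit 259) (nat_lit 163)) (XT.nd (nat_lit 78) (nat_lit 304) (nat_lit 0) (XT.lf (nat_lit 0) (nat_lit 29476658635) (nat_lit 228) (nat_lit 4335404833) (nat_lit 304) (nat_lit 1130186458) (nat_lit 48) (nat_lit 5) (nat_lit 51) (nat_lit 5) (nat_lit 52) (nat_lit 5) (nat_lit 299) (nat_lit 259) (nat_lit 162)) (XT.lf (nat_lit 0) (nat_lit 7229671278) (nat_lit 304) (nat_lit 18543135820) (nat_lit 76) (nat_lit 10447737166) (nat_lit 44) (nat_lit 5) (nat_lit 48) (nat_lit 5) (nat_lit 45) (nat_lit 5) (nat_lit 300) (nat_lit 259) (nat_lit 161)))))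 (XT.nd (nat_lit 234) (nat_lit 456) (nat_lit 0) (XT.nd (nat_lit 78) (nat_lit 152) (nat_lit 0) (XT.lf (nat_lit 0) (nat_lit 4544623230) (nat_lit 228) (nat_lit 11571570599) (nat_lit 304) (nat_lit 21442275939) (nat_lit 41) (nat_lit 5) (nat_lit 44) (nat_lit 5) (nat_lit 45) (nat_lit 5) (nat_lit 301) (nat_lit 259) (nat_lit 160)) (XT.nd (nat_lit 78) (nat_lit 152) (nat_lit 0) (XT.lf (nat_lit 0) (nat_lit 25659837447) (nat_lit 304) (nat_lit 9836100273) (nat_lit 76) (nat_lit 3460982858) (nat_lit 41) (nat_lit 5) (nat_lit 45) (nat_lit 5) (nat_lit 42) (nat_lit 5) (nat_lit 302) (nat_lit 259) (nat_lit 159)) (XT.lf (nat_lit 0) (nat_lit 14651733339) (nat_lit 152) (nat_lit 21275057672) (nat_lit 228) (nat_lit 4491131354) (nat_lit 39) (nat_lit 5) (nat_lit 41) (nat_lit 5) (nat_lit 42) (nat_lit 5) (nat_lit 303) (nat_lit 259) (nat_lit 158)))) (XT.nd (nat_lit 78) (nat_lit 380) (nat_lit 0) (XT.lf (nat_lit 0) (nat_lit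 4753335824) (nat_lit 228) (nat_lit 1443779170) (nat_lit 76) (nat_lit 35750769097) (nat_lit 38) (nat_lit 5) (nat_lit 41) (nat_lit 5) (nat_lit 39) (nat_lit 5) (nat_lit 304) (nat_lit 259) (nat_lit 157)) (XT.nd (nat_lit 78) (nat_lit 152) (nat_lit 0) (XT.lf (nat_lit 0) (nat_lit 14688244793) (nat_lit 304) (nat_lit 19130663706) (nat_lit 76) (nat_lit 9724479150) (nat_lit 35) (nat_lit 5) (nat_lit 39) (nat_lit 5) (nat_lit 36) (nat_lit 5) (nat_lit 305) (nat_lit 259) (nat_lit 156)) (XT.lf (nat_lit 0) (nat_lit 6420005954) (nat_lit 152) (nat_lit 18828747446) (nat_lit 228) (nat_lit 19966057648) (nat_lit 33) (nat_lit 5) (nat_lit 35) (nat_lit 5) (nat_lit 36) (nat_lit 5) (nat_lit 306) (nat_lit 259) (nat_lit 155))))))))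
noncomputable def xc86 : XT := (XT.nd (nat_lit 1716) (nat_lit 0) (nat_lit 0) (XT.nd (nat_lit 858) (nat_lit 684) (nat_lit 0) (XT.nd (nat_lit 390) (nat_lit 532) (nat_lit 0) (XT.nd (nat_lit 156) (nat_lit 228) (nat_lit 0) (XT.nd (nat_lit 78) (nat_lit 152) (nat_lit 0) (XT.lf (nat_lit 0) (nat_lit 33631881113) (nat_lit 152) (nat_lit 2892263503) (nat_lit 228) (nat_lit 10440065084) (nat_lit 33) (nat_lit 5) (nat_lit 35) (nat_lit 5) (nat_lit 36) (nat_lit 5) (nat_lit 307) (nat_lit 259) (nat_lit 154)) (XT.lf (nat_lit 0) (nat_lit 13518438739) (nat_lit 152) (nat_lit 35098211264) (nat_lit 228) (nat_lit 176837275) (nat_lit 31) (nat_lit 5) (nat_lit 33) (nat_lit 5) (nat_lit 34) (nat_lit 5) (nat_lit 308) (nat_lit 259) (nat_lit 153))) (XT.nd (nat_lit 78) (nat_lit 152) (nat_lit 0) (XT.lf (nat_lit 0) (nat_lit 10551073719) (nat_lit 228) (nat_lit 8867528848) (nat_lit 76) (nat_lit 31287827397) (nat_lit 30) (nat_lit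 5) (nat_lit 33) (nat_lit 5) (nat_lit 31) (nat_lit 5) (nat_lit 309) (nat_lit 259) (nat_lit 152)) (XT.nd (nat_lit 78) (nat_lit 0) (nat_lit 0) (XT.lf (nat_lit 0) (nat_lit 19219016305) (nat_lit 152) (nat_lit 2768496583) (nat_lit 228) (nat_lit 30722188893) (nat_lit 28) (nat_lit 5) (nat_lit 30) (nat_lit 5) (nat_lit 31) (nat_lit 5) (nat_lit 310) (nat_lit 259) (nat_lit 151)) (XT.lf (nat_lit 0) (nat_lit 34220652272) (nat_lit 228) (nat_lit 6071945059) (nat_lit 76) (nat_lit 14513801336) (nat_lit 28) (nat_lit 5) (nat_lit 31) (nat_lit 5) (nat_lit 29) (nat_lit 5) (nat_lit 311) (nat_lit 259) (nat_lit 150))))) (XT.nd (nat_lit 234) (nat_lit 152) (nat_lit 0) (XT.nd (nat_lit 78) (nat_lit 228) (nat_lit 0) (XT.lf (nat_lit 0) (nat_lit 23127377718) (nat_lit 152) (nat_lit 24179995185) (nat_lit 228) (nat_lit 9693307221) (nat_lit 26) (nat_lit 5) (nat_lit 28) (nat_lit 5) (nat_lit 29) (nat_lit 5) (nat_lit 312) (nat_lit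 259) (nat_lit 149)) (XT.nd (nat_lit 78) (nat_lit 152) (nat_lit 0) (XT.lf (nat_lit 0) (nat_lit 1764699850) (nat_lit 228) (nat_lit 5420115078) (nat_lit 76) (nat_lit 52117715569) (nat_lit 25) (nat_lit 5) (nat_lit 28) (nat_lit 5) (nat_lit 26) (nat_lit 5) (nat_lit 313) (nat_lit 259) (nat_lit 148)) (XT.lf (nat_lit 0) (nat_lit 13933666791) (nat_lit 228) (nat_lit 36985807010) (nat_lit 76) (nat_lit 10786970992) (nat_lit 23) (nat_lit 5) (nat_lit 26) (nat_lit 5) (nat_lit 24) (nat_lit 5) (nat_lit 314) (nat_lit 259) (nat_lit 147)))) (XT.nd (nat_lit 78) (nat_lit 152) (nat_lit 0) (XT.lf (nat_lit 0) (nat_lit 26832386772) (nat_lit 228) (nat_lit 7832918407) (nat_lit 76) (nat_lit 29561616737) (nat_lit 23) (nat_lit 5) (nat_lit 26) (nat_lit 5) (nat_lit 24) (nat_lit 5) (nat_lit 315) (nat_lit 259) (nat_lit 146)) (XT.nd (nat_lit 78) (nat_lit 0) (nat_lit 0) (XT.lf (nat_lit 0) (nat_lit 23218637000) (nat_lit 152)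 (nat_lit 17373396431) (nat_lit 228) (nat_lit 26274915696) (nat_lit 21) (nat_lit 5) (nat_lit 23) (nat_lit 5) (nat_lit 24) (nat_lit 5) (nat_lit 316) (nat_lit 259) (nat_lit 145)) (XT.lf (nat_lit 0) (nat_lit 55121605163) (nat_lit 228) (nat_lit 13670310113) (nat_lit 76) (nat_lit 844609811) (nat_lit 21) (nat_lit 5) (nat_lit 24) (nat_lit 5) (nat_lit 22) (nat_lit 4) (nat_lit 317) (nat_lit 259) (nat_lit 144)))))) (XT.nd (nat_lit 390) (nat_lit 380) (nat_lit 0) (XT.nd (nat_lit 156) (nat_lit 152) (nat_lit 0) (XT.nd (nat_lit 78) (nat_lit 76) (nat_lit 0) (XT.lf (nat_lit 0) (nat_lit 17970594384) (nat_lit 76) (nat_lit 52748477154) (nat_lit 152) (nat_lit 1815271225) (nat_lit 20) (nat_lit 5) (nat_lit 21) (nat_lit 5) (nat_lit 22) (nat_lit 4) (nat_lit 318) (nat_lit 259) (nat_lit 143)) (XT.lf (nat_lit 0) (nat_lit 11430154054) (nat_lit 152) (nat_lit 24216866203) (nat_lit 76) (nat_lit 39922646774) (nat_lit 19)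 (nat_lit 5) (nat_lit 21) (nat_lit 5) (nat_lit 20) (nat_lit 5) (nat_lit 319) (nat_lit 259) (nat_lit 142))) (XT.nd (nat_lit 78) (nat_lit 0) (nat_lit 0) (XT.lf (nat_lit 0) (nat_lit 7770064303) (nat_lit 152) (nat_lit 17599055935) (nat_lit 228) (nat_lit 53385038474) (nat_lit 17) (nat_lit 5) (nat_lit 19) (nat_lit 5) (nat_lit 20) (nat_lit 5) (nat_lit 320) (nat_lit 259) (nat_lit 141)) (XT.nd (nat_lit 78) (nat_lit 0) (nat_lit 0) (XT.lf (nat_lit 0) (nat_lit 40263713086) (nat_lit 228) (nat_lit 40253887915) (nat_lit 76) (nat_lit 1572518154) (nat_lit 17) (nat_lit 5) (nat_lit 20) (nat_lit 5) (nat_lit 18) (nat_lit 4) (nat_lit 321) (nat_lit 259) (nat_lit 140)) (XT.lf (nat_lit 0) (nat_lit 56074885464) (nat_lit 228) (nat_lit 8174742129) (nat_lit 76) (nat_lit 21338098844) (nat_lit 17) (nat_lit 5) (nat_lit 20) (nat_lit 5) (nat_lit 18) (nat_lit 4) (nat_lit 322) (nat_lit 259) (nat_lit 139))))) (XT.nd (nat_lit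 234) (nat_lit 76) (nat_lit 0) (XT.nd (nat_lit 78) (nat_lit 228) (nat_lit 0) (XT.lf (nat_lit 0) (nat_lit 26006372761) (nat_lit 76) (nat_lit 46914726532) (nat_lit 152) (nat_lit 16331784413) (nat_lit 16) (nat_lit 5) (nat_lit 17) (nat_lit 5) (nat_lit 18) (nat_lit 4) (nat_lit 323) (nat_lit 259) (nat_lit 138)) (XT.nd (nat_lit 78) (nat_lit 228) (nat_lit 0) (XT.lf (nat_lit 0) (nat_lit 62058176622) (nat_lit 76) (nat_lit 28630266436) (nat_lit 152) (nat_lit 2410495115) (nat_lit 16) (nat_lit 5) (nat_lit 17) (nat_lit 5) (nat_lit 18) (nat_lit 4) (nat_lit 324) (nat_lit 259) (nat_lit 137)) (XT.lf (nat_lit 0) (nat_lit 2701794503) (nat_lit 152) (nat_lit 9287703146) (nat_lit 228) (nat_lit 85143655975) (nat_lit 13) (nat_lit 5) (nat_lit 15) (nat_lit 5) (nat_lit 16) (nat_lit 5) (nat_lit 325) (nat_lit 259) (nat_lit 136)))) (XT.nd (nat_lit 78) (nat_lit 76) (nat_lit 0) (XT.lf (nat_lit 0) (nat_lit 27483745986) (nat_lit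 228) (nat_lit 62721524598) (nat_lit 76) (nat_lit 11150373459) (nat_lit 13) (nat_lit 5) (nat_lit 16) (nat_lit 5) (nat_lit 14) (nat_lit 4) (nat_lit 326) (nat_lit 259) (nat_lit 135)) (XT.nd (nat_lit 78) (nat_lit 76) (nat_lit 0) (XT.lf (nat_lit 0) (nat_lit 43841682316) (nat_lit 228) (nat_lit 29528252158) (nat_lit 76) (nat_lit 32416658524) (nat_lit 13) (nat_lit 5) (nat_lit 16) (nat_lit 5) (nat_lit 14) (nat_lit 4) (nat_lit 327) (nat_lit 259) (nat_lit 134)) (XT.lf (nat_lit 0) (nat_lit 5422583008) (nat_lit 76) (nat_lit 55642517199) (nat_lit 152) (nat_lit 49372564776) (nat_lit 12) (nat_lit 5) (nat_lit 13) (nat_lit 5) (nat_lit 14) (nat_lit 4) (nat_lit 328) (nat_lit 259) (nat_lit 133))))))) (XT.nd (nat_lit 32916) (nat_lit 0) (nat_lit 7448) (XT.nd (nat_lit 32448) (nat_lit 0) (nat_lit 12464) (XT.nd (nat_lit 32214) (nat_lit 0) (nat_lit 12312) (XT.nd (nat_lit 32136) (nat_lit 0) (nat_lit 13376) (XT.lf (nat_lit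 0) (nat_lit 42730325420) (nat_lit 76) (nat_lit 36718932744) (nat_lit 152) (nat_lit 35863048305) (nat_lit 12) (nat_lit 5) (nat_lit 13) (nat_lit 5) (nat_lit 14) (nat_lit 4) (nat_lit 329) (nat_lit 259) (nat_lit 132)) (XT.lf (nat_lit 0) (nat_lit 2621049344) (nat_lit 0) (nat_lit 2621049344) (nat_lit 988) (nat_lit 387206234) (nat_lit 188) (nat_lit 5) (nat_lit 188) (nat_lit 3) (nat_lit 201) (nat_lit 3) (nat_lit 260) (nat_lit 260) (nat_lit 200))) (XT.nd (nat_lit 78) (nat_lit 0) (nat_lit 0) (XT.lf (nat_lit 0) (nat_lit 90630471) (nat_lit 1064) (nat_lit 9427019700) (nat_lit 1140) (nat_lit 1994927138) (nat_lit 174) (nat_lit 5) (nat_lit 188) (nat_lit 5) (nat_lit 189) (nat_lit 5) (nat_lit 261) (nat_lit 260) (nat_lit 199)) (XT.nd (nat_lit 78) (nat_lit 0) (nat_lit 76) (XT.lf (nat_lit 0) (nat_lit 1045418156) (nat_lit 1064) (nat_lit 1150149062) (nat_lit 1140) (nat_lit 9581676861) (nat_lit 174) (nat_lit 5)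 (nat_lit 188) (nat_lit 5) (nat_lit 189) (nat_lit 5) (nat_lit 262) (nat_lit 260) (nat_lit 198)) (XT.lf (nat_lit 0) (nat_lit 2124764044) (nat_lit 1064) (nat_lit 4446681277) (nat_lit 1140) (nat_lit 5481495459) (nat_lit 175) (nat_lit 5) (nat_lit 189) (nat_lit 5) (nat_lit 190) (nat_lit 5) (nat_lit 263) (nat_lit 260) (nat_lit 197))))) (XT.nd (nat_lit 234) (nat_lit 0) (nat_lit 152) (XT.nd (nat_lit 78) (nat_lit 0) (nat_lit 0) (XT.lf (nat_lit 0) (nat_lit 3299244916) (nat_lit 1064) (nat_lit 7834509538) (nat_lit 1140) (nat_lit 1207529170) (nat_lit 176) (nat_lit 5) (nat_lit 190) (nat_lit 5) (nat_lit 191) (nat_lit 5) (nat_lit 264) (nat_lit 260) (nat_lit 196)) (XT.nd (nat_lit 78) (nat_lit 0) (nat_lit 76) (XT.lf (nat_lit 76) (nat_lit 1286276724) (nat_lit 0) (nat_lit 3325057169) (nat_lit 1140) (nat_lit 8030434947) (nat_lit 177) (nat_lit 5) (nat_lit 176) (nat_lit 5) (nat_lit 191) (nat_lit 5) (nat_lit 265)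 (nat_lit 260) (nat_lit 195)) (XT.lf (nat_lit 0) (nat_lit 6073344721) (nat_lit 1064) (nat_lit 2006574349) (nat_lit 1140) (nat_lit 4874917109) (nat_lit 177) (nat_lit 5) (nat_lit 191) (nat_lit 5) (nat_lit 192) (nat_lit 5) (nat_lit 266) (nat_lit 260) (nat_lit 194)))) (XT.nd (nat_lit 78) (nat_lit 0) (nat_lit 0) (XT.lf (nat_lit 0) (nat_lit 7678239239) (nat_lit 1064) (nat_lit 5382782197) (nat_lit 1140) (nat_lit 220525175) (nat_lit 178) (nat_lit 5) (nat_lit 192) (nat_lit 5) (nat_lit 193) (nat_lit 5) (nat_lit 267) (nat_lit 260) (nat_lit 193)) (XT.nd (nat_lit 78) (nat_lit 0) (nat_lit 76) (XT.lf (nat_lit 76) (nat_lit 4697265346) (nat_lit 0) (nat_lit 4773622038) (nat_lit 1140) (nat_lit 4150559171) (nat_lit 179) (nat_lit 5) (nat_lit 178) (nat_lit 5) (nat_lit 193) (nat_lit 5) (nat_lit 268) (nat_lit 260) (nat_lit 192)) (XT.lf (nat_lit 76) (nat_lit 1375221731) (nat_lit 0) (nat_lit 10046545239) (nat_lit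 1140) (nat_lit 2554592041) (nat_lit 180) (nat_lit 5) (nat_lit 179) (nat_lit 5) (nat_lit 194) (nat_lit 5) (nat_lit 269) (nat_lit 260) (nat_lit 191)))))) (XT.nd (nat_lit 390) (nat_lit 2584) (nat_lit 0) (XT.nd (nat_lit 156) (nat_lit 1596) (nat_lit 0) (XT.nd (nat_lit 78) (nat_lit 1064) (nat_lit 0) (XT.lf (nat_lit 76) (nat_lit 12297390050) (nat_lit 0) (nat_lit 1275577820) (nat_lit 1140) (nat_lit 773037789) (nat_lit 180) (nat_lit 5) (nat_lit 179) (nat_lit 5) (nat_lit 194) (nat_lit 5) (nat_lit 270) (nat_lit 260) (nat_lit 190)) (XT.lf (nat_lit 0) (nat_lit 1206179674) (nat_lit 1140) (nat_lit 5638587202) (nat_lit 76) (nat_lit 7885217607) (nat_lit 165) (nat_lit 5) (nat_lit 180) (nat_lit 5) (nat_lit 166) (nat_lit 5) (nat_lit 271) (nat_lit 260) (nat_lit 189))) (XT.nd (nat_lit 78) (nat_lit 532) (nat_lit 0) (XT.lf (nat_lit 0) (nat_lit 3347510190) (nat_lit 1140) (nat_lit 9393757922) (nat_lit 76) (nat_lit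 2389353636) (nat_lit 151) (nat_lit 5) (nat_lit 166) (nat_lit 5) (nat_lit 152) (nat_lit 5) (nat_lit 272) (nat_lit 260) (nat_lit 188)) (XT.nd (nat_lit 78) (nat_lit 0) (nat_lit 0) (XT.lf (nat_lit 0) (nat_lit 2193027285) (nat_lit 532) (nat_lit 3519067456) (nat_lit 608) (nat_lit 9835770802) (nat_lit 144) (nat_lit 5) (nat_lit 151) (nat_lit 5) (nat_lit 152) (nat_lit 5) (nat_lit 273) (nat_lit 260) (nat_lit 187)) (XT.lf (nat_lit 0) (nat_lit 8320525769) (nat_lit 608) (nat_lit 1517480563) (nat_lit 76) (nat_lit 6144254099) (nat_lit 144) (nat_lit 5) (nat_lit 152) (nat_lit 5) (nat_lit 145) (nat_lit 5) (nat_lit 274) (nat_lit 260) (nat_lit 186))))) (XT.nd (nat_lit 234) (nat_lit 912) (nat_lit 0) (XT.nd (nat_lit 78) (nat_lit 1140) (nat_lit 0) (XT.lf (nat_lit 0) (nat_lit 11063882599) (nat_lit 532) (nat_lit 107562493) (nat_lit 608) (nat_lit 5263622656) (nat_lit 137) (nat_lit 5) (nat_lit 144) (nat_lit 5) (nat_lit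 145) (nat_lit 5) (nat_lit 275) (nat_lit 260) (nat_lit 185)) (XT.nd (nat_lit 78) (nat_lit 608) (nat_lit 0) (XT.lf (nat_lit 0) (nat_lit 7414985027) (nat_lit 532) (nat_lit 6905518741) (nat_lit 608) (nat_lit 2585395944) (nat_lit 130) (nat_lit 5) (nat_lit 137) (nat_lit 5) (nat_lit 138) (nat_lit 5) (nat_lit 276) (nat_lit 260) (nat_lit 184)) (XT.lf (nat_lit 0) (nat_lit 317695468) (nat_lit 608) (nat_lit 13837898153) (nat_lit 76) (nat_lit 3241801087) (nat_lit 122) (nat_lit 5) (nat_lit 130) (nat_lit 5) (nat_lit 123) (nat_lit 5) (nat_lit 277) (nat_lit 260) (nat_lit 183)))) (XT.nd (nat_lit 78) (nat_lit 912) (nat_lit 0) (XT.lf (nat_lit 0) (nat_lit 3454534343) (nat_lit 608) (nat_lit 574715606) (nat_lit 76) (nat_lit 13879230543) (nat_lit 122) (nat_lit 5) (nat_lit 130) (nat_lit 5) (nat_lit 123) (nat_lit 5) (nat_lit 278) (nat_lit 260) (nat_lit 182)) (XT.nd (nat_lit 78) (nat_lit 456) (nat_lit 0) (XT.lf (nat_lit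 0) (nat_lit 6918082182) (nat_lit 532) (nat_lit 4916791633) (nat_lit 76) (nat_lit 6605194422) (nat_lit 116) (nat_lit 5) (nat_lit 123) (nat_lit 5) (nat_lit 117) (nat_lit 5) (nat_lit 279) (nat_lit 260) (nat_lit 181)) (XT.lf (nat_lit 0) (nat_lit 9457101880) (nat_lit 456) (nat_lit 1210681350) (nat_lit 532) (nat_lit 8327104464) (nat_lit 110) (nat_lit 5) (nat_lit 116) (nat_lit 5) (nat_lit 117) (nat_lit 5) (nat_lit 280) (nat_lit 260) (nat_lit 180))))))))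
noncomputable def xc87 : XT := (XT.nd (nat_lit 1716) (nat_lit 1900) (nat_lit 0) (XT.nd (nat_lit 858) (nat_lit 2204) (nat_lit 0) (XT.nd (nat_lit 390) (nat_lit 1368) (nat_lit 0) (XT.nd (nat_lit 156) (nat_lit 836) (nat_lit 0) (XT.nd (nat_lit 78) (nat_lit 456) (nat_lit 0) (XT.lf (nat_lit 0) (nat_lit 5052206941) (nat_lit 380) (nat_lit 9724359105) (nat_lit 456) (nat_lit 4795773798) (nat_lit 105) (nat_lit 5) (nat_lit 110) (nat_lit 5) (nat_lit 111) (nat_lit 5) (nat_lit 281) (nat_lit 260) (nat_lit 179)) (XT.lf (nat_lit 0) (nat_lit 350264398) (nat_lit 456) (nat_lit 18844390768) (nat_lit 532) (nat_lit 980931152) (nat_lit 99) (nat_lit 5) (nat_lit 105) (nat_lit 5) (nat_lit 106) (nat_lit 5) (nat_lit 282) (nat_lit 260) (nat_lit 178))) (XT.nd (nat_lit 78) (nat_lit 760) (nat_lit 0) (XT.lf (nat_lit 0) (nat_lit 3192487047) (nat_lit 532) (nat_lit 4692031903) (nat_lit 76) (nat_lit 12916833152) (nat_lit 98) (nat_lit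 5) (nat_lit 105) (nat_lit 5) (nat_lit 99) (nat_lit 5) (nat_lit 283) (nat_lit 260) (nat_lit 177)) (XT.nd (nat_lit 78) (nat_lit 380) (nat_lit 0) (XT.lf (nat_lit 0) (nat_lit 7678702984) (nat_lit 456) (nat_lit 10106450603) (nat_lit 76) (nat_lit 3669262031) (nat_lit 93) (nat_lit 5) (nat_lit 99) (nat_lit 5) (nat_lit 94) (nat_lit 5) (nat_lit 284) (nat_lit 260) (nat_lit 176)) (XT.lf (nat_lit 0) (nat_lit 6164510315) (nat_lit 380) (nat_lit 6391883032) (nat_lit 456) (nat_lit 9578755699) (nat_lit 88) (nat_lit 5) (nat_lit 93) (nat_lit 5) (nat_lit 94) (nat_lit 5) (nat_lit 285) (nat_lit 260) (nat_lit 175))))) (XT.nd (nat_lit 234) (nat_lit 608) (nat_lit 0) (XT.nd (nat_lit 78) (nat_lit 456) (nat_lit 0) (XT.lf (nat_lit 0) (nat_lit 544549990) (nat_lit 304) (nat_lit 17277515474) (nat_lit 380) (nat_lit 5023560904) (nat_lit 84) (nat_lit 5) (nat_lit 88) (nat_lit 5) (nat_lit 89) (nat_lit 5) (nat_lit 286) (nat_lit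 260) (nat_lit 174)) (XT.nd (nat_lit 78) (nat_lit 456) (nat_lit 0) (XT.lf (nat_lit 0) (nat_lit 18129242713) (nat_lit 304) (nat_lit 5431015918) (nat_lit 380) (nat_lit 25120504) (nat_lit 84) (nat_lit 5) (nat_lit 88) (nat_lit 5) (nat_lit 89) (nat_lit 5) (nat_lit 287) (nat_lit 260) (nat_lit 173)) (XT.lf (nat_lit 0) (nat_lit 5291151700) (nat_lit 456) (nat_lit 12027243973) (nat_lit 76) (nat_lit 7037149119) (nat_lit 78) (nat_lit 5) (nat_lit 84) (nat_lit 5) (nat_lit 79) (nat_lit 5) (nat_lit 288) (nat_lit 260) (nat_lit 172)))) (XT.nd (nat_lit 78) (nat_lit 304) (nat_lit 0) (XT.lf (nat_lit 0) (nat_lit 5991461086) (nat_lit 304) (nat_lit 5032652367) (nat_lit 380) (nat_lit 14135581228) (nat_lit 74) (nat_lit 5) (nat_lit 78) (nat_lit 5) (nat_lit 79) (nat_lit 5) (nat_lit 289) (nat_lit 260) (nat_lit 171)) (XT.nd (nat_lit 78) (nat_lit 304) (nat_lit 0) (XT.lf (nat_lit 0) (nat_lit 17227218121) (nat_lit 380) (nat_lit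 937842974) (nat_lit 76) (nat_lit 7833510199) (nat_lit 74) (nat_lit 5) (nat_lit 79) (nat_lit 5) (nat_lit 75) (nat_lit 5) (nat_lit 290) (nat_lit 260) (nat_lit 170)) (XT.lf (nat_lit 0) (nat_lit 18492130190) (nat_lit 304) (nat_lit 5460551821) (nat_lit 380) (nat_lit 2920366533) (nat_lit 70) (nat_lit 5) (nat_lit 74) (nat_lit 5) (nat_lit 75) (nat_lit 5) (nat_lit 291) (nat_lit 260) (nat_lit 169)))))) (XT.nd (nat_lit 390) (nat_lit 988) (nat_lit 0) (XT.nd (nat_lit 156) (nat_lit 532) (nat_lit 0) (XT.nd (nat_lit 78) (nat_lit 304) (nat_lit 0) (XT.lf (nat_lit 0) (nat_lit 3339756070) (nat_lit 380) (nat_lit 16574666019) (nat_lit 76) (nat_lit 7870534807) (nat_lit 65) (nat_lit 5) (nat_lit 70) (nat_lit 5) (nat_lit 66) (nat_lit 5) (nat_lit 292) (nat_lit 260) (nat_lit 168)) (XT.lf (nat_lit 0) (nat_lit 3171259318) (nat_lit 304) (nat_lit 6839065076) (nat_lit 380) (nat_lit 18726553907) (nat_lit 61) (nat_lit 5)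 (nat_lit 65) (nat_lit 5) (nat_lit 66) (nat_lit 5) (nat_lit 293) (nat_lit 260) (nat_lit 167))) (XT.nd (nat_lit 78) (nat_lit 532) (nat_lit 0) (XT.lf (nat_lit 0) (nat_lit 17237989784) (nat_lit 380) (nat_lit 5569651378) (nat_lit 76) (nat_lit 6922066783) (nat_lit 61) (nat_lit 5) (nat_lit 66) (nat_lit 5) (nat_lit 62) (nat_lit 5) (nat_lit 294) (nat_lit 260) (nat_lit 166)) (XT.nd (nat_lit 78) (nat_lit 304) (nat_lit 0) (XT.lf (nat_lit 0) (nat_lit 15642036694) (nat_lit 228) (nat_lit 9390130244) (nat_lit 304) (nat_lit 5733876591) (nat_lit 58) (nat_lit 5) (nat_lit 61) (nat_lit 5) (nat_lit 62) (nat_lit 5) (nat_lit 295) (nat_lit 260) (nat_lit 165)) (XT.lf (nat_lit 0) (nat_lit 1485904608) (nat_lit 304) (nat_lit 25630238813) (nat_lit 76) (nat_lit 4733158006) (nat_lit 54) (nat_lit 5) (nat_lit 58) (nat_lit 5) (nat_lit 55) (nat_lit 5) (nat_lit 296) (nat_lit 260) (nat_lit 164))))) (XT.nd (nat_lit 234) (nat_lit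 532) (nat_lit 0) (XT.nd (nat_lit 78) (nat_lit 456) (nat_lit 0) (XT.lf (nat_lit 0) (nat_lit 9187693029) (nat_lit 304) (nat_lit 4210694229) (nat_lit 76) (nat_lit 19579459849) (nat_lit 54) (nat_lit 5) (nat_lit 58) (nat_lit 5) (nat_lit 55) (nat_lit 5) (nat_lit 297) (nat_lit 260) (nat_lit 163)) (XT.nd (nat_lit 78) (nat_lit 228) (nat_lit 0) (XT.lf (nat_lit 0) (nat_lit 17452116036) (nat_lit 304) (nat_lit 15544813289) (nat_lit 76) (nat_lit 1160579751) (nat_lit 51) (nat_lit 5) (nat_lit 55) (nat_lit 5) (nat_lit 52) (nat_lit 5) (nat_lit 298) (nat_lit 260) (nat_lit 162)) (XT.lf (nat_lit 0) (nat_lit 7257722149) (nat_lit 228) (nat_lit 19108329165) (nat_lit 304) (nat_lit 9023028722) (nat_lit 48) (nat_lit 5) (nat_lit 51) (nat_lit 5) (nat_lit 52) (nat_lit 5) (nat_lit 299) (nat_lit 260) (nat_lit 161)))) (XT.nd (nat_lit 78) (nat_lit 532) (nat_lit 0) (XT.lf (nat_lit 0) (nat_lit 31507126866) (nat_lit 228) (nat_lit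 4366514792) (nat_lit 304) (nat_lit 804163068) (nat_lit 48) (nat_lit 5) (nat_lit 51) (nat_lit 5) (nat_lit 52) (nat_lit 5) (nat_lit 300) (nat_lit 260) (nat_lit 160)) (XT.nd (nat_lit 78) (nat_lit 228) (nat_lit 0) (XT.lf (nat_lit 0) (nat_lit 7955420057) (nat_lit 304) (nat_lit 18912474525) (nat_lit 76) (nat_lit 11152352780) (nat_lit 44) (nat_lit 5) (nat_lit 48) (nat_lit 5) (nat_lit 45) (nat_lit 5) (nat_lit 301) (nat_lit 260) (nat_lit 159)) (XT.lf (nat_lit 0) (nat_lit 5313682734) (nat_lit 228) (nat_lit 11960448423) (nat_lit 304) (nat_lit 22151320975) (nat_lit 41) (nat_lit 5) (nat_lit 44) (nat_lit 5) (nat_lit 45) (nat_lit 5) (nat_lit 302) (nat_lit 260) (nat_lit 158))))))) (XT.nd (nat_lit 858) (nat_lit 760) (nat_lit 0) (XT.nd (nat_lit 390) (nat_lit 532) (nat_lit 0) (XT.nd (nat_lit 156) (nat_lit 456) (nat_lit 0) (XT.nd (nat_lit 78) (nat_lit 152) (nat_lit 0) (XT.lf (nat_lit 0) (nat_lit 27279925659)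 (nat_lit 304) (nat_lit 9803194861) (nat_lit 76) (nat_lit 3811173869) (nat_lit 41) (nat_lit 5) (nat_lit 45) (nat_lit 5) (nat_lit 42) (nat_lit 5) (nat_lit 303) (nat_lit 260) (nat_lit 157)) (XT.lf (nat_lit 0) (nat_lit 15893989713) (nat_lit 152) (nat_lit 22155084238) (nat_lit 228) (nat_lit 4379624013) (nat_lit 39) (nat_lit 5) (nat_lit 41) (nat_lit 5) (nat_lit 42) (nat_lit 5) (nat_lit 304) (nat_lit 260) (nat_lit 156))) (XT.nd (nat_lit 78) (nat_lit 380) (nat_lit 0) (XT.lf (nat_lit 0) (nat_lit 5304817941) (nat_lit 228) (nat_lit 1024006438) (nat_lit 76) (nat_lit 37706723028) (nat_lit 38) (nat_lit 5) (nat_lit 41) (nat_lit 5) (nat_lit 39) (nat_lit 5) (nat_lit 305) (nat_lit 260) (nat_lit 155)) (XT.nd (nat_lit 78) (nat_lit 152) (nat_lit 0) (XT.lf (nat_lit 0) (nat_lit 15727798638) (nat_lit 304) (nat_lit 19601608254) (nat_lit 76) (nat_lit 10381694531) (nat_lit 35) (nat_lit 5) (nat_lit 39) (nat_lit 5)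 (nat_lit 36) (nat_lit 5) (nat_lit 306) (nat_lit 260) (nat_lit 154)) (XT.lf (nat_lit 0) (nat_lit 7212675588) (nat_lit 152) (nat_lit 19593660509) (nat_lit 228) (nat_lit 20660074143) (nat_lit 33) (nat_lit 5) (nat_lit 35) (nat_lit 5) (nat_lit 36) (nat_lit 5) (nat_lit 307) (nat_lit 260) (nat_lit 153))))) (XT.nd (nat_lit 234) (nat_lit 304) (nat_lit 0) (XT.nd (nat_lit 78) (nat_lit 228) (nat_lit 0) (XT.lf (nat_lit 0) (nat_lit 35762684060) (nat_lit 152) (nat_lit 2868758287) (nat_lit 228) (nat_lit 10672271779) (nat_lit 33) (nat_lit 5) (nat_lit 35) (nat_lit 5) (nat_lit 36) (nat_lit 5) (nat_lit 308) (nat_lit 260) (nat_lit 152)) (XT.nd (nat_lit 78) (nat_lit 0) (nat_lit 0) (XT.lf (nat_lit 0) (nat_lit 94412179) (nat_lit 228) (nat_lit 36588041928) (nat_lit 76) (nat_lit 14542214295) (nat_lit 30) (nat_lit 5) (nat_lit 33) (nat_lit 5) (nat_lit 31) (nat_lit 5) (nat_lit 309) (nat_lit 260) (nat_lit 151)) (XT.lf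 (nat_lit 0) (nat_lit 11341930310) (nat_lit 228) (nat_lit 8883310836) (nat_lit 76) (nat_lit 33008370521) (nat_lit 30) (nat_lit 5) (nat_lit 33) (nat_lit 5) (nat_lit 31) (nat_lit 5) (nat_lit 310) (nat_lit 260) (nat_lit 150)))) (XT.nd (nat_lit 78) (nat_lit 152) (nat_lit 0) (XT.lf (nat_lit 0) (nat_lit 20595304666) (nat_lit 152) (nat_lit 2746341017) (nat_lit 228) (nat_lit 31995669227) (nat_lit 28) (nat_lit 5) (nat_lit 30) (nat_lit 5) (nat_lit 31) (nat_lit 5) (nat_lit 311) (nat_lit 260) (nat_lit 149)) (XT.nd (nat_lit 78) (nat_lit 152) (nat_lit 0) (XT.lf (nat_lit 0) (nat_lit 36175780835) (nat_lit 228) (nat_lit 5973955732) (nat_lit 76) (nat_lit 15389440825) (nat_lit 28) (nat_lit 5) (nat_lit 31) (nat_lit 5) (nat_lit 29) (nat_lit 5) (nat_lit 312) (nat_lit 260) (nat_lit 148)) (XT.lf (nat_lit 0) (nat_lit 24673821785) (nat_lit 152) (nat_lit 25235141737) (nat_lit 228) (nat_lit 9934456015) (nat_lit 26)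 (nat_lit 5) (nat_lit 28) (nat_lit 5) (nat_lit 29) (nat_lit 5) (nat_lit 313) (nat_lit 260) (nat_lit 147)))))) (XT.nd (nat_lit 468) (nat_lit 304) (nat_lit 0) (XT.nd (nat_lit 234) (nat_lit 228) (nat_lit 0) (XT.nd (nat_lit 78) (nat_lit 152) (nat_lit 0) (XT.lf (nat_lit 0) (nat_lit 2080329777) (nat_lit 228) (nat_lit 5314902790) (nat_lit 76) (nat_lit 54865410343) (nat_lit 25) (nat_lit 5) (nat_lit 28) (nat_lit 5) (nat_lit 26) (nat_lit 5) (nat_lit 314) (nat_lit 260) (nat_lit 146)) (XT.nd (nat_lit 78) (nat_lit 0) (nat_lit 0) (XT.lf (nat_lit 0) (nat_lit 14851826745) (nat_lit 228) (nat_lit 38464275280) (nat_lit 76) (nat_lit 11468837602) (nat_lit 23) (nat_lit 5) (nat_lit 26) (nat_lit 5) (nat_lit 24) (nat_lit 5) (nat_lit 315) (nat_lit 260) (nat_lit 145)) (XT.lf (nat_lit 0) (nat_lit 28384936219) (nat_lit 228) (nat_lit 7871400441) (nat_lit 76) (nat_lit 31175429060) (nat_lit 23) (nat_lit 5) (nat_lit 26)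 (nat_lit 5) (nat_lit 24) (nat_lit 5) (nat_lit 316) (nat_lit 260) (nat_lit 144)))) (XT.nd (nat_lit 78) (nat_lit 76) (nat_lit 0) (XT.lf (nat_lit 0) (nat_lit 24722609364) (nat_lit 152) (nat_lit 18103209071) (nat_lit 228) (nat_lit 27378186564) (nat_lit 21) (nat_lit 5) (nat_lit 23) (nat_lit 5) (nat_lit 24) (nat_lit 5) (nat_lit 317) (nat_lit 260) (nat_lit 143)) (XT.nd (nat_lit 78) (nat_lit 76) (nat_lit 0) (XT.lf (nat_lit 0) (nat_lit 58073416957) (nat_lit 228) (nat_lit 14022399600) (nat_lit 76) (nat_lit 1016504662) (nat_lit 21) (nat_lit 5) (nat_lit 24) (nat_lit 5) (nat_lit 22) (nat_lit 4) (nat_lit 318) (nat_lit 260) (nat_lit 142)) (XT.lf (nat_lit 0) (nat_lit 19191049860) (nat_lit 76) (nat_lit 55253480788) (nat_lit 152) (nat_lit 1710693443) (nat_lit 20) (nat_lit 5) (nat_lit 21) (nat_lit 5) (nat_lit 22) (nat_lit 4) (nat_lit 319) (nat_lit 260) (nat_lit 141))))) (XT.nd (nat_lit 234) (nat_lit 76) (nat_lit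 0) (XT.nd (nat_lit 78) (nat_lit 152) (nat_lit 0) (XT.lf (nat_lit 0) (nat_lit 12184070834) (nat_lit 152) (nat_lit 25117343964) (nat_lit 76) (nat_lit 42041124022) (nat_lit 19) (nat_lit 5) (nat_lit 21) (nat_lit 5) (nat_lit 20) (nat_lit 5) (nat_lit 320) (nat_lit 260) (nat_lit 140)) (XT.nd (nat_lit 78) (nat_lit 0) (nat_lit 0) (XT.lf (nat_lit 0) (nat_lit 8460036501) (nat_lit 152) (nat_lit 18354160583) (nat_lit 228) (nat_lit 55872238280) (nat_lit 17) (nat_lit 5) (nat_lit 19) (nat_lit 5) (nat_lit 20) (nat_lit 5) (nat_lit 321) (nat_lit 260) (nat_lit 139)) (XT.lf (nat_lit 0) (nat_lit 42446252027) (nat_lit 228) (nat_lit 41975439310) (nat_lit 76) (nat_lit 1767726835) (nat_lit 17) (nat_lit 5) (nat_lit 20) (nat_lit 5) (nat_lit 18) (nat_lit 4) (nat_lit 322) (nat_lit 260) (nat_lit 138)))) (XT.nd (nat_lit 78) (nat_lit 76) (nat_lit 0) (XT.lf (nat_lit 0) (nat_lit 59039918582) (nat_lit 228) (nat_lit 8306200188)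 (nat_lit 76) (nat_lit 22516034999) (nat_lit 17) (nat_lit 5) (nat_lit 20) (nat_lit 5) (nat_lit 18) (nat_lit 4) (nat_lit 323) (nat_lit 260) (nat_lit 137)) (XT.nd (nat_lit 78) (nat_lit 0) (nat_lit 0) (XT.lf (nat_lit 0) (nat_lit 27576022299) (nat_lit 76) (nat_lit 49147329356) (nat_lit 152) (nat_lit 16987375720) (nat_lit 16) (nat_lit 5) (nat_lit 17) (nat_lit 5) (nat_lit 18) (nat_lit 4) (nat_lit 324) (nat_lit 260) (nat_lit 136)) (XT.lf (nat_lit 0) (nat_lit 65417591072) (nat_lit 76) (nat_lit 29954033565) (nat_lit 152) (nat_lit 2377688524) (nat_lit 16) (nat_lit 5) (nat_lit 17) (nat_lit 5) (nat_lit 18) (nat_lit 4) (nat_lit 325) (nat_lit 260) (nat_lit 135))))))))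
noncomputable def xc88 : XT := (XT.nd (nat_lit 33930) (nat_lit 0) (nat_lit 2660) (XT.nd (nat_lit 33072) (nat_lit 0) (nat_lit 7828) (XT.nd (nat_lit 32604) (nat_lit 0) (nat_lit 12236) (XT.nd (nat_lit 156) (nat_lit 0) (nat_lit 0) (XT.nd (nat_lit 78) (nat_lit 0) (nat_lit 0) (XT.lf (nat_lit 0) (nat_lit 3089046368) (nat_lit 152) (nat_lit 9645530387) (nat_lit 228) (nat_lit 89250765510) (nat_lit 13) (nat_lit 5) (nat_lit 15) (nat_lit 5) (nat_lit 16) (nat_lit 5) (nat_lit 326) (nat_lit 260) (nat_lit 134)) (XT.lf (nat_lit 0) (nat_lit 28997579497) (nat_lit 228) (nat_lit 65614165704) (nat_lit 76) (nat_lit 11807395550) (nat_lit 13) (nat_lit 5) (nat_lit 16) (nat_lit 5) (nat_lit 14) (nat_lit 4) (nat_lit 327) (nat_lit 260) (nat_lit 133))) (XT.nd (nat_lit 32292) (nat_lit 0) (nat_lit 12160) (XT.lf (nat_lit 0) (nat_lit 46166762824) (nat_lit 228) (nat_lit 30772821791) (nat_lit 76) (nat_lit 34132256610) (nat_lit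 13) (nat_lit 5) (nat_lit 16) (nat_lit 5) (nat_lit 14) (nat_lit 4) (nat_lit 328) (nat_lit 260) (nat_lit 132)) (XT.nd (nat_lit 78) (nat_lit 0) (nat_lit 76) (XT.lf (nat_lit 0) (nat_lit 417536707) (nat_lit 1140) (nat_lit 2733616125) (nat_lit 1140) (nat_lit 2733616125) (nat_lit 173) (nat_lit 3) (nat_lit 188) (nat_lit 3) (nat_lit 188) (nat_lit 5) (nat_lit 261) (nat_lit 261) (nat_lit 198)) (XT.lf (nat_lit 0) (nat_lit 1650480453) (nat_lit 1064) (nat_lit 9023086253) (nat_lit 1140) (nat_lit 1364868744) (nat_lit 174) (nat_lit 5) (nat_lit 188) (nat_lit 5) (nat_lit 189) (nat_lit 5) (nat_lit 262) (nat_lit 261) (nat_lit 197))))) (XT.nd (nat_lit 234) (nat_lit 0) (nat_lit 152) (XT.nd (nat_lit 78) (nat_lit 0) (nat_lit 76) (XT.lf (nat_lit 0) (nat_lit 2578944739) (nat_lit 1064) (nat_lit 374052294) (nat_lit 1140) (nat_lit 9365708560) (nat_lit 174) (nat_lit 5) (nat_lit 188) (nat_lit 5) (nat_lit 189) (nat_lit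 5) (nat_lit 263) (nat_lit 261) (nat_lit 196)) (XT.nd (nat_lit 78) (nat_lit 0) (nat_lit 76) (XT.lf (nat_lit 0) (nat_lit 3643653255) (nat_lit 1064) (nat_lit 3808077101) (nat_lit 1140) (nat_lit 5158656009) (nat_lit 175) (nat_lit 5) (nat_lit 189) (nat_lit 5) (nat_lit 190) (nat_lit 5) (nat_lit 264) (nat_lit 261) (nat_lit 195)) (XT.lf (nat_lit 0) (nat_lit 4812656447) (nat_lit 1064) (nat_lit 7341713967) (nat_lit 1140) (nat_lit 760836367) (nat_lit 176) (nat_lit 5) (nat_lit 190) (nat_lit 5) (nat_lit 191) (nat_lit 5) (nat_lit 265) (nat_lit 261) (nat_lit 194)))) (XT.nd (nat_lit 78) (nat_lit 0) (nat_lit 76) (XT.lf (nat_lit 76) (nat_lit 2209756991) (nat_lit 0) (nat_lit 3924639845) (nat_lit 1140) (nat_lit 7098125991) (nat_lit 177) (nat_lit 5) (nat_lit 176) (nat_lit 5) (nat_lit 191) (nat_lit 5) (nat_lit 266) (nat_lit 261) (nat_lit 193)) (XT.nd (nat_lit 78) (nat_lit 0) (nat_lit 0) (XT.lf (nat_lit 0) (nat_lit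 7603993687) (nat_lit 1064) (nat_lit 1245316098) (nat_lit 1140) (nat_lit 4714021067) (nat_lit 177) (nat_lit 5) (nat_lit 191) (nat_lit 5) (nat_lit 192) (nat_lit 5) (nat_lit 267) (nat_lit 261) (nat_lit 192)) (XT.lf (nat_lit 76) (nat_lit 9132930602) (nat_lit 0) (nat_lit 103549212) (nat_lit 1140) (nat_lit 4671592666) (nat_lit 178) (nat_lit 5) (nat_lit 177) (nat_lit 5) (nat_lit 192) (nat_lit 5) (nat_lit 268) (nat_lit 261) (nat_lit 191)))))) (XT.nd (nat_lit 390) (nat_lit 2660) (nat_lit 0) (XT.nd (nat_lit 156) (nat_lit 2052) (nat_lit 0) (XT.nd (nat_lit 78) (nat_lit 0) (nat_lit 76) (XT.lf (nat_lit 76) (nat_lit 5784742182) (nat_lit 0) (nat_lit 5285345638) (nat_lit 1140) (nat_lit 3196450330) (nat_lit 179) (nat_lit 5) (nat_lit 178) (nat_lit 5) (nat_lit 193) (nat_lit 5) (nat_lit 269) (nat_lit 261) (nat_lit 190)) (XT.lf (nat_lit 76) (nat_lit 2309655158) (nat_lit 0) (nat_lit 10761075261) (nat_lit 1140)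 (nat_lit 1570004526) (nat_lit 180) (nat_lit 5) (nat_lit 179) (nat_lit 5) (nat_lit 194) (nat_lit 5) (nat_lit 270) (nat_lit 261) (nat_lit 189))) (XT.nd (nat_lit 78) (nat_lit 988) (nat_lit 0) (XT.lf (nat_lit 0) (nat_lit 242827218) (nat_lit 1140) (nat_lit 1296175281) (nat_lit 1216) (nat_lit 13491430103) (nat_lit 164) (nat_lit 5) (nat_lit 179) (nat_lit 5) (nat_lit 180) (nat_lit 5) (nat_lit 271) (nat_lit 261) (nat_lit 188)) (XT.nd (nat_lit 78) (nat_lit 1064) (nat_lit 0) (XT.lf (nat_lit 0) (nat_lit 2261939002) (nat_lit 1140) (nat_lit 5064284971) (nat_lit 76) (nat_lit 8108541867) (nat_lit 165) (nat_lit 5) (nat_lit 180) (nat_lit 5) (nat_lit 166) (nat_lit 5) (nat_lit 272) (nat_lit 261) (nat_lit 187)) (XT.lf (nat_lit 0) (nat_lit 4469732965) (nat_lit 1140) (nat_lit 9000115224) (nat_lit 76) (nat_lit 2386893173) (nat_lit 151) (nat_lit 5) (nat_lit 166) (nat_lit 5) (nat_lit 152) (nat_lit 5) (nat_lit 273)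 (nat_lit 261) (nat_lit 186))))) (XT.nd (nat_lit 234) (nat_lit 1596) (nat_lit 0) (XT.nd (nat_lit 78) (nat_lit 532) (nat_lit 0) (XT.lf (nat_lit 0) (nat_lit 3141262045) (nat_lit 532) (nat_lit 3773876757) (nat_lit 608) (nat_lit 9380914880) (nat_lit 144) (nat_lit 5) (nat_lit 151) (nat_lit 5) (nat_lit 152) (nat_lit 5) (nat_lit 274) (nat_lit 261) (nat_lit 185)) (XT.nd (nat_lit 78) (nat_lit 532) (nat_lit 0) (XT.lf (nat_lit 0) (nat_lit 9609581879) (nat_lit 608) (nat_lit 766167406) (nat_lit 76) (nat_lit 6377831408) (nat_lit 144) (nat_lit 5) (nat_lit 152) (nat_lit 5) (nat_lit 145) (nat_lit 5) (nat_lit 275) (nat_lit 261) (nat_lit 184)) (XT.lf (nat_lit 0) (nat_lit 12420552760) (nat_lit 532) (nat_lit 148645063) (nat_lit 608) (nat_lit 4660922313) (nat_lit 137) (nat_lit 5) (nat_lit 144) (nat_lit 5) (nat_lit 145) (nat_lit 5) (nat_lit 276) (nat_lit 261) (nat_lit 183)))) (XT.nd (nat_lit 78) (nat_lit 1064)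 (nat_lit 0) (XT.lf (nat_lit 0) (nat_lit 8592447825) (nat_lit 532) (nat_lit 7250728387) (nat_lit 608) (nat_lit 1882366130) (nat_lit 130) (nat_lit 5) (nat_lit 137) (nat_lit 5) (nat_lit 138) (nat_lit 5) (nat_lit 277) (nat_lit 261) (nat_lit 182)) (XT.nd (nat_lit 78) (nat_lit 456) (nat_lit 0) (XT.lf (nat_lit 0) (nat_lit 1118628177) (nat_lit 608) (nat_lit 13704319937) (nat_lit 76) (nat_lit 3419421444) (nat_lit 122) (nat_lit 5) (nat_lit 130) (nat_lit 5) (nat_lit 123) (nat_lit 5) (nat_lit 278) (nat_lit 261) (nat_lit 181)) (XT.lf (nat_lit 0) (nat_lit 186349848) (nat_lit 456) (nat_lit 4190367221) (nat_lit 532) (nat_lit 14403424294) (nat_lit 116) (nat_lit 5) (nat_lit 122) (nat_lit 5) (nat_lit 123) (nat_lit 5) (nat_lit 279) (nat_lit 261) (nat_lit 180))))))) (XT.nd (nat_lit 858) (nat_lit 1976) (nat_lit 0) (XT.nd (nat_lit 390) (nat_lit 1824) (nat_lit 0) (XT.nd (nat_lit 156) (nat_lit 912) (nat_lit 0) (XT.nd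 (nat_lit 78) (nat_lit 456) (nat_lit 0) (XT.lf (nat_lit 0) (nat_lit 7983813528) (nat_lit 532) (nat_lit 4376626127) (nat_lit 76) (nat_lit 6978818630) (nat_lit 116) (nat_lit 5) (nat_lit 123) (nat_lit 5) (nat_lit 117) (nat_lit 5) (nat_lit 280) (nat_lit 261) (nat_lit 179)) (XT.lf (nat_lit 0) (nat_lit 10693431384) (nat_lit 456) (nat_lit 1200629741) (nat_lit 532) (nat_lit 8028623773) (nat_lit 110) (nat_lit 5) (nat_lit 116) (nat_lit 5) (nat_lit 117) (nat_lit 5) (nat_lit 281) (nat_lit 261) (nat_lit 178))) (XT.nd (nat_lit 78) (nat_lit 532) (nat_lit 0) (XT.lf (nat_lit 0) (nat_lit 6067065864) (nat_lit 380) (nat_lit 10116195917) (nat_lit 456) (nat_lit 4346553774) (nat_lit 105) (nat_lit 5) (nat_lit 110) (nat_lit 5) (nat_lit 111) (nat_lit 5) (nat_lit 282) (nat_lit 261) (nat_lit 177)) (XT.nd (nat_lit 78) (nat_lit 76) (nat_lit 0) (XT.lf (nat_lit 0) (nat_lit 1127830518) (nat_lit 456) (nat_lit 19670791768)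 (nat_lit 532) (nat_lit 365363690) (nat_lit 99) (nat_lit 5) (nat_lit 105) (nat_lit 5) (nat_lit 106) (nat_lit 5) (nat_lit 283) (nat_lit 261) (nat_lit 176)) (XT.lf (nat_lit 0) (nat_lit 3972725690) (nat_lit 532) (nat_lit 4189448849) (nat_lit 76) (nat_lit 13659653437) (nat_lit 98) (nat_lit 5) (nat_lit 105) (nat_lit 5) (nat_lit 99) (nat_lit 5) (nat_lit 284) (nat_lit 261) (nat_lit 175))))) (XT.nd (nat_lit 234) (nat_lit 760) (nat_lit 0) (XT.nd (nat_lit 78) (nat_lit 684) (nat_lit 0) (XT.lf (nat_lit 0) (nat_lit 8661717843) (nat_lit 456) (nat_lit 9877989785) (nat_lit 76) (nat_lit 3968529425) (nat_lit 93) (nat_lit 5) (nat_lit 99) (nat_lit 5) (nat_lit 94) (nat_lit 5) (nat_lit 285) (nat_lit 261) (nat_lit 174)) (XT.nd (nat_lit 78) (nat_lit 304) (nat_lit 0) (XT.lf (nat_lit 0) (nat_lit 7185485427) (nat_lit 380) (nat_lit 6576131077) (nat_lit 456) (nat_lit 9462085076) (nat_lit 88) (nat_lit 5) (nat_lit 93)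 (nat_lit 5) (nat_lit 94) (nat_lit 5) (nat_lit 286) (nat_lit 261) (nat_lit 173)) (XT.lf (nat_lit 0) (nat_lit 1280515603) (nat_lit 304) (nat_lit 17990613119) (nat_lit 380) (nat_lit 4699199389) (nat_lit 84) (nat_lit 5) (nat_lit 88) (nat_lit 5) (nat_lit 89) (nat_lit 5) (nat_lit 287) (nat_lit 261) (nat_lit 172)))) (XT.nd (nat_lit 78) (nat_lit 684) (nat_lit 0) (XT.lf (nat_lit 0) (nat_lit 511575037) (nat_lit 380) (nat_lit 5042227554) (nat_lit 76) (nat_lit 19193952586) (nat_lit 83) (nat_lit 5) (nat_lit 88) (nat_lit 5) (nat_lit 84) (nat_lit 5) (nat_lit 288) (nat_lit 261) (nat_lit 171)) (XT.nd (nat_lit 78) (nat_lit 304) (nat_lit 0) (XT.lf (nat_lit 0) (nat_lit 6075391231) (nat_lit 456) (nat_lit 11946961075) (nat_lit 76) (nat_lit 7534638871) (nat_lit 78) (nat_lit 5) (nat_lit 84) (nat_lit 5) (nat_lit 79) (nat_lit 5) (nat_lit 289) (nat_lit 261) (nat_lit 170)) (XT.lf (nat_lit 0) (nat_lit 6953140017) (nat_lit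 304) (nat_lit 5123478862) (nat_lit 380) (nat_lit 14325316404) (nat_lit 74) (nat_lit 5) (nat_lit 78) (nat_lit 5) (nat_lit 79) (nat_lit 5) (nat_lit 290) (nat_lit 261) (nat_lit 169)))))) (XT.nd (nat_lit 390) (nat_lit 988) (nat_lit 0) (XT.nd (nat_lit 156) (nat_lit 684) (nat_lit 0) (XT.nd (nat_lit 78) (nat_lit 304) (nat_lit 0) (XT.lf (nat_lit 0) (nat_lit 18567479523) (nat_lit 380) (nat_lit 340635845) (nat_lit 76) (nat_lit 8375345915) (nat_lit 74) (nat_lit 5) (nat_lit 79) (nat_lit 5) (nat_lit 75) (nat_lit 5) (nat_lit 291) (nat_lit 261) (nat_lit 168)) (XT.lf (nat_lit 0) (nat_lit 20042373000) (nat_lit 304) (nat_lit 5570052820) (nat_lit 380) (nat_lit 2589772278) (nat_lit 70) (nat_lit 5) (nat_lit 74) (nat_lit 5) (nat_lit 75) (nat_lit 5) (nat_lit 292) (nat_lit 261) (nat_lit 167))) (XT.nd (nat_lit 78) (nat_lit 304) (nat_lit 0) (XT.lf (nat_lit 0) (nat_lit 3959336333) (nat_lit 380) (nat_lit 16773537604)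 (nat_lit 76) (nat_lit 8427161645) (nat_lit 65) (nat_lit 5) (nat_lit 70) (nat_lit 5) (nat_lit 66) (nat_lit 5) (nat_lit 293) (nat_lit 261) (nat_lit 166)) (XT.nd (nat_lit 78) (nat_lit 0) (nat_lit 0) (XT.lf (nat_lit 0) (nat_lit 3941629140) (nat_lit 304) (nat_lit 7006132974) (nat_lit 380) (nat_lit 19212289235) (nat_lit 61) (nat_lit 5) (nat_lit 65) (nat_lit 5) (nat_lit 66) (nat_lit 5) (nat_lit 294) (nat_lit 261) (nat_lit 165)) (XT.lf (nat_lit 0) (nat_lit 18517606040) (nat_lit 380) (nat_lit 5254041930) (nat_lit 76) (nat_lit 7431477467) (nat_lit 61) (nat_lit 5) (nat_lit 66) (nat_lit 5) (nat_lit 62) (nat_lit 5) (nat_lit 295) (nat_lit 261) (nat_lit 164))))) (XT.nd (nat_lit 234) (nat_lit 456) (nat_lit 0) (XT.nd (nat_lit 78) (nat_lit 304) (nat_lit 0) (XT.lf (nat_lit 0) (nat_lit 17001201017) (nat_lit 228) (nat_lit 9685946837) (nat_lit 304) (nat_lit 5604585815) (nat_lit 58) (nat_lit 5) (nat_lit 61) (nat_lit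 5) (nat_lit 62) (nat_lit 5) (nat_lit 296) (nat_lit 261) (nat_lit 163)) (XT.nd (nat_lit 78) (nat_lit 0) (nat_lit 0) (XT.lf (nat_lit 0) (nat_lit 1955795289) (nat_lit 304) (nat_lit 26332255397) (nat_lit 76) (nat_lit 5141375586) (nat_lit 54) (nat_lit 5) (nat_lit 58) (nat_lit 5) (nat_lit 55) (nat_lit 5) (nat_lit 297) (nat_lit 261) (nat_lit 162)) (XT.lf (nat_lit 0) (nat_lit 10023835253) (nat_lit 304) (nat_lit 3869328601) (nat_lit 76) (nat_lit 20721823013) (nat_lit 54) (nat_lit 5) (nat_lit 58) (nat_lit 5) (nat_lit 55) (nat_lit 5) (nat_lit 298) (nat_lit 261) (nat_lit 161)))) (XT.nd (nat_lit 78) (nat_lit 228) (nat_lit 0) (XT.lf (nat_lit 0) (nat_lit 18690346134) (nat_lit 304) (nat_lit 15776280614) (nat_lit 76) (nat_lit 1387360606) (nat_lit 51) (nat_lit 5) (nat_lit 55) (nat_lit 5) (nat_lit 52) (nat_lit 5) (nat_lit 299) (nat_lit 261) (nat_lit 160)) (XT.nd (nat_lit 78) (nat_lit 0) (nat_lit 0) (XT.lf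 (nat_lit 0) (nat_lit 8150737113) (nat_lit 228) (nat_lit 19886926306) (nat_lit 304) (nat_lit 9109863289) (nat_lit 48) (nat_lit 5) (nat_lit 51) (nat_lit 5) (nat_lit 52) (nat_lit 5) (nat_lit 300) (nat_lit 261) (nat_lit 159)) (XT.lf (nat_lit 0) (nat_lit 33587367834) (nat_lit 228) (nat_lit 4416441181) (nat_lit 304) (nat_lit 497402775) (nat_lit 48) (nat_lit 5) (nat_lit 51) (nat_lit 5) (nat_lit 52) (nat_lit 5) (nat_lit 301) (nat_lit 261) (nat_lit 158))))))))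
noncomputable def xc89 : XT := (XT.nd (nat_lit 1716) (nat_lit 304) (nat_lit 0) (XT.nd (nat_lit 858) (nat_lit 836) (nat_lit 0) (XT.nd (nat_lit 390) (nat_lit 760) (nat_lit 0) (XT.nd (nat_lit 156) (nat_lit 228) (nat_lit 0) (XT.nd (nat_lit 78) (nat_lit 228) (nat_lit 0) (XT.lf (nat_lit 0) (nat_lit 8683590347) (nat_lit 304) (nat_lit 19352140803) (nat_lit 76) (nat_lit 11875257273) (nat_lit 44) (nat_lit 5) (nat_lit 48) (nat_lit 5) (nat_lit 45) (nat_lit 5) (nat_lit 302) (nat_lit 261) (nat_lit 157)) (XT.lf (nat_lit 0) (nat_lit 6070821150) (nat_lit 228) (nat_lit 12386406712) (nat_lit 304) (nat_lit 22929572955) (nat_lit 41) (nat_lit 5) (nat_lit 44) (nat_lit 5) (nat_lit 45) (nat_lit 5) (nat_lit 303) (nat_lit 261) (nat_lit 156))) (XT.nd (nat_lit 78) (nat_lit 228) (nat_lit 0) (XT.lf (nat_lit 0) (nat_lit 28949678259) (nat_lit 304) (nat_lit 9817426780) (nat_lit 76) (nat_lit 4162405459) (nat_lit 41) (nat_lit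 5) (nat_lit 45) (nat_lit 5) (nat_lit 42) (nat_lit 5) (nat_lit 304) (nat_lit 261) (nat_lit 155)) (XT.nd (nat_lit 78) (nat_lit 76) (nat_lit 0) (XT.lf (nat_lit 0) (nat_lit 17150974647) (nat_lit 152) (nat_lit 23096193265) (nat_lit 228) (nat_lit 4293785341) (nat_lit 39) (nat_lit 5) (nat_lit 41) (nat_lit 5) (nat_lit 42) (nat_lit 5) (nat_lit 305) (nat_lit 261) (nat_lit 154)) (XT.lf (nat_lit 0) (nat_lit 5854698589) (nat_lit 228) (nat_lit 628983005) (nat_lit 76) (nat_lit 39744816981) (nat_lit 38) (nat_lit 5) (nat_lit 41) (nat_lit 5) (nat_lit 39) (nat_lit 5) (nat_lit 306) (nat_lit 261) (nat_lit 153))))) (XT.nd (nat_lit 234) (nat_lit 380) (nat_lit 0) (XT.nd (nat_lit 78) (nat_lit 152) (nat_lit 0) (XT.lf (nat_lit 0) (nat_lit 16790961000) (nat_lit 304) (nat_lit 20141245458) (nat_lit 76) (nat_lit 11055873520) (nat_lit 35) (nat_lit 5) (nat_lit 39) (nat_lit 5) (nat_lit 36) (nat_lit 5) (nat_lit 307) (nat_lit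 261) (nat_lit 152)) (XT.nd (nat_lit 78) (nat_lit 0) (nat_lit 0) (XT.lf (nat_lit 0) (nat_lit 8001127359) (nat_lit 152) (nat_lit 20413230781) (nat_lit 228) (nat_lit 21417081127) (nat_lit 33) (nat_lit 5) (nat_lit 35) (nat_lit 5) (nat_lit 36) (nat_lit 5) (nat_lit 308) (nat_lit 261) (nat_lit 151)) (XT.lf (nat_lit 0) (nat_lit 37958263970) (nat_lit 152) (nat_lit 2859707866) (nat_lit 228) (nat_lit 10943031346) (nat_lit 33) (nat_lit 5) (nat_lit 35) (nat_lit 5) (nat_lit 36) (nat_lit 5) (nat_lit 309) (nat_lit 261) (nat_lit 150)))) (XT.nd (nat_lit 78) (nat_lit 152) (nat_lit 0) (XT.lf (nat_lit 0) (nat_lit 349897460) (nat_lit 228) (nat_lit 38010211211) (nat_lit 76) (nat_lit 15418040965) (nat_lit 30) (nat_lit 5) (nat_lit 33) (nat_lit 5) (nat_lit 31) (nat_lit 5) (nat_lit 310) (nat_lit 261) (nat_lit 149)) (XT.nd (nat_lit 78) (nat_lit 152) (nat_lit 0) (XT.lf (nat_lit 0) (nat_lit 12147850322) (nat_lit 228)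 (nat_lit 8939635603) (nat_lit 76) (nat_lit 34800423290) (nat_lit 30) (nat_lit 5) (nat_lit 33) (nat_lit 5) (nat_lit 31) (nat_lit 5) (nat_lit 311) (nat_lit 261) (nat_lit 148)) (XT.lf (nat_lit 0) (nat_lit 22001793296) (nat_lit 152) (nat_lit 2738006916) (nat_lit 228) (nat_lit 33357240343) (nat_lit 28) (nat_lit 5) (nat_lit 30) (nat_lit 5) (nat_lit 31) (nat_lit 5) (nat_lit 312) (nat_lit 261) (nat_lit 147)))))) (XT.nd (nat_lit 390) (nat_lit 456) (nat_lit 0) (XT.nd (nat_lit 156) (nat_lit 228) (nat_lit 0) (XT.nd (nat_lit 78) (nat_lit 152) (nat_lit 0) (XT.lf (nat_lit 0) (nat_lit 38205972099) (nat_lit 228) (nat_lit 5908402652) (nat_lit 76) (nat_lit 16294921413) (nat_lit 28) (nat_lit 5) (nat_lit 31) (nat_lit 5) (nat_lit 29) (nat_lit 5) (nat_lit 313) (nat_lit 261) (nat_lit 146)) (XT.lf (nat_lit 0) (nat_lit 26261322562) (nat_lit 152) (nat_lit 26357349429) (nat_lit 228) (nat_lit 10210302111) (nat_lit 26)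 (nat_lit 5) (nat_lit 28) (nat_lit 5) (nat_lit 29) (nat_lit 5) (nat_lit 314) (nat_lit 261) (nat_lit 145))) (XT.nd (nat_lit 78) (nat_lit 152) (nat_lit 0) (XT.lf (nat_lit 0) (nat_lit 2390600175) (nat_lit 228) (nat_lit 5239407076) (nat_lit 76) (nat_lit 57737305799) (nat_lit 25) (nat_lit 5) (nat_lit 28) (nat_lit 5) (nat_lit 26) (nat_lit 5) (nat_lit 315) (nat_lit 261) (nat_lit 144)) (XT.nd (nat_lit 78) (nat_lit 0) (nat_lit 0) (XT.lf (nat_lit 0) (nat_lit 15795303899) (nat_lit 228) (nat_lit 40051142485) (nat_lit 76) (nat_lit 12171547564) (nat_lit 23) (nat_lit 5) (nat_lit 26) (nat_lit 5) (nat_lit 24) (nat_lit 5) (nat_lit 316) (nat_lit 261) (nat_lit 143)) (XT.lf (nat_lit 0) (nat_lit 29995502856) (nat_lit 228) (nat_lit 7944640407) (nat_lit 76) (nat_lit 32857312972) (nat_lit 23) (nat_lit 5) (nat_lit 26) (nat_lit 5) (nat_lit 24) (nat_lit 5) (nat_lit 317) (nat_lit 261) (nat_lit 142))))) (XT.nd (nat_lit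 234) (nat_lit 228) (nat_lit 0) (XT.nd (nat_lit 78) (nat_lit 76) (nat_lit 0) (XT.lf (nat_lit 0) (nat_lit 26269887691) (nat_lit 152) (nat_lit 18882421967) (nat_lit 228) (nat_lit 28556188938) (nat_lit 21) (nat_lit 5) (nat_lit 23) (nat_lit 5) (nat_lit 24) (nat_lit 5) (nat_lit 318) (nat_lit 261) (nat_lit 141)) (XT.nd (nat_lit 78) (nat_lit 76) (nat_lit 0) (XT.lf (nat_lit 0) (nat_lit 61154622078) (nat_lit 228) (nat_lit 14422906412) (nat_lit 76) (nat_lit 1184939291) (nat_lit 21) (nat_lit 5) (nat_lit 24) (nat_lit 5) (nat_lit 22) (nat_lit 4) (nat_lit 319) (nat_lit 261) (nat_lit 140)) (XT.lf (nat_lit 0) (nat_lit 20442598506) (nat_lit 76) (nat_lit 57896045781) (nat_lit 152) (nat_lit 1619047758) (nat_lit 20) (nat_lit 5) (nat_lit 21) (nat_lit 5) (nat_lit 22) (nat_lit 4) (nat_lit 320) (nat_lit 261) (nat_lit 139)))) (XT.nd (nat_lit 78) (nat_lit 152) (nat_lit 0) (XT.lf (nat_lit 0) (nat_lit 12958724785) (nat_lit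 152) (nat_lit 26091700460) (nat_lit 76) (nat_lit 44254150662) (nat_lit 19) (nat_lit 5) (nat_lit 21) (nat_lit 5) (nat_lit 20) (nat_lit 5) (nat_lit 321) (nat_lit 261) (nat_lit 138)) (XT.nd (nat_lit 78) (nat_lit 0) (nat_lit 0) (XT.lf (nat_lit 0) (nat_lit 9156479581) (nat_lit 152) (nat_lit 19158627661) (nat_lit 228) (nat_lit 58500723557) (nat_lit 17) (nat_lit 5) (nat_lit 19) (nat_lit 5) (nat_lit 20) (nat_lit 5) (nat_lit 322) (nat_lit 261) (nat_lit 137)) (XT.lf (nat_lit 0) (nat_lit 44722173052) (nat_lit 228) (nat_lit 43810135993) (nat_lit 76) (nat_lit 1961857189) (nat_lit 17) (nat_lit 5) (nat_lit 20) (nat_lit 5) (nat_lit 18) (nat_lit 4) (nat_lit 323) (nat_lit 261) (nat_lit 136))))))) (XT.nd (nat_lit 33150) (nat_lit 0) (nat_lit 8284) (XT.nd (nat_lit 32682) (nat_lit 0) (nat_lit 12160) (XT.nd (nat_lit 156) (nat_lit 228) (nat_lit 0) (XT.nd (nat_lit 78) (nat_lit 76) (nat_lit 0) (XT.lf (nat_lit 0)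 (nat_lit 62138208248) (nat_lit 228) (nat_lit 8470009927) (nat_lit 76) (nat_lit 23742545332) (nat_lit 17) (nat_lit 5) (nat_lit 20) (nat_lit 5) (nat_lit 18) (nat_lit 4) (nat_lit 324) (nat_lit 261) (nat_lit 135)) (XT.lf (nat_lit 0) (nat_lit 29199114479) (nat_lit 76) (nat_lit 51502080402) (nat_lit 152) (nat_lit 17690714652) (nat_lit 16) (nat_lit 5) (nat_lit 17) (nat_lit 5) (nat_lit 18) (nat_lit 4) (nat_lit 325) (nat_lit 261) (nat_lit 134))) (XT.nd (nat_lit 78) (nat_lit 228) (nat_lit 0) (XT.lf (nat_lit 0) (nat_lit 68921128783) (nat_lit 76) (nat_lit 31354006271) (nat_lit 152) (nat_lit 2357496899) (nat_lit 16) (nat_lit 5) (nat_lit 17) (nat_lit 5) (nat_lit 18) (nat_lit 4) (nat_lit 326) (nat_lit 261) (nat_lit 133)) (XT.nd (nat_lit 78) (nat_lit 0) (nat_lit 0) (XT.lf (nat_lit 0) (nat_lit 3472217180) (nat_lit 152) (nat_lit 10031155735) (nat_lit 228) (nat_lit 93577182912) (nat_lit 13) (nat_lit 5) (nat_lit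 15) (nat_lit 5) (nat_lit 16) (nat_lit 5) (nat_lit 327) (nat_lit 261) (nat_lit 132)) (XT.lf (nat_lit 0) (nat_lit 30574121703) (nat_lit 228) (nat_lit 68674071156) (nat_lit 76) (nat_lit 12488017860) (nat_lit 13) (nat_lit 5) (nat_lit 16) (nat_lit 5) (nat_lit 14) (nat_lit 4) (nat_lit 328) (nat_lit 261) (nat_lit 131))))) (XT.nd (nat_lit 234) (nat_lit 0) (nat_lit 152) (XT.nd (nat_lit 78) (nat_lit 0) (nat_lit 76) (XT.lf (nat_lit 0) (nat_lit 1178703497) (nat_lit 1140) (nat_lit 2488306850) (nat_lit 1140) (nat_lit 2488306850) (nat_lit 173) (nat_lit 3) (nat_lit 188) (nat_lit 3) (nat_lit 188) (nat_lit 5) (nat_lit 262) (nat_lit 262) (nat_lit 196)) (XT.nd (nat_lit 78) (nat_lit 0) (nat_lit 0) (XT.lf (nat_lit 0) (nat_lit 3143724166) (nat_lit 1064) (nat_lit 8680331784) (nat_lit 1140) (nat_lit 771157758) (nat_lit 174) (nat_lit 5) (nat_lit 188) (nat_lit 5) (nat_lit 189) (nat_lit 5) (nat_lit 263) (nat_lit 262)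 (nat_lit 195)) (XT.lf (nat_lit 76) (nat_lit 370580043) (nat_lit 0) (nat_lit 3684416736) (nat_lit 1140) (nat_lit 8836543403) (nat_lit 175) (nat_lit 5) (nat_lit 174) (nat_lit 5) (nat_lit 189) (nat_lit 5) (nat_lit 264) (nat_lit 262) (nat_lit 194)))) (XT.nd (nat_lit 78) (nat_lit 0) (nat_lit 76) (XT.lf (nat_lit 0) (nat_lit 5107152027) (nat_lit 1064) (nat_lit 3217584593) (nat_lit 1140) (nat_lit 4875170013) (nat_lit 175) (nat_lit 5) (nat_lit 189) (nat_lit 5) (nat_lit 190) (nat_lit 5) (nat_lit 265) (nat_lit 262) (nat_lit 193)) (XT.nd (nat_lit 78) (nat_lit 0) (nat_lit 0) (XT.lf (nat_lit 0) (nat_lit 6276372522) (nat_lit 1064) (nat_lit 6906512999) (nat_lit 1140) (nat_lit 338951417) (nat_lit 176) (nat_lit 5) (nat_lit 190) (nat_lit 5) (nat_lit 191) (nat_lit 5) (nat_lit 266) (nat_lit 262) (nat_lit 192)) (XT.lf (nat_lit 76) (nat_lit 3099534120) (nat_lit 0) (nat_lit 4513914756) (nat_lit 1140) (nat_lit 6243208523)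 (nat_lit 177) (nat_lit 5) (nat_lit 176) (nat_lit 5) (nat_lit 191) (nat_lit 5) (nat_lit 267) (nat_lit 262) (nat_lit 191)))))) (XT.nd (nat_lit 468) (nat_lit 3192) (nat_lit 0) (XT.nd (nat_lit 234) (nat_lit 988) (nat_lit 0) (XT.nd (nat_lit 78) (nat_lit 0) (nat_lit 0) (XT.lf (nat_lit 0) (nat_lit 9097101971) (nat_lit 1064) (nat_lit 526097124) (nat_lit 1140) (nat_lit 4582699991) (nat_lit 177) (nat_lit 5) (nat_lit 191) (nat_lit 5) (nat_lit 192) (nat_lit 5) (nat_lit 268) (nat_lit 262) (nat_lit 190)) (XT.nd (nat_lit 78) (nat_lit 0) (nat_lit 76) (XT.lf (nat_lit 76) (nat_lit 10348660807) (nat_lit 0) (nat_lit 416852726) (nat_lit 1140) (nat_lit 3803840516) (nat_lit 178) (nat_lit 5) (nat_lit 177) (nat_lit 5) (nat_lit 192) (nat_lit 5) (nat_lit 269) (nat_lit 262) (nat_lit 189)) (XT.lf (nat_lit 76) (nat_lit 6847324931) (nat_lit 0) (nat_lit 5797270515) (nat_lit 1140) (nat_lit 2302634026) (nat_lit 179) (nat_lit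 5) (nat_lit 178) (nat_lit 5) (nat_lit 193) (nat_lit 5) (nat_lit 270) (nat_lit 262) (nat_lit 188)))) (XT.nd (nat_lit 78) (nat_lit 1140) (nat_lit 0) (XT.lf (nat_lit 76) (nat_lit 3210328248) (nat_lit 0) (nat_lit 11491603183) (nat_lit 1140) (nat_lit 639600338) (nat_lit 180) (nat_lit 5) (nat_lit 179) (nat_lit 5) (nat_lit 194) (nat_lit 5) (nat_lit 271) (nat_lit 262) (nat_lit 187)) (XT.nd (nat_lit 78) (nat_lit 0) (nat_lit 76) (XT.lf (nat_lit 0) (nat_lit 1197080060) (nat_lit 1140) (nat_lit 592667807) (nat_lit 1216) (nat_lit 13962176964) (nat_lit 164) (nat_lit 5) (nat_lit 179) (nat_lit 5) (nat_lit 180) (nat_lit 5) (nat_lit 272) (nat_lit 262) (nat_lit 186)) (XT.lf (nat_lit 0) (nat_lit 3277938758) (nat_lit 1140) (nat_lit 4540871925) (nat_lit 76) (nat_lit 8358924407) (nat_lit 165) (nat_lit 5) (nat_lit 180) (nat_lit 5) (nat_lit 166) (nat_lit 5) (nat_lit 273) (nat_lit 262) (nat_lit 185))))) (XT.nd (nat_lit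 234) (nat_lit 1672) (nat_lit 0) (XT.nd (nat_lit 78) (nat_lit 532) (nat_lit 0) (XT.lf (nat_lit 0) (nat_lit 5559294230) (nat_lit 1140) (nat_lit 8667054687) (nat_lit 76) (nat_lit 2395645410) (nat_lit 151) (nat_lit 5) (nat_lit 166) (nat_lit 5) (nat_lit 152) (nat_lit 5) (nat_lit 274) (nat_lit 262) (nat_lit 184)) (XT.nd (nat_lit 78) (nat_lit 0) (nat_lit 0) (XT.lf (nat_lit 0) (nat_lit 4058945007) (nat_lit 532) (nat_lit 4034095247) (nat_lit 608) (nat_lit 8991326191) (nat_lit 144) (nat_lit 5) (nat_lit 151) (nat_lit 5) (nat_lit 152) (nat_lit 5) (nat_lit 275) (nat_lit 262) (nat_lit 183)) (XT.lf (nat_lit 0) (nat_lit 10881924758) (nat_lit 608) (nat_lit 54192615) (nat_lit 76) (nat_lit 6629933504) (nat_lit 144) (nat_lit 5) (nat_lit 152) (nat_lit 5) (nat_lit 145) (nat_lit 5) (nat_lit 276) (nat_lit 262) (nat_lit 182)))) (XT.nd (nat_lit 78) (nat_lit 1140) (nat_lit 0) (XT.lf (nat_lit 0) (nat_lit 13770356843)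 (nat_lit 532) (nat_lit 188462301) (nat_lit 608) (nat_lit 4108588405) (nat_lit 137) (nat_lit 5) (nat_lit 144) (nat_lit 5) (nat_lit 145) (nat_lit 5) (nat_lit 277) (nat_lit 262) (nat_lit 181)) (XT.nd (nat_lit 78) (nat_lit 608) (nat_lit 0) (XT.lf (nat_lit 0) (nat_lit 9753783184) (nat_lit 532) (nat_lit 7613204678) (nat_lit 608) (nat_lit 1221564153) (nat_lit 130) (nat_lit 5) (nat_lit 137) (nat_lit 5) (nat_lit 138) (nat_lit 5) (nat_lit 278) (nat_lit 262) (nat_lit 180)) (XT.lf (nat_lit 0) (nat_lit 1886621205) (nat_lit 608) (nat_lit 13640807478) (nat_lit 76) (nat_lit 3604478958) (nat_lit 122) (nat_lit 5) (nat_lit 130) (nat_lit 5) (nat_lit 123) (nat_lit 5) (nat_lit 279) (nat_lit 262) (nat_lit 179))))))))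
noncomputable def xc90 : XT := (XT.nd (nat_lit 1716) (nat_lit 2356) (nat_lit 0) (XT.nd (nat_lit 858) (nat_lit 2280) (nat_lit 0) (XT.nd (nat_lit 390) (nat_lit 1520) (nat_lit 0) (XT.nd (nat_lit 156) (nat_lit 1368) (nat_lit 0) (XT.nd (nat_lit 78) (nat_lit 0) (nat_lit 0) (XT.lf (nat_lit 0) (nat_lit 922933646) (nat_lit 456) (nat_lit 4357764129) (nat_lit 532) (nat_lit 14416735791) (nat_lit 116) (nat_lit 5) (nat_lit 122) (nat_lit 5) (nat_lit 123) (nat_lit 5) (nat_lit 280) (nat_lit 262) (nat_lit 178)) (XT.lf (nat_lit 0) (nat_lit 9035908728) (nat_lit 532) (nat_lit 3882527648) (nat_lit 76) (nat_lit 7367092431) (nat_lit 116) (nat_lit 5) (nat_lit 123) (nat_lit 5) (nat_lit 117) (nat_lit 5) (nat_lit 281) (nat_lit 262) (nat_lit 177))) (XT.nd (nat_lit 78) (nat_lit 912) (nat_lit 0) (XT.lf (nat_lit 0) (nat_lit 11920596748) (nat_lit 456) (nat_lit 1196637937) (nat_lit 532) (nat_lit 7781677715) (nat_lit 110)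 (nat_lit 5) (nat_lit 116) (nat_lit 5) (nat_lit 117) (nat_lit 5) (nat_lit 282) (nat_lit 262) (nat_lit 176)) (XT.nd (nat_lit 78) (nat_lit 532) (nat_lit 0) (XT.lf (nat_lit 0) (nat_lit 7061801087) (nat_lit 380) (nat_lit 10536399233) (nat_lit 456) (nat_lit 3938930249) (nat_lit 105) (nat_lit 5) (nat_lit 110) (nat_lit 5) (nat_lit 111) (nat_lit 5) (nat_lit 283) (nat_lit 262) (nat_lit 175)) (XT.lf (nat_lit 0) (nat_lit 214915394) (nat_lit 532) (nat_lit 20332194910) (nat_lit 76) (nat_lit 1656526812) (nat_lit 98) (nat_lit 5) (nat_lit 105) (nat_lit 5) (nat_lit 99) (nat_lit 5) (nat_lit 284) (nat_lit 262) (nat_lit 174))))) (XT.nd (nat_lit 234) (nat_lit 760) (nat_lit 0) (XT.nd (nat_lit 78) (nat_lit 760) (nat_lit 0) (XT.lf (nat_lit 0) (nat_lit 4734277432) (nat_lit 532) (nat_lit 3730273084) (nat_lit 76) (nat_lit 14430598582) (nat_lit 98) (nat_lit 5) (nat_lit 105) (nat_lit 5) (nat_lit 99) (nat_lit 5) (nat_lit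 285) (nat_lit 262) (nat_lit 173)) (XT.nd (nat_lit 78) (nat_lit 380) (nat_lit 0) (XT.lf (nat_lit 0) (nat_lit 9638186691) (nat_lit 456) (nat_lit 9706326146) (nat_lit 76) (nat_lit 4271993804) (nat_lit 93) (nat_lit 5) (nat_lit 99) (nat_lit 5) (nat_lit 94) (nat_lit 5) (nat_lit 286) (nat_lit 262) (nat_lit 172)) (XT.lf (nat_lit 0) (nat_lit 8191244592) (nat_lit 380) (nat_lit 6782174723) (nat_lit 456) (nat_lit 9394954946) (nat_lit 88) (nat_lit 5) (nat_lit 93) (nat_lit 5) (nat_lit 94) (nat_lit 5) (nat_lit 287) (nat_lit 262) (nat_lit 171)))) (XT.nd (nat_lit 78) (nat_lit 456) (nat_lit 0) (XT.lf (nat_lit 0) (nat_lit 1987387745) (nat_lit 304) (nat_lit 18753383568) (nat_lit 380) (nat_lit 4412128012) (nat_lit 84) (nat_lit 5) (nat_lit 88) (nat_lit 5) (nat_lit 89) (nat_lit 5) (nat_lit 288) (nat_lit 262) (nat_lit 170)) (XT.nd (nat_lit 78) (nat_lit 380) (nat_lit 0) (XT.lf (nat_lit 0) (nat_lit 1024624870) (nat_lit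 380) (nat_lit 4671697533) (nat_lit 76) (nat_lit 20273491263) (nat_lit 83) (nat_lit 5) (nat_lit 88) (nat_lit 5) (nat_lit 84) (nat_lit 5) (nat_lit 289) (nat_lit 262) (nat_lit 169)) (XT.lf (nat_lit 0) (nat_lit 6850527637) (nat_lit 456) (nat_lit 11926036933) (nat_lit 76) (nat_lit 8043463600) (nat_lit 78) (nat_lit 5) (nat_lit 84) (nat_lit 5) (nat_lit 79) (nat_lit 5) (nat_lit 290) (nat_lit 262) (nat_lit 168)))))) (XT.nd (nat_lit 390) (nat_lit 988) (nat_lit 0) (XT.nd (nat_lit 156) (nat_lit 684) (nat_lit 0) (XT.nd (nat_lit 78) (nat_lit 304) (nat_lit 0) (XT.lf (nat_lit 0) (nat_lit 7901346566) (nat_lit 304) (nat_lit 5233796911) (nat_lit 380) (nat_lit 14572608179) (nat_lit 74) (nat_lit 5) (nat_lit 78) (nat_lit 5) (nat_lit 79) (nat_lit 5) (nat_lit 291) (nat_lit 262) (nat_lit 167)) (XT.lf (nat_lit 0) (nat_lit 231058170) (nat_lit 304) (nat_lit 19701393267) (nat_lit 380) (nat_lit 8701475846) (nat_lit 70)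 (nat_lit 5) (nat_lit 74) (nat_lit 5) (nat_lit 75) (nat_lit 5) (nat_lit 292) (nat_lit 262) (nat_lit 166))) (XT.nd (nat_lit 78) (nat_lit 684) (nat_lit 0) (XT.lf (nat_lit 0) (nat_lit 21611962218) (nat_lit 304) (nat_lit 5700232022) (nat_lit 380) (nat_lit 2286959230) (nat_lit 70) (nat_lit 5) (nat_lit 74) (nat_lit 5) (nat_lit 75) (nat_lit 5) (nat_lit 293) (nat_lit 262) (nat_lit 165)) (XT.nd (nat_lit 78) (nat_lit 304) (nat_lit 0) (XT.lf (nat_lit 0) (nat_lit 4567817853) (nat_lit 380) (nat_lit 17040911341) (nat_lit 76) (nat_lit 8996456324) (nat_lit 65) (nat_lit 5) (nat_lit 70) (nat_lit 5) (nat_lit 66) (nat_lit 5) (nat_lit 294) (nat_lit 262) (nat_lit 164)) (XT.lf (nat_lit 0) (nat_lit 4693637450) (nat_lit 304) (nat_lit 7197813449) (nat_lit 380) (nat_lit 19764203136) (nat_lit 61) (nat_lit 5) (nat_lit 65) (nat_lit 5) (nat_lit 66) (nat_lit 5) (nat_lit 295) (nat_lit 262) (nat_lit 163))))) (XT.nd (nat_lit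 234) (nat_lit 456) (nat_lit 0) (XT.nd (nat_lit 78) (nat_lit 532) (nat_lit 0) (XT.lf (nat_lit 0) (nat_lit 19822367763) (nat_lit 380) (nat_lit 4977885054) (nat_lit 76) (nat_lit 7951175917) (nat_lit 61) (nat_lit 5) (nat_lit 66) (nat_lit 5) (nat_lit 62) (nat_lit 5) (nat_lit 296) (nat_lit 262) (nat_lit 162)) (XT.nd (nat_lit 78) (nat_lit 304) (nat_lit 0) (XT.lf (nat_lit 0) (nat_lit 18374673757) (nat_lit 228) (nat_lit 10012702302) (nat_lit 304) (nat_lit 5507504805) (nat_lit 58) (nat_lit 5) (nat_lit 61) (nat_lit 5) (nat_lit 62) (nat_lit 5) (nat_lit 297) (nat_lit 262) (nat_lit 161)) (XT.lf (nat_lit 0) (nat_lit 2412401790) (nat_lit 304) (nat_lit 27123248796) (nat_lit 76) (nat_lit 5554054052) (nat_lit 54) (nat_lit 5) (nat_lit 58) (nat_lit 5) (nat_lit 55) (nat_lit 5) (nat_lit 298) (nat_lit 262) (nat_lit 160)))) (XT.nd (nat_lit 78) (nat_lit 456) (nat_lit 0) (XT.lf (nat_lit 0) (nat_lit 10866757240) (nat_lit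 304) (nat_lit 3562205154) (nat_lit 76) (nat_lit 21906113866) (nat_lit 54) (nat_lit 5) (nat_lit 58) (nat_lit 5) (nat_lit 55) (nat_lit 5) (nat_lit 299) (nat_lit 262) (nat_lit 159)) (XT.nd (nat_lit 78) (nat_lit 228) (nat_lit 0) (XT.lf (nat_lit 0) (nat_lit 19956495457) (nat_lit 304) (nat_lit 16070062137) (nat_lit 76) (nat_lit 1609791555) (nat_lit 51) (nat_lit 5) (nat_lit 55) (nat_lit 5) (nat_lit 52) (nat_lit 5) (nat_lit 300) (nat_lit 262) (nat_lit 158)) (XT.lf (nat_lit 0) (nat_lit 9039116469) (nat_lit 228) (nat_lit 20720892288) (nat_lit 304) (nat_lit 9234910313) (nat_lit 48) (nat_lit 5) (nat_lit 51) (nat_lit 5) (nat_lit 52) (nat_lit 5) (nat_lit 301) (nat_lit 262) (nat_lit 157))))))) (XT.nd (nat_lit 858) (nat_lit 988) (nat_lit 0) (XT.nd (nat_lit 390) (nat_lit 684) (nat_lit 0) (XT.nd (nat_lit 156) (nat_lit 380) (nat_lit 0) (XT.nd (nat_lit 78) (nat_lit 304) (nat_lit 0) (XT.lf (nat_lit 0) (nat_lit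 35724681464) (nat_lit 228) (nat_lit 4484520066) (nat_lit 304) (nat_lit 207562304) (nat_lit 48) (nat_lit 5) (nat_lit 51) (nat_lit 5) (nat_lit 52) (nat_lit 5) (nat_lit 302) (nat_lit 262) (nat_lit 156)) (XT.lf (nat_lit 0) (nat_lit 9417451758) (nat_lit 304) (nat_lit 19860829523) (nat_lit 76) (nat_lit 12618940185) (nat_lit 44) (nat_lit 5) (nat_lit 48) (nat_lit 5) (nat_lit 45) (nat_lit 5) (nat_lit 303) (nat_lit 262) (nat_lit 155))) (XT.nd (nat_lit 78) (nat_lit 152) (nat_lit 0) (XT.lf (nat_lit 0) (nat_lit 6820125727) (nat_lit 228) (nat_lit 12849659808) (nat_lit 304) (nat_lit 23777354034) (nat_lit 41) (nat_lit 5) (nat_lit 44) (nat_lit 5) (nat_lit 45) (nat_lit 5) (nat_lit 304) (nat_lit 262) (nat_lit 154)) (XT.nd (nat_lit 78) (nat_lit 152) (nat_lit 0) (XT.lf (nat_lit 0) (nat_lit 30674492165) (nat_lit 304) (nat_lit 9876617553) (nat_lit 76) (nat_lit 4516260785) (nat_lit 41) (nat_lit 5) (nat_lit 45)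 (nat_lit 5) (nat_lit 42) (nat_lit 5) (nat_lit 305) (nat_lit 262) (nat_lit 153)) (XT.lf (nat_lit 0) (nat_lit 18427829909) (nat_lit 152) (nat_lit 24099850832) (nat_lit 228) (nat_lit 4231993999) (nat_lit 39) (nat_lit 5) (nat_lit 41) (nat_lit 5) (nat_lit 42) (nat_lit 5) (nat_lit 306) (nat_lit 262) (nat_lit 152))))) (XT.nd (nat_lit 234) (nat_lit 228) (nat_lit 0) (XT.nd (nat_lit 78) (nat_lit 380) (nat_lit 0) (XT.lf (nat_lit 0) (nat_lit 6405610163) (nat_lit 228) (nat_lit 255694056) (nat_lit 76) (nat_lit 41870613659) (nat_lit 38) (nat_lit 5) (nat_lit 41) (nat_lit 5) (nat_lit 39) (nat_lit 5) (nat_lit 307) (nat_lit 262) (nat_lit 151)) (XT.nd (nat_lit 78) (nat_lit 152) (nat_lit 0) (XT.lf (nat_lit 0) (nat_lit 17881549804) (nat_lit 304) (nat_lit 20748812758) (nat_lit 76) (nat_lit 11749342263) (nat_lit 35) (nat_lit 5) (nat_lit 39) (nat_lit 5) (nat_lit 36) (nat_lit 5) (nat_lit 308) (nat_lit 262) (nat_lit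 150)) (XT.lf (nat_lit 0) (nat_lit 8789227258) (nat_lit 152) (nat_lit 21288665334) (nat_lit 228) (nat_lit 22237598020) (nat_lit 33) (nat_lit 5) (nat_lit 35) (nat_lit 5) (nat_lit 36) (nat_lit 5) (nat_lit 309) (nat_lit 262) (nat_lit 149)))) (XT.nd (nat_lit 78) (nat_lit 228) (nat_lit 0) (XT.lf (nat_lit 0) (nat_lit 40225742436) (nat_lit 152) (nat_lit 2864381843) (nat_lit 228) (nat_lit 11251766567) (nat_lit 33) (nat_lit 5) (nat_lit 35) (nat_lit 5) (nat_lit 36) (nat_lit 5) (nat_lit 310) (nat_lit 262) (nat_lit 148)) (XT.nd (nat_lit 78) (nat_lit 0) (nat_lit 0) (XT.lf (nat_lit 0) (nat_lit 594843282) (nat_lit 228) (nat_lit 39541349604) (nat_lit 76) (nat_lit 16323832769) (nat_lit 30) (nat_lit 5) (nat_lit 33) (nat_lit 5) (nat_lit 31) (nat_lit 5) (nat_lit 311) (nat_lit 262) (nat_lit 147)) (XT.lf (nat_lit 0) (nat_lit 12971862790) (nat_lit 228) (nat_lit 9034834368) (nat_lit 76) (nat_lit 36668910889) (nat_lit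 30) (nat_lit 5) (nat_lit 33) (nat_lit 5) (nat_lit 31) (nat_lit 5) (nat_lit 312) (nat_lit 262) (nat_lit 146)))))) (XT.nd (nat_lit 390) (nat_lit 456) (nat_lit 0) (XT.nd (nat_lit 156) (nat_lit 380) (nat_lit 0) (XT.nd (nat_lit 78) (nat_lit 0) (nat_lit 0) (XT.lf (nat_lit 0) (nat_lit 23443582187) (nat_lit 152) (nat_lit 2742797373) (nat_lit 228) (nat_lit 34809036740) (nat_lit 28) (nat_lit 5) (nat_lit 30) (nat_lit 5) (nat_lit 31) (nat_lit 5) (nat_lit 313) (nat_lit 262) (nat_lit 145)) (XT.lf (nat_lit 0) (nat_lit 40317089045) (nat_lit 228) (nat_lit 5873436512) (nat_lit 76) (nat_lit 17233031244) (nat_lit 28) (nat_lit 5) (nat_lit 31) (nat_lit 5) (nat_lit 29) (nat_lit 5) (nat_lit 314) (nat_lit 262) (nat_lit 144))) (XT.nd (nat_lit 78) (nat_lit 228) (nat_lit 0) (XT.lf (nat_lit 0) (nat_lit 27895304508) (nat_lit 152) (nat_lit 27548641486) (nat_lit 228) (nat_lit 10520475535) (nat_lit 26) (nat_lit 5) (nat_lit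 28) (nat_lit 5) (nat_lit 29) (nat_lit 5) (nat_lit 315) (nat_lit 262) (nat_lit 143)) (XT.nd (nat_lit 78) (nat_lit 152) (nat_lit 0) (XT.lf (nat_lit 0) (nat_lit 2697208559) (nat_lit 228) (nat_lit 5191861916) (nat_lit 76) (nat_lit 60740837700) (nat_lit 25) (nat_lit 5) (nat_lit 28) (nat_lit 5) (nat_lit 26) (nat_lit 5) (nat_lit 316) (nat_lit 262) (nat_lit 142)) (XT.lf (nat_lit 0) (nat_lit 16767278452) (nat_lit 228) (nat_lit 41748623366) (nat_lit 76) (nat_lit 12897374903) (nat_lit 23) (nat_lit 5) (nat_lit 26) (nat_lit 5) (nat_lit 24) (nat_lit 5) (nat_lit 317) (nat_lit 262) (nat_lit 141))))) (XT.nd (nat_lit 234) (nat_lit 304) (nat_lit 0) (XT.nd (nat_lit 78) (nat_lit 152) (nat_lit 0) (XT.lf (nat_lit 0) (nat_lit 31668810721) (nat_lit 228) (nat_lit 8051323624) (nat_lit 76) (nat_lit 34611845250) (nat_lit 23) (nat_lit 5) (nat_lit 26) (nat_lit 5) (nat_lit 24) (nat_lit 5) (nat_lit 318) (nat_lit 262) (nat_lit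 140)) (XT.nd (nat_lit 78) (nat_lit 0) (nat_lit 0) (XT.lf (nat_lit 0) (nat_lit 27865602356) (nat_lit 152) (nat_lit 19712304918) (nat_lit 228) (nat_lit 29810840149) (nat_lit 21) (nat_lit 5) (nat_lit 23) (nat_lit 5) (nat_lit 24) (nat_lit 5) (nat_lit 319) (nat_lit 262) (nat_lit 139)) (XT.lf (nat_lit 0) (nat_lit 64373382001) (nat_lit 228) (nat_lit 14871386727) (nat_lit 76) (nat_lit 1350861446) (nat_lit 21) (nat_lit 5) (nat_lit 24) (nat_lit 5) (nat_lit 22) (nat_lit 4) (nat_lit 320) (nat_lit 262) (nat_lit 138)))) (XT.nd (nat_lit 78) (nat_lit 228) (nat_lit 0) (XT.lf (nat_lit 0) (nat_lit 21729577548) (nat_lit 76) (nat_lit 60681905625) (nat_lit 152) (nat_lit 1539292339) (nat_lit 20) (nat_lit 5) (nat_lit 21) (nat_lit 5) (nat_lit 22) (nat_lit 4) (nat_lit 321) (nat_lit 262) (nat_lit 137)) (XT.nd (nat_lit 78) (nat_lit 152) (nat_lit 0) (XT.lf (nat_lit 0) (nat_lit 13756729423) (nat_lit 152) (nat_lit 27140946977)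 (nat_lit 76) (nat_lit 46567511654) (nat_lit 19) (nat_lit 5) (nat_lit 21) (nat_lit 5) (nat_lit 20) (nat_lit 5) (nat_lit 322) (nat_lit 262) (nat_lit 136)) (XT.lf (nat_lit 0) (nat_lit 9862322839) (nat_lit 152) (nat_lit 20013846163) (nat_lit 228) (nat_lit 61275985007) (nat_lit 17) (nat_lit 5) (nat_lit 19) (nat_lit 5) (nat_lit 20) (nat_lit 5) (nat_lit 323) (nat_lit 262) (nat_lit 135))))))))
noncomputable def xc91 : XT := (XT.nd (nat_lit 34086) (nat_lit 0) (nat_lit 2660) (XT.nd (nat_lit 33228) (nat_lit 0) (nat_lit 8892) (XT.nd (nat_lit 32760) (nat_lit 0) (nat_lit 12160) (XT.nd (nat_lit 156) (nat_lit 304) (nat_lit 0) (XT.nd (nat_lit 78) (nat_lit 0) (nat_lit 0) (XT.lf (nat_lit 0) (nat_lit 47097609073) (nat_lit 228) (nat_lit 45761118726) (nat_lit 76) (nat_lit 2155862984) (nat_lit 17) (nat_lit 5) (nat_lit 20) (nat_lit 5) (nat_lit 18) (nat_lit 4) (nat_lit 324) (nat_lit 262) (nat_lit 134)) (XT.lf (nat_lit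 0) (nat_lit 65377811392) (nat_lit 228) (nat_lit 8665392265) (nat_lit 76) (nat_lit 25021018252) (nat_lit 17) (nat_lit 5) (nat_lit 20) (nat_lit 5) (nat_lit 18) (nat_lit 4) (nat_lit 325) (nat_lit 262) (nat_lit 133))) (XT.nd (nat_lit 78) (nat_lit 228) (nat_lit 0) (XT.lf (nat_lit 0) (nat_lit 30880649400) (nat_lit 76) (nat_lit 53984109210) (nat_lit 152) (nat_lit 18442797002) (nat_lit 16) (nat_lit 5) (nat_lit 17) (nat_lit 5) (nat_lit 18) (nat_lit 4) (nat_lit 326) (nat_lit 262) (nat_lit 132)) (XT.nd (nat_lit 78) (nat_lit 228) (nat_lit 0) (XT.lf (nat_lit 0) (nat_lit 72578213029) (nat_lit 76) (nat_lit 32833063525) (nat_lit 152) (nat_lit 2349225665) (nat_lit 16) (nat_lit 5) (nat_lit 17) (nat_lit 5) (nat_lit 18) (nat_lit 4) (nat_lit 327) (nat_lit 262) (nat_lit 131)) (XT.lf (nat_lit 0) (nat_lit 3853282455) (nat_lit 152) (nat_lit 10445048060) (nat_lit 228) (nat_lit 98132576413) (nat_lit 13) (nat_lit 5)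 (nat_lit 15) (nat_lit 5) (nat_lit 16) (nat_lit 5) (nat_lit 328) (nat_lit 262) (nat_lit 130))))) (XT.nd (nat_lit 234) (nat_lit 0) (nat_lit 152) (XT.nd (nat_lit 78) (nat_lit 0) (nat_lit 76) (XT.lf (nat_lit 0) (nat_lit 1909103484) (nat_lit 1140) (nat_lit 2266245927) (nat_lit 1140) (nat_lit 2266245927) (nat_lit 173) (nat_lit 3) (nat_lit 188) (nat_lit 3) (nat_lit 188) (nat_lit 5) (nat_lit 263) (nat_lit 263) (nat_lit 194)) (XT.nd (nat_lit 78) (nat_lit 0) (nat_lit 0) (XT.lf (nat_lit 0) (nat_lit 4580474719) (nat_lit 1064) (nat_lit 8394249705) (nat_lit 1140) (nat_lit 209303471) (nat_lit 174) (nat_lit 5) (nat_lit 188) (nat_lit 5) (nat_lit 189) (nat_lit 5) (nat_lit 264) (nat_lit 263) (nat_lit 193)) (XT.lf (nat_lit 76) (nat_lit 1088566230) (nat_lit 0) (nat_lit 4394536709) (nat_lit 1140) (nat_lit 8013815880) (nat_lit 175) (nat_lit 5) (nat_lit 174) (nat_lit 5) (nat_lit 189) (nat_lit 5) (nat_lit 265) (nat_lit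 263) (nat_lit 192)))) (XT.nd (nat_lit 78) (nat_lit 0) (nat_lit 0) (XT.lf (nat_lit 0) (nat_lit 6524701110) (nat_lit 1064) (nat_lit 2670167801) (nat_lit 1140) (nat_lit 4627845705) (nat_lit 175) (nat_lit 5) (nat_lit 189) (nat_lit 5) (nat_lit 190) (nat_lit 5) (nat_lit 266) (nat_lit 263) (nat_lit 191)) (XT.nd (nat_lit 78) (nat_lit 0) (nat_lit 76) (XT.lf (nat_lit 76) (nat_lit 7637676877) (nat_lit 0) (nat_lit 62487504) (nat_lit 1140) (nat_lit 6462254157) (nat_lit 176) (nat_lit 5) (nat_lit 175) (nat_lit 5) (nat_lit 190) (nat_lit 5) (nat_lit 267) (nat_lit 263) (nat_lit 190)) (XT.lf (nat_lit 76) (nat_lit 3961349175) (nat_lit 0) (nat_lit 5096112007) (nat_lit 1140) (nat_lit 5458023129) (nat_lit 177) (nat_lit 5) (nat_lit 176) (nat_lit 5) (nat_lit 191) (nat_lit 5) (nat_lit 268) (nat_lit 263) (nat_lit 189)))))) (XT.nd (nat_lit 390) (nat_lit 2584) (nat_lit 0) (XT.nd (nat_lit 156) (nat_lit 988) (nat_lit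 0) (XT.nd (nat_lit 78) (nat_lit 0) (nat_lit 0) (XT.lf (nat_lit 76) (nat_lit 159540969) (nat_lit 0) (nat_lit 10403390611) (nat_lit 1140) (nat_lit 4320927736) (nat_lit 178) (nat_lit 5) (nat_lit 177) (nat_lit 5) (nat_lit 192) (nat_lit 5) (nat_lit 269) (nat_lit 263) (nat_lit 188)) (XT.lf (nat_lit 76) (nat_lit 11554605117) (nat_lit 0) (nat_lit 717174775) (nat_lit 1140) (nat_lit 2995092149) (nat_lit 178) (nat_lit 5) (nat_lit 177) (nat_lit 5) (nat_lit 192) (nat_lit 5) (nat_lit 270) (nat_lit 263) (nat_lit 187))) (XT.nd (nat_lit 78) (nat_lit 1064) (nat_lit 0) (XT.lf (nat_lit 76) (nat_lit 7891138471) (nat_lit 0) (nat_lit 6311766779) (nat_lit 1140) (nat_lit 1462084257) (nat_lit 179) (nat_lit 5) (nat_lit 178) (nat_lit 5) (nat_lit 193) (nat_lit 5) (nat_lit 271) (nat_lit 263) (nat_lit 186)) (XT.nd (nat_lit 78) (nat_lit 0) (nat_lit 0) (XT.lf (nat_lit 0) (nat_lit 238773625) (nat_lit 1140) (nat_lit 11999578307)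 (nat_lit 1216) (nat_lit 3841850666) (nat_lit 164) (nat_lit 5) (nat_lit 179) (nat_lit 5) (nat_lit 180) (nat_lit 5) (nat_lit 272) (nat_lit 263) (nat_lit 185)) (XT.lf (nat_lit 76) (nat_lit 76068651) (nat_lit 0) (nat_lit 2036119516) (nat_lit 1216) (nat_lit 14400073419) (nat_lit 165) (nat_lit 5) (nat_lit 164) (nat_lit 5) (nat_lit 180) (nat_lit 5) (nat_lit 273) (nat_lit 263) (nat_lit 184))))) (XT.nd (nat_lit 234) (nat_lit 1064) (nat_lit 0) (XT.nd (nat_lit 78) (nat_lit 1596) (nat_lit 0) (XT.lf (nat_lit 0) (nat_lit 4260795157) (nat_lit 1140) (nat_lit 4063491671) (nat_lit 76) (nat_lit 8636240646) (nat_lit 165) (nat_lit 5) (nat_lit 180) (nat_lit 5) (nat_lit 166) (nat_lit 5) (nat_lit 274) (nat_lit 263) (nat_lit 183)) (XT.nd (nat_lit 78) (nat_lit 532) (nat_lit 0) (XT.lf (nat_lit 0) (nat_lit 6622814150) (nat_lit 1140) (nat_lit 8390143205) (nat_lit 76) (nat_lit 2415117094) (nat_lit 151) (nat_lit 5) (nat_lit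 166) (nat_lit 5) (nat_lit 152) (nat_lit 5) (nat_lit 275) (nat_lit 263) (nat_lit 182)) (XT.lf (nat_lit 0) (nat_lit 4951796893) (nat_lit 532) (nat_lit 4300674977) (nat_lit 608) (nat_lit 8662085759) (nat_lit 144) (nat_lit 5) (nat_lit 151) (nat_lit 5) (nat_lit 152) (nat_lit 5) (nat_lit 276) (nat_lit 263) (nat_lit 181)))) (XT.nd (nat_lit 78) (nat_lit 532) (nat_lit 0) (XT.lf (nat_lit 0) (nat_lit 636038092) (nat_lit 532) (nat_lit 11514340685) (nat_lit 608) (nat_lit 6270926051) (nat_lit 137) (nat_lit 5) (nat_lit 144) (nat_lit 5) (nat_lit 145) (nat_lit 5) (nat_lit 277) (nat_lit 263) (nat_lit 180)) (XT.nd (nat_lit 78) (nat_lit 532) (nat_lit 0) (XT.lf (nat_lit 0) (nat_lit 15119896404) (nat_lit 532) (nat_lit 227259552) (nat_lit 608) (nat_lit 3601654992) (nat_lit 137) (nat_lit 5) (nat_lit 144) (nat_lit 5) (nat_lit 145) (nat_lit 5) (nat_lit 278) (nat_lit 263) (nat_lit 179)) (XT.lf (nat_lit 0) (nat_lit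 10905157575) (nat_lit 532) (nat_lit 7993810374) (nat_lit 608) (nat_lit 597907410) (nat_lit 130) (nat_lit 5) (nat_lit 137) (nat_lit 5) (nat_lit 138) (nat_lit 5) (nat_lit 279) (nat_lit 263) (nat_lit 178))))))) (XT.nd (nat_lit 858) (nat_lit 2660) (nat_lit 0) (XT.nd (nat_lit 390) (nat_lit 1672) (nat_lit 0) (XT.nd (nat_lit 156) (nat_lit 836) (nat_lit 0) (XT.nd (nat_lit 78) (nat_lit 456) (nat_lit 0) (XT.lf (nat_lit 0) (nat_lit 2626813145) (nat_lit 608) (nat_lit 13643729070) (nat_lit 76) (nat_lit 3797479724) (nat_lit 122) (nat_lit 5) (nat_lit 130) (nat_lit 5) (nat_lit 123) (nat_lit 5) (nat_lit 280) (nat_lit 263) (nat_lit 177)) (XT.lf (nat_lit 0) (nat_lit 1628732306) (nat_lit 456) (nat_lit 4537446936) (nat_lit 532) (nat_lit 14496429979) (nat_lit 116) (nat_lit 5) (nat_lit 122) (nat_lit 5) (nat_lit 123) (nat_lit 5) (nat_lit 281) (nat_lit 263) (nat_lit 176))) (XT.nd (nat_lit 78) (nat_lit 836) (nat_lit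 0) (XT.lf (nat_lit 0) (nat_lit 10079907813) (nat_lit 532) (nat_lit 3430005700) (nat_lit 76) (nat_lit 7771123123) (nat_lit 116) (nat_lit 5) (nat_lit 123) (nat_lit 5) (nat_lit 117) (nat_lit 5) (nat_lit 282) (nat_lit 263) (nat_lit 175)) (XT.nd (nat_lit 78) (nat_lit 380) (nat_lit 0) (XT.lf (nat_lit 0) (nat_lit 13144738872) (nat_lit 456) (nat_lit 1198398823) (nat_lit 532) (nat_lit 7582664325) (nat_lit 110) (nat_lit 5) (nat_lit 116) (nat_lit 5) (nat_lit 117) (nat_lit 5) (nat_lit 283) (nat_lit 263) (nat_lit 174)) (XT.lf (nat_lit 0) (nat_lit 8041994931) (nat_lit 380) (nat_lit 10985571595) (nat_lit 456) (nat_lit 3569027587) (nat_lit 105) (nat_lit 5) (nat_lit 110) (nat_lit 5) (nat_lit 111) (nat_lit 5) (nat_lit 284) (nat_lit 263) (nat_lit 173))))) (XT.nd (nat_lit 234) (nat_lit 760) (nat_lit 0) (XT.nd (nat_lit 78) (nat_lit 380) (nat_lit 0) (XT.lf (nat_lit 0) (nat_lit 761771123) (nat_lit 532) (nat_lit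 20711996839) (nat_lit 76) (nat_lit 1823126937) (nat_lit 98) (nat_lit 5) (nat_lit 105) (nat_lit 5) (nat_lit 99) (nat_lit 5) (nat_lit 285) (nat_lit 263) (nat_lit 172)) (XT.nd (nat_lit 78) (nat_lit 380) (nat_lit 0) (XT.lf (nat_lit 0) (nat_lit 5481572217) (nat_lit 532) (nat_lit 3310303103) (nat_lit 76) (nat_lit 15231913067) (nat_lit 98) (nat_lit 5) (nat_lit 105) (nat_lit 5) (nat_lit 99) (nat_lit 5) (nat_lit 286) (nat_lit 263) (nat_lit 171)) (XT.lf (nat_lit 0) (nat_lit 10612960385) (nat_lit 456) (nat_lit 9587957077) (nat_lit 76) (nat_lit 4580865973) (nat_lit 93) (nat_lit 5) (nat_lit 99) (nat_lit 5) (nat_lit 94) (nat_lit 5) (nat_lit 287) (nat_lit 263) (nat_lit 170)))) (XT.nd (nat_lit 78) (nat_lit 380) (nat_lit 0) (XT.lf (nat_lit 0) (nat_lit 9187187678) (nat_lit 380) (nat_lit 7009933882) (nat_lit 456) (nat_lit 9374694183) (nat_lit 88) (nat_lit 5) (nat_lit 93) (nat_lit 5) (nat_lit 94) (nat_lit 5)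 (nat_lit 288) (nat_lit 263) (nat_lit 169)) (XT.nd (nat_lit 78) (nat_lit 76) (nat_lit 0) (XT.lf (nat_lit 0) (nat_lit 2669837732) (nat_lit 304) (nat_lit 19567007206) (nat_lit 380) (nat_lit 4159236593) (nat_lit 84) (nat_lit 5) (nat_lit 88) (nat_lit 5) (nat_lit 89) (nat_lit 5) (nat_lit 289) (nat_lit 263) (nat_lit 168)) (XT.lf (nat_lit 0) (nat_lit 1518006753) (nat_lit 380) (nat_lit 4340528305) (nat_lit 76) (nat_lit 21395865189) (nat_lit 83) (nat_lit 5) (nat_lit 88) (nat_lit 5) (nat_lit 84) (nat_lit 5) (nat_lit 290) (nat_lit 263) (nat_lit 167)))))) (XT.nd (nat_lit 468) (nat_lit 988) (nat_lit 0) (XT.nd (nat_lit 234) (nat_lit 684) (nat_lit 0) (XT.nd (nat_lit 78) (nat_lit 608) (nat_lit 0) (XT.lf (nat_lit 0) (nat_lit 7620597642) (nat_lit 456) (nat_lit 11961547671) (nat_lit 76) (nat_lit 8565448831) (nat_lit 78) (nat_lit 5) (nat_lit 84) (nat_lit 5) (nat_lit 79) (nat_lit 5) (nat_lit 291) (nat_lit 263)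 (nat_lit 166)) (XT.nd (nat_lit 78) (nat_lit 304) (nat_lit 0) (XT.lf (nat_lit 0) (nat_lit 8841130038) (nat_lit 304) (nat_lit 5363191161) (nat_lit 380) (nat_lit 14875865305) (nat_lit 74) (nat_lit 5) (nat_lit 78) (nat_lit 5) (nat_lit 79) (nat_lit 5) (nat_lit 292) (nat_lit 263) (nat_lit 165)) (XT.lf (nat_lit 0) (nat_lit 783059239) (nat_lit 304) (nat_lit 20545202512) (nat_lit 380) (nat_lit 8724833770) (nat_lit 70) (nat_lit 5) (nat_lit 74) (nat_lit 5) (nat_lit 75) (nat_lit 5) (nat_lit 293) (nat_lit 263) (nat_lit 164)))) (XT.nd (nat_lit 78) (nat_lit 684) (nat_lit 0) (XT.lf (nat_lit 0) (nat_lit 23207272862) (nat_lit 304) (nat_lit 5850709891) (nat_lit 380) (nat_lit 2009196841) (nat_lit 70) (nat_lit 5) (nat_lit 74) (nat_lit 5) (nat_lit 75) (nat_lit 5) (nat_lit 294) (nat_lit 263) (nat_lit 163)) (XT.nd (nat_lit 78) (nat_lit 304) (nat_lit 0) (XT.lf (nat_lit 0) (nat_lit 5168557682) (nat_lit 380) (nat_lit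 17374768116) (nat_lit 76) (nat_lit 9580461994) (nat_lit 65) (nat_lit 5) (nat_lit 70) (nat_lit 5) (nat_lit 66) (nat_lit 5) (nat_lit 295) (nat_lit 263) (nat_lit 162)) (XT.lf (nat_lit 0) (nat_lit 5431654337) (nat_lit 304) (nat_lit 7413825507) (nat_lit 380) (nat_lit 20381709837) (nat_lit 61) (nat_lit 5) (nat_lit 65) (nat_lit 5) (nat_lit 66) (nat_lit 5) (nat_lit 296) (nat_lit 263) (nat_lit 161))))) (XT.nd (nat_lit 234) (nat_lit 456) (nat_lit 0) (XT.nd (nat_lit 78) (nat_lit 532) (nat_lit 0) (XT.lf (nat_lit 0) (nat_lit 21157142768) (nat_lit 380) (nat_lit 4738018333) (nat_lit 76) (nat_lit 8483088070) (nat_lit 61) (nat_lit 5) (nat_lit 66) (nat_lit 5) (nat_lit 62) (nat_lit 5) (nat_lit 297) (nat_lit 263) (nat_lit 160)) (XT.nd (nat_lit 78) (nat_lit 304) (nat_lit 0) (XT.lf (nat_lit 0) (nat_lit 19768158183) (nat_lit 228) (nat_lit 10370442290) (nat_lit 304) (nat_lit 5440648480) (nat_lit 58) (nat_lit 5)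 (nat_lit 61) (nat_lit 5) (nat_lit 62) (nat_lit 5) (nat_lit 298) (nat_lit 263) (nat_lit 159)) (XT.lf (nat_lit 0) (nat_lit 2858479236) (nat_lit 304) (nat_lit 28002658972) (nat_lit 76) (nat_lit 5972899328) (nat_lit 54) (nat_lit 5) (nat_lit 58) (nat_lit 5) (nat_lit 55) (nat_lit 5) (nat_lit 299) (nat_lit 263) (nat_lit 158)))) (XT.nd (nat_lit 78) (nat_lit 456) (nat_lit 0) (XT.lf (nat_lit 0) (nat_lit 11720054490) (nat_lit 304) (nat_lit 3286265637) (nat_lit 76) (nat_lit 23135841057) (nat_lit 54) (nat_lit 5) (nat_lit 58) (nat_lit 5) (nat_lit 55) (nat_lit 5) (nat_lit 300) (nat_lit 263) (nat_lit 157)) (XT.nd (nat_lit 78) (nat_lit 228) (nat_lit 0) (XT.lf (nat_lit 0) (nat_lit 21255120243) (nat_lit 304) (nat_lit 16424556167) (nat_lit 76) (nat_lit 1829113711) (nat_lit 51) (nat_lit 5) (nat_lit 55) (nat_lit 5) (nat_lit 52) (nat_lit 5) (nat_lit 301) (nat_lit 263) (nat_lit 156)) (XT.lf (nat_lit 0) (nat_lit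 9927210614) (nat_lit 228) (nat_lit 21611467213) (nat_lit 304) (nat_lit 9396931439) (nat_lit 48) (nat_lit 5) (nat_lit 51) (nat_lit 5) (nat_lit 52) (nat_lit 5) (nat_lit 302) (nat_lit 263) (nat_lit 155))))))))
noncomputable def xc92 : XT := (XT.nd (nat_lit 1716) (nat_lit 76) (nat_lit 0) (XT.nd (nat_lit 858) (nat_lit 988) (nat_lit 0) (XT.nd (nat_lit 390) (nat_lit 684) (nat_lit 0) (XT.nd (nat_lit 156) (nat_lit 380) (nat_lit 0) (XT.nd (nat_lit 78) (nat_lit 228) (nat_lit 0) (XT.lf (nat_lit 0) (nat_lit 66193989) (nat_lit 304) (nat_lit 4503341088) (nat_lit 76) (nat_lit 37859422948) (nat_lit 47) (nat_lit 5) (nat_lit 51) (nat_lit 5) (nat_lit 48) (nat_lit 5) (nat_lit 303) (nat_lit 263) (nat_lit 154)) (XT.lf (nat_lit 0) (nat_lit 10160144657) (nat_lit 304) (nat_lit 20437618555) (nat_lit 76) (nat_lit 13385869098) (nat_lit 44) (nat_lit 5) (nat_lit 48) (nat_lit 5) (nat_lit 45) (nat_lit 5) (nat_lit 304) (nat_lit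 263) (nat_lit 153))) (XT.nd (nat_lit 78) (nat_lit 152) (nat_lit 0) (XT.lf (nat_lit 0) (nat_lit 7565452665) (nat_lit 228) (nat_lit 13350585211) (nat_lit 304) (nat_lit 24695294236) (nat_lit 41) (nat_lit 5) (nat_lit 44) (nat_lit 5) (nat_lit 45) (nat_lit 5) (nat_lit 305) (nat_lit 263) (nat_lit 152)) (XT.nd (nat_lit 78) (nat_lit 152) (nat_lit 0) (XT.lf (nat_lit 0) (nat_lit 32459763252) (nat_lit 304) (nat_lit 9978901432) (nat_lit 76) (nat_lit 4874259814) (nat_lit 41) (nat_lit 5) (nat_lit 45) (nat_lit 5) (nat_lit 42) (nat_lit 5) (nat_lit 306) (nat_lit 263) (nat_lit 151)) (XT.lf (nat_lit 0) (nat_lit 19729544787) (nat_lit 152) (nat_lit 25167743967) (nat_lit 228) (nat_lit 4192817635) (nat_lit 39) (nat_lit 5) (nat_lit 41) (nat_lit 5) (nat_lit 42) (nat_lit 5) (nat_lit 307) (nat_lit 263) (nat_lit 150))))) (XT.nd (nat_lit 234) (nat_lit 228) (nat_lit 0) (XT.nd (nat_lit 78) (nat_lit 152) (nat_lit 0) (XT.lf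 (nat_lit 0) (nat_lit 100593571) (nat_lit 228) (nat_lit 6860437894) (nat_lit 304) (nat_lit 43990191959) (nat_lit 35) (nat_lit 5) (nat_lit 38) (nat_lit 5) (nat_lit 39) (nat_lit 5) (nat_lit 308) (nat_lit 263) (nat_lit 149)) (XT.nd (nat_lit 78) (nat_lit 152) (nat_lit 0) (XT.lf (nat_lit 0) (nat_lit 19003328658) (nat_lit 304) (nat_lit 21423899678) (nat_lit 76) (nat_lit 12464405810) (nat_lit 35) (nat_lit 5) (nat_lit 39) (nat_lit 5) (nat_lit 36) (nat_lit 5) (nat_lit 309) (nat_lit 263) (nat_lit 148)) (XT.lf (nat_lit 0) (nat_lit 9580655541) (nat_lit 152) (nat_lit 22221373442) (nat_lit 228) (nat_lit 23122414734) (nat_lit 33) (nat_lit 5) (nat_lit 35) (nat_lit 5) (nat_lit 36) (nat_lit 5) (nat_lit 310) (nat_lit 263) (nat_lit 147)))) (XT.nd (nat_lit 78) (nat_lit 228) (nat_lit 0) (XT.lf (nat_lit 0) (nat_lit 42572236149) (nat_lit 152) (nat_lit 2882148404) (nat_lit 228) (nat_lit 11598104241) (nat_lit 33)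 (nat_lit 5) (nat_lit 35) (nat_lit 5) (nat_lit 36) (nat_lit 5) (nat_lit 311) (nat_lit 263) (nat_lit 146)) (XT.nd (nat_lit 78) (nat_lit 0) (nat_lit 0) (XT.lf (nat_lit 0) (nat_lit 830890162) (nat_lit 228) (nat_lit 41183385641) (nat_lit 76) (nat_lit 17262373392) (nat_lit 30) (nat_lit 5) (nat_lit 33) (nat_lit 5) (nat_lit 31) (nat_lit 5) (nat_lit 312) (nat_lit 263) (nat_lit 145)) (XT.lf (nat_lit 0) (nat_lit 13816936611) (nat_lit 228) (nat_lit 9167498521) (nat_lit 76) (nat_lit 38618879276) (nat_lit 30) (nat_lit 5) (nat_lit 33) (nat_lit 5) (nat_lit 31) (nat_lit 5) (nat_lit 313) (nat_lit 263) (nat_lit 144)))))) (XT.nd (nat_lit 390) (nat_lit 456) (nat_lit 0) (XT.nd (nat_lit 156) (nat_lit 380) (nat_lit 0) (XT.nd (nat_lit 78) (nat_lit 0) (nat_lit 0) (XT.lf (nat_lit 0) (nat_lit 24925692567) (nat_lit 152) (nat_lit 2760109678) (nat_lit 228) (nat_lit 36353510691) (nat_lit 28) (nat_lit 5) (nat_lit 30) (nat_lit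 5) (nat_lit 31) (nat_lit 5) (nat_lit 314) (nat_lit 263) (nat_lit 143)) (XT.lf (nat_lit 0) (nat_lit 42515091653) (nat_lit 228) (nat_lit 5867438248) (nat_lit 76) (nat_lit 18206577374) (nat_lit 28) (nat_lit 5) (nat_lit 31) (nat_lit 5) (nat_lit 29) (nat_lit 5) (nat_lit 315) (nat_lit 263) (nat_lit 142))) (XT.nd (nat_lit 78) (nat_lit 228) (nat_lit 0) (XT.lf (nat_lit 0) (nat_lit 29581149839) (nat_lit 152) (nat_lit 28811265929) (nat_lit 228) (nat_lit 10864783501) (nat_lit 26) (nat_lit 5) (nat_lit 28) (nat_lit 5) (nat_lit 29) (nat_lit 5) (nat_lit 316) (nat_lit 263) (nat_lit 141)) (XT.nd (nat_lit 78) (nat_lit 152) (nat_lit 0) (XT.lf (nat_lit 0) (nat_lit 3001754588) (nat_lit 228) (nat_lit 5170715316) (nat_lit 76) (nat_lit 63883699641) (nat_lit 25) (nat_lit 5) (nat_lit 28) (nat_lit 5) (nat_lit 26) (nat_lit 5) (nat_lit 317) (nat_lit 263) (nat_lit 140)) (XT.lf (nat_lit 0) (nat_lit 17770911634) (nat_lit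 228) (nat_lit 43559341388) (nat_lit 76) (nat_lit 13648592819) (nat_lit 23) (nat_lit 5) (nat_lit 26) (nat_lit 5) (nat_lit 24) (nat_lit 5) (nat_lit 318) (nat_lit 263) (nat_lit 139))))) (XT.nd (nat_lit 234) (nat_lit 304) (nat_lit 0) (XT.nd (nat_lit 78) (nat_lit 152) (nat_lit 0) (XT.lf (nat_lit 0) (nat_lit 33409650551) (nat_lit 228) (nat_lit 8190353476) (nat_lit 76) (nat_lit 36443722437) (nat_lit 23) (nat_lit 5) (nat_lit 26) (nat_lit 5) (nat_lit 24) (nat_lit 5) (nat_lit 319) (nat_lit 263) (nat_lit 138)) (XT.nd (nat_lit 78) (nat_lit 0) (nat_lit 0) (XT.lf (nat_lit 0) (nat_lit 29514864587) (nat_lit 152) (nat_lit 20594302797) (nat_lit 228) (nat_lit 31144322533) (nat_lit 21) (nat_lit 5) (nat_lit 23) (nat_lit 5) (nat_lit 24) (nat_lit 5) (nat_lit 320) (nat_lit 263) (nat_lit 137)) (XT.lf (nat_lit 0) (nat_lit 67738108987) (nat_lit 228) (nat_lit 15367640866) (nat_lit 76) (nat_lit 1515162060) (nat_lit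 21) (nat_lit 5) (nat_lit 24) (nat_lit 5) (nat_lit 22) (nat_lit 4) (nat_lit 321) (nat_lit 263) (nat_lit 136)))) (XT.nd (nat_lit 78) (nat_lit 228) (nat_lit 0) (XT.lf (nat_lit 0) (nat_lit 23056282383) (nat_lit 76) (nat_lit 63617186896) (nat_lit 152) (nat_lit 1470490237) (nat_lit 20) (nat_lit 5) (nat_lit 21) (nat_lit 5) (nat_lit 22) (nat_lit 4) (nat_lit 322) (nat_lit 263) (nat_lit 135)) (XT.nd (nat_lit 78) (nat_lit 152) (nat_lit 0) (XT.lf (nat_lit 0) (nat_lit 14580682356) (nat_lit 152) (nat_lit 28266394775) (nat_lit 76) (nat_lit 48987182892) (nat_lit 19) (nat_lit 5) (nat_lit 21) (nat_lit 5) (nat_lit 20) (nat_lit 5) (nat_lit 323) (nat_lit 263) (nat_lit 134)) (XT.lf (nat_lit 0) (nat_lit 10580399778) (nat_lit 152) (nat_lit 20921374860) (nat_lit 228) (nat_lit 64203934163) (nat_lit 17) (nat_lit 5) (nat_lit 19) (nat_lit 5) (nat_lit 20) (nat_lit 5) (nat_lit 324) (nat_lit 263) (nat_lit 133))))))) (XT.nd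 (nat_lit 33306) (nat_lit 0) (nat_lit 8056) (XT.nd (nat_lit 32838) (nat_lit 0) (nat_lit 11932) (XT.nd (nat_lit 156) (nat_lit 76) (nat_lit 0) (XT.nd (nat_lit 78) (nat_lit 0) (nat_lit 0) (XT.lf (nat_lit 0) (nat_lit 49578863557) (nat_lit 228) (nat_lit 47831919273) (nat_lit 76) (nat_lit 2350651994) (nat_lit 17) (nat_lit 5) (nat_lit 20) (nat_lit 5) (nat_lit 18) (nat_lit 4) (nat_lit 325) (nat_lit 263) (nat_lit 132)) (XT.lf (nat_lit 0) (nat_lit 68767058181) (nat_lit 228) (nat_lit 8891751984) (nat_lit 76) (nat_lit 26354922364) (nat_lit 17) (nat_lit 5) (nat_lit 20) (nat_lit 5) (nat_lit 18) (nat_lit 4) (nat_lit 326) (nat_lit 263) (nat_lit 131))) (XT.nd (nat_lit 78) (nat_lit 0) (nat_lit 0) (XT.lf (nat_lit 0) (nat_lit 32625660734) (nat_lit 76) (nat_lit 56598892709) (nat_lit 152) (nat_lit 19244797730) (nat_lit 16) (nat_lit 5) (nat_lit 17) (nat_lit 5) (nat_lit 18) (nat_lit 4) (nat_lit 327) (nat_lit 263)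 (nat_lit 130)) (XT.nd (nat_lit 32526) (nat_lit 0) (nat_lit 11932) (XT.lf (nat_lit 0) (nat_lit 76398532122) (nat_lit 76) (nat_lit 34394314833) (nat_lit 152) (nat_lit 2352268736) (nat_lit 16) (nat_lit 5) (nat_lit 17) (nat_lit 5) (nat_lit 18) (nat_lit 4) (nat_lit 328) (nat_lit 263) (nat_lit 129)) (XT.lf (nat_lit 0) (nat_lit 2613597036) (nat_lit 1140) (nat_lit 2065294038) (nat_lit 1140) (nat_lit 2065294038) (nat_lit 173) (nat_lit 3) (nat_lit 188) (nat_lit 3) (nat_lit 188) (nat_lit 5) (nat_lit 264) (nat_lit 264) (nat_lit 192))))) (XT.nd (nat_lit 234) (nat_lit 0) (nat_lit 152) (XT.nd (nat_lit 78) (nat_lit 0) (nat_lit 76) (XT.lf (nat_lit 76) (nat_lit 5641998064) (nat_lit 0) (nat_lit 331287509) (nat_lit 1140) (nat_lit 7832708499) (nat_lit 174) (nat_lit 5) (nat_lit 173) (nat_lit 3) (nat_lit 188) (nat_lit 5) (nat_lit 265) (nat_lit 264) (nat_lit 191)) (XT.nd (nat_lit 78) (nat_lit 0) (nat_lit 76) (XT.lf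 (nat_lit 76) (nat_lit 1777422827) (nat_lit 0) (nat_lit 5091269563) (nat_lit 1140) (nat_lit 7267518290) (nat_lit 175) (nat_lit 5) (nat_lit 174) (nat_lit 5) (nat_lit 189) (nat_lit 5) (nat_lit 266) (nat_lit 264) (nat_lit 190)) (XT.lf (nat_lit 0) (nat_lit 7905078098) (nat_lit 1064) (nat_lit 2161230821) (nat_lit 1140) (nat_lit 4413811407) (nat_lit 175) (nat_lit 5) (nat_lit 189) (nat_lit 5) (nat_lit 190) (nat_lit 5) (nat_lit 267) (nat_lit 264) (nat_lit 189)))) (XT.nd (nat_lit 78) (nat_lit 0) (nat_lit 76) (XT.lf (nat_lit 76) (nat_lit 8643590523) (nat_lit 0) (nat_lit 451525330) (nat_lit 1140) (nat_lit 5743119825) (nat_lit 176) (nat_lit 5) (nat_lit 175) (nat_lit 5) (nat_lit 190) (nat_lit 5) (nat_lit 268) (nat_lit 264) (nat_lit 188)) (XT.nd (nat_lit 78) (nat_lit 0) (nat_lit 76) (XT.lf (nat_lit 76) (nat_lit 4800539852) (nat_lit 0) (nat_lit 5674274990) (nat_lit 1140) (nat_lit 4735599277) (nat_lit 177)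 (nat_lit 5) (nat_lit 176) (nat_lit 5) (nat_lit 191) (nat_lit 5) (nat_lit 269) (nat_lit 264) (nat_lit 187)) (XT.lf (nat_lit 76) (nat_lit 823243037) (nat_lit 0) (nat_lit 11189731011) (nat_lit 1140) (nat_lit 3585602320) (nat_lit 178) (nat_lit 5) (nat_lit 177) (nat_lit 5) (nat_lit 192) (nat_lit 5) (nat_lit 270) (nat_lit 264) (nat_lit 186)))))) (XT.nd (nat_lit 390) (nat_lit 3192) (nat_lit 0) (XT.nd (nat_lit 156) (nat_lit 988) (nat_lit 0) (XT.nd (nat_lit 78) (nat_lit 0) (nat_lit 76) (XT.lf (nat_lit 76) (nat_lit 12756835390) (nat_lit 0) (nat_lit 1006529581) (nat_lit 1140) (nat_lit 2238778374) (nat_lit 178) (nat_lit 5) (nat_lit 177) (nat_lit 5) (nat_lit 192) (nat_lit 5) (nat_lit 271) (nat_lit 264) (nat_lit 185)) (XT.lf (nat_lit 76) (nat_lit 8921928767) (nat_lit 0) (nat_lit 6831103635) (nat_lit 1140) (nat_lit 668357205) (nat_lit 179) (nat_lit 5) (nat_lit 178) (nat_lit 5) (nat_lit 193) (nat_lit 5)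 (nat_lit 272) (nat_lit 264) (nat_lit 184))) (XT.nd (nat_lit 78) (nat_lit 0) (nat_lit 0) (XT.lf (nat_lit 0) (nat_lit 1064543626) (nat_lit 1140) (nat_lit 11935856769) (nat_lit 1216) (nat_lit 3857871809) (nat_lit 164) (nat_lit 5) (nat_lit 179) (nat_lit 5) (nat_lit 180) (nat_lit 5) (nat_lit 273) (nat_lit 264) (nat_lit 183)) (XT.nd (nat_lit 78) (nat_lit 0) (nat_lit 76) (XT.lf (nat_lit 76) (nat_lit 724547696) (nat_lit 0) (nat_lit 2274524343) (nat_lit 1216) (nat_lit 14313911455) (nat_lit 165) (nat_lit 5) (nat_lit 164) (nat_lit 5) (nat_lit 180) (nat_lit 5) (nat_lit 274) (nat_lit 264) (nat_lit 182)) (XT.lf (nat_lit 0) (nat_lit 5216655288) (nat_lit 1140) (nat_lit 3627733058) (nat_lit 76) (nat_lit 8940497141) (nat_lit 165) (nat_lit 5) (nat_lit 180) (nat_lit 5) (nat_lit 166) (nat_lit 5) (nat_lit 275) (nat_lit 264) (nat_lit 181))))) (XT.nd (nat_lit 234) (nat_lit 1140) (nat_lit 0) (XT.nd (nat_lit 78)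 (nat_lit 1064) (nat_lit 0) (XT.lf (nat_lit 0) (nat_lit 7666476588) (nat_lit 1140) (nat_lit 8165419784) (nat_lit 76) (nat_lit 2444888290) (nat_lit 151) (nat_lit 5) (nat_lit 166) (nat_lit 5) (nat_lit 152) (nat_lit 5) (nat_lit 276) (nat_lit 264) (nat_lit 180)) (XT.nd (nat_lit 78) (nat_lit 532) (nat_lit 0) (XT.lf (nat_lit 0) (nat_lit 5825150579) (nat_lit 532) (nat_lit 4574552234) (nat_lit 608) (nat_lit 8388789375) (nat_lit 144) (nat_lit 5) (nat_lit 151) (nat_lit 5) (nat_lit 152) (nat_lit 5) (nat_lit 277) (nat_lit 264) (nat_lit 179)) (XT.lf (nat_lit 0) (nat_lit 1297384491) (nat_lit 532) (nat_lit 12118033087) (nat_lit 608) (nat_lit 5906031560) (nat_lit 137) (nat_lit 5) (nat_lit 144) (nat_lit 5) (nat_lit 145) (nat_lit 5) (nat_lit 278) (nat_lit 264) (nat_lit 178)))) (XT.nd (nat_lit 78) (nat_lit 1140) (nat_lit 0) (XT.lf (nat_lit 0) (nat_lit 16475457410) (nat_lit 532) (nat_lit 265265736) (nat_lit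 608) (nat_lit 3135603653) (nat_lit 137) (nat_lit 5) (nat_lit 144) (nat_lit 5) (nat_lit 145) (nat_lit 5) (nat_lit 279) (nat_lit 264) (nat_lit 177)) (XT.nd (nat_lit 78) (nat_lit 608) (nat_lit 0) (XT.lf (nat_lit 0) (nat_lit 12052397524) (nat_lit 532) (nat_lit 8393451426) (nat_lit 608) (nat_lit 6727996) (nat_lit 130) (nat_lit 5) (nat_lit 137) (nat_lit 5) (nat_lit 138) (nat_lit 5) (nat_lit 280) (nat_lit 264) (nat_lit 176)) (XT.lf (nat_lit 0) (nat_lit 3343968659) (nat_lit 608) (nat_lit 13709934770) (nat_lit 76) (nat_lit 3998942660) (nat_lit 122) (nat_lit 5) (nat_lit 130) (nat_lit 5) (nat_lit 123) (nat_lit 5) (nat_lit 281) (nat_lit 264) (nat_lit 175))))))))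
noncomputable def xc93 : XT := (XT.nd (nat_lit 1716) (nat_lit 2356) (nat_lit 0) (XT.nd (nat_lit 858) (nat_lit 2280) (nat_lit 0) (XT.nd (nat_lit 390) (nat_lit 1520) (nat_lit 0) (XT.nd (nat_lit 156) (nat_lit 1368) (nat_lit 0) (XT.nd (nat_lit 78) (nat_lit 0) (nat_lit 0) (XT.lf (nat_lit 0) (nat_lit 2308492711) (nat_lit 456) (nat_lit 4729665859) (nat_lit 532) (nat_lit 14639716238) (nat_lit 116) (nat_lit 5) (nat_lit 122) (nat_lit 5) (nat_lit 123) (nat_lit 5) (nat_lit 282) (nat_lit 264) (nat_lit 174)) (XT.lf (nat_lit 0) (nat_lit 11121049371) (nat_lit 532) (nat_lit 3014976886) (nat_lit 76) (nat_lit 8192038528) (nat_lit 116) (nat_lit 5) (nat_lit 123) (nat_lit 5) (nat_lit 117) (nat_lit 5) (nat_lit 283) (nat_lit 264) (nat_lit 173))) (XT.nd (nat_lit 78) (nat_lit 912) (nat_lit 0) (XT.lf (nat_lit 0) (nat_lit 14371692175) (nat_lit 456) (nat_lit 1205646645) (nat_lit 532) (nat_lit 7428375975) (nat_lit 110)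 (nat_lit 5) (nat_lit 116) (nat_lit 5) (nat_lit 117) (nat_lit 5) (nat_lit 284) (nat_lit 264) (nat_lit 172)) (XT.nd (nat_lit 78) (nat_lit 532) (nat_lit 0) (XT.lf (nat_lit 0) (nat_lit 9012896302) (nat_lit 380) (nat_lit 11464421512) (nat_lit 456) (nat_lit 3233330056) (nat_lit 105) (nat_lit 5) (nat_lit 110) (nat_lit 5) (nat_lit 111) (nat_lit 5) (nat_lit 285) (nat_lit 264) (nat_lit 171)) (XT.lf (nat_lit 0) (nat_lit 1286127215) (nat_lit 532) (nat_lit 21169993219) (nat_lit 76) (nat_lit 1990268575) (nat_lit 98) (nat_lit 5) (nat_lit 105) (nat_lit 5) (nat_lit 99) (nat_lit 5) (nat_lit 286) (nat_lit 264) (nat_lit 170))))) (XT.nd (nat_lit 234) (nat_lit 760) (nat_lit 0) (XT.nd (nat_lit 78) (nat_lit 760) (nat_lit 0) (XT.lf (nat_lit 0) (nat_lit 6218762767) (nat_lit 532) (nat_lit 2925719723) (nat_lit 76) (nat_lit 16065875665) (nat_lit 98) (nat_lit 5) (nat_lit 105) (nat_lit 5) (nat_lit 99) (nat_lit 5) (nat_lit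 287) (nat_lit 264) (nat_lit 169)) (XT.nd (nat_lit 78) (nat_lit 380) (nat_lit 0) (XT.lf (nat_lit 0) (nat_lit 11590650908) (nat_lit 456) (nat_lit 9519794499) (nat_lit 76) (nat_lit 4896324218) (nat_lit 93) (nat_lit 5) (nat_lit 99) (nat_lit 5) (nat_lit 94) (nat_lit 5) (nat_lit 288) (nat_lit 264) (nat_lit 168)) (XT.lf (nat_lit 0) (nat_lit 10178411784) (nat_lit 380) (nat_lit 7259433228) (nat_lit 456) (nat_lit 9398976728) (nat_lit 88) (nat_lit 5) (nat_lit 93) (nat_lit 5) (nat_lit 94) (nat_lit 5) (nat_lit 289) (nat_lit 264) (nat_lit 167)))) (XT.nd (nat_lit 78) (nat_lit 456) (nat_lit 0) (XT.lf (nat_lit 0) (nat_lit 3332200912) (nat_lit 304) (nat_lit 20432844606) (nat_lit 380) (nat_lit 3937721942) (nat_lit 84) (nat_lit 5) (nat_lit 88) (nat_lit 5) (nat_lit 89) (nat_lit 5) (nat_lit 290) (nat_lit 264) (nat_lit 166)) (XT.nd (nat_lit 78) (nat_lit 380) (nat_lit 0) (XT.lf (nat_lit 0) (nat_lit 1994950755)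 (nat_lit 380) (nat_lit 4045306101) (nat_lit 76) (nat_lit 22564251975) (nat_lit 83) (nat_lit 5) (nat_lit 88) (nat_lit 5) (nat_lit 84) (nat_lit 5) (nat_lit 291) (nat_lit 264) (nat_lit 165)) (XT.lf (nat_lit 0) (nat_lit 8389422194) (nat_lit 456) (nat_lit 12050970989) (nat_lit 76) (nat_lit 9102394334) (nat_lit 78) (nat_lit 5) (nat_lit 84) (nat_lit 5) (nat_lit 79) (nat_lit 5) (nat_lit 292) (nat_lit 264) (nat_lit 164)))))) (XT.nd (nat_lit 390) (nat_lit 988) (nat_lit 0) (XT.nd (nat_lit 156) (nat_lit 684) (nat_lit 0) (XT.nd (nat_lit 78) (nat_lit 304) (nat_lit 0) (XT.lf (nat_lit 0) (nat_lit 9777260139) (nat_lit 304) (nat_lit 5511354714) (nat_lit 380) (nat_lit 15233832462) (nat_lit 74) (nat_lit 5) (nat_lit 78) (nat_lit 5) (nat_lit 79) (nat_lit 5) (nat_lit 293) (nat_lit 264) (nat_lit 163)) (XT.lf (nat_lit 0) (nat_lit 1312414613) (nat_lit 304) (nat_lit 21444335274) (nat_lit 380) (nat_lit 8787637030)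 (nat_lit 70) (nat_lit 5) (nat_lit 74) (nat_lit 5) (nat_lit 75) (nat_lit 5) (nat_lit 294) (nat_lit 264) (nat_lit 162))) (XT.nd (nat_lit 78) (nat_lit 684) (nat_lit 0) (XT.lf (nat_lit 0) (nat_lit 24834495946) (nat_lit 304) (nat_lit 6021219325) (nat_lit 380) (nat_lit 1754001037) (nat_lit 70) (nat_lit 5) (nat_lit 74) (nat_lit 5) (nat_lit 75) (nat_lit 5) (nat_lit 295) (nat_lit 264) (nat_lit 161)) (XT.nd (nat_lit 78) (nat_lit 304) (nat_lit 0) (XT.lf (nat_lit 0) (nat_lit 5764717028) (nat_lit 380) (nat_lit 17773494013) (nat_lit 76) (nat_lit 10181192898) (nat_lit 65) (nat_lit 5) (nat_lit 70) (nat_lit 5) (nat_lit 66) (nat_lit 5) (nat_lit 296) (nat_lit 264) (nat_lit 160)) (XT.lf (nat_lit 0) (nat_lit 6159776749) (nat_lit 304) (nat_lit 7654014637) (nat_lit 380) (nat_lit 21064556367) (nat_lit 61) (nat_lit 5) (nat_lit 65) (nat_lit 5) (nat_lit 66) (nat_lit 5) (nat_lit 297) (nat_lit 264) (nat_lit 159)))))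 (XT.nd (nat_lit 234) (nat_lit 456) (nat_lit 0) (XT.nd (nat_lit 78) (nat_lit 532) (nat_lit 0) (XT.lf (nat_lit 0) (nat_lit 22526706589) (nat_lit 380) (nat_lit 4531598639) (nat_lit 76) (nat_lit 9029104929) (nat_lit 61) (nat_lit 5) (nat_lit 66) (nat_lit 5) (nat_lit 62) (nat_lit 5) (nat_lit 298) (nat_lit 264) (nat_lit 158)) (XT.nd (nat_lit 78) (nat_lit 304) (nat_lit 0) (XT.lf (nat_lit 0) (nat_lit 21187179006) (nat_lit 228) (nat_lit 10759354313) (nat_lit 304) (nat_lit 5402266786) (nat_lit 58) (nat_lit 5) (nat_lit 61) (nat_lit 5) (nat_lit 62) (nat_lit 5) (nat_lit 299) (nat_lit 264) (nat_lit 157)) (XT.lf (nat_lit 0) (nat_lit 3296602614) (nat_lit 304) (nat_lit 28970363563) (nat_lit 76) (nat_lit 6399564769) (nat_lit 54) (nat_lit 5) (nat_lit 58) (nat_lit 5) (nat_lit 55) (nat_lit 5) (nat_lit 300) (nat_lit 264) (nat_lit 156)))) (XT.nd (nat_lit 78) (nat_lit 456) (nat_lit 0) (XT.lf (nat_lit 0) (nat_lit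 12587199515) (nat_lit 304) (nat_lit 3038742388) (nat_lit 76) (nat_lit 24414557371) (nat_lit 54) (nat_lit 5) (nat_lit 58) (nat_lit 5) (nat_lit 55) (nat_lit 5) (nat_lit 301) (nat_lit 264) (nat_lit 155)) (XT.nd (nat_lit 78) (nat_lit 228) (nat_lit 0) (XT.lf (nat_lit 0) (nat_lit 22590710735) (nat_lit 304) (nat_lit 16838519506) (nat_lit 76) (nat_lit 2046494639) (nat_lit 51) (nat_lit 5) (nat_lit 55) (nat_lit 5) (nat_lit 52) (nat_lit 5) (nat_lit 302) (nat_lit 264) (nat_lit 154)) (XT.lf (nat_lit 0) (nat_lit 10819161459) (nat_lit 228) (nat_lit 22560095276) (nat_lit 304) (nat_lit 9594919154) (nat_lit 48) (nat_lit 5) (nat_lit 51) (nat_lit 5) (nat_lit 52) (nat_lit 5) (nat_lit 303) (nat_lit 264) (nat_lit 153))))))) (XT.nd (nat_lit 858) (nat_lit 988) (nat_lit 0) (XT.nd (nat_lit 390) (nat_lit 684) (nat_lit 0) (XT.nd (nat_lit 156) (nat_lit 380) (nat_lit 0) (XT.nd (nat_lit 78) (nat_lit 228) (nat_lit 0) (XT.lf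 (nat_lit 0) (nat_lit 323364557) (nat_lit 304) (nat_lit 4346421590) (nat_lit 76) (nat_lit 39872722411) (nat_lit 47) (nat_lit 5) (nat_lit 51) (nat_lit 5) (nat_lit 48) (nat_lit 5) (nat_lit 304) (nat_lit 264) (nat_lit 152)) (XT.lf (nat_lit 0) (nat_lit 10914700925) (nat_lit 304) (nat_lit 21081946245) (nat_lit 76) (nat_lit 14178502148) (nat_lit 44) (nat_lit 5) (nat_lit 48) (nat_lit 5) (nat_lit 45) (nat_lit 5) (nat_lit 305) (nat_lit 264) (nat_lit 151))) (XT.nd (nat_lit 78) (nat_lit 152) (nat_lit 0) (XT.lf (nat_lit 0) (nat_lit 8310456048) (nat_lit 228) (nat_lit 13889717567) (nat_lit 304) (nat_lit 25684319719) (nat_lit 41) (nat_lit 5) (nat_lit 44) (nat_lit 5) (nat_lit 45) (nat_lit 5) (nat_lit 306) (nat_lit 264) (nat_lit 150)) (XT.nd (nat_lit 78) (nat_lit 152) (nat_lit 0) (XT.lf (nat_lit 0) (nat_lit 34310911486) (nat_lit 304) (nat_lit 10122701833) (nat_lit 76) (nat_lit 5237869394) (nat_lit 41) (nat_lit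 5) (nat_lit 45) (nat_lit 5) (nat_lit 42) (nat_lit 5) (nat_lit 307) (nat_lit 264) (nat_lit 149)) (XT.lf (nat_lit 0) (nat_lit 21060986546) (nat_lit 152) (nat_lit 26301777962) (nat_lit 228) (nat_lit 4174997235) (nat_lit 39) (nat_lit 5) (nat_lit 41) (nat_lit 5) (nat_lit 42) (nat_lit 5) (nat_lit 308) (nat_lit 264) (nat_lit 148))))) (XT.nd (nat_lit 234) (nat_lit 228) (nat_lit 0) (XT.nd (nat_lit 78) (nat_lit 152) (nat_lit 0) (XT.lf (nat_lit 0) (nat_lit 445229221) (nat_lit 228) (nat_lit 7079520882) (nat_lit 304) (nat_lit 45967350309) (nat_lit 35) (nat_lit 5) (nat_lit 38) (nat_lit 5) (nat_lit 39) (nat_lit 5) (nat_lit 309) (nat_lit 264) (nat_lit 147)) (XT.nd (nat_lit 78) (nat_lit 152) (nat_lit 0) (XT.lf (nat_lit 0) (nat_lit 20160026940) (nat_lit 304) (nat_lit 22166429159) (nat_lit 76) (nat_lit 13203359826) (nat_lit 35) (nat_lit 5) (nat_lit 39) (nat_lit 5) (nat_lit 36) (nat_lit 5) (nat_lit 310) (nat_lit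 264) (nat_lit 146)) (XT.lf (nat_lit 0) (nat_lit 10378932691) (nat_lit 152) (nat_lit 23212963513) (nat_lit 228) (nat_lit 24072582467) (nat_lit 33) (nat_lit 5) (nat_lit 35) (nat_lit 5) (nat_lit 36) (nat_lit 5) (nat_lit 311) (nat_lit 264) (nat_lit 145)))) (XT.nd (nat_lit 78) (nat_lit 228) (nat_lit 0) (XT.lf (nat_lit 0) (nat_lit 45004890216) (nat_lit 152) (nat_lit 2912466680) (nat_lit 228) (nat_lit 11981863735) (nat_lit 33) (nat_lit 5) (nat_lit 35) (nat_lit 5) (nat_lit 36) (nat_lit 5) (nat_lit 312) (nat_lit 264) (nat_lit 144)) (XT.nd (nat_lit 78) (nat_lit 0) (nat_lit 0) (XT.lf (nat_lit 0) (nat_lit 1059559128) (nat_lit 228) (nat_lit 42938671528) (nat_lit 76) (nat_lit 18236466198) (nat_lit 30) (nat_lit 5) (nat_lit 33) (nat_lit 5) (nat_lit 31) (nat_lit 5) (nat_lit 313) (nat_lit 264) (nat_lit 143)) (XT.lf (nat_lit 0) (nat_lit 14685997212) (nat_lit 228) (nat_lit 9336460689) (nat_lit 76) (nat_lit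 40655512893) (nat_lit 30) (nat_lit 5) (nat_lit 33) (nat_lit 5) (nat_lit 31) (nat_lit 5) (nat_lit 314) (nat_lit 264) (nat_lit 142)))))) (XT.nd (nat_lit 468) (nat_lit 456) (nat_lit 0) (XT.nd (nat_lit 234) (nat_lit 228) (nat_lit 0) (XT.nd (nat_lit 78) (nat_lit 152) (nat_lit 0) (XT.lf (nat_lit 0) (nat_lit 26453093995) (nat_lit 152) (nat_lit 2789428030) (nat_lit 228) (nat_lit 37993428506) (nat_lit 28) (nat_lit 5) (nat_lit 30) (nat_lit 5) (nat_lit 31) (nat_lit 5) (nat_lit 315) (nat_lit 264) (nat_lit 141)) (XT.nd (nat_lit 78) (nat_lit 152) (nat_lit 0) (XT.lf (nat_lit 0) (nat_lit 44806059983) (nat_lit 228) (nat_lit 5889000556) (nat_lit 76) (nat_lit 19218397914) (nat_lit 28) (nat_lit 5) (nat_lit 31) (nat_lit 5) (nat_lit 29) (nat_lit 5) (nat_lit 316) (nat_lit 264) (nat_lit 140)) (XT.lf (nat_lit 0) (nat_lit 31324225568) (nat_lit 152) (nat_lit 30147695318) (nat_lit 228) (nat_lit 11243201078) (nat_lit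 26) (nat_lit 5) (nat_lit 28) (nat_lit 5) (nat_lit 29) (nat_lit 5) (nat_lit 317) (nat_lit 264) (nat_lit 139)))) (XT.nd (nat_lit 78) (nat_lit 152) (nat_lit 0) (XT.lf (nat_lit 0) (nat_lit 3305752160) (nat_lit 228) (nat_lit 5174611903) (nat_lit 76) (nat_lit 67173866533) (nat_lit 25) (nat_lit 5) (nat_lit 28) (nat_lit 5) (nat_lit 26) (nat_lit 5) (nat_lit 318) (nat_lit 264) (nat_lit 138)) (XT.nd (nat_lit 78) (nat_lit 0) (nat_lit 0) (XT.lf (nat_lit 0) (nat_lit 18809361306) (nat_lit 228) (nat_lit 45486321477) (nat_lit 76) (nat_lit 14427484293) (nat_lit 23) (nat_lit 5) (nat_lit 26) (nat_lit 5) (nat_lit 24) (nat_lit 5) (nat_lit 319) (nat_lit 264) (nat_lit 137)) (XT.lf (nat_lit 0) (nat_lit 35222898879) (nat_lit 228) (nat_lit 8360835930) (nat_lit 76) (nat_lit 38357776971) (nat_lit 23) (nat_lit 5) (nat_lit 26) (nat_lit 5) (nat_lit 24) (nat_lit 5) (nat_lit 320) (nat_lit 264) (nat_lit 136))))) (XT.nd (nat_lit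 234) (nat_lit 228) (nat_lit 0) (XT.nd (nat_lit 78) (nat_lit 76) (nat_lit 0) (XT.lf (nat_lit 0) (nat_lit 31222791140) (nat_lit 152) (nat_lit 21530033931) (nat_lit 228) (nat_lit 32559080951) (nat_lit 21) (nat_lit 5) (nat_lit 23) (nat_lit 5) (nat_lit 24) (nat_lit 5) (nat_lit 321) (nat_lit 264) (nat_lit 135)) (XT.nd (nat_lit 78) (nat_lit 76) (nat_lit 0) (XT.lf (nat_lit 0) (nat_lit 71257493245) (nat_lit 228) (nat_lit 15911700735) (nat_lit 76) (nat_lit 1678682106) (nat_lit 21) (nat_lit 5) (nat_lit 24) (nat_lit 5) (nat_lit 22) (nat_lit 4) (nat_lit 322) (nat_lit 264) (nat_lit 134)) (XT.lf (nat_lit 0) (nat_lit 24426988526) (nat_lit 76) (nat_lit 66708419021) (nat_lit 152) (nat_lit 1411800039) (nat_lit 20) (nat_lit 5) (nat_lit 21) (nat_lit 5) (nat_lit 22) (nat_lit 4) (nat_lit 323) (nat_lit 264) (nat_lit 133)))) (XT.nd (nat_lit 78) (nat_lit 152) (nat_lit 0) (XT.lf (nat_lit 0) (nat_lit 15433178117) (nat_lit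 152) (nat_lit 29469646893) (nat_lit 76) (nat_lit 51519349887) (nat_lit 19) (nat_lit 5) (nat_lit 21) (nat_lit 5) (nat_lit 20) (nat_lit 5) (nat_lit 324) (nat_lit 264) (nat_lit 132)) (XT.nd (nat_lit 78) (nat_lit 0) (nat_lit 0) (XT.lf (nat_lit 0) (nat_lit 11313465841) (nat_lit 152) (nat_lit 21882941462) (nat_lit 228) (nat_lit 67290910832) (nat_lit 17) (nat_lit 5) (nat_lit 19) (nat_lit 5) (nat_lit 20) (nat_lit 5) (nat_lit 325) (nat_lit 264) (nat_lit 131)) (XT.lf (nat_lit 0) (nat_lit 52172431706) (nat_lit 228) (nat_lit 50026458194) (nat_lit 76) (nat_lit 2547092403) (nat_lit 17) (nat_lit 5) (nat_lit 20) (nat_lit 5) (nat_lit 18) (nat_lit 4) (nat_lit 326) (nat_lit 264) (nat_lit 130))))))))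
noncomputable def xc94 : XT := (XT.nd (nat_lit 34242) (nat_lit 0) (nat_lit 2128) (XT.nd (nat_lit 33384) (nat_lit 0) (nat_lit 7600) (XT.nd (nat_lit 32916) (nat_lit 0) (nat_lit 11172) (XT.nd (nat_lit 32682) (nat_lit 0) (nat_lit 11932) (XT.nd (nat_lit 78) (nat_lit 76) (nat_lit 0) (XT.lf (nat_lit 0) (nat_lit 72314577729) (nat_lit 228) (nat_lit 9148666209) (nat_lit 76) (nat_lit 27747818778) (nat_lit 17) (nat_lit 5) (nat_lit 20) (nat_lit 5) (nat_lit 18) (nat_lit 4) (nat_lit 327) (nat_lit 264) (nat_lit 129)) (XT.lf (nat_lit 0) (nat_lit 34439237525) (nat_lit 76) (nat_lit 59352264136) (nat_lit 152) (nat_lit 20098067891) (nat_lit 16) (nat_lit 5) (nat_lit 17) (nat_lit 5) (nat_lit 18) (nat_lit 4) (nat_lit 328) (nat_lit 264) (nat_lit 128))) (XT.nd (nat_lit 78) (nat_lit 0) (nat_lit 0) (XT.lf (nat_lit 0) (nat_lit 3296692650) (nat_lit 1140) (nat_lit 1883511860) (nat_lit 1140) (nat_lit 1883511860) (nat_lit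 173) (nat_lit 3) (nat_lit 188) (nat_lit 3) (nat_lit 188) (nat_lit 5) (nat_lit 265) (nat_lit 265) (nat_lit 190)) (XT.nd (nat_lit 78) (nat_lit 0) (nat_lit 76) (XT.lf (nat_lit 76) (nat_lit 6477850105) (nat_lit 0) (nat_lit 851643251) (nat_lit 1140) (nat_lit 7132968352) (nat_lit 174) (nat_lit 5) (nat_lit 173) (nat_lit 3) (nat_lit 188) (nat_lit 5) (nat_lit 266) (nat_lit 265) (nat_lit 189)) (XT.lf (nat_lit 76) (nat_lit 2441739125) (nat_lit 0) (nat_lit 5778491561) (nat_lit 1140) (nat_lit 6590541929) (nat_lit 175) (nat_lit 5) (nat_lit 174) (nat_lit 5) (nat_lit 189) (nat_lit 5) (nat_lit 267) (nat_lit 265) (nat_lit 188))))) (XT.nd (nat_lit 234) (nat_lit 912) (nat_lit 0) (XT.nd (nat_lit 78) (nat_lit 0) (nat_lit 0) (XT.lf (nat_lit 0) (nat_lit 9256469811) (nat_lit 1064) (nat_lit 1686575472) (nat_lit 1140) (nat_lit 4230486935) (nat_lit 175) (nat_lit 5) (nat_lit 189) (nat_lit 5) (nat_lit 190) (nat_lit 5)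 (nat_lit 268) (nat_lit 265) (nat_lit 187)) (XT.nd (nat_lit 78) (nat_lit 0) (nat_lit 76) (XT.lf (nat_lit 76) (nat_lit 9641783476) (nat_lit 0) (nat_lit 824136474) (nat_lit 1140) (nat_lit 5084927026) (nat_lit 176) (nat_lit 5) (nat_lit 175) (nat_lit 5) (nat_lit 190) (nat_lit 5) (nat_lit 269) (nat_lit 265) (nat_lit 186)) (XT.lf (nat_lit 76) (nat_lit 5622084504) (nat_lit 0) (nat_lit 6251283416) (nat_lit 1140) (nat_lit 4069590119) (nat_lit 177) (nat_lit 5) (nat_lit 176) (nat_lit 5) (nat_lit 191) (nat_lit 5) (nat_lit 270) (nat_lit 265) (nat_lit 185)))) (XT.nd (nat_lit 78) (nat_lit 1064) (nat_lit 0) (XT.lf (nat_lit 76) (nat_lit 1459167110) (nat_lit 0) (nat_lit 11990642387) (nat_lit 1140) (nat_lit 2901960167) (nat_lit 178) (nat_lit 5) (nat_lit 177) (nat_lit 5) (nat_lit 192) (nat_lit 5) (nat_lit 271) (nat_lit 265) (nat_lit 184)) (XT.nd (nat_lit 78) (nat_lit 1064) (nat_lit 0) (XT.lf (nat_lit 76) (nat_lit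 13961117085) (nat_lit 0) (nat_lit 1286784465) (nat_lit 1140) (nat_lit 1528886559) (nat_lit 178) (nat_lit 5) (nat_lit 177) (nat_lit 5) (nat_lit 192) (nat_lit 5) (nat_lit 272) (nat_lit 265) (nat_lit 183)) (XT.lf (nat_lit 0) (nat_lit 82818200) (nat_lit 1140) (nat_lit 7273810225) (nat_lit 1216) (nat_lit 9861453127) (nat_lit 163) (nat_lit 5) (nat_lit 178) (nat_lit 5) (nat_lit 179) (nat_lit 5) (nat_lit 273) (nat_lit 265) (nat_lit 182)))))) (XT.nd (nat_lit 390) (nat_lit 2128) (nat_lit 0) (XT.nd (nat_lit 156) (nat_lit 1520) (nat_lit 0) (XT.nd (nat_lit 78) (nat_lit 0) (nat_lit 0) (XT.lf (nat_lit 0) (nat_lit 1855939805) (nat_lit 1140) (nat_lit 11930653731) (nat_lit 1216) (nat_lit 3891063457) (nat_lit 164) (nat_lit 5) (nat_lit 179) (nat_lit 5) (nat_lit 180) (nat_lit 5) (nat_lit 274) (nat_lit 265) (nat_lit 181)) (XT.lf (nat_lit 76) (nat_lit 1345514866) (nat_lit 0) (nat_lit 2512149744) (nat_lit 1216)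 (nat_lit 14298391031) (nat_lit 165) (nat_lit 5) (nat_lit 164) (nat_lit 5) (nat_lit 180) (nat_lit 5) (nat_lit 275) (nat_lit 265) (nat_lit 180))) (XT.nd (nat_lit 78) (nat_lit 1596) (nat_lit 0) (XT.lf (nat_lit 0) (nat_lit 6151248029) (nat_lit 1140) (nat_lit 3229588466) (nat_lit 76) (nat_lit 9271825365) (nat_lit 165) (nat_lit 5) (nat_lit 180) (nat_lit 5) (nat_lit 166) (nat_lit 5) (nat_lit 276) (nat_lit 265) (nat_lit 179)) (XT.nd (nat_lit 78) (nat_lit 532) (nat_lit 0) (XT.lf (nat_lit 0) (nat_lit 8696078631) (nat_lit 1140) (nat_lit 7989354645) (nat_lit 76) (nat_lit 2484606936) (nat_lit 151) (nat_lit 5) (nat_lit 166) (nat_lit 5) (nat_lit 152) (nat_lit 5) (nat_lit 277) (nat_lit 265) (nat_lit 178)) (XT.lf (nat_lit 0) (nat_lit 6683994358) (nat_lit 532) (nat_lit 4856652642) (nat_lit 608) (nat_lit 8167502610) (nat_lit 144) (nat_lit 5) (nat_lit 151) (nat_lit 5) (nat_lit 152) (nat_lit 5) (nat_lit 278)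 (nat_lit 265) (nat_lit 177))))) (XT.nd (nat_lit 234) (nat_lit 988) (nat_lit 0) (XT.nd (nat_lit 78) (nat_lit 608) (nat_lit 0) (XT.lf (nat_lit 0) (nat_lit 1933269130) (nat_lit 532) (nat_lit 12749309224) (nat_lit 608) (nat_lit 5585967340) (nat_lit 137) (nat_lit 5) (nat_lit 144) (nat_lit 5) (nat_lit 145) (nat_lit 5) (nat_lit 279) (nat_lit 265) (nat_lit 176)) (XT.nd (nat_lit 78) (nat_lit 608) (nat_lit 0) (XT.lf (nat_lit 0) (nat_lit 17843054484) (nat_lit 532) (nat_lit 302695197) (nat_lit 608) (nat_lit 2706321170) (nat_lit 137) (nat_lit 5) (nat_lit 144) (nat_lit 5) (nat_lit 145) (nat_lit 5) (nat_lit 280) (nat_lit 265) (nat_lit 175)) (XT.lf (nat_lit 0) (nat_lit 545413935) (nat_lit 608) (nat_lit 8262157582) (nat_lit 76) (nat_lit 12650111336) (nat_lit 129) (nat_lit 5) (nat_lit 137) (nat_lit 5) (nat_lit 130) (nat_lit 5) (nat_lit 281) (nat_lit 265) (nat_lit 174)))) (XT.nd (nat_lit 78) (nat_lit 456)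 (nat_lit 0) (XT.lf (nat_lit 0) (nat_lit 4042518436) (nat_lit 608) (nat_lit 13836718806) (nat_lit 76) (nat_lit 4209401313) (nat_lit 122) (nat_lit 5) (nat_lit 130) (nat_lit 5) (nat_lit 123) (nat_lit 5) (nat_lit 282) (nat_lit 265) (nat_lit 173)) (XT.nd (nat_lit 78) (nat_lit 0) (nat_lit 0) (XT.lf (nat_lit 0) (nat_lit 2966614661) (nat_lit 456) (nat_lit 4934717474) (nat_lit 532) (nat_lit 14844232446) (nat_lit 116) (nat_lit 5) (nat_lit 122) (nat_lit 5) (nat_lit 123) (nat_lit 5) (nat_lit 283) (nat_lit 265) (nat_lit 172)) (XT.lf (nat_lit 0) (nat_lit 12164309247) (nat_lit 532) (nat_lit 2633726548) (nat_lit 76) (nat_lit 8630991247) (nat_lit 116) (nat_lit 5) (nat_lit 123) (nat_lit 5) (nat_lit 117) (nat_lit 5) (nat_lit 284) (nat_lit 265) (nat_lit 171))))))) (XT.nd (nat_lit 858) (nat_lit 1976) (nat_lit 0) (XT.nd (nat_lit 390) (nat_lit 1748) (nat_lit 0) (XT.nd (nat_lit 156) (nat_lit 912) (nat_lit 0) (XT.nd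 (nat_lit 78) (nat_lit 380) (nat_lit 0) (XT.lf (nat_lit 0) (nat_lit 15607026317) (nat_lit 456) (nat_lit 1218153812) (nat_lit 532) (nat_lit 7315965690) (nat_lit 110) (nat_lit 5) (nat_lit 116) (nat_lit 5) (nat_lit 117) (nat_lit 5) (nat_lit 285) (nat_lit 265) (nat_lit 170)) (XT.lf (nat_lit 0) (nat_lit 9979460957) (nat_lit 380) (nat_lit 11973761715) (nat_lit 456) (nat_lit 2928648341) (nat_lit 105) (nat_lit 5) (nat_lit 110) (nat_lit 5) (nat_lit 111) (nat_lit 5) (nat_lit 286) (nat_lit 265) (nat_lit 169))) (XT.nd (nat_lit 78) (nat_lit 380) (nat_lit 0) (XT.lf (nat_lit 0) (nat_lit 1791492566) (nat_lit 532) (nat_lit 21704589513) (nat_lit 76) (nat_lit 2158702903) (nat_lit 98) (nat_lit 5) (nat_lit 105) (nat_lit 5) (nat_lit 99) (nat_lit 5) (nat_lit 287) (nat_lit 265) (nat_lit 168)) (XT.nd (nat_lit 78) (nat_lit 380) (nat_lit 0) (XT.lf (nat_lit 0) (nat_lit 6949757087) (nat_lit 532) (nat_lit 2573050122)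 (nat_lit 76) (nat_lit 16934808400) (nat_lit 98) (nat_lit 5) (nat_lit 105) (nat_lit 5) (nat_lit 99) (nat_lit 5) (nat_lit 288) (nat_lit 265) (nat_lit 167)) (XT.lf (nat_lit 0) (nat_lit 12575664181) (nat_lit 456) (nat_lit 9499130771) (nat_lit 76) (nat_lit 5219521333) (nat_lit 93) (nat_lit 5) (nat_lit 99) (nat_lit 5) (nat_lit 94) (nat_lit 5) (nat_lit 289) (nat_lit 265) (nat_lit 166))))) (XT.nd (nat_lit 234) (nat_lit 988) (nat_lit 0) (XT.nd (nat_lit 78) (nat_lit 380) (nat_lit 0) (XT.lf (nat_lit 0) (nat_lit 11169749355) (nat_lit 380) (nat_lit 7530797317) (nat_lit 456) (nat_lit 9465794350) (nat_lit 88) (nat_lit 5) (nat_lit 93) (nat_lit 5) (nat_lit 94) (nat_lit 5) (nat_lit 290) (nat_lit 265) (nat_lit 165)) (XT.nd (nat_lit 78) (nat_lit 76) (nat_lit 0) (XT.lf (nat_lit 0) (nat_lit 3978512810) (nat_lit 304) (nat_lit 21352434264) (nat_lit 380) (nat_lit 3745060211) (nat_lit 84) (nat_lit 5) (nat_lit 88)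 (nat_lit 5) (nat_lit 89) (nat_lit 5) (nat_lit 291) (nat_lit 265) (nat_lit 164)) (XT.lf (nat_lit 0) (nat_lit 2458456719) (nat_lit 380) (nat_lit 3782946807) (nat_lit 76) (nat_lit 23781891808) (nat_lit 83) (nat_lit 5) (nat_lit 88) (nat_lit 5) (nat_lit 84) (nat_lit 5) (nat_lit 292) (nat_lit 265) (nat_lit 163)))) (XT.nd (nat_lit 78) (nat_lit 608) (nat_lit 0) (XT.lf (nat_lit 0) (nat_lit 9160634500) (nat_lit 456) (nat_lit 12192155306) (nat_lit 76) (nat_lit 9656083722) (nat_lit 78) (nat_lit 5) (nat_lit 84) (nat_lit 5) (nat_lit 79) (nat_lit 5) (nat_lit 293) (nat_lit 265) (nat_lit 162)) (XT.nd (nat_lit 78) (nat_lit 304) (nat_lit 0) (XT.lf (nat_lit 0) (nat_lit 10714262466) (nat_lit 304) (nat_lit 5678082536) (nat_lit 380) (nat_lit 15645568432) (nat_lit 74) (nat_lit 5) (nat_lit 78) (nat_lit 5) (nat_lit 79) (nat_lit 5) (nat_lit 294) (nat_lit 265) (nat_lit 161)) (XT.lf (nat_lit 0) (nat_lit 1822663382)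 (nat_lit 304) (nat_lit 22400336742) (nat_lit 380) (nat_lit 8888299217) (nat_lit 70) (nat_lit 5) (nat_lit 74) (nat_lit 5) (nat_lit 75) (nat_lit 5) (nat_lit 295) (nat_lit 265) (nat_lit 160)))))) (XT.nd (nat_lit 390) (nat_lit 1064) (nat_lit 0) (XT.nd (nat_lit 156) (nat_lit 532) (nat_lit 0) (XT.nd (nat_lit 78) (nat_lit 380) (nat_lit 0) (XT.lf (nat_lit 0) (nat_lit 26499676018) (nat_lit 304) (nat_lit 6211599057) (nat_lit 380) (nat_lit 1519110933) (nat_lit 70) (nat_lit 5) (nat_lit 74) (nat_lit 5) (nat_lit 75) (nat_lit 5) (nat_lit 296) (nat_lit 265) (nat_lit 159)) (XT.lf (nat_lit 0) (nat_lit 6359285272) (nat_lit 380) (nat_lit 18235853512) (nat_lit 76) (nat_lit 10800645109) (nat_lit 65) (nat_lit 5) (nat_lit 70) (nat_lit 5) (nat_lit 66) (nat_lit 5) (nat_lit 297) (nat_lit 265) (nat_lit 158))) (XT.nd (nat_lit 78) (nat_lit 228) (nat_lit 0) (XT.lf (nat_lit 0) (nat_lit 6881860548) (nat_lit 304) (nat_lit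 7918346076) (nat_lit 380) (nat_lit 21812805535) (nat_lit 61) (nat_lit 5) (nat_lit 65) (nat_lit 5) (nat_lit 66) (nat_lit 5) (nat_lit 298) (nat_lit 265) (nat_lit 157)) (XT.nd (nat_lit 78) (nat_lit 228) (nat_lit 0) (XT.lf (nat_lit 0) (nat_lit 23935769069) (nat_lit 380) (nat_lit 4356073709) (nat_lit 76) (nat_lit 9591093015) (nat_lit 61) (nat_lit 5) (nat_lit 66) (nat_lit 5) (nat_lit 62) (nat_lit 5) (nat_lit 299) (nat_lit 265) (nat_lit 156)) (XT.lf (nat_lit 0) (nat_lit 22637116563) (nat_lit 228) (nat_lit 11179761854) (nat_lit 304) (nat_lit 5390825370) (nat_lit 58) (nat_lit 5) (nat_lit 61) (nat_lit 5) (nat_lit 62) (nat_lit 5) (nat_lit 300) (nat_lit 265) (nat_lit 155))))) (XT.nd (nat_lit 234) (nat_lit 532) (nat_lit 0) (XT.nd (nat_lit 78) (nat_lit 228) (nat_lit 0) (XT.lf (nat_lit 0) (nat_lit 3729187318) (nat_lit 304) (nat_lit 30026656474) (nat_lit 76) (nat_lit 6835661351) (nat_lit 54) (nat_lit 5)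 (nat_lit 58) (nat_lit 5) (nat_lit 55) (nat_lit 5) (nat_lit 301) (nat_lit 265) (nat_lit 154)) (XT.nd (nat_lit 78) (nat_lit 228) (nat_lit 0) (XT.lf (nat_lit 0) (nat_lit 13471563846) (nat_lit 304) (nat_lit 2817131633) (nat_lit 76) (nat_lit 25745874139) (nat_lit 54) (nat_lit 5) (nat_lit 58) (nat_lit 5) (nat_lit 55) (nat_lit 5) (nat_lit 302) (nat_lit 265) (nat_lit 153)) (XT.lf (nat_lit 0) (nat_lit 23967715188) (nat_lit 304) (nat_lit 17311044603) (nat_lit 76) (nat_lit 2263037277) (nat_lit 51) (nat_lit 5) (nat_lit 55) (nat_lit 5) (nat_lit 52) (nat_lit 5) (nat_lit 303) (nat_lit 265) (nat_lit 152)))) (XT.nd (nat_lit 78) (nat_lit 304) (nat_lit 0) (XT.lf (nat_lit 0) (nat_lit 11718931609) (nat_lit 228) (nat_lit 23568421766) (nat_lit 304) (nat_lit 9828081114) (nat_lit 48) (nat_lit 5) (nat_lit 51) (nat_lit 5) (nat_lit 52) (nat_lit 5) (nat_lit 304) (nat_lit 265) (nat_lit 151)) (XT.nd (nat_lit 78) (nat_lit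 228) (nat_lit 0) (XT.lf (nat_lit 0) (nat_lit 569792076) (nat_lit 304) (nat_lit 4217178903) (nat_lit 76) (nat_lit 41975499861) (nat_lit 47) (nat_lit 5) (nat_lit 51) (nat_lit 5) (nat_lit 48) (nat_lit 5) (nat_lit 305) (nat_lit 265) (nat_lit 150)) (XT.lf (nat_lit 0) (nat_lit 11684063215) (nat_lit 304) (nat_lit 21793591641) (nat_lit 76) (nat_lit 14999299904) (nat_lit 44) (nat_lit 5) (nat_lit 48) (nat_lit 5) (nat_lit 45) (nat_lit 5) (nat_lit 306) (nat_lit 265) (nat_lit 149))))))))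
noncomputable def xc95 : XT := (XT.nd (nat_lit 34398) (nat_lit 0) (nat_lit 6156) (XT.nd (nat_lit 858) (nat_lit 836) (nat_lit 0) (XT.nd (nat_lit 390) (nat_lit 532) (nat_lit 0) (XT.nd (nat_lit 156) (nat_lit 456) (nat_lit 0) (XT.nd (nat_lit 78) (nat_lit 0) (nat_lit 0) (XT.lf (nat_lit 0) (nat_lit 9058614451) (nat_lit 228) (nat_lit 14467743668) (nat_lit 304) (nat_lit 26745642981) (nat_lit 41) (nat_lit 5) (nat_lit 44) (nat_lit 5) (nat_lit 45) (nat_lit 5) (nat_lit 307) (nat_lit 265) (nat_lit 148)) (XT.lf (nat_lit 0) (nat_lit 36233404971) (nat_lit 304) (nat_lit 10306710240) (nat_lit 76) (nat_lit 5608512604) (nat_lit 41) (nat_lit 5) (nat_lit 45) (nat_lit 5) (nat_lit 42) (nat_lit 5) (nat_lit 308) (nat_lit 265) (nat_lit 147))) (XT.nd (nat_lit 78) (nat_lit 304) (nat_lit 0) (XT.lf (nat_lit 0) (nat_lit 22426928861) (nat_lit 152) (nat_lit 27504074839) (nat_lit 228) (nat_lit 4177433009) (nat_lit 39) (nat_lit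 5) (nat_lit 41) (nat_lit 5) (nat_lit 42) (nat_lit 5) (nat_lit 309) (nat_lit 265) (nat_lit 146)) (XT.nd (nat_lit 78) (nat_lit 0) (nat_lit 0) (XT.lf (nat_lit 0) (nat_lit 775523310) (nat_lit 228) (nat_lit 7321080684) (nat_lit 304) (nat_lit 48064038688) (nat_lit 35) (nat_lit 5) (nat_lit 38) (nat_lit 5) (nat_lit 39) (nat_lit 5) (nat_lit 310) (nat_lit 265) (nat_lit 145)) (XT.lf (nat_lit 0) (nat_lit 21355358762) (nat_lit 304) (nat_lit 22976641317) (nat_lit 76) (nat_lit 13968501719) (nat_lit 35) (nat_lit 5) (nat_lit 39) (nat_lit 5) (nat_lit 36) (nat_lit 5) (nat_lit 311) (nat_lit 265) (nat_lit 144))))) (XT.nd (nat_lit 234) (nat_lit 152) (nat_lit 0) (XT.nd (nat_lit 78) (nat_lit 228) (nat_lit 0) (XT.lf (nat_lit 0) (nat_lit 11187443383) (nat_lit 152) (nat_lit 24265241076) (nat_lit 228) (nat_lit 25089406144) (nat_lit 33) (nat_lit 5) (nat_lit 35) (nat_lit 5) (nat_lit 36) (nat_lit 5) (nat_lit 312) (nat_lit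 265) (nat_lit 143)) (XT.nd (nat_lit 78) (nat_lit 228) (nat_lit 0) (XT.lf (nat_lit 0) (nat_lit 47530910019) (nat_lit 152) (nat_lit 2954879906) (nat_lit 228) (nat_lit 12403046973) (nat_lit 33) (nat_lit 5) (nat_lit 35) (nat_lit 5) (nat_lit 36) (nat_lit 5) (nat_lit 313) (nat_lit 265) (nat_lit 142)) (XT.lf (nat_lit 0) (nat_lit 1282264485) (nat_lit 228) (nat_lit 44809973906) (nat_lit 76) (nat_lit 19248946321) (nat_lit 30) (nat_lit 5) (nat_lit 33) (nat_lit 5) (nat_lit 31) (nat_lit 5) (nat_lit 314) (nat_lit 265) (nat_lit 141)))) (XT.nd (nat_lit 78) (nat_lit 152) (nat_lit 0) (XT.lf (nat_lit 0) (nat_lit 15581942215) (nat_lit 228) (nat_lit 9540777821) (nat_lit 76) (nat_lit 42784152169) (nat_lit 30) (nat_lit 5) (nat_lit 33) (nat_lit 5) (nat_lit 31) (nat_lit 5) (nat_lit 315) (nat_lit 265) (nat_lit 140)) (XT.nd (nat_lit 78) (nat_lit 0) (nat_lit 0) (XT.lf (nat_lit 0) (nat_lit 28030729918) (nat_lit 152)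 (nat_lit 2830316999) (nat_lit 228) (nat_lit 39731868439) (nat_lit 28) (nat_lit 5) (nat_lit 30) (nat_lit 5) (nat_lit 31) (nat_lit 5) (nat_lit 316) (nat_lit 265) (nat_lit 139)) (XT.lf (nat_lit 0) (nat_lit 47196216720) (nat_lit 228) (nat_lit 5936911260) (nat_lit 76) (nat_lit 20271373747) (nat_lit 28) (nat_lit 5) (nat_lit 31) (nat_lit 5) (nat_lit 29) (nat_lit 5) (nat_lit 317) (nat_lit 265) (nat_lit 138)))))) (XT.nd (nat_lit 390) (nat_lit 304) (nat_lit 0) (XT.nd (nat_lit 156) (nat_lit 304) (nat_lit 0) (XT.nd (nat_lit 78) (nat_lit 76) (nat_lit 0) (XT.lf (nat_lit 0) (nat_lit 33129909170) (nat_lit 152) (nat_lit 31560627561) (nat_lit 228) (nat_lit 11655863084) (nat_lit 26) (nat_lit 5) (nat_lit 28) (nat_lit 5) (nat_lit 29) (nat_lit 5) (nat_lit 318) (nat_lit 265) (nat_lit 137)) (XT.lf (nat_lit 0) (nat_lit 3610640532) (nat_lit 228) (nat_lit 5202377256) (nat_lit 76) (nat_lit 70619618281) (nat_lit 25)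 (nat_lit 5) (nat_lit 28) (nat_lit 5) (nat_lit 26) (nat_lit 5) (nat_lit 319) (nat_lit 265) (nat_lit 136))) (XT.nd (nat_lit 78) (nat_lit 152) (nat_lit 0) (XT.lf (nat_lit 0) (nat_lit 19885796800) (nat_lit 228) (nat_lit 47532984961) (nat_lit 76) (nat_lit 15236352234) (nat_lit 23) (nat_lit 5) (nat_lit 26) (nat_lit 5) (nat_lit 24) (nat_lit 5) (nat_lit 320) (nat_lit 265) (nat_lit 135)) (XT.nd (nat_lit 78) (nat_lit 152) (nat_lit 0) (XT.lf (nat_lit 0) (nat_lit 37113536612) (nat_lit 228) (nat_lit 8562065736) (nat_lit 76) (nat_lit 40358993178) (nat_lit 23) (nat_lit 5) (nat_lit 26) (nat_lit 5) (nat_lit 24) (nat_lit 5) (nat_lit 321) (nat_lit 265) (nat_lit 134)) (XT.lf (nat_lit 0) (nat_lit 32994527815) (nat_lit 152) (nat_lit 22521289363) (nat_lit 228) (nat_lit 34057821657) (nat_lit 21) (nat_lit 5) (nat_lit 23) (nat_lit 5) (nat_lit 24) (nat_lit 5) (nat_lit 322) (nat_lit 265) (nat_lit 133))))) (XT.nd (nat_lit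 234) (nat_lit 152) (nat_lit 0) (XT.nd (nat_lit 78) (nat_lit 152) (nat_lit 0) (XT.lf (nat_lit 0) (nat_lit 74940530091) (nat_lit 228) (nat_lit 16503818947) (nat_lit 76) (nat_lit 1842218880) (nat_lit 21) (nat_lit 5) (nat_lit 24) (nat_lit 5) (nat_lit 22) (nat_lit 4) (nat_lit 323) (nat_lit 265) (nat_lit 132)) (XT.nd (nat_lit 78) (nat_lit 76) (nat_lit 0) (XT.lf (nat_lit 0) (nat_lit 25845972442) (nat_lit 76) (nat_lit 69962545442) (nat_lit 152) (nat_lit 1362467401) (nat_lit 20) (nat_lit 5) (nat_lit 21) (nat_lit 5) (nat_lit 22) (nat_lit 4) (nat_lit 324) (nat_lit 265) (nat_lit 131)) (XT.lf (nat_lit 0) (nat_lit 16316820372) (nat_lit 152) (nat_lit 30752591713) (nat_lit 76) (nat_lit 54170426542) (nat_lit 19) (nat_lit 5) (nat_lit 21) (nat_lit 5) (nat_lit 20) (nat_lit 5) (nat_lit 325) (nat_lit 265) (nat_lit 130)))) (XT.nd (nat_lit 78) (nat_lit 0) (nat_lit 0) (XT.lf (nat_lit 0) (nat_lit 12064214937) (nat_lit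 152) (nat_lit 22900442602) (nat_lit 228) (nat_lit 70543692166) (nat_lit 17) (nat_lit 5) (nat_lit 19) (nat_lit 5) (nat_lit 20) (nat_lit 5) (nat_lit 326) (nat_lit 265) (nat_lit 129)) (XT.nd (nat_lit 32760) (nat_lit 0) (nat_lit 11856) (XT.lf (nat_lit 0) (nat_lit 54885021518) (nat_lit 228) (nat_lit 52349044557) (nat_lit 76) (nat_lit 2746018733) (nat_lit 17) (nat_lit 5) (nat_lit 20) (nat_lit 5) (nat_lit 18) (nat_lit 4) (nat_lit 327) (nat_lit 265) (nat_lit 128)) (XT.lf (nat_lit 0) (nat_lit 3962584663) (nat_lit 1140) (nat_lit 1719141530) (nat_lit 1140) (nat_lit 1719141530) (nat_lit 173) (nat_lit 3) (nat_lit 188) (nat_lit 3) (nat_lit 188) (nat_lit 5) (nat_lit 266) (nat_lit 266) (nat_lit 188))))))) (XT.nd (nat_lit 858) (nat_lit 4940) (nat_lit 0) (XT.nd (nat_lit 390) (nat_lit 760) (nat_lit 0) (XT.nd (nat_lit 156) (nat_lit 0) (nat_lit 152) (XT.nd (nat_lit 78) (nat_lit 0) (nat_lit 76) (XT.lf (nat_lit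 76) (nat_lit 7304012123) (nat_lit 0) (nat_lit 1351179034) (nat_lit 1140) (nat_lit 6499706954) (nat_lit 174) (nat_lit 5) (nat_lit 173) (nat_lit 3) (nat_lit 188) (nat_lit 5) (nat_lit 267) (nat_lit 266) (nat_lit 187)) (XT.lf (nat_lit 76) (nat_lit 3085771801) (nat_lit 0) (nat_lit 6459850171) (nat_lit 1140) (nat_lit 5976438843) (nat_lit 175) (nat_lit 5) (nat_lit 174) (nat_lit 5) (nat_lit 189) (nat_lit 5) (nat_lit 268) (nat_lit 266) (nat_lit 186))) (XT.nd (nat_lit 78) (nat_lit 0) (nat_lit 0) (XT.lf (nat_lit 0) (nat_lit 10586538479) (nat_lit 1064) (nat_lit 1242362850) (nat_lit 1140) (nat_lit 4075557729) (nat_lit 175) (nat_lit 5) (nat_lit 189) (nat_lit 5) (nat_lit 190) (nat_lit 5) (nat_lit 269) (nat_lit 266) (nat_lit 185)) (XT.nd (nat_lit 78) (nat_lit 0) (nat_lit 76) (XT.lf (nat_lit 76) (nat_lit 10637263513) (nat_lit 0) (nat_lit 1182835249) (nat_lit 1140) (nat_lit 4481714157) (nat_lit 176) (nat_lit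 5) (nat_lit 175) (nat_lit 5) (nat_lit 190) (nat_lit 5) (nat_lit 270) (nat_lit 266) (nat_lit 184)) (XT.lf (nat_lit 76) (nat_lit 6430642388) (nat_lit 0) (nat_lit 6829874505) (nat_lit 1140) (nat_lit 3454213278) (nat_lit 177) (nat_lit 5) (nat_lit 176) (nat_lit 5) (nat_lit 191) (nat_lit 5) (nat_lit 271) (nat_lit 266) (nat_lit 183))))) (XT.nd (nat_lit 234) (nat_lit 0) (nat_lit 76) (XT.nd (nat_lit 78) (nat_lit 1064) (nat_lit 0) (XT.lf (nat_lit 76) (nat_lit 2071592061) (nat_lit 0) (nat_lit 12809153940) (nat_lit 1140) (nat_lit 2264362239) (nat_lit 178) (nat_lit 5) (nat_lit 177) (nat_lit 5) (nat_lit 192) (nat_lit 5) (nat_lit 272) (nat_lit 266) (nat_lit 182)) (XT.nd (nat_lit 78) (nat_lit 1064) (nat_lit 0) (XT.lf (nat_lit 76) (nat_lit 15172950650) (nat_lit 0) (nat_lit 1559675530) (nat_lit 1140) (nat_lit 859906186) (nat_lit 178) (nat_lit 5) (nat_lit 177) (nat_lit 5) (nat_lit 192) (nat_lit 5) (nat_lit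 273) (nat_lit 266) (nat_lit 181)) (XT.lf (nat_lit 0) (nat_lit 786187324) (nat_lit 1140) (nat_lit 7098836096) (nat_lit 1216) (nat_lit 10171667505) (nat_lit 163) (nat_lit 5) (nat_lit 178) (nat_lit 5) (nat_lit 179) (nat_lit 5) (nat_lit 274) (nat_lit 266) (nat_lit 180)))) (XT.nd (nat_lit 78) (nat_lit 0) (nat_lit 0) (XT.lf (nat_lit 0) (nat_lit 2618277836) (nat_lit 1140) (nat_lit 11981158412) (nat_lit 1216) (nat_lit 3940762261) (nat_lit 164) (nat_lit 5) (nat_lit 179) (nat_lit 5) (nat_lit 180) (nat_lit 5) (nat_lit 275) (nat_lit 266) (nat_lit 179)) (XT.nd (nat_lit 78) (nat_lit 0) (nat_lit 76) (XT.lf (nat_lit 76) (nat_lit 1943166832) (nat_lit 0) (nat_lit 2750137443) (nat_lit 1216) (nat_lit 14350076120) (nat_lit 165) (nat_lit 5) (nat_lit 164) (nat_lit 5) (nat_lit 180) (nat_lit 5) (nat_lit 276) (nat_lit 266) (nat_lit 178)) (XT.lf (nat_lit 0) (nat_lit 7069930589) (nat_lit 1140) (nat_lit 2865415967)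 (nat_lit 76) (nat_lit 9630476376) (nat_lit 165) (nat_lit 5) (nat_lit 180) (nat_lit 5) (nat_lit 166) (nat_lit 5) (nat_lit 277) (nat_lit 266) (nat_lit 177)))))) (XT.nd (nat_lit 468) (nat_lit 1824) (nat_lit 0) (XT.nd (nat_lit 234) (nat_lit 1140) (nat_lit 0) (XT.nd (nat_lit 78) (nat_lit 1064) (nat_lit 0) (XT.lf (nat_lit 0) (nat_lit 9717075954) (nat_lit 1140) (nat_lit 7858812283) (nat_lit 76) (nat_lit 2533983979) (nat_lit 151) (nat_lit 5) (nat_lit 166) (nat_lit 5) (nat_lit 152) (nat_lit 5) (nat_lit 278) (nat_lit 266) (nat_lit 176)) (XT.nd (nat_lit 78) (nat_lit 532) (nat_lit 0) (XT.lf (nat_lit 0) (nat_lit 7533011537) (nat_lit 532) (nat_lit 5147895974) (nat_lit 608) (nat_lit 7994720159) (nat_lit 144) (nat_lit 5) (nat_lit 151) (nat_lit 5) (nat_lit 152) (nat_lit 5) (nat_lit 279) (nat_lit 266) (nat_lit 175)) (XT.lf (nat_lit 0) (nat_lit 2547860400) (nat_lit 532) (nat_lit 13409790089) (nat_lit 608)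 (nat_lit 5307110787) (nat_lit 137) (nat_lit 5) (nat_lit 144) (nat_lit 5) (nat_lit 145) (nat_lit 5) (nat_lit 280) (nat_lit 266) (nat_lit 174)))) (XT.nd (nat_lit 78) (nat_lit 1140) (nat_lit 0) (XT.lf (nat_lit 0) (nat_lit 19228471793) (nat_lit 532) (nat_lit 339749390) (nat_lit 608) (nat_lit 2310061114) (nat_lit 137) (nat_lit 5) (nat_lit 144) (nat_lit 5) (nat_lit 145) (nat_lit 5) (nat_lit 281) (nat_lit 266) (nat_lit 173)) (XT.nd (nat_lit 78) (nat_lit 532) (nat_lit 0) (XT.lf (nat_lit 0) (nat_lit 1073673729) (nat_lit 608) (nat_lit 8169176659) (nat_lit 76) (nat_lit 13271820936) (nat_lit 129) (nat_lit 5) (nat_lit 137) (nat_lit 5) (nat_lit 130) (nat_lit 5) (nat_lit 282) (nat_lit 266) (nat_lit 172)) (XT.lf (nat_lit 0) (nat_lit 4726595690) (nat_lit 608) (nat_lit 14021785856) (nat_lit 76) (nat_lit 4429405637) (nat_lit 122) (nat_lit 5) (nat_lit 130) (nat_lit 5) (nat_lit 123) (nat_lit 5) (nat_lit 283)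 (nat_lit 266) (nat_lit 171))))) (XT.nd (nat_lit 234) (nat_lit 912) (nat_lit 0) (XT.nd (nat_lit 78) (nat_lit 456) (nat_lit 0) (XT.lf (nat_lit 0) (nat_lit 3607187856) (nat_lit 456) (nat_lit 5152943891) (nat_lit 532) (nat_lit 15108013587) (nat_lit 116) (nat_lit 5) (nat_lit 122) (nat_lit 5) (nat_lit 123) (nat_lit 5) (nat_lit 284) (nat_lit 266) (nat_lit 170)) (XT.nd (nat_lit 78) (nat_lit 456) (nat_lit 0) (XT.lf (nat_lit 0) (nat_lit 13214436191) (nat_lit 532) (nat_lit 2282873935) (nat_lit 76) (nat_lit 9089162843) (nat_lit 116) (nat_lit 5) (nat_lit 123) (nat_lit 5) (nat_lit 117) (nat_lit 5) (nat_lit 285) (nat_lit 266) (nat_lit 169)) (XT.lf (nat_lit 0) (nat_lit 16856084692) (nat_lit 456) (nat_lit 1235728020) (nat_lit 532) (nat_lit 7242916732) (nat_lit 110) (nat_lit 5) (nat_lit 116) (nat_lit 5) (nat_lit 117) (nat_lit 5) (nat_lit 286) (nat_lit 266) (nat_lit 168)))) (XT.nd (nat_lit 78) (nat_lit 532)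 (nat_lit 0) (XT.lf (nat_lit 0) (nat_lit 10946388508) (nat_lit 380) (nat_lit 12514507966) (nat_lit 456) (nat_lit 2652089177) (nat_lit 105) (nat_lit 5) (nat_lit 110) (nat_lit 5) (nat_lit 111) (nat_lit 5) (nat_lit 287) (nat_lit 266) (nat_lit 167)) (XT.nd (nat_lit 78) (nat_lit 0) (nat_lit 0) (XT.lf (nat_lit 0) (nat_lit 2281120700) (nat_lit 532) (nat_lit 22314623191) (nat_lit 76) (nat_lit 2329151336) (nat_lit 98) (nat_lit 5) (nat_lit 105) (nat_lit 5) (nat_lit 99) (nat_lit 5) (nat_lit 288) (nat_lit 266) (nat_lit 166)) (XT.lf (nat_lit 0) (nat_lit 7678248280) (nat_lit 532) (nat_lit 2249135202) (nat_lit 76) (nat_lit 17841085284) (nat_lit 98) (nat_lit 5) (nat_lit 105) (nat_lit 5) (nat_lit 99) (nat_lit 5) (nat_lit 289) (nat_lit 266) (nat_lit 165))))))))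
noncomputable def xc96 : XT := (XT.nd (nat_lit 1716) (nat_lit 1368) (nat_lit 0) (XT.nd (nat_lit 858) (nat_lit 1976) (nat_lit 0) (XT.nd (nat_lit 390) (nat_lit 1292) (nat_lit 0) (XT.nd (nat_lit 156) (nat_lit 760) (nat_lit 0) (XT.nd (nat_lit 78) (nat_lit 380) (nat_lit 0) (XT.lf (nat_lit 0) (nat_lit 13572230364) (nat_lit 456) (nat_lit 9523607987) (nat_lit 76) (nat_lit 5551591190) (nat_lit 93) (nat_lit 5) (nat_lit 99) (nat_lit 5) (nat_lit 94) (nat_lit 5) (nat_lit 290) (nat_lit 266) (nat_lit 164)) (XT.lf (nat_lit 0) (nat_lit 12165803246) (nat_lit 380) (nat_lit 7824246414) (nat_lit 456) (nat_lit 9573432172) (nat_lit 88) (nat_lit 5) (nat_lit 93) (nat_lit 5) (nat_lit 94) (nat_lit 5) (nat_lit 291) (nat_lit 266) (nat_lit 163))) (XT.nd (nat_lit 78) (nat_lit 456) (nat_lit 0) (XT.lf (nat_lit 0) (nat_lit 4612542172) (nat_lit 304) (nat_lit 22327491285) (nat_lit 380) (nat_lit 3578981858) (nat_lit 84) (nat_lit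 5) (nat_lit 88) (nat_lit 5) (nat_lit 89) (nat_lit 5) (nat_lit 292) (nat_lit 266) (nat_lit 162)) (XT.nd (nat_lit 78) (nat_lit 380) (nat_lit 0) (XT.lf (nat_lit 0) (nat_lit 2911319170) (nat_lit 380) (nat_lit 3550665940) (nat_lit 76) (nat_lit 25052099537) (nat_lit 83) (nat_lit 5) (nat_lit 88) (nat_lit 5) (nat_lit 84) (nat_lit 5) (nat_lit 293) (nat_lit 266) (nat_lit 161)) (XT.lf (nat_lit 0) (nat_lit 9937705860) (nat_lit 456) (nat_lit 12383292112) (nat_lit 76) (nat_lit 10228293505) (nat_lit 78) (nat_lit 5) (nat_lit 84) (nat_lit 5) (nat_lit 79) (nat_lit 5) (nat_lit 294) (nat_lit 266) (nat_lit 160))))) (XT.nd (nat_lit 234) (nat_lit 684) (nat_lit 0) (XT.nd (nat_lit 78) (nat_lit 304) (nat_lit 0) (XT.lf (nat_lit 0) (nat_lit 11656451162) (nat_lit 304) (nat_lit 5863265653) (nat_lit 380) (nat_lit 16110426760) (nat_lit 74) (nat_lit 5) (nat_lit 78) (nat_lit 5) (nat_lit 79) (nat_lit 5) (nat_lit 295) (nat_lit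 266) (nat_lit 159)) (XT.nd (nat_lit 78) (nat_lit 0) (nat_lit 0) (XT.lf (nat_lit 0) (nat_lit 2317087289) (nat_lit 304) (nat_lit 23414942879) (nat_lit 380) (nat_lit 9025485458) (nat_lit 70) (nat_lit 5) (nat_lit 74) (nat_lit 5) (nat_lit 75) (nat_lit 5) (nat_lit 296) (nat_lit 266) (nat_lit 158)) (XT.lf (nat_lit 0) (nat_lit 28208746236) (nat_lit 304) (nat_lit 6421787867) (nat_lit 380) (nat_lit 1302467698) (nat_lit 70) (nat_lit 5) (nat_lit 74) (nat_lit 5) (nat_lit 75) (nat_lit 5) (nat_lit 297) (nat_lit 266) (nat_lit 157)))) (XT.nd (nat_lit 78) (nat_lit 304) (nat_lit 0) (XT.lf (nat_lit 0) (nat_lit 6955102045) (nat_lit 380) (nat_lit 18760965732) (nat_lit 76) (nat_lit 11440806676) (nat_lit 65) (nat_lit 5) (nat_lit 70) (nat_lit 5) (nat_lit 66) (nat_lit 5) (nat_lit 298) (nat_lit 266) (nat_lit 156)) (XT.nd (nat_lit 78) (nat_lit 0) (nat_lit 0) (XT.lf (nat_lit 0) (nat_lit 7601549913) (nat_lit 304) (nat_lit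 8206898942) (nat_lit 380) (nat_lit 22626821185) (nat_lit 61) (nat_lit 5) (nat_lit 65) (nat_lit 5) (nat_lit 66) (nat_lit 5) (nat_lit 299) (nat_lit 266) (nat_lit 155)) (XT.lf (nat_lit 0) (nat_lit 25388999381) (nat_lit 380) (nat_lit 4209156431) (nat_lit 76) (nat_lit 10170904210) (nat_lit 61) (nat_lit 5) (nat_lit 66) (nat_lit 5) (nat_lit 62) (nat_lit 5) (nat_lit 300) (nat_lit 266) (nat_lit 154)))))) (XT.nd (nat_lit 390) (nat_lit 988) (nat_lit 0) (XT.nd (nat_lit 156) (nat_lit 456) (nat_lit 0) (XT.nd (nat_lit 78) (nat_lit 304) (nat_lit 0) (XT.lf (nat_lit 0) (nat_lit 24123238702) (nat_lit 228) (nat_lit 11632119403) (nat_lit 304) (nat_lit 5404988175) (nat_lit 58) (nat_lit 5) (nat_lit 61) (nat_lit 5) (nat_lit 62) (nat_lit 5) (nat_lit 301) (nat_lit 266) (nat_lit 153)) (XT.lf (nat_lit 0) (nat_lit 4158507974) (nat_lit 304) (nat_lit 31172229418) (nat_lit 76) (nat_lit 7282767180) (nat_lit 54) (nat_lit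 5) (nat_lit 58) (nat_lit 5) (nat_lit 55) (nat_lit 5) (nat_lit 302) (nat_lit 266) (nat_lit 152))) (XT.nd (nat_lit 78) (nat_lit 456) (nat_lit 0) (XT.lf (nat_lit 0) (nat_lit 14376438506) (nat_lit 304) (nat_lit 2619169282) (nat_lit 76) (nat_lit 27133475238) (nat_lit 54) (nat_lit 5) (nat_lit 58) (nat_lit 5) (nat_lit 55) (nat_lit 5) (nat_lit 303) (nat_lit 266) (nat_lit 151)) (XT.nd (nat_lit 78) (nat_lit 228) (nat_lit 0) (XT.lf (nat_lit 0) (nat_lit 25390562549) (nat_lit 304) (nat_lit 17841539346) (nat_lit 76) (nat_lit 2479788148) (nat_lit 51) (nat_lit 5) (nat_lit 55) (nat_lit 5) (nat_lit 52) (nat_lit 5) (nat_lit 304) (nat_lit 266) (nat_lit 150)) (XT.lf (nat_lit 0) (nat_lit 12630331321) (nat_lit 228) (nat_lit 24638291132) (nat_lit 304) (nat_lit 10095826215) (nat_lit 48) (nat_lit 5) (nat_lit 51) (nat_lit 5) (nat_lit 52) (nat_lit 5) (nat_lit 305) (nat_lit 266) (nat_lit 149))))) (XT.nd (nat_lit 234)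 (nat_lit 456) (nat_lit 0) (XT.nd (nat_lit 78) (nat_lit 456) (nat_lit 0) (XT.lf (nat_lit 0) (nat_lit 807133644) (nat_lit 304) (nat_lit 4113694295) (nat_lit 76) (nat_lit 44173269257) (nat_lit 47) (nat_lit 5) (nat_lit 51) (nat_lit 5) (nat_lit 48) (nat_lit 5) (nat_lit 306) (nat_lit 266) (nat_lit 148)) (XT.nd (nat_lit 78) (nat_lit 228) (nat_lit 0) (XT.lf (nat_lit 0) (nat_lit 12471102877) (nat_lit 304) (nat_lit 22572657240) (nat_lit 76) (nat_lit 15850736689) (nat_lit 44) (nat_lit 5) (nat_lit 48) (nat_lit 5) (nat_lit 45) (nat_lit 5) (nat_lit 307) (nat_lit 266) (nat_lit 147)) (XT.lf (nat_lit 0) (nat_lit 9813255469) (nat_lit 228) (nat_lit 15085498400) (nat_lit 304) (nat_lit 27880754859) (nat_lit 41) (nat_lit 5) (nat_lit 44) (nat_lit 5) (nat_lit 45) (nat_lit 5) (nat_lit 308) (nat_lit 266) (nat_lit 146)))) (XT.nd (nat_lit 78) (nat_lit 456) (nat_lit 0) (XT.lf (nat_lit 0) (nat_lit 38232783075) (nat_lit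 304) (nat_lit 10529867353) (nat_lit 76) (nat_lit 5987577455) (nat_lit 41) (nat_lit 5) (nat_lit 45) (nat_lit 5) (nat_lit 42) (nat_lit 5) (nat_lit 309) (nat_lit 266) (nat_lit 145)) (XT.nd (nat_lit 78) (nat_lit 304) (nat_lit 0) (XT.lf (nat_lit 0) (nat_lit 23832078468) (nat_lit 152) (nat_lit 28776972893) (nat_lit 228) (nat_lit 4199171700) (nat_lit 39) (nat_lit 5) (nat_lit 41) (nat_lit 5) (nat_lit 42) (nat_lit 5) (nat_lit 310) (nat_lit 266) (nat_lit 144)) (XT.lf (nat_lit 0) (nat_lit 1093694149) (nat_lit 228) (nat_lit 7585169873) (nat_lit 304) (nat_lit 50284311700) (nat_lit 35) (nat_lit 5) (nat_lit 38) (nat_lit 5) (nat_lit 39) (nat_lit 5) (nat_lit 311) (nat_lit 266) (nat_lit 143))))))) (XT.nd (nat_lit 858) (nat_lit 456) (nat_lit 0) (XT.nd (nat_lit 390) (nat_lit 532) (nat_lit 0) (XT.nd (nat_lit 156) (nat_lit 228) (nat_lit 0) (XT.nd (nat_lit 78) (nat_lit 152) (nat_lit 0) (XT.lf (nat_lit 0) (nat_lit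 22593040964) (nat_lit 304) (nat_lit 23855079460) (nat_lit 76) (nat_lit 14762141228) (nat_lit 35) (nat_lit 5) (nat_lit 39) (nat_lit 5) (nat_lit 36) (nat_lit 5) (nat_lit 312) (nat_lit 266) (nat_lit 142)) (XT.lf (nat_lit 0) (nat_lit 12009458687) (nat_lit 152) (nat_lit 25380207788) (nat_lit 228) (nat_lit 26174438405) (nat_lit 33) (nat_lit 5) (nat_lit 35) (nat_lit 5) (nat_lit 36) (nat_lit 5) (nat_lit 313) (nat_lit 266) (nat_lit 141))) (XT.nd (nat_lit 78) (nat_lit 228) (nat_lit 0) (XT.lf (nat_lit 0) (nat_lit 50157591840) (nat_lit 152) (nat_lit 3009009291) (nat_lit 228) (nat_lit 12861829754) (nat_lit 33) (nat_lit 5) (nat_lit 35) (nat_lit 5) (nat_lit 36) (nat_lit 5) (nat_lit 314) (nat_lit 266) (nat_lit 140)) (XT.nd (nat_lit 78) (nat_lit 0) (nat_lit 0) (XT.lf (nat_lit 0) (nat_lit 1500325465) (nat_lit 228) (nat_lit 46800466980) (nat_lit 76) (nat_lit 20302692333) (nat_lit 30) (nat_lit 5) (nat_lit 33)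 (nat_lit 5) (nat_lit 31) (nat_lit 5) (nat_lit 315) (nat_lit 266) (nat_lit 139)) (XT.lf (nat_lit 0) (nat_lit 16507656236) (nat_lit 228) (nat_lit 9779716120) (nat_lit 76) (nat_lit 45010310916) (nat_lit 30) (nat_lit 5) (nat_lit 33) (nat_lit 5) (nat_lit 31) (nat_lit 5) (nat_lit 316) (nat_lit 266) (nat_lit 138))))) (XT.nd (nat_lit 234) (nat_lit 228) (nat_lit 0) (XT.nd (nat_lit 78) (nat_lit 152) (nat_lit 0) (XT.lf (nat_lit 0) (nat_lit 29663541901) (nat_lit 152) (nat_lit 2882415676) (nat_lit 228) (nat_lit 41572220145) (nat_lit 28) (nat_lit 5) (nat_lit 30) (nat_lit 5) (nat_lit 31) (nat_lit 5) (nat_lit 317) (nat_lit 266) (nat_lit 137)) (XT.nd (nat_lit 78) (nat_lit 152) (nat_lit 0) (XT.lf (nat_lit 0) (nat_lit 49691949315) (nat_lit 228) (nat_lit 6010138389) (nat_lit 76) (nat_lit 21368439883) (nat_lit 28) (nat_lit 5) (nat_lit 31) (nat_lit 5) (nat_lit 29) (nat_lit 5) (nat_lit 318) (nat_lit 266) (nat_lit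 136)) (XT.lf (nat_lit 0) (nat_lit 35003613086) (nat_lit 152) (nat_lit 33052987717) (nat_lit 228) (nat_lit 12103057102) (nat_lit 26) (nat_lit 5) (nat_lit 28) (nat_lit 5) (nat_lit 29) (nat_lit 5) (nat_lit 319) (nat_lit 266) (nat_lit 135)))) (XT.nd (nat_lit 78) (nat_lit 152) (nat_lit 0) (XT.lf (nat_lit 0) (nat_lit 3917794567) (nat_lit 228) (nat_lit 5253003836) (nat_lit 76) (nat_lit 74229563750) (nat_lit 25) (nat_lit 5) (nat_lit 28) (nat_lit 5) (nat_lit 26) (nat_lit 5) (nat_lit 320) (nat_lit 266) (nat_lit 134)) (XT.nd (nat_lit 78) (nat_lit 0) (nat_lit 0) (XT.lf (nat_lit 0) (nat_lit 21003413105) (nat_lit 228) (nat_lit 49703146599) (nat_lit 76) (nat_lit 16077529235) (nat_lit 23) (nat_lit 5) (nat_lit 26) (nat_lit 5) (nat_lit 24) (nat_lit 5) (nat_lit 321) (nat_lit 266) (nat_lit 133)) (XT.lf (nat_lit 0) (nat_lit 39086667219) (nat_lit 228) (nat_lit 8793514157) (nat_lit 76) (nat_lit 42452523207) (nat_lit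 23) (nat_lit 5) (nat_lit 26) (nat_lit 5) (nat_lit 24) (nat_lit 5) (nat_lit 322) (nat_lit 266) (nat_lit 132)))))) (XT.nd (nat_lit 33150) (nat_lit 0) (nat_lit 11856) (XT.nd (nat_lit 156) (nat_lit 304) (nat_lit 0) (XT.nd (nat_lit 78) (nat_lit 0) (nat_lit 0) (XT.lf (nat_lit 0) (nat_lit 34835272000) (nat_lit 152) (nat_lit 23570032957) (nat_lit 228) (nat_lit 35643512431) (nat_lit 21) (nat_lit 5) (nat_lit 23) (nat_lit 5) (nat_lit 24) (nat_lit 5) (nat_lit 323) (nat_lit 266) (nat_lit 131)) (XT.lf (nat_lit 0) (nat_lit 78796547239) (nat_lit 228) (nat_lit 17144459486) (nat_lit 76) (nat_lit 2006531792) (nat_lit 21) (nat_lit 5) (nat_lit 24) (nat_lit 5) (nat_lit 22) (nat_lit 4) (nat_lit 324) (nat_lit 266) (nat_lit 130))) (XT.nd (nat_lit 78) (nat_lit 228) (nat_lit 0) (XT.lf (nat_lit 0) (nat_lit 27317531372) (nat_lit 76) (nat_lit 73386936179) (nat_lit 152) (nat_lit 1321817401) (nat_lit 20) (nat_lit 5) (nat_lit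 21) (nat_lit 5) (nat_lit 22) (nat_lit 4) (nat_lit 325) (nat_lit 266) (nat_lit 129)) (XT.nd (nat_lit 78) (nat_lit 152) (nat_lit 0) (XT.lf (nat_lit 0) (nat_lit 17234233590) (nat_lit 152) (nat_lit 32117398148) (nat_lit 76) (nat_lit 56947074093) (nat_lit 19) (nat_lit 5) (nat_lit 21) (nat_lit 5) (nat_lit 20) (nat_lit 5) (nat_lit 326) (nat_lit 266) (nat_lit 128)) (XT.lf (nat_lit 0) (nat_lit 12835294894) (nat_lit 152) (nat_lit 23975944611) (nat_lit 228) (nat_lit 73969503343) (nat_lit 17) (nat_lit 5) (nat_lit 19) (nat_lit 5) (nat_lit 20) (nat_lit 5) (nat_lit 327) (nat_lit 266) (nat_lit 127))))) (XT.nd (nat_lit 234) (nat_lit 0) (nat_lit 152) (XT.nd (nat_lit 78) (nat_lit 0) (nat_lit 0) (XT.lf (nat_lit 0) (nat_lit 4615187711) (nat_lit 1140) (nat_lit 1570589832) (nat_lit 1140) (nat_lit 1570589832) (nat_lit 173) (nat_lit 3) (nat_lit 188) (nat_lit 3) (nat_lit 188) (nat_lit 5) (nat_lit 267) (nat_lit 267)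 (nat_lit 186)) (XT.nd (nat_lit 78) (nat_lit 0) (nat_lit 76) (XT.lf (nat_lit 76) (nat_lit 8124785983) (nat_lit 0) (nat_lit 1833208390) (nat_lit 1140) (nat_lit 5926814917) (nat_lit 174) (nat_lit 5) (nat_lit 173) (nat_lit 3) (nat_lit 188) (nat_lit 5) (nat_lit 268) (nat_lit 267) (nat_lit 185)) (XT.lf (nat_lit 76) (nat_lit 3713480546) (nat_lit 0) (nat_lit 7138791915) (nat_lit 1140) (nat_lit 5419360393) (nat_lit 175) (nat_lit 5) (nat_lit 174) (nat_lit 5) (nat_lit 189) (nat_lit 5) (nat_lit 269) (nat_lit 267) (nat_lit 184)))) (XT.nd (nat_lit 78) (nat_lit 0) (nat_lit 0) (XT.lf (nat_lit 0) (nat_lit 11902482344) (nat_lit 1064) (nat_lit 825078365) (nat_lit 1140) (nat_lit 3946951441) (nat_lit 175) (nat_lit 5) (nat_lit 189) (nat_lit 5) (nat_lit 190) (nat_lit 5) (nat_lit 270) (nat_lit 267) (nat_lit 183)) (XT.nd (nat_lit 78) (nat_lit 0) (nat_lit 76) (XT.lf (nat_lit 76) (nat_lit 11634787336) (nat_lit 0)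 (nat_lit 1529951571) (nat_lit 1140) (nat_lit 3928059076) (nat_lit 176) (nat_lit 5) (nat_lit 175) (nat_lit 5) (nat_lit 190) (nat_lit 5) (nat_lit 271) (nat_lit 267) (nat_lit 182)) (XT.lf (nat_lit 76) (nat_lit 7230590524) (nat_lit 0) (nat_lit 7412662488) (nat_lit 1140) (nat_lit 2884197096) (nat_lit 177) (nat_lit 5) (nat_lit 176) (nat_lit 5) (nat_lit 191) (nat_lit 5) (nat_lit 272) (nat_lit 267) (nat_lit 181))))))))
noncomputable def xc97 : XT := (XT.nd (nat_lit 1716) (nat_lit 4028) (nat_lit 0) (XT.nd (nat_lit 858) (nat_lit 3496) (nat_lit 0) (XT.nd (nat_lit 390) (nat_lit 2584) (nat_lit 0) (XT.nd (nat_lit 156) (nat_lit 1064) (nat_lit 0) (XT.nd (nat_lit 78) (nat_lit 0) (nat_lit 0) (XT.lf (nat_lit 76) (nat_lit 2664483769) (nat_lit 0) (nat_lit 13648232438) (nat_lit 1140) (nat_lit 1667652064) (nat_lit 178) (nat_lit 5) (nat_lit 177) (nat_lit 5) (nat_lit 192) (nat_lit 5) (nat_lit 273) (nat_lit 267)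 (nat_lit 180)) (XT.lf (nat_lit 76) (nat_lit 16397609710) (nat_lit 0) (nat_lit 1826821974) (nat_lit 1140) (nat_lit 226779317) (nat_lit 178) (nat_lit 5) (nat_lit 177) (nat_lit 5) (nat_lit 192) (nat_lit 5) (nat_lit 274) (nat_lit 267) (nat_lit 179))) (XT.nd (nat_lit 78) (nat_lit 0) (nat_lit 76) (XT.lf (nat_lit 0) (nat_lit 1459717294) (nat_lit 1140) (nat_lit 6965193193) (nat_lit 1216) (nat_lit 10514393031) (nat_lit 163) (nat_lit 5) (nat_lit 178) (nat_lit 5) (nat_lit 179) (nat_lit 5) (nat_lit 275) (nat_lit 267) (nat_lit 178)) (XT.nd (nat_lit 78) (nat_lit 0) (nat_lit 0) (XT.lf (nat_lit 0) (nat_lit 3356485188) (nat_lit 1140) (nat_lit 12084952836) (nat_lit 1216) (nat_lit 4006413191) (nat_lit 164) (nat_lit 5) (nat_lit 179) (nat_lit 5) (nat_lit 180) (nat_lit 5) (nat_lit 276) (nat_lit 267) (nat_lit 177)) (XT.lf (nat_lit 76) (nat_lit 2521392042) (nat_lit 0) (nat_lit 2989576481) (nat_lit 1216) (nat_lit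 14466006716) (nat_lit 165) (nat_lit 5) (nat_lit 164) (nat_lit 5) (nat_lit 180) (nat_lit 5) (nat_lit 277) (nat_lit 267) (nat_lit 176))))) (XT.nd (nat_lit 234) (nat_lit 1140) (nat_lit 0) (XT.nd (nat_lit 78) (nat_lit 1596) (nat_lit 0) (XT.lf (nat_lit 0) (nat_lit 7977731118) (nat_lit 1140) (nat_lit 2531904976) (nat_lit 76) (nat_lit 10016816288) (nat_lit 165) (nat_lit 5) (nat_lit 180) (nat_lit 5) (nat_lit 166) (nat_lit 5) (nat_lit 278) (nat_lit 267) (nat_lit 175)) (XT.nd (nat_lit 78) (nat_lit 532) (nat_lit 0) (XT.lf (nat_lit 0) (nat_lit 10734624438) (nat_lit 1140) (nat_lit 7771018118) (nat_lit 76) (nat_lit 2592789025) (nat_lit 151) (nat_lit 5) (nat_lit 166) (nat_lit 5) (nat_lit 152) (nat_lit 5) (nat_lit 279) (nat_lit 267) (nat_lit 174)) (XT.lf (nat_lit 0) (nat_lit 8376616727) (nat_lit 532) (nat_lit 5449200705) (nat_lit 608) (nat_lit 7867329109) (nat_lit 144) (nat_lit 5) (nat_lit 151) (nat_lit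 5) (nat_lit 152) (nat_lit 5) (nat_lit 280) (nat_lit 267) (nat_lit 173)))) (XT.nd (nat_lit 78) (nat_lit 608) (nat_lit 0) (XT.lf (nat_lit 0) (nat_lit 3145029215) (nat_lit 532) (nat_lit 14101155243) (nat_lit 608) (nat_lit 5066203360) (nat_lit 137) (nat_lit 5) (nat_lit 144) (nat_lit 5) (nat_lit 145) (nat_lit 5) (nat_lit 281) (nat_lit 267) (nat_lit 172)) (XT.nd (nat_lit 78) (nat_lit 608) (nat_lit 0) (XT.lf (nat_lit 0) (nat_lit 20637300901) (nat_lit 532) (nat_lit 376618430) (nat_lit 608) (nat_lit 1943408965) (nat_lit 137) (nat_lit 5) (nat_lit 144) (nat_lit 5) (nat_lit 145) (nat_lit 5) (nat_lit 282) (nat_lit 267) (nat_lit 171)) (XT.lf (nat_lit 0) (nat_lit 1581769295) (nat_lit 608) (nat_lit 8118598030) (nat_lit 76) (nat_lit 13925619723) (nat_lit 129) (nat_lit 5) (nat_lit 137) (nat_lit 5) (nat_lit 130) (nat_lit 5) (nat_lit 283) (nat_lit 267) (nat_lit 170)))))) (XT.nd (nat_lit 390) (nat_lit 1672)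 (nat_lit 0) (XT.nd (nat_lit 156) (nat_lit 836) (nat_lit 0) (XT.nd (nat_lit 78) (nat_lit 456) (nat_lit 0) (XT.lf (nat_lit 0) (nat_lit 5400069540) (nat_lit 608) (nat_lit 14263220826) (nat_lit 76) (nat_lit 4659523772) (nat_lit 122) (nat_lit 5) (nat_lit 130) (nat_lit 5) (nat_lit 123) (nat_lit 5) (nat_lit 284) (nat_lit 267) (nat_lit 169)) (XT.lf (nat_lit 0) (nat_lit 4234025673) (nat_lit 456) (nat_lit 5384732167) (nat_lit 532) (nat_lit 15429463717) (nat_lit 116) (nat_lit 5) (nat_lit 122) (nat_lit 5) (nat_lit 123) (nat_lit 5) (nat_lit 285) (nat_lit 267) (nat_lit 168))) (XT.nd (nat_lit 78) (nat_lit 836) (nat_lit 0) (XT.lf (nat_lit 0) (nat_lit 14275984740) (nat_lit 532) (nat_lit 1959340588) (nat_lit 76) (nat_lit 9567767954) (nat_lit 116) (nat_lit 5) (nat_lit 123) (nat_lit 5) (nat_lit 117) (nat_lit 5) (nat_lit 286) (nat_lit 267) (nat_lit 167)) (XT.nd (nat_lit 78) (nat_lit 380) (nat_lit 0) (XT.lf (nat_lit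 0) (nat_lit 18124020045) (nat_lit 456) (nat_lit 1258209675) (nat_lit 532) (nat_lit 7207015184) (nat_lit 110) (nat_lit 5) (nat_lit 116) (nat_lit 5) (nat_lit 117) (nat_lit 5) (nat_lit 287) (nat_lit 267) (nat_lit 166)) (XT.lf (nat_lit 0) (nat_lit 11918156463) (nat_lit 380) (nat_lit 13087678412) (nat_lit 456) (nat_lit 2401027803) (nat_lit 105) (nat_lit 5) (nat_lit 110) (nat_lit 5) (nat_lit 111) (nat_lit 5) (nat_lit 288) (nat_lit 267) (nat_lit 165))))) (XT.nd (nat_lit 234) (nat_lit 760) (nat_lit 0) (XT.nd (nat_lit 78) (nat_lit 380) (nat_lit 0) (XT.lf (nat_lit 0) (nat_lit 2758037058) (nat_lit 532) (nat_lit 22999337754) (nat_lit 76) (nat_lit 2502310297) (nat_lit 98) (nat_lit 5) (nat_lit 105) (nat_lit 5) (nat_lit 99) (nat_lit 5) (nat_lit 289) (nat_lit 267) (nat_lit 164)) (XT.nd (nat_lit 78) (nat_lit 380) (nat_lit 0) (XT.lf (nat_lit 0) (nat_lit 8407741954) (nat_lit 532) (nat_lit 1951099966) (nat_lit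 76) (nat_lit 18787140876) (nat_lit 98) (nat_lit 5) (nat_lit 105) (nat_lit 5) (nat_lit 99) (nat_lit 5) (nat_lit 290) (nat_lit 267) (nat_lit 163)) (XT.lf (nat_lit 0) (nat_lit 14584431881) (nat_lit 456) (nat_lit 9591190361) (nat_lit 76) (nat_lit 5893654913) (nat_lit 93) (nat_lit 5) (nat_lit 99) (nat_lit 5) (nat_lit 94) (nat_lit 5) (nat_lit 291) (nat_lit 267) (nat_lit 162)))) (XT.nd (nat_lit 78) (nat_lit 380) (nat_lit 0) (XT.lf (nat_lit 0) (nat_lit 13170979053) (nat_lit 380) (nat_lit 8140092958) (nat_lit 456) (nat_lit 9720446732) (nat_lit 88) (nat_lit 5) (nat_lit 93) (nat_lit 5) (nat_lit 94) (nat_lit 5) (nat_lit 292) (nat_lit 267) (nat_lit 161)) (XT.nd (nat_lit 78) (nat_lit 76) (nat_lit 0) (XT.lf (nat_lit 0) (nat_lit 5237821182) (nat_lit 304) (nat_lit 23359906946) (nat_lit 380) (nat_lit 3437448988) (nat_lit 84) (nat_lit 5) (nat_lit 88) (nat_lit 5) (nat_lit 89) (nat_lit 5) (nat_lit 293) (nat_lit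 267) (nat_lit 160)) (XT.lf (nat_lit 0) (nat_lit 3356150086) (nat_lit 380) (nat_lit 3345951430) (nat_lit 76) (nat_lit 26378276521) (nat_lit 83) (nat_lit 5) (nat_lit 88) (nat_lit 5) (nat_lit 84) (nat_lit 5) (nat_lit 294) (nat_lit 267) (nat_lit 159))))))) (XT.nd (nat_lit 858) (nat_lit 1596) (nat_lit 0) (XT.nd (nat_lit 390) (nat_lit 1064) (nat_lit 0) (XT.nd (nat_lit 156) (nat_lit 684) (nat_lit 0) (XT.nd (nat_lit 78) (nat_lit 304) (nat_lit 0) (XT.lf (nat_lit 0) (nat_lit 10723969506) (nat_lit 456) (nat_lit 12622891222) (nat_lit 76) (nat_lit 10820801692) (nat_lit 78) (nat_lit 5) (nat_lit 84) (nat_lit 5) (nat_lit 79) (nat_lit 5) (nat_lit 295) (nat_lit 267) (nat_lit 158)) (XT.lf (nat_lit 0) (nat_lit 12607959047) (nat_lit 304) (nat_lit 6066886069) (nat_lit 380) (nat_lit 16628038716) (nat_lit 74) (nat_lit 5) (nat_lit 78) (nat_lit 5) (nat_lit 79) (nat_lit 5) (nat_lit 296) (nat_lit 267) (nat_lit 157)))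 (XT.nd (nat_lit 78) (nat_lit 380) (nat_lit 0) (XT.lf (nat_lit 0) (nat_lit 2798738242) (nat_lit 304) (nat_lit 24490079412) (nat_lit 380) (nat_lit 9198094226) (nat_lit 70) (nat_lit 5) (nat_lit 74) (nat_lit 5) (nat_lit 75) (nat_lit 5) (nat_lit 297) (nat_lit 267) (nat_lit 156)) (XT.nd (nat_lit 78) (nat_lit 380) (nat_lit 0) (XT.lf (nat_lit 0) (nat_lit 29967561250) (nat_lit 304) (nat_lit 6651819536) (nat_lit 380) (nat_lit 1102195364) (nat_lit 70) (nat_lit 5) (nat_lit 74) (nat_lit 5) (nat_lit 75) (nat_lit 5) (nat_lit 298) (nat_lit 267) (nat_lit 155)) (XT.lf (nat_lit 0) (nat_lit 7554877564) (nat_lit 380) (nat_lit 19348283448) (nat_lit 76) (nat_lit 12103667247) (nat_lit 65) (nat_lit 5) (nat_lit 70) (nat_lit 5) (nat_lit 66) (nat_lit 5) (nat_lit 299) (nat_lit 267) (nat_lit 154))))) (XT.nd (nat_lit 234) (nat_lit 532) (nat_lit 0) (XT.nd (nat_lit 78) (nat_lit 228) (nat_lit 0) (XT.lf (nat_lit 0) (nat_lit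 8322304359) (nat_lit 304) (nat_lit 8519861179) (nat_lit 380) (nat_lit 23507255554) (nat_lit 61) (nat_lit 5) (nat_lit 65) (nat_lit 5) (nat_lit 66) (nat_lit 5) (nat_lit 300) (nat_lit 267) (nat_lit 153)) (XT.nd (nat_lit 78) (nat_lit 228) (nat_lit 0) (XT.lf (nat_lit 0) (nat_lit 26891049676) (nat_lit 380) (nat_lit 4088801588) (nat_lit 76) (nat_lit 10770385061) (nat_lit 61) (nat_lit 5) (nat_lit 66) (nat_lit 5) (nat_lit 62) (nat_lit 5) (nat_lit 301) (nat_lit 267) (nat_lit 152)) (XT.lf (nat_lit 0) (nat_lit 25650730623) (nat_lit 228) (nat_lit 12117008327) (nat_lit 304) (nat_lit 5443601790) (nat_lit 58) (nat_lit 5) (nat_lit 61) (nat_lit 5) (nat_lit 62) (nat_lit 5) (nat_lit 302) (nat_lit 267) (nat_lit 151)))) (XT.nd (nat_lit 78) (nat_lit 228) (nat_lit 0) (XT.lf (nat_lit 0) (nat_lit 4586715723) (nat_lit 304) (nat_lit 32408156190) (nat_lit 76) (nat_lit 7742436388) (nat_lit 54) (nat_lit 5) (nat_lit 58)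 (nat_lit 5) (nat_lit 55) (nat_lit 5) (nat_lit 303) (nat_lit 267) (nat_lit 150)) (XT.nd (nat_lit 78) (nat_lit 228) (nat_lit 0) (XT.lf (nat_lit 0) (nat_lit 15305053145) (nat_lit 304) (nat_lit 2442808986) (nat_lit 76) (nat_lit 28581130761) (nat_lit 54) (nat_lit 5) (nat_lit 58) (nat_lit 5) (nat_lit 55) (nat_lit 5) (nat_lit 304) (nat_lit 267) (nat_lit 149)) (XT.lf (nat_lit 0) (nat_lit 26863683966) (nat_lit 304) (nat_lit 18429709297) (nat_lit 76) (nat_lit 2697744910) (nat_lit 51) (nat_lit 5) (nat_lit 55) (nat_lit 5) (nat_lit 52) (nat_lit 5) (nat_lit 305) (nat_lit 267) (nat_lit 148)))))) (XT.nd (nat_lit 390) (nat_lit 836) (nat_lit 0) (XT.nd (nat_lit 156) (nat_lit 456) (nat_lit 0) (XT.nd (nat_lit 78) (nat_lit 76) (nat_lit 0) (XT.lf (nat_lit 0) (nat_lit 13557043470) (nat_lit 228) (nat_lit 25771746077) (nat_lit 304) (nat_lit 10397752261) (nat_lit 48) (nat_lit 5) (nat_lit 51) (nat_lit 5) (nat_lit 52)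 (nat_lit 5) (nat_lit 306) (nat_lit 267) (nat_lit 147)) (XT.lf (nat_lit 0) (nat_lit 1036925215) (nat_lit 304) (nat_lit 4034260142) (nat_lit 76) (nat_lit 46471723561) (nat_lit 47) (nat_lit 5) (nat_lit 51) (nat_lit 5) (nat_lit 48) (nat_lit 5) (nat_lit 307) (nat_lit 267) (nat_lit 146))) (XT.nd (nat_lit 78) (nat_lit 228) (nat_lit 0) (XT.lf (nat_lit 0) (nat_lit 13278636707) (nat_lit 304) (nat_lit 23419554063) (nat_lit 76) (nat_lit 16735311428) (nat_lit 44) (nat_lit 5) (nat_lit 48) (nat_lit 5) (nat_lit 45) (nat_lit 5) (nat_lit 308) (nat_lit 267) (nat_lit 145)) (XT.nd (nat_lit 78) (nat_lit 0) (nat_lit 0) (XT.lf (nat_lit 0) (nat_lit 10577578375) (nat_lit 228) (nat_lit 15743961574) (nat_lit 304) (nat_lit 29091418206) (nat_lit 41) (nat_lit 5) (nat_lit 44) (nat_lit 5) (nat_lit 45) (nat_lit 5) (nat_lit 309) (nat_lit 267) (nat_lit 144)) (XT.lf (nat_lit 0) (nat_lit 40314678787) (nat_lit 304) (nat_lit 10791346300)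 (nat_lit 76) (nat_lit 6376425008) (nat_lit 41) (nat_lit 5) (nat_lit 45) (nat_lit 5) (nat_lit 42) (nat_lit 5) (nat_lit 310) (nat_lit 267) (nat_lit 143))))) (XT.nd (nat_lit 234) (nat_lit 380) (nat_lit 0) (XT.nd (nat_lit 78) (nat_lit 304) (nat_lit 0) (XT.lf (nat_lit 0) (nat_lit 25281100227) (nat_lit 152) (nat_lit 30123027263) (nat_lit 228) (nat_lit 4239395175) (nat_lit 39) (nat_lit 5) (nat_lit 41) (nat_lit 5) (nat_lit 42) (nat_lit 5) (nat_lit 311) (nat_lit 267) (nat_lit 142)) (XT.nd (nat_lit 78) (nat_lit 0) (nat_lit 0) (XT.lf (nat_lit 0) (nat_lit 1401798062) (nat_lit 228) (nat_lit 7871943246) (nat_lit 304) (nat_lit 52632605360) (nat_lit 35) (nat_lit 5) (nat_lit 38) (nat_lit 5) (nat_lit 39) (nat_lit 5) (nat_lit 312) (nat_lit 267) (nat_lit 141)) (XT.lf (nat_lit 0) (nat_lit 23876810257) (nat_lit 304) (nat_lit 24802578174) (nat_lit 76) (nat_lit 15586610578) (nat_lit 35) (nat_lit 5) (nat_lit 39)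 (nat_lit 5) (nat_lit 36) (nat_lit 5) (nat_lit 313) (nat_lit 267) (nat_lit 140)))) (XT.nd (nat_lit 78) (nat_lit 228) (nat_lit 0) (XT.lf (nat_lit 0) (nat_lit 12848156688) (nat_lit 152) (nat_lit 26560061406) (nat_lit 228) (nat_lit 27329475023) (nat_lit 33) (nat_lit 5) (nat_lit 35) (nat_lit 5) (nat_lit 36) (nat_lit 5) (nat_lit 314) (nat_lit 267) (nat_lit 139)) (XT.nd (nat_lit 78) (nat_lit 228) (nat_lit 0) (XT.lf (nat_lit 0) (nat_lit 52892352447) (nat_lit 152) (nat_lit 3074548544) (nat_lit 228) (nat_lit 13358554287) (nat_lit 33) (nat_lit 5) (nat_lit 35) (nat_lit 5) (nat_lit 36) (nat_lit 5) (nat_lit 315) (nat_lit 267) (nat_lit 138)) (XT.lf (nat_lit 0) (nat_lit 1714976890) (nat_lit 228) (nat_lit 48913727861) (nat_lit 76) (nat_lit 21400637558) (nat_lit 30) (nat_lit 5) (nat_lit 33) (nat_lit 5) (nat_lit 31) (nat_lit 5) (nat_lit 316) (nat_lit 267) (nat_lit 137))))))))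
noncomputable def xc98 : XT := (XT.nd (nat_lit 34554) (nat_lit 0) (nat_lit 3496) (XT.nd (nat_lit 33696) (nat_lit 0) (nat_lit 10868) (XT.nd (nat_lit 390) (nat_lit 456) (nat_lit 0) (XT.nd (nat_lit 156) (nat_lit 228) (nat_lit 0) (XT.nd (nat_lit 78) (nat_lit 152) (nat_lit 0) (XT.lf (nat_lit 0) (nat_lit 17466024907) (nat_lit 228) (nat_lit 10052737670) (nat_lit 76) (nat_lit 47339693709) (nat_lit 30) (nat_lit 5) (nat_lit 33) (nat_lit 5) (nat_lit 31) (nat_lit 5) (nat_lit 317) (nat_lit 267) (nat_lit 136)) (XT.lf (nat_lit 0) (nat_lit 31356492679) (nat_lit 152) (nat_lit 2945432448) (nat_lit 228) (nat_lit 43518185605) (nat_lit 28) (nat_lit 5) (nat_lit 30) (nat_lit 5) (nat_lit 31) (nat_lit 5) (nat_lit 318) (nat_lit 267) (nat_lit 135))) (XT.nd (nat_lit 78) (nat_lit 228) (nat_lit 0) (XT.lf (nat_lit 0) (nat_lit 52299831822) (nat_lit 228) (nat_lit 6107816796) (nat_lit 76) (nat_lit 22512596525) (nat_lit 28)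 (nat_lit 5) (nat_lit 31) (nat_lit 5) (nat_lit 29) (nat_lit 5) (nat_lit 319) (nat_lit 267) (nat_lit 134)) (XT.nd (nat_lit 78) (nat_lit 76) (nat_lit 0) (XT.lf (nat_lit 0) (nat_lit 36950808213) (nat_lit 152) (nat_lit 34627930778) (nat_lit 228) (nat_lit 12585217544) (nat_lit 26) (nat_lit 5) (nat_lit 28) (nat_lit 5) (nat_lit 29) (nat_lit 5) (nat_lit 320) (nat_lit 267) (nat_lit 133)) (XT.lf (nat_lit 0) (nat_lit 4228534190) (nat_lit 228) (nat_lit 5325638352) (nat_lit 76) (nat_lit 78012665116) (nat_lit 25) (nat_lit 5) (nat_lit 28) (nat_lit 5) (nat_lit 26) (nat_lit 5) (nat_lit 321) (nat_lit 267) (nat_lit 132))))) (XT.nd (nat_lit 234) (nat_lit 152) (nat_lit 0) (XT.nd (nat_lit 78) (nat_lit 152) (nat_lit 0) (XT.lf (nat_lit 0) (nat_lit 22165444500) (nat_lit 228) (nat_lit 52001013580) (nat_lit 76) (nat_lit 16953387001) (nat_lit 23) (nat_lit 5) (nat_lit 26) (nat_lit 5) (nat_lit 24) (nat_lit 5) (nat_lit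 322) (nat_lit 267) (nat_lit 131)) (XT.nd (nat_lit 78) (nat_lit 152) (nat_lit 0) (XT.lf (nat_lit 0) (nat_lit 41147534618) (nat_lit 228) (nat_lit 9054818103) (nat_lit 76) (nat_lit 44643702991) (nat_lit 23) (nat_lit 5) (nat_lit 26) (nat_lit 5) (nat_lit 24) (nat_lit 5) (nat_lit 323) (nat_lit 267) (nat_lit 130)) (XT.lf (nat_lit 0) (nat_lit 36750294370) (nat_lit 152) (nat_lit 24678402292) (nat_lit 228) (nat_lit 37319383917) (nat_lit 21) (nat_lit 5) (nat_lit 23) (nat_lit 5) (nat_lit 24) (nat_lit 5) (nat_lit 324) (nat_lit 267) (nat_lit 129)))) (XT.nd (nat_lit 78) (nat_lit 152) (nat_lit 0) (XT.lf (nat_lit 0) (nat_lit 82835232327) (nat_lit 228) (nat_lit 17834289800) (nat_lit 76) (nat_lit 2172347694) (nat_lit 21) (nat_lit 5) (nat_lit 24) (nat_lit 5) (nat_lit 22) (nat_lit 4) (nat_lit 325) (nat_lit 267) (nat_lit 128)) (XT.nd (nat_lit 78) (nat_lit 76) (nat_lit 0) (XT.lf (nat_lit 0) (nat_lit 28846002324)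 (nat_lit 76) (nat_lit 76989401776) (nat_lit 152) (nat_lit 1289247619) (nat_lit 20) (nat_lit 5) (nat_lit 21) (nat_lit 5) (nat_lit 22) (nat_lit 4) (nat_lit 326) (nat_lit 267) (nat_lit 127)) (XT.lf (nat_lit 0) (nat_lit 18188074249) (nat_lit 152) (nat_lit 33566512362) (nat_lit 76) (nat_lit 59856220290) (nat_lit 19) (nat_lit 5) (nat_lit 21) (nat_lit 5) (nat_lit 20) (nat_lit 5) (nat_lit 327) (nat_lit 267) (nat_lit 126)))))) (XT.nd (nat_lit 390) (nat_lit 836) (nat_lit 0) (XT.nd (nat_lit 156) (nat_lit 0) (nat_lit 76) (XT.nd (nat_lit 78) (nat_lit 0) (nat_lit 0) (XT.lf (nat_lit 0) (nat_lit 5258168244) (nat_lit 1140) (nat_lit 1436412953) (nat_lit 1140) (nat_lit 1436412953) (nat_lit 173) (nat_lit 3) (nat_lit 188) (nat_lit 3) (nat_lit 188) (nat_lit 5) (nat_lit 268) (nat_lit 268) (nat_lit 184)) (XT.lf (nat_lit 76) (nat_lit 8944243653) (nat_lit 0) (nat_lit 2300805684) (nat_lit 1140) (nat_lit 5408754408)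 (nat_lit 174) (nat_lit 5) (nat_lit 173) (nat_lit 3) (nat_lit 188) (nat_lit 5) (nat_lit 269) (nat_lit 268) (nat_lit 183))) (XT.nd (nat_lit 78) (nat_lit 0) (nat_lit 76) (XT.lf (nat_lit 76) (nat_lit 4328560609) (nat_lit 0) (nat_lit 7818587960) (nat_lit 1140) (nat_lit 4914001527) (nat_lit 175) (nat_lit 5) (nat_lit 174) (nat_lit 5) (nat_lit 189) (nat_lit 5) (nat_lit 270) (nat_lit 268) (nat_lit 182)) (XT.nd (nat_lit 78) (nat_lit 0) (nat_lit 0) (XT.lf (nat_lit 0) (nat_lit 13211091215) (nat_lit 1064) (nat_lit 431499969) (nat_lit 1140) (nat_lit 3842816768) (nat_lit 175) (nat_lit 5) (nat_lit 189) (nat_lit 5) (nat_lit 190) (nat_lit 5) (nat_lit 271) (nat_lit 268) (nat_lit 181)) (XT.lf (nat_lit 76) (nat_lit 12638894637) (nat_lit 0) (nat_lit 1867650564) (nat_lit 1140) (nat_lit 3419028208) (nat_lit 176) (nat_lit 5) (nat_lit 175) (nat_lit 5) (nat_lit 190) (nat_lit 5) (nat_lit 272) (nat_lit 268) (nat_lit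 180))))) (XT.nd (nat_lit 234) (nat_lit 0) (nat_lit 76) (XT.nd (nat_lit 78) (nat_lit 1064) (nat_lit 0) (XT.lf (nat_lit 76) (nat_lit 8026057481) (nat_lit 0) (nat_lit 8002156616) (nat_lit 1140) (nat_lit 2354731808) (nat_lit 177) (nat_lit 5) (nat_lit 176) (nat_lit 5) (nat_lit 191) (nat_lit 5) (nat_lit 273) (nat_lit 268) (nat_lit 179)) (XT.nd (nat_lit 78) (nat_lit 1140) (nat_lit 0) (XT.lf (nat_lit 76) (nat_lit 3241528461) (nat_lit 0) (nat_lit 14510798982) (nat_lit 1140) (nat_lit 1107108783) (nat_lit 178) (nat_lit 5) (nat_lit 177) (nat_lit 5) (nat_lit 192) (nat_lit 5) (nat_lit 274) (nat_lit 268) (nat_lit 178)) (XT.lf (nat_lit 0) (nat_lit 367824043) (nat_lit 1140) (nat_lit 1718200844) (nat_lit 1216) (nat_lit 17268638045) (nat_lit 162) (nat_lit 5) (nat_lit 177) (nat_lit 5) (nat_lit 178) (nat_lit 5) (nat_lit 275) (nat_lit 268) (nat_lit 177)))) (XT.nd (nat_lit 78) (nat_lit 0) (nat_lit 76) (XT.lf (nat_lit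 0) (nat_lit 2107959941) (nat_lit 1140) (nat_lit 6870292120) (nat_lit 1216) (nat_lit 10889674724) (nat_lit 163) (nat_lit 5) (nat_lit 178) (nat_lit 5) (nat_lit 179) (nat_lit 5) (nat_lit 276) (nat_lit 268) (nat_lit 176)) (XT.nd (nat_lit 78) (nat_lit 0) (nat_lit 0) (XT.lf (nat_lit 0) (nat_lit 4075142519) (nat_lit 1140) (nat_lit 12239981886) (nat_lit 1216) (nat_lit 4087561803) (nat_lit 164) (nat_lit 5) (nat_lit 179) (nat_lit 5) (nat_lit 180) (nat_lit 5) (nat_lit 277) (nat_lit 268) (nat_lit 175)) (XT.lf (nat_lit 76) (nat_lit 3083803474) (nat_lit 0) (nat_lit 3231510784) (nat_lit 1216) (nat_lit 14643662417) (nat_lit 165) (nat_lit 5) (nat_lit 164) (nat_lit 5) (nat_lit 180) (nat_lit 5) (nat_lit 278) (nat_lit 268) (nat_lit 174))))))) (XT.nd (nat_lit 858) (nat_lit 3040) (nat_lit 0) (XT.nd (nat_lit 390) (nat_lit 2432) (nat_lit 0) (XT.nd (nat_lit 156) (nat_lit 1064) (nat_lit 0) (XT.nd (nat_lit 78) (nat_lit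 1064) (nat_lit 0) (XT.lf (nat_lit 0) (nat_lit 8879387742) (nat_lit 1140) (nat_lit 2226045088) (nat_lit 76) (nat_lit 10431322494) (nat_lit 165) (nat_lit 5) (nat_lit 180) (nat_lit 5) (nat_lit 166) (nat_lit 5) (nat_lit 279) (nat_lit 268) (nat_lit 173)) (XT.lf (nat_lit 0) (nat_lit 11753618413) (nat_lit 1140) (nat_lit 7723528408) (nat_lit 76) (nat_lit 2660846478) (nat_lit 151) (nat_lit 5) (nat_lit 166) (nat_lit 5) (nat_lit 152) (nat_lit 5) (nat_lit 280) (nat_lit 268) (nat_lit 172))) (XT.nd (nat_lit 78) (nat_lit 532) (nat_lit 0) (XT.lf (nat_lit 0) (nat_lit 9218989163) (nat_lit 532) (nat_lit 5761488342) (nat_lit 608) (nat_lit 7782575784) (nat_lit 144) (nat_lit 5) (nat_lit 151) (nat_lit 5) (nat_lit 152) (nat_lit 5) (nat_lit 281) (nat_lit 268) (nat_lit 171)) (XT.nd (nat_lit 78) (nat_lit 0) (nat_lit 0) (XT.lf (nat_lit 0) (nat_lit 3728381169) (nat_lit 532) (nat_lit 14825147836) (nat_lit 608) (nat_lit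 4860318095) (nat_lit 137) (nat_lit 5) (nat_lit 144) (nat_lit 5) (nat_lit 145) (nat_lit 5) (nat_lit 282) (nat_lit 268) (nat_lit 170)) (XT.lf (nat_lit 0) (nat_lit 22074975940) (nat_lit 532) (nat_lit 413482523) (nat_lit 608) (nat_lit 1603250428) (nat_lit 137) (nat_lit 5) (nat_lit 144) (nat_lit 5) (nat_lit 145) (nat_lit 5) (nat_lit 283) (nat_lit 268) (nat_lit 169))))) (XT.nd (nat_lit 234) (nat_lit 836) (nat_lit 0) (XT.nd (nat_lit 78) (nat_lit 988) (nat_lit 0) (XT.lf (nat_lit 0) (nat_lit 2073022730) (nat_lit 608) (nat_lit 8108167422) (nat_lit 76) (nat_lit 14613018841) (nat_lit 129) (nat_lit 5) (nat_lit 137) (nat_lit 5) (nat_lit 130) (nat_lit 5) (nat_lit 284) (nat_lit 268) (nat_lit 168)) (XT.nd (nat_lit 78) (nat_lit 456) (nat_lit 0) (XT.lf (nat_lit 0) (nat_lit 6066575571) (nat_lit 608) (nat_lit 14559461847) (nat_lit 76) (nat_lit 4900343819) (nat_lit 122) (nat_lit 5) (nat_lit 130) (nat_lit 5) (nat_lit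 123) (nat_lit 5) (nat_lit 285) (nat_lit 268) (nat_lit 167)) (XT.lf (nat_lit 0) (nat_lit 4850696048) (nat_lit 456) (nat_lit 5630513974) (nat_lit 532) (nat_lit 15807330963) (nat_lit 116) (nat_lit 5) (nat_lit 122) (nat_lit 5) (nat_lit 123) (nat_lit 5) (nat_lit 286) (nat_lit 268) (nat_lit 166)))) (XT.nd (nat_lit 78) (nat_lit 836) (nat_lit 0) (XT.lf (nat_lit 0) (nat_lit 15353345646) (nat_lit 532) (nat_lit 1660321637) (nat_lit 76) (nat_lit 10068058365) (nat_lit 116) (nat_lit 5) (nat_lit 123) (nat_lit 5) (nat_lit 117) (nat_lit 5) (nat_lit 287) (nat_lit 268) (nat_lit 165)) (XT.nd (nat_lit 78) (nat_lit 380) (nat_lit 0) (XT.lf (nat_lit 0) (nat_lit 19415827505) (nat_lit 456) (nat_lit 1285469595) (nat_lit 532) (nat_lit 7206325231) (nat_lit 110) (nat_lit 5) (nat_lit 116) (nat_lit 5) (nat_lit 117) (nat_lit 5) (nat_lit 288) (nat_lit 268) (nat_lit 164)) (XT.lf (nat_lit 0) (nat_lit 12899051615) (nat_lit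 380) (nat_lit 13694393441) (nat_lit 456) (nat_lit 2173082973) (nat_lit 105) (nat_lit 5) (nat_lit 110) (nat_lit 5) (nat_lit 111) (nat_lit 5) (nat_lit 289) (nat_lit 268) (nat_lit 163)))))) (XT.nd (nat_lit 390) (nat_lit 1444) (nat_lit 0) (XT.nd (nat_lit 156) (nat_lit 1064) (nat_lit 0) (XT.nd (nat_lit 78) (nat_lit 0) (nat_lit 0) (XT.lf (nat_lit 0) (nat_lit 3225063920) (nat_lit 532) (nat_lit 23758359883) (nat_lit 76) (nat_lit 2678855649) (nat_lit 98) (nat_lit 5) (nat_lit 105) (nat_lit 5) (nat_lit 99) (nat_lit 5) (nat_lit 290) (nat_lit 268) (nat_lit 162)) (XT.lf (nat_lit 0) (nat_lit 9141581441) (nat_lit 532) (nat_lit 1676326622) (nat_lit 76) (nat_lit 19775478717) (nat_lit 98) (nat_lit 5) (nat_lit 105) (nat_lit 5) (nat_lit 99) (nat_lit 5) (nat_lit 291) (nat_lit 268) (nat_lit 161))) (XT.nd (nat_lit 78) (nat_lit 684) (nat_lit 0) (XT.lf (nat_lit 0) (nat_lit 15616229437) (nat_lit 456) (nat_lit 9700139426)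 (nat_lit 76) (nat_lit 6246826696) (nat_lit 93) (nat_lit 5) (nat_lit 99) (nat_lit 5) (nat_lit 94) (nat_lit 5) (nat_lit 292) (nat_lit 268) (nat_lit 160)) (XT.nd (nat_lit 78) (nat_lit 304) (nat_lit 0) (XT.lf (nat_lit 0) (nat_lit 14189514985) (nat_lit 380) (nat_lit 8478738626) (nat_lit 456) (nat_lit 9905646350) (nat_lit 88) (nat_lit 5) (nat_lit 93) (nat_lit 5) (nat_lit 94) (nat_lit 5) (nat_lit 293) (nat_lit 268) (nat_lit 159)) (XT.lf (nat_lit 0) (nat_lit 5857673150) (nat_lit 304) (nat_lit 24451749092) (nat_lit 380) (nat_lit 3318634850) (nat_lit 84) (nat_lit 5) (nat_lit 88) (nat_lit 5) (nat_lit 89) (nat_lit 5) (nat_lit 294) (nat_lit 268) (nat_lit 158))))) (XT.nd (nat_lit 234) (nat_lit 684) (nat_lit 0) (XT.nd (nat_lit 78) (nat_lit 684) (nat_lit 0) (XT.lf (nat_lit 0) (nat_lit 3795399728) (nat_lit 380) (nat_lit 3166538972) (nat_lit 76) (nat_lit 27763922326) (nat_lit 83) (nat_lit 5) (nat_lit 88)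 (nat_lit 5) (nat_lit 84) (nat_lit 5) (nat_lit 295) (nat_lit 268) (nat_lit 157)) (XT.nd (nat_lit 78) (nat_lit 304) (nat_lit 0) (XT.lf (nat_lit 0) (nat_lit 11522642678) (nat_lit 456) (nat_lit 12909758689) (nat_lit 76) (nat_lit 11435395982) (nat_lit 78) (nat_lit 5) (nat_lit 84) (nat_lit 5) (nat_lit 79) (nat_lit 5) (nat_lit 296) (nat_lit 268) (nat_lit 156)) (XT.lf (nat_lit 0) (nat_lit 13572765459) (nat_lit 304) (nat_lit 6289012353) (nat_lit 380) (nat_lit 17198298355) (nat_lit 74) (nat_lit 5) (nat_lit 78) (nat_lit 5) (nat_lit 79) (nat_lit 5) (nat_lit 297) (nat_lit 268) (nat_lit 155)))) (XT.nd (nat_lit 78) (nat_lit 380) (nat_lit 0) (XT.lf (nat_lit 0) (nat_lit 3270463442) (nat_lit 304) (nat_lit 25627861739) (nat_lit 380) (nat_lit 9405241109) (nat_lit 70) (nat_lit 5) (nat_lit 74) (nat_lit 5) (nat_lit 75) (nat_lit 5) (nat_lit 298) (nat_lit 268) (nat_lit 154)) (XT.nd (nat_lit 78) (nat_lit 380) (nat_lit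 0) (XT.lf (nat_lit 0) (nat_lit 31781928159) (nat_lit 304) (nat_lit 6901818471) (nat_lit 380) (nat_lit 916583391) (nat_lit 70) (nat_lit 5) (nat_lit 74) (nat_lit 5) (nat_lit 75) (nat_lit 5) (nat_lit 299) (nat_lit 268) (nat_lit 153)) (XT.lf (nat_lit 0) (nat_lit 8161211390) (nat_lit 380) (nat_lit 19997574653) (nat_lit 76) (nat_lit 12791227242) (nat_lit 65) (nat_lit 5) (nat_lit 70) (nat_lit 5) (nat_lit 66) (nat_lit 5) (nat_lit 300) (nat_lit 268) (nat_lit 152))))))))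
noncomputable def xc99 : XT := (XT.nd (nat_lit 1716) (nat_lit 380) (nat_lit 0) (XT.nd (nat_lit 858) (nat_lit 1216) (nat_lit 0) (XT.nd (nat_lit 390) (nat_lit 988) (nat_lit 0) (XT.nd (nat_lit 156) (nat_lit 532) (nat_lit 0) (XT.nd (nat_lit 78) (nat_lit 0) (nat_lit 0) (XT.lf (nat_lit 0) (nat_lit 9047423613) (nat_lit 304) (nat_lit 8857525250) (nat_lit 380) (nat_lit 24455038567) (nat_lit 61) (nat_lit 5) (nat_lit 65) (nat_lit 5) (nat_lit 66) (nat_lit 5) (nat_lit 301) (nat_lit 268) (nat_lit 151)) (XT.lf (nat_lit 0) (nat_lit 28446577512) (nat_lit 380) (nat_lit 3993184828) (nat_lit 76) (nat_lit 11391385620) (nat_lit 61) (nat_lit 5) (nat_lit 66) (nat_lit 5) (nat_lit 62) (nat_lit 5) (nat_lit 302) (nat_lit 268) (nat_lit 150))) (XT.nd (nat_lit 78) (nat_lit 304) (nat_lit 0) (XT.lf (nat_lit 0) (nat_lit 27224722925) (nat_lit 228) (nat_lit 12635133531) (nat_lit 304) (nat_lit 5505681386) (nat_lit 58) (nat_lit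 5) (nat_lit 61) (nat_lit 5) (nat_lit 62) (nat_lit 5) (nat_lit 303) (nat_lit 268) (nat_lit 149)) (XT.nd (nat_lit 78) (nat_lit 0) (nat_lit 0) (XT.lf (nat_lit 0) (nat_lit 5015854093) (nat_lit 304) (nat_lit 33735879466) (nat_lit 76) (nat_lit 8216207504) (nat_lit 54) (nat_lit 5) (nat_lit 58) (nat_lit 5) (nat_lit 55) (nat_lit 5) (nat_lit 304) (nat_lit 268) (nat_lit 148)) (XT.lf (nat_lit 0) (nat_lit 16260593978) (nat_lit 304) (nat_lit 2286202260) (nat_lit 76) (nat_lit 30092710438) (nat_lit 54) (nat_lit 5) (nat_lit 58) (nat_lit 5) (nat_lit 55) (nat_lit 5) (nat_lit 305) (nat_lit 268) (nat_lit 147))))) (XT.nd (nat_lit 234) (nat_lit 456) (nat_lit 0) (XT.nd (nat_lit 78) (nat_lit 304) (nat_lit 0) (XT.lf (nat_lit 0) (nat_lit 28391533280) (nat_lit 304) (nat_lit 19075542138) (nat_lit 76) (nat_lit 2917863316) (nat_lit 51) (nat_lit 5) (nat_lit 55) (nat_lit 5) (nat_lit 52) (nat_lit 5) (nat_lit 306) (nat_lit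 268) (nat_lit 146)) (XT.nd (nat_lit 78) (nat_lit 76) (nat_lit 0) (XT.lf (nat_lit 0) (nat_lit 14502646740) (nat_lit 228) (nat_lit 26971027610) (nat_lit 304) (nat_lit 10733635099) (nat_lit 48) (nat_lit 5) (nat_lit 51) (nat_lit 5) (nat_lit 52) (nat_lit 5) (nat_lit 307) (nat_lit 268) (nat_lit 145)) (XT.lf (nat_lit 0) (nat_lit 1260594504) (nat_lit 304) (nat_lit 3977361930) (nat_lit 76) (nat_lit 48876752680) (nat_lit 47) (nat_lit 5) (nat_lit 51) (nat_lit 5) (nat_lit 48) (nat_lit 5) (nat_lit 308) (nat_lit 268) (nat_lit 144)))) (XT.nd (nat_lit 78) (nat_lit 228) (nat_lit 0) (XT.lf (nat_lit 0) (nat_lit 14109442634) (nat_lit 304) (nat_lit 24334988874) (nat_lit 76) (nat_lit 17655558093) (nat_lit 44) (nat_lit 5) (nat_lit 48) (nat_lit 5) (nat_lit 45) (nat_lit 5) (nat_lit 309) (nat_lit 268) (nat_lit 143)) (XT.nd (nat_lit 78) (nat_lit 0) (nat_lit 0) (XT.lf (nat_lit 0) (nat_lit 11354675100) (nat_lit 228)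 (nat_lit 16444255573) (nat_lit 304) (nat_lit 30379663133) (nat_lit 41) (nat_lit 5) (nat_lit 44) (nat_lit 5) (nat_lit 45) (nat_lit 5) (nat_lit 310) (nat_lit 268) (nat_lit 142)) (XT.lf (nat_lit 0) (nat_lit 42484840443) (nat_lit 304) (nat_lit 11090537723) (nat_lit 76) (nat_lit 6776396990) (nat_lit 41) (nat_lit 5) (nat_lit 45) (nat_lit 5) (nat_lit 42) (nat_lit 5) (nat_lit 311) (nat_lit 268) (nat_lit 141)))))) (XT.nd (nat_lit 390) (nat_lit 608) (nat_lit 0) (XT.nd (nat_lit 156) (nat_lit 152) (nat_lit 0) (XT.nd (nat_lit 78) (nat_lit 304) (nat_lit 0) (XT.lf (nat_lit 0) (nat_lit 26778640804) (nat_lit 152) (nat_lit 31545011483) (nat_lit 228) (nat_lit 4297410185) (nat_lit 39) (nat_lit 5) (nat_lit 41) (nat_lit 5) (nat_lit 42) (nat_lit 5) (nat_lit 312) (nat_lit 268) (nat_lit 140)) (XT.lf (nat_lit 0) (nat_lit 1701746654) (nat_lit 228) (nat_lit 8181653678) (nat_lit 304) (nat_lit 55113739552) (nat_lit 35)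 (nat_lit 5) (nat_lit 38) (nat_lit 5) (nat_lit 39) (nat_lit 5) (nat_lit 313) (nat_lit 268) (nat_lit 139))) (XT.nd (nat_lit 78) (nat_lit 152) (nat_lit 0) (XT.lf (nat_lit 0) (nat_lit 25210439655) (nat_lit 304) (nat_lit 25820253333) (nat_lit 76) (nat_lit 16444274248) (nat_lit 35) (nat_lit 5) (nat_lit 39) (nat_lit 5) (nat_lit 36) (nat_lit 5) (nat_lit 314) (nat_lit 268) (nat_lit 138)) (XT.nd (nat_lit 78) (nat_lit 0) (nat_lit 0) (XT.lf (nat_lit 0) (nat_lit 13706641680) (nat_lit 152) (nat_lit 27807196656) (nat_lit 228) (nat_lit 28556551674) (nat_lit 33) (nat_lit 5) (nat_lit 35) (nat_lit 5) (nat_lit 36) (nat_lit 5) (nat_lit 315) (nat_lit 268) (nat_lit 137)) (XT.lf (nat_lit 0) (nat_lit 55742757839) (nat_lit 152) (nat_lit 3151259000) (nat_lit 228) (nat_lit 13893722858) (nat_lit 33) (nat_lit 5) (nat_lit 35) (nat_lit 5) (nat_lit 36) (nat_lit 5) (nat_lit 316) (nat_lit 268) (nat_lit 136))))) (XT.nd (nat_lit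 234) (nat_lit 228) (nat_lit 0) (XT.nd (nat_lit 78) (nat_lit 152) (nat_lit 0) (XT.lf (nat_lit 0) (nat_lit 1927378934) (nat_lit 228) (nat_lit 51153734010) (nat_lit 76) (nat_lit 22545781100) (nat_lit 30) (nat_lit 5) (nat_lit 33) (nat_lit 5) (nat_lit 31) (nat_lit 5) (nat_lit 317) (nat_lit 268) (nat_lit 135)) (XT.nd (nat_lit 78) (nat_lit 152) (nat_lit 0) (XT.lf (nat_lit 0) (nat_lit 18459948247) (nat_lit 228) (nat_lit 10359488608) (nat_lit 76) (nat_lit 49778213312) (nat_lit 30) (nat_lit 5) (nat_lit 33) (nat_lit 5) (nat_lit 31) (nat_lit 5) (nat_lit 318) (nat_lit 268) (nat_lit 134)) (XT.lf (nat_lit 0) (nat_lit 33114588228) (nat_lit 152) (nat_lit 3019140342) (nat_lit 228) (nat_lit 45573781464) (nat_lit 28) (nat_lit 5) (nat_lit 30) (nat_lit 5) (nat_lit 31) (nat_lit 5) (nat_lit 319) (nat_lit 268) (nat_lit 133)))) (XT.nd (nat_lit 78) (nat_lit 228) (nat_lit 0) (XT.lf (nat_lit 0) (nat_lit 55026646580)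 (nat_lit 228) (nat_lit 6229236197) (nat_lit 76) (nat_lit 23706919910) (nat_lit 28) (nat_lit 5) (nat_lit 31) (nat_lit 5) (nat_lit 29) (nat_lit 5) (nat_lit 320) (nat_lit 268) (nat_lit 132)) (XT.nd (nat_lit 78) (nat_lit 76) (nat_lit 0) (XT.lf (nat_lit 0) (nat_lit 38977046559) (nat_lit 152) (nat_lit 36288845390) (nat_lit 228) (nat_lit 13102920676) (nat_lit 26) (nat_lit 5) (nat_lit 28) (nat_lit 5) (nat_lit 29) (nat_lit 5) (nat_lit 321) (nat_lit 268) (nat_lit 131)) (XT.lf (nat_lit 0) (nat_lit 4544133139) (nat_lit 228) (nat_lit 5419570450) (nat_lit 76) (nat_lit 81978262707) (nat_lit 25) (nat_lit 5) (nat_lit 28) (nat_lit 5) (nat_lit 26) (nat_lit 5) (nat_lit 322) (nat_lit 268) (nat_lit 130))))))) (XT.nd (nat_lit 33774) (nat_lit 0) (nat_lit 7752) (XT.nd (nat_lit 33306) (nat_lit 0) (nat_lit 11628) (XT.nd (nat_lit 156) (nat_lit 228) (nat_lit 0) (XT.nd (nat_lit 78) (nat_lit 0) (nat_lit 0) (XT.lf (nat_lit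 0) (nat_lit 23375177714) (nat_lit 228) (nat_lit 54431186392) (nat_lit 76) (nat_lit 17866345517) (nat_lit 23) (nat_lit 5) (nat_lit 26) (nat_lit 5) (nat_lit 24) (nat_lit 5) (nat_lit 323) (nat_lit 268) (nat_lit 129)) (XT.lf (nat_lit 0) (nat_lit 43301540862) (nat_lit 228) (nat_lit 9345770563) (nat_lit 76) (nat_lit 46938068298) (nat_lit 23) (nat_lit 5) (nat_lit 26) (nat_lit 5) (nat_lit 24) (nat_lit 5) (nat_lit 324) (nat_lit 268) (nat_lit 128))) (XT.nd (nat_lit 78) (nat_lit 76) (nat_lit 0) (XT.lf (nat_lit 0) (nat_lit 38744959901) (nat_lit 152) (nat_lit 25848710332) (nat_lit 228) (nat_lit 39088932128) (nat_lit 21) (nat_lit 5) (nat_lit 23) (nat_lit 5) (nat_lit 24) (nat_lit 5) (nat_lit 325) (nat_lit 268) (nat_lit 127)) (XT.nd (nat_lit 78) (nat_lit 76) (nat_lit 0) (XT.lf (nat_lit 0) (nat_lit 87066660815) (nat_lit 228) (nat_lit 18574174213) (nat_lit 76) (nat_lit 2340365816) (nat_lit 21) (nat_lit 5)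 (nat_lit 24) (nat_lit 5) (nat_lit 22) (nat_lit 4) (nat_lit 326) (nat_lit 268) (nat_lit 126)) (XT.lf (nat_lit 0) (nat_lit 30435780339) (nat_lit 76) (nat_lit 80778208635) (nat_lit 152) (nat_lit 1264221880) (nat_lit 20) (nat_lit 5) (nat_lit 21) (nat_lit 5) (nat_lit 22) (nat_lit 4) (nat_lit 327) (nat_lit 268) (nat_lit 125))))) (XT.nd (nat_lit 234) (nat_lit 0) (nat_lit 152) (XT.nd (nat_lit 78) (nat_lit 0) (nat_lit 0) (XT.lf (nat_lit 0) (nat_lit 5894973389) (nat_lit 1140) (nat_lit 1315302652) (nat_lit 1140) (nat_lit 1315302652) (nat_lit 173) (nat_lit 3) (nat_lit 188) (nat_lit 3) (nat_lit 188) (nat_lit 5) (nat_lit 269) (nat_lit 269) (nat_lit 182)) (XT.nd (nat_lit 78) (nat_lit 0) (nat_lit 76) (XT.lf (nat_lit 76) (nat_lit 9766257079) (nat_lit 0) (nat_lit 2756831795) (nat_lit 1140) (nat_lit 4940506182) (nat_lit 174) (nat_lit 5) (nat_lit 173) (nat_lit 3) (nat_lit 188) (nat_lit 5) (nat_lit 270) (nat_lit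 269) (nat_lit 181)) (XT.lf (nat_lit 76) (nat_lit 4934472572) (nat_lit 0) (nat_lit 8502357675) (nat_lit 1140) (nat_lit 4455550233) (nat_lit 175) (nat_lit 5) (nat_lit 174) (nat_lit 5) (nat_lit 189) (nat_lit 5) (nat_lit 271) (nat_lit 269) (nat_lit 180)))) (XT.nd (nat_lit 78) (nat_lit 0) (nat_lit 0) (XT.lf (nat_lit 0) (nat_lit 14518797480) (nat_lit 1064) (nat_lit 58669240) (nat_lit 1140) (nat_lit 3761504323) (nat_lit 175) (nat_lit 5) (nat_lit 189) (nat_lit 5) (nat_lit 190) (nat_lit 5) (nat_lit 272) (nat_lit 269) (nat_lit 179)) (XT.nd (nat_lit 78) (nat_lit 0) (nat_lit 76) (XT.lf (nat_lit 76) (nat_lit 13653939535) (nat_lit 0) (nat_lit 2197950475) (nat_lit 1140) (nat_lit 2950130347) (nat_lit 176) (nat_lit 5) (nat_lit 175) (nat_lit 5) (nat_lit 190) (nat_lit 5) (nat_lit 273) (nat_lit 269) (nat_lit 178)) (XT.lf (nat_lit 76) (nat_lit 8820954396) (nat_lit 0) (nat_lit 8600777829) (nat_lit 1140) (nat_lit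 1861425185) (nat_lit 177) (nat_lit 5) (nat_lit 176) (nat_lit 5) (nat_lit 191) (nat_lit 5) (nat_lit 274) (nat_lit 269) (nat_lit 177)))))) (XT.nd (nat_lit 468) (nat_lit 3040) (nat_lit 0) (XT.nd (nat_lit 234) (nat_lit 0) (nat_lit 152) (XT.nd (nat_lit 78) (nat_lit 1140) (nat_lit 0) (XT.lf (nat_lit 76) (nat_lit 3806163164) (nat_lit 0) (nat_lit 15399744756) (nat_lit 1140) (nat_lit 578404464) (nat_lit 178) (nat_lit 5) (nat_lit 177) (nat_lit 5) (nat_lit 192) (nat_lit 5) (nat_lit 275) (nat_lit 269) (nat_lit 176)) (XT.nd (nat_lit 78) (nat_lit 0) (nat_lit 76) (XT.lf (nat_lit 0) (nat_lit 931608244) (nat_lit 1140) (nat_lit 1408835082) (nat_lit 1216) (nat_lit 17964558386) (nat_lit 162) (nat_lit 5) (nat_lit 177) (nat_lit 5) (nat_lit 178) (nat_lit 5) (nat_lit 276) (nat_lit 269) (nat_lit 175)) (XT.lf (nat_lit 0) (nat_lit 2735132798) (nat_lit 1140) (nat_lit 6811846878) (nat_lit 1216) (nat_lit 11297706797)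 (nat_lit 163) (nat_lit 5) (nat_lit 178) (nat_lit 5) (nat_lit 179) (nat_lit 5) (nat_lit 277) (nat_lit 269) (nat_lit 174)))) (XT.nd (nat_lit 78) (nat_lit 0) (nat_lit 0) (XT.lf (nat_lit 0) (nat_lit 4778521478) (nat_lit 1140) (nat_lit 12444526476) (nat_lit 1216) (nat_lit 4183847333) (nat_lit 164) (nat_lit 5) (nat_lit 179) (nat_lit 5) (nat_lit 180) (nat_lit 5) (nat_lit 278) (nat_lit 269) (nat_lit 173)) (XT.nd (nat_lit 78) (nat_lit 0) (nat_lit 76) (XT.lf (nat_lit 76) (nat_lit 3633768551) (nat_lit 0) (nat_lit 3476946168) (nat_lit 1216) (nat_lit 14880929770) (nat_lit 165) (nat_lit 5) (nat_lit 164) (nat_lit 5) (nat_lit 180) (nat_lit 5) (nat_lit 279) (nat_lit 269) (nat_lit 172)) (XT.lf (nat_lit 0) (nat_lit 9779384401) (nat_lit 1140) (nat_lit 1945097784) (nat_lit 76) (nat_lit 10874580583) (nat_lit 165) (nat_lit 5) (nat_lit 180) (nat_lit 5) (nat_lit 166) (nat_lit 5) (nat_lit 280) (nat_lit 269) (nat_lit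 171))))) (XT.nd (nat_lit 234) (nat_lit 1140) (nat_lit 0) (XT.nd (nat_lit 78) (nat_lit 1064) (nat_lit 0) (XT.lf (nat_lit 0) (nat_lit 12778725868) (nat_lit 1140) (nat_lit 7714203136) (nat_lit 76) (nat_lit 2738032114) (nat_lit 151) (nat_lit 5) (nat_lit 166) (nat_lit 5) (nat_lit 152) (nat_lit 5) (nat_lit 281) (nat_lit 269) (nat_lit 170)) (XT.nd (nat_lit 78) (nat_lit 532) (nat_lit 0) (XT.lf (nat_lit 0) (nat_lit 10064103337) (nat_lit 532) (nat_lit 6085687569) (nat_lit 608) (nat_lit 7738035838) (nat_lit 144) (nat_lit 5) (nat_lit 151) (nat_lit 5) (nat_lit 152) (nat_lit 5) (nat_lit 282) (nat_lit 269) (nat_lit 169)) (XT.lf (nat_lit 0) (nat_lit 4301285936) (nat_lit 532) (nat_lit 15583579676) (nat_lit 608) (nat_lit 4686830205) (nat_lit 137) (nat_lit 5) (nat_lit 144) (nat_lit 5) (nat_lit 145) (nat_lit 5) (nat_lit 283) (nat_lit 269) (nat_lit 168)))) (XT.nd (nat_lit 78) (nat_lit 1140) (nat_lit 0) (XT.lf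 (nat_lit 0) (nat_lit 23546806364) (nat_lit 532) (nat_lit 450513267) (nat_lit 608) (nat_lit 1286742669) (nat_lit 137) (nat_lit 5) (nat_lit 144) (nat_lit 5) (nat_lit 145) (nat_lit 5) (nat_lit 284) (nat_lit 269) (nat_lit 167)) (XT.nd (nat_lit 78) (nat_lit 532) (nat_lit 0) (XT.lf (nat_lit 0) (nat_lit 2550519645) (nat_lit 608) (nat_lit 8135924537) (nat_lit 76) (nat_lit 15335613667) (nat_lit 129) (nat_lit 5) (nat_lit 137) (nat_lit 5) (nat_lit 130) (nat_lit 5) (nat_lit 285) (nat_lit 269) (nat_lit 166)) (XT.lf (nat_lit 0) (nat_lit 6729543854) (nat_lit 608) (nat_lit 14909276190) (nat_lit 76) (nat_lit 5152475620) (nat_lit 122) (nat_lit 5) (nat_lit 130) (nat_lit 5) (nat_lit 123) (nat_lit 5) (nat_lit 286) (nat_lit 269) (nat_lit 165))))))))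
noncomputable def xc100 : XT := (XT.nd (nat_lit 1716) (nat_lit 2052) (nat_lit 0) (XT.nd (nat_lit 858) (nat_lit 2280) (nat_lit 0) (XT.nd (nat_lit 390) (nat_lit 1520) (nat_lit 0) (XT.nd (nat_lit 156) (nat_lit 1368) (nat_lit 0) (XT.nd (nat_lit 78) (nat_lit 0) (nat_lit 0) (XT.lf (nat_lit 0) (nat_lit 5460549755) (nat_lit 456) (nat_lit 5890765476) (nat_lit 532) (nat_lit 16240685320) (nat_lit 116) (nat_lit 5) (nat_lit 122) (nat_lit 5) (nat_lit 123) (nat_lit 5) (nat_lit 287) (nat_lit 269) (nat_lit 164)) (XT.lf (nat_lit 0) (nat_lit 16450774080) (nat_lit 532) (nat_lit 1383259731) (nat_lit 76) (nat_lit 10591327055) (nat_lit 116) (nat_lit 5) (nat_lit 123) (nat_lit 5) (nat_lit 117) (nat_lit 5) (nat_lit 288) (nat_lit 269) (nat_lit 163))) (XT.nd (nat_lit 78) (nat_lit 912) (nat_lit 0) (XT.lf (nat_lit 0) (nat_lit 20736375304) (nat_lit 456) (nat_lit 1317406962) (nat_lit 532) (nat_lit 7239166923) (nat_lit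 110) (nat_lit 5) (nat_lit 116) (nat_lit 5) (nat_lit 117) (nat_lit 5) (nat_lit 289) (nat_lit 269) (nat_lit 162)) (XT.nd (nat_lit 78) (nat_lit 532) (nat_lit 0) (XT.lf (nat_lit 0) (nat_lit 13893199051) (nat_lit 380) (nat_lit 14335876024) (nat_lit 456) (nat_lit 1966094291) (nat_lit 105) (nat_lit 5) (nat_lit 110) (nat_lit 5) (nat_lit 111) (nat_lit 5) (nat_lit 290) (nat_lit 269) (nat_lit 161)) (XT.lf (nat_lit 0) (nat_lit 3684843202) (nat_lit 532) (nat_lit 24591679457) (nat_lit 76) (nat_lit 2859446809) (nat_lit 98) (nat_lit 5) (nat_lit 105) (nat_lit 5) (nat_lit 99) (nat_lit 5) (nat_lit 291) (nat_lit 269) (nat_lit 160))))) (XT.nd (nat_lit 234) (nat_lit 760) (nat_lit 0) (XT.nd (nat_lit 78) (nat_lit 760) (nat_lit 0) (XT.lf (nat_lit 0) (nat_lit 9882971071) (nat_lit 532) (nat_lit 1422430172) (nat_lit 76) (nat_lit 20808679679) (nat_lit 98) (nat_lit 5) (nat_lit 105) (nat_lit 5) (nat_lit 99) (nat_lit 5)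 (nat_lit 292) (nat_lit 269) (nat_lit 159)) (XT.nd (nat_lit 78) (nat_lit 380) (nat_lit 0) (XT.lf (nat_lit 0) (nat_lit 16671486227) (nat_lit 456) (nat_lit 9848991790) (nat_lit 76) (nat_lit 6612219312) (nat_lit 93) (nat_lit 5) (nat_lit 99) (nat_lit 5) (nat_lit 94) (nat_lit 5) (nat_lit 293) (nat_lit 269) (nat_lit 158)) (XT.lf (nat_lit 0) (nat_lit 15225509537) (nat_lit 380) (nat_lit 8840671946) (nat_lit 456) (nat_lit 10128073593) (nat_lit 88) (nat_lit 5) (nat_lit 93) (nat_lit 5) (nat_lit 94) (nat_lit 5) (nat_lit 294) (nat_lit 269) (nat_lit 157)))) (XT.nd (nat_lit 78) (nat_lit 456) (nat_lit 0) (XT.lf (nat_lit 0) (nat_lit 6475237903) (nat_lit 304) (nat_lit 25605263349) (nat_lit 380) (nat_lit 3220905289) (nat_lit 84) (nat_lit 5) (nat_lit 88) (nat_lit 5) (nat_lit 89) (nat_lit 5) (nat_lit 295) (nat_lit 269) (nat_lit 156)) (XT.nd (nat_lit 78) (nat_lit 380) (nat_lit 0) (XT.lf (nat_lit 0) (nat_lit 4231375735)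 (nat_lit 380) (nat_lit 3010389704) (nat_lit 76) (nat_lit 29212646315) (nat_lit 83) (nat_lit 5) (nat_lit 88) (nat_lit 5) (nat_lit 84) (nat_lit 5) (nat_lit 296) (nat_lit 269) (nat_lit 155)) (XT.lf (nat_lit 0) (nat_lit 12336847099) (nat_lit 456) (nat_lit 13242977151) (nat_lit 76) (nat_lit 12073881615) (nat_lit 78) (nat_lit 5) (nat_lit 84) (nat_lit 5) (nat_lit 79) (nat_lit 5) (nat_lit 297) (nat_lit 269) (nat_lit 154)))))) (XT.nd (nat_lit 390) (nat_lit 988) (nat_lit 0) (XT.nd (nat_lit 156) (nat_lit 684) (nat_lit 0) (XT.nd (nat_lit 78) (nat_lit 304) (nat_lit 0) (XT.lf (nat_lit 0) (nat_lit 14554722063) (nat_lit 304) (nat_lit 6529795833) (nat_lit 380) (nat_lit 17821349512) (nat_lit 74) (nat_lit 5) (nat_lit 78) (nat_lit 5) (nat_lit 79) (nat_lit 5) (nat_lit 298) (nat_lit 269) (nat_lit 153)) (XT.lf (nat_lit 0) (nat_lit 3734928372) (nat_lit 304) (nat_lit 26830595740) (nat_lit 380) (nat_lit 9646244364)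 (nat_lit 70) (nat_lit 5) (nat_lit 74) (nat_lit 5) (nat_lit 75) (nat_lit 5) (nat_lit 299) (nat_lit 269) (nat_lit 152))) (XT.nd (nat_lit 78) (nat_lit 684) (nat_lit 0) (XT.lf (nat_lit 0) (nat_lit 33657635765) (nat_lit 304) (nat_lit 7171995979) (nat_lit 380) (nat_lit 744070845) (nat_lit 70) (nat_lit 5) (nat_lit 74) (nat_lit 5) (nat_lit 75) (nat_lit 5) (nat_lit 300) (nat_lit 269) (nat_lit 151)) (XT.nd (nat_lit 78) (nat_lit 304) (nat_lit 0) (XT.lf (nat_lit 0) (nat_lit 8776609780) (nat_lit 380) (nat_lit 20708906476) (nat_lit 76) (nat_lit 13505506638) (nat_lit 65) (nat_lit 5) (nat_lit 70) (nat_lit 5) (nat_lit 66) (nat_lit 5) (nat_lit 301) (nat_lit 269) (nat_lit 150)) (XT.lf (nat_lit 0) (nat_lit 9780070563) (nat_lit 304) (nat_lit 9220284516) (nat_lit 380) (nat_lit 25471368940) (nat_lit 61) (nat_lit 5) (nat_lit 65) (nat_lit 5) (nat_lit 66) (nat_lit 5) (nat_lit 302) (nat_lit 269) (nat_lit 149)))))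 (XT.nd (nat_lit 234) (nat_lit 456) (nat_lit 0) (XT.nd (nat_lit 78) (nat_lit 532) (nat_lit 0) (XT.lf (nat_lit 0) (nat_lit 30060267252) (nat_lit 380) (nat_lit 3920683671) (nat_lit 76) (nat_lit 12035767878) (nat_lit 61) (nat_lit 5) (nat_lit 66) (nat_lit 5) (nat_lit 62) (nat_lit 5) (nat_lit 303) (nat_lit 269) (nat_lit 148)) (XT.nd (nat_lit 78) (nat_lit 304) (nat_lit 0) (XT.lf (nat_lit 0) (nat_lit 28850318046) (nat_lit 228) (nat_lit 13187320854) (nat_lit 304) (nat_lit 5590398114) (nat_lit 58) (nat_lit 5) (nat_lit 61) (nat_lit 5) (nat_lit 62) (nat_lit 5) (nat_lit 304) (nat_lit 269) (nat_lit 147)) (XT.lf (nat_lit 0) (nat_lit 5447873632) (nat_lit 304) (nat_lit 35157199940) (nat_lit 76) (nat_lit 8705611345) (nat_lit 54) (nat_lit 5) (nat_lit 58) (nat_lit 5) (nat_lit 55) (nat_lit 5) (nat_lit 305) (nat_lit 269) (nat_lit 146)))) (XT.nd (nat_lit 78) (nat_lit 456) (nat_lit 0) (XT.lf (nat_lit 0) (nat_lit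 17246220662) (nat_lit 304) (nat_lit 2147680469) (nat_lit 76) (nat_lit 31672196880) (nat_lit 54) (nat_lit 5) (nat_lit 58) (nat_lit 5) (nat_lit 55) (nat_lit 5) (nat_lit 306) (nat_lit 269) (nat_lit 145)) (XT.nd (nat_lit 78) (nat_lit 228) (nat_lit 0) (XT.lf (nat_lit 0) (nat_lit 29978606647) (nat_lit 304) (nat_lit 19779294190) (nat_lit 76) (nat_lit 3141063656) (nat_lit 51) (nat_lit 5) (nat_lit 55) (nat_lit 5) (nat_lit 52) (nat_lit 5) (nat_lit 307) (nat_lit 269) (nat_lit 144)) (XT.lf (nat_lit 0) (nat_lit 15470637214) (nat_lit 228) (nat_lit 28238576024) (nat_lit 304) (nat_lit 11103419098) (nat_lit 48) (nat_lit 5) (nat_lit 51) (nat_lit 5) (nat_lit 52) (nat_lit 5) (nat_lit 308) (nat_lit 269) (nat_lit 143))))))) (XT.nd (nat_lit 858) (nat_lit 684) (nat_lit 0) (XT.nd (nat_lit 390) (nat_lit 684) (nat_lit 0) (XT.nd (nat_lit 156) (nat_lit 380) (nat_lit 0) (XT.nd (nat_lit 78) (nat_lit 228) (nat_lit 0) (XT.lf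 (nat_lit 0) (nat_lit 1479472781) (nat_lit 304) (nat_lit 3941662028) (nat_lit 76) (nat_lit 51394461461) (nat_lit 47) (nat_lit 5) (nat_lit 51) (nat_lit 5) (nat_lit 48) (nat_lit 5) (nat_lit 309) (nat_lit 269) (nat_lit 142)) (XT.lf (nat_lit 0) (nat_lit 14966274486) (nat_lit 304) (nat_lit 25319953381) (nat_lit 76) (nat_lit 18614055809) (nat_lit 44) (nat_lit 5) (nat_lit 48) (nat_lit 5) (nat_lit 45) (nat_lit 5) (nat_lit 310) (nat_lit 269) (nat_lit 141))) (XT.nd (nat_lit 78) (nat_lit 152) (nat_lit 0) (XT.lf (nat_lit 0) (nat_lit 12147549723) (nat_lit 228) (nat_lit 17187643791) (nat_lit 304) (nat_lit 31747783720) (nat_lit 41) (nat_lit 5) (nat_lit 44) (nat_lit 5) (nat_lit 45) (nat_lit 5) (nat_lit 311) (nat_lit 269) (nat_lit 140)) (XT.nd (nat_lit 78) (nat_lit 152) (nat_lit 0) (XT.lf (nat_lit 0) (nat_lit 44749152957) (nat_lit 304) (nat_lit 11427036589) (nat_lit 76) (nat_lit 7188822944) (nat_lit 41) (nat_lit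 5) (nat_lit 45) (nat_lit 5) (nat_lit 42) (nat_lit 5) (nat_lit 312) (nat_lit 269) (nat_lit 139)) (XT.lf (nat_lit 0) (nat_lit 28329351134) (nat_lit 152) (nat_lit 33045919978) (nat_lit 228) (nat_lit 4372639198) (nat_lit 39) (nat_lit 5) (nat_lit 41) (nat_lit 5) (nat_lit 42) (nat_lit 5) (nat_lit 313) (nat_lit 269) (nat_lit 138))))) (XT.nd (nat_lit 234) (nat_lit 228) (nat_lit 0) (XT.nd (nat_lit 78) (nat_lit 152) (nat_lit 0) (XT.lf (nat_lit 0) (nat_lit 1995322594) (nat_lit 228) (nat_lit 8514648624) (nat_lit 304) (nat_lit 57732922151) (nat_lit 35) (nat_lit 5) (nat_lit 38) (nat_lit 5) (nat_lit 39) (nat_lit 5) (nat_lit 314) (nat_lit 269) (nat_lit 137)) (XT.nd (nat_lit 78) (nat_lit 152) (nat_lit 0) (XT.lf (nat_lit 0) (nat_lit 26597754278) (nat_lit 304) (nat_lit 26909493891) (nat_lit 76) (nat_lit 17337538429) (nat_lit 35) (nat_lit 5) (nat_lit 39) (nat_lit 5) (nat_lit 36) (nat_lit 5) (nat_lit 315) (nat_lit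 269) (nat_lit 136)) (XT.lf (nat_lit 0) (nat_lit 14587962116) (nat_lit 152) (nat_lit 29124206992) (nat_lit 228) (nat_lit 29857941979) (nat_lit 33) (nat_lit 5) (nat_lit 35) (nat_lit 5) (nat_lit 36) (nat_lit 5) (nat_lit 316) (nat_lit 269) (nat_lit 135)))) (XT.nd (nat_lit 78) (nat_lit 228) (nat_lit 0) (XT.lf (nat_lit 0) (nat_lit 58716551303) (nat_lit 152) (nat_lit 3238965286) (nat_lit 228) (nat_lit 14467992545) (nat_lit 33) (nat_lit 5) (nat_lit 35) (nat_lit 5) (nat_lit 36) (nat_lit 5) (nat_lit 317) (nat_lit 269) (nat_lit 134)) (XT.nd (nat_lit 78) (nat_lit 0) (nat_lit 0) (XT.lf (nat_lit 0) (nat_lit 2138626066) (nat_lit 228) (nat_lit 53524862666) (nat_lit 76) (nat_lit 23741198647) (nat_lit 30) (nat_lit 5) (nat_lit 33) (nat_lit 5) (nat_lit 31) (nat_lit 5) (nat_lit 318) (nat_lit 269) (nat_lit 133)) (XT.lf (nat_lit 0) (nat_lit 19492353455) (nat_lit 228) (nat_lit 10699788710) (nat_lit 76) (nat_lit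 52332008256) (nat_lit 30) (nat_lit 5) (nat_lit 33) (nat_lit 5) (nat_lit 31) (nat_lit 5) (nat_lit 319) (nat_lit 269) (nat_lit 132)))))) (XT.nd (nat_lit 390) (nat_lit 152) (nat_lit 0) (XT.nd (nat_lit 156) (nat_lit 380) (nat_lit 0) (XT.nd (nat_lit 78) (nat_lit 0) (nat_lit 0) (XT.lf (nat_lit 0) (nat_lit 34942898968) (nat_lit 152) (nat_lit 3103372888) (nat_lit 228) (nat_lit 47743342717) (nat_lit 28) (nat_lit 5) (nat_lit 30) (nat_lit 5) (nat_lit 31) (nat_lit 5) (nat_lit 320) (nat_lit 269) (nat_lit 131)) (XT.lf (nat_lit 0) (nat_lit 57879405818) (nat_lit 228) (nat_lit 6373830488) (nat_lit 76) (nat_lit 24954572987) (nat_lit 28) (nat_lit 5) (nat_lit 31) (nat_lit 5) (nat_lit 29) (nat_lit 5) (nat_lit 321) (nat_lit 269) (nat_lit 130))) (XT.nd (nat_lit 78) (nat_lit 228) (nat_lit 0) (XT.lf (nat_lit 0) (nat_lit 41087983182) (nat_lit 152) (nat_lit 38039358474) (nat_lit 228) (nat_lit 13656880547) (nat_lit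 26) (nat_lit 5) (nat_lit 28) (nat_lit 5) (nat_lit 29) (nat_lit 5) (nat_lit 322) (nat_lit 269) (nat_lit 129)) (XT.nd (nat_lit 78) (nat_lit 152) (nat_lit 0) (XT.lf (nat_lit 0) (nat_lit 4865827088) (nat_lit 228) (nat_lit 5534222606) (nat_lit 76) (nat_lit 86136100409) (nat_lit 25) (nat_lit 5) (nat_lit 28) (nat_lit 5) (nat_lit 26) (nat_lit 5) (nat_lit 323) (nat_lit 269) (nat_lit 128)) (XT.lf (nat_lit 0) (nat_lit 24635964707) (nat_lit 228) (nat_lit 56998661477) (nat_lit 76) (nat_lit 18818881990) (nat_lit 23) (nat_lit 5) (nat_lit 26) (nat_lit 5) (nat_lit 24) (nat_lit 5) (nat_lit 324) (nat_lit 269) (nat_lit 127))))) (XT.nd (nat_lit 33306) (nat_lit 0) (nat_lit 11552) (XT.nd (nat_lit 78) (nat_lit 152) (nat_lit 0) (XT.lf (nat_lit 0) (nat_lit 45554263722) (nat_lit 228) (nat_lit 9666312202) (nat_lit 76) (nat_lit 49341370949) (nat_lit 23) (nat_lit 5) (nat_lit 26) (nat_lit 5) (nat_lit 24) (nat_lit 5) (nat_lit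 325) (nat_lit 269) (nat_lit 126)) (XT.nd (nat_lit 33150) (nat_lit 0) (nat_lit 11552) (XT.lf (nat_lit 0) (nat_lit 40824748315) (nat_lit 152) (nat_lit 27083447822) (nat_lit 228) (nat_lit 40955922059) (nat_lit 21) (nat_lit 5) (nat_lit 23) (nat_lit 5) (nat_lit 24) (nat_lit 5) (nat_lit 326) (nat_lit 269) (nat_lit 125)) (XT.lf (nat_lit 0) (nat_lit 6528857416) (nat_lit 1140) (nat_lit 1206073727) (nat_lit 1140) (nat_lit 1206073727) (nat_lit 173) (nat_lit 3) (nat_lit 188) (nat_lit 3) (nat_lit 188) (nat_lit 5) (nat_lit 270) (nat_lit 270) (nat_lit 180)))) (XT.nd (nat_lit 78) (nat_lit 0) (nat_lit 76) (XT.lf (nat_lit 76) (nat_lit 10594525710) (nat_lit 0) (nat_lit 3203957582) (nat_lit 1140) (nat_lit 4517521563) (nat_lit 174) (nat_lit 5) (nat_lit 173) (nat_lit 3) (nat_lit 188) (nat_lit 5) (nat_lit 271) (nat_lit 270) (nat_lit 179)) (XT.nd (nat_lit 78) (nat_lit 0) (nat_lit 76) (XT.lf (nat_lit 76) (nat_lit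 5534469609) (nat_lit 0) (nat_lit 9193090358) (nat_lit 1140) (nat_lit 4039641694) (nat_lit 175) (nat_lit 5) (nat_lit 174) (nat_lit 5) (nat_lit 189) (nat_lit 5) (nat_lit 272) (nat_lit 270) (nat_lit 178)) (XT.lf (nat_lit 76) (nat_lit 302028584) (nat_lit 0) (nat_lit 15532597725) (nat_lit 1140) (nat_lit 3402424049) (nat_lit 176) (nat_lit 5) (nat_lit 175) (nat_lit 5) (nat_lit 190) (nat_lit 5) (nat_lit 273) (nat_lit 270) (nat_lit 177))))))))
noncomputable def xc101 : XT := (XT.nd (nat_lit 1716) (nat_lit 4180) (nat_lit 0) (XT.nd (nat_lit 858) (nat_lit 3724) (nat_lit 0) (XT.nd (nat_lit 390) (nat_lit 1900) (nat_lit 0) (XT.nd (nat_lit 156) (nat_lit 988) (nat_lit 0) (XT.nd (nat_lit 78) (nat_lit 0) (nat_lit 76) (XT.lf (nat_lit 76) (nat_lit 14684119656) (nat_lit 0) (nat_lit 2522739049) (nat_lit 1140) (nat_lit 2517274713) (nat_lit 176) (nat_lit 5) (nat_lit 175) (nat_lit 5) (nat_lit 190) (nat_lit 5) (nat_lit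 274) (nat_lit 270) (nat_lit 176)) (XT.lf (nat_lit 76) (nat_lit 9619003514) (nat_lit 0) (nat_lit 9210874210) (nat_lit 1140) (nat_lit 1400262237) (nat_lit 177) (nat_lit 5) (nat_lit 176) (nat_lit 5) (nat_lit 191) (nat_lit 5) (nat_lit 275) (nat_lit 270) (nat_lit 175))) (XT.nd (nat_lit 78) (nat_lit 1140) (nat_lit 0) (XT.lf (nat_lit 76) (nat_lit 4361603548) (nat_lit 0) (nat_lit 16317945894) (nat_lit 1140) (nat_lit 77565269) (nat_lit 178) (nat_lit 5) (nat_lit 177) (nat_lit 5) (nat_lit 192) (nat_lit 5) (nat_lit 276) (nat_lit 270) (nat_lit 174)) (XT.nd (nat_lit 78) (nat_lit 0) (nat_lit 76) (XT.lf (nat_lit 0) (nat_lit 1472876184) (nat_lit 1140) (nat_lit 1120750030) (nat_lit 1216) (nat_lit 18710848381) (nat_lit 162) (nat_lit 5) (nat_lit 177) (nat_lit 5) (nat_lit 178) (nat_lit 5) (nat_lit 277) (nat_lit 270) (nat_lit 173)) (XT.lf (nat_lit 0) (nat_lit 3345154616) (nat_lit 1140) (nat_lit 6787849791) (nat_lit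 1216) (nat_lit 11738826456) (nat_lit 163) (nat_lit 5) (nat_lit 178) (nat_lit 5) (nat_lit 179) (nat_lit 5) (nat_lit 278) (nat_lit 270) (nat_lit 172))))) (XT.nd (nat_lit 234) (nat_lit 2052) (nat_lit 0) (XT.nd (nat_lit 78) (nat_lit 0) (nat_lit 0) (XT.lf (nat_lit 0) (nat_lit 5470619283) (nat_lit 1140) (nat_lit 12697179553) (nat_lit 1216) (nat_lit 4294996560) (nat_lit 164) (nat_lit 5) (nat_lit 179) (nat_lit 5) (nat_lit 180) (nat_lit 5) (nat_lit 279) (nat_lit 270) (nat_lit 171)) (XT.nd (nat_lit 78) (nat_lit 0) (nat_lit 76) (XT.lf (nat_lit 76) (nat_lit 4174436483) (nat_lit 0) (nat_lit 3726856827) (nat_lit 1216) (nat_lit 15176073067) (nat_lit 165) (nat_lit 5) (nat_lit 164) (nat_lit 5) (nat_lit 180) (nat_lit 5) (nat_lit 280) (nat_lit 270) (nat_lit 170)) (XT.lf (nat_lit 0) (nat_lit 10681983800) (nat_lit 1140) (nat_lit 1686570762) (nat_lit 76) (nat_lit 11347281916) (nat_lit 165) (nat_lit 5) (nat_lit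 180) (nat_lit 5) (nat_lit 166) (nat_lit 5) (nat_lit 281) (nat_lit 270) (nat_lit 169)))) (XT.nd (nat_lit 78) (nat_lit 1064) (nat_lit 0) (XT.lf (nat_lit 0) (nat_lit 13814420923) (nat_lit 1140) (nat_lit 7741181599) (nat_lit 76) (nat_lit 2824270057) (nat_lit 151) (nat_lit 5) (nat_lit 166) (nat_lit 5) (nat_lit 152) (nat_lit 5) (nat_lit 282) (nat_lit 270) (nat_lit 168)) (XT.nd (nat_lit 78) (nat_lit 532) (nat_lit 0) (XT.lf (nat_lit 0) (nat_lit 10915757225) (nat_lit 532) (nat_lit 6422738214) (nat_lit 608) (nat_lit 7731587303) (nat_lit 144) (nat_lit 5) (nat_lit 151) (nat_lit 5) (nat_lit 152) (nat_lit 5) (nat_lit 283) (nat_lit 270) (nat_lit 167)) (XT.lf (nat_lit 0) (nat_lit 4866904164) (nat_lit 532) (nat_lit 16378336391) (nat_lit 608) (nat_lit 4543390495) (nat_lit 137) (nat_lit 5) (nat_lit 144) (nat_lit 5) (nat_lit 145) (nat_lit 5) (nat_lit 284) (nat_lit 270) (nat_lit 166)))))) (XT.nd (nat_lit 390)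 (nat_lit 2128) (nat_lit 0) (XT.nd (nat_lit 156) (nat_lit 988) (nat_lit 0) (XT.nd (nat_lit 78) (nat_lit 608) (nat_lit 0) (XT.lf (nat_lit 0) (nat_lit 25058007569) (nat_lit 532) (nat_lit 487874865) (nat_lit 608) (nat_lit 991288164) (nat_lit 137) (nat_lit 5) (nat_lit 144) (nat_lit 5) (nat_lit 145) (nat_lit 5) (nat_lit 285) (nat_lit 270) (nat_lit 165)) (XT.lf (nat_lit 0) (nat_lit 3017134768) (nat_lit 608) (nat_lit 8200179942) (nat_lit 76) (nat_lit 16095087215) (nat_lit 129) (nat_lit 5) (nat_lit 137) (nat_lit 5) (nat_lit 130) (nat_lit 5) (nat_lit 286) (nat_lit 270) (nat_lit 164))) (XT.nd (nat_lit 78) (nat_lit 456) (nat_lit 0) (XT.lf (nat_lit 0) (nat_lit 7392224680) (nat_lit 608) (nat_lit 15311738867) (nat_lit 76) (nat_lit 5416552563) (nat_lit 122) (nat_lit 5) (nat_lit 130) (nat_lit 5) (nat_lit 123) (nat_lit 5) (nat_lit 287) (nat_lit 270) (nat_lit 163)) (XT.nd (nat_lit 78) (nat_lit 0) (nat_lit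 0) (XT.lf (nat_lit 0) (nat_lit 6066746317) (nat_lit 456) (nat_lit 6166007427) (nat_lit 532) (nat_lit 16728899005) (nat_lit 116) (nat_lit 5) (nat_lit 122) (nat_lit 5) (nat_lit 123) (nat_lit 5) (nat_lit 288) (nat_lit 270) (nat_lit 162)) (XT.lf (nat_lit 0) (nat_lit 17572415868) (nat_lit 532) (nat_lit 1125821369) (nat_lit 76) (nat_lit 11138912248) (nat_lit 116) (nat_lit 5) (nat_lit 123) (nat_lit 5) (nat_lit 117) (nat_lit 5) (nat_lit 289) (nat_lit 270) (nat_lit 161))))) (XT.nd (nat_lit 234) (nat_lit 760) (nat_lit 0) (XT.nd (nat_lit 78) (nat_lit 912) (nat_lit 0) (XT.lf (nat_lit 0) (nat_lit 22090433456) (nat_lit 456) (nat_lit 1353947504) (nat_lit 532) (nat_lit 7304096182) (nat_lit 110) (nat_lit 5) (nat_lit 116) (nat_lit 5) (nat_lit 117) (nat_lit 5) (nat_lit 290) (nat_lit 270) (nat_lit 160)) (XT.nd (nat_lit 78) (nat_lit 532) (nat_lit 0) (XT.lf (nat_lit 0) (nat_lit 14904589031) (nat_lit 380) (nat_lit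 15013452511) (nat_lit 456) (nat_lit 1778101654) (nat_lit 105) (nat_lit 5) (nat_lit 110) (nat_lit 5) (nat_lit 111) (nat_lit 5) (nat_lit 291) (nat_lit 270) (nat_lit 159)) (XT.lf (nat_lit 0) (nat_lit 4139857321) (nat_lit 532) (nat_lit 25499632209) (nat_lit 76) (nat_lit 3044730603) (nat_lit 98) (nat_lit 5) (nat_lit 105) (nat_lit 5) (nat_lit 99) (nat_lit 5) (nat_lit 292) (nat_lit 270) (nat_lit 158)))) (XT.nd (nat_lit 78) (nat_lit 760) (nat_lit 0) (XT.lf (nat_lit 0) (nat_lit 10634997681) (nat_lit 532) (nat_lit 1187236233) (nat_lit 76) (nat_lit 21889410285) (nat_lit 98) (nat_lit 5) (nat_lit 105) (nat_lit 5) (nat_lit 99) (nat_lit 5) (nat_lit 293) (nat_lit 270) (nat_lit 157)) (XT.nd (nat_lit 78) (nat_lit 380) (nat_lit 0) (XT.lf (nat_lit 0) (nat_lit 17753990531) (nat_lit 456) (nat_lit 10036539243) (nat_lit 76) (nat_lit 6990949353) (nat_lit 93) (nat_lit 5) (nat_lit 99) (nat_lit 5) (nat_lit 94) (nat_lit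 5) (nat_lit 294) (nat_lit 270) (nat_lit 156)) (XT.lf (nat_lit 0) (nat_lit 16282947193) (nat_lit 380) (nat_lit 9226466441) (nat_lit 456) (nat_lit 10386989677) (nat_lit 88) (nat_lit 5) (nat_lit 93) (nat_lit 5) (nat_lit 94) (nat_lit 5) (nat_lit 295) (nat_lit 270) (nat_lit 155))))))) (XT.nd (nat_lit 858) (nat_lit 1596) (nat_lit 0) (XT.nd (nat_lit 390) (nat_lit 1216) (nat_lit 0) (XT.nd (nat_lit 156) (nat_lit 988) (nat_lit 0) (XT.nd (nat_lit 78) (nat_lit 76) (nat_lit 0) (XT.lf (nat_lit 0) (nat_lit 7093495123) (nat_lit 304) (nat_lit 26822875090) (nat_lit 380) (nat_lit 3142801979) (nat_lit 84) (nat_lit 5) (nat_lit 88) (nat_lit 5) (nat_lit 89) (nat_lit 5) (nat_lit 296) (nat_lit 270) (nat_lit 154)) (XT.lf (nat_lit 0) (nat_lit 4666260641) (nat_lit 380) (nat_lit 2875669990) (nat_lit 76) (nat_lit 30728179196) (nat_lit 83) (nat_lit 5) (nat_lit 88) (nat_lit 5) (nat_lit 84) (nat_lit 5) (nat_lit 297) (nat_lit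 270) (nat_lit 153))) (XT.nd (nat_lit 78) (nat_lit 608) (nat_lit 0) (XT.lf (nat_lit 0) (nat_lit 13169628037) (nat_lit 456) (nat_lit 13621888392) (nat_lit 76) (nat_lit 12738088923) (nat_lit 78) (nat_lit 5) (nat_lit 84) (nat_lit 5) (nat_lit 79) (nat_lit 5) (nat_lit 298) (nat_lit 270) (nat_lit 152)) (XT.nd (nat_lit 78) (nat_lit 304) (nat_lit 0) (XT.lf (nat_lit 0) (nat_lit 15557576834) (nat_lit 304) (nat_lit 6789467359) (nat_lit 380) (nat_lit 18497574574) (nat_lit 74) (nat_lit 5) (nat_lit 78) (nat_lit 5) (nat_lit 79) (nat_lit 5) (nat_lit 299) (nat_lit 270) (nat_lit 151)) (XT.lf (nat_lit 0) (nat_lit 4194637836) (nat_lit 304) (nat_lit 28100779416) (nat_lit 380) (nat_lit 9920612091) (nat_lit 70) (nat_lit 5) (nat_lit 74) (nat_lit 5) (nat_lit 75) (nat_lit 5) (nat_lit 300) (nat_lit 270) (nat_lit 150))))) (XT.nd (nat_lit 234) (nat_lit 532) (nat_lit 0) (XT.nd (nat_lit 78) (nat_lit 684) (nat_lit 0) (XT.lf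 (nat_lit 0) (nat_lit 35600482358) (nat_lit 304) (nat_lit 7462647101) (nat_lit 380) (nat_lit 583232015) (nat_lit 70) (nat_lit 5) (nat_lit 74) (nat_lit 5) (nat_lit 75) (nat_lit 5) (nat_lit 301) (nat_lit 270) (nat_lit 149)) (XT.nd (nat_lit 78) (nat_lit 304) (nat_lit 0) (XT.lf (nat_lit 0) (nat_lit 9403501784) (nat_lit 380) (nat_lit 21482631248) (nat_lit 76) (nat_lit 14248553430) (nat_lit 65) (nat_lit 5) (nat_lit 70) (nat_lit 5) (nat_lit 66) (nat_lit 5) (nat_lit 302) (nat_lit 270) (nat_lit 148)) (XT.lf (nat_lit 0) (nat_lit 10523292477) (nat_lit 304) (nat_lit 9608630264) (nat_lit 380) (nat_lit 26557706951) (nat_lit 61) (nat_lit 5) (nat_lit 65) (nat_lit 5) (nat_lit 66) (nat_lit 5) (nat_lit 303) (nat_lit 270) (nat_lit 147)))) (XT.nd (nat_lit 78) (nat_lit 532) (nat_lit 0) (XT.lf (nat_lit 0) (nat_lit 31736850559) (nat_lit 380) (nat_lit 3869860350) (nat_lit 76) (nat_lit 12705413847) (nat_lit 61) (nat_lit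 5) (nat_lit 66) (nat_lit 5) (nat_lit 62) (nat_lit 5) (nat_lit 304) (nat_lit 270) (nat_lit 146)) (XT.nd (nat_lit 78) (nat_lit 304) (nat_lit 0) (XT.lf (nat_lit 0) (nat_lit 30532615332) (nat_lit 228) (nat_lit 13774515148) (nat_lit 304) (nat_lit 5697067824) (nat_lit 58) (nat_lit 5) (nat_lit 61) (nat_lit 5) (nat_lit 62) (nat_lit 5) (nat_lit 305) (nat_lit 270) (nat_lit 145)) (XT.lf (nat_lit 0) (nat_lit 5884645395) (nat_lit 304) (nat_lit 36674267647) (nat_lit 76) (nat_lit 9212178503) (nat_lit 54) (nat_lit 5) (nat_lit 58) (nat_lit 5) (nat_lit 55) (nat_lit 5) (nat_lit 306) (nat_lit 270) (nat_lit 144)))))) (XT.nd (nat_lit 468) (nat_lit 608) (nat_lit 0) (XT.nd (nat_lit 234) (nat_lit 532) (nat_lit 0) (XT.nd (nat_lit 78) (nat_lit 456) (nat_lit 0) (XT.lf (nat_lit 0) (nat_lit 18265082249) (nat_lit 304) (nat_lit 2025738502) (nat_lit 76) (nat_lit 33323698715) (nat_lit 54) (nat_lit 5) (nat_lit 58) (nat_lit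 5) (nat_lit 55) (nat_lit 5) (nat_lit 307) (nat_lit 270) (nat_lit 143)) (XT.nd (nat_lit 78) (nat_lit 228) (nat_lit 0) (XT.lf (nat_lit 0) (nat_lit 31629461426) (nat_lit 304) (nat_lit 20541478804) (nat_lit 76) (nat_lit 3368236725) (nat_lit 51) (nat_lit 5) (nat_lit 55) (nat_lit 5) (nat_lit 52) (nat_lit 5) (nat_lit 308) (nat_lit 270) (nat_lit 142)) (XT.lf (nat_lit 0) (nat_lit 16464448565) (nat_lit 228) (nat_lit 29577032747) (nat_lit 304) (nat_lit 11507208869) (nat_lit 48) (nat_lit 5) (nat_lit 51) (nat_lit 5) (nat_lit 52) (nat_lit 5) (nat_lit 309) (nat_lit 270) (nat_lit 141)))) (XT.nd (nat_lit 78) (nat_lit 456) (nat_lit 0) (XT.lf (nat_lit 0) (nat_lit 1694805650) (nat_lit 304) (nat_lit 3925985040) (nat_lit 76) (nat_lit 54031187843) (nat_lit 47) (nat_lit 5) (nat_lit 51) (nat_lit 5) (nat_lit 48) (nat_lit 5) (nat_lit 310) (nat_lit 270) (nat_lit 140)) (XT.nd (nat_lit 78) (nat_lit 228) (nat_lit 0) (XT.lf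 (nat_lit 0) (nat_lit 15851875939) (nat_lit 304) (nat_lit 26375715280) (nat_lit 76) (nat_lit 19613438701) (nat_lit 44) (nat_lit 5) (nat_lit 48) (nat_lit 5) (nat_lit 45) (nat_lit 5) (nat_lit 311) (nat_lit 270) (nat_lit 139)) (XT.lf (nat_lit 0) (nat_lit 12959136614) (nat_lit 228) (nat_lit 17975529779) (nat_lit 304) (nat_lit 33198336109) (nat_lit 41) (nat_lit 5) (nat_lit 44) (nat_lit 5) (nat_lit 45) (nat_lit 5) (nat_lit 312) (nat_lit 270) (nat_lit 138))))) (XT.nd (nat_lit 234) (nat_lit 152) (nat_lit 0) (XT.nd (nat_lit 78) (nat_lit 456) (nat_lit 0) (XT.lf (nat_lit 0) (nat_lit 47113658670) (nat_lit 304) (nat_lit 11800630578) (nat_lit 76) (nat_lit 7615026998) (nat_lit 41) (nat_lit 5) (nat_lit 45) (nat_lit 5) (nat_lit 42) (nat_lit 5) (nat_lit 313) (nat_lit 270) (nat_lit 137)) (XT.nd (nat_lit 78) (nat_lit 304) (nat_lit 0) (XT.lf (nat_lit 0) (nat_lit 29937907844) (nat_lit 152) (nat_lit 34628971460)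 (nat_lit 228) (nat_lit 4464612206) (nat_lit 39) (nat_lit 5) (nat_lit 41) (nat_lit 5) (nat_lit 42) (nat_lit 5) (nat_lit 314) (nat_lit 270) (nat_lit 136)) (XT.lf (nat_lit 0) (nat_lit 2284194036) (nat_lit 228) (nat_lit 8871367234) (nat_lit 304) (nat_lit 60495754764) (nat_lit 35) (nat_lit 5) (nat_lit 38) (nat_lit 5) (nat_lit 39) (nat_lit 5) (nat_lit 315) (nat_lit 270) (nat_lit 135)))) (XT.nd (nat_lit 78) (nat_lit 152) (nat_lit 0) (XT.lf (nat_lit 0) (nat_lit 28042646653) (nat_lit 304) (nat_lit 28071955335) (nat_lit 76) (nat_lit 18268860220) (nat_lit 35) (nat_lit 5) (nat_lit 39) (nat_lit 5) (nat_lit 36) (nat_lit 5) (nat_lit 316) (nat_lit 270) (nat_lit 134)) (XT.nd (nat_lit 78) (nat_lit 0) (nat_lit 0) (XT.lf (nat_lit 0) (nat_lit 15495127434) (nat_lit 152) (nat_lit 30513887186) (nat_lit 228) (nat_lit 31236156738) (nat_lit 33) (nat_lit 5) (nat_lit 35) (nat_lit 5) (nat_lit 36) (nat_lit 5) (nat_lit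 317) (nat_lit 270) (nat_lit 133)) (XT.lf (nat_lit 0) (nat_lit 61821680976) (nat_lit 152) (nat_lit 3337551497) (nat_lit 228) (nat_lit 15082170897) (nat_lit 33) (nat_lit 5) (nat_lit 35) (nat_lit 5) (nat_lit 36) (nat_lit 5) (nat_lit 318) (nat_lit 270) (nat_lit 132))))))))
noncomputable def xc102 : XT := (XT.nd (nat_lit 34866) (nat_lit 0) (nat_lit 2660) (XT.nd (nat_lit 34008) (nat_lit 0) (nat_lit 9196) (XT.nd (nat_lit 390) (nat_lit 228) (nat_lit 0) (XT.nd (nat_lit 156) (nat_lit 304) (nat_lit 0) (XT.nd (nat_lit 78) (nat_lit 0) (nat_lit 0) (XT.lf (nat_lit 0) (nat_lit 2349755270) (nat_lit 228) (nat_lit 56031892154) (nat_lit 76) (nat_lit 24990053131) (nat_lit 30) (nat_lit 5) (nat_lit 33) (nat_lit 5) (nat_lit 31) (nat_lit 5) (nat_lit 319) (nat_lit 270) (nat_lit 131)) (XT.lf (nat_lit 0) (nat_lit 20566207223) (nat_lit 228) (nat_lit 11073622293) (nat_lit 76) (nat_lit 55007460623) (nat_lit 30) (nat_lit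 5) (nat_lit 33) (nat_lit 5) (nat_lit 31) (nat_lit 5) (nat_lit 320) (nat_lit 270) (nat_lit 130))) (XT.nd (nat_lit 78) (nat_lit 152) (nat_lit 0) (XT.lf (nat_lit 0) (nat_lit 36846580269) (nat_lit 152) (nat_lit 3198020470) (nat_lit 228) (nat_lit 50031527703) (nat_lit 28) (nat_lit 5) (nat_lit 30) (nat_lit 5) (nat_lit 31) (nat_lit 5) (nat_lit 321) (nat_lit 270) (nat_lit 129)) (XT.nd (nat_lit 78) (nat_lit 152) (nat_lit 0) (XT.lf (nat_lit 0) (nat_lit 60865373305) (nat_lit 228) (nat_lit 6541168254) (nat_lit 76) (nat_lit 26258815997) (nat_lit 28) (nat_lit 5) (nat_lit 31) (nat_lit 5) (nat_lit 29) (nat_lit 5) (nat_lit 322) (nat_lit 270) (nat_lit 128)) (XT.lf (nat_lit 0) (nat_lit 43289397574) (nat_lit 152) (nat_lit 39883340742) (nat_lit 228) (nat_lit 14247945741) (nat_lit 26) (nat_lit 5) (nat_lit 28) (nat_lit 5) (nat_lit 29) (nat_lit 5) (nat_lit 323) (nat_lit 270) (nat_lit 127))))) (XT.nd (nat_lit 33384)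 (nat_lit 0) (nat_lit 11400) (XT.nd (nat_lit 78) (nat_lit 152) (nat_lit 0) (XT.lf (nat_lit 0) (nat_lit 5194821201) (nat_lit 228) (nat_lit 5669141113) (nat_lit 76) (nat_lit 90496351748) (nat_lit 25) (nat_lit 5) (nat_lit 28) (nat_lit 5) (nat_lit 26) (nat_lit 5) (nat_lit 324) (nat_lit 270) (nat_lit 126)) (XT.nd (nat_lit 78) (nat_lit 0) (nat_lit 0) (XT.lf (nat_lit 0) (nat_lit 25951235149) (nat_lit 228) (nat_lit 59708835609) (nat_lit 76) (nat_lit 19813539648) (nat_lit 23) (nat_lit 5) (nat_lit 26) (nat_lit 5) (nat_lit 24) (nat_lit 5) (nat_lit 325) (nat_lit 270) (nat_lit 125)) (XT.lf (nat_lit 0) (nat_lit 47911474248) (nat_lit 228) (nat_lit 10016524057) (nat_lit 76) (nat_lit 51859595266) (nat_lit 23) (nat_lit 5) (nat_lit 26) (nat_lit 5) (nat_lit 24) (nat_lit 5) (nat_lit 326) (nat_lit 270) (nat_lit 124)))) (XT.nd (nat_lit 78) (nat_lit 0) (nat_lit 0) (XT.lf (nat_lit 0) (nat_lit 7162906054) (nat_lit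 1140) (nat_lit 1107652644) (nat_lit 1140) (nat_lit 1107652644) (nat_lit 173) (nat_lit 3) (nat_lit 188) (nat_lit 3) (nat_lit 188) (nat_lit 5) (nat_lit 271) (nat_lit 271) (nat_lit 178)) (XT.nd (nat_lit 78) (nat_lit 0) (nat_lit 76) (XT.lf (nat_lit 76) (nat_lit 11432601906) (nat_lit 0) (nat_lit 3644685344) (nat_lit 1140) (nat_lit 4135678886) (nat_lit 174) (nat_lit 5) (nat_lit 173) (nat_lit 3) (nat_lit 188) (nat_lit 5) (nat_lit 272) (nat_lit 271) (nat_lit 177)) (XT.lf (nat_lit 76) (nat_lit 6131622485) (nat_lit 0) (nat_lit 9893665329) (nat_lit 1140) (nat_lit 3662316704) (nat_lit 175) (nat_lit 5) (nat_lit 174) (nat_lit 5) (nat_lit 189) (nat_lit 5) (nat_lit 273) (nat_lit 271) (nat_lit 176)))))) (XT.nd (nat_lit 390) (nat_lit 1368) (nat_lit 0) (XT.nd (nat_lit 156) (nat_lit 988) (nat_lit 0) (XT.nd (nat_lit 78) (nat_lit 0) (nat_lit 0) (XT.lf (nat_lit 76) (nat_lit 648066342) (nat_lit 0) (nat_lit 16513885755)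 (nat_lit 1140) (nat_lit 3019819393) (nat_lit 176) (nat_lit 5) (nat_lit 175) (nat_lit 5) (nat_lit 190) (nat_lit 5) (nat_lit 274) (nat_lit 271) (nat_lit 175)) (XT.lf (nat_lit 76) (nat_lit 15733503094) (nat_lit 0) (nat_lit 2843788519) (nat_lit 1140) (nat_lit 2116732869) (nat_lit 176) (nat_lit 5) (nat_lit 175) (nat_lit 5) (nat_lit 190) (nat_lit 5) (nat_lit 275) (nat_lit 271) (nat_lit 174))) (XT.nd (nat_lit 78) (nat_lit 1064) (nat_lit 0) (XT.lf (nat_lit 76) (nat_lit 10423764481) (nat_lit 0) (nat_lit 9834735372) (nat_lit 1140) (nat_lit 967568584) (nat_lit 177) (nat_lit 5) (nat_lit 176) (nat_lit 5) (nat_lit 191) (nat_lit 5) (nat_lit 276) (nat_lit 271) (nat_lit 173)) (XT.nd (nat_lit 78) (nat_lit 0) (nat_lit 0) (XT.lf (nat_lit 0) (nat_lit 391276702) (nat_lit 1140) (nat_lit 16873049735) (nat_lit 1216) (nat_lit 4515641589) (nat_lit 162) (nat_lit 5) (nat_lit 177) (nat_lit 5) (nat_lit 178) (nat_lit 5)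 (nat_lit 277) (nat_lit 271) (nat_lit 172)) (XT.lf (nat_lit 0) (nat_lit 1995216163) (nat_lit 1140) (nat_lit 851593150) (nat_lit 1216) (nat_lit 19508578624) (nat_lit 162) (nat_lit 5) (nat_lit 177) (nat_lit 5) (nat_lit 178) (nat_lit 5) (nat_lit 278) (nat_lit 271) (nat_lit 171))))) (XT.nd (nat_lit 234) (nat_lit 1444) (nat_lit 0) (XT.nd (nat_lit 78) (nat_lit 0) (nat_lit 76) (XT.lf (nat_lit 0) (nat_lit 3941677815) (nat_lit 1140) (nat_lit 6796548918) (nat_lit 1216) (nat_lit 12213508658) (nat_lit 163) (nat_lit 5) (nat_lit 178) (nat_lit 5) (nat_lit 179) (nat_lit 5) (nat_lit 279) (nat_lit 271) (nat_lit 170)) (XT.nd (nat_lit 78) (nat_lit 0) (nat_lit 0) (XT.lf (nat_lit 0) (nat_lit 6155190366) (nat_lit 1140) (nat_lit 12996824701) (nat_lit 1216) (nat_lit 4420818371) (nat_lit 164) (nat_lit 5) (nat_lit 179) (nat_lit 5) (nat_lit 180) (nat_lit 5) (nat_lit 280) (nat_lit 271) (nat_lit 169)) (XT.lf (nat_lit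 76) (nat_lit 4708763299) (nat_lit 0) (nat_lit 3982191371) (nat_lit 1216) (nat_lit 15527708293) (nat_lit 165) (nat_lit 5) (nat_lit 164) (nat_lit 5) (nat_lit 180) (nat_lit 5) (nat_lit 281) (nat_lit 271) (nat_lit 168)))) (XT.nd (nat_lit 78) (nat_lit 1596) (nat_lit 0) (XT.lf (nat_lit 0) (nat_lit 11591257755) (nat_lit 1140) (nat_lit 1448194618) (nat_lit 76) (nat_lit 11850221797) (nat_lit 165) (nat_lit 5) (nat_lit 180) (nat_lit 5) (nat_lit 166) (nat_lit 5) (nat_lit 282) (nat_lit 271) (nat_lit 167)) (XT.nd (nat_lit 78) (nat_lit 532) (nat_lit 0) (XT.lf (nat_lit 0) (nat_lit 14865013861) (nat_lit 1140) (nat_lit 7802860458) (nat_lit 76) (nat_lit 2919530124) (nat_lit 151) (nat_lit 5) (nat_lit 166) (nat_lit 5) (nat_lit 152) (nat_lit 5) (nat_lit 283) (nat_lit 271) (nat_lit 166)) (XT.lf (nat_lit 0) (nat_lit 11777598349) (nat_lit 532) (nat_lit 6773595095) (nat_lit 608) (nat_lit 7761386326) (nat_lit 144)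 (nat_lit 5) (nat_lit 151) (nat_lit 5) (nat_lit 152) (nat_lit 5) (nat_lit 284) (nat_lit 271) (nat_lit 165))))))) (XT.nd (nat_lit 858) (nat_lit 2660) (nat_lit 0) (XT.nd (nat_lit 390) (nat_lit 1748) (nat_lit 0) (XT.nd (nat_lit 156) (nat_lit 1596) (nat_lit 0) (XT.nd (nat_lit 78) (nat_lit 0) (nat_lit 0) (XT.lf (nat_lit 0) (nat_lit 5428212121) (nat_lit 532) (nat_lit 17211382673) (nat_lit 608) (nat_lit 4427901317) (nat_lit 137) (nat_lit 5) (nat_lit 144) (nat_lit 5) (nat_lit 145) (nat_lit 5) (nat_lit 285) (nat_lit 271) (nat_lit 164)) (XT.lf (nat_lit 0) (nat_lit 26613729613) (nat_lit 532) (nat_lit 525725239) (nat_lit 608) (nat_lit 714510951) (nat_lit 137) (nat_lit 5) (nat_lit 144) (nat_lit 5) (nat_lit 145) (nat_lit 5) (nat_lit 286) (nat_lit 271) (nat_lit 163))) (XT.nd (nat_lit 78) (nat_lit 988) (nat_lit 0) (XT.lf (nat_lit 0) (nat_lit 3475555353) (nat_lit 608) (nat_lit 8299494316) (nat_lit 76) (nat_lit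 16893213789) (nat_lit 129) (nat_lit 5) (nat_lit 137) (nat_lit 5) (nat_lit 130) (nat_lit 5) (nat_lit 287) (nat_lit 271) (nat_lit 162)) (XT.nd (nat_lit 78) (nat_lit 456) (nat_lit 0) (XT.lf (nat_lit 0) (nat_lit 8057712224) (nat_lit 608) (nat_lit 15766213672) (nat_lit 76) (nat_lit 5693233398) (nat_lit 122) (nat_lit 5) (nat_lit 130) (nat_lit 5) (nat_lit 123) (nat_lit 5) (nat_lit 288) (nat_lit 271) (nat_lit 161)) (XT.lf (nat_lit 0) (nat_lit 6672277804) (nat_lit 456) (nat_lit 6456805464) (nat_lit 532) (nat_lit 17271629142) (nat_lit 116) (nat_lit 5) (nat_lit 122) (nat_lit 5) (nat_lit 123) (nat_lit 5) (nat_lit 289) (nat_lit 271) (nat_lit 160))))) (XT.nd (nat_lit 234) (nat_lit 912) (nat_lit 0) (XT.nd (nat_lit 78) (nat_lit 836) (nat_lit 0) (XT.lf (nat_lit 0) (nat_lit 18722331977) (nat_lit 532) (nat_lit 885875387) (nat_lit 76) (nat_lit 11712201480) (nat_lit 116) (nat_lit 5) (nat_lit 123) (nat_lit 5)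 (nat_lit 117) (nat_lit 5) (nat_lit 290) (nat_lit 271) (nat_lit 159)) (XT.nd (nat_lit 78) (nat_lit 380) (nat_lit 0) (XT.lf (nat_lit 0) (nat_lit 23482700604) (nat_lit 456) (nat_lit 1395041879) (nat_lit 532) (nat_lit 7399886853) (nat_lit 110) (nat_lit 5) (nat_lit 116) (nat_lit 5) (nat_lit 117) (nat_lit 5) (nat_lit 291) (nat_lit 271) (nat_lit 158)) (XT.lf (nat_lit 0) (nat_lit 15937101955) (nat_lit 380) (nat_lit 15728553876) (nat_lit 456) (nat_lit 1607326599) (nat_lit 105) (nat_lit 5) (nat_lit 110) (nat_lit 5) (nat_lit 111) (nat_lit 5) (nat_lit 292) (nat_lit 271) (nat_lit 157)))) (XT.nd (nat_lit 78) (nat_lit 380) (nat_lit 0) (XT.lf (nat_lit 0) (nat_lit 4592448337) (nat_lit 532) (nat_lit 26482884822) (nat_lit 76) (nat_lit 3235344868) (nat_lit 98) (nat_lit 5) (nat_lit 105) (nat_lit 5) (nat_lit 99) (nat_lit 5) (nat_lit 293) (nat_lit 271) (nat_lit 156)) (XT.nd (nat_lit 78) (nat_lit 380) (nat_lit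 0) (XT.lf (nat_lit 0) (nat_lit 11400650565) (nat_lit 532) (nat_lit 968760903) (nat_lit 76) (nat_lit 23020431024) (nat_lit 98) (nat_lit 5) (nat_lit 105) (nat_lit 5) (nat_lit 99) (nat_lit 5) (nat_lit 294) (nat_lit 271) (nat_lit 155)) (XT.lf (nat_lit 0) (nat_lit 18867476900) (nat_lit 456) (nat_lit 10261810978) (nat_lit 76) (nat_lit 7384142241) (nat_lit 93) (nat_lit 5) (nat_lit 99) (nat_lit 5) (nat_lit 94) (nat_lit 5) (nat_lit 295) (nat_lit 271) (nat_lit 154)))))) (XT.nd (nat_lit 390) (nat_lit 1216) (nat_lit 0) (XT.nd (nat_lit 156) (nat_lit 760) (nat_lit 0) (XT.nd (nat_lit 78) (nat_lit 304) (nat_lit 0) (XT.lf (nat_lit 0) (nat_lit 17365722379) (nat_lit 380) (nat_lit 9636779239) (nat_lit 456) (nat_lit 10681860617) (nat_lit 88) (nat_lit 5) (nat_lit 93) (nat_lit 5) (nat_lit 94) (nat_lit 5) (nat_lit 296) (nat_lit 271) (nat_lit 153)) (XT.lf (nat_lit 0) (nat_lit 7715285821) (nat_lit 304) (nat_lit 28107192153)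 (nat_lit 380) (nat_lit 3083027271) (nat_lit 84) (nat_lit 5) (nat_lit 88) (nat_lit 5) (nat_lit 89) (nat_lit 5) (nat_lit 297) (nat_lit 271) (nat_lit 152))) (XT.nd (nat_lit 78) (nat_lit 684) (nat_lit 0) (XT.lf (nat_lit 0) (nat_lit 5102127976) (nat_lit 380) (nat_lit 2760733127) (nat_lit 76) (nat_lit 32314384586) (nat_lit 83) (nat_lit 5) (nat_lit 88) (nat_lit 5) (nat_lit 84) (nat_lit 5) (nat_lit 298) (nat_lit 271) (nat_lit 151)) (XT.nd (nat_lit 78) (nat_lit 304) (nat_lit 0) (XT.lf (nat_lit 0) (nat_lit 14023972098) (nat_lit 456) (nat_lit 14046077943) (nat_lit 76) (nat_lit 13429880650) (nat_lit 78) (nat_lit 5) (nat_lit 84) (nat_lit 5) (nat_lit 79) (nat_lit 5) (nat_lit 299) (nat_lit 271) (nat_lit 150)) (XT.lf (nat_lit 0) (nat_lit 16584996417) (nat_lit 304) (nat_lit 7068334590) (nat_lit 380) (nat_lit 19227584900) (nat_lit 74) (nat_lit 5) (nat_lit 78) (nat_lit 5) (nat_lit 79) (nat_lit 5) (nat_lit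 300) (nat_lit 271) (nat_lit 149))))) (XT.nd (nat_lit 234) (nat_lit 532) (nat_lit 0) (XT.nd (nat_lit 78) (nat_lit 380) (nat_lit 0) (XT.lf (nat_lit 0) (nat_lit 4651955257) (nat_lit 304) (nat_lit 29441105362) (nat_lit 380) (nat_lit 10228030913) (nat_lit 70) (nat_lit 5) (nat_lit 74) (nat_lit 5) (nat_lit 75) (nat_lit 5) (nat_lit 301) (nat_lit 271) (nat_lit 148)) (XT.nd (nat_lit 78) (nat_lit 380) (nat_lit 0) (XT.lf (nat_lit 0) (nat_lit 37616302218) (nat_lit 304) (nat_lit 7774148004) (nat_lit 380) (nat_lit 432763347) (nat_lit 70) (nat_lit 5) (nat_lit 74) (nat_lit 5) (nat_lit 75) (nat_lit 5) (nat_lit 302) (nat_lit 271) (nat_lit 147)) (XT.lf (nat_lit 0) (nat_lit 10044254212) (nat_lit 380) (nat_lit 22319374554) (nat_lit 76) (nat_lit 15022451812) (nat_lit 65) (nat_lit 5) (nat_lit 70) (nat_lit 5) (nat_lit 66) (nat_lit 5) (nat_lit 303) (nat_lit 271) (nat_lit 146)))) (XT.nd (nat_lit 78) (nat_lit 228)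 (nat_lit 0) (XT.lf (nat_lit 0) (nat_lit 11280040670) (nat_lit 304) (nat_lit 10023149326) (nat_lit 380) (nat_lit 27715768774) (nat_lit 61) (nat_lit 5) (nat_lit 65) (nat_lit 5) (nat_lit 66) (nat_lit 5) (nat_lit 304) (nat_lit 271) (nat_lit 145)) (XT.nd (nat_lit 78) (nat_lit 228) (nat_lit 0) (XT.lf (nat_lit 0) (nat_lit 33481126143) (nat_lit 380) (nat_lit 3839446335) (nat_lit 76) (nat_lit 13402233360) (nat_lit 61) (nat_lit 5) (nat_lit 66) (nat_lit 5) (nat_lit 62) (nat_lit 5) (nat_lit 305) (nat_lit 271) (nat_lit 144)) (XT.lf (nat_lit 0) (nat_lit 32276734881) (nat_lit 228) (nat_lit 14397779002) (nat_lit 304) (nat_lit 5825140992) (nat_lit 58) (nat_lit 5) (nat_lit 61) (nat_lit 5) (nat_lit 62) (nat_lit 5) (nat_lit 306) (nat_lit 271) (nat_lit 143))))))))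
noncomputable def xc103 : XT := (XT.nd (nat_lit 34944) (nat_lit 0) (nat_lit 5320) (XT.nd (nat_lit 858) (nat_lit 912) (nat_lit 0) (XT.nd (nat_lit 390) (nat_lit 912) (nat_lit 0) (XT.nd (nat_lit 156) (nat_lit 532) (nat_lit 0) (XT.nd (nat_lit 78) (nat_lit 0) (nat_lit 0) (XT.lf (nat_lit 0) (nat_lit 6327973430) (nat_lit 304) (nat_lit 38289575324) (nat_lit 76) (nat_lit 9737446467) (nat_lit 54) (nat_lit 5) (nat_lit 58) (nat_lit 5) (nat_lit 55) (nat_lit 5) (nat_lit 307) (nat_lit 271) (nat_lit 142)) (XT.lf (nat_lit 0) (nat_lit 19320332328) (nat_lit 304) (nat_lit 1919019993) (nat_lit 76) (nat_lit 35051463688) (nat_lit 54) (nat_lit 5) (nat_lit 58) (nat_lit 5) (nat_lit 55) (nat_lit 5) (nat_lit 308) (nat_lit 271) (nat_lit 141))) (XT.nd (nat_lit 78) (nat_lit 304) (nat_lit 0) (XT.lf (nat_lit 0) (nat_lit 33348734450) (nat_lit 304) (nat_lit 21362856513) (nat_lit 76) (nat_lit 3600249366) (nat_lit 51) (nat_lit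 5) (nat_lit 55) (nat_lit 5) (nat_lit 52) (nat_lit 5) (nat_lit 309) (nat_lit 271) (nat_lit 140)) (XT.nd (nat_lit 78) (nat_lit 76) (nat_lit 0) (XT.lf (nat_lit 0) (nat_lit 17487470983) (nat_lit 228) (nat_lit 30989243043) (nat_lit 304) (nat_lit 11945262116) (nat_lit 48) (nat_lit 5) (nat_lit 51) (nat_lit 5) (nat_lit 52) (nat_lit 5) (nat_lit 310) (nat_lit 271) (nat_lit 139)) (XT.lf (nat_lit 0) (nat_lit 1907762922) (nat_lit 304) (nat_lit 3929304619) (nat_lit 76) (nat_lit 56793521211) (nat_lit 47) (nat_lit 5) (nat_lit 51) (nat_lit 5) (nat_lit 48) (nat_lit 5) (nat_lit 311) (nat_lit 271) (nat_lit 138))))) (XT.nd (nat_lit 234) (nat_lit 456) (nat_lit 0) (XT.nd (nat_lit 78) (nat_lit 228) (nat_lit 0) (XT.lf (nat_lit 0) (nat_lit 16768993753) (nat_lit 304) (nat_lit 27503811003) (nat_lit 76) (nat_lit 20656405513) (nat_lit 44) (nat_lit 5) (nat_lit 48) (nat_lit 5) (nat_lit 45) (nat_lit 5) (nat_lit 312) (nat_lit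 271) (nat_lit 137)) (XT.nd (nat_lit 78) (nat_lit 0) (nat_lit 0) (XT.lf (nat_lit 0) (nat_lit 13792317393) (nat_lit 228) (nat_lit 18809457107) (nat_lit 304) (nat_lit 34734137905) (nat_lit 41) (nat_lit 5) (nat_lit 44) (nat_lit 5) (nat_lit 45) (nat_lit 5) (nat_lit 313) (nat_lit 271) (nat_lit 136)) (XT.lf (nat_lit 0) (nat_lit 49584577944) (nat_lit 304) (nat_lit 12211289915) (nat_lit 76) (nat_lit 8056334273) (nat_lit 41) (nat_lit 5) (nat_lit 45) (nat_lit 5) (nat_lit 42) (nat_lit 5) (nat_lit 314) (nat_lit 271) (nat_lit 135)))) (XT.nd (nat_lit 78) (nat_lit 304) (nat_lit 0) (XT.lf (nat_lit 0) (nat_lit 31609033759) (nat_lit 152) (nat_lit 36297613215) (nat_lit 228) (nat_lit 4572959412) (nat_lit 39) (nat_lit 5) (nat_lit 41) (nat_lit 5) (nat_lit 42) (nat_lit 5) (nat_lit 315) (nat_lit 271) (nat_lit 134)) (XT.nd (nat_lit 78) (nat_lit 0) (nat_lit 0) (XT.lf (nat_lit 0) (nat_lit 2569927831) (nat_lit 228)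 (nat_lit 9252338026) (nat_lit 304) (nat_lit 63408240012) (nat_lit 35) (nat_lit 5) (nat_lit 38) (nat_lit 5) (nat_lit 39) (nat_lit 5) (nat_lit 316) (nat_lit 271) (nat_lit 133)) (XT.lf (nat_lit 0) (nat_lit 29549091604) (nat_lit 304) (nat_lit 29309554689) (nat_lit 76) (nat_lit 19240756627) (nat_lit 35) (nat_lit 5) (nat_lit 39) (nat_lit 5) (nat_lit 36) (nat_lit 5) (nat_lit 317) (nat_lit 271) (nat_lit 132)))))) (XT.nd (nat_lit 390) (nat_lit 380) (nat_lit 0) (XT.nd (nat_lit 156) (nat_lit 380) (nat_lit 0) (XT.nd (nat_lit 78) (nat_lit 0) (nat_lit 0) (XT.lf (nat_lit 0) (nat_lit 16431123907) (nat_lit 152) (nat_lit 31979236732) (nat_lit 228) (nat_lit 32693944313) (nat_lit 33) (nat_lit 5) (nat_lit 35) (nat_lit 5) (nat_lit 36) (nat_lit 5) (nat_lit 318) (nat_lit 271) (nat_lit 131)) (XT.lf (nat_lit 0) (nat_lit 65066327026) (nat_lit 152) (nat_lit 3446957822) (nat_lit 228) (nat_lit 15737212526) (nat_lit 33)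 (nat_lit 5) (nat_lit 35) (nat_lit 5) (nat_lit 36) (nat_lit 5) (nat_lit 319) (nat_lit 271) (nat_lit 130))) (XT.nd (nat_lit 78) (nat_lit 152) (nat_lit 0) (XT.lf (nat_lit 0) (nat_lit 2561753600) (nat_lit 228) (nat_lit 58680004998) (nat_lit 76) (nat_lit 26295605267) (nat_lit 30) (nat_lit 5) (nat_lit 33) (nat_lit 5) (nat_lit 31) (nat_lit 5) (nat_lit 320) (nat_lit 271) (nat_lit 129)) (XT.nd (nat_lit 78) (nat_lit 152) (nat_lit 0) (XT.lf (nat_lit 0) (nat_lit 21684527649) (nat_lit 228) (nat_lit 11481130299) (nat_lit 76) (nat_lit 57811214111) (nat_lit 30) (nat_lit 5) (nat_lit 33) (nat_lit 5) (nat_lit 31) (nat_lit 5) (nat_lit 321) (nat_lit 271) (nat_lit 128)) (XT.lf (nat_lit 0) (nat_lit 38830892369) (nat_lit 152) (nat_lit 3303027106) (nat_lit 228) (nat_lit 52443324361) (nat_lit 28) (nat_lit 5) (nat_lit 30) (nat_lit 5) (nat_lit 31) (nat_lit 5) (nat_lit 322) (nat_lit 271) (nat_lit 127))))) (XT.nd (nat_lit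 234) (nat_lit 152) (nat_lit 0) (XT.nd (nat_lit 78) (nat_lit 228) (nat_lit 0) (XT.lf (nat_lit 0) (nat_lit 63992086139) (nat_lit 228) (nat_lit 6730944346) (nat_lit 76) (nat_lit 27623016987) (nat_lit 28) (nat_lit 5) (nat_lit 31) (nat_lit 5) (nat_lit 29) (nat_lit 5) (nat_lit 323) (nat_lit 271) (nat_lit 126)) (XT.nd (nat_lit 78) (nat_lit 76) (nat_lit 0) (XT.lf (nat_lit 0) (nat_lit 45587214603) (nat_lit 152) (nat_lit 41824913080) (nat_lit 228) (nat_lit 14877096921) (nat_lit 26) (nat_lit 5) (nat_lit 28) (nat_lit 5) (nat_lit 29) (nat_lit 5) (nat_lit 324) (nat_lit 271) (nat_lit 125)) (XT.lf (nat_lit 0) (nat_lit 5532297190) (nat_lit 228) (nat_lit 5823988079) (nat_lit 76) (nat_lit 95069646722) (nat_lit 25) (nat_lit 5) (nat_lit 28) (nat_lit 5) (nat_lit 26) (nat_lit 5) (nat_lit 325) (nat_lit 271) (nat_lit 124)))) (XT.nd (nat_lit 33306) (nat_lit 0) (nat_lit 11400) (XT.lf (nat_lit 0) (nat_lit 27324508659)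 (nat_lit 228) (nat_lit 62567511909) (nat_lit 76) (nat_lit 20852936411) (nat_lit 23) (nat_lit 5) (nat_lit 26) (nat_lit 5) (nat_lit 24) (nat_lit 5) (nat_lit 326) (nat_lit 271) (nat_lit 123)) (XT.nd (nat_lit 78) (nat_lit 0) (nat_lit 0) (XT.lf (nat_lit 0) (nat_lit 7800058855) (nat_lit 1140) (nat_lit 1019067232) (nat_lit 1140) (nat_lit 1019067232) (nat_lit 173) (nat_lit 3) (nat_lit 188) (nat_lit 3) (nat_lit 188) (nat_lit 5) (nat_lit 272) (nat_lit 272) (nat_lit 176)) (XT.lf (nat_lit 76) (nat_lit 12283914460) (nat_lit 0) (nat_lit 4081368486) (nat_lit 1140) (nat_lit 3791244004) (nat_lit 174) (nat_lit 5) (nat_lit 173) (nat_lit 3) (nat_lit 188) (nat_lit 5) (nat_lit 273) (nat_lit 272) (nat_lit 175))))))) (XT.nd (nat_lit 858) (nat_lit 4408) (nat_lit 0) (XT.nd (nat_lit 390) (nat_lit 836) (nat_lit 0) (XT.nd (nat_lit 156) (nat_lit 912) (nat_lit 0) (XT.nd (nat_lit 78) (nat_lit 0) (nat_lit 76) (XT.lf (nat_lit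 76) (nat_lit 6728842517) (nat_lit 0) (nat_lit 10606870549) (nat_lit 1140) (nat_lit 3319983945) (nat_lit 175) (nat_lit 5) (nat_lit 174) (nat_lit 5) (nat_lit 189) (nat_lit 5) (nat_lit 274) (nat_lit 272) (nat_lit 174)) (XT.lf (nat_lit 76) (nat_lit 980638664) (nat_lit 0) (nat_lit 17525211011) (nat_lit 1140) (nat_lit 2669471716) (nat_lit 176) (nat_lit 5) (nat_lit 175) (nat_lit 5) (nat_lit 190) (nat_lit 5) (nat_lit 275) (nat_lit 272) (nat_lit 173))) (XT.nd (nat_lit 78) (nat_lit 988) (nat_lit 0) (XT.lf (nat_lit 76) (nat_lit 16806053492) (nat_lit 0) (nat_lit 3162769343) (nat_lit 1140) (nat_lit 1745104134) (nat_lit 176) (nat_lit 5) (nat_lit 175) (nat_lit 5) (nat_lit 190) (nat_lit 5) (nat_lit 276) (nat_lit 272) (nat_lit 172)) (XT.nd (nat_lit 78) (nat_lit 1064) (nat_lit 0) (XT.lf (nat_lit 76) (nat_lit 11238658639) (nat_lit 0) (nat_lit 10474605882) (nat_lit 1140) (nat_lit 559977160) (nat_lit 177) (nat_lit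 5) (nat_lit 176) (nat_lit 5) (nat_lit 191) (nat_lit 5) (nat_lit 277) (nat_lit 272) (nat_lit 171)) (XT.lf (nat_lit 0) (nat_lit 838170223) (nat_lit 1140) (nat_lit 17406993287) (nat_lit 1216) (nat_lit 4610173977) (nat_lit 162) (nat_lit 5) (nat_lit 177) (nat_lit 5) (nat_lit 178) (nat_lit 5) (nat_lit 278) (nat_lit 272) (nat_lit 170))))) (XT.nd (nat_lit 234) (nat_lit 836) (nat_lit 0) (XT.nd (nat_lit 78) (nat_lit 0) (nat_lit 76) (XT.lf (nat_lit 0) (nat_lit 2501957624) (nat_lit 1140) (nat_lit 599211916) (nat_lit 1216) (nat_lit 20359007849) (nat_lit 162) (nat_lit 5) (nat_lit 177) (nat_lit 5) (nat_lit 178) (nat_lit 5) (nat_lit 279) (nat_lit 272) (nat_lit 169)) (XT.nd (nat_lit 78) (nat_lit 0) (nat_lit 76) (XT.lf (nat_lit 0) (nat_lit 4528118140) (nat_lit 1140) (nat_lit 6836427737) (nat_lit 1216) (nat_lit 12722361759) (nat_lit 163) (nat_lit 5) (nat_lit 178) (nat_lit 5) (nat_lit 179) (nat_lit 5) (nat_lit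 280) (nat_lit 272) (nat_lit 168)) (XT.lf (nat_lit 0) (nat_lit 6835775388) (nat_lit 1140) (nat_lit 13342617111) (nat_lit 1216) (nat_lit 4561198957) (nat_lit 164) (nat_lit 5) (nat_lit 179) (nat_lit 5) (nat_lit 180) (nat_lit 5) (nat_lit 281) (nat_lit 272) (nat_lit 167)))) (XT.nd (nat_lit 78) (nat_lit 988) (nat_lit 0) (XT.lf (nat_lit 76) (nat_lit 5239534790) (nat_lit 0) (nat_lit 4243878446) (nat_lit 1216) (nat_lit 15934779941) (nat_lit 165) (nat_lit 5) (nat_lit 164) (nat_lit 5) (nat_lit 180) (nat_lit 5) (nat_lit 282) (nat_lit 272) (nat_lit 166)) (XT.nd (nat_lit 78) (nat_lit 1064) (nat_lit 0) (XT.lf (nat_lit 0) (nat_lit 12511115214) (nat_lit 1140) (nat_lit 1227901689) (nat_lit 76) (nat_lit 12384298226) (nat_lit 165) (nat_lit 5) (nat_lit 180) (nat_lit 5) (nat_lit 166) (nat_lit 5) (nat_lit 283) (nat_lit 272) (nat_lit 165)) (XT.lf (nat_lit 0) (nat_lit 15934678968) (nat_lit 1140) (nat_lit 7897874029)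 (nat_lit 76) (nat_lit 3023825510) (nat_lit 151) (nat_lit 5) (nat_lit 166) (nat_lit 5) (nat_lit 152) (nat_lit 5) (nat_lit 284) (nat_lit 272) (nat_lit 164)))))) (XT.nd (nat_lit 468) (nat_lit 1748) (nat_lit 0) (XT.nd (nat_lit 234) (nat_lit 1596) (nat_lit 0) (XT.nd (nat_lit 78) (nat_lit 532) (nat_lit 0) (XT.lf (nat_lit 0) (nat_lit 12653147892) (nat_lit 532) (nat_lit 7139231739) (nat_lit 608) (nat_lit 7825845355) (nat_lit 144) (nat_lit 5) (nat_lit 151) (nat_lit 5) (nat_lit 152) (nat_lit 5) (nat_lit 285) (nat_lit 272) (nat_lit 163)) (XT.nd (nat_lit 78) (nat_lit 0) (nat_lit 0) (XT.lf (nat_lit 0) (nat_lit 5988024314) (nat_lit 532) (nat_lit 18084767644) (nat_lit 608) (nat_lit 4338494838) (nat_lit 137) (nat_lit 5) (nat_lit 144) (nat_lit 5) (nat_lit 145) (nat_lit 5) (nat_lit 286) (nat_lit 272) (nat_lit 162)) (XT.lf (nat_lit 0) (nat_lit 28219084272) (nat_lit 532) (nat_lit 564217061) (nat_lit 608) (nat_lit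 454235028) (nat_lit 137) (nat_lit 5) (nat_lit 144) (nat_lit 5) (nat_lit 145) (nat_lit 5) (nat_lit 287) (nat_lit 272) (nat_lit 161)))) (XT.nd (nat_lit 78) (nat_lit 988) (nat_lit 0) (XT.lf (nat_lit 0) (nat_lit 3928302596) (nat_lit 608) (nat_lit 8432659850) (nat_lit 76) (nat_lit 17731862881) (nat_lit 129) (nat_lit 5) (nat_lit 137) (nat_lit 5) (nat_lit 130) (nat_lit 5) (nat_lit 288) (nat_lit 272) (nat_lit 160)) (XT.nd (nat_lit 78) (nat_lit 456) (nat_lit 0) (XT.lf (nat_lit 0) (nat_lit 8728966371) (nat_lit 608) (nat_lit 16272336475) (nat_lit 76) (nat_lit 5983204100) (nat_lit 122) (nat_lit 5) (nat_lit 130) (nat_lit 5) (nat_lit 123) (nat_lit 5) (nat_lit 289) (nat_lit 272) (nat_lit 159)) (XT.lf (nat_lit 0) (nat_lit 7279990716) (nat_lit 456) (nat_lit 6763770605) (nat_lit 532) (nat_lit 17868802606) (nat_lit 116) (nat_lit 5) (nat_lit 122) (nat_lit 5) (nat_lit 123) (nat_lit 5) (nat_lit 290) (nat_lit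 272) (nat_lit 158))))) (XT.nd (nat_lit 234) (nat_lit 912) (nat_lit 0) (XT.nd (nat_lit 78) (nat_lit 836) (nat_lit 0) (XT.lf (nat_lit 0) (nat_lit 19904521424) (nat_lit 532) (nat_lit 661473418) (nat_lit 76) (nat_lit 12312635698) (nat_lit 116) (nat_lit 5) (nat_lit 123) (nat_lit 5) (nat_lit 117) (nat_lit 5) (nat_lit 291) (nat_lit 272) (nat_lit 157)) (XT.nd (nat_lit 78) (nat_lit 380) (nat_lit 0) (XT.lf (nat_lit 0) (nat_lit 24917829263) (nat_lit 456) (nat_lit 1440664269) (nat_lit 532) (nat_lit 7525514630) (nat_lit 110) (nat_lit 5) (nat_lit 116) (nat_lit 5) (nat_lit 117) (nat_lit 5) (nat_lit 292) (nat_lit 272) (nat_lit 156)) (XT.lf (nat_lit 0) (nat_lit 16994531630) (nat_lit 380) (nat_lit 16482717388) (nat_lit 456) (nat_lit 1452155389) (nat_lit 105) (nat_lit 5) (nat_lit 110) (nat_lit 5) (nat_lit 111) (nat_lit 5) (nat_lit 293) (nat_lit 272) (nat_lit 155)))) (XT.nd (nat_lit 78) (nat_lit 380) (nat_lit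 0) (XT.lf (nat_lit 0) (nat_lit 5044835515) (nat_lit 532) (nat_lit 27542422262) (nat_lit 76) (nat_lit 3431921849) (nat_lit 98) (nat_lit 5) (nat_lit 105) (nat_lit 5) (nat_lit 99) (nat_lit 5) (nat_lit 294) (nat_lit 272) (nat_lit 154)) (XT.nd (nat_lit 78) (nat_lit 380) (nat_lit 0) (XT.lf (nat_lit 0) (nat_lit 12182840009) (nat_lit 532) (nat_lit 765192471) (nat_lit 76) (nat_lit 24204604706) (nat_lit 98) (nat_lit 5) (nat_lit 105) (nat_lit 5) (nat_lit 99) (nat_lit 5) (nat_lit 295) (nat_lit 272) (nat_lit 153)) (XT.lf (nat_lit 0) (nat_lit 20015646066) (nat_lit 456) (nat_lit 10524057784) (nat_lit 76) (nat_lit 7792937036) (nat_lit 93) (nat_lit 5) (nat_lit 99) (nat_lit 5) (nat_lit 94) (nat_lit 5) (nat_lit 296) (nat_lit 272) (nat_lit 152))))))))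
noncomputable def xc104 : XT := (XT.nd (nat_lit 1716) (nat_lit 760) (nat_lit 0) (XT.nd (nat_lit 858) (nat_lit 1748) (nat_lit 0) (XT.nd (nat_lit 390) (nat_lit 1216) (nat_lit 0) (XT.nd (nat_lit 156) (nat_lit 760) (nat_lit 0) (XT.nd (nat_lit 78) (nat_lit 304) (nat_lit 0) (XT.lf (nat_lit 0) (nat_lit 18477661855) (nat_lit 380) (nat_lit 10072350152) (nat_lit 456) (nat_lit 11012344990) (nat_lit 88) (nat_lit 5) (nat_lit 93) (nat_lit 5) (nat_lit 94) (nat_lit 5) (nat_lit 297) (nat_lit 272) (nat_lit 151)) (XT.lf (nat_lit 0) (nat_lit 8343332145) (nat_lit 304) (nat_lit 29461008277) (nat_lit 380) (nat_lit 3040430510) (nat_lit 84) (nat_lit 5) (nat_lit 88) (nat_lit 5) (nat_lit 89) (nat_lit 5) (nat_lit 298) (nat_lit 272) (nat_lit 150))) (XT.nd (nat_lit 78) (nat_lit 684) (nat_lit 0) (XT.lf (nat_lit 0) (nat_lit 5540957098) (nat_lit 380) (nat_lit 2664102789) (nat_lit 76) (nat_lit 33975270646) (nat_lit 83) (nat_lit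 5) (nat_lit 88) (nat_lit 5) (nat_lit 84) (nat_lit 5) (nat_lit 299) (nat_lit 272) (nat_lit 149)) (XT.nd (nat_lit 78) (nat_lit 304) (nat_lit 0) (XT.lf (nat_lit 0) (nat_lit 14902823910) (nat_lit 456) (nat_lit 14515361552) (nat_lit 76) (nat_lit 14151159064) (nat_lit 78) (nat_lit 5) (nat_lit 84) (nat_lit 5) (nat_lit 79) (nat_lit 5) (nat_lit 300) (nat_lit 272) (nat_lit 148)) (XT.lf (nat_lit 0) (nat_lit 17640587047) (nat_lit 304) (nat_lit 7366779767) (nat_lit 380) (nat_lit 20012212760) (nat_lit 74) (nat_lit 5) (nat_lit 78) (nat_lit 5) (nat_lit 79) (nat_lit 5) (nat_lit 301) (nat_lit 272) (nat_lit 147))))) (XT.nd (nat_lit 234) (nat_lit 532) (nat_lit 0) (XT.nd (nat_lit 78) (nat_lit 380) (nat_lit 0) (XT.lf (nat_lit 0) (nat_lit 5109120393) (nat_lit 304) (nat_lit 30854464008) (nat_lit 380) (nat_lit 10568356011) (nat_lit 70) (nat_lit 5) (nat_lit 74) (nat_lit 5) (nat_lit 75) (nat_lit 5) (nat_lit 302) (nat_lit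 272) (nat_lit 146)) (XT.nd (nat_lit 78) (nat_lit 380) (nat_lit 0) (XT.lf (nat_lit 0) (nat_lit 39710991018) (nat_lit 304) (nat_lit 8106953859) (nat_lit 380) (nat_lit 291471564) (nat_lit 70) (nat_lit 5) (nat_lit 74) (nat_lit 5) (nat_lit 75) (nat_lit 5) (nat_lit 303) (nat_lit 272) (nat_lit 145)) (XT.lf (nat_lit 0) (nat_lit 10701185597) (nat_lit 380) (nat_lit 23220025136) (nat_lit 76) (nat_lit 15829330151) (nat_lit 65) (nat_lit 5) (nat_lit 70) (nat_lit 5) (nat_lit 66) (nat_lit 5) (nat_lit 304) (nat_lit 272) (nat_lit 144)))) (XT.nd (nat_lit 78) (nat_lit 228) (nat_lit 0) (XT.lf (nat_lit 0) (nat_lit 12053188798) (nat_lit 304) (nat_lit 10464522256) (nat_lit 380) (nat_lit 28947522270) (nat_lit 61) (nat_lit 5) (nat_lit 65) (nat_lit 5) (nat_lit 66) (nat_lit 5) (nat_lit 305) (nat_lit 272) (nat_lit 143)) (XT.nd (nat_lit 78) (nat_lit 228) (nat_lit 0) (XT.lf (nat_lit 0) (nat_lit 35297978873) (nat_lit 380)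 (nat_lit 3828328372) (nat_lit 76) (nat_lit 14128171623) (nat_lit 61) (nat_lit 5) (nat_lit 66) (nat_lit 5) (nat_lit 62) (nat_lit 5) (nat_lit 306) (nat_lit 272) (nat_lit 142)) (XT.lf (nat_lit 0) (nat_lit 34087840363) (nat_lit 228) (nat_lit 15058292075) (nat_lit 304) (nat_lit 5974193758) (nat_lit 58) (nat_lit 5) (nat_lit 61) (nat_lit 5) (nat_lit 62) (nat_lit 5) (nat_lit 307) (nat_lit 272) (nat_lit 141)))))) (XT.nd (nat_lit 390) (nat_lit 912) (nat_lit 0) (XT.nd (nat_lit 156) (nat_lit 532) (nat_lit 0) (XT.nd (nat_lit 78) (nat_lit 0) (nat_lit 0) (XT.lf (nat_lit 0) (nat_lit 6779606355) (nat_lit 304) (nat_lit 40005953677) (nat_lit 76) (nat_lit 10282966445) (nat_lit 54) (nat_lit 5) (nat_lit 58) (nat_lit 5) (nat_lit 55) (nat_lit 5) (nat_lit 308) (nat_lit 272) (nat_lit 140)) (XT.lf (nat_lit 0) (nat_lit 20415143472) (nat_lit 304) (nat_lit 1826303933) (nat_lit 76) (nat_lit 36859891781) (nat_lit 54) (nat_lit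 5) (nat_lit 58) (nat_lit 5) (nat_lit 55) (nat_lit 5) (nat_lit 309) (nat_lit 272) (nat_lit 139))) (XT.nd (nat_lit 78) (nat_lit 304) (nat_lit 0) (XT.lf (nat_lit 0) (nat_lit 35141159791) (nat_lit 304) (nat_lit 22244426792) (nat_lit 76) (nat_lit 3837949638) (nat_lit 51) (nat_lit 5) (nat_lit 55) (nat_lit 5) (nat_lit 52) (nat_lit 5) (nat_lit 310) (nat_lit 272) (nat_lit 138)) (XT.nd (nat_lit 78) (nat_lit 76) (nat_lit 0) (XT.lf (nat_lit 0) (nat_lit 18543069014) (nat_lit 228) (nat_lit 32478259535) (nat_lit 304) (nat_lit 12417983547) (nat_lit 48) (nat_lit 5) (nat_lit 51) (nat_lit 5) (nat_lit 52) (nat_lit 5) (nat_lit 311) (nat_lit 272) (nat_lit 137)) (XT.lf (nat_lit 0) (nat_lit 2119447657) (nat_lit 304) (nat_lit 3950731597) (nat_lit 76) (nat_lit 59688321059) (nat_lit 47) (nat_lit 5) (nat_lit 51) (nat_lit 5) (nat_lit 48) (nat_lit 5) (nat_lit 312) (nat_lit 272) (nat_lit 136))))) (XT.nd (nat_lit 234)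 (nat_lit 456) (nat_lit 0) (XT.nd (nat_lit 78) (nat_lit 228) (nat_lit 0) (XT.lf (nat_lit 0) (nat_lit 17720390394) (nat_lit 304) (nat_lit 28706040065) (nat_lit 76) (nat_lit 21745729079) (nat_lit 44) (nat_lit 5) (nat_lit 48) (nat_lit 5) (nat_lit 45) (nat_lit 5) (nat_lit 313) (nat_lit 272) (nat_lit 135)) (XT.nd (nat_lit 78) (nat_lit 0) (nat_lit 0) (XT.lf (nat_lit 0) (nat_lit 14649936845) (nat_lit 228) (nat_lit 19691109861) (nat_lit 304) (nat_lit 36358268828) (nat_lit 41) (nat_lit 5) (nat_lit 44) (nat_lit 5) (nat_lit 45) (nat_lit 5) (nat_lit 314) (nat_lit 272) (nat_lit 134)) (XT.lf (nat_lit 0) (nat_lit 52168329599) (nat_lit 304) (nat_lit 12659158546) (nat_lit 76) (nat_lit 8514076996) (nat_lit 41) (nat_lit 5) (nat_lit 45) (nat_lit 5) (nat_lit 42) (nat_lit 5) (nat_lit 315) (nat_lit 272) (nat_lit 133)))) (XT.nd (nat_lit 78) (nat_lit 304) (nat_lit 0) (XT.lf (nat_lit 0) (nat_lit 33347517668) (nat_lit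 152) (nat_lit 38055526241) (nat_lit 228) (nat_lit 4697404748) (nat_lit 39) (nat_lit 5) (nat_lit 41) (nat_lit 5) (nat_lit 42) (nat_lit 5) (nat_lit 316) (nat_lit 272) (nat_lit 132)) (XT.nd (nat_lit 78) (nat_lit 0) (nat_lit 0) (XT.lf (nat_lit 0) (nat_lit 2854001632) (nat_lit 228) (nat_lit 9658177086) (nat_lit 304) (nat_lit 66476790344) (nat_lit 35) (nat_lit 5) (nat_lit 38) (nat_lit 5) (nat_lit 39) (nat_lit 5) (nat_lit 317) (nat_lit 272) (nat_lit 131)) (XT.lf (nat_lit 0) (nat_lit 31121160804) (nat_lit 304) (nat_lit 30624466969) (nat_lit 76) (nat_lit 20255813411) (nat_lit 35) (nat_lit 5) (nat_lit 39) (nat_lit 5) (nat_lit 36) (nat_lit 5) (nat_lit 318) (nat_lit 272) (nat_lit 130))))))) (XT.nd (nat_lit 34164) (nat_lit 0) (nat_lit 9044) (XT.nd (nat_lit 390) (nat_lit 228) (nat_lit 0) (XT.nd (nat_lit 156) (nat_lit 380) (nat_lit 0) (XT.nd (nat_lit 78) (nat_lit 0) (nat_lit 0) (XT.lf (nat_lit 0) (nat_lit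 17398929628) (nat_lit 152) (nat_lit 33523464045) (nat_lit 228) (nat_lit 34234292085) (nat_lit 33) (nat_lit 5) (nat_lit 35) (nat_lit 5) (nat_lit 36) (nat_lit 5) (nat_lit 319) (nat_lit 272) (nat_lit 129)) (XT.lf (nat_lit 0) (nat_lit 68458928640) (nat_lit 152) (nat_lit 3567177595) (nat_lit 228) (nat_lit 16434216538) (nat_lit 33) (nat_lit 5) (nat_lit 35) (nat_lit 5) (nat_lit 36) (nat_lit 5) (nat_lit 320) (nat_lit 272) (nat_lit 128))) (XT.nd (nat_lit 78) (nat_lit 152) (nat_lit 0) (XT.lf (nat_lit 0) (nat_lit 2775565151) (nat_lit 228) (nat_lit 61474792763) (nat_lit 76) (nat_lit 27661224061) (nat_lit 30) (nat_lit 5) (nat_lit 33) (nat_lit 5) (nat_lit 31) (nat_lit 5) (nat_lit 321) (nat_lit 272) (nat_lit 127)) (XT.nd (nat_lit 78) (nat_lit 152) (nat_lit 0) (XT.lf (nat_lit 0) (nat_lit 22850395813) (nat_lit 228) (nat_lit 11922603495) (nat_lit 76) (nat_lit 60750192464) (nat_lit 30) (nat_lit 5) (nat_lit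 33) (nat_lit 5) (nat_lit 31) (nat_lit 5) (nat_lit 322) (nat_lit 272) (nat_lit 126)) (XT.lf (nat_lit 0) (nat_lit 40901219832) (nat_lit 152) (nat_lit 3418387634) (nat_lit 228) (nat_lit 54984057719) (nat_lit 28) (nat_lit 5) (nat_lit 30) (nat_lit 5) (nat_lit 31) (nat_lit 5) (nat_lit 323) (nat_lit 272) (nat_lit 125))))) (XT.nd (nat_lit 33540) (nat_lit 0) (nat_lit 11248) (XT.nd (nat_lit 78) (nat_lit 228) (nat_lit 0) (XT.lf (nat_lit 0) (nat_lit 67267376767) (nat_lit 228) (nat_lit 6942972452) (nat_lit 76) (nat_lit 29050662341) (nat_lit 28) (nat_lit 5) (nat_lit 31) (nat_lit 5) (nat_lit 29) (nat_lit 5) (nat_lit 324) (nat_lit 272) (nat_lit 124)) (XT.nd (nat_lit 78) (nat_lit 76) (nat_lit 0) (XT.lf (nat_lit 0) (nat_lit 47987525130) (nat_lit 152) (nat_lit 43868453792) (nat_lit 228) (nat_lit 15545445095) (nat_lit 26) (nat_lit 5) (nat_lit 28) (nat_lit 5) (nat_lit 29) (nat_lit 5) (nat_lit 325) (nat_lit 272)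 (nat_lit 123)) (XT.lf (nat_lit 0) (nat_lit 5879419922) (nat_lit 228) (nat_lit 5998534342) (nat_lit 76) (nat_lit 99867099477) (nat_lit 25) (nat_lit 5) (nat_lit 28) (nat_lit 5) (nat_lit 26) (nat_lit 5) (nat_lit 326) (nat_lit 272) (nat_lit 122)))) (XT.nd (nat_lit 78) (nat_lit 0) (nat_lit 0) (XT.lf (nat_lit 0) (nat_lit 8443129823) (nat_lit 1140) (nat_lit 939437333) (nat_lit 1140) (nat_lit 939437333) (nat_lit 173) (nat_lit 3) (nat_lit 188) (nat_lit 3) (nat_lit 188) (nat_lit 5) (nat_lit 273) (nat_lit 273) (nat_lit 174)) (XT.nd (nat_lit 78) (nat_lit 0) (nat_lit 76) (XT.lf (nat_lit 76) (nat_lit 13151790417) (nat_lit 0) (nat_lit 4516229540) (nat_lit 1140) (nat_lit 3480834479) (nat_lit 174) (nat_lit 5) (nat_lit 173) (nat_lit 3) (nat_lit 188) (nat_lit 5) (nat_lit 274) (nat_lit 273) (nat_lit 173)) (XT.lf (nat_lit 76) (nat_lit 7328902699) (nat_lit 0) (nat_lit 11335419930) (nat_lit 1140) (nat_lit 3009385777)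 (nat_lit 175) (nat_lit 5) (nat_lit 174) (nat_lit 5) (nat_lit 189) (nat_lit 5) (nat_lit 275) (nat_lit 273) (nat_lit 172)))))) (XT.nd (nat_lit 390) (nat_lit 1368) (nat_lit 0) (XT.nd (nat_lit 156) (nat_lit 988) (nat_lit 0) (XT.nd (nat_lit 78) (nat_lit 0) (nat_lit 0) (XT.lf (nat_lit 76) (nat_lit 1301932733) (nat_lit 0) (nat_lit 18569844322) (nat_lit 1140) (nat_lit 2348216370) (nat_lit 176) (nat_lit 5) (nat_lit 175) (nat_lit 5) (nat_lit 190) (nat_lit 5) (nat_lit 276) (nat_lit 273) (nat_lit 171)) (XT.lf (nat_lit 76) (nat_lit 17905653439) (nat_lit 0) (nat_lit 3481262821) (nat_lit 1140) (nat_lit 1399284168) (nat_lit 176) (nat_lit 5) (nat_lit 175) (nat_lit 5) (nat_lit 190) (nat_lit 5) (nat_lit 277) (nat_lit 273) (nat_lit 170))) (XT.nd (nat_lit 78) (nat_lit 1064) (nat_lit 0) (XT.lf (nat_lit 76) (nat_lit 12066991510) (nat_lit 0) (nat_lit 11132697848) (nat_lit 1140) (nat_lit 174397919) (nat_lit 177)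 (nat_lit 5) (nat_lit 176) (nat_lit 5) (nat_lit 191) (nat_lit 5) (nat_lit 278) (nat_lit 273) (nat_lit 169)) (XT.nd (nat_lit 78) (nat_lit 0) (nat_lit 0) (XT.lf (nat_lit 0) (nat_lit 1267679356) (nat_lit 1140) (nat_lit 17996427817) (nat_lit 1216) (nat_lit 4721635336) (nat_lit 162) (nat_lit 5) (nat_lit 177) (nat_lit 5) (nat_lit 178) (nat_lit 5) (nat_lit 279) (nat_lit 273) (nat_lit 168)) (XT.lf (nat_lit 0) (nat_lit 2996198955) (nat_lit 1140) (nat_lit 361634289) (nat_lit 1216) (nat_lit 21263579824) (nat_lit 162) (nat_lit 5) (nat_lit 177) (nat_lit 5) (nat_lit 178) (nat_lit 5) (nat_lit 280) (nat_lit 273) (nat_lit 167))))) (XT.nd (nat_lit 234) (nat_lit 1444) (nat_lit 0) (XT.nd (nat_lit 78) (nat_lit 0) (nat_lit 76) (XT.lf (nat_lit 0) (nat_lit 5107681810) (nat_lit 1140) (nat_lit 6906186876) (nat_lit 1216) (nat_lit 13266123991) (nat_lit 163) (nat_lit 5) (nat_lit 178) (nat_lit 5) (nat_lit 179) (nat_lit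 5) (nat_lit 281) (nat_lit 273) (nat_lit 166)) (XT.nd (nat_lit 78) (nat_lit 0) (nat_lit 0) (XT.lf (nat_lit 0) (nat_lit 7515727881) (nat_lit 1140) (nat_lit 13733966720) (nat_lit 1216) (nat_lit 4716097605) (nat_lit 164) (nat_lit 5) (nat_lit 179) (nat_lit 5) (nat_lit 180) (nat_lit 5) (nat_lit 282) (nat_lit 273) (nat_lit 165)) (XT.lf (nat_lit 76) (nat_lit 5769387563) (nat_lit 0) (nat_lit 4512832013) (nat_lit 1216) (nat_lit 16396540466) (nat_lit 165) (nat_lit 5) (nat_lit 164) (nat_lit 5) (nat_lit 180) (nat_lit 5) (nat_lit 283) (nat_lit 273) (nat_lit 164)))) (XT.nd (nat_lit 78) (nat_lit 1596) (nat_lit 0) (XT.lf (nat_lit 0) (nat_lit 13445328183) (nat_lit 1140) (nat_lit 1023806833) (nat_lit 76) (nat_lit 12950511176) (nat_lit 165) (nat_lit 5) (nat_lit 180) (nat_lit 5) (nat_lit 166) (nat_lit 5) (nat_lit 284) (nat_lit 273) (nat_lit 163)) (XT.nd (nat_lit 78) (nat_lit 532) (nat_lit 0) (XT.lf (nat_lit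 0) (nat_lit 17027480413) (nat_lit 1140) (nat_lit 8025076617) (nat_lit 76) (nat_lit 3137210780) (nat_lit 151) (nat_lit 5) (nat_lit 166) (nat_lit 5) (nat_lit 152) (nat_lit 5) (nat_lit 285) (nat_lit 273) (nat_lit 162)) (XT.lf (nat_lit 0) (nat_lit 13545823088) (nat_lit 532) (nat_lit 7520644019) (nat_lit 608) (nat_lit 7923613553) (nat_lit 144) (nat_lit 5) (nat_lit 151) (nat_lit 5) (nat_lit 152) (nat_lit 5) (nat_lit 286) (nat_lit 273) (nat_lit 161))))))))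
noncomputable def xc105 : XT := (XT.nd (nat_lit 1716) (nat_lit 2280) (nat_lit 0) (XT.nd (nat_lit 858) (nat_lit 2660) (nat_lit 0) (XT.nd (nat_lit 390) (nat_lit 1748) (nat_lit 0) (XT.nd (nat_lit 156) (nat_lit 1596) (nat_lit 0) (XT.nd (nat_lit 78) (nat_lit 0) (nat_lit 0) (XT.lf (nat_lit 0) (nat_lit 6549014270) (nat_lit 532) (nat_lit 19000630370) (nat_lit 608) (nat_lit 4273513418) (nat_lit 137) (nat_lit 5) (nat_lit 144) (nat_lit 5) (nat_lit 145) (nat_lit 5) (nat_lit 287) (nat_lit 273) (nat_lit 160)) (XT.lf (nat_lit 0) (nat_lit 29879170619) (nat_lit 532) (nat_lit 603498717) (nat_lit 608) (nat_lit 208464719) (nat_lit 137) (nat_lit 5) (nat_lit 144) (nat_lit 5) (nat_lit 145) (nat_lit 5) (nat_lit 288) (nat_lit 273) (nat_lit 159))) (XT.nd (nat_lit 78) (nat_lit 988) (nat_lit 0) (XT.lf (nat_lit 0) (nat_lit 4377751264) (nat_lit 608) (nat_lit 8598683607) (nat_lit 76) (nat_lit 18613003328) (nat_lit 129)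 (nat_lit 5) (nat_lit 137) (nat_lit 5) (nat_lit 130) (nat_lit 5) (nat_lit 289) (nat_lit 273) (nat_lit 158)) (XT.nd (nat_lit 78) (nat_lit 456) (nat_lit 0) (XT.lf (nat_lit 0) (nat_lit 9408832862) (nat_lit 608) (nat_lit 16830000572) (nat_lit 76) (nat_lit 6287179753) (nat_lit 122) (nat_lit 5) (nat_lit 130) (nat_lit 5) (nat_lit 123) (nat_lit 5) (nat_lit 290) (nat_lit 273) (nat_lit 157)) (XT.lf (nat_lit 0) (nat_lit 7892606145) (nat_lit 456) (nat_lit 7087559922) (nat_lit 532) (nat_lit 18520602833) (nat_lit 116) (nat_lit 5) (nat_lit 122) (nat_lit 5) (nat_lit 123) (nat_lit 5) (nat_lit 291) (nat_lit 273) (nat_lit 156))))) (XT.nd (nat_lit 234) (nat_lit 912) (nat_lit 0) (XT.nd (nat_lit 78) (nat_lit 836) (nat_lit 0) (XT.lf (nat_lit 0) (nat_lit 21122942822) (nat_lit 532) (nat_lit 450832134) (nat_lit 76) (nat_lit 12941713419) (nat_lit 116) (nat_lit 5) (nat_lit 123) (nat_lit 5) (nat_lit 117) (nat_lit 5)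 (nat_lit 292) (nat_lit 273) (nat_lit 155)) (XT.nd (nat_lit 78) (nat_lit 380) (nat_lit 0) (XT.lf (nat_lit 0) (nat_lit 26400449641) (nat_lit 456) (nat_lit 1490811129) (nat_lit 532) (nat_lit 7680142684) (nat_lit 110) (nat_lit 5) (nat_lit 116) (nat_lit 5) (nat_lit 117) (nat_lit 5) (nat_lit 293) (nat_lit 273) (nat_lit 154)) (XT.lf (nat_lit 0) (nat_lit 18080607035) (nat_lit 380) (nat_lit 17277588694) (nat_lit 456) (nat_lit 1311123666) (nat_lit 105) (nat_lit 5) (nat_lit 110) (nat_lit 5) (nat_lit 111) (nat_lit 5) (nat_lit 294) (nat_lit 273) (nat_lit 153)))) (XT.nd (nat_lit 78) (nat_lit 380) (nat_lit 0) (XT.lf (nat_lit 0) (nat_lit 5499131496) (nat_lit 532) (nat_lit 28679537206) (nat_lit 76) (nat_lit 3635091400) (nat_lit 98) (nat_lit 5) (nat_lit 105) (nat_lit 5) (nat_lit 99) (nat_lit 5) (nat_lit 295) (nat_lit 273) (nat_lit 152)) (XT.nd (nat_lit 78) (nat_lit 380) (nat_lit 0) (XT.lf (nat_lit 0) (nat_lit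 12984414585) (nat_lit 532) (nat_lit 574874791) (nat_lit 76) (nat_lit 25444904901) (nat_lit 98) (nat_lit 5) (nat_lit 105) (nat_lit 5) (nat_lit 99) (nat_lit 5) (nat_lit 296) (nat_lit 273) (nat_lit 151)) (XT.lf (nat_lit 0) (nat_lit 21202183763) (nat_lit 456) (nat_lit 10822738004) (nat_lit 76) (nat_lit 8218491083) (nat_lit 93) (nat_lit 5) (nat_lit 99) (nat_lit 5) (nat_lit 94) (nat_lit 5) (nat_lit 297) (nat_lit 273) (nat_lit 150)))))) (XT.nd (nat_lit 390) (nat_lit 1216) (nat_lit 0) (XT.nd (nat_lit 156) (nat_lit 760) (nat_lit 0) (XT.nd (nat_lit 78) (nat_lit 304) (nat_lit 0) (XT.lf (nat_lit 0) (nat_lit 19622545726) (nat_lit 380) (nat_lit 10534001175) (nat_lit 456) (nat_lit 11378283185) (nat_lit 88) (nat_lit 5) (nat_lit 93) (nat_lit 5) (nat_lit 94) (nat_lit 5) (nat_lit 298) (nat_lit 273) (nat_lit 149)) (XT.lf (nat_lit 0) (nat_lit 8980255698) (nat_lit 304) (nat_lit 30887307232) (nat_lit 380) (nat_lit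 3013995687) (nat_lit 84) (nat_lit 5) (nat_lit 88) (nat_lit 5) (nat_lit 89) (nat_lit 5) (nat_lit 299) (nat_lit 273) (nat_lit 148))) (XT.nd (nat_lit 78) (nat_lit 684) (nat_lit 0) (XT.lf (nat_lit 0) (nat_lit 5984646879) (nat_lit 380) (nat_lit 2584458046) (nat_lit 76) (nat_lit 35715001824) (nat_lit 83) (nat_lit 5) (nat_lit 88) (nat_lit 5) (nat_lit 84) (nat_lit 5) (nat_lit 300) (nat_lit 273) (nat_lit 147)) (XT.nd (nat_lit 78) (nat_lit 304) (nat_lit 0) (XT.lf (nat_lit 0) (nat_lit 15809101800) (nat_lit 456) (nat_lit 15029773359) (nat_lit 76) (nat_lit 14903872919) (nat_lit 78) (nat_lit 5) (nat_lit 84) (nat_lit 5) (nat_lit 79) (nat_lit 5) (nat_lit 301) (nat_lit 273) (nat_lit 146)) (XT.lf (nat_lit 0) (nat_lit 18727914185) (nat_lit 304) (nat_lit 7685257937) (nat_lit 380) (nat_lit 20852504681) (nat_lit 74) (nat_lit 5) (nat_lit 78) (nat_lit 5) (nat_lit 79) (nat_lit 5) (nat_lit 302) (nat_lit 273) (nat_lit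 145))))) (XT.nd (nat_lit 234) (nat_lit 532) (nat_lit 0) (XT.nd (nat_lit 78) (nat_lit 380) (nat_lit 0) (XT.lf (nat_lit 0) (nat_lit 5568265640) (nat_lit 304) (nat_lit 32343947642) (nat_lit 380) (nat_lit 10941602431) (nat_lit 70) (nat_lit 5) (nat_lit 74) (nat_lit 5) (nat_lit 75) (nat_lit 5) (nat_lit 303) (nat_lit 273) (nat_lit 144)) (XT.nd (nat_lit 78) (nat_lit 380) (nat_lit 0) (XT.lf (nat_lit 0) (nat_lit 41890530309) (nat_lit 304) (nat_lit 8461597204) (nat_lit 380) (nat_lit 158262875) (nat_lit 70) (nat_lit 5) (nat_lit 74) (nat_lit 5) (nat_lit 75) (nat_lit 5) (nat_lit 304) (nat_lit 273) (nat_lit 143)) (XT.lf (nat_lit 0) (nat_lit 11376579275) (nat_lit 380) (nat_lit 24185726487) (nat_lit 76) (nat_lit 16671368765) (nat_lit 65) (nat_lit 5) (nat_lit 70) (nat_lit 5) (nat_lit 66) (nat_lit 5) (nat_lit 305) (nat_lit 273) (nat_lit 142)))) (XT.nd (nat_lit 78) (nat_lit 228) (nat_lit 0) (XT.lf (nat_lit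 0) (nat_lit 12845549912) (nat_lit 304) (nat_lit 10933522032) (nat_lit 380) (nat_lit 30255184150) (nat_lit 61) (nat_lit 5) (nat_lit 65) (nat_lit 5) (nat_lit 66) (nat_lit 5) (nat_lit 306) (nat_lit 273) (nat_lit 141)) (XT.nd (nat_lit 78) (nat_lit 228) (nat_lit 0) (XT.lf (nat_lit 0) (nat_lit 37192398381) (nat_lit 380) (nat_lit 3835535920) (nat_lit 76) (nat_lit 14885216572) (nat_lit 61) (nat_lit 5) (nat_lit 66) (nat_lit 5) (nat_lit 62) (nat_lit 5) (nat_lit 307) (nat_lit 273) (nat_lit 140)) (XT.lf (nat_lit 0) (nat_lit 35971160941) (nat_lit 228) (nat_lit 15757351008) (nat_lit 304) (nat_lit 6143919968) (nat_lit 58) (nat_lit 5) (nat_lit 61) (nat_lit 5) (nat_lit 62) (nat_lit 5) (nat_lit 308) (nat_lit 273) (nat_lit 139))))))) (XT.nd (nat_lit 858) (nat_lit 532) (nat_lit 0) (XT.nd (nat_lit 390) (nat_lit 912) (nat_lit 0) (XT.nd (nat_lit 156) (nat_lit 532) (nat_lit 0) (XT.nd (nat_lit 78) (nat_lit 0) (nat_lit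 0) (XT.lf (nat_lit 0) (nat_lit 7241248128) (nat_lit 304) (nat_lit 41826568447) (nat_lit 76) (nat_lit 10850309918) (nat_lit 54) (nat_lit 5) (nat_lit 58) (nat_lit 5) (nat_lit 55) (nat_lit 5) (nat_lit 309) (nat_lit 273) (nat_lit 138)) (XT.lf (nat_lit 0) (nat_lit 21552721079) (nat_lit 304) (nat_lit 1746492545) (nat_lit 76) (nat_lit 38753548419) (nat_lit 54) (nat_lit 5) (nat_lit 58) (nat_lit 5) (nat_lit 55) (nat_lit 5) (nat_lit 310) (nat_lit 273) (nat_lit 137))) (XT.nd (nat_lit 78) (nat_lit 304) (nat_lit 0) (XT.lf (nat_lit 0) (nat_lit 37011586143) (nat_lit 304) (nat_lit 23187421333) (nat_lit 76) (nat_lit 4082171659) (nat_lit 51) (nat_lit 5) (nat_lit 55) (nat_lit 5) (nat_lit 52) (nat_lit 5) (nat_lit 311) (nat_lit 273) (nat_lit 136)) (XT.nd (nat_lit 78) (nat_lit 76) (nat_lit 0) (XT.lf (nat_lit 0) (nat_lit 19634598411) (nat_lit 228) (nat_lit 34047346515) (nat_lit 304) (nat_lit 12925919754) (nat_lit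 48) (nat_lit 5) (nat_lit 51) (nat_lit 5) (nat_lit 52) (nat_lit 5) (nat_lit 312) (nat_lit 273) (nat_lit 135)) (XT.lf (nat_lit 0) (nat_lit 2330904474) (nat_lit 304) (nat_lit 3989503323) (nat_lit 76) (nat_lit 62722736013) (nat_lit 47) (nat_lit 5) (nat_lit 51) (nat_lit 5) (nat_lit 48) (nat_lit 5) (nat_lit 313) (nat_lit 273) (nat_lit 134))))) (XT.nd (nat_lit 234) (nat_lit 456) (nat_lit 0) (XT.nd (nat_lit 78) (nat_lit 228) (nat_lit 0) (XT.lf (nat_lit 0) (nat_lit 18708856131) (nat_lit 304) (nat_lit 29984460900) (nat_lit 76) (nat_lit 22884265682) (nat_lit 44) (nat_lit 5) (nat_lit 48) (nat_lit 5) (nat_lit 45) (nat_lit 5) (nat_lit 314) (nat_lit 273) (nat_lit 133)) (XT.nd (nat_lit 78) (nat_lit 0) (nat_lit 0) (XT.lf (nat_lit 0) (nat_lit 15534817889) (nat_lit 228) (nat_lit 20622313788) (nat_lit 304) (nat_lit 38074072545) (nat_lit 41) (nat_lit 5) (nat_lit 44) (nat_lit 5) (nat_lit 45) (nat_lit 5) (nat_lit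 315) (nat_lit 273) (nat_lit 132)) (XT.lf (nat_lit 0) (nat_lit 54871551301) (nat_lit 304) (nat_lit 13144546527) (nat_lit 76) (nat_lit 8989600355) (nat_lit 41) (nat_lit 5) (nat_lit 45) (nat_lit 5) (nat_lit 42) (nat_lit 5) (nat_lit 316) (nat_lit 273) (nat_lit 131)))) (XT.nd (nat_lit 78) (nat_lit 304) (nat_lit 0) (XT.lf (nat_lit 0) (nat_lit 35158233435) (nat_lit 152) (nat_lit 39906631229) (nat_lit 228) (nat_lit 4837760125) (nat_lit 39) (nat_lit 5) (nat_lit 41) (nat_lit 5) (nat_lit 42) (nat_lit 5) (nat_lit 317) (nat_lit 273) (nat_lit 130)) (XT.nd (nat_lit 78) (nat_lit 0) (nat_lit 0) (XT.lf (nat_lit 0) (nat_lit 3137815009) (nat_lit 228) (nat_lit 10089586764) (nat_lit 304) (nat_lit 69708238325) (nat_lit 35) (nat_lit 5) (nat_lit 38) (nat_lit 5) (nat_lit 39) (nat_lit 5) (nat_lit 318) (nat_lit 273) (nat_lit 129)) (XT.lf (nat_lit 0) (nat_lit 32763037094) (nat_lit 304) (nat_lit 32019123013) (nat_lit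 76) (nat_lit 21316693836) (nat_lit 35) (nat_lit 5) (nat_lit 39) (nat_lit 5) (nat_lit 36) (nat_lit 5) (nat_lit 319) (nat_lit 273) (nat_lit 128)))))) (XT.nd (nat_lit 33930) (nat_lit 0) (nat_lit 10108) (XT.nd (nat_lit 234) (nat_lit 152) (nat_lit 0) (XT.nd (nat_lit 78) (nat_lit 228) (nat_lit 0) (XT.lf (nat_lit 0) (nat_lit 18401528740) (nat_lit 152) (nat_lit 35149991421) (nat_lit 228) (nat_lit 35860428962) (nat_lit 33) (nat_lit 5) (nat_lit 35) (nat_lit 5) (nat_lit 36) (nat_lit 5) (nat_lit 320) (nat_lit 273) (nat_lit 127)) (XT.nd (nat_lit 78) (nat_lit 228) (nat_lit 0) (XT.lf (nat_lit 0) (nat_lit 72008210911) (nat_lit 152) (nat_lit 3698254735) (nat_lit 228) (nat_lit 17174424768) (nat_lit 33) (nat_lit 5) (nat_lit 35) (nat_lit 5) (nat_lit 36) (nat_lit 5) (nat_lit 321) (nat_lit 273) (nat_lit 126)) (XT.lf (nat_lit 0) (nat_lit 2992097486) (nat_lit 228) (nat_lit 64422262573) (nat_lit 76) (nat_lit 29090397310)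 (nat_lit 30) (nat_lit 5) (nat_lit 33) (nat_lit 5) (nat_lit 31) (nat_lit 5) (nat_lit 322) (nat_lit 273) (nat_lit 125)))) (XT.nd (nat_lit 78) (nat_lit 152) (nat_lit 0) (XT.lf (nat_lit 0) (nat_lit 24066967106) (nat_lit 228) (nat_lit 12398476691) (nat_lit 76) (nat_lit 63831618321) (nat_lit 30) (nat_lit 5) (nat_lit 33) (nat_lit 5) (nat_lit 31) (nat_lit 5) (nat_lit 323) (nat_lit 273) (nat_lit 124)) (XT.nd (nat_lit 78) (nat_lit 0) (nat_lit 0) (XT.lf (nat_lit 0) (nat_lit 43063090660) (nat_lit 152) (nat_lit 3544145267) (nat_lit 228) (nat_lit 57659398601) (nat_lit 28) (nat_lit 5) (nat_lit 30) (nat_lit 5) (nat_lit 31) (nat_lit 5) (nat_lit 324) (nat_lit 273) (nat_lit 123)) (XT.lf (nat_lit 0) (nat_lit 70699395330) (nat_lit 228) (nat_lit 7177178569) (nat_lit 76) (nat_lit 30545367344) (nat_lit 28) (nat_lit 5) (nat_lit 31) (nat_lit 5) (nat_lit 29) (nat_lit 5) (nat_lit 325) (nat_lit 273) (nat_lit 122)))))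 (XT.nd (nat_lit 234) (nat_lit 912) (nat_lit 0) (XT.nd (nat_lit 78) (nat_lit 0) (nat_lit 0) (XT.lf (nat_lit 0) (nat_lit 9094826474) (nat_lit 1140) (nat_lit 867966334) (nat_lit 1140) (nat_lit 867966334) (nat_lit 173) (nat_lit 3) (nat_lit 188) (nat_lit 3) (nat_lit 188) (nat_lit 5) (nat_lit 274) (nat_lit 274) (nat_lit 172)) (XT.nd (nat_lit 78) (nat_lit 0) (nat_lit 76) (XT.lf (nat_lit 76) (nat_lit 14039475389) (nat_lit 0) (nat_lit 4951376735) (nat_lit 1140) (nat_lit 3201387111) (nat_lit 174) (nat_lit 5) (nat_lit 173) (nat_lit 3) (nat_lit 188) (nat_lit 5) (nat_lit 275) (nat_lit 274) (nat_lit 171)) (XT.lf (nat_lit 76) (nat_lit 7934457183) (nat_lit 0) (nat_lit 12081969478) (nat_lit 1140) (nat_lit 2727567208) (nat_lit 175) (nat_lit 5) (nat_lit 174) (nat_lit 5) (nat_lit 189) (nat_lit 5) (nat_lit 276) (nat_lit 274) (nat_lit 170)))) (XT.nd (nat_lit 78) (nat_lit 1064) (nat_lit 0) (XT.lf (nat_lit 76)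 (nat_lit 1613979153) (nat_lit 0) (nat_lit 19651055596) (nat_lit 1140) (nat_lit 2053174643) (nat_lit 176) (nat_lit 5) (nat_lit 175) (nat_lit 5) (nat_lit 190) (nat_lit 5) (nat_lit 277) (nat_lit 274) (nat_lit 169)) (XT.nd (nat_lit 78) (nat_lit 1064) (nat_lit 0) (XT.lf (nat_lit 76) (nat_lit 19036126380) (nat_lit 0) (nat_lit 3800772683) (nat_lit 1140) (nat_lit 1076436428) (nat_lit 176) (nat_lit 5) (nat_lit 175) (nat_lit 5) (nat_lit 190) (nat_lit 5) (nat_lit 278) (nat_lit 274) (nat_lit 168)) (XT.lf (nat_lit 0) (nat_lit 188262911) (nat_lit 1140) (nat_lit 11621038739) (nat_lit 1216) (nat_lit 12721809687) (nat_lit 161) (nat_lit 5) (nat_lit 176) (nat_lit 5) (nat_lit 177) (nat_lit 5) (nat_lit 279) (nat_lit 274) (nat_lit 167))))))))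
noncomputable def xc106 : XT := (XT.nd (nat_lit 1716) (nat_lit 4028) (nat_lit 0) (XT.nd (nat_lit 858) (nat_lit 3496) (nat_lit 0) (XT.nd (nat_lit 390) (nat_lit 2508) (nat_lit 0) (XT.nd (nat_lit 156) (nat_lit 0) (nat_lit 76) (XT.nd (nat_lit 78) (nat_lit 0) (nat_lit 0) (XT.lf (nat_lit 0) (nat_lit 1682628514) (nat_lit 1140) (nat_lit 18641450900) (nat_lit 1216) (nat_lit 4849737657) (nat_lit 162) (nat_lit 5) (nat_lit 177) (nat_lit 5) (nat_lit 178) (nat_lit 5) (nat_lit 280) (nat_lit 274) (nat_lit 166)) (XT.lf (nat_lit 0) (nat_lit 3480832893) (nat_lit 1140) (nat_lit 137050949) (nat_lit 1216) (nat_lit 22223921247) (nat_lit 162) (nat_lit 5) (nat_lit 177) (nat_lit 5) (nat_lit 178) (nat_lit 5) (nat_lit 281) (nat_lit 274) (nat_lit 165))) (XT.nd (nat_lit 78) (nat_lit 0) (nat_lit 76) (XT.lf (nat_lit 0) (nat_lit 5683390402) (nat_lit 1140) (nat_lit 7004727742) (nat_lit 1216) (nat_lit 13845660706) (nat_lit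 163) (nat_lit 5) (nat_lit 178) (nat_lit 5) (nat_lit 179) (nat_lit 5) (nat_lit 282) (nat_lit 274) (nat_lit 164)) (XT.nd (nat_lit 78) (nat_lit 0) (nat_lit 0) (XT.lf (nat_lit 0) (nat_lit 8198238740) (nat_lit 1140) (nat_lit 14170523335) (nat_lit 1216) (nat_lit 4885543030) (nat_lit 164) (nat_lit 5) (nat_lit 179) (nat_lit 5) (nat_lit 180) (nat_lit 5) (nat_lit 283) (nat_lit 274) (nat_lit 163)) (XT.lf (nat_lit 76) (nat_lit 6300828399) (nat_lit 0) (nat_lit 4789956283) (nat_lit 1216) (nat_lit 16912532139) (nat_lit 165) (nat_lit 5) (nat_lit 164) (nat_lit 5) (nat_lit 180) (nat_lit 5) (nat_lit 284) (nat_lit 274) (nat_lit 162))))) (XT.nd (nat_lit 234) (nat_lit 1140) (nat_lit 0) (XT.nd (nat_lit 78) (nat_lit 1596) (nat_lit 0) (XT.lf (nat_lit 0) (nat_lit 14397555779) (nat_lit 1140) (nat_lit 834189973) (nat_lit 76) (nat_lit 13549962394) (nat_lit 165) (nat_lit 5) (nat_lit 180) (nat_lit 5) (nat_lit 166) (nat_lit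 5) (nat_lit 285) (nat_lit 274) (nat_lit 161)) (XT.nd (nat_lit 78) (nat_lit 532) (nat_lit 0) (XT.lf (nat_lit 0) (nat_lit 18147396380) (nat_lit 1140) (nat_lit 8183526717) (nat_lit 76) (nat_lit 3259780158) (nat_lit 151) (nat_lit 5) (nat_lit 166) (nat_lit 5) (nat_lit 152) (nat_lit 5) (nat_lit 286) (nat_lit 274) (nat_lit 160)) (XT.lf (nat_lit 0) (nat_lit 14458958053) (nat_lit 532) (nat_lit 7918853720) (nat_lit 608) (nat_lit 8053559247) (nat_lit 144) (nat_lit 5) (nat_lit 151) (nat_lit 5) (nat_lit 152) (nat_lit 5) (nat_lit 287) (nat_lit 274) (nat_lit 159)))) (XT.nd (nat_lit 78) (nat_lit 608) (nat_lit 0) (XT.lf (nat_lit 0) (nat_lit 7113733682) (nat_lit 532) (nat_lit 19961205510) (nat_lit 608) (nat_lit 4231491889) (nat_lit 137) (nat_lit 5) (nat_lit 144) (nat_lit 5) (nat_lit 145) (nat_lit 5) (nat_lit 288) (nat_lit 274) (nat_lit 158)) (XT.nd (nat_lit 78) (nat_lit 532) (nat_lit 0) (XT.lf (nat_lit 0)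 (nat_lit 24152504) (nat_lit 608) (nat_lit 619318800) (nat_lit 76) (nat_lit 31574702942) (nat_lit 136) (nat_lit 5) (nat_lit 144) (nat_lit 5) (nat_lit 137) (nat_lit 5) (nat_lit 289) (nat_lit 274) (nat_lit 157)) (XT.lf (nat_lit 0) (nat_lit 4826147705) (nat_lit 608) (nat_lit 8796772676) (nat_lit 76) (nat_lit 19538707738) (nat_lit 129) (nat_lit 5) (nat_lit 137) (nat_lit 5) (nat_lit 130) (nat_lit 5) (nat_lit 290) (nat_lit 274) (nat_lit 156)))))) (XT.nd (nat_lit 390) (nat_lit 1672) (nat_lit 0) (XT.nd (nat_lit 156) (nat_lit 836) (nat_lit 0) (XT.nd (nat_lit 78) (nat_lit 456) (nat_lit 0) (XT.lf (nat_lit 0) (nat_lit 10100061964) (nat_lit 608) (nat_lit 17439343933) (nat_lit 76) (nat_lit 6605906495) (nat_lit 122) (nat_lit 5) (nat_lit 130) (nat_lit 5) (nat_lit 123) (nat_lit 5) (nat_lit 291) (nat_lit 274) (nat_lit 155)) (XT.lf (nat_lit 0) (nat_lit 8512738396) (nat_lit 456) (nat_lit 7428877407) (nat_lit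 532) (nat_lit 19227458459) (nat_lit 116) (nat_lit 5) (nat_lit 122) (nat_lit 5) (nat_lit 123) (nat_lit 5) (nat_lit 292) (nat_lit 274) (nat_lit 154))) (XT.nd (nat_lit 78) (nat_lit 836) (nat_lit 0) (XT.lf (nat_lit 0) (nat_lit 22381534704) (nat_lit 532) (nat_lit 252317092) (nat_lit 76) (nat_lit 13600994950) (nat_lit 116) (nat_lit 5) (nat_lit 123) (nat_lit 5) (nat_lit 117) (nat_lit 5) (nat_lit 293) (nat_lit 274) (nat_lit 153)) (XT.nd (nat_lit 78) (nat_lit 380) (nat_lit 0) (XT.lf (nat_lit 0) (nat_lit 27935192227) (nat_lit 456) (nat_lit 1545500117) (nat_lit 532) (nat_lit 7863108840) (nat_lit 110) (nat_lit 5) (nat_lit 116) (nat_lit 5) (nat_lit 117) (nat_lit 5) (nat_lit 294) (nat_lit 274) (nat_lit 152)) (XT.lf (nat_lit 0) (nat_lit 19199012736) (nat_lit 380) (nat_lit 18114924306) (nat_lit 456) (nat_lit 1182902533) (nat_lit 105) (nat_lit 5) (nat_lit 110) (nat_lit 5) (nat_lit 111) (nat_lit 5) (nat_lit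 295) (nat_lit 274) (nat_lit 151))))) (XT.nd (nat_lit 234) (nat_lit 760) (nat_lit 0) (XT.nd (nat_lit 78) (nat_lit 380) (nat_lit 0) (XT.lf (nat_lit 0) (nat_lit 5957357191) (nat_lit 532) (nat_lit 29895821397) (nat_lit 76) (nat_lit 3845484027) (nat_lit 98) (nat_lit 5) (nat_lit 105) (nat_lit 5) (nat_lit 99) (nat_lit 5) (nat_lit 296) (nat_lit 274) (nat_lit 150)) (XT.nd (nat_lit 78) (nat_lit 380) (nat_lit 0) (XT.lf (nat_lit 0) (nat_lit 13808177334) (nat_lit 532) (nat_lit 396292179) (nat_lit 76) (nat_lit 26744424487) (nat_lit 98) (nat_lit 5) (nat_lit 105) (nat_lit 5) (nat_lit 99) (nat_lit 5) (nat_lit 297) (nat_lit 274) (nat_lit 149)) (XT.lf (nat_lit 0) (nat_lit 22430778569) (nat_lit 456) (nat_lit 11157505136) (nat_lit 76) (nat_lit 8661984522) (nat_lit 93) (nat_lit 5) (nat_lit 99) (nat_lit 5) (nat_lit 94) (nat_lit 5) (nat_lit 298) (nat_lit 274) (nat_lit 148)))) (XT.nd (nat_lit 78) (nat_lit 380) (nat_lit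 0) (XT.lf (nat_lit 0) (nat_lit 20804127232) (nat_lit 380) (nat_lit 11022636395) (nat_lit 456) (nat_lit 11779687998) (nat_lit 88) (nat_lit 5) (nat_lit 93) (nat_lit 5) (nat_lit 94) (nat_lit 5) (nat_lit 299) (nat_lit 274) (nat_lit 147)) (XT.nd (nat_lit 78) (nat_lit 76) (nat_lit 0) (XT.lf (nat_lit 0) (nat_lit 9628594511) (nat_lit 304) (nat_lit 32389267642) (nat_lit 380) (nat_lit 3002830303) (nat_lit 84) (nat_lit 5) (nat_lit 88) (nat_lit 5) (nat_lit 89) (nat_lit 5) (nat_lit 300) (nat_lit 274) (nat_lit 146)) (XT.lf (nat_lit 0) (nat_lit 6435028362) (nat_lit 380) (nat_lit 2520619831) (nat_lit 76) (nat_lit 37537910779) (nat_lit 83) (nat_lit 5) (nat_lit 88) (nat_lit 5) (nat_lit 84) (nat_lit 5) (nat_lit 301) (nat_lit 274) (nat_lit 145))))))) (XT.nd (nat_lit 858) (nat_lit 1596) (nat_lit 0) (XT.nd (nat_lit 390) (nat_lit 1064) (nat_lit 0) (XT.nd (nat_lit 156) (nat_lit 684) (nat_lit 0) (XT.nd (nat_lit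 78) (nat_lit 304) (nat_lit 0) (XT.lf (nat_lit 0) (nat_lit 16745712623) (nat_lit 456) (nat_lit 15589555659) (nat_lit 76) (nat_lit 15690024299) (nat_lit 78) (nat_lit 5) (nat_lit 84) (nat_lit 5) (nat_lit 79) (nat_lit 5) (nat_lit 302) (nat_lit 274) (nat_lit 144)) (XT.lf (nat_lit 0) (nat_lit 19850521037) (nat_lit 304) (nat_lit 8024295601) (nat_lit 380) (nat_lit 21749716113) (nat_lit 74) (nat_lit 5) (nat_lit 78) (nat_lit 5) (nat_lit 79) (nat_lit 5) (nat_lit 303) (nat_lit 274) (nat_lit 143))) (XT.nd (nat_lit 78) (nat_lit 380) (nat_lit 0) (XT.lf (nat_lit 0) (nat_lit 6031431056) (nat_lit 304) (nat_lit 33912855169) (nat_lit 380) (nat_lit 11347937536) (nat_lit 70) (nat_lit 5) (nat_lit 74) (nat_lit 5) (nat_lit 75) (nat_lit 5) (nat_lit 304) (nat_lit 274) (nat_lit 142)) (XT.nd (nat_lit 78) (nat_lit 380) (nat_lit 0) (XT.lf (nat_lit 0) (nat_lit 44161011238) (nat_lit 304) (nat_lit 8838686725) (nat_lit 380)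 (nat_lit 32133146) (nat_lit 70) (nat_lit 5) (nat_lit 74) (nat_lit 5) (nat_lit 75) (nat_lit 5) (nat_lit 305) (nat_lit 274) (nat_lit 141)) (XT.lf (nat_lit 0) (nat_lit 12072695674) (nat_lit 380) (nat_lit 25217870039) (nat_lit 76) (nat_lit 17550807594) (nat_lit 65) (nat_lit 5) (nat_lit 70) (nat_lit 5) (nat_lit 66) (nat_lit 5) (nat_lit 306) (nat_lit 274) (nat_lit 140))))) (XT.nd (nat_lit 234) (nat_lit 532) (nat_lit 0) (XT.nd (nat_lit 78) (nat_lit 228) (nat_lit 0) (XT.lf (nat_lit 0) (nat_lit 13659892417) (nat_lit 304) (nat_lit 11431013247) (nat_lit 380) (nat_lit 31641218429) (nat_lit 61) (nat_lit 5) (nat_lit 65) (nat_lit 5) (nat_lit 66) (nat_lit 5) (nat_lit 307) (nat_lit 274) (nat_lit 139)) (XT.nd (nat_lit 78) (nat_lit 228) (nat_lit 0) (XT.lf (nat_lit 0) (nat_lit 39169497271) (nat_lit 380) (nat_lit 3860229841) (nat_lit 76) (nat_lit 15675406078) (nat_lit 61) (nat_lit 5) (nat_lit 66) (nat_lit 5)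 (nat_lit 62) (nat_lit 5) (nat_lit 308) (nat_lit 274) (nat_lit 138)) (XT.lf (nat_lit 0) (nat_lit 37932012467) (nat_lit 228) (nat_lit 16496369878) (nat_lit 304) (nat_lit 6334124150) (nat_lit 58) (nat_lit 5) (nat_lit 61) (nat_lit 5) (nat_lit 62) (nat_lit 5) (nat_lit 309) (nat_lit 274) (nat_lit 137)))) (XT.nd (nat_lit 78) (nat_lit 228) (nat_lit 0) (XT.lf (nat_lit 0) (nat_lit 7714568090) (nat_lit 304) (nat_lit 43754919170) (nat_lit 76) (nat_lit 11441074985) (nat_lit 54) (nat_lit 5) (nat_lit 58) (nat_lit 5) (nat_lit 55) (nat_lit 5) (nat_lit 310) (nat_lit 274) (nat_lit 136)) (XT.nd (nat_lit 78) (nat_lit 228) (nat_lit 0) (XT.lf (nat_lit 0) (nat_lit 22736316709) (nat_lit 304) (nat_lit 1678600315) (nat_lit 76) (nat_lit 40737177812) (nat_lit 54) (nat_lit 5) (nat_lit 58) (nat_lit 5) (nat_lit 55) (nat_lit 5) (nat_lit 311) (nat_lit 274) (nat_lit 135)) (XT.lf (nat_lit 0) (nat_lit 38964993896) (nat_lit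 304) (nat_lit 24193298705) (nat_lit 76) (nat_lit 4333740141) (nat_lit 51) (nat_lit 5) (nat_lit 55) (nat_lit 5) (nat_lit 52) (nat_lit 5) (nat_lit 312) (nat_lit 274) (nat_lit 134)))))) (XT.nd (nat_lit 390) (nat_lit 836) (nat_lit 0) (XT.nd (nat_lit 156) (nat_lit 456) (nat_lit 0) (XT.nd (nat_lit 78) (nat_lit 76) (nat_lit 0) (XT.lf (nat_lit 0) (nat_lit 20765422161) (nat_lit 228) (nat_lit 35699985046) (nat_lit 304) (nat_lit 13469754998) (nat_lit 48) (nat_lit 5) (nat_lit 51) (nat_lit 5) (nat_lit 52) (nat_lit 5) (nat_lit 313) (nat_lit 274) (nat_lit 133)) (XT.lf (nat_lit 0) (nat_lit 2543127189) (nat_lit 304) (nat_lit 4044974085) (nat_lit 76) (nat_lit 65904223290) (nat_lit 47) (nat_lit 5) (nat_lit 51) (nat_lit 5) (nat_lit 48) (nat_lit 5) (nat_lit 314) (nat_lit 274) (nat_lit 132))) (XT.nd (nat_lit 78) (nat_lit 228) (nat_lit 0) (XT.lf (nat_lit 0) (nat_lit 19737220676) (nat_lit 304) (nat_lit 31341388100)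 (nat_lit 76) (nat_lit 24074964362) (nat_lit 44) (nat_lit 5) (nat_lit 48) (nat_lit 5) (nat_lit 45) (nat_lit 5) (nat_lit 315) (nat_lit 274) (nat_lit 131)) (XT.nd (nat_lit 78) (nat_lit 0) (nat_lit 0) (XT.lf (nat_lit 0) (nat_lit 16449775746) (nat_lit 228) (nat_lit 21605038034) (nat_lit 304) (nat_lit 39885159641) (nat_lit 41) (nat_lit 5) (nat_lit 44) (nat_lit 5) (nat_lit 45) (nat_lit 5) (nat_lit 316) (nat_lit 274) (nat_lit 130)) (XT.lf (nat_lit 0) (nat_lit 57701119997) (nat_lit 304) (nat_lit 13667923562) (nat_lit 76) (nat_lit 9484268136) (nat_lit 41) (nat_lit 5) (nat_lit 45) (nat_lit 5) (nat_lit 42) (nat_lit 5) (nat_lit 317) (nat_lit 274) (nat_lit 129))))) (XT.nd (nat_lit 234) (nat_lit 380) (nat_lit 0) (XT.nd (nat_lit 78) (nat_lit 304) (nat_lit 0) (XT.lf (nat_lit 0) (nat_lit 37046158606) (nat_lit 152) (nat_lit 41855095376) (nat_lit 228) (nat_lit 4993920367) (nat_lit 39) (nat_lit 5) (nat_lit 41)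 (nat_lit 5) (nat_lit 42) (nat_lit 5) (nat_lit 318) (nat_lit 274) (nat_lit 128)) (XT.nd (nat_lit 78) (nat_lit 0) (nat_lit 0) (XT.lf (nat_lit 0) (nat_lit 3422699679) (nat_lit 228) (nat_lit 10547354832) (nat_lit 304) (nat_lit 73109848394) (nat_lit 35) (nat_lit 5) (nat_lit 38) (nat_lit 5) (nat_lit 39) (nat_lit 5) (nat_lit 319) (nat_lit 274) (nat_lit 127)) (XT.lf (nat_lit 0) (nat_lit 34479028630) (nat_lit 304) (nat_lit 33496208592) (nat_lit 76) (nat_lit 22426147352) (nat_lit 35) (nat_lit 5) (nat_lit 39) (nat_lit 5) (nat_lit 36) (nat_lit 5) (nat_lit 320) (nat_lit 274) (nat_lit 126)))) (XT.nd (nat_lit 78) (nat_lit 228) (nat_lit 0) (XT.lf (nat_lit 0) (nat_lit 19441925024) (nat_lit 152) (nat_lit 36862460764) (nat_lit 228) (nat_lit 37575828889) (nat_lit 33) (nat_lit 5) (nat_lit 35) (nat_lit 5) (nat_lit 36) (nat_lit 5) (nat_lit 321) (nat_lit 274) (nat_lit 125)) (XT.nd (nat_lit 78) (nat_lit 228) (nat_lit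 0) (XT.lf (nat_lit 0) (nat_lit 75723211786) (nat_lit 152) (nat_lit 3840281541) (nat_lit 228) (nat_lit 17959220748) (nat_lit 33) (nat_lit 5) (nat_lit 35) (nat_lit 5) (nat_lit 36) (nat_lit 5) (nat_lit 322) (nat_lit 274) (nat_lit 124)) (XT.lf (nat_lit 0) (nat_lit 3212227601) (nat_lit 228) (nat_lit 67528845246) (nat_lit 76) (nat_lit 30586742160) (nat_lit 30) (nat_lit 5) (nat_lit 33) (nat_lit 5) (nat_lit 31) (nat_lit 5) (nat_lit 323) (nat_lit 274) (nat_lit 123))))))))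
noncomputable def xc107 : XT := (XT.nd (nat_lit 35256) (nat_lit 0) (nat_lit 988) (XT.nd (nat_lit 34398) (nat_lit 0) (nat_lit 6688) (XT.nd (nat_lit 33930) (nat_lit 0) (nat_lit 10108) (XT.nd (nat_lit 33696) (nat_lit 0) (nat_lit 11020) (XT.nd (nat_lit 78) (nat_lit 152) (nat_lit 0) (XT.lf (nat_lit 0) (nat_lit 25337482357) (nat_lit 228) (nat_lit 12909323901) (nat_lit 76) (nat_lit 67063032556) (nat_lit 30) (nat_lit 5) (nat_lit 33) (nat_lit 5) (nat_lit 31) (nat_lit 5) (nat_lit 324) (nat_lit 274) (nat_lit 122)) (XT.lf (nat_lit 0) (nat_lit 45322195159) (nat_lit 152) (nat_lit 3680389494) (nat_lit 228) (nat_lit 60475373516) (nat_lit 28) (nat_lit 5) (nat_lit 30) (nat_lit 5) (nat_lit 31) (nat_lit 5) (nat_lit 325) (nat_lit 274) (nat_lit 121))) (XT.nd (nat_lit 78) (nat_lit 0) (nat_lit 0) (XT.lf (nat_lit 0) (nat_lit 9757767488) (nat_lit 1140) (nat_lit 803933479) (nat_lit 1140) (nat_lit 803933479) (nat_lit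 173) (nat_lit 3) (nat_lit 188) (nat_lit 3) (nat_lit 188) (nat_lit 5) (nat_lit 275) (nat_lit 275) (nat_lit 170)) (XT.nd (nat_lit 78) (nat_lit 0) (nat_lit 76) (XT.lf (nat_lit 76) (nat_lit 14950152515) (nat_lit 0) (nat_lit 5388819240) (nat_lit 1140) (nat_lit 2950128492) (nat_lit 174) (nat_lit 5) (nat_lit 173) (nat_lit 3) (nat_lit 188) (nat_lit 5) (nat_lit 276) (nat_lit 275) (nat_lit 169)) (XT.lf (nat_lit 76) (nat_lit 8548059269) (nat_lit 0) (nat_lit 12849132398) (nat_lit 1140) (nat_lit 2471847737) (nat_lit 175) (nat_lit 5) (nat_lit 174) (nat_lit 5) (nat_lit 189) (nat_lit 5) (nat_lit 277) (nat_lit 275) (nat_lit 168))))) (XT.nd (nat_lit 234) (nat_lit 0) (nat_lit 76) (XT.nd (nat_lit 78) (nat_lit 1064) (nat_lit 0) (XT.lf (nat_lit 76) (nat_lit 1918668843) (nat_lit 0) (nat_lit 20772129062) (nat_lit 1140) (nat_lit 1781726758) (nat_lit 176) (nat_lit 5) (nat_lit 175) (nat_lit 5) (nat_lit 190) (nat_lit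 5) (nat_lit 278) (nat_lit 275) (nat_lit 167)) (XT.nd (nat_lit 78) (nat_lit 1064) (nat_lit 0) (XT.lf (nat_lit 76) (nat_lit 20201257207) (nat_lit 0) (nat_lit 4122735781) (nat_lit 1140) (nat_lit 773966233) (nat_lit 176) (nat_lit 5) (nat_lit 175) (nat_lit 5) (nat_lit 190) (nat_lit 5) (nat_lit 279) (nat_lit 275) (nat_lit 166)) (XT.lf (nat_lit 0) (nat_lit 531288245) (nat_lit 1140) (nat_lit 11975649337) (nat_lit 1216) (nat_lit 13240087043) (nat_lit 161) (nat_lit 5) (nat_lit 176) (nat_lit 5) (nat_lit 177) (nat_lit 5) (nat_lit 280) (nat_lit 275) (nat_lit 165)))) (XT.nd (nat_lit 78) (nat_lit 0) (nat_lit 0) (XT.lf (nat_lit 0) (nat_lit 2085639931) (nat_lit 1140) (nat_lit 19342413869) (nat_lit 1216) (nat_lit 4994284000) (nat_lit 162) (nat_lit 5) (nat_lit 177) (nat_lit 5) (nat_lit 178) (nat_lit 5) (nat_lit 281) (nat_lit 275) (nat_lit 164)) (XT.nd (nat_lit 78) (nat_lit 0) (nat_lit 76) (XT.lf (nat_lit 76)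 (nat_lit 77717407) (nat_lit 0) (nat_lit 3881599427) (nat_lit 1216) (nat_lit 23164870264) (nat_lit 163) (nat_lit 5) (nat_lit 162) (nat_lit 5) (nat_lit 178) (nat_lit 5) (nat_lit 282) (nat_lit 275) (nat_lit 163)) (XT.lf (nat_lit 0) (nat_lit 6258103688) (nat_lit 1140) (nat_lit 7131137845) (nat_lit 1216) (nat_lit 14461962350) (nat_lit 163) (nat_lit 5) (nat_lit 178) (nat_lit 5) (nat_lit 179) (nat_lit 5) (nat_lit 283) (nat_lit 275) (nat_lit 162)))))) (XT.nd (nat_lit 390) (nat_lit 2128) (nat_lit 0) (XT.nd (nat_lit 156) (nat_lit 1520) (nat_lit 0) (XT.nd (nat_lit 78) (nat_lit 0) (nat_lit 0) (XT.lf (nat_lit 0) (nat_lit 8886358809) (nat_lit 1140) (nat_lit 14652163588) (nat_lit 1216) (nat_lit 5069630199) (nat_lit 164) (nat_lit 5) (nat_lit 179) (nat_lit 5) (nat_lit 180) (nat_lit 5) (nat_lit 284) (nat_lit 275) (nat_lit 161)) (XT.lf (nat_lit 76) (nat_lit 6836252095) (nat_lit 0) (nat_lit 5076150397) (nat_lit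 1216) (nat_lit 17482571128) (nat_lit 165) (nat_lit 5) (nat_lit 164) (nat_lit 5) (nat_lit 180) (nat_lit 5) (nat_lit 285) (nat_lit 275) (nat_lit 160))) (XT.nd (nat_lit 78) (nat_lit 1596) (nat_lit 0) (XT.lf (nat_lit 0) (nat_lit 15371366616) (nat_lit 1140) (nat_lit 657480240) (nat_lit 76) (nat_lit 14183855670) (nat_lit 165) (nat_lit 5) (nat_lit 180) (nat_lit 5) (nat_lit 166) (nat_lit 5) (nat_lit 286) (nat_lit 275) (nat_lit 159)) (XT.nd (nat_lit 78) (nat_lit 532) (nat_lit 0) (XT.lf (nat_lit 0) (nat_lit 19298341661) (nat_lit 1140) (nat_lit 8372472912) (nat_lit 76) (nat_lit 3391666072) (nat_lit 151) (nat_lit 5) (nat_lit 166) (nat_lit 5) (nat_lit 152) (nat_lit 5) (nat_lit 287) (nat_lit 275) (nat_lit 158)) (XT.lf (nat_lit 0) (nat_lit 15395823244) (nat_lit 532) (nat_lit 8334912051) (nat_lit 608) (nat_lit 8214754230) (nat_lit 144) (nat_lit 5) (nat_lit 151) (nat_lit 5) (nat_lit 152) (nat_lit 5) (nat_lit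 288) (nat_lit 275) (nat_lit 157))))) (XT.nd (nat_lit 234) (nat_lit 988) (nat_lit 0) (XT.nd (nat_lit 78) (nat_lit 608) (nat_lit 0) (XT.lf (nat_lit 0) (nat_lit 7684630071) (nat_lit 532) (nat_lit 20968829161) (nat_lit 608) (nat_lit 4211141585) (nat_lit 137) (nat_lit 5) (nat_lit 144) (nat_lit 5) (nat_lit 145) (nat_lit 5) (nat_lit 289) (nat_lit 275) (nat_lit 156)) (XT.nd (nat_lit 78) (nat_lit 532) (nat_lit 0) (XT.lf (nat_lit 0) (nat_lit 241930803) (nat_lit 608) (nat_lit 440635104) (nat_lit 76) (nat_lit 33139642099) (nat_lit 136) (nat_lit 5) (nat_lit 144) (nat_lit 5) (nat_lit 137) (nat_lit 5) (nat_lit 290) (nat_lit 275) (nat_lit 155)) (XT.lf (nat_lit 0) (nat_lit 5275626408) (nat_lit 608) (nat_lit 9026320960) (nat_lit 76) (nat_lit 20511157178) (nat_lit 129) (nat_lit 5) (nat_lit 137) (nat_lit 5) (nat_lit 130) (nat_lit 5) (nat_lit 291) (nat_lit 275) (nat_lit 154)))) (XT.nd (nat_lit 78) (nat_lit 456)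 (nat_lit 0) (XT.lf (nat_lit 0) (nat_lit 10805325795) (nat_lit 608) (nat_lit 18100738188) (nat_lit 76) (nat_lit 6940163501) (nat_lit 122) (nat_lit 5) (nat_lit 130) (nat_lit 5) (nat_lit 123) (nat_lit 5) (nat_lit 292) (nat_lit 275) (nat_lit 153)) (XT.nd (nat_lit 78) (nat_lit 0) (nat_lit 0) (XT.lf (nat_lit 0) (nat_lit 9142912226) (nat_lit 456) (nat_lit 7788475009) (nat_lit 532) (nat_lit 19990033635) (nat_lit 116) (nat_lit 5) (nat_lit 122) (nat_lit 5) (nat_lit 123) (nat_lit 5) (nat_lit 293) (nat_lit 275) (nat_lit 152)) (XT.lf (nat_lit 0) (nat_lit 23684234788) (nat_lit 532) (nat_lit 64428050) (nat_lit 76) (nat_lit 14292106703) (nat_lit 116) (nat_lit 5) (nat_lit 123) (nat_lit 5) (nat_lit 117) (nat_lit 5) (nat_lit 294) (nat_lit 275) (nat_lit 151))))))) (XT.nd (nat_lit 858) (nat_lit 2204) (nat_lit 0) (XT.nd (nat_lit 390) (nat_lit 1748) (nat_lit 0) (XT.nd (nat_lit 156) (nat_lit 912) (nat_lit 0) (XT.nd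 (nat_lit 78) (nat_lit 380) (nat_lit 0) (XT.lf (nat_lit 0) (nat_lit 29526709303) (nat_lit 456) (nat_lit 1604769166) (nat_lit 532) (nat_lit 8073914189) (nat_lit 110) (nat_lit 5) (nat_lit 116) (nat_lit 5) (nat_lit 117) (nat_lit 5) (nat_lit 295) (nat_lit 275) (nat_lit 150)) (XT.lf (nat_lit 0) (nat_lit 20353408135) (nat_lit 380) (nat_lit 18996594493) (nat_lit 456) (nat_lit 1066285921) (nat_lit 105) (nat_lit 5) (nat_lit 110) (nat_lit 5) (nat_lit 111) (nat_lit 5) (nat_lit 296) (nat_lit 275) (nat_lit 149))) (XT.nd (nat_lit 78) (nat_lit 380) (nat_lit 0) (XT.lf (nat_lit 0) (nat_lit 6421455546) (nat_lit 532) (nat_lit 31193158798) (nat_lit 76) (nat_lit 4063733791) (nat_lit 98) (nat_lit 5) (nat_lit 105) (nat_lit 5) (nat_lit 99) (nat_lit 5) (nat_lit 297) (nat_lit 275) (nat_lit 148)) (XT.nd (nat_lit 78) (nat_lit 380) (nat_lit 0) (XT.lf (nat_lit 0) (nat_lit 14656900958) (nat_lit 532) (nat_lit 228055674)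 (nat_lit 76) (nat_lit 28106384342) (nat_lit 98) (nat_lit 5) (nat_lit 105) (nat_lit 5) (nat_lit 99) (nat_lit 5) (nat_lit 298) (nat_lit 275) (nat_lit 147)) (XT.lf (nat_lit 0) (nat_lit 23705138919) (nat_lit 456) (nat_lit 11528196930) (nat_lit 76) (nat_lit 9124624686) (nat_lit 93) (nat_lit 5) (nat_lit 99) (nat_lit 5) (nat_lit 94) (nat_lit 5) (nat_lit 299) (nat_lit 275) (nat_lit 146))))) (XT.nd (nat_lit 234) (nat_lit 988) (nat_lit 0) (XT.nd (nat_lit 78) (nat_lit 380) (nat_lit 0) (XT.lf (nat_lit 0) (nat_lit 22026151480) (nat_lit 380) (nat_lit 11539242284) (nat_lit 456) (nat_lit 12216736483) (nat_lit 88) (nat_lit 5) (nat_lit 93) (nat_lit 5) (nat_lit 94) (nat_lit 5) (nat_lit 300) (nat_lit 275) (nat_lit 145)) (XT.nd (nat_lit 78) (nat_lit 76) (nat_lit 0) (XT.lf (nat_lit 0) (nat_lit 10290818820) (nat_lit 304) (nat_lit 33970268483) (nat_lit 380) (nat_lit 3006155339) (nat_lit 84) (nat_lit 5) (nat_lit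 88) (nat_lit 5) (nat_lit 89) (nat_lit 5) (nat_lit 301) (nat_lit 275) (nat_lit 144)) (XT.lf (nat_lit 0) (nat_lit 6893876506) (nat_lit 380) (nat_lit 2471538698) (nat_lit 76) (nat_lit 39448510502) (nat_lit 83) (nat_lit 5) (nat_lit 88) (nat_lit 5) (nat_lit 84) (nat_lit 5) (nat_lit 302) (nat_lit 275) (nat_lit 143)))) (XT.nd (nat_lit 78) (nat_lit 608) (nat_lit 0) (XT.lf (nat_lit 0) (nat_lit 17715565812) (nat_lit 456) (nat_lit 16195150115) (nat_lit 76) (nat_lit 16511675386) (nat_lit 78) (nat_lit 5) (nat_lit 84) (nat_lit 5) (nat_lit 79) (nat_lit 5) (nat_lit 303) (nat_lit 275) (nat_lit 142)) (XT.nd (nat_lit 78) (nat_lit 304) (nat_lit 0) (XT.lf (nat_lit 0) (nat_lit 21011946086) (nat_lit 304) (nat_lit 8384489763) (nat_lit 380) (nat_lit 22705307313) (nat_lit 74) (nat_lit 5) (nat_lit 78) (nat_lit 5) (nat_lit 79) (nat_lit 5) (nat_lit 304) (nat_lit 275) (nat_lit 141)) (XT.lf (nat_lit 0) (nat_lit 6500578241)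 (nat_lit 304) (nat_lit 35564697604) (nat_lit 380) (nat_lit 11787674534) (nat_lit 70) (nat_lit 5) (nat_lit 74) (nat_lit 5) (nat_lit 75) (nat_lit 5) (nat_lit 305) (nat_lit 275) (nat_lit 140)))))) (XT.nd (nat_lit 468) (nat_lit 988) (nat_lit 0) (XT.nd (nat_lit 234) (nat_lit 532) (nat_lit 0) (XT.nd (nat_lit 78) (nat_lit 608) (nat_lit 0) (XT.lf (nat_lit 0) (nat_lit 86126937) (nat_lit 380) (nat_lit 9151909817) (nat_lit 76) (nat_lit 46441660988) (nat_lit 69) (nat_lit 5) (nat_lit 74) (nat_lit 5) (nat_lit 70) (nat_lit 5) (nat_lit 306) (nat_lit 275) (nat_lit 139)) (XT.nd (nat_lit 78) (nat_lit 304) (nat_lit 0) (XT.lf (nat_lit 0) (nat_lit 12791783915) (nat_lit 380) (nat_lit 26318089825) (nat_lit 76) (nat_lit 18469953771) (nat_lit 65) (nat_lit 5) (nat_lit 70) (nat_lit 5) (nat_lit 66) (nat_lit 5) (nat_lit 307) (nat_lit 275) (nat_lit 138)) (XT.lf (nat_lit 0) (nat_lit 14498955074) (nat_lit 304) (nat_lit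 11957951768) (nat_lit 380) (nat_lit 33108336105) (nat_lit 61) (nat_lit 5) (nat_lit 65) (nat_lit 5) (nat_lit 66) (nat_lit 5) (nat_lit 308) (nat_lit 275) (nat_lit 137)))) (XT.nd (nat_lit 78) (nat_lit 532) (nat_lit 0) (XT.lf (nat_lit 0) (nat_lit 41234529023) (nat_lit 380) (nat_lit 3901692239) (nat_lit 76) (nat_lit 16500835047) (nat_lit 61) (nat_lit 5) (nat_lit 66) (nat_lit 5) (nat_lit 62) (nat_lit 5) (nat_lit 309) (nat_lit 275) (nat_lit 136)) (XT.nd (nat_lit 78) (nat_lit 304) (nat_lit 0) (XT.lf (nat_lit 0) (nat_lit 39975818060) (nat_lit 228) (nat_lit 17276881179) (nat_lit 304) (nat_lit 6544715331) (nat_lit 58) (nat_lit 5) (nat_lit 61) (nat_lit 5) (nat_lit 62) (nat_lit 5) (nat_lit 310) (nat_lit 275) (nat_lit 135)) (XT.lf (nat_lit 0) (nat_lit 8201210377) (nat_lit 304) (nat_lit 45794839550) (nat_lit 76) (nat_lit 12056892517) (nat_lit 54) (nat_lit 5) (nat_lit 58) (nat_lit 5) (nat_lit 55) (nat_lit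 5) (nat_lit 311) (nat_lit 275) (nat_lit 134))))) (XT.nd (nat_lit 234) (nat_lit 532) (nat_lit 0) (XT.nd (nat_lit 78) (nat_lit 456) (nat_lit 0) (XT.lf (nat_lit 0) (nat_lit 23969241004) (nat_lit 304) (nat_lit 1621744066) (nat_lit 76) (nat_lit 42815716496) (nat_lit 54) (nat_lit 5) (nat_lit 58) (nat_lit 5) (nat_lit 55) (nat_lit 5) (nat_lit 312) (nat_lit 275) (nat_lit 133)) (XT.nd (nat_lit 78) (nat_lit 228) (nat_lit 0) (XT.lf (nat_lit 0) (nat_lit 41006512022) (nat_lit 304) (nat_lit 25263740334) (nat_lit 76) (nat_lit 4593474675) (nat_lit 51) (nat_lit 5) (nat_lit 55) (nat_lit 5) (nat_lit 52) (nat_lit 5) (nat_lit 313) (nat_lit 275) (nat_lit 132)) (XT.lf (nat_lit 0) (nat_lit 21938925767) (nat_lit 228) (nat_lit 37439878816) (nat_lit 304) (nat_lit 14050307833) (nat_lit 48) (nat_lit 5) (nat_lit 51) (nat_lit 5) (nat_lit 52) (nat_lit 5) (nat_lit 314) (nat_lit 275) (nat_lit 131)))) (XT.nd (nat_lit 78) (nat_lit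 456) (nat_lit 0) (XT.lf (nat_lit 0) (nat_lit 2757065853) (nat_lit 304) (nat_lit 4116606551) (nat_lit 76) (nat_lit 69240568674) (nat_lit 47) (nat_lit 5) (nat_lit 51) (nat_lit 5) (nat_lit 48) (nat_lit 5) (nat_lit 315) (nat_lit 275) (nat_lit 130)) (XT.nd (nat_lit 78) (nat_lit 228) (nat_lit 0) (XT.lf (nat_lit 0) (nat_lit 20808364465) (nat_lit 304) (nat_lit 32779390980) (nat_lit 76) (nat_lit 25320876205) (nat_lit 44) (nat_lit 5) (nat_lit 48) (nat_lit 5) (nat_lit 45) (nat_lit 5) (nat_lit 316) (nat_lit 275) (nat_lit 129)) (XT.lf (nat_lit 0) (nat_lit 17397631393) (nat_lit 228) (nat_lit 22641397471) (nat_lit 304) (nat_lit 41795411700) (nat_lit 41) (nat_lit 5) (nat_lit 44) (nat_lit 5) (nat_lit 45) (nat_lit 5) (nat_lit 317) (nat_lit 275) (nat_lit 128))))))))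
noncomputable def xc108 : XT := (XT.nd (nat_lit 35334) (nat_lit 0) (nat_lit 2128) (XT.nd (nat_lit 34476) (nat_lit 0) (nat_lit 8664) (XT.nd (nat_lit 390) (nat_lit 228) (nat_lit 0) (XT.nd (nat_lit 156) (nat_lit 456) (nat_lit 0) (XT.nd (nat_lit 78) (nat_lit 152) (nat_lit 0) (XT.lf (nat_lit 0) (nat_lit 60664172488) (nat_lit 304) (nat_lit 14229913581) (nat_lit 76) (nat_lit 9999468176) (nat_lit 41) (nat_lit 5) (nat_lit 45) (nat_lit 5) (nat_lit 42) (nat_lit 5) (nat_lit 318) (nat_lit 275) (nat_lit 127)) (XT.lf (nat_lit 0) (nat_lit 39016392613) (nat_lit 152) (nat_lit 43905340018) (nat_lit 228) (nat_lit 5165858775) (nat_lit 39) (nat_lit 5) (nat_lit 41) (nat_lit 5) (nat_lit 42) (nat_lit 5) (nat_lit 319) (nat_lit 275) (nat_lit 126))) (XT.nd (nat_lit 78) (nat_lit 152) (nat_lit 0) (XT.lf (nat_lit 0) (nat_lit 3709928920) (nat_lit 228) (nat_lit 11032354074) (nat_lit 304) (nat_lit 76689330068) (nat_lit 35)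 (nat_lit 5) (nat_lit 38) (nat_lit 5) (nat_lit 39) (nat_lit 5) (nat_lit 320) (nat_lit 275) (nat_lit 125)) (XT.nd (nat_lit 78) (nat_lit 152) (nat_lit 0) (XT.lf (nat_lit 0) (nat_lit 36273582948) (nat_lit 304) (nat_lit 35058664761) (nat_lit 76) (nat_lit 23587018279) (nat_lit 35) (nat_lit 5) (nat_lit 39) (nat_lit 5) (nat_lit 36) (nat_lit 5) (nat_lit 321) (nat_lit 275) (nat_lit 124)) (XT.lf (nat_lit 0) (nat_lit 20523154923) (nat_lit 152) (nat_lit 38664740057) (nat_lit 228) (nat_lit 39384215325) (nat_lit 33) (nat_lit 5) (nat_lit 35) (nat_lit 5) (nat_lit 36) (nat_lit 5) (nat_lit 322) (nat_lit 275) (nat_lit 123))))) (XT.nd (nat_lit 33852) (nat_lit 0) (nat_lit 10868) (XT.nd (nat_lit 78) (nat_lit 228) (nat_lit 0) (XT.lf (nat_lit 0) (nat_lit 79613309183) (nat_lit 152) (nat_lit 3993396813) (nat_lit 228) (nat_lit 18790129397) (nat_lit 33) (nat_lit 5) (nat_lit 35) (nat_lit 5) (nat_lit 36) (nat_lit 5) (nat_lit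 323) (nat_lit 275) (nat_lit 122)) (XT.nd (nat_lit 78) (nat_lit 0) (nat_lit 0) (XT.lf (nat_lit 0) (nat_lit 3436807453) (nat_lit 228) (nat_lit 70801405009) (nat_lit 76) (nat_lit 32154015762) (nat_lit 30) (nat_lit 5) (nat_lit 33) (nat_lit 5) (nat_lit 31) (nat_lit 5) (nat_lit 324) (nat_lit 275) (nat_lit 121)) (XT.lf (nat_lit 0) (nat_lit 26665278829) (nat_lit 228) (nat_lit 13455854382) (nat_lit 76) (nat_lit 70452314178) (nat_lit 30) (nat_lit 5) (nat_lit 33) (nat_lit 5) (nat_lit 31) (nat_lit 5) (nat_lit 325) (nat_lit 275) (nat_lit 120)))) (XT.nd (nat_lit 78) (nat_lit 0) (nat_lit 0) (XT.lf (nat_lit 0) (nat_lit 10434499120) (nat_lit 1140) (nat_lit 746686914) (nat_lit 1140) (nat_lit 746686914) (nat_lit 173) (nat_lit 3) (nat_lit 188) (nat_lit 3) (nat_lit 188) (nat_lit 5) (nat_lit 276) (nat_lit 276) (nat_lit 168)) (XT.nd (nat_lit 78) (nat_lit 0) (nat_lit 76) (XT.lf (nat_lit 76) (nat_lit 15886960238)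 (nat_lit 0) (nat_lit 5830481216) (nat_lit 1140) (nat_lit 2724548318) (nat_lit 174) (nat_lit 5) (nat_lit 173) (nat_lit 3) (nat_lit 188) (nat_lit 5) (nat_lit 277) (nat_lit 276) (nat_lit 167)) (XT.lf (nat_lit 76) (nat_lit 9172178085) (nat_lit 0) (nat_lit 13639493277) (nat_lit 1140) (nat_lit 2239795832) (nat_lit 175) (nat_lit 5) (nat_lit 174) (nat_lit 5) (nat_lit 189) (nat_lit 5) (nat_lit 278) (nat_lit 276) (nat_lit 166)))))) (XT.nd (nat_lit 390) (nat_lit 1292) (nat_lit 0) (XT.nd (nat_lit 156) (nat_lit 1064) (nat_lit 0) (XT.nd (nat_lit 78) (nat_lit 0) (nat_lit 0) (XT.lf (nat_lit 76) (nat_lit 2217768483) (nat_lit 0) (nat_lit 21936377862) (nat_lit 1140) (nat_lit 1531487366) (nat_lit 176) (nat_lit 5) (nat_lit 175) (nat_lit 5) (nat_lit 190) (nat_lit 5) (nat_lit 279) (nat_lit 276) (nat_lit 165)) (XT.lf (nat_lit 76) (nat_lit 21404811685) (nat_lit 0) (nat_lit 4448531948) (nat_lit 1140) (nat_lit 489497183)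 (nat_lit 176) (nat_lit 5) (nat_lit 175) (nat_lit 5) (nat_lit 190) (nat_lit 5) (nat_lit 280) (nat_lit 276) (nat_lit 164))) (XT.nd (nat_lit 78) (nat_lit 0) (nat_lit 76) (XT.lf (nat_lit 0) (nat_lit 860448747) (nat_lit 1140) (nat_lit 12369042835) (nat_lit 1216) (nat_lit 13795231415) (nat_lit 161) (nat_lit 5) (nat_lit 176) (nat_lit 5) (nat_lit 177) (nat_lit 5) (nat_lit 281) (nat_lit 276) (nat_lit 163)) (XT.nd (nat_lit 78) (nat_lit 0) (nat_lit 0) (XT.lf (nat_lit 0) (nat_lit 2479155479) (nat_lit 1140) (nat_lit 20099911365) (nat_lit 1216) (nat_lit 5155163242) (nat_lit 162) (nat_lit 5) (nat_lit 177) (nat_lit 5) (nat_lit 178) (nat_lit 5) (nat_lit 282) (nat_lit 276) (nat_lit 162)) (XT.lf (nat_lit 76) (nat_lit 285217669) (nat_lit 0) (nat_lit 4149482799) (nat_lit 1216) (nat_lit 24036851930) (nat_lit 163) (nat_lit 5) (nat_lit 162) (nat_lit 5) (nat_lit 178) (nat_lit 5) (nat_lit 283) (nat_lit 276) (nat_lit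 161))))) (XT.nd (nat_lit 234) (nat_lit 1444) (nat_lit 0) (XT.nd (nat_lit 78) (nat_lit 0) (nat_lit 76) (XT.lf (nat_lit 0) (nat_lit 6834540633) (nat_lit 1140) (nat_lit 7284677700) (nat_lit 1216) (nat_lit 15116143105) (nat_lit 163) (nat_lit 5) (nat_lit 178) (nat_lit 5) (nat_lit 179) (nat_lit 5) (nat_lit 284) (nat_lit 276) (nat_lit 160)) (XT.nd (nat_lit 78) (nat_lit 0) (nat_lit 0) (XT.lf (nat_lit 0) (nat_lit 9583019726) (nat_lit 1140) (nat_lit 15178979555) (nat_lit 1216) (nat_lit 5268517621) (nat_lit 164) (nat_lit 5) (nat_lit 179) (nat_lit 5) (nat_lit 180) (nat_lit 5) (nat_lit 285) (nat_lit 276) (nat_lit 159)) (XT.lf (nat_lit 76) (nat_lit 7377957919) (nat_lit 0) (nat_lit 5372312837) (nat_lit 1216) (nat_lit 18106733590) (nat_lit 165) (nat_lit 5) (nat_lit 164) (nat_lit 5) (nat_lit 180) (nat_lit 5) (nat_lit 286) (nat_lit 276) (nat_lit 158)))) (XT.nd (nat_lit 78) (nat_lit 1596) (nat_lit 0) (XT.lf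 (nat_lit 0) (nat_lit 16370259708) (nat_lit 1140) (nat_lit 492241571) (nat_lit 76) (nat_lit 14853497574) (nat_lit 165) (nat_lit 5) (nat_lit 180) (nat_lit 5) (nat_lit 166) (nat_lit 5) (nat_lit 287) (nat_lit 276) (nat_lit 157)) (XT.nd (nat_lit 78) (nat_lit 532) (nat_lit 0) (XT.lf (nat_lit 0) (nat_lit 20484188868) (nat_lit 1140) (nat_lit 8591341327) (nat_lit 76) (nat_lit 3533037953) (nat_lit 151) (nat_lit 5) (nat_lit 166) (nat_lit 5) (nat_lit 152) (nat_lit 5) (nat_lit 288) (nat_lit 276) (nat_lit 156)) (XT.lf (nat_lit 0) (nat_lit 16359643693) (nat_lit 532) (nat_lit 8769903137) (nat_lit 608) (nat_lit 8406459761) (nat_lit 144) (nat_lit 5) (nat_lit 151) (nat_lit 5) (nat_lit 152) (nat_lit 5) (nat_lit 289) (nat_lit 276) (nat_lit 155))))))) (XT.nd (nat_lit 858) (nat_lit 2660) (nat_lit 0) (XT.nd (nat_lit 390) (nat_lit 1748) (nat_lit 0) (XT.nd (nat_lit 156) (nat_lit 1520) (nat_lit 0) (XT.nd (nat_lit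 78) (nat_lit 76) (nat_lit 0) (XT.lf (nat_lit 0) (nat_lit 8264063120) (nat_lit 532) (nat_lit 22025944883) (nat_lit 608) (nat_lit 4211335946) (nat_lit 137) (nat_lit 5) (nat_lit 144) (nat_lit 5) (nat_lit 145) (nat_lit 5) (nat_lit 290) (nat_lit 276) (nat_lit 154)) (XT.lf (nat_lit 0) (nat_lit 450463329) (nat_lit 608) (nat_lit 272508459) (nat_lit 76) (nat_lit 34784110834) (nat_lit 136) (nat_lit 5) (nat_lit 144) (nat_lit 5) (nat_lit 137) (nat_lit 5) (nat_lit 291) (nat_lit 276) (nat_lit 153))) (XT.nd (nat_lit 78) (nat_lit 988) (nat_lit 0) (XT.lf (nat_lit 0) (nat_lit 5728225250) (nat_lit 608) (nat_lit 9286897461) (nat_lit 76) (nat_lit 21532646150) (nat_lit 129) (nat_lit 5) (nat_lit 137) (nat_lit 5) (nat_lit 130) (nat_lit 5) (nat_lit 292) (nat_lit 276) (nat_lit 152)) (XT.nd (nat_lit 78) (nat_lit 456) (nat_lit 0) (XT.lf (nat_lit 0) (nat_lit 11527234474) (nat_lit 608) (nat_lit 18814779233) (nat_lit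 76) (nat_lit 7290765037) (nat_lit 122) (nat_lit 5) (nat_lit 130) (nat_lit 5) (nat_lit 123) (nat_lit 5) (nat_lit 293) (nat_lit 276) (nat_lit 151)) (XT.lf (nat_lit 0) (nat_lit 9785578844) (nat_lit 456) (nat_lit 8167153845) (nat_lit 532) (nat_lit 20809219901) (nat_lit 116) (nat_lit 5) (nat_lit 122) (nat_lit 5) (nat_lit 123) (nat_lit 5) (nat_lit 294) (nat_lit 276) (nat_lit 150))))) (XT.nd (nat_lit 234) (nat_lit 912) (nat_lit 0) (XT.nd (nat_lit 78) (nat_lit 380) (nat_lit 0) (XT.lf (nat_lit 0) (nat_lit 116487489) (nat_lit 456) (nat_lit 24919630576) (nat_lit 532) (nat_lit 14901377862) (nat_lit 110) (nat_lit 5) (nat_lit 116) (nat_lit 5) (nat_lit 117) (nat_lit 5) (nat_lit 295) (nat_lit 276) (nat_lit 149)) (XT.nd (nat_lit 78) (nat_lit 380) (nat_lit 0) (XT.lf (nat_lit 0) (nat_lit 31179695529) (nat_lit 456) (nat_lit 1668675690) (nat_lit 532) (nat_lit 8312212988) (nat_lit 110) (nat_lit 5) (nat_lit 116)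 (nat_lit 5) (nat_lit 117) (nat_lit 5) (nat_lit 296) (nat_lit 276) (nat_lit 148)) (XT.lf (nat_lit 0) (nat_lit 21547445673) (nat_lit 380) (nat_lit 19924586549) (nat_lit 456) (nat_lit 960179139) (nat_lit 105) (nat_lit 5) (nat_lit 110) (nat_lit 5) (nat_lit 111) (nat_lit 5) (nat_lit 297) (nat_lit 276) (nat_lit 147)))) (XT.nd (nat_lit 78) (nat_lit 380) (nat_lit 0) (XT.lf (nat_lit 0) (nat_lit 6893304282) (nat_lit 532) (nat_lit 32573720439) (nat_lit 76) (nat_lit 4290481081) (nat_lit 98) (nat_lit 5) (nat_lit 105) (nat_lit 5) (nat_lit 99) (nat_lit 5) (nat_lit 298) (nat_lit 276) (nat_lit 146)) (XT.nd (nat_lit 78) (nat_lit 380) (nat_lit 0) (XT.lf (nat_lit 0) (nat_lit 15533342157) (nat_lit 532) (nat_lit 68890555) (nat_lit 76) (nat_lit 29534142226) (nat_lit 98) (nat_lit 5) (nat_lit 105) (nat_lit 5) (nat_lit 99) (nat_lit 5) (nat_lit 299) (nat_lit 276) (nat_lit 145)) (XT.lf (nat_lit 0) (nat_lit 25029009400)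 (nat_lit 456) (nat_lit 11934825858) (nat_lit 76) (nat_lit 9607650422) (nat_lit 93) (nat_lit 5) (nat_lit 99) (nat_lit 5) (nat_lit 94) (nat_lit 5) (nat_lit 300) (nat_lit 276) (nat_lit 144)))))) (XT.nd (nat_lit 390) (nat_lit 1216) (nat_lit 0) (XT.nd (nat_lit 156) (nat_lit 760) (nat_lit 0) (XT.nd (nat_lit 78) (nat_lit 304) (nat_lit 0) (XT.lf (nat_lit 0) (nat_lit 23292373237) (nat_lit 380) (nat_lit 12084888362) (nat_lit 456) (nat_lit 12689762954) (nat_lit 88) (nat_lit 5) (nat_lit 93) (nat_lit 5) (nat_lit 94) (nat_lit 5) (nat_lit 301) (nat_lit 276) (nat_lit 143)) (XT.lf (nat_lit 0) (nat_lit 10969345777) (nat_lit 304) (nat_lit 35633895248) (nat_lit 380) (nat_lit 3023296231) (nat_lit 84) (nat_lit 5) (nat_lit 88) (nat_lit 5) (nat_lit 89) (nat_lit 5) (nat_lit 302) (nat_lit 276) (nat_lit 142))) (XT.nd (nat_lit 78) (nat_lit 684) (nat_lit 0) (XT.lf (nat_lit 0) (nat_lit 7362921102) (nat_lit 380) (nat_lit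 2436283773) (nat_lit 76) (nat_lit 41451506716) (nat_lit 83) (nat_lit 5) (nat_lit 88) (nat_lit 5) (nat_lit 84) (nat_lit 5) (nat_lit 303) (nat_lit 276) (nat_lit 141)) (XT.nd (nat_lit 78) (nat_lit 304) (nat_lit 0) (XT.lf (nat_lit 0) (nat_lit 18721586785) (nat_lit 456) (nat_lit 16847190318) (nat_lit 76) (nat_lit 17370955185) (nat_lit 78) (nat_lit 5) (nat_lit 84) (nat_lit 5) (nat_lit 79) (nat_lit 5) (nat_lit 304) (nat_lit 276) (nat_lit 140)) (XT.lf (nat_lit 0) (nat_lit 22215739758) (nat_lit 304) (nat_lit 8766507340) (nat_lit 380) (nat_lit 23720940384) (nat_lit 74) (nat_lit 5) (nat_lit 78) (nat_lit 5) (nat_lit 79) (nat_lit 5) (nat_lit 305) (nat_lit 276) (nat_lit 139))))) (XT.nd (nat_lit 234) (nat_lit 532) (nat_lit 0) (XT.nd (nat_lit 78) (nat_lit 380) (nat_lit 0) (XT.lf (nat_lit 0) (nat_lit 6977603190) (nat_lit 304) (nat_lit 37303204301) (nat_lit 380) (nat_lit 12261266987) (nat_lit 70) (nat_lit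 5) (nat_lit 74) (nat_lit 5) (nat_lit 75) (nat_lit 5) (nat_lit 306) (nat_lit 276) (nat_lit 138)) (XT.nd (nat_lit 78) (nat_lit 304) (nat_lit 0) (XT.lf (nat_lit 0) (nat_lit 198558778) (nat_lit 380) (nat_lit 9462451593) (nat_lit 76) (nat_lit 48799284819) (nat_lit 69) (nat_lit 5) (nat_lit 74) (nat_lit 5) (nat_lit 70) (nat_lit 5) (nat_lit 307) (nat_lit 276) (nat_lit 137)) (XT.lf (nat_lit 0) (nat_lit 13536092799) (nat_lit 380) (nat_lit 27488258520) (nat_lit 76) (nat_lit 19431189144) (nat_lit 65) (nat_lit 5) (nat_lit 70) (nat_lit 5) (nat_lit 66) (nat_lit 5) (nat_lit 308) (nat_lit 276) (nat_lit 136)))) (XT.nd (nat_lit 78) (nat_lit 228) (nat_lit 0) (XT.lf (nat_lit 0) (nat_lit 15365461137) (nat_lit 304) (nat_lit 12515384829) (nat_lit 380) (nat_lit 34659495997) (nat_lit 61) (nat_lit 5) (nat_lit 65) (nat_lit 5) (nat_lit 66) (nat_lit 5) (nat_lit 309) (nat_lit 276) (nat_lit 135)) (XT.nd (nat_lit 78) (nat_lit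 228) (nat_lit 0) (XT.lf (nat_lit 0) (nat_lit 43392905714) (nat_lit 380) (nat_lit 3959317356) (nat_lit 76) (nat_lit 17363662436) (nat_lit 61) (nat_lit 5) (nat_lit 66) (nat_lit 5) (nat_lit 62) (nat_lit 5) (nat_lit 310) (nat_lit 276) (nat_lit 134)) (XT.lf (nat_lit 0) (nat_lit 42108128209) (nat_lit 228) (nat_lit 18100537307) (nat_lit 304) (nat_lit 6775701641) (nat_lit 58) (nat_lit 5) (nat_lit 61) (nat_lit 5) (nat_lit 62) (nat_lit 5) (nat_lit 311) (nat_lit 276) (nat_lit 133))))))))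
noncomputable def xc109 : XT := (XT.nd (nat_lit 35412) (nat_lit 0) (nat_lit 3040) (XT.nd (nat_lit 858) (nat_lit 380) (nat_lit 0) (XT.nd (nat_lit 390) (nat_lit 912) (nat_lit 0) (XT.nd (nat_lit 156) (nat_lit 532) (nat_lit 0) (XT.nd (nat_lit 78) (nat_lit 0) (nat_lit 0) (XT.lf (nat_lit 0) (nat_lit 8702802762) (nat_lit 304) (nat_lit 47950499370) (nat_lit 76) (nat_lit 12699432184) (nat_lit 54) (nat_lit 5) (nat_lit 58) (nat_lit 5) (nat_lit 55) (nat_lit 5) (nat_lit 312) (nat_lit 276) (nat_lit 132)) (XT.lf (nat_lit 0) (nat_lit 25254876260) (nat_lit 304) (nat_lit 1575133976) (nat_lit 76) (nat_lit 44994307121) (nat_lit 54) (nat_lit 5) (nat_lit 58) (nat_lit 5) (nat_lit 55) (nat_lit 5) (nat_lit 313) (nat_lit 276) (nat_lit 131))) (XT.nd (nat_lit 78) (nat_lit 304) (nat_lit 0) (XT.lf (nat_lit 0) (nat_lit 43141434840) (nat_lit 304) (nat_lit 26400647708) (nat_lit 76) (nat_lit 4862193786) (nat_lit 51) (nat_lit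 5) (nat_lit 55) (nat_lit 5) (nat_lit 52) (nat_lit 5) (nat_lit 314) (nat_lit 276) (nat_lit 130)) (XT.nd (nat_lit 78) (nat_lit 76) (nat_lit 0) (XT.lf (nat_lit 0) (nat_lit 23158531917) (nat_lit 228) (nat_lit 39270960754) (nat_lit 304) (nat_lit 14668528517) (nat_lit 48) (nat_lit 5) (nat_lit 51) (nat_lit 5) (nat_lit 52) (nat_lit 5) (nat_lit 315) (nat_lit 276) (nat_lit 129)) (XT.lf (nat_lit 0) (nat_lit 2973633255) (nat_lit 304) (nat_lit 4203964099) (nat_lit 76) (nat_lit 72739907057) (nat_lit 47) (nat_lit 5) (nat_lit 51) (nat_lit 5) (nat_lit 48) (nat_lit 5) (nat_lit 316) (nat_lit 276) (nat_lit 128))))) (XT.nd (nat_lit 234) (nat_lit 456) (nat_lit 0) (XT.nd (nat_lit 78) (nat_lit 228) (nat_lit 0) (XT.lf (nat_lit 0) (nat_lit 21925229633) (nat_lit 304) (nat_lit 34301293385) (nat_lit 76) (nat_lit 26625163666) (nat_lit 44) (nat_lit 5) (nat_lit 48) (nat_lit 5) (nat_lit 45) (nat_lit 5) (nat_lit 317) (nat_lit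 276) (nat_lit 127)) (XT.nd (nat_lit 78) (nat_lit 0) (nat_lit 0) (XT.lf (nat_lit 0) (nat_lit 18381224400) (nat_lit 228) (nat_lit 23733655584) (nat_lit 304) (nat_lit 43808986435) (nat_lit 41) (nat_lit 5) (nat_lit 44) (nat_lit 5) (nat_lit 45) (nat_lit 5) (nat_lit 318) (nat_lit 276) (nat_lit 126)) (XT.lf (nat_lit 0) (nat_lit 63768126229) (nat_lit 304) (nat_lit 14831290294) (nat_lit 76) (nat_lit 10536617670) (nat_lit 41) (nat_lit 5) (nat_lit 45) (nat_lit 5) (nat_lit 42) (nat_lit 5) (nat_lit 319) (nat_lit 276) (nat_lit 125)))) (XT.nd (nat_lit 78) (nat_lit 304) (nat_lit 0) (XT.lf (nat_lit 0) (nat_lit 41074174671) (nat_lit 152) (nat_lit 46062049081) (nat_lit 228) (nat_lit 5353623270) (nat_lit 39) (nat_lit 5) (nat_lit 41) (nat_lit 5) (nat_lit 42) (nat_lit 5) (nat_lit 320) (nat_lit 276) (nat_lit 124)) (XT.nd (nat_lit 78) (nat_lit 0) (nat_lit 0) (XT.lf (nat_lit 0) (nat_lit 4000726280) (nat_lit 228)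 (nat_lit 11545542300) (nat_lit 304) (nat_lit 80454852585) (nat_lit 35) (nat_lit 5) (nat_lit 38) (nat_lit 5) (nat_lit 39) (nat_lit 5) (nat_lit 321) (nat_lit 276) (nat_lit 123)) (XT.lf (nat_lit 0) (nat_lit 38151300994) (nat_lit 304) (nat_lit 36709689373) (nat_lit 76) (nat_lit 24802254507) (nat_lit 35) (nat_lit 5) (nat_lit 39) (nat_lit 5) (nat_lit 36) (nat_lit 5) (nat_lit 322) (nat_lit 276) (nat_lit 122)))))) (XT.nd (nat_lit 34086) (nat_lit 0) (nat_lit 9956) (XT.nd (nat_lit 156) (nat_lit 228) (nat_lit 0) (XT.nd (nat_lit 78) (nat_lit 0) (nat_lit 0) (XT.lf (nat_lit 0) (nat_lit 21648300104) (nat_lit 152) (nat_lit 40560930580) (nat_lit 228) (nat_lit 41289566674) (nat_lit 33) (nat_lit 5) (nat_lit 35) (nat_lit 5) (nat_lit 36) (nat_lit 5) (nat_lit 323) (nat_lit 276) (nat_lit 121)) (XT.lf (nat_lit 0) (nat_lit 83688248390) (nat_lit 152) (nat_lit 4157784292) (nat_lit 228) (nat_lit 19668817374) (nat_lit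 33) (nat_lit 5) (nat_lit 35) (nat_lit 5) (nat_lit 36) (nat_lit 5) (nat_lit 324) (nat_lit 276) (nat_lit 120))) (XT.nd (nat_lit 33774) (nat_lit 0) (nat_lit 10868) (XT.lf (nat_lit 0) (nat_lit 3666669116) (nat_lit 228) (nat_lit 74247250770) (nat_lit 76) (nat_lit 33796126069) (nat_lit 30) (nat_lit 5) (nat_lit 33) (nat_lit 5) (nat_lit 31) (nat_lit 5) (nat_lit 325) (nat_lit 276) (nat_lit 119)) (XT.nd (nat_lit 78) (nat_lit 0) (nat_lit 0) (XT.lf (nat_lit 0) (nat_lit 11127510477) (nat_lit 1140) (nat_lit 695637369) (nat_lit 1140) (nat_lit 695637369) (nat_lit 173) (nat_lit 3) (nat_lit 188) (nat_lit 3) (nat_lit 188) (nat_lit 5) (nat_lit 277) (nat_lit 277) (nat_lit 166)) (XT.lf (nat_lit 76) (nat_lit 16853009018) (nat_lit 0) (nat_lit 6278214813) (nat_lit 1140) (nat_lit 2522375190) (nat_lit 174) (nat_lit 5) (nat_lit 173) (nat_lit 3) (nat_lit 188) (nat_lit 5) (nat_lit 278) (nat_lit 277) (nat_lit 165)))))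 (XT.nd (nat_lit 234) (nat_lit 988) (nat_lit 0) (XT.nd (nat_lit 78) (nat_lit 0) (nat_lit 76) (XT.lf (nat_lit 76) (nat_lit 9809214067) (nat_lit 0) (nat_lit 14455621464) (nat_lit 1140) (nat_lit 2029205768) (nat_lit 175) (nat_lit 5) (nat_lit 174) (nat_lit 5) (nat_lit 189) (nat_lit 5) (nat_lit 279) (nat_lit 277) (nat_lit 164)) (XT.nd (nat_lit 78) (nat_lit 0) (nat_lit 0) (XT.lf (nat_lit 76) (nat_lit 2512934638) (nat_lit 0) (nat_lit 23147158067) (nat_lit 1140) (nat_lit 1300283294) (nat_lit 176) (nat_lit 5) (nat_lit 175) (nat_lit 5) (nat_lit 190) (nat_lit 5) (nat_lit 280) (nat_lit 277) (nat_lit 163)) (XT.lf (nat_lit 76) (nat_lit 22650554869) (nat_lit 0) (nat_lit 4779493128) (nat_lit 1140) (nat_lit 220849718) (nat_lit 176) (nat_lit 5) (nat_lit 175) (nat_lit 5) (nat_lit 190) (nat_lit 5) (nat_lit 281) (nat_lit 277) (nat_lit 162)))) (XT.nd (nat_lit 78) (nat_lit 0) (nat_lit 76) (XT.lf (nat_lit 0) (nat_lit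 1177934758) (nat_lit 1140) (nat_lit 12801201127) (nat_lit 1216) (nat_lit 14388067834) (nat_lit 161) (nat_lit 5) (nat_lit 176) (nat_lit 5) (nat_lit 177) (nat_lit 5) (nat_lit 282) (nat_lit 277) (nat_lit 161)) (XT.nd (nat_lit 78) (nat_lit 0) (nat_lit 0) (XT.lf (nat_lit 0) (nat_lit 2865456611) (nat_lit 1140) (nat_lit 20914772513) (nat_lit 1216) (nat_lit 5332345479) (nat_lit 162) (nat_lit 5) (nat_lit 177) (nat_lit 5) (nat_lit 178) (nat_lit 5) (nat_lit 283) (nat_lit 277) (nat_lit 160)) (XT.lf (nat_lit 76) (nat_lit 484162808) (nat_lit 0) (nat_lit 4423898798) (nat_lit 1216) (nat_lit 24979046594) (nat_lit 163) (nat_lit 5) (nat_lit 162) (nat_lit 5) (nat_lit 178) (nat_lit 5) (nat_lit 284) (nat_lit 277) (nat_lit 159))))))) (XT.nd (nat_lit 858) (nat_lit 3496) (nat_lit 0) (XT.nd (nat_lit 390) (nat_lit 2660) (nat_lit 0) (XT.nd (nat_lit 156) (nat_lit 912) (nat_lit 0) (XT.nd (nat_lit 78) (nat_lit 0) (nat_lit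 76) (XT.lf (nat_lit 0) (nat_lit 7415298739) (nat_lit 1140) (nat_lit 7464769147) (nat_lit 1216) (nat_lit 15809440181) (nat_lit 163) (nat_lit 5) (nat_lit 178) (nat_lit 5) (nat_lit 179) (nat_lit 5) (nat_lit 285) (nat_lit 277) (nat_lit 158)) (XT.lf (nat_lit 0) (nat_lit 10291053230) (nat_lit 1140) (nat_lit 15751268929) (nat_lit 1216) (nat_lit 5482425055) (nat_lit 164) (nat_lit 5) (nat_lit 179) (nat_lit 5) (nat_lit 180) (nat_lit 5) (nat_lit 286) (nat_lit 277) (nat_lit 157))) (XT.nd (nat_lit 78) (nat_lit 988) (nat_lit 0) (XT.lf (nat_lit 76) (nat_lit 7928164859) (nat_lit 0) (nat_lit 5679345640) (nat_lit 1216) (nat_lit 18785343654) (nat_lit 165) (nat_lit 5) (nat_lit 164) (nat_lit 5) (nat_lit 180) (nat_lit 5) (nat_lit 287) (nat_lit 277) (nat_lit 156)) (XT.nd (nat_lit 78) (nat_lit 1064) (nat_lit 0) (XT.lf (nat_lit 0) (nat_lit 17397684041) (nat_lit 1140) (nat_lit 337159608) (nat_lit 76) (nat_lit 15560298640)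 (nat_lit 165) (nat_lit 5) (nat_lit 180) (nat_lit 5) (nat_lit 166) (nat_lit 5) (nat_lit 288) (nat_lit 277) (nat_lit 155)) (XT.lf (nat_lit 0) (nat_lit 21708788447) (nat_lit 1140) (nat_lit 8839724512) (nat_lit 76) (nat_lit 3684101258) (nat_lit 151) (nat_lit 5) (nat_lit 166) (nat_lit 5) (nat_lit 152) (nat_lit 5) (nat_lit 289) (nat_lit 277) (nat_lit 154))))) (XT.nd (nat_lit 234) (nat_lit 1520) (nat_lit 0) (XT.nd (nat_lit 78) (nat_lit 608) (nat_lit 0) (XT.lf (nat_lit 0) (nat_lit 17353616161) (nat_lit 532) (nat_lit 9224947486) (nat_lit 608) (nat_lit 8628114105) (nat_lit 144) (nat_lit 5) (nat_lit 151) (nat_lit 5) (nat_lit 152) (nat_lit 5) (nat_lit 290) (nat_lit 277) (nat_lit 153)) (XT.nd (nat_lit 78) (nat_lit 76) (nat_lit 0) (XT.lf (nat_lit 0) (nat_lit 8854319832) (nat_lit 532) (nat_lit 23135109940) (nat_lit 608) (nat_lit 4231097556) (nat_lit 137) (nat_lit 5) (nat_lit 144) (nat_lit 5) (nat_lit 145)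 (nat_lit 5) (nat_lit 291) (nat_lit 277) (nat_lit 152)) (XT.lf (nat_lit 0) (nat_lit 651159725) (nat_lit 608) (nat_lit 113654607) (nat_lit 76) (nat_lit 36511966381) (nat_lit 136) (nat_lit 5) (nat_lit 144) (nat_lit 5) (nat_lit 137) (nat_lit 5) (nat_lit 292) (nat_lit 277) (nat_lit 151)))) (XT.nd (nat_lit 78) (nat_lit 988) (nat_lit 0) (XT.lf (nat_lit 0) (nat_lit 6185899571) (nat_lit 608) (nat_lit 9578235942) (nat_lit 76) (nat_lit 22605587858) (nat_lit 129) (nat_lit 5) (nat_lit 137) (nat_lit 5) (nat_lit 130) (nat_lit 5) (nat_lit 293) (nat_lit 277) (nat_lit 150)) (XT.nd (nat_lit 78) (nat_lit 456) (nat_lit 0) (XT.lf (nat_lit 0) (nat_lit 12268351198) (nat_lit 608) (nat_lit 19582279314) (nat_lit 76) (nat_lit 7658562574) (nat_lit 122) (nat_lit 5) (nat_lit 130) (nat_lit 5) (nat_lit 123) (nat_lit 5) (nat_lit 294) (nat_lit 277) (nat_lit 149)) (XT.lf (nat_lit 0) (nat_lit 10443130809) (nat_lit 456) (nat_lit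 8565765582) (nat_lit 532) (nat_lit 21686129498) (nat_lit 116) (nat_lit 5) (nat_lit 122) (nat_lit 5) (nat_lit 123) (nat_lit 5) (nat_lit 295) (nat_lit 277) (nat_lit 148)))))) (XT.nd (nat_lit 468) (nat_lit 1748) (nat_lit 0) (XT.nd (nat_lit 234) (nat_lit 912) (nat_lit 0) (XT.nd (nat_lit 78) (nat_lit 380) (nat_lit 0) (XT.lf (nat_lit 0) (nat_lit 290550683) (nat_lit 456) (nat_lit 26150057882) (nat_lit 532) (nat_lit 15488925889) (nat_lit 110) (nat_lit 5) (nat_lit 116) (nat_lit 5) (nat_lit 117) (nat_lit 5) (nat_lit 296) (nat_lit 277) (nat_lit 147)) (XT.nd (nat_lit 78) (nat_lit 380) (nat_lit 0) (XT.lf (nat_lit 0) (nat_lit 32898907753) (nat_lit 456) (nat_lit 1737295929) (nat_lit 532) (nat_lit 8577803764) (nat_lit 110) (nat_lit 5) (nat_lit 116) (nat_lit 5) (nat_lit 117) (nat_lit 5) (nat_lit 297) (nat_lit 277) (nat_lit 146)) (XT.lf (nat_lit 0) (nat_lit 22784788143) (nat_lit 380) (nat_lit 20901008468)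 (nat_lit 456) (nat_lit 863588478) (nat_lit 105) (nat_lit 5) (nat_lit 110) (nat_lit 5) (nat_lit 111) (nat_lit 5) (nat_lit 298) (nat_lit 277) (nat_lit 145)))) (XT.nd (nat_lit 78) (nat_lit 380) (nat_lit 0) (XT.lf (nat_lit 0) (nat_lit 7374727735) (nat_lit 532) (nat_lit 34039960839) (nat_lit 76) (nat_lit 4526375294) (nat_lit 98) (nat_lit 5) (nat_lit 105) (nat_lit 5) (nat_lit 99) (nat_lit 5) (nat_lit 299) (nat_lit 277) (nat_lit 144)) (XT.nd (nat_lit 78) (nat_lit 0) (nat_lit 0) (XT.lf (nat_lit 0) (nat_lit 84014457) (nat_lit 380) (nat_lit 16357048348) (nat_lit 456) (nat_lit 30947995010) (nat_lit 93) (nat_lit 5) (nat_lit 98) (nat_lit 5) (nat_lit 99) (nat_lit 5) (nat_lit 300) (nat_lit 277) (nat_lit 143)) (XT.lf (nat_lit 0) (nat_lit 26406186432) (nat_lit 456) (nat_lit 12377570852) (nat_lit 76) (nat_lit 10112336346) (nat_lit 93) (nat_lit 5) (nat_lit 99) (nat_lit 5) (nat_lit 94) (nat_lit 5) (nat_lit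 301) (nat_lit 277) (nat_lit 142))))) (XT.nd (nat_lit 234) (nat_lit 988) (nat_lit 0) (XT.nd (nat_lit 78) (nat_lit 380) (nat_lit 0) (XT.lf (nat_lit 0) (nat_lit 24606573925) (nat_lit 380) (nat_lit 12660728211) (nat_lit 456) (nat_lit 13199253048) (nat_lit 88) (nat_lit 5) (nat_lit 93) (nat_lit 5) (nat_lit 94) (nat_lit 5) (nat_lit 302) (nat_lit 277) (nat_lit 141)) (XT.nd (nat_lit 78) (nat_lit 76) (nat_lit 0) (XT.lf (nat_lit 0) (nat_lit 11666553217) (nat_lit 304) (nat_lit 37383946783) (nat_lit 380) (nat_lit 3053674761) (nat_lit 84) (nat_lit 5) (nat_lit 88) (nat_lit 5) (nat_lit 89) (nat_lit 5) (nat_lit 303) (nat_lit 277) (nat_lit 140)) (XT.lf (nat_lit 0) (nat_lit 7843856972) (nat_lit 380) (nat_lit 2414032784) (nat_lit 76) (nat_lit 43551810567) (nat_lit 83) (nat_lit 5) (nat_lit 88) (nat_lit 5) (nat_lit 84) (nat_lit 5) (nat_lit 304) (nat_lit 277) (nat_lit 139)))) (XT.nd (nat_lit 78) (nat_lit 608)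 (nat_lit 0) (XT.lf (nat_lit 0) (nat_lit 19766729782) (nat_lit 456) (nat_lit 17546495590) (nat_lit 76) (nat_lit 18270066236) (nat_lit 78) (nat_lit 5) (nat_lit 84) (nat_lit 5) (nat_lit 79) (nat_lit 5) (nat_lit 305) (nat_lit 277) (nat_lit 138)) (XT.nd (nat_lit 78) (nat_lit 304) (nat_lit 0) (XT.lf (nat_lit 0) (nat_lit 23465480369) (nat_lit 304) (nat_lit 9171084943) (nat_lit 380) (nat_lit 24798477385) (nat_lit 74) (nat_lit 5) (nat_lit 78) (nat_lit 5) (nat_lit 79) (nat_lit 5) (nat_lit 306) (nat_lit 277) (nat_lit 137)) (XT.lf (nat_lit 0) (nat_lit 7464348237) (nat_lit 304) (nat_lit 39132329882) (nat_lit 380) (nat_lit 12769304239) (nat_lit 70) (nat_lit 5) (nat_lit 74) (nat_lit 5) (nat_lit 75) (nat_lit 5) (nat_lit 307) (nat_lit 277) (nat_lit 136))))))))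
noncomputable def xc110 : XT := (XT.nd (nat_lit 35568) (nat_lit 0) (nat_lit 3876) (XT.nd (nat_lit 858) (nat_lit 836) (nat_lit 0) (XT.nd (nat_lit 390) (nat_lit 1064) (nat_lit 0) (XT.nd (nat_lit 156) (nat_lit 532) (nat_lit 0) (XT.nd (nat_lit 78) (nat_lit 304) (nat_lit 0) (XT.lf (nat_lit 0) (nat_lit 306559727) (nat_lit 380) (nat_lit 9802192118) (nat_lit 76) (nat_lit 51271485597) (nat_lit 69) (nat_lit 5) (nat_lit 74) (nat_lit 5) (nat_lit 70) (nat_lit 5) (nat_lit 308) (nat_lit 277) (nat_lit 135)) (XT.lf (nat_lit 0) (nat_lit 14307881284) (nat_lit 380) (nat_lit 28730484782) (nat_lit 76) (nat_lit 20436977794) (nat_lit 65) (nat_lit 5) (nat_lit 70) (nat_lit 5) (nat_lit 66) (nat_lit 5) (nat_lit 309) (nat_lit 277) (nat_lit 134))) (XT.nd (nat_lit 78) (nat_lit 228) (nat_lit 0) (XT.lf (nat_lit 0) (nat_lit 16262131753) (nat_lit 304) (nat_lit 13104451551) (nat_lit 380) (nat_lit 36297906704) (nat_lit 61)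 (nat_lit 5) (nat_lit 65) (nat_lit 5) (nat_lit 66) (nat_lit 5) (nat_lit 310) (nat_lit 277) (nat_lit 133)) (XT.nd (nat_lit 78) (nat_lit 228) (nat_lit 0) (XT.lf (nat_lit 0) (nat_lit 45650215617) (nat_lit 380) (nat_lit 4032603409) (nat_lit 76) (nat_lit 18266118245) (nat_lit 61) (nat_lit 5) (nat_lit 66) (nat_lit 5) (nat_lit 62) (nat_lit 5) (nat_lit 311) (nat_lit 277) (nat_lit 132)) (XT.lf (nat_lit 0) (nat_lit 44334640512) (nat_lit 228) (nat_lit 18969112535) (nat_lit 304) (nat_lit 7027185628) (nat_lit 58) (nat_lit 5) (nat_lit 61) (nat_lit 5) (nat_lit 62) (nat_lit 5) (nat_lit 312) (nat_lit 277) (nat_lit 131))))) (XT.nd (nat_lit 234) (nat_lit 532) (nat_lit 0) (XT.nd (nat_lit 78) (nat_lit 228) (nat_lit 0) (XT.lf (nat_lit 0) (nat_lit 9220965001) (nat_lit 304) (nat_lit 50226407870) (nat_lit 76) (nat_lit 13370408365) (nat_lit 54) (nat_lit 5) (nat_lit 58) (nat_lit 5) (nat_lit 55) (nat_lit 5) (nat_lit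 313) (nat_lit 277) (nat_lit 130)) (XT.nd (nat_lit 78) (nat_lit 228) (nat_lit 0) (XT.lf (nat_lit 0) (nat_lit 26596688741) (nat_lit 304) (nat_lit 1538065467) (nat_lit 76) (nat_lit 47278312546) (nat_lit 54) (nat_lit 5) (nat_lit 58) (nat_lit 5) (nat_lit 55) (nat_lit 5) (nat_lit 314) (nat_lit 277) (nat_lit 129)) (XT.lf (nat_lit 0) (nat_lit 45375238752) (nat_lit 304) (nat_lit 27606140735) (nat_lit 76) (nat_lit 5140718783) (nat_lit 51) (nat_lit 5) (nat_lit 55) (nat_lit 5) (nat_lit 52) (nat_lit 5) (nat_lit 315) (nat_lit 277) (nat_lit 128)))) (XT.nd (nat_lit 78) (nat_lit 304) (nat_lit 0) (XT.lf (nat_lit 0) (nat_lit 24427714624) (nat_lit 228) (nat_lit 41197400400) (nat_lit 304) (nat_lit 15325497158) (nat_lit 48) (nat_lit 5) (nat_lit 51) (nat_lit 5) (nat_lit 52) (nat_lit 5) (nat_lit 316) (nat_lit 277) (nat_lit 127)) (XT.nd (nat_lit 78) (nat_lit 228) (nat_lit 0) (XT.lf (nat_lit 0) (nat_lit 3193710935)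 (nat_lit 304) (nat_lit 4306704002) (nat_lit 76) (nat_lit 76410743633) (nat_lit 47) (nat_lit 5) (nat_lit 51) (nat_lit 5) (nat_lit 48) (nat_lit 5) (nat_lit 317) (nat_lit 277) (nat_lit 126)) (XT.lf (nat_lit 0) (nat_lit 23090830746) (nat_lit 304) (nat_lit 35910174704) (nat_lit 76) (nat_lit 27991109967) (nat_lit 44) (nat_lit 5) (nat_lit 48) (nat_lit 5) (nat_lit 45) (nat_lit 5) (nat_lit 318) (nat_lit 277) (nat_lit 125)))))) (XT.nd (nat_lit 390) (nat_lit 152) (nat_lit 0) (XT.nd (nat_lit 156) (nat_lit 456) (nat_lit 0) (XT.nd (nat_lit 78) (nat_lit 0) (nat_lit 0) (XT.lf (nat_lit 0) (nat_lit 19403425245) (nat_lit 228) (nat_lit 24884227924) (nat_lit 304) (nat_lit 45930323876) (nat_lit 41) (nat_lit 5) (nat_lit 44) (nat_lit 5) (nat_lit 45) (nat_lit 5) (nat_lit 319) (nat_lit 277) (nat_lit 124)) (XT.lf (nat_lit 0) (nat_lit 67020700447) (nat_lit 304) (nat_lit 15472973661) (nat_lit 76) (nat_lit 11097168358)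 (nat_lit 41) (nat_lit 5) (nat_lit 45) (nat_lit 5) (nat_lit 42) (nat_lit 5) (nat_lit 320) (nat_lit 277) (nat_lit 123))) (XT.nd (nat_lit 78) (nat_lit 304) (nat_lit 0) (XT.lf (nat_lit 0) (nat_lit 43224901480) (nat_lit 152) (nat_lit 48330178349) (nat_lit 228) (nat_lit 5557333055) (nat_lit 39) (nat_lit 5) (nat_lit 41) (nat_lit 5) (nat_lit 42) (nat_lit 5) (nat_lit 321) (nat_lit 277) (nat_lit 122)) (XT.nd (nat_lit 78) (nat_lit 0) (nat_lit 0) (XT.lf (nat_lit 0) (nat_lit 4296273628) (nat_lit 228) (nat_lit 12087962746) (nat_lit 304) (nat_lit 84415060986) (nat_lit 35) (nat_lit 5) (nat_lit 38) (nat_lit 5) (nat_lit 39) (nat_lit 5) (nat_lit 322) (nat_lit 277) (nat_lit 121)) (XT.lf (nat_lit 0) (nat_lit 40116951213) (nat_lit 304) (nat_lit 38452739714) (nat_lit 76) (nat_lit 26074916271) (nat_lit 35) (nat_lit 5) (nat_lit 39) (nat_lit 5) (nat_lit 36) (nat_lit 5) (nat_lit 323) (nat_lit 277) (nat_lit 120)))))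 (XT.nd (nat_lit 34086) (nat_lit 0) (nat_lit 9652) (XT.nd (nat_lit 33930) (nat_lit 0) (nat_lit 10640) (XT.lf (nat_lit 0) (nat_lit 22820499632) (nat_lit 152) (nat_lit 42555374859) (nat_lit 228) (nat_lit 43296122633) (nat_lit 33) (nat_lit 5) (nat_lit 35) (nat_lit 5) (nat_lit 36) (nat_lit 5) (nat_lit 324) (nat_lit 277) (nat_lit 119)) (XT.nd (nat_lit 78) (nat_lit 0) (nat_lit 0) (XT.lf (nat_lit 0) (nat_lit 11839247816) (nat_lit 1140) (nat_lit 650252443) (nat_lit 1140) (nat_lit 650252443) (nat_lit 173) (nat_lit 3) (nat_lit 188) (nat_lit 3) (nat_lit 188) (nat_lit 5) (nat_lit 278) (nat_lit 278) (nat_lit 164)) (XT.lf (nat_lit 76) (nat_lit 17851397127) (nat_lit 0) (nat_lit 6733812207) (nat_lit 1140) (nat_lit 2341554682) (nat_lit 174) (nat_lit 5) (nat_lit 173) (nat_lit 3) (nat_lit 188) (nat_lit 5) (nat_lit 279) (nat_lit 278) (nat_lit 163)))) (XT.nd (nat_lit 78) (nat_lit 1064) (nat_lit 0) (XT.lf (nat_lit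 76) (nat_lit 10461513389) (nat_lit 0) (nat_lit 15300083737) (nat_lit 1140) (nat_lit 1838076618) (nat_lit 175) (nat_lit 5) (nat_lit 174) (nat_lit 5) (nat_lit 189) (nat_lit 5) (nat_lit 280) (nat_lit 278) (nat_lit 162)) (XT.nd (nat_lit 78) (nat_lit 1140) (nat_lit 0) (XT.lf (nat_lit 76) (nat_lit 2805726704) (nat_lit 0) (nat_lit 24407882240) (nat_lit 1140) (nat_lit 1086133341) (nat_lit 176) (nat_lit 5) (nat_lit 175) (nat_lit 5) (nat_lit 190) (nat_lit 5) (nat_lit 281) (nat_lit 278) (nat_lit 161)) (XT.lf (nat_lit 0) (nat_lit 33315343) (nat_lit 1140) (nat_lit 5083260087) (nat_lit 1216) (nat_lit 23908616882) (nat_lit 160) (nat_lit 5) (nat_lit 175) (nat_lit 5) (nat_lit 176) (nat_lit 5) (nat_lit 282) (nat_lit 278) (nat_lit 160))))))) (XT.nd (nat_lit 858) (nat_lit 3420) (nat_lit 0) (XT.nd (nat_lit 390) (nat_lit 2432) (nat_lit 0) (XT.nd (nat_lit 156) (nat_lit 0) (nat_lit 76) (XT.nd (nat_lit 78) (nat_lit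 0) (nat_lit 76) (XT.lf (nat_lit 0) (nat_lit 1485778047) (nat_lit 1140) (nat_lit 13272287170) (nat_lit 1216) (nat_lit 15019557255) (nat_lit 161) (nat_lit 5) (nat_lit 176) (nat_lit 5) (nat_lit 177) (nat_lit 5) (nat_lit 283) (nat_lit 278) (nat_lit 159)) (XT.lf (nat_lit 0) (nat_lit 3246682600) (nat_lit 1140) (nat_lit 21788053614) (nat_lit 1216) (nat_lit 5525878014) (nat_lit 162) (nat_lit 5) (nat_lit 177) (nat_lit 5) (nat_lit 178) (nat_lit 5) (nat_lit 284) (nat_lit 278) (nat_lit 158))) (XT.nd (nat_lit 78) (nat_lit 0) (nat_lit 76) (XT.lf (nat_lit 76) (nat_lit 675885012) (nat_lit 0) (nat_lit 4705811978) (nat_lit 1216) (nat_lit 25992490594) (nat_lit 163) (nat_lit 5) (nat_lit 162) (nat_lit 5) (nat_lit 178) (nat_lit 5) (nat_lit 285) (nat_lit 278) (nat_lit 157)) (XT.nd (nat_lit 78) (nat_lit 0) (nat_lit 76) (XT.lf (nat_lit 0) (nat_lit 8002871908) (nat_lit 1140) (nat_lit 7670984985) (nat_lit 1216) (nat_lit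 16543213706) (nat_lit 163) (nat_lit 5) (nat_lit 178) (nat_lit 5) (nat_lit 179) (nat_lit 5) (nat_lit 286) (nat_lit 278) (nat_lit 156)) (XT.lf (nat_lit 0) (nat_lit 11013209083) (nat_lit 1140) (nat_lit 16369526613) (nat_lit 1216) (nat_lit 5711631616) (nat_lit 164) (nat_lit 5) (nat_lit 179) (nat_lit 5) (nat_lit 180) (nat_lit 5) (nat_lit 287) (nat_lit 278) (nat_lit 155))))) (XT.nd (nat_lit 234) (nat_lit 1672) (nat_lit 0) (XT.nd (nat_lit 78) (nat_lit 988) (nat_lit 0) (XT.lf (nat_lit 76) (nat_lit 8489025749) (nat_lit 0) (nat_lit 5998158420) (nat_lit 1216) (nat_lit 19518963112) (nat_lit 165) (nat_lit 5) (nat_lit 164) (nat_lit 5) (nat_lit 180) (nat_lit 5) (nat_lit 288) (nat_lit 278) (nat_lit 154)) (XT.nd (nat_lit 78) (nat_lit 1064) (nat_lit 0) (XT.lf (nat_lit 0) (nat_lit 18457056994) (nat_lit 1140) (nat_lit 191029795) (nat_lit 76) (nat_lit 16305774966) (nat_lit 165) (nat_lit 5) (nat_lit 180) (nat_lit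 5) (nat_lit 166) (nat_lit 5) (nat_lit 289) (nat_lit 278) (nat_lit 153)) (XT.lf (nat_lit 0) (nat_lit 22975987629) (nat_lit 1140) (nat_lit 9117371615) (nat_lit 76) (nat_lit 3845096714) (nat_lit 151) (nat_lit 5) (nat_lit 166) (nat_lit 5) (nat_lit 152) (nat_lit 5) (nat_lit 290) (nat_lit 278) (nat_lit 152)))) (XT.nd (nat_lit 78) (nat_lit 1140) (nat_lit 0) (XT.lf (nat_lit 0) (nat_lit 18380925343) (nat_lit 532) (nat_lit 9701205464) (nat_lit 608) (nat_lit 8879321493) (nat_lit 144) (nat_lit 5) (nat_lit 151) (nat_lit 5) (nat_lit 152) (nat_lit 5) (nat_lit 291) (nat_lit 278) (nat_lit 151)) (XT.nd (nat_lit 78) (nat_lit 608) (nat_lit 0) (XT.lf (nat_lit 0) (nat_lit 9457628619) (nat_lit 532) (nat_lit 24299001775) (nat_lit 608) (nat_lit 4269586504) (nat_lit 137) (nat_lit 5) (nat_lit 144) (nat_lit 5) (nat_lit 145) (nat_lit 5) (nat_lit 292) (nat_lit 278) (nat_lit 150)) (XT.lf (nat_lit 0) (nat_lit 37844939)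 (nat_lit 532) (nat_lit 807844931) (nat_lit 608) (nat_lit 38289788769) (nat_lit 129) (nat_lit 5) (nat_lit 136) (nat_lit 5) (nat_lit 137) (nat_lit 5) (nat_lit 293) (nat_lit 278) (nat_lit 149)))))) (XT.nd (nat_lit 390) (nat_lit 1976) (nat_lit 0) (XT.nd (nat_lit 156) (nat_lit 912) (nat_lit 0) (XT.nd (nat_lit 78) (nat_lit 532) (nat_lit 0) (XT.lf (nat_lit 0) (nat_lit 6650535192) (nat_lit 608) (nat_lit 9900225842) (nat_lit 76) (nat_lit 23732519768) (nat_lit 129) (nat_lit 5) (nat_lit 137) (nat_lit 5) (nat_lit 130) (nat_lit 5) (nat_lit 294) (nat_lit 278) (nat_lit 148)) (XT.lf (nat_lit 0) (nat_lit 13031206401) (nat_lit 608) (nat_lit 20404260509) (nat_lit 76) (nat_lit 8044446970) (nat_lit 122) (nat_lit 5) (nat_lit 130) (nat_lit 5) (nat_lit 123) (nat_lit 5) (nat_lit 295) (nat_lit 278) (nat_lit 147))) (XT.nd (nat_lit 78) (nat_lit 456) (nat_lit 0) (XT.lf (nat_lit 0) (nat_lit 11117915941) (nat_lit 456)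 (nat_lit 8985213994) (nat_lit 532) (nat_lit 22622090033) (nat_lit 116) (nat_lit 5) (nat_lit 122) (nat_lit 5) (nat_lit 123) (nat_lit 5) (nat_lit 296) (nat_lit 278) (nat_lit 146)) (XT.nd (nat_lit 78) (nat_lit 0) (nat_lit 0) (XT.lf (nat_lit 0) (nat_lit 457675787) (nat_lit 456) (nat_lit 27443452638) (nat_lit 532) (nat_lit 16120496113) (nat_lit 110) (nat_lit 5) (nat_lit 116) (nat_lit 5) (nat_lit 117) (nat_lit 5) (nat_lit 297) (nat_lit 278) (nat_lit 145)) (XT.lf (nat_lit 0) (nat_lit 34689184159) (nat_lit 456) (nat_lit 1810724403) (nat_lit 532) (nat_lit 8870621505) (nat_lit 110) (nat_lit 5) (nat_lit 116) (nat_lit 5) (nat_lit 117) (nat_lit 5) (nat_lit 298) (nat_lit 278) (nat_lit 144))))) (XT.nd (nat_lit 234) (nat_lit 684) (nat_lit 0) (XT.nd (nat_lit 78) (nat_lit 912) (nat_lit 0) (XT.lf (nat_lit 0) (nat_lit 24069125225) (nat_lit 380) (nat_lit 21928092987) (nat_lit 456) (nat_lit 775611787) (nat_lit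 105) (nat_lit 5) (nat_lit 110) (nat_lit 5) (nat_lit 111) (nat_lit 5) (nat_lit 299) (nat_lit 278) (nat_lit 143)) (XT.nd (nat_lit 78) (nat_lit 380) (nat_lit 0) (XT.lf (nat_lit 0) (nat_lit 7867507877) (nat_lit 532) (nat_lit 35594615913) (nat_lit 76) (nat_lit 4772077423) (nat_lit 98) (nat_lit 5) (nat_lit 105) (nat_lit 5) (nat_lit 99) (nat_lit 5) (nat_lit 300) (nat_lit 278) (nat_lit 142)) (XT.lf (nat_lit 0) (nat_lit 231334592) (nat_lit 380) (nat_lit 17151294014) (nat_lit 456) (nat_lit 32372111448) (nat_lit 93) (nat_lit 5) (nat_lit 98) (nat_lit 5) (nat_lit 99) (nat_lit 5) (nat_lit 301) (nat_lit 278) (nat_lit 141)))) (XT.nd (nat_lit 78) (nat_lit 684) (nat_lit 0) (XT.lf (nat_lit 0) (nat_lit 27840533452) (nat_lit 456) (nat_lit 12856770213) (nat_lit 76) (nat_lit 10639997067) (nat_lit 93) (nat_lit 5) (nat_lit 99) (nat_lit 5) (nat_lit 94) (nat_lit 5) (nat_lit 302) (nat_lit 278) (nat_lit 140)) (XT.nd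 (nat_lit 78) (nat_lit 304) (nat_lit 0) (XT.lf (nat_lit 0) (nat_lit 25972577927) (nat_lit 380) (nat_lit 13268000841) (nat_lit 456) (nat_lit 13745838781) (nat_lit 88) (nat_lit 5) (nat_lit 93) (nat_lit 5) (nat_lit 94) (nat_lit 5) (nat_lit 303) (nat_lit 278) (nat_lit 139)) (XT.lf (nat_lit 0) (nat_lit 12384792580) (nat_lit 304) (nat_lit 39224442782) (nat_lit 380) (nat_lit 3096801782) (nat_lit 84) (nat_lit 5) (nat_lit 88) (nat_lit 5) (nat_lit 89) (nat_lit 5) (nat_lit 304) (nat_lit 278) (nat_lit 138))))))))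
noncomputable def xc111 : XT := (XT.nd (nat_lit 35646) (nat_lit 0) (nat_lit 4408) (XT.nd (nat_lit 858) (nat_lit 1444) (nat_lit 0) (XT.nd (nat_lit 390) (nat_lit 1140) (nat_lit 0) (XT.nd (nat_lit 156) (nat_lit 684) (nat_lit 0) (XT.nd (nat_lit 78) (nat_lit 380) (nat_lit 0) (XT.lf (nat_lit 0) (nat_lit 8338353507) (nat_lit 380) (nat_lit 2404063059) (nat_lit 76) (nat_lit 45754551677) (nat_lit 83) (nat_lit 5) (nat_lit 88) (nat_lit 5) (nat_lit 84) (nat_lit 5) (nat_lit 305) (nat_lit 278) (nat_lit 137)) (XT.lf (nat_lit 0) (nat_lit 20853990224) (nat_lit 456) (nat_lit 18294065954) (nat_lit 76) (nat_lit 19211291354) (nat_lit 78) (nat_lit 5) (nat_lit 84) (nat_lit 5) (nat_lit 79) (nat_lit 5) (nat_lit 306) (nat_lit 278) (nat_lit 136))) (XT.nd (nat_lit 78) (nat_lit 380) (nat_lit 0) (XT.lf (nat_lit 0) (nat_lit 24764789419) (nat_lit 304) (nat_lit 9599028972) (nat_lit 380) (nat_lit 25939979470) (nat_lit 74)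 (nat_lit 5) (nat_lit 78) (nat_lit 5) (nat_lit 79) (nat_lit 5) (nat_lit 307) (nat_lit 278) (nat_lit 135)) (XT.nd (nat_lit 78) (nat_lit 76) (nat_lit 0) (XT.lf (nat_lit 0) (nat_lit 7962613165) (nat_lit 304) (nat_lit 41056261901) (nat_lit 380) (nat_lit 13312507683) (nat_lit 70) (nat_lit 5) (nat_lit 74) (nat_lit 5) (nat_lit 75) (nat_lit 5) (nat_lit 308) (nat_lit 278) (nat_lit 134)) (XT.lf (nat_lit 0) (nat_lit 410842825) (nat_lit 380) (nat_lit 10171320269) (nat_lit 76) (nat_lit 53864299366) (nat_lit 69) (nat_lit 5) (nat_lit 74) (nat_lit 5) (nat_lit 70) (nat_lit 5) (nat_lit 309) (nat_lit 278) (nat_lit 133))))) (XT.nd (nat_lit 234) (nat_lit 532) (nat_lit 0) (XT.nd (nat_lit 78) (nat_lit 304) (nat_lit 0) (XT.lf (nat_lit 0) (nat_lit 15109428495) (nat_lit 380) (nat_lit 30047111821) (nat_lit 76) (nat_lit 21489873570) (nat_lit 65) (nat_lit 5) (nat_lit 70) (nat_lit 5) (nat_lit 66) (nat_lit 5) (nat_lit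 310) (nat_lit 278) (nat_lit 132)) (XT.nd (nat_lit 78) (nat_lit 0) (nat_lit 0) (XT.lf (nat_lit 0) (nat_lit 17191698712) (nat_lit 304) (nat_lit 13726383862) (nat_lit 380) (nat_lit 38027029620) (nat_lit 61) (nat_lit 5) (nat_lit 65) (nat_lit 5) (nat_lit 66) (nat_lit 5) (nat_lit 311) (nat_lit 278) (nat_lit 131)) (XT.lf (nat_lit 0) (nat_lit 48012240789) (nat_lit 380) (nat_lit 4121145313) (nat_lit 76) (nat_lit 19210510494) (nat_lit 61) (nat_lit 5) (nat_lit 66) (nat_lit 5) (nat_lit 62) (nat_lit 5) (nat_lit 312) (nat_lit 278) (nat_lit 130)))) (XT.nd (nat_lit 78) (nat_lit 304) (nat_lit 0) (XT.lf (nat_lit 0) (nat_lit 46661219152) (nat_lit 228) (nat_lit 19884505452) (nat_lit 304) (nat_lit 7299360243) (nat_lit 58) (nat_lit 5) (nat_lit 61) (nat_lit 5) (nat_lit 62) (nat_lit 5) (nat_lit 313) (nat_lit 278) (nat_lit 129)) (XT.nd (nat_lit 78) (nat_lit 0) (nat_lit 0) (XT.lf (nat_lit 0) (nat_lit 9757316744)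 (nat_lit 304) (nat_lit 52627418541) (nat_lit 76) (nat_lit 14071585992) (nat_lit 54) (nat_lit 5) (nat_lit 58) (nat_lit 5) (nat_lit 55) (nat_lit 5) (nat_lit 314) (nat_lit 278) (nat_lit 128)) (XT.lf (nat_lit 0) (nat_lit 27998240790) (nat_lit 304) (nat_lit 1509911862) (nat_lit 76) (nat_lit 49673330277) (nat_lit 54) (nat_lit 5) (nat_lit 58) (nat_lit 5) (nat_lit 55) (nat_lit 5) (nat_lit 315) (nat_lit 278) (nat_lit 127)))))) (XT.nd (nat_lit 390) (nat_lit 456) (nat_lit 0) (XT.nd (nat_lit 156) (nat_lit 532) (nat_lit 0) (XT.nd (nat_lit 78) (nat_lit 228) (nat_lit 0) (XT.lf (nat_lit 0) (nat_lit 47713599029) (nat_lit 304) (nat_lit 28882557197) (nat_lit 76) (nat_lit 5429877450) (nat_lit 51) (nat_lit 5) (nat_lit 55) (nat_lit 5) (nat_lit 52) (nat_lit 5) (nat_lit 316) (nat_lit 278) (nat_lit 126)) (XT.lf (nat_lit 0) (nat_lit 25750012928) (nat_lit 228) (nat_lit 43223612014) (nat_lit 304) (nat_lit 16022422551)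 (nat_lit 48) (nat_lit 5) (nat_lit 51) (nat_lit 5) (nat_lit 52) (nat_lit 5) (nat_lit 317) (nat_lit 278) (nat_lit 125))) (XT.nd (nat_lit 78) (nat_lit 456) (nat_lit 0) (XT.lf (nat_lit 0) (nat_lit 3418154774) (nat_lit 304) (nat_lit 4424571353) (nat_lit 76) (nat_lit 80261975803) (nat_lit 47) (nat_lit 5) (nat_lit 51) (nat_lit 5) (nat_lit 48) (nat_lit 5) (nat_lit 318) (nat_lit 278) (nat_lit 124)) (XT.nd (nat_lit 78) (nat_lit 228) (nat_lit 0) (XT.lf (nat_lit 0) (nat_lit 24308265374) (nat_lit 304) (nat_lit 37609372011) (nat_lit 76) (nat_lit 29422128612) (nat_lit 44) (nat_lit 5) (nat_lit 48) (nat_lit 5) (nat_lit 45) (nat_lit 5) (nat_lit 319) (nat_lit 278) (nat_lit 123)) (XT.lf (nat_lit 0) (nat_lit 20467147189) (nat_lit 228) (nat_lit 26095686087) (nat_lit 304) (nat_lit 48164153556) (nat_lit 41) (nat_lit 5) (nat_lit 44) (nat_lit 5) (nat_lit 45) (nat_lit 5) (nat_lit 320) (nat_lit 278) (nat_lit 122)))))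 (XT.nd (nat_lit 234) (nat_lit 0) (nat_lit 0) (XT.nd (nat_lit 78) (nat_lit 456) (nat_lit 0) (XT.lf (nat_lit 0) (nat_lit 70429937652) (nat_lit 304) (nat_lit 16156027198) (nat_lit 76) (nat_lit 11682611633) (nat_lit 41) (nat_lit 5) (nat_lit 45) (nat_lit 5) (nat_lit 42) (nat_lit 5) (nat_lit 321) (nat_lit 278) (nat_lit 121)) (XT.nd (nat_lit 78) (nat_lit 304) (nat_lit 0) (XT.lf (nat_lit 0) (nat_lit 45474144808) (nat_lit 152) (nat_lit 50714965555) (nat_lit 228) (nat_lit 5777175782) (nat_lit 39) (nat_lit 5) (nat_lit 41) (nat_lit 5) (nat_lit 42) (nat_lit 5) (nat_lit 322) (nat_lit 278) (nat_lit 120)) (XT.lf (nat_lit 0) (nat_lit 4597718632) (nat_lit 228) (nat_lit 12660744857) (nat_lit 304) (nat_lit 88579093646) (nat_lit 35) (nat_lit 5) (nat_lit 38) (nat_lit 5) (nat_lit 39) (nat_lit 5) (nat_lit 323) (nat_lit 278) (nat_lit 119)))) (XT.nd (nat_lit 34008) (nat_lit 0) (nat_lit 10488) (XT.lf (nat_lit 0) (nat_lit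 42175483734) (nat_lit 304) (nat_lit 40291536222) (nat_lit 76) (nat_lit 27408185022) (nat_lit 35) (nat_lit 5) (nat_lit 39) (nat_lit 5) (nat_lit 36) (nat_lit 5) (nat_lit 324) (nat_lit 278) (nat_lit 118)) (XT.nd (nat_lit 78) (nat_lit 0) (nat_lit 0) (XT.lf (nat_lit 0) (nat_lit 12572127953) (nat_lit 1140) (nat_lit 610051420) (nat_lit 1140) (nat_lit 610051420) (nat_lit 173) (nat_lit 3) (nat_lit 188) (nat_lit 3) (nat_lit 188) (nat_lit 5) (nat_lit 279) (nat_lit 279) (nat_lit 162)) (XT.lf (nat_lit 76) (nat_lit 18885225630) (nat_lit 0) (nat_lit 7199016790) (nat_lit 1140) (nat_lit 2180229452) (nat_lit 174) (nat_lit 5) (nat_lit 173) (nat_lit 3) (nat_lit 188) (nat_lit 5) (nat_lit 280) (nat_lit 279) (nat_lit 161))))))) (XT.nd (nat_lit 858) (nat_lit 4408) (nat_lit 0) (XT.nd (nat_lit 390) (nat_lit 684) (nat_lit 0) (XT.nd (nat_lit 156) (nat_lit 1064) (nat_lit 0) (XT.nd (nat_lit 78) (nat_lit 0) (nat_lit 76)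 (XT.lf (nat_lit 76) (nat_lit 11131381457) (nat_lit 0) (nat_lit 16175456360) (nat_lit 1140) (nat_lit 1664593203) (nat_lit 175) (nat_lit 5) (nat_lit 174) (nat_lit 5) (nat_lit 189) (nat_lit 5) (nat_lit 281) (nat_lit 279) (nat_lit 160)) (XT.lf (nat_lit 76) (nat_lit 3097618784) (nat_lit 0) (nat_lit 25722032605) (nat_lit 1140) (nat_lit 887229924) (nat_lit 176) (nat_lit 5) (nat_lit 175) (nat_lit 5) (nat_lit 190) (nat_lit 5) (nat_lit 282) (nat_lit 279) (nat_lit 159))) (XT.nd (nat_lit 78) (nat_lit 0) (nat_lit 76) (XT.lf (nat_lit 0) (nat_lit 271427818) (nat_lit 1140) (nat_lit 5187880406) (nat_lit 1216) (nat_lit 25009599794) (nat_lit 160) (nat_lit 5) (nat_lit 175) (nat_lit 5) (nat_lit 176) (nat_lit 5) (nat_lit 283) (nat_lit 279) (nat_lit 158)) (XT.nd (nat_lit 78) (nat_lit 0) (nat_lit 76) (XT.lf (nat_lit 0) (nat_lit 1785868811) (nat_lit 1140) (nat_lit 13782637118) (nat_lit 1216) (nat_lit 15690794556)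 (nat_lit 161) (nat_lit 5) (nat_lit 176) (nat_lit 5) (nat_lit 177) (nat_lit 5) (nat_lit 284) (nat_lit 279) (nat_lit 157)) (XT.lf (nat_lit 0) (nat_lit 3624847260) (nat_lit 1140) (nat_lit 22721032237) (nat_lit 1216) (nat_lit 5735881902) (nat_lit 162) (nat_lit 5) (nat_lit 177) (nat_lit 5) (nat_lit 178) (nat_lit 5) (nat_lit 285) (nat_lit 279) (nat_lit 156))))) (XT.nd (nat_lit 234) (nat_lit 836) (nat_lit 0) (XT.nd (nat_lit 78) (nat_lit 0) (nat_lit 76) (XT.lf (nat_lit 76) (nat_lit 861619456) (nat_lit 0) (nat_lit 4996175811) (nat_lit 1216) (nat_lit 27078502126) (nat_lit 163) (nat_lit 5) (nat_lit 162) (nat_lit 5) (nat_lit 178) (nat_lit 5) (nat_lit 286) (nat_lit 279) (nat_lit 155)) (XT.nd (nat_lit 78) (nat_lit 0) (nat_lit 76) (XT.lf (nat_lit 0) (nat_lit 8599666960) (nat_lit 1140) (nat_lit 7903039795) (nat_lit 1216) (nat_lit 17318947195) (nat_lit 163) (nat_lit 5) (nat_lit 178) (nat_lit 5) (nat_lit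 179) (nat_lit 5) (nat_lit 287) (nat_lit 279) (nat_lit 154)) (XT.lf (nat_lit 0) (nat_lit 11752171752) (nat_lit 1140) (nat_lit 17034437626) (nat_lit 1216) (nat_lit 5956474248) (nat_lit 164) (nat_lit 5) (nat_lit 179) (nat_lit 5) (nat_lit 180) (nat_lit 5) (nat_lit 288) (nat_lit 279) (nat_lit 153)))) (XT.nd (nat_lit 78) (nat_lit 988) (nat_lit 0) (XT.lf (nat_lit 76) (nat_lit 9062640435) (nat_lit 0) (nat_lit 6329672234) (nat_lit 1216) (nat_lit 20308382720) (nat_lit 165) (nat_lit 5) (nat_lit 164) (nat_lit 5) (nat_lit 180) (nat_lit 5) (nat_lit 289) (nat_lit 279) (nat_lit 152)) (XT.nd (nat_lit 78) (nat_lit 1064) (nat_lit 0) (XT.lf (nat_lit 0) (nat_lit 19551781726) (nat_lit 1140) (nat_lit 52746552) (nat_lit 76) (nat_lit 17091550239) (nat_lit 165) (nat_lit 5) (nat_lit 180) (nat_lit 5) (nat_lit 166) (nat_lit 5) (nat_lit 290) (nat_lit 279) (nat_lit 151)) (XT.lf (nat_lit 0) (nat_lit 24289648471) (nat_lit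 1140) (nat_lit 9424179767) (nat_lit 76) (nat_lit 4016299751) (nat_lit 151) (nat_lit 5) (nat_lit 166) (nat_lit 5) (nat_lit 152) (nat_lit 5) (nat_lit 291) (nat_lit 279) (nat_lit 150)))))) (XT.nd (nat_lit 468) (nat_lit 1748) (nat_lit 0) (XT.nd (nat_lit 234) (nat_lit 988) (nat_lit 0) (XT.nd (nat_lit 78) (nat_lit 1140) (nat_lit 0) (XT.lf (nat_lit 0) (nat_lit 19444759251) (nat_lit 532) (nat_lit 10199880798) (nat_lit 608) (nat_lit 9159842383) (nat_lit 144) (nat_lit 5) (nat_lit 151) (nat_lit 5) (nat_lit 152) (nat_lit 5) (nat_lit 292) (nat_lit 279) (nat_lit 149)) (XT.nd (nat_lit 78) (nat_lit 608) (nat_lit 0) (XT.lf (nat_lit 0) (nat_lit 10076172449) (nat_lit 532) (nat_lit 25520424733) (nat_lit 608) (nat_lit 4326089929) (nat_lit 137) (nat_lit 5) (nat_lit 144) (nat_lit 5) (nat_lit 145) (nat_lit 5) (nat_lit 293) (nat_lit 279) (nat_lit 148)) (XT.lf (nat_lit 0) (nat_lit 184460383) (nat_lit 532) (nat_lit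 851488706) (nat_lit 608) (nat_lit 40051608509) (nat_lit 129) (nat_lit 5) (nat_lit 136) (nat_lit 5) (nat_lit 137) (nat_lit 5) (nat_lit 294) (nat_lit 279) (nat_lit 147)))) (XT.nd (nat_lit 78) (nat_lit 988) (nat_lit 0) (XT.lf (nat_lit 0) (nat_lit 7123960494) (nat_lit 608) (nat_lit 10252904348) (nat_lit 76) (nat_lit 24916109491) (nat_lit 129) (nat_lit 5) (nat_lit 137) (nat_lit 5) (nat_lit 130) (nat_lit 5) (nat_lit 295) (nat_lit 279) (nat_lit 146)) (XT.nd (nat_lit 78) (nat_lit 456) (nat_lit 0) (XT.lf (nat_lit 0) (nat_lit 13818311068) (nat_lit 608) (nat_lit 21281949479) (nat_lit 76) (nat_lit 8449350741) (nat_lit 122) (nat_lit 5) (nat_lit 130) (nat_lit 5) (nat_lit 123) (nat_lit 5) (nat_lit 296) (nat_lit 279) (nat_lit 145)) (XT.lf (nat_lit 0) (nat_lit 11812250370) (nat_lit 456) (nat_lit 9426456672) (nat_lit 532) (nat_lit 23618640395) (nat_lit 116) (nat_lit 5) (nat_lit 122) (nat_lit 5) (nat_lit 123)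 (nat_lit 5) (nat_lit 297) (nat_lit 279) (nat_lit 144))))) (XT.nd (nat_lit 234) (nat_lit 912) (nat_lit 0) (XT.nd (nat_lit 78) (nat_lit 380) (nat_lit 0) (XT.lf (nat_lit 0) (nat_lit 618970070) (nat_lit 456) (nat_lit 28802828772) (nat_lit 532) (nat_lit 16796928112) (nat_lit 110) (nat_lit 5) (nat_lit 116) (nat_lit 5) (nat_lit 117) (nat_lit 5) (nat_lit 298) (nat_lit 279) (nat_lit 143)) (XT.nd (nat_lit 78) (nat_lit 380) (nat_lit 0) (XT.lf (nat_lit 0) (nat_lit 36555462885) (nat_lit 456) (nat_lit 1889073483) (nat_lit 532) (nat_lit 9190730859) (nat_lit 110) (nat_lit 5) (nat_lit 116) (nat_lit 5) (nat_lit 117) (nat_lit 5) (nat_lit 299) (nat_lit 279) (nat_lit 142)) (XT.lf (nat_lit 0) (nat_lit 25404189355) (nat_lit 380) (nat_lit 23008202033) (nat_lit 456) (nat_lit 695429913) (nat_lit 105) (nat_lit 5) (nat_lit 110) (nat_lit 5) (nat_lit 111) (nat_lit 5) (nat_lit 300) (nat_lit 279) (nat_lit 141)))) (XT.nd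 (nat_lit 78) (nat_lit 380) (nat_lit 0) (XT.lf (nat_lit 0) (nat_lit 8373394612) (nat_lit 532) (nat_lit 37240702293) (nat_lit 76) (nat_lit 5028262578) (nat_lit 98) (nat_lit 5) (nat_lit 105) (nat_lit 5) (nat_lit 99) (nat_lit 5) (nat_lit 301) (nat_lit 279) (nat_lit 140)) (XT.nd (nat_lit 78) (nat_lit 0) (nat_lit 0) (XT.lf (nat_lit 0) (nat_lit 372714846) (nat_lit 380) (nat_lit 17987446696) (nat_lit 456) (nat_lit 33878895421) (nat_lit 93) (nat_lit 5) (nat_lit 98) (nat_lit 5) (nat_lit 99) (nat_lit 5) (nat_lit 302) (nat_lit 279) (nat_lit 139)) (XT.lf (nat_lit 0) (nat_lit 29335995678) (nat_lit 456) (nat_lit 13372915587) (nat_lit 76) (nat_lit 11191991390) (nat_lit 93) (nat_lit 5) (nat_lit 99) (nat_lit 5) (nat_lit 94) (nat_lit 5) (nat_lit 303) (nat_lit 279) (nat_lit 138))))))))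
noncomputable def xc112 : XT := (XT.nd (nat_lit 35724) (nat_lit 0) (nat_lit 4788) (XT.nd (nat_lit 858) (nat_lit 1748) (nat_lit 0) (XT.nd (nat_lit 390) (nat_lit 1216) (nat_lit 0) (XT.nd (nat_lit 156) (nat_lit 760) (nat_lit 0) (XT.nd (nat_lit 78) (nat_lit 304) (nat_lit 0) (XT.lf (nat_lit 0) (nat_lit 27394268326) (nat_lit 380) (nat_lit 13908032374) (nat_lit 456) (nat_lit 14330294513) (nat_lit 88) (nat_lit 5) (nat_lit 93) (nat_lit 5) (nat_lit 94) (nat_lit 5) (nat_lit 304) (nat_lit 279) (nat_lit 137)) (XT.lf (nat_lit 0) (nat_lit 13126401099) (nat_lit 304) (nat_lit 41159631959) (nat_lit 380) (nat_lit 3152270698) (nat_lit 84) (nat_lit 5) (nat_lit 88) (nat_lit 5) (nat_lit 89) (nat_lit 5) (nat_lit 305) (nat_lit 279) (nat_lit 136))) (XT.nd (nat_lit 78) (nat_lit 684) (nat_lit 0) (XT.lf (nat_lit 0) (nat_lit 8848063643) (nat_lit 380) (nat_lit 2405743433) (nat_lit 76) (nat_lit 48065091580) (nat_lit 83)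 (nat_lit 5) (nat_lit 88) (nat_lit 5) (nat_lit 84) (nat_lit 5) (nat_lit 306) (nat_lit 279) (nat_lit 135)) (XT.nd (nat_lit 78) (nat_lit 304) (nat_lit 0) (XT.lf (nat_lit 0) (nat_lit 21986416677) (nat_lit 456) (nat_lit 19091078172) (nat_lit 76) (nat_lit 20197000417) (nat_lit 78) (nat_lit 5) (nat_lit 84) (nat_lit 5) (nat_lit 79) (nat_lit 5) (nat_lit 307) (nat_lit 279) (nat_lit 134)) (XT.lf (nat_lit 0) (nat_lit 26117346379) (nat_lit 304) (nat_lit 10051216052) (nat_lit 380) (nat_lit 27147706983) (nat_lit 74) (nat_lit 5) (nat_lit 78) (nat_lit 5) (nat_lit 79) (nat_lit 5) (nat_lit 308) (nat_lit 279) (nat_lit 133))))) (XT.nd (nat_lit 234) (nat_lit 532) (nat_lit 0) (XT.nd (nat_lit 78) (nat_lit 380) (nat_lit 0) (XT.lf (nat_lit 0) (nat_lit 8474165607) (nat_lit 304) (nat_lit 43079429213) (nat_lit 380) (nat_lit 13891727837) (nat_lit 70) (nat_lit 5) (nat_lit 74) (nat_lit 5) (nat_lit 75) (nat_lit 5) (nat_lit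 309) (nat_lit 279) (nat_lit 132)) (XT.nd (nat_lit 78) (nat_lit 304) (nat_lit 0) (XT.lf (nat_lit 0) (nat_lit 512069875) (nat_lit 380) (nat_lit 10570152536) (nat_lit 76) (nat_lit 56584035413) (nat_lit 69) (nat_lit 5) (nat_lit 74) (nat_lit 5) (nat_lit 70) (nat_lit 5) (nat_lit 310) (nat_lit 279) (nat_lit 131)) (XT.lf (nat_lit 0) (nat_lit 15943043364) (nat_lit 380) (nat_lit 31440717116) (nat_lit 76) (nat_lit 22592527689) (nat_lit 65) (nat_lit 5) (nat_lit 70) (nat_lit 5) (nat_lit 66) (nat_lit 5) (nat_lit 311) (nat_lit 279) (nat_lit 130)))) (XT.nd (nat_lit 78) (nat_lit 228) (nat_lit 0) (XT.lf (nat_lit 0) (nat_lit 18156916638) (nat_lit 304) (nat_lit 14382507802) (nat_lit 380) (nat_lit 39850582988) (nat_lit 61) (nat_lit 5) (nat_lit 65) (nat_lit 5) (nat_lit 66) (nat_lit 5) (nat_lit 312) (nat_lit 279) (nat_lit 129)) (XT.nd (nat_lit 78) (nat_lit 228) (nat_lit 0) (XT.lf (nat_lit 0) (nat_lit 50484974725)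 (nat_lit 380) (nat_lit 4224628187) (nat_lit 76) (nat_lit 20199232243) (nat_lit 61) (nat_lit 5) (nat_lit 66) (nat_lit 5) (nat_lit 62) (nat_lit 5) (nat_lit 313) (nat_lit 279) (nat_lit 128)) (XT.lf (nat_lit 0) (nat_lit 49093914227) (nat_lit 228) (nat_lit 20848741872) (nat_lit 304) (nat_lit 7592505429) (nat_lit 58) (nat_lit 5) (nat_lit 61) (nat_lit 5) (nat_lit 62) (nat_lit 5) (nat_lit 314) (nat_lit 279) (nat_lit 127)))))) (XT.nd (nat_lit 390) (nat_lit 912) (nat_lit 0) (XT.nd (nat_lit 156) (nat_lit 532) (nat_lit 0) (XT.nd (nat_lit 78) (nat_lit 0) (nat_lit 0) (XT.lf (nat_lit 0) (nat_lit 10313485069) (nat_lit 304) (nat_lit 55158735298) (nat_lit 76) (nat_lit 14804786342) (nat_lit 54) (nat_lit 5) (nat_lit 58) (nat_lit 5) (nat_lit 55) (nat_lit 5) (nat_lit 315) (nat_lit 279) (nat_lit 126)) (XT.lf (nat_lit 0) (nat_lit 29463202818) (nat_lit 304) (nat_lit 1490117769) (nat_lit 76) (nat_lit 52185207315)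 (nat_lit 54) (nat_lit 5) (nat_lit 58) (nat_lit 5) (nat_lit 55) (nat_lit 5) (nat_lit 316) (nat_lit 279) (nat_lit 125))) (XT.nd (nat_lit 78) (nat_lit 304) (nat_lit 0) (XT.lf (nat_lit 0) (nat_lit 50162406727) (nat_lit 304) (nat_lit 30232453243) (nat_lit 76) (nat_lit 5730507583) (nat_lit 51) (nat_lit 5) (nat_lit 55) (nat_lit 5) (nat_lit 52) (nat_lit 5) (nat_lit 317) (nat_lit 279) (nat_lit 124)) (XT.nd (nat_lit 78) (nat_lit 76) (nat_lit 0) (XT.lf (nat_lit 0) (nat_lit 27129044252) (nat_lit 228) (nat_lit 45354263448) (nat_lit 304) (nat_lit 16760641670) (nat_lit 48) (nat_lit 5) (nat_lit 51) (nat_lit 5) (nat_lit 52) (nat_lit 5) (nat_lit 318) (nat_lit 279) (nat_lit 123)) (XT.lf (nat_lit 0) (nat_lit 3647800192) (nat_lit 304) (nat_lit 4557393709) (nat_lit 76) (nat_lit 84302915852) (nat_lit 47) (nat_lit 5) (nat_lit 51) (nat_lit 5) (nat_lit 48) (nat_lit 5) (nat_lit 319) (nat_lit 279) (nat_lit 122)))))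 (XT.nd (nat_lit 234) (nat_lit 456) (nat_lit 0) (XT.nd (nat_lit 78) (nat_lit 228) (nat_lit 0) (XT.lf (nat_lit 0) (nat_lit 25580724529) (nat_lit 304) (nat_lit 39402483307) (nat_lit 76) (nat_lit 30921773043) (nat_lit 44) (nat_lit 5) (nat_lit 48) (nat_lit 5) (nat_lit 45) (nat_lit 5) (nat_lit 320) (nat_lit 279) (nat_lit 121)) (XT.nd (nat_lit 78) (nat_lit 0) (nat_lit 0) (XT.lf (nat_lit 0) (nat_lit 21575357773) (nat_lit 228) (nat_lit 27370762243) (nat_lit 304) (nat_lit 50515502718) (nat_lit 41) (nat_lit 5) (nat_lit 44) (nat_lit 5) (nat_lit 45) (nat_lit 5) (nat_lit 321) (nat_lit 279) (nat_lit 120)) (XT.lf (nat_lit 0) (nat_lit 74004225630) (nat_lit 304) (nat_lit 16881656091) (nat_lit 76) (nat_lit 12294483581) (nat_lit 41) (nat_lit 5) (nat_lit 45) (nat_lit 5) (nat_lit 42) (nat_lit 5) (nat_lit 322) (nat_lit 279) (nat_lit 119)))) (XT.nd (nat_lit 78) (nat_lit 304) (nat_lit 0) (XT.lf (nat_lit 0) (nat_lit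 47827669058) (nat_lit 152) (nat_lit 53221941306) (nat_lit 228) (nat_lit 6013405160) (nat_lit 39) (nat_lit 5) (nat_lit 41) (nat_lit 5) (nat_lit 42) (nat_lit 5) (nat_lit 323) (nat_lit 279) (nat_lit 118)) (XT.nd (nat_lit 34086) (nat_lit 0) (nat_lit 10488) (XT.lf (nat_lit 0) (nat_lit 4906181727) (nat_lit 228) (nat_lit 13265105432) (nat_lit 304) (nat_lit 92956601264) (nat_lit 35) (nat_lit 5) (nat_lit 38) (nat_lit 5) (nat_lit 39) (nat_lit 5) (nat_lit 324) (nat_lit 279) (nat_lit 117)) (XT.lf (nat_lit 0) (nat_lit 13328550900) (nat_lit 1140) (nat_lit 574600571) (nat_lit 1140) (nat_lit 574600571) (nat_lit 173) (nat_lit 3) (nat_lit 188) (nat_lit 3) (nat_lit 188) (nat_lit 5) (nat_lit 280) (nat_lit 280) (nat_lit 160))))))) (XT.nd (nat_lit 858) (nat_lit 4028) (nat_lit 0) (XT.nd (nat_lit 390) (nat_lit 684) (nat_lit 0) (XT.nd (nat_lit 156) (nat_lit 988) (nat_lit 0) (XT.nd (nat_lit 78) (nat_lit 0) (nat_lit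 76) (XT.lf (nat_lit 76) (nat_lit 19957612669) (nat_lit 0) (nat_lit 7675533590) (nat_lit 1140) (nat_lit 2036721229) (nat_lit 174) (nat_lit 5) (nat_lit 173) (nat_lit 3) (nat_lit 188) (nat_lit 5) (nat_lit 281) (nat_lit 280) (nat_lit 159)) (XT.lf (nat_lit 76) (nat_lit 11821095562) (nat_lit 0) (nat_lit 17084336602) (nat_lit 1140) (nat_lit 1507108808) (nat_lit 175) (nat_lit 5) (nat_lit 174) (nat_lit 5) (nat_lit 189) (nat_lit 5) (nat_lit 282) (nat_lit 280) (nat_lit 158))) (XT.nd (nat_lit 78) (nat_lit 1140) (nat_lit 0) (XT.lf (nat_lit 76) (nat_lit 3390010603) (nat_lit 0) (nat_lit 27093173921) (nat_lit 1140) (nat_lit 701922409) (nat_lit 176) (nat_lit 5) (nat_lit 175) (nat_lit 5) (nat_lit 190) (nat_lit 5) (nat_lit 283) (nat_lit 280) (nat_lit 157)) (XT.nd (nat_lit 78) (nat_lit 0) (nat_lit 76) (XT.lf (nat_lit 0) (nat_lit 499463343) (nat_lit 1140) (nat_lit 5311634801) (nat_lit 1216) (nat_lit 26174412724)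 (nat_lit 160) (nat_lit 5) (nat_lit 175) (nat_lit 5) (nat_lit 176) (nat_lit 5) (nat_lit 284) (nat_lit 280) (nat_lit 156)) (XT.lf (nat_lit 0) (nat_lit 2079971196) (nat_lit 1140) (nat_lit 14332753635) (nat_lit 1216) (nat_lit 16403007243) (nat_lit 161) (nat_lit 5) (nat_lit 176) (nat_lit 5) (nat_lit 177) (nat_lit 5) (nat_lit 285) (nat_lit 280) (nat_lit 155))))) (XT.nd (nat_lit 234) (nat_lit 836) (nat_lit 0) (XT.nd (nat_lit 78) (nat_lit 0) (nat_lit 0) (XT.lf (nat_lit 0) (nat_lit 4001854276) (nat_lit 1140) (nat_lit 23715202617) (nat_lit 1216) (nat_lit 5962549001) (nat_lit 162) (nat_lit 5) (nat_lit 177) (nat_lit 5) (nat_lit 178) (nat_lit 5) (nat_lit 286) (nat_lit 280) (nat_lit 154)) (XT.nd (nat_lit 78) (nat_lit 0) (nat_lit 76) (XT.lf (nat_lit 76) (nat_lit 1042514664) (nat_lit 0) (nat_lit 5295937648) (nat_lit 1216) (nat_lit 28238673947) (nat_lit 163) (nat_lit 5) (nat_lit 162) (nat_lit 5) (nat_lit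 178) (nat_lit 5) (nat_lit 287) (nat_lit 280) (nat_lit 153)) (XT.lf (nat_lit 0) (nat_lit 9208018977) (nat_lit 1140) (nat_lit 8160781862) (nat_lit 1216) (nat_lit 18138248571) (nat_lit 163) (nat_lit 5) (nat_lit 178) (nat_lit 5) (nat_lit 179) (nat_lit 5) (nat_lit 288) (nat_lit 280) (nat_lit 152)))) (XT.nd (nat_lit 78) (nat_lit 988) (nat_lit 0) (XT.lf (nat_lit 0) (nat_lit 12510575999) (nat_lit 1140) (nat_lit 17746871237) (nat_lit 1216) (nat_lit 6217346532) (nat_lit 164) (nat_lit 5) (nat_lit 179) (nat_lit 5) (nat_lit 180) (nat_lit 5) (nat_lit 289) (nat_lit 280) (nat_lit 151)) (XT.nd (nat_lit 78) (nat_lit 988) (nat_lit 0) (XT.lf (nat_lit 76) (nat_lit 9651068056) (nat_lit 0) (nat_lit 6674823323) (nat_lit 1216) (nat_lit 21154614964) (nat_lit 165) (nat_lit 5) (nat_lit 164) (nat_lit 5) (nat_lit 180) (nat_lit 5) (nat_lit 290) (nat_lit 280) (nat_lit 150)) (XT.lf (nat_lit 0) (nat_lit 80272995) (nat_lit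 1064) (nat_lit 20605762314) (nat_lit 1140) (nat_lit 17839856796) (nat_lit 151) (nat_lit 5) (nat_lit 165) (nat_lit 5) (nat_lit 166) (nat_lit 5) (nat_lit 291) (nat_lit 280) (nat_lit 149)))))) (XT.nd (nat_lit 390) (nat_lit 2356) (nat_lit 0) (XT.nd (nat_lit 156) (nat_lit 1140) (nat_lit 0) (XT.nd (nat_lit 78) (nat_lit 532) (nat_lit 0) (XT.lf (nat_lit 0) (nat_lit 25653665099) (nat_lit 1140) (nat_lit 9760186553) (nat_lit 76) (nat_lit 4198020137) (nat_lit 151) (nat_lit 5) (nat_lit 166) (nat_lit 5) (nat_lit 152) (nat_lit 5) (nat_lit 292) (nat_lit 280) (nat_lit 148)) (XT.lf (nat_lit 0) (nat_lit 20548323872) (nat_lit 532) (nat_lit 10722224100) (nat_lit 608) (nat_lit 9469584901) (nat_lit 144) (nat_lit 5) (nat_lit 151) (nat_lit 5) (nat_lit 152) (nat_lit 5) (nat_lit 293) (nat_lit 280) (nat_lit 147))) (XT.nd (nat_lit 78) (nat_lit 608) (nat_lit 0) (XT.lf (nat_lit 0) (nat_lit 10712101161) (nat_lit 532) (nat_lit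 26802317053) (nat_lit 608) (nat_lit 4400012657) (nat_lit 137) (nat_lit 5) (nat_lit 144) (nat_lit 5) (nat_lit 145) (nat_lit 5) (nat_lit 294) (nat_lit 280) (nat_lit 146)) (XT.nd (nat_lit 78) (nat_lit 0) (nat_lit 0) (XT.lf (nat_lit 0) (nat_lit 324951608) (nat_lit 532) (nat_lit 897012373) (nat_lit 608) (nat_lit 41915713018) (nat_lit 129) (nat_lit 5) (nat_lit 136) (nat_lit 5) (nat_lit 137) (nat_lit 5) (nat_lit 295) (nat_lit 280) (nat_lit 145)) (XT.lf (nat_lit 0) (nat_lit 7607957649) (nat_lit 608) (nat_lit 10636449532) (nat_lit 76) (nat_lit 26159160983) (nat_lit 129) (nat_lit 5) (nat_lit 137) (nat_lit 5) (nat_lit 130) (nat_lit 5) (nat_lit 296) (nat_lit 280) (nat_lit 144))))) (XT.nd (nat_lit 234) (nat_lit 912) (nat_lit 0) (XT.nd (nat_lit 78) (nat_lit 912) (nat_lit 0) (XT.lf (nat_lit 0) (nat_lit 14632169339) (nat_lit 608) (nat_lit 22216773434) (nat_lit 76) (nat_lit 8874250407) (nat_lit 122) (nat_lit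 5) (nat_lit 130) (nat_lit 5) (nat_lit 123) (nat_lit 5) (nat_lit 297) (nat_lit 280) (nat_lit 143)) (XT.nd (nat_lit 78) (nat_lit 456) (nat_lit 0) (XT.lf (nat_lit 0) (nat_lit 12528430808) (nat_lit 456) (nat_lit 9890506925) (nat_lit 532) (nat_lit 24677527843) (nat_lit 116) (nat_lit 5) (nat_lit 122) (nat_lit 5) (nat_lit 123) (nat_lit 5) (nat_lit 298) (nat_lit 280) (nat_lit 142)) (XT.lf (nat_lit 0) (nat_lit 775460971) (nat_lit 456) (nat_lit 30231363410) (nat_lit 532) (nat_lit 17519230022) (nat_lit 110) (nat_lit 5) (nat_lit 116) (nat_lit 5) (nat_lit 117) (nat_lit 5) (nat_lit 299) (nat_lit 280) (nat_lit 141)))) (XT.nd (nat_lit 78) (nat_lit 912) (nat_lit 0) (XT.lf (nat_lit 0) (nat_lit 38502800218) (nat_lit 456) (nat_lit 1972473061) (nat_lit 532) (nat_lit 9538320263) (nat_lit 110) (nat_lit 5) (nat_lit 116) (nat_lit 5) (nat_lit 117) (nat_lit 5) (nat_lit 300) (nat_lit 280) (nat_lit 140)) (XT.nd (nat_lit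 78) (nat_lit 532) (nat_lit 0) (XT.lf (nat_lit 0) (nat_lit 26793771039) (nat_lit 380) (nat_lit 24143831541) (nat_lit 456) (nat_lit 622298948) (nat_lit 105) (nat_lit 5) (nat_lit 110) (nat_lit 5) (nat_lit 111) (nat_lit 5) (nat_lit 301) (nat_lit 280) (nat_lit 139)) (XT.lf (nat_lit 0) (nat_lit 8894115447) (nat_lit 532) (nat_lit 38981517984) (nat_lit 76) (nat_lit 5295622448) (nat_lit 98) (nat_lit 5) (nat_lit 105) (nat_lit 5) (nat_lit 99) (nat_lit 5) (nat_lit 302) (nat_lit 280) (nat_lit 138))))))))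
noncomputable def xc113 : XT := (XT.nd (nat_lit 35880) (nat_lit 0) (nat_lit 4332) (XT.nd (nat_lit 858) (nat_lit 1520) (nat_lit 0) (XT.nd (nat_lit 390) (nat_lit 1672) (nat_lit 0) (XT.nd (nat_lit 156) (nat_lit 760) (nat_lit 0) (XT.nd (nat_lit 78) (nat_lit 0) (nat_lit 0) (XT.lf (nat_lit 0) (nat_lit 509095282) (nat_lit 380) (nat_lit 18867397698) (nat_lit 456) (nat_lit 35471414706) (nat_lit 93) (nat_lit 5) (nat_lit 98) (nat_lit 5) (nat_lit 99) (nat_lit 5) (nat_lit 303) (nat_lit 280) (nat_lit 137)) (XT.lf (nat_lit 0) (nat_lit 30896614559) (nat_lit 456) (nat_lit 13926646958) (nat_lit 76) (nat_lit 11769726533) (nat_lit 93) (nat_lit 5) (nat_lit 99) (nat_lit 5) (nat_lit 94) (nat_lit 5) (nat_lit 304) (nat_lit 280) (nat_lit 136))) (XT.nd (nat_lit 78) (nat_lit 380) (nat_lit 0) (XT.lf (nat_lit 0) (nat_lit 28875602153) (nat_lit 380) (nat_lit 14582238067) (nat_lit 456) (nat_lit 14953533766) (nat_lit 88)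 (nat_lit 5) (nat_lit 93) (nat_lit 5) (nat_lit 94) (nat_lit 5) (nat_lit 305) (nat_lit 280) (nat_lit 135)) (XT.nd (nat_lit 78) (nat_lit 76) (nat_lit 0) (XT.lf (nat_lit 0) (nat_lit 13893713345) (nat_lit 304) (nat_lit 43194000893) (nat_lit 380) (nat_lit 3219751651) (nat_lit 84) (nat_lit 5) (nat_lit 88) (nat_lit 5) (nat_lit 89) (nat_lit 5) (nat_lit 306) (nat_lit 280) (nat_lit 134)) (XT.lf (nat_lit 0) (nat_lit 9374632321) (nat_lit 380) (nat_lit 2418526951) (nat_lit 76) (nat_lit 50489037604) (nat_lit 83) (nat_lit 5) (nat_lit 88) (nat_lit 5) (nat_lit 84) (nat_lit 5) (nat_lit 307) (nat_lit 280) (nat_lit 133))))) (XT.nd (nat_lit 234) (nat_lit 684) (nat_lit 0) (XT.nd (nat_lit 78) (nat_lit 608) (nat_lit 0) (XT.lf (nat_lit 0) (nat_lit 23167122491) (nat_lit 456) (nat_lit 19938882801) (nat_lit 76) (nat_lit 21229657237) (nat_lit 78) (nat_lit 5) (nat_lit 84) (nat_lit 5) (nat_lit 79) (nat_lit 5) (nat_lit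 308) (nat_lit 280) (nat_lit 132)) (XT.nd (nat_lit 78) (nat_lit 304) (nat_lit 0) (XT.lf (nat_lit 0) (nat_lit 27526903030) (nat_lit 304) (nat_lit 10528593753) (nat_lit 380) (nat_lit 28424120486) (nat_lit 74) (nat_lit 5) (nat_lit 78) (nat_lit 5) (nat_lit 79) (nat_lit 5) (nat_lit 309) (nat_lit 280) (nat_lit 131)) (XT.lf (nat_lit 0) (nat_lit 9000750788) (nat_lit 304) (nat_lit 45206511075) (nat_lit 380) (nat_lit 14507942137) (nat_lit 70) (nat_lit 5) (nat_lit 74) (nat_lit 5) (nat_lit 75) (nat_lit 5) (nat_lit 310) (nat_lit 280) (nat_lit 130)))) (XT.nd (nat_lit 78) (nat_lit 608) (nat_lit 0) (XT.lf (nat_lit 0) (nat_lit 610856959) (nat_lit 380) (nat_lit 10999128420) (nat_lit 76) (nat_lit 59437292584) (nat_lit 69) (nat_lit 5) (nat_lit 74) (nat_lit 5) (nat_lit 70) (nat_lit 5) (nat_lit 311) (nat_lit 280) (nat_lit 129)) (XT.nd (nat_lit 78) (nat_lit 304) (nat_lit 0) (XT.lf (nat_lit 0) (nat_lit 16811073940)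 (nat_lit 380) (nat_lit 32914113249) (nat_lit 76) (nat_lit 23747696424) (nat_lit 65) (nat_lit 5) (nat_lit 70) (nat_lit 5) (nat_lit 66) (nat_lit 5) (nat_lit 312) (nat_lit 280) (nat_lit 128)) (XT.lf (nat_lit 0) (nat_lit 19160574706) (nat_lit 304) (nat_lit 15074245207) (nat_lit 380) (nat_lit 41772546955) (nat_lit 61) (nat_lit 5) (nat_lit 65) (nat_lit 5) (nat_lit 66) (nat_lit 5) (nat_lit 313) (nat_lit 280) (nat_lit 127)))))) (XT.nd (nat_lit 390) (nat_lit 760) (nat_lit 0) (XT.nd (nat_lit 156) (nat_lit 532) (nat_lit 0) (XT.nd (nat_lit 78) (nat_lit 228) (nat_lit 0) (XT.lf (nat_lit 0) (nat_lit 53074640148) (nat_lit 380) (nat_lit 4342821599) (nat_lit 76) (nat_lit 21234768661) (nat_lit 61) (nat_lit 5) (nat_lit 66) (nat_lit 5) (nat_lit 62) (nat_lit 5) (nat_lit 314) (nat_lit 280) (nat_lit 126)) (XT.lf (nat_lit 0) (nat_lit 51638981020) (nat_lit 228) (nat_lit 21863978193) (nat_lit 304) (nat_lit 7906985279)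 (nat_lit 58) (nat_lit 5) (nat_lit 61) (nat_lit 5) (nat_lit 62) (nat_lit 5) (nat_lit 315) (nat_lit 280) (nat_lit 125))) (XT.nd (nat_lit 78) (nat_lit 228) (nat_lit 0) (XT.lf (nat_lit 0) (nat_lit 10891111692) (nat_lit 304) (nat_lit 57825919981) (nat_lit 76) (nat_lit 15571892826) (nat_lit 54) (nat_lit 5) (nat_lit 58) (nat_lit 5) (nat_lit 55) (nat_lit 5) (nat_lit 316) (nat_lit 280) (nat_lit 124)) (XT.nd (nat_lit 78) (nat_lit 228) (nat_lit 0) (XT.lf (nat_lit 0) (nat_lit 30995365216) (nat_lit 304) (nat_lit 1478193103) (nat_lit 76) (nat_lit 54820055459) (nat_lit 54) (nat_lit 5) (nat_lit 58) (nat_lit 5) (nat_lit 55) (nat_lit 5) (nat_lit 317) (nat_lit 280) (nat_lit 123)) (XT.lf (nat_lit 0) (nat_lit 52727785789) (nat_lit 304) (nat_lit 31658604872) (nat_lit 76) (nat_lit 6043460410) (nat_lit 51) (nat_lit 5) (nat_lit 55) (nat_lit 5) (nat_lit 52) (nat_lit 5) (nat_lit 318) (nat_lit 280) (nat_lit 122)))))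 (XT.nd (nat_lit 234) (nat_lit 228) (nat_lit 0) (XT.nd (nat_lit 78) (nat_lit 304) (nat_lit 0) (XT.lf (nat_lit 0) (nat_lit 28568517487) (nat_lit 228) (nat_lit 47594285767) (nat_lit 304) (nat_lit 17541619777) (nat_lit 48) (nat_lit 5) (nat_lit 51) (nat_lit 5) (nat_lit 52) (nat_lit 5) (nat_lit 319) (nat_lit 280) (nat_lit 121)) (XT.nd (nat_lit 78) (nat_lit 228) (nat_lit 0) (XT.lf (nat_lit 0) (nat_lit 3883467009) (nat_lit 304) (nat_lit 4705076354) (nat_lit 76) (nat_lit 88543314486) (nat_lit 47) (nat_lit 5) (nat_lit 51) (nat_lit 5) (nat_lit 48) (nat_lit 5) (nat_lit 320) (nat_lit 280) (nat_lit 120)) (XT.lf (nat_lit 0) (nat_lit 26911503057) (nat_lit 304) (nat_lit 41293371821) (nat_lit 76) (nat_lit 32493746503) (nat_lit 44) (nat_lit 5) (nat_lit 48) (nat_lit 5) (nat_lit 45) (nat_lit 5) (nat_lit 321) (nat_lit 280) (nat_lit 119)))) (XT.nd (nat_lit 78) (nat_lit 0) (nat_lit 0) (XT.lf (nat_lit 0) (nat_lit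 22731090039) (nat_lit 228) (nat_lit 28712354189) (nat_lit 304) (nat_lit 52989705504) (nat_lit 41) (nat_lit 5) (nat_lit 44) (nat_lit 5) (nat_lit 45) (nat_lit 5) (nat_lit 322) (nat_lit 280) (nat_lit 118)) (XT.nd (nat_lit 34242) (nat_lit 0) (nat_lit 10032) (XT.lf (nat_lit 0) (nat_lit 77752319991) (nat_lit 304) (nat_lit 17651206045) (nat_lit 76) (nat_lit 12934369998) (nat_lit 41) (nat_lit 5) (nat_lit 45) (nat_lit 5) (nat_lit 42) (nat_lit 5) (nat_lit 323) (nat_lit 280) (nat_lit 117)) (XT.lf (nat_lit 0) (nat_lit 14110911824) (nat_lit 1140) (nat_lit 543508903) (nat_lit 1140) (nat_lit 543508903) (nat_lit 173) (nat_lit 3) (nat_lit 188) (nat_lit 3) (nat_lit 188) (nat_lit 5) (nat_lit 281) (nat_lit 281) (nat_lit 158))))))) (XT.nd (nat_lit 858) (nat_lit 4028) (nat_lit 0) (XT.nd (nat_lit 390) (nat_lit 684) (nat_lit 0) (XT.nd (nat_lit 156) (nat_lit 988) (nat_lit 0) (XT.nd (nat_lit 78) (nat_lit 0) (nat_lit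 76) (XT.lf (nat_lit 76) (nat_lit 21071707141) (nat_lit 0) (nat_lit 8165039033) (nat_lit 1140) (nat_lit 1909514483) (nat_lit 174) (nat_lit 5) (nat_lit 173) (nat_lit 3) (nat_lit 188) (nat_lit 5) (nat_lit 282) (nat_lit 281) (nat_lit 157)) (XT.lf (nat_lit 76) (nat_lit 12532916809) (nat_lit 0) (nat_lit 18029353818) (nat_lit 1140) (nat_lit 1364129504) (nat_lit 175) (nat_lit 5) (nat_lit 174) (nat_lit 5) (nat_lit 189) (nat_lit 5) (nat_lit 283) (nat_lit 281) (nat_lit 156))) (XT.nd (nat_lit 78) (nat_lit 1140) (nat_lit 0) (XT.lf (nat_lit 76) (nat_lit 3684237554) (nat_lit 0) (nat_lit 28524966119) (nat_lit 1140) (nat_lit 528701967) (nat_lit 176) (nat_lit 5) (nat_lit 175) (nat_lit 5) (nat_lit 190) (nat_lit 5) (nat_lit 284) (nat_lit 281) (nat_lit 155)) (XT.nd (nat_lit 78) (nat_lit 0) (nat_lit 76) (XT.lf (nat_lit 0) (nat_lit 718961802) (nat_lit 1140) (nat_lit 5454187403) (nat_lit 1216) (nat_lit 27405430813)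 (nat_lit 160) (nat_lit 5) (nat_lit 175) (nat_lit 5) (nat_lit 176) (nat_lit 5) (nat_lit 285) (nat_lit 281) (nat_lit 154)) (XT.lf (nat_lit 0) (nat_lit 2369737505) (nat_lit 1140) (nat_lit 14923300306) (nat_lit 1216) (nat_lit 17157554847) (nat_lit 161) (nat_lit 5) (nat_lit 176) (nat_lit 5) (nat_lit 177) (nat_lit 5) (nat_lit 286) (nat_lit 281) (nat_lit 153))))) (XT.nd (nat_lit 234) (nat_lit 836) (nat_lit 0) (XT.nd (nat_lit 78) (nat_lit 0) (nat_lit 0) (XT.lf (nat_lit 0) (nat_lit 4379511300) (nat_lit 1140) (nat_lit 24772272289) (nat_lit 1216) (nat_lit 6206139493) (nat_lit 162) (nat_lit 5) (nat_lit 177) (nat_lit 5) (nat_lit 178) (nat_lit 5) (nat_lit 287) (nat_lit 281) (nat_lit 152)) (XT.nd (nat_lit 78) (nat_lit 0) (nat_lit 76) (XT.lf (nat_lit 76) (nat_lit 1219641970) (nat_lit 0) (nat_lit 5606043416) (nat_lit 1216) (nat_lit 29474867703) (nat_lit 163) (nat_lit 5) (nat_lit 162) (nat_lit 5) (nat_lit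 178) (nat_lit 5) (nat_lit 288) (nat_lit 281) (nat_lit 151)) (XT.lf (nat_lit 0) (nat_lit 9830205566) (nat_lit 1140) (nat_lit 8444186105) (nat_lit 1216) (nat_lit 19002851718) (nat_lit 163) (nat_lit 5) (nat_lit 178) (nat_lit 5) (nat_lit 179) (nat_lit 5) (nat_lit 289) (nat_lit 281) (nat_lit 150)))) (XT.nd (nat_lit 78) (nat_lit 988) (nat_lit 0) (XT.lf (nat_lit 0) (nat_lit 13291021496) (nat_lit 1140) (nat_lit 18507876233) (nat_lit 1216) (nat_lit 6494697825) (nat_lit 164) (nat_lit 5) (nat_lit 179) (nat_lit 5) (nat_lit 180) (nat_lit 5) (nat_lit 290) (nat_lit 281) (nat_lit 149)) (XT.nd (nat_lit 78) (nat_lit 988) (nat_lit 0) (XT.lf (nat_lit 76) (nat_lit 10256338556) (nat_lit 0) (nat_lit 7034566736) (nat_lit 1216) (nat_lit 22058888215) (nat_lit 165) (nat_lit 5) (nat_lit 164) (nat_lit 5) (nat_lit 180) (nat_lit 5) (nat_lit 291) (nat_lit 281) (nat_lit 148)) (XT.lf (nat_lit 0) (nat_lit 208331202) (nat_lit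 1064) (nat_lit 21654597688) (nat_lit 1140) (nat_lit 18584716663) (nat_lit 151) (nat_lit 5) (nat_lit 165) (nat_lit 5) (nat_lit 166) (nat_lit 5) (nat_lit 292) (nat_lit 281) (nat_lit 147)))))) (XT.nd (nat_lit 390) (nat_lit 2356) (nat_lit 0) (XT.nd (nat_lit 156) (nat_lit 1140) (nat_lit 0) (XT.nd (nat_lit 78) (nat_lit 532) (nat_lit 0) (XT.lf (nat_lit 0) (nat_lit 27071980285) (nat_lit 1140) (nat_lit 10125563498) (nat_lit 76) (nat_lit 4390601778) (nat_lit 151) (nat_lit 5) (nat_lit 166) (nat_lit 5) (nat_lit 152) (nat_lit 5) (nat_lit 293) (nat_lit 281) (nat_lit 146)) (XT.lf (nat_lit 0) (nat_lit 21694857217) (nat_lit 532) (nat_lit 11269536449) (nat_lit 608) (nat_lit 9808597387) (nat_lit 144) (nat_lit 5) (nat_lit 151) (nat_lit 5) (nat_lit 152) (nat_lit 5) (nat_lit 294) (nat_lit 281) (nat_lit 145))) (XT.nd (nat_lit 78) (nat_lit 608) (nat_lit 0) (XT.lf (nat_lit 0) (nat_lit 11367543035) (nat_lit 532)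 (nat_lit 28147758151) (nat_lit 608) (nat_lit 4490868829) (nat_lit 137) (nat_lit 5) (nat_lit 144) (nat_lit 5) (nat_lit 145) (nat_lit 5) (nat_lit 295) (nat_lit 281) (nat_lit 144)) (XT.nd (nat_lit 78) (nat_lit 0) (nat_lit 0) (XT.lf (nat_lit 0) (nat_lit 460263321) (nat_lit 532) (nat_lit 944538031) (nat_lit 608) (nat_lit 43885896930) (nat_lit 129) (nat_lit 5) (nat_lit 136) (nat_lit 5) (nat_lit 137) (nat_lit 5) (nat_lit 296) (nat_lit 281) (nat_lit 143)) (XT.lf (nat_lit 0) (nat_lit 8104273111) (nat_lit 608) (nat_lit 11051174473) (nat_lit 76) (nat_lit 27464621089) (nat_lit 129) (nat_lit 5) (nat_lit 137) (nat_lit 5) (nat_lit 130) (nat_lit 5) (nat_lit 297) (nat_lit 281) (nat_lit 142))))) (XT.nd (nat_lit 234) (nat_lit 912) (nat_lit 0) (XT.nd (nat_lit 78) (nat_lit 912) (nat_lit 0) (XT.lf (nat_lit 0) (nat_lit 15475290476) (nat_lit 608) (nat_lit 23210357213) (nat_lit 76) (nat_lit 9320168939) (nat_lit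 122) (nat_lit 5) (nat_lit 130) (nat_lit 5) (nat_lit 123) (nat_lit 5) (nat_lit 298) (nat_lit 281) (nat_lit 141)) (XT.nd (nat_lit 78) (nat_lit 456) (nat_lit 0) (XT.lf (nat_lit 0) (nat_lit 13268746154) (nat_lit 456) (nat_lit 10378435826) (nat_lit 532) (nat_lit 25800706212) (nat_lit 116) (nat_lit 5) (nat_lit 122) (nat_lit 5) (nat_lit 123) (nat_lit 5) (nat_lit 299) (nat_lit 281) (nat_lit 140)) (XT.lf (nat_lit 0) (nat_lit 928104675) (nat_lit 456) (nat_lit 31732403870) (nat_lit 532) (nat_lit 18288575200) (nat_lit 110) (nat_lit 5) (nat_lit 116) (nat_lit 5) (nat_lit 117) (nat_lit 5) (nat_lit 300) (nat_lit 281) (nat_lit 139)))) (XT.nd (nat_lit 78) (nat_lit 912) (nat_lit 0) (XT.lf (nat_lit 0) (nat_lit 40536388472) (nat_lit 456) (nat_lit 2061070324) (nat_lit 532) (nat_lit 9913696921) (nat_lit 110) (nat_lit 5) (nat_lit 116) (nat_lit 5) (nat_lit 117) (nat_lit 5) (nat_lit 301) (nat_lit 281) (nat_lit 138))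 (XT.nd (nat_lit 78) (nat_lit 532) (nat_lit 0) (XT.lf (nat_lit 0) (nat_lit 28241733710) (nat_lit 380) (nat_lit 25337616684) (nat_lit 456) (nat_lit 555543182) (nat_lit 105) (nat_lit 5) (nat_lit 110) (nat_lit 5) (nat_lit 111) (nat_lit 5) (nat_lit 302) (nat_lit 281) (nat_lit 137)) (XT.lf (nat_lit 0) (nat_lit 9431384579) (nat_lit 532) (nat_lit 40820644292) (nat_lit 76) (nat_lit 5574867736) (nat_lit 98) (nat_lit 5) (nat_lit 105) (nat_lit 5) (nat_lit 99) (nat_lit 5) (nat_lit 303) (nat_lit 281) (nat_lit 136))))))))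
noncomputable def xc114 : XT := (XT.nd (nat_lit 35958) (nat_lit 0) (nat_lit 3952) (XT.nd (nat_lit 858) (nat_lit 1520) (nat_lit 0) (XT.nd (nat_lit 390) (nat_lit 1672) (nat_lit 0) (XT.nd (nat_lit 156) (nat_lit 760) (nat_lit 0) (XT.nd (nat_lit 78) (nat_lit 0) (nat_lit 0) (XT.lf (nat_lit 0) (nat_lit 641347955) (nat_lit 380) (nat_lit 19793151862) (nat_lit 456) (nat_lit 37152989535) (nat_lit 93) (nat_lit 5) (nat_lit 98) (nat_lit 5) (nat_lit 99) (nat_lit 5) (nat_lit 304) (nat_lit 281) (nat_lit 135)) (XT.lf (nat_lit 0) (nat_lit 32526541973) (nat_lit 456) (nat_lit 14518748550) (nat_lit 76) (nat_lit 12374662360) (nat_lit 93) (nat_lit 5) (nat_lit 99) (nat_lit 5) (nat_lit 94) (nat_lit 5) (nat_lit 305) (nat_lit 281) (nat_lit 134))) (XT.nd (nat_lit 78) (nat_lit 380) (nat_lit 0) (XT.lf (nat_lit 0) (nat_lit 30420625263) (nat_lit 380) (nat_lit 15292124640) (nat_lit 456) (nat_lit 15616606852) (nat_lit 88)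 (nat_lit 5) (nat_lit 93) (nat_lit 5) (nat_lit 94) (nat_lit 5) (nat_lit 306) (nat_lit 281) (nat_lit 133)) (XT.nd (nat_lit 78) (nat_lit 76) (nat_lit 0) (XT.lf (nat_lit 0) (nat_lit 14689072201) (nat_lit 304) (nat_lit 45332283555) (nat_lit 380) (nat_lit 3298986324) (nat_lit 84) (nat_lit 5) (nat_lit 88) (nat_lit 5) (nat_lit 89) (nat_lit 5) (nat_lit 307) (nat_lit 281) (nat_lit 132)) (XT.lf (nat_lit 0) (nat_lit 9919704524) (nat_lit 380) (nat_lit 2441944315) (nat_lit 76) (nat_lit 53032257235) (nat_lit 83) (nat_lit 5) (nat_lit 88) (nat_lit 5) (nat_lit 84) (nat_lit 5) (nat_lit 308) (nat_lit 281) (nat_lit 131))))) (XT.nd (nat_lit 234) (nat_lit 684) (nat_lit 0) (XT.nd (nat_lit 78) (nat_lit 608) (nat_lit 0) (XT.lf (nat_lit 0) (nat_lit 24399297192) (nat_lit 456) (nat_lit 20839002198) (nat_lit 76) (nat_lit 22311826538) (nat_lit 78) (nat_lit 5) (nat_lit 84) (nat_lit 5) (nat_lit 79) (nat_lit 5) (nat_lit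 309) (nat_lit 281) (nat_lit 130)) (XT.nd (nat_lit 78) (nat_lit 304) (nat_lit 0) (XT.lf (nat_lit 0) (nat_lit 28997297462) (nat_lit 304) (nat_lit 11032181625) (nat_lit 380) (nat_lit 29771882658) (nat_lit 74) (nat_lit 5) (nat_lit 78) (nat_lit 5) (nat_lit 79) (nat_lit 5) (nat_lit 310) (nat_lit 281) (nat_lit 129)) (XT.lf (nat_lit 0) (nat_lit 9544100710) (nat_lit 304) (nat_lit 47442446970) (nat_lit 380) (nat_lit 15162253446) (nat_lit 70) (nat_lit 5) (nat_lit 74) (nat_lit 5) (nat_lit 75) (nat_lit 5) (nat_lit 311) (nat_lit 281) (nat_lit 128)))) (XT.nd (nat_lit 78) (nat_lit 608) (nat_lit 0) (XT.lf (nat_lit 0) (nat_lit 707779481) (nat_lit 380) (nat_lit 11458806617) (nat_lit 76) (nat_lit 62430976170) (nat_lit 69) (nat_lit 5) (nat_lit 74) (nat_lit 5) (nat_lit 70) (nat_lit 5) (nat_lit 312) (nat_lit 281) (nat_lit 127)) (XT.nd (nat_lit 78) (nat_lit 304) (nat_lit 0) (XT.lf (nat_lit 0) (nat_lit 17715916441)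 (nat_lit 380) (nat_lit 34470349774) (nat_lit 76) (nat_lit 24958248910) (nat_lit 65) (nat_lit 5) (nat_lit 70) (nat_lit 5) (nat_lit 66) (nat_lit 5) (nat_lit 313) (nat_lit 281) (nat_lit 126)) (XT.lf (nat_lit 0) (nat_lit 20205507963) (nat_lit 304) (nat_lit 15803115758) (nat_lit 380) (nat_lit 43797169602) (nat_lit 61) (nat_lit 5) (nat_lit 65) (nat_lit 5) (nat_lit 66) (nat_lit 5) (nat_lit 314) (nat_lit 281) (nat_lit 125)))))) (XT.nd (nat_lit 390) (nat_lit 760) (nat_lit 0) (XT.nd (nat_lit 156) (nat_lit 532) (nat_lit 0) (XT.nd (nat_lit 78) (nat_lit 228) (nat_lit 0) (XT.lf (nat_lit 0) (nat_lit 55787707019) (nat_lit 380) (nat_lit 4475574473) (nat_lit 76) (nat_lit 22319704198) (nat_lit 61) (nat_lit 5) (nat_lit 66) (nat_lit 5) (nat_lit 62) (nat_lit 5) (nat_lit 315) (nat_lit 281) (nat_lit 124)) (XT.lf (nat_lit 0) (nat_lit 54302899306) (nat_lit 228) (nat_lit 22932505199) (nat_lit 304) (nat_lit 8243245726)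 (nat_lit 58) (nat_lit 5) (nat_lit 61) (nat_lit 5) (nat_lit 62) (nat_lit 5) (nat_lit 316) (nat_lit 281) (nat_lit 123))) (XT.nd (nat_lit 78) (nat_lit 228) (nat_lit 0) (XT.lf (nat_lit 0) (nat_lit 11491859903) (nat_lit 304) (nat_lit 60634901167) (nat_lit 76) (nat_lit 16374856779) (nat_lit 54) (nat_lit 5) (nat_lit 58) (nat_lit 5) (nat_lit 55) (nat_lit 5) (nat_lit 317) (nat_lit 281) (nat_lit 122)) (XT.nd (nat_lit 78) (nat_lit 228) (nat_lit 0) (XT.lf (nat_lit 0) (nat_lit 32598650263) (nat_lit 304) (nat_lit 1473707698) (nat_lit 76) (nat_lit 57584267100) (nat_lit 54) (nat_lit 5) (nat_lit 58) (nat_lit 5) (nat_lit 55) (nat_lit 5) (nat_lit 318) (nat_lit 281) (nat_lit 121)) (XT.lf (nat_lit 0) (nat_lit 55416110432) (nat_lit 304) (nat_lit 33164010369) (nat_lit 76) (nat_lit 6369603905) (nat_lit 51) (nat_lit 5) (nat_lit 55) (nat_lit 5) (nat_lit 52) (nat_lit 5) (nat_lit 319) (nat_lit 281) (nat_lit 120)))))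 (XT.nd (nat_lit 234) (nat_lit 228) (nat_lit 0) (XT.nd (nat_lit 78) (nat_lit 304) (nat_lit 0) (XT.lf (nat_lit 0) (nat_lit 30072245877) (nat_lit 228) (nat_lit 49948883635) (nat_lit 304) (nat_lit 18366951128) (nat_lit 48) (nat_lit 5) (nat_lit 51) (nat_lit 5) (nat_lit 52) (nat_lit 5) (nat_lit 320) (nat_lit 281) (nat_lit 119)) (XT.nd (nat_lit 78) (nat_lit 228) (nat_lit 0) (XT.lf (nat_lit 0) (nat_lit 4125963994) (nat_lit 304) (nat_lit 4867598163) (nat_lit 76) (nat_lit 92993385283) (nat_lit 47) (nat_lit 5) (nat_lit 51) (nat_lit 5) (nat_lit 48) (nat_lit 5) (nat_lit 321) (nat_lit 281) (nat_lit 118)) (XT.lf (nat_lit 0) (nat_lit 28304010002) (nat_lit 304) (nat_lit 43286171341) (nat_lit 76) (nat_lit 34141912112) (nat_lit 44) (nat_lit 5) (nat_lit 48) (nat_lit 5) (nat_lit 45) (nat_lit 5) (nat_lit 322) (nat_lit 281) (nat_lit 117)))) (XT.nd (nat_lit 34320) (nat_lit 0) (nat_lit 10032) (XT.lf (nat_lit 0)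 (nat_lit 23937453499) (nat_lit 228) (nat_lit 30123530931) (nat_lit 304) (nat_lit 55592413138) (nat_lit 41) (nat_lit 5) (nat_lit 44) (nat_lit 5) (nat_lit 45) (nat_lit 5) (nat_lit 323) (nat_lit 281) (nat_lit 116)) (XT.nd (nat_lit 78) (nat_lit 0) (nat_lit 0) (XT.lf (nat_lit 0) (nat_lit 14921612407) (nat_lit 1140) (nat_lit 516424307) (nat_lit 1140) (nat_lit 516424307) (nat_lit 173) (nat_lit 3) (nat_lit 188) (nat_lit 3) (nat_lit 188) (nat_lit 5) (nat_lit 282) (nat_lit 282) (nat_lit 156)) (XT.lf (nat_lit 76) (nat_lit 22230701875) (nat_lit 0) (nat_lit 8669190089) (nat_lit 1140) (nat_lit 1797241629) (nat_lit 174) (nat_lit 5) (nat_lit 173) (nat_lit 3) (nat_lit 188) (nat_lit 5) (nat_lit 283) (nat_lit 282) (nat_lit 155))))))) (XT.nd (nat_lit 858) (nat_lit 4408) (nat_lit 0) (XT.nd (nat_lit 390) (nat_lit 684) (nat_lit 0) (XT.nd (nat_lit 156) (nat_lit 1064) (nat_lit 0) (XT.nd (nat_lit 78) (nat_lit 0)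 (nat_lit 76) (XT.lf (nat_lit 76) (nat_lit 13269101397) (nat_lit 0) (nat_lit 19013180134) (nat_lit 1140) (nat_lit 1234299930) (nat_lit 175) (nat_lit 5) (nat_lit 174) (nat_lit 5) (nat_lit 189) (nat_lit 5) (nat_lit 284) (nat_lit 282) (nat_lit 154)) (XT.lf (nat_lit 76) (nat_lit 3981579973) (nat_lit 0) (nat_lit 30021176784) (nat_lit 1140) (nat_lit 366187802) (nat_lit 176) (nat_lit 5) (nat_lit 175) (nat_lit 5) (nat_lit 190) (nat_lit 5) (nat_lit 285) (nat_lit 282) (nat_lit 153))) (XT.nd (nat_lit 78) (nat_lit 0) (nat_lit 76) (XT.lf (nat_lit 0) (nat_lit 931350066) (nat_lit 1140) (nat_lit 5615305718) (nat_lit 1216) (nat_lit 28705223852) (nat_lit 160) (nat_lit 5) (nat_lit 175) (nat_lit 5) (nat_lit 176) (nat_lit 5) (nat_lit 286) (nat_lit 282) (nat_lit 152)) (XT.nd (nat_lit 78) (nat_lit 0) (nat_lit 76) (XT.lf (nat_lit 0) (nat_lit 2656721206) (nat_lit 1140) (nat_lit 15555097058) (nat_lit 1216) (nat_lit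 17955928954) (nat_lit 161) (nat_lit 5) (nat_lit 176) (nat_lit 5) (nat_lit 177) (nat_lit 5) (nat_lit 287) (nat_lit 282) (nat_lit 151)) (XT.lf (nat_lit 0) (nat_lit 4759542930) (nat_lit 1140) (nat_lit 25894159863) (nat_lit 1216) (nat_lit 6466979840) (nat_lit 162) (nat_lit 5) (nat_lit 177) (nat_lit 5) (nat_lit 178) (nat_lit 5) (nat_lit 288) (nat_lit 282) (nat_lit 150))))) (XT.nd (nat_lit 234) (nat_lit 836) (nat_lit 0) (XT.nd (nat_lit 78) (nat_lit 0) (nat_lit 76) (XT.lf (nat_lit 76) (nat_lit 1394004181) (nat_lit 0) (nat_lit 5927442082) (nat_lit 1216) (nat_lit 30789209780) (nat_lit 163) (nat_lit 5) (nat_lit 162) (nat_lit 5) (nat_lit 178) (nat_lit 5) (nat_lit 289) (nat_lit 282) (nat_lit 149)) (XT.nd (nat_lit 78) (nat_lit 0) (nat_lit 76) (XT.lf (nat_lit 0) (nat_lit 10468460189) (nat_lit 1140) (nat_lit 8753347927) (nat_lit 1216) (nat_lit 19914618538) (nat_lit 163) (nat_lit 5) (nat_lit 178) (nat_lit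 5) (nat_lit 179) (nat_lit 5) (nat_lit 290) (nat_lit 282) (nat_lit 148)) (XT.lf (nat_lit 0) (nat_lit 14096086583) (nat_lit 1140) (nat_lit 19318677240) (nat_lit 1216) (nat_lit 6789032685) (nat_lit 164) (nat_lit 5) (nat_lit 179) (nat_lit 5) (nat_lit 180) (nat_lit 5) (nat_lit 291) (nat_lit 282) (nat_lit 147)))) (XT.nd (nat_lit 78) (nat_lit 988) (nat_lit 0) (XT.lf (nat_lit 76) (nat_lit 10880463508) (nat_lit 0) (nat_lit 7409879877) (nat_lit 1216) (nat_lit 23022642151) (nat_lit 165) (nat_lit 5) (nat_lit 164) (nat_lit 5) (nat_lit 180) (nat_lit 5) (nat_lit 292) (nat_lit 282) (nat_lit 146)) (XT.nd (nat_lit 78) (nat_lit 0) (nat_lit 0) (XT.lf (nat_lit 0) (nat_lit 331259832) (nat_lit 1064) (nat_lit 22754150483) (nat_lit 1140) (nat_lit 19380498552) (nat_lit 151) (nat_lit 5) (nat_lit 165) (nat_lit 5) (nat_lit 166) (nat_lit 5) (nat_lit 293) (nat_lit 282) (nat_lit 145)) (XT.lf (nat_lit 0) (nat_lit 28548601459)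 (nat_lit 1140) (nat_lit 10520610486) (nat_lit 76) (nat_lit 4594422691) (nat_lit 151) (nat_lit 5) (nat_lit 166) (nat_lit 5) (nat_lit 152) (nat_lit 5) (nat_lit 294) (nat_lit 282) (nat_lit 144)))))) (XT.nd (nat_lit 390) (nat_lit 2204) (nat_lit 0) (XT.nd (nat_lit 156) (nat_lit 1140) (nat_lit 0) (XT.nd (nat_lit 78) (nat_lit 532) (nat_lit 0) (XT.lf (nat_lit 0) (nat_lit 22887642845) (nat_lit 532) (nat_lit 11843173040) (nat_lit 608) (nat_lit 10177061943) (nat_lit 144) (nat_lit 5) (nat_lit 151) (nat_lit 5) (nat_lit 152) (nat_lit 5) (nat_lit 295) (nat_lit 282) (nat_lit 143)) (XT.lf (nat_lit 0) (nat_lit 12044615711) (nat_lit 532) (nat_lit 29559976213) (nat_lit 608) (nat_lit 4598274437) (nat_lit 137) (nat_lit 5) (nat_lit 144) (nat_lit 5) (nat_lit 145) (nat_lit 5) (nat_lit 296) (nat_lit 282) (nat_lit 142))) (XT.nd (nat_lit 78) (nat_lit 532) (nat_lit 0) (XT.lf (nat_lit 0) (nat_lit 591271165) (nat_lit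 532) (nat_lit 994191273) (nat_lit 608) (nat_lit 45966267297) (nat_lit 129) (nat_lit 5) (nat_lit 136) (nat_lit 5) (nat_lit 137) (nat_lit 5) (nat_lit 297) (nat_lit 282) (nat_lit 141)) (XT.nd (nat_lit 78) (nat_lit 532) (nat_lit 0) (XT.lf (nat_lit 0) (nat_lit 8614627428) (nat_lit 608) (nat_lit 11497522280) (nat_lit 76) (nat_lit 28835586436) (nat_lit 129) (nat_lit 5) (nat_lit 137) (nat_lit 5) (nat_lit 130) (nat_lit 5) (nat_lit 298) (nat_lit 282) (nat_lit 140)) (XT.lf (nat_lit 0) (nat_lit 16350200278) (nat_lit 608) (nat_lit 24264521429) (nat_lit 76) (nat_lit 9788178304) (nat_lit 122) (nat_lit 5) (nat_lit 130) (nat_lit 5) (nat_lit 123) (nat_lit 5) (nat_lit 299) (nat_lit 282) (nat_lit 139))))) (XT.nd (nat_lit 234) (nat_lit 1292) (nat_lit 0) (XT.nd (nat_lit 78) (nat_lit 456) (nat_lit 0) (XT.lf (nat_lit 0) (nat_lit 14035488500) (nat_lit 456) (nat_lit 10891374446) (nat_lit 532) (nat_lit 26990335151)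 (nat_lit 116) (nat_lit 5) (nat_lit 122) (nat_lit 5) (nat_lit 123) (nat_lit 5) (nat_lit 300) (nat_lit 282) (nat_lit 138)) (XT.nd (nat_lit 78) (nat_lit 0) (nat_lit 0) (XT.lf (nat_lit 0) (nat_lit 1077793950) (nat_lit 456) (nat_lit 33309475120) (nat_lit 532) (nat_lit 19106299812) (nat_lit 110) (nat_lit 5) (nat_lit 116) (nat_lit 5) (nat_lit 117) (nat_lit 5) (nat_lit 301) (nat_lit 282) (nat_lit 137)) (XT.lf (nat_lit 0) (nat_lit 42661573649) (nat_lit 456) (nat_lit 2155029608) (nat_lit 532) (nat_lit 10317282579) (nat_lit 110) (nat_lit 5) (nat_lit 116) (nat_lit 5) (nat_lit 117) (nat_lit 5) (nat_lit 302) (nat_lit 282) (nat_lit 136)))) (XT.nd (nat_lit 78) (nat_lit 912) (nat_lit 0) (XT.lf (nat_lit 0) (nat_lit 29752028214) (nat_lit 380) (nat_lit 26592337488) (nat_lit 456) (nat_lit 494548720) (nat_lit 105) (nat_lit 5) (nat_lit 110) (nat_lit 5) (nat_lit 111) (nat_lit 5) (nat_lit 303) (nat_lit 282) (nat_lit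 135)) (XT.nd (nat_lit 78) (nat_lit 380) (nat_lit 0) (XT.lf (nat_lit 0) (nat_lit 9986911503) (nat_lit 532) (nat_lit 42761948986) (nat_lit 76) (nat_lit 5866730546) (nat_lit 98) (nat_lit 5) (nat_lit 105) (nat_lit 5) (nat_lit 99) (nat_lit 5) (nat_lit 304) (nat_lit 282) (nat_lit 134)) (XT.lf (nat_lit 0) (nat_lit 770284204) (nat_lit 380) (nat_lit 20766831477) (nat_lit 456) (nat_lit 38927196013) (nat_lit 93) (nat_lit 5) (nat_lit 98) (nat_lit 5) (nat_lit 99) (nat_lit 5) (nat_lit 305) (nat_lit 282) (nat_lit 133))))))))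
noncomputable def xc115 : XT := (XT.nd (nat_lit 36036) (nat_lit 0) (nat_lit 3040) (XT.nd (nat_lit 858) (nat_lit 1292) (nat_lit 0) (XT.nd (nat_lit 390) (nat_lit 1292) (nat_lit 0) (XT.nd (nat_lit 156) (nat_lit 760) (nat_lit 0) (XT.nd (nat_lit 78) (nat_lit 380) (nat_lit 0) (XT.lf (nat_lit 0) (nat_lit 34230054274) (nat_lit 456) (nat_lit 15150145608) (nat_lit 76) (nat_lit 13008315659) (nat_lit 93) (nat_lit 5) (nat_lit 99) (nat_lit 5) (nat_lit 94) (nat_lit 5) (nat_lit 306) (nat_lit 282) (nat_lit 132)) (XT.lf (nat_lit 0) (nat_lit 32033486914) (nat_lit 380) (nat_lit 16039292931) (nat_lit 456) (nat_lit 16320699233) (nat_lit 88) (nat_lit 5) (nat_lit 93) (nat_lit 5) (nat_lit 94) (nat_lit 5) (nat_lit 307) (nat_lit 282) (nat_lit 131))) (XT.nd (nat_lit 78) (nat_lit 456) (nat_lit 0) (XT.lf (nat_lit 0) (nat_lit 15514839361) (nat_lit 304) (nat_lit 47579471536) (nat_lit 380) (nat_lit 3389783341) (nat_lit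 84) (nat_lit 5) (nat_lit 88) (nat_lit 5) (nat_lit 89) (nat_lit 5) (nat_lit 308) (nat_lit 282) (nat_lit 130)) (XT.nd (nat_lit 78) (nat_lit 380) (nat_lit 0) (XT.lf (nat_lit 0) (nat_lit 10484932912) (nat_lit 380) (nat_lit 2475598008) (nat_lit 76) (nat_lit 55700893000) (nat_lit 83) (nat_lit 5) (nat_lit 88) (nat_lit 5) (nat_lit 84) (nat_lit 5) (nat_lit 309) (nat_lit 282) (nat_lit 129)) (XT.lf (nat_lit 0) (nat_lit 25686217677) (nat_lit 456) (nat_lit 21793129412) (nat_lit 76) (nat_lit 23446181075) (nat_lit 78) (nat_lit 5) (nat_lit 84) (nat_lit 5) (nat_lit 79) (nat_lit 5) (nat_lit 310) (nat_lit 282) (nat_lit 128))))) (XT.nd (nat_lit 234) (nat_lit 608) (nat_lit 0) (XT.nd (nat_lit 78) (nat_lit 380) (nat_lit 0) (XT.lf (nat_lit 0) (nat_lit 30532467806) (nat_lit 304) (nat_lit 11563072506) (nat_lit 380) (nat_lit 31193861053) (nat_lit 74) (nat_lit 5) (nat_lit 78) (nat_lit 5) (nat_lit 79) (nat_lit 5) (nat_lit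 311) (nat_lit 282) (nat_lit 127)) (XT.nd (nat_lit 78) (nat_lit 76) (nat_lit 0) (XT.lf (nat_lit 0) (nat_lit 10105942826) (nat_lit 304) (nat_lit 49792447179) (nat_lit 380) (nat_lit 15855889205) (nat_lit 70) (nat_lit 5) (nat_lit 74) (nat_lit 5) (nat_lit 75) (nat_lit 5) (nat_lit 312) (nat_lit 282) (nat_lit 126)) (XT.lf (nat_lit 0) (nat_lit 803376775) (nat_lit 380) (nat_lit 11949861936) (nat_lit 76) (nat_lit 65572315416) (nat_lit 69) (nat_lit 5) (nat_lit 74) (nat_lit 5) (nat_lit 70) (nat_lit 5) (nat_lit 313) (nat_lit 282) (nat_lit 125)))) (XT.nd (nat_lit 78) (nat_lit 304) (nat_lit 0) (XT.lf (nat_lit 0) (nat_lit 18660024105) (nat_lit 380) (nat_lit 36112716118) (nat_lit 76) (nat_lit 26227175110) (nat_lit 65) (nat_lit 5) (nat_lit 70) (nat_lit 5) (nat_lit 66) (nat_lit 5) (nat_lit 314) (nat_lit 282) (nat_lit 124)) (XT.nd (nat_lit 78) (nat_lit 0) (nat_lit 0) (XT.lf (nat_lit 0) (nat_lit 21294608325)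 (nat_lit 304) (nat_lit 16570739382) (nat_lit 380) (nat_lit 45928973933) (nat_lit 61) (nat_lit 5) (nat_lit 65) (nat_lit 5) (nat_lit 66) (nat_lit 5) (nat_lit 315) (nat_lit 282) (nat_lit 123)) (XT.lf (nat_lit 0) (nat_lit 58630910840) (nat_lit 380) (nat_lit 4622810606) (nat_lit 76) (nat_lit 23456729864) (nat_lit 61) (nat_lit 5) (nat_lit 66) (nat_lit 5) (nat_lit 62) (nat_lit 5) (nat_lit 316) (nat_lit 282) (nat_lit 122)))))) (XT.nd (nat_lit 390) (nat_lit 304) (nat_lit 0) (XT.nd (nat_lit 156) (nat_lit 456) (nat_lit 0) (XT.nd (nat_lit 78) (nat_lit 304) (nat_lit 0) (XT.lf (nat_lit 0) (nat_lit 57092392784) (nat_lit 228) (nat_lit 24056752316) (nat_lit 304) (nat_lit 8601812713) (nat_lit 58) (nat_lit 5) (nat_lit 61) (nat_lit 5) (nat_lit 62) (nat_lit 5) (nat_lit 317) (nat_lit 282) (nat_lit 121)) (XT.lf (nat_lit 0) (nat_lit 12117421266) (nat_lit 304) (nat_lit 63591984263) (nat_lit 76) (nat_lit 17215703302)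 (nat_lit 54) (nat_lit 5) (nat_lit 58) (nat_lit 5) (nat_lit 55) (nat_lit 5) (nat_lit 318) (nat_lit 282) (nat_lit 120))) (XT.nd (nat_lit 78) (nat_lit 456) (nat_lit 0) (XT.lf (nat_lit 0) (nat_lit 34277124080) (nat_lit 304) (nat_lit 1476286453) (nat_lit 76) (nat_lit 60484531583) (nat_lit 54) (nat_lit 5) (nat_lit 58) (nat_lit 5) (nat_lit 55) (nat_lit 5) (nat_lit 319) (nat_lit 282) (nat_lit 119)) (XT.nd (nat_lit 78) (nat_lit 228) (nat_lit 0) (XT.lf (nat_lit 0) (nat_lit 58234022849) (nat_lit 304) (nat_lit 34751893658) (nat_lit 76) (nat_lit 6709826027) (nat_lit 51) (nat_lit 5) (nat_lit 55) (nat_lit 5) (nat_lit 52) (nat_lit 5) (nat_lit 320) (nat_lit 282) (nat_lit 118)) (XT.lf (nat_lit 0) (nat_lit 31644159772) (nat_lit 228) (nat_lit 52423546483) (nat_lit 304) (nat_lit 19238360237) (nat_lit 48) (nat_lit 5) (nat_lit 51) (nat_lit 5) (nat_lit 52) (nat_lit 5) (nat_lit 321) (nat_lit 282) (nat_lit 117)))))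 (XT.nd (nat_lit 34554) (nat_lit 0) (nat_lit 9804) (XT.nd (nat_lit 78) (nat_lit 228) (nat_lit 0) (XT.lf (nat_lit 0) (nat_lit 4376093155) (nat_lit 304) (nat_lit 5045007995) (nat_lit 76) (nat_lit 97663830123) (nat_lit 47) (nat_lit 5) (nat_lit 51) (nat_lit 5) (nat_lit 48) (nat_lit 5) (nat_lit 322) (nat_lit 282) (nat_lit 116)) (XT.nd (nat_lit 34398) (nat_lit 0) (nat_lit 9804) (XT.lf (nat_lit 0) (nat_lit 29761779021) (nat_lit 304) (nat_lit 45385292543) (nat_lit 76) (nat_lit 35870303214) (nat_lit 44) (nat_lit 5) (nat_lit 48) (nat_lit 5) (nat_lit 45) (nat_lit 5) (nat_lit 323) (nat_lit 282) (nat_lit 115)) (XT.lf (nat_lit 0) (nat_lit 15763071704) (nat_lit 1140) (nat_lit 493030065) (nat_lit 1140) (nat_lit 493030065) (nat_lit 173) (nat_lit 3) (nat_lit 188) (nat_lit 3) (nat_lit 188) (nat_lit 5) (nat_lit 283) (nat_lit 283) (nat_lit 154)))) (XT.nd (nat_lit 78) (nat_lit 0) (nat_lit 76) (XT.lf (nat_lit 76)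 (nat_lit 23437846381) (nat_lit 0) (nat_lit 9189632908) (nat_lit 1140) (nat_lit 1698669626) (nat_lit 174) (nat_lit 5) (nat_lit 173) (nat_lit 3) (nat_lit 188) (nat_lit 5) (nat_lit 284) (nat_lit 283) (nat_lit 153)) (XT.nd (nat_lit 78) (nat_lit 0) (nat_lit 76) (XT.lf (nat_lit 76) (nat_lit 14031911340) (nat_lit 0) (nat_lit 20038540843) (nat_lit 1140) (nat_lit 1116390393) (nat_lit 175) (nat_lit 5) (nat_lit 174) (nat_lit 5) (nat_lit 189) (nat_lit 5) (nat_lit 285) (nat_lit 283) (nat_lit 152)) (XT.lf (nat_lit 76) (nat_lit 4283271708) (nat_lit 0) (nat_lit 31585693546) (nat_lit 1140) (nat_lit 213114640) (nat_lit 176) (nat_lit 5) (nat_lit 175) (nat_lit 5) (nat_lit 190) (nat_lit 5) (nat_lit 286) (nat_lit 283) (nat_lit 151))))))) (XT.nd (nat_lit 858) (nat_lit 4028) (nat_lit 0) (XT.nd (nat_lit 390) (nat_lit 1748) (nat_lit 0) (XT.nd (nat_lit 156) (nat_lit 0) (nat_lit 152) (XT.nd (nat_lit 78) (nat_lit 0)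 (nat_lit 76) (XT.lf (nat_lit 0) (nat_lit 1137954009) (nat_lit 1140) (nat_lit 5794854628) (nat_lit 1216) (nat_lit 30076558966) (nat_lit 160) (nat_lit 5) (nat_lit 175) (nat_lit 5) (nat_lit 176) (nat_lit 5) (nat_lit 287) (nat_lit 283) (nat_lit 150)) (XT.lf (nat_lit 0) (nat_lit 2942388854) (nat_lit 1140) (nat_lit 16229116525) (nat_lit 1216) (nat_lit 18799753850) (nat_lit 161) (nat_lit 5) (nat_lit 176) (nat_lit 5) (nat_lit 177) (nat_lit 5) (nat_lit 288) (nat_lit 283) (nat_lit 149))) (XT.nd (nat_lit 78) (nat_lit 0) (nat_lit 0) (XT.lf (nat_lit 0) (nat_lit 5143602674) (nat_lit 1140) (nat_lit 27082993896) (nat_lit 1216) (nat_lit 6745461142) (nat_lit 162) (nat_lit 5) (nat_lit 177) (nat_lit 5) (nat_lit 178) (nat_lit 5) (nat_lit 289) (nat_lit 283) (nat_lit 148)) (XT.nd (nat_lit 78) (nat_lit 0) (nat_lit 76) (XT.lf (nat_lit 76) (nat_lit 1566543494) (nat_lit 0) (nat_lit 6261089918) (nat_lit 1216) (nat_lit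 32184088584) (nat_lit 163) (nat_lit 5) (nat_lit 162) (nat_lit 5) (nat_lit 178) (nat_lit 5) (nat_lit 290) (nat_lit 283) (nat_lit 147)) (XT.lf (nat_lit 0) (nat_lit 11124984645) (nat_lit 1140) (nat_lit 9088477924) (nat_lit 1216) (nat_lit 20875541513) (nat_lit 163) (nat_lit 5) (nat_lit 178) (nat_lit 5) (nat_lit 179) (nat_lit 5) (nat_lit 291) (nat_lit 283) (nat_lit 146))))) (XT.nd (nat_lit 234) (nat_lit 1064) (nat_lit 0) (XT.nd (nat_lit 78) (nat_lit 988) (nat_lit 0) (XT.lf (nat_lit 0) (nat_lit 14928341262) (nat_lit 1140) (nat_lit 20180672050) (nat_lit 1216) (nat_lit 7100910594) (nat_lit 164) (nat_lit 5) (nat_lit 179) (nat_lit 5) (nat_lit 180) (nat_lit 5) (nat_lit 292) (nat_lit 283) (nat_lit 145)) (XT.nd (nat_lit 78) (nat_lit 988) (nat_lit 0) (XT.lf (nat_lit 76) (nat_lit 11525446343) (nat_lit 0) (nat_lit 7801765984) (nat_lit 1216) (nat_lit 24047524395) (nat_lit 165) (nat_lit 5) (nat_lit 164) (nat_lit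 5) (nat_lit 180) (nat_lit 5) (nat_lit 293) (nat_lit 283) (nat_lit 144)) (XT.lf (nat_lit 0) (nat_lit 449874587) (nat_lit 1064) (nat_lit 23907116883) (nat_lit 1140) (nat_lit 20228476818) (nat_lit 151) (nat_lit 5) (nat_lit 165) (nat_lit 5) (nat_lit 166) (nat_lit 5) (nat_lit 294) (nat_lit 283) (nat_lit 143)))) (XT.nd (nat_lit 78) (nat_lit 1064) (nat_lit 0) (XT.lf (nat_lit 0) (nat_lit 30087616258) (nat_lit 1140) (nat_lit 10945751045) (nat_lit 76) (nat_lit 4809895139) (nat_lit 151) (nat_lit 5) (nat_lit 166) (nat_lit 5) (nat_lit 152) (nat_lit 5) (nat_lit 295) (nat_lit 283) (nat_lit 142)) (XT.nd (nat_lit 78) (nat_lit 532) (nat_lit 0) (XT.lf (nat_lit 0) (nat_lit 24130022961) (nat_lit 532) (nat_lit 12444546901) (nat_lit 608) (nat_lit 10575288905) (nat_lit 144) (nat_lit 5) (nat_lit 151) (nat_lit 5) (nat_lit 152) (nat_lit 5) (nat_lit 296) (nat_lit 283) (nat_lit 141)) (XT.lf (nat_lit 0) (nat_lit 12745436542)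 (nat_lit 532) (nat_lit 31042356117) (nat_lit 608) (nat_lit 4721940691) (nat_lit 137) (nat_lit 5) (nat_lit 144) (nat_lit 5) (nat_lit 145) (nat_lit 5) (nat_lit 297) (nat_lit 283) (nat_lit 140)))))) (XT.nd (nat_lit 468) (nat_lit 1976) (nat_lit 0) (XT.nd (nat_lit 234) (nat_lit 912) (nat_lit 0) (XT.nd (nat_lit 78) (nat_lit 532) (nat_lit 0) (XT.lf (nat_lit 0) (nat_lit 718789079) (nat_lit 532) (nat_lit 1046101599) (nat_lit 608) (nat_lit 48161247801) (nat_lit 129) (nat_lit 5) (nat_lit 136) (nat_lit 5) (nat_lit 137) (nat_lit 5) (nat_lit 298) (nat_lit 283) (nat_lit 139)) (XT.nd (nat_lit 78) (nat_lit 532) (nat_lit 0) (XT.lf (nat_lit 0) (nat_lit 9140724478) (nat_lit 608) (nat_lit 11976061961) (nat_lit 76) (nat_lit 30275310694) (nat_lit 129) (nat_lit 5) (nat_lit 137) (nat_lit 5) (nat_lit 130) (nat_lit 5) (nat_lit 299) (nat_lit 283) (nat_lit 138)) (XT.lf (nat_lit 0) (nat_lit 17259452042) (nat_lit 608)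 (nat_lit 25381281610) (nat_lit 76) (nat_lit 10279402112) (nat_lit 122) (nat_lit 5) (nat_lit 130) (nat_lit 5) (nat_lit 123) (nat_lit 5) (nat_lit 300) (nat_lit 283) (nat_lit 137)))) (XT.nd (nat_lit 78) (nat_lit 456) (nat_lit 0) (XT.lf (nat_lit 0) (nat_lit 14830963640) (nat_lit 456) (nat_lit 11430516257) (nat_lit 532) (nat_lit 28248780371) (nat_lit 116) (nat_lit 5) (nat_lit 122) (nat_lit 5) (nat_lit 123) (nat_lit 5) (nat_lit 301) (nat_lit 283) (nat_lit 136)) (XT.nd (nat_lit 78) (nat_lit 0) (nat_lit 0) (XT.lf (nat_lit 0) (nat_lit 1225365318) (nat_lit 456) (nat_lit 34966287703) (nat_lit 532) (nat_lit 19973901290) (nat_lit 110) (nat_lit 5) (nat_lit 116) (nat_lit 5) (nat_lit 117) (nat_lit 5) (nat_lit 302) (nat_lit 283) (nat_lit 135)) (XT.lf (nat_lit 0) (nat_lit 44883872970) (nat_lit 456) (nat_lit 2254532352) (nat_lit 532) (nat_lit 10749610029) (nat_lit 110) (nat_lit 5) (nat_lit 116) (nat_lit 5)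 (nat_lit 117) (nat_lit 5) (nat_lit 303) (nat_lit 283) (nat_lit 134))))) (XT.nd (nat_lit 234) (nat_lit 684) (nat_lit 0) (XT.nd (nat_lit 78) (nat_lit 912) (nat_lit 0) (XT.lf (nat_lit 0) (nat_lit 31328707010) (nat_lit 380) (nat_lit 27910924856) (nat_lit 456) (nat_lit 438757678) (nat_lit 105) (nat_lit 5) (nat_lit 110) (nat_lit 5) (nat_lit 111) (nat_lit 5) (nat_lit 304) (nat_lit 283) (nat_lit 133)) (XT.nd (nat_lit 78) (nat_lit 380) (nat_lit 0) (XT.lf (nat_lit 0) (nat_lit 10562409183) (nat_lit 532) (nat_lit 44809590634) (nat_lit 76) (nat_lit 6171966778) (nat_lit 98) (nat_lit 5) (nat_lit 105) (nat_lit 5) (nat_lit 99) (nat_lit 5) (nat_lit 305) (nat_lit 283) (nat_lit 132)) (XT.lf (nat_lit 0) (nat_lit 896661317) (nat_lit 380) (nat_lit 21790680554) (nat_lit 456) (nat_lit 40797870554) (nat_lit 93) (nat_lit 5) (nat_lit 98) (nat_lit 5) (nat_lit 99) (nat_lit 5) (nat_lit 306) (nat_lit 283) (nat_lit 131))))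 (XT.nd (nat_lit 78) (nat_lit 684) (nat_lit 0) (XT.lf (nat_lit 0) (nat_lit 36011566242) (nat_lit 456) (nat_lit 15821901988) (nat_lit 76) (nat_lit 13672264486) (nat_lit 93) (nat_lit 5) (nat_lit 99) (nat_lit 5) (nat_lit 94) (nat_lit 5) (nat_lit 307) (nat_lit 283) (nat_lit 130)) (XT.nd (nat_lit 78) (nat_lit 304) (nat_lit 0) (XT.lf (nat_lit 0) (nat_lit 33718454129) (nat_lit 380) (nat_lit 16825440851) (nat_lit 456) (nat_lit 17067130602) (nat_lit 88) (nat_lit 5) (nat_lit 93) (nat_lit 5) (nat_lit 94) (nat_lit 5) (nat_lit 308) (nat_lit 283) (nat_lit 129)) (XT.lf (nat_lit 0) (nat_lit 16373405411) (nat_lit 304) (nat_lit 49940824980) (nat_lit 380) (nat_lit 3492014187) (nat_lit 84) (nat_lit 5) (nat_lit 88) (nat_lit 5) (nat_lit 89) (nat_lit 5) (nat_lit 309) (nat_lit 283) (nat_lit 128))))))))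
noncomputable def xc116 : XT := (XT.nd (nat_lit 36192) (nat_lit 0) (nat_lit 1672) (XT.nd (nat_lit 858) (nat_lit 456) (nat_lit 0) (XT.nd (nat_lit 390) (nat_lit 1140) (nat_lit 0) (XT.nd (nat_lit 156) (nat_lit 684) (nat_lit 0) (XT.nd (nat_lit 78) (nat_lit 380) (nat_lit 0) (XT.lf (nat_lit 0) (nat_lit 11071985147) (nat_lit 380) (nat_lit 2519157027) (nat_lit 76) (nat_lit 58501377925) (nat_lit 83) (nat_lit 5) (nat_lit 88) (nat_lit 5) (nat_lit 84) (nat_lit 5) (nat_lit 310) (nat_lit 283) (nat_lit 127)) (XT.lf (nat_lit 0) (nat_lit 27031259287) (nat_lit 456) (nat_lit 22803127927) (nat_lit 76) (nat_lit 24635508913) (nat_lit 78) (nat_lit 5) (nat_lit 84) (nat_lit 5) (nat_lit 79) (nat_lit 5) (nat_lit 311) (nat_lit 283) (nat_lit 126))) (XT.nd (nat_lit 78) (nat_lit 380) (nat_lit 0) (XT.lf (nat_lit 0) (nat_lit 32136465772) (nat_lit 304) (nat_lit 12122434113) (nat_lit 380) (nat_lit 32693131668) (nat_lit 74)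 (nat_lit 5) (nat_lit 78) (nat_lit 5) (nat_lit 79) (nat_lit 5) (nat_lit 312) (nat_lit 283) (nat_lit 125)) (XT.nd (nat_lit 78) (nat_lit 76) (nat_lit 0) (XT.lf (nat_lit 0) (nat_lit 10688008295) (nat_lit 304) (nat_lit 52262004106) (nat_lit 380) (nat_lit 16590201204) (nat_lit 70) (nat_lit 5) (nat_lit 74) (nat_lit 5) (nat_lit 75) (nat_lit 5) (nat_lit 313) (nat_lit 283) (nat_lit 124)) (XT.lf (nat_lit 0) (nat_lit 898156336) (nat_lit 380) (nat_lit 12473082915) (nat_lit 76) (nat_lit 68868881697) (nat_lit 69) (nat_lit 5) (nat_lit 74) (nat_lit 5) (nat_lit 70) (nat_lit 5) (nat_lit 314) (nat_lit 283) (nat_lit 123))))) (XT.nd (nat_lit 234) (nat_lit 532) (nat_lit 0) (XT.nd (nat_lit 78) (nat_lit 304) (nat_lit 0) (XT.lf (nat_lit 0) (nat_lit 19645915869) (nat_lit 380) (nat_lit 37844745443) (nat_lit 76) (nat_lit 27557593961) (nat_lit 65) (nat_lit 5) (nat_lit 70) (nat_lit 5) (nat_lit 66) (nat_lit 5) (nat_lit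 315) (nat_lit 283) (nat_lit 122)) (XT.nd (nat_lit 78) (nat_lit 0) (nat_lit 0) (XT.lf (nat_lit 0) (nat_lit 22430835307) (nat_lit 304) (nat_lit 17378839016) (nat_lit 380) (nat_lit 48172765804) (nat_lit 61) (nat_lit 5) (nat_lit 65) (nat_lit 5) (nat_lit 66) (nat_lit 5) (nat_lit 316) (nat_lit 283) (nat_lit 121)) (XT.lf (nat_lit 0) (nat_lit 61611271320) (nat_lit 380) (nat_lit 4784524750) (nat_lit 76) (nat_lit 24648650671) (nat_lit 61) (nat_lit 5) (nat_lit 66) (nat_lit 5) (nat_lit 62) (nat_lit 5) (nat_lit 317) (nat_lit 283) (nat_lit 120)))) (XT.nd (nat_lit 78) (nat_lit 304) (nat_lit 0) (XT.lf (nat_lit 0) (nat_lit 60014448716) (nat_lit 228) (nat_lit 25239292296) (nat_lit 304) (nat_lit 8983290833) (nat_lit 58) (nat_lit 5) (nat_lit 61) (nat_lit 5) (nat_lit 62) (nat_lit 5) (nat_lit 318) (nat_lit 283) (nat_lit 119)) (XT.nd (nat_lit 78) (nat_lit 0) (nat_lit 0) (XT.lf (nat_lit 0) (nat_lit 12769522141)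 (nat_lit 304) (nat_lit 66703862876) (nat_lit 76) (nat_lit 18096537160) (nat_lit 54) (nat_lit 5) (nat_lit 58) (nat_lit 5) (nat_lit 55) (nat_lit 5) (nat_lit 319) (nat_lit 283) (nat_lit 118)) (XT.lf (nat_lit 0) (nat_lit 36035008676) (nat_lit 304) (nat_lit 1485604965) (nat_lit 76) (nat_lit 63527852155) (nat_lit 54) (nat_lit 5) (nat_lit 58) (nat_lit 5) (nat_lit 55) (nat_lit 5) (nat_lit 320) (nat_lit 283) (nat_lit 117)))))) (XT.nd (nat_lit 34866) (nat_lit 0) (nat_lit 8512) (XT.nd (nat_lit 34632) (nat_lit 0) (nat_lit 9500) (XT.nd (nat_lit 78) (nat_lit 228) (nat_lit 0) (XT.lf (nat_lit 0) (nat_lit 61188451335) (nat_lit 304) (nat_lit 36425708540) (nat_lit 76) (nat_lit 7065037896) (nat_lit 51) (nat_lit 5) (nat_lit 55) (nat_lit 5) (nat_lit 52) (nat_lit 5) (nat_lit 321) (nat_lit 283) (nat_lit 116)) (XT.lf (nat_lit 0) (nat_lit 33288319326) (nat_lit 228) (nat_lit 55024060466) (nat_lit 304) (nat_lit 20157703693)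 (nat_lit 48) (nat_lit 5) (nat_lit 51) (nat_lit 5) (nat_lit 52) (nat_lit 5) (nat_lit 322) (nat_lit 283) (nat_lit 115))) (XT.nd (nat_lit 78) (nat_lit 0) (nat_lit 0) (XT.lf (nat_lit 0) (nat_lit 16637736562) (nat_lit 1140) (nat_lit 473041697) (nat_lit 1140) (nat_lit 473041697) (nat_lit 173) (nat_lit 3) (nat_lit 188) (nat_lit 3) (nat_lit 188) (nat_lit 5) (nat_lit 284) (nat_lit 284) (nat_lit 152)) (XT.nd (nat_lit 78) (nat_lit 0) (nat_lit 76) (XT.lf (nat_lit 76) (nat_lit 24696459255) (nat_lit 0) (nat_lit 9728010985) (nat_lit 1140) (nat_lit 1612687837) (nat_lit 174) (nat_lit 5) (nat_lit 173) (nat_lit 3) (nat_lit 188) (nat_lit 5) (nat_lit 285) (nat_lit 284) (nat_lit 151)) (XT.lf (nat_lit 76) (nat_lit 14823624705) (nat_lit 0) (nat_lit 21108224530) (nat_lit 1140) (nat_lit 1009285165) (nat_lit 175) (nat_lit 5) (nat_lit 174) (nat_lit 5) (nat_lit 189) (nat_lit 5) (nat_lit 286) (nat_lit 284) (nat_lit 150)))))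 (XT.nd (nat_lit 234) (nat_lit 0) (nat_lit 152) (XT.nd (nat_lit 78) (nat_lit 1140) (nat_lit 0) (XT.lf (nat_lit 76) (nat_lit 4590508069) (nat_lit 0) (nat_lit 33222536430) (nat_lit 1140) (nat_lit 68321345) (nat_lit 176) (nat_lit 5) (nat_lit 175) (nat_lit 5) (nat_lit 190) (nat_lit 5) (nat_lit 287) (nat_lit 284) (nat_lit 149)) (XT.nd (nat_lit 78) (nat_lit 0) (nat_lit 76) (XT.lf (nat_lit 0) (nat_lit 1340009477) (nat_lit 1140) (nat_lit 5992791122) (nat_lit 1216) (nat_lit 31522404077) (nat_lit 160) (nat_lit 5) (nat_lit 175) (nat_lit 5) (nat_lit 176) (nat_lit 5) (nat_lit 288) (nat_lit 284) (nat_lit 148)) (XT.lf (nat_lit 0) (nat_lit 3228131052) (nat_lit 1140) (nat_lit 16946481298) (nat_lit 1216) (nat_lit 19690787754) (nat_lit 161) (nat_lit 5) (nat_lit 176) (nat_lit 5) (nat_lit 177) (nat_lit 5) (nat_lit 289) (nat_lit 284) (nat_lit 147)))) (XT.nd (nat_lit 78) (nat_lit 0) (nat_lit 0) (XT.lf (nat_lit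 0) (nat_lit 5533284030) (nat_lit 1140) (nat_lit 28341112789) (nat_lit 1216) (nat_lit 7042037881) (nat_lit 162) (nat_lit 5) (nat_lit 177) (nat_lit 5) (nat_lit 178) (nat_lit 5) (nat_lit 290) (nat_lit 284) (nat_lit 146)) (XT.nd (nat_lit 78) (nat_lit 0) (nat_lit 76) (XT.lf (nat_lit 76) (nat_lit 1738148767) (nat_lit 0) (nat_lit 6607954602) (nat_lit 1216) (nat_lit 33662153163) (nat_lit 163) (nat_lit 5) (nat_lit 162) (nat_lit 5) (nat_lit 178) (nat_lit 5) (nat_lit 291) (nat_lit 284) (nat_lit 145)) (XT.lf (nat_lit 0) (nat_lit 11801960813) (nat_lit 1140) (nat_lit 9449897376) (nat_lit 1216) (nat_lit 21887746751) (nat_lit 163) (nat_lit 5) (nat_lit 178) (nat_lit 5) (nat_lit 179) (nat_lit 5) (nat_lit 292) (nat_lit 284) (nat_lit 144))))))) (XT.nd (nat_lit 858) (nat_lit 3040) (nat_lit 0) (XT.nd (nat_lit 390) (nat_lit 2584) (nat_lit 0) (XT.nd (nat_lit 156) (nat_lit 1520) (nat_lit 0) (XT.nd (nat_lit 78) (nat_lit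 0) (nat_lit 0) (XT.lf (nat_lit 0) (nat_lit 15790359551) (nat_lit 1140) (nat_lit 21095429869) (nat_lit 1216) (nat_lit 7430945943) (nat_lit 164) (nat_lit 5) (nat_lit 179) (nat_lit 5) (nat_lit 180) (nat_lit 5) (nat_lit 293) (nat_lit 284) (nat_lit 143)) (XT.lf (nat_lit 76) (nat_lit 12193292048) (nat_lit 0) (nat_lit 8211257560) (nat_lit 1216) (nat_lit 25135388267) (nat_lit 165) (nat_lit 5) (nat_lit 164) (nat_lit 5) (nat_lit 180) (nat_lit 5) (nat_lit 294) (nat_lit 284) (nat_lit 142))) (XT.nd (nat_lit 78) (nat_lit 532) (nat_lit 0) (XT.lf (nat_lit 0) (nat_lit 564932275) (nat_lit 1064) (nat_lit 25116312977) (nat_lit 1140) (nat_lit 21130107769) (nat_lit 151) (nat_lit 5) (nat_lit 165) (nat_lit 5) (nat_lit 166) (nat_lit 5) (nat_lit 295) (nat_lit 284) (nat_lit 141)) (XT.nd (nat_lit 78) (nat_lit 532) (nat_lit 0) (XT.lf (nat_lit 0) (nat_lit 31693207706) (nat_lit 1140) (nat_lit 11401528425) (nat_lit 76)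 (nat_lit 5037465918) (nat_lit 151) (nat_lit 5) (nat_lit 166) (nat_lit 5) (nat_lit 152) (nat_lit 5) (nat_lit 296) (nat_lit 284) (nat_lit 140)) (XT.lf (nat_lit 0) (nat_lit 25425411161) (nat_lit 532) (nat_lit 13075132712) (nat_lit 608) (nat_lit 11003712185) (nat_lit 144) (nat_lit 5) (nat_lit 151) (nat_lit 5) (nat_lit 152) (nat_lit 5) (nat_lit 297) (nat_lit 284) (nat_lit 139))))) (XT.nd (nat_lit 234) (nat_lit 1444) (nat_lit 0) (XT.nd (nat_lit 78) (nat_lit 608) (nat_lit 0) (XT.lf (nat_lit 0) (nat_lit 13472132447) (nat_lit 532) (nat_lit 32598447703) (nat_lit 608) (nat_lit 4861668140) (nat_lit 137) (nat_lit 5) (nat_lit 144) (nat_lit 5) (nat_lit 145) (nat_lit 5) (nat_lit 298) (nat_lit 284) (nat_lit 138)) (XT.nd (nat_lit 78) (nat_lit 0) (nat_lit 0) (XT.lf (nat_lit 0) (nat_lit 843576022) (nat_lit 532) (nat_lit 1100402835) (nat_lit 608) (nat_lit 50475584240) (nat_lit 129) (nat_lit 5) (nat_lit 136)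 (nat_lit 5) (nat_lit 137) (nat_lit 5) (nat_lit 299) (nat_lit 284) (nat_lit 137)) (XT.lf (nat_lit 0) (nat_lit 9684260185) (nat_lit 608) (nat_lit 12487485075) (nat_lit 76) (nat_lit 31787212225) (nat_lit 129) (nat_lit 5) (nat_lit 137) (nat_lit 5) (nat_lit 130) (nat_lit 5) (nat_lit 300) (nat_lit 284) (nat_lit 136)))) (XT.nd (nat_lit 78) (nat_lit 912) (nat_lit 0) (XT.lf (nat_lit 0) (nat_lit 18205637115) (nat_lit 608) (nat_lit 26562848284) (nat_lit 76) (nat_lit 10795018377) (nat_lit 122) (nat_lit 5) (nat_lit 130) (nat_lit 5) (nat_lit 123) (nat_lit 5) (nat_lit 301) (nat_lit 284) (nat_lit 135)) (XT.nd (nat_lit 78) (nat_lit 456) (nat_lit 0) (XT.lf (nat_lit 0) (nat_lit 15657501133) (nat_lit 456) (nat_lit 11997119700) (nat_lit 532) (nat_lit 29578614819) (nat_lit 116) (nat_lit 5) (nat_lit 122) (nat_lit 5) (nat_lit 123) (nat_lit 5) (nat_lit 302) (nat_lit 284) (nat_lit 134)) (XT.lf (nat_lit 0) (nat_lit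 1371605621) (nat_lit 456) (nat_lit 36706746149) (nat_lit 532) (nat_lit 20893037613) (nat_lit 110) (nat_lit 5) (nat_lit 116) (nat_lit 5) (nat_lit 117) (nat_lit 5) (nat_lit 303) (nat_lit 284) (nat_lit 133)))))) (XT.nd (nat_lit 390) (nat_lit 1748) (nat_lit 0) (XT.nd (nat_lit 156) (nat_lit 912) (nat_lit 0) (XT.nd (nat_lit 78) (nat_lit 380) (nat_lit 0) (XT.lf (nat_lit 0) (nat_lit 47208992368) (nat_lit 456) (nat_lit 2359777123) (nat_lit 532) (nat_lit 11211320300) (nat_lit 110) (nat_lit 5) (nat_lit 116) (nat_lit 5) (nat_lit 117) (nat_lit 5) (nat_lit 304) (nat_lit 284) (nat_lit 132)) (XT.lf (nat_lit 0) (nat_lit 32975938175) (nat_lit 380) (nat_lit 29296467011) (nat_lit 456) (nat_lit 387662929) (nat_lit 105) (nat_lit 5) (nat_lit 110) (nat_lit 5) (nat_lit 111) (nat_lit 5) (nat_lit 305) (nat_lit 284) (nat_lit 131))) (XT.nd (nat_lit 78) (nat_lit 380) (nat_lit 0) (XT.lf (nat_lit 0) (nat_lit 11159601847)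 (nat_lit 532) (nat_lit 46968024088) (nat_lit 76) (nat_lit 6491358500) (nat_lit 98) (nat_lit 5) (nat_lit 105) (nat_lit 5) (nat_lit 99) (nat_lit 5) (nat_lit 306) (nat_lit 284) (nat_lit 130)) (XT.nd (nat_lit 78) (nat_lit 0) (nat_lit 0) (XT.lf (nat_lit 0) (nat_lit 1021188627) (nat_lit 380) (nat_lit 22867069459) (nat_lit 456) (nat_lit 42769115320) (nat_lit 93) (nat_lit 5) (nat_lit 98) (nat_lit 5) (nat_lit 99) (nat_lit 5) (nat_lit 307) (nat_lit 284) (nat_lit 129)) (XT.lf (nat_lit 0) (nat_lit 37875645012) (nat_lit 456) (nat_lit 16535218492) (nat_lit 76) (nat_lit 14368152580) (nat_lit 93) (nat_lit 5) (nat_lit 99) (nat_lit 5) (nat_lit 94) (nat_lit 5) (nat_lit 308) (nat_lit 284) (nat_lit 128))))) (XT.nd (nat_lit 234) (nat_lit 988) (nat_lit 0) (XT.nd (nat_lit 78) (nat_lit 380) (nat_lit 0) (XT.lf (nat_lit 0) (nat_lit 35479925923) (nat_lit 380) (nat_lit 17652366656) (nat_lit 456) (nat_lit 17857354621)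 (nat_lit 88) (nat_lit 5) (nat_lit 93) (nat_lit 5) (nat_lit 94) (nat_lit 5) (nat_lit 309) (nat_lit 284) (nat_lit 127)) (XT.nd (nat_lit 78) (nat_lit 76) (nat_lit 0) (XT.lf (nat_lit 0) (nat_lit 17267199565) (nat_lit 304) (nat_lit 52421884249) (nat_lit 380) (nat_lit 3605609617) (nat_lit 84) (nat_lit 5) (nat_lit 88) (nat_lit 5) (nat_lit 89) (nat_lit 5) (nat_lit 310) (nat_lit 284) (nat_lit 126)) (XT.lf (nat_lit 0) (nat_lit 11682550926) (nat_lit 380) (nat_lit 2572352173) (nat_lit 76) (nat_lit 61440451606) (nat_lit 83) (nat_lit 5) (nat_lit 88) (nat_lit 5) (nat_lit 84) (nat_lit 5) (nat_lit 311) (nat_lit 284) (nat_lit 125)))) (XT.nd (nat_lit 78) (nat_lit 608) (nat_lit 0) (XT.lf (nat_lit 0) (nat_lit 28437906810) (nat_lit 456) (nat_lit 23871032210) (nat_lit 76) (nat_lit 25882720898) (nat_lit 78) (nat_lit 5) (nat_lit 84) (nat_lit 5) (nat_lit 79) (nat_lit 5) (nat_lit 312) (nat_lit 284) (nat_lit 124))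 (XT.nd (nat_lit 78) (nat_lit 304) (nat_lit 0) (XT.lf (nat_lit 0) (nat_lit 33813470083) (nat_lit 304) (nat_lit 12711510904) (nat_lit 380) (nat_lit 34272983318) (nat_lit 74) (nat_lit 5) (nat_lit 78) (nat_lit 5) (nat_lit 79) (nat_lit 5) (nat_lit 313) (nat_lit 284) (nat_lit 123)) (XT.lf (nat_lit 0) (nat_lit 11292039846) (nat_lit 304) (nat_lit 54856904372) (nat_lit 380) (nat_lit 17366665948) (nat_lit 70) (nat_lit 5) (nat_lit 74) (nat_lit 5) (nat_lit 75) (nat_lit 5) (nat_lit 314) (nat_lit 284) (nat_lit 122))))))))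
noncomputable def xc117 : XT := (XT.nd (nat_lit 36270) (nat_lit 0) (nat_lit 228) (XT.nd (nat_lit 35412) (nat_lit 0) (nat_lit 7068) (XT.nd (nat_lit 390) (nat_lit 532) (nat_lit 0) (XT.nd (nat_lit 156) (nat_lit 532) (nat_lit 0) (XT.nd (nat_lit 78) (nat_lit 304) (nat_lit 0) (XT.lf (nat_lit 0) (nat_lit 992597687) (nat_lit 380) (nat_lit 13029370059) (nat_lit 76) (nat_lit 72328607423) (nat_lit 69) (nat_lit 5) (nat_lit 74) (nat_lit 5) (nat_lit 70) (nat_lit 5) (nat_lit 315) (nat_lit 284) (nat_lit 121)) (XT.lf (nat_lit 0) (nat_lit 20676184958) (nat_lit 380) (nat_lit 39670219468) (nat_lit 76) (nat_lit 28952761727) (nat_lit 65) (nat_lit 5) (nat_lit 70) (nat_lit 5) (nat_lit 66) (nat_lit 5) (nat_lit 316) (nat_lit 284) (nat_lit 120))) (XT.nd (nat_lit 78) (nat_lit 228) (nat_lit 0) (XT.lf (nat_lit 0) (nat_lit 23617226565) (nat_lit 304) (nat_lit 18229243700) (nat_lit 380) (nat_lit 50533642801) (nat_lit 61)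 (nat_lit 5) (nat_lit 65) (nat_lit 5) (nat_lit 66) (nat_lit 5) (nat_lit 317) (nat_lit 284) (nat_lit 119)) (XT.nd (nat_lit 78) (nat_lit 228) (nat_lit 0) (XT.lf (nat_lit 0) (nat_lit 64736111475) (nat_lit 380) (nat_lit 4960779209) (nat_lit 76) (nat_lit 25898393241) (nat_lit 61) (nat_lit 5) (nat_lit 66) (nat_lit 5) (nat_lit 62) (nat_lit 5) (nat_lit 318) (nat_lit 284) (nat_lit 118)) (XT.lf (nat_lit 0) (nat_lit 63076337857) (nat_lit 228) (nat_lit 26482846357) (nat_lit 304) (nat_lit 9388362389) (nat_lit 58) (nat_lit 5) (nat_lit 61) (nat_lit 5) (nat_lit 62) (nat_lit 5) (nat_lit 319) (nat_lit 284) (nat_lit 117))))) (XT.nd (nat_lit 34788) (nat_lit 0) (nat_lit 9272) (XT.nd (nat_lit 78) (nat_lit 228) (nat_lit 0) (XT.lf (nat_lit 0) (nat_lit 13449930051) (nat_lit 304) (nat_lit 69977631438) (nat_lit 76) (nat_lit 19019548774) (nat_lit 54) (nat_lit 5) (nat_lit 58) (nat_lit 5) (nat_lit 55) (nat_lit 5) (nat_lit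 320) (nat_lit 284) (nat_lit 116)) (XT.nd (nat_lit 78) (nat_lit 228) (nat_lit 0) (XT.lf (nat_lit 0) (nat_lit 37876694160) (nat_lit 304) (nat_lit 1501385612) (nat_lit 76) (nat_lit 66721563578) (nat_lit 54) (nat_lit 5) (nat_lit 58) (nat_lit 5) (nat_lit 55) (nat_lit 5) (nat_lit 321) (nat_lit 284) (nat_lit 115)) (XT.lf (nat_lit 0) (nat_lit 64286628861) (nat_lit 304) (nat_lit 38189143807) (nat_lit 76) (nat_lit 7436176928) (nat_lit 51) (nat_lit 5) (nat_lit 55) (nat_lit 5) (nat_lit 52) (nat_lit 5) (nat_lit 322) (nat_lit 284) (nat_lit 114)))) (XT.nd (nat_lit 78) (nat_lit 0) (nat_lit 0) (XT.lf (nat_lit 0) (nat_lit 17548091664) (nat_lit 1140) (nat_lit 456204104) (nat_lit 1140) (nat_lit 456204104) (nat_lit 173) (nat_lit 3) (nat_lit 188) (nat_lit 3) (nat_lit 188) (nat_lit 5) (nat_lit 285) (nat_lit 285) (nat_lit 150)) (XT.nd (nat_lit 78) (nat_lit 0) (nat_lit 76) (XT.lf (nat_lit 76) (nat_lit 26009940318)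 (nat_lit 0) (nat_lit 10285972922) (nat_lit 1140) (nat_lit 1538297042) (nat_lit 174) (nat_lit 5) (nat_lit 173) (nat_lit 3) (nat_lit 188) (nat_lit 5) (nat_lit 286) (nat_lit 285) (nat_lit 149)) (XT.lf (nat_lit 76) (nat_lit 15646545440) (nat_lit 0) (nat_lit 22225093031) (nat_lit 1140) (nat_lit 911971874) (nat_lit 175) (nat_lit 5) (nat_lit 174) (nat_lit 5) (nat_lit 189) (nat_lit 5) (nat_lit 287) (nat_lit 285) (nat_lit 148)))))) (XT.nd (nat_lit 390) (nat_lit 1216) (nat_lit 0) (XT.nd (nat_lit 156) (nat_lit 0) (nat_lit 76) (XT.nd (nat_lit 78) (nat_lit 0) (nat_lit 0) (XT.lf (nat_lit 0) (nat_lit 67907935) (nat_lit 1140) (nat_lit 34867276569) (nat_lit 1216) (nat_lit 4835859552) (nat_lit 160) (nat_lit 5) (nat_lit 175) (nat_lit 5) (nat_lit 176) (nat_lit 5) (nat_lit 288) (nat_lit 285) (nat_lit 147)) (XT.lf (nat_lit 0) (nat_lit 1538672325) (nat_lit 1140) (nat_lit 6209159715) (nat_lit 1216) (nat_lit 33045932138)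 (nat_lit 160) (nat_lit 5) (nat_lit 175) (nat_lit 5) (nat_lit 176) (nat_lit 5) (nat_lit 289) (nat_lit 285) (nat_lit 146))) (XT.nd (nat_lit 78) (nat_lit 0) (nat_lit 76) (XT.lf (nat_lit 0) (nat_lit 3515272530) (nat_lit 1140) (nat_lit 17708462004) (nat_lit 1216) (nat_lit 20630924613) (nat_lit 161) (nat_lit 5) (nat_lit 176) (nat_lit 5) (nat_lit 177) (nat_lit 5) (nat_lit 290) (nat_lit 285) (nat_lit 145)) (XT.nd (nat_lit 78) (nat_lit 0) (nat_lit 0) (XT.lf (nat_lit 0) (nat_lit 5930130747) (nat_lit 1140) (nat_lit 29671065659) (nat_lit 1216) (nat_lit 7357227016) (nat_lit 162) (nat_lit 5) (nat_lit 177) (nat_lit 5) (nat_lit 178) (nat_lit 5) (nat_lit 291) (nat_lit 285) (nat_lit 144)) (XT.lf (nat_lit 76) (nat_lit 1909662191) (nat_lit 0) (nat_lit 6969019170) (nat_lit 1216) (nat_lit 35226313112) (nat_lit 163) (nat_lit 5) (nat_lit 162) (nat_lit 5) (nat_lit 178) (nat_lit 5) (nat_lit 292) (nat_lit 285) (nat_lit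 143))))) (XT.nd (nat_lit 234) (nat_lit 1444) (nat_lit 0) (XT.nd (nat_lit 78) (nat_lit 0) (nat_lit 76) (XT.lf (nat_lit 0) (nat_lit 12501561744) (nat_lit 1140) (nat_lit 9838034473) (nat_lit 1216) (nat_lit 22953497502) (nat_lit 163) (nat_lit 5) (nat_lit 178) (nat_lit 5) (nat_lit 179) (nat_lit 5) (nat_lit 293) (nat_lit 285) (nat_lit 142)) (XT.nd (nat_lit 78) (nat_lit 0) (nat_lit 0) (XT.lf (nat_lit 0) (nat_lit 16684731247) (nat_lit 1140) (nat_lit 22064690448) (nat_lit 1216) (nat_lit 7779808269) (nat_lit 164) (nat_lit 5) (nat_lit 179) (nat_lit 5) (nat_lit 180) (nat_lit 5) (nat_lit 294) (nat_lit 285) (nat_lit 141)) (XT.lf (nat_lit 76) (nat_lit 12886016412) (nat_lit 0) (nat_lit 8639419782) (nat_lit 1216) (nat_lit 26288291606) (nat_lit 165) (nat_lit 5) (nat_lit 164) (nat_lit 5) (nat_lit 180) (nat_lit 5) (nat_lit 295) (nat_lit 285) (nat_lit 140)))) (XT.nd (nat_lit 78) (nat_lit 532) (nat_lit 0) (XT.lf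 (nat_lit 0) (nat_lit 677137127) (nat_lit 1064) (nat_lit 26384682141) (nat_lit 1140) (nat_lit 22087027769) (nat_lit 151) (nat_lit 5) (nat_lit 165) (nat_lit 5) (nat_lit 166) (nat_lit 5) (nat_lit 296) (nat_lit 285) (nat_lit 139)) (XT.nd (nat_lit 78) (nat_lit 532) (nat_lit 0) (XT.lf (nat_lit 0) (nat_lit 33369669121) (nat_lit 1140) (nat_lit 11888602422) (nat_lit 76) (nat_lit 5277616785) (nat_lit 151) (nat_lit 5) (nat_lit 166) (nat_lit 5) (nat_lit 152) (nat_lit 5) (nat_lit 297) (nat_lit 285) (nat_lit 138)) (XT.lf (nat_lit 0) (nat_lit 26777304896) (nat_lit 532) (nat_lit 13736470723) (nat_lit 608) (nat_lit 11462885399) (nat_lit 144) (nat_lit 5) (nat_lit 151) (nat_lit 5) (nat_lit 152) (nat_lit 5) (nat_lit 298) (nat_lit 285) (nat_lit 137))))))) (XT.nd (nat_lit 858) (nat_lit 2964) (nat_lit 0) (XT.nd (nat_lit 390) (nat_lit 1748) (nat_lit 0) (XT.nd (nat_lit 156) (nat_lit 988) (nat_lit 0) (XT.nd (nat_lit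 78) (nat_lit 608) (nat_lit 0) (XT.lf (nat_lit 0) (nat_lit 14226849343) (nat_lit 532) (nat_lit 34231974423) (nat_lit 608) (nat_lit 5017341492) (nat_lit 137) (nat_lit 5) (nat_lit 144) (nat_lit 5) (nat_lit 145) (nat_lit 5) (nat_lit 299) (nat_lit 285) (nat_lit 136)) (XT.lf (nat_lit 0) (nat_lit 966342114) (nat_lit 532) (nat_lit 1157233549) (nat_lit 608) (nat_lit 52914351252) (nat_lit 129) (nat_lit 5) (nat_lit 136) (nat_lit 5) (nat_lit 137) (nat_lit 5) (nat_lit 300) (nat_lit 285) (nat_lit 135))) (XT.nd (nat_lit 78) (nat_lit 988) (nat_lit 0) (XT.lf (nat_lit 0) (nat_lit 10246930774) (nat_lit 608) (nat_lit 13032603108) (nat_lit 76) (nat_lit 33374882130) (nat_lit 129) (nat_lit 5) (nat_lit 137) (nat_lit 5) (nat_lit 130) (nat_lit 5) (nat_lit 301) (nat_lit 285) (nat_lit 134)) (XT.nd (nat_lit 78) (nat_lit 456) (nat_lit 0) (XT.lf (nat_lit 0) (nat_lit 19191395135) (nat_lit 608) (nat_lit 27811627971) (nat_lit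 76) (nat_lit 11336262412) (nat_lit 122) (nat_lit 5) (nat_lit 130) (nat_lit 5) (nat_lit 123) (nat_lit 5) (nat_lit 302) (nat_lit 285) (nat_lit 133)) (XT.lf (nat_lit 0) (nat_lit 16517464000) (nat_lit 456) (nat_lit 12592510951) (nat_lit 532) (nat_lit 30982620780) (nat_lit 116) (nat_lit 5) (nat_lit 122) (nat_lit 5) (nat_lit 123) (nat_lit 5) (nat_lit 303) (nat_lit 285) (nat_lit 132))))) (XT.nd (nat_lit 234) (nat_lit 912) (nat_lit 0) (XT.nd (nat_lit 78) (nat_lit 380) (nat_lit 0) (XT.lf (nat_lit 0) (nat_lit 1517258044) (nat_lit 456) (nat_lit 38534957888) (nat_lit 532) (nat_lit 21865527369) (nat_lit 110) (nat_lit 5) (nat_lit 116) (nat_lit 5) (nat_lit 117) (nat_lit 5) (nat_lit 304) (nat_lit 285) (nat_lit 131)) (XT.nd (nat_lit 78) (nat_lit 380) (nat_lit 0) (XT.lf (nat_lit 0) (nat_lit 49642844026) (nat_lit 456) (nat_lit 2470979723) (nat_lit 532) (nat_lit 11703160483) (nat_lit 110) (nat_lit 5) (nat_lit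 116) (nat_lit 5) (nat_lit 117) (nat_lit 5) (nat_lit 305) (nat_lit 285) (nat_lit 130)) (XT.lf (nat_lit 0) (nat_lit 34698019270) (nat_lit 380) (nat_lit 30752216359) (nat_lit 456) (nat_lit 340803325) (nat_lit 105) (nat_lit 5) (nat_lit 110) (nat_lit 5) (nat_lit 111) (nat_lit 5) (nat_lit 306) (nat_lit 285) (nat_lit 129)))) (XT.nd (nat_lit 78) (nat_lit 380) (nat_lit 0) (XT.lf (nat_lit 0) (nat_lit 11780232464) (nat_lit 532) (nat_lit 49242007082) (nat_lit 76) (nat_lit 6825716341) (nat_lit 98) (nat_lit 5) (nat_lit 105) (nat_lit 5) (nat_lit 99) (nat_lit 5) (nat_lit 307) (nat_lit 285) (nat_lit 128)) (XT.nd (nat_lit 78) (nat_lit 0) (nat_lit 0) (XT.lf (nat_lit 0) (nat_lit 1144533086) (nat_lit 380) (nat_lit 23998499919) (nat_lit 456) (nat_lit 44845304635) (nat_lit 93) (nat_lit 5) (nat_lit 98) (nat_lit 5) (nat_lit 99) (nat_lit 5) (nat_lit 308) (nat_lit 285) (nat_lit 127)) (XT.lf (nat_lit 0) (nat_lit 39827024049)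 (nat_lit 456) (nat_lit 17291431938) (nat_lit 76) (nat_lit 15097693878) (nat_lit 93) (nat_lit 5) (nat_lit 99) (nat_lit 5) (nat_lit 94) (nat_lit 5) (nat_lit 309) (nat_lit 285) (nat_lit 126)))))) (XT.nd (nat_lit 468) (nat_lit 1216) (nat_lit 0) (XT.nd (nat_lit 234) (nat_lit 988) (nat_lit 0) (XT.nd (nat_lit 78) (nat_lit 380) (nat_lit 0) (XT.lf (nat_lit 0) (nat_lit 37322447468) (nat_lit 380) (nat_lit 18521972529) (nat_lit 456) (nat_lit 18692959303) (nat_lit 88) (nat_lit 5) (nat_lit 93) (nat_lit 5) (nat_lit 94) (nat_lit 5) (nat_lit 310) (nat_lit 285) (nat_lit 125)) (XT.nd (nat_lit 78) (nat_lit 76) (nat_lit 0) (XT.lf (nat_lit 0) (nat_lit 18198699120) (nat_lit 304) (nat_lit 55028482334) (nat_lit 380) (nat_lit 3730556511) (nat_lit 84) (nat_lit 5) (nat_lit 88) (nat_lit 5) (nat_lit 89) (nat_lit 5) (nat_lit 311) (nat_lit 285) (nat_lit 124)) (XT.lf (nat_lit 0) (nat_lit 12318348786) (nat_lit 380) (nat_lit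 2634971864) (nat_lit 76) (nat_lit 64525176939) (nat_lit 83) (nat_lit 5) (nat_lit 88) (nat_lit 5) (nat_lit 84) (nat_lit 5) (nat_lit 312) (nat_lit 285) (nat_lit 123)))) (XT.nd (nat_lit 78) (nat_lit 608) (nat_lit 0) (XT.lf (nat_lit 0) (nat_lit 29909765468) (nat_lit 456) (nat_lit 24999049023) (nat_lit 76) (nat_lit 27190858339) (nat_lit 78) (nat_lit 5) (nat_lit 84) (nat_lit 5) (nat_lit 79) (nat_lit 5) (nat_lit 313) (nat_lit 285) (nat_lit 122)) (XT.nd (nat_lit 78) (nat_lit 304) (nat_lit 0) (XT.lf (nat_lit 0) (nat_lit 35567799842) (nat_lit 304) (nat_lit 13331626210) (nat_lit 380) (nat_lit 35936922795) (nat_lit 74) (nat_lit 5) (nat_lit 78) (nat_lit 5) (nat_lit 79) (nat_lit 5) (nat_lit 314) (nat_lit 285) (nat_lit 121)) (XT.lf (nat_lit 0) (nat_lit 11919799332) (nat_lit 304) (nat_lit 57583241710) (nat_lit 380) (nat_lit 18186885579) (nat_lit 70) (nat_lit 5) (nat_lit 74) (nat_lit 5) (nat_lit 75) (nat_lit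 5) (nat_lit 315) (nat_lit 285) (nat_lit 120))))) (XT.nd (nat_lit 234) (nat_lit 532) (nat_lit 0) (XT.nd (nat_lit 78) (nat_lit 608) (nat_lit 0) (XT.lf (nat_lit 0) (nat_lit 1087155948) (nat_lit 380) (nat_lit 13619734706) (nat_lit 76) (nat_lit 75959805723) (nat_lit 69) (nat_lit 5) (nat_lit 74) (nat_lit 5) (nat_lit 70) (nat_lit 5) (nat_lit 316) (nat_lit 285) (nat_lit 119)) (XT.nd (nat_lit 78) (nat_lit 304) (nat_lit 0) (XT.lf (nat_lit 0) (nat_lit 21753507400) (nat_lit 380) (nat_lit 41593174208) (nat_lit 76) (nat_lit 30416080601) (nat_lit 65) (nat_lit 5) (nat_lit 70) (nat_lit 5) (nat_lit 66) (nat_lit 5) (nat_lit 317) (nat_lit 285) (nat_lit 118)) (XT.lf (nat_lit 0) (nat_lit 24856908294) (nat_lit 304) (nat_lit 19123892038) (nat_lit 380) (nat_lit 53017004041) (nat_lit 61) (nat_lit 5) (nat_lit 65) (nat_lit 5) (nat_lit 66) (nat_lit 5) (nat_lit 318) (nat_lit 285) (nat_lit 117)))) (XT.nd (nat_lit 78)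 (nat_lit 532) (nat_lit 0) (XT.lf (nat_lit 0) (nat_lit 68013077219) (nat_lit 380) (nat_lit 5151700910) (nat_lit 76) (nat_lit 27209013615) (nat_lit 61) (nat_lit 5) (nat_lit 66) (nat_lit 5) (nat_lit 62) (nat_lit 5) (nat_lit 319) (nat_lit 285) (nat_lit 116)) (XT.nd (nat_lit 78) (nat_lit 304) (nat_lit 0) (XT.lf (nat_lit 0) (nat_lit 66285634754) (nat_lit 228) (nat_lit 27790289760) (nat_lit 304) (nat_lit 9817786872) (nat_lit 58) (nat_lit 5) (nat_lit 61) (nat_lit 5) (nat_lit 62) (nat_lit 5) (nat_lit 320) (nat_lit 285) (nat_lit 115)) (XT.lf (nat_lit 0) (nat_lit 14160459935) (nat_lit 304) (nat_lit 73420799104) (nat_lit 76) (nat_lit 19987020322) (nat_lit 54) (nat_lit 5) (nat_lit 58) (nat_lit 5) (nat_lit 55) (nat_lit 5) (nat_lit 321) (nat_lit 285) (nat_lit 114))))))))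
noncomputable def xc118 : XT := (XT.nd (nat_lit 36348) (nat_lit 0) (nat_lit 304) (XT.nd (nat_lit 35490) (nat_lit 0) (nat_lit 4256) (XT.nd (nat_lit 35022) (nat_lit 0) (nat_lit 8056) (XT.nd (nat_lit 34788) (nat_lit 0) (nat_lit 8056) (XT.nd (nat_lit 34710) (nat_lit 0) (nat_lit 9044) (XT.lf (nat_lit 0) (nat_lit 39806751136) (nat_lit 304) (nat_lit 1523394030) (nat_lit 76) (nat_lit 70073350432) (nat_lit 54) (nat_lit 5) (nat_lit 58) (nat_lit 5) (nat_lit 55) (nat_lit 5) (nat_lit 322) (nat_lit 285) (nat_lit 113)) (XT.lf (nat_lit 0) (nat_lit 18496669284) (nat_lit 1140) (nat_lit 442288977) (nat_lit 1140) (nat_lit 442288977) (nat_lit 173) (nat_lit 3) (nat_lit 188) (nat_lit 3) (nat_lit 188) (nat_lit 5) (nat_lit 286) (nat_lit 286) (nat_lit 148))) (XT.nd (nat_lit 78) (nat_lit 988) (nat_lit 0) (XT.lf (nat_lit 76) (nat_lit 27381782550) (nat_lit 0) (nat_lit 10865179857) (nat_lit 1140) (nat_lit 1474599478)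 (nat_lit 174) (nat_lit 5) (nat_lit 173) (nat_lit 3) (nat_lit 188) (nat_lit 5) (nat_lit 287) (nat_lit 286) (nat_lit 147)) (XT.nd (nat_lit 78) (nat_lit 1064) (nat_lit 0) (XT.lf (nat_lit 76) (nat_lit 16503012848) (nat_lit 0) (nat_lit 23392091243) (nat_lit 1140) (nat_lit 823531875) (nat_lit 175) (nat_lit 5) (nat_lit 174) (nat_lit 5) (nat_lit 189) (nat_lit 5) (nat_lit 288) (nat_lit 286) (nat_lit 146)) (XT.lf (nat_lit 0) (nat_lit 196696069) (nat_lit 1140) (nat_lit 36531334719) (nat_lit 1216) (nat_lit 5027564774) (nat_lit 160) (nat_lit 5) (nat_lit 175) (nat_lit 5) (nat_lit 176) (nat_lit 5) (nat_lit 289) (nat_lit 286) (nat_lit 145))))) (XT.nd (nat_lit 234) (nat_lit 0) (nat_lit 152) (XT.nd (nat_lit 78) (nat_lit 0) (nat_lit 76) (XT.lf (nat_lit 0) (nat_lit 1735027596) (nat_lit 1140) (nat_lit 6444088482) (nat_lit 1216) (nat_lit 34650526121) (nat_lit 160) (nat_lit 5) (nat_lit 175) (nat_lit 5) (nat_lit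 176) (nat_lit 5) (nat_lit 290) (nat_lit 286) (nat_lit 144)) (XT.nd (nat_lit 78) (nat_lit 0) (nat_lit 76) (XT.lf (nat_lit 0) (nat_lit 3805081440) (nat_lit 1140) (nat_lit 18516476162) (nat_lit 1216) (nat_lit 21622196441) (nat_lit 161) (nat_lit 5) (nat_lit 176) (nat_lit 5) (nat_lit 177) (nat_lit 5) (nat_lit 291) (nat_lit 286) (nat_lit 143)) (XT.lf (nat_lit 0) (nat_lit 6335646368) (nat_lit 1140) (nat_lit 31075614164) (nat_lit 1216) (nat_lit 7691607405) (nat_lit 162) (nat_lit 5) (nat_lit 177) (nat_lit 5) (nat_lit 178) (nat_lit 5) (nat_lit 292) (nat_lit 286) (nat_lit 142)))) (XT.nd (nat_lit 78) (nat_lit 0) (nat_lit 76) (XT.lf (nat_lit 76) (nat_lit 2081885423) (nat_lit 0) (nat_lit 7345285854) (nat_lit 1216) (nat_lit 36879739688) (nat_lit 163) (nat_lit 5) (nat_lit 162) (nat_lit 5) (nat_lit 178) (nat_lit 5) (nat_lit 293) (nat_lit 286) (nat_lit 141)) (XT.nd (nat_lit 78) (nat_lit 0) (nat_lit 76) (XT.lf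 (nat_lit 0) (nat_lit 13225962180) (nat_lit 1140) (nat_lit 10253421210) (nat_lit 1216) (nat_lit 24075198148) (nat_lit 163) (nat_lit 5) (nat_lit 178) (nat_lit 5) (nat_lit 179) (nat_lit 5) (nat_lit 294) (nat_lit 286) (nat_lit 140)) (XT.lf (nat_lit 0) (nat_lit 17614073223) (nat_lit 1140) (nat_lit 23090364049) (nat_lit 1216) (nat_lit 8148222745) (nat_lit 164) (nat_lit 5) (nat_lit 179) (nat_lit 5) (nat_lit 180) (nat_lit 5) (nat_lit 295) (nat_lit 286) (nat_lit 139)))))) (XT.nd (nat_lit 390) (nat_lit 2052) (nat_lit 0) (XT.nd (nat_lit 156) (nat_lit 1064) (nat_lit 0) (XT.nd (nat_lit 78) (nat_lit 988) (nat_lit 0) (XT.lf (nat_lit 76) (nat_lit 13605654885) (nat_lit 0) (nat_lit 9087353895) (nat_lit 1216) (nat_lit 27508496594) (nat_lit 165) (nat_lit 5) (nat_lit 164) (nat_lit 5) (nat_lit 180) (nat_lit 5) (nat_lit 296) (nat_lit 286) (nat_lit 138)) (XT.lf (nat_lit 0) (nat_lit 787146581) (nat_lit 1064) (nat_lit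 27715302656) (nat_lit 1140) (nat_lit 23101052275) (nat_lit 151) (nat_lit 5) (nat_lit 165) (nat_lit 5) (nat_lit 166) (nat_lit 5) (nat_lit 297) (nat_lit 286) (nat_lit 137))) (XT.nd (nat_lit 78) (nat_lit 1064) (nat_lit 0) (XT.lf (nat_lit 0) (nat_lit 35121418817) (nat_lit 1140) (nat_lit 12407746898) (nat_lit 76) (nat_lit 5530865036) (nat_lit 151) (nat_lit 5) (nat_lit 166) (nat_lit 5) (nat_lit 152) (nat_lit 5) (nat_lit 298) (nat_lit 286) (nat_lit 136)) (XT.nd (nat_lit 78) (nat_lit 532) (nat_lit 0) (XT.lf (nat_lit 0) (nat_lit 28189297738) (nat_lit 532) (nat_lit 14430170790) (nat_lit 608) (nat_lit 11953478744) (nat_lit 144) (nat_lit 5) (nat_lit 151) (nat_lit 5) (nat_lit 152) (nat_lit 5) (nat_lit 299) (nat_lit 286) (nat_lit 135)) (XT.lf (nat_lit 0) (nat_lit 15011761220) (nat_lit 532) (nat_lit 35946842383) (nat_lit 608) (nat_lit 5188925070) (nat_lit 137) (nat_lit 5) (nat_lit 144) (nat_lit 5) (nat_lit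 145) (nat_lit 5) (nat_lit 300) (nat_lit 286) (nat_lit 134))))) (XT.nd (nat_lit 234) (nat_lit 912) (nat_lit 0) (XT.nd (nat_lit 78) (nat_lit 532) (nat_lit 0) (XT.lf (nat_lit 0) (nat_lit 1087754269) (nat_lit 532) (nat_lit 1216737469) (nat_lit 608) (nat_lit 55482960243) (nat_lit 129) (nat_lit 5) (nat_lit 136) (nat_lit 5) (nat_lit 137) (nat_lit 5) (nat_lit 301) (nat_lit 286) (nat_lit 133)) (XT.nd (nat_lit 78) (nat_lit 532) (nat_lit 0) (XT.lf (nat_lit 0) (nat_lit 10830440651) (nat_lit 608) (nat_lit 13612345534) (nat_lit 76) (nat_lit 35042092716) (nat_lit 129) (nat_lit 5) (nat_lit 137) (nat_lit 5) (nat_lit 130) (nat_lit 5) (nat_lit 302) (nat_lit 286) (nat_lit 132)) (XT.lf (nat_lit 0) (nat_lit 20219423997) (nat_lit 608) (nat_lit 29130225037) (nat_lit 76) (nat_lit 11904429833) (nat_lit 122) (nat_lit 5) (nat_lit 130) (nat_lit 5) (nat_lit 123) (nat_lit 5) (nat_lit 303) (nat_lit 286) (nat_lit 131))))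 (XT.nd (nat_lit 78) (nat_lit 456) (nat_lit 0) (XT.lf (nat_lit 0) (nat_lit 17413258117) (nat_lit 456) (nat_lit 13218086853) (nat_lit 532) (nat_lit 32463792835) (nat_lit 116) (nat_lit 5) (nat_lit 122) (nat_lit 5) (nat_lit 123) (nat_lit 5) (nat_lit 304) (nat_lit 286) (nat_lit 130)) (XT.nd (nat_lit 78) (nat_lit 0) (nat_lit 0) (XT.lf (nat_lit 0) (nat_lit 1663027650) (nat_lit 456) (nat_lit 40455242681) (nat_lit 532) (nat_lit 22893350564) (nat_lit 110) (nat_lit 5) (nat_lit 116) (nat_lit 5) (nat_lit 117) (nat_lit 5) (nat_lit 305) (nat_lit 286) (nat_lit 129)) (XT.lf (nat_lit 0) (nat_lit 52191564041) (nat_lit 456) (nat_lit 2588373375) (nat_lit 532) (nat_lit 12225982151) (nat_lit 110) (nat_lit 5) (nat_lit 116) (nat_lit 5) (nat_lit 117) (nat_lit 5) (nat_lit 306) (nat_lit 286) (nat_lit 128))))))) (XT.nd (nat_lit 858) (nat_lit 836) (nat_lit 0) (XT.nd (nat_lit 390) (nat_lit 1444) (nat_lit 0) (XT.nd (nat_lit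 156) (nat_lit 760) (nat_lit 0) (XT.nd (nat_lit 78) (nat_lit 532) (nat_lit 0) (XT.lf (nat_lit 0) (nat_lit 36499391150) (nat_lit 380) (nat_lit 32281596790) (nat_lit 456) (nat_lit 297759363) (nat_lit 105) (nat_lit 5) (nat_lit 110) (nat_lit 5) (nat_lit 111) (nat_lit 5) (nat_lit 307) (nat_lit 286) (nat_lit 127)) (XT.lf (nat_lit 0) (nat_lit 12426069961) (nat_lit 532) (nat_lit 51636607924) (nat_lit 76) (nat_lit 7175881900) (nat_lit 98) (nat_lit 5) (nat_lit 105) (nat_lit 5) (nat_lit 99) (nat_lit 5) (nat_lit 308) (nat_lit 286) (nat_lit 126))) (XT.nd (nat_lit 78) (nat_lit 380) (nat_lit 0) (XT.lf (nat_lit 0) (nat_lit 1267324392) (nat_lit 380) (nat_lit 25187610390) (nat_lit 456) (nat_lit 47031092361) (nat_lit 93) (nat_lit 5) (nat_lit 98) (nat_lit 5) (nat_lit 99) (nat_lit 5) (nat_lit 309) (nat_lit 286) (nat_lit 125)) (XT.nd (nat_lit 78) (nat_lit 380) (nat_lit 0) (XT.lf (nat_lit 0) (nat_lit 41870617235)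 (nat_lit 456) (nat_lit 18092014892) (nat_lit 76) (nat_lit 15862677138) (nat_lit 93) (nat_lit 5) (nat_lit 99) (nat_lit 5) (nat_lit 94) (nat_lit 5) (nat_lit 310) (nat_lit 286) (nat_lit 124)) (XT.lf (nat_lit 0) (nat_lit 39250724263) (nat_lit 380) (nat_lit 19436268471) (nat_lit 456) (nat_lit 19575667996) (nat_lit 88) (nat_lit 5) (nat_lit 93) (nat_lit 5) (nat_lit 94) (nat_lit 5) (nat_lit 311) (nat_lit 286) (nat_lit 123))))) (XT.nd (nat_lit 234) (nat_lit 684) (nat_lit 0) (XT.nd (nat_lit 78) (nat_lit 456) (nat_lit 0) (XT.lf (nat_lit 0) (nat_lit 19170438681) (nat_lit 304) (nat_lit 57766758036) (nat_lit 380) (nat_lit 3866895142) (nat_lit 84) (nat_lit 5) (nat_lit 88) (nat_lit 5) (nat_lit 89) (nat_lit 5) (nat_lit 312) (nat_lit 286) (nat_lit 122)) (XT.nd (nat_lit 78) (nat_lit 380) (nat_lit 0) (XT.lf (nat_lit 0) (nat_lit 12981132723) (nat_lit 380) (nat_lit 2706858400) (nat_lit 76) (nat_lit 67762957557)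 (nat_lit 83) (nat_lit 5) (nat_lit 88) (nat_lit 5) (nat_lit 84) (nat_lit 5) (nat_lit 313) (nat_lit 286) (nat_lit 121)) (XT.lf (nat_lit 0) (nat_lit 31450571944) (nat_lit 456) (nat_lit 26189559482) (nat_lit 76) (nat_lit 28563100935) (nat_lit 78) (nat_lit 5) (nat_lit 84) (nat_lit 5) (nat_lit 79) (nat_lit 5) (nat_lit 314) (nat_lit 286) (nat_lit 120)))) (XT.nd (nat_lit 78) (nat_lit 380) (nat_lit 0) (XT.lf (nat_lit 0) (nat_lit 37403927934) (nat_lit 304) (nat_lit 13984184627) (nat_lit 380) (nat_lit 37688680781) (nat_lit 74) (nat_lit 5) (nat_lit 78) (nat_lit 5) (nat_lit 79) (nat_lit 5) (nat_lit 315) (nat_lit 286) (nat_lit 119)) (XT.nd (nat_lit 78) (nat_lit 76) (nat_lit 0) (XT.lf (nat_lit 0) (nat_lit 12573075006) (nat_lit 304) (nat_lit 60447430661) (nat_lit 380) (nat_lit 19052589345) (nat_lit 70) (nat_lit 5) (nat_lit 74) (nat_lit 5) (nat_lit 75) (nat_lit 5) (nat_lit 316) (nat_lit 286) (nat_lit 118))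 (XT.lf (nat_lit 0) (nat_lit 1182265107) (nat_lit 380) (nat_lit 14245298443) (nat_lit 76) (nat_lit 79771190956) (nat_lit 69) (nat_lit 5) (nat_lit 74) (nat_lit 5) (nat_lit 70) (nat_lit 5) (nat_lit 317) (nat_lit 286) (nat_lit 117)))))) (XT.nd (nat_lit 35178) (nat_lit 0) (nat_lit 7752) (XT.nd (nat_lit 156) (nat_lit 228) (nat_lit 0) (XT.nd (nat_lit 78) (nat_lit 304) (nat_lit 0) (XT.lf (nat_lit 0) (nat_lit 22880650519) (nat_lit 380) (nat_lit 43617906629) (nat_lit 76) (nat_lit 31951107567) (nat_lit 65) (nat_lit 5) (nat_lit 70) (nat_lit 5) (nat_lit 66) (nat_lit 5) (nat_lit 318) (nat_lit 286) (nat_lit 116)) (XT.lf (nat_lit 0) (nat_lit 26153105547) (nat_lit 304) (nat_lit 20064835985) (nat_lit 380) (nat_lit 55628560909) (nat_lit 61) (nat_lit 5) (nat_lit 65) (nat_lit 5) (nat_lit 66) (nat_lit 5) (nat_lit 319) (nat_lit 286) (nat_lit 115))) (XT.nd (nat_lit 78) (nat_lit 228) (nat_lit 0) (XT.lf (nat_lit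 0) (nat_lit 71450157539) (nat_lit 380) (nat_lit 5357478918) (nat_lit 76) (nat_lit 28583705305) (nat_lit 61) (nat_lit 5) (nat_lit 66) (nat_lit 5) (nat_lit 62) (nat_lit 5) (nat_lit 320) (nat_lit 286) (nat_lit 114)) (XT.nd (nat_lit 34866) (nat_lit 0) (nat_lit 8740) (XT.lf (nat_lit 0) (nat_lit 69650238492) (nat_lit 228) (nat_lit 29164657839) (nat_lit 304) (nat_lit 10272400807) (nat_lit 58) (nat_lit 5) (nat_lit 61) (nat_lit 5) (nat_lit 62) (nat_lit 5) (nat_lit 321) (nat_lit 286) (nat_lit 113)) (XT.lf (nat_lit 0) (nat_lit 19486058792) (nat_lit 1140) (nat_lit 431092467) (nat_lit 1140) (nat_lit 431092467) (nat_lit 173) (nat_lit 3) (nat_lit 188) (nat_lit 3) (nat_lit 188) (nat_lit 5) (nat_lit 287) (nat_lit 287) (nat_lit 146))))) (XT.nd (nat_lit 234) (nat_lit 0) (nat_lit 0) (XT.nd (nat_lit 78) (nat_lit 988) (nat_lit 0) (XT.lf (nat_lit 76) (nat_lit 28815583891) (nat_lit 0) (nat_lit 11467312581) (nat_lit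 1140) (nat_lit 1420789847) (nat_lit 174) (nat_lit 5) (nat_lit 173) (nat_lit 3) (nat_lit 188) (nat_lit 5) (nat_lit 288) (nat_lit 287) (nat_lit 145)) (XT.nd (nat_lit 78) (nat_lit 1064) (nat_lit 0) (XT.lf (nat_lit 76) (nat_lit 17395410780) (nat_lit 0) (nat_lit 24612256857) (nat_lit 1140) (nat_lit 743131513) (nat_lit 175) (nat_lit 5) (nat_lit 174) (nat_lit 5) (nat_lit 189) (nat_lit 5) (nat_lit 289) (nat_lit 287) (nat_lit 144)) (XT.lf (nat_lit 0) (nat_lit 320265782) (nat_lit 1140) (nat_lit 38285968865) (nat_lit 1216) (nat_lit 5233511942) (nat_lit 160) (nat_lit 5) (nat_lit 175) (nat_lit 5) (nat_lit 176) (nat_lit 5) (nat_lit 290) (nat_lit 287) (nat_lit 143)))) (XT.nd (nat_lit 78) (nat_lit 0) (nat_lit 76) (XT.lf (nat_lit 0) (nat_lit 1930097938) (nat_lit 1140) (nat_lit 6697785679) (nat_lit 1216) (nat_lit 36339784741) (nat_lit 160) (nat_lit 5) (nat_lit 175) (nat_lit 5) (nat_lit 176) (nat_lit 5) (nat_lit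 291) (nat_lit 287) (nat_lit 142)) (XT.nd (nat_lit 78) (nat_lit 0) (nat_lit 76) (XT.lf (nat_lit 0) (nat_lit 4098777946) (nat_lit 1140) (nat_lit 19372087778) (nat_lit 1216) (nat_lit 22666776193) (nat_lit 161) (nat_lit 5) (nat_lit 176) (nat_lit 5) (nat_lit 177) (nat_lit 5) (nat_lit 292) (nat_lit 287) (nat_lit 141)) (XT.lf (nat_lit 0) (nat_lit 6751303139) (nat_lit 1140) (nat_lit 32557735209) (nat_lit 1216) (nat_lit 8045819557) (nat_lit 162) (nat_lit 5) (nat_lit 177) (nat_lit 5) (nat_lit 178) (nat_lit 5) (nat_lit 293) (nat_lit 287) (nat_lit 140))))))))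
noncomputable def xc119 : XT := (XT.nd (nat_lit 1716) (nat_lit 1292) (nat_lit 0) (XT.nd (nat_lit 858) (nat_lit 3344) (nat_lit 0) (XT.nd (nat_lit 390) (nat_lit 2204) (nat_lit 0) (XT.nd (nat_lit 156) (nat_lit 836) (nat_lit 0) (XT.nd (nat_lit 78) (nat_lit 0) (nat_lit 76) (XT.lf (nat_lit 76) (nat_lit 2255585247) (nat_lit 0) (nat_lit 7737779829) (nat_lit 1216) (nat_lit 38625868097) (nat_lit 163) (nat_lit 5) (nat_lit 162) (nat_lit 5) (nat_lit 178) (nat_lit 5) (nat_lit 294) (nat_lit 287) (nat_lit 139)) (XT.lf (nat_lit 0) (nat_lit 13977348587) (nat_lit 1140) (nat_lit 10696690922) (nat_lit 1216) (nat_lit 25255398664) (nat_lit 163) (nat_lit 5) (nat_lit 178) (nat_lit 5) (nat_lit 179) (nat_lit 5) (nat_lit 295) (nat_lit 287) (nat_lit 138))) (XT.nd (nat_lit 78) (nat_lit 988) (nat_lit 0) (XT.lf (nat_lit 0) (nat_lit 18581040299) (nat_lit 1140) (nat_lit 24174532211) (nat_lit 1216) (nat_lit 8536970900) (nat_lit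 164) (nat_lit 5) (nat_lit 179) (nat_lit 5) (nat_lit 180) (nat_lit 5) (nat_lit 296) (nat_lit 287) (nat_lit 137)) (XT.nd (nat_lit 78) (nat_lit 988) (nat_lit 0) (XT.lf (nat_lit 76) (nat_lit 14354271101) (nat_lit 0) (nat_lit 9556200614) (nat_lit 1216) (nat_lit 28798470547) (nat_lit 165) (nat_lit 5) (nat_lit 164) (nat_lit 5) (nat_lit 180) (nat_lit 5) (nat_lit 297) (nat_lit 287) (nat_lit 136)) (XT.lf (nat_lit 0) (nat_lit 895576561) (nat_lit 1064) (nat_lit 29111395596) (nat_lit 1140) (nat_lit 24174175744) (nat_lit 151) (nat_lit 5) (nat_lit 165) (nat_lit 5) (nat_lit 166) (nat_lit 5) (nat_lit 298) (nat_lit 287) (nat_lit 135))))) (XT.nd (nat_lit 234) (nat_lit 1140) (nat_lit 0) (XT.nd (nat_lit 78) (nat_lit 1064) (nat_lit 0) (XT.lf (nat_lit 0) (nat_lit 36953014693) (nat_lit 1140) (nat_lit 12959847943) (nat_lit 76) (nat_lit 5797764217) (nat_lit 151) (nat_lit 5) (nat_lit 166) (nat_lit 5) (nat_lit 152)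 (nat_lit 5) (nat_lit 299) (nat_lit 287) (nat_lit 134)) (XT.nd (nat_lit 78) (nat_lit 532) (nat_lit 0) (XT.lf (nat_lit 0) (nat_lit 29665091511) (nat_lit 532) (nat_lit 15157916546) (nat_lit 608) (nat_lit 12476276559) (nat_lit 144) (nat_lit 5) (nat_lit 151) (nat_lit 5) (nat_lit 152) (nat_lit 5) (nat_lit 300) (nat_lit 287) (nat_lit 133)) (XT.lf (nat_lit 0) (nat_lit 15829078904) (nat_lit 532) (nat_lit 37747149799) (nat_lit 608) (nat_lit 5376458856) (nat_lit 137) (nat_lit 5) (nat_lit 144) (nat_lit 5) (nat_lit 145) (nat_lit 5) (nat_lit 301) (nat_lit 287) (nat_lit 132)))) (XT.nd (nat_lit 78) (nat_lit 532) (nat_lit 0) (XT.lf (nat_lit 0) (nat_lit 1208441346) (nat_lit 532) (nat_lit 1279063905) (nat_lit 608) (nat_lit 58187168507) (nat_lit 129) (nat_lit 5) (nat_lit 136) (nat_lit 5) (nat_lit 137) (nat_lit 5) (nat_lit 302) (nat_lit 287) (nat_lit 131)) (XT.nd (nat_lit 78) (nat_lit 532) (nat_lit 0) (XT.lf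 (nat_lit 0) (nat_lit 11436509929) (nat_lit 608) (nat_lit 14227758521) (nat_lit 76) (nat_lit 36792806403) (nat_lit 129) (nat_lit 5) (nat_lit 137) (nat_lit 5) (nat_lit 130) (nat_lit 5) (nat_lit 303) (nat_lit 287) (nat_lit 130)) (XT.lf (nat_lit 0) (nat_lit 21292489624) (nat_lit 608) (nat_lit 30521444377) (nat_lit 76) (nat_lit 12500879715) (nat_lit 122) (nat_lit 5) (nat_lit 130) (nat_lit 5) (nat_lit 123) (nat_lit 5) (nat_lit 304) (nat_lit 287) (nat_lit 129)))))) (XT.nd (nat_lit 390) (nat_lit 1520) (nat_lit 0) (XT.nd (nat_lit 156) (nat_lit 912) (nat_lit 0) (XT.nd (nat_lit 78) (nat_lit 456) (nat_lit 0) (XT.lf (nat_lit 0) (nat_lit 18347341355) (nat_lit 456) (nat_lit 13875318048) (nat_lit 532) (nat_lit 34025341675) (nat_lit 116) (nat_lit 5) (nat_lit 122) (nat_lit 5) (nat_lit 123) (nat_lit 5) (nat_lit 305) (nat_lit 287) (nat_lit 128)) (XT.lf (nat_lit 0) (nat_lit 1809586475) (nat_lit 456) (nat_lit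 42472142592) (nat_lit 532) (nat_lit 23978650134) (nat_lit 110) (nat_lit 5) (nat_lit 116) (nat_lit 5) (nat_lit 117) (nat_lit 5) (nat_lit 306) (nat_lit 287) (nat_lit 127))) (XT.nd (nat_lit 78) (nat_lit 912) (nat_lit 0) (XT.lf (nat_lit 0) (nat_lit 54861530283) (nat_lit 456) (nat_lit 2712208974) (nat_lit 532) (nat_lit 12780740346) (nat_lit 110) (nat_lit 5) (nat_lit 116) (nat_lit 5) (nat_lit 117) (nat_lit 5) (nat_lit 307) (nat_lit 287) (nat_lit 126)) (XT.nd (nat_lit 78) (nat_lit 532) (nat_lit 0) (XT.lf (nat_lit 0) (nat_lit 38384651789) (nat_lit 380) (nat_lit 33888211425) (nat_lit 456) (nat_lit 258149257) (nat_lit 105) (nat_lit 5) (nat_lit 110) (nat_lit 5) (nat_lit 111) (nat_lit 5) (nat_lit 308) (nat_lit 287) (nat_lit 125)) (XT.lf (nat_lit 0) (nat_lit 13098916201) (nat_lit 532) (nat_lit 54157214274) (nat_lit 76) (nat_lit 7542730184) (nat_lit 98) (nat_lit 5) (nat_lit 105) (nat_lit 5) (nat_lit 99)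 (nat_lit 5) (nat_lit 309) (nat_lit 287) (nat_lit 124))))) (XT.nd (nat_lit 234) (nat_lit 760) (nat_lit 0) (XT.nd (nat_lit 78) (nat_lit 380) (nat_lit 0) (XT.lf (nat_lit 0) (nat_lit 1390159683) (nat_lit 380) (nat_lit 26437181817) (nat_lit 456) (nat_lit 49331420216) (nat_lit 93) (nat_lit 5) (nat_lit 98) (nat_lit 5) (nat_lit 99) (nat_lit 5) (nat_lit 310) (nat_lit 287) (nat_lit 123)) (XT.nd (nat_lit 78) (nat_lit 380) (nat_lit 0) (XT.lf (nat_lit 0) (nat_lit 44011533116) (nat_lit 456) (nat_lit 18938576052) (nat_lit 76) (nat_lit 16664970692) (nat_lit 93) (nat_lit 5) (nat_lit 99) (nat_lit 5) (nat_lit 94) (nat_lit 5) (nat_lit 311) (nat_lit 287) (nat_lit 122)) (XT.lf (nat_lit 0) (nat_lit 41269636368) (nat_lit 380) (nat_lit 20397376511) (nat_lit 456) (nat_lit 20507340944) (nat_lit 88) (nat_lit 5) (nat_lit 93) (nat_lit 5) (nat_lit 94) (nat_lit 5) (nat_lit 312) (nat_lit 287) (nat_lit 121)))) (XT.nd (nat_lit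 78) (nat_lit 456) (nat_lit 0) (XT.lf (nat_lit 0) (nat_lit 20185019214) (nat_lit 304) (nat_lit 60643169938) (nat_lit 380) (nat_lit 4014716820) (nat_lit 84) (nat_lit 5) (nat_lit 88) (nat_lit 5) (nat_lit 89) (nat_lit 5) (nat_lit 313) (nat_lit 287) (nat_lit 120)) (XT.nd (nat_lit 78) (nat_lit 380) (nat_lit 0) (XT.lf (nat_lit 0) (nat_lit 13672698654) (nat_lit 380) (nat_lit 2787904669) (nat_lit 76) (nat_lit 71161556021) (nat_lit 83) (nat_lit 5) (nat_lit 88) (nat_lit 5) (nat_lit 84) (nat_lit 5) (nat_lit 314) (nat_lit 287) (nat_lit 119)) (XT.lf (nat_lit 0) (nat_lit 33064205487) (nat_lit 456) (nat_lit 27445121816) (nat_lit 76) (nat_lit 30002774965) (nat_lit 78) (nat_lit 5) (nat_lit 84) (nat_lit 5) (nat_lit 79) (nat_lit 5) (nat_lit 315) (nat_lit 287) (nat_lit 118))))))) (XT.nd (nat_lit 35724) (nat_lit 0) (nat_lit 5168) (XT.nd (nat_lit 390) (nat_lit 0) (nat_lit 0) (XT.nd (nat_lit 156) (nat_lit 684)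 (nat_lit 0) (XT.nd (nat_lit 78) (nat_lit 304) (nat_lit 0) (XT.lf (nat_lit 0) (nat_lit 39326494490) (nat_lit 304) (nat_lit 14670674681) (nat_lit 380) (nat_lit 39532218535) (nat_lit 74) (nat_lit 5) (nat_lit 78) (nat_lit 5) (nat_lit 79) (nat_lit 5) (nat_lit 316) (nat_lit 287) (nat_lit 117)) (XT.lf (nat_lit 0) (nat_lit 13253688583) (nat_lit 304) (nat_lit 63456221119) (nat_lit 380) (nat_lit 19965635581) (nat_lit 70) (nat_lit 5) (nat_lit 74) (nat_lit 5) (nat_lit 75) (nat_lit 5) (nat_lit 317) (nat_lit 287) (nat_lit 116))) (XT.nd (nat_lit 78) (nat_lit 608) (nat_lit 0) (XT.lf (nat_lit 0) (nat_lit 1278341048) (nat_lit 380) (nat_lit 14907293072) (nat_lit 76) (nat_lit 83771900116) (nat_lit 69) (nat_lit 5) (nat_lit 74) (nat_lit 5) (nat_lit 70) (nat_lit 5) (nat_lit 318) (nat_lit 287) (nat_lit 115)) (XT.nd (nat_lit 78) (nat_lit 304) (nat_lit 0) (XT.lf (nat_lit 0) (nat_lit 24060481457) (nat_lit 380) (nat_lit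 45748982197) (nat_lit 76) (nat_lit 33561563568) (nat_lit 65) (nat_lit 5) (nat_lit 70) (nat_lit 5) (nat_lit 66) (nat_lit 5) (nat_lit 319) (nat_lit 287) (nat_lit 114)) (XT.lf (nat_lit 0) (nat_lit 27509152514) (nat_lit 304) (nat_lit 21054244991) (nat_lit 380) (nat_lit 58374348743) (nat_lit 61) (nat_lit 5) (nat_lit 65) (nat_lit 5) (nat_lit 66) (nat_lit 5) (nat_lit 320) (nat_lit 287) (nat_lit 113))))) (XT.nd (nat_lit 35100) (nat_lit 0) (nat_lit 7524) (XT.nd (nat_lit 34944) (nat_lit 0) (nat_lit 8512) (XT.lf (nat_lit 0) (nat_lit 75055705288) (nat_lit 380) (nat_lit 5578362353) (nat_lit 76) (nat_lit 30025807586) (nat_lit 61) (nat_lit 5) (nat_lit 66) (nat_lit 5) (nat_lit 62) (nat_lit 5) (nat_lit 321) (nat_lit 287) (nat_lit 112)) (XT.nd (nat_lit 78) (nat_lit 0) (nat_lit 0) (XT.lf (nat_lit 0) (nat_lit 20518915965) (nat_lit 1140) (nat_lit 422433069) (nat_lit 1140) (nat_lit 422433069) (nat_lit 173) (nat_lit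 3) (nat_lit 188) (nat_lit 3) (nat_lit 188) (nat_lit 5) (nat_lit 288) (nat_lit 288) (nat_lit 144)) (XT.lf (nat_lit 76) (nat_lit 30315058971) (nat_lit 0) (nat_lit 12094078420) (nat_lit 1140) (nat_lit 1376147157) (nat_lit 174) (nat_lit 5) (nat_lit 173) (nat_lit 3) (nat_lit 188) (nat_lit 5) (nat_lit 289) (nat_lit 288) (nat_lit 143)))) (XT.nd (nat_lit 78) (nat_lit 1064) (nat_lit 0) (XT.lf (nat_lit 76) (nat_lit 18326176592) (nat_lit 0) (nat_lit 25888730064) (nat_lit 1140) (nat_lit 670014207) (nat_lit 175) (nat_lit 5) (nat_lit 174) (nat_lit 5) (nat_lit 189) (nat_lit 5) (nat_lit 290) (nat_lit 288) (nat_lit 142)) (XT.nd (nat_lit 78) (nat_lit 0) (nat_lit 0) (XT.lf (nat_lit 0) (nat_lit 439439987) (nat_lit 1140) (nat_lit 40135022330) (nat_lit 1216) (nat_lit 5453980219) (nat_lit 160) (nat_lit 5) (nat_lit 175) (nat_lit 5) (nat_lit 176) (nat_lit 5) (nat_lit 291) (nat_lit 288) (nat_lit 141)) (XT.lf (nat_lit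 0) (nat_lit 2124851325) (nat_lit 1140) (nat_lit 6970536888) (nat_lit 1216) (nat_lit 38117528912) (nat_lit 160) (nat_lit 5) (nat_lit 175) (nat_lit 5) (nat_lit 176) (nat_lit 5) (nat_lit 292) (nat_lit 288) (nat_lit 140)))))) (XT.nd (nat_lit 468) (nat_lit 2432) (nat_lit 0) (XT.nd (nat_lit 234) (nat_lit 0) (nat_lit 152) (XT.nd (nat_lit 78) (nat_lit 0) (nat_lit 76) (XT.lf (nat_lit 0) (nat_lit 4397542181) (nat_lit 1140) (nat_lit 20277007638) (nat_lit 1216) (nat_lit 23766981152) (nat_lit 161) (nat_lit 5) (nat_lit 176) (nat_lit 5) (nat_lit 177) (nat_lit 5) (nat_lit 293) (nat_lit 288) (nat_lit 139)) (XT.nd (nat_lit 78) (nat_lit 0) (nat_lit 0) (XT.lf (nat_lit 0) (nat_lit 7178550339) (nat_lit 1140) (nat_lit 34120624542) (nat_lit 1216) (nat_lit 8420565665) (nat_lit 162) (nat_lit 5) (nat_lit 177) (nat_lit 5) (nat_lit 178) (nat_lit 5) (nat_lit 294) (nat_lit 288) (nat_lit 138)) (XT.lf (nat_lit 76) (nat_lit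 2431498799) (nat_lit 0) (nat_lit 8147552887) (nat_lit 1216) (nat_lit 40468400889) (nat_lit 163) (nat_lit 5) (nat_lit 162) (nat_lit 5) (nat_lit 178) (nat_lit 5) (nat_lit 295) (nat_lit 288) (nat_lit 137)))) (XT.nd (nat_lit 78) (nat_lit 0) (nat_lit 76) (XT.lf (nat_lit 0) (nat_lit 14757928759) (nat_lit 1140) (nat_lit 11168576400) (nat_lit 1216) (nat_lit 26496799535) (nat_lit 163) (nat_lit 5) (nat_lit 178) (nat_lit 5) (nat_lit 179) (nat_lit 5) (nat_lit 296) (nat_lit 288) (nat_lit 136)) (XT.nd (nat_lit 78) (nat_lit 0) (nat_lit 0) (XT.lf (nat_lit 0) (nat_lit 19588335773) (nat_lit 1140) (nat_lit 25319449260) (nat_lit 1216) (nat_lit 8946891570) (nat_lit 164) (nat_lit 5) (nat_lit 179) (nat_lit 5) (nat_lit 180) (nat_lit 5) (nat_lit 297) (nat_lit 288) (nat_lit 135)) (XT.lf (nat_lit 76) (nat_lit 15133965129) (nat_lit 0) (nat_lit 10047143546) (nat_lit 1216) (nat_lit 30160887610) (nat_lit 165) (nat_lit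 5) (nat_lit 164) (nat_lit 5) (nat_lit 180) (nat_lit 5) (nat_lit 298) (nat_lit 288) (nat_lit 134))))) (XT.nd (nat_lit 234) (nat_lit 1140) (nat_lit 0) (XT.nd (nat_lit 78) (nat_lit 532) (nat_lit 0) (XT.lf (nat_lit 0) (nat_lit 1003006319) (nat_lit 1064) (nat_lit 30576333002) (nat_lit 1140) (nat_lit 25308572381) (nat_lit 151) (nat_lit 5) (nat_lit 165) (nat_lit 5) (nat_lit 166) (nat_lit 5) (nat_lit 299) (nat_lit 288) (nat_lit 133)) (XT.nd (nat_lit 78) (nat_lit 532) (nat_lit 0) (XT.lf (nat_lit 0) (nat_lit 38869168769) (nat_lit 1140) (nat_lit 13545902653) (nat_lit 76) (nat_lit 6078904970) (nat_lit 151) (nat_lit 5) (nat_lit 166) (nat_lit 5) (nat_lit 152) (nat_lit 5) (nat_lit 300) (nat_lit 288) (nat_lit 132)) (XT.lf (nat_lit 0) (nat_lit 31208508342) (nat_lit 532) (nat_lit 15921469712) (nat_lit 608) (nat_lit 13032175536) (nat_lit 144) (nat_lit 5) (nat_lit 151) (nat_lit 5) (nat_lit 152) (nat_lit 5)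 (nat_lit 301) (nat_lit 288) (nat_lit 131)))) (XT.nd (nat_lit 78) (nat_lit 608) (nat_lit 0) (XT.lf (nat_lit 0) (nat_lit 16681058585) (nat_lit 532) (nat_lit 39637196899) (nat_lit 608) (nat_lit 5580055070) (nat_lit 137) (nat_lit 5) (nat_lit 144) (nat_lit 5) (nat_lit 145) (nat_lit 5) (nat_lit 302) (nat_lit 288) (nat_lit 130)) (XT.nd (nat_lit 78) (nat_lit 0) (nat_lit 0) (XT.lf (nat_lit 0) (nat_lit 1328998891) (nat_lit 532) (nat_lit 1344368177) (nat_lit 608) (nat_lit 61033089519) (nat_lit 129) (nat_lit 5) (nat_lit 136) (nat_lit 5) (nat_lit 137) (nat_lit 5) (nat_lit 303) (nat_lit 288) (nat_lit 129)) (XT.lf (nat_lit 0) (nat_lit 12066881680) (nat_lit 608) (nat_lit 14880004235) (nat_lit 76) (nat_lit 38631185093) (nat_lit 129) (nat_lit 5) (nat_lit 137) (nat_lit 5) (nat_lit 130) (nat_lit 5) (nat_lit 304) (nat_lit 288) (nat_lit 128))))))))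
noncomputable def xc120 : XT := (XT.nd (nat_lit 36738) (nat_lit 0) (nat_lit 1368) (XT.nd (nat_lit 858) (nat_lit 1368) (nat_lit 0) (XT.nd (nat_lit 390) (nat_lit 1672) (nat_lit 0) (XT.nd (nat_lit 156) (nat_lit 836) (nat_lit 0) (XT.nd (nat_lit 78) (nat_lit 456) (nat_lit 0) (XT.lf (nat_lit 0) (nat_lit 22413435581) (nat_lit 608) (nat_lit 31988294907) (nat_lit 76) (nat_lit 13127037887) (nat_lit 122) (nat_lit 5) (nat_lit 130) (nat_lit 5) (nat_lit 123) (nat_lit 5) (nat_lit 305) (nat_lit 288) (nat_lit 127)) (XT.lf (nat_lit 0) (nat_lit 19322232534) (nat_lit 456) (nat_lit 14565752298) (nat_lit 532) (nat_lit 35670698735) (nat_lit 116) (nat_lit 5) (nat_lit 122) (nat_lit 5) (nat_lit 123) (nat_lit 5) (nat_lit 306) (nat_lit 288) (nat_lit 126))) (XT.nd (nat_lit 78) (nat_lit 380) (nat_lit 0) (XT.lf (nat_lit 0) (nat_lit 1957578218) (nat_lit 456) (nat_lit 44590432513) (nat_lit 532) (nat_lit 25123734153) (nat_lit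 110) (nat_lit 5) (nat_lit 116) (nat_lit 5) (nat_lit 117) (nat_lit 5) (nat_lit 307) (nat_lit 288) (nat_lit 125)) (XT.nd (nat_lit 78) (nat_lit 380) (nat_lit 0) (XT.lf (nat_lit 0) (nat_lit 57659380530) (nat_lit 456) (nat_lit 2842755414) (nat_lit 532) (nat_lit 13368493089) (nat_lit 110) (nat_lit 5) (nat_lit 116) (nat_lit 5) (nat_lit 117) (nat_lit 5) (nat_lit 308) (nat_lit 288) (nat_lit 124)) (XT.lf (nat_lit 0) (nat_lit 40358570166) (nat_lit 380) (nat_lit 35575850837) (nat_lit 456) (nat_lit 221625359) (nat_lit 105) (nat_lit 5) (nat_lit 110) (nat_lit 5) (nat_lit 111) (nat_lit 5) (nat_lit 309) (nat_lit 288) (nat_lit 123))))) (XT.nd (nat_lit 234) (nat_lit 760) (nat_lit 0) (XT.nd (nat_lit 78) (nat_lit 380) (nat_lit 0) (XT.lf (nat_lit 0) (nat_lit 13800612797) (nat_lit 532) (nat_lit 56809542973) (nat_lit 76) (nat_lit 7927172079) (nat_lit 98) (nat_lit 5) (nat_lit 105) (nat_lit 5) (nat_lit 99) (nat_lit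 5) (nat_lit 310) (nat_lit 288) (nat_lit 122)) (XT.nd (nat_lit 78) (nat_lit 0) (nat_lit 0) (XT.lf (nat_lit 0) (nat_lit 1513607868) (nat_lit 380) (nat_lit 27750143772) (nat_lit 456) (nat_lit 51751527043) (nat_lit 93) (nat_lit 5) (nat_lit 98) (nat_lit 5) (nat_lit 99) (nat_lit 5) (nat_lit 311) (nat_lit 288) (nat_lit 121)) (XT.lf (nat_lit 0) (nat_lit 46255089380) (nat_lit 456) (nat_lit 19832861239) (nat_lit 76) (nat_lit 17506527342) (nat_lit 93) (nat_lit 5) (nat_lit 99) (nat_lit 5) (nat_lit 94) (nat_lit 5) (nat_lit 312) (nat_lit 288) (nat_lit 120)))) (XT.nd (nat_lit 78) (nat_lit 380) (nat_lit 0) (XT.lf (nat_lit 0) (nat_lit 43384252783) (nat_lit 380) (nat_lit 21407535239) (nat_lit 456) (nat_lit 21489977423) (nat_lit 88) (nat_lit 5) (nat_lit 93) (nat_lit 5) (nat_lit 94) (nat_lit 5) (nat_lit 313) (nat_lit 288) (nat_lit 119)) (XT.nd (nat_lit 78) (nat_lit 76) (nat_lit 0) (XT.lf (nat_lit 0) (nat_lit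 21245116976) (nat_lit 304) (nat_lit 63664511201) (nat_lit 380) (nat_lit 4174161886) (nat_lit 84) (nat_lit 5) (nat_lit 88) (nat_lit 5) (nat_lit 89) (nat_lit 5) (nat_lit 314) (nat_lit 288) (nat_lit 118)) (XT.lf (nat_lit 0) (nat_lit 14394890771) (nat_lit 380) (nat_lit 2878051240) (nat_lit 76) (nat_lit 74729112812) (nat_lit 83) (nat_lit 5) (nat_lit 88) (nat_lit 5) (nat_lit 84) (nat_lit 5) (nat_lit 315) (nat_lit 288) (nat_lit 117)))))) (XT.nd (nat_lit 35412) (nat_lit 0) (nat_lit 7220) (XT.nd (nat_lit 156) (nat_lit 684) (nat_lit 0) (XT.nd (nat_lit 78) (nat_lit 304) (nat_lit 0) (XT.lf (nat_lit 0) (nat_lit 34754699159) (nat_lit 456) (nat_lit 28768474832) (nat_lit 76) (nat_lit 31513361771) (nat_lit 78) (nat_lit 5) (nat_lit 84) (nat_lit 5) (nat_lit 79) (nat_lit 5) (nat_lit 316) (nat_lit 288) (nat_lit 116)) (XT.lf (nat_lit 0) (nat_lit 41340320492) (nat_lit 304) (nat_lit 15392671746) (nat_lit 380) (nat_lit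 41471735326) (nat_lit 74) (nat_lit 5) (nat_lit 78) (nat_lit 5) (nat_lit 79) (nat_lit 5) (nat_lit 317) (nat_lit 288) (nat_lit 115))) (XT.nd (nat_lit 78) (nat_lit 380) (nat_lit 0) (XT.lf (nat_lit 0) (nat_lit 13963502105) (nat_lit 304) (nat_lit 66616713740) (nat_lit 380) (nat_lit 20928014202) (nat_lit 70) (nat_lit 5) (nat_lit 74) (nat_lit 5) (nat_lit 75) (nat_lit 5) (nat_lit 318) (nat_lit 288) (nat_lit 114)) (XT.nd (nat_lit 78) (nat_lit 304) (nat_lit 0) (XT.lf (nat_lit 0) (nat_lit 1375784347) (nat_lit 380) (nat_lit 15607061087) (nat_lit 76) (nat_lit 87971515177) (nat_lit 69) (nat_lit 5) (nat_lit 74) (nat_lit 5) (nat_lit 70) (nat_lit 5) (nat_lit 319) (nat_lit 288) (nat_lit 113)) (XT.lf (nat_lit 0) (nat_lit 25295975745) (nat_lit 380) (nat_lit 47991243313) (nat_lit 76) (nat_lit 35251342992) (nat_lit 65) (nat_lit 5) (nat_lit 70) (nat_lit 5) (nat_lit 66) (nat_lit 5) (nat_lit 320) (nat_lit 288) (nat_lit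 112))))) (XT.nd (nat_lit 234) (nat_lit 988) (nat_lit 0) (XT.nd (nat_lit 78) (nat_lit 0) (nat_lit 0) (XT.lf (nat_lit 0) (nat_lit 21597972180) (nat_lit 1140) (nat_lit 416149714) (nat_lit 1140) (nat_lit 416149714) (nat_lit 173) (nat_lit 3) (nat_lit 188) (nat_lit 3) (nat_lit 188) (nat_lit 5) (nat_lit 289) (nat_lit 289) (nat_lit 142)) (XT.nd (nat_lit 78) (nat_lit 0) (nat_lit 76) (XT.lf (nat_lit 76) (nat_lit 31884050818) (nat_lit 0) (nat_lit 12747217906) (nat_lit 1140) (nat_lit 1340027366) (nat_lit 174) (nat_lit 5) (nat_lit 173) (nat_lit 3) (nat_lit 188) (nat_lit 5) (nat_lit 290) (nat_lit 289) (nat_lit 141)) (XT.lf (nat_lit 76) (nat_lit 19297809933) (nat_lit 0) (nat_lit 27224763270) (nat_lit 1140) (nat_lit 603493255) (nat_lit 175) (nat_lit 5) (nat_lit 174) (nat_lit 5) (nat_lit 189) (nat_lit 5) (nat_lit 291) (nat_lit 289) (nat_lit 140)))) (XT.nd (nat_lit 78) (nat_lit 0) (nat_lit 0) (XT.lf (nat_lit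 0) (nat_lit 554981978) (nat_lit 1140) (nat_lit 42082594328) (nat_lit 1216) (nat_lit 5689302976) (nat_lit 160) (nat_lit 5) (nat_lit 175) (nat_lit 5) (nat_lit 176) (nat_lit 5) (nat_lit 292) (nat_lit 289) (nat_lit 139)) (XT.nd (nat_lit 78) (nat_lit 0) (nat_lit 76) (XT.lf (nat_lit 0) (nat_lit 2320208169) (nat_lit 1140) (nat_lit 7262702666) (nat_lit 1216) (nat_lit 39987808925) (nat_lit 160) (nat_lit 5) (nat_lit 175) (nat_lit 5) (nat_lit 176) (nat_lit 5) (nat_lit 293) (nat_lit 289) (nat_lit 138)) (XT.lf (nat_lit 0) (nat_lit 4702521636) (nat_lit 1140) (nat_lit 21233094275) (nat_lit 1216) (nat_lit 24925276830) (nat_lit 161) (nat_lit 5) (nat_lit 176) (nat_lit 5) (nat_lit 177) (nat_lit 5) (nat_lit 294) (nat_lit 289) (nat_lit 137))))))) (XT.nd (nat_lit 858) (nat_lit 3496) (nat_lit 0) (XT.nd (nat_lit 390) (nat_lit 2508) (nat_lit 0) (XT.nd (nat_lit 156) (nat_lit 0) (nat_lit 76) (XT.nd (nat_lit 78) (nat_lit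 0) (nat_lit 0) (XT.lf (nat_lit 0) (nat_lit 7618822113) (nat_lit 1140) (nat_lit 35767701187) (nat_lit 1216) (nat_lit 8816609940) (nat_lit 162) (nat_lit 5) (nat_lit 177) (nat_lit 5) (nat_lit 178) (nat_lit 5) (nat_lit 295) (nat_lit 289) (nat_lit 136)) (XT.lf (nat_lit 76) (nat_lit 2610338400) (nat_lit 0) (nat_lit 8575687054) (nat_lit 1216) (nat_lit 42411312442) (nat_lit 163) (nat_lit 5) (nat_lit 162) (nat_lit 5) (nat_lit 178) (nat_lit 5) (nat_lit 296) (nat_lit 289) (nat_lit 135))) (XT.nd (nat_lit 78) (nat_lit 0) (nat_lit 76) (XT.lf (nat_lit 0) (nat_lit 15569941063) (nat_lit 1140) (nat_lit 11669908559) (nat_lit 1216) (nat_lit 27802257142) (nat_lit 163) (nat_lit 5) (nat_lit 178) (nat_lit 5) (nat_lit 179) (nat_lit 5) (nat_lit 297) (nat_lit 289) (nat_lit 134)) (XT.nd (nat_lit 78) (nat_lit 0) (nat_lit 0) (XT.lf (nat_lit 0) (nat_lit 20638721686) (nat_lit 1140) (nat_lit 26527544570) (nat_lit 1216)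 (nat_lit 9378882068) (nat_lit 164) (nat_lit 5) (nat_lit 179) (nat_lit 5) (nat_lit 180) (nat_lit 5) (nat_lit 298) (nat_lit 289) (nat_lit 133)) (XT.lf (nat_lit 76) (nat_lit 15946881501) (nat_lit 0) (nat_lit 10561412652) (nat_lit 1216) (nat_lit 31598631342) (nat_lit 165) (nat_lit 5) (nat_lit 164) (nat_lit 5) (nat_lit 180) (nat_lit 5) (nat_lit 299) (nat_lit 289) (nat_lit 132))))) (XT.nd (nat_lit 234) (nat_lit 1140) (nat_lit 0) (XT.nd (nat_lit 78) (nat_lit 532) (nat_lit 0) (XT.lf (nat_lit 0) (nat_lit 1109982876) (nat_lit 1064) (nat_lit 32113646365) (nat_lit 1140) (nat_lit 26506597690) (nat_lit 151) (nat_lit 5) (nat_lit 165) (nat_lit 5) (nat_lit 166) (nat_lit 5) (nat_lit 300) (nat_lit 289) (nat_lit 131)) (XT.nd (nat_lit 78) (nat_lit 532) (nat_lit 0) (XT.lf (nat_lit 0) (nat_lit 40874761758) (nat_lit 1140) (nat_lit 14167018478) (nat_lit 76) (nat_lit 6374916018) (nat_lit 151) (nat_lit 5) (nat_lit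 166) (nat_lit 5) (nat_lit 152) (nat_lit 5) (nat_lit 301) (nat_lit 289) (nat_lit 130)) (XT.lf (nat_lit 0) (nat_lit 32823502699) (nat_lit 532) (nat_lit 16722674571) (nat_lit 608) (nat_lit 13622183541) (nat_lit 144) (nat_lit 5) (nat_lit 151) (nat_lit 5) (nat_lit 152) (nat_lit 5) (nat_lit 302) (nat_lit 289) (nat_lit 129)))) (XT.nd (nat_lit 78) (nat_lit 608) (nat_lit 0) (XT.lf (nat_lit 0) (nat_lit 17570010140) (nat_lit 532) (nat_lit 41621496301) (nat_lit 608) (nat_lit 5799895257) (nat_lit 137) (nat_lit 5) (nat_lit 144) (nat_lit 5) (nat_lit 145) (nat_lit 5) (nat_lit 303) (nat_lit 289) (nat_lit 128)) (XT.nd (nat_lit 78) (nat_lit 0) (nat_lit 0) (XT.lf (nat_lit 0) (nat_lit 1449993486) (nat_lit 532) (nat_lit 1412812053) (nat_lit 608) (nat_lit 64027204392) (nat_lit 129) (nat_lit 5) (nat_lit 136) (nat_lit 5) (nat_lit 137) (nat_lit 5) (nat_lit 304) (nat_lit 289) (nat_lit 127)) (XT.lf (nat_lit 0) (nat_lit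 12723328943) (nat_lit 608) (nat_lit 15570360716) (nat_lit 76) (nat_lit 40561600011) (nat_lit 129) (nat_lit 5) (nat_lit 137) (nat_lit 5) (nat_lit 130) (nat_lit 5) (nat_lit 305) (nat_lit 289) (nat_lit 126)))))) (XT.nd (nat_lit 390) (nat_lit 1672) (nat_lit 0) (XT.nd (nat_lit 156) (nat_lit 836) (nat_lit 0) (XT.nd (nat_lit 78) (nat_lit 456) (nat_lit 0) (XT.lf (nat_lit 0) (nat_lit 23585192599) (nat_lit 608) (nat_lit 33533993835) (nat_lit 76) (nat_lit 13784400381) (nat_lit 122) (nat_lit 5) (nat_lit 130) (nat_lit 5) (nat_lit 123) (nat_lit 5) (nat_lit 306) (nat_lit 289) (nat_lit 125)) (XT.lf (nat_lit 0) (nat_lit 20340520225) (nat_lit 456) (nat_lit 15291018005) (nat_lit 532) (nat_lit 37403521631) (nat_lit 116) (nat_lit 5) (nat_lit 122) (nat_lit 5) (nat_lit 123) (nat_lit 5) (nat_lit 307) (nat_lit 289) (nat_lit 124))) (XT.nd (nat_lit 78) (nat_lit 380) (nat_lit 0) (XT.lf (nat_lit 0) (nat_lit 2107622588)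 (nat_lit 456) (nat_lit 46815131273) (nat_lit 532) (nat_lit 26331078695) (nat_lit 110) (nat_lit 5) (nat_lit 116) (nat_lit 5) (nat_lit 117) (nat_lit 5) (nat_lit 308) (nat_lit 289) (nat_lit 123)) (XT.nd (nat_lit 78) (nat_lit 380) (nat_lit 0) (XT.lf (nat_lit 0) (nat_lit 60592030946) (nat_lit 456) (nat_lit 2980299980) (nat_lit 532) (nat_lit 13990401395) (nat_lit 110) (nat_lit 5) (nat_lit 116) (nat_lit 5) (nat_lit 117) (nat_lit 5) (nat_lit 309) (nat_lit 289) (nat_lit 122)) (XT.lf (nat_lit 0) (nat_lit 42426100296) (nat_lit 380) (nat_lit 37348501737) (nat_lit 456) (nat_lit 187870926) (nat_lit 105) (nat_lit 5) (nat_lit 110) (nat_lit 5) (nat_lit 111) (nat_lit 5) (nat_lit 310) (nat_lit 289) (nat_lit 121))))) (XT.nd (nat_lit 234) (nat_lit 760) (nat_lit 0) (XT.nd (nat_lit 78) (nat_lit 380) (nat_lit 0) (XT.lf (nat_lit 0) (nat_lit 14533047779) (nat_lit 532) (nat_lit 59599650947) (nat_lit 76) (nat_lit 8330156884)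 (nat_lit 98) (nat_lit 5) (nat_lit 105) (nat_lit 5) (nat_lit 99) (nat_lit 5) (nat_lit 311) (nat_lit 289) (nat_lit 120)) (XT.nd (nat_lit 78) (nat_lit 0) (nat_lit 0) (XT.lf (nat_lit 0) (nat_lit 1638213614) (nat_lit 380) (nat_lit 29129580996) (nat_lit 456) (nat_lit 54296959010) (nat_lit 93) (nat_lit 5) (nat_lit 98) (nat_lit 5) (nat_lit 99) (nat_lit 5) (nat_lit 312) (nat_lit 289) (nat_lit 119)) (XT.lf (nat_lit 0) (nat_lit 48606827622) (nat_lit 456) (nat_lit 20776754991) (nat_lit 76) (nat_lit 18389389415) (nat_lit 93) (nat_lit 5) (nat_lit 99) (nat_lit 5) (nat_lit 94) (nat_lit 5) (nat_lit 313) (nat_lit 289) (nat_lit 118)))) (XT.nd (nat_lit 78) (nat_lit 380) (nat_lit 0) (XT.lf (nat_lit 0) (nat_lit 45599846008) (nat_lit 380) (nat_lit 22469104655) (nat_lit 456) (nat_lit 22525718409) (nat_lit 88) (nat_lit 5) (nat_lit 93) (nat_lit 5) (nat_lit 94) (nat_lit 5) (nat_lit 314) (nat_lit 289) (nat_lit 117))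 (XT.nd (nat_lit 78) (nat_lit 76) (nat_lit 0) (XT.lf (nat_lit 0) (nat_lit 22353492373) (nat_lit 304) (nat_lit 66837925212) (nat_lit 380) (nat_lit 4345418031) (nat_lit 84) (nat_lit 5) (nat_lit 88) (nat_lit 5) (nat_lit 89) (nat_lit 5) (nat_lit 315) (nat_lit 289) (nat_lit 116)) (XT.lf (nat_lit 0) (nat_lit 15149607811) (nat_lit 380) (nat_lit 2977283813) (nat_lit 76) (nat_lit 78474166175) (nat_lit 83) (nat_lit 5) (nat_lit 88) (nat_lit 5) (nat_lit 84) (nat_lit 5) (nat_lit 316) (nat_lit 289) (nat_lit 115))))))))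
noncomputable def xc121 : XT := (XT.nd (nat_lit 36816) (nat_lit 0) (nat_lit 380) (XT.nd (nat_lit 35958) (nat_lit 0) (nat_lit 4028) (XT.nd (nat_lit 35490) (nat_lit 0) (nat_lit 6916) (XT.nd (nat_lit 156) (nat_lit 380) (nat_lit 0) (XT.nd (nat_lit 78) (nat_lit 304) (nat_lit 0) (XT.lf (nat_lit 0) (nat_lit 36526251257) (nat_lit 456) (nat_lit 30162542043) (nat_lit 76) (nat_lit 33098506555) (nat_lit 78) (nat_lit 5) (nat_lit 84) (nat_lit 5) (nat_lit 79) (nat_lit 5) (nat_lit 317) (nat_lit 289) (nat_lit 114)) (XT.lf (nat_lit 0) (nat_lit 43450421576) (nat_lit 304) (nat_lit 16151841234) (nat_lit 380) (nat_lit 43511676618) (nat_lit 74) (nat_lit 5) (nat_lit 78) (nat_lit 5) (nat_lit 79) (nat_lit 5) (nat_lit 318) (nat_lit 289) (nat_lit 113))) (XT.nd (nat_lit 78) (nat_lit 76) (nat_lit 0) (XT.lf (nat_lit 0) (nat_lit 14704424688) (nat_lit 304) (nat_lit 69936376244) (nat_lit 380) (nat_lit 21941849689) (nat_lit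 70) (nat_lit 5) (nat_lit 74) (nat_lit 5) (nat_lit 75) (nat_lit 5) (nat_lit 319) (nat_lit 289) (nat_lit 112)) (XT.nd (nat_lit 35178) (nat_lit 0) (nat_lit 7904) (XT.lf (nat_lit 0) (nat_lit 1474982857) (nat_lit 380) (nat_lit 16346056647) (nat_lit 76) (nat_lit 92380086452) (nat_lit 69) (nat_lit 5) (nat_lit 74) (nat_lit 5) (nat_lit 70) (nat_lit 5) (nat_lit 320) (nat_lit 289) (nat_lit 111)) (XT.lf (nat_lit 0) (nat_lit 22726043502) (nat_lit 1140) (nat_lit 412100049) (nat_lit 1140) (nat_lit 412100049) (nat_lit 173) (nat_lit 3) (nat_lit 188) (nat_lit 3) (nat_lit 188) (nat_lit 5) (nat_lit 290) (nat_lit 290) (nat_lit 140))))) (XT.nd (nat_lit 234) (nat_lit 0) (nat_lit 0) (XT.nd (nat_lit 78) (nat_lit 988) (nat_lit 0) (XT.lf (nat_lit 76) (nat_lit 33526542609) (nat_lit 0) (nat_lit 13428511286) (nat_lit 1140) (nat_lit 1311856717) (nat_lit 174) (nat_lit 5) (nat_lit 173) (nat_lit 3) (nat_lit 188) (nat_lit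 5) (nat_lit 291) (nat_lit 290) (nat_lit 139)) (XT.nd (nat_lit 78) (nat_lit 1064) (nat_lit 0) (XT.lf (nat_lit 76) (nat_lit 20312881392) (nat_lit 0) (nat_lit 28623730869) (nat_lit 1140) (nat_lit 542945322) (nat_lit 175) (nat_lit 5) (nat_lit 174) (nat_lit 5) (nat_lit 189) (nat_lit 5) (nat_lit 292) (nat_lit 290) (nat_lit 138)) (XT.lf (nat_lit 0) (nat_lit 667601817) (nat_lit 1140) (nat_lit 44133046839) (nat_lit 1216) (nat_lit 5939866761) (nat_lit 160) (nat_lit 5) (nat_lit 175) (nat_lit 5) (nat_lit 176) (nat_lit 5) (nat_lit 293) (nat_lit 290) (nat_lit 137)))) (XT.nd (nat_lit 78) (nat_lit 0) (nat_lit 76) (XT.lf (nat_lit 0) (nat_lit 2517047854) (nat_lit 1140) (nat_lit 7574716652) (nat_lit 1216) (nat_lit 41954912357) (nat_lit 160) (nat_lit 5) (nat_lit 175) (nat_lit 5) (nat_lit 176) (nat_lit 5) (nat_lit 294) (nat_lit 290) (nat_lit 136)) (XT.nd (nat_lit 78) (nat_lit 0) (nat_lit 76) (XT.lf (nat_lit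 0) (nat_lit 5014838055) (nat_lit 1140) (nat_lit 22242355570) (nat_lit 1216) (nat_lit 26144281370) (nat_lit 161) (nat_lit 5) (nat_lit 176) (nat_lit 5) (nat_lit 177) (nat_lit 5) (nat_lit 295) (nat_lit 290) (nat_lit 135)) (XT.lf (nat_lit 0) (nat_lit 8073544857) (nat_lit 1140) (nat_lit 37502612702) (nat_lit 1216) (nat_lit 9234779204) (nat_lit 162) (nat_lit 5) (nat_lit 177) (nat_lit 5) (nat_lit 178) (nat_lit 5) (nat_lit 296) (nat_lit 290) (nat_lit 134)))))) (XT.nd (nat_lit 390) (nat_lit 2204) (nat_lit 0) (XT.nd (nat_lit 156) (nat_lit 836) (nat_lit 0) (XT.nd (nat_lit 78) (nat_lit 0) (nat_lit 76) (XT.lf (nat_lit 76) (nat_lit 2792796055) (nat_lit 0) (nat_lit 9023298185) (nat_lit 1216) (nat_lit 44458854488) (nat_lit 163) (nat_lit 5) (nat_lit 162) (nat_lit 5) (nat_lit 178) (nat_lit 5) (nat_lit 297) (nat_lit 290) (nat_lit 133)) (XT.lf (nat_lit 0) (nat_lit 16415663391) (nat_lit 1140) (nat_lit 12201615632)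 (nat_lit 1216) (nat_lit 29174789618) (nat_lit 163) (nat_lit 5) (nat_lit 178) (nat_lit 5) (nat_lit 179) (nat_lit 5) (nat_lit 298) (nat_lit 290) (nat_lit 132))) (XT.nd (nat_lit 78) (nat_lit 988) (nat_lit 0) (XT.lf (nat_lit 0) (nat_lit 21735028858) (nat_lit 1140) (nat_lit 27801425514) (nat_lit 1216) (nat_lit 9833899566) (nat_lit 164) (nat_lit 5) (nat_lit 179) (nat_lit 5) (nat_lit 180) (nat_lit 5) (nat_lit 299) (nat_lit 290) (nat_lit 131)) (XT.nd (nat_lit 78) (nat_lit 988) (nat_lit 0) (XT.lf (nat_lit 76) (nat_lit 16795217065) (nat_lit 0) (nat_lit 11100287756) (nat_lit 1216) (nat_lit 33114798149) (nat_lit 165) (nat_lit 5) (nat_lit 164) (nat_lit 5) (nat_lit 180) (nat_lit 5) (nat_lit 300) (nat_lit 290) (nat_lit 130)) (XT.lf (nat_lit 0) (nat_lit 1217025095) (nat_lit 1064) (nat_lit 33727035452) (nat_lit 1140) (nat_lit 27770790785) (nat_lit 151) (nat_lit 5) (nat_lit 165) (nat_lit 5) (nat_lit 166)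 (nat_lit 5) (nat_lit 301) (nat_lit 290) (nat_lit 129))))) (XT.nd (nat_lit 234) (nat_lit 1140) (nat_lit 0) (XT.nd (nat_lit 78) (nat_lit 1064) (nat_lit 0) (XT.lf (nat_lit 0) (nat_lit 42974857715) (nat_lit 1140) (nat_lit 14824413114) (nat_lit 76) (nat_lit 6686465264) (nat_lit 151) (nat_lit 5) (nat_lit 166) (nat_lit 5) (nat_lit 152) (nat_lit 5) (nat_lit 302) (nat_lit 290) (nat_lit 128)) (XT.nd (nat_lit 78) (nat_lit 532) (nat_lit 0) (XT.lf (nat_lit 0) (nat_lit 34514173470) (nat_lit 532) (nat_lit 17563462606) (nat_lit 608) (nat_lit 14247419003) (nat_lit 144) (nat_lit 5) (nat_lit 151) (nat_lit 5) (nat_lit 152) (nat_lit 5) (nat_lit 303) (nat_lit 290) (nat_lit 127)) (XT.lf (nat_lit 0) (nat_lit 18498305320) (nat_lit 532) (nat_lit 43704783865) (nat_lit 608) (nat_lit 6036227829) (nat_lit 137) (nat_lit 5) (nat_lit 144) (nat_lit 5) (nat_lit 145) (nat_lit 5) (nat_lit 304) (nat_lit 290) (nat_lit 126))))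 (XT.nd (nat_lit 78) (nat_lit 532) (nat_lit 0) (XT.lf (nat_lit 0) (nat_lit 1571966767) (nat_lit 532) (nat_lit 1484564190) (nat_lit 608) (nat_lit 67176374495) (nat_lit 129) (nat_lit 5) (nat_lit 136) (nat_lit 5) (nat_lit 137) (nat_lit 5) (nat_lit 305) (nat_lit 290) (nat_lit 125)) (XT.nd (nat_lit 78) (nat_lit 532) (nat_lit 0) (XT.lf (nat_lit 0) (nat_lit 13407661538) (nat_lit 608) (nat_lit 16300222307) (nat_lit 76) (nat_lit 42588642064) (nat_lit 129) (nat_lit 5) (nat_lit 137) (nat_lit 5) (nat_lit 130) (nat_lit 5) (nat_lit 306) (nat_lit 290) (nat_lit 124)) (XT.lf (nat_lit 0) (nat_lit 24810788047) (nat_lit 608) (nat_lit 35161971696) (nat_lit 76) (nat_lit 14474537044) (nat_lit 122) (nat_lit 5) (nat_lit 130) (nat_lit 5) (nat_lit 123) (nat_lit 5) (nat_lit 307) (nat_lit 290) (nat_lit 123))))))) (XT.nd (nat_lit 858) (nat_lit 304) (nat_lit 0) (XT.nd (nat_lit 390) (nat_lit 1520) (nat_lit 0) (XT.nd (nat_lit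 156) (nat_lit 912) (nat_lit 0) (XT.nd (nat_lit 78) (nat_lit 456) (nat_lit 0) (XT.lf (nat_lit 0) (nat_lit 21404871464) (nat_lit 456) (nat_lit 16052827946) (nat_lit 532) (nat_lit 39227700398) (nat_lit 116) (nat_lit 5) (nat_lit 122) (nat_lit 5) (nat_lit 123) (nat_lit 5) (nat_lit 308) (nat_lit 290) (nat_lit 122)) (XT.lf (nat_lit 0) (nat_lit 2260319327) (nat_lit 456) (nat_lit 49151513356) (nat_lit 532) (nat_lit 27603331345) (nat_lit 110) (nat_lit 5) (nat_lit 116) (nat_lit 5) (nat_lit 117) (nat_lit 5) (nat_lit 309) (nat_lit 290) (nat_lit 121))) (XT.nd (nat_lit 78) (nat_lit 912) (nat_lit 0) (XT.lf (nat_lit 0) (nat_lit 63666694978) (nat_lit 456) (nat_lit 3125148806) (nat_lit 532) (nat_lit 14647729766) (nat_lit 110) (nat_lit 5) (nat_lit 116) (nat_lit 5) (nat_lit 117) (nat_lit 5) (nat_lit 310) (nat_lit 290) (nat_lit 120)) (XT.nd (nat_lit 78) (nat_lit 532) (nat_lit 0) (XT.lf (nat_lit 0) (nat_lit 44592395443)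 (nat_lit 380) (nat_lit 39210356173) (nat_lit 456) (nat_lit 156597169) (nat_lit 105) (nat_lit 5) (nat_lit 110) (nat_lit 5) (nat_lit 111) (nat_lit 5) (nat_lit 311) (nat_lit 290) (nat_lit 119)) (XT.lf (nat_lit 0) (nat_lit 15298162155) (nat_lit 532) (nat_lit 62533947168) (nat_lit 76) (nat_lit 8752674887) (nat_lit 98) (nat_lit 5) (nat_lit 105) (nat_lit 5) (nat_lit 99) (nat_lit 5) (nat_lit 312) (nat_lit 290) (nat_lit 118))))) (XT.nd (nat_lit 234) (nat_lit 760) (nat_lit 0) (XT.nd (nat_lit 78) (nat_lit 380) (nat_lit 0) (XT.lf (nat_lit 0) (nat_lit 1764501031) (nat_lit 380) (nat_lit 30578740350) (nat_lit 456) (nat_lit 56973580762) (nat_lit 93) (nat_lit 5) (nat_lit 98) (nat_lit 5) (nat_lit 99) (nat_lit 5) (nat_lit 313) (nat_lit 290) (nat_lit 117)) (XT.nd (nat_lit 78) (nat_lit 380) (nat_lit 0) (XT.lf (nat_lit 0) (nat_lit 51072528434) (nat_lit 456) (nat_lit 21772282708) (nat_lit 76) (nat_lit 19315693992)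 (nat_lit 93) (nat_lit 5) (nat_lit 99) (nat_lit 5) (nat_lit 94) (nat_lit 5) (nat_lit 314) (nat_lit 290) (nat_lit 116)) (XT.lf (nat_lit 0) (nat_lit 47921906867) (nat_lit 380) (nat_lit 23584571366) (nat_lit 456) (nat_lit 23616849785) (nat_lit 88) (nat_lit 5) (nat_lit 93) (nat_lit 5) (nat_lit 94) (nat_lit 5) (nat_lit 315) (nat_lit 290) (nat_lit 115)))) (XT.nd (nat_lit 78) (nat_lit 456) (nat_lit 0) (XT.lf (nat_lit 0) (nat_lit 23512998781) (nat_lit 304) (nat_lit 70170922108) (nat_lit 380) (nat_lit 4528718910) (nat_lit 84) (nat_lit 5) (nat_lit 88) (nat_lit 5) (nat_lit 89) (nat_lit 5) (nat_lit 316) (nat_lit 290) (nat_lit 114)) (XT.nd (nat_lit 78) (nat_lit 380) (nat_lit 0) (XT.lf (nat_lit 0) (nat_lit 15938809292) (nat_lit 380) (nat_lit 3085631008) (nat_lit 76) (nat_lit 82405672872) (nat_lit 83) (nat_lit 5) (nat_lit 88) (nat_lit 5) (nat_lit 84) (nat_lit 5) (nat_lit 317) (nat_lit 290) (nat_lit 113))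 (XT.lf (nat_lit 0) (nat_lit 38383236964) (nat_lit 456) (nat_lit 31630436465) (nat_lit 76) (nat_lit 34762027526) (nat_lit 78) (nat_lit 5) (nat_lit 84) (nat_lit 5) (nat_lit 79) (nat_lit 5) (nat_lit 318) (nat_lit 290) (nat_lit 112)))))) (XT.nd (nat_lit 35724) (nat_lit 0) (nat_lit 6612) (XT.nd (nat_lit 35490) (nat_lit 0) (nat_lit 6536) (XT.nd (nat_lit 35334) (nat_lit 0) (nat_lit 7524) (XT.lf (nat_lit 0) (nat_lit 45662022074) (nat_lit 304) (nat_lit 16949942050) (nat_lit 380) (nat_lit 45656743012) (nat_lit 74) (nat_lit 5) (nat_lit 78) (nat_lit 5) (nat_lit 79) (nat_lit 5) (nat_lit 319) (nat_lit 290) (nat_lit 111)) (XT.nd (nat_lit 78) (nat_lit 0) (nat_lit 0) (XT.lf (nat_lit 0) (nat_lit 23906039749) (nat_lit 1140) (nat_lit 410158884) (nat_lit 1140) (nat_lit 410158884) (nat_lit 173) (nat_lit 3) (nat_lit 188) (nat_lit 3) (nat_lit 188) (nat_lit 5) (nat_lit 291) (nat_lit 291) (nat_lit 138)) (XT.lf (nat_lit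 76) (nat_lit 35246669513) (nat_lit 0) (nat_lit 14139784909) (nat_lit 1140) (nat_lit 1291125727) (nat_lit 174) (nat_lit 5) (nat_lit 173) (nat_lit 3) (nat_lit 188) (nat_lit 5) (nat_lit 292) (nat_lit 291) (nat_lit 137)))) (XT.nd (nat_lit 78) (nat_lit 1064) (nat_lit 0) (XT.lf (nat_lit 76) (nat_lit 21374041073) (nat_lit 0) (nat_lit 30089139123) (nat_lit 1140) (nat_lit 487804520) (nat_lit 175) (nat_lit 5) (nat_lit 174) (nat_lit 5) (nat_lit 189) (nat_lit 5) (nat_lit 293) (nat_lit 291) (nat_lit 136)) (XT.nd (nat_lit 78) (nat_lit 0) (nat_lit 0) (XT.lf (nat_lit 0) (nat_lit 777962171) (nat_lit 1140) (nat_lit 46291012373) (nat_lit 1216) (nat_lit 6206110562) (nat_lit 160) (nat_lit 5) (nat_lit 175) (nat_lit 5) (nat_lit 176) (nat_lit 5) (nat_lit 294) (nat_lit 291) (nat_lit 135)) (XT.lf (nat_lit 0) (nat_lit 2716214784) (nat_lit 1140) (nat_lit 7907084096) (nat_lit 1216) (nat_lit 44023372702) (nat_lit 160)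 (nat_lit 5) (nat_lit 175) (nat_lit 5) (nat_lit 176) (nat_lit 5) (nat_lit 295) (nat_lit 291) (nat_lit 134))))) (XT.nd (nat_lit 234) (nat_lit 0) (nat_lit 152) (XT.nd (nat_lit 78) (nat_lit 0) (nat_lit 76) (XT.lf (nat_lit 0) (nat_lit 5335593869) (nat_lit 1140) (nat_lit 23306950973) (nat_lit 1216) (nat_lit 27426770449) (nat_lit 161) (nat_lit 5) (nat_lit 176) (nat_lit 5) (nat_lit 177) (nat_lit 5) (nat_lit 296) (nat_lit 291) (nat_lit 133)) (XT.nd (nat_lit 78) (nat_lit 0) (nat_lit 0) (XT.lf (nat_lit 0) (nat_lit 8544144221) (nat_lit 1140) (nat_lit 39329241257) (nat_lit 1216) (nat_lit 9675963759) (nat_lit 162) (nat_lit 5) (nat_lit 177) (nat_lit 5) (nat_lit 178) (nat_lit 5) (nat_lit 297) (nat_lit 291) (nat_lit 132)) (XT.lf (nat_lit 76) (nat_lit 2979547636) (nat_lit 0) (nat_lit 9491539536) (nat_lit 1216) (nat_lit 46615562677) (nat_lit 163) (nat_lit 5) (nat_lit 162) (nat_lit 5) (nat_lit 178) (nat_lit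 5) (nat_lit 298) (nat_lit 291) (nat_lit 131)))) (XT.nd (nat_lit 78) (nat_lit 0) (nat_lit 76) (XT.lf (nat_lit 0) (nat_lit 17297421867) (nat_lit 1140) (nat_lit 12764722850) (nat_lit 1216) (nat_lit 30617583176) (nat_lit 163) (nat_lit 5) (nat_lit 178) (nat_lit 5) (nat_lit 179) (nat_lit 5) (nat_lit 299) (nat_lit 291) (nat_lit 130)) (XT.nd (nat_lit 78) (nat_lit 0) (nat_lit 0) (XT.lf (nat_lit 0) (nat_lit 22880166775) (nat_lit 1140) (nat_lit 29143881113) (nat_lit 1216) (nat_lit 10312962704) (nat_lit 164) (nat_lit 5) (nat_lit 179) (nat_lit 5) (nat_lit 180) (nat_lit 5) (nat_lit 300) (nat_lit 291) (nat_lit 129)) (XT.lf (nat_lit 76) (nat_lit 17681228702) (nat_lit 0) (nat_lit 11665102117) (nat_lit 1216) (nat_lit 34712701540) (nat_lit 165) (nat_lit 5) (nat_lit 164) (nat_lit 5) (nat_lit 180) (nat_lit 5) (nat_lit 301) (nat_lit 291) (nat_lit 128))))))))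
noncomputable def xc122 : XT := (XT.nd (nat_lit 37050) (nat_lit 0) (nat_lit 760) (XT.nd (nat_lit 858) (nat_lit 2052) (nat_lit 0) (XT.nd (nat_lit 390) (nat_lit 1824) (nat_lit 0) (XT.nd (nat_lit 156) (nat_lit 1672) (nat_lit 0) (XT.nd (nat_lit 78) (nat_lit 0) (nat_lit 0) (XT.lf (nat_lit 0) (nat_lit 1324627439) (nat_lit 1064) (nat_lit 35420377492) (nat_lit 1140) (nat_lit 29103877454) (nat_lit 151) (nat_lit 5) (nat_lit 165) (nat_lit 5) (nat_lit 166) (nat_lit 5) (nat_lit 302) (nat_lit 291) (nat_lit 127)) (XT.lf (nat_lit 0) (nat_lit 45174718849) (nat_lit 1140) (nat_lit 15519414914) (nat_lit 76) (nat_lit 7014261040) (nat_lit 151) (nat_lit 5) (nat_lit 166) (nat_lit 5) (nat_lit 152) (nat_lit 5) (nat_lit 303) (nat_lit 291) (nat_lit 126))) (XT.nd (nat_lit 78) (nat_lit 1140) (nat_lit 0) (XT.lf (nat_lit 0) (nat_lit 36284776145) (nat_lit 532) (nat_lit 18445857330) (nat_lit 608) (nat_lit 14909110846) (nat_lit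 144) (nat_lit 5) (nat_lit 151) (nat_lit 5) (nat_lit 152) (nat_lit 5) (nat_lit 304) (nat_lit 291) (nat_lit 125)) (XT.nd (nat_lit 78) (nat_lit 608) (nat_lit 0) (XT.lf (nat_lit 0) (nat_lit 19468385821) (nat_lit 532) (nat_lit 45892030087) (nat_lit 608) (nat_lit 6289366031) (nat_lit 137) (nat_lit 5) (nat_lit 144) (nat_lit 5) (nat_lit 145) (nat_lit 5) (nat_lit 305) (nat_lit 291) (nat_lit 124)) (XT.lf (nat_lit 0) (nat_lit 1695439124) (nat_lit 532) (nat_lit 1559800594) (nat_lit 608) (nat_lit 70487855245) (nat_lit 129) (nat_lit 5) (nat_lit 136) (nat_lit 5) (nat_lit 137) (nat_lit 5) (nat_lit 306) (nat_lit 291) (nat_lit 123))))) (XT.nd (nat_lit 234) (nat_lit 836) (nat_lit 0) (XT.nd (nat_lit 78) (nat_lit 988) (nat_lit 0) (XT.lf (nat_lit 0) (nat_lit 14121732732) (nat_lit 608) (nat_lit 17071100593) (nat_lit 76) (nat_lit 44717132719) (nat_lit 129) (nat_lit 5) (nat_lit 137) (nat_lit 5) (nat_lit 130) (nat_lit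 5) (nat_lit 307) (nat_lit 291) (nat_lit 122)) (XT.nd (nat_lit 78) (nat_lit 456) (nat_lit 0) (XT.lf (nat_lit 0) (nat_lit 26093355401) (nat_lit 608) (nat_lit 36875878145) (nat_lit 76) (nat_lit 15199095319) (nat_lit 122) (nat_lit 5) (nat_lit 130) (nat_lit 5) (nat_lit 123) (nat_lit 5) (nat_lit 308) (nat_lit 291) (nat_lit 121)) (XT.lf (nat_lit 0) (nat_lit 22518040415) (nat_lit 456) (nat_lit 16852983212) (nat_lit 532) (nat_lit 41147364496) (nat_lit 116) (nat_lit 5) (nat_lit 122) (nat_lit 5) (nat_lit 123) (nat_lit 5) (nat_lit 309) (nat_lit 291) (nat_lit 120)))) (XT.nd (nat_lit 78) (nat_lit 380) (nat_lit 0) (XT.lf (nat_lit 0) (nat_lit 2416251945) (nat_lit 456) (nat_lit 51605121241) (nat_lit 532) (nat_lit 28943315341) (nat_lit 110) (nat_lit 5) (nat_lit 116) (nat_lit 5) (nat_lit 117) (nat_lit 5) (nat_lit 310) (nat_lit 291) (nat_lit 119)) (XT.nd (nat_lit 78) (nat_lit 380) (nat_lit 0) (XT.lf (nat_lit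 0) (nat_lit 66890902730) (nat_lit 456) (nat_lit 3277627405) (nat_lit 532) (nat_lit 15341847139) (nat_lit 110) (nat_lit 5) (nat_lit 116) (nat_lit 5) (nat_lit 117) (nat_lit 5) (nat_lit 311) (nat_lit 291) (nat_lit 118)) (XT.lf (nat_lit 0) (nat_lit 46862822592) (nat_lit 380) (nat_lit 41165821238) (nat_lit 456) (nat_lit 127540585) (nat_lit 105) (nat_lit 5) (nat_lit 110) (nat_lit 5) (nat_lit 111) (nat_lit 5) (nat_lit 312) (nat_lit 291) (nat_lit 117)))))) (XT.nd (nat_lit 390) (nat_lit 456) (nat_lit 0) (XT.nd (nat_lit 156) (nat_lit 684) (nat_lit 0) (XT.nd (nat_lit 78) (nat_lit 380) (nat_lit 0) (XT.lf (nat_lit 0) (nat_lit 16097956420) (nat_lit 532) (nat_lit 65619205682) (nat_lit 76) (nat_lit 9195760023) (nat_lit 98) (nat_lit 5) (nat_lit 105) (nat_lit 5) (nat_lit 99) (nat_lit 5) (nat_lit 313) (nat_lit 291) (nat_lit 116)) (XT.lf (nat_lit 0) (nat_lit 1892977091) (nat_lit 380) (nat_lit 32101038187) (nat_lit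 456) (nat_lit 59787587510) (nat_lit 93) (nat_lit 5) (nat_lit 98) (nat_lit 5) (nat_lit 99) (nat_lit 5) (nat_lit 314) (nat_lit 291) (nat_lit 115))) (XT.nd (nat_lit 78) (nat_lit 684) (nat_lit 0) (XT.lf (nat_lit 0) (nat_lit 53658226901) (nat_lit 456) (nat_lit 22821613368) (nat_lit 76) (nat_lit 20287678336) (nat_lit 93) (nat_lit 5) (nat_lit 99) (nat_lit 5) (nat_lit 94) (nat_lit 5) (nat_lit 315) (nat_lit 291) (nat_lit 114)) (XT.nd (nat_lit 78) (nat_lit 304) (nat_lit 0) (XT.lf (nat_lit 0) (nat_lit 50356159633) (nat_lit 380) (nat_lit 24756554110) (nat_lit 456) (nat_lit 24765806066) (nat_lit 88) (nat_lit 5) (nat_lit 93) (nat_lit 5) (nat_lit 94) (nat_lit 5) (nat_lit 316) (nat_lit 291) (nat_lit 113)) (XT.lf (nat_lit 0) (nat_lit 24726591386) (nat_lit 304) (nat_lit 73671396227) (nat_lit 380) (nat_lit 4724343044) (nat_lit 84) (nat_lit 5) (nat_lit 88) (nat_lit 5) (nat_lit 89) (nat_lit 5) (nat_lit 317)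 (nat_lit 291) (nat_lit 112))))) (XT.nd (nat_lit 35568) (nat_lit 0) (nat_lit 6232) (XT.nd (nat_lit 78) (nat_lit 380) (nat_lit 0) (XT.lf (nat_lit 0) (nat_lit 16764521721) (nat_lit 380) (nat_lit 3203162448) (nat_lit 76) (nat_lit 86533029884) (nat_lit 83) (nat_lit 5) (nat_lit 88) (nat_lit 5) (nat_lit 84) (nat_lit 5) (nat_lit 318) (nat_lit 291) (nat_lit 111)) (XT.nd (nat_lit 35412) (nat_lit 0) (nat_lit 7220) (XT.lf (nat_lit 0) (nat_lit 40330220257) (nat_lit 456) (nat_lit 33175466061) (nat_lit 76) (nat_lit 36507925403) (nat_lit 78) (nat_lit 5) (nat_lit 84) (nat_lit 5) (nat_lit 79) (nat_lit 5) (nat_lit 319) (nat_lit 291) (nat_lit 110)) (XT.lf (nat_lit 0) (nat_lit 25140973547) (nat_lit 1140) (nat_lit 410216789) (nat_lit 1140) (nat_lit 410216789) (nat_lit 173) (nat_lit 3) (nat_lit 188) (nat_lit 3) (nat_lit 188) (nat_lit 5) (nat_lit 292) (nat_lit 292) (nat_lit 136)))) (XT.nd (nat_lit 78) (nat_lit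 988) (nat_lit 0) (XT.lf (nat_lit 76) (nat_lit 37048730675) (nat_lit 0) (nat_lit 14882917518) (nat_lit 1140) (nat_lit 1277383759) (nat_lit 174) (nat_lit 5) (nat_lit 173) (nat_lit 3) (nat_lit 188) (nat_lit 5) (nat_lit 293) (nat_lit 292) (nat_lit 135)) (XT.nd (nat_lit 78) (nat_lit 1064) (nat_lit 0) (XT.lf (nat_lit 76) (nat_lit 22484027129) (nat_lit 0) (nat_lit 31624636179) (nat_lit 1140) (nat_lit 437557042) (nat_lit 175) (nat_lit 5) (nat_lit 174) (nat_lit 5) (nat_lit 189) (nat_lit 5) (nat_lit 294) (nat_lit 292) (nat_lit 134)) (XT.lf (nat_lit 0) (nat_lit 886683648) (nat_lit 1140) (nat_lit 48561402622) (nat_lit 1216) (nat_lit 6488525354) (nat_lit 160) (nat_lit 5) (nat_lit 175) (nat_lit 5) (nat_lit 176) (nat_lit 5) (nat_lit 295) (nat_lit 292) (nat_lit 133))))))) (XT.nd (nat_lit 858) (nat_lit 3724) (nat_lit 0) (XT.nd (nat_lit 390) (nat_lit 1748) (nat_lit 0) (XT.nd (nat_lit 156) (nat_lit 0) (nat_lit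 152) (XT.nd (nat_lit 78) (nat_lit 0) (nat_lit 76) (XT.lf (nat_lit 0) (nat_lit 2918523969) (nat_lit 1140) (nat_lit 8260380806) (nat_lit 1216) (nat_lit 46197978731) (nat_lit 160) (nat_lit 5) (nat_lit 175) (nat_lit 5) (nat_lit 176) (nat_lit 5) (nat_lit 296) (nat_lit 292) (nat_lit 132)) (XT.lf (nat_lit 0) (nat_lit 5665878244) (nat_lit 1140) (nat_lit 24429194326) (nat_lit 1216) (nat_lit 28775682678) (nat_lit 161) (nat_lit 5) (nat_lit 176) (nat_lit 5) (nat_lit 177) (nat_lit 5) (nat_lit 297) (nat_lit 292) (nat_lit 131))) (XT.nd (nat_lit 78) (nat_lit 0) (nat_lit 0) (XT.lf (nat_lit 0) (nat_lit 9032051769) (nat_lit 1140) (nat_lit 41251710502) (nat_lit 1216) (nat_lit 10141118495) (nat_lit 162) (nat_lit 5) (nat_lit 177) (nat_lit 5) (nat_lit 178) (nat_lit 5) (nat_lit 298) (nat_lit 292) (nat_lit 130)) (XT.nd (nat_lit 78) (nat_lit 0) (nat_lit 76) (XT.lf (nat_lit 76) (nat_lit 3171256790) (nat_lit 0) (nat_lit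 9981605350) (nat_lit 1216) (nat_lit 48886264135) (nat_lit 163) (nat_lit 5) (nat_lit 162) (nat_lit 5) (nat_lit 178) (nat_lit 5) (nat_lit 299) (nat_lit 292) (nat_lit 129)) (XT.lf (nat_lit 0) (nat_lit 18217599360) (nat_lit 1140) (nat_lit 13360352585) (nat_lit 1216) (nat_lit 32133998912) (nat_lit 163) (nat_lit 5) (nat_lit 178) (nat_lit 5) (nat_lit 179) (nat_lit 5) (nat_lit 300) (nat_lit 292) (nat_lit 128))))) (XT.nd (nat_lit 234) (nat_lit 1064) (nat_lit 0) (XT.nd (nat_lit 78) (nat_lit 988) (nat_lit 0) (XT.lf (nat_lit 0) (nat_lit 24077133367) (nat_lit 1140) (nat_lit 30557886346) (nat_lit 1216) (nat_lit 10817153387) (nat_lit 164) (nat_lit 5) (nat_lit 179) (nat_lit 5) (nat_lit 180) (nat_lit 5) (nat_lit 301) (nat_lit 292) (nat_lit 127)) (XT.nd (nat_lit 78) (nat_lit 988) (nat_lit 0) (XT.lf (nat_lit 76) (nat_lit 18607240961) (nat_lit 0) (nat_lit 12257246087) (nat_lit 1216) (nat_lit 36395877191) (nat_lit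 165) (nat_lit 5) (nat_lit 164) (nat_lit 5) (nat_lit 180) (nat_lit 5) (nat_lit 302) (nat_lit 292) (nat_lit 126)) (XT.lf (nat_lit 0) (nat_lit 1433263427) (nat_lit 1064) (nat_lit 37197736744) (nat_lit 1140) (nat_lit 30508773939) (nat_lit 151) (nat_lit 5) (nat_lit 165) (nat_lit 5) (nat_lit 166) (nat_lit 5) (nat_lit 303) (nat_lit 292) (nat_lit 125)))) (XT.nd (nat_lit 78) (nat_lit 1064) (nat_lit 0) (XT.lf (nat_lit 0) (nat_lit 47479820550) (nat_lit 1140) (nat_lit 16253463795) (nat_lit 76) (nat_lit 7359053469) (nat_lit 151) (nat_lit 5) (nat_lit 166) (nat_lit 5) (nat_lit 152) (nat_lit 5) (nat_lit 304) (nat_lit 292) (nat_lit 124)) (XT.nd (nat_lit 78) (nat_lit 532) (nat_lit 0) (XT.lf (nat_lit 0) (nat_lit 38139735135) (nat_lit 532) (nat_lit 19371979306) (nat_lit 608) (nat_lit 15608598944) (nat_lit 144) (nat_lit 5) (nat_lit 151) (nat_lit 5) (nat_lit 152) (nat_lit 5) (nat_lit 305) (nat_lit 292) (nat_lit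 123)) (XT.lf (nat_lit 0) (nat_lit 20482771312) (nat_lit 532) (nat_lit 48188452026) (nat_lit 608) (nat_lit 6559686316) (nat_lit 137) (nat_lit 5) (nat_lit 144) (nat_lit 5) (nat_lit 145) (nat_lit 5) (nat_lit 306) (nat_lit 292) (nat_lit 122)))))) (XT.nd (nat_lit 390) (nat_lit 1672) (nat_lit 0) (XT.nd (nat_lit 156) (nat_lit 1444) (nat_lit 0) (XT.nd (nat_lit 78) (nat_lit 0) (nat_lit 0) (XT.lf (nat_lit 0) (nat_lit 1820913139) (nat_lit 532) (nat_lit 1638705085) (nat_lit 608) (nat_lit 73969311070) (nat_lit 129) (nat_lit 5) (nat_lit 136) (nat_lit 5) (nat_lit 137) (nat_lit 5) (nat_lit 307) (nat_lit 292) (nat_lit 121)) (XT.lf (nat_lit 0) (nat_lit 14867445778) (nat_lit 608) (nat_lit 17884625845) (nat_lit 76) (nat_lit 46952135433) (nat_lit 129) (nat_lit 5) (nat_lit 137) (nat_lit 5) (nat_lit 130) (nat_lit 5) (nat_lit 308) (nat_lit 292) (nat_lit 120))) (XT.nd (nat_lit 78) (nat_lit 912) (nat_lit 0) (XT.lf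 (nat_lit 0) (nat_lit 27436143763) (nat_lit 608) (nat_lit 38679588482) (nat_lit 76) (nat_lit 15959804210) (nat_lit 122) (nat_lit 5) (nat_lit 130) (nat_lit 5) (nat_lit 123) (nat_lit 5) (nat_lit 309) (nat_lit 292) (nat_lit 119)) (XT.nd (nat_lit 78) (nat_lit 456) (nat_lit 0) (XT.lf (nat_lit 0) (nat_lit 23682877018) (nat_lit 456) (nat_lit 17693377379) (nat_lit 532) (nat_lit 43166890616) (nat_lit 116) (nat_lit 5) (nat_lit 122) (nat_lit 5) (nat_lit 123) (nat_lit 5) (nat_lit 310) (nat_lit 292) (nat_lit 118)) (XT.lf (nat_lit 0) (nat_lit 2575991212) (nat_lit 456) (nat_lit 54181778406) (nat_lit 532) (nat_lit 30354034332) (nat_lit 110) (nat_lit 5) (nat_lit 116) (nat_lit 5) (nat_lit 117) (nat_lit 5) (nat_lit 311) (nat_lit 292) (nat_lit 117))))) (XT.nd (nat_lit 234) (nat_lit 760) (nat_lit 0) (XT.nd (nat_lit 78) (nat_lit 912) (nat_lit 0) (XT.lf (nat_lit 0) (nat_lit 70272520884) (nat_lit 456) (nat_lit 3438081255)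 (nat_lit 532) (nat_lit 16074228281) (nat_lit 110) (nat_lit 5) (nat_lit 116) (nat_lit 5) (nat_lit 117) (nat_lit 5) (nat_lit 312) (nat_lit 292) (nat_lit 116)) (XT.nd (nat_lit 78) (nat_lit 532) (nat_lit 0) (XT.lf (nat_lit 0) (nat_lit 49242977216) (nat_lit 380) (nat_lit 43219529312) (nat_lit 456) (nat_lit 100460524) (nat_lit 105) (nat_lit 5) (nat_lit 110) (nat_lit 5) (nat_lit 111) (nat_lit 5) (nat_lit 313) (nat_lit 292) (nat_lit 115)) (XT.lf (nat_lit 0) (nat_lit 16934497013) (nat_lit 532) (nat_lit 68862579713) (nat_lit 76) (nat_lit 9660492597) (nat_lit 98) (nat_lit 5) (nat_lit 105) (nat_lit 5) (nat_lit 99) (nat_lit 5) (nat_lit 314) (nat_lit 292) (nat_lit 114)))) (XT.nd (nat_lit 78) (nat_lit 380) (nat_lit 0) (XT.lf (nat_lit 0) (nat_lit 2024134797) (nat_lit 380) (nat_lit 33700068165) (nat_lit 456) (nat_lit 62745518097) (nat_lit 93) (nat_lit 5) (nat_lit 98) (nat_lit 5) (nat_lit 99) (nat_lit 5)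 (nat_lit 315) (nat_lit 292) (nat_lit 113)) (XT.nd (nat_lit 78) (nat_lit 380) (nat_lit 0) (XT.lf (nat_lit 0) (nat_lit 56370228538) (nat_lit 456) (nat_lit 23927062766) (nat_lit 76) (nat_lit 21307685512) (nat_lit 93) (nat_lit 5) (nat_lit 99) (nat_lit 5) (nat_lit 94) (nat_lit 5) (nat_lit 316) (nat_lit 292) (nat_lit 112)) (XT.lf (nat_lit 0) (nat_lit 52908577522) (nat_lit 380) (nat_lit 25987809639) (nat_lit 456) (nat_lit 25975174638) (nat_lit 88) (nat_lit 5) (nat_lit 93) (nat_lit 5) (nat_lit 94) (nat_lit 5) (nat_lit 317) (nat_lit 292) (nat_lit 111))))))))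
noncomputable def xc123 : XT := (XT.nd (nat_lit 37128) (nat_lit 0) (nat_lit 380) (XT.nd (nat_lit 36270) (nat_lit 0) (nat_lit 2052) (XT.nd (nat_lit 35802) (nat_lit 0) (nat_lit 5852) (XT.nd (nat_lit 35568) (nat_lit 0) (nat_lit 6840) (XT.nd (nat_lit 78) (nat_lit 76) (nat_lit 0) (XT.lf (nat_lit 0) (nat_lit 25997336072) (nat_lit 304) (nat_lit 77347644509) (nat_lit 380) (nat_lit 4932612974) (nat_lit 84) (nat_lit 5) (nat_lit 88) (nat_lit 5) (nat_lit 89) (nat_lit 5) (nat_lit 318) (nat_lit 292) (nat_lit 110)) (XT.lf (nat_lit 0) (nat_lit 17628844827) (nat_lit 380) (nat_lit 3329987137) (nat_lit 76) (nat_lit 90866097131) (nat_lit 83) (nat_lit 5) (nat_lit 88) (nat_lit 5) (nat_lit 84) (nat_lit 5) (nat_lit 319) (nat_lit 292) (nat_lit 109))) (XT.nd (nat_lit 78) (nat_lit 0) (nat_lit 0) (XT.lf (nat_lit 0) (nat_lit 26433969444) (nat_lit 1140) (nat_lit 412178840) (nat_lit 1140) (nat_lit 412178840) (nat_lit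 173) (nat_lit 3) (nat_lit 188) (nat_lit 3) (nat_lit 188) (nat_lit 5) (nat_lit 293) (nat_lit 293) (nat_lit 134)) (XT.nd (nat_lit 78) (nat_lit 0) (nat_lit 76) (XT.lf (nat_lit 76) (nat_lit 38937201390) (nat_lit 0) (nat_lit 15659846491) (nat_lit 1140) (nat_lit 1270234123) (nat_lit 174) (nat_lit 5) (nat_lit 173) (nat_lit 3) (nat_lit 188) (nat_lit 5) (nat_lit 294) (nat_lit 293) (nat_lit 133)) (XT.lf (nat_lit 76) (nat_lit 23645674292) (nat_lit 0) (nat_lit 33234022274) (nat_lit 1140) (nat_lit 391736296) (nat_lit 175) (nat_lit 5) (nat_lit 174) (nat_lit 5) (nat_lit 189) (nat_lit 5) (nat_lit 295) (nat_lit 293) (nat_lit 132))))) (XT.nd (nat_lit 234) (nat_lit 0) (nat_lit 152) (XT.nd (nat_lit 78) (nat_lit 0) (nat_lit 0) (XT.lf (nat_lit 0) (nat_lit 994349684) (nat_lit 1140) (nat_lit 50949417996) (nat_lit 1216) (nat_lit 6787653902) (nat_lit 160) (nat_lit 5) (nat_lit 175) (nat_lit 5) (nat_lit 176) (nat_lit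 5) (nat_lit 296) (nat_lit 293) (nat_lit 131)) (XT.nd (nat_lit 78) (nat_lit 0) (nat_lit 76) (XT.lf (nat_lit 0) (nat_lit 3124766218) (nat_lit 1140) (nat_lit 8635252458) (nat_lit 1216) (nat_lit 48483784601) (nat_lit 160) (nat_lit 5) (nat_lit 175) (nat_lit 5) (nat_lit 176) (nat_lit 5) (nat_lit 297) (nat_lit 293) (nat_lit 130)) (XT.lf (nat_lit 0) (nat_lit 6006772774) (nat_lit 1140) (nat_lit 25611557266) (nat_lit 1216) (nat_lit 30194125501) (nat_lit 161) (nat_lit 5) (nat_lit 176) (nat_lit 5) (nat_lit 177) (nat_lit 5) (nat_lit 298) (nat_lit 293) (nat_lit 129)))) (XT.nd (nat_lit 78) (nat_lit 0) (nat_lit 0) (XT.lf (nat_lit 0) (nat_lit 9538711352) (nat_lit 1140) (nat_lit 43274393246) (nat_lit 1216) (nat_lit 10631264259) (nat_lit 162) (nat_lit 5) (nat_lit 177) (nat_lit 5) (nat_lit 178) (nat_lit 5) (nat_lit 299) (nat_lit 293) (nat_lit 128)) (XT.nd (nat_lit 78) (nat_lit 0) (nat_lit 76) (XT.lf (nat_lit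 76) (nat_lit 3368578606) (nat_lit 0) (nat_lit 10494734449) (nat_lit 1216) (nat_lit 51276086025) (nat_lit 163) (nat_lit 5) (nat_lit 162) (nat_lit 5) (nat_lit 178) (nat_lit 5) (nat_lit 300) (nat_lit 293) (nat_lit 127)) (XT.lf (nat_lit 0) (nat_lit 19178643864) (nat_lit 1140) (nat_lit 13989724947) (nat_lit 1216) (nat_lit 33727580107) (nat_lit 163) (nat_lit 5) (nat_lit 178) (nat_lit 5) (nat_lit 179) (nat_lit 5) (nat_lit 301) (nat_lit 293) (nat_lit 126)))))) (XT.nd (nat_lit 390) (nat_lit 2584) (nat_lit 0) (XT.nd (nat_lit 156) (nat_lit 1520) (nat_lit 0) (XT.nd (nat_lit 78) (nat_lit 0) (nat_lit 0) (XT.lf (nat_lit 0) (nat_lit 25329024732) (nat_lit 1140) (nat_lit 32046607128) (nat_lit 1216) (nat_lit 11347618810) (nat_lit 164) (nat_lit 5) (nat_lit 179) (nat_lit 5) (nat_lit 180) (nat_lit 5) (nat_lit 302) (nat_lit 293) (nat_lit 125)) (XT.lf (nat_lit 76) (nat_lit 19575653643) (nat_lit 0) (nat_lit 12878170854)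 (nat_lit 1216) (nat_lit 38168088804) (nat_lit 165) (nat_lit 5) (nat_lit 164) (nat_lit 5) (nat_lit 180) (nat_lit 5) (nat_lit 303) (nat_lit 293) (nat_lit 124))) (XT.nd (nat_lit 78) (nat_lit 532) (nat_lit 0) (XT.lf (nat_lit 0) (nat_lit 1543388835) (nat_lit 1064) (nat_lit 39063374491) (nat_lit 1140) (nat_lit 31988591422) (nat_lit 151) (nat_lit 5) (nat_lit 165) (nat_lit 5) (nat_lit 166) (nat_lit 5) (nat_lit 304) (nat_lit 293) (nat_lit 123)) (XT.nd (nat_lit 78) (nat_lit 532) (nat_lit 0) (XT.lf (nat_lit 0) (nat_lit 49895866687) (nat_lit 1140) (nat_lit 17028112618) (nat_lit 76) (nat_lit 7721635963) (nat_lit 151) (nat_lit 5) (nat_lit 166) (nat_lit 5) (nat_lit 152) (nat_lit 5) (nat_lit 305) (nat_lit 293) (nat_lit 122)) (XT.lf (nat_lit 0) (nat_lit 40083656298) (nat_lit 532) (nat_lit 20344051387) (nat_lit 608) (nat_lit 16347335065) (nat_lit 144) (nat_lit 5) (nat_lit 151) (nat_lit 5) (nat_lit 152) (nat_lit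 5) (nat_lit 306) (nat_lit 293) (nat_lit 121))))) (XT.nd (nat_lit 234) (nat_lit 1444) (nat_lit 0) (XT.nd (nat_lit 78) (nat_lit 608) (nat_lit 0) (XT.lf (nat_lit 0) (nat_lit 21544067429) (nat_lit 532) (nat_lit 50599525815) (nat_lit 608) (nat_lit 6847627078) (nat_lit 137) (nat_lit 5) (nat_lit 144) (nat_lit 5) (nat_lit 145) (nat_lit 5) (nat_lit 307) (nat_lit 293) (nat_lit 120)) (XT.nd (nat_lit 78) (nat_lit 0) (nat_lit 0) (XT.lf (nat_lit 0) (nat_lit 1948876762) (nat_lit 532) (nat_lit 1721469784) (nat_lit 608) (nat_lit 77628831555) (nat_lit 129) (nat_lit 5) (nat_lit 136) (nat_lit 5) (nat_lit 137) (nat_lit 5) (nat_lit 308) (nat_lit 293) (nat_lit 119)) (XT.lf (nat_lit 0) (nat_lit 15646760388) (nat_lit 608) (nat_lit 18742548949) (nat_lit 76) (nat_lit 49298967673) (nat_lit 129) (nat_lit 5) (nat_lit 137) (nat_lit 5) (nat_lit 130) (nat_lit 5) (nat_lit 309) (nat_lit 293) (nat_lit 118)))) (XT.nd (nat_lit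 78) (nat_lit 912) (nat_lit 0) (XT.lf (nat_lit 0) (nat_lit 28842527452) (nat_lit 608) (nat_lit 40577210927) (nat_lit 76) (nat_lit 16758478434) (nat_lit 122) (nat_lit 5) (nat_lit 130) (nat_lit 5) (nat_lit 123) (nat_lit 5) (nat_lit 310) (nat_lit 293) (nat_lit 117)) (XT.nd (nat_lit 78) (nat_lit 456) (nat_lit 0) (XT.lf (nat_lit 0) (nat_lit 24902335683) (nat_lit 456) (nat_lit 18576000901) (nat_lit 532) (nat_lit 45290911242) (nat_lit 116) (nat_lit 5) (nat_lit 122) (nat_lit 5) (nat_lit 123) (nat_lit 5) (nat_lit 311) (nat_lit 293) (nat_lit 116)) (XT.lf (nat_lit 0) (nat_lit 2740098409) (nat_lit 456) (nat_lit 56887603021) (nat_lit 532) (nat_lit 31838677748) (nat_lit 110) (nat_lit 5) (nat_lit 116) (nat_lit 5) (nat_lit 117) (nat_lit 5) (nat_lit 312) (nat_lit 293) (nat_lit 115))))))) (XT.nd (nat_lit 36426) (nat_lit 0) (nat_lit 3116) (XT.nd (nat_lit 390) (nat_lit 380) (nat_lit 0) (XT.nd (nat_lit 156) (nat_lit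 912) (nat_lit 0) (XT.nd (nat_lit 78) (nat_lit 380) (nat_lit 0) (XT.lf (nat_lit 0) (nat_lit 73819773249) (nat_lit 456) (nat_lit 3606876456) (nat_lit 532) (nat_lit 16846455599) (nat_lit 110) (nat_lit 5) (nat_lit 116) (nat_lit 5) (nat_lit 117) (nat_lit 5) (nat_lit 313) (nat_lit 293) (nat_lit 114)) (XT.lf (nat_lit 0) (nat_lit 51738698406) (nat_lit 380) (nat_lit 45376348873) (nat_lit 456) (nat_lit 75136983) (nat_lit 105) (nat_lit 5) (nat_lit 110) (nat_lit 5) (nat_lit 111) (nat_lit 5) (nat_lit 314) (nat_lit 293) (nat_lit 113))) (XT.nd (nat_lit 78) (nat_lit 380) (nat_lit 0) (XT.lf (nat_lit 0) (nat_lit 17809922792) (nat_lit 532) (nat_lit 72271616858) (nat_lit 76) (nat_lit 10148002101) (nat_lit 98) (nat_lit 5) (nat_lit 105) (nat_lit 5) (nat_lit 99) (nat_lit 5) (nat_lit 315) (nat_lit 293) (nat_lit 112)) (XT.nd (nat_lit 78) (nat_lit 0) (nat_lit 0) (XT.lf (nat_lit 0) (nat_lit 2158456141) (nat_lit 380)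 (nat_lit 35379609503) (nat_lit 456) (nat_lit 65854269024) (nat_lit 93) (nat_lit 5) (nat_lit 98) (nat_lit 5) (nat_lit 99) (nat_lit 5) (nat_lit 316) (nat_lit 293) (nat_lit 111)) (XT.lf (nat_lit 0) (nat_lit 59215125716) (nat_lit 456) (nat_lit 25091097291) (nat_lit 76) (nat_lit 22378170249) (nat_lit 93) (nat_lit 5) (nat_lit 99) (nat_lit 5) (nat_lit 94) (nat_lit 5) (nat_lit 317) (nat_lit 293) (nat_lit 110))))) (XT.nd (nat_lit 35802) (nat_lit 0) (nat_lit 5472) (XT.nd (nat_lit 35646) (nat_lit 0) (nat_lit 6460) (XT.lf (nat_lit 0) (nat_lit 55585398605) (nat_lit 380) (nat_lit 27281238963) (nat_lit 456) (nat_lit 27247700508) (nat_lit 88) (nat_lit 5) (nat_lit 93) (nat_lit 5) (nat_lit 94) (nat_lit 5) (nat_lit 318) (nat_lit 293) (nat_lit 109)) (XT.nd (nat_lit 78) (nat_lit 0) (nat_lit 0) (XT.lf (nat_lit 0) (nat_lit 27788273105) (nat_lit 1140) (nat_lit 415963484) (nat_lit 1140) (nat_lit 415963484) (nat_lit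 173) (nat_lit 3) (nat_lit 188) (nat_lit 3) (nat_lit 188) (nat_lit 5) (nat_lit 294) (nat_lit 294) (nat_lit 132)) (XT.lf (nat_lit 76) (nat_lit 40916745525) (nat_lit 0) (nat_lit 16472574050) (nat_lit 1140) (nat_lit 1269329661) (nat_lit 174) (nat_lit 5) (nat_lit 173) (nat_lit 3) (nat_lit 188) (nat_lit 5) (nat_lit 295) (nat_lit 294) (nat_lit 131)))) (XT.nd (nat_lit 78) (nat_lit 1064) (nat_lit 0) (XT.lf (nat_lit 76) (nat_lit 24861922457) (nat_lit 0) (nat_lit 34921260154) (nat_lit 1140) (nat_lit 349918487) (nat_lit 175) (nat_lit 5) (nat_lit 174) (nat_lit 5) (nat_lit 189) (nat_lit 5) (nat_lit 296) (nat_lit 294) (nat_lit 130)) (XT.nd (nat_lit 78) (nat_lit 0) (nat_lit 0) (XT.lf (nat_lit 0) (nat_lit 1101511026) (nat_lit 1140) (nat_lit 53460558050) (nat_lit 1216) (nat_lit 7104090819) (nat_lit 160) (nat_lit 5) (nat_lit 175) (nat_lit 5) (nat_lit 176) (nat_lit 5) (nat_lit 297) (nat_lit 294) (nat_lit 129))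 (XT.lf (nat_lit 0) (nat_lit 3335712965) (nat_lit 1140) (nat_lit 9032414276) (nat_lit 1216) (nat_lit 50886120710) (nat_lit 160) (nat_lit 5) (nat_lit 175) (nat_lit 5) (nat_lit 176) (nat_lit 5) (nat_lit 298) (nat_lit 294) (nat_lit 128)))))) (XT.nd (nat_lit 468) (nat_lit 2432) (nat_lit 0) (XT.nd (nat_lit 234) (nat_lit 0) (nat_lit 152) (XT.nd (nat_lit 78) (nat_lit 0) (nat_lit 76) (XT.lf (nat_lit 0) (nat_lit 6359356872) (nat_lit 1140) (nat_lit 26856673201) (nat_lit 1216) (nat_lit 31685381609) (nat_lit 161) (nat_lit 5) (nat_lit 176) (nat_lit 5) (nat_lit 177) (nat_lit 5) (nat_lit 299) (nat_lit 294) (nat_lit 127)) (XT.nd (nat_lit 78) (nat_lit 0) (nat_lit 0) (XT.lf (nat_lit 0) (nat_lit 10065585237) (nat_lit 1140) (nat_lit 45401919908) (nat_lit 1216) (nat_lit 11147489458) (nat_lit 162) (nat_lit 5) (nat_lit 177) (nat_lit 5) (nat_lit 178) (nat_lit 5) (nat_lit 300) (nat_lit 294) (nat_lit 126)) (XT.lf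 (nat_lit 76) (nat_lit 3572163071) (nat_lit 0) (nat_lit 11032213876) (nat_lit 1216) (nat_lit 53790465096) (nat_lit 163) (nat_lit 5) (nat_lit 162) (nat_lit 5) (nat_lit 178) (nat_lit 5) (nat_lit 301) (nat_lit 294) (nat_lit 125)))) (XT.nd (nat_lit 78) (nat_lit 0) (nat_lit 76) (XT.lf (nat_lit 0) (nat_lit 20183076770) (nat_lit 1140) (nat_lit 14654158797) (nat_lit 1216) (nat_lit 35402060019) (nat_lit 163) (nat_lit 5) (nat_lit 178) (nat_lit 5) (nat_lit 179) (nat_lit 5) (nat_lit 302) (nat_lit 294) (nat_lit 124)) (XT.nd (nat_lit 78) (nat_lit 0) (nat_lit 0) (XT.lf (nat_lit 0) (nat_lit 26639044855) (nat_lit 1140) (nat_lit 33613405933) (nat_lit 1216) (nat_lit 11905573676) (nat_lit 164) (nat_lit 5) (nat_lit 179) (nat_lit 5) (nat_lit 180) (nat_lit 5) (nat_lit 303) (nat_lit 294) (nat_lit 123)) (XT.lf (nat_lit 76) (nat_lit 20588949371) (nat_lit 0) (nat_lit 13529392288) (nat_lit 1216) (nat_lit 40033334745)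 (nat_lit 165) (nat_lit 5) (nat_lit 164) (nat_lit 5) (nat_lit 180) (nat_lit 5) (nat_lit 304) (nat_lit 294) (nat_lit 122))))) (XT.nd (nat_lit 234) (nat_lit 1140) (nat_lit 0) (XT.nd (nat_lit 78) (nat_lit 532) (nat_lit 0) (XT.lf (nat_lit 0) (nat_lit 1655444659) (nat_lit 1064) (nat_lit 41021759460) (nat_lit 1140) (nat_lit 33546641208) (nat_lit 151) (nat_lit 5) (nat_lit 165) (nat_lit 5) (nat_lit 166) (nat_lit 5) (nat_lit 305) (nat_lit 294) (nat_lit 121)) (XT.nd (nat_lit 78) (nat_lit 532) (nat_lit 0) (XT.lf (nat_lit 0) (nat_lit 52428805246) (nat_lit 1140) (nat_lit 17845029028) (nat_lit 76) (nat_lit 8102846849) (nat_lit 151) (nat_lit 5) (nat_lit 166) (nat_lit 5) (nat_lit 152) (nat_lit 5) (nat_lit 306) (nat_lit 294) (nat_lit 120)) (XT.lf (nat_lit 0) (nat_lit 42121339708) (nat_lit 532) (nat_lit 21364404174) (nat_lit 608) (nat_lit 17126884288) (nat_lit 144) (nat_lit 5) (nat_lit 151) (nat_lit 5) (nat_lit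 152) (nat_lit 5) (nat_lit 307) (nat_lit 294) (nat_lit 119)))) (XT.nd (nat_lit 78) (nat_lit 608) (nat_lit 0) (XT.lf (nat_lit 0) (nat_lit 22654973795) (nat_lit 532) (nat_lit 53130999782) (nat_lit 608) (nat_lit 7153687749) (nat_lit 137) (nat_lit 5) (nat_lit 144) (nat_lit 5) (nat_lit 145) (nat_lit 5) (nat_lit 308) (nat_lit 294) (nat_lit 118)) (XT.nd (nat_lit 78) (nat_lit 0) (nat_lit 0) (XT.lf (nat_lit 0) (nat_lit 2079806285) (nat_lit 532) (nat_lit 1808295603) (nat_lit 608) (nat_lit 81474948807) (nat_lit 129) (nat_lit 5) (nat_lit 136) (nat_lit 5) (nat_lit 137) (nat_lit 5) (nat_lit 309) (nat_lit 294) (nat_lit 117)) (XT.lf (nat_lit 0) (nat_lit 16461699153) (nat_lit 608) (nat_lit 19646743799) (nat_lit 76) (nat_lit 51763213533) (nat_lit 129) (nat_lit 5) (nat_lit 137) (nat_lit 5) (nat_lit 130) (nat_lit 5) (nat_lit 310) (nat_lit 294) (nat_lit 116))))))))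
noncomputable def xc124 : XT := (XT.nd (nat_lit 37362) (nat_lit 0) (nat_lit 380) (XT.nd (nat_lit 36504) (nat_lit 0) (nat_lit 3876) (XT.nd (nat_lit 390) (nat_lit 912) (nat_lit 0) (XT.nd (nat_lit 156) (nat_lit 836) (nat_lit 0) (XT.nd (nat_lit 78) (nat_lit 456) (nat_lit 0) (XT.lf (nat_lit 0) (nat_lit 30316015730) (nat_lit 608) (nat_lit 42573094621) (nat_lit 76) (nat_lit 17597022776) (nat_lit 122) (nat_lit 5) (nat_lit 130) (nat_lit 5) (nat_lit 123) (nat_lit 5) (nat_lit 311) (nat_lit 294) (nat_lit 115)) (XT.lf (nat_lit 0) (nat_lit 26179484045) (nat_lit 456) (nat_lit 19502945757) (nat_lit 532) (nat_lit 47524324010) (nat_lit 116) (nat_lit 5) (nat_lit 122) (nat_lit 5) (nat_lit 123) (nat_lit 5) (nat_lit 312) (nat_lit 294) (nat_lit 114))) (XT.nd (nat_lit 78) (nat_lit 380) (nat_lit 0) (XT.lf (nat_lit 0) (nat_lit 2909128396) (nat_lit 456) (nat_lit 59729022352) (nat_lit 532) (nat_lit 33400626783) (nat_lit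 110) (nat_lit 5) (nat_lit 116) (nat_lit 5) (nat_lit 117) (nat_lit 5) (nat_lit 313) (nat_lit 294) (nat_lit 113)) (XT.nd (nat_lit 78) (nat_lit 380) (nat_lit 0) (XT.lf (nat_lit 0) (nat_lit 77541261975) (nat_lit 456) (nat_lit 3784400450) (nat_lit 532) (nat_lit 17660221376) (nat_lit 110) (nat_lit 5) (nat_lit 116) (nat_lit 5) (nat_lit 117) (nat_lit 5) (nat_lit 314) (nat_lit 294) (nat_lit 112)) (XT.lf (nat_lit 0) (nat_lit 54356084420) (nat_lit 380) (nat_lit 47641395881) (nat_lit 456) (nat_lit 51368601) (nat_lit 105) (nat_lit 5) (nat_lit 110) (nat_lit 5) (nat_lit 111) (nat_lit 5) (nat_lit 315) (nat_lit 294) (nat_lit 111))))) (XT.nd (nat_lit 35880) (nat_lit 0) (nat_lit 6080) (XT.nd (nat_lit 78) (nat_lit 380) (nat_lit 0) (XT.lf (nat_lit 0) (nat_lit 18726451518) (nat_lit 532) (nat_lit 75854275397) (nat_lit 76) (nat_lit 10659470118) (nat_lit 98) (nat_lit 5) (nat_lit 105) (nat_lit 5) (nat_lit 99) (nat_lit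 5) (nat_lit 316) (nat_lit 294) (nat_lit 110)) (XT.nd (nat_lit 78) (nat_lit 0) (nat_lit 0) (XT.lf (nat_lit 0) (nat_lit 2296414871) (nat_lit 380) (nat_lit 37143635720) (nat_lit 456) (nat_lit 69121109479) (nat_lit 93) (nat_lit 5) (nat_lit 98) (nat_lit 5) (nat_lit 99) (nat_lit 5) (nat_lit 317) (nat_lit 294) (nat_lit 109)) (XT.lf (nat_lit 0) (nat_lit 62199814657) (nat_lit 456) (nat_lit 26316338221) (nat_lit 76) (nat_lit 23501705031) (nat_lit 93) (nat_lit 5) (nat_lit 99) (nat_lit 5) (nat_lit 94) (nat_lit 5) (nat_lit 318) (nat_lit 294) (nat_lit 108)))) (XT.nd (nat_lit 78) (nat_lit 0) (nat_lit 0) (XT.lf (nat_lit 0) (nat_lit 29207260628) (nat_lit 1140) (nat_lit 421501524) (nat_lit 1140) (nat_lit 421501524) (nat_lit 173) (nat_lit 3) (nat_lit 188) (nat_lit 3) (nat_lit 188) (nat_lit 5) (nat_lit 295) (nat_lit 295) (nat_lit 130)) (XT.nd (nat_lit 78) (nat_lit 0) (nat_lit 76) (XT.lf (nat_lit 76) (nat_lit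 42992228212) (nat_lit 0) (nat_lit 17323173487) (nat_lit 1140) (nat_lit 1274368781) (nat_lit 174) (nat_lit 5) (nat_lit 173) (nat_lit 3) (nat_lit 188) (nat_lit 5) (nat_lit 296) (nat_lit 295) (nat_lit 129)) (XT.lf (nat_lit 76) (nat_lit 26135825338) (nat_lit 0) (nat_lit 36690485763) (nat_lit 1140) (nat_lit 311718607) (nat_lit 175) (nat_lit 5) (nat_lit 174) (nat_lit 5) (nat_lit 189) (nat_lit 5) (nat_lit 297) (nat_lit 295) (nat_lit 128)))))) (XT.nd (nat_lit 390) (nat_lit 1216) (nat_lit 0) (XT.nd (nat_lit 156) (nat_lit 0) (nat_lit 76) (XT.nd (nat_lit 78) (nat_lit 0) (nat_lit 0) (XT.lf (nat_lit 0) (nat_lit 1208689850) (nat_lit 1140) (nat_lit 56100632805) (nat_lit 1216) (nat_lit 7438482864) (nat_lit 160) (nat_lit 5) (nat_lit 175) (nat_lit 5) (nat_lit 176) (nat_lit 5) (nat_lit 298) (nat_lit 295) (nat_lit 127)) (XT.lf (nat_lit 0) (nat_lit 3552120778) (nat_lit 1140) (nat_lit 9452651039) (nat_lit 1216)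 (nat_lit 53410605320) (nat_lit 160) (nat_lit 5) (nat_lit 175) (nat_lit 5) (nat_lit 176) (nat_lit 5) (nat_lit 299) (nat_lit 295) (nat_lit 126))) (XT.nd (nat_lit 78) (nat_lit 0) (nat_lit 76) (XT.lf (nat_lit 0) (nat_lit 6724712886) (nat_lit 1140) (nat_lit 28167341847) (nat_lit 1216) (nat_lit 33252915843) (nat_lit 161) (nat_lit 5) (nat_lit 176) (nat_lit 5) (nat_lit 177) (nat_lit 5) (nat_lit 300) (nat_lit 295) (nat_lit 125)) (XT.nd (nat_lit 78) (nat_lit 0) (nat_lit 0) (XT.lf (nat_lit 0) (nat_lit 10614160025) (nat_lit 1140) (nat_lit 47639187786) (nat_lit 1216) (nat_lit 11690951900) (nat_lit 162) (nat_lit 5) (nat_lit 177) (nat_lit 5) (nat_lit 178) (nat_lit 5) (nat_lit 301) (nat_lit 295) (nat_lit 124)) (XT.lf (nat_lit 76) (nat_lit 3782658331) (nat_lit 0) (nat_lit 11595382578) (nat_lit 1216) (nat_lit 56435158210) (nat_lit 163) (nat_lit 5) (nat_lit 162) (nat_lit 5) (nat_lit 178) (nat_lit 5) (nat_lit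 302) (nat_lit 295) (nat_lit 123))))) (XT.nd (nat_lit 234) (nat_lit 1444) (nat_lit 0) (XT.nd (nat_lit 78) (nat_lit 0) (nat_lit 76) (XT.lf (nat_lit 0) (nat_lit 21233501096) (nat_lit 1140) (nat_lit 15355073180) (nat_lit 1216) (nat_lit 37161370191) (nat_lit 163) (nat_lit 5) (nat_lit 178) (nat_lit 5) (nat_lit 179) (nat_lit 5) (nat_lit 303) (nat_lit 295) (nat_lit 122)) (XT.nd (nat_lit 78) (nat_lit 0) (nat_lit 0) (XT.lf (nat_lit 0) (nat_lit 28010515361) (nat_lit 1140) (nat_lit 35261848065) (nat_lit 1216) (nat_lit 12492302633) (nat_lit 164) (nat_lit 5) (nat_lit 179) (nat_lit 5) (nat_lit 180) (nat_lit 5) (nat_lit 304) (nat_lit 295) (nat_lit 121)) (XT.lf (nat_lit 76) (nat_lit 21649701191) (nat_lit 0) (nat_lit 14212494910) (nat_lit 1216) (nat_lit 41995855451) (nat_lit 165) (nat_lit 5) (nat_lit 164) (nat_lit 5) (nat_lit 180) (nat_lit 5) (nat_lit 305) (nat_lit 295) (nat_lit 120)))) (XT.nd (nat_lit 78)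 (nat_lit 532) (nat_lit 0) (XT.lf (nat_lit 0) (nat_lit 1769859869) (nat_lit 1064) (nat_lit 43077578721) (nat_lit 1140) (nat_lit 35186440583) (nat_lit 151) (nat_lit 5) (nat_lit 165) (nat_lit 5) (nat_lit 166) (nat_lit 5) (nat_lit 306) (nat_lit 295) (nat_lit 119)) (XT.nd (nat_lit 78) (nat_lit 532) (nat_lit 0) (XT.lf (nat_lit 0) (nat_lit 55084844350) (nat_lit 1140) (nat_lit 18705997739) (nat_lit 76) (nat_lit 8503571132) (nat_lit 151) (nat_lit 5) (nat_lit 166) (nat_lit 5) (nat_lit 152) (nat_lit 5) (nat_lit 307) (nat_lit 295) (nat_lit 118)) (XT.lf (nat_lit 0) (nat_lit 44257792720) (nat_lit 532) (nat_lit 22435481723) (nat_lit 608) (nat_lit 17948926888) (nat_lit 144) (nat_lit 5) (nat_lit 151) (nat_lit 5) (nat_lit 152) (nat_lit 5) (nat_lit 308) (nat_lit 295) (nat_lit 117))))))) (XT.nd (nat_lit 36660) (nat_lit 0) (nat_lit 4028) (XT.nd (nat_lit 390) (nat_lit 1368) (nat_lit 0) (XT.nd (nat_lit 156) (nat_lit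 988) (nat_lit 0) (XT.nd (nat_lit 78) (nat_lit 608) (nat_lit 0) (XT.lf (nat_lit 0) (nat_lit 23818292094) (nat_lit 532) (nat_lit 55788908208) (nat_lit 608) (nat_lit 7478428206) (nat_lit 137) (nat_lit 5) (nat_lit 144) (nat_lit 5) (nat_lit 145) (nat_lit 5) (nat_lit 309) (nat_lit 295) (nat_lit 116)) (XT.lf (nat_lit 0) (nat_lit 2214169101) (nat_lit 532) (nat_lit 1899392769) (nat_lit 608) (nat_lit 85516656043) (nat_lit 129) (nat_lit 5) (nat_lit 136) (nat_lit 5) (nat_lit 137) (nat_lit 5) (nat_lit 310) (nat_lit 295) (nat_lit 115))) (XT.nd (nat_lit 78) (nat_lit 988) (nat_lit 0) (XT.lf (nat_lit 0) (nat_lit 17314353947) (nat_lit 608) (nat_lit 20599210153) (nat_lit 76) (nat_lit 54350737001) (nat_lit 129) (nat_lit 5) (nat_lit 137) (nat_lit 5) (nat_lit 130) (nat_lit 5) (nat_lit 311) (nat_lit 295) (nat_lit 114)) (XT.nd (nat_lit 78) (nat_lit 456) (nat_lit 0) (XT.lf (nat_lit 0) (nat_lit 31860262689) (nat_lit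 608) (nat_lit 44671838375) (nat_lit 76) (nat_lit 18477436655) (nat_lit 122) (nat_lit 5) (nat_lit 130) (nat_lit 5) (nat_lit 123) (nat_lit 5) (nat_lit 312) (nat_lit 295) (nat_lit 113)) (XT.lf (nat_lit 0) (nat_lit 27517511832) (nat_lit 456) (nat_lit 20476410334) (nat_lit 532) (nat_lit 49872301849) (nat_lit 116) (nat_lit 5) (nat_lit 122) (nat_lit 5) (nat_lit 123) (nat_lit 5) (nat_lit 313) (nat_lit 295) (nat_lit 112))))) (XT.nd (nat_lit 234) (nat_lit 532) (nat_lit 0) (XT.nd (nat_lit 78) (nat_lit 380) (nat_lit 0) (XT.lf (nat_lit 0) (nat_lit 3083632495) (nat_lit 456) (nat_lit 62712787917) (nat_lit 532) (nat_lit 35043460976) (nat_lit 110) (nat_lit 5) (nat_lit 116) (nat_lit 5) (nat_lit 117) (nat_lit 5) (nat_lit 314) (nat_lit 295) (nat_lit 111)) (XT.nd (nat_lit 78) (nat_lit 380) (nat_lit 0) (XT.lf (nat_lit 0) (nat_lit 81445989531) (nat_lit 456) (nat_lit 3971062804) (nat_lit 532) (nat_lit 18517330401)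 (nat_lit 110) (nat_lit 5) (nat_lit 116) (nat_lit 5) (nat_lit 117) (nat_lit 5) (nat_lit 315) (nat_lit 295) (nat_lit 110)) (XT.lf (nat_lit 0) (nat_lit 57101508679) (nat_lit 380) (nat_lit 50020045779) (nat_lit 456) (nat_lit 28970835) (nat_lit 105) (nat_lit 5) (nat_lit 110) (nat_lit 5) (nat_lit 111) (nat_lit 5) (nat_lit 316) (nat_lit 295) (nat_lit 109)))) (XT.nd (nat_lit 35880) (nat_lit 0) (nat_lit 5700) (XT.lf (nat_lit 0) (nat_lit 19686386418) (nat_lit 532) (nat_lit 79618941726) (nat_lit 76) (nat_lit 11196133341) (nat_lit 98) (nat_lit 5) (nat_lit 105) (nat_lit 5) (nat_lit 99) (nat_lit 5) (nat_lit 317) (nat_lit 295) (nat_lit 108)) (XT.nd (nat_lit 78) (nat_lit 0) (nat_lit 0) (XT.lf (nat_lit 0) (nat_lit 30694448028) (nat_lit 1140) (nat_lit 428735209) (nat_lit 1140) (nat_lit 428735209) (nat_lit 173) (nat_lit 3) (nat_lit 188) (nat_lit 3) (nat_lit 188) (nat_lit 5) (nat_lit 296) (nat_lit 296) (nat_lit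 128)) (XT.lf (nat_lit 76) (nat_lit 45168728884) (nat_lit 0) (nat_lit 18213795413) (nat_lit 1140) (nat_lit 1285091880) (nat_lit 174) (nat_lit 5) (nat_lit 173) (nat_lit 3) (nat_lit 188) (nat_lit 5) (nat_lit 297) (nat_lit 296) (nat_lit 127)))))) (XT.nd (nat_lit 390) (nat_lit 684) (nat_lit 0) (XT.nd (nat_lit 156) (nat_lit 0) (nat_lit 0) (XT.nd (nat_lit 78) (nat_lit 1064) (nat_lit 0) (XT.lf (nat_lit 76) (nat_lit 27470559243) (nat_lit 0) (nat_lit 38546019212) (nat_lit 1140) (nat_lit 276786802) (nat_lit 175) (nat_lit 5) (nat_lit 174) (nat_lit 5) (nat_lit 189) (nat_lit 5) (nat_lit 298) (nat_lit 296) (nat_lit 126)) (XT.lf (nat_lit 0) (nat_lit 1316383546) (nat_lit 1140) (nat_lit 58875774968) (nat_lit 1216) (nat_lit 7791529459) (nat_lit 160) (nat_lit 5) (nat_lit 175) (nat_lit 5) (nat_lit 176) (nat_lit 5) (nat_lit 299) (nat_lit 296) (nat_lit 125))) (XT.nd (nat_lit 78) (nat_lit 0) (nat_lit 76) (XT.lf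 (nat_lit 0) (nat_lit 3774735582) (nat_lit 1140) (nat_lit 9896817423) (nat_lit 1216) (nat_lit 56063156969) (nat_lit 160) (nat_lit 5) (nat_lit 175) (nat_lit 5) (nat_lit 176) (nat_lit 5) (nat_lit 300) (nat_lit 296) (nat_lit 124)) (XT.nd (nat_lit 78) (nat_lit 0) (nat_lit 76) (XT.lf (nat_lit 0) (nat_lit 7103930999) (nat_lit 1140) (nat_lit 29546534323) (nat_lit 1216) (nat_lit 34900382636) (nat_lit 161) (nat_lit 5) (nat_lit 176) (nat_lit 5) (nat_lit 177) (nat_lit 5) (nat_lit 301) (nat_lit 296) (nat_lit 123)) (XT.lf (nat_lit 0) (nat_lit 11185952404) (nat_lit 1140) (nat_lit 49991371106) (nat_lit 1216) (nat_lit 12262880873) (nat_lit 162) (nat_lit 5) (nat_lit 177) (nat_lit 5) (nat_lit 178) (nat_lit 5) (nat_lit 302) (nat_lit 296) (nat_lit 122))))) (XT.nd (nat_lit 234) (nat_lit 836) (nat_lit 0) (XT.nd (nat_lit 78) (nat_lit 0) (nat_lit 76) (XT.lf (nat_lit 76) (nat_lit 4000713792) (nat_lit 0) (nat_lit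 12185635161) (nat_lit 1216) (nat_lit 59216253861) (nat_lit 163) (nat_lit 5) (nat_lit 162) (nat_lit 5) (nat_lit 178) (nat_lit 5) (nat_lit 303) (nat_lit 296) (nat_lit 121)) (XT.nd (nat_lit 78) (nat_lit 0) (nat_lit 76) (XT.lf (nat_lit 0) (nat_lit 22332609699) (nat_lit 1140) (nat_lit 16093989145) (nat_lit 1216) (nat_lit 39009649287) (nat_lit 163) (nat_lit 5) (nat_lit 178) (nat_lit 5) (nat_lit 179) (nat_lit 5) (nat_lit 304) (nat_lit 296) (nat_lit 120)) (XT.lf (nat_lit 0) (nat_lit 29446885359) (nat_lit 1140) (nat_lit 36995708573) (nat_lit 1216) (nat_lit 13109162910) (nat_lit 164) (nat_lit 5) (nat_lit 179) (nat_lit 5) (nat_lit 180) (nat_lit 5) (nat_lit 305) (nat_lit 296) (nat_lit 119)))) (XT.nd (nat_lit 78) (nat_lit 988) (nat_lit 0) (XT.lf (nat_lit 76) (nat_lit 22760580219) (nat_lit 0) (nat_lit 14929135989) (nat_lit 1216) (nat_lit 44060141619) (nat_lit 165) (nat_lit 5) (nat_lit 164) (nat_lit 5)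 (nat_lit 180) (nat_lit 5) (nat_lit 306) (nat_lit 296) (nat_lit 118)) (XT.nd (nat_lit 78) (nat_lit 0) (nat_lit 0) (XT.lf (nat_lit 0) (nat_lit 1887053975) (nat_lit 1064) (nat_lit 45235749075) (nat_lit 1140) (nat_lit 36911719360) (nat_lit 151) (nat_lit 5) (nat_lit 165) (nat_lit 5) (nat_lit 166) (nat_lit 5) (nat_lit 307) (nat_lit 296) (nat_lit 117)) (XT.lf (nat_lit 0) (nat_lit 57870468738) (nat_lit 1140) (nat_lit 19612923258) (nat_lit 76) (nat_lit 8924742378) (nat_lit 151) (nat_lit 5) (nat_lit 166) (nat_lit 5) (nat_lit 152) (nat_lit 5) (nat_lit 308) (nat_lit 296) (nat_lit 116))))))))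
noncomputable def xc125 : XT := (XT.nd (nat_lit 37674) (nat_lit 0) (nat_lit 0) (XT.nd (nat_lit 36816) (nat_lit 0) (nat_lit 2584) (XT.nd (nat_lit 390) (nat_lit 912) (nat_lit 0) (XT.nd (nat_lit 156) (nat_lit 1140) (nat_lit 0) (XT.nd (nat_lit 78) (nat_lit 532) (nat_lit 0) (XT.lf (nat_lit 0) (nat_lit 46498243379) (nat_lit 532) (nat_lit 23559847502) (nat_lit 608) (nat_lit 18815260657) (nat_lit 144) (nat_lit 5) (nat_lit 151) (nat_lit 5) (nat_lit 152) (nat_lit 5) (nat_lit 309) (nat_lit 296) (nat_lit 115)) (XT.lf (nat_lit 0) (nat_lit 25036934235) (nat_lit 532) (nat_lit 58579585760) (nat_lit 608) (nat_lit 7822468500) (nat_lit 137) (nat_lit 5) (nat_lit 144) (nat_lit 5) (nat_lit 145) (nat_lit 5) (nat_lit 310) (nat_lit 296) (nat_lit 114))) (XT.nd (nat_lit 78) (nat_lit 532) (nat_lit 0) (XT.lf (nat_lit 0) (nat_lit 2352426312) (nat_lit 532) (nat_lit 1994981351) (nat_lit 608) (nat_lit 89763427436) (nat_lit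 129) (nat_lit 5) (nat_lit 136) (nat_lit 5) (nat_lit 137) (nat_lit 5) (nat_lit 311) (nat_lit 296) (nat_lit 113)) (XT.nd (nat_lit 78) (nat_lit 532) (nat_lit 0) (XT.lf (nat_lit 0) (nat_lit 18206892358) (nat_lit 608) (nat_lit 21602076932) (nat_lit 76) (nat_lit 57067695883) (nat_lit 129) (nat_lit 5) (nat_lit 137) (nat_lit 5) (nat_lit 130) (nat_lit 5) (nat_lit 312) (nat_lit 296) (nat_lit 112)) (XT.lf (nat_lit 0) (nat_lit 33479077340) (nat_lit 608) (nat_lit 46878300156) (nat_lit 76) (nat_lit 19401818909) (nat_lit 122) (nat_lit 5) (nat_lit 130) (nat_lit 5) (nat_lit 123) (nat_lit 5) (nat_lit 313) (nat_lit 296) (nat_lit 111))))) (XT.nd (nat_lit 36192) (nat_lit 0) (nat_lit 4788) (XT.nd (nat_lit 78) (nat_lit 456) (nat_lit 0) (XT.lf (nat_lit 0) (nat_lit 28919739882) (nat_lit 456) (nat_lit 21498704582) (nat_lit 532) (nat_lit 52340303916) (nat_lit 116) (nat_lit 5) (nat_lit 122) (nat_lit 5) (nat_lit 123)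 (nat_lit 5) (nat_lit 314) (nat_lit 296) (nat_lit 110)) (XT.nd (nat_lit 78) (nat_lit 0) (nat_lit 0) (XT.lf (nat_lit 0) (nat_lit 3264161222) (nat_lit 456) (nat_lit 65845991438) (nat_lit 532) (nat_lit 36770965412) (nat_lit 110) (nat_lit 5) (nat_lit 116) (nat_lit 5) (nat_lit 117) (nat_lit 5) (nat_lit 315) (nat_lit 296) (nat_lit 109)) (XT.lf (nat_lit 0) (nat_lit 85543381485) (nat_lit 456) (nat_lit 4167296063) (nat_lit 532) (nat_lit 19419703005) (nat_lit 110) (nat_lit 5) (nat_lit 116) (nat_lit 5) (nat_lit 117) (nat_lit 5) (nat_lit 316) (nat_lit 296) (nat_lit 108)))) (XT.nd (nat_lit 78) (nat_lit 0) (nat_lit 0) (XT.lf (nat_lit 0) (nat_lit 32253500923) (nat_lit 1140) (nat_lit 437617420) (nat_lit 1140) (nat_lit 437617420) (nat_lit 173) (nat_lit 3) (nat_lit 188) (nat_lit 3) (nat_lit 188) (nat_lit 5) (nat_lit 297) (nat_lit 297) (nat_lit 126)) (XT.nd (nat_lit 78) (nat_lit 0) (nat_lit 76) (XT.lf (nat_lit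 76) (nat_lit 47451554681) (nat_lit 0) (nat_lit 19146674074) (nat_lit 1140) (nat_lit 1301278138) (nat_lit 174) (nat_lit 5) (nat_lit 173) (nat_lit 3) (nat_lit 188) (nat_lit 5) (nat_lit 298) (nat_lit 297) (nat_lit 125)) (XT.lf (nat_lit 76) (nat_lit 28869432001) (nat_lit 0) (nat_lit 40492376102) (nat_lit 1140) (nat_lit 244805066) (nat_lit 175) (nat_lit 5) (nat_lit 174) (nat_lit 5) (nat_lit 189) (nat_lit 5) (nat_lit 299) (nat_lit 297) (nat_lit 124)))))) (XT.nd (nat_lit 390) (nat_lit 1216) (nat_lit 0) (XT.nd (nat_lit 156) (nat_lit 0) (nat_lit 76) (XT.nd (nat_lit 78) (nat_lit 0) (nat_lit 0) (XT.lf (nat_lit 0) (nat_lit 1425068215) (nat_lit 1140) (nat_lit 61792453081) (nat_lit 1216) (nat_lit 8163983439) (nat_lit 160) (nat_lit 5) (nat_lit 175) (nat_lit 5) (nat_lit 176) (nat_lit 5) (nat_lit 300) (nat_lit 297) (nat_lit 123)) (XT.lf (nat_lit 0) (nat_lit 4004296639) (nat_lit 1140) (nat_lit 10365838641)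 (nat_lit 1216) (nat_lit 58850007681) (nat_lit 160) (nat_lit 5) (nat_lit 175) (nat_lit 5) (nat_lit 176) (nat_lit 5) (nat_lit 301) (nat_lit 297) (nat_lit 122))) (XT.nd (nat_lit 78) (nat_lit 0) (nat_lit 76) (XT.lf (nat_lit 0) (nat_lit 7498113914) (nat_lit 1140) (nat_lit 30997398802) (nat_lit 1216) (nat_lit 36631633969) (nat_lit 161) (nat_lit 5) (nat_lit 176) (nat_lit 5) (nat_lit 177) (nat_lit 5) (nat_lit 302) (nat_lit 297) (nat_lit 121)) (XT.nd (nat_lit 78) (nat_lit 0) (nat_lit 0) (XT.lf (nat_lit 0) (nat_lit 11782514765) (nat_lit 1140) (nat_lit 52463931888) (nat_lit 1216) (nat_lit 12864579454) (nat_lit 162) (nat_lit 5) (nat_lit 177) (nat_lit 5) (nat_lit 178) (nat_lit 5) (nat_lit 303) (nat_lit 297) (nat_lit 120)) (XT.lf (nat_lit 76) (nat_lit 4226983083) (nat_lit 0) (nat_lit 12804425721) (nat_lit 1216) (nat_lit 62140184686) (nat_lit 163) (nat_lit 5) (nat_lit 162) (nat_lit 5) (nat_lit 178) (nat_lit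 5) (nat_lit 304) (nat_lit 297) (nat_lit 119))))) (XT.nd (nat_lit 234) (nat_lit 1444) (nat_lit 0) (XT.nd (nat_lit 78) (nat_lit 0) (nat_lit 76) (XT.lf (nat_lit 0) (nat_lit 23483193516) (nat_lit 1140) (nat_lit 16872531964) (nat_lit 1216) (nat_lit 40951252465) (nat_lit 163) (nat_lit 5) (nat_lit 178) (nat_lit 5) (nat_lit 179) (nat_lit 5) (nat_lit 305) (nat_lit 297) (nat_lit 118)) (XT.nd (nat_lit 78) (nat_lit 0) (nat_lit 0) (XT.lf (nat_lit 0) (nat_lit 30951741401) (nat_lit 1140) (nat_lit 38818979811) (nat_lit 1216) (nat_lit 13757587174) (nat_lit 164) (nat_lit 5) (nat_lit 179) (nat_lit 5) (nat_lit 180) (nat_lit 5) (nat_lit 306) (nat_lit 297) (nat_lit 117)) (XT.lf (nat_lit 76) (nat_lit 23924363397) (nat_lit 0) (nat_lit 15681049780) (nat_lit 1216) (nat_lit 46230943163) (nat_lit 165) (nat_lit 5) (nat_lit 164) (nat_lit 5) (nat_lit 180) (nat_lit 5) (nat_lit 307) (nat_lit 297) (nat_lit 116)))) (XT.nd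 (nat_lit 78) (nat_lit 532) (nat_lit 0) (XT.lf (nat_lit 0) (nat_lit 2007439430) (nat_lit 1064) (nat_lit 47501428970) (nat_lit 1140) (nat_lit 38726427095) (nat_lit 151) (nat_lit 5) (nat_lit 165) (nat_lit 5) (nat_lit 166) (nat_lit 5) (nat_lit 308) (nat_lit 297) (nat_lit 115)) (XT.nd (nat_lit 78) (nat_lit 532) (nat_lit 0) (XT.lf (nat_lit 0) (nat_lit 60792456729) (nat_lit 1140) (nat_lit 20567833032) (nat_lit 76) (nat_lit 9367344747) (nat_lit 151) (nat_lit 5) (nat_lit 166) (nat_lit 5) (nat_lit 152) (nat_lit 5) (nat_lit 309) (nat_lit 297) (nat_lit 114)) (XT.lf (nat_lit 0) (nat_lit 48848154207) (nat_lit 532) (nat_lit 24740190618) (nat_lit 608) (nat_lit 19727803667) (nat_lit 144) (nat_lit 5) (nat_lit 151) (nat_lit 5) (nat_lit 152) (nat_lit 5) (nat_lit 310) (nat_lit 297) (nat_lit 113))))))) (XT.nd (nat_lit 36894) (nat_lit 0) (nat_lit 1444) (XT.nd (nat_lit 390) (nat_lit 456) (nat_lit 0) (XT.nd (nat_lit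 156) (nat_lit 988) (nat_lit 0) (XT.nd (nat_lit 78) (nat_lit 608) (nat_lit 0) (XT.lf (nat_lit 0) (nat_lit 26313930640) (nat_lit 532) (nat_lit 61509682637) (nat_lit 608) (nat_lit 8186488872) (nat_lit 137) (nat_lit 5) (nat_lit 144) (nat_lit 5) (nat_lit 145) (nat_lit 5) (nat_lit 311) (nat_lit 297) (nat_lit 112)) (XT.lf (nat_lit 0) (nat_lit 2495035160) (nat_lit 532) (nat_lit 2095291819) (nat_lit 608) (nat_lit 94225239252) (nat_lit 129) (nat_lit 5) (nat_lit 136) (nat_lit 5) (nat_lit 137) (nat_lit 5) (nat_lit 312) (nat_lit 297) (nat_lit 111))) (XT.nd (nat_lit 78) (nat_lit 988) (nat_lit 0) (XT.lf (nat_lit 0) (nat_lit 19141564154) (nat_lit 608) (nat_lit 22657605967) (nat_lit 76) (nat_lit 59920556443) (nat_lit 129) (nat_lit 5) (nat_lit 137) (nat_lit 5) (nat_lit 130) (nat_lit 5) (nat_lit 313) (nat_lit 297) (nat_lit 110)) (XT.nd (nat_lit 78) (nat_lit 456) (nat_lit 0) (XT.lf (nat_lit 0) (nat_lit 35176433944)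 (nat_lit 608) (nat_lit 49197607329) (nat_lit 76) (nat_lit 20372372822) (nat_lit 122) (nat_lit 5) (nat_lit 130) (nat_lit 5) (nat_lit 123) (nat_lit 5) (nat_lit 314) (nat_lit 297) (nat_lit 109)) (XT.lf (nat_lit 0) (nat_lit 30389629332) (nat_lit 456) (nat_lit 22572255440) (nat_lit 532) (nat_lit 54934087341) (nat_lit 116) (nat_lit 5) (nat_lit 122) (nat_lit 5) (nat_lit 123) (nat_lit 5) (nat_lit 315) (nat_lit 297) (nat_lit 108))))) (XT.nd (nat_lit 36270) (nat_lit 0) (nat_lit 3800) (XT.nd (nat_lit 36114) (nat_lit 0) (nat_lit 4788) (XT.lf (nat_lit 0) (nat_lit 3451266881) (nat_lit 456) (nat_lit 69136081600) (nat_lit 532) (nat_lit 38587138524) (nat_lit 110) (nat_lit 5) (nat_lit 116) (nat_lit 5) (nat_lit 117) (nat_lit 5) (nat_lit 316) (nat_lit 297) (nat_lit 107)) (XT.nd (nat_lit 78) (nat_lit 0) (nat_lit 0) (XT.lf (nat_lit 0) (nat_lit 33888244445) (nat_lit 1140) (nat_lit 448110944) (nat_lit 1140) (nat_lit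 448110944) (nat_lit 173) (nat_lit 3) (nat_lit 188) (nat_lit 3) (nat_lit 188) (nat_lit 5) (nat_lit 298) (nat_lit 298) (nat_lit 124)) (XT.lf (nat_lit 76) (nat_lit 49846254277) (nat_lit 0) (nat_lit 20124133755) (nat_lit 1140) (nat_lit 1322742647) (nat_lit 174) (nat_lit 5) (nat_lit 173) (nat_lit 3) (nat_lit 188) (nat_lit 5) (nat_lit 299) (nat_lit 298) (nat_lit 123)))) (XT.nd (nat_lit 78) (nat_lit 1064) (nat_lit 0) (XT.lf (nat_lit 76) (nat_lit 30335892078) (nat_lit 0) (nat_lit 42534279196) (nat_lit 1140) (nat_lit 215484253) (nat_lit 175) (nat_lit 5) (nat_lit 174) (nat_lit 5) (nat_lit 189) (nat_lit 5) (nat_lit 300) (nat_lit 298) (nat_lit 122)) (XT.nd (nat_lit 78) (nat_lit 0) (nat_lit 0) (XT.lf (nat_lit 0) (nat_lit 1535201890) (nat_lit 1140) (nat_lit 64857485588) (nat_lit 1216) (nat_lit 8556652005) (nat_lit 160) (nat_lit 5) (nat_lit 175) (nat_lit 5) (nat_lit 176) (nat_lit 5) (nat_lit 301) (nat_lit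 298) (nat_lit 121)) (XT.lf (nat_lit 0) (nat_lit 4241540294) (nat_lit 1140) (nat_lit 10860711386) (nat_lit 1216) (nat_lit 61777717012) (nat_lit 160) (nat_lit 5) (nat_lit 175) (nat_lit 5) (nat_lit 176) (nat_lit 5) (nat_lit 302) (nat_lit 298) (nat_lit 120)))))) (XT.nd (nat_lit 468) (nat_lit 2432) (nat_lit 0) (XT.nd (nat_lit 234) (nat_lit 0) (nat_lit 152) (XT.nd (nat_lit 78) (nat_lit 0) (nat_lit 76) (XT.lf (nat_lit 0) (nat_lit 7908381393) (nat_lit 1140) (nat_lit 32523266713) (nat_lit 1216) (nat_lit 38450727867) (nat_lit 161) (nat_lit 5) (nat_lit 176) (nat_lit 5) (nat_lit 177) (nat_lit 5) (nat_lit 303) (nat_lit 298) (nat_lit 119)) (XT.nd (nat_lit 78) (nat_lit 0) (nat_lit 0) (XT.lf (nat_lit 0) (nat_lit 12405440722) (nat_lit 1140) (nat_lit 55062631635) (nat_lit 1216) (nat_lit 13497427055) (nat_lit 162) (nat_lit 5) (nat_lit 177) (nat_lit 5) (nat_lit 178) (nat_lit 5) (nat_lit 304) (nat_lit 298) (nat_lit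 118)) (XT.lf (nat_lit 76) (nat_lit 4462126887) (nat_lit 0) (nat_lit 13453271771) (nat_lit 1216) (nat_lit 65213740979) (nat_lit 163) (nat_lit 5) (nat_lit 162) (nat_lit 5) (nat_lit 178) (nat_lit 5) (nat_lit 305) (nat_lit 298) (nat_lit 117)))) (XT.nd (nat_lit 78) (nat_lit 0) (nat_lit 76) (XT.lf (nat_lit 0) (nat_lit 24688149865) (nat_lit 1140) (nat_lit 17692433721) (nat_lit 1216) (nat_lit 42990761313) (nat_lit 163) (nat_lit 5) (nat_lit 178) (nat_lit 5) (nat_lit 179) (nat_lit 5) (nat_lit 306) (nat_lit 298) (nat_lit 116)) (XT.nd (nat_lit 78) (nat_lit 0) (nat_lit 0) (XT.lf (nat_lit 0) (nat_lit 32528817608) (nat_lit 1140) (nat_lit 40735879649) (nat_lit 1216) (nat_lit 14439086595) (nat_lit 164) (nat_lit 5) (nat_lit 179) (nat_lit 5) (nat_lit 180) (nat_lit 5) (nat_lit 307) (nat_lit 298) (nat_lit 115)) (XT.lf (nat_lit 76) (nat_lit 25143941355) (nat_lit 0) (nat_lit 16470051922) (nat_lit 1216) (nat_lit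 48513278950) (nat_lit 165) (nat_lit 5) (nat_lit 164) (nat_lit 5) (nat_lit 180) (nat_lit 5) (nat_lit 308) (nat_lit 298) (nat_lit 114))))) (XT.nd (nat_lit 234) (nat_lit 1140) (nat_lit 0) (XT.nd (nat_lit 78) (nat_lit 532) (nat_lit 0) (XT.lf (nat_lit 0) (nat_lit 2131423878) (nat_lit 1064) (nat_lit 49880030979) (nat_lit 1140) (nat_lit 40634740982) (nat_lit 151) (nat_lit 5) (nat_lit 165) (nat_lit 5) (nat_lit 166) (nat_lit 5) (nat_lit 309) (nat_lit 298) (nat_lit 113)) (XT.nd (nat_lit 78) (nat_lit 532) (nat_lit 0) (XT.lf (nat_lit 0) (nat_lit 63857897754) (nat_lit 1140) (nat_lit 21572881021) (nat_lit 76) (nat_lit 9832415160) (nat_lit 151) (nat_lit 5) (nat_lit 166) (nat_lit 5) (nat_lit 152) (nat_lit 5) (nat_lit 310) (nat_lit 298) (nat_lit 112)) (XT.lf (nat_lit 0) (nat_lit 51313236439) (nat_lit 532) (nat_lit 25979332341) (nat_lit 608) (nat_lit 20688597457) (nat_lit 144) (nat_lit 5) (nat_lit 151) (nat_lit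 5) (nat_lit 152) (nat_lit 5) (nat_lit 311) (nat_lit 298) (nat_lit 111)))) (XT.nd (nat_lit 78) (nat_lit 608) (nat_lit 0) (XT.lf (nat_lit 0) (nat_lit 27652438685) (nat_lit 532) (nat_lit 64586180454) (nat_lit 608) (nat_lit 8571230048) (nat_lit 137) (nat_lit 5) (nat_lit 144) (nat_lit 5) (nat_lit 145) (nat_lit 5) (nat_lit 312) (nat_lit 298) (nat_lit 110)) (XT.nd (nat_lit 78) (nat_lit 0) (nat_lit 0) (XT.lf (nat_lit 0) (nat_lit 2642451347) (nat_lit 532) (nat_lit 2200565617) (nat_lit 608) (nat_lit 98912592321) (nat_lit 129) (nat_lit 5) (nat_lit 136) (nat_lit 5) (nat_lit 137) (nat_lit 5) (nat_lit 313) (nat_lit 298) (nat_lit 109)) (XT.lf (nat_lit 0) (nat_lit 20120707830) (nat_lit 608) (nat_lit 23768196188) (nat_lit 76) (nat_lit 62916108770) (nat_lit 129) (nat_lit 5) (nat_lit 137) (nat_lit 5) (nat_lit 130) (nat_lit 5) (nat_lit 314) (nat_lit 298) (nat_lit 108))))))))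
noncomputable def xc126 : XT := (XT.nd (nat_lit 74178) (nat_lit 0) (nat_lit 1140) (XT.nd (nat_lit 37050) (nat_lit 0) (nat_lit 532) (XT.nd (nat_lit 36582) (nat_lit 0) (nat_lit 2888) (XT.nd (nat_lit 36348) (nat_lit 0) (nat_lit 2888) (XT.nd (nat_lit 36270) (nat_lit 0) (nat_lit 3876) (XT.lf (nat_lit 0) (nat_lit 36956482613) (nat_lit 608) (nat_lit 51635167663) (nat_lit 76) (nat_lit 21391411388) (nat_lit 122) (nat_lit 5) (nat_lit 130) (nat_lit 5) (nat_lit 123) (nat_lit 5) (nat_lit 315) (nat_lit 298) (nat_lit 107)) (XT.lf (nat_lit 0) (nat_lit 35602673424) (nat_lit 1140) (nat_lit 460187831) (nat_lit 1140) (nat_lit 460187831) (nat_lit 173) (nat_lit 3) (nat_lit 188) (nat_lit 3) (nat_lit 188) (nat_lit 5) (nat_lit 299) (nat_lit 299) (nat_lit 122))) (XT.nd (nat_lit 78) (nat_lit 988) (nat_lit 0) (XT.lf (nat_lit 76) (nat_lit 52358632172) (nat_lit 0) (nat_lit 21148595298) (nat_lit 1140) (nat_lit 1349333841)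 (nat_lit 174) (nat_lit 5) (nat_lit 173) (nat_lit 3) (nat_lit 188) (nat_lit 5) (nat_lit 300) (nat_lit 299) (nat_lit 121)) (XT.nd (nat_lit 78) (nat_lit 1064) (nat_lit 0) (XT.lf (nat_lit 76) (nat_lit 31873537908) (nat_lit 0) (nat_lit 44676670515) (nat_lit 1140) (nat_lit 188561353) (nat_lit 175) (nat_lit 5) (nat_lit 174) (nat_lit 5) (nat_lit 189) (nat_lit 5) (nat_lit 301) (nat_lit 299) (nat_lit 120)) (XT.lf (nat_lit 0) (nat_lit 1647227530) (nat_lit 1140) (nat_lit 68078055880) (nat_lit 1216) (nat_lit 8970397889) (nat_lit 160) (nat_lit 5) (nat_lit 175) (nat_lit 5) (nat_lit 176) (nat_lit 5) (nat_lit 302) (nat_lit 299) (nat_lit 119))))) (XT.nd (nat_lit 234) (nat_lit 0) (nat_lit 152) (XT.nd (nat_lit 78) (nat_lit 0) (nat_lit 76) (XT.lf (nat_lit 0) (nat_lit 4487203543) (nat_lit 1140) (nat_lit 11382505062) (nat_lit 1216) (nat_lit 64853186942) (nat_lit 160) (nat_lit 5) (nat_lit 175) (nat_lit 5) (nat_lit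 176) (nat_lit 5) (nat_lit 303) (nat_lit 299) (nat_lit 118)) (XT.nd (nat_lit 78) (nat_lit 0) (nat_lit 76) (XT.lf (nat_lit 0) (nat_lit 8335874642) (nat_lit 1140) (nat_lit 34127659501) (nat_lit 1216) (nat_lit 40361937458) (nat_lit 161) (nat_lit 5) (nat_lit 176) (nat_lit 5) (nat_lit 177) (nat_lit 5) (nat_lit 304) (nat_lit 299) (nat_lit 117)) (XT.lf (nat_lit 0) (nat_lit 13056370553) (nat_lit 1140) (nat_lit 57793543855) (nat_lit 1216) (nat_lit 14162882198) (nat_lit 162) (nat_lit 5) (nat_lit 177) (nat_lit 5) (nat_lit 178) (nat_lit 5) (nat_lit 305) (nat_lit 299) (nat_lit 116)))) (XT.nd (nat_lit 78) (nat_lit 0) (nat_lit 76) (XT.lf (nat_lit 76) (nat_lit 4706815679) (nat_lit 0) (nat_lit 14133758275) (nat_lit 1216) (nat_lit 68444085224) (nat_lit 163) (nat_lit 5) (nat_lit 162) (nat_lit 5) (nat_lit 178) (nat_lit 5) (nat_lit 306) (nat_lit 299) (nat_lit 115)) (XT.nd (nat_lit 78) (nat_lit 0) (nat_lit 76)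 (XT.lf (nat_lit 0) (nat_lit 25950490849) (nat_lit 1140) (nat_lit 18555536276) (nat_lit 1216) (nat_lit 45132994367) (nat_lit 163) (nat_lit 5) (nat_lit 178) (nat_lit 5) (nat_lit 179) (nat_lit 5) (nat_lit 307) (nat_lit 299) (nat_lit 114)) (XT.lf (nat_lit 0) (nat_lit 34182006005) (nat_lit 1140) (nat_lit 42750860341) (nat_lit 1216) (nat_lit 15155254132) (nat_lit 164) (nat_lit 5) (nat_lit 179) (nat_lit 5) (nat_lit 180) (nat_lit 5) (nat_lit 308) (nat_lit 299) (nat_lit 113)))))) (XT.nd (nat_lit 390) (nat_lit 608) (nat_lit 0) (XT.nd (nat_lit 156) (nat_lit 1064) (nat_lit 0) (XT.nd (nat_lit 78) (nat_lit 988) (nat_lit 0) (XT.lf (nat_lit 76) (nat_lit 26422326439) (nat_lit 0) (nat_lit 17298043999) (nat_lit 1216) (nat_lit 50912447323) (nat_lit 165) (nat_lit 5) (nat_lit 164) (nat_lit 5) (nat_lit 180) (nat_lit 5) (nat_lit 309) (nat_lit 299) (nat_lit 112)) (XT.lf (nat_lit 0) (nat_lit 2259412285) (nat_lit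 1064) (nat_lit 52377234849) (nat_lit 1140) (nat_lit 42641074432) (nat_lit 151) (nat_lit 5) (nat_lit 165) (nat_lit 5) (nat_lit 166) (nat_lit 5) (nat_lit 310) (nat_lit 299) (nat_lit 111))) (XT.nd (nat_lit 78) (nat_lit 1064) (nat_lit 0) (XT.lf (nat_lit 0) (nat_lit 67074210501) (nat_lit 1140) (nat_lit 22630351682) (nat_lit 76) (nat_lit 10321045601) (nat_lit 151) (nat_lit 5) (nat_lit 166) (nat_lit 5) (nat_lit 152) (nat_lit 5) (nat_lit 311) (nat_lit 299) (nat_lit 110)) (XT.nd (nat_lit 78) (nat_lit 532) (nat_lit 0) (XT.lf (nat_lit 0) (nat_lit 53899464720) (nat_lit 532) (nat_lit 27280232918) (nat_lit 608) (nat_lit 21699810647) (nat_lit 144) (nat_lit 5) (nat_lit 151) (nat_lit 5) (nat_lit 152) (nat_lit 5) (nat_lit 312) (nat_lit 299) (nat_lit 109)) (XT.lf (nat_lit 0) (nat_lit 29055751335) (nat_lit 532) (nat_lit 67816408920) (nat_lit 608) (nat_lit 8977493802) (nat_lit 137) (nat_lit 5) (nat_lit 144)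 (nat_lit 5) (nat_lit 145) (nat_lit 5) (nat_lit 313) (nat_lit 299) (nat_lit 108))))) (XT.nd (nat_lit 36504) (nat_lit 0) (nat_lit 2356) (XT.nd (nat_lit 78) (nat_lit 0) (nat_lit 0) (XT.lf (nat_lit 0) (nat_lit 2795131220) (nat_lit 532) (nat_lit 2311055764) (nat_lit 608) (nat_lit 103836535866) (nat_lit 129) (nat_lit 5) (nat_lit 136) (nat_lit 5) (nat_lit 137) (nat_lit 5) (nat_lit 314) (nat_lit 299) (nat_lit 107)) (XT.nd (nat_lit 36348) (nat_lit 0) (nat_lit 3344) (XT.lf (nat_lit 0) (nat_lit 21146757251) (nat_lit 608) (nat_lit 24936388239) (nat_lit 76) (nat_lit 66061482920) (nat_lit 129) (nat_lit 5) (nat_lit 137) (nat_lit 5) (nat_lit 130) (nat_lit 5) (nat_lit 315) (nat_lit 299) (nat_lit 106)) (XT.lf (nat_lit 0) (nat_lit 37400962885) (nat_lit 1140) (nat_lit 473828824) (nat_lit 1140) (nat_lit 473828824) (nat_lit 173) (nat_lit 3) (nat_lit 188) (nat_lit 3) (nat_lit 188) (nat_lit 5) (nat_lit 300) (nat_lit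 300) (nat_lit 120)))) (XT.nd (nat_lit 78) (nat_lit 988) (nat_lit 0) (XT.lf (nat_lit 76) (nat_lit 54994763491) (nat_lit 0) (nat_lit 22222582754) (nat_lit 1140) (nat_lit 1380931200) (nat_lit 174) (nat_lit 5) (nat_lit 173) (nat_lit 3) (nat_lit 188) (nat_lit 5) (nat_lit 301) (nat_lit 300) (nat_lit 119)) (XT.nd (nat_lit 78) (nat_lit 1064) (nat_lit 0) (XT.lf (nat_lit 76) (nat_lit 33486127480) (nat_lit 0) (nat_lit 46924723868) (nat_lit 1140) (nat_lit 163797029) (nat_lit 175) (nat_lit 5) (nat_lit 174) (nat_lit 5) (nat_lit 189) (nat_lit 5) (nat_lit 302) (nat_lit 300) (nat_lit 118)) (XT.lf (nat_lit 0) (nat_lit 1761575796) (nat_lit 1140) (nat_lit 71461728300) (nat_lit 1216) (nat_lit 9406140715) (nat_lit 160) (nat_lit 5) (nat_lit 175) (nat_lit 5) (nat_lit 176) (nat_lit 5) (nat_lit 303) (nat_lit 300) (nat_lit 117))))))) (XT.nd (nat_lit 37284) (nat_lit 0) (nat_lit 1748) (XT.nd (nat_lit 390) (nat_lit 1748)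 (nat_lit 0) (XT.nd (nat_lit 156) (nat_lit 0) (nat_lit 152) (XT.nd (nat_lit 78) (nat_lit 0) (nat_lit 76) (XT.lf (nat_lit 0) (nat_lit 4742027424) (nat_lit 1140) (nat_lit 11932363293) (nat_lit 1216) (nat_lit 68083677653) (nat_lit 160) (nat_lit 5) (nat_lit 175) (nat_lit 5) (nat_lit 176) (nat_lit 5) (nat_lit 304) (nat_lit 300) (nat_lit 116)) (XT.lf (nat_lit 0) (nat_lit 8781760600) (nat_lit 1140) (nat_lit 35814295947) (nat_lit 1216) (nat_lit 42369760587) (nat_lit 161) (nat_lit 5) (nat_lit 176) (nat_lit 5) (nat_lit 177) (nat_lit 5) (nat_lit 305) (nat_lit 300) (nat_lit 115))) (XT.nd (nat_lit 78) (nat_lit 0) (nat_lit 0) (XT.lf (nat_lit 0) (nat_lit 13736996604) (nat_lit 1140) (nat_lit 60663067431) (nat_lit 1216) (nat_lit 14862485528) (nat_lit 162) (nat_lit 5) (nat_lit 177) (nat_lit 5) (nat_lit 178) (nat_lit 5) (nat_lit 306) (nat_lit 300) (nat_lit 114)) (XT.nd (nat_lit 78) (nat_lit 0) (nat_lit 76)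 (XT.lf (nat_lit 76) (nat_lit 4961732380) (nat_lit 0) (nat_lit 14847541803) (nat_lit 1216) (nat_lit 71838767668) (nat_lit 163) (nat_lit 5) (nat_lit 162) (nat_lit 5) (nat_lit 178) (nat_lit 5) (nat_lit 307) (nat_lit 300) (nat_lit 113)) (XT.lf (nat_lit 0) (nat_lit 27273351890) (nat_lit 1140) (nat_lit 19463794603) (nat_lit 1216) (nat_lit 47383018225) (nat_lit 163) (nat_lit 5) (nat_lit 178) (nat_lit 5) (nat_lit 179) (nat_lit 5) (nat_lit 308) (nat_lit 300) (nat_lit 112))))) (XT.nd (nat_lit 234) (nat_lit 1064) (nat_lit 0) (XT.nd (nat_lit 78) (nat_lit 988) (nat_lit 0) (XT.lf (nat_lit 0) (nat_lit 35915367091) (nat_lit 1140) (nat_lit 44868618061) (nat_lit 1216) (nat_lit 15907768048) (nat_lit 164) (nat_lit 5) (nat_lit 179) (nat_lit 5) (nat_lit 180) (nat_lit 5) (nat_lit 309) (nat_lit 300) (nat_lit 111)) (XT.nd (nat_lit 78) (nat_lit 988) (nat_lit 0) (XT.lf (nat_lit 76) (nat_lit 27762660917) (nat_lit 0)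 (nat_lit 18167018290) (nat_lit 1216) (nat_lit 53434037422) (nat_lit 165) (nat_lit 5) (nat_lit 164) (nat_lit 5) (nat_lit 180) (nat_lit 5) (nat_lit 310) (nat_lit 300) (nat_lit 110)) (XT.lf (nat_lit 0) (nat_lit 2391808942) (nat_lit 1064) (nat_lit 54999001192) (nat_lit 1140) (nat_lit 44750086341) (nat_lit 151) (nat_lit 5) (nat_lit 165) (nat_lit 5) (nat_lit 166) (nat_lit 5) (nat_lit 311) (nat_lit 300) (nat_lit 109)))) (XT.nd (nat_lit 78) (nat_lit 1064) (nat_lit 0) (XT.lf (nat_lit 0) (nat_lit 70449161714) (nat_lit 1140) (nat_lit 23742664377) (nat_lit 76) (nat_lit 10834385576) (nat_lit 151) (nat_lit 5) (nat_lit 166) (nat_lit 5) (nat_lit 152) (nat_lit 5) (nat_lit 312) (nat_lit 300) (nat_lit 108)) (XT.nd (nat_lit 78) (nat_lit 532) (nat_lit 0) (XT.lf (nat_lit 0) (nat_lit 56613092341) (nat_lit 532) (nat_lit 28645998723) (nat_lit 608) (nat_lit 22763742964) (nat_lit 144) (nat_lit 5) (nat_lit 151) (nat_lit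 5) (nat_lit 152) (nat_lit 5) (nat_lit 313) (nat_lit 300) (nat_lit 107)) (XT.lf (nat_lit 0) (nat_lit 30527305990) (nat_lit 532) (nat_lit 71208063328) (nat_lit 608) (nat_lit 9406143776) (nat_lit 137) (nat_lit 5) (nat_lit 144) (nat_lit 5) (nat_lit 145) (nat_lit 5) (nat_lit 314) (nat_lit 300) (nat_lit 106)))))) (XT.nd (nat_lit 390) (nat_lit 0) (nat_lit 76) (XT.nd (nat_lit 156) (nat_lit 988) (nat_lit 0) (XT.nd (nat_lit 78) (nat_lit 0) (nat_lit 0) (XT.lf (nat_lit 0) (nat_lit 39287478865) (nat_lit 1140) (nat_lit 489022852) (nat_lit 1140) (nat_lit 489022852) (nat_lit 173) (nat_lit 3) (nat_lit 188) (nat_lit 3) (nat_lit 188) (nat_lit 5) (nat_lit 301) (nat_lit 301) (nat_lit 118)) (XT.lf (nat_lit 76) (nat_lit 57761009340) (nat_lit 0) (nat_lit 23348730206) (nat_lit 1140) (nat_lit 1417443219) (nat_lit 174) (nat_lit 5) (nat_lit 173) (nat_lit 3) (nat_lit 188) (nat_lit 5) (nat_lit 302) (nat_lit 301) (nat_lit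 117))) (XT.nd (nat_lit 78) (nat_lit 1064) (nat_lit 0) (XT.lf (nat_lit 76) (nat_lit 35177588210) (nat_lit 0) (nat_lit 49283857865) (nat_lit 1140) (nat_lit 140973373) (nat_lit 175) (nat_lit 5) (nat_lit 174) (nat_lit 5) (nat_lit 189) (nat_lit 5) (nat_lit 303) (nat_lit 301) (nat_lit 116)) (XT.nd (nat_lit 78) (nat_lit 0) (nat_lit 0) (XT.lf (nat_lit 0) (nat_lit 1878667637) (nat_lit 1140) (nat_lit 75016465169) (nat_lit 1216) (nat_lit 9864858574) (nat_lit 160) (nat_lit 5) (nat_lit 175) (nat_lit 5) (nat_lit 176) (nat_lit 5) (nat_lit 304) (nat_lit 301) (nat_lit 115)) (XT.lf (nat_lit 0) (nat_lit 5006760273) (nat_lit 1140) (nat_lit 12511505699) (nat_lit 1216) (nat_lit 71476824224) (nat_lit 160) (nat_lit 5) (nat_lit 175) (nat_lit 5) (nat_lit 176) (nat_lit 5) (nat_lit 305) (nat_lit 301) (nat_lit 114))))) (XT.nd (nat_lit 234) (nat_lit 0) (nat_lit 152) (XT.nd (nat_lit 78) (nat_lit 0) (nat_lit 76) (XT.lf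 (nat_lit 0) (nat_lit 9247236137) (nat_lit 1140) (nat_lit 37587100061) (nat_lit 1216) (nat_lit 44478930028) (nat_lit 161) (nat_lit 5) (nat_lit 176) (nat_lit 5) (nat_lit 177) (nat_lit 5) (nat_lit 306) (nat_lit 301) (nat_lit 113)) (XT.nd (nat_lit 78) (nat_lit 0) (nat_lit 0) (XT.lf (nat_lit 0) (nat_lit 14449068678) (nat_lit 1140) (nat_lit 63677940879) (nat_lit 1216) (nat_lit 15597863065) (nat_lit 162) (nat_lit 5) (nat_lit 177) (nat_lit 5) (nat_lit 178) (nat_lit 5) (nat_lit 307) (nat_lit 301) (nat_lit 112)) (XT.lf (nat_lit 76) (nat_lit 5227574933) (nat_lit 0) (nat_lit 15596354825) (nat_lit 1216) (nat_lit 75405742951) (nat_lit 163) (nat_lit 5) (nat_lit 162) (nat_lit 5) (nat_lit 178) (nat_lit 5) (nat_lit 308) (nat_lit 301) (nat_lit 111)))) (XT.nd (nat_lit 78) (nat_lit 0) (nat_lit 76) (XT.lf (nat_lit 0) (nat_lit 28660000437) (nat_lit 1140) (nat_lit 20419280491) (nat_lit 1216) (nat_lit 49746159286)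 (nat_lit 163) (nat_lit 5) (nat_lit 178) (nat_lit 5) (nat_lit 179) (nat_lit 5) (nat_lit 309) (nat_lit 301) (nat_lit 110)) (XT.nd (nat_lit 78) (nat_lit 0) (nat_lit 0) (XT.lf (nat_lit 0) (nat_lit 37733140694) (nat_lit 1140) (nat_lit 47094103116) (nat_lit 1216) (nat_lit 16698395643) (nat_lit 164) (nat_lit 5) (nat_lit 179) (nat_lit 5) (nat_lit 180) (nat_lit 5) (nat_lit 310) (nat_lit 301) (nat_lit 109)) (XT.lf (nat_lit 76) (nat_lit 29168225397) (nat_lit 0) (nat_lit 19079062712) (nat_lit 1216) (nat_lit 56083941318) (nat_lit 165) (nat_lit 5) (nat_lit 164) (nat_lit 5) (nat_lit 180) (nat_lit 5) (nat_lit 311) (nat_lit 301) (nat_lit 108))))))))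
noncomputable def xc127 : XT := (XT.nd (nat_lit 74958) (nat_lit 0) (nat_lit 684) (XT.nd (nat_lit 37440) (nat_lit 0) (nat_lit 0) (XT.nd (nat_lit 36972) (nat_lit 0) (nat_lit 684) (XT.nd (nat_lit 36738) (nat_lit 0) (nat_lit 1672) (XT.nd (nat_lit 78) (nat_lit 0) (nat_lit 0) (XT.lf (nat_lit 0) (nat_lit 2529019383) (nat_lit 1064) (nat_lit 57751585810) (nat_lit 1140) (nat_lit 46966691054) (nat_lit 151) (nat_lit 5) (nat_lit 165) (nat_lit 5) (nat_lit 166) (nat_lit 5) (nat_lit 312) (nat_lit 301) (nat_lit 107)) (XT.lf (nat_lit 0) (nat_lit 73990885730) (nat_lit 1140) (nat_lit 24912378195) (nat_lit 76) (nat_lit 11373644713) (nat_lit 151) (nat_lit 5) (nat_lit 166) (nat_lit 5) (nat_lit 152) (nat_lit 5) (nat_lit 313) (nat_lit 301) (nat_lit 106))) (XT.nd (nat_lit 78) (nat_lit 0) (nat_lit 0) (XT.lf (nat_lit 0) (nat_lit 41266789620) (nat_lit 1140) (nat_lit 505766590) (nat_lit 1140) (nat_lit 505766590) (nat_lit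 173) (nat_lit 3) (nat_lit 188) (nat_lit 3) (nat_lit 188) (nat_lit 5) (nat_lit 302) (nat_lit 302) (nat_lit 116)) (XT.nd (nat_lit 78) (nat_lit 0) (nat_lit 76) (XT.lf (nat_lit 76) (nat_lit 60664032754) (nat_lit 0) (nat_lit 24529788770) (nat_lit 1140) (nat_lit 1458805591) (nat_lit 174) (nat_lit 5) (nat_lit 173) (nat_lit 3) (nat_lit 188) (nat_lit 5) (nat_lit 303) (nat_lit 302) (nat_lit 115)) (XT.lf (nat_lit 76) (nat_lit 36952027126) (nat_lit 0) (nat_lit 51759749445) (nat_lit 1140) (nat_lit 119891876) (nat_lit 175) (nat_lit 5) (nat_lit 174) (nat_lit 5) (nat_lit 189) (nat_lit 5) (nat_lit 304) (nat_lit 302) (nat_lit 114))))) (XT.nd (nat_lit 234) (nat_lit 0) (nat_lit 152) (XT.nd (nat_lit 78) (nat_lit 0) (nat_lit 0) (XT.lf (nat_lit 0) (nat_lit 1998916713) (nat_lit 1140) (nat_lit 78750644849) (nat_lit 1216) (nat_lit 10347589778) (nat_lit 160) (nat_lit 5) (nat_lit 175) (nat_lit 5) (nat_lit 176) (nat_lit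 5) (nat_lit 305) (nat_lit 302) (nat_lit 113)) (XT.nd (nat_lit 78) (nat_lit 0) (nat_lit 76) (XT.lf (nat_lit 0) (nat_lit 5282160852) (nat_lit 1140) (nat_lit 13121229957) (nat_lit 1216) (nat_lit 75040654269) (nat_lit 160) (nat_lit 5) (nat_lit 175) (nat_lit 5) (nat_lit 176) (nat_lit 5) (nat_lit 306) (nat_lit 302) (nat_lit 112)) (XT.lf (nat_lit 0) (nat_lit 9733532190) (nat_lit 1140) (nat_lit 39450209546) (nat_lit 1216) (nat_lit 46694424295) (nat_lit 161) (nat_lit 5) (nat_lit 176) (nat_lit 5) (nat_lit 177) (nat_lit 5) (nat_lit 307) (nat_lit 302) (nat_lit 111)))) (XT.nd (nat_lit 78) (nat_lit 0) (nat_lit 0) (XT.lf (nat_lit 0) (nat_lit 15194399431) (nat_lit 1140) (nat_lit 66845257493) (nat_lit 1216) (nat_lit 16370729697) (nat_lit 162) (nat_lit 5) (nat_lit 177) (nat_lit 5) (nat_lit 178) (nat_lit 5) (nat_lit 308) (nat_lit 302) (nat_lit 110)) (XT.nd (nat_lit 78) (nat_lit 0) (nat_lit 76) (XT.lf (nat_lit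 76) (nat_lit 5505058835) (nat_lit 0) (nat_lit 16382010146) (nat_lit 1216) (nat_lit 79153387831) (nat_lit 163) (nat_lit 5) (nat_lit 162) (nat_lit 5) (nat_lit 178) (nat_lit 5) (nat_lit 309) (nat_lit 302) (nat_lit 109)) (XT.lf (nat_lit 0) (nat_lit 30113844859) (nat_lit 1140) (nat_lit 21424186609) (nat_lit 1216) (nat_lit 52228016138) (nat_lit 163) (nat_lit 5) (nat_lit 178) (nat_lit 5) (nat_lit 179) (nat_lit 5) (nat_lit 310) (nat_lit 302) (nat_lit 108)))))) (XT.nd (nat_lit 37050) (nat_lit 0) (nat_lit 684) (XT.nd (nat_lit 156) (nat_lit 988) (nat_lit 0) (XT.nd (nat_lit 78) (nat_lit 0) (nat_lit 0) (XT.lf (nat_lit 0) (nat_lit 39639757137) (nat_lit 1140) (nat_lit 49432530859) (nat_lit 1216) (nat_lit 17528997232) (nat_lit 164) (nat_lit 5) (nat_lit 179) (nat_lit 5) (nat_lit 180) (nat_lit 5) (nat_lit 311) (nat_lit 302) (nat_lit 107)) (XT.lf (nat_lit 76) (nat_lit 30642447491) (nat_lit 0) (nat_lit 20036365967)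 (nat_lit 1216) (nat_lit 58868366978) (nat_lit 165) (nat_lit 5) (nat_lit 164) (nat_lit 5) (nat_lit 180) (nat_lit 5) (nat_lit 312) (nat_lit 302) (nat_lit 106))) (XT.nd (nat_lit 36738) (nat_lit 0) (nat_lit 1672) (XT.lf (nat_lit 0) (nat_lit 2671452206) (nat_lit 1064) (nat_lit 60641554722) (nat_lit 1140) (nat_lit 49296069050) (nat_lit 151) (nat_lit 5) (nat_lit 165) (nat_lit 5) (nat_lit 166) (nat_lit 5) (nat_lit 313) (nat_lit 302) (nat_lit 105)) (XT.nd (nat_lit 78) (nat_lit 0) (nat_lit 0) (XT.lf (nat_lit 0) (nat_lit 43343677231) (nat_lit 1140) (nat_lit 524064076) (nat_lit 1140) (nat_lit 524064076) (nat_lit 173) (nat_lit 3) (nat_lit 188) (nat_lit 3) (nat_lit 188) (nat_lit 5) (nat_lit 303) (nat_lit 303) (nat_lit 114)) (XT.lf (nat_lit 76) (nat_lit 63710815296) (nat_lit 0) (nat_lit 25768633813) (nat_lit 1140) (nat_lit 1504979622) (nat_lit 174) (nat_lit 5) (nat_lit 173) (nat_lit 3) (nat_lit 188) (nat_lit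 5) (nat_lit 304) (nat_lit 303) (nat_lit 113))))) (XT.nd (nat_lit 234) (nat_lit 0) (nat_lit 76) (XT.nd (nat_lit 78) (nat_lit 1064) (nat_lit 0) (XT.lf (nat_lit 76) (nat_lit 38813741414) (nat_lit 0) (nat_lit 54358347971) (nat_lit 1140) (nat_lit 100371580) (nat_lit 175) (nat_lit 5) (nat_lit 174) (nat_lit 5) (nat_lit 189) (nat_lit 5) (nat_lit 305) (nat_lit 303) (nat_lit 112)) (XT.nd (nat_lit 78) (nat_lit 0) (nat_lit 0) (XT.lf (nat_lit 0) (nat_lit 2122731658) (nat_lit 1140) (nat_lit 82673080875) (nat_lit 1216) (nat_lit 10855434822) (nat_lit 160) (nat_lit 5) (nat_lit 175) (nat_lit 5) (nat_lit 176) (nat_lit 5) (nat_lit 306) (nat_lit 303) (nat_lit 111)) (XT.lf (nat_lit 0) (nat_lit 5569001379) (nat_lit 1140) (nat_lit 13762914105) (nat_lit 1216) (nat_lit 78783606559) (nat_lit 160) (nat_lit 5) (nat_lit 175) (nat_lit 5) (nat_lit 176) (nat_lit 5) (nat_lit 307) (nat_lit 303) (nat_lit 110)))) (XT.nd (nat_lit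 78) (nat_lit 0) (nat_lit 76) (XT.lf (nat_lit 0) (nat_lit 10241917867) (nat_lit 1140) (nat_lit 41407984860) (nat_lit 1216) (nat_lit 49021479084) (nat_lit 161) (nat_lit 5) (nat_lit 176) (nat_lit 5) (nat_lit 177) (nat_lit 5) (nat_lit 308) (nat_lit 303) (nat_lit 109)) (XT.nd (nat_lit 78) (nat_lit 0) (nat_lit 0) (XT.lf (nat_lit 0) (nat_lit 15974869805) (nat_lit 1140) (nat_lit 70172481429) (nat_lit 1216) (nat_lit 17182892920) (nat_lit 162) (nat_lit 5) (nat_lit 177) (nat_lit 5) (nat_lit 178) (nat_lit 5) (nat_lit 309) (nat_lit 303) (nat_lit 108)) (XT.lf (nat_lit 76) (nat_lit 5794919628) (nat_lit 0) (nat_lit 17206405510) (nat_lit 1216) (nat_lit 83090520019) (nat_lit 163) (nat_lit 5) (nat_lit 162) (nat_lit 5) (nat_lit 178) (nat_lit 5) (nat_lit 310) (nat_lit 303) (nat_lit 107))))))) (XT.nd (nat_lit 74646) (nat_lit 0) (nat_lit 0) (XT.nd (nat_lit 37206) (nat_lit 228) (nat_lit 0) (XT.nd (nat_lit 36972)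 (nat_lit 0) (nat_lit 760) (XT.nd (nat_lit 78) (nat_lit 0) (nat_lit 76) (XT.lf (nat_lit 0) (nat_lit 31638443588) (nat_lit 1140) (nat_lit 22480830944) (nat_lit 1216) (nat_lit 54834472626) (nat_lit 163) (nat_lit 5) (nat_lit 178) (nat_lit 5) (nat_lit 179) (nat_lit 5) (nat_lit 311) (nat_lit 303) (nat_lit 106)) (XT.lf (nat_lit 0) (nat_lit 41639848766) (nat_lit 1140) (nat_lit 51889393308) (nat_lit 1216) (nat_lit 18401530365) (nat_lit 164) (nat_lit 5) (nat_lit 179) (nat_lit 5) (nat_lit 180) (nat_lit 5) (nat_lit 312) (nat_lit 303) (nat_lit 105))) (XT.nd (nat_lit 78) (nat_lit 0) (nat_lit 0) (XT.lf (nat_lit 0) (nat_lit 45523149645) (nat_lit 1140) (nat_lit 543926379) (nat_lit 1140) (nat_lit 543926379) (nat_lit 173) (nat_lit 3) (nat_lit 188) (nat_lit 3) (nat_lit 188) (nat_lit 5) (nat_lit 304) (nat_lit 304) (nat_lit 112)) (XT.nd (nat_lit 78) (nat_lit 0) (nat_lit 76) (XT.lf (nat_lit 76) (nat_lit 66908674341)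 (nat_lit 0) (nat_lit 27068272401) (nat_lit 1140) (nat_lit 1555950827) (nat_lit 174) (nat_lit 5) (nat_lit 173) (nat_lit 3) (nat_lit 188) (nat_lit 5) (nat_lit 305) (nat_lit 304) (nat_lit 111)) (XT.lf (nat_lit 76) (nat_lit 40767229328) (nat_lit 0) (nat_lit 57085889909) (nat_lit 1140) (nat_lit 82247402) (nat_lit 175) (nat_lit 5) (nat_lit 174) (nat_lit 5) (nat_lit 189) (nat_lit 5) (nat_lit 306) (nat_lit 304) (nat_lit 110))))) (XT.nd (nat_lit 234) (nat_lit 0) (nat_lit 152) (XT.nd (nat_lit 78) (nat_lit 0) (nat_lit 0) (XT.lf (nat_lit 0) (nat_lit 2250518226) (nat_lit 1140) (nat_lit 86793042205) (nat_lit 1216) (nat_lit 11389558541) (nat_lit 160) (nat_lit 5) (nat_lit 175) (nat_lit 5) (nat_lit 176) (nat_lit 5) (nat_lit 307) (nat_lit 304) (nat_lit 109)) (XT.nd (nat_lit 78) (nat_lit 0) (nat_lit 76) (XT.lf (nat_lit 0) (nat_lit 5868070483) (nat_lit 1140) (nat_lit 14438019131) (nat_lit 1216) (nat_lit 82714550675)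 (nat_lit 160) (nat_lit 5) (nat_lit 175) (nat_lit 5) (nat_lit 176) (nat_lit 5) (nat_lit 308) (nat_lit 304) (nat_lit 108)) (XT.lf (nat_lit 0) (nat_lit 10773704524) (nat_lit 1140) (nat_lit 43465018875) (nat_lit 1216) (nat_lit 51465599364) (nat_lit 161) (nat_lit 5) (nat_lit 176) (nat_lit 5) (nat_lit 177) (nat_lit 5) (nat_lit 309) (nat_lit 304) (nat_lit 107)))) (XT.nd (nat_lit 78) (nat_lit 0) (nat_lit 0) (XT.lf (nat_lit 0) (nat_lit 16792434521) (nat_lit 1140) (nat_lit 73667464739) (nat_lit 1216) (nat_lit 18036256830) (nat_lit 162) (nat_lit 5) (nat_lit 177) (nat_lit 5) (nat_lit 178) (nat_lit 5) (nat_lit 310) (nat_lit 304) (nat_lit 106)) (XT.nd (nat_lit 37050) (nat_lit 0) (nat_lit 836) (XT.lf (nat_lit 76) (nat_lit 6097915360) (nat_lit 0) (nat_lit 18071528377) (nat_lit 1216) (nat_lit 87226418170) (nat_lit 163) (nat_lit 5) (nat_lit 162) (nat_lit 5) (nat_lit 178) (nat_lit 5) (nat_lit 311) (nat_lit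 304) (nat_lit 105)) (XT.lf (nat_lit 0) (nat_lit 47810453207) (nat_lit 1140) (nat_lit 565371314) (nat_lit 1140) (nat_lit 565371314) (nat_lit 173) (nat_lit 3) (nat_lit 188) (nat_lit 3) (nat_lit 188) (nat_lit 5) (nat_lit 305) (nat_lit 305) (nat_lit 110)))))) (XT.nd (nat_lit 37596) (nat_lit 0) (nat_lit 0) (XT.nd (nat_lit 234) (nat_lit 0) (nat_lit 0) (XT.nd (nat_lit 78) (nat_lit 988) (nat_lit 0) (XT.lf (nat_lit 76) (nat_lit 70265281102) (nat_lit 0) (nat_lit 28431851008) (nat_lit 1140) (nat_lit 1611727710) (nat_lit 174) (nat_lit 5) (nat_lit 173) (nat_lit 3) (nat_lit 188) (nat_lit 5) (nat_lit 306) (nat_lit 305) (nat_lit 109)) (XT.nd (nat_lit 78) (nat_lit 1064) (nat_lit 0) (XT.lf (nat_lit 76) (nat_lit 42817201538) (nat_lit 0) (nat_lit 59948914145) (nat_lit 1140) (nat_lit 65368609) (nat_lit 175) (nat_lit 5) (nat_lit 174) (nat_lit 5) (nat_lit 189) (nat_lit 5) (nat_lit 307) (nat_lit 305) (nat_lit 108))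 (XT.lf (nat_lit 0) (nat_lit 2382681313) (nat_lit 1140) (nat_lit 91120274620) (nat_lit 1216) (nat_lit 11951192457) (nat_lit 160) (nat_lit 5) (nat_lit 175) (nat_lit 5) (nat_lit 176) (nat_lit 5) (nat_lit 308) (nat_lit 305) (nat_lit 107)))) (XT.nd (nat_lit 78) (nat_lit 0) (nat_lit 76) (XT.lf (nat_lit 0) (nat_lit 6180176078) (nat_lit 1140) (nat_lit 15148091807) (nat_lit 1216) (nat_lit 86842807722) (nat_lit 160) (nat_lit 5) (nat_lit 175) (nat_lit 5) (nat_lit 176) (nat_lit 5) (nat_lit 309) (nat_lit 305) (nat_lit 106)) (XT.nd (nat_lit 37206) (nat_lit 0) (nat_lit 912) (XT.lf (nat_lit 0) (nat_lit 11330249854) (nat_lit 1140) (nat_lit 45626147163) (nat_lit 1216) (nat_lit 54032572144) (nat_lit 161) (nat_lit 5) (nat_lit 176) (nat_lit 5) (nat_lit 177) (nat_lit 5) (nat_lit 310) (nat_lit 305) (nat_lit 105)) (XT.lf (nat_lit 0) (nat_lit 50211085690) (nat_lit 1140) (nat_lit 588423205) (nat_lit 1140) (nat_lit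 588423205) (nat_lit 173) (nat_lit 3) (nat_lit 188) (nat_lit 3) (nat_lit 188) (nat_lit 5) (nat_lit 306) (nat_lit 306) (nat_lit 108))))) (XT.nd (nat_lit 234) (nat_lit 0) (nat_lit 0) (XT.nd (nat_lit 78) (nat_lit 988) (nat_lit 0) (XT.lf (nat_lit 76) (nat_lit 73788679437) (nat_lit 0) (nat_lit 29862663500) (nat_lit 1140) (nat_lit 1672340709) (nat_lit 174) (nat_lit 5) (nat_lit 173) (nat_lit 3) (nat_lit 188) (nat_lit 5) (nat_lit 307) (nat_lit 306) (nat_lit 107)) (XT.nd (nat_lit 78) (nat_lit 1064) (nat_lit 0) (XT.lf (nat_lit 76) (nat_lit 44968592901) (nat_lit 0) (nat_lit 62954277984) (nat_lit 1140) (nat_lit 49597436) (nat_lit 175) (nat_lit 5) (nat_lit 174) (nat_lit 5) (nat_lit 189) (nat_lit 5) (nat_lit 308) (nat_lit 306) (nat_lit 106)) (XT.lf (nat_lit 0) (nat_lit 2519626876) (nat_lit 1140) (nat_lit 95665023322) (nat_lit 1216) (nat_lit 12541637330) (nat_lit 160) (nat_lit 5) (nat_lit 175) (nat_lit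 5) (nat_lit 176) (nat_lit 5) (nat_lit 309) (nat_lit 306) (nat_lit 105)))) (XT.nd (nat_lit 37362) (nat_lit 0) (nat_lit 988) (XT.lf (nat_lit 0) (nat_lit 6506148213) (nat_lit 1140) (nat_lit 15894767798) (nat_lit 1216) (nat_lit 91178172157) (nat_lit 160) (nat_lit 5) (nat_lit 175) (nat_lit 5) (nat_lit 176) (nat_lit 5) (nat_lit 310) (nat_lit 306) (nat_lit 104)) (XT.nd (nat_lit 78) (nat_lit 0) (nat_lit 76) (XT.lf (nat_lit 76) (nat_lit 77487305499) (nat_lit 0) (nat_lit 31364159435) (nat_lit 1140) (nat_lit 1737841295) (nat_lit 174) (nat_lit 5) (nat_lit 173) (nat_lit 3) (nat_lit 188) (nat_lit 5) (nat_lit 308) (nat_lit 307) (nat_lit 105)) (XT.lf (nat_lit 76) (nat_lit 47226574733) (nat_lit 0) (nat_lit 66109173863) (nat_lit 1140) (nat_lit 34807827) (nat_lit 175) (nat_lit 5) (nat_lit 174) (nat_lit 5) (nat_lit 189) (nat_lit 5) (nat_lit 309) (nat_lit 307) (nat_lit 104))))))))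

set_option maxRecDepth 10000000 in
noncomputable def Tp : PT := (PT.nd (nat_lit 4623762) (PT.nd (nat_lit 4286334) (PT.nd (nat_lit 3949374) (PT.nd (nat_lit 3686904) pc0 pc1) (PT.nd (nat_lit 187278) pc2 pc3)) (PT.nd (nat_lit 187746) (PT.nd (nat_lit 112242) pc4 pc5) (PT.nd (nat_lit 75114) pc6 pc7))) (PT.nd (nat_lit 223704) (PT.nd (nat_lit 112476) (PT.nd (nat_lit 38688) pc8 pc9) (PT.nd (nat_lit 38298) pc10 pc11)) (PT.nd (nat_lit 77766) (PT.nd (nat_lit 37830) pc12 pc13) (PT.nd (nat_lit 112476) pc14 pc15))))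

set_option maxRecDepth 10000000 in
noncomputable def Tx : XT := (XT.nd (nat_lit 7267104) (nat_lit 0) (nat_lit 152) XT.nil (XT.nd (nat_lit 4275102) (nat_lit 0) (nat_lit 0) (XT.nd (nat_lit 2019810) (nat_lit 0) (nat_lit 380) (XT.nd (nat_lit 1384890) (nat_lit 0) (nat_lit 76) (XT.nd (nat_lit 971802) (nat_lit 0) (nat_lit 0) (XT.nd (nat_lit 672672) (nat_lit 0) (nat_lit 0) (XT.nd (nat_lit 449124) (nat_lit 0) (nat_lit 0) (XT.nd (nat_lit 299520) (nat_lit 0) (nat_lit 0) (XT.nd (nat_lit 187512) (nat_lit 0) (nat_lit 0) xc0 xc1) (XT.nd (nat_lit 75036) (nat_lit 0) (nat_lit 0) xc2 xc3)) (XT.nd (nat_lit 112476) (nat_lit 0) (nat_lit 0) (XT.nd (nat_lit 73944) (nat_lit 0) (nat_lit 0) xc4 xc5) (XT.nd (nat_lit 38298) (nat_lit 0) (nat_lit 0) xc6 xc7))) (XT.nd (nat_lit 150774) (nat_lit 0) (nat_lit 0) (XT.nd (nat_lit 75660) (nat_lit 0) (nat_lit 0) (XT.nd (nat_lit 37908) (nat_lit 0) (nat_lit 0) xc8 xc9) (XT.nd (nat_lit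 37596) (nat_lit 0) (nat_lit 0) xc10 xc11)) (XT.nd (nat_lit 74490) (nat_lit 0) (nat_lit 0) (XT.nd (nat_lit 37284) (nat_lit 0) (nat_lit 0) xc12 xc13) (XT.nd (nat_lit 36972) (nat_lit 0) (nat_lit 0) xc14 xc15)))) (XT.nd (nat_lit 224796) (nat_lit 0) (nat_lit 76) (XT.nd (nat_lit 113022) (nat_lit 0) (nat_lit 76) (XT.nd (nat_lit 40092) (nat_lit 0) (nat_lit 0) (XT.nd (nat_lit 3432) (nat_lit 76) (nat_lit 0) xc16 xc17) (XT.nd (nat_lit 36504) (nat_lit 0) (nat_lit 76) xc18 xc19)) (XT.nd (nat_lit 39702) (nat_lit 0) (nat_lit 0) (XT.nd (nat_lit 36192) (nat_lit 0) (nat_lit 152) xc20 xc21) (XT.nd (nat_lit 36036) (nat_lit 0) (nat_lit 0) xc22 xc23))) (XT.nd (nat_lit 78468) (nat_lit 0) (nat_lit 0) (XT.nd (nat_lit 39312) (nat_lit 0) (nat_lit 0) (XT.nd (nat_lit 3432) (nat_lit 0) (nat_lit 0) xc24 xc25) (XT.nd (nat_lit 35646) (nat_lit 0) (nat_lit 76) xc26 xc27)) (XT.nd (nat_lit 71058) (nat_lit 0) (nat_lit 0) (XT.nd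 (nat_lit 35568) (nat_lit 0) (nat_lit 0) xc28 xc29) (XT.nd (nat_lit 3432) (nat_lit 228) (nat_lit 0) xc30 xc31))))) (XT.nd (nat_lit 334542) (nat_lit 0) (nat_lit 152) (XT.nd (nat_lit 184236) (nat_lit 0) (nat_lit 76) (XT.nd (nat_lit 76986) (nat_lit 0) (nat_lit 0) (XT.nd (nat_lit 38532) (nat_lit 0) (nat_lit 0) (XT.nd (nat_lit 35100) (nat_lit 0) (nat_lit 684) xc32 xc33) (XT.nd (nat_lit 34944) (nat_lit 0) (nat_lit 304) xc34 xc35)) (XT.nd (nat_lit 38220) (nat_lit 0) (nat_lit 0) (XT.nd (nat_lit 34710) (nat_lit 0) (nat_lit 152) xc36 xc37) (XT.nd (nat_lit 34554) (nat_lit 0) (nat_lit 76) xc38 xc39))) (XT.nd (nat_lit 75348) (nat_lit 0) (nat_lit 76) (XT.nd (nat_lit 37674) (nat_lit 0) (nat_lit 76) (XT.nd (nat_lit 3432) (nat_lit 1444) (nat_lit 0) xc40 xc41) (XT.nd (nat_lit 3432) (nat_lit 1216) (nat_lit 0) xc42 xc43)) (XT.nd (nat_lit 37518) (nat_lit 0) (nat_lit 0) (XT.nd (nat_lit 3432) (nat_lit 1216) (nat_lit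 0) xc44 xc45) (XT.nd (nat_lit 3432) (nat_lit 1216) (nat_lit 0) xc46 xc47)))) (XT.nd (nat_lit 149526) (nat_lit 0) (nat_lit 76) (XT.nd (nat_lit 74568) (nat_lit 0) (nat_lit 76) (XT.nd (nat_lit 37206) (nat_lit 0) (nat_lit 76) (XT.nd (nat_lit 3432) (nat_lit 1368) (nat_lit 0) xc48 xc49) (XT.nd (nat_lit 3432) (nat_lit 1672) (nat_lit 0) xc50 xc51)) (XT.nd (nat_lit 37440) (nat_lit 0) (nat_lit 0) (XT.nd (nat_lit 3432) (nat_lit 2052) (nat_lit 0) xc52 xc53) (XT.nd (nat_lit 3432) (nat_lit 2204) (nat_lit 0) xc54 xc55))) (XT.nd (nat_lit 75270) (nat_lit 0) (nat_lit 0) (XT.nd (nat_lit 37596) (nat_lit 0) (nat_lit 0) (XT.nd (nat_lit 3432) (nat_lit 2508) (nat_lit 0) xc56 xc57) (XT.nd (nat_lit 3432) (nat_lit 2508) (nat_lit 0) xc58 xc59)) (XT.nd (nat_lit 37752) (nat_lit 0) (nat_lit 76) (XT.nd (nat_lit 3432) (nat_lit 2204) (nat_lit 0) xc60 xc61) (XT.nd (nat_lit 3432) (nat_lit 1976) (nat_lit 0) xc62 xc63))))))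 (XT.nd (nat_lit 715494) (nat_lit 0) (nat_lit 760) (XT.nd (nat_lit 337740) (nat_lit 0) (nat_lit 228) (XT.nd (nat_lit 152334) (nat_lit 0) (nat_lit 152) (XT.nd (nat_lit 75972) (nat_lit 0) (nat_lit 76) (XT.nd (nat_lit 37908) (nat_lit 0) (nat_lit 76) (XT.nd (nat_lit 3432) (nat_lit 1596) (nat_lit 0) xc64 xc65) (XT.nd (nat_lit 3432) (nat_lit 1140) (nat_lit 0) xc66 xc67)) (XT.nd (nat_lit 38142) (nat_lit 0) (nat_lit 0) (XT.nd (nat_lit 3432) (nat_lit 684) (nat_lit 0) xc68 xc69) (XT.nd (nat_lit 3432) (nat_lit 304) (nat_lit 0) xc70 xc71))) (XT.nd (nat_lit 76596) (nat_lit 0) (nat_lit 0) (XT.nd (nat_lit 38220) (nat_lit 0) (nat_lit 0) (XT.nd (nat_lit 3432) (nat_lit 0) (nat_lit 0) xc72 xc73) (XT.nd (nat_lit 34866) (nat_lit 0) (nat_lit 1444) xc74 xc75)) (XT.nd (nat_lit 38454) (nat_lit 0) (nat_lit 76) (XT.nd (nat_lit 34944) (nat_lit 0) (nat_lit 608) xc76 xc77) (XT.nd (nat_lit 35100) (nat_lit 0) (nat_lit 0)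 xc78 xc79)))) (XT.nd (nat_lit 155454) (nat_lit 0) (nat_lit 228) (XT.nd (nat_lit 77532) (nat_lit 0) (nat_lit 152) (XT.nd (nat_lit 38688) (nat_lit 0) (nat_lit 152) (XT.nd (nat_lit 3432) (nat_lit 2204) (nat_lit 0) xc80 xc81) (XT.nd (nat_lit 3432) (nat_lit 684) (nat_lit 0) xc82 xc83)) (XT.nd (nat_lit 38922) (nat_lit 0) (nat_lit 0) (XT.nd (nat_lit 35412) (nat_lit 0) (nat_lit 1596) xc84 xc85) (XT.nd (nat_lit 35490) (nat_lit 0) (nat_lit 304) xc86 xc87))) (XT.nd (nat_lit 110760) (nat_lit 0) (nat_lit 228) (XT.nd (nat_lit 71448) (nat_lit 0) (nat_lit 0) (XT.nd (nat_lit 35646) (nat_lit 0) (nat_lit 0) xc88 xc89) (XT.nd (nat_lit 3432) (nat_lit 304) (nat_lit 0) xc90 xc91)) (XT.nd (nat_lit 39390) (nat_lit 0) (nat_lit 0) (XT.nd (nat_lit 35880) (nat_lit 0) (nat_lit 76) xc92 xc93) (XT.nd (nat_lit 35958) (nat_lit 0) (nat_lit 76) xc94 xc95))))) (XT.nd (nat_lit 488826) (nat_lit 0) (nat_lit 1368) (XT.nd (nat_lit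 225654) (nat_lit 0) (nat_lit 608) (XT.nd (nat_lit 112320) (nat_lit 0) (nat_lit 304) (XT.nd (nat_lit 39624) (nat_lit 0) (nat_lit 152) (XT.nd (nat_lit 36192) (nat_lit 0) (nat_lit 988) xc96 xc97) (XT.nd (nat_lit 36270) (nat_lit 0) (nat_lit 76) xc98 xc99)) (XT.nd (nat_lit 40014) (nat_lit 0) (nat_lit 152) (XT.nd (nat_lit 36504) (nat_lit 0) (nat_lit 912) xc100 xc101) (XT.nd (nat_lit 36582) (nat_lit 0) (nat_lit 0) xc102 xc103))) (XT.nd (nat_lit 114192) (nat_lit 0) (nat_lit 380) (XT.nd (nat_lit 73710) (nat_lit 0) (nat_lit 228) (XT.nd (nat_lit 36738) (nat_lit 0) (nat_lit 228) xc104 xc105) (XT.nd (nat_lit 3432) (nat_lit 152) (nat_lit 0) xc106 xc107)) (XT.nd (nat_lit 74256) (nat_lit 0) (nat_lit 228) (XT.nd (nat_lit 37050) (nat_lit 0) (nat_lit 0) xc108 xc109) (XT.nd (nat_lit 37284) (nat_lit 0) (nat_lit 152) xc110 xc111)))) (XT.nd (nat_lit 337740) (nat_lit 0) (nat_lit 2280) (XT.nd (nat_lit 150540) (nat_lit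 0) (nat_lit 988) (XT.nd (nat_lit 75036) (nat_lit 0) (nat_lit 456) (XT.nd (nat_lit 37440) (nat_lit 0) (nat_lit 456) xc112 xc113) (XT.nd (nat_lit 37674) (nat_lit 0) (nat_lit 228) xc114 xc115)) (XT.nd (nat_lit 75972) (nat_lit 0) (nat_lit 456) (XT.nd (nat_lit 37908) (nat_lit 0) (nat_lit 228) xc116 xc117) (XT.nd (nat_lit 72852) (nat_lit 0) (nat_lit 532) xc118 xc119))) (XT.nd (nat_lit 225576) (nat_lit 0) (nat_lit 2128) (XT.nd (nat_lit 112320) (nat_lit 0) (nat_lit 988) (XT.nd (nat_lit 38454) (nat_lit 0) (nat_lit 304) xc120 xc121) (XT.nd (nat_lit 38766) (nat_lit 0) (nat_lit 380) xc122 xc123)) (XT.nd (nat_lit 150384) (nat_lit 0) (nat_lit 2204) (XT.nd (nat_lit 74880) (nat_lit 0) (nat_lit 1292) xc124 xc125) (XT.nd (nat_lit 112320) (nat_lit 0) (nat_lit 2204) xc126 xc127))))))) XT.nil))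

set_option maxRecDepth 10000000 in
noncomputable def Te : XT := XT.nil

set_option maxRecDepth 10000000 in
noncomputable def Tz : ZL := (ZL.cons (nat_lit 76) (nat_lit 3) (nat_lit 91973545313484061020) (ZL.cons (nat_lit 152) (nat_lit 6) (nat_lit 180037559808890249798) (ZL.cons (nat_lit 228) (nat_lit 6) (nat_lit 176345288470896561830) (ZL.cons (nat_lit 304) (nat_lit 3) (nat_lit 88071976913256066796) (ZL.cons (nat_lit 380) (nat_lit 6) (nat_lit 172468403566003189466) (ZL.cons (nat_lit 456) (nat_lit 6) (nat_lit 169002157717219348504) (ZL.cons (nat_lit 532) (nat_lit 3) (nat_lit 84405205218426613186) (ZL.cons (nat_lit 608) (nat_lit 6) (nat_lit 165362599575996315494) (ZL.cons (nat_lit 684) (nat_lit 6) (nat_lit 162116761909954226092) (ZL.cons (nat_lit 760) (nat_lit 3) (nat_lit 80967072726231340602) (ZL.cons (nat_lit 836) (nat_lit 6) (nat_lit 158708632360610032220) (ZL.cons (nat_lit 912) (nat_lit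 6) (nat_lit 155678380507362528902) (ZL.cons (nat_lit 988) (nat_lit 3) (nat_lit 77752230035828147838) (ZL.cons (nat_lit 1064) (nat_lit 6) (nat_lit 152836175007355296240) (ZL.cons (nat_lit 1140) (nat_lit 6) (nat_lit 152496616061452650416) (ZL.cons (nat_lit 1216) (nat_lit 6) (nat_lit 149677938796641468720) (ZL.cons (nat_lit 1292) (nat_lit 3) (nat_lit 74756150143222528061) (ZL.cons (nat_lit 1368) (nat_lit 6) (nat_lit 147041717140877962052) (ZL.cons (nat_lit 1444) (nat_lit 6) (nat_lit 146718327668589727936) (ZL.cons (nat_lit 1520) (nat_lit 6) (nat_lit 144108045892129867456) (ZL.cons (nat_lit 1596) (nat_lit 3) (nat_lit 71975147465019022969) (ZL.cons (nat_lit 1672) (nat_lit 6) (nat_lit 141675240000454855970) (ZL.cons (nat_lit 1748) (nat_lit 6) (nat_lit 141367250026847013954) (ZL.cons (nat_lit 1824) (nat_lit 6) (nat_lit 139414117598584514880) (ZL.cons (nat_lit 1900) (nat_lit 6) (nat_lit 138963042852104272392)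 (ZL.cons (nat_lit 1976) (nat_lit 3) (nat_lit 69406401920294125947) (ZL.cons (nat_lit 2052) (nat_lit 6) (nat_lit 136731949103012814718) (ZL.cons (nat_lit 2128) (nat_lit 6) (nat_lit 136438625318624393748) (ZL.cons (nat_lit 2204) (nat_lit 6) (nat_lit 134668656651598613652) (ZL.cons (nat_lit 2280) (nat_lit 6) (nat_lit 134239061654950763662) (ZL.cons (nat_lit 2356) (nat_lit 3) (nat_lit 67047988441039181595) (ZL.cons (nat_lit 2432) (nat_lit 6) (nat_lit 132768252896786873480) (ZL.cons (nat_lit 2508) (nat_lit 6) (nat_lit 132208875793225281564) (ZL.cons (nat_lit 2584) (nat_lit 6) (nat_lit 131929519808093452072) (ZL.cons (nat_lit 2660) (nat_lit 6) (nat_lit 130343233957586696308) (ZL.cons (nat_lit 2736) (nat_lit 6) (nat_lit 129934095865541124890) (ZL.cons (nat_lit 2812) (nat_lit 3) (nat_lit 64898912326640847935) (ZL.cons (nat_lit 2888) (nat_lit 6) (nat_lit 128637694143664439834) (ZL.cons (nat_lit 2964)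 (nat_lit 6) (nat_lit 128104954045034352296) (ZL.cons (nat_lit 3040) (nat_lit 6) (nat_lit 127838900725861181350) (ZL.cons (nat_lit 3116) (nat_lit 6) (nat_lit 127088195542377744862) (ZL.cons (nat_lit 3192) (nat_lit 6) (nat_lit 126437739247000499118) (ZL.cons (nat_lit 3268) (nat_lit 6) (nat_lit 126048083921242812052) (ZL.cons (nat_lit 3344) (nat_lit 3) (nat_lit 62959150907164535063) (ZL.cons (nat_lit 3420) (nat_lit 6) (nat_lit 125691048871342595454) (ZL.cons (nat_lit 3496) (nat_lit 6) (nat_lit 124928481912396627606) (ZL.cons (nat_lit 3572) (nat_lit 6) (nat_lit 124421110389891782334) (ZL.cons (nat_lit 3648) (nat_lit 6) (nat_lit 124167726276393524288) (ZL.cons (nat_lit 3724) (nat_lit 6) (nat_lit 123573588571378442832) (ZL.cons (nat_lit 3800) (nat_lit 6) (nat_lit 122954106385304875456) (ZL.cons (nat_lit 3876) (nat_lit 6) (nat_lit 122583006075059459204) (ZL.cons (nat_lit 3952) (nat_lit 3) (nat_lit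 61229702034237471542) (ZL.cons (nat_lit 4028) (nat_lit 6) (nat_lit 122369833287419711020) (ZL.cons (nat_lit 4104) (nat_lit 6) (nat_lit 121643579040804503544) (ZL.cons (nat_lit 4180) (nat_lit 6) (nat_lit 121160368066990365188) (ZL.cons (nat_lit 4256) (nat_lit 6) (nat_lit 120919049863658690862) (ZL.cons (nat_lit 4332) (nat_lit 6) (nat_lit 121314349976511006620) (ZL.cons (nat_lit 4408) (nat_lit 6) (nat_lit 120486408053189475242) (ZL.cons (nat_lit 4484) (nat_lit 6) (nat_lit 119896425018833696786) (ZL.cons (nat_lit 4560) (nat_lit 6) (nat_lit 119542996151933300356) (ZL.cons (nat_lit 4636) (nat_lit 3) (nat_lit 59712639977593071075) (ZL.cons (nat_lit 4712) (nat_lit 6) (nat_lit 120404625583150166048) (ZL.cons (nat_lit 4788) (nat_lit 6) (nat_lit 119479838253441659524) (ZL.cons (nat_lit 4864) (nat_lit 6) (nat_lit 118788167542379557166) (ZL.cons (nat_lit 4940) (nat_lit 6) (nat_lit 118327966614937520636)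 (ZL.cons (nat_lit 5016) (nat_lit 6) (nat_lit 118098139754621640326) (ZL.cons (nat_lit 5092) (nat_lit 6) (nat_lit 118621473046799752072) (ZL.cons (nat_lit 5168) (nat_lit 6) (nat_lit 117832956929350674568) (ZL.cons (nat_lit 5244) (nat_lit 6) (nat_lit 117271068325202314136) (ZL.cons (nat_lit 5320) (nat_lit 6) (nat_lit 116934469404344793726) (ZL.cons (nat_lit 5396) (nat_lit 3) (nat_lit 58411179370388035811) (ZL.cons (nat_lit 5472) (nat_lit 6) (nat_lit 116493286487343670884) (ZL.cons (nat_lit 5548) (nat_lit 6) (nat_lit 116634380242911250604) (ZL.cons (nat_lit 5624) (nat_lit 6) (nat_lit 116916903691559666186) (ZL.cons (nat_lit 5700) (nat_lit 6) (nat_lit 117341529508166651950) (ZL.cons (nat_lit 5776) (nat_lit 6) (nat_lit 117909268706581272150) (ZL.cons (nat_lit 5852) (nat_lit 6) (nat_lit 117028518868763646886) (ZL.cons (nat_lit 5928) (nat_lit 6) (nat_lit 116369784858228311308) (ZL.cons (nat_lit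 6004) (nat_lit 6) (nat_lit 115931498260664466996) (ZL.cons (nat_lit 6080) (nat_lit 6) (nat_lit 115712615536554104792) (ZL.cons (nat_lit 6156) (nat_lit 3) (nat_lit 57606606454472465742) (ZL.cons (nat_lit 6232) (nat_lit 6) (nat_lit 115285480442284423536) (ZL.cons (nat_lit 6308) (nat_lit 6) (nat_lit 115502455107858469910) (ZL.cons (nat_lit 6384) (nat_lit 6) (nat_lit 115864653512013675478) (ZL.cons (nat_lit 6460) (nat_lit 6) (nat_lit 116372938031902790728) (ZL.cons (nat_lit 6536) (nat_lit 6) (nat_lit 115621970300998907390) (ZL.cons (nat_lit 6612) (nat_lit 6) (nat_lit 115086838297048087932) (ZL.cons (nat_lit 6688) (nat_lit 6) (nat_lit 114766267896231401826) (ZL.cons (nat_lit 6764) (nat_lit 3) (nat_lit 57329747917844880863) (ZL.cons (nat_lit 6840) (nat_lit 6) (nat_lit 114135188970799426062) (ZL.cons (nat_lit 6916) (nat_lit 6) (nat_lit 114283337414145384768) (ZL.cons (nat_lit 6992) (nat_lit 6)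 (nat_lit 114579987035226221128) (ZL.cons (nat_lit 7068) (nat_lit 6) (nat_lit 115025844142663556182) (ZL.cons (nat_lit 7144) (nat_lit 6) (nat_lit 114398478418344188964) (ZL.cons (nat_lit 7220) (nat_lit 6) (nat_lit 113981062611140527712) (ZL.cons (nat_lit 7296) (nat_lit 6) (nat_lit 113772602873892563710) (ZL.cons (nat_lit 7372) (nat_lit 3) (nat_lit 56590383519619218380) (ZL.cons (nat_lit 7448) (nat_lit 6) (nat_lit 113256647949244903414) (ZL.cons (nat_lit 7524) (nat_lit 6) (nat_lit 113484471348097652106) (ZL.cons (nat_lit 7600) (nat_lit 6) (nat_lit 113864779672460617952) (ZL.cons (nat_lit 7676) (nat_lit 6) (nat_lit 113355130144888408940) (ZL.cons (nat_lit 7752) (nat_lit 6) (nat_lit 113049825001253469792) (ZL.cons (nat_lit 7828) (nat_lit 3) (nat_lit 56474068662273572945) (ZL.cons (nat_lit 7904) (nat_lit 6) (nat_lit 112419942214431072318) (ZL.cons (nat_lit 7980) (nat_lit 6) (nat_lit 112575498079944328958)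 (ZL.cons (nat_lit 8056) (nat_lit 6) (nat_lit 112886980182079207136) (ZL.cons (nat_lit 8132) (nat_lit 6) (nat_lit 112489441318075720228) (ZL.cons (nat_lit 8208) (nat_lit 6) (nat_lit 112290908234982421180) (ZL.cons (nat_lit 8284) (nat_lit 3) (nat_lit 55885614026596214990) (ZL.cons (nat_lit 8360) (nat_lit 6) (nat_lit 111850903008699219966) (ZL.cons (nat_lit 8436) (nat_lit 6) (nat_lit 112090117577494606092) (ZL.cons (nat_lit 8512) (nat_lit 6) (nat_lit 111799350774032759284) (ZL.cons (nat_lit 8588) (nat_lit 3) (nat_lit 55851252683822892069) (ZL.cons (nat_lit 8664) (nat_lit 6) (nat_lit 111308960908002217728) (ZL.cons (nat_lit 8740) (nat_lit 6) (nat_lit 111472294566791137200) (ZL.cons (nat_lit 8816) (nat_lit 6) (nat_lit 111283215440035614294) (ZL.cons (nat_lit 8892) (nat_lit 3) (nat_lit 55474190719759164689) (ZL.cons (nat_lit 8968) (nat_lit 6) (nat_lit 111032040142800458864) (ZL.cons (nat_lit 9044)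 (nat_lit 3) (nat_lit 55469903211215955552) (ZL.cons (nat_lit 9120) (nat_lit 6) (nat_lit 110768306080703545660) (ZL.cons (nat_lit 9196) (nat_lit 1) (nat_lit 18446744073709551617) ZL.nil)))))))))))))))))))))))))))))))))))))))))))))))))))))))))))))))))))))))))))))))))))))))))))))))))))))))))))))))))))))))))

noncomputable def vl : XL := ⟨(nat_lit 0), (nat_lit 76), (nat_lit 28061124), (nat_lit 152), (nat_lit 601433459), (nat_lit 76), (nat_lit 28061124), (nat_lit 1), (nat_lit 5), (nat_lit 2), (nat_lit 4), (nat_lit 1), (nat_lit 4), (nat_lit 0), (nat_lit 0), (nat_lit 0)⟩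

noncomputable def cp0 : Nat := (nat_lit 602537726988364278906258972324944815702601418553221382143051347679660561512308817760808304475018867451962815117548027978645451749660077791775561269361645348654633717421670891195565553335955980756936929086545470150297729207719583850931645276093195959671926868894169760473617378891086468846249072852593618363232069237736307931151061811890401006507530746015432558257491370864699861255349062661172597355103622608928698114724162093445697615779829192195070927408013667303896482152586761849162479609175882517506499389334521661277359294936427295348941054162246710569819453924558184063839808827329797400628238251416784784214399105016835904583566346007203423166813849154847874501552893208638854498348168572670664585558947916085084178074759925954655678451119311213449923613323913073827663162343298454768284671307018261974688481961960822042208104307470378339355408806651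070710062054984393021675089305456724462128844342606644967967439303446007565618005811544144203344876717505258655432729198963557342664909490866249295936799332517972418622178498560160566827874306532038584958141831918848863658494784678801876945958590114470625043170094413907557064766536857501747089068178382622513302481565782818620512819318696235876006495559915163515775479690700745585091107242874916055316305528006585274536201109527437410497747976466902922818383848966842286446947128655444309518263240488868137217973885834237462100813590030704482045418526080628205562148202275514097820052544043778987024382278554574141265091414405623014479162541389670438092959344884019839337568655914331864432306744917144806196162905058251218270100762557153780343393090408074438347005526581601593198083715702850943806185698007665464115329801590447576716711531854013815474891958904274604605886366021603161926521726304943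806035099161095049973330312198126470230284463566230513926619976625281510753147636032193700473741348392472070719109135738114684257397422571857461424630599633720786343035890384101685089483426021452396730352908860603197849897937815304135742645261970072776651448721459871004682775774666090962545131616596521440138863645041290894405585984568095510562907730992120211682155921333636460513249512748451433622444357871996188526764271869906295542424561436617998307014844535530354815114589787125812931999931523012744822257150272798369591910558401427050788063251108980222177359801991115757779637027120308949453129094365661505347469413619164717771916879631124381648593319871947872711867159640719179365112577513977799904307444228567588049813491923831514948739785335889053794393031460810969443432488200556496746694412219553285303313671032221615442195806759395111260090520490316322901929278229901555981811360688720038353819315881797374721368343857641831826103709683781709596827212346574944464240632765907806911312677709820895886711894213184716800)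

noncomputable def cp1 : Nat := (nat_lit 516237668484664600479653784762547112501958791665803142939556474398651660105094546466306481978714775567627724755919732325238159324565458018457259918871564416320161720450497830967999371425846111459351424728377974183814676295746768762068710979371035676576166687898180727592893141805031906095943599772106282187598621827775098286271388321779604968152532166758123014268365122861817374443106239755439387253773116412360479889634041382180005111864114958968624032541822188067839191943375652124488656831981419798923540781735849722523042463453864014556164940994862951167358481572571085781260498492641547767306716994942077669218108872696144387582066188351734989549033585110720797341607901826399819002883154089130052849539882065142434356700012066968658773539692969019290182453614523551617729042956063807130349834715215503630054584785576195305081471685226018338056364121676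455336523647419355262633850997952022338345437671067833414797471652994225931050582891967640600428786059328036073241400209843653336691743335332698002860162932359857078171019761359043314523547901352114912528056184028908970448886987910642041104817801807639831640070078894243013122931712529921989958895473398957326427950458387346801300664650337125287549030201147187978230199055986146378100280063469321956311994753431577346236088342850424182721781679988871114842739753370677033593198306597439004147344942666828630235557154925455588417386197709739388700247634946179677144529731845607884786028682987353708468572770626969187236151548386735775461705539806550972845994345635519630686144148321808895188133599367785286842593480926850411900431014449820254822142420943920749885466450171648533973749259573770410649383824452162940104041249366569396729869932540646803442714674935352230031163600214242385434861906068983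343272788782507475327525508121800243449975274095351669015460999305585385026680283158271993145008548502637492524277558385942306248644930630344729904591864026908666885380685842744309453976324206173581468773166522890182608154884609281550374635426415026156197780337594017662354563298488843608593385748658444054476369629936764551598391138959576107666342468731002699609299936365109308145585709659718801165995761315593294814221871476116036330049755374632140292312340356310550589919671353564511483108259611181261243780008301081709691477740304182262442617351974601622779005257979642406690332200872967961453240452826377326580133084872341848681147023432087473522759739124461667345884339105725962333046529244625732137696146445283574197243957472563810262386295672443237847090495895173314506484743026930594540085891025080856459907383301889328558726542610549641411627656141137538971212860988964914606758196368945266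364088505542914571737430295587517635135719130681476639790489185736430193063899806548838890874910009959136009354336240727505029451838680645407750007818541406308476133837196904264351343711580889560691410122784608544635608499143208117562988816241237235393567266268584346234794178885396262248835291981318413430074487726436499662691801795053268721548906700587088239278258756951811718636291239795681174495539964705464118557002270502208298889845211788852340438597013396740952821094058267460501665204226474049645733780714752071169843722651575576887424059917344830986181155686749163110148380236453539643372277184469038048189994434768680491155718165395292818859895548000761428236760756139419030494170546192159726039797405282356355635144515981952872198852606928907050644435218510142455020250377017443111630628805934721306339858896445211122797827464051964500512285648643985556120288390500363120949483454376160436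969512435845021150885005407718166270917658030836265720679694027421146980959394489830903588391963288654721677186193789113032675371335920764445499185661091040574860118317033000828535365050487769086973736028888773698488975706471918131470998894280104279523152041128906138213773546827070071315771646768350616110289596089074534000333861328807400264392912750387203862424006798174708596772971064322164018712835301295810860108331657422076974154989638254876186200812343188744501880280951102010619252368972328913043772871781055874431592543026817609032200239008736929253658566129621145292403586805432230794312142128785601227277837198141464246198793675981513352349252280712471303002311878491975968498417457089274801854856421979714118916313470522533111510128691479212597715457886045032172096271494471387738110024439145069134850908107364303916255621806161261363025487293996334547262874000300123736074578320011369303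510861964707203481648957027744347164267688688428533922256090831839409991853676839804188876193400395321077838882246443358528802047690980279153599451255021554161749425914610760234652423004626140396883015907579151903544180400254547157466623626062553456151347305802196419942427945550580707045197508442899446872231352541152518572660967860733464488124344793035072568463870165999403399145506008674165403576403853367897745832833094902115701483211743702869119160557806678289572183522952981005187973203381629119760800688015645249363142194682283076854353976554042345373761459765541982099949672261700999392191027496371297192692792797074626762052125890699154686462958358156553234148112460270820062974342842978656628102613112301265080119109923040005143175389242399004812466506926622471743846974426977426366345587459812416766522872048744845204346514316870737902142560787382586854068616844173106644485413117619647606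37410832005609841788146652099522039581689560214423797296707686502503548151694281828951186504061784653091164095671957823473932024938765925528881401542566284462416297339311180260097279062861502381978753938463289235080037996681102438317958931057274495110302018362024800943713821947683982590247570626884202856565577203493422929172936079596494686673265072456278977832341903426178868495109612062142630938266258728581333638269324682274111821620301870333591851138306879122632278961903218814397483981652898622250030682550832987330311818132207340303125575777145272266386143282645474030977782235605748991313846710526310300175172527658041721855904744467121739502300548709232848285002436757123744072517591186463925124532509423079688971099093816291621676967434225483057539534044483717270966156963240341372087140649560026333762863930386683894333305003008542609296274375288330892166211709666461367502179563798777014851471355398854370248652049221859785064406913703074328959301860007661775383063315168749282233909540818311821500575913789810360790525351159279294798148113487659864665218699307875666949757238949771902668059473492551616070839882191688079584293483138099696422364206313785617532835594240)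

noncomputable def rc0 : Nat := (nat_lit 516237668484664600479653784762547112501958791665803142939556474398651660105094546466306481978714775567627724755919732325238159324565458018457259918871564416320161720450497830967999371425846111459351424728377974183814676295746768762068710979371035676576166687898180727592893141805031906095943599772106282187598621827775098286271388321779604968152532166758123014268365122861817374443106239755439387253773116412360479889634041382180005111864114958968624032541822188067839191943375652124488656831981419798923540781735849722523042463453864014556164940994862951167358481572571085781260498492641547767306716994942077669218108872696144387582066188351734989549033585110720797341607901826399819002883154089130052849539882065142434356700012066968658773539692969019290182453614523551617729042956063807130349834715215503630054584785576195305081471685226018338056364121676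455336523647419355262633850997952022338345437671067833414797471652994225931050582891967640600428786059328036073241400209843653336691743335332698002860162932359857078171019761359043314523547901352114912528056184028908970448886987910642041104817801807639831640070078894243013122931712529921989958895473398957326427950458387346801300664650337125287549030201147187978230199055986146378100280063469321956311994753431577346236088342850424182721781679988871114842739753370677033593198306597439004147344942666828630235557154925455588417386197709739388700247634946179677144529731845607884786028682987353708468572770626969187236151548386735775461705539806550972845994345635519630686144148321808895188133599367785286842593480926850411900431014449820254822142420943920749885466450171648533973749259573770410649383824452162940104041249366569396729869932540646803442714674935352230031163600214242385434861906068983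343272788782507475327525508121800243449975274095351669015460999305585385026680283158271993145008548502637492524277558385942306248644930630344729904591864026908666885380685842744309453976324206173581468773166522890182608154884609281550374635426415026156197780337594017662354563298488843608593385748658444054476369629936764551598391138959576107666342468731002699609299936365109308145585709659718801165995761315593294814221871476116036330049755374632140292312340356310550589919671353564511483108259611181261243780008301081709691477740304182262442617351974601622779005257979642406690332200872967961453240452826377326580133084872341848681147023432087473522759739124461667345884339105725962333046529244625732137696146445283574197243957472563810262386295672443237847090495895173314506484743026930594540085891025080856459907383301889328558726542610549641411627656141137538971212860988964914606758196368945266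364088505542914571737430295587517635135719130681476639790489185736430193063899806548838890874910009959136009354336240727505029451838680645407750007818541406308476133837196904264351343711580889560691410122784608544635608499143208117562988816241237235393567266268584346234794178885396262248835291981318413430074487726436499662691801795053268721548906700587088239278258756951811718636291239795681174495539964705464118557002270502208298889845211788852340438597013396740952821094058267460501665204226474049645733780714752071169843722651575576887424059917344830986181155686749163110148380236453539643372277184469038048189994434768680491155718165395292818859895548000761428236760756139419030494170546192159726039797405282356355635144515981952872198852606928907050644435218510142455020250377017443111630628805934721306339858896445211122797827464051964500512285648643985556120288390500363120949483454376160436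969512435845021150885005407718166270917658030836265720679694027421146980959394489830903588391963288654721677186193789113032675371335920764445499185661091040574860118317033000828535365050487769086973736028888773698488975706471918131470998894280104279523152041128906138213773546827070071315771646768350616110289596089074534000333861328807400264392912750387203862424006798174708596772971064322164018712835301295810860108331657422076974154989638254876186200812343188744501880280951102010619252368972328913043772871781055874431592543026817609032200239008736929253658566129621145292403586805432230794312142128785601227277837198141464246198793675981513352349252280712471303002311878491975968498417457089274801854856421979714118916313470522533111510128691479212597715457886045032172096271494471387738110024439145069134850908107364303916255621806161261363025487293996334547262874000300123736074578320011369303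510861964707203481648957027744347164267688688428533922256090831839409991853676839804188876193400395321077838882246443358528802047690980279153599451255021554161749425914610760234652423004626140396883015907579151903544180400254547157466623626062553456151347305802196419942427945550580707045197508442899446872231352541152518572660967860733464488124344793035072568463870165999403399145506008674165403576403853367897745832833094902115701483211743702869119160557806678289572183522952981005187973203381629119760800688015645249363142194682283076854353976554042345373761459765541982099949672261700999392191027496371297192692792797074626762052125890699154686462958358156553234148112460270820062974342842978656628102613112301265080119109923040005143175389242399004812466506926622471743846974426977426366345587459812416766522872048744845204346514316870737902142560787382586854068616844173106644485413117619647606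37410832005609841788146652099522039581689560214423797296707686502503548151694281828951186504061784653091164095671957823473932024938765925528881401542566284462416297339311180260097279062861502381978753938463289235080037996681102438317958931057274495110302018362024800943713821947683982590247570626884202856565577203493422929172936079596494686673265072456278977832341903426178868495109612062142630938266258728581333638269324682274111821620301870333591851138306879122632278961903218814397483981652898622250030682550832987330311818132207340303125575777145272266386143282645474030977782235605748991313846710526310300175172527658041721855904744467121739502300548709232848285002436757123744072517591186463925124532509423079688971099093816291621676967434225483057539534044483717270966156963240341372087140649560026333762863930386683894333305003008542609296274375288330892166211709666461367502179563798777014851471355398854370248652049221859785064406913703074328959301860007661775383063315168749282233909540818311821500575913789810360790525351159279294798148113487659864665218699307875666949757238949771902668059473492551616070839882191688079584293483138099696422364206313785617532835594240)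

end Vale.Agent.Lib.P154.PChain.BS.S5
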